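import Crest.Agent.R097C5.N5mm_g4

/-!
# Row 97, box cover in dimension n = 5 (generated)
-/

set_option autoImplicit false
set_option Elab.async false
set_option maxHeartbeats 0
set_option maxRecDepth 100000

open Crest.Agent.R097 Crest.Agent.R097.KA


namespace Crest.Agent.R097C5.N5mm

theorem g01250 : Good (Phi V5.P V5.D (-1) (-1)) ⟨4, 14, 3, 5, 5, 16, 4, 10, 6, 28⟩ :=
  Good.n1 (Good.n0 (Good.n3 L08728 L08729) L08730) (Good.n0 (Good.n0 L08731 (Good.n1 (Good.n0 L08732 L08733) L08734)) L08735)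
theorem g01251 : Good (Phi V5.P V5.D (-1) (-1)) ⟨5, 28, 2, 2, 6, 32, 5, 20, 7, 58⟩ :=
  Good.n1 L08736 (Good.n1 (Good.n3 L08737 L08738) (Good.n0 L08739 (Good.n1 (Good.n0 L08740 L08741) L08742)))
theorem g01252 : Good (Phi V5.P V5.D (-1) (-1)) ⟨5, 28, 2, 2, 7, 64, 7, 80, 8, 118⟩ :=
  Good.n4 (Good.n3 L08743 (Good.n2 L08744 (Good.n2 (Good.n4 (Good.n3 L08745 L08746) L08747) L08748))) L08749
theorem g01253 : Good (Phi V5.P V5.D (-1) (-1)) ⟨5, 28, 2, 2, 9, 256, 9, 325, 11, 944⟩ :=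
  Good.n3 (Good.n2 L08752 L08753) (Good.n2 (Good.n4 (Good.n3 L08754 (Good.n2 L08755 L08756)) L08757) L08758)
theorem g01254 : Good (Phi V5.P V5.D (-1) (-1)) ⟨5, 28, 2, 2, 8, 128, 7, 81, 9, 236⟩ :=
  Good.n3 (Good.n4 (Good.n3 (Good.n2 L08750 L08751) (Good.n2 (Good.n4 g01253 L08759) L08760)) L08761) L08762
theorem g01255 : Good (Phi V5.P V5.D (-1) (-1)) ⟨5, 28, 2, 2, 6, 32, 5, 20, 7, 59⟩ :=
  Good.n3 (Good.n2 (Good.n4 (Good.n3 g01252 (Good.n2 (Good.n4 g01254 L08763) L08764)) L08765) L08766) L08767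
theorem g01256 : Good (Phi V5.P V5.D (-1) (-1)) ⟨4, 14, 2, 2, 5, 16, 4, 10, 5, 14⟩ :=
  Good.n4 (Good.n1 L08727 g01250) (Good.n3 (Good.n2 (Good.n0 (Good.n4 g01251 g01255) L08768) L08769) L08770)
theorem g01257 : Good (Phi V5.P V5.D (-1) (-1)) ⟨3, 7, 2, 2, 3, 4, 2, 2, 5, 14⟩ :=
  Good.n3 (Good.n2 g01247 g01249) (Good.n2 (Good.n3 (Good.n2 (Good.n0 g01256 L08771) L08772) L08773) L08774)
theorem g01258 : Good (Phi V5.P V5.D (-1) (-1)) ⟨3, 7, 2, 2, 3, 4, 2, 2, 4, 7⟩ :=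
  Good.n4 g01257 (Good.n2 (Good.n3 (Good.n3 L08775 (Good.n4 (Good.n2 L08776 L08777) L08778)) L08779) L08780)
theorem g01259 : Good (Phi V5.P V5.D (-1) (-1)) ⟨2, 3, 2, 2, 2, 2, 1, 1, 3, 3⟩ :=
  Good.n0 (Good.n3 g01229 (Good.n2 (Good.n4 L08581 L08582) L08583)) (Good.n4 g01238 (Good.n3 (Good.n2 g01258 L08781) L08782))
theorem g01260 : Good (Phi V5.P V5.D (-1) (-1)) ⟨1, 1, 1, 1, 2, 2, 1, 1, 3, 3⟩ :=
  Good.n1 (Good.n0 L08530 g01259) (Good.n0 L08783 (Good.n0 L08784 (Good.n0 (Good.n1 (Good.n0 L08785 L08786) L08787) L08788)))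
theorem g01261 : Good (Phi V5.P V5.D (-1) (-1)) ⟨1, 1, 1, 1, 1, 1, 1, 1, 1, 0⟩ :=
  Good.n4 (Good.n2 (Good.n3 g00846 g00878) (Good.n3 g00997 g01188)) (Good.n4 g01222 (Good.n2 g01260 L08789))
theorem g01262 : Good (Phi V5.P V5.D (-1) (-1)) ⟨1, 1, 1, 1, 2, 2, 1, 1, 2, 2⟩ :=
  Good.n2 (Good.n4 (Good.n3 (Good.n2 (Good.n4 (Good.n3 L08790 L08791) L08792) L08793) L08794) L08795) L08796
theorem g01263 : Good (Phi V5.P V5.D (-1) (-1)) ⟨1, 1, 1, 1, 1, 1, 0, 0, 0, 0⟩ :=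
  Good.n3 (Good.n4 g00827 (Good.n2 (Good.n4 (Good.n4 (Good.n2 L05804 L05805) L05806) L05807) L05808)) (Good.n4 g01261 (Good.n2 (Good.n4 g01262 L08797) L08798))
theorem all : Good (Phi V5.P V5.D (-1) (-1)) ⟨0, 0, 0, 0, 0, 0, 0, 0, 0, 0⟩ :=
  Good.n0 (Good.n1 (Good.n0 (Good.n1 g00021 g00051) g00098) (Good.n4 g00136 L00961)) (Good.n1 g00470 (Good.n2 g00628 g01263))

end Crest.Agent.R097C5.N5mm
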