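import Crest.Agent.R097.KP7
import Crest.Agent.R097.T5Ymp

/-!
# Row 97, box cover in dimension n = 5 (generated)
-/

set_option autoImplicit false
set_option Elab.async false
set_option maxHeartbeats 0
set_option maxRecDepth 100000

open Crest.Agent.R097 Crest.Agent.R097.KA


namespace Crest.Agent.R097C5.N5mp

theorem L01850 : Good (Phi V5.P V5.D (-1) 1) ⟨4, 8, 3, 1, 3, 7, 4, 15, 5, 0⟩ :=
  leafX_sound T5.ok_mp T5.Ymp.bz_eq (w := 236) (c := ⟨⟨.negSucc 767, .negSucc 76, .negSucc 48, .negSucc 140, .negSucc 69, .negSucc 160⟩, ⟨.negSucc 118, .ofNat 17, .negSucc 132, .negSucc 39, .negSucc 0, .negSucc 14⟩, ⟨.ofNat 412, .ofNat 33, .negSucc 84, .negSucc 7, .negSucc 37, .negSucc 15⟩, ⟨.negSucc 1628, .negSucc 85, .ofNat 51, .negSucc 270, .negSucc 160, .negSucc 351⟩, ⟨.negSucc 1214, .negSucc 31, .negSucc 233, .negSucc 373, .ofNat 76, .ofNat 23⟩, .ofNat 502, .negSucc 149, .ofNat 0,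 .negSucc 149, .ofNat 1945, .ofNat 0, .ofNat 193, .ofNat 128, .negSucc 494, .ofNat 0, .ofNat 110, .ofNat 20, .ofNat 0, .ofNat 0, .ofNat 602, .ofNat 2543, .ofNat 0, .ofNat 0, .ofNat 0, .ofNat 0, .ofNat 0, .ofNat 11392712339223245037566912014966899526063882240, .ofNat 0, .ofNat 0, .ofNat 0, .ofNat 0, .ofNat 0, .ofNat 0, .ofNat 0, .ofNat 0, .ofNat 0, .ofNat 0⟩)
    (by decide +kernel)
theorem L01851 : Good (Phi V5.P V5.D (-1) 1) ⟨4, 9, 3, 1, 3, 7, 4, 15, 5, 0⟩ :=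
  leafX_sound T5.ok_mp T5.Ymp.bz_eq (w := 235) (c := ⟨⟨.negSucc 901, .negSucc 66, .negSucc 76, .negSucc 43, .negSucc 39, .negSucc 178⟩, ⟨.negSucc 105, .ofNat 4, .negSucc 141, .negSucc 39, .ofNat 4, .negSucc 4⟩, ⟨.ofNat 501, .ofNat 0, .negSucc 57, .negSucc 83, .negSucc 67, .negSucc 6⟩, ⟨.negSucc 1832, .negSucc 66, .negSucc 21, .negSucc 77, .negSucc 92, .negSucc 361⟩, ⟨.negSucc 1371, .negSucc 24, .negSucc 142, .negSucc 360, .ofNat 121, .ofNat 61⟩, .ofNat 511, .negSucc 96, .ofNat 0, .negSucc 96, .ofNat 2538, .ofNat 0, .ofNat 276, .ofNat 121, .negSucc 1129, .ofNat 0, .ofNat 128, .ofNat 77, .ofNat 0, .ofNat 0, .ofNat 1237, .ofNat 1020, .ofNat 0, .ofNat 0, .ofNat 0, .ofNat 0, .ofNat 0, .ofNat 0, .ofNat 0, .ofNat 0, .ofNat 0, .ofNat 0, .ofNat 79170512324038142232302441004492088779210752, .ofNat 0, .ofNat 0, .ofNat 36889137363864156953159098809232528580833968128, .ofNat 979229557556693353401594963459237103580217344,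 .ofNat 0⟩)
    (by decide +kernel)
theorem L01852 : Good (Phi V5.P V5.D (-1) 1) ⟨4, 10, 3, 1, 4, 14, 4, 15, 5, 0⟩ :=
  leafX_sound T5.ok_mp T5.Ymp.bz_eq (w := 250) (c := ⟨⟨.negSucc 874, .negSucc 113, .negSucc 81, .ofNat 97, .negSucc 159, .negSucc 487⟩, ⟨.negSucc 120, .ofNat 6, .negSucc 139, .negSucc 32, .ofNat 23, .ofNat 39⟩, ⟨.ofNat 409, .ofNat 56, .negSucc 30, .negSucc 135, .ofNat 44, .ofNat 266⟩, ⟨.negSucc 1737, .negSucc 113, .negSucc 44, .ofNat 173, .negSucc 307, .negSucc 917⟩, ⟨.negSucc 1446, .negSucc 183, .negSucc 87, .negSucc 252, .ofNat 225, .ofNat 247⟩, .ofNat 476, .ofNat 33, .ofNat 0, .ofNat 33, .ofNat 1867, .ofNat 0, .ofNat 278, .ofNat 82, .negSucc 1575, .ofNat 0, .ofNat 128, .ofNat 217, .ofNat 0, .ofNat 0, .ofNat 1605, .ofNat 1459, .ofNat 0, .ofNat 0, .ofNat 3228700630239399485232196237987818436563042304, .ofNat 0, .ofNat 0, .ofNat 0, .ofNat 2253264889581598949541949478642400657472340623360,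 .ofNat 0, .ofNat 0, .ofNat 0, .ofNat 6158359455894924505452925622470566286624001359872, .ofNat 0, .ofNat 0, .ofNat 405018217707433965190402594161880798152937625878528, .ofNat 52762102420751220356992134883334219365138756009984, .ofNat 0⟩)
    (by decide +kernel)
theorem L01853 : Good (Phi V5.P V5.D (-1) 1) ⟨4, 10, 3, 1, 4, 15, 4, 15, 5, 0⟩ :=
  leafX_sound T5.ok_mp T5.Ymp.bz_eq (w := 250) (c := ⟨⟨.negSucc 1133, .ofNat 4, .negSucc 43, .ofNat 16, .ofNat 76, .negSucc 86⟩, ⟨.negSucc 100, .negSucc 26, .negSucc 162, .negSucc 31, .negSucc 10, .negSucc 5⟩, ⟨.ofNat 606, .negSucc 73, .negSucc 104, .negSucc 91, .negSucc 178, .negSucc 77⟩, ⟨.negSucc 2221, .ofNat 61, .ofNat 45, .ofNat 22, .ofNat 141, .negSucc 165⟩, ⟨.negSucc 1379, .negSucc 180, .negSucc 222, .negSucc 268, .negSucc 60, .negSucc 65⟩, .ofNat 484, .ofNat 65, .ofNat 0, .ofNat 65, .ofNat 2142, .ofNat 0, .ofNat 326, .ofNat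 79, .negSucc 1148, .ofNat 0, .ofNat 128, .ofNat 161, .ofNat 0, .ofNat 0, .ofNat 1191, .ofNat 1908, .ofNat 0, .ofNat 0, .ofNat 19688473040562433535104837768090893449919725568, .ofNat 0, .ofNat 0, .ofNat 0, .ofNat 0, .ofNat 0, .ofNat 0, .ofNat 0, .ofNat 6401682754354349930406321576341018898611191152640, .ofNat 0, .ofNat 0, .ofNat 0, .ofNat 28126195748981848010523270431772120414618493386752, .ofNat 0⟩)
    (by decide +kernel)
theorem L01854 : Good (Phi V5.P V5.D (-1) 1) ⟨4, 11, 3, 1, 3, 7, 4, 15, 5, 0⟩ :=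
  out_sound (S := T5.ds_mp) T5.ok_mp (w := 51) (j := 3) (by decide +kernel)
theorem L01855 : Good (Phi V5.P V5.D (-1) 1) ⟨3, 4, 3, 1, 3, 6, 5, 30, 5, 1⟩ :=
  leafX_sound T5.ok_mp T5.Ymp.bz_eq (w := 236) (c := ⟨⟨.negSucc 889, .negSucc 558, .negSucc 160, .ofNat 47, .ofNat 5, .negSucc 267⟩, ⟨.negSucc 130, .ofNat 66, .negSucc 141, .negSucc 17, .ofNat 12, .ofNat 12⟩, ⟨.ofNat 349, .ofNat 419, .ofNat 65, .negSucc 81, .negSucc 19, .ofNat 130⟩, ⟨.negSucc 1938, .negSucc 874, .negSucc 243, .ofNat 110, .ofNat 0, .negSucc 575⟩, ⟨.negSucc 1131, .ofNat 76, .ofNat 12, .negSucc 215, .ofNat 135, .ofNat 333⟩, .ofNat 479, .negSucc 91, .ofNat 0, .negSucc 91, .ofNat 1791, .ofNat 0, .ofNat 323, .ofNat 106, .negSucc 1376, .ofNat 0, .ofNat 128, .ofNat 47, .ofNat 0, .ofNat 0, .ofNat 1608, .ofNat 1460, .ofNat 0, .ofNat 0, .ofNat 0, .ofNat 0, .ofNat 0, .ofNat 0, .ofNat 0, .ofNat 0, .ofNat 0, .ofNat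 0, .ofNat 0, .ofNat 0, .ofNat 0, .ofNat 0, .ofNat 100736706089882122775300267083838307110091751424, .ofNat 0⟩)
    (by decide +kernel)
theorem L01856 : Good (Phi V5.P V5.D (-1) 1) ⟨3, 4, 3, 1, 3, 6, 5, 31, 5, 1⟩ :=
  leafX_sound T5.ok_mp T5.Ymp.bz_eq (w := 236) (c := ⟨⟨.negSucc 935, .negSucc 628, .negSucc 158, .ofNat 56, .ofNat 62, .negSucc 208⟩, ⟨.negSucc 127, .ofNat 81, .negSucc 139, .negSucc 18, .ofNat 15, .ofNat 25⟩, ⟨.ofNat 372, .ofNat 482, .ofNat 77, .negSucc 98, .negSucc 80, .ofNat 100⟩, ⟨.negSucc 2024, .negSucc 998, .negSucc 258, .ofNat 111, .ofNat 115, .negSucc 451⟩, ⟨.negSucc 1061, .ofNat 165, .ofNat 45, .negSucc 170, .ofNat 128, .ofNat 405⟩, .ofNat 480, .negSucc 98, .ofNat 0, .negSucc 98, .ofNat 1794, .ofNat 0, .ofNat 362, .ofNat 111, .negSucc 1604, .ofNat 0, .ofNat 128, .ofNat 54, .ofNat 0, .ofNat 0, .ofNat 1874, .ofNat 1030, .ofNat 0, .ofNat 0, .ofNat 0, .ofNat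 0, .ofNat 0, .ofNat 0, .ofNat 0, .ofNat 0, .ofNat 0, .ofNat 14765980715029623560184588198981214786155446272, .ofNat 0, .ofNat 0, .ofNat 0, .ofNat 260416020056333669177347278704848565910103916544, .ofNat 117474385090359084357903489509575080523753062400, .ofNat 0⟩)
    (by decide +kernel)
theorem L01857 : Good (Phi V5.P V5.D (-1) 1) ⟨4, 8, 3, 1, 3, 7, 4, 15, 5, 1⟩ :=
  leafX_sound T5.ok_mp T5.Ymp.bz_eq (w := 236) (c := ⟨⟨.negSucc 1111, .negSucc 32, .negSucc 31, .ofNat 64, .ofNat 44, .negSucc 41⟩, ⟨.negSucc 146, .ofNat 20, .negSucc 136, .negSucc 31, .ofNat 23, .ofNat 19⟩, ⟨.ofNat 497, .negSucc 7, .negSucc 74, .negSucc 124, .negSucc 77, .negSucc 18⟩, ⟨.negSucc 2376, .ofNat 54, .ofNat 58, .ofNat 180, .ofNat 68, .negSucc 121⟩, ⟨.negSucc 1154, .negSucc 173, .negSucc 135, .negSucc 472, .ofNat 222, .ofNat 242⟩, .ofNat 572, .negSucc 291, .ofNat 0, .negSucc 291, .ofNat 3212, .ofNat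 0, .ofNat 428, .ofNat 128, .negSucc 637, .ofNat 0, .ofNat 105, .ofNat 2, .ofNat 0, .ofNat 0, .ofNat 779, .ofNat 2301, .ofNat 0, .ofNat 0, .ofNat 0, .ofNat 0, .ofNat 0, .ofNat 0, .ofNat 0, .ofNat 0, .ofNat 0, .ofNat 105759434387570929841782055411436366002449809408, .ofNat 0, .ofNat 0, .ofNat 0, .ofNat 0, .ofNat 0, .ofNat 0⟩)
    (by decide +kernel)
theorem L01858 : Good (Phi V5.P V5.D (-1) 1) ⟨4, 9, 3, 1, 3, 7, 4, 15, 5, 1⟩ :=
  leafX_sound T5.ok_mp T5.Ymp.bz_eq (w := 236) (c := ⟨⟨.negSucc 1252, .negSucc 85, .negSucc 94, .ofNat 194, .ofNat 128, .negSucc 34⟩, ⟨.negSucc 117, .ofNat 11, .negSucc 145, .negSucc 44, .ofNat 27, .ofNat 29⟩, ⟨.ofNat 596, .ofNat 10, .negSucc 22, .negSucc 234, .negSucc 148, .negSucc 33⟩, ⟨.negSucc 2551, .negSucc 79, .negSucc 69, .ofNat 420, .ofNat 248, .negSucc 97⟩, ⟨.negSucc 1218, .negSucc 64, .negSucc 116, .negSucc 579, .ofNat 161, .ofNat 309⟩, .ofNat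 485, .negSucc 72, .ofNat 0, .negSucc 72, .ofNat 2001, .ofNat 0, .ofNat 390, .ofNat 109, .negSucc 1712, .ofNat 0, .ofNat 128, .ofNat 113, .ofNat 0, .ofNat 0, .ofNat 1861, .ofNat 1324, .ofNat 0, .ofNat 0, .ofNat 0, .ofNat 0, .ofNat 0, .ofNat 0, .ofNat 0, .ofNat 0, .ofNat 0, .ofNat 0, .ofNat 90452214462291033142528712134168865530707968, .ofNat 0, .ofNat 0, .ofNat 779103945436585942125829240114746524060904062976, .ofNat 2119579985448952880611267663321644704307609600, .ofNat 0⟩)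
    (by decide +kernel)
theorem L01859 : Good (Phi V5.P V5.D (-1) 1) ⟨5, 20, 4, 2, 3, 6, 4, 15, 5, 1⟩ :=
  leafX_sound T5.ok_mp T5.Ymp.bz_eq (w := 244) (c := ⟨⟨.negSucc 1473, .negSucc 464, .negSucc 290, .ofNat 379, .negSucc 9, .negSucc 470⟩, ⟨.negSucc 72, .ofNat 71, .negSucc 54, .negSucc 57, .ofNat 43, .ofNat 70⟩, ⟨.ofNat 799, .ofNat 416, .ofNat 255, .negSucc 423, .negSucc 14, .ofNat 318⟩, ⟨.negSucc 2882, .negSucc 766, .negSucc 522, .ofNat 701, .negSucc 3, .negSucc 869⟩, ⟨.negSucc 1098, .ofNat 184, .ofNat 253, .negSucc 401, .ofNat 310, .ofNat 461⟩, .ofNat 485, .ofNat 56, .ofNat 0, .ofNat 56, .ofNat 2176, .ofNat 0, .ofNat 211, .ofNat 53, .negSucc 1383, .ofNat 0, .ofNat 128, .ofNat 142, .ofNat 0, .ofNat 0, .ofNat 1464, .ofNat 1609, .ofNat 0, .ofNat 0, .ofNat 0, .ofNat 0, .ofNat 0, .ofNat 6438814451664904480627557996777460824183576461312, .ofNat 0, .ofNat 0, .ofNat 0, .ofNat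 0, .ofNat 0, .ofNat 0, .ofNat 0, .ofNat 49924111225245809980319000952105723663851626430464, .ofNat 1065517529263200141930846240819109803195367424, .ofNat 0⟩)
    (by decide +kernel)
theorem L01860 : Good (Phi V5.P V5.D (-1) 1) ⟨5, 20, 4, 3, 3, 6, 4, 15, 5, 1⟩ :=
  leafX_sound T5.ok_mp T5.Ymp.bz_eq (w := 244) (c := ⟨⟨.negSucc 1570, .negSucc 781, .negSucc 505, .ofNat 244, .negSucc 147, .negSucc 528⟩, ⟨.negSucc 142, .ofNat 83, .negSucc 45, .negSucc 33, .ofNat 55, .ofNat 64⟩, ⟨.ofNat 848, .ofNat 744, .ofNat 483, .negSucc 303, .ofNat 136, .ofNat 391⟩, ⟨.negSucc 3023, .negSucc 1348, .negSucc 943, .ofNat 467, .negSucc 289, .negSucc 1014⟩, ⟨.negSucc 1057, .ofNat 284, .ofNat 412, .negSucc 296, .ofNat 471, .ofNat 574⟩, .ofNat 489, .negSucc 23, .ofNat 0, .negSucc 23, .ofNat 2096, .ofNat 0, .ofNat 359, .ofNat 78, .negSucc 2007, .ofNat 0, .ofNat 128, .ofNat 162, .ofNat 0, .ofNat 0,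 .ofNat 2156, .ofNat 1671, .ofNat 0, .ofNat 0, .ofNat 5065480199235464807182461917099373885390848, .ofNat 0, .ofNat 0, .ofNat 18330093040708697130463081395632171100940969967616, .ofNat 224677981190561742619012863178463284052361216, .ofNat 0, .ofNat 0, .ofNat 2260525058285008756632422126714961606010711572480, .ofNat 537867593740324743352554243390578212512727040, .ofNat 0, .ofNat 0, .ofNat 113245668195070016041864829342457863577173518974976, .ofNat 3116289956460254714405300769761163325560848384, .ofNat 0⟩)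
    (by decide +kernel)
theorem L01861 : Good (Phi V5.P V5.D (-1) 1) ⟨5, 21, 3, 1, 3, 6, 4, 15, 5, 1⟩ :=
  leafX_sound T5.ok_mp T5.Ymp.bz_eq (w := 242) (c := ⟨⟨.negSucc 1999, .negSucc 727, .negSucc 760, .ofNat 674, .ofNat 37, .negSucc 465⟩, ⟨.ofNat 4, .ofNat 105, .negSucc 64, .negSucc 104, .ofNat 39, .ofNat 89⟩, ⟨.ofNat 1291, .ofNat 640, .ofNat 656, .negSucc 702, .negSucc 69, .ofNat 298⟩, ⟨.negSucc 3768, .negSucc 1187, .negSucc 1292, .ofNat 1214, .ofNat 81, .negSucc 831⟩, ⟨.negSucc 919, .ofNat 145, .ofNat 740, .negSucc 511, .ofNat 356, .ofNat 504⟩, .ofNat 471, .ofNat 105, .ofNat 0, .ofNat 105, .ofNat 1891, .ofNat 0, .ofNat 533, .ofNat 37, .negSucc 3521, .ofNat 0, .ofNat 128, .ofNat 466, .ofNat 0, .ofNat 0, .ofNat 3618, .ofNat 2572, .ofNat 0, .ofNat 0, .ofNat 7913192519894354549877919084605847143186432, .ofNat 0, .ofNat 0, .ofNat 1145000526821475467046760759564497492675127148544,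 .ofNat 171252779079342402085319003698199858086150144, .ofNat 0, .ofNat 0, .ofNat 0, .ofNat 331469599773974481996735286254505988083154944, .ofNat 0, .ofNat 0, .ofNat 0, .ofNat 4875607901411802243171485969131558590776082432, .ofNat 0⟩)
    (by decide +kernel)
theorem L01862 : Good (Phi V5.P V5.D (-1) 1) ⟨4, 10, 3, 1, 4, 14, 4, 15, 5, 1⟩ :=
  leafX_sound T5.ok_mp T5.Ymp.bz_eq (w := 251) (c := ⟨⟨.negSucc 1530, .negSucc 267, .negSucc 307, .ofNat 352, .ofNat 218, .negSucc 1⟩, ⟨.negSucc 82, .ofNat 40, .negSucc 127, .negSucc 53, .ofNat 15, .ofNat 31⟩, ⟨.ofNat 798, .ofNat 175, .ofNat 181, .negSucc 339, .negSucc 239, .negSucc 88⟩, ⟨.negSucc 2978, .negSucc 374, .negSucc 503, .ofNat 651, .ofNat 414, .ofNat 10⟩, ⟨.negSucc 1216, .negSucc 42, .ofNat 175, .negSucc 388, .ofNat 159, .ofNat 214⟩, .ofNat 476, .ofNat 33, .ofNat 0, .ofNat 33, .ofNat 1867, .ofNat 0, .ofNat 294, .ofNat 69, .negSucc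 1763, .ofNat 0, .ofNat 128, .ofNat 227, .ofNat 0, .ofNat 0, .ofNat 1757, .ofNat 1522, .ofNat 0, .ofNat 0, .ofNat 44184727755855531396948433032560226143997788160, .ofNat 0, .ofNat 0, .ofNat 221917867747062935314433425902181707876645730254848, .ofNat 2367274500320052368141019252025588728805732646912, .ofNat 0, .ofNat 0, .ofNat 0, .ofNat 5567564912708309421032017783580028719049992044544, .ofNat 0, .ofNat 0, .ofNat 0, .ofNat 70347319306174698428320492578605942449769059188736, .ofNat 0⟩)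
    (by decide +kernel)
theorem L01863 : Good (Phi V5.P V5.D (-1) 1) ⟨4, 10, 3, 1, 4, 15, 4, 15, 5, 1⟩ :=
  leafX_sound T5.ok_mp T5.Ymp.bz_eq (w := 251) (c := ⟨⟨.negSucc 1473, .ofNat 160, .ofNat 61, .ofNat 185, .ofNat 259, .ofNat 212⟩, ⟨.negSucc 97, .negSucc 35, .negSucc 170, .negSucc 42, .ofNat 4, .ofNat 16⟩, ⟨.ofNat 686, .negSucc 188, .negSucc 170, .negSucc 182, .negSucc 270, .negSucc 212⟩, ⟨.negSucc 2854, .ofNat 349, .ofNat 217, .ofNat 335, .ofNat 487, .ofNat 404⟩, ⟨.negSucc 1438, .negSucc 232, .negSucc 259, .negSucc 302, .ofNat 113, .ofNat 186⟩, .ofNat 474, .ofNat 60, .ofNat 0, .ofNat 60, .ofNat 1951, .ofNat 0, .ofNat 418, .ofNat 63, .negSucc 1130, .ofNat 0, .ofNat 128, .ofNat 147, .ofNat 0, .ofNat 0, .ofNat 1158, .ofNat 2064, .ofNat 0, .ofNat 0, .ofNat 0, .ofNat 0, .ofNat 0, .ofNat 0, .ofNat 3865689661350810985852320400776458850593908195328, .ofNat 0, .ofNat 0, .ofNat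 452751488562159492081851305765701632489571712237568, .ofNat 6428160368924107571775229286388581878361650888704, .ofNat 0, .ofNat 0, .ofNat 0, .ofNat 23734615284780673207728319717533966043014410272768, .ofNat 0⟩)
    (by decide +kernel)
theorem L01864 : Good (Phi V5.P V5.D (-1) 1) ⟨4, 11, 3, 1, 2, 3, 4, 15, 5, 1⟩ :=
  out_sound (S := T5.ds_mp) T5.ok_mp (w := 51) (j := 3) (by decide +kernel)
theorem L01865 : Good (Phi V5.P V5.D (-1) 1) ⟨2, 3, 3, 1, 1, 1, 2, 3, 4, 0⟩ :=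
  out_sound (S := T5.ds_mp) T5.ok_mp (w := 39) (j := 3) (by decide +kernel)
theorem L01866 : Good (Phi V5.P V5.D (-1) 1) ⟨3, 4, 3, 1, 2, 2, 3, 6, 5, 2⟩ :=
  leafX_sound T5.ok_mp T5.Ymp.bz_eq (w := 214) (c := ⟨⟨.negSucc 1114, .negSucc 638, .negSucc 114, .negSucc 143, .ofNat 68, .negSucc 350⟩, ⟨.negSucc 130, .ofNat 116, .negSucc 169, .negSucc 40, .ofNat 18, .ofNat 8⟩, ⟨.ofNat 574, .ofNat 528, .ofNat 79, .negSucc 71, .negSucc 51, .ofNat 258⟩, ⟨.negSucc 2466, .negSucc 902, .negSucc 197, .negSucc 244, .ofNat 114, .negSucc 736⟩, ⟨.negSucc 905, .ofNat 79, .ofNat 82, .negSucc 397, .ofNat 265, .ofNat 273⟩, .ofNat 444, .negSucc 78, .ofNat 0, .negSucc 78, .ofNat 1355, .ofNat 0, .ofNat 502, .ofNat 65, .negSucc 767, .ofNat 0, .ofNat 128, .ofNat 8, .ofNat 0, .ofNat 0, .ofNat 1164, .ofNat 1467, .ofNat 0, .ofNat 0, .ofNat 0, .ofNat 0, .ofNat 0, .ofNat 0, .ofNat 0, .ofNat 0, .ofNat 0, .ofNat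 0, .ofNat 0, .ofNat 0, .ofNat 0, .ofNat 0, .ofNat 0, .ofNat 0⟩)
    (by decide +kernel)
theorem L01867 : Good (Phi V5.P V5.D (-1) 1) ⟨3, 4, 3, 1, 2, 2, 3, 6, 5, 3⟩ :=
  leafX_sound T5.ok_mp T5.Ymp.bz_eq (w := 215) (c := ⟨⟨.negSucc 1463, .negSucc 683, .negSucc 142, .negSucc 131, .ofNat 163, .negSucc 85⟩, ⟨.negSucc 143, .ofNat 137, .negSucc 178, .negSucc 35, .ofNat 35, .ofNat 7⟩, ⟨.ofNat 842, .ofNat 575, .ofNat 121, .negSucc 111, .negSucc 151, .ofNat 46⟩, ⟨.negSucc 3203, .negSucc 944, .negSucc 250, .negSucc 253, .ofNat 308, .negSucc 208⟩, ⟨.negSucc 722, .ofNat 159, .ofNat 52, .negSucc 319, .ofNat 283, .ofNat 190⟩, .ofNat 441, .negSucc 65, .ofNat 0, .negSucc 65, .ofNat 1361, .ofNat 0, .ofNat 405, .ofNat 55, .negSucc 475, .ofNat 0, .ofNat 128, .ofNat 13, .ofNat 0, .ofNat 0, .ofNat 765, .ofNat 2049, .ofNat 0, .ofNat 0, .ofNat 0, .ofNat 0, .ofNat 0, .ofNat 0, .ofNat 0, .ofNat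 0, .ofNat 0, .ofNat 0, .ofNat 0, .ofNat 0, .ofNat 0, .ofNat 0, .ofNat 8248978785980895840829269279228987179008, .ofNat 0⟩)
    (by decide +kernel)
theorem L01868 : Good (Phi V5.P V5.D (-1) 1) ⟨4, 10, 3, 1, 2, 2, 3, 6, 4, 1⟩ :=
  leafX_sound T5.ok_mp T5.Ymp.bz_eq (w := 213) (c := ⟨⟨.negSucc 1851, .negSucc 497, .negSucc 201, .negSucc 284, .ofNat 92, .negSucc 371⟩, ⟨.negSucc 36, .ofNat 134, .negSucc 179, .negSucc 28, .ofNat 34, .ofNat 68⟩, ⟨.ofNat 1196, .ofNat 454, .ofNat 185, .ofNat 20, .negSucc 90, .ofNat 249⟩, ⟨.negSucc 3600, .negSucc 657, .negSucc 350, .negSucc 546, .ofNat 180, .negSucc 684⟩, ⟨.negSucc 839, .ofNat 88, .ofNat 133, .negSucc 308, .ofNat 311, .ofNat 460⟩, .ofNat 458, .ofNat 50, .ofNat 0, .ofNat 50, .ofNat 1719, .ofNat 0, .ofNat 631, .negSucc 1, .negSucc 857, .ofNat 0, .ofNat 128, .ofNat 82, .ofNat 0, .ofNat 0, .ofNat 1187, .ofNat 1317, .ofNat 0, .ofNat 0,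 .ofNat 1122666777022010523921877517792706560, .ofNat 0, .ofNat 0, .ofNat 0, .ofNat 0, .ofNat 0, .ofNat 0, .ofNat 0, .ofNat 78258673118804660724550256786669568000, .ofNat 0, .ofNat 0, .ofNat 0, .ofNat 176583037260037585941811323732420984832, .ofNat 0⟩)
    (by decide +kernel)
theorem L01869 : Good (Phi V5.P V5.D (-1) 1) ⟨4, 11, 3, 1, 2, 2, 3, 6, 4, 1⟩ :=
  out_sound (S := T5.ds_mp) T5.ok_mp (w := 51) (j := 3) (by decide +kernel)
theorem L01870 : Good (Phi V5.P V5.D (-1) 1) ⟨3, 4, 3, 1, 2, 3, 4, 12, 5, 2⟩ :=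
  leafX_sound T5.ok_mp T5.Ymp.bz_eq (w := 219) (c := ⟨⟨.negSucc 1189, .negSucc 475, .negSucc 201, .ofNat 452, .negSucc 70, .negSucc 305⟩, ⟨.negSucc 152, .ofNat 69, .negSucc 159, .negSucc 37, .ofNat 11, .negSucc 2⟩, ⟨.ofNat 554, .ofNat 343, .ofNat 108, .negSucc 445, .ofNat 50, .ofNat 154⟩, ⟨.negSucc 2543, .negSucc 680, .negSucc 281, .ofNat 910, .negSucc 147, .negSucc 665⟩, ⟨.negSucc 1357, .negSucc 3, .ofNat 13, .negSucc 539, .ofNat 145, .ofNat 269⟩, .ofNat 480, .negSucc 100, .ofNat 0, .negSucc 100, .ofNat 1782, .ofNat 0, .ofNat 430, .ofNat 90, .negSucc 788, .ofNat 0, .ofNat 128, .ofNat 25, .ofNat 0, .ofNat 0, .ofNat 973, .ofNat 2077, .ofNat 0, .ofNat 0, .ofNat 0, .ofNat 0, .ofNat 0, .ofNat 0, .ofNat 6644479203826961934615733486654786109440, .ofNat 0, .ofNat 0, .ofNat 0, .ofNat 0, .ofNat 0, .ofNat 0, .ofNat 0, .ofNat 129621404373534190288465974267640453005312, .ofNat 0⟩)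
    (by decide +kernel)
theorem L01871 : Good (Phi V5.P V5.D (-1) 1) ⟨3, 4, 3, 1, 2, 3, 4, 13, 5, 2⟩ :=
  leafX_sound T5.ok_mp T5.Ymp.bz_eq (w := 218) (c := ⟨⟨.negSucc 1461, .negSucc 398, .negSucc 111, .ofNat 488, .ofNat 50, .negSucc 86⟩, ⟨.negSucc 157, .ofNat 76, .negSucc 158, .negSucc 37, .ofNat 19, .ofNat 11⟩, ⟨.ofNat 764, .ofNat 263, .ofNat 30, .negSucc 464, .negSucc 52, .negSucc 5⟩, ⟨.negSucc 3119, .negSucc 518, .negSucc 114, .ofNat 1017, .ofNat 92, .negSucc 210⟩, ⟨.negSucc 1109, .negSucc 17, .negSucc 51, .negSucc 661, .ofNat 165, .ofNat 218⟩, .ofNat 479, .negSucc 90, .ofNat 0, .negSucc 90, .ofNat 1791, .ofNat 0, .ofNat 556, .ofNat 91, .negSucc 1155, .ofNat 0, .ofNat 128, .ofNat 50, .ofNat 0, .ofNat 0, .ofNat 1414, .ofNat 1380, .ofNat 0, .ofNat 0, .ofNat 0, .ofNat 0, .ofNat 0, .ofNat 0, .ofNat 0, .ofNat 0, .ofNat 0, .ofNat 0, .ofNat 0, .ofNat 0, .ofNat 0, .ofNat 0,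 .ofNat 0, .ofNat 0⟩)
    (by decide +kernel)
theorem L01872 : Good (Phi V5.P V5.D (-1) 1) ⟨3, 4, 3, 1, 2, 3, 3, 6, 5, 3⟩ :=
  leafX_sound T5.ok_mp T5.Ymp.bz_eq (w := 214) (c := ⟨⟨.negSucc 1795, .negSucc 357, .negSucc 130, .ofNat 707, .ofNat 237, .negSucc 1⟩, ⟨.negSucc 188, .ofNat 91, .negSucc 160, .negSucc 20, .ofNat 56, .ofNat 28⟩, ⟨.ofNat 942, .ofNat 222, .ofNat 64, .negSucc 605, .negSucc 183, .negSucc 31⟩, ⟨.negSucc 3815, .negSucc 382, .negSucc 175, .ofNat 1436, .ofNat 442, .negSucc 27⟩, ⟨.negSucc 1170, .negSucc 42, .negSucc 5, .negSucc 535, .ofNat 467, .ofNat 322⟩, .ofNat 503, .negSucc 123, .ofNat 0, .negSucc 123, .ofNat 2131, .ofNat 0, .ofNat 487, .ofNat 82, .negSucc 566, .ofNat 0, .ofNat 128, .ofNat 21, .ofNat 0, .ofNat 0, .ofNat 796, .ofNat 1146, .ofNat 0, .ofNat 0, .ofNat 0, .ofNat 0, .ofNat 0, .ofNat 0, .ofNat 238866037833058483836221399214864728064, .ofNat 0,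 .ofNat 0, .ofNat 0, .ofNat 0, .ofNat 0, .ofNat 0, .ofNat 0, .ofNat 7071227842748605558031105661021366255616, .ofNat 0⟩)
    (by decide +kernel)
theorem L01873 : Good (Phi V5.P V5.D (-1) 1) ⟨5, 20, 3, 1, 3, 6, 3, 6, 5, 2⟩ :=
  leafX_sound T5.ok_mp T5.Ymp.bz_eq (w := 238) (c := ⟨⟨.negSucc 1731, .negSucc 435, .negSucc 523, .ofNat 399, .negSucc 121, .negSucc 428⟩, ⟨.negSucc 92, .ofNat 69, .negSucc 155, .negSucc 48, .ofNat 54, .ofNat 49⟩, ⟨.ofNat 942, .ofNat 365, .ofNat 426, .negSucc 393, .ofNat 99, .ofNat 279⟩, ⟨.negSucc 3385, .negSucc 696, .negSucc 907, .ofNat 749, .negSucc 223, .negSucc 805⟩, ⟨.negSucc 1335, .ofNat 108, .ofNat 278, .negSucc 366, .ofNat 417, .ofNat 330⟩, .ofNat 458, .ofNat 5, .ofNat 0, .ofNat 5, .ofNat 1649, .ofNat 0, .ofNat 436, .ofNat 39, .negSucc 1354, .ofNat 0, .ofNat 128, .ofNat 119, .ofNat 0, .ofNat 0, .ofNat 1454, .ofNat 2930, .ofNat 0, .ofNat 0, .ofNat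 129063894755597446683704121751999654920192, .ofNat 0, .ofNat 0, .ofNat 0, .ofNat 0, .ofNat 0, .ofNat 0, .ofNat 0, .ofNat 8175643342144184854173164065724284585115648, .ofNat 0, .ofNat 0, .ofNat 0, .ofNat 45834270369900109520345770899913471000838144, .ofNat 0⟩)
    (by decide +kernel)
theorem L01874 : Good (Phi V5.P V5.D (-1) 1) ⟨5, 21, 3, 1, 3, 6, 3, 6, 5, 2⟩ :=
  leafX_sound T5.ok_mp T5.Ymp.bz_eq (w := 239) (c := ⟨⟨.negSucc 2186, .negSucc 307, .negSucc 420, .ofNat 536, .negSucc 185, .negSucc 484⟩, ⟨.negSucc 22, .ofNat 59, .negSucc 165, .negSucc 81, .ofNat 66, .ofNat 69⟩, ⟨.ofNat 1336, .ofNat 234, .ofNat 310, .negSucc 510, .ofNat 145, .ofNat 315⟩, ⟨.negSucc 4126, .negSucc 452, .negSucc 726, .ofNat 968, .negSucc 326, .negSucc 877⟩, ⟨.negSucc 1191, .ofNat 7, .ofNat 214, .negSucc 420, .ofNat 450, .ofNat 322⟩, .ofNat 434, .ofNat 73, .ofNat 0, .ofNat 73, .ofNat 1419, .ofNat 0,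 .ofNat 773, .ofNat 1, .negSucc 3033, .ofNat 0, .ofNat 128, .ofNat 397, .ofNat 0, .ofNat 0, .ofNat 3142, .ofNat 5159, .ofNat 0, .ofNat 0, .ofNat 554870326551253173535722558891358888656896, .ofNat 0, .ofNat 0, .ofNat 0, .ofNat 12046763082150107491822839138127794529107968, .ofNat 0, .ofNat 0, .ofNat 0, .ofNat 23652060040131682668218797874771104733593600, .ofNat 0, .ofNat 0, .ofNat 0, .ofNat 248377211606765712441609419974204829816848384, .ofNat 0⟩)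
    (by decide +kernel)
theorem L01875 : Good (Phi V5.P V5.D (-1) 1) ⟨4, 10, 3, 1, 3, 6, 3, 6, 5, 3⟩ :=
  leafX_sound T5.ok_mp T5.Ymp.bz_eq (w := 234) (c := ⟨⟨.negSucc 2537, .negSucc 556, .negSucc 348, .ofNat 645, .ofNat 338, .ofNat 171⟩, ⟨.negSucc 24, .ofNat 126, .negSucc 164, .negSucc 74, .ofNat 38, .ofNat 18⟩, ⟨.ofNat 1543, .ofNat 447, .ofNat 296, .negSucc 608, .negSucc 293, .negSucc 199⟩, ⟨.negSucc 4876, .negSucc 810, .negSucc 613, .ofNat 1194, .ofNat 626, .ofNat 321⟩, ⟨.negSucc 966, .ofNat 128, .ofNat 230, .negSucc 440, .ofNat 431, .ofNat 207⟩, .ofNat 407, .ofNat 24, .ofNat 0, .ofNat 24, .ofNat 1161, .ofNat 0, .ofNat 510, .ofNat 11, .negSucc 843, .ofNat 0, .ofNat 128, .ofNat 105, .ofNat 0, .ofNat 0, .ofNat 997, .ofNat 2240, .ofNat 0, .ofNat 0, .ofNat 674840212473645586831008036134443710152704, .ofNat 0, .ofNat 0, .ofNat 0, .ofNat 0, .ofNat 0, .ofNat 0, .ofNat 0, .ofNat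 15892531619606073512019053678029913452445696, .ofNat 0, .ofNat 0, .ofNat 0, .ofNat 96692383110928588657960101625983825675812864, .ofNat 0⟩)
    (by decide +kernel)
theorem L01876 : Good (Phi V5.P V5.D (-1) 1) ⟨4, 11, 3, 1, 3, 6, 3, 6, 4, 1⟩ :=
  out_sound (S := T5.ds_mp) T5.ok_mp (w := 51) (j := 3) (by decide +kernel)
theorem L01877 : Good (Phi V5.P V5.D (-1) 1) ⟨4, 10, 3, 1, 3, 7, 3, 6, 5, 2⟩ :=
  leafX_sound T5.ok_mp T5.Ymp.bz_eq (w := 233) (c := ⟨⟨.negSucc 1897, .negSucc 52, .negSucc 147, .ofNat 516, .ofNat 285, .ofNat 30⟩, ⟨.negSucc 78, .ofNat 8, .negSucc 165, .negSucc 72, .ofNat 8, .ofNat 4⟩, ⟨.ofNat 1055, .ofNat 8, .ofNat 40, .negSucc 446, .negSucc 268, .negSucc 104⟩, ⟨.negSucc 3639, .negSucc 5, .negSucc 179, .ofNat 958, .ofNat 515, .ofNat 31⟩, ⟨.negSucc 1395, .negSucc 79, .negSucc 18, .negSucc 491, .ofNat 157, .ofNat 81⟩, .ofNat 407, .ofNat 31, .ofNat 0, .ofNat 31,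 .ofNat 1168, .ofNat 0, .ofNat 696, .ofNat 31, .negSucc 2001, .ofNat 0, .ofNat 128, .ofNat 277, .ofNat 0, .ofNat 0, .ofNat 2043, .ofNat 2109, .ofNat 0, .ofNat 0, .ofNat 70224456989638199875885318748776559542272, .ofNat 0, .ofNat 0, .ofNat 0, .ofNat 0, .ofNat 0, .ofNat 0, .ofNat 0, .ofNat 19178599581929216128576179435825263198339072, .ofNat 0, .ofNat 0, .ofNat 0, .ofNat 305121884219531023023650838321057943949148160, .ofNat 0⟩)
    (by decide +kernel)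
theorem L01878 : Good (Phi V5.P V5.D (-1) 1) ⟨4, 11, 3, 1, 3, 7, 3, 6, 5, 2⟩ :=
  out_sound (S := T5.ds_mp) T5.ok_mp (w := 51) (j := 3) (by decide +kernel)
theorem L01879 : Good (Phi V5.P V5.D (-1) 1) ⟨3, 5, 3, 1, 3, 7, 3, 6, 5, 3⟩ :=
  leafX_sound T5.ok_mp T5.Ymp.bz_eq (w := 229) (c := ⟨⟨.negSucc 2134, .ofNat 102, .ofNat 4, .ofNat 716, .ofNat 456, .ofNat 216⟩, ⟨.negSucc 70, .ofNat 31, .negSucc 163, .negSucc 90, .ofNat 35, .ofNat 18⟩, ⟨.ofNat 1116, .negSucc 146, .negSucc 75, .negSucc 537, .negSucc 343, .negSucc 188⟩, ⟨.negSucc 4112, .ofNat 383, .ofNat 80, .ofNat 1351, .ofNat 873, .ofNat 408⟩, ⟨.negSucc 1351, .negSucc 94, .negSucc 115, .negSucc 611, .ofNat 417, .ofNat 258⟩, .ofNat 407, .ofNat 29, .ofNat 0, .ofNat 29, .ofNat 1168, .ofNat 0, .ofNat 397, .ofNat 15, .negSucc 701, .ofNat 0, .ofNat 128, .ofNat 108, .ofNat 0, .ofNat 0, .ofNat 846, .ofNat 1856, .ofNat 0, .ofNat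 0, .ofNat 0, .ofNat 0, .ofNat 0, .ofNat 0, .ofNat 76800827054014180808818760093537597025943552, .ofNat 0, .ofNat 0, .ofNat 0, .ofNat 91822866711613833176313529056695728956506112, .ofNat 0, .ofNat 0, .ofNat 0, .ofNat 334183967717813824168445957526079581636788224, .ofNat 0⟩)
    (by decide +kernel)
theorem L01880 : Good (Phi V5.P V5.D (-1) 1) ⟨3, 4, 3, 1, 2, 2, 3, 7, 5, 2⟩ :=
  leafX_sound T5.ok_mp T5.Ymp.bz_eq (w := 214) (c := ⟨⟨.negSucc 1117, .negSucc 630, .negSucc 156, .negSucc 263, .ofNat 478, .negSucc 159⟩, ⟨.negSucc 126, .ofNat 110, .negSucc 155, .negSucc 34, .ofNat 61, .ofNat 19⟩, ⟨.ofNat 568, .ofNat 513, .ofNat 111, .ofNat 71, .negSucc 472, .ofNat 84⟩, ⟨.negSucc 2473, .negSucc 884, .negSucc 295, .negSucc 503, .ofNat 932, .negSucc 347⟩, ⟨.negSucc 698, .ofNat 23, .ofNat 68, .negSucc 266, .ofNat 385, .ofNat 283⟩, .ofNat 503, .negSucc 125, .ofNat 0, .negSucc 125, .ofNat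 2124, .ofNat 0, .ofNat 340, .ofNat 82, .negSucc 758, .ofNat 0, .ofNat 128, .ofNat 0, .ofNat 0, .ofNat 0, .ofNat 1058, .ofNat 798, .ofNat 0, .ofNat 0, .ofNat 0, .ofNat 0, .ofNat 0, .ofNat 0, .ofNat 0, .ofNat 0, .ofNat 0, .ofNat 357057915894039628407886647076431054503936, .ofNat 459822463088747360998816423212579028992, .ofNat 0, .ofNat 0, .ofNat 1218316097294411820008738915064604348383232, .ofNat 10447967229084021345711846866556739911680, .ofNat 0⟩)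
    (by decide +kernel)
theorem L01881 : Good (Phi V5.P V5.D (-1) 1) ⟨4, 8, 3, 1, 2, 3, 3, 7, 5, 2⟩ :=
  leafX_sound T5.ok_mp T5.Ymp.bz_eq (w := 218) (c := ⟨⟨.negSucc 1406, .negSucc 140, .negSucc 89, .ofNat 420, .ofNat 202, .negSucc 82⟩, ⟨.negSucc 156, .ofNat 33, .negSucc 139, .negSucc 20, .ofNat 70, .ofNat 20⟩, ⟨.ofNat 691, .ofNat 69, .ofNat 6, .negSucc 381, .negSucc 181, .ofNat 22⟩, ⟨.negSucc 3029, .negSucc 158, .negSucc 101, .ofNat 950, .ofNat 370, .negSucc 198⟩, ⟨.negSucc 879, .negSucc 17, .negSucc 49, .negSucc 788, .ofNat 599, .ofNat 291⟩, .ofNat 569, .negSucc 277, .ofNat 0, .negSucc 277, .ofNat 3293, .ofNat 0, .ofNat 338, .ofNat 128, .negSucc 396, .ofNat 0, .ofNat 125, .ofNat 0, .ofNat 0, .ofNat 0, .ofNat 515, .ofNat 1396, .ofNat 0, .ofNat 0, .ofNat 0, .ofNat 0, .ofNat 0, .ofNat 12108136846269443173170962295298941505241088, .ofNat 0, .ofNat 0, .ofNat 0, .ofNat 11367169693734184106342958282522172483174400,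 .ofNat 0, .ofNat 0, .ofNat 0, .ofNat 0, .ofNat 0, .ofNat 0⟩)
    (by decide +kernel)
theorem L01882 : Good (Phi V5.P V5.D (-1) 1) ⟨4, 9, 3, 1, 3, 6, 3, 7, 5, 2⟩ :=
  leafX_sound T5.ok_mp T5.Ymp.bz_eq (w := 232) (c := ⟨⟨.negSucc 1539, .negSucc 465, .negSucc 251, .ofNat 296, .ofNat 212, .negSucc 118⟩, ⟨.negSucc 122, .ofNat 72, .negSucc 148, .negSucc 23, .ofNat 78, .ofNat 32⟩, ⟨.ofNat 775, .ofNat 374, .ofNat 191, .negSucc 300, .negSucc 198, .ofNat 40⟩, ⟨.negSucc 3153, .negSucc 717, .negSucc 453, .ofNat 588, .ofNat 386, .negSucc 255⟩, ⟨.negSucc 1081, .ofNat 143, .ofNat 186, .negSucc 288, .ofNat 693, .ofNat 344⟩, .ofNat 503, .negSucc 78, .ofNat 0, .negSucc 78, .ofNat 2383, .ofNat 0, .ofNat 288, .ofNat 82, .negSucc 1019, .ofNat 0, .ofNat 128, .ofNat 48, .ofNat 0, .ofNat 0, .ofNat 1185, .ofNat 863, .ofNat 0, .ofNat 0, .ofNat 0, .ofNat 0, .ofNat 0, .ofNat 0, .ofNat 0, .ofNat 0,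 .ofNat 0, .ofNat 32270786727756279369988219122595216175537324032, .ofNat 0, .ofNat 0, .ofNat 0, .ofNat 108298988104492937338253187125910819347667877888, .ofNat 64917362843413436029522760386259059753353216, .ofNat 0⟩)
    (by decide +kernel)
theorem L01883 : Good (Phi V5.P V5.D (-1) 1) ⟨4, 9, 3, 1, 3, 7, 3, 7, 5, 2⟩ :=
  leafX_sound T5.ok_mp T5.Ymp.bz_eq (w := 232) (c := ⟨⟨.negSucc 1634, .negSucc 22, .ofNat 14, .ofNat 502, .ofNat 389, .ofNat 62⟩, ⟨.negSucc 123, .ofNat 20, .negSucc 149, .negSucc 42, .ofNat 62, .ofNat 44⟩, ⟨.ofNat 805, .negSucc 35, .negSucc 95, .negSucc 395, .negSucc 334, .negSucc 50⟩, ⟨.negSucc 3307, .ofNat 63, .ofNat 130, .ofNat 1013, .ofNat 733, .ofNat 106⟩, ⟨.negSucc 1131, .negSucc 80, .negSucc 183, .negSucc 655, .ofNat 521, .ofNat 409⟩, .ofNat 497, .negSucc 83, .ofNat 0, .negSucc 83, .ofNat 2204, .ofNat 0, .ofNat 350, .ofNat 92, .negSucc 921, .ofNat 0,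 .ofNat 128, .ofNat 59, .ofNat 0, .ofNat 0, .ofNat 1071, .ofNat 1185, .ofNat 0, .ofNat 0, .ofNat 0, .ofNat 0, .ofNat 0, .ofNat 26206679551669006132886004306906783492018798592, .ofNat 0, .ofNat 0, .ofNat 0, .ofNat 31922627983501778879356816154375354830150434816, .ofNat 0, .ofNat 0, .ofNat 0, .ofNat 0, .ofNat 59074244252841880438156566769374074759020544, .ofNat 0⟩)
    (by decide +kernel)
theorem L01884 : Good (Phi V5.P V5.D (-1) 1) ⟨4, 10, 3, 1, 2, 2, 4, 14, 5, 2⟩ :=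
  leafX_sound T5.ok_mp T5.Ymp.bz_eq (w := 223) (c := ⟨⟨.negSucc 1649, .negSucc 629, .negSucc 233, .negSucc 646, .ofNat 202, .negSucc 170⟩, ⟨.negSucc 24, .ofNat 141, .negSucc 153, .ofNat 8, .ofNat 16, .ofNat 39⟩, ⟨.ofNat 993, .ofNat 561, .ofNat 209, .ofNat 412, .negSucc 193, .ofNat 89⟩, ⟨.negSucc 3211, .negSucc 912, .negSucc 411, .negSucc 1219, .ofNat 381, .negSucc 313⟩, ⟨.negSucc 684, .ofNat 108, .ofNat 157, .negSucc 40, .ofNat 163, .ofNat 292⟩, .ofNat 458, .ofNat 39, .ofNat 0, .ofNat 39, .ofNat 1700, .ofNat 0, .ofNat 312, .ofNat 15, .negSucc 827, .ofNat 0, .ofNat 128, .ofNat 71, .ofNat 0, .ofNat 0, .ofNat 1049, .ofNat 1480, .ofNat 0, .ofNat 0, .ofNat 606380600159635688616197064294211256320, .ofNat 0, .ofNat 0, .ofNat 0, .ofNat 9999596620091451480416017667203931308032, .ofNat 0, .ofNat 0, .ofNat 0, .ofNat 40474411643058832038063897175401483468800, .ofNat 0, .ofNat 0, .ofNat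 0, .ofNat 79733533935875485822148622120969048162304, .ofNat 0⟩)
    (by decide +kernel)
theorem L01885 : Good (Phi V5.P V5.D (-1) 1) ⟨4, 10, 3, 1, 2, 2, 4, 15, 5, 2⟩ :=
  leafX_sound T5.ok_mp T5.Ymp.bz_eq (w := 222) (c := ⟨⟨.negSucc 1421, .negSucc 693, .negSucc 242, .negSucc 895, .ofNat 604, .negSucc 29⟩, ⟨.negSucc 25, .ofNat 143, .negSucc 124, .ofNat 32, .ofNat 5, .ofNat 44⟩, ⟨.ofNat 743, .ofNat 634, .ofNat 225, .ofNat 685, .negSucc 587, .negSucc 40⟩, ⟨.negSucc 2757, .negSucc 1056, .negSucc 445, .negSucc 1691, .ofNat 1125, .negSucc 50⟩, ⟨.negSucc 599, .ofNat 118, .ofNat 198, .ofNat 100, .ofNat 181, .ofNat 358⟩, .ofNat 458, .ofNat 46, .ofNat 0, .ofNat 46, .ofNat 1702, .ofNat 0, .ofNat 234, .ofNat 19, .negSucc 986, .ofNat 0, .ofNat 128, .ofNat 86, .ofNat 0, .ofNat 0, .ofNat 1186, .ofNat 713, .ofNat 0, .ofNat 0, .ofNat 374492581810947036829849152193396998144, .ofNat 0, .ofNat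 0, .ofNat 0, .ofNat 6847262124779446049079014748540903620608, .ofNat 0, .ofNat 0, .ofNat 0, .ofNat 18538721198094452098604710928262226771968, .ofNat 0, .ofNat 0, .ofNat 57612556298982702049326399574900060415066112, .ofNat 70943431301755490298883657105905176018944, .ofNat 0⟩)
    (by decide +kernel)
theorem L01886 : Good (Phi V5.P V5.D (-1) 1) ⟨4, 11, 3, 1, 2, 2, 3, 7, 5, 2⟩ :=
  out_sound (S := T5.ds_mp) T5.ok_mp (w := 51) (j := 3) (by decide +kernel)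
theorem L01887 : Good (Phi V5.P V5.D (-1) 1) ⟨5, 20, 3, 1, 3, 6, 3, 7, 5, 2⟩ :=
  leafX_sound T5.ok_mp T5.Ymp.bz_eq (w := 237) (c := ⟨⟨.negSucc 2194, .negSucc 410, .negSucc 523, .ofNat 626, .ofNat 322, .ofNat 41⟩, ⟨.negSucc 36, .ofNat 78, .negSucc 129, .negSucc 65, .ofNat 77, .ofNat 38⟩, ⟨.ofNat 1331, .ofNat 348, .ofNat 454, .negSucc 612, .negSucc 292, .negSucc 110⟩, ⟨.negSucc 4251, .negSucc 631, .negSucc 944, .ofNat 1167, .ofNat 612, .ofNat 97⟩, ⟨.negSucc 849, .ofNat 97, .ofNat 410, .negSucc 427, .ofNat 656, .ofNat 224⟩, .ofNat 475, .ofNat 6, .ofNat 0, .ofNat 6, .ofNat 1893, .ofNat 0, .ofNat 329, .ofNat 54, .negSucc 1355, .ofNat 0, .ofNat 128, .ofNat 129, .ofNat 0, .ofNat 0, .ofNat 1452, .ofNat 1450, .ofNat 0, .ofNat 0, .ofNat 94641645488450310594946800272271648751616, .ofNat 0, .ofNat 0, .ofNat 0, .ofNat 0, .ofNat 0, .ofNat 0, .ofNat 173371583695312391327604712440584530657273708544,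 .ofNat 6136166915382674049138685282251364898963456, .ofNat 0, .ofNat 0, .ofNat 1728398213999824618325446834677374464349572169728, .ofNat 38320771110636617480832809633979935546671104, .ofNat 0⟩)
    (by decide +kernel)
theorem L01888 : Good (Phi V5.P V5.D (-1) 1) ⟨5, 21, 3, 1, 3, 6, 3, 7, 5, 2⟩ :=
  leafX_sound T5.ok_mp T5.Ymp.bz_eq (w := 238) (c := ⟨⟨.negSucc 2672, .negSucc 800, .negSucc 371, .ofNat 824, .ofNat 380, .ofNat 17⟩, ⟨.ofNat 48, .ofNat 145, .negSucc 119, .negSucc 107, .ofNat 67, .ofNat 52⟩, ⟨.ofNat 1774, .ofNat 649, .ofNat 296, .negSucc 805, .negSucc 369, .negSucc 115⟩, ⟨.negSucc 4984, .negSucc 1453, .negSucc 1230, .ofNat 1450, .ofNat 646, .ofNat 93⟩, ⟨.negSucc 763, .ofNat 301, .ofNat 714, .negSucc 517, .ofNat 716, .ofNat 317⟩, .ofNat 396, .ofNat 28, .ofNat 0, .ofNat 28, .ofNat 1024, .ofNat 0, .ofNat 534, .ofNat 43, .negSucc 1876, .ofNat 0, .ofNat 128, .ofNat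 272, .ofNat 0, .ofNat 0, .ofNat 1867, .ofNat 2034, .ofNat 0, .ofNat 0, .ofNat 400466268270059887228327577960765768859648, .ofNat 0, .ofNat 0, .ofNat 1986037724767695385833944926033032530474439802880, .ofNat 20502162692030960779567663087371999955124224, .ofNat 0, .ofNat 0, .ofNat 56606502532762911703921343616045771367118798848, .ofNat 5760242000724980173546950775327157318057984, .ofNat 0, .ofNat 0, .ofNat 0, .ofNat 79689441671458788573047940139435982275477504, .ofNat 0⟩)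
    (by decide +kernel)
theorem L01889 : Good (Phi V5.P V5.D (-1) 1) ⟨4, 11, 3, 1, 3, 6, 3, 7, 5, 2⟩ :=
  out_sound (S := T5.ds_mp) T5.ok_mp (w := 51) (j := 3) (by decide +kernel)
theorem L01890 : Good (Phi V5.P V5.D (-1) 1) ⟨3, 5, 3, 1, 3, 7, 3, 7, 5, 2⟩ :=
  leafX_sound T5.ok_mp T5.Ymp.bz_eq (w := 228) (c := ⟨⟨.negSucc 1940, .ofNat 31, .negSucc 10, .ofNat 771, .ofNat 561, .ofNat 195⟩, ⟨.negSucc 58, .ofNat 18, .negSucc 161, .negSucc 104, .ofNat 45, .ofNat 27⟩, ⟨.ofNat 1031, .negSucc 123, .negSucc 58, .negSucc 618, .negSucc 494, .negSucc 190⟩, ⟨.negSucc 3734, .ofNat 250, .ofNat 38, .ofNat 1425, .ofNat 1072, .ofNat 377⟩, ⟨.negSucc 1133, .negSucc 272, .negSucc 27, .negSucc 683, .ofNat 448, .ofNat 236⟩, .ofNat 475, .ofNat 55, .ofNat 0, .ofNat 55, .ofNat 1963, .ofNat 0, .ofNat 364, .ofNat 39, .negSucc 859, .ofNat 0, .ofNat 128, .ofNat 105, .ofNat 0, .ofNat 0, .ofNat 913, .ofNat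 735, .ofNat 0, .ofNat 0, .ofNat 87701158933705820454317898972282031702016, .ofNat 0, .ofNat 0, .ofNat 2647165460282143380396667071746466717754195968, .ofNat 67472258621471213999205067717086287432253440, .ofNat 0, .ofNat 0, .ofNat 1944523397579517992764012394231939818393174016, .ofNat 139176787565133915349531916830157827561488384, .ofNat 0, .ofNat 0, .ofNat 0, .ofNat 270286362904932553294945192623882270492590080, .ofNat 0⟩)
    (by decide +kernel)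
theorem L01891 : Good (Phi V5.P V5.D (-1) 1) ⟨3, 4, 3, 1, 2, 2, 3, 7, 5, 3⟩ :=
  leafX_sound T5.ok_mp T5.Ymp.bz_eq (w := 213) (c := ⟨⟨.negSucc 1391, .negSucc 591, .negSucc 109, .negSucc 243, .ofNat 649, .ofNat 48⟩, ⟨.negSucc 138, .ofNat 128, .negSucc 145, .negSucc 22, .ofNat 80, .ofNat 25⟩, ⟨.ofNat 772, .ofNat 468, .ofNat 70, .ofNat 34, .negSucc 628, .negSucc 78⟩, ⟨.negSucc 3053, .negSucc 770, .negSucc 203, .negSucc 509, .ofNat 1298, .ofNat 71⟩, ⟨.negSucc 562, .ofNat 55, .ofNat 95, .negSucc 57, .ofNat 445, .ofNat 269⟩, .ofNat 444, .negSucc 77, .ofNat 0, .negSucc 77, .ofNat 1368, .ofNat 0, .ofNat 268, .ofNat 68, .negSucc 437, .ofNat 0, .ofNat 128, .ofNat 8, .ofNat 0, .ofNat 0, .ofNat 651, .ofNat 719, .ofNat 0, .ofNat 0, .ofNat 0, .ofNat 0, .ofNat 0, .ofNat 0, .ofNat 0, .ofNat 0, .ofNat 0, .ofNat 834705944140456716254199727139884984434688, .ofNat 0, .ofNat 0, .ofNat 0, .ofNat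 365802490101411897498686399041432281153536, .ofNat 3539006065441949338475097538435588554752, .ofNat 0⟩)
    (by decide +kernel)
theorem L01892 : Good (Phi V5.P V5.D (-1) 1) ⟨3, 4, 3, 1, 3, 6, 3, 7, 5, 3⟩ :=
  leafX_sound T5.ok_mp T5.Ymp.bz_eq (w := 228) (c := ⟨⟨.negSucc 1654, .negSucc 479, .negSucc 67, .ofNat 392, .ofNat 355, .ofNat 91⟩, ⟨.negSucc 174, .ofNat 142, .negSucc 146, .negSucc 2, .ofNat 97, .ofNat 50⟩, ⟨.ofNat 820, .ofNat 345, .ofNat 37, .negSucc 351, .negSucc 291, .negSucc 100⟩, ⟨.negSucc 3580, .negSucc 556, .negSucc 121, .ofNat 786, .ofNat 681, .ofNat 178⟩, ⟨.negSucc 811, .ofNat 85, .ofNat 43, .negSucc 165, .ofNat 965, .ofNat 437⟩, .ofNat 442, .negSucc 68, .ofNat 0, .negSucc 68, .ofNat 1363, .ofNat 0, .ofNat 545, .ofNat 76, .negSucc 819, .ofNat 0, .ofNat 128, .ofNat 48, .ofNat 0, .ofNat 0, .ofNat 1097, .ofNat 743, .ofNat 0, .ofNat 0, .ofNat 0, .ofNat 0, .ofNat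 0, .ofNat 0, .ofNat 0, .ofNat 0, .ofNat 0, .ofNat 2621231219797144029733664764058834028569034752, .ofNat 0, .ofNat 0, .ofNat 0, .ofNat 0, .ofNat 0, .ofNat 0⟩)
    (by decide +kernel)
theorem L01893 : Good (Phi V5.P V5.D (-1) 1) ⟨3, 4, 3, 1, 3, 7, 3, 7, 5, 3⟩ :=
  leafX_sound T5.ok_mp T5.Ymp.bz_eq (w := 227) (c := ⟨⟨.negSucc 1549, .ofNat 53, .ofNat 52, .ofNat 435, .ofNat 414, .ofNat 139⟩, ⟨.negSucc 153, .ofNat 65, .negSucc 130, .negSucc 15, .ofNat 98, .ofNat 55⟩, ⟨.ofNat 658, .negSucc 96, .negSucc 92, .negSucc 264, .negSucc 276, .negSucc 68⟩, ⟨.negSucc 3303, .ofNat 371, .ofNat 173, .ofNat 927, .ofNat 783, .ofNat 260⟩, ⟨.negSucc 903, .negSucc 261, .negSucc 171, .negSucc 408, .ofNat 975, .ofNat 551⟩, .ofNat 441, .negSucc 65, .ofNat 0, .negSucc 65, .ofNat 1366, .ofNat 0, .ofNat 323, .ofNat 77, .negSucc 378, .ofNat 0, .ofNat 128, .ofNat 34, .ofNat 0, .ofNat 0, .ofNat 540, .ofNat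 661, .ofNat 0, .ofNat 0, .ofNat 0, .ofNat 0, .ofNat 0, .ofNat 1947945296636234106628900248844244840687337472, .ofNat 0, .ofNat 0, .ofNat 0, .ofNat 3239685559095018462878578975589272800655835136, .ofNat 0, .ofNat 0, .ofNat 0, .ofNat 0, .ofNat 47609517750942080881904715276051765625094144, .ofNat 0⟩)
    (by decide +kernel)
theorem L01894 : Good (Phi V5.P V5.D (-1) 1) ⟨3, 5, 3, 1, 2, 2, 3, 7, 5, 3⟩ :=
  leafX_sound T5.ok_mp T5.Ymp.bz_eq (w := 214) (c := ⟨⟨.negSucc 1914, .negSucc 1160, .negSucc 318, .negSucc 417, .ofNat 747, .ofNat 96⟩, ⟨.ofNat 2, .ofNat 303, .negSucc 138, .ofNat 10, .ofNat 25, .ofNat 29⟩, ⟨.ofNat 1196, .ofNat 1015, .ofNat 298, .ofNat 168, .negSucc 732, .negSucc 151⟩, ⟨.negSucc 3692, .negSucc 1670, .negSucc 611, .negSucc 799, .ofNat 1410, .ofNat 200⟩, ⟨.negSucc 469, .ofNat 394, .ofNat 213, .negSucc 41, .ofNat 479, .ofNat 232⟩, .ofNat 407, .ofNat 31, .ofNat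 0, .ofNat 31, .ofNat 1170, .ofNat 0, .ofNat 316, .ofNat 12, .negSucc 902, .ofNat 0, .ofNat 128, .ofNat 95, .ofNat 0, .ofNat 0, .ofNat 1152, .ofNat 661, .ofNat 0, .ofNat 0, .ofNat 119564484813690883468490526021780504576, .ofNat 0, .ofNat 0, .ofNat 234867704685012200667564776837582159872000, .ofNat 3687652775618065332226191895959724621824, .ofNat 0, .ofNat 0, .ofNat 611039896817364740905493197462947277832192, .ofNat 5402734392151998796074764069892626841600, .ofNat 0, .ofNat 0, .ofNat 1916691551741163468776891543734863618113536, .ofNat 15417853129196423347083513699911610662912, .ofNat 0⟩)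
    (by decide +kernel)
theorem L01895 : Good (Phi V5.P V5.D (-1) 1) ⟨3, 5, 3, 1, 2, 3, 3, 7, 5, 3⟩ :=
  leafX_sound T5.ok_mp T5.Ymp.bz_eq (w := 214) (c := ⟨⟨.negSucc 2453, .negSucc 565, .negSucc 52, .ofNat 1660, .ofNat 467, .ofNat 266⟩, ⟨.ofNat 20, .ofNat 221, .negSucc 149, .negSucc 201, .ofNat 94, .ofNat 27⟩, ⟨.ofNat 1420, .ofNat 432, .negSucc 33, .negSucc 1363, .negSucc 336, .negSucc 205⟩, ⟨.negSucc 4702, .negSucc 718, .negSucc 129, .ofNat 3089, .ofNat 933, .ofNat 532⟩, ⟨.negSucc 529, .ofNat 161, .ofNat 17, .negSucc 1094, .ofNat 896, .ofNat 366⟩, .ofNat 406, .ofNat 31, .ofNat 0, .ofNat 31, .ofNat 1157, .ofNat 0, .ofNat 321, .ofNat 23, .negSucc 584, .ofNat 0, .ofNat 128, .ofNat 86, .ofNat 0, .ofNat 0, .ofNat 696, .ofNat 384, .ofNat 0, .ofNat 0, .ofNat 47048773113512876193333126946413871104, .ofNat 0, .ofNat 0, .ofNat 601666076627317073279991268952520444084224, .ofNat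 2110267923316214569367491025338013581312, .ofNat 0, .ofNat 0, .ofNat 0, .ofNat 2494896654370033885887648916935754645504, .ofNat 0, .ofNat 0, .ofNat 453733432006266751191878622793231409086464, .ofNat 7095677298094803607651277077672227766272, .ofNat 0⟩)
    (by decide +kernel)
theorem L01896 : Good (Phi V5.P V5.D (-1) 1) ⟨2, 3, 3, 1, 1, 1, 2, 3, 4, 1⟩ :=
  out_sound (S := T5.ds_mp) T5.ok_mp (w := 39) (j := 3) (by decide +kernel)
theorem L01897 : Good (Phi V5.P V5.D (-1) 1) ⟨3, 4, 3, 1, 2, 2, 2, 2, 4, 2⟩ :=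
  leafX_sound T5.ok_mp T5.Ymp.bz_eq (w := 206) (c := ⟨⟨.negSucc 2012, .negSucc 516, .negSucc 82, .negSucc 57, .ofNat 314, .ofNat 101⟩, ⟨.negSucc 179, .ofNat 159, .negSucc 196, .negSucc 43, .ofNat 47, .ofNat 22⟩, ⟨.ofNat 1349, .ofNat 447, .ofNat 102, .negSucc 255, .negSucc 335, .negSucc 43⟩, ⟨.negSucc 4388, .negSucc 535, .negSucc 117, .negSucc 99, .ofNat 628, .ofNat 188⟩, ⟨.negSucc 738, .ofNat 64, .ofNat 16, .negSucc 378, .ofNat 304, .ofNat 216⟩, .ofNat 441, .negSucc 68, .ofNat 0, .negSucc 68, .ofNat 1360, .ofNat 0, .ofNat 511, .ofNat 39, .negSucc 391, .ofNat 0, .ofNat 128, .ofNat 16, .ofNat 0, .ofNat 0, .ofNat 947, .ofNat 2484, .ofNat 0, .ofNat 0, .ofNat 0, .ofNat 0, .ofNat 0, .ofNat 0, .ofNat 0, .ofNat 0, .ofNat 0, .ofNat 0, .ofNat 1069606526773233884102829183684575232, .ofNat 0, .ofNat 0, .ofNat 0, .ofNat 0, .ofNat 0⟩)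
    (by decide +kernel)
theorem L01898 : Good (Phi V5.P V5.D (-1) 1) ⟨3, 4, 3, 1, 2, 2, 2, 2, 4, 3⟩ :=
  leafX_sound T5.ok_mp T5.Ymp.bz_eq (w := 205) (c := ⟨⟨.negSucc 2089, .negSucc 363, .negSucc 50, .ofNat 99, .ofNat 370, .ofNat 307⟩, ⟨.negSucc 187, .ofNat 156, .negSucc 174, .negSucc 13, .ofNat 61, .ofNat 34⟩, ⟨.ofNat 1548, .ofNat 308, .ofNat 77, .negSucc 434, .negSucc 484, .negSucc 227⟩, ⟨.negSucc 4537, .negSucc 243, .negSucc 57, .ofNat 218, .ofNat 731, .ofNat 613⟩, ⟨.negSucc 646, .ofNat 36, .ofNat 22, .negSucc 230, .ofNat 414, .ofNat 156⟩, .ofNat 440, .negSucc 69, .ofNat 0, .negSucc 69, .ofNat 1340, .ofNat 0, .ofNat 385, .ofNat 34, .negSucc 131, .ofNat 0, .ofNat 128, .ofNat 7, .ofNat 0, .ofNat 0, .ofNat 486, .ofNat 1441, .ofNat 0, .ofNat 0, .ofNat 0, .ofNat 0, .ofNat 0, .ofNat 0, .ofNat 0, .ofNat 0, .ofNat 0, .ofNat 0, .ofNat 0, .ofNat 0, .ofNat 0, .ofNat 0, .ofNat 3367681665930510033017284881660510208,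 .ofNat 0⟩)
    (by decide +kernel)
theorem L01899 : Good (Phi V5.P V5.D (-1) 1) ⟨3, 4, 3, 1, 2, 2, 3, 6, 3, 1⟩ :=
  leafX_sound T5.ok_mp T5.Ymp.bz_eq (w := 204) (c := ⟨⟨.negSucc 1975, .negSucc 311, .negSucc 17, .ofNat 89, .ofNat 309, .ofNat 513⟩, ⟨.negSucc 179, .ofNat 163, .negSucc 159, .negSucc 2, .ofNat 49, .ofNat 79⟩, ⟨.ofNat 1337, .ofNat 213, .ofNat 21, .negSucc 348, .negSucc 329, .negSucc 524⟩, ⟨.negSucc 4255, .negSucc 176, .negSucc 24, .ofNat 169, .ofNat 601, .ofNat 995⟩, ⟨.negSucc 621, .ofNat 95, .ofNat 17, .negSucc 60, .ofNat 378, .ofNat 539⟩, .ofNat 438, .negSucc 64, .ofNat 0, .negSucc 64, .ofNat 1339, .ofNat 0, .ofNat 399, .ofNat 40, .negSucc 238, .ofNat 0, .ofNat 128, .ofNat 10, .ofNat 0, .ofNat 0, .ofNat 644, .ofNat 1135, .ofNat 0, .ofNat 0, .ofNat 0, .ofNat 0, .ofNat 0, .ofNat 0, .ofNat 0, .ofNat 0, .ofNat 0, .ofNat 9533647945081745755289606230052261855232,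 .ofNat 916592059703763008913986158835269632, .ofNat 0, .ofNat 0, .ofNat 0, .ofNat 0, .ofNat 0⟩)
    (by decide +kernel)
theorem L01900 : Good (Phi V5.P V5.D (-1) 1) ⟨3, 4, 3, 1, 2, 2, 3, 7, 3, 1⟩ :=
  leafX_sound T5.ok_mp T5.Ymp.bz_eq (w := 203) (c := ⟨⟨.negSucc 1589, .negSucc 283, .negSucc 60, .negSucc 38, .ofNat 520, .ofNat 415⟩, ⟨.negSucc 140, .ofNat 144, .negSucc 140, .ofNat 13, .ofNat 91, .ofNat 93⟩, ⟨.ofNat 933, .ofNat 162, .ofNat 38, .negSucc 172, .negSucc 506, .negSucc 473⟩, ⟨.negSucc 3461, .negSucc 149, .negSucc 130, .negSucc 112, .ofNat 1043, .ofNat 802⟩, ⟨.negSucc 365, .ofNat 55, .negSucc 7, .ofNat 251, .ofNat 573, .ofNat 721⟩, .ofNat 441, .negSucc 68, .ofNat 0, .negSucc 68, .ofNat 1357, .ofNat 0, .ofNat 353, .ofNat 46, .negSucc 238, .ofNat 0, .ofNat 128, .ofNat 8, .ofNat 0, .ofNat 0, .ofNat 569, .ofNat 618, .ofNat 0, .ofNat 0, .ofNat 0, .ofNat 0, .ofNat 0, .ofNat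 12426702409185085760121078966317800751104, .ofNat 0, .ofNat 0, .ofNat 0, .ofNat 23024202970910796160234256241468565880832, .ofNat 0, .ofNat 0, .ofNat 0, .ofNat 11040295971577954233949168029657125093376, .ofNat 1304859364339618564107588642841559040, .ofNat 0⟩)
    (by decide +kernel)
theorem L01901 : Good (Phi V5.P V5.D (-1) 1) ⟨4, 10, 3, 1, 2, 2, 2, 2, 4, 2⟩ :=
  leafX_sound T5.ok_mp T5.Ymp.bz_eq (w := 210) (c := ⟨⟨.negSucc 2664, .negSucc 435, .negSucc 131, .negSucc 137, .ofNat 404, .ofNat 291⟩, ⟨.ofNat 10, .ofNat 138, .negSucc 206, .negSucc 42, .ofNat 26, .ofNat 16⟩, ⟨.ofNat 1945, .ofNat 396, .ofNat 157, .negSucc 232, .negSucc 420, .negSucc 216⟩, ⟨.negSucc 5136, .negSucc 514, .negSucc 208, .negSucc 265, .ofNat 764, .ofNat 552⟩, ⟨.negSucc 650, .ofNat 38, .ofNat 39, .negSucc 380, .ofNat 307, .ofNat 216⟩, .ofNat 475, .ofNat 51, .ofNat 0, .ofNat 51, .ofNat 1971, .ofNat 0,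 .ofNat 576, .negSucc 20, .negSucc 592, .ofNat 0, .ofNat 128, .ofNat 65, .ofNat 0, .ofNat 0, .ofNat 1216, .ofNat 2361, .ofNat 0, .ofNat 0, .ofNat 70877330308701523118249745689083904, .ofNat 0, .ofNat 0, .ofNat 0, .ofNat 4552660932161998630365081378291187712, .ofNat 0, .ofNat 0, .ofNat 0, .ofNat 9574627208870033545851628116613529600, .ofNat 0, .ofNat 0, .ofNat 0, .ofNat 10953900061233773354400266124888375296, .ofNat 0⟩)
    (by decide +kernel)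
theorem L01902 : Good (Phi V5.P V5.D (-1) 1) ⟨4, 10, 3, 1, 2, 2, 2, 3, 4, 2⟩ :=
  leafX_sound T5.ok_mp T5.Ymp.bz_eq (w := 209) (c := ⟨⟨.negSucc 2455, .negSucc 334, .negSucc 41, .negSucc 23, .ofNat 876, .ofNat 417⟩, ⟨.ofNat 14, .ofNat 147, .negSucc 167, .negSucc 19, .ofNat 82, .ofNat 15⟩, ⟨.ofNat 1738, .ofNat 235, .ofNat 32, .negSucc 287, .negSucc 908, .negSucc 407⟩, ⟨.negSucc 4723, .negSucc 344, .negSucc 60, .negSucc 51, .ofNat 1674, .ofNat 787⟩, ⟨.negSucc 514, .ofNat 130, .ofNat 109, .negSucc 154, .ofNat 910, .ofNat 245⟩, .ofNat 458, .ofNat 49, .ofNat 0, .ofNat 49, .ofNat 1715, .ofNat 0, .ofNat 399, .negSucc 11, .negSucc 476, .ofNat 0, .ofNat 128, .ofNat 51, .ofNat 0, .ofNat 0, .ofNat 873, .ofNat 575, .ofNat 0, .ofNat 0, .ofNat 26839881257056473265823300850810880, .ofNat 0, .ofNat 0, .ofNat 256019816233530546418761163974223306162176, .ofNat 663507865153592100965752309855289344,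 .ofNat 0, .ofNat 0, .ofNat 392483889104323691987292435251425083129856, .ofNat 3607627157630820221899106212445683712, .ofNat 0, .ofNat 0, .ofNat 317214977560767503246537245149489835016192, .ofNat 1925612023630316011163107683567927296, .ofNat 0⟩)
    (by decide +kernel)
theorem L01903 : Good (Phi V5.P V5.D (-1) 1) ⟨4, 11, 3, 1, 2, 2, 1, 1, 4, 2⟩ :=
  out_sound (S := T5.ds_mp) T5.ok_mp (w := 51) (j := 3) (by decide +kernel)
theorem L01904 : Good (Phi V5.P V5.D (-1) 1) ⟨3, 5, 3, 1, 2, 2, 2, 2, 4, 3⟩ :=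
  leafX_sound T5.ok_mp T5.Ymp.bz_eq (w := 206) (c := ⟨⟨.negSucc 2537, .negSucc 604, .negSucc 120, .ofNat 138, .ofNat 441, .ofNat 440⟩, ⟨.ofNat 27, .ofNat 244, .negSucc 186, .negSucc 51, .ofNat 27, .negSucc 3⟩, ⟨.ofNat 1984, .ofNat 509, .ofNat 161, .negSucc 535, .negSucc 600, .negSucc 349⟩, ⟨.negSucc 4883, .negSucc 561, .negSucc 178, .ofNat 240, .ofNat 834, .ofNat 823⟩, ⟨.negSucc 485, .ofNat 50, .negSucc 10, .negSucc 381, .ofNat 344, .ofNat 114⟩, .ofNat 457, .ofNat 54, .ofNat 0, .ofNat 54, .ofNat 1709, .ofNat 0, .ofNat 562, .negSucc 25, .negSucc 272, .ofNat 0, .ofNat 128, .ofNat 35, .ofNat 0, .ofNat 0, .ofNat 862, .ofNat 1246, .ofNat 0, .ofNat 0, .ofNat 121287911969096572652409340817309696, .ofNat 0, .ofNat 0, .ofNat 0, .ofNat 0, .ofNat 0, .ofNat 0, .ofNat 0, .ofNat 32971603324887637570082435339372199936, .ofNat 0, .ofNat 0, .ofNat 0, .ofNat 20995134911103440316733299565684326400,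 .ofNat 0⟩)
    (by decide +kernel)
theorem L01905 : Good (Phi V5.P V5.D (-1) 1) ⟨3, 5, 3, 1, 2, 2, 2, 3, 4, 3⟩ :=
  leafX_sound T5.ok_mp T5.Ymp.bz_eq (w := 205) (c := ⟨⟨.negSucc 2100, .negSucc 299, .negSucc 51, .ofNat 180, .ofNat 788, .ofNat 341⟩, ⟨.ofNat 41, .ofNat 183, .negSucc 149, .negSucc 12, .ofNat 89, .ofNat 7⟩, ⟨.ofNat 1432, .ofNat 177, .ofNat 54, .negSucc 526, .negSucc 952, .negSucc 371⟩, ⟨.negSucc 4037, .negSucc 84, .negSucc 99, .ofNat 337, .ofNat 1505, .ofNat 647⟩, ⟨.negSucc 214, .negSucc 74, .negSucc 122, .ofNat 17, .ofNat 832, .ofNat 162⟩, .ofNat 457, .ofNat 49, .ofNat 0, .ofNat 49, .ofNat 1702, .ofNat 0, .ofNat 496, .negSucc 18, .negSucc 201, .ofNat 0, .ofNat 128, .ofNat 23, .ofNat 0, .ofNat 0, .ofNat 675, .ofNat 569, .ofNat 0, .ofNat 0, .ofNat 0, .ofNat 0, .ofNat 0, .ofNat 104477155962823782142396286557492539817984, .ofNat 19507535833332361537049076948392738816,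 .ofNat 0, .ofNat 0, .ofNat 43335870924407149987876685643697197416448, .ofNat 25211377450700465097619646175590219776, .ofNat 0, .ofNat 0, .ofNat 0, .ofNat 13733785019560923658893057138729418752, .ofNat 0⟩)
    (by decide +kernel)
theorem L01906 : Good (Phi V5.P V5.D (-1) 1) ⟨3, 4, 3, 1, 2, 3, 3, 4, 4, 2⟩ :=
  leafX_sound T5.ok_mp T5.Ymp.bz_eq (w := 210) (c := ⟨⟨.negSucc 2352, .negSucc 291, .negSucc 79, .ofNat 680, .ofNat 208, .ofNat 316⟩, ⟨.negSucc 214, .ofNat 119, .negSucc 198, .negSucc 22, .ofNat 30, .ofNat 34⟩, ⟨.ofNat 1388, .ofNat 211, .ofNat 56, .negSucc 683, .negSucc 188, .negSucc 240⟩, ⟨.negSucc 5003, .negSucc 196, .negSucc 76, .ofNat 1408, .ofNat 429, .ofNat 616⟩, ⟨.negSucc 1094, .negSucc 63, .ofNat 3, .negSucc 652, .ofNat 129, .ofNat 190⟩, .ofNat 443, .negSucc 76, .ofNat 0, .negSucc 76, .ofNat 1357, .ofNat 0, .ofNat 432, .ofNat 35, .negSucc 309, .ofNat 0, .ofNat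 128, .ofNat 23, .ofNat 0, .ofNat 0, .ofNat 676, .ofNat 2045, .ofNat 0, .ofNat 0, .ofNat 0, .ofNat 0, .ofNat 0, .ofNat 0, .ofNat 29302949162317477235417205972450410496, .ofNat 0, .ofNat 0, .ofNat 0, .ofNat 0, .ofNat 0, .ofNat 0, .ofNat 0, .ofNat 0, .ofNat 0⟩)
    (by decide +kernel)
theorem L01907 : Good (Phi V5.P V5.D (-1) 1) ⟨3, 4, 3, 1, 2, 3, 3, 5, 4, 2⟩ :=
  leafX_sound T5.ok_mp T5.Ymp.bz_eq (w := 209) (c := ⟨⟨.negSucc 2159, .negSucc 275, .negSucc 72, .ofNat 746, .ofNat 224, .ofNat 333⟩, ⟨.negSucc 204, .ofNat 109, .negSucc 170, .negSucc 18, .ofNat 47, .ofNat 49⟩, ⟨.ofNat 1187, .ofNat 175, .ofNat 34, .negSucc 641, .negSucc 175, .negSucc 264⟩, ⟨.negSucc 4590, .negSucc 190, .negSucc 70, .ofNat 1556, .ofNat 451, .ofNat 630⟩, ⟨.negSucc 1063, .negSucc 86, .ofNat 22, .negSucc 665, .ofNat 329, .ofNat 380⟩, .ofNat 438, .negSucc 60, .ofNat 0, .negSucc 60, .ofNat 1350, .ofNat 0,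 .ofNat 478, .ofNat 38, .negSucc 326, .ofNat 0, .ofNat 128, .ofNat 28, .ofNat 0, .ofNat 0, .ofNat 656, .ofNat 1239, .ofNat 0, .ofNat 0, .ofNat 0, .ofNat 0, .ofNat 0, .ofNat 0, .ofNat 130090847258330277715302682084232921088, .ofNat 0, .ofNat 0, .ofNat 0, .ofNat 0, .ofNat 0, .ofNat 0, .ofNat 0, .ofNat 0, .ofNat 0⟩)
    (by decide +kernel)
theorem L01908 : Good (Phi V5.P V5.D (-1) 1) ⟨3, 4, 3, 1, 2, 3, 3, 6, 4, 2⟩ :=
  leafX_sound T5.ok_mp T5.Ymp.bz_eq (w := 209) (c := ⟨⟨.negSucc 2067, .negSucc 117, .negSucc 4, .ofNat 794, .ofNat 317, .ofNat 339⟩, ⟨.negSucc 192, .ofNat 124, .negSucc 158, .ofNat 12, .ofNat 76, .ofNat 63⟩, ⟨.ofNat 1120, .ofNat 11, .negSucc 5, .negSucc 611, .negSucc 257, .negSucc 274⟩, ⟨.negSucc 4359, .ofNat 78, .ofNat 26, .ofNat 1653, .ofNat 612, .ofNat 628⟩, ⟨.negSucc 900, .ofNat 23, .negSucc 22, .negSucc 450, .ofNat 569, .ofNat 586⟩, .ofNat 442, .negSucc 73,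 .ofNat 0, .negSucc 73, .ofNat 1379, .ofNat 0, .ofNat 457, .ofNat 50, .negSucc 308, .ofNat 0, .ofNat 128, .ofNat 28, .ofNat 0, .ofNat 0, .ofNat 630, .ofNat 977, .ofNat 0, .ofNat 0, .ofNat 0, .ofNat 0, .ofNat 0, .ofNat 122572103969374826616124890023552366936064, .ofNat 24166263218842691687450940182867476480, .ofNat 0, .ofNat 0, .ofNat 25370802865215196656264431572764501999616, .ofNat 0, .ofNat 0, .ofNat 0, .ofNat 28662215381433830887397687340948309147648, .ofNat 0, .ofNat 0⟩)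
    (by decide +kernel)
theorem L01909 : Good (Phi V5.P V5.D (-1) 1) ⟨3, 4, 3, 1, 2, 3, 3, 7, 4, 2⟩ :=
  leafX_sound T5.ok_mp T5.Ymp.bz_eq (w := 209) (c := ⟨⟨.negSucc 1792, .negSucc 36, .ofNat 22, .ofNat 893, .ofNat 518, .ofNat 383⟩, ⟨.negSucc 144, .ofNat 103, .negSucc 116, .ofNat 18, .ofNat 144, .ofNat 91⟩, ⟨.ofNat 871, .negSucc 77, .negSucc 29, .negSucc 568, .negSucc 404, .negSucc 300⟩, ⟨.negSucc 3839, .ofNat 280, .ofNat 77, .ofNat 1773, .ofNat 983, .ofNat 714⟩, ⟨.negSucc 376, .negSucc 180, .negSucc 34, .negSucc 170, .ofNat 1031, .ofNat 765⟩, .ofNat 504, .negSucc 125, .ofNat 0, .negSucc 125, .ofNat 2164, .ofNat 0, .ofNat 467, .ofNat 71, .negSucc 339, .ofNat 0, .ofNat 128, .ofNat 19, .ofNat 0, .ofNat 0, .ofNat 644, .ofNat 516, .ofNat 0, .ofNat 0, .ofNat 0, .ofNat 0, .ofNat 0, .ofNat 185723306940851577156007970745264094838784, .ofNat 0, .ofNat 0, .ofNat 0, .ofNat 148229442487220916722606908848463239184384,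 .ofNat 0, .ofNat 0, .ofNat 0, .ofNat 114158800154406888086611182686974204968960, .ofNat 0, .ofNat 0⟩)
    (by decide +kernel)
theorem L01910 : Good (Phi V5.P V5.D (-1) 1) ⟨4, 10, 3, 1, 2, 3, 3, 4, 5, 4⟩ :=
  leafX_sound T5.ok_mp T5.Ymp.bz_eq (w := 219) (c := ⟨⟨.negSucc 2960, .negSucc 240, .negSucc 154, .ofNat 991, .ofNat 330, .ofNat 214⟩, ⟨.negSucc 11, .ofNat 84, .negSucc 200, .negSucc 115, .negSucc 4, .negSucc 8⟩, ⟨.ofNat 1896, .ofNat 173, .ofNat 104, .negSucc 986, .negSucc 308, .negSucc 159⟩, ⟨.negSucc 5681, .negSucc 218, .negSucc 206, .ofNat 1828, .ofNat 610, .ofNat 399⟩, ⟨.negSucc 1040, .negSucc 41, .ofNat 208, .negSucc 672, .ofNat 55, .negSucc 33⟩, .ofNat 458, .ofNat 51, .ofNat 0, .ofNat 51, .ofNat 1711, .ofNat 0, .ofNat 387, .negSucc 30, .negSucc 412, .ofNat 0, .ofNat 128, .ofNat 55, .ofNat 0, .ofNat 0, .ofNat 638, .ofNat 2278, .ofNat 0, .ofNat 0, .ofNat 6055266836620766760207463837742399488,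 .ofNat 0, .ofNat 0, .ofNat 0, .ofNat 1782508811909976555775014339402283352064, .ofNat 0, .ofNat 0, .ofNat 0, .ofNat 1057419850200127223099071329144900943872, .ofNat 0, .ofNat 0, .ofNat 0, .ofNat 2696841745241054900514505169666595356672, .ofNat 0⟩)
    (by decide +kernel)
theorem L01911 : Good (Phi V5.P V5.D (-1) 1) ⟨4, 11, 3, 1, 2, 3, 3, 4, 5, 4⟩ :=
  out_sound (S := T5.ds_mp) T5.ok_mp (w := 51) (j := 3) (by decide +kernel)
theorem L01912 : Good (Phi V5.P V5.D (-1) 1) ⟨3, 5, 3, 1, 2, 3, 3, 4, 5, 5⟩ :=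
  leafX_sound T5.ok_mp T5.Ymp.bz_eq (w := 215) (c := ⟨⟨.negSucc 2813, .negSucc 265, .negSucc 87, .ofNat 1086, .ofNat 313, .ofNat 311⟩, ⟨.negSucc 0, .ofNat 117, .negSucc 204, .negSucc 144, .ofNat 5, .negSucc 6⟩, ⟨.ofNat 1783, .ofNat 175, .ofNat 81, .negSucc 1032, .negSucc 316, .negSucc 247⟩, ⟨.negSucc 5395, .negSucc 132, .negSucc 84, .ofNat 2016, .ofNat 585, .ofNat 582⟩, ⟨.negSucc 957, .negSucc 11, .negSucc 21, .negSucc 918, .ofNat 145, .ofNat 69⟩, .ofNat 407, .ofNat 29, .ofNat 0, .ofNat 29, .ofNat 1169, .ofNat 0, .ofNat 396, .negSucc 24, .negSucc 261, .ofNat 0, .ofNat 128, .ofNat 43, .ofNat 0, .ofNat 0, .ofNat 523, .ofNat 1934, .ofNat 0, .ofNat 0, .ofNat 45426769532492063859599461546608033792, .ofNat 0, .ofNat 0, .ofNat 0, .ofNat 5378428419344833769855597996108385615872, .ofNat 0, .ofNat 0, .ofNat 0, .ofNat 6566957302367994660024272362160454107136, .ofNat 0, .ofNat 0, .ofNat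 0, .ofNat 8092058674850047870953563235997873864704, .ofNat 0⟩)
    (by decide +kernel)
theorem L01913 : Good (Phi V5.P V5.D (-1) 1) ⟨4, 10, 3, 1, 2, 3, 3, 5, 4, 2⟩ :=
  leafX_sound T5.ok_mp T5.Ymp.bz_eq (w := 214) (c := ⟨⟨.negSucc 2779, .negSucc 114, .negSucc 75, .ofNat 1149, .ofNat 352, .ofNat 501⟩, ⟨.negSucc 19, .ofNat 58, .negSucc 181, .negSucc 138, .ofNat 26, .ofNat 26⟩, ⟨.ofNat 1668, .ofNat 64, .ofNat 75, .negSucc 985, .negSucc 307, .negSucc 424⟩, ⟨.negSucc 5351, .negSucc 38, .negSucc 68, .ofNat 2149, .ofNat 673, .ofNat 971⟩, ⟨.negSucc 1017, .negSucc 35, .ofNat 9, .negSucc 874, .ofNat 304, .ofNat 334⟩, .ofNat 406, .ofNat 32, .ofNat 0, .ofNat 32, .ofNat 1169, .ofNat 0, .ofNat 371, .negSucc 16, .negSucc 317, .ofNat 0, .ofNat 128, .ofNat 53, .ofNat 0, .ofNat 0, .ofNat 585, .ofNat 1463, .ofNat 0, .ofNat 0, .ofNat 225857463493528511415134396818128896, .ofNat 0, .ofNat 0,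 .ofNat 0, .ofNat 37492230497377468685511719721422028800, .ofNat 0, .ofNat 0, .ofNat 0, .ofNat 13568481549236618468144250524021030912, .ofNat 0, .ofNat 0, .ofNat 0, .ofNat 48043553350854632214005986454021341184, .ofNat 0⟩)
    (by decide +kernel)
theorem L01914 : Good (Phi V5.P V5.D (-1) 1) ⟨4, 11, 3, 1, 2, 3, 3, 5, 4, 2⟩ :=
  out_sound (S := T5.ds_mp) T5.ok_mp (w := 51) (j := 3) (by decide +kernel)
theorem L01915 : Good (Phi V5.P V5.D (-1) 1) ⟨3, 5, 3, 1, 3, 6, 2, 3, 4, 2⟩ :=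
  leafX_sound T5.ok_mp T5.Ymp.bz_eq (w := 219) (c := ⟨⟨.negSucc 2502, .negSucc 376, .negSucc 132, .ofNat 594, .ofNat 877, .ofNat 567⟩, ⟨.negSucc 5, .ofNat 170, .negSucc 165, .negSucc 59, .ofNat 110, .ofNat 39⟩, ⟨.ofNat 1453, .ofNat 249, .ofNat 122, .negSucc 545, .negSucc 754, .negSucc 529⟩, ⟨.negSucc 4815, .negSucc 312, .negSucc 241, .ofNat 1123, .ofNat 1693, .ofNat 1111⟩, ⟨.negSucc 795, .ofNat 120, .ofNat 120, .negSucc 370, .ofNat 1143, .ofNat 442⟩, .ofNat 390, .ofNat 39, .ofNat 0, .ofNat 39, .ofNat 968, .ofNat 0, .ofNat 212, .negSucc 6, .negSucc 223, .ofNat 0, .ofNat 128, .ofNat 47, .ofNat 0, .ofNat 0, .ofNat 343, .ofNat 418, .ofNat 0, .ofNat 0, .ofNat 830192415864544729632218751553148813312, .ofNat 0, .ofNat 0, .ofNat 24832476208240703220516329814983675333312512, .ofNat 57898798735727285103888632174492369551360, .ofNat 0, .ofNat 0, .ofNat 79941657349953158068444362802867612472573952,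 .ofNat 69875653534882877302597600835149760561152, .ofNat 0, .ofNat 0, .ofNat 16561265813485540575316026243429327261663232, .ofNat 77488641527525179406754116829410341421056, .ofNat 0⟩)
    (by decide +kernel)
theorem L01916 : Good (Phi V5.P V5.D (-1) 1) ⟨3, 5, 3, 1, 3, 7, 2, 3, 4, 2⟩ :=
  leafX_sound T5.ok_mp T5.Ymp.bz_eq (w := 217) (c := ⟨⟨.negSucc 1848, .ofNat 127, .ofNat 64, .ofNat 615, .ofNat 907, .ofNat 365⟩, ⟨.negSucc 74, .ofNat 40, .negSucc 152, .negSucc 63, .ofNat 129, .ofNat 76⟩, ⟨.ofNat 809, .negSucc 72, .negSucc 79, .negSucc 386, .negSucc 638, .negSucc 258⟩, ⟨.negSucc 3584, .ofNat 473, .ofNat 213, .ofNat 1171, .ofNat 1741, .ofNat 707⟩, ⟨.negSucc 1274, .negSucc 45, .negSucc 219, .negSucc 413, .ofNat 1330, .ofNat 795⟩, .ofNat 407, .ofNat 27, .ofNat 0, .ofNat 27, .ofNat 1166, .ofNat 0, .ofNat 192, .negSucc 1, .negSucc 133, .ofNat 0, .ofNat 128, .ofNat 28, .ofNat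 0, .ofNat 0, .ofNat 285, .ofNat 224, .ofNat 0, .ofNat 0, .ofNat 0, .ofNat 0, .ofNat 0, .ofNat 11160075256508613034928219267367258432733184, .ofNat 28550270936629890506871328844659310985216, .ofNat 0, .ofNat 0, .ofNat 52836973143074450080851834572997870468726784, .ofNat 35598279652998344422125005205055840714752, .ofNat 0, .ofNat 0, .ofNat 12767779914085322697146968134798560815218688, .ofNat 30054725453644835988337033863138962833408, .ofNat 0⟩)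
    (by decide +kernel)
theorem L01917 : Good (Phi V5.P V5.D (-1) 1) ⟨3, 4, 3, 1, 2, 3, 3, 4, 4, 3⟩ :=
  leafX_sound T5.ok_mp T5.Ymp.bz_eq (w := 209) (c := ⟨⟨.negSucc 2086, .negSucc 131, .negSucc 33, .ofNat 634, .ofNat 212, .ofNat 325⟩, ⟨.negSucc 202, .ofNat 110, .negSucc 168, .negSucc 1, .ofNat 35, .ofNat 56⟩, ⟨.ofNat 1201, .ofNat 49, .ofNat 48, .negSucc 638, .negSucc 214, .negSucc 234⟩, ⟨.negSucc 4460, .ofNat 94, .ofNat 16, .ofNat 1329, .ofNat 417, .ofNat 649⟩, ⟨.negSucc 1026, .negSucc 80, .negSucc 42, .negSucc 448, .ofNat 264, .ofNat 369⟩, .ofNat 442, .negSucc 68, .ofNat 0, .negSucc 68, .ofNat 1369, .ofNat 0, .ofNat 278, .ofNat 24, .negSucc 114, .ofNat 0, .ofNat 128, .ofNat 13, .ofNat 0, .ofNat 0, .ofNat 524, .ofNat 1431, .ofNat 0, .ofNat 0, .ofNat 0, .ofNat 0, .ofNat 0, .ofNat 0, .ofNat 0, .ofNat 0, .ofNat 0, .ofNat 0, .ofNat 0, .ofNat 0, .ofNat 0, .ofNat 69091288142131355425055061703321087639552,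 .ofNat 0, .ofNat 0⟩)
    (by decide +kernel)
theorem L01918 : Good (Phi V5.P V5.D (-1) 1) ⟨3, 4, 3, 1, 3, 6, 3, 5, 4, 3⟩ :=
  leafX_sound T5.ok_mp T5.Ymp.bz_eq (w := 224) (c := ⟨⟨.negSucc 1845, .negSucc 174, .negSucc 42, .ofNat 302, .ofNat 209, .ofNat 305⟩, ⟨.negSucc 182, .ofNat 127, .negSucc 160, .ofNat 2, .ofNat 58, .ofNat 56⟩, ⟨.ofNat 968, .ofNat 74, .ofNat 35, .negSucc 321, .negSucc 205, .negSucc 263⟩, ⟨.negSucc 3987, .ofNat 67, .negSucc 32, .ofNat 604, .ofNat 403, .ofNat 603⟩, ⟨.negSucc 845, .negSucc 101, .ofNat 30, .negSucc 53, .ofNat 432, .ofNat 387⟩, .ofNat 503, .negSucc 118, .ofNat 0, .negSucc 118, .ofNat 2153, .ofNat 0, .ofNat 499, .ofNat 39, .negSucc 133, .ofNat 0, .ofNat 128, .ofNat 9, .ofNat 0, .ofNat 0, .ofNat 611, .ofNat 2043, .ofNat 0, .ofNat 0, .ofNat 0, .ofNat 0, .ofNat 0, .ofNat 0, .ofNat 0, .ofNat 0, .ofNat 0, .ofNat 0, .ofNat 0, .ofNat 0, .ofNat 0,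 .ofNat 297498179847694936999264551108030273480032256, .ofNat 0, .ofNat 0⟩)
    (by decide +kernel)
theorem L01919 : Good (Phi V5.P V5.D (-1) 1) ⟨3, 4, 3, 1, 3, 7, 3, 5, 4, 3⟩ :=
  leafX_sound T5.ok_mp T5.Ymp.bz_eq (w := 222) (c := ⟨⟨.negSucc 1637, .negSucc 2, .ofNat 24, .ofNat 342, .ofNat 241, .ofNat 286⟩, ⟨.negSucc 170, .ofNat 90, .negSucc 137, .ofNat 3, .ofNat 59, .ofNat 67⟩, ⟨.ofNat 717, .negSucc 56, .negSucc 45, .negSucc 207, .negSucc 158, .negSucc 205⟩, ⟨.negSucc 3492, .ofNat 283, .ofNat 142, .ofNat 719, .ofNat 453, .ofNat 547⟩, ⟨.negSucc 1020, .negSucc 130, .negSucc 178, .negSucc 127, .ofNat 593, .ofNat 638⟩, .ofNat 446, .negSucc 77, .ofNat 0, .negSucc 77, .ofNat 1386, .ofNat 0, .ofNat 271, .ofNat 30, .negSucc 67, .ofNat 0, .ofNat 128, .ofNat 13, .ofNat 0, .ofNat 0, .ofNat 422, .ofNat 1031, .ofNat 0, .ofNat 0, .ofNat 0, .ofNat 0, .ofNat 0, .ofNat 0, .ofNat 0, .ofNat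 0, .ofNat 0, .ofNat 0, .ofNat 0, .ofNat 0, .ofNat 0, .ofNat 392784350243167420770186148884176153159401472, .ofNat 0, .ofNat 0⟩)
    (by decide +kernel)
theorem L01920 : Good (Phi V5.P V5.D (-1) 1) ⟨3, 5, 3, 1, 3, 6, 2, 2, 4, 3⟩ :=
  leafX_sound T5.ok_mp T5.Ymp.bz_eq (w := 218) (c := ⟨⟨.negSucc 2402, .negSucc 367, .negSucc 84, .ofNat 446, .ofNat 474, .ofNat 505⟩, ⟨.negSucc 30, .ofNat 129, .negSucc 184, .negSucc 48, .ofNat 69, .ofNat 13⟩, ⟨.ofNat 1477, .ofNat 236, .ofNat 121, .negSucc 476, .negSucc 589, .negSucc 428⟩, ⟨.negSucc 4641, .negSucc 266, .negSucc 80, .ofNat 829, .ofNat 926, .ofNat 961⟩, ⟨.negSucc 1005, .negSucc 118, .negSucc 26, .negSucc 311, .ofNat 661, .ofNat 282⟩, .ofNat 406, .ofNat 30, .ofNat 0, .ofNat 30, .ofNat 1164, .ofNat 0, .ofNat 223, .negSucc 24, .negSucc 69, .ofNat 0, .ofNat 128, .ofNat 13, .ofNat 0, .ofNat 0, .ofNat 269, .ofNat 465, .ofNat 0, .ofNat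 0, .ofNat 0, .ofNat 0, .ofNat 0, .ofNat 0, .ofNat 0, .ofNat 0, .ofNat 0, .ofNat 0, .ofNat 0, .ofNat 0, .ofNat 0, .ofNat 10637295064747862252145458847733957661818880, .ofNat 26392406667661476459173235650658861842432, .ofNat 0⟩)
    (by decide +kernel)
theorem L01921 : Good (Phi V5.P V5.D (-1) 1) ⟨3, 5, 3, 1, 3, 7, 2, 2, 4, 3⟩ :=
  leafX_sound T5.ok_mp T5.Ymp.bz_eq (w := 218) (c := ⟨⟨.negSucc 1965, .ofNat 31, .ofNat 18, .ofNat 457, .ofNat 546, .ofNat 318⟩, ⟨.negSucc 96, .ofNat 37, .negSucc 165, .negSucc 38, .ofNat 80, .ofNat 55⟩, ⟨.ofNat 963, .negSucc 95, .ofNat 34, .negSucc 350, .negSucc 472, .negSucc 287⟩, ⟨.negSucc 3808, .ofNat 316, .ofNat 123, .ofNat 852, .ofNat 1052, .ofNat 622⟩, ⟨.negSucc 1490, .negSucc 121, .negSucc 127, .negSucc 264, .ofNat 811, .ofNat 607⟩, .ofNat 458, .ofNat 51, .ofNat 0, .ofNat 51, .ofNat 1714, .ofNat 0, .ofNat 323, .negSucc 21, .negSucc 71, .ofNat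 0, .ofNat 128, .ofNat 16, .ofNat 0, .ofNat 0, .ofNat 394, .ofNat 322, .ofNat 0, .ofNat 0, .ofNat 0, .ofNat 0, .ofNat 0, .ofNat 0, .ofNat 0, .ofNat 0, .ofNat 0, .ofNat 0, .ofNat 117617145561460194699454151982782783422464, .ofNat 0, .ofNat 0, .ofNat 63735553306378759250138989311590319922348032, .ofNat 57953969916365025692339464771369235906560, .ofNat 0⟩)
    (by decide +kernel)
theorem L01922 : Good (Phi V5.P V5.D (-1) 1) ⟨3, 4, 3, 1, 2, 3, 2, 3, 4, 3⟩ :=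
  leafX_sound T5.ok_mp T5.Ymp.bz_eq (w := 204) (c := ⟨⟨.negSucc 1672, .negSucc 41, .negSucc 21, .ofNat 695, .ofNat 472, .ofNat 270⟩, ⟨.negSucc 136, .ofNat 101, .negSucc 125, .ofNat 34, .ofNat 158, .ofNat 57⟩, ⟨.ofNat 788, .negSucc 94, .ofNat 26, .negSucc 469, .negSucc 465, .negSucc 285⟩, ⟨.negSucc 3628, .ofNat 247, .negSucc 15, .ofNat 1474, .ofNat 929, .ofNat 539⟩, ⟨.negSucc 411, .negSucc 58, .negSucc 12, .negSucc 159, .ofNat 1507, .ofNat 485⟩, .ofNat 327, .negSucc 23, .ofNat 0, .negSucc 23, .ofNat 659, .ofNat 0, .ofNat 322, .ofNat 16, .negSucc 125, .ofNat 0, .ofNat 128, .ofNat 29, .ofNat 0, .ofNat 0, .ofNat 475, .ofNat 309, .ofNat 0, .ofNat 0, .ofNat 0, .ofNat 0, .ofNat 0, .ofNat 30657020754429688076022301703068169797632, .ofNat 0, .ofNat 0, .ofNat 0, .ofNat 21814122617754230546863410669515754700800, .ofNat 1017506354562975209783029406413881344, .ofNat 0, .ofNat 0, .ofNat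 38894209343016460643385808145588523368448, .ofNat 0, .ofNat 0⟩)
    (by decide +kernel)
theorem L01923 : Good (Phi V5.P V5.D (-1) 1) ⟨3, 5, 3, 1, 2, 3, 2, 3, 4, 3⟩ :=
  leafX_sound T5.ok_mp T5.Ymp.bz_eq (w := 204) (c := ⟨⟨.negSucc 1891, .negSucc 80, .negSucc 10, .ofNat 1014, .ofNat 690, .ofNat 358⟩, ⟨.ofNat 3, .ofNat 131, .negSucc 113, .negSucc 61, .ofNat 160, .ofNat 56⟩, ⟨.ofNat 826, .ofNat 29, .ofNat 29, .negSucc 668, .negSucc 711, .negSucc 380⟩, ⟨.negSucc 3633, .ofNat 179, .ofNat 32, .ofNat 1902, .ofNat 1339, .ofNat 684⟩, ⟨.negSucc 467, .ofNat 128, .negSucc 44, .negSucc 314, .ofNat 1441, .ofNat 541⟩, .ofNat 458, .ofNat 49, .ofNat 0, .ofNat 49, .ofNat 1712, .ofNat 0, .ofNat 429, .negSucc 20, .negSucc 163, .ofNat 0, .ofNat 128, .ofNat 29, .ofNat 0, .ofNat 0, .ofNat 651, .ofNat 481, .ofNat 0, .ofNat 0, .ofNat 0, .ofNat 0, .ofNat 0, .ofNat 74221923453471279193912129558084797333504,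 .ofNat 13427207882244684967141336135355072512, .ofNat 0, .ofNat 0, .ofNat 41319654408560300729030802276754988728320, .ofNat 19667175864924052958985412980491943936, .ofNat 0, .ofNat 0, .ofNat 101987756845846609332993959582310743408640, .ofNat 10869100700388619011443757468927131648, .ofNat 0⟩)
    (by decide +kernel)
theorem L01924 : Good (Phi V5.P V5.D (-1) 1) ⟨2, 3, 3, 1, 1, 1, 1, 1, 3, 1⟩ :=
  out_sound (S := T5.ds_mp) T5.ok_mp (w := 39) (j := 3) (by decide +kernel)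
theorem L01925 : Good (Phi V5.P V5.D (-1) 1) ⟨3, 4, 2, 0, 2, 2, 2, 2, 4, 4⟩ :=
  leafX_sound T5.ok_mp T5.Ymp.bz_eq (w := 202) (c := ⟨⟨.negSucc 1799, .negSucc 259, .negSucc 70, .ofNat 159, .ofNat 297, .ofNat 218⟩, ⟨.ofNat 9, .ofNat 137, .negSucc 319, .negSucc 10, .ofNat 37, .ofNat 18⟩, ⟨.ofNat 1394, .ofNat 180, .ofNat 118, .negSucc 558, .negSucc 538, .negSucc 144⟩, ⟨.negSucc 3970, .negSucc 84, .negSucc 69, .ofNat 327, .ofNat 600, .ofNat 454⟩, ⟨.negSucc 529, .ofNat 86, .ofNat 27, .negSucc 190, .ofNat 386, .ofNat 150⟩, .ofNat 441, .negSucc 24, .ofNat 0, .negSucc 24, .ofNat 1462, .ofNat 0, .ofNat 259, .ofNat 8, .negSucc 74, .ofNat 0, .ofNat 128, .ofNat 5, .ofNat 0, .ofNat 0, .ofNat 559, .ofNat 1499, .ofNat 0, .ofNat 0, .ofNat 0, .ofNat 0, .ofNat 0, .ofNat 2360071037350434661399843811217524129792, .ofNat 0, .ofNat 0, .ofNat 0, .ofNat 0, .ofNat 0, .ofNat 0, .ofNat 0, .ofNat 5459864568935230063551058687536677257216,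 .ofNat 1226953066386015583402233621225930752, .ofNat 0⟩)
    (by decide +kernel)
theorem L01926 : Good (Phi V5.P V5.D (-1) 1) ⟨3, 4, 2, 0, 2, 3, 2, 2, 5, 8⟩ :=
  leafX_sound T5.ok_mp T5.Ymp.bz_eq (w := 205) (c := ⟨⟨.negSucc 1671, .negSucc 101, .ofNat 19, .ofNat 479, .ofNat 275, .ofNat 76⟩, ⟨.ofNat 4, .ofNat 118, .negSucc 296, .negSucc 15, .ofNat 39, .ofNat 11⟩, ⟨.ofNat 927, .negSucc 29, .ofNat 14, .negSucc 542, .negSucc 467, .negSucc 88⟩, ⟨.negSucc 3682, .ofNat 146, .ofNat 139, .ofNat 1013, .ofNat 568, .ofNat 171⟩, ⟨.negSucc 767, .negSucc 123, .negSucc 153, .negSucc 73, .ofNat 754, .ofNat 269⟩, .ofNat 325, .negSucc 0, .ofNat 0, .negSucc 0, .ofNat 680, .ofNat 0, .ofNat 163, .negSucc 8, .negSucc 28, .ofNat 0, .ofNat 128, .ofNat 7, .ofNat 0, .ofNat 0, .ofNat 291, .ofNat 226, .ofNat 0, .ofNat 0, .ofNat 0, .ofNat 0, .ofNat 0, .ofNat 0, .ofNat 0, .ofNat 0, .ofNat 0, .ofNat 0,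 .ofNat 0, .ofNat 0, .ofNat 0, .ofNat 12972711877385408682273177293993646489600, .ofNat 0, .ofNat 0⟩)
    (by decide +kernel)
theorem L01927 : Good (Phi V5.P V5.D (-1) 1) ⟨3, 4, 2, 0, 2, 3, 2, 2, 5, 9⟩ :=
  leafX_sound T5.ok_mp T5.Ymp.bz_eq (w := 206) (c := ⟨⟨.negSucc 1546, .negSucc 108, .negSucc 9, .ofNat 444, .ofNat 229, .ofNat 109⟩, ⟨.ofNat 6, .ofNat 112, .negSucc 280, .negSucc 11, .ofNat 52, .ofNat 10⟩, ⟨.ofNat 835, .negSucc 55, .ofNat 75, .negSucc 642, .negSucc 521, .negSucc 109⟩, ⟨.negSucc 3410, .ofNat 131, .ofNat 70, .ofNat 926, .ofNat 480, .ofNat 228⟩, ⟨.negSucc 636, .negSucc 46, .negSucc 55, .negSucc 25, .ofNat 730, .ofNat 155⟩, .ofNat 327, .negSucc 4, .ofNat 0, .negSucc 4, .ofNat 681, .ofNat 0, .ofNat 255, .negSucc 6, .negSucc 26, .ofNat 0, .ofNat 128, .ofNat 6, .ofNat 0, .ofNat 0, .ofNat 419, .ofNat 573, .ofNat 0, .ofNat 0, .ofNat 0, .ofNat 0, .ofNat 0, .ofNat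 41101118867214832397753048576142205779968, .ofNat 0, .ofNat 0, .ofNat 0, .ofNat 34898636796320878996072114279027767771136, .ofNat 0, .ofNat 0, .ofNat 0, .ofNat 47545702876309782860562926641933478526976, .ofNat 0, .ofNat 0⟩)
    (by decide +kernel)
theorem L01928 : Good (Phi V5.P V5.D (-1) 1) ⟨3, 5, 2, 0, 2, 2, 2, 2, 4, 4⟩ :=
  leafX_sound T5.ok_mp T5.Ymp.bz_eq (w := 202) (c := ⟨⟨.negSucc 2167, .negSucc 326, .negSucc 50, .ofNat 241, .ofNat 358, .ofNat 350⟩, ⟨.ofNat 204, .ofNat 231, .negSucc 336, .negSucc 54, .ofNat 3, .negSucc 33⟩, ⟨.ofNat 1736, .ofNat 227, .ofNat 120, .negSucc 761, .negSucc 647, .negSucc 291⟩, ⟨.negSucc 4195, .negSucc 112, .negSucc 42, .ofNat 406, .ofNat 702, .ofNat 654⟩, ⟨.negSucc 439, .ofNat 25, .ofNat 34, .negSucc 266, .ofNat 396, .ofNat 113⟩, .ofNat 409, .ofNat 125, .ofNat 0, .ofNat 125, .ofNat 1219, .ofNat 0, .ofNat 265, .negSucc 66, .negSucc 87, .ofNat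 0, .ofNat 128, .ofNat 17, .ofNat 0, .ofNat 0, .ofNat 546, .ofNat 955, .ofNat 0, .ofNat 0, .ofNat 0, .ofNat 0, .ofNat 0, .ofNat 0, .ofNat 7436848157441118983962136252709339136, .ofNat 0, .ofNat 0, .ofNat 4567676581402152642115580424338593021952, .ofNat 8380863670703575981271357435890630656, .ofNat 0, .ofNat 0, .ofNat 2956704623426058391253907808177394548736, .ofNat 11405257595390276036488923313162158080, .ofNat 0⟩)
    (by decide +kernel)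
theorem L01929 : Good (Phi V5.P V5.D (-1) 1) ⟨3, 5, 2, 0, 2, 3, 2, 2, 5, 8⟩ :=
  leafX_sound T5.ok_mp T5.Ymp.bz_eq (w := 205) (c := ⟨⟨.negSucc 1929, .negSucc 62, .ofNat 28, .ofNat 720, .ofNat 374, .ofNat 148⟩, ⟨.ofNat 146, .ofNat 107, .negSucc 304, .negSucc 90, .ofNat 48, .negSucc 1⟩, ⟨.ofNat 1091, .negSucc 125, .ofNat 54, .negSucc 788, .negSucc 652, .negSucc 220⟩, ⟨.negSucc 3753, .ofNat 198, .ofNat 137, .ofNat 1302, .ofNat 770, .ofNat 285⟩, ⟨.negSucc 836, .negSucc 89, .negSucc 127, .negSucc 132, .ofNat 801, .ofNat 187⟩, .ofNat 394, .ofNat 75, .ofNat 0, .ofNat 75, .ofNat 1033, .ofNat 0, .ofNat 202, .negSucc 40, .negSucc 22, .ofNat 0, .ofNat 128, .ofNat 9, .ofNat 0, .ofNat 0, .ofNat 360, .ofNat 262, .ofNat 0, .ofNat 0, .ofNat 0, .ofNat 0, .ofNat 0, .ofNat 0, .ofNat 0, .ofNat 0, .ofNat 0, .ofNat 0, .ofNat 0, .ofNat 0, .ofNat 0, .ofNat 24214806859817374037841883553025167982592,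 .ofNat 35397790826374013277412139075826089984, .ofNat 0⟩)
    (by decide +kernel)
theorem L01930 : Good (Phi V5.P V5.D (-1) 1) ⟨3, 5, 2, 0, 2, 3, 2, 2, 5, 9⟩ :=
  leafX_sound T5.ok_mp T5.Ymp.bz_eq (w := 206) (c := ⟨⟨.negSucc 1723, .negSucc 106, .ofNat 6, .ofNat 611, .ofNat 293, .ofNat 129⟩, ⟨.ofNat 128, .ofNat 126, .negSucc 283, .negSucc 64, .ofNat 65, .ofNat 7⟩, ⟨.ofNat 876, .negSucc 64, .ofNat 107, .negSucc 911, .negSucc 696, .negSucc 189⟩, ⟨.negSucc 3371, .ofNat 143, .ofNat 97, .ofNat 1120, .ofNat 622, .ofNat 252⟩, ⟨.negSucc 672, .negSucc 77, .negSucc 50, .negSucc 102, .ofNat 757, .ofNat 159⟩, .ofNat 306, .ofNat 41, .ofNat 0, .ofNat 41, .ofNat 620, .ofNat 0, .ofNat 202, .negSucc 36, .negSucc 22, .ofNat 0, .ofNat 128, .ofNat 7, .ofNat 0, .ofNat 0, .ofNat 382, .ofNat 861, .ofNat 0, .ofNat 0, .ofNat 0, .ofNat 0, .ofNat 0, .ofNat 50098135904329953499244453041229245972480,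 .ofNat 47136697189546920802523840619558731776, .ofNat 0, .ofNat 0, .ofNat 56650809883244882353077761685752870076416, .ofNat 134052583997702802977744612123356430336, .ofNat 0, .ofNat 0, .ofNat 44406377655384210354027486683092475707392, .ofNat 47831738903681805164263869637694849024, .ofNat 0⟩)
    (by decide +kernel)
theorem L01931 : Good (Phi V5.P V5.D (-1) 1) ⟨2, 2, 2, 0, 2, 2, 2, 2, 4, 5⟩ :=
  leafX_sound T5.ok_mp T5.Ymp.bz_eq (w := 197) (c := ⟨⟨.negSucc 1622, .negSucc 384, .negSucc 29, .ofNat 202, .ofNat 239, .ofNat 198⟩, ⟨.ofNat 15, .ofNat 281, .negSucc 278, .negSucc 7, .ofNat 29, .ofNat 4⟩, ⟨.ofNat 1392, .ofNat 110, .ofNat 67, .negSucc 750, .negSucc 586, .negSucc 198⟩, ⟨.negSucc 3566, .ofNat 60, .negSucc 0, .ofNat 394, .ofNat 479, .ofNat 392⟩, ⟨.negSucc 351, .ofNat 5, .ofNat 4, .negSucc 42, .ofNat 350, .ofNat 42⟩, .ofNat 421, .ofNat 55, .ofNat 0, .ofNat 55, .ofNat 1328,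 .ofNat 0, .ofNat 273, .negSucc 29, .negSucc 42, .ofNat 0, .ofNat 128, .ofNat 4, .ofNat 0, .ofNat 0, .ofNat 744, .ofNat 545, .ofNat 0, .ofNat 0, .ofNat 0, .ofNat 0, .ofNat 0, .ofNat 0, .ofNat 0, .ofNat 0, .ofNat 0, .ofNat 57122931977454807350671473437610868736, .ofNat 11316111016758063758650517643392450560, .ofNat 0, .ofNat 0, .ofNat 860219145847914295520092241499856568320, .ofNat 7069803067060042804805283160407408640, .ofNat 0⟩)
    (by decide +kernel)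
theorem L01932 : Good (Phi V5.P V5.D (-1) 1) ⟨2, 2, 2, 0, 2, 3, 2, 2, 4, 5⟩ :=
  leafX_sound T5.ok_mp T5.Ymp.bz_eq (w := 196) (c := ⟨⟨.negSucc 1433, .negSucc 245, .ofNat 2, .ofNat 385, .ofNat 206, .ofNat 192⟩, ⟨.ofNat 7, .ofNat 238, .negSucc 269, .ofNat 4, .ofNat 49, .ofNat 24⟩, ⟨.ofNat 721, .negSucc 178, .ofNat 91, .negSucc 689, .negSucc 537, .negSucc 229⟩, ⟨.negSucc 3172, .ofNat 225, .ofNat 81, .ofNat 808, .ofNat 442, .ofNat 403⟩, ⟨.negSucc 509, .negSucc 57, .negSucc 25, .ofNat 3, .ofNat 695, .ofNat 266⟩, .ofNat 170, .ofNat 2, .ofNat 0, .ofNat 2, .ofNat 234, .ofNat 0, .ofNat 162, .negSucc 16, .negSucc 25, .ofNat 0, .ofNat 128, .ofNat 11, .ofNat 0, .ofNat 0, .ofNat 466, .ofNat 594, .ofNat 0, .ofNat 0, .ofNat 0, .ofNat 0, .ofNat 0, .ofNat 418234896871186008205478345762102312960, .ofNat 1019534221538511301581045048662818816, .ofNat 0, .ofNat 0, .ofNat 367051620034385303042620302254170701824,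 .ofNat 1427714227468419581867944485352112128, .ofNat 0, .ofNat 0, .ofNat 853393587154938937018428633630845698048, .ofNat 0, .ofNat 0⟩)
    (by decide +kernel)
theorem L01933 : Good (Phi V5.P V5.D (-1) 1) ⟨2, 2, 2, 0, 1, 1, 3, 6, 4, 4⟩ :=
  leafX_sound T5.ok_mp T5.Ymp.bz_eq (w := 187) (c := ⟨⟨.negSucc 1555, .negSucc 318, .ofNat 4, .ofNat 311, .ofNat 227, .ofNat 170⟩, ⟨.ofNat 4, .ofNat 315, .negSucc 259, .ofNat 42, .ofNat 38, .ofNat 22⟩, ⟨.ofNat 1010, .ofNat 8, .ofNat 0, .negSucc 1086, .negSucc 325, .negSucc 175⟩, ⟨.negSucc 3409, .ofNat 202, .negSucc 4, .ofNat 611, .ofNat 466, .ofNat 350⟩, ⟨.negSucc 186, .ofNat 41, .ofNat 41, .ofNat 386, .ofNat 431, .ofNat 164⟩, .ofNat 318, .ofNat 9, .ofNat 0, .ofNat 9, .ofNat 652, .ofNat 0, .ofNat 325, .negSucc 7, .negSucc 125, .ofNat 0, .ofNat 128, .ofNat 12, .ofNat 0, .ofNat 0, .ofNat 709, .ofNat 431, .ofNat 0, .ofNat 0, .ofNat 0, .ofNat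 0, .ofNat 0, .ofNat 652262155976137623102201648998514688, .ofNat 18147698336377739695820248455315456, .ofNat 0, .ofNat 0, .ofNat 295919413333152899012888271421177856, .ofNat 13299848501456040784352639740542976, .ofNat 0, .ofNat 0, .ofNat 992971932273551693305630575596404736, .ofNat 8513443599471967654187645959929856, .ofNat 0⟩)
    (by decide +kernel)
theorem L01934 : Good (Phi V5.P V5.D (-1) 1) ⟨2, 2, 2, 0, 1, 1, 3, 7, 4, 4⟩ :=
  leafX_sound T5.ok_mp T5.Ymp.bz_eq (w := 187) (c := ⟨⟨.negSucc 1308, .negSucc 247, .ofNat 44, .negSucc 15, .ofNat 349, .ofNat 137⟩, ⟨.ofNat 37, .ofNat 308, .negSucc 215, .ofNat 49, .ofNat 41, .ofNat 4⟩, ⟨.ofNat 673, .negSucc 30, .negSucc 88, .negSucc 741, .negSucc 451, .negSucc 182⟩, ⟨.negSucc 2879, .ofNat 322, .ofNat 27, .negSucc 61, .ofNat 757, .ofNat 288⟩, ⟨.ofNat 198, .ofNat 168, .ofNat 28, .ofNat 1039, .ofNat 721, .ofNat 225⟩, .ofNat 170,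 .ofNat 1, .ofNat 0, .ofNat 1, .ofNat 234, .ofNat 0, .ofNat 275, .ofNat 1, .negSucc 167, .ofNat 0, .ofNat 128, .ofNat 9, .ofNat 0, .ofNat 0, .ofNat 401, .ofNat 566, .ofNat 0, .ofNat 0, .ofNat 0, .ofNat 0, .ofNat 0, .ofNat 951584627908018914960562080379305984, .ofNat 4096055724871787827070628521836544, .ofNat 0, .ofNat 0, .ofNat 456508512810788846923850236244787200, .ofNat 1128886025409734033602843674411008, .ofNat 0, .ofNat 0, .ofNat 896046948007361226411175830465019904, .ofNat 2812073602243111718610040831082496, .ofNat 0⟩)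
    (by decide +kernel)
theorem L01935 : Good (Phi V5.P V5.D (-1) 1) ⟨2, 2, 2, 0, 1, 1, 2, 3, 4, 5⟩ :=
  leafX_sound T5.ok_mp T5.Ymp.bz_eq (w := 182) (c := ⟨⟨.negSucc 1387, .negSucc 278, .ofNat 30, .ofNat 243, .ofNat 400, .ofNat 139⟩, ⟨.ofNat 20, .ofNat 306, .negSucc 228, .negSucc 2, .ofNat 53, .ofNat 8⟩, ⟨.ofNat 916, .negSucc 110, .negSucc 93, .negSucc 1354, .negSucc 758, .negSucc 230⟩, ⟨.negSucc 3046, .ofNat 254, .ofNat 33, .ofNat 417, .ofNat 842, .ofNat 282⟩, ⟨.negSucc 69, .ofNat 101, .ofNat 27, .ofNat 679, .ofNat 915, .ofNat 161⟩, .ofNat 317, .ofNat 17, .ofNat 0, .ofNat 17, .ofNat 652, .ofNat 0, .ofNat 287, .negSucc 13, .negSucc 54, .ofNat 0, .ofNat 128, .negSucc 3, .ofNat 0, .ofNat 0, .ofNat 617, .ofNat 364, .ofNat 0, .ofNat 2088832688182091621919281180049408, .ofNat 0, .ofNat 0, .ofNat 0, .ofNat 236726149773846352928432636974596096, .ofNat 908590264819941162905097750970368,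 .ofNat 0, .ofNat 0, .ofNat 130540686994405022872281549402800128, .ofNat 0, .ofNat 0, .ofNat 0, .ofNat 377572912247720489664011501488308224, .ofNat 238319199735208584160121439911936, .ofNat 0⟩)
    (by decide +kernel)
theorem L01936 : Good (Phi V5.P V5.D (-1) 1) ⟨2, 2, 2, 0, 2, 2, 2, 2, 4, 6⟩ :=
  leafX_sound T5.ok_mp T5.Ymp.bz_eq (w := 197) (c := ⟨⟨.negSucc 1453, .negSucc 329, .negSucc 0, .ofNat 187, .ofNat 190, .ofNat 157⟩, ⟨.ofNat 7, .ofNat 283, .negSucc 249, .negSucc 3, .ofNat 36, .ofNat 2⟩, ⟨.ofNat 1375, .negSucc 59, .ofNat 20, .negSucc 894, .negSucc 753, .negSucc 196⟩, ⟨.negSucc 3201, .ofNat 122, .ofNat 23, .ofNat 366, .ofNat 392, .ofNat 311⟩, ⟨.negSucc 308, .ofNat 20, .ofNat 6, .ofNat 13, .ofNat 400, .ofNat 95⟩, .ofNat 316, .ofNat 13, .ofNat 0, .ofNat 13, .ofNat 645, .ofNat 0, .ofNat 237, .negSucc 11, .negSucc 30, .ofNat 0, .ofNat 128, .negSucc 6, .ofNat 0, .ofNat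 0, .ofNat 1208, .ofNat 798, .ofNat 215648372114452414389688395640388714496, .ofNat 0, .ofNat 0, .ofNat 0, .ofNat 0, .ofNat 811331952905432672950305212181155676160, .ofNat 18113784077751783800704200939025727488, .ofNat 0, .ofNat 0, .ofNat 483775526396920368676411058138610925568, .ofNat 26837197189904986842222242442460004352, .ofNat 0, .ofNat 0, .ofNat 3382396399784129833466114838395399176192, .ofNat 0, .ofNat 0⟩)
    (by decide +kernel)
theorem L01937 : Good (Phi V5.P V5.D (-1) 1) ⟨2, 2, 2, 0, 2, 2, 2, 2, 4, 7⟩ :=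
  leafX_sound T5.ok_mp T5.Ymp.bz_eq (w := 197) (c := ⟨⟨.negSucc 1314, .negSucc 295, .ofNat 10, .ofNat 162, .ofNat 171, .ofNat 101⟩, ⟨.ofNat 4, .ofNat 281, .negSucc 224, .negSucc 1, .ofNat 26, .ofNat 14⟩, ⟨.ofNat 1460, .negSucc 356, .negSucc 54, .negSucc 1246, .negSucc 1014, .negSucc 345⟩, ⟨.negSucc 2904, .ofNat 153, .ofNat 29, .ofNat 326, .ofNat 356, .ofNat 224⟩, ⟨.negSucc 314, .ofNat 92, .ofNat 20, .ofNat 240, .ofNat 489, .ofNat 113⟩, .ofNat 170, .ofNat 3, .ofNat 0, .ofNat 3, .ofNat 235, .ofNat 0, .ofNat 210, .negSucc 6, .negSucc 1, .ofNat 0, .ofNat 128, .negSucc 40, .ofNat 0, .ofNat 0, .ofNat 946, .ofNat 753, .ofNat 1273371905254798326910451278145891860480, .ofNat 23783412447001495622490535679976538112, .ofNat 325886228343775418259475496576221184, .ofNat 0, .ofNat 19163473995653607671506910790177855111168, .ofNat 1244082070033106851228256164200971239424, .ofNat 3704942956954924387159132964554539008,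 .ofNat 0, .ofNat 7573963514139497950677970795049141665792, .ofNat 659673273502825309667584015024760291328, .ofNat 0, .ofNat 0, .ofNat 88822002644584457934615304281716808482816, .ofNat 4831189323134777005343059847987825999872, .ofNat 0, .ofNat 0⟩)
    (by decide +kernel)
theorem L01938 : Good (Phi V5.P V5.D (-1) 1) ⟨2, 2, 2, 0, 2, 2, 2, 3, 3, 3⟩ :=
  leafX_sound T5.ok_mp T5.Ymp.bz_eq (w := 193) (c := ⟨⟨.negSucc 1244, .negSucc 261, .ofNat 28, .ofNat 58, .ofNat 254, .ofNat 185⟩, ⟨.ofNat 18, .ofNat 297, .negSucc 214, .ofNat 81, .ofNat 125, .ofNat 41⟩, ⟨.ofNat 739, .negSucc 243, .negSucc 89, .negSucc 865, .negSucc 809, .negSucc 496⟩, ⟨.negSucc 2759, .ofNat 262, .ofNat 27, .ofNat 185, .ofNat 611, .ofNat 443⟩, ⟨.ofNat 81, .ofNat 127, .ofNat 24, .ofNat 397, .ofNat 790, .ofNat 265⟩, .ofNat 170, .ofNat 3, .ofNat 0, .ofNat 3, .ofNat 235, .ofNat 0, .ofNat 128, .negSucc 6, .negSucc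 34, .ofNat 0, .ofNat 133, .negSucc 20, .ofNat 0, .ofNat 0, .ofNat 458, .ofNat 1299, .ofNat 0, .ofNat 1571767969775346734357194317527777280, .ofNat 0, .ofNat 0, .ofNat 0, .ofNat 143884563230062571325100533488149331968, .ofNat 57608680772326667177821806247542784, .ofNat 0, .ofNat 0, .ofNat 203498820296899706073056418912333201408, .ofNat 0, .ofNat 0, .ofNat 0, .ofNat 389160759087713398014857521147544600576, .ofNat 73683941544302347759081274910703616, .ofNat 0⟩)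
    (by decide +kernel)
theorem L01939 : Good (Phi V5.P V5.D (-1) 1) ⟨2, 2, 2, 0, 2, 3, 1, 1, 3, 3⟩ :=
  out_sound (S := T5.ds_mp) T5.ok_mp (w := 26) (j := 2) (by decide +kernel)
theorem L01940 : Good (Phi V5.P V5.D (-1) 1) ⟨2, 3, 2, 0, 1, 1, 1, 1, 2, 1⟩ :=
  out_sound (S := T5.ds_mp) T5.ok_mp (w := 37) (j := 3) (by decide +kernel)
theorem L01941 : Good (Phi V5.P V5.D (-1) 1) ⟨2, 2, 2, 0, 4, 8, 3, 4, 4, 8⟩ :=
  out_sound (S := T5.ds_mp) T5.ok_mp (w := 29) (j := 1) (by decide +kernel)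
theorem L01942 : Good (Phi V5.P V5.D (-1) 1) ⟨2, 2, 2, 0, 4, 8, 3, 5, 4, 8⟩ :=
  out_sound (S := T5.ds_mp) T5.ok_mp (w := 36) (j := 2) (by decide +kernel)
theorem L01943 : Good (Phi V5.P V5.D (-1) 1) ⟨2, 3, 2, 0, 4, 8, 2, 2, 4, 8⟩ :=
  out_sound (S := T5.ds_mp) T5.ok_mp (w := 37) (j := 3) (by decide +kernel)
theorem L01944 : Good (Phi V5.P V5.D (-1) 1) ⟨1, 1, 2, 0, 4, 8, 2, 2, 4, 9⟩ :=
  out_sound (S := T5.ds_mp) T5.ok_mp (w := 28) (j := 1) (by decide +kernel)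
theorem L01945 : Good (Phi V5.P V5.D (-1) 1) ⟨1, 1, 2, 0, 4, 9, 2, 2, 3, 4⟩ :=
  out_sound (S := T5.ds_mp) T5.ok_mp (w := 32) (j := 2) (by decide +kernel)
theorem L01946 : Good (Phi V5.P V5.D (-1) 1) ⟨1, 1, 2, 0, 3, 4, 2, 3, 3, 4⟩ :=
  out_sound (S := T5.ds_mp) T5.ok_mp (w := 30) (j := 2) (by decide +kernel)
theorem L01947 : Good (Phi V5.P V5.D (-1) 1) ⟨1, 1, 2, 0, 3, 4, 1, 1, 3, 5⟩ :=
  out_sound (S := T5.ds_mp) T5.ok_mp (w := 28) (j := 2) (by decide +kernel)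
theorem L01948 : Good (Phi V5.P V5.D (-1) 1) ⟨1, 1, 2, 0, 3, 5, 1, 1, 2, 2⟩ :=
  out_sound (S := T5.ds_mp) T5.ok_mp (w := 26) (j := 2) (by decide +kernel)
theorem L01949 : Good (Phi V5.P V5.D (-1) 1) ⟨1, 1, 2, 0, 2, 2, 1, 1, 2, 3⟩ :=
  out_sound (S := T5.ds_mp) T5.ok_mp (w := 24) (j := 2) (by decide +kernel)
theorem L01950 : Good (Phi V5.P V5.D (-1) 1) ⟨1, 1, 2, 0, 2, 3, 1, 1, 1, 1⟩ :=
  out_sound (S := T5.ds_mp) T5.ok_mp (w := 22) (j := 2) (by decide +kernel)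
theorem L01951 : Good (Phi V5.P V5.D (-1) 1) ⟨4, 8, 2, 1, 2, 2, 2, 2, 4, 0⟩ :=
  leafX_sound T5.ok_mp T5.Ymp.bz_eq (w := 205) (c := ⟨⟨.ofNat 870, .negSucc 61, .negSucc 209, .ofNat 526, .negSucc 708, .negSucc 1795⟩, ⟨.ofNat 274, .negSucc 52, .negSucc 159, .negSucc 2, .negSucc 170, .negSucc 410⟩, ⟨.negSucc 647, .negSucc 14, .ofNat 132, .negSucc 532, .ofNat 399, .ofNat 1207⟩, ⟨.ofNat 2099, .negSucc 141, .negSucc 269, .ofNat 1247, .negSucc 1629, .negSucc 3933⟩, ⟨.negSucc 1045, .ofNat 19, .ofNat 181, .negSucc 889, .ofNat 274, .ofNat 260⟩, .ofNat 484, .negSucc 209, .ofNat 0, .negSucc 209, .ofNat 1335, .ofNat 0, .ofNat 170, .ofNat 120, .negSucc 145, .ofNat 0, .ofNat 128, .negSucc 14, .ofNat 0, .ofNat 0, .ofNat 228, .ofNat 305, .ofNat 0, .ofNat 0, .ofNat 0, .ofNat 0, .ofNat 0, .ofNat 0, .ofNat 0, .ofNat 0, .ofNat 0, .ofNat 0, .ofNat 0, .ofNat 0, .ofNat 0, .ofNat 0, .ofNat 51105555044790766590847721242886144,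 .ofNat 0⟩)
    (by decide +kernel)
theorem L01952 : Good (Phi V5.P V5.D (-1) 1) ⟨4, 9, 2, 1, 2, 2, 2, 2, 4, 0⟩ :=
  leafX_sound T5.ok_mp T5.Ymp.bz_eq (w := 206) (c := ⟨⟨.ofNat 1000, .ofNat 183, .negSucc 434, .ofNat 877, .negSucc 995, .negSucc 2200⟩, ⟨.ofNat 54, .negSucc 66, .negSucc 227, .negSucc 9, .negSucc 65, .negSucc 217⟩, ⟨.negSucc 762, .negSucc 161, .ofNat 184, .negSucc 779, .ofNat 573, .ofNat 1544⟩, ⟨.ofNat 2133, .ofNat 294, .negSucc 663, .ofNat 1792, .negSucc 2020, .negSucc 4439⟩, ⟨.negSucc 622, .negSucc 199, .negSucc 491, .negSucc 776, .ofNat 3, .ofNat 6⟩, .ofNat 447, .negSucc 154, .ofNat 0, .negSucc 154, .ofNat 1140, .ofNat 0, .ofNat 445, .ofNat 103, .negSucc 370, .ofNat 0, .ofNat 128, .negSucc 27, .ofNat 0, .ofNat 0, .ofNat 512, .ofNat 536, .ofNat 0, .ofNat 0, .ofNat 0, .ofNat 0, .ofNat 0, .ofNat 0, .ofNat 0, .ofNat 0, .ofNat 0, .ofNat 0, .ofNat 1105456392963248057037150007572037632,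 .ofNat 0, .ofNat 0, .ofNat 0, .ofNat 821177789823325738488130609271013376, .ofNat 0⟩)
    (by decide +kernel)
theorem L01953 : Good (Phi V5.P V5.D (-1) 1) ⟨3, 4, 2, 1, 2, 2, 2, 2, 5, 2⟩ :=
  leafX_sound T5.ok_mp T5.Ymp.bz_eq (w := 206) (c := ⟨⟨.negSucc 987, .negSucc 611, .negSucc 188, .negSucc 37, .negSucc 193, .negSucc 520⟩, ⟨.negSucc 235, .ofNat 61, .negSucc 329, .negSucc 51, .negSucc 2, .negSucc 63⟩, ⟨.ofNat 454, .ofNat 518, .ofNat 169, .negSucc 196, .ofNat 167, .ofNat 416⟩, ⟨.negSucc 2076, .negSucc 883, .negSucc 225, .ofNat 27, .negSucc 473, .negSucc 1154⟩, ⟨.negSucc 1023, .negSucc 4, .ofNat 77, .negSucc 597, .ofNat 327, .ofNat 285⟩, .ofNat 458, .negSucc 155, .ofNat 0, .negSucc 155, .ofNat 1269, .ofNat 0, .ofNat 413, .ofNat 94, .negSucc 329, .ofNat 0, .ofNat 128, .negSucc 15, .ofNat 0, .ofNat 0, .ofNat 542, .ofNat 1106, .ofNat 0, .ofNat 0, .ofNat 1257235245405768910196438105816301568,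 .ofNat 0, .ofNat 0, .ofNat 0, .ofNat 147725414183609706841898882589102440448, .ofNat 0, .ofNat 0, .ofNat 0, .ofNat 79717502831038325597017178290861899776, .ofNat 0, .ofNat 0, .ofNat 0, .ofNat 114336578381526074628199895665368629248, .ofNat 0⟩)
    (by decide +kernel)
theorem L01954 : Good (Phi V5.P V5.D (-1) 1) ⟨3, 4, 2, 1, 2, 2, 2, 2, 5, 3⟩ :=
  leafX_sound T5.ok_mp T5.Ymp.bz_eq (w := 207) (c := ⟨⟨.negSucc 1597, .negSucc 723, .negSucc 181, .negSucc 195, .ofNat 109, .negSucc 188⟩, ⟨.negSucc 327, .ofNat 106, .negSucc 408, .negSucc 71, .ofNat 51, .negSucc 10⟩, ⟨.ofNat 947, .ofNat 610, .ofNat 156, .negSucc 86, .negSucc 83, .ofNat 172⟩, ⟨.negSucc 3435, .negSucc 1000, .negSucc 334, .negSucc 337, .ofNat 188, .negSucc 420⟩, ⟨.negSucc 926, .ofNat 78, .ofNat 142, .negSucc 358, .ofNat 296, .ofNat 186⟩, .ofNat 470, .negSucc 197, .ofNat 0, .negSucc 197, .ofNat 1235, .ofNat 0, .ofNat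 460, .ofNat 107, .negSucc 305, .ofNat 0, .ofNat 128, .negSucc 21, .ofNat 0, .ofNat 0, .ofNat 562, .ofNat 1668, .ofNat 0, .ofNat 0, .ofNat 1451687049465294873706822711652646912, .ofNat 0, .ofNat 0, .ofNat 0, .ofNat 0, .ofNat 0, .ofNat 0, .ofNat 0, .ofNat 0, .ofNat 0, .ofNat 0, .ofNat 0, .ofNat 139630147711359395436646870747659108352, .ofNat 0⟩)
    (by decide +kernel)
theorem L01955 : Good (Phi V5.P V5.D (-1) 1) ⟨3, 4, 2, 1, 2, 2, 3, 6, 5, 0⟩ :=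
  leafX_sound T5.ok_mp T5.Ymp.bz_eq (w := 209) (c := ⟨⟨.ofNat 22, .negSucc 256, .negSucc 308, .ofNat 452, .negSucc 498, .negSucc 746⟩, ⟨.negSucc 69, .negSucc 20, .negSucc 224, .negSucc 2, .negSucc 61, .negSucc 80⟩, ⟨.negSucc 170, .ofNat 146, .ofNat 161, .negSucc 488, .ofNat 339, .ofNat 523⟩, ⟨.ofNat 36, .negSucc 404, .negSucc 457, .ofNat 1041, .negSucc 1038, .negSucc 1525⟩, ⟨.negSucc 707, .negSucc 133, .negSucc 49, .negSucc 689, .ofNat 4, .ofNat 41⟩, .ofNat 461, .negSucc 160, .ofNat 0, .negSucc 160, .ofNat 1274, .ofNat 0, .ofNat 305, .ofNat 107, .negSucc 347, .ofNat 0, .ofNat 128, .negSucc 22, .ofNat 0, .ofNat 0, .ofNat 474, .ofNat 578, .ofNat 0, .ofNat 0, .ofNat 0, .ofNat 0, .ofNat 0, .ofNat 0, .ofNat 0, .ofNat 0, .ofNat 0, .ofNat 0, .ofNat 880964801646277081869041230734503706624, .ofNat 0, .ofNat 0, .ofNat 0, .ofNat 874561969610176292932171161571717808128, .ofNat 0⟩)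
    (by decide +kernel)
theorem L01956 : Good (Phi V5.P V5.D (-1) 1) ⟨3, 4, 2, 1, 2, 2, 3, 6, 5, 1⟩ :=
  leafX_sound T5.ok_mp T5.Ymp.bz_eq (w := 210) (c := ⟨⟨.negSucc 669, .negSucc 502, .negSucc 320, .ofNat 49, .negSucc 185, .negSucc 559⟩, ⟨.negSucc 180, .ofNat 19, .negSucc 280, .negSucc 35, .negSucc 2, .negSucc 60⟩, ⟨.ofNat 276, .ofNat 398, .ofNat 213, .negSucc 223, .ofNat 126, .ofNat 406⟩, ⟨.negSucc 1422, .negSucc 830, .negSucc 502, .ofNat 252, .negSucc 386, .negSucc 1193⟩, ⟨.negSucc 780, .ofNat 82, .ofNat 10, .negSucc 704, .ofNat 98, .ofNat 154⟩, .ofNat 460, .negSucc 161, .ofNat 0, .negSucc 161, .ofNat 1262, .ofNat 0, .ofNat 379, .ofNat 105, .negSucc 493, .ofNat 0, .ofNat 128, .negSucc 28, .ofNat 0, .ofNat 0, .ofNat 691, .ofNat 1036, .ofNat 0, .ofNat 0, .ofNat 14999602007374908078557503923381338112, .ofNat 0, .ofNat 0, .ofNat 0, .ofNat 0, .ofNat 0, .ofNat 0, .ofNat 0,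 .ofNat 896656893123210585161357292794021937152, .ofNat 0, .ofNat 0, .ofNat 0, .ofNat 2625942788069975902153176804866368995328, .ofNat 0⟩)
    (by decide +kernel)
theorem L01957 : Good (Phi V5.P V5.D (-1) 1) ⟨3, 4, 2, 1, 2, 2, 4, 14, 4, 0⟩ :=
  leafX_sound T5.ok_mp T5.Ymp.bz_eq (w := 209) (c := ⟨⟨.negSucc 512, .negSucc 482, .negSucc 222, .negSucc 9, .negSucc 59, .negSucc 751⟩, ⟨.negSucc 154, .ofNat 30, .negSucc 269, .negSucc 48, .ofNat 16, .negSucc 86⟩, ⟨.ofNat 205, .ofNat 354, .ofNat 105, .negSucc 138, .ofNat 47, .ofNat 469⟩, ⟨.negSucc 1046, .negSucc 796, .negSucc 386, .ofNat 65, .negSucc 131, .negSucc 1611⟩, ⟨.negSucc 793, .ofNat 65, .ofNat 5, .negSucc 493, .ofNat 91, .ofNat 159⟩, .ofNat 470, .negSucc 197, .ofNat 0, .negSucc 197, .ofNat 1235, .ofNat 0, .ofNat 388, .ofNat 119, .negSucc 648, .ofNat 0, .ofNat 128, .negSucc 54, .ofNat 0, .ofNat 0, .ofNat 864, .ofNat 976, .ofNat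 0, .ofNat 0, .ofNat 5301366618099841955134389867593596928, .ofNat 0, .ofNat 0, .ofNat 0, .ofNat 1409801696254017914398207035630206058496, .ofNat 0, .ofNat 0, .ofNat 0, .ofNat 333460934167604589500269562915626942464, .ofNat 0, .ofNat 0, .ofNat 0, .ofNat 1877859341596874631028133943231987580928, .ofNat 0⟩)
    (by decide +kernel)
theorem L01958 : Good (Phi V5.P V5.D (-1) 1) ⟨4, 8, 2, 1, 2, 2, 4, 15, 4, 0⟩ :=
  leafX_sound T5.ok_mp T5.Ymp.bz_eq (w := 213) (c := ⟨⟨.negSucc 690, .negSucc 186, .negSucc 238, .negSucc 114, .ofNat 137, .negSucc 460⟩, ⟨.negSucc 169, .ofNat 11, .negSucc 249, .negSucc 56, .ofNat 36, .negSucc 47⟩, ⟨.ofNat 335, .ofNat 134, .ofNat 103, .negSucc 51, .negSucc 174, .ofNat 214⟩, ⟨.negSucc 1397, .negSucc 284, .negSucc 368, .negSucc 177, .ofNat 269, .negSucc 1083⟩, ⟨.negSucc 898, .negSucc 6, .negSucc 3, .negSucc 362, .ofNat 88, .ofNat 488⟩, .ofNat 541, .negSucc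 300, .ofNat 0, .negSucc 300, .ofNat 1754, .ofNat 0, .ofNat 231, .ofNat 128, .negSucc 596, .ofNat 0, .ofNat 120, .negSucc 57, .ofNat 0, .ofNat 0, .ofNat 818, .ofNat 966, .ofNat 0, .ofNat 0, .ofNat 786951730884855306585350587786723328, .ofNat 0, .ofNat 0, .ofNat 0, .ofNat 50462077212415460687848400817397694464, .ofNat 0, .ofNat 0, .ofNat 53707656452128241648738144636538514833408, .ofNat 88634163414002811145411065206978641920, .ofNat 0, .ofNat 0, .ofNat 498818208158325816948280610047728514236416, .ofNat 362647995649943524267388171051490869248, .ofNat 0⟩)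
    (by decide +kernel)
theorem L01959 : Good (Phi V5.P V5.D (-1) 1) ⟨4, 9, 2, 1, 2, 2, 4, 15, 4, 0⟩ :=
  leafX_sound T5.ok_mp T5.Ymp.bz_eq (w := 214) (c := ⟨⟨.negSucc 793, .negSucc 293, .negSucc 237, .negSucc 236, .ofNat 198, .negSucc 594⟩, ⟨.negSucc 182, .ofNat 27, .negSucc 262, .negSucc 53, .ofNat 34, .negSucc 2⟩, ⟨.ofNat 362, .ofNat 239, .ofNat 123, .ofNat 82, .negSucc 227, .ofNat 357⟩, ⟨.negSucc 1568, .negSucc 460, .negSucc 387, .negSucc 440, .ofNat 389, .negSucc 1238⟩, ⟨.negSucc 915, .ofNat 33, .ofNat 46, .negSucc 299, .ofNat 90, .ofNat 482⟩, .ofNat 522, .negSucc 257, .ofNat 0, .negSucc 257, .ofNat 1672, .ofNat 0, .ofNat 350, .ofNat 121, .negSucc 825, .ofNat 0, .ofNat 128, .negSucc 56, .ofNat 0, .ofNat 0, .ofNat 1054, .ofNat 850, .ofNat 0, .ofNat 0, .ofNat 1860581007310948931691017989554962432, .ofNat 0, .ofNat 0, .ofNat 0, .ofNat 0, .ofNat 0, .ofNat 0, .ofNat 116532264186193881548094682441593655394304,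 .ofNat 181002514848532982863769270076936552448, .ofNat 0, .ofNat 0, .ofNat 700359327025101238471488397665261764739072, .ofNat 833933889753010168417031408757793357824, .ofNat 0⟩)
    (by decide +kernel)
theorem L01960 : Good (Phi V5.P V5.D (-1) 1) ⟨4, 8, 2, 1, 2, 2, 3, 6, 4, 1⟩ :=
  leafX_sound T5.ok_mp T5.Ymp.bz_eq (w := 210) (c := ⟨⟨.negSucc 1364, .negSucc 307, .negSucc 243, .negSucc 179, .ofNat 137, .negSucc 306⟩, ⟨.negSucc 278, .ofNat 36, .negSucc 372, .negSucc 57, .ofNat 49, .negSucc 17⟩, ⟨.ofNat 779, .ofNat 259, .ofNat 190, .negSucc 85, .negSucc 136, .ofNat 226⟩, ⟨.negSucc 2884, .negSucc 451, .negSucc 444, .negSucc 321, .ofNat 241, .negSucc 748⟩, ⟨.negSucc 880, .ofNat 70, .ofNat 98, .negSucc 289, .ofNat 250, .ofNat 428⟩, .ofNat 495, .negSucc 241, .ofNat 0, .negSucc 241, .ofNat 1317, .ofNat 0, .ofNat 338, .ofNat 125, .negSucc 376, .ofNat 0, .ofNat 128, .negSucc 37,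 .ofNat 0, .ofNat 0, .ofNat 624, .ofNat 1335, .ofNat 0, .ofNat 0, .ofNat 106972739104275711455549184425328640, .ofNat 0, .ofNat 0, .ofNat 0, .ofNat 0, .ofNat 0, .ofNat 0, .ofNat 0, .ofNat 0, .ofNat 0, .ofNat 0, .ofNat 0, .ofNat 14114235656212934875288674372916609024, .ofNat 0⟩)
    (by decide +kernel)

end Crest.Agent.R097C5.N5mp
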