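import Crest.Agent.R097.KP7
import Crest.Agent.R097.T5Ymp

/-!
# Row 97, box cover in dimension n = 5 (generated)
-/

set_option autoImplicit false
set_option Elab.async false
set_option maxHeartbeats 0
set_option maxRecDepth 100000

open Crest.Agent.R097 Crest.Agent.R097.KA


namespace Crest.Agent.R097C5.N5mp

theorem L01961 : Good (Phi V5.P V5.D (-1) 1) ⟨4, 9, 2, 1, 2, 2, 3, 6, 4, 1⟩ :=
  leafX_sound T5.ok_mp T5.Ymp.bz_eq (w := 210) (c := ⟨⟨.negSucc 1675, .negSucc 374, .negSucc 145, .negSucc 264, .ofNat 160, .negSucc 320⟩, ⟨.negSucc 267, .ofNat 74, .negSucc 363, .negSucc 50, .ofNat 43, .ofNat 21⟩, ⟨.ofNat 1029, .ofNat 337, .ofNat 140, .ofNat 9, .negSucc 154, .ofNat 231⟩, ⟨.negSucc 3387, .negSucc 503, .negSucc 253, .negSucc 507, .ofNat 292, .negSucc 687⟩, ⟨.negSucc 850, .ofNat 106, .ofNat 171, .negSucc 208, .ofNat 238, .ofNat 445⟩, .ofNat 501, .negSucc 175, .ofNat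 0, .negSucc 175, .ofNat 1832, .ofNat 0, .ofNat 488, .ofNat 90, .negSucc 536, .ofNat 0, .ofNat 128, .negSucc 10, .ofNat 0, .ofNat 0, .ofNat 835, .ofNat 1438, .ofNat 0, .ofNat 0, .ofNat 257710395506983932044313372548661248, .ofNat 0, .ofNat 0, .ofNat 0, .ofNat 0, .ofNat 0, .ofNat 0, .ofNat 0, .ofNat 27707706655780359866721262696679866368, .ofNat 0, .ofNat 0, .ofNat 0, .ofNat 35240615052248062840980715666998820864, .ofNat 0⟩)
    (by decide +kernel)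
theorem L01962 : Good (Phi V5.P V5.D (-1) 1) ⟨4, 8, 2, 1, 2, 2, 4, 14, 4, 1⟩ :=
  leafX_sound T5.ok_mp T5.Ymp.bz_eq (w := 213) (c := ⟨⟨.negSucc 1391, .negSucc 276, .negSucc 167, .negSucc 214, .ofNat 226, .negSucc 74⟩, ⟨.negSucc 286, .ofNat 39, .negSucc 317, .negSucc 46, .ofNat 66, .ofNat 38⟩, ⟨.ofNat 776, .ofNat 232, .ofNat 98, .ofNat 2, .negSucc 216, .negSucc 4⟩, ⟨.negSucc 2942, .negSucc 414, .negSucc 294, .negSucc 439, .ofNat 438, .negSucc 276⟩, ⟨.negSucc 801, .ofNat 146, .ofNat 46, .negSucc 14, .ofNat 181, .ofNat 541⟩, .ofNat 588, .negSucc 392, .ofNat 0, .negSucc 392, .ofNat 2137, .ofNat 0, .ofNat 138, .ofNat 128, .negSucc 217, .ofNat 0, .ofNat 114, .negSucc 23, .ofNat 0, .ofNat 0, .ofNat 351, .ofNat 716, .ofNat 0, .ofNat 0, .ofNat 729896704696152770207316493484425216, .ofNat 0, .ofNat 0, .ofNat 0, .ofNat 0, .ofNat 0, .ofNat 0, .ofNat 0, .ofNat 0, .ofNat 0,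 .ofNat 0, .ofNat 0, .ofNat 76851657317977499505784624068427776000, .ofNat 0⟩)
    (by decide +kernel)
theorem L01963 : Good (Phi V5.P V5.D (-1) 1) ⟨4, 8, 2, 1, 2, 2, 4, 15, 4, 1⟩ :=
  leafX_sound T5.ok_mp T5.Ymp.bz_eq (w := 213) (c := ⟨⟨.negSucc 1193, .negSucc 249, .negSucc 160, .negSucc 331, .ofNat 449, .ofNat 16⟩, ⟨.negSucc 250, .ofNat 36, .negSucc 264, .negSucc 57, .ofNat 105, .ofNat 64⟩, ⟨.ofNat 577, .ofNat 189, .ofNat 91, .ofNat 134, .negSucc 441, .negSucc 85⟩, ⟨.negSucc 2511, .negSucc 387, .negSucc 323, .negSucc 725, .ofNat 920, .negSucc 100⟩, ⟨.negSucc 686, .ofNat 180, .ofNat 46, .ofNat 96, .ofNat 152, .ofNat 631⟩, .ofNat 545, .negSucc 310, .ofNat 0, .negSucc 310, .ofNat 1746, .ofNat 0, .ofNat 186, .ofNat 128, .negSucc 290, .ofNat 0, .ofNat 121, .negSucc 27, .ofNat 0, .ofNat 0, .ofNat 431, .ofNat 368, .ofNat 0, .ofNat 0, .ofNat 156526218300752036287717732142546944,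 .ofNat 0, .ofNat 0, .ofNat 0, .ofNat 0, .ofNat 0, .ofNat 0, .ofNat 0, .ofNat 0, .ofNat 0, .ofNat 0, .ofNat 323672209728424329212153420965277157294080, .ofNat 85852528371718141591013341247196626944, .ofNat 0⟩)
    (by decide +kernel)
theorem L01964 : Good (Phi V5.P V5.D (-1) 1) ⟨4, 9, 3, 2, 2, 2, 4, 14, 4, 1⟩ :=
  leafX_sound T5.ok_mp T5.Ymp.bz_eq (w := 217) (c := ⟨⟨.negSucc 1551, .negSucc 481, .negSucc 133, .negSucc 321, .ofNat 180, .negSucc 69⟩, ⟨.negSucc 256, .ofNat 77, .negSucc 159, .negSucc 31, .ofNat 41, .ofNat 63⟩, ⟨.ofNat 896, .ofNat 430, .ofNat 110, .ofNat 112, .negSucc 188, .negSucc 16⟩, ⟨.negSucc 3165, .negSucc 710, .negSucc 260, .negSucc 618, .ofNat 327, .negSucc 196⟩, ⟨.negSucc 731, .ofNat 147, .ofNat 145, .negSucc 88, .ofNat 253, .ofNat 580⟩, .ofNat 499, .negSucc 169, .ofNat 0, .negSucc 169, .ofNat 1809, .ofNat 0, .ofNat 293, .ofNat 92, .negSucc 537,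 .ofNat 0, .ofNat 128, .negSucc 7, .ofNat 0, .ofNat 0, .ofNat 774, .ofNat 1475, .ofNat 0, .ofNat 0, .ofNat 7462195023431230562684935678378115072, .ofNat 0, .ofNat 0, .ofNat 0, .ofNat 183810264662107236039058150696247361536, .ofNat 0, .ofNat 0, .ofNat 0, .ofNat 709707002621004838663395727201078870016, .ofNat 0, .ofNat 0, .ofNat 0, .ofNat 1339147425480662031010461399067712815104, .ofNat 0⟩)
    (by decide +kernel)
theorem L01965 : Good (Phi V5.P V5.D (-1) 1) ⟨4, 9, 3, 2, 2, 2, 4, 15, 4, 1⟩ :=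
  leafX_sound T5.ok_mp T5.Ymp.bz_eq (w := 217) (c := ⟨⟨.negSucc 1438, .negSucc 332, .negSucc 81, .negSucc 532, .ofNat 487, .ofNat 131⟩, ⟨.negSucc 228, .ofNat 78, .negSucc 142, .negSucc 27, .ofNat 64, .ofNat 88⟩, ⟨.ofNat 778, .ofNat 283, .ofNat 43, .ofNat 332, .negSucc 490, .negSucc 214⟩, ⟨.negSucc 2916, .negSucc 458, .negSucc 184, .negSucc 1084, .ofNat 952, .ofNat 203⟩, ⟨.negSucc 630, .ofNat 143, .ofNat 118, .ofNat 167, .ofNat 181, .ofNat 655⟩, .ofNat 474, .negSucc 137, .ofNat 0, .negSucc 137, .ofNat 1547, .ofNat 0, .ofNat 278, .ofNat 91, .negSucc 684, .ofNat 0, .ofNat 128, .negSucc 4, .ofNat 0, .ofNat 0, .ofNat 922, .ofNat 959, .ofNat 0, .ofNat 0, .ofNat 3513164063411489928114699959451779072, .ofNat 0, .ofNat 0, .ofNat 0, .ofNat 0, .ofNat 0, .ofNat 0, .ofNat 5435416729917308724224154277481992018722816, .ofNat 368732192472752121209723359016603615232, .ofNat 0,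 .ofNat 0, .ofNat 2252949326789203226879623025990586070990848, .ofNat 1281032586817778953307548887072186040320, .ofNat 0⟩)
    (by decide +kernel)
theorem L01966 : Good (Phi V5.P V5.D (-1) 1) ⟨4, 9, 3, 3, 2, 2, 3, 7, 4, 1⟩ :=
  out_sound (S := T5.ds_mp) T5.ok_mp (w := 51) (j := 3) (by decide +kernel)
theorem L01967 : Good (Phi V5.P V5.D (-1) 1) ⟨3, 5, 2, 1, 2, 2, 1, 1, 3, 0⟩ :=
  out_sound (S := T5.ds_mp) T5.ok_mp (w := 43) (j := 3) (by decide +kernel)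
theorem L01968 : Good (Phi V5.P V5.D (-1) 1) ⟨2, 3, 2, 1, 2, 2, 1, 1, 3, 0⟩ :=
  out_sound (S := T5.ds_mp) T5.ok_mp (w := 37) (j := 3) (by decide +kernel)
theorem L01969 : Good (Phi V5.P V5.D (-1) 1) ⟨3, 4, 2, 1, 2, 2, 3, 4, 4, 2⟩ :=
  leafX_sound T5.ok_mp T5.Ymp.bz_eq (w := 207) (c := ⟨⟨.negSucc 2096, .negSucc 566, .negSucc 87, .negSucc 45, .ofNat 145, .ofNat 128⟩, ⟨.negSucc 379, .ofNat 142, .negSucc 417, .negSucc 54, .ofNat 37, .ofNat 36⟩, ⟨.ofNat 1410, .ofNat 537, .ofNat 159, .negSucc 271, .negSucc 173, .negSucc 12⟩, ⟨.negSucc 4509, .negSucc 617, .negSucc 129, .negSucc 35, .ofNat 274, .ofNat 231⟩, ⟨.negSucc 672, .ofNat 37, .ofNat 115, .negSucc 426, .ofNat 159, .ofNat 175⟩, .ofNat 462, .negSucc 160, .ofNat 0, .negSucc 160, .ofNat 1282, .ofNat 0, .ofNat 511, .ofNat 81, .negSucc 304, .ofNat 0, .ofNat 128, .negSucc 5, .ofNat 0, .ofNat 0, .ofNat 781, .ofNat 3104,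 .ofNat 0, .ofNat 0, .ofNat 625405780036141968491244979079872512, .ofNat 0, .ofNat 0, .ofNat 0, .ofNat 84398224307062755779616212937452027904, .ofNat 0, .ofNat 0, .ofNat 0, .ofNat 50709337019466231461737814818732113920, .ofNat 0, .ofNat 0, .ofNat 0, .ofNat 141387017519681743270945137053218635776, .ofNat 0⟩)
    (by decide +kernel)
theorem L01970 : Good (Phi V5.P V5.D (-1) 1) ⟨3, 4, 2, 1, 2, 2, 3, 5, 4, 2⟩ :=
  leafX_sound T5.ok_mp T5.Ymp.bz_eq (w := 207) (c := ⟨⟨.negSucc 2000, .negSucc 507, .negSucc 152, .negSucc 73, .ofNat 176, .ofNat 198⟩, ⟨.negSucc 369, .ofNat 143, .negSucc 389, .negSucc 39, .ofNat 47, .ofNat 50⟩, ⟨.ofNat 1332, .ofNat 462, .ofNat 170, .negSucc 241, .negSucc 192, .negSucc 136⟩, ⟨.negSucc 4314, .negSucc 526, .negSucc 253, .negSucc 112, .ofNat 338, .ofNat 372⟩, ⟨.negSucc 606, .ofNat 62, .ofNat 105, .negSucc 343, .ofNat 202, .ofNat 220⟩, .ofNat 459,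 .negSucc 156, .ofNat 0, .negSucc 156, .ofNat 1273, .ofNat 0, .ofNat 378, .ofNat 83, .negSucc 234, .ofNat 0, .ofNat 128, .negSucc 4, .ofNat 0, .ofNat 0, .ofNat 550, .ofNat 2281, .ofNat 0, .ofNat 0, .ofNat 576423656168481093084745275289894912, .ofNat 0, .ofNat 0, .ofNat 0, .ofNat 32837524694923507309470145922017001472, .ofNat 0, .ofNat 0, .ofNat 0, .ofNat 62030956578096349668270587627721195520, .ofNat 0, .ofNat 0, .ofNat 0, .ofNat 76485708408075317072578525881375391744, .ofNat 0⟩)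
    (by decide +kernel)
theorem L01971 : Good (Phi V5.P V5.D (-1) 1) ⟨3, 4, 2, 1, 2, 2, 2, 2, 4, 3⟩ :=
  leafX_sound T5.ok_mp T5.Ymp.bz_eq (w := 202) (c := ⟨⟨.negSucc 2135, .negSucc 352, .negSucc 85, .ofNat 67, .ofNat 369, .ofNat 317⟩, ⟨.negSucc 388, .ofNat 146, .negSucc 336, .negSucc 19, .ofNat 93, .ofNat 61⟩, ⟨.ofNat 1645, .ofNat 311, .ofNat 137, .negSucc 406, .negSucc 542, .negSucc 245⟩, ⟨.negSucc 4590, .negSucc 239, .negSucc 107, .ofNat 181, .ofNat 710, .ofNat 638⟩, ⟨.negSucc 593, .ofNat 59, .ofNat 58, .negSucc 300, .ofNat 389, .ofNat 151⟩, .ofNat 331, .negSucc 54, .ofNat 0, .negSucc 54, .ofNat 632, .ofNat 0, .ofNat 214, .ofNat 38, .negSucc 114, .ofNat 0, .ofNat 128, .ofNat 10, .ofNat 0, .ofNat 0, .ofNat 373, .ofNat 1095, .ofNat 0, .ofNat 0, .ofNat 0, .ofNat 0, .ofNat 0, .ofNat 0, .ofNat 1866636895969338964140147038719311872, .ofNat 0, .ofNat 0, .ofNat 0, .ofNat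 1385657750437812384446735469925892096, .ofNat 0, .ofNat 0, .ofNat 0, .ofNat 1555289245916080543457567656676163584, .ofNat 0⟩)
    (by decide +kernel)
theorem L01972 : Good (Phi V5.P V5.D (-1) 1) ⟨3, 4, 2, 1, 2, 2, 3, 6, 4, 2⟩ :=
  leafX_sound T5.ok_mp T5.Ymp.bz_eq (w := 206) (c := ⟨⟨.negSucc 1875, .negSucc 454, .negSucc 108, .negSucc 57, .ofNat 283, .ofNat 250⟩, ⟨.negSucc 345, .ofNat 136, .negSucc 344, .negSucc 20, .ofNat 82, .ofNat 64⟩, ⟨.ofNat 1214, .ofNat 384, .ofNat 94, .negSucc 211, .negSucc 306, .negSucc 238⟩, ⟨.negSucc 4035, .negSucc 460, .negSucc 210, .negSucc 111, .ofNat 530, .ofNat 469⟩, ⟨.negSucc 566, .ofNat 117, .ofNat 100, .negSucc 126, .ofNat 367, .ofNat 290⟩, .ofNat 459, .negSucc 155, .ofNat 0, .negSucc 155, .ofNat 1276, .ofNat 0, .ofNat 269, .ofNat 86, .negSucc 204, .ofNat 0, .ofNat 128, .negSucc 3, .ofNat 0, .ofNat 0, .ofNat 438, .ofNat 1191, .ofNat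 0, .ofNat 0, .ofNat 312890257146722182362068061893165056, .ofNat 0, .ofNat 0, .ofNat 0, .ofNat 13569623205916754283828338485083766784, .ofNat 0, .ofNat 0, .ofNat 0, .ofNat 38388187832026060278027556849237098496, .ofNat 0, .ofNat 0, .ofNat 0, .ofNat 43794649497114116133083003648074579968, .ofNat 0⟩)
    (by decide +kernel)
theorem L01973 : Good (Phi V5.P V5.D (-1) 1) ⟨3, 4, 2, 1, 2, 2, 3, 7, 4, 2⟩ :=
  leafX_sound T5.ok_mp T5.Ymp.bz_eq (w := 205) (c := ⟨⟨.negSucc 1630, .negSucc 381, .negSucc 72, .negSucc 81, .ofNat 628, .ofNat 293⟩, ⟨.negSucc 301, .ofNat 151, .negSucc 296, .ofNat 1, .ofNat 155, .ofNat 89⟩, ⟨.ofNat 946, .ofNat 290, .ofNat 23, .negSucc 126, .negSucc 634, .negSucc 313⟩, ⟨.negSucc 3538, .negSucc 334, .negSucc 184, .negSucc 204, .ofNat 1230, .ofNat 542⟩, ⟨.negSucc 370, .ofNat 117, .ofNat 66, .ofNat 197, .ofNat 535, .ofNat 457⟩, .ofNat 451, .negSucc 133,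 .ofNat 0, .negSucc 133, .ofNat 1261, .ofNat 0, .ofNat 265, .ofNat 82, .negSucc 263, .ofNat 0, .ofNat 128, .ofNat 0, .ofNat 0, .ofNat 0, .ofNat 498, .ofNat 509, .ofNat 0, .ofNat 0, .ofNat 0, .ofNat 0, .ofNat 0, .ofNat 0, .ofNat 0, .ofNat 0, .ofNat 0, .ofNat 12364288027492750931056986430337733099520, .ofNat 22812126773271449176211929320025751552, .ofNat 0, .ofNat 0, .ofNat 12030777207144878359693382065224945762304, .ofNat 36488028077849956511630573379348594688, .ofNat 0⟩)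
    (by decide +kernel)
theorem L01974 : Good (Phi V5.P V5.D (-1) 1) ⟨3, 4, 2, 1, 2, 2, 2, 3, 4, 3⟩ :=
  leafX_sound T5.ok_mp T5.Ymp.bz_eq (w := 201) (c := ⟨⟨.negSucc 1800, .negSucc 230, .negSucc 20, .ofNat 120, .ofNat 594, .ofNat 291⟩, ⟨.negSucc 315, .ofNat 153, .negSucc 282, .ofNat 13, .ofNat 185, .ofNat 64⟩, ⟨.ofNat 1192, .ofNat 146, .ofNat 20, .negSucc 403, .negSucc 754, .negSucc 304⟩, ⟨.negSucc 3895, .negSucc 32, .negSucc 32, .ofNat 242, .ofNat 1110, .ofNat 557⟩, ⟨.negSucc 340, .ofNat 85, .ofNat 59, .negSucc 23, .ofNat 843, .ofNat 278⟩, .ofNat 458, .negSucc 153, .ofNat 0, .negSucc 153, .ofNat 1267, .ofNat 0, .ofNat 261, .ofNat 74, .negSucc 101, .ofNat 0, .ofNat 128, .negSucc 0, .ofNat 0, .ofNat 0, .ofNat 372, .ofNat 554, .ofNat 0, .ofNat 0, .ofNat 0, .ofNat 0, .ofNat 0, .ofNat 3609276277791600768472047371591161479168, .ofNat 1773503943652880536404996955649867776,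 .ofNat 0, .ofNat 0, .ofNat 4680491708623952314207273456901006819328, .ofNat 2214052904938694900092104069697503232, .ofNat 0, .ofNat 0, .ofNat 2280032147404314552392974793367980343296, .ofNat 973753775520656441143177719301799936, .ofNat 0⟩)
    (by decide +kernel)
theorem L01975 : Good (Phi V5.P V5.D (-1) 1) ⟨3, 5, 2, 1, 2, 2, 1, 1, 3, 1⟩ :=
  out_sound (S := T5.ds_mp) T5.ok_mp (w := 43) (j := 3) (by decide +kernel)
theorem L01976 : Good (Phi V5.P V5.D (-1) 1) ⟨2, 3, 2, 1, 2, 2, 1, 1, 3, 1⟩ :=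
  out_sound (S := T5.ds_mp) T5.ok_mp (w := 37) (j := 3) (by decide +kernel)
theorem L01977 : Good (Phi V5.P V5.D (-1) 1) ⟨4, 8, 2, 1, 3, 6, 2, 2, 4, 0⟩ :=
  leafX_sound T5.ok_mp T5.Ymp.bz_eq (w := 219) (c := ⟨⟨.ofNat 1682, .ofNat 273, .negSucc 209, .ofNat 259, .negSucc 1074, .negSucc 2309⟩, ⟨.ofNat 311, .negSucc 28, .negSucc 176, .negSucc 23, .negSucc 217, .negSucc 421⟩, ⟨.negSucc 1164, .negSucc 303, .negSucc 38, .negSucc 235, .ofNat 596, .ofNat 1465⟩, ⟨.ofNat 3790, .ofNat 544, .negSucc 89, .ofNat 614, .negSucc 2280, .negSucc 4975⟩, ⟨.negSucc 1012, .negSucc 338, .negSucc 469, .negSucc 474, .negSucc 118, .ofNat 140⟩, .ofNat 495, .negSucc 241, .ofNat 0, .negSucc 241, .ofNat 1317, .ofNat 0, .ofNat 128, .ofNat 129, .negSucc 241, .ofNat 0, .ofNat 115, .negSucc 23, .ofNat 0, .ofNat 0, .ofNat 302, .ofNat 230, .ofNat 0, .ofNat 0, .ofNat 0, .ofNat 0, .ofNat 0, .ofNat 0,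 .ofNat 0, .ofNat 0, .ofNat 0, .ofNat 0, .ofNat 0, .ofNat 0, .ofNat 0, .ofNat 0, .ofNat 3604318160851971598201871436489043214336, .ofNat 0⟩)
    (by decide +kernel)
theorem L01978 : Good (Phi V5.P V5.D (-1) 1) ⟨4, 9, 3, 2, 3, 6, 2, 2, 4, 0⟩ :=
  leafX_sound T5.ok_mp T5.Ymp.bz_eq (w := 223) (c := ⟨⟨.ofNat 2313, .ofNat 252, .negSucc 128, .ofNat 368, .negSucc 1257, .negSucc 2878⟩, ⟨.ofNat 118, .negSucc 108, .negSucc 68, .ofNat 12, .negSucc 136, .negSucc 295⟩, ⟨.negSucc 1706, .negSucc 325, .negSucc 57, .negSucc 294, .ofNat 714, .ofNat 1915⟩, ⟨.ofNat 4754, .ofNat 412, .negSucc 36, .ofNat 790, .negSucc 2516, .negSucc 5753⟩, ⟨.negSucc 1162, .negSucc 428, .negSucc 365, .negSucc 362, .negSucc 144, .negSucc 176⟩, .ofNat 502, .negSucc 176, .ofNat 0, .negSucc 176, .ofNat 1850, .ofNat 0, .ofNat 294, .ofNat 114, .negSucc 344, .ofNat 0, .ofNat 128, .negSucc 6, .ofNat 0, .ofNat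 0, .ofNat 410, .ofNat 332, .ofNat 0, .ofNat 0, .ofNat 285814487751229689598158431179287560192, .ofNat 0, .ofNat 0, .ofNat 0, .ofNat 0, .ofNat 0, .ofNat 0, .ofNat 0, .ofNat 0, .ofNat 0, .ofNat 0, .ofNat 0, .ofNat 22698626556290155568588743370600047706112, .ofNat 0⟩)
    (by decide +kernel)
theorem L01979 : Good (Phi V5.P V5.D (-1) 1) ⟨4, 9, 3, 3, 3, 6, 2, 2, 4, 0⟩ :=
  out_sound (S := T5.ds_mp) T5.ok_mp (w := 51) (j := 3) (by decide +kernel)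
theorem L01980 : Good (Phi V5.P V5.D (-1) 1) ⟨4, 8, 3, 2, 3, 7, 2, 2, 5, 0⟩ :=
  leafX_sound T5.ok_mp T5.Ymp.bz_eq (w := 227) (c := ⟨⟨.ofNat 1783, .ofNat 400, .ofNat 168, .negSucc 893, .negSucc 1157, .negSucc 1096⟩, ⟨.ofNat 286, .negSucc 33, .ofNat 8, .negSucc 77, .negSucc 287, .negSucc 227⟩, ⟨.negSucc 1186, .negSucc 352, .negSucc 302, .ofNat 744, .ofNat 601, .ofNat 574⟩, ⟨.ofNat 3865, .ofNat 789, .ofNat 605, .negSucc 2015, .negSucc 2262, .negSucc 2282⟩, ⟨.negSucc 547, .negSucc 471, .negSucc 619, .ofNat 916, .negSucc 955, .negSucc 333⟩, .ofNat 613, .negSucc 448, .ofNat 0, .negSucc 448, .ofNat 2571, .ofNat 0, .ofNat 231, .ofNat 128, .negSucc 371, .ofNat 0, .ofNat 95, .negSucc 24, .ofNat 0, .ofNat 0, .ofNat 458, .ofNat 150, .ofNat 0, .ofNat 0, .ofNat 0, .ofNat 0, .ofNat 0, .ofNat 0, .ofNat 0, .ofNat 0, .ofNat 0, .ofNat 0, .ofNat 0, .ofNat 0, .ofNat 0, .ofNat 0, .ofNat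 935968072376637813628631837685699951198208, .ofNat 0⟩)
    (by decide +kernel)
theorem L01981 : Good (Phi V5.P V5.D (-1) 1) ⟨4, 8, 3, 3, 3, 7, 2, 2, 5, 0⟩ :=
  leafX_sound T5.ok_mp T5.Ymp.bz_eq (w := 228) (c := ⟨⟨.ofNat 1911, .ofNat 406, .ofNat 192, .negSucc 640, .negSucc 1077, .negSucc 1249⟩, ⟨.ofNat 398, .negSucc 35, .ofNat 26, .negSucc 93, .negSucc 364, .negSucc 307⟩, ⟨.negSucc 1458, .negSucc 389, .negSucc 291, .ofNat 512, .ofNat 514, .ofNat 768⟩, ⟨.ofNat 4279, .ofNat 859, .ofNat 918, .negSucc 1544, .negSucc 1979, .negSucc 2633⟩, ⟨.negSucc 804, .negSucc 567, .negSucc 956, .ofNat 700, .negSucc 1311, .negSucc 126⟩, .ofNat 708, .negSucc 657, .ofNat 0, .negSucc 657, .ofNat 2515, .ofNat 0, .ofNat 222, .ofNat 128, .negSucc 473, .ofNat 0, .ofNat 88, .negSucc 63, .ofNat 0, .ofNat 0, .ofNat 557, .ofNat 201, .ofNat 0, .ofNat 0, .ofNat 6796612021086903155045471743358047092736,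 .ofNat 0, .ofNat 0, .ofNat 0, .ofNat 0, .ofNat 0, .ofNat 0, .ofNat 0, .ofNat 214147697125922130509732781789116327002112, .ofNat 0, .ofNat 0, .ofNat 0, .ofNat 1546798275642952949344602643634513843847168, .ofNat 0⟩)
    (by decide +kernel)
theorem L01982 : Good (Phi V5.P V5.D (-1) 1) ⟨4, 9, 3, 2, 3, 7, 2, 2, 5, 0⟩ :=
  leafX_sound T5.ok_mp T5.Ymp.bz_eq (w := 228) (c := ⟨⟨.ofNat 2328, .ofNat 821, .ofNat 465, .negSucc 1389, .negSucc 1241, .negSucc 1237⟩, ⟨.ofNat 186, .negSucc 102, .negSucc 3, .negSucc 1, .negSucc 246, .negSucc 174⟩, ⟨.negSucc 1643, .negSucc 732, .negSucc 530, .ofNat 1203, .ofNat 620, .ofNat 680⟩, ⟨.ofNat 4772, .ofNat 1490, .ofNat 1191, .negSucc 2849, .negSucc 2375, .negSucc 2411⟩, ⟨.negSucc 867, .negSucc 629, .negSucc 733, .ofNat 1096, .negSucc 998, .negSucc 468⟩, .ofNat 535, .negSucc 232, .ofNat 0, .negSucc 232, .ofNat 2291, .ofNat 0, .ofNat 260,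 .ofNat 128, .negSucc 510, .ofNat 0, .ofNat 125, .ofNat 4, .ofNat 0, .ofNat 0, .ofNat 569, .ofNat 340, .ofNat 0, .ofNat 0, .ofNat 17709881041158050819449236092777312288768, .ofNat 0, .ofNat 0, .ofNat 0, .ofNat 0, .ofNat 0, .ofNat 0, .ofNat 0, .ofNat 1492622027103894711314733212179409827528704, .ofNat 0, .ofNat 0, .ofNat 0, .ofNat 1968462854085723098082278936915336356691968, .ofNat 0⟩)
    (by decide +kernel)
theorem L01983 : Good (Phi V5.P V5.D (-1) 1) ⟨4, 9, 3, 3, 3, 7, 2, 2, 5, 0⟩ :=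
  out_sound (S := T5.ds_mp) T5.ok_mp (w := 51) (j := 3) (by decide +kernel)
theorem L01984 : Good (Phi V5.P V5.D (-1) 1) ⟨4, 8, 3, 2, 3, 7, 2, 2, 5, 1⟩ :=
  leafX_sound T5.ok_mp T5.Ymp.bz_eq (w := 227) (c := ⟨⟨.ofNat 354, .negSucc 39, .negSucc 77, .negSucc 472, .negSucc 560, .negSucc 827⟩, ⟨.negSucc 15, .negSucc 9, .negSucc 111, .negSucc 47, .negSucc 147, .negSucc 137⟩, ⟨.negSucc 490, .ofNat 7, .negSucc 33, .ofNat 338, .ofNat 313, .ofNat 491⟩, ⟨.ofNat 897, .negSucc 40, .ofNat 24, .negSucc 1077, .negSucc 1085, .negSucc 1801⟩, ⟨.negSucc 1390, .negSucc 104, .negSucc 202, .ofNat 441, .negSucc 550, .ofNat 174⟩, .ofNat 575, .negSucc 361, .ofNat 0, .negSucc 361, .ofNat 2162, .ofNat 0, .ofNat 220, .ofNat 128, .negSucc 315, .ofNat 0, .ofNat 102, .negSucc 19, .ofNat 0, .ofNat 0, .ofNat 381, .ofNat 482, .ofNat 0, .ofNat 0, .ofNat 0, .ofNat 0, .ofNat 0, .ofNat 0, .ofNat 0,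 .ofNat 0, .ofNat 0, .ofNat 0, .ofNat 0, .ofNat 0, .ofNat 0, .ofNat 0, .ofNat 584605012223663677179822270509875778813952, .ofNat 0⟩)
    (by decide +kernel)
theorem L01985 : Good (Phi V5.P V5.D (-1) 1) ⟨4, 8, 3, 3, 3, 7, 2, 2, 5, 1⟩ :=
  leafX_sound T5.ok_mp T5.Ymp.bz_eq (w := 227) (c := ⟨⟨.ofNat 286, .ofNat 121, .negSucc 20, .negSucc 394, .negSucc 524, .negSucc 1060⟩, ⟨.negSucc 88, .ofNat 31, .negSucc 98, .negSucc 55, .negSucc 167, .negSucc 210⟩, ⟨.negSucc 596, .negSucc 99, .negSucc 71, .ofNat 285, .ofNat 312, .ofNat 729⟩, ⟨.ofNat 924, .ofNat 267, .ofNat 94, .negSucc 971, .negSucc 883, .negSucc 2367⟩, ⟨.negSucc 1653, .negSucc 2, .negSucc 45, .ofNat 484, .negSucc 755, .ofNat 459⟩, .ofNat 691, .negSucc 624, .ofNat 0, .negSucc 624, .ofNat 2588, .ofNat 0, .ofNat 201, .ofNat 128, .negSucc 330, .ofNat 0, .ofNat 90, .negSucc 38, .ofNat 0, .ofNat 0, .ofNat 407, .ofNat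 306, .ofNat 0, .ofNat 0, .ofNat 0, .ofNat 0, .ofNat 0, .ofNat 0, .ofNat 0, .ofNat 0, .ofNat 0, .ofNat 0, .ofNat 495644363000796375491630979160158138007552, .ofNat 0, .ofNat 0, .ofNat 0, .ofNat 922631680239100588487522688644988832579584, .ofNat 0⟩)
    (by decide +kernel)
theorem L01986 : Good (Phi V5.P V5.D (-1) 1) ⟨4, 9, 3, 2, 3, 7, 2, 2, 5, 1⟩ :=
  leafX_sound T5.ok_mp T5.Ymp.bz_eq (w := 227) (c := ⟨⟨.ofNat 809, .negSucc 135, .negSucc 314, .negSucc 710, .negSucc 605, .negSucc 1306⟩, ⟨.negSucc 109, .negSucc 15, .negSucc 130, .ofNat 1, .negSucc 101, .negSucc 85⟩, ⟨.negSucc 858, .ofNat 81, .ofNat 147, .ofNat 545, .ofNat 313, .ofNat 892⟩, ⟨.ofNat 1697, .negSucc 209, .negSucc 439, .negSucc 1464, .negSucc 1175, .negSucc 2597⟩, ⟨.negSucc 1677, .negSucc 51, .negSucc 121, .ofNat 583, .negSucc 414, .ofNat 182⟩, .ofNat 500, .negSucc 172, .ofNat 0, .negSucc 172, .ofNat 1828,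 .ofNat 0, .ofNat 256, .ofNat 112, .negSucc 518, .ofNat 0, .ofNat 128, .ofNat 8, .ofNat 0, .ofNat 0, .ofNat 560, .ofNat 485, .ofNat 0, .ofNat 0, .ofNat 4694160015260434563094166827591958265856, .ofNat 0, .ofNat 0, .ofNat 0, .ofNat 0, .ofNat 0, .ofNat 0, .ofNat 0, .ofNat 0, .ofNat 0, .ofNat 0, .ofNat 0, .ofNat 1405490887103056427357902254653888245268480, .ofNat 0⟩)
    (by decide +kernel)
theorem L01987 : Good (Phi V5.P V5.D (-1) 1) ⟨4, 9, 3, 3, 3, 7, 2, 2, 5, 1⟩ :=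
  out_sound (S := T5.ds_mp) T5.ok_mp (w := 51) (j := 3) (by decide +kernel)
theorem L01988 : Good (Phi V5.P V5.D (-1) 1) ⟨3, 5, 2, 1, 2, 3, 2, 2, 4, 0⟩ :=
  out_sound (S := T5.ds_mp) T5.ok_mp (w := 43) (j := 3) (by decide +kernel)
theorem L01989 : Good (Phi V5.P V5.D (-1) 1) ⟨2, 3, 2, 1, 2, 3, 2, 2, 4, 0⟩ :=
  out_sound (S := T5.ds_mp) T5.ok_mp (w := 37) (j := 3) (by decide +kernel)
theorem L01990 : Good (Phi V5.P V5.D (-1) 1) ⟨4, 8, 2, 1, 2, 3, 3, 4, 5, 2⟩ :=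
  leafX_sound T5.ok_mp T5.Ymp.bz_eq (w := 214) (c := ⟨⟨.negSucc 741, .negSucc 353, .negSucc 492, .negSucc 179, .ofNat 22, .negSucc 724⟩, ⟨.negSucc 227, .ofNat 6, .negSucc 364, .negSucc 12, .negSucc 12, .negSucc 116⟩, ⟨.ofNat 141, .ofNat 292, .ofNat 321, .ofNat 30, .negSucc 8, .ofNat 495⟩, ⟨.negSucc 1406, .negSucc 666, .negSucc 854, .negSucc 425, .ofNat 62, .negSucc 1567⟩, ⟨.negSucc 1843, .ofNat 325, .ofNat 312, .ofNat 234, .negSucc 120, .ofNat 246⟩, .ofNat 587, .negSucc 394, .ofNat 0, .negSucc 394, .ofNat 2105, .ofNat 0, .ofNat 273, .ofNat 128, .negSucc 360, .ofNat 0, .ofNat 106, .negSucc 31, .ofNat 0, .ofNat 0, .ofNat 490, .ofNat 395, .ofNat 0, .ofNat 0, .ofNat 3057609084552694469226905567292817408, .ofNat 0, .ofNat 0, .ofNat 0, .ofNat 0, .ofNat 0, .ofNat 0, .ofNat 0, .ofNat 0, .ofNat 0, .ofNat 0, .ofNat 0, .ofNat 668732570053259881860800017399719919616, .ofNat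 0⟩)
    (by decide +kernel)
theorem L01991 : Good (Phi V5.P V5.D (-1) 1) ⟨4, 8, 3, 2, 2, 3, 3, 4, 5, 3⟩ :=
  leafX_sound T5.ok_mp T5.Ymp.bz_eq (w := 219) (c := ⟨⟨.negSucc 1837, .negSucc 240, .negSucc 220, .ofNat 240, .ofNat 172, .negSucc 197⟩, ⟨.negSucc 380, .ofNat 34, .negSucc 216, .ofNat 13, .ofNat 26, .negSucc 29⟩, ⟨.ofNat 957, .ofNat 188, .ofNat 169, .negSucc 351, .negSucc 144, .ofNat 149⟩, ⟨.negSucc 3827, .negSucc 315, .negSucc 370, .ofNat 524, .ofNat 354, .negSucc 437⟩, ⟨.negSucc 1311, .ofNat 25, .ofNat 102, .negSucc 227, .negSucc 22, .ofNat 73⟩, .ofNat 574, .negSucc 357, .ofNat 0, .negSucc 357, .ofNat 2155, .ofNat 0, .ofNat 514, .ofNat 128, .negSucc 661, .ofNat 0, .ofNat 120, .negSucc 42, .ofNat 0, .ofNat 0, .ofNat 1067, .ofNat 2831, .ofNat 0, .ofNat 0, .ofNat 0, .ofNat 0, .ofNat 0, .ofNat 0, .ofNat 2072086771925528001120778595496397635584, .ofNat 0, .ofNat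 0, .ofNat 0, .ofNat 0, .ofNat 0, .ofNat 0, .ofNat 0, .ofNat 0, .ofNat 0⟩)
    (by decide +kernel)
theorem L01992 : Good (Phi V5.P V5.D (-1) 1) ⟨4, 8, 3, 3, 2, 3, 3, 4, 5, 3⟩ :=
  leafX_sound T5.ok_mp T5.Ymp.bz_eq (w := 218) (c := ⟨⟨.negSucc 2004, .negSucc 402, .negSucc 185, .ofNat 161, .ofNat 192, .negSucc 122⟩, ⟨.negSucc 597, .ofNat 19, .negSucc 225, .ofNat 20, .ofNat 41, .negSucc 32⟩, ⟨.ofNat 1068, .ofNat 339, .ofNat 149, .negSucc 290, .negSucc 166, .ofNat 109⟩, ⟨.negSucc 4101, .negSucc 658, .negSucc 296, .ofNat 376, .ofNat 406, .negSucc 302⟩, ⟨.negSucc 1281, .ofNat 188, .ofNat 47, .negSucc 151, .negSucc 26, .ofNat 88⟩, .ofNat 707, .negSucc 661, .ofNat 0, .negSucc 661, .ofNat 2693, .ofNat 0, .ofNat 304, .ofNat 128, .negSucc 341, .ofNat 0, .ofNat 97, .negSucc 44, .ofNat 0, .ofNat 0, .ofNat 552, .ofNat 1603, .ofNat 0, .ofNat 0, .ofNat 10035834644801739745069561828624826368,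 .ofNat 0, .ofNat 0, .ofNat 0, .ofNat 1054658224390908251100410945377937653760, .ofNat 0, .ofNat 0, .ofNat 0, .ofNat 635308003664265153142098849028529717248, .ofNat 0, .ofNat 0, .ofNat 0, .ofNat 1807052909720695594552390346791291191296, .ofNat 0⟩)
    (by decide +kernel)
theorem L01993 : Good (Phi V5.P V5.D (-1) 1) ⟨4, 9, 2, 1, 3, 6, 3, 4, 5, 2⟩ :=
  leafX_sound T5.ok_mp T5.Ymp.bz_eq (w := 229) (c := ⟨⟨.negSucc 775, .negSucc 363, .negSucc 565, .ofNat 85, .negSucc 144, .negSucc 1077⟩, ⟨.negSucc 247, .ofNat 0, .negSucc 377, .negSucc 11, .negSucc 0, .negSucc 73⟩, ⟨.ofNat 173, .ofNat 290, .ofNat 375, .negSucc 94, .ofNat 87, .ofNat 800⟩, ⟨.negSucc 1472, .negSucc 574, .negSucc 902, .ofNat 193, .negSucc 310, .negSucc 2195⟩, ⟨.negSucc 1653, .negSucc 68, .ofNat 124, .negSucc 230, .ofNat 130, .ofNat 311⟩, .ofNat 505, .negSucc 186, .ofNat 0, .negSucc 186, .ofNat 1843, .ofNat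 0, .ofNat 496, .ofNat 99, .negSucc 579, .ofNat 0, .ofNat 128, .negSucc 9, .ofNat 0, .ofNat 0, .ofNat 727, .ofNat 1730, .ofNat 0, .ofNat 0, .ofNat 0, .ofNat 0, .ofNat 0, .ofNat 0, .ofNat 0, .ofNat 0, .ofNat 0, .ofNat 0, .ofNat 16345800071290622794071532756406979316940800, .ofNat 0, .ofNat 0, .ofNat 0, .ofNat 20457400636598505222253749648052228410310656, .ofNat 0⟩)
    (by decide +kernel)
theorem L01994 : Good (Phi V5.P V5.D (-1) 1) ⟨4, 9, 2, 1, 3, 7, 3, 4, 5, 2⟩ :=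
  leafX_sound T5.ok_mp T5.Ymp.bz_eq (w := 229) (c := ⟨⟨.negSucc 1045, .negSucc 334, .negSucc 439, .negSucc 248, .ofNat 136, .negSucc 821⟩, ⟨.negSucc 273, .ofNat 36, .negSucc 353, .ofNat 25, .negSucc 14, .negSucc 60⟩, ⟨.ofNat 385, .ofNat 275, .ofNat 281, .ofNat 126, .negSucc 117, .ofNat 532⟩, ⟨.negSucc 2051, .negSucc 497, .negSucc 640, .negSucc 487, .ofNat 245, .negSucc 1643⟩, ⟨.negSucc 1520, .ofNat 105, .ofNat 163, .ofNat 284, .negSucc 158, .ofNat 95⟩, .ofNat 550, .negSucc 308, .ofNat 0, .negSucc 308, .ofNat 1930, .ofNat 0, .ofNat 345, .ofNat 121, .negSucc 807, .ofNat 0, .ofNat 128, .negSucc 22, .ofNat 0, .ofNat 0, .ofNat 867, .ofNat 1290, .ofNat 0, .ofNat 0, .ofNat 236198820712945930814140968729758899634176, .ofNat 0, .ofNat 0, .ofNat 0, .ofNat 10558281627256575879513943995623929655853056, .ofNat 0, .ofNat 0, .ofNat 0, .ofNat 7852486541130476953441435319357051420803072,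 .ofNat 0, .ofNat 0, .ofNat 0, .ofNat 42550217473915632332455650958494124761677824, .ofNat 0⟩)
    (by decide +kernel)
theorem L01995 : Good (Phi V5.P V5.D (-1) 1) ⟨4, 9, 3, 2, 3, 6, 3, 4, 5, 3⟩ :=
  leafX_sound T5.ok_mp T5.Ymp.bz_eq (w := 233) (c := ⟨⟨.negSucc 2080, .negSucc 520, .negSucc 289, .ofNat 168, .ofNat 149, .negSucc 283⟩, ⟨.negSucc 354, .ofNat 59, .negSucc 225, .negSucc 9, .ofNat 25, .negSucc 0⟩, ⟨.ofNat 1149, .ofNat 445, .ofNat 240, .negSucc 195, .negSucc 154, .ofNat 229⟩, ⟨.negSucc 4148, .negSucc 788, .negSucc 505, .ofNat 340, .ofNat 277, .negSucc 586⟩, ⟨.negSucc 1404, .ofNat 105, .ofNat 174, .negSucc 169, .ofNat 124, .ofNat 231⟩, .ofNat 500, .negSucc 173, .ofNat 0, .negSucc 173, .ofNat 1823, .ofNat 0, .ofNat 541, .ofNat 81, .negSucc 800, .ofNat 0, .ofNat 128, .ofNat 0, .ofNat 0, .ofNat 0, .ofNat 1138, .ofNat 3236, .ofNat 0, .ofNat 0, .ofNat 0, .ofNat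 0, .ofNat 0, .ofNat 0, .ofNat 0, .ofNat 0, .ofNat 0, .ofNat 0, .ofNat 19213163054677762419492376764773395670761472, .ofNat 0, .ofNat 0, .ofNat 0, .ofNat 78270448303640179646153356328111005828644864, .ofNat 0⟩)
    (by decide +kernel)
theorem L01996 : Good (Phi V5.P V5.D (-1) 1) ⟨4, 9, 3, 2, 3, 7, 3, 4, 5, 3⟩ :=
  leafX_sound T5.ok_mp T5.Ymp.bz_eq (w := 233) (c := ⟨⟨.negSucc 2126, .negSucc 425, .negSucc 425, .ofNat 193, .ofNat 316, .negSucc 77⟩, ⟨.negSucc 348, .ofNat 60, .negSucc 222, .ofNat 19, .ofNat 6, .negSucc 19⟩, ⟨.ofNat 1158, .ofNat 348, .ofNat 322, .negSucc 272, .negSucc 265, .ofNat 29⟩, ⟨.negSucc 4217, .negSucc 645, .negSucc 817, .ofNat 357, .ofNat 650, .negSucc 162⟩, ⟨.negSucc 1364, .ofNat 176, .ofNat 357, .ofNat 68, .negSucc 221, .negSucc 74⟩, .ofNat 501, .negSucc 173, .ofNat 0, .negSucc 173, .ofNat 1839, .ofNat 0, .ofNat 478, .ofNat 77, .negSucc 759,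 .ofNat 0, .ofNat 128, .ofNat 21, .ofNat 0, .ofNat 0, .ofNat 1017, .ofNat 3094, .ofNat 0, .ofNat 0, .ofNat 235241168988161385098379187196716208095232, .ofNat 0, .ofNat 0, .ofNat 0, .ofNat 34511535549944059175521964565992452701290496, .ofNat 0, .ofNat 0, .ofNat 0, .ofNat 20156398432518592098097357551838222690025472, .ofNat 0, .ofNat 0, .ofNat 0, .ofNat 106014495810372989495702454172356200387051520, .ofNat 0⟩)
    (by decide +kernel)
theorem L01997 : Good (Phi V5.P V5.D (-1) 1) ⟨4, 9, 3, 3, 2, 3, 3, 4, 5, 3⟩ :=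
  out_sound (S := T5.ds_mp) T5.ok_mp (w := 51) (j := 3) (by decide +kernel)
theorem L01998 : Good (Phi V5.P V5.D (-1) 1) ⟨3, 5, 2, 1, 2, 3, 3, 4, 4, 1⟩ :=
  out_sound (S := T5.ds_mp) T5.ok_mp (w := 43) (j := 3) (by decide +kernel)
theorem L01999 : Good (Phi V5.P V5.D (-1) 1) ⟨4, 8, 3, 2, 2, 3, 3, 5, 5, 2⟩ :=
  leafX_sound T5.ok_mp T5.Ymp.bz_eq (w := 218) (c := ⟨⟨.negSucc 1104, .negSucc 299, .negSucc 190, .ofNat 108, .negSucc 5, .negSucc 385⟩, ⟨.negSucc 282, .ofNat 7, .negSucc 164, .negSucc 12, .ofNat 0, .negSucc 56⟩, ⟨.ofNat 432, .ofNat 231, .ofNat 100, .negSucc 177, .negSucc 2, .ofNat 225⟩, ⟨.negSucc 2239, .negSucc 523, .negSucc 303, .ofNat 316, .negSucc 34, .negSucc 839⟩, ⟨.negSucc 1450, .ofNat 153, .ofNat 159, .negSucc 468, .ofNat 54, .ofNat 92⟩, .ofNat 576, .negSucc 364, .ofNat 0, .negSucc 364, .ofNat 2146, .ofNat 0, .ofNat 290, .ofNat 128, .negSucc 455, .ofNat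 0, .ofNat 108, .negSucc 30, .ofNat 0, .ofNat 0, .ofNat 615, .ofNat 1531, .ofNat 0, .ofNat 0, .ofNat 0, .ofNat 0, .ofNat 0, .ofNat 0, .ofNat 0, .ofNat 0, .ofNat 0, .ofNat 0, .ofNat 0, .ofNat 0, .ofNat 0, .ofNat 0, .ofNat 0, .ofNat 0⟩)
    (by decide +kernel)
theorem L02000 : Good (Phi V5.P V5.D (-1) 1) ⟨4, 8, 3, 3, 3, 6, 3, 5, 5, 2⟩ :=
  leafX_sound T5.ok_mp T5.Ymp.bz_eq (w := 232) (c := ⟨⟨.negSucc 1123, .negSucc 352, .negSucc 192, .ofNat 76, .negSucc 108, .negSucc 610⟩, ⟨.negSucc 413, .negSucc 11, .negSucc 190, .negSucc 2, .negSucc 7, .negSucc 112⟩, ⟨.ofNat 366, .ofNat 293, .ofNat 135, .negSucc 109, .ofNat 85, .ofNat 466⟩, ⟨.negSucc 2132, .negSucc 607, .negSucc 346, .ofNat 236, .negSucc 288, .negSucc 1387⟩, ⟨.negSucc 1568, .ofNat 86, .ofNat 168, .negSucc 264, .ofNat 218, .ofNat 350⟩, .ofNat 621, .negSucc 470, .ofNat 0, .negSucc 470, .ofNat 2096, .ofNat 0, .ofNat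 195, .ofNat 128, .negSucc 268, .ofNat 0, .ofNat 98, .negSucc 34, .ofNat 0, .ofNat 0, .ofNat 380, .ofNat 1892, .ofNat 0, .ofNat 0, .ofNat 0, .ofNat 0, .ofNat 0, .ofNat 0, .ofNat 16012392146842506161039573151695487958515712, .ofNat 0, .ofNat 0, .ofNat 0, .ofNat 8941034095535417504684042867559664468361216, .ofNat 0, .ofNat 0, .ofNat 0, .ofNat 9882094711852833430100975420437733805391872, .ofNat 0⟩)
    (by decide +kernel)
theorem L02001 : Good (Phi V5.P V5.D (-1) 1) ⟨4, 8, 3, 3, 3, 7, 3, 5, 5, 2⟩ :=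
  leafX_sound T5.ok_mp T5.Ymp.bz_eq (w := 232) (c := ⟨⟨.negSucc 1275, .negSucc 224, .negSucc 228, .negSucc 20, .ofNat 118, .negSucc 413⟩, ⟨.negSucc 452, .ofNat 9, .negSucc 182, .negSucc 0, .ofNat 18, .negSucc 86⟩, ⟨.ofNat 437, .ofNat 196, .ofNat 164, .negSucc 23, .negSucc 98, .ofNat 287⟩, ⟨.negSucc 2437, .negSucc 401, .negSucc 465, .negSucc 42, .ofNat 282, .negSucc 867⟩, ⟨.negSucc 1598, .ofNat 182, .ofNat 326, .ofNat 9, .negSucc 136, .ofNat 18⟩, .ofNat 735, .negSucc 720, .ofNat 0, .negSucc 720, .ofNat 2715, .ofNat 0, .ofNat 236, .ofNat 128, .negSucc 441, .ofNat 0, .ofNat 91, .negSucc 56, .ofNat 0, .ofNat 0, .ofNat 544, .ofNat 1193, .ofNat 0, .ofNat 0, .ofNat 83680386793766445603180080919209433890816, .ofNat 0, .ofNat 0, .ofNat 0, .ofNat 15857270042869415767186627150633473358692352, .ofNat 0, .ofNat 0, .ofNat 0, .ofNat 6325480447382538428910222984138830045511680,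 .ofNat 0, .ofNat 0, .ofNat 0, .ofNat 28429048990131973337622117084607179734908928, .ofNat 0⟩)
    (by decide +kernel)
theorem L02002 : Good (Phi V5.P V5.D (-1) 1) ⟨4, 8, 3, 2, 2, 3, 3, 5, 5, 3⟩ :=
  leafX_sound T5.ok_mp T5.Ymp.bz_eq (w := 219) (c := ⟨⟨.negSucc 1904, .negSucc 248, .negSucc 128, .ofNat 510, .ofNat 182, .negSucc 96⟩, ⟨.negSucc 391, .ofNat 35, .negSucc 191, .ofNat 19, .ofNat 45, .ofNat 0⟩, ⟨.ofNat 987, .ofNat 202, .ofNat 85, .negSucc 522, .negSucc 142, .ofNat 68⟩, ⟨.negSucc 4009, .negSucc 355, .negSucc 167, .ofNat 1211, .ofNat 361, .negSucc 231⟩, ⟨.negSucc 1148, .ofNat 111, .ofNat 38, .negSucc 801, .ofNat 121, .ofNat 158⟩, .ofNat 571, .negSucc 351, .ofNat 0, .negSucc 351, .ofNat 2140, .ofNat 0, .ofNat 405, .ofNat 128, .negSucc 396, .ofNat 0, .ofNat 117, .negSucc 21, .ofNat 0, .ofNat 0, .ofNat 616, .ofNat 2216, .ofNat 0, .ofNat 0, .ofNat 0, .ofNat 0,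 .ofNat 0, .ofNat 0, .ofNat 0, .ofNat 0, .ofNat 0, .ofNat 0, .ofNat 0, .ofNat 0, .ofNat 0, .ofNat 0, .ofNat 196195626392358418715324577915921760256, .ofNat 0⟩)
    (by decide +kernel)
theorem L02003 : Good (Phi V5.P V5.D (-1) 1) ⟨4, 8, 3, 3, 2, 3, 4, 10, 5, 3⟩ :=
  leafX_sound T5.ok_mp T5.Ymp.bz_eq (w := 222) (c := ⟨⟨.negSucc 1999, .negSucc 266, .negSucc 160, .ofNat 480, .ofNat 119, .negSucc 110⟩, ⟨.negSucc 584, .ofNat 17, .negSucc 215, .ofNat 51, .ofNat 35, .negSucc 13⟩, ⟨.ofNat 1037, .ofNat 241, .ofNat 128, .negSucc 518, .negSucc 95, .ofNat 99⟩, ⟨.negSucc 4124, .negSucc 335, .negSucc 249, .ofNat 1161, .ofNat 226, .negSucc 277⟩, ⟨.negSucc 1122, .negSucc 59, .ofNat 46, .negSucc 630, .ofNat 90, .ofNat 153⟩, .ofNat 699, .negSucc 648, .ofNat 0, .negSucc 648, .ofNat 2729, .ofNat 0, .ofNat 220, .ofNat 128, .negSucc 288, .ofNat 0, .ofNat 98, .negSucc 33, .ofNat 0, .ofNat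 0, .ofNat 450, .ofNat 1465, .ofNat 0, .ofNat 0, .ofNat 78028146842590981057855186078093279232, .ofNat 0, .ofNat 0, .ofNat 0, .ofNat 8946544130109772811733820785312657309696, .ofNat 0, .ofNat 0, .ofNat 0, .ofNat 0, .ofNat 0, .ofNat 0, .ofNat 0, .ofNat 17253314425503744325475474079404026494976, .ofNat 0⟩)
    (by decide +kernel)
theorem L02004 : Good (Phi V5.P V5.D (-1) 1) ⟨4, 8, 3, 3, 2, 3, 4, 11, 5, 3⟩ :=
  leafX_sound T5.ok_mp T5.Ymp.bz_eq (w := 223) (c := ⟨⟨.negSucc 1994, .negSucc 318, .negSucc 156, .ofNat 534, .ofNat 105, .negSucc 38⟩, ⟨.negSucc 581, .ofNat 16, .negSucc 192, .ofNat 56, .ofNat 36, .ofNat 7⟩, ⟨.ofNat 1037, .ofNat 276, .ofNat 125, .negSucc 554, .negSucc 81, .ofNat 32⟩, ⟨.negSucc 4141, .negSucc 515, .negSucc 271, .ofNat 1350, .ofNat 195, .negSucc 105⟩, ⟨.negSucc 1033, .ofNat 159, .ofNat 150, .negSucc 840, .ofNat 115, .ofNat 123⟩, .ofNat 634, .negSucc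 496, .ofNat 0, .negSucc 496, .ofNat 2135, .ofNat 0, .ofNat 293, .ofNat 128, .negSucc 357, .ofNat 0, .ofNat 101, .negSucc 37, .ofNat 0, .ofNat 0, .ofNat 556, .ofNat 1737, .ofNat 0, .ofNat 0, .ofNat 74254509038351592212853288639364333568, .ofNat 0, .ofNat 0, .ofNat 0, .ofNat 29646344579606601065625038154135366533120, .ofNat 0, .ofNat 0, .ofNat 0, .ofNat 5762395887657951538835095290192752279552, .ofNat 0, .ofNat 0, .ofNat 0, .ofNat 24998923267174322493992188553877616852992, .ofNat 0⟩)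
    (by decide +kernel)
theorem L02005 : Good (Phi V5.P V5.D (-1) 1) ⟨4, 9, 3, 2, 2, 3, 3, 5, 6, 4⟩ :=
  leafX_sound T5.ok_mp T5.Ymp.bz_eq (w := 223) (c := ⟨⟨.negSucc 1083, .negSucc 461, .negSucc 479, .ofNat 15, .negSucc 144, .negSucc 343⟩, ⟨.negSucc 270, .ofNat 20, .negSucc 174, .negSucc 12, .negSucc 5, .negSucc 25⟩, ⟨.ofNat 409, .ofNat 359, .ofNat 345, .negSucc 96, .ofNat 102, .ofNat 228⟩, ⟨.negSucc 2066, .negSucc 845, .negSucc 889, .ofNat 18, .negSucc 284, .negSucc 699⟩, ⟨.negSucc 1657, .ofNat 329, .ofNat 343, .negSucc 72, .ofNat 30, .ofNat 77⟩, .ofNat 479, .negSucc 154, .ofNat 0, .negSucc 154, .ofNat 1561, .ofNat 0, .ofNat 456, .ofNat 105, .negSucc 910, .ofNat 0, .ofNat 128, .ofNat 5, .ofNat 0, .ofNat 0, .ofNat 1039, .ofNat 2142, .ofNat 0, .ofNat 0, .ofNat 462731820372173444135997925801519480832, .ofNat 0, .ofNat 0, .ofNat 0, .ofNat 38447654054110609732466649530805583347712,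 .ofNat 0, .ofNat 0, .ofNat 0, .ofNat 13959981486108351748323600351165134405632, .ofNat 0, .ofNat 0, .ofNat 0, .ofNat 191305880888746973560436400783021804879872, .ofNat 0⟩)
    (by decide +kernel)
theorem L02006 : Good (Phi V5.P V5.D (-1) 1) ⟨4, 9, 3, 2, 2, 3, 3, 5, 6, 5⟩ :=
  leafX_sound T5.ok_mp T5.Ymp.bz_eq (w := 224) (c := ⟨⟨.negSucc 1727, .negSucc 538, .negSucc 304, .ofNat 404, .ofNat 76, .negSucc 201⟩, ⟨.negSucc 314, .ofNat 38, .negSucc 191, .negSucc 14, .ofNat 16, .negSucc 8⟩, ⟨.ofNat 888, .ofNat 434, .ofNat 216, .negSucc 441, .negSucc 71, .ofNat 132⟩, ⟨.negSucc 3426, .negSucc 906, .negSucc 528, .ofNat 851, .ofNat 146, .negSucc 411⟩, ⟨.negSucc 1374, .ofNat 227, .ofNat 217, .negSucc 477, .ofNat 64, .ofNat 90⟩, .ofNat 519, .negSucc 206, .ofNat 0, .negSucc 206, .ofNat 2037, .ofNat 0, .ofNat 413, .ofNat 105, .negSucc 779, .ofNat 0, .ofNat 128, .ofNat 0, .ofNat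 0, .ofNat 0, .ofNat 945, .ofNat 2516, .ofNat 0, .ofNat 0, .ofNat 280451400377153199203600840091896905728, .ofNat 0, .ofNat 0, .ofNat 0, .ofNat 40211103205577631563498436710151980318720, .ofNat 0, .ofNat 0, .ofNat 0, .ofNat 23171058186389237525880309201868051972096, .ofNat 0, .ofNat 0, .ofNat 0, .ofNat 166514552580975372466648510662001498783744, .ofNat 0⟩)
    (by decide +kernel)
theorem L02007 : Good (Phi V5.P V5.D (-1) 1) ⟨4, 9, 3, 3, 2, 3, 3, 5, 5, 2⟩ :=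
  out_sound (S := T5.ds_mp) T5.ok_mp (w := 51) (j := 3) (by decide +kernel)
theorem L02008 : Good (Phi V5.P V5.D (-1) 1) ⟨5, 18, 3, 2, 2, 3, 3, 5, 5, 3⟩ :=
  leafX_sound T5.ok_mp T5.Ymp.bz_eq (w := 223) (c := ⟨⟨.negSucc 2308, .negSucc 86, .negSucc 243, .ofNat 722, .ofNat 233, .negSucc 32⟩, ⟨.negSucc 346, .ofNat 25, .negSucc 204, .negSucc 2, .ofNat 41, .ofNat 7⟩, ⟨.ofNat 1334, .ofNat 68, .ofNat 180, .negSucc 709, .negSucc 195, .ofNat 6⟩, ⟨.negSucc 4637, .negSucc 61, .negSucc 406, .ofNat 1550, .ofNat 447, .negSucc 83⟩, ⟨.negSucc 1049, .negSucc 38, .ofNat 128, .negSucc 820, .ofNat 149, .ofNat 120⟩, .ofNat 541, .negSucc 263, .ofNat 0, .negSucc 263, .ofNat 2232, .ofNat 0, .ofNat 514, .ofNat 108, .negSucc 636, .ofNat 0, .ofNat 128, .negSucc 3, .ofNat 0, .ofNat 0, .ofNat 876, .ofNat 2255, .ofNat 0, .ofNat 0, .ofNat 0, .ofNat 0, .ofNat 0, .ofNat 0, .ofNat 0, .ofNat 0,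 .ofNat 0, .ofNat 0, .ofNat 0, .ofNat 0, .ofNat 0, .ofNat 0, .ofNat 434723600551200803501717443015029555200, .ofNat 0⟩)
    (by decide +kernel)
theorem L02009 : Good (Phi V5.P V5.D (-1) 1) ⟨5, 19, 3, 2, 2, 3, 3, 5, 5, 3⟩ :=
  leafX_sound T5.ok_mp T5.Ymp.bz_eq (w := 224) (c := ⟨⟨.negSucc 2534, .negSucc 161, .negSucc 316, .ofNat 885, .ofNat 264, .negSucc 30⟩, ⟨.negSucc 302, .ofNat 21, .negSucc 224, .negSucc 38, .ofNat 34, .ofNat 11⟩, ⟨.ofNat 1520, .ofNat 138, .ofNat 254, .negSucc 850, .negSucc 224, .negSucc 0⟩, ⟨.negSucc 4971, .negSucc 193, .negSucc 524, .ofNat 1810, .ofNat 509, .negSucc 64⟩, ⟨.negSucc 933, .negSucc 90, .negSucc 14, .negSucc 910, .ofNat 112, .ofNat 101⟩, .ofNat 507, .negSucc 156, .ofNat 0, .negSucc 156, .ofNat 2048, .ofNat 0, .ofNat 505, .ofNat 76, .negSucc 776, .ofNat 0, .ofNat 128, .ofNat 26, .ofNat 0, .ofNat 0, .ofNat 1024, .ofNat 3056, .ofNat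 0, .ofNat 0, .ofNat 2820955943179109828832611948522635264, .ofNat 0, .ofNat 0, .ofNat 0, .ofNat 1003081782503040598485975364908034818048, .ofNat 0, .ofNat 0, .ofNat 0, .ofNat 530209806315483738174617763222455844864, .ofNat 0, .ofNat 0, .ofNat 0, .ofNat 1116117138099117262957457014364317941760, .ofNat 0⟩)
    (by decide +kernel)
theorem L02010 : Good (Phi V5.P V5.D (-1) 1) ⟨4, 9, 3, 3, 2, 3, 3, 5, 5, 3⟩ :=
  out_sound (S := T5.ds_mp) T5.ok_mp (w := 51) (j := 3) (by decide +kernel)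
theorem L02011 : Good (Phi V5.P V5.D (-1) 1) ⟨3, 5, 2, 1, 2, 3, 3, 5, 4, 1⟩ :=
  out_sound (S := T5.ds_mp) T5.ok_mp (w := 43) (j := 3) (by decide +kernel)
theorem L02012 : Good (Phi V5.P V5.D (-1) 1) ⟨2, 3, 2, 1, 2, 3, 2, 2, 4, 1⟩ :=
  out_sound (S := T5.ds_mp) T5.ok_mp (w := 37) (j := 3) (by decide +kernel)
theorem L02013 : Good (Phi V5.P V5.D (-1) 1) ⟨4, 8, 2, 1, 3, 6, 3, 4, 5, 4⟩ :=
  leafX_sound T5.ok_mp T5.Ymp.bz_eq (w := 231) (c := ⟨⟨.negSucc 2103, .negSucc 296, .negSucc 299, .ofNat 166, .ofNat 160, .ofNat 44⟩, ⟨.negSucc 423, .ofNat 43, .negSucc 449, .ofNat 3, .ofNat 45, .ofNat 19⟩, ⟨.ofNat 1162, .ofNat 258, .ofNat 287, .negSucc 221, .negSucc 170, .negSucc 15⟩, ⟨.negSucc 4453, .negSucc 398, .negSucc 473, .ofNat 392, .ofNat 319, .ofNat 69⟩, ⟨.negSucc 1173, .ofNat 85, .ofNat 134, .negSucc 277, .ofNat 117, .ofNat 111⟩, .ofNat 489, .negSucc 223, .ofNat 0, .negSucc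 223, .ofNat 1329, .ofNat 0, .ofNat 394, .ofNat 109, .negSucc 396, .ofNat 0, .ofNat 128, .negSucc 18, .ofNat 0, .ofNat 0, .ofNat 746, .ofNat 5526, .ofNat 0, .ofNat 0, .ofNat 0, .ofNat 0, .ofNat 0, .ofNat 0, .ofNat 11697654661802108477047918709578541377257472, .ofNat 0, .ofNat 0, .ofNat 0, .ofNat 6036163722274887685021286911634861526614016, .ofNat 0, .ofNat 0, .ofNat 0, .ofNat 14586026565350346440363254767849964484689920, .ofNat 0⟩)
    (by decide +kernel)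
theorem L02014 : Good (Phi V5.P V5.D (-1) 1) ⟨4, 8, 3, 2, 3, 7, 3, 4, 5, 4⟩ :=
  leafX_sound T5.ok_mp T5.Ymp.bz_eq (w := 234) (c := ⟨⟨.negSucc 2111, .negSucc 176, .negSucc 100, .ofNat 273, .ofNat 292, .ofNat 132⟩, ⟨.negSucc 432, .ofNat 40, .negSucc 202, .ofNat 20, .ofNat 45, .ofNat 23⟩, ⟨.ofNat 1093, .ofNat 151, .ofNat 76, .negSucc 315, .negSucc 241, .negSucc 88⟩, ⟨.negSucc 4457, .negSucc 181, .negSucc 81, .ofNat 646, .ofNat 631, .ofNat 300⟩, ⟨.negSucc 1230, .ofNat 3, .negSucc 22, .negSucc 355, .negSucc 89, .negSucc 62⟩, .ofNat 578, .negSucc 365, .ofNat 0, .negSucc 365, .ofNat 2164, .ofNat 0, .ofNat 471, .ofNat 120, .negSucc 359, .ofNat 0, .ofNat 128, .negSucc 11, .ofNat 0, .ofNat 0, .ofNat 703, .ofNat 5433, .ofNat 0, .ofNat 0, .ofNat 0, .ofNat 0, .ofNat 0, .ofNat 0, .ofNat 17909164464396753478749337549161529014747136, .ofNat 0, .ofNat 0, .ofNat 0, .ofNat 0, .ofNat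 0, .ofNat 0, .ofNat 0, .ofNat 0, .ofNat 0⟩)
    (by decide +kernel)
theorem L02015 : Good (Phi V5.P V5.D (-1) 1) ⟨4, 8, 3, 3, 3, 7, 3, 4, 5, 4⟩ :=
  leafX_sound T5.ok_mp T5.Ymp.bz_eq (w := 233) (c := ⟨⟨.negSucc 2271, .negSucc 220, .negSucc 169, .ofNat 284, .ofNat 302, .ofNat 207⟩, ⟨.negSucc 657, .ofNat 30, .negSucc 212, .ofNat 35, .ofNat 68, .ofNat 38⟩, ⟨.ofNat 1220, .ofNat 192, .ofNat 154, .negSucc 326, .negSucc 262, .negSucc 148⟩, ⟨.negSucc 4700, .negSucc 289, .negSucc 260, .ofNat 707, .ofNat 663, .ofNat 479⟩, ⟨.negSucc 1182, .ofNat 78, .ofNat 100, .negSucc 398, .negSucc 71, .negSucc 149⟩, .ofNat 577, .negSucc 383, .ofNat 0, .negSucc 383, .ofNat 1745, .ofNat 0, .ofNat 447, .ofNat 128, .negSucc 342, .ofNat 0, .ofNat 125, .negSucc 20, .ofNat 0, .ofNat 0, .ofNat 654, .ofNat 3452, .ofNat 0, .ofNat 0, .ofNat 240726750216562635112129522537891383738368, .ofNat 0, .ofNat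 0, .ofNat 0, .ofNat 0, .ofNat 0, .ofNat 0, .ofNat 0, .ofNat 9886582871071483090307055661642439213449216, .ofNat 0, .ofNat 0, .ofNat 0, .ofNat 51284672115575916423172262067723294323245056, .ofNat 0⟩)
    (by decide +kernel)
theorem L02016 : Good (Phi V5.P V5.D (-1) 1) ⟨4, 8, 2, 1, 3, 6, 3, 5, 5, 4⟩ :=
  leafX_sound T5.ok_mp T5.Ymp.bz_eq (w := 230) (c := ⟨⟨.negSucc 2057, .negSucc 261, .negSucc 241, .ofNat 241, .ofNat 230, .ofNat 112⟩, ⟨.negSucc 412, .ofNat 45, .negSucc 396, .ofNat 14, .ofNat 66, .ofNat 36⟩, ⟨.ofNat 1101, .ofNat 217, .ofNat 216, .negSucc 269, .negSucc 200, .negSucc 86⟩, ⟨.negSucc 4364, .negSucc 335, .negSucc 389, .ofNat 579, .ofNat 435, .ofNat 211⟩, ⟨.negSucc 1040, .ofNat 70, .ofNat 154, .negSucc 343, .ofNat 260, .ofNat 134⟩, .ofNat 484, .negSucc 211, .ofNat 0, .negSucc 211, .ofNat 1328, .ofNat 0, .ofNat 261, .ofNat 109, .negSucc 315, .ofNat 0, .ofNat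 128, .negSucc 9, .ofNat 0, .ofNat 0, .ofNat 579, .ofNat 3308, .ofNat 0, .ofNat 0, .ofNat 0, .ofNat 0, .ofNat 0, .ofNat 0, .ofNat 327493337561987694402364176303396222926848, .ofNat 0, .ofNat 0, .ofNat 0, .ofNat 4198205316117354127969856638776663370366976, .ofNat 0, .ofNat 0, .ofNat 0, .ofNat 9173777603072479361237037725695591114080256, .ofNat 0⟩)
    (by decide +kernel)
theorem L02017 : Good (Phi V5.P V5.D (-1) 1) ⟨4, 8, 2, 1, 3, 7, 3, 5, 5, 4⟩ :=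
  leafX_sound T5.ok_mp T5.Ymp.bz_eq (w := 230) (c := ⟨⟨.negSucc 1977, .negSucc 45, .negSucc 134, .ofNat 396, .ofNat 327, .ofNat 189⟩, ⟨.negSucc 421, .ofNat 37, .negSucc 343, .ofNat 25, .ofNat 90, .ofNat 53⟩, ⟨.ofNat 955, .ofNat 13, .ofNat 65, .negSucc 317, .negSucc 220, .negSucc 124⟩, ⟨.negSucc 4151, .ofNat 70, .negSucc 62, .ofNat 966, .ofNat 657, .ofNat 401⟩, ⟨.negSucc 1201, .negSucc 103, .negSucc 1, .negSucc 603, .ofNat 189, .ofNat 51⟩, .ofNat 546, .negSucc 311, .ofNat 0, .negSucc 311, .ofNat 1756, .ofNat 0, .ofNat 285, .ofNat 122, .negSucc 269, .ofNat 0, .ofNat 128, .negSucc 4, .ofNat 0, .ofNat 0, .ofNat 517, .ofNat 2098, .ofNat 0, .ofNat 0, .ofNat 26822778721930514795262720796693155020800, .ofNat 0, .ofNat 0, .ofNat 0, .ofNat 0, .ofNat 0, .ofNat 0, .ofNat 0, .ofNat 5323543803772902109706818392905279789334528, .ofNat 0, .ofNat 0, .ofNat 0, .ofNat 10335682703347673320901047018079655496253440,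 .ofNat 0⟩)
    (by decide +kernel)
theorem L02018 : Good (Phi V5.P V5.D (-1) 1) ⟨4, 9, 3, 2, 2, 3, 3, 4, 5, 4⟩ :=
  leafX_sound T5.ok_mp T5.Ymp.bz_eq (w := 220) (c := ⟨⟨.negSucc 2658, .negSucc 285, .negSucc 145, .ofNat 728, .ofNat 295, .ofNat 197⟩, ⟨.negSucc 363, .ofNat 61, .negSucc 224, .negSucc 12, .ofNat 32, .ofNat 13⟩, ⟨.ofNat 1636, .ofNat 250, .ofNat 139, .negSucc 786, .negSucc 275, .negSucc 134⟩, ⟨.negSucc 5330, .negSucc 339, .negSucc 186, .ofNat 1496, .ofNat 583, .ofNat 376⟩, ⟨.negSucc 986, .ofNat 37, .negSucc 7, .negSucc 677, .ofNat 10, .negSucc 1⟩, .ofNat 505, .negSucc 200, .ofNat 0, .negSucc 200, .ofNat 1749, .ofNat 0, .ofNat 489, .ofNat 77, .negSucc 498, .ofNat 0, .ofNat 128, .ofNat 6, .ofNat 0, .ofNat 0, .ofNat 813, .ofNat 3140, .ofNat 0, .ofNat 0, .ofNat 9463267698859642841597386882019229696, .ofNat 0, .ofNat 0, .ofNat 0, .ofNat 2461418474745217389145145039910745407488,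 .ofNat 0, .ofNat 0, .ofNat 0, .ofNat 690620664596200254800237476791046897664, .ofNat 0, .ofNat 0, .ofNat 0, .ofNat 1373285624696889104600470777706357719040, .ofNat 0⟩)
    (by decide +kernel)
theorem L02019 : Good (Phi V5.P V5.D (-1) 1) ⟨4, 9, 3, 2, 2, 3, 3, 5, 5, 4⟩ :=
  leafX_sound T5.ok_mp T5.Ymp.bz_eq (w := 219) (c := ⟨⟨.negSucc 2563, .negSucc 179, .negSucc 90, .ofNat 959, .ofNat 318, .ofNat 211⟩, ⟨.negSucc 356, .ofNat 58, .negSucc 192, .negSucc 8, .ofNat 64, .ofNat 40⟩, ⟨.ofNat 1532, .ofNat 137, .ofNat 78, .negSucc 917, .negSucc 278, .negSucc 173⟩, ⟨.negSucc 5156, .negSucc 156, .negSucc 98, .ofNat 2022, .ofNat 607, .ofNat 415⟩, ⟨.negSucc 892, .ofNat 16, .ofNat 26, .negSucc 1005, .ofNat 265, .ofNat 128⟩, .ofNat 477, .negSucc 149, .ofNat 0, .negSucc 149, .ofNat 1552, .ofNat 0, .ofNat 574, .ofNat 74, .negSucc 337, .ofNat 0, .ofNat 128, .ofNat 13, .ofNat 0, .ofNat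 0, .ofNat 584, .ofNat 1979, .ofNat 0, .ofNat 0, .ofNat 3628653324806474415853292395488608256, .ofNat 0, .ofNat 0, .ofNat 0, .ofNat 0, .ofNat 0, .ofNat 0, .ofNat 0, .ofNat 0, .ofNat 0, .ofNat 0, .ofNat 0, .ofNat 1379894827491338701716791877400830935040, .ofNat 0⟩)
    (by decide +kernel)
theorem L02020 : Good (Phi V5.P V5.D (-1) 1) ⟨4, 9, 3, 3, 2, 3, 2, 2, 5, 4⟩ :=
  out_sound (S := T5.ds_mp) T5.ok_mp (w := 51) (j := 3) (by decide +kernel)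
theorem L02021 : Good (Phi V5.P V5.D (-1) 1) ⟨4, 8, 2, 1, 2, 3, 3, 4, 5, 5⟩ :=
  leafX_sound T5.ok_mp T5.Ymp.bz_eq (w := 216) (c := ⟨⟨.negSucc 2324, .negSucc 121, .negSucc 139, .ofNat 638, .ofNat 254, .ofNat 207⟩, ⟨.negSucc 449, .ofNat 51, .negSucc 381, .ofNat 46, .ofNat 64, .ofNat 45⟩, ⟨.ofNat 1381, .ofNat 93, .ofNat 137, .negSucc 686, .negSucc 245, .negSucc 138⟩, ⟨.negSucc 4959, .negSucc 63, .negSucc 88, .ofNat 1546, .ofNat 517, .ofNat 428⟩, ⟨.negSucc 874, .negSucc 11, .negSucc 27, .negSucc 941, .ofNat 121, .ofNat 54⟩, .ofNat 485, .negSucc 212, .ofNat 0, .negSucc 212, .ofNat 1328, .ofNat 0, .ofNat 383, .ofNat 90, .negSucc 222, .ofNat 0, .ofNat 128, .ofNat 2, .ofNat 0, .ofNat 0, .ofNat 572, .ofNat 2885, .ofNat 0, .ofNat 0, .ofNat 4300670970713721143985452369674502144, .ofNat 0, .ofNat 0, .ofNat 0, .ofNat 0, .ofNat 0, .ofNat 0, .ofNat 0, .ofNat 498913242406130246183263166945107640320,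 .ofNat 0, .ofNat 0, .ofNat 0, .ofNat 420472687377284620583935508493170114560, .ofNat 0⟩)
    (by decide +kernel)
theorem L02022 : Good (Phi V5.P V5.D (-1) 1) ⟨4, 9, 2, 1, 2, 3, 3, 4, 5, 5⟩ :=
  leafX_sound T5.ok_mp T5.Ymp.bz_eq (w := 216) (c := ⟨⟨.negSucc 2612, .negSucc 168, .negSucc 178, .ofNat 847, .ofNat 286, .ofNat 298⟩, ⟨.negSucc 357, .ofNat 59, .negSucc 395, .negSucc 14, .ofNat 44, .ofNat 34⟩, ⟨.ofNat 1638, .ofNat 140, .ofNat 192, .negSucc 892, .negSucc 287, .negSucc 222⟩, ⟨.negSucc 5250, .negSucc 139, .negSucc 161, .ofNat 1794, .ofNat 549, .ofNat 596⟩, ⟨.negSucc 886, .ofNat 18, .ofNat 16, .negSucc 962, .ofNat 139, .ofNat 9⟩, .ofNat 447, .negSucc 154, .ofNat 0, .negSucc 154, .ofNat 1140, .ofNat 0, .ofNat 557, .ofNat 68, .negSucc 270, .ofNat 0, .ofNat 128, .ofNat 12, .ofNat 0, .ofNat 0, .ofNat 563, .ofNat 2043, .ofNat 0, .ofNat 0, .ofNat 4167625340579413686939998164942323712,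 .ofNat 0, .ofNat 0, .ofNat 0, .ofNat 0, .ofNat 0, .ofNat 0, .ofNat 0, .ofNat 354595934667224326495857215570337333248, .ofNat 0, .ofNat 0, .ofNat 0, .ofNat 469834983654583349224170962972563210240, .ofNat 0⟩)
    (by decide +kernel)
theorem L02023 : Good (Phi V5.P V5.D (-1) 1) ⟨3, 4, 2, 1, 3, 6, 3, 5, 5, 5⟩ :=
  leafX_sound T5.ok_mp T5.Ymp.bz_eq (w := 225) (c := ⟨⟨.negSucc 2107, .negSucc 344, .negSucc 154, .ofNat 375, .ofNat 264, .ofNat 248⟩, ⟨.negSucc 392, .ofNat 117, .negSucc 372, .ofNat 16, .ofNat 81, .ofNat 41⟩, ⟨.ofNat 1172, .ofNat 266, .ofNat 159, .negSucc 397, .negSucc 245, .negSucc 209⟩, ⟨.negSucc 4471, .negSucc 282, .negSucc 205, .ofNat 825, .ofNat 507, .ofNat 482⟩, ⟨.negSucc 860, .ofNat 3, .ofNat 26, .negSucc 336, .ofNat 337, .ofNat 125⟩, .ofNat 334, .negSucc 61, .ofNat 0, .negSucc 61, .ofNat 634, .ofNat 0, .ofNat 281, .ofNat 48, .negSucc 205, .ofNat 0,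 .ofNat 128, .ofNat 24, .ofNat 0, .ofNat 0, .ofNat 385, .ofNat 935, .ofNat 0, .ofNat 0, .ofNat 40315332222322939986195376035206585647104, .ofNat 0, .ofNat 0, .ofNat 0, .ofNat 0, .ofNat 0, .ofNat 0, .ofNat 0, .ofNat 0, .ofNat 0, .ofNat 0, .ofNat 0, .ofNat 16587527880431545173135992797802396580315136, .ofNat 0⟩)
    (by decide +kernel)
theorem L02024 : Good (Phi V5.P V5.D (-1) 1) ⟨3, 4, 2, 1, 3, 7, 3, 5, 5, 5⟩ :=
  leafX_sound T5.ok_mp T5.Ymp.bz_eq (w := 224) (c := ⟨⟨.negSucc 1904, .negSucc 42, .negSucc 46, .ofNat 487, .ofNat 347, .ofNat 202⟩, ⟨.negSucc 382, .ofNat 81, .negSucc 284, .ofNat 4, .ofNat 89, .ofNat 65⟩, ⟨.ofNat 876, .ofNat 11, .ofNat 17, .negSucc 366, .negSucc 223, .negSucc 102⟩, ⟨.negSucc 3933, .ofNat 212, .ofNat 172, .ofNat 1050, .ofNat 642, .ofNat 400⟩, ⟨.negSucc 1229, .negSucc 159, .negSucc 243, .negSucc 507, .ofNat 444, .ofNat 271⟩, .ofNat 461, .negSucc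 159, .ofNat 0, .negSucc 159, .ofNat 1272, .ofNat 0, .ofNat 188, .ofNat 74, .negSucc 107, .ofNat 0, .ofNat 128, .ofNat 11, .ofNat 0, .ofNat 0, .ofNat 277, .ofNat 711, .ofNat 0, .ofNat 0, .ofNat 0, .ofNat 0, .ofNat 0, .ofNat 0, .ofNat 5094182465815219396800259897153018180665344, .ofNat 0, .ofNat 0, .ofNat 0, .ofNat 0, .ofNat 0, .ofNat 0, .ofNat 0, .ofNat 7805986545476968237593765687875948309905408, .ofNat 0⟩)
    (by decide +kernel)
theorem L02025 : Good (Phi V5.P V5.D (-1) 1) ⟨3, 4, 2, 1, 3, 6, 2, 2, 4, 3⟩ :=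
  leafX_sound T5.ok_mp T5.Ymp.bz_eq (w := 216) (c := ⟨⟨.negSucc 2117, .negSucc 238, .negSucc 96, .ofNat 300, .ofNat 418, .ofNat 419⟩, ⟨.negSucc 416, .ofNat 123, .negSucc 341, .ofNat 16, .ofNat 134, .ofNat 92⟩, ⟨.ofNat 1297, .ofNat 151, .ofNat 110, .negSucc 359, .negSucc 500, .negSucc 326⟩, ⟨.negSucc 4462, .negSucc 92, .negSucc 84, .ofNat 662, .ofNat 791, .ofNat 828⟩, ⟨.negSucc 1024, .negSucc 41, .negSucc 36, .negSucc 247, .ofNat 690, .ofNat 312⟩, .ofNat 334, .negSucc 60, .ofNat 0, .negSucc 60, .ofNat 635, .ofNat 0, .ofNat 241, .ofNat 34, .negSucc 107, .ofNat 0, .ofNat 128, .ofNat 19, .ofNat 0, .ofNat 0, .ofNat 380, .ofNat 842, .ofNat 0, .ofNat 0, .ofNat 0, .ofNat 0, .ofNat 0, .ofNat 4302599084457195667950187989297755290861568, .ofNat 19381093560682506533011586312372219805696, .ofNat 0, .ofNat 0, .ofNat 0, .ofNat 34523359819166954302909946368903090274304, .ofNat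 0, .ofNat 0, .ofNat 0, .ofNat 12601322218576776885523839835525104009216, .ofNat 0⟩)
    (by decide +kernel)
theorem L02026 : Good (Phi V5.P V5.D (-1) 1) ⟨3, 4, 2, 1, 3, 7, 3, 4, 4, 3⟩ :=
  leafX_sound T5.ok_mp T5.Ymp.bz_eq (w := 219) (c := ⟨⟨.negSucc 1883, .negSucc 94, .negSucc 100, .ofNat 403, .ofNat 245, .ofNat 376⟩, ⟨.negSucc 400, .ofNat 78, .negSucc 306, .ofNat 19, .ofNat 69, .ofNat 109⟩, ⟨.ofNat 965, .ofNat 47, .ofNat 104, .negSucc 387, .negSucc 210, .negSucc 278⟩, ⟨.negSucc 3911, .ofNat 85, .ofNat 79, .ofNat 928, .ofNat 451, .ofNat 715⟩, ⟨.negSucc 1268, .negSucc 48, .negSucc 172, .negSucc 522, .ofNat 319, .ofNat 428⟩, .ofNat 463, .negSucc 167, .ofNat 0, .negSucc 167, .ofNat 1275, .ofNat 0, .ofNat 259, .ofNat 59, .negSucc 76, .ofNat 0, .ofNat 128, .ofNat 14, .ofNat 0, .ofNat 0, .ofNat 417, .ofNat 915, .ofNat 0, .ofNat 0, .ofNat 0, .ofNat 0, .ofNat 0, .ofNat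 0, .ofNat 0, .ofNat 0, .ofNat 0, .ofNat 0, .ofNat 0, .ofNat 0, .ofNat 0, .ofNat 12016371100657143262216099869082662979239936, .ofNat 0, .ofNat 0⟩)
    (by decide +kernel)
theorem L02027 : Good (Phi V5.P V5.D (-1) 1) ⟨3, 4, 2, 1, 3, 7, 3, 5, 4, 3⟩ :=
  leafX_sound T5.ok_mp T5.Ymp.bz_eq (w := 217) (c := ⟨⟨.negSucc 1667, .ofNat 34, .ofNat 20, .ofNat 391, .ofNat 296, .ofNat 312⟩, ⟨.negSucc 340, .ofNat 77, .negSucc 261, .ofNat 26, .ofNat 101, .ofNat 113⟩, ⟨.ofNat 728, .negSucc 83, .negSucc 9, .negSucc 260, .negSucc 196, .negSucc 188⟩, ⟨.negSucc 3495, .ofNat 339, .ofNat 287, .ofNat 914, .ofNat 530, .ofNat 549⟩, ⟨.negSucc 997, .negSucc 209, .negSucc 300, .negSucc 406, .ofNat 595, .ofNat 650⟩, .ofNat 334, .negSucc 61, .ofNat 0, .negSucc 61, .ofNat 635, .ofNat 0, .ofNat 184, .ofNat 35, .negSucc 54, .ofNat 0, .ofNat 128, .ofNat 25, .ofNat 0, .ofNat 0, .ofNat 275, .ofNat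 138, .ofNat 0, .ofNat 0, .ofNat 0, .ofNat 0, .ofNat 0, .ofNat 0, .ofNat 0, .ofNat 0, .ofNat 0, .ofNat 0, .ofNat 0, .ofNat 0, .ofNat 0, .ofNat 6847752301618453129968439774411830679568384, .ofNat 244797020547173609179500595141656149229568, .ofNat 0⟩)
    (by decide +kernel)
theorem L02028 : Good (Phi V5.P V5.D (-1) 1) ⟨3, 5, 2, 1, 2, 3, 2, 2, 3, 1⟩ :=
  out_sound (S := T5.ds_mp) T5.ok_mp (w := 43) (j := 3) (by decide +kernel)
theorem L02029 : Good (Phi V5.P V5.D (-1) 1) ⟨2, 3, 2, 1, 2, 3, 2, 2, 3, 1⟩ :=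
  out_sound (S := T5.ds_mp) T5.ok_mp (w := 37) (j := 3) (by decide +kernel)
theorem L02030 : Good (Phi V5.P V5.D (-1) 1) ⟨4, 8, 3, 2, 3, 6, 3, 6, 5, 0⟩ :=
  leafX_sound T5.ok_mp T5.Ymp.bz_eq (w := 231) (c := ⟨⟨.ofNat 412, .ofNat 91, .negSucc 63, .ofNat 101, .negSucc 693, .negSucc 807⟩, ⟨.negSucc 8, .negSucc 24, .negSucc 77, .negSucc 22, .negSucc 105, .negSucc 136⟩, ⟨.negSucc 481, .negSucc 137, .negSucc 62, .negSucc 95, .ofNat 454, .ofNat 489⟩, ⟨.ofNat 1078, .ofNat 184, .ofNat 56, .ofNat 293, .negSucc 1513, .negSucc 1750⟩, ⟨.negSucc 1338, .negSucc 191, .negSucc 224, .negSucc 449, .ofNat 136, .ofNat 93⟩, .ofNat 481, .negSucc 199, .ofNat 0, .negSucc 199, .ofNat 1345, .ofNat 0, .ofNat 164, .ofNat 128, .negSucc 488, .ofNat 0, .ofNat 119, .negSucc 20, .ofNat 0, .ofNat 0, .ofNat 597, .ofNat 499, .ofNat 0, .ofNat 0, .ofNat 0, .ofNat 0, .ofNat 0, .ofNat 0, .ofNat 0, .ofNat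 0, .ofNat 0, .ofNat 0, .ofNat 0, .ofNat 0, .ofNat 0, .ofNat 0, .ofNat 15584816741191619218369438841223229116252160, .ofNat 0⟩)
    (by decide +kernel)
theorem L02031 : Good (Phi V5.P V5.D (-1) 1) ⟨4, 8, 3, 2, 3, 7, 3, 6, 5, 0⟩ :=
  leafX_sound T5.ok_mp T5.Ymp.bz_eq (w := 231) (c := ⟨⟨.ofNat 325, .ofNat 104, .ofNat 89, .negSucc 460, .negSucc 619, .negSucc 632⟩, ⟨.negSucc 46, .negSucc 17, .negSucc 75, .negSucc 67, .negSucc 109, .negSucc 116⟩, ⟨.negSucc 379, .negSucc 127, .negSucc 217, .ofNat 333, .ofNat 347, .ofNat 313⟩, ⟨.ofNat 916, .ofNat 249, .ofNat 433, .negSucc 999, .negSucc 1325, .negSucc 1370⟩, ⟨.negSucc 1687, .negSucc 254, .negSucc 413, .ofNat 147, .ofNat 41, .ofNat 71⟩, .ofNat 602, .negSucc 419, .ofNat 0, .negSucc 419, .ofNat 2443, .ofNat 0, .ofNat 128, .ofNat 145, .negSucc 496, .ofNat 0, .ofNat 107, .negSucc 19, .ofNat 0, .ofNat 0, .ofNat 590, .ofNat 397,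 .ofNat 0, .ofNat 0, .ofNat 0, .ofNat 0, .ofNat 0, .ofNat 0, .ofNat 0, .ofNat 0, .ofNat 0, .ofNat 0, .ofNat 0, .ofNat 0, .ofNat 0, .ofNat 0, .ofNat 18985681030411743320576259897116728794021888, .ofNat 0⟩)
    (by decide +kernel)
theorem L02032 : Good (Phi V5.P V5.D (-1) 1) ⟨4, 9, 3, 2, 3, 6, 4, 12, 5, 0⟩ :=
  leafX_sound T5.ok_mp T5.Ymp.bz_eq (w := 235) (c := ⟨⟨.ofNat 664, .ofNat 399, .ofNat 82, .ofNat 404, .negSucc 542, .negSucc 1228⟩, ⟨.negSucc 68, .negSucc 51, .negSucc 32, .negSucc 30, .negSucc 39, .negSucc 116⟩, ⟨.negSucc 769, .negSucc 395, .negSucc 202, .negSucc 334, .ofNat 391, .ofNat 858⟩, ⟨.ofNat 1492, .ofNat 737, .ofNat 387, .ofNat 855, .negSucc 1080, .negSucc 2500⟩, ⟨.negSucc 1556, .negSucc 291, .negSucc 282, .negSucc 567, .ofNat 83, .ofNat 179⟩, .ofNat 437, .negSucc 105, .ofNat 0, .negSucc 105, .ofNat 1222, .ofNat 0, .ofNat 246, .ofNat 111, .negSucc 716,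 .ofNat 0, .ofNat 128, .ofNat 7, .ofNat 0, .ofNat 0, .ofNat 802, .ofNat 651, .ofNat 0, .ofNat 0, .ofNat 4220714108071019636660116041276513658601472, .ofNat 0, .ofNat 0, .ofNat 0, .ofNat 0, .ofNat 0, .ofNat 0, .ofNat 0, .ofNat 0, .ofNat 0, .ofNat 0, .ofNat 0, .ofNat 636819325367631713450701070370638964660895744, .ofNat 0⟩)
    (by decide +kernel)
theorem L02033 : Good (Phi V5.P V5.D (-1) 1) ⟨4, 9, 3, 2, 3, 6, 4, 13, 5, 0⟩ :=
  leafX_sound T5.ok_mp T5.Ymp.bz_eq (w := 236) (c := ⟨⟨.ofNat 165, .ofNat 165, .ofNat 68, .ofNat 272, .negSucc 375, .negSucc 1058⟩, ⟨.negSucc 127, .negSucc 45, .negSucc 66, .negSucc 20, .negSucc 29, .negSucc 80⟩, ⟨.negSucc 406, .negSucc 245, .negSucc 227, .negSucc 241, .ofNat 243, .ofNat 771⟩, ⟨.ofNat 466, .ofNat 310, .ofNat 378, .ofNat 611, .negSucc 764, .negSucc 2169⟩, ⟨.negSucc 1539, .negSucc 251, .negSucc 413, .negSucc 505, .ofNat 57, .ofNat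 364⟩, .ofNat 499, .negSucc 170, .ofNat 0, .negSucc 170, .ofNat 1820, .ofNat 0, .ofNat 296, .ofNat 122, .negSucc 907, .ofNat 0, .ofNat 128, .ofNat 1, .ofNat 0, .ofNat 0, .ofNat 1040, .ofNat 1131, .ofNat 0, .ofNat 0, .ofNat 3086888595638747211554367925186400324943872, .ofNat 0, .ofNat 0, .ofNat 0, .ofNat 338633645846994999147789858151623205586993152, .ofNat 0, .ofNat 0, .ofNat 0, .ofNat 380101744354550093010444696985282130913263616, .ofNat 0, .ofNat 0, .ofNat 0, .ofNat 1112248146694165340888928196238690552540823552, .ofNat 0⟩)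
    (by decide +kernel)
theorem L02034 : Good (Phi V5.P V5.D (-1) 1) ⟨5, 18, 3, 2, 4, 14, 4, 12, 5, 0⟩ :=
  leafX_sound T5.ok_mp T5.Ymp.bz_eq (w := 254) (c := ⟨⟨.ofNat 858, .ofNat 346, .ofNat 423, .negSucc 193, .negSucc 490, .negSucc 1244⟩, ⟨.negSucc 64, .negSucc 42, .negSucc 35, .negSucc 30, .negSucc 51, .negSucc 129⟩, ⟨.negSucc 883, .negSucc 336, .negSucc 562, .ofNat 178, .ofNat 321, .ofNat 841⟩, ⟨.ofNat 1945, .ofNat 660, .ofNat 1165, .negSucc 352, .negSucc 1000, .negSucc 2561⟩, ⟨.negSucc 1984, .negSucc 329, .negSucc 778, .negSucc 128, .ofNat 86, .ofNat 325⟩, .ofNat 542, .negSucc 267, .ofNat 0, .negSucc 267, .ofNat 2213, .ofNat 0, .ofNat 174, .ofNat 128, .negSucc 629, .ofNat 0, .ofNat 115, .negSucc 3, .ofNat 0, .ofNat 0, .ofNat 689, .ofNat 807, .ofNat 0, .ofNat 0, .ofNat 0, .ofNat 0, .ofNat 0, .ofNat 0, .ofNat 0, .ofNat 0, .ofNat 0, .ofNat 0, .ofNat 0, .ofNat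 0, .ofNat 0, .ofNat 0, .ofNat 2762738622334815597430412248968652100853034909696, .ofNat 0⟩)
    (by decide +kernel)
theorem L02035 : Good (Phi V5.P V5.D (-1) 1) ⟨5, 18, 3, 2, 4, 14, 4, 13, 5, 0⟩ :=
  leafX_sound T5.ok_mp T5.Ymp.bz_eq (w := 254) (c := ⟨⟨.ofNat 273, .ofNat 207, .ofNat 307, .negSucc 140, .negSucc 448, .negSucc 967⟩, ⟨.negSucc 142, .negSucc 22, .negSucc 97, .negSucc 24, .negSucc 31, .negSucc 82⟩, ⟨.negSucc 494, .negSucc 219, .negSucc 452, .ofNat 117, .ofNat 298, .ofNat 653⟩, ⟨.ofNat 752, .ofNat 430, .ofNat 882, .negSucc 273, .negSucc 920, .negSucc 2029⟩, ⟨.negSucc 1969, .negSucc 294, .negSucc 675, .negSucc 89, .ofNat 151, .ofNat 417⟩, .ofNat 512, .negSucc 205, .ofNat 0, .negSucc 205, .ofNat 1887, .ofNat 0, .ofNat 254, .ofNat 128, .negSucc 1067, .ofNat 0, .ofNat 120, .ofNat 13, .ofNat 0, .ofNat 0, .ofNat 1160, .ofNat 802, .ofNat 0, .ofNat 0, .ofNat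 0, .ofNat 0, .ofNat 0, .ofNat 0, .ofNat 0, .ofNat 0, .ofNat 0, .ofNat 0, .ofNat 1263672208670088995870820897187808954172968009728, .ofNat 0, .ofNat 0, .ofNat 0, .ofNat 7201997561134927933135060871012097503292618178560, .ofNat 0⟩)
    (by decide +kernel)
theorem L02036 : Good (Phi V5.P V5.D (-1) 1) ⟨5, 19, 4, 4, 4, 14, 3, 6, 5, 0⟩ :=
  leafX_sound T5.ok_mp T5.Ymp.bz_eq (w := 253) (c := ⟨⟨.ofNat 1321, .ofNat 286, .ofNat 258, .negSucc 273, .negSucc 1049, .negSucc 1418⟩, ⟨.negSucc 148, .negSucc 50, .negSucc 48, .negSucc 16, .negSucc 53, .negSucc 60⟩, ⟨.negSucc 1308, .negSucc 337, .negSucc 371, .ofNat 239, .ofNat 718, .ofNat 1025⟩, ⟨.ofNat 2783, .ofNat 558, .ofNat 671, .negSucc 530, .negSucc 2099, .negSucc 2839⟩, ⟨.negSucc 2280, .negSucc 423, .negSucc 624, .negSucc 8, .ofNat 269, .ofNat 448⟩, .ofNat 487, .negSucc 130, .ofNat 0, .negSucc 130, .ofNat 1769, .ofNat 0, .ofNat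 154, .ofNat 118, .negSucc 719, .ofNat 0, .ofNat 128, .ofNat 30, .ofNat 0, .ofNat 0, .ofNat 757, .ofNat 860, .ofNat 0, .ofNat 0, .ofNat 1402845007555356913228398064565358142628560896, .ofNat 0, .ofNat 0, .ofNat 0, .ofNat 46765524716080073649323929929296792385411350528, .ofNat 0, .ofNat 0, .ofNat 0, .ofNat 0, .ofNat 0, .ofNat 0, .ofNat 0, .ofNat 460669668950166230847630159088908761452372819968, .ofNat 0⟩)
    (by decide +kernel)
theorem L02037 : Good (Phi V5.P V5.D (-1) 1) ⟨5, 19, 4, 5, 4, 14, 3, 6, 5, 0⟩ :=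
  out_sound (S := T5.ds_mp) T5.ok_mp (w := 59) (j := 3) (by decide +kernel)
theorem L02038 : Good (Phi V5.P V5.D (-1) 1) ⟨4, 9, 4, 4, 4, 15, 3, 6, 5, 0⟩ :=
  leafX_sound T5.ok_mp T5.Ymp.bz_eq (w := 249) (c := ⟨⟨.ofNat 447, .ofNat 369, .ofNat 108, .negSucc 560, .negSucc 717, .negSucc 804⟩, ⟨.negSucc 133, .negSucc 50, .negSucc 45, .negSucc 10, .negSucc 74, .negSucc 67⟩, ⟨.negSucc 514, .negSucc 352, .negSucc 179, .ofNat 450, .ofNat 392, .ofNat 457⟩, ⟨.ofNat 1045, .ofNat 742, .ofNat 358, .negSucc 1173, .negSucc 1429, .negSucc 1612⟩, ⟨.negSucc 1777, .negSucc 420, .negSucc 346, .ofNat 445, .negSucc 83, .ofNat 16⟩, .ofNat 498, .negSucc 170, .ofNat 0, .negSucc 170, .ofNat 1798, .ofNat 0, .ofNat 184, .ofNat 128, .negSucc 976, .ofNat 0, .ofNat 125, .ofNat 53, .ofNat 0, .ofNat 0, .ofNat 1019, .ofNat 718, .ofNat 0, .ofNat 0, .ofNat 0, .ofNat 0, .ofNat 0, .ofNat 0, .ofNat 58065560656714589762836926447953701464640061440,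 .ofNat 0, .ofNat 0, .ofNat 0, .ofNat 0, .ofNat 0, .ofNat 0, .ofNat 0, .ofNat 2240018339982289920331558197000749364482469265408, .ofNat 0⟩)
    (by decide +kernel)
theorem L02039 : Good (Phi V5.P V5.D (-1) 1) ⟨5, 18, 4, 5, 4, 15, 3, 6, 5, 0⟩ :=
  leafX_sound T5.ok_mp T5.Ymp.bz_eq (w := 253) (c := ⟨⟨.ofNat 777, .ofNat 189, .ofNat 309, .negSucc 697, .negSucc 777, .negSucc 998⟩, ⟨.negSucc 134, .negSucc 25, .negSucc 34, .negSucc 29, .negSucc 109, .negSucc 106⟩, ⟨.negSucc 936, .negSucc 186, .negSucc 365, .ofNat 602, .ofNat 465, .ofNat 673⟩, ⟨.ofNat 1950, .ofNat 407, .ofNat 824, .negSucc 1526, .negSucc 1595, .negSucc 2111⟩, ⟨.negSucc 2523, .negSucc 302, .negSucc 567, .ofNat 704, .ofNat 59, .ofNat 461⟩, .ofNat 573, .negSucc 352, .ofNat 0, .negSucc 352, .ofNat 2385, .ofNat 0, .ofNat 134, .ofNat 128, .negSucc 760, .ofNat 0, .ofNat 107, .ofNat 10, .ofNat 0, .ofNat 0, .ofNat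 817, .ofNat 800, .ofNat 0, .ofNat 0, .ofNat 0, .ofNat 0, .ofNat 0, .ofNat 0, .ofNat 52057577759288132999895947952553368288386613248, .ofNat 0, .ofNat 0, .ofNat 0, .ofNat 162848569995617241973159239244770836423293009920, .ofNat 0, .ofNat 0, .ofNat 0, .ofNat 524337952217932567636148805052579799761860689920, .ofNat 0⟩)
    (by decide +kernel)
theorem L02040 : Good (Phi V5.P V5.D (-1) 1) ⟨5, 19, 4, 5, 4, 15, 3, 6, 5, 0⟩ :=
  out_sound (S := T5.ds_mp) T5.ok_mp (w := 59) (j := 3) (by decide +kernel)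
theorem L02041 : Good (Phi V5.P V5.D (-1) 1) ⟨3, 5, 3, 2, 2, 3, 3, 6, 5, 0⟩ :=
  out_sound (S := T5.ds_mp) T5.ok_mp (w := 45) (j := 3) (by decide +kernel)
theorem L02042 : Good (Phi V5.P V5.D (-1) 1) ⟨2, 3, 3, 2, 2, 3, 3, 6, 5, 0⟩ :=
  out_sound (S := T5.ds_mp) T5.ok_mp (w := 39) (j := 3) (by decide +kernel)
theorem L02043 : Good (Phi V5.P V5.D (-1) 1) ⟨4, 8, 3, 2, 2, 3, 4, 12, 5, 1⟩ :=
  leafX_sound T5.ok_mp T5.Ymp.bz_eq (w := 222) (c := ⟨⟨.negSucc 399, .negSucc 217, .negSucc 123, .negSucc 36, .negSucc 138, .negSucc 742⟩, ⟨.negSucc 161, .negSucc 19, .negSucc 129, .negSucc 46, .negSucc 21, .negSucc 112⟩, ⟨.negSucc 52, .ofNat 166, .ofNat 29, .negSucc 37, .ofNat 82, .ofNat 494⟩, ⟨.negSucc 663, .negSucc 422, .negSucc 105, .ofNat 27, .negSucc 316, .negSucc 1662⟩, ⟨.negSucc 1630, .ofNat 92, .negSucc 53, .negSucc 552, .ofNat 84, .ofNat 379⟩, .ofNat 576, .negSucc 363,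 .ofNat 0, .negSucc 363, .ofNat 2159, .ofNat 0, .ofNat 293, .ofNat 128, .negSucc 551, .ofNat 0, .ofNat 102, .negSucc 35, .ofNat 0, .ofNat 0, .ofNat 693, .ofNat 1377, .ofNat 0, .ofNat 0, .ofNat 0, .ofNat 0, .ofNat 0, .ofNat 0, .ofNat 0, .ofNat 0, .ofNat 0, .ofNat 0, .ofNat 0, .ofNat 0, .ofNat 0, .ofNat 0, .ofNat 15157498939653865587141421084442573668352, .ofNat 0⟩)
    (by decide +kernel)
theorem L02044 : Good (Phi V5.P V5.D (-1) 1) ⟨4, 8, 3, 2, 2, 3, 4, 13, 5, 1⟩ :=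
  leafX_sound T5.ok_mp T5.Ymp.bz_eq (w := 222) (c := ⟨⟨.negSucc 766, .negSucc 115, .negSucc 141, .negSucc 4, .negSucc 48, .negSucc 485⟩, ⟨.negSucc 219, .ofNat 8, .negSucc 139, .negSucc 48, .negSucc 3, .negSucc 63⟩, ⟨.ofNat 246, .ofNat 68, .ofNat 28, .negSucc 86, .negSucc 13, .ofNat 302⟩, ⟨.negSucc 1500, .negSucc 165, .negSucc 135, .ofNat 128, .negSucc 138, .negSucc 1122⟩, ⟨.negSucc 1424, .ofNat 28, .negSucc 89, .negSucc 668, .ofNat 116, .ofNat 382⟩, .ofNat 575, .negSucc 361, .ofNat 0, .negSucc 361, .ofNat 2162, .ofNat 0, .ofNat 202, .ofNat 128, .negSucc 566, .ofNat 0, .ofNat 102, .negSucc 33, .ofNat 0, .ofNat 0, .ofNat 687, .ofNat 1463, .ofNat 0, .ofNat 0, .ofNat 0, .ofNat 0, .ofNat 0, .ofNat 0, .ofNat 0, .ofNat 0, .ofNat 0, .ofNat 0, .ofNat 0, .ofNat 0, .ofNat 0, .ofNat 0, .ofNat 21541782020520159842195406336487917092864, .ofNat 0⟩)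
    (by decide +kernel)
theorem L02045 : Good (Phi V5.P V5.D (-1) 1) ⟨4, 9, 3, 2, 3, 6, 3, 6, 5, 1⟩ :=
  leafX_sound T5.ok_mp T5.Ymp.bz_eq (w := 232) (c := ⟨⟨.negSucc 453, .negSucc 181, .negSucc 122, .ofNat 227, .negSucc 527, .negSucc 990⟩, ⟨.negSucc 216, .ofNat 2, .negSucc 136, .negSucc 19, .negSucc 4, .negSucc 42⟩, ⟨.negSucc 46, .ofNat 130, .ofNat 32, .negSucc 233, .ofNat 409, .ofNat 745⟩, ⟨.negSucc 809, .negSucc 270, .negSucc 130, .ofNat 481, .negSucc 1092, .negSucc 2009⟩, ⟨.negSucc 1675, .negSucc 55, .ofNat 12, .negSucc 343, .ofNat 406, .ofNat 441⟩, .ofNat 516, .negSucc 196, .ofNat 0, .negSucc 196, .ofNat 2029, .ofNat 0, .ofNat 250, .ofNat 118, .negSucc 605, .ofNat 0, .ofNat 128, .negSucc 3, .ofNat 0, .ofNat 0, .ofNat 695, .ofNat 996, .ofNat 0, .ofNat 0, .ofNat 55653573029629860218650359323901493772288, .ofNat 0, .ofNat 0, .ofNat 0, .ofNat 12415163788571956467541506514773596669214720,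 .ofNat 0, .ofNat 0, .ofNat 0, .ofNat 26184483897116082765090304818601926877773824, .ofNat 0, .ofNat 0, .ofNat 0, .ofNat 28901889713817597760835296676645924230922240, .ofNat 0⟩)
    (by decide +kernel)
theorem L02046 : Good (Phi V5.P V5.D (-1) 1) ⟨5, 18, 3, 2, 3, 7, 3, 6, 6, 2⟩ :=
  leafX_sound T5.ok_mp T5.Ymp.bz_eq (w := 241) (c := ⟨⟨.negSucc 302, .negSucc 17, .negSucc 67, .negSucc 377, .negSucc 390, .negSucc 440⟩, ⟨.negSucc 207, .negSucc 13, .negSucc 132, .negSucc 28, .negSucc 37, .negSucc 28⟩, ⟨.negSucc 143, .negSucc 3, .negSucc 49, .ofNat 275, .ofNat 202, .ofNat 293⟩, ⟨.negSucc 429, .negSucc 9, .ofNat 40, .negSucc 787, .negSucc 802, .negSucc 924⟩, ⟨.negSucc 2032, .negSucc 81, .negSucc 168, .ofNat 189, .ofNat 115, .ofNat 249⟩, .ofNat 556, .negSucc 295, .ofNat 0, .negSucc 295, .ofNat 2425, .ofNat 0, .ofNat 183, .ofNat 128, .negSucc 685, .ofNat 0, .ofNat 118, .ofNat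 3, .ofNat 0, .ofNat 0, .ofNat 740, .ofNat 1308, .ofNat 0, .ofNat 0, .ofNat 0, .ofNat 0, .ofNat 0, .ofNat 0, .ofNat 0, .ofNat 0, .ofNat 0, .ofNat 0, .ofNat 148860432604853306852150857379116951332192256, .ofNat 0, .ofNat 0, .ofNat 0, .ofNat 231683995261815011509771672310213737978003456, .ofNat 0⟩)
    (by decide +kernel)
theorem L02047 : Good (Phi V5.P V5.D (-1) 1) ⟨5, 19, 3, 2, 3, 7, 3, 6, 6, 2⟩ :=
  leafX_sound T5.ok_mp T5.Ymp.bz_eq (w := 241) (c := ⟨⟨.negSucc 345, .negSucc 31, .negSucc 87, .negSucc 392, .negSucc 505, .negSucc 448⟩, ⟨.negSucc 250, .negSucc 14, .negSucc 152, .negSucc 13, .negSucc 10, .negSucc 6⟩, ⟨.negSucc 120, .negSucc 2, .negSucc 57, .ofNat 297, .ofNat 305, .ofNat 305⟩, ⟨.negSucc 552, .negSucc 26, .ofNat 8, .negSucc 762, .negSucc 1029, .negSucc 901⟩, ⟨.negSucc 1960, .negSucc 92, .negSucc 274, .ofNat 102, .ofNat 206, .ofNat 204⟩, .ofNat 491, .negSucc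 164, .ofNat 0, .negSucc 164, .ofNat 1641, .ofNat 0, .ofNat 319, .ofNat 117, .negSucc 1208, .ofNat 0, .ofNat 128, .ofNat 50, .ofNat 0, .ofNat 0, .ofNat 1200, .ofNat 2340, .ofNat 0, .ofNat 0, .ofNat 939652106463972620739094213270098619138048, .ofNat 0, .ofNat 0, .ofNat 0, .ofNat 0, .ofNat 0, .ofNat 0, .ofNat 0, .ofNat 242433834895305479052608919731857180130803712, .ofNat 0, .ofNat 0, .ofNat 0, .ofNat 1049548297974631453941579020492227378350653440, .ofNat 0⟩)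
    (by decide +kernel)
theorem L02048 : Good (Phi V5.P V5.D (-1) 1) ⟨4, 9, 3, 2, 3, 7, 3, 6, 6, 3⟩ :=
  leafX_sound T5.ok_mp T5.Ymp.bz_eq (w := 237) (c := ⟨⟨.negSucc 978, .negSucc 134, .negSucc 196, .ofNat 12, .negSucc 209, .negSucc 288⟩, ⟨.negSucc 268, .ofNat 3, .negSucc 152, .negSucc 18, .negSucc 0, .negSucc 12⟩, ⟨.ofNat 332, .ofNat 76, .ofNat 85, .negSucc 71, .ofNat 104, .ofNat 193⟩, ⟨.negSucc 1841, .negSucc 170, .negSucc 245, .negSucc 6, .negSucc 435, .negSucc 587⟩, ⟨.negSucc 1758, .negSucc 69, .negSucc 26, .negSucc 16, .ofNat 162, .ofNat 122⟩, .ofNat 530, .negSucc 241, .ofNat 0, .negSucc 241, .ofNat 2031, .ofNat 0, .ofNat 293, .ofNat 126, .negSucc 965, .ofNat 0, .ofNat 128, .ofNat 14, .ofNat 0, .ofNat 0, .ofNat 1002, .ofNat 2008, .ofNat 0, .ofNat 0, .ofNat 1453439846175128472793932927288873989439488, .ofNat 0, .ofNat 0, .ofNat 0, .ofNat 149573593994077409564932199476862916470243328,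 .ofNat 0, .ofNat 0, .ofNat 0, .ofNat 545374954452424913477148846294499420912222208, .ofNat 0, .ofNat 0, .ofNat 0, .ofNat 2515866037706076846123497503810418112899055616, .ofNat 0⟩)
    (by decide +kernel)
theorem L02049 : Good (Phi V5.P V5.D (-1) 1) ⟨3, 5, 3, 2, 2, 3, 3, 6, 5, 1⟩ :=
  out_sound (S := T5.ds_mp) T5.ok_mp (w := 45) (j := 3) (by decide +kernel)
theorem L02050 : Good (Phi V5.P V5.D (-1) 1) ⟨2, 3, 3, 2, 2, 3, 3, 6, 5, 1⟩ :=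
  out_sound (S := T5.ds_mp) T5.ok_mp (w := 39) (j := 3) (by decide +kernel)
theorem L02051 : Good (Phi V5.P V5.D (-1) 1) ⟨4, 8, 3, 2, 2, 3, 3, 6, 5, 2⟩ :=
  leafX_sound T5.ok_mp T5.Ymp.bz_eq (w := 218) (c := ⟨⟨.negSucc 1391, .negSucc 160, .negSucc 124, .ofNat 341, .ofNat 19, .negSucc 256⟩, ⟨.negSucc 318, .ofNat 32, .negSucc 159, .negSucc 6, .ofNat 29, .negSucc 20⟩, ⟨.ofNat 623, .ofNat 128, .ofNat 48, .negSucc 356, .negSucc 22, .ofNat 164⟩, ⟨.negSucc 2867, .negSucc 218, .negSucc 157, .ofNat 847, .ofNat 12, .negSucc 596⟩, ⟨.negSucc 1285, .ofNat 97, .ofNat 65, .negSucc 767, .ofNat 202, .ofNat 275⟩, .ofNat 622, .negSucc 468, .ofNat 0, .negSucc 468, .ofNat 2624, .ofNat 0, .ofNat 276, .ofNat 128, .negSucc 477, .ofNat 0, .ofNat 101, .negSucc 32, .ofNat 0, .ofNat 0, .ofNat 630, .ofNat 1383, .ofNat 0, .ofNat 0, .ofNat 0, .ofNat 0, .ofNat 0, .ofNat 0, .ofNat 123052678749985575319791315299969531904,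 .ofNat 0, .ofNat 0, .ofNat 0, .ofNat 0, .ofNat 0, .ofNat 0, .ofNat 0, .ofNat 1117199493441838264185941269512823242752, .ofNat 0⟩)
    (by decide +kernel)
theorem L02052 : Good (Phi V5.P V5.D (-1) 1) ⟨4, 8, 3, 2, 2, 3, 3, 6, 5, 3⟩ :=
  leafX_sound T5.ok_mp T5.Ymp.bz_eq (w := 218) (c := ⟨⟨.negSucc 1931, .negSucc 230, .negSucc 98, .ofNat 699, .ofNat 252, .ofNat 58⟩, ⟨.negSucc 388, .ofNat 27, .negSucc 167, .ofNat 48, .ofNat 88, .ofNat 33⟩, ⟨.ofNat 999, .ofNat 170, .ofNat 61, .negSucc 631, .negSucc 189, .negSucc 52⟩, ⟨.negSucc 4075, .negSucc 341, .negSucc 132, .ofNat 1667, .ofNat 466, .ofNat 65⟩, ⟨.negSucc 1000, .ofNat 102, .ofNat 29, .negSucc 948, .ofNat 437, .ofNat 267⟩, .ofNat 479, .negSucc 194, .ofNat 0, .negSucc 194, .ofNat 1337, .ofNat 0, .ofNat 452, .ofNat 116, .negSucc 535, .ofNat 0, .ofNat 128, .negSucc 2, .ofNat 0, .ofNat 0, .ofNat 775, .ofNat 1336, .ofNat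 0, .ofNat 0, .ofNat 0, .ofNat 0, .ofNat 0, .ofNat 0, .ofNat 0, .ofNat 0, .ofNat 0, .ofNat 0, .ofNat 316101722004329327362302038609659691008, .ofNat 0, .ofNat 0, .ofNat 0, .ofNat 0, .ofNat 0⟩)
    (by decide +kernel)
theorem L02053 : Good (Phi V5.P V5.D (-1) 1) ⟨4, 9, 3, 2, 3, 6, 4, 12, 5, 2⟩ :=
  leafX_sound T5.ok_mp T5.Ymp.bz_eq (w := 237) (c := ⟨⟨.negSucc 1400, .negSucc 555, .negSucc 284, .ofNat 193, .negSucc 76, .negSucc 541⟩, ⟨.negSucc 285, .ofNat 35, .negSucc 189, .negSucc 5, .ofNat 15, .negSucc 21⟩, ⟨.ofNat 613, .ofNat 478, .ofNat 223, .negSucc 206, .ofNat 64, .ofNat 403⟩, ⟨.negSucc 2774, .negSucc 939, .negSucc 506, .ofNat 417, .negSucc 171, .negSucc 1120⟩, ⟨.negSucc 1381, .ofNat 218, .ofNat 187, .negSucc 261, .ofNat 190, .ofNat 336⟩, .ofNat 506, .negSucc 191, .ofNat 0, .negSucc 191, .ofNat 1847, .ofNat 0, .ofNat 383, .ofNat 111, .negSucc 605, .ofNat 0, .ofNat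 128, .negSucc 4, .ofNat 0, .ofNat 0, .ofNat 732, .ofNat 2234, .ofNat 0, .ofNat 0, .ofNat 3609808342557158084822473191488873283190784, .ofNat 0, .ofNat 0, .ofNat 0, .ofNat 0, .ofNat 0, .ofNat 0, .ofNat 0, .ofNat 406056627607535819807245441011972324796137472, .ofNat 0, .ofNat 0, .ofNat 0, .ofNat 710405847314742921770118502025665877280555008, .ofNat 0⟩)
    (by decide +kernel)
theorem L02054 : Good (Phi V5.P V5.D (-1) 1) ⟨4, 9, 3, 2, 3, 6, 4, 13, 5, 2⟩ :=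
  leafX_sound T5.ok_mp T5.Ymp.bz_eq (w := 237) (c := ⟨⟨.negSucc 1642, .negSucc 625, .negSucc 295, .ofNat 223, .ofNat 1, .negSucc 307⟩, ⟨.negSucc 296, .ofNat 54, .negSucc 187, .negSucc 6, .ofNat 27, .ofNat 9⟩, ⟨.ofNat 810, .ofNat 554, .ofNat 252, .negSucc 245, .ofNat 2, .ofNat 215⟩, ⟨.negSucc 3278, .negSucc 1053, .negSucc 555, .ofNat 480, .negSucc 25, .negSucc 656⟩, ⟨.negSucc 1201, .ofNat 276, .ofNat 236, .negSucc 294, .ofNat 251, .ofNat 373⟩, .ofNat 504, .negSucc 185, .ofNat 0, .negSucc 185, .ofNat 1842, .ofNat 0, .ofNat 250, .ofNat 112, .negSucc 735, .ofNat 0, .ofNat 128, .ofNat 0, .ofNat 0, .ofNat 0, .ofNat 876, .ofNat 2292, .ofNat 0, .ofNat 0, .ofNat 4182903237476990957769222742470197791162368, .ofNat 0, .ofNat 0, .ofNat 0, .ofNat 140432384709021402343654938520387092326907904, .ofNat 0, .ofNat 0, .ofNat 0, .ofNat 260602886230468837365817721441405540002430976,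 .ofNat 0, .ofNat 0, .ofNat 0, .ofNat 1117119068647915183194755385286551813119541248, .ofNat 0⟩)
    (by decide +kernel)
theorem L02055 : Good (Phi V5.P V5.D (-1) 1) ⟨4, 9, 3, 2, 3, 7, 4, 12, 5, 2⟩ :=
  leafX_sound T5.ok_mp T5.Ymp.bz_eq (w := 237) (c := ⟨⟨.negSucc 1571, .negSucc 243, .negSucc 173, .ofNat 354, .ofNat 134, .negSucc 264⟩, ⟨.negSucc 295, .ofNat 21, .negSucc 170, .negSucc 20, .ofNat 8, .negSucc 1⟩, ⟨.ofNat 751, .ofNat 185, .ofNat 92, .negSucc 351, .negSucc 122, .ofNat 146⟩, ⟨.negSucc 3072, .negSucc 369, .negSucc 242, .ofNat 745, .ofNat 256, .negSucc 541⟩, ⟨.negSucc 1450, .ofNat 92, .ofNat 102, .negSucc 472, .negSucc 19, .ofNat 183⟩, .ofNat 502, .negSucc 180, .ofNat 0, .negSucc 180, .ofNat 1830, .ofNat 0, .ofNat 363, .ofNat 110, .negSucc 1008, .ofNat 0, .ofNat 128, .ofNat 26, .ofNat 0, .ofNat 0, .ofNat 1132, .ofNat 1988, .ofNat 0, .ofNat 0, .ofNat 789968341757800344497993776307263818956800,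 .ofNat 0, .ofNat 0, .ofNat 0, .ofNat 194681554380820885255979521124373592369266688, .ofNat 0, .ofNat 0, .ofNat 0, .ofNat 384361536315783785644723960110231694457438208, .ofNat 0, .ofNat 0, .ofNat 0, .ofNat 1321835122658095007363434680501381668370644992, .ofNat 0⟩)
    (by decide +kernel)
theorem L02056 : Good (Phi V5.P V5.D (-1) 1) ⟨4, 9, 3, 2, 3, 7, 4, 13, 5, 2⟩ :=
  leafX_sound T5.ok_mp T5.Ymp.bz_eq (w := 236) (c := ⟨⟨.negSucc 1743, .negSucc 167, .negSucc 132, .ofNat 551, .ofNat 111, .negSucc 0⟩, ⟨.negSucc 303, .ofNat 29, .negSucc 158, .negSucc 24, .ofNat 23, .ofNat 17⟩, ⟨.ofNat 872, .ofNat 111, .ofNat 50, .negSucc 509, .negSucc 108, .negSucc 37⟩, ⟨.negSucc 3425, .negSucc 205, .negSucc 177, .ofNat 1162, .ofNat 202, .negSucc 27⟩, ⟨.negSucc 1345, .ofNat 21, .ofNat 148, .negSucc 697, .ofNat 136, .ofNat 191⟩, .ofNat 527, .negSucc 221, .ofNat 0, .negSucc 221, .ofNat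 2155, .ofNat 0, .ofNat 300, .ofNat 118, .negSucc 652, .ofNat 0, .ofNat 128, .ofNat 18, .ofNat 0, .ofNat 0, .ofNat 740, .ofNat 1176, .ofNat 0, .ofNat 0, .ofNat 475633655002055586964873679017411478552576, .ofNat 0, .ofNat 0, .ofNat 0, .ofNat 0, .ofNat 0, .ofNat 0, .ofNat 0, .ofNat 0, .ofNat 0, .ofNat 0, .ofNat 0, .ofNat 522220055025157068490645764562217917021683712, .ofNat 0⟩)
    (by decide +kernel)
theorem L02057 : Good (Phi V5.P V5.D (-1) 1) ⟨4, 9, 3, 2, 3, 6, 3, 6, 5, 3⟩ :=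
  leafX_sound T5.ok_mp T5.Ymp.bz_eq (w := 233) (c := ⟨⟨.negSucc 2198, .negSucc 483, .negSucc 311, .ofNat 423, .ofNat 272, .ofNat 126⟩, ⟨.negSucc 326, .ofNat 67, .negSucc 189, .negSucc 1, .ofNat 75, .ofNat 35⟩, ⟨.ofNat 1237, .ofNat 416, .ofNat 275, .negSucc 416, .negSucc 223, .negSucc 139⟩, ⟨.negSucc 4411, .negSucc 737, .negSucc 600, .ofNat 876, .ofNat 492, .ofNat 223⟩, ⟨.negSucc 976, .ofNat 156, .ofNat 205, .negSucc 380, .ofNat 464, .ofNat 240⟩, .ofNat 501, .negSucc 175, .ofNat 0, .negSucc 175, .ofNat 1832, .ofNat 0, .ofNat 431, .ofNat 97, .negSucc 664, .ofNat 0, .ofNat 128, .ofNat 8, .ofNat 0, .ofNat 0, .ofNat 893, .ofNat 2450, .ofNat 0, .ofNat 0, .ofNat 284293071225171026902999853408995871031296, .ofNat 0, .ofNat 0, .ofNat 0, .ofNat 0, .ofNat 0, .ofNat 0, .ofNat 0, .ofNat 25528114613947037089401753474010009718226944, .ofNat 0, .ofNat 0, .ofNat 0, .ofNat 60265958874735352266222084000277884290727936,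 .ofNat 0⟩)
    (by decide +kernel)
theorem L02058 : Good (Phi V5.P V5.D (-1) 1) ⟨4, 9, 3, 2, 3, 7, 3, 6, 5, 3⟩ :=
  leafX_sound T5.ok_mp T5.Ymp.bz_eq (w := 232) (c := ⟨⟨.negSucc 2079, .negSucc 47, .negSucc 43, .ofNat 653, .ofNat 434, .ofNat 213⟩, ⟨.negSucc 337, .ofNat 17, .negSucc 159, .negSucc 5, .ofNat 90, .ofNat 49⟩, ⟨.ofNat 1045, .ofNat 6, .ofNat 14, .negSucc 529, .negSucc 321, .negSucc 152⟩, ⟨.negSucc 4125, .ofNat 13, .negSucc 6, .ofNat 1395, .ofNat 842, .ofNat 417⟩, ⟨.negSucc 1207, .negSucc 56, .ofNat 23, .negSucc 751, .ofNat 323, .ofNat 178⟩, .ofNat 509, .negSucc 197, .ofNat 0, .negSucc 197, .ofNat 1867, .ofNat 0, .ofNat 243, .ofNat 104, .negSucc 400, .ofNat 0, .ofNat 128, .ofNat 14, .ofNat 0, .ofNat 0, .ofNat 536, .ofNat 1284, .ofNat 0, .ofNat 0, .ofNat 0, .ofNat 0, .ofNat 0, .ofNat 0, .ofNat 12073789197647651269100814338278328216059904, .ofNat 0, .ofNat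 0, .ofNat 0, .ofNat 0, .ofNat 0, .ofNat 0, .ofNat 0, .ofNat 19909272940856177481512411349182624003260416, .ofNat 0⟩)
    (by decide +kernel)
theorem L02059 : Good (Phi V5.P V5.D (-1) 1) ⟨3, 5, 3, 2, 2, 3, 3, 6, 4, 1⟩ :=
  out_sound (S := T5.ds_mp) T5.ok_mp (w := 45) (j := 3) (by decide +kernel)
theorem L02060 : Good (Phi V5.P V5.D (-1) 1) ⟨2, 3, 3, 2, 2, 3, 3, 6, 4, 1⟩ :=
  out_sound (S := T5.ds_mp) T5.ok_mp (w := 39) (j := 3) (by decide +kernel)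
theorem L02061 : Good (Phi V5.P V5.D (-1) 1) ⟨4, 8, 4, 4, 2, 3, 4, 14, 5, 0⟩ :=
  leafX_sound T5.ok_mp T5.Ymp.bz_eq (w := 224) (c := ⟨⟨.negSucc 340, .negSucc 66, .negSucc 6, .negSucc 248, .negSucc 234, .negSucc 455⟩, ⟨.negSucc 153, .negSucc 1, .negSucc 55, .negSucc 84, .negSucc 25, .negSucc 60⟩, ⟨.ofNat 32, .ofNat 12, .negSucc 54, .ofNat 93, .ofNat 123, .ofNat 221⟩, ⟨.negSucc 575, .negSucc 81, .ofNat 77, .negSucc 453, .negSucc 523, .negSucc 985⟩, ⟨.negSucc 1324, .negSucc 80, .negSucc 134, .negSucc 524, .ofNat 113, .ofNat 86⟩, .ofNat 559, .negSucc 312, .ofNat 0, .negSucc 312, .ofNat 2202, .ofNat 0, .ofNat 259, .ofNat 128, .negSucc 508, .ofNat 0, .ofNat 103, .negSucc 14, .ofNat 0, .ofNat 0, .ofNat 625, .ofNat 1238, .ofNat 0, .ofNat 0, .ofNat 0, .ofNat 0, .ofNat 0, .ofNat 0, .ofNat 0, .ofNat 0, .ofNat 0, .ofNat 0, .ofNat 0, .ofNat 0, .ofNat 0, .ofNat 0, .ofNat 0,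 .ofNat 0⟩)
    (by decide +kernel)
theorem L02062 : Good (Phi V5.P V5.D (-1) 1) ⟨4, 8, 4, 4, 2, 3, 4, 15, 5, 0⟩ :=
  leafX_sound T5.ok_mp T5.Ymp.bz_eq (w := 224) (c := ⟨⟨.negSucc 684, .negSucc 56, .negSucc 21, .negSucc 177, .negSucc 98, .negSucc 308⟩, ⟨.negSucc 194, .ofNat 10, .negSucc 65, .negSucc 89, .negSucc 5, .negSucc 30⟩, ⟨.ofNat 276, .negSucc 3, .negSucc 43, .negSucc 39, .negSucc 0, .ofNat 133⟩, ⟨.negSucc 1345, .negSucc 41, .ofNat 31, .negSucc 280, .negSucc 222, .negSucc 673⟩, ⟨.negSucc 1197, .negSucc 73, .negSucc 95, .negSucc 670, .ofNat 96, .ofNat 159⟩, .ofNat 610, .negSucc 437, .ofNat 0, .negSucc 437, .ofNat 2870, .ofNat 0, .ofNat 234, .ofNat 128, .negSucc 440, .ofNat 0, .ofNat 99, .negSucc 13, .ofNat 0, .ofNat 0, .ofNat 544, .ofNat 1267, .ofNat 0, .ofNat 0, .ofNat 0, .ofNat 0, .ofNat 0, .ofNat 0, .ofNat 0, .ofNat 0, .ofNat 0, .ofNat 0, .ofNat 0, .ofNat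 0, .ofNat 0, .ofNat 37936520681804583880443395819151606084009984, .ofNat 0, .ofNat 0⟩)
    (by decide +kernel)
theorem L02063 : Good (Phi V5.P V5.D (-1) 1) ⟨5, 18, 4, 4, 3, 6, 3, 7, 5, 0⟩ :=
  leafX_sound T5.ok_mp T5.Ymp.bz_eq (w := 239) (c := ⟨⟨.negSucc 264, .negSucc 32, .negSucc 42, .ofNat 22, .negSucc 571, .negSucc 729⟩, ⟨.negSucc 179, .negSucc 0, .negSucc 60, .negSucc 34, .negSucc 13, .negSucc 40⟩, ⟨.negSucc 144, .ofNat 7, .negSucc 14, .negSucc 81, .ofNat 401, .ofNat 539⟩, ⟨.negSucc 396, .negSucc 32, .negSucc 29, .ofNat 85, .negSucc 1210, .negSucc 1520⟩, ⟨.negSucc 1653, .negSucc 29, .negSucc 17, .negSucc 344, .ofNat 480, .ofNat 399⟩, .ofNat 538, .negSucc 254, .ofNat 0, .negSucc 254, .ofNat 2243, .ofNat 0, .ofNat 277, .ofNat 128, .negSucc 999, .ofNat 0, .ofNat 121, .negSucc 4, .ofNat 0, .ofNat 0, .ofNat 1174, .ofNat 1107, .ofNat 0, .ofNat 0, .ofNat 0, .ofNat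 0, .ofNat 0, .ofNat 0, .ofNat 0, .ofNat 0, .ofNat 0, .ofNat 0, .ofNat 0, .ofNat 0, .ofNat 0, .ofNat 6104948710827471810729441127127573257492730216448, .ofNat 31877235119591526360005022197796384102416384, .ofNat 0⟩)
    (by decide +kernel)
theorem L02064 : Good (Phi V5.P V5.D (-1) 1) ⟨5, 19, 4, 4, 3, 6, 3, 7, 5, 0⟩ :=
  leafX_sound T5.ok_mp T5.Ymp.bz_eq (w := 238) (c := ⟨⟨.negSucc 228, .negSucc 64, .negSucc 1, .ofNat 78, .negSucc 734, .negSucc 905⟩, ⟨.negSucc 216, .ofNat 8, .negSucc 63, .negSucc 35, .ofNat 16, .negSucc 5⟩, ⟨.negSucc 225, .ofNat 30, .negSucc 62, .negSucc 127, .ofNat 582, .ofNat 724⟩, ⟨.negSucc 336, .negSucc 91, .ofNat 52, .ofNat 182, .negSucc 1490, .negSucc 1825⟩, ⟨.negSucc 1783, .ofNat 25, .negSucc 64, .negSucc 359, .ofNat 619, .ofNat 556⟩, .ofNat 516, .negSucc 179, .ofNat 0, .negSucc 179, .ofNat 2092, .ofNat 0, .ofNat 247, .ofNat 117, .negSucc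 851, .ofNat 0, .ofNat 128, .ofNat 26, .ofNat 0, .ofNat 0, .ofNat 958, .ofNat 690, .ofNat 0, .ofNat 0, .ofNat 11342531811809924293728213043310741159936, .ofNat 0, .ofNat 0, .ofNat 0, .ofNat 0, .ofNat 0, .ofNat 0, .ofNat 0, .ofNat 0, .ofNat 0, .ofNat 0, .ofNat 3437948273128040200247770333122590665804903088128, .ofNat 28663638807210248855656976693547004155920384, .ofNat 0⟩)
    (by decide +kernel)
theorem L02065 : Good (Phi V5.P V5.D (-1) 1) ⟨5, 18, 4, 4, 3, 7, 4, 14, 5, 0⟩ :=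
  leafX_sound T5.ok_mp T5.Ymp.bz_eq (w := 243) (c := ⟨⟨.negSucc 283, .negSucc 71, .ofNat 78, .negSucc 407, .negSucc 292, .negSucc 556⟩, ⟨.negSucc 194, .negSucc 11, .negSucc 62, .negSucc 46, .negSucc 19, .negSucc 46⟩, ⟨.negSucc 99, .ofNat 40, .negSucc 145, .ofNat 275, .ofNat 160, .ofNat 311⟩, ⟨.negSucc 389, .negSucc 136, .ofNat 261, .negSucc 838, .negSucc 611, .negSucc 1169⟩, ⟨.negSucc 1889, .ofNat 15, .negSucc 231, .ofNat 23, .ofNat 145, .ofNat 235⟩, .ofNat 551, .negSucc 279, .ofNat 0, .negSucc 279, .ofNat 2459, .ofNat 0, .ofNat 201, .ofNat 128, .negSucc 1065, .ofNat 0, .ofNat 113, .ofNat 24, .ofNat 0, .ofNat 0, .ofNat 1173, .ofNat 1444, .ofNat 0, .ofNat 0, .ofNat 0, .ofNat 0, .ofNat 0, .ofNat 0, .ofNat 0, .ofNat 0, .ofNat 0, .ofNat 0, .ofNat 0, .ofNat 0, .ofNat 0, .ofNat 0, .ofNat 704755676117985179715555379265318909200302080, .ofNat 0⟩)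
    (by decide +kernel)
theorem L02066 : Good (Phi V5.P V5.D (-1) 1) ⟨5, 18, 4, 4, 3, 7, 4, 15, 5, 0⟩ :=
  leafX_sound T5.ok_mp T5.Ymp.bz_eq (w := 243) (c := ⟨⟨.negSucc 892, .negSucc 3, .ofNat 48, .negSucc 103, .negSucc 76, .negSucc 303⟩, ⟨.negSucc 226, .negSucc 2, .negSucc 73, .negSucc 60, .negSucc 3, .negSucc 15⟩, ⟨.ofNat 357, .negSucc 31, .negSucc 115, .negSucc 41, .negSucc 40, .ofNat 133⟩, ⟨.negSucc 1683, .ofNat 23, .ofNat 189, .negSucc 161, .negSucc 165, .negSucc 645⟩, ⟨.negSucc 1488, .negSucc 60, .negSucc 187, .negSucc 449, .ofNat 57, .ofNat 219⟩, .ofNat 538, .negSucc 251, .ofNat 0, .negSucc 251, .ofNat 2244, .ofNat 0, .ofNat 230, .ofNat 128, .negSucc 1549, .ofNat 0, .ofNat 112, .ofNat 55, .ofNat 0, .ofNat 0, .ofNat 1736, .ofNat 950, .ofNat 0, .ofNat 0, .ofNat 0, .ofNat 0, .ofNat 0, .ofNat 0, .ofNat 0, .ofNat 0, .ofNat 0, .ofNat 0, .ofNat 42866598761308846476430422764111588954734592,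 .ofNat 0, .ofNat 0, .ofNat 60410374337422637404103410480603701046754576171008, .ofNat 1036500242668551574447878922287953786869645312, .ofNat 0⟩)
    (by decide +kernel)
theorem L02067 : Good (Phi V5.P V5.D (-1) 1) ⟨5, 19, 4, 4, 3, 7, 4, 14, 5, 0⟩ :=
  leafX_sound T5.ok_mp T5.Ymp.bz_eq (w := 243) (c := ⟨⟨.negSucc 194, .negSucc 12, .ofNat 43, .negSucc 473, .negSucc 240, .negSucc 674⟩, ⟨.negSucc 233, .negSucc 14, .negSucc 74, .negSucc 30, .negSucc 10, .negSucc 14⟩, ⟨.negSucc 212, .negSucc 0, .negSucc 101, .ofNat 349, .ofNat 95, .ofNat 415⟩, ⟨.negSucc 221, .ofNat 11, .ofNat 194, .negSucc 940, .negSucc 514, .negSucc 1387⟩, ⟨.negSucc 2016, .negSucc 129, .negSucc 254, .ofNat 69, .ofNat 130, .ofNat 343⟩, .ofNat 485, .negSucc 137, .ofNat 0, .negSucc 137, .ofNat 1689, .ofNat 0, .ofNat 248, .ofNat 123, .negSucc 1603, .ofNat 0, .ofNat 128, .ofNat 110, .ofNat 0, .ofNat 0, .ofNat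 1658, .ofNat 1536, .ofNat 0, .ofNat 0, .ofNat 0, .ofNat 0, .ofNat 0, .ofNat 0, .ofNat 47390291170550765460241784816951917163839488, .ofNat 0, .ofNat 0, .ofNat 0, .ofNat 197209040171093881231536549924631700503003136, .ofNat 0, .ofNat 0, .ofNat 0, .ofNat 1787307597634449790639214055988615399870562304, .ofNat 0⟩)
    (by decide +kernel)
theorem L02068 : Good (Phi V5.P V5.D (-1) 1) ⟨5, 19, 4, 4, 3, 7, 4, 15, 5, 0⟩ :=
  leafX_sound T5.ok_mp T5.Ymp.bz_eq (w := 243) (c := ⟨⟨.negSucc 979, .negSucc 108, .negSucc 84, .ofNat 34, .negSucc 38, .negSucc 309⟩, ⟨.negSucc 237, .negSucc 0, .negSucc 76, .negSucc 63, .ofNat 1, .ofNat 2⟩, ⟨.ofNat 421, .ofNat 61, .ofNat 3, .negSucc 179, .negSucc 77, .ofNat 135⟩, ⟨.negSucc 1831, .negSucc 191, .negSucc 94, .ofNat 110, .negSucc 79, .negSucc 639⟩, ⟨.negSucc 1512, .ofNat 60, .negSucc 50, .negSucc 560, .ofNat 26, .ofNat 248⟩, .ofNat 516,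 .negSucc 179, .ofNat 0, .negSucc 179, .ofNat 2092, .ofNat 0, .ofNat 232, .ofNat 128, .negSucc 1747, .ofNat 0, .ofNat 128, .ofNat 124, .ofNat 0, .ofNat 0, .ofNat 1849, .ofNat 1689, .ofNat 0, .ofNat 0, .ofNat 0, .ofNat 0, .ofNat 0, .ofNat 4143857857870654545191878322172404283673803751424, .ofNat 32344284355361141036481338874229516503351296, .ofNat 0, .ofNat 0, .ofNat 0, .ofNat 143735047468335191053843306134152275459833856, .ofNat 0, .ofNat 0, .ofNat 0, .ofNat 1608530425298335435503828520545132318644240384, .ofNat 0⟩)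
    (by decide +kernel)
theorem L02069 : Good (Phi V5.P V5.D (-1) 1) ⟨3, 5, 4, 4, 2, 3, 3, 7, 5, 0⟩ :=
  out_sound (S := T5.ds_mp) T5.ok_mp (w := 47) (j := 3) (by decide +kernel)

end Crest.Agent.R097C5.N5mp
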