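import Crest.Agent.R097.KP7
import Crest.Agent.R097.T5Ymp

/-!
# Row 97, box cover in dimension n = 5 (generated)
-/

set_option autoImplicit false
set_option Elab.async false
set_option maxHeartbeats 0
set_option maxRecDepth 100000

open Crest.Agent.R097 Crest.Agent.R097.KA


namespace Crest.Agent.R097C5.N5mp

theorem L02070 : Good (Phi V5.P V5.D (-1) 1) ⟨4, 8, 4, 4, 2, 3, 4, 14, 5, 1⟩ :=
  leafX_sound T5.ok_mp T5.Ymp.bz_eq (w := 225) (c := ⟨⟨.negSucc 996, .negSucc 252, .negSucc 77, .ofNat 118, .negSucc 17, .negSucc 256⟩, ⟨.negSucc 250, .ofNat 8, .negSucc 75, .negSucc 51, .ofNat 12, .negSucc 13⟩, ⟨.ofNat 404, .ofNat 188, .ofNat 17, .negSucc 228, .negSucc 20, .ofNat 132⟩, ⟨.negSucc 2028, .negSucc 442, .negSucc 99, .ofNat 374, .negSucc 45, .negSucc 584⟩, ⟨.negSucc 1216, .ofNat 83, .negSucc 28, .negSucc 812, .ofNat 120, .ofNat 274⟩, .ofNat 619, .negSucc 462, .ofNat 0, .negSucc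 462, .ofNat 2972, .ofNat 0, .ofNat 212, .ofNat 128, .negSucc 559, .ofNat 0, .ofNat 100, .negSucc 23, .ofNat 0, .ofNat 0, .ofNat 690, .ofNat 1276, .ofNat 0, .ofNat 0, .ofNat 0, .ofNat 0, .ofNat 0, .ofNat 0, .ofNat 0, .ofNat 0, .ofNat 0, .ofNat 0, .ofNat 0, .ofNat 0, .ofNat 0, .ofNat 0, .ofNat 0, .ofNat 0⟩)
    (by decide +kernel)
theorem L02071 : Good (Phi V5.P V5.D (-1) 1) ⟨4, 8, 4, 4, 2, 3, 4, 15, 5, 1⟩ :=
  leafX_sound T5.ok_mp T5.Ymp.bz_eq (w := 225) (c := ⟨⟨.negSucc 1133, .negSucc 177, .negSucc 57, .ofNat 152, .ofNat 51, .negSucc 169⟩, ⟨.negSucc 263, .ofNat 20, .negSucc 73, .negSucc 44, .ofNat 31, .ofNat 12⟩, ⟨.ofNat 475, .ofNat 121, .ofNat 2, .negSucc 262, .negSucc 82, .ofNat 93⟩, ⟨.negSucc 2332, .negSucc 264, .negSucc 71, .ofNat 456, .ofNat 69, .negSucc 436⟩, ⟨.negSucc 1127, .ofNat 56, .negSucc 35, .negSucc 812, .ofNat 265, .ofNat 457⟩, .ofNat 561, .negSucc 320,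 .ofNat 0, .negSucc 320, .ofNat 2192, .ofNat 0, .ofNat 204, .ofNat 128, .negSucc 507, .ofNat 0, .ofNat 106, .negSucc 16, .ofNat 0, .ofNat 0, .ofNat 625, .ofNat 1109, .ofNat 0, .ofNat 0, .ofNat 0, .ofNat 0, .ofNat 0, .ofNat 172111234276761865110873860682522453472182272, .ofNat 0, .ofNat 0, .ofNat 0, .ofNat 0, .ofNat 0, .ofNat 0, .ofNat 0, .ofNat 0, .ofNat 0, .ofNat 0⟩)
    (by decide +kernel)
theorem L02072 : Good (Phi V5.P V5.D (-1) 1) ⟨4, 9, 4, 4, 3, 6, 4, 14, 5, 1⟩ :=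
  leafX_sound T5.ok_mp T5.Ymp.bz_eq (w := 239) (c := ⟨⟨.negSucc 983, .negSucc 595, .negSucc 169, .ofNat 120, .negSucc 178, .negSucc 600⟩, ⟨.negSucc 251, .ofNat 31, .negSucc 84, .negSucc 18, .ofNat 21, .negSucc 5⟩, ⟨.ofNat 321, .ofNat 528, .ofNat 128, .negSucc 153, .ofNat 147, .ofNat 452⟩, ⟨.negSucc 1908, .negSucc 1060, .negSucc 317, .ofNat 261, .negSucc 381, .negSucc 1250⟩, ⟨.negSucc 1471, .ofNat 304, .ofNat 119, .negSucc 251, .ofNat 313, .ofNat 483⟩, .ofNat 515, .negSucc 193, .ofNat 0, .negSucc 193, .ofNat 2029, .ofNat 0, .ofNat 248, .ofNat 120, .negSucc 866, .ofNat 0, .ofNat 128, .ofNat 6, .ofNat 0, .ofNat 0, .ofNat 985, .ofNat 1335, .ofNat 0, .ofNat 0, .ofNat 2134575247594800848626014178823169460142080, .ofNat 0, .ofNat 0, .ofNat 0, .ofNat 0, .ofNat 0, .ofNat 0, .ofNat 0, .ofNat 0, .ofNat 0, .ofNat 0, .ofNat 0, .ofNat 2055588575689128183761650764212095285089796096,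 .ofNat 0⟩)
    (by decide +kernel)
theorem L02073 : Good (Phi V5.P V5.D (-1) 1) ⟨5, 18, 4, 4, 3, 6, 4, 15, 5, 1⟩ :=
  leafX_sound T5.ok_mp T5.Ymp.bz_eq (w := 244) (c := ⟨⟨.negSucc 1131, .negSucc 378, .negSucc 227, .ofNat 56, .ofNat 8, .negSucc 414⟩, ⟨.negSucc 244, .ofNat 18, .negSucc 77, .negSucc 18, .ofNat 38, .ofNat 12⟩, ⟨.ofNat 412, .ofNat 357, .ofNat 199, .negSucc 107, .negSucc 23, .ofNat 315⟩, ⟨.negSucc 2223, .negSucc 707, .negSucc 449, .ofNat 155, .negSucc 17, .negSucc 901⟩, ⟨.negSucc 1267, .ofNat 270, .ofNat 221, .negSucc 279, .ofNat 330, .ofNat 559⟩, .ofNat 538, .negSucc 253, .ofNat 0, .negSucc 253, .ofNat 2245, .ofNat 0, .ofNat 220, .ofNat 128, .negSucc 1484, .ofNat 0, .ofNat 124, .negSucc 3, .ofNat 0, .ofNat 0, .ofNat 1714, .ofNat 1710, .ofNat 0, .ofNat 0, .ofNat 0, .ofNat 0, .ofNat 0, .ofNat 0, .ofNat 0, .ofNat 0, .ofNat 0, .ofNat 16754757163292849927840644308960613361953489813504,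 .ofNat 0, .ofNat 0, .ofNat 0, .ofNat 125022790501711319292219800870186644966636919980032, .ofNat 1137391746925380966308149952237172409671614464, .ofNat 0⟩)
    (by decide +kernel)
theorem L02074 : Good (Phi V5.P V5.D (-1) 1) ⟨5, 19, 4, 4, 3, 6, 4, 15, 5, 1⟩ :=
  leafX_sound T5.ok_mp T5.Ymp.bz_eq (w := 244) (c := ⟨⟨.negSucc 1517, .negSucc 491, .negSucc 416, .ofNat 180, .negSucc 44, .negSucc 400⟩, ⟨.negSucc 252, .ofNat 51, .negSucc 69, .negSucc 9, .ofNat 49, .ofNat 39⟩, ⟨.ofNat 761, .ofNat 481, .ofNat 403, .negSucc 221, .ofNat 39, .ofNat 300⟩, ⟨.negSucc 2935, .negSucc 899, .negSucc 832, .ofNat 373, .negSucc 125, .negSucc 842⟩, ⟨.negSucc 1204, .ofNat 436, .ofNat 411, .negSucc 208, .ofNat 463, .ofNat 642⟩, .ofNat 516, .negSucc 170, .ofNat 0, .negSucc 170, .ofNat 2172, .ofNat 0, .ofNat 243, .ofNat 113, .negSucc 1642, .ofNat 0, .ofNat 128, .ofNat 50, .ofNat 0, .ofNat 0, .ofNat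 1837, .ofNat 1745, .ofNat 0, .ofNat 0, .ofNat 2446368897778403143452640329302572013715456, .ofNat 0, .ofNat 0, .ofNat 0, .ofNat 171298186396372474005138989043051797004943360, .ofNat 0, .ofNat 0, .ofNat 0, .ofNat 217487694854611475397360715549171021974077440, .ofNat 0, .ofNat 0, .ofNat 90259982357618600240700158186540528814409843212288, .ofNat 2182937378185698109790893441154194415237988352, .ofNat 0⟩)
    (by decide +kernel)
theorem L02075 : Good (Phi V5.P V5.D (-1) 1) ⟨5, 18, 4, 4, 3, 7, 3, 7, 5, 1⟩ :=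
  leafX_sound T5.ok_mp T5.Ymp.bz_eq (w := 239) (c := ⟨⟨.negSucc 1378, .negSucc 39, .negSucc 35, .ofNat 266, .ofNat 105, .negSucc 88⟩, ⟨.negSucc 276, .ofNat 8, .negSucc 68, .negSucc 47, .ofNat 41, .ofNat 14⟩, ⟨.ofNat 649, .ofNat 20, .negSucc 9, .negSucc 325, .negSucc 189, .ofNat 18⟩, ⟨.negSucc 2698, .negSucc 31, .negSucc 10, .ofNat 631, .ofNat 178, .negSucc 203⟩, ⟨.negSucc 1357, .negSucc 13, .ofNat 2, .negSucc 771, .ofNat 274, .ofNat 204⟩, .ofNat 538, .negSucc 253, .ofNat 0, .negSucc 253, .ofNat 2245, .ofNat 0, .ofNat 344, .ofNat 128, .negSucc 1182, .ofNat 0, .ofNat 118, .ofNat 23, .ofNat 0, .ofNat 0, .ofNat 1292, .ofNat 1393, .ofNat 0, .ofNat 0, .ofNat 0, .ofNat 0, .ofNat 0, .ofNat 0, .ofNat 0, .ofNat 0, .ofNat 0, .ofNat 0, .ofNat 0, .ofNat 0, .ofNat 0, .ofNat 5084665313422342889670943087471649012889807749120, .ofNat 36350075600958072785441727688691665206247424, .ofNat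 0⟩)
    (by decide +kernel)
theorem L02076 : Good (Phi V5.P V5.D (-1) 1) ⟨5, 19, 4, 4, 3, 7, 4, 14, 5, 1⟩ :=
  leafX_sound T5.ok_mp T5.Ymp.bz_eq (w := 244) (c := ⟨⟨.negSucc 1431, .negSucc 246, .negSucc 185, .ofNat 368, .negSucc 18, .negSucc 111⟩, ⟨.negSucc 261, .ofNat 12, .negSucc 72, .negSucc 52, .ofNat 16, .ofNat 11⟩, ⟨.ofNat 711, .ofNat 187, .ofNat 112, .negSucc 423, .negSucc 36, .ofNat 2⟩, ⟨.negSucc 2717, .negSucc 455, .negSucc 323, .ofNat 778, .negSucc 65, .negSucc 259⟩, ⟨.negSucc 1422, .ofNat 186, .ofNat 126, .negSucc 704, .ofNat 178, .ofNat 210⟩, .ofNat 485, .negSucc 137, .ofNat 0, .negSucc 137, .ofNat 1689, .ofNat 0, .ofNat 340, .ofNat 114, .negSucc 1717, .ofNat 0, .ofNat 128, .ofNat 101, .ofNat 0, .ofNat 0, .ofNat 1757, .ofNat 2249, .ofNat 0, .ofNat 0, .ofNat 0, .ofNat 0, .ofNat 0, .ofNat 0, .ofNat 76219452061565405237544042088060518175604736, .ofNat 0, .ofNat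 0, .ofNat 0, .ofNat 88480664842536123043289911137903254427402240, .ofNat 0, .ofNat 0, .ofNat 0, .ofNat 1539567836520342369985758334804823399141998592, .ofNat 0⟩)
    (by decide +kernel)
theorem L02077 : Good (Phi V5.P V5.D (-1) 1) ⟨5, 19, 4, 4, 3, 7, 4, 15, 5, 1⟩ :=
  leafX_sound T5.ok_mp T5.Ymp.bz_eq (w := 244) (c := ⟨⟨.negSucc 1768, .negSucc 103, .negSucc 230, .ofNat 658, .ofNat 271, .ofNat 99⟩, ⟨.negSucc 240, .ofNat 4, .negSucc 83, .negSucc 77, .ofNat 27, .ofNat 32⟩, ⟨.ofNat 969, .ofNat 34, .ofNat 125, .negSucc 693, .negSucc 299, .negSucc 136⟩, ⟨.negSucc 3434, .negSucc 123, .negSucc 434, .ofNat 1386, .ofNat 530, .ofNat 158⟩, ⟨.negSucc 982, .negSucc 103, .ofNat 131, .negSucc 1124, .ofNat 57, .ofNat 278⟩, .ofNat 517, .negSucc 180, .ofNat 0, .negSucc 180, .ofNat 2104, .ofNat 0, .ofNat 333, .ofNat 121, .negSucc 1817, .ofNat 0, .ofNat 128, .ofNat 110, .ofNat 0, .ofNat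 0, .ofNat 1899, .ofNat 1727, .ofNat 0, .ofNat 0, .ofNat 918554395199732498783202726540214053896192, .ofNat 0, .ofNat 0, .ofNat 11040727946934706517606209954249917565189568331776, .ofNat 142154775379619194648075023901755208636563456, .ofNat 0, .ofNat 0, .ofNat 0, .ofNat 186069697443754549143922541763710926119239680, .ofNat 0, .ofNat 0, .ofNat 0, .ofNat 1897624702225498852129386086857704278966927360, .ofNat 0⟩)
    (by decide +kernel)
theorem L02078 : Good (Phi V5.P V5.D (-1) 1) ⟨3, 5, 4, 4, 2, 3, 3, 7, 5, 1⟩ :=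
  out_sound (S := T5.ds_mp) T5.ok_mp (w := 47) (j := 3) (by decide +kernel)
theorem L02079 : Good (Phi V5.P V5.D (-1) 1) ⟨2, 3, 4, 4, 2, 3, 3, 7, 4, 0⟩ :=
  out_sound (S := T5.ds_mp) T5.ok_mp (w := 41) (j := 3) (by decide +kernel)
theorem L02080 : Good (Phi V5.P V5.D (-1) 1) ⟨4, 8, 5, 10, 2, 3, 4, 14, 6, 0⟩ :=
  leafX_sound T5.ok_mp T5.Ymp.bz_eq (w := 232) (c := ⟨⟨.negSucc 287, .negSucc 16, .ofNat 16, .negSucc 258, .negSucc 305, .negSucc 296⟩, ⟨.negSucc 173, .negSucc 11, .negSucc 25, .negSucc 102, .negSucc 47, .negSucc 44⟩, ⟨.negSucc 71, .negSucc 43, .negSucc 52, .ofNat 93, .ofNat 178, .ofNat 185⟩, ⟨.negSucc 366, .ofNat 3, .ofNat 84, .negSucc 447, .negSucc 672, .negSucc 652⟩, ⟨.negSucc 1433, .negSucc 136, .negSucc 85, .negSucc 587, .ofNat 105, .ofNat 93⟩, .ofNat 580, .negSucc 374, .ofNat 0, .negSucc 374, .ofNat 2127, .ofNat 0, .ofNat 290, .ofNat 128, .negSucc 628, .ofNat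 0, .ofNat 100, .negSucc 26, .ofNat 0, .ofNat 0, .ofNat 769, .ofNat 988, .ofNat 0, .ofNat 0, .ofNat 0, .ofNat 0, .ofNat 0, .ofNat 0, .ofNat 0, .ofNat 0, .ofNat 0, .ofNat 0, .ofNat 0, .ofNat 0, .ofNat 0, .ofNat 0, .ofNat 0, .ofNat 0⟩)
    (by decide +kernel)
theorem L02081 : Good (Phi V5.P V5.D (-1) 1) ⟨4, 9, 5, 10, 3, 6, 4, 14, 6, 0⟩ :=
  leafX_sound T5.ok_mp T5.Ymp.bz_eq (w := 247) (c := ⟨⟨.negSucc 312, .ofNat 171, .ofNat 37, .ofNat 266, .negSucc 432, .negSucc 468⟩, ⟨.negSucc 202, .negSucc 33, .negSucc 20, .negSucc 27, .negSucc 38, .negSucc 43⟩, ⟨.negSucc 129, .negSucc 253, .negSucc 72, .negSucc 305, .ofNat 315, .ofNat 353⟩, ⟨.negSucc 414, .ofNat 369, .ofNat 133, .ofNat 632, .negSucc 917, .negSucc 985⟩, ⟨.negSucc 1563, .negSucc 319, .negSucc 114, .negSucc 623, .ofNat 226, .ofNat 220⟩, .ofNat 555, .negSucc 310, .ofNat 0, .negSucc 310, .ofNat 2196, .ofNat 0, .ofNat 249,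 .ofNat 128, .negSucc 738, .ofNat 0, .ofNat 115, .negSucc 20, .ofNat 0, .ofNat 0, .ofNat 873, .ofNat 1317, .ofNat 0, .ofNat 0, .ofNat 280667123777823990725140610995855811151921152, .ofNat 0, .ofNat 0, .ofNat 0, .ofNat 50202631021598437409568012651087111315985006592, .ofNat 0, .ofNat 0, .ofNat 0, .ofNat 28038113137526791234681478527592290969377046528, .ofNat 0, .ofNat 0, .ofNat 0, .ofNat 136651471849655010466436719995750608134643646464, .ofNat 0⟩)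
    (by decide +kernel)
theorem L02082 : Good (Phi V5.P V5.D (-1) 1) ⟨5, 18, 5, 10, 3, 7, 4, 14, 6, 0⟩ :=
  leafX_sound T5.ok_mp T5.Ymp.bz_eq (w := 251) (c := ⟨⟨.ofNat 18, .ofNat 142, .ofNat 18, .negSucc 594, .negSucc 456, .negSucc 465⟩, ⟨.negSucc 234, .negSucc 17, .negSucc 30, .negSucc 65, .negSucc 37, .negSucc 32⟩, ⟨.negSucc 478, .negSucc 176, .negSucc 63, .ofNat 475, .ofNat 311, .ofNat 347⟩, ⟨.ofNat 359, .ofNat 313, .ofNat 97, .negSucc 1233, .negSucc 960, .negSucc 990⟩, ⟨.negSucc 2306, .negSucc 242, .negSucc 114, .ofNat 177, .ofNat 238, .ofNat 308⟩, .ofNat 569, .negSucc 342, .ofNat 0, .negSucc 342, .ofNat 2340, .ofNat 0, .ofNat 302, .ofNat 128, .negSucc 1432, .ofNat 0, .ofNat 107, .ofNat 17, .ofNat 0, .ofNat 0, .ofNat 1579, .ofNat 966, .ofNat 0, .ofNat 0, .ofNat 0, .ofNat 0, .ofNat 0, .ofNat 0, .ofNat 0, .ofNat 0, .ofNat 0, .ofNat 0, .ofNat 4129325971028662159407451192904004178284642304,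 .ofNat 0, .ofNat 0, .ofNat 0, .ofNat 88574918165029898930218414337996504697854230528, .ofNat 0⟩)
    (by decide +kernel)
theorem L02083 : Good (Phi V5.P V5.D (-1) 1) ⟨5, 19, 5, 10, 3, 7, 4, 14, 6, 0⟩ :=
  out_sound (S := T5.ds_mp) T5.ok_mp (w := 61) (j := 3) (by decide +kernel)
theorem L02084 : Good (Phi V5.P V5.D (-1) 1) ⟨3, 4, 5, 11, 3, 6, 4, 14, 6, 0⟩ :=
  leafX_sound T5.ok_mp T5.Ymp.bz_eq (w := 242) (c := ⟨⟨.negSucc 342, .ofNat 130, .negSucc 11, .ofNat 131, .negSucc 368, .negSucc 334⟩, ⟨.negSucc 203, .negSucc 21, .negSucc 21, .negSucc 22, .negSucc 52, .negSucc 54⟩, ⟨.negSucc 63, .negSucc 250, .negSucc 20, .negSucc 187, .ofNat 249, .ofNat 218⟩, ⟨.negSucc 462, .ofNat 339, .ofNat 20, .ofNat 362, .negSucc 785, .negSucc 711⟩, ⟨.negSucc 1453, .negSucc 373, .negSucc 44, .negSucc 474, .ofNat 119, .ofNat 73⟩, .ofNat 589, .negSucc 398, .ofNat 0, .negSucc 398, .ofNat 2070,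 .ofNat 0, .ofNat 301, .ofNat 128, .negSucc 756, .ofNat 0, .ofNat 103, .negSucc 56, .ofNat 0, .ofNat 0, .ofNat 946, .ofNat 918, .ofNat 0, .ofNat 0, .ofNat 603715643027937499043754605086541319822639104, .ofNat 0, .ofNat 0, .ofNat 0, .ofNat 185791650606235556658864728024541247906856828928, .ofNat 0, .ofNat 0, .ofNat 0, .ofNat 69537298856324685067653027367843210566377144320, .ofNat 0, .ofNat 0, .ofNat 0, .ofNat 432331808015601227663266123542462975530470735872, .ofNat 0⟩)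
    (by decide +kernel)
theorem L02085 : Good (Phi V5.P V5.D (-1) 1) ⟨4, 8, 5, 11, 3, 7, 4, 14, 6, 0⟩ :=
  leafX_sound T5.ok_mp T5.Ymp.bz_eq (w := 247) (c := ⟨⟨.negSucc 311, .ofNat 133, .ofNat 67, .negSucc 412, .negSucc 310, .negSucc 298⟩, ⟨.negSucc 222, .negSucc 11, .negSucc 23, .negSucc 86, .negSucc 55, .negSucc 50⟩, ⟨.negSucc 136, .negSucc 191, .negSucc 104, .ofNat 282, .ofNat 167, .ofNat 183⟩, ⟨.negSucc 282, .ofNat 324, .ofNat 222, .negSucc 882, .negSucc 683, .negSucc 652⟩, ⟨.negSucc 1887, .negSucc 295, .negSucc 183, .ofNat 0, .ofNat 94, .ofNat 91⟩, .ofNat 595, .negSucc 413, .ofNat 0, .negSucc 413, .ofNat 2101, .ofNat 0, .ofNat 206, .ofNat 128, .negSucc 1081, .ofNat 0, .ofNat 97, .negSucc 39, .ofNat 0, .ofNat 0, .ofNat 1274, .ofNat 1282, .ofNat 0, .ofNat 0, .ofNat 0, .ofNat 0, .ofNat 0, .ofNat 0, .ofNat 0, .ofNat 0, .ofNat 0, .ofNat 0, .ofNat 0, .ofNat 0, .ofNat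 0, .ofNat 0, .ofNat 166947249889704212041479567941847947160770838528, .ofNat 0⟩)
    (by decide +kernel)
theorem L02086 : Good (Phi V5.P V5.D (-1) 1) ⟨5, 18, 5, 11, 3, 7, 4, 14, 6, 0⟩ :=
  leafX_sound T5.ok_mp T5.Ymp.bz_eq (w := 252) (c := ⟨⟨.ofNat 120, .ofNat 27, .negSucc 23, .negSucc 616, .negSucc 465, .negSucc 484⟩, ⟨.negSucc 246, .negSucc 20, .negSucc 29, .negSucc 81, .negSucc 46, .negSucc 40⟩, ⟨.negSucc 624, .negSucc 83, .negSucc 30, .ofNat 497, .ofNat 318, .ofNat 370⟩, ⟨.ofNat 698, .ofNat 57, .ofNat 1, .negSucc 1323, .negSucc 1013, .negSucc 1066⟩, ⟨.negSucc 2629, .negSucc 101, .negSucc 44, .ofNat 276, .ofNat 314, .ofNat 399⟩, .ofNat 579, .negSucc 373, .ofNat 0, .negSucc 373, .ofNat 2231, .ofNat 0, .ofNat 212, .ofNat 128, .negSucc 1249, .ofNat 0, .ofNat 104, .negSucc 7, .ofNat 0, .ofNat 0, .ofNat 1388, .ofNat 1950, .ofNat 0, .ofNat 0, .ofNat 0, .ofNat 0, .ofNat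 0, .ofNat 0, .ofNat 13984903758651225302883052583498013897534734336, .ofNat 0, .ofNat 0, .ofNat 0, .ofNat 9947393390570811247908462413639648841773875200, .ofNat 0, .ofNat 0, .ofNat 0, .ofNat 95942409969844499718251902394998512549846056960, .ofNat 0⟩)
    (by decide +kernel)
theorem L02087 : Good (Phi V5.P V5.D (-1) 1) ⟨5, 19, 5, 11, 3, 7, 4, 14, 6, 0⟩ :=
  out_sound (S := T5.ds_mp) T5.ok_mp (w := 61) (j := 3) (by decide +kernel)
theorem L02088 : Good (Phi V5.P V5.D (-1) 1) ⟨4, 8, 4, 5, 3, 6, 5, 30, 6, 0⟩ :=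
  leafX_sound T5.ok_mp T5.Ymp.bz_eq (w := 247) (c := ⟨⟨.negSucc 640, .negSucc 59, .negSucc 11, .ofNat 33, .negSucc 96, .negSucc 260⟩, ⟨.negSucc 229, .negSucc 8, .negSucc 54, .negSucc 34, .negSucc 13, .negSucc 36⟩, ⟨.ofNat 155, .negSucc 6, .negSucc 53, .negSucc 108, .ofNat 47, .ofNat 169⟩, ⟨.negSucc 1161, .negSucc 67, .ofNat 59, .ofNat 149, .negSucc 218, .negSucc 576⟩, ⟨.negSucc 1306, .negSucc 97, .negSucc 103, .negSucc 428, .ofNat 62, .ofNat 132⟩, .ofNat 596, .negSucc 411, .ofNat 0, .negSucc 411, .ofNat 2133, .ofNat 0, .ofNat 231, .ofNat 128, .negSucc 1186, .ofNat 0, .ofNat 102, .negSucc 88, .ofNat 0, .ofNat 0, .ofNat 1518, .ofNat 1055, .ofNat 0, .ofNat 0, .ofNat 0, .ofNat 0, .ofNat 0, .ofNat 0, .ofNat 0, .ofNat 0, .ofNat 0, .ofNat 0, .ofNat 0, .ofNat 0, .ofNat 0, .ofNat 0, .ofNat 0, .ofNat 0⟩)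
    (by decide +kernel)
theorem L02089 : Good (Phi V5.P V5.D (-1) 1) ⟨4, 9, 4, 5, 3, 6, 5, 30, 6, 0⟩ :=
  leafX_sound T5.ok_mp T5.Ymp.bz_eq (w := 247) (c := ⟨⟨.negSucc 631, .negSucc 161, .ofNat 23, .ofNat 114, .negSucc 174, .negSucc 394⟩, ⟨.negSucc 244, .negSucc 16, .negSucc 52, .negSucc 31, .negSucc 9, .negSucc 31⟩, ⟨.ofNat 75, .ofNat 90, .negSucc 96, .negSucc 185, .ofNat 129, .ofNat 307⟩, ⟨.negSucc 1095, .negSucc 291, .ofNat 161, .ofNat 322, .negSucc 382, .negSucc 849⟩, ⟨.negSucc 1472, .ofNat 15, .negSucc 187, .negSucc 520, .ofNat 162, .ofNat 275⟩, .ofNat 572, .negSucc 350, .ofNat 0, .negSucc 350, .ofNat 2350, .ofNat 0, .ofNat 170, .ofNat 128, .negSucc 986, .ofNat 0, .ofNat 114, .negSucc 23, .ofNat 0, .ofNat 0, .ofNat 1179, .ofNat 822, .ofNat 0, .ofNat 0, .ofNat 1106410249850997842457903628779718388968587264, .ofNat 0, .ofNat 0, .ofNat 0, .ofNat 241195600187895731688094882544516030527724060672,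 .ofNat 0, .ofNat 0, .ofNat 0, .ofNat 179541468090656108748362727780909713536407568384, .ofNat 0, .ofNat 0, .ofNat 0, .ofNat 1167239827988012677935781112093644310034400673792, .ofNat 0⟩)
    (by decide +kernel)
theorem L02090 : Good (Phi V5.P V5.D (-1) 1) ⟨4, 8, 4, 5, 3, 7, 5, 30, 6, 0⟩ :=
  leafX_sound T5.ok_mp T5.Ymp.bz_eq (w := 247) (c := ⟨⟨.negSucc 674, .negSucc 34, .negSucc 7, .negSucc 267, .negSucc 77, .negSucc 167⟩, ⟨.negSucc 261, .negSucc 7, .negSucc 62, .negSucc 81, .negSucc 13, .negSucc 28⟩, ⟨.ofNat 127, .negSucc 13, .negSucc 66, .ofNat 101, .ofNat 15, .ofNat 80⟩, ⟨.negSucc 1170, .negSucc 16, .ofNat 101, .negSucc 523, .negSucc 168, .negSucc 370⟩, ⟨.negSucc 1651, .negSucc 111, .negSucc 154, .negSucc 265, .ofNat 5, .ofNat 60⟩, .ofNat 594, .negSucc 407, .ofNat 0, .negSucc 407, .ofNat 2129, .ofNat 0, .ofNat 237, .ofNat 128, .negSucc 1333, .ofNat 0, .ofNat 96, .negSucc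 31, .ofNat 0, .ofNat 0, .ofNat 1596, .ofNat 832, .ofNat 0, .ofNat 0, .ofNat 0, .ofNat 0, .ofNat 0, .ofNat 0, .ofNat 0, .ofNat 0, .ofNat 0, .ofNat 0, .ofNat 0, .ofNat 0, .ofNat 0, .ofNat 0, .ofNat 1748156856517440900431221468874387860646401146880, .ofNat 0⟩)
    (by decide +kernel)
theorem L02091 : Good (Phi V5.P V5.D (-1) 1) ⟨4, 9, 4, 5, 3, 7, 5, 30, 6, 0⟩ :=
  leafX_sound T5.ok_mp T5.Ymp.bz_eq (w := 248) (c := ⟨⟨.negSucc 597, .ofNat 11, .ofNat 109, .negSucc 437, .negSucc 112, .negSucc 270⟩, ⟨.negSucc 283, .negSucc 15, .negSucc 61, .negSucc 63, .negSucc 9, .negSucc 19⟩, ⟨.negSucc 17, .negSucc 54, .negSucc 181, .ofNat 297, .ofNat 51, .ofNat 169⟩, ⟨.negSucc 954, .ofNat 75, .ofNat 377, .negSucc 890, .negSucc 228, .negSucc 597⟩, ⟨.negSucc 1925, .negSucc 135, .negSucc 360, .negSucc 3, .ofNat 34, .ofNat 236⟩, .ofNat 558, .negSucc 318, .ofNat 0, .negSucc 318, .ofNat 2200, .ofNat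 0, .ofNat 263, .ofNat 128, .negSucc 1423, .ofNat 0, .ofNat 107, .ofNat 26, .ofNat 0, .ofNat 0, .ofNat 1590, .ofNat 1714, .ofNat 0, .ofNat 0, .ofNat 2261591035911652488406919126676876301007060992, .ofNat 0, .ofNat 0, .ofNat 0, .ofNat 428744713858799982906152073456194097909480816640, .ofNat 0, .ofNat 0, .ofNat 0, .ofNat 286360242049173439399399045877857425496114987008, .ofNat 0, .ofNat 0, .ofNat 0, .ofNat 3052819872323039540692008741296343606883732422656, .ofNat 0⟩)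
    (by decide +kernel)
theorem L02092 : Good (Phi V5.P V5.D (-1) 1) ⟨4, 8, 4, 5, 3, 6, 5, 31, 6, 0⟩ :=
  leafX_sound T5.ok_mp T5.Ymp.bz_eq (w := 248) (c := ⟨⟨.negSucc 738, .negSucc 117, .negSucc 8, .negSucc 28, .negSucc 43, .negSucc 197⟩, ⟨.negSucc 246, .negSucc 7, .negSucc 56, .negSucc 37, .negSucc 2, .negSucc 27⟩, ⟨.ofNat 206, .ofNat 50, .negSucc 56, .negSucc 53, .ofNat 0, .ofNat 113⟩, ⟨.negSucc 1386, .negSucc 183, .ofNat 65, .ofNat 16, .negSucc 110, .negSucc 446⟩, ⟨.negSucc 1256, .negSucc 44, .negSucc 109, .negSucc 368, .ofNat 76, .ofNat 128⟩, .ofNat 589, .negSucc 397, .ofNat 0, .negSucc 397, .ofNat 2116, .ofNat 0, .ofNat 215, .ofNat 128, .negSucc 998, .ofNat 0, .ofNat 104, .negSucc 62, .ofNat 0, .ofNat 0, .ofNat 1276, .ofNat 2644, .ofNat 0, .ofNat 0, .ofNat 0, .ofNat 0, .ofNat 0, .ofNat 0, .ofNat 0, .ofNat 0, .ofNat 0, .ofNat 0, .ofNat 0, .ofNat 0, .ofNat 0, .ofNat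 0, .ofNat 1128943555593065008805881369532302012452257660928, .ofNat 0⟩)
    (by decide +kernel)
theorem L02093 : Good (Phi V5.P V5.D (-1) 1) ⟨5, 16, 4, 5, 3, 7, 5, 31, 6, 0⟩ :=
  leafX_sound T5.ok_mp T5.Ymp.bz_eq (w := 253) (c := ⟨⟨.negSucc 820, .negSucc 43, .ofNat 0, .negSucc 206, .negSucc 30, .negSucc 99⟩, ⟨.negSucc 282, .negSucc 1, .negSucc 64, .negSucc 84, .negSucc 8, .negSucc 15⟩, ⟨.ofNat 212, .ofNat 21, .negSucc 74, .ofNat 17, .negSucc 30, .ofNat 29⟩, ⟨.negSucc 1506, .negSucc 67, .ofNat 127, .negSucc 354, .negSucc 65, .negSucc 232⟩, ⟨.negSucc 1542, .negSucc 6, .negSucc 203, .negSucc 448, .negSucc 12, .ofNat 73⟩, .ofNat 667, .negSucc 575, .ofNat 0, .negSucc 575, .ofNat 2704, .ofNat 0, .ofNat 141, .ofNat 128, .negSucc 588, .ofNat 0, .ofNat 91, .negSucc 28, .ofNat 0, .ofNat 0, .ofNat 728, .ofNat 4504, .ofNat 0, .ofNat 0, .ofNat 0, .ofNat 0, .ofNat 0, .ofNat 0, .ofNat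 0, .ofNat 0, .ofNat 0, .ofNat 0, .ofNat 0, .ofNat 0, .ofNat 0, .ofNat 0, .ofNat 0, .ofNat 0⟩)
    (by decide +kernel)
theorem L02094 : Good (Phi V5.P V5.D (-1) 1) ⟨5, 17, 4, 5, 3, 7, 5, 31, 6, 0⟩ :=
  leafX_sound T5.ok_mp T5.Ymp.bz_eq (w := 252) (c := ⟨⟨.negSucc 833, .negSucc 31, .ofNat 23, .negSucc 224, .negSucc 29, .negSucc 161⟩, ⟨.negSucc 283, .negSucc 3, .negSucc 68, .negSucc 81, .negSucc 5, .negSucc 18⟩, ⟨.ofNat 197, .ofNat 4, .negSucc 97, .ofNat 45, .negSucc 29, .ofNat 82⟩, ⟨.negSucc 1505, .negSucc 51, .ofNat 180, .negSucc 397, .negSucc 46, .negSucc 369⟩, ⟨.negSucc 1611, .ofNat 7, .negSucc 232, .negSucc 399, .negSucc 56, .ofNat 152⟩, .ofNat 625, .negSucc 483, .ofNat 0, .negSucc 483, .ofNat 2615, .ofNat 0, .ofNat 212, .ofNat 128, .negSucc 1252, .ofNat 0, .ofNat 98, .negSucc 23, .ofNat 0, .ofNat 0, .ofNat 1475, .ofNat 1222, .ofNat 0, .ofNat 0, .ofNat 0, .ofNat 0,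 .ofNat 0, .ofNat 0, .ofNat 0, .ofNat 0, .ofNat 0, .ofNat 0, .ofNat 2853654098656021945510728038740969070725693440, .ofNat 0, .ofNat 0, .ofNat 0, .ofNat 472877275653140249826070208420696462953120006144, .ofNat 0⟩)
    (by decide +kernel)
theorem L02095 : Good (Phi V5.P V5.D (-1) 1) ⟨5, 18, 4, 5, 3, 6, 5, 31, 6, 0⟩ :=
  leafX_sound T5.ok_mp T5.Ymp.bz_eq (w := 253) (c := ⟨⟨.negSucc 762, .negSucc 136, .negSucc 29, .ofNat 10, .negSucc 103, .negSucc 318⟩, ⟨.negSucc 259, .negSucc 0, .negSucc 60, .negSucc 39, .ofNat 1, .negSucc 17⟩, ⟨.ofNat 150, .ofNat 112, .negSucc 33, .negSucc 91, .ofNat 65, .ofNat 249⟩, ⟨.negSucc 1374, .negSucc 255, .ofNat 6, .ofNat 76, .negSucc 227, .negSucc 679⟩, ⟨.negSucc 1415, .ofNat 86, .negSucc 49, .negSucc 384, .ofNat 136, .ofNat 248⟩, .ofNat 576, .negSucc 361, .ofNat 0, .negSucc 361, .ofNat 2301, .ofNat 0, .ofNat 203, .ofNat 128, .negSucc 1107, .ofNat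 0, .ofNat 115, .negSucc 17, .ofNat 0, .ofNat 0, .ofNat 1326, .ofNat 3290, .ofNat 0, .ofNat 0, .ofNat 0, .ofNat 0, .ofNat 0, .ofNat 0, .ofNat 59473652024888850071167373798378004186168033280, .ofNat 0, .ofNat 0, .ofNat 0, .ofNat 40348084309745679489337184760537250575081799680, .ofNat 0, .ofNat 0, .ofNat 0, .ofNat 435062851504430456876844537721028144263120027648, .ofNat 0⟩)
    (by decide +kernel)
theorem L02096 : Good (Phi V5.P V5.D (-1) 1) ⟨5, 18, 4, 5, 3, 7, 5, 31, 6, 0⟩ :=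
  leafX_sound T5.ok_mp T5.Ymp.bz_eq (w := 252) (c := ⟨⟨.negSucc 875, .negSucc 37, .ofNat 89, .negSucc 173, .negSucc 39, .negSucc 209⟩, ⟨.negSucc 291, .negSucc 6, .negSucc 74, .negSucc 75, .negSucc 7, .negSucc 10⟩, ⟨.ofNat 214, .ofNat 3, .negSucc 175, .ofNat 2, .negSucc 29, .ofNat 129⟩, ⟨.negSucc 1569, .negSucc 40, .ofNat 316, .negSucc 291, .negSucc 73, .negSucc 460⟩, ⟨.negSucc 1627, .negSucc 54, .negSucc 340, .negSucc 447, .negSucc 30, .ofNat 202⟩, .ofNat 579, .negSucc 366, .ofNat 0, .negSucc 366, .ofNat 2428, .ofNat 0, .ofNat 200, .ofNat 128, .negSucc 1339, .ofNat 0, .ofNat 106, .ofNat 28, .ofNat 0, .ofNat 0, .ofNat 1515, .ofNat 1072, .ofNat 0, .ofNat 0, .ofNat 296199166018146744839486078354385400741494784, .ofNat 0, .ofNat 0, .ofNat 0, .ofNat 31097866472363125139900503944187704446474518528, .ofNat 0, .ofNat 0, .ofNat 0, .ofNat 36010571056854296356361193465435130075071643648,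 .ofNat 0, .ofNat 0, .ofNat 0, .ofNat 635066669452312859676486166830221935665750212608, .ofNat 0⟩)
    (by decide +kernel)
theorem L02097 : Good (Phi V5.P V5.D (-1) 1) ⟨5, 19, 4, 5, 2, 3, 5, 31, 6, 0⟩ :=
  out_sound (S := T5.ds_mp) T5.ok_mp (w := 59) (j := 3) (by decide +kernel)
theorem L02098 : Good (Phi V5.P V5.D (-1) 1) ⟨4, 8, 4, 5, 2, 3, 4, 14, 6, 1⟩ :=
  leafX_sound T5.ok_mp T5.Ymp.bz_eq (w := 230) (c := ⟨⟨.negSucc 647, .negSucc 100, .negSucc 30, .negSucc 141, .negSucc 190, .negSucc 242⟩, ⟨.negSucc 240, .negSucc 2, .negSucc 62, .negSucc 88, .negSucc 22, .negSucc 34⟩, ⟨.ofNat 139, .ofNat 53, .negSucc 31, .negSucc 18, .ofNat 109, .ofNat 145⟩, ⟨.negSucc 1165, .negSucc 165, .ofNat 24, .negSucc 172, .negSucc 431, .negSucc 538⟩, ⟨.negSucc 1416, .ofNat 10, .negSucc 87, .negSucc 659, .ofNat 141, .ofNat 130⟩, .ofNat 614, .negSucc 452, .ofNat 0, .negSucc 452, .ofNat 2378,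 .ofNat 0, .ofNat 239, .ofNat 128, .negSucc 626, .ofNat 0, .ofNat 98, .negSucc 38, .ofNat 0, .ofNat 0, .ofNat 766, .ofNat 1528, .ofNat 0, .ofNat 0, .ofNat 0, .ofNat 0, .ofNat 0, .ofNat 0, .ofNat 0, .ofNat 0, .ofNat 0, .ofNat 0, .ofNat 0, .ofNat 0, .ofNat 0, .ofNat 0, .ofNat 1908533459102262869162108446471479929864192, .ofNat 0⟩)
    (by decide +kernel)
theorem L02099 : Good (Phi V5.P V5.D (-1) 1) ⟨4, 9, 4, 5, 2, 3, 4, 14, 6, 1⟩ :=
  leafX_sound T5.ok_mp T5.Ymp.bz_eq (w := 230) (c := ⟨⟨.negSucc 663, .negSucc 267, .negSucc 102, .negSucc 77, .negSucc 290, .negSucc 360⟩, ⟨.negSucc 257, .negSucc 13, .negSucc 70, .negSucc 83, .negSucc 14, .negSucc 22⟩, ⟨.ofNat 102, .ofNat 217, .ofNat 38, .negSucc 75, .ofNat 200, .ofNat 263⟩, ⟨.negSucc 1141, .negSucc 513, .negSucc 133, .negSucc 65, .negSucc 629, .negSucc 775⟩, ⟨.negSucc 1579, .ofNat 151, .negSucc 21, .negSucc 656, .ofNat 249,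 .ofNat 276⟩, .ofNat 528, .negSucc 258, .ofNat 0, .negSucc 258, .ofNat 1862, .ofNat 0, .ofNat 298, .ofNat 128, .negSucc 1093, .ofNat 0, .ofNat 116, .negSucc 2, .ofNat 0, .ofNat 0, .ofNat 1241, .ofNat 1333, .ofNat 0, .ofNat 0, .ofNat 4106058440126732622174405821138007490560, .ofNat 0, .ofNat 0, .ofNat 0, .ofNat 958029429028764185306895577710583309402112, .ofNat 0, .ofNat 0, .ofNat 0, .ofNat 692826603974470177880504381724690648924160, .ofNat 0, .ofNat 0, .ofNat 0, .ofNat 7673659641916252179368643667501756427796480, .ofNat 0⟩)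
    (by decide +kernel)
theorem L02100 : Good (Phi V5.P V5.D (-1) 1) ⟨4, 8, 4, 5, 2, 3, 4, 15, 6, 1⟩ :=
  leafX_sound T5.ok_mp T5.Ymp.bz_eq (w := 229) (c := ⟨⟨.negSucc 880, .negSucc 175, .negSucc 32, .negSucc 96, .negSucc 61, .negSucc 157⟩, ⟨.negSucc 274, .negSucc 0, .negSucc 67, .negSucc 92, .ofNat 3, .negSucc 12⟩, ⟨.ofNat 293, .ofNat 118, .negSucc 27, .negSucc 107, .negSucc 11, .ofNat 96⟩, ⟨.negSucc 1714, .negSucc 297, .ofNat 16, .negSucc 47, .negSucc 150, .negSucc 364⟩, ⟨.negSucc 1236, .ofNat 49, .negSucc 87, .negSucc 805, .ofNat 139, .ofNat 173⟩, .ofNat 635, .negSucc 504, .ofNat 0, .negSucc 504, .ofNat 2573, .ofNat 0, .ofNat 152, .ofNat 128, .negSucc 647, .ofNat 0, .ofNat 98, .negSucc 38, .ofNat 0, .ofNat 0, .ofNat 786, .ofNat 430, .ofNat 0, .ofNat 0, .ofNat 0, .ofNat 0, .ofNat 0, .ofNat 0, .ofNat 0, .ofNat 0, .ofNat 0, .ofNat 0, .ofNat 0, .ofNat 0, .ofNat 0, .ofNat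 2386560458421761900293390553597414107212939264, .ofNat 1647147360583119514660650199101842655281152, .ofNat 0⟩)
    (by decide +kernel)
theorem L02101 : Good (Phi V5.P V5.D (-1) 1) ⟨5, 18, 4, 5, 2, 3, 4, 15, 6, 1⟩ :=
  leafX_sound T5.ok_mp T5.Ymp.bz_eq (w := 234) (c := ⟨⟨.negSucc 1053, .negSucc 180, .negSucc 98, .ofNat 101, .negSucc 82, .negSucc 268⟩, ⟨.negSucc 286, .ofNat 5, .negSucc 67, .negSucc 86, .ofNat 12, .negSucc 7⟩, ⟨.ofNat 412, .ofNat 153, .ofNat 55, .negSucc 307, .ofNat 9, .ofNat 198⟩, ⟨.negSucc 1986, .negSucc 335, .negSucc 159, .ofNat 350, .negSucc 206, .negSucc 596⟩, ⟨.negSucc 1284, .ofNat 136, .ofNat 89, .negSucc 966, .ofNat 237, .ofNat 303⟩, .ofNat 560, .negSucc 323, .ofNat 0, .negSucc 323, .ofNat 2199, .ofNat 0, .ofNat 185, .ofNat 128, .negSucc 920, .ofNat 0, .ofNat 112, .negSucc 5, .ofNat 0, .ofNat 0, .ofNat 1063, .ofNat 784, .ofNat 0, .ofNat 0, .ofNat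 0, .ofNat 0, .ofNat 0, .ofNat 0, .ofNat 97471827180620106275936128096112362913792, .ofNat 0, .ofNat 0, .ofNat 0, .ofNat 178334947887404651139858640925706627842048, .ofNat 0, .ofNat 0, .ofNat 58568536987594686163396696782692016440010080256, .ofNat 1056382319062353630592202487125241338265600, .ofNat 0⟩)
    (by decide +kernel)
theorem L02102 : Good (Phi V5.P V5.D (-1) 1) ⟨5, 19, 4, 5, 2, 3, 4, 15, 6, 1⟩ :=
  out_sound (S := T5.ds_mp) T5.ok_mp (w := 59) (j := 3) (by decide +kernel)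
theorem L02103 : Good (Phi V5.P V5.D (-1) 1) ⟨3, 5, 4, 5, 2, 3, 3, 7, 5, 0⟩ :=
  out_sound (S := T5.ds_mp) T5.ok_mp (w := 47) (j := 3) (by decide +kernel)
theorem L02104 : Good (Phi V5.P V5.D (-1) 1) ⟨4, 8, 4, 5, 3, 6, 4, 14, 5, 1⟩ :=
  leafX_sound T5.ok_mp T5.Ymp.bz_eq (w := 239) (c := ⟨⟨.negSucc 898, .negSucc 340, .negSucc 96, .ofNat 50, .negSucc 85, .negSucc 465⟩, ⟨.negSucc 311, .ofNat 1, .negSucc 80, .negSucc 14, .ofNat 10, .negSucc 44⟩, ⟨.ofNat 240, .ofNat 291, .ofNat 50, .negSucc 92, .ofNat 56, .ofNat 337⟩, ⟨.negSucc 1723, .negSucc 627, .negSucc 154, .ofNat 167, .negSucc 237, .negSucc 1077⟩, ⟨.negSucc 1502, .ofNat 201, .ofNat 8, .negSucc 287, .ofNat 282, .ofNat 479⟩, .ofNat 583, .negSucc 385, .ofNat 0, .negSucc 385, .ofNat 2092, .ofNat 0, .ofNat 155, .ofNat 128, .negSucc 508, .ofNat 0, .ofNat 104, .negSucc 35, .ofNat 0, .ofNat 0, .ofNat 632, .ofNat 2125, .ofNat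 0, .ofNat 0, .ofNat 0, .ofNat 0, .ofNat 0, .ofNat 0, .ofNat 0, .ofNat 0, .ofNat 0, .ofNat 0, .ofNat 0, .ofNat 0, .ofNat 0, .ofNat 0, .ofNat 530480164954187482530096284781731025940119552, .ofNat 0⟩)
    (by decide +kernel)
theorem L02105 : Good (Phi V5.P V5.D (-1) 1) ⟨4, 8, 4, 5, 3, 6, 4, 15, 5, 1⟩ :=
  leafX_sound T5.ok_mp T5.Ymp.bz_eq (w := 238) (c := ⟨⟨.negSucc 1055, .negSucc 354, .negSucc 107, .ofNat 30, .ofNat 47, .negSucc 272⟩, ⟨.negSucc 320, .ofNat 1, .negSucc 78, .negSucc 17, .ofNat 38, .negSucc 9⟩, ⟨.ofNat 338, .ofNat 308, .ofNat 68, .negSucc 77, .negSucc 66, .ofNat 193⟩, ⟨.negSucc 2088, .negSucc 663, .negSucc 192, .ofNat 119, .ofNat 39, .negSucc 689⟩, ⟨.negSucc 1292, .ofNat 230, .ofNat 47, .negSucc 275, .ofNat 317, .ofNat 511⟩, .ofNat 588, .negSucc 396, .ofNat 0, .negSucc 396, .ofNat 2115, .ofNat 0, .ofNat 128, .ofNat 146, .negSucc 452, .ofNat 0, .ofNat 119,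 .negSucc 30, .ofNat 0, .ofNat 0, .ofNat 566, .ofNat 329, .ofNat 0, .ofNat 0, .ofNat 0, .ofNat 0, .ofNat 0, .ofNat 0, .ofNat 0, .ofNat 0, .ofNat 0, .ofNat 0, .ofNat 0, .ofNat 0, .ofNat 0, .ofNat 888875638356716615814900011517018607735057416192, .ofNat 453077288943201679362740877907000064334626816, .ofNat 0⟩)
    (by decide +kernel)
theorem L02106 : Good (Phi V5.P V5.D (-1) 1) ⟨4, 8, 4, 5, 3, 7, 4, 14, 5, 1⟩ :=
  leafX_sound T5.ok_mp T5.Ymp.bz_eq (w := 239) (c := ⟨⟨.negSucc 1127, .negSucc 177, .negSucc 24, .ofNat 128, .negSucc 14, .negSucc 161⟩, ⟨.negSucc 350, .ofNat 5, .negSucc 68, .negSucc 25, .ofNat 10, .negSucc 9⟩, ⟨.ofNat 404, .ofNat 127, .negSucc 22, .negSucc 193, .negSucc 21, .ofNat 80⟩, ⟨.negSucc 2166, .negSucc 291, .ofNat 23, .ofNat 372, .negSucc 71, .negSucc 408⟩, ⟨.negSucc 1585, .ofNat 55, .negSucc 34, .negSucc 534, .ofNat 171, .ofNat 274⟩, .ofNat 586, .negSucc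 391, .ofNat 0, .negSucc 391, .ofNat 2114, .ofNat 0, .ofNat 304, .ofNat 128, .negSucc 786, .ofNat 0, .ofNat 100, .negSucc 31, .ofNat 0, .ofNat 0, .ofNat 930, .ofNat 2059, .ofNat 0, .ofNat 0, .ofNat 0, .ofNat 0, .ofNat 0, .ofNat 0, .ofNat 0, .ofNat 0, .ofNat 0, .ofNat 0, .ofNat 0, .ofNat 0, .ofNat 0, .ofNat 0, .ofNat 941432263897519874791054884540898520768446464, .ofNat 0⟩)
    (by decide +kernel)
theorem L02107 : Good (Phi V5.P V5.D (-1) 1) ⟨4, 8, 4, 5, 3, 7, 4, 15, 5, 1⟩ :=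
  leafX_sound T5.ok_mp T5.Ymp.bz_eq (w := 239) (c := ⟨⟨.negSucc 1190, .negSucc 130, .negSucc 15, .ofNat 158, .ofNat 102, .negSucc 52⟩, ⟨.negSucc 349, .negSucc 1, .negSucc 69, .negSucc 35, .ofNat 36, .ofNat 29⟩, ⟨.ofNat 418, .ofNat 56, .negSucc 41, .negSucc 227, .negSucc 130, .ofNat 35⟩, ⟨.negSucc 2336, .negSucc 172, .ofNat 43, .ofNat 479, .ofNat 167, .negSucc 187⟩, ⟨.negSucc 1393, .negSucc 87, .negSucc 66, .negSucc 742, .ofNat 206, .ofNat 387⟩, .ofNat 591, .negSucc 400, .ofNat 0, .negSucc 400, .ofNat 2132, .ofNat 0, .ofNat 233, .ofNat 128, .negSucc 1072, .ofNat 0, .ofNat 99, .negSucc 35, .ofNat 0, .ofNat 0, .ofNat 1282, .ofNat 1359, .ofNat 0, .ofNat 0, .ofNat 0, .ofNat 0, .ofNat 0, .ofNat 586661158205962119849207881781417198197455978496, .ofNat 118306769137016375986587194492316921574195200, .ofNat 0, .ofNat 0, .ofNat 325436364985817662529307611405918240054246899712,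 .ofNat 0, .ofNat 0, .ofNat 0, .ofNat 2957010128977640351912081843189383388027148042240, .ofNat 2021055073565217393242243907252107944631730176, .ofNat 0⟩)
    (by decide +kernel)
theorem L02108 : Good (Phi V5.P V5.D (-1) 1) ⟨5, 18, 4, 5, 3, 6, 4, 14, 5, 1⟩ :=
  leafX_sound T5.ok_mp T5.Ymp.bz_eq (w := 243) (c := ⟨⟨.negSucc 1099, .negSucc 236, .negSucc 103, .ofNat 37, .negSucc 218, .negSucc 660⟩, ⟨.negSucc 313, .ofNat 5, .negSucc 81, .negSucc 15, .ofNat 7, .negSucc 29⟩, ⟨.ofNat 390, .ofNat 211, .ofNat 65, .negSucc 79, .ofNat 187, .ofNat 526⟩, ⟨.negSucc 2066, .negSucc 427, .negSucc 179, .ofNat 112, .negSucc 502, .negSucc 1432⟩, ⟨.negSucc 1444, .ofNat 135, .ofNat 69, .negSucc 217, .ofNat 371, .ofNat 605⟩, .ofNat 527, .negSucc 255, .ofNat 0, .negSucc 255, .ofNat 1862, .ofNat 0, .ofNat 298, .ofNat 128, .negSucc 889, .ofNat 0, .ofNat 121, .negSucc 21, .ofNat 0, .ofNat 0, .ofNat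 1039, .ofNat 1676, .ofNat 0, .ofNat 0, .ofNat 0, .ofNat 0, .ofNat 0, .ofNat 0, .ofNat 0, .ofNat 0, .ofNat 0, .ofNat 0, .ofNat 0, .ofNat 0, .ofNat 0, .ofNat 0, .ofNat 560189866959706193235522682866459984602857472, .ofNat 0⟩)
    (by decide +kernel)
theorem L02109 : Good (Phi V5.P V5.D (-1) 1) ⟨5, 18, 4, 5, 3, 6, 4, 15, 5, 1⟩ :=
  leafX_sound T5.ok_mp T5.Ymp.bz_eq (w := 243) (c := ⟨⟨.negSucc 1284, .negSucc 381, .negSucc 183, .negSucc 20, .negSucc 79, .negSucc 454⟩, ⟨.negSucc 323, .ofNat 23, .negSucc 83, .negSucc 16, .ofNat 38, .ofNat 5⟩, ⟨.ofNat 510, .ofNat 386, .ofNat 169, .negSucc 27, .ofNat 73, .ofNat 373⟩, ⟨.negSucc 2485, .negSucc 703, .negSucc 390, .negSucc 28, .negSucc 226, .negSucc 1021⟩, ⟨.negSucc 1230, .ofNat 292, .ofNat 241, .negSucc 108, .ofNat 451, .ofNat 663⟩, .ofNat 571, .negSucc 346, .ofNat 0, .negSucc 346, .ofNat 2346, .ofNat 0, .ofNat 166, .ofNat 128,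 .negSucc 1097, .ofNat 0, .ofNat 117, .negSucc 26, .ofNat 0, .ofNat 0, .ofNat 1289, .ofNat 1130, .ofNat 0, .ofNat 0, .ofNat 784591251874240200701828302382053753618432, .ofNat 0, .ofNat 0, .ofNat 0, .ofNat 79211936973083013664391024133710007706320896, .ofNat 0, .ofNat 0, .ofNat 0, .ofNat 164613287924814223162670371382366139135819776, .ofNat 0, .ofNat 0, .ofNat 90190261728129679602907604063720067346346052419584, .ofNat 887144518007694383604929338960352254946705408, .ofNat 0⟩)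
    (by decide +kernel)
theorem L02110 : Good (Phi V5.P V5.D (-1) 1) ⟨5, 19, 4, 5, 3, 6, 3, 7, 5, 1⟩ :=
  out_sound (S := T5.ds_mp) T5.ok_mp (w := 59) (j := 3) (by decide +kernel)
theorem L02111 : Good (Phi V5.P V5.D (-1) 1) ⟨4, 9, 4, 5, 3, 7, 4, 14, 5, 1⟩ :=
  leafX_sound T5.ok_mp T5.Ymp.bz_eq (w := 239) (c := ⟨⟨.negSucc 1372, .negSucc 288, .negSucc 218, .ofNat 309, .ofNat 25, .negSucc 169⟩, ⟨.negSucc 348, .ofNat 15, .negSucc 81, .negSucc 33, .ofNat 14, .ofNat 3⟩, ⟨.ofNat 615, .ofNat 209, .ofNat 150, .negSucc 371, .negSucc 70, .ofNat 79⟩, ⟨.negSucc 2601, .negSucc 525, .negSucc 427, .ofNat 729, .ofNat 27, .negSucc 394⟩, ⟨.negSucc 1473, .ofNat 252, .ofNat 225, .negSucc 713, .ofNat 117, .ofNat 281⟩, .ofNat 547, .negSucc 294, .ofNat 0, .negSucc 294, .ofNat 2066, .ofNat 0, .ofNat 289, .ofNat 128, .negSucc 952, .ofNat 0, .ofNat 113, .ofNat 4, .ofNat 0, .ofNat 0, .ofNat 1044,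 .ofNat 1325, .ofNat 0, .ofNat 0, .ofNat 2840408565867814395936651982148062274387968, .ofNat 0, .ofNat 0, .ofNat 0, .ofNat 448238112337421621290715685212922968912429056, .ofNat 0, .ofNat 0, .ofNat 0, .ofNat 439810621946454122231293696479771300772970496, .ofNat 0, .ofNat 0, .ofNat 0, .ofNat 2658162169366355884845357729238422604943982592, .ofNat 0⟩)
    (by decide +kernel)
theorem L02112 : Good (Phi V5.P V5.D (-1) 1) ⟨5, 18, 4, 5, 3, 7, 4, 15, 5, 1⟩ :=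
  leafX_sound T5.ok_mp T5.Ymp.bz_eq (w := 244) (c := ⟨⟨.negSucc 1626, .negSucc 179, .negSucc 152, .ofNat 591, .ofNat 113, .ofNat 89⟩, ⟨.negSucc 349, .ofNat 8, .negSucc 72, .negSucc 44, .ofNat 35, .ofNat 37⟩, ⟨.ofNat 810, .ofNat 144, .ofNat 100, .negSucc 667, .negSucc 157, .negSucc 118⟩, ⟨.negSucc 3183, .negSucc 338, .negSucc 268, .ofNat 1384, .ofNat 200, .ofNat 146⟩, ⟨.negSucc 1088, .ofNat 167, .ofNat 125, .negSucc 1226, .ofNat 185, .ofNat 229⟩, .ofNat 570, .negSucc 343, .ofNat 0, .negSucc 343, .ofNat 2334, .ofNat 0, .ofNat 218, .ofNat 128, .negSucc 1224, .ofNat 0, .ofNat 111, .ofNat 8, .ofNat 0, .ofNat 0, .ofNat 1356, .ofNat 1268, .ofNat 0, .ofNat 0, .ofNat 0, .ofNat 0, .ofNat 0, .ofNat 6808230524886552698457762438817041181580988514304, .ofNat 64204378471758686531206277147501308499984384, .ofNat 0, .ofNat 0, .ofNat 0, .ofNat 73175001844690808617646372266888594301386752,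 .ofNat 0, .ofNat 0, .ofNat 28779542274945806334376605232452560672061504094208, .ofNat 912268211155782850758375982941607877834440704, .ofNat 0⟩)
    (by decide +kernel)
theorem L02113 : Good (Phi V5.P V5.D (-1) 1) ⟨5, 19, 4, 5, 3, 7, 4, 15, 5, 1⟩ :=
  out_sound (S := T5.ds_mp) T5.ok_mp (w := 59) (j := 3) (by decide +kernel)
theorem L02114 : Good (Phi V5.P V5.D (-1) 1) ⟨3, 5, 4, 5, 2, 3, 3, 7, 5, 1⟩ :=
  out_sound (S := T5.ds_mp) T5.ok_mp (w := 47) (j := 3) (by decide +kernel)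
theorem L02115 : Good (Phi V5.P V5.D (-1) 1) ⟨2, 3, 4, 5, 2, 3, 3, 7, 4, 0⟩ :=
  out_sound (S := T5.ds_mp) T5.ok_mp (w := 41) (j := 3) (by decide +kernel)
theorem L02116 : Good (Phi V5.P V5.D (-1) 1) ⟨4, 8, 3, 2, 3, 6, 4, 14, 5, 2⟩ :=
  leafX_sound T5.ok_mp T5.Ymp.bz_eq (w := 236) (c := ⟨⟨.negSucc 1420, .negSucc 339, .negSucc 180, .ofNat 173, .ofNat 93, .negSucc 113⟩, ⟨.negSucc 313, .ofNat 28, .negSucc 166, .ofNat 3, .ofNat 44, .ofNat 18⟩, ⟨.ofNat 620, .ofNat 289, .ofNat 127, .negSucc 189, .negSucc 81, .ofNat 65⟩, ⟨.negSucc 2963, .negSucc 569, .negSucc 335, .ofNat 401, .ofNat 147, .negSucc 301⟩, ⟨.negSucc 1121, .ofNat 216, .ofNat 125, .negSucc 275, .ofNat 291, .ofNat 386⟩, .ofNat 630, .negSucc 494, .ofNat 0, .negSucc 494, .ofNat 2880, .ofNat 0, .ofNat 187, .ofNat 128, .negSucc 433, .ofNat 0, .ofNat 105, .negSucc 28, .ofNat 0, .ofNat 0, .ofNat 569, .ofNat 1712, .ofNat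 0, .ofNat 0, .ofNat 0, .ofNat 0, .ofNat 0, .ofNat 0, .ofNat 0, .ofNat 0, .ofNat 0, .ofNat 0, .ofNat 0, .ofNat 0, .ofNat 0, .ofNat 0, .ofNat 128618901182826019803213483763747462227951616, .ofNat 0⟩)
    (by decide +kernel)
theorem L02117 : Good (Phi V5.P V5.D (-1) 1) ⟨4, 9, 4, 4, 3, 6, 4, 14, 5, 2⟩ :=
  leafX_sound T5.ok_mp T5.Ymp.bz_eq (w := 240) (c := ⟨⟨.negSucc 1736, .negSucc 680, .negSucc 203, .ofNat 321, .ofNat 100, .negSucc 106⟩, ⟨.negSucc 288, .ofNat 67, .negSucc 88, .negSucc 2, .ofNat 46, .ofNat 37⟩, ⟨.ofNat 886, .ofNat 618, .ofNat 180, .negSucc 325, .negSucc 87, .ofNat 50⟩, ⟨.negSucc 3498, .negSucc 1158, .negSucc 414, .ofNat 670, .ofNat 173, .negSucc 236⟩, ⟨.negSucc 969, .ofNat 349, .ofNat 181, .negSucc 311, .ofNat 317, .ofNat 364⟩, .ofNat 498, .negSucc 170, .ofNat 0, .negSucc 170, .ofNat 1798, .ofNat 0, .ofNat 285, .ofNat 110, .negSucc 1139, .ofNat 0, .ofNat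 128, .ofNat 17, .ofNat 0, .ofNat 0, .ofNat 1326, .ofNat 2099, .ofNat 0, .ofNat 0, .ofNat 5114891785189365585393890180011504038838272, .ofNat 0, .ofNat 0, .ofNat 0, .ofNat 235220107994898770224778288904987361715159040, .ofNat 0, .ofNat 0, .ofNat 0, .ofNat 537576767704371391078450593480877662908973056, .ofNat 0, .ofNat 0, .ofNat 0, .ofNat 3766624906669724530293639756333838386476351488, .ofNat 0⟩)
    (by decide +kernel)
theorem L02118 : Good (Phi V5.P V5.D (-1) 1) ⟨4, 9, 4, 5, 3, 6, 4, 14, 5, 2⟩ :=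
  leafX_sound T5.ok_mp T5.Ymp.bz_eq (w := 240) (c := ⟨⟨.negSucc 1876, .negSucc 679, .negSucc 147, .ofNat 276, .ofNat 38, .negSucc 86⟩, ⟨.negSucc 373, .ofNat 31, .negSucc 90, .ofNat 6, .ofNat 50, .ofNat 34⟩, ⟨.ofNat 999, .ofNat 628, .ofNat 133, .negSucc 293, .negSucc 18, .ofNat 43⟩, ⟨.negSucc 3758, .negSucc 1130, .negSucc 289, .ofNat 600, .ofNat 18, .negSucc 241⟩, ⟨.negSucc 858, .ofNat 178, .ofNat 128, .negSucc 294, .ofNat 409, .ofNat 439⟩, .ofNat 558, .negSucc 317, .ofNat 0, .negSucc 317, .ofNat 2189, .ofNat 0, .ofNat 275, .ofNat 128, .negSucc 1089, .ofNat 0, .ofNat 122, .negSucc 28, .ofNat 0, .ofNat 0, .ofNat 1328, .ofNat 2022, .ofNat 0, .ofNat 0, .ofNat 11227621740467114476486052881109430948593664, .ofNat 0, .ofNat 0, .ofNat 0, .ofNat 1024222180506210796114411335075145967434989568, .ofNat 0, .ofNat 0, .ofNat 0, .ofNat 1200580215102617614341743873539325249126924288,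 .ofNat 0, .ofNat 0, .ofNat 0, .ofNat 4848593876233148496192063985885038750346510336, .ofNat 0⟩)
    (by decide +kernel)
theorem L02119 : Good (Phi V5.P V5.D (-1) 1) ⟨4, 8, 3, 2, 3, 7, 4, 14, 5, 2⟩ :=
  leafX_sound T5.ok_mp T5.Ymp.bz_eq (w := 236) (c := ⟨⟨.negSucc 1500, .negSucc 98, .negSucc 45, .ofNat 396, .ofNat 144, .ofNat 97⟩, ⟨.negSucc 328, .ofNat 16, .negSucc 139, .ofNat 2, .ofNat 47, .ofNat 52⟩, ⟨.ofNat 647, .ofNat 39, .negSucc 15, .negSucc 338, .negSucc 122, .negSucc 66⟩, ⟨.negSucc 3101, .negSucc 100, .ofNat 24, .ofNat 972, .ofNat 262, .ofNat 151⟩, ⟨.negSucc 1178, .ofNat 4, .negSucc 66, .negSucc 794, .ofNat 221, .ofNat 341⟩, .ofNat 612, .negSucc 445, .ofNat 0, .negSucc 445, .ofNat 2589, .ofNat 0, .ofNat 242, .ofNat 128, .negSucc 793, .ofNat 0, .ofNat 102, .negSucc 29, .ofNat 0, .ofNat 0, .ofNat 1012, .ofNat 1584, .ofNat 0, .ofNat 0, .ofNat 0, .ofNat 0, .ofNat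 0, .ofNat 0, .ofNat 0, .ofNat 0, .ofNat 0, .ofNat 0, .ofNat 0, .ofNat 0, .ofNat 0, .ofNat 0, .ofNat 0, .ofNat 0⟩)
    (by decide +kernel)
theorem L02120 : Good (Phi V5.P V5.D (-1) 1) ⟨4, 9, 3, 2, 3, 7, 4, 14, 5, 2⟩ :=
  leafX_sound T5.ok_mp T5.Ymp.bz_eq (w := 237) (c := ⟨⟨.negSucc 1892, .ofNat 23, .negSucc 51, .ofNat 695, .ofNat 210, .ofNat 186⟩, ⟨.negSucc 284, .ofNat 21, .negSucc 151, .negSucc 36, .ofNat 45, .ofNat 45⟩, ⟨.ofNat 982, .negSucc 61, .negSucc 30, .negSucc 613, .negSucc 184, .negSucc 167⟩, ⟨.negSucc 3733, .ofNat 151, .negSucc 34, .ofNat 1464, .ofNat 406, .ofNat 336⟩, ⟨.negSucc 1081, .negSucc 75, .ofNat 30, .negSucc 892, .ofNat 193, .ofNat 292⟩, .ofNat 500, .negSucc 170, .ofNat 0, .negSucc 170, .ofNat 1830, .ofNat 0, .ofNat 365, .ofNat 115, .negSucc 1077, .ofNat 0, .ofNat 128, .ofNat 49, .ofNat 0, .ofNat 0, .ofNat 1236, .ofNat 1473, .ofNat 0, .ofNat 0, .ofNat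 0, .ofNat 0, .ofNat 0, .ofNat 0, .ofNat 153550294178322314327577117182520802844606464, .ofNat 0, .ofNat 0, .ofNat 0, .ofNat 309109384101993464804686901062174852417323008, .ofNat 0, .ofNat 0, .ofNat 0, .ofNat 1449346691181494500750373583330353921247936512, .ofNat 0⟩)
    (by decide +kernel)
theorem L02121 : Good (Phi V5.P V5.D (-1) 1) ⟨3, 4, 3, 2, 2, 3, 4, 14, 5, 3⟩ :=
  leafX_sound T5.ok_mp T5.Ymp.bz_eq (w := 218) (c := ⟨⟨.negSucc 1881, .negSucc 255, .negSucc 78, .ofNat 1037, .ofNat 173, .ofNat 132⟩, ⟨.negSucc 330, .ofNat 90, .negSucc 141, .ofNat 27, .ofNat 74, .ofNat 66⟩, ⟨.ofNat 969, .ofNat 131, .ofNat 31, .negSucc 842, .negSucc 108, .negSucc 97⟩, ⟨.negSucc 3944, .negSucc 225, .negSucc 112, .ofNat 2173, .ofNat 325, .ofNat 208⟩, ⟨.negSucc 701, .ofNat 41, .ofNat 45, .negSucc 813, .ofNat 411, .ofNat 464⟩, .ofNat 502, .negSucc 206, .ofNat 0, .negSucc 206, .ofNat 1651,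 .ofNat 0, .ofNat 377, .ofNat 117, .negSucc 499, .ofNat 0, .ofNat 128, .ofNat 10, .ofNat 0, .ofNat 0, .ofNat 703, .ofNat 737, .ofNat 0, .ofNat 0, .ofNat 0, .ofNat 0, .ofNat 0, .ofNat 0, .ofNat 0, .ofNat 0, .ofNat 0, .ofNat 0, .ofNat 27553392482739558480429170310760204599296, .ofNat 0, .ofNat 0, .ofNat 0, .ofNat 86419737164041254986730755463475779076096, .ofNat 0⟩)
    (by decide +kernel)
theorem L02122 : Good (Phi V5.P V5.D (-1) 1) ⟨3, 5, 3, 2, 2, 3, 4, 14, 4, 1⟩ :=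
  out_sound (S := T5.ds_mp) T5.ok_mp (w := 45) (j := 3) (by decide +kernel)
theorem L02123 : Good (Phi V5.P V5.D (-1) 1) ⟨4, 8, 3, 2, 3, 6, 4, 15, 5, 2⟩ :=
  leafX_sound T5.ok_mp T5.Ymp.bz_eq (w := 236) (c := ⟨⟨.negSucc 1431, .negSucc 289, .negSucc 157, .ofNat 217, .ofNat 193, .ofNat 10⟩, ⟨.negSucc 296, .ofNat 37, .negSucc 153, .ofNat 10, .ofNat 73, .ofNat 49⟩, ⟨.ofNat 628, .ofNat 231, .ofNat 106, .negSucc 210, .negSucc 173, .negSucc 23⟩, ⟨.negSucc 3020, .negSucc 479, .negSucc 320, .ofNat 503, .ofNat 331, .negSucc 43⟩, ⟨.negSucc 841, .ofNat 244, .ofNat 140, .negSucc 279, .ofNat 441, .ofNat 420⟩, .ofNat 569, .negSucc 345, .ofNat 0, .negSucc 345, .ofNat 2154, .ofNat 0, .ofNat 200, .ofNat 128, .negSucc 985, .ofNat 0, .ofNat 110, .negSucc 44, .ofNat 0, .ofNat 0, .ofNat 1268, .ofNat 1207, .ofNat 0, .ofNat 0, .ofNat 0, .ofNat 0, .ofNat 0, .ofNat 56092905088659245669636377467480227565935788032,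 .ofNat 0, .ofNat 0, .ofNat 0, .ofNat 90229760390547103806871389904550347001754025984, .ofNat 0, .ofNat 0, .ofNat 0, .ofNat 0, .ofNat 0, .ofNat 0⟩)
    (by decide +kernel)
theorem L02124 : Good (Phi V5.P V5.D (-1) 1) ⟨4, 9, 3, 2, 3, 6, 4, 15, 5, 2⟩ :=
  leafX_sound T5.ok_mp T5.Ymp.bz_eq (w := 236) (c := ⟨⟨.negSucc 1787, .negSucc 729, .negSucc 258, .ofNat 395, .ofNat 225, .ofNat 92⟩, ⟨.negSucc 269, .ofNat 79, .negSucc 149, .ofNat 2, .ofNat 76, .ofNat 66⟩, ⟨.ofNat 933, .ofNat 674, .ofNat 227, .negSucc 403, .negSucc 200, .negSucc 114⟩, ⟨.negSucc 3596, .negSucc 1236, .negSucc 569, .ofNat 796, .ofNat 392, .ofNat 124⟩, ⟨.negSucc 800, .ofNat 412, .ofNat 469, .negSucc 252, .ofNat 493, .ofNat 520⟩, .ofNat 530, .negSucc 224, .ofNat 0, .negSucc 224, .ofNat 2222, .ofNat 0, .ofNat 268, .ofNat 117, .negSucc 1187, .ofNat 0, .ofNat 128, .ofNat 18, .ofNat 0, .ofNat 0, .ofNat 1390, .ofNat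 778, .ofNat 0, .ofNat 0, .ofNat 3468502188777399317543534247977991693926400, .ofNat 0, .ofNat 0, .ofNat 0, .ofNat 74707281087817134161795037885049885515841536, .ofNat 0, .ofNat 0, .ofNat 13912888832270230606354209336909515890622464000, .ofNat 282518189869500688204707177711989856829177856, .ofNat 0, .ofNat 0, .ofNat 856530974418122706883013307172141796265069379584, .ofNat 1798284977500531339524067156600740396627132416, .ofNat 0⟩)
    (by decide +kernel)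
theorem L02125 : Good (Phi V5.P V5.D (-1) 1) ⟨3, 4, 3, 2, 3, 6, 4, 15, 5, 3⟩ :=
  leafX_sound T5.ok_mp T5.Ymp.bz_eq (w := 232) (c := ⟨⟨.negSucc 1674, .negSucc 453, .negSucc 59, .ofNat 429, .ofNat 517, .ofNat 218⟩, ⟨.negSucc 283, .ofNat 130, .negSucc 135, .ofNat 21, .ofNat 100, .ofNat 79⟩, ⟨.ofNat 802, .ofNat 358, .ofNat 32, .negSucc 384, .negSucc 456, .negSucc 185⟩, ⟨.negSucc 3573, .negSucc 520, .negSucc 164, .ofNat 843, .ofNat 981, .ofNat 370⟩, ⟨.negSucc 410, .ofNat 171, .ofNat 145, .negSucc 96, .ofNat 450, .ofNat 540⟩, .ofNat 539, .negSucc 272, .ofNat 0, .negSucc 272, .ofNat 1987, .ofNat 0, .ofNat 387, .ofNat 126, .negSucc 825, .ofNat 0, .ofNat 128, .negSucc 6, .ofNat 0, .ofNat 0, .ofNat 1145, .ofNat 483, .ofNat 0, .ofNat 0, .ofNat 0, .ofNat 0, .ofNat 0, .ofNat 0, .ofNat 0, .ofNat 0, .ofNat 0, .ofNat 14197019298632601311816886609575300351014207488, .ofNat 11345769707784480653274168652098808013914112,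 .ofNat 0, .ofNat 0, .ofNat 24751503651337034494519677402522947374559526912, .ofNat 3431214784135113180444509582917704645076844544, .ofNat 0⟩)
    (by decide +kernel)
theorem L02126 : Good (Phi V5.P V5.D (-1) 1) ⟨4, 8, 3, 2, 3, 7, 4, 15, 5, 2⟩ :=
  leafX_sound T5.ok_mp T5.Ymp.bz_eq (w := 236) (c := ⟨⟨.negSucc 1492, .negSucc 24, .negSucc 4, .ofNat 419, .ofNat 226, .ofNat 204⟩, ⟨.negSucc 302, .ofNat 27, .negSucc 130, .ofNat 2, .ofNat 71, .ofNat 73⟩, ⟨.ofNat 638, .negSucc 12, .negSucc 69, .negSucc 367, .negSucc 199, .negSucc 127⟩, ⟨.negSucc 3146, .ofNat 73, .ofNat 123, .ofNat 1037, .ofNat 457, .ofNat 345⟩, ⟨.negSucc 804, .negSucc 69, .negSucc 207, .negSucc 830, .ofNat 224, .ofNat 423⟩, .ofNat 622, .negSucc 469, .ofNat 0, .negSucc 469, .ofNat 2614, .ofNat 0, .ofNat 277, .ofNat 128, .negSucc 973, .ofNat 0, .ofNat 99, .negSucc 36, .ofNat 0, .ofNat 0, .ofNat 1246, .ofNat 922,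 .ofNat 0, .ofNat 0, .ofNat 0, .ofNat 0, .ofNat 0, .ofNat 0, .ofNat 0, .ofNat 0, .ofNat 0, .ofNat 90181835194374214537033485492052134896959750144, .ofNat 0, .ofNat 0, .ofNat 0, .ofNat 0, .ofNat 0, .ofNat 0⟩)
    (by decide +kernel)
theorem L02127 : Good (Phi V5.P V5.D (-1) 1) ⟨4, 9, 3, 2, 3, 7, 4, 15, 5, 2⟩ :=
  leafX_sound T5.ok_mp T5.Ymp.bz_eq (w := 236) (c := ⟨⟨.negSucc 1670, .negSucc 49, .negSucc 14, .ofNat 694, .ofNat 330, .ofNat 276⟩, ⟨.negSucc 259, .ofNat 19, .negSucc 141, .negSucc 35, .ofNat 71, .ofNat 76⟩, ⟨.ofNat 774, .negSucc 29, .negSucc 59, .negSucc 607, .negSucc 258, .negSucc 197⟩, ⟨.negSucc 3327, .ofNat 19, .negSucc 1, .ofNat 1483, .ofNat 657, .ofNat 524⟩, ⟨.negSucc 896, .negSucc 78, .ofNat 101, .negSucc 967, .ofNat 224, .ofNat 369⟩, .ofNat 523, .negSucc 208, .ofNat 0, .negSucc 208, .ofNat 2143, .ofNat 0, .ofNat 365, .ofNat 122, .negSucc 1145, .ofNat 0,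 .ofNat 128, .ofNat 50, .ofNat 0, .ofNat 0, .ofNat 1329, .ofNat 1028, .ofNat 0, .ofNat 0, .ofNat 0, .ofNat 0, .ofNat 0, .ofNat 0, .ofNat 0, .ofNat 0, .ofNat 0, .ofNat 46122228197797738596759318329113452284267724800, .ofNat 243332958756246823347272108194762611815874560, .ofNat 0, .ofNat 0, .ofNat 458820531060691707203196287521163739425222426624, .ofNat 1806598370659852173111023767863816234557505536, .ofNat 0⟩)
    (by decide +kernel)
theorem L02128 : Good (Phi V5.P V5.D (-1) 1) ⟨3, 4, 3, 2, 3, 7, 4, 15, 5, 3⟩ :=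
  leafX_sound T5.ok_mp T5.Ymp.bz_eq (w := 232) (c := ⟨⟨.negSucc 1435, .ofNat 120, .ofNat 67, .ofNat 541, .ofNat 348, .ofNat 267⟩, ⟨.negSucc 248, .ofNat 66, .negSucc 108, .ofNat 14, .ofNat 92, .ofNat 96⟩, ⟨.ofNat 579, .negSucc 181, .negSucc 112, .negSucc 371, .negSucc 276, .negSucc 172⟩, ⟨.negSucc 3068, .ofNat 515, .ofNat 237, .ofNat 1272, .ofNat 634, .ofNat 475⟩, ⟨.negSucc 361, .negSucc 334, .negSucc 226, .negSucc 786, .ofNat 453, .ofNat 567⟩, .ofNat 460, .negSucc 154, .ofNat 0, .negSucc 154, .ofNat 1284, .ofNat 0, .ofNat 459, .ofNat 113, .negSucc 1121, .ofNat 0, .ofNat 128, .ofNat 70, .ofNat 0, .ofNat 0, .ofNat 1481, .ofNat 1074, .ofNat 0, .ofNat 0, .ofNat 0, .ofNat 0, .ofNat 0, .ofNat 68923183600093852740514775463522215952784556032, .ofNat 732746490500723160092877412061267885996113920, .ofNat 0, .ofNat 0, .ofNat 12910776568745474794791764356334631065206390784, .ofNat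 250648484692073472540118884011267579355070464, .ofNat 0, .ofNat 0, .ofNat 59169373277332198363786736378885235434506420224, .ofNat 4865904420838968663289845851079004227425533952, .ofNat 0⟩)
    (by decide +kernel)
theorem L02129 : Good (Phi V5.P V5.D (-1) 1) ⟨3, 5, 3, 2, 2, 3, 4, 15, 4, 1⟩ :=
  out_sound (S := T5.ds_mp) T5.ok_mp (w := 45) (j := 3) (by decide +kernel)
theorem L02130 : Good (Phi V5.P V5.D (-1) 1) ⟨2, 3, 3, 2, 2, 3, 3, 7, 4, 1⟩ :=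
  out_sound (S := T5.ds_mp) T5.ok_mp (w := 39) (j := 3) (by decide +kernel)
theorem L02131 : Good (Phi V5.P V5.D (-1) 1) ⟨3, 4, 3, 2, 3, 6, 3, 6, 4, 2⟩ :=
  leafX_sound T5.ok_mp T5.Ymp.bz_eq (w := 223) (c := ⟨⟨.negSucc 2081, .negSucc 301, .negSucc 41, .ofNat 374, .ofNat 347, .ofNat 433⟩, ⟨.negSucc 393, .ofNat 133, .negSucc 168, .ofNat 30, .ofNat 113, .ofNat 106⟩, ⟨.ofNat 1114, .ofNat 215, .ofNat 33, .negSucc 343, .negSucc 279, .negSucc 369⟩, ⟨.negSucc 4386, .negSucc 208, .negSucc 74, .ofNat 793, .ofNat 632, .ofNat 816⟩, ⟨.negSucc 912, .ofNat 58, .ofNat 59, .negSucc 187, .ofNat 635, .ofNat 544⟩, .ofNat 457, .negSucc 146, .ofNat 0, .negSucc 146, .ofNat 1280, .ofNat 0, .ofNat 446, .ofNat 83, .negSucc 284, .ofNat 0, .ofNat 128, .ofNat 13, .ofNat 0, .ofNat 0, .ofNat 582, .ofNat 1180, .ofNat 0, .ofNat 0, .ofNat 0, .ofNat 0, .ofNat 0, .ofNat 0, .ofNat 0, .ofNat 0, .ofNat 0,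 .ofNat 63174565327221628838267196205995149519486976, .ofNat 1074055528373054624328002593033290902405120, .ofNat 0, .ofNat 0, .ofNat 0, .ofNat 1419552674072829227892992016187270499401728, .ofNat 0⟩)
    (by decide +kernel)
theorem L02132 : Good (Phi V5.P V5.D (-1) 1) ⟨3, 4, 3, 2, 3, 7, 3, 6, 4, 2⟩ :=
  leafX_sound T5.ok_mp T5.Ymp.bz_eq (w := 223) (c := ⟨⟨.negSucc 1819, .ofNat 30, .ofNat 6, .ofNat 482, .ofNat 449, .ofNat 394⟩, ⟨.negSucc 366, .ofNat 85, .negSucc 116, .ofNat 14, .ofNat 119, .ofNat 124⟩, ⟨.ofNat 802, .negSucc 40, .negSucc 2, .negSucc 319, .negSucc 298, .negSucc 216⟩, ⟨.negSucc 3738, .ofNat 288, .ofNat 121, .ofNat 1073, .ofNat 813, .ofNat 695⟩, ⟨.negSucc 1203, .negSucc 12, .negSucc 71, .negSucc 514, .ofNat 654, .ofNat 781⟩, .ofNat 463, .negSucc 160, .ofNat 0, .negSucc 160, .ofNat 1296, .ofNat 0, .ofNat 348, .ofNat 84, .negSucc 226, .ofNat 0, .ofNat 128, .ofNat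 26, .ofNat 0, .ofNat 0, .ofNat 534, .ofNat 752, .ofNat 0, .ofNat 0, .ofNat 0, .ofNat 0, .ofNat 0, .ofNat 0, .ofNat 0, .ofNat 0, .ofNat 0, .ofNat 171103766105818170492562306664710584359976960, .ofNat 452283095943942229471015905971700414545920, .ofNat 0, .ofNat 0, .ofNat 0, .ofNat 197892169384745330189019616998416818634752, .ofNat 0⟩)
    (by decide +kernel)
theorem L02133 : Good (Phi V5.P V5.D (-1) 1) ⟨3, 4, 3, 2, 2, 3, 3, 7, 4, 2⟩ :=
  leafX_sound T5.ok_mp T5.Ymp.bz_eq (w := 208) (c := ⟨⟨.negSucc 1772, .negSucc 116, .negSucc 30, .ofNat 991, .ofNat 718, .ofNat 342⟩, ⟨.negSucc 288, .ofNat 108, .negSucc 117, .ofNat 56, .ofNat 149, .ofNat 125⟩, ⟨.ofNat 844, .ofNat 20, .negSucc 27, .negSucc 671, .negSucc 568, .negSucc 270⟩, ⟨.negSucc 3809, .ofNat 90, .negSucc 19, .ofNat 2145, .ofNat 1336, .ofNat 579⟩, ⟨.negSucc 285, .negSucc 37, .negSucc 42, .negSucc 717, .ofNat 796, .ofNat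 902⟩, .ofNat 458, .negSucc 152, .ofNat 0, .negSucc 152, .ofNat 1276, .ofNat 0, .ofNat 495, .ofNat 90, .negSucc 364, .ofNat 0, .ofNat 128, .ofNat 27, .ofNat 0, .ofNat 0, .ofNat 696, .ofNat 380, .ofNat 0, .ofNat 0, .ofNat 0, .ofNat 0, .ofNat 0, .ofNat 200689956268520050993138684050024643428352, .ofNat 0, .ofNat 0, .ofNat 0, .ofNat 92627628458661163596825080055442545049600, .ofNat 0, .ofNat 0, .ofNat 0, .ofNat 209683570998371956851469836630253092470784, .ofNat 133968479036788308491236620314605518848, .ofNat 0⟩)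
    (by decide +kernel)
theorem L02134 : Good (Phi V5.P V5.D (-1) 1) ⟨3, 4, 3, 2, 3, 6, 2, 3, 4, 3⟩ :=
  leafX_sound T5.ok_mp T5.Ymp.bz_eq (w := 217) (c := ⟨⟨.negSucc 1761, .negSucc 78, .ofNat 14, .ofNat 377, .ofNat 733, .ofNat 380⟩, ⟨.negSucc 303, .ofNat 133, .negSucc 133, .ofNat 40, .ofNat 226, .ofNat 94⟩, ⟨.ofNat 863, .negSucc 24, .negSucc 9, .negSucc 320, .negSucc 667, .negSucc 349⟩, ⟨.negSucc 3765, .ofNat 207, .ofNat 38, .ofNat 786, .ofNat 1288, .ofNat 717⟩, ⟨.negSucc 421, .negSucc 19, .negSucc 29, .negSucc 65, .ofNat 1477, .ofNat 460⟩, .ofNat 332, .negSucc 55, .ofNat 0, .negSucc 55, .ofNat 637, .ofNat 0, .ofNat 237, .ofNat 39, .negSucc 77, .ofNat 0, .ofNat 128, .ofNat 16, .ofNat 0, .ofNat 0, .ofNat 270, .ofNat 146, .ofNat 0, .ofNat 0, .ofNat 0, .ofNat 0, .ofNat 0, .ofNat 0, .ofNat 0, .ofNat 0, .ofNat 0, .ofNat 60834785896490578573139779246137832984543232, .ofNat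 0, .ofNat 0, .ofNat 0, .ofNat 41965437041975280793590364630465729871740928, .ofNat 14288495151909351991349835382025611116544, .ofNat 0⟩)
    (by decide +kernel)
theorem L02135 : Good (Phi V5.P V5.D (-1) 1) ⟨3, 4, 3, 2, 3, 7, 2, 3, 4, 3⟩ :=
  leafX_sound T5.ok_mp T5.Ymp.bz_eq (w := 218) (c := ⟨⟨.negSucc 1423, .ofNat 98, .ofNat 67, .ofNat 436, .ofNat 642, .ofNat 294⟩, ⟨.negSucc 256, .ofNat 89, .negSucc 109, .ofNat 44, .ofNat 257, .ofNat 106⟩, ⟨.ofNat 527, .negSucc 140, .negSucc 42, .negSucc 146, .negSucc 399, .negSucc 197⟩, ⟨.negSucc 3018, .ofNat 491, .ofNat 191, .ofNat 933, .ofNat 1046, .ofNat 494⟩, ⟨.negSucc 522, .negSucc 206, .negSucc 151, .negSucc 163, .ofNat 1859, .ofNat 795⟩, .ofNat 458, .negSucc 148, .ofNat 0, .negSucc 148, .ofNat 1285, .ofNat 0, .ofNat 376, .ofNat 66, .negSucc 101, .ofNat 0, .ofNat 128, .ofNat 21, .ofNat 0, .ofNat 0, .ofNat 454, .ofNat 511, .ofNat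 0, .ofNat 0, .ofNat 0, .ofNat 0, .ofNat 0, .ofNat 134794550209371591432287913794111086499201024, .ofNat 0, .ofNat 0, .ofNat 0, .ofNat 166733759166201639645956886635397020754378752, .ofNat 0, .ofNat 0, .ofNat 0, .ofNat 282382368334227645567012371334243662631534592, .ofNat 33881956466368982540066680130300607987712, .ofNat 0⟩)
    (by decide +kernel)
theorem L02136 : Good (Phi V5.P V5.D (-1) 1) ⟨3, 5, 3, 2, 2, 3, 2, 3, 3, 1⟩ :=
  out_sound (S := T5.ds_mp) T5.ok_mp (w := 45) (j := 3) (by decide +kernel)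
theorem L02137 : Good (Phi V5.P V5.D (-1) 1) ⟨2, 3, 3, 2, 2, 3, 2, 3, 3, 1⟩ :=
  out_sound (S := T5.ds_mp) T5.ok_mp (w := 39) (j := 3) (by decide +kernel)
theorem L02138 : Good (Phi V5.P V5.D (-1) 1) ⟨4, 8, 3, 3, 3, 6, 3, 6, 5, 0⟩ :=
  leafX_sound T5.ok_mp T5.Ymp.bz_eq (w := 232) (c := ⟨⟨.ofNat 390, .ofNat 153, .negSucc 48, .ofNat 313, .negSucc 732, .negSucc 975⟩, ⟨.negSucc 28, .negSucc 25, .negSucc 64, .ofNat 17, .negSucc 162, .negSucc 216⟩, ⟨.negSucc 548, .negSucc 203, .negSucc 60, .negSucc 326, .ofNat 462, .ofNat 659⟩, ⟨.ofNat 1173, .ofNat 332, .ofNat 115, .ofNat 825, .negSucc 1573, .negSucc 2137⟩, ⟨.negSucc 1495, .negSucc 295, .negSucc 156, .negSucc 649, .ofNat 66, .ofNat 199⟩, .ofNat 626, .negSucc 481, .ofNat 0, .negSucc 481, .ofNat 2110, .ofNat 0, .ofNat 282, .ofNat 128, .negSucc 449, .ofNat 0, .ofNat 97, .negSucc 56, .ofNat 0, .ofNat 0, .ofNat 573, .ofNat 848,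 .ofNat 0, .ofNat 0, .ofNat 0, .ofNat 0, .ofNat 0, .ofNat 0, .ofNat 0, .ofNat 0, .ofNat 0, .ofNat 0, .ofNat 7631578275809385061517836528192038287441920, .ofNat 0, .ofNat 0, .ofNat 0, .ofNat 17035930452386733823308637910301169734909952, .ofNat 0⟩)
    (by decide +kernel)
theorem L02139 : Good (Phi V5.P V5.D (-1) 1) ⟨5, 16, 3, 3, 4, 14, 3, 6, 5, 0⟩ :=
  leafX_sound T5.ok_mp T5.Ymp.bz_eq (w := 249) (c := ⟨⟨.ofNat 466, .ofNat 216, .ofNat 311, .negSucc 49, .negSucc 721, .negSucc 976⟩, ⟨.negSucc 50, .ofNat 23, .ofNat 8, .negSucc 26, .negSucc 170, .negSucc 221⟩, ⟨.negSucc 673, .negSucc 221, .negSucc 424, .ofNat 16, .ofNat 459, .ofNat 670⟩, ⟨.ofNat 1522, .ofNat 499, .ofNat 1029, .negSucc 26, .negSucc 1608, .negSucc 2247⟩, ⟨.negSucc 2122, .negSucc 268, .negSucc 608, .negSucc 281, .ofNat 180, .ofNat 480⟩, .ofNat 651, .negSucc 530, .ofNat 0, .negSucc 530, .ofNat 2180, .ofNat 0,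 .ofNat 128, .ofNat 143, .negSucc 339, .ofNat 0, .ofNat 102, .negSucc 36, .ofNat 0, .ofNat 0, .ofNat 410, .ofNat 457, .ofNat 0, .ofNat 0, .ofNat 0, .ofNat 0, .ofNat 0, .ofNat 0, .ofNat 0, .ofNat 0, .ofNat 0, .ofNat 0, .ofNat 0, .ofNat 0, .ofNat 0, .ofNat 0, .ofNat 43579068989772466014662132604073956342163832832, .ofNat 0⟩)
    (by decide +kernel)
theorem L02140 : Good (Phi V5.P V5.D (-1) 1) ⟨5, 16, 3, 3, 4, 15, 3, 6, 5, 0⟩ :=
  leafX_sound T5.ok_mp T5.Ymp.bz_eq (w := 249) (c := ⟨⟨.ofNat 394, .ofNat 61, .ofNat 198, .negSucc 353, .negSucc 635, .negSucc 767⟩, ⟨.negSucc 73, .negSucc 5, .negSucc 56, .negSucc 71, .negSucc 160, .negSucc 174⟩, ⟨.negSucc 638, .negSucc 73, .negSucc 339, .ofNat 262, .ofNat 362, .ofNat 482⟩, ⟨.ofNat 1384, .ofNat 216, .ofNat 759, .negSucc 800, .negSucc 1382, .negSucc 1771⟩, ⟨.negSucc 2263, .negSucc 306, .negSucc 549, .ofNat 172, .ofNat 34, .ofNat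 378⟩, .ofNat 749, .negSucc 740, .ofNat 0, .negSucc 740, .ofNat 2685, .ofNat 0, .ofNat 128, .ofNat 133, .negSucc 543, .ofNat 0, .ofNat 90, .negSucc 57, .ofNat 0, .ofNat 0, .ofNat 633, .ofNat 399, .ofNat 0, .ofNat 0, .ofNat 0, .ofNat 0, .ofNat 0, .ofNat 0, .ofNat 0, .ofNat 0, .ofNat 0, .ofNat 0, .ofNat 18872085933013590293284188617076472324055629824, .ofNat 0, .ofNat 0, .ofNat 0, .ofNat 120697650204280505470604702368939524872743157760, .ofNat 0⟩)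
    (by decide +kernel)
theorem L02141 : Good (Phi V5.P V5.D (-1) 1) ⟨5, 17, 4, 6, 3, 7, 3, 6, 5, 0⟩ :=
  leafX_sound T5.ok_mp T5.Ymp.bz_eq (w := 239) (c := ⟨⟨.ofNat 807, .ofNat 195, .ofNat 38, .negSucc 468, .negSucc 770, .negSucc 1063⟩, ⟨.negSucc 57, .negSucc 14, .negSucc 39, .negSucc 93, .negSucc 148, .negSucc 173⟩, ⟨.negSucc 1011, .negSucc 220, .negSucc 134, .ofNat 352, .ofNat 490, .ofNat 764⟩, ⟨.ofNat 2271, .ofNat 430, .ofNat 246, .negSucc 1015, .negSucc 1663, .negSucc 2373⟩, ⟨.negSucc 2587, .negSucc 322, .negSucc 291, .ofNat 111, .ofNat 184, .ofNat 598⟩, .ofNat 652, .negSucc 545, .ofNat 0, .negSucc 545, .ofNat 2527, .ofNat 0, .ofNat 128, .ofNat 132, .negSucc 580, .ofNat 0, .ofNat 97, .negSucc 34, .ofNat 0, .ofNat 0, .ofNat 660, .ofNat 351, .ofNat 0, .ofNat 0, .ofNat 0, .ofNat 0, .ofNat 0, .ofNat 0, .ofNat 0, .ofNat 0, .ofNat 0, .ofNat 0, .ofNat 0, .ofNat 0, .ofNat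 0, .ofNat 0, .ofNat 17559898499276060752216253896172918410313728, .ofNat 0⟩)
    (by decide +kernel)
theorem L02142 : Good (Phi V5.P V5.D (-1) 1) ⟨5, 17, 4, 7, 3, 7, 3, 6, 5, 0⟩ :=
  out_sound (S := T5.ds_mp) T5.ok_mp (w := 59) (j := 3) (by decide +kernel)
theorem L02143 : Good (Phi V5.P V5.D (-1) 1) ⟨4, 8, 3, 3, 3, 6, 3, 6, 5, 1⟩ :=
  leafX_sound T5.ok_mp T5.Ymp.bz_eq (w := 231) (c := ⟨⟨.negSucc 520, .negSucc 209, .negSucc 161, .ofNat 144, .negSucc 376, .negSucc 783⟩, ⟨.negSucc 278, .negSucc 10, .negSucc 150, .ofNat 5, .negSucc 58, .negSucc 146⟩, ⟨.negSucc 38, .ofNat 156, .ofNat 62, .negSucc 170, .ofNat 270, .ofNat 579⟩, ⟨.negSucc 783, .negSucc 359, .negSucc 242, .ofNat 401, .negSucc 875, .negSucc 1774⟩, ⟨.negSucc 1697, .ofNat 32, .ofNat 71, .negSucc 364, .ofNat 306, .ofNat 429⟩, .ofNat 646, .negSucc 521, .ofNat 0, .negSucc 521, .ofNat 2080, .ofNat 0, .ofNat 140, .ofNat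 128, .negSucc 259, .ofNat 0, .ofNat 96, .negSucc 36, .ofNat 0, .ofNat 0, .ofNat 334, .ofNat 829, .ofNat 0, .ofNat 0, .ofNat 0, .ofNat 0, .ofNat 0, .ofNat 0, .ofNat 6507974165267653719208342156897370576519168, .ofNat 0, .ofNat 0, .ofNat 0, .ofNat 0, .ofNat 0, .ofNat 0, .ofNat 0, .ofNat 5951028865679117874828575806851351603838976, .ofNat 0⟩)
    (by decide +kernel)
theorem L02144 : Good (Phi V5.P V5.D (-1) 1) ⟨4, 8, 3, 3, 3, 7, 4, 12, 5, 1⟩ :=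
  leafX_sound T5.ok_mp T5.Ymp.bz_eq (w := 235) (c := ⟨⟨.negSucc 468, .negSucc 43, .negSucc 88, .negSucc 189, .negSucc 172, .negSucc 727⟩, ⟨.negSucc 287, .negSucc 0, .negSucc 128, .negSucc 50, .negSucc 29, .negSucc 136⟩, ⟨.negSucc 124, .ofNat 18, .negSucc 6, .ofNat 109, .ofNat 115, .ofNat 514⟩, ⟨.negSucc 582, .negSucc 31, .ofNat 6, .negSucc 393, .negSucc 364, .negSucc 1648⟩, ⟨.negSucc 2005, .negSucc 65, .negSucc 128, .negSucc 46, .ofNat 33, .ofNat 399⟩, .ofNat 646, .negSucc 521, .ofNat 0, .negSucc 521, .ofNat 2080, .ofNat 0, .ofNat 245, .ofNat 128, .negSucc 613, .ofNat 0, .ofNat 93, .negSucc 64, .ofNat 0, .ofNat 0, .ofNat 699, .ofNat 1068, .ofNat 0, .ofNat 0, .ofNat 1065153584954990871487442347513345948516352, .ofNat 0, .ofNat 0, .ofNat 0, .ofNat 0, .ofNat 0, .ofNat 0, .ofNat 0, .ofNat 78217202311448144211041130243222692916363264, .ofNat 0, .ofNat 0, .ofNat 0, .ofNat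 597928653726363469276668143199310917570396160, .ofNat 0⟩)
    (by decide +kernel)
theorem L02145 : Good (Phi V5.P V5.D (-1) 1) ⟨4, 8, 3, 3, 3, 7, 4, 13, 5, 1⟩ :=
  leafX_sound T5.ok_mp T5.Ymp.bz_eq (w := 236) (c := ⟨⟨.negSucc 771, .negSucc 118, .negSucc 107, .negSucc 41, .negSucc 109, .negSucc 484⟩, ⟨.negSucc 348, .negSucc 7, .negSucc 132, .negSucc 37, .negSucc 18, .negSucc 76⟩, ⟨.ofNat 86, .ofNat 84, .ofNat 27, .negSucc 25, .ofNat 58, .ofNat 341⟩, ⟨.negSucc 1254, .negSucc 202, .negSucc 108, .negSucc 5, .negSucc 277, .negSucc 1107⟩, ⟨.negSucc 1893, .ofNat 23, .ofNat 106, .negSucc 340, .ofNat 129, .ofNat 337⟩, .ofNat 646, .negSucc 521, .ofNat 0, .negSucc 521, .ofNat 2080, .ofNat 0, .ofNat 195, .ofNat 128, .negSucc 667, .ofNat 0, .ofNat 94, .negSucc 64, .ofNat 0, .ofNat 0, .ofNat 760, .ofNat 1327, .ofNat 0, .ofNat 0, .ofNat 586495164979531651048956607787181923106816, .ofNat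 0, .ofNat 0, .ofNat 0, .ofNat 76638249493930799011711527338788672122126336, .ofNat 0, .ofNat 0, .ofNat 0, .ofNat 50364444959123513784758392021219997969809408, .ofNat 0, .ofNat 0, .ofNat 0, .ofNat 642173416902114186712098624883432458417078272, .ofNat 0⟩)
    (by decide +kernel)
theorem L02146 : Good (Phi V5.P V5.D (-1) 1) ⟨4, 9, 3, 3, 2, 3, 3, 6, 4, 0⟩ :=
  out_sound (S := T5.ds_mp) T5.ok_mp (w := 51) (j := 3) (by decide +kernel)
theorem L02147 : Good (Phi V5.P V5.D (-1) 1) ⟨3, 5, 3, 3, 2, 3, 3, 6, 4, 0⟩ :=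
  out_sound (S := T5.ds_mp) T5.ok_mp (w := 45) (j := 3) (by decide +kernel)
theorem L02148 : Good (Phi V5.P V5.D (-1) 1) ⟨4, 8, 3, 3, 3, 6, 3, 6, 5, 2⟩ :=
  leafX_sound T5.ok_mp T5.Ymp.bz_eq (w := 232) (c := ⟨⟨.negSucc 1424, .negSucc 354, .negSucc 191, .ofNat 123, .negSucc 8, .negSucc 359⟩, ⟨.negSucc 473, .ofNat 5, .negSucc 193, .ofNat 3, .ofNat 35, .negSucc 50⟩, ⟨.ofNat 590, .ofNat 311, .ofNat 144, .negSucc 154, .ofNat 13, .ofNat 279⟩, ⟨.negSucc 2830, .negSucc 607, .negSucc 353, .ofNat 329, .negSucc 105, .negSucc 853⟩, ⟨.negSucc 1365, .ofNat 171, .ofNat 124, .negSucc 280, .ofNat 375, .ofNat 359⟩, .ofNat 688, .negSucc 618, .ofNat 0, .negSucc 618, .ofNat 2576, .ofNat 0, .ofNat 153, .ofNat 128, .negSucc 309, .ofNat 0, .ofNat 95, .negSucc 40, .ofNat 0, .ofNat 0, .ofNat 432, .ofNat 1574, .ofNat 0, .ofNat 0, .ofNat 41488557501844116615956670716481086947328, .ofNat 0, .ofNat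 0, .ofNat 0, .ofNat 9206085559508550382171837971632946482774016, .ofNat 0, .ofNat 0, .ofNat 0, .ofNat 7494697276964921241474904726917882539147264, .ofNat 0, .ofNat 0, .ofNat 0, .ofNat 12046639558320551380437881566697748690894848, .ofNat 0⟩)
    (by decide +kernel)
theorem L02149 : Good (Phi V5.P V5.D (-1) 1) ⟨4, 8, 3, 3, 3, 7, 4, 12, 5, 2⟩ :=
  leafX_sound T5.ok_mp T5.Ymp.bz_eq (w := 236) (c := ⟨⟨.negSucc 1464, .negSucc 181, .negSucc 160, .ofNat 263, .ofNat 65, .negSucc 210⟩, ⟨.negSucc 486, .ofNat 15, .negSucc 168, .ofNat 17, .ofNat 20, .negSucc 29⟩, ⟨.ofNat 585, .ofNat 152, .ofNat 97, .negSucc 263, .negSucc 57, .ofNat 144⟩, ⟨.negSucc 2808, .negSucc 311, .negSucc 252, .ofNat 649, .ofNat 109, .negSucc 512⟩, ⟨.negSucc 1628, .ofNat 166, .ofNat 142, .negSucc 426, .ofNat 85, .ofNat 245⟩, .ofNat 747, .negSucc 747, .ofNat 0, .negSucc 747, .ofNat 2801, .ofNat 0, .ofNat 247,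 .ofNat 128, .negSucc 472, .ofNat 0, .ofNat 92, .negSucc 54, .ofNat 0, .ofNat 0, .ofNat 580, .ofNat 1305, .ofNat 0, .ofNat 0, .ofNat 826023685665394983565880833777086557585408, .ofNat 0, .ofNat 0, .ofNat 0, .ofNat 0, .ofNat 0, .ofNat 0, .ofNat 0, .ofNat 0, .ofNat 0, .ofNat 0, .ofNat 0, .ofNat 428941244843845976955224183864161031520518144, .ofNat 0⟩)
    (by decide +kernel)
theorem L02150 : Good (Phi V5.P V5.D (-1) 1) ⟨4, 8, 3, 3, 3, 7, 4, 13, 5, 2⟩ :=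
  leafX_sound T5.ok_mp T5.Ymp.bz_eq (w := 236) (c := ⟨⟨.negSucc 1562, .negSucc 202, .negSucc 144, .ofNat 393, .ofNat 124, .negSucc 40⟩, ⟨.negSucc 496, .ofNat 8, .negSucc 163, .ofNat 27, .ofNat 37, .ofNat 12⟩, ⟨.ofNat 661, .ofNat 163, .ofNat 82, .negSucc 380, .negSucc 107, .ofNat 24⟩, ⟨.negSucc 3059, .negSucc 304, .negSucc 252, .ofNat 965, .ofNat 223, .negSucc 163⟩, ⟨.negSucc 1455, .ofNat 32, .ofNat 186, .negSucc 626, .ofNat 131, .ofNat 280⟩, .ofNat 744, .negSucc 740, .ofNat 0, .negSucc 740, .ofNat 2778, .ofNat 0, .ofNat 200, .ofNat 128, .negSucc 421, .ofNat 0, .ofNat 93, .negSucc 45, .ofNat 0, .ofNat 0, .ofNat 517, .ofNat 1090, .ofNat 0, .ofNat 0, .ofNat 319652340841511291583821574774603221303296, .ofNat 0, .ofNat 0, .ofNat 0, .ofNat 184040734036940042175364384705344759052369920, .ofNat 0, .ofNat 0, .ofNat 0, .ofNat 0, .ofNat 0, .ofNat 0, .ofNat 0, .ofNat 293065291303121569784958411400773913270026240,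 .ofNat 0⟩)
    (by decide +kernel)
theorem L02151 : Good (Phi V5.P V5.D (-1) 1) ⟨4, 8, 3, 3, 2, 3, 4, 12, 5, 3⟩ :=
  leafX_sound T5.ok_mp T5.Ymp.bz_eq (w := 223) (c := ⟨⟨.negSucc 2057, .negSucc 210, .negSucc 145, .ofNat 729, .ofNat 133, .ofNat 18⟩, ⟨.negSucc 577, .ofNat 30, .negSucc 183, .ofNat 77, .ofNat 45, .ofNat 29⟩, ⟨.ofNat 1089, .ofNat 179, .ofNat 109, .negSucc 695, .negSucc 99, .negSucc 17⟩, ⟨.negSucc 4297, .negSucc 272, .negSucc 248, .ofNat 1805, .ofNat 246, .negSucc 27⟩, ⟨.negSucc 875, .ofNat 68, .ofNat 125, .negSucc 1053, .ofNat 150, .ofNat 264⟩, .ofNat 664, .negSucc 563, .ofNat 0, .negSucc 563, .ofNat 2388, .ofNat 0, .ofNat 347, .ofNat 128, .negSucc 329, .ofNat 0, .ofNat 99, .negSucc 33, .ofNat 0, .ofNat 0, .ofNat 511, .ofNat 1337, .ofNat 0, .ofNat 0, .ofNat 25189768267137964573902631309966049280, .ofNat 0, .ofNat 0, .ofNat 0, .ofNat 0, .ofNat 0, .ofNat 0,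 .ofNat 0, .ofNat 5922195348423623444799757295227653586944, .ofNat 0, .ofNat 0, .ofNat 0, .ofNat 14240520235086852114747911759017518563328, .ofNat 0⟩)
    (by decide +kernel)
theorem L02152 : Good (Phi V5.P V5.D (-1) 1) ⟨4, 8, 3, 3, 2, 3, 4, 13, 5, 3⟩ :=
  leafX_sound T5.ok_mp T5.Ymp.bz_eq (w := 223) (c := ⟨⟨.negSucc 2017, .negSucc 202, .negSucc 58, .ofNat 888, .ofNat 168, .ofNat 89⟩, ⟨.negSucc 558, .ofNat 31, .negSucc 163, .ofNat 106, .ofNat 64, .ofNat 50⟩, ⟨.ofNat 1058, .ofNat 157, .ofNat 15, .negSucc 787, .negSucc 136, .negSucc 60⟩, ⟨.negSucc 4217, .negSucc 276, .negSucc 101, .ofNat 2129, .ofNat 298, .ofNat 122⟩, ⟨.negSucc 782, .ofNat 92, .ofNat 108, .negSucc 1073, .ofNat 251, .ofNat 296⟩, .ofNat 625, .negSucc 478, .ofNat 0, .negSucc 478, .ofNat 2106, .ofNat 0, .ofNat 297, .ofNat 128, .negSucc 362, .ofNat 0, .ofNat 103, .negSucc 29, .ofNat 0, .ofNat 0, .ofNat 547,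 .ofNat 1288, .ofNat 0, .ofNat 0, .ofNat 0, .ofNat 0, .ofNat 0, .ofNat 0, .ofNat 13952430776449871202851215155154932203520, .ofNat 0, .ofNat 0, .ofNat 0, .ofNat 8247919231071049819423959467971101851648, .ofNat 0, .ofNat 0, .ofNat 0, .ofNat 18492416267158444991478052563843333226496, .ofNat 0⟩)
    (by decide +kernel)
theorem L02153 : Good (Phi V5.P V5.D (-1) 1) ⟨4, 9, 3, 3, 2, 3, 3, 6, 4, 1⟩ :=
  out_sound (S := T5.ds_mp) T5.ok_mp (w := 51) (j := 3) (by decide +kernel)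
theorem L02154 : Good (Phi V5.P V5.D (-1) 1) ⟨3, 5, 3, 3, 2, 3, 3, 6, 4, 1⟩ :=
  out_sound (S := T5.ds_mp) T5.ok_mp (w := 45) (j := 3) (by decide +kernel)
theorem L02155 : Good (Phi V5.P V5.D (-1) 1) ⟨4, 8, 3, 3, 3, 6, 4, 14, 5, 0⟩ :=
  leafX_sound T5.ok_mp T5.Ymp.bz_eq (w := 235) (c := ⟨⟨.negSucc 358, .negSucc 76, .negSucc 76, .ofNat 110, .negSucc 250, .negSucc 658⟩, ⟨.negSucc 214, .negSucc 18, .negSucc 104, .negSucc 14, .negSucc 48, .negSucc 136⟩, ⟨.negSucc 90, .ofNat 6, .negSucc 46, .negSucc 178, .ofNat 158, .ofNat 458⟩, ⟨.negSucc 433, .negSucc 118, .ofNat 46, .ofNat 375, .negSucc 577, .negSucc 1506⟩, ⟨.negSucc 1551, .negSucc 91, .negSucc 199, .negSucc 531, .ofNat 149, .ofNat 347⟩, .ofNat 691, .negSucc 623, .ofNat 0, .negSucc 623, .ofNat 2582, .ofNat 0, .ofNat 157, .ofNat 128, .negSucc 471, .ofNat 0, .ofNat 95, .negSucc 57, .ofNat 0, .ofNat 0, .ofNat 605, .ofNat 546,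 .ofNat 0, .ofNat 0, .ofNat 0, .ofNat 0, .ofNat 0, .ofNat 0, .ofNat 160213297392800787728542477109992861338697728, .ofNat 0, .ofNat 0, .ofNat 0, .ofNat 0, .ofNat 0, .ofNat 0, .ofNat 0, .ofNat 252084934801506297795834118398916325955076096, .ofNat 0⟩)
    (by decide +kernel)
theorem L02156 : Good (Phi V5.P V5.D (-1) 1) ⟨5, 16, 3, 3, 3, 7, 4, 14, 6, 0⟩ :=
  leafX_sound T5.ok_mp T5.Ymp.bz_eq (w := 245) (c := ⟨⟨.negSucc 265, .ofNat 57, .ofNat 129, .negSucc 365, .negSucc 269, .negSucc 342⟩, ⟨.negSucc 215, .negSucc 14, .negSucc 72, .negSucc 109, .negSucc 66, .negSucc 69⟩, ⟨.negSucc 220, .negSucc 80, .negSucc 275, .ofNat 217, .ofNat 124, .ofNat 230⟩, ⟨.negSucc 94, .ofNat 176, .ofNat 643, .negSucc 747, .negSucc 605, .negSucc 831⟩, ⟨.negSucc 2036, .negSucc 240, .negSucc 582, .negSucc 161, .ofNat 66, .ofNat 302⟩, .ofNat 749, .negSucc 740, .ofNat 0, .negSucc 740, .ofNat 2685, .ofNat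 0, .ofNat 219, .ofNat 128, .negSucc 898, .ofNat 0, .ofNat 89, .negSucc 97, .ofNat 0, .ofNat 0, .ofNat 1068, .ofNat 648, .ofNat 0, .ofNat 0, .ofNat 0, .ofNat 0, .ofNat 0, .ofNat 0, .ofNat 0, .ofNat 0, .ofNat 0, .ofNat 0, .ofNat 14022279457447457991496921264755112687960064, .ofNat 0, .ofNat 0, .ofNat 0, .ofNat 10439704431625666727141951323720794368515244032, .ofNat 0⟩)
    (by decide +kernel)
theorem L02157 : Good (Phi V5.P V5.D (-1) 1) ⟨5, 16, 3, 3, 3, 7, 4, 14, 6, 1⟩ :=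
  leafX_sound T5.ok_mp T5.Ymp.bz_eq (w := 244) (c := ⟨⟨.negSucc 664, .ofNat 29, .negSucc 25, .negSucc 232, .negSucc 160, .negSucc 251⟩, ⟨.negSucc 317, .ofNat 5, .negSucc 112, .negSucc 77, .negSucc 36, .negSucc 45⟩, ⟨.ofNat 22, .negSucc 36, .negSucc 93, .ofNat 109, .ofNat 58, .ofNat 170⟩, ⟨.negSucc 999, .ofNat 105, .ofNat 158, .negSucc 462, .negSucc 362, .negSucc 583⟩, ⟨.negSucc 1954, .negSucc 88, .negSucc 131, .negSucc 170, .ofNat 64, .ofNat 180⟩, .ofNat 752, .negSucc 764, .ofNat 0, .negSucc 764, .ofNat 2952, .ofNat 0, .ofNat 166, .ofNat 128, .negSucc 752, .ofNat 0, .ofNat 89, .negSucc 73, .ofNat 0, .ofNat 0, .ofNat 900, .ofNat 750, .ofNat 0, .ofNat 0, .ofNat 0, .ofNat 0, .ofNat 0, .ofNat 0, .ofNat 0, .ofNat 0, .ofNat 0, .ofNat 0, .ofNat 746081206486808020446380095336838856670445568, .ofNat 0, .ofNat 0, .ofNat 0, .ofNat 6368101385007617300865654274959846717194764288,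 .ofNat 0⟩)
    (by decide +kernel)
theorem L02158 : Good (Phi V5.P V5.D (-1) 1) ⟨5, 17, 4, 6, 3, 7, 4, 14, 6, 0⟩ :=
  leafX_sound T5.ok_mp T5.Ymp.bz_eq (w := 248) (c := ⟨⟨.negSucc 70, .ofNat 220, .ofNat 55, .negSucc 488, .negSucc 397, .negSucc 472⟩, ⟨.negSucc 228, .negSucc 3, .negSucc 48, .negSucc 105, .negSucc 67, .negSucc 64⟩, ⟨.negSucc 443, .negSucc 254, .negSucc 144, .ofNat 351, .ofNat 248, .ofNat 365⟩, ⟨.ofNat 310, .ofNat 542, .ofNat 333, .negSucc 1025, .negSucc 872, .negSucc 1033⟩, ⟨.negSucc 2235, .negSucc 424, .negSucc 428, .ofNat 1, .ofNat 177, .ofNat 271⟩, .ofNat 670, .negSucc 589, .ofNat 0, .negSucc 589, .ofNat 2684, .ofNat 0, .ofNat 200, .ofNat 128, .negSucc 970, .ofNat 0, .ofNat 95, .negSucc 53, .ofNat 0, .ofNat 0, .ofNat 1120, .ofNat 1009, .ofNat 0, .ofNat 0, .ofNat 15303467293506899121084851850642140929458176, .ofNat 0, .ofNat 0, .ofNat 0, .ofNat 2329892431210769999259864600665050855885504512,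 .ofNat 0, .ofNat 0, .ofNat 0, .ofNat 2350638017199730854895441446581190170828079104, .ofNat 0, .ofNat 0, .ofNat 0, .ofNat 27495472938714933382540089964074573629799530496, .ofNat 0⟩)
    (by decide +kernel)
theorem L02159 : Good (Phi V5.P V5.D (-1) 1) ⟨5, 17, 4, 6, 3, 7, 4, 14, 6, 1⟩ :=
  leafX_sound T5.ok_mp T5.Ymp.bz_eq (w := 248) (c := ⟨⟨.negSucc 632, .ofNat 94, .ofNat 83, .negSucc 191, .negSucc 268, .negSucc 325⟩, ⟨.negSucc 322, .negSucc 0, .negSucc 51, .negSucc 68, .negSucc 35, .negSucc 42⟩, ⟨.negSucc 17, .negSucc 125, .negSucc 151, .ofNat 80, .ofNat 171, .ofNat 241⟩, ⟨.negSucc 933, .ofNat 253, .ofNat 296, .negSucc 334, .negSucc 604, .negSucc 745⟩, ⟨.negSucc 1962, .negSucc 209, .negSucc 188, .negSucc 306, .ofNat 201, .ofNat 278⟩, .ofNat 642, .negSucc 521, .ofNat 0, .negSucc 521, .ofNat 2419, .ofNat 0, .ofNat 282, .ofNat 128, .negSucc 1076, .ofNat 0, .ofNat 96, .negSucc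 62, .ofNat 0, .ofNat 0, .ofNat 1233, .ofNat 1690, .ofNat 0, .ofNat 0, .ofNat 0, .ofNat 0, .ofNat 0, .ofNat 0, .ofNat 0, .ofNat 0, .ofNat 0, .ofNat 0, .ofNat 2081655381798201275830418299807178769846763520, .ofNat 0, .ofNat 0, .ofNat 0, .ofNat 27147066068508919093369657567896869018334658560, .ofNat 0⟩)
    (by decide +kernel)
theorem L02160 : Good (Phi V5.P V5.D (-1) 1) ⟨5, 17, 4, 7, 3, 7, 4, 14, 5, 0⟩ :=
  out_sound (S := T5.ds_mp) T5.ok_mp (w := 59) (j := 3) (by decide +kernel)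
theorem L02161 : Good (Phi V5.P V5.D (-1) 1) ⟨4, 8, 3, 3, 3, 6, 4, 14, 5, 1⟩ :=
  leafX_sound T5.ok_mp T5.Ymp.bz_eq (w := 236) (c := ⟨⟨.negSucc 988, .negSucc 327, .negSucc 140, .ofNat 48, .negSucc 99, .negSucc 489⟩, ⟨.negSucc 372, .negSucc 9, .negSucc 173, .negSucc 14, .ofNat 5, .negSucc 63⟩, ⟨.ofNat 279, .ofNat 275, .ofNat 61, .negSucc 99, .ofNat 76, .ofNat 386⟩, ⟨.negSucc 1837, .negSucc 618, .negSucc 253, .ofNat 180, .negSucc 278, .negSucc 1173⟩, ⟨.negSucc 1485, .ofNat 193, .ofNat 53, .negSucc 313, .ofNat 288, .ofNat 561⟩, .ofNat 620, .negSucc 468, .ofNat 0, .negSucc 468, .ofNat 2089, .ofNat 0, .ofNat 128, .ofNat 183, .negSucc 446, .ofNat 0, .ofNat 144, .negSucc 45, .ofNat 0, .ofNat 0, .ofNat 565, .ofNat 1062, .ofNat 0, .ofNat 0, .ofNat 0, .ofNat 0, .ofNat 0, .ofNat 0, .ofNat 0, .ofNat 0, .ofNat 0, .ofNat 0, .ofNat 0, .ofNat 0, .ofNat 0, .ofNat 0, .ofNat 297495923618496328980134241964121508175413248,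 .ofNat 0⟩)
    (by decide +kernel)
theorem L02162 : Good (Phi V5.P V5.D (-1) 1) ⟨4, 8, 3, 3, 3, 7, 4, 14, 6, 2⟩ :=
  leafX_sound T5.ok_mp T5.Ymp.bz_eq (w := 241) (c := ⟨⟨.negSucc 1026, .negSucc 188, .negSucc 110, .ofNat 18, .negSucc 92, .negSucc 149⟩, ⟨.negSucc 394, .negSucc 3, .negSucc 137, .negSucc 38, .negSucc 7, .negSucc 18⟩, ⟨.ofNat 274, .ofNat 148, .ofNat 26, .negSucc 110, .ofNat 35, .ofNat 101⟩, ⟨.negSucc 1841, .negSucc 368, .negSucc 90, .ofNat 152, .negSucc 240, .negSucc 371⟩, ⟨.negSucc 1743, .ofNat 167, .ofNat 3, .negSucc 477, .ofNat 171, .ofNat 201⟩, .ofNat 676, .negSucc 594, .ofNat 0, .negSucc 594, .ofNat 2531, .ofNat 0, .ofNat 132, .ofNat 128, .negSucc 519, .ofNat 0, .ofNat 93, .negSucc 39, .ofNat 0, .ofNat 0, .ofNat 608, .ofNat 1098, .ofNat 0, .ofNat 0, .ofNat 12926742836955568520043872391603276396625920, .ofNat 0, .ofNat 0, .ofNat 0, .ofNat 1140792745214072100302189336458587824650715136,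 .ofNat 0, .ofNat 0, .ofNat 0, .ofNat 0, .ofNat 0, .ofNat 0, .ofNat 0, .ofNat 13833062255146775129662654296304749218623389696, .ofNat 0⟩)
    (by decide +kernel)
theorem L02163 : Good (Phi V5.P V5.D (-1) 1) ⟨4, 8, 3, 3, 3, 7, 4, 14, 6, 3⟩ :=
  leafX_sound T5.ok_mp T5.Ymp.bz_eq (w := 241) (c := ⟨⟨.negSucc 1352, .negSucc 219, .negSucc 118, .ofNat 238, .ofNat 53, .negSucc 68⟩, ⟨.negSucc 450, .ofNat 6, .negSucc 144, .negSucc 6, .ofNat 24, .negSucc 0⟩, ⟨.ofNat 512, .ofNat 181, .ofNat 53, .negSucc 290, .negSucc 71, .ofNat 46⟩, ⟨.negSucc 2630, .negSucc 389, .negSucc 133, .ofNat 670, .ofNat 78, .negSucc 181⟩, ⟨.negSucc 1425, .ofNat 154, .ofNat 74, .negSucc 689, .ofNat 136, .ofNat 155⟩, .ofNat 682, .negSucc 605, .ofNat 0, .negSucc 605, .ofNat 2556, .ofNat 0, .ofNat 227, .ofNat 128, .negSucc 773, .ofNat 0, .ofNat 93, .negSucc 64, .ofNat 0, .ofNat 0, .ofNat 922, .ofNat 1352, .ofNat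 0, .ofNat 0, .ofNat 18194311410469558491999181080965502925275136, .ofNat 0, .ofNat 0, .ofNat 0, .ofNat 2770606157062337030306758195099849392971055104, .ofNat 0, .ofNat 0, .ofNat 0, .ofNat 3501973677415293479463398754231307969163689984, .ofNat 0, .ofNat 0, .ofNat 0, .ofNat 29085360600435789047812590846029824146515427328, .ofNat 0⟩)
    (by decide +kernel)
theorem L02164 : Good (Phi V5.P V5.D (-1) 1) ⟨4, 9, 3, 3, 2, 3, 4, 14, 4, 0⟩ :=
  out_sound (S := T5.ds_mp) T5.ok_mp (w := 51) (j := 3) (by decide +kernel)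
theorem L02165 : Good (Phi V5.P V5.D (-1) 1) ⟨3, 5, 3, 3, 2, 3, 4, 14, 4, 0⟩ :=
  out_sound (S := T5.ds_mp) T5.ok_mp (w := 45) (j := 3) (by decide +kernel)
theorem L02166 : Good (Phi V5.P V5.D (-1) 1) ⟨5, 16, 3, 3, 3, 6, 4, 15, 5, 0⟩ :=
  leafX_sound T5.ok_mp T5.Ymp.bz_eq (w := 240) (c := ⟨⟨.negSucc 638, .negSucc 68, .negSucc 95, .ofNat 23, .negSucc 103, .negSucc 485⟩, ⟨.negSucc 273, .negSucc 7, .negSucc 125, .negSucc 34, .negSucc 12, .negSucc 87⟩, ⟨.ofNat 84, .ofNat 42, .negSucc 30, .negSucc 121, .ofNat 16, .ofNat 342⟩, ⟨.negSucc 1069, .negSucc 131, .negSucc 12, .ofNat 192, .negSucc 256, .negSucc 1153⟩, ⟨.negSucc 1446, .ofNat 21, .negSucc 186, .negSucc 509, .ofNat 136, .ofNat 406⟩, .ofNat 759, .negSucc 779, .ofNat 0, .negSucc 779, .ofNat 2993, .ofNat 0, .ofNat 140, .ofNat 128, .negSucc 620, .ofNat 0, .ofNat 94, .negSucc 77, .ofNat 0, .ofNat 0, .ofNat 806, .ofNat 1270,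 .ofNat 0, .ofNat 0, .ofNat 0, .ofNat 0, .ofNat 0, .ofNat 0, .ofNat 3076292613573115295274318030682257639866368, .ofNat 0, .ofNat 0, .ofNat 0, .ofNat 24201420710206446744002955826101084475097088, .ofNat 0, .ofNat 0, .ofNat 0, .ofNat 103596244584771261988759215699964180708720640, .ofNat 0⟩)
    (by decide +kernel)
theorem L02167 : Good (Phi V5.P V5.D (-1) 1) ⟨5, 16, 3, 3, 3, 6, 4, 15, 5, 1⟩ :=
  leafX_sound T5.ok_mp T5.Ymp.bz_eq (w := 240) (c := ⟨⟨.negSucc 1122, .negSucc 200, .negSucc 204, .ofNat 8, .ofNat 93, .negSucc 294⟩, ⟨.negSucc 383, .negSucc 11, .negSucc 169, .negSucc 19, .ofNat 50, .negSucc 26⟩, ⟨.ofNat 358, .ofNat 182, .ofNat 132, .negSucc 58, .negSucc 115, .ofNat 233⟩, ⟨.negSucc 2160, .negSucc 403, .negSucc 386, .ofNat 89, .ofNat 126, .negSucc 795⟩, ⟨.negSucc 1305, .ofNat 156, .ofNat 109, .negSucc 259, .ofNat 285, .ofNat 593⟩, .ofNat 721, .negSucc 686, .ofNat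 0, .negSucc 686, .ofNat 2664, .ofNat 0, .ofNat 130, .ofNat 128, .negSucc 599, .ofNat 0, .ofNat 95, .negSucc 75, .ofNat 0, .ofNat 0, .ofNat 776, .ofNat 1470, .ofNat 0, .ofNat 0, .ofNat 0, .ofNat 0, .ofNat 0, .ofNat 0, .ofNat 0, .ofNat 0, .ofNat 0, .ofNat 0, .ofNat 0, .ofNat 0, .ofNat 0, .ofNat 3336317578435479279535456758999597834481948426240, .ofNat 117090706474203549946744412317264837720670208, .ofNat 0⟩)
    (by decide +kernel)
theorem L02168 : Good (Phi V5.P V5.D (-1) 1) ⟨5, 17, 3, 3, 3, 6, 4, 15, 4, 0⟩ :=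
  leafX_sound T5.ok_mp T5.Ymp.bz_eq (w := 235) (c := ⟨⟨.negSucc 724, .negSucc 91, .negSucc 101, .negSucc 35, .negSucc 61, .negSucc 988⟩, ⟨.negSucc 327, .ofNat 15, .negSucc 137, .negSucc 38, .ofNat 12, .negSucc 83⟩, ⟨.ofNat 67, .ofNat 94, .ofNat 22, .negSucc 44, .ofNat 7, .ofNat 815⟩, ⟨.negSucc 1190, .negSucc 166, .negSucc 115, .ofNat 2, .negSucc 174, .negSucc 2366⟩, ⟨.negSucc 1731, .ofNat 142, .ofNat 11, .negSucc 342, .ofNat 231, .ofNat 1330⟩, .ofNat 671, .negSucc 590, .ofNat 0, .negSucc 590, .ofNat 2676, .ofNat 0, .ofNat 154, .ofNat 128, .negSucc 809, .ofNat 0, .ofNat 101, .negSucc 66, .ofNat 0, .ofNat 0, .ofNat 1000, .ofNat 824, .ofNat 0, .ofNat 0, .ofNat 6775741101612100711379853523659914215424, .ofNat 0, .ofNat 0, .ofNat 0, .ofNat 619131273935630869374395903935212179947520, .ofNat 0, .ofNat 0, .ofNat 42550830895727945906973305173323232312656134144, .ofNat 1219379514314380596740691603792283272478720,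 .ofNat 0, .ofNat 0, .ofNat 447472721688739950811824847108349189573343969280, .ofNat 6901285049215025469682791791923809707098112, .ofNat 0⟩)
    (by decide +kernel)
theorem L02169 : Good (Phi V5.P V5.D (-1) 1) ⟨4, 9, 3, 3, 3, 6, 4, 15, 4, 0⟩ :=
  out_sound (S := T5.ds_mp) T5.ok_mp (w := 51) (j := 3) (by decide +kernel)
theorem L02170 : Good (Phi V5.P V5.D (-1) 1) ⟨3, 5, 3, 3, 3, 6, 4, 15, 4, 0⟩ :=
  out_sound (S := T5.ds_mp) T5.ok_mp (w := 45) (j := 3) (by decide +kernel)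
theorem L02171 : Good (Phi V5.P V5.D (-1) 1) ⟨5, 16, 4, 6, 3, 7, 4, 15, 5, 0⟩ :=
  leafX_sound T5.ok_mp T5.Ymp.bz_eq (w := 242) (c := ⟨⟨.negSucc 728, .negSucc 18, .ofNat 43, .negSucc 173, .negSucc 102, .negSucc 333⟩, ⟨.negSucc 325, .ofNat 0, .negSucc 48, .negSucc 85, .negSucc 25, .negSucc 52⟩, ⟨.ofNat 65, .ofNat 9, .negSucc 97, .ofNat 15, .negSucc 12, .ofNat 219⟩, ⟨.negSucc 1137, .negSucc 37, .ofNat 241, .negSucc 257, .negSucc 230, .negSucc 843⟩, ⟨.negSucc 1913, .ofNat 40, .negSucc 210, .negSucc 468, .ofNat 19, .ofNat 448⟩, .ofNat 731, .negSucc 714, .ofNat 0, .negSucc 714, .ofNat 2830, .ofNat 0, .ofNat 128, .ofNat 128, .negSucc 647, .ofNat 0, .ofNat 90, .negSucc 50, .ofNat 0, .ofNat 0, .ofNat 789, .ofNat 708, .ofNat 0, .ofNat 0, .ofNat 0, .ofNat 0, .ofNat 0, .ofNat 0, .ofNat 0, .ofNat 0, .ofNat 0, .ofNat 0, .ofNat 0, .ofNat 0, .ofNat 0, .ofNat 0, .ofNat 273667597667444592347782165166017117526425600,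 .ofNat 0⟩)
    (by decide +kernel)

end Crest.Agent.R097C5.N5mp
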