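import Crest.Agent.R097.KP7
import Crest.Agent.R097.T5Ymp

/-!
# Row 97, box cover in dimension n = 5 (generated)
-/

set_option autoImplicit false
set_option Elab.async false
set_option maxHeartbeats 0
set_option maxRecDepth 100000

open Crest.Agent.R097 Crest.Agent.R097.KA


namespace Crest.Agent.R097C5.N5mp

theorem L02172 : Good (Phi V5.P V5.D (-1) 1) ⟨6, 34, 4, 6, 3, 7, 4, 15, 5, 0⟩ :=
  leafX_sound T5.ok_mp T5.Ymp.bz_eq (w := 247) (c := ⟨⟨.negSucc 669, .ofNat 10, .ofNat 51, .negSucc 211, .negSucc 125, .negSucc 458⟩, ⟨.negSucc 327, .negSucc 0, .negSucc 62, .negSucc 89, .negSucc 24, .negSucc 42⟩, ⟨.negSucc 1, .negSucc 24, .negSucc 132, .ofNat 53, .negSucc 4, .ofNat 350⟩, ⟨.negSucc 987, .ofNat 50, .ofNat 271, .negSucc 354, .negSucc 279, .negSucc 1128⟩, ⟨.negSucc 2007, .negSucc 72, .negSucc 310, .negSucc 431, .ofNat 45, .ofNat 675⟩, .ofNat 679, .negSucc 607, .ofNat 0,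 .negSucc 607, .ofNat 2707, .ofNat 0, .ofNat 166, .ofNat 128, .negSucc 952, .ofNat 0, .ofNat 95, .negSucc 43, .ofNat 0, .ofNat 0, .ofNat 1112, .ofNat 1047, .ofNat 0, .ofNat 0, .ofNat 111265485889789422488219808275421957455872, .ofNat 0, .ofNat 0, .ofNat 0, .ofNat 0, .ofNat 0, .ofNat 0, .ofNat 0, .ofNat 0, .ofNat 0, .ofNat 0, .ofNat 0, .ofNat 167707097586668655587653204609689870514782208, .ofNat 0⟩)
    (by decide +kernel)
theorem L02173 : Good (Phi V5.P V5.D (-1) 1) ⟨7, 70, 4, 6, 3, 7, 4, 15, 5, 0⟩ :=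
  leafX_sound T5.ok_mp T5.Ymp.bz_eq (w := 251) (c := ⟨⟨.negSucc 658, .ofNat 61, .negSucc 101, .negSucc 141, .negSucc 146, .negSucc 580⟩, ⟨.negSucc 340, .ofNat 3, .negSucc 75, .negSucc 82, .negSucc 18, .negSucc 38⟩, ⟨.negSucc 40, .negSucc 71, .ofNat 36, .negSucc 16, .ofNat 32, .ofNat 486⟩, ⟨.negSucc 954, .ofNat 154, .negSucc 124, .negSucc 184, .negSucc 329, .negSucc 1381⟩, ⟨.negSucc 2087, .negSucc 100, .negSucc 14, .negSucc 540, .ofNat 109, .ofNat 813⟩, .ofNat 647, .negSucc 536, .ofNat 0, .negSucc 536, .ofNat 2590, .ofNat 0, .ofNat 135, .ofNat 128, .negSucc 831, .ofNat 0, .ofNat 99, .negSucc 24, .ofNat 0, .ofNat 0, .ofNat 952, .ofNat 1208, .ofNat 0, .ofNat 0, .ofNat 30002528605344356602404847332629130772480, .ofNat 0, .ofNat 0, .ofNat 0, .ofNat 0, .ofNat 0, .ofNat 0, .ofNat 0, .ofNat 0, .ofNat 0, .ofNat 0, .ofNat 0, .ofNat 34393445829772287223222882309263002324434944, .ofNat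 0⟩)
    (by decide +kernel)
theorem L02174 : Good (Phi V5.P V5.D (-1) 1) ⟨7, 71, 4, 6, 3, 7, 4, 15, 5, 0⟩ :=
  out_sound (S := T5.ds_mp) T5.ok_mp (w := 71) (j := 3) (by decide +kernel)
theorem L02175 : Good (Phi V5.P V5.D (-1) 1) ⟨5, 16, 4, 6, 3, 7, 4, 15, 5, 1⟩ :=
  leafX_sound T5.ok_mp T5.Ymp.bz_eq (w := 243) (c := ⟨⟨.negSucc 1310, .negSucc 84, .negSucc 43, .ofNat 245, .ofNat 97, .negSucc 5⟩, ⟨.negSucc 432, .ofNat 0, .negSucc 70, .negSucc 18, .ofNat 35, .ofNat 29⟩, ⟨.ofNat 479, .ofNat 58, .negSucc 5, .negSucc 326, .negSucc 133, .ofNat 3⟩, ⟨.negSucc 2566, .negSucc 149, .negSucc 5, .ofNat 782, .ofNat 188, .negSucc 109⟩, ⟨.negSucc 1317, .ofNat 49, .negSucc 61, .negSucc 969, .ofNat 93, .ofNat 371⟩, .ofNat 747, .negSucc 749, .ofNat 0, .negSucc 749, .ofNat 2905, .ofNat 0, .ofNat 132, .ofNat 128, .negSucc 481, .ofNat 0, .ofNat 91, .negSucc 44, .ofNat 0, .ofNat 0, .ofNat 586,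 .ofNat 1230, .ofNat 0, .ofNat 0, .ofNat 0, .ofNat 0, .ofNat 0, .ofNat 4535975491519907362269185337750672177482516398080, .ofNat 7893784042568798028115712912185326242365440, .ofNat 0, .ofNat 0, .ofNat 0, .ofNat 0, .ofNat 0, .ofNat 0, .ofNat 10592939508728441076134579386807425502994457690112, .ofNat 83972448760600067377627124739138728243494912, .ofNat 0⟩)
    (by decide +kernel)
theorem L02176 : Good (Phi V5.P V5.D (-1) 1) ⟨5, 17, 4, 6, 3, 7, 4, 15, 5, 1⟩ :=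
  leafX_sound T5.ok_mp T5.Ymp.bz_eq (w := 243) (c := ⟨⟨.negSucc 1388, .negSucc 272, .negSucc 127, .ofNat 394, .ofNat 94, .negSucc 54⟩, ⟨.negSucc 426, .negSucc 10, .negSucc 78, .negSucc 24, .ofNat 37, .ofNat 27⟩, ⟨.ofNat 554, .ofNat 230, .ofNat 75, .negSucc 494, .negSucc 126, .ofNat 33⟩, ⟨.negSucc 2673, .negSucc 615, .negSucc 222, .ofNat 1100, .ofNat 169, .negSucc 210⟩, ⟨.negSucc 1311, .ofNat 374, .ofNat 96, .negSucc 1195, .ofNat 146, .ofNat 414⟩, .ofNat 643, .negSucc 523, .ofNat 0, .negSucc 523, .ofNat 2422, .ofNat 0, .ofNat 215, .ofNat 128, .negSucc 700, .ofNat 0, .ofNat 98, .negSucc 36, .ofNat 0, .ofNat 0, .ofNat 813, .ofNat 1140, .ofNat 0, .ofNat 0, .ofNat 0, .ofNat 0, .ofNat 0, .ofNat 0, .ofNat 108966794916745242845467880068191090487853056, .ofNat 0, .ofNat 0, .ofNat 0, .ofNat 0, .ofNat 0, .ofNat 0, .ofNat 12813610114407209588834772836486858587854864384000, .ofNat 336384524283604913816225977790070916019912704,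 .ofNat 0⟩)
    (by decide +kernel)
theorem L02177 : Good (Phi V5.P V5.D (-1) 1) ⟨5, 16, 4, 7, 3, 7, 4, 15, 5, 0⟩ :=
  leafX_sound T5.ok_mp T5.Ymp.bz_eq (w := 243) (c := ⟨⟨.negSucc 639, .negSucc 31, .ofNat 13, .negSucc 246, .negSucc 49, .negSucc 411⟩, ⟨.negSucc 360, .negSucc 11, .negSucc 55, .negSucc 106, .negSucc 19, .negSucc 65⟩, ⟨.negSucc 98, .negSucc 4, .negSucc 79, .ofNat 86, .negSucc 62, .ofNat 344⟩, ⟨.negSucc 790, .negSucc 27, .ofNat 184, .negSucc 419, .negSucc 87, .negSucc 1083⟩, ⟨.negSucc 2148, .negSucc 89, .negSucc 187, .negSucc 411, .negSucc 71, .ofNat 638⟩, .ofNat 779, .negSucc 796, .ofNat 0, .negSucc 796, .ofNat 2762, .ofNat 0, .ofNat 128, .ofNat 146, .negSucc 799, .ofNat 0, .ofNat 102, .negSucc 85, .ofNat 0, .ofNat 0, .ofNat 970, .ofNat 1211, .ofNat 0, .ofNat 0, .ofNat 383261221973339831547827698343864541642752, .ofNat 0, .ofNat 0, .ofNat 0, .ofNat 60669355093102701416934994871310125807697920,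 .ofNat 0, .ofNat 0, .ofNat 0, .ofNat 0, .ofNat 0, .ofNat 0, .ofNat 0, .ofNat 506119557173914713031454551826327616222134272, .ofNat 0⟩)
    (by decide +kernel)
theorem L02178 : Good (Phi V5.P V5.D (-1) 1) ⟨5, 16, 4, 7, 3, 7, 4, 15, 5, 1⟩ :=
  leafX_sound T5.ok_mp T5.Ymp.bz_eq (w := 243) (c := ⟨⟨.negSucc 1408, .ofNat 11, .ofNat 8, .ofNat 288, .ofNat 186, .ofNat 7⟩, ⟨.negSucc 515, .ofNat 10, .negSucc 65, .negSucc 8, .ofNat 48, .ofNat 36⟩, ⟨.ofNat 526, .negSucc 27, .negSucc 50, .negSucc 377, .negSucc 231, .ofNat 9⟩, ⟨.negSucc 2702, .ofNat 65, .ofNat 102, .ofNat 946, .ofNat 421, .negSucc 118⟩, ⟨.negSucc 1336, .negSucc 35, .negSucc 94, .negSucc 1100, .negSucc 65, .ofNat 439⟩, .ofNat 775, .negSucc 788, .ofNat 0, .negSucc 788, .ofNat 2750, .ofNat 0, .ofNat 129, .ofNat 128, .negSucc 418, .ofNat 0, .ofNat 89, .negSucc 47, .ofNat 0, .ofNat 0, .ofNat 510, .ofNat 1001, .ofNat 0, .ofNat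 0, .ofNat 0, .ofNat 0, .ofNat 0, .ofNat 0, .ofNat 0, .ofNat 0, .ofNat 0, .ofNat 0, .ofNat 0, .ofNat 0, .ofNat 0, .ofNat 0, .ofNat 134007372202822991628635217295082967906910208, .ofNat 0⟩)
    (by decide +kernel)
theorem L02179 : Good (Phi V5.P V5.D (-1) 1) ⟨5, 17, 4, 7, 3, 7, 4, 15, 4, 0⟩ :=
  out_sound (S := T5.ds_mp) T5.ok_mp (w := 59) (j := 3) (by decide +kernel)
theorem L02180 : Good (Phi V5.P V5.D (-1) 1) ⟨4, 9, 3, 3, 3, 7, 4, 15, 4, 0⟩ :=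
  out_sound (S := T5.ds_mp) T5.ok_mp (w := 51) (j := 3) (by decide +kernel)
theorem L02181 : Good (Phi V5.P V5.D (-1) 1) ⟨3, 5, 3, 3, 3, 7, 4, 15, 4, 0⟩ :=
  out_sound (S := T5.ds_mp) T5.ok_mp (w := 45) (j := 3) (by decide +kernel)
theorem L02182 : Good (Phi V5.P V5.D (-1) 1) ⟨4, 8, 3, 3, 3, 6, 3, 7, 5, 2⟩ :=
  leafX_sound T5.ok_mp T5.Ymp.bz_eq (w := 232) (c := ⟨⟨.negSucc 1550, .negSucc 420, .negSucc 258, .ofNat 202, .ofNat 246, .negSucc 83⟩, ⟨.negSucc 480, .ofNat 9, .negSucc 195, .ofNat 24, .ofNat 121, .ofNat 21⟩, ⟨.ofNat 682, .ofNat 388, .ofNat 195, .negSucc 205, .negSucc 218, .ofNat 64⟩, ⟨.negSucc 3157, .negSucc 756, .negSucc 544, .ofNat 488, .ofNat 353, .negSucc 295⟩, ⟨.negSucc 1113, .ofNat 289, .ofNat 198, .negSucc 238, .ofNat 708, .ofNat 483⟩, .ofNat 690, .negSucc 622, .ofNat 0, .negSucc 622, .ofNat 2574, .ofNat 0, .ofNat 128, .ofNat 138, .negSucc 406, .ofNat 0, .ofNat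 105, .negSucc 45, .ofNat 0, .ofNat 0, .ofNat 546, .ofNat 681, .ofNat 0, .ofNat 0, .ofNat 29700200354037262245445113994458580385792, .ofNat 0, .ofNat 0, .ofNat 2152769634120383360267432359846246158027456512, .ofNat 3818550991977546600824761856963908588273664, .ofNat 0, .ofNat 0, .ofNat 0, .ofNat 7233902222832581885344989534126784626294784, .ofNat 0, .ofNat 0, .ofNat 18748218633491487769391025501987598743461953536, .ofNat 16936301670450860270247491881852892084174848, .ofNat 0⟩)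
    (by decide +kernel)
theorem L02183 : Good (Phi V5.P V5.D (-1) 1) ⟨4, 8, 3, 3, 3, 7, 4, 14, 5, 2⟩ :=
  leafX_sound T5.ok_mp T5.Ymp.bz_eq (w := 236) (c := ⟨⟨.negSucc 1512, .negSucc 200, .negSucc 167, .ofNat 468, .ofNat 190, .ofNat 60⟩, ⟨.negSucc 473, .negSucc 0, .negSucc 157, .ofNat 23, .ofNat 63, .ofNat 53⟩, ⟨.ofNat 620, .ofNat 126, .ofNat 78, .negSucc 437, .negSucc 168, .negSucc 23⟩, ⟨.negSucc 3011, .negSucc 342, .negSucc 252, .ofNat 1241, .ofNat 350, .ofNat 48⟩, ⟨.negSucc 1246, .ofNat 79, .ofNat 47, .negSucc 1004, .ofNat 213, .ofNat 368⟩, .ofNat 628, .negSucc 484, .ofNat 0, .negSucc 484, .ofNat 2111, .ofNat 0, .ofNat 150, .ofNat 128, .negSucc 537, .ofNat 0, .ofNat 99, .negSucc 36, .ofNat 0, .ofNat 0, .ofNat 680, .ofNat 872, .ofNat 0, .ofNat 0, .ofNat 0, .ofNat 0, .ofNat 0, .ofNat 0, .ofNat 80952658775468796658333612661300534301425664, .ofNat 0, .ofNat 0, .ofNat 0,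 .ofNat 0, .ofNat 0, .ofNat 0, .ofNat 0, .ofNat 539493933214861841596154227546474134236037120, .ofNat 0⟩)
    (by decide +kernel)
theorem L02184 : Good (Phi V5.P V5.D (-1) 1) ⟨4, 8, 3, 3, 3, 7, 4, 15, 5, 2⟩ :=
  leafX_sound T5.ok_mp T5.Ymp.bz_eq (w := 236) (c := ⟨⟨.negSucc 1566, .negSucc 57, .ofNat 44, .ofNat 600, .ofNat 269, .ofNat 186⟩, ⟨.negSucc 459, .ofNat 23, .negSucc 104, .ofNat 33, .ofNat 76, .ofNat 92⟩, ⟨.ofNat 667, .negSucc 6, .negSucc 116, .negSucc 553, .negSucc 259, .negSucc 109⟩, ⟨.negSucc 3170, .negSucc 13, .ofNat 222, .ofNat 1512, .ofNat 469, .ofNat 294⟩, ⟨.negSucc 989, .negSucc 26, .negSucc 109, .negSucc 1076, .ofNat 297, .ofNat 474⟩, .ofNat 682, .negSucc 605, .ofNat 0, .negSucc 605, .ofNat 2545, .ofNat 0, .ofNat 297, .ofNat 128, .negSucc 684, .ofNat 0, .ofNat 96, .negSucc 47, .ofNat 0, .ofNat 0, .ofNat 870, .ofNat 731, .ofNat 0, .ofNat 0, .ofNat 0, .ofNat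 0, .ofNat 0, .ofNat 0, .ofNat 0, .ofNat 0, .ofNat 0, .ofNat 19750965920155877623775546011822287486472683520, .ofNat 72351981776469652634726470430530401436958720, .ofNat 0, .ofNat 0, .ofNat 196907888509609363973589072961310986925624000512, .ofNat 679591181013299583077148218165193402501562368, .ofNat 0⟩)
    (by decide +kernel)
theorem L02185 : Good (Phi V5.P V5.D (-1) 1) ⟨4, 8, 3, 3, 2, 3, 3, 7, 5, 3⟩ :=
  leafX_sound T5.ok_mp T5.Ymp.bz_eq (w := 218) (c := ⟨⟨.negSucc 1869, .negSucc 229, .negSucc 121, .ofNat 976, .ofNat 385, .ofNat 148⟩, ⟨.negSucc 514, .ofNat 29, .negSucc 135, .ofNat 124, .ofNat 182, .ofNat 71⟩, ⟨.ofNat 925, .ofNat 165, .ofNat 74, .negSucc 813, .negSucc 309, .negSucc 96⟩, ⟨.negSucc 3960, .negSucc 380, .negSucc 185, .ofNat 2369, .ofNat 692, .ofNat 198⟩, ⟨.negSucc 578, .ofNat 216, .ofNat 51, .negSucc 1224, .ofNat 734, .ofNat 445⟩, .ofNat 646, .negSucc 521,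 .ofNat 0, .negSucc 521, .ofNat 2080, .ofNat 0, .ofNat 261, .ofNat 128, .negSucc 321, .ofNat 0, .ofNat 104, .negSucc 22, .ofNat 0, .ofNat 0, .ofNat 466, .ofNat 595, .ofNat 0, .ofNat 0, .ofNat 0, .ofNat 0, .ofNat 0, .ofNat 0, .ofNat 776955992597933175368183790933695791104, .ofNat 0, .ofNat 0, .ofNat 5272761579415140928840759701251430706839552, .ofNat 290764044100588079009332531675288043520, .ofNat 0, .ofNat 0, .ofNat 3986482430895647339381860383969805896515584, .ofNat 780008241444529717596180033258490167296, .ofNat 0⟩)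
    (by decide +kernel)
theorem L02186 : Good (Phi V5.P V5.D (-1) 1) ⟨4, 9, 3, 3, 2, 3, 3, 7, 4, 1⟩ :=
  out_sound (S := T5.ds_mp) T5.ok_mp (w := 51) (j := 3) (by decide +kernel)
theorem L02187 : Good (Phi V5.P V5.D (-1) 1) ⟨3, 5, 3, 3, 2, 3, 3, 7, 4, 1⟩ :=
  out_sound (S := T5.ds_mp) T5.ok_mp (w := 45) (j := 3) (by decide +kernel)
theorem L02188 : Good (Phi V5.P V5.D (-1) 1) ⟨3, 4, 3, 3, 3, 6, 3, 6, 4, 2⟩ :=
  leafX_sound T5.ok_mp T5.Ymp.bz_eq (w := 223) (c := ⟨⟨.negSucc 2031, .negSucc 389, .negSucc 94, .ofNat 317, .ofNat 338, .ofNat 389⟩, ⟨.negSucc 569, .ofNat 83, .negSucc 176, .ofNat 48, .ofNat 136, .ofNat 135⟩, ⟨.ofNat 1082, .ofNat 291, .ofNat 70, .negSucc 310, .negSucc 282, .negSucc 320⟩, ⟨.negSucc 4274, .negSucc 423, .negSucc 168, .ofNat 744, .ofNat 583, .ofNat 726⟩, ⟨.negSucc 758, .ofNat 58, .ofNat 9, .negSucc 292, .ofNat 583, .ofNat 449⟩, .ofNat 575, .negSucc 379,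 .ofNat 0, .negSucc 379, .ofNat 1739, .ofNat 0, .ofNat 204, .ofNat 128, .negSucc 141, .ofNat 0, .ofNat 120, .negSucc 8, .ofNat 0, .ofNat 0, .ofNat 312, .ofNat 922, .ofNat 0, .ofNat 0, .ofNat 5692950925331669387104532716551170686976, .ofNat 0, .ofNat 0, .ofNat 0, .ofNat 1953933965859491448052042825297979821260800, .ofNat 0, .ofNat 0, .ofNat 0, .ofNat 1825664705045189870908220087757017398116352, .ofNat 0, .ofNat 0, .ofNat 49196846428350909531137958110307177870655488, .ofNat 874711594873215844309711444124797620977664, .ofNat 0⟩)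
    (by decide +kernel)
theorem L02189 : Good (Phi V5.P V5.D (-1) 1) ⟨3, 4, 3, 3, 3, 7, 3, 6, 4, 2⟩ :=
  leafX_sound T5.ok_mp T5.Ymp.bz_eq (w := 222) (c := ⟨⟨.negSucc 1785, .ofNat 2, .negSucc 22, .ofNat 507, .ofNat 413, .ofNat 399⟩, ⟨.negSucc 539, .ofNat 61, .negSucc 145, .ofNat 74, .ofNat 161, .ofNat 163⟩, ⟨.ofNat 765, .negSucc 99, .negSucc 18, .negSucc 326, .negSucc 235, .negSucc 195⟩, ⟨.negSucc 3644, .ofNat 285, .ofNat 58, .ofNat 1286, .ofNat 733, .ofNat 694⟩, ⟨.negSucc 1146, .negSucc 256, .negSucc 132, .negSucc 685, .ofNat 668, .ofNat 705⟩, .ofNat 510, .negSucc 271, .ofNat 0, .negSucc 271, .ofNat 1324, .ofNat 0, .ofNat 257, .ofNat 115, .negSucc 181, .ofNat 0, .ofNat 128, .ofNat 13, .ofNat 0, .ofNat 0, .ofNat 431, .ofNat 553, .ofNat 0, .ofNat 0, .ofNat 0, .ofNat 0, .ofNat 0, .ofNat 63855999257885736291678282598215739787706368, .ofNat 968309603201837143138494700790225479663616,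 .ofNat 0, .ofNat 0, .ofNat 0, .ofNat 1099740225724514041203148803127119181774848, .ofNat 0, .ofNat 0, .ofNat 66415684199709896546802380731501415713734656, .ofNat 939874745034140823266069282147210375462912, .ofNat 0⟩)
    (by decide +kernel)
theorem L02190 : Good (Phi V5.P V5.D (-1) 1) ⟨3, 4, 3, 3, 2, 3, 3, 7, 4, 2⟩ :=
  leafX_sound T5.ok_mp T5.Ymp.bz_eq (w := 209) (c := ⟨⟨.negSucc 1872, .ofNat 49, .ofNat 0, .ofNat 1012, .ofNat 599, .ofNat 467⟩, ⟨.negSucc 469, .ofNat 92, .negSucc 95, .ofNat 151, .ofNat 224, .ofNat 176⟩, ⟨.ofNat 889, .negSucc 125, .ofNat 15, .negSucc 688, .negSucc 461, .negSucc 360⟩, ⟨.negSucc 4076, .ofNat 405, .ofNat 54, .ofNat 2427, .ofNat 1132, .ofNat 864⟩, ⟨.negSucc 69, .negSucc 223, .negSucc 5, .negSucc 1066, .ofNat 743, .ofNat 639⟩, .ofNat 571, .negSucc 372, .ofNat 0, .negSucc 372, .ofNat 1733, .ofNat 0, .ofNat 445, .ofNat 128, .negSucc 307, .ofNat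 0, .ofNat 121, .negSucc 4, .ofNat 0, .ofNat 0, .ofNat 647, .ofNat 433, .ofNat 0, .ofNat 0, .ofNat 0, .ofNat 0, .ofNat 0, .ofNat 181510049054065033629965059871508493500416, .ofNat 104007183954936735010755368724474101760, .ofNat 0, .ofNat 0, .ofNat 72214601408219387631690376484370197250048, .ofNat 77155197949947889099577977461211660288, .ofNat 0, .ofNat 0, .ofNat 220942333089341188827256191360296099512320, .ofNat 175698290941802178846975748212533493760, .ofNat 0⟩)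
    (by decide +kernel)
theorem L02191 : Good (Phi V5.P V5.D (-1) 1) ⟨4, 8, 3, 3, 2, 3, 2, 3, 4, 3⟩ :=
  leafX_sound T5.ok_mp T5.Ymp.bz_eq (w := 208) (c := ⟨⟨.negSucc 1810, .ofNat 26, .ofNat 45, .ofNat 864, .ofNat 778, .ofNat 383⟩, ⟨.negSucc 464, .ofNat 67, .negSucc 101, .ofNat 150, .ofNat 295, .ofNat 119⟩, ⟨.ofNat 802, .ofNat 24, .ofNat 29, .negSucc 514, .negSucc 642, .negSucc 320⟩, ⟨.negSucc 3857, .ofNat 226, .ofNat 159, .ofNat 1941, .ofNat 1298, .ofNat 689⟩, ⟨.negSucc 336, .negSucc 53, .negSucc 108, .negSucc 486, .ofNat 1400, .ofNat 467⟩, .ofNat 574, .negSucc 378, .ofNat 0, .negSucc 378, .ofNat 1739, .ofNat 0, .ofNat 328, .ofNat 119, .negSucc 96, .ofNat 0, .ofNat 128, .ofNat 3, .ofNat 0, .ofNat 0, .ofNat 458, .ofNat 183, .ofNat 0, .ofNat 0, .ofNat 0, .ofNat 0, .ofNat 0, .ofNat 433134832495941839941181082642223734980608, .ofNat 0, .ofNat 0, .ofNat 0, .ofNat 421434882363523789767928937468762068615168,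 .ofNat 0, .ofNat 0, .ofNat 0, .ofNat 715878776668216736019663430281266951356416, .ofNat 807054418478895116383506073351356416, .ofNat 0⟩)
    (by decide +kernel)
theorem L02192 : Good (Phi V5.P V5.D (-1) 1) ⟨4, 9, 3, 3, 2, 3, 2, 3, 4, 3⟩ :=
  out_sound (S := T5.ds_mp) T5.ok_mp (w := 51) (j := 3) (by decide +kernel)
theorem L02193 : Good (Phi V5.P V5.D (-1) 1) ⟨3, 5, 3, 3, 2, 3, 2, 3, 3, 1⟩ :=
  out_sound (S := T5.ds_mp) T5.ok_mp (w := 45) (j := 3) (by decide +kernel)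
theorem L02194 : Good (Phi V5.P V5.D (-1) 1) ⟨2, 3, 3, 3, 2, 3, 2, 3, 2, 0⟩ :=
  out_sound (S := T5.ds_mp) T5.ok_mp (w := 39) (j := 3) (by decide +kernel)
theorem L02195 : Good (Phi V5.P V5.D (-1) 1) ⟨3, 4, 2, 1, 2, 2, 2, 2, 4, 4⟩ :=
  leafX_sound T5.ok_mp T5.Ymp.bz_eq (w := 202) (c := ⟨⟨.negSucc 1875, .negSucc 284, .negSucc 24, .ofNat 146, .ofNat 308, .ofNat 275⟩, ⟨.negSucc 338, .ofNat 147, .negSucc 325, .ofNat 3, .ofNat 87, .ofNat 51⟩, ⟨.ofNat 1495, .ofNat 246, .ofNat 65, .negSucc 502, .negSucc 578, .negSucc 204⟩, ⟨.negSucc 4041, .negSucc 136, .negSucc 11, .ofNat 334, .ofNat 582, .ofNat 551⟩, ⟨.negSucc 474, .ofNat 34, .ofNat 4, .negSucc 182, .ofNat 402, .ofNat 119⟩, .ofNat 458, .negSucc 152, .ofNat 0, .negSucc 152, .ofNat 1275, .ofNat 0, .ofNat 315, .ofNat 65, .negSucc 89, .ofNat 0, .ofNat 128, .ofNat 0, .ofNat 0, .ofNat 0, .ofNat 584, .ofNat 1327, .ofNat 0, .ofNat 0,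 .ofNat 0, .ofNat 0, .ofNat 0, .ofNat 0, .ofNat 0, .ofNat 0, .ofNat 0, .ofNat 5942308545875070535993423560870966853632, .ofNat 6142315809552762304730059964772515840, .ofNat 0, .ofNat 0, .ofNat 6339369947753399444575296579671542464512, .ofNat 2505917739237532007399673725504716800, .ofNat 0⟩)
    (by decide +kernel)
theorem L02196 : Good (Phi V5.P V5.D (-1) 1) ⟨3, 4, 2, 1, 2, 3, 2, 2, 4, 4⟩ :=
  leafX_sound T5.ok_mp T5.Ymp.bz_eq (w := 200) (c := ⟨⟨.negSucc 1782, .negSucc 91, .negSucc 19, .ofNat 605, .ofNat 395, .ofNat 289⟩, ⟨.negSucc 341, .ofNat 103, .negSucc 272, .ofNat 58, .ofNat 136, .ofNat 74⟩, ⟨.ofNat 1058, .negSucc 12, .ofNat 73, .negSucc 682, .negSucc 562, .negSucc 285⟩, ⟨.negSucc 3759, .ofNat 137, .ofNat 89, .ofNat 1328, .ofNat 699, .ofNat 547⟩, ⟨.negSucc 783, .negSucc 42, .negSucc 75, .negSucc 391, .ofNat 792, .ofNat 317⟩, .ofNat 332, .negSucc 57, .ofNat 0, .negSucc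 57, .ofNat 633, .ofNat 0, .ofNat 169, .ofNat 27, .negSucc 34, .ofNat 0, .ofNat 128, .ofNat 13, .ofNat 0, .ofNat 0, .ofNat 333, .ofNat 233, .ofNat 0, .ofNat 0, .ofNat 0, .ofNat 0, .ofNat 0, .ofNat 1662061159074848071635845157200255254528, .ofNat 570711383021246163860903308491227136, .ofNat 0, .ofNat 0, .ofNat 2961135273273308108969494360786512904192, .ofNat 0, .ofNat 0, .ofNat 0, .ofNat 2625132794439457817541863486557700227072, .ofNat 693531548248446930985603420158689280, .ofNat 0⟩)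
    (by decide +kernel)
theorem L02197 : Good (Phi V5.P V5.D (-1) 1) ⟨3, 4, 2, 1, 1, 1, 2, 3, 4, 4⟩ :=
  leafX_sound T5.ok_mp T5.Ymp.bz_eq (w := 187) (c := ⟨⟨.negSucc 1571, .negSucc 147, .ofNat 10, .ofNat 369, .ofNat 556, .ofNat 204⟩, ⟨.negSucc 279, .ofNat 146, .negSucc 243, .ofNat 106, .ofNat 183, .ofNat 58⟩, ⟨.ofNat 1011, .ofNat 27, .negSucc 40, .negSucc 999, .negSucc 837, .negSucc 235⟩, ⟨.negSucc 3416, .ofNat 101, .negSucc 2, .ofNat 695, .ofNat 1006, .ofNat 393⟩, ⟨.negSucc 194, .ofNat 60, .ofNat 35, .ofNat 413, .ofNat 901, .ofNat 178⟩, .ofNat 459, .negSucc 157, .ofNat 0, .negSucc 157, .ofNat 1261, .ofNat 0, .ofNat 418, .ofNat 69, .negSucc 91, .ofNat 0, .ofNat 128, .negSucc 3, .ofNat 0, .ofNat 0, .ofNat 613, .ofNat 407, .ofNat 0, .ofNat 0, .ofNat 0, .ofNat 0, .ofNat 0, .ofNat 2900544306650067768067816814031142912, .ofNat 0, .ofNat 0, .ofNat 0, .ofNat 1725700847859862161015497583247753216,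 .ofNat 0, .ofNat 0, .ofNat 0, .ofNat 3133184006584601300948085423848030208, .ofNat 81254087209918244268520459206656, .ofNat 0⟩)
    (by decide +kernel)
theorem L02198 : Good (Phi V5.P V5.D (-1) 1) ⟨3, 4, 2, 1, 2, 2, 2, 2, 4, 5⟩ :=
  leafX_sound T5.ok_mp T5.Ymp.bz_eq (w := 201) (c := ⟨⟨.negSucc 1664, .negSucc 204, .negSucc 1, .ofNat 212, .ofNat 259, .ofNat 214⟩, ⟨.negSucc 309, .ofNat 143, .negSucc 269, .ofNat 30, .ofNat 84, .ofNat 49⟩, ⟨.ofNat 1456, .ofNat 95, .negSucc 11, .negSucc 634, .negSucc 677, .negSucc 215⟩, ⟨.negSucc 3584, .negSucc 26, .ofNat 20, .ofNat 448, .ofNat 484, .ofNat 423⟩, ⟨.negSucc 413, .ofNat 48, .ofNat 26, .negSucc 55, .ofNat 395, .ofNat 127⟩, .ofNat 334, .negSucc 60, .ofNat 0, .negSucc 60, .ofNat 636, .ofNat 0, .ofNat 281, .ofNat 34, .negSucc 37, .ofNat 0, .ofNat 128, .ofNat 2, .ofNat 0, .ofNat 0, .ofNat 508, .ofNat 671, .ofNat 0, .ofNat 0, .ofNat 0,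 .ofNat 0, .ofNat 0, .ofNat 0, .ofNat 0, .ofNat 0, .ofNat 0, .ofNat 0, .ofNat 0, .ofNat 0, .ofNat 0, .ofNat 5433121598032819216205562646335923945472, .ofNat 973264327460757617405437802908221440, .ofNat 0⟩)
    (by decide +kernel)
theorem L02199 : Good (Phi V5.P V5.D (-1) 1) ⟨3, 4, 2, 1, 2, 3, 2, 2, 4, 5⟩ :=
  leafX_sound T5.ok_mp T5.Ymp.bz_eq (w := 202) (c := ⟨⟨.negSucc 1452, .negSucc 119, .negSucc 8, .ofNat 465, .ofNat 287, .ofNat 234⟩, ⟨.negSucc 270, .ofNat 116, .negSucc 257, .ofNat 46, .ofNat 100, .ofNat 56⟩, ⟨.ofNat 811, .negSucc 8, .ofNat 87, .negSucc 839, .negSucc 668, .negSucc 278⟩, ⟨.negSucc 3115, .ofNat 110, .ofNat 64, .ofNat 967, .ofNat 495, .ofNat 444⟩, ⟨.negSucc 529, .negSucc 11, .negSucc 10, .negSucc 105, .ofNat 656, .ofNat 252⟩, .ofNat 334, .negSucc 60, .ofNat 0, .negSucc 60, .ofNat 636, .ofNat 0, .ofNat 203, .ofNat 29, .negSucc 27, .ofNat 0, .ofNat 128, .ofNat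 10, .ofNat 0, .ofNat 0, .ofNat 548, .ofNat 1750, .ofNat 0, .ofNat 0, .ofNat 0, .ofNat 0, .ofNat 0, .ofNat 21581780822820781892275620057568069550080, .ofNat 1944422287804638079703028573549887488, .ofNat 0, .ofNat 0, .ofNat 12559298669456019913115614024190033657856, .ofNat 0, .ofNat 0, .ofNat 0, .ofNat 14022289028009517832442899376778208346112, .ofNat 2868126774738582144778182200611831808, .ofNat 0⟩)
    (by decide +kernel)
theorem L02200 : Good (Phi V5.P V5.D (-1) 1) ⟨3, 4, 2, 1, 1, 1, 2, 3, 4, 5⟩ :=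
  leafX_sound T5.ok_mp T5.Ymp.bz_eq (w := 187) (c := ⟨⟨.negSucc 1376, .negSucc 118, .ofNat 38, .ofNat 284, .ofNat 456, .ofNat 146⟩, ⟨.negSucc 230, .ofNat 143, .negSucc 217, .ofNat 105, .ofNat 158, .ofNat 36⟩, ⟨.ofNat 816, .negSucc 22, .negSucc 94, .negSucc 1066, .negSucc 820, .negSucc 229⟩, ⟨.negSucc 3024, .ofNat 134, .ofNat 51, .ofNat 468, .ofNat 804, .ofNat 283⟩, ⟨.negSucc 34, .ofNat 63, .ofNat 19, .ofNat 654, .ofNat 862, .ofNat 140⟩, .ofNat 332, .negSucc 56, .ofNat 0, .negSucc 56, .ofNat 634, .ofNat 0, .ofNat 352, .ofNat 36, .negSucc 63, .ofNat 0, .ofNat 128, .negSucc 7, .ofNat 0, .ofNat 0, .ofNat 637, .ofNat 847, .ofNat 0, .ofNat 0, .ofNat 0, .ofNat 0, .ofNat 0, .ofNat 6293663708887110367441246270437457920, .ofNat 142783091723485475425661631856640, .ofNat 0, .ofNat 0, .ofNat 3040642729288776441132029079367712768, .ofNat 0, .ofNat 0, .ofNat 0, .ofNat 6402121306889927129247027457133903872,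 .ofNat 86807886387829876300868902453248, .ofNat 0⟩)
    (by decide +kernel)
theorem L02201 : Good (Phi V5.P V5.D (-1) 1) ⟨3, 5, 2, 1, 1, 1, 1, 1, 3, 2⟩ :=
  out_sound (S := T5.ds_mp) T5.ok_mp (w := 43) (j := 3) (by decide +kernel)
theorem L02202 : Good (Phi V5.P V5.D (-1) 1) ⟨3, 4, 2, 1, 2, 2, 1, 1, 3, 3⟩ :=
  leafX_sound T5.ok_mp T5.Ymp.bz_eq (w := 192) (c := ⟨⟨.negSucc 1454, .negSucc 157, .negSucc 8, .ofNat 180, .ofNat 444, .ofNat 279⟩, ⟨.negSucc 258, .ofNat 125, .negSucc 248, .ofNat 29, .ofNat 150, .ofNat 60⟩, ⟨.ofNat 1260, .ofNat 85, .negSucc 8, .negSucc 633, .negSucc 1431, .negSucc 385⟩, ⟨.negSucc 3160, .ofNat 55, .ofNat 8, .ofNat 378, .ofNat 798, .ofNat 546⟩, ⟨.negSucc 288, .negSucc 1, .ofNat 7, .ofNat 9, .ofNat 783, .ofNat 182⟩, .ofNat 461, .negSucc 161, .ofNat 0, .negSucc 161, .ofNat 1270, .ofNat 0, .ofNat 183, .ofNat 62, .negSucc 20, .ofNat 0, .ofNat 128, .negSucc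 3, .ofNat 0, .ofNat 0, .ofNat 713, .ofNat 360, .ofNat 17716740747799529007753005666148548608, .ofNat 0, .ofNat 0, .ofNat 0, .ofNat 0, .ofNat 315545135118276693371719103945547710464, .ofNat 0, .ofNat 0, .ofNat 0, .ofNat 264094422902451291200900218735388786688, .ofNat 0, .ofNat 0, .ofNat 0, .ofNat 647998424787266336241887997058590179328, .ofNat 2467959428086328123232712313012224, .ofNat 0⟩)
    (by decide +kernel)
theorem L02203 : Good (Phi V5.P V5.D (-1) 1) ⟨3, 5, 2, 1, 2, 2, 1, 1, 3, 3⟩ :=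
  out_sound (S := T5.ds_mp) T5.ok_mp (w := 43) (j := 3) (by decide +kernel)
theorem L02204 : Good (Phi V5.P V5.D (-1) 1) ⟨2, 2, 2, 1, 2, 3, 1, 1, 3, 3⟩ :=
  out_sound (S := T5.ds_mp) T5.ok_mp (w := 26) (j := 2) (by decide +kernel)
theorem L02205 : Good (Phi V5.P V5.D (-1) 1) ⟨2, 3, 2, 1, 1, 1, 1, 1, 2, 1⟩ :=
  out_sound (S := T5.ds_mp) T5.ok_mp (w := 37) (j := 3) (by decide +kernel)
theorem L02206 : Good (Phi V5.P V5.D (-1) 1) ⟨2, 2, 2, 1, 4, 8, 3, 4, 4, 8⟩ :=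
  out_sound (S := T5.ds_mp) T5.ok_mp (w := 29) (j := 1) (by decide +kernel)
theorem L02207 : Good (Phi V5.P V5.D (-1) 1) ⟨2, 2, 2, 1, 4, 8, 3, 5, 4, 8⟩ :=
  out_sound (S := T5.ds_mp) T5.ok_mp (w := 36) (j := 2) (by decide +kernel)
theorem L02208 : Good (Phi V5.P V5.D (-1) 1) ⟨2, 2, 2, 1, 4, 8, 2, 2, 4, 9⟩ :=
  out_sound (S := T5.ds_mp) T5.ok_mp (w := 28) (j := 1) (by decide +kernel)
theorem L02209 : Good (Phi V5.P V5.D (-1) 1) ⟨2, 2, 2, 1, 4, 9, 2, 2, 3, 4⟩ :=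
  out_sound (S := T5.ds_mp) T5.ok_mp (w := 32) (j := 2) (by decide +kernel)
theorem L02210 : Good (Phi V5.P V5.D (-1) 1) ⟨2, 3, 2, 1, 3, 4, 2, 2, 3, 4⟩ :=
  out_sound (S := T5.ds_mp) T5.ok_mp (w := 37) (j := 3) (by decide +kernel)
theorem L02211 : Good (Phi V5.P V5.D (-1) 1) ⟨1, 1, 2, 1, 3, 4, 2, 3, 3, 4⟩ :=
  out_sound (S := T5.ds_mp) T5.ok_mp (w := 30) (j := 2) (by decide +kernel)
theorem L02212 : Good (Phi V5.P V5.D (-1) 1) ⟨1, 1, 2, 1, 3, 4, 1, 1, 3, 5⟩ :=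
  out_sound (S := T5.ds_mp) T5.ok_mp (w := 28) (j := 2) (by decide +kernel)
theorem L02213 : Good (Phi V5.P V5.D (-1) 1) ⟨1, 1, 2, 1, 3, 5, 1, 1, 2, 2⟩ :=
  out_sound (S := T5.ds_mp) T5.ok_mp (w := 26) (j := 2) (by decide +kernel)
theorem L02214 : Good (Phi V5.P V5.D (-1) 1) ⟨1, 1, 2, 1, 2, 2, 1, 1, 2, 3⟩ :=
  out_sound (S := T5.ds_mp) T5.ok_mp (w := 24) (j := 2) (by decide +kernel)
theorem L02215 : Good (Phi V5.P V5.D (-1) 1) ⟨1, 1, 2, 1, 2, 3, 1, 1, 1, 1⟩ :=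
  out_sound (S := T5.ds_mp) T5.ok_mp (w := 22) (j := 2) (by decide +kernel)
theorem L02216 : Good (Phi V5.P V5.D (-1) 1) ⟨1, 1, 1, 1, 0, 0, 0, 0, 0, 0⟩ :=
  out_sound (S := T5.ds_mp) T5.ok_mp (w := 29) (j := 3) (by decide +kernel)

end Crest.Agent.R097C5.N5mp
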