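import Crest.Agent.R097C5.N5mp_g0
import Crest.Agent.R097C5.N5mp_016
import Crest.Agent.R097C5.N5mp_017
import Crest.Agent.R097C5.N5mp_018
import Crest.Agent.R097C5.N5mp_019

/-!
# Row 97, box cover in dimension n = 5 (generated)
-/

set_option autoImplicit false
set_option Elab.async false
set_option maxHeartbeats 0
set_option maxRecDepth 100000

open Crest.Agent.R097 Crest.Agent.R097.KA


namespace Crest.Agent.R097C5.N5mp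

theorem g00250 : Good (Phi V5.P V5.D (-1) 1) ⟨3, 5, 3, 0, 2, 3, 2, 3, 5, 2⟩ :=
  Good.n0 (Good.n3 (Good.n2 L01757 L01758) (Good.n3 L01759 L01760)) (Good.n2 (Good.n3 (Good.n0 L01761 L01762) L01763) (Good.n3 L01764 L01765))
theorem g00251 : Good (Phi V5.P V5.D (-1) 1) ⟨2, 2, 3, 0, 2, 3, 2, 3, 4, 1⟩ :=
  Good.n0 (Good.n3 (Good.n4 L01754 L01755) L01756) (Good.n4 g00250 (Good.n0 (Good.n3 L01766 L01767) (Good.n2 L01768 L01769)))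
theorem g00252 : Good (Phi V5.P V5.D (-1) 1) ⟨1, 1, 3, 0, 2, 3, 2, 3, 3, 1⟩ :=
  Good.n0 (Good.n4 (Good.n0 (Good.n3 L01771 L01772) (Good.n0 L01773 L01774)) (Good.n2 L01775 L01776)) L01777
theorem g00253 : Good (Phi V5.P V5.D (-1) 1) ⟨3, 5, 3, 1, 1, 1, 2, 2, 4, 0⟩ :=
  Good.n2 (Good.n0 L01782 L01783) (Good.n2 (Good.n0 (Good.n4 L01784 L01785) L01786) (Good.n0 (Good.n4 L01787 L01788) L01789))
theorem g00254 : Good (Phi V5.P V5.D (-1) 1) ⟨4, 10, 3, 1, 2, 3, 2, 2, 4, 1⟩ :=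
  Good.n2 (Good.n4 L01800 (Good.n0 L01801 L01802)) (Good.n4 (Good.n3 L01803 L01804) (Good.n3 L01805 L01806))
theorem g00255 : Good (Phi V5.P V5.D (-1) 1) ⟨2, 2, 3, 1, 1, 1, 2, 2, 4, 1⟩ :=
  Good.n0 (Good.n2 L01791 (Good.n4 (Good.n3 L01792 (Good.n2 L01793 L01794)) (Good.n3 L01795 L01796))) (Good.n2 (Good.n0 (Good.n3 L01797 L01798) L01799) (Good.n0 g00254 L01807))
theorem g00256 : Good (Phi V5.P V5.D (-1) 1) ⟨1, 1, 3, 1, 1, 1, 2, 2, 3, 0⟩ :=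
  Good.n4 (Good.n0 (Good.n0 (Good.n2 L01778 (Good.n0 L01779 (Good.n4 L01780 L01781))) g00253) L01790) (Good.n0 g00255 L01808)
theorem g00257 : Good (Phi V5.P V5.D (-1) 1) ⟨3, 4, 3, 1, 2, 3, 3, 6, 4, 0⟩ :=
  Good.n3 (Good.n2 L01811 (Good.n4 L01812 L01813)) (Good.n2 (Good.n4 L01814 L01815) (Good.n4 L01816 L01817))
theorem g00258 : Good (Phi V5.P V5.D (-1) 1) ⟨4, 10, 3, 1, 2, 3, 3, 6, 4, 0⟩ :=
  Good.n2 (Good.n0 (Good.n4 L01818 L01819) L01820) (Good.n1 (Good.n4 (Good.n0 L01821 L01822) L01823) (Good.n4 (Good.n3 L01824 L01825) L01826))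
theorem g00259 : Good (Phi V5.P V5.D (-1) 1) ⟨2, 2, 3, 1, 2, 3, 4, 14, 5, 0⟩ :=
  Good.n0 (Good.n0 L01832 (Good.n2 L01833 L01834)) (Good.n0 (Good.n2 L01835 (Good.n0 L01836 L01837)) L01838)
theorem g00260 : Good (Phi V5.P V5.D (-1) 1) ⟨2, 2, 3, 1, 2, 3, 4, 14, 4, 0⟩ :=
  Good.n4 g00259 (Good.n0 (Good.n2 L01839 L01840) (Good.n0 (Good.n2 (Good.n0 L01841 L01842) L01843) L01844))
theorem g00261 : Good (Phi V5.P V5.D (-1) 1) ⟨2, 2, 3, 1, 2, 3, 4, 15, 5, 0⟩ :=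
  Good.n2 (Good.n0 (Good.n0 L01845 L01846) (Good.n0 (Good.n0 L01847 L01848) L01849)) (Good.n0 (Good.n0 L01850 L01851) (Good.n0 (Good.n2 L01852 L01853) L01854))
theorem g00262 : Good (Phi V5.P V5.D (-1) 1) ⟨2, 2, 3, 1, 2, 3, 4, 15, 5, 1⟩ :=
  Good.n0 (Good.n2 (Good.n3 L01855 L01856) (Good.n0 L01857 L01858)) (Good.n0 (Good.n2 (Good.n0 (Good.n1 L01859 L01860) L01861) (Good.n2 L01862 L01863)) L01864)
theorem g00263 : Good (Phi V5.P V5.D (-1) 1) ⟨2, 2, 3, 1, 1, 1, 3, 7, 4, 0⟩ :=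
  Good.n2 (Good.n0 (Good.n0 L01828 L01829) (Good.n0 L01830 L01831)) (Good.n3 g00260 (Good.n4 g00261 g00262))
theorem g00264 : Good (Phi V5.P V5.D (-1) 1) ⟨1, 1, 3, 1, 1, 1, 2, 3, 4, 0⟩ :=
  Good.n0 (Good.n3 (Good.n2 (Good.n0 L01809 L01810) (Good.n0 g00257 (Good.n0 g00258 L01827))) g00263) L01865
theorem g00265 : Good (Phi V5.P V5.D (-1) 1) ⟨3, 5, 3, 1, 2, 3, 3, 6, 4, 1⟩ :=
  Good.n2 (Good.n0 (Good.n4 (Good.n0 L01873 L01874) L01875) L01876) (Good.n4 (Good.n0 L01877 L01878) L01879)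
theorem g00266 : Good (Phi V5.P V5.D (-1) 1) ⟨2, 2, 3, 1, 1, 1, 3, 6, 4, 1⟩ :=
  Good.n2 (Good.n0 (Good.n4 L01866 L01867) (Good.n0 L01868 L01869)) (Good.n0 (Good.n4 (Good.n3 L01870 L01871) L01872) g00265)
theorem g00267 : Good (Phi V5.P V5.D (-1) 1) ⟨3, 5, 3, 1, 1, 1, 3, 7, 5, 2⟩ :=
  Good.n2 (Good.n0 (Good.n3 L01884 L01885) L01886) (Good.n2 (Good.n0 (Good.n0 L01887 L01888) L01889) L01890)
theorem g00268 : Good (Phi V5.P V5.D (-1) 1) ⟨2, 2, 3, 1, 1, 1, 3, 7, 4, 1⟩ :=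
  Good.n4 (Good.n0 (Good.n2 L01880 (Good.n0 L01881 (Good.n2 L01882 L01883))) g00267) (Good.n0 (Good.n2 L01891 (Good.n2 L01892 L01893)) (Good.n2 L01894 L01895))
theorem g00269 : Good (Phi V5.P V5.D (-1) 1) ⟨2, 2, 3, 1, 2, 2, 1, 1, 3, 1⟩ :=
  Good.n0 (Good.n3 (Good.n4 L01897 L01898) (Good.n3 L01899 L01900)) (Good.n4 (Good.n0 (Good.n3 L01901 L01902) L01903) (Good.n3 L01904 L01905))
theorem g00270 : Good (Phi V5.P V5.D (-1) 1) ⟨3, 5, 3, 1, 2, 3, 1, 1, 4, 2⟩ :=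
  Good.n3 (Good.n3 (Good.n4 (Good.n0 L01910 L01911) L01912) (Good.n0 L01913 L01914)) (Good.n2 L01915 L01916)
theorem g00271 : Good (Phi V5.P V5.D (-1) 1) ⟨2, 2, 3, 1, 2, 3, 1, 1, 4, 3⟩ :=
  Good.n3 (Good.n0 (Good.n3 L01917 (Good.n2 L01918 L01919)) (Good.n2 L01920 L01921)) (Good.n0 L01922 L01923)
theorem g00272 : Good (Phi V5.P V5.D (-1) 1) ⟨2, 2, 3, 1, 1, 1, 1, 1, 3, 1⟩ :=
  Good.n2 g00269 (Good.n4 (Good.n0 (Good.n3 (Good.n3 L01906 L01907) (Good.n3 L01908 L01909)) g00270) g00271)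
theorem g00273 : Good (Phi V5.P V5.D (-1) 1) ⟨1, 1, 3, 1, 1, 1, 1, 1, 2, 0⟩ :=
  Good.n4 (Good.n3 g00256 (Good.n4 g00264 (Good.n0 (Good.n3 g00266 g00268) L01896))) (Good.n0 g00272 L01924)
theorem g00274 : Good (Phi V5.P V5.D (-1) 1) ⟨1, 1, 2, 0, 1, 1, 1, 1, 2, 0⟩ :=
  Good.n1 (Good.n2 g00237 (Good.n3 g00243 (Good.n4 (Good.n4 g00249 (Good.n0 g00251 L01770)) g00252))) g00273
theorem g00275 : Good (Phi V5.P V5.D (-1) 1) ⟨2, 2, 2, 0, 1, 1, 2, 2, 3, 2⟩ :=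
  Good.n4 (Good.n0 (Good.n2 L01925 (Good.n4 L01926 L01927)) (Good.n2 L01928 (Good.n4 L01929 L01930))) (Good.n2 L01931 L01932)
theorem g00276 : Good (Phi V5.P V5.D (-1) 1) ⟨2, 2, 2, 0, 1, 1, 1, 1, 2, 1⟩ :=
  Good.n4 (Good.n3 g00275 (Good.n4 (Good.n3 L01933 L01934) L01935)) (Good.n2 (Good.n3 (Good.n4 L01936 L01937) L01938) L01939)
theorem g00277 : Good (Phi V5.P V5.D (-1) 1) ⟨1, 1, 2, 0, 3, 4, 1, 1, 2, 2⟩ :=
  Good.n4 (Good.n3 (Good.n2 (Good.n4 (Good.n0 (Good.n3 L01941 L01942) L01943) L01944) L01945) L01946) L01947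
theorem g00278 : Good (Phi V5.P V5.D (-1) 1) ⟨1, 1, 2, 0, 1, 1, 1, 1, 0, 0⟩ :=
  Good.n4 (Good.n4 g00274 (Good.n0 g00276 L01940)) (Good.n2 (Good.n4 (Good.n2 g00277 L01948) L01949) L01950)
theorem g00279 : Good (Phi V5.P V5.D (-1) 1) ⟨3, 4, 2, 1, 2, 2, 2, 3, 4, 1⟩ :=
  Good.n3 (Good.n0 L01960 L01961) (Good.n0 (Good.n3 L01962 L01963) (Good.n1 (Good.n3 L01964 L01965) L01966))
theorem g00280 : Good (Phi V5.P V5.D (-1) 1) ⟨3, 4, 2, 1, 2, 2, 1, 1, 3, 0⟩ :=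
  Good.n3 (Good.n4 (Good.n0 L01951 L01952) (Good.n4 L01953 L01954)) (Good.n4 (Good.n3 (Good.n4 L01955 L01956) (Good.n3 L01957 (Good.n0 L01958 L01959))) g00279)
theorem g00281 : Good (Phi V5.P V5.D (-1) 1) ⟨2, 2, 2, 1, 2, 2, 1, 1, 3, 1⟩ :=
  Good.n0 (Good.n3 (Good.n4 (Good.n3 L01969 L01970) L01971) (Good.n4 (Good.n3 L01972 L01973) L01974)) L01975
theorem g00282 : Good (Phi V5.P V5.D (-1) 1) ⟨3, 4, 2, 1, 3, 7, 2, 2, 4, 0⟩ :=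
  Good.n4 (Good.n0 (Good.n1 L01980 L01981) (Good.n1 L01982 L01983)) (Good.n0 (Good.n1 L01984 L01985) (Good.n1 L01986 L01987))
theorem g00283 : Good (Phi V5.P V5.D (-1) 1) ⟨3, 4, 2, 1, 2, 3, 3, 4, 4, 1⟩ :=
  Good.n0 (Good.n4 L01990 (Good.n1 L01991 L01992)) (Good.n4 (Good.n2 L01993 L01994) (Good.n1 (Good.n2 L01995 L01996) L01997))
theorem g00284 : Good (Phi V5.P V5.D (-1) 1) ⟨3, 4, 2, 1, 2, 3, 3, 5, 4, 1⟩ :=
  Good.n0 (Good.n4 (Good.n1 L01999 (Good.n2 L02000 L02001)) (Good.n1 L02002 (Good.n3 L02003 L02004))) (Good.n4 (Good.n1 (Good.n4 L02005 L02006) L02007) (Good.n1 (Good.n0 L02008 L02009) L02010))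
theorem g00285 : Good (Phi V5.P V5.D (-1) 1) ⟨1, 1, 2, 1, 2, 3, 2, 2, 3, 0⟩ :=
  Good.n4 (Good.n0 (Good.n0 (Good.n2 (Good.n0 L01977 (Good.n1 L01978 L01979)) g00282) L01988) L01989) (Good.n0 (Good.n3 (Good.n0 g00283 L01998) (Good.n0 g00284 L02011)) L02012)
theorem g00286 : Good (Phi V5.P V5.D (-1) 1) ⟨3, 4, 2, 1, 2, 3, 2, 2, 5, 4⟩ :=
  Good.n0 (Good.n3 (Good.n2 L02013 (Good.n1 L02014 L02015)) (Good.n2 L02016 L02017)) (Good.n1 (Good.n3 L02018 L02019) L02020)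
theorem g00287 : Good (Phi V5.P V5.D (-1) 1) ⟨3, 4, 2, 1, 2, 3, 2, 2, 3, 1⟩ :=
  Good.n4 (Good.n4 g00286 (Good.n3 (Good.n0 L02021 L02022) (Good.n2 L02023 L02024))) (Good.n2 L02025 (Good.n3 L02026 L02027))
theorem g00288 : Good (Phi V5.P V5.D (-1) 1) ⟨4, 9, 3, 2, 3, 7, 3, 6, 5, 0⟩ :=
  Good.n2 (Good.n0 (Good.n3 L02034 L02035) (Good.n1 L02036 L02037)) (Good.n1 L02038 (Good.n0 L02039 L02040))
theorem g00289 : Good (Phi V5.P V5.D (-1) 1) ⟨1, 1, 3, 2, 2, 3, 3, 6, 5, 0⟩ :=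
  Good.n0 (Good.n0 (Good.n0 (Good.n2 L02030 L02031) (Good.n2 (Good.n3 L02032 L02033) g00288)) L02041) L02042
theorem g00290 : Good (Phi V5.P V5.D (-1) 1) ⟨2, 2, 3, 2, 2, 3, 3, 6, 5, 1⟩ :=
  Good.n0 (Good.n0 (Good.n3 L02043 L02044) (Good.n2 L02045 (Good.n4 (Good.n0 L02046 L02047) L02048))) L02049
theorem g00291 : Good (Phi V5.P V5.D (-1) 1) ⟨3, 4, 3, 2, 2, 3, 3, 6, 4, 1⟩ :=
  Good.n0 (Good.n4 L02051 L02052) (Good.n4 (Good.n2 (Good.n3 L02053 L02054) (Good.n3 L02055 L02056)) (Good.n2 L02057 L02058))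
theorem g00292 : Good (Phi V5.P V5.D (-1) 1) ⟨3, 4, 4, 4, 2, 3, 3, 7, 5, 0⟩ :=
  Good.n0 (Good.n3 L02061 L02062) (Good.n2 (Good.n0 L02063 L02064) (Good.n0 (Good.n3 L02065 L02066) (Good.n3 L02067 L02068)))
theorem g00293 : Good (Phi V5.P V5.D (-1) 1) ⟨3, 4, 4, 4, 2, 3, 3, 7, 5, 1⟩ :=
  Good.n0 (Good.n3 L02070 L02071) (Good.n2 (Good.n3 L02072 (Good.n0 L02073 L02074)) (Good.n0 L02075 (Good.n3 L02076 L02077)))
theorem g00294 : Good (Phi V5.P V5.D (-1) 1) ⟨3, 4, 4, 5, 2, 3, 4, 14, 6, 0⟩ :=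
  Good.n1 (Good.n0 L02080 (Good.n2 L02081 (Good.n0 L02082 L02083))) (Good.n2 L02084 (Good.n0 L02085 (Good.n0 L02086 L02087)))
theorem g00295 : Good (Phi V5.P V5.D (-1) 1) ⟨3, 4, 4, 5, 2, 3, 4, 15, 6, 0⟩ :=
  Good.n3 (Good.n2 (Good.n0 L02088 L02089) (Good.n0 L02090 L02091)) (Good.n0 (Good.n2 L02092 (Good.n0 L02093 L02094)) (Good.n0 (Good.n2 L02095 L02096) L02097))
theorem g00296 : Good (Phi V5.P V5.D (-1) 1) ⟨3, 4, 4, 5, 2, 3, 3, 7, 5, 0⟩ :=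
  Good.n4 (Good.n3 g00294 g00295) (Good.n3 (Good.n0 L02098 L02099) (Good.n0 L02100 (Good.n0 L02101 L02102)))
theorem g00297 : Good (Phi V5.P V5.D (-1) 1) ⟨3, 4, 4, 5, 2, 3, 3, 7, 5, 1⟩ :=
  Good.n0 (Good.n2 (Good.n3 L02104 L02105) (Good.n3 L02106 L02107)) (Good.n2 (Good.n0 (Good.n3 L02108 L02109) L02110) (Good.n3 L02111 (Good.n0 L02112 L02113)))
theorem g00298 : Good (Phi V5.P V5.D (-1) 1) ⟨1, 1, 3, 2, 2, 3, 3, 7, 4, 0⟩ :=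
  Good.n1 (Good.n0 (Good.n4 (Good.n0 g00292 L02069) (Good.n0 g00293 L02078)) L02079) (Good.n0 (Good.n4 (Good.n0 g00296 L02103) (Good.n0 g00297 L02114)) L02115)
theorem g00299 : Good (Phi V5.P V5.D (-1) 1) ⟨2, 2, 3, 2, 2, 3, 4, 14, 4, 1⟩ :=
  Good.n0 (Good.n4 (Good.n2 (Good.n0 L02116 (Good.n1 L02117 L02118)) (Good.n0 L02119 L02120)) L02121) L02122
theorem g00300 : Good (Phi V5.P V5.D (-1) 1) ⟨2, 2, 3, 2, 2, 3, 4, 15, 4, 1⟩ :=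
  Good.n0 (Good.n2 (Good.n4 (Good.n0 L02123 L02124) L02125) (Good.n4 (Good.n0 L02126 L02127) L02128)) L02129
theorem g00301 : Good (Phi V5.P V5.D (-1) 1) ⟨1, 1, 3, 2, 2, 3, 2, 3, 3, 0⟩ :=
  Good.n3 (Good.n4 (Good.n4 g00289 (Good.n0 g00290 L02050)) (Good.n0 (Good.n0 g00291 L02059) L02060)) (Good.n4 g00298 (Good.n0 (Good.n3 g00299 g00300) L02130))
theorem g00302 : Good (Phi V5.P V5.D (-1) 1) ⟨1, 1, 3, 2, 2, 3, 2, 3, 3, 1⟩ :=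
  Good.n0 (Good.n0 (Good.n4 (Good.n3 (Good.n2 L02131 L02132) L02133) (Good.n2 L02134 L02135)) L02136) L02137
theorem g00303 : Good (Phi V5.P V5.D (-1) 1) ⟨4, 8, 3, 3, 2, 3, 3, 6, 4, 0⟩ :=
  Good.n4 (Good.n2 L02138 (Good.n0 (Good.n2 L02139 L02140) (Good.n1 L02141 L02142))) (Good.n2 L02143 (Good.n3 L02144 L02145))
theorem g00304 : Good (Phi V5.P V5.D (-1) 1) ⟨2, 2, 3, 3, 2, 3, 3, 6, 4, 1⟩ :=
  Good.n0 (Good.n0 (Good.n4 (Good.n2 L02148 (Good.n3 L02149 L02150)) (Good.n3 L02151 L02152)) L02153) L02154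
theorem g00305 : Good (Phi V5.P V5.D (-1) 1) ⟨4, 8, 3, 3, 2, 3, 4, 14, 4, 0⟩ :=
  Good.n4 (Good.n2 L02155 (Good.n0 (Good.n4 L02156 L02157) (Good.n1 (Good.n4 L02158 L02159) L02160))) (Good.n2 L02161 (Good.n4 L02162 L02163))
theorem g00306 : Good (Phi V5.P V5.D (-1) 1) ⟨4, 8, 3, 3, 3, 7, 4, 15, 4, 0⟩ :=
  Good.n1 (Good.n4 (Good.n0 L02171 (Good.n0 L02172 (Good.n0 L02173 L02174))) (Good.n0 L02175 L02176)) (Good.n0 (Good.n4 L02177 L02178) L02179)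
theorem g00307 : Good (Phi V5.P V5.D (-1) 1) ⟨2, 2, 3, 3, 2, 3, 4, 15, 4, 0⟩ :=
  Good.n2 (Good.n0 (Good.n0 (Good.n0 (Good.n4 L02166 L02167) L02168) L02169) L02170) (Good.n0 (Good.n0 g00306 L02180) L02181)
theorem g00308 : Good (Phi V5.P V5.D (-1) 1) ⟨2, 2, 3, 3, 2, 3, 3, 7, 3, 0⟩ :=
  Good.n4 (Good.n3 (Good.n0 (Good.n0 g00305 L02164) L02165) g00307) (Good.n0 (Good.n0 (Good.n4 (Good.n2 L02182 (Good.n3 L02183 L02184)) L02185) L02186) L02187)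
theorem g00309 : Good (Phi V5.P V5.D (-1) 1) ⟨2, 2, 3, 3, 2, 3, 2, 3, 2, 0⟩ :=
  Good.n4 (Good.n3 (Good.n4 (Good.n0 (Good.n0 g00303 L02146) L02147) g00304) g00308) (Good.n0 (Good.n4 (Good.n3 (Good.n2 L02188 L02189) L02190) (Good.n0 L02191 L02192)) L02193)
theorem g00310 : Good (Phi V5.P V5.D (-1) 1) ⟨1, 1, 2, 1, 2, 3, 1, 1, 2, 0⟩ :=
  Good.n3 (Good.n4 g00285 (Good.n0 (Good.n0 g00287 L02028) L02029)) (Good.n1 (Good.n4 g00301 g00302) (Good.n0 g00309 L02194))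
theorem g00311 : Good (Phi V5.P V5.D (-1) 1) ⟨2, 2, 2, 1, 1, 1, 1, 1, 3, 2⟩ :=
  Good.n0 (Good.n4 (Good.n3 (Good.n2 L02195 L02196) L02197) (Good.n3 (Good.n2 L02198 L02199) L02200)) L02201
theorem g00312 : Good (Phi V5.P V5.D (-1) 1) ⟨1, 1, 2, 1, 1, 1, 1, 1, 1, 0⟩ :=
  Good.n4 (Good.n2 (Good.n4 (Good.n0 (Good.n0 g00280 L01967) L01968) (Good.n0 g00281 L01976)) g00310) (Good.n0 (Good.n4 g00311 (Good.n2 (Good.n0 L02202 L02203) L02204)) L02205)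
theorem g00313 : Good (Phi V5.P V5.D (-1) 1) ⟨1, 1, 2, 1, 3, 4, 1, 1, 2, 2⟩ :=
  Good.n4 (Good.n3 (Good.n0 (Good.n2 (Good.n4 (Good.n3 L02206 L02207) L02208) L02209) L02210) L02211) L02212
theorem g00314 : Good (Phi V5.P V5.D (-1) 1) ⟨1, 1, 1, 0, 1, 1, 0, 0, 0, 0⟩ :=
  Good.n3 g00228 (Good.n1 g00278 (Good.n4 g00312 (Good.n2 (Good.n4 (Good.n2 g00313 L02213) L02214) L02215)))
theorem all : Good (Phi V5.P V5.D (-1) 1) ⟨0, 0, 0, 0, 0, 0, 0, 0, 0, 0⟩ :=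
  Good.n0 g00170 (Good.n1 (Good.n2 g00188 g00314) L02216)

end Crest.Agent.R097C5.N5mp
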