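import Crest.Agent.R097.KS3
import Crest.Agent.R097.T5Ypm

/-!
# Row 97, box cover in dimension n = 5 (generated)
-/

set_option autoImplicit false
set_option Elab.async false
set_option maxHeartbeats 0
set_option maxRecDepth 100000

open Crest.Agent.R097 Crest.Agent.R097.KA


namespace Crest.Agent.R097C5.N5pm

theorem L01763 : Good (Phi V5.P V5.D 1 (-1)) ⟨2, 1, 2, 2, 2, 0, 3, 7, 4, 7⟩ :=
  leafYS_sound T5.ok_pm T5.Ypm.bz_eq (w := 202) (c := ⟨⟨.negSucc 908, .negSucc 406, .ofNat 0, .negSucc 239, .negSucc 149, .ofNat 2⟩, ⟨.ofNat 477, .negSucc 38, .ofNat 276, .ofNat 114, .ofNat 86, .negSucc 1⟩, ⟨.ofNat 402, .ofNat 399, .ofNat 91, .ofNat 565, .negSucc 110, .negSucc 13⟩, ⟨.negSucc 2624, .negSucc 278, .negSucc 5, .negSucc 623, .negSucc 314, .ofNat 0⟩, ⟨.negSucc 30, .negSucc 34, .ofNat 27, .negSucc 70, .ofNat 126, .negSucc 6⟩, .ofNat 773, .ofNat 639, .ofNat 0, .ofNat 639, .ofNat 1599, .ofNat 0, .ofNat 156,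 .negSucc 127, .negSucc 38, .ofNat 0, .ofNat 121, .ofNat 14, .ofNat 0, .ofNat 0, .ofNat 376, .ofNat 1906, .ofNat 0, .ofNat 175071967667574342017628094562490646528, .ofNat 6153529362698515429292845508958617600, .ofNat 0, .ofNat 0, .ofNat 0, .ofNat 0, .ofNat 0, .ofNat 0, .ofNat 0, .ofNat 0, .ofNat 0, .ofNat 38053905524814463504175559575609825820672, .ofNat 155578121162918399485418470378141908992, .ofNat 50541518969723073344597266000076865536, .ofNat 0⟩)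
    (by decide +kernel)
theorem L01764 : Good (Phi V5.P V5.D 1 (-1)) ⟨2, 1, 2, 2, 3, 2, 2, 2, 4, 7⟩ :=
  leafYS_sound T5.ok_pm T5.Ypm.bz_eq (w := 215) (c := ⟨⟨.negSucc 981, .negSucc 332, .ofNat 10, .negSucc 37, .negSucc 114, .ofNat 71⟩, ⟨.ofNat 508, .negSucc 35, .ofNat 276, .ofNat 14, .ofNat 42, .negSucc 8⟩, ⟨.ofNat 1190, .ofNat 344, .ofNat 305, .ofNat 563, .negSucc 91, .ofNat 440⟩, ⟨.negSucc 2808, .negSucc 200, .negSucc 36, .negSucc 192, .negSucc 281, .ofNat 97⟩, ⟨.negSucc 72, .negSucc 84, .negSucc 27, .negSucc 174, .negSucc 40, .negSucc 87⟩, .ofNat 188, .ofNat 32, .ofNat 0, .ofNat 32, .ofNat 231, .ofNat 0, .ofNat 152, .negSucc 34, .negSucc 66, .ofNat 0, .ofNat 128, .negSucc 31, .ofNat 0, .ofNat 0, .ofNat 914, .ofNat 13865, .ofNat 12856171216737676192365632624578459401715712, .ofNat 0, .ofNat 41975699306589575399012573825846858481664, .ofNat 0, .ofNat 76650021631465486725295081708252712201617408,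 .ofNat 0, .ofNat 22323145187114858201431095011727732899840, .ofNat 0, .ofNat 0, .ofNat 0, .ofNat 184265833958744698295170339629308814819328, .ofNat 0, .ofNat 296540623029299470134567907066073359839133696, .ofNat 0, .ofNat 541152720972271860949236428006418708168704, .ofNat 0⟩)
    (by decide +kernel)
theorem L01765 : Good (Phi V5.P V5.D 1 (-1)) ⟨2, 1, 2, 2, 3, 3, 3, 4, 4, 7⟩ :=
  leafYS_sound T5.ok_pm T5.Ypm.bz_eq (w := 219) (c := ⟨⟨.negSucc 1173, .negSucc 330, .ofNat 39, .ofNat 81, .ofNat 23, .ofNat 94⟩, ⟨.ofNat 533, .negSucc 51, .ofNat 245, .ofNat 2, .ofNat 24, .negSucc 157⟩, ⟨.ofNat 556, .ofNat 437, .ofNat 704, .ofNat 1209, .ofNat 641, .ofNat 1747⟩, ⟨.negSucc 3130, .negSucc 156, .negSucc 16, .negSucc 45, .negSucc 88, .ofNat 289⟩, ⟨.ofNat 49, .negSucc 105, .negSucc 105, .negSucc 315, .negSucc 199, .negSucc 268⟩, .ofNat 188, .ofNat 32, .ofNat 0, .ofNat 32, .ofNat 231, .ofNat 0, .ofNat 166, .negSucc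 36, .ofNat 15, .ofNat 0, .ofNat 128, .negSucc 107, .ofNat 0, .ofNat 0, .ofNat 1725, .ofNat 9674, .ofNat 115178408081135941304556496498079774330060800, .ofNat 0, .ofNat 433947582879763145638061292317479402471424, .ofNat 0, .ofNat 1247719121660241667414274749122587016208318464, .ofNat 0, .ofNat 0, .ofNat 0, .ofNat 928537523258134139113136644438199471951577088, .ofNat 0, .ofNat 1111281245404592240038738997902227621806080, .ofNat 0, .ofNat 17063987155304446721546706584587605350163677184, .ofNat 0, .ofNat 18323177605804107425581548009910461676912640, .ofNat 0⟩)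
    (by decide +kernel)
theorem L01766 : Good (Phi V5.P V5.D 1 (-1)) ⟨2, 1, 3, 4, 4, 6, 3, 5, 5, 14⟩ :=
  leafYS_sound T5.ok_pm T5.Ypm.bz_eq (w := 241) (c := ⟨⟨.negSucc 1112, .negSucc 337, .ofNat 37, .ofNat 18, .negSucc 46, .ofNat 50⟩, ⟨.ofNat 550, .negSucc 53, .ofNat 136, .negSucc 5, .ofNat 28, .negSucc 29⟩, ⟨.ofNat 1190, .ofNat 586, .ofNat 388, .ofNat 683, .ofNat 207, .ofNat 481⟩, ⟨.negSucc 3126, .negSucc 191, .negSucc 12, .negSucc 59, .negSucc 190, .ofNat 89⟩, ⟨.negSucc 103, .negSucc 159, .negSucc 64, .negSucc 198, .negSucc 122, .negSucc 84⟩, .ofNat 412, .ofNat 178, .ofNat 0, .ofNat 178, .ofNat 665, .ofNat 0, .ofNat 236, .negSucc 81, .negSucc 0, .ofNat 0, .ofNat 128, .negSucc 48, .ofNat 0, .ofNat 0, .ofNat 1905, .ofNat 11483, .ofNat 0, .ofNat 0, .ofNat 0, .ofNat 0, .ofNat 0, .ofNat 0, .ofNat 0, .ofNat 0, .ofNat 0, .ofNat 0, .ofNat 0, .ofNat 0, .ofNat 0, .ofNat 23687408949411062269038068934275369420713483042816,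 .ofNat 12970408291783448630282528390716139351526241992704, .ofNat 0⟩)
    (by decide +kernel)
theorem L01767 : Good (Phi V5.P V5.D 1 (-1)) ⟨3, 2, 4, 10, 4, 6, 3, 5, 5, 14⟩ :=
  leafYS_sound T5.ok_pm T5.Ypm.bz_eq (w := 250) (c := ⟨⟨.negSucc 1103, .negSucc 153, .ofNat 12, .ofNat 30, .negSucc 28, .ofNat 56⟩, ⟨.ofNat 682, .ofNat 11, .ofNat 66, .negSucc 19, .ofNat 16, .negSucc 34⟩, ⟨.ofNat 1441, .ofNat 85, .ofNat 149, .ofNat 882, .ofNat 332, .ofNat 652⟩, ⟨.negSucc 3151, .negSucc 108, .negSucc 14, .negSucc 56, .negSucc 156, .ofNat 81⟩, ⟨.negSucc 160, .negSucc 34, .negSucc 26, .negSucc 228, .negSucc 131, .negSucc 117⟩, .ofNat 975, .ofNat 905, .ofNat 0, .ofNat 905, .ofNat 1856, .ofNat 0, .ofNat 128, .negSucc 298, .ofNat 42, .ofNat 0, .ofNat 259, .negSucc 68, .ofNat 0, .ofNat 0, .ofNat 5598, .ofNat 37236, .ofNat 0, .ofNat 43746657358946616917681992145450323348796360097792, .ofNat 2698251320311545220057983585447939848345055395840,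 .ofNat 0, .ofNat 0, .ofNat 0, .ofNat 0, .ofNat 0, .ofNat 0, .ofNat 435156735508746641260081019154149726059120235118592, .ofNat 24705144409826613262101950410312134592845945241600, .ofNat 0, .ofNat 0, .ofNat 28094103859202529853930380719730831185347324000862208, .ofNat 361759870837430547689146466823960331573871618555904, .ofNat 0⟩)
    (by decide +kernel)
theorem L01768 : Good (Phi V5.P V5.D 1 (-1)) ⟨3, 2, 4, 11, 4, 6, 3, 5, 5, 14⟩ :=
  out_sound (S := T5.ds_pm) T5.ok_pm (w := 47) (j := 3) (by decide +kernel)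
theorem L01769 : Good (Phi V5.P V5.D 1 (-1)) ⟨3, 3, 3, 5, 4, 6, 3, 5, 5, 14⟩ :=
  out_sound (S := T5.ds_pm) T5.ok_pm (w := 45) (j := 3) (by decide +kernel)
theorem L01770 : Good (Phi V5.P V5.D 1 (-1)) ⟨3, 2, 3, 4, 5, 14, 4, 10, 5, 14⟩ :=
  leafYS_sound T5.ok_pm T5.Ypm.bz_eq (w := 265) (c := ⟨⟨.negSucc 1117, .negSucc 152, .ofNat 28, .ofNat 18, .negSucc 7, .ofNat 73⟩, ⟨.ofNat 550, .ofNat 9, .ofNat 124, .negSucc 11, .ofNat 6, .negSucc 52⟩, ⟨.ofNat 1746, .ofNat 51, .ofNat 411, .ofNat 403, .ofNat 168, .ofNat 940⟩, ⟨.negSucc 3227, .negSucc 96, .negSucc 14, .negSucc 7, .negSucc 62, .ofNat 122⟩, ⟨.negSucc 291, .negSucc 25, .negSucc 68, .negSucc 98, .negSucc 60, .negSucc 159⟩, .ofNat 821, .ofNat 680, .ofNat 0, .ofNat 680, .ofNat 1618, .ofNat 0, .ofNat 128, .negSucc 251, .ofNat 148, .ofNat 0, .ofNat 237, .negSucc 155, .ofNat 0, .ofNat 0, .ofNat 7587, .ofNat 44885, .ofNat 0, .ofNat 0, .ofNat 0, .ofNat 0, .ofNat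 0, .ofNat 615292675384746272312121471432416604310875507536166912, .ofNat 0, .ofNat 0, .ofNat 0, .ofNat 0, .ofNat 0, .ofNat 0, .ofNat 0, .ofNat 0, .ofNat 0, .ofNat 0⟩)
    (by decide +kernel)
theorem L01771 : Good (Phi V5.P V5.D 1 (-1)) ⟨3, 2, 3, 4, 5, 15, 4, 10, 5, 14⟩ :=
  leafYS_sound T5.ok_pm T5.Ypm.bz_eq (w := 263) (c := ⟨⟨.negSucc 1132, .negSucc 148, .ofNat 48, .ofNat 39, .ofNat 14, .ofNat 107⟩, ⟨.ofNat 557, .ofNat 2, .ofNat 115, .negSucc 26, .negSucc 10, .negSucc 64⟩, ⟨.ofNat 1734, .ofNat 190, .ofNat 619, .ofNat 647, .ofNat 473, .ofNat 1289⟩, ⟨.negSucc 3267, .negSucc 94, .ofNat 2, .ofNat 21, .negSucc 40, .ofNat 163⟩, ⟨.negSucc 287, .negSucc 61, .negSucc 116, .negSucc 155, .negSucc 136, .negSucc 229⟩, .ofNat 435, .ofNat 198, .ofNat 0, .ofNat 198, .ofNat 669, .ofNat 0, .ofNat 128, .negSucc 110, .ofNat 153, .ofNat 0, .ofNat 167, .negSucc 198, .ofNat 0, .ofNat 0, .ofNat 4889, .ofNat 10715, .ofNat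 0, .ofNat 150272935376210053629223521864071450401091326589272064, .ofNat 0, .ofNat 0, .ofNat 0, .ofNat 705493832155990911286928896296920731307448425529737216, .ofNat 0, .ofNat 0, .ofNat 0, .ofNat 1602983407331112028458891164673115884830861446359285760, .ofNat 0, .ofNat 0, .ofNat 0, .ofNat 101585251360129497868451185124901866479328616539591016448, .ofNat 0, .ofNat 0⟩)
    (by decide +kernel)
theorem L01772 : Good (Phi V5.P V5.D 1 (-1)) ⟨3, 2, 3, 5, 5, 14, 4, 10, 5, 14⟩ :=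
  leafYS_sound T5.ok_pm T5.Ypm.bz_eq (w := 265) (c := ⟨⟨.negSucc 1103, .negSucc 141, .ofNat 31, .ofNat 23, .negSucc 7, .ofNat 99⟩, ⟨.ofNat 679, .ofNat 3, .ofNat 124, .negSucc 13, .ofNat 4, .negSucc 60⟩, ⟨.ofNat 1974, .ofNat 214, .ofNat 420, .ofNat 467, .ofNat 205, .ofNat 1230⟩, ⟨.negSucc 3244, .negSucc 87, .negSucc 15, .negSucc 9, .negSucc 57, .ofNat 125⟩, ⟨.negSucc 314, .negSucc 54, .negSucc 65, .negSucc 121, .negSucc 64, .negSucc 231⟩, .ofNat 955, .ofNat 870, .ofNat 0, .ofNat 870, .ofNat 1810, .ofNat 0, .ofNat 128, .negSucc 307, .ofNat 238, .ofNat 0, .ofNat 271, .negSucc 219, .ofNat 0, .ofNat 0, .ofNat 9304, .ofNat 57544, .ofNat 0, .ofNat 0, .ofNat 425382268928273006287851133990435855733380168841953280, .ofNat 0, .ofNat 0, .ofNat 603536436819403111039574293745727528992245588229619712, .ofNat 1133734433952639872413455354819390304410791062253076480, .ofNat 0, .ofNat 0, .ofNat 1878948373798892205740503021155824489553053341265690624,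 .ofNat 5541961349023680473710707714277927073715914058760192000, .ofNat 0, .ofNat 11001425878878683385210724554584729479316648032957494198272, .ofNat 275159936976583566165750177762580327895561283011501621248, .ofNat 107458317610305825631325770843989597330068220490001940480, .ofNat 0⟩)
    (by decide +kernel)
theorem L01773 : Good (Phi V5.P V5.D 1 (-1)) ⟨3, 2, 3, 5, 5, 15, 4, 10, 6, 28⟩ :=
  leafYS_sound T5.ok_pm T5.Ypm.bz_eq (w := 269) (c := ⟨⟨.negSucc 1100, .negSucc 144, .ofNat 41, .ofNat 49, .ofNat 24, .ofNat 57⟩, ⟨.ofNat 681, .ofNat 4, .ofNat 120, .negSucc 32, .negSucc 18, .negSucc 35⟩, ⟨.ofNat 2169, .ofNat 197, .ofNat 485, .ofNat 760, .ofNat 622, .ofNat 693⟩, ⟨.negSucc 3274, .negSucc 71, .negSucc 8, .ofNat 17, .negSucc 36, .ofNat 80⟩, ⟨.negSucc 368, .negSucc 29, .negSucc 70, .negSucc 190, .negSucc 174, .negSucc 120⟩, .ofNat 2124, .ofNat 2675, .ofNat 0, .ofNat 2675, .ofNat 4782, .ofNat 0, .ofNat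 128, .negSucc 184, .ofNat 139, .ofNat 0, .ofNat 133, .negSucc 97, .ofNat 0, .ofNat 0, .ofNat 3752, .ofNat 25482, .ofNat 0, .ofNat 1206587002731513069693986204782626622239446272409862144, .ofNat 7926357120740952226538283787497792600507953598980685824, .ofNat 0, .ofNat 0, .ofNat 0, .ofNat 0, .ofNat 0, .ofNat 0, .ofNat 7775097395103467863342902904211246680553224287702482944, .ofNat 56201124136816948280946805315069948442803169086909972480, .ofNat 0, .ofNat 0, .ofNat 357083672125193400301625717673555430321066939118165950464, .ofNat 770421912161429309264029602814462646312241311180472188928, .ofNat 0⟩)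
    (by decide +kernel)
theorem L01774 : Good (Phi V5.P V5.D 1 (-1)) ⟨3, 2, 4, 10, 5, 15, 5, 20, 6, 29⟩ :=
  leafYS_sound T5.ok_pm T5.Ypm.bz_eq (w := 277) (c := ⟨⟨.negSucc 1070, .negSucc 133, .ofNat 40, .ofNat 77, .ofNat 20, .ofNat 90⟩, ⟨.ofNat 662, .ofNat 0, .ofNat 45, .negSucc 50, .negSucc 15, .negSucc 58⟩, ⟨.ofNat 2503, .ofNat 286, .ofNat 544, .ofNat 1136, .ofNat 433, .ofNat 1240⟩, ⟨.negSucc 3235, .negSucc 54, .ofNat 8, .ofNat 68, .negSucc 1, .ofNat 94⟩, ⟨.negSucc 435, .negSucc 40, .negSucc 97, .negSucc 235, .negSucc 102, .negSucc 240⟩, .ofNat 2083, .ofNat 2619, .ofNat 0, .ofNat 2619, .ofNat 4709, .ofNat 0, .ofNat 128, .negSucc 169, .ofNat 189, .ofNat 0, .ofNat 122, .negSucc 129, .ofNat 0, .ofNat 0, .ofNat 4415, .ofNat 56122, .ofNat 0, .ofNat 0, .ofNat 0, .ofNat 0, .ofNat 0, .ofNat 0, .ofNat 0, .ofNat 0, .ofNat 384713537533130754643988651826697736161855827850925784956928, .ofNat 762041642889059689738494487701485817691264044498927222784,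 .ofNat 1047615985780254479780820053785893976420882872014274035712, .ofNat 0, .ofNat 5398723292980589831893466505797902318960243079863072551075840, .ofNat 27981522219037502572203618953777940818879156683290229866496, .ofNat 10760464573366446946665996780905492702283249506233310248960, .ofNat 0⟩)
    (by decide +kernel)
theorem L01775 : Good (Phi V5.P V5.D 1 (-1)) ⟨3, 2, 4, 10, 6, 30, 5, 21, 6, 29⟩ :=
  leafYS_sound T5.ok_pm T5.Ypm.bz_eq (w := 291) (c := ⟨⟨.negSucc 1059, .negSucc 135, .ofNat 49, .ofNat 48, .ofNat 27, .ofNat 97⟩, ⟨.ofNat 650, .ofNat 6, .ofNat 41, .negSucc 30, .negSucc 18, .negSucc 64⟩, ⟨.ofNat 2825, .ofNat 220, .ofNat 639, .ofNat 686, .ofNat 511, .ofNat 1344⟩, ⟨.negSucc 3237, .negSucc 54, .ofNat 13, .ofNat 34, .negSucc 10, .ofNat 115⟩, ⟨.negSucc 510, .negSucc 15, .negSucc 115, .negSucc 150, .negSucc 135, .negSucc 240⟩, .ofNat 2175, .ofNat 2738, .ofNat 0, .ofNat 2738, .ofNat 4854, .ofNat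 0, .ofNat 184, .negSucc 127, .ofNat 213, .ofNat 0, .ofNat 92, .negSucc 147, .ofNat 0, .ofNat 0, .ofNat 4714, .ofNat 28057, .ofNat 0, .ofNat 382712713353360513954926099153858748506332788979542236594176, .ofNat 2542848043933760814116827986678822244035693463820143456944128, .ofNat 0, .ofNat 0, .ofNat 0, .ofNat 0, .ofNat 0, .ofNat 0, .ofNat 2091859135325814817191167040586765600051270444915666397954048, .ofNat 5113236260819169480528106800973456257601041690310170917208064, .ofNat 0, .ofNat 0, .ofNat 91790989353599805059782371261159420876065817841376508227092480, .ofNat 305214031080895480393161529461192452638062814887591563218649088, .ofNat 0⟩)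
    (by decide +kernel)
theorem L01776 : Good (Phi V5.P V5.D 1 (-1)) ⟨3, 2, 4, 10, 6, 31, 5, 21, 6, 29⟩ :=
  leafYS_sound T5.ok_pm T5.Ypm.bz_eq (w := 291) (c := ⟨⟨.negSucc 1027, .negSucc 128, .ofNat 56, .ofNat 61, .ofNat 42, .ofNat 129⟩, ⟨.ofNat 629, .ofNat 4, .ofNat 36, .negSucc 40, .negSucc 28, .negSucc 79⟩, ⟨.ofNat 3323, .ofNat 306, .ofNat 736, .ofNat 851, .ofNat 694, .ofNat 1705⟩, ⟨.negSucc 3211, .negSucc 86, .ofNat 23, .ofNat 53, .ofNat 8, .ofNat 149⟩, ⟨.negSucc 607, .negSucc 84, .negSucc 136, .negSucc 186, .negSucc 176, .negSucc 313⟩, .ofNat 458, .ofNat 232, .ofNat 0, .ofNat 232, .ofNat 684, .ofNat 0, .ofNat 367, .negSucc 92, .ofNat 349, .ofNat 0, .ofNat 128, .negSucc 379, .ofNat 0, .ofNat 0, .ofNat 7344, .ofNat 32304, .ofNat 0, .ofNat 1023769125841849428618158648903009343435404784995518883299328, .ofNat 3217301585390817585849493355377607591467108332793690822017024, .ofNat 0, .ofNat 0, .ofNat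 0, .ofNat 0, .ofNat 0, .ofNat 0, .ofNat 9082615239121206602351217525164966054842800450621853858267136, .ofNat 2864153077046856869199032227511506755127898754735006044651520, .ofNat 0, .ofNat 0, .ofNat 444349618770981490467639521411561736885312754167940131128868864, .ofNat 0, .ofNat 0⟩)
    (by decide +kernel)
theorem L01777 : Good (Phi V5.P V5.D 1 (-1)) ⟨3, 2, 4, 11, 5, 15, 4, 10, 6, 29⟩ :=
  out_sound (S := T5.ds_pm) T5.ok_pm (w := 47) (j := 3) (by decide +kernel)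
theorem L01778 : Good (Phi V5.P V5.D 1 (-1)) ⟨3, 3, 3, 4, 5, 14, 4, 10, 5, 14⟩ :=
  leafYS_sound T5.ok_pm T5.Ypm.bz_eq (w := 264) (c := ⟨⟨.negSucc 1268, .negSucc 209, .ofNat 29, .ofNat 20, .negSucc 14, .ofNat 88⟩, ⟨.ofNat 549, .negSucc 46, .ofNat 124, .negSucc 15, .ofNat 0, .negSucc 45⟩, ⟨.ofNat 1862, .ofNat 137, .ofNat 425, .ofNat 486, .ofNat 261, .ofNat 962⟩, ⟨.negSucc 3327, .negSucc 63, .negSucc 12, .negSucc 2, .negSucc 60, .ofNat 118⟩, ⟨.negSucc 347, .ofNat 4, .negSucc 65, .negSucc 110, .negSucc 60, .negSucc 189⟩, .ofNat 1075, .ofNat 1227, .ofNat 0, .ofNat 1227, .ofNat 2994, .ofNat 0, .ofNat 141, .negSucc 127, .ofNat 53, .ofNat 0, .ofNat 97, .negSucc 43, .ofNat 0, .ofNat 0, .ofNat 2858, .ofNat 27275, .ofNat 0, .ofNat 0, .ofNat 0, .ofNat 0, .ofNat 0, .ofNat 0, .ofNat 0, .ofNat 0, .ofNat 0, .ofNat 0, .ofNat 1018749628710956293888772955734190704599955281522196480, .ofNat 0, .ofNat 0, .ofNat 0,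 .ofNat 13982067772208473426810354796461906323706336238798635008, .ofNat 0⟩)
    (by decide +kernel)
theorem L01779 : Good (Phi V5.P V5.D 1 (-1)) ⟨3, 3, 3, 4, 5, 15, 4, 10, 5, 14⟩ :=
  leafYS_sound T5.ok_pm T5.Ypm.bz_eq (w := 263) (c := ⟨⟨.negSucc 1266, .negSucc 204, .ofNat 59, .ofNat 26, .negSucc 14, .ofNat 100⟩, ⟨.ofNat 546, .negSucc 56, .ofNat 113, .negSucc 17, .ofNat 0, .negSucc 53⟩, ⟨.ofNat 2106, .ofNat 277, .ofNat 755, .ofNat 525, .ofNat 271, .ofNat 1096⟩, ⟨.negSucc 3344, .negSucc 88, .ofNat 12, .ofNat 12, .negSucc 75, .ofNat 160⟩, ⟨.negSucc 379, .negSucc 73, .negSucc 136, .negSucc 133, .negSucc 109, .negSucc 194⟩, .ofNat 396, .ofNat 164, .ofNat 0, .ofNat 164, .ofNat 665, .ofNat 0, .ofNat 128, .negSucc 81, .ofNat 102, .ofNat 0, .ofNat 131, .negSucc 133, .ofNat 0, .ofNat 0, .ofNat 3471, .ofNat 11335, .ofNat 0, .ofNat 115567554328114502421464767906580647069055698281168896, .ofNat 73815334262754195916977872312219620256576091084292096,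 .ofNat 0, .ofNat 0, .ofNat 430927966528118587970719089215974384805116785027186688, .ofNat 318726270689538719731430654160546412068159580400517120, .ofNat 0, .ofNat 0, .ofNat 1301275024410800615924088411429799415897960308231110656, .ofNat 221217738802276860660195336595610776454140889768394752, .ofNat 0, .ofNat 0, .ofNat 56239983767285634592626072805676142255758981821854908416, .ofNat 2084689980774289107235365722648501638047973234442240000, .ofNat 0⟩)
    (by decide +kernel)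
theorem L01780 : Good (Phi V5.P V5.D 1 (-1)) ⟨3, 3, 3, 5, 4, 7, 4, 10, 5, 14⟩ :=
  out_sound (S := T5.ds_pm) T5.ok_pm (w := 45) (j := 3) (by decide +kernel)
theorem L01781 : Good (Phi V5.P V5.D 1 (-1)) ⟨2, 1, 3, 4, 5, 14, 4, 11, 5, 14⟩ :=
  leafYS_sound T5.ok_pm T5.Ypm.bz_eq (w := 259) (c := ⟨⟨.negSucc 1144, .negSucc 342, .ofNat 44, .ofNat 39, .negSucc 8, .ofNat 94⟩, ⟨.ofNat 557, .negSucc 44, .ofNat 127, .negSucc 11, .ofNat 7, .negSucc 41⟩, ⟨.ofNat 1726, .ofNat 515, .ofNat 520, .ofNat 583, .ofNat 247, .ofNat 1003⟩, ⟨.negSucc 3290, .negSucc 197, .negSucc 12, .ofNat 2, .negSucc 89, .ofNat 126⟩, ⟨.negSucc 286, .negSucc 154, .negSucc 102, .negSucc 149, .negSucc 109, .negSucc 190⟩, .ofNat 421, .ofNat 186, .ofNat 0, .ofNat 186, .ofNat 666, .ofNat 0, .ofNat 223, .negSucc 82, .ofNat 67, .ofNat 0, .ofNat 128, .negSucc 105, .ofNat 0, .ofNat 0, .ofNat 2600, .ofNat 9018, .ofNat 0, .ofNat 8190422606864182550423018714177016239158070597386240,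 .ofNat 2250808991663114232179604355931097615233520448307200, .ofNat 0, .ofNat 0, .ofNat 0, .ofNat 0, .ofNat 0, .ofNat 0, .ofNat 91850306187407740938092187642349750271077912598806528, .ofNat 512571439730822788019180438406241920465132256160120832, .ofNat 0, .ofNat 0, .ofNat 2149190702727655077971662600324839983177915466631872512, .ofNat 0, .ofNat 0⟩)
    (by decide +kernel)
theorem L01782 : Good (Phi V5.P V5.D 1 (-1)) ⟨2, 1, 3, 5, 5, 14, 4, 11, 6, 28⟩ :=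
  leafYS_sound T5.ok_pm T5.Ypm.bz_eq (w := 265) (c := ⟨⟨.negSucc 1113, .negSucc 300, .ofNat 60, .ofNat 40, .ofNat 3, .ofNat 46⟩, ⟨.ofNat 688, .ofNat 10, .ofNat 117, .negSucc 26, .negSucc 2, .negSucc 27⟩, ⟨.ofNat 2110, .ofNat 428, .ofNat 680, .ofNat 697, .ofNat 418, .ofNat 524⟩, ⟨.negSucc 3300, .negSucc 214, .negSucc 4, .ofNat 3, .negSucc 75, .ofNat 61⟩, ⟨.negSucc 357, .negSucc 139, .negSucc 134, .negSucc 173, .negSucc 138, .negSucc 97⟩, .ofNat 939, .ofNat 850, .ofNat 0, .ofNat 850, .ofNat 1790, .ofNat 0, .ofNat 128, .negSucc 140, .ofNat 109, .ofNat 0, .ofNat 124, .negSucc 98, .ofNat 0, .ofNat 0, .ofNat 3380, .ofNat 17672, .ofNat 0, .ofNat 76479342342626820940477951516728270603412156369076224, .ofNat 25553773903952697124679676079043475416887256265059729408, .ofNat 0, .ofNat 0, .ofNat 0, .ofNat 525791934960126955345703876086365903667638490358368698368, .ofNat 0, .ofNat 0, .ofNat 530845830999236112459447436782902355807411107237199872,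 .ofNat 151619533150006640803248268085220131836382021492777418752, .ofNat 0, .ofNat 0, .ofNat 18333907874734053619531680720430037856698285636418797568, .ofNat 2221039757373607148694308353342348253972105589968699654144, .ofNat 0⟩)
    (by decide +kernel)
theorem L01783 : Good (Phi V5.P V5.D 1 (-1)) ⟨3, 2, 4, 10, 5, 14, 5, 22, 6, 29⟩ :=
  leafYS_sound T5.ok_pm T5.Ypm.bz_eq (w := 277) (c := ⟨⟨.negSucc 1097, .negSucc 141, .ofNat 40, .ofNat 76, .ofNat 8, .ofNat 77⟩, ⟨.ofNat 675, .ofNat 5, .ofNat 46, .negSucc 48, .negSucc 4, .negSucc 48⟩, ⟨.ofNat 2285, .ofNat 229, .ofNat 549, .ofNat 1181, .ofNat 274, .ofNat 1040⟩, ⟨.negSucc 3265, .negSucc 96, .ofNat 7, .ofNat 38, .negSucc 31, .ofNat 84⟩, ⟨.negSucc 383, .negSucc 69, .negSucc 101, .negSucc 268, .negSucc 88, .negSucc 196⟩, .ofNat 950, .ofNat 863, .ofNat 0, .ofNat 863, .ofNat 1802, .ofNat 0, .ofNat 128, .negSucc 147, .ofNat 182, .ofNat 0, .ofNat 131, .negSucc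 154, .ofNat 0, .ofNat 0, .ofNat 4738, .ofNat 32325, .ofNat 0, .ofNat 124982045873528980005579391686982546840026390524942352384, .ofNat 170028765066869975929838983998900839364841016921555992576, .ofNat 0, .ofNat 0, .ofNat 0, .ofNat 0, .ofNat 0, .ofNat 0, .ofNat 665072956887200976902887330117318923843201484395957452800, .ofNat 433604714013415051353000755546010229475191989085774282752, .ofNat 0, .ofNat 0, .ofNat 20441299000205224754229928913470508794398814784989748527104, .ofNat 22271081552954569229918024157128747553622963319242800234496, .ofNat 0⟩)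
    (by decide +kernel)
theorem L01784 : Good (Phi V5.P V5.D 1 (-1)) ⟨3, 2, 4, 10, 6, 28, 5, 23, 6, 29⟩ :=
  leafYS_sound T5.ok_pm T5.Ypm.bz_eq (w := 291) (c := ⟨⟨.negSucc 1088, .negSucc 140, .ofNat 42, .ofNat 40, .ofNat 16, .ofNat 71⟩, ⟨.ofNat 667, .ofNat 0, .ofNat 46, .negSucc 23, .negSucc 6, .negSucc 42⟩, ⟨.ofNat 2586, .ofNat 317, .ofNat 574, .ofNat 600, .ofNat 366, .ofNat 919⟩, ⟨.negSucc 3288, .negSucc 106, .ofNat 6, .ofNat 16, .negSucc 31, .ofNat 76⟩, ⟨.negSucc 463, .negSucc 100, .negSucc 113, .negSucc 142, .negSucc 110, .negSucc 180⟩, .ofNat 455, .ofNat 231, .ofNat 0, .ofNat 231, .ofNat 684, .ofNat 0, .ofNat 191, .negSucc 92, .ofNat 165, .ofNat 0, .ofNat 128, .negSucc 217, .ofNat 0, .ofNat 0, .ofNat 4431, .ofNat 41822, .ofNat 0, .ofNat 873026801627809385408234516729343872872866147328398848950272, .ofNat 4523816271213618663744773877420598626424222123413855816122368, .ofNat 0, .ofNat 0, .ofNat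 0, .ofNat 0, .ofNat 0, .ofNat 0, .ofNat 4945082133726367165878613691760699928709385462471489618968576, .ofNat 1891308287333190698405459372188130655870269670349264755097600, .ofNat 0, .ofNat 0, .ofNat 141997347270762364569730465109175707299290904837733573797609472, .ofNat 131587537209688840130978402631079294080793115437832233289777152, .ofNat 0⟩)
    (by decide +kernel)
theorem L01785 : Good (Phi V5.P V5.D 1 (-1)) ⟨3, 2, 4, 10, 6, 29, 5, 23, 6, 29⟩ :=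
  leafYS_sound T5.ok_pm T5.Ypm.bz_eq (w := 291) (c := ⟨⟨.negSucc 1049, .negSucc 140, .ofNat 42, .ofNat 39, .ofNat 18, .ofNat 77⟩, ⟨.ofNat 643, .ofNat 4, .ofNat 48, .negSucc 25, .negSucc 3, .negSucc 47⟩, ⟨.ofNat 3182, .ofNat 290, .ofNat 553, .ofNat 596, .ofNat 343, .ofNat 984⟩, ⟨.negSucc 3273, .negSucc 109, .ofNat 5, .ofNat 21, .negSucc 27, .ofNat 87⟩, ⟨.negSucc 603, .negSucc 95, .negSucc 107, .negSucc 151, .negSucc 122, .negSucc 202⟩, .ofNat 192, .ofNat 38, .ofNat 0, .ofNat 38, .ofNat 230, .ofNat 0, .ofNat 238, .negSucc 40, .ofNat 100, .ofNat 0, .ofNat 128, .negSucc 256, .ofNat 0, .ofNat 0, .ofNat 2350, .ofNat 44619, .ofNat 0, .ofNat 1773987880921346997683524244378465005099536228754924807127040, .ofNat 0, .ofNat 0, .ofNat 0, .ofNat 9924469203016286887904195069121049269500203355926339065479168, .ofNat 0, .ofNat 0, .ofNat 0, .ofNat 8338042394281226795272995268216381646677744981789134970421248, .ofNat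 0, .ofNat 0, .ofNat 0, .ofNat 145412535788679130422231908331625902355927583962864497475977216, .ofNat 47673815282586053673253339481407911034880475632237089164099584, .ofNat 0⟩)
    (by decide +kernel)
theorem L01786 : Good (Phi V5.P V5.D 1 (-1)) ⟨3, 3, 4, 10, 5, 14, 4, 11, 6, 29⟩ :=
  out_sound (S := T5.ds_pm) T5.ok_pm (w := 47) (j := 3) (by decide +kernel)
theorem L01787 : Good (Phi V5.P V5.D 1 (-1)) ⟨2, 1, 4, 11, 5, 14, 4, 11, 6, 29⟩ :=
  out_sound (S := T5.ds_pm) T5.ok_pm (w := 41) (j := 3) (by decide +kernel)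
theorem L01788 : Good (Phi V5.P V5.D 1 (-1)) ⟨2, 1, 3, 4, 5, 15, 4, 11, 5, 14⟩ :=
  leafYS_sound T5.ok_pm T5.Ypm.bz_eq (w := 258) (c := ⟨⟨.negSucc 1124, .negSucc 328, .ofNat 61, .ofNat 31, .ofNat 18, .ofNat 93⟩, ⟨.ofNat 555, .negSucc 35, .ofNat 123, .negSucc 37, .negSucc 0, .negSucc 64⟩, ⟨.ofNat 2109, .ofNat 522, .ofNat 672, .ofNat 662, .ofNat 516, .ofNat 1127⟩, ⟨.negSucc 3307, .negSucc 207, .ofNat 1, .ofNat 18, .negSucc 67, .ofNat 152⟩, ⟨.negSucc 387, .negSucc 168, .negSucc 130, .negSucc 174, .negSucc 172, .negSucc 222⟩, .ofNat 188, .ofNat 32, .ofNat 0, .ofNat 32, .ofNat 230, .ofNat 0, .ofNat 244, .negSucc 36, .ofNat 55, .ofNat 0, .ofNat 128, .negSucc 148, .ofNat 0, .ofNat 0, .ofNat 1514, .ofNat 4467, .ofNat 0, .ofNat 9787219678082920195206906535470705831719193959989248, .ofNat 0, .ofNat 0, .ofNat 0, .ofNat 0, .ofNat 0, .ofNat 0, .ofNat 0, .ofNat 102760573515111547823960852183528389286444834834350080,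 .ofNat 0, .ofNat 0, .ofNat 0, .ofNat 1236423204498095158329380155967441669765052536205606912, .ofNat 469154066970246238459281825676745906823246865900765184, .ofNat 0⟩)
    (by decide +kernel)
theorem L01789 : Good (Phi V5.P V5.D 1 (-1)) ⟨3, 2, 4, 10, 5, 15, 5, 22, 6, 28⟩ :=
  leafYS_sound T5.ok_pm T5.Ypm.bz_eq (w := 276) (c := ⟨⟨.negSucc 1093, .negSucc 138, .ofNat 40, .ofNat 58, .ofNat 8, .ofNat 71⟩, ⟨.ofNat 672, .ofNat 1, .ofNat 47, .negSucc 39, .negSucc 4, .negSucc 44⟩, ⟨.ofNat 2575, .ofNat 293, .ofNat 505, .ofNat 883, .ofNat 259, .ofNat 865⟩, ⟨.negSucc 3331, .negSucc 59, .ofNat 11, .ofNat 29, .negSucc 24, .ofNat 86⟩, ⟨.negSucc 504, .negSucc 33, .negSucc 93, .negSucc 211, .negSucc 75, .negSucc 163⟩, .ofNat 2130, .ofNat 2684, .ofNat 0, .ofNat 2684, .ofNat 4795, .ofNat 0, .ofNat 152, .negSucc 127, .ofNat 116, .ofNat 0, .ofNat 92, .negSucc 80, .ofNat 0, .ofNat 0, .ofNat 2681, .ofNat 16069, .ofNat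 0, .ofNat 106704340184619376537318975719620424454897761093104435200, .ofNat 93327585331910852002549749489504940645491850800353247232, .ofNat 0, .ofNat 0, .ofNat 0, .ofNat 0, .ofNat 0, .ofNat 0, .ofNat 908210498219027325064073160193916380515885636751150022656, .ofNat 104628333664729494146788643245254484084989596326476906496, .ofNat 0, .ofNat 0, .ofNat 15623228759383917083923630459448104515679287928577421475840, .ofNat 0, .ofNat 0⟩)
    (by decide +kernel)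
theorem L01790 : Good (Phi V5.P V5.D 1 (-1)) ⟨3, 2, 4, 10, 5, 15, 5, 23, 6, 28⟩ :=
  leafYS_sound T5.ok_pm T5.Ypm.bz_eq (w := 276) (c := ⟨⟨.negSucc 1076, .negSucc 144, .ofNat 34, .ofNat 46, .ofNat 2, .ofNat 58⟩, ⟨.ofNat 664, .ofNat 3, .ofNat 53, .negSucc 44, .negSucc 13, .negSucc 45⟩, ⟨.ofNat 2929, .ofNat 289, .ofNat 410, .ofNat 850, .ofNat 324, .ofNat 756⟩, ⟨.negSucc 3336, .negSucc 114, .ofNat 1, .ofNat 24, .negSucc 31, .ofNat 82⟩, ⟨.negSucc 575, .negSucc 96, .negSucc 83, .negSucc 241, .negSucc 114, .negSucc 161⟩, .ofNat 192, .ofNat 38, .ofNat 0, .ofNat 38, .ofNat 230, .ofNat 0, .ofNat 205, .negSucc 41, .ofNat 55, .ofNat 0, .ofNat 128, .negSucc 147, .ofNat 0, .ofNat 0, .ofNat 1361, .ofNat 20045, .ofNat 0, .ofNat 225690023042936859865482742758040778351796038195050708992, .ofNat 0, .ofNat 0, .ofNat 0, .ofNat 1739676244933729876524743771176909373717377051802548043776, .ofNat 0, .ofNat 0, .ofNat 0,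 .ofNat 1272726128563427032224256791773689298119872770225832198144, .ofNat 0, .ofNat 0, .ofNat 0, .ofNat 13562678865714228298019124361221867957161940785689811484672, .ofNat 785290016425026493884157572265885178693637641171309166592, .ofNat 0⟩)
    (by decide +kernel)
theorem L01791 : Good (Phi V5.P V5.D 1 (-1)) ⟨3, 2, 4, 10, 5, 15, 5, 22, 6, 29⟩ :=
  leafYS_sound T5.ok_pm T5.Ypm.bz_eq (w := 277) (c := ⟨⟨.negSucc 1033, .negSucc 137, .ofNat 49, .ofNat 98, .ofNat 23, .ofNat 100⟩, ⟨.ofNat 633, .ofNat 5, .ofNat 44, .negSucc 66, .negSucc 20, .negSucc 64⟩, ⟨.ofNat 3312, .ofNat 277, .ofNat 628, .ofNat 1397, .ofNat 516, .ofNat 1329⟩, ⟨.negSucc 3237, .negSucc 99, .ofNat 12, .ofNat 71, .negSucc 13, .ofNat 114⟩, ⟨.negSucc 617, .negSucc 83, .negSucc 117, .negSucc 334, .negSucc 147, .negSucc 255⟩, .ofNat 455, .ofNat 230, .ofNat 0, .ofNat 230, .ofNat 684, .ofNat 0, .ofNat 231, .negSucc 92, .ofNat 230, .ofNat 0,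 .ofNat 128, .negSucc 267, .ofNat 0, .ofNat 0, .ofNat 5230, .ofNat 39661, .ofNat 0, .ofNat 411220173901103104048429885453018701833279637197206585344, .ofNat 279417268284567606112994945214578183828341260383563022336, .ofNat 0, .ofNat 0, .ofNat 3980521285974276737050842914598616895864124601020895461376, .ofNat 0, .ofNat 0, .ofNat 0, .ofNat 3525018920085688240237047986040554881605696482166423158784, .ofNat 358033943713938491201805124862455562526856739546233569280, .ofNat 0, .ofNat 0, .ofNat 102212567314527230705150280015363173473275017787823230025728, .ofNat 0, .ofNat 0⟩)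
    (by decide +kernel)
theorem L01792 : Good (Phi V5.P V5.D 1 (-1)) ⟨3, 2, 4, 10, 5, 15, 5, 23, 6, 29⟩ :=
  out_sound (S := T5.ds_pm) T5.ok_pm (w := 46) (j := 2) (by decide +kernel)
theorem L01793 : Good (Phi V5.P V5.D 1 (-1)) ⟨3, 2, 4, 11, 5, 15, 4, 11, 5, 14⟩ :=
  out_sound (S := T5.ds_pm) T5.ok_pm (w := 47) (j := 3) (by decide +kernel)
theorem L01794 : Good (Phi V5.P V5.D 1 (-1)) ⟨3, 3, 3, 5, 5, 15, 4, 11, 5, 14⟩ :=
  out_sound (S := T5.ds_pm) T5.ok_pm (w := 45) (j := 3) (by decide +kernel)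
theorem L01795 : Good (Phi V5.P V5.D 1 (-1)) ⟨2, 1, 2, 2, 4, 6, 4, 10, 5, 15⟩ :=
  out_sound (S := T5.ds_pm) T5.ok_pm (w := 32) (j := 1) (by decide +kernel)
theorem L01796 : Good (Phi V5.P V5.D 1 (-1)) ⟨2, 1, 2, 2, 4, 7, 5, 20, 6, 30⟩ :=
  out_sound (S := T5.ds_pm) T5.ok_pm (w := 35) (j := 1) (by decide +kernel)
theorem L01797 : Good (Phi V5.P V5.D 1 (-1)) ⟨2, 1, 2, 2, 5, 14, 6, 42, 7, 60⟩ :=
  out_sound (S := T5.ds_pm) T5.ok_pm (w := 40) (j := 1) (by decide +kernel)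
theorem L01798 : Good (Phi V5.P V5.D 1 (-1)) ⟨2, 1, 2, 2, 6, 28, 6, 43, 7, 60⟩ :=
  out_sound (S := T5.ds_pm) T5.ok_pm (w := 42) (j := 1) (by decide +kernel)
theorem L01799 : Good (Phi V5.P V5.D 1 (-1)) ⟨2, 1, 2, 2, 6, 29, 7, 86, 8, 120⟩ :=
  out_sound (S := T5.ds_pm) T5.ok_pm (w := 45) (j := 1) (by decide +kernel)
theorem L01800 : Good (Phi V5.P V5.D 1 (-1)) ⟨2, 1, 2, 2, 7, 58, 7, 87, 8, 120⟩ :=
  out_sound (S := T5.ds_pm) T5.ok_pm (w := 47) (j := 1) (by decide +kernel)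
theorem L01801 : Good (Phi V5.P V5.D 1 (-1)) ⟨2, 1, 2, 2, 7, 59, 8, 174, 9, 240⟩ :=
  out_sound (S := T5.ds_pm) T5.ok_pm (w := 50) (j := 1) (by decide +kernel)
theorem L01802 : Good (Phi V5.P V5.D 1 (-1)) ⟨2, 1, 2, 2, 8, 118, 8, 175, 9, 240⟩ :=
  out_sound (S := T5.ds_pm) T5.ok_pm (w := 52) (j := 1) (by decide +kernel)
theorem L01803 : Good (Phi V5.P V5.D 1 (-1)) ⟨2, 1, 2, 2, 9, 238, 9, 350, 10, 480⟩ :=
  out_sound (S := T5.ds_pm) T5.ok_pm (w := 57) (j := 1) (by decide +kernel)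
theorem L01804 : Good (Phi V5.P V5.D 1 (-1)) ⟨2, 1, 2, 2, 9, 238, 9, 351, 10, 480⟩ :=
  out_sound (S := T5.ds_pm) T5.ok_pm (w := 70) (j := 2) (by decide +kernel)
theorem L01805 : Good (Phi V5.P V5.D 1 (-1)) ⟨2, 1, 2, 2, 9, 238, 8, 175, 10, 481⟩ :=
  out_sound (S := T5.ds_pm) T5.ok_pm (w := 56) (j := 1) (by decide +kernel)
theorem L01806 : Good (Phi V5.P V5.D 1 (-1)) ⟨2, 1, 2, 2, 9, 239, 8, 175, 9, 240⟩ :=
  out_sound (S := T5.ds_pm) T5.ok_pm (w := 66) (j := 2) (by decide +kernel)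
theorem L01807 : Good (Phi V5.P V5.D 1 (-1)) ⟨2, 1, 2, 2, 7, 59, 7, 87, 9, 241⟩ :=
  out_sound (S := T5.ds_pm) T5.ok_pm (w := 49) (j := 1) (by decide +kernel)
theorem L01808 : Good (Phi V5.P V5.D 1 (-1)) ⟨2, 1, 2, 2, 6, 29, 6, 43, 8, 121⟩ :=
  out_sound (S := T5.ds_pm) T5.ok_pm (w := 44) (j := 1) (by decide +kernel)
theorem L01809 : Good (Phi V5.P V5.D 1 (-1)) ⟨2, 1, 2, 2, 5, 14, 5, 21, 7, 61⟩ :=
  out_sound (S := T5.ds_pm) T5.ok_pm (w := 39) (j := 1) (by decide +kernel)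
theorem L01810 : Good (Phi V5.P V5.D 1 (-1)) ⟨2, 1, 2, 2, 6, 30, 6, 42, 7, 60⟩ :=
  out_sound (S := T5.ds_pm) T5.ok_pm (w := 42) (j := 1) (by decide +kernel)
theorem L01811 : Good (Phi V5.P V5.D 1 (-1)) ⟨2, 1, 2, 2, 7, 60, 8, 172, 9, 240⟩ :=
  out_sound (S := T5.ds_pm) T5.ok_pm (w := 50) (j := 1) (by decide +kernel)
theorem L01812 : Good (Phi V5.P V5.D 1 (-1)) ⟨2, 1, 2, 2, 8, 120, 8, 173, 9, 240⟩ :=
  out_sound (S := T5.ds_pm) T5.ok_pm (w := 52) (j := 1) (by decide +kernel)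
theorem L01813 : Good (Phi V5.P V5.D 1 (-1)) ⟨2, 1, 2, 2, 8, 121, 8, 173, 9, 240⟩ :=
  out_sound (S := T5.ds_pm) T5.ok_pm (w := 64) (j := 2) (by decide +kernel)
theorem L01814 : Good (Phi V5.P V5.D 1 (-1)) ⟨2, 1, 2, 2, 7, 60, 7, 86, 9, 241⟩ :=
  out_sound (S := T5.ds_pm) T5.ok_pm (w := 49) (j := 1) (by decide +kernel)
theorem L01815 : Good (Phi V5.P V5.D 1 (-1)) ⟨2, 1, 2, 2, 7, 60, 7, 86, 8, 121⟩ :=
  out_sound (S := T5.ds_pm) T5.ok_pm (w := 47) (j := 1) (by decide +kernel)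
theorem L01816 : Good (Phi V5.P V5.D 1 (-1)) ⟨2, 1, 2, 2, 7, 60, 7, 87, 7, 60⟩ :=
  out_sound (S := T5.ds_pm) T5.ok_pm (w := 56) (j := 2) (by decide +kernel)
theorem L01817 : Good (Phi V5.P V5.D 1 (-1)) ⟨2, 1, 2, 2, 7, 61, 6, 43, 7, 60⟩ :=
  out_sound (S := T5.ds_pm) T5.ok_pm (w := 54) (j := 2) (by decide +kernel)
theorem L01818 : Good (Phi V5.P V5.D 1 (-1)) ⟨2, 1, 2, 2, 6, 30, 5, 21, 7, 61⟩ :=
  out_sound (S := T5.ds_pm) T5.ok_pm (w := 41) (j := 1) (by decide +kernel)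
theorem L01819 : Good (Phi V5.P V5.D 1 (-1)) ⟨2, 1, 2, 2, 6, 31, 5, 21, 6, 30⟩ :=
  out_sound (S := T5.ds_pm) T5.ok_pm (w := 48) (j := 2) (by decide +kernel)
theorem L01820 : Good (Phi V5.P V5.D 1 (-1)) ⟨2, 1, 2, 2, 4, 7, 4, 10, 6, 31⟩ :=
  out_sound (S := T5.ds_pm) T5.ok_pm (w := 34) (j := 1) (by decide +kernel)
theorem L01821 : Good (Phi V5.P V5.D 1 (-1)) ⟨2, 1, 3, 4, 4, 6, 4, 11, 5, 15⟩ :=
  leafYS_sound T5.ok_pm T5.Ypm.bz_eq (w := 247) (c := ⟨⟨.negSucc 1126, .negSucc 342, .ofNat 50, .ofNat 66, .negSucc 7, .ofNat 27⟩, ⟨.ofNat 535, .negSucc 41, .ofNat 123, .negSucc 33, .ofNat 32, .negSucc 83⟩, ⟨.ofNat 1304, .ofNat 505, .ofNat 686, .ofNat 1361, .ofNat 122, .ofNat 957⟩, ⟨.negSucc 3126, .negSucc 209, .negSucc 12, .negSucc 22, .negSucc 117, .ofNat 88⟩, ⟨.negSucc 112, .negSucc 162, .negSucc 129, .negSucc 349, .negSucc 87, .negSucc 193⟩, .ofNat 419, .ofNat 185, .ofNat 0, .ofNat 185, .ofNat 668, .ofNat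 0, .ofNat 283, .negSucc 82, .ofNat 62, .ofNat 0, .ofNat 128, .negSucc 116, .ofNat 0, .ofNat 0, .ofNat 2865, .ofNat 49001, .ofNat 0, .ofNat 0, .ofNat 0, .ofNat 0, .ofNat 0, .ofNat 0, .ofNat 0, .ofNat 0, .ofNat 3493017793916351110449888522830642077079102874976256, .ofNat 5463718209349328450103340061274776340494892924928, .ofNat 92838938154623797981139377801277213009216530284544, .ofNat 0, .ofNat 73237953641335448027918144129441764000613990521634816, .ofNat 622503179307432155658320307383836702209185857667072, .ofNat 428252841379844180689798563470960198745329745526784, .ofNat 0⟩)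
    (by decide +kernel)
theorem L01822 : Good (Phi V5.P V5.D 1 (-1)) ⟨2, 1, 3, 5, 4, 6, 4, 11, 5, 15⟩ :=
  leafYS_sound T5.ok_pm T5.Ypm.bz_eq (w := 247) (c := ⟨⟨.negSucc 1071, .negSucc 289, .ofNat 61, .ofNat 76, .negSucc 40, .ofNat 157⟩, ⟨.ofNat 668, .ofNat 4, .ofNat 104, .negSucc 51, .ofNat 20, .negSucc 97⟩, ⟨.ofNat 1929, .ofNat 512, .ofNat 919, .ofNat 1615, .negSucc 38, .ofNat 2009⟩, ⟨.negSucc 3141, .negSucc 194, .ofNat 0, .negSucc 20, .negSucc 119, .ofNat 145⟩, ⟨.negSucc 245, .negSucc 150, .negSucc 173, .negSucc 387, .negSucc 45, .negSucc 424⟩, .ofNat 951, .ofNat 866, .ofNat 0, .ofNat 866, .ofNat 1807, .ofNat 0, .ofNat 128, .negSucc 165, .ofNat 175, .ofNat 0, .ofNat 146, .negSucc 161, .ofNat 0, .ofNat 0, .ofNat 5476, .ofNat 44819, .ofNat 197213523109348661305499984267013537709830766067712, .ofNat 5842762101160307331279569273571490524421519572992, .ofNat 106807833850305833006932916586810127853997621510144,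 .ofNat 0, .ofNat 2042076274166035923042869511188483506282203401158656, .ofNat 0, .ofNat 688947604567463034696160207923410920425390314881024, .ofNat 0, .ofNat 10874468580078551913756865480697019828583951134359552, .ofNat 42446466623592704412409812612942642053069852901376, .ofNat 258507868191312199224654100263872265490948979425280, .ofNat 0, .ofNat 231324386630424252218032290850124352426003128559599616, .ofNat 2508941226539565223081468354106821762273084845326336, .ofNat 5224430834549920030243377822839209385423477541961728, .ofNat 0⟩)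
    (by decide +kernel)
theorem L01823 : Good (Phi V5.P V5.D 1 (-1)) ⟨2, 1, 3, 4, 5, 14, 4, 11, 6, 30⟩ :=
  leafYS_sound T5.ok_pm T5.Ypm.bz_eq (w := 265) (c := ⟨⟨.negSucc 1117, .negSucc 328, .ofNat 78, .ofNat 93, .ofNat 66, .ofNat 42⟩, ⟨.ofNat 508, .negSucc 46, .ofNat 104, .negSucc 9, .ofNat 40, .negSucc 39⟩, ⟨.ofNat 2224, .ofNat 612, .ofNat 1062, .ofNat 1066, .ofNat 534, .ofNat 641⟩, ⟨.negSucc 3189, .negSucc 208, .ofNat 9, .ofNat 39, .negSucc 64, .ofNat 70⟩, ⟨.negSucc 351, .negSucc 190, .negSucc 200, .negSucc 269, .negSucc 204, .negSucc 141⟩, .ofNat 187, .ofNat 31, .ofNat 0, .ofNat 31, .ofNat 231, .ofNat 0, .ofNat 243, .negSucc 34, .ofNat 71, .ofNat 0, .ofNat 128, .negSucc 198, .ofNat 0, .ofNat 0, .ofNat 1960, .ofNat 14599, .ofNat 0, .ofNat 198252424164071148606852095342548365879000385814790144, .ofNat 0, .ofNat 0, .ofNat 0, .ofNat 0, .ofNat 0, .ofNat 0, .ofNat 38743810239622405695822591430330436832053792145437360128,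 .ofNat 1092458140089723203199964878801733953322127426209185792, .ofNat 0, .ofNat 0, .ofNat 1111265726680366875533628914570258774632322273946263093248, .ofNat 17852961671042196534298392715916363562582090190862417920, .ofNat 55728928972674084459268652622947751972665482295002529792, .ofNat 0⟩)
    (by decide +kernel)
theorem L01824 : Good (Phi V5.P V5.D 1 (-1)) ⟨2, 1, 4, 10, 5, 14, 5, 22, 6, 30⟩ :=
  leafYS_sound T5.ok_pm T5.Ypm.bz_eq (w := 274) (c := ⟨⟨.negSucc 1058, .negSucc 269, .ofNat 58, .ofNat 128, .ofNat 32, .ofNat 98⟩, ⟨.ofNat 641, .ofNat 6, .ofNat 39, .negSucc 71, .negSucc 14, .negSucc 57⟩, ⟨.ofNat 2911, .ofNat 617, .ofNat 783, .ofNat 1799, .ofNat 532, .ofNat 1319⟩, ⟨.negSucc 3200, .negSucc 199, .ofNat 14, .ofNat 75, .negSucc 19, .ofNat 94⟩, ⟨.negSucc 462, .negSucc 195, .negSucc 149, .negSucc 420, .negSucc 167, .negSucc 277⟩, .ofNat 453, .ofNat 229, .ofNat 0, .ofNat 229, .ofNat 684, .ofNat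 0, .ofNat 243, .negSucc 91, .ofNat 173, .ofNat 0, .ofNat 128, .negSucc 210, .ofNat 0, .ofNat 0, .ofNat 4191, .ofNat 74151, .ofNat 0, .ofNat 18960099660934143408661706144643797715005770516205142016, .ofNat 1836202030490179881358932946566943532764985395241384148992, .ofNat 0, .ofNat 0, .ofNat 26715410995463974512662987577486811409337589351470596096, .ofNat 11670016675346458786871889685785284272375793333098665476096, .ofNat 0, .ofNat 20831143881195097678005758819584156921739767534362952728576, .ofNat 92521881133363115977773250964977039431405150942418436096, .ofNat 3362340837952887599517774502295047680513588423648471941120, .ofNat 0, .ofNat 481973963068897383059187407945253483769267172891513537429504, .ofNat 2960417920060180500202084239629933549029578553140371783680, .ofNat 19550360668770210763656109397359681410592296903411842940928, .ofNat 0⟩)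
    (by decide +kernel)
theorem L01825 : Good (Phi V5.P V5.D 1 (-1)) ⟨2, 1, 4, 10, 5, 14, 5, 23, 6, 30⟩ :=
  leafYS_sound T5.ok_pm T5.Ypm.bz_eq (w := 274) (c := ⟨⟨.negSucc 1019, .negSucc 274, .ofNat 54, .ofNat 96, .ofNat 12, .ofNat 80⟩, ⟨.ofNat 625, .ofNat 8, .ofNat 39, .negSucc 62, .negSucc 14, .negSucc 51⟩, ⟨.ofNat 3496, .ofNat 602, .ofNat 764, .ofNat 1462, .ofNat 389, .ofNat 1109⟩, ⟨.negSucc 3214, .negSucc 210, .ofNat 11, .ofNat 54, .negSucc 29, .ofNat 85⟩, ⟨.negSucc 638, .negSucc 189, .negSucc 142, .negSucc 377, .negSucc 143, .negSucc 240⟩, .ofNat 454, .ofNat 229, .ofNat 0, .ofNat 229, .ofNat 683, .ofNat 0, .ofNat 279, .negSucc 91, .ofNat 120, .ofNat 0, .ofNat 128, .negSucc 151, .ofNat 0, .ofNat 0, .ofNat 3001, .ofNat 57648, .ofNat 0, .ofNat 27776847093432699208050283719090325858794534222394556416, .ofNat 476743685861305213260512193051424865656386458540402802688, .ofNat 0, .ofNat 0, .ofNat 200441740543000481691792112791891364255831607199467044864,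 .ofNat 20023207345423965611055490748843158916096685976372379648000, .ofNat 0, .ofNat 0, .ofNat 187467942682057497756535368209235226622488621397821095936, .ofNat 5050412824235807982357200477538474700634365851987760644096, .ofNat 0, .ofNat 0, .ofNat 3356002871403927391516037788416005788604909714152427094016, .ofNat 21062143928115128585408645589084363685413336306107990147072, .ofNat 0⟩)
    (by decide +kernel)
theorem L01826 : Good (Phi V5.P V5.D 1 (-1)) ⟨2, 1, 4, 11, 5, 14, 4, 11, 6, 30⟩ :=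
  out_sound (S := T5.ds_pm) T5.ok_pm (w := 41) (j := 3) (by decide +kernel)
theorem L01827 : Good (Phi V5.P V5.D 1 (-1)) ⟨2, 1, 2, 2, 5, 14, 5, 22, 6, 31⟩ :=
  out_sound (S := T5.ds_pm) T5.ok_pm (w := 37) (j := 1) (by decide +kernel)
theorem L01828 : Good (Phi V5.P V5.D 1 (-1)) ⟨2, 1, 2, 2, 5, 14, 5, 23, 6, 31⟩ :=
  out_sound (S := T5.ds_pm) T5.ok_pm (w := 46) (j := 2) (by decide +kernel)
theorem L01829 : Good (Phi V5.P V5.D 1 (-1)) ⟨2, 1, 2, 2, 5, 15, 4, 11, 5, 15⟩ :=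
  out_sound (S := T5.ds_pm) T5.ok_pm (w := 42) (j := 2) (by decide +kernel)
theorem L01830 : Good (Phi V5.P V5.D 1 (-1)) ⟨3, 2, 3, 4, 3, 2, 3, 6, 4, 7⟩ :=
  leafYS_sound T5.ok_pm T5.Ypm.bz_eq (w := 226) (c := ⟨⟨.negSucc 1077, .negSucc 165, .ofNat 9, .negSucc 35, .negSucc 107, .ofNat 40⟩, ⟨.ofNat 536, .ofNat 3, .ofNat 136, .ofNat 20, .ofNat 61, .negSucc 24⟩, ⟨.ofNat 1070, .ofNat 153, .ofNat 195, .ofNat 708, .negSucc 270, .ofNat 243⟩, ⟨.negSucc 3030, .negSucc 125, .negSucc 24, .negSucc 219, .negSucc 256, .ofNat 74⟩, ⟨.negSucc 96, .negSucc 42, .negSucc 34, .negSucc 208, .ofNat 47, .negSucc 61⟩, .ofNat 819, .ofNat 684, .ofNat 0, .ofNat 684, .ofNat 1629, .ofNat 0, .ofNat 167, .negSucc 127, .negSucc 31, .ofNat 0, .ofNat 120, .negSucc 2, .ofNat 0, .ofNat 0, .ofNat 1532, .ofNat 8897, .ofNat 0, .ofNat 190119134897127937596387523541803672256118784, .ofNat 0, .ofNat 0, .ofNat 0, .ofNat 0, .ofNat 0, .ofNat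 0, .ofNat 0, .ofNat 0, .ofNat 0, .ofNat 0, .ofNat 437544457791226438627561572190454305099800903680, .ofNat 11308805445449175214800751862457519009477689344, .ofNat 0, .ofNat 0⟩)
    (by decide +kernel)
theorem L01831 : Good (Phi V5.P V5.D 1 (-1)) ⟨3, 2, 3, 5, 4, 4, 3, 6, 4, 7⟩ :=
  leafYS_sound T5.ok_pm T5.Ypm.bz_eq (w := 241) (c := ⟨⟨.negSucc 1076, .negSucc 154, .negSucc 3, .negSucc 24, .negSucc 93, .ofNat 26⟩, ⟨.ofNat 669, .ofNat 8, .ofNat 135, .ofNat 14, .ofNat 58, .negSucc 14⟩, ⟨.ofNat 1210, .ofNat 196, .ofNat 188, .ofNat 312, .negSucc 162, .ofNat 24⟩, ⟨.negSucc 3059, .negSucc 125, .negSucc 44, .negSucc 120, .negSucc 228, .ofNat 68⟩, ⟨.negSucc 123, .negSucc 57, .negSucc 45, .negSucc 90, .ofNat 33, .ofNat 4⟩, .ofNat 951, .ofNat 864, .ofNat 0, .ofNat 864, .ofNat 1804, .ofNat 0, .ofNat 128, .negSucc 127, .negSucc 16, .ofNat 0, .ofNat 114, .ofNat 2, .ofNat 0, .ofNat 0, .ofNat 694, .ofNat 22207, .ofNat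 0, .ofNat 0, .ofNat 35637293575139492312615778472317022476580159488, .ofNat 0, .ofNat 0, .ofNat 0, .ofNat 0, .ofNat 0, .ofNat 0, .ofNat 0, .ofNat 0, .ofNat 0, .ofNat 366101202974356749687363101089068015258180134109184, .ofNat 0, .ofNat 99745627338859692660156797409010064638408130560, .ofNat 0⟩)
    (by decide +kernel)
theorem L01832 : Good (Phi V5.P V5.D 1 (-1)) ⟨3, 2, 4, 10, 4, 5, 4, 12, 4, 7⟩ :=
  leafYS_sound T5.ok_pm T5.Ypm.bz_eq (w := 248) (c := ⟨⟨.negSucc 1114, .negSucc 151, .ofNat 13, .negSucc 4, .negSucc 39, .ofNat 49⟩, ⟨.ofNat 690, .ofNat 6, .ofNat 68, .ofNat 3, .ofNat 23, .negSucc 30⟩, ⟨.ofNat 1372, .ofNat 221, .ofNat 140, .ofNat 537, .negSucc 36, .ofNat 415⟩, ⟨.negSucc 3183, .negSucc 125, .negSucc 6, .negSucc 105, .negSucc 108, .ofNat 87⟩, ⟨.negSucc 160, .negSucc 74, .negSucc 23, .negSucc 155, .negSucc 11, .negSucc 83⟩, .ofNat 453, .ofNat 228, .ofNat 0, .ofNat 228, .ofNat 684, .ofNat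 0, .ofNat 165, .negSucc 91, .negSucc 28, .ofNat 0, .ofNat 128, .negSucc 52, .ofNat 0, .ofNat 0, .ofNat 2415, .ofNat 20040, .ofNat 2712831282553823185223463946870033341684132756848640, .ofNat 28377481716875586238761582298606189976640238387200, .ofNat 583666252077579983343751810437917978551289643008, .ofNat 0, .ofNat 0, .ofNat 0, .ofNat 0, .ofNat 0, .ofNat 17054661358343547131806271456489988198380054826188800, .ofNat 0, .ofNat 1506100458045312942255610999101904750850951086080, .ofNat 0, .ofNat 309747649526960616332440866341327905887541727183503360, .ofNat 2874396315218035558439598324062253093606725724930048, .ofNat 36485932809841300584627085335714433300782716551168, .ofNat 0⟩)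
    (by decide +kernel)
theorem L01833 : Good (Phi V5.P V5.D 1 (-1)) ⟨3, 2, 4, 10, 4, 5, 4, 13, 4, 7⟩ :=
  leafYS_sound T5.ok_pm T5.Ypm.bz_eq (w := 247) (c := ⟨⟨.negSucc 1140, .negSucc 163, .ofNat 5, .negSucc 9, .negSucc 64, .ofNat 38⟩, ⟨.ofNat 708, .ofNat 9, .ofNat 70, .ofNat 5, .ofNat 37, .negSucc 22⟩, ⟨.ofNat 1393, .ofNat 205, .ofNat 116, .ofNat 534, .negSucc 113, .ofNat 248⟩, ⟨.negSucc 3265, .negSucc 151, .negSucc 18, .negSucc 127, .negSucc 165, .ofNat 73⟩, ⟨.negSucc 168, .negSucc 84, .negSucc 25, .negSucc 170, .ofNat 5, .negSucc 50⟩, .ofNat 455, .ofNat 230, .ofNat 0, .ofNat 230, .ofNat 684, .ofNat 0, .ofNat 160, .negSucc 91, .negSucc 15, .ofNat 0, .ofNat 128, .negSucc 61, .ofNat 0, .ofNat 0, .ofNat 2045, .ofNat 11689, .ofNat 0, .ofNat 58504905546668214112712564251220304476858398801920, .ofNat 211291190767892477141827847013419342468220977152, .ofNat 0, .ofNat 0, .ofNat 0, .ofNat 0, .ofNat 0,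 .ofNat 0, .ofNat 172390642794536041742227285621440941696103055622144, .ofNat 1218101691872706742773787212310401523637488189440, .ofNat 0, .ofNat 0, .ofNat 5241390185668583031415495576120466245938100968620032, .ofNat 24552786080052661010700743889110155905503898632192, .ofNat 0⟩)
    (by decide +kernel)
theorem L01834 : Good (Phi V5.P V5.D 1 (-1)) ⟨3, 2, 4, 11, 4, 5, 3, 6, 4, 7⟩ :=
  out_sound (S := T5.ds_pm) T5.ok_pm (w := 47) (j := 3) (by decide +kernel)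
theorem L01835 : Good (Phi V5.P V5.D 1 (-1)) ⟨3, 3, 3, 4, 3, 2, 3, 6, 4, 7⟩ :=
  leafYS_sound T5.ok_pm T5.Ypm.bz_eq (w := 226) (c := ⟨⟨.negSucc 1229, .negSucc 215, .ofNat 20, .negSucc 59, .negSucc 126, .ofNat 48⟩, ⟨.ofNat 548, .negSucc 62, .ofNat 136, .ofNat 14, .ofNat 54, .negSucc 22⟩, ⟨.ofNat 1156, .ofNat 344, .ofNat 269, .ofNat 743, .negSucc 135, .ofNat 142⟩, ⟨.negSucc 3134, .negSucc 118, .negSucc 16, .negSucc 255, .negSucc 308, .ofNat 101⟩, ⟨.negSucc 88, .negSucc 90, .negSucc 51, .negSucc 266, .negSucc 14, .negSucc 34⟩, .ofNat 662, .ofNat 512, .ofNat 0, .ofNat 512, .ofNat 1514, .ofNat 0, .ofNat 178, .negSucc 127, .negSucc 48, .ofNat 0, .ofNat 125, .negSucc 3, .ofNat 0, .ofNat 0, .ofNat 1675, .ofNat 9729, .ofNat 0, .ofNat 226915343168308017914451341052851675398668288, .ofNat 147490257952893370738393327858528708198400, .ofNat 0, .ofNat 0, .ofNat 2920440533827174722293106622629840925270999040,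 .ofNat 0, .ofNat 0, .ofNat 0, .ofNat 0, .ofNat 0, .ofNat 0, .ofNat 468322280880352116306352802390091354005328363520, .ofNat 11447788636951067521055024623564413438925996032, .ofNat 11713212957849954114551447261781220420222976, .ofNat 0⟩)
    (by decide +kernel)
theorem L01836 : Good (Phi V5.P V5.D 1 (-1)) ⟨3, 3, 3, 5, 3, 2, 3, 6, 4, 7⟩ :=
  out_sound (S := T5.ds_pm) T5.ok_pm (w := 45) (j := 3) (by decide +kernel)
theorem L01837 : Good (Phi V5.P V5.D 1 (-1)) ⟨2, 1, 2, 2, 3, 2, 4, 14, 5, 14⟩ :=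
  leafYS_sound T5.ok_pm T5.Ypm.bz_eq (w := 226) (c := ⟨⟨.negSucc 1159, .negSucc 401, .ofNat 5, .negSucc 66, .negSucc 84, .ofNat 15⟩, ⟨.ofNat 579, .negSucc 28, .ofNat 291, .ofNat 50, .ofNat 47, .ofNat 2⟩, ⟨.ofNat 965, .ofNat 445, .ofNat 256, .ofNat 511, .negSucc 107, .negSucc 27⟩, ⟨.negSucc 3219, .negSucc 360, .negSucc 49, .negSucc 339, .negSucc 212, .ofNat 26⟩, ⟨.negSucc 63, .negSucc 163, .negSucc 43, .negSucc 202, .ofNat 33, .ofNat 13⟩, .ofNat 187, .ofNat 32, .ofNat 0, .ofNat 32, .ofNat 231, .ofNat 0, .ofNat 385, .negSucc 33, .negSucc 67, .ofNat 0, .ofNat 128, .negSucc 45, .ofNat 0, .ofNat 0, .ofNat 625, .ofNat 2143, .ofNat 0, .ofNat 23622111512775797257850219368677303857971200, .ofNat 77007606009959905371788810091696584833105920, .ofNat 0, .ofNat 0, .ofNat 0, .ofNat 0, .ofNat 0, .ofNat 0, .ofNat 210725285005304229539777558619461951674122240, .ofNat 0, .ofNat 0, .ofNat 0, .ofNat 1027377648475183861559020207548098341626707968,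 .ofNat 1453075758557974302454607133753979483562442752, .ofNat 0⟩)
    (by decide +kernel)
theorem L01838 : Good (Phi V5.P V5.D 1 (-1)) ⟨2, 1, 2, 2, 3, 2, 4, 14, 5, 15⟩ :=
  leafYS_sound T5.ok_pm T5.Ypm.bz_eq (w := 226) (c := ⟨⟨.negSucc 1149, .negSucc 393, .ofNat 5, .negSucc 74, .negSucc 78, .negSucc 4⟩, ⟨.ofNat 585, .negSucc 35, .ofNat 284, .ofNat 36, .ofNat 51, .negSucc 0⟩, ⟨.ofNat 924, .ofNat 462, .ofNat 286, .ofNat 489, .negSucc 139, .negSucc 39⟩, ⟨.negSucc 3208, .negSucc 336, .negSucc 43, .negSucc 328, .negSucc 210, .ofNat 22⟩, ⟨.negSucc 53, .negSucc 157, .negSucc 47, .negSucc 197, .ofNat 42, .ofNat 20⟩, .ofNat 187, .ofNat 31, .ofNat 0, .ofNat 31, .ofNat 231, .ofNat 0, .ofNat 205, .negSucc 32, .negSucc 41, .ofNat 0, .ofNat 128, .negSucc 35, .ofNat 0, .ofNat 0, .ofNat 437, .ofNat 2160, .ofNat 0, .ofNat 30973188778767734254299559690541379197337600, .ofNat 109159004738786708267325423722237155306635264,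 .ofNat 0, .ofNat 0, .ofNat 0, .ofNat 0, .ofNat 0, .ofNat 0, .ofNat 0, .ofNat 0, .ofNat 0, .ofNat 0, .ofNat 778650109091651757803379345187427605523988480, .ofNat 262659760712544237536917849267636418308472832, .ofNat 0⟩)
    (by decide +kernel)
theorem L01839 : Good (Phi V5.P V5.D 1 (-1)) ⟨2, 1, 2, 2, 3, 2, 4, 15, 4, 7⟩ :=
  out_sound (S := T5.ds_pm) T5.ok_pm (w := 36) (j := 2) (by decide +kernel)
theorem L01840 : Good (Phi V5.P V5.D 1 (-1)) ⟨3, 2, 3, 4, 4, 6, 3, 6, 5, 14⟩ :=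
  leafYS_sound T5.ok_pm T5.Ypm.bz_eq (w := 245) (c := ⟨⟨.negSucc 1151, .negSucc 159, .ofNat 27, .ofNat 24, .negSucc 74, .ofNat 46⟩, ⟨.ofNat 571, .negSucc 0, .ofNat 132, .negSucc 19, .ofNat 38, .negSucc 28⟩, ⟨.ofNat 1384, .ofNat 246, .ofNat 390, .ofNat 837, .ofNat 46, .ofNat 469⟩, ⟨.negSucc 3278, .negSucc 124, .negSucc 19, .negSucc 63, .negSucc 239, .ofNat 73⟩, ⟨.negSucc 200, .negSucc 81, .negSucc 75, .negSucc 234, .negSucc 79, .negSucc 93⟩, .ofNat 436, .ofNat 200, .ofNat 0, .ofNat 200, .ofNat 670, .ofNat 0, .ofNat 128, .negSucc 99, .ofNat 24, .ofNat 0, .ofNat 149, .negSucc 84, .ofNat 0, .ofNat 0, .ofNat 2336, .ofNat 8019, .ofNat 0, .ofNat 7434670476552323149207013466067629558393275940864, .ofNat 0, .ofNat 0, .ofNat 0, .ofNat 38127594968489771940221752281403482128770270232576, .ofNat 0, .ofNat 0, .ofNat 0, .ofNat 108634662299202947473939924642397546653158649888768, .ofNat 0, .ofNat 0, .ofNat 0, .ofNat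 1353364638315399103523228349105338499946196905230336, .ofNat 0, .ofNat 0⟩)
    (by decide +kernel)
theorem L01841 : Good (Phi V5.P V5.D 1 (-1)) ⟨3, 2, 4, 10, 5, 12, 3, 6, 5, 14⟩ :=
  leafYS_sound T5.ok_pm T5.Ypm.bz_eq (w := 263) (c := ⟨⟨.negSucc 1135, .negSucc 156, .ofNat 13, .ofNat 17, .negSucc 62, .ofNat 49⟩, ⟨.ofNat 702, .ofNat 5, .ofNat 68, .negSucc 11, .ofNat 34, .negSucc 27⟩, ⟨.ofNat 1679, .ofNat 208, .ofNat 179, .ofNat 490, .ofNat 207, .ofNat 508⟩, ⟨.negSucc 3313, .negSucc 94, .negSucc 26, .negSucc 26, .negSucc 215, .ofNat 64⟩, ⟨.negSucc 281, .negSucc 31, .negSucc 47, .negSucc 120, .negSucc 93, .negSucc 100⟩, .ofNat 2141, .ofNat 2706, .ofNat 0, .ofNat 2706, .ofNat 4835, .ofNat 0, .ofNat 128, .negSucc 164, .ofNat 59, .ofNat 0, .ofNat 118, .negSucc 48, .ofNat 0, .ofNat 0, .ofNat 2969, .ofNat 15196, .ofNat 0, .ofNat 458806421953539811273249534805733833035080899590356992, .ofNat 9909213099142312215090704150281093327332926596055040,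 .ofNat 0, .ofNat 0, .ofNat 0, .ofNat 0, .ofNat 0, .ofNat 0, .ofNat 2198166440468868604571639139106246346977081907602259968, .ofNat 41800006746889746104712163763139137939758854476660736, .ofNat 0, .ofNat 0, .ofNat 41133978829073334002670894036807368486266828938702487552, .ofNat 1511126348206529177198815031217746481886525215022776320, .ofNat 0⟩)
    (by decide +kernel)
theorem L01842 : Good (Phi V5.P V5.D 1 (-1)) ⟨3, 2, 4, 11, 5, 12, 3, 6, 5, 14⟩ :=
  out_sound (S := T5.ds_pm) T5.ok_pm (w := 47) (j := 3) (by decide +kernel)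
theorem L01843 : Good (Phi V5.P V5.D 1 (-1)) ⟨3, 2, 4, 10, 5, 13, 4, 12, 5, 14⟩ :=
  leafYS_sound T5.ok_pm T5.Ypm.bz_eq (w := 267) (c := ⟨⟨.negSucc 1135, .negSucc 146, .ofNat 23, .ofNat 31, .negSucc 28, .ofNat 66⟩, ⟨.ofNat 700, .ofNat 2, .ofNat 59, .negSucc 16, .ofNat 17, .negSucc 39⟩, ⟨.ofNat 1976, .ofNat 303, .ofNat 327, .ofNat 586, .ofNat 113, .ofNat 742⟩, ⟨.negSucc 3347, .negSucc 113, .negSucc 8, .negSucc 18, .negSucc 118, .ofNat 85⟩, ⟨.negSucc 339, .negSucc 93, .negSucc 65, .negSucc 159, .negSucc 75, .negSucc 149⟩, .ofNat 939, .ofNat 850, .ofNat 0, .ofNat 850, .ofNat 1791, .ofNat 0, .ofNat 155, .negSucc 127, .ofNat 72, .ofNat 0, .ofNat 113, .negSucc 71, .ofNat 0, .ofNat 0, .ofNat 2619, .ofNat 14677, .ofNat 0, .ofNat 2345109077350628951020043871740088956138852267818221568, .ofNat 183798506223796638706819772818922812125444030825758720, .ofNat 0, .ofNat 0, .ofNat 0, .ofNat 0, .ofNat 0, .ofNat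 0, .ofNat 21197252324203839695653080835019209376673320741910872064, .ofNat 263092543659781510569440206833143548939419929110642688, .ofNat 0, .ofNat 0, .ofNat 329246924983109792530495025853252083938868792735144345600, .ofNat 7821875178985742765526094206507228964110966301281746944, .ofNat 0⟩)
    (by decide +kernel)
theorem L01844 : Good (Phi V5.P V5.D 1 (-1)) ⟨3, 2, 4, 11, 5, 13, 4, 12, 5, 14⟩ :=
  out_sound (S := T5.ds_pm) T5.ok_pm (w := 47) (j := 3) (by decide +kernel)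
theorem L01845 : Good (Phi V5.P V5.D 1 (-1)) ⟨3, 2, 3, 5, 5, 13, 4, 13, 5, 14⟩ :=
  out_sound (S := T5.ds_pm) T5.ok_pm (w := 42) (j := 2) (by decide +kernel)
theorem L01846 : Good (Phi V5.P V5.D 1 (-1)) ⟨3, 3, 2, 2, 4, 6, 3, 6, 5, 14⟩ :=
  leafYS_sound T5.ok_pm T5.Ypm.bz_eq (w := 241) (c := ⟨⟨.negSucc 1308, .negSucc 220, .ofNat 54, .ofNat 16, .negSucc 107, .ofNat 48⟩, ⟨.ofNat 566, .negSucc 56, .ofNat 263, .negSucc 16, .ofNat 42, .negSucc 23⟩, ⟨.ofNat 1663, .ofNat 298, .ofNat 809, .ofNat 804, .negSucc 11, .ofNat 420⟩, ⟨.negSucc 3394, .negSucc 123, .negSucc 47, .negSucc 68, .negSucc 289, .ofNat 70⟩, ⟨.negSucc 291, .negSucc 81, .negSucc 159, .negSucc 228, .negSucc 83, .negSucc 84⟩, .ofNat 675, .ofNat 529, .ofNat 0, .ofNat 529, .ofNat 1528, .ofNat 0, .ofNat 266, .negSucc 127, .ofNat 23, .ofNat 0, .ofNat 123, .negSucc 45, .ofNat 0, .ofNat 0, .ofNat 2336, .ofNat 6290, .ofNat 0, .ofNat 1087787222644797191488990605178486375839929729024,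 .ofNat 87746551791180515112455027032518599464825389056, .ofNat 0, .ofNat 0, .ofNat 0, .ofNat 0, .ofNat 0, .ofNat 0, .ofNat 15323359323122049075336231739281985138865228218368, .ofNat 499698115206177496395825036256329407745830682624, .ofNat 0, .ofNat 0, .ofNat 154297931669448465050298905803160091751699909181440, .ofNat 12234605112640173090534674956315300469294967554048, .ofNat 0⟩)
    (by decide +kernel)
theorem L01847 : Good (Phi V5.P V5.D 1 (-1)) ⟨3, 2, 3, 4, 4, 6, 3, 6, 6, 30⟩ :=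
  leafYS_sound T5.ok_pm T5.Ypm.bz_eq (w := 250) (c := ⟨⟨.negSucc 1121, .negSucc 154, .ofNat 32, .ofNat 45, .negSucc 77, .ofNat 29⟩, ⟨.ofNat 558, .negSucc 0, .ofNat 121, .negSucc 36, .ofNat 35, .negSucc 19⟩, ⟨.ofNat 1564, .ofNat 252, .ofNat 569, .ofNat 1220, .ofNat 9, .ofNat 370⟩, ⟨.negSucc 3222, .negSucc 116, .negSucc 18, .negSucc 38, .negSucc 224, .ofNat 33⟩, ⟨.negSucc 239, .negSucc 84, .negSucc 106, .negSucc 297, .negSucc 57, .negSucc 81⟩, .ofNat 822, .ofNat 689, .ofNat 0, .ofNat 689, .ofNat 1634, .ofNat 0, .ofNat 214, .negSucc 127, .ofNat 77, .ofNat 0, .ofNat 119, .negSucc 88, .ofNat 0, .ofNat 0, .ofNat 3492, .ofNat 11774, .ofNat 0, .ofNat 123648512586662260623432631849816085579431147470848, .ofNat 0, .ofNat 0, .ofNat 0, .ofNat 0, .ofNat 0, .ofNat 0, .ofNat 0, .ofNat 1575133257209094709141608887053111796287264127975424, .ofNat 0, .ofNat 0, .ofNat 0, .ofNat 26890265021746868444453930841605043042486434045886464,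 .ofNat 0, .ofNat 0⟩)
    (by decide +kernel)
theorem L01848 : Good (Phi V5.P V5.D 1 (-1)) ⟨3, 2, 4, 10, 5, 12, 4, 12, 6, 30⟩ :=
  leafYS_sound T5.ok_pm T5.Ypm.bz_eq (w := 273) (c := ⟨⟨.negSucc 1101, .negSucc 148, .ofNat 20, .ofNat 35, .negSucc 25, .ofNat 31⟩, ⟨.ofNat 680, .ofNat 6, .ofNat 59, .negSucc 22, .ofNat 18, .negSucc 24⟩, ⟨.ofNat 2004, .ofNat 231, .ofNat 340, .ofNat 754, .ofNat 113, .ofNat 450⟩, ⟨.negSucc 3237, .negSucc 118, .negSucc 14, .negSucc 20, .negSucc 115, .ofNat 35⟩, ⟨.negSucc 309, .negSucc 79, .negSucc 66, .negSucc 187, .negSucc 72, .negSucc 91⟩, .ofNat 952, .ofNat 866, .ofNat 0, .ofNat 866, .ofNat 1806, .ofNat 0, .ofNat 211, .negSucc 127, .ofNat 119, .ofNat 0, .ofNat 113, .negSucc 120, .ofNat 0, .ofNat 0, .ofNat 4375, .ofNat 35952, .ofNat 0, .ofNat 36503877762416442174772856483358620609671235221892104192, .ofNat 15022079660541055217684246633488122565853042616253284352, .ofNat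 0, .ofNat 0, .ofNat 0, .ofNat 0, .ofNat 0, .ofNat 0, .ofNat 136463005468208724358073333926051457880241451244476956672, .ofNat 16839357179695937584823249811486448435547677067350900736, .ofNat 0, .ofNat 0, .ofNat 3786110830997247542606930521076480046044830453428262010880, .ofNat 1102489840522577265365707774620105437730668090526212816896, .ofNat 0⟩)
    (by decide +kernel)
theorem L01849 : Good (Phi V5.P V5.D 1 (-1)) ⟨3, 2, 4, 10, 5, 12, 4, 13, 6, 30⟩ :=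
  out_sound (S := T5.ds_pm) T5.ok_pm (w := 44) (j := 2) (by decide +kernel)
theorem L01850 : Good (Phi V5.P V5.D 1 (-1)) ⟨3, 2, 4, 10, 5, 13, 4, 12, 6, 30⟩ :=
  leafYS_sound T5.ok_pm T5.Ypm.bz_eq (w := 273) (c := ⟨⟨.negSucc 1075, .negSucc 147, .ofNat 33, .ofNat 62, .negSucc 5, .ofNat 52⟩, ⟨.ofNat 665, .ofNat 3, .ofNat 51, .negSucc 45, .negSucc 3, .negSucc 33⟩, ⟨.ofNat 2625, .ofNat 273, .ofNat 511, .ofNat 1159, .ofNat 444, .ofNat 710⟩, ⟨.negSucc 3265, .negSucc 118, .negSucc 4, .ofNat 7, .negSucc 103, .ofNat 53⟩, ⟨.negSucc 461, .negSucc 94, .negSucc 100, .negSucc 280, .negSucc 168, .negSucc 147⟩, .ofNat 454, .ofNat 229, .ofNat 0, .ofNat 229, .ofNat 684, .ofNat 0, .ofNat 239, .negSucc 91, .ofNat 113, .ofNat 0, .ofNat 128, .negSucc 170, .ofNat 0, .ofNat 0, .ofNat 3586, .ofNat 38551, .ofNat 0, .ofNat 65277556236083004360116447274439266782179732631167434752, .ofNat 18565340341259847787608666097785391016012957699073376256,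 .ofNat 0, .ofNat 0, .ofNat 535934680331540895008262521698567893439856368211852263424, .ofNat 0, .ofNat 0, .ofNat 0, .ofNat 553983654632091748273536207852351919392810154973215064064, .ofNat 0, .ofNat 0, .ofNat 0, .ofNat 10526110121799819329578855687922110159942970878569694101504, .ofNat 232250238310445445454126283948638078707223079964693757952, .ofNat 0⟩)
    (by decide +kernel)
theorem L01851 : Good (Phi V5.P V5.D 1 (-1)) ⟨3, 2, 4, 10, 5, 13, 4, 13, 6, 30⟩ :=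
  out_sound (S := T5.ds_pm) T5.ok_pm (w := 44) (j := 2) (by decide +kernel)
theorem L01852 : Good (Phi V5.P V5.D 1 (-1)) ⟨3, 2, 4, 11, 4, 6, 3, 6, 6, 30⟩ :=
  out_sound (S := T5.ds_pm) T5.ok_pm (w := 47) (j := 3) (by decide +kernel)
theorem L01853 : Good (Phi V5.P V5.D 1 (-1)) ⟨3, 2, 2, 2, 5, 12, 5, 24, 6, 31⟩ :=
  out_sound (S := T5.ds_pm) T5.ok_pm (w := 37) (j := 1) (by decide +kernel)
theorem L01854 : Good (Phi V5.P V5.D 1 (-1)) ⟨3, 2, 2, 2, 6, 24, 7, 100, 8, 124⟩ :=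
  out_sound (S := T5.ds_pm) T5.ok_pm (w := 45) (j := 1) (by decide +kernel)
theorem L01855 : Good (Phi V5.P V5.D 1 (-1)) ⟨3, 2, 2, 2, 7, 48, 7, 101, 9, 248⟩ :=
  out_sound (S := T5.ds_pm) T5.ok_pm (w := 49) (j := 1) (by decide +kernel)
theorem L01856 : Good (Phi V5.P V5.D 1 (-1)) ⟨3, 2, 2, 2, 7, 49, 7, 101, 9, 248⟩ :=
  out_sound (S := T5.ds_pm) T5.ok_pm (w := 60) (j := 2) (by decide +kernel)
theorem L01857 : Good (Phi V5.P V5.D 1 (-1)) ⟨3, 2, 2, 2, 6, 24, 7, 101, 9, 249⟩ :=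
  out_sound (S := T5.ds_pm) T5.ok_pm (w := 47) (j := 1) (by decide +kernel)
theorem L01858 : Good (Phi V5.P V5.D 1 (-1)) ⟨3, 2, 2, 2, 6, 24, 6, 50, 8, 125⟩ :=
  out_sound (S := T5.ds_pm) T5.ok_pm (w := 44) (j := 1) (by decide +kernel)
theorem L01859 : Good (Phi V5.P V5.D 1 (-1)) ⟨3, 2, 2, 2, 6, 24, 6, 51, 7, 62⟩ :=
  out_sound (S := T5.ds_pm) T5.ok_pm (w := 52) (j := 2) (by decide +kernel)
theorem L01860 : Good (Phi V5.P V5.D 1 (-1)) ⟨3, 2, 2, 2, 6, 24, 5, 25, 7, 63⟩ :=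
  out_sound (S := T5.ds_pm) T5.ok_pm (w := 41) (j := 1) (by decide +kernel)
theorem L01861 : Good (Phi V5.P V5.D 1 (-1)) ⟨3, 2, 2, 2, 6, 25, 5, 25, 6, 31⟩ :=
  out_sound (S := T5.ds_pm) T5.ok_pm (w := 48) (j := 2) (by decide +kernel)
theorem L01862 : Good (Phi V5.P V5.D 1 (-1)) ⟨3, 2, 2, 2, 6, 26, 6, 48, 6, 31⟩ :=
  out_sound (S := T5.ds_pm) T5.ok_pm (w := 40) (j := 1) (by decide +kernel)
theorem L01863 : Good (Phi V5.P V5.D 1 (-1)) ⟨3, 2, 2, 2, 6, 26, 6, 49, 6, 31⟩ :=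
  out_sound (S := T5.ds_pm) T5.ok_pm (w := 50) (j := 2) (by decide +kernel)
theorem L01864 : Good (Phi V5.P V5.D 1 (-1)) ⟨3, 2, 2, 2, 6, 27, 5, 24, 6, 31⟩ :=
  out_sound (S := T5.ds_pm) T5.ok_pm (w := 48) (j := 2) (by decide +kernel)
theorem L01865 : Good (Phi V5.P V5.D 1 (-1)) ⟨3, 2, 2, 2, 5, 13, 5, 25, 6, 31⟩ :=
  out_sound (S := T5.ds_pm) T5.ok_pm (w := 46) (j := 2) (by decide +kernel)
theorem L01866 : Good (Phi V5.P V5.D 1 (-1)) ⟨3, 2, 2, 2, 4, 6, 4, 13, 6, 31⟩ :=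
  out_sound (S := T5.ds_pm) T5.ok_pm (w := 42) (j := 2) (by decide +kernel)
theorem L01867 : Good (Phi V5.P V5.D 1 (-1)) ⟨3, 3, 3, 4, 4, 6, 3, 6, 5, 15⟩ :=
  leafYS_sound T5.ok_pm T5.Ypm.bz_eq (w := 245) (c := ⟨⟨.negSucc 1275, .negSucc 216, .ofNat 37, .ofNat 36, .negSucc 97, .ofNat 52⟩, ⟨.ofNat 554, .negSucc 59, .ofNat 124, .negSucc 31, .ofNat 35, .negSucc 30⟩, ⟨.ofNat 1807, .ofNat 379, .ofNat 623, .ofNat 1161, .ofNat 122, .ofNat 527⟩, ⟨.negSucc 3329, .negSucc 127, .negSucc 19, .negSucc 54, .negSucc 296, .ofNat 76⟩, ⟨.negSucc 308, .negSucc 110, .negSucc 118, .negSucc 312, .negSucc 139, .negSucc 114⟩, .ofNat 396, .ofNat 166, .ofNat 0, .ofNat 166, .ofNat 665, .ofNat 0, .ofNat 235, .negSucc 79, .ofNat 35, .ofNat 0, .ofNat 128, .negSucc 101, .ofNat 0, .ofNat 0, .ofNat 2573, .ofNat 9318, .ofNat 0, .ofNat 13800546557541499848631917589821207990780985081856, .ofNat 142219913466160506660352320384310003492238393344,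 .ofNat 0, .ofNat 0, .ofNat 174343277969851322915393197024520071187482265255936, .ofNat 0, .ofNat 0, .ofNat 0, .ofNat 196203027571051023259005155739670608039793509007360, .ofNat 217623857872770184080644283535503499963404386304, .ofNat 0, .ofNat 60711558379737039106166325651566349148977254866354176, .ofNat 2739545400674113014250106574364950847294186144661504, .ofNat 3193648255629772218428350706463234999976590311424, .ofNat 0⟩)
    (by decide +kernel)
theorem L01868 : Good (Phi V5.P V5.D 1 (-1)) ⟨3, 3, 3, 5, 4, 6, 3, 6, 5, 15⟩ :=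
  out_sound (S := T5.ds_pm) T5.ok_pm (w := 45) (j := 3) (by decide +kernel)
theorem L01869 : Good (Phi V5.P V5.D 1 (-1)) ⟨2, 1, 2, 2, 4, 6, 3, 7, 4, 7⟩ :=
  out_sound (S := T5.ds_pm) T5.ok_pm (w := 36) (j := 2) (by decide +kernel)
theorem L01870 : Good (Phi V5.P V5.D 1 (-1)) ⟨2, 1, 2, 2, 5, 14, 4, 12, 5, 14⟩ :=
  leafYS_sound T5.ok_pm T5.Ypm.bz_eq (w := 255) (c := ⟨⟨.negSucc 1147, .negSucc 354, .ofNat 97, .ofNat 37, .negSucc 22, .ofNat 73⟩, ⟨.ofNat 563, .negSucc 45, .ofNat 260, .negSucc 7, .ofNat 9, .negSucc 31⟩, ⟨.ofNat 2014, .ofNat 571, .ofNat 1070, .ofNat 526, .ofNat 236, .ofNat 689⟩, ⟨.negSucc 3353, .negSucc 252, .negSucc 25, .negSucc 15, .negSucc 112, .ofNat 100⟩, ⟨.negSucc 377, .negSucc 201, .negSucc 216, .negSucc 159, .negSucc 121, .negSucc 153⟩, .ofNat 188, .ofNat 32, .ofNat 0, .ofNat 32, .ofNat 231, .ofNat 0, .ofNat 310, .negSucc 35, .ofNat 18, .ofNat 0, .ofNat 128, .negSucc 110, .ofNat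 0, .ofNat 0, .ofNat 1110, .ofNat 4189, .ofNat 0, .ofNat 1511779741981815908658474696068151032757360586129408, .ofNat 57069071071686576601897008138053313789118520122933248, .ofNat 0, .ofNat 0, .ofNat 0, .ofNat 0, .ofNat 0, .ofNat 0, .ofNat 16495336389731937841284655583164701594454826049077248, .ofNat 0, .ofNat 0, .ofNat 0, .ofNat 147226426094453919731428842354977806320504528472899584, .ofNat 698861212325156607771987086780794054811703150433533952, .ofNat 0⟩)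
    (by decide +kernel)
theorem L01871 : Good (Phi V5.P V5.D 1 (-1)) ⟨2, 1, 2, 2, 5, 15, 4, 12, 5, 14⟩ :=
  out_sound (S := T5.ds_pm) T5.ok_pm (w := 42) (j := 2) (by decide +kernel)
theorem L01872 : Good (Phi V5.P V5.D 1 (-1)) ⟨2, 1, 2, 2, 4, 7, 4, 13, 5, 14⟩ :=
  out_sound (S := T5.ds_pm) T5.ok_pm (w := 40) (j := 2) (by decide +kernel)
theorem L01873 : Good (Phi V5.P V5.D 1 (-1)) ⟨2, 1, 2, 2, 4, 7, 3, 6, 5, 15⟩ :=
  out_sound (S := T5.ds_pm) T5.ok_pm (w := 38) (j := 2) (by decide +kernel)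
theorem L01874 : Good (Phi V5.P V5.D 1 (-1)) ⟨2, 1, 2, 2, 4, 7, 3, 7, 4, 7⟩ :=
  out_sound (S := T5.ds_pm) T5.ok_pm (w := 36) (j := 2) (by decide +kernel)
theorem L01875 : Good (Phi V5.P V5.D 1 (-1)) ⟨2, 1, 2, 2, 1, 0, 1, 1, 1, 1⟩ :=
  leafYS_sound T5.ok_pm T5.Ypm.bz_eq (w := 172) (c := ⟨⟨.negSucc 1055, .negSucc 303, .negSucc 2, .ofNat 1, .negSucc 0, .ofNat 1⟩, ⟨.ofNat 546, .negSucc 50, .ofNat 251, .ofNat 0, .ofNat 0, .ofNat 0⟩, ⟨.ofNat 359, .ofNat 303, .ofNat 3, .ofNat 0, .ofNat 0, .ofNat 0⟩, ⟨.negSucc 2924, .negSucc 137, .ofNat 0, .ofNat 1, .negSucc 0, .ofNat 1⟩, ⟨.ofNat 0, .ofNat 0, .ofNat 1, .ofNat 0, .ofNat 0, .ofNat 0⟩, .ofNat 187, .ofNat 32, .ofNat 0, .ofNat 32, .ofNat 231, .ofNat 0, .ofNat 145, .negSucc 32, .negSucc 112, .ofNat 0, .ofNat 128, .ofNat 21, .ofNat 0, .ofNat 0, .ofNat 309, .ofNat 4357, .ofNat 1666406619975589015092361542238208, .ofNat 81823459460800958094697555820544, .ofNat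 0, .ofNat 0, .ofNat 100892983126493284069761476552818688, .ofNat 4936925465111262289856560011149312, .ofNat 1120700666754625553794334720, .ofNat 0, .ofNat 2339645744388060142248939592089600000000, .ofNat 110360721417053071400561143813244977152, .ofNat 0, .ofNat 0, .ofNat 97108372823747206452582075630354432, .ofNat 4800029554561530953927620550459392, .ofNat 914547223725892412731555840, .ofNat 0⟩)
    (by decide +kernel)
theorem L01876 : Good (Phi V5.P V5.D 1 (-1)) ⟨1, 0, 2, 3, 1, 0, 1, 1, 0, 0⟩ :=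
  out_sound (S := T5.ds_pm) T5.ok_pm (w := 31) (j := 3) (by decide +kernel)
theorem L01877 : Good (Phi V5.P V5.D 1 (-1)) ⟨2, 0, 2, 2, 2, 2, 3, 0, 4, 0⟩ :=
  leafYS_sound T5.ok_pm T5.Ypm.bz_eq (w := 202) (c := ⟨⟨.ofNat 1188, .negSucc 4, .ofNat 69, .negSucc 17, .ofNat 23, .negSucc 1105⟩, ⟨.negSucc 651, .negSucc 16, .negSucc 202, .ofNat 91, .negSucc 8, .ofNat 630⟩, ⟨.negSucc 900, .negSucc 279, .ofNat 118, .negSucc 148, .ofNat 50, .ofNat 137⟩, ⟨.ofNat 3162, .ofNat 124, .ofNat 328, .ofNat 1178, .ofNat 293, .negSucc 3793⟩, ⟨.negSucc 597, .ofNat 502, .ofNat 66, .ofNat 2154, .ofNat 304, .negSucc 986⟩, .ofNat 899, .ofNat 710, .ofNat 0, .ofNat 710, .ofNat 1563, .ofNat 0, .ofNat 128, .negSucc 239, .negSucc 122, .ofNat 0, .ofNat 200, .ofNat 85, .ofNat 0, .ofNat 0, .ofNat 613, .ofNat 4613, .ofNat 0, .ofNat 0, .ofNat 0, .ofNat 0, .ofNat 0, .ofNat 0, .ofNat 0, .ofNat 0, .ofNat 54380910526274814930338484648887810260992,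 .ofNat 0, .ofNat 114160288768124803365090654145476558848, .ofNat 0, .ofNat 0, .ofNat 0, .ofNat 0, .ofNat 0⟩)
    (by decide +kernel)
theorem L01878 : Good (Phi V5.P V5.D 1 (-1)) ⟨2, 0, 2, 2, 2, 2, 3, 0, 4, 1⟩ :=
  leafYS_sound T5.ok_pm T5.Ypm.bz_eq (w := 202) (c := ⟨⟨.ofNat 19, .negSucc 136, .ofNat 20, .negSucc 106, .ofNat 151, .negSucc 1009⟩, ⟨.negSucc 90, .ofNat 83, .ofNat 146, .ofNat 106, .negSucc 99, .ofNat 614⟩, ⟨.negSucc 587, .negSucc 182, .ofNat 8, .negSucc 584, .ofNat 196, .ofNat 630⟩, ⟨.negSucc 708, .ofNat 23, .ofNat 330, .ofNat 544, .ofNat 477, .negSucc 3069⟩, ⟨.negSucc 1205, .ofNat 499, .ofNat 471, .ofNat 1380, .ofNat 99, .negSucc 191⟩, .ofNat 894, .ofNat 699, .ofNat 0, .ofNat 699, .ofNat 1549, .ofNat 0, .ofNat 133, .negSucc 158, .negSucc 29, .ofNat 0, .ofNat 136, .ofNat 20, .ofNat 0, .ofNat 0, .ofNat 128, .ofNat 3681, .ofNat 7132804016468376775082161232689294737408, .ofNat 0, .ofNat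 0, .ofNat 0, .ofNat 0, .ofNat 0, .ofNat 0, .ofNat 0, .ofNat 39100212110051443770782375804311504420864, .ofNat 0, .ofNat 61221496733164265713605268927259082752, .ofNat 0, .ofNat 0, .ofNat 0, .ofNat 0, .ofNat 0⟩)
    (by decide +kernel)
theorem L01879 : Good (Phi V5.P V5.D 1 (-1)) ⟨2, 0, 2, 2, 3, 6, 3, 0, 4, 0⟩ :=
  leafYS_sound T5.ok_pm T5.Ypm.bz_eq (w := 217) (c := ⟨⟨.ofNat 1110, .negSucc 193, .negSucc 209, .negSucc 287, .ofNat 171, .negSucc 884⟩, ⟨.negSucc 453, .ofNat 119, .negSucc 161, .ofNat 239, .negSucc 128, .ofNat 462⟩, ⟨.negSucc 723, .negSucc 463, .ofNat 133, .ofNat 411, .ofNat 100, .negSucc 423⟩, ⟨.ofNat 4052, .negSucc 223, .ofNat 635, .ofNat 609, .ofNat 155, .negSucc 2906⟩, ⟨.ofNat 1726, .ofNat 781, .ofNat 879, .ofNat 2390, .negSucc 576, .negSucc 697⟩, .ofNat 1638, .ofNat 1772, .ofNat 0, .ofNat 1772, .ofNat 3297, .ofNat 0, .ofNat 128, .negSucc 267, .negSucc 170, .ofNat 0, .ofNat 199, .ofNat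 104, .ofNat 0, .ofNat 0, .ofNat 799, .ofNat 4632, .ofNat 0, .ofNat 0, .ofNat 0, .ofNat 0, .ofNat 0, .ofNat 0, .ofNat 624694645571179761470463129082411553390592, .ofNat 0, .ofNat 89522756722165631863071239419070907550793728, .ofNat 0, .ofNat 1104761652304007425332666194316291305635840, .ofNat 0, .ofNat 0, .ofNat 0, .ofNat 0, .ofNat 0⟩)
    (by decide +kernel)
theorem L01880 : Good (Phi V5.P V5.D 1 (-1)) ⟨2, 0, 3, 4, 3, 7, 4, 0, 4, 0⟩ :=
  leafYS_sound T5.ok_pm T5.Ypm.bz_eq (w := 224) (c := ⟨⟨.ofNat 707, .negSucc 284, .negSucc 122, .negSucc 809, .ofNat 147, .negSucc 692⟩, ⟨.negSucc 176, .ofNat 183, .negSucc 88, .ofNat 475, .negSucc 113, .ofNat 485⟩, ⟨.ofNat 123, .negSucc 423, .ofNat 346, .ofNat 984, .negSucc 56, .negSucc 1296⟩, ⟨.ofNat 3195, .negSucc 154, .ofNat 513, .negSucc 1721, .negSucc 135, .negSucc 395⟩, ⟨.ofNat 2658, .ofNat 1054, .ofNat 472, .ofNat 934, .negSucc 982, .ofNat 2648⟩, .ofNat 2198,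 .ofNat 2595, .ofNat 0, .ofNat 2595, .ofNat 4586, .ofNat 0, .ofNat 128, .negSucc 269, .negSucc 92, .ofNat 0, .ofNat 200, .ofNat 39, .ofNat 0, .ofNat 0, .ofNat 426, .ofNat 5903, .ofNat 0, .ofNat 0, .ofNat 0, .ofNat 0, .ofNat 0, .ofNat 0, .ofNat 0, .ofNat 0, .ofNat 0, .ofNat 0, .ofNat 0, .ofNat 0, .ofNat 0, .ofNat 0, .ofNat 2274180027622714255644103929060849904254976, .ofNat 0⟩)
    (by decide +kernel)
theorem L01881 : Good (Phi V5.P V5.D 1 (-1)) ⟨2, 0, 3, 4, 3, 7, 4, 1, 4, 0⟩ :=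
  leafYS_sound T5.ok_pm T5.Ypm.bz_eq (w := 224) (c := ⟨⟨.ofNat 768, .negSucc 216, .negSucc 70, .negSucc 720, .ofNat 109, .negSucc 637⟩, ⟨.negSucc 203, .ofNat 115, .negSucc 103, .ofNat 409, .negSucc 92, .ofNat 398⟩, ⟨.negSucc 3, .negSucc 362, .ofNat 144, .ofNat 900, .ofNat 12, .negSucc 947⟩, ⟨.ofNat 3855, .negSucc 287, .ofNat 490, .negSucc 1926, .negSucc 298, .negSucc 1190⟩, ⟨.ofNat 3249, .ofNat 614, .ofNat 394, .ofNat 249, .negSucc 1090, .ofNat 1131⟩, .ofNat 2150, .ofNat 2566, .ofNat 0, .ofNat 2566, .ofNat 4618, .ofNat 0, .ofNat 128, .negSucc 302, .negSucc 97, .ofNat 0, .ofNat 219, .ofNat 45, .ofNat 0, .ofNat 0, .ofNat 396, .ofNat 4399, .ofNat 0, .ofNat 0, .ofNat 0, .ofNat 0, .ofNat 0, .ofNat 0, .ofNat 0, .ofNat 0, .ofNat 0, .ofNat 0, .ofNat 0, .ofNat 0, .ofNat 0, .ofNat 0, .ofNat 6519090294286042840997127106442887868448768, .ofNat 0⟩)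
    (by decide +kernel)
theorem L01882 : Good (Phi V5.P V5.D 1 (-1)) ⟨2, 0, 3, 5, 4, 14, 3, 0, 4, 0⟩ :=
  leafYS_sound T5.ok_pm T5.Ypm.bz_eq (w := 239) (c := ⟨⟨.ofNat 542, .negSucc 251, .negSucc 102, .negSucc 302, .ofNat 262, .negSucc 667⟩, ⟨.negSucc 255, .ofNat 150, .negSucc 145, .ofNat 201, .negSucc 187, .ofNat 441⟩, ⟨.ofNat 215, .negSucc 500, .negSucc 36, .ofNat 582, .ofNat 25, .negSucc 1014⟩, ⟨.ofNat 3862, .negSucc 124, .ofNat 165, .negSucc 426, .negSucc 84, .negSucc 893⟩, ⟨.ofNat 3508, .ofNat 1181, .negSucc 48, .ofNat 625, .negSucc 1284, .ofNat 1497⟩, .ofNat 7469, .ofNat 10382, .ofNat 0, .ofNat 10382, .ofNat 15999, .ofNat 0, .ofNat 128, .negSucc 826, .negSucc 436, .ofNat 0, .ofNat 571, .ofNat 277, .ofNat 0, .ofNat 0, .ofNat 1985, .ofNat 5111, .ofNat 0, .ofNat 0, .ofNat 0, .ofNat 0, .ofNat 11123139126533089373720560294820804328044107923456, .ofNat 0, .ofNat 0, .ofNat 0, .ofNat 0, .ofNat 0, .ofNat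 0, .ofNat 0, .ofNat 0, .ofNat 0, .ofNat 0, .ofNat 0⟩)
    (by decide +kernel)
theorem L01883 : Good (Phi V5.P V5.D 1 (-1)) ⟨3, 0, 3, 5, 4, 15, 3, 0, 5, 0⟩ :=
  leafYS_sound T5.ok_pm T5.Ypm.bz_eq (w := 248) (c := ⟨⟨.ofNat 114, .negSucc 106, .negSucc 136, .negSucc 451, .ofNat 363, .negSucc 226⟩, ⟨.ofNat 3, .ofNat 75, .negSucc 77, .ofNat 267, .negSucc 246, .ofNat 167⟩, ⟨.ofNat 1213, .negSucc 303, .ofNat 546, .ofNat 672, .negSucc 512, .negSucc 749⟩, ⟨.ofNat 2642, .negSucc 107, .negSucc 32, .negSucc 1888, .ofNat 648, .ofNat 27⟩, ⟨.ofNat 3641, .ofNat 265, .negSucc 106, .negSucc 879, .negSucc 648, .ofNat 1077⟩, .ofNat 6453, .ofNat 8806, .ofNat 0, .ofNat 8806, .ofNat 13610, .ofNat 0, .ofNat 128, .negSucc 850, .negSucc 235, .ofNat 0, .ofNat 599, .ofNat 128, .ofNat 0, .ofNat 0, .ofNat 1208, .ofNat 22052, .ofNat 0, .ofNat 0, .ofNat 160302743661087721429178285575105569553983209472, .ofNat 0, .ofNat 0, .ofNat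 0, .ofNat 4147126222243109814589846890097191127351497326592, .ofNat 0, .ofNat 0, .ofNat 0, .ofNat 7481615705562907100228016066131093291801797197824, .ofNat 0, .ofNat 0, .ofNat 0, .ofNat 17034862676003032444656006935155444456883551731712, .ofNat 0⟩)
    (by decide +kernel)
theorem L01884 : Good (Phi V5.P V5.D 1 (-1)) ⟨3, 0, 3, 5, 4, 15, 3, 0, 5, 1⟩ :=
  leafYS_sound T5.ok_pm T5.Ypm.bz_eq (w := 249) (c := ⟨⟨.negSucc 110, .negSucc 234, .ofNat 50, .negSucc 479, .ofNat 509, .negSucc 453⟩, ⟨.ofNat 170, .ofNat 177, .negSucc 278, .ofNat 310, .negSucc 373, .ofNat 318⟩, ⟨.ofNat 277, .negSucc 393, .ofNat 854, .ofNat 518, .negSucc 79, .negSucc 553⟩, ⟨.ofNat 2939, .negSucc 202, .ofNat 365, .negSucc 1099, .ofNat 38, .negSucc 559⟩, ⟨.ofNat 5229, .ofNat 588, .negSucc 460, .ofNat 463, .negSucc 2273, .ofNat 1202⟩, .ofNat 6662, .ofNat 9120, .ofNat 0, .ofNat 9120, .ofNat 14087, .ofNat 0, .ofNat 128, .negSucc 1034,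 .negSucc 349, .ofNat 0, .ofNat 732, .ofNat 186, .ofNat 0, .ofNat 0, .ofNat 1756, .ofNat 14446, .ofNat 0, .ofNat 0, .ofNat 135021894685258957389324091240701382158402453504, .ofNat 0, .ofNat 0, .ofNat 0, .ofNat 2189949028207670475844106207623648268595440386048, .ofNat 0, .ofNat 0, .ofNat 0, .ofNat 6010525338494923516923805466026198608801179893760, .ofNat 0, .ofNat 0, .ofNat 0, .ofNat 17630717828207750188967794087138237651262499717120, .ofNat 0⟩)
    (by decide +kernel)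
theorem L01885 : Good (Phi V5.P V5.D 1 (-1)) ⟨3, 1, 3, 5, 4, 15, 3, 0, 5, 0⟩ :=
  leafYS_sound T5.ok_pm T5.Ypm.bz_eq (w := 247) (c := ⟨⟨.ofNat 10, .negSucc 111, .negSucc 209, .negSucc 491, .ofNat 437, .negSucc 257⟩, ⟨.ofNat 73, .ofNat 62, .negSucc 13, .ofNat 310, .negSucc 297, .ofNat 179⟩, ⟨.ofNat 898, .negSucc 249, .ofNat 522, .ofNat 730, .negSucc 535, .negSucc 775⟩, ⟨.ofNat 2276, .negSucc 27, .negSucc 238, .negSucc 1675, .ofNat 706, .ofNat 246⟩, ⟨.ofNat 3541, .ofNat 545, .negSucc 196, .negSucc 461, .negSucc 809, .ofNat 1475⟩, .ofNat 8325, .ofNat 11710, .ofNat 0, .ofNat 11710, .ofNat 18039, .ofNat 0, .ofNat 128, .negSucc 391, .negSucc 164, .ofNat 0, .ofNat 268, .ofNat 98, .ofNat 0, .ofNat 0, .ofNat 786, .ofNat 8066, .ofNat 0, .ofNat 0, .ofNat 65723915637499088316752352323843165673115090944, .ofNat 0, .ofNat 0, .ofNat 0, .ofNat 0, .ofNat 0, .ofNat 0, .ofNat 0, .ofNat 0, .ofNat 0, .ofNat 0, .ofNat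 0, .ofNat 4391253866789429316286923887452391926616660377600, .ofNat 0⟩)
    (by decide +kernel)
theorem L01886 : Good (Phi V5.P V5.D 1 (-1)) ⟨3, 1, 3, 5, 5, 30, 4, 0, 5, 1⟩ :=
  leafYS_sound T5.ok_pm T5.Ypm.bz_eq (w := 265) (c := ⟨⟨.negSucc 246, .negSucc 148, .negSucc 255, .negSucc 255, .ofNat 298, .negSucc 547⟩, ⟨.ofNat 273, .ofNat 74, .negSucc 50, .ofNat 170, .negSucc 212, .ofNat 374⟩, ⟨.negSucc 78, .negSucc 300, .ofNat 394, .ofNat 308, .negSucc 19, .negSucc 595⟩, ⟨.ofNat 2970, .ofNat 74, .ofNat 338, .negSucc 551, .negSucc 105, .negSucc 483⟩, ⟨.ofNat 5772, .ofNat 860, .ofNat 429, .ofNat 260, .negSucc 1464, .ofNat 1630⟩, .ofNat 4852, .ofNat 6525, .ofNat 0, .ofNat 6525, .ofNat 10279, .ofNat 0, .ofNat 128, .negSucc 632, .negSucc 250, .ofNat 0, .ofNat 441, .ofNat 141, .ofNat 0, .ofNat 0, .ofNat 1186, .ofNat 49632, .ofNat 0, .ofNat 0, .ofNat 0, .ofNat 0, .ofNat 0, .ofNat 0, .ofNat 0, .ofNat 0, .ofNat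 263743030035057371980009126679275341287116031260228583424, .ofNat 0, .ofNat 369679742028048170696210383715445542239167862452256768, .ofNat 0, .ofNat 116935370133087789915673705685247958027639883069220978688, .ofNat 0, .ofNat 2653860265235409643612770093207198831095520448399540224, .ofNat 0⟩)
    (by decide +kernel)
theorem L01887 : Good (Phi V5.P V5.D 1 (-1)) ⟨3, 1, 4, 10, 5, 31, 4, 0, 5, 1⟩ :=
  leafYS_sound T5.ok_pm T5.Ypm.bz_eq (w := 268) (c := ⟨⟨.negSucc 525, .negSucc 175, .negSucc 131, .negSucc 335, .ofNat 382, .negSucc 575⟩, ⟨.ofNat 462, .ofNat 81, .negSucc 9, .ofNat 222, .negSucc 272, .ofNat 399⟩, ⟨.ofNat 183, .negSucc 216, .ofNat 330, .ofNat 315, .negSucc 29, .negSucc 660⟩, ⟨.ofNat 2338, .negSucc 19, .negSucc 99, .negSucc 925, .negSucc 115, .ofNat 40⟩, ⟨.ofNat 6051, .ofNat 768, .negSucc 152, .ofNat 40, .negSucc 1833, .ofNat 2558⟩, .ofNat 4949, .ofNat 6680, .ofNat 0, .ofNat 6680, .ofNat 10523,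 .ofNat 0, .ofNat 128, .negSucc 581, .negSucc 264, .ofNat 0, .ofNat 407, .ofNat 134, .ofNat 0, .ofNat 0, .ofNat 1333, .ofNat 46773, .ofNat 0, .ofNat 0, .ofNat 220342548809011863511175479392142924590850550439870464, .ofNat 0, .ofNat 0, .ofNat 0, .ofNat 0, .ofNat 0, .ofNat 0, .ofNat 0, .ofNat 0, .ofNat 0, .ofNat 0, .ofNat 0, .ofNat 4495564174020167207465884687960468748006853576275001344, .ofNat 0⟩)
    (by decide +kernel)
theorem L01888 : Good (Phi V5.P V5.D 1 (-1)) ⟨3, 1, 4, 11, 5, 31, 4, 0, 5, 1⟩ :=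
  out_sound (S := T5.ds_pm) T5.ok_pm (w := 47) (j := 3) (by decide +kernel)
theorem L01889 : Good (Phi V5.P V5.D 1 (-1)) ⟨3, 1, 3, 5, 4, 15, 4, 1, 5, 1⟩ :=
  leafYS_sound T5.ok_pm T5.Ypm.bz_eq (w := 250) (c := ⟨⟨.negSucc 32, .negSucc 114, .negSucc 198, .negSucc 495, .ofNat 246, .negSucc 473⟩, ⟨.ofNat 115, .ofNat 50, .negSucc 48, .ofNat 323, .negSucc 175, .ofNat 324⟩, ⟨.negSucc 179, .negSucc 235, .ofNat 381, .ofNat 547, .negSucc 17, .negSucc 470⟩, ⟨.ofNat 2866, .negSucc 33, .ofNat 274, .negSucc 1159, .negSucc 69, .negSucc 621⟩, ⟨.ofNat 4660, .ofNat 499, .ofNat 301, .ofNat 372, .negSucc 1184, .ofNat 1124⟩, .ofNat 4890, .ofNat 6593, .ofNat 0, .ofNat 6593, .ofNat 10394, .ofNat 0, .ofNat 128, .negSucc 551, .negSucc 196, .ofNat 0, .ofNat 382, .ofNat 113, .ofNat 0, .ofNat 0, .ofNat 833, .ofNat 15871, .ofNat 0, .ofNat 0, .ofNat 0, .ofNat 0, .ofNat 0, .ofNat 0, .ofNat 0, .ofNat 0, .ofNat 0, .ofNat 0, .ofNat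 0, .ofNat 0, .ofNat 0, .ofNat 0, .ofNat 92165629688831217302577064385568920158604454002688, .ofNat 0⟩)
    (by decide +kernel)
theorem L01890 : Good (Phi V5.P V5.D 1 (-1)) ⟨2, 0, 3, 4, 3, 6, 4, 0, 4, 1⟩ :=
  leafYS_sound T5.ok_pm T5.Ypm.bz_eq (w := 223) (c := ⟨⟨.ofNat 79, .negSucc 373, .negSucc 60, .negSucc 216, .ofNat 186, .negSucc 1146⟩, ⟨.ofNat 7, .ofNat 230, .ofNat 30, .ofNat 227, .negSucc 130, .ofNat 640⟩, ⟨.negSucc 1094, .negSucc 358, .negSucc 19, .ofNat 65, .ofNat 151, .ofNat 619⟩, ⟨.ofNat 359, .negSucc 177, .ofNat 416, .ofNat 1024, .ofNat 288, .negSucc 3862⟩, ⟨.ofNat 487, .ofNat 1329, .ofNat 537, .ofNat 2891, .negSucc 432, .negSucc 803⟩, .ofNat 457, .ofNat 195, .ofNat 0, .ofNat 195, .ofNat 646, .ofNat 0, .ofNat 128, .negSucc 132, .negSucc 72, .ofNat 0, .ofNat 147, .ofNat 43, .ofNat 0, .ofNat 0, .ofNat 232, .ofNat 5980, .ofNat 2625184255662850078896366001851362373370118144, .ofNat 0, .ofNat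 0, .ofNat 0, .ofNat 0, .ofNat 0, .ofNat 0, .ofNat 0, .ofNat 18598424771798461179123341460009493912904269824, .ofNat 0, .ofNat 0, .ofNat 0, .ofNat 0, .ofNat 0, .ofNat 0, .ofNat 0⟩)
    (by decide +kernel)
theorem L01891 : Good (Phi V5.P V5.D 1 (-1)) ⟨2, 0, 3, 4, 3, 6, 4, 1, 4, 1⟩ :=
  leafYS_sound T5.ok_pm T5.Ypm.bz_eq (w := 224) (c := ⟨⟨.ofNat 181, .negSucc 308, .negSucc 41, .negSucc 169, .ofNat 140, .negSucc 1141⟩, ⟨.negSucc 91, .ofNat 218, .ofNat 46, .ofNat 169, .negSucc 79, .ofNat 646⟩, ⟨.negSucc 1010, .negSucc 246, .ofNat 31, .ofNat 113, .ofNat 120, .ofNat 606⟩, ⟨.ofNat 675, .negSucc 217, .ofNat 398, .ofNat 818, .ofNat 203, .negSucc 3731⟩, ⟨.ofNat 488, .ofNat 997, .ofNat 506, .ofNat 2266, .negSucc 342, .negSucc 616⟩, .ofNat 877, .ofNat 674, .ofNat 0, .ofNat 674, .ofNat 1522, .ofNat 0, .ofNat 128, .negSucc 157, .negSucc 84, .ofNat 0, .ofNat 138, .ofNat 52, .ofNat 0, .ofNat 0, .ofNat 301, .ofNat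 6167, .ofNat 0, .ofNat 0, .ofNat 0, .ofNat 0, .ofNat 0, .ofNat 0, .ofNat 0, .ofNat 0, .ofNat 0, .ofNat 0, .ofNat 0, .ofNat 0, .ofNat 0, .ofNat 0, .ofNat 0, .ofNat 0⟩)
    (by decide +kernel)
theorem L01892 : Good (Phi V5.P V5.D 1 (-1)) ⟨2, 0, 3, 4, 3, 7, 4, 0, 4, 1⟩ :=
  leafYS_sound T5.ok_pm T5.Ypm.bz_eq (w := 225) (c := ⟨⟨.negSucc 202, .negSucc 406, .negSucc 161, .negSucc 612, .ofNat 231, .negSucc 950⟩, ⟨.ofNat 313, .ofNat 293, .ofNat 31, .ofNat 524, .negSucc 203, .ofNat 532⟩, ⟨.negSucc 842, .negSucc 478, .ofNat 111, .ofNat 163, .ofNat 191, .ofNat 286⟩, ⟨.ofNat 864, .ofNat 156, .ofNat 1046, .ofNat 669, .negSucc 359, .negSucc 2683⟩, ⟨.ofNat 3383, .ofNat 1940, .ofNat 1333, .ofNat 4192, .negSucc 1810, .ofNat 60⟩, .ofNat 1544, .ofNat 1645, .ofNat 0, .ofNat 1645, .ofNat 3140, .ofNat 0, .ofNat 128, .negSucc 367, .negSucc 190, .ofNat 0, .ofNat 293, .ofNat 77, .ofNat 0, .ofNat 0, .ofNat 773, .ofNat 6836,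 .ofNat 0, .ofNat 0, .ofNat 0, .ofNat 0, .ofNat 0, .ofNat 0, .ofNat 0, .ofNat 0, .ofNat 0, .ofNat 0, .ofNat 0, .ofNat 0, .ofNat 0, .ofNat 0, .ofNat 0, .ofNat 0⟩)
    (by decide +kernel)
theorem L01893 : Good (Phi V5.P V5.D 1 (-1)) ⟨2, 0, 3, 4, 3, 7, 4, 1, 4, 1⟩ :=
  leafYS_sound T5.ok_pm T5.Ypm.bz_eq (w := 224) (c := ⟨⟨.ofNat 30, .negSucc 409, .negSucc 126, .negSucc 523, .ofNat 169, .negSucc 999⟩, ⟨.ofNat 168, .ofNat 247, .ofNat 32, .ofNat 418, .negSucc 167, .ofNat 552⟩, ⟨.negSucc 833, .negSucc 231, .ofNat 112, .ofNat 240, .ofNat 166, .ofNat 335⟩, ⟨.ofNat 1161, .ofNat 22, .ofNat 784, .ofNat 24, .negSucc 309, .negSucc 2785⟩, ⟨.ofNat 2635, .ofNat 1615, .ofNat 968, .ofNat 2721, .negSucc 1421, .ofNat 111⟩, .ofNat 1530, .ofNat 1612, .ofNat 0, .ofNat 1612, .ofNat 3087, .ofNat 0, .ofNat 128, .negSucc 358, .negSucc 135, .ofNat 0, .ofNat 283, .ofNat 56, .ofNat 0, .ofNat 0, .ofNat 492, .ofNat 4884, .ofNat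 0, .ofNat 0, .ofNat 0, .ofNat 0, .ofNat 0, .ofNat 0, .ofNat 0, .ofNat 0, .ofNat 0, .ofNat 0, .ofNat 0, .ofNat 0, .ofNat 0, .ofNat 0, .ofNat 33951707365982691027429584806935545174294528, .ofNat 0⟩)
    (by decide +kernel)
theorem L01894 : Good (Phi V5.P V5.D 1 (-1)) ⟨2, 0, 3, 5, 3, 6, 3, 0, 4, 1⟩ :=
  leafYS_sound T5.ok_pm T5.Ypm.bz_eq (w := 223) (c := ⟨⟨.ofNat 10, .negSucc 371, .negSucc 114, .negSucc 159, .ofNat 346, .negSucc 1210⟩, ⟨.ofNat 33, .ofNat 223, .ofNat 57, .ofNat 138, .negSucc 238, .ofNat 780⟩, ⟨.negSucc 1254, .negSucc 234, .ofNat 13, .ofNat 60, .ofNat 384, .ofNat 644⟩, ⟨.ofNat 782, .negSucc 534, .ofNat 469, .ofNat 805, .ofNat 385, .negSucc 3310⟩, ⟨.ofNat 1342, .ofNat 599, .ofNat 736, .ofNat 1981, .negSucc 898, .ofNat 214⟩, .ofNat 4542, .ofNat 6033, .ofNat 0, .ofNat 6033, .ofNat 9518, .ofNat 0, .ofNat 128, .negSucc 583, .negSucc 131, .ofNat 0, .ofNat 411, .ofNat 88, .ofNat 0, .ofNat 0,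 .ofNat 523, .ofNat 8713, .ofNat 376877510026558637850044604529915768436948992, .ofNat 0, .ofNat 223381814423139630551464839700837660884992, .ofNat 0, .ofNat 0, .ofNat 0, .ofNat 0, .ofNat 0, .ofNat 0, .ofNat 0, .ofNat 0, .ofNat 0, .ofNat 2442038848199846568988957258226078413181943808, .ofNat 0, .ofNat 7555396527455202223344584591356982777085952, .ofNat 0⟩)
    (by decide +kernel)
theorem L01895 : Good (Phi V5.P V5.D 1 (-1)) ⟨3, 0, 3, 5, 3, 7, 3, 0, 4, 1⟩ :=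
  leafYS_sound T5.ok_pm T5.Ypm.bz_eq (w := 228) (c := ⟨⟨.negSucc 255, .negSucc 319, .negSucc 255, .negSucc 677, .ofNat 525, .negSucc 987⟩, ⟨.ofNat 258, .ofNat 226, .ofNat 74, .ofNat 507, .negSucc 398, .ofNat 634⟩, ⟨.negSucc 834, .negSucc 149, .ofNat 254, .ofNat 351, .ofNat 225, .ofNat 311⟩, ⟨.ofNat 2245, .negSucc 94, .negSucc 166, .ofNat 430, .negSucc 584, .negSucc 2970⟩, ⟨.ofNat 4867, .ofNat 1054, .ofNat 111, .ofNat 3764, .negSucc 3295, .negSucc 82⟩, .ofNat 4856, .ofNat 6442, .ofNat 0, .ofNat 6442, .ofNat 10097, .ofNat 0, .ofNat 128, .negSucc 692, .negSucc 285, .ofNat 0, .ofNat 501, .ofNat 168, .ofNat 0, .ofNat 0, .ofNat 1158, .ofNat 10312, .ofNat 0, .ofNat 0, .ofNat 193277456452583868893880211208022320480256, .ofNat 0, .ofNat 0, .ofNat 0, .ofNat 1064922349767909450214792999691062322659328, .ofNat 0, .ofNat 0, .ofNat 0, .ofNat 2328162485011788746072652850317999030140928, .ofNat 0, .ofNat 0, .ofNat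 0, .ofNat 7356833586014828465914686780667262847156224, .ofNat 0⟩)
    (by decide +kernel)
theorem L01896 : Good (Phi V5.P V5.D 1 (-1)) ⟨3, 1, 3, 5, 4, 14, 3, 0, 4, 1⟩ :=
  leafYS_sound T5.ok_pm T5.Ypm.bz_eq (w := 240) (c := ⟨⟨.negSucc 474, .negSucc 236, .negSucc 191, .negSucc 262, .ofNat 505, .negSucc 1133⟩, ⟨.ofNat 417, .ofNat 111, .ofNat 33, .ofNat 189, .negSucc 366, .ofNat 732⟩, ⟨.negSucc 1153, .negSucc 175, .ofNat 64, .ofNat 218, .ofNat 321, .ofNat 474⟩, ⟨.ofNat 2173, .negSucc 113, .ofNat 457, .ofNat 397, .negSucc 487, .negSucc 3335⟩, ⟨.ofNat 5621, .ofNat 733, .ofNat 653, .ofNat 1774, .negSucc 2996, .negSucc 168⟩, .ofNat 2414, .ofNat 2901, .ofNat 0, .ofNat 2901, .ofNat 4832, .ofNat 0, .ofNat 128, .negSucc 580, .negSucc 265, .ofNat 0, .ofNat 428, .ofNat 156, .ofNat 0, .ofNat 0, .ofNat 991, .ofNat 14467, .ofNat 0, .ofNat 0, .ofNat 0, .ofNat 0, .ofNat 27277294467957435531539455861252414024277863432192,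 .ofNat 0, .ofNat 20016014258641736785714698424893982982851788800, .ofNat 0, .ofNat 0, .ofNat 0, .ofNat 19259973539568087070860656839422317193032892416, .ofNat 0, .ofNat 0, .ofNat 0, .ofNat 0, .ofNat 0⟩)
    (by decide +kernel)
theorem L01897 : Good (Phi V5.P V5.D 1 (-1)) ⟨3, 1, 3, 5, 5, 30, 4, 0, 5, 2⟩ :=
  leafYS_sound T5.ok_pm T5.Ypm.bz_eq (w := 264) (c := ⟨⟨.negSucc 815, .negSucc 220, .negSucc 268, .negSucc 245, .ofNat 363, .negSucc 624⟩, ⟨.ofNat 673, .ofNat 98, .negSucc 32, .ofNat 176, .negSucc 263, .ofNat 418⟩, ⟨.negSucc 784, .negSucc 216, .ofNat 435, .ofNat 159, .ofNat 162, .negSucc 39⟩, ⟨.ofNat 2537, .ofNat 123, .ofNat 507, .ofNat 20, .negSucc 688, .negSucc 1170⟩, ⟨.ofNat 7676, .ofNat 1135, .ofNat 545, .ofNat 1117, .negSucc 2653, .ofNat 922⟩, .ofNat 2443, .ofNat 2941, .ofNat 0, .ofNat 2941, .ofNat 4885, .ofNat 0, .ofNat 128, .negSucc 421, .negSucc 246, .ofNat 0, .ofNat 312, .ofNat 120, .ofNat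 0, .ofNat 0, .ofNat 1013, .ofNat 47519, .ofNat 0, .ofNat 0, .ofNat 0, .ofNat 0, .ofNat 0, .ofNat 0, .ofNat 302413970843313682911637509050741270406390140914106368, .ofNat 0, .ofNat 42146612206482487712005406725757774708225770454993862656, .ofNat 0, .ofNat 254057939168152131332445214973880053675500571960803328, .ofNat 0, .ofNat 128453037747371897874030202962896111515380028691787546624, .ofNat 0, .ofNat 1713655010581894920916016980599992318714733133689782272, .ofNat 0⟩)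
    (by decide +kernel)

end Crest.Agent.R097C5.N5pm
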