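import Crest.Agent.R097.KS3
import Crest.Agent.R097.T5Ypm

/-!
# Row 97, box cover in dimension n = 5 (generated)
-/

set_option autoImplicit false
set_option Elab.async false
set_option maxHeartbeats 0
set_option maxRecDepth 100000

open Crest.Agent.R097 Crest.Agent.R097.KA


namespace Crest.Agent.R097C5.N5pm

theorem L01898 : Good (Phi V5.P V5.D 1 (-1)) ⟨3, 1, 4, 10, 5, 31, 4, 0, 5, 2⟩ :=
  leafYS_sound T5.ok_pm T5.Ypm.bz_eq (w := 268) (c := ⟨⟨.negSucc 1128, .negSucc 233, .negSucc 146, .negSucc 320, .ofNat 428, .negSucc 567⟩, ⟨.ofNat 898, .ofNat 106, .negSucc 16, .ofNat 224, .negSucc 321, .ofNat 390⟩, ⟨.negSucc 639, .negSucc 189, .ofNat 427, .ofNat 194, .ofNat 198, .negSucc 181⟩, ⟨.ofNat 1965, .ofNat 98, .ofNat 47, .negSucc 512, .ofNat 4, .negSucc 588⟩, ⟨.ofNat 8255, .ofNat 1107, .negSucc 71, .ofNat 619, .negSucc 1908, .ofNat 1557⟩, .ofNat 7839, .ofNat 10960, .ofNat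 0, .ofNat 10960, .ofNat 16889, .ofNat 0, .ofNat 128, .negSucc 498, .negSucc 214, .ofNat 0, .ofNat 349, .ofNat 118, .ofNat 0, .ofNat 0, .ofNat 979, .ofNat 33231, .ofNat 0, .ofNat 0, .ofNat 163666029991520986944033983109074492344108421648220160, .ofNat 0, .ofNat 0, .ofNat 0, .ofNat 0, .ofNat 0, .ofNat 0, .ofNat 0, .ofNat 0, .ofNat 0, .ofNat 0, .ofNat 0, .ofNat 1587224435407246980320994352263472044250055473578901504, .ofNat 0⟩)
    (by decide +kernel)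
theorem L01899 : Good (Phi V5.P V5.D 1 (-1)) ⟨3, 1, 4, 11, 5, 31, 4, 0, 5, 2⟩ :=
  out_sound (S := T5.ds_pm) T5.ok_pm (w := 47) (j := 3) (by decide +kernel)
theorem L01900 : Good (Phi V5.P V5.D 1 (-1)) ⟨3, 1, 3, 5, 4, 15, 4, 0, 5, 3⟩ :=
  leafYS_sound T5.ok_pm T5.Ypm.bz_eq (w := 251) (c := ⟨⟨.negSucc 1486, .negSucc 226, .negSucc 347, .negSucc 401, .ofNat 323, .negSucc 341⟩, ⟨.ofNat 1118, .ofNat 98, .ofNat 63, .ofNat 298, .negSucc 243, .ofNat 214⟩, ⟨.negSucc 834, .negSucc 131, .ofNat 648, .ofNat 193, .ofNat 187, .ofNat 264⟩, ⟨.ofNat 1195, .ofNat 39, .ofNat 827, .ofNat 301, .negSucc 913, .negSucc 868⟩, ⟨.ofNat 8583, .ofNat 909, .ofNat 1163, .ofNat 2258, .negSucc 2777, .ofNat 148⟩, .ofNat 4803, .ofNat 6455, .ofNat 0, .ofNat 6455, .ofNat 10180, .ofNat 0, .ofNat 128, .negSucc 782, .negSucc 251, .ofNat 0, .ofNat 562, .ofNat 139, .ofNat 0, .ofNat 0, .ofNat 1033, .ofNat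 17799, .ofNat 0, .ofNat 0, .ofNat 2157033449715260936837706714322804533402735214592, .ofNat 0, .ofNat 0, .ofNat 0, .ofNat 0, .ofNat 0, .ofNat 0, .ofNat 0, .ofNat 0, .ofNat 0, .ofNat 0, .ofNat 0, .ofNat 104553332258744672798409903890802689162689455849472, .ofNat 0⟩)
    (by decide +kernel)
theorem L01901 : Good (Phi V5.P V5.D 1 (-1)) ⟨3, 1, 3, 5, 4, 15, 4, 1, 4, 1⟩ :=
  leafYS_sound T5.ok_pm T5.Ypm.bz_eq (w := 246) (c := ⟨⟨.negSucc 527, .negSucc 210, .negSucc 263, .negSucc 448, .ofNat 294, .negSucc 1050⟩, ⟨.ofNat 457, .ofNat 92, .ofNat 41, .ofNat 304, .negSucc 213, .ofNat 696⟩, ⟨.negSucc 727, .negSucc 136, .ofNat 454, .ofNat 304, .ofNat 105, .ofNat 223⟩, ⟨.ofNat 1975, .ofNat 60, .negSucc 155, .negSucc 575, .negSucc 226, .negSucc 2336⟩, ⟨.ofNat 5575, .ofNat 899, .negSucc 153, .ofNat 1100, .negSucc 1638, .ofNat 976⟩, .ofNat 5227, .ofNat 7086, .ofNat 0, .ofNat 7086,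 .ofNat 11110, .ofNat 0, .ofNat 128, .negSucc 694, .negSucc 304, .ofNat 0, .ofNat 486, .ofNat 179, .ofNat 0, .ofNat 0, .ofNat 1133, .ofNat 17051, .ofNat 0, .ofNat 0, .ofNat 72043978472740329613236382353158143478044033024, .ofNat 0, .ofNat 0, .ofNat 0, .ofNat 0, .ofNat 0, .ofNat 0, .ofNat 0, .ofNat 0, .ofNat 0, .ofNat 0, .ofNat 0, .ofNat 4208767387914653229061944127730428336852265074688, .ofNat 0⟩)
    (by decide +kernel)
theorem L01902 : Good (Phi V5.P V5.D 1 (-1)) ⟨2, 0, 2, 2, 2, 2, 3, 1, 3, 0⟩ :=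
  leafYS_sound T5.ok_pm T5.Ypm.bz_eq (w := 196) (c := ⟨⟨.ofNat 1179, .negSucc 113, .negSucc 27, .ofNat 34, .ofNat 65, .negSucc 2066⟩, ⟨.negSucc 695, .ofNat 70, .negSucc 70, .ofNat 110, .negSucc 40, .ofNat 1136⟩, ⟨.negSucc 935, .negSucc 100, .negSucc 138, .negSucc 274, .ofNat 92, .ofNat 949⟩, ⟨.ofNat 3464, .negSucc 20, .ofNat 75, .ofNat 853, .ofNat 191, .negSucc 6888⟩, ⟨.negSucc 82, .ofNat 562, .ofNat 31, .ofNat 1400, .ofNat 8, .negSucc 1302⟩, .ofNat 458, .ofNat 198, .ofNat 0, .ofNat 198, .ofNat 648, .ofNat 0, .ofNat 148, .negSucc 110, .negSucc 71, .ofNat 0, .ofNat 128, .ofNat 46, .ofNat 0, .ofNat 0, .ofNat 207, .ofNat 1011, .ofNat 0, .ofNat 0, .ofNat 0, .ofNat 0, .ofNat 0, .ofNat 0, .ofNat 522299677086307027702520726805282816, .ofNat 0, .ofNat 0, .ofNat 0, .ofNat 0, .ofNat 0, .ofNat 0, .ofNat 0, .ofNat 396196870141816339034481460351336448, .ofNat 0⟩)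
    (by decide +kernel)
theorem L01903 : Good (Phi V5.P V5.D 1 (-1)) ⟨2, 0, 2, 2, 2, 3, 3, 1, 4, 0⟩ :=
  leafYS_sound T5.ok_pm T5.Ypm.bz_eq (w := 202) (c := ⟨⟨.ofNat 982, .negSucc 97, .negSucc 146, .negSucc 739, .ofNat 115, .negSucc 545⟩, ⟨.negSucc 393, .ofNat 56, .negSucc 205, .ofNat 478, .negSucc 88, .ofNat 305⟩, ⟨.negSucc 598, .negSucc 347, .ofNat 319, .ofNat 1101, .ofNat 14, .negSucc 566⟩, ⟨.ofNat 3634, .negSucc 86, .ofNat 569, .negSucc 1253, .ofNat 65, .negSucc 1469⟩, ⟨.ofNat 1587, .ofNat 468, .ofNat 549, .ofNat 1545, .negSucc 447, .ofNat 162⟩, .ofNat 1668, .ofNat 1816, .ofNat 0, .ofNat 1816, .ofNat 3354, .ofNat 0, .ofNat 128, .negSucc 173, .negSucc 128, .ofNat 0, .ofNat 127, .ofNat 72, .ofNat 0, .ofNat 0, .ofNat 465, .ofNat 1126, .ofNat 0, .ofNat 0, .ofNat 0, .ofNat 0, .ofNat 0, .ofNat 0, .ofNat 0, .ofNat 0, .ofNat 0, .ofNat 0, .ofNat 15193825891418975611661888674005516288,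 .ofNat 0, .ofNat 0, .ofNat 0, .ofNat 82285025363082499021047647291442200576, .ofNat 0⟩)
    (by decide +kernel)
theorem L01904 : Good (Phi V5.P V5.D 1 (-1)) ⟨2, 0, 2, 2, 3, 6, 3, 1, 4, 1⟩ :=
  leafYS_sound T5.ok_pm T5.Ypm.bz_eq (w := 215) (c := ⟨⟨.ofNat 245, .negSucc 281, .negSucc 57, .negSucc 122, .ofNat 173, .negSucc 1104⟩, ⟨.negSucc 133, .ofNat 183, .ofNat 27, .ofNat 157, .negSucc 115, .ofNat 641⟩, ⟨.negSucc 889, .negSucc 145, .ofNat 4, .ofNat 101, .ofNat 187, .ofNat 561⟩, ⟨.ofNat 938, .negSucc 244, .ofNat 709, .ofNat 663, .ofNat 150, .negSucc 3649⟩, ⟨.ofNat 642, .ofNat 733, .ofNat 746, .ofNat 1733, .negSucc 565, .negSucc 665⟩, .ofNat 462, .ofNat 204, .ofNat 0, .ofNat 204, .ofNat 652, .ofNat 0, .ofNat 139, .negSucc 112, .negSucc 63, .ofNat 0, .ofNat 128, .ofNat 36, .ofNat 0, .ofNat 0, .ofNat 158, .ofNat 1579, .ofNat 0, .ofNat 0, .ofNat 0, .ofNat 0, .ofNat 0, .ofNat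 0, .ofNat 651875196014344108009440984528568497209344, .ofNat 0, .ofNat 0, .ofNat 0, .ofNat 0, .ofNat 0, .ofNat 0, .ofNat 0, .ofNat 0, .ofNat 0⟩)
    (by decide +kernel)
theorem L01905 : Good (Phi V5.P V5.D 1 (-1)) ⟨2, 0, 2, 2, 3, 7, 3, 1, 4, 1⟩ :=
  leafYS_sound T5.ok_pm T5.Ypm.bz_eq (w := 216) (c := ⟨⟨.ofNat 76, .negSucc 309, .negSucc 160, .negSucc 421, .ofNat 272, .negSucc 1022⟩, ⟨.ofNat 81, .ofNat 175, .ofNat 49, .ofNat 305, .negSucc 211, .ofNat 591⟩, ⟨.negSucc 710, .negSucc 183, .ofNat 100, .ofNat 352, .ofNat 151, .ofNat 410⟩, ⟨.ofNat 1488, .negSucc 240, .ofNat 888, .negSucc 500, .negSucc 365, .negSucc 2848⟩, ⟨.ofNat 2667, .ofNat 826, .ofNat 995, .ofNat 1211, .negSucc 1871, .ofNat 50⟩, .ofNat 1254, .ofNat 1208, .ofNat 0, .ofNat 1208, .ofNat 2381, .ofNat 0, .ofNat 128, .negSucc 214, .negSucc 172, .ofNat 0, .ofNat 169, .ofNat 81, .ofNat 0, .ofNat 0, .ofNat 523,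 .ofNat 2082, .ofNat 0, .ofNat 0, .ofNat 80348108480216952167720661961398630219776, .ofNat 0, .ofNat 0, .ofNat 0, .ofNat 0, .ofNat 0, .ofNat 0, .ofNat 0, .ofNat 781177780275916308000702775397437262528512, .ofNat 0, .ofNat 0, .ofNat 0, .ofNat 1908416707102777996185917011277851712815104, .ofNat 0⟩)
    (by decide +kernel)
theorem L01906 : Good (Phi V5.P V5.D 1 (-1)) ⟨2, 0, 2, 2, 1, 1, 2, 1, 3, 0⟩ :=
  leafYS_sound T5.ok_pm T5.Ypm.bz_eq (w := 179) (c := ⟨⟨.ofNat 1091, .negSucc 68, .negSucc 10, .negSucc 477, .negSucc 120, .negSucc 1577⟩, ⟨.negSucc 578, .ofNat 54, .negSucc 105, .ofNat 352, .ofNat 28, .ofNat 877⟩, ⟨.negSucc 1137, .negSucc 110, .ofNat 204, .ofNat 906, .ofNat 354, .ofNat 575⟩, ⟨.ofNat 3766, .negSucc 245, .negSucc 37, .negSucc 700, .negSucc 1031, .negSucc 4888⟩, ⟨.ofNat 1082, .negSucc 92, .negSucc 413, .ofNat 1319, .negSucc 1138, .negSucc 600⟩, .ofNat 1210,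 .ofNat 1138, .ofNat 0, .ofNat 1138, .ofNat 2288, .ofNat 0, .ofNat 128, .negSucc 178, .negSucc 160, .ofNat 0, .ofNat 142, .ofNat 95, .ofNat 0, .ofNat 0, .ofNat 459, .ofNat 483, .ofNat 0, .ofNat 0, .ofNat 53678526933415963644498280448, .ofNat 0, .ofNat 0, .ofNat 0, .ofNat 0, .ofNat 0, .ofNat 0, .ofNat 0, .ofNat 5619269556685429435153474650112, .ofNat 0, .ofNat 0, .ofNat 0, .ofNat 0, .ofNat 0⟩)
    (by decide +kernel)
theorem L01907 : Good (Phi V5.P V5.D 1 (-1)) ⟨2, 0, 2, 2, 2, 2, 5, 0, 4, 2⟩ :=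
  leafYS_sound T5.ok_pm T5.Ypm.bz_eq (w := 215) (c := ⟨⟨.negSucc 822, .negSucc 320, .negSucc 148, .negSucc 298, .ofNat 142, .negSucc 681⟩, ⟨.ofNat 215, .ofNat 215, .ofNat 351, .ofNat 315, .negSucc 26, .ofNat 384⟩, ⟨.negSucc 244, .negSucc 203, .negSucc 1, .negSucc 299, .ofNat 109, .ofNat 684⟩, ⟨.negSucc 3636, .negSucc 117, .ofNat 75, .ofNat 713, .negSucc 84, .negSucc 1593⟩, ⟨.negSucc 2401, .ofNat 916, .ofNat 625, .ofNat 2867, .negSucc 464, .ofNat 245⟩, .ofNat 895, .ofNat 704, .ofNat 0, .ofNat 704, .ofNat 1557, .ofNat 0, .ofNat 146, .negSucc 223, .negSucc 27, .ofNat 0, .ofNat 193, .ofNat 20, .ofNat 0, .ofNat 0, .ofNat 128, .ofNat 186134, .ofNat 15846614201921581074638466420507067354710016, .ofNat 0, .ofNat 0, .ofNat 0, .ofNat 55271908004223198034431253753812189135765504, .ofNat 0, .ofNat 0, .ofNat 0, .ofNat 37885558998509178505565473926008839883194368, .ofNat 0, .ofNat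 23260167855237075423498391923044959387648, .ofNat 0, .ofNat 22097154038211930519682316788565785173819392, .ofNat 0, .ofNat 0, .ofNat 0⟩)
    (by decide +kernel)
theorem L01908 : Good (Phi V5.P V5.D 1 (-1)) ⟨2, 0, 2, 2, 2, 2, 6, 2, 4, 2⟩ :=
  leafYS_sound T5.ok_pm T5.Ypm.bz_eq (w := 218) (c := ⟨⟨.negSucc 757, .negSucc 251, .negSucc 104, .negSucc 264, .ofNat 28, .negSucc 494⟩, ⟨.ofNat 308, .ofNat 161, .ofNat 344, .ofNat 211, .negSucc 13, .ofNat 311⟩, ⟨.ofNat 22, .negSucc 126, .negSucc 21, .negSucc 517, .ofNat 42, .ofNat 664⟩, ⟨.negSucc 3328, .negSucc 19, .negSucc 63, .ofNat 203, .ofNat 101, .negSucc 1568⟩, ⟨.negSucc 1625, .ofNat 710, .ofNat 327, .ofNat 1620, .ofNat 19, .negSucc 81⟩, .ofNat 999, .ofNat 840, .ofNat 0, .ofNat 840, .ofNat 1689, .ofNat 0, .ofNat 128, .negSucc 303, .negSucc 42, .ofNat 0, .ofNat 262, .ofNat 32, .ofNat 0, .ofNat 0, .ofNat 237, .ofNat 56574,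 .ofNat 38207343179725361220509975610621389174734848, .ofNat 0, .ofNat 32464121228396463577069869209301114945536, .ofNat 0, .ofNat 217684402570657468667287379462992413939728384, .ofNat 0, .ofNat 0, .ofNat 0, .ofNat 0, .ofNat 0, .ofNat 0, .ofNat 0, .ofNat 45203389901312852089153217473861628469444608, .ofNat 0, .ofNat 0, .ofNat 0⟩)
    (by decide +kernel)
theorem L01909 : Good (Phi V5.P V5.D 1 (-1)) ⟨2, 0, 2, 2, 2, 2, 6, 3, 4, 2⟩ :=
  leafYS_sound T5.ok_pm T5.Ypm.bz_eq (w := 217) (c := ⟨⟨.negSucc 770, .negSucc 255, .negSucc 68, .negSucc 255, .ofNat 20, .negSucc 384⟩, ⟨.ofNat 316, .ofNat 168, .ofNat 349, .ofNat 198, .negSucc 16, .ofNat 231⟩, ⟨.ofNat 47, .negSucc 88, .ofNat 24, .negSucc 516, .ofNat 26, .ofNat 593⟩, ⟨.negSucc 3219, .negSucc 76, .ofNat 10, .ofNat 54, .ofNat 48, .negSucc 1107⟩, ⟨.negSucc 1379, .ofNat 601, .ofNat 377, .ofNat 1287, .negSucc 19, .ofNat 54⟩,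 .ofNat 999, .ofNat 840, .ofNat 0, .ofNat 840, .ofNat 1689, .ofNat 0, .ofNat 128, .negSucc 229, .negSucc 41, .ofNat 0, .ofNat 198, .ofNat 31, .ofNat 0, .ofNat 0, .ofNat 221, .ofNat 39099, .ofNat 6422532870851984247966795653446496065421312, .ofNat 0, .ofNat 25999122210315565151727206002123557830656, .ofNat 0, .ofNat 0, .ofNat 0, .ofNat 0, .ofNat 0, .ofNat 0, .ofNat 0, .ofNat 214959633732883978143208152195646556733440, .ofNat 0, .ofNat 15829844213853413804186242393270840142594048, .ofNat 0, .ofNat 0, .ofNat 0⟩)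
    (by decide +kernel)
theorem L01910 : Good (Phi V5.P V5.D 1 (-1)) ⟨2, 0, 3, 4, 3, 6, 5, 0, 4, 2⟩ :=
  leafYS_sound T5.ok_pm T5.Ypm.bz_eq (w := 230) (c := ⟨⟨.negSucc 1038, .negSucc 378, .negSucc 110, .negSucc 207, .ofNat 79, .negSucc 274⟩, ⟨.ofNat 565, .ofNat 260, .ofNat 168, .ofNat 231, .negSucc 66, .ofNat 105⟩, ⟨.negSucc 488, .negSucc 250, .negSucc 41, .ofNat 83, .ofNat 73, .ofNat 602⟩, ⟨.negSucc 3527, .ofNat 134, .ofNat 367, .ofNat 1034, .ofNat 109, .negSucc 1498⟩, ⟨.negSucc 306, .ofNat 1535, .ofNat 701, .ofNat 2823, .negSucc 247, .negSucc 1206⟩, .ofNat 888, .ofNat 683, .ofNat 0, .ofNat 683, .ofNat 1517, .ofNat 0, .ofNat 128, .negSucc 161, .negSucc 30, .ofNat 0, .ofNat 154, .ofNat 20, .ofNat 0, .ofNat 0, .ofNat 154, .ofNat 57367, .ofNat 275268117860286155642875560793760738298250133504, .ofNat 0, .ofNat 0, .ofNat 0, .ofNat 0, .ofNat 0, .ofNat 0, .ofNat 0, .ofNat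 0, .ofNat 0, .ofNat 0, .ofNat 0, .ofNat 64866129695276968461221308350391485536869023744, .ofNat 0, .ofNat 0, .ofNat 0⟩)
    (by decide +kernel)
theorem L01911 : Good (Phi V5.P V5.D 1 (-1)) ⟨2, 0, 3, 4, 3, 6, 5, 1, 4, 2⟩ :=
  leafYS_sound T5.ok_pm T5.Ypm.bz_eq (w := 229) (c := ⟨⟨.negSucc 1009, .negSucc 343, .negSucc 114, .negSucc 144, .ofNat 39, .negSucc 276⟩, ⟨.ofNat 549, .ofNat 230, .ofNat 188, .ofNat 164, .negSucc 34, .ofNat 119⟩, ⟨.negSucc 425, .negSucc 161, .negSucc 26, .ofNat 48, .ofNat 72, .ofNat 556⟩, ⟨.negSucc 3227, .ofNat 49, .ofNat 173, .ofNat 750, .ofNat 41, .negSucc 1197⟩, ⟨.ofNat 36, .ofNat 1172, .ofNat 504, .ofNat 2021, .negSucc 164, .negSucc 691⟩, .ofNat 888, .ofNat 683, .ofNat 0, .ofNat 683, .ofNat 1517, .ofNat 0, .ofNat 128, .negSucc 154, .negSucc 32, .ofNat 0, .ofNat 147, .ofNat 21, .ofNat 0, .ofNat 0, .ofNat 153, .ofNat 17386, .ofNat 29089958337890261894003869435370109819663941632,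 .ofNat 0, .ofNat 0, .ofNat 0, .ofNat 0, .ofNat 0, .ofNat 0, .ofNat 0, .ofNat 0, .ofNat 0, .ofNat 0, .ofNat 0, .ofNat 0, .ofNat 0, .ofNat 0, .ofNat 0⟩)
    (by decide +kernel)
theorem L01912 : Good (Phi V5.P V5.D 1 (-1)) ⟨2, 0, 3, 4, 3, 7, 4, 0, 4, 2⟩ :=
  leafYS_sound T5.ok_pm T5.Ypm.bz_eq (w := 224) (c := ⟨⟨.negSucc 1279, .negSucc 333, .negSucc 127, .negSucc 277, .ofNat 96, .negSucc 133⟩, ⟨.ofNat 855, .ofNat 241, .ofNat 137, .ofNat 319, .negSucc 107, .negSucc 18⟩, ⟨.negSucc 410, .negSucc 247, .ofNat 32, .negSucc 37, .ofNat 166, .ofNat 540⟩, ⟨.negSucc 2422, .ofNat 305, .ofNat 800, .ofNat 1023, .negSucc 279, .negSucc 1208⟩, ⟨.ofNat 3028, .ofNat 1643, .ofNat 1069, .ofNat 3277, .negSucc 1013, .negSucc 1594⟩, .ofNat 1549, .ofNat 1643, .ofNat 0, .ofNat 1643, .ofNat 3131, .ofNat 0, .ofNat 128, .negSucc 362, .negSucc 110, .ofNat 0, .ofNat 314, .ofNat 46, .ofNat 0, .ofNat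 0, .ofNat 572, .ofNat 2623, .ofNat 0, .ofNat 0, .ofNat 0, .ofNat 0, .ofNat 0, .ofNat 0, .ofNat 0, .ofNat 0, .ofNat 0, .ofNat 0, .ofNat 0, .ofNat 0, .ofNat 0, .ofNat 0, .ofNat 0, .ofNat 0⟩)
    (by decide +kernel)
theorem L01913 : Good (Phi V5.P V5.D 1 (-1)) ⟨2, 0, 3, 5, 3, 6, 4, 0, 5, 4⟩ :=
  leafYS_sound T5.ok_pm T5.Ypm.bz_eq (w := 231) (c := ⟨⟨.negSucc 1061, .negSucc 467, .negSucc 130, .negSucc 222, .ofNat 158, .negSucc 241⟩, ⟨.ofNat 728, .ofNat 253, .ofNat 180, .ofNat 176, .negSucc 104, .ofNat 150⟩, ⟨.negSucc 565, .negSucc 183, .negSucc 1, .ofNat 14, .ofNat 195, .ofNat 336⟩, ⟨.negSucc 3039, .negSucc 62, .ofNat 303, .ofNat 1215, .ofNat 81, .negSucc 925⟩, ⟨.ofNat 482, .ofNat 1333, .ofNat 662, .ofNat 2823, .negSucc 564, .negSucc 356⟩, .ofNat 1022, .ofNat 896, .ofNat 0, .ofNat 896, .ofNat 1770, .ofNat 0, .ofNat 128, .negSucc 213, .negSucc 71, .ofNat 0, .ofNat 186,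 .ofNat 48, .ofNat 0, .ofNat 0, .ofNat 308, .ofNat 32577, .ofNat 60059665288480889976628659240843349999816278016, .ofNat 0, .ofNat 87721754038558238306986010695723139498770432, .ofNat 0, .ofNat 84297927310193386871805365992450172658498142208, .ofNat 0, .ofNat 763059293636495888812235816837542115794747392, .ofNat 0, .ofNat 408467014710846059265184172655159387561413050368, .ofNat 0, .ofNat 2467888392172142858177750219741461198976057344, .ofNat 0, .ofNat 0, .ofNat 0, .ofNat 2588636337611554992030014869390686847821152256, .ofNat 0⟩)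
    (by decide +kernel)
theorem L01914 : Good (Phi V5.P V5.D 1 (-1)) ⟨2, 0, 3, 5, 3, 6, 4, 0, 5, 5⟩ :=
  leafYS_sound T5.ok_pm T5.Ypm.bz_eq (w := 232) (c := ⟨⟨.negSucc 1298, .negSucc 414, .negSucc 98, .negSucc 177, .ofNat 83, .negSucc 43⟩, ⟨.ofNat 879, .ofNat 226, .ofNat 182, .ofNat 140, .negSucc 62, .ofNat 23⟩, ⟨.negSucc 218, .negSucc 136, .negSucc 6, .ofNat 8, .ofNat 156, .ofNat 239⟩, ⟨.negSucc 3774, .ofNat 31, .ofNat 262, .ofNat 955, .negSucc 96, .negSucc 411⟩, ⟨.ofNat 435, .ofNat 1202, .ofNat 474, .ofNat 2228, .negSucc 512, .negSucc 430⟩, .ofNat 2424, .ofNat 2892, .ofNat 0, .ofNat 2892, .ofNat 4796, .ofNat 0, .ofNat 128, .negSucc 278, .negSucc 54, .ofNat 0, .ofNat 212, .ofNat 37, .ofNat 0, .ofNat 0, .ofNat 289, .ofNat 57808, .ofNat 93164024649695954590052747220202224307360759808, .ofNat 0, .ofNat 251236458810200229979844505069100734963777536, .ofNat 0, .ofNat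 47486826434311568218074393556251789793056260096, .ofNat 0, .ofNat 12002472000213218823195650121019689034787586048, .ofNat 0, .ofNat 0, .ofNat 0, .ofNat 8706785200089510943118798422690006243496427520, .ofNat 0, .ofNat 119901663685254886394771871358832747210487103488, .ofNat 0, .ofNat 1996338386211802002091348395115662737194090496, .ofNat 0⟩)
    (by decide +kernel)
theorem L01915 : Good (Phi V5.P V5.D 1 (-1)) ⟨2, 0, 3, 5, 3, 7, 4, 0, 4, 2⟩ :=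
  leafYS_sound T5.ok_pm T5.Ypm.bz_eq (w := 227) (c := ⟨⟨.negSucc 1485, .negSucc 327, .negSucc 276, .negSucc 348, .ofNat 168, .negSucc 51⟩, ⟨.ofNat 1068, .ofNat 151, .ofNat 205, .ofNat 297, .negSucc 124, .ofNat 3⟩, ⟨.negSucc 418, .negSucc 237, .ofNat 62, .ofNat 168, .ofNat 159, .ofNat 485⟩, ⟨.negSucc 1232, .ofNat 257, .ofNat 452, .ofNat 1250, .negSucc 705, .negSucc 1457⟩, ⟨.ofNat 5110, .ofNat 1251, .ofNat 947, .ofNat 3517, .negSucc 1777, .negSucc 2000⟩, .ofNat 4394, .ofNat 5816, .ofNat 0, .ofNat 5816, .ofNat 9206, .ofNat 0, .ofNat 128, .negSucc 768, .negSucc 141, .ofNat 0, .ofNat 569, .ofNat 84, .ofNat 0, .ofNat 0, .ofNat 715, .ofNat 12605, .ofNat 0, .ofNat 0, .ofNat 13080818278397234980263964339205506101936128, .ofNat 0, .ofNat 0, .ofNat 0, .ofNat 0, .ofNat 0, .ofNat 0, .ofNat 0, .ofNat 0, .ofNat 0, .ofNat 0, .ofNat 0, .ofNat 278294338559406319925466176782431519670009856,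 .ofNat 0⟩)
    (by decide +kernel)
theorem L01916 : Good (Phi V5.P V5.D 1 (-1)) ⟨2, 0, 2, 2, 2, 2, 4, 1, 4, 2⟩ :=
  leafYS_sound T5.ok_pm T5.Ypm.bz_eq (w := 208) (c := ⟨⟨.negSucc 836, .negSucc 186, .negSucc 63, .negSucc 224, .ofNat 68, .negSucc 342⟩, ⟨.ofNat 369, .ofNat 115, .ofNat 366, .ofNat 155, .negSucc 42, .ofNat 201⟩, ⟨.ofNat 22, .negSucc 61, .ofNat 36, .negSucc 440, .ofNat 91, .ofNat 514⟩, ⟨.negSucc 3198, .ofNat 63, .negSucc 35, .ofNat 16, .ofNat 189, .negSucc 1044⟩, ⟨.negSucc 1001, .ofNat 482, .ofNat 278, .ofNat 1035, .ofNat 1, .negSucc 95⟩, .ofNat 906, .ofNat 717, .ofNat 0, .ofNat 717, .ofNat 1566, .ofNat 0, .ofNat 128, .negSucc 210, .negSucc 44, .ofNat 0, .ofNat 189, .ofNat 31, .ofNat 0, .ofNat 0, .ofNat 224, .ofNat 12978, .ofNat 0, .ofNat 0, .ofNat 68846719866173384863965974550772973568, .ofNat 0, .ofNat 0, .ofNat 0, .ofNat 0, .ofNat 0, .ofNat 0, .ofNat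 0, .ofNat 2527417404206292288584567145253247647744, .ofNat 0, .ofNat 0, .ofNat 0, .ofNat 0, .ofNat 0⟩)
    (by decide +kernel)
theorem L01917 : Good (Phi V5.P V5.D 1 (-1)) ⟨2, 0, 2, 2, 3, 6, 4, 1, 4, 2⟩ :=
  leafYS_sound T5.ok_pm T5.Ypm.bz_eq (w := 221) (c := ⟨⟨.negSucc 955, .negSucc 331, .negSucc 159, .negSucc 135, .ofNat 84, .negSucc 344⟩, ⟨.ofNat 505, .ofNat 218, .ofNat 339, .ofNat 139, .negSucc 62, .ofNat 179⟩, ⟨.negSucc 365, .negSucc 106, .negSucc 24, .ofNat 26, .ofNat 119, .ofNat 535⟩, ⟨.negSucc 2976, .negSucc 87, .ofNat 431, .ofNat 669, .ofNat 89, .negSucc 1383⟩, ⟨.ofNat 128, .ofNat 940, .ofNat 912, .ofNat 1768, .negSucc 279, .negSucc 649⟩, .ofNat 886, .ofNat 691, .ofNat 0, .ofNat 691, .ofNat 1542, .ofNat 0, .ofNat 128, .negSucc 171, .negSucc 49, .ofNat 0, .ofNat 160, .ofNat 31, .ofNat 0, .ofNat 0, .ofNat 220, .ofNat 8381, .ofNat 0, .ofNat 0, .ofNat 703642279943492382026035152865426468241408,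 .ofNat 0, .ofNat 0, .ofNat 0, .ofNat 0, .ofNat 0, .ofNat 0, .ofNat 0, .ofNat 17342781547455492853123010073391904719896576, .ofNat 0, .ofNat 0, .ofNat 0, .ofNat 8486250437456319970174852811966644458881024, .ofNat 0⟩)
    (by decide +kernel)
theorem L01918 : Good (Phi V5.P V5.D 1 (-1)) ⟨2, 0, 2, 2, 3, 7, 4, 1, 4, 2⟩ :=
  leafYS_sound T5.ok_pm T5.Ypm.bz_eq (w := 221) (c := ⟨⟨.negSucc 1136, .negSucc 392, .negSucc 248, .negSucc 258, .ofNat 94, .negSucc 177⟩, ⟨.ofNat 739, .ofNat 258, .ofNat 286, .ofNat 257, .negSucc 98, .ofNat 43⟩, ⟨.negSucc 281, .negSucc 152, .ofNat 64, .ofNat 56, .ofNat 140, .ofNat 473⟩, ⟨.negSucc 2386, .ofNat 113, .ofNat 1146, .ofNat 670, .negSucc 205, .negSucc 1196⟩, ⟨.ofNat 2256, .ofNat 1551, .ofNat 1641, .ofNat 2516, .negSucc 864, .negSucc 1194⟩, .ofNat 1540, .ofNat 1626, .ofNat 0, .ofNat 1626, .ofNat 3103, .ofNat 0, .ofNat 128, .negSucc 286, .negSucc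 90, .ofNat 0, .ofNat 245, .ofNat 39, .ofNat 0, .ofNat 0, .ofNat 429, .ofNat 3641, .ofNat 0, .ofNat 0, .ofNat 1387136306485395547078741191617639847297024, .ofNat 0, .ofNat 0, .ofNat 0, .ofNat 0, .ofNat 0, .ofNat 0, .ofNat 0, .ofNat 0, .ofNat 0, .ofNat 0, .ofNat 0, .ofNat 22834316529362481816110182327636562548883456, .ofNat 0⟩)
    (by decide +kernel)
theorem L01919 : Good (Phi V5.P V5.D 1 (-1)) ⟨2, 0, 2, 2, 2, 2, 4, 0, 4, 3⟩ :=
  leafYS_sound T5.ok_pm T5.Ypm.bz_eq (w := 215) (c := ⟨⟨.negSucc 1322, .negSucc 283, .negSucc 126, .negSucc 0, .ofNat 30, .ofNat 1⟩, ⟨.ofNat 578, .ofNat 184, .ofNat 422, .ofNat 0, .ofNat 72, .ofNat 0⟩, ⟨.ofNat 71, .negSucc 93, .negSucc 8, .ofNat 0, .ofNat 93, .ofNat 0⟩, ⟨.negSucc 4107, .ofNat 17, .negSucc 5, .negSucc 1, .negSucc 3, .ofNat 2⟩, ⟨.negSucc 254, .ofNat 795, .ofNat 481, .ofNat 0, .negSucc 16, .ofNat 0⟩, .ofNat 196, .ofNat 34, .ofNat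 0, .ofNat 34, .ofNat 227, .ofNat 0, .ofNat 193, .negSucc 107, .negSucc 47, .ofNat 0, .ofNat 176, .ofNat 42, .ofNat 0, .ofNat 0, .ofNat 128, .ofNat 2646935, .ofNat 28137278526694549875611563650210890749313024, .ofNat 0, .ofNat 0, .ofNat 0, .ofNat 17741245016530481262276226176678354629951488, .ofNat 0, .ofNat 0, .ofNat 0, .ofNat 55037707931940190145737397013706246172180480, .ofNat 0, .ofNat 428212840135168023824482229565867950080, .ofNat 0, .ofNat 4113921231498694743029294541307930306674688, .ofNat 0, .ofNat 0, .ofNat 0⟩)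
    (by decide +kernel)
theorem L01920 : Good (Phi V5.P V5.D 1 (-1)) ⟨2, 0, 2, 2, 2, 2, 4, 1, 4, 3⟩ :=
  leafYS_sound T5.ok_pm T5.Ypm.bz_eq (w := 209) (c := ⟨⟨.negSucc 1152, .negSucc 204, .negSucc 30, .negSucc 193, .ofNat 43, .negSucc 3⟩, ⟨.ofNat 543, .ofNat 130, .ofNat 382, .ofNat 133, .negSucc 26, .ofNat 0⟩, ⟨.ofNat 491, .negSucc 5, .negSucc 4, .negSucc 373, .ofNat 66, .ofNat 350⟩, ⟨.negSucc 4007, .negSucc 33, .negSucc 44, .negSucc 148, .ofNat 60, .negSucc 29⟩, ⟨.negSucc 831, .ofNat 349, .ofNat 205, .ofNat 646, .negSucc 85, .negSucc 25⟩, .ofNat 1268, .ofNat 1223, .ofNat 0, .ofNat 1223, .ofNat 2395, .ofNat 0, .ofNat 128, .negSucc 183, .negSucc 34, .ofNat 0, .ofNat 154, .ofNat 24, .ofNat 0, .ofNat 0, .ofNat 236, .ofNat 25412, .ofNat 23456025517265862544735307069940117274624, .ofNat 0, .ofNat 89153640316327396693794339660645793792, .ofNat 0, .ofNat 0, .ofNat 0, .ofNat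 0, .ofNat 0, .ofNat 224352452605273244465270204122589804101632, .ofNat 0, .ofNat 4361125658766384163160712536863019106304, .ofNat 0, .ofNat 210874656963947543260264638887723177869312, .ofNat 0, .ofNat 0, .ofNat 0⟩)
    (by decide +kernel)
theorem L01921 : Good (Phi V5.P V5.D 1 (-1)) ⟨2, 0, 3, 4, 3, 6, 3, 0, 4, 3⟩ :=
  leafYS_sound T5.ok_pm T5.Ypm.bz_eq (w := 221) (c := ⟨⟨.negSucc 1344, .negSucc 254, .negSucc 49, .negSucc 69, .ofNat 27, .ofNat 70⟩, ⟨.ofNat 699, .ofNat 177, .ofNat 194, .ofNat 89, .negSucc 34, .negSucc 59⟩, ⟨.ofNat 78, .negSucc 61, .negSucc 23, .ofNat 7, .ofNat 203, .ofNat 281⟩, ⟨.negSucc 4133, .ofNat 26, .ofNat 81, .ofNat 410, .ofNat 0, .negSucc 64⟩, ⟨.negSucc 13, .ofNat 742, .ofNat 269, .ofNat 1093, .negSucc 200, .negSucc 470⟩, .ofNat 1193, .ofNat 1114, .ofNat 0, .ofNat 1114, .ofNat 2260, .ofNat 0, .ofNat 128, .negSucc 183, .negSucc 35, .ofNat 0,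 .ofNat 166, .ofNat 22, .ofNat 0, .ofNat 0, .ofNat 277, .ofNat 13484, .ofNat 255283669438676638849566464798268584190017536, .ofNat 0, .ofNat 0, .ofNat 0, .ofNat 0, .ofNat 0, .ofNat 0, .ofNat 0, .ofNat 5180791667364932833290346262726201160002174976, .ofNat 0, .ofNat 0, .ofNat 0, .ofNat 1857116265370168624760346342151614845289496576, .ofNat 0, .ofNat 0, .ofNat 0⟩)
    (by decide +kernel)
theorem L01922 : Good (Phi V5.P V5.D 1 (-1)) ⟨2, 0, 3, 5, 3, 6, 3, 0, 4, 3⟩ :=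
  leafYS_sound T5.ok_pm T5.Ypm.bz_eq (w := 222) (c := ⟨⟨.negSucc 1373, .negSucc 319, .negSucc 78, .negSucc 103, .ofNat 54, .ofNat 92⟩, ⟨.ofNat 914, .ofNat 165, .ofNat 193, .ofNat 90, .negSucc 41, .negSucc 70⟩, ⟨.ofNat 22, .negSucc 33, .negSucc 31, .negSucc 9, .ofNat 236, .ofNat 277⟩, ⟨.negSucc 4021, .negSucc 88, .ofNat 241, .ofNat 510, .negSucc 5, .negSucc 66⟩, ⟨.ofNat 368, .ofNat 580, .ofNat 503, .ofNat 1265, .negSucc 258, .negSucc 519⟩, .ofNat 3375, .ofNat 4306, .ofNat 0, .ofNat 4306, .ofNat 6939, .ofNat 0, .ofNat 128, .negSucc 303, .negSucc 67, .ofNat 0, .ofNat 226, .ofNat 45, .ofNat 0, .ofNat 0, .ofNat 553, .ofNat 27382, .ofNat 167168723596763536645924999770460633048285184, .ofNat 0, .ofNat 336659352830514916469569203586907452211200, .ofNat 0, .ofNat 1849889314631091551889641778548530118981058560, .ofNat 0, .ofNat 36738789573140646116565501698599493295931392,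 .ofNat 0, .ofNat 9975280450158063363809676907011948107532337152, .ofNat 0, .ofNat 16389783401677973102353157088750625173274624, .ofNat 0, .ofNat 6270009976454277164558294965798074878049386496, .ofNat 0, .ofNat 7336059571306356257492048884632734637490176, .ofNat 0⟩)
    (by decide +kernel)
theorem L01923 : Good (Phi V5.P V5.D 1 (-1)) ⟨2, 0, 2, 2, 3, 7, 3, 0, 4, 3⟩ :=
  leafYS_sound T5.ok_pm T5.Ypm.bz_eq (w := 217) (c := ⟨⟨.negSucc 1423, .negSucc 289, .negSucc 218, .negSucc 147, .ofNat 53, .ofNat 133⟩, ⟨.ofNat 849, .ofNat 195, .ofNat 370, .ofNat 146, .negSucc 72, .negSucc 133⟩, ⟨.ofNat 76, .negSucc 119, .ofNat 0, .ofNat 94, .ofNat 263, .ofNat 253⟩, ⟨.negSucc 3320, .ofNat 78, .ofNat 778, .ofNat 942, .negSucc 572, .negSucc 192⟩, ⟨.ofNat 1942, .ofNat 971, .ofNat 1448, .ofNat 2184, .negSucc 1202, .negSucc 1062⟩, .ofNat 1642, .ofNat 1776, .ofNat 0, .ofNat 1776, .ofNat 3299,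 .ofNat 0, .ofNat 128, .negSucc 275, .negSucc 61, .ofNat 0, .ofNat 246, .ofNat 24, .ofNat 0, .ofNat 0, .ofNat 576, .ofNat 7578, .ofNat 0, .ofNat 0, .ofNat 0, .ofNat 0, .ofNat 0, .ofNat 0, .ofNat 0, .ofNat 0, .ofNat 0, .ofNat 0, .ofNat 0, .ofNat 0, .ofNat 0, .ofNat 0, .ofNat 2264249172621343432473617441059509328936960, .ofNat 0⟩)
    (by decide +kernel)
theorem L01924 : Good (Phi V5.P V5.D 1 (-1)) ⟨2, 0, 2, 2, 2, 2, 3, 1, 4, 2⟩ :=
  leafYS_sound T5.ok_pm T5.Ypm.bz_eq (w := 203) (c := ⟨⟨.negSucc 788, .negSucc 184, .negSucc 48, .negSucc 154, .ofNat 51, .negSucc 370⟩, ⟨.ofNat 340, .ofNat 119, .ofNat 349, .ofNat 120, .negSucc 25, .ofNat 211⟩, ⟨.ofNat 39, .ofNat 32, .ofNat 19, .negSucc 343, .ofNat 171, .ofNat 489⟩, ⟨.negSucc 2941, .negSucc 31, .ofNat 45, .negSucc 52, .ofNat 153, .negSucc 1026⟩, ⟨.negSucc 854, .ofNat 355, .ofNat 355, .ofNat 642, .ofNat 34, .ofNat 54⟩, .ofNat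 1551, .ofNat 1647, .ofNat 0, .ofNat 1647, .ofNat 3134, .ofNat 0, .ofNat 128, .negSucc 222, .negSucc 51, .ofNat 0, .ofNat 174, .ofNat 34, .ofNat 0, .ofNat 0, .ofNat 241, .ofNat 4672, .ofNat 0, .ofNat 0, .ofNat 0, .ofNat 0, .ofNat 0, .ofNat 0, .ofNat 0, .ofNat 0, .ofNat 0, .ofNat 0, .ofNat 173563826849672826223762679179834818560, .ofNat 0, .ofNat 0, .ofNat 0, .ofNat 0, .ofNat 0⟩)
    (by decide +kernel)
theorem L01925 : Good (Phi V5.P V5.D 1 (-1)) ⟨2, 0, 2, 2, 2, 2, 3, 1, 4, 3⟩ :=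
  leafYS_sound T5.ok_pm T5.Ypm.bz_eq (w := 203) (c := ⟨⟨.negSucc 1188, .negSucc 182, .negSucc 0, .negSucc 135, .ofNat 63, .negSucc 3⟩, ⟨.ofNat 561, .ofNat 111, .ofNat 359, .ofNat 98, .negSucc 30, .ofNat 4⟩, ⟨.ofNat 541, .ofNat 59, .negSucc 14, .negSucc 313, .ofNat 116, .ofNat 261⟩, ⟨.negSucc 3969, .negSucc 47, .ofNat 33, .negSucc 120, .ofNat 181, .negSucc 84⟩, ⟨.negSucc 682, .ofNat 241, .ofNat 214, .ofNat 458, .ofNat 36, .negSucc 83⟩, .ofNat 908, .ofNat 719, .ofNat 0, .ofNat 719, .ofNat 1570, .ofNat 0, .ofNat 128, .negSucc 262, .negSucc 42, .ofNat 0, .ofNat 245, .ofNat 29, .ofNat 0, .ofNat 0, .ofNat 273, .ofNat 8969, .ofNat 0, .ofNat 0, .ofNat 6354694856051193181545105504564412416, .ofNat 0, .ofNat 0, .ofNat 0, .ofNat 0, .ofNat 0, .ofNat 0, .ofNat 0, .ofNat 0, .ofNat 0, .ofNat 5569203170219077281621858866883020718080, .ofNat 0, .ofNat 0, .ofNat 0⟩)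
    (by decide +kernel)
theorem L01926 : Good (Phi V5.P V5.D 1 (-1)) ⟨2, 0, 3, 4, 2, 3, 3, 1, 4, 2⟩ :=
  leafYS_sound T5.ok_pm T5.Ypm.bz_eq (w := 205) (c := ⟨⟨.negSucc 875, .negSucc 336, .negSucc 66, .negSucc 335, .ofNat 130, .negSucc 359⟩, ⟨.ofNat 466, .ofNat 213, .ofNat 142, .ofNat 340, .negSucc 108, .ofNat 184⟩, ⟨.negSucc 288, .negSucc 5, .ofNat 1, .ofNat 157, .ofNat 183, .ofNat 485⟩, ⟨.negSucc 2743, .negSucc 107, .ofNat 367, .ofNat 705, .ofNat 8, .negSucc 1253⟩, ⟨.ofNat 122, .ofNat 888, .ofNat 565, .ofNat 3004, .negSucc 671, .negSucc 391⟩, .ofNat 1530, .ofNat 1617, .ofNat 0, .ofNat 1617, .ofNat 3097, .ofNat 0, .ofNat 128, .negSucc 290, .negSucc 75, .ofNat 0, .ofNat 235, .ofNat 42, .ofNat 0, .ofNat 0, .ofNat 312, .ofNat 2051, .ofNat 0, .ofNat 0, .ofNat 0, .ofNat 0, .ofNat 0, .ofNat 0, .ofNat 0, .ofNat 0, .ofNat 0, .ofNat 0, .ofNat 0, .ofNat 0, .ofNat 0, .ofNat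 0, .ofNat 5817578751924033187376181165206536192, .ofNat 0⟩)
    (by decide +kernel)
theorem L01927 : Good (Phi V5.P V5.D 1 (-1)) ⟨2, 0, 3, 5, 2, 3, 3, 1, 4, 2⟩ :=
  leafYS_sound T5.ok_pm T5.Ypm.bz_eq (w := 208) (c := ⟨⟨.negSucc 858, .negSucc 402, .negSucc 62, .negSucc 410, .ofNat 167, .negSucc 382⟩, ⟨.ofNat 588, .ofNat 218, .ofNat 121, .ofNat 321, .negSucc 118, .ofNat 243⟩, ⟨.negSucc 308, .negSucc 24, .ofNat 35, .ofNat 202, .ofNat 191, .ofNat 514⟩, ⟨.negSucc 2252, .negSucc 314, .ofNat 238, .ofNat 871, .negSucc 37, .negSucc 1434⟩, ⟨.ofNat 780, .ofNat 678, .ofNat 269, .ofNat 3169, .negSucc 797, .negSucc 523⟩, .ofNat 3412, .ofNat 4359, .ofNat 0, .ofNat 4359, .ofNat 7014, .ofNat 0, .ofNat 128, .negSucc 583, .negSucc 158, .ofNat 0, .ofNat 426, .ofNat 101, .ofNat 0, .ofNat 0, .ofNat 676, .ofNat 5286, .ofNat 0, .ofNat 0, .ofNat 15871691825995693396636403189552250880, .ofNat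 0, .ofNat 0, .ofNat 0, .ofNat 556082423189627455226890170915375546368, .ofNat 0, .ofNat 0, .ofNat 0, .ofNat 0, .ofNat 0, .ofNat 0, .ofNat 0, .ofNat 1006930987802798377314297627199399788544, .ofNat 0⟩)
    (by decide +kernel)
theorem L01928 : Good (Phi V5.P V5.D 1 (-1)) ⟨2, 0, 2, 2, 2, 3, 3, 1, 4, 3⟩ :=
  leafYS_sound T5.ok_pm T5.Ypm.bz_eq (w := 203) (c := ⟨⟨.negSucc 1270, .negSucc 288, .negSucc 130, .negSucc 224, .ofNat 49, .ofNat 73⟩, ⟨.ofNat 653, .ofNat 191, .ofNat 368, .ofNat 224, .negSucc 34, .negSucc 59⟩, ⟨.ofNat 227, .ofNat 7, .ofNat 19, .ofNat 113, .ofNat 172, .ofNat 235⟩, ⟨.negSucc 4012, .ofNat 13, .ofNat 277, .ofNat 885, .negSucc 106, .negSucc 122⟩, ⟨.negSucc 151, .ofNat 851, .ofNat 621, .ofNat 2569, .negSucc 394, .negSucc 525⟩, .ofNat 1641, .ofNat 1775, .ofNat 0, .ofNat 1775, .ofNat 3299, .ofNat 0, .ofNat 128, .negSucc 206, .negSucc 44, .ofNat 0, .ofNat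 176, .ofNat 23, .ofNat 0, .ofNat 0, .ofNat 361, .ofNat 3135, .ofNat 0, .ofNat 0, .ofNat 2126319420035060632083683551632949248, .ofNat 0, .ofNat 0, .ofNat 0, .ofNat 0, .ofNat 0, .ofNat 0, .ofNat 0, .ofNat 0, .ofNat 0, .ofNat 0, .ofNat 0, .ofNat 104704868637089513831489686080283738112, .ofNat 0⟩)
    (by decide +kernel)
theorem L01929 : Good (Phi V5.P V5.D 1 (-1)) ⟨2, 0, 2, 2, 1, 1, 3, 2, 3, 1⟩ :=
  leafYS_sound T5.ok_pm T5.Ypm.bz_eq (w := 182) (c := ⟨⟨.negSucc 836, .negSucc 229, .negSucc 67, .negSucc 304, .ofNat 40, .negSucc 293⟩, ⟨.ofNat 373, .ofNat 141, .ofNat 362, .ofNat 243, .negSucc 18, .ofNat 158⟩, ⟨.ofNat 70, .ofNat 84, .ofNat 29, .negSucc 47, .ofNat 191, .ofNat 635⟩, ⟨.negSucc 3001, .negSucc 137, .ofNat 144, .ofNat 206, .ofNat 93, .negSucc 1131⟩, ⟨.negSucc 688, .ofNat 342, .ofNat 560, .ofNat 1758, .negSucc 13, .negSucc 447⟩, .ofNat 1259, .ofNat 1212, .ofNat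 0, .ofNat 1212, .ofNat 2383, .ofNat 0, .ofNat 128, .negSucc 187, .negSucc 68, .ofNat 0, .ofNat 158, .ofNat 40, .ofNat 0, .ofNat 0, .ofNat 370, .ofNat 940, .ofNat 0, .ofNat 0, .ofNat 2347000855934939667160434212864, .ofNat 0, .ofNat 0, .ofNat 0, .ofNat 0, .ofNat 0, .ofNat 0, .ofNat 0, .ofNat 163608324510244047924436639154176, .ofNat 0, .ofNat 0, .ofNat 0, .ofNat 144062623090757797997376299859968, .ofNat 0⟩)
    (by decide +kernel)
theorem L01930 : Good (Phi V5.P V5.D 1 (-1)) ⟨2, 0, 2, 2, 1, 1, 3, 3, 3, 1⟩ :=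
  leafYS_sound T5.ok_pm T5.Ypm.bz_eq (w := 183) (c := ⟨⟨.negSucc 787, .negSucc 206, .ofNat 22, .negSucc 390, .ofNat 20, .negSucc 334⟩, ⟨.ofNat 352, .ofNat 127, .ofNat 296, .ofNat 268, .negSucc 14, .ofNat 193⟩, ⟨.ofNat 129, .ofNat 218, .ofNat 41, .ofNat 111, .ofNat 159, .ofNat 631⟩, ⟨.negSucc 2754, .negSucc 362, .ofNat 155, .negSucc 415, .negSucc 8, .negSucc 897⟩, ⟨.negSucc 505, .negSucc 78, .ofNat 164, .ofNat 1120, .negSucc 115, .ofNat 105⟩, .ofNat 1988, .ofNat 2308, .ofNat 0, .ofNat 2308, .ofNat 4163, .ofNat 0, .ofNat 128, .negSucc 243, .negSucc 101, .ofNat 0, .ofNat 186, .ofNat 61, .ofNat 0, .ofNat 0, .ofNat 522, .ofNat 694, .ofNat 0, .ofNat 0, .ofNat 0, .ofNat 0, .ofNat 0, .ofNat 0, .ofNat 0, .ofNat 0, .ofNat 0, .ofNat 0, .ofNat 274778545125616846644166346670080, .ofNat 0, .ofNat 0, .ofNat 0, .ofNat 369038825345306552267220245807104, .ofNat 0⟩)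
    (by decide +kernel)
theorem L01931 : Good (Phi V5.P V5.D 1 (-1)) ⟨2, 0, 2, 2, 2, 2, 2, 0, 4, 4⟩ :=
  leafYS_sound T5.ok_pm T5.Ypm.bz_eq (w := 200) (c := ⟨⟨.negSucc 1213, .negSucc 161, .negSucc 8, .negSucc 114, .ofNat 55, .ofNat 73⟩, ⟨.ofNat 589, .ofNat 101, .ofNat 347, .ofNat 78, .negSucc 30, .negSucc 48⟩, ⟨.ofNat 652, .ofNat 87, .ofNat 3, .negSucc 262, .ofNat 214, .ofNat 211⟩, ⟨.negSucc 3934, .negSucc 46, .negSucc 26, .negSucc 143, .ofNat 68, .ofNat 176⟩, ⟨.negSucc 492, .ofNat 191, .ofNat 108, .ofNat 288, .negSucc 105, .negSucc 58⟩, .ofNat 914, .ofNat 729, .ofNat 0, .ofNat 729, .ofNat 1581, .ofNat 0, .ofNat 128, .negSucc 139, .negSucc 29, .ofNat 0, .ofNat 134, .ofNat 20, .ofNat 0, .ofNat 0, .ofNat 314, .ofNat 11383, .ofNat 1086512919737485682606681792046360952832, .ofNat 0, .ofNat 0, .ofNat 0, .ofNat 0, .ofNat 0, .ofNat 0, .ofNat 0, .ofNat 5661549503050120379464131557259831410688,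 .ofNat 0, .ofNat 18334303371129572408640040148311998464, .ofNat 0, .ofNat 8619305905463738427292813241830158106624, .ofNat 0, .ofNat 1854453220678770028050687018120773632, .ofNat 0⟩)
    (by decide +kernel)
theorem L01932 : Good (Phi V5.P V5.D 1 (-1)) ⟨2, 0, 2, 2, 2, 2, 2, 1, 4, 4⟩ :=
  leafYS_sound T5.ok_pm T5.Ypm.bz_eq (w := 198) (c := ⟨⟨.negSucc 1157, .negSucc 153, .ofNat 14, .negSucc 112, .ofNat 24, .ofNat 57⟩, ⟨.ofNat 563, .ofNat 93, .ofNat 324, .ofNat 78, .negSucc 9, .negSucc 36⟩, ⟨.ofNat 747, .ofNat 170, .ofNat 14, .negSucc 115, .ofNat 230, .ofNat 201⟩, ⟨.negSucc 3767, .negSucc 95, .negSucc 26, .negSucc 219, .ofNat 101, .ofNat 134⟩, ⟨.negSucc 468, .ofNat 82, .ofNat 36, .ofNat 194, .ofNat 60, .negSucc 52⟩, .ofNat 896, .ofNat 705, .ofNat 0, .ofNat 705, .ofNat 1555, .ofNat 0, .ofNat 128, .negSucc 164, .negSucc 55, .ofNat 0, .ofNat 159, .ofNat 34, .ofNat 0, .ofNat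 0, .ofNat 614, .ofNat 3315, .ofNat 0, .ofNat 0, .ofNat 0, .ofNat 0, .ofNat 0, .ofNat 0, .ofNat 0, .ofNat 0, .ofNat 0, .ofNat 0, .ofNat 0, .ofNat 0, .ofNat 0, .ofNat 0, .ofNat 15628022148775014141922462804859682816, .ofNat 0⟩)
    (by decide +kernel)
theorem L01933 : Good (Phi V5.P V5.D 1 (-1)) ⟨2, 0, 2, 2, 3, 6, 2, 0, 4, 4⟩ :=
  leafYS_sound T5.ok_pm T5.Ypm.bz_eq (w := 213) (c := ⟨⟨.negSucc 1276, .negSucc 227, .negSucc 81, .negSucc 53, .ofNat 18, .ofNat 135⟩, ⟨.ofNat 645, .ofNat 147, .ofNat 366, .ofNat 58, .negSucc 20, .negSucc 79⟩, ⟨.ofNat 360, .ofNat 15, .negSucc 6, .negSucc 21, .ofNat 339, .ofNat 197⟩, ⟨.negSucc 4036, .ofNat 23, .ofNat 43, .ofNat 290, .negSucc 95, .ofNat 236⟩, ⟨.negSucc 250, .ofNat 567, .ofNat 329, .ofNat 758, .negSucc 258, .negSucc 214⟩, .ofNat 909, .ofNat 724, .ofNat 0, .ofNat 724, .ofNat 1577, .ofNat 0, .ofNat 128, .negSucc 125, .negSucc 18,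 .ofNat 0, .ofNat 130, .ofNat 9, .ofNat 0, .ofNat 0, .ofNat 363, .ofNat 7556, .ofNat 0, .ofNat 0, .ofNat 0, .ofNat 0, .ofNat 0, .ofNat 0, .ofNat 0, .ofNat 0, .ofNat 15242070623894490567003072157969593619447808, .ofNat 0, .ofNat 240895840277138813748380840140650577920000, .ofNat 0, .ofNat 16631650706498389409194438458589900227739648, .ofNat 0, .ofNat 50075735710730488340337877542190310227968, .ofNat 0⟩)
    (by decide +kernel)
theorem L01934 : Good (Phi V5.P V5.D 1 (-1)) ⟨2, 0, 2, 2, 3, 7, 2, 0, 4, 4⟩ :=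
  leafYS_sound T5.ok_pm T5.Ypm.bz_eq (w := 211) (c := ⟨⟨.negSucc 1287, .negSucc 246, .negSucc 147, .negSucc 67, .negSucc 10, .ofNat 171⟩, ⟨.ofNat 707, .ofNat 164, .ofNat 353, .ofNat 77, .negSucc 9, .negSucc 131⟩, ⟨.ofNat 330, .negSucc 39, .ofNat 17, .ofNat 109, .ofNat 370, .ofNat 218⟩, ⟨.negSucc 3749, .ofNat 193, .ofNat 541, .ofNat 658, .negSucc 442, .ofNat 113⟩, ⟨.ofNat 470, .ofNat 973, .ofNat 986, .ofNat 1383, .negSucc 676, .negSucc 668⟩, .ofNat 920, .ofNat 740, .ofNat 0, .ofNat 740, .ofNat 1595, .ofNat 0, .ofNat 128, .negSucc 151, .negSucc 14, .ofNat 0, .ofNat 173, .negSucc 13, .ofNat 0, .ofNat 0, .ofNat 578, .ofNat 671, .ofNat 0, .ofNat 0, .ofNat 0, .ofNat 0, .ofNat 0, .ofNat 0, .ofNat 0, .ofNat 0, .ofNat 0, .ofNat 0, .ofNat 0, .ofNat 0, .ofNat 0, .ofNat 939719548036558975004277228903965097197568, .ofNat 221345534455253583406089105741257535127552, .ofNat 0⟩)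
    (by decide +kernel)
theorem L01935 : Good (Phi V5.P V5.D 1 (-1)) ⟨2, 0, 2, 2, 2, 3, 2, 1, 5, 8⟩ :=
  leafYS_sound T5.ok_pm T5.Ypm.bz_eq (w := 202) (c := ⟨⟨.negSucc 1240, .negSucc 246, .negSucc 67, .negSucc 144, .negSucc 9, .ofNat 60⟩, ⟨.ofNat 613, .ofNat 153, .ofNat 371, .ofNat 137, .ofNat 9, .negSucc 35⟩, ⟨.ofNat 589, .ofNat 131, .ofNat 25, .ofNat 134, .ofNat 390, .ofNat 91⟩, ⟨.negSucc 3971, .negSucc 108, .ofNat 54, .ofNat 266, .negSucc 125, .ofNat 126⟩, ⟨.negSucc 347, .ofNat 439, .ofNat 315, .ofNat 1195, .negSucc 133, .negSucc 62⟩, .ofNat 1206, .ofNat 1133, .ofNat 0, .ofNat 1133, .ofNat 2282, .ofNat 0, .ofNat 128, .negSucc 152, .negSucc 18, .ofNat 0, .ofNat 142, .ofNat 0, .ofNat 0, .ofNat 0, .ofNat 688, .ofNat 953, .ofNat 0, .ofNat 0, .ofNat 0, .ofNat 0, .ofNat 0, .ofNat 0, .ofNat 0, .ofNat 0, .ofNat 0, .ofNat 1321042831269438354071963952168032010240, .ofNat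 170773054724224816109657698596747739136, .ofNat 0, .ofNat 0, .ofNat 5420917946878148483694498106452389920768, .ofNat 679204084106629598571086821535346851840, .ofNat 0⟩)
    (by decide +kernel)
theorem L01936 : Good (Phi V5.P V5.D 1 (-1)) ⟨2, 0, 2, 2, 2, 3, 2, 1, 5, 9⟩ :=
  leafYS_sound T5.ok_pm T5.Ypm.bz_eq (w := 201) (c := ⟨⟨.negSucc 1200, .negSucc 220, .negSucc 62, .negSucc 103, .negSucc 21, .ofNat 56⟩, ⟨.ofNat 593, .ofNat 147, .ofNat 354, .ofNat 98, .ofNat 11, .negSucc 34⟩, ⟨.ofNat 682, .ofNat 146, .ofNat 56, .ofNat 112, .ofNat 413, .ofNat 99⟩, ⟨.negSucc 3847, .negSucc 145, .negSucc 15, .ofNat 312, .negSucc 108, .ofNat 142⟩, ⟨.negSucc 338, .ofNat 323, .ofNat 195, .ofNat 1035, .negSucc 83, .negSucc 43⟩, .ofNat 1231, .ofNat 1165, .ofNat 0, .ofNat 1165, .ofNat 2320, .ofNat 0, .ofNat 144, .negSucc 127, .ofNat 6, .ofNat 0, .ofNat 120, .negSucc 13, .ofNat 0, .ofNat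 0, .ofNat 625, .ofNat 325, .ofNat 0, .ofNat 0, .ofNat 0, .ofNat 0, .ofNat 0, .ofNat 0, .ofNat 0, .ofNat 0, .ofNat 0, .ofNat 1238723482949573330202502850480542056448, .ofNat 91534325984442904870577373793684029440, .ofNat 0, .ofNat 0, .ofNat 7321686195860800599815088539363268624384, .ofNat 49462453363524790185646175481459900416, .ofNat 0⟩)
    (by decide +kernel)
theorem L01937 : Good (Phi V5.P V5.D 1 (-1)) ⟨2, 0, 2, 2, 2, 2, 2, 0, 4, 5⟩ :=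
  leafYS_sound T5.ok_pm T5.Ypm.bz_eq (w := 201) (c := ⟨⟨.negSucc 1091, .negSucc 175, .negSucc 19, .negSucc 105, .ofNat 19, .ofNat 117⟩, ⟨.ofNat 531, .ofNat 99, .ofNat 340, .ofNat 64, .negSucc 9, .negSucc 70⟩, ⟨.ofNat 658, .ofNat 93, .ofNat 21, .negSucc 149, .ofNat 341, .ofNat 274⟩, ⟨.negSucc 3729, .negSucc 26, .negSucc 46, .negSucc 30, .negSucc 23, .ofNat 312⟩, ⟨.negSucc 655, .ofNat 230, .ofNat 119, .ofNat 406, .negSucc 101, .negSucc 63⟩, .ofNat 462, .ofNat 207, .ofNat 0, .ofNat 207, .ofNat 653, .ofNat 0, .ofNat 164, .negSucc 83, .negSucc 21, .ofNat 0, .ofNat 128, .ofNat 13, .ofNat 0, .ofNat 0, .ofNat 661, .ofNat 19395, .ofNat 4088383036567906206320925439064222466048, .ofNat 0, .ofNat 1488972546052079101328667496434106368, .ofNat 0, .ofNat 0, .ofNat 0, .ofNat 0, .ofNat 0, .ofNat 33240866368732173526074907399136546390016, .ofNat 0, .ofNat 8851597758368182682686801984712867840,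 .ofNat 0, .ofNat 30898156699852418981101769670608142991360, .ofNat 0, .ofNat 1005338811872466631764073811309232128, .ofNat 0⟩)
    (by decide +kernel)
theorem L01938 : Good (Phi V5.P V5.D 1 (-1)) ⟨3, 0, 2, 2, 2, 2, 2, 1, 4, 5⟩ :=
  leafYS_sound T5.ok_pm T5.Ypm.bz_eq (w := 203) (c := ⟨⟨.negSucc 1134, .negSucc 40, .ofNat 12, .negSucc 51, .ofNat 5, .ofNat 84⟩, ⟨.ofNat 545, .ofNat 45, .ofNat 307, .ofNat 33, .ofNat 0, .negSucc 47⟩, ⟨.ofNat 848, .ofNat 156, .negSucc 34, .negSucc 10, .ofNat 286, .ofNat 295⟩, ⟨.negSucc 3607, .negSucc 54, .negSucc 35, .negSucc 127, .ofNat 19, .ofNat 251⟩, ⟨.negSucc 388, .ofNat 4, .ofNat 29, .ofNat 45, .ofNat 14, .negSucc 3⟩, .ofNat 887, .ofNat 674, .ofNat 0, .ofNat 674, .ofNat 1521, .ofNat 0, .ofNat 128, .negSucc 208, .negSucc 37, .ofNat 0, .ofNat 214, .ofNat 16, .ofNat 0, .ofNat 0, .ofNat 1872, .ofNat 5557, .ofNat 10510088227989345505334073669162150920192,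 .ofNat 0, .ofNat 6285908172997539162138856187232256, .ofNat 0, .ofNat 0, .ofNat 0, .ofNat 0, .ofNat 0, .ofNat 0, .ofNat 0, .ofNat 0, .ofNat 0, .ofNat 0, .ofNat 73633037917630395629599922789682484609024, .ofNat 39988075027074604409603217756690317312, .ofNat 0⟩)
    (by decide +kernel)
theorem L01939 : Good (Phi V5.P V5.D 1 (-1)) ⟨3, 1, 2, 2, 2, 2, 2, 1, 4, 5⟩ :=
  leafYS_sound T5.ok_pm T5.Ypm.bz_eq (w := 204) (c := ⟨⟨.negSucc 1152, .negSucc 104, .ofNat 2, .negSucc 92, .negSucc 12, .ofNat 98⟩, ⟨.ofNat 582, .ofNat 41, .ofNat 309, .ofNat 60, .ofNat 9, .negSucc 59⟩, ⟨.ofNat 943, .ofNat 74, .ofNat 80, .ofNat 8, .ofNat 295, .ofNat 282⟩, ⟨.negSucc 3569, .negSucc 71, .negSucc 52, .negSucc 168, .negSucc 54, .ofNat 235⟩, ⟨.negSucc 329, .ofNat 11, .ofNat 20, .ofNat 146, .negSucc 39, .negSucc 56⟩, .ofNat 1705, .ofNat 1890, .ofNat 0, .ofNat 1890, .ofNat 3465, .ofNat 0, .ofNat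 128, .negSucc 366, .negSucc 65, .ofNat 0, .ofNat 295, .ofNat 36, .ofNat 0, .ofNat 0, .ofNat 2721, .ofNat 7057, .ofNat 21259294273084105988148138851888722345984, .ofNat 0, .ofNat 0, .ofNat 0, .ofNat 0, .ofNat 3923940377453702187017339430518036365312, .ofNat 0, .ofNat 0, .ofNat 0, .ofNat 22014551336933124178203795539577815433216, .ofNat 11523258016162641167390239742771593216, .ofNat 0, .ofNat 0, .ofNat 160900032863764738405908068653251900211200, .ofNat 79662078975217404743660731452115386368, .ofNat 0⟩)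
    (by decide +kernel)
theorem L01940 : Good (Phi V5.P V5.D 1 (-1)) ⟨2, 0, 2, 2, 2, 3, 2, 0, 4, 5⟩ :=
  leafYS_sound T5.ok_pm T5.Ypm.bz_eq (w := 196) (c := ⟨⟨.negSucc 1191, .negSucc 171, .negSucc 48, .negSucc 32, .ofNat 11, .ofNat 143⟩, ⟨.ofNat 580, .ofNat 117, .ofNat 331, .ofNat 66, .ofNat 1, .negSucc 80⟩, ⟨.ofNat 483, .ofNat 45, .ofNat 41, .ofNat 59, .ofNat 372, .ofNat 339⟩, ⟨.negSucc 3711, .negSucc 40, .negSucc 21, .ofNat 451, .negSucc 94, .ofNat 327⟩, ⟨.negSucc 270, .ofNat 308, .ofNat 175, .ofNat 956, .negSucc 149, .negSucc 103⟩, .ofNat 884, .ofNat 684, .ofNat 0, .ofNat 684, .ofNat 1533, .ofNat 0, .ofNat 128, .negSucc 138, .ofNat 3, .ofNat 0, .ofNat 149, .negSucc 5, .ofNat 0, .ofNat 0, .ofNat 634, .ofNat 390, .ofNat 66176985704585512535918361575667269632, .ofNat 0, .ofNat 0, .ofNat 0, .ofNat 0, .ofNat 0, .ofNat 0, .ofNat 0, .ofNat 0, .ofNat 0, .ofNat 0, .ofNat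 0, .ofNat 9322655825453579810479181592520707538944, .ofNat 1052454584049070396339979767684165271552, .ofNat 0, .ofNat 0⟩)
    (by decide +kernel)
theorem L01941 : Good (Phi V5.P V5.D 1 (-1)) ⟨2, 0, 2, 2, 3, 6, 2, 1, 4, 5⟩ :=
  leafYS_sound T5.ok_pm T5.Ypm.bz_eq (w := 211) (c := ⟨⟨.negSucc 1167, .negSucc 186, .negSucc 39, .negSucc 40, .negSucc 0, .ofNat 130⟩, ⟨.ofNat 573, .ofNat 122, .ofNat 331, .ofNat 41, .ofNat 2, .negSucc 75⟩, ⟨.ofNat 791, .ofNat 115, .ofNat 79, .ofNat 31, .ofNat 525, .ofNat 373⟩, ⟨.negSucc 3750, .negSucc 79, .negSucc 29, .ofNat 176, .negSucc 103, .ofNat 311⟩, ⟨.negSucc 384, .ofNat 292, .ofNat 125, .ofNat 483, .negSucc 131, .negSucc 92⟩, .ofNat 904, .ofNat 718, .ofNat 0, .ofNat 718, .ofNat 1572, .ofNat 0, .ofNat 128, .negSucc 134, .ofNat 24, .ofNat 0, .ofNat 141, .negSucc 24, .ofNat 0, .ofNat 0, .ofNat 915, .ofNat 953, .ofNat 0, .ofNat 14899759608271152984536916432542018568192,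 .ofNat 0, .ofNat 0, .ofNat 0, .ofNat 0, .ofNat 0, .ofNat 0, .ofNat 0, .ofNat 2172511296386083876356297142755996593029120, .ofNat 0, .ofNat 0, .ofNat 0, .ofNat 11244230358723243292115240102118127929655296, .ofNat 0, .ofNat 0⟩)
    (by decide +kernel)
theorem L01942 : Good (Phi V5.P V5.D 1 (-1)) ⟨2, 0, 2, 2, 3, 7, 2, 1, 4, 5⟩ :=
  leafYS_sound T5.ok_pm T5.Ypm.bz_eq (w := 211) (c := ⟨⟨.negSucc 1172, .negSucc 229, .negSucc 71, .negSucc 33, .negSucc 15, .ofNat 149⟩, ⟨.ofNat 604, .ofNat 141, .ofNat 340, .ofNat 41, .ofNat 8, .negSucc 106⟩, ⟨.ofNat 840, .ofNat 111, .ofNat 62, .ofNat 169, .ofNat 531, .ofNat 367⟩, ⟨.negSucc 3627, .negSucc 13, .ofNat 69, .ofNat 298, .negSucc 200, .ofNat 292⟩, ⟨.negSucc 31, .ofNat 523, .ofNat 305, .ofNat 631, .negSucc 236, .negSucc 302⟩, .ofNat 460, .ofNat 200, .ofNat 0, .ofNat 200, .ofNat 650, .ofNat 0, .ofNat 155, .negSucc 72, .ofNat 20, .ofNat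 0, .ofNat 128, .negSucc 42, .ofNat 0, .ofNat 0, .ofNat 538, .ofNat 1573, .ofNat 0, .ofNat 0, .ofNat 0, .ofNat 0, .ofNat 0, .ofNat 1486789996496786538820994834597676853493760, .ofNat 0, .ofNat 0, .ofNat 0, .ofNat 2198931785331674049871455051302008516509696, .ofNat 0, .ofNat 0, .ofNat 0, .ofNat 9137763869056796913866197056435906873917440, .ofNat 53291939509011860887212633593150049353728, .ofNat 0⟩)
    (by decide +kernel)
theorem L01943 : Good (Phi V5.P V5.D 1 (-1)) ⟨2, 0, 2, 2, 2, 2, 2, 0, 4, 6⟩ :=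
  leafYS_sound T5.ok_pm T5.Ypm.bz_eq (w := 207) (c := ⟨⟨.negSucc 1223, .negSucc 161, .negSucc 11, .negSucc 0, .ofNat 168, .ofNat 1⟩, ⟨.ofNat 485, .ofNat 95, .ofNat 313, .ofNat 0, .ofNat 32, .ofNat 0⟩, ⟨.ofNat 1025, .ofNat 89, .ofNat 82, .ofNat 1, .ofNat 171, .negSucc 0⟩, ⟨.negSucc 3439, .negSucc 38, .negSucc 59, .negSucc 1, .ofNat 0, .ofNat 2⟩, ⟨.negSucc 387, .ofNat 219, .ofNat 77, .ofNat 0, .negSucc 16, .ofNat 0⟩, .ofNat 196, .ofNat 34, .ofNat 0, .ofNat 34, .ofNat 227, .ofNat 0, .ofNat 358, .negSucc 41, .ofNat 12, .ofNat 0, .ofNat 128, .negSucc 15, .ofNat 0, .ofNat 0, .ofNat 300, .ofNat 1222661, .ofNat 516903195390014024796629401195086455242752, .ofNat 0, .ofNat 125843026834392636213039710089930342400, .ofNat 0, .ofNat 965626486128863423580708977361544783331328, .ofNat 0, .ofNat 0, .ofNat 0, .ofNat 184328390728161702444273688471768425037824, .ofNat 0, .ofNat 0,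 .ofNat 0, .ofNat 265316738853805752409505297143362716958720, .ofNat 0, .ofNat 4112350140297723230067726487633526784, .ofNat 0⟩)
    (by decide +kernel)
theorem L01944 : Good (Phi V5.P V5.D 1 (-1)) ⟨2, 0, 2, 2, 3, 4, 3, 2, 4, 6⟩ :=
  leafYS_sound T5.ok_pm T5.Ypm.bz_eq (w := 221) (c := ⟨⟨.negSucc 1057, .negSucc 136, .ofNat 16, .negSucc 19, .ofNat 20, .ofNat 99⟩, ⟨.ofNat 499, .ofNat 77, .ofNat 293, .ofNat 11, .ofNat 6, .negSucc 61⟩, ⟨.ofNat 1111, .ofNat 182, .ofNat 107, .ofNat 34, .ofNat 131, .ofNat 498⟩, ⟨.negSucc 3391, .negSucc 75, .negSucc 44, .negSucc 51, .ofNat 18, .ofNat 282⟩, ⟨.negSucc 412, .ofNat 55, .ofNat 8, .ofNat 3, .ofNat 10, .negSucc 25⟩, .ofNat 196, .ofNat 34, .ofNat 0, .ofNat 34, .ofNat 227, .ofNat 0, .ofNat 252, .negSucc 40, .negSucc 10, .ofNat 0, .ofNat 128, .negSucc 1, .ofNat 0, .ofNat 0, .ofNat 469, .ofNat 83545, .ofNat 606864681812512614035553442496017224465121280,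 .ofNat 0, .ofNat 962777897572721921929879953700600787501056, .ofNat 0, .ofNat 0, .ofNat 0, .ofNat 0, .ofNat 0, .ofNat 597426481362660119090655252391887827739082752, .ofNat 0, .ofNat 1394802392221138408554557857532973240287232, .ofNat 0, .ofNat 4376800933271717051068564857209821358400208896, .ofNat 0, .ofNat 1214924056737844602379208554910511999746048, .ofNat 0⟩)
    (by decide +kernel)
theorem L01945 : Good (Phi V5.P V5.D 1 (-1)) ⟨2, 0, 2, 2, 3, 4, 3, 3, 5, 12⟩ :=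
  leafYS_sound T5.ok_pm T5.Ypm.bz_eq (w := 223) (c := ⟨⟨.negSucc 1052, .negSucc 127, .ofNat 13, .negSucc 2, .ofNat 10, .ofNat 45⟩, ⟨.ofNat 510, .ofNat 76, .ofNat 287, .ofNat 7, .negSucc 0, .negSucc 27⟩, ⟨.ofNat 1121, .ofNat 196, .ofNat 164, .ofNat 199, .ofNat 201, .ofNat 236⟩, ⟨.negSucc 3347, .negSucc 104, .negSucc 48, .negSucc 56, .ofNat 6, .ofNat 132⟩, ⟨.negSucc 323, .ofNat 1, .negSucc 7, .negSucc 55, .negSucc 18, .negSucc 5⟩, .ofNat 461, .ofNat 203, .ofNat 0, .ofNat 203, .ofNat 652, .ofNat 0, .ofNat 165, .negSucc 82, .negSucc 13, .ofNat 0, .ofNat 128, .negSucc 2, .ofNat 0, .ofNat 0, .ofNat 1085, .ofNat 10801, .ofNat 427704138963155153525683009381010438250037248, .ofNat 0, .ofNat 0, .ofNat 0, .ofNat 0, .ofNat 0, .ofNat 0, .ofNat 0, .ofNat 0, .ofNat 0, .ofNat 0, .ofNat 0, .ofNat 0, .ofNat 0, .ofNat 559616099512598149998637755876201469847797760, .ofNat 0⟩)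
    (by decide +kernel)
theorem L01946 : Good (Phi V5.P V5.D 1 (-1)) ⟨2, 0, 2, 2, 3, 4, 3, 3, 5, 13⟩ :=
  leafYS_sound T5.ok_pm T5.Ypm.bz_eq (w := 223) (c := ⟨⟨.negSucc 1036, .negSucc 130, .ofNat 46, .ofNat 23, .ofNat 24, .ofNat 64⟩, ⟨.ofNat 506, .ofNat 69, .ofNat 268, .negSucc 18, .negSucc 5, .negSucc 44⟩, ⟨.ofNat 851, .ofNat 303, .ofNat 403, .ofNat 602, .ofNat 464, .ofNat 598⟩, ⟨.negSucc 3226, .negSucc 130, .negSucc 18, .negSucc 4, .ofNat 0, .ofNat 154⟩, ⟨.negSucc 204, .negSucc 55, .negSucc 45, .negSucc 136, .negSucc 81, .negSucc 73⟩, .ofNat 999, .ofNat 840, .ofNat 0, .ofNat 840, .ofNat 1689, .ofNat 0, .ofNat 128, .negSucc 129, .ofNat 29, .ofNat 0, .ofNat 124, .negSucc 27, .ofNat 0, .ofNat 0, .ofNat 2151, .ofNat 7369, .ofNat 721389996145234620983000528015549255502528512, .ofNat 0, .ofNat 14544711651037450029053233137403568341385216, .ofNat 0, .ofNat 0, .ofNat 0,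 .ofNat 0, .ofNat 0, .ofNat 0, .ofNat 11875971337318674873007249821886929264705536, .ofNat 233434188039697934652402915667576930359574528, .ofNat 0, .ofNat 0, .ofNat 855918644918300108941317429997604638705057792, .ofNat 1752149692539130498678118237190101038725595136, .ofNat 0⟩)
    (by decide +kernel)
theorem L01947 : Good (Phi V5.P V5.D 1 (-1)) ⟨2, 0, 2, 2, 4, 10, 2, 1, 5, 12⟩ :=
  leafYS_sound T5.ok_pm T5.Ypm.bz_eq (w := 231) (c := ⟨⟨.negSucc 1073, .negSucc 144, .ofNat 31, .negSucc 2, .ofNat 19, .ofNat 70⟩, ⟨.ofNat 520, .ofNat 83, .ofNat 296, .ofNat 2, .negSucc 13, .negSucc 37⟩, ⟨.ofNat 918, .ofNat 227, .ofNat 196, .ofNat 117, .ofNat 611, .ofNat 366⟩, ⟨.negSucc 3424, .negSucc 114, .negSucc 50, .negSucc 3, .ofNat 20, .ofNat 169⟩, ⟨.negSucc 346, .ofNat 34, .negSucc 20, .ofNat 2, .negSucc 74, .negSucc 36⟩, .ofNat 463, .ofNat 204, .ofNat 0, .ofNat 204, .ofNat 652, .ofNat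 0, .ofNat 134, .negSucc 81, .ofNat 48, .ofNat 0, .ofNat 128, .negSucc 53, .ofNat 0, .ofNat 0, .ofNat 1786, .ofNat 2708, .ofNat 0, .ofNat 0, .ofNat 830420485263991209325960406598623913704423424, .ofNat 0, .ofNat 0, .ofNat 0, .ofNat 0, .ofNat 0, .ofNat 0, .ofNat 3224052027632595686347995448945196721806245888, .ofNat 131041226197444770082421601208774577319101595648, .ofNat 0, .ofNat 0, .ofNat 789060484710573402918303485130638096772397793280, .ofNat 1126689238420286761807224976500819759636632567808, .ofNat 0⟩)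
    (by decide +kernel)
theorem L01948 : Good (Phi V5.P V5.D 1 (-1)) ⟨2, 0, 2, 2, 4, 11, 2, 1, 5, 12⟩ :=
  leafYS_sound T5.ok_pm T5.Ypm.bz_eq (w := 232) (c := ⟨⟨.negSucc 1081, .negSucc 146, .ofNat 9, .ofNat 4, .ofNat 42, .ofNat 75⟩, ⟨.ofNat 517, .ofNat 93, .ofNat 297, .ofNat 4, .negSucc 10, .negSucc 39⟩, ⟨.ofNat 1038, .ofNat 175, .ofNat 190, .ofNat 58, .ofNat 653, .ofNat 317⟩, ⟨.negSucc 3436, .negSucc 102, .negSucc 46, .ofNat 22, .ofNat 16, .ofNat 179⟩, ⟨.negSucc 377, .ofNat 92, .ofNat 20, .ofNat 47, .negSucc 86, .negSucc 28⟩, .ofNat 900, .ofNat 709, .ofNat 0, .ofNat 709, .ofNat 1562, .ofNat 0, .ofNat 181, .negSucc 124, .ofNat 55, .ofNat 0, .ofNat 128, .negSucc 42, .ofNat 0, .ofNat 0, .ofNat 1558, .ofNat 4694, .ofNat 0, .ofNat 3249176205171356160430145265443587521719042048, .ofNat 0, .ofNat 0, .ofNat 0, .ofNat 0, .ofNat 0, .ofNat 0, .ofNat 0, .ofNat 169771554646422989107361227089187388341419507712,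 .ofNat 39061163835310365214859692539163737976087773184, .ofNat 0, .ofNat 0, .ofNat 1553109412976249125485777810620258025794273542144, .ofNat 0, .ofNat 0⟩)
    (by decide +kernel)
theorem L01949 : Good (Phi V5.P V5.D 1 (-1)) ⟨2, 0, 2, 2, 3, 5, 3, 2, 5, 13⟩ :=
  leafYS_sound T5.ok_pm T5.Ypm.bz_eq (w := 223) (c := ⟨⟨.negSucc 1016, .negSucc 128, .ofNat 34, .ofNat 1, .ofNat 13, .ofNat 90⟩, ⟨.ofNat 517, .ofNat 79, .ofNat 277, .negSucc 35, .negSucc 20, .negSucc 55⟩, ⟨.ofNat 1021, .ofNat 236, .ofNat 336, .ofNat 498, .ofNat 430, .ofNat 634⟩, ⟨.negSucc 3314, .negSucc 83, .negSucc 38, .ofNat 73, .ofNat 27, .ofNat 200⟩, ⟨.negSucc 317, .ofNat 57, .negSucc 34, .negSucc 71, .negSucc 83, .negSucc 95⟩, .ofNat 196, .ofNat 34, .ofNat 0, .ofNat 34, .ofNat 227, .ofNat 0, .ofNat 247, .negSucc 39, .ofNat 54, .ofNat 0, .ofNat 128, .negSucc 64, .ofNat 0, .ofNat 0, .ofNat 899, .ofNat 8272,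 .ofNat 0, .ofNat 0, .ofNat 0, .ofNat 0, .ofNat 0, .ofNat 0, .ofNat 0, .ofNat 0, .ofNat 5875137280520384392214793129892414155363713024, .ofNat 80550415109327045849766696722699437916291072, .ofNat 37965928305002111419349949451165554169610240, .ofNat 0, .ofNat 42607798614787378141811317258948763718720159744, .ofNat 799567138679047890112710908482860040824291328, .ofNat 10899334599737983443767426089832267860934656, .ofNat 0⟩)
    (by decide +kernel)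
theorem L01950 : Good (Phi V5.P V5.D 1 (-1)) ⟨2, 0, 2, 2, 4, 10, 4, 6, 5, 13⟩ :=
  leafYS_sound T5.ok_pm T5.Ypm.bz_eq (w := 241) (c := ⟨⟨.negSucc 1018, .negSucc 126, .ofNat 41, .ofNat 19, .ofNat 10, .ofNat 90⟩, ⟨.ofNat 497, .ofNat 74, .ofNat 267, .negSucc 11, .negSucc 8, .negSucc 59⟩, ⟨.ofNat 1369, .ofNat 281, .ofNat 406, .ofNat 300, .ofNat 234, .ofNat 782⟩, ⟨.negSucc 3275, .negSucc 98, .negSucc 27, .ofNat 28, .ofNat 14, .ofNat 199⟩, ⟨.negSucc 358, .ofNat 9, .negSucc 55, .negSucc 50, .negSucc 38, .negSucc 116⟩, .ofNat 460, .ofNat 202, .ofNat 0, .ofNat 202, .ofNat 651, .ofNat 0, .ofNat 237, .negSucc 80, .ofNat 92, .ofNat 0, .ofNat 128, .negSucc 85, .ofNat 0, .ofNat 0, .ofNat 2339, .ofNat 11522, .ofNat 0, .ofNat 0, .ofNat 0, .ofNat 0, .ofNat 0, .ofNat 0, .ofNat 0, .ofNat 0, .ofNat 255937374943525584586287628614532599603851329273856, .ofNat 3618671299610595146531512075784976585993394061312,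 .ofNat 0, .ofNat 0, .ofNat 3363318313984227457229630265605662897839592265744384, .ofNat 61872993921342633435757800095220666374246073630720, .ofNat 0, .ofNat 0⟩)
    (by decide +kernel)
theorem L01951 : Good (Phi V5.P V5.D 1 (-1)) ⟨2, 0, 2, 2, 4, 10, 4, 7, 5, 13⟩ :=
  leafYS_sound T5.ok_pm T5.Ypm.bz_eq (w := 241) (c := ⟨⟨.negSucc 1008, .negSucc 127, .ofNat 57, .ofNat 25, .ofNat 15, .ofNat 92⟩, ⟨.ofNat 495, .ofNat 70, .ofNat 261, .negSucc 23, .negSucc 12, .negSucc 64⟩, ⟨.ofNat 1523, .ofNat 345, .ofNat 528, .ofNat 398, .ofNat 325, .ofNat 843⟩, ⟨.negSucc 3256, .negSucc 118, .negSucc 16, .ofNat 32, .ofNat 18, .ofNat 211⟩, ⟨.negSucc 363, .negSucc 27, .negSucc 93, .negSucc 87, .negSucc 62, .negSucc 117⟩, .ofNat 464, .ofNat 206, .ofNat 0, .ofNat 206, .ofNat 653, .ofNat 0, .ofNat 268, .negSucc 81, .ofNat 82, .ofNat 0, .ofNat 128, .negSucc 78, .ofNat 0, .ofNat 0, .ofNat 1809,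 .ofNat 9427, .ofNat 0, .ofNat 289220461349534668187322936826200359687291928576, .ofNat 1959113900245709486515221143461176172076658065408, .ofNat 0, .ofNat 0, .ofNat 0, .ofNat 0, .ofNat 0, .ofNat 0, .ofNat 5179553466896432030757870668076317111637692645376, .ofNat 0, .ofNat 0, .ofNat 0, .ofNat 55776476117929193321695042845625181536078429945856, .ofNat 55369752252207885477021340461314093483496566685696, .ofNat 0⟩)
    (by decide +kernel)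
theorem L01952 : Good (Phi V5.P V5.D 1 (-1)) ⟨2, 0, 2, 2, 4, 11, 3, 3, 5, 13⟩ :=
  out_sound (S := T5.ds_pm) T5.ok_pm (w := 38) (j := 2) (by decide +kernel)
theorem L01953 : Good (Phi V5.P V5.D 1 (-1)) ⟨2, 0, 2, 2, 2, 3, 1, 0, 4, 6⟩ :=
  leafYS_sound T5.ok_pm T5.Ypm.bz_eq (w := 193) (c := ⟨⟨.negSucc 1087, .negSucc 151, .negSucc 6, .ofNat 6, .ofNat 44, .ofNat 170⟩, ⟨.ofNat 522, .ofNat 100, .ofNat 312, .ofNat 29, .negSucc 13, .negSucc 72⟩, ⟨.ofNat 648, .ofNat 121, .ofNat 112, .ofNat 233, .ofNat 1064, .ofNat 543⟩, ⟨.negSucc 3424, .negSucc 58, .negSucc 59, .ofNat 169, .negSucc 5, .ofNat 313⟩, ⟨.negSucc 314, .ofNat 203, .ofNat 67, .ofNat 309, .negSucc 151, .negSucc 104⟩, .ofNat 462, .ofNat 203, .ofNat 0, .ofNat 203, .ofNat 651, .ofNat 0, .ofNat 201, .negSucc 77, .ofNat 29, .ofNat 0, .ofNat 128, .negSucc 27, .ofNat 0, .ofNat 0, .ofNat 793, .ofNat 1470, .ofNat 59776311630396440392697588198714376192,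 .ofNat 12720563704301589979186381268025606144, .ofNat 0, .ofNat 0, .ofNat 0, .ofNat 335359337665105967503806549590225715200, .ofNat 0, .ofNat 0, .ofNat 885861899469120842352894154339365421056, .ofNat 370909043068563887378700948983630528512, .ofNat 0, .ofNat 0, .ofNat 5179110344133298724464664422520249647104, .ofNat 1572733721753481725302835028980031029248, .ofNat 0, .ofNat 0⟩)
    (by decide +kernel)
theorem L01954 : Good (Phi V5.P V5.D 1 (-1)) ⟨2, 0, 2, 2, 2, 2, 2, 0, 4, 7⟩ :=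
  out_sound (S := T5.ds_pm) T5.ok_pm (w := 24) (j := 1) (by decide +kernel)
theorem L01955 : Good (Phi V5.P V5.D 1 (-1)) ⟨2, 0, 2, 2, 3, 4, 3, 2, 4, 7⟩ :=
  out_sound (S := T5.ds_pm) T5.ok_pm (w := 27) (j := 1) (by decide +kernel)
theorem L01956 : Good (Phi V5.P V5.D 1 (-1)) ⟨2, 0, 2, 2, 4, 8, 3, 3, 5, 14⟩ :=
  out_sound (S := T5.ds_pm) T5.ok_pm (w := 31) (j := 1) (by decide +kernel)
theorem L01957 : Good (Phi V5.P V5.D 1 (-1)) ⟨2, 0, 2, 2, 4, 9, 4, 6, 5, 14⟩ :=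
  out_sound (S := T5.ds_pm) T5.ok_pm (w := 32) (j := 1) (by decide +kernel)
theorem L01958 : Good (Phi V5.P V5.D 1 (-1)) ⟨2, 0, 2, 2, 5, 18, 4, 7, 6, 28⟩ :=
  leafYS_sound T5.ok_pm T5.Ypm.bz_eq (w := 267) (c := ⟨⟨.negSucc 941, .negSucc 117, .ofNat 111, .ofNat 0, .ofNat 7, .ofNat 0⟩, ⟨.ofNat 412, .ofNat 61, .ofNat 217, .ofNat 0, .ofNat 34, .ofNat 0⟩, ⟨.ofNat 1986, .ofNat 412, .ofNat 1141, .ofNat 1, .ofNat 358, .negSucc 0⟩, ⟨.negSucc 3128, .negSucc 114, .ofNat 37, .negSucc 0, .ofNat 65, .ofNat 2⟩, ⟨.negSucc 285, .negSucc 66, .negSucc 200, .ofNat 0, .negSucc 168, .ofNat 0⟩, .ofNat 196, .ofNat 34, .ofNat 0, .ofNat 34, .ofNat 227, .ofNat 0, .ofNat 308, .negSucc 38, .ofNat 171, .ofNat 0, .ofNat 128, .negSucc 226, .ofNat 0, .ofNat 0, .ofNat 2546, .ofNat 1084147, .ofNat 0, .ofNat 0, .ofNat 0, .ofNat 0, .ofNat 129733628470501415464267830834001942874039531610795147264, .ofNat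 537639099865805126485544084593088085894591027875938304, .ofNat 10246452929649059525432780793934323170772145766880247808, .ofNat 0, .ofNat 56309916282463418106743749806673984511809764317349281792, .ofNat 2809614930046825610705861527150207697771271385251840, .ofNat 21611330248329074747328312535802544969845386766993850368, .ofNat 0, .ofNat 1210470224754930300954583016863987123234825075927254302720, .ofNat 3211771334499683603914244110246626323222958744602148864, .ofNat 422303232386779167278458741872243301827546456343420338176, .ofNat 0⟩)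
    (by decide +kernel)
theorem L01959 : Good (Phi V5.P V5.D 1 (-1)) ⟨2, 0, 2, 2, 5, 19, 6, 28, 7, 56⟩ :=
  out_sound (S := T5.ds_pm) T5.ok_pm (w := 40) (j := 1) (by decide +kernel)
theorem L01960 : Good (Phi V5.P V5.D 1 (-1)) ⟨2, 0, 2, 2, 6, 38, 6, 29, 7, 56⟩ :=
  out_sound (S := T5.ds_pm) T5.ok_pm (w := 42) (j := 1) (by decide +kernel)
theorem L01961 : Good (Phi V5.P V5.D 1 (-1)) ⟨2, 0, 2, 2, 6, 39, 6, 29, 7, 56⟩ :=
  out_sound (S := T5.ds_pm) T5.ok_pm (w := 52) (j := 2) (by decide +kernel)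
theorem L01962 : Good (Phi V5.P V5.D 1 (-1)) ⟨2, 0, 2, 2, 5, 19, 5, 14, 7, 57⟩ :=
  out_sound (S := T5.ds_pm) T5.ok_pm (w := 39) (j := 1) (by decide +kernel)
theorem L01963 : Good (Phi V5.P V5.D 1 (-1)) ⟨2, 0, 2, 2, 7, 76, 6, 30, 7, 56⟩ :=
  out_sound (S := T5.ds_pm) T5.ok_pm (w := 44) (j := 1) (by decide +kernel)
theorem L01964 : Good (Phi V5.P V5.D 1 (-1)) ⟨2, 0, 2, 2, 8, 152, 8, 124, 9, 224⟩ :=
  out_sound (S := T5.ds_pm) T5.ok_pm (w := 52) (j := 1) (by decide +kernel)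
theorem L01965 : Good (Phi V5.P V5.D 1 (-1)) ⟨2, 0, 2, 2, 8, 152, 9, 250, 10, 448⟩ :=
  out_sound (S := T5.ds_pm) T5.ok_pm (w := 55) (j := 1) (by decide +kernel)
theorem L01966 : Good (Phi V5.P V5.D 1 (-1)) ⟨2, 0, 2, 2, 9, 304, 9, 251, 10, 448⟩ :=
  out_sound (S := T5.ds_pm) T5.ok_pm (w := 57) (j := 1) (by decide +kernel)
theorem L01967 : Good (Phi V5.P V5.D 1 (-1)) ⟨2, 0, 2, 2, 9, 305, 9, 251, 10, 448⟩ :=
  out_sound (S := T5.ds_pm) T5.ok_pm (w := 70) (j := 2) (by decide +kernel)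
theorem L01968 : Good (Phi V5.P V5.D 1 (-1)) ⟨2, 0, 2, 2, 8, 152, 8, 125, 10, 449⟩ :=
  out_sound (S := T5.ds_pm) T5.ok_pm (w := 54) (j := 1) (by decide +kernel)
theorem L01969 : Good (Phi V5.P V5.D 1 (-1)) ⟨2, 0, 2, 2, 8, 152, 7, 62, 9, 225⟩ :=
  out_sound (S := T5.ds_pm) T5.ok_pm (w := 51) (j := 1) (by decide +kernel)
theorem L01970 : Good (Phi V5.P V5.D 1 (-1)) ⟨2, 0, 2, 2, 10, 608, 9, 252, 10, 448⟩ :=
  out_sound (S := T5.ds_pm) T5.ok_pm (w := 59) (j := 1) (by decide +kernel)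
theorem L01971 : Good (Phi V5.P V5.D 1 (-1)) ⟨2, 0, 2, 2, 11, 1216, 10, 506, 11, 896⟩ :=
  out_sound (S := T5.ds_pm) T5.ok_pm (w := 64) (j := 1) (by decide +kernel)
theorem L01972 : Good (Phi V5.P V5.D 1 (-1)) ⟨2, 0, 2, 2, 11, 1216, 10, 507, 11, 896⟩ :=
  out_sound (S := T5.ds_pm) T5.ok_pm (w := 78) (j := 2) (by decide +kernel)
theorem L01973 : Good (Phi V5.P V5.D 1 (-1)) ⟨2, 0, 2, 2, 11, 1217, 9, 253, 11, 896⟩ :=
  out_sound (S := T5.ds_pm) T5.ok_pm (w := 76) (j := 2) (by decide +kernel)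
theorem L01974 : Good (Phi V5.P V5.D 1 (-1)) ⟨2, 0, 2, 2, 10, 608, 9, 253, 11, 897⟩ :=
  out_sound (S := T5.ds_pm) T5.ok_pm (w := 74) (j := 2) (by decide +kernel)
theorem L01975 : Good (Phi V5.P V5.D 1 (-1)) ⟨2, 0, 2, 2, 10, 609, 8, 126, 10, 448⟩ :=
  out_sound (S := T5.ds_pm) T5.ok_pm (w := 70) (j := 2) (by decide +kernel)
theorem L01976 : Good (Phi V5.P V5.D 1 (-1)) ⟨2, 0, 2, 2, 9, 304, 8, 126, 10, 449⟩ :=
  out_sound (S := T5.ds_pm) T5.ok_pm (w := 56) (j := 1) (by decide +kernel)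
theorem L01977 : Good (Phi V5.P V5.D 1 (-1)) ⟨2, 0, 2, 2, 9, 304, 8, 127, 9, 224⟩ :=
  out_sound (S := T5.ds_pm) T5.ok_pm (w := 66) (j := 2) (by decide +kernel)
theorem L01978 : Good (Phi V5.P V5.D 1 (-1)) ⟨2, 0, 2, 2, 9, 305, 7, 63, 9, 224⟩ :=
  out_sound (S := T5.ds_pm) T5.ok_pm (w := 64) (j := 2) (by decide +kernel)
theorem L01979 : Good (Phi V5.P V5.D 1 (-1)) ⟨2, 0, 2, 2, 8, 152, 7, 63, 9, 225⟩ :=
  out_sound (S := T5.ds_pm) T5.ok_pm (w := 62) (j := 2) (by decide +kernel)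
theorem L01980 : Good (Phi V5.P V5.D 1 (-1)) ⟨2, 0, 2, 2, 8, 153, 6, 31, 8, 112⟩ :=
  out_sound (S := T5.ds_pm) T5.ok_pm (w := 58) (j := 2) (by decide +kernel)
theorem L01981 : Good (Phi V5.P V5.D 1 (-1)) ⟨2, 0, 2, 2, 7, 76, 6, 31, 8, 113⟩ :=
  out_sound (S := T5.ds_pm) T5.ok_pm (w := 56) (j := 2) (by decide +kernel)
theorem L01982 : Good (Phi V5.P V5.D 1 (-1)) ⟨2, 0, 2, 2, 8, 154, 6, 30, 8, 112⟩ :=
  out_sound (S := T5.ds_pm) T5.ok_pm (w := 48) (j := 1) (by decide +kernel)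
theorem L01983 : Good (Phi V5.P V5.D 1 (-1)) ⟨2, 0, 2, 2, 8, 155, 6, 30, 8, 112⟩ :=
  out_sound (S := T5.ds_pm) T5.ok_pm (w := 58) (j := 2) (by decide +kernel)
theorem L01984 : Good (Phi V5.P V5.D 1 (-1)) ⟨2, 0, 2, 2, 7, 77, 6, 30, 8, 113⟩ :=
  out_sound (S := T5.ds_pm) T5.ok_pm (w := 46) (j := 1) (by decide +kernel)
theorem L01985 : Good (Phi V5.P V5.D 1 (-1)) ⟨2, 0, 2, 2, 7, 77, 6, 31, 7, 56⟩ :=
  out_sound (S := T5.ds_pm) T5.ok_pm (w := 54) (j := 2) (by decide +kernel)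
theorem L01986 : Good (Phi V5.P V5.D 1 (-1)) ⟨2, 0, 2, 2, 6, 38, 5, 15, 7, 57⟩ :=
  out_sound (S := T5.ds_pm) T5.ok_pm (w := 50) (j := 2) (by decide +kernel)
theorem L01987 : Good (Phi V5.P V5.D 1 (-1)) ⟨2, 0, 2, 2, 6, 39, 5, 15, 6, 28⟩ :=
  out_sound (S := T5.ds_pm) T5.ok_pm (w := 48) (j := 2) (by decide +kernel)
theorem L01988 : Good (Phi V5.P V5.D 1 (-1)) ⟨2, 0, 2, 2, 4, 9, 4, 7, 6, 29⟩ :=
  out_sound (S := T5.ds_pm) T5.ok_pm (w := 34) (j := 1) (by decide +kernel)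
theorem L01989 : Good (Phi V5.P V5.D 1 (-1)) ⟨2, 0, 2, 2, 3, 4, 3, 3, 5, 15⟩ :=
  out_sound (S := T5.ds_pm) T5.ok_pm (w := 29) (j := 1) (by decide +kernel)
theorem L01990 : Good (Phi V5.P V5.D 1 (-1)) ⟨2, 0, 2, 2, 4, 10, 3, 2, 5, 14⟩ :=
  out_sound (S := T5.ds_pm) T5.ok_pm (w := 31) (j := 1) (by decide +kernel)
theorem L01991 : Good (Phi V5.P V5.D 1 (-1)) ⟨2, 0, 2, 2, 5, 20, 5, 12, 6, 28⟩ :=
  out_sound (S := T5.ds_pm) T5.ok_pm (w := 37) (j := 1) (by decide +kernel)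
theorem L01992 : Good (Phi V5.P V5.D 1 (-1)) ⟨2, 0, 2, 2, 5, 20, 5, 13, 6, 28⟩ :=
  out_sound (S := T5.ds_pm) T5.ok_pm (w := 46) (j := 2) (by decide +kernel)
theorem L01993 : Good (Phi V5.P V5.D 1 (-1)) ⟨2, 0, 2, 2, 5, 20, 4, 7, 6, 28⟩ :=
  out_sound (S := T5.ds_pm) T5.ok_pm (w := 44) (j := 2) (by decide +kernel)
theorem L01994 : Good (Phi V5.P V5.D 1 (-1)) ⟨2, 0, 2, 2, 5, 20, 3, 3, 6, 29⟩ :=
  out_sound (S := T5.ds_pm) T5.ok_pm (w := 42) (j := 2) (by decide +kernel)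
theorem L01995 : Good (Phi V5.P V5.D 1 (-1)) ⟨2, 0, 2, 2, 5, 21, 3, 3, 5, 14⟩ :=
  out_sound (S := T5.ds_pm) T5.ok_pm (w := 40) (j := 2) (by decide +kernel)
theorem L01996 : Good (Phi V5.P V5.D 1 (-1)) ⟨2, 0, 2, 2, 4, 10, 2, 1, 5, 15⟩ :=
  out_sound (S := T5.ds_pm) T5.ok_pm (w := 36) (j := 2) (by decide +kernel)
theorem L01997 : Good (Phi V5.P V5.D 1 (-1)) ⟨2, 0, 2, 2, 4, 11, 2, 1, 4, 7⟩ :=
  out_sound (S := T5.ds_pm) T5.ok_pm (w := 34) (j := 2) (by decide +kernel)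
theorem L01998 : Good (Phi V5.P V5.D 1 (-1)) ⟨2, 0, 2, 2, 2, 3, 1, 0, 4, 7⟩ :=
  out_sound (S := T5.ds_pm) T5.ok_pm (w := 28) (j := 2) (by decide +kernel)
theorem L01999 : Good (Phi V5.P V5.D 1 (-1)) ⟨2, 0, 2, 3, 1, 1, 1, 0, 1, 0⟩ :=
  out_sound (S := T5.ds_pm) T5.ok_pm (w := 37) (j := 3) (by decide +kernel)
theorem L02000 : Good (Phi V5.P V5.D 1 (-1)) ⟨2, 0, 1, 1, 3, 4, 1, 0, 3, 4⟩ :=
  out_sound (S := T5.ds_pm) T5.ok_pm (w := 23) (j := 1) (by decide +kernel)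
theorem L02001 : Good (Phi V5.P V5.D 1 (-1)) ⟨2, 0, 1, 1, 3, 5, 1, 0, 3, 4⟩ :=
  out_sound (S := T5.ds_pm) T5.ok_pm (w := 28) (j := 2) (by decide +kernel)
theorem L02002 : Good (Phi V5.P V5.D 1 (-1)) ⟨2, 0, 1, 1, 2, 2, 1, 0, 3, 5⟩ :=
  out_sound (S := T5.ds_pm) T5.ok_pm (w := 21) (j := 1) (by decide +kernel)
theorem L02003 : Good (Phi V5.P V5.D 1 (-1)) ⟨2, 0, 1, 1, 2, 2, 1, 0, 2, 3⟩ :=
  out_sound (S := T5.ds_pm) T5.ok_pm (w := 19) (j := 1) (by decide +kernel)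
theorem L02004 : Good (Phi V5.P V5.D 1 (-1)) ⟨2, 0, 1, 1, 2, 3, 1, 0, 1, 1⟩ :=
  out_sound (S := T5.ds_pm) T5.ok_pm (w := 22) (j := 2) (by decide +kernel)
theorem L02005 : Good (Phi V5.P V5.D 1 (-1)) ⟨2, 1, 1, 1, 2, 2, 3, 0, 4, 0⟩ :=
  leafYS_sound T5.ok_pm T5.Ypm.bz_eq (w := 198) (c := ⟨⟨.ofNat 1421, .ofNat 178, .negSucc 348, .negSucc 238, .ofNat 107, .negSucc 1362⟩, ⟨.negSucc 758, .ofNat 103, .negSucc 217, .ofNat 226, .negSucc 52, .ofNat 660⟩, ⟨.negSucc 936, .negSucc 354, .negSucc 16, .negSucc 559, .ofNat 142, .ofNat 215⟩, ⟨.ofNat 3703, .ofNat 8, .ofNat 223, .ofNat 667, .ofNat 296, .negSucc 3990⟩, ⟨.negSucc 409, .ofNat 427, .ofNat 1223, .ofNat 2648, .ofNat 15, .negSucc 872⟩, .ofNat 418, .ofNat 187, .ofNat 0, .ofNat 187, .ofNat 668, .ofNat 0, .ofNat 128, .negSucc 135, .negSucc 91, .ofNat 0, .ofNat 131, .ofNat 59, .ofNat 0, .ofNat 0, .ofNat 340, .ofNat 2383, .ofNat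 0, .ofNat 0, .ofNat 0, .ofNat 0, .ofNat 0, .ofNat 0, .ofNat 12188447601046349431242880999074299904, .ofNat 0, .ofNat 0, .ofNat 0, .ofNat 10072932150964618780758584061685923840, .ofNat 0, .ofNat 0, .ofNat 0, .ofNat 0, .ofNat 0⟩)
    (by decide +kernel)
theorem L02006 : Good (Phi V5.P V5.D 1 (-1)) ⟨3, 2, 2, 2, 3, 6, 3, 0, 4, 0⟩ :=
  leafYS_sound T5.ok_pm T5.Ypm.bz_eq (w := 220) (c := ⟨⟨.ofNat 1012, .ofNat 20, .negSucc 233, .negSucc 285, .ofNat 222, .negSucc 1071⟩, ⟨.negSucc 388, .ofNat 52, .negSucc 174, .ofNat 246, .negSucc 166, .ofNat 543⟩, ⟨.negSucc 1301, .negSucc 317, .negSucc 17, .ofNat 282, .ofNat 366, .negSucc 292⟩, ⟨.ofNat 4010, .negSucc 97, .ofNat 606, .ofNat 512, .ofNat 193, .negSucc 3181⟩, ⟨.ofNat 2679, .ofNat 299, .ofNat 760, .ofNat 2388, .negSucc 783, .negSucc 770⟩, .ofNat 841, .ofNat 718, .ofNat 0, .ofNat 718, .ofNat 1663, .ofNat 0, .ofNat 128, .negSucc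 188, .negSucc 133, .ofNat 0, .ofNat 143, .ofNat 76, .ofNat 0, .ofNat 0, .ofNat 549, .ofNat 3356, .ofNat 0, .ofNat 0, .ofNat 0, .ofNat 0, .ofNat 0, .ofNat 0, .ofNat 172831003780606047175486497580784342269952, .ofNat 0, .ofNat 0, .ofNat 0, .ofNat 250820808279332387916163386517132861767680, .ofNat 0, .ofNat 0, .ofNat 0, .ofNat 0, .ofNat 0⟩)
    (by decide +kernel)
theorem L02007 : Good (Phi V5.P V5.D 1 (-1)) ⟨3, 2, 2, 2, 4, 14, 3, 0, 4, 0⟩ :=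
  leafYS_sound T5.ok_pm T5.Ypm.bz_eq (w := 235) (c := ⟨⟨.ofNat 498, .ofNat 98, .negSucc 204, .negSucc 367, .ofNat 336, .negSucc 864⟩, ⟨.negSucc 32, .negSucc 12, .negSucc 196, .ofNat 221, .negSucc 242, .ofNat 487⟩, ⟨.negSucc 463, .negSucc 439, .ofNat 120, .ofNat 431, .ofNat 109, .negSucc 811⟩, ⟨.ofNat 3643, .ofNat 143, .ofNat 750, .negSucc 499, .negSucc 179, .negSucc 1431⟩, ⟨.ofNat 4551, .ofNat 509, .ofNat 499, .ofNat 852, .negSucc 1947, .ofNat 1411⟩, .ofNat 1541, .ofNat 1836, .ofNat 0, .ofNat 1836, .ofNat 3665, .ofNat 0, .ofNat 128, .negSucc 315, .negSucc 192, .ofNat 0, .ofNat 211, .ofNat 92, .ofNat 0, .ofNat 0, .ofNat 646, .ofNat 5310, .ofNat 0, .ofNat 0, .ofNat 0, .ofNat 0, .ofNat 0, .ofNat 0, .ofNat 0, .ofNat 0, .ofNat 17945145835978650812228545276542507496248568709120, .ofNat 0, .ofNat 6143270149426113052393381359656424996291477504, .ofNat 0, .ofNat 0, .ofNat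 0, .ofNat 11908269357459396330432592479979715073782317056, .ofNat 0⟩)
    (by decide +kernel)
theorem L02008 : Good (Phi V5.P V5.D 1 (-1)) ⟨3, 2, 3, 4, 4, 15, 3, 0, 5, 0⟩ :=
  leafYS_sound T5.ok_pm T5.Ypm.bz_eq (w := 243) (c := ⟨⟨.negSucc 8, .ofNat 86, .negSucc 152, .negSucc 508, .ofNat 490, .negSucc 247⟩, ⟨.ofNat 216, .negSucc 12, .negSucc 33, .ofNat 253, .negSucc 312, .ofNat 180⟩, ⟨.ofNat 393, .negSucc 398, .ofNat 253, .ofNat 753, .negSucc 377, .negSucc 829⟩, ⟨.ofNat 2456, .ofNat 273, .negSucc 10, .negSucc 1842, .ofNat 354, .ofNat 387⟩, ⟨.ofNat 4830, .ofNat 643, .negSucc 147, .negSucc 978, .negSucc 1678, .ofNat 1870⟩, .ofNat 1485, .ofNat 1746, .ofNat 0, .ofNat 1746, .ofNat 3538, .ofNat 0, .ofNat 128, .negSucc 344, .negSucc 163, .ofNat 0, .ofNat 232, .ofNat 59, .ofNat 0, .ofNat 0, .ofNat 538, .ofNat 5393, .ofNat 0, .ofNat 0, .ofNat 0, .ofNat 0, .ofNat 0, .ofNat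 0, .ofNat 0, .ofNat 0, .ofNat 0, .ofNat 0, .ofNat 0, .ofNat 0, .ofNat 0, .ofNat 0, .ofNat 369762079149279204442795055527591487962567671808, .ofNat 0⟩)
    (by decide +kernel)
theorem L02009 : Good (Phi V5.P V5.D 1 (-1)) ⟨3, 2, 3, 4, 4, 15, 3, 0, 5, 1⟩ :=
  leafYS_sound T5.ok_pm T5.Ypm.bz_eq (w := 244) (c := ⟨⟨.negSucc 288, .ofNat 68, .negSucc 188, .negSucc 507, .ofNat 576, .negSucc 520⟩, ⟨.ofNat 454, .negSucc 39, .negSucc 7, .ofNat 288, .negSucc 423, .ofNat 322⟩, ⟨.negSucc 665, .negSucc 327, .ofNat 159, .ofNat 534, .ofNat 119, .negSucc 425⟩, ⟨.ofNat 2447, .ofNat 365, .ofNat 538, .negSucc 1053, .negSucc 456, .negSucc 369⟩, ⟨.ofNat 6406, .ofNat 766, .ofNat 716, .ofNat 460, .negSucc 3571, .ofNat 1788⟩, .ofNat 1513, .ofNat 1784, .ofNat 0, .ofNat 1784, .ofNat 3580, .ofNat 0, .ofNat 128, .negSucc 394, .negSucc 356, .ofNat 0, .ofNat 269, .ofNat 123, .ofNat 0, .ofNat 0,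 .ofNat 1171, .ofNat 4342, .ofNat 0, .ofNat 0, .ofNat 16260508419709864665238175837366641765235294208, .ofNat 0, .ofNat 0, .ofNat 0, .ofNat 24602756134723107426093533393188437632296681472, .ofNat 0, .ofNat 0, .ofNat 0, .ofNat 0, .ofNat 0, .ofNat 0, .ofNat 0, .ofNat 0, .ofNat 0⟩)
    (by decide +kernel)
theorem L02010 : Good (Phi V5.P V5.D 1 (-1)) ⟨3, 2, 3, 5, 4, 15, 3, 0, 5, 0⟩ :=
  leafYS_sound T5.ok_pm T5.Ypm.bz_eq (w := 246) (c := ⟨⟨.negSucc 125, .ofNat 52, .negSucc 168, .negSucc 532, .ofNat 517, .negSucc 275⟩, ⟨.ofNat 152, .negSucc 1, .negSucc 34, .ofNat 312, .negSucc 337, .ofNat 185⟩, ⟨.ofNat 626, .negSucc 338, .ofNat 389, .ofNat 760, .negSucc 458, .negSucc 814⟩, ⟨.ofNat 2582, .negSucc 27, .negSucc 328, .negSucc 1883, .ofNat 490, .ofNat 315⟩, ⟨.ofNat 4748, .ofNat 219, .negSucc 578, .negSucc 783, .negSucc 1484, .ofNat 1726⟩, .ofNat 3964, .ofNat 5617, .ofNat 0,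 .ofNat 5617, .ofNat 9550, .ofNat 0, .ofNat 128, .negSucc 581, .negSucc 353, .ofNat 0, .ofNat 377, .ofNat 188, .ofNat 0, .ofNat 0, .ofNat 1289, .ofNat 5054, .ofNat 0, .ofNat 0, .ofNat 58774418474839621645150790101218607297718124544, .ofNat 0, .ofNat 0, .ofNat 0, .ofNat 4293259416065850434500088272022424574534329827328, .ofNat 0, .ofNat 0, .ofNat 0, .ofNat 0, .ofNat 0, .ofNat 0, .ofNat 0, .ofNat 6930464840814560560824174642700875639858269257728, .ofNat 0⟩)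
    (by decide +kernel)
theorem L02011 : Good (Phi V5.P V5.D 1 (-1)) ⟨3, 2, 3, 5, 4, 15, 4, 0, 5, 1⟩ :=
  leafYS_sound T5.ok_pm T5.Ypm.bz_eq (w := 249) (c := ⟨⟨.negSucc 423, .ofNat 65, .negSucc 220, .negSucc 624, .ofNat 380, .negSucc 596⟩, ⟨.ofNat 371, .negSucc 26, .negSucc 27, .ofNat 389, .negSucc 264, .ofNat 390⟩, ⟨.negSucc 455, .negSucc 458, .ofNat 575, .ofNat 758, .ofNat 43, .negSucc 614⟩, ⟨.ofNat 3108, .ofNat 368, .negSucc 489, .negSucc 1427, .negSucc 399, .ofNat 111⟩, ⟨.ofNat 6931, .ofNat 904, .negSucc 999, .ofNat 402, .negSucc 2378, .ofNat 2811⟩, .ofNat 2980, .ofNat 4041, .ofNat 0, .ofNat 4041, .ofNat 7004, .ofNat 0, .ofNat 128, .negSucc 399, .negSucc 260, .ofNat 0, .ofNat 267, .ofNat 122, .ofNat 0, .ofNat 0, .ofNat 975, .ofNat 21969, .ofNat 0, .ofNat 0, .ofNat 3148745102840839886772950226598511000407836196864, .ofNat 0, .ofNat 0, .ofNat 0, .ofNat 37818369945463733468480613201528555378262983835648,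 .ofNat 0, .ofNat 0, .ofNat 0, .ofNat 9357716424715496659633097566055378482922325540864, .ofNat 0, .ofNat 0, .ofNat 0, .ofNat 103500204883752163038372561270447663214124463030272, .ofNat 0⟩)
    (by decide +kernel)
theorem L02012 : Good (Phi V5.P V5.D 1 (-1)) ⟨3, 2, 3, 5, 4, 15, 4, 1, 5, 1⟩ :=
  leafYS_sound T5.ok_pm T5.Ypm.bz_eq (w := 249) (c := ⟨⟨.negSucc 118, .ofNat 31, .negSucc 211, .negSucc 521, .ofNat 263, .negSucc 544⟩, ⟨.ofNat 158, .ofNat 0, .negSucc 7, .ofNat 317, .negSucc 181, .ofNat 341⟩, ⟨.negSucc 447, .negSucc 375, .ofNat 311, .ofNat 583, .ofNat 34, .negSucc 368⟩, ⟨.ofNat 2903, .ofNat 31, .ofNat 33, .negSucc 1207, .negSucc 235, .negSucc 555⟩, ⟨.ofNat 5256, .ofNat 402, .ofNat 33, .ofNat 264, .negSucc 1555, .ofNat 1446⟩, .ofNat 2926, .ofNat 3859, .ofNat 0, .ofNat 3859, .ofNat 6472, .ofNat 0, .ofNat 128, .negSucc 278, .negSucc 230, .ofNat 0, .ofNat 186, .ofNat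 125, .ofNat 0, .ofNat 0, .ofNat 746, .ofNat 13835, .ofNat 0, .ofNat 0, .ofNat 1836290531034914149377844805277290359696914382848, .ofNat 0, .ofNat 0, .ofNat 0, .ofNat 0, .ofNat 0, .ofNat 0, .ofNat 0, .ofNat 5435553265227657156416465090926115073670665732096, .ofNat 0, .ofNat 0, .ofNat 0, .ofNat 62092927853410576659034105571759460852407025532928, .ofNat 0⟩)
    (by decide +kernel)
theorem L02013 : Good (Phi V5.P V5.D 1 (-1)) ⟨3, 3, 3, 4, 3, 6, 3, 0, 4, 0⟩ :=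
  leafYS_sound T5.ok_pm T5.Ypm.bz_eq (w := 223) (c := ⟨⟨.ofNat 1139, .ofNat 158, .negSucc 107, .negSucc 245, .ofNat 202, .negSucc 1316⟩, ⟨.negSucc 352, .ofNat 120, .negSucc 82, .ofNat 251, .negSucc 165, .ofNat 511⟩, ⟨.negSucc 1724, .negSucc 343, .ofNat 41, .ofNat 108, .ofNat 522, .negSucc 126⟩, ⟨.ofNat 4182, .negSucc 228, .ofNat 142, .ofNat 368, .negSucc 4, .negSucc 3061⟩, ⟨.ofNat 3139, .ofNat 21, .ofNat 125, .ofNat 2293, .negSucc 1178, .negSucc 145⟩, .ofNat 1057, .ofNat 1200, .ofNat 0, .ofNat 1200, .ofNat 2958, .ofNat 0, .ofNat 128, .negSucc 155, .negSucc 85, .ofNat 0, .ofNat 99, .ofNat 40, .ofNat 0, .ofNat 0, .ofNat 309, .ofNat 2896, .ofNat 0, .ofNat 0, .ofNat 0, .ofNat 0, .ofNat 0, .ofNat 0, .ofNat 1167534226431161717586274665978417710628864, .ofNat 0, .ofNat 0, .ofNat 0, .ofNat 502606643454359039783094791962610041356288, .ofNat 0, .ofNat 0, .ofNat 0, .ofNat 0,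 .ofNat 0⟩)
    (by decide +kernel)
theorem L02014 : Good (Phi V5.P V5.D 1 (-1)) ⟨3, 3, 3, 4, 3, 7, 4, 0, 4, 0⟩ :=
  leafYS_sound T5.ok_pm T5.Ypm.bz_eq (w := 228) (c := ⟨⟨.ofNat 608, .ofNat 359, .negSucc 103, .negSucc 840, .ofNat 286, .negSucc 1046⟩, ⟨.negSucc 34, .ofNat 38, .negSucc 35, .ofNat 418, .negSucc 191, .ofNat 536⟩, ⟨.negSucc 760, .negSucc 774, .ofNat 20, .ofNat 1174, .negSucc 29, .negSucc 981⟩, ⟨.ofNat 3527, .ofNat 390, .ofNat 585, .negSucc 1490, .ofNat 78, .negSucc 1360⟩, ⟨.ofNat 4703, .ofNat 440, .ofNat 587, .ofNat 1141, .negSucc 1390, .ofNat 2405⟩, .ofNat 1045, .ofNat 1182, .ofNat 0, .ofNat 1182, .ofNat 2935, .ofNat 0, .ofNat 128, .negSucc 204, .negSucc 197, .ofNat 0, .ofNat 133, .ofNat 61, .ofNat 0, .ofNat 0, .ofNat 543, .ofNat 3393, .ofNat 0, .ofNat 0, .ofNat 1495073914106024832121003452226501034901504, .ofNat 0, .ofNat 27988000787157418348885547500091755597913915392,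 .ofNat 0, .ofNat 15914339886749417515745221679039318438445056, .ofNat 0, .ofNat 0, .ofNat 0, .ofNat 4784229977940951066741425190188983133405184, .ofNat 0, .ofNat 0, .ofNat 0, .ofNat 32186718095239306254494647260066684499656704, .ofNat 0⟩)
    (by decide +kernel)
theorem L02015 : Good (Phi V5.P V5.D 1 (-1)) ⟨3, 3, 3, 4, 3, 7, 4, 1, 4, 0⟩ :=
  leafYS_sound T5.ok_pm T5.Ypm.bz_eq (w := 227) (c := ⟨⟨.ofNat 811, .ofNat 379, .negSucc 24, .negSucc 768, .ofNat 139, .negSucc 941⟩, ⟨.negSucc 138, .ofNat 13, .negSucc 92, .ofNat 356, .negSucc 124, .ofNat 454⟩, ⟨.negSucc 891, .negSucc 637, .negSucc 38, .ofNat 982, .ofNat 163, .negSucc 762⟩, ⟨.ofNat 3770, .ofNat 488, .ofNat 453, .negSucc 1530, .negSucc 62, .negSucc 1543⟩, ⟨.ofNat 4128, .ofNat 415, .ofNat 131, .ofNat 697, .negSucc 1025, .ofNat 1506⟩, .ofNat 1337, .ofNat 1768, .ofNat 0, .ofNat 1768, .ofNat 4247, .ofNat 0, .ofNat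 128, .negSucc 128, .negSucc 155, .ofNat 0, .ofNat 78, .ofNat 55, .ofNat 0, .ofNat 0, .ofNat 398, .ofNat 1691, .ofNat 0, .ofNat 0, .ofNat 871186967998442507873418348345085963272192, .ofNat 0, .ofNat 0, .ofNat 0, .ofNat 22651942139748519254623431839851508584677376, .ofNat 0, .ofNat 0, .ofNat 0, .ofNat 2361133954268099421086501425235340937920512, .ofNat 0, .ofNat 0, .ofNat 0, .ofNat 15720615047386026166671838739813575962918912, .ofNat 0⟩)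
    (by decide +kernel)
theorem L02016 : Good (Phi V5.P V5.D 1 (-1)) ⟨3, 3, 3, 5, 2, 3, 3, 0, 4, 0⟩ :=
  out_sound (S := T5.ds_pm) T5.ok_pm (w := 45) (j := 3) (by decide +kernel)
theorem L02017 : Good (Phi V5.P V5.D 1 (-1)) ⟨2, 1, 2, 3, 2, 3, 3, 0, 4, 0⟩ :=
  out_sound (S := T5.ds_pm) T5.ok_pm (w := 37) (j := 3) (by decide +kernel)
theorem L02018 : Good (Phi V5.P V5.D 1 (-1)) ⟨2, 1, 2, 2, 2, 2, 3, 0, 4, 1⟩ :=
  leafYS_sound T5.ok_pm T5.Ypm.bz_eq (w := 201) (c := ⟨⟨.ofNat 139, .negSucc 301, .negSucc 106, .negSucc 376, .ofNat 198, .negSucc 1231⟩, ⟨.negSucc 88, .ofNat 48, .ofNat 227, .ofNat 272, .negSucc 91, .ofNat 584⟩, ⟨.negSucc 741, .negSucc 197, .negSucc 63, .negSucc 769, .ofNat 306, .ofNat 743⟩, ⟨.negSucc 295, .negSucc 237, .negSucc 9, .ofNat 106, .ofNat 366, .negSucc 2990⟩, ⟨.negSucc 1023, .ofNat 475, .ofNat 536, .ofNat 2133, .negSucc 166, .ofNat 47⟩, .ofNat 757,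 .ofNat 625, .ofNat 0, .ofNat 625, .ofNat 1595, .ofNat 0, .ofNat 128, .negSucc 137, .negSucc 39, .ofNat 0, .ofNat 104, .ofNat 23, .ofNat 0, .ofNat 0, .ofNat 149, .ofNat 2849, .ofNat 2623570191918653283064728925441345191936, .ofNat 0, .ofNat 0, .ofNat 0, .ofNat 0, .ofNat 0, .ofNat 0, .ofNat 0, .ofNat 0, .ofNat 0, .ofNat 32047528286241832208809046196642381824, .ofNat 0, .ofNat 0, .ofNat 0, .ofNat 0, .ofNat 0⟩)
    (by decide +kernel)
theorem L02019 : Good (Phi V5.P V5.D 1 (-1)) ⟨2, 1, 2, 2, 3, 6, 5, 0, 4, 1⟩ :=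
  leafYS_sound T5.ok_pm T5.Ypm.bz_eq (w := 225) (c := ⟨⟨.negSucc 186, .negSucc 371, .negSucc 364, .negSucc 139, .ofNat 115, .negSucc 1337⟩, ⟨.ofNat 230, .ofNat 94, .ofNat 159, .ofNat 254, .negSucc 100, .ofNat 619⟩, ⟨.negSucc 1657, .negSucc 323, .negSucc 5, .negSucc 57, .ofNat 164, .ofNat 885⟩, ⟨.negSucc 137, .negSucc 210, .ofNat 900, .ofNat 1223, .ofNat 93, .negSucc 3251⟩, ⟨.ofNat 1311, .ofNat 1178, .ofNat 1497, .ofNat 3552, .negSucc 487, .negSucc 56⟩, .ofNat 755, .ofNat 617, .ofNat 0, .ofNat 617, .ofNat 1582, .ofNat 0, .ofNat 128, .negSucc 139, .negSucc 46, .ofNat 0, .ofNat 111, .ofNat 25, .ofNat 0, .ofNat 0, .ofNat 169, .ofNat 10575, .ofNat 4527682479159127198666272103315827907870326784, .ofNat 0, .ofNat 7733224831511793601094692419251078235684864, .ofNat 0, .ofNat 0, .ofNat 0, .ofNat 0, .ofNat 0, .ofNat 0, .ofNat 0, .ofNat 184721250759884498106349039986190831321088000,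 .ofNat 0, .ofNat 1807998240965548983040266844832181832992686080, .ofNat 0, .ofNat 25749291436047401299024196101252079199191040, .ofNat 0⟩)
    (by decide +kernel)
theorem L02020 : Good (Phi V5.P V5.D 1 (-1)) ⟨2, 1, 2, 2, 3, 6, 5, 1, 4, 1⟩ :=
  leafYS_sound T5.ok_pm T5.Ypm.bz_eq (w := 224) (c := ⟨⟨.negSucc 116, .negSucc 398, .negSucc 260, .negSucc 165, .ofNat 112, .negSucc 1286⟩, ⟨.ofNat 114, .ofNat 145, .ofNat 175, .ofNat 208, .negSucc 63, .ofNat 650⟩, ⟨.negSucc 1448, .negSucc 345, .negSucc 27, .negSucc 15, .ofNat 135, .ofNat 822⟩, ⟨.ofNat 128, .negSucc 411, .ofNat 745, .ofNat 1108, .ofNat 39, .negSucc 3241⟩, ⟨.ofNat 1122, .ofNat 1020, .ofNat 1354, .ofNat 3124, .negSucc 396, .ofNat 28⟩, .ofNat 843, .ofNat 758, .ofNat 0, .ofNat 758, .ofNat 1732, .ofNat 0, .ofNat 128, .negSucc 142, .negSucc 41, .ofNat 0, .ofNat 108, .ofNat 24, .ofNat 0, .ofNat 0, .ofNat 140, .ofNat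 4828, .ofNat 0, .ofNat 0, .ofNat 8360102364206169759496364035539899428896768, .ofNat 0, .ofNat 0, .ofNat 0, .ofNat 381653506868659018417499244168835152356573184, .ofNat 0, .ofNat 0, .ofNat 0, .ofNat 94955630653662174620283467276644261329633280, .ofNat 0, .ofNat 0, .ofNat 0, .ofNat 11220718717077364479510563313967898908688384, .ofNat 0⟩)
    (by decide +kernel)
theorem L02021 : Good (Phi V5.P V5.D 1 (-1)) ⟨2, 1, 2, 2, 3, 6, 4, 1, 4, 1⟩ :=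
  leafYS_sound T5.ok_pm T5.Ypm.bz_eq (w := 219) (c := ⟨⟨.negSucc 50, .negSucc 322, .negSucc 146, .negSucc 168, .ofNat 182, .negSucc 1343⟩, ⟨.ofNat 95, .ofNat 116, .ofNat 136, .ofNat 187, .negSucc 106, .ofNat 639⟩, ⟨.negSucc 1375, .negSucc 230, .negSucc 15, .negSucc 2, .ofNat 207, .ofNat 843⟩, ⟨.ofNat 456, .negSucc 502, .ofNat 578, .ofNat 809, .ofNat 85, .negSucc 3345⟩, ⟨.ofNat 1363, .ofNat 611, .ofNat 846, .ofNat 2577, .negSucc 654, .negSucc 53⟩, .ofNat 756, .ofNat 616, .ofNat 0, .ofNat 616, .ofNat 1582, .ofNat 0, .ofNat 168, .negSucc 133, .negSucc 41, .ofNat 0, .ofNat 105, .ofNat 22, .ofNat 0, .ofNat 0, .ofNat 128, .ofNat 2075, .ofNat 0, .ofNat 0, .ofNat 544113676741585329233838206684809018736640, .ofNat 0, .ofNat 0, .ofNat 0, .ofNat 0, .ofNat 0, .ofNat 0, .ofNat 0, .ofNat 6583144079121334377431041038202949605523456, .ofNat 0, .ofNat 0, .ofNat 0, .ofNat 1019437042338525292705651008504221306716160,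 .ofNat 0⟩)
    (by decide +kernel)
theorem L02022 : Good (Phi V5.P V5.D 1 (-1)) ⟨3, 2, 3, 4, 4, 14, 3, 0, 5, 2⟩ :=
  leafYS_sound T5.ok_pm T5.Ypm.bz_eq (w := 244) (c := ⟨⟨.negSucc 507, .negSucc 42, .negSucc 144, .negSucc 227, .ofNat 464, .negSucc 691⟩, ⟨.ofNat 525, .ofNat 9, .ofNat 20, .ofNat 175, .negSucc 349, .ofNat 367⟩, ⟨.negSucc 1456, .negSucc 261, .ofNat 7, .ofNat 208, .ofNat 448, .ofNat 250⟩, ⟨.ofNat 1514, .negSucc 27, .ofNat 590, .ofNat 361, .negSucc 458, .negSucc 1681⟩, ⟨.ofNat 5696, .ofNat 556, .ofNat 738, .ofNat 1756, .negSucc 3124, .ofNat 208⟩, .ofNat 1505, .ofNat 1785, .ofNat 0, .ofNat 1785, .ofNat 3598, .ofNat 0, .ofNat 128, .negSucc 269, .negSucc 138, .ofNat 0, .ofNat 186, .ofNat 66, .ofNat 0, .ofNat 0, .ofNat 432, .ofNat 9293, .ofNat 0, .ofNat 0, .ofNat 0, .ofNat 0, .ofNat 0, .ofNat 0, .ofNat 0, .ofNat 0, .ofNat 1084885333378856600020296191741099705920363064983552,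 .ofNat 0, .ofNat 409378142552932914856867337280608963786358915072, .ofNat 0, .ofNat 0, .ofNat 0, .ofNat 0, .ofNat 0⟩)
    (by decide +kernel)
theorem L02023 : Good (Phi V5.P V5.D 1 (-1)) ⟨3, 2, 3, 4, 4, 15, 3, 0, 5, 2⟩ :=
  leafYS_sound T5.ok_pm T5.Ypm.bz_eq (w := 244) (c := ⟨⟨.negSucc 868, .ofNat 15, .negSucc 199, .negSucc 405, .ofNat 603, .negSucc 595⟩, ⟨.ofNat 823, .negSucc 49, .ofNat 39, .ofNat 293, .negSucc 504, .ofNat 347⟩, ⟨.negSucc 1280, .negSucc 190, .ofNat 88, .ofNat 170, .ofNat 564, .ofNat 45⟩, ⟨.ofNat 1856, .ofNat 122, .ofNat 532, .ofNat 42, .negSucc 1197, .negSucc 891⟩, ⟨.ofNat 8213, .ofNat 556, .ofNat 687, .ofNat 2111, .negSucc 5185, .ofNat 1168⟩, .ofNat 2162, .ofNat 2895, .ofNat 0, .ofNat 2895, .ofNat 5553, .ofNat 0, .ofNat 128, .negSucc 232, .negSucc 132, .ofNat 0, .ofNat 157, .ofNat 53, .ofNat 0, .ofNat 0, .ofNat 422, .ofNat 3723, .ofNat 0, .ofNat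 0, .ofNat 24614813498859157722797975727186137186530492416, .ofNat 0, .ofNat 0, .ofNat 0, .ofNat 0, .ofNat 0, .ofNat 0, .ofNat 0, .ofNat 0, .ofNat 0, .ofNat 0, .ofNat 0, .ofNat 165218532502478948229980761097315824896472776704, .ofNat 0⟩)
    (by decide +kernel)
theorem L02024 : Good (Phi V5.P V5.D 1 (-1)) ⟨3, 2, 3, 5, 4, 14, 3, 0, 5, 2⟩ :=
  leafYS_sound T5.ok_pm T5.Ypm.bz_eq (w := 245) (c := ⟨⟨.negSucc 608, .negSucc 117, .negSucc 247, .negSucc 273, .ofNat 537, .negSucc 739⟩, ⟨.ofNat 487, .ofNat 55, .ofNat 11, .ofNat 193, .negSucc 381, .ofNat 448⟩, ⟨.negSucc 1476, .negSucc 235, .ofNat 200, .ofNat 244, .ofNat 459, .ofNat 236⟩, ⟨.ofNat 2220, .negSucc 272, .ofNat 336, .ofNat 253, .negSucc 662, .negSucc 1261⟩, ⟨.ofNat 6418, .ofNat 384, .ofNat 474, .ofNat 1615, .negSucc 3495, .ofNat 1039⟩, .ofNat 3985, .ofNat 5639, .ofNat 0, .ofNat 5639, .ofNat 9565, .ofNat 0, .ofNat 128,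 .negSucc 359, .negSucc 190, .ofNat 0, .ofNat 237, .ofNat 110, .ofNat 0, .ofNat 0, .ofNat 637, .ofNat 11147, .ofNat 0, .ofNat 0, .ofNat 0, .ofNat 0, .ofNat 633953603546208343044939317348533254731183979233280, .ofNat 0, .ofNat 5116795240252556886476257792924504804924858564608, .ofNat 0, .ofNat 0, .ofNat 0, .ofNat 0, .ofNat 0, .ofNat 0, .ofNat 0, .ofNat 2120177556792684269706357390285523426731968430080, .ofNat 0⟩)
    (by decide +kernel)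
theorem L02025 : Good (Phi V5.P V5.D 1 (-1)) ⟨3, 2, 3, 5, 5, 30, 4, 0, 5, 2⟩ :=
  leafYS_sound T5.ok_pm T5.Ypm.bz_eq (w := 264) (c := ⟨⟨.negSucc 1013, .negSucc 36, .negSucc 270, .negSucc 231, .ofNat 349, .negSucc 664⟩, ⟨.ofNat 767, .ofNat 11, .negSucc 5, .ofNat 156, .negSucc 255, .ofNat 412⟩, ⟨.negSucc 1110, .negSucc 353, .ofNat 318, .ofNat 200, .ofNat 253, .ofNat 67⟩, ⟨.ofNat 2606, .ofNat 120, .ofNat 596, .ofNat 59, .negSucc 766, .negSucc 955⟩, ⟨.ofNat 8758, .ofNat 849, .ofNat 680, .ofNat 1157, .negSucc 2834, .ofNat 1279⟩, .ofNat 3921, .ofNat 5559, .ofNat 0, .ofNat 5559, .ofNat 9473, .ofNat 0, .ofNat 128, .negSucc 411, .negSucc 306, .ofNat 0, .ofNat 274, .ofNat 162, .ofNat 0, .ofNat 0, .ofNat 1051, .ofNat 19653, .ofNat 0, .ofNat 0, .ofNat 0, .ofNat 0, .ofNat 45957882084808019425156889596598202676971903364209049600, .ofNat 0, .ofNat 1350134390445134982280417443910010185200181997450821632,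 .ofNat 0, .ofNat 0, .ofNat 0, .ofNat 0, .ofNat 0, .ofNat 0, .ofNat 0, .ofNat 1778019754340745378388218841162935619037817365766078464, .ofNat 0⟩)
    (by decide +kernel)
theorem L02026 : Good (Phi V5.P V5.D 1 (-1)) ⟨3, 2, 4, 10, 5, 31, 4, 0, 5, 2⟩ :=
  leafYS_sound T5.ok_pm T5.Ypm.bz_eq (w := 266) (c := ⟨⟨.negSucc 1317, .ofNat 10, .negSucc 215, .negSucc 294, .ofNat 399, .negSucc 604⟩, ⟨.ofNat 976, .negSucc 24, .ofNat 38, .ofNat 198, .negSucc 296, .ofNat 382⟩, ⟨.negSucc 877, .negSucc 344, .ofNat 393, .ofNat 209, .ofNat 217, .negSucc 12⟩, ⟨.ofNat 2542, .ofNat 179, .negSucc 4, .negSucc 24, .negSucc 954, .negSucc 456⟩, ⟨.ofNat 9996, .ofNat 815, .ofNat 58, .ofNat 1267, .negSucc 3377, .ofNat 1858⟩, .ofNat 3911, .ofNat 5537, .ofNat 0, .ofNat 5537, .ofNat 9430, .ofNat 0, .ofNat 128, .negSucc 380, .negSucc 169, .ofNat 0, .ofNat 256, .ofNat 82, .ofNat 0, .ofNat 0, .ofNat 596,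 .ofNat 14944, .ofNat 0, .ofNat 0, .ofNat 78526622680553538285238346818157833330382814220124160, .ofNat 0, .ofNat 0, .ofNat 0, .ofNat 0, .ofNat 0, .ofNat 0, .ofNat 0, .ofNat 0, .ofNat 0, .ofNat 0, .ofNat 0, .ofNat 1182066837417155434228809014787475365064060912013410304, .ofNat 0⟩)
    (by decide +kernel)
theorem L02027 : Good (Phi V5.P V5.D 1 (-1)) ⟨3, 2, 4, 11, 5, 31, 4, 0, 5, 2⟩ :=
  out_sound (S := T5.ds_pm) T5.ok_pm (w := 47) (j := 3) (by decide +kernel)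
theorem L02028 : Good (Phi V5.P V5.D 1 (-1)) ⟨3, 2, 3, 5, 4, 15, 4, 1, 5, 2⟩ :=
  leafYS_sound T5.ok_pm T5.Ypm.bz_eq (w := 249) (c := ⟨⟨.negSucc 666, .negSucc 60, .negSucc 302, .negSucc 457, .ofNat 297, .negSucc 666⟩, ⟨.ofNat 529, .ofNat 10, .ofNat 37, .ofNat 292, .negSucc 217, .ofNat 411⟩, ⟨.negSucc 931, .negSucc 234, .ofNat 411, .ofNat 407, .ofNat 148, .ofNat 95⟩, ⟨.ofNat 1935, .negSucc 201, .ofNat 191, .negSucc 367, .negSucc 284, .negSucc 959⟩, ⟨.ofNat 6208, .ofNat 256, .ofNat 309, .ofNat 1377, .negSucc 1820, .ofNat 1271⟩, .ofNat 4058, .ofNat 5751, .ofNat 0, .ofNat 5751, .ofNat 9735, .ofNat 0, .ofNat 128, .negSucc 241, .negSucc 154, .ofNat 0, .ofNat 159, .ofNat 83, .ofNat 0, .ofNat 0, .ofNat 483, .ofNat 7691, .ofNat 0, .ofNat 0, .ofNat 1220424696285405385255974944544357287288998199296, .ofNat 0, .ofNat 0, .ofNat 0, .ofNat 0, .ofNat 0, .ofNat 0, .ofNat 0, .ofNat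 5323238542621678653295518556460260378214773293056, .ofNat 0, .ofNat 0, .ofNat 0, .ofNat 32508020593309581417665764293415716185403413233664, .ofNat 0⟩)
    (by decide +kernel)
theorem L02029 : Good (Phi V5.P V5.D 1 (-1)) ⟨3, 2, 3, 4, 3, 7, 3, 0, 5, 3⟩ :=
  leafYS_sound T5.ok_pm T5.Ypm.bz_eq (w := 230) (c := ⟨⟨.negSucc 1234, .negSucc 105, .negSucc 220, .negSucc 422, .ofNat 475, .negSucc 448⟩, ⟨.ofNat 917, .negSucc 8, .ofNat 132, .ofNat 378, .negSucc 398, .ofNat 233⟩, ⟨.negSucc 1206, .negSucc 86, .ofNat 44, .ofNat 115, .ofNat 471, .ofNat 371⟩, ⟨.negSucc 598, .ofNat 370, .ofNat 996, .ofNat 863, .negSucc 892, .negSucc 1047⟩, ⟨.ofNat 5715, .ofNat 1179, .ofNat 1576, .ofNat 3769, .negSucc 4026, .ofNat 109⟩, .ofNat 2051, .ofNat 2709, .ofNat 0, .ofNat 2709, .ofNat 5262, .ofNat 0, .ofNat 128, .negSucc 333, .negSucc 175, .ofNat 0, .ofNat 233, .ofNat 80, .ofNat 0, .ofNat 0, .ofNat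 574, .ofNat 4134, .ofNat 0, .ofNat 0, .ofNat 0, .ofNat 0, .ofNat 0, .ofNat 0, .ofNat 0, .ofNat 0, .ofNat 0, .ofNat 0, .ofNat 0, .ofNat 0, .ofNat 0, .ofNat 0, .ofNat 31132815404306644223856060362078340167761920, .ofNat 0⟩)
    (by decide +kernel)

end Crest.Agent.R097C5.N5pm
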