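import Crest.Agent.R097.KS3
import Crest.Agent.R097.T5Ypm

/-!
# Row 97, box cover in dimension n = 5 (generated)
-/

set_option autoImplicit false
set_option Elab.async false
set_option maxHeartbeats 0
set_option maxRecDepth 100000

open Crest.Agent.R097 Crest.Agent.R097.KA


namespace Crest.Agent.R097C5.N5pm

theorem L02030 : Good (Phi V5.P V5.D 1 (-1)) ⟨3, 2, 3, 5, 3, 7, 4, 0, 5, 3⟩ :=
  leafYS_sound T5.ok_pm T5.Ypm.bz_eq (w := 235) (c := ⟨⟨.negSucc 1450, .negSucc 85, .negSucc 213, .negSucc 596, .ofNat 310, .negSucc 413⟩, ⟨.ofNat 999, .ofNat 16, .ofNat 38, .ofNat 450, .negSucc 225, .ofNat 240⟩, ⟨.negSucc 1156, .negSucc 276, .ofNat 100, .ofNat 397, .ofNat 228, .ofNat 398⟩, ⟨.ofNat 555, .negSucc 87, .ofNat 350, .ofNat 1563, .negSucc 846, .negSucc 998⟩, ⟨.ofNat 7295, .ofNat 624, .ofNat 11, .ofNat 5318, .negSucc 2763, .ofNat 64⟩, .ofNat 4040, .ofNat 5733, .ofNat 0, .ofNat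 5733, .ofNat 9723, .ofNat 0, .ofNat 128, .negSucc 383, .negSucc 209, .ofNat 0, .ofNat 260, .ofNat 113, .ofNat 0, .ofNat 0, .ofNat 736, .ofNat 14253, .ofNat 0, .ofNat 0, .ofNat 120705186179987876164052078969217481300770816, .ofNat 0, .ofNat 0, .ofNat 0, .ofNat 4998325563629363839683091575770911725515177984, .ofNat 0, .ofNat 0, .ofNat 0, .ofNat 0, .ofNat 0, .ofNat 0, .ofNat 0, .ofNat 3575155229621151637720272469344351107286040576, .ofNat 0⟩)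
    (by decide +kernel)
theorem L02031 : Good (Phi V5.P V5.D 1 (-1)) ⟨3, 2, 3, 5, 3, 7, 4, 1, 5, 3⟩ :=
  leafYS_sound T5.ok_pm T5.Ypm.bz_eq (w := 236) (c := ⟨⟨.negSucc 1096, .negSucc 157, .negSucc 219, .negSucc 526, .ofNat 230, .negSucc 528⟩, ⟨.ofNat 762, .ofNat 39, .ofNat 100, .ofNat 374, .negSucc 167, .ofNat 312⟩, ⟨.negSucc 975, .negSucc 119, .ofNat 104, .ofNat 405, .ofNat 180, .ofNat 413⟩, ⟨.ofNat 69, .negSucc 163, .ofNat 182, .ofNat 460, .negSucc 405, .negSucc 1116⟩, ⟨.ofNat 5016, .ofNat 509, .ofNat 291, .ofNat 3130, .negSucc 1728, .ofNat 397⟩, .ofNat 3714, .ofNat 5265, .ofNat 0, .ofNat 5265, .ofNat 9064, .ofNat 0, .ofNat 128, .negSucc 550, .negSucc 245, .ofNat 0, .ofNat 366, .ofNat 135, .ofNat 0, .ofNat 0, .ofNat 765, .ofNat 10263, .ofNat 0, .ofNat 0, .ofNat 105934638527266342706449633409221920691322880, .ofNat 0, .ofNat 0, .ofNat 0, .ofNat 3791851755990797893013649232643556676451958784,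 .ofNat 0, .ofNat 0, .ofNat 0, .ofNat 0, .ofNat 0, .ofNat 0, .ofNat 0, .ofNat 3342693274421403003210664984811291978818912256, .ofNat 0⟩)
    (by decide +kernel)
theorem L02032 : Good (Phi V5.P V5.D 1 (-1)) ⟨4, 6, 3, 4, 4, 14, 3, 0, 5, 2⟩ :=
  leafYS_sound T5.ok_pm T5.Ypm.bz_eq (w := 247) (c := ⟨⟨.negSucc 503, .ofNat 26, .negSucc 111, .negSucc 125, .ofNat 398, .negSucc 827⟩, ⟨.ofNat 515, .ofNat 20, .ofNat 55, .ofNat 153, .negSucc 336, .ofNat 383⟩, ⟨.negSucc 1768, .negSucc 174, .negSucc 57, .ofNat 102, .ofNat 575, .ofNat 355⟩, ⟨.ofNat 1415, .ofNat 33, .ofNat 761, .ofNat 564, .negSucc 528, .negSucc 1822⟩, ⟨.ofNat 6119, .ofNat 276, .ofNat 1007, .ofNat 1949, .negSucc 3329, .ofNat 303⟩, .ofNat 1113, .ofNat 1284, .ofNat 0, .ofNat 1284, .ofNat 3074, .ofNat 0, .ofNat 128, .negSucc 193, .negSucc 111, .ofNat 0, .ofNat 129, .ofNat 45, .ofNat 0, .ofNat 0, .ofNat 302, .ofNat 4430, .ofNat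 0, .ofNat 0, .ofNat 0, .ofNat 0, .ofNat 0, .ofNat 0, .ofNat 0, .ofNat 0, .ofNat 0, .ofNat 0, .ofNat 0, .ofNat 0, .ofNat 4957881134912129757806061385832153050595691922980864, .ofNat 0, .ofNat 45093356293077208476433084562516183166008426496, .ofNat 0⟩)
    (by decide +kernel)
theorem L02033 : Good (Phi V5.P V5.D 1 (-1)) ⟨4, 6, 3, 4, 4, 15, 3, 0, 5, 2⟩ :=
  leafYS_sound T5.ok_pm T5.Ypm.bz_eq (w := 248) (c := ⟨⟨.negSucc 826, .ofNat 161, .negSucc 172, .negSucc 253, .ofNat 421, .negSucc 634⟩, ⟨.ofNat 762, .ofNat 16, .ofNat 95, .ofNat 220, .negSucc 454, .ofNat 344⟩, ⟨.negSucc 1482, .negSucc 441, .negSucc 235, .ofNat 121, .ofNat 808, .ofNat 47⟩, ⟨.ofNat 1524, .ofNat 860, .ofNat 1178, .ofNat 475, .negSucc 1599, .negSucc 794⟩, ⟨.ofNat 8196, .ofNat 1395, .ofNat 1649, .ofNat 2371, .negSucc 5728, .ofNat 1493⟩, .ofNat 1736, .ofNat 2465, .ofNat 0, .ofNat 2465, .ofNat 5452, .ofNat 0,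 .ofNat 128, .negSucc 197, .negSucc 193, .ofNat 0, .ofNat 128, .ofNat 62, .ofNat 0, .ofNat 0, .ofNat 521, .ofNat 3419, .ofNat 0, .ofNat 0, .ofNat 11279222040618669996281672139821073992339423232, .ofNat 0, .ofNat 0, .ofNat 0, .ofNat 0, .ofNat 0, .ofNat 0, .ofNat 0, .ofNat 0, .ofNat 0, .ofNat 0, .ofNat 0, .ofNat 292282642903576809147829344178676347546678329344, .ofNat 0⟩)
    (by decide +kernel)
theorem L02034 : Good (Phi V5.P V5.D 1 (-1)) ⟨4, 6, 4, 8, 3, 7, 3, 0, 5, 3⟩ :=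
  leafYS_sound T5.ok_pm T5.Ypm.bz_eq (w := 237) (c := ⟨⟨.negSucc 1338, .ofNat 33, .negSucc 92, .negSucc 213, .ofNat 322, .negSucc 524⟩, ⟨.ofNat 911, .ofNat 14, .ofNat 84, .ofNat 325, .negSucc 358, .ofNat 221⟩, ⟨.negSucc 1382, .negSucc 180, .negSucc 54, .negSucc 77, .ofNat 698, .ofNat 475⟩, ⟨.negSucc 395, .ofNat 261, .ofNat 641, .ofNat 1670, .negSucc 1450, .negSucc 1298⟩, ⟨.ofNat 6658, .ofNat 684, .ofNat 1050, .ofNat 4870, .negSucc 4907, .negSucc 124⟩, .ofNat 1112, .ofNat 1280, .ofNat 0, .ofNat 1280, .ofNat 3076, .ofNat 0, .ofNat 128, .negSucc 259, .negSucc 252, .ofNat 0, .ofNat 186, .ofNat 90, .ofNat 0, .ofNat 0, .ofNat 720, .ofNat 4224, .ofNat 0, .ofNat 0, .ofNat 0, .ofNat 0, .ofNat 0, .ofNat 0, .ofNat 0, .ofNat 0, .ofNat 0, .ofNat 0, .ofNat 0, .ofNat 0, .ofNat 0, .ofNat 0, .ofNat 66317658262655334170340848888610593718665216, .ofNat 0⟩)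
    (by decide +kernel)
theorem L02035 : Good (Phi V5.P V5.D 1 (-1)) ⟨5, 12, 4, 9, 3, 7, 3, 0, 5, 3⟩ :=
  leafYS_sound T5.ok_pm T5.Ypm.bz_eq (w := 241) (c := ⟨⟨.negSucc 1404, .ofNat 13, .negSucc 100, .negSucc 285, .ofNat 354, .negSucc 510⟩, ⟨.ofNat 957, .ofNat 3, .ofNat 85, .ofNat 308, .negSucc 340, .ofNat 267⟩, ⟨.negSucc 1417, .negSucc 73, .negSucc 44, .ofNat 87, .ofNat 626, .ofNat 431⟩, ⟨.ofNat 14, .ofNat 217, .ofNat 583, .ofNat 1630, .negSucc 1516, .negSucc 1099⟩, ⟨.ofNat 7116, .ofNat 451, .ofNat 999, .ofNat 4643, .negSucc 4769, .ofNat 339⟩, .ofNat 1642, .ofNat 2161, .ofNat 0, .ofNat 2161, .ofNat 4501, .ofNat 0, .ofNat 128, .negSucc 304, .negSucc 246, .ofNat 0, .ofNat 207, .ofNat 105, .ofNat 0, .ofNat 0, .ofNat 728, .ofNat 5150, .ofNat 0, .ofNat 0, .ofNat 418443822446770860494923856105101036879872, .ofNat 0, .ofNat 0, .ofNat 0, .ofNat 0, .ofNat 0, .ofNat 0, .ofNat 0,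 .ofNat 0, .ofNat 0, .ofNat 0, .ofNat 0, .ofNat 17441524462456682638391897482237296548773888, .ofNat 0⟩)
    (by decide +kernel)
theorem L02036 : Good (Phi V5.P V5.D 1 (-1)) ⟨5, 13, 4, 9, 3, 7, 3, 0, 5, 3⟩ :=
  leafYS_sound T5.ok_pm T5.Ypm.bz_eq (w := 241) (c := ⟨⟨.negSucc 1409, .ofNat 23, .negSucc 36, .negSucc 218, .ofNat 305, .negSucc 532⟩, ⟨.ofNat 998, .ofNat 6, .ofNat 35, .ofNat 305, .negSucc 344, .ofNat 235⟩, ⟨.negSucc 1541, .negSucc 93, .negSucc 34, .negSucc 16, .ofNat 704, .ofNat 507⟩, ⟨.ofNat 375, .ofNat 39, .ofNat 182, .ofNat 1606, .negSucc 1481, .negSucc 1436⟩, ⟨.ofNat 8033, .ofNat 139, .negSucc 50, .ofNat 4591, .negSucc 4737, .negSucc 339⟩, .ofNat 1560, .ofNat 2102, .ofNat 0, .ofNat 2102, .ofNat 4602, .ofNat 0, .ofNat 128, .negSucc 312, .negSucc 266, .ofNat 0, .ofNat 212, .ofNat 102, .ofNat 0, .ofNat 0, .ofNat 770, .ofNat 4510, .ofNat 0, .ofNat 0, .ofNat 535867201418819230689973623213366446129152,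 .ofNat 0, .ofNat 0, .ofNat 0, .ofNat 13105105987544935904233509595795366558564352, .ofNat 0, .ofNat 0, .ofNat 0, .ofNat 0, .ofNat 0, .ofNat 0, .ofNat 0, .ofNat 23744057041072764387472646609190784115671040, .ofNat 0⟩)
    (by decide +kernel)
theorem L02037 : Good (Phi V5.P V5.D 1 (-1)) ⟨4, 7, 4, 8, 3, 7, 4, 0, 5, 2⟩ :=
  leafYS_sound T5.ok_pm T5.Ypm.bz_eq (w := 240) (c := ⟨⟨.negSucc 513, .ofNat 165, .negSucc 50, .negSucc 159, .ofNat 185, .negSucc 813⟩, ⟨.ofNat 574, .ofNat 57, .ofNat 81, .ofNat 397, .negSucc 245, .ofNat 351⟩, ⟨.negSucc 1960, .negSucc 357, .negSucc 271, .negSucc 265, .ofNat 572, .ofNat 338⟩, ⟨.ofNat 1218, .ofNat 114, .ofNat 953, .ofNat 1974, .negSucc 646, .negSucc 1564⟩, ⟨.ofNat 6288, .ofNat 283, .ofNat 1513, .ofNat 5752, .negSucc 2746, .ofNat 690⟩, .ofNat 1230, .ofNat 1630, .ofNat 0, .ofNat 1630, .ofNat 4153, .ofNat 0, .ofNat 128, .negSucc 211, .negSucc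 259, .ofNat 0, .ofNat 142, .ofNat 75, .ofNat 0, .ofNat 0, .ofNat 695, .ofNat 2358, .ofNat 0, .ofNat 0, .ofNat 21635410115807829200867973383594442735222784, .ofNat 0, .ofNat 0, .ofNat 0, .ofNat 433868534866209312017912178144135768778473472, .ofNat 0, .ofNat 0, .ofNat 0, .ofNat 0, .ofNat 0, .ofNat 0, .ofNat 0, .ofNat 862380089034565376986635536026513022998544384, .ofNat 0⟩)
    (by decide +kernel)
theorem L02038 : Good (Phi V5.P V5.D 1 (-1)) ⟨4, 7, 4, 8, 3, 7, 4, 0, 5, 3⟩ :=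
  leafYS_sound T5.ok_pm T5.Ypm.bz_eq (w := 240) (c := ⟨⟨.negSucc 1327, .ofNat 38, .negSucc 56, .negSucc 46, .ofNat 103, .negSucc 543⟩, ⟨.ofNat 902, .ofNat 63, .ofNat 113, .ofNat 321, .negSucc 175, .ofNat 190⟩, ⟨.negSucc 1487, .negSucc 252, .negSucc 192, .negSucc 276, .ofNat 458, .ofNat 546⟩, ⟨.negSucc 525, .ofNat 170, .ofNat 603, .ofNat 1748, .negSucc 593, .negSucc 1350⟩, ⟨.ofNat 6580, .ofNat 623, .ofNat 1025, .ofNat 4795, .negSucc 2143, .negSucc 287⟩, .ofNat 1172, .ofNat 1520, .ofNat 0, .ofNat 1520, .ofNat 3941, .ofNat 0, .ofNat 128, .negSucc 212, .negSucc 190, .ofNat 0, .ofNat 151, .ofNat 59, .ofNat 0, .ofNat 0, .ofNat 555, .ofNat 4770, .ofNat 0, .ofNat 0, .ofNat 28424419517199762516718085394022800262430720, .ofNat 0, .ofNat 0, .ofNat 0, .ofNat 613726072643997096873117985025459431858503680, .ofNat 0, .ofNat 0, .ofNat 0, .ofNat 293103815812523497401873942112644938439065600,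 .ofNat 0, .ofNat 0, .ofNat 0, .ofNat 864683927111817823141474647350533695616319488, .ofNat 0⟩)
    (by decide +kernel)
theorem L02039 : Good (Phi V5.P V5.D 1 (-1)) ⟨4, 7, 4, 9, 3, 7, 4, 0, 4, 1⟩ :=
  out_sound (S := T5.ds_pm) T5.ok_pm (w := 53) (j := 3) (by decide +kernel)
theorem L02040 : Good (Phi V5.P V5.D 1 (-1)) ⟨4, 7, 4, 8, 3, 7, 4, 1, 4, 1⟩ :=
  leafYS_sound T5.ok_pm T5.Ypm.bz_eq (w := 235) (c := ⟨⟨.negSucc 279, .negSucc 3, .negSucc 139, .negSucc 197, .ofNat 100, .negSucc 1475⟩, ⟨.ofNat 380, .ofNat 91, .ofNat 113, .ofNat 267, .negSucc 149, .ofNat 595⟩, ⟨.negSucc 1609, .negSucc 280, .negSucc 129, .ofNat 143, .ofNat 364, .ofNat 928⟩, ⟨.ofNat 1049, .ofNat 222, .ofNat 614, .ofNat 732, .negSucc 461, .negSucc 3131⟩, ⟨.ofNat 4585, .ofNat 832, .ofNat 1292, .ofNat 3003, .negSucc 1796, .ofNat 547⟩, .ofNat 1186, .ofNat 1543, .ofNat 0, .ofNat 1543, .ofNat 3972, .ofNat 0, .ofNat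 128, .negSucc 176, .negSucc 143, .ofNat 0, .ofNat 119, .ofNat 48, .ofNat 0, .ofNat 0, .ofNat 362, .ofNat 2987, .ofNat 0, .ofNat 0, .ofNat 725912184846534938192551046659289460506624, .ofNat 0, .ofNat 0, .ofNat 0, .ofNat 13114973870103799790966589091622918679429120, .ofNat 0, .ofNat 0, .ofNat 0, .ofNat 0, .ofNat 0, .ofNat 0, .ofNat 0, .ofNat 9553504227811318375072521482549282088157184, .ofNat 0⟩)
    (by decide +kernel)
theorem L02041 : Good (Phi V5.P V5.D 1 (-1)) ⟨4, 7, 4, 9, 3, 7, 4, 1, 4, 1⟩ :=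
  out_sound (S := T5.ds_pm) T5.ok_pm (w := 53) (j := 3) (by decide +kernel)
theorem L02042 : Good (Phi V5.P V5.D 1 (-1)) ⟨3, 3, 3, 5, 3, 7, 3, 0, 4, 1⟩ :=
  out_sound (S := T5.ds_pm) T5.ok_pm (w := 45) (j := 3) (by decide +kernel)
theorem L02043 : Good (Phi V5.P V5.D 1 (-1)) ⟨2, 1, 2, 3, 1, 1, 3, 0, 4, 1⟩ :=
  out_sound (S := T5.ds_pm) T5.ok_pm (w := 37) (j := 3) (by decide +kernel)
theorem L02044 : Good (Phi V5.P V5.D 1 (-1)) ⟨2, 1, 1, 1, 2, 2, 3, 1, 3, 0⟩ :=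
  leafYS_sound T5.ok_pm T5.Ypm.bz_eq (w := 193) (c := ⟨⟨.ofNat 1586, .negSucc 175, .negSucc 432, .negSucc 244, .ofNat 95, .negSucc 2588⟩, ⟨.negSucc 695, .ofNat 115, .negSucc 120, .ofNat 135, .negSucc 59, .ofNat 1197⟩, ⟨.negSucc 1285, .negSucc 166, .negSucc 91, .negSucc 315, .ofNat 208, .ofNat 1298⟩, ⟨.ofNat 3968, .negSucc 322, .ofNat 19, .ofNat 442, .ofNat 151, .negSucc 7153⟩, ⟨.ofNat 128, .ofNat 400, .ofNat 738, .ofNat 1874, .negSucc 196, .negSucc 1164⟩, .ofNat 420, .ofNat 187, .ofNat 0, .ofNat 187, .ofNat 668, .ofNat 0, .ofNat 209, .negSucc 120, .negSucc 93, .ofNat 0, .ofNat 128, .ofNat 52, .ofNat 0, .ofNat 0, .ofNat 230, .ofNat 1022, .ofNat 0, .ofNat 0, .ofNat 16662143171574660533085060001169408, .ofNat 0, .ofNat 0, .ofNat 0, .ofNat 396347883970724221093648540129820672, .ofNat 0, .ofNat 0, .ofNat 0, .ofNat 367363771889080092946123677065281536, .ofNat 0, .ofNat 0, .ofNat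 0, .ofNat 184522420258870858257726827011244032, .ofNat 0⟩)
    (by decide +kernel)
theorem L02045 : Good (Phi V5.P V5.D 1 (-1)) ⟨2, 1, 2, 2, 3, 6, 3, 1, 4, 0⟩ :=
  leafYS_sound T5.ok_pm T5.Ypm.bz_eq (w := 216) (c := ⟨⟨.ofNat 1059, .ofNat 298, .negSucc 157, .negSucc 242, .ofNat 64, .negSucc 972⟩, ⟨.negSucc 419, .ofNat 46, .negSucc 135, .ofNat 159, .negSucc 54, .ofNat 418⟩, ⟨.negSucc 1162, .negSucc 448, .ofNat 187, .ofNat 183, .ofNat 280, .negSucc 63⟩, ⟨.ofNat 4191, .negSucc 67, .ofNat 320, .ofNat 202, .negSucc 199, .negSucc 2779⟩, ⟨.ofNat 2637, .ofNat 137, .ofNat 452, .ofNat 1509, .negSucc 705, .negSucc 819⟩, .ofNat 771, .ofNat 636, .ofNat 0, .ofNat 636, .ofNat 1599, .ofNat 0, .ofNat 128, .negSucc 131, .negSucc 107, .ofNat 0, .ofNat 98, .ofNat 57, .ofNat 0, .ofNat 0, .ofNat 306, .ofNat 1430, .ofNat 0, .ofNat 0, .ofNat 0, .ofNat 0, .ofNat 0, .ofNat 0, .ofNat 1069304235620183434430908787326228541472768,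 .ofNat 0, .ofNat 0, .ofNat 0, .ofNat 408488674992353918780770411131694116503552, .ofNat 0, .ofNat 0, .ofNat 0, .ofNat 0, .ofNat 0⟩)
    (by decide +kernel)
theorem L02046 : Good (Phi V5.P V5.D 1 (-1)) ⟨2, 1, 2, 2, 3, 7, 3, 1, 4, 0⟩ :=
  leafYS_sound T5.ok_pm T5.Ypm.bz_eq (w := 216) (c := ⟨⟨.ofNat 765, .ofNat 278, .negSucc 260, .negSucc 625, .ofNat 193, .negSucc 807⟩, ⟨.negSucc 178, .negSucc 18, .negSucc 117, .ofNat 298, .negSucc 168, .ofNat 382⟩, ⟨.negSucc 549, .negSucc 635, .ofNat 353, .ofNat 714, .ofNat 159, .negSucc 507⟩, ⟨.ofNat 3635, .ofNat 264, .ofNat 36, .negSucc 1615, .negSucc 309, .negSucc 1321⟩, ⟨.ofNat 3405, .ofNat 469, .negSucc 83, .negSucc 81, .negSucc 1665, .ofNat 1192⟩, .ofNat 750, .ofNat 608, .ofNat 0, .ofNat 608, .ofNat 1571, .ofNat 0, .ofNat 128, .negSucc 138, .negSucc 186, .ofNat 0, .ofNat 100, .ofNat 65, .ofNat 0, .ofNat 0, .ofNat 424, .ofNat 984, .ofNat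 0, .ofNat 0, .ofNat 72609250595344179765544796087838979391488, .ofNat 0, .ofNat 0, .ofNat 0, .ofNat 498298231629149131422820406923881189736448, .ofNat 0, .ofNat 0, .ofNat 0, .ofNat 183232159091790116927691316633468999303168, .ofNat 0, .ofNat 0, .ofNat 0, .ofNat 2481273241071072372728461033313456516759552, .ofNat 0⟩)
    (by decide +kernel)
theorem L02047 : Good (Phi V5.P V5.D 1 (-1)) ⟨2, 1, 2, 2, 3, 6, 3, 1, 4, 1⟩ :=
  leafYS_sound T5.ok_pm T5.Ypm.bz_eq (w := 216) (c := ⟨⟨.ofNat 94, .negSucc 360, .negSucc 72, .negSucc 169, .ofNat 214, .negSucc 1323⟩, ⟨.ofNat 13, .ofNat 109, .ofNat 69, .ofNat 157, .negSucc 133, .ofNat 663⟩, ⟨.negSucc 1200, .negSucc 136, .ofNat 4, .ofNat 28, .ofNat 317, .ofNat 822⟩, ⟨.ofNat 854, .negSucc 495, .ofNat 680, .ofNat 482, .ofNat 1, .negSucc 3626⟩, ⟨.ofNat 1302, .ofNat 612, .ofNat 727, .ofNat 1878, .negSucc 986, .negSucc 338⟩, .ofNat 418, .ofNat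 186, .ofNat 0, .ofNat 186, .ofNat 668, .ofNat 0, .ofNat 223, .negSucc 123, .negSucc 88, .ofNat 0, .ofNat 128, .ofNat 44, .ofNat 0, .ofNat 0, .ofNat 187, .ofNat 2225, .ofNat 0, .ofNat 0, .ofNat 58208104822608520146603217290350727004160, .ofNat 0, .ofNat 0, .ofNat 0, .ofNat 774964806411243854205831477475054662451200, .ofNat 0, .ofNat 0, .ofNat 0, .ofNat 638567001140548540939006266333384161624064, .ofNat 0, .ofNat 0, .ofNat 0, .ofNat 125333544132282492986103408366840038031360, .ofNat 0⟩)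
    (by decide +kernel)
theorem L02048 : Good (Phi V5.P V5.D 1 (-1)) ⟨3, 2, 3, 4, 3, 7, 3, 1, 4, 1⟩ :=
  leafYS_sound T5.ok_pm T5.Ypm.bz_eq (w := 223) (c := ⟨⟨.negSucc 53, .negSucc 143, .negSucc 127, .negSucc 397, .ofNat 262, .negSucc 1291⟩, ⟨.ofNat 171, .ofNat 44, .ofNat 80, .ofNat 280, .negSucc 214, .ofNat 670⟩, ⟨.negSucc 1067, .negSucc 106, .ofNat 11, .ofNat 340, .ofNat 247, .ofNat 680⟩, ⟨.ofNat 1314, .negSucc 83, .ofNat 316, .negSucc 214, .negSucc 421, .negSucc 3195⟩, ⟨.ofNat 3233, .ofNat 533, .ofNat 472, .ofNat 1538, .negSucc 2099, .ofNat 171⟩, .ofNat 1455, .ofNat 1707, .ofNat 0, .ofNat 1707, .ofNat 3494, .ofNat 0, .ofNat 128, .negSucc 194, .negSucc 102, .ofNat 0, .ofNat 133, .ofNat 47, .ofNat 0, .ofNat 0, .ofNat 274, .ofNat 2070, .ofNat 0, .ofNat 0, .ofNat 0, .ofNat 0, .ofNat 0, .ofNat 0, .ofNat 0, .ofNat 0, .ofNat 0, .ofNat 0, .ofNat 0, .ofNat 0, .ofNat 0, .ofNat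 0, .ofNat 0, .ofNat 0⟩)
    (by decide +kernel)
theorem L02049 : Good (Phi V5.P V5.D 1 (-1)) ⟨3, 2, 3, 5, 3, 7, 3, 1, 4, 1⟩ :=
  leafYS_sound T5.ok_pm T5.Ypm.bz_eq (w := 224) (c := ⟨⟨.negSucc 149, .negSucc 195, .negSucc 137, .negSucc 471, .ofNat 330, .negSucc 1266⟩, ⟨.ofNat 189, .ofNat 68, .negSucc 16, .ofNat 310, .negSucc 235, .ofNat 753⟩, ⟨.negSucc 1105, .negSucc 44, .ofNat 236, .ofNat 407, .ofNat 264, .ofNat 627⟩, ⟨.ofNat 2038, .negSucc 354, .ofNat 137, .negSucc 427, .negSucc 678, .negSucc 3039⟩, ⟨.ofNat 4226, .ofNat 239, .negSucc 178, .ofNat 1396, .negSucc 2597, .ofNat 394⟩, .ofNat 2068, .ofNat 2605, .ofNat 0, .ofNat 2605, .ofNat 4701, .ofNat 0, .ofNat 128, .negSucc 217, .negSucc 146, .ofNat 0, .ofNat 147, .ofNat 78, .ofNat 0, .ofNat 0, .ofNat 401, .ofNat 2246, .ofNat 0, .ofNat 0, .ofNat 76118627141706794038613407422456208031744, .ofNat 0, .ofNat 0, .ofNat 0, .ofNat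 0, .ofNat 0, .ofNat 0, .ofNat 0, .ofNat 684047121802566081816056376352515339321344, .ofNat 0, .ofNat 0, .ofNat 0, .ofNat 1081876664391034164850796841766433989853184, .ofNat 0⟩)
    (by decide +kernel)
theorem L02050 : Good (Phi V5.P V5.D 1 (-1)) ⟨3, 3, 3, 4, 4, 14, 3, 1, 4, 1⟩ :=
  leafYS_sound T5.ok_pm T5.Ypm.bz_eq (w := 236) (c := ⟨⟨.negSucc 119, .negSucc 89, .negSucc 28, .negSucc 100, .ofNat 202, .negSucc 1536⟩, ⟨.ofNat 248, .ofNat 48, .ofNat 38, .ofNat 75, .negSucc 176, .ofNat 663⟩, ⟨.negSucc 1324, .negSucc 105, .negSucc 17, .ofNat 121, .ofNat 359, .ofNat 900⟩, ⟨.ofNat 1280, .negSucc 163, .ofNat 424, .ofNat 143, .negSucc 346, .negSucc 3674⟩, ⟨.ofNat 3751, .ofNat 315, .ofNat 376, .ofNat 854, .negSucc 1895, .negSucc 7⟩, .ofNat 690, .ofNat 559, .ofNat 0, .ofNat 559, .ofNat 1549, .ofNat 0, .ofNat 128, .negSucc 127, .negSucc 65, .ofNat 0, .ofNat 96, .ofNat 25, .ofNat 0,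 .ofNat 0, .ofNat 137, .ofNat 1253, .ofNat 0, .ofNat 0, .ofNat 462666757626926871972293081377415200661045248, .ofNat 0, .ofNat 0, .ofNat 0, .ofNat 0, .ofNat 0, .ofNat 0, .ofNat 0, .ofNat 0, .ofNat 0, .ofNat 0, .ofNat 0, .ofNat 1471612524118446786481415413425545581906886656, .ofNat 0⟩)
    (by decide +kernel)
theorem L02051 : Good (Phi V5.P V5.D 1 (-1)) ⟨3, 3, 3, 4, 4, 15, 3, 1, 4, 1⟩ :=
  leafYS_sound T5.ok_pm T5.Ypm.bz_eq (w := 237) (c := ⟨⟨.negSucc 252, .negSucc 55, .negSucc 155, .negSucc 213, .ofNat 191, .negSucc 1410⟩, ⟨.ofNat 358, .ofNat 38, .ofNat 110, .ofNat 129, .negSucc 227, .ofNat 625⟩, ⟨.negSucc 1146, .negSucc 159, .negSucc 15, .ofNat 188, .ofNat 389, .ofNat 779⟩, ⟨.ofNat 1239, .ofNat 55, .ofNat 426, .negSucc 149, .negSucc 715, .negSucc 3090⟩, ⟨.ofNat 4582, .ofNat 589, .ofNat 739, .ofNat 776, .negSucc 2750, .ofNat 532⟩, .ofNat 1040, .ofNat 1175, .ofNat 0, .ofNat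 1175, .ofNat 2929, .ofNat 0, .ofNat 128, .negSucc 154, .negSucc 119, .ofNat 0, .ofNat 102, .ofNat 40, .ofNat 0, .ofNat 0, .ofNat 260, .ofNat 1342, .ofNat 0, .ofNat 0, .ofNat 815700550069764895693165536320516384528269312, .ofNat 0, .ofNat 0, .ofNat 0, .ofNat 16575141906688954198138483314124252694892773376, .ofNat 0, .ofNat 0, .ofNat 0, .ofNat 0, .ofNat 0, .ofNat 0, .ofNat 0, .ofNat 7708032498816152920221549726887720473054937088, .ofNat 0⟩)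
    (by decide +kernel)
theorem L02052 : Good (Phi V5.P V5.D 1 (-1)) ⟨3, 3, 3, 5, 3, 7, 3, 1, 4, 1⟩ :=
  out_sound (S := T5.ds_pm) T5.ok_pm (w := 45) (j := 3) (by decide +kernel)
theorem L02053 : Good (Phi V5.P V5.D 1 (-1)) ⟨2, 1, 2, 3, 2, 3, 3, 1, 3, 0⟩ :=
  out_sound (S := T5.ds_pm) T5.ok_pm (w := 37) (j := 3) (by decide +kernel)
theorem L02054 : Good (Phi V5.P V5.D 1 (-1)) ⟨2, 1, 2, 2, 2, 2, 2, 1, 3, 0⟩ :=
  leafYS_sound T5.ok_pm T5.Ypm.bz_eq (w := 192) (c := ⟨⟨.ofNat 1266, .ofNat 72, .negSucc 49, .negSucc 123, .negSucc 247, .negSucc 2120⟩, ⟨.negSucc 685, .ofNat 73, .ofNat 16, .ofNat 115, .ofNat 147, .ofNat 1091⟩, ⟨.negSucc 1371, .ofNat 32, .ofNat 228, .negSucc 110, .ofNat 552, .ofNat 1288⟩, ⟨.ofNat 3532, .ofNat 3, .ofNat 210, .ofNat 290, .negSucc 691, .negSucc 6157⟩, ⟨.ofNat 357, .ofNat 211, .ofNat 476, .ofNat 1245, .negSucc 41, .negSucc 1258⟩, .ofNat 415, .ofNat 182,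 .ofNat 0, .ofNat 182, .ofNat 667, .ofNat 0, .ofNat 237, .negSucc 109, .negSucc 150, .ofNat 0, .ofNat 128, .ofNat 72, .ofNat 0, .ofNat 0, .ofNat 291, .ofNat 750, .ofNat 0, .ofNat 0, .ofNat 0, .ofNat 0, .ofNat 0, .ofNat 0, .ofNat 0, .ofNat 0, .ofNat 0, .ofNat 0, .ofNat 0, .ofNat 0, .ofNat 0, .ofNat 0, .ofNat 0, .ofNat 0⟩)
    (by decide +kernel)
theorem L02055 : Good (Phi V5.P V5.D 1 (-1)) ⟨2, 1, 2, 2, 2, 3, 2, 1, 4, 0⟩ :=
  leafYS_sound T5.ok_pm T5.Ypm.bz_eq (w := 197) (c := ⟨⟨.ofNat 910, .ofNat 205, .negSucc 98, .negSucc 550, .negSucc 59, .negSucc 590⟩, ⟨.negSucc 363, .ofNat 38, .negSucc 126, .ofNat 268, .negSucc 6, .ofNat 258⟩, ⟨.negSucc 854, .negSucc 334, .ofNat 172, .ofNat 842, .ofNat 342, .negSucc 230⟩, ⟨.ofNat 4055, .negSucc 196, .negSucc 202, .negSucc 1786, .negSucc 912, .negSucc 1640⟩, ⟨.ofNat 3050, .negSucc 146, .negSucc 432, .negSucc 698, .negSucc 1403, .negSucc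 362⟩, .ofNat 772, .ofNat 638, .ofNat 0, .ofNat 638, .ofNat 1600, .ofNat 0, .ofNat 164, .negSucc 127, .negSucc 126, .ofNat 0, .ofNat 91, .ofNat 60, .ofNat 0, .ofNat 0, .ofNat 270, .ofNat 398, .ofNat 0, .ofNat 0, .ofNat 104164002623703206215517659295907840, .ofNat 0, .ofNat 0, .ofNat 0, .ofNat 6881415792905922974202695869119070208, .ofNat 0, .ofNat 0, .ofNat 0, .ofNat 1172239909437963094439709348879925248, .ofNat 0, .ofNat 0, .ofNat 0, .ofNat 2571247495600185774167173795189620736, .ofNat 0⟩)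
    (by decide +kernel)
theorem L02056 : Good (Phi V5.P V5.D 1 (-1)) ⟨2, 1, 3, 4, 2, 3, 2, 1, 4, 1⟩ :=
  leafYS_sound T5.ok_pm T5.Ypm.bz_eq (w := 200) (c := ⟨⟨.ofNat 218, .negSucc 277, .ofNat 71, .negSucc 380, .ofNat 51, .negSucc 1286⟩, ⟨.negSucc 8, .ofNat 36, .ofNat 0, .ofNat 252, .negSucc 108, .ofNat 606⟩, ⟨.negSucc 838, .negSucc 84, .negSucc 89, .ofNat 309, .ofNat 542, .ofNat 724⟩, ⟨.ofNat 1133, .negSucc 580, .ofNat 356, .negSucc 436, .negSucc 654, .negSucc 3305⟩, ⟨.ofNat 1515, .negSucc 83, .ofNat 110, .ofNat 1057, .negSucc 1620, .negSucc 235⟩, .ofNat 991, .ofNat 996, .ofNat 0, .ofNat 996, .ofNat 2336, .ofNat 0, .ofNat 206, .negSucc 127, .negSucc 115, .ofNat 0, .ofNat 86, .ofNat 54, .ofNat 0, .ofNat 0, .ofNat 251, .ofNat 492, .ofNat 0, .ofNat 0, .ofNat 291680351658426797504128870873300992, .ofNat 0, .ofNat 0, .ofNat 0, .ofNat 30209060144071115763136150935462477824,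 .ofNat 0, .ofNat 0, .ofNat 0, .ofNat 0, .ofNat 0, .ofNat 0, .ofNat 0, .ofNat 5690472175927899291268867586994995200, .ofNat 0⟩)
    (by decide +kernel)
theorem L02057 : Good (Phi V5.P V5.D 1 (-1)) ⟨2, 1, 3, 5, 2, 3, 2, 1, 4, 1⟩ :=
  leafYS_sound T5.ok_pm T5.Ypm.bz_eq (w := 201) (c := ⟨⟨.ofNat 181, .negSucc 241, .negSucc 79, .negSucc 475, .ofNat 176, .negSucc 1168⟩, ⟨.negSucc 72, .ofNat 71, .ofNat 32, .ofNat 307, .negSucc 122, .ofNat 700⟩, ⟨.negSucc 882, .negSucc 79, .ofNat 232, .ofNat 386, .ofNat 501, .ofNat 615⟩, ⟨.ofNat 1498, .negSucc 470, .ofNat 49, .negSucc 633, .negSucc 615, .negSucc 3254⟩, ⟨.ofNat 1765, .ofNat 83, .negSucc 22, .ofNat 1043, .negSucc 1767, .negSucc 272⟩, .ofNat 1414, .ofNat 1565, .ofNat 0, .ofNat 1565, .ofNat 2974, .ofNat 0, .ofNat 128, .negSucc 196, .negSucc 127, .ofNat 0, .ofNat 136, .ofNat 72, .ofNat 0, .ofNat 0, .ofNat 311, .ofNat 1121, .ofNat 0,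 .ofNat 0, .ofNat 810106827160485363235257530632372224, .ofNat 0, .ofNat 0, .ofNat 0, .ofNat 48088548979595403730128167999402672128, .ofNat 0, .ofNat 0, .ofNat 0, .ofNat 9269100991697240880705514398210326528, .ofNat 0, .ofNat 0, .ofNat 0, .ofNat 8063830558722619740938291180877119488, .ofNat 0⟩)
    (by decide +kernel)
theorem L02058 : Good (Phi V5.P V5.D 1 (-1)) ⟨2, 1, 2, 3, 1, 1, 2, 1, 3, 0⟩ :=
  out_sound (S := T5.ds_pm) T5.ok_pm (w := 37) (j := 3) (by decide +kernel)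
theorem L02059 : Good (Phi V5.P V5.D 1 (-1)) ⟨2, 1, 2, 2, 3, 4, 3, 0, 4, 2⟩ :=
  leafYS_sound T5.ok_pm T5.Ypm.bz_eq (w := 217) (c := ⟨⟨.negSucc 1011, .negSucc 407, .negSucc 54, .negSucc 147, .ofNat 88, .negSucc 356⟩, ⟨.ofNat 510, .negSucc 34, .ofNat 363, .ofNat 87, .negSucc 46, .ofNat 178⟩, ⟨.negSucc 67, .ofNat 9, .negSucc 1, .negSucc 333, .ofNat 243, .ofNat 509⟩, ⟨.negSucc 3167, .negSucc 86, .negSucc 138, .negSucc 204, .ofNat 273, .negSucc 953⟩, ⟨.negSucc 635, .ofNat 311, .ofNat 185, .ofNat 353, .ofNat 75, .negSucc 29⟩, .ofNat 416, .ofNat 182, .ofNat 0, .ofNat 182, .ofNat 667, .ofNat 0, .ofNat 187, .negSucc 109, .negSucc 51, .ofNat 0, .ofNat 128, .ofNat 33, .ofNat 0, .ofNat 0, .ofNat 206, .ofNat 12672, .ofNat 113804294350766321018189326320461562022723584, .ofNat 0, .ofNat 341651283058882266589092682160230451118080, .ofNat 0, .ofNat 0, .ofNat 0, .ofNat 0, .ofNat 0, .ofNat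 0, .ofNat 0, .ofNat 1171518702503175178247890889003623923056640, .ofNat 0, .ofNat 166270050915103158599744551473111654603948032, .ofNat 0, .ofNat 102322354831217743798284768268621545734144, .ofNat 0⟩)
    (by decide +kernel)
theorem L02060 : Good (Phi V5.P V5.D 1 (-1)) ⟨2, 1, 2, 2, 3, 5, 5, 0, 5, 4⟩ :=
  leafYS_sound T5.ok_pm T5.Ypm.bz_eq (w := 235) (c := ⟨⟨.negSucc 1163, .negSucc 498, .negSucc 243, .negSucc 247, .ofNat 103, .negSucc 340⟩, ⟨.ofNat 560, .ofNat 59, .ofNat 408, .ofNat 213, .negSucc 48, .ofNat 171⟩, ⟨.negSucc 564, .negSucc 218, .ofNat 8, .negSucc 218, .ofNat 137, .ofNat 416⟩, ⟨.negSucc 3518, .negSucc 199, .ofNat 26, .ofNat 371, .ofNat 36, .negSucc 910⟩, ⟨.negSucc 950, .ofNat 931, .ofNat 726, .ofNat 2138, .negSucc 143, .negSucc 143⟩, .ofNat 418, .ofNat 186, .ofNat 0, .ofNat 186, .ofNat 668, .ofNat 0, .ofNat 233, .negSucc 213, .negSucc 36, .ofNat 0, .ofNat 219,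 .ofNat 26, .ofNat 0, .ofNat 0, .ofNat 128, .ofNat 354634, .ofNat 1112478263110035808643282928488555817884599713792, .ofNat 0, .ofNat 2567828184476602572872723196764963408697098240, .ofNat 0, .ofNat 2517599634628026302617888913824522789608811921408, .ofNat 0, .ofNat 5661159277882745332996032916955396395512102912, .ofNat 0, .ofNat 1506374977380858252345519311779129130764965249024, .ofNat 0, .ofNat 0, .ofNat 0, .ofNat 645217354156340334390038703945923898446236876800, .ofNat 0, .ofNat 447910556089548485528862121700003698440142848, .ofNat 0⟩)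
    (by decide +kernel)
theorem L02061 : Good (Phi V5.P V5.D 1 (-1)) ⟨2, 1, 2, 2, 3, 5, 5, 1, 5, 4⟩ :=
  leafYS_sound T5.ok_pm T5.Ypm.bz_eq (w := 232) (c := ⟨⟨.negSucc 1091, .negSucc 470, .negSucc 165, .negSucc 252, .ofNat 44, .negSucc 242⟩, ⟨.ofNat 572, .ofNat 16, .ofNat 376, .ofNat 176, .negSucc 31, .ofNat 111⟩, ⟨.negSucc 415, .negSucc 141, .ofNat 22, .negSucc 258, .ofNat 130, .ofNat 339⟩, ⟨.negSucc 3276, .negSucc 98, .ofNat 38, .ofNat 64, .ofNat 44, .negSucc 653⟩, ⟨.negSucc 334, .ofNat 702, .ofNat 568, .ofNat 1402, .negSucc 115, .negSucc 130⟩, .ofNat 765, .ofNat 629, .ofNat 0, .ofNat 629, .ofNat 1592, .ofNat 0, .ofNat 128, .negSucc 145, .negSucc 32, .ofNat 0, .ofNat 115, .ofNat 21, .ofNat 0, .ofNat 0, .ofNat 145, .ofNat 38385, .ofNat 73721450368068222567807566501899663463721992192, .ofNat 0, .ofNat 1311866204444868619388620574677867822927839232, .ofNat 0, .ofNat 0,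 .ofNat 0, .ofNat 0, .ofNat 0, .ofNat 16432116167771103245413909858510787837465460736, .ofNat 0, .ofNat 11062063242097020172758362462849150345581428736, .ofNat 0, .ofNat 0, .ofNat 0, .ofNat 0, .ofNat 0⟩)
    (by decide +kernel)
theorem L02062 : Good (Phi V5.P V5.D 1 (-1)) ⟨2, 1, 2, 2, 3, 5, 5, 0, 5, 5⟩ :=
  out_sound (S := T5.ds_pm) T5.ok_pm (w := 31) (j := 1) (by decide +kernel)
theorem L02063 : Good (Phi V5.P V5.D 1 (-1)) ⟨2, 1, 3, 4, 3, 5, 5, 1, 5, 5⟩ :=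
  leafYS_sound T5.ok_pm T5.Ypm.bz_eq (w := 236) (c := ⟨⟨.negSucc 1316, .negSucc 470, .negSucc 74, .negSucc 228, .ofNat 9, .negSucc 69⟩, ⟨.ofNat 672, .negSucc 6, .ofNat 221, .ofNat 168, .negSucc 14, .ofNat 23⟩, ⟨.negSucc 108, .negSucc 110, .ofNat 14, .negSucc 187, .ofNat 102, .ofNat 279⟩, ⟨.negSucc 4012, .negSucc 29, .negSucc 34, .ofNat 77, .ofNat 91, .negSucc 301⟩, ⟨.negSucc 617, .ofNat 712, .ofNat 236, .ofNat 1356, .ofNat 71, .negSucc 245⟩, .ofNat 741, .ofNat 598, .ofNat 0, .ofNat 598, .ofNat 1567, .ofNat 0, .ofNat 170, .negSucc 127, .negSucc 34, .ofNat 0, .ofNat 106, .ofNat 21, .ofNat 0, .ofNat 0, .ofNat 171, .ofNat 100384, .ofNat 203638103591842811724262356081353500817197367296, .ofNat 0, .ofNat 1280411228405086195443723695143954191203958784, .ofNat 0, .ofNat 0, .ofNat 0, .ofNat 0, .ofNat 0, .ofNat 2692155255929153860703013964269259381748766081024, .ofNat 0, .ofNat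 7547322290834793840465980600196596701285318656, .ofNat 0, .ofNat 0, .ofNat 0, .ofNat 0, .ofNat 0⟩)
    (by decide +kernel)
theorem L02064 : Good (Phi V5.P V5.D 1 (-1)) ⟨2, 1, 3, 5, 3, 5, 5, 1, 5, 5⟩ :=
  leafYS_sound T5.ok_pm T5.Ypm.bz_eq (w := 237) (c := ⟨⟨.negSucc 1394, .negSucc 480, .negSucc 76, .negSucc 263, .ofNat 44, .negSucc 65⟩, ⟨.ofNat 864, .ofNat 77, .ofNat 213, .ofNat 178, .negSucc 22, .ofNat 37⟩, ⟨.negSucc 90, .negSucc 87, .ofNat 6, .negSucc 207, .ofNat 104, .ofNat 270⟩, ⟨.negSucc 3984, .negSucc 107, .negSucc 32, .ofNat 85, .ofNat 64, .negSucc 292⟩, ⟨.negSucc 206, .ofNat 691, .ofNat 174, .ofNat 1302, .negSucc 90, .negSucc 190⟩, .ofNat 942, .ofNat 899, .ofNat 0, .ofNat 899, .ofNat 1875, .ofNat 0, .ofNat 128, .negSucc 142, .negSucc 32, .ofNat 0, .ofNat 111, .ofNat 22, .ofNat 0, .ofNat 0, .ofNat 166, .ofNat 130360, .ofNat 1531902557262151590722635667559405907052410699776,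 .ofNat 0, .ofNat 11651461401759137093898883795288223053242171392, .ofNat 0, .ofNat 0, .ofNat 0, .ofNat 219871136728480095123625871151319527117935345664, .ofNat 0, .ofNat 3074159955503747568919868829853224818699854151680, .ofNat 0, .ofNat 52194903955503514328045443821104340865512374272, .ofNat 0, .ofNat 0, .ofNat 0, .ofNat 7818670409546491008914772928900467660720963584, .ofNat 0⟩)
    (by decide +kernel)
theorem L02065 : Good (Phi V5.P V5.D 1 (-1)) ⟨3, 2, 2, 2, 3, 5, 4, 1, 4, 2⟩ :=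
  leafYS_sound T5.ok_pm T5.Ypm.bz_eq (w := 226) (c := ⟨⟨.negSucc 1113, .negSucc 229, .negSucc 125, .negSucc 190, .ofNat 76, .negSucc 341⟩, ⟨.ofNat 557, .ofNat 34, .ofNat 385, .ofNat 135, .negSucc 41, .ofNat 176⟩, ⟨.negSucc 336, .negSucc 14, .ofNat 34, .negSucc 191, .ofNat 164, .ofNat 567⟩, ⟨.negSucc 3233, .negSucc 84, .negSucc 23, .ofNat 62, .ofNat 157, .negSucc 1029⟩, ⟨.negSucc 204, .ofNat 298, .ofNat 415, .ofNat 1032, .negSucc 87, .negSucc 224⟩, .ofNat 918, .ofNat 825, .ofNat 0, .ofNat 825, .ofNat 1770, .ofNat 0, .ofNat 128, .negSucc 165, .negSucc 42, .ofNat 0, .ofNat 132, .ofNat 28, .ofNat 0, .ofNat 0, .ofNat 184, .ofNat 15315, .ofNat 0, .ofNat 0, .ofNat 410893746809759359522557908328116343799808, .ofNat 0, .ofNat 0, .ofNat 0, .ofNat 0, .ofNat 0, .ofNat 0, .ofNat 0, .ofNat 7758649787241322097162961431441661237395456, .ofNat 0, .ofNat 0, .ofNat 0, .ofNat 0, .ofNat 0⟩)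
    (by decide +kernel)
theorem L02066 : Good (Phi V5.P V5.D 1 (-1)) ⟨3, 3, 2, 2, 3, 5, 4, 1, 4, 2⟩ :=
  leafYS_sound T5.ok_pm T5.Ypm.bz_eq (w := 226) (c := ⟨⟨.negSucc 1307, .negSucc 253, .negSucc 135, .negSucc 215, .ofNat 42, .negSucc 341⟩, ⟨.ofNat 585, .negSucc 34, .ofNat 386, .ofNat 156, .negSucc 20, .ofNat 136⟩, ⟨.negSucc 368, .negSucc 21, .ofNat 36, .negSucc 217, .ofNat 199, .ofNat 593⟩, ⟨.negSucc 3307, .negSucc 57, .negSucc 28, .negSucc 9, .ofNat 85, .negSucc 916⟩, ⟨.negSucc 3, .ofNat 263, .ofNat 379, .ofNat 1177, .negSucc 45, .negSucc 221⟩, .ofNat 747, .ofNat 647, .ofNat 0, .ofNat 647, .ofNat 1615, .ofNat 0, .ofNat 128, .negSucc 204, .negSucc 47, .ofNat 0, .ofNat 158, .ofNat 29, .ofNat 0, .ofNat 0, .ofNat 196, .ofNat 17723, .ofNat 0, .ofNat 0, .ofNat 701554698570019932061354804266172548120576, .ofNat 0, .ofNat 0, .ofNat 0, .ofNat 2117827640187004944415909879423281492131840,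 .ofNat 0, .ofNat 0, .ofNat 0, .ofNat 15250850633574472761340735122865622133768192, .ofNat 0, .ofNat 0, .ofNat 0, .ofNat 1784757516010439786167855095532438085959680, .ofNat 0⟩)
    (by decide +kernel)
theorem L02067 : Good (Phi V5.P V5.D 1 (-1)) ⟨2, 1, 2, 3, 2, 2, 3, 0, 4, 2⟩ :=
  out_sound (S := T5.ds_pm) T5.ok_pm (w := 37) (j := 3) (by decide +kernel)
theorem L02068 : Good (Phi V5.P V5.D 1 (-1)) ⟨2, 1, 2, 2, 2, 2, 4, 0, 4, 3⟩ :=
  leafYS_sound T5.ok_pm T5.Ypm.bz_eq (w := 215) (c := ⟨⟨.negSucc 1738, .negSucc 455, .negSucc 180, .negSucc 0, .ofNat 160, .ofNat 1⟩, ⟨.ofNat 915, .negSucc 11, .ofNat 441, .ofNat 1, .negSucc 77, .negSucc 0⟩, ⟨.negSucc 15, .negSucc 97, .negSucc 5, .ofNat 0, .ofNat 97, .ofNat 0⟩, ⟨.negSucc 4137, .ofNat 33, .ofNat 30, .negSucc 1, .ofNat 21, .ofNat 2⟩, ⟨.ofNat 632, .ofNat 814, .ofNat 575, .ofNat 1, .negSucc 131, .negSucc 0⟩, .ofNat 187, .ofNat 32,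 .ofNat 0, .ofNat 32, .ofNat 231, .ofNat 0, .ofNat 189, .negSucc 143, .negSucc 51, .ofNat 0, .ofNat 223, .ofNat 42, .ofNat 0, .ofNat 0, .ofNat 128, .ofNat 2571300, .ofNat 74665958446392956589686224820875483431305216, .ofNat 0, .ofNat 0, .ofNat 0, .ofNat 26803698224690278273645792877091262090444800, .ofNat 0, .ofNat 0, .ofNat 0, .ofNat 93868455452351214171610446550501951369379840, .ofNat 0, .ofNat 1057790567927098056450058654167546724352, .ofNat 0, .ofNat 6811898537847416847040769977323548930211840, .ofNat 0, .ofNat 124321222818581878473076863649464713216, .ofNat 0⟩)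
    (by decide +kernel)
theorem L02069 : Good (Phi V5.P V5.D 1 (-1)) ⟨3, 2, 2, 2, 2, 2, 4, 1, 4, 3⟩ :=
  leafYS_sound T5.ok_pm T5.Ypm.bz_eq (w := 213) (c := ⟨⟨.negSucc 1320, .negSucc 191, .negSucc 61, .negSucc 285, .ofNat 29, .ofNat 55⟩, ⟨.ofNat 649, .ofNat 4, .ofNat 382, .ofNat 187, .negSucc 17, .negSucc 35⟩, ⟨.ofNat 461, .ofNat 24, .ofNat 4, .negSucc 410, .ofNat 135, .ofNat 329⟩, ⟨.negSucc 3954, .ofNat 37, .negSucc 55, .negSucc 199, .negSucc 10, .ofNat 25⟩, ⟨.negSucc 559, .ofNat 249, .ofNat 181, .ofNat 1024, .negSucc 110, .negSucc 218⟩, .ofNat 2151, .ofNat 2879, .ofNat 0, .ofNat 2879, .ofNat 5535, .ofNat 0, .ofNat 128, .negSucc 238, .negSucc 40, .ofNat 0, .ofNat 164, .ofNat 24, .ofNat 0, .ofNat 0, .ofNat 258, .ofNat 33260, .ofNat 0, .ofNat 0, .ofNat 59585799091460577019779884028302196736, .ofNat 0, .ofNat 0, .ofNat 0, .ofNat 0, .ofNat 0, .ofNat 25732733789433717781993344620384800099794944,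 .ofNat 0, .ofNat 907399983733359911991730650786790637568, .ofNat 0, .ofNat 10585874754054894771016557871913147343831040, .ofNat 0, .ofNat 0, .ofNat 0⟩)
    (by decide +kernel)
theorem L02070 : Good (Phi V5.P V5.D 1 (-1)) ⟨3, 3, 2, 2, 2, 2, 4, 1, 4, 3⟩ :=
  leafYS_sound T5.ok_pm T5.Ypm.bz_eq (w := 213) (c := ⟨⟨.negSucc 1504, .negSucc 225, .negSucc 72, .negSucc 316, .ofNat 19, .ofNat 82⟩, ⟨.ofNat 647, .negSucc 59, .ofNat 393, .ofNat 200, .negSucc 13, .negSucc 46⟩, ⟨.ofNat 441, .ofNat 0, .ofNat 11, .negSucc 428, .ofNat 196, .ofNat 323⟩, ⟨.negSucc 3991, .ofNat 60, .negSucc 17, .negSucc 224, .negSucc 7, .ofNat 80⟩, ⟨.negSucc 514, .ofNat 269, .ofNat 246, .ofNat 1248, .negSucc 95, .negSucc 265⟩, .ofNat 1031, .ofNat 1160, .ofNat 0, .ofNat 1160, .ofNat 2915, .ofNat 0, .ofNat 128, .negSucc 156, .negSucc 44, .ofNat 0, .ofNat 112, .ofNat 24, .ofNat 0, .ofNat 0, .ofNat 272, .ofNat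 24762, .ofNat 0, .ofNat 0, .ofNat 67832339822847345492042879192130387968, .ofNat 0, .ofNat 0, .ofNat 0, .ofNat 0, .ofNat 0, .ofNat 22249914182488871464953773924309649575641088, .ofNat 0, .ofNat 840078815099178323315166568537191874560, .ofNat 0, .ofNat 6579872983100576384407192106530904303730688, .ofNat 0, .ofNat 0, .ofNat 0⟩)
    (by decide +kernel)
theorem L02071 : Good (Phi V5.P V5.D 1 (-1)) ⟨2, 1, 2, 3, 2, 2, 3, 0, 4, 3⟩ :=
  out_sound (S := T5.ds_pm) T5.ok_pm (w := 37) (j := 3) (by decide +kernel)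
theorem L02072 : Good (Phi V5.P V5.D 1 (-1)) ⟨2, 1, 1, 1, 2, 2, 3, 1, 4, 2⟩ :=
  leafYS_sound T5.ok_pm T5.Ypm.bz_eq (w := 199) (c := ⟨⟨.negSucc 877, .negSucc 473, .negSucc 127, .negSucc 349, .ofNat 77, .negSucc 367⟩, ⟨.ofNat 440, .ofNat 3, .ofNat 632, .ofNat 228, .negSucc 37, .ofNat 176⟩, ⟨.negSucc 7, .ofNat 43, .ofNat 61, .negSucc 364, .ofNat 277, .ofNat 578⟩, ⟨.negSucc 2882, .negSucc 221, .ofNat 95, .negSucc 183, .ofNat 153, .negSucc 1042⟩, ⟨.negSucc 685, .ofNat 455, .ofNat 522, .ofNat 1419, .negSucc 109, .negSucc 237⟩, .ofNat 752, .ofNat 615, .ofNat 0, .ofNat 615, .ofNat 1583, .ofNat 0, .ofNat 128, .negSucc 178, .negSucc 83, .ofNat 0, .ofNat 145, .ofNat 47, .ofNat 0, .ofNat 0, .ofNat 312, .ofNat 3755, .ofNat 0, .ofNat 0, .ofNat 1900265112984902507515135802602422272, .ofNat 0, .ofNat 0, .ofNat 0, .ofNat 0, .ofNat 0, .ofNat 0, .ofNat 0, .ofNat 50784966751491641488087465018664157184,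 .ofNat 0, .ofNat 0, .ofNat 0, .ofNat 0, .ofNat 0⟩)
    (by decide +kernel)
theorem L02073 : Good (Phi V5.P V5.D 1 (-1)) ⟨2, 1, 1, 1, 2, 2, 3, 1, 4, 3⟩ :=
  leafYS_sound T5.ok_pm T5.Ypm.bz_eq (w := 200) (c := ⟨⟨.negSucc 1303, .negSucc 424, .negSucc 43, .negSucc 254, .ofNat 21, .ofNat 18⟩, ⟨.ofNat 650, .negSucc 49, .ofNat 732, .ofNat 165, .negSucc 8, .negSucc 14⟩, ⟨.ofNat 482, .ofNat 121, .ofNat 92, .negSucc 318, .ofNat 267, .ofNat 296⟩, ⟨.negSucc 3875, .ofNat 6, .negSucc 102, .negSucc 262, .ofNat 10, .negSucc 37⟩, ⟨.negSucc 459, .ofNat 403, .ofNat 257, .ofNat 827, .negSucc 110, .negSucc 185⟩, .ofNat 756, .ofNat 621, .ofNat 0, .ofNat 621, .ofNat 1587, .ofNat 0, .ofNat 128, .negSucc 163, .negSucc 50, .ofNat 0, .ofNat 141, .ofNat 29, .ofNat 0, .ofNat 0, .ofNat 310, .ofNat 7349, .ofNat 0, .ofNat 0, .ofNat 3990468516316192955903197366661939200, .ofNat 0, .ofNat 0, .ofNat 0,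 .ofNat 26654470566255656047479065325047119872, .ofNat 0, .ofNat 0, .ofNat 0, .ofNat 116148887988402768000169142830864793600, .ofNat 0, .ofNat 3737536305312822041004721422206857379840, .ofNat 0, .ofNat 14348093158741863018402831757073186816, .ofNat 0⟩)
    (by decide +kernel)
theorem L02074 : Good (Phi V5.P V5.D 1 (-1)) ⟨3, 2, 2, 2, 3, 6, 5, 0, 5, 4⟩ :=
  leafYS_sound T5.ok_pm T5.Ypm.bz_eq (w := 236) (c := ⟨⟨.negSucc 1364, .negSucc 226, .negSucc 329, .negSucc 214, .ofNat 35, .negSucc 182⟩, ⟨.ofNat 806, .ofNat 55, .ofNat 397, .ofNat 206, .negSucc 75, .ofNat 95⟩, ⟨.negSucc 747, .negSucc 107, .negSucc 78, .ofNat 25, .ofNat 92, .ofNat 390⟩, ⟨.negSucc 3682, .negSucc 41, .ofNat 723, .ofNat 1401, .ofNat 192, .negSucc 826⟩, ⟨.ofNat 691, .ofNat 712, .ofNat 1567, .ofNat 3532, .negSucc 144, .negSucc 589⟩, .ofNat 1141, .ofNat 1181, .ofNat 0, .ofNat 1181, .ofNat 2518, .ofNat 0, .ofNat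 128, .negSucc 166, .negSucc 48, .ofNat 0, .ofNat 128, .ofNat 28, .ofNat 0, .ofNat 0, .ofNat 202, .ofNat 58897, .ofNat 3422251484055134212711437860600386566034475188224, .ofNat 0, .ofNat 0, .ofNat 0, .ofNat 0, .ofNat 0, .ofNat 0, .ofNat 0, .ofNat 0, .ofNat 0, .ofNat 0, .ofNat 0, .ofNat 0, .ofNat 0, .ofNat 1076308872775236634203950675161902018860154880, .ofNat 0⟩)
    (by decide +kernel)
theorem L02075 : Good (Phi V5.P V5.D 1 (-1)) ⟨3, 2, 2, 2, 3, 6, 5, 1, 5, 4⟩ :=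
  leafYS_sound T5.ok_pm T5.Ypm.bz_eq (w := 236) (c := ⟨⟨.negSucc 1318, .negSucc 237, .negSucc 289, .negSucc 205, .ofNat 55, .negSucc 215⟩, ⟨.ofNat 745, .ofNat 39, .ofNat 385, .ofNat 196, .negSucc 45, .ofNat 111⟩, ⟨.negSucc 644, .negSucc 86, .negSucc 51, .ofNat 20, .ofNat 108, .ofNat 373⟩, ⟨.negSucc 3381, .ofNat 2, .ofNat 572, .ofNat 1157, .ofNat 100, .negSucc 842⟩, ⟨.ofNat 788, .ofNat 654, .ofNat 1337, .ofNat 3072, .negSucc 166, .negSucc 439⟩, .ofNat 827, .ofNat 694, .ofNat 0, .ofNat 694, .ofNat 1637, .ofNat 0, .ofNat 128, .negSucc 141, .negSucc 59, .ofNat 0, .ofNat 121, .ofNat 35, .ofNat 0, .ofNat 0, .ofNat 233, .ofNat 32010, .ofNat 0, .ofNat 0, .ofNat 0, .ofNat 0, .ofNat 0, .ofNat 0, .ofNat 0, .ofNat 0, .ofNat 0, .ofNat 0, .ofNat 2808335688171070740734860581136772578467119104, .ofNat 0, .ofNat 0, .ofNat 0, .ofNat 1245705637497019006215316947955128230075170816, .ofNat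 0⟩)
    (by decide +kernel)
theorem L02076 : Good (Phi V5.P V5.D 1 (-1)) ⟨3, 3, 2, 2, 3, 6, 5, 0, 5, 4⟩ :=
  leafYS_sound T5.ok_pm T5.Ypm.bz_eq (w := 237) (c := ⟨⟨.negSucc 1640, .negSucc 213, .negSucc 387, .negSucc 109, .ofNat 59, .negSucc 219⟩, ⟨.ofNat 818, .ofNat 27, .ofNat 448, .ofNat 224, .negSucc 51, .ofNat 65⟩, ⟨.negSucc 901, .negSucc 125, .negSucc 90, .negSucc 1, .ofNat 142, .ofNat 438⟩, ⟨.negSucc 3182, .negSucc 113, .ofNat 446, .ofNat 1294, .negSucc 199, .negSucc 760⟩, ⟨.ofNat 2034, .ofNat 567, .ofNat 1383, .ofNat 3533, .negSucc 707, .negSucc 573⟩, .ofNat 686, .ofNat 545, .ofNat 0, .ofNat 545, .ofNat 1543, .ofNat 0, .ofNat 139, .negSucc 127, .negSucc 41, .ofNat 0, .ofNat 108, .ofNat 21, .ofNat 0, .ofNat 0, .ofNat 157, .ofNat 59962, .ofNat 2896746522077002344710714334719867756480695369728, .ofNat 0, .ofNat 444352758856337030069297823058778258474532864, .ofNat 0,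 .ofNat 3654374346552625816864505833272145813234100731904, .ofNat 0, .ofNat 4127262510422744629692766970592563187607928832, .ofNat 0, .ofNat 3036413302600684786142410452566768148105385738240, .ofNat 0, .ofNat 3134263950956203952789715049576522460111568896, .ofNat 0, .ofNat 308414594688918140280352326163071598345190375424, .ofNat 0, .ofNat 960489169922041648745563120565482489045319680, .ofNat 0⟩)
    (by decide +kernel)
theorem L02077 : Good (Phi V5.P V5.D 1 (-1)) ⟨3, 3, 3, 4, 3, 6, 5, 1, 5, 4⟩ :=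
  leafYS_sound T5.ok_pm T5.Ypm.bz_eq (w := 239) (c := ⟨⟨.negSucc 1589, .negSucc 230, .negSucc 175, .negSucc 104, .ofNat 43, .negSucc 217⟩, ⟨.ofNat 778, .ofNat 13, .ofNat 225, .ofNat 207, .negSucc 33, .ofNat 74⟩, ⟨.negSucc 783, .negSucc 77, .negSucc 31, .ofNat 19, .ofNat 148, .ofNat 410⟩, ⟨.negSucc 3270, .negSucc 107, .ofNat 188, .ofNat 1075, .negSucc 62, .negSucc 700⟩, ⟨.ofNat 1566, .ofNat 510, .ofNat 617, .ofNat 3102, .negSucc 356, .negSucc 405⟩, .ofNat 675, .ofNat 530, .ofNat 0, .ofNat 530, .ofNat 1529, .ofNat 0, .ofNat 154, .negSucc 127, .negSucc 47, .ofNat 0, .ofNat 108, .ofNat 24, .ofNat 0, .ofNat 0, .ofNat 176, .ofNat 27009, .ofNat 0, .ofNat 0, .ofNat 381563725217719988557433965112639271313866752, .ofNat 0, .ofNat 0, .ofNat 0, .ofNat 13891235041569516065781017437610064376252858368, .ofNat 0, .ofNat 0, .ofNat 0, .ofNat 8007709973254939743271243874969911147118985216,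 .ofNat 0, .ofNat 0, .ofNat 0, .ofNat 1035064580175708553357240819150244815480815616, .ofNat 0⟩)
    (by decide +kernel)
theorem L02078 : Good (Phi V5.P V5.D 1 (-1)) ⟨3, 3, 3, 5, 3, 6, 5, 1, 5, 4⟩ :=
  out_sound (S := T5.ds_pm) T5.ok_pm (w := 45) (j := 3) (by decide +kernel)
theorem L02079 : Good (Phi V5.P V5.D 1 (-1)) ⟨3, 2, 2, 2, 3, 6, 4, 1, 5, 4⟩ :=
  leafYS_sound T5.ok_pm T5.Ypm.bz_eq (w := 231) (c := ⟨⟨.negSucc 1264, .negSucc 230, .negSucc 241, .negSucc 177, .ofNat 102, .negSucc 272⟩, ⟨.ofNat 697, .ofNat 41, .ofNat 370, .ofNat 180, .negSucc 64, .ofNat 130⟩, ⟨.negSucc 543, .negSucc 40, .negSucc 40, .ofNat 18, .ofNat 181, .ofNat 349⟩, ⟨.negSucc 3094, .negSucc 110, .ofNat 488, .ofNat 840, .ofNat 33, .negSucc 787⟩, ⟨.ofNat 905, .ofNat 471, .ofNat 1086, .ofNat 2448, .negSucc 419, .negSucc 202⟩, .ofNat 818, .ofNat 680, .ofNat 0, .ofNat 680, .ofNat 1622, .ofNat 0, .ofNat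 128, .negSucc 180, .negSucc 62, .ofNat 0, .ofNat 152, .ofNat 36, .ofNat 0, .ofNat 0, .ofNat 228, .ofNat 13821, .ofNat 0, .ofNat 0, .ofNat 9770458101594746180591742053417367736680448, .ofNat 0, .ofNat 0, .ofNat 0, .ofNat 0, .ofNat 0, .ofNat 0, .ofNat 0, .ofNat 312824335153095372258422067122078746287276032, .ofNat 0, .ofNat 0, .ofNat 0, .ofNat 65895678575391281571016389867292187359707136, .ofNat 0⟩)
    (by decide +kernel)
theorem L02080 : Good (Phi V5.P V5.D 1 (-1)) ⟨4, 6, 3, 4, 3, 6, 4, 1, 5, 4⟩ :=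
  leafYS_sound T5.ok_pm T5.Ypm.bz_eq (w := 238) (c := ⟨⟨.negSucc 1521, .negSucc 117, .negSucc 114, .negSucc 133, .ofNat 82, .negSucc 258⟩, ⟨.ofNat 743, .ofNat 9, .ofNat 197, .ofNat 180, .negSucc 57, .ofNat 104⟩, ⟨.negSucc 633, .negSucc 13, .negSucc 7, .ofNat 11, .ofNat 232, .ofNat 383⟩, ⟨.negSucc 3106, .negSucc 94, .ofNat 160, .ofNat 832, .negSucc 52, .negSucc 756⟩, ⟨.ofNat 1552, .ofNat 195, .ofNat 443, .ofNat 2539, .negSucc 511, .negSucc 302⟩, .ofNat 918, .ofNat 923, .ofNat 0, .ofNat 923, .ofNat 2301, .ofNat 0, .ofNat 128, .negSucc 186, .negSucc 44, .ofNat 0, .ofNat 139, .ofNat 23, .ofNat 0, .ofNat 0, .ofNat 160, .ofNat 14241, .ofNat 0, .ofNat 0, .ofNat 6575059395094290104794663423400879425847296, .ofNat 0, .ofNat 0, .ofNat 0, .ofNat 0, .ofNat 0, .ofNat 0, .ofNat 0, .ofNat 0, .ofNat 0, .ofNat 0, .ofNat 0, .ofNat 11227002631819737446589892430120961815085056, .ofNat 0⟩)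
    (by decide +kernel)
theorem L02081 : Good (Phi V5.P V5.D 1 (-1)) ⟨4, 7, 3, 4, 3, 6, 4, 1, 5, 4⟩ :=
  leafYS_sound T5.ok_pm T5.Ypm.bz_eq (w := 238) (c := ⟨⟨.negSucc 1649, .negSucc 109, .negSucc 101, .negSucc 87, .ofNat 61, .negSucc 266⟩, ⟨.ofNat 751, .ofNat 5, .ofNat 201, .ofNat 200, .negSucc 58, .ofNat 85⟩, ⟨.negSucc 677, .negSucc 12, .negSucc 6, .ofNat 15, .ofNat 250, .ofNat 406⟩, ⟨.negSucc 3211, .negSucc 107, .ofNat 247, .ofNat 839, .negSucc 70, .negSucc 700⟩, ⟨.ofNat 1714, .ofNat 147, .ofNat 487, .ofNat 2663, .negSucc 533, .negSucc 256⟩, .ofNat 1089, .ofNat 1343, .ofNat 0, .ofNat 1343, .ofNat 3519, .ofNat 0, .ofNat 137, .negSucc 131, .negSucc 37, .ofNat 0, .ofNat 90, .ofNat 17, .ofNat 0, .ofNat 0, .ofNat 128, .ofNat 14953, .ofNat 0, .ofNat 0, .ofNat 15508677843534912039089420753805833700114432, .ofNat 0, .ofNat 0, .ofNat 0, .ofNat 330833609430156596097207304126569976438980608,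 .ofNat 0, .ofNat 0, .ofNat 0, .ofNat 182731261869429609912122603301101018332266496, .ofNat 0, .ofNat 0, .ofNat 0, .ofNat 31280768723787346046371795020751015516307456, .ofNat 0⟩)
    (by decide +kernel)
theorem L02082 : Good (Phi V5.P V5.D 1 (-1)) ⟨3, 3, 3, 5, 3, 6, 4, 1, 5, 4⟩ :=
  out_sound (S := T5.ds_pm) T5.ok_pm (w := 45) (j := 3) (by decide +kernel)
theorem L02083 : Good (Phi V5.P V5.D 1 (-1)) ⟨3, 2, 3, 4, 3, 7, 3, 0, 5, 4⟩ :=
  leafYS_sound T5.ok_pm T5.Ypm.bz_eq (w := 230) (c := ⟨⟨.negSucc 1665, .negSucc 128, .negSucc 203, .negSucc 265, .ofNat 258, .negSucc 124⟩, ⟨.ofNat 1103, .negSucc 6, .ofNat 185, .ofNat 268, .negSucc 239, .ofNat 32⟩, ⟨.negSucc 753, .negSucc 53, .ofNat 10, .ofNat 85, .ofNat 434, .ofNat 333⟩, ⟨.negSucc 1693, .ofNat 125, .ofNat 456, .ofNat 1053, .negSucc 772, .negSucc 788⟩, ⟨.ofNat 5589, .ofNat 775, .ofNat 834, .ofNat 3320, .negSucc 2756, .negSucc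 840⟩, .ofNat 2070, .ofNat 2751, .ofNat 0, .ofNat 2751, .ofNat 5340, .ofNat 0, .ofNat 128, .negSucc 266, .negSucc 112, .ofNat 0, .ofNat 192, .ofNat 51, .ofNat 0, .ofNat 0, .ofNat 420, .ofNat 2655, .ofNat 0, .ofNat 0, .ofNat 0, .ofNat 0, .ofNat 0, .ofNat 0, .ofNat 0, .ofNat 0, .ofNat 0, .ofNat 0, .ofNat 0, .ofNat 0, .ofNat 0, .ofNat 0, .ofNat 15267172716875574654457802249133327227289600, .ofNat 0⟩)
    (by decide +kernel)
theorem L02084 : Good (Phi V5.P V5.D 1 (-1)) ⟨3, 2, 3, 5, 3, 7, 3, 0, 5, 4⟩ :=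
  leafYS_sound T5.ok_pm T5.Ypm.bz_eq (w := 231) (c := ⟨⟨.negSucc 1801, .negSucc 214, .negSucc 288, .negSucc 370, .ofNat 323, .negSucc 153⟩, ⟨.ofNat 1225, .ofNat 60, .ofNat 171, .ofNat 277, .negSucc 256, .ofNat 81⟩, ⟨.negSucc 802, .negSucc 46, .ofNat 184, .ofNat 327, .ofNat 407, .ofNat 336⟩, ⟨.negSucc 964, .ofNat 72, .ofNat 47, .ofNat 897, .negSucc 842, .negSucc 619⟩, ⟨.ofNat 6540, .ofNat 1031, .ofNat 176, .ofNat 3153, .negSucc 2945, .negSucc 391⟩, .ofNat 5721, .ofNat 8440, .ofNat 0, .ofNat 8440, .ofNat 14115, .ofNat 0, .ofNat 128, .negSucc 301, .negSucc 130, .ofNat 0, .ofNat 203, .ofNat 74, .ofNat 0, .ofNat 0, .ofNat 492, .ofNat 6086, .ofNat 0, .ofNat 0, .ofNat 4290828339396127485869327823114291814334464, .ofNat 0, .ofNat 0, .ofNat 0, .ofNat 427296218635606604530287741934989004400230400, .ofNat 0, .ofNat 0, .ofNat 0, .ofNat 0, .ofNat 0, .ofNat 0, .ofNat 0, .ofNat 101780949731594581358167181120102911726059520,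 .ofNat 0⟩)
    (by decide +kernel)
theorem L02085 : Good (Phi V5.P V5.D 1 (-1)) ⟨3, 3, 3, 4, 4, 14, 3, 0, 5, 4⟩ :=
  leafYS_sound T5.ok_pm T5.Ypm.bz_eq (w := 243) (c := ⟨⟨.negSucc 1762, .negSucc 134, .negSucc 197, .negSucc 25, .ofNat 166, .negSucc 233⟩, ⟨.ofNat 1066, .ofNat 36, .ofNat 195, .ofNat 111, .negSucc 206, .ofNat 71⟩, ⟨.negSucc 901, .negSucc 81, .negSucc 6, .ofNat 6, .ofNat 553, .ofNat 398⟩, ⟨.negSucc 1880, .negSucc 114, .ofNat 631, .ofNat 884, .negSucc 842, .negSucc 732⟩, ⟨.ofNat 5746, .ofNat 566, .ofNat 1087, .ofNat 2115, .negSucc 2768, .negSucc 490⟩, .ofNat 678, .ofNat 533, .ofNat 0, .ofNat 533, .ofNat 1531, .ofNat 0, .ofNat 128, .negSucc 203, .negSucc 98, .ofNat 0, .ofNat 185, .ofNat 35, .ofNat 0, .ofNat 0, .ofNat 319, .ofNat 6091, .ofNat 0, .ofNat 0, .ofNat 42645499546356361965452868937386240320552828928, .ofNat 0, .ofNat 0, .ofNat 0, .ofNat 452346348768932830797559569709101277395782991872,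 .ofNat 0, .ofNat 0, .ofNat 0, .ofNat 1148375746920661480723299775726848629900968984576, .ofNat 0, .ofNat 1740596417517323081527673806147918638914989981696, .ofNat 0, .ofNat 531391534420374610397563439285337106522117767168, .ofNat 0⟩)
    (by decide +kernel)
theorem L02086 : Good (Phi V5.P V5.D 1 (-1)) ⟨4, 6, 3, 4, 4, 15, 3, 0, 5, 4⟩ :=
  leafYS_sound T5.ok_pm T5.Ypm.bz_eq (w := 248) (c := ⟨⟨.negSucc 1881, .ofNat 23, .negSucc 214, .negSucc 73, .ofNat 147, .negSucc 141⟩, ⟨.ofNat 1221, .ofNat 23, .ofNat 236, .ofNat 132, .negSucc 278, .ofNat 38⟩, ⟨.negSucc 897, .negSucc 189, .negSucc 100, .negSucc 68, .ofNat 797, .ofNat 375⟩, ⟨.negSucc 876, .ofNat 313, .ofNat 1236, .ofNat 679, .negSucc 1797, .negSucc 647⟩, ⟨.ofNat 8417, .ofNat 842, .ofNat 2161, .ofNat 1931, .negSucc 4633, .negSucc 638⟩, .ofNat 1710, .ofNat 2416, .ofNat 0, .ofNat 2416, .ofNat 5352, .ofNat 0, .ofNat 128, .negSucc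 182, .negSucc 170, .ofNat 0, .ofNat 131, .ofNat 56, .ofNat 0, .ofNat 0, .ofNat 580, .ofNat 5402, .ofNat 0, .ofNat 0, .ofNat 16604602993913522326436216342793995161010438144, .ofNat 0, .ofNat 0, .ofNat 0, .ofNat 0, .ofNat 0, .ofNat 0, .ofNat 0, .ofNat 0, .ofNat 0, .ofNat 0, .ofNat 0, .ofNat 435530857565765557689630661524858964080251109376, .ofNat 0⟩)
    (by decide +kernel)
theorem L02087 : Good (Phi V5.P V5.D 1 (-1)) ⟨4, 7, 3, 4, 4, 15, 3, 0, 5, 4⟩ :=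
  leafYS_sound T5.ok_pm T5.Ypm.bz_eq (w := 248) (c := ⟨⟨.negSucc 1827, .ofNat 36, .negSucc 180, .ofNat 12, .ofNat 50, .negSucc 209⟩, ⟨.ofNat 1262, .ofNat 26, .ofNat 195, .ofNat 144, .negSucc 288, .ofNat 22⟩, ⟨.negSucc 1205, .negSucc 117, .ofNat 22, .negSucc 230, .ofNat 961, .ofNat 483⟩, ⟨.negSucc 709, .ofNat 54, .ofNat 751, .ofNat 991, .negSucc 1616, .negSucc 785⟩, ⟨.ofNat 9144, .ofNat 301, .ofNat 1002, .ofNat 2448, .negSucc 4431, .negSucc 860⟩, .ofNat 1103, .ofNat 1365, .ofNat 0, .ofNat 1365, .ofNat 3554, .ofNat 0, .ofNat 128, .negSucc 233, .negSucc 231, .ofNat 0, .ofNat 178, .ofNat 59, .ofNat 0, .ofNat 0, .ofNat 736, .ofNat 4132, .ofNat 0, .ofNat 0, .ofNat 18464668606767255445228461594592006907327676416, .ofNat 0, .ofNat 0, .ofNat 0, .ofNat 302686838060350965733197687829696002448552886272, .ofNat 0, .ofNat 0, .ofNat 0, .ofNat 362924936871048749048087127814538566899419054080,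 .ofNat 0, .ofNat 0, .ofNat 0, .ofNat 947048495783660170273479908145560383772367519744, .ofNat 0⟩)
    (by decide +kernel)
theorem L02088 : Good (Phi V5.P V5.D 1 (-1)) ⟨3, 3, 3, 5, 3, 7, 3, 0, 5, 4⟩ :=
  out_sound (S := T5.ds_pm) T5.ok_pm (w := 45) (j := 3) (by decide +kernel)
theorem L02089 : Good (Phi V5.P V5.D 1 (-1)) ⟨3, 2, 3, 4, 2, 3, 5, 0, 5, 5⟩ :=
  leafYS_sound T5.ok_pm T5.Ypm.bz_eq (w := 225) (c := ⟨⟨.negSucc 1615, .negSucc 132, .negSucc 192, .negSucc 339, .ofNat 23, .ofNat 73⟩, ⟨.ofNat 869, .negSucc 11, .ofNat 196, .ofNat 489, .negSucc 36, .negSucc 93⟩, ⟨.negSucc 369, .negSucc 35, .ofNat 20, .negSucc 82, .ofNat 125, .ofNat 292⟩, ⟨.negSucc 3900, .ofNat 426, .ofNat 917, .ofNat 2403, .negSucc 521, .negSucc 440⟩, ⟨.ofNat 1041, .ofNat 1222, .ofNat 1534, .ofNat 6606, .negSucc 1084, .negSucc 1273⟩, .ofNat 2134, .ofNat 2842, .ofNat 0, .ofNat 2842, .ofNat 5464, .ofNat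 0, .ofNat 128, .negSucc 190, .negSucc 90, .ofNat 0, .ofNat 139, .ofNat 49, .ofNat 0, .ofNat 0, .ofNat 461, .ofNat 28158, .ofNat 6170911521748686105242198027503213926091325440, .ofNat 0, .ofNat 0, .ofNat 0, .ofNat 0, .ofNat 0, .ofNat 0, .ofNat 0, .ofNat 13432263020777118241159194234346540593273896960, .ofNat 0, .ofNat 0, .ofNat 0, .ofNat 0, .ofNat 0, .ofNat 0, .ofNat 0⟩)
    (by decide +kernel)
theorem L02090 : Good (Phi V5.P V5.D 1 (-1)) ⟨3, 2, 3, 4, 2, 3, 5, 1, 5, 5⟩ :=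
  leafYS_sound T5.ok_pm T5.Ypm.bz_eq (w := 224) (c := ⟨⟨.negSucc 1594, .negSucc 166, .negSucc 172, .negSucc 308, .ofNat 28, .ofNat 26⟩, ⟨.ofNat 878, .ofNat 9, .ofNat 205, .ofNat 373, .negSucc 30, .negSucc 34⟩, ⟨.negSucc 306, .negSucc 35, .ofNat 6, .ofNat 113, .ofNat 113, .ofNat 224⟩, ⟨.negSucc 4185, .ofNat 127, .ofNat 601, .ofNat 2298, .negSucc 52, .negSucc 349⟩, ⟨.ofNat 639, .ofNat 766, .ofNat 1082, .ofNat 5838, .negSucc 310, .negSucc 768⟩, .ofNat 1483, .ofNat 1730, .ofNat 0, .ofNat 1730, .ofNat 3495, .ofNat 0, .ofNat 128, .negSucc 198, .negSucc 74, .ofNat 0, .ofNat 155, .ofNat 37, .ofNat 0, .ofNat 0, .ofNat 372, .ofNat 18173, .ofNat 203627473892437253388292602865799117884358656, .ofNat 0, .ofNat 0, .ofNat 0, .ofNat 0, .ofNat 0, .ofNat 0, .ofNat 0, .ofNat 0, .ofNat 0, .ofNat 0, .ofNat 0, .ofNat 0, .ofNat 0, .ofNat 0, .ofNat 0⟩)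
    (by decide +kernel)
theorem L02091 : Good (Phi V5.P V5.D 1 (-1)) ⟨3, 2, 3, 4, 2, 3, 4, 1, 5, 5⟩ :=
  leafYS_sound T5.ok_pm T5.Ypm.bz_eq (w := 219) (c := ⟨⟨.negSucc 1534, .negSucc 210, .negSucc 129, .negSucc 302, .ofNat 47, .negSucc 24⟩, ⟨.ofNat 836, .ofNat 20, .ofNat 201, .ofNat 343, .negSucc 52, .negSucc 1⟩, ⟨.negSucc 221, .ofNat 12, .negSucc 11, .ofNat 150, .ofNat 166, .ofNat 233⟩, ⟨.negSucc 3938, .ofNat 120, .ofNat 337, .ofNat 1608, .negSucc 161, .negSucc 269⟩, ⟨.ofNat 680, .ofNat 753, .ofNat 687, .ofNat 4647, .negSucc 586, .negSucc 383⟩, .ofNat 1747, .ofNat 2202, .ofNat 0, .ofNat 2202, .ofNat 4392, .ofNat 0, .ofNat 128, .negSucc 186, .negSucc 75, .ofNat 0, .ofNat 137, .ofNat 39, .ofNat 0, .ofNat 0, .ofNat 344, .ofNat 7689, .ofNat 0, .ofNat 0, .ofNat 0, .ofNat 0, .ofNat 0, .ofNat 0, .ofNat 0, .ofNat 0, .ofNat 0, .ofNat 0, .ofNat 0, .ofNat 0, .ofNat 0, .ofNat 0,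 .ofNat 0, .ofNat 0⟩)
    (by decide +kernel)
theorem L02092 : Good (Phi V5.P V5.D 1 (-1)) ⟨3, 2, 3, 5, 3, 6, 4, 0, 5, 5⟩ :=
  leafYS_sound T5.ok_pm T5.Ypm.bz_eq (w := 236) (c := ⟨⟨.negSucc 1728, .negSucc 229, .negSucc 119, .negSucc 183, .ofNat 94, .negSucc 24⟩, ⟨.ofNat 1098, .ofNat 32, .ofNat 195, .ofNat 153, .negSucc 61, .ofNat 5⟩, ⟨.negSucc 412, .negSucc 57, .negSucc 53, .negSucc 1, .ofNat 234, .ofNat 254⟩, ⟨.negSucc 3669, .ofNat 89, .negSucc 35, .ofNat 897, .negSucc 150, .negSucc 282⟩, ⟨.ofNat 1725, .ofNat 632, .ofNat 63, .ofNat 2351, .negSucc 614, .negSucc 387⟩, .ofNat 3801, .ofNat 5381, .ofNat 0, .ofNat 5381, .ofNat 9213, .ofNat 0, .ofNat 128, .negSucc 256, .negSucc 58, .ofNat 0, .ofNat 173, .ofNat 36, .ofNat 0, .ofNat 0, .ofNat 295, .ofNat 91458, .ofNat 1367098871407199171891980581927108842357105098752, .ofNat 0, .ofNat 117274286113110141131623096442815121599758336,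 .ofNat 0, .ofNat 13064036598480976026318381419557436332419672178688, .ofNat 0, .ofNat 6694084641859543372508361150552613636267835392, .ofNat 0, .ofNat 8914311500418843366676786304890080450240353140736, .ofNat 0, .ofNat 594872867266735792433429254414365993736339456, .ofNat 0, .ofNat 3537064660900127605431833784497570308621886029824, .ofNat 0, .ofNat 413247624727712164132179740164751242492379136, .ofNat 0⟩)
    (by decide +kernel)
theorem L02093 : Good (Phi V5.P V5.D 1 (-1)) ⟨3, 2, 3, 5, 3, 6, 4, 1, 5, 5⟩ :=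
  leafYS_sound T5.ok_pm T5.Ypm.bz_eq (w := 235) (c := ⟨⟨.negSucc 1619, .negSucc 239, .negSucc 90, .negSucc 189, .ofNat 82, .negSucc 66⟩, ⟨.ofNat 1029, .ofNat 36, .ofNat 185, .ofNat 145, .negSucc 55, .ofNat 36⟩, ⟨.negSucc 200, .negSucc 24, .negSucc 30, .ofNat 3, .ofNat 182, .ofNat 251⟩, ⟨.negSucc 3702, .negSucc 66, .negSucc 47, .ofNat 844, .ofNat 20, .negSucc 389⟩, ⟨.ofNat 1239, .ofNat 394, .ofNat 18, .ofNat 2211, .negSucc 325, .negSucc 356⟩, .ofNat 2170, .ofNat 2738, .ofNat 0, .ofNat 2738, .ofNat 4863, .ofNat 0, .ofNat 128, .negSucc 176, .negSucc 53, .ofNat 0, .ofNat 126, .ofNat 33, .ofNat 0, .ofNat 0, .ofNat 248, .ofNat 24486, .ofNat 0, .ofNat 0, .ofNat 55618732722382285463004287382150023294746624, .ofNat 0, .ofNat 0, .ofNat 0, .ofNat 0, .ofNat 0, .ofNat 0, .ofNat 0, .ofNat 340649698864040416657606788289560023140401152, .ofNat 0, .ofNat 0, .ofNat 0, .ofNat 0, .ofNat 0⟩)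
    (by decide +kernel)
theorem L02094 : Good (Phi V5.P V5.D 1 (-1)) ⟨3, 2, 3, 5, 3, 7, 3, 0, 5, 5⟩ :=
  leafYS_sound T5.ok_pm T5.Ypm.bz_eq (w := 231) (c := ⟨⟨.negSucc 1934, .negSucc 147, .negSucc 127, .negSucc 225, .ofNat 116, .ofNat 41⟩, ⟨.ofNat 1276, .ofNat 5, .ofNat 141, .ofNat 190, .negSucc 111, .negSucc 33⟩, ⟨.negSucc 412, .negSucc 17, .negSucc 7, .ofNat 276, .ofNat 407, .ofNat 222⟩, ⟨.negSucc 1832, .ofNat 144, .ofNat 275, .ofNat 1147, .negSucc 990, .negSucc 509⟩, ⟨.ofNat 5618, .ofNat 713, .ofNat 189, .ofNat 2967, .negSucc 2223, .negSucc 1001⟩, .ofNat 3885, .ofNat 5505, .ofNat 0, .ofNat 5505, .ofNat 9394, .ofNat 0, .ofNat 128, .negSucc 272, .negSucc 102, .ofNat 0, .ofNat 190, .ofNat 57, .ofNat 0, .ofNat 0, .ofNat 493, .ofNat 8431, .ofNat 0, .ofNat 0, .ofNat 5021858129118605603052329578977666036400128, .ofNat 0, .ofNat 0, .ofNat 0, .ofNat 0, .ofNat 0, .ofNat 0, .ofNat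 0, .ofNat 0, .ofNat 0, .ofNat 0, .ofNat 0, .ofNat 107363331785401934967343698116705954379595776, .ofNat 0⟩)
    (by decide +kernel)
theorem L02095 : Good (Phi V5.P V5.D 1 (-1)) ⟨3, 3, 2, 2, 3, 6, 5, 0, 5, 5⟩ :=
  leafYS_sound T5.ok_pm T5.Ypm.bz_eq (w := 238) (c := ⟨⟨.negSucc 1895, .negSucc 169, .negSucc 323, .negSucc 47, .ofNat 37, .ofNat 4⟩, ⟨.ofNat 836, .ofNat 8, .ofNat 458, .ofNat 212, .ofNat 3, .negSucc 50⟩, ⟨.negSucc 555, .negSucc 102, .negSucc 131, .ofNat 80, .ofNat 153, .ofNat 306⟩, ⟨.negSucc 4060, .ofNat 104, .ofNat 890, .ofNat 1451, .negSucc 348, .negSucc 360⟩, ⟨.ofNat 1061, .ofNat 758, .ofNat 1837, .ofNat 3623, .negSucc 568, .negSucc 875⟩, .ofNat 675, .ofNat 530, .ofNat 0, .ofNat 530, .ofNat 1529, .ofNat 0, .ofNat 183, .negSucc 127, .negSucc 50, .ofNat 0, .ofNat 119, .ofNat 23, .ofNat 0, .ofNat 0, .ofNat 222, .ofNat 196273, .ofNat 14459776638428680071666806664659848598033981767680,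 .ofNat 0, .ofNat 1686996327721427513114407907563692912539598848, .ofNat 0, .ofNat 61978102296226418029320643701160776538789297258496, .ofNat 0, .ofNat 4497480203251055749144998165745767006452318208, .ofNat 0, .ofNat 22744692235396387657873500489132963860521362128896, .ofNat 0, .ofNat 4246145747399906530195983161786336989665034240, .ofNat 0, .ofNat 2287660961902015920842349086241686174227633274880, .ofNat 0, .ofNat 1738959863955784880642041822907586403964551168, .ofNat 0⟩)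
    (by decide +kernel)
theorem L02096 : Good (Phi V5.P V5.D 1 (-1)) ⟨3, 3, 2, 2, 3, 6, 5, 1, 5, 5⟩ :=
  leafYS_sound T5.ok_pm T5.Ypm.bz_eq (w := 236) (c := ⟨⟨.negSucc 1816, .negSucc 208, .negSucc 264, .negSucc 82, .ofNat 2, .negSucc 2⟩, ⟨.ofNat 871, .negSucc 19, .ofNat 456, .ofNat 163, .negSucc 17, .negSucc 16⟩, ⟨.negSucc 379, .negSucc 48, .negSucc 38, .ofNat 29, .ofNat 127, .ofNat 282⟩, ⟨.negSucc 3935, .negSucc 1, .ofNat 496, .ofNat 967, .negSucc 50, .negSucc 297⟩, ⟨.ofNat 1350, .ofNat 467, .ofNat 1281, .ofNat 2620, .negSucc 193, .negSucc 561⟩, .ofNat 675, .ofNat 529, .ofNat 0, .ofNat 529, .ofNat 1529, .ofNat 0, .ofNat 131, .negSucc 127, .negSucc 27, .ofNat 0, .ofNat 114, .ofNat 14, .ofNat 0, .ofNat 0, .ofNat 131, .ofNat 27990, .ofNat 0, .ofNat 0, .ofNat 259109392966210900337874756625668392555118592, .ofNat 0, .ofNat 0, .ofNat 0, .ofNat 3139849065810120593116445426303850395279032320,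 .ofNat 0, .ofNat 0, .ofNat 0, .ofNat 4676413904933358714256687366327231834652409856, .ofNat 0, .ofNat 0, .ofNat 0, .ofNat 676003150857328039554710630604480813432045568, .ofNat 0⟩)
    (by decide +kernel)
theorem L02097 : Good (Phi V5.P V5.D 1 (-1)) ⟨4, 6, 3, 4, 3, 6, 4, 1, 5, 5⟩ :=
  leafYS_sound T5.ok_pm T5.Ypm.bz_eq (w := 238) (c := ⟨⟨.negSucc 1766, .negSucc 110, .negSucc 130, .negSucc 106, .ofNat 29, .negSucc 35⟩, ⟨.ofNat 847, .negSucc 4, .ofNat 231, .ofNat 158, .negSucc 30, .negSucc 9⟩, ⟨.negSucc 240, .negSucc 6, .negSucc 10, .ofNat 17, .ofNat 211, .ofNat 270⟩, ⟨.negSucc 3853, .negSucc 4, .ofNat 139, .ofNat 758, .negSucc 74, .negSucc 334⟩, ⟨.ofNat 1288, .ofNat 259, .ofNat 509, .ofNat 2281, .negSucc 346, .negSucc 538⟩, .ofNat 900, .ofNat 897, .ofNat 0, .ofNat 897, .ofNat 2274, .ofNat 0, .ofNat 128, .negSucc 149, .negSucc 34, .ofNat 0, .ofNat 117, .ofNat 18, .ofNat 0,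 .ofNat 0, .ofNat 154, .ofNat 21173, .ofNat 0, .ofNat 0, .ofNat 12326113997757035876489453254980022071984128, .ofNat 0, .ofNat 0, .ofNat 0, .ofNat 0, .ofNat 0, .ofNat 0, .ofNat 0, .ofNat 227357076756206345392383068638259923390562304, .ofNat 0, .ofNat 0, .ofNat 0, .ofNat 15105129154039631530083703208739143927463936, .ofNat 0⟩)
    (by decide +kernel)
theorem L02098 : Good (Phi V5.P V5.D 1 (-1)) ⟨4, 7, 3, 4, 3, 6, 4, 1, 5, 5⟩ :=
  leafYS_sound T5.ok_pm T5.Ypm.bz_eq (w := 238) (c := ⟨⟨.negSucc 1897, .negSucc 120, .negSucc 118, .negSucc 71, .ofNat 16, .negSucc 40⟩, ⟨.ofNat 836, .negSucc 6, .ofNat 228, .ofNat 168, .negSucc 28, .negSucc 7⟩, ⟨.negSucc 271, .negSucc 7, .negSucc 30, .ofNat 38, .ofNat 234, .ofNat 267⟩, ⟨.negSucc 3886, .negSucc 20, .ofNat 96, .ofNat 710, .negSucc 100, .negSucc 241⟩, ⟨.ofNat 1469, .ofNat 240, .ofNat 378, .ofNat 2259, .negSucc 361, .negSucc 378⟩, .ofNat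 966, .ofNat 1070, .ofNat 0, .ofNat 1070, .ofNat 2736, .ofNat 0, .ofNat 176, .negSucc 130, .negSucc 29, .ofNat 0, .ofNat 97, .ofNat 15, .ofNat 0, .ofNat 0, .ofNat 128, .ofNat 19302, .ofNat 0, .ofNat 0, .ofNat 19997835783083003979330876575733425639522304, .ofNat 0, .ofNat 0, .ofNat 0, .ofNat 339070218927223271070258357465099697091772416, .ofNat 0, .ofNat 0, .ofNat 0, .ofNat 223659968986203602593321472245433771396956160, .ofNat 0, .ofNat 0, .ofNat 0, .ofNat 21005764780067885354139961137741299149963264, .ofNat 0⟩)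
    (by decide +kernel)
theorem L02099 : Good (Phi V5.P V5.D 1 (-1)) ⟨3, 3, 3, 5, 3, 6, 4, 1, 5, 5⟩ :=
  out_sound (S := T5.ds_pm) T5.ok_pm (w := 45) (j := 3) (by decide +kernel)
theorem L02100 : Good (Phi V5.P V5.D 1 (-1)) ⟨3, 3, 3, 4, 3, 7, 3, 0, 5, 5⟩ :=
  leafYS_sound T5.ok_pm T5.Ypm.bz_eq (w := 229) (c := ⟨⟨.negSucc 1907, .negSucc 116, .negSucc 168, .negSucc 28, .ofNat 3, .negSucc 2⟩, ⟨.ofNat 1080, .ofNat 31, .ofNat 229, .ofNat 179, .negSucc 124, .negSucc 43⟩, ⟨.negSucc 488, .negSucc 72, .negSucc 8, .ofNat 37, .ofNat 550, .ofNat 274⟩, ⟨.negSucc 2531, .ofNat 172, .ofNat 618, .ofNat 1147, .negSucc 932, .negSucc 394⟩, ⟨.ofNat 5011, .ofNat 942, .ofNat 1136, .ofNat 2954, .negSucc 2253, .negSucc 891⟩, .ofNat 1038, .ofNat 1173, .ofNat 0, .ofNat 1173, .ofNat 2924, .ofNat 0, .ofNat 128, .negSucc 144, .negSucc 119, .ofNat 0, .ofNat 118, .ofNat 40, .ofNat 0, .ofNat 0, .ofNat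 509, .ofNat 3087, .ofNat 0, .ofNat 0, .ofNat 1690028275441643035469950666943214821310464, .ofNat 0, .ofNat 0, .ofNat 0, .ofNat 46432830232541180830769882447269695865225216, .ofNat 0, .ofNat 0, .ofNat 0, .ofNat 28365485983994723038399582373864876558778368, .ofNat 0, .ofNat 0, .ofNat 0, .ofNat 61141916802347955855638930864009182758043648, .ofNat 0⟩)
    (by decide +kernel)
theorem L02101 : Good (Phi V5.P V5.D 1 (-1)) ⟨3, 3, 3, 5, 3, 7, 3, 0, 5, 5⟩ :=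
  out_sound (S := T5.ds_pm) T5.ok_pm (w := 45) (j := 3) (by decide +kernel)
theorem L02102 : Good (Phi V5.P V5.D 1 (-1)) ⟨3, 2, 3, 4, 3, 6, 3, 0, 4, 3⟩ :=
  leafYS_sound T5.ok_pm T5.Ypm.bz_eq (w := 225) (c := ⟨⟨.negSucc 1633, .negSucc 203, .negSucc 80, .negSucc 90, .ofNat 33, .ofNat 135⟩, ⟨.ofNat 885, .ofNat 14, .ofNat 202, .ofNat 102, .negSucc 41, .negSucc 92⟩, ⟨.negSucc 83, .negSucc 2, .negSucc 22, .negSucc 2, .ofNat 332, .ofNat 299⟩, ⟨.negSucc 4052, .ofNat 58, .ofNat 94, .ofNat 432, .negSucc 78, .ofNat 1⟩, ⟨.ofNat 963, .ofNat 431, .ofNat 311, .ofNat 1320, .negSucc 400, .negSucc 656⟩, .ofNat 1796, .ofNat 2275, .ofNat 0, .ofNat 2275, .ofNat 4489, .ofNat 0, .ofNat 128, .negSucc 133, .negSucc 30, .ofNat 0, .ofNat 98, .ofNat 18, .ofNat 0, .ofNat 0, .ofNat 227, .ofNat 16190, .ofNat 0, .ofNat 0, .ofNat 0, .ofNat 0, .ofNat 0, .ofNat 0, .ofNat 0, .ofNat 0, .ofNat 20625919933198205832352795686454840792446926848,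 .ofNat 0, .ofNat 0, .ofNat 0, .ofNat 18364804546311415180583950235540131568131506176, .ofNat 0, .ofNat 0, .ofNat 0⟩)
    (by decide +kernel)
theorem L02103 : Good (Phi V5.P V5.D 1 (-1)) ⟨3, 2, 3, 5, 3, 6, 3, 0, 4, 3⟩ :=
  leafYS_sound T5.ok_pm T5.Ypm.bz_eq (w := 226) (c := ⟨⟨.negSucc 1737, .negSucc 181, .negSucc 35, .negSucc 110, .ofNat 42, .ofNat 155⟩, ⟨.ofNat 1098, .ofNat 1, .ofNat 164, .ofNat 92, .negSucc 31, .negSucc 102⟩, ⟨.negSucc 101, .negSucc 0, .negSucc 15, .negSucc 16, .ofNat 341, .ofNat 296⟩, ⟨.negSucc 3977, .ofNat 104, .negSucc 52, .ofNat 649, .negSucc 143, .negSucc 38⟩, ⟨.ofNat 1270, .ofNat 418, .negSucc 189, .ofNat 1602, .negSucc 412, .negSucc 735⟩, .ofNat 2926, .ofNat 3859, .ofNat 0, .ofNat 3859, .ofNat 6472, .ofNat 0, .ofNat 128, .negSucc 329, .negSucc 50, .ofNat 0, .ofNat 233, .ofNat 32, .ofNat 0, .ofNat 0, .ofNat 384, .ofNat 30153, .ofNat 164812424408460840795757306874573536286998528,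 .ofNat 0, .ofNat 132883071249590284252295009461741721485312, .ofNat 0, .ofNat 0, .ofNat 0, .ofNat 0, .ofNat 0, .ofNat 0, .ofNat 0, .ofNat 9276355406434821287008754768955302396035072, .ofNat 0, .ofNat 63936305734307420949330050830223078923037573120, .ofNat 0, .ofNat 1381579405419583622652152263511599579398144, .ofNat 0⟩)
    (by decide +kernel)
theorem L02104 : Good (Phi V5.P V5.D 1 (-1)) ⟨3, 2, 2, 2, 3, 7, 3, 0, 4, 3⟩ :=
  leafYS_sound T5.ok_pm T5.Ypm.bz_eq (w := 221) (c := ⟨⟨.negSucc 1730, .negSucc 171, .negSucc 279, .negSucc 82, .ofNat 9, .ofNat 216⟩, ⟨.ofNat 1028, .ofNat 10, .ofNat 387, .ofNat 134, .negSucc 47, .negSucc 162⟩, ⟨.negSucc 135, .ofNat 13, .ofNat 33, .ofNat 92, .ofNat 384, .ofNat 282⟩, ⟨.negSucc 3162, .ofNat 334, .ofNat 613, .ofNat 728, .negSucc 610, .negSucc 90⟩, ⟨.ofNat 3135, .ofNat 1042, .ofNat 1162, .ofNat 1987, .negSucc 1256, .negSucc 1279⟩, .ofNat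 2075, .ofNat 2753, .ofNat 0, .ofNat 2753, .ofNat 5335, .ofNat 0, .ofNat 128, .negSucc 170, .negSucc 50, .ofNat 0, .ofNat 133, .ofNat 21, .ofNat 0, .ofNat 0, .ofNat 437, .ofNat 5765, .ofNat 0, .ofNat 0, .ofNat 0, .ofNat 0, .ofNat 0, .ofNat 0, .ofNat 0, .ofNat 0, .ofNat 0, .ofNat 0, .ofNat 247519999139829547155207000993738667327488, .ofNat 0, .ofNat 0, .ofNat 0, .ofNat 597158431557108203916794901885160643362816, .ofNat 0⟩)
    (by decide +kernel)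
theorem L02105 : Good (Phi V5.P V5.D 1 (-1)) ⟨4, 6, 3, 4, 3, 6, 3, 0, 4, 3⟩ :=
  leafYS_sound T5.ok_pm T5.Ypm.bz_eq (w := 229) (c := ⟨⟨.negSucc 1852, .negSucc 97, .negSucc 77, .negSucc 59, .ofNat 16, .ofNat 151⟩, ⟨.ofNat 894, .negSucc 18, .ofNat 206, .ofNat 102, .negSucc 34, .negSucc 104⟩, ⟨.negSucc 140, .negSucc 3, .negSucc 21, .negSucc 2, .ofNat 394, .ofNat 308⟩, ⟨.negSucc 3913, .ofNat 83, .ofNat 98, .ofNat 499, .negSucc 245, .negSucc 5⟩, ⟨.ofNat 1547, .ofNat 279, .ofNat 297, .ofNat 1459, .negSucc 585, .negSucc 813⟩, .ofNat 1817, .ofNat 2597, .ofNat 0, .ofNat 2597, .ofNat 5645, .ofNat 0, .ofNat 144, .negSucc 127, .negSucc 29, .ofNat 0, .ofNat 90, .ofNat 15, .ofNat 0, .ofNat 0, .ofNat 202, .ofNat 15627, .ofNat 0, .ofNat 0, .ofNat 17810415684298378146246008211725755613184, .ofNat 0, .ofNat 816002487541953177420918560503241719517745774592, .ofNat 0, .ofNat 0, .ofNat 0,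 .ofNat 281935544831398316319241755377231094951320748032, .ofNat 0, .ofNat 213230507679454010373228492989575032995840, .ofNat 0, .ofNat 189778791322157691033039902944591060334664482816, .ofNat 0, .ofNat 43548783937668903288407364871747813769216, .ofNat 0⟩)
    (by decide +kernel)
theorem L02106 : Good (Phi V5.P V5.D 1 (-1)) ⟨4, 7, 3, 4, 3, 6, 3, 0, 4, 3⟩ :=
  leafYS_sound T5.ok_pm T5.Ypm.bz_eq (w := 229) (c := ⟨⟨.negSucc 1945, .negSucc 107, .negSucc 101, .negSucc 14, .negSucc 37, .ofNat 173⟩, ⟨.ofNat 855, .negSucc 19, .ofNat 224, .ofNat 112, .negSucc 12, .negSucc 114⟩, ⟨.negSucc 204, .ofNat 11, .ofNat 1, .ofNat 31, .ofNat 433, .ofNat 307⟩, ⟨.negSucc 3978, .ofNat 5, .ofNat 116, .ofNat 615, .negSucc 265, .ofNat 89⟩, ⟨.ofNat 1504, .ofNat 186, .ofNat 405, .ofNat 1682, .negSucc 459, .negSucc 782⟩, .ofNat 1003, .ofNat 1171, .ofNat 0, .ofNat 1171, .ofNat 3142, .ofNat 0, .ofNat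 128, .negSucc 130, .negSucc 27, .ofNat 0, .ofNat 103, .ofNat 13, .ofNat 0, .ofNat 0, .ofNat 190, .ofNat 15044, .ofNat 0, .ofNat 0, .ofNat 29625385749067752330278861290228783513600, .ofNat 0, .ofNat 24605081053390605805326638819985762033944494080, .ofNat 0, .ofNat 1368563197544352102086583454834209945812992, .ofNat 0, .ofNat 615125999213625165463236103027795943079484063744, .ofNat 0, .ofNat 583774169637014800240088793439986193006592, .ofNat 0, .ofNat 140832117411070667104516656498878754442155393024, .ofNat 0, .ofNat 186643443078535620518488805975559029915648, .ofNat 0⟩)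
    (by decide +kernel)
theorem L02107 : Good (Phi V5.P V5.D 1 (-1)) ⟨3, 3, 3, 4, 3, 7, 3, 0, 4, 3⟩ :=
  leafYS_sound T5.ok_pm T5.Ypm.bz_eq (w := 224) (c := ⟨⟨.negSucc 1895, .negSucc 138, .negSucc 123, .ofNat 0, .negSucc 47, .ofNat 207⟩, ⟨.ofNat 1017, .negSucc 2, .ofNat 214, .ofNat 122, .negSucc 41, .negSucc 161⟩, ⟨.negSucc 160, .ofNat 4, .negSucc 5, .ofNat 105, .ofNat 431, .ofNat 300⟩, ⟨.negSucc 3064, .ofNat 155, .ofNat 458, .ofNat 916, .negSucc 601, .negSucc 100⟩, ⟨.ofNat 3733, .ofNat 727, .ofNat 875, .ofNat 2192, .negSucc 1159, .negSucc 1389⟩, .ofNat 1017, .ofNat 1139, .ofNat 0, .ofNat 1139, .ofNat 2886, .ofNat 0, .ofNat 149, .negSucc 127, .negSucc 51, .ofNat 0, .ofNat 112, .ofNat 14, .ofNat 0, .ofNat 0, .ofNat 393, .ofNat 3428, .ofNat 0, .ofNat 0, .ofNat 51584592644503274057179646584203272781824, .ofNat 0, .ofNat 0, .ofNat 0, .ofNat 1982793095644382729517727562270542760247296,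 .ofNat 0, .ofNat 0, .ofNat 0, .ofNat 1184979231077632882268554635574165316304896, .ofNat 0, .ofNat 0, .ofNat 0, .ofNat 1289032797471575212864524071840173520846848, .ofNat 0⟩)
    (by decide +kernel)
theorem L02108 : Good (Phi V5.P V5.D 1 (-1)) ⟨3, 3, 3, 5, 2, 3, 3, 0, 4, 3⟩ :=
  out_sound (S := T5.ds_pm) T5.ok_pm (w := 45) (j := 3) (by decide +kernel)
theorem L02109 : Good (Phi V5.P V5.D 1 (-1)) ⟨2, 1, 2, 2, 3, 6, 3, 1, 5, 4⟩ :=
  leafYS_sound T5.ok_pm T5.Ypm.bz_eq (w := 221) (c := ⟨⟨.negSucc 1132, .negSucc 533, .negSucc 133, .negSucc 156, .ofNat 145, .negSucc 336⟩, ⟨.ofNat 645, .ofNat 71, .ofNat 329, .ofNat 154, .negSucc 118, .ofNat 154⟩, ⟨.negSucc 443, .ofNat 74, .ofNat 22, .ofNat 6, .ofNat 321, .ofNat 382⟩, ⟨.negSucc 2745, .negSucc 331, .ofNat 386, .ofNat 481, .negSucc 8, .negSucc 946⟩, ⟨.ofNat 922, .ofNat 890, .ofNat 703, .ofNat 1842, .negSucc 837, .negSucc 223⟩, .ofNat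 741, .ofNat 601, .ofNat 0, .ofNat 601, .ofNat 1572, .ofNat 0, .ofNat 128, .negSucc 162, .negSucc 59, .ofNat 0, .ofNat 133, .ofNat 31, .ofNat 0, .ofNat 0, .ofNat 179, .ofNat 4090, .ofNat 0, .ofNat 0, .ofNat 3424790270156791353776273049768400894558208, .ofNat 0, .ofNat 0, .ofNat 0, .ofNat 0, .ofNat 0, .ofNat 0, .ofNat 0, .ofNat 67367381513128747818885395150745529604898816, .ofNat 0, .ofNat 0, .ofNat 0, .ofNat 6952714804919085131303317439380862640586752, .ofNat 0⟩)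
    (by decide +kernel)
theorem L02110 : Good (Phi V5.P V5.D 1 (-1)) ⟨2, 1, 2, 2, 3, 6, 3, 1, 5, 5⟩ :=
  leafYS_sound T5.ok_pm T5.Ypm.bz_eq (w := 222) (c := ⟨⟨.negSucc 1443, .negSucc 524, .negSucc 122, .negSucc 142, .ofNat 85, .negSucc 103⟩, ⟨.ofNat 781, .ofNat 29, .ofNat 367, .ofNat 146, .negSucc 64, .ofNat 37⟩, ⟨.negSucc 61, .ofNat 93, .negSucc 18, .ofNat 29, .ofNat 305, .ofNat 239⟩, ⟨.negSucc 3643, .negSucc 203, .ofNat 269, .ofNat 399, .negSucc 64, .negSucc 355⟩, ⟨.ofNat 740, .ofNat 778, .ofNat 560, .ofNat 1616, .negSucc 545, .negSucc 236⟩, .ofNat 742, .ofNat 608, .ofNat 0, .ofNat 608, .ofNat 1583, .ofNat 0, .ofNat 150, .negSucc 127, .negSucc 35, .ofNat 0, .ofNat 109, .ofNat 19, .ofNat 0, .ofNat 0, .ofNat 138, .ofNat 4734, .ofNat 0, .ofNat 0, .ofNat 3722182178696450671002559268610754828304384, .ofNat 0, .ofNat 0, .ofNat 0, .ofNat 0, .ofNat 0, .ofNat 0, .ofNat 0, .ofNat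 41145600877774943689537455395000896983138304, .ofNat 0, .ofNat 0, .ofNat 0, .ofNat 6356271960217357784240068062501850073530368, .ofNat 0⟩)
    (by decide +kernel)
theorem L02111 : Good (Phi V5.P V5.D 1 (-1)) ⟨2, 1, 2, 2, 4, 14, 3, 1, 4, 2⟩ :=
  leafYS_sound T5.ok_pm T5.Ypm.bz_eq (w := 231) (c := ⟨⟨.negSucc 1366, .negSucc 446, .negSucc 160, .negSucc 57, .ofNat 92, .negSucc 346⟩, ⟨.ofNat 835, .ofNat 33, .ofNat 278, .ofNat 76, .negSucc 103, .ofNat 160⟩, ⟨.negSucc 360, .ofNat 80, .ofNat 4, .ofNat 58, .ofNat 318, .ofNat 572⟩, ⟨.negSucc 2413, .negSucc 133, .ofNat 829, .ofNat 288, .negSucc 398, .negSucc 1133⟩, ⟨.ofNat 2820, .ofNat 1101, .ofNat 1050, .ofNat 887, .negSucc 1310, .negSucc 552⟩, .ofNat 755, .ofNat 618, .ofNat 0, .ofNat 618, .ofNat 1585, .ofNat 0, .ofNat 128, .negSucc 213, .negSucc 57, .ofNat 0, .ofNat 193, .ofNat 24, .ofNat 0, .ofNat 0, .ofNat 197, .ofNat 3146, .ofNat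 0, .ofNat 0, .ofNat 2053552485549178860195934472417784292058333184, .ofNat 0, .ofNat 0, .ofNat 0, .ofNat 13192102590857035295998024720829425644193447936, .ofNat 0, .ofNat 0, .ofNat 0, .ofNat 38921873628715985664558104813994734930068766720, .ofNat 0, .ofNat 0, .ofNat 0, .ofNat 5923114453184055028105986042246274622718738432, .ofNat 0⟩)
    (by decide +kernel)
theorem L02112 : Good (Phi V5.P V5.D 1 (-1)) ⟨3, 2, 2, 2, 4, 15, 3, 1, 4, 2⟩ :=
  leafYS_sound T5.ok_pm T5.Ypm.bz_eq (w := 235) (c := ⟨⟨.negSucc 1436, .negSucc 233, .negSucc 340, .negSucc 173, .ofNat 130, .negSucc 263⟩, ⟨.ofNat 910, .ofNat 42, .ofNat 375, .ofNat 124, .negSucc 139, .ofNat 123⟩, ⟨.negSucc 361, .ofNat 70, .ofNat 198, .ofNat 158, .ofNat 306, .ofNat 544⟩, ⟨.negSucc 2021, .negSucc 3, .ofNat 634, .negSucc 113, .negSucc 772, .negSucc 812⟩, ⟨.ofNat 3936, .ofNat 719, .ofNat 1319, .ofNat 612, .negSucc 2092, .negSucc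 298⟩, .ofNat 1965, .ofNat 2457, .ofNat 0, .ofNat 2457, .ofNat 4504, .ofNat 0, .ofNat 128, .negSucc 214, .negSucc 75, .ofNat 0, .ofNat 156, .ofNat 37, .ofNat 0, .ofNat 0, .ofNat 275, .ofNat 1528, .ofNat 0, .ofNat 0, .ofNat 353689028325081655929639079099822932192395264, .ofNat 0, .ofNat 0, .ofNat 0, .ofNat 0, .ofNat 0, .ofNat 0, .ofNat 0, .ofNat 0, .ofNat 0, .ofNat 0, .ofNat 0, .ofNat 3626121259037777254151301340439785996021661696, .ofNat 0⟩)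
    (by decide +kernel)
theorem L02113 : Good (Phi V5.P V5.D 1 (-1)) ⟨3, 3, 2, 2, 4, 15, 3, 1, 4, 2⟩ :=
  leafYS_sound T5.ok_pm T5.Ypm.bz_eq (w := 235) (c := ⟨⟨.negSucc 1658, .negSucc 169, .negSucc 319, .negSucc 61, .negSucc 4, .negSucc 271⟩, ⟨.ofNat 963, .ofNat 14, .ofNat 434, .ofNat 67, .negSucc 119, .ofNat 96⟩, ⟨.negSucc 319, .ofNat 17, .ofNat 45, .ofNat 107, .ofNat 431, .ofNat 589⟩, ⟨.negSucc 2079, .negSucc 1, .ofNat 585, .ofNat 89, .negSucc 950, .negSucc 857⟩, ⟨.ofNat 4673, .ofNat 643, .ofNat 1302, .ofNat 636, .negSucc 2235, .negSucc 456⟩, .ofNat 1031, .ofNat 1160, .ofNat 0, .ofNat 1160, .ofNat 2913, .ofNat 0, .ofNat 128, .negSucc 195, .negSucc 94, .ofNat 0, .ofNat 151, .ofNat 29, .ofNat 0, .ofNat 0, .ofNat 315, .ofNat 2491, .ofNat 0, .ofNat 0, .ofNat 736480901517832254983261502480997048431673344, .ofNat 0, .ofNat 0, .ofNat 0, .ofNat 8145437565462035588883341269267818207422447616,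 .ofNat 0, .ofNat 0, .ofNat 0, .ofNat 12290891788201267010144772015034594825393405952, .ofNat 0, .ofNat 0, .ofNat 0, .ofNat 10190547745081352009357278160518670420925218816, .ofNat 0⟩)
    (by decide +kernel)
theorem L02114 : Good (Phi V5.P V5.D 1 (-1)) ⟨3, 2, 2, 2, 2, 3, 3, 1, 4, 3⟩ :=
  leafYS_sound T5.ok_pm T5.Ypm.bz_eq (w := 207) (c := ⟨⟨.negSucc 1576, .negSucc 199, .negSucc 176, .negSucc 227, .ofNat 14, .ofNat 128⟩, ⟨.ofNat 840, .ofNat 11, .ofNat 401, .ofNat 204, .negSucc 24, .negSucc 80⟩, ⟨.ofNat 170, .ofNat 84, .ofNat 46, .ofNat 162, .ofNat 275, .ofNat 256⟩, ⟨.negSucc 4012, .ofNat 38, .ofNat 353, .ofNat 1037, .negSucc 352, .negSucc 97⟩, ⟨.ofNat 678, .ofNat 417, .ofNat 850, .ofNat 2927, .negSucc 696, .negSucc 678⟩, .ofNat 1166, .ofNat 1215, .ofNat 0, .ofNat 1215, .ofNat 2553, .ofNat 0, .ofNat 128, .negSucc 139, .negSucc 58, .ofNat 0, .ofNat 116, .ofNat 28, .ofNat 0,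 .ofNat 0, .ofNat 402, .ofNat 3277, .ofNat 0, .ofNat 0, .ofNat 845042264745040036262335813842370560, .ofNat 0, .ofNat 0, .ofNat 0, .ofNat 0, .ofNat 0, .ofNat 0, .ofNat 0, .ofNat 18043778752963918586566482357332738048, .ofNat 0, .ofNat 0, .ofNat 0, .ofNat 46769264612376217463825089191183646720, .ofNat 0⟩)
    (by decide +kernel)
theorem L02115 : Good (Phi V5.P V5.D 1 (-1)) ⟨3, 3, 2, 2, 3, 6, 3, 1, 4, 3⟩ :=
  leafYS_sound T5.ok_pm T5.Ypm.bz_eq (w := 221) (c := ⟨⟨.negSucc 1810, .negSucc 230, .negSucc 155, .negSucc 71, .negSucc 17, .ofNat 145⟩, ⟨.ofNat 850, .negSucc 43, .ofNat 420, .ofNat 103, .negSucc 14, .negSucc 87⟩, ⟨.ofNat 231, .ofNat 52, .negSucc 9, .ofNat 13, .ofNat 337, .ofNat 272⟩, ⟨.negSucc 4110, .ofNat 15, .ofNat 106, .ofNat 396, .negSucc 195, .ofNat 89⟩, ⟨.ofNat 927, .ofNat 339, .ofNat 557, .ofNat 1328, .negSucc 380, .negSucc 547⟩, .ofNat 869, .ofNat 856, .ofNat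 0, .ofNat 856, .ofNat 2222, .ofNat 0, .ofNat 128, .negSucc 138, .negSucc 33, .ofNat 0, .ofNat 113, .ofNat 16, .ofNat 0, .ofNat 0, .ofNat 205, .ofNat 7650, .ofNat 0, .ofNat 0, .ofNat 46501029600044286000698668252105543778304, .ofNat 0, .ofNat 0, .ofNat 0, .ofNat 810119485472478864846910919986103841718272, .ofNat 0, .ofNat 0, .ofNat 0, .ofNat 675843766861067286519633204911862882238464, .ofNat 0, .ofNat 0, .ofNat 0, .ofNat 98073453992278409170501927994683274821632, .ofNat 0⟩)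
    (by decide +kernel)
theorem L02116 : Good (Phi V5.P V5.D 1 (-1)) ⟨3, 3, 2, 2, 3, 7, 3, 1, 4, 3⟩ :=
  leafYS_sound T5.ok_pm T5.Ypm.bz_eq (w := 221) (c := ⟨⟨.negSucc 1894, .negSucc 189, .negSucc 215, .negSucc 29, .negSucc 44, .ofNat 181⟩, ⟨.ofNat 970, .negSucc 14, .ofNat 421, .ofNat 96, .negSucc 34, .negSucc 120⟩, ⟨.ofNat 224, .ofNat 87, .ofNat 72, .ofNat 163, .ofNat 342, .ofNat 271⟩, ⟨.negSucc 3545, .ofNat 97, .ofNat 476, .ofNat 574, .negSucc 528, .ofNat 65⟩, ⟨.ofNat 2691, .ofNat 601, .ofNat 966, .ofNat 1524, .negSucc 1007, .negSucc 843⟩, .ofNat 849, .ofNat 826, .ofNat 0, .ofNat 826, .ofNat 2189, .ofNat 0, .ofNat 135, .negSucc 127, .negSucc 45, .ofNat 0, .ofNat 118, .ofNat 10, .ofNat 0, .ofNat 0, .ofNat 325, .ofNat 4117, .ofNat 0, .ofNat 0, .ofNat 64456861499166031898735783068993557889024, .ofNat 0, .ofNat 0, .ofNat 0, .ofNat 956158226220727397010099080659413023850496,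 .ofNat 0, .ofNat 0, .ofNat 0, .ofNat 661310709545610611981352224789858355249152, .ofNat 0, .ofNat 0, .ofNat 0, .ofNat 724874394767724230567176120221307112521728, .ofNat 0⟩)
    (by decide +kernel)
theorem L02117 : Good (Phi V5.P V5.D 1 (-1)) ⟨2, 1, 2, 3, 2, 3, 2, 0, 3, 1⟩ :=
  out_sound (S := T5.ds_pm) T5.ok_pm (w := 37) (j := 3) (by decide +kernel)
theorem L02118 : Good (Phi V5.P V5.D 1 (-1)) ⟨2, 1, 2, 2, 2, 2, 2, 1, 4, 2⟩ :=
  leafYS_sound T5.ok_pm T5.Ypm.bz_eq (w := 197) (c := ⟨⟨.negSucc 789, .negSucc 475, .negSucc 26, .negSucc 286, .ofNat 41, .negSucc 426⟩, ⟨.ofNat 407, .ofNat 5, .ofNat 313, .ofNat 185, .negSucc 53, .ofNat 206⟩, ⟨.ofNat 61, .ofNat 216, .ofNat 48, .negSucc 195, .ofNat 491, .ofNat 558⟩, ⟨.negSucc 2561, .negSucc 287, .ofNat 28, .negSucc 245, .ofNat 86, .negSucc 1168⟩, ⟨.negSucc 431, .ofNat 273, .ofNat 115, .ofNat 962, .negSucc 147, .negSucc 193⟩, .ofNat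 749, .ofNat 609, .ofNat 0, .ofNat 609, .ofNat 1577, .ofNat 0, .ofNat 128, .negSucc 154, .negSucc 64, .ofNat 0, .ofNat 127, .ofNat 34, .ofNat 0, .ofNat 0, .ofNat 210, .ofNat 1330, .ofNat 0, .ofNat 0, .ofNat 0, .ofNat 0, .ofNat 0, .ofNat 0, .ofNat 0, .ofNat 0, .ofNat 0, .ofNat 0, .ofNat 6499492571498521456327580927054053376, .ofNat 0, .ofNat 0, .ofNat 0, .ofNat 465376474925930602120858426851459072, .ofNat 0⟩)
    (by decide +kernel)
theorem L02119 : Good (Phi V5.P V5.D 1 (-1)) ⟨3, 2, 2, 2, 2, 3, 2, 1, 4, 2⟩ :=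
  leafYS_sound T5.ok_pm T5.Ypm.bz_eq (w := 202) (c := ⟨⟨.negSucc 971, .negSucc 304, .negSucc 124, .negSucc 410, .ofNat 122, .negSucc 488⟩, ⟨.ofNat 507, .ofNat 76, .ofNat 355, .ofNat 273, .negSucc 104, .ofNat 271⟩, ⟨.negSucc 210, .ofNat 126, .ofNat 75, .ofNat 246, .ofNat 547, .ofNat 582⟩, ⟨.negSucc 2523, .negSucc 153, .ofNat 62, .negSucc 199, .negSucc 392, .negSucc 1234⟩, ⟨.ofNat 554, .ofNat 553, .ofNat 298, .ofNat 1515, .negSucc 1297, .ofNat 36⟩, .ofNat 2006, .ofNat 2593, .ofNat 0, .ofNat 2593, .ofNat 4937, .ofNat 0, .ofNat 128, .negSucc 164, .negSucc 76, .ofNat 0, .ofNat 112, .ofNat 42, .ofNat 0, .ofNat 0, .ofNat 262, .ofNat 681, .ofNat 0, .ofNat 0, .ofNat 33692200270826138297984158395269120, .ofNat 0, .ofNat 0, .ofNat 0, .ofNat 0, .ofNat 0, .ofNat 0, .ofNat 0, .ofNat 1131815761212588190103504071931461632, .ofNat 0, .ofNat 0, .ofNat 0, .ofNat 816962762172666811947868084892598272,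 .ofNat 0⟩)
    (by decide +kernel)
theorem L02120 : Good (Phi V5.P V5.D 1 (-1)) ⟨3, 3, 2, 2, 2, 3, 2, 1, 4, 2⟩ :=
  leafYS_sound T5.ok_pm T5.Ypm.bz_eq (w := 201) (c := ⟨⟨.negSucc 1313, .negSucc 312, .negSucc 214, .negSucc 310, .negSucc 28, .negSucc 414⟩, ⟨.ofNat 637, .ofNat 3, .ofNat 423, .ofNat 228, .negSucc 68, .ofNat 165⟩, ⟨.negSucc 115, .ofNat 115, .ofNat 108, .ofNat 255, .ofNat 619, .ofNat 610⟩, ⟨.negSucc 2949, .negSucc 129, .ofNat 84, .negSucc 68, .negSucc 574, .negSucc 1049⟩, ⟨.ofNat 889, .ofNat 511, .ofNat 514, .ofNat 1633, .negSucc 1263, .negSucc 170⟩, .ofNat 1288, .ofNat 1567, .ofNat 0, .ofNat 1567, .ofNat 3389, .ofNat 0, .ofNat 166, .negSucc 127, .negSucc 75, .ofNat 0, .ofNat 85, .ofNat 37, .ofNat 0, .ofNat 0, .ofNat 214, .ofNat 585, .ofNat 0, .ofNat 0, .ofNat 53558654403042973988664773722505216, .ofNat 0, .ofNat 0, .ofNat 0, .ofNat 4750424209315104141814215873289781248,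 .ofNat 0, .ofNat 0, .ofNat 0, .ofNat 857318899247700117185204183271211008, .ofNat 0, .ofNat 0, .ofNat 0, .ofNat 798487596698427284927961593574064128, .ofNat 0⟩)
    (by decide +kernel)
theorem L02121 : Good (Phi V5.P V5.D 1 (-1)) ⟨2, 1, 2, 2, 2, 2, 2, 1, 4, 3⟩ :=
  leafYS_sound T5.ok_pm T5.Ypm.bz_eq (w := 198) (c := ⟨⟨.negSucc 1229, .negSucc 474, .negSucc 5, .negSucc 277, .ofNat 5, .ofNat 12⟩, ⟨.ofNat 621, .negSucc 31, .ofNat 350, .ofNat 157, .negSucc 3, .ofNat 5⟩, ⟨.ofNat 599, .ofNat 229, .ofNat 31, .negSucc 157, .ofNat 428, .ofNat 282⟩, ⟨.negSucc 3737, .negSucc 126, .ofNat 39, .negSucc 351, .ofNat 6, .negSucc 65⟩, ⟨.negSucc 540, .ofNat 361, .ofNat 148, .ofNat 717, .negSucc 35, .negSucc 164⟩, .ofNat 741, .ofNat 600, .ofNat 0, .ofNat 600, .ofNat 1570, .ofNat 0, .ofNat 128, .negSucc 160, .negSucc 82, .ofNat 0, .ofNat 139, .ofNat 43, .ofNat 0, .ofNat 0, .ofNat 416, .ofNat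 2078, .ofNat 0, .ofNat 0, .ofNat 229156720003333433974874257697538048, .ofNat 0, .ofNat 0, .ofNat 0, .ofNat 10933362916104648410184644983529668608, .ofNat 0, .ofNat 0, .ofNat 0, .ofNat 0, .ofNat 0, .ofNat 0, .ofNat 0, .ofNat 0, .ofNat 0⟩)
    (by decide +kernel)
theorem L02122 : Good (Phi V5.P V5.D 1 (-1)) ⟨3, 2, 2, 2, 2, 3, 2, 1, 4, 3⟩ :=
  leafYS_sound T5.ok_pm T5.Ypm.bz_eq (w := 201) (c := ⟨⟨.negSucc 1488, .negSucc 227, .negSucc 116, .negSucc 254, .negSucc 24, .ofNat 38⟩, ⟨.ofNat 776, .ofNat 21, .ofNat 397, .ofNat 193, .negSucc 6, .negSucc 26⟩, ⟨.ofNat 396, .ofNat 98, .ofNat 84, .ofNat 157, .ofNat 543, .ofNat 265⟩, ⟨.negSucc 3916, .negSucc 53, .negSucc 28, .ofNat 53, .negSucc 330, .negSucc 9⟩, ⟨.ofNat 437, .ofNat 303, .ofNat 212, .ofNat 1359, .negSucc 524, .negSucc 201⟩, .ofNat 1529, .ofNat 1802, .ofNat 0, .ofNat 1802, .ofNat 3594, .ofNat 0, .ofNat 147, .negSucc 127,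 .negSucc 39, .ofNat 0, .ofNat 96, .ofNat 20, .ofNat 0, .ofNat 0, .ofNat 296, .ofNat 693, .ofNat 0, .ofNat 0, .ofNat 21841706021985053614187901758734336, .ofNat 0, .ofNat 0, .ofNat 0, .ofNat 0, .ofNat 0, .ofNat 0, .ofNat 0, .ofNat 545271869400330632861531247713714176, .ofNat 0, .ofNat 0, .ofNat 0, .ofNat 1242692165326956238220338253822689280, .ofNat 0⟩)
    (by decide +kernel)

end Crest.Agent.R097C5.N5pm
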