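import Crest.Agent.R097.KS3
import Crest.Agent.R097.T5Ypm

/-!
# Row 97, box cover in dimension n = 5 (generated)
-/

set_option autoImplicit false
set_option Elab.async false
set_option maxHeartbeats 0
set_option maxRecDepth 100000

open Crest.Agent.R097 Crest.Agent.R097.KA


namespace Crest.Agent.R097C5.N5pm

theorem L02123 : Good (Phi V5.P V5.D 1 (-1)) ⟨3, 3, 2, 2, 3, 6, 2, 1, 4, 3⟩ :=
  leafYS_sound T5.ok_pm T5.Ypm.bz_eq (w := 215) (c := ⟨⟨.negSucc 1766, .negSucc 273, .negSucc 71, .negSucc 124, .negSucc 65, .ofNat 87⟩, ⟨.ofNat 822, .negSucc 39, .ofNat 399, .ofNat 101, .negSucc 8, .negSucc 60⟩, ⟨.ofNat 526, .ofNat 123, .ofNat 7, .ofNat 34, .ofNat 631, .ofNat 263⟩, ⟨.negSucc 4128, .negSucc 62, .ofNat 86, .ofNat 64, .negSucc 354, .ofNat 29⟩, ⟨.ofNat 684, .ofNat 308, .ofNat 267, .ofNat 867, .negSucc 541, .negSucc 421⟩, .ofNat 1053, .ofNat 1195, .ofNat 0, .ofNat 1195, .ofNat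 2952, .ofNat 0, .ofNat 190, .negSucc 127, .negSucc 30, .ofNat 0, .ofNat 93, .ofNat 14, .ofNat 0, .ofNat 0, .ofNat 172, .ofNat 848, .ofNat 0, .ofNat 0, .ofNat 545345930502781910044890759278930952192, .ofNat 0, .ofNat 0, .ofNat 0, .ofNat 0, .ofNat 0, .ofNat 0, .ofNat 0, .ofNat 0, .ofNat 0, .ofNat 0, .ofNat 0, .ofNat 5261747171916350713202995407521293795328, .ofNat 0⟩)
    (by decide +kernel)
theorem L02124 : Good (Phi V5.P V5.D 1 (-1)) ⟨3, 3, 3, 4, 3, 7, 2, 1, 4, 3⟩ :=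
  leafYS_sound T5.ok_pm T5.Ypm.bz_eq (w := 219) (c := ⟨⟨.negSucc 1893, .negSucc 238, .negSucc 61, .negSucc 75, .negSucc 171, .ofNat 158⟩, ⟨.ofNat 925, .negSucc 42, .ofNat 218, .ofNat 74, .negSucc 13, .negSucc 71⟩, ⟨.ofNat 514, .ofNat 150, .ofNat 27, .ofNat 245, .ofNat 653, .ofNat 268⟩, ⟨.negSucc 3934, .negSucc 53, .ofNat 132, .ofNat 133, .negSucc 1035, .ofNat 267⟩, ⟨.ofNat 1775, .ofNat 270, .ofNat 310, .ofNat 759, .negSucc 1535, .negSucc 202⟩, .ofNat 682, .ofNat 537, .ofNat 0, .ofNat 537, .ofNat 1538, .ofNat 0, .ofNat 376, .negSucc 126, .negSucc 69, .ofNat 0, .ofNat 128, .ofNat 8, .ofNat 0, .ofNat 0, .ofNat 566, .ofNat 989, .ofNat 0, .ofNat 0, .ofNat 2125873049635371978820460352785203855360, .ofNat 0, .ofNat 0, .ofNat 0, .ofNat 0, .ofNat 0, .ofNat 0, .ofNat 0, .ofNat 58358528871895453068307268670693029445632, .ofNat 0, .ofNat 0, .ofNat 0, .ofNat 0, .ofNat 0⟩)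
    (by decide +kernel)
theorem L02125 : Good (Phi V5.P V5.D 1 (-1)) ⟨3, 3, 3, 5, 3, 7, 2, 1, 4, 3⟩ :=
  out_sound (S := T5.ds_pm) T5.ok_pm (w := 45) (j := 3) (by decide +kernel)
theorem L02126 : Good (Phi V5.P V5.D 1 (-1)) ⟨2, 1, 2, 3, 1, 1, 2, 1, 3, 1⟩ :=
  out_sound (S := T5.ds_pm) T5.ok_pm (w := 37) (j := 3) (by decide +kernel)
theorem L02127 : Good (Phi V5.P V5.D 1 (-1)) ⟨2, 1, 1, 1, 3, 4, 2, 0, 3, 2⟩ :=
  leafYS_sound T5.ok_pm T5.Ypm.bz_eq (w := 206) (c := ⟨⟨.negSucc 1321, .negSucc 377, .negSucc 7, .negSucc 74, .negSucc 2, .ofNat 179⟩, ⟨.ofNat 665, .negSucc 70, .ofNat 692, .ofNat 42, .ofNat 4, .negSucc 83⟩, ⟨.ofNat 631, .ofNat 142, .ofNat 56, .negSucc 167, .ofNat 360, .ofNat 393⟩, ⟨.negSucc 3904, .negSucc 9, .negSucc 135, .negSucc 126, .ofNat 20, .ofNat 395⟩, ⟨.negSucc 442, .ofNat 167, .ofNat 76, .ofNat 129, .ofNat 40, .negSucc 96⟩, .ofNat 463, .ofNat 263, .ofNat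 0, .ofNat 263, .ofNat 707, .ofNat 0, .ofNat 169, .negSucc 107, .negSucc 19, .ofNat 0, .ofNat 128, .ofNat 16, .ofNat 0, .ofNat 0, .ofNat 240, .ofNat 13682, .ofNat 176278142700632945458371766182192594550784, .ofNat 0, .ofNat 161485178148298073749402024592900358144, .ofNat 0, .ofNat 0, .ofNat 0, .ofNat 0, .ofNat 0, .ofNat 0, .ofNat 0, .ofNat 2507316234189077841731471632632771510272, .ofNat 0, .ofNat 477265905071082969511307311204931068755968, .ofNat 0, .ofNat 130610025297480063997001335460054695936, .ofNat 0⟩)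
    (by decide +kernel)
theorem L02128 : Good (Phi V5.P V5.D 1 (-1)) ⟨2, 1, 1, 1, 3, 5, 2, 0, 3, 2⟩ :=
  leafYS_sound T5.ok_pm T5.Ypm.bz_eq (w := 205) (c := ⟨⟨.negSucc 1410, .negSucc 389, .negSucc 94, .negSucc 79, .negSucc 11, .ofNat 300⟩, ⟨.ofNat 712, .negSucc 45, .ofNat 725, .ofNat 60, .ofNat 9, .negSucc 163⟩, ⟨.ofNat 360, .ofNat 104, .ofNat 21, .negSucc 98, .ofNat 492, .ofNat 419⟩, ⟨.negSucc 4027, .ofNat 10, .negSucc 61, .ofNat 1, .negSucc 92, .ofNat 606⟩, ⟨.negSucc 238, .ofNat 323, .ofNat 371, .ofNat 423, .negSucc 108, .negSucc 303⟩, .ofNat 416, .ofNat 186, .ofNat 0, .ofNat 186, .ofNat 669, .ofNat 0, .ofNat 146, .negSucc 89, .negSucc 38, .ofNat 0, .ofNat 128, .ofNat 24, .ofNat 0, .ofNat 0, .ofNat 530, .ofNat 8432, .ofNat 40668857997705821497002465823623112294400, .ofNat 0, .ofNat 170831039353796783029899701570915794944, .ofNat 0, .ofNat 0, .ofNat 0, .ofNat 1005660382732396509345666089194352541696,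 .ofNat 0, .ofNat 256797733284164550328713846608835228205056, .ofNat 0, .ofNat 2845888791363423226328813585644379963392, .ofNat 0, .ofNat 899402646782478588215139402140140095668224, .ofNat 0, .ofNat 1263586013367984941391579118114405613568, .ofNat 0⟩)
    (by decide +kernel)
theorem L02129 : Good (Phi V5.P V5.D 1 (-1)) ⟨3, 2, 2, 2, 3, 4, 2, 1, 3, 2⟩ :=
  leafYS_sound T5.ok_pm T5.Ypm.bz_eq (w := 212) (c := ⟨⟨.negSucc 1326, .negSucc 160, .ofNat 7, .negSucc 60, .ofNat 3, .ofNat 161⟩, ⟨.ofNat 660, .ofNat 0, .ofNat 316, .ofNat 34, .negSucc 6, .negSucc 86⟩, ⟨.ofNat 860, .ofNat 102, .ofNat 58, .negSucc 46, .ofNat 335, .ofNat 439⟩, ⟨.negSucc 3825, .negSucc 30, .negSucc 53, .negSucc 137, .ofNat 1, .ofNat 396⟩, ⟨.negSucc 327, .ofNat 53, .ofNat 10, .ofNat 37, .negSucc 25, .negSucc 45⟩, .ofNat 918, .ofNat 825, .ofNat 0, .ofNat 825, .ofNat 1770, .ofNat 0, .ofNat 128, .negSucc 162,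 .negSucc 69, .ofNat 0, .ofNat 140, .ofNat 41, .ofNat 0, .ofNat 0, .ofNat 819, .ofNat 5889, .ofNat 8297786607881260386291927651383554105933824, .ofNat 0, .ofNat 9911944865050125446880916884909195264, .ofNat 0, .ofNat 0, .ofNat 0, .ofNat 0, .ofNat 0, .ofNat 0, .ofNat 0, .ofNat 1512045264023713751328398298324181975040, .ofNat 0, .ofNat 0, .ofNat 0, .ofNat 5386137074465150952026721476847868051456, .ofNat 0⟩)
    (by decide +kernel)
theorem L02130 : Good (Phi V5.P V5.D 1 (-1)) ⟨3, 2, 2, 2, 3, 5, 2, 1, 3, 2⟩ :=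
  leafYS_sound T5.ok_pm T5.Ypm.bz_eq (w := 211) (c := ⟨⟨.negSucc 1406, .negSucc 182, .negSucc 14, .negSucc 75, .negSucc 16, .ofNat 242⟩, ⟨.ofNat 708, .ofNat 9, .ofNat 331, .ofNat 46, .ofNat 5, .negSucc 138⟩, ⟨.ofNat 709, .ofNat 101, .ofNat 47, .negSucc 16, .ofNat 473, .ofNat 556⟩, ⟨.negSucc 3991, .negSucc 24, .negSucc 51, .negSucc 63, .negSucc 66, .ofNat 490⟩, ⟨.negSucc 213, .ofNat 140, .ofNat 47, .ofNat 240, .negSucc 52, .negSucc 251⟩, .ofNat 1598, .ofNat 1901, .ofNat 0, .ofNat 1901, .ofNat 3723, .ofNat 0, .ofNat 128, .negSucc 311, .negSucc 50, .ofNat 0, .ofNat 232, .ofNat 27, .ofNat 0, .ofNat 0, .ofNat 1462, .ofNat 2166, .ofNat 0, .ofNat 0, .ofNat 0, .ofNat 0, .ofNat 0, .ofNat 0, .ofNat 0, .ofNat 0, .ofNat 0, .ofNat 0, .ofNat 0, .ofNat 0, .ofNat 0, .ofNat 22813129299236890319066392004824489965649920, .ofNat 10526879703092664113539013756739779559424, .ofNat 0⟩)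
    (by decide +kernel)
theorem L02131 : Good (Phi V5.P V5.D 1 (-1)) ⟨3, 2, 2, 3, 2, 2, 2, 1, 3, 2⟩ :=
  out_sound (S := T5.ds_pm) T5.ok_pm (w := 43) (j := 3) (by decide +kernel)
theorem L02132 : Good (Phi V5.P V5.D 1 (-1)) ⟨3, 3, 2, 2, 3, 4, 2, 1, 4, 4⟩ :=
  leafYS_sound T5.ok_pm T5.Ypm.bz_eq (w := 218) (c := ⟨⟨.negSucc 1489, .negSucc 230, .ofNat 4, .negSucc 90, .negSucc 4, .ofNat 92⟩, ⟨.ofNat 648, .negSucc 63, .ofNat 326, .ofNat 45, .ofNat 3, .negSucc 41⟩, ⟨.ofNat 1002, .ofNat 116, .ofNat 51, .negSucc 86, .ofNat 370, .ofNat 181⟩, ⟨.negSucc 3858, .negSucc 42, .negSucc 32, .negSucc 172, .negSucc 33, .ofNat 199⟩, ⟨.negSucc 300, .ofNat 66, .ofNat 40, .ofNat 105, .negSucc 49, .negSucc 46⟩, .ofNat 410, .ofNat 194, .ofNat 0, .ofNat 194, .ofNat 671, .ofNat 0, .ofNat 234, .negSucc 98, .negSucc 81, .ofNat 0, .ofNat 128, .ofNat 43, .ofNat 0, .ofNat 0, .ofNat 554, .ofNat 10430,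 .ofNat 0, .ofNat 0, .ofNat 0, .ofNat 0, .ofNat 0, .ofNat 0, .ofNat 0, .ofNat 0, .ofNat 0, .ofNat 0, .ofNat 70302643251743202928424446237045864529920, .ofNat 0, .ofNat 0, .ofNat 0, .ofNat 166324901405768401281571147443537906237440, .ofNat 0⟩)
    (by decide +kernel)
theorem L02133 : Good (Phi V5.P V5.D 1 (-1)) ⟨3, 3, 2, 2, 3, 5, 2, 1, 4, 4⟩ :=
  leafYS_sound T5.ok_pm T5.Ypm.bz_eq (w := 217) (c := ⟨⟨.negSucc 1588, .negSucc 240, .negSucc 0, .negSucc 101, .negSucc 47, .ofNat 135⟩, ⟨.ofNat 701, .negSucc 61, .ofNat 347, .ofNat 62, .ofNat 7, .negSucc 62⟩, ⟨.ofNat 849, .ofNat 122, .negSucc 6, .negSucc 43, .ofNat 555, .ofNat 212⟩, ⟨.negSucc 4039, .negSucc 45, .ofNat 29, .negSucc 80, .negSucc 178, .ofNat 267⟩, ⟨.negSucc 147, .ofNat 112, .ofNat 137, .ofNat 370, .negSucc 175, .negSucc 122⟩, .ofNat 747, .ofNat 647, .ofNat 0, .ofNat 647, .ofNat 1615, .ofNat 0, .ofNat 129, .negSucc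 127, .negSucc 54, .ofNat 0, .ofNat 110, .ofNat 27, .ofNat 0, .ofNat 0, .ofNat 567, .ofNat 4931, .ofNat 0, .ofNat 0, .ofNat 1590599721878435823588258016948996014080, .ofNat 0, .ofNat 0, .ofNat 0, .ofNat 86934545147298736048211287546005771255808, .ofNat 0, .ofNat 0, .ofNat 0, .ofNat 48309998530663552157271748821379494969344, .ofNat 0, .ofNat 0, .ofNat 0, .ofNat 128977488177867621010245906238969556762624, .ofNat 0⟩)
    (by decide +kernel)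
theorem L02134 : Good (Phi V5.P V5.D 1 (-1)) ⟨3, 3, 2, 2, 3, 4, 2, 1, 4, 5⟩ :=
  leafYS_sound T5.ok_pm T5.Ypm.bz_eq (w := 218) (c := ⟨⟨.negSucc 1404, .negSucc 213, .ofNat 17, .negSucc 61, .negSucc 30, .ofNat 112⟩, ⟨.ofNat 613, .negSucc 64, .ofNat 299, .ofNat 28, .ofNat 9, .negSucc 47⟩, ⟨.ofNat 1070, .ofNat 122, .ofNat 90, .ofNat 34, .ofNat 465, .ofNat 230⟩, ⟨.negSucc 3629, .negSucc 45, .negSucc 34, .negSucc 135, .negSucc 114, .ofNat 256⟩, ⟨.negSucc 252, .ofNat 20, .negSucc 14, .ofNat 21, .negSucc 106, .negSucc 19⟩, .ofNat 410, .ofNat 194, .ofNat 0, .ofNat 194, .ofNat 671, .ofNat 0, .ofNat 211, .negSucc 93, .negSucc 79, .ofNat 0, .ofNat 128, .ofNat 39, .ofNat 0, .ofNat 0, .ofNat 1181, .ofNat 11275, .ofNat 161808091480074680049916480613440330510893056, .ofNat 0, .ofNat 2081179913783252346455346015837972594688, .ofNat 0, .ofNat 0, .ofNat 0, .ofNat 0, .ofNat 0, .ofNat 0,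 .ofNat 0, .ofNat 60875038359719953250326255719628677316608, .ofNat 0, .ofNat 0, .ofNat 0, .ofNat 349707082569531831870967590233995338579968, .ofNat 0⟩)
    (by decide +kernel)
theorem L02135 : Good (Phi V5.P V5.D 1 (-1)) ⟨3, 3, 2, 2, 3, 5, 2, 1, 4, 5⟩ :=
  leafYS_sound T5.ok_pm T5.Ypm.bz_eq (w := 216) (c := ⟨⟨.negSucc 1480, .negSucc 213, .negSucc 6, .negSucc 55, .negSucc 39, .ofNat 155⟩, ⟨.ofNat 649, .negSucc 62, .ofNat 318, .ofNat 39, .ofNat 8, .negSucc 71⟩, ⟨.ofNat 985, .ofNat 108, .ofNat 144, .ofNat 19, .ofNat 635, .ofNat 338⟩, ⟨.negSucc 3809, .ofNat 26, .negSucc 27, .negSucc 29, .negSucc 154, .ofNat 305⟩, ⟨.negSucc 235, .ofNat 155, .ofNat 71, .ofNat 246, .negSucc 153, .negSucc 133⟩, .ofNat 1201, .ofNat 1480, .ofNat 0, .ofNat 1480, .ofNat 3566, .ofNat 0, .ofNat 134, .negSucc 127, .negSucc 15, .ofNat 0, .ofNat 94, .ofNat 5, .ofNat 0, .ofNat 0, .ofNat 1057, .ofNat 2479,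 .ofNat 0, .ofNat 0, .ofNat 839808693580601658072136413001138831360, .ofNat 0, .ofNat 0, .ofNat 0, .ofNat 0, .ofNat 0, .ofNat 0, .ofNat 12459829007931671675167619575848142525956096, .ofNat 72527106846511367139639380594510696284160, .ofNat 0, .ofNat 0, .ofNat 112298676433555376630145450942803591085162496, .ofNat 210522723754730870764564424639781338611712, .ofNat 0⟩)
    (by decide +kernel)
theorem L02136 : Good (Phi V5.P V5.D 1 (-1)) ⟨3, 3, 2, 3, 2, 2, 2, 1, 3, 2⟩ :=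
  out_sound (S := T5.ds_pm) T5.ok_pm (w := 43) (j := 3) (by decide +kernel)
theorem L02137 : Good (Phi V5.P V5.D 1 (-1)) ⟨2, 1, 2, 2, 2, 2, 2, 0, 4, 6⟩ :=
  leafYS_sound T5.ok_pm T5.Ypm.bz_eq (w := 205) (c := ⟨⟨.negSucc 1449, .negSucc 327, .negSucc 26, .negSucc 0, .ofNat 230, .ofNat 1⟩, ⟨.ofNat 443, .negSucc 60, .ofNat 316, .ofNat 0, .ofNat 183, .ofNat 0⟩, ⟨.ofNat 1006, .ofNat 106, .ofNat 116, .ofNat 1, .ofNat 263, .negSucc 0⟩, ⟨.negSucc 3444, .ofNat 43, .negSucc 31, .negSucc 1, .negSucc 44, .ofNat 2⟩, ⟨.negSucc 119, .ofNat 259, .ofNat 105, .ofNat 0, .negSucc 72, .ofNat 0⟩, .ofNat 187, .ofNat 32, .ofNat 0, .ofNat 32, .ofNat 231, .ofNat 0, .ofNat 128, .negSucc 44, .ofNat 5, .ofNat 0, .ofNat 135, .negSucc 6, .ofNat 0, .ofNat 0, .ofNat 139, .ofNat 412954, .ofNat 159880354308361312751887775171531199479808, .ofNat 0, .ofNat 27062881468224593235881135653714395136, .ofNat 0,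 .ofNat 122253800116993333466942071967637991063552, .ofNat 0, .ofNat 4801694906829525436500658884941185024, .ofNat 0, .ofNat 68404462095262290040990088477238177562624, .ofNat 0, .ofNat 0, .ofNat 0, .ofNat 43146615047975838922885910200800180699136, .ofNat 0, .ofNat 1285316424943219590402609415962230784, .ofNat 0⟩)
    (by decide +kernel)
theorem L02138 : Good (Phi V5.P V5.D 1 (-1)) ⟨2, 1, 2, 2, 3, 4, 2, 1, 5, 12⟩ :=
  leafYS_sound T5.ok_pm T5.Ypm.bz_eq (w := 218) (c := ⟨⟨.negSucc 1167, .negSucc 346, .negSucc 0, .negSucc 20, .negSucc 0, .ofNat 53⟩, ⟨.ofNat 590, .negSucc 61, .ofNat 288, .ofNat 11, .ofNat 10, .negSucc 30⟩, ⟨.ofNat 954, .ofNat 266, .ofNat 87, .ofNat 267, .ofNat 612, .ofNat 265⟩, ⟨.negSucc 3356, .negSucc 102, .negSucc 57, .negSucc 74, .negSucc 98, .ofNat 138⟩, ⟨.negSucc 211, .ofNat 9, .ofNat 15, .negSucc 58, .negSucc 149, .negSucc 31⟩, .ofNat 188, .ofNat 32,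 .ofNat 0, .ofNat 32, .ofNat 231, .ofNat 0, .ofNat 160, .negSucc 39, .negSucc 25, .ofNat 0, .ofNat 128, .negSucc 20, .ofNat 0, .ofNat 0, .ofNat 1115, .ofNat 3315, .ofNat 38112272314258922347637695564311270424313856, .ofNat 0, .ofNat 182051823001374872189882050403040378224640, .ofNat 0, .ofNat 0, .ofNat 0, .ofNat 0, .ofNat 0, .ofNat 163486919566500079941730367489584906081665024, .ofNat 0, .ofNat 3107959804144564867920444614357337126207488, .ofNat 0, .ofNat 0, .ofNat 0, .ofNat 0, .ofNat 0⟩)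
    (by decide +kernel)
theorem L02139 : Good (Phi V5.P V5.D 1 (-1)) ⟨2, 1, 2, 2, 3, 4, 3, 2, 5, 13⟩ :=
  out_sound (S := T5.ds_pm) T5.ok_pm (w := 29) (j := 1) (by decide +kernel)
theorem L02140 : Good (Phi V5.P V5.D 1 (-1)) ⟨2, 1, 2, 2, 3, 4, 3, 3, 5, 13⟩ :=
  leafYS_sound T5.ok_pm T5.Ypm.bz_eq (w := 223) (c := ⟨⟨.negSucc 1151, .negSucc 329, .ofNat 45, .ofNat 18, .ofNat 6, .ofNat 81⟩, ⟨.ofNat 575, .negSucc 60, .ofNat 257, .negSucc 2, .ofNat 1, .negSucc 44⟩, ⟨.ofNat 1083, .ofNat 352, .ofNat 508, .ofNat 573, .ofNat 503, .ofNat 641⟩, ⟨.negSucc 3292, .negSucc 86, .negSucc 12, .negSucc 30, .negSucc 60, .ofNat 168⟩, ⟨.negSucc 192, .negSucc 21, .negSucc 77, .negSucc 129, .negSucc 137, .negSucc 92⟩, .ofNat 432, .ofNat 213, .ofNat 0, .ofNat 213, .ofNat 682, .ofNat 0, .ofNat 172, .negSucc 91, .ofNat 21, .ofNat 0, .ofNat 128, .negSucc 27, .ofNat 0, .ofNat 0, .ofNat 1588, .ofNat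 7007, .ofNat 750138451651811223287424215248615218543067136, .ofNat 0, .ofNat 15052080288797316632354359543396330194862080, .ofNat 0, .ofNat 0, .ofNat 0, .ofNat 0, .ofNat 0, .ofNat 1710472358680791027286490545549475620688232448, .ofNat 0, .ofNat 139480415927313803764081268413073920857473024, .ofNat 0, .ofNat 0, .ofNat 463995967441884337685497947138162648472879104, .ofNat 1087374545094787513433491743627101209372917760, .ofNat 0⟩)
    (by decide +kernel)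
theorem L02141 : Good (Phi V5.P V5.D 1 (-1)) ⟨2, 1, 2, 2, 3, 5, 3, 2, 5, 12⟩ :=
  leafYS_sound T5.ok_pm T5.Ypm.bz_eq (w := 222) (c := ⟨⟨.negSucc 1206, .negSucc 340, .ofNat 8, .negSucc 19, .ofNat 1, .ofNat 81⟩, ⟨.ofNat 603, .negSucc 62, .ofNat 306, .ofNat 20, .ofNat 4, .negSucc 37⟩, ⟨.ofNat 1073, .ofNat 216, .ofNat 192, .ofNat 164, .ofNat 369, .ofNat 316⟩, ⟨.negSucc 3481, .negSucc 32, .negSucc 43, .ofNat 4, .negSucc 51, .ofNat 166⟩, ⟨.negSucc 281, .ofNat 100, .ofNat 28, .ofNat 124, .negSucc 81, .negSucc 66⟩, .ofNat 417, .ofNat 184, .ofNat 0, .ofNat 184, .ofNat 667, .ofNat 0, .ofNat 161, .negSucc 82, .ofNat 19, .ofNat 0, .ofNat 128, .negSucc 17, .ofNat 0, .ofNat 0, .ofNat 902, .ofNat 6227, .ofNat 0, .ofNat 0, .ofNat 0, .ofNat 0, .ofNat 0, .ofNat 0, .ofNat 0, .ofNat 0, .ofNat 0, .ofNat 0, .ofNat 0, .ofNat 0, .ofNat 0, .ofNat 173867464319932596746307763446535001582075904,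 .ofNat 388694713452792897153147350870533272598740992, .ofNat 0⟩)
    (by decide +kernel)
theorem L02142 : Good (Phi V5.P V5.D 1 (-1)) ⟨2, 1, 3, 4, 3, 5, 3, 3, 5, 12⟩ :=
  leafYS_sound T5.ok_pm T5.Ypm.bz_eq (w := 225) (c := ⟨⟨.negSucc 1205, .negSucc 348, .ofNat 9, .negSucc 12, .ofNat 7, .ofNat 77⟩, ⟨.ofNat 605, .negSucc 48, .ofNat 147, .ofNat 10, .negSucc 4, .negSucc 43⟩, ⟨.ofNat 1369, .ofNat 226, .ofNat 106, .ofNat 303, .ofNat 481, .ofNat 391⟩, ⟨.negSucc 3512, .negSucc 73, .negSucc 17, .negSucc 10, .negSucc 46, .ofNat 174⟩, ⟨.negSucc 324, .ofNat 70, .ofNat 3, .ofNat 43, .negSucc 123, .negSucc 63⟩, .ofNat 416, .ofNat 183, .ofNat 0, .ofNat 183, .ofNat 667, .ofNat 0, .ofNat 189, .negSucc 83, .ofNat 35, .ofNat 0, .ofNat 128, .negSucc 34, .ofNat 0, .ofNat 0, .ofNat 1116, .ofNat 3109, .ofNat 0, .ofNat 17422571672137061957488879856801932703170560, .ofNat 0, .ofNat 0, .ofNat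 0, .ofNat 0, .ofNat 0, .ofNat 0, .ofNat 0, .ofNat 715007767952915403155028818763813867216699392, .ofNat 0, .ofNat 0, .ofNat 0, .ofNat 5102901548304694496136647114198762020975673344, .ofNat 25323409869976035211753090916926236825485312, .ofNat 0⟩)
    (by decide +kernel)
theorem L02143 : Good (Phi V5.P V5.D 1 (-1)) ⟨2, 1, 3, 5, 3, 5, 3, 3, 5, 12⟩ :=
  leafYS_sound T5.ok_pm T5.Ypm.bz_eq (w := 225) (c := ⟨⟨.negSucc 1213, .negSucc 291, .ofNat 13, .negSucc 4, .ofNat 15, .ofNat 84⟩, ⟨.ofNat 752, .negSucc 7, .ofNat 139, .ofNat 4, .negSucc 9, .negSucc 51⟩, ⟨.ofNat 1398, .ofNat 370, .ofNat 151, .ofNat 367, .ofNat 499, .ofNat 469⟩, ⟨.negSucc 3538, .negSucc 72, .negSucc 10, .negSucc 2, .negSucc 35, .ofNat 177⟩, ⟨.negSucc 296, .ofNat 25, .negSucc 8, .ofNat 13, .negSucc 133, .negSucc 85⟩, .ofNat 455, .ofNat 230, .ofNat 0, .ofNat 230, .ofNat 684, .ofNat 0, .ofNat 128, .negSucc 134,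 .ofNat 70, .ofNat 0, .ofNat 186, .negSucc 69, .ofNat 0, .ofNat 0, .ofNat 1880, .ofNat 4702, .ofNat 0, .ofNat 0, .ofNat 57927733641323354723126252684256341389213696, .ofNat 0, .ofNat 0, .ofNat 540229052118914426181801867182175200231817216, .ofNat 517415824452952189954267062915078271776325632, .ofNat 0, .ofNat 0, .ofNat 1476179909822498825718339874565236675626139648, .ofNat 609637188377100503352548510658047417413271552, .ofNat 0, .ofNat 0, .ofNat 12667275102741108281815725431141124681746087936, .ofNat 5117956061566974587002994034452790066532057088, .ofNat 0⟩)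
    (by decide +kernel)
theorem L02144 : Good (Phi V5.P V5.D 1 (-1)) ⟨2, 1, 2, 2, 3, 5, 3, 2, 5, 13⟩ :=
  leafYS_sound T5.ok_pm T5.Ypm.bz_eq (w := 220) (c := ⟨⟨.negSucc 1159, .negSucc 315, .ofNat 32, .negSucc 1, .ofNat 17, .ofNat 97⟩, ⟨.ofNat 611, .negSucc 56, .ofNat 277, .negSucc 34, .negSucc 26, .negSucc 55⟩, ⟨.ofNat 1002, .ofNat 237, .ofNat 416, .ofNat 554, .ofNat 639, .ofNat 590⟩, ⟨.negSucc 3371, .negSucc 41, .negSucc 23, .ofNat 80, .negSucc 13, .ofNat 213⟩, ⟨.negSucc 208, .ofNat 76, .negSucc 33, .negSucc 12, .negSucc 162, .negSucc 101⟩, .ofNat 188, .ofNat 32, .ofNat 0, .ofNat 32, .ofNat 231, .ofNat 0, .ofNat 156, .negSucc 40, .ofNat 20, .ofNat 0, .ofNat 128, .negSucc 22, .ofNat 0, .ofNat 0, .ofNat 342, .ofNat 996, .ofNat 206508286117030011587142090072245275637841920, .ofNat 1343590661783461815876016735068408382488576, .ofNat 2143240476436487308077814612657146427342848,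 .ofNat 0, .ofNat 0, .ofNat 0, .ofNat 0, .ofNat 0, .ofNat 0, .ofNat 0, .ofNat 0, .ofNat 0, .ofNat 3596994806726528910326413238897837858585837568, .ofNat 93443080479821694396075003592432007304445952, .ofNat 0, .ofNat 0⟩)
    (by decide +kernel)
theorem L02145 : Good (Phi V5.P V5.D 1 (-1)) ⟨2, 1, 2, 2, 5, 20, 3, 3, 5, 13⟩ :=
  leafYS_sound T5.ok_pm T5.Ypm.bz_eq (w := 250) (c := ⟨⟨.negSucc 1148, .negSucc 330, .ofNat 48, .negSucc 1, .ofNat 19, .ofNat 115⟩, ⟨.ofNat 585, .negSucc 61, .ofNat 262, .negSucc 7, .negSucc 21, .negSucc 49⟩, ⟨.ofNat 1542, .ofNat 306, .ofNat 530, .ofNat 144, .ofNat 686, .ofNat 771⟩, ⟨.negSucc 3365, .negSucc 60, .negSucc 12, .ofNat 5, .negSucc 21, .ofNat 211⟩, ⟨.negSucc 315, .ofNat 21, .negSucc 69, .negSucc 18, .negSucc 174, .negSucc 116⟩, .ofNat 420, .ofNat 187, .ofNat 0, .ofNat 187, .ofNat 668, .ofNat 0, .ofNat 319, .negSucc 83, .ofNat 60, .ofNat 0,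 .ofNat 128, .negSucc 50, .ofNat 0, .ofNat 0, .ofNat 1389, .ofNat 5155, .ofNat 0, .ofNat 92920794476887440140503515861027936004481388380160, .ofNat 1391484804525176516340234312917413045605917907746816, .ofNat 0, .ofNat 0, .ofNat 0, .ofNat 0, .ofNat 0, .ofNat 0, .ofNat 0, .ofNat 51166142598328201331165640358779798809918765044596736, .ofNat 0, .ofNat 0, .ofNat 21798712405712873991252428491990627251283853813219328, .ofNat 54636782300123566258741285841793220138805895926644736, .ofNat 0⟩)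
    (by decide +kernel)
theorem L02146 : Good (Phi V5.P V5.D 1 (-1)) ⟨2, 1, 2, 2, 5, 21, 3, 3, 5, 13⟩ :=
  leafYS_sound T5.ok_pm T5.Ypm.bz_eq (w := 250) (c := ⟨⟨.negSucc 1148, .negSucc 323, .ofNat 33, .ofNat 9, .ofNat 32, .ofNat 119⟩, ⟨.ofNat 572, .negSucc 50, .ofNat 271, .negSucc 3, .negSucc 22, .negSucc 55⟩, ⟨.ofNat 1759, .ofNat 250, .ofNat 435, .ofNat 138, .ofNat 692, .ofNat 699⟩, ⟨.negSucc 3356, .negSucc 66, .negSucc 23, .ofNat 20, .negSucc 14, .ofNat 230⟩, ⟨.negSucc 357, .ofNat 50, .negSucc 49, .negSucc 4, .negSucc 175, .negSucc 99⟩, .ofNat 188, .ofNat 33, .ofNat 0, .ofNat 33, .ofNat 231, .ofNat 0, .ofNat 244, .negSucc 40, .ofNat 42, .ofNat 0, .ofNat 128, .negSucc 48, .ofNat 0, .ofNat 0, .ofNat 664, .ofNat 3671, .ofNat 0, .ofNat 178391679296723757616307530879110282245704861614080, .ofNat 0, .ofNat 0, .ofNat 0, .ofNat 0, .ofNat 0, .ofNat 0, .ofNat 0, .ofNat 2100824486599802260414223389615295856565604589764608,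 .ofNat 0, .ofNat 0, .ofNat 0, .ofNat 10471058519438548883077207158047517889012045912735744, .ofNat 7215857095277821498049288175998495067650945292697600, .ofNat 0⟩)
    (by decide +kernel)
theorem L02147 : Good (Phi V5.P V5.D 1 (-1)) ⟨2, 1, 2, 2, 4, 11, 3, 3, 5, 13⟩ :=
  out_sound (S := T5.ds_pm) T5.ok_pm (w := 38) (j := 2) (by decide +kernel)
theorem L02148 : Good (Phi V5.P V5.D 1 (-1)) ⟨2, 1, 2, 3, 2, 2, 1, 0, 4, 6⟩ :=
  out_sound (S := T5.ds_pm) T5.ok_pm (w := 37) (j := 3) (by decide +kernel)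
theorem L02149 : Good (Phi V5.P V5.D 1 (-1)) ⟨2, 1, 1, 1, 2, 2, 2, 0, 4, 7⟩ :=
  out_sound (S := T5.ds_pm) T5.ok_pm (w := 24) (j := 1) (by decide +kernel)
theorem L02150 : Good (Phi V5.P V5.D 1 (-1)) ⟨2, 1, 2, 2, 3, 4, 3, 2, 4, 7⟩ :=
  out_sound (S := T5.ds_pm) T5.ok_pm (w := 27) (j := 1) (by decide +kernel)
theorem L02151 : Good (Phi V5.P V5.D 1 (-1)) ⟨2, 1, 2, 2, 4, 8, 3, 3, 5, 14⟩ :=
  out_sound (S := T5.ds_pm) T5.ok_pm (w := 31) (j := 1) (by decide +kernel)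
theorem L02152 : Good (Phi V5.P V5.D 1 (-1)) ⟨2, 1, 2, 2, 4, 9, 4, 6, 5, 14⟩ :=
  out_sound (S := T5.ds_pm) T5.ok_pm (w := 32) (j := 1) (by decide +kernel)
theorem L02153 : Good (Phi V5.P V5.D 1 (-1)) ⟨2, 1, 2, 2, 5, 18, 4, 7, 6, 28⟩ :=
  leafYS_sound T5.ok_pm T5.Ypm.bz_eq (w := 265) (c := ⟨⟨.negSucc 1154, .negSucc 308, .ofNat 112, .negSucc 0, .ofNat 100, .ofNat 1⟩, ⟨.ofNat 493, .negSucc 59, .ofNat 214, .ofNat 0, .ofNat 31, .ofNat 0⟩, ⟨.ofNat 2372, .ofNat 425, .ofNat 1250, .ofNat 1, .ofNat 317, .negSucc 1⟩, ⟨.negSucc 3213, .negSucc 97, .ofNat 48, .negSucc 0, .ofNat 26, .ofNat 2⟩, ⟨.negSucc 348, .negSucc 60, .negSucc 210, .ofNat 0, .negSucc 164, .ofNat 0⟩, .ofNat 187, .ofNat 31, .ofNat 0, .ofNat 31, .ofNat 231, .ofNat 0, .ofNat 191, .negSucc 37, .ofNat 52, .ofNat 0, .ofNat 128, .negSucc 64, .ofNat 0, .ofNat 0, .ofNat 768, .ofNat 304643, .ofNat 0, .ofNat 0, .ofNat 0, .ofNat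 0, .ofNat 17139796168002651583923818665040523038451286030805893120, .ofNat 13373281014643173811174377971970944482095786969006080, .ofNat 7734676083991283223053706538566355122515868962097463296, .ofNat 0, .ofNat 13080445716747569300061125264428031191558858552459132928, .ofNat 32556079606521921973611599252617914307891949268369408, .ofNat 6434196292588538230562900864071196458036955429461819392, .ofNat 0, .ofNat 108619878324842300889322048576129778623505869481313304576, .ofNat 296661346103407711829476699129400207967112437031763968, .ofNat 39192541893162735487168361610955962527496310955234557952, .ofNat 0⟩)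
    (by decide +kernel)
theorem L02154 : Good (Phi V5.P V5.D 1 (-1)) ⟨2, 1, 2, 2, 5, 19, 6, 28, 7, 56⟩ :=
  out_sound (S := T5.ds_pm) T5.ok_pm (w := 40) (j := 1) (by decide +kernel)
theorem L02155 : Good (Phi V5.P V5.D 1 (-1)) ⟨2, 1, 2, 2, 6, 38, 6, 29, 7, 56⟩ :=
  out_sound (S := T5.ds_pm) T5.ok_pm (w := 42) (j := 1) (by decide +kernel)
theorem L02156 : Good (Phi V5.P V5.D 1 (-1)) ⟨2, 1, 2, 2, 6, 39, 6, 29, 7, 56⟩ :=
  out_sound (S := T5.ds_pm) T5.ok_pm (w := 52) (j := 2) (by decide +kernel)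
theorem L02157 : Good (Phi V5.P V5.D 1 (-1)) ⟨2, 1, 2, 2, 5, 19, 5, 14, 7, 57⟩ :=
  out_sound (S := T5.ds_pm) T5.ok_pm (w := 39) (j := 1) (by decide +kernel)
theorem L02158 : Good (Phi V5.P V5.D 1 (-1)) ⟨2, 1, 2, 2, 7, 76, 6, 30, 7, 56⟩ :=
  out_sound (S := T5.ds_pm) T5.ok_pm (w := 44) (j := 1) (by decide +kernel)
theorem L02159 : Good (Phi V5.P V5.D 1 (-1)) ⟨2, 1, 2, 2, 8, 152, 8, 124, 9, 224⟩ :=
  out_sound (S := T5.ds_pm) T5.ok_pm (w := 52) (j := 1) (by decide +kernel)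
theorem L02160 : Good (Phi V5.P V5.D 1 (-1)) ⟨2, 1, 2, 2, 8, 152, 9, 250, 10, 448⟩ :=
  out_sound (S := T5.ds_pm) T5.ok_pm (w := 55) (j := 1) (by decide +kernel)
theorem L02161 : Good (Phi V5.P V5.D 1 (-1)) ⟨2, 1, 2, 2, 9, 304, 9, 251, 10, 448⟩ :=
  out_sound (S := T5.ds_pm) T5.ok_pm (w := 57) (j := 1) (by decide +kernel)
theorem L02162 : Good (Phi V5.P V5.D 1 (-1)) ⟨2, 1, 2, 2, 9, 305, 9, 251, 10, 448⟩ :=
  out_sound (S := T5.ds_pm) T5.ok_pm (w := 70) (j := 2) (by decide +kernel)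
theorem L02163 : Good (Phi V5.P V5.D 1 (-1)) ⟨2, 1, 2, 2, 8, 152, 8, 125, 10, 449⟩ :=
  out_sound (S := T5.ds_pm) T5.ok_pm (w := 54) (j := 1) (by decide +kernel)
theorem L02164 : Good (Phi V5.P V5.D 1 (-1)) ⟨2, 1, 2, 2, 8, 152, 7, 62, 9, 225⟩ :=
  out_sound (S := T5.ds_pm) T5.ok_pm (w := 51) (j := 1) (by decide +kernel)
theorem L02165 : Good (Phi V5.P V5.D 1 (-1)) ⟨2, 1, 2, 2, 10, 608, 9, 252, 10, 448⟩ :=
  out_sound (S := T5.ds_pm) T5.ok_pm (w := 59) (j := 1) (by decide +kernel)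
theorem L02166 : Good (Phi V5.P V5.D 1 (-1)) ⟨2, 1, 2, 2, 11, 1216, 10, 506, 11, 896⟩ :=
  out_sound (S := T5.ds_pm) T5.ok_pm (w := 64) (j := 1) (by decide +kernel)
theorem L02167 : Good (Phi V5.P V5.D 1 (-1)) ⟨2, 1, 2, 2, 11, 1216, 10, 507, 11, 896⟩ :=
  out_sound (S := T5.ds_pm) T5.ok_pm (w := 78) (j := 2) (by decide +kernel)
theorem L02168 : Good (Phi V5.P V5.D 1 (-1)) ⟨2, 1, 2, 2, 11, 1217, 9, 253, 11, 896⟩ :=
  out_sound (S := T5.ds_pm) T5.ok_pm (w := 76) (j := 2) (by decide +kernel)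
theorem L02169 : Good (Phi V5.P V5.D 1 (-1)) ⟨2, 1, 2, 2, 10, 608, 9, 253, 11, 897⟩ :=
  out_sound (S := T5.ds_pm) T5.ok_pm (w := 74) (j := 2) (by decide +kernel)
theorem L02170 : Good (Phi V5.P V5.D 1 (-1)) ⟨2, 1, 2, 2, 10, 609, 8, 126, 10, 448⟩ :=
  out_sound (S := T5.ds_pm) T5.ok_pm (w := 70) (j := 2) (by decide +kernel)
theorem L02171 : Good (Phi V5.P V5.D 1 (-1)) ⟨2, 1, 2, 2, 9, 304, 8, 126, 10, 449⟩ :=
  out_sound (S := T5.ds_pm) T5.ok_pm (w := 56) (j := 1) (by decide +kernel)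
theorem L02172 : Good (Phi V5.P V5.D 1 (-1)) ⟨2, 1, 2, 2, 9, 304, 8, 127, 9, 224⟩ :=
  out_sound (S := T5.ds_pm) T5.ok_pm (w := 66) (j := 2) (by decide +kernel)
theorem L02173 : Good (Phi V5.P V5.D 1 (-1)) ⟨2, 1, 2, 2, 9, 305, 7, 63, 9, 224⟩ :=
  out_sound (S := T5.ds_pm) T5.ok_pm (w := 64) (j := 2) (by decide +kernel)
theorem L02174 : Good (Phi V5.P V5.D 1 (-1)) ⟨2, 1, 2, 2, 8, 152, 7, 63, 9, 225⟩ :=
  out_sound (S := T5.ds_pm) T5.ok_pm (w := 62) (j := 2) (by decide +kernel)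
theorem L02175 : Good (Phi V5.P V5.D 1 (-1)) ⟨2, 1, 2, 2, 8, 153, 6, 31, 8, 112⟩ :=
  out_sound (S := T5.ds_pm) T5.ok_pm (w := 58) (j := 2) (by decide +kernel)
theorem L02176 : Good (Phi V5.P V5.D 1 (-1)) ⟨2, 1, 2, 2, 7, 76, 6, 31, 8, 113⟩ :=
  out_sound (S := T5.ds_pm) T5.ok_pm (w := 56) (j := 2) (by decide +kernel)
theorem L02177 : Good (Phi V5.P V5.D 1 (-1)) ⟨2, 1, 2, 2, 8, 154, 6, 30, 8, 112⟩ :=
  out_sound (S := T5.ds_pm) T5.ok_pm (w := 48) (j := 1) (by decide +kernel)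
theorem L02178 : Good (Phi V5.P V5.D 1 (-1)) ⟨2, 1, 2, 2, 8, 155, 6, 30, 8, 112⟩ :=
  out_sound (S := T5.ds_pm) T5.ok_pm (w := 58) (j := 2) (by decide +kernel)
theorem L02179 : Good (Phi V5.P V5.D 1 (-1)) ⟨2, 1, 2, 2, 7, 77, 6, 30, 8, 113⟩ :=
  out_sound (S := T5.ds_pm) T5.ok_pm (w := 46) (j := 1) (by decide +kernel)
theorem L02180 : Good (Phi V5.P V5.D 1 (-1)) ⟨2, 1, 2, 2, 7, 77, 6, 31, 7, 56⟩ :=
  out_sound (S := T5.ds_pm) T5.ok_pm (w := 54) (j := 2) (by decide +kernel)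
theorem L02181 : Good (Phi V5.P V5.D 1 (-1)) ⟨2, 1, 2, 2, 6, 38, 5, 15, 7, 57⟩ :=
  out_sound (S := T5.ds_pm) T5.ok_pm (w := 50) (j := 2) (by decide +kernel)
theorem L02182 : Good (Phi V5.P V5.D 1 (-1)) ⟨2, 1, 2, 2, 6, 39, 5, 15, 6, 28⟩ :=
  out_sound (S := T5.ds_pm) T5.ok_pm (w := 48) (j := 2) (by decide +kernel)
theorem L02183 : Good (Phi V5.P V5.D 1 (-1)) ⟨2, 1, 2, 2, 4, 9, 4, 7, 6, 29⟩ :=
  out_sound (S := T5.ds_pm) T5.ok_pm (w := 34) (j := 1) (by decide +kernel)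
theorem L02184 : Good (Phi V5.P V5.D 1 (-1)) ⟨2, 1, 2, 2, 3, 4, 3, 3, 5, 15⟩ :=
  out_sound (S := T5.ds_pm) T5.ok_pm (w := 29) (j := 1) (by decide +kernel)
theorem L02185 : Good (Phi V5.P V5.D 1 (-1)) ⟨2, 1, 2, 2, 4, 10, 3, 2, 5, 14⟩ :=
  out_sound (S := T5.ds_pm) T5.ok_pm (w := 31) (j := 1) (by decide +kernel)
theorem L02186 : Good (Phi V5.P V5.D 1 (-1)) ⟨2, 1, 2, 2, 5, 20, 5, 12, 6, 28⟩ :=
  out_sound (S := T5.ds_pm) T5.ok_pm (w := 37) (j := 1) (by decide +kernel)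
theorem L02187 : Good (Phi V5.P V5.D 1 (-1)) ⟨2, 1, 2, 2, 5, 20, 5, 13, 6, 28⟩ :=
  out_sound (S := T5.ds_pm) T5.ok_pm (w := 46) (j := 2) (by decide +kernel)
theorem L02188 : Good (Phi V5.P V5.D 1 (-1)) ⟨2, 1, 2, 2, 5, 20, 4, 7, 6, 28⟩ :=
  out_sound (S := T5.ds_pm) T5.ok_pm (w := 44) (j := 2) (by decide +kernel)
theorem L02189 : Good (Phi V5.P V5.D 1 (-1)) ⟨2, 1, 2, 2, 5, 20, 3, 3, 6, 29⟩ :=
  out_sound (S := T5.ds_pm) T5.ok_pm (w := 42) (j := 2) (by decide +kernel)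
theorem L02190 : Good (Phi V5.P V5.D 1 (-1)) ⟨2, 1, 2, 2, 5, 21, 3, 3, 5, 14⟩ :=
  out_sound (S := T5.ds_pm) T5.ok_pm (w := 40) (j := 2) (by decide +kernel)
theorem L02191 : Good (Phi V5.P V5.D 1 (-1)) ⟨2, 1, 2, 2, 4, 10, 2, 1, 5, 15⟩ :=
  out_sound (S := T5.ds_pm) T5.ok_pm (w := 36) (j := 2) (by decide +kernel)
theorem L02192 : Good (Phi V5.P V5.D 1 (-1)) ⟨2, 1, 2, 2, 4, 11, 2, 1, 4, 7⟩ :=
  out_sound (S := T5.ds_pm) T5.ok_pm (w := 34) (j := 2) (by decide +kernel)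
theorem L02193 : Good (Phi V5.P V5.D 1 (-1)) ⟨2, 1, 2, 3, 2, 2, 2, 1, 4, 7⟩ :=
  out_sound (S := T5.ds_pm) T5.ok_pm (w := 37) (j := 3) (by decide +kernel)
theorem L02194 : Good (Phi V5.P V5.D 1 (-1)) ⟨3, 2, 3, 4, 2, 3, 2, 0, 4, 4⟩ :=
  leafYS_sound T5.ok_pm T5.Ypm.bz_eq (w := 205) (c := ⟨⟨.negSucc 1484, .negSucc 180, .negSucc 46, .negSucc 101, .negSucc 40, .ofNat 182⟩, ⟨.ofNat 778, .negSucc 0, .ofNat 183, .ofNat 134, .ofNat 3, .negSucc 99⟩, ⟨.ofNat 216, .ofNat 71, .negSucc 5, .ofNat 87, .ofNat 517, .ofNat 216⟩, ⟨.negSucc 3904, .ofNat 97, .ofNat 107, .ofNat 779, .negSucc 356, .ofNat 285⟩, ⟨.ofNat 411, .ofNat 348, .ofNat 279, .ofNat 2034, .negSucc 483, .negSucc 315⟩, .ofNat 1451, .ofNat 1693, .ofNat 0, .ofNat 1693, .ofNat 3463, .ofNat 0, .ofNat 179, .negSucc 127, .negSucc 22, .ofNat 0, .ofNat 104, .ofNat 8, .ofNat 0, .ofNat 0, .ofNat 493, .ofNat 2204, .ofNat 0, .ofNat 0,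 .ofNat 0, .ofNat 0, .ofNat 0, .ofNat 0, .ofNat 0, .ofNat 0, .ofNat 0, .ofNat 0, .ofNat 0, .ofNat 0, .ofNat 0, .ofNat 27516294514374589359498337792796852748288, .ofNat 0, .ofNat 0⟩)
    (by decide +kernel)
theorem L02195 : Good (Phi V5.P V5.D 1 (-1)) ⟨3, 2, 3, 4, 2, 3, 3, 2, 4, 4⟩ :=
  leafYS_sound T5.ok_pm T5.Ypm.bz_eq (w := 209) (c := ⟨⟨.negSucc 1492, .negSucc 199, .negSucc 47, .negSucc 135, .negSucc 7, .ofNat 156⟩, ⟨.ofNat 766, .ofNat 12, .ofNat 187, .ofNat 133, .negSucc 0, .negSucc 93⟩, ⟨.ofNat 714, .ofNat 74, .ofNat 8, .ofNat 149, .ofNat 245, .ofNat 210⟩, ⟨.negSucc 4039, .negSucc 18, .ofNat 22, .ofNat 463, .negSucc 137, .ofNat 195⟩, ⟨.ofNat 172, .ofNat 241, .ofNat 142, .ofNat 1564, .negSucc 198, .negSucc 381⟩, .ofNat 1495, .ofNat 1759, .ofNat 0, .ofNat 1759, .ofNat 3556, .ofNat 0, .ofNat 128, .negSucc 151, .negSucc 11, .ofNat 0, .ofNat 121, .ofNat 0, .ofNat 0, .ofNat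 0, .ofNat 613, .ofNat 1619, .ofNat 0, .ofNat 0, .ofNat 0, .ofNat 0, .ofNat 0, .ofNat 0, .ofNat 0, .ofNat 0, .ofNat 0, .ofNat 0, .ofNat 0, .ofNat 0, .ofNat 0, .ofNat 347152829472865214944847753496674653175808, .ofNat 0, .ofNat 0⟩)
    (by decide +kernel)
theorem L02196 : Good (Phi V5.P V5.D 1 (-1)) ⟨3, 2, 3, 4, 2, 3, 3, 3, 4, 4⟩ :=
  leafYS_sound T5.ok_pm T5.Ypm.bz_eq (w := 209) (c := ⟨⟨.negSucc 1488, .negSucc 208, .negSucc 39, .negSucc 173, .negSucc 44, .ofNat 160⟩, ⟨.ofNat 756, .ofNat 12, .ofNat 192, .ofNat 139, .ofNat 22, .negSucc 91⟩, ⟨.ofNat 888, .ofNat 131, .ofNat 36, .ofNat 238, .ofNat 311, .ofNat 231⟩, ⟨.negSucc 4094, .negSucc 61, .ofNat 52, .ofNat 119, .negSucc 188, .ofNat 230⟩, ⟨.ofNat 48, .ofNat 189, .ofNat 191, .ofNat 1098, .negSucc 128, .negSucc 319⟩, .ofNat 2134, .ofNat 2842, .ofNat 0, .ofNat 2842, .ofNat 5464, .ofNat 0, .ofNat 128, .negSucc 201, .ofNat 17,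 .ofNat 0, .ofNat 148, .negSucc 18, .ofNat 0, .ofNat 0, .ofNat 839, .ofNat 734, .ofNat 0, .ofNat 0, .ofNat 0, .ofNat 0, .ofNat 0, .ofNat 0, .ofNat 0, .ofNat 0, .ofNat 0, .ofNat 97215394576613287903789745444375666622464, .ofNat 0, .ofNat 0, .ofNat 0, .ofNat 747804063380129699618123222655015757807616, .ofNat 0, .ofNat 0⟩)
    (by decide +kernel)
theorem L02197 : Good (Phi V5.P V5.D 1 (-1)) ⟨3, 2, 4, 10, 2, 3, 2, 0, 4, 4⟩ :=
  leafYS_sound T5.ok_pm T5.Ypm.bz_eq (w := 208) (c := ⟨⟨.negSucc 1538, .negSucc 178, .negSucc 39, .negSucc 131, .negSucc 25, .ofNat 189⟩, ⟨.ofNat 963, .ofNat 7, .ofNat 100, .ofNat 117, .ofNat 8, .negSucc 116⟩, ⟨.ofNat 218, .ofNat 42, .negSucc 41, .ofNat 115, .ofNat 530, .ofNat 222⟩, ⟨.negSucc 3919, .ofNat 206, .negSucc 64, .ofNat 710, .negSucc 266, .ofNat 295⟩, ⟨.ofNat 520, .ofNat 529, .negSucc 4, .ofNat 1818, .negSucc 345, .negSucc 323⟩, .ofNat 3985,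 .ofNat 5630, .ofNat 0, .ofNat 5630, .ofNat 9541, .ofNat 0, .ofNat 128, .negSucc 137, .negSucc 25, .ofNat 0, .ofNat 96, .ofNat 14, .ofNat 0, .ofNat 0, .ofNat 647, .ofNat 1429, .ofNat 0, .ofNat 0, .ofNat 188030419799979516605162453320335360, .ofNat 0, .ofNat 0, .ofNat 0, .ofNat 0, .ofNat 0, .ofNat 0, .ofNat 21395855409911444866857956193046427074560, .ofNat 0, .ofNat 0, .ofNat 0, .ofNat 0, .ofNat 0, .ofNat 0⟩)
    (by decide +kernel)
theorem L02198 : Good (Phi V5.P V5.D 1 (-1)) ⟨3, 2, 4, 10, 3, 6, 2, 1, 4, 4⟩ :=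
  leafYS_sound T5.ok_pm T5.Ypm.bz_eq (w := 223) (c := ⟨⟨.negSucc 1525, .negSucc 193, .negSucc 2, .negSucc 91, .negSucc 42, .ofNat 160⟩, ⟨.ofNat 951, .ofNat 12, .ofNat 89, .ofNat 66, .ofNat 19, .negSucc 96⟩, ⟨.ofNat 703, .ofNat 104, .ofNat 4, .ofNat 16, .ofNat 582, .ofNat 223⟩, ⟨.negSucc 4059, .ofNat 14, .ofNat 54, .ofNat 186, .negSucc 305, .ofNat 238⟩, ⟨.ofNat 235, .ofNat 249, .ofNat 89, .ofNat 719, .negSucc 333, .negSucc 290⟩, .ofNat 2106, .ofNat 2651, .ofNat 0, .ofNat 2651, .ofNat 4753, .ofNat 0, .ofNat 128, .negSucc 165, .negSucc 21, .ofNat 0, .ofNat 121, .ofNat 10, .ofNat 0, .ofNat 0, .ofNat 828, .ofNat 3357, .ofNat 0, .ofNat 0, .ofNat 0, .ofNat 0, .ofNat 0, .ofNat 0, .ofNat 0, .ofNat 0, .ofNat 0, .ofNat 335652272709639331433077852659380962476425216, .ofNat 0, .ofNat 0, .ofNat 0, .ofNat 4448134034114962087526566939551276175007416320, .ofNat 969143059405140558637043595732849845600256,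 .ofNat 0⟩)
    (by decide +kernel)
theorem L02199 : Good (Phi V5.P V5.D 1 (-1)) ⟨3, 2, 4, 10, 3, 7, 2, 1, 4, 4⟩ :=
  leafYS_sound T5.ok_pm T5.Ypm.bz_eq (w := 223) (c := ⟨⟨.negSucc 1650, .negSucc 175, .negSucc 21, .negSucc 65, .negSucc 51, .ofNat 223⟩, ⟨.ofNat 1048, .negSucc 2, .ofNat 86, .ofNat 51, .ofNat 14, .negSucc 140⟩, ⟨.ofNat 584, .ofNat 180, .ofNat 22, .ofNat 334, .ofNat 700, .ofNat 340⟩, ⟨.negSucc 3771, .ofNat 90, .ofNat 43, .ofNat 199, .negSucc 490, .ofNat 247⟩, ⟨.ofNat 1269, .ofNat 335, .ofNat 62, .ofNat 635, .negSucc 624, .negSucc 554⟩, .ofNat 3884, .ofNat 5505, .ofNat 0, .ofNat 5505, .ofNat 9398, .ofNat 0, .ofNat 128, .negSucc 216, .ofNat 28, .ofNat 0, .ofNat 152, .negSucc 25, .ofNat 0, .ofNat 0, .ofNat 929, .ofNat 664, .ofNat 0, .ofNat 0, .ofNat 7389035096453884367716386068774197919744, .ofNat 0, .ofNat 0, .ofNat 0, .ofNat 0, .ofNat 0, .ofNat 0, .ofNat 1066248289171732424226281797560776532969914368,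 .ofNat 0, .ofNat 0, .ofNat 0, .ofNat 7586613903980191240583301046758418726548144128, .ofNat 460204179073609235996958409924651650121728, .ofNat 0⟩)
    (by decide +kernel)
theorem L02200 : Good (Phi V5.P V5.D 1 (-1)) ⟨3, 2, 4, 11, 2, 3, 1, 0, 4, 4⟩ :=
  out_sound (S := T5.ds_pm) T5.ok_pm (w := 47) (j := 3) (by decide +kernel)
theorem L02201 : Good (Phi V5.P V5.D 1 (-1)) ⟨3, 3, 3, 4, 3, 6, 2, 0, 4, 4⟩ :=
  leafYS_sound T5.ok_pm T5.Ypm.bz_eq (w := 220) (c := ⟨⟨.negSucc 1663, .negSucc 209, .negSucc 58, .negSucc 28, .negSucc 66, .ofNat 192⟩, ⟨.ofNat 773, .negSucc 45, .ofNat 191, .ofNat 70, .ofNat 2, .negSucc 100⟩, ⟨.ofNat 197, .ofNat 50, .ofNat 1, .negSucc 4, .ofNat 637, .ofNat 202⟩, ⟨.negSucc 3853, .ofNat 96, .ofNat 66, .ofNat 391, .negSucc 386, .ofNat 279⟩, ⟨.ofNat 686, .ofNat 383, .ofNat 262, .ofNat 1075, .negSucc 519, .negSucc 390⟩, .ofNat 671, .ofNat 523, .ofNat 0, .ofNat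 523, .ofNat 1524, .ofNat 0, .ofNat 128, .negSucc 131, .negSucc 15, .ofNat 0, .ofNat 134, .ofNat 6, .ofNat 0, .ofNat 0, .ofNat 250, .ofNat 5966, .ofNat 0, .ofNat 0, .ofNat 0, .ofNat 0, .ofNat 0, .ofNat 0, .ofNat 129383342025175850220150930304902258229248, .ofNat 0, .ofNat 0, .ofNat 0, .ofNat 0, .ofNat 0, .ofNat 709525745539135868309119547967371406125039616, .ofNat 0, .ofNat 31300803116220346846123755627833735512064, .ofNat 0⟩)
    (by decide +kernel)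
theorem L02202 : Good (Phi V5.P V5.D 1 (-1)) ⟨3, 3, 3, 4, 3, 7, 2, 0, 4, 4⟩ :=
  leafYS_sound T5.ok_pm T5.Ypm.bz_eq (w := 219) (c := ⟨⟨.negSucc 1685, .negSucc 159, .negSucc 83, .ofNat 23, .negSucc 114, .ofNat 223⟩, ⟨.ofNat 867, .negSucc 45, .ofNat 175, .ofNat 70, .negSucc 11, .negSucc 130⟩, ⟨.ofNat 111, .ofNat 114, .ofNat 38, .ofNat 189, .ofNat 693, .ofNat 224⟩, ⟨.negSucc 3172, .ofNat 117, .ofNat 133, .ofNat 538, .negSucc 701, .ofNat 208⟩, ⟨.ofNat 2373, .ofNat 404, .ofNat 231, .ofNat 1254, .negSucc 1053, .negSucc 730⟩, .ofNat 1037, .ofNat 1169, .ofNat 0, .ofNat 1169, .ofNat 2919, .ofNat 0, .ofNat 177, .negSucc 127, .negSucc 17, .ofNat 0, .ofNat 115, .negSucc 1, .ofNat 0, .ofNat 0, .ofNat 475, .ofNat 1783, .ofNat 0, .ofNat 0, .ofNat 0, .ofNat 0, .ofNat 0, .ofNat 0, .ofNat 0, .ofNat 0, .ofNat 0, .ofNat 0, .ofNat 0, .ofNat 0, .ofNat 0, .ofNat 99562433731238749586498193964523592699871232,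 .ofNat 102770635161640411600338819811286387261440, .ofNat 0⟩)
    (by decide +kernel)
theorem L02203 : Good (Phi V5.P V5.D 1 (-1)) ⟨3, 3, 3, 5, 2, 3, 2, 0, 4, 4⟩ :=
  out_sound (S := T5.ds_pm) T5.ok_pm (w := 45) (j := 3) (by decide +kernel)
theorem L02204 : Good (Phi V5.P V5.D 1 (-1)) ⟨3, 3, 3, 4, 3, 6, 2, 1, 4, 4⟩ :=
  leafYS_sound T5.ok_pm T5.Ypm.bz_eq (w := 219) (c := ⟨⟨.negSucc 1709, .negSucc 227, .negSucc 27, .negSucc 52, .negSucc 90, .ofNat 188⟩, ⟨.ofNat 775, .negSucc 54, .ofNat 188, .ofNat 61, .ofNat 19, .negSucc 94⟩, ⟨.ofNat 763, .ofNat 109, .negSucc 3, .ofNat 43, .ofNat 669, .ofNat 240⟩, ⟨.negSucc 4122, .ofNat 37, .ofNat 8, .ofNat 149, .negSucc 339, .ofNat 303⟩, ⟨.ofNat 329, .ofNat 277, .ofNat 108, .ofNat 675, .negSucc 325, .negSucc 321⟩, .ofNat 1029, .ofNat 1157, .ofNat 0, .ofNat 1157, .ofNat 2910, .ofNat 0, .ofNat 200, .negSucc 127, .negSucc 22, .ofNat 0, .ofNat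 100, .ofNat 5, .ofNat 0, .ofNat 0, .ofNat 731, .ofNat 2551, .ofNat 0, .ofNat 0, .ofNat 0, .ofNat 0, .ofNat 0, .ofNat 0, .ofNat 0, .ofNat 0, .ofNat 0, .ofNat 22088686359101722183331555843851773630480384, .ofNat 66061678220255558523352924246729818112000, .ofNat 0, .ofNat 0, .ofNat 301382374387676034366674841468055472696197120, .ofNat 293000273519694172907810795306093935329280, .ofNat 0⟩)
    (by decide +kernel)
theorem L02205 : Good (Phi V5.P V5.D 1 (-1)) ⟨3, 3, 3, 4, 3, 7, 2, 1, 5, 8⟩ :=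
  leafYS_sound T5.ok_pm T5.Ypm.bz_eq (w := 224) (c := ⟨⟨.negSucc 1766, .negSucc 220, .negSucc 63, .negSucc 14, .negSucc 129, .ofNat 127⟩, ⟨.ofNat 858, .negSucc 49, .ofNat 191, .ofNat 48, .ofNat 6, .negSucc 63⟩, ⟨.ofNat 674, .ofNat 228, .ofNat 122, .ofNat 272, .ofNat 729, .ofNat 133⟩, ⟨.negSucc 3825, .ofNat 30, .ofNat 48, .ofNat 196, .negSucc 566, .ofNat 193⟩, ⟨.ofNat 1381, .ofNat 296, .ofNat 126, .ofNat 605, .negSucc 685, .negSucc 220⟩, .ofNat 1458, .ofNat 1987, .ofNat 0, .ofNat 1987, .ofNat 4625, .ofNat 0, .ofNat 145, .negSucc 127, .negSucc 3, .ofNat 0, .ofNat 100, .negSucc 12, .ofNat 0, .ofNat 0, .ofNat 665, .ofNat 945, .ofNat 0, .ofNat 0, .ofNat 59382173587925920357353529898664391081984, .ofNat 0, .ofNat 0, .ofNat 0, .ofNat 11161683462294453781511798217694543249145856, .ofNat 0, .ofNat 0, .ofNat 411301247732186156025329850048833874814828544, .ofNat 2244459848010781922089298106212241777885184,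 .ofNat 0, .ofNat 0, .ofNat 2288062077946995318850061854216657280367067136, .ofNat 4961503094951129874320456847530909751050240, .ofNat 0⟩)
    (by decide +kernel)
theorem L02206 : Good (Phi V5.P V5.D 1 (-1)) ⟨3, 3, 3, 4, 3, 7, 2, 1, 5, 9⟩ :=
  leafYS_sound T5.ok_pm T5.Ypm.bz_eq (w := 223) (c := ⟨⟨.negSucc 1674, .negSucc 183, .negSucc 52, .ofNat 6, .negSucc 100, .ofNat 118⟩, ⟨.ofNat 798, .negSucc 49, .ofNat 188, .ofNat 41, .ofNat 2, .negSucc 65⟩, ⟨.ofNat 810, .ofNat 219, .ofNat 100, .ofNat 332, .ofNat 780, .ofNat 158⟩, ⟨.negSucc 3712, .ofNat 76, .ofNat 20, .ofNat 322, .negSucc 474, .ofNat 169⟩, ⟨.ofNat 1070, .ofNat 319, .ofNat 121, .ofNat 749, .negSucc 621, .negSucc 244⟩, .ofNat 1058, .ofNat 1202, .ofNat 0, .ofNat 1202, .ofNat 2965, .ofNat 0, .ofNat 225, .negSucc 127, .ofNat 18, .ofNat 0, .ofNat 110, .negSucc 23, .ofNat 0, .ofNat 0, .ofNat 693, .ofNat 962, .ofNat 0, .ofNat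 0, .ofNat 208144877644808022023245832331499296260096, .ofNat 0, .ofNat 0, .ofNat 0, .ofNat 0, .ofNat 0, .ofNat 0, .ofNat 1099627752170815570093294489964807992027119616, .ofNat 2783392278177148920101451976633971950747648, .ofNat 0, .ofNat 0, .ofNat 5824829556398660551602229566231713480548810752, .ofNat 3235783072977680065309475416138171493122048, .ofNat 0⟩)
    (by decide +kernel)
theorem L02207 : Good (Phi V5.P V5.D 1 (-1)) ⟨3, 3, 3, 5, 2, 3, 2, 1, 4, 4⟩ :=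
  out_sound (S := T5.ds_pm) T5.ok_pm (w := 45) (j := 3) (by decide +kernel)
theorem L02208 : Good (Phi V5.P V5.D 1 (-1)) ⟨3, 2, 2, 2, 2, 3, 2, 0, 4, 5⟩ :=
  leafYS_sound T5.ok_pm T5.Ypm.bz_eq (w := 201) (c := ⟨⟨.negSucc 1336, .negSucc 159, .negSucc 58, .negSucc 70, .negSucc 38, .ofNat 167⟩, ⟨.ofNat 691, .negSucc 1, .ofNat 333, .ofNat 80, .ofNat 10, .negSucc 95⟩, ⟨.ofNat 382, .ofNat 49, .ofNat 66, .ofNat 45, .ofNat 555, .ofNat 318⟩, ⟨.negSucc 3601, .ofNat 51, .ofNat 55, .ofNat 561, .negSucc 294, .ofNat 316⟩, ⟨.ofNat 185, .ofNat 212, .ofNat 268, .ofNat 1354, .negSucc 341, .negSucc 199⟩, .ofNat 1547, .ofNat 1841, .ofNat 0, .ofNat 1841, .ofNat 3666, .ofNat 0, .ofNat 138, .negSucc 127, .ofNat 5, .ofNat 0, .ofNat 100, .negSucc 4, .ofNat 0, .ofNat 0, .ofNat 556, .ofNat 614, .ofNat 0, .ofNat 0, .ofNat 0, .ofNat 0, .ofNat 0, .ofNat 0, .ofNat 0, .ofNat 0, .ofNat 0, .ofNat 3470602712653585081148860515462877806592,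 .ofNat 0, .ofNat 0, .ofNat 126833267364597502259896925332983561322496, .ofNat 13340720739396754899258485599184500031488, .ofNat 0, .ofNat 0⟩)
    (by decide +kernel)
theorem L02209 : Good (Phi V5.P V5.D 1 (-1)) ⟨3, 2, 2, 2, 3, 6, 2, 1, 5, 10⟩ :=
  leafYS_sound T5.ok_pm T5.Ypm.bz_eq (w := 220) (c := ⟨⟨.negSucc 1368, .negSucc 169, .negSucc 47, .negSucc 47, .negSucc 25, .ofNat 80⟩, ⟨.ofNat 693, .ofNat 0, .ofNat 340, .ofNat 44, .ofNat 11, .negSucc 44⟩, ⟨.ofNat 895, .ofNat 95, .ofNat 47, .ofNat 74, .ofNat 622, .ofNat 162⟩, ⟨.negSucc 3812, .ofNat 8, .negSucc 2, .ofNat 178, .negSucc 215, .ofNat 156⟩, ⟨.negSucc 59, .ofNat 182, .ofNat 175, .ofNat 558, .negSucc 257, .negSucc 106⟩, .ofNat 834, .ofNat 702, .ofNat 0, .ofNat 702, .ofNat 1642, .ofNat 0, .ofNat 174, .negSucc 127, .ofNat 27, .ofNat 0, .ofNat 125, .negSucc 29, .ofNat 0, .ofNat 0, .ofNat 1217, .ofNat 1259, .ofNat 0, .ofNat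 0, .ofNat 0, .ofNat 0, .ofNat 0, .ofNat 0, .ofNat 0, .ofNat 0, .ofNat 0, .ofNat 234537184371062872542743066148374262730194944, .ofNat 548093743410778877721049001869353783656448, .ofNat 0, .ofNat 0, .ofNat 1493181032353161631495832673071971192233000960, .ofNat 9040315611779472738795166039454129944788992, .ofNat 0⟩)
    (by decide +kernel)
theorem L02210 : Good (Phi V5.P V5.D 1 (-1)) ⟨3, 2, 2, 2, 3, 6, 2, 1, 5, 11⟩ :=
  leafYS_sound T5.ok_pm T5.Ypm.bz_eq (w := 221) (c := ⟨⟨.negSucc 1298, .negSucc 165, .negSucc 34, .negSucc 34, .negSucc 3, .ofNat 87⟩, ⟨.ofNat 658, .ofNat 1, .ofNat 318, .ofNat 30, .negSucc 5, .negSucc 49⟩, ⟨.ofNat 993, .ofNat 99, .ofNat 136, .ofNat 93, .ofNat 803, .ofNat 222⟩, ⟨.negSucc 3664, .negSucc 0, .negSucc 7, .ofNat 166, .negSucc 162, .ofNat 194⟩, ⟨.negSucc 126, .ofNat 140, .ofNat 137, .ofNat 449, .negSucc 274, .negSucc 61⟩, .ofNat 828, .ofNat 696,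 .ofNat 0, .ofNat 696, .ofNat 1638, .ofNat 0, .ofNat 175, .negSucc 127, .ofNat 41, .ofNat 0, .ofNat 125, .negSucc 33, .ofNat 0, .ofNat 0, .ofNat 1239, .ofNat 2925, .ofNat 0, .ofNat 11910206694225395433536397603529997393330176, .ofNat 0, .ofNat 0, .ofNat 0, .ofNat 0, .ofNat 0, .ofNat 0, .ofNat 0, .ofNat 588460202163187879499444921072666794358996992, .ofNat 0, .ofNat 0, .ofNat 0, .ofNat 4038949147283196341175988678011943867652243456, .ofNat 0, .ofNat 0⟩)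
    (by decide +kernel)
theorem L02211 : Good (Phi V5.P V5.D 1 (-1)) ⟨3, 2, 2, 2, 3, 7, 2, 1, 4, 5⟩ :=
  leafYS_sound T5.ok_pm T5.Ypm.bz_eq (w := 216) (c := ⟨⟨.negSucc 1412, .negSucc 167, .negSucc 77, .negSucc 6, .negSucc 25, .ofNat 217⟩, ⟨.ofNat 743, .negSucc 2, .ofNat 341, .ofNat 38, .ofNat 6, .negSucc 119⟩, ⟨.ofNat 904, .ofNat 125, .ofNat 99, .ofNat 191, .ofNat 720, .ofNat 389⟩, ⟨.negSucc 3638, .ofNat 58, .ofNat 123, .ofNat 417, .negSucc 343, .ofNat 296⟩, ⟨.ofNat 514, .ofNat 278, .ofNat 345, .ofNat 834, .negSucc 470, .negSucc 440⟩, .ofNat 845, .ofNat 714, .ofNat 0, .ofNat 714, .ofNat 1651, .ofNat 0, .ofNat 232, .negSucc 122, .ofNat 32, .ofNat 0, .ofNat 128, .negSucc 36, .ofNat 0, .ofNat 0, .ofNat 836, .ofNat 2329, .ofNat 0, .ofNat 2339139429576653404518129750481249295663104, .ofNat 0, .ofNat 0, .ofNat 0, .ofNat 0, .ofNat 0, .ofNat 0, .ofNat 0, .ofNat 71281765010826450351247489983542311300104192,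 .ofNat 0, .ofNat 0, .ofNat 0, .ofNat 372151674245758302077281252972438694892929024, .ofNat 8941090136084226441257127919648908509184, .ofNat 0⟩)
    (by decide +kernel)
theorem L02212 : Good (Phi V5.P V5.D 1 (-1)) ⟨3, 3, 3, 4, 2, 3, 2, 0, 5, 10⟩ :=
  leafYS_sound T5.ok_pm T5.Ypm.bz_eq (w := 209) (c := ⟨⟨.negSucc 1472, .negSucc 181, .negSucc 23, .negSucc 4, .negSucc 86, .ofNat 80⟩, ⟨.ofNat 681, .negSucc 57, .ofNat 172, .ofNat 97, .ofNat 12, .negSucc 47⟩, ⟨.ofNat 378, .ofNat 47, .ofNat 22, .ofNat 129, .ofNat 636, .ofNat 116⟩, ⟨.negSucc 3553, .ofNat 102, .ofNat 40, .ofNat 603, .negSucc 297, .ofNat 105⟩, ⟨.ofNat 392, .ofNat 280, .ofNat 154, .ofNat 1530, .negSucc 324, .negSucc 217⟩, .ofNat 1087, .ofNat 1258, .ofNat 0, .ofNat 1258, .ofNat 3021, .ofNat 0, .ofNat 329, .negSucc 127, .ofNat 4, .ofNat 0, .ofNat 109, .negSucc 5, .ofNat 0, .ofNat 0, .ofNat 460, .ofNat 868, .ofNat 0,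 .ofNat 0, .ofNat 0, .ofNat 0, .ofNat 0, .ofNat 0, .ofNat 0, .ofNat 0, .ofNat 0, .ofNat 0, .ofNat 0, .ofNat 0, .ofNat 0, .ofNat 393865417473630656084938960873475933208576, .ofNat 64355273727863622370015760263604600832, .ofNat 0⟩)
    (by decide +kernel)
theorem L02213 : Good (Phi V5.P V5.D 1 (-1)) ⟨3, 3, 3, 4, 2, 3, 2, 0, 5, 11⟩ :=
  leafYS_sound T5.ok_pm T5.Ypm.bz_eq (w := 209) (c := ⟨⟨.negSucc 1407, .negSucc 184, .negSucc 22, .negSucc 22, .negSucc 57, .ofNat 90⟩, ⟨.ofNat 644, .negSucc 60, .ofNat 159, .ofNat 72, .ofNat 9, .negSucc 43⟩, ⟨.ofNat 465, .ofNat 46, .ofNat 43, .ofNat 66, .ofNat 670, .ofNat 189⟩, ⟨.negSucc 3354, .ofNat 60, .ofNat 3, .ofNat 369, .negSucc 306, .ofNat 159⟩, ⟨.ofNat 383, .ofNat 188, .ofNat 92, .ofNat 1015, .negSucc 382, .negSucc 114⟩, .ofNat 1054, .ofNat 1196, .ofNat 0, .ofNat 1196, .ofNat 2953, .ofNat 0, .ofNat 386, .negSucc 127, .ofNat 7, .ofNat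 0, .ofNat 103, .negSucc 4, .ofNat 0, .ofNat 0, .ofNat 439, .ofNat 563, .ofNat 0, .ofNat 2614379518115610492409715751216176168960, .ofNat 770361616688821408585434429632020480, .ofNat 0, .ofNat 0, .ofNat 0, .ofNat 0, .ofNat 0, .ofNat 0, .ofNat 374342964061916321825452930054224628154368, .ofNat 164050598599662873741491496891564687360, .ofNat 0, .ofNat 6073766043885298132492011462607103307284480, .ofNat 730508869963011940337179060576347599405056, .ofNat 0, .ofNat 0⟩)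
    (by decide +kernel)
theorem L02214 : Good (Phi V5.P V5.D 1 (-1)) ⟨3, 3, 3, 4, 3, 6, 2, 1, 5, 10⟩ :=
  leafYS_sound T5.ok_pm T5.Ypm.bz_eq (w := 224) (c := ⟨⟨.negSucc 1553, .negSucc 213, .negSucc 21, .negSucc 13, .negSucc 55, .ofNat 106⟩, ⟨.ofNat 698, .negSucc 57, .ofNat 172, .ofNat 42, .ofNat 5, .negSucc 52⟩, ⟨.ofNat 910, .ofNat 134, .ofNat 66, .ofNat 87, .ofNat 765, .ofNat 214⟩, ⟨.negSucc 3826, .ofNat 5, .negSucc 0, .ofNat 241, .negSucc 278, .ofNat 173⟩, ⟨.ofNat 119, .ofNat 165, .ofNat 86, .ofNat 670, .negSucc 348, .negSucc 163⟩, .ofNat 673, .ofNat 527, .ofNat 0, .ofNat 527, .ofNat 1528, .ofNat 0, .ofNat 324, .negSucc 124, .ofNat 19, .ofNat 0, .ofNat 128, .negSucc 25, .ofNat 0, .ofNat 0, .ofNat 1336, .ofNat 1499, .ofNat 0, .ofNat 0, .ofNat 105796066574775714510594727929195865833472, .ofNat 0, .ofNat 0, .ofNat 0, .ofNat 0, .ofNat 0, .ofNat 0, .ofNat 1856920252770592937964859460670507435520163840,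 .ofNat 2024652056291885822011120732734894987280384, .ofNat 0, .ofNat 0, .ofNat 14805252012171256633911149941699439545364250624, .ofNat 17009213289585903692661068985309529343262720, .ofNat 0⟩)
    (by decide +kernel)
theorem L02215 : Good (Phi V5.P V5.D 1 (-1)) ⟨3, 3, 3, 4, 3, 7, 2, 1, 5, 10⟩ :=
  leafYS_sound T5.ok_pm T5.Ypm.bz_eq (w := 224) (c := ⟨⟨.negSucc 1573, .negSucc 178, .negSucc 37, .ofNat 36, .negSucc 77, .ofNat 110⟩, ⟨.ofNat 739, .negSucc 51, .ofNat 175, .ofNat 36, .ofNat 0, .negSucc 60⟩, ⟨.ofNat 998, .ofNat 154, .ofNat 70, .ofNat 249, .ofNat 805, .ofNat 180⟩, ⟨.negSucc 3574, .ofNat 72, .ofNat 66, .ofNat 448, .negSucc 436, .ofNat 162⟩, ⟨.ofNat 816, .ofNat 277, .ofNat 163, .ofNat 910, .negSucc 608, .negSucc 244⟩, .ofNat 396, .ofNat 165, .ofNat 0, .ofNat 165, .ofNat 665, .ofNat 0, .ofNat 224, .negSucc 71, .ofNat 16, .ofNat 0, .ofNat 128, .negSucc 35, .ofNat 0,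 .ofNat 0, .ofNat 547, .ofNat 1815, .ofNat 0, .ofNat 116157570612720129167311667445086672675405824, .ofNat 0, .ofNat 0, .ofNat 0, .ofNat 0, .ofNat 0, .ofNat 0, .ofNat 0, .ofNat 2718714340261701820880583191615647914961928192, .ofNat 0, .ofNat 0, .ofNat 0, .ofNat 10102909647573240682878393767784275925239070720, .ofNat 0, .ofNat 0⟩)
    (by decide +kernel)
theorem L02216 : Good (Phi V5.P V5.D 1 (-1)) ⟨3, 3, 3, 4, 3, 6, 2, 1, 5, 11⟩ :=
  leafYS_sound T5.ok_pm T5.Ypm.bz_eq (w := 224) (c := ⟨⟨.negSucc 1467, .negSucc 196, .negSucc 13, .negSucc 7, .negSucc 33, .ofNat 96⟩, ⟨.ofNat 655, .negSucc 60, .ofNat 163, .ofNat 31, .negSucc 1, .negSucc 47⟩, ⟨.ofNat 1027, .ofNat 132, .ofNat 94, .ofNat 143, .ofNat 873, .ofNat 258⟩, ⟨.negSucc 3644, .ofNat 17, .negSucc 19, .ofNat 161, .negSucc 214, .ofNat 183⟩, ⟨.ofNat 57, .ofNat 126, .ofNat 35, .ofNat 448, .negSucc 323, .negSucc 113⟩, .ofNat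 674, .ofNat 528, .ofNat 0, .ofNat 528, .ofNat 1528, .ofNat 0, .ofNat 296, .negSucc 124, .ofNat 32, .ofNat 0, .ofNat 128, .negSucc 24, .ofNat 0, .ofNat 0, .ofNat 1024, .ofNat 2325, .ofNat 0, .ofNat 92306450108346014194234659871907564337758208, .ofNat 0, .ofNat 0, .ofNat 0, .ofNat 0, .ofNat 0, .ofNat 0, .ofNat 0, .ofNat 4211552555755442293170948899817401390259503104, .ofNat 0, .ofNat 0, .ofNat 0, .ofNat 20308850925148544648939430202922033654230155264, .ofNat 0, .ofNat 0⟩)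
    (by decide +kernel)
theorem L02217 : Good (Phi V5.P V5.D 1 (-1)) ⟨3, 3, 3, 4, 3, 7, 2, 1, 5, 11⟩ :=
  out_sound (S := T5.ds_pm) T5.ok_pm (w := 34) (j := 2) (by decide +kernel)
theorem L02218 : Good (Phi V5.P V5.D 1 (-1)) ⟨3, 3, 3, 5, 2, 3, 1, 0, 4, 5⟩ :=
  out_sound (S := T5.ds_pm) T5.ok_pm (w := 45) (j := 3) (by decide +kernel)
theorem L02219 : Good (Phi V5.P V5.D 1 (-1)) ⟨2, 1, 2, 3, 2, 3, 1, 0, 3, 2⟩ :=
  out_sound (S := T5.ds_pm) T5.ok_pm (w := 37) (j := 3) (by decide +kernel)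
theorem L02220 : Good (Phi V5.P V5.D 1 (-1)) ⟨2, 1, 1, 1, 2, 3, 2, 0, 4, 6⟩ :=
  leafYS_sound T5.ok_pm T5.Ypm.bz_eq (w := 193) (c := ⟨⟨.negSucc 1240, .negSucc 326, .negSucc 52, .ofNat 2, .ofNat 19, .ofNat 1⟩, ⟨.ofNat 584, .negSucc 59, .ofNat 627, .ofNat 73, .ofNat 41, .ofNat 0⟩, ⟨.ofNat 607, .ofNat 99, .ofNat 235, .ofNat 167, .ofNat 668, .negSucc 0⟩, ⟨.negSucc 3356, .ofNat 49, .negSucc 57, .ofNat 291, .negSucc 138, .ofNat 2⟩, ⟨.ofNat 1, .ofNat 277, .ofNat 226, .ofNat 732, .negSucc 205, .ofNat 0⟩, .ofNat 188, .ofNat 32, .ofNat 0, .ofNat 32, .ofNat 231, .ofNat 0, .ofNat 128, .negSucc 42, .ofNat 8, .ofNat 0, .ofNat 131, .negSucc 9, .ofNat 0, .ofNat 0, .ofNat 181, .ofNat 864, .ofNat 9406187900697698867092855317633957888, .ofNat 2117899033749044424838819644715302912, .ofNat 39337613971906610415244412373172224, .ofNat 0, .ofNat 0, .ofNat 8446210470340438615252602203834155008,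 .ofNat 2810320189702191859212508528417701888, .ofNat 0, .ofNat 449805781149093173749821021524643020800, .ofNat 69050450559241576951273452581689491456, .ofNat 925853094246577452441929399463313408, .ofNat 0, .ofNat 739374808869569187378838066595425681408, .ofNat 51688969507663665328603737482051190784, .ofNat 509441777994386307054073170303647744, .ofNat 0⟩)
    (by decide +kernel)
theorem L02221 : Good (Phi V5.P V5.D 1 (-1)) ⟨2, 1, 1, 1, 2, 3, 3, 2, 4, 6⟩ :=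
  leafYS_sound T5.ok_pm T5.Ypm.bz_eq (w := 199) (c := ⟨⟨.negSucc 1223, .negSucc 334, .negSucc 39, .ofNat 80, .ofNat 6, .ofNat 183⟩, ⟨.ofNat 623, .negSucc 54, .ofNat 619, .ofNat 114, .ofNat 1, .negSucc 94⟩, ⟨.ofNat 1228, .ofNat 169, .ofNat 363, .ofNat 214, .ofNat 418, .ofNat 550⟩, ⟨.negSucc 3477, .ofNat 8, .negSucc 76, .ofNat 310, .negSucc 58, .ofNat 386⟩, ⟨.negSucc 165, .ofNat 218, .ofNat 140, .ofNat 687, .negSucc 117, .negSucc 155⟩, .ofNat 188, .ofNat 32, .ofNat 0, .ofNat 32, .ofNat 231, .ofNat 0, .ofNat 179, .negSucc 41, .ofNat 28, .ofNat 0, .ofNat 128, .negSucc 36, .ofNat 0, .ofNat 0, .ofNat 530, .ofNat 2023, .ofNat 0, .ofNat 36627203624680872890673003670712352768, .ofNat 1559536950722840329659105863268302848, .ofNat 0, .ofNat 0, .ofNat 253821324693869617644965323151922692096, .ofNat 0, .ofNat 0, .ofNat 0, .ofNat 436292618105761535723000277715793215488, .ofNat 0, .ofNat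 0, .ofNat 0, .ofNat 1972270856199922193267163499798762356736, .ofNat 36927482396371834052947567680811958272, .ofNat 0⟩)
    (by decide +kernel)
theorem L02222 : Good (Phi V5.P V5.D 1 (-1)) ⟨2, 1, 1, 1, 2, 3, 3, 3, 4, 6⟩ :=
  out_sound (S := T5.ds_pm) T5.ok_pm (w := 32) (j := 2) (by decide +kernel)
theorem L02223 : Good (Phi V5.P V5.D 1 (-1)) ⟨2, 1, 1, 1, 2, 3, 1, 0, 4, 7⟩ :=
  out_sound (S := T5.ds_pm) T5.ok_pm (w := 28) (j := 2) (by decide +kernel)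
theorem L02224 : Good (Phi V5.P V5.D 1 (-1)) ⟨2, 1, 1, 1, 3, 4, 1, 0, 3, 4⟩ :=
  out_sound (S := T5.ds_pm) T5.ok_pm (w := 23) (j := 1) (by decide +kernel)
theorem L02225 : Good (Phi V5.P V5.D 1 (-1)) ⟨2, 1, 1, 1, 3, 5, 1, 0, 3, 4⟩ :=
  out_sound (S := T5.ds_pm) T5.ok_pm (w := 28) (j := 2) (by decide +kernel)
theorem L02226 : Good (Phi V5.P V5.D 1 (-1)) ⟨2, 1, 1, 1, 2, 2, 1, 0, 3, 5⟩ :=
  out_sound (S := T5.ds_pm) T5.ok_pm (w := 21) (j := 1) (by decide +kernel)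
theorem L02227 : Good (Phi V5.P V5.D 1 (-1)) ⟨2, 1, 1, 1, 2, 2, 1, 0, 2, 3⟩ :=
  out_sound (S := T5.ds_pm) T5.ok_pm (w := 19) (j := 1) (by decide +kernel)
theorem L02228 : Good (Phi V5.P V5.D 1 (-1)) ⟨2, 1, 1, 1, 2, 3, 1, 0, 1, 1⟩ :=
  out_sound (S := T5.ds_pm) T5.ok_pm (w := 22) (j := 2) (by decide +kernel)
theorem L02229 : Good (Phi V5.P V5.D 1 (-1)) ⟨2, 0, 2, 2, 1, 1, 2, 2, 3, 0⟩ :=
  leafYS_sound T5.ok_pm T5.Ypm.bz_eq (w := 178) (c := ⟨⟨.ofNat 564, .negSucc 24, .ofNat 6, .negSucc 137, .negSucc 329, .negSucc 1173⟩, ⟨.negSucc 321, .ofNat 28, .negSucc 21, .ofNat 137, .ofNat 177, .ofNat 636⟩, ⟨.negSucc 632, .negSucc 86, .ofNat 49, .ofNat 728, .ofNat 501, .ofNat 598⟩, ⟨.ofNat 1836, .ofNat 69, .ofNat 364, .negSucc 140, .negSucc 1241, .negSucc 3739⟩, ⟨.ofNat 361, .ofNat 234, .ofNat 351, .ofNat 486, .negSucc 461, .negSucc 550⟩, .ofNat 1244, .ofNat 1188, .ofNat 0, .ofNat 1188,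 .ofNat 2351, .ofNat 0, .ofNat 128, .negSucc 197, .negSucc 139, .ofNat 0, .ofNat 155, .ofNat 82, .ofNat 0, .ofNat 0, .ofNat 351, .ofNat 403, .ofNat 0, .ofNat 0, .ofNat 222712117800189003219242844160, .ofNat 0, .ofNat 0, .ofNat 0, .ofNat 0, .ofNat 0, .ofNat 0, .ofNat 0, .ofNat 10595761437743836986419710001152, .ofNat 0, .ofNat 0, .ofNat 0, .ofNat 0, .ofNat 0⟩)
    (by decide +kernel)
theorem L02230 : Good (Phi V5.P V5.D 1 (-1)) ⟨2, 0, 2, 2, 1, 1, 2, 3, 4, 0⟩ :=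
  leafYS_sound T5.ok_pm T5.Ypm.bz_eq (w := 182) (c := ⟨⟨.ofNat 182, .negSucc 179, .negSucc 50, .negSucc 262, .negSucc 611, .negSucc 183⟩, ⟨.negSucc 139, .ofNat 112, .ofNat 97, .ofNat 190, .ofNat 393, .ofNat 103⟩, ⟨.negSucc 168, .ofNat 247, .ofNat 190, .ofNat 674, .ofNat 873, .ofNat 5⟩, ⟨.ofNat 495, .negSucc 415, .ofNat 72, .negSucc 324, .negSucc 1512, .negSucc 821⟩, ⟨.ofNat 67, .ofNat 53, .ofNat 34, .ofNat 791, .ofNat 493, .negSucc 477⟩, .ofNat 1245, .ofNat 1189, .ofNat 0, .ofNat 1189, .ofNat 2350, .ofNat 0, .ofNat 128, .negSucc 199, .negSucc 126, .ofNat 0, .ofNat 158, .ofNat 74, .ofNat 0, .ofNat 0, .ofNat 280, .ofNat 351, .ofNat 0, .ofNat 0, .ofNat 3918016768437893782791509770240, .ofNat 0, .ofNat 0, .ofNat 0, .ofNat 0, .ofNat 0, .ofNat 0, .ofNat 13610765156782948379988797018865664, .ofNat 226746248692954740608114068815872, .ofNat 0, .ofNat 0, .ofNat 0, .ofNat 0, .ofNat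 0⟩)
    (by decide +kernel)
theorem L02231 : Good (Phi V5.P V5.D 1 (-1)) ⟨2, 0, 2, 2, 1, 1, 2, 3, 4, 1⟩ :=
  leafYS_sound T5.ok_pm T5.Ypm.bz_eq (w := 183) (c := ⟨⟨.negSucc 168, .negSucc 284, .ofNat 124, .negSucc 374, .negSucc 363, .negSucc 493⟩, ⟨.ofNat 36, .ofNat 172, .ofNat 89, .ofNat 256, .ofNat 242, .ofNat 276⟩, ⟨.negSucc 32, .ofNat 390, .ofNat 8, .ofNat 704, .ofNat 775, .ofNat 369⟩, ⟨.negSucc 859, .negSucc 554, .ofNat 459, .negSucc 454, .negSucc 743, .negSucc 1474⟩, ⟨.negSucc 465, .ofNat 138, .ofNat 58, .ofNat 1094, .ofNat 567, .negSucc 51⟩, .ofNat 1621, .ofNat 1758, .ofNat 0, .ofNat 1758, .ofNat 3290, .ofNat 0, .ofNat 128, .negSucc 272, .negSucc 127, .ofNat 0, .ofNat 205, .ofNat 74, .ofNat 0, .ofNat 0, .ofNat 315, .ofNat 175, .ofNat 0, .ofNat 0, .ofNat 0, .ofNat 0, .ofNat 0, .ofNat 0, .ofNat 0, .ofNat 0, .ofNat 0, .ofNat 39021868665154444774356192260521984, .ofNat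 355474862564115374274431995084800, .ofNat 0, .ofNat 0, .ofNat 14466543406842417791445564412395520, .ofNat 205317498981285423827084210339840, .ofNat 0⟩)
    (by decide +kernel)
theorem L02232 : Good (Phi V5.P V5.D 1 (-1)) ⟨2, 0, 2, 2, 2, 2, 2, 2, 3, 1⟩ :=
  leafYS_sound T5.ok_pm T5.Ypm.bz_eq (w := 192) (c := ⟨⟨.negSucc 764, .negSucc 218, .ofNat 16, .negSucc 95, .negSucc 53, .negSucc 359⟩, ⟨.ofNat 345, .ofNat 137, .ofNat 300, .ofNat 60, .ofNat 33, .ofNat 200⟩, ⟨.ofNat 254, .ofNat 247, .ofNat 25, .ofNat 46, .ofNat 436, .ofNat 611⟩, ⟨.negSucc 2641, .negSucc 280, .ofNat 225, .negSucc 94, .negSucc 88, .negSucc 1124⟩, ⟨.negSucc 486, .ofNat 136, .ofNat 410, .ofNat 229, .ofNat 108, .negSucc 111⟩, .ofNat 1651, .ofNat 1791, .ofNat 0, .ofNat 1791, .ofNat 3325, .ofNat 0, .ofNat 128, .negSucc 300, .negSucc 108, .ofNat 0, .ofNat 234, .ofNat 65, .ofNat 0, .ofNat 0, .ofNat 514, .ofNat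 593, .ofNat 0, .ofNat 0, .ofNat 0, .ofNat 0, .ofNat 0, .ofNat 0, .ofNat 0, .ofNat 0, .ofNat 0, .ofNat 0, .ofNat 0, .ofNat 0, .ofNat 0, .ofNat 0, .ofNat 245448042772804302143892570350026752, .ofNat 0⟩)
    (by decide +kernel)
theorem L02233 : Good (Phi V5.P V5.D 1 (-1)) ⟨2, 0, 2, 2, 2, 3, 2, 2, 4, 2⟩ :=
  leafYS_sound T5.ok_pm T5.Ypm.bz_eq (w := 196) (c := ⟨⟨.negSucc 490, .negSucc 377, .ofNat 16, .negSucc 391, .negSucc 208, .negSucc 545⟩, ⟨.ofNat 210, .ofNat 216, .ofNat 274, .ofNat 241, .ofNat 108, .ofNat 318⟩, ⟨.ofNat 36, .ofNat 281, .ofNat 128, .ofNat 335, .ofNat 634, .ofNat 486⟩, ⟨.negSucc 1744, .negSucc 647, .ofNat 311, .negSucc 941, .negSucc 565, .negSucc 1524⟩, ⟨.negSucc 138, .ofNat 188, .ofNat 343, .ofNat 284, .negSucc 10, .ofNat 30⟩, .ofNat 1623, .ofNat 1753, .ofNat 0, .ofNat 1753, .ofNat 3279, .ofNat 0, .ofNat 128, .negSucc 187, .negSucc 52, .ofNat 0, .ofNat 142,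 .ofNat 29, .ofNat 0, .ofNat 0, .ofNat 213, .ofNat 259, .ofNat 0, .ofNat 0, .ofNat 0, .ofNat 0, .ofNat 0, .ofNat 0, .ofNat 0, .ofNat 0, .ofNat 0, .ofNat 0, .ofNat 0, .ofNat 0, .ofNat 0, .ofNat 0, .ofNat 1614615772620493664879303632862838784, .ofNat 0⟩)
    (by decide +kernel)
theorem L02234 : Good (Phi V5.P V5.D 1 (-1)) ⟨2, 0, 2, 2, 3, 6, 2, 2, 4, 3⟩ :=
  leafYS_sound T5.ok_pm T5.Ypm.bz_eq (w := 210) (c := ⟨⟨.negSucc 1148, .negSucc 285, .negSucc 42, .negSucc 118, .negSucc 136, .negSucc 69⟩, ⟨.ofNat 561, .ofNat 175, .ofNat 375, .ofNat 85, .ofNat 81, .ofNat 38⟩, ⟨.ofNat 593, .ofNat 311, .ofNat 90, .ofNat 96, .ofNat 632, .ofNat 260⟩, ⟨.negSucc 3632, .negSucc 376, .ofNat 40, .negSucc 79, .negSucc 413, .negSucc 234⟩, ⟨.negSucc 217, .ofNat 193, .ofNat 215, .ofNat 444, .negSucc 29, .negSucc 55⟩, .ofNat 896, .ofNat 707, .ofNat 0, .ofNat 707, .ofNat 1559, .ofNat 0, .ofNat 128,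 .negSucc 163, .negSucc 40, .ofNat 0, .ofNat 153, .ofNat 16, .ofNat 0, .ofNat 0, .ofNat 392, .ofNat 369, .ofNat 0, .ofNat 0, .ofNat 0, .ofNat 0, .ofNat 0, .ofNat 0, .ofNat 0, .ofNat 0, .ofNat 0, .ofNat 0, .ofNat 0, .ofNat 0, .ofNat 0, .ofNat 670143578370625880945680482183953382375424, .ofNat 94209235991899797172697545299694993801216, .ofNat 0⟩)
    (by decide +kernel)
theorem L02235 : Good (Phi V5.P V5.D 1 (-1)) ⟨2, 0, 2, 2, 3, 7, 2, 2, 5, 6⟩ :=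
  leafYS_sound T5.ok_pm T5.Ypm.bz_eq (w := 216) (c := ⟨⟨.negSucc 1176, .negSucc 371, .negSucc 71, .negSucc 201, .negSucc 218, .negSucc 57⟩, ⟨.ofNat 603, .ofNat 230, .ofNat 383, .ofNat 113, .ofNat 126, .ofNat 36⟩, ⟨.ofNat 631, .ofNat 271, .ofNat 186, .ofNat 191, .ofNat 663, .ofNat 153⟩, ⟨.negSucc 3471, .negSucc 678, .ofNat 173, .negSucc 593, .negSucc 660, .negSucc 118⟩, ⟨.ofNat 338, .ofNat 55, .ofNat 355, .negSucc 66, .negSucc 55, .ofNat 74⟩, .ofNat 1638, .ofNat 1776, .ofNat 0, .ofNat 1776, .ofNat 3304, .ofNat 0, .ofNat 128, .negSucc 252, .negSucc 16, .ofNat 0, .ofNat 201, .negSucc 4, .ofNat 0, .ofNat 0, .ofNat 494, .ofNat 472, .ofNat 0, .ofNat 0, .ofNat 0, .ofNat 0, .ofNat 0, .ofNat 0, .ofNat 0, .ofNat 0, .ofNat 0, .ofNat 5240154537745616871425995276976748069126144, .ofNat 5416725293150178057742010269741205671641088, .ofNat 0, .ofNat 0, .ofNat 8002439332251312968135123570691055986671616,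 .ofNat 6063498618859677452432884929926595377889280, .ofNat 0⟩)
    (by decide +kernel)
theorem L02236 : Good (Phi V5.P V5.D 1 (-1)) ⟨2, 0, 2, 2, 3, 7, 2, 2, 5, 7⟩ :=
  leafYS_sound T5.ok_pm T5.Ypm.bz_eq (w := 216) (c := ⟨⟨.negSucc 1290, .negSucc 350, .negSucc 73, .negSucc 146, .negSucc 153, .ofNat 37⟩, ⟨.ofNat 663, .ofNat 208, .ofNat 394, .ofNat 93, .ofNat 90, .negSucc 16⟩, ⟨.ofNat 772, .ofNat 291, .ofNat 178, .ofNat 198, .ofNat 675, .ofNat 127⟩, ⟨.negSucc 3778, .negSucc 533, .negSucc 9, .negSucc 365, .negSucc 497, .ofNat 100⟩, ⟨.ofNat 315, .ofNat 172, .ofNat 140, .ofNat 88, .negSucc 77, .ofNat 13⟩, .ofNat 1607, .ofNat 1728, .ofNat 0, .ofNat 1728, .ofNat 3244, .ofNat 0, .ofNat 128, .negSucc 217, .ofNat 26, .ofNat 0, .ofNat 182, .negSucc 38, .ofNat 0, .ofNat 0, .ofNat 672, .ofNat 230, .ofNat 0, .ofNat 84098492903955913813337295529811487227904, .ofNat 0, .ofNat 0, .ofNat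 0, .ofNat 0, .ofNat 0, .ofNat 0, .ofNat 0, .ofNat 8899073360773531716651648305350512641835008, .ofNat 4156226936429844727922956718568888258789376, .ofNat 0, .ofNat 0, .ofNat 35948975800410405628668790832697144172871680, .ofNat 1502292958848018359976492708822386342887424, .ofNat 0⟩)
    (by decide +kernel)
theorem L02237 : Good (Phi V5.P V5.D 1 (-1)) ⟨2, 0, 2, 2, 2, 2, 3, 6, 3, 1⟩ :=
  leafYS_sound T5.ok_pm T5.Ypm.bz_eq (w := 195) (c := ⟨⟨.negSucc 780, .negSucc 198, .negSucc 16, .negSucc 274, .negSucc 101, .negSucc 318⟩, ⟨.ofNat 345, .ofNat 116, .ofNat 335, .ofNat 172, .ofNat 67, .ofNat 192⟩, ⟨.ofNat 464, .ofNat 381, .ofNat 154, .ofNat 384, .ofNat 329, .ofNat 553⟩, ⟨.negSucc 2560, .negSucc 349, .negSucc 1, .negSucc 624, .negSucc 258, .negSucc 1046⟩, ⟨.negSucc 343, .negSucc 107, .ofNat 178, .ofNat 275, .ofNat 72, .negSucc 84⟩, .ofNat 999, .ofNat 840, .ofNat 0, .ofNat 840,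 .ofNat 1689, .ofNat 0, .ofNat 128, .negSucc 230, .negSucc 102, .ofNat 0, .ofNat 203, .ofNat 58, .ofNat 0, .ofNat 0, .ofNat 433, .ofNat 244, .ofNat 0, .ofNat 0, .ofNat 0, .ofNat 0, .ofNat 0, .ofNat 0, .ofNat 0, .ofNat 0, .ofNat 0, .ofNat 0, .ofNat 0, .ofNat 0, .ofNat 0, .ofNat 90222197819840375704919687569705271296, .ofNat 2349108189398518155785247962756546560, .ofNat 0⟩)
    (by decide +kernel)
theorem L02238 : Good (Phi V5.P V5.D 1 (-1)) ⟨2, 0, 2, 2, 2, 2, 3, 7, 3, 1⟩ :=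
  leafYS_sound T5.ok_pm T5.Ypm.bz_eq (w := 194) (c := ⟨⟨.negSucc 748, .negSucc 250, .negSucc 22, .negSucc 474, .negSucc 185, .negSucc 420⟩, ⟨.ofNat 337, .ofNat 138, .ofNat 356, .ofNat 291, .ofNat 104, .ofNat 239⟩, ⟨.ofNat 550, .ofNat 485, .ofNat 182, .ofNat 679, .ofNat 410, .ofNat 612⟩, ⟨.negSucc 2326, .negSucc 498, .negSucc 178, .negSucc 1208, .negSucc 443, .negSucc 1407⟩, ⟨.negSucc 145, .negSucc 149, .negSucc 117, .ofNat 366, .ofNat 154, .negSucc 143⟩, .ofNat 461, .ofNat 203, .ofNat 0, .ofNat 203, .ofNat 652, .ofNat 0, .ofNat 190, .negSucc 95, .negSucc 102, .ofNat 0, .ofNat 128, .ofNat 37, .ofNat 0, .ofNat 0, .ofNat 297, .ofNat 142, .ofNat 0, .ofNat 1913929215453546167145012767513116672, .ofNat 0, .ofNat 0, .ofNat 0, .ofNat 0, .ofNat 0, .ofNat 0, .ofNat 0, .ofNat 69835584328655649360695339275335499776, .ofNat 0, .ofNat 0, .ofNat 0, .ofNat 82434142032772448614398125038268055552,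 .ofNat 0, .ofNat 0⟩)
    (by decide +kernel)
theorem L02239 : Good (Phi V5.P V5.D 1 (-1)) ⟨2, 0, 2, 2, 3, 6, 2, 3, 4, 2⟩ :=
  leafYS_sound T5.ok_pm T5.Ypm.bz_eq (w := 210) (c := ⟨⟨.negSucc 791, .negSucc 379, .negSucc 0, .negSucc 130, .negSucc 606, .negSucc 449⟩, ⟨.ofNat 358, .ofNat 225, .ofNat 327, .ofNat 102, .ofNat 384, .ofNat 267⟩, ⟨.ofNat 637, .ofNat 481, .ofNat 196, .ofNat 133, .ofNat 1034, .ofNat 427⟩, ⟨.negSucc 2475, .negSucc 724, .ofNat 70, .negSucc 151, .negSucc 1432, .negSucc 1372⟩, ⟨.negSucc 18, .ofNat 34, .negSucc 36, .ofNat 472, .ofNat 621, .negSucc 78⟩, .ofNat 899, .ofNat 710, .ofNat 0, .ofNat 710, .ofNat 1565, .ofNat 0, .ofNat 128, .negSucc 167, .negSucc 70, .ofNat 0, .ofNat 143, .ofNat 33, .ofNat 0, .ofNat 0, .ofNat 266, .ofNat 201, .ofNat 0, .ofNat 15563771452202619639685628123883333746688, .ofNat 0, .ofNat 0, .ofNat 0, .ofNat 0, .ofNat 0, .ofNat 0, .ofNat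 0, .ofNat 487036991176992191389782257865967833972736, .ofNat 45494051763086519649931967739844001529856, .ofNat 0, .ofNat 0, .ofNat 429930816173454829930210265442425927368704, .ofNat 0, .ofNat 0⟩)
    (by decide +kernel)
theorem L02240 : Good (Phi V5.P V5.D 1 (-1)) ⟨2, 0, 3, 4, 3, 7, 2, 3, 4, 2⟩ :=
  leafYS_sound T5.ok_pm T5.Ypm.bz_eq (w := 214) (c := ⟨⟨.negSucc 896, .negSucc 418, .ofNat 15, .negSucc 298, .negSucc 648, .negSucc 478⟩, ⟨.ofNat 439, .ofNat 243, .ofNat 155, .ofNat 156, .ofNat 431, .ofNat 295⟩, ⟨.ofNat 804, .ofNat 383, .ofNat 132, .ofNat 160, .ofNat 924, .ofNat 402⟩, ⟨.negSucc 2647, .negSucc 835, .ofNat 108, .negSucc 1069, .negSucc 1253, .negSucc 1212⟩, ⟨.ofNat 280, .ofNat 8, .ofNat 29, .negSucc 366, .ofNat 1126, .ofNat 340⟩, .ofNat 1522, .ofNat 1600, .ofNat 0, .ofNat 1600, .ofNat 3071, .ofNat 0, .ofNat 128, .negSucc 207, .negSucc 35, .ofNat 0, .ofNat 156,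 .ofNat 12, .ofNat 0, .ofNat 0, .ofNat 280, .ofNat 151, .ofNat 0, .ofNat 121422356069114904189375638808101077909504, .ofNat 0, .ofNat 0, .ofNat 0, .ofNat 0, .ofNat 0, .ofNat 0, .ofNat 0, .ofNat 5099568473949073651649376315372924196356096, .ofNat 0, .ofNat 0, .ofNat 0, .ofNat 3823916770811286751165353333038406080397312, .ofNat 0, .ofNat 0⟩)
    (by decide +kernel)
theorem L02241 : Good (Phi V5.P V5.D 1 (-1)) ⟨2, 0, 3, 5, 3, 7, 2, 3, 4, 2⟩ :=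
  leafYS_sound T5.ok_pm T5.Ypm.bz_eq (w := 213) (c := ⟨⟨.negSucc 771, .negSucc 546, .ofNat 15, .negSucc 298, .negSucc 739, .negSucc 531⟩, ⟨.ofNat 513, .ofNat 290, .ofNat 192, .ofNat 198, .ofNat 501, .ofNat 362⟩, ⟨.ofNat 834, .ofNat 462, .ofNat 122, .ofNat 172, .ofNat 1063, .ofNat 448⟩, ⟨.negSucc 2283, .negSucc 1064, .negSucc 61, .negSucc 1239, .negSucc 1479, .negSucc 1430⟩, ⟨.ofNat 413, .negSucc 61, .negSucc 118, .negSucc 562, .ofNat 976, .ofNat 209⟩, .ofNat 1027, .ofNat 894, .ofNat 0, .ofNat 894, .ofNat 1762, .ofNat 0, .ofNat 128, .negSucc 182, .negSucc 31, .ofNat 0, .ofNat 144, .ofNat 8, .ofNat 0, .ofNat 0, .ofNat 221, .ofNat 103, .ofNat 0, .ofNat 104660651467756233227888908658646592782336, .ofNat 6235055490694099778159732549474964209664, .ofNat 0, .ofNat 0, .ofNat 0, .ofNat 0, .ofNat 0, .ofNat 0, .ofNat 3813295440951300140836665721030586268647424, .ofNat 99286508258932554854732998944733026844672,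 .ofNat 0, .ofNat 0, .ofNat 2444676176738277712636844660605156279189504, .ofNat 85567950089884316000238325608111887351808, .ofNat 0⟩)
    (by decide +kernel)
theorem L02242 : Good (Phi V5.P V5.D 1 (-1)) ⟨2, 0, 2, 2, 3, 6, 3, 6, 4, 3⟩ :=
  leafYS_sound T5.ok_pm T5.Ypm.bz_eq (w := 214) (c := ⟨⟨.negSucc 1230, .negSucc 337, .negSucc 43, .negSucc 222, .negSucc 241, .negSucc 67⟩, ⟨.ofNat 611, .ofNat 192, .ofNat 394, .ofNat 149, .ofNat 144, .ofNat 37⟩, ⟨.ofNat 1051, .ofNat 484, .ofNat 207, .ofNat 175, .ofNat 465, .ofNat 309⟩, ⟨.negSucc 3772, .negSucc 652, .negSucc 72, .negSucc 370, .negSucc 609, .negSucc 248⟩, ⟨.ofNat 27, .negSucc 130, .ofNat 21, .ofNat 449, .ofNat 141, .negSucc 103⟩, .ofNat 1217, .ofNat 1150, .ofNat 0, .ofNat 1150, .ofNat 2306, .ofNat 0, .ofNat 128, .negSucc 181, .negSucc 14, .ofNat 0, .ofNat 150, .ofNat 0, .ofNat 0, .ofNat 0, .ofNat 350, .ofNat 209, .ofNat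 0, .ofNat 0, .ofNat 0, .ofNat 0, .ofNat 0, .ofNat 0, .ofNat 0, .ofNat 0, .ofNat 0, .ofNat 3652759826814711975034746515959534936129536, .ofNat 0, .ofNat 0, .ofNat 0, .ofNat 5605485584063925072895600203453618924290048, .ofNat 0, .ofNat 0⟩)
    (by decide +kernel)
theorem L02243 : Good (Phi V5.P V5.D 1 (-1)) ⟨2, 0, 2, 2, 3, 6, 3, 7, 4, 3⟩ :=
  leafYS_sound T5.ok_pm T5.Ypm.bz_eq (w := 218) (c := ⟨⟨.negSucc 1430, .negSucc 406, .negSucc 36, .negSucc 356, .negSucc 284, .negSucc 283⟩, ⟨.ofNat 735, .ofNat 233, .ofNat 414, .ofNat 190, .ofNat 195, .ofNat 83⟩, ⟨.ofNat 1466, .ofNat 591, .ofNat 213, .ofNat 287, .ofNat 457, .ofNat 347⟩, ⟨.negSucc 4226, .negSucc 892, .negSucc 142, .negSucc 582, .negSucc 599, .negSucc 652⟩, ⟨.ofNat 279, .negSucc 196, .negSucc 144, .ofNat 498, .ofNat 216, .negSucc 196⟩, .ofNat 461, .ofNat 202, .ofNat 0, .ofNat 202, .ofNat 650, .ofNat 0, .ofNat 258, .negSucc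 105, .negSucc 64, .ofNat 0, .ofNat 128, .ofNat 8, .ofNat 0, .ofNat 0, .ofNat 275, .ofNat 3788, .ofNat 0, .ofNat 2984602725917020267480884823645252424302592, .ofNat 0, .ofNat 0, .ofNat 0, .ofNat 62583703386553631688954937785501861124505600, .ofNat 0, .ofNat 0, .ofNat 0, .ofNat 27702790939841740743181968304053935461629952, .ofNat 581836436271242620098363877981661817733120, .ofNat 0, .ofNat 0, .ofNat 31191596619130579068982486670948565050720256, .ofNat 541276465165137713608680238017362956124160, .ofNat 0⟩)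
    (by decide +kernel)
theorem L02244 : Good (Phi V5.P V5.D 1 (-1)) ⟨2, 0, 2, 2, 3, 7, 2, 3, 4, 3⟩ :=
  leafYS_sound T5.ok_pm T5.Ypm.bz_eq (w := 210) (c := ⟨⟨.negSucc 1356, .negSucc 455, .negSucc 71, .negSucc 277, .negSucc 468, .negSucc 116⟩, ⟨.ofNat 706, .ofNat 253, .ofNat 431, .ofNat 176, .ofNat 303, .ofNat 65⟩, ⟨.ofNat 1199, .ofNat 448, .ofNat 293, .ofNat 133, .ofNat 838, .ofNat 319⟩, ⟨.negSucc 3808, .negSucc 920, .negSucc 355, .negSucc 879, .negSucc 801, .negSucc 266⟩, ⟨.ofNat 664, .negSucc 87, .negSucc 442, .negSucc 105, .ofNat 1048, .ofNat 137⟩, .ofNat 897, .ofNat 704, .ofNat 0, .ofNat 704, .ofNat 1556, .ofNat 0, .ofNat 195, .negSucc 127, .ofNat 7, .ofNat 0, .ofNat 117, .negSucc 24, .ofNat 0, .ofNat 0, .ofNat 317, .ofNat 116, .ofNat 0, .ofNat 29375580163441677963570515978351391277056, .ofNat 0, .ofNat 0, .ofNat 0, .ofNat 0, .ofNat 0, .ofNat 0, .ofNat 0, .ofNat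 713722606967395447326636590085525873885184, .ofNat 33688300320183807213749125111317790720000, .ofNat 0, .ofNat 0, .ofNat 1670579713508279588824758475001230149025792, .ofNat 0, .ofNat 0⟩)
    (by decide +kernel)
theorem L02245 : Good (Phi V5.P V5.D 1 (-1)) ⟨2, 0, 2, 3, 1, 1, 1, 1, 2, 0⟩ :=
  out_sound (S := T5.ds_pm) T5.ok_pm (w := 37) (j := 3) (by decide +kernel)
theorem L02246 : Good (Phi V5.P V5.D 1 (-1)) ⟨2, 0, 1, 1, 2, 2, 3, 4, 4, 4⟩ :=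
  leafYS_sound T5.ok_pm T5.Ypm.bz_eq (w := 199) (c := ⟨⟨.negSucc 1124, .negSucc 137, .ofNat 12, .negSucc 120, .negSucc 7, .ofNat 38⟩, ⟨.ofNat 544, .ofNat 98, .ofNat 647, .ofNat 75, .ofNat 4, .negSucc 21⟩, ⟨.ofNat 847, .ofNat 255, .ofNat 103, .ofNat 86, .ofNat 161, .ofNat 233⟩, ⟨.negSucc 3605, .negSucc 154, .negSucc 69, .negSucc 305, .negSucc 5, .ofNat 109⟩, ⟨.negSucc 379, .negSucc 5, .ofNat 120, .ofNat 90, .ofNat 16, .negSucc 1⟩, .ofNat 874, .ofNat 666, .ofNat 0, .ofNat 666, .ofNat 1511, .ofNat 0, .ofNat 128, .negSucc 129, .negSucc 56, .ofNat 0, .ofNat 128, .ofNat 28, .ofNat 0, .ofNat 0, .ofNat 757, .ofNat 1665, .ofNat 0, .ofNat 0, .ofNat 0, .ofNat 0, .ofNat 0, .ofNat 0, .ofNat 0, .ofNat 0, .ofNat 0, .ofNat 0, .ofNat 74260324340295327781316274731500961792, .ofNat 0, .ofNat 0, .ofNat 364766521214549476048146702863840575488, .ofNat 174667306051196647073316540256371081216,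 .ofNat 0⟩)
    (by decide +kernel)
theorem L02247 : Good (Phi V5.P V5.D 1 (-1)) ⟨2, 0, 1, 1, 2, 2, 3, 5, 4, 4⟩ :=
  leafYS_sound T5.ok_pm T5.Ypm.bz_eq (w := 197) (c := ⟨⟨.negSucc 1103, .negSucc 160, .ofNat 24, .negSucc 161, .negSucc 25, .ofNat 21⟩, ⟨.ofNat 530, .ofNat 100, .ofNat 656, .ofNat 103, .ofNat 19, .negSucc 14⟩, ⟨.ofNat 874, .ofNat 350, .ofNat 187, .ofNat 313, .ofNat 199, .ofNat 259⟩, ⟨.negSucc 3513, .negSucc 229, .negSucc 99, .negSucc 447, .negSucc 80, .ofNat 74⟩, ⟨.negSucc 335, .negSucc 66, .ofNat 27, .ofNat 75, .ofNat 14, .negSucc 5⟩, .ofNat 902, .ofNat 711, .ofNat 0, .ofNat 711, .ofNat 1562, .ofNat 0, .ofNat 128, .negSucc 135, .negSucc 30, .ofNat 0, .ofNat 130, .ofNat 11, .ofNat 0, .ofNat 0, .ofNat 571, .ofNat 334, .ofNat 0, .ofNat 0, .ofNat 1203618326249365423475008653190234112, .ofNat 0, .ofNat 0, .ofNat 0, .ofNat 0, .ofNat 0, .ofNat 0, .ofNat 82792525720568317677183181809833213952,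 .ofNat 39885889261115805022938130844936568832, .ofNat 0, .ofNat 0, .ofNat 254549457501640651821865004387320987648, .ofNat 96166609296806395240221085336369889280, .ofNat 0⟩)
    (by decide +kernel)
theorem L02248 : Good (Phi V5.P V5.D 1 (-1)) ⟨3, 0, 2, 2, 3, 4, 3, 4, 4, 5⟩ :=
  leafYS_sound T5.ok_pm T5.Ypm.bz_eq (w := 221) (c := ⟨⟨.negSucc 1106, .negSucc 44, .ofNat 19, .negSucc 30, .negSucc 6, .ofNat 68⟩, ⟨.ofNat 536, .ofNat 46, .ofNat 295, .ofNat 16, .ofNat 4, .negSucc 38⟩, ⟨.ofNat 985, .ofNat 160, .ofNat 97, .ofNat 137, .ofNat 165, .ofNat 322⟩, ⟨.negSucc 3499, .negSucc 83, .negSucc 45, .negSucc 114, .negSucc 5, .ofNat 207⟩, ⟨.negSucc 327, .negSucc 25, .negSucc 12, .negSucc 48, .ofNat 11, .ofNat 5⟩, .ofNat 870, .ofNat 649, .ofNat 0, .ofNat 649, .ofNat 1490, .ofNat 0, .ofNat 128, .negSucc 124, .negSucc 55, .ofNat 0, .ofNat 128, .ofNat 21, .ofNat 0, .ofNat 0, .ofNat 1776,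 .ofNat 3836, .ofNat 0, .ofNat 0, .ofNat 0, .ofNat 0, .ofNat 0, .ofNat 0, .ofNat 0, .ofNat 0, .ofNat 0, .ofNat 43758063979191555041806701116400924668985344, .ofNat 836642574513300433011696565104776736407552, .ofNat 0, .ofNat 0, .ofNat 0, .ofNat 0, .ofNat 0⟩)
    (by decide +kernel)
theorem L02249 : Good (Phi V5.P V5.D 1 (-1)) ⟨3, 0, 2, 2, 3, 4, 3, 5, 4, 5⟩ :=
  leafYS_sound T5.ok_pm T5.Ypm.bz_eq (w := 220) (c := ⟨⟨.negSucc 1107, .negSucc 50, .ofNat 25, .negSucc 32, .negSucc 22, .ofNat 73⟩, ⟨.ofNat 537, .ofNat 50, .ofNat 292, .ofNat 17, .ofNat 14, .negSucc 42⟩, ⟨.ofNat 1047, .ofNat 155, .ofNat 190, .ofNat 258, .ofNat 177, .ofNat 418⟩, ⟨.negSucc 3465, .negSucc 119, .negSucc 34, .negSucc 123, .negSucc 59, .ofNat 186⟩, ⟨.negSucc 275, .negSucc 61, .negSucc 32, .negSucc 44, .ofNat 17, .negSucc 43⟩, .ofNat 1563, .ofNat 1635, .ofNat 0, .ofNat 1635, .ofNat 3099, .ofNat 0, .ofNat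 128, .negSucc 181, .negSucc 11, .ofNat 0, .ofNat 152, .negSucc 1, .ofNat 0, .ofNat 0, .ofNat 1377, .ofNat 1843, .ofNat 0, .ofNat 0, .ofNat 48966139625467819421641353674103719985152, .ofNat 0, .ofNat 0, .ofNat 0, .ofNat 0, .ofNat 0, .ofNat 0, .ofNat 88196824925422638977970647414164870070796288, .ofNat 1295578538914489428350894455529291925946368, .ofNat 0, .ofNat 0, .ofNat 1092525082776030153247449092726331144520335360, .ofNat 5388352175228040433260710247628568893849600, .ofNat 0⟩)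
    (by decide +kernel)
theorem L02250 : Good (Phi V5.P V5.D 1 (-1)) ⟨3, 1, 2, 2, 4, 8, 2, 2, 4, 5⟩ :=
  leafYS_sound T5.ok_pm T5.Ypm.bz_eq (w := 230) (c := ⟨⟨.negSucc 1143, .negSucc 102, .ofNat 23, .negSucc 22, .negSucc 33, .ofNat 69⟩, ⟨.ofNat 577, .ofNat 38, .ofNat 302, .ofNat 14, .ofNat 17, .negSucc 40⟩, ⟨.ofNat 1070, .ofNat 181, .ofNat 126, .ofNat 96, .ofNat 458, .ofNat 332⟩, ⟨.negSucc 3522, .negSucc 94, .negSucc 39, .negSucc 88, .negSucc 138, .ofNat 189⟩, ⟨.negSucc 301, .negSucc 36, .negSucc 13, .negSucc 44, .negSucc 84, .negSucc 12⟩, .ofNat 472, .ofNat 229, .ofNat 0, .ofNat 229, .ofNat 668, .ofNat 0, .ofNat 128, .negSucc 102, .negSucc 62, .ofNat 0, .ofNat 142, .ofNat 12, .ofNat 0, .ofNat 0, .ofNat 1410, .ofNat 2078, .ofNat 0, .ofNat 0, .ofNat 0, .ofNat 0, .ofNat 0, .ofNat 0, .ofNat 0, .ofNat 0, .ofNat 0, .ofNat 42101185988859058587302268030538151503421505536, .ofNat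 587317038248313244814269316634569628910092288, .ofNat 0, .ofNat 0, .ofNat 745772150273317670169378112251081261258400333824, .ofNat 5604206798427477069077038501106341599927861248, .ofNat 0⟩)
    (by decide +kernel)
theorem L02251 : Good (Phi V5.P V5.D 1 (-1)) ⟨3, 1, 2, 2, 4, 9, 2, 2, 4, 5⟩ :=
  leafYS_sound T5.ok_pm T5.Ypm.bz_eq (w := 230) (c := ⟨⟨.negSucc 1172, .negSucc 101, .ofNat 19, .negSucc 25, .negSucc 20, .ofNat 85⟩, ⟨.ofNat 593, .ofNat 37, .ofNat 306, .ofNat 16, .ofNat 11, .negSucc 53⟩, ⟨.ofNat 1072, .ofNat 186, .ofNat 177, .ofNat 58, .ofNat 673, .ofNat 405⟩, ⟨.negSucc 3605, .negSucc 87, .negSucc 61, .negSucc 67, .negSucc 143, .ofNat 205⟩, ⟨.negSucc 306, .negSucc 25, .negSucc 31, .negSucc 3, .negSucc 129, .negSucc 62⟩, .ofNat 1298, .ofNat 1291, .ofNat 0, .ofNat 1291, .ofNat 2494, .ofNat 0, .ofNat 128, .negSucc 227, .negSucc 17, .ofNat 0, .ofNat 191, .ofNat 0, .ofNat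 0, .ofNat 0, .ofNat 1797, .ofNat 1974, .ofNat 0, .ofNat 0, .ofNat 51251547147314649893605340156366716674244608, .ofNat 0, .ofNat 0, .ofNat 0, .ofNat 0, .ofNat 0, .ofNat 0, .ofNat 159770857453894488968159537326928304467186024448, .ofNat 2047031699927355163156444470543576738876620800, .ofNat 0, .ofNat 0, .ofNat 1773200478423753714739641391773337397573418221568, .ofNat 10185649492615060213113347935588715791967584256, .ofNat 0⟩)
    (by decide +kernel)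
theorem L02252 : Good (Phi V5.P V5.D 1 (-1)) ⟨2, 0, 2, 2, 3, 5, 3, 4, 5, 10⟩ :=
  leafYS_sound T5.ok_pm T5.Ypm.bz_eq (w := 220) (c := ⟨⟨.negSucc 1132, .negSucc 164, .ofNat 5, .negSucc 59, .negSucc 14, .ofNat 56⟩, ⟨.ofNat 547, .ofNat 108, .ofNat 329, .ofNat 36, .ofNat 7, .negSucc 32⟩, ⟨.ofNat 973, .ofNat 325, .ofNat 193, .ofNat 176, .ofNat 314, .ofNat 203⟩, ⟨.negSucc 3605, .negSucc 197, .negSucc 89, .negSucc 117, .negSucc 57, .ofNat 137⟩, ⟨.negSucc 339, .ofNat 13, .negSucc 25, .ofNat 74, .negSucc 37, .negSucc 39⟩, .ofNat 459, .ofNat 199, .ofNat 0, .ofNat 199, .ofNat 649, .ofNat 0, .ofNat 154, .negSucc 84, .ofNat 2, .ofNat 0, .ofNat 128, .negSucc 28, .ofNat 0, .ofNat 0, .ofNat 982, .ofNat 1448, .ofNat 0, .ofNat 0, .ofNat 0, .ofNat 0, .ofNat 0, .ofNat 0, .ofNat 0, .ofNat 0, .ofNat 0, .ofNat 25205165284033642046026733382830115109470208, .ofNat 67420870062332714770665794494028815961948160,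 .ofNat 0, .ofNat 0, .ofNat 240940469976188402610485837293627234469281792, .ofNat 405811749414990736046807788004762064447864832, .ofNat 0⟩)
    (by decide +kernel)
theorem L02253 : Good (Phi V5.P V5.D 1 (-1)) ⟨2, 0, 2, 2, 4, 10, 3, 4, 5, 11⟩ :=
  leafYS_sound T5.ok_pm T5.Ypm.bz_eq (w := 235) (c := ⟨⟨.negSucc 1096, .negSucc 155, .ofNat 34, .negSucc 20, .ofNat 1, .ofNat 57⟩, ⟨.ofNat 539, .ofNat 88, .ofNat 303, .ofNat 5, .negSucc 3, .negSucc 37⟩, ⟨.ofNat 1123, .ofNat 356, .ofNat 239, .ofNat 146, .ofNat 420, .ofNat 304⟩, ⟨.negSucc 3504, .negSucc 195, .negSucc 57, .negSucc 28, .negSucc 34, .ofNat 155⟩, ⟨.negSucc 318, .negSucc 55, .negSucc 53, .ofNat 0, .negSucc 84, .negSucc 34⟩, .ofNat 461, .ofNat 204, .ofNat 0, .ofNat 204, .ofNat 652, .ofNat 0, .ofNat 152, .negSucc 84, .ofNat 36, .ofNat 0, .ofNat 128, .negSucc 55, .ofNat 0, .ofNat 0, .ofNat 1441, .ofNat 1546, .ofNat 0, .ofNat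 0, .ofNat 59222373096633765113693889343594211019491115008, .ofNat 0, .ofNat 0, .ofNat 0, .ofNat 0, .ofNat 0, .ofNat 0, .ofNat 120824851913186872076087765017887666742593847296, .ofNat 1639271195709211850822882465196437561571503243264, .ofNat 0, .ofNat 0, .ofNat 3840688894414379363140961169577421053875072270336, .ofNat 0, .ofNat 0⟩)
    (by decide +kernel)
theorem L02254 : Good (Phi V5.P V5.D 1 (-1)) ⟨2, 0, 2, 2, 4, 11, 3, 4, 5, 11⟩ :=
  leafYS_sound T5.ok_pm T5.Ypm.bz_eq (w := 235) (c := ⟨⟨.negSucc 1111, .negSucc 164, .ofNat 27, .negSucc 15, .ofNat 16, .ofNat 65⟩, ⟨.ofNat 546, .ofNat 94, .ofNat 304, .ofNat 8, .negSucc 5, .negSucc 44⟩, ⟨.ofNat 1217, .ofNat 352, .ofNat 266, .ofNat 131, .ofNat 411, .ofNat 373⟩, ⟨.negSucc 3550, .negSucc 184, .negSucc 64, .negSucc 6, .negSucc 15, .ofNat 170⟩, ⟨.negSucc 328, .negSucc 2, .negSucc 51, .ofNat 37, .negSucc 79, .negSucc 72⟩, .ofNat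 462, .ofNat 204, .ofNat 0, .ofNat 204, .ofNat 652, .ofNat 0, .ofNat 176, .negSucc 83, .ofNat 36, .ofNat 0, .ofNat 128, .negSucc 42, .ofNat 0, .ofNat 0, .ofNat 763, .ofNat 1588, .ofNat 0, .ofNat 14280252679030039616010502317682113257895100416, .ofNat 0, .ofNat 0, .ofNat 0, .ofNat 0, .ofNat 0, .ofNat 0, .ofNat 0, .ofNat 399495655871240225603212744992420817555511312384, .ofNat 0, .ofNat 0, .ofNat 0, .ofNat 2000178286232003906714742862951026781995879366656, .ofNat 598870894382031436104810668246008233570726838272, .ofNat 0⟩)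
    (by decide +kernel)
theorem L02255 : Good (Phi V5.P V5.D 1 (-1)) ⟨2, 0, 2, 2, 3, 5, 3, 5, 5, 10⟩ :=
  leafYS_sound T5.ok_pm T5.Ypm.bz_eq (w := 220) (c := ⟨⟨.negSucc 1139, .negSucc 185, .ofNat 32, .negSucc 53, .negSucc 27, .ofNat 58⟩, ⟨.ofNat 559, .ofNat 102, .ofNat 320, .ofNat 32, .ofNat 6, .negSucc 31⟩, ⟨.ofNat 1164, .ofNat 424, .ofNat 220, .ofNat 310, .ofNat 372, .ofNat 276⟩, ⟨.negSucc 3608, .negSucc 281, .negSucc 67, .negSucc 141, .negSucc 87, .ofNat 117⟩, ⟨.negSucc 279, .negSucc 99, .negSucc 71, .ofNat 18, .negSucc 53, .negSucc 74⟩, .ofNat 462, .ofNat 205, .ofNat 0, .ofNat 205, .ofNat 652, .ofNat 0, .ofNat 128, .negSucc 99, .ofNat 16, .ofNat 0, .ofNat 145, .negSucc 39, .ofNat 0, .ofNat 0, .ofNat 829, .ofNat 909, .ofNat 0, .ofNat 1590327118878478243590275074849527191044096, .ofNat 376532940272634977484856324879956505001984, .ofNat 0, .ofNat 0, .ofNat 27176152974965528766896554722990979343712256,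 .ofNat 0, .ofNat 0, .ofNat 0, .ofNat 84696172699942768693958907272201714985336832, .ofNat 0, .ofNat 0, .ofNat 0, .ofNat 421796656657966792504936924553971614770790400, .ofNat 5051239276338097256790642749452018274795520, .ofNat 0⟩)
    (by decide +kernel)
theorem L02256 : Good (Phi V5.P V5.D 1 (-1)) ⟨2, 0, 2, 2, 4, 10, 3, 5, 5, 11⟩ :=
  leafYS_sound T5.ok_pm T5.Ypm.bz_eq (w := 235) (c := ⟨⟨.negSucc 1107, .negSucc 158, .ofNat 42, .negSucc 5, .ofNat 9, .ofNat 65⟩, ⟨.ofNat 538, .ofNat 89, .ofNat 293, .ofNat 9, .ofNat 6, .negSucc 37⟩, ⟨.ofNat 1390, .ofNat 438, .ofNat 343, .ofNat 200, .ofNat 448, .ofNat 388⟩, ⟨.negSucc 3509, .negSucc 243, .negSucc 56, .negSucc 42, .negSucc 61, .ofNat 152⟩, ⟨.negSucc 312, .negSucc 117, .negSucc 105, .negSucc 34, .negSucc 90, .negSucc 75⟩, .ofNat 460, .ofNat 201, .ofNat 0, .ofNat 201, .ofNat 650, .ofNat 0, .ofNat 266, .negSucc 84, .ofNat 55, .ofNat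 0, .ofNat 128, .negSucc 82, .ofNat 0, .ofNat 0, .ofNat 1587, .ofNat 1786, .ofNat 0, .ofNat 27969476710586527869285113513346689059096887296, .ofNat 20933428415635987427217108379497811199819513856, .ofNat 0, .ofNat 0, .ofNat 0, .ofNat 0, .ofNat 0, .ofNat 0, .ofNat 764319009748917573428090166286230169818144702464, .ofNat 0, .ofNat 0, .ofNat 0, .ofNat 8037772987714181425299134577846612306714962165760, .ofNat 0, .ofNat 0⟩)
    (by decide +kernel)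
theorem L02257 : Good (Phi V5.P V5.D 1 (-1)) ⟨2, 0, 2, 2, 4, 11, 3, 5, 5, 11⟩ :=
  out_sound (S := T5.ds_pm) T5.ok_pm (w := 38) (j := 2) (by decide +kernel)
theorem L02258 : Good (Phi V5.P V5.D 1 (-1)) ⟨2, 0, 2, 3, 2, 2, 2, 2, 4, 5⟩ :=
  out_sound (S := T5.ds_pm) T5.ok_pm (w := 37) (j := 3) (by decide +kernel)
theorem L02259 : Good (Phi V5.P V5.D 1 (-1)) ⟨2, 0, 2, 2, 3, 4, 3, 6, 4, 4⟩ :=
  leafYS_sound T5.ok_pm T5.Ypm.bz_eq (w := 215) (c := ⟨⟨.negSucc 1100, .negSucc 185, .ofNat 6, .negSucc 94, .negSucc 79, .ofNat 20⟩, ⟨.ofNat 539, .ofNat 110, .ofNat 334, .ofNat 53, .ofNat 45, .negSucc 13⟩, ⟨.ofNat 973, .ofNat 418, .ofNat 128, .ofNat 259, .ofNat 233, .ofNat 269⟩, ⟨.negSucc 3472, .negSucc 346, .negSucc 93, .negSucc 295, .negSucc 219, .ofNat 54⟩, ⟨.negSucc 229, .negSucc 173, .negSucc 50, .negSucc 32, .ofNat 19, .negSucc 18⟩, .ofNat 461, .ofNat 203, .ofNat 0, .ofNat 203,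 .ofNat 651, .ofNat 0, .ofNat 287, .negSucc 88, .negSucc 52, .ofNat 0, .ofNat 128, .ofNat 3, .ofNat 0, .ofNat 0, .ofNat 667, .ofNat 924, .ofNat 0, .ofNat 0, .ofNat 0, .ofNat 0, .ofNat 0, .ofNat 0, .ofNat 0, .ofNat 0, .ofNat 0, .ofNat 2913068960404594229158958505471625266200576, .ofNat 366825271671851052673419515373978327711744, .ofNat 0, .ofNat 0, .ofNat 16760934360958901413040612287219737177358336, .ofNat 2526942818657638770267456766751116380602368, .ofNat 0⟩)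
    (by decide +kernel)
theorem L02260 : Good (Phi V5.P V5.D 1 (-1)) ⟨2, 0, 2, 2, 3, 5, 3, 6, 4, 4⟩ :=
  leafYS_sound T5.ok_pm T5.Ypm.bz_eq (w := 214) (c := ⟨⟨.negSucc 1200, .negSucc 221, .ofNat 13, .negSucc 157, .negSucc 126, .ofNat 49⟩, ⟨.ofNat 588, .ofNat 125, .ofNat 343, .ofNat 98, .ofNat 84, .negSucc 30⟩, ⟨.ofNat 1138, .ofNat 472, .ofNat 220, .ofNat 252, .ofNat 352, .ofNat 352⟩, ⟨.negSucc 3744, .negSucc 446, .negSucc 99, .negSucc 374, .negSucc 343, .ofNat 101⟩, ⟨.negSucc 203, .negSucc 202, .negSucc 105, .ofNat 123, .ofNat 32, .negSucc 81⟩, .ofNat 878, .ofNat 676, .ofNat 0, .ofNat 676, .ofNat 1524, .ofNat 0, .ofNat 135, .negSucc 127, .negSucc 6, .ofNat 0, .ofNat 123, .negSucc 5, .ofNat 0, .ofNat 0, .ofNat 424, .ofNat 351, .ofNat 0, .ofNat 153310481439679880838403376508748309725184, .ofNat 0, .ofNat 0, .ofNat 0, .ofNat 0, .ofNat 0, .ofNat 0, .ofNat 0, .ofNat 5103479799750084858844597933957446639812608,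 .ofNat 0, .ofNat 0, .ofNat 0, .ofNat 12491048917911999615656007802713397782380544, .ofNat 0, .ofNat 0⟩)
    (by decide +kernel)
theorem L02261 : Good (Phi V5.P V5.D 1 (-1)) ⟨2, 0, 2, 2, 2, 2, 3, 7, 4, 4⟩ :=
  leafYS_sound T5.ok_pm T5.Ypm.bz_eq (w := 201) (c := ⟨⟨.negSucc 1161, .negSucc 225, .ofNat 33, .negSucc 310, .negSucc 96, .negSucc 8⟩, ⟨.ofNat 569, .ofNat 123, .ofNat 329, .ofNat 179, .ofNat 88, .ofNat 6⟩, ⟨.ofNat 1172, .ofNat 437, .ofNat 129, .ofNat 692, .ofNat 229, .ofNat 218⟩, ⟨.negSucc 3560, .negSucc 506, .negSucc 52, .negSucc 1017, .negSucc 376, .negSucc 68⟩, ⟨.negSucc 139, .negSucc 273, .negSucc 48, .negSucc 76, .ofNat 37, .negSucc 26⟩, .ofNat 195, .ofNat 34, .ofNat 0, .ofNat 34, .ofNat 227, .ofNat 0, .ofNat 342, .negSucc 43, .negSucc 122, .ofNat 0, .ofNat 128, .negSucc 5, .ofNat 0, .ofNat 0, .ofNat 423, .ofNat 863, .ofNat 0, .ofNat 120212113955629528376496065315405299712,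 .ofNat 0, .ofNat 0, .ofNat 0, .ofNat 3309021863618828789309466404462771830784, .ofNat 0, .ofNat 0, .ofNat 0, .ofNat 1679203373361533844550076279563174805504, .ofNat 0, .ofNat 0, .ofNat 0, .ofNat 6054449572982334153193845066296557830144, .ofNat 0, .ofNat 0⟩)
    (by decide +kernel)
theorem L02262 : Good (Phi V5.P V5.D 1 (-1)) ⟨2, 0, 2, 3, 2, 2, 2, 3, 4, 4⟩ :=
  out_sound (S := T5.ds_pm) T5.ok_pm (w := 37) (j := 3) (by decide +kernel)
theorem L02263 : Good (Phi V5.P V5.D 1 (-1)) ⟨2, 0, 2, 2, 4, 8, 3, 6, 4, 5⟩ :=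
  leafYS_sound T5.ok_pm T5.Ypm.bz_eq (w := 230) (c := ⟨⟨.negSucc 1111, .negSucc 147, .ofNat 39, .negSucc 23, .negSucc 76, .ofNat 60⟩, ⟨.ofNat 547, .ofNat 89, .ofNat 292, .ofNat 16, .ofNat 40, .negSucc 38⟩, ⟨.ofNat 1194, .ofNat 423, .ofNat 283, .ofNat 166, .ofNat 124, .ofNat 418⟩, ⟨.negSucc 3471, .negSucc 294, .negSucc 41, .negSucc 104, .negSucc 179, .ofNat 157⟩, ⟨.negSucc 220, .negSucc 192, .negSucc 84, .negSucc 47, .ofNat 29, .negSucc 50⟩, .ofNat 463, .ofNat 206, .ofNat 0, .ofNat 206, .ofNat 653, .ofNat 0, .ofNat 254, .negSucc 85, .negSucc 10, .ofNat 0, .ofNat 128, .negSucc 21, .ofNat 0, .ofNat 0, .ofNat 794, .ofNat 1142, .ofNat 0, .ofNat 389668090516280245632981440729478740538556416, .ofNat 2235190707972321769693375047293557575138672640, .ofNat 0, .ofNat 0, .ofNat 0, .ofNat 0, .ofNat 0, .ofNat 0, .ofNat 29966492095537977611032528383546028621125648384, .ofNat 0, .ofNat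 0, .ofNat 0, .ofNat 178627517848421292704452937815697351647705432064, .ofNat 34864664638964225921511555637039348366778040320, .ofNat 0⟩)
    (by decide +kernel)
theorem L02264 : Good (Phi V5.P V5.D 1 (-1)) ⟨2, 0, 2, 2, 4, 9, 3, 6, 4, 5⟩ :=
  leafYS_sound T5.ok_pm T5.Ypm.bz_eq (w := 230) (c := ⟨⟨.negSucc 1144, .negSucc 166, .ofNat 27, .negSucc 32, .negSucc 58, .ofNat 95⟩, ⟨.ofNat 562, .ofNat 101, .ofNat 312, .ofNat 12, .ofNat 27, .negSucc 60⟩, ⟨.ofNat 1298, .ofNat 461, .ofNat 253, .ofNat 218, .ofNat 352, .ofNat 532⟩, ⟨.negSucc 3576, .negSucc 341, .negSucc 74, .negSucc 111, .negSucc 172, .ofNat 206⟩, ⟨.negSucc 231, .negSucc 210, .negSucc 89, .negSucc 51, .negSucc 47, .negSucc 108⟩, .ofNat 461, .ofNat 201, .ofNat 0, .ofNat 201, .ofNat 650, .ofNat 0, .ofNat 327, .negSucc 86, .negSucc 2, .ofNat 0, .ofNat 128, .negSucc 36, .ofNat 0, .ofNat 0, .ofNat 954, .ofNat 1756, .ofNat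 0, .ofNat 3350802017984746241706486726252403974041763840, .ofNat 2031811162575812711498760974086838911565299712, .ofNat 0, .ofNat 0, .ofNat 0, .ofNat 0, .ofNat 0, .ofNat 0, .ofNat 68711671874411843677533933610789375021273841664, .ofNat 4008383252032665987784151485634540657790943232, .ofNat 0, .ofNat 0, .ofNat 459162334003959949802204591866749247108117692416, .ofNat 969272344638130304069090149481234382012284928, .ofNat 0⟩)
    (by decide +kernel)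
theorem L02265 : Good (Phi V5.P V5.D 1 (-1)) ⟨2, 0, 2, 3, 3, 4, 3, 6, 4, 5⟩ :=
  out_sound (S := T5.ds_pm) T5.ok_pm (w := 37) (j := 3) (by decide +kernel)
theorem L02266 : Good (Phi V5.P V5.D 1 (-1)) ⟨2, 0, 1, 1, 3, 5, 3, 6, 4, 5⟩ :=
  leafYS_sound T5.ok_pm T5.Ypm.bz_eq (w := 214) (c := ⟨⟨.negSucc 1169, .negSucc 185, .ofNat 56, .ofNat 1, .negSucc 83, .ofNat 1⟩, ⟨.ofNat 572, .ofNat 105, .ofNat 644, .ofNat 0, .ofNat 53, .ofNat 0⟩, ⟨.ofNat 1491, .ofNat 485, .ofNat 531, .negSucc 0, .ofNat 535, .negSucc 0⟩, ⟨.negSucc 3675, .negSucc 372, .negSucc 175, .ofNat 2, .negSucc 212, .ofNat 2⟩, ⟨.negSucc 265, .negSucc 213, .negSucc 226, .ofNat 0, .negSucc 145, .ofNat 0⟩, .ofNat 195, .ofNat 34, .ofNat 0, .ofNat 34, .ofNat 227, .ofNat 0, .ofNat 498, .negSucc 48, .negSucc 17, .ofNat 0, .ofNat 128, .negSucc 138, .ofNat 0, .ofNat 0, .ofNat 1126, .ofNat 4110, .ofNat 0, .ofNat 480428447798182673764228759718622316724224,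 .ofNat 0, .ofNat 0, .ofNat 0, .ofNat 12286665837339856258688482822595637613166592, .ofNat 304998995157887335577103115901548330221568, .ofNat 0, .ofNat 0, .ofNat 5132130193397958592394781544925667656728576, .ofNat 500885363410547543268512107816699079688192, .ofNat 0, .ofNat 0, .ofNat 58074273289389211159270170541513782717317120, .ofNat 6000253157179684569112083936154487386800128, .ofNat 0⟩)
    (by decide +kernel)
theorem L02267 : Good (Phi V5.P V5.D 1 (-1)) ⟨2, 0, 1, 1, 2, 2, 3, 7, 4, 5⟩ :=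
  out_sound (S := T5.ds_pm) T5.ok_pm (w := 32) (j := 2) (by decide +kernel)
theorem L02268 : Good (Phi V5.P V5.D 1 (-1)) ⟨2, 0, 2, 2, 3, 6, 2, 2, 5, 8⟩ :=
  leafYS_sound T5.ok_pm T5.Ypm.bz_eq (w := 216) (c := ⟨⟨.negSucc 1213, .negSucc 262, .negSucc 47, .negSucc 106, .negSucc 83, .ofNat 34⟩, ⟨.ofNat 605, .ofNat 159, .ofNat 373, .ofNat 71, .ofNat 51, .negSucc 20⟩, ⟨.ofNat 809, .ofNat 345, .ofNat 102, .ofNat 134, .ofNat 656, .ofNat 143⟩, ⟨.negSucc 3823, .negSucc 367, .negSucc 36, .negSucc 53, .negSucc 306, .ofNat 51⟩, ⟨.negSucc 192, .ofNat 95, .ofNat 132, .ofNat 379, .negSucc 92, .negSucc 69⟩, .ofNat 908, .ofNat 718, .ofNat 0, .ofNat 718, .ofNat 1566, .ofNat 0, .ofNat 128, .negSucc 184, .ofNat 4, .ofNat 0, .ofNat 179, .negSucc 23, .ofNat 0, .ofNat 0, .ofNat 863, .ofNat 750, .ofNat 0, .ofNat 0, .ofNat 0, .ofNat 0, .ofNat 0, .ofNat 0, .ofNat 0, .ofNat 0, .ofNat 0, .ofNat 13300177925633801898648348529884761230934016,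 .ofNat 2839132795580125922256456954503658066673664, .ofNat 0, .ofNat 0, .ofNat 62782506298633629124599299733680965009014784, .ofNat 5024228953130319074776293043110280905621504, .ofNat 0⟩)
    (by decide +kernel)
theorem L02269 : Good (Phi V5.P V5.D 1 (-1)) ⟨2, 0, 2, 2, 3, 6, 3, 4, 5, 9⟩ :=
  leafYS_sound T5.ok_pm T5.Ypm.bz_eq (w := 220) (c := ⟨⟨.negSucc 1221, .negSucc 233, .negSucc 13, .negSucc 73, .negSucc 20, .ofNat 64⟩, ⟨.ofNat 601, .ofNat 138, .ofNat 350, .ofNat 59, .ofNat 17, .negSucc 36⟩, ⟨.ofNat 932, .ofNat 318, .ofNat 172, .ofNat 129, .ofNat 325, .ofNat 184⟩, ⟨.negSucc 3814, .negSucc 297, .negSucc 28, .negSucc 3, .negSucc 70, .ofNat 124⟩, ⟨.negSucc 219, .ofNat 92, .ofNat 67, .ofNat 356, .negSucc 6, .negSucc 86⟩, .ofNat 897, .ofNat 705, .ofNat 0, .ofNat 705, .ofNat 1555, .ofNat 0, .ofNat 150, .negSucc 127, .ofNat 25, .ofNat 0, .ofNat 128, .negSucc 28, .ofNat 0,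 .ofNat 0, .ofNat 582, .ofNat 644, .ofNat 0, .ofNat 0, .ofNat 0, .ofNat 0, .ofNat 0, .ofNat 0, .ofNat 0, .ofNat 0, .ofNat 0, .ofNat 39592027671384848871977143995209728219152384, .ofNat 0, .ofNat 0, .ofNat 0, .ofNat 149882482092939061333060307997676645916868608, .ofNat 15949375390150687908451241853363483242921984, .ofNat 0⟩)
    (by decide +kernel)
theorem L02270 : Good (Phi V5.P V5.D 1 (-1)) ⟨2, 0, 2, 2, 3, 6, 3, 5, 5, 9⟩ :=
  leafYS_sound T5.ok_pm T5.Ypm.bz_eq (w := 219) (c := ⟨⟨.negSucc 1242, .negSucc 235, .ofNat 2, .negSucc 90, .negSucc 47, .ofNat 70⟩, ⟨.ofNat 621, .ofNat 132, .ofNat 348, .ofNat 61, .ofNat 24, .negSucc 49⟩, ⟨.ofNat 1129, .ofNat 443, .ofNat 246, .ofNat 286, .ofNat 465, .ofNat 301⟩, ⟨.negSucc 3846, .negSucc 369, .negSucc 88, .negSucc 107, .negSucc 174, .ofNat 140⟩, ⟨.negSucc 130, .negSucc 46, .negSucc 66, .ofNat 245, .negSucc 86, .negSucc 132⟩, .ofNat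 460, .ofNat 202, .ofNat 0, .ofNat 202, .ofNat 651, .ofNat 0, .ofNat 128, .negSucc 89, .ofNat 18, .ofNat 0, .ofNat 130, .negSucc 31, .ofNat 0, .ofNat 0, .ofNat 371, .ofNat 363, .ofNat 0, .ofNat 1418616172153275967714649188331417266814976, .ofNat 0, .ofNat 0, .ofNat 0, .ofNat 0, .ofNat 0, .ofNat 0, .ofNat 0, .ofNat 46798252833575310277465174389943082791469056, .ofNat 0, .ofNat 0, .ofNat 0, .ofNat 111570394202599792604483506266274085656854528, .ofNat 0, .ofNat 0⟩)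
    (by decide +kernel)
theorem L02271 : Good (Phi V5.P V5.D 1 (-1)) ⟨2, 0, 2, 2, 3, 7, 3, 4, 4, 4⟩ :=
  leafYS_sound T5.ok_pm T5.Ypm.bz_eq (w := 215) (c := ⟨⟨.negSucc 1294, .negSucc 284, .negSucc 76, .negSucc 120, .negSucc 49, .ofNat 108⟩, ⟨.ofNat 674, .ofNat 173, .ofNat 381, .ofNat 84, .ofNat 28, .negSucc 84⟩, ⟨.ofNat 869, .ofNat 275, .ofNat 209, .ofNat 272, .ofNat 356, .ofNat 390⟩, ⟨.negSucc 3807, .negSucc 320, .negSucc 65, .negSucc 250, .negSucc 212, .ofNat 198⟩, ⟨.ofNat 288, .ofNat 260, .ofNat 100, .ofNat 165, .negSucc 105, .negSucc 257⟩, .ofNat 1623, .ofNat 1745, .ofNat 0, .ofNat 1745, .ofNat 3254, .ofNat 0, .ofNat 128, .negSucc 162, .ofNat 51, .ofNat 0, .ofNat 139, .negSucc 51, .ofNat 0, .ofNat 0, .ofNat 752, .ofNat 450, .ofNat 0, .ofNat 139086947188757113895265281698586920222720, .ofNat 0, .ofNat 0, .ofNat 0, .ofNat 0, .ofNat 0, .ofNat 0, .ofNat 0, .ofNat 5963041239674689532085386890057450992435200,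 .ofNat 1007945199862873432195528512394347939889152, .ofNat 0, .ofNat 0, .ofNat 35232840520442734206473884056369686552510464, .ofNat 0, .ofNat 0⟩)
    (by decide +kernel)

end Crest.Agent.R097C5.N5pm
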