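import Crest.Agent.R097.KS3
import Crest.Agent.R097.T5Ypm

/-!
# Row 97, box cover in dimension n = 5 (generated)
-/

set_option autoImplicit false
set_option Elab.async false
set_option maxHeartbeats 0
set_option maxRecDepth 100000

open Crest.Agent.R097 Crest.Agent.R097.KA


namespace Crest.Agent.R097C5.N5pm

theorem L02272 : Good (Phi V5.P V5.D 1 (-1)) ⟨2, 0, 2, 2, 3, 7, 3, 5, 4, 4⟩ :=
  leafYS_sound T5.ok_pm T5.Ypm.bz_eq (w := 215) (c := ⟨⟨.negSucc 1352, .negSucc 317, .negSucc 40, .negSucc 96, .negSucc 87, .ofNat 117⟩, ⟨.ofNat 701, .ofNat 186, .ofNat 370, .ofNat 79, .ofNat 45, .negSucc 74⟩, ⟨.ofNat 1156, .ofNat 386, .ofNat 256, .ofNat 231, .ofNat 478, .ofNat 498⟩, ⟨.negSucc 3973, .negSucc 506, .negSucc 39, .negSucc 58, .negSucc 247, .ofNat 239⟩, ⟨.ofNat 286, .ofNat 78, .negSucc 15, .ofNat 415, .negSucc 56, .negSucc 242⟩, .ofNat 913, .ofNat 730, .ofNat 0, .ofNat 730, .ofNat 1583, .ofNat 0, .ofNat 251,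 .negSucc 127, .ofNat 45, .ofNat 0, .ofNat 126, .negSucc 52, .ofNat 0, .ofNat 0, .ofNat 504, .ofNat 859, .ofNat 0, .ofNat 481699245749209463018704545771644094775296, .ofNat 0, .ofNat 0, .ofNat 0, .ofNat 9698467892978577891681831289140976457613312, .ofNat 0, .ofNat 0, .ofNat 0, .ofNat 10700457696251372129817560697491532015468544, .ofNat 0, .ofNat 0, .ofNat 0, .ofNat 36728687062795343574351936152739332736679936, .ofNat 187348397264462982202911027938347307761664, .ofNat 0⟩)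
    (by decide +kernel)
theorem L02273 : Good (Phi V5.P V5.D 1 (-1)) ⟨2, 0, 2, 2, 2, 3, 2, 3, 4, 4⟩ :=
  leafYS_sound T5.ok_pm T5.Ypm.bz_eq (w := 198) (c := ⟨⟨.negSucc 1332, .negSucc 286, .negSucc 10, .negSucc 297, .negSucc 272, .ofNat 103⟩, ⟨.ofNat 666, .ofNat 158, .ofNat 385, .ofNat 209, .ofNat 127, .negSucc 40⟩, ⟨.ofNat 1357, .ofNat 507, .ofNat 222, .ofNat 445, .ofNat 892, .ofNat 367⟩, ⟨.negSucc 4047, .negSucc 558, .negSucc 141, .negSucc 509, .negSucc 705, .ofNat 136⟩, ⟨.negSucc 31, .negSucc 159, .negSucc 98, .ofNat 674, .ofNat 4, .negSucc 159⟩, .ofNat 460, .ofNat 200, .ofNat 0, .ofNat 200, .ofNat 650, .ofNat 0, .ofNat 249, .negSucc 94, .negSucc 0, .ofNat 0, .ofNat 128, .negSucc 27, .ofNat 0, .ofNat 0, .ofNat 373, .ofNat 867, .ofNat 0, .ofNat 69662257394517902175898880479932186624, .ofNat 0, .ofNat 0, .ofNat 0, .ofNat 915151842361885174920324057910514548736, .ofNat 0, .ofNat 0, .ofNat 0, .ofNat 626951307294400870543357748161128955904,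 .ofNat 0, .ofNat 0, .ofNat 0, .ofNat 2031721984920277017680409472589740638208, .ofNat 1288033889909017370329806671911583744, .ofNat 0⟩)
    (by decide +kernel)
theorem L02274 : Good (Phi V5.P V5.D 1 (-1)) ⟨2, 0, 2, 2, 3, 6, 3, 4, 4, 5⟩ :=
  leafYS_sound T5.ok_pm T5.Ypm.bz_eq (w := 215) (c := ⟨⟨.negSucc 1183, .negSucc 191, .ofNat 2, .negSucc 45, .negSucc 5, .ofNat 141⟩, ⟨.ofNat 585, .ofNat 117, .ofNat 328, .ofNat 33, .negSucc 0, .negSucc 96⟩, ⟨.ofNat 1081, .ofNat 347, .ofNat 211, .ofNat 200, .ofNat 377, .ofNat 573⟩, ⟨.negSucc 3689, .negSucc 231, .negSucc 67, .negSucc 3, .negSucc 85, .ofNat 291⟩, ⟨.negSucc 230, .ofNat 53, .negSucc 17, .ofNat 243, .negSucc 101, .negSucc 193⟩, .ofNat 891, .ofNat 694, .ofNat 0, .ofNat 694, .ofNat 1545, .ofNat 0, .ofNat 184, .negSucc 125, .ofNat 44, .ofNat 0, .ofNat 128, .negSucc 42, .ofNat 0, .ofNat 0, .ofNat 831, .ofNat 1042, .ofNat 0, .ofNat 452750672133938183373791017905259160797184,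 .ofNat 38302678058311694341384975210002440519680, .ofNat 0, .ofNat 0, .ofNat 0, .ofNat 0, .ofNat 0, .ofNat 0, .ofNat 13402064538713558786456037126443605258403840, .ofNat 0, .ofNat 0, .ofNat 0, .ofNat 70532973322159221751535911127749617776590848, .ofNat 913418605403095371956857980370377878011904, .ofNat 0⟩)
    (by decide +kernel)
theorem L02275 : Good (Phi V5.P V5.D 1 (-1)) ⟨2, 0, 2, 2, 3, 6, 3, 5, 4, 5⟩ :=
  out_sound (S := T5.ds_pm) T5.ok_pm (w := 34) (j := 2) (by decide +kernel)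
theorem L02276 : Good (Phi V5.P V5.D 1 (-1)) ⟨2, 0, 2, 2, 3, 7, 2, 2, 4, 5⟩ :=
  out_sound (S := T5.ds_pm) T5.ok_pm (w := 32) (j := 2) (by decide +kernel)
theorem L02277 : Good (Phi V5.P V5.D 1 (-1)) ⟨2, 0, 2, 2, 2, 3, 2, 3, 4, 5⟩ :=
  out_sound (S := T5.ds_pm) T5.ok_pm (w := 30) (j := 2) (by decide +kernel)
theorem L02278 : Good (Phi V5.P V5.D 1 (-1)) ⟨2, 0, 2, 3, 2, 3, 1, 1, 3, 2⟩ :=
  out_sound (S := T5.ds_pm) T5.ok_pm (w := 37) (j := 3) (by decide +kernel)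
theorem L02279 : Good (Phi V5.P V5.D 1 (-1)) ⟨2, 0, 3, 4, 3, 4, 3, 4, 5, 12⟩ :=
  leafYS_sound T5.ok_pm T5.Ypm.bz_eq (w := 225) (c := ⟨⟨.negSucc 1049, .negSucc 141, .ofNat 29, .ofNat 7, .negSucc 2, .ofNat 49⟩, ⟨.ofNat 515, .ofNat 76, .ofNat 137, .negSucc 2, .negSucc 0, .negSucc 29⟩, ⟨.ofNat 1107, .ofNat 295, .ofNat 187, .ofNat 394, .ofNat 266, .ofNat 363⟩, ⟨.negSucc 3320, .negSucc 153, .negSucc 4, .negSucc 53, .negSucc 20, .ofNat 124⟩, ⟨.negSucc 263, .negSucc 58, .negSucc 30, .negSucc 111, .negSucc 36, .negSucc 43⟩, .ofNat 459, .ofNat 198, .ofNat 0, .ofNat 198, .ofNat 648, .ofNat 0, .ofNat 132, .negSucc 81, .ofNat 6, .ofNat 0, .ofNat 128, .negSucc 29, .ofNat 0, .ofNat 0, .ofNat 1492, .ofNat 4079, .ofNat 0, .ofNat 0, .ofNat 0, .ofNat 0, .ofNat 0, .ofNat 0, .ofNat 0, .ofNat 0, .ofNat 0, .ofNat 395328583608472416320124303069608349395845120, .ofNat 0, .ofNat 0, .ofNat 0, .ofNat 5911954374156965340113797684485417561210486784,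 .ofNat 0, .ofNat 0⟩)
    (by decide +kernel)
theorem L02280 : Good (Phi V5.P V5.D 1 (-1)) ⟨2, 0, 3, 5, 3, 4, 3, 4, 5, 12⟩ :=
  leafYS_sound T5.ok_pm T5.Ypm.bz_eq (w := 226) (c := ⟨⟨.negSucc 1012, .negSucc 161, .ofNat 15, .ofNat 7, .ofNat 8, .ofNat 52⟩, ⟨.ofNat 661, .ofNat 67, .ofNat 148, .negSucc 4, .negSucc 3, .negSucc 34⟩, ⟨.ofNat 1103, .ofNat 415, .ofNat 101, .ofNat 503, .ofNat 404, .ofNat 393⟩, ⟨.negSucc 3302, .negSucc 156, .negSucc 27, .negSucc 76, .negSucc 36, .ofNat 123⟩, ⟨.negSucc 233, .negSucc 95, .negSucc 7, .negSucc 147, .negSucc 87, .negSucc 44⟩, .ofNat 1570, .ofNat 1659, .ofNat 0, .ofNat 1659, .ofNat 2942, .ofNat 0, .ofNat 128, .negSucc 340, .ofNat 50, .ofNat 0, .ofNat 278, .negSucc 47, .ofNat 0, .ofNat 0, .ofNat 4143, .ofNat 7004, .ofNat 0, .ofNat 0, .ofNat 59075596293112783688380049843474188526944256, .ofNat 0, .ofNat 0, .ofNat 0, .ofNat 0, .ofNat 0, .ofNat 0, .ofNat 2902708208936787427891911557412255977057550336,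 .ofNat 2109471289765738792423318854529273096711438336, .ofNat 0, .ofNat 0, .ofNat 42357879080983597065061964573872288223335546880, .ofNat 14563415430650017144291126008812099616557236224, .ofNat 0⟩)
    (by decide +kernel)
theorem L02281 : Good (Phi V5.P V5.D 1 (-1)) ⟨3, 0, 3, 4, 4, 8, 3, 4, 5, 13⟩ :=
  leafYS_sound T5.ok_pm T5.Ypm.bz_eq (w := 245) (c := ⟨⟨.negSucc 1037, .negSucc 30, .ofNat 18, .ofNat 22, .ofNat 13, .ofNat 65⟩, ⟨.ofNat 506, .ofNat 36, .ofNat 129, .negSucc 16, .negSucc 8, .negSucc 41⟩, ⟨.ofNat 1164, .ofNat 210, .ofNat 211, .ofNat 421, .ofNat 364, .ofNat 678⟩, ⟨.negSucc 3228, .negSucc 73, .negSucc 11, .ofNat 11, .ofNat 9, .ofNat 135⟩, ⟨.negSucc 241, .negSucc 53, .negSucc 31, .negSucc 94, .negSucc 48, .negSucc 93⟩, .ofNat 1525, .ofNat 1580, .ofNat 0, .ofNat 1580, .ofNat 3023, .ofNat 0, .ofNat 128, .negSucc 293, .ofNat 103, .ofNat 0, .ofNat 251, .negSucc 90, .ofNat 0, .ofNat 0, .ofNat 6063,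 .ofNat 16034, .ofNat 0, .ofNat 0, .ofNat 189599596768147158735082783683891413862309691392, .ofNat 0, .ofNat 0, .ofNat 0, .ofNat 0, .ofNat 0, .ofNat 0, .ofNat 185994910223140339872960725795239248125712777871360, .ofNat 0, .ofNat 0, .ofNat 0, .ofNat 0, .ofNat 0, .ofNat 0⟩)
    (by decide +kernel)
theorem L02282 : Good (Phi V5.P V5.D 1 (-1)) ⟨3, 0, 3, 5, 4, 8, 3, 4, 5, 13⟩ :=
  leafYS_sound T5.ok_pm T5.Ypm.bz_eq (w := 249) (c := ⟨⟨.negSucc 995, .negSucc 60, .ofNat 16, .ofNat 22, .ofNat 16, .ofNat 66⟩, ⟨.ofNat 627, .ofNat 48, .ofNat 134, .negSucc 15, .negSucc 11, .negSucc 43⟩, ⟨.ofNat 1516, .ofNat 26, .ofNat 125, .ofNat 402, .ofNat 462, .ofNat 678⟩, ⟨.negSucc 3235, .negSucc 72, .negSucc 17, .ofNat 16, .ofNat 3, .ofNat 133⟩, ⟨.negSucc 330, .ofNat 12, .negSucc 1, .negSucc 78, .negSucc 68, .negSucc 94⟩, .ofNat 6674, .ofNat 9139, .ofNat 0, .ofNat 9139, .ofNat 14114, .ofNat 0, .ofNat 128, .negSucc 1128, .ofNat 496,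 .ofNat 0, .ofNat 821, .negSucc 358, .ofNat 0, .ofNat 0, .ofNat 19115, .ofNat 56341, .ofNat 0, .ofNat 7899186648338290605954839854742341249255054770176, .ofNat 1646419583856289690647928080239161666076661514240, .ofNat 0, .ofNat 0, .ofNat 0, .ofNat 60872815828459782872946981561428595952026910720000, .ofNat 0, .ofNat 0, .ofNat 1591232381396941202228620745240897194901223677886464, .ofNat 139772928547607623042250653127996895215824230416384, .ofNat 0, .ofNat 0, .ofNat 67325329147796944214902530134087832850327852596330496, .ofNat 1286974606560837028227353157735665727700095425576960, .ofNat 0⟩)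
    (by decide +kernel)
theorem L02283 : Good (Phi V5.P V5.D 1 (-1)) ⟨3, 1, 3, 4, 4, 8, 3, 4, 5, 13⟩ :=
  leafYS_sound T5.ok_pm T5.Ypm.bz_eq (w := 245) (c := ⟨⟨.negSucc 1062, .negSucc 88, .ofNat 21, .ofNat 20, .ofNat 8, .ofNat 63⟩, ⟨.ofNat 539, .ofNat 31, .ofNat 131, .negSucc 14, .negSucc 6, .negSucc 39⟩, ⟨.ofNat 1396, .ofNat 155, .ofNat 224, .ofNat 422, .ofNat 433, .ofNat 611⟩, ⟨.negSucc 3281, .negSucc 57, .negSucc 16, .ofNat 0, .negSucc 21, .ofNat 134⟩, ⟨.negSucc 300, .negSucc 19, .negSucc 43, .negSucc 92, .negSucc 75, .negSucc 74⟩, .ofNat 1601, .ofNat 1742, .ofNat 0, .ofNat 1742, .ofNat 3275, .ofNat 0, .ofNat 128, .negSucc 315, .ofNat 98, .ofNat 0, .ofNat 258, .negSucc 81, .ofNat 0, .ofNat 0, .ofNat 5378, .ofNat 20281, .ofNat 0, .ofNat 0, .ofNat 0, .ofNat 0, .ofNat 0, .ofNat 0, .ofNat 0, .ofNat 0, .ofNat 0, .ofNat 260642888862270251190634339654759887613539483910144, .ofNat 0, .ofNat 0, .ofNat 0, .ofNat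 5632653206202428477703607156744713806546427424276480, .ofNat 0, .ofNat 0⟩)
    (by decide +kernel)
theorem L02284 : Good (Phi V5.P V5.D 1 (-1)) ⟨3, 1, 3, 5, 4, 8, 4, 8, 5, 13⟩ :=
  leafYS_sound T5.ok_pm T5.Ypm.bz_eq (w := 251) (c := ⟨⟨.negSucc 1054, .negSucc 87, .ofNat 28, .ofNat 21, .ofNat 4, .ofNat 74⟩, ⟨.ofNat 676, .ofNat 33, .ofNat 127, .negSucc 14, .negSucc 3, .negSucc 48⟩, ⟨.ofNat 1505, .ofNat 121, .ofNat 274, .ofNat 426, .ofNat 212, .ofNat 719⟩, ⟨.negSucc 3292, .negSucc 69, .ofNat 4, .negSucc 7, .negSucc 15, .ofNat 149⟩, ⟨.negSucc 291, .negSucc 23, .negSucc 36, .negSucc 105, .negSucc 46, .negSucc 95⟩, .ofNat 1595, .ofNat 1700, .ofNat 0, .ofNat 1700, .ofNat 3000, .ofNat 0, .ofNat 128, .negSucc 289, .ofNat 97, .ofNat 0, .ofNat 235, .negSucc 81, .ofNat 0, .ofNat 0, .ofNat 5481, .ofNat 61264, .ofNat 0, .ofNat 0, .ofNat 0, .ofNat 0, .ofNat 0, .ofNat 0, .ofNat 0, .ofNat 0, .ofNat 0, .ofNat 0, .ofNat 229906549352747392164869196343906322084702158061568,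 .ofNat 0, .ofNat 0, .ofNat 0, .ofNat 2502262938465693556116638847720592828874931910475776, .ofNat 0⟩)
    (by decide +kernel)
theorem L02285 : Good (Phi V5.P V5.D 1 (-1)) ⟨3, 1, 3, 5, 4, 8, 4, 9, 5, 13⟩ :=
  leafYS_sound T5.ok_pm T5.Ypm.bz_eq (w := 250) (c := ⟨⟨.negSucc 1057, .negSucc 87, .ofNat 42, .ofNat 38, .ofNat 5, .ofNat 80⟩, ⟨.ofNat 678, .ofNat 31, .ofNat 122, .negSucc 25, .negSucc 4, .negSucc 53⟩, ⟨.ofNat 1573, .ofNat 198, .ofNat 404, .ofNat 634, .ofNat 282, .ofNat 821⟩, ⟨.negSucc 3296, .negSucc 82, .ofNat 1, .ofNat 2, .negSucc 27, .ofNat 149⟩, ⟨.negSucc 276, .negSucc 52, .negSucc 80, .negSucc 171, .negSucc 75, .negSucc 132⟩, .ofNat 1141, .ofNat 1056, .ofNat 0, .ofNat 1056, .ofNat 1948, .ofNat 0, .ofNat 128, .negSucc 433, .ofNat 245, .ofNat 0, .ofNat 384, .negSucc 209, .ofNat 0, .ofNat 0, .ofNat 7432, .ofNat 27437, .ofNat 0, .ofNat 28088899592756739964158910429092227543215315615744, .ofNat 14249086014010322185476497487243089257239007985664,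 .ofNat 0, .ofNat 0, .ofNat 244493568241273123138787775880794697305160889139200, .ofNat 0, .ofNat 0, .ofNat 0, .ofNat 883311466455678000909107150821039013229014577840128, .ofNat 415799402061348356003653378981546352997609479602176, .ofNat 0, .ofNat 0, .ofNat 45403073999608096310069140547167771490491645384720384, .ofNat 4263090998147046412336827969252220547146334022402048, .ofNat 0⟩)
    (by decide +kernel)
theorem L02286 : Good (Phi V5.P V5.D 1 (-1)) ⟨2, 0, 3, 4, 4, 9, 4, 8, 5, 13⟩ :=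
  leafYS_sound T5.ok_pm T5.Ypm.bz_eq (w := 244) (c := ⟨⟨.negSucc 1013, .negSucc 124, .ofNat 28, .ofNat 25, .ofNat 6, .ofNat 80⟩, ⟨.ofNat 496, .ofNat 67, .ofNat 131, .negSucc 17, .negSucc 2, .negSucc 55⟩, ⟨.ofNat 1472, .ofNat 379, .ofNat 221, .ofNat 421, .ofNat 212, .ofNat 813⟩, ⟨.negSucc 3246, .negSucc 128, .negSucc 10, .ofNat 20, .negSucc 3, .ofNat 189⟩, ⟨.negSucc 321, .negSucc 65, .negSucc 40, .negSucc 100, .negSucc 39, .negSucc 110⟩, .ofNat 459, .ofNat 199, .ofNat 0, .ofNat 199, .ofNat 650, .ofNat 0, .ofNat 180, .negSucc 80, .ofNat 92, .ofNat 0, .ofNat 128, .negSucc 100, .ofNat 0, .ofNat 0, .ofNat 2608, .ofNat 6020, .ofNat 0, .ofNat 965603209733948566389330744421818841902228701184, .ofNat 0, .ofNat 0, .ofNat 0, .ofNat 0, .ofNat 0, .ofNat 0, .ofNat 0, .ofNat 16889694103962996950940686899895595506295948443648, .ofNat 0, .ofNat 0, .ofNat 0, .ofNat 434732491197533108670526410765525269859132059418624, .ofNat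 0, .ofNat 0⟩)
    (by decide +kernel)
theorem L02287 : Good (Phi V5.P V5.D 1 (-1)) ⟨2, 0, 3, 4, 4, 9, 4, 9, 6, 26⟩ :=
  leafYS_sound T5.ok_pm T5.Ypm.bz_eq (w := 248) (c := ⟨⟨.negSucc 1018, .negSucc 124, .ofNat 29, .ofNat 48, .ofNat 20, .ofNat 56⟩, ⟨.ofNat 495, .ofNat 71, .ofNat 124, .negSucc 28, .negSucc 13, .negSucc 28⟩, ⟨.ofNat 1522, .ofNat 428, .ofNat 339, .ofNat 676, .ofNat 425, .ofNat 462⟩, ⟨.negSucc 3236, .negSucc 164, .negSucc 4, .ofNat 36, .ofNat 7, .ofNat 99⟩, ⟨.negSucc 296, .negSucc 105, .negSucc 68, .negSucc 176, .negSucc 100, .negSucc 78⟩, .ofNat 195, .ofNat 33, .ofNat 0, .ofNat 33, .ofNat 227, .ofNat 0, .ofNat 332, .negSucc 38, .ofNat 76, .ofNat 0, .ofNat 128, .negSucc 133, .ofNat 0, .ofNat 0, .ofNat 1419, .ofNat 3331, .ofNat 0, .ofNat 6360681664873328336124181831493764164299773706240, .ofNat 74456719659073792689869905631237955722661173657600, .ofNat 0, .ofNat 0, .ofNat 0, .ofNat 0, .ofNat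 0, .ofNat 0, .ofNat 97087491431980229097197206507173662591191699423232, .ofNat 0, .ofNat 0, .ofNat 0, .ofNat 1390405594860653178244748504635307966352983752441856, .ofNat 0, .ofNat 0⟩)
    (by decide +kernel)
theorem L02288 : Good (Phi V5.P V5.D 1 (-1)) ⟨2, 0, 3, 4, 4, 9, 4, 9, 6, 27⟩ :=
  leafYS_sound T5.ok_pm T5.Ypm.bz_eq (w := 250) (c := ⟨⟨.negSucc 985, .negSucc 122, .ofNat 48, .ofNat 56, .ofNat 34, .ofNat 61⟩, ⟨.ofNat 478, .ofNat 65, .ofNat 116, .negSucc 50, .negSucc 19, .negSucc 38⟩, ⟨.ofNat 1848, .ofNat 432, .ofNat 472, .ofNat 949, .ofNat 520, .ofNat 647⟩, ⟨.negSucc 3161, .negSucc 149, .ofNat 7, .ofNat 74, .ofNat 18, .ofNat 111⟩, ⟨.negSucc 354, .negSucc 102, .negSucc 90, .negSucc 223, .negSucc 117, .negSucc 105⟩, .ofNat 458, .ofNat 200, .ofNat 0, .ofNat 200, .ofNat 650, .ofNat 0, .ofNat 398, .negSucc 80, .ofNat 127, .ofNat 0, .ofNat 128, .negSucc 135, .ofNat 0, .ofNat 0, .ofNat 2905, .ofNat 10818,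 .ofNat 0, .ofNat 39335776881407113572407647593914728886134848356352, .ofNat 261104489113109765544794725075623501679637458583552, .ofNat 0, .ofNat 0, .ofNat 0, .ofNat 0, .ofNat 0, .ofNat 0, .ofNat 546485570338838074572798376556113233521327302770688, .ofNat 0, .ofNat 0, .ofNat 0, .ofNat 8675220150739877942559178470454006356608611795337216, .ofNat 0, .ofNat 0⟩)
    (by decide +kernel)
theorem L02289 : Good (Phi V5.P V5.D 1 (-1)) ⟨2, 0, 3, 5, 4, 9, 4, 8, 6, 26⟩ :=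
  leafYS_sound T5.ok_pm T5.Ypm.bz_eq (w := 249) (c := ⟨⟨.negSucc 988, .negSucc 153, .ofNat 33, .ofNat 47, .ofNat 27, .ofNat 53⟩, ⟨.ofNat 646, .ofNat 61, .ofNat 130, .negSucc 31, .negSucc 17, .negSucc 34⟩, ⟨.ofNat 1436, .ofNat 452, .ofNat 271, .ofNat 641, .ofNat 443, .ofNat 498⟩, ⟨.negSucc 3274, .negSucc 126, .negSucc 10, .ofNat 36, .ofNat 11, .ofNat 100⟩, ⟨.negSucc 298, .negSucc 74, .negSucc 57, .negSucc 155, .negSucc 101, .negSucc 81⟩, .ofNat 478, .ofNat 235, .ofNat 0, .ofNat 235, .ofNat 672, .ofNat 0, .ofNat 184, .negSucc 89, .ofNat 128, .ofNat 0, .ofNat 128, .negSucc 133, .ofNat 0, .ofNat 0, .ofNat 2996, .ofNat 5824, .ofNat 0, .ofNat 1800231609437609832926036609976000717669240143872, .ofNat 409526149480898622009811943407240461944481048952832, .ofNat 0, .ofNat 0, .ofNat 0, .ofNat 0, .ofNat 0, .ofNat 0, .ofNat 59745586185822118858443648718912285691096040734720, .ofNat 4363874822487441345106668809693287494673081768607744,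 .ofNat 0, .ofNat 0, .ofNat 3303315887612836770114042212782820908700944885088256, .ofNat 59236493373772976010368441927743841312242611917946880, .ofNat 0⟩)
    (by decide +kernel)
theorem L02290 : Good (Phi V5.P V5.D 1 (-1)) ⟨2, 0, 4, 10, 4, 9, 4, 8, 6, 27⟩ :=
  leafYS_sound T5.ok_pm T5.Ypm.bz_eq (w := 253) (c := ⟨⟨.negSucc 951, .negSucc 150, .ofNat 28, .ofNat 71, .ofNat 32, .ofNat 60⟩, ⟨.ofNat 613, .ofNat 64, .ofNat 58, .negSucc 37, .negSucc 20, .negSucc 37⟩, ⟨.ofNat 1890, .ofNat 374, .ofNat 241, .ofNat 780, .ofNat 510, .ofNat 630⟩, ⟨.negSucc 3185, .negSucc 132, .ofNat 6, .ofNat 64, .ofNat 19, .ofNat 112⟩, ⟨.negSucc 363, .negSucc 69, .negSucc 45, .negSucc 183, .negSucc 115, .negSucc 97⟩, .ofNat 486, .ofNat 242, .ofNat 0, .ofNat 242, .ofNat 674, .ofNat 0, .ofNat 128, .negSucc 129, .ofNat 194, .ofNat 0, .ofNat 184, .negSucc 186, .ofNat 0, .ofNat 0, .ofNat 3294, .ofNat 16279, .ofNat 0, .ofNat 203555043147777980247667719032036879109631009357824,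 .ofNat 286446472815508338004432955062523093088713167601664, .ofNat 0, .ofNat 0, .ofNat 770381343695378071963613302395279537169317119393792, .ofNat 3532320212354757141312681341090966199990897896062976, .ofNat 0, .ofNat 0, .ofNat 3196050738567928806158309435144202380525669627985920, .ofNat 5484315499434187731362507232681954036220864160071680, .ofNat 0, .ofNat 0, .ofNat 66047163656862359558083240725526511587622531526295552, .ofNat 35032435064293474718024407453001659858068003235037184, .ofNat 0⟩)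
    (by decide +kernel)
theorem L02291 : Good (Phi V5.P V5.D 1 (-1)) ⟨2, 0, 4, 11, 4, 9, 4, 8, 6, 27⟩ :=
  out_sound (S := T5.ds_pm) T5.ok_pm (w := 41) (j := 3) (by decide +kernel)
theorem L02292 : Good (Phi V5.P V5.D 1 (-1)) ⟨2, 0, 4, 10, 5, 18, 4, 9, 6, 26⟩ :=
  leafYS_sound T5.ok_pm T5.Ypm.bz_eq (w := 267) (c := ⟨⟨.negSucc 969, .negSucc 156, .ofNat 28, .ofNat 28, .ofNat 32, .ofNat 56⟩, ⟨.ofNat 634, .ofNat 65, .ofNat 59, .negSucc 22, .negSucc 21, .negSucc 37⟩, ⟨.ofNat 1751, .ofNat 455, .ofNat 241, .ofNat 409, .ofNat 524, .ofNat 551⟩, ⟨.negSucc 3247, .negSucc 161, .ofNat 2, .ofNat 24, .ofNat 10, .ofNat 102⟩, ⟨.negSucc 343, .negSucc 105, .negSucc 51, .negSucc 103, .negSucc 127, .negSucc 96⟩, .ofNat 479, .ofNat 236, .ofNat 0, .ofNat 236, .ofNat 672, .ofNat 0, .ofNat 194, .negSucc 90, .ofNat 95, .ofNat 0, .ofNat 128, .negSucc 101, .ofNat 0, .ofNat 0, .ofNat 2007, .ofNat 11616, .ofNat 0, .ofNat 695569962128914281232493058397144494604464185061408768,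 .ofNat 6191818763289382700427874716573117328843793793474887680, .ofNat 0, .ofNat 0, .ofNat 0, .ofNat 0, .ofNat 0, .ofNat 0, .ofNat 7771396554146292658960222742820180626166479377007640576, .ofNat 0, .ofNat 0, .ofNat 0, .ofNat 104747844898248680185934844821368167690305397532804513792, .ofNat 273022285323305471763066995052665165931234541483904204800, .ofNat 0⟩)
    (by decide +kernel)
theorem L02293 : Good (Phi V5.P V5.D 1 (-1)) ⟨2, 0, 4, 10, 5, 19, 4, 9, 6, 26⟩ :=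
  leafYS_sound T5.ok_pm T5.Ypm.bz_eq (w := 267) (c := ⟨⟨.negSucc 948, .negSucc 153, .ofNat 31, .ofNat 41, .ofNat 44, .ofNat 65⟩, ⟨.ofNat 614, .ofNat 65, .ofNat 60, .negSucc 21, .negSucc 24, .negSucc 47⟩, ⟨.ofNat 2122, .ofNat 468, .ofNat 241, .ofNat 434, .ofNat 580, .ofNat 639⟩, ⟨.negSucc 3233, .negSucc 157, .ofNat 2, .ofNat 32, .ofNat 20, .ofNat 122⟩, ⟨.negSucc 443, .negSucc 98, .negSucc 52, .negSucc 114, .negSucc 150, .negSucc 119⟩, .ofNat 196, .ofNat 38, .ofNat 0, .ofNat 38, .ofNat 228, .ofNat 0, .ofNat 210, .negSucc 43, .ofNat 109, .ofNat 0, .ofNat 128, .negSucc 168, .ofNat 0, .ofNat 0, .ofNat 1533, .ofNat 12226, .ofNat 0, .ofNat 1613024169626484700045131927930148416089351243599708160, .ofNat 0, .ofNat 0, .ofNat 0, .ofNat 12810363552010555285649572393559158829897302264629952512, .ofNat 0, .ofNat 0, .ofNat 0, .ofNat 14978239040371425303518422620641818741500608089180602368, .ofNat 0, .ofNat 0, .ofNat 0,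 .ofNat 157560407980345641616485994447068130045992463150633451520, .ofNat 302863825159109472500685979718070537254665536649444720640, .ofNat 0⟩)
    (by decide +kernel)
theorem L02294 : Good (Phi V5.P V5.D 1 (-1)) ⟨2, 0, 4, 11, 4, 9, 4, 9, 6, 26⟩ :=
  out_sound (S := T5.ds_pm) T5.ok_pm (w := 41) (j := 3) (by decide +kernel)
theorem L02295 : Good (Phi V5.P V5.D 1 (-1)) ⟨2, 0, 4, 10, 5, 18, 4, 9, 6, 27⟩ :=
  leafYS_sound T5.ok_pm T5.Ypm.bz_eq (w := 266) (c := ⟨⟨.negSucc 934, .negSucc 144, .ofNat 35, .ofNat 53, .ofNat 54, .ofNat 80⟩, ⟨.ofNat 606, .ofNat 60, .ofNat 52, .negSucc 33, .negSucc 32, .negSucc 51⟩, ⟨.ofNat 2146, .ofNat 497, .ofNat 346, .ofNat 633, .ofNat 737, .ofNat 868⟩, ⟨.negSucc 3171, .negSucc 145, .ofNat 11, .ofNat 54, .ofNat 37, .ofNat 133⟩, ⟨.negSucc 409, .negSucc 109, .negSucc 69, .negSucc 153, .negSucc 176, .negSucc 150⟩, .ofNat 197, .ofNat 38, .ofNat 0, .ofNat 38, .ofNat 228, .ofNat 0, .ofNat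 217, .negSucc 42, .ofNat 122, .ofNat 0, .ofNat 128, .negSucc 185, .ofNat 0, .ofNat 0, .ofNat 1777, .ofNat 8209, .ofNat 0, .ofNat 1016240817845889153271892023210307584758344835882024960, .ofNat 5420289621511859376149453193004641474561439168446070784, .ofNat 0, .ofNat 0, .ofNat 8348930557525930343814896746991708556204456499778420736, .ofNat 0, .ofNat 0, .ofNat 0, .ofNat 9005466782041656228887641546632670701942871032823021568, .ofNat 21476000570188292449048950389032013548211194087025410048, .ofNat 0, .ofNat 0, .ofNat 124999060821526862956537516824014770183152102586743521280, .ofNat 66856909408404043262370307017967940565815453953244004352, .ofNat 0⟩)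
    (by decide +kernel)
theorem L02296 : Good (Phi V5.P V5.D 1 (-1)) ⟨2, 0, 4, 11, 5, 18, 4, 9, 6, 27⟩ :=
  out_sound (S := T5.ds_pm) T5.ok_pm (w := 41) (j := 3) (by decide +kernel)
theorem L02297 : Good (Phi V5.P V5.D 1 (-1)) ⟨2, 0, 3, 5, 5, 19, 4, 9, 6, 27⟩ :=
  out_sound (S := T5.ds_pm) T5.ok_pm (w := 44) (j := 2) (by decide +kernel)
theorem L02298 : Good (Phi V5.P V5.D 1 (-1)) ⟨2, 0, 2, 2, 4, 8, 4, 10, 5, 12⟩ :=
  leafYS_sound T5.ok_pm T5.Ypm.bz_eq (w := 240) (c := ⟨⟨.negSucc 1042, .negSucc 140, .ofNat 44, .ofNat 2, .negSucc 6, .ofNat 49⟩, ⟨.ofNat 513, .ofNat 78, .ofNat 270, .negSucc 5, .ofNat 2, .negSucc 29⟩, ⟨.ofNat 1289, .ofNat 384, .ofNat 480, .ofNat 253, .ofNat 158, .ofNat 407⟩, ⟨.negSucc 3284, .negSucc 216, .negSucc 27, .negSucc 42, .negSucc 30, .ofNat 105⟩, ⟨.negSucc 244, .negSucc 135, .negSucc 94, .negSucc 82, .negSucc 30, .negSucc 57⟩, .ofNat 871, .ofNat 671, .ofNat 0, .ofNat 671, .ofNat 1522,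 .ofNat 0, .ofNat 150, .negSucc 126, .ofNat 30, .ofNat 0, .ofNat 128, .negSucc 42, .ofNat 0, .ofNat 0, .ofNat 2388, .ofNat 4967, .ofNat 0, .ofNat 0, .ofNat 3586131073163957969341799219447716683121583718400, .ofNat 0, .ofNat 0, .ofNat 0, .ofNat 0, .ofNat 0, .ofNat 0, .ofNat 399773011092117666882792328102643585559912513536, .ofNat 60923823705578083662599961948233074285842473680896, .ofNat 0, .ofNat 0, .ofNat 25771548602261148701694316709661958635765467447296, .ofNat 584195060911712335491245718176191012880549884723200, .ofNat 0⟩)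
    (by decide +kernel)
theorem L02299 : Good (Phi V5.P V5.D 1 (-1)) ⟨2, 0, 3, 4, 4, 8, 4, 11, 5, 12⟩ :=
  leafYS_sound T5.ok_pm T5.Ypm.bz_eq (w := 244) (c := ⟨⟨.negSucc 1055, .negSucc 139, .ofNat 23, .ofNat 9, .negSucc 3, .ofNat 56⟩, ⟨.ofNat 518, .ofNat 79, .ofNat 137, .negSucc 9, .ofNat 3, .negSucc 33⟩, ⟨.ofNat 1327, .ofNat 423, .ofNat 222, .ofNat 415, .ofNat 208, .ofNat 440⟩, ⟨.negSucc 3303, .negSucc 239, .negSucc 18, .negSucc 40, .negSucc 44, .ofNat 114⟩, ⟨.negSucc 223, .negSucc 168, .negSucc 48, .negSucc 120, .negSucc 46, .negSucc 73⟩, .ofNat 888, .ofNat 683, .ofNat 0, .ofNat 683, .ofNat 1517, .ofNat 0, .ofNat 242, .negSucc 125, .ofNat 58, .ofNat 0, .ofNat 128, .negSucc 60, .ofNat 0, .ofNat 0, .ofNat 1878, .ofNat 6247, .ofNat 0, .ofNat 1050510099498450305769168377202797531481860210688, .ofNat 2695744175460263369057914722364708052895468093440, .ofNat 0, .ofNat 0, .ofNat 0, .ofNat 0, .ofNat 0, .ofNat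 0, .ofNat 17480525727644698642262003053834491718276260823040, .ofNat 0, .ofNat 0, .ofNat 0, .ofNat 270017188557961370815563259113616544073795892150272, .ofNat 0, .ofNat 0⟩)
    (by decide +kernel)
theorem L02300 : Good (Phi V5.P V5.D 1 (-1)) ⟨2, 0, 3, 5, 4, 8, 4, 11, 5, 12⟩ :=
  leafYS_sound T5.ok_pm T5.Ypm.bz_eq (w := 243) (c := ⟨⟨.negSucc 1022, .negSucc 169, .ofNat 31, .ofNat 24, .negSucc 1, .ofNat 69⟩, ⟨.ofNat 667, .ofNat 74, .ofNat 132, .negSucc 16, .ofNat 2, .negSucc 44⟩, ⟨.ofNat 1403, .ofNat 467, .ofNat 318, .ofNat 538, .ofNat 239, .ofNat 598⟩, ⟨.negSucc 3326, .negSucc 233, .negSucc 16, .negSucc 37, .negSucc 54, .ofNat 121⟩, ⟨.negSucc 228, .negSucc 173, .negSucc 74, .negSucc 163, .negSucc 68, .negSucc 115⟩, .ofNat 1154, .ofNat 1053, .ofNat 0, .ofNat 1053, .ofNat 1932, .ofNat 0, .ofNat 128, .negSucc 128, .ofNat 70, .ofNat 0, .ofNat 116, .negSucc 62, .ofNat 0, .ofNat 0, .ofNat 1623, .ofNat 4183, .ofNat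 0, .ofNat 1040109506245483822270016096942165371274657792000, .ofNat 7760157694457586519220662498842147464295793819648, .ofNat 0, .ofNat 0, .ofNat 0, .ofNat 0, .ofNat 0, .ofNat 0, .ofNat 9576691126982198186326882149272437122259092504576, .ofNat 127456570772623495846780143804207080909311863422976, .ofNat 0, .ofNat 0, .ofNat 179585330926966365907521338819666827773177944342528, .ofNat 1055671326865956144661472352463494811333705953443840, .ofNat 0⟩)
    (by decide +kernel)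
theorem L02301 : Good (Phi V5.P V5.D 1 (-1)) ⟨2, 0, 3, 4, 4, 9, 4, 10, 5, 12⟩ :=
  leafYS_sound T5.ok_pm T5.Ypm.bz_eq (w := 242) (c := ⟨⟨.negSucc 1054, .negSucc 133, .ofNat 28, .ofNat 7, .ofNat 5, .ofNat 68⟩, ⟨.ofNat 515, .ofNat 80, .ofNat 139, .negSucc 13, .negSucc 2, .negSucc 46⟩, ⟨.ofNat 1439, .ofNat 428, .ofNat 201, .ofNat 407, .ofNat 252, .ofNat 590⟩, ⟨.negSucc 3352, .negSucc 205, .negSucc 22, .negSucc 11, .negSucc 13, .ofNat 162⟩, ⟨.negSucc 290, .negSucc 126, .negSucc 50, .negSucc 116, .negSucc 54, .negSucc 106⟩, .ofNat 196, .ofNat 34, .ofNat 0, .ofNat 34, .ofNat 227, .ofNat 0, .ofNat 205, .negSucc 40, .ofNat 48, .ofNat 0, .ofNat 128, .negSucc 118, .ofNat 0, .ofNat 0, .ofNat 1169, .ofNat 1787, .ofNat 0, .ofNat 505378774467229125314849897308358544414459559936, .ofNat 568003731904076252493816586038792451129654378496, .ofNat 0, .ofNat 0, .ofNat 0, .ofNat 0, .ofNat 0, .ofNat 0, .ofNat 9250537189199079372283982761941099126642027003904,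 .ofNat 0, .ofNat 0, .ofNat 0, .ofNat 118097844182993834049722018464518005445751834935296, .ofNat 25976644517976398367140978638346570179316430143488, .ofNat 0⟩)
    (by decide +kernel)
theorem L02302 : Good (Phi V5.P V5.D 1 (-1)) ⟨2, 0, 3, 5, 4, 9, 4, 10, 6, 24⟩ :=
  leafYS_sound T5.ok_pm T5.Ypm.bz_eq (w := 248) (c := ⟨⟨.negSucc 1018, .negSucc 172, .ofNat 34, .ofNat 30, .ofNat 14, .ofNat 43⟩, ⟨.ofNat 664, .ofNat 76, .ofNat 136, .negSucc 21, .negSucc 9, .negSucc 29⟩, ⟨.ofNat 1530, .ofNat 464, .ofNat 294, .ofNat 533, .ofNat 374, .ofNat 342⟩, ⟨.negSucc 3368, .negSucc 215, .negSucc 16, .negSucc 14, .negSucc 24, .ofNat 84⟩, ⟨.negSucc 307, .negSucc 133, .negSucc 80, .negSucc 157, .negSucc 100, .negSucc 67⟩, .ofNat 478, .ofNat 235, .ofNat 0, .ofNat 235, .ofNat 672, .ofNat 0, .ofNat 277, .negSucc 91, .ofNat 81, .ofNat 0, .ofNat 128, .negSucc 104, .ofNat 0, .ofNat 0, .ofNat 2059, .ofNat 3562, .ofNat 0, .ofNat 5902528965491347675344279807969144716636591226880,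 .ofNat 184723048178755214815539111700754236850460700966912, .ofNat 0, .ofNat 0, .ofNat 0, .ofNat 0, .ofNat 0, .ofNat 0, .ofNat 132653392481317134763717920971397876354304901644288, .ofNat 3574715040687823363416803399495234205378875930705920, .ofNat 0, .ofNat 0, .ofNat 2077265923919659996691373050840544100389739139432448, .ofNat 39014614798879441336888803377243546719480031588909056, .ofNat 0⟩)
    (by decide +kernel)
theorem L02303 : Good (Phi V5.P V5.D 1 (-1)) ⟨2, 0, 4, 10, 4, 9, 4, 10, 6, 25⟩ :=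
  leafYS_sound T5.ok_pm T5.Ypm.bz_eq (w := 252) (c := ⟨⟨.negSucc 992, .negSucc 164, .ofNat 27, .ofNat 60, .ofNat 25, .ofNat 58⟩, ⟨.ofNat 644, .ofNat 70, .ofNat 64, .negSucc 36, .negSucc 18, .negSucc 35⟩, ⟨.ofNat 1771, .ofNat 475, .ofNat 202, .ofNat 760, .ofNat 499, .ofNat 486⟩, ⟨.negSucc 3307, .negSucc 197, .negSucc 4, .ofNat 18, .negSucc 10, .ofNat 95⟩, ⟨.negSucc 348, .negSucc 136, .negSucc 49, .negSucc 217, .negSucc 136, .negSucc 96⟩, .ofNat 478, .ofNat 235, .ofNat 0, .ofNat 235, .ofNat 672, .ofNat 0, .ofNat 344, .negSucc 90, .ofNat 103, .ofNat 0, .ofNat 128, .negSucc 121, .ofNat 0, .ofNat 0, .ofNat 2268, .ofNat 5676, .ofNat 0, .ofNat 167722825917184217386569635007866298016434009145344, .ofNat 472141163198414538958962386241979952440970529734656, .ofNat 0, .ofNat 0, .ofNat 0, .ofNat 0, .ofNat 0, .ofNat 0, .ofNat 2887296130723054908685834020470427861396920456970240, .ofNat 1145928948450425934135255098509984325103402570743808,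 .ofNat 0, .ofNat 0, .ofNat 37978541840637787390110008955415890751604939359780864, .ofNat 0, .ofNat 0⟩)
    (by decide +kernel)
theorem L02304 : Good (Phi V5.P V5.D 1 (-1)) ⟨2, 0, 4, 11, 4, 9, 4, 10, 6, 25⟩ :=
  out_sound (S := T5.ds_pm) T5.ok_pm (w := 41) (j := 3) (by decide +kernel)
theorem L02305 : Good (Phi V5.P V5.D 1 (-1)) ⟨2, 0, 2, 2, 4, 9, 4, 11, 5, 12⟩ :=
  leafYS_sound T5.ok_pm T5.Ypm.bz_eq (w := 240) (c := ⟨⟨.negSucc 1050, .negSucc 142, .ofNat 59, .negSucc 11, .negSucc 19, .ofNat 66⟩, ⟨.ofNat 515, .ofNat 80, .ofNat 273, .negSucc 25, .negSucc 14, .negSucc 52⟩, ⟨.ofNat 1629, .ofNat 481, .ofNat 533, .ofNat 530, .ofNat 310, .ofNat 636⟩, ⟨.negSucc 3354, .negSucc 245, .negSucc 36, .negSucc 16, .negSucc 33, .ofNat 156⟩, ⟨.negSucc 308, .negSucc 174, .negSucc 143, .negSucc 160, .negSucc 79, .negSucc 136⟩, .ofNat 196, .ofNat 34, .ofNat 0, .ofNat 34, .ofNat 227, .ofNat 0, .ofNat 455, .negSucc 41, .ofNat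 61, .ofNat 0, .ofNat 128, .negSucc 192, .ofNat 0, .ofNat 0, .ofNat 1746, .ofNat 3167, .ofNat 0, .ofNat 365244837653681604379730455442769549016084512768, .ofNat 1849869824268615286951907297109785356200614821888, .ofNat 0, .ofNat 0, .ofNat 9676117004246723824545855939626950991789569343488, .ofNat 0, .ofNat 0, .ofNat 0, .ofNat 4738434129849194772984061619147460163334972637184, .ofNat 0, .ofNat 0, .ofNat 0, .ofNat 65924272164210142334957965812441754538943293947904, .ofNat 0, .ofNat 0⟩)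
    (by decide +kernel)
theorem L02306 : Good (Phi V5.P V5.D 1 (-1)) ⟨3, 0, 3, 4, 5, 16, 4, 10, 5, 13⟩ :=
  leafYS_sound T5.ok_pm T5.Ypm.bz_eq (w := 263) (c := ⟨⟨.negSucc 1031, .negSucc 39, .ofNat 30, .ofNat 19, .ofNat 10, .ofNat 71⟩, ⟨.ofNat 502, .ofNat 39, .ofNat 123, .negSucc 14, .negSucc 7, .negSucc 45⟩, ⟨.ofNat 1407, .ofNat 198, .ofNat 356, .ofNat 329, .ofNat 281, .ofNat 762⟩, ⟨.negSucc 3217, .negSucc 91, .negSucc 3, .ofNat 9, .negSucc 5, .ofNat 142⟩, ⟨.negSucc 237, .negSucc 64, .negSucc 75, .negSucc 83, .negSucc 58, .negSucc 122⟩, .ofNat 463, .ofNat 196, .ofNat 0, .ofNat 196, .ofNat 646, .ofNat 0, .ofNat 128, .negSucc 96, .ofNat 91, .ofNat 0, .ofNat 157, .negSucc 136, .ofNat 0, .ofNat 0, .ofNat 3322, .ofNat 12736, .ofNat 0, .ofNat 123810176549327726215003925609183275305364263452803072, .ofNat 39337300476463395354466418498719524076464877311361024, .ofNat 0, .ofNat 0, .ofNat 0, .ofNat 0, .ofNat 0, .ofNat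 0, .ofNat 810600174302584442633607187549810173947346528495468544, .ofNat 0, .ofNat 0, .ofNat 0, .ofNat 44820121557142204501384195730865526101990837230862598144, .ofNat 0, .ofNat 0⟩)
    (by decide +kernel)
theorem L02307 : Good (Phi V5.P V5.D 1 (-1)) ⟨3, 0, 3, 4, 5, 17, 4, 10, 5, 13⟩ :=
  leafYS_sound T5.ok_pm T5.Ypm.bz_eq (w := 263) (c := ⟨⟨.negSucc 1023, .negSucc 37, .ofNat 29, .ofNat 21, .ofNat 14, .ofNat 85⟩, ⟨.ofNat 495, .ofNat 38, .ofNat 123, .negSucc 14, .negSucc 10, .negSucc 54⟩, ⟨.ofNat 1624, .ofNat 213, .ofNat 346, .ofNat 323, .ofNat 346, .ofNat 878⟩, ⟨.negSucc 3222, .negSucc 92, .negSucc 5, .ofNat 12, .negSucc 2, .ofNat 164⟩, ⟨.negSucc 299, .negSucc 66, .negSucc 73, .negSucc 82, .negSucc 73, .negSucc 143⟩, .ofNat 886, .ofNat 671, .ofNat 0, .ofNat 671, .ofNat 1510, .ofNat 0, .ofNat 128, .negSucc 148, .ofNat 153, .ofNat 0, .ofNat 154, .negSucc 132, .ofNat 0, .ofNat 0, .ofNat 3279, .ofNat 12590,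 .ofNat 0, .ofNat 227276342891689017802037899311768760258881913821855744, .ofNat 46857016115174063565514024685591433655123597475184640, .ofNat 0, .ofNat 0, .ofNat 0, .ofNat 0, .ofNat 0, .ofNat 0, .ofNat 3407212123042558932097347883609295881532067740240576512, .ofNat 0, .ofNat 0, .ofNat 0, .ofNat 73369588196839203319802145722831940306965221805662404608, .ofNat 0, .ofNat 0⟩)
    (by decide +kernel)
theorem L02308 : Good (Phi V5.P V5.D 1 (-1)) ⟨3, 1, 3, 4, 4, 8, 4, 10, 6, 26⟩ :=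
  leafYS_sound T5.ok_pm T5.Ypm.bz_eq (w := 253) (c := ⟨⟨.negSucc 1068, .negSucc 86, .ofNat 25, .ofNat 32, .ofNat 6, .ofNat 34⟩, ⟨.ofNat 537, .ofNat 33, .ofNat 130, .negSucc 22, .negSucc 4, .negSucc 21⟩, ⟨.ofNat 1631, .ofNat 209, .ofNat 289, .ofNat 602, .ofNat 302, .ofNat 336⟩, ⟨.negSucc 3292, .negSucc 94, .negSucc 15, .negSucc 3, .negSucc 28, .ofNat 71⟩, ⟨.negSucc 300, .negSucc 64, .negSucc 59, .negSucc 161, .negSucc 77, .negSucc 55⟩, .ofNat 456, .ofNat 202, .ofNat 0, .ofNat 202, .ofNat 651, .ofNat 0, .ofNat 163, .negSucc 82, .ofNat 55, .ofNat 0, .ofNat 128, .negSucc 83, .ofNat 0, .ofNat 0, .ofNat 2121, .ofNat 8728, .ofNat 0, .ofNat 0, .ofNat 0, .ofNat 0, .ofNat 0, .ofNat 0, .ofNat 0, .ofNat 0, .ofNat 0, .ofNat 2319345154885033222380203499906473991038595357474816, .ofNat 0, .ofNat 0, .ofNat 0, .ofNat 40363168937367900067550842591396714755774939056308224, .ofNat 0, .ofNat 0⟩)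
    (by decide +kernel)
theorem L02309 : Good (Phi V5.P V5.D 1 (-1)) ⟨3, 1, 3, 4, 4, 8, 4, 10, 6, 27⟩ :=
  leafYS_sound T5.ok_pm T5.Ypm.bz_eq (w := 254) (c := ⟨⟨.negSucc 1051, .negSucc 85, .ofNat 38, .ofNat 54, .ofNat 14, .ofNat 46⟩, ⟨.ofNat 529, .ofNat 29, .ofNat 121, .negSucc 40, .negSucc 11, .negSucc 28⟩, ⟨.ofNat 1739, .ofNat 248, .ofNat 437, .ofNat 890, .ofNat 418, .ofNat 508⟩, ⟨.negSucc 3244, .negSucc 85, .negSucc 5, .ofNat 32, .negSucc 22, .ofNat 79⟩, ⟨.negSucc 312, .negSucc 70, .negSucc 85, .negSucc 217, .negSucc 108, .negSucc 83⟩, .ofNat 882, .ofNat 699, .ofNat 0, .ofNat 699, .ofNat 1556, .ofNat 0, .ofNat 128, .negSucc 170, .ofNat 119, .ofNat 0, .ofNat 170, .negSucc 106, .ofNat 0, .ofNat 0, .ofNat 3375, .ofNat 13648, .ofNat 0, .ofNat 459598276504245280759195337922271960462115655909376, .ofNat 0, .ofNat 0, .ofNat 0, .ofNat 2707167414863652941230725686504792922994836542324736, .ofNat 0, .ofNat 0,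 .ofNat 0, .ofNat 9897051669730763100868386041442667233083867499855872, .ofNat 0, .ofNat 0, .ofNat 0, .ofNat 130695586091975220646459282095125425903756082279350272, .ofNat 0, .ofNat 0⟩)
    (by decide +kernel)
theorem L02310 : Good (Phi V5.P V5.D 1 (-1)) ⟨3, 0, 3, 5, 4, 8, 4, 10, 6, 26⟩ :=
  leafYS_sound T5.ok_pm T5.Ypm.bz_eq (w := 257) (c := ⟨⟨.negSucc 997, .negSucc 51, .ofNat 39, .ofNat 39, .ofNat 9, .ofNat 38⟩, ⟨.ofNat 629, .ofNat 40, .ofNat 120, .negSucc 27, .negSucc 6, .negSucc 25⟩, ⟨.ofNat 1680, .ofNat 201, .ofNat 403, .ofNat 649, .ofNat 312, .ofNat 397⟩, ⟨.negSucc 3238, .negSucc 78, .ofNat 20, .ofNat 16, .negSucc 12, .ofNat 68⟩, ⟨.negSucc 322, .negSucc 42, .negSucc 45, .negSucc 149, .negSucc 61, .negSucc 68⟩, .ofNat 5700, .ofNat 7688, .ofNat 0, .ofNat 7688, .ofNat 11942, .ofNat 0, .ofNat 128, .negSucc 778, .ofNat 523, .ofNat 0, .ofNat 567, .negSucc 376, .ofNat 0, .ofNat 0, .ofNat 14462, .ofNat 38347,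 .ofNat 0, .ofNat 713718674593985117561273164016833305742193117364224, .ofNat 738982278913670749195025801257289612729257360883712, .ofNat 0, .ofNat 0, .ofNat 5283008286216814467673613247557527636697045457174528, .ofNat 22410256743224606591834545686120667928631718250020864, .ofNat 0, .ofNat 0, .ofNat 66633161656627259461769427051289739855239422310088704, .ofNat 40236072305669848922132926124174200396848319829114880, .ofNat 0, .ofNat 0, .ofNat 1509404282196672501467283621966689723891348938294296576, .ofNat 426239283987031976267622968930413315795067935802785792, .ofNat 0⟩)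
    (by decide +kernel)
theorem L02311 : Good (Phi V5.P V5.D 1 (-1)) ⟨3, 1, 4, 10, 4, 8, 4, 10, 6, 26⟩ :=
  leafYS_sound T5.ok_pm T5.Ypm.bz_eq (w := 257) (c := ⟨⟨.negSucc 1055, .negSucc 91, .ofNat 23, .ofNat 48, .ofNat 12, .ofNat 45⟩, ⟨.ofNat 675, .ofNat 35, .ofNat 60, .negSucc 32, .negSucc 8, .negSucc 29⟩, ⟨.ofNat 1783, .ofNat 193, .ofNat 239, .ofNat 759, .ofNat 377, .ofNat 445⟩, ⟨.negSucc 3311, .negSucc 100, .ofNat 1, .ofNat 2, .negSucc 29, .ofNat 77⟩, ⟨.negSucc 325, .negSucc 61, .negSucc 45, .negSucc 204, .negSucc 99, .negSucc 77⟩, .ofNat 1598, .ofNat 1705, .ofNat 0, .ofNat 1705, .ofNat 3008, .ofNat 0, .ofNat 128, .negSucc 284, .ofNat 153, .ofNat 0, .ofNat 231, .negSucc 120, .ofNat 0, .ofNat 0, .ofNat 4077, .ofNat 15553, .ofNat 0, .ofNat 2117904193059944387629085970327694254204264510390272, .ofNat 622271884273636536833734161224058973375291287666688, .ofNat 0, .ofNat 0, .ofNat 0, .ofNat 0, .ofNat 0, .ofNat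 0, .ofNat 96626448958057244666816807032652873260710990410940416, .ofNat 0, .ofNat 0, .ofNat 0, .ofNat 1292837927191365847604750229953209458732897773757136896, .ofNat 0, .ofNat 0⟩)
    (by decide +kernel)
theorem L02312 : Good (Phi V5.P V5.D 1 (-1)) ⟨3, 1, 4, 11, 4, 8, 4, 10, 6, 26⟩ :=
  out_sound (S := T5.ds_pm) T5.ok_pm (w := 47) (j := 3) (by decide +kernel)
theorem L02313 : Good (Phi V5.P V5.D 1 (-1)) ⟨2, 0, 4, 10, 5, 16, 5, 20, 6, 27⟩ :=
  leafYS_sound T5.ok_pm T5.Ypm.bz_eq (w := 272) (c := ⟨⟨.negSucc 958, .negSucc 153, .ofNat 23, .ofNat 45, .ofNat 15, .ofNat 54⟩, ⟨.ofNat 622, .ofNat 67, .ofNat 58, .negSucc 26, .negSucc 9, .negSucc 34⟩, ⟨.ofNat 1827, .ofNat 428, .ofNat 257, .ofNat 583, .ofNat 283, .ofNat 610⟩, ⟨.negSucc 3165, .negSucc 182, .negSucc 1, .ofNat 26, .negSucc 3, .ofNat 84⟩, ⟨.negSucc 296, .negSucc 131, .negSucc 51, .negSucc 142, .negSucc 71, .negSucc 105⟩, .ofNat 1025, .ofNat 894, .ofNat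 0, .ofNat 894, .ofNat 1764, .ofNat 0, .ofNat 148, .negSucc 127, .ofNat 114, .ofNat 0, .ofNat 118, .negSucc 98, .ofNat 0, .ofNat 0, .ofNat 3017, .ofNat 28309, .ofNat 0, .ofNat 0, .ofNat 765291221756038652837316696445404239854338629297919492096, .ofNat 0, .ofNat 0, .ofNat 0, .ofNat 0, .ofNat 0, .ofNat 0, .ofNat 8705218773358440173304471197347293066212115118339129344, .ofNat 5173408502672553135311210646418486724198632023056124477440, .ofNat 0, .ofNat 0, .ofNat 507314240383849927919867483153498563719496368844974325760, .ofNat 67915969416128421407666343725575900871622667187102389633024, .ofNat 0⟩)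
    (by decide +kernel)
theorem L02314 : Good (Phi V5.P V5.D 1 (-1)) ⟨2, 0, 4, 10, 5, 16, 5, 21, 6, 27⟩ :=
  leafYS_sound T5.ok_pm T5.Ypm.bz_eq (w := 272) (c := ⟨⟨.negSucc 947, .negSucc 156, .ofNat 35, .ofNat 43, .ofNat 14, .ofNat 60⟩, ⟨.ofNat 614, .ofNat 67, .ofNat 55, .negSucc 27, .negSucc 8, .negSucc 38⟩, ⟨.ofNat 2031, .ofNat 453, .ofNat 330, .ofNat 593, .ofNat 273, .ofNat 668⟩, ⟨.negSucc 3162, .negSucc 198, .ofNat 3, .ofNat 23, .negSucc 9, .ofNat 89⟩, ⟨.negSucc 337, .negSucc 147, .negSucc 68, .negSucc 151, .negSucc 73, .negSucc 123⟩, .ofNat 478, .ofNat 234, .ofNat 0, .ofNat 234, .ofNat 671, .ofNat 0, .ofNat 221, .negSucc 89, .ofNat 115, .ofNat 0, .ofNat 128, .negSucc 140, .ofNat 0, .ofNat 0, .ofNat 2763, .ofNat 18467, .ofNat 0, .ofNat 5332821644860338613457439097430286173449954737214455808, .ofNat 377301915652029071876579061174575217651152964719350906880, .ofNat 0, .ofNat 0, .ofNat 0, .ofNat 0, .ofNat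 0, .ofNat 0, .ofNat 46314425254657086420146305529294385801506199214326022144, .ofNat 744922338404159206995252746764485589765687758020897931264, .ofNat 0, .ofNat 0, .ofNat 968007786934657302255148196594921451129869144794419167232, .ofNat 5010668171439920625776212139839011752777241580502840770560, .ofNat 0⟩)
    (by decide +kernel)
theorem L02315 : Good (Phi V5.P V5.D 1 (-1)) ⟨2, 0, 4, 11, 5, 16, 4, 10, 6, 27⟩ :=
  out_sound (S := T5.ds_pm) T5.ok_pm (w := 41) (j := 3) (by decide +kernel)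
theorem L02316 : Good (Phi V5.P V5.D 1 (-1)) ⟨2, 0, 4, 10, 5, 17, 5, 20, 6, 27⟩ :=
  leafYS_sound T5.ok_pm T5.Ypm.bz_eq (w := 271) (c := ⟨⟨.negSucc 936, .negSucc 150, .ofNat 39, .ofNat 63, .ofNat 23, .ofNat 77⟩, ⟨.ofNat 607, .ofNat 62, .ofNat 53, .negSucc 38, .negSucc 15, .negSucc 51⟩, ⟨.ofNat 2190, .ofNat 500, .ofNat 356, .ofNat 754, .ofNat 375, .ofNat 875⟩, ⟨.negSucc 3162, .negSucc 178, .ofNat 9, .ofNat 48, .ofNat 5, .ofNat 117⟩, ⟨.negSucc 392, .negSucc 142, .negSucc 72, .negSucc 188, .negSucc 96, .negSucc 161⟩, .ofNat 479, .ofNat 236, .ofNat 0, .ofNat 236, .ofNat 673, .ofNat 0, .ofNat 314, .negSucc 89, .ofNat 164, .ofNat 0, .ofNat 128, .negSucc 182, .ofNat 0, .ofNat 0, .ofNat 3450, .ofNat 17513, .ofNat 0, .ofNat 7673093251024143222979869096422646616510792479551782912, .ofNat 275784562698928688855076295842909963519751771300177117184, .ofNat 0, .ofNat 0, .ofNat 0, .ofNat 0, .ofNat 0, .ofNat 0, .ofNat 78981681686796883192661704654623595219310417446531235840,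 .ofNat 431891916794903539287005384963388959557701418707276791808, .ofNat 0, .ofNat 0, .ofNat 1700002892522838046790911114603976387731003193182314823680, .ofNat 0, .ofNat 0⟩)
    (by decide +kernel)
theorem L02317 : Good (Phi V5.P V5.D 1 (-1)) ⟨2, 0, 4, 10, 5, 17, 5, 21, 6, 27⟩ :=
  leafYS_sound T5.ok_pm T5.Ypm.bz_eq (w := 272) (c := ⟨⟨.negSucc 909, .negSucc 148, .ofNat 34, .ofNat 44, .ofNat 13, .ofNat 57⟩, ⟨.ofNat 589, .ofNat 64, .ofNat 54, .negSucc 31, .negSucc 21, .negSucc 45⟩, ⟨.ofNat 2575, .ofNat 534, .ofNat 337, .ofNat 590, .ofNat 360, .ofNat 683⟩, ⟨.negSucc 3143, .negSucc 195, .ofNat 5, .ofNat 45, .ofNat 5, .ofNat 110⟩, ⟨.negSucc 478, .negSucc 161, .negSucc 73, .negSucc 193, .negSucc 110, .negSucc 158⟩, .ofNat 197, .ofNat 38, .ofNat 0, .ofNat 38, .ofNat 228, .ofNat 0, .ofNat 242, .negSucc 42, .ofNat 67, .ofNat 0, .ofNat 128, .negSucc 129, .ofNat 0, .ofNat 0, .ofNat 1159, .ofNat 29224, .ofNat 0, .ofNat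 15347529530062419601802746920371721622442157548941344768, .ofNat 582811851498391966764231508444064666258811293915351613440, .ofNat 0, .ofNat 0, .ofNat 183389748277909965030068857392777521375679850487367073792, .ofNat 0, .ofNat 0, .ofNat 0, .ofNat 107742847490556646942228634067981079565738867393000636416, .ofNat 0, .ofNat 0, .ofNat 0, .ofNat 1135434950064422068256576108877932525723905833465326600192, .ofNat 1283821972682182792463154379296850003237248119293693919232, .ofNat 0⟩)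
    (by decide +kernel)
theorem L02318 : Good (Phi V5.P V5.D 1 (-1)) ⟨2, 0, 4, 11, 5, 17, 4, 10, 6, 27⟩ :=
  out_sound (S := T5.ds_pm) T5.ok_pm (w := 41) (j := 3) (by decide +kernel)
theorem L02319 : Good (Phi V5.P V5.D 1 (-1)) ⟨2, 0, 3, 4, 4, 8, 4, 11, 6, 26⟩ :=
  leafYS_sound T5.ok_pm T5.Ypm.bz_eq (w := 249) (c := ⟨⟨.negSucc 1006, .negSucc 138, .ofNat 33, .ofNat 24, .negSucc 5, .ofNat 29⟩, ⟨.ofNat 495, .ofNat 75, .ofNat 127, .negSucc 22, .negSucc 1, .negSucc 22⟩, ⟨.ofNat 1673, .ofNat 414, .ofNat 354, .ofNat 591, .ofNat 260, .ofNat 329⟩, ⟨.negSucc 3207, .negSucc 224, .negSucc 11, .negSucc 7, .negSucc 33, .ofNat 66⟩, ⟨.negSucc 278, .negSucc 157, .negSucc 77, .negSucc 161, .negSucc 64, .negSucc 58⟩, .ofNat 458, .ofNat 198, .ofNat 0, .ofNat 198, .ofNat 649, .ofNat 0, .ofNat 266, .negSucc 80, .ofNat 81, .ofNat 0, .ofNat 128, .negSucc 126, .ofNat 0, .ofNat 0, .ofNat 2825, .ofNat 7602, .ofNat 0, .ofNat 19663197876626287501367248815884740017953458618368,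 .ofNat 220743394623789951975732053306501731915666999476224, .ofNat 0, .ofNat 0, .ofNat 0, .ofNat 0, .ofNat 0, .ofNat 0, .ofNat 381961739560141342268202145051373288119065638862848, .ofNat 0, .ofNat 0, .ofNat 0, .ofNat 6176246550116169946460796139382591627742144582647808, .ofNat 0, .ofNat 0⟩)
    (by decide +kernel)
theorem L02320 : Good (Phi V5.P V5.D 1 (-1)) ⟨2, 0, 3, 4, 4, 8, 4, 11, 6, 27⟩ :=
  leafYS_sound T5.ok_pm T5.Ypm.bz_eq (w := 249) (c := ⟨⟨.negSucc 992, .negSucc 134, .ofNat 41, .ofNat 72, .ofNat 26, .ofNat 52⟩, ⟨.ofNat 480, .ofNat 70, .ofNat 118, .negSucc 40, .negSucc 9, .negSucc 27⟩, ⟨.ofNat 1901, .ofNat 422, .ofNat 477, .ofNat 935, .ofNat 404, .ofNat 493⟩, ⟨.negSucc 3154, .negSucc 215, .negSucc 2, .ofNat 27, .negSucc 19, .ofNat 78⟩, ⟨.negSucc 317, .negSucc 155, .negSucc 98, .negSucc 248, .negSucc 108, .negSucc 93⟩, .ofNat 195, .ofNat 33, .ofNat 0, .ofNat 33, .ofNat 227, .ofNat 0, .ofNat 387,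 .negSucc 36, .ofNat 79, .ofNat 0, .ofNat 128, .negSucc 217, .ofNat 0, .ofNat 0, .ofNat 2133, .ofNat 8664, .ofNat 0, .ofNat 41239163315110405394038793168979305094969412288512, .ofNat 288468576519143535727572552192040240407648739000320, .ofNat 0, .ofNat 0, .ofNat 844493009461750239592966780260643166138992131309568, .ofNat 0, .ofNat 0, .ofNat 0, .ofNat 459349312817609713118617797377211749781766477447168, .ofNat 0, .ofNat 0, .ofNat 0, .ofNat 6795923315384541961129639648776085672391645950115840, .ofNat 5629056976358667114559930056168463998430596296605696, .ofNat 0⟩)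
    (by decide +kernel)
theorem L02321 : Good (Phi V5.P V5.D 1 (-1)) ⟨2, 0, 4, 10, 5, 16, 4, 11, 6, 26⟩ :=
  leafYS_sound T5.ok_pm T5.Ypm.bz_eq (w := 266) (c := ⟨⟨.negSucc 974, .negSucc 172, .ofNat 32, .ofNat 37, .ofNat 25, .ofNat 51⟩, ⟨.ofNat 636, .ofNat 69, .ofNat 61, .negSucc 23, .negSucc 13, .negSucc 32⟩, ⟨.ofNat 1804, .ofNat 462, .ofNat 260, .ofNat 520, .ofNat 506, .ofNat 518⟩, ⟨.negSucc 3229, .negSucc 223, .ofNat 0, .ofNat 8, .negSucc 28, .ofNat 77⟩, ⟨.negSucc 298, .negSucc 160, .negSucc 58, .negSucc 143, .negSucc 141, .negSucc 105⟩, .ofNat 196, .ofNat 38, .ofNat 0, .ofNat 38, .ofNat 228, .ofNat 0, .ofNat 237, .negSucc 42, .ofNat 52, .ofNat 0, .ofNat 128, .negSucc 140, .ofNat 0, .ofNat 0, .ofNat 1306, .ofNat 5322, .ofNat 0, .ofNat 429052468241315762259523395481281600071198300316893184, .ofNat 9812739827577360130089815478702336576662083428224598016, .ofNat 0, .ofNat 0, .ofNat 0, .ofNat 0, .ofNat 0,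 .ofNat 0, .ofNat 4912838506627183590744340084572419945546211516076785664, .ofNat 22732769607681350003998122273919568061032984645719818240, .ofNat 0, .ofNat 0, .ofNat 52082047101518026078970421643789233842520531519135547392, .ofNat 60817654800212774305406206702497432599382548641367457792, .ofNat 0⟩)
    (by decide +kernel)
theorem L02322 : Good (Phi V5.P V5.D 1 (-1)) ⟨2, 0, 4, 10, 5, 17, 4, 11, 6, 26⟩ :=
  leafYS_sound T5.ok_pm T5.Ypm.bz_eq (w := 269) (c := ⟨⟨.negSucc 941, .negSucc 161, .ofNat 26, .negSucc 6, .negSucc 43, .ofNat 29⟩, ⟨.ofNat 613, .ofNat 70, .ofNat 59, .negSucc 31, .negSucc 21, .negSucc 34⟩, ⟨.ofNat 2293, .ofNat 504, .ofNat 254, .ofNat 418, .ofNat 324, .ofNat 451⟩, ⟨.negSucc 3222, .negSucc 225, .negSucc 1, .ofNat 15, .negSucc 15, .ofNat 87⟩, ⟨.negSucc 431, .negSucc 174, .negSucc 59, .negSucc 150, .negSucc 149, .negSucc 114⟩, .ofNat 196, .ofNat 38, .ofNat 0, .ofNat 38, .ofNat 228, .ofNat 0,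 .ofNat 313, .negSucc 42, .ofNat 68, .ofNat 0, .ofNat 128, .negSucc 159, .ofNat 0, .ofNat 0, .ofNat 1400, .ofNat 39897, .ofNat 0, .ofNat 7295169112572369548362667181199217358475976424462221312, .ofNat 0, .ofNat 0, .ofNat 0, .ofNat 98626924173032056770954218883710937668644496316188065792, .ofNat 391129387309422254573998087194582847372995552226121351168, .ofNat 0, .ofNat 0, .ofNat 39012756308773411148992002440805340533064059653231476736, .ofNat 0, .ofNat 0, .ofNat 0, .ofNat 513955481706043235802082882970716584159740259111117258752, .ofNat 193977723331032441696275519983135238957982067970910715904, .ofNat 0⟩)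
    (by decide +kernel)
theorem L02323 : Good (Phi V5.P V5.D 1 (-1)) ⟨2, 0, 4, 11, 4, 8, 4, 11, 6, 26⟩ :=
  out_sound (S := T5.ds_pm) T5.ok_pm (w := 41) (j := 3) (by decide +kernel)
theorem L02324 : Good (Phi V5.P V5.D 1 (-1)) ⟨2, 0, 3, 5, 5, 16, 5, 22, 6, 27⟩ :=
  leafYS_sound T5.ok_pm T5.Ypm.bz_eq (w := 269) (c := ⟨⟨.negSucc 934, .negSucc 157, .ofNat 63, .ofNat 41, .ofNat 15, .ofNat 62⟩, ⟨.ofNat 607, .ofNat 67, .ofNat 111, .negSucc 32, .negSucc 9, .negSucc 41⟩, ⟨.ofNat 2267, .ofNat 477, .ofNat 667, .ofNat 648, .ofNat 299, .ofNat 707⟩, ⟨.negSucc 3162, .negSucc 213, .ofNat 4, .ofNat 25, .negSucc 13, .ofNat 90⟩, ⟨.negSucc 392, .negSucc 163, .negSucc 142, .negSucc 168, .negSucc 84, .negSucc 138⟩, .ofNat 478, .ofNat 236, .ofNat 0, .ofNat 236, .ofNat 673, .ofNat 0, .ofNat 341, .negSucc 90, .ofNat 140, .ofNat 0, .ofNat 128, .negSucc 176, .ofNat 0, .ofNat 0, .ofNat 3383, .ofNat 19868, .ofNat 0, .ofNat 1594898850406557376338720138463774172002557915857682432,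 .ofNat 259568221541765573914110833232362939510138033732486955008, .ofNat 0, .ofNat 0, .ofNat 0, .ofNat 0, .ofNat 0, .ofNat 0, .ofNat 17079455135205979509308262479080127519743481311462948864, .ofNat 605536303706610978981303361142938925660884199678173773824, .ofNat 0, .ofNat 0, .ofNat 332926284532671734538187140864419971389244049768671346688, .ofNat 5656032071176825488613158106412357671788123496582683295744, .ofNat 0⟩)
    (by decide +kernel)
theorem L02325 : Good (Phi V5.P V5.D 1 (-1)) ⟨2, 0, 3, 5, 5, 16, 5, 23, 6, 27⟩ :=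
  out_sound (S := T5.ds_pm) T5.ok_pm (w := 46) (j := 2) (by decide +kernel)
theorem L02326 : Good (Phi V5.P V5.D 1 (-1)) ⟨2, 0, 3, 5, 5, 17, 4, 11, 6, 27⟩ :=
  out_sound (S := T5.ds_pm) T5.ok_pm (w := 44) (j := 2) (by decide +kernel)
theorem L02327 : Good (Phi V5.P V5.D 1 (-1)) ⟨2, 0, 2, 2, 4, 9, 4, 10, 5, 13⟩ :=
  leafYS_sound T5.ok_pm T5.Ypm.bz_eq (w := 242) (c := ⟨⟨.negSucc 1006, .negSucc 123, .ofNat 83, .ofNat 62, .ofNat 48, .ofNat 120⟩, ⟨.ofNat 486, .ofNat 68, .ofNat 243, .negSucc 46, .negSucc 23, .negSucc 70⟩, ⟨.ofNat 1861, .ofNat 483, .ofNat 837, .ofNat 792, .ofNat 507, .ofNat 1017⟩, ⟨.negSucc 3216, .negSucc 199, .ofNat 7, .ofNat 40, .ofNat 38, .ofNat 203⟩, ⟨.negSucc 358, .negSucc 158, .negSucc 170, .negSucc 210, .negSucc 89, .negSucc 172⟩, .ofNat 883, .ofNat 685, .ofNat 0, .ofNat 685, .ofNat 1536, .ofNat 0, .ofNat 489, .negSucc 126, .ofNat 80, .ofNat 0, .ofNat 128, .negSucc 69, .ofNat 0, .ofNat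 0, .ofNat 1961, .ofNat 9137, .ofNat 0, .ofNat 1334456965407154196380296269525434224832566788096, .ofNat 4123449997087896320097922889620181743889373200384, .ofNat 0, .ofNat 0, .ofNat 0, .ofNat 0, .ofNat 0, .ofNat 0, .ofNat 16831579831910380653757772363989534329592094916608, .ofNat 37280595295413059364295363978591789963372272812032, .ofNat 0, .ofNat 0, .ofNat 159617835500909253896961396826600411234620619620352, .ofNat 121971994713631717944839010019943967539344091119616, .ofNat 0⟩)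
    (by decide +kernel)
theorem L02328 : Good (Phi V5.P V5.D 1 (-1)) ⟨2, 0, 2, 2, 4, 9, 4, 11, 5, 13⟩ :=
  out_sound (S := T5.ds_pm) T5.ok_pm (w := 40) (j := 2) (by decide +kernel)
theorem L02329 : Good (Phi V5.P V5.D 1 (-1)) ⟨2, 0, 2, 2, 4, 10, 4, 8, 5, 12⟩ :=
  leafYS_sound T5.ok_pm T5.Ypm.bz_eq (w := 240) (c := ⟨⟨.negSucc 1072, .negSucc 129, .ofNat 51, .ofNat 3, .ofNat 16, .ofNat 87⟩, ⟨.ofNat 520, .ofNat 79, .ofNat 280, .negSucc 8, .negSucc 8, .negSucc 51⟩, ⟨.ofNat 1288, .ofNat 383, .ofNat 388, .ofNat 269, .ofNat 270, .ofNat 578⟩, ⟨.negSucc 3397, .negSucc 148, .negSucc 39, .ofNat 2, .ofNat 5, .ofNat 184⟩, ⟨.negSucc 327, .negSucc 44, .negSucc 78, .negSucc 50, .negSucc 58, .negSucc 95⟩, .ofNat 460, .ofNat 201, .ofNat 0, .ofNat 201, .ofNat 651, .ofNat 0, .ofNat 230, .negSucc 81, .ofNat 48, .ofNat 0, .ofNat 128, .negSucc 53, .ofNat 0, .ofNat 0, .ofNat 1149, .ofNat 3005, .ofNat 0, .ofNat 84332071355459229730264343987101036698327318528,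 .ofNat 759379296122528696959158197125737423836459040768, .ofNat 0, .ofNat 0, .ofNat 0, .ofNat 0, .ofNat 0, .ofNat 0, .ofNat 2012570316699173049763774810515017317580290392064, .ofNat 0, .ofNat 0, .ofNat 0, .ofNat 15970983362992990898369134940211688540373753266176, .ofNat 0, .ofNat 0⟩)
    (by decide +kernel)
theorem L02330 : Good (Phi V5.P V5.D 1 (-1)) ⟨2, 0, 2, 2, 4, 10, 4, 9, 5, 12⟩ :=
  leafYS_sound T5.ok_pm T5.Ypm.bz_eq (w := 241) (c := ⟨⟨.negSucc 1060, .negSucc 140, .ofNat 47, .ofNat 23, .ofNat 20, .ofNat 103⟩, ⟨.ofNat 510, .ofNat 81, .ofNat 277, .negSucc 6, .negSucc 2, .negSucc 49⟩, ⟨.ofNat 1512, .ofNat 421, .ofNat 418, .ofNat 348, .ofNat 303, .ofNat 612⟩, ⟨.negSucc 3375, .negSucc 187, .negSucc 37, .negSucc 3, .negSucc 5, .ofNat 185⟩, ⟨.negSucc 347, .negSucc 83, .negSucc 103, .negSucc 87, .negSucc 67, .negSucc 111⟩, .ofNat 461, .ofNat 202, .ofNat 0, .ofNat 202, .ofNat 651, .ofNat 0, .ofNat 246, .negSucc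 82, .ofNat 70, .ofNat 0, .ofNat 128, .negSucc 80, .ofNat 0, .ofNat 0, .ofNat 1550, .ofNat 5434, .ofNat 0, .ofNat 302550395977789335062707155815215919141658558464, .ofNat 2075161123546549527086458892735075762789182078976, .ofNat 0, .ofNat 0, .ofNat 0, .ofNat 0, .ofNat 0, .ofNat 0, .ofNat 5712095338540347181415054388597300472733405020160, .ofNat 0, .ofNat 0, .ofNat 0, .ofNat 51097260389285036623498168775886153450037459288064, .ofNat 55889612359636326564611687039227251993135259058176, .ofNat 0⟩)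
    (by decide +kernel)
theorem L02331 : Good (Phi V5.P V5.D 1 (-1)) ⟨2, 0, 2, 2, 4, 11, 3, 4, 5, 12⟩ :=
  leafYS_sound T5.ok_pm T5.Ypm.bz_eq (w := 238) (c := ⟨⟨.negSucc 1046, .negSucc 153, .ofNat 41, .ofNat 1, .negSucc 61, .ofNat 1⟩, ⟨.ofNat 509, .ofNat 84, .ofNat 287, .ofNat 0, .negSucc 29, .ofNat 0⟩, ⟨.ofNat 1568, .ofNat 379, .ofNat 368, .negSucc 0, .ofNat 537, .negSucc 0⟩, ⟨.negSucc 3387, .negSucc 160, .negSucc 52, .ofNat 2, .ofNat 37, .ofNat 2⟩, ⟨.negSucc 387, .negSucc 15, .negSucc 82, .ofNat 0, .negSucc 128, .ofNat 0⟩, .ofNat 196, .ofNat 34, .ofNat 0, .ofNat 34, .ofNat 227, .ofNat 0, .ofNat 538, .negSucc 43, .ofNat 151, .ofNat 0, .ofNat 128, .negSucc 239, .ofNat 0, .ofNat 0, .ofNat 2082, .ofNat 19999, .ofNat 0, .ofNat 216766943095610370693750784765742719317680586752, .ofNat 0, .ofNat 0, .ofNat 0, .ofNat 10287631564458909630625250404583121942700005261312, .ofNat 2063988581258649157302114902704239849075539705856,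 .ofNat 0, .ofNat 0, .ofNat 3515205688379735959177260071581757257867432296448, .ofNat 956391882439297477140116614145660425143123443712, .ofNat 0, .ofNat 0, .ofNat 60126156926282982353211292429439727886699583242240, .ofNat 0, .ofNat 0⟩)
    (by decide +kernel)
theorem L02332 : Good (Phi V5.P V5.D 1 (-1)) ⟨2, 0, 2, 2, 3, 5, 4, 8, 5, 13⟩ :=
  leafYS_sound T5.ok_pm T5.Ypm.bz_eq (w := 227) (c := ⟨⟨.negSucc 996, .negSucc 131, .ofNat 74, .ofNat 60, .ofNat 17, .ofNat 90⟩, ⟨.ofNat 482, .ofNat 69, .ofNat 257, .negSucc 42, .negSucc 22, .negSucc 57⟩, ⟨.ofNat 1774, .ofNat 403, .ofNat 626, .ofNat 999, .ofNat 445, .ofNat 875⟩, ⟨.negSucc 3232, .negSucc 136, .negSucc 14, .ofNat 107, .ofNat 26, .ofNat 216⟩, ⟨.negSucc 392, .negSucc 56, .negSucc 129, .negSucc 282, .negSucc 104, .negSucc 161⟩, .ofNat 196, .ofNat 34, .ofNat 0, .ofNat 34, .ofNat 227, .ofNat 0, .ofNat 195, .negSucc 40, .ofNat 80, .ofNat 0, .ofNat 128, .negSucc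 115, .ofNat 0, .ofNat 0, .ofNat 1203, .ofNat 5810, .ofNat 0, .ofNat 168467978318705739331471750748301671685685248, .ofNat 114321677804324147095067898012182780370223104, .ofNat 0, .ofNat 0, .ofNat 1562288989816976276426937964646969571635363840, .ofNat 0, .ofNat 0, .ofNat 0, .ofNat 1626608205960330083417145164458267361297825792, .ofNat 0, .ofNat 0, .ofNat 0, .ofNat 14033503880827414017995775713662685932312068096, .ofNat 3075403715738215563382189045496639566813069312, .ofNat 0⟩)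
    (by decide +kernel)
theorem L02333 : Good (Phi V5.P V5.D 1 (-1)) ⟨2, 0, 2, 2, 3, 5, 4, 9, 5, 13⟩ :=
  out_sound (S := T5.ds_pm) T5.ok_pm (w := 38) (j := 2) (by decide +kernel)
theorem L02334 : Good (Phi V5.P V5.D 1 (-1)) ⟨2, 0, 2, 2, 3, 5, 3, 5, 4, 6⟩ :=
  out_sound (S := T5.ds_pm) T5.ok_pm (w := 34) (j := 2) (by decide +kernel)
theorem L02335 : Good (Phi V5.P V5.D 1 (-1)) ⟨2, 0, 2, 3, 2, 2, 2, 2, 4, 6⟩ :=
  out_sound (S := T5.ds_pm) T5.ok_pm (w := 37) (j := 3) (by decide +kernel)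
theorem L02336 : Good (Phi V5.P V5.D 1 (-1)) ⟨2, 0, 2, 2, 4, 8, 3, 6, 5, 12⟩ :=
  leafYS_sound T5.ok_pm T5.Ypm.bz_eq (w := 237) (c := ⟨⟨.negSucc 1055, .negSucc 153, .ofNat 52, .ofNat 5, .negSucc 57, .ofNat 44⟩, ⟨.ofNat 518, .ofNat 84, .ofNat 277, .negSucc 2, .ofNat 19, .negSucc 30⟩, ⟨.ofNat 1552, .ofNat 402, .ofNat 459, .ofNat 368, .ofNat 164, .ofNat 354⟩, ⟨.negSucc 3323, .negSucc 285, .negSucc 38, .negSucc 66, .negSucc 124, .ofNat 99⟩, ⟨.negSucc 254, .negSucc 187, .negSucc 113, .negSucc 113, .negSucc 13, .negSucc 61⟩, .ofNat 460, .ofNat 202, .ofNat 0, .ofNat 202, .ofNat 651, .ofNat 0, .ofNat 399, .negSucc 83, .ofNat 27, .ofNat 0, .ofNat 128, .negSucc 77, .ofNat 0, .ofNat 0, .ofNat 1865, .ofNat 6504, .ofNat 0, .ofNat 102333711473968711470947153046001218403224780800, .ofNat 129407536872841082981350885019080446826124410880, .ofNat 0, .ofNat 0, .ofNat 0, .ofNat 0, .ofNat 0, .ofNat 0, .ofNat 1752516678934528632490049905892250597558549741568,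 .ofNat 485652823977203718277170532274233364001830469632, .ofNat 0, .ofNat 0, .ofNat 20776421063330341400045798821521760614547728629760, .ofNat 0, .ofNat 0⟩)
    (by decide +kernel)
theorem L02337 : Good (Phi V5.P V5.D 1 (-1)) ⟨2, 0, 2, 2, 4, 9, 3, 6, 5, 12⟩ :=
  out_sound (S := T5.ds_pm) T5.ok_pm (w := 38) (j := 2) (by decide +kernel)
theorem L02338 : Good (Phi V5.P V5.D 1 (-1)) ⟨2, 0, 2, 2, 3, 4, 3, 6, 5, 13⟩ :=
  out_sound (S := T5.ds_pm) T5.ok_pm (w := 36) (j := 2) (by decide +kernel)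
theorem L02339 : Good (Phi V5.P V5.D 1 (-1)) ⟨2, 0, 2, 3, 3, 4, 3, 6, 4, 6⟩ :=
  out_sound (S := T5.ds_pm) T5.ok_pm (w := 37) (j := 3) (by decide +kernel)
theorem L02340 : Good (Phi V5.P V5.D 1 (-1)) ⟨2, 0, 1, 1, 3, 4, 3, 7, 4, 6⟩ :=
  out_sound (S := T5.ds_pm) T5.ok_pm (w := 34) (j := 2) (by decide +kernel)
theorem L02341 : Good (Phi V5.P V5.D 1 (-1)) ⟨2, 0, 1, 1, 3, 5, 2, 3, 4, 6⟩ :=
  out_sound (S := T5.ds_pm) T5.ok_pm (w := 32) (j := 2) (by decide +kernel)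
theorem L02342 : Good (Phi V5.P V5.D 1 (-1)) ⟨2, 0, 2, 2, 4, 8, 4, 8, 5, 14⟩ :=
  leafYS_sound T5.ok_pm T5.Ypm.bz_eq (w := 243) (c := ⟨⟨.negSucc 1057, .negSucc 119, .ofNat 76, .ofNat 76, .ofNat 67, .ofNat 119⟩, ⟨.ofNat 506, .ofNat 67, .ofNat 233, .negSucc 38, .negSucc 26, .negSucc 78⟩, ⟨.ofNat 932, .ofNat 340, .ofNat 916, .ofNat 913, .ofNat 713, .ofNat 1462⟩, ⟨.negSucc 3162, .negSucc 142, .ofNat 7, .ofNat 63, .ofNat 44, .ofNat 221⟩, ⟨.negSucc 127, .negSucc 79, .negSucc 157, .negSucc 203, .negSucc 149, .negSucc 220⟩, .ofNat 461, .ofNat 201, .ofNat 0, .ofNat 201, .ofNat 650, .ofNat 0, .ofNat 182, .negSucc 80, .ofNat 113, .ofNat 0, .ofNat 128, .negSucc 124, .ofNat 0, .ofNat 0, .ofNat 3072, .ofNat 28422, .ofNat 117598340100486534858726448997326061549229113868288, .ofNat 335286795234544072195466278167058522297769918464, .ofNat 11682632918402386954061815311731136590621096017920, .ofNat 0, .ofNat 0, .ofNat 0,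 .ofNat 0, .ofNat 0, .ofNat 807556907278674749198818781434724509008283150843904, .ofNat 1098357612026928718413563125643559641978211663872, .ofNat 51310105551769211967903428268140375273034343251968, .ofNat 0, .ofNat 12125072670488381513568547037564094614684200633106432, .ofNat 79717049268718021668249504227978710170379164319744, .ofNat 659240602113242558874478968350050436570946471985152, .ofNat 0⟩)
    (by decide +kernel)
theorem L02343 : Good (Phi V5.P V5.D 1 (-1)) ⟨2, 0, 3, 4, 5, 16, 4, 9, 5, 14⟩ :=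
  leafYS_sound T5.ok_pm T5.Ypm.bz_eq (w := 260) (c := ⟨⟨.negSucc 981, .negSucc 118, .ofNat 38, .ofNat 25, .ofNat 21, .ofNat 97⟩, ⟨.ofNat 479, .ofNat 66, .ofNat 117, .negSucc 19, .negSucc 12, .negSucc 61⟩, ⟨.ofNat 1628, .ofNat 381, .ofNat 470, .ofNat 445, .ofNat 405, .ofNat 1221⟩, ⟨.negSucc 3098, .negSucc 153, .ofNat 0, .ofNat 24, .negSucc 3, .ofNat 187⟩, ⟨.negSucc 260, .negSucc 103, .negSucc 83, .negSucc 102, .negSucc 92, .negSucc 189⟩, .ofNat 458, .ofNat 200, .ofNat 0, .ofNat 200, .ofNat 651, .ofNat 0, .ofNat 152, .negSucc 80, .ofNat 107, .ofNat 0, .ofNat 128, .negSucc 130, .ofNat 0, .ofNat 0, .ofNat 3250, .ofNat 19354, .ofNat 0, .ofNat 0, .ofNat 0, .ofNat 0, .ofNat 0, .ofNat 0, .ofNat 0, .ofNat 0, .ofNat 17639450960602355449577067960355460317742220551257063424, .ofNat 88008417476129747210848838673886610532454650347520000, .ofNat 0, .ofNat 0, .ofNat 205413778218683680960368599774392072684117686048499171328,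 .ofNat 3484415343871883680393326081566345341293320814947467264, .ofNat 0, .ofNat 0⟩)
    (by decide +kernel)
theorem L02344 : Good (Phi V5.P V5.D 1 (-1)) ⟨2, 0, 3, 5, 5, 16, 4, 9, 6, 28⟩ :=
  leafYS_sound T5.ok_pm T5.Ypm.bz_eq (w := 265) (c := ⟨⟨.negSucc 948, .negSucc 140, .ofNat 57, .ofNat 53, .ofNat 36, .ofNat 64⟩, ⟨.ofNat 620, .ofNat 55, .ofNat 109, .negSucc 32, .negSucc 24, .negSucc 44⟩, ⟨.ofNat 1678, .ofNat 536, .ofNat 673, .ofNat 715, .ofNat 648, .ofNat 846⟩, ⟨.negSucc 3115, .negSucc 150, .ofNat 4, .ofNat 45, .ofNat 5, .ofNat 106⟩, ⟨.negSucc 242, .negSucc 133, .negSucc 136, .negSucc 165, .negSucc 156, .negSucc 135⟩, .ofNat 477, .ofNat 235, .ofNat 0, .ofNat 235, .ofNat 672, .ofNat 0, .ofNat 162, .negSucc 89, .ofNat 140, .ofNat 0, .ofNat 128, .negSucc 156, .ofNat 0, .ofNat 0, .ofNat 3480, .ofNat 28858, .ofNat 0, .ofNat 0, .ofNat 33151572097103792625652876413046955604440139913492430848, .ofNat 0, .ofNat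 0, .ofNat 0, .ofNat 0, .ofNat 0, .ofNat 0, .ofNat 0, .ofNat 109165494143645321191417199210208856569089216803015491584, .ofNat 0, .ofNat 0, .ofNat 19085240571531118198442937458917992431609636975886204928, .ofNat 2186342824429042211334247591003818782862499402379239096320, .ofNat 0⟩)
    (by decide +kernel)
theorem L02345 : Good (Phi V5.P V5.D 1 (-1)) ⟨2, 0, 3, 5, 5, 16, 4, 9, 6, 29⟩ :=
  leafYS_sound T5.ok_pm T5.Ypm.bz_eq (w := 266) (c := ⟨⟨.negSucc 953, .negSucc 137, .ofNat 113, .ofNat 106, .ofNat 86, .ofNat 125⟩, ⟨.ofNat 616, .ofNat 58, .ofNat 80, .negSucc 70, .negSucc 58, .negSucc 71⟩, ⟨.ofNat 1727, .ofNat 494, .ofNat 1251, .ofNat 1434, .ofNat 1299, .ofNat 1523⟩, ⟨.negSucc 3077, .negSucc 157, .ofNat 48, .ofNat 109, .ofNat 61, .ofNat 151⟩, ⟨.negSucc 210, .negSucc 130, .negSucc 228, .negSucc 301, .negSucc 293, .negSucc 266⟩, .ofNat 477, .ofNat 234, .ofNat 0, .ofNat 234, .ofNat 671, .ofNat 0, .ofNat 212,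 .negSucc 88, .ofNat 162, .ofNat 0, .ofNat 128, .negSucc 173, .ofNat 0, .ofNat 0, .ofNat 3402, .ofNat 32118, .ofNat 7692183339683281447310402875988596387248073002415292416, .ofNat 86857128240058038960511978610113594322542219784880128, .ofNat 33019239075466357950262236764496988781405013937779376128, .ofNat 0, .ofNat 0, .ofNat 0, .ofNat 0, .ofNat 0, .ofNat 238770344371435289118978272843917785659684726427172732928, .ofNat 1219499716929690914122475221615230364597378742700998656, .ofNat 95427576863813285388534546914514928829488912318712512512, .ofNat 0, .ofNat 4181992736754771300900393671934764172632692118992489283584, .ofNat 45737450613309310856610009420563682215892082047802408960, .ofNat 1060007149136282491964067212530636824036047705647397994496, .ofNat 0⟩)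
    (by decide +kernel)
theorem L02346 : Good (Phi V5.P V5.D 1 (-1)) ⟨2, 0, 3, 4, 5, 17, 4, 9, 6, 28⟩ :=
  leafYS_sound T5.ok_pm T5.Ypm.bz_eq (w := 265) (c := ⟨⟨.negSucc 967, .negSucc 115, .ofNat 46, .ofNat 40, .ofNat 32, .ofNat 56⟩, ⟨.ofNat 468, .ofNat 65, .ofNat 109, .negSucc 24, .negSucc 21, .negSucc 34⟩, ⟨.ofNat 1933, .ofNat 397, .ofNat 577, .ofNat 527, .ofNat 542, .ofNat 656⟩, ⟨.negSucc 3091, .negSucc 151, .ofNat 16, .ofNat 36, .ofNat 14, .ofNat 100⟩, ⟨.negSucc 335, .negSucc 105, .negSucc 95, .negSucc 120, .negSucc 123, .negSucc 100⟩, .ofNat 873, .ofNat 672, .ofNat 0, .ofNat 672, .ofNat 1526, .ofNat 0, .ofNat 188, .negSucc 124, .ofNat 130, .ofNat 0, .ofNat 128, .negSucc 107, .ofNat 0, .ofNat 0, .ofNat 3270, .ofNat 27447, .ofNat 0, .ofNat 248766023244096755275190298194065927152310345451700224, .ofNat 0, .ofNat 0, .ofNat 0, .ofNat 0, .ofNat 0, .ofNat 0, .ofNat 0, .ofNat 2312626235998871058408208538659671602859456133855182848,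 .ofNat 0, .ofNat 0, .ofNat 0, .ofNat 40694407813961795401563500289046084542618368838647939072, .ofNat 0, .ofNat 0⟩)
    (by decide +kernel)
theorem L02347 : Good (Phi V5.P V5.D 1 (-1)) ⟨2, 0, 4, 10, 5, 17, 5, 18, 6, 28⟩ :=
  leafYS_sound T5.ok_pm T5.Ypm.bz_eq (w := 272) (c := ⟨⟨.negSucc 919, .negSucc 138, .ofNat 35, .ofNat 62, .ofNat 25, .ofNat 91⟩, ⟨.ofNat 599, .ofNat 57, .ofNat 50, .negSucc 44, .negSucc 17, .negSucc 59⟩, ⟨.ofNat 2184, .ofNat 495, .ofNat 391, .ofNat 849, .ofNat 416, .ofNat 1125⟩, ⟨.negSucc 3106, .negSucc 140, .ofNat 11, .ofNat 67, .ofNat 15, .ofNat 140⟩, ⟨.negSucc 372, .negSucc 120, .negSucc 69, .negSucc 185, .negSucc 93, .negSucc 181⟩, .ofNat 1022, .ofNat 890, .ofNat 0, .ofNat 890, .ofNat 1758, .ofNat 0, .ofNat 204, .negSucc 127, .ofNat 244, .ofNat 0, .ofNat 119, .negSucc 195, .ofNat 0, .ofNat 0, .ofNat 5217, .ofNat 18905, .ofNat 0, .ofNat 4893719007784303848325435838198899713126911538876121088,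 .ofNat 112853907858199953187990522519295450417651314102183657472, .ofNat 0, .ofNat 0, .ofNat 0, .ofNat 0, .ofNat 0, .ofNat 0, .ofNat 48869573155224216666541029123041726509808672150585868288, .ofNat 1242751347497611434917913274294802447344194291401314271232, .ofNat 0, .ofNat 0, .ofNat 2160119679507731375674720785819860879950717097876257767424, .ofNat 0, .ofNat 0⟩)
    (by decide +kernel)
theorem L02348 : Good (Phi V5.P V5.D 1 (-1)) ⟨2, 0, 4, 10, 5, 17, 5, 19, 6, 28⟩ :=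
  leafYS_sound T5.ok_pm T5.Ypm.bz_eq (w := 272) (c := ⟨⟨.negSucc 899, .negSucc 140, .ofNat 45, .ofNat 75, .ofNat 32, .ofNat 99⟩, ⟨.ofNat 578, .ofNat 59, .ofNat 49, .negSucc 44, .negSucc 19, .negSucc 61⟩, ⟨.ofNat 2592, .ofNat 482, .ofNat 440, .ofNat 887, .ofNat 460, .ofNat 1195⟩, ⟨.negSucc 3082, .negSucc 154, .ofNat 15, .ofNat 69, .ofNat 17, .ofNat 143⟩, ⟨.negSucc 452, .negSucc 123, .negSucc 85, .negSucc 206, .negSucc 109, .negSucc 207⟩, .ofNat 486, .ofNat 242, .ofNat 0, .ofNat 242, .ofNat 674, .ofNat 0, .ofNat 183, .negSucc 89, .ofNat 225, .ofNat 0, .ofNat 128, .negSucc 224, .ofNat 0, .ofNat 0, .ofNat 3584, .ofNat 22915, .ofNat 0, .ofNat 10297611263573421765953548672930336536246805203756515328, .ofNat 232878132907421218001723605717834410456132007863166959616, .ofNat 0, .ofNat 0, .ofNat 0, .ofNat 0, .ofNat 0, .ofNat 0, .ofNat 71019718047950834837877532823803719090476260668668379136, .ofNat 256571656955131826866675370001869916666551168338510217216,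 .ofNat 0, .ofNat 0, .ofNat 2053972554193019261876028187332847501074506092195476406272, .ofNat 0, .ofNat 0⟩)
    (by decide +kernel)
theorem L02349 : Good (Phi V5.P V5.D 1 (-1)) ⟨2, 0, 4, 11, 5, 17, 4, 9, 6, 28⟩ :=
  out_sound (S := T5.ds_pm) T5.ok_pm (w := 41) (j := 3) (by decide +kernel)
theorem L02350 : Good (Phi V5.P V5.D 1 (-1)) ⟨2, 0, 2, 2, 5, 17, 4, 9, 6, 29⟩ :=
  leafYS_sound T5.ok_pm T5.Ypm.bz_eq (w := 262) (c := ⟨⟨.negSucc 929, .negSucc 99, .ofNat 160, .ofNat 0, .ofNat 37, .ofNat 0⟩, ⟨.ofNat 424, .ofNat 56, .ofNat 174, .ofNat 0, .ofNat 17, .ofNat 0⟩, ⟨.ofNat 2617, .ofNat 543, .ofNat 2077, .negSucc 1, .ofNat 173, .negSucc 1⟩, ⟨.negSucc 3009, .negSucc 143, .ofNat 88, .ofNat 2, .ofNat 38, .ofNat 2⟩, ⟨.negSucc 430, .negSucc 135, .negSucc 366, .ofNat 0, .negSucc 73, .ofNat 0⟩, .ofNat 460, .ofNat 199, .ofNat 0, .ofNat 199, .ofNat 650, .ofNat 0, .ofNat 361, .negSucc 79, .ofNat 239, .ofNat 0, .ofNat 128,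 .negSucc 253, .ofNat 0, .ofNat 0, .ofNat 5273, .ofNat 27572, .ofNat 6695466431906363814525682641678295065973144297492447232, .ofNat 106750683483501087439843949665421095448040438868475904, .ofNat 7911408515236276216456268313332347745807959393577205760, .ofNat 0, .ofNat 0, .ofNat 0, .ofNat 0, .ofNat 0, .ofNat 17926775737340940390761987640088007863030969684300136448, .ofNat 637432949485188124018344397724502009686697734211371008, .ofNat 0, .ofNat 0, .ofNat 409404751629713017193016499441962093443060651870495178752, .ofNat 17093897248304277285737896592458057220758546032726376448, .ofNat 482995399967922072105250176744023662289465476901672845312, .ofNat 0⟩)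
    (by decide +kernel)
theorem L02351 : Good (Phi V5.P V5.D 1 (-1)) ⟨2, 0, 2, 2, 5, 18, 4, 8, 5, 14⟩ :=
  leafYS_sound T5.ok_pm T5.Ypm.bz_eq (w := 256) (c := ⟨⟨.negSucc 963, .negSucc 119, .ofNat 108, .ofNat 33, .ofNat 32, .ofNat 168⟩, ⟨.ofNat 477, .ofNat 61, .ofNat 216, .negSucc 32, .negSucc 32, .negSucc 83⟩, ⟨.ofNat 1788, .ofNat 438, .ofNat 1180, .ofNat 570, .ofNat 658, .ofNat 1603⟩, ⟨.negSucc 3102, .negSucc 129, .ofNat 38, .ofNat 52, .ofNat 33, .ofNat 252⟩, ⟨.negSucc 318, .negSucc 89, .negSucc 208, .negSucc 127, .negSucc 145, .negSucc 258⟩, .ofNat 461, .ofNat 204, .ofNat 0, .ofNat 204, .ofNat 652, .ofNat 0, .ofNat 354, .negSucc 81, .ofNat 111, .ofNat 0, .ofNat 128, .negSucc 109, .ofNat 0, .ofNat 0, .ofNat 2413, .ofNat 14030, .ofNat 120915913791769015796973992481342630776495104157810688, .ofNat 2172070833211179013686626759829572384092890473693184, .ofNat 90661841014200281510987663186421619539739462978240512,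 .ofNat 0, .ofNat 0, .ofNat 0, .ofNat 0, .ofNat 0, .ofNat 1268147173045811084790464458795658492209082074736361472, .ofNat 28057580690228414874644300852217111836699589670338560, .ofNat 0, .ofNat 0, .ofNat 21651840085193023321132111482163834617543323800649596928, .ofNat 454633636355988984653196366874756540537105928828223488, .ofNat 1877890666608974142254581833664504059001576778610245632, .ofNat 0⟩)
    (by decide +kernel)
theorem L02352 : Good (Phi V5.P V5.D 1 (-1)) ⟨2, 0, 2, 2, 5, 18, 4, 9, 5, 14⟩ :=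
  leafYS_sound T5.ok_pm T5.Ypm.bz_eq (w := 258) (c := ⟨⟨.negSucc 938, .negSucc 108, .ofNat 122, .ofNat 0, .ofNat 12, .ofNat 0⟩, ⟨.ofNat 448, .ofNat 61, .ofNat 204, .ofNat 0, .negSucc 29, .ofNat 0⟩, ⟨.ofNat 2361, .ofNat 484, .ofNat 1392, .negSucc 1, .ofNat 714, .negSucc 1⟩, ⟨.negSucc 3063, .negSucc 140, .ofNat 45, .ofNat 2, .ofNat 51, .ofNat 2⟩, ⟨.negSucc 435, .negSucc 111, .negSucc 259, .ofNat 0, .negSucc 171, .ofNat 0⟩, .ofNat 461, .ofNat 202, .ofNat 0, .ofNat 202, .ofNat 652, .ofNat 0, .ofNat 437, .negSucc 80, .ofNat 200, .ofNat 0, .ofNat 128, .negSucc 205, .ofNat 0, .ofNat 0, .ofNat 4301, .ofNat 58879, .ofNat 0, .ofNat 18619194627122511349951228119066413724699853479477248, .ofNat 0, .ofNat 0, .ofNat 0, .ofNat 426366718301927673005573869576925972465138970975535104, .ofNat 0, .ofNat 0, .ofNat 0, .ofNat 177680848526020782534401646564945208312527086912798720, .ofNat 1057116206253243623949919790521571185372036072095088640,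 .ofNat 0, .ofNat 0, .ofNat 5040315670938505308484218720411764033017250661177229312, .ofNat 29433261322515853602967840823826284752307461599004721152, .ofNat 0⟩)
    (by decide +kernel)
theorem L02353 : Good (Phi V5.P V5.D 1 (-1)) ⟨2, 0, 2, 2, 5, 19, 3, 4, 5, 14⟩ :=
  out_sound (S := T5.ds_pm) T5.ok_pm (w := 40) (j := 2) (by decide +kernel)
theorem L02354 : Good (Phi V5.P V5.D 1 (-1)) ⟨2, 0, 3, 4, 5, 16, 4, 10, 6, 28⟩ :=
  leafYS_sound T5.ok_pm T5.Ypm.bz_eq (w := 264) (c := ⟨⟨.negSucc 964, .negSucc 125, .ofNat 48, .ofNat 34, .ofNat 20, .ofNat 53⟩, ⟨.ofNat 471, .ofNat 67, .ofNat 111, .negSucc 24, .negSucc 16, .negSucc 34⟩, ⟨.ofNat 1904, .ofNat 399, .ofNat 594, .ofNat 567, .ofNat 498, .ofNat 674⟩, ⟨.negSucc 3095, .negSucc 174, .ofNat 7, .ofNat 34, .negSucc 4, .ofNat 94⟩, ⟨.negSucc 306, .negSucc 124, .negSucc 111, .negSucc 135, .negSucc 131, .negSucc 114⟩, .ofNat 461, .ofNat 200, .ofNat 0, .ofNat 200, .ofNat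 645, .ofNat 0, .ofNat 217, .negSucc 79, .ofNat 160, .ofNat 0, .ofNat 128, .negSucc 182, .ofNat 0, .ofNat 0, .ofNat 3374, .ofNat 12596, .ofNat 0, .ofNat 125216690160075614053081590362977822222680281583714304, .ofNat 2168827221537088007941092206428163739723538824347779072, .ofNat 0, .ofNat 0, .ofNat 0, .ofNat 0, .ofNat 0, .ofNat 0, .ofNat 967045115210259991569007196388825829578023936177733632, .ofNat 0, .ofNat 0, .ofNat 0, .ofNat 32991599034114666264737108876192636556643072996706091008, .ofNat 0, .ofNat 0⟩)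
    (by decide +kernel)
theorem L02355 : Good (Phi V5.P V5.D 1 (-1)) ⟨2, 0, 4, 10, 6, 32, 5, 20, 6, 28⟩ :=
  leafYS_sound T5.ok_pm T5.Ypm.bz_eq (w := 286) (c := ⟨⟨.negSucc 927, .negSucc 152, .ofNat 49, .ofNat 34, .ofNat 25, .ofNat 84⟩, ⟨.ofNat 605, .ofNat 62, .ofNat 47, .negSucc 25, .negSucc 19, .negSucc 55⟩, ⟨.ofNat 2111, .ofNat 453, .ofNat 500, .ofNat 500, .ofNat 454, .ofNat 1075⟩, ⟨.negSucc 3111, .negSucc 175, .ofNat 15, .ofNat 34, .ofNat 9, .ofNat 118⟩, ⟨.negSucc 335, .negSucc 134, .negSucc 95, .negSucc 113, .negSucc 111, .negSucc 190⟩, .ofNat 479, .ofNat 236, .ofNat 0, .ofNat 236, .ofNat 672, .ofNat 0, .ofNat 236, .negSucc 89, .ofNat 209, .ofNat 0, .ofNat 128, .negSucc 235, .ofNat 0, .ofNat 0, .ofNat 4650, .ofNat 32051, .ofNat 0, .ofNat 32045746123023649163690223687783268898951212515258198392832, .ofNat 8866692038941216639432755680700595541885758503167308433719296, .ofNat 0, .ofNat 0, .ofNat 0, .ofNat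 0, .ofNat 0, .ofNat 0, .ofNat 85965300540876781320181549427953548535626207808012811239424, .ofNat 23073874244035192029718804935258123805103150201182891454496768, .ofNat 0, .ofNat 0, .ofNat 7917185489256018337732228607404021583331849011112280124817408, .ofNat 0, .ofNat 0⟩)
    (by decide +kernel)
theorem L02356 : Good (Phi V5.P V5.D 1 (-1)) ⟨2, 0, 4, 10, 6, 33, 5, 20, 6, 28⟩ :=
  leafYS_sound T5.ok_pm T5.Ypm.bz_eq (w := 286) (c := ⟨⟨.negSucc 903, .negSucc 146, .ofNat 49, .ofNat 40, .ofNat 38, .ofNat 95⟩, ⟨.ofNat 585, .ofNat 59, .ofNat 45, .negSucc 27, .negSucc 22, .negSucc 62⟩, ⟨.ofNat 2524, .ofNat 497, .ofNat 518, .ofNat 527, .ofNat 531, .ofNat 1179⟩, ⟨.negSucc 3089, .negSucc 169, .ofNat 17, .ofNat 38, .ofNat 17, .ofNat 131⟩, ⟨.negSucc 431, .negSucc 140, .negSucc 99, .negSucc 122, .negSucc 129, .negSucc 212⟩, .ofNat 478, .ofNat 236, .ofNat 0, .ofNat 236, .ofNat 672, .ofNat 0, .ofNat 342, .negSucc 89, .ofNat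 250, .ofNat 0, .ofNat 128, .negSucc 272, .ofNat 0, .ofNat 0, .ofNat 5140, .ofNat 28062, .ofNat 0, .ofNat 46580966089557996571094648372895003270282298938089661267968, .ofNat 5748026516807359365819375962184485761461720086073885599989760, .ofNat 0, .ofNat 0, .ofNat 0, .ofNat 0, .ofNat 0, .ofNat 0, .ofNat 381048350310893504962620403464610905171888648051494926417920, .ofNat 7337817391543693041474407730415338178335870249366148238802944, .ofNat 0, .ofNat 0, .ofNat 14314839353996197494077337222788433192554472518675959262478336, .ofNat 0, .ofNat 0⟩)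
    (by decide +kernel)
theorem L02357 : Good (Phi V5.P V5.D 1 (-1)) ⟨2, 0, 4, 10, 6, 32, 5, 21, 6, 28⟩ :=
  leafYS_sound T5.ok_pm T5.Ypm.bz_eq (w := 287) (c := ⟨⟨.negSucc 904, .negSucc 147, .ofNat 44, .ofNat 36, .ofNat 29, .ofNat 83⟩, ⟨.ofNat 587, .ofNat 62, .ofNat 48, .negSucc 25, .negSucc 19, .negSucc 56⟩, ⟨.ofNat 2523, .ofNat 503, .ofNat 475, .ofNat 506, .ofNat 454, .ofNat 1064⟩, ⟨.negSucc 3093, .negSucc 186, .ofNat 11, .ofNat 31, .ofNat 8, .ofNat 115⟩, ⟨.negSucc 425, .negSucc 155, .negSucc 92, .negSucc 119, .negSucc 115, .negSucc 198⟩, .ofNat 478, .ofNat 235, .ofNat 0, .ofNat 235, .ofNat 672, .ofNat 0, .ofNat 306, .negSucc 89, .ofNat 162, .ofNat 0, .ofNat 128, .negSucc 186, .ofNat 0, .ofNat 0, .ofNat 3532, .ofNat 36128, .ofNat 0, .ofNat 68733123143874585924734624809064728432283178643143912325120, .ofNat 10695673968124996467646491901127074958163802142656400468213760, .ofNat 0, .ofNat 0, .ofNat 0, .ofNat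 0, .ofNat 0, .ofNat 0, .ofNat 489244975870902603068479964114204149076880997758365373300736, .ofNat 12433077567417063951041382329709558665498696629915295382765568, .ofNat 0, .ofNat 0, .ofNat 10608508707750481966331198967667363348885489925281280321126400, .ofNat 173229702668264044698407583465047312368663458094647288176574464, .ofNat 0⟩)
    (by decide +kernel)
theorem L02358 : Good (Phi V5.P V5.D 1 (-1)) ⟨2, 0, 4, 10, 6, 33, 5, 21, 6, 28⟩ :=
  out_sound (S := T5.ds_pm) T5.ok_pm (w := 48) (j := 2) (by decide +kernel)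
theorem L02359 : Good (Phi V5.P V5.D 1 (-1)) ⟨2, 0, 4, 11, 5, 16, 4, 10, 6, 28⟩ :=
  out_sound (S := T5.ds_pm) T5.ok_pm (w := 41) (j := 3) (by decide +kernel)
theorem L02360 : Good (Phi V5.P V5.D 1 (-1)) ⟨2, 0, 2, 2, 5, 17, 4, 10, 6, 28⟩ :=
  leafYS_sound T5.ok_pm T5.Ypm.bz_eq (w := 263) (c := ⟨⟨.negSucc 948, .negSucc 111, .ofNat 125, .ofNat 0, .ofNat 55, .ofNat 104⟩, ⟨.ofNat 452, .ofNat 62, .ofNat 206, .ofNat 0, .negSucc 63, .negSucc 51⟩, ⟨.ofNat 2347, .ofNat 494, .ofNat 1477, .negSucc 1, .ofNat 875, .ofNat 883⟩, ⟨.negSucc 3070, .negSucc 169, .ofNat 38, .ofNat 2, .ofNat 28, .ofNat 113⟩, ⟨.negSucc 413, .negSucc 141, .negSucc 285, .ofNat 0, .negSucc 289, .negSucc 193⟩, .ofNat 462, .ofNat 204, .ofNat 0, .ofNat 204, .ofNat 652, .ofNat 0, .ofNat 423, .negSucc 81, .ofNat 208, .ofNat 0, .ofNat 128, .negSucc 234, .ofNat 0, .ofNat 0, .ofNat 4703, .ofNat 44496, .ofNat 0, .ofNat 183971351802772897707639469269508070588510916562649088,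 .ofNat 12271663674027230040581377006432800622428512186580074496, .ofNat 0, .ofNat 0, .ofNat 2604087036159364067128713471486261364379763650903146496, .ofNat 0, .ofNat 0, .ofNat 0, .ofNat 1286413239834214143861036380946043844101296285787619328, .ofNat 33106421224146841874512629802587082955782851243951521792, .ofNat 0, .ofNat 0, .ofNat 38566022907886807904103112536548634489346897119102894080, .ofNat 1118397273321156993397472224130756587660985283062865592320, .ofNat 0⟩)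
    (by decide +kernel)
theorem L02361 : Good (Phi V5.P V5.D 1 (-1)) ⟨2, 0, 3, 4, 5, 16, 5, 20, 6, 29⟩ :=
  leafYS_sound T5.ok_pm T5.Ypm.bz_eq (w := 270) (c := ⟨⟨.negSucc 941, .negSucc 116, .ofNat 73, .ofNat 61, .ofNat 26, .ofNat 85⟩, ⟨.ofNat 452, .ofNat 62, .ofNat 95, .negSucc 46, .negSucc 15, .negSucc 47⟩, ⟨.ofNat 2271, .ofNat 449, .ofNat 932, .ofNat 995, .ofNat 407, .ofNat 1024⟩, ⟨.negSucc 3027, .negSucc 166, .ofNat 28, .ofNat 71, .ofNat 11, .ofNat 120⟩, ⟨.negSucc 362, .negSucc 134, .negSucc 166, .negSucc 224, .negSucc 101, .negSucc 180⟩, .ofNat 459, .ofNat 200, .ofNat 0, .ofNat 200, .ofNat 650, .ofNat 0, .ofNat 394, .negSucc 79, .ofNat 233, .ofNat 0, .ofNat 128, .negSucc 267, .ofNat 0, .ofNat 0, .ofNat 5570, .ofNat 34580, .ofNat 0, .ofNat 1467678249137041033006397761747675736086208588088868864, .ofNat 235246408101813170027881168003474234217611785117978591232, .ofNat 0, .ofNat 0, .ofNat 0, .ofNat 0,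 .ofNat 0, .ofNat 0, .ofNat 13443092959800178529734187710214323826729796742273826816, .ofNat 0, .ofNat 0, .ofNat 0, .ofNat 479193268241782534490336205479035098832262825715039207424, .ofNat 11184301514797883872964496120742478121017884207333595152384, .ofNat 0⟩)
    (by decide +kernel)
theorem L02362 : Good (Phi V5.P V5.D 1 (-1)) ⟨2, 0, 3, 5, 6, 32, 5, 20, 6, 29⟩ :=
  leafYS_sound T5.ok_pm T5.Ypm.bz_eq (w := 284) (c := ⟨⟨.negSucc 867, .negSucc 139, .ofNat 119, .ofNat 56, .ofNat 46, .ofNat 120⟩, ⟨.ofNat 560, .ofNat 56, .ofNat 76, .negSucc 36, .negSucc 27, .negSucc 80⟩, ⟨.ofNat 2968, .ofNat 541, .ofNat 1354, .ofNat 761, .ofNat 659, .ofNat 1664⟩, ⟨.negSucc 3014, .negSucc 162, .ofNat 50, .ofNat 56, .ofNat 24, .ofNat 158⟩, ⟨.negSucc 488, .negSucc 144, .negSucc 250, .negSucc 161, .negSucc 154, .negSucc 294⟩, .ofNat 477, .ofNat 235, .ofNat 0, .ofNat 235, .ofNat 672, .ofNat 0, .ofNat 226, .negSucc 88, .ofNat 251,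 .ofNat 0, .ofNat 128, .negSucc 271, .ofNat 0, .ofNat 0, .ofNat 5174, .ofNat 38746, .ofNat 0, .ofNat 9811459921227081518374841230147475240549042263744629964800, .ofNat 6544966782222510921488726099146204926449771993783653344739328, .ofNat 0, .ofNat 0, .ofNat 0, .ofNat 0, .ofNat 0, .ofNat 0, .ofNat 70456710855507265833265045518377091738331736818275739238400, .ofNat 14355585055100670481435518834875091485042608001687641619693568, .ofNat 0, .ofNat 0, .ofNat 2344528064649383117672572333769461421821602239250507279368192, .ofNat 362531550530153538824800612047292674345818310628510886120128512, .ofNat 0⟩)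
    (by decide +kernel)
theorem L02363 : Good (Phi V5.P V5.D 1 (-1)) ⟨2, 0, 3, 5, 6, 33, 5, 20, 6, 29⟩ :=
  out_sound (S := T5.ds_pm) T5.ok_pm (w := 48) (j := 2) (by decide +kernel)
theorem L02364 : Good (Phi V5.P V5.D 1 (-1)) ⟨2, 0, 2, 2, 5, 16, 5, 21, 6, 29⟩ :=
  out_sound (S := T5.ds_pm) T5.ok_pm (w := 46) (j := 2) (by decide +kernel)
theorem L02365 : Good (Phi V5.P V5.D 1 (-1)) ⟨2, 0, 2, 2, 5, 17, 4, 10, 6, 29⟩ :=
  out_sound (S := T5.ds_pm) T5.ok_pm (w := 44) (j := 2) (by decide +kernel)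
theorem L02366 : Good (Phi V5.P V5.D 1 (-1)) ⟨2, 0, 2, 2, 4, 8, 4, 11, 5, 14⟩ :=
  out_sound (S := T5.ds_pm) T5.ok_pm (w := 40) (j := 2) (by decide +kernel)
theorem L02367 : Good (Phi V5.P V5.D 1 (-1)) ⟨2, 0, 2, 2, 4, 9, 3, 5, 5, 14⟩ :=
  out_sound (S := T5.ds_pm) T5.ok_pm (w := 38) (j := 2) (by decide +kernel)
theorem L02368 : Good (Phi V5.P V5.D 1 (-1)) ⟨2, 0, 2, 3, 3, 4, 2, 2, 5, 14⟩ :=
  out_sound (S := T5.ds_pm) T5.ok_pm (w := 37) (j := 3) (by decide +kernel)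
theorem L02369 : Good (Phi V5.P V5.D 1 (-1)) ⟨2, 0, 2, 2, 4, 8, 4, 8, 5, 15⟩ :=
  out_sound (S := T5.ds_pm) T5.ok_pm (w := 32) (j := 1) (by decide +kernel)
theorem L02370 : Good (Phi V5.P V5.D 1 (-1)) ⟨2, 0, 2, 2, 5, 16, 4, 9, 6, 30⟩ :=
  out_sound (S := T5.ds_pm) T5.ok_pm (w := 36) (j := 1) (by decide +kernel)
theorem L02371 : Good (Phi V5.P V5.D 1 (-1)) ⟨2, 0, 2, 2, 5, 17, 4, 9, 6, 30⟩ :=
  out_sound (S := T5.ds_pm) T5.ok_pm (w := 44) (j := 2) (by decide +kernel)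
theorem L02372 : Good (Phi V5.P V5.D 1 (-1)) ⟨2, 0, 2, 2, 4, 8, 4, 9, 6, 31⟩ :=
  out_sound (S := T5.ds_pm) T5.ok_pm (w := 34) (j := 1) (by decide +kernel)
theorem L02373 : Good (Phi V5.P V5.D 1 (-1)) ⟨2, 0, 2, 2, 4, 8, 3, 5, 5, 15⟩ :=
  out_sound (S := T5.ds_pm) T5.ok_pm (w := 38) (j := 2) (by decide +kernel)
theorem L02374 : Good (Phi V5.P V5.D 1 (-1)) ⟨2, 0, 2, 3, 4, 8, 2, 2, 5, 15⟩ :=
  out_sound (S := T5.ds_pm) T5.ok_pm (w := 37) (j := 3) (by decide +kernel)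
theorem L02375 : Good (Phi V5.P V5.D 1 (-1)) ⟨2, 0, 1, 1, 4, 9, 2, 2, 5, 15⟩ :=
  out_sound (S := T5.ds_pm) T5.ok_pm (w := 36) (j := 2) (by decide +kernel)
theorem L02376 : Good (Phi V5.P V5.D 1 (-1)) ⟨2, 0, 1, 1, 3, 5, 2, 2, 4, 7⟩ :=
  out_sound (S := T5.ds_pm) T5.ok_pm (w := 32) (j := 2) (by decide +kernel)
theorem L02377 : Good (Phi V5.P V5.D 1 (-1)) ⟨2, 0, 1, 1, 2, 2, 2, 3, 4, 7⟩ :=
  out_sound (S := T5.ds_pm) T5.ok_pm (w := 30) (j := 2) (by decide +kernel)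
theorem L02378 : Good (Phi V5.P V5.D 1 (-1)) ⟨2, 0, 1, 1, 2, 3, 1, 1, 3, 3⟩ :=
  out_sound (S := T5.ds_pm) T5.ok_pm (w := 26) (j := 2) (by decide +kernel)
theorem L02379 : Good (Phi V5.P V5.D 1 (-1)) ⟨2, 0, 1, 1, 4, 8, 3, 4, 4, 8⟩ :=
  out_sound (S := T5.ds_pm) T5.ok_pm (w := 29) (j := 1) (by decide +kernel)
theorem L02380 : Good (Phi V5.P V5.D 1 (-1)) ⟨2, 0, 1, 1, 4, 8, 3, 5, 4, 8⟩ :=
  out_sound (S := T5.ds_pm) T5.ok_pm (w := 36) (j := 2) (by decide +kernel)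
theorem L02381 : Good (Phi V5.P V5.D 1 (-1)) ⟨2, 0, 1, 1, 4, 8, 2, 2, 4, 9⟩ :=
  out_sound (S := T5.ds_pm) T5.ok_pm (w := 28) (j := 1) (by decide +kernel)
theorem L02382 : Good (Phi V5.P V5.D 1 (-1)) ⟨2, 0, 1, 1, 4, 9, 2, 2, 3, 4⟩ :=
  out_sound (S := T5.ds_pm) T5.ok_pm (w := 32) (j := 2) (by decide +kernel)
theorem L02383 : Good (Phi V5.P V5.D 1 (-1)) ⟨2, 0, 1, 1, 3, 4, 2, 3, 3, 4⟩ :=
  out_sound (S := T5.ds_pm) T5.ok_pm (w := 30) (j := 2) (by decide +kernel)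
theorem L02384 : Good (Phi V5.P V5.D 1 (-1)) ⟨2, 0, 1, 1, 3, 4, 1, 1, 3, 5⟩ :=
  out_sound (S := T5.ds_pm) T5.ok_pm (w := 28) (j := 2) (by decide +kernel)
theorem L02385 : Good (Phi V5.P V5.D 1 (-1)) ⟨2, 0, 1, 1, 3, 5, 1, 1, 2, 2⟩ :=
  out_sound (S := T5.ds_pm) T5.ok_pm (w := 26) (j := 2) (by decide +kernel)
theorem L02386 : Good (Phi V5.P V5.D 1 (-1)) ⟨2, 0, 1, 1, 2, 2, 1, 1, 2, 3⟩ :=
  out_sound (S := T5.ds_pm) T5.ok_pm (w := 24) (j := 2) (by decide +kernel)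
theorem L02387 : Good (Phi V5.P V5.D 1 (-1)) ⟨2, 0, 1, 1, 2, 3, 1, 1, 1, 1⟩ :=
  out_sound (S := T5.ds_pm) T5.ok_pm (w := 22) (j := 2) (by decide +kernel)
theorem L02388 : Good (Phi V5.P V5.D 1 (-1)) ⟨2, 1, 2, 2, 2, 2, 2, 2, 3, 0⟩ :=
  leafYS_sound T5.ok_pm T5.Ypm.bz_eq (w := 192) (c := ⟨⟨.ofNat 720, .negSucc 98, .negSucc 150, .negSucc 44, .negSucc 413, .negSucc 1490⟩, ⟨.negSucc 382, .ofNat 50, .ofNat 71, .ofNat 15, .ofNat 232, .ofNat 787⟩, ⟨.negSucc 847, .ofNat 72, .ofNat 333, .ofNat 109, .ofNat 667, .ofNat 1066⟩, ⟨.ofNat 1919, .negSucc 85, .ofNat 81, .ofNat 329, .negSucc 1198, .negSucc 4249⟩, ⟨.ofNat 199, .ofNat 227, .ofNat 462, .ofNat 776, .negSucc 170, .negSucc 731⟩, .ofNat 768, .ofNat 636, .ofNat 0, .ofNat 636, .ofNat 1599, .ofNat 0, .ofNat 168, .negSucc 127, .negSucc 163, .ofNat 0, .ofNat 104, .ofNat 82, .ofNat 0, .ofNat 0, .ofNat 342, .ofNat 447, .ofNat 0, .ofNat 0, .ofNat 0, .ofNat 0, .ofNat 0,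 .ofNat 0, .ofNat 275590337250120311782088277988737024, .ofNat 0, .ofNat 0, .ofNat 0, .ofNat 0, .ofNat 0, .ofNat 0, .ofNat 0, .ofNat 0, .ofNat 0⟩)
    (by decide +kernel)
theorem L02389 : Good (Phi V5.P V5.D 1 (-1)) ⟨2, 1, 2, 2, 2, 2, 2, 3, 3, 0⟩ :=
  leafYS_sound T5.ok_pm T5.Ypm.bz_eq (w := 191) (c := ⟨⟨.ofNat 339, .negSucc 569, .negSucc 192, .negSucc 352, .negSucc 951, .negSucc 858⟩, ⟨.negSucc 136, .ofNat 153, .ofNat 190, .ofNat 194, .ofNat 513, .ofNat 392⟩, ⟨.negSucc 319, .ofNat 615, .ofNat 249, .ofNat 509, .ofNat 1432, .ofNat 641⟩, ⟨.ofNat 559, .negSucc 755, .negSucc 197, .negSucc 322, .negSucc 2160, .negSucc 2553⟩, ⟨.negSucc 139, .ofNat 568, .ofNat 151, .ofNat 1029, .ofNat 522, .negSucc 793⟩, .ofNat 758, .ofNat 622, .ofNat 0, .ofNat 622, .ofNat 1588, .ofNat 0, .ofNat 223, .negSucc 127, .negSucc 169, .ofNat 0, .ofNat 107, .ofNat 80, .ofNat 0, .ofNat 0, .ofNat 312, .ofNat 188, .ofNat 0, .ofNat 0, .ofNat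 1286087740906904122367935923617792, .ofNat 0, .ofNat 0, .ofNat 0, .ofNat 0, .ofNat 0, .ofNat 0, .ofNat 0, .ofNat 103606967106903709537610052780687360, .ofNat 0, .ofNat 0, .ofNat 0, .ofNat 37226192313472508493180679397310464, .ofNat 0⟩)
    (by decide +kernel)

end Crest.Agent.R097C5.N5pm
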