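import Crest.Agent.R097.KS3
import Crest.Agent.R097.T5Ypm

/-!
# Row 97, box cover in dimension n = 5 (generated)
-/

set_option autoImplicit false
set_option Elab.async false
set_option maxHeartbeats 0
set_option maxRecDepth 100000

open Crest.Agent.R097 Crest.Agent.R097.KA


namespace Crest.Agent.R097C5.N5pm

theorem L02390 : Good (Phi V5.P V5.D 1 (-1)) ⟨2, 1, 2, 2, 2, 3, 2, 2, 4, 0⟩ :=
  leafYS_sound T5.ok_pm T5.Ypm.bz_eq (w := 197) (c := ⟨⟨.ofNat 689, .negSucc 8, .ofNat 61, .negSucc 300, .negSucc 608, .negSucc 505⟩, ⟨.negSucc 261, .ofNat 27, .negSucc 79, .ofNat 98, .ofNat 291, .ofNat 219⟩, ⟨.negSucc 498, .negSucc 67, .ofNat 146, .ofNat 506, .ofNat 793, .ofNat 20⟩, ⟨.ofNat 2962, .negSucc 264, .ofNat 93, .negSucc 1634, .negSucc 1931, .negSucc 1603⟩, ⟨.ofNat 2339, .negSucc 180, .negSucc 235, .negSucc 1695, .negSucc 686, .negSucc 732⟩, .ofNat 752, .ofNat 610, .ofNat 0, .ofNat 610, .ofNat 1576,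 .ofNat 0, .ofNat 193, .negSucc 127, .negSucc 146, .ofNat 0, .ofNat 90, .ofNat 68, .ofNat 0, .ofNat 0, .ofNat 265, .ofNat 248, .ofNat 0, .ofNat 0, .ofNat 51936610201842009831067739316289536, .ofNat 0, .ofNat 0, .ofNat 0, .ofNat 3972169312275032433952859982756052992, .ofNat 0, .ofNat 0, .ofNat 0, .ofNat 3225419204907880404508570837850259456, .ofNat 0, .ofNat 0, .ofNat 0, .ofNat 0, .ofNat 0⟩)
    (by decide +kernel)
theorem L02391 : Good (Phi V5.P V5.D 1 (-1)) ⟨2, 1, 2, 2, 2, 3, 2, 3, 4, 0⟩ :=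
  leafYS_sound T5.ok_pm T5.Ypm.bz_eq (w := 196) (c := ⟨⟨.negSucc 60, .negSucc 372, .ofNat 53, .negSucc 95, .negSucc 1077, .negSucc 234⟩, ⟨.ofNat 79, .ofNat 93, .ofNat 53, .ofNat 24, .ofNat 599, .ofNat 97⟩, ⟨.ofNat 467, .ofNat 270, .ofNat 22, .ofNat 107, .ofNat 1331, .negSucc 23⟩, ⟨.ofNat 187, .negSucc 456, .ofNat 261, .negSucc 662, .negSucc 2228, .negSucc 601⟩, ⟨.ofNat 869, .ofNat 604, .negSucc 236, .negSucc 727, .ofNat 1064, .negSucc 31⟩, .ofNat 843, .ofNat 758, .ofNat 0, .ofNat 758, .ofNat 1732, .ofNat 0, .ofNat 175, .negSucc 127, .negSucc 188, .ofNat 0, .ofNat 83, .ofNat 95, .ofNat 0, .ofNat 0, .ofNat 308, .ofNat 103, .ofNat 0, .ofNat 0, .ofNat 26559521141646813377363154019811328, .ofNat 0, .ofNat 0, .ofNat 7621598418064766184406212444828991488, .ofNat 8882407998324533454402797137035264000, .ofNat 0, .ofNat 0, .ofNat 7657657430265185563100066928591372288, .ofNat 1290371562570410940714238090252648448,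 .ofNat 0, .ofNat 0, .ofNat 0, .ofNat 0, .ofNat 0⟩)
    (by decide +kernel)
theorem L02392 : Good (Phi V5.P V5.D 1 (-1)) ⟨3, 2, 2, 2, 2, 3, 1, 1, 4, 1⟩ :=
  leafYS_sound T5.ok_pm T5.Ypm.bz_eq (w := 196) (c := ⟨⟨.ofNat 168, .negSucc 212, .ofNat 130, .negSucc 283, .negSucc 1101, .negSucc 1046⟩, ⟨.negSucc 85, .ofNat 59, .ofNat 94, .ofNat 152, .ofNat 616, .ofNat 548⟩, ⟨.negSucc 398, .ofNat 107, .ofNat 75, .ofNat 236, .ofNat 1979, .ofNat 656⟩, ⟨.ofNat 790, .negSucc 383, .ofNat 363, .negSucc 1000, .negSucc 2640, .negSucc 3007⟩, ⟨.ofNat 810, .ofNat 39, .negSucc 79, .negSucc 444, .ofNat 500, .negSucc 489⟩, .ofNat 918, .ofNat 825, .ofNat 0, .ofNat 825, .ofNat 1770, .ofNat 0, .ofNat 128, .negSucc 202, .negSucc 125, .ofNat 0, .ofNat 141, .ofNat 66, .ofNat 0, .ofNat 0, .ofNat 249, .ofNat 122, .ofNat 0, .ofNat 0, .ofNat 0, .ofNat 0, .ofNat 0, .ofNat 0, .ofNat 0, .ofNat 0, .ofNat 0, .ofNat 228698757302405508995501071749632491520,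 .ofNat 41480038890826772108423720945582080, .ofNat 0, .ofNat 0, .ofNat 47469826181607690292716360609287897088, .ofNat 58291105520617431309244717764444160, .ofNat 0⟩)
    (by decide +kernel)
theorem L02393 : Good (Phi V5.P V5.D 1 (-1)) ⟨3, 3, 2, 2, 2, 3, 1, 1, 4, 1⟩ :=
  leafYS_sound T5.ok_pm T5.Ypm.bz_eq (w := 196) (c := ⟨⟨.ofNat 190, .negSucc 393, .ofNat 273, .negSucc 446, .negSucc 1601, .negSucc 1249⟩, ⟨.negSucc 40, .ofNat 62, .ofNat 131, .ofNat 161, .ofNat 709, .ofNat 539⟩, ⟨.negSucc 434, .ofNat 198, .ofNat 84, .ofNat 232, .ofNat 2385, .ofNat 789⟩, ⟨.ofNat 730, .negSucc 664, .ofNat 911, .negSucc 1475, .negSucc 3587, .negSucc 3191⟩, ⟨.ofNat 782, .negSucc 5, .ofNat 509, .negSucc 827, .ofNat 529, .negSucc 359⟩, .ofNat 747, .ofNat 647, .ofNat 0, .ofNat 647, .ofNat 1615, .ofNat 0, .ofNat 128, .negSucc 169, .negSucc 120, .ofNat 0, .ofNat 107, .ofNat 53, .ofNat 0, .ofNat 0, .ofNat 188, .ofNat 100,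 .ofNat 0, .ofNat 0, .ofNat 1503040336004517109912001946058752, .ofNat 0, .ofNat 0, .ofNat 31959666817709963165985019004624830464, .ofNat 75856052282856218323801830353534976, .ofNat 0, .ofNat 0, .ofNat 108660599303315974501048092041355984896, .ofNat 38725869038640829130296138101948416, .ofNat 0, .ofNat 0, .ofNat 0, .ofNat 44161278154996929524978415415853056, .ofNat 0⟩)
    (by decide +kernel)
theorem L02394 : Good (Phi V5.P V5.D 1 (-1)) ⟨2, 1, 2, 3, 1, 1, 1, 1, 3, 0⟩ :=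
  out_sound (S := T5.ds_pm) T5.ok_pm (w := 37) (j := 3) (by decide +kernel)
theorem L02395 : Good (Phi V5.P V5.D 1 (-1)) ⟨2, 1, 2, 2, 2, 2, 2, 2, 3, 1⟩ :=
  leafYS_sound T5.ok_pm T5.Ypm.bz_eq (w := 191) (c := ⟨⟨.negSucc 851, .negSucc 509, .ofNat 11, .negSucc 348, .negSucc 110, .negSucc 342⟩, ⟨.ofNat 453, .negSucc 12, .ofNat 321, .ofNat 168, .ofNat 48, .ofNat 164⟩, ⟨.ofNat 363, .ofNat 455, .ofNat 44, .ofNat 165, .ofNat 594, .ofNat 647⟩, ⟨.negSucc 2659, .negSucc 382, .ofNat 55, .negSucc 640, .negSucc 268, .negSucc 987⟩, ⟨.negSucc 267, .ofNat 44, .ofNat 130, .ofNat 371, .negSucc 20, .negSucc 217⟩, .ofNat 763, .ofNat 631, .ofNat 0, .ofNat 631, .ofNat 1596, .ofNat 0, .ofNat 137, .negSucc 127, .negSucc 66, .ofNat 0, .ofNat 107, .ofNat 32, .ofNat 0, .ofNat 0, .ofNat 267, .ofNat 447, .ofNat 0, .ofNat 0, .ofNat 0, .ofNat 0, .ofNat 0, .ofNat 0, .ofNat 0, .ofNat 0, .ofNat 0, .ofNat 0, .ofNat 118140856929520050918398187368611840,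 .ofNat 0, .ofNat 0, .ofNat 0, .ofNat 101295154536311806364053725016752128, .ofNat 0⟩)
    (by decide +kernel)
theorem L02396 : Good (Phi V5.P V5.D 1 (-1)) ⟨2, 1, 2, 2, 2, 3, 2, 2, 4, 2⟩ :=
  leafYS_sound T5.ok_pm T5.Ypm.bz_eq (w := 196) (c := ⟨⟨.negSucc 777, .negSucc 805, .ofNat 52, .negSucc 508, .negSucc 399, .negSucc 519⟩, ⟨.ofNat 416, .ofNat 128, .ofNat 334, .ofNat 258, .ofNat 166, .ofNat 275⟩, ⟨.ofNat 198, .ofNat 512, .ofNat 150, .ofNat 288, .ofNat 887, .ofNat 558⟩, ⟨.negSucc 2148, .negSucc 984, .ofNat 286, .negSucc 1452, .negSucc 1181, .negSucc 1294⟩, ⟨.ofNat 355, .ofNat 257, .ofNat 228, .negSucc 291, .negSucc 466, .ofNat 124⟩, .ofNat 761, .ofNat 624, .ofNat 0, .ofNat 624, .ofNat 1586, .ofNat 0, .ofNat 195, .negSucc 127, .negSucc 75, .ofNat 0, .ofNat 100, .ofNat 32, .ofNat 0, .ofNat 0, .ofNat 224, .ofNat 227, .ofNat 0, .ofNat 0, .ofNat 131577109290503072360177439566987264, .ofNat 0, .ofNat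 0, .ofNat 0, .ofNat 5764549311022832215322114154649616384, .ofNat 0, .ofNat 0, .ofNat 0, .ofNat 1106213313147907078264565797364957184, .ofNat 0, .ofNat 0, .ofNat 0, .ofNat 1783697920641744545959606647999430656, .ofNat 0⟩)
    (by decide +kernel)
theorem L02397 : Good (Phi V5.P V5.D 1 (-1)) ⟨2, 1, 2, 2, 3, 6, 2, 2, 4, 3⟩ :=
  leafYS_sound T5.ok_pm T5.Ypm.bz_eq (w := 210) (c := ⟨⟨.negSucc 1473, .negSucc 611, .ofNat 0, .negSucc 159, .negSucc 240, .ofNat 15⟩, ⟨.ofNat 750, .ofNat 21, .ofNat 398, .ofNat 100, .ofNat 100, .negSucc 1⟩, ⟨.ofNat 833, .ofNat 446, .ofNat 92, .ofNat 81, .ofNat 873, .ofNat 285⟩, ⟨.negSucc 4066, .negSucc 433, .ofNat 38, .negSucc 144, .negSucc 659, .negSucc 102⟩, ⟨.ofNat 48, .ofNat 328, .ofNat 90, .ofNat 546, .negSucc 201, .negSucc 218⟩, .ofNat 843, .ofNat 758, .ofNat 0, .ofNat 758, .ofNat 1732, .ofNat 0, .ofNat 229, .negSucc 127, .negSucc 38, .ofNat 0, .ofNat 103, .ofNat 15,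 .ofNat 0, .ofNat 0, .ofNat 300, .ofNat 122, .ofNat 0, .ofNat 0, .ofNat 966961313602427172274979102863482945536, .ofNat 0, .ofNat 0, .ofNat 0, .ofNat 0, .ofNat 0, .ofNat 0, .ofNat 248981670003626446157920954159336018411520, .ofNat 13387067030622527993568507381685612969984, .ofNat 0, .ofNat 0, .ofNat 417813262227969500643503792553375607816192, .ofNat 32376101691963679342006924953518952415232, .ofNat 0⟩)
    (by decide +kernel)
theorem L02398 : Good (Phi V5.P V5.D 1 (-1)) ⟨3, 2, 2, 2, 3, 7, 2, 2, 5, 6⟩ :=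
  leafYS_sound T5.ok_pm T5.Ypm.bz_eq (w := 220) (c := ⟨⟨.negSucc 1540, .negSucc 361, .negSucc 119, .negSucc 225, .negSucc 302, .ofNat 12⟩, ⟨.ofNat 802, .ofNat 64, .ofNat 456, .ofNat 122, .ofNat 162, .negSucc 0⟩, ⟨.ofNat 851, .ofNat 254, .ofNat 209, .ofNat 190, .ofNat 836, .ofNat 130⟩, ⟨.negSucc 3928, .negSucc 498, .negSucc 237, .negSucc 688, .negSucc 1053, .ofNat 143⟩, ⟨.ofNat 754, .negSucc 63, .negSucc 104, .negSucc 187, .negSucc 473, .ofNat 224⟩, .ofNat 918, .ofNat 825, .ofNat 0, .ofNat 825, .ofNat 1770, .ofNat 0, .ofNat 128, .negSucc 182, .negSucc 21, .ofNat 0, .ofNat 153, .negSucc 3, .ofNat 0, .ofNat 0, .ofNat 346, .ofNat 267, .ofNat 0, .ofNat 0, .ofNat 0, .ofNat 0, .ofNat 0, .ofNat 0, .ofNat 0, .ofNat 0, .ofNat 0, .ofNat 0, .ofNat 0, .ofNat 0, .ofNat 0, .ofNat 65136747855628629178649660061131300661100544, .ofNat 610985637947116876170547410422413475708928, .ofNat 0⟩)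
    (by decide +kernel)
theorem L02399 : Good (Phi V5.P V5.D 1 (-1)) ⟨3, 2, 3, 4, 3, 7, 2, 2, 5, 7⟩ :=
  leafYS_sound T5.ok_pm T5.Ypm.bz_eq (w := 223) (c := ⟨⟨.negSucc 1653, .negSucc 266, .negSucc 43, .negSucc 152, .negSucc 220, .ofNat 87⟩, ⟨.ofNat 861, .ofNat 19, .ofNat 216, .ofNat 89, .ofNat 104, .negSucc 39⟩, ⟨.ofNat 1024, .ofNat 237, .ofNat 110, .ofNat 200, .ofNat 828, .ofNat 150⟩, ⟨.negSucc 4260, .negSucc 164, .negSucc 30, .negSucc 387, .negSucc 751, .ofNat 210⟩, ⟨.ofNat 617, .ofNat 164, .ofNat 36, .ofNat 48, .negSucc 337, .negSucc 8⟩, .ofNat 1140, .ofNat 1175, .ofNat 0, .ofNat 1175, .ofNat 2504, .ofNat 0, .ofNat 128, .negSucc 172, .ofNat 23, .ofNat 0, .ofNat 142, .negSucc 36, .ofNat 0, .ofNat 0, .ofNat 591, .ofNat 563, .ofNat 0, .ofNat 0, .ofNat 0, .ofNat 0, .ofNat 0, .ofNat 0, .ofNat 0, .ofNat 0, .ofNat 0, .ofNat 625838112718705953380425046834063804452569088, .ofNat 0, .ofNat 0, .ofNat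 0, .ofNat 3570711678128045355996159650572709125662179328, .ofNat 0, .ofNat 0⟩)
    (by decide +kernel)
theorem L02400 : Good (Phi V5.P V5.D 1 (-1)) ⟨3, 2, 3, 5, 3, 7, 2, 2, 5, 7⟩ :=
  leafYS_sound T5.ok_pm T5.Ypm.bz_eq (w := 225) (c := ⟨⟨.negSucc 1688, .negSucc 268, .negSucc 46, .negSucc 158, .negSucc 194, .ofNat 67⟩, ⟨.ofNat 1060, .ofNat 33, .ofNat 225, .ofNat 98, .ofNat 107, .negSucc 34⟩, ⟨.ofNat 1089, .ofNat 256, .ofNat 45, .ofNat 271, .ofNat 899, .ofNat 151⟩, ⟨.negSucc 4233, .negSucc 135, .negSucc 131, .negSucc 467, .negSucc 701, .ofNat 124⟩, ⟨.ofNat 701, .ofNat 210, .negSucc 59, .negSucc 70, .negSucc 331, .negSucc 64⟩, .ofNat 3042, .ofNat 4123, .ofNat 0, .ofNat 4123, .ofNat 7105, .ofNat 0, .ofNat 128, .negSucc 301, .ofNat 46, .ofNat 0, .ofNat 211, .negSucc 41, .ofNat 0, .ofNat 0, .ofNat 883, .ofNat 793, .ofNat 0, .ofNat 0, .ofNat 0, .ofNat 0, .ofNat 0, .ofNat 0, .ofNat 0, .ofNat 0, .ofNat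 0, .ofNat 1780180833293929073686765272575506496664633344, .ofNat 4091777359264202474942250456106844492398592, .ofNat 0, .ofNat 0, .ofNat 7267607713962477197564946529055016331822235648, .ofNat 14700141291001225664071057971332921159581696, .ofNat 0⟩)
    (by decide +kernel)
theorem L02401 : Good (Phi V5.P V5.D 1 (-1)) ⟨3, 3, 3, 4, 3, 7, 2, 2, 5, 6⟩ :=
  leafYS_sound T5.ok_pm T5.Ypm.bz_eq (w := 223) (c := ⟨⟨.negSucc 1931, .negSucc 414, .negSucc 65, .negSucc 195, .negSucc 364, .ofNat 103⟩, ⟨.ofNat 907, .negSucc 39, .ofNat 236, .ofNat 66, .ofNat 124, .negSucc 26⟩, ⟨.ofNat 1082, .ofNat 274, .ofNat 93, .ofNat 241, .ofNat 866, .ofNat 154⟩, ⟨.negSucc 4527, .negSucc 330, .negSucc 164, .negSucc 606, .negSucc 996, .ofNat 324⟩, ⟨.ofNat 770, .ofNat 129, .negSucc 118, .negSucc 346, .negSucc 394, .ofNat 227⟩, .ofNat 861, .ofNat 842, .ofNat 0, .ofNat 842, .ofNat 2206, .ofNat 0, .ofNat 173, .negSucc 127, .negSucc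 25, .ofNat 0, .ofNat 99, .negSucc 0, .ofNat 0, .ofNat 0, .ofNat 291, .ofNat 451, .ofNat 0, .ofNat 0, .ofNat 0, .ofNat 0, .ofNat 0, .ofNat 0, .ofNat 0, .ofNat 0, .ofNat 0, .ofNat 0, .ofNat 0, .ofNat 0, .ofNat 0, .ofNat 374101114925540944615281245190098452953956352, .ofNat 1366104420190622573332782726813441524236288, .ofNat 0⟩)
    (by decide +kernel)
theorem L02402 : Good (Phi V5.P V5.D 1 (-1)) ⟨3, 3, 3, 4, 3, 7, 2, 2, 5, 7⟩ :=
  leafYS_sound T5.ok_pm T5.Ypm.bz_eq (w := 223) (c := ⟨⟨.negSucc 1964, .negSucc 311, .negSucc 50, .negSucc 88, .negSucc 256, .ofNat 140⟩, ⟨.ofNat 911, .negSucc 51, .ofNat 223, .ofNat 40, .ofNat 78, .negSucc 53⟩, ⟨.ofNat 1210, .ofNat 272, .ofNat 109, .ofNat 282, .ofNat 897, .ofNat 173⟩, ⟨.negSucc 4600, .negSucc 93, .negSucc 35, .negSucc 176, .negSucc 783, .ofNat 295⟩, ⟨.ofNat 727, .ofNat 254, .ofNat 51, .ofNat 59, .negSucc 457, .negSucc 46⟩, .ofNat 1179, .ofNat 1447, .ofNat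 0, .ofNat 1447, .ofNat 3520, .ofNat 0, .ofNat 170, .negSucc 127, .ofNat 2, .ofNat 0, .ofNat 96, .negSucc 12, .ofNat 0, .ofNat 0, .ofNat 365, .ofNat 166, .ofNat 0, .ofNat 0, .ofNat 63565217982505212895924216797304813780992, .ofNat 0, .ofNat 0, .ofNat 0, .ofNat 0, .ofNat 0, .ofNat 0, .ofNat 282363558478510631932234198758356506623606784, .ofNat 813178172962289243972856754492647621525504, .ofNat 0, .ofNat 0, .ofNat 1227040349860382036506572607156902183271661568, .ofNat 467626950832541160519697007703659540119552, .ofNat 0⟩)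
    (by decide +kernel)
theorem L02403 : Good (Phi V5.P V5.D 1 (-1)) ⟨3, 3, 3, 5, 3, 7, 2, 2, 4, 3⟩ :=
  out_sound (S := T5.ds_pm) T5.ok_pm (w := 45) (j := 3) (by decide +kernel)
theorem L02404 : Good (Phi V5.P V5.D 1 (-1)) ⟨2, 1, 2, 2, 2, 2, 2, 3, 4, 2⟩ :=
  leafYS_sound T5.ok_pm T5.Ypm.bz_eq (w := 196) (c := ⟨⟨.negSucc 754, .negSucc 729, .ofNat 38, .negSucc 542, .negSucc 517, .negSucc 329⟩, ⟨.ofNat 368, .ofNat 101, .ofNat 309, .ofNat 285, .ofNat 286, .ofNat 171⟩, ⟨.ofNat 610, .ofNat 722, .ofNat 65, .ofNat 585, .ofNat 1055, .ofNat 401⟩, ⟨.negSucc 2387, .negSucc 893, .ofNat 82, .negSucc 1121, .negSucc 1303, .negSucc 996⟩, ⟨.negSucc 332, .ofNat 131, .ofNat 38, .ofNat 455, .ofNat 73, .negSucc 248⟩, .ofNat 774, .ofNat 640, .ofNat 0, .ofNat 640, .ofNat 1600, .ofNat 0, .ofNat 190, .negSucc 127, .negSucc 117, .ofNat 0, .ofNat 105, .ofNat 55, .ofNat 0, .ofNat 0, .ofNat 317, .ofNat 169, .ofNat 0, .ofNat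 0, .ofNat 159495173453176577924891847814021120, .ofNat 0, .ofNat 0, .ofNat 106270968340516682071739580169282650112, .ofNat 8147135741182493363604241228595462144, .ofNat 0, .ofNat 0, .ofNat 62236744639461348763422275950897790976, .ofNat 2505376081854367363694495193853067264, .ofNat 0, .ofNat 0, .ofNat 94986918457162297878465554977568849920, .ofNat 1609101206373684325674672129413480448, .ofNat 0⟩)
    (by decide +kernel)
theorem L02405 : Good (Phi V5.P V5.D 1 (-1)) ⟨2, 1, 2, 2, 2, 2, 3, 6, 4, 3⟩ :=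
  leafYS_sound T5.ok_pm T5.Ypm.bz_eq (w := 201) (c := ⟨⟨.negSucc 1139, .negSucc 651, .negSucc 73, .negSucc 492, .negSucc 177, .negSucc 40⟩, ⟨.ofNat 567, .ofNat 16, .ofNat 403, .ofNat 268, .ofNat 111, .negSucc 1⟩, ⟨.ofNat 997, .ofNat 711, .ofNat 230, .ofNat 599, .ofNat 453, .ofNat 251⟩, ⟨.negSucc 3373, .negSucc 709, .negSucc 218, .negSucc 1189, .negSucc 542, .negSucc 162⟩, ⟨.negSucc 266, .negSucc 172, .negSucc 11, .ofNat 193, .negSucc 107, .negSucc 156⟩, .ofNat 419, .ofNat 187, .ofNat 0, .ofNat 187, .ofNat 668, .ofNat 0, .ofNat 312, .negSucc 101, .negSucc 87, .ofNat 0, .ofNat 128, .ofNat 24, .ofNat 0, .ofNat 0, .ofNat 387, .ofNat 409, .ofNat 0, .ofNat 0, .ofNat 0, .ofNat 0, .ofNat 0, .ofNat 0, .ofNat 0, .ofNat 0, .ofNat 0, .ofNat 287297460605951138231744129762548776960, .ofNat 46055709890881627487291244470079586304, .ofNat 0, .ofNat 0, .ofNat 456128348338885389730592768925640949760, .ofNat 86371953662156094263143539675301412864,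 .ofNat 0⟩)
    (by decide +kernel)
theorem L02406 : Good (Phi V5.P V5.D 1 (-1)) ⟨2, 1, 2, 2, 2, 2, 3, 7, 4, 3⟩ :=
  leafYS_sound T5.ok_pm T5.Ypm.bz_eq (w := 200) (c := ⟨⟨.negSucc 1262, .negSucc 666, .ofNat 34, .negSucc 721, .negSucc 276, .negSucc 69⟩, ⟨.ofNat 635, .ofNat 4, .ofNat 400, .ofNat 354, .ofNat 122, .ofNat 30⟩, ⟨.ofNat 1353, .ofNat 760, .ofNat 129, .ofNat 828, .ofNat 428, .ofNat 223⟩, ⟨.negSucc 3679, .negSucc 828, .negSucc 84, .negSucc 1730, .negSucc 772, .negSucc 278⟩, ⟨.negSucc 276, .negSucc 348, .negSucc 78, .ofNat 229, .negSucc 143, .negSucc 175⟩, .ofNat 417, .ofNat 186, .ofNat 0, .ofNat 186, .ofNat 668, .ofNat 0, .ofNat 249, .negSucc 99, .negSucc 70, .ofNat 0, .ofNat 128, .ofNat 19, .ofNat 0, .ofNat 0, .ofNat 256, .ofNat 131, .ofNat 0, .ofNat 36833461798998350149719282971043692544, .ofNat 0, .ofNat 0, .ofNat 0, .ofNat 1172980859150578257019506127484068298752, .ofNat 47784491591606421404109894113852129280,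 .ofNat 0, .ofNat 0, .ofNat 683869458942736031155104494555559362560, .ofNat 0, .ofNat 0, .ofNat 0, .ofNat 682407908010282936030917365393340235776, .ofNat 17710174566980522190546705601355841536, .ofNat 0⟩)
    (by decide +kernel)
theorem L02407 : Good (Phi V5.P V5.D 1 (-1)) ⟨3, 2, 2, 2, 2, 3, 3, 6, 4, 2⟩ :=
  leafYS_sound T5.ok_pm T5.Ypm.bz_eq (w := 205) (c := ⟨⟨.negSucc 983, .negSucc 490, .negSucc 74, .negSucc 604, .negSucc 427, .negSucc 511⟩, ⟨.ofNat 449, .ofNat 135, .ofNat 444, .ofNat 341, .ofNat 256, .ofNat 304⟩, ⟨.ofNat 941, .ofNat 357, .ofNat 335, .ofNat 289, .ofNat 645, .ofNat 468⟩, ⟨.negSucc 2507, .negSucc 833, .negSucc 390, .negSucc 1585, .negSucc 1074, .negSucc 1511⟩, ⟨.ofNat 638, .negSucc 122, .negSucc 579, .negSucc 16, .ofNat 121, .negSucc 219⟩, .ofNat 918, .ofNat 825, .ofNat 0, .ofNat 825, .ofNat 1770, .ofNat 0, .ofNat 128, .negSucc 191, .negSucc 67, .ofNat 0, .ofNat 142, .ofNat 29,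 .ofNat 0, .ofNat 0, .ofNat 252, .ofNat 245, .ofNat 0, .ofNat 0, .ofNat 0, .ofNat 0, .ofNat 0, .ofNat 0, .ofNat 0, .ofNat 0, .ofNat 0, .ofNat 5906421411327084513536782752131009478656, .ofNat 8462694200448566489343894623539429376, .ofNat 0, .ofNat 0, .ofNat 4021635443744375746279703601705585213440, .ofNat 5328965096339727584548787799000612864, .ofNat 0⟩)
    (by decide +kernel)
theorem L02408 : Good (Phi V5.P V5.D 1 (-1)) ⟨3, 2, 2, 2, 2, 3, 3, 7, 4, 2⟩ :=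
  leafYS_sound T5.ok_pm T5.Ypm.bz_eq (w := 205) (c := ⟨⟨.negSucc 1434, .negSucc 470, .negSucc 8, .negSucc 655, .negSucc 559, .negSucc 476⟩, ⟨.ofNat 719, .ofNat 98, .ofNat 450, .ofNat 382, .ofNat 327, .ofNat 267⟩, ⟨.ofNat 1644, .ofNat 393, .ofNat 271, .ofNat 175, .ofNat 759, .ofNat 484⟩, ⟨.negSucc 3710, .negSucc 692, .negSucc 98, .negSucc 1656, .negSucc 1263, .negSucc 1489⟩, ⟨.ofNat 611, .negSucc 11, .negSucc 270, .ofNat 174, .ofNat 410, .negSucc 388⟩, .ofNat 1160, .ofNat 1206, .ofNat 0, .ofNat 1206, .ofNat 2541, .ofNat 0, .ofNat 128, .negSucc 175, .negSucc 59, .ofNat 0, .ofNat 122, .ofNat 27, .ofNat 0, .ofNat 0, .ofNat 213, .ofNat 189, .ofNat 0, .ofNat 773618948652175749484833832176017473536, .ofNat 0, .ofNat 0, .ofNat 0, .ofNat 0, .ofNat 0, .ofNat 0, .ofNat 0, .ofNat 7824141129111059754265556152244580122624, .ofNat 12525206253728314304610179756863782912, .ofNat 0, .ofNat 0, .ofNat 7229717322059485407044205939456894566400,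 .ofNat 0, .ofNat 0⟩)
    (by decide +kernel)
theorem L02409 : Good (Phi V5.P V5.D 1 (-1)) ⟨3, 3, 2, 2, 2, 3, 3, 6, 4, 2⟩ :=
  leafYS_sound T5.ok_pm T5.Ypm.bz_eq (w := 205) (c := ⟨⟨.negSucc 1529, .negSucc 608, .ofNat 26, .negSucc 697, .negSucc 449, .negSucc 329⟩, ⟨.ofNat 689, .ofNat 11, .ofNat 456, .ofNat 298, .ofNat 210, .ofNat 165⟩, ⟨.ofNat 1341, .ofNat 445, .ofNat 385, .ofNat 208, .ofNat 676, .ofNat 475⟩, ⟨.negSucc 3905, .negSucc 578, .ofNat 184, .negSucc 1832, .negSucc 925, .negSucc 754⟩, ⟨.ofNat 66, .ofNat 308, .ofNat 39, .negSucc 316, .ofNat 348, .ofNat 75⟩, .ofNat 854, .ofNat 833, .ofNat 0, .ofNat 833, .ofNat 2195, .ofNat 0, .ofNat 128, .negSucc 148, .negSucc 66, .ofNat 0, .ofNat 101, .ofNat 23, .ofNat 0, .ofNat 0, .ofNat 218, .ofNat 235, .ofNat 0, .ofNat 0, .ofNat 1438121086364001045305655894258745344, .ofNat 0, .ofNat 0, .ofNat 0, .ofNat 28823668009041432779247019658202578944, .ofNat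 0, .ofNat 0, .ofNat 1682751208599729621952307920362350313472, .ofNat 11178885115950671189898733210904297472, .ofNat 0, .ofNat 0, .ofNat 2954760366254096565851696989578379395072, .ofNat 10154669276121992643050637163700944896, .ofNat 0⟩)
    (by decide +kernel)
theorem L02410 : Good (Phi V5.P V5.D 1 (-1)) ⟨3, 3, 2, 2, 2, 3, 3, 7, 4, 2⟩ :=
  leafYS_sound T5.ok_pm T5.Ypm.bz_eq (w := 205) (c := ⟨⟨.negSucc 1950, .negSucc 762, .negSucc 75, .negSucc 786, .negSucc 601, .negSucc 355⟩, ⟨.ofNat 882, .ofNat 53, .ofNat 553, .ofNat 367, .ofNat 307, .ofNat 146⟩, ⟨.ofNat 2092, .ofNat 556, .ofNat 348, .ofNat 62, .ofNat 825, .ofNat 448⟩, ⟨.negSucc 4751, .negSucc 1138, .negSucc 11, .negSucc 1799, .negSucc 1258, .negSucc 1034⟩, ⟨.ofNat 466, .negSucc 201, .ofNat 129, .ofNat 196, .ofNat 412, .negSucc 447⟩, .ofNat 1064, .ofNat 1210, .ofNat 0, .ofNat 1210, .ofNat 2972, .ofNat 0, .ofNat 159, .negSucc 127, .negSucc 57,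 .ofNat 0, .ofNat 80, .ofNat 22, .ofNat 0, .ofNat 0, .ofNat 159, .ofNat 100, .ofNat 0, .ofNat 265472310549177215669856612751283060736, .ofNat 1069396074941604621601592464933650432, .ofNat 0, .ofNat 0, .ofNat 0, .ofNat 0, .ofNat 0, .ofNat 0, .ofNat 3868805343739129582285069442443965890560, .ofNat 6140224809374866912963475849590341632, .ofNat 0, .ofNat 0, .ofNat 2778980783719445685783686953476600889344, .ofNat 3365083468507378064203406974094671872, .ofNat 0⟩)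
    (by decide +kernel)
theorem L02411 : Good (Phi V5.P V5.D 1 (-1)) ⟨3, 2, 2, 2, 2, 3, 3, 6, 5, 6⟩ :=
  leafYS_sound T5.ok_pm T5.Ypm.bz_eq (w := 210) (c := ⟨⟨.negSucc 1580, .negSucc 369, .negSucc 73, .negSucc 551, .negSucc 295, .ofNat 5⟩, ⟨.ofNat 795, .ofNat 59, .ofNat 466, .ofNat 325, .ofNat 169, .negSucc 3⟩, ⟨.ofNat 1473, .ofNat 350, .ofNat 292, .ofNat 274, .ofNat 596, .ofNat 159⟩, ⟨.negSucc 4493, .negSucc 413, .negSucc 302, .negSucc 1102, .negSucc 653, .ofNat 102⟩, ⟨.negSucc 43, .ofNat 16, .negSucc 324, .ofNat 606, .ofNat 194, .ofNat 159⟩, .ofNat 1504, .ofNat 1784, .ofNat 0, .ofNat 1784, .ofNat 3602, .ofNat 0, .ofNat 128, .negSucc 173, .negSucc 18, .ofNat 0, .ofNat 121, .ofNat 2, .ofNat 0, .ofNat 0, .ofNat 334, .ofNat 284, .ofNat 0, .ofNat 4152429775557891601255777203566892023808, .ofNat 0, .ofNat 0, .ofNat 0, .ofNat 0, .ofNat 0, .ofNat 0, .ofNat 0, .ofNat 78966837352156394046610272899181033029632,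 .ofNat 354484426835043253708770481874581585920, .ofNat 0, .ofNat 0, .ofNat 155552468940954892425690338828697343098880, .ofNat 93019326814586580244491398136211701760, .ofNat 0⟩)
    (by decide +kernel)
theorem L02412 : Good (Phi V5.P V5.D 1 (-1)) ⟨3, 2, 2, 2, 2, 3, 3, 6, 5, 7⟩ :=
  leafYS_sound T5.ok_pm T5.Ypm.bz_eq (w := 209) (c := ⟨⟨.negSucc 1660, .negSucc 310, .negSucc 29, .negSucc 463, .negSucc 210, .ofNat 49⟩, ⟨.ofNat 838, .ofNat 36, .ofNat 434, .ofNat 281, .ofNat 119, .negSucc 35⟩, ⟨.ofNat 1648, .ofNat 326, .ofNat 254, .ofNat 399, .ofNat 587, .ofNat 202⟩, ⟨.negSucc 4621, .negSucc 376, .negSucc 157, .negSucc 683, .negSucc 649, .ofNat 46⟩, ⟨.negSucc 29, .negSucc 87, .negSucc 126, .ofNat 989, .negSucc 141, .negSucc 170⟩, .ofNat 436, .ofNat 202, .ofNat 0, .ofNat 202, .ofNat 671, .ofNat 0, .ofNat 313, .negSucc 105, .negSucc 18, .ofNat 0, .ofNat 128, .negSucc 25, .ofNat 0, .ofNat 0, .ofNat 420,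 .ofNat 260, .ofNat 0, .ofNat 6551141016392484929216095993138564300800, .ofNat 0, .ofNat 0, .ofNat 0, .ofNat 0, .ofNat 0, .ofNat 0, .ofNat 0, .ofNat 147169805609423293147184445724284229255168, .ofNat 100109054564926048242997220122684293120, .ofNat 0, .ofNat 0, .ofNat 406181480817875107652383949552673087291392, .ofNat 0, .ofNat 0⟩)
    (by decide +kernel)
theorem L02413 : Good (Phi V5.P V5.D 1 (-1)) ⟨3, 3, 3, 4, 2, 3, 3, 6, 5, 6⟩ :=
  leafYS_sound T5.ok_pm T5.Ypm.bz_eq (w := 213) (c := ⟨⟨.negSucc 1978, .negSucc 489, .negSucc 58, .negSucc 560, .negSucc 348, .ofNat 77⟩, ⟨.ofNat 883, .negSucc 53, .ofNat 258, .ofNat 273, .ofNat 157, .negSucc 20⟩, ⟨.ofNat 1813, .ofNat 417, .ofNat 218, .ofNat 250, .ofNat 645, .ofNat 145⟩, ⟨.negSucc 4944, .negSucc 431, .negSucc 320, .negSucc 1189, .negSucc 808, .ofNat 221⟩, ⟨.ofNat 115, .ofNat 8, .negSucc 423, .ofNat 346, .ofNat 50, .ofNat 117⟩, .ofNat 1070, .ofNat 1219,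 .ofNat 0, .ofNat 1219, .ofNat 2984, .ofNat 0, .ofNat 141, .negSucc 127, .negSucc 16, .ofNat 0, .ofNat 88, .ofNat 0, .ofNat 0, .ofNat 0, .ofNat 249, .ofNat 305, .ofNat 0, .ofNat 0, .ofNat 159597820429526687762012302808107188224, .ofNat 0, .ofNat 0, .ofNat 0, .ofNat 0, .ofNat 0, .ofNat 0, .ofNat 272214415903063925423157693310688722681856, .ofNat 589328495545740659082171173032144404480, .ofNat 0, .ofNat 0, .ofNat 492589872791492719349323673043444934115328, .ofNat 701572608243689023636742304517524029440, .ofNat 0⟩)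
    (by decide +kernel)
theorem L02414 : Good (Phi V5.P V5.D 1 (-1)) ⟨3, 3, 3, 4, 2, 3, 3, 6, 5, 7⟩ :=
  leafYS_sound T5.ok_pm T5.Ypm.bz_eq (w := 213) (c := ⟨⟨.negSucc 1998, .negSucc 436, .negSucc 22, .negSucc 412, .negSucc 240, .ofNat 104⟩, ⟨.ofNat 882, .negSucc 44, .ofNat 234, .ofNat 247, .ofNat 105, .negSucc 54⟩, ⟨.ofNat 1984, .ofNat 410, .ofNat 151, .ofNat 310, .ofNat 620, .ofNat 180⟩, ⟨.negSucc 5058, .negSucc 446, .negSucc 101, .negSucc 547, .negSucc 664, .ofNat 170⟩, ⟨.negSucc 118, .negSucc 129, .negSucc 62, .ofNat 1094, .negSucc 190, .negSucc 176⟩, .ofNat 397, .ofNat 166, .ofNat 0, .ofNat 166, .ofNat 666, .ofNat 0, .ofNat 211, .negSucc 101, .negSucc 21, .ofNat 0, .ofNat 128, .negSucc 18, .ofNat 0, .ofNat 0, .ofNat 353, .ofNat 401, .ofNat 0, .ofNat 75341795340537345793333340856735055740928, .ofNat 0, .ofNat 0, .ofNat 0, .ofNat 880383758454127975943857966404186601947136, .ofNat 0, .ofNat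 0, .ofNat 0, .ofNat 1326032142777985989926391764130860843925504, .ofNat 0, .ofNat 0, .ofNat 0, .ofNat 2391614091723083997603037264000169684238336, .ofNat 122123797953792176128940283129464094720, .ofNat 0⟩)
    (by decide +kernel)
theorem L02415 : Good (Phi V5.P V5.D 1 (-1)) ⟨3, 3, 3, 5, 2, 3, 3, 6, 4, 3⟩ :=
  out_sound (S := T5.ds_pm) T5.ok_pm (w := 45) (j := 3) (by decide +kernel)
theorem L02416 : Good (Phi V5.P V5.D 1 (-1)) ⟨2, 1, 2, 2, 2, 3, 3, 7, 4, 3⟩ :=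
  leafYS_sound T5.ok_pm T5.Ypm.bz_eq (w := 201) (c := ⟨⟨.negSucc 1849, .negSucc 994, .negSucc 55, .negSucc 739, .negSucc 457, .ofNat 25⟩, ⟨.ofNat 974, .ofNat 65, .ofNat 478, .ofNat 409, .ofNat 147, .ofNat 0⟩, ⟨.ofNat 2049, .ofNat 913, .ofNat 242, .ofNat 485, .ofNat 707, .ofNat 247⟩, ⟨.negSucc 5103, .negSucc 1466, .negSucc 201, .negSucc 1495, .negSucc 1277, .negSucc 263⟩, ⟨.ofNat 107, .negSucc 371, .negSucc 187, .ofNat 1115, .negSucc 93, .negSucc 414⟩, .ofNat 187, .ofNat 32, .ofNat 0, .ofNat 32, .ofNat 231, .ofNat 0, .ofNat 320, .negSucc 79, .negSucc 216, .ofNat 0, .ofNat 128, .ofNat 2, .ofNat 0, .ofNat 0, .ofNat 247, .ofNat 358, .ofNat 0, .ofNat 146785513709259361422947628967564148736, .ofNat 0, .ofNat 0, .ofNat 0, .ofNat 2544261797106618855425947531128780881920, .ofNat 42528116095487952320443126887787528192, .ofNat 0, .ofNat 0, .ofNat 1772383916621545094448256032749171769344, .ofNat 0, .ofNat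 0, .ofNat 0, .ofNat 2908770840399814914182172507707753365504, .ofNat 43610190272508899027356166515555565568, .ofNat 0⟩)
    (by decide +kernel)
theorem L02417 : Good (Phi V5.P V5.D 1 (-1)) ⟨2, 1, 2, 3, 1, 1, 1, 1, 3, 1⟩ :=
  out_sound (S := T5.ds_pm) T5.ok_pm (w := 37) (j := 3) (by decide +kernel)
theorem L02418 : Good (Phi V5.P V5.D 1 (-1)) ⟨3, 2, 2, 2, 2, 2, 2, 2, 4, 4⟩ :=
  leafYS_sound T5.ok_pm T5.Ypm.bz_eq (w := 201) (c := ⟨⟨.negSucc 1260, .negSucc 202, .ofNat 4, .negSucc 216, .negSucc 81, .ofNat 65⟩, ⟨.ofNat 619, .ofNat 17, .ofNat 334, .ofNat 125, .ofNat 43, .negSucc 38⟩, ⟨.ofNat 995, .ofNat 233, .ofNat 136, .ofNat 249, .ofNat 541, .ofNat 232⟩, ⟨.negSucc 3659, .negSucc 142, .negSucc 76, .negSucc 506, .negSucc 284, .ofNat 153⟩, ⟨.negSucc 309, .negSucc 0, .negSucc 37, .ofNat 127, .negSucc 137, .negSucc 40⟩, .ofNat 832, .ofNat 699, .ofNat 0, .ofNat 699, .ofNat 1639, .ofNat 0, .ofNat 128, .negSucc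 204, .negSucc 76, .ofNat 0, .ofNat 181, .ofNat 34, .ofNat 0, .ofNat 0, .ofNat 918, .ofNat 830, .ofNat 0, .ofNat 0, .ofNat 0, .ofNat 0, .ofNat 0, .ofNat 0, .ofNat 0, .ofNat 0, .ofNat 0, .ofNat 7061234937072821118091993997956702273536, .ofNat 1753882408208637377722424650962567168, .ofNat 0, .ofNat 0, .ofNat 17777541546153917270247421199341685047296, .ofNat 9134778095630963494230125480436039680, .ofNat 0⟩)
    (by decide +kernel)
theorem L02419 : Good (Phi V5.P V5.D 1 (-1)) ⟨3, 3, 2, 2, 2, 2, 2, 2, 4, 4⟩ :=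
  leafYS_sound T5.ok_pm T5.Ypm.bz_eq (w := 201) (c := ⟨⟨.negSucc 1458, .negSucc 277, .negSucc 25, .negSucc 264, .negSucc 128, .ofNat 120⟩, ⟨.ofNat 643, .negSucc 59, .ofNat 356, .ofNat 125, .ofNat 42, .negSucc 58⟩, ⟨.ofNat 1246, .ofNat 165, .negSucc 78, .ofNat 214, .ofNat 676, .ofNat 216⟩, ⟨.negSucc 3848, .negSucc 38, .negSucc 44, .negSucc 503, .negSucc 380, .ofNat 204⟩, ⟨.negSucc 379, .ofNat 209, .ofNat 156, .ofNat 262, .negSucc 200, .negSucc 164⟩, .ofNat 1017, .ofNat 1140, .ofNat 0, .ofNat 1140, .ofNat 2885, .ofNat 0, .ofNat 128, .negSucc 145, .negSucc 50, .ofNat 0, .ofNat 107, .ofNat 19, .ofNat 0, .ofNat 0, .ofNat 671, .ofNat 721, .ofNat 0, .ofNat 0, .ofNat 0, .ofNat 0, .ofNat 0, .ofNat 0, .ofNat 0, .ofNat 0, .ofNat 0, .ofNat 804791374733991102386109035960552390656, .ofNat 1024798780697555702743884073413902336, .ofNat 0, .ofNat 0, .ofNat 10505532177792124033038694016126635999232, .ofNat 6511574751259908586396318181235884032,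 .ofNat 0⟩)
    (by decide +kernel)
theorem L02420 : Good (Phi V5.P V5.D 1 (-1)) ⟨3, 2, 2, 2, 3, 6, 2, 2, 5, 8⟩ :=
  leafYS_sound T5.ok_pm T5.Ypm.bz_eq (w := 220) (c := ⟨⟨.negSucc 1494, .negSucc 240, .negSucc 45, .negSucc 134, .negSucc 118, .ofNat 80⟩, ⟨.ofNat 759, .ofNat 15, .ofNat 387, .ofNat 87, .ofNat 58, .negSucc 43⟩, ⟨.ofNat 1052, .ofNat 244, .ofNat 149, .ofNat 133, .ofNat 895, .ofNat 155⟩, ⟨.negSucc 4149, .negSucc 169, .negSucc 59, .negSucc 78, .negSucc 503, .ofNat 132⟩, ⟨.ofNat 0, .ofNat 53, .ofNat 78, .ofNat 493, .negSucc 346, .negSucc 123⟩, .ofNat 831, .ofNat 704, .ofNat 0, .ofNat 704, .ofNat 1651, .ofNat 0, .ofNat 128, .negSucc 134, .ofNat 3, .ofNat 0, .ofNat 121, .negSucc 16, .ofNat 0, .ofNat 0, .ofNat 625, .ofNat 475, .ofNat 0, .ofNat 0, .ofNat 0, .ofNat 0, .ofNat 0, .ofNat 0, .ofNat 0, .ofNat 0, .ofNat 0, .ofNat 91570624944991805441577933613655815629045760, .ofNat 425224296024684365148825818130197285699584,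 .ofNat 0, .ofNat 0, .ofNat 369809632755284919850485133437404180364918784, .ofNat 2682710737002601563348643948800691497074688, .ofNat 0⟩)
    (by decide +kernel)
theorem L02421 : Good (Phi V5.P V5.D 1 (-1)) ⟨3, 3, 2, 2, 3, 6, 2, 2, 5, 8⟩ :=
  leafYS_sound T5.ok_pm T5.Ypm.bz_eq (w := 220) (c := ⟨⟨.negSucc 1763, .negSucc 296, .negSucc 7, .negSucc 106, .negSucc 179, .ofNat 108⟩, ⟨.ofNat 788, .negSucc 61, .ofNat 389, .ofNat 77, .ofNat 51, .negSucc 50⟩, ⟨.ofNat 1276, .ofNat 284, .ofNat 191, .ofNat 109, .ofNat 958, .ofNat 140⟩, ⟨.negSucc 4387, .negSucc 143, .ofNat 25, .negSucc 28, .negSucc 608, .ofNat 199⟩, ⟨.ofNat 67, .ofNat 62, .ofNat 68, .ofNat 537, .negSucc 461, .negSucc 128⟩, .ofNat 681, .ofNat 537, .ofNat 0, .ofNat 537, .ofNat 1537, .ofNat 0, .ofNat 244, .negSucc 127, .negSucc 6, .ofNat 0, .ofNat 117, .negSucc 11, .ofNat 0, .ofNat 0, .ofNat 566, .ofNat 391, .ofNat 0, .ofNat 0, .ofNat 43408405561251929345976642729640223309824,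 .ofNat 0, .ofNat 0, .ofNat 0, .ofNat 0, .ofNat 0, .ofNat 0, .ofNat 83566878829583693512166824102715908423680000, .ofNat 529760710933465043296059954220839773143040, .ofNat 0, .ofNat 0, .ofNat 333714289456599706123736381859097500104785920, .ofNat 2311726949953339433359121486221685098020864, .ofNat 0⟩)
    (by decide +kernel)
theorem L02422 : Good (Phi V5.P V5.D 1 (-1)) ⟨2, 1, 2, 2, 3, 6, 3, 4, 5, 9⟩ :=
  leafYS_sound T5.ok_pm T5.Ypm.bz_eq (w := 219) (c := ⟨⟨.negSucc 1459, .negSucc 467, .negSucc 20, .negSucc 83, .negSucc 39, .ofNat 96⟩, ⟨.ofNat 755, .negSucc 43, .ofNat 375, .ofNat 55, .ofNat 13, .negSucc 57⟩, ⟨.ofNat 1165, .ofNat 465, .ofNat 223, .ofNat 203, .ofNat 492, .ofNat 210⟩, ⟨.negSucc 4107, .negSucc 224, .negSucc 47, .ofNat 20, .negSucc 203, .ofNat 190⟩, ⟨.negSucc 62, .ofNat 102, .ofNat 51, .ofNat 444, .negSucc 228, .negSucc 143⟩, .ofNat 416, .ofNat 183, .ofNat 0, .ofNat 183, .ofNat 667,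 .ofNat 0, .ofNat 234, .negSucc 87, .ofNat 18, .ofNat 0, .ofNat 128, .negSucc 38, .ofNat 0, .ofNat 0, .ofNat 587, .ofNat 393, .ofNat 0, .ofNat 0, .ofNat 2796577811443100084822405827616219758329856, .ofNat 0, .ofNat 0, .ofNat 0, .ofNat 0, .ofNat 0, .ofNat 0, .ofNat 19615968848105914578159867457803092758626304, .ofNat 33548350946854716280621570008092928647364608, .ofNat 0, .ofNat 0, .ofNat 134707627528759362256820453945435649854144512, .ofNat 60392061168406668002687871357184147269353472, .ofNat 0⟩)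
    (by decide +kernel)
theorem L02423 : Good (Phi V5.P V5.D 1 (-1)) ⟨3, 2, 2, 2, 3, 6, 3, 5, 5, 9⟩ :=
  leafYS_sound T5.ok_pm T5.Ypm.bz_eq (w := 224) (c := ⟨⟨.negSucc 1503, .negSucc 223, .negSucc 4, .negSucc 94, .negSucc 39, .ofNat 106⟩, ⟨.ofNat 758, .ofNat 12, .ofNat 356, .ofNat 57, .ofNat 24, .negSucc 65⟩, ⟨.ofNat 1523, .ofNat 276, .ofNat 307, .ofNat 321, .ofNat 578, .ofNat 334⟩, ⟨.negSucc 4227, .negSucc 176, .negSucc 103, .negSucc 104, .negSucc 254, .ofNat 192⟩, ⟨.negSucc 135, .negSucc 31, .negSucc 92, .ofNat 263, .negSucc 262, .negSucc 174⟩, .ofNat 437, .ofNat 203, .ofNat 0, .ofNat 203, .ofNat 672, .ofNat 0, .ofNat 236, .negSucc 94, .ofNat 27, .ofNat 0, .ofNat 128, .negSucc 46, .ofNat 0, .ofNat 0, .ofNat 550, .ofNat 569, .ofNat 0, .ofNat 52711823996254529322938762654862780227649536, .ofNat 0, .ofNat 0, .ofNat 0, .ofNat 0, .ofNat 0, .ofNat 0, .ofNat 0, .ofNat 1080283940021224015479146840603834665993764864,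 .ofNat 0, .ofNat 0, .ofNat 0, .ofNat 4100597047647389298920126544079769907104841728, .ofNat 1394798750839012626555559964587160856690688, .ofNat 0⟩)
    (by decide +kernel)
theorem L02424 : Good (Phi V5.P V5.D 1 (-1)) ⟨3, 3, 2, 2, 3, 6, 3, 5, 5, 9⟩ :=
  leafYS_sound T5.ok_pm T5.Ypm.bz_eq (w := 224) (c := ⟨⟨.negSucc 1736, .negSucc 295, .ofNat 0, .negSucc 88, .negSucc 71, .ofNat 131⟩, ⟨.ofNat 765, .negSucc 64, .ofNat 379, .ofNat 52, .ofNat 13, .negSucc 65⟩, ⟨.ofNat 1803, .ofNat 321, .ofNat 321, .ofNat 308, .ofNat 622, .ofNat 305⟩, ⟨.negSucc 4421, .negSucc 171, .negSucc 103, .negSucc 80, .negSucc 302, .ofNat 238⟩, ⟨.negSucc 169, .negSucc 39, .negSucc 86, .ofNat 299, .negSucc 318, .negSucc 174⟩, .ofNat 397, .ofNat 167, .ofNat 0, .ofNat 167, .ofNat 666, .ofNat 0, .ofNat 258, .negSucc 90, .ofNat 17, .ofNat 0, .ofNat 128, .negSucc 39, .ofNat 0, .ofNat 0, .ofNat 576, .ofNat 603, .ofNat 0, .ofNat 72777428227780319768991181373328593648615424,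 .ofNat 349204739705438476532650971613556725776384, .ofNat 0, .ofNat 0, .ofNat 0, .ofNat 0, .ofNat 0, .ofNat 0, .ofNat 1326642318240147020735099231656711463500775424, .ofNat 0, .ofNat 0, .ofNat 0, .ofNat 4773783479702426747217600774180350973253255168, .ofNat 4143278236773929868621731709214536125906944, .ofNat 0⟩)
    (by decide +kernel)
theorem L02425 : Good (Phi V5.P V5.D 1 (-1)) ⟨3, 2, 2, 2, 3, 7, 3, 4, 5, 8⟩ :=
  leafYS_sound T5.ok_pm T5.Ypm.bz_eq (w := 224) (c := ⟨⟨.negSucc 1635, .negSucc 225, .negSucc 84, .negSucc 84, .negSucc 50, .ofNat 114⟩, ⟨.ofNat 864, .ofNat 2, .ofNat 392, .ofNat 51, .ofNat 19, .negSucc 63⟩, ⟨.ofNat 1048, .ofNat 277, .ofNat 337, .ofNat 386, .ofNat 451, .ofNat 213⟩, ⟨.negSucc 4186, .negSucc 128, .negSucc 127, .negSucc 170, .negSucc 204, .ofNat 205⟩, ⟨.ofNat 678, .ofNat 65, .negSucc 87, .ofNat 94, .negSucc 151, .negSucc 153⟩, .ofNat 1833, .ofNat 2332, .ofNat 0, .ofNat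 2332, .ofNat 4573, .ofNat 0, .ofNat 128, .negSucc 170, .ofNat 56, .ofNat 0, .ofNat 128, .negSucc 49, .ofNat 0, .ofNat 0, .ofNat 809, .ofNat 527, .ofNat 0, .ofNat 24733986238658255027057386765227998631165952, .ofNat 0, .ofNat 0, .ofNat 0, .ofNat 0, .ofNat 0, .ofNat 0, .ofNat 0, .ofNat 573742211047982151042671414668872866454306816, .ofNat 6163281187785370219896259726835142967164928, .ofNat 0, .ofNat 0, .ofNat 4695646957396118633068517619171671173121441792, .ofNat 0, .ofNat 0⟩)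
    (by decide +kernel)
theorem L02426 : Good (Phi V5.P V5.D 1 (-1)) ⟨3, 3, 2, 2, 3, 7, 3, 4, 5, 8⟩ :=
  leafYS_sound T5.ok_pm T5.Ypm.bz_eq (w := 224) (c := ⟨⟨.negSucc 1880, .negSucc 264, .negSucc 90, .negSucc 45, .negSucc 87, .ofNat 143⟩, ⟨.ofNat 871, .negSucc 61, .ofNat 405, .ofNat 35, .ofNat 20, .negSucc 68⟩, ⟨.ofNat 1346, .ofNat 281, .ofNat 316, .ofNat 365, .ofNat 453, .ofNat 188⟩, ⟨.negSucc 4398, .negSucc 67, .negSucc 80, .negSucc 40, .negSucc 349, .ofNat 295⟩, ⟨.ofNat 698, .ofNat 138, .negSucc 14, .ofNat 176, .negSucc 337, .negSucc 107⟩, .ofNat 675, .ofNat 529, .ofNat 0, .ofNat 529, .ofNat 1529, .ofNat 0, .ofNat 202, .negSucc 125, .ofNat 33, .ofNat 0, .ofNat 128, .negSucc 51, .ofNat 0, .ofNat 0, .ofNat 720, .ofNat 649, .ofNat 0, .ofNat 0, .ofNat 1916277555098867572702980021372061241835520, .ofNat 0, .ofNat 0, .ofNat 0, .ofNat 0, .ofNat 0, .ofNat 0, .ofNat 560503490808284017518760093997862744552898560,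 .ofNat 13902672287646635622866379142243715932749824, .ofNat 0, .ofNat 0, .ofNat 2760748933573847082588456779914576869623595008, .ofNat 88755633058611210169244521234416462284718080, .ofNat 0⟩)
    (by decide +kernel)
theorem L02427 : Good (Phi V5.P V5.D 1 (-1)) ⟨2, 1, 2, 2, 3, 7, 3, 5, 5, 8⟩ :=
  leafYS_sound T5.ok_pm T5.Ypm.bz_eq (w := 220) (c := ⟨⟨.negSucc 1696, .negSucc 541, .negSucc 37, .negSucc 72, .negSucc 89, .ofNat 141⟩, ⟨.ofNat 893, .negSucc 54, .ofNat 408, .ofNat 75, .ofNat 46, .negSucc 72⟩, ⟨.ofNat 1511, .ofNat 614, .ofNat 323, .ofNat 235, .ofNat 568, .ofNat 282⟩, ⟨.negSucc 4490, .negSucc 367, .negSucc 86, .negSucc 0, .negSucc 376, .ofNat 237⟩, ⟨.ofNat 428, .ofNat 9, .negSucc 101, .ofNat 450, .negSucc 273, .negSucc 221⟩, .ofNat 418, .ofNat 185, .ofNat 0, .ofNat 185, .ofNat 667, .ofNat 0, .ofNat 201, .negSucc 90, .ofNat 32, .ofNat 0, .ofNat 128, .negSucc 63, .ofNat 0, .ofNat 0, .ofNat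 431, .ofNat 399, .ofNat 0, .ofNat 3301884154021100363516453607379615849906176, .ofNat 1142134892895439792769864307472377780895744, .ofNat 0, .ofNat 0, .ofNat 0, .ofNat 0, .ofNat 0, .ofNat 0, .ofNat 57319154983252453197026790298057537950318592, .ofNat 0, .ofNat 0, .ofNat 0, .ofNat 171619436338473483523804187207738633106751488, .ofNat 44438985850042168722527732665189817036832768, .ofNat 0⟩)
    (by decide +kernel)
theorem L02428 : Good (Phi V5.P V5.D 1 (-1)) ⟨2, 1, 2, 2, 3, 7, 3, 4, 5, 9⟩ :=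
  leafYS_sound T5.ok_pm T5.Ypm.bz_eq (w := 220) (c := ⟨⟨.negSucc 1557, .negSucc 440, .negSucc 48, .negSucc 11, .negSucc 15, .ofNat 148⟩, ⟨.ofNat 824, .negSucc 66, .ofNat 368, .ofNat 43, .ofNat 9, .negSucc 66⟩, ⟨.ofNat 1306, .ofNat 513, .ofNat 276, .ofNat 318, .ofNat 532, .ofNat 287⟩, ⟨.negSucc 4115, .negSucc 127, .ofNat 7, .ofNat 197, .negSucc 237, .ofNat 236⟩, ⟨.ofNat 405, .ofNat 205, .ofNat 68, .ofNat 510, .negSucc 344, .negSucc 239⟩, .ofNat 419, .ofNat 186, .ofNat 0, .ofNat 186, .ofNat 668, .ofNat 0, .ofNat 180, .negSucc 82, .ofNat 32, .ofNat 0, .ofNat 128, .negSucc 54, .ofNat 0, .ofNat 0, .ofNat 454, .ofNat 652, .ofNat 0, .ofNat 3921363533290234944311012857925723668611072, .ofNat 1999977575998624681680189720671545431425024, .ofNat 0, .ofNat 0, .ofNat 0, .ofNat 0, .ofNat 0, .ofNat 0, .ofNat 72364268369778880600371906824314933833891840, .ofNat 0, .ofNat 0, .ofNat 0, .ofNat 225395828553548183502778446979195219625377792,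 .ofNat 31587984584788978099501504429166468911857664, .ofNat 0⟩)
    (by decide +kernel)
theorem L02429 : Good (Phi V5.P V5.D 1 (-1)) ⟨2, 1, 2, 2, 3, 7, 3, 5, 5, 9⟩ :=
  out_sound (S := T5.ds_pm) T5.ok_pm (w := 36) (j := 2) (by decide +kernel)
theorem L02430 : Good (Phi V5.P V5.D 1 (-1)) ⟨2, 1, 3, 4, 3, 4, 2, 2, 4, 5⟩ :=
  leafYS_sound T5.ok_pm T5.Ypm.bz_eq (w := 215) (c := ⟨⟨.negSucc 1238, .negSucc 386, .ofNat 15, .negSucc 69, .negSucc 59, .ofNat 99⟩, ⟨.ofNat 625, .negSucc 46, .ofNat 159, .ofNat 30, .ofNat 26, .negSucc 55⟩, ⟨.ofNat 1111, .ofNat 427, .ofNat 131, .ofNat 236, .ofNat 608, .ofNat 344⟩, ⟨.negSucc 3597, .negSucc 148, .negSucc 43, .negSucc 189, .negSucc 227, .ofNat 225⟩, ⟨.negSucc 279, .negSucc 12, .negSucc 41, .negSucc 50, .negSucc 159, .negSucc 61⟩, .ofNat 744, .ofNat 602, .ofNat 0, .ofNat 602, .ofNat 1566, .ofNat 0, .ofNat 273, .negSucc 127, .negSucc 34, .ofNat 0, .ofNat 118, .ofNat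 8, .ofNat 0, .ofNat 0, .ofNat 1126, .ofNat 1016, .ofNat 0, .ofNat 0, .ofNat 2338820456647133747035586116949091811328, .ofNat 0, .ofNat 0, .ofNat 0, .ofNat 0, .ofNat 0, .ofNat 0, .ofNat 8792282479802699533511418570369943759486976, .ofNat 126693848943178599667716171832012237176832, .ofNat 0, .ofNat 0, .ofNat 82734392160375500696150544473528207140716544, .ofNat 534778260588040791719160245661028570890240, .ofNat 0⟩)
    (by decide +kernel)
theorem L02431 : Good (Phi V5.P V5.D 1 (-1)) ⟨2, 1, 3, 5, 3, 4, 2, 2, 4, 5⟩ :=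
  leafYS_sound T5.ok_pm T5.Ypm.bz_eq (w := 216) (c := ⟨⟨.negSucc 1258, .negSucc 298, .ofNat 57, .negSucc 46, .negSucc 25, .ofNat 95⟩, ⟨.ofNat 776, .negSucc 5, .ofNat 129, .ofNat 27, .ofNat 16, .negSucc 56⟩, ⟨.ofNat 1106, .ofNat 513, .ofNat 288, .ofNat 268, .ofNat 730, .ofNat 452⟩, ⟨.negSucc 3642, .negSucc 88, .ofNat 58, .negSucc 169, .negSucc 195, .ofNat 209⟩, ⟨.negSucc 272, .negSucc 16, .negSucc 56, .negSucc 79, .negSucc 205, .negSucc 67⟩, .ofNat 1411, .ofNat 1564, .ofNat 0, .ofNat 1564, .ofNat 2978, .ofNat 0, .ofNat 128, .negSucc 339, .negSucc 33, .ofNat 0, .ofNat 259, .ofNat 10, .ofNat 0, .ofNat 0, .ofNat 2238, .ofNat 2433, .ofNat 0, .ofNat 0, .ofNat 41498119459963193000370513093484370460672, .ofNat 0, .ofNat 0, .ofNat 0, .ofNat 5273367879594088192684224489401042400706560, .ofNat 0, .ofNat 0, .ofNat 37328648195253037756748590460659781792169984, .ofNat 1133263829681780611239975190320902582566912,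 .ofNat 0, .ofNat 0, .ofNat 326340126993154742983428866116552499144949760, .ofNat 9181520083177116845450696001127642688389120, .ofNat 0⟩)
    (by decide +kernel)
theorem L02432 : Good (Phi V5.P V5.D 1 (-1)) ⟨3, 2, 2, 2, 3, 5, 3, 4, 5, 10⟩ :=
  leafYS_sound T5.ok_pm T5.Ypm.bz_eq (w := 225) (c := ⟨⟨.negSucc 1314, .negSucc 192, .negSucc 1, .negSucc 67, .negSucc 13, .ofNat 76⟩, ⟨.ofNat 654, .ofNat 9, .ofNat 331, .ofNat 39, .ofNat 5, .negSucc 44⟩, ⟨.ofNat 1260, .ofNat 158, .ofNat 163, .ofNat 229, .ofNat 433, .ofNat 257⟩, ⟨.negSucc 3800, .negSucc 95, .negSucc 65, .negSucc 125, .negSucc 121, .ofNat 153⟩, ⟨.negSucc 314, .ofNat 37, .ofNat 16, .ofNat 93, .negSucc 145, .negSucc 82⟩, .ofNat 835, .ofNat 704, .ofNat 0, .ofNat 704, .ofNat 1645, .ofNat 0, .ofNat 141, .negSucc 127, .ofNat 11, .ofNat 0, .ofNat 116, .negSucc 18, .ofNat 0, .ofNat 0, .ofNat 1113, .ofNat 1738, .ofNat 0, .ofNat 0, .ofNat 0, .ofNat 0,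 .ofNat 0, .ofNat 0, .ofNat 0, .ofNat 0, .ofNat 0, .ofNat 435525860859193729708296680157297197705068544, .ofNat 20242380842384621486842205570839440263217152, .ofNat 0, .ofNat 0, .ofNat 4494287485573073758515332903750642428427632640, .ofNat 138352375998106398234624395628975823041593344, .ofNat 0⟩)
    (by decide +kernel)
theorem L02433 : Good (Phi V5.P V5.D 1 (-1)) ⟨3, 2, 2, 2, 4, 10, 3, 4, 5, 11⟩ :=
  leafYS_sound T5.ok_pm T5.Ypm.bz_eq (w := 239) (c := ⟨⟨.negSucc 1277, .negSucc 173, .ofNat 19, .negSucc 9, .ofNat 9, .ofNat 82⟩, ⟨.ofNat 631, .ofNat 5, .ofNat 307, .ofNat 6, .negSucc 7, .negSucc 47⟩, ⟨.ofNat 1373, .ofNat 164, .ofNat 247, .ofNat 211, .ofNat 567, .ofNat 383⟩, ⟨.negSucc 3674, .negSucc 87, .negSucc 63, .negSucc 39, .negSucc 81, .ofNat 165⟩, ⟨.negSucc 304, .ofNat 0, .negSucc 39, .negSucc 20, .negSucc 177, .negSucc 90⟩, .ofNat 838, .ofNat 707, .ofNat 0, .ofNat 707, .ofNat 1645, .ofNat 0,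 .ofNat 156, .negSucc 127, .ofNat 44, .ofNat 0, .ofNat 117, .negSucc 38, .ofNat 0, .ofNat 0, .ofNat 1477, .ofNat 2124, .ofNat 0, .ofNat 0, .ofNat 26414686685618761150581101499486865352109850624, .ofNat 0, .ofNat 0, .ofNat 0, .ofNat 0, .ofNat 0, .ofNat 0, .ofNat 1581915512053363451535562005165891645891049160704, .ofNat 620771531433655826928885664496331232770544107520, .ofNat 0, .ofNat 0, .ofNat 38032324067339409177430818944496702628665199951872, .ofNat 3943541683857115039481302325920484276774977404928, .ofNat 0⟩)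
    (by decide +kernel)
theorem L02434 : Good (Phi V5.P V5.D 1 (-1)) ⟨3, 2, 2, 2, 4, 11, 3, 4, 5, 11⟩ :=
  leafYS_sound T5.ok_pm T5.Ypm.bz_eq (w := 238) (c := ⟨⟨.negSucc 1308, .negSucc 165, .ofNat 28, .negSucc 8, .ofNat 12, .ofNat 103⟩, ⟨.ofNat 651, .negSucc 2, .ofNat 304, .ofNat 4, .negSucc 9, .negSucc 60⟩, ⟨.ofNat 1428, .ofNat 232, .ofNat 360, .ofNat 250, .ofNat 611, .ofNat 484⟩, ⟨.negSucc 3747, .negSucc 73, .negSucc 51, .negSucc 12, .negSucc 80, .ofNat 202⟩, ⟨.negSucc 274, .negSucc 5, .negSucc 69, .ofNat 12, .negSucc 209, .negSucc 128⟩, .ofNat 438, .ofNat 203, .ofNat 0, .ofNat 203, .ofNat 672, .ofNat 0, .ofNat 204, .negSucc 88, .ofNat 35, .ofNat 0, .ofNat 128, .negSucc 39, .ofNat 0, .ofNat 0, .ofNat 713, .ofNat 1075, .ofNat 0, .ofNat 260914185980549182747124864521059645218101395456, .ofNat 3438695241029189748628016567679358763869929472, .ofNat 0, .ofNat 0, .ofNat 0, .ofNat 0, .ofNat 0, .ofNat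 0, .ofNat 5679572641649454432656912568645483537301944401920, .ofNat 0, .ofNat 0, .ofNat 0, .ofNat 26754917493180435591735089147887084846998899130368, .ofNat 0, .ofNat 0⟩)
    (by decide +kernel)
theorem L02435 : Good (Phi V5.P V5.D 1 (-1)) ⟨3, 3, 2, 2, 3, 5, 3, 4, 5, 10⟩ :=
  leafYS_sound T5.ok_pm T5.Ypm.bz_eq (w := 226) (c := ⟨⟨.negSucc 1510, .negSucc 257, .negSucc 3, .negSucc 71, .negSucc 35, .ofNat 97⟩, ⟨.ofNat 661, .negSucc 63, .ofNat 322, .ofNat 39, .ofNat 7, .negSucc 42⟩, ⟨.ofNat 1411, .ofNat 237, .ofNat 239, .ofNat 225, .ofNat 452, .ofNat 238⟩, ⟨.negSucc 3909, .negSucc 104, .negSucc 69, .negSucc 122, .negSucc 156, .ofNat 184⟩, ⟨.negSucc 273, .ofNat 11, .negSucc 21, .ofNat 116, .negSucc 175, .negSucc 96⟩, .ofNat 676, .ofNat 530, .ofNat 0, .ofNat 530, .ofNat 1531, .ofNat 0, .ofNat 194, .negSucc 127, .ofNat 1, .ofNat 0, .ofNat 119, .negSucc 12, .ofNat 0, .ofNat 0, .ofNat 1010, .ofNat 2773,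 .ofNat 0, .ofNat 0, .ofNat 2152340281548503647185528908628232132100096, .ofNat 0, .ofNat 0, .ofNat 0, .ofNat 0, .ofNat 0, .ofNat 0, .ofNat 514008605685533408529447879320618964332052480, .ofNat 24667667403520465108930572928964325783109632, .ofNat 0, .ofNat 0, .ofNat 4229987875847677788886219412195997785578799104, .ofNat 172677830775244415066788342095219916758056960, .ofNat 0⟩)
    (by decide +kernel)
theorem L02436 : Good (Phi V5.P V5.D 1 (-1)) ⟨3, 3, 2, 2, 3, 5, 3, 4, 5, 11⟩ :=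
  leafYS_sound T5.ok_pm T5.Ypm.bz_eq (w := 225) (c := ⟨⟨.negSucc 1444, .negSucc 236, .ofNat 27, .negSucc 37, .negSucc 17, .ofNat 88⟩, ⟨.ofNat 633, .negSucc 63, .ofNat 302, .ofNat 17, .negSucc 6, .negSucc 44⟩, ⟨.ofNat 1571, .ofNat 235, .ofNat 358, .ofNat 340, .ofNat 543, .ofNat 331⟩, ⟨.negSucc 3768, .negSucc 82, .negSucc 48, .negSucc 64, .negSucc 119, .ofNat 177⟩, ⟨.negSucc 321, .negSucc 10, .negSucc 46, .ofNat 45, .negSucc 198, .negSucc 87⟩, .ofNat 675, .ofNat 529, .ofNat 0, .ofNat 529, .ofNat 1529, .ofNat 0, .ofNat 128, .negSucc 133, .ofNat 33, .ofNat 0, .ofNat 127, .negSucc 30, .ofNat 0, .ofNat 0, .ofNat 1340, .ofNat 2011, .ofNat 0, .ofNat 12516821276199046436115771692253844636434432, .ofNat 3971624406204062197210236698006733272907776, .ofNat 0, .ofNat 0, .ofNat 752310360387220011899147595492062015371870208, .ofNat 33768958968979026044384036776924144090480640, .ofNat 0, .ofNat 0, .ofNat 1604892126236409058311012946871002349256572928,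 .ofNat 48163290237651394665080511139611555236151296, .ofNat 0, .ofNat 0, .ofNat 11286101997046272969468410859600180320342638592, .ofNat 319716876159356377255661577888283417592725504, .ofNat 0⟩)
    (by decide +kernel)
theorem L02437 : Good (Phi V5.P V5.D 1 (-1)) ⟨3, 2, 2, 2, 3, 5, 3, 5, 5, 10⟩ :=
  leafYS_sound T5.ok_pm T5.Ypm.bz_eq (w := 224) (c := ⟨⟨.negSucc 1341, .negSucc 188, .ofNat 29, .negSucc 60, .negSucc 36, .ofNat 72⟩, ⟨.ofNat 662, .ofNat 7, .ofNat 323, .ofNat 34, .ofNat 16, .negSucc 44⟩, ⟨.ofNat 1504, .ofNat 268, .ofNat 313, .ofNat 410, .ofNat 466, .ofNat 310⟩, ⟨.negSucc 3878, .negSucc 131, .negSucc 79, .negSucc 175, .negSucc 185, .ofNat 144⟩, ⟨.negSucc 337, .negSucc 53, .negSucc 103, .negSucc 22, .negSucc 170, .negSucc 89⟩, .ofNat 831, .ofNat 696, .ofNat 0, .ofNat 696, .ofNat 1635, .ofNat 0, .ofNat 141, .negSucc 127, .ofNat 19, .ofNat 0, .ofNat 115, .negSucc 21, .ofNat 0, .ofNat 0,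 .ofNat 773, .ofNat 757, .ofNat 0, .ofNat 48874355593583624773403200102457275368603648, .ofNat 0, .ofNat 0, .ofNat 0, .ofNat 0, .ofNat 0, .ofNat 0, .ofNat 0, .ofNat 1236006190970191430938771436472556431364587520, .ofNat 0, .ofNat 0, .ofNat 0, .ofNat 5812591450506652588396108447583114291778158592, .ofNat 386874783094994555117298362656928313638912, .ofNat 0⟩)
    (by decide +kernel)
theorem L02438 : Good (Phi V5.P V5.D 1 (-1)) ⟨3, 2, 2, 2, 4, 10, 3, 5, 5, 11⟩ :=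
  leafYS_sound T5.ok_pm T5.Ypm.bz_eq (w := 239) (c := ⟨⟨.negSucc 1288, .negSucc 171, .ofNat 50, .negSucc 11, .negSucc 6, .ofNat 89⟩, ⟨.ofNat 633, .ofNat 2, .ofNat 300, .ofNat 2, .negSucc 3, .negSucc 56⟩, ⟨.ofNat 1736, .ofNat 264, .ofNat 429, .ofNat 303, .ofNat 605, .ofNat 500⟩, ⟨.negSucc 3753, .negSucc 117, .negSucc 58, .negSucc 60, .negSucc 138, .ofNat 176⟩, ⟨.negSucc 389, .negSucc 66, .negSucc 123, .negSucc 71, .negSucc 232, .negSucc 125⟩, .ofNat 435, .ofNat 201, .ofNat 0, .ofNat 201, .ofNat 672, .ofNat 0, .ofNat 246, .negSucc 90, .ofNat 45, .ofNat 0, .ofNat 128, .negSucc 59, .ofNat 0, .ofNat 0, .ofNat 1145, .ofNat 1977, .ofNat 0, .ofNat 754545755273501698453730673464164241723560558592, .ofNat 0, .ofNat 0, .ofNat 0, .ofNat 0, .ofNat 0, .ofNat 0, .ofNat 0, .ofNat 12423646656221010803813645334570717588252304343040, .ofNat 0, .ofNat 0, .ofNat 0, .ofNat 86782552653391988692652276019355267056126824284160,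 .ofNat 344795692103119793457254688887747748766366564352, .ofNat 0⟩)
    (by decide +kernel)
theorem L02439 : Good (Phi V5.P V5.D 1 (-1)) ⟨3, 2, 2, 2, 4, 11, 3, 5, 5, 11⟩ :=
  out_sound (S := T5.ds_pm) T5.ok_pm (w := 38) (j := 2) (by decide +kernel)
theorem L02440 : Good (Phi V5.P V5.D 1 (-1)) ⟨3, 3, 2, 2, 3, 5, 3, 5, 5, 10⟩ :=
  leafYS_sound T5.ok_pm T5.Ypm.bz_eq (w := 224) (c := ⟨⟨.negSucc 1551, .negSucc 257, .ofNat 41, .negSucc 74, .negSucc 49, .ofNat 98⟩, ⟨.ofNat 676, .negSucc 72, .ofNat 311, .ofNat 32, .ofNat 10, .negSucc 47⟩, ⟨.ofNat 1696, .ofNat 362, .ofNat 462, .ofNat 406, .ofNat 543, .ofNat 324⟩, ⟨.negSucc 4039, .negSucc 138, .negSucc 70, .negSucc 180, .negSucc 221, .ofNat 184⟩, ⟨.negSucc 345, .negSucc 97, .negSucc 155, .negSucc 17, .negSucc 249, .negSucc 121⟩, .ofNat 396, .ofNat 166, .ofNat 0, .ofNat 166, .ofNat 665, .ofNat 0, .ofNat 230, .negSucc 87, .ofNat 15, .ofNat 0, .ofNat 128,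 .negSucc 38, .ofNat 0, .ofNat 0, .ofNat 863, .ofNat 721, .ofNat 0, .ofNat 15632924659478389409021542469516015465136128, .ofNat 2450685257011652297374210343071628298027008, .ofNat 0, .ofNat 0, .ofNat 0, .ofNat 0, .ofNat 0, .ofNat 0, .ofNat 1108481418230784957573047489264464366778974208, .ofNat 9677738694160671454368252124409206321184768, .ofNat 0, .ofNat 0, .ofNat 5801681388216362328117500102417399774504288256, .ofNat 71721052859047186045544955276592044983713792, .ofNat 0⟩)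
    (by decide +kernel)
theorem L02441 : Good (Phi V5.P V5.D 1 (-1)) ⟨3, 3, 2, 2, 4, 10, 3, 5, 5, 11⟩ :=
  leafYS_sound T5.ok_pm T5.Ypm.bz_eq (w := 239) (c := ⟨⟨.negSucc 1473, .negSucc 243, .ofNat 55, .negSucc 10, .negSucc 22, .ofNat 105⟩, ⟨.ofNat 641, .negSucc 67, .ofNat 295, .negSucc 6, .negSucc 20, .negSucc 56⟩, ⟨.ofNat 1951, .ofNat 302, .ofNat 486, .ofNat 349, .ofNat 759, .ofNat 506⟩, ⟨.negSucc 3889, .negSucc 113, .negSucc 46, .negSucc 50, .negSucc 168, .ofNat 199⟩, ⟨.negSucc 439, .negSucc 69, .negSucc 130, .negSucc 82, .negSucc 312, .negSucc 136⟩, .ofNat 397, .ofNat 166, .ofNat 0, .ofNat 166, .ofNat 666, .ofNat 0, .ofNat 242, .negSucc 85, .ofNat 25, .ofNat 0, .ofNat 128, .negSucc 34, .ofNat 0, .ofNat 0, .ofNat 747, .ofNat 1000, .ofNat 0, .ofNat 564115058249384809501189616596764093684859797504, .ofNat 6411164777433548817769500736793260169726263296, .ofNat 0, .ofNat 0, .ofNat 0, .ofNat 0,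 .ofNat 0, .ofNat 0, .ofNat 8720321115743252088832523190494462247606895509504, .ofNat 0, .ofNat 0, .ofNat 0, .ofNat 37103232671548336467060272504514201971246965456896, .ofNat 72394044744696295311931082981663842652810903552, .ofNat 0⟩)
    (by decide +kernel)
theorem L02442 : Good (Phi V5.P V5.D 1 (-1)) ⟨3, 3, 2, 2, 4, 11, 3, 5, 5, 11⟩ :=
  out_sound (S := T5.ds_pm) T5.ok_pm (w := 38) (j := 2) (by decide +kernel)
theorem L02443 : Good (Phi V5.P V5.D 1 (-1)) ⟨3, 2, 2, 2, 3, 6, 3, 4, 5, 10⟩ :=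
  leafYS_sound T5.ok_pm T5.Ypm.bz_eq (w := 224) (c := ⟨⟨.negSucc 1404, .negSucc 187, .negSucc 4, .negSucc 58, .negSucc 1, .ofNat 106⟩, ⟨.ofNat 706, .ofNat 6, .ofNat 334, .ofNat 40, .negSucc 4, .negSucc 63⟩, ⟨.ofNat 1348, .ofNat 213, .ofNat 267, .ofNat 284, .ofNat 549, .ofNat 346⟩, ⟨.negSucc 3941, .negSucc 90, .negSucc 66, .ofNat 5, .negSucc 132, .ofNat 198⟩, ⟨.negSucc 133, .ofNat 34, .negSucc 19, .ofNat 275, .negSucc 229, .negSucc 146⟩, .ofNat 438, .ofNat 204, .ofNat 0, .ofNat 204, .ofNat 672, .ofNat 0, .ofNat 164, .negSucc 89, .ofNat 43, .ofNat 0, .ofNat 128, .negSucc 55, .ofNat 0, .ofNat 0, .ofNat 800, .ofNat 1201, .ofNat 0, .ofNat 67056431188263458281805142902180521720152064, .ofNat 0, .ofNat 0, .ofNat 0, .ofNat 797445188036756871954633110156621421075234816, .ofNat 0, .ofNat 0, .ofNat 0, .ofNat 1557831621507698902638739418396924616093204480, .ofNat 0, .ofNat 0, .ofNat 0, .ofNat 8271507229121193746844078427340766136330354688,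 .ofNat 2793474805668825849377026984125787549990912, .ofNat 0⟩)
    (by decide +kernel)
theorem L02444 : Good (Phi V5.P V5.D 1 (-1)) ⟨3, 3, 3, 4, 3, 6, 3, 4, 5, 10⟩ :=
  leafYS_sound T5.ok_pm T5.Ypm.bz_eq (w := 227) (c := ⟨⟨.negSucc 1599, .negSucc 245, .negSucc 3, .negSucc 38, .negSucc 25, .ofNat 121⟩, ⟨.ofNat 708, .negSucc 65, .ofNat 171, .ofNat 37, .negSucc 3, .negSucc 59⟩, ⟨.ofNat 1551, .ofNat 254, .ofNat 150, .ofNat 297, .ofNat 577, .ofNat 328⟩, ⟨.negSucc 4049, .negSucc 75, .negSucc 23, .ofNat 47, .negSucc 171, .ofNat 225⟩, ⟨.negSucc 103, .ofNat 30, .ofNat 1, .ofNat 324, .negSucc 268, .negSucc 147⟩, .ofNat 398, .ofNat 168, .ofNat 0, .ofNat 168, .ofNat 666, .ofNat 0, .ofNat 286, .negSucc 84, .ofNat 26, .ofNat 0, .ofNat 128, .negSucc 34, .ofNat 0, .ofNat 0, .ofNat 563, .ofNat 776, .ofNat 0, .ofNat 344356051902505229695179801015573923856646144, .ofNat 831319763087091403376963475446410051059712,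 .ofNat 0, .ofNat 0, .ofNat 0, .ofNat 0, .ofNat 0, .ofNat 0, .ofNat 8874904421073437973253380799325206071530749952, .ofNat 0, .ofNat 0, .ofNat 0, .ofNat 30855563569830253140045589266860157848170528768, .ofNat 0, .ofNat 0⟩)
    (by decide +kernel)
theorem L02445 : Good (Phi V5.P V5.D 1 (-1)) ⟨3, 3, 3, 5, 3, 6, 3, 4, 5, 10⟩ :=
  out_sound (S := T5.ds_pm) T5.ok_pm (w := 45) (j := 3) (by decide +kernel)
theorem L02446 : Good (Phi V5.P V5.D 1 (-1)) ⟨2, 1, 2, 2, 3, 6, 3, 5, 5, 10⟩ :=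
  out_sound (S := T5.ds_pm) T5.ok_pm (w := 36) (j := 2) (by decide +kernel)
theorem L02447 : Good (Phi V5.P V5.D 1 (-1)) ⟨2, 1, 2, 2, 3, 6, 2, 2, 5, 11⟩ :=
  leafYS_sound T5.ok_pm T5.Ypm.bz_eq (w := 217) (c := ⟨⟨.negSucc 1303, .negSucc 395, .ofNat 11, .ofNat 1, .negSucc 118, .ofNat 1⟩, ⟨.ofNat 662, .negSucc 60, .ofNat 324, .ofNat 0, .ofNat 50, .ofNat 0⟩, ⟨.ofNat 1676, .ofNat 446, .ofNat 347, .negSucc 0, .ofNat 889, .negSucc 0⟩, ⟨.negSucc 3755, .negSucc 140, .negSucc 56, .ofNat 2, .negSucc 204, .ofNat 2⟩, ⟨.negSucc 262, .ofNat 46, .negSucc 46, .ofNat 0, .negSucc 475, .ofNat 0⟩, .ofNat 187, .ofNat 32, .ofNat 0, .ofNat 32, .ofNat 231, .ofNat 0, .ofNat 128, .negSucc 54, .ofNat 18, .ofNat 0, .ofNat 148, .negSucc 31, .ofNat 0, .ofNat 0, .ofNat 227, .ofNat 1947, .ofNat 0, .ofNat 3029632120732888309712166995274176814645248, .ofNat 0, .ofNat 0, .ofNat 0, .ofNat 33471773177587426492747200062670369114292224,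 .ofNat 1317409465717960703750647618587438033666048, .ofNat 0, .ofNat 0, .ofNat 46150857218013758363330065799550622370889728, .ofNat 0, .ofNat 0, .ofNat 0, .ofNat 71158891329123535354123563962584895026364416, .ofNat 1748693121307004276183350873272632242864128, .ofNat 0⟩)
    (by decide +kernel)
theorem L02448 : Good (Phi V5.P V5.D 1 (-1)) ⟨2, 1, 2, 2, 3, 7, 2, 2, 4, 5⟩ :=
  out_sound (S := T5.ds_pm) T5.ok_pm (w := 32) (j := 2) (by decide +kernel)
theorem L02449 : Good (Phi V5.P V5.D 1 (-1)) ⟨2, 1, 2, 2, 3, 4, 3, 6, 4, 4⟩ :=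
  leafYS_sound T5.ok_pm T5.Ypm.bz_eq (w := 214) (c := ⟨⟨.negSucc 1304, .negSucc 529, .ofNat 12, .negSucc 129, .negSucc 115, .ofNat 68⟩, ⟨.ofNat 663, .negSucc 33, .ofNat 327, .ofNat 65, .ofNat 54, .negSucc 31⟩, ⟨.ofNat 1252, .ofNat 600, .ofNat 177, .ofNat 406, .ofNat 356, .ofNat 304⟩, ⟨.negSucc 3776, .negSucc 483, .negSucc 66, .negSucc 400, .negSucc 376, .ofNat 103⟩, ⟨.negSucc 249, .negSucc 215, .negSucc 58, .negSucc 123, .negSucc 164, .negSucc 117⟩, .ofNat 416, .ofNat 184, .ofNat 0, .ofNat 184, .ofNat 667, .ofNat 0, .ofNat 307, .negSucc 92, .negSucc 42, .ofNat 0, .ofNat 128, .ofNat 4, .ofNat 0, .ofNat 0, .ofNat 449, .ofNat 264, .ofNat 0, .ofNat 0, .ofNat 0, .ofNat 0, .ofNat 0, .ofNat 0, .ofNat 0, .ofNat 0, .ofNat 0, .ofNat 0, .ofNat 0, .ofNat 0, .ofNat 0, .ofNat 5913488415812733486824125387268498456051712, .ofNat 1012560599794474735378907371118554481950720, .ofNat 0⟩)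
    (by decide +kernel)
theorem L02450 : Good (Phi V5.P V5.D 1 (-1)) ⟨2, 1, 2, 2, 3, 5, 3, 6, 5, 8⟩ :=
  leafYS_sound T5.ok_pm T5.Ypm.bz_eq (w := 219) (c := ⟨⟨.negSucc 1425, .negSucc 588, .ofNat 1, .negSucc 217, .negSucc 176, .ofNat 60⟩, ⟨.ofNat 724, .negSucc 20, .ofNat 381, .ofNat 113, .ofNat 76, .negSucc 34⟩, ⟨.ofNat 1510, .ofNat 687, .ofNat 244, .ofNat 349, .ofNat 539, .ofNat 197⟩, ⟨.negSucc 4149, .negSucc 573, .negSucc 129, .negSucc 499, .negSucc 559, .ofNat 95⟩, ⟨.negSucc 282, .negSucc 237, .negSucc 105, .ofNat 86, .negSucc 258, .negSucc 131⟩, .ofNat 421, .ofNat 190, .ofNat 0, .ofNat 190, .ofNat 670, .ofNat 0, .ofNat 317, .negSucc 99, .negSucc 19, .ofNat 0, .ofNat 128, .negSucc 9, .ofNat 0, .ofNat 0, .ofNat 364, .ofNat 185, .ofNat 0, .ofNat 0, .ofNat 2080826845252412023361168958570160145301504, .ofNat 0, .ofNat 0, .ofNat 0, .ofNat 0, .ofNat 0, .ofNat 0, .ofNat 17834799533459322281858930332454904817254400,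 .ofNat 24323698603915699761110419839347718522667008, .ofNat 0, .ofNat 0, .ofNat 53316537787224245477525498564629344896942080, .ofNat 14600660267352305555196927238111835694563328, .ofNat 0⟩)
    (by decide +kernel)
theorem L02451 : Good (Phi V5.P V5.D 1 (-1)) ⟨2, 1, 2, 2, 3, 5, 3, 6, 5, 9⟩ :=
  leafYS_sound T5.ok_pm T5.Ypm.bz_eq (w := 219) (c := ⟨⟨.negSucc 1416, .negSucc 526, .ofNat 22, .negSucc 155, .negSucc 135, .ofNat 65⟩, ⟨.ofNat 722, .negSucc 39, .ofNat 361, .ofNat 56, .ofNat 31, .negSucc 46⟩, ⟨.ofNat 1703, .ofNat 654, .ofNat 263, .ofNat 442, .ofNat 541, .ofNat 255⟩, ⟨.negSucc 4145, .negSucc 484, .negSucc 115, .negSucc 384, .negSucc 434, .ofNat 138⟩, ⟨.negSucc 374, .negSucc 254, .negSucc 105, .negSucc 46, .negSucc 259, .negSucc 109⟩, .ofNat 188, .ofNat 32, .ofNat 0, .ofNat 32, .ofNat 230, .ofNat 0, .ofNat 325, .negSucc 52, .negSucc 20, .ofNat 0, .ofNat 128, .negSucc 38, .ofNat 0, .ofNat 0,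 .ofNat 344, .ofNat 192, .ofNat 0, .ofNat 2084397312792834608408310102594984618229760, .ofNat 0, .ofNat 0, .ofNat 0, .ofNat 0, .ofNat 0, .ofNat 0, .ofNat 0, .ofNat 37290282911366240477394195994464986394001408, .ofNat 0, .ofNat 0, .ofNat 0, .ofNat 99565731147225248793401634456732976956833792, .ofNat 1175320163722957431486328725304824146427904, .ofNat 0⟩)
    (by decide +kernel)
theorem L02452 : Good (Phi V5.P V5.D 1 (-1)) ⟨2, 1, 2, 2, 2, 2, 3, 7, 4, 4⟩ :=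
  leafYS_sound T5.ok_pm T5.Ypm.bz_eq (w := 200) (c := ⟨⟨.negSucc 1385, .negSucc 583, .ofNat 38, .negSucc 438, .negSucc 266, .negSucc 5⟩, ⟨.ofNat 703, .negSucc 22, .ofNat 360, .ofNat 203, .ofNat 99, .negSucc 12⟩, ⟨.ofNat 1582, .ofNat 691, .ofNat 154, .ofNat 918, .ofNat 376, .ofNat 224⟩, ⟨.negSucc 4037, .negSucc 662, .negSucc 54, .negSucc 1346, .negSucc 800, .negSucc 49⟩, ⟨.negSucc 365, .negSucc 340, .negSucc 55, .negSucc 347, .negSucc 212, .negSucc 92⟩, .ofNat 188, .ofNat 32, .ofNat 0, .ofNat 32, .ofNat 231, .ofNat 0, .ofNat 255, .negSucc 43, .negSucc 78, .ofNat 0, .ofNat 128, .negSucc 2, .ofNat 0, .ofNat 0, .ofNat 253, .ofNat 283, .ofNat 0, .ofNat 82691592507370398647877095198747000832, .ofNat 0, .ofNat 0, .ofNat 0, .ofNat 1404240949474391081053237027207089487872, .ofNat 0, .ofNat 0, .ofNat 0, .ofNat 1159604684146057472822769156495398404096, .ofNat 0, .ofNat 0, .ofNat 0, .ofNat 1936154676539953623866736694012703408128,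 .ofNat 3435687092777230077892225372881158144, .ofNat 0⟩)
    (by decide +kernel)
theorem L02453 : Good (Phi V5.P V5.D 1 (-1)) ⟨2, 1, 3, 4, 3, 4, 3, 6, 4, 5⟩ :=
  leafYS_sound T5.ok_pm T5.Ypm.bz_eq (w := 218) (c := ⟨⟨.negSucc 1319, .negSucc 423, .ofNat 24, .negSucc 60, .negSucc 77, .ofNat 112⟩, ⟨.ofNat 644, .negSucc 34, .ofNat 165, .ofNat 28, .ofNat 50, .negSucc 55⟩, ⟨.ofNat 1467, .ofNat 590, .ofNat 158, .ofNat 559, .ofNat 324, .ofNat 501⟩, ⟨.negSucc 3785, .negSucc 320, .negSucc 34, .negSucc 277, .negSucc 325, .ofNat 209⟩, ⟨.negSucc 319, .negSucc 209, .negSucc 39, .negSucc 216, .negSucc 171, .negSucc 125⟩, .ofNat 418, .ofNat 185, .ofNat 0, .ofNat 185, .ofNat 668, .ofNat 0, .ofNat 397, .negSucc 89, .negSucc 16, .ofNat 0, .ofNat 128, .negSucc 23, .ofNat 0, .ofNat 0, .ofNat 912, .ofNat 706, .ofNat 0, .ofNat 2652604677831946876754863160366833334222848, .ofNat 0, .ofNat 0, .ofNat 0, .ofNat 0, .ofNat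 0, .ofNat 0, .ofNat 0, .ofNat 75450690933936581097434833240091181707165696, .ofNat 0, .ofNat 0, .ofNat 0, .ofNat 451092144628948636652880503746912892045230080, .ofNat 0, .ofNat 0⟩)
    (by decide +kernel)
theorem L02454 : Good (Phi V5.P V5.D 1 (-1)) ⟨2, 1, 3, 5, 3, 4, 3, 6, 4, 5⟩ :=
  leafYS_sound T5.ok_pm T5.Ypm.bz_eq (w := 218) (c := ⟨⟨.negSucc 1283, .negSucc 369, .ofNat 19, .negSucc 69, .negSucc 82, .ofNat 89⟩, ⟨.ofNat 793, .ofNat 32, .ofNat 163, .ofNat 37, .ofNat 45, .negSucc 58⟩, ⟨.ofNat 1625, .ofNat 470, .ofNat 101, .ofNat 565, .ofNat 341, .ofNat 562⟩, ⟨.negSucc 3770, .negSucc 348, .negSucc 50, .negSucc 312, .negSucc 297, .ofNat 165⟩, ⟨.negSucc 359, .negSucc 186, .negSucc 45, .negSucc 227, .negSucc 143, .negSucc 134⟩, .ofNat 940, .ofNat 853, .ofNat 0, .ofNat 853, .ofNat 1795, .ofNat 0, .ofNat 141, .negSucc 127, .negSucc 0, .ofNat 0, .ofNat 110, .negSucc 7, .ofNat 0, .ofNat 0, .ofNat 638,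 .ofNat 555, .ofNat 0, .ofNat 1849657453288553914147179982366356747059200, .ofNat 264237975133398565438387575910037790392320, .ofNat 0, .ofNat 0, .ofNat 0, .ofNat 0, .ofNat 0, .ofNat 0, .ofNat 53821585703584580824839700426975007536578560, .ofNat 2793287555111696750152234565544631775264768, .ofNat 0, .ofNat 0, .ofNat 217456141031001689293844332078407080512323584, .ofNat 13941299102698983815819325128639168341082112, .ofNat 0⟩)
    (by decide +kernel)
theorem L02455 : Good (Phi V5.P V5.D 1 (-1)) ⟨2, 1, 2, 2, 3, 5, 3, 6, 4, 5⟩ :=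
  leafYS_sound T5.ok_pm T5.Ypm.bz_eq (w := 216) (c := ⟨⟨.negSucc 1371, .negSucc 485, .ofNat 31, .ofNat 1, .negSucc 30, .ofNat 1⟩, ⟨.ofNat 688, .negSucc 51, .ofNat 336, .ofNat 0, .ofNat 52, .ofNat 0⟩, ⟨.ofNat 1945, .ofNat 653, .ofNat 345, .negSucc 0, .ofNat 574, .negSucc 0⟩, ⟨.negSucc 4046, .negSucc 419, .negSucc 99, .ofNat 2, .negSucc 324, .ofNat 2⟩, ⟨.negSucc 466, .negSucc 260, .negSucc 135, .ofNat 0, .negSucc 315, .ofNat 0⟩, .ofNat 187, .ofNat 32, .ofNat 0, .ofNat 32, .ofNat 231, .ofNat 0, .ofNat 235, .negSucc 49, .negSucc 3, .ofNat 0, .ofNat 128, .negSucc 21, .ofNat 0, .ofNat 0, .ofNat 185, .ofNat 1135, .ofNat 0, .ofNat 982953130342738627702486010701736094728192, .ofNat 0, .ofNat 0, .ofNat 0, .ofNat 10656822050154350745450959266337043999883264, .ofNat 0, .ofNat 0, .ofNat 0, .ofNat 11424669201152785272863093889848728587599872, .ofNat 0, .ofNat 0, .ofNat 0, .ofNat 19581548970395796847474207522973564499132416,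 .ofNat 370932158948882900801678239763846800605184, .ofNat 0⟩)
    (by decide +kernel)
theorem L02456 : Good (Phi V5.P V5.D 1 (-1)) ⟨2, 1, 2, 2, 2, 2, 3, 7, 4, 5⟩ :=
  out_sound (S := T5.ds_pm) T5.ok_pm (w := 32) (j := 2) (by decide +kernel)
theorem L02457 : Good (Phi V5.P V5.D 1 (-1)) ⟨2, 1, 2, 2, 2, 3, 2, 3, 4, 4⟩ :=
  leafYS_sound T5.ok_pm T5.Ypm.bz_eq (w := 196) (c := ⟨⟨.negSucc 1626, .negSucc 627, .negSucc 17, .negSucc 421, .negSucc 427, .ofNat 191⟩, ⟨.ofNat 832, .negSucc 23, .ofNat 419, .ofNat 240, .ofNat 74, .negSucc 104⟩, ⟨.ofNat 1828, .ofNat 699, .ofNat 268, .ofNat 547, .ofNat 1278, .ofNat 466⟩, ⟨.negSucc 4596, .negSucc 656, .negSucc 167, .negSucc 659, .negSucc 1133, .ofNat 335⟩, ⟨.negSucc 151, .negSucc 230, .negSucc 129, .ofNat 650, .negSucc 564, .negSucc 365⟩, .ofNat 188, .ofNat 32, .ofNat 0, .ofNat 32, .ofNat 230, .ofNat 0, .ofNat 234, .negSucc 65, .negSucc 13, .ofNat 0, .ofNat 128,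 .negSucc 39, .ofNat 0, .ofNat 0, .ofNat 222, .ofNat 159, .ofNat 0, .ofNat 31038981455878929927190439907343466496, .ofNat 42478125410455608056925338199916544, .ofNat 0, .ofNat 0, .ofNat 272166108103719203293657112414213111808, .ofNat 0, .ofNat 0, .ofNat 0, .ofNat 300590595290525356266773997472654032896, .ofNat 0, .ofNat 0, .ofNat 0, .ofNat 581811158602274309282219790323591151616, .ofNat 885512675342162134823299603903807488, .ofNat 0⟩)
    (by decide +kernel)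
theorem L02458 : Good (Phi V5.P V5.D 1 (-1)) ⟨2, 1, 2, 2, 2, 3, 2, 3, 4, 5⟩ :=
  out_sound (S := T5.ds_pm) T5.ok_pm (w := 30) (j := 2) (by decide +kernel)
theorem L02459 : Good (Phi V5.P V5.D 1 (-1)) ⟨2, 1, 2, 3, 1, 1, 1, 1, 3, 2⟩ :=
  out_sound (S := T5.ds_pm) T5.ok_pm (w := 37) (j := 3) (by decide +kernel)
theorem L02460 : Good (Phi V5.P V5.D 1 (-1)) ⟨2, 1, 2, 2, 4, 8, 3, 4, 5, 12⟩ :=
  leafYS_sound T5.ok_pm T5.Ypm.bz_eq (w := 237) (c := ⟨⟨.negSucc 1180, .negSucc 346, .ofNat 36, .negSucc 5, .negSucc 8, .ofNat 51⟩, ⟨.ofNat 591, .negSucc 53, .ofNat 291, .ofNat 6, .ofNat 4, .negSucc 27⟩, ⟨.ofNat 1422, .ofNat 368, .ofNat 246, .ofNat 189, .ofNat 359, .ofNat 275⟩, ⟨.negSucc 3427, .negSucc 127, .negSucc 34, .negSucc 50, .negSucc 77, .ofNat 114⟩, ⟨.negSucc 304, .negSucc 39, .negSucc 30, .negSucc 53, .negSucc 98, .negSucc 37⟩, .ofNat 432, .ofNat 213, .ofNat 0, .ofNat 213, .ofNat 682, .ofNat 0, .ofNat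 338, .negSucc 93, .negSucc 15, .ofNat 0, .ofNat 128, .negSucc 17, .ofNat 0, .ofNat 0, .ofNat 1703, .ofNat 8703, .ofNat 0, .ofNat 0, .ofNat 0, .ofNat 0, .ofNat 0, .ofNat 0, .ofNat 0, .ofNat 0, .ofNat 0, .ofNat 0, .ofNat 2486505666609862864805121210520823532666180599808, .ofNat 0, .ofNat 0, .ofNat 0, .ofNat 19534346784429164345055882720120511077832137375744, .ofNat 0⟩)
    (by decide +kernel)
theorem L02461 : Good (Phi V5.P V5.D 1 (-1)) ⟨2, 1, 2, 2, 4, 9, 3, 4, 5, 12⟩ :=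
  leafYS_sound T5.ok_pm T5.Ypm.bz_eq (w := 236) (c := ⟨⟨.negSucc 1199, .negSucc 355, .ofNat 40, .negSucc 8, .negSucc 1, .ofNat 82⟩, ⟨.ofNat 604, .negSucc 48, .ofNat 280, .negSucc 4, .negSucc 11, .negSucc 39⟩, ⟨.ofNat 1461, .ofNat 359, .ofNat 362, .ofNat 246, .ofNat 560, .ofNat 485⟩, ⟨.negSucc 3500, .negSucc 135, .negSucc 29, .negSucc 31, .negSucc 69, .ofNat 164⟩, ⟨.negSucc 321, .negSucc 33, .negSucc 58, .negSucc 56, .negSucc 165, .negSucc 79⟩, .ofNat 432, .ofNat 213, .ofNat 0, .ofNat 213, .ofNat 682, .ofNat 0, .ofNat 232, .negSucc 93, .ofNat 42, .ofNat 0, .ofNat 128, .negSucc 52, .ofNat 0, .ofNat 0, .ofNat 1449, .ofNat 2802, .ofNat 0, .ofNat 1648282967556230975232567485081491905429110784, .ofNat 148766821533437954042773180564521619006293016576, .ofNat 0, .ofNat 0, .ofNat 0, .ofNat 0, .ofNat 0, .ofNat 0, .ofNat 0, .ofNat 1837650732499414190001111804168310683699611959296, .ofNat 0, .ofNat 0, .ofNat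 2583753022795079504788044235007194394949706579968, .ofNat 17079278906598676812006766930461982580115062652928, .ofNat 0⟩)
    (by decide +kernel)
theorem L02462 : Good (Phi V5.P V5.D 1 (-1)) ⟨2, 1, 3, 4, 4, 8, 3, 4, 5, 13⟩ :=
  leafYS_sound T5.ok_pm T5.Ypm.bz_eq (w := 240) (c := ⟨⟨.negSucc 1153, .negSucc 331, .ofNat 40, .ofNat 21, .negSucc 0, .ofNat 68⟩, ⟨.ofNat 581, .negSucc 51, .ofNat 132, .negSucc 15, .negSucc 6, .negSucc 40⟩, ⟨.ofNat 1406, .ofNat 357, .ofNat 364, .ofNat 465, .ofNat 536, .ofNat 628⟩, ⟨.negSucc 3388, .negSucc 6, .negSucc 4, .ofNat 19, .negSucc 45, .ofNat 117⟩, ⟨.negSucc 341, .ofNat 92, .negSucc 65, .negSucc 77, .negSucc 114, .negSucc 103⟩, .ofNat 966, .ofNat 970, .ofNat 0, .ofNat 970, .ofNat 2314, .ofNat 0, .ofNat 217, .negSucc 127, .ofNat 36, .ofNat 0, .ofNat 104, .negSucc 30, .ofNat 0, .ofNat 0, .ofNat 2066, .ofNat 5599, .ofNat 0, .ofNat 0, .ofNat 0, .ofNat 0, .ofNat 0, .ofNat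 0, .ofNat 0, .ofNat 0, .ofNat 0, .ofNat 1351995845085162005041399100622408740552776351744, .ofNat 1961641917501637805516091491256150692799562383360, .ofNat 0, .ofNat 0, .ofNat 33327587021532805769294069835417937401953149517824, .ofNat 36536241275516726397715870822569728185977091915776, .ofNat 0⟩)
    (by decide +kernel)
theorem L02463 : Good (Phi V5.P V5.D 1 (-1)) ⟨2, 1, 3, 5, 4, 8, 4, 8, 5, 13⟩ :=
  leafYS_sound T5.ok_pm T5.Ypm.bz_eq (w := 246) (c := ⟨⟨.negSucc 1151, .negSucc 269, .ofNat 52, .ofNat 25, .ofNat 4, .ofNat 82⟩, ⟨.ofNat 711, .negSucc 6, .ofNat 114, .negSucc 15, .negSucc 3, .negSucc 49⟩, ⟨.ofNat 1544, .ofNat 500, .ofNat 568, .ofNat 491, .ofNat 262, .ofNat 769⟩, ⟨.negSucc 3361, .negSucc 114, .ofNat 26, .negSucc 5, .negSucc 24, .ofNat 155⟩, ⟨.negSucc 276, .negSucc 89, .negSucc 125, .negSucc 128, .negSucc 68, .negSucc 114⟩, .ofNat 455, .ofNat 230, .ofNat 0, .ofNat 230, .ofNat 684, .ofNat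 0, .ofNat 128, .negSucc 121, .ofNat 62, .ofNat 0, .ofNat 167, .negSucc 89, .ofNat 0, .ofNat 0, .ofNat 3460, .ofNat 22752, .ofNat 0, .ofNat 0, .ofNat 35123104631016482402349502617955695322058817798144, .ofNat 0, .ofNat 0, .ofNat 0, .ofNat 273570519073482896465943917063099223694721245249536, .ofNat 0, .ofNat 0, .ofNat 0, .ofNat 161721718480074575540578234638589666847862611247104, .ofNat 0, .ofNat 0, .ofNat 0, .ofNat 1284132756830412392441441042955138022581228430950400, .ofNat 0⟩)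
    (by decide +kernel)
theorem L02464 : Good (Phi V5.P V5.D 1 (-1)) ⟨2, 1, 3, 5, 4, 8, 4, 9, 5, 13⟩ :=
  leafYS_sound T5.ok_pm T5.Ypm.bz_eq (w := 245) (c := ⟨⟨.negSucc 1164, .negSucc 280, .ofNat 47, .ofNat 55, .ofNat 19, .ofNat 95⟩, ⟨.ofNat 716, .ofNat 6, .ofNat 121, .negSucc 32, .negSucc 12, .negSucc 59⟩, ⟨.ofNat 1611, .ofNat 374, .ofNat 448, .ofNat 803, .ofNat 462, .ofNat 939⟩, ⟨.negSucc 3392, .negSucc 144, .ofNat 3, .ofNat 20, .negSucc 22, .ofNat 164⟩, ⟨.negSucc 287, .negSucc 74, .negSucc 82, .negSucc 207, .negSucc 124, .negSucc 157⟩, .ofNat 942, .ofNat 899, .ofNat 0, .ofNat 899, .ofNat 1875, .ofNat 0, .ofNat 128, .negSucc 223, .ofNat 126, .ofNat 0, .ofNat 188, .negSucc 101, .ofNat 0, .ofNat 0, .ofNat 3809, .ofNat 13313, .ofNat 0, .ofNat 713587093034072216127927626219458741189084184576, .ofNat 31938392461680023263538147096283561384462361034752, .ofNat 0, .ofNat 0, .ofNat 0, .ofNat 808737574503344227269969162122683132967750882820096,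 .ofNat 0, .ofNat 0, .ofNat 5784504434580841893161301995376382457570918400000, .ofNat 442080823580379149638042385079723423560345461981184, .ofNat 0, .ofNat 0, .ofNat 630562361132825902094047576558375306488738262024192, .ofNat 4759812661614975442529845263702390263472990990630912, .ofNat 0⟩)
    (by decide +kernel)
theorem L02465 : Good (Phi V5.P V5.D 1 (-1)) ⟨2, 1, 2, 2, 4, 9, 4, 8, 6, 26⟩ :=
  leafYS_sound T5.ok_pm T5.Ypm.bz_eq (w := 246) (c := ⟨⟨.negSucc 1154, .negSucc 325, .ofNat 74, .ofNat 28, .ofNat 4, .ofNat 41⟩, ⟨.ofNat 576, .negSucc 49, .ofNat 270, .negSucc 21, .negSucc 7, .negSucc 29⟩, ⟨.ofNat 1732, .ofNat 387, .ofNat 615, .ofNat 512, .ofNat 316, .ofNat 363⟩, ⟨.negSucc 3383, .negSucc 102, .negSucc 8, .ofNat 20, .negSucc 24, .ofNat 93⟩, ⟨.negSucc 355, .negSucc 46, .negSucc 106, .negSucc 117, .negSucc 85, .negSucc 53⟩, .ofNat 416, .ofNat 184, .ofNat 0, .ofNat 184, .ofNat 667, .ofNat 0, .ofNat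 330, .negSucc 84, .ofNat 64, .ofNat 0, .ofNat 128, .negSucc 65, .ofNat 0, .ofNat 0, .ofNat 1860, .ofNat 7098, .ofNat 0, .ofNat 0, .ofNat 140129042086823844953724720148069712691522843967488, .ofNat 0, .ofNat 0, .ofNat 0, .ofNat 0, .ofNat 0, .ofNat 0, .ofNat 4359959961426959975158329262899380552925037199360, .ofNat 2153043036353156105844082907430745942219622612729856, .ofNat 0, .ofNat 0, .ofNat 132933752766987128191898173838560264079163961376768, .ofNat 16759496167823244459957663270064433310251319096770560, .ofNat 0⟩)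
    (by decide +kernel)
theorem L02466 : Good (Phi V5.P V5.D 1 (-1)) ⟨2, 1, 2, 2, 5, 18, 4, 8, 6, 27⟩ :=
  leafYS_sound T5.ok_pm T5.Ypm.bz_eq (w := 261) (c := ⟨⟨.negSucc 1135, .negSucc 318, .ofNat 91, .ofNat 30, .ofNat 25, .ofNat 60⟩, ⟨.ofNat 557, .negSucc 46, .ofNat 250, .negSucc 12, .negSucc 10, .negSucc 33⟩, ⟨.ofNat 1813, .ofNat 422, .ofNat 901, .ofNat 394, .ofNat 513, .ofNat 583⟩, ⟨.negSucc 3307, .negSucc 112, .ofNat 4, .ofNat 26, .negSucc 8, .ofNat 107⟩, ⟨.negSucc 346, .negSucc 68, .negSucc 159, .negSucc 86, .negSucc 130, .negSucc 93⟩, .ofNat 419, .ofNat 187, .ofNat 0, .ofNat 187, .ofNat 668, .ofNat 0, .ofNat 198, .negSucc 84, .ofNat 76, .ofNat 0, .ofNat 128, .negSucc 72, .ofNat 0, .ofNat 0, .ofNat 1850, .ofNat 10566, .ofNat 0, .ofNat 0, .ofNat 2979024963144057465592765952178488926321645145231982592, .ofNat 0, .ofNat 0, .ofNat 0, .ofNat 0, .ofNat 0, .ofNat 0, .ofNat 0, .ofNat 27191401442212862248045068752028743955134646345596403712,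 .ofNat 0, .ofNat 0, .ofNat 476217863415707612581635665573906015551580576006799360, .ofNat 282578095730513703494367979711212456823910647973845925888, .ofNat 0⟩)
    (by decide +kernel)
theorem L02467 : Good (Phi V5.P V5.D 1 (-1)) ⟨2, 1, 2, 2, 5, 19, 4, 8, 6, 27⟩ :=
  leafYS_sound T5.ok_pm T5.Ypm.bz_eq (w := 260) (c := ⟨⟨.negSucc 1113, .negSucc 313, .ofNat 91, .ofNat 31, .ofNat 26, .ofNat 68⟩, ⟨.ofNat 556, .negSucc 53, .ofNat 230, .negSucc 23, .negSucc 23, .negSucc 43⟩, ⟨.ofNat 2157, .ofNat 398, .ofNat 979, .ofNat 427, .ofNat 575, .ofNat 660⟩, ⟨.negSucc 3299, .negSucc 108, .ofNat 22, .ofNat 41, .ofNat 5, .ofNat 128⟩, ⟨.negSucc 427, .negSucc 54, .negSucc 172, .negSucc 96, .negSucc 148, .negSucc 109⟩, .ofNat 188, .ofNat 32, .ofNat 0, .ofNat 32, .ofNat 230, .ofNat 0, .ofNat 233, .negSucc 38, .ofNat 105, .ofNat 0, .ofNat 128, .negSucc 139, .ofNat 0, .ofNat 0, .ofNat 1615, .ofNat 8831, .ofNat 0, .ofNat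 17749279334733160842160811117424596267362384277929984, .ofNat 1272126548676986350863814256190458561159544200513978368, .ofNat 0, .ofNat 0, .ofNat 162477291190957534695999839902575121001455338836197376, .ofNat 0, .ofNat 0, .ofNat 0, .ofNat 152634430509757375274414818784816916284559817915236352, .ofNat 2474264809144210481346903654984612675053083794941673472, .ofNat 0, .ofNat 0, .ofNat 1815484356798524035859395785345493752893308145225433088, .ofNat 44046288332337395353648315583323741647868920482913845248, .ofNat 0⟩)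
    (by decide +kernel)
theorem L02468 : Good (Phi V5.P V5.D 1 (-1)) ⟨2, 1, 2, 2, 5, 18, 5, 18, 5, 13⟩ :=
  leafYS_sound T5.ok_pm T5.Ypm.bz_eq (w := 259) (c := ⟨⟨.negSucc 1153, .negSucc 332, .ofNat 89, .ofNat 15, .ofNat 5, .ofNat 113⟩, ⟨.ofNat 576, .negSucc 41, .ofNat 250, .negSucc 19, .negSucc 8, .negSucc 70⟩, ⟨.ofNat 1907, .ofNat 402, .ofNat 845, .ofNat 340, .ofNat 211, .ofNat 1069⟩, ⟨.negSucc 3397, .negSucc 138, .ofNat 0, .ofNat 13, .negSucc 11, .ofNat 206⟩, ⟨.negSucc 385, .negSucc 79, .negSucc 167, .negSucc 88, .negSucc 65, .negSucc 187⟩, .ofNat 422, .ofNat 191, .ofNat 0, .ofNat 191, .ofNat 670, .ofNat 0, .ofNat 271, .negSucc 86, .ofNat 86, .ofNat 0, .ofNat 128, .negSucc 88, .ofNat 0, .ofNat 0, .ofNat 2080, .ofNat 6585, .ofNat 0, .ofNat 5010544666382353698862448788853417044269552766025728, .ofNat 781690654680231121111337175924006930491906790845841408, .ofNat 0, .ofNat 0, .ofNat 0, .ofNat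 0, .ofNat 0, .ofNat 0, .ofNat 42634715842642038863733089468688929186990510925938688, .ofNat 6427339803347768681522709260331355491461985340506505216, .ofNat 0, .ofNat 0, .ofNat 907529712668424866663372229307489866404697721125470208, .ofNat 43392521554721313280909028742003687783711105916568862720, .ofNat 0⟩)
    (by decide +kernel)
theorem L02469 : Good (Phi V5.P V5.D 1 (-1)) ⟨2, 1, 2, 2, 5, 18, 5, 19, 5, 13⟩ :=
  leafYS_sound T5.ok_pm T5.Ypm.bz_eq (w := 259) (c := ⟨⟨.negSucc 1148, .negSucc 343, .ofNat 107, .ofNat 12, .ofNat 3, .ofNat 120⟩, ⟨.ofNat 569, .negSucc 58, .ofNat 255, .negSucc 16, .negSucc 4, .negSucc 56⟩, ⟨.ofNat 2084, .ofNat 524, .ofNat 921, .ofNat 332, .ofNat 210, .ofNat 992⟩, ⟨.negSucc 3403, .negSucc 148, .ofNat 5, .ofNat 5, .negSucc 18, .ofNat 197⟩, ⟨.negSucc 432, .negSucc 118, .negSucc 190, .negSucc 92, .negSucc 64, .negSucc 184⟩, .ofNat 418, .ofNat 184, .ofNat 0, .ofNat 184, .ofNat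 667, .ofNat 0, .ofNat 265, .negSucc 84, .ofNat 58, .ofNat 0, .ofNat 128, .negSucc 62, .ofNat 0, .ofNat 0, .ofNat 1409, .ofNat 4460, .ofNat 0, .ofNat 5289386521376477512336756118981582918886786758344704, .ofNat 621913541307460528369427204110668476002956436620443648, .ofNat 0, .ofNat 0, .ofNat 0, .ofNat 0, .ofNat 0, .ofNat 0, .ofNat 81061823812798313242061341944391546725361453042237440, .ofNat 0, .ofNat 0, .ofNat 0, .ofNat 608712285939685113182129156019002692225102316371443712, .ofNat 16753735052996426358070628250432934041484198621533437952, .ofNat 0⟩)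
    (by decide +kernel)
theorem L02470 : Good (Phi V5.P V5.D 1 (-1)) ⟨2, 1, 2, 2, 5, 19, 4, 9, 5, 13⟩ :=
  leafYS_sound T5.ok_pm T5.Ypm.bz_eq (w := 254) (c := ⟨⟨.negSucc 1153, .negSucc 326, .ofNat 96, .ofNat 50, .ofNat 46, .ofNat 162⟩, ⟨.ofNat 567, .negSucc 56, .ofNat 241, .negSucc 18, .negSucc 17, .negSucc 71⟩, ⟨.ofNat 2163, .ofNat 506, .ofNat 888, .ofNat 432, .ofNat 584, .ofNat 1143⟩, ⟨.negSucc 3394, .negSucc 144, .ofNat 5, .ofNat 35, .negSucc 1, .ofNat 244⟩, ⟨.negSucc 450, .negSucc 102, .negSucc 186, .negSucc 110, .negSucc 172, .negSucc 230⟩, .ofNat 187, .ofNat 32, .ofNat 0, .ofNat 32, .ofNat 231, .ofNat 0, .ofNat 262, .negSucc 40, .ofNat 57, .ofNat 0, .ofNat 128, .negSucc 87, .ofNat 0, .ofNat 0, .ofNat 912, .ofNat 3485, .ofNat 0, .ofNat 1853626567968264610306917983670160242663204021338112, .ofNat 21467209178968986164146178714433397812095968320946176, .ofNat 0, .ofNat 0, .ofNat 0, .ofNat 0,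 .ofNat 0, .ofNat 0, .ofNat 15643377082391800898664295150834971931335135871369216, .ofNat 0, .ofNat 0, .ofNat 0, .ofNat 109261905948366404008495079969186254699383096042586112, .ofNat 357832064344724382161996783965401698860100269650214912, .ofNat 0⟩)
    (by decide +kernel)
theorem L02471 : Good (Phi V5.P V5.D 1 (-1)) ⟨3, 2, 3, 4, 4, 8, 3, 5, 5, 12⟩ :=
  leafYS_sound T5.ok_pm T5.Ypm.bz_eq (w := 243) (c := ⟨⟨.negSucc 1207, .negSucc 153, .ofNat 23, .ofNat 11, .negSucc 15, .ofNat 61⟩, ⟨.ofNat 593, .negSucc 1, .ofNat 138, .negSucc 7, .ofNat 7, .negSucc 33⟩, ⟨.ofNat 1531, .ofNat 260, .ofNat 228, .ofNat 420, .ofNat 457, .ofNat 431⟩, ⟨.negSucc 3484, .negSucc 90, .negSucc 20, .negSucc 43, .negSucc 129, .ofNat 120⟩, ⟨.negSucc 314, .negSucc 60, .negSucc 50, .negSucc 126, .negSucc 152, .negSucc 69⟩, .ofNat 828, .ofNat 688, .ofNat 0, .ofNat 688, .ofNat 1623, .ofNat 0, .ofNat 180, .negSucc 127, .ofNat 34, .ofNat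 0, .ofNat 118, .negSucc 40, .ofNat 0, .ofNat 0, .ofNat 2086, .ofNat 2769, .ofNat 0, .ofNat 0, .ofNat 0, .ofNat 0, .ofNat 0, .ofNat 0, .ofNat 0, .ofNat 0, .ofNat 0, .ofNat 46307438059078694983079717901293568307502545633280, .ofNat 0, .ofNat 0, .ofNat 0, .ofNat 873684362630224690319896996925060689995649624571904, .ofNat 0, .ofNat 0⟩)
    (by decide +kernel)
theorem L02472 : Good (Phi V5.P V5.D 1 (-1)) ⟨3, 2, 3, 5, 4, 8, 3, 5, 5, 12⟩ :=
  leafYS_sound T5.ok_pm T5.Ypm.bz_eq (w := 243) (c := ⟨⟨.negSucc 1195, .negSucc 147, .ofNat 36, .ofNat 16, .negSucc 4, .ofNat 67⟩, ⟨.ofNat 737, .ofNat 3, .ofNat 134, .negSucc 10, .ofNat 1, .negSucc 41⟩, ⟨.ofNat 1643, .ofNat 283, .ofNat 315, .ofNat 474, .ofNat 586, .ofNat 514⟩, ⟨.negSucc 3503, .negSucc 100, .negSucc 14, .negSucc 45, .negSucc 133, .ofNat 132⟩, ⟨.negSucc 318, .negSucc 78, .negSucc 71, .negSucc 155, .negSucc 200, .negSucc 91⟩, .ofNat 455, .ofNat 230,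 .ofNat 0, .ofNat 230, .ofNat 684, .ofNat 0, .ofNat 182, .negSucc 94, .ofNat 34, .ofNat 0, .ofNat 128, .negSucc 60, .ofNat 0, .ofNat 0, .ofNat 1640, .ofNat 2402, .ofNat 0, .ofNat 1245548476666583762880339534754902940305030381568, .ofNat 134169910293208775372343068064674760439443226624, .ofNat 0, .ofNat 0, .ofNat 0, .ofNat 0, .ofNat 0, .ofNat 0, .ofNat 30213064304695445490480489710541530228778512416768, .ofNat 1258964115942279547732202589177234169669567381504, .ofNat 0, .ofNat 0, .ofNat 533421866465435467833686240761009494330907849392128, .ofNat 10184467854067473236507816052167470820701289578496, .ofNat 0⟩)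
    (by decide +kernel)
theorem L02473 : Good (Phi V5.P V5.D 1 (-1)) ⟨3, 2, 2, 2, 4, 9, 4, 10, 6, 24⟩ :=
  leafYS_sound T5.ok_pm T5.Ypm.bz_eq (w := 249) (c := ⟨⟨.negSucc 1222, .negSucc 162, .ofNat 62, .ofNat 21, .ofNat 4, .ofNat 49⟩, ⟨.ofNat 598, .ofNat 4, .ofNat 275, .negSucc 15, .negSucc 6, .negSucc 28⟩, ⟨.ofNat 1745, .ofNat 228, .ofNat 551, .ofNat 518, .ofNat 370, .ofNat 352⟩, ⟨.negSucc 3555, .negSucc 108, .negSucc 30, .negSucc 29, .negSucc 53, .ofNat 84⟩, ⟨.negSucc 377, .negSucc 59, .negSucc 128, .negSucc 155, .negSucc 121, .negSucc 74⟩, .ofNat 439, .ofNat 206, .ofNat 0, .ofNat 206, .ofNat 673, .ofNat 0, .ofNat 231, .negSucc 90, .ofNat 42, .ofNat 0, .ofNat 128, .negSucc 55, .ofNat 0, .ofNat 0, .ofNat 1212, .ofNat 2949, .ofNat 0, .ofNat 21074029791909326114202053641151157199341824770048, .ofNat 0, .ofNat 0, .ofNat 0, .ofNat 0, .ofNat 0, .ofNat 0, .ofNat 0, .ofNat 310897129845969207648105903056832699130589806067712,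 .ofNat 0, .ofNat 0, .ofNat 0, .ofNat 2445554896892741984028529584303119496493241569640448, .ofNat 0, .ofNat 0⟩)
    (by decide +kernel)
theorem L02474 : Good (Phi V5.P V5.D 1 (-1)) ⟨3, 2, 2, 2, 4, 9, 4, 10, 6, 25⟩ :=
  leafYS_sound T5.ok_pm T5.Ypm.bz_eq (w := 249) (c := ⟨⟨.negSucc 1191, .negSucc 150, .ofNat 72, .ofNat 46, .ofNat 13, .ofNat 52⟩, ⟨.ofNat 584, .ofNat 1, .ofNat 258, .negSucc 32, .negSucc 14, .negSucc 32⟩, ⟨.ofNat 1923, .ofNat 272, .ofNat 723, .ofNat 720, .ofNat 465, .ofNat 431⟩, ⟨.negSucc 3493, .negSucc 98, .negSucc 20, .ofNat 11, .negSucc 37, .ofNat 96⟩, ⟨.negSucc 408, .negSucc 73, .negSucc 165, .negSucc 210, .negSucc 150, .negSucc 88⟩, .ofNat 190, .ofNat 34, .ofNat 0, .ofNat 34, .ofNat 230, .ofNat 0, .ofNat 151, .negSucc 41, .ofNat 64, .ofNat 0, .ofNat 128, .negSucc 132, .ofNat 0, .ofNat 0, .ofNat 1291, .ofNat 2130, .ofNat 0, .ofNat 27107011642812441376474698086514622963611265400832,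 .ofNat 6805835539993149651611658211697295445983366217728, .ofNat 0, .ofNat 0, .ofNat 192125605985615766028228582841356619422164337033216, .ofNat 0, .ofNat 0, .ofNat 0, .ofNat 320657115224354468236892465872812766194634544119808, .ofNat 0, .ofNat 0, .ofNat 0, .ofNat 3361165839894471051811971787829345988182849190100992, .ofNat 0, .ofNat 0⟩)
    (by decide +kernel)
theorem L02475 : Good (Phi V5.P V5.D 1 (-1)) ⟨3, 2, 2, 2, 4, 9, 4, 11, 5, 12⟩ :=
  leafYS_sound T5.ok_pm T5.Ypm.bz_eq (w := 245) (c := ⟨⟨.negSucc 1223, .negSucc 164, .ofNat 69, .ofNat 46, .ofNat 9, .ofNat 113⟩, ⟨.ofNat 591, .ofNat 4, .ofNat 275, .negSucc 6, .ofNat 3, .negSucc 47⟩, ⟨.ofNat 2069, .ofNat 275, .ofNat 612, .ofNat 545, .ofNat 356, .ofNat 673⟩, ⟨.negSucc 3601, .negSucc 127, .negSucc 38, .negSucc 32, .negSucc 70, .ofNat 173⟩, ⟨.negSucc 467, .negSucc 91, .negSucc 161, .negSucc 194, .negSucc 141, .negSucc 160⟩, .ofNat 191, .ofNat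 35, .ofNat 0, .ofNat 35, .ofNat 230, .ofNat 0, .ofNat 300, .negSucc 43, .ofNat 52, .ofNat 0, .ofNat 128, .negSucc 152, .ofNat 0, .ofNat 0, .ofNat 1380, .ofNat 4034, .ofNat 0, .ofNat 8858824197062707725872236361578182761291802738688, .ofNat 0, .ofNat 0, .ofNat 0, .ofNat 96911946337394575442939296452889211545560496996352, .ofNat 0, .ofNat 0, .ofNat 0, .ofNat 89589642447053493853375171942366705571462924730368, .ofNat 0, .ofNat 0, .ofNat 0, .ofNat 931251530044226499317380819086890261273243994292224, .ofNat 0, .ofNat 0⟩)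
    (by decide +kernel)
theorem L02476 : Good (Phi V5.P V5.D 1 (-1)) ⟨3, 2, 3, 4, 4, 8, 4, 10, 6, 26⟩ :=
  leafYS_sound T5.ok_pm T5.Ypm.bz_eq (w := 253) (c := ⟨⟨.negSucc 1170, .negSucc 146, .ofNat 35, .ofNat 38, .ofNat 4, .ofNat 41⟩, ⟨.ofNat 575, .negSucc 2, .ofNat 129, .negSucc 26, .negSucc 3, .negSucc 23⟩, ⟨.ofNat 1701, .ofNat 291, .ofNat 372, .ofNat 704, .ofNat 350, .ofNat 371⟩, ⟨.negSucc 3389, .negSucc 91, .negSucc 9, .negSucc 2, .negSucc 50, .ofNat 75⟩, ⟨.negSucc 320, .negSucc 80, .negSucc 78, .negSucc 193, .negSucc 110, .negSucc 64⟩, .ofNat 435, .ofNat 197, .ofNat 0, .ofNat 197, .ofNat 668, .ofNat 0, .ofNat 166, .negSucc 85, .ofNat 61, .ofNat 0, .ofNat 128, .negSucc 82, .ofNat 0, .ofNat 0, .ofNat 2048, .ofNat 7887, .ofNat 0, .ofNat 0, .ofNat 0, .ofNat 0, .ofNat 0, .ofNat 0, .ofNat 0, .ofNat 0, .ofNat 0, .ofNat 1856365300686246601711928261913593337430954777509888, .ofNat 0, .ofNat 0, .ofNat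 0, .ofNat 34952481127491434898305358336131298605452418174943232, .ofNat 0, .ofNat 0⟩)
    (by decide +kernel)
theorem L02477 : Good (Phi V5.P V5.D 1 (-1)) ⟨3, 2, 3, 5, 4, 8, 4, 10, 6, 26⟩ :=
  leafYS_sound T5.ok_pm T5.Ypm.bz_eq (w := 253) (c := ⟨⟨.negSucc 1155, .negSucc 143, .ofNat 50, .ofNat 58, .ofNat 10, .ofNat 53⟩, ⟨.ofNat 710, .ofNat 4, .ofNat 125, .negSucc 37, .negSucc 8, .negSucc 31⟩, ⟨.ofNat 1915, .ofNat 251, .ofNat 456, .ofNat 887, .ofNat 430, .ofNat 495⟩, ⟨.negSucc 3409, .negSucc 90, .negSucc 1, .ofNat 8, .negSucc 47, .ofNat 82⟩, ⟨.negSucc 360, .negSucc 68, .negSucc 92, .negSucc 239, .negSucc 128, .negSucc 93⟩, .ofNat 946, .ofNat 858, .ofNat 0, .ofNat 858, .ofNat 1798, .ofNat 0, .ofNat 132, .negSucc 127, .ofNat 80, .ofNat 0, .ofNat 112, .negSucc 66, .ofNat 0, .ofNat 0, .ofNat 2075, .ofNat 6588, .ofNat 0, .ofNat 108236830855714624306974144241613520786585238372352, .ofNat 164590082367354323169464088841970199655133728473088,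 .ofNat 0, .ofNat 0, .ofNat 0, .ofNat 0, .ofNat 0, .ofNat 0, .ofNat 1524299492869010870712166469498251999022292593016832, .ofNat 1321774802482650037042434738322866927812535295934464, .ofNat 0, .ofNat 0, .ofNat 29837412722570268626236288841778054885878108537225216, .ofNat 12885229503374675294751350829148027992183914086006784, .ofNat 0⟩)
    (by decide +kernel)
theorem L02478 : Good (Phi V5.P V5.D 1 (-1)) ⟨3, 2, 3, 4, 4, 8, 4, 10, 6, 27⟩ :=
  leafYS_sound T5.ok_pm T5.Ypm.bz_eq (w := 253) (c := ⟨⟨.negSucc 1143, .negSucc 151, .ofNat 40, .ofNat 63, .ofNat 13, .ofNat 51⟩, ⟨.ofNat 561, .ofNat 2, .ofNat 120, .negSucc 44, .negSucc 11, .negSucc 30⟩, ⟨.ofNat 1891, .ofNat 194, .ofNat 485, .ofNat 998, .ofNat 475, .ofNat 537⟩, ⟨.negSucc 3333, .negSucc 96, .negSucc 3, .ofNat 35, .negSucc 41, .ofNat 86⟩, ⟨.negSucc 355, .negSucc 58, .negSucc 91, .negSucc 252, .negSucc 142, .negSucc 95⟩, .ofNat 433, .ofNat 196,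 .ofNat 0, .ofNat 196, .ofNat 669, .ofNat 0, .ofNat 135, .negSucc 85, .ofNat 79, .ofNat 0, .ofNat 128, .negSucc 94, .ofNat 0, .ofNat 0, .ofNat 2215, .ofNat 7751, .ofNat 0, .ofNat 283381117178980271023420740361559573114916022779904, .ofNat 0, .ofNat 0, .ofNat 0, .ofNat 2097278323883593514113369570860191889109430994731008, .ofNat 0, .ofNat 0, .ofNat 0, .ofNat 3774729390214497565610734175871580421690607481651200, .ofNat 0, .ofNat 0, .ofNat 0, .ofNat 56165769645391821105005440637529138839583579082588160, .ofNat 0, .ofNat 0⟩)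
    (by decide +kernel)
theorem L02479 : Good (Phi V5.P V5.D 1 (-1)) ⟨3, 2, 3, 5, 5, 16, 4, 10, 6, 27⟩ :=
  leafYS_sound T5.ok_pm T5.Ypm.bz_eq (w := 268) (c := ⟨⟨.negSucc 1124, .negSucc 136, .ofNat 55, .ofNat 42, .ofNat 28, .ofNat 63⟩, ⟨.ofNat 691, .ofNat 1, .ofNat 120, .negSucc 26, .negSucc 18, .negSucc 39⟩, ⟨.ofNat 2158, .ofNat 303, .ofNat 556, .ofNat 607, .ofNat 626, .ofNat 681⟩, ⟨.negSucc 3347, .negSucc 88, .negSucc 6, .ofNat 20, .negSucc 30, .ofNat 92⟩, ⟨.negSucc 395, .negSucc 82, .negSucc 111, .negSucc 151, .negSucc 176, .negSucc 126⟩, .ofNat 946, .ofNat 858, .ofNat 0, .ofNat 858, .ofNat 1796, .ofNat 0, .ofNat 128, .negSucc 235, .ofNat 127, .ofNat 0, .ofNat 207, .negSucc 104, .ofNat 0, .ofNat 0, .ofNat 3156, .ofNat 14567, .ofNat 0, .ofNat 1126419649667004518863320443138358512530589778454773760, .ofNat 5575958977129012137030415672581720968033681905670946816, .ofNat 0, .ofNat 0, .ofNat 0,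 .ofNat 0, .ofNat 0, .ofNat 0, .ofNat 0, .ofNat 95096625911673726430803034662498273104307311180492308480, .ofNat 0, .ofNat 0, .ofNat 300232903822678583614997616796347326981873685818400309248, .ofNat 551564410761276952110288752622898185720797811086943322112, .ofNat 0⟩)
    (by decide +kernel)

end Crest.Agent.R097C5.N5pm
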