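import Crest.Agent.R097.KS3
import Crest.Agent.R097.T5Ypm

/-!
# Row 97, box cover in dimension n = 5 (generated)
-/

set_option autoImplicit false
set_option Elab.async false
set_option maxHeartbeats 0
set_option maxRecDepth 100000

open Crest.Agent.R097 Crest.Agent.R097.KA


namespace Crest.Agent.R097C5.N5pm

theorem L02480 : Good (Phi V5.P V5.D 1 (-1)) ⟨3, 2, 4, 10, 5, 17, 4, 10, 6, 27⟩ :=
  leafYS_sound T5.ok_pm T5.Ypm.bz_eq (w := 271) (c := ⟨⟨.negSucc 1088, .negSucc 140, .ofNat 39, .ofNat 54, .ofNat 41, .ofNat 82⟩, ⟨.ofNat 669, .ofNat 1, .ofNat 52, .negSucc 35, .negSucc 29, .negSucc 49⟩, ⟨.ofNat 2700, .ofNat 282, .ofNat 396, .ofNat 696, .ofNat 743, .ofNat 858⟩, ⟨.negSucc 3339, .negSucc 88, .ofNat 10, .ofNat 40, .negSucc 11, .ofNat 119⟩, ⟨.negSucc 534, .negSucc 75, .negSucc 80, .negSucc 176, .negSucc 209, .negSucc 160⟩, .ofNat 453, .ofNat 228, .ofNat 0, .ofNat 228, .ofNat 683, .ofNat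 0, .ofNat 221, .negSucc 93, .ofNat 177, .ofNat 0, .ofNat 128, .negSucc 188, .ofNat 0, .ofNat 0, .ofNat 3657, .ofNat 11574, .ofNat 0, .ofNat 32101752793425814164113558216318009491847764859399700480, .ofNat 3640769869898218410487241255485964453811740800718995456, .ofNat 0, .ofNat 0, .ofNat 316141005868048967243468503674962125058969167963719991296, .ofNat 0, .ofNat 0, .ofNat 0, .ofNat 370148150105493558918863265688715958972122216725726887936, .ofNat 1694294505754205958623494732220478712311391337454764032, .ofNat 0, .ofNat 0, .ofNat 7487660967027135695640286684822601646239269673884199157760, .ofNat 0, .ofNat 0⟩)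
    (by decide +kernel)
theorem L02481 : Good (Phi V5.P V5.D 1 (-1)) ⟨3, 2, 4, 11, 5, 17, 4, 10, 6, 27⟩ :=
  out_sound (S := T5.ds_pm) T5.ok_pm (w := 47) (j := 3) (by decide +kernel)
theorem L02482 : Good (Phi V5.P V5.D 1 (-1)) ⟨3, 2, 2, 2, 5, 16, 4, 11, 5, 13⟩ :=
  leafYS_sound T5.ok_pm T5.Ypm.bz_eq (w := 259) (c := ⟨⟨.negSucc 1169, .negSucc 156, .ofNat 76, .ofNat 23, .negSucc 3, .ofNat 88⟩, ⟨.ofNat 573, .ofNat 1, .ofNat 252, .negSucc 15, .negSucc 2, .negSucc 54⟩, ⟨.ofNat 1976, .ofNat 247, .ofNat 850, .ofNat 412, .ofNat 349, .ofNat 849⟩, ⟨.negSucc 3431, .negSucc 112, .negSucc 19, .negSucc 4, .negSucc 72, .ofNat 147⟩, ⟨.negSucc 399, .negSucc 83, .negSucc 178, .negSucc 122, .negSucc 129, .negSucc 168⟩, .ofNat 438, .ofNat 204, .ofNat 0, .ofNat 204, .ofNat 672, .ofNat 0, .ofNat 180, .negSucc 87, .ofNat 67, .ofNat 0, .ofNat 128, .negSucc 93, .ofNat 0, .ofNat 0, .ofNat 2105, .ofNat 5874,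 .ofNat 0, .ofNat 33623087971168006704561921609268692202651647614124032, .ofNat 13517474825293672667911278012340360021960690476515328, .ofNat 0, .ofNat 0, .ofNat 277997960330096822651485313551922894139307518546935808, .ofNat 0, .ofNat 0, .ofNat 0, .ofNat 409679183528363471172613755120389451855409317073125376, .ofNat 0, .ofNat 0, .ofNat 0, .ofNat 5239850268615674571715893156371736759967330803979911168, .ofNat 452460570663909805176572039647781974410682851724886016, .ofNat 0⟩)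
    (by decide +kernel)
theorem L02483 : Good (Phi V5.P V5.D 1 (-1)) ⟨3, 2, 2, 2, 5, 17, 4, 11, 5, 13⟩ :=
  leafYS_sound T5.ok_pm T5.Ypm.bz_eq (w := 260) (c := ⟨⟨.negSucc 1154, .negSucc 154, .ofNat 92, .ofNat 30, .ofNat 7, .ofNat 1⟩, ⟨.ofNat 558, .ofNat 2, .ofNat 249, .negSucc 16, .negSucc 7, .ofNat 0⟩, ⟨.ofNat 2353, .ofNat 257, .ofNat 926, .ofNat 402, .ofNat 328, .negSucc 1⟩, ⟨.negSucc 3440, .negSucc 114, .negSucc 12, .ofNat 8, .negSucc 47, .ofNat 2⟩, ⟨.negSucc 505, .negSucc 86, .negSucc 210, .negSucc 141, .negSucc 160, .ofNat 0⟩, .ofNat 191, .ofNat 35, .ofNat 0, .ofNat 35, .ofNat 230, .ofNat 0, .ofNat 233, .negSucc 41, .ofNat 43, .ofNat 0, .ofNat 128, .negSucc 105, .ofNat 0, .ofNat 0, .ofNat 993, .ofNat 11247, .ofNat 0, .ofNat 78380424774235244804760721679485091469371477822799872, .ofNat 0, .ofNat 0, .ofNat 0, .ofNat 1478493026856403055784227350074372696853562751918800896, .ofNat 0,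 .ofNat 0, .ofNat 0, .ofNat 596185343815902679027029771429672087309248489903357952, .ofNat 0, .ofNat 0, .ofNat 0, .ofNat 5901107538945996114353567896299871783550573669206982656, .ofNat 381691045859655064344701872199769304376857300438089728, .ofNat 0⟩)
    (by decide +kernel)
theorem L02484 : Good (Phi V5.P V5.D 1 (-1)) ⟨3, 2, 2, 2, 4, 9, 4, 10, 5, 13⟩ :=
  leafYS_sound T5.ok_pm T5.Ypm.bz_eq (w := 245) (c := ⟨⟨.negSucc 1152, .negSucc 147, .ofNat 101, .ofNat 66, .ofNat 27, .ofNat 139⟩, ⟨.ofNat 558, .ofNat 0, .ofNat 241, .negSucc 58, .negSucc 26, .negSucc 82⟩, ⟨.ofNat 2247, .ofNat 263, .ofNat 985, .ofNat 979, .ofNat 573, .ofNat 1198⟩, ⟨.negSucc 3413, .negSucc 90, .ofNat 3, .ofNat 47, .negSucc 14, .ofNat 221⟩, ⟨.negSucc 475, .negSucc 69, .negSucc 213, .negSucc 280, .negSucc 178, .negSucc 246⟩, .ofNat 439, .ofNat 206, .ofNat 0, .ofNat 206, .ofNat 673, .ofNat 0, .ofNat 221, .negSucc 88, .ofNat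 62, .ofNat 0, .ofNat 128, .negSucc 68, .ofNat 0, .ofNat 0, .ofNat 1386, .ofNat 5723, .ofNat 0, .ofNat 16990824084780720217830458174446256654028199952384, .ofNat 871635494103887034162449510191805595951483060224, .ofNat 0, .ofNat 0, .ofNat 148553192305217431031074092731663881387702638084096, .ofNat 0, .ofNat 0, .ofNat 0, .ofNat 167676540928437193266932778800713301482938723991552, .ofNat 0, .ofNat 0, .ofNat 0, .ofNat 1275564632841935086125551184105248007088814388412416, .ofNat 11760449008435922888323390367895269967082744184832, .ofNat 0⟩)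
    (by decide +kernel)
theorem L02485 : Good (Phi V5.P V5.D 1 (-1)) ⟨3, 2, 2, 2, 4, 9, 4, 11, 5, 13⟩ :=
  out_sound (S := T5.ds_pm) T5.ok_pm (w := 40) (j := 2) (by decide +kernel)
theorem L02486 : Good (Phi V5.P V5.D 1 (-1)) ⟨3, 3, 3, 4, 4, 8, 3, 5, 5, 12⟩ :=
  leafYS_sound T5.ok_pm T5.Ypm.bz_eq (w := 243) (c := ⟨⟨.negSucc 1369, .negSucc 220, .ofNat 22, .negSucc 0, .negSucc 37, .ofNat 72⟩, ⟨.ofNat 594, .negSucc 65, .ofNat 141, .negSucc 6, .ofNat 5, .negSucc 34⟩, ⟨.ofNat 1714, .ofNat 355, .ofNat 259, .ofNat 383, .ofNat 508, .ofNat 426⟩, ⟨.negSucc 3585, .negSucc 97, .negSucc 29, .negSucc 52, .negSucc 174, .ofNat 137⟩, ⟨.negSucc 349, .negSucc 85, .negSucc 55, .negSucc 126, .negSucc 201, .negSucc 78⟩, .ofNat 675, .ofNat 528, .ofNat 0, .ofNat 528, .ofNat 1528, .ofNat 0, .ofNat 271, .negSucc 127, .ofNat 26, .ofNat 0, .ofNat 121, .negSucc 35, .ofNat 0, .ofNat 0, .ofNat 1960, .ofNat 3616, .ofNat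 0, .ofNat 0, .ofNat 0, .ofNat 0, .ofNat 0, .ofNat 0, .ofNat 0, .ofNat 0, .ofNat 0, .ofNat 53606662981255427290334108279389069977506625355776, .ofNat 636586216208189862134956444962444365746134843392, .ofNat 0, .ofNat 0, .ofNat 601762174761264042592559347340349006991628232032256, .ofNat 12468406422176665634136786144513629962576945217536, .ofNat 0⟩)
    (by decide +kernel)
theorem L02487 : Good (Phi V5.P V5.D 1 (-1)) ⟨3, 3, 3, 4, 4, 9, 3, 5, 5, 12⟩ :=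
  leafYS_sound T5.ok_pm T5.Ypm.bz_eq (w := 243) (c := ⟨⟨.negSucc 1382, .negSucc 229, .ofNat 33, .ofNat 11, .negSucc 22, .ofNat 94⟩, ⟨.ofNat 600, .negSucc 68, .ofNat 132, .negSucc 10, .negSucc 6, .negSucc 50⟩, ⟨.ofNat 1989, .ofNat 304, .ofNat 333, .ofNat 471, .ofNat 696, .ofNat 619⟩, ⟨.negSucc 3662, .negSucc 103, .negSucc 12, .negSucc 32, .negSucc 156, .ofNat 174⟩, ⟨.negSucc 438, .negSucc 78, .negSucc 77, .negSucc 139, .negSucc 266, .negSucc 130⟩, .ofNat 399, .ofNat 170, .ofNat 0, .ofNat 170, .ofNat 666, .ofNat 0, .ofNat 399, .negSucc 84, .ofNat 54, .ofNat 0, .ofNat 128, .negSucc 69, .ofNat 0, .ofNat 0, .ofNat 1631, .ofNat 2483, .ofNat 0, .ofNat 7058803353623634329767269058310592456659388334080, .ofNat 0, .ofNat 0, .ofNat 0, .ofNat 0, .ofNat 0, .ofNat 0, .ofNat 0, .ofNat 108792976032884288089872229373888594609903146893312, .ofNat 104639453397584150132656773402185831433331802112, .ofNat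 0, .ofNat 0, .ofNat 1081071017405952488976261542206555408699413732786176, .ofNat 0, .ofNat 0⟩)
    (by decide +kernel)
theorem L02488 : Good (Phi V5.P V5.D 1 (-1)) ⟨3, 3, 3, 5, 3, 4, 3, 5, 5, 12⟩ :=
  out_sound (S := T5.ds_pm) T5.ok_pm (w := 45) (j := 3) (by decide +kernel)
theorem L02489 : Good (Phi V5.P V5.D 1 (-1)) ⟨3, 3, 3, 4, 4, 8, 4, 10, 5, 13⟩ :=
  leafYS_sound T5.ok_pm T5.Ypm.bz_eq (w := 248) (c := ⟨⟨.negSucc 1323, .negSucc 215, .ofNat 42, .ofNat 26, .ofNat 2, .ofNat 87⟩, ⟨.ofNat 574, .negSucc 58, .ofNat 122, .negSucc 20, .negSucc 9, .negSucc 47⟩, ⟨.ofNat 1922, .ofNat 241, .ofNat 489, .ofNat 618, .ofNat 459, .ofNat 756⟩, ⟨.negSucc 3484, .negSucc 89, .negSucc 5, .negSucc 6, .negSucc 57, .ofNat 151⟩, ⟨.negSucc 386, .negSucc 54, .negSucc 98, .negSucc 175, .negSucc 140, .negSucc 134⟩, .ofNat 680, .ofNat 534, .ofNat 0, .ofNat 534, .ofNat 1534, .ofNat 0, .ofNat 278, .negSucc 127, .ofNat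 77, .ofNat 0, .ofNat 122, .negSucc 67, .ofNat 0, .ofNat 0, .ofNat 2790, .ofNat 4352, .ofNat 0, .ofNat 23806989366876846359382866612813526001297332895744, .ofNat 940854873046154403960032396146546213416289173504, .ofNat 0, .ofNat 0, .ofNat 0, .ofNat 0, .ofNat 0, .ofNat 0, .ofNat 428219075139477109216970908073935518724937337536512, .ofNat 13105873359279186714631562341492064437785027674112, .ofNat 0, .ofNat 0, .ofNat 6025381553980420252480709109090606222242075159560192, .ofNat 374296670741310260976697406397742500629228887736320, .ofNat 0⟩)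
    (by decide +kernel)
theorem L02490 : Good (Phi V5.P V5.D 1 (-1)) ⟨3, 3, 3, 4, 4, 8, 4, 11, 5, 13⟩ :=
  leafYS_sound T5.ok_pm T5.Ypm.bz_eq (w := 248) (c := ⟨⟨.negSucc 1332, .negSucc 222, .ofNat 42, .ofNat 38, .negSucc 17, .ofNat 97⟩, ⟨.ofNat 571, .negSucc 63, .ofNat 125, .negSucc 29, .negSucc 1, .negSucc 47⟩, ⟨.ofNat 2207, .ofNat 334, .ofNat 483, .ofNat 815, .ofNat 347, .ofNat 805⟩, ⟨.negSucc 3545, .negSucc 112, .negSucc 6, .negSucc 15, .negSucc 97, .ofNat 151⟩, ⟨.negSucc 475, .negSucc 97, .negSucc 100, .negSucc 244, .negSucc 140, .negSucc 165⟩, .ofNat 396, .ofNat 166, .ofNat 0, .ofNat 166, .ofNat 665, .ofNat 0, .ofNat 204, .negSucc 81, .ofNat 47, .ofNat 0, .ofNat 128, .negSucc 72, .ofNat 0, .ofNat 0, .ofNat 1799, .ofNat 5877, .ofNat 0, .ofNat 68006859325082089182987410280133804748179958136832, .ofNat 0, .ofNat 0, .ofNat 0, .ofNat 720962744401758580607024421562540682400015805579264,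 .ofNat 0, .ofNat 0, .ofNat 0, .ofNat 871024848310131944151169119116891446144610301116416, .ofNat 0, .ofNat 0, .ofNat 0, .ofNat 8004656885735495570254141921640515933442861214728192, .ofNat 8275152377323587794011107923719148388897167245312, .ofNat 0⟩)
    (by decide +kernel)
theorem L02491 : Good (Phi V5.P V5.D 1 (-1)) ⟨3, 3, 3, 5, 4, 8, 3, 5, 5, 13⟩ :=
  out_sound (S := T5.ds_pm) T5.ok_pm (w := 45) (j := 3) (by decide +kernel)
theorem L02492 : Good (Phi V5.P V5.D 1 (-1)) ⟨3, 3, 2, 2, 4, 9, 3, 5, 5, 13⟩ :=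
  leafYS_sound T5.ok_pm T5.Ypm.bz_eq (w := 240) (c := ⟨⟨.negSucc 1300, .negSucc 214, .ofNat 91, .ofNat 40, .ofNat 16, .ofNat 123⟩, ⟨.ofNat 553, .negSucc 62, .ofNat 247, .negSucc 47, .negSucc 34, .negSucc 62⟩, ⟨.ofNat 2549, .ofNat 298, .ofNat 940, .ofNat 808, .ofNat 992, .ofNat 967⟩, ⟨.negSucc 3502, .negSucc 92, .negSucc 1, .ofNat 30, .negSucc 84, .ofNat 210⟩, ⟨.negSucc 556, .negSucc 72, .negSucc 195, .negSucc 237, .negSucc 355, .negSucc 200⟩, .ofNat 184, .ofNat 29, .ofNat 0, .ofNat 29, .ofNat 231, .ofNat 0, .ofNat 159, .negSucc 37, .ofNat 52, .ofNat 0, .ofNat 128, .negSucc 99, .ofNat 0, .ofNat 0, .ofNat 1027, .ofNat 3079, .ofNat 0, .ofNat 3318614296957186497617495572589954139056792141824, .ofNat 28307079216126712879136806716087925474336964608, .ofNat 0, .ofNat 0, .ofNat 17187732013400781275610722399184623540208431792128, .ofNat 0, .ofNat 0, .ofNat 0, .ofNat 25693902851614918144144848981234019515932287696896,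 .ofNat 0, .ofNat 0, .ofNat 0, .ofNat 177402892306818674014536888124576941356637505978368, .ofNat 979562243423760993793641536568504395656872329216, .ofNat 0⟩)
    (by decide +kernel)
theorem L02493 : Good (Phi V5.P V5.D 1 (-1)) ⟨3, 2, 2, 2, 4, 10, 4, 8, 5, 12⟩ :=
  leafYS_sound T5.ok_pm T5.Ypm.bz_eq (w := 244) (c := ⟨⟨.negSucc 1218, .negSucc 158, .ofNat 45, .ofNat 6, .ofNat 9, .ofNat 101⟩, ⟨.ofNat 602, .ofNat 1, .ofNat 276, .negSucc 5, .negSucc 8, .negSucc 59⟩, ⟨.ofNat 1615, .ofNat 178, .ofNat 441, .ofNat 313, .ofNat 323, .ofNat 662⟩, ⟨.negSucc 3538, .negSucc 67, .negSucc 36, .negSucc 15, .negSucc 25, .ofNat 189⟩, ⟨.negSucc 349, .negSucc 7, .negSucc 93, .negSucc 55, .negSucc 93, .negSucc 129⟩, .ofNat 825, .ofNat 693, .ofNat 0, .ofNat 693, .ofNat 1639, .ofNat 0, .ofNat 135, .negSucc 127, .ofNat 70, .ofNat 0, .ofNat 118, .negSucc 53, .ofNat 0, .ofNat 0, .ofNat 1706, .ofNat 4790, .ofNat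 0, .ofNat 2680266550302156107904795816784502440748059197440, .ofNat 312216776375485062950893888057983231222727311360, .ofNat 0, .ofNat 0, .ofNat 0, .ofNat 0, .ofNat 0, .ofNat 0, .ofNat 57231654221935754666039891260251042513439900565504, .ofNat 0, .ofNat 0, .ofNat 0, .ofNat 582013209344832502583233272945925307409653125087232, .ofNat 0, .ofNat 0⟩)
    (by decide +kernel)
theorem L02494 : Good (Phi V5.P V5.D 1 (-1)) ⟨3, 2, 2, 2, 4, 10, 4, 9, 5, 12⟩ :=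
  leafYS_sound T5.ok_pm T5.Ypm.bz_eq (w := 244) (c := ⟨⟨.negSucc 1215, .negSucc 161, .ofNat 57, .ofNat 11, .ofNat 15, .ofNat 108⟩, ⟨.ofNat 597, .ofNat 2, .ofNat 274, .negSucc 16, .negSucc 13, .negSucc 64⟩, ⟨.ofNat 1858, .ofNat 214, .ofNat 547, .ofNat 417, .ofNat 406, .ofNat 701⟩, ⟨.negSucc 3562, .negSucc 89, .negSucc 31, .negSucc 7, .negSucc 26, .ofNat 203⟩, ⟨.negSucc 408, .negSucc 36, .negSucc 126, .negSucc 99, .negSucc 126, .negSucc 150⟩, .ofNat 437, .ofNat 201, .ofNat 0, .ofNat 201, .ofNat 670, .ofNat 0, .ofNat 250, .negSucc 88, .ofNat 60, .ofNat 0, .ofNat 128, .negSucc 65, .ofNat 0, .ofNat 0, .ofNat 1309, .ofNat 3866, .ofNat 0, .ofNat 5670040281728148422538490290040840590952096595968, .ofNat 0, .ofNat 0, .ofNat 0, .ofNat 0, .ofNat 0, .ofNat 0, .ofNat 0, .ofNat 74049680005701323160106624588145489966554903740416, .ofNat 0, .ofNat 0, .ofNat 0, .ofNat 567969683769016519842723240103280884443707481260032,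 .ofNat 10002535377764716700551326670726733271130435485696, .ofNat 0⟩)
    (by decide +kernel)
theorem L02495 : Good (Phi V5.P V5.D 1 (-1)) ⟨3, 2, 2, 2, 4, 11, 3, 4, 5, 12⟩ :=
  leafYS_sound T5.ok_pm T5.Ypm.bz_eq (w := 241) (c := ⟨⟨.negSucc 1211, .negSucc 161, .ofNat 40, .ofNat 1, .ofNat 25, .ofNat 1⟩, ⟨.ofNat 596, .negSucc 0, .ofNat 283, .ofNat 0, .negSucc 10, .ofNat 0⟩, ⟨.ofNat 1907, .ofNat 204, .ofNat 471, .negSucc 0, .ofNat 608, .negSucc 0⟩, ⟨.negSucc 3551, .negSucc 68, .negSucc 39, .ofNat 2, .negSucc 28, .ofNat 2⟩, ⟨.negSucc 396, .negSucc 2, .negSucc 94, .ofNat 0, .negSucc 241, .ofNat 0⟩, .ofNat 190, .ofNat 34, .ofNat 0, .ofNat 34, .ofNat 230, .ofNat 0, .ofNat 128, .negSucc 48, .ofNat 38, .ofNat 0, .ofNat 137, .negSucc 57, .ofNat 0, .ofNat 0, .ofNat 511, .ofNat 9268, .ofNat 0, .ofNat 2068156329020748492853035295259427651341342736384, .ofNat 0, .ofNat 0, .ofNat 0, .ofNat 35023355023442462889820922546394326206315197628416,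 .ofNat 0, .ofNat 0, .ofNat 0, .ofNat 29628339275673240566196179909031226730312254881792, .ofNat 0, .ofNat 0, .ofNat 0, .ofNat 114069486706934904485488661195308431266925382729728, .ofNat 500108193753375785807724701016966095117362397184, .ofNat 0⟩)
    (by decide +kernel)
theorem L02496 : Good (Phi V5.P V5.D 1 (-1)) ⟨3, 3, 3, 4, 4, 10, 3, 4, 5, 12⟩ :=
  leafYS_sound T5.ok_pm T5.Ypm.bz_eq (w := 243) (c := ⟨⟨.negSucc 1378, .negSucc 217, .ofNat 19, .ofNat 8, .ofNat 5, .ofNat 103⟩, ⟨.ofNat 600, .negSucc 56, .ofNat 138, .negSucc 6, .negSucc 18, .negSucc 57⟩, ⟨.ofNat 1796, .ofNat 186, .ofNat 240, .ofNat 323, .ofNat 706, .ofNat 615⟩, ⟨.negSucc 3614, .negSucc 72, .negSucc 17, .negSucc 0, .negSucc 78, .ofNat 202⟩, ⟨.negSucc 361, .negSucc 14, .negSucc 44, .negSucc 50, .negSucc 229, .negSucc 120⟩, .ofNat 398, .ofNat 168, .ofNat 0, .ofNat 168, .ofNat 666, .ofNat 0, .ofNat 298, .negSucc 82, .ofNat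 60, .ofNat 0, .ofNat 128, .negSucc 59, .ofNat 0, .ofNat 0, .ofNat 1444, .ofNat 3399, .ofNat 0, .ofNat 4927198374394293198816061446063675145277793107968, .ofNat 28969448120311270805274092732321043788897189888, .ofNat 0, .ofNat 0, .ofNat 0, .ofNat 0, .ofNat 0, .ofNat 0, .ofNat 86775042583272277302158062202139604595626066575360, .ofNat 437707449295229392042312851165774405022236278784, .ofNat 0, .ofNat 0, .ofNat 848907855072509430060077158667926836176528443703296, .ofNat 360959184559365084698410026787364610048952107008, .ofNat 0⟩)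
    (by decide +kernel)
theorem L02497 : Good (Phi V5.P V5.D 1 (-1)) ⟨3, 3, 3, 4, 4, 11, 3, 4, 5, 12⟩ :=
  leafYS_sound T5.ok_pm T5.Ypm.bz_eq (w := 245) (c := ⟨⟨.negSucc 1376, .negSucc 216, .ofNat 19, .ofNat 1, .ofNat 32, .ofNat 1⟩, ⟨.ofNat 595, .negSucc 64, .ofNat 143, .ofNat 0, .negSucc 2, .ofNat 0⟩, ⟨.ofNat 2101, .ofNat 232, .ofNat 246, .negSucc 0, .ofNat 662, .negSucc 0⟩, ⟨.negSucc 3622, .negSucc 58, .negSucc 15, .ofNat 2, .negSucc 55, .ofNat 2⟩, ⟨.negSucc 400, .negSucc 5, .negSucc 42, .ofNat 0, .negSucc 255, .ofNat 0⟩, .ofNat 184, .ofNat 29, .ofNat 0, .ofNat 29, .ofNat 231, .ofNat 0, .ofNat 138, .negSucc 41, .ofNat 31, .ofNat 0, .ofNat 128, .negSucc 46, .ofNat 0, .ofNat 0, .ofNat 457, .ofNat 16145, .ofNat 0, .ofNat 22814407512094803093776113755305624036119788126208, .ofNat 0, .ofNat 0, .ofNat 0, .ofNat 547757755829609593604871566479551911966910921572352, .ofNat 0, .ofNat 0, .ofNat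 0, .ofNat 360249623091230710876351972923246083947726051999744, .ofNat 0, .ofNat 0, .ofNat 0, .ofNat 1135652733823660610181800739738305499455397910544384, .ofNat 904243908485886410168819787509973921251943514112, .ofNat 0⟩)
    (by decide +kernel)
theorem L02498 : Good (Phi V5.P V5.D 1 (-1)) ⟨3, 3, 3, 5, 3, 5, 3, 4, 5, 12⟩ :=
  out_sound (S := T5.ds_pm) T5.ok_pm (w := 45) (j := 3) (by decide +kernel)
theorem L02499 : Good (Phi V5.P V5.D 1 (-1)) ⟨2, 1, 2, 2, 4, 10, 3, 4, 5, 13⟩ :=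
  leafYS_sound T5.ok_pm T5.Ypm.bz_eq (w := 236) (c := ⟨⟨.negSucc 1143, .negSucc 326, .ofNat 77, .ofNat 47, .ofNat 61, .ofNat 129⟩, ⟨.ofNat 566, .negSucc 56, .ofNat 254, .negSucc 35, .negSucc 43, .negSucc 83⟩, ⟨.ofNat 2104, .ofNat 425, .ofNat 728, .ofNat 600, .ofNat 1018, .ofNat 959⟩, ⟨.negSucc 3387, .negSucc 87, .ofNat 3, .ofNat 62, .ofNat 12, .ofNat 249⟩, ⟨.negSucc 442, .negSucc 34, .negSucc 132, .negSucc 128, .negSucc 279, .negSucc 175⟩, .ofNat 421, .ofNat 189, .ofNat 0, .ofNat 189, .ofNat 668, .ofNat 0, .ofNat 310, .negSucc 85, .ofNat 35, .ofNat 0, .ofNat 128, .negSucc 31, .ofNat 0, .ofNat 0, .ofNat 717, .ofNat 2852, .ofNat 0, .ofNat 125761662929324377945195246751849260916085358592, .ofNat 68173608645362406027531339871643409417276227584, .ofNat 0, .ofNat 0, .ofNat 0, .ofNat 0, .ofNat 0, .ofNat 0, .ofNat 1320281416632265466950156966481500013593800736768, .ofNat 0, .ofNat 0, .ofNat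 0, .ofNat 5236320804838822759517504794469770773407587106816, .ofNat 907951873641738487698889997870242316491583127552, .ofNat 0⟩)
    (by decide +kernel)
theorem L02500 : Good (Phi V5.P V5.D 1 (-1)) ⟨2, 1, 2, 2, 4, 11, 3, 4, 5, 13⟩ :=
  out_sound (S := T5.ds_pm) T5.ok_pm (w := 38) (j := 2) (by decide +kernel)
theorem L02501 : Good (Phi V5.P V5.D 1 (-1)) ⟨2, 1, 2, 2, 3, 5, 3, 5, 4, 6⟩ :=
  out_sound (S := T5.ds_pm) T5.ok_pm (w := 34) (j := 2) (by decide +kernel)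
theorem L02502 : Good (Phi V5.P V5.D 1 (-1)) ⟨2, 1, 2, 2, 4, 8, 4, 8, 5, 14⟩ :=
  leafYS_sound T5.ok_pm T5.Ypm.bz_eq (w := 243) (c := ⟨⟨.negSucc 1156, .negSucc 309, .ofNat 101, .ofNat 77, .ofNat 29, .ofNat 111⟩, ⟨.ofNat 569, .negSucc 50, .ofNat 223, .negSucc 30, .negSucc 16, .negSucc 78⟩, ⟨.ofNat 1269, .ofNat 477, .ofNat 1173, .ofNat 985, .ofNat 594, .ofNat 1305⟩, ⟨.negSucc 3268, .negSucc 108, .ofNat 25, .ofNat 61, .negSucc 5, .ofNat 216⟩, ⟨.negSucc 190, .negSucc 89, .negSucc 198, .negSucc 218, .negSucc 148, .negSucc 198⟩, .ofNat 419, .ofNat 186, .ofNat 0, .ofNat 186, .ofNat 668, .ofNat 0, .ofNat 241, .negSucc 83, .ofNat 80, .ofNat 0, .ofNat 128, .negSucc 81, .ofNat 0, .ofNat 0, .ofNat 2209, .ofNat 18847, .ofNat 54669573444862489292534845830125855719303027884032, .ofNat 0, .ofNat 7556408149196089265595274906556567137919233425408, .ofNat 0, .ofNat 0, .ofNat 0, .ofNat 0, .ofNat 0, .ofNat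 518006304624815837403187842566899172427798048407552, .ofNat 1065286641363878611922304079341451556801887600640, .ofNat 30703615139581743477748027731861177162582926032896, .ofNat 0, .ofNat 6586361141496016131746714018222378535038657033666560, .ofNat 39585332035410868600505824342761606291095973527552, .ofNat 340925512886438977444380501127295197633414942425088, .ofNat 0⟩)
    (by decide +kernel)
theorem L02503 : Good (Phi V5.P V5.D 1 (-1)) ⟨3, 2, 2, 2, 5, 16, 4, 9, 6, 28⟩ :=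
  leafYS_sound T5.ok_pm T5.Ypm.bz_eq (w := 266) (c := ⟨⟨.negSucc 1123, .negSucc 142, .ofNat 94, .ofNat 42, .ofNat 18, .ofNat 70⟩, ⟨.ofNat 549, .ofNat 3, .ofNat 227, .negSucc 22, .negSucc 11, .negSucc 43⟩, ⟨.ofNat 1803, .ofNat 151, .ofNat 1184, .ofNat 593, .ofNat 492, .ofNat 850⟩, ⟨.negSucc 3250, .negSucc 78, .ofNat 11, .ofNat 34, .negSucc 25, .ofNat 110⟩, ⟨.negSucc 305, .negSucc 38, .negSucc 213, .negSucc 138, .negSucc 133, .negSucc 139⟩, .ofNat 441, .ofNat 208, .ofNat 0, .ofNat 208, .ofNat 673, .ofNat 0, .ofNat 128, .negSucc 130, .ofNat 179, .ofNat 0, .ofNat 191, .negSucc 198, .ofNat 0, .ofNat 0, .ofNat 4837, .ofNat 27210, .ofNat 0, .ofNat 0, .ofNat 3094674518500130096081004870194521595032493714344771584, .ofNat 0, .ofNat 0, .ofNat 0, .ofNat 3906838043129488016235550654542830252692978715542421504, .ofNat 0, .ofNat 0, .ofNat 0, .ofNat 13834237166306066546274517723619169483169770008928583680,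 .ofNat 0, .ofNat 0, .ofNat 42954624474310138611288617767983241828478489539471474688, .ofNat 374017376209022071250344871699212818682676049551242035200, .ofNat 0⟩)
    (by decide +kernel)
theorem L02504 : Good (Phi V5.P V5.D 1 (-1)) ⟨3, 2, 2, 2, 5, 16, 4, 9, 6, 29⟩ :=
  leafYS_sound T5.ok_pm T5.Ypm.bz_eq (w := 267) (c := ⟨⟨.negSucc 1126, .negSucc 130, .ofNat 165, .ofNat 81, .ofNat 51, .ofNat 92⟩, ⟨.ofNat 550, .negSucc 2, .ofNat 185, .negSucc 46, .negSucc 33, .negSucc 67⟩, ⟨.ofNat 1675, .ofNat 285, .ofNat 2083, .ofNat 1114, .ofNat 962, .ofNat 1318⟩, ⟨.negSucc 3206, .negSucc 67, .ofNat 72, .ofNat 76, .ofNat 2, .ofNat 138⟩, ⟨.negSucc 231, .negSucc 68, .negSucc 367, .negSucc 248, .negSucc 253, .negSucc 231⟩, .ofNat 450, .ofNat 224, .ofNat 0, .ofNat 224, .ofNat 682, .ofNat 0, .ofNat 128, .negSucc 97, .ofNat 188, .ofNat 0, .ofNat 138, .negSucc 184, .ofNat 0, .ofNat 0, .ofNat 3808, .ofNat 31748,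 .ofNat 38729894275387123513098371829002036472078345678608138240, .ofNat 130795195890611932177152518370861988707767420591276032, .ofNat 4200610069165113736427432936345224364584688410578386944, .ofNat 0, .ofNat 352600103516897501693284887037471371783141353442034843648, .ofNat 1452043458962990679340158493053688504019907480643436544, .ofNat 4230837983500201066834685503226308744699539381469315072, .ofNat 0, .ofNat 586348041630012196014135060286966395483847375980542820352, .ofNat 1515556340645401616319529849293447247828718057968107520, .ofNat 12904639246741765413471498444366653631569676424049590272, .ofNat 0, .ofNat 9228637892572742355563433509452015099224294809265885937664, .ofNat 99124933526511400954771306935644345693778842394373914624, .ofNat 143954584456742181607585316322673678900431939409968889856, .ofNat 0⟩)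
    (by decide +kernel)
theorem L02505 : Good (Phi V5.P V5.D 1 (-1)) ⟨3, 2, 3, 4, 5, 17, 4, 9, 5, 14⟩ :=
  leafYS_sound T5.ok_pm T5.Ypm.bz_eq (w := 263) (c := ⟨⟨.negSucc 1104, .negSucc 134, .ofNat 61, .ofNat 42, .ofNat 29, .ofNat 137⟩, ⟨.ofNat 540, .negSucc 0, .ofNat 103, .negSucc 26, .negSucc 21, .negSucc 85⟩, ⟨.ofNat 2177, .ofNat 246, .ofNat 729, .ofNat 598, .ofNat 626, .ofNat 1583⟩, ⟨.negSucc 3247, .negSucc 68, .ofNat 22, .ofNat 41, .negSucc 4, .ofNat 231⟩, ⟨.negSucc 404, .negSucc 56, .negSucc 127, .negSucc 132, .negSucc 158, .negSucc 252⟩, .ofNat 821, .ofNat 680, .ofNat 0, .ofNat 680, .ofNat 1618, .ofNat 0, .ofNat 185, .negSucc 127, .ofNat 162, .ofNat 0, .ofNat 120, .negSucc 122, .ofNat 0, .ofNat 0, .ofNat 3775, .ofNat 12866, .ofNat 0, .ofNat 300945673149358593167240671532581191653341058536833024, .ofNat 0, .ofNat 0, .ofNat 0, .ofNat 0, .ofNat 0, .ofNat 0, .ofNat 0, .ofNat 4117487812510329469094629747530039290613563342356217856,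 .ofNat 0, .ofNat 0, .ofNat 0, .ofNat 96821802003649114020307241739485927535862303281452679168, .ofNat 0, .ofNat 0⟩)
    (by decide +kernel)
theorem L02506 : Good (Phi V5.P V5.D 1 (-1)) ⟨3, 2, 4, 10, 5, 17, 5, 18, 6, 28⟩ :=
  leafYS_sound T5.ok_pm T5.Ypm.bz_eq (w := 276) (c := ⟨⟨.negSucc 1072, .negSucc 125, .ofNat 41, .ofNat 69, .ofNat 29, .ofNat 95⟩, ⟨.ofNat 656, .ofNat 0, .ofNat 45, .negSucc 43, .negSucc 15, .negSucc 59⟩, ⟨.ofNat 2624, .ofNat 290, .ofNat 478, .ofNat 886, .ofNat 442, .ofNat 1129⟩, ⟨.negSucc 3250, .negSucc 63, .ofNat 21, .ofNat 68, .ofNat 9, .ofNat 141⟩, ⟨.negSucc 473, .negSucc 62, .negSucc 87, .negSucc 196, .negSucc 107, .negSucc 189⟩, .ofNat 456, .ofNat 231, .ofNat 0, .ofNat 231, .ofNat 684, .ofNat 0, .ofNat 149, .negSucc 92, .ofNat 198, .ofNat 0, .ofNat 128, .negSucc 194, .ofNat 0, .ofNat 0, .ofNat 4033, .ofNat 26780, .ofNat 0, .ofNat 100006843570097619117374035605288779860274388233749528576,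 .ofNat 16086295351423361484492897075927537775807083299244867584, .ofNat 0, .ofNat 0, .ofNat 0, .ofNat 0, .ofNat 0, .ofNat 0, .ofNat 759289592225921242906823899298177354901690726943679315968, .ofNat 198880887006310236574909339632347775297752118193549213696, .ofNat 0, .ofNat 0, .ofNat 19167914317444034689023115391314490974541986867493709283328, .ofNat 16444716771374749231261358688090477316213039632722855723008, .ofNat 0⟩)
    (by decide +kernel)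
theorem L02507 : Good (Phi V5.P V5.D 1 (-1)) ⟨3, 2, 4, 10, 5, 17, 5, 19, 6, 28⟩ :=
  leafYS_sound T5.ok_pm T5.Ypm.bz_eq (w := 276) (c := ⟨⟨.negSucc 1055, .negSucc 125, .ofNat 49, .ofNat 93, .ofNat 39, .ofNat 112⟩, ⟨.ofNat 644, .ofNat 0, .ofNat 42, .negSucc 57, .negSucc 23, .negSucc 66⟩, ⟨.ofNat 2943, .ofNat 321, .ofNat 554, .ofNat 1138, .ofNat 575, .ofNat 1302⟩, ⟨.negSucc 3248, .negSucc 69, .ofNat 22, .ofNat 92, .ofNat 18, .ofNat 155⟩, ⟨.negSucc 548, .negSucc 77, .negSucc 104, .negSucc 256, .negSucc 141, .negSucc 230⟩, .ofNat 457, .ofNat 231, .ofNat 0, .ofNat 231, .ofNat 684, .ofNat 0, .ofNat 234, .negSucc 92, .ofNat 198, .ofNat 0, .ofNat 128, .negSucc 196, .ofNat 0, .ofNat 0, .ofNat 3798, .ofNat 25260, .ofNat 0, .ofNat 173696256294890572862196627445944333216381268457905192960, .ofNat 118277536809304200405894544030591500048058020249039011840, .ofNat 0, .ofNat 0, .ofNat 0, .ofNat 0, .ofNat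 0, .ofNat 0, .ofNat 1781743849468216630885683545737329775417826623748004904960, .ofNat 20132119519300881718695900017349939383292293492917665792, .ofNat 0, .ofNat 0, .ofNat 38214627765149135668276610241198001804323088461488482942976, .ofNat 0, .ofNat 0⟩)
    (by decide +kernel)
theorem L02508 : Good (Phi V5.P V5.D 1 (-1)) ⟨3, 2, 4, 11, 5, 17, 4, 9, 6, 28⟩ :=
  out_sound (S := T5.ds_pm) T5.ok_pm (w := 47) (j := 3) (by decide +kernel)
theorem L02509 : Good (Phi V5.P V5.D 1 (-1)) ⟨3, 2, 3, 5, 5, 17, 4, 9, 6, 29⟩ :=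
  leafYS_sound T5.ok_pm T5.Ypm.bz_eq (w := 269) (c := ⟨⟨.negSucc 982, .negSucc 124, .ofNat 128, .ofNat 0, .ofNat 76, .ofNat 0⟩, ⟨.ofNat 590, .ofNat 0, .ofNat 61, .ofNat 0, .negSucc 26, .ofNat 0⟩, ⟨.ofNat 3760, .ofNat 304, .ofNat 1563, .negSucc 2, .ofNat 1023, .negSucc 2⟩, ⟨.negSucc 3134, .negSucc 67, .ofNat 78, .ofNat 2, .ofNat 86, .ofNat 2⟩, ⟨.negSucc 589, .negSucc 71, .negSucc 280, .ofNat 0, .negSucc 395, .ofNat 0⟩, .ofNat 192, .ofNat 38, .ofNat 0, .ofNat 38, .ofNat 230, .ofNat 0, .ofNat 128, .negSucc 42, .ofNat 119, .ofNat 0, .ofNat 130, .negSucc 174, .ofNat 0, .ofNat 0, .ofNat 1691, .ofNat 19241, .ofNat 1106854761007198733782139485195022691134980539473157160960, .ofNat 12843800671296078924711770681874735856690030162133123072, .ofNat 3880119473085300518761082208278486808439758090219290624, .ofNat 0, .ofNat 3649803183426940244267018291026204949437700307106542911488, .ofNat 39962233612947201753496447462821470299249222929109483520,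 .ofNat 5942134032438819135497898341027583033467323202003795968, .ofNat 0, .ofNat 7009230198573372858181656836295961922266148678773579448320, .ofNat 71728978509803178732446384654546093723237694374923993088, .ofNat 5932835313432271992569644518018949836430692832161824768, .ofNat 0, .ofNat 46014486429236326700202357211104121330110719339028449067008, .ofNat 604627063090541436835338799557210894780388826524340453376, .ofNat 144537061677534169470110049656414849614796567063430168576, .ofNat 0⟩)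
    (by decide +kernel)
theorem L02510 : Good (Phi V5.P V5.D 1 (-1)) ⟨3, 3, 3, 4, 5, 16, 4, 9, 5, 14⟩ :=
  leafYS_sound T5.ok_pm T5.Ypm.bz_eq (w := 264) (c := ⟨⟨.negSucc 1265, .negSucc 192, .ofNat 52, .ofNat 33, .ofNat 9, .ofNat 134⟩, ⟨.ofNat 547, .negSucc 61, .ofNat 108, .negSucc 17, .negSucc 7, .negSucc 76⟩, ⟨.ofNat 1985, .ofNat 329, .ofNat 680, .ofNat 524, .ofNat 479, .ofNat 1517⟩, ⟨.negSucc 3320, .negSucc 61, .ofNat 11, .ofNat 23, .negSucc 38, .ofNat 208⟩, ⟨.negSucc 357, .negSucc 63, .negSucc 119, .negSucc 121, .negSucc 135, .negSucc 244⟩, .ofNat 679, .ofNat 535, .ofNat 0, .ofNat 535, .ofNat 1533, .ofNat 0, .ofNat 157, .negSucc 127, .ofNat 127, .ofNat 0, .ofNat 122, .negSucc 97, .ofNat 0, .ofNat 0, .ofNat 3722, .ofNat 20716, .ofNat 0, .ofNat 0, .ofNat 0, .ofNat 0, .ofNat 0, .ofNat 0, .ofNat 0, .ofNat 0, .ofNat 389724440390459779170200534564571719987108688745776283648, .ofNat 1962903702373801801933322774914075881550176445637066752,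 .ofNat 262548154960470828239850551906040226329274637583646720, .ofNat 0, .ofNat 5018479618025123411526584061660861143827629556018612011008, .ofNat 66978982217198864483131906079493297671356826492103294976, .ofNat 2429870146947165958032199177819212404020127184168419328, .ofNat 0⟩)
    (by decide +kernel)
theorem L02511 : Good (Phi V5.P V5.D 1 (-1)) ⟨3, 3, 3, 4, 5, 17, 4, 9, 5, 14⟩ :=
  leafYS_sound T5.ok_pm T5.Ypm.bz_eq (w := 263) (c := ⟨⟨.negSucc 1248, .negSucc 186, .ofNat 65, .ofNat 38, .ofNat 20, .ofNat 148⟩, ⟨.ofNat 534, .negSucc 67, .ofNat 103, .negSucc 22, .negSucc 11, .negSucc 78⟩, ⟨.ofNat 2387, .ofNat 391, .ofNat 785, .ofNat 555, .ofNat 569, .ofNat 1606⟩, ⟨.negSucc 3318, .negSucc 55, .ofNat 26, .ofNat 38, .negSucc 24, .ofNat 239⟩, ⟨.negSucc 447, .negSucc 80, .negSucc 139, .negSucc 126, .negSucc 161, .negSucc 265⟩, .ofNat 397, .ofNat 167, .ofNat 0, .ofNat 167, .ofNat 665, .ofNat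 0, .ofNat 128, .negSucc 85, .ofNat 144, .ofNat 0, .ofNat 136, .negSucc 140, .ofNat 0, .ofNat 0, .ofNat 3469, .ofNat 14199, .ofNat 0, .ofNat 332035349334176110704803848253479387791875348294008832, .ofNat 0, .ofNat 0, .ofNat 0, .ofNat 2306812037713260364166344184360229769079514906553745408, .ofNat 0, .ofNat 0, .ofNat 0, .ofNat 4603898054344483188669482027451388501972361931560845312, .ofNat 0, .ofNat 0, .ofNat 0, .ofNat 89528323961803523425553563026922683178439041944335155200, .ofNat 1767695116942230124237576541026415202510454386606473216, .ofNat 0⟩)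
    (by decide +kernel)
theorem L02512 : Good (Phi V5.P V5.D 1 (-1)) ⟨3, 3, 3, 5, 4, 8, 4, 9, 5, 14⟩ :=
  out_sound (S := T5.ds_pm) T5.ok_pm (w := 45) (j := 3) (by decide +kernel)
theorem L02513 : Good (Phi V5.P V5.D 1 (-1)) ⟨2, 1, 2, 2, 5, 18, 4, 8, 5, 14⟩ :=
  leafYS_sound T5.ok_pm T5.Ypm.bz_eq (w := 256) (c := ⟨⟨.negSucc 1090, .negSucc 316, .ofNat 121, .ofNat 38, .ofNat 38, .ofNat 149⟩, ⟨.ofNat 557, .negSucc 56, .ofNat 209, .negSucc 38, .negSucc 30, .negSucc 115⟩, ⟨.ofNat 2095, .ofNat 418, .ofNat 1374, .ofNat 638, .ofNat 761, .ofNat 1698⟩, ⟨.negSucc 3240, .negSucc 94, .ofNat 55, .ofNat 56, .ofNat 14, .ofNat 292⟩, ⟨.negSucc 382, .negSucc 64, .negSucc 232, .negSucc 135, .negSucc 185, .negSucc 263⟩, .ofNat 423, .ofNat 191, .ofNat 0, .ofNat 191, .ofNat 670, .ofNat 0, .ofNat 228, .negSucc 84, .ofNat 92, .ofNat 0, .ofNat 128, .negSucc 82, .ofNat 0, .ofNat 0, .ofNat 1927, .ofNat 10670, .ofNat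 92459155662689141212149467894528450474878203953414144, .ofNat 1890984396419997384981080469870554056734720416284672, .ofNat 69825811420457025195550662737874821526311744248479744, .ofNat 0, .ofNat 0, .ofNat 0, .ofNat 0, .ofNat 0, .ofNat 1846712102604462630733759569985015810443865982674927616, .ofNat 14481489998965670636423167528092248390157005335035904, .ofNat 640004342495247573176692106728281173916518840732221440, .ofNat 0, .ofNat 15908831274564602693788510527766027039262307835535425536, .ofNat 288920107702332899035533193076217220138070238442815488, .ofNat 1666699664698583439539860872406319017505860289858371584, .ofNat 0⟩)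
    (by decide +kernel)
theorem L02514 : Good (Phi V5.P V5.D 1 (-1)) ⟨2, 1, 2, 2, 5, 18, 4, 9, 5, 14⟩ :=
  leafYS_sound T5.ok_pm T5.Ypm.bz_eq (w := 256) (c := ⟨⟨.negSucc 1054, .negSucc 321, .ofNat 136, .ofNat 1, .ofNat 1, .ofNat 1⟩, ⟨.ofNat 523, .negSucc 58, .ofNat 212, .ofNat 0, .negSucc 58, .ofNat 0⟩, ⟨.ofNat 2785, .ofNat 498, .ofNat 1495, .negSucc 1, .ofNat 686, .negSucc 1⟩, ⟨.negSucc 3209, .negSucc 131, .ofNat 53, .ofNat 2, .ofNat 18, .ofNat 2⟩, ⟨.negSucc 536, .negSucc 106, .negSucc 273, .ofNat 0, .negSucc 200, .ofNat 0⟩, .ofNat 188, .ofNat 32, .ofNat 0, .ofNat 32, .ofNat 230, .ofNat 0, .ofNat 201, .negSucc 37, .ofNat 68, .ofNat 0, .ofNat 128, .negSucc 98, .ofNat 0, .ofNat 0, .ofNat 1067, .ofNat 13481, .ofNat 0, .ofNat 3915122022877135962767359239652179470778798000046080, .ofNat 90606513739621628646119348414904634362260922730283008, .ofNat 0, .ofNat 0, .ofNat 44897428807686744858895752599485305164581702964609024,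 .ofNat 0, .ofNat 0, .ofNat 0, .ofNat 36319843813701228032799889705580239803226171694383104, .ofNat 0, .ofNat 0, .ofNat 0, .ofNat 320908898555774276177150740738852158412791924631011328, .ofNat 1939080454781997688960756643963323360284900025702547456, .ofNat 0⟩)
    (by decide +kernel)
theorem L02515 : Good (Phi V5.P V5.D 1 (-1)) ⟨2, 1, 2, 2, 5, 19, 3, 4, 5, 14⟩ :=
  out_sound (S := T5.ds_pm) T5.ok_pm (w := 40) (j := 2) (by decide +kernel)
theorem L02516 : Good (Phi V5.P V5.D 1 (-1)) ⟨2, 1, 3, 4, 6, 32, 4, 10, 5, 14⟩ :=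
  leafYS_sound T5.ok_pm T5.Ypm.bz_eq (w := 273) (c := ⟨⟨.negSucc 1123, .negSucc 315, .ofNat 72, .ofNat 27, .ofNat 23, .ofNat 131⟩, ⟨.ofNat 553, .negSucc 46, .ofNat 111, .negSucc 16, .negSucc 17, .negSucc 84⟩, ⟨.ofNat 2037, .ofNat 570, .ofNat 805, .ofNat 390, .ofNat 644, .ofNat 1601⟩, ⟨.negSucc 3291, .negSucc 147, .ofNat 19, .ofNat 25, .negSucc 27, .ofNat 209⟩, ⟨.negSucc 373, .negSucc 141, .negSucc 151, .negSucc 92, .negSucc 183, .negSucc 285⟩, .ofNat 420, .ofNat 191, .ofNat 0, .ofNat 191, .ofNat 674, .ofNat 0, .ofNat 299, .negSucc 85, .ofNat 124, .ofNat 0, .ofNat 128, .negSucc 126, .ofNat 0, .ofNat 0, .ofNat 2467, .ofNat 9151, .ofNat 0, .ofNat 49970307438564915964003431409371482609666955107217965056, .ofNat 498828427369896846849194665681619449705575172635172536320, .ofNat 0, .ofNat 0, .ofNat 0, .ofNat 0, .ofNat 0, .ofNat 0, .ofNat 493428311106552430557382565933555291328577460228321181696,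 .ofNat 0, .ofNat 0, .ofNat 0, .ofNat 11414789037402585534881877552156577915900260806406751387648, .ofNat 0, .ofNat 0⟩)
    (by decide +kernel)
theorem L02517 : Good (Phi V5.P V5.D 1 (-1)) ⟨2, 1, 3, 4, 6, 33, 4, 10, 5, 14⟩ :=
  leafYS_sound T5.ok_pm T5.Ypm.bz_eq (w := 273) (c := ⟨⟨.negSucc 1094, .negSucc 322, .ofNat 70, .ofNat 17, .ofNat 19, .ofNat 151⟩, ⟨.ofNat 539, .negSucc 42, .ofNat 112, .negSucc 22, .negSucc 33, .negSucc 90⟩, ⟨.ofNat 2414, .ofNat 496, .ofNat 761, .ofNat 385, .ofNat 757, .ofNat 1778⟩, ⟨.negSucc 3267, .negSucc 169, .ofNat 19, .ofNat 23, .negSucc 17, .ofNat 235⟩, ⟨.negSucc 460, .negSucc 137, .negSucc 141, .negSucc 90, .negSucc 210, .negSucc 326⟩, .ofNat 187, .ofNat 32, .ofNat 0, .ofNat 32, .ofNat 231, .ofNat 0, .ofNat 240, .negSucc 37, .ofNat 108, .ofNat 0, .ofNat 128, .negSucc 194, .ofNat 0, .ofNat 0, .ofNat 2040, .ofNat 8626, .ofNat 0, .ofNat 93962220112270434120479821001255855878433293995408883712,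 .ofNat 0, .ofNat 0, .ofNat 0, .ofNat 887363347133283689047910151545340878077258043188347666432, .ofNat 11130580877697013818768291169488073549547513616977646059520, .ofNat 0, .ofNat 0, .ofNat 717052102844586602111854219789527745248124746787176054784, .ofNat 4357488572616185587468957119708071036311818894877067837440, .ofNat 0, .ofNat 0, .ofNat 12182421590285095397268337853064744339349341485530389413888, .ofNat 0, .ofNat 0⟩)
    (by decide +kernel)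
theorem L02518 : Good (Phi V5.P V5.D 1 (-1)) ⟨2, 1, 3, 4, 5, 17, 4, 10, 5, 14⟩ :=
  leafYS_sound T5.ok_pm T5.Ypm.bz_eq (w := 260) (c := ⟨⟨.negSucc 1075, .negSucc 321, .ofNat 72, .ofNat 1, .negSucc 2, .ofNat 1⟩, ⟨.ofNat 519, .negSucc 49, .ofNat 114, .ofNat 0, .negSucc 48, .ofNat 0⟩, ⟨.ofNat 2785, .ofNat 566, .ofNat 749, .negSucc 1, .ofNat 754, .negSucc 1⟩, ⟨.negSucc 3245, .negSucc 165, .ofNat 19, .ofNat 2, .ofNat 1, .ofNat 2⟩, ⟨.negSucc 547, .negSucc 148, .negSucc 142, .ofNat 0, .negSucc 255, .ofNat 0⟩, .ofNat 187, .ofNat 32, .ofNat 0, .ofNat 32, .ofNat 230, .ofNat 0, .ofNat 205, .negSucc 37, .ofNat 43, .ofNat 0, .ofNat 128, .negSucc 74, .ofNat 0, .ofNat 0, .ofNat 762, .ofNat 16388, .ofNat 0, .ofNat 31102596000113759665206441613885739060242248498151424, .ofNat 0, .ofNat 0, .ofNat 0, .ofNat 405326846208506572335613355352827472298071661691797504, .ofNat 1010345661315514263398918657998186653972004888041750528,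 .ofNat 0, .ofNat 0, .ofNat 299940786864416692288718233184168942466317559743381504, .ofNat 0, .ofNat 0, .ofNat 0, .ofNat 2077528623222470925255127080833133899761355801795493888, .ofNat 986309030832912812340905249635383688239689505351663616, .ofNat 0⟩)
    (by decide +kernel)
theorem L02519 : Good (Phi V5.P V5.D 1 (-1)) ⟨3, 2, 4, 10, 5, 16, 5, 20, 6, 28⟩ :=
  leafYS_sound T5.ok_pm T5.Ypm.bz_eq (w := 276) (c := ⟨⟨.negSucc 1087, .negSucc 130, .ofNat 41, .ofNat 77, .ofNat 30, .ofNat 90⟩, ⟨.ofNat 667, .negSucc 1, .ofNat 49, .negSucc 47, .negSucc 17, .negSucc 55⟩, ⟨.ofNat 2533, .ofNat 333, .ofNat 470, .ofNat 1018, .ofNat 486, .ofNat 1085⟩, ⟨.negSucc 3285, .negSucc 74, .ofNat 10, .ofNat 62, .negSucc 0, .ofNat 119⟩, ⟨.negSucc 461, .negSucc 81, .negSucc 89, .negSucc 232, .negSucc 124, .negSucc 194⟩, .ofNat 951, .ofNat 865, .ofNat 0, .ofNat 865, .ofNat 1805, .ofNat 0, .ofNat 137, .negSucc 127,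 .ofNat 118, .ofNat 0, .ofNat 113, .negSucc 92, .ofNat 0, .ofNat 0, .ofNat 2586, .ofNat 15396, .ofNat 0, .ofNat 81556970927810781921913769779298453815812280241782521856, .ofNat 67080484909788007428700939997081980226831584531692126208, .ofNat 0, .ofNat 0, .ofNat 0, .ofNat 0, .ofNat 0, .ofNat 0, .ofNat 433047458252504580665447296023245587676107202523664744448, .ofNat 720799962476710363015413073108669527068670353429126709248, .ofNat 0, .ofNat 0, .ofNat 11010869850178813517162688190111114140296904362035911852032, .ofNat 2150691895808299806959714933593033100337883448724982595584, .ofNat 0⟩)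
    (by decide +kernel)
theorem L02520 : Good (Phi V5.P V5.D 1 (-1)) ⟨3, 2, 4, 10, 5, 16, 5, 21, 6, 28⟩ :=
  leafYS_sound T5.ok_pm T5.Ypm.bz_eq (w := 276) (c := ⟨⟨.negSucc 1063, .negSucc 132, .ofNat 48, .ofNat 78, .ofNat 27, .ofNat 95⟩, ⟨.ofNat 649, .negSucc 0, .ofNat 44, .negSucc 47, .negSucc 12, .negSucc 56⟩, ⟨.ofNat 2987, .ofNat 333, .ofNat 557, .ofNat 998, .ofNat 428, .ofNat 1109⟩, ⟨.negSucc 3287, .negSucc 79, .ofNat 18, .ofNat 61, .negSucc 7, .ofNat 121⟩, ⟨.negSucc 576, .negSucc 82, .negSucc 105, .negSucc 238, .negSucc 120, .negSucc 206⟩, .ofNat 975, .ofNat 905, .ofNat 0, .ofNat 905, .ofNat 1856, .ofNat 0, .ofNat 141, .negSucc 127, .ofNat 204, .ofNat 0, .ofNat 111, .negSucc 154, .ofNat 0, .ofNat 0, .ofNat 3294, .ofNat 20623, .ofNat 0, .ofNat 201450124670632309040527898997551731154676532764651552768, .ofNat 124763099353704005422048050953683792209533689693701406720, .ofNat 0, .ofNat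 0, .ofNat 0, .ofNat 0, .ofNat 0, .ofNat 0, .ofNat 1653998939014574492046492013780458878961652451595499077632, .ofNat 0, .ofNat 0, .ofNat 0, .ofNat 33984883922060111206083134371212122461232743280068662394880, .ofNat 0, .ofNat 0⟩)
    (by decide +kernel)
theorem L02521 : Good (Phi V5.P V5.D 1 (-1)) ⟨3, 2, 4, 11, 5, 16, 4, 10, 6, 28⟩ :=
  out_sound (S := T5.ds_pm) T5.ok_pm (w := 47) (j := 3) (by decide +kernel)
theorem L02522 : Good (Phi V5.P V5.D 1 (-1)) ⟨3, 2, 3, 5, 5, 17, 4, 10, 6, 28⟩ :=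
  leafYS_sound T5.ok_pm T5.Ypm.bz_eq (w := 270) (c := ⟨⟨.negSucc 1012, .negSucc 132, .ofNat 95, .ofNat 0, .ofNat 66, .ofNat 99⟩, ⟨.ofNat 618, .ofNat 0, .ofNat 89, .ofNat 0, .negSucc 7, .negSucc 50⟩, ⟨.ofNat 3551, .ofNat 310, .ofNat 1049, .negSucc 2, .ofNat 680, .ofNat 1019⟩, ⟨.negSucc 3224, .negSucc 82, .ofNat 38, .ofNat 2, .ofNat 26, .ofNat 147⟩, ⟨.negSucc 691, .negSucc 79, .negSucc 206, .ofNat 1, .negSucc 292, .negSucc 231⟩, .ofNat 192, .ofNat 38, .ofNat 0, .ofNat 38, .ofNat 230, .ofNat 0, .ofNat 184, .negSucc 42, .ofNat 136, .ofNat 0, .ofNat 128, .negSucc 222, .ofNat 0, .ofNat 0, .ofNat 2069, .ofNat 38526, .ofNat 0, .ofNat 19052372226418471446541267066900815311844984441194676224, .ofNat 7653868835565759774926230881497467573634552881118969856, .ofNat 0, .ofNat 0, .ofNat 99737446816935620835385226737115088447646552610515714048, .ofNat 0, .ofNat 0, .ofNat 0, .ofNat 124507335274441499742939243839415925852213681720007852032,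 .ofNat 8821478991631513008440032309912741310204926067990331392, .ofNat 0, .ofNat 0, .ofNat 1998552612202703445207907863085822393849472260754137677824, .ofNat 159507656290551097252750705240375209571751527090902532096, .ofNat 0⟩)
    (by decide +kernel)
theorem L02523 : Good (Phi V5.P V5.D 1 (-1)) ⟨3, 3, 3, 5, 4, 8, 4, 10, 6, 28⟩ :=
  out_sound (S := T5.ds_pm) T5.ok_pm (w := 45) (j := 3) (by decide +kernel)
theorem L02524 : Good (Phi V5.P V5.D 1 (-1)) ⟨3, 2, 4, 10, 5, 16, 5, 20, 6, 29⟩ :=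
  leafYS_sound T5.ok_pm T5.Ypm.bz_eq (w := 277) (c := ⟨⟨.negSucc 1010, .negSucc 130, .ofNat 53, .ofNat 124, .ofNat 46, .ofNat 133⟩, ⟨.ofNat 619, .ofNat 1, .ofNat 34, .negSucc 78, .negSucc 29, .negSucc 79⟩, ⟨.ofNat 3456, .ofNat 300, .ofNat 710, .ofNat 1650, .ofNat 726, .ofNat 1716⟩, ⟨.negSucc 3179, .negSucc 78, .ofNat 26, .ofNat 119, .ofNat 18, .ofNat 163⟩, ⟨.negSucc 622, .negSucc 75, .negSucc 125, .negSucc 356, .negSucc 176, .negSucc 308⟩, .ofNat 455, .ofNat 230, .ofNat 0, .ofNat 230, .ofNat 684, .ofNat 0, .ofNat 180, .negSucc 92, .ofNat 200, .ofNat 0, .ofNat 128, .negSucc 206, .ofNat 0, .ofNat 0, .ofNat 4034, .ofNat 30838, .ofNat 0, .ofNat 241416855844126354521640729612933348138391730594647113728, .ofNat 173174913870811059219867953979613145948807786595851698176, .ofNat 0, .ofNat 0, .ofNat 1803404293258558442102507291478430568798600549556971110400, .ofNat 0, .ofNat 0, .ofNat 0, .ofNat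 2238687449811431535144062593590500699547367944776201535488, .ofNat 0, .ofNat 0, .ofNat 0, .ofNat 47373490261366818749234710729356258684593222332311949803520, .ofNat 5221683531938780495134382982644640425917818309687222730752, .ofNat 0⟩)
    (by decide +kernel)
theorem L02525 : Good (Phi V5.P V5.D 1 (-1)) ⟨3, 2, 4, 11, 5, 16, 5, 20, 6, 29⟩ :=
  out_sound (S := T5.ds_pm) T5.ok_pm (w := 47) (j := 3) (by decide +kernel)
theorem L02526 : Good (Phi V5.P V5.D 1 (-1)) ⟨3, 3, 3, 5, 5, 16, 5, 20, 6, 29⟩ :=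
  out_sound (S := T5.ds_pm) T5.ok_pm (w := 45) (j := 3) (by decide +kernel)
theorem L02527 : Good (Phi V5.P V5.D 1 (-1)) ⟨2, 1, 3, 5, 5, 16, 5, 21, 6, 29⟩ :=
  out_sound (S := T5.ds_pm) T5.ok_pm (w := 46) (j := 2) (by decide +kernel)
theorem L02528 : Good (Phi V5.P V5.D 1 (-1)) ⟨2, 1, 3, 5, 5, 17, 4, 10, 6, 29⟩ :=
  out_sound (S := T5.ds_pm) T5.ok_pm (w := 44) (j := 2) (by decide +kernel)
theorem L02529 : Good (Phi V5.P V5.D 1 (-1)) ⟨2, 1, 2, 2, 4, 8, 4, 11, 5, 14⟩ :=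
  out_sound (S := T5.ds_pm) T5.ok_pm (w := 40) (j := 2) (by decide +kernel)
theorem L02530 : Good (Phi V5.P V5.D 1 (-1)) ⟨2, 1, 2, 2, 4, 9, 3, 5, 5, 14⟩ :=
  out_sound (S := T5.ds_pm) T5.ok_pm (w := 38) (j := 2) (by decide +kernel)
theorem L02531 : Good (Phi V5.P V5.D 1 (-1)) ⟨2, 1, 2, 2, 4, 8, 4, 8, 5, 15⟩ :=
  out_sound (S := T5.ds_pm) T5.ok_pm (w := 32) (j := 1) (by decide +kernel)
theorem L02532 : Good (Phi V5.P V5.D 1 (-1)) ⟨2, 1, 2, 2, 5, 16, 4, 9, 6, 30⟩ :=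
  out_sound (S := T5.ds_pm) T5.ok_pm (w := 36) (j := 1) (by decide +kernel)
theorem L02533 : Good (Phi V5.P V5.D 1 (-1)) ⟨2, 1, 2, 2, 5, 17, 4, 9, 6, 30⟩ :=
  out_sound (S := T5.ds_pm) T5.ok_pm (w := 44) (j := 2) (by decide +kernel)
theorem L02534 : Good (Phi V5.P V5.D 1 (-1)) ⟨2, 1, 2, 2, 4, 8, 4, 9, 6, 31⟩ :=
  out_sound (S := T5.ds_pm) T5.ok_pm (w := 34) (j := 1) (by decide +kernel)
theorem L02535 : Good (Phi V5.P V5.D 1 (-1)) ⟨2, 1, 2, 2, 4, 8, 3, 5, 5, 15⟩ :=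
  out_sound (S := T5.ds_pm) T5.ok_pm (w := 38) (j := 2) (by decide +kernel)
theorem L02536 : Good (Phi V5.P V5.D 1 (-1)) ⟨2, 1, 2, 2, 4, 9, 2, 2, 5, 15⟩ :=
  out_sound (S := T5.ds_pm) T5.ok_pm (w := 36) (j := 2) (by decide +kernel)
theorem L02537 : Good (Phi V5.P V5.D 1 (-1)) ⟨2, 1, 2, 2, 3, 5, 2, 2, 4, 7⟩ :=
  out_sound (S := T5.ds_pm) T5.ok_pm (w := 32) (j := 2) (by decide +kernel)
theorem L02538 : Good (Phi V5.P V5.D 1 (-1)) ⟨2, 1, 2, 2, 4, 8, 3, 6, 4, 6⟩ :=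
  leafYS_sound T5.ok_pm T5.Ypm.bz_eq (w := 230) (c := ⟨⟨.negSucc 1223, .negSucc 398, .ofNat 67, .negSucc 16, .negSucc 82, .ofNat 113⟩, ⟨.ofNat 615, .negSucc 51, .ofNat 289, .negSucc 18, .ofNat 6, .negSucc 86⟩, ⟨.ofNat 1876, .ofNat 584, .ofNat 562, .ofNat 505, .ofNat 483, .ofNat 854⟩, ⟨.negSucc 3602, .negSucc 302, .negSucc 46, .negSucc 90, .negSucc 282, .ofNat 224⟩, ⟨.negSucc 403, .negSucc 223, .negSucc 140, .negSucc 187, .negSucc 246, .negSucc 211⟩, .ofNat 187, .ofNat 31, .ofNat 0, .ofNat 31, .ofNat 231, .ofNat 0, .ofNat 309, .negSucc 38, .negSucc 2, .ofNat 0, .ofNat 128, .negSucc 71, .ofNat 0, .ofNat 0, .ofNat 753, .ofNat 1344, .ofNat 0, .ofNat 7569998373787486644993997161697264846801731584, .ofNat 0, .ofNat 0, .ofNat 0, .ofNat 102042113740605320293011431819651525511594639360, .ofNat 0, .ofNat 0, .ofNat 0, .ofNat 83491831836220190818994305611952015429863473152, .ofNat 0, .ofNat 0, .ofNat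 0, .ofNat 481260829834233343233544330640035727331179888640, .ofNat 21351463010043914664485057804863997772344328192, .ofNat 0⟩)
    (by decide +kernel)
theorem L02539 : Good (Phi V5.P V5.D 1 (-1)) ⟨2, 1, 2, 2, 4, 9, 3, 6, 4, 6⟩ :=
  out_sound (S := T5.ds_pm) T5.ok_pm (w := 36) (j := 2) (by decide +kernel)
theorem L02540 : Good (Phi V5.P V5.D 1 (-1)) ⟨2, 1, 2, 2, 3, 4, 3, 7, 4, 6⟩ :=
  out_sound (S := T5.ds_pm) T5.ok_pm (w := 34) (j := 2) (by decide +kernel)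
theorem L02541 : Good (Phi V5.P V5.D 1 (-1)) ⟨2, 1, 2, 2, 3, 4, 2, 3, 4, 7⟩ :=
  out_sound (S := T5.ds_pm) T5.ok_pm (w := 32) (j := 2) (by decide +kernel)
theorem L02542 : Good (Phi V5.P V5.D 1 (-1)) ⟨2, 1, 2, 2, 3, 5, 2, 3, 3, 3⟩ :=
  out_sound (S := T5.ds_pm) T5.ok_pm (w := 30) (j := 2) (by decide +kernel)
theorem L02543 : Good (Phi V5.P V5.D 1 (-1)) ⟨2, 1, 2, 3, 2, 2, 1, 1, 3, 3⟩ :=
  out_sound (S := T5.ds_pm) T5.ok_pm (w := 37) (j := 3) (by decide +kernel)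
theorem L02544 : Good (Phi V5.P V5.D 1 (-1)) ⟨2, 1, 1, 1, 2, 3, 1, 1, 3, 3⟩ :=
  out_sound (S := T5.ds_pm) T5.ok_pm (w := 26) (j := 2) (by decide +kernel)
theorem L02545 : Good (Phi V5.P V5.D 1 (-1)) ⟨2, 1, 1, 1, 4, 8, 3, 4, 4, 8⟩ :=
  out_sound (S := T5.ds_pm) T5.ok_pm (w := 29) (j := 1) (by decide +kernel)
theorem L02546 : Good (Phi V5.P V5.D 1 (-1)) ⟨2, 1, 1, 1, 4, 8, 3, 5, 4, 8⟩ :=
  out_sound (S := T5.ds_pm) T5.ok_pm (w := 36) (j := 2) (by decide +kernel)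
theorem L02547 : Good (Phi V5.P V5.D 1 (-1)) ⟨2, 1, 1, 1, 4, 8, 2, 2, 4, 9⟩ :=
  out_sound (S := T5.ds_pm) T5.ok_pm (w := 28) (j := 1) (by decide +kernel)
theorem L02548 : Good (Phi V5.P V5.D 1 (-1)) ⟨2, 1, 1, 1, 4, 9, 2, 2, 3, 4⟩ :=
  out_sound (S := T5.ds_pm) T5.ok_pm (w := 32) (j := 2) (by decide +kernel)
theorem L02549 : Good (Phi V5.P V5.D 1 (-1)) ⟨2, 1, 1, 1, 3, 4, 2, 3, 3, 4⟩ :=
  out_sound (S := T5.ds_pm) T5.ok_pm (w := 30) (j := 2) (by decide +kernel)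
theorem L02550 : Good (Phi V5.P V5.D 1 (-1)) ⟨2, 1, 1, 1, 3, 4, 1, 1, 3, 5⟩ :=
  out_sound (S := T5.ds_pm) T5.ok_pm (w := 28) (j := 2) (by decide +kernel)
theorem L02551 : Good (Phi V5.P V5.D 1 (-1)) ⟨2, 1, 1, 1, 3, 5, 1, 1, 2, 2⟩ :=
  out_sound (S := T5.ds_pm) T5.ok_pm (w := 26) (j := 2) (by decide +kernel)
theorem L02552 : Good (Phi V5.P V5.D 1 (-1)) ⟨2, 1, 1, 1, 2, 2, 1, 1, 2, 3⟩ :=
  out_sound (S := T5.ds_pm) T5.ok_pm (w := 24) (j := 2) (by decide +kernel)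
theorem L02553 : Good (Phi V5.P V5.D 1 (-1)) ⟨2, 1, 1, 1, 2, 3, 1, 1, 1, 1⟩ :=
  out_sound (S := T5.ds_pm) T5.ok_pm (w := 22) (j := 2) (by decide +kernel)
theorem L02554 : Good (Phi V5.P V5.D 1 (-1)) ⟨2, 2, 2, 0, 2, 0, 3, 0, 4, 0⟩ :=
  leafYS_sound T5.ok_pm T5.Ypm.bz_eq (w := 201) (c := ⟨⟨.ofNat 958, .ofNat 394, .ofNat 89, .ofNat 323, .ofNat 151, .negSucc 2254⟩, ⟨.ofNat 46, .ofNat 148, .negSucc 77, .negSucc 50, .ofNat 3, .negSucc 80⟩, ⟨.negSucc 901, .negSucc 418, .negSucc 142, .negSucc 240, .negSucc 209, .ofNat 2182⟩, ⟨.ofNat 1964, .ofNat 464, .ofNat 123, .ofNat 757, .ofNat 323, .negSucc 4541⟩, ⟨.negSucc 144, .ofNat 5, .ofNat 6, .negSucc 222, .ofNat 0, .ofNat 183⟩, .ofNat 317, .negSucc 14, .ofNat 0, .negSucc 14, .ofNat 653, .ofNat 0, .ofNat 184, .ofNat 9, .negSucc 261, .ofNat 0, .ofNat 128, .ofNat 0, .ofNat 0, .ofNat 0, .ofNat 494, .ofNat 2417, .ofNat 0, .ofNat 0, .ofNat 0, .ofNat 0,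 .ofNat 0, .ofNat 0, .ofNat 94716850291480188261665159578334003200, .ofNat 0, .ofNat 0, .ofNat 0, .ofNat 0, .ofNat 0, .ofNat 0, .ofNat 0, .ofNat 0, .ofNat 0⟩)
    (by decide +kernel)
theorem L02555 : Good (Phi V5.P V5.D 1 (-1)) ⟨2, 2, 2, 0, 2, 1, 3, 0, 4, 0⟩ :=
  leafYS_sound T5.ok_pm T5.Ypm.bz_eq (w := 201) (c := ⟨⟨.ofNat 1248, .ofNat 561, .ofNat 96, .ofNat 463, .ofNat 177, .negSucc 2155⟩, ⟨.ofNat 36, .ofNat 204, .negSucc 187, .negSucc 23, .ofNat 32, .negSucc 94⟩, ⟨.negSucc 978, .negSucc 436, .negSucc 100, .negSucc 340, .negSucc 122, .ofNat 1373⟩, ⟨.ofNat 2648, .ofNat 585, .ofNat 159, .ofNat 999, .ofNat 354, .negSucc 4308⟩, ⟨.negSucc 401, .negSucc 75, .ofNat 76, .ofNat 175, .ofNat 205, .negSucc 148⟩, .ofNat 313, .negSucc 11, .ofNat 0, .negSucc 11, .ofNat 637, .ofNat 0, .ofNat 220, .ofNat 3, .negSucc 206, .ofNat 0, .ofNat 128, .ofNat 15, .ofNat 0, .ofNat 0, .ofNat 437, .ofNat 2687, .ofNat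 0, .ofNat 0, .ofNat 0, .ofNat 0, .ofNat 0, .ofNat 0, .ofNat 70888319744434238935226108036677369856, .ofNat 0, .ofNat 0, .ofNat 0, .ofNat 81480432937839536336800477546448683008, .ofNat 0, .ofNat 0, .ofNat 0, .ofNat 0, .ofNat 0⟩)
    (by decide +kernel)
theorem L02556 : Good (Phi V5.P V5.D 1 (-1)) ⟨2, 2, 2, 0, 1, 0, 3, 1, 4, 0⟩ :=
  leafYS_sound T5.ok_pm T5.Ypm.bz_eq (w := 187) (c := ⟨⟨.ofNat 1054, .ofNat 489, .ofNat 58, .ofNat 1097, .ofNat 3, .negSucc 2418⟩, ⟨.ofNat 60, .ofNat 158, .negSucc 191, .ofNat 56, .ofNat 45, .negSucc 114⟩, ⟨.negSucc 1033, .negSucc 394, .negSucc 110, .negSucc 738, .ofNat 62, .ofNat 1945⟩, ⟨.ofNat 2233, .ofNat 591, .ofNat 139, .ofNat 2122, .negSucc 10, .negSucc 4843⟩, ⟨.negSucc 153, .ofNat 35, .negSucc 10, .negSucc 0, .ofNat 186, .negSucc 35⟩, .ofNat 315, .negSucc 17, .ofNat 0, .negSucc 17, .ofNat 645, .ofNat 0, .ofNat 279, .ofNat 12, .negSucc 360, .ofNat 0, .ofNat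 128, .ofNat 5, .ofNat 0, .ofNat 0, .ofNat 612, .ofNat 945, .ofNat 0, .ofNat 0, .ofNat 0, .ofNat 0, .ofNat 0, .ofNat 0, .ofNat 0, .ofNat 0, .ofNat 0, .ofNat 0, .ofNat 3997895811341248500002083416571904, .ofNat 0, .ofNat 0, .ofNat 0, .ofNat 20601595110468598310685948447293440, .ofNat 0⟩)
    (by decide +kernel)
theorem L02557 : Good (Phi V5.P V5.D 1 (-1)) ⟨2, 2, 2, 0, 1, 0, 2, 1, 4, 0⟩ :=
  leafYS_sound T5.ok_pm T5.Ypm.bz_eq (w := 183) (c := ⟨⟨.ofNat 1073, .ofNat 550, .negSucc 48, .ofNat 1231, .negSucc 443, .negSucc 2548⟩, ⟨.negSucc 53, .ofNat 266, .negSucc 141, .ofNat 182, .ofNat 51, .negSucc 178⟩, ⟨.negSucc 1138, .negSucc 421, .negSucc 37, .negSucc 784, .ofNat 450, .ofNat 2165⟩, ⟨.ofNat 2327, .ofNat 664, .ofNat 8, .ofNat 2247, .negSucc 1014, .negSucc 4997⟩, ⟨.negSucc 423, .ofNat 356, .ofNat 132, .ofNat 122, .ofNat 175, .ofNat 132⟩, .ofNat 314, .negSucc 15, .ofNat 0, .negSucc 15, .ofNat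 638, .ofNat 0, .ofNat 220, .ofNat 12, .negSucc 409, .ofNat 0, .ofNat 128, .ofNat 5, .ofNat 0, .ofNat 0, .ofNat 621, .ofNat 382, .ofNat 0, .ofNat 0, .ofNat 0, .ofNat 0, .ofNat 0, .ofNat 0, .ofNat 228073842641803099169853473292288, .ofNat 0, .ofNat 0, .ofNat 0, .ofNat 313936622021286983744710133153792, .ofNat 0, .ofNat 0, .ofNat 0, .ofNat 0, .ofNat 0⟩)
    (by decide +kernel)
theorem L02558 : Good (Phi V5.P V5.D 1 (-1)) ⟨2, 2, 2, 0, 1, 0, 1, 0, 4, 1⟩ :=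
  leafYS_sound T5.ok_pm T5.Ypm.bz_eq (w := 178) (c := ⟨⟨.negSucc 866, .negSucc 486, .ofNat 76, .ofNat 659, .negSucc 52, .negSucc 1005⟩, ⟨.negSucc 52, .negSucc 261, .ofNat 184, .negSucc 20, .ofNat 36, .ofNat 23⟩, ⟨.ofNat 972, .ofNat 485, .negSucc 61, .negSucc 1470, .ofNat 154, .ofNat 913⟩, ⟨.negSucc 1922, .negSucc 211, .ofNat 124, .ofNat 1345, .negSucc 148, .negSucc 2105⟩, ⟨.negSucc 166, .ofNat 170, .negSucc 9, .negSucc 309, .ofNat 148, .ofNat 17⟩, .ofNat 313, .negSucc 11, .ofNat 0, .negSucc 11, .ofNat 637, .ofNat 0, .ofNat 319, .ofNat 7, .negSucc 223, .ofNat 0, .ofNat 128, .ofNat 12, .ofNat 0, .ofNat 0, .ofNat 477, .ofNat 707, .ofNat 11664209310216816887818153965387776, .ofNat 0, .ofNat 555456928252167528800535445504, .ofNat 0, .ofNat 0, .ofNat 0, .ofNat 0, .ofNat 0, .ofNat 0, .ofNat 0, .ofNat 36950107029762120048584941371392, .ofNat 0, .ofNat 0, .ofNat 0, .ofNat 0, .ofNat 0⟩)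
    (by decide +kernel)
theorem L02559 : Good (Phi V5.P V5.D 1 (-1)) ⟨2, 3, 2, 0, 1, 0, 1, 0, 3, 0⟩ :=
  out_sound (S := T5.ds_pm) T5.ok_pm (w := 37) (j := 3) (by decide +kernel)
theorem L02560 : Good (Phi V5.P V5.D 1 (-1)) ⟨3, 4, 2, 0, 1, 0, 1, 0, 4, 2⟩ :=
  leafYS_sound T5.ok_pm T5.Ypm.bz_eq (w := 184) (c := ⟨⟨.negSucc 1625, .negSucc 308, .ofNat 25, .ofNat 230, .ofNat 58, .negSucc 233⟩, ⟨.negSucc 43, .negSucc 154, .ofNat 296, .negSucc 22, .negSucc 0, .ofNat 8⟩, ⟨.ofNat 1627, .ofNat 253, .negSucc 6, .negSucc 1086, .ofNat 78, .ofNat 351⟩, ⟨.negSucc 3594, .negSucc 125, .ofNat 28, .ofNat 450, .ofNat 113, .negSucc 471⟩, ⟨.negSucc 41, .ofNat 83, .negSucc 3, .negSucc 293, .ofNat 54, .negSucc 76⟩, .ofNat 438, .ofNat 15, .ofNat 0, .ofNat 15, .ofNat 1445, .ofNat 0, .ofNat 446, .negSucc 7, .negSucc 361, .ofNat 0, .ofNat 128, .ofNat 24, .ofNat 0, .ofNat 0, .ofNat 1356, .ofNat 2290, .ofNat 440131903185364887329672687523987456,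 .ofNat 0, .ofNat 0, .ofNat 0, .ofNat 2353148916750291925294075918141095936, .ofNat 0, .ofNat 0, .ofNat 0, .ofNat 0, .ofNat 0, .ofNat 0, .ofNat 0, .ofNat 0, .ofNat 0, .ofNat 0, .ofNat 0⟩)
    (by decide +kernel)
theorem L02561 : Good (Phi V5.P V5.D 1 (-1)) ⟨3, 4, 2, 0, 1, 0, 1, 0, 4, 3⟩ :=
  leafYS_sound T5.ok_pm T5.Ypm.bz_eq (w := 185) (c := ⟨⟨.negSucc 1775, .negSucc 298, .negSucc 1, .ofNat 28, .ofNat 117, .negSucc 12⟩, ⟨.negSucc 25, .negSucc 171, .ofNat 313, .negSucc 25, .negSucc 7, .negSucc 3⟩, ⟨.ofNat 1652, .ofNat 205, .ofNat 16, .negSucc 840, .ofNat 135, .ofNat 279⟩, ⟨.negSucc 3923, .negSucc 69, .negSucc 26, .ofNat 47, .ofNat 240, .negSucc 19⟩, ⟨.negSucc 46, .ofNat 54, .negSucc 6, .negSucc 264, .ofNat 27, .negSucc 16⟩, .ofNat 436, .ofNat 28, .ofNat 0, .ofNat 28, .ofNat 1405, .ofNat 0, .ofNat 443, .negSucc 13, .negSucc 385, .ofNat 0, .ofNat 128, .ofNat 36, .ofNat 0, .ofNat 0, .ofNat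 2034, .ofNat 4371, .ofNat 475661616322368496591001396938014720, .ofNat 0, .ofNat 0, .ofNat 0, .ofNat 0, .ofNat 0, .ofNat 0, .ofNat 0, .ofNat 264860346554247935370454187229839360, .ofNat 0, .ofNat 0, .ofNat 0, .ofNat 0, .ofNat 0, .ofNat 0, .ofNat 0⟩)
    (by decide +kernel)
theorem L02562 : Good (Phi V5.P V5.D 1 (-1)) ⟨3, 5, 2, 0, 1, 0, 1, 0, 4, 2⟩ :=
  leafYS_sound T5.ok_pm T5.Ypm.bz_eq (w := 184) (c := ⟨⟨.negSucc 1971, .negSucc 230, .ofNat 77, .ofNat 305, .negSucc 5, .negSucc 293⟩, ⟨.negSucc 203, .negSucc 239, .ofNat 318, .ofNat 4, .negSucc 8, .negSucc 36⟩, ⟨.ofNat 1982, .negSucc 87, .negSucc 81, .negSucc 1456, .ofNat 305, .ofNat 475⟩, ⟨.negSucc 3771, .ofNat 96, .ofNat 92, .ofNat 567, .negSucc 17, .negSucc 529⟩, ⟨.ofNat 4, .ofNat 115, .negSucc 14, .negSucc 296, .negSucc 0, .negSucc 34⟩, .ofNat 394, .negSucc 74, .ofNat 0, .negSucc 74, .ofNat 1033, .ofNat 0, .ofNat 405, .ofNat 35, .negSucc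 359, .ofNat 0, .ofNat 128, .ofNat 3, .ofNat 0, .ofNat 0, .ofNat 1201, .ofNat 1964, .ofNat 302954374315603333773639597028278272, .ofNat 0, .ofNat 237554570315568601160352792576, .ofNat 0, .ofNat 785059449226839951802753296684285952, .ofNat 0, .ofNat 46485878052484569350954045931520, .ofNat 0, .ofNat 425701041315721194551921171622789120, .ofNat 0, .ofNat 40717097740615546845645236076544, .ofNat 0, .ofNat 0, .ofNat 0, .ofNat 0, .ofNat 0⟩)
    (by decide +kernel)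
theorem L02563 : Good (Phi V5.P V5.D 1 (-1)) ⟨3, 5, 2, 0, 1, 0, 1, 0, 4, 3⟩ :=
  leafYS_sound T5.ok_pm T5.Ypm.bz_eq (w := 185) (c := ⟨⟨.negSucc 2118, .negSucc 380, .ofNat 43, .ofNat 9, .ofNat 38, .ofNat 100⟩, ⟨.negSucc 210, .negSucc 280, .ofNat 320, .negSucc 28, .negSucc 8, .ofNat 7⟩, ⟨.ofNat 2025, .ofNat 179, .negSucc 130, .negSucc 955, .ofNat 477, .negSucc 24⟩, ⟨.negSucc 4087, .negSucc 112, .ofNat 61, .ofNat 48, .ofNat 81, .ofNat 186⟩, ⟨.ofNat 3, .ofNat 60, .negSucc 18, .negSucc 232, .negSucc 24, .negSucc 24⟩, .ofNat 394, .negSucc 74, .ofNat 0, .negSucc 74, .ofNat 1033, .ofNat 0, .ofNat 587, .ofNat 34, .negSucc 312, .ofNat 0, .ofNat 128, .ofNat 10, .ofNat 0, .ofNat 0, .ofNat 1559, .ofNat 3320, .ofNat 273187456825837421764394283333320704, .ofNat 0, .ofNat 1059258366306081672744432304128, .ofNat 0, .ofNat 0, .ofNat 0, .ofNat 0, .ofNat 0, .ofNat 258430379611376636143141222327779328, .ofNat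 0, .ofNat 76455694275440375546633263251456, .ofNat 0, .ofNat 19780662506307324097099133873943478272, .ofNat 0, .ofNat 40862070472739546958553719767040, .ofNat 0⟩)
    (by decide +kernel)
theorem L02564 : Good (Phi V5.P V5.D 1 (-1)) ⟨2, 3, 2, 0, 1, 0, 1, 0, 3, 1⟩ :=
  out_sound (S := T5.ds_pm) T5.ok_pm (w := 37) (j := 3) (by decide +kernel)
theorem L02565 : Good (Phi V5.P V5.D 1 (-1)) ⟨2, 2, 2, 0, 2, 0, 2, 0, 3, 2⟩ :=
  leafYS_sound T5.ok_pm T5.Ypm.bz_eq (w := 198) (c := ⟨⟨.negSucc 2247, .negSucc 613, .ofNat 21, .ofNat 93, .ofNat 477, .ofNat 1⟩, ⟨.negSucc 244, .negSucc 419, .ofNat 324, .ofNat 4, .ofNat 212, .ofNat 0⟩, ⟨.ofNat 2045, .ofNat 496, .negSucc 44, .negSucc 402, .ofNat 41, .negSucc 0⟩, ⟨.negSucc 4528, .negSucc 125, .ofNat 8, .ofNat 175, .ofNat 618, .ofNat 2⟩, ⟨.negSucc 155, .ofNat 37, .negSucc 1, .negSucc 140, .ofNat 140, .ofNat 0⟩, .ofNat 169, .negSucc 2, .ofNat 0, .negSucc 2,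 .ofNat 233, .ofNat 0, .ofNat 145, .ofNat 3, .negSucc 136, .ofNat 0, .ofNat 128, .ofNat 13, .ofNat 0, .ofNat 0, .ofNat 511, .ofNat 65096, .ofNat 8641212469046431615558014638400982745088, .ofNat 0, .ofNat 18365634990755103171501461428240384, .ofNat 0, .ofNat 9204655623456013379781783571924638498816, .ofNat 0, .ofNat 103454498001352816421334418666291200, .ofNat 0, .ofNat 1743389305542206622657535846757747916800, .ofNat 0, .ofNat 43880573416921827601074837998534656, .ofNat 0, .ofNat 7882547395180192088423633462352490266624, .ofNat 0, .ofNat 0, .ofNat 0⟩)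
    (by decide +kernel)
theorem L02566 : Good (Phi V5.P V5.D 1 (-1)) ⟨2, 2, 2, 0, 2, 0, 2, 1, 3, 2⟩ :=
  leafYS_sound T5.ok_pm T5.Ypm.bz_eq (w := 195) (c := ⟨⟨.negSucc 1723, .negSucc 570, .ofNat 9, .negSucc 22, .ofNat 95, .ofNat 211⟩, ⟨.negSucc 37, .negSucc 390, .ofNat 300, .negSucc 9, .ofNat 16, .ofNat 7⟩, ⟨.ofNat 1882, .ofNat 543, .ofNat 12, .negSucc 76, .negSucc 206, .negSucc 140⟩, ⟨.negSucc 3776, .negSucc 112, .negSucc 15, .negSucc 44, .ofNat 169, .ofNat 419⟩, ⟨.ofNat 14, .ofNat 32, .negSucc 7, .negSucc 168, .negSucc 13, .negSucc 13⟩, .ofNat 317, .negSucc 13, .ofNat 0, .negSucc 13, .ofNat 649, .ofNat 0, .ofNat 228, .ofNat 9, .negSucc 112, .ofNat 0, .ofNat 128, .ofNat 3, .ofNat 0, .ofNat 0, .ofNat 780, .ofNat 7343, .ofNat 216833766823796066075865502252833701888, .ofNat 0, .ofNat 0, .ofNat 0, .ofNat 0, .ofNat 0, .ofNat 1239427777668418246177410859581571072, .ofNat 0, .ofNat 0, .ofNat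 0, .ofNat 1341356225839820439661750596394811392, .ofNat 0, .ofNat 0, .ofNat 0, .ofNat 0, .ofNat 0⟩)
    (by decide +kernel)
theorem L02567 : Good (Phi V5.P V5.D 1 (-1)) ⟨3, 4, 2, 0, 2, 1, 2, 0, 3, 2⟩ :=
  leafYS_sound T5.ok_pm T5.Ypm.bz_eq (w := 201) (c := ⟨⟨.negSucc 1708, .negSucc 271, .ofNat 19, .negSucc 44, .ofNat 11, .ofNat 148⟩, ⟨.negSucc 24, .negSucc 171, .ofNat 307, .negSucc 9, .negSucc 19, .negSucc 4⟩, ⟨.ofNat 1454, .ofNat 107, .negSucc 45, .negSucc 536, .ofNat 300, .ofNat 236⟩, ⟨.negSucc 3814, .negSucc 13, .negSucc 5, .negSucc 94, .ofNat 58, .ofNat 312⟩, ⟨.negSucc 158, .ofNat 41, .ofNat 14, .negSucc 129, .negSucc 37, .negSucc 5⟩, .ofNat 326, .ofNat 7, .ofNat 0, .ofNat 7, .ofNat 677, .ofNat 0, .ofNat 236, .negSucc 7, .negSucc 92, .ofNat 0, .ofNat 128, .ofNat 21, .ofNat 0, .ofNat 0, .ofNat 583, .ofNat 44294, .ofNat 36865571430344267726950637495361332051968, .ofNat 0, .ofNat 0,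 .ofNat 0, .ofNat 115187261695130214790307076407301150605312, .ofNat 0, .ofNat 20404047575404695306625897241509888, .ofNat 0, .ofNat 29595104653133219333846919833525206122496, .ofNat 0, .ofNat 0, .ofNat 0, .ofNat 129065360918697107403544606087056113795072, .ofNat 0, .ofNat 0, .ofNat 0⟩)
    (by decide +kernel)
theorem L02568 : Good (Phi V5.P V5.D 1 (-1)) ⟨3, 4, 2, 0, 2, 1, 2, 1, 4, 4⟩ :=
  leafYS_sound T5.ok_pm T5.Ypm.bz_eq (w := 204) (c := ⟨⟨.negSucc 1665, .negSucc 286, .ofNat 13, .negSucc 93, .ofNat 7, .ofNat 92⟩, ⟨.negSucc 41, .negSucc 171, .ofNat 298, .negSucc 11, .ofNat 0, .ofNat 2⟩, ⟨.ofNat 1551, .ofNat 193, .ofNat 17, .negSucc 241, .ofNat 163, .negSucc 15⟩, ⟨.negSucc 3685, .negSucc 55, .negSucc 13, .negSucc 197, .ofNat 11, .ofNat 191⟩, ⟨.negSucc 166, .ofNat 33, .ofNat 2, .negSucc 151, .negSucc 28, .negSucc 3⟩, .ofNat 326, .ofNat 7, .ofNat 0, .ofNat 7, .ofNat 679, .ofNat 0, .ofNat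 430, .negSucc 5, .negSucc 223, .ofNat 0, .ofNat 128, .ofNat 38, .ofNat 0, .ofNat 0, .ofNat 1334, .ofNat 9284, .ofNat 36222360580349308465048564236726707421184, .ofNat 0, .ofNat 0, .ofNat 0, .ofNat 0, .ofNat 0, .ofNat 0, .ofNat 0, .ofNat 0, .ofNat 0, .ofNat 0, .ofNat 0, .ofNat 0, .ofNat 0, .ofNat 0, .ofNat 0⟩)
    (by decide +kernel)
theorem L02569 : Good (Phi V5.P V5.D 1 (-1)) ⟨3, 4, 2, 0, 2, 1, 2, 1, 4, 5⟩ :=
  leafYS_sound T5.ok_pm T5.Ypm.bz_eq (w := 205) (c := ⟨⟨.negSucc 1565, .negSucc 270, .ofNat 12, .negSucc 89, .negSucc 17, .ofNat 103⟩, ⟨.negSucc 36, .negSucc 161, .ofNat 279, .negSucc 4, .negSucc 5, .negSucc 5⟩, ⟨.ofNat 1471, .ofNat 215, .ofNat 29, .negSucc 104, .ofNat 164, .ofNat 21⟩, ⟨.negSucc 3472, .negSucc 57, .negSucc 13, .negSucc 192, .negSucc 20, .ofNat 214⟩, ⟨.negSucc 141, .ofNat 5, .ofNat 8, .negSucc 164, .negSucc 52, .negSucc 3⟩, .ofNat 328, .ofNat 14, .ofNat 0, .ofNat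 14, .ofNat 674, .ofNat 0, .ofNat 317, .negSucc 9, .negSucc 156, .ofNat 0, .ofNat 128, .ofNat 24, .ofNat 0, .ofNat 0, .ofNat 1453, .ofNat 22518, .ofNat 108878536081638572480672024540803204382720, .ofNat 0, .ofNat 0, .ofNat 0, .ofNat 0, .ofNat 0, .ofNat 0, .ofNat 0, .ofNat 0, .ofNat 0, .ofNat 0, .ofNat 0, .ofNat 0, .ofNat 0, .ofNat 0, .ofNat 0⟩)
    (by decide +kernel)
theorem L02570 : Good (Phi V5.P V5.D 1 (-1)) ⟨3, 5, 2, 0, 2, 1, 2, 0, 3, 2⟩ :=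
  leafYS_sound T5.ok_pm T5.Ypm.bz_eq (w := 202) (c := ⟨⟨.negSucc 1901, .negSucc 328, .ofNat 14, .negSucc 56, .negSucc 74, .ofNat 227⟩, ⟨.negSucc 218, .negSucc 280, .ofNat 304, .negSucc 16, .ofNat 2, .ofNat 6⟩, ⟨.ofNat 1441, .ofNat 72, .negSucc 70, .negSucc 631, .ofNat 521, .ofNat 131⟩, ⟨.negSucc 3646, .negSucc 21, .negSucc 9, .negSucc 94, .negSucc 149, .ofNat 436⟩, ⟨.negSucc 203, .ofNat 45, .ofNat 17, .negSucc 101, .ofNat 39, .negSucc 97⟩, .ofNat 306, .negSucc 41, .ofNat 0, .negSucc 41, .ofNat 616, .ofNat 0, .ofNat 414, .ofNat 27, .negSucc 170, .ofNat 0, .ofNat 128, .ofNat 27, .ofNat 0, .ofNat 0, .ofNat 1024, .ofNat 76237, .ofNat 38430970692490207489148560191805880008704, .ofNat 0, .ofNat 25074452172221771097944750844542976, .ofNat 0, .ofNat 153486444170031070138727375308420057923584, .ofNat 0, .ofNat 216294257424378909075008403430965248, .ofNat 0, .ofNat 60177498534199844019136482760315163901952,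 .ofNat 0, .ofNat 527171991548635691737571926883696640, .ofNat 0, .ofNat 410402122462636535359459063560397828128768, .ofNat 0, .ofNat 172610159595703634286347665660706816, .ofNat 0⟩)
    (by decide +kernel)
theorem L02571 : Good (Phi V5.P V5.D 1 (-1)) ⟨3, 5, 2, 0, 2, 1, 2, 1, 4, 4⟩ :=
  leafYS_sound T5.ok_pm T5.Ypm.bz_eq (w := 204) (c := ⟨⟨.negSucc 1922, .negSucc 365, .ofNat 9, .negSucc 122, .negSucc 45, .ofNat 124⟩, ⟨.negSucc 205, .negSucc 285, .ofNat 298, .negSucc 30, .negSucc 11, .ofNat 12⟩, ⟨.ofNat 1685, .ofNat 232, .negSucc 8, .negSucc 294, .ofNat 284, .ofNat 0⟩, ⟨.negSucc 3703, .negSucc 85, .negSucc 14, .negSucc 204, .negSucc 72, .ofNat 225⟩, ⟨.negSucc 136, .ofNat 36, .ofNat 7, .negSucc 132, .negSucc 24, .negSucc 40⟩, .ofNat 407, .negSucc 105, .ofNat 0, .negSucc 105, .ofNat 1199, .ofNat 0, .ofNat 401, .ofNat 49, .negSucc 199, .ofNat 0, .ofNat 128, .ofNat 3, .ofNat 0, .ofNat 0, .ofNat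 1352, .ofNat 10034, .ofNat 36891215760855972195579404335255075684352, .ofNat 0, .ofNat 212263497400024181868507482032177152, .ofNat 0, .ofNat 0, .ofNat 0, .ofNat 0, .ofNat 0, .ofNat 41912251440875876134566081305575554023424, .ofNat 0, .ofNat 38438891345647532288246900016390602752, .ofNat 0, .ofNat 0, .ofNat 0, .ofNat 0, .ofNat 0⟩)
    (by decide +kernel)
theorem L02572 : Good (Phi V5.P V5.D 1 (-1)) ⟨3, 5, 2, 0, 2, 1, 3, 2, 4, 5⟩ :=
  leafYS_sound T5.ok_pm T5.Ypm.bz_eq (w := 211) (c := ⟨⟨.negSucc 1812, .negSucc 327, .ofNat 15, .negSucc 103, .negSucc 35, .ofNat 139⟩, ⟨.negSucc 195, .negSucc 271, .ofNat 289, .negSucc 27, .negSucc 9, .ofNat 14⟩, ⟨.ofNat 1689, .ofNat 156, .ofNat 0, .negSucc 273, .ofNat 186, .ofNat 35⟩, ⟨.negSucc 3491, .negSucc 42, .negSucc 11, .negSucc 173, .negSucc 57, .ofNat 253⟩, ⟨.negSucc 141, .ofNat 24, .ofNat 10, .negSucc 142, .negSucc 31, .negSucc 20⟩, .ofNat 306,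 .negSucc 40, .ofNat 0, .negSucc 40, .ofNat 616, .ofNat 0, .ofNat 172, .ofNat 26, .negSucc 70, .ofNat 0, .ofNat 128, .ofNat 8, .ofNat 0, .ofNat 0, .ofNat 566, .ofNat 45997, .ofNat 1454906374644651094016064738134110937022464, .ofNat 0, .ofNat 2648279849982059241199452527546859520, .ofNat 0, .ofNat 4076829439931457327226860613181879055548416, .ofNat 0, .ofNat 144091081614772716849988088687111438336, .ofNat 0, .ofNat 1170800957715402522777495246246887357939712, .ofNat 0, .ofNat 327359711448808739645471809792594935808, .ofNat 0, .ofNat 3904149170517122968880436700832298038198272, .ofNat 0, .ofNat 0, .ofNat 0⟩)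
    (by decide +kernel)
theorem L02573 : Good (Phi V5.P V5.D 1 (-1)) ⟨3, 5, 2, 0, 2, 1, 3, 3, 4, 5⟩ :=
  leafYS_sound T5.ok_pm T5.Ypm.bz_eq (w := 209) (c := ⟨⟨.negSucc 1819, .negSucc 328, .ofNat 9, .negSucc 138, .negSucc 34, .ofNat 126⟩, ⟨.negSucc 200, .negSucc 265, .ofNat 281, .negSucc 33, .negSucc 7, .ofNat 11⟩, ⟨.ofNat 1742, .ofNat 170, .negSucc 5, .negSucc 61, .ofNat 129, .negSucc 18⟩, ⟨.negSucc 3496, .negSucc 51, .negSucc 15, .negSucc 233, .negSucc 59, .ofNat 231⟩, ⟨.negSucc 149, .ofNat 28, .ofNat 10, .negSucc 181, .negSucc 36, .negSucc 7⟩, .ofNat 408, .negSucc 116, .ofNat 0, .negSucc 116, .ofNat 1213, .ofNat 0, .ofNat 289, .ofNat 53, .negSucc 112, .ofNat 0, .ofNat 128, .negSucc 1, .ofNat 0, .ofNat 0, .ofNat 1086, .ofNat 19450, .ofNat 573917564070002230630743965451221626519552, .ofNat 0, .ofNat 2240215381787863877301191535553937408, .ofNat 0, .ofNat 0, .ofNat 0, .ofNat 0, .ofNat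 0, .ofNat 0, .ofNat 0, .ofNat 993748374992132488195770514571387731968, .ofNat 0, .ofNat 0, .ofNat 0, .ofNat 0, .ofNat 0⟩)
    (by decide +kernel)
theorem L02574 : Good (Phi V5.P V5.D 1 (-1)) ⟨2, 3, 2, 0, 1, 0, 1, 0, 3, 2⟩ :=
  out_sound (S := T5.ds_pm) T5.ok_pm (w := 37) (j := 3) (by decide +kernel)
theorem L02575 : Good (Phi V5.P V5.D 1 (-1)) ⟨1, 1, 2, 0, 1, 0, 2, 0, 3, 3⟩ :=
  out_sound (S := T5.ds_pm) T5.ok_pm (w := 20) (j := 1) (by decide +kernel)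
theorem L02576 : Good (Phi V5.P V5.D 1 (-1)) ⟨1, 1, 2, 0, 1, 0, 2, 1, 3, 3⟩ :=
  leafYS_sound T5.ok_pm T5.Ypm.bz_eq (w := 177) (c := ⟨⟨.negSucc 1252, .negSucc 1158, .ofNat 22, .negSucc 246, .negSucc 87, .ofNat 238⟩, ⟨.ofNat 33, .negSucc 831, .ofNat 280, .negSucc 54, .negSucc 20, .ofNat 24⟩, ⟨.ofNat 1161, .ofNat 760, .ofNat 118, .ofNat 145, .ofNat 316, .ofNat 135⟩, ⟨.negSucc 2862, .negSucc 217, .negSucc 25, .negSucc 461, .negSucc 175, .ofNat 479⟩, ⟨.ofNat 115, .negSucc 13, .ofNat 9, .negSucc 376, .negSucc 117, .negSucc 14⟩, .ofNat 170, .negSucc 1, .ofNat 0, .negSucc 1, .ofNat 234, .ofNat 0, .ofNat 128, .negSucc 0, .negSucc 39, .ofNat 0, .ofNat 129, .ofNat 4, .ofNat 0, .ofNat 0, .ofNat 344, .ofNat 7917, .ofNat 7973885524814465342571488842088448, .ofNat 0, .ofNat 7911721539973841808269709934592, .ofNat 0, .ofNat 28336448169176153218260302083129344, .ofNat 0, .ofNat 69897473910820081340306149081088,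 .ofNat 0, .ofNat 0, .ofNat 0, .ofNat 112311360733072149180939795169280, .ofNat 0, .ofNat 29508241335070575741349129789374464, .ofNat 0, .ofNat 9976651576544057525684808974336, .ofNat 0⟩)
    (by decide +kernel)
theorem L02577 : Good (Phi V5.P V5.D 1 (-1)) ⟨1, 1, 2, 0, 1, 0, 1, 0, 1, 1⟩ :=
  out_sound (S := T5.ds_pm) T5.ok_pm (w := 15) (j := 1) (by decide +kernel)
theorem L02578 : Good (Phi V5.P V5.D 1 (-1)) ⟨3, 4, 2, 1, 1, 0, 2, 0, 5, 0⟩ :=
  leafYS_sound T5.ok_pm T5.Ypm.bz_eq (w := 193) (c := ⟨⟨.ofNat 815, .ofNat 293, .ofNat 83, .ofNat 967, .ofNat 230, .negSucc 1039⟩, ⟨.negSucc 169, .ofNat 92, .negSucc 211, .negSucc 141, .ofNat 21, .ofNat 165⟩, ⟨.negSucc 825, .negSucc 236, .negSucc 133, .negSucc 627, .negSucc 236, .ofNat 807⟩, ⟨.ofNat 1821, .ofNat 297, .ofNat 145, .ofNat 1988, .ofNat 481, .negSucc 2167⟩, ⟨.negSucc 238, .negSucc 50, .negSucc 41, .ofNat 27, .ofNat 259, .ofNat 34⟩, .ofNat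 470, .ofNat 198, .ofNat 0, .ofNat 198, .ofNat 1235, .ofNat 0, .ofNat 315, .negSucc 82, .negSucc 351, .ofNat 0, .ofNat 128, .ofNat 74, .ofNat 0, .ofNat 0, .ofNat 709, .ofNat 3011, .ofNat 0, .ofNat 0, .ofNat 42915311428507658454173267001344, .ofNat 0, .ofNat 0, .ofNat 0, .ofNat 6824063444333338727002654896029696, .ofNat 0, .ofNat 1266030028148012682405472588103942144, .ofNat 0, .ofNat 8524573875372758048194013960339456, .ofNat 0, .ofNat 0, .ofNat 0, .ofNat 0, .ofNat 0⟩)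
    (by decide +kernel)
theorem L02579 : Good (Phi V5.P V5.D 1 (-1)) ⟨3, 4, 2, 1, 1, 0, 2, 0, 5, 1⟩ :=
  leafYS_sound T5.ok_pm T5.Ypm.bz_eq (w := 192) (c := ⟨⟨.negSucc 267, .ofNat 120, .ofNat 168, .ofNat 1058, .ofNat 22, .negSucc 844⟩, ⟨.ofNat 29, .negSucc 45, .negSucc 11, .negSucc 187, .ofNat 31, .ofNat 156⟩, ⟨.ofNat 420, .negSucc 151, .negSucc 147, .negSucc 1402, .negSucc 69, .ofNat 680⟩, ⟨.negSucc 524, .ofNat 212, .ofNat 244, .ofNat 2198, .ofNat 44, .negSucc 1822⟩, ⟨.negSucc 93, .negSucc 64, .negSucc 48, .negSucc 298, .ofNat 200, .negSucc 6⟩, .ofNat 335, .ofNat 75, .ofNat 0, .ofNat 75, .ofNat 623, .ofNat 0, .ofNat 347, .negSucc 49, .negSucc 229, .ofNat 0, .ofNat 128, .ofNat 49, .ofNat 0, .ofNat 0, .ofNat 444, .ofNat 2899, .ofNat 0, .ofNat 0, .ofNat 0, .ofNat 0, .ofNat 77647913151391119804521110691886661632, .ofNat 0, .ofNat 2973854079949676265814820867014656, .ofNat 0, .ofNat 0, .ofNat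 0, .ofNat 5623632967979353262922196169261056, .ofNat 0, .ofNat 0, .ofNat 0, .ofNat 977393082378469284912151587192832, .ofNat 0⟩)
    (by decide +kernel)
theorem L02580 : Good (Phi V5.P V5.D 1 (-1)) ⟨3, 4, 2, 1, 1, 0, 2, 1, 4, 0⟩ :=
  leafYS_sound T5.ok_pm T5.Ypm.bz_eq (w := 187) (c := ⟨⟨.ofNat 918, .ofNat 354, .ofNat 34, .ofNat 1064, .negSucc 412, .negSucc 2111⟩, ⟨.negSucc 192, .ofNat 102, .negSucc 144, .negSucc 127, .ofNat 92, .ofNat 340⟩, ⟨.negSucc 938, .negSucc 281, .negSucc 77, .negSucc 823, .ofNat 383, .ofNat 1729⟩, ⟨.ofNat 2100, .ofNat 415, .ofNat 162, .ofNat 2239, .negSucc 948, .negSucc 4573⟩, ⟨.negSucc 109, .negSucc 70, .ofNat 149, .ofNat 254, .ofNat 74, .negSucc 137⟩, .ofNat 335, .ofNat 75, .ofNat 0, .ofNat 75, .ofNat 623, .ofNat 0, .ofNat 287, .negSucc 46, .negSucc 439, .ofNat 0, .ofNat 128, .ofNat 84, .ofNat 0, .ofNat 0, .ofNat 676, .ofNat 938, .ofNat 0, .ofNat 0, .ofNat 0,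 .ofNat 0, .ofNat 0, .ofNat 0, .ofNat 0, .ofNat 0, .ofNat 0, .ofNat 0, .ofNat 140858240412760121009162839654400, .ofNat 0, .ofNat 0, .ofNat 0, .ofNat 0, .ofNat 0⟩)
    (by decide +kernel)
theorem L02581 : Good (Phi V5.P V5.D 1 (-1)) ⟨3, 4, 2, 1, 1, 0, 1, 0, 4, 1⟩ :=
  leafYS_sound T5.ok_pm T5.Ypm.bz_eq (w := 183) (c := ⟨⟨.negSucc 911, .negSucc 125, .ofNat 42, .ofNat 747, .negSucc 159, .negSucc 993⟩, ⟨.ofNat 143, .negSucc 73, .ofNat 169, .negSucc 150, .ofNat 28, .ofNat 136⟩, ⟨.ofNat 1066, .negSucc 85, .negSucc 150, .negSucc 1620, .ofNat 367, .ofNat 962⟩, ⟨.negSucc 2045, .ofNat 19, .ofNat 79, .ofNat 1504, .negSucc 308, .negSucc 2057⟩, ⟨.negSucc 138, .ofNat 33, .ofNat 68, .negSucc 295, .ofNat 119, .ofNat 21⟩, .ofNat 332, .ofNat 57, .ofNat 0, .ofNat 57, .ofNat 634, .ofNat 0, .ofNat 356, .negSucc 38, .negSucc 294, .ofNat 0, .ofNat 128, .ofNat 55, .ofNat 0, .ofNat 0, .ofNat 693, .ofNat 764,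 .ofNat 175408653971805325560083380543946752, .ofNat 0, .ofNat 65026516481744525521993072640, .ofNat 0, .ofNat 0, .ofNat 0, .ofNat 0, .ofNat 0, .ofNat 306656630944355833626505762704457728, .ofNat 0, .ofNat 8630552983581210035184352624640, .ofNat 0, .ofNat 0, .ofNat 0, .ofNat 0, .ofNat 0⟩)
    (by decide +kernel)
theorem L02582 : Good (Phi V5.P V5.D 1 (-1)) ⟨3, 5, 2, 1, 1, 0, 1, 0, 3, 0⟩ :=
  out_sound (S := T5.ds_pm) T5.ok_pm (w := 43) (j := 3) (by decide +kernel)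
theorem L02583 : Good (Phi V5.P V5.D 1 (-1)) ⟨3, 4, 2, 1, 1, 0, 1, 0, 3, 1⟩ :=
  leafYS_sound T5.ok_pm T5.Ypm.bz_eq (w := 178) (c := ⟨⟨.negSucc 1563, .negSucc 262, .ofNat 24, .ofNat 48, .ofNat 84, .negSucc 250⟩, ⟨.ofNat 270, .negSucc 173, .ofNat 294, .negSucc 33, .negSucc 16, .ofNat 31⟩, ⟨.ofNat 1182, .ofNat 264, .ofNat 189, .negSucc 853, .ofNat 232, .ofNat 615⟩, ⟨.negSucc 3493, .negSucc 3, .ofNat 15, .ofNat 71, .ofNat 178, .negSucc 527⟩, ⟨.negSucc 40, .ofNat 39, .negSucc 3, .negSucc 251, .ofNat 0, .ofNat 3⟩, .ofNat 470, .ofNat 198, .ofNat 0, .ofNat 198, .ofNat 1235, .ofNat 0, .ofNat 376, .negSucc 78, .negSucc 202, .ofNat 0, .ofNat 128, .ofNat 54, .ofNat 0, .ofNat 0, .ofNat 879, .ofNat 1580, .ofNat 17419643899450558975624223630819328, .ofNat 0, .ofNat 11454559249763052443542749184, .ofNat 0, .ofNat 0, .ofNat 0, .ofNat 0, .ofNat 0, .ofNat 0, .ofNat 0, .ofNat 389257196048938468045175652352,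 .ofNat 0, .ofNat 773701694855635168888508637809475584, .ofNat 0, .ofNat 0, .ofNat 0⟩)
    (by decide +kernel)
theorem L02584 : Good (Phi V5.P V5.D 1 (-1)) ⟨3, 5, 2, 1, 1, 0, 1, 0, 3, 1⟩ :=
  out_sound (S := T5.ds_pm) T5.ok_pm (w := 43) (j := 3) (by decide +kernel)
theorem L02585 : Good (Phi V5.P V5.D 1 (-1)) ⟨2, 3, 2, 1, 1, 0, 1, 0, 2, 0⟩ :=
  out_sound (S := T5.ds_pm) T5.ok_pm (w := 37) (j := 3) (by decide +kernel)
theorem L02586 : Good (Phi V5.P V5.D 1 (-1)) ⟨3, 4, 2, 1, 1, 0, 2, 0, 3, 2⟩ :=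
  leafYS_sound T5.ok_pm T5.Ypm.bz_eq (w := 187) (c := ⟨⟨.negSucc 1759, .negSucc 283, .ofNat 18, .ofNat 21, .ofNat 36, .ofNat 80⟩, ⟨.ofNat 280, .negSucc 175, .ofNat 307, .negSucc 25, .ofNat 3, .negSucc 24⟩, ⟨.ofNat 1810, .ofNat 106, .negSucc 40, .negSucc 979, .ofNat 357, .ofNat 208⟩, ⟨.negSucc 3907, .negSucc 25, .ofNat 6, .ofNat 5, .ofNat 76, .ofNat 161⟩, ⟨.negSucc 66, .ofNat 49, .ofNat 10, .negSucc 245, .ofNat 12, .negSucc 54⟩, .ofNat 459, .ofNat 156, .ofNat 0, .ofNat 156, .ofNat 1269, .ofNat 0, .ofNat 412, .negSucc 66, .negSucc 92, .ofNat 0, .ofNat 128, .ofNat 24, .ofNat 0, .ofNat 0, .ofNat 634, .ofNat 49582, .ofNat 7071839171125395315875673042843598848, .ofNat 0, .ofNat 854682976999051450891458576384, .ofNat 0, .ofNat 66201294823265093464754805617366925312, .ofNat 0, .ofNat 0, .ofNat 0, .ofNat 7496683240547382048931079009842757632, .ofNat 0, .ofNat 0, .ofNat 0, .ofNat 66361544899580200899716652057231360000,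 .ofNat 0, .ofNat 2356196297980259211230060740608, .ofNat 0⟩)
    (by decide +kernel)
theorem L02587 : Good (Phi V5.P V5.D 1 (-1)) ⟨3, 4, 2, 1, 1, 0, 2, 1, 4, 4⟩ :=
  leafYS_sound T5.ok_pm T5.Ypm.bz_eq (w := 190) (c := ⟨⟨.negSucc 1654, .negSucc 284, .ofNat 10, .negSucc 70, .ofNat 25, .ofNat 93⟩, ⟨.ofNat 277, .negSucc 158, .ofNat 304, .negSucc 21, .negSucc 10, .negSucc 16⟩, ⟨.ofNat 1604, .ofNat 256, .ofNat 23, .negSucc 326, .ofNat 115, .ofNat 66⟩, ⟨.negSucc 3659, .negSucc 75, .negSucc 28, .negSucc 189, .ofNat 51, .ofNat 193⟩, ⟨.ofNat 22, .ofNat 20, .negSucc 9, .negSucc 303, .negSucc 24, .negSucc 26⟩, .ofNat 462, .ofNat 163, .ofNat 0, .ofNat 163, .ofNat 1280, .ofNat 0, .ofNat 409, .negSucc 66, .negSucc 163, .ofNat 0, .ofNat 128, .ofNat 35, .ofNat 0, .ofNat 0, .ofNat 1197, .ofNat 8620, .ofNat 7056450283331335753023643529422831616, .ofNat 0, .ofNat 0, .ofNat 0, .ofNat 0, .ofNat 0, .ofNat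 0, .ofNat 0, .ofNat 0, .ofNat 0, .ofNat 723404285952808450553368006361088, .ofNat 0, .ofNat 55005151551164050894981912089134628864, .ofNat 0, .ofNat 863449643584435993453812739211264, .ofNat 0⟩)
    (by decide +kernel)
theorem L02588 : Good (Phi V5.P V5.D 1 (-1)) ⟨3, 4, 2, 1, 1, 0, 2, 1, 4, 5⟩ :=
  leafYS_sound T5.ok_pm T5.Ypm.bz_eq (w := 191) (c := ⟨⟨.negSucc 1527, .negSucc 271, .ofNat 7, .negSucc 115, .ofNat 13, .ofNat 87⟩, ⟨.ofNat 257, .negSucc 152, .ofNat 281, .negSucc 12, .negSucc 7, .negSucc 16⟩, ⟨.ofNat 1425, .ofNat 223, .negSucc 1, .negSucc 13, .ofNat 246, .negSucc 17⟩, ⟨.negSucc 3381, .negSucc 69, .negSucc 12, .negSucc 299, .ofNat 14, .ofNat 193⟩, ⟨.ofNat 49, .ofNat 12, .ofNat 13, .negSucc 343, .negSucc 64, .negSucc 3⟩, .ofNat 332, .ofNat 58, .ofNat 0, .ofNat 58, .ofNat 633, .ofNat 0, .ofNat 293, .negSucc 36, .negSucc 113, .ofNat 0, .ofNat 128, .ofNat 23, .ofNat 0, .ofNat 0,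 .ofNat 1021, .ofNat 11985, .ofNat 13663217474187925730768276185828818944, .ofNat 0, .ofNat 1811094048742789097576965603328, .ofNat 0, .ofNat 0, .ofNat 0, .ofNat 0, .ofNat 0, .ofNat 0, .ofNat 0, .ofNat 0, .ofNat 0, .ofNat 346124602376390702846881752155135410176, .ofNat 0, .ofNat 412098878319904497780501222785024, .ofNat 0⟩)
    (by decide +kernel)
theorem L02589 : Good (Phi V5.P V5.D 1 (-1)) ⟨3, 4, 2, 1, 1, 0, 2, 0, 3, 3⟩ :=
  out_sound (S := T5.ds_pm) T5.ok_pm (w := 20) (j := 1) (by decide +kernel)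
theorem L02590 : Good (Phi V5.P V5.D 1 (-1)) ⟨3, 4, 2, 1, 1, 0, 2, 1, 3, 3⟩ :=
  leafYS_sound T5.ok_pm T5.Ypm.bz_eq (w := 186) (c := ⟨⟨.negSucc 1262, .negSucc 270, .ofNat 16, .negSucc 222, .negSucc 83, .ofNat 235⟩, ⟨.ofNat 253, .negSucc 161, .ofNat 279, .negSucc 12, .negSucc 16, .negSucc 26⟩, ⟨.ofNat 1060, .ofNat 186, .ofNat 120, .ofNat 333, .ofNat 360, .ofNat 354⟩, ⟨.negSucc 2853, .negSucc 55, .negSucc 23, .negSucc 508, .negSucc 165, .ofNat 469⟩, ⟨.ofNat 89, .negSucc 0, .ofNat 9, .negSucc 353, .negSucc 104, .negSucc 41⟩, .ofNat 174, .ofNat 12, .ofNat 0, .ofNat 12, .ofNat 232, .ofNat 0, .ofNat 170, .negSucc 16, .negSucc 65, .ofNat 0, .ofNat 128, .ofNat 11, .ofNat 0, .ofNat 0, .ofNat 595, .ofNat 15571, .ofNat 3492063010979750227189099313334583296, .ofNat 0, .ofNat 0, .ofNat 0, .ofNat 20790835437044905761907494536037269504, .ofNat 0, .ofNat 1551284605281942236994629271552, .ofNat 0, .ofNat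 0, .ofNat 0, .ofNat 0, .ofNat 0, .ofNat 31332301899107337796703153487976857600, .ofNat 0, .ofNat 1251661434406638343941122949120, .ofNat 0⟩)
    (by decide +kernel)
theorem L02591 : Good (Phi V5.P V5.D 1 (-1)) ⟨3, 5, 2, 1, 1, 0, 1, 0, 2, 1⟩ :=
  out_sound (S := T5.ds_pm) T5.ok_pm (w := 43) (j := 3) (by decide +kernel)
theorem L02592 : Good (Phi V5.P V5.D 1 (-1)) ⟨2, 3, 2, 1, 1, 0, 1, 0, 2, 1⟩ :=
  out_sound (S := T5.ds_pm) T5.ok_pm (w := 37) (j := 3) (by decide +kernel)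
theorem L02593 : Good (Phi V5.P V5.D 1 (-1)) ⟨1, 1, 2, 1, 1, 0, 1, 0, 1, 1⟩ :=
  out_sound (S := T5.ds_pm) T5.ok_pm (w := 15) (j := 1) (by decide +kernel)
theorem L02594 : Good (Phi V5.P V5.D 1 (-1)) ⟨2, 2, 2, 0, 2, 0, 2, 2, 3, 0⟩ :=
  leafYS_sound T5.ok_pm T5.Ypm.bz_eq (w := 191) (c := ⟨⟨.negSucc 106, .negSucc 771, .ofNat 2, .ofNat 165, .negSucc 98, .negSucc 1497⟩, ⟨.ofNat 11, .negSucc 329, .ofNat 194, .negSucc 28, .negSucc 0, .negSucc 8⟩, ⟨.ofNat 17, .ofNat 771, .negSucc 26, .negSucc 148, .ofNat 130, .ofNat 1514⟩, ⟨.negSucc 149, .negSucc 878, .negSucc 17, .ofNat 416, .negSucc 418, .negSucc 3254⟩, ⟨.ofNat 64, .negSucc 170, .ofNat 82, .negSucc 87, .negSucc 53, .negSucc 31⟩, .ofNat 319, .negSucc 9, .ofNat 0, .negSucc 9, .ofNat 654, .ofNat 0, .ofNat 441, .ofNat 7, .negSucc 495, .ofNat 0, .ofNat 128, .ofNat 3, .ofNat 0, .ofNat 0, .ofNat 873, .ofNat 294, .ofNat 0, .ofNat 0, .ofNat 0, .ofNat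 0, .ofNat 0, .ofNat 0, .ofNat 0, .ofNat 0, .ofNat 0, .ofNat 0, .ofNat 189199488885768815111740483258286080, .ofNat 0, .ofNat 0, .ofNat 0, .ofNat 364948901124236163509581925339627520, .ofNat 0⟩)
    (by decide +kernel)
theorem L02595 : Good (Phi V5.P V5.D 1 (-1)) ⟨2, 2, 2, 0, 2, 1, 2, 2, 3, 0⟩ :=
  leafYS_sound T5.ok_pm T5.Ypm.bz_eq (w := 191) (c := ⟨⟨.ofNat 814, .negSucc 203, .ofNat 23, .ofNat 269, .negSucc 222, .negSucc 2484⟩, ⟨.ofNat 28, .negSucc 71, .ofNat 137, .negSucc 10, .negSucc 20, .negSucc 98⟩, ⟨.negSucc 751, .ofNat 232, .negSucc 62, .negSucc 291, .ofNat 362, .ofNat 2192⟩, ⟨.ofNat 1452, .ofNat 39, .ofNat 61, .ofNat 570, .negSucc 593, .negSucc 4939⟩, ⟨.negSucc 153, .ofNat 418, .ofNat 86, .ofNat 152, .negSucc 74, .negSucc 208⟩, .ofNat 317, .negSucc 9, .ofNat 0, .negSucc 9, .ofNat 645, .ofNat 0, .ofNat 387, .ofNat 12, .negSucc 402, .ofNat 0, .ofNat 128, .ofNat 20, .ofNat 0, .ofNat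 0, .ofNat 672, .ofNat 294, .ofNat 0, .ofNat 0, .ofNat 0, .ofNat 0, .ofNat 0, .ofNat 0, .ofNat 434098791195351850002917412330012672, .ofNat 0, .ofNat 0, .ofNat 0, .ofNat 269425143551660564439981878174285824, .ofNat 0, .ofNat 0, .ofNat 0, .ofNat 0, .ofNat 0⟩)
    (by decide +kernel)
theorem L02596 : Good (Phi V5.P V5.D 1 (-1)) ⟨3, 4, 2, 0, 1, 0, 2, 3, 3, 0⟩ :=
  leafYS_sound T5.ok_pm T5.Ypm.bz_eq (w := 181) (c := ⟨⟨.negSucc 604, .negSucc 410, .ofNat 46, .ofNat 88, .ofNat 572, .negSucc 1021⟩, ⟨.negSucc 12, .negSucc 78, .ofNat 177, .negSucc 4, .negSucc 26, .negSucc 2⟩, ⟨.ofNat 426, .ofNat 472, .negSucc 60, .ofNat 210, .negSucc 490, .ofNat 966⟩, ⟨.negSucc 1430, .negSucc 536, .ofNat 80, .ofNat 172, .ofNat 1203, .negSucc 2054⟩, ⟨.ofNat 8, .ofNat 252, .negSucc 48, .negSucc 35, .ofNat 272, .negSucc 418⟩, .ofNat 500, .ofNat 47, .ofNat 0, .ofNat 47, .ofNat 2393, .ofNat 0, .ofNat 480, .negSucc 11,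 .negSucc 486, .ofNat 0, .ofNat 128, .ofNat 18, .ofNat 0, .ofNat 0, .ofNat 914, .ofNat 220, .ofNat 0, .ofNat 0, .ofNat 0, .ofNat 0, .ofNat 0, .ofNat 0, .ofNat 0, .ofNat 0, .ofNat 0, .ofNat 0, .ofNat 0, .ofNat 0, .ofNat 0, .ofNat 0, .ofNat 0, .ofNat 0⟩)
    (by decide +kernel)
theorem L02597 : Good (Phi V5.P V5.D 1 (-1)) ⟨3, 5, 2, 0, 1, 0, 2, 3, 3, 0⟩ :=
  leafYS_sound T5.ok_pm T5.Ypm.bz_eq (w := 181) (c := ⟨⟨.negSucc 1014, .negSucc 710, .ofNat 58, .negSucc 172, .ofNat 408, .negSucc 811⟩, ⟨.negSucc 82, .negSucc 250, .ofNat 228, .negSucc 34, .ofNat 22, .negSucc 110⟩, ⟨.ofNat 937, .ofNat 662, .negSucc 30, .ofNat 417, .negSucc 298, .ofNat 687⟩, ⟨.negSucc 1960, .negSucc 906, .ofNat 88, .negSucc 343, .ofNat 766, .negSucc 1513⟩, ⟨.ofNat 198, .negSucc 112, .ofNat 30, .negSucc 99, .negSucc 134, .negSucc 251⟩, .ofNat 407, .negSucc 103, .ofNat 0, .negSucc 103, .ofNat 1209, .ofNat 0, .ofNat 411,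 .ofNat 54, .negSucc 549, .ofNat 0, .ofNat 128, .negSucc 39, .ofNat 0, .ofNat 0, .ofNat 892, .ofNat 179, .ofNat 0, .ofNat 0, .ofNat 0, .ofNat 0, .ofNat 0, .ofNat 0, .ofNat 4882626695341524449379661905920, .ofNat 0, .ofNat 0, .ofNat 0, .ofNat 6334095547435195994325446033408, .ofNat 0, .ofNat 0, .ofNat 0, .ofNat 0, .ofNat 0⟩)
    (by decide +kernel)
theorem L02598 : Good (Phi V5.P V5.D 1 (-1)) ⟨2, 2, 2, 0, 1, 0, 2, 2, 3, 1⟩ :=
  leafYS_sound T5.ok_pm T5.Ypm.bz_eq (w := 178) (c := ⟨⟨.negSucc 1592, .negSucc 667, .ofNat 35, .negSucc 168, .ofNat 57, .ofNat 11⟩, ⟨.negSucc 1, .negSucc 405, .ofNat 301, .negSucc 39, .negSucc 9, .negSucc 12⟩, ⟨.ofNat 1566, .ofNat 521, .negSucc 66, .negSucc 96, .ofNat 14, .ofNat 113⟩, ⟨.negSucc 3557, .negSucc 255, .ofNat 54, .negSucc 320, .ofNat 112, .ofNat 21⟩, ⟨.ofNat 38, .ofNat 58, .ofNat 5, .negSucc 312, .negSucc 56, .negSucc 72⟩, .ofNat 316, .negSucc 11, .ofNat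 0, .negSucc 11, .ofNat 644, .ofNat 0, .ofNat 558, .ofNat 8, .negSucc 262, .ofNat 0, .ofNat 128, .ofNat 14, .ofNat 0, .ofNat 0, .ofNat 852, .ofNat 618, .ofNat 0, .ofNat 0, .ofNat 0, .ofNat 0, .ofNat 0, .ofNat 0, .ofNat 0, .ofNat 0, .ofNat 0, .ofNat 0, .ofNat 17032523202075483817659733114880, .ofNat 0, .ofNat 0, .ofNat 0, .ofNat 0, .ofNat 0⟩)
    (by decide +kernel)
theorem L02599 : Good (Phi V5.P V5.D 1 (-1)) ⟨2, 2, 2, 0, 1, 0, 3, 6, 3, 1⟩ :=
  leafYS_sound T5.ok_pm T5.Ypm.bz_eq (w := 182) (c := ⟨⟨.negSucc 1369, .negSucc 757, .negSucc 11, .negSucc 575, .ofNat 25, .ofNat 44⟩, ⟨.ofNat 2, .negSucc 410, .ofNat 298, .negSucc 74, .negSucc 10, .negSucc 8⟩, ⟨.ofNat 1231, .ofNat 713, .ofNat 14, .ofNat 707, .negSucc 46, .negSucc 48⟩, ⟨.negSucc 3083, .negSucc 479, .negSucc 44, .negSucc 1085, .ofNat 66, .ofNat 59⟩, ⟨.ofNat 63, .negSucc 11, .negSucc 7, .negSucc 395, .negSucc 42, .negSucc 81⟩, .ofNat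 315, .negSucc 19, .ofNat 0, .negSucc 19, .ofNat 645, .ofNat 0, .ofNat 525, .ofNat 15, .negSucc 241, .ofNat 0, .ofNat 128, .ofNat 3, .ofNat 0, .ofNat 0, .ofNat 653, .ofNat 383, .ofNat 0, .ofNat 0, .ofNat 0, .ofNat 0, .ofNat 0, .ofNat 0, .ofNat 0, .ofNat 0, .ofNat 0, .ofNat 0, .ofNat 297726603209435752744315120517120, .ofNat 0, .ofNat 0, .ofNat 0, .ofNat 0, .ofNat 0⟩)
    (by decide +kernel)
theorem L02600 : Good (Phi V5.P V5.D 1 (-1)) ⟨3, 4, 2, 0, 1, 0, 3, 7, 3, 1⟩ :=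
  leafYS_sound T5.ok_pm T5.Ypm.bz_eq (w := 186) (c := ⟨⟨.negSucc 930, .negSucc 507, .ofNat 29, .negSucc 1098, .ofNat 268, .negSucc 177⟩, ⟨.ofNat 9, .negSucc 178, .ofNat 256, .negSucc 38, .negSucc 25, .negSucc 17⟩, ⟨.ofNat 721, .ofNat 530, .negSucc 21, .ofNat 1488, .negSucc 359, .ofNat 10⟩, ⟨.negSucc 2163, .negSucc 519, .ofNat 16, .negSucc 2269, .ofNat 638, .negSucc 397⟩, ⟨.ofNat 41, .negSucc 65, .ofNat 58, .negSucc 705, .negSucc 69, .ofNat 58⟩, .ofNat 436, .ofNat 15, .ofNat 0, .ofNat 15, .ofNat 1433, .ofNat 0, .ofNat 579, .negSucc 4, .negSucc 262, .ofNat 0, .ofNat 128, .ofNat 9, .ofNat 0, .ofNat 0, .ofNat 697, .ofNat 484, .ofNat 0, .ofNat 0, .ofNat 0, .ofNat 0, .ofNat 0, .ofNat 1896332069068461054620295413991735296, .ofNat 0, .ofNat 0, .ofNat 0, .ofNat 0, .ofNat 0, .ofNat 0, .ofNat 0, .ofNat 533355500945348133271187817987309568, .ofNat 0, .ofNat 0⟩)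
    (by decide +kernel)
theorem L02601 : Good (Phi V5.P V5.D 1 (-1)) ⟨3, 5, 2, 0, 1, 0, 3, 7, 3, 1⟩ :=
  leafYS_sound T5.ok_pm T5.Ypm.bz_eq (w := 186) (c := ⟨⟨.negSucc 1354, .negSucc 492, .ofNat 24, .negSucc 1461, .negSucc 0, .negSucc 16⟩, ⟨.negSucc 130, .negSucc 310, .ofNat 291, .negSucc 238, .negSucc 12, .ofNat 1⟩, ⟨.ofNat 1168, .ofNat 533, .ofNat 19, .ofNat 1709, .negSucc 94, .negSucc 153⟩, ⟨.negSucc 2631, .negSucc 331, .ofNat 19, .negSucc 2624, .ofNat 29, .negSucc 73⟩, ⟨.ofNat 35, .ofNat 159, .ofNat 168, .negSucc 614, .negSucc 79, .negSucc 163⟩, .ofNat 394, .negSucc 74, .ofNat 0, .negSucc 74, .ofNat 1033, .ofNat 0, .ofNat 418, .ofNat 37, .negSucc 323, .ofNat 0, .ofNat 128, .negSucc 15, .ofNat 0, .ofNat 0, .ofNat 717, .ofNat 241, .ofNat 0, .ofNat 0, .ofNat 3625607180567197422904043110400, .ofNat 0, .ofNat 0, .ofNat 950353971117287203835232982344400896, .ofNat 165888893835807780036548126310400,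 .ofNat 0, .ofNat 0, .ofNat 177819938505051243709245246918361088, .ofNat 157571535420515944954200944803840, .ofNat 0, .ofNat 0, .ofNat 0, .ofNat 0, .ofNat 0⟩)
    (by decide +kernel)
theorem L02602 : Good (Phi V5.P V5.D 1 (-1)) ⟨2, 3, 2, 0, 1, 0, 1, 1, 2, 0⟩ :=
  out_sound (S := T5.ds_pm) T5.ok_pm (w := 37) (j := 3) (by decide +kernel)
theorem L02603 : Good (Phi V5.P V5.D 1 (-1)) ⟨2, 2, 2, 0, 2, 0, 2, 2, 3, 2⟩ :=
  leafYS_sound T5.ok_pm T5.Ypm.bz_eq (w := 194) (c := ⟨⟨.negSucc 1591, .negSucc 538, .ofNat 10, .negSucc 86, .ofNat 55, .ofNat 186⟩, ⟨.negSucc 31, .negSucc 358, .ofNat 286, .negSucc 16, .negSucc 5, .ofNat 15⟩, ⟨.ofNat 1609, .ofNat 508, .ofNat 25, .ofNat 103, .negSucc 246, .negSucc 174⟩, ⟨.negSucc 3509, .negSucc 105, .negSucc 11, .negSucc 163, .ofNat 123, .ofNat 358⟩, ⟨.ofNat 8, .ofNat 31, .negSucc 10, .negSucc 177, .negSucc 2, .negSucc 16⟩, .ofNat 317, .negSucc 13, .ofNat 0,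 .negSucc 13, .ofNat 650, .ofNat 0, .ofNat 369, .ofNat 9, .negSucc 88, .ofNat 0, .ofNat 128, .ofNat 0, .ofNat 0, .ofNat 0, .ofNat 557, .ofNat 3140, .ofNat 66143615831030563285708960503414390784, .ofNat 0, .ofNat 3534850373418929537204625185177600, .ofNat 0, .ofNat 0, .ofNat 0, .ofNat 0, .ofNat 0, .ofNat 0, .ofNat 0, .ofNat 1169504140614736560536488053301051392, .ofNat 0, .ofNat 0, .ofNat 0, .ofNat 389973365588063295138082290153816064, .ofNat 0⟩)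
    (by decide +kernel)
theorem L02604 : Good (Phi V5.P V5.D 1 (-1)) ⟨2, 2, 2, 0, 3, 2, 2, 2, 3, 2⟩ :=
  leafYS_sound T5.ok_pm T5.Ypm.bz_eq (w := 207) (c := ⟨⟨.negSucc 1640, .negSucc 569, .ofNat 17, .negSucc 67, .negSucc 64, .ofNat 174⟩, ⟨.negSucc 44, .negSucc 382, .ofNat 286, .negSucc 3, .negSucc 1, .ofNat 5⟩, ⟨.ofNat 1576, .ofNat 482, .ofNat 64, .ofNat 71, .ofNat 19, .negSucc 71⟩, ⟨.negSucc 3604, .negSucc 124, .negSucc 12, .negSucc 145, .negSucc 127, .ofNat 351⟩, ⟨.negSucc 153, .ofNat 8, .ofNat 1, .negSucc 110, .negSucc 70, .negSucc 26⟩, .ofNat 170, .negSucc 2, .ofNat 0, .negSucc 2, .ofNat 234, .ofNat 0, .ofNat 249, .ofNat 4, .negSucc 116, .ofNat 0, .ofNat 128, .ofNat 11, .ofNat 0, .ofNat 0, .ofNat 456, .ofNat 1590, .ofNat 0, .ofNat 0, .ofNat 0, .ofNat 0, .ofNat 0, .ofNat 0, .ofNat 1948770904248384097724069383001914474496, .ofNat 0, .ofNat 0, .ofNat 0, .ofNat 6640506766814210561768922875246730543104,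 .ofNat 0, .ofNat 0, .ofNat 0, .ofNat 3908378296216138390736013968964765876224, .ofNat 0⟩)
    (by decide +kernel)
theorem L02605 : Good (Phi V5.P V5.D 1 (-1)) ⟨2, 2, 2, 0, 3, 3, 2, 2, 3, 2⟩ :=
  leafYS_sound T5.ok_pm T5.Ypm.bz_eq (w := 207) (c := ⟨⟨.negSucc 1709, .negSucc 637, .ofNat 40, .negSucc 111, .negSucc 154, .ofNat 222⟩, ⟨.negSucc 38, .negSucc 422, .ofNat 305, .negSucc 27, .negSucc 28, .ofNat 9⟩, ⟨.ofNat 1490, .ofNat 509, .ofNat 66, .ofNat 80, .ofNat 280, .ofNat 39⟩, ⟨.negSucc 3767, .negSucc 162, .negSucc 1, .negSucc 194, .negSucc 272, .ofNat 430⟩, ⟨.negSucc 263, .ofNat 31, .ofNat 5, .negSucc 92, .negSucc 139, .negSucc 30⟩, .ofNat 316, .negSucc 15, .ofNat 0, .negSucc 15, .ofNat 649, .ofNat 0, .ofNat 292, .ofNat 10, .negSucc 103, .ofNat 0, .ofNat 128, .ofNat 5, .ofNat 0, .ofNat 0, .ofNat 700, .ofNat 1338, .ofNat 0, .ofNat 0, .ofNat 0, .ofNat 0, .ofNat 0, .ofNat 0, .ofNat 11865914491231654857368929111264353845248,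 .ofNat 0, .ofNat 0, .ofNat 0, .ofNat 13793653353127652801100231927356305965056, .ofNat 0, .ofNat 0, .ofNat 0, .ofNat 0, .ofNat 0⟩)
    (by decide +kernel)
theorem L02606 : Good (Phi V5.P V5.D 1 (-1)) ⟨3, 4, 2, 0, 1, 0, 3, 6, 3, 2⟩ :=
  leafYS_sound T5.ok_pm T5.Ypm.bz_eq (w := 187) (c := ⟨⟨.negSucc 1356, .negSucc 301, .negSucc 5, .negSucc 549, .negSucc 41, .ofNat 114⟩, ⟨.negSucc 37, .negSucc 155, .ofNat 282, .negSucc 25, .ofNat 0, .negSucc 1⟩, ⟨.ofNat 1097, .ofNat 275, .ofNat 89, .ofNat 956, .negSucc 60, .negSucc 189⟩, ⟨.negSucc 3013, .negSucc 126, .negSucc 53, .negSucc 1137, .negSucc 83, .ofNat 226⟩, ⟨.negSucc 2, .ofNat 15, .negSucc 12, .negSucc 541, .ofNat 2, .ofNat 27⟩, .ofNat 437, .ofNat 18, .ofNat 0, .ofNat 18, .ofNat 1439, .ofNat 0, .ofNat 704, .negSucc 7, .negSucc 162, .ofNat 0, .ofNat 128, .ofNat 1, .ofNat 0, .ofNat 0, .ofNat 1028, .ofNat 950, .ofNat 0, .ofNat 0, .ofNat 0, .ofNat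 0, .ofNat 0, .ofNat 0, .ofNat 0, .ofNat 0, .ofNat 0, .ofNat 0, .ofNat 0, .ofNat 0, .ofNat 0, .ofNat 2805946171219296074502603386598195200, .ofNat 0, .ofNat 0⟩)
    (by decide +kernel)
theorem L02607 : Good (Phi V5.P V5.D 1 (-1)) ⟨3, 4, 2, 0, 1, 0, 3, 7, 3, 2⟩ :=
  leafYS_sound T5.ok_pm T5.Ypm.bz_eq (w := 186) (c := ⟨⟨.negSucc 1199, .negSucc 368, .ofNat 16, .negSucc 917, .negSucc 48, .ofNat 31⟩, ⟨.negSucc 59, .negSucc 167, .ofNat 297, .negSucc 18, .ofNat 8, .ofNat 5⟩, ⟨.ofNat 824, .ofNat 357, .ofNat 82, .ofNat 1321, .negSucc 116, .negSucc 201⟩, ⟨.negSucc 2678, .negSucc 260, .negSucc 13, .negSucc 1884, .negSucc 74, .ofNat 50⟩, ⟨.negSucc 59, .negSucc 49, .ofNat 70, .negSucc 561, .ofNat 83, .ofNat 32⟩, .ofNat 439, .ofNat 34, .ofNat 0, .ofNat 34, .ofNat 1412, .ofNat 0, .ofNat 565, .negSucc 14, .negSucc 145, .ofNat 0, .ofNat 128, .ofNat 1, .ofNat 0, .ofNat 0, .ofNat 693, .ofNat 543, .ofNat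 0, .ofNat 8546670787910424363609851485487104, .ofNat 0, .ofNat 0, .ofNat 0, .ofNat 0, .ofNat 0, .ofNat 0, .ofNat 0, .ofNat 559061887149046603186996454717652992, .ofNat 0, .ofNat 0, .ofNat 0, .ofNat 2063781901600797545670735050039099392, .ofNat 0, .ofNat 0⟩)
    (by decide +kernel)
theorem L02608 : Good (Phi V5.P V5.D 1 (-1)) ⟨3, 5, 2, 0, 1, 0, 3, 6, 3, 2⟩ :=
  leafYS_sound T5.ok_pm T5.Ypm.bz_eq (w := 187) (c := ⟨⟨.negSucc 1626, .negSucc 387, .ofNat 10, .negSucc 741, .negSucc 96, .ofNat 169⟩, ⟨.negSucc 164, .negSucc 272, .ofNat 299, .negSucc 158, .negSucc 18, .ofNat 26⟩, ⟨.ofNat 1424, .ofNat 383, .ofNat 47, .ofNat 974, .negSucc 7, .negSucc 249⟩, ⟨.negSucc 3160, .negSucc 170, .negSucc 26, .negSucc 1263, .negSucc 161, .ofNat 299⟩, ⟨.ofNat 39, .negSucc 44, .ofNat 19, .negSucc 630, .negSucc 65, .ofNat 24⟩, .ofNat 407, .negSucc 115, .ofNat 0, .negSucc 115, .ofNat 1204, .ofNat 0, .ofNat 451,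 .ofNat 53, .negSucc 140, .ofNat 0, .ofNat 128, .negSucc 14, .ofNat 0, .ofNat 0, .ofNat 770, .ofNat 1082, .ofNat 0, .ofNat 0, .ofNat 0, .ofNat 0, .ofNat 0, .ofNat 0, .ofNat 0, .ofNat 0, .ofNat 0, .ofNat 44962888052218731844476587804196864, .ofNat 742804459403282897462409054650368, .ofNat 0, .ofNat 0, .ofNat 1533110398869149898295991581957685248, .ofNat 166300113778171399369557702344704, .ofNat 0⟩)
    (by decide +kernel)
theorem L02609 : Good (Phi V5.P V5.D 1 (-1)) ⟨3, 5, 2, 0, 1, 0, 3, 7, 3, 2⟩ :=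
  leafYS_sound T5.ok_pm T5.Ypm.bz_eq (w := 187) (c := ⟨⟨.negSucc 1511, .negSucc 450, .ofNat 45, .negSucc 1155, .negSucc 130, .ofNat 76⟩, ⟨.negSucc 171, .negSucc 293, .ofNat 310, .negSucc 189, .negSucc 7, .ofNat 24⟩, ⟨.ofNat 1195, .ofNat 459, .ofNat 65, .ofNat 1430, .negSucc 63, .negSucc 251⟩, ⟨.negSucc 2914, .negSucc 267, .ofNat 6, .negSucc 2059, .negSucc 236, .ofNat 112⟩, ⟨.negSucc 31, .negSucc 11, .negSucc 72, .negSucc 668, .negSucc 42, .ofNat 74⟩, .ofNat 408, .negSucc 99, .ofNat 0, .negSucc 99, .ofNat 1221, .ofNat 0, .ofNat 396, .ofNat 46, .negSucc 135, .ofNat 0, .ofNat 128, .negSucc 14, .ofNat 0, .ofNat 0, .ofNat 569, .ofNat 654, .ofNat 0, .ofNat 0, .ofNat 11451643144374900290030904803328, .ofNat 0, .ofNat 0, .ofNat 1991078942533143223532749626462437376, .ofNat 146271799172031535952070594002944, .ofNat 0, .ofNat 0, .ofNat 953999707832141210473133920957235200, .ofNat 317680390853454923389903503884288,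 .ofNat 0, .ofNat 0, .ofNat 1289605657200549064485768460343705600, .ofNat 78982580766545085678439869972480, .ofNat 0⟩)
    (by decide +kernel)

end Crest.Agent.R097C5.N5pm
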