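import Crest.Agent.R097.KS3
import Crest.Agent.R097.T5Ypm

/-!
# Row 97, box cover in dimension n = 5 (generated)
-/

set_option autoImplicit false
set_option Elab.async false
set_option maxHeartbeats 0
set_option maxRecDepth 100000

open Crest.Agent.R097 Crest.Agent.R097.KA


namespace Crest.Agent.R097C5.N5pm

theorem L02610 : Good (Phi V5.P V5.D 1 (-1)) ⟨2, 2, 2, 0, 2, 0, 2, 2, 4, 6⟩ :=
  leafYS_sound T5.ok_pm T5.Ypm.bz_eq (w := 200) (c := ⟨⟨.negSucc 1372, .negSucc 521, .negSucc 0, .negSucc 126, .ofNat 21, .ofNat 61⟩, ⟨.negSucc 19, .negSucc 344, .ofNat 266, .negSucc 21, .ofNat 1, .ofNat 9⟩, ⟨.ofNat 1375, .ofNat 503, .ofNat 62, .ofNat 223, .negSucc 283, .negSucc 83⟩, ⟨.negSucc 3059, .negSucc 116, .negSucc 26, .negSucc 243, .ofNat 43, .ofNat 110⟩, ⟨.negSucc 3, .ofNat 10, .ofNat 0, .negSucc 184, .ofNat 15, .negSucc 20⟩, .ofNat 313, .negSucc 11, .ofNat 0, .negSucc 11,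 .ofNat 637, .ofNat 0, .ofNat 354, .ofNat 8, .negSucc 73, .ofNat 0, .ofNat 128, .negSucc 1, .ofNat 0, .ofNat 0, .ofNat 691, .ofNat 6997, .ofNat 2412791115361194828779915363761076043776, .ofNat 0, .ofNat 0, .ofNat 0, .ofNat 0, .ofNat 0, .ofNat 0, .ofNat 0, .ofNat 0, .ofNat 0, .ofNat 60685936090009563554358433433086066688, .ofNat 0, .ofNat 0, .ofNat 0, .ofNat 0, .ofNat 0⟩)
    (by decide +kernel)
theorem L02611 : Good (Phi V5.P V5.D 1 (-1)) ⟨2, 2, 2, 0, 2, 1, 2, 2, 4, 6⟩ :=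
  leafYS_sound T5.ok_pm T5.Ypm.bz_eq (w := 199) (c := ⟨⟨.negSucc 1433, .negSucc 583, .ofNat 30, .negSucc 164, .negSucc 154, .ofNat 110⟩, ⟨.negSucc 35, .negSucc 394, .ofNat 288, .negSucc 19, .negSucc 12, .ofNat 6⟩, ⟨.ofNat 1377, .ofNat 500, .ofNat 158, .ofNat 258, .ofNat 109, .negSucc 34⟩, ⟨.negSucc 3187, .negSucc 141, .negSucc 28, .negSucc 307, .negSucc 275, .ofNat 203⟩, ⟨.negSucc 144, .negSucc 7, .negSucc 11, .negSucc 246, .negSucc 87, .negSucc 15⟩, .ofNat 317, .negSucc 12, .ofNat 0, .negSucc 12, .ofNat 649, .ofNat 0, .ofNat 180, .ofNat 8, .negSucc 57, .ofNat 0, .ofNat 128, .negSucc 6, .ofNat 0, .ofNat 0, .ofNat 757, .ofNat 2133, .ofNat 574262067214913378798205970420649164800, .ofNat 0, .ofNat 0, .ofNat 0, .ofNat 0, .ofNat 0, .ofNat 26230435861044870627241850998905372672, .ofNat 0, .ofNat 0, .ofNat 0, .ofNat 39414985572271152522947146393520701440, .ofNat 0, .ofNat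 0, .ofNat 692285803559963989715402479265483063296, .ofNat 21106252249161345664369682892885852160, .ofNat 0⟩)
    (by decide +kernel)
theorem L02612 : Good (Phi V5.P V5.D 1 (-1)) ⟨2, 2, 2, 0, 1, 0, 2, 2, 4, 7⟩ :=
  leafYS_sound T5.ok_pm T5.Ypm.bz_eq (w := 185) (c := ⟨⟨.negSucc 953, .negSucc 636, .ofNat 23, .negSucc 424, .negSucc 290, .ofNat 97⟩, ⟨.ofNat 50, .negSucc 412, .ofNat 281, .negSucc 74, .negSucc 46, .ofNat 12⟩, ⟨.ofNat 518, .ofNat 535, .ofNat 274, .ofNat 1229, .ofNat 83, .ofNat 4⟩, ⟨.negSucc 2283, .negSucc 200, .negSucc 35, .negSucc 831, .negSucc 530, .ofNat 163⟩, ⟨.ofNat 350, .negSucc 83, .negSucc 30, .negSucc 725, .negSucc 170, .ofNat 16⟩, .ofNat 318, .negSucc 10, .ofNat 0, .negSucc 10, .ofNat 653, .ofNat 0, .ofNat 184, .ofNat 6, .negSucc 44, .ofNat 0, .ofNat 128, .negSucc 22, .ofNat 0, .ofNat 0, .ofNat 1069, .ofNat 2475, .ofNat 486643048199095032176744978295291904,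 .ofNat 0, .ofNat 62811132847559833607747592519680, .ofNat 0, .ofNat 3193036116081215236392861825293615104, .ofNat 0, .ofNat 45640524512582624653435297857536, .ofNat 0, .ofNat 958807613689273528031405568595853312, .ofNat 0, .ofNat 1609690082601539307301009272864768, .ofNat 0, .ofNat 13391369203651260416582582597897420800, .ofNat 446910087659726668430381347141320704, .ofNat 1252752606057039936500805440372736, .ofNat 0⟩)
    (by decide +kernel)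
theorem L02613 : Good (Phi V5.P V5.D 1 (-1)) ⟨2, 2, 2, 0, 1, 0, 3, 6, 4, 6⟩ :=
  leafYS_sound T5.ok_pm T5.Ypm.bz_eq (w := 187) (c := ⟨⟨.negSucc 1283, .negSucc 619, .ofNat 28, .negSucc 512, .negSucc 91, .ofNat 53⟩, ⟨.negSucc 19, .negSucc 400, .ofNat 285, .negSucc 56, .negSucc 2, .ofNat 3⟩, ⟨.ofNat 948, .ofNat 609, .ofNat 94, .ofNat 934, .negSucc 96, .negSucc 102⟩, ⟨.negSucc 2882, .negSucc 220, .negSucc 6, .negSucc 1002, .negSucc 161, .ofNat 101⟩, ⟨.negSucc 24, .negSucc 7, .negSucc 2, .negSucc 547, .ofNat 42, .ofNat 33⟩, .ofNat 313, .negSucc 11, .ofNat 0, .negSucc 11, .ofNat 637, .ofNat 0, .ofNat 273, .ofNat 8, .negSucc 77, .ofNat 0, .ofNat 128, .negSucc 9, .ofNat 0, .ofNat 0, .ofNat 610, .ofNat 694, .ofNat 0, .ofNat 0, .ofNat 379974819861844493838452994867200, .ofNat 0, .ofNat 0, .ofNat 0, .ofNat 0, .ofNat 0, .ofNat 0, .ofNat 470191891001394592377254505890185216,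 .ofNat 0, .ofNat 0, .ofNat 0, .ofNat 700142006537747640106229664885768192, .ofNat 8766164958590166007676763381956608, .ofNat 0⟩)
    (by decide +kernel)
theorem L02614 : Good (Phi V5.P V5.D 1 (-1)) ⟨2, 2, 2, 0, 1, 0, 3, 6, 4, 7⟩ :=
  leafYS_sound T5.ok_pm T5.Ypm.bz_eq (w := 188) (c := ⟨⟨.negSucc 1219, .negSucc 589, .negSucc 4, .negSucc 503, .negSucc 111, .ofNat 71⟩, ⟨.negSucc 29, .negSucc 373, .ofNat 265, .negSucc 29, .ofNat 16, .negSucc 7⟩, ⟨.ofNat 823, .ofNat 651, .ofNat 153, .ofNat 837, .negSucc 124, .negSucc 95⟩, ⟨.negSucc 2727, .negSucc 191, .negSucc 42, .negSucc 1037, .negSucc 247, .ofNat 165⟩, ⟨.ofNat 18, .negSucc 43, .negSucc 27, .negSucc 519, .ofNat 56, .negSucc 16⟩, .ofNat 317, .negSucc 14, .ofNat 0, .negSucc 14, .ofNat 651, .ofNat 0, .ofNat 289, .ofNat 9, .negSucc 83, .ofNat 0, .ofNat 128, .negSucc 18, .ofNat 0, .ofNat 0, .ofNat 849, .ofNat 763, .ofNat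 0, .ofNat 0, .ofNat 598197395754758285016010676240384, .ofNat 0, .ofNat 0, .ofNat 0, .ofNat 0, .ofNat 0, .ofNat 0, .ofNat 504564106649978016259154267116404736, .ofNat 0, .ofNat 0, .ofNat 12043070915781870976847394154202791936, .ofNat 1605215153406269145055081828213325824, .ofNat 10536209538919668896607671534223360, .ofNat 0⟩)
    (by decide +kernel)
theorem L02615 : Good (Phi V5.P V5.D 1 (-1)) ⟨2, 2, 2, 0, 2, 0, 3, 7, 3, 3⟩ :=
  leafYS_sound T5.ok_pm T5.Ypm.bz_eq (w := 197) (c := ⟨⟨.negSucc 1192, .negSucc 670, .ofNat 14, .negSucc 452, .negSucc 212, .ofNat 40⟩, ⟨.negSucc 30, .negSucc 383, .ofNat 290, .negSucc 32, .negSucc 0, .ofNat 29⟩, ⟨.ofNat 724, .ofNat 703, .ofNat 80, .ofNat 519, .ofNat 12, .negSucc 182⟩, ⟨.negSucc 2679, .negSucc 367, .negSucc 25, .negSucc 882, .negSucc 409, .ofNat 39⟩, ⟨.ofNat 13, .negSucc 67, .negSucc 1, .negSucc 198, .ofNat 23, .ofNat 28⟩,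 .ofNat 317, .negSucc 11, .ofNat 0, .negSucc 11, .ofNat 647, .ofNat 0, .ofNat 309, .ofNat 8, .negSucc 83, .ofNat 0, .ofNat 128, .negSucc 8, .ofNat 0, .ofNat 0, .ofNat 444, .ofNat 1063, .ofNat 0, .ofNat 0, .ofNat 0, .ofNat 0, .ofNat 0, .ofNat 877402702022387371640508995569513922560, .ofNat 0, .ofNat 0, .ofNat 0, .ofNat 229984870760113997531572619288279777280, .ofNat 7819066440967114768989406328449400832, .ofNat 0, .ofNat 1827528641767592691694234996999475691520, .ofNat 145690518709523514783809687037423910912, .ofNat 1358404848092310612963762661847203840, .ofNat 0⟩)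
    (by decide +kernel)
theorem L02616 : Good (Phi V5.P V5.D 1 (-1)) ⟨2, 2, 2, 0, 2, 1, 3, 7, 3, 3⟩ :=
  leafYS_sound T5.ok_pm T5.Ypm.bz_eq (w := 197) (c := ⟨⟨.negSucc 1595, .negSucc 810, .ofNat 19, .negSucc 410, .negSucc 297, .ofNat 76⟩, ⟨.negSucc 42, .negSucc 480, .ofNat 316, .negSucc 54, .ofNat 18, .ofNat 20⟩, ⟨.ofNat 1159, .ofNat 906, .ofNat 231, .ofNat 580, .ofNat 12, .negSucc 303⟩, ⟨.negSucc 3531, .negSucc 431, .negSucc 49, .negSucc 786, .negSucc 631, .ofNat 130⟩, ⟨.negSucc 181, .negSucc 198, .negSucc 57, .negSucc 440, .ofNat 7, .ofNat 75⟩, .ofNat 318, .negSucc 14, .ofNat 0, .negSucc 14, .ofNat 651, .ofNat 0, .ofNat 199, .ofNat 9, .negSucc 39, .ofNat 0, .ofNat 128, .negSucc 12, .ofNat 0, .ofNat 0, .ofNat 355, .ofNat 574, .ofNat 0, .ofNat 10714189399084654499242927156933689344, .ofNat 0, .ofNat 0, .ofNat 0, .ofNat 227356859922487356837375019151960047616, .ofNat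 0, .ofNat 0, .ofNat 0, .ofNat 246562326251462250184205403558598672384, .ofNat 0, .ofNat 0, .ofNat 0, .ofNat 261805444666353402958495999403787026432, .ofNat 2605653664422785893879365867929600, .ofNat 0⟩)
    (by decide +kernel)
theorem L02617 : Good (Phi V5.P V5.D 1 (-1)) ⟨2, 3, 2, 0, 1, 0, 1, 1, 2, 1⟩ :=
  out_sound (S := T5.ds_pm) T5.ok_pm (w := 37) (j := 3) (by decide +kernel)
theorem L02618 : Good (Phi V5.P V5.D 1 (-1)) ⟨1, 1, 2, 0, 1, 0, 1, 1, 1, 1⟩ :=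
  leafYS_sound T5.ok_pm T5.Ypm.bz_eq (w := 171) (c := ⟨⟨.negSucc 1387, .negSucc 1141, .ofNat 5, .ofNat 1, .negSucc 0, .ofNat 1⟩, ⟨.negSucc 16, .negSucc 710, .ofNat 259, .ofNat 0, .ofNat 0, .ofNat 0⟩, ⟨.ofNat 691, .ofNat 1141, .negSucc 4, .negSucc 0, .ofNat 1, .negSucc 0⟩, ⟨.negSucc 3072, .negSucc 514, .ofNat 2, .ofNat 2, .negSucc 1, .ofNat 2⟩, ⟨.negSucc 0, .ofNat 7, .ofNat 0, .ofNat 0, .ofNat 0, .ofNat 0⟩, .ofNat 170, .negSucc 1, .ofNat 0, .negSucc 1, .ofNat 234, .ofNat 0, .ofNat 161, .ofNat 2, .negSucc 132, .ofNat 0, .ofNat 128, .negSucc 1, .ofNat 0, .ofNat 0, .ofNat 328, .ofNat 2348, .ofNat 2284810297253964982664980070400000000, .ofNat 87877342954033595449228724554170368, .ofNat 1016225981900956938599923712, .ofNat 0, .ofNat 5810672006290145097019002175094784, .ofNat 285386133732854915059564224184320, .ofNat 5583563153478069984373506048, .ofNat 0, .ofNat 146227859024253758890558724505600000000,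 .ofNat 6897542452720673940366789292958154752, .ofNat 5788516531910142615386849280, .ofNat 0, .ofNat 5293680118015309445890384399958016, .ofNat 261439803898225188190614257139712, .ofNat 5485900119299321665219985408, .ofNat 0⟩)
    (by decide +kernel)
theorem L02619 : Good (Phi V5.P V5.D 1 (-1)) ⟨3, 4, 2, 1, 1, 0, 2, 2, 3, 0⟩ :=
  leafYS_sound T5.ok_pm T5.Ypm.bz_eq (w := 181) (c := ⟨⟨.negSucc 220, .negSucc 81, .ofNat 310, .ofNat 804, .negSucc 1, .negSucc 1749⟩, ⟨.ofNat 35, .negSucc 154, .ofNat 133, .negSucc 109, .ofNat 12, .ofNat 302⟩, ⟨.ofNat 116, .ofNat 48, .negSucc 306, .negSucc 784, .ofNat 86, .ofNat 1709⟩, ⟨.negSucc 483, .ofNat 52, .ofNat 607, .ofNat 1664, .negSucc 33, .negSucc 3722⟩, ⟨.negSucc 242, .ofNat 102, .ofNat 401, .ofNat 155, .ofNat 193, .negSucc 224⟩, .ofNat 463, .ofNat 167, .ofNat 0, .ofNat 167, .ofNat 1276, .ofNat 0, .ofNat 371, .negSucc 67, .negSucc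 342, .ofNat 0, .ofNat 128, .ofNat 60, .ofNat 0, .ofNat 0, .ofNat 664, .ofNat 301, .ofNat 0, .ofNat 0, .ofNat 0, .ofNat 0, .ofNat 0, .ofNat 0, .ofNat 0, .ofNat 0, .ofNat 0, .ofNat 0, .ofNat 7745010225500418195146804297728, .ofNat 0, .ofNat 0, .ofNat 0, .ofNat 0, .ofNat 0⟩)
    (by decide +kernel)
theorem L02620 : Good (Phi V5.P V5.D 1 (-1)) ⟨3, 4, 2, 1, 1, 0, 2, 3, 3, 0⟩ :=
  leafYS_sound T5.ok_pm T5.Ypm.bz_eq (w := 181) (c := ⟨⟨.negSucc 666, .negSucc 448, .ofNat 53, .ofNat 94, .ofNat 538, .negSucc 845⟩, ⟨.ofNat 122, .negSucc 54, .ofNat 185, .negSucc 17, .negSucc 104, .ofNat 113⟩, ⟨.ofNat 516, .ofNat 433, .negSucc 70, .ofNat 189, .negSucc 464, .ofNat 808⟩, ⟨.negSucc 1435, .negSucc 663, .ofNat 47, .ofNat 214, .ofNat 1072, .negSucc 1826⟩, ⟨.ofNat 192, .negSucc 64, .negSucc 7, .ofNat 29, .negSucc 178, .negSucc 276⟩, .ofNat 461, .ofNat 160, .ofNat 0, .ofNat 160, .ofNat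 1276, .ofNat 0, .ofNat 423, .negSucc 62, .negSucc 485, .ofNat 0, .ofNat 128, .ofNat 79, .ofNat 0, .ofNat 0, .ofNat 877, .ofNat 301, .ofNat 0, .ofNat 0, .ofNat 0, .ofNat 0, .ofNat 0, .ofNat 0, .ofNat 0, .ofNat 0, .ofNat 0, .ofNat 0, .ofNat 4089489565276885170481711284224, .ofNat 0, .ofNat 0, .ofNat 0, .ofNat 0, .ofNat 0⟩)
    (by decide +kernel)
theorem L02621 : Good (Phi V5.P V5.D 1 (-1)) ⟨3, 4, 2, 1, 1, 0, 2, 2, 3, 1⟩ :=
  leafYS_sound T5.ok_pm T5.Ypm.bz_eq (w := 182) (c := ⟨⟨.negSucc 1608, .negSucc 305, .ofNat 16, .negSucc 101, .ofNat 92, .negSucc 1⟩, ⟨.ofNat 266, .negSucc 149, .ofNat 300, .negSucc 11, .negSucc 18, .negSucc 8⟩, ⟨.ofNat 1540, .ofNat 261, .negSucc 79, .negSucc 101, .negSucc 29, .ofNat 116⟩, ⟨.negSucc 3546, .negSucc 125, .negSucc 0, .negSucc 253, .ofNat 179, .negSucc 23⟩, ⟨.ofNat 92, .ofNat 5, .negSucc 48, .negSucc 285, .negSucc 35, .negSucc 121⟩,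 .ofNat 537, .ofNat 268, .ofNat 0, .ofNat 268, .ofNat 1971, .ofNat 0, .ofNat 403, .negSucc 80, .negSucc 195, .ofNat 0, .ofNat 128, .ofNat 35, .ofNat 0, .ofNat 0, .ofNat 757, .ofNat 393, .ofNat 0, .ofNat 0, .ofNat 0, .ofNat 0, .ofNat 0, .ofNat 0, .ofNat 0, .ofNat 0, .ofNat 0, .ofNat 0, .ofNat 9859547970139231323351584604160, .ofNat 0, .ofNat 0, .ofNat 0, .ofNat 0, .ofNat 0⟩)
    (by decide +kernel)
theorem L02622 : Good (Phi V5.P V5.D 1 (-1)) ⟨3, 4, 2, 1, 1, 0, 3, 6, 3, 1⟩ :=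
  leafYS_sound T5.ok_pm T5.Ypm.bz_eq (w := 186) (c := ⟨⟨.negSucc 1378, .negSucc 302, .ofNat 19, .negSucc 523, .ofNat 46, .negSucc 27⟩, ⟨.ofNat 238, .negSucc 158, .ofNat 279, .ofNat 25, .negSucc 8, .negSucc 3⟩, ⟨.ofNat 1217, .ofNat 259, .negSucc 55, .ofNat 730, .negSucc 5, .ofNat 42⟩, ⟨.negSucc 3054, .negSucc 135, .ofNat 30, .negSucc 1124, .ofNat 75, .negSucc 88⟩, ⟨.ofNat 35, .negSucc 13, .ofNat 6, .negSucc 434, .negSucc 33, .negSucc 38⟩, .ofNat 333, .ofNat 59, .ofNat 0, .ofNat 59, .ofNat 635, .ofNat 0, .ofNat 607, .negSucc 36, .negSucc 386, .ofNat 0, .ofNat 128, .ofNat 64, .ofNat 0, .ofNat 0, .ofNat 1055, .ofNat 520, .ofNat 0, .ofNat 0, .ofNat 0, .ofNat 0, .ofNat 0, .ofNat 0, .ofNat 0, .ofNat 0, .ofNat 0, .ofNat 0, .ofNat 50059632355962321874408993456128, .ofNat 0, .ofNat 0, .ofNat 0, .ofNat 0, .ofNat 0⟩)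
    (by decide +kernel)
theorem L02623 : Good (Phi V5.P V5.D 1 (-1)) ⟨3, 4, 2, 1, 1, 0, 3, 7, 3, 1⟩ :=
  leafYS_sound T5.ok_pm T5.Ypm.bz_eq (w := 186) (c := ⟨⟨.negSucc 962, .negSucc 481, .negSucc 58, .negSucc 998, .ofNat 221, .negSucc 170⟩, ⟨.ofNat 202, .negSucc 130, .ofNat 231, .ofNat 103, .negSucc 58, .ofNat 5⟩, ⟨.ofNat 638, .ofNat 591, .ofNat 145, .ofNat 1477, .negSucc 300, .ofNat 96⟩, ⟨.negSucc 2207, .negSucc 509, .negSucc 107, .negSucc 2194, .ofNat 514, .negSucc 377⟩, ⟨.ofNat 100, .ofNat 90, .ofNat 30, .negSucc 678, .ofNat 46, .negSucc 187⟩, .ofNat 460, .ofNat 158, .ofNat 0, .ofNat 158, .ofNat 1283, .ofNat 0, .ofNat 461, .negSucc 64, .negSucc 222, .ofNat 0, .ofNat 128, .ofNat 35, .ofNat 0, .ofNat 0, .ofNat 606, .ofNat 471, .ofNat 0, .ofNat 0, .ofNat 0, .ofNat 0, .ofNat 0, .ofNat 1460349536894593331101484505072926720, .ofNat 188102918670960934890568717172736,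 .ofNat 0, .ofNat 0, .ofNat 0, .ofNat 74765043407292897322289833443328, .ofNat 0, .ofNat 0, .ofNat 499581807850952670051377819812888576, .ofNat 23252982543472135629743398584320, .ofNat 0⟩)
    (by decide +kernel)
theorem L02624 : Good (Phi V5.P V5.D 1 (-1)) ⟨3, 5, 2, 1, 1, 0, 1, 1, 2, 0⟩ :=
  out_sound (S := T5.ds_pm) T5.ok_pm (w := 43) (j := 3) (by decide +kernel)
theorem L02625 : Good (Phi V5.P V5.D 1 (-1)) ⟨2, 3, 2, 1, 1, 0, 1, 1, 2, 0⟩ :=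
  out_sound (S := T5.ds_pm) T5.ok_pm (w := 37) (j := 3) (by decide +kernel)
theorem L02626 : Good (Phi V5.P V5.D 1 (-1)) ⟨3, 4, 2, 1, 2, 0, 2, 2, 3, 2⟩ :=
  leafYS_sound T5.ok_pm T5.Ypm.bz_eq (w := 199) (c := ⟨⟨.negSucc 1573, .negSucc 267, .ofNat 2, .negSucc 66, .ofNat 73, .ofNat 160⟩, ⟨.ofNat 257, .negSucc 142, .ofNat 277, .negSucc 7, .negSucc 13, .negSucc 22⟩, ⟨.ofNat 1582, .ofNat 270, .ofNat 27, .ofNat 142, .negSucc 248, .negSucc 142⟩, ⟨.negSucc 3476, .negSucc 80, .negSucc 12, .negSucc 165, .ofNat 154, .ofNat 322⟩, ⟨.ofNat 11, .ofNat 13, .ofNat 5, .negSucc 182, .negSucc 6, .negSucc 16⟩, .ofNat 470, .ofNat 198, .ofNat 0, .ofNat 198, .ofNat 1235, .ofNat 0, .ofNat 417, .negSucc 74, .negSucc 130, .ofNat 0, .ofNat 128, .ofNat 27, .ofNat 0, .ofNat 0, .ofNat 946, .ofNat 7054, .ofNat 0, .ofNat 0, .ofNat 0, .ofNat 0, .ofNat 0, .ofNat 0, .ofNat 0, .ofNat 0, .ofNat 0, .ofNat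 0, .ofNat 249224677507518582988064921279791104, .ofNat 0, .ofNat 0, .ofNat 0, .ofNat 370396362278569170560123019368333312, .ofNat 0⟩)
    (by decide +kernel)
theorem L02627 : Good (Phi V5.P V5.D 1 (-1)) ⟨3, 4, 2, 1, 2, 1, 2, 2, 3, 2⟩ :=
  leafYS_sound T5.ok_pm T5.Ypm.bz_eq (w := 198) (c := ⟨⟨.negSucc 1620, .negSucc 262, .ofNat 25, .negSucc 139, .negSucc 72, .ofNat 168⟩, ⟨.ofNat 251, .negSucc 155, .ofNat 284, .ofNat 2, .ofNat 4, .negSucc 27⟩, ⟨.ofNat 1485, .ofNat 188, .ofNat 56, .ofNat 159, .ofNat 174, .ofNat 105⟩, ⟨.negSucc 3601, .negSucc 39, .negSucc 4, .negSucc 313, .negSucc 159, .ofNat 334⟩, ⟨.negSucc 144, .ofNat 22, .negSucc 22, .negSucc 188, .negSucc 86, .negSucc 43⟩, .ofNat 470, .ofNat 198, .ofNat 0, .ofNat 198, .ofNat 1235, .ofNat 0, .ofNat 355, .negSucc 78, .negSucc 148, .ofNat 0, .ofNat 128, .ofNat 34, .ofNat 0, .ofNat 0, .ofNat 1106, .ofNat 2386, .ofNat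 843154232186728737563526870856101789696, .ofNat 0, .ofNat 921294973195079713864483407396864, .ofNat 0, .ofNat 0, .ofNat 0, .ofNat 645086528951731882230039562910957568, .ofNat 0, .ofNat 0, .ofNat 0, .ofNat 0, .ofNat 0, .ofNat 0, .ofNat 0, .ofNat 589065599173195347260526181962743808, .ofNat 0⟩)
    (by decide +kernel)
theorem L02628 : Good (Phi V5.P V5.D 1 (-1)) ⟨3, 5, 2, 1, 1, 0, 2, 2, 3, 2⟩ :=
  out_sound (S := T5.ds_pm) T5.ok_pm (w := 43) (j := 3) (by decide +kernel)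
theorem L02629 : Good (Phi V5.P V5.D 1 (-1)) ⟨2, 3, 2, 1, 1, 0, 2, 2, 3, 2⟩ :=
  out_sound (S := T5.ds_pm) T5.ok_pm (w := 37) (j := 3) (by decide +kernel)
theorem L02630 : Good (Phi V5.P V5.D 1 (-1)) ⟨3, 4, 2, 1, 2, 0, 2, 2, 3, 3⟩ :=
  leafYS_sound T5.ok_pm T5.Ypm.bz_eq (w := 200) (c := ⟨⟨.negSucc 1367, .negSucc 267, .ofNat 0, .negSucc 106, .ofNat 27, .ofNat 73⟩, ⟨.ofNat 228, .negSucc 137, .ofNat 262, .negSucc 2, .negSucc 5, .negSucc 4⟩, ⟨.ofNat 1367, .ofNat 293, .ofNat 109, .ofNat 279, .negSucc 300, .negSucc 69⟩, ⟨.negSucc 3042, .negSucc 109, .negSucc 26, .negSucc 247, .ofNat 63, .ofNat 141⟩, ⟨.ofNat 13, .negSucc 1, .ofNat 6, .negSucc 194, .negSucc 7, .negSucc 8⟩, .ofNat 334, .ofNat 59, .ofNat 0, .ofNat 59, .ofNat 637, .ofNat 0, .ofNat 346, .negSucc 34, .negSucc 108, .ofNat 0, .ofNat 128, .ofNat 10, .ofNat 0, .ofNat 0, .ofNat 989, .ofNat 13404, .ofNat 9141534084787720653602693244505699647488,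 .ofNat 0, .ofNat 0, .ofNat 0, .ofNat 63095902571528196924125712819303374389248, .ofNat 0, .ofNat 546326717017959079011184590467366912, .ofNat 0, .ofNat 0, .ofNat 0, .ofNat 0, .ofNat 0, .ofNat 34437518914473777567683620396985741213696, .ofNat 0, .ofNat 338637012896676016546132519536295936, .ofNat 0⟩)
    (by decide +kernel)
theorem L02631 : Good (Phi V5.P V5.D 1 (-1)) ⟨3, 4, 2, 1, 3, 2, 2, 2, 3, 3⟩ :=
  leafYS_sound T5.ok_pm T5.Ypm.bz_eq (w := 214) (c := ⟨⟨.negSucc 1445, .negSucc 264, .ofNat 10, .negSucc 61, .negSucc 67, .ofNat 102⟩, ⟨.ofNat 230, .negSucc 159, .ofNat 264, .ofNat 2, .ofNat 4, .negSucc 18⟩, ⟨.ofNat 1529, .ofNat 269, .ofNat 105, .ofNat 157, .negSucc 33, .ofNat 77⟩, ⟨.negSucc 3248, .negSucc 51, .negSucc 10, .negSucc 147, .negSucc 144, .ofNat 209⟩, ⟨.negSucc 170, .negSucc 0, .ofNat 0, .negSucc 114, .negSucc 43, .negSucc 35⟩, .ofNat 456, .ofNat 148, .ofNat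 0, .ofNat 148, .ofNat 1271, .ofNat 0, .ofNat 570, .negSucc 59, .negSucc 125, .ofNat 0, .ofNat 128, .ofNat 7, .ofNat 0, .ofNat 0, .ofNat 1807, .ofNat 8196, .ofNat 23968397982676934774732863457132052125581312, .ofNat 0, .ofNat 0, .ofNat 0, .ofNat 0, .ofNat 0, .ofNat 0, .ofNat 0, .ofNat 0, .ofNat 0, .ofNat 0, .ofNat 0, .ofNat 1461072973508542198940121676504488721099259904, .ofNat 0, .ofNat 15154085409642202035923484736489873473536, .ofNat 0⟩)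
    (by decide +kernel)
theorem L02632 : Good (Phi V5.P V5.D 1 (-1)) ⟨3, 4, 2, 1, 3, 3, 2, 2, 4, 6⟩ :=
  leafYS_sound T5.ok_pm T5.Ypm.bz_eq (w := 217) (c := ⟨⟨.negSucc 1498, .negSucc 281, .ofNat 8, .negSucc 55, .negSucc 129, .ofNat 98⟩, ⟨.ofNat 220, .negSucc 154, .ofNat 276, .ofNat 4, .ofNat 14, .negSucc 20⟩, ⟨.ofNat 1558, .ofNat 201, .ofNat 212, .ofNat 228, .ofNat 286, .ofNat 175⟩, ⟨.negSucc 3354, .negSucc 84, .negSucc 50, .negSucc 146, .negSucc 306, .ofNat 203⟩, ⟨.negSucc 246, .negSucc 15, .negSucc 17, .negSucc 126, .negSucc 164, .negSucc 13⟩, .ofNat 333, .ofNat 59, .ofNat 0, .ofNat 59, .ofNat 636, .ofNat 0, .ofNat 235, .negSucc 36, .negSucc 84, .ofNat 0, .ofNat 128, .negSucc 10, .ofNat 0, .ofNat 0, .ofNat 1703, .ofNat 3948, .ofNat 30864110729800543436969130287302959695921152, .ofNat 0, .ofNat 0, .ofNat 0, .ofNat 0, .ofNat 0, .ofNat 0, .ofNat 0, .ofNat 0, .ofNat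 27038570852913742302953386084904636789030912, .ofNat 78163833129792850010843673475587493593088, .ofNat 0, .ofNat 0, .ofNat 248940508576321460320604042809564058873757696, .ofNat 1125501457260391032988698460816545679409152, .ofNat 0⟩)
    (by decide +kernel)
theorem L02633 : Good (Phi V5.P V5.D 1 (-1)) ⟨3, 4, 2, 1, 3, 3, 3, 4, 4, 7⟩ :=
  leafYS_sound T5.ok_pm T5.Ypm.bz_eq (w := 224) (c := ⟨⟨.negSucc 1426, .negSucc 281, .ofNat 29, .negSucc 17, .negSucc 55, .ofNat 124⟩, ⟨.ofNat 239, .negSucc 171, .ofNat 255, .negSucc 23, .negSucc 6, .negSucc 9⟩, ⟨.ofNat 1146, .ofNat 310, .ofNat 541, .ofNat 736, .ofNat 353, .ofNat 519⟩, ⟨.negSucc 3180, .negSucc 79, .negSucc 24, .negSucc 80, .negSucc 149, .ofNat 246⟩, ⟨.negSucc 105, .negSucc 57, .negSucc 63, .negSucc 234, .negSucc 152, .negSucc 85⟩, .ofNat 173, .ofNat 11, .ofNat 0, .ofNat 11, .ofNat 231, .ofNat 0, .ofNat 240, .negSucc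 15, .negSucc 19, .ofNat 0, .ofNat 128, .negSucc 74, .ofNat 0, .ofNat 0, .ofNat 1467, .ofNat 31430, .ofNat 8710830092627114934278136853509365749048672256, .ofNat 0, .ofNat 0, .ofNat 0, .ofNat 25654006060267085747615982424531415834470383616, .ofNat 0, .ofNat 0, .ofNat 0, .ofNat 21678243429006785780061275634675256788982431744, .ofNat 0, .ofNat 512077226817096339171380677445854628413440, .ofNat 0, .ofNat 232669271157405150300446012617106632807735623680, .ofNat 0, .ofNat 5564615784048968961321179794494952531034112, .ofNat 0⟩)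
    (by decide +kernel)
theorem L02634 : Good (Phi V5.P V5.D 1 (-1)) ⟨3, 4, 2, 1, 3, 3, 3, 5, 4, 7⟩ :=
  leafYS_sound T5.ok_pm T5.Ypm.bz_eq (w := 222) (c := ⟨⟨.negSucc 1444, .negSucc 308, .ofNat 27, .negSucc 30, .negSucc 100, .ofNat 85⟩, ⟨.ofNat 236, .negSucc 163, .ofNat 257, .negSucc 35, .negSucc 9, .negSucc 21⟩, ⟨.ofNat 1499, .ofNat 198, .ofNat 572, .ofNat 916, .ofNat 214, .ofNat 427⟩, ⟨.negSucc 3266, .negSucc 112, .negSucc 33, .negSucc 107, .negSucc 220, .ofNat 156⟩, ⟨.negSucc 235, .negSucc 41, .negSucc 86, .negSucc 281, .negSucc 135, .negSucc 74⟩, .ofNat 457, .ofNat 153, .ofNat 0, .ofNat 153, .ofNat 1263, .ofNat 0, .ofNat 272, .negSucc 61, .negSucc 17, .ofNat 0, .ofNat 128, .negSucc 47, .ofNat 0, .ofNat 0, .ofNat 3050, .ofNat 4868, .ofNat 909266367928385801327018996061542458754859008, .ofNat 11131390495641093140260773772944291408117760, .ofNat 82300281378975379983546510578744391892992,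 .ofNat 0, .ofNat 23408509306803418146455268718105946103610343424, .ofNat 323409306457171591350373107479853448197832704, .ofNat 3521706597851570888379147133668034508488704, .ofNat 0, .ofNat 17397533296872116835790754746770393179967455232, .ofNat 275527381774825304485813328905739693209944064, .ofNat 2302841872234807681640225269275406381350912, .ofNat 0, .ofNat 284865375841775641024977094888435122596353146880, .ofNat 7727042783466796752885522769012289190550831104, .ofNat 6725142068782917071708503857867680508805120, .ofNat 0⟩)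
    (by decide +kernel)
theorem L02635 : Good (Phi V5.P V5.D 1 (-1)) ⟨3, 5, 2, 1, 1, 0, 2, 2, 3, 3⟩ :=
  out_sound (S := T5.ds_pm) T5.ok_pm (w := 43) (j := 3) (by decide +kernel)
theorem L02636 : Good (Phi V5.P V5.D 1 (-1)) ⟨2, 3, 2, 1, 1, 0, 2, 2, 3, 3⟩ :=
  out_sound (S := T5.ds_pm) T5.ok_pm (w := 37) (j := 3) (by decide +kernel)
theorem L02637 : Good (Phi V5.P V5.D 1 (-1)) ⟨3, 4, 2, 1, 1, 0, 3, 6, 3, 2⟩ :=
  leafYS_sound T5.ok_pm T5.Ypm.bz_eq (w := 186) (c := ⟨⟨.negSucc 1383, .negSucc 264, .ofNat 53, .negSucc 487, .negSucc 32, .ofNat 73⟩, ⟨.ofNat 231, .negSucc 152, .ofNat 291, .ofNat 18, .ofNat 3, .negSucc 18⟩, ⟨.ofNat 1101, .ofNat 279, .ofNat 78, .ofNat 1056, .negSucc 103, .negSucc 84⟩, ⟨.negSucc 3075, .negSucc 82, .ofNat 27, .negSucc 1029, .negSucc 73, .ofNat 141⟩, ⟨.ofNat 39, .negSucc 46, .ofNat 7, .negSucc 429, .ofNat 1, .negSucc 77⟩, .ofNat 533, .ofNat 262,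 .ofNat 0, .ofNat 262, .ofNat 1941, .ofNat 0, .ofNat 363, .negSucc 77, .negSucc 132, .ofNat 0, .ofNat 128, .ofNat 18, .ofNat 0, .ofNat 0, .ofNat 880, .ofNat 766, .ofNat 0, .ofNat 0, .ofNat 0, .ofNat 0, .ofNat 0, .ofNat 0, .ofNat 0, .ofNat 0, .ofNat 0, .ofNat 0, .ofNat 0, .ofNat 0, .ofNat 0, .ofNat 2291728587379669710978529673204465664, .ofNat 134878923898665353709551670525952, .ofNat 0⟩)
    (by decide +kernel)
theorem L02638 : Good (Phi V5.P V5.D 1 (-1)) ⟨3, 4, 2, 1, 1, 0, 3, 7, 4, 4⟩ :=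
  leafYS_sound T5.ok_pm T5.Ypm.bz_eq (w := 191) (c := ⟨⟨.negSucc 1165, .negSucc 379, .negSucc 42, .negSucc 925, .ofNat 44, .negSucc 8⟩, ⟨.ofNat 202, .negSucc 150, .ofNat 285, .ofNat 106, .ofNat 17, .negSucc 24⟩, ⟨.ofNat 821, .ofNat 389, .ofNat 83, .ofNat 1478, .negSucc 199, .negSucc 76⟩, ⟨.negSucc 2640, .negSucc 287, .negSucc 117, .negSucc 2061, .ofNat 56, .ofNat 32⟩, ⟨.ofNat 19, .negSucc 34, .ofNat 7, .negSucc 671, .negSucc 62, .ofNat 50⟩, .ofNat 458, .ofNat 153, .ofNat 0, .ofNat 153, .ofNat 1276, .ofNat 0, .ofNat 579, .negSucc 62, .negSucc 199, .ofNat 0, .ofNat 128, .ofNat 24, .ofNat 0, .ofNat 0, .ofNat 837, .ofNat 549, .ofNat 0, .ofNat 0, .ofNat 0, .ofNat 0, .ofNat 0, .ofNat 45187219650281427271776085652210188288, .ofNat 0, .ofNat 0, .ofNat 0, .ofNat 938357043760187389268856400747954176, .ofNat 3596310700326816176976707725557760, .ofNat 0, .ofNat 0, .ofNat 13694461830247278106420477698378825728,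 .ofNat 4184840159403851062380065709883392, .ofNat 0⟩)
    (by decide +kernel)
theorem L02639 : Good (Phi V5.P V5.D 1 (-1)) ⟨3, 4, 2, 1, 1, 0, 3, 7, 4, 5⟩ :=
  leafYS_sound T5.ok_pm T5.Ypm.bz_eq (w := 191) (c := ⟨⟨.negSucc 1143, .negSucc 377, .ofNat 7, .negSucc 916, .negSucc 126, .ofNat 2⟩, ⟨.ofNat 207, .negSucc 149, .ofNat 278, .ofNat 63, .ofNat 8, .ofNat 0⟩, ⟨.ofNat 743, .ofNat 398, .ofNat 83, .ofNat 1451, .negSucc 85, .negSucc 94⟩, ⟨.negSucc 2585, .negSucc 282, .negSucc 2, .negSucc 2021, .negSucc 236, .ofNat 6⟩, ⟨.ofNat 59, .negSucc 59, .ofNat 8, .negSucc 703, .negSucc 6, .ofNat 48⟩, .ofNat 335, .ofNat 75, .ofNat 0, .ofNat 75, .ofNat 623, .ofNat 0, .ofNat 367, .negSucc 43, .negSucc 108, .ofNat 0, .ofNat 128, .ofNat 6, .ofNat 0, .ofNat 0, .ofNat 509, .ofNat 412, .ofNat 0, .ofNat 0, .ofNat 102302161892304202829744968826880, .ofNat 0, .ofNat 0, .ofNat 15067459125315280133411663258316701696,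 .ofNat 705654691643950625039607574560768, .ofNat 0, .ofNat 0, .ofNat 3486580722566336419098351536552542208, .ofNat 1304265921994088305282468638883840, .ofNat 0, .ofNat 0, .ofNat 11027416074434701243355278361103433728, .ofNat 547012102257569724641920119996416, .ofNat 0⟩)
    (by decide +kernel)
theorem L02640 : Good (Phi V5.P V5.D 1 (-1)) ⟨3, 4, 2, 1, 2, 0, 3, 6, 3, 3⟩ :=
  leafYS_sound T5.ok_pm T5.Ypm.bz_eq (w := 203) (c := ⟨⟨.negSucc 1274, .negSucc 266, .negSucc 11, .negSucc 236, .negSucc 43, .ofNat 32⟩, ⟨.ofNat 209, .negSucc 134, .ofNat 266, .ofNat 19, .ofNat 11, .negSucc 5⟩, ⟨.ofNat 975, .ofNat 282, .ofNat 92, .ofNat 505, .negSucc 136, .negSucc 115⟩, ⟨.negSucc 2842, .negSucc 109, .negSucc 42, .negSucc 523, .negSucc 92, .ofNat 64⟩, ⟨.ofNat 22, .negSucc 19, .ofNat 2, .negSucc 204, .ofNat 6, .negSucc 15⟩, .ofNat 465, .ofNat 170, .ofNat 0, .ofNat 170, .ofNat 1285,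 .ofNat 0, .ofNat 314, .negSucc 65, .negSucc 59, .ofNat 0, .ofNat 128, .ofNat 6, .ofNat 0, .ofNat 0, .ofNat 530, .ofNat 4332, .ofNat 0, .ofNat 0, .ofNat 0, .ofNat 0, .ofNat 0, .ofNat 0, .ofNat 0, .ofNat 0, .ofNat 0, .ofNat 0, .ofNat 0, .ofNat 0, .ofNat 147279462911715088735208814325304349687808, .ofNat 0, .ofNat 1285097031434418795011208225595850752, .ofNat 0⟩)
    (by decide +kernel)
theorem L02641 : Good (Phi V5.P V5.D 1 (-1)) ⟨3, 4, 2, 1, 2, 0, 3, 7, 3, 3⟩ :=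
  leafYS_sound T5.ok_pm T5.Ypm.bz_eq (w := 202) (c := ⟨⟨.negSucc 1220, .negSucc 315, .negSucc 24, .negSucc 382, .negSucc 204, .ofNat 19⟩, ⟨.ofNat 183, .negSucc 136, .ofNat 285, .ofNat 50, .ofNat 45, .ofNat 8⟩, ⟨.ofNat 754, .ofNat 339, .ofNat 104, .ofNat 582, .ofNat 6, .negSucc 133⟩, ⟨.negSucc 2712, .negSucc 193, .negSucc 79, .negSucc 846, .negSucc 422, .ofNat 29⟩, ⟨.negSucc 4, .negSucc 28, .negSucc 14, .negSucc 201, .ofNat 43, .ofNat 32⟩, .ofNat 332, .ofNat 58, .ofNat 0, .ofNat 58, .ofNat 634, .ofNat 0, .ofNat 600, .negSucc 33, .negSucc 165, .ofNat 0, .ofNat 128, .ofNat 3, .ofNat 0, .ofNat 0, .ofNat 934, .ofNat 3233, .ofNat 0, .ofNat 0, .ofNat 0, .ofNat 0, .ofNat 0, .ofNat 47770430401326163998084781915993226084352, .ofNat 0, .ofNat 0, .ofNat 0, .ofNat 1922625840689833167506123969393271504896, .ofNat 1185496337747079251861336599992205312, .ofNat 0, .ofNat 120461872491800698473338193883267350921216,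 .ofNat 8530751814459503022230422145591005937664, .ofNat 1023503435045421827529403569616715776, .ofNat 0⟩)
    (by decide +kernel)
theorem L02642 : Good (Phi V5.P V5.D 1 (-1)) ⟨3, 4, 2, 1, 2, 1, 2, 3, 4, 6⟩ :=
  leafYS_sound T5.ok_pm T5.Ypm.bz_eq (w := 203) (c := ⟨⟨.negSucc 1473, .negSucc 337, .ofNat 7, .negSucc 199, .negSucc 340, .ofNat 53⟩, ⟨.ofNat 227, .negSucc 165, .ofNat 280, .negSucc 0, .ofNat 38, .negSucc 3⟩, ⟨.ofNat 1333, .ofNat 323, .ofNat 292, .ofNat 929, .negSucc 53, .ofNat 20⟩, ⟨.negSucc 3304, .negSucc 161, .negSucc 53, .negSucc 500, .negSucc 707, .ofNat 98⟩, ⟨.negSucc 177, .negSucc 33, .negSucc 52, .negSucc 417, .negSucc 87, .negSucc 3⟩, .ofNat 465, .ofNat 171, .ofNat 0, .ofNat 171, .ofNat 1283, .ofNat 0, .ofNat 385, .negSucc 67, .negSucc 86, .ofNat 0, .ofNat 128, .negSucc 5, .ofNat 0, .ofNat 0, .ofNat 1377, .ofNat 1459, .ofNat 0, .ofNat 70030366012136741804961807129307512832,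 .ofNat 421453119264991623601520270330822656, .ofNat 0, .ofNat 0, .ofNat 34475359775211941189887619291024692609024, .ofNat 15342013041760512394200500733141319680, .ofNat 0, .ofNat 0, .ofNat 11000623917786852737079783372485575049216, .ofNat 10236302093979738555193618542337458176, .ofNat 0, .ofNat 0, .ofNat 71058762630951618245817254177413217124352, .ofNat 10670323074394079294548433026066415616, .ofNat 0⟩)
    (by decide +kernel)
theorem L02643 : Good (Phi V5.P V5.D 1 (-1)) ⟨3, 4, 2, 1, 3, 2, 2, 3, 4, 7⟩ :=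
  leafYS_sound T5.ok_pm T5.Ypm.bz_eq (w := 218) (c := ⟨⟨.negSucc 1436, .negSucc 301, .ofNat 31, .negSucc 100, .negSucc 385, .ofNat 58⟩, ⟨.ofNat 224, .negSucc 165, .ofNat 280, .negSucc 10, .ofNat 49, .ofNat 2⟩, ⟨.ofNat 1225, .ofNat 397, .ofNat 406, .ofNat 557, .negSucc 132, .negSucc 84⟩, ⟨.negSucc 3208, .negSucc 124, .negSucc 10, .negSucc 260, .negSucc 808, .ofNat 105⟩, ⟨.negSucc 119, .negSucc 90, .negSucc 73, .negSucc 258, .negSucc 67, .ofNat 6⟩, .ofNat 334, .ofNat 59, .ofNat 0, .ofNat 59, .ofNat 637, .ofNat 0, .ofNat 464, .negSucc 34, .negSucc 83, .ofNat 0, .ofNat 128, .negSucc 36, .ofNat 0, .ofNat 0, .ofNat 1465, .ofNat 3872, .ofNat 0, .ofNat 2951766496385854940396507085806281519267840, .ofNat 5224326670925892987938124332210428313600, .ofNat 0, .ofNat 0, .ofNat 376467026086161974127381845661386035473416192, .ofNat 0, .ofNat 0, .ofNat 0, .ofNat 32431176855179972509360961117524516520591360,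 .ofNat 34729984841100426124357664555663796207616, .ofNat 0, .ofNat 4797851055085989178559785226122947593995550720, .ofNat 248270180531998044916077222262255244705529856, .ofNat 238966445255878911252643713287690305667072, .ofNat 0⟩)
    (by decide +kernel)
theorem L02644 : Good (Phi V5.P V5.D 1 (-1)) ⟨3, 4, 2, 1, 3, 3, 2, 3, 4, 7⟩ :=
  leafYS_sound T5.ok_pm T5.Ypm.bz_eq (w := 217) (c := ⟨⟨.negSucc 1546, .negSucc 310, .ofNat 35, .negSucc 58, .negSucc 327, .ofNat 75⟩, ⟨.ofNat 230, .negSucc 173, .ofNat 269, .negSucc 22, .ofNat 36, .negSucc 17⟩, ⟨.ofNat 1582, .ofNat 440, .ofNat 678, .ofNat 785, .negSucc 113, .ofNat 204⟩, ⟨.negSucc 3477, .negSucc 131, .negSucc 39, .negSucc 175, .negSucc 717, .ofNat 149⟩, ⟨.negSucc 317, .negSucc 108, .negSucc 117, .negSucc 319, .negSucc 205, .negSucc 48⟩, .ofNat 334, .ofNat 60, .ofNat 0, .ofNat 60, .ofNat 635, .ofNat 0, .ofNat 224, .negSucc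 36, .negSucc 18, .ofNat 0, .ofNat 128, .negSucc 39, .ofNat 0, .ofNat 0, .ofNat 1238, .ofNat 1411, .ofNat 0, .ofNat 2846400270784000808392950993692841037791232, .ofNat 3365794482313188577673433929272340250624, .ofNat 0, .ofNat 0, .ofNat 91772997925839770244873944500632836452122624, .ofNat 0, .ofNat 0, .ofNat 0, .ofNat 80880564568249760586185008006046598190596096, .ofNat 0, .ofNat 0, .ofNat 0, .ofNat 499229985946950025987398494100357129210691584, .ofNat 139534756202883665040943168562509893337088, .ofNat 0⟩)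
    (by decide +kernel)
theorem L02645 : Good (Phi V5.P V5.D 1 (-1)) ⟨3, 5, 2, 1, 1, 0, 2, 3, 2, 1⟩ :=
  out_sound (S := T5.ds_pm) T5.ok_pm (w := 43) (j := 3) (by decide +kernel)
theorem L02646 : Good (Phi V5.P V5.D 1 (-1)) ⟨2, 3, 2, 1, 1, 0, 2, 3, 2, 1⟩ :=
  out_sound (S := T5.ds_pm) T5.ok_pm (w := 37) (j := 3) (by decide +kernel)
theorem L02647 : Good (Phi V5.P V5.D 1 (-1)) ⟨1, 1, 2, 1, 1, 0, 1, 1, 1, 1⟩ :=
  leafYS_sound T5.ok_pm T5.Ypm.bz_eq (w := 171) (c := ⟨⟨.negSucc 1388, .negSucc 1044, .ofNat 1, .ofNat 1, .negSucc 0, .ofNat 1⟩, ⟨.ofNat 224, .negSucc 516, .ofNat 259, .ofNat 0, .ofNat 0, .ofNat 0⟩, ⟨.ofNat 692, .ofNat 1041, .negSucc 0, .negSucc 0, .ofNat 1, .negSucc 0⟩, ⟨.negSucc 3074, .negSucc 467, .ofNat 0, .ofNat 2, .negSucc 1, .ofNat 2⟩, ⟨.ofNat 0, .ofNat 1, .ofNat 0, .ofNat 0, .ofNat 0, .ofNat 0⟩, .ofNat 173, .ofNat 12, .ofNat 0, .ofNat 12, .ofNat 231,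 .ofNat 0, .ofNat 157, .negSucc 13, .negSucc 127, .ofNat 0, .ofNat 128, .ofNat 9, .ofNat 0, .ofNat 0, .ofNat 322, .ofNat 3340, .ofNat 2284810297253964982664980070400000000, .ofNat 87877448924541933953874634479763456, .ofNat 529995297029883045974376448, .ofNat 0, .ofNat 7902091286749552501681793439629312, .ofNat 388459902990307784279277940244480, .ofNat 3758941717812972504196579328, .ofNat 0, .ofNat 146227859024253758890558724505600000000, .ofNat 6897542522345129743612512722636242944, .ofNat 4392598542510444542622171136, .ofNat 0, .ofNat 7128337936015682806583467737874432, .ofNat 352539648256266763509264312958976, .ofNat 3588392059320770521609535488, .ofNat 0⟩)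
    (by decide +kernel)
theorem L02648 : Good (Phi V5.P V5.D 1 (-1)) ⟨3, 4, 3, 0, 2, 2, 3, 0, 4, 0⟩ :=
  leafYS_sound T5.ok_pm T5.Ypm.bz_eq (w := 209) (c := ⟨⟨.ofNat 1722, .ofNat 257, .ofNat 54, .ofNat 38, .ofNat 270, .negSucc 2112⟩, ⟨.ofNat 9, .ofNat 152, .negSucc 80, .ofNat 87, .ofNat 39, .negSucc 89⟩, ⟨.negSucc 1049, .negSucc 273, .negSucc 10, .negSucc 878, .negSucc 55, .ofNat 482⟩, ⟨.ofNat 3749, .ofNat 135, .ofNat 164, .ofNat 62, .ofNat 511, .negSucc 4407⟩, ⟨.negSucc 148, .negSucc 104, .ofNat 114, .ofNat 1624, .ofNat 310, .negSucc 814⟩, .ofNat 327, .negSucc 8, .ofNat 0, .negSucc 8, .ofNat 699, .ofNat 0, .ofNat 286, .negSucc 29, .negSucc 107, .ofNat 0, .ofNat 128, .ofNat 14, .ofNat 0, .ofNat 0, .ofNat 310, .ofNat 4396, .ofNat 0, .ofNat 0, .ofNat 0, .ofNat 0, .ofNat 0, .ofNat 0, .ofNat 0, .ofNat 0, .ofNat 2846686724310223774644527253891605824798720, .ofNat 0, .ofNat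 0, .ofNat 0, .ofNat 0, .ofNat 0, .ofNat 0, .ofNat 0⟩)
    (by decide +kernel)
theorem L02649 : Good (Phi V5.P V5.D 1 (-1)) ⟨3, 5, 3, 0, 2, 2, 3, 0, 4, 0⟩ :=
  leafYS_sound T5.ok_pm T5.Ypm.bz_eq (w := 209) (c := ⟨⟨.ofNat 2166, .ofNat 326, .ofNat 16, .ofNat 30, .ofNat 432, .negSucc 2635⟩, ⟨.ofNat 163, .ofNat 288, .negSucc 48, .ofNat 170, .ofNat 101, .negSucc 362⟩, ⟨.negSucc 1173, .negSucc 410, .negSucc 120, .negSucc 1045, .ofNat 9, .ofNat 592⟩, ⟨.ofNat 4122, .ofNat 154, .ofNat 62, .negSucc 91, .ofNat 709, .negSucc 4742⟩, ⟨.negSucc 156, .negSucc 80, .ofNat 98, .ofNat 1571, .negSucc 7, .negSucc 494⟩, .ofNat 443, .negSucc 156, .ofNat 0, .negSucc 156, .ofNat 1563, .ofNat 0, .ofNat 227, .ofNat 75, .negSucc 108, .ofNat 0, .ofNat 128, .negSucc 0, .ofNat 0, .ofNat 0, .ofNat 364, .ofNat 3508, .ofNat 0, .ofNat 0, .ofNat 1735281834200365810780848393725935616, .ofNat 0, .ofNat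 0, .ofNat 0, .ofNat 11606101542734786256692283053883523072, .ofNat 0, .ofNat 0, .ofNat 0, .ofNat 175573576214708177150943513398170615808, .ofNat 0, .ofNat 0, .ofNat 0, .ofNat 0, .ofNat 0⟩)
    (by decide +kernel)
theorem L02650 : Good (Phi V5.P V5.D 1 (-1)) ⟨2, 2, 3, 0, 2, 2, 3, 0, 4, 1⟩ :=
  leafYS_sound T5.ok_pm T5.Ypm.bz_eq (w := 205) (c := ⟨⟨.negSucc 115, .negSucc 350, .ofNat 11, .negSucc 78, .ofNat 81, .negSucc 1391⟩, ⟨.negSucc 60, .negSucc 159, .ofNat 124, .ofNat 116, .ofNat 26, .negSucc 96⟩, ⟨.negSucc 842, .negSucc 97, .negSucc 26, .negSucc 930, .ofNat 469, .ofNat 818⟩, ⟨.negSucc 390, .negSucc 138, .ofNat 54, .negSucc 253, .ofNat 89, .negSucc 2698⟩, ⟨.negSucc 833, .ofNat 465, .ofNat 192, .ofNat 1292, .ofNat 89, .negSucc 67⟩, .ofNat 427, .negSucc 66, .ofNat 0, .negSucc 66, .ofNat 1426, .ofNat 0, .ofNat 299, .ofNat 10, .negSucc 140, .ofNat 0, .ofNat 128, .ofNat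 13, .ofNat 0, .ofNat 0, .ofNat 522, .ofNat 3577, .ofNat 63627006677590620847463074194086105710592, .ofNat 0, .ofNat 0, .ofNat 0, .ofNat 0, .ofNat 0, .ofNat 284606343212595528967117722796448284672, .ofNat 0, .ofNat 0, .ofNat 0, .ofNat 565373925463374584712907691200824213504, .ofNat 0, .ofNat 0, .ofNat 0, .ofNat 0, .ofNat 0⟩)
    (by decide +kernel)
theorem L02651 : Good (Phi V5.P V5.D 1 (-1)) ⟨3, 4, 3, 0, 3, 6, 3, 0, 4, 0⟩ :=
  leafYS_sound T5.ok_pm T5.Ypm.bz_eq (w := 223) (c := ⟨⟨.ofNat 1647, .ofNat 235, .ofNat 100, .negSucc 173, .ofNat 258, .negSucc 1920⟩, ⟨.ofNat 99, .ofNat 158, .negSucc 4, .ofNat 131, .negSucc 12, .negSucc 117⟩, ⟨.negSucc 2136, .negSucc 403, .negSucc 114, .ofNat 134, .ofNat 220, .ofNat 527⟩, ⟨.ofNat 3546, .negSucc 14, .ofNat 362, .negSucc 484, .ofNat 534, .negSucc 3899⟩, ⟨.ofNat 1864, .negSucc 36, .ofNat 490, .ofNat 1676, .negSucc 218, .negSucc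 1162⟩, .ofNat 439, .negSucc 21, .ofNat 0, .negSucc 21, .ofNat 1534, .ofNat 0, .ofNat 341, .negSucc 27, .negSucc 359, .ofNat 0, .ofNat 128, .ofNat 7, .ofNat 0, .ofNat 0, .ofNat 863, .ofNat 4868, .ofNat 0, .ofNat 0, .ofNat 0, .ofNat 0, .ofNat 289248555610295650932066140091337006915780608, .ofNat 0, .ofNat 0, .ofNat 0, .ofNat 0, .ofNat 0, .ofNat 0, .ofNat 0, .ofNat 0, .ofNat 0, .ofNat 0, .ofNat 0⟩)
    (by decide +kernel)
theorem L02652 : Good (Phi V5.P V5.D 1 (-1)) ⟨3, 5, 3, 0, 3, 6, 3, 0, 5, 0⟩ :=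
  leafYS_sound T5.ok_pm T5.Ypm.bz_eq (w := 228) (c := ⟨⟨.ofNat 2089, .ofNat 550, .ofNat 36, .ofNat 10, .ofNat 383, .negSucc 1266⟩, ⟨.ofNat 334, .ofNat 476, .negSucc 4, .ofNat 167, .ofNat 36, .negSucc 213⟩, ⟨.negSucc 2588, .negSucc 627, .negSucc 108, .negSucc 186, .ofNat 291, .ofNat 363⟩, ⟨.ofNat 3787, .ofNat 272, .ofNat 234, .negSucc 173, .ofNat 722, .negSucc 2264⟩, ⟨.ofNat 1932, .negSucc 109, .ofNat 397, .ofNat 1645, .negSucc 152, .negSucc 721⟩, .ofNat 409, .negSucc 107, .ofNat 0, .negSucc 107, .ofNat 1239, .ofNat 0, .ofNat 302, .ofNat 44, .negSucc 269, .ofNat 0, .ofNat 128, .negSucc 17, .ofNat 0, .ofNat 0, .ofNat 554, .ofNat 3141, .ofNat 0, .ofNat 0, .ofNat 2851291942705451755131347500971060176617472, .ofNat 0, .ofNat 0, .ofNat 0, .ofNat 34186618708945087953387256518479018599645184, .ofNat 0, .ofNat 0, .ofNat 0, .ofNat 109851417838922490164956995216347653130420224,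 .ofNat 0, .ofNat 0, .ofNat 0, .ofNat 30023889576655298894779217825283474714525696, .ofNat 0⟩)
    (by decide +kernel)
theorem L02653 : Good (Phi V5.P V5.D 1 (-1)) ⟨3, 5, 3, 0, 3, 6, 3, 0, 5, 1⟩ :=
  leafYS_sound T5.ok_pm T5.Ypm.bz_eq (w := 228) (c := ⟨⟨.ofNat 918, .ofNat 138, .ofNat 77, .ofNat 88, .ofNat 223, .negSucc 1265⟩, ⟨.ofNat 130, .ofNat 263, .ofNat 97, .ofNat 214, .negSucc 19, .negSucc 168⟩, ⟨.negSucc 2456, .negSucc 194, .negSucc 101, .negSucc 42, .ofNat 416, .ofNat 589⟩, ⟨.ofNat 1603, .negSucc 102, .ofNat 255, .negSucc 49, .ofNat 452, .negSucc 2275⟩, ⟨.ofNat 1186, .ofNat 112, .ofNat 491, .ofNat 1675, .negSucc 408, .negSucc 189⟩, .ofNat 408, .negSucc 122, .ofNat 0, .negSucc 122, .ofNat 1206, .ofNat 0, .ofNat 389, .ofNat 26, .negSucc 326, .ofNat 0, .ofNat 128, .negSucc 13, .ofNat 0, .ofNat 0, .ofNat 699, .ofNat 4779, .ofNat 0, .ofNat 0, .ofNat 0, .ofNat 0,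 .ofNat 0, .ofNat 0, .ofNat 0, .ofNat 0, .ofNat 37155034470398284918888542138670963506217484288, .ofNat 0, .ofNat 47443598186753093955793242158718330333036544, .ofNat 0, .ofNat 0, .ofNat 0, .ofNat 0, .ofNat 0⟩)
    (by decide +kernel)
theorem L02654 : Good (Phi V5.P V5.D 1 (-1)) ⟨3, 4, 3, 0, 3, 7, 3, 0, 4, 0⟩ :=
  leafYS_sound T5.ok_pm T5.Ypm.bz_eq (w := 223) (c := ⟨⟨.ofNat 992, .ofNat 272, .ofNat 134, .negSucc 676, .ofNat 263, .negSucc 1342⟩, ⟨.ofNat 183, .ofNat 139, .ofNat 89, .ofNat 17, .negSucc 61, .negSucc 76⟩, ⟨.negSucc 1199, .negSucc 326, .negSucc 295, .ofNat 1779, .negSucc 117, .negSucc 66⟩, ⟨.ofNat 2008, .ofNat 175, .ofNat 541, .negSucc 1401, .ofNat 577, .negSucc 2751⟩, ⟨.ofNat 3418, .negSucc 101, .ofNat 713, .ofNat 325, .negSucc 485, .negSucc 723⟩, .ofNat 437, .negSucc 29, .ofNat 0, .negSucc 29, .ofNat 1526, .ofNat 0, .ofNat 347, .negSucc 30, .negSucc 304,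 .ofNat 0, .ofNat 128, .negSucc 12, .ofNat 0, .ofNat 0, .ofNat 592, .ofNat 4714, .ofNat 0, .ofNat 0, .ofNat 0, .ofNat 0, .ofNat 0, .ofNat 0, .ofNat 0, .ofNat 0, .ofNat 0, .ofNat 0, .ofNat 0, .ofNat 0, .ofNat 0, .ofNat 0, .ofNat 0, .ofNat 0⟩)
    (by decide +kernel)
theorem L02655 : Good (Phi V5.P V5.D 1 (-1)) ⟨3, 5, 3, 0, 3, 7, 3, 0, 4, 0⟩ :=
  leafYS_sound T5.ok_pm T5.Ypm.bz_eq (w := 223) (c := ⟨⟨.ofNat 1357, .ofNat 495, .ofNat 323, .negSucc 640, .ofNat 477, .negSucc 1681⟩, ⟨.ofNat 374, .ofNat 411, .ofNat 129, .ofNat 0, .ofNat 10, .negSucc 211⟩, ⟨.negSucc 1679, .negSucc 528, .negSucc 433, .ofNat 1955, .negSucc 321, .ofNat 70⟩, ⟨.ofNat 2191, .ofNat 369, .ofNat 817, .negSucc 1228, .ofNat 901, .negSucc 3024⟩, ⟨.ofNat 3513, .negSucc 218, .ofNat 625, .ofNat 280, .negSucc 477, .negSucc 362⟩, .ofNat 466, .negSucc 185, .ofNat 0, .negSucc 185, .ofNat 1862, .ofNat 0, .ofNat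 353, .ofNat 50, .negSucc 301, .ofNat 0, .ofNat 128, .negSucc 35, .ofNat 0, .ofNat 0, .ofNat 516, .ofNat 1621, .ofNat 0, .ofNat 0, .ofNat 72580449036777737034373375119565485244416, .ofNat 0, .ofNat 0, .ofNat 0, .ofNat 1266959252042014996703507590639794671058944, .ofNat 0, .ofNat 0, .ofNat 0, .ofNat 3789440135059664281690824904520219674804224, .ofNat 0, .ofNat 4252238385065256995434035990320672302392410112, .ofNat 0, .ofNat 2318418889522230862139171273070525672325120, .ofNat 0⟩)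
    (by decide +kernel)
theorem L02656 : Good (Phi V5.P V5.D 1 (-1)) ⟨3, 4, 3, 0, 3, 6, 3, 0, 4, 1⟩ :=
  leafYS_sound T5.ok_pm T5.Ypm.bz_eq (w := 224) (c := ⟨⟨.negSucc 114, .negSucc 117, .negSucc 24, .ofNat 96, .negSucc 56, .negSucc 1373⟩, ⟨.ofNat 2, .negSucc 2, .ofNat 147, .ofNat 113, .negSucc 37, .negSucc 48⟩, ⟨.negSucc 1855, .negSucc 70, .negSucc 96, .ofNat 152, .ofNat 488, .ofNat 1015⟩, ⟨.negSucc 404, .negSucc 122, .ofNat 82, .ofNat 134, .negSucc 76, .negSucc 2809⟩, ⟨.ofNat 699, .ofNat 293, .ofNat 450, .ofNat 1620, .negSucc 311, .negSucc 136⟩, .ofNat 439, .negSucc 27, .ofNat 0, .negSucc 27, .ofNat 1564, .ofNat 0, .ofNat 468, .negSucc 51, .negSucc 211, .ofNat 0, .ofNat 128, .ofNat 15, .ofNat 0, .ofNat 0, .ofNat 573, .ofNat 7988, .ofNat 5780632241222130322133596102666816419063136256, .ofNat 0, .ofNat 0, .ofNat 0, .ofNat 0, .ofNat 0, .ofNat 0, .ofNat 0, .ofNat 0,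 .ofNat 0, .ofNat 0, .ofNat 0, .ofNat 44561169974822468065654204523164802544067149824, .ofNat 0, .ofNat 0, .ofNat 0⟩)
    (by decide +kernel)
theorem L02657 : Good (Phi V5.P V5.D 1 (-1)) ⟨3, 4, 3, 0, 3, 7, 3, 0, 4, 1⟩ :=
  leafYS_sound T5.ok_pm T5.Ypm.bz_eq (w := 223) (c := ⟨⟨.negSucc 282, .ofNat 52, .negSucc 86, .ofNat 87, .ofNat 34, .negSucc 1184⟩, ⟨.ofNat 63, .ofNat 42, .ofNat 201, .ofNat 84, .negSucc 39, .negSucc 28⟩, ⟨.negSucc 1214, .negSucc 181, .negSucc 113, .ofNat 747, .ofNat 178, .ofNat 671⟩, ⟨.negSucc 758, .ofNat 89, .ofNat 83, .ofNat 140, .ofNat 49, .negSucc 2427⟩, ⟨.ofNat 2557, .ofNat 277, .ofNat 764, .ofNat 1105, .negSucc 720, .negSucc 195⟩, .ofNat 438, .negSucc 34, .ofNat 0, .negSucc 34, .ofNat 1544, .ofNat 0, .ofNat 498, .negSucc 50, .negSucc 370, .ofNat 0, .ofNat 128, .negSucc 0, .ofNat 0, .ofNat 0, .ofNat 894, .ofNat 5684, .ofNat 0, .ofNat 0, .ofNat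 0, .ofNat 0, .ofNat 0, .ofNat 0, .ofNat 0, .ofNat 0, .ofNat 0, .ofNat 0, .ofNat 0, .ofNat 0, .ofNat 0, .ofNat 0, .ofNat 0, .ofNat 0⟩)
    (by decide +kernel)
theorem L02658 : Good (Phi V5.P V5.D 1 (-1)) ⟨3, 5, 3, 0, 3, 6, 4, 0, 4, 1⟩ :=
  leafYS_sound T5.ok_pm T5.Ypm.bz_eq (w := 228) (c := ⟨⟨.negSucc 319, .negSucc 94, .negSucc 55, .ofNat 242, .ofNat 5, .negSucc 1419⟩, ⟨.negSucc 3, .ofNat 58, .ofNat 181, .ofNat 226, .negSucc 5, .negSucc 170⟩, ⟨.negSucc 2076, .negSucc 107, .negSucc 106, .ofNat 157, .ofNat 304, .ofNat 1130⟩, ⟨.negSucc 772, .negSucc 129, .ofNat 14, .ofNat 238, .ofNat 9, .negSucc 2578⟩, ⟨.ofNat 997, .ofNat 158, .ofNat 517, .ofNat 1756, .negSucc 257, .negSucc 22⟩, .ofNat 408, .negSucc 116, .ofNat 0, .negSucc 116, .ofNat 1217, .ofNat 0, .ofNat 390, .negSucc 4, .negSucc 272, .ofNat 0, .ofNat 128, .ofNat 3, .ofNat 0, .ofNat 0, .ofNat 730, .ofNat 13890, .ofNat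 76161920566695012515457429235074460315312717824, .ofNat 0, .ofNat 1848940334774686747231922543245361875517440, .ofNat 0, .ofNat 0, .ofNat 0, .ofNat 0, .ofNat 0, .ofNat 59962942852536176504222470464796047395665215488, .ofNat 0, .ofNat 68348151754979227401410184920624416597999616, .ofNat 0, .ofNat 0, .ofNat 0, .ofNat 0, .ofNat 0⟩)
    (by decide +kernel)
theorem L02659 : Good (Phi V5.P V5.D 1 (-1)) ⟨3, 5, 3, 0, 3, 6, 4, 1, 4, 1⟩ :=
  leafYS_sound T5.ok_pm T5.Ypm.bz_eq (w := 228) (c := ⟨⟨.negSucc 160, .negSucc 210, .negSucc 32, .ofNat 133, .negSucc 54, .negSucc 1539⟩, ⟨.negSucc 16, .ofNat 69, .ofNat 193, .ofNat 181, .negSucc 29, .negSucc 154⟩, ⟨.negSucc 1783, .negSucc 36, .negSucc 86, .ofNat 143, .ofNat 277, .ofNat 1157⟩, ⟨.negSucc 475, .negSucc 315, .ofNat 44, .ofNat 96, .negSucc 81, .negSucc 2852⟩, ⟨.ofNat 790, .ofNat 134, .ofNat 433, .ofNat 1620, .negSucc 212, .ofNat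 66⟩, .ofNat 408, .negSucc 112, .ofNat 0, .negSucc 112, .ofNat 1221, .ofNat 0, .ofNat 417, .ofNat 5, .negSucc 192, .ofNat 0, .ofNat 128, .ofNat 4, .ofNat 0, .ofNat 0, .ofNat 459, .ofNat 7151, .ofNat 0, .ofNat 0, .ofNat 0, .ofNat 0, .ofNat 0, .ofNat 0, .ofNat 0, .ofNat 0, .ofNat 0, .ofNat 0, .ofNat 55446286350176925234204267931647072580665344, .ofNat 0, .ofNat 0, .ofNat 0, .ofNat 0, .ofNat 0⟩)
    (by decide +kernel)
theorem L02660 : Good (Phi V5.P V5.D 1 (-1)) ⟨3, 5, 3, 0, 3, 7, 3, 0, 4, 1⟩ :=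
  leafYS_sound T5.ok_pm T5.Ypm.bz_eq (w := 223) (c := ⟨⟨.negSucc 381, .ofNat 119, .negSucc 68, .ofNat 297, .negSucc 95, .negSucc 1095⟩, ⟨.ofNat 144, .ofNat 238, .ofNat 275, .ofNat 136, .negSucc 99, .negSucc 120⟩, ⟨.negSucc 1156, .negSucc 464, .negSucc 232, .ofNat 666, .ofNat 234, .ofNat 574⟩, ⟨.negSucc 1055, .ofNat 71, .ofNat 34, .ofNat 439, .negSucc 113, .negSucc 2033⟩, ⟨.ofNat 2700, .ofNat 545, .ofNat 945, .ofNat 1022, .negSucc 822, .ofNat 63⟩, .ofNat 408, .negSucc 122, .ofNat 0, .negSucc 122, .ofNat 1218, .ofNat 0, .ofNat 582, .negSucc 6, .negSucc 313, .ofNat 0, .ofNat 128, .negSucc 21, .ofNat 0, .ofNat 0, .ofNat 688, .ofNat 3074, .ofNat 0, .ofNat 0, .ofNat 27646868387141033061814003874161078829056, .ofNat 0, .ofNat 0, .ofNat 0, .ofNat 0, .ofNat 0, .ofNat 0, .ofNat 0, .ofNat 2298806744167321324129914499312972445253632, .ofNat 0, .ofNat 0, .ofNat 0, .ofNat 0, .ofNat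 0⟩)
    (by decide +kernel)
theorem L02661 : Good (Phi V5.P V5.D 1 (-1)) ⟨2, 3, 3, 0, 1, 1, 3, 0, 3, 0⟩ :=
  out_sound (S := T5.ds_pm) T5.ok_pm (w := 39) (j := 3) (by decide +kernel)
theorem L02662 : Good (Phi V5.P V5.D 1 (-1)) ⟨3, 4, 3, 0, 2, 2, 3, 1, 4, 0⟩ :=
  leafYS_sound T5.ok_pm T5.Ypm.bz_eq (w := 209) (c := ⟨⟨.ofNat 1918, .ofNat 301, .ofNat 8, .ofNat 177, .ofNat 95, .negSucc 2182⟩, ⟨.ofNat 41, .ofNat 140, .negSucc 82, .ofNat 95, .ofNat 15, .negSucc 125⟩, ⟨.negSucc 1331, .negSucc 188, .negSucc 28, .negSucc 699, .ofNat 48, .ofNat 855⟩, ⟨.ofNat 4186, .ofNat 230, .ofNat 88, .ofNat 288, .ofNat 154, .negSucc 4536⟩, ⟨.ofNat 262, .negSucc 5, .ofNat 214, .ofNat 1329, .ofNat 26, .negSucc 1045⟩, .ofNat 325, .negSucc 12, .ofNat 0, .negSucc 12, .ofNat 697, .ofNat 0, .ofNat 275, .negSucc 0, .negSucc 144, .ofNat 0, .ofNat 128, .ofNat 14, .ofNat 0, .ofNat 0, .ofNat 278, .ofNat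 2259, .ofNat 0, .ofNat 0, .ofNat 0, .ofNat 0, .ofNat 0, .ofNat 0, .ofNat 0, .ofNat 0, .ofNat 0, .ofNat 0, .ofNat 0, .ofNat 0, .ofNat 0, .ofNat 0, .ofNat 0, .ofNat 0⟩)
    (by decide +kernel)
theorem L02663 : Good (Phi V5.P V5.D 1 (-1)) ⟨3, 5, 3, 0, 2, 2, 3, 1, 4, 0⟩ :=
  leafYS_sound T5.ok_pm T5.Ypm.bz_eq (w := 209) (c := ⟨⟨.ofNat 2636, .ofNat 367, .ofNat 16, .ofNat 105, .ofNat 97, .negSucc 2897⟩, ⟨.ofNat 322, .ofNat 248, .negSucc 87, .ofNat 138, .ofNat 23, .negSucc 456⟩, ⟨.negSucc 1623, .negSucc 140, .negSucc 32, .negSucc 723, .ofNat 65, .ofNat 927⟩, ⟨.ofNat 4904, .ofNat 237, .ofNat 70, .ofNat 77, .ofNat 190, .negSucc 5237⟩, ⟨.ofNat 128, .negSucc 118, .ofNat 204, .ofNat 1524, .ofNat 168, .negSucc 987⟩, .ofNat 307, .negSucc 46, .ofNat 0, .negSucc 46, .ofNat 624, .ofNat 0, .ofNat 238, .ofNat 42, .negSucc 151, .ofNat 0, .ofNat 128, .ofNat 6, .ofNat 0, .ofNat 0, .ofNat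 255, .ofNat 1622, .ofNat 0, .ofNat 0, .ofNat 4259548869450958060809093404407365632, .ofNat 0, .ofNat 0, .ofNat 0, .ofNat 19299860516767821696804213006530510848, .ofNat 0, .ofNat 0, .ofNat 0, .ofNat 124861544373010655663845145404699049984, .ofNat 0, .ofNat 0, .ofNat 0, .ofNat 23459456001140258342927998547220496384, .ofNat 0⟩)
    (by decide +kernel)
theorem L02664 : Good (Phi V5.P V5.D 1 (-1)) ⟨2, 2, 3, 0, 2, 2, 3, 1, 4, 1⟩ :=
  leafYS_sound T5.ok_pm T5.Ypm.bz_eq (w := 204) (c := ⟨⟨.ofNat 139, .negSucc 453, .negSucc 31, .negSucc 177, .negSucc 23, .negSucc 1507⟩, ⟨.ofNat 3, .negSucc 192, .ofNat 70, .ofNat 53, .ofNat 14, .negSucc 80⟩, ⟨.negSucc 632, .ofNat 35, .negSucc 40, .negSucc 731, .ofNat 353, .ofNat 980⟩, ⟨.ofNat 115, .negSucc 386, .ofNat 13, .negSucc 377, .negSucc 78, .negSucc 3079⟩, ⟨.negSucc 656, .ofNat 334, .ofNat 143, .ofNat 1068, .negSucc 48, .ofNat 11⟩,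 .ofNat 317, .negSucc 23, .ofNat 0, .negSucc 23, .ofNat 663, .ofNat 0, .ofNat 437, .negSucc 2, .negSucc 187, .ofNat 0, .ofNat 128, .ofNat 27, .ofNat 0, .ofNat 0, .ofNat 402, .ofNat 2278, .ofNat 0, .ofNat 0, .ofNat 0, .ofNat 0, .ofNat 0, .ofNat 0, .ofNat 0, .ofNat 0, .ofNat 0, .ofNat 0, .ofNat 162093141656668818002966641615315140608, .ofNat 0, .ofNat 0, .ofNat 0, .ofNat 0, .ofNat 0⟩)
    (by decide +kernel)
theorem L02665 : Good (Phi V5.P V5.D 1 (-1)) ⟨3, 4, 3, 0, 2, 3, 3, 1, 4, 0⟩ :=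
  leafYS_sound T5.ok_pm T5.Ypm.bz_eq (w := 209) (c := ⟨⟨.ofNat 1872, .ofNat 421, .negSucc 2, .negSucc 766, .ofNat 50, .negSucc 1894⟩, ⟨.ofNat 134, .ofNat 156, .negSucc 5, .ofNat 134, .negSucc 40, .negSucc 153⟩, ⟨.negSucc 2083, .negSucc 498, .negSucc 9, .ofNat 1420, .ofNat 189, .ofNat 572⟩, ⟨.ofNat 3968, .ofNat 403, .ofNat 176, .negSucc 1645, .ofNat 138, .negSucc 3853⟩, ⟨.ofNat 2322, .negSucc 115, .ofNat 135, .ofNat 1778, .negSucc 466, .negSucc 1145⟩, .ofNat 439, .negSucc 32, .ofNat 0, .negSucc 32, .ofNat 1545, .ofNat 0, .ofNat 556, .ofNat 18, .negSucc 441, .ofNat 0, .ofNat 128, .negSucc 0, .ofNat 0, .ofNat 0, .ofNat 777, .ofNat 1572, .ofNat 0, .ofNat 0, .ofNat 0, .ofNat 0, .ofNat 0, .ofNat 0, .ofNat 0, .ofNat 0, .ofNat 0, .ofNat 0, .ofNat 0, .ofNat 0, .ofNat 0, .ofNat 0, .ofNat 0, .ofNat 0⟩)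
    (by decide +kernel)
theorem L02666 : Good (Phi V5.P V5.D 1 (-1)) ⟨4, 10, 3, 0, 3, 6, 3, 1, 5, 0⟩ :=
  leafYS_sound T5.ok_pm T5.Ypm.bz_eq (w := 232) (c := ⟨⟨.ofNat 2400, .ofNat 451, .ofNat 151, .negSucc 120, .ofNat 201, .negSucc 1341⟩, ⟨.ofNat 389, .ofNat 248, .negSucc 15, .ofNat 123, .ofNat 5, .negSucc 238⟩, ⟨.negSucc 2435, .negSucc 328, .negSucc 53, .negSucc 34, .ofNat 289, .ofNat 452⟩, ⟨.ofNat 4378, .ofNat 450, .ofNat 423, .negSucc 380, .ofNat 381, .negSucc 2386⟩, ⟨.ofNat 2057, .negSucc 36, .ofNat 356, .ofNat 1328, .negSucc 120, .negSucc 997⟩, .ofNat 411, .negSucc 109, .ofNat 0, .negSucc 109, .ofNat 1262, .ofNat 0, .ofNat 271, .ofNat 96, .negSucc 296, .ofNat 0, .ofNat 128, .negSucc 16, .ofNat 0, .ofNat 0, .ofNat 454, .ofNat 2516, .ofNat 0, .ofNat 0, .ofNat 1367628019010193010372204219287111919992832, .ofNat 0, .ofNat 0, .ofNat 0, .ofNat 9057392997035655127822062353274681199427584,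 .ofNat 0, .ofNat 0, .ofNat 0, .ofNat 0, .ofNat 0, .ofNat 0, .ofNat 0, .ofNat 0, .ofNat 0⟩)
    (by decide +kernel)
theorem L02667 : Good (Phi V5.P V5.D 1 (-1)) ⟨4, 11, 3, 0, 3, 6, 3, 1, 5, 0⟩ :=
  leafYS_sound T5.ok_pm T5.Ypm.bz_eq (w := 233) (c := ⟨⟨.ofNat 2980, .ofNat 395, .ofNat 48, .negSucc 27, .ofNat 260, .negSucc 1704⟩, ⟨.ofNat 705, .ofNat 301, .negSucc 57, .ofNat 147, .ofNat 30, .negSucc 401⟩, ⟨.negSucc 2821, .negSucc 300, .ofNat 66, .negSucc 157, .ofNat 286, .ofNat 691⟩, ⟨.ofNat 4985, .ofNat 250, .ofNat 217, .negSucc 247, .ofNat 481, .negSucc 2839⟩, ⟨.ofNat 2095, .negSucc 209, .ofNat 225, .ofNat 1270, .negSucc 62, .negSucc 1039⟩, .ofNat 506, .negSucc 334, .ofNat 0, .negSucc 334, .ofNat 2086, .ofNat 0, .ofNat 201, .ofNat 128, .negSucc 264, .ofNat 0, .ofNat 106, .negSucc 32, .ofNat 0, .ofNat 0, .ofNat 406, .ofNat 3213, .ofNat 0, .ofNat 0, .ofNat 2308861639695168212912119067603578776453120,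 .ofNat 0, .ofNat 0, .ofNat 0, .ofNat 19862908269044037342338602720495129791037440, .ofNat 0, .ofNat 0, .ofNat 0, .ofNat 50323673219746989650544112589139814096306176, .ofNat 0, .ofNat 0, .ofNat 0, .ofNat 15082268291293559103727093729948166107693056, .ofNat 0⟩)
    (by decide +kernel)
theorem L02668 : Good (Phi V5.P V5.D 1 (-1)) ⟨3, 5, 3, 0, 3, 6, 3, 1, 5, 1⟩ :=
  leafYS_sound T5.ok_pm T5.Ypm.bz_eq (w := 228) (c := ⟨⟨.ofNat 1271, .ofNat 101, .ofNat 66, .negSucc 23, .ofNat 2, .negSucc 1387⟩, ⟨.ofNat 204, .ofNat 244, .ofNat 45, .ofNat 124, .negSucc 43, .negSucc 201⟩, ⟨.negSucc 2158, .negSucc 186, .negSucc 99, .ofNat 43, .ofNat 404, .ofNat 701⟩, ⟨.ofNat 2262, .negSucc 140, .ofNat 244, .negSucc 183, .ofNat 51, .negSucc 2535⟩, ⟨.ofNat 1102, .negSucc 27, .ofNat 252, .ofNat 1386, .negSucc 388, .negSucc 280⟩, .ofNat 408, .negSucc 112, .ofNat 0, .negSucc 112, .ofNat 1224, .ofNat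 0, .ofNat 295, .ofNat 66, .negSucc 195, .ofNat 0, .ofNat 128, .negSucc 5, .ofNat 0, .ofNat 0, .ofNat 312, .ofNat 2932, .ofNat 0, .ofNat 0, .ofNat 0, .ofNat 0, .ofNat 0, .ofNat 0, .ofNat 36353126780744103192471283359322587237711872, .ofNat 0, .ofNat 0, .ofNat 0, .ofNat 63026664502389509452553729421662991119548416, .ofNat 0, .ofNat 0, .ofNat 0, .ofNat 5310020619280686442636259831478760104787968, .ofNat 0⟩)
    (by decide +kernel)
theorem L02669 : Good (Phi V5.P V5.D 1 (-1)) ⟨3, 5, 3, 0, 3, 7, 3, 1, 4, 0⟩ :=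
  leafYS_sound T5.ok_pm T5.Ypm.bz_eq (w := 222) (c := ⟨⟨.ofNat 1860, .ofNat 500, .ofNat 200, .negSucc 242, .ofNat 207, .negSucc 2092⟩, ⟨.ofNat 454, .ofNat 399, .ofNat 60, .ofNat 15, .negSucc 50, .negSucc 342⟩, ⟨.negSucc 1907, .negSucc 440, .negSucc 166, .ofNat 1204, .negSucc 25, .ofNat 551⟩, ⟨.ofNat 3169, .ofNat 411, .ofNat 573, .negSucc 523, .ofNat 451, .negSucc 3778⟩, ⟨.ofNat 3197, .ofNat 143, .ofNat 451, .ofNat 132, .negSucc 477, .negSucc 920⟩, .ofNat 410, .negSucc 116, .ofNat 0, .negSucc 116, .ofNat 1242, .ofNat 0, .ofNat 282, .ofNat 91, .negSucc 269, .ofNat 0, .ofNat 128, .negSucc 25, .ofNat 0, .ofNat 0, .ofNat 357, .ofNat 926, .ofNat 0, .ofNat 0, .ofNat 105554536404990435341367354292138827317248, .ofNat 0, .ofNat 0, .ofNat 0, .ofNat 1636778957231062841937180734655919552462848, .ofNat 0, .ofNat 0, .ofNat 0, .ofNat 3292733585934604029379245351639426900426752,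 .ofNat 0, .ofNat 0, .ofNat 0, .ofNat 1180485634044824085631603611393150574133248, .ofNat 0⟩)
    (by decide +kernel)
theorem L02670 : Good (Phi V5.P V5.D 1 (-1)) ⟨2, 2, 3, 0, 2, 3, 3, 1, 4, 1⟩ :=
  leafYS_sound T5.ok_pm T5.Ypm.bz_eq (w := 204) (c := ⟨⟨.negSucc 77, .negSucc 394, .negSucc 21, .ofNat 235, .negSucc 136, .negSucc 1529⟩, ⟨.negSucc 28, .ofNat 5, .ofNat 166, .ofNat 231, .negSucc 57, .negSucc 70⟩, ⟨.negSucc 1429, .ofNat 64, .negSucc 100, .ofNat 419, .ofNat 367, .ofNat 1079⟩, ⟨.negSucc 287, .negSucc 540, .ofNat 85, .ofNat 255, .negSucc 248, .negSucc 3100⟩, ⟨.ofNat 651, .ofNat 519, .ofNat 352, .ofNat 2284, .negSucc 649, .ofNat 143⟩, .ofNat 317, .negSucc 24, .ofNat 0, .negSucc 24, .ofNat 662, .ofNat 0, .ofNat 588, .negSucc 29, .negSucc 256, .ofNat 0, .ofNat 128, .ofNat 22, .ofNat 0, .ofNat 0, .ofNat 401, .ofNat 1015, .ofNat 0, .ofNat 0, .ofNat 7590943714519747529430017229279199232,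 .ofNat 0, .ofNat 0, .ofNat 0, .ofNat 0, .ofNat 0, .ofNat 0, .ofNat 0, .ofNat 88488746526345414701583640011118477312, .ofNat 0, .ofNat 0, .ofNat 0, .ofNat 71093033716021846102545950860558467072, .ofNat 0⟩)
    (by decide +kernel)
theorem L02671 : Good (Phi V5.P V5.D 1 (-1)) ⟨2, 3, 3, 0, 1, 1, 3, 1, 3, 0⟩ :=
  out_sound (S := T5.ds_pm) T5.ok_pm (w := 39) (j := 3) (by decide +kernel)
theorem L02672 : Good (Phi V5.P V5.D 1 (-1)) ⟨3, 4, 3, 0, 2, 2, 2, 1, 4, 0⟩ :=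
  leafYS_sound T5.ok_pm T5.Ypm.bz_eq (w := 204) (c := ⟨⟨.ofNat 1990, .ofNat 540, .negSucc 46, .ofNat 150, .negSucc 512, .negSucc 2138⟩, ⟨.ofNat 78, .ofNat 215, .negSucc 88, .ofNat 67, .negSucc 19, .negSucc 152⟩, ⟨.negSucc 1513, .negSucc 249, .ofNat 42, .negSucc 410, .ofNat 543, .ofNat 1028⟩, ⟨.ofNat 4311, .ofNat 554, .ofNat 3, .ofNat 226, .negSucc 1091, .negSucc 4391⟩, ⟨.ofNat 424, .ofNat 136, .ofNat 303, .ofNat 1296, .negSucc 88, .negSucc 1172⟩, .ofNat 327, .negSucc 7, .ofNat 0, .negSucc 7, .ofNat 698, .ofNat 0, .ofNat 275, .ofNat 25, .negSucc 236, .ofNat 0, .ofNat 128, .ofNat 17, .ofNat 0, .ofNat 0, .ofNat 338, .ofNat 822, .ofNat 0, .ofNat 0, .ofNat 0, .ofNat 0, .ofNat 0, .ofNat 0, .ofNat 0, .ofNat 0, .ofNat 0, .ofNat 0, .ofNat 0, .ofNat 0, .ofNat 0, .ofNat 0, .ofNat 0, .ofNat 0⟩)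
    (by decide +kernel)
theorem L02673 : Good (Phi V5.P V5.D 1 (-1)) ⟨4, 10, 3, 0, 2, 2, 2, 1, 4, 0⟩ :=
  leafYS_sound T5.ok_pm T5.Ypm.bz_eq (w := 209) (c := ⟨⟨.ofNat 2578, .ofNat 383, .negSucc 12, .ofNat 319, .negSucc 430, .negSucc 2905⟩, ⟨.ofNat 261, .ofNat 217, .negSucc 104, .ofNat 221, .negSucc 1, .negSucc 473⟩, ⟨.negSucc 1772, .negSucc 178, .negSucc 37, .negSucc 438, .ofNat 473, .ofNat 1340⟩, ⟨.ofNat 4865, .ofNat 367, .ofNat 68, .ofNat 400, .negSucc 872, .negSucc 5181⟩, ⟨.ofNat 332, .ofNat 106, .ofNat 152, .ofNat 1522, .ofNat 328, .negSucc 1338⟩, .ofNat 409, .negSucc 99, .ofNat 0, .negSucc 99, .ofNat 1245, .ofNat 0, .ofNat 208, .ofNat 91, .negSucc 237, .ofNat 0, .ofNat 128, .negSucc 4, .ofNat 0, .ofNat 0, .ofNat 366, .ofNat 772, .ofNat 0, .ofNat 0, .ofNat 46219201761074402836294360708939776, .ofNat 0, .ofNat 0, .ofNat 0, .ofNat 199204766041571887582788929143701504,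 .ofNat 0, .ofNat 0, .ofNat 0, .ofNat 0, .ofNat 0, .ofNat 0, .ofNat 0, .ofNat 0, .ofNat 0⟩)
    (by decide +kernel)
theorem L02674 : Good (Phi V5.P V5.D 1 (-1)) ⟨4, 11, 3, 0, 2, 2, 2, 1, 4, 0⟩ :=
  leafYS_sound T5.ok_pm T5.Ypm.bz_eq (w := 210) (c := ⟨⟨.ofNat 3133, .ofNat 318, .negSucc 118, .ofNat 237, .negSucc 555, .negSucc 3359⟩, ⟨.ofNat 573, .ofNat 159, .negSucc 95, .ofNat 174, .negSucc 71, .negSucc 702⟩, ⟨.negSucc 2034, .negSucc 188, .negSucc 15, .negSucc 465, .ofNat 560, .ofNat 1519⟩, ⟨.ofNat 5483, .ofNat 318, .negSucc 162, .ofNat 238, .negSucc 1015, .negSucc 5735⟩, ⟨.ofNat 674, .negSucc 529, .ofNat 319, .ofNat 1218, .ofNat 100, .negSucc 1392⟩, .ofNat 479, .negSucc 243, .ofNat 0, .negSucc 243, .ofNat 1616, .ofNat 0, .ofNat 234, .ofNat 128, .negSucc 321, .ofNat 0, .ofNat 127, .negSucc 24, .ofNat 0, .ofNat 0, .ofNat 463, .ofNat 1043, .ofNat 0, .ofNat 0, .ofNat 65344551824493384570510408509554688,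 .ofNat 0, .ofNat 0, .ofNat 0, .ofNat 2207232869115335525409289512075395072, .ofNat 0, .ofNat 0, .ofNat 0, .ofNat 6677777971182675610498148511038570496, .ofNat 0, .ofNat 0, .ofNat 0, .ofNat 2893793835152959223116006042961444864, .ofNat 0⟩)
    (by decide +kernel)
theorem L02675 : Good (Phi V5.P V5.D 1 (-1)) ⟨3, 4, 3, 0, 2, 3, 2, 1, 4, 0⟩ :=
  leafYS_sound T5.ok_pm T5.Ypm.bz_eq (w := 205) (c := ⟨⟨.ofNat 2018, .ofNat 478, .ofNat 6, .negSucc 765, .negSucc 667, .negSucc 1918⟩, ⟨.ofNat 188, .ofNat 182, .negSucc 45, .ofNat 1, .negSucc 77, .negSucc 183⟩, ⟨.negSucc 1873, .negSucc 449, .negSucc 16, .ofNat 941, .ofNat 874, .ofNat 655⟩, ⟨.ofNat 4043, .ofNat 582, .ofNat 217, .negSucc 1564, .negSucc 1323, .negSucc 3687⟩, ⟨.ofNat 1941, .ofNat 296, .ofNat 265, .ofNat 713, .negSucc 1141, .negSucc 851⟩, .ofNat 497, .negSucc 86, .ofNat 0, .negSucc 86, .ofNat 2659, .ofNat 0, .ofNat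 362, .ofNat 88, .negSucc 328, .ofNat 0, .ofNat 128, .negSucc 0, .ofNat 0, .ofNat 0, .ofNat 490, .ofNat 526, .ofNat 0, .ofNat 0, .ofNat 0, .ofNat 0, .ofNat 0, .ofNat 0, .ofNat 0, .ofNat 0, .ofNat 0, .ofNat 0, .ofNat 0, .ofNat 0, .ofNat 0, .ofNat 0, .ofNat 0, .ofNat 0⟩)
    (by decide +kernel)
theorem L02676 : Good (Phi V5.P V5.D 1 (-1)) ⟨4, 10, 3, 0, 3, 6, 3, 2, 5, 0⟩ :=
  leafYS_sound T5.ok_pm T5.Ypm.bz_eq (w := 233) (c := ⟨⟨.ofNat 2566, .ofNat 609, .ofNat 187, .negSucc 210, .negSucc 173, .negSucc 1414⟩, ⟨.ofNat 418, .ofNat 282, .negSucc 33, .ofNat 89, .negSucc 37, .negSucc 271⟩, ⟨.negSucc 2251, .negSucc 337, .ofNat 3, .ofNat 112, .ofNat 423, .ofNat 497⟩, ⟨.ofNat 4665, .ofNat 722, .ofNat 494, .negSucc 518, .negSucc 304, .negSucc 2473⟩, ⟨.ofNat 2284, .ofNat 51, .ofNat 266, .ofNat 890, .negSucc 228, .negSucc 1186⟩, .ofNat 411, .negSucc 105, .ofNat 0, .negSucc 105,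 .ofNat 1267, .ofNat 0, .ofNat 306, .ofNat 128, .negSucc 304, .ofNat 0, .ofNat 121, .negSucc 16, .ofNat 0, .ofNat 0, .ofNat 390, .ofNat 1762, .ofNat 0, .ofNat 0, .ofNat 1224474254419258784729127071175061469659136, .ofNat 0, .ofNat 0, .ofNat 0, .ofNat 14540152771944573149952437164304916155465728, .ofNat 0, .ofNat 0, .ofNat 0, .ofNat 0, .ofNat 0, .ofNat 0, .ofNat 0, .ofNat 0, .ofNat 0⟩)
    (by decide +kernel)
theorem L02677 : Good (Phi V5.P V5.D 1 (-1)) ⟨4, 10, 3, 0, 3, 6, 3, 3, 5, 0⟩ :=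
  leafYS_sound T5.ok_pm T5.Ypm.bz_eq (w := 232) (c := ⟨⟨.ofNat 2293, .ofNat 672, .ofNat 192, .negSucc 286, .negSucc 513, .negSucc 1343⟩, ⟨.ofNat 379, .ofNat 279, .negSucc 43, .ofNat 48, .negSucc 67, .negSucc 267⟩, ⟨.negSucc 1842, .negSucc 332, .ofNat 5, .ofNat 211, .ofNat 574, .ofNat 473⟩, ⟨.ofNat 4130, .ofNat 892, .ofNat 551, .negSucc 603, .negSucc 955, .negSucc 2383⟩, ⟨.ofNat 2130, .ofNat 162, .ofNat 209, .ofNat 667, .negSucc 227, .negSucc 1104⟩, .ofNat 410, .negSucc 107, .ofNat 0, .negSucc 107, .ofNat 1259, .ofNat 0, .ofNat 195, .ofNat 128, .negSucc 288, .ofNat 0, .ofNat 101, .negSucc 17, .ofNat 0, .ofNat 0, .ofNat 317, .ofNat 670, .ofNat 0, .ofNat 0, .ofNat 814008532126578772076623282590279727579136, .ofNat 0, .ofNat 0, .ofNat 0, .ofNat 5531009401980164838209492241559229544005632, .ofNat 0, .ofNat 0, .ofNat 0, .ofNat 0, .ofNat 0, .ofNat 0, .ofNat 0, .ofNat 0,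 .ofNat 0⟩)
    (by decide +kernel)
theorem L02678 : Good (Phi V5.P V5.D 1 (-1)) ⟨4, 10, 3, 0, 3, 6, 2, 1, 5, 1⟩ :=
  leafYS_sound T5.ok_pm T5.Ypm.bz_eq (w := 228) (c := ⟨⟨.ofNat 1470, .negSucc 0, .ofNat 138, .negSucc 176, .negSucc 886, .negSucc 1585⟩, ⟨.ofNat 208, .ofNat 65, .ofNat 38, .ofNat 75, .negSucc 148, .negSucc 191⟩, ⟨.negSucc 1862, .negSucc 17, .negSucc 66, .ofNat 58, .ofNat 1128, .ofNat 802⟩, ⟨.ofNat 2653, .negSucc 96, .ofNat 353, .negSucc 437, .negSucc 1605, .negSucc 2918⟩, ⟨.ofNat 1068, .ofNat 67, .ofNat 166, .ofNat 808, .negSucc 426, .negSucc 447⟩, .ofNat 410, .negSucc 102, .ofNat 0, .negSucc 102, .ofNat 1259, .ofNat 0, .ofNat 250, .ofNat 116, .negSucc 329, .ofNat 0, .ofNat 128, .negSucc 9, .ofNat 0, .ofNat 0, .ofNat 404, .ofNat 1196, .ofNat 0, .ofNat 0, .ofNat 0, .ofNat 0, .ofNat 0, .ofNat 0, .ofNat 388489598819882210262580698777412744249344, .ofNat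 0, .ofNat 0, .ofNat 0, .ofNat 0, .ofNat 0, .ofNat 0, .ofNat 0, .ofNat 0, .ofNat 0⟩)
    (by decide +kernel)
theorem L02679 : Good (Phi V5.P V5.D 1 (-1)) ⟨4, 10, 3, 0, 3, 7, 3, 2, 5, 0⟩ :=
  leafYS_sound T5.ok_pm T5.Ypm.bz_eq (w := 232) (c := ⟨⟨.ofNat 1905, .ofNat 722, .ofNat 412, .negSucc 250, .negSucc 131, .negSucc 1097⟩, ⟨.ofNat 473, .ofNat 280, .ofNat 7, .negSucc 22, .negSucc 78, .negSucc 225⟩, ⟨.negSucc 1760, .negSucc 396, .negSucc 203, .ofNat 978, .ofNat 315, .ofNat 187⟩, ⟨.ofNat 3262, .ofNat 998, .ofNat 969, .negSucc 465, .negSucc 190, .negSucc 1940⟩, ⟨.ofNat 3416, .ofNat 46, .ofNat 41, .negSucc 19, .negSucc 484, .negSucc 994⟩, .ofNat 411, .negSucc 110, .ofNat 0, .negSucc 110, .ofNat 1259, .ofNat 0, .ofNat 270, .ofNat 128, .negSucc 230, .ofNat 0, .ofNat 101, .negSucc 21, .ofNat 0, .ofNat 0, .ofNat 244, .ofNat 832, .ofNat 0, .ofNat 0, .ofNat 783285195901405108548953842512506189250560,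 .ofNat 0, .ofNat 0, .ofNat 0, .ofNat 10574490642533378849322325469933046616555520, .ofNat 0, .ofNat 0, .ofNat 0, .ofNat 0, .ofNat 0, .ofNat 0, .ofNat 0, .ofNat 2534497441839694343285527170471994327040000, .ofNat 0⟩)
    (by decide +kernel)
theorem L02680 : Good (Phi V5.P V5.D 1 (-1)) ⟨4, 10, 3, 0, 3, 7, 3, 3, 5, 0⟩ :=
  leafYS_sound T5.ok_pm T5.Ypm.bz_eq (w := 231) (c := ⟨⟨.ofNat 1633, .ofNat 723, .ofNat 501, .negSucc 181, .negSucc 849, .negSucc 1015⟩, ⟨.ofNat 382, .ofNat 296, .ofNat 43, .negSucc 32, .negSucc 165, .negSucc 225⟩, ⟨.negSucc 1348, .negSucc 349, .negSucc 181, .ofNat 691, .ofNat 608, .ofNat 181⟩, ⟨.ofNat 2825, .ofNat 979, .ofNat 1069, .negSucc 341, .negSucc 1491, .negSucc 1744⟩, ⟨.ofNat 2964, .ofNat 265, .negSucc 87, .negSucc 289, .negSucc 517, .negSucc 994⟩, .ofNat 469, .negSucc 187, .ofNat 0, .negSucc 187, .ofNat 1953, .ofNat 0, .ofNat 190, .ofNat 128,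 .negSucc 260, .ofNat 0, .ofNat 74, .negSucc 24, .ofNat 0, .ofNat 0, .ofNat 253, .ofNat 407, .ofNat 0, .ofNat 0, .ofNat 592197035117512210988838144420609829896192, .ofNat 0, .ofNat 0, .ofNat 0, .ofNat 4727897985902950445152448913350709531901952, .ofNat 0, .ofNat 0, .ofNat 0, .ofNat 1255129792300458213958046050182328299290624, .ofNat 0, .ofNat 0, .ofNat 0, .ofNat 0, .ofNat 0⟩)
    (by decide +kernel)
theorem L02681 : Good (Phi V5.P V5.D 1 (-1)) ⟨4, 10, 3, 0, 3, 7, 2, 1, 5, 1⟩ :=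
  leafYS_sound T5.ok_pm T5.Ypm.bz_eq (w := 227) (c := ⟨⟨.ofNat 887, .ofNat 278, .ofNat 194, .ofNat 273, .negSucc 903, .negSucc 1358⟩, ⟨.ofNat 266, .ofNat 121, .ofNat 55, .ofNat 64, .negSucc 222, .negSucc 182⟩, ⟨.negSucc 1389, .negSucc 157, .negSucc 164, .ofNat 440, .ofNat 848, .ofNat 509⟩, ⟨.ofNat 1439, .ofNat 368, .ofNat 495, .ofNat 443, .negSucc 1570, .negSucc 2459⟩, ⟨.ofNat 2416, .negSucc 97, .negSucc 8, .ofNat 147, .negSucc 1246, .negSucc 388⟩, .ofNat 466, .negSucc 170, .ofNat 0, .negSucc 170, .ofNat 1895, .ofNat 0, .ofNat 318, .ofNat 128, .negSucc 375, .ofNat 0, .ofNat 104, .negSucc 28, .ofNat 0, .ofNat 0, .ofNat 405, .ofNat 846, .ofNat 0, .ofNat 0, .ofNat 0, .ofNat 0, .ofNat 0, .ofNat 0, .ofNat 666756094875355791275172695009505249853440, .ofNat 0, .ofNat 0, .ofNat 0, .ofNat 131231818764356460037051551749166426226688, .ofNat 0, .ofNat 0, .ofNat 0, .ofNat 0,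 .ofNat 0⟩)
    (by decide +kernel)
theorem L02682 : Good (Phi V5.P V5.D 1 (-1)) ⟨4, 11, 3, 0, 3, 6, 3, 2, 4, 0⟩ :=
  leafYS_sound T5.ok_pm T5.Ypm.bz_eq (w := 227) (c := ⟨⟨.ofNat 3468, .ofNat 455, .ofNat 119, .negSucc 246, .negSucc 206, .negSucc 3755⟩, ⟨.ofNat 798, .ofNat 322, .negSucc 18, .ofNat 57, .negSucc 42, .negSucc 828⟩, ⟨.negSucc 2769, .negSucc 217, .negSucc 66, .ofNat 83, .ofNat 492, .ofNat 1703⟩, ⟨.ofNat 5812, .ofNat 414, .ofNat 340, .negSucc 564, .negSucc 347, .negSucc 6338⟩, ⟨.ofNat 2197, .ofNat 147, .ofNat 72, .ofNat 871, .negSucc 76, .negSucc 1850⟩, .ofNat 506, .negSucc 333, .ofNat 0, .negSucc 333, .ofNat 2103, .ofNat 0, .ofNat 155, .ofNat 128, .negSucc 200, .ofNat 0, .ofNat 92, .negSucc 23, .ofNat 0, .ofNat 0, .ofNat 248, .ofNat 975, .ofNat 0, .ofNat 0, .ofNat 30238417809028326340031369558779108524032, .ofNat 0, .ofNat 0, .ofNat 0, .ofNat 434415641785403238749565461888883591479296,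 .ofNat 0, .ofNat 0, .ofNat 0, .ofNat 947025186531073248907408450333405205233664, .ofNat 0, .ofNat 0, .ofNat 0, .ofNat 131930089308921821615313284174121114009600, .ofNat 0⟩)
    (by decide +kernel)
theorem L02683 : Good (Phi V5.P V5.D 1 (-1)) ⟨4, 11, 3, 0, 3, 6, 3, 3, 4, 0⟩ :=
  leafYS_sound T5.ok_pm T5.Ypm.bz_eq (w := 227) (c := ⟨⟨.ofNat 3414, .ofNat 700, .ofNat 182, .negSucc 374, .negSucc 782, .negSucc 4067⟩, ⟨.ofNat 803, .ofNat 398, .negSucc 33, .ofNat 26, .negSucc 160, .negSucc 913⟩, ⟨.negSucc 2386, .negSucc 420, .negSucc 95, .ofNat 219, .ofNat 742, .ofNat 1861⟩, ⟨.ofNat 5706, .ofNat 797, .ofNat 534, .negSucc 788, .negSucc 1336, .negSucc 6862⟩, ⟨.ofNat 2231, .ofNat 345, .negSucc 117, .ofNat 764, .negSucc 142, .negSucc 1990⟩, .ofNat 468, .negSucc 225, .ofNat 0, .negSucc 225, .ofNat 1521, .ofNat 0, .ofNat 128, .ofNat 152, .negSucc 229, .ofNat 0, .ofNat 102, .negSucc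 27, .ofNat 0, .ofNat 0, .ofNat 217, .ofNat 437, .ofNat 0, .ofNat 0, .ofNat 22381337196285839844883923341345275510784, .ofNat 0, .ofNat 0, .ofNat 0, .ofNat 155936965502221319643071463346788500504576, .ofNat 0, .ofNat 0, .ofNat 0, .ofNat 333399765213760613433188641779813252595712, .ofNat 0, .ofNat 0, .ofNat 0, .ofNat 224781394508732383152716950365441280180224, .ofNat 0⟩)
    (by decide +kernel)
theorem L02684 : Good (Phi V5.P V5.D 1 (-1)) ⟨5, 22, 4, 0, 3, 7, 3, 2, 5, 0⟩ :=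
  leafYS_sound T5.ok_pm T5.Ypm.bz_eq (w := 239) (c := ⟨⟨.ofNat 2782, .ofNat 485, .ofNat 333, .negSucc 110, .negSucc 53, .negSucc 1680⟩, ⟨.ofNat 822, .ofNat 232, .ofNat 54, .ofNat 6, .negSucc 49, .negSucc 434⟩, ⟨.negSucc 2324, .negSucc 205, .negSucc 109, .ofNat 1102, .ofNat 228, .ofNat 450⟩, ⟨.ofNat 4415, .ofNat 619, .ofNat 667, .negSucc 222, .negSucc 41, .negSucc 2750⟩, ⟨.ofNat 3394, .ofNat 168, .ofNat 149, .ofNat 192, .negSucc 326, .negSucc 1318⟩, .ofNat 494, .negSucc 307, .ofNat 0, .negSucc 307, .ofNat 1943, .ofNat 0, .ofNat 208, .ofNat 128, .negSucc 321, .ofNat 0, .ofNat 78, .negSucc 51, .ofNat 0, .ofNat 0, .ofNat 322, .ofNat 561, .ofNat 0, .ofNat 0, .ofNat 393670161892474880325596386135335338246144, .ofNat 0, .ofNat 0, .ofNat 0, .ofNat 5346153612196610171928843418206344700755968, .ofNat 0, .ofNat 0, .ofNat 0, .ofNat 9155328571168784569630061291109472689717248,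 .ofNat 0, .ofNat 0, .ofNat 0, .ofNat 0, .ofNat 0⟩)
    (by decide +kernel)
theorem L02685 : Good (Phi V5.P V5.D 1 (-1)) ⟨5, 22, 4, 0, 3, 7, 3, 3, 5, 0⟩ :=
  leafYS_sound T5.ok_pm T5.Ypm.bz_eq (w := 238) (c := ⟨⟨.ofNat 2301, .ofNat 978, .ofNat 460, .ofNat 340, .negSucc 817, .negSucc 1635⟩, ⟨.ofNat 716, .ofNat 316, .ofNat 79, .ofNat 65, .negSucc 186, .negSucc 438⟩, ⟨.negSucc 1614, .negSucc 533, .negSucc 226, .ofNat 563, .ofNat 587, .ofNat 373⟩, ⟨.ofNat 3610, .ofNat 1494, .ofNat 875, .ofNat 594, .negSucc 1384, .negSucc 2667⟩, ⟨.ofNat 3133, .ofNat 354, .ofNat 29, .ofNat 57, .negSucc 456, .negSucc 1371⟩, .ofNat 470, .negSucc 257, .ofNat 0, .negSucc 257, .ofNat 1698, .ofNat 0, .ofNat 205, .ofNat 128, .negSucc 329, .ofNat 0, .ofNat 67, .negSucc 52, .ofNat 0, .ofNat 0, .ofNat 275, .ofNat 218, .ofNat 0, .ofNat 0, .ofNat 242850324419774879520948703284521997434880, .ofNat 0,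 .ofNat 0, .ofNat 0, .ofNat 0, .ofNat 0, .ofNat 0, .ofNat 0, .ofNat 4812398218842399321707360439119826334515200, .ofNat 0, .ofNat 0, .ofNat 0, .ofNat 0, .ofNat 0⟩)
    (by decide +kernel)
theorem L02686 : Good (Phi V5.P V5.D 1 (-1)) ⟨5, 22, 4, 1, 3, 7, 2, 1, 5, 0⟩ :=
  out_sound (S := T5.ds_pm) T5.ok_pm (w := 59) (j := 3) (by decide +kernel)
theorem L02687 : Good (Phi V5.P V5.D 1 (-1)) ⟨5, 23, 3, 0, 3, 7, 2, 1, 5, 0⟩ :=
  out_sound (S := T5.ds_pm) T5.ok_pm (w := 57) (j := 3) (by decide +kernel)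
theorem L02688 : Good (Phi V5.P V5.D 1 (-1)) ⟨4, 11, 3, 0, 3, 7, 2, 1, 5, 1⟩ :=
  leafYS_sound T5.ok_pm T5.Ypm.bz_eq (w := 227) (c := ⟨⟨.ofNat 987, .ofNat 295, .ofNat 676, .ofNat 627, .negSucc 1210, .negSucc 1404⟩, ⟨.ofNat 406, .ofNat 167, .ofNat 148, .ofNat 144, .negSucc 317, .negSucc 285⟩, ⟨.negSucc 1351, .negSucc 494, .negSucc 568, .ofNat 200, .ofNat 970, .ofNat 509⟩, ⟨.ofNat 1408, .ofNat 359, .ofNat 1344, .ofNat 1052, .negSucc 2005, .negSucc 2407⟩, ⟨.ofNat 2238, .ofNat 41, .negSucc 69, .ofNat 345, .negSucc 937, .negSucc 542⟩, .ofNat 469, .negSucc 253, .ofNat 0, .negSucc 253, .ofNat 1687, .ofNat 0, .ofNat 275, .ofNat 128, .negSucc 442, .ofNat 0, .ofNat 86, .negSucc 58, .ofNat 0, .ofNat 0, .ofNat 446, .ofNat 499, .ofNat 0, .ofNat 0, .ofNat 32043352617023517963115430302208256638976, .ofNat 0, .ofNat 0, .ofNat 0, .ofNat 1503645980214568355637664612492952505155584,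 .ofNat 0, .ofNat 0, .ofNat 0, .ofNat 983925569664959925295808262312740893229056, .ofNat 0, .ofNat 0, .ofNat 0, .ofNat 926128270721331688816593550518293985492992, .ofNat 0⟩)
    (by decide +kernel)
theorem L02689 : Good (Phi V5.P V5.D 1 (-1)) ⟨3, 4, 3, 0, 1, 1, 2, 1, 4, 1⟩ :=
  leafYS_sound T5.ok_pm T5.Ypm.bz_eq (w := 190) (c := ⟨⟨.ofNat 24, .negSucc 355, .ofNat 61, .negSucc 242, .negSucc 450, .negSucc 1348⟩, ⟨.negSucc 112, .negSucc 70, .ofNat 151, .ofNat 196, .negSucc 65, .ofNat 7⟩, ⟨.negSucc 849, .ofNat 140, .negSucc 127, .ofNat 61, .ofNat 755, .ofNat 1071⟩, ⟨.negSucc 98, .negSucc 477, .ofNat 185, .negSucc 540, .negSucc 946, .negSucc 2759⟩, ⟨.negSucc 751, .ofNat 135, .ofNat 231, .ofNat 2492, .negSucc 764, .ofNat 336⟩, .ofNat 436, .negSucc 31, .ofNat 0, .negSucc 31, .ofNat 1520, .ofNat 0, .ofNat 665, .ofNat 19, .negSucc 290, .ofNat 0, .ofNat 128, .ofNat 15, .ofNat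 0, .ofNat 0, .ofNat 564, .ofNat 812, .ofNat 0, .ofNat 0, .ofNat 0, .ofNat 0, .ofNat 0, .ofNat 0, .ofNat 0, .ofNat 0, .ofNat 0, .ofNat 0, .ofNat 0, .ofNat 0, .ofNat 0, .ofNat 0, .ofNat 0, .ofNat 0⟩)
    (by decide +kernel)
theorem L02690 : Good (Phi V5.P V5.D 1 (-1)) ⟨3, 5, 3, 0, 2, 2, 2, 1, 4, 1⟩ :=
  leafYS_sound T5.ok_pm T5.Ypm.bz_eq (w := 204) (c := ⟨⟨.ofNat 75, .negSucc 460, .ofNat 206, .negSucc 397, .negSucc 462, .negSucc 1705⟩, ⟨.ofNat 9, .negSucc 252, .ofNat 132, .ofNat 18, .negSucc 81, .negSucc 196⟩, ⟨.negSucc 581, .ofNat 195, .negSucc 189, .negSucc 348, .ofNat 916, .ofNat 1209⟩, ⟨.ofNat 81, .negSucc 465, .ofNat 365, .negSucc 811, .negSucc 814, .negSucc 3173⟩, ⟨.negSucc 368, .ofNat 35, .negSucc 65, .ofNat 883, .negSucc 118, .ofNat 64⟩, .ofNat 409, .negSucc 124, .ofNat 0, .negSucc 124, .ofNat 1227, .ofNat 0, .ofNat 312, .ofNat 82, .negSucc 196, .ofNat 0, .ofNat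 128, .negSucc 1, .ofNat 0, .ofNat 0, .ofNat 378, .ofNat 1051, .ofNat 0, .ofNat 0, .ofNat 0, .ofNat 0, .ofNat 0, .ofNat 0, .ofNat 7711670390039597367668612730495959040, .ofNat 0, .ofNat 0, .ofNat 0, .ofNat 14381727306227659488714261084332097536, .ofNat 0, .ofNat 0, .ofNat 0, .ofNat 2501053922872708680345242899264307200, .ofNat 0⟩)
    (by decide +kernel)
theorem L02691 : Good (Phi V5.P V5.D 1 (-1)) ⟨3, 5, 3, 0, 2, 3, 2, 1, 4, 1⟩ :=
  leafYS_sound T5.ok_pm T5.Ypm.bz_eq (w := 204) (c := ⟨⟨.negSucc 473, .negSucc 331, .ofNat 32, .ofNat 460, .negSucc 1130, .negSucc 1591⟩, ⟨.negSucc 35, .negSucc 37, .ofNat 199, .ofNat 217, .negSucc 245, .negSucc 160⟩, ⟨.negSucc 929, .ofNat 293, .negSucc 1, .negSucc 51, .ofNat 1116, .ofNat 1149⟩, ⟨.negSucc 1124, .negSucc 352, .ofNat 179, .ofNat 620, .negSucc 1932, .negSucc 2860⟩, ⟨.ofNat 930, .ofNat 211, .ofNat 186, .ofNat 999, .negSucc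 604, .ofNat 137⟩, .ofNat 480, .negSucc 223, .ofNat 0, .negSucc 223, .ofNat 2026, .ofNat 0, .ofNat 353, .ofNat 107, .negSucc 220, .ofNat 0, .ofNat 128, .negSucc 10, .ofNat 0, .ofNat 0, .ofNat 329, .ofNat 578, .ofNat 0, .ofNat 0, .ofNat 237792335625359480169810608540090368, .ofNat 0, .ofNat 0, .ofNat 0, .ofNat 3280589354531127836753208298350575616, .ofNat 0, .ofNat 0, .ofNat 0, .ofNat 16133210343094801883179196212941160448, .ofNat 0, .ofNat 0, .ofNat 0, .ofNat 3389240037881420342416527760319053824, .ofNat 0⟩)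
    (by decide +kernel)
theorem L02692 : Good (Phi V5.P V5.D 1 (-1)) ⟨2, 3, 3, 0, 1, 1, 2, 1, 3, 0⟩ :=
  out_sound (S := T5.ds_pm) T5.ok_pm (w := 39) (j := 3) (by decide +kernel)
theorem L02693 : Good (Phi V5.P V5.D 1 (-1)) ⟨3, 4, 3, 1, 2, 2, 2, 0, 4, 0⟩ :=
  leafYS_sound T5.ok_pm T5.Ypm.bz_eq (w := 205) (c := ⟨⟨.ofNat 1783, .ofNat 248, .ofNat 43, .ofNat 16, .ofNat 367, .negSucc 2079⟩, ⟨.negSucc 141, .ofNat 128, .negSucc 75, .ofNat 170, .ofNat 28, .ofNat 52⟩, ⟨.negSucc 1283, .negSucc 162, .ofNat 0, .negSucc 775, .ofNat 108, .ofNat 515⟩, ⟨.ofNat 3821, .ofNat 104, .ofNat 190, .ofNat 117, .ofNat 715, .negSucc 4307⟩, ⟨.negSucc 73, .negSucc 107, .ofNat 279, .ofNat 1765, .ofNat 277, .negSucc 733⟩, .ofNat 441, .ofNat 70, .ofNat 0, .ofNat 70, .ofNat 1349, .ofNat 0, .ofNat 350, .negSucc 70, .negSucc 153, .ofNat 0, .ofNat 128, .ofNat 26, .ofNat 0, .ofNat 0, .ofNat 479, .ofNat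 2594, .ofNat 0, .ofNat 0, .ofNat 0, .ofNat 0, .ofNat 0, .ofNat 0, .ofNat 0, .ofNat 0, .ofNat 0, .ofNat 0, .ofNat 0, .ofNat 0, .ofNat 0, .ofNat 0, .ofNat 0, .ofNat 0⟩)
    (by decide +kernel)
theorem L02694 : Good (Phi V5.P V5.D 1 (-1)) ⟨3, 5, 3, 1, 2, 2, 3, 0, 4, 0⟩ :=
  leafYS_sound T5.ok_pm T5.Ypm.bz_eq (w := 209) (c := ⟨⟨.ofNat 2211, .ofNat 91, .negSucc 38, .ofNat 8, .ofNat 316, .negSucc 2478⟩, ⟨.ofNat 29, .ofNat 178, .negSucc 34, .ofNat 217, .ofNat 21, .negSucc 146⟩, ⟨.negSucc 1229, .negSucc 915, .negSucc 294, .negSucc 901, .negSucc 67, .ofNat 619⟩, ⟨.ofNat 4232, .negSucc 224, .negSucc 18, .negSucc 31, .ofNat 587, .negSucc 4666⟩, ⟨.negSucc 194, .ofNat 47, .ofNat 402, .ofNat 1822, .ofNat 181, .negSucc 704⟩, .ofNat 390, .negSucc 38, .ofNat 0, .negSucc 38, .ofNat 968, .ofNat 0, .ofNat 267, .negSucc 2, .negSucc 127, .ofNat 0, .ofNat 128, .ofNat 19, .ofNat 0, .ofNat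 0, .ofNat 458, .ofNat 3771, .ofNat 0, .ofNat 0, .ofNat 2231601656594270520226466250490904576, .ofNat 0, .ofNat 0, .ofNat 0, .ofNat 109126262810079205060884115020331352064, .ofNat 0, .ofNat 0, .ofNat 0, .ofNat 121166940083473969109847923083783962624, .ofNat 0, .ofNat 0, .ofNat 0, .ofNat 89576781892945963519851926168887361536, .ofNat 0⟩)
    (by decide +kernel)
theorem L02695 : Good (Phi V5.P V5.D 1 (-1)) ⟨3, 5, 3, 1, 2, 2, 3, 1, 4, 0⟩ :=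
  leafYS_sound T5.ok_pm T5.Ypm.bz_eq (w := 210) (c := ⟨⟨.ofNat 2498, .ofNat 344, .ofNat 41, .ofNat 125, .ofNat 115, .negSucc 2625⟩, ⟨.ofNat 95, .ofNat 234, .negSucc 63, .ofNat 195, .ofNat 19, .negSucc 219⟩, ⟨.negSucc 1663, .negSucc 181, .ofNat 70, .negSucc 652, .ofNat 93, .ofNat 917⟩, ⟨.ofNat 4775, .ofNat 119, .ofNat 118, .ofNat 180, .ofNat 215, .negSucc 4914⟩, ⟨.ofNat 312, .negSucc 196, .ofNat 165, .ofNat 1638, .ofNat 102, .negSucc 1147⟩, .ofNat 390, .negSucc 38, .ofNat 0, .negSucc 38, .ofNat 968, .ofNat 0, .ofNat 290, .ofNat 23, .negSucc 165, .ofNat 0, .ofNat 128, .ofNat 16, .ofNat 0, .ofNat 0, .ofNat 354, .ofNat 3096, .ofNat 0, .ofNat 0, .ofNat 6520063581686346871735251108662083584, .ofNat 0, .ofNat 0, .ofNat 0, .ofNat 121101112439753040733868589208639111168, .ofNat 0, .ofNat 0, .ofNat 0, .ofNat 210996548192463037984295787243258249216, .ofNat 0, .ofNat 0, .ofNat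 0, .ofNat 54513090846607937806751375078725779456, .ofNat 0⟩)
    (by decide +kernel)
theorem L02696 : Good (Phi V5.P V5.D 1 (-1)) ⟨3, 4, 3, 1, 3, 6, 3, 0, 4, 0⟩ :=
  leafYS_sound T5.ok_pm T5.Ypm.bz_eq (w := 223) (c := ⟨⟨.ofNat 1639, .ofNat 297, .ofNat 41, .negSucc 70, .ofNat 311, .negSucc 2011⟩, ⟨.ofNat 31, .ofNat 196, .ofNat 16, .ofNat 152, .negSucc 49, .negSucc 8⟩, ⟨.negSucc 2235, .negSucc 323, .negSucc 84, .negSucc 11, .ofNat 309, .ofNat 464⟩, ⟨.ofNat 3668, .ofNat 60, .ofNat 297, .negSucc 27, .ofNat 612, .negSucc 4120⟩, ⟨.ofNat 2251, .ofNat 9, .ofNat 392, .ofNat 1910, .negSucc 394, .negSucc 1035⟩, .ofNat 440, .ofNat 61, .ofNat 0, .ofNat 61, .ofNat 1368, .ofNat 0, .ofNat 561, .negSucc 80, .negSucc 404, .ofNat 0, .ofNat 128, .ofNat 39, .ofNat 0, .ofNat 0, .ofNat 980, .ofNat 3620, .ofNat 0, .ofNat 0, .ofNat 0, .ofNat 0, .ofNat 0, .ofNat 0, .ofNat 0, .ofNat 0, .ofNat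 6811967952216522460919508780031011054889730048, .ofNat 0, .ofNat 0, .ofNat 0, .ofNat 0, .ofNat 0, .ofNat 0, .ofNat 0⟩)
    (by decide +kernel)
theorem L02697 : Good (Phi V5.P V5.D 1 (-1)) ⟨3, 4, 3, 1, 3, 6, 3, 1, 4, 0⟩ :=
  leafYS_sound T5.ok_pm T5.Ypm.bz_eq (w := 222) (c := ⟨⟨.ofNat 1915, .ofNat 352, .negSucc 20, .negSucc 73, .ofNat 46, .negSucc 2014⟩, ⟨.ofNat 5, .ofNat 171, .negSucc 27, .ofNat 141, .negSucc 60, .ofNat 13⟩, ⟨.negSucc 2045, .negSucc 379, .ofNat 46, .negSucc 6, .ofNat 334, .ofNat 673⟩, ⟨.ofNat 4266, .ofNat 228, .ofNat 206, .negSucc 74, .ofNat 83, .negSucc 4265⟩, ⟨.ofNat 2239, .negSucc 16, .ofNat 316, .ofNat 1516, .negSucc 451, .negSucc 1299⟩, .ofNat 327, .ofNat 25, .ofNat 0, .ofNat 25, .ofNat 657, .ofNat 0, .ofNat 313, .negSucc 33, .negSucc 205, .ofNat 0, .ofNat 128, .ofNat 28, .ofNat 0, .ofNat 0, .ofNat 310, .ofNat 1241, .ofNat 0, .ofNat 0, .ofNat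 0, .ofNat 0, .ofNat 0, .ofNat 0, .ofNat 593513567013853342140099240215043320578048, .ofNat 0, .ofNat 0, .ofNat 0, .ofNat 0, .ofNat 0, .ofNat 0, .ofNat 0, .ofNat 0, .ofNat 0⟩)
    (by decide +kernel)
theorem L02698 : Good (Phi V5.P V5.D 1 (-1)) ⟨4, 10, 3, 1, 3, 6, 3, 0, 4, 0⟩ :=
  leafYS_sound T5.ok_pm T5.Ypm.bz_eq (w := 226) (c := ⟨⟨.ofNat 2209, .ofNat 77, .ofNat 32, .ofNat 194, .ofNat 231, .negSucc 2499⟩, ⟨.ofNat 302, .ofNat 206, .ofNat 60, .ofNat 255, .negSucc 68, .negSucc 213⟩, ⟨.negSucc 2795, .negSucc 232, .negSucc 96, .negSucc 300, .ofNat 441, .ofNat 864⟩, ⟨.ofNat 4112, .negSucc 109, .ofNat 292, .ofNat 265, .ofNat 463, .negSucc 4650⟩, ⟨.ofNat 2295, .ofNat 106, .ofNat 612, .ofNat 2008, .negSucc 550, .negSucc 1010⟩, .ofNat 406, .negSucc 32, .ofNat 0, .negSucc 32, .ofNat 1167, .ofNat 0, .ofNat 230, .negSucc 21, .negSucc 139, .ofNat 0, .ofNat 128, .ofNat 4, .ofNat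 0, .ofNat 0, .ofNat 311, .ofNat 1648, .ofNat 0, .ofNat 0, .ofNat 6909468891726055692674298711982838120448, .ofNat 0, .ofNat 0, .ofNat 0, .ofNat 147093897742645152499793116116063965151232, .ofNat 0, .ofNat 0, .ofNat 0, .ofNat 0, .ofNat 0, .ofNat 0, .ofNat 0, .ofNat 47624039519171665687841838983355685666816, .ofNat 0⟩)
    (by decide +kernel)
theorem L02699 : Good (Phi V5.P V5.D 1 (-1)) ⟨4, 10, 3, 1, 3, 6, 3, 1, 4, 0⟩ :=
  leafYS_sound T5.ok_pm T5.Ypm.bz_eq (w := 228) (c := ⟨⟨.ofNat 2501, .ofNat 279, .ofNat 121, .ofNat 74, .ofNat 106, .negSucc 2652⟩, ⟨.ofNat 315, .ofNat 182, .negSucc 1, .ofNat 193, .negSucc 50, .negSucc 261⟩, ⟨.negSucc 2487, .negSucc 224, .negSucc 18, .negSucc 117, .ofNat 348, .ofNat 964⟩, ⟨.ofNat 4709, .ofNat 200, .ofNat 380, .ofNat 62, .ofNat 212, .negSucc 4925⟩, ⟨.ofNat 2384, .negSucc 11, .ofNat 347, .ofNat 1416, .negSucc 424, .negSucc 1448⟩, .ofNat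 451, .negSucc 25, .ofNat 0, .negSucc 25, .ofNat 1534, .ofNat 0, .ofNat 302, .ofNat 21, .negSucc 212, .ofNat 0, .ofNat 128, .ofNat 9, .ofNat 0, .ofNat 0, .ofNat 362, .ofNat 2974, .ofNat 0, .ofNat 0, .ofNat 55349206702770587799016005773991786577920, .ofNat 0, .ofNat 0, .ofNat 0, .ofNat 638965056559345122135076371842724026908672, .ofNat 0, .ofNat 0, .ofNat 0, .ofNat 1127158388107577329693338642767959681925120, .ofNat 0, .ofNat 0, .ofNat 0, .ofNat 137481098912158733635602547985411104309248, .ofNat 0⟩)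
    (by decide +kernel)
theorem L02700 : Good (Phi V5.P V5.D 1 (-1)) ⟨4, 11, 3, 1, 3, 6, 2, 0, 4, 0⟩ :=
  out_sound (S := T5.ds_pm) T5.ok_pm (w := 51) (j := 3) (by decide +kernel)
theorem L02701 : Good (Phi V5.P V5.D 1 (-1)) ⟨3, 4, 3, 1, 3, 7, 3, 0, 4, 0⟩ :=
  leafYS_sound T5.ok_pm T5.Ypm.bz_eq (w := 223) (c := ⟨⟨.ofNat 989, .ofNat 456, .ofNat 59, .negSucc 707, .ofNat 391, .negSucc 1284⟩, ⟨.ofNat 203, .ofNat 193, .ofNat 57, .ofNat 65, .negSucc 139, .ofNat 75⟩, ⟨.negSucc 1344, .negSucc 548, .negSucc 163, .ofNat 1652, .negSucc 112, .negSucc 269⟩, ⟨.ofNat 2417, .ofNat 379, .ofNat 488, .negSucc 1448, .ofNat 724, .negSucc 2615⟩, ⟨.ofNat 4294, .negSucc 68, .ofNat 516, .ofNat 151, .negSucc 1113, .negSucc 47⟩, .ofNat 478, .ofNat 98, .ofNat 0, .ofNat 98, .ofNat 1761, .ofNat 0, .ofNat 305, .negSucc 89, .negSucc 348, .ofNat 0, .ofNat 128, .ofNat 3, .ofNat 0, .ofNat 0, .ofNat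 675, .ofNat 2505, .ofNat 0, .ofNat 0, .ofNat 0, .ofNat 0, .ofNat 0, .ofNat 0, .ofNat 260213581694088042703976158122673340153856, .ofNat 0, .ofNat 0, .ofNat 0, .ofNat 843194240211009212908318885706112287375360, .ofNat 0, .ofNat 0, .ofNat 0, .ofNat 0, .ofNat 0⟩)
    (by decide +kernel)
theorem L02702 : Good (Phi V5.P V5.D 1 (-1)) ⟨3, 4, 3, 1, 3, 7, 3, 1, 4, 0⟩ :=
  leafYS_sound T5.ok_pm T5.Ypm.bz_eq (w := 223) (c := ⟨⟨.ofNat 1311, .ofNat 597, .ofNat 105, .negSucc 472, .ofNat 76, .negSucc 1493⟩, ⟨.ofNat 165, .ofNat 185, .negSucc 0, .ofNat 66, .negSucc 85, .negSucc 23⟩, ⟨.negSucc 1423, .negSucc 553, .negSucc 55, .ofNat 1078, .ofNat 131, .ofNat 138⟩, ⟨.ofNat 3045, .ofNat 681, .ofNat 473, .negSucc 990, .ofNat 110, .negSucc 3062⟩, ⟨.ofNat 3636, .ofNat 67, .ofNat 155, .ofNat 228, .negSucc 841, .negSucc 774⟩, .ofNat 442, .ofNat 74, .ofNat 0, .ofNat 74, .ofNat 1379, .ofNat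 0, .ofNat 372, .negSucc 42, .negSucc 327, .ofNat 0, .ofNat 128, .ofNat 12, .ofNat 0, .ofNat 0, .ofNat 503, .ofNat 1918, .ofNat 0, .ofNat 0, .ofNat 0, .ofNat 0, .ofNat 0, .ofNat 0, .ofNat 915439146917386077581339730035024290906112, .ofNat 0, .ofNat 0, .ofNat 0, .ofNat 0, .ofNat 0, .ofNat 0, .ofNat 0, .ofNat 0, .ofNat 0⟩)
    (by decide +kernel)
theorem L02703 : Good (Phi V5.P V5.D 1 (-1)) ⟨4, 10, 3, 1, 3, 7, 3, 0, 4, 0⟩ :=
  leafYS_sound T5.ok_pm T5.Ypm.bz_eq (w := 227) (c := ⟨⟨.ofNat 1776, .ofNat 207, .negSucc 52, .negSucc 529, .ofNat 385, .negSucc 1866⟩, ⟨.ofNat 563, .ofNat 142, .ofNat 55, .ofNat 31, .negSucc 127, .negSucc 114⟩, ⟨.negSucc 2328, .negSucc 45, .ofNat 72, .ofNat 1631, .negSucc 81, .ofNat 311⟩, ⟨.ofNat 3233, .ofNat 128, .ofNat 206, .negSucc 1004, .ofNat 743, .negSucc 3496⟩, ⟨.ofNat 4680, .negSucc 302, .ofNat 198, .ofNat 439, .negSucc 1175, .negSucc 445⟩,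 .ofNat 451, .negSucc 25, .ofNat 0, .negSucc 25, .ofNat 1534, .ofNat 0, .ofNat 286, .negSucc 26, .negSucc 501, .ofNat 0, .ofNat 128, .negSucc 32, .ofNat 0, .ofNat 0, .ofNat 817, .ofNat 1420, .ofNat 0, .ofNat 0, .ofNat 14948579607951369364039809108849838784512, .ofNat 0, .ofNat 0, .ofNat 0, .ofNat 392041736529400132984012003142355583500288, .ofNat 0, .ofNat 206198253342154092116030937673249440654373683200, .ofNat 0, .ofNat 463337046928567264648738734494400590643200, .ofNat 0, .ofNat 0, .ofNat 0, .ofNat 0, .ofNat 0⟩)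
    (by decide +kernel)
theorem L02704 : Good (Phi V5.P V5.D 1 (-1)) ⟨4, 10, 3, 1, 3, 7, 3, 1, 4, 0⟩ :=
  leafYS_sound T5.ok_pm T5.Ypm.bz_eq (w := 227) (c := ⟨⟨.ofNat 2021, .ofNat 428, .ofNat 458, .negSucc 221, .ofNat 231, .negSucc 2159⟩, ⟨.ofNat 449, .ofNat 232, .ofNat 57, .ofNat 28, .negSucc 86, .negSucc 192⟩, ⟨.negSucc 2005, .negSucc 276, .negSucc 512, .ofNat 1137, .ofNat 44, .ofNat 445⟩, ⟨.ofNat 3758, .ofNat 455, .ofNat 1120, .negSucc 431, .ofNat 450, .negSucc 4049⟩, ⟨.ofNat 3794, .ofNat 29, .ofNat 518, .ofNat 276, .negSucc 791, .negSucc 1165⟩, .ofNat 458, .negSucc 41, .ofNat 0, .negSucc 41, .ofNat 1713, .ofNat 0, .ofNat 386, .ofNat 35, .negSucc 517, .ofNat 0, .ofNat 128, .negSucc 21, .ofNat 0, .ofNat 0, .ofNat 721, .ofNat 1509, .ofNat 0, .ofNat 0, .ofNat 38019071903830861384182826226417680777216, .ofNat 0, .ofNat 0, .ofNat 0, .ofNat 668294660974863484242417058010585246990336,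 .ofNat 0, .ofNat 0, .ofNat 0, .ofNat 718029074733152225176012560291444234911744, .ofNat 0, .ofNat 0, .ofNat 0, .ofNat 0, .ofNat 0⟩)
    (by decide +kernel)
theorem L02705 : Good (Phi V5.P V5.D 1 (-1)) ⟨4, 11, 3, 1, 3, 7, 2, 0, 4, 0⟩ :=
  out_sound (S := T5.ds_pm) T5.ok_pm (w := 51) (j := 3) (by decide +kernel)
theorem L02706 : Good (Phi V5.P V5.D 1 (-1)) ⟨2, 2, 3, 1, 2, 2, 2, 0, 5, 2⟩ :=
  leafYS_sound T5.ok_pm T5.Ypm.bz_eq (w := 205) (c := ⟨⟨.negSucc 93, .negSucc 256, .negSucc 9, .negSucc 75, .ofNat 193, .negSucc 859⟩, ⟨.negSucc 77, .negSucc 71, .ofNat 87, .ofNat 166, .negSucc 3, .ofNat 31⟩, ⟨.negSucc 794, .negSucc 297, .negSucc 28, .negSucc 1013, .ofNat 760, .ofNat 438⟩, ⟨.negSucc 300, .negSucc 189, .negSucc 5, .negSucc 132, .ofNat 396, .negSucc 1736⟩, ⟨.negSucc 804, .ofNat 325, .ofNat 184, .ofNat 1630, .negSucc 52, .negSucc 30⟩, .ofNat 322, .ofNat 18, .ofNat 0,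 .ofNat 18, .ofNat 643, .ofNat 0, .ofNat 261, .negSucc 54, .negSucc 153, .ofNat 0, .ofNat 128, .ofNat 38, .ofNat 0, .ofNat 0, .ofNat 347, .ofNat 1862, .ofNat 33495011100139329536773429231096862605312, .ofNat 0, .ofNat 761393460581893262304968050913312768, .ofNat 0, .ofNat 0, .ofNat 0, .ofNat 258492485220394046091149806677220392960, .ofNat 0, .ofNat 0, .ofNat 0, .ofNat 172662455683147568255578570853183389696, .ofNat 0, .ofNat 0, .ofNat 0, .ofNat 320573005245855854612734123620886904832, .ofNat 0⟩)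
    (by decide +kernel)
theorem L02707 : Good (Phi V5.P V5.D 1 (-1)) ⟨2, 2, 3, 1, 2, 2, 2, 0, 5, 3⟩ :=
  leafYS_sound T5.ok_pm T5.Ypm.bz_eq (w := 205) (c := ⟨⟨.negSucc 820, .negSucc 433, .negSucc 29, .negSucc 148, .ofNat 51, .negSucc 557⟩, ⟨.negSucc 9, .negSucc 177, .ofNat 145, .ofNat 153, .negSucc 31, .ofNat 25⟩, ⟨.negSucc 535, .negSucc 187, .negSucc 50, .negSucc 846, .ofNat 897, .ofNat 471⟩, ⟨.negSucc 1919, .negSucc 211, .negSucc 15, .negSucc 231, .ofNat 130, .negSucc 1134⟩, ⟨.negSucc 701, .ofNat 473, .ofNat 189, .ofNat 1526, .negSucc 129, .negSucc 76⟩, .ofNat 436, .ofNat 48, .ofNat 0, .ofNat 48, .ofNat 1334, .ofNat 0, .ofNat 238, .negSucc 59, .negSucc 111, .ofNat 0, .ofNat 128, .ofNat 22, .ofNat 0, .ofNat 0, .ofNat 369, .ofNat 2142, .ofNat 31446387637984451890732237085801485172736, .ofNat 0, .ofNat 4613646143341335955621381315653271552, .ofNat 0, .ofNat 0, .ofNat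 0, .ofNat 430855038722572525344229126162817744896, .ofNat 0, .ofNat 0, .ofNat 0, .ofNat 1049535887091736633531680950817891811328, .ofNat 0, .ofNat 0, .ofNat 0, .ofNat 0, .ofNat 0⟩)
    (by decide +kernel)
theorem L02708 : Good (Phi V5.P V5.D 1 (-1)) ⟨4, 8, 3, 1, 3, 6, 4, 0, 4, 1⟩ :=
  leafYS_sound T5.ok_pm T5.Ypm.bz_eq (w := 232) (c := ⟨⟨.negSucc 199, .negSucc 39, .negSucc 114, .ofNat 79, .ofNat 0, .negSucc 1332⟩, ⟨.ofNat 58, .negSucc 1, .ofNat 178, .ofNat 150, .negSucc 23, .ofNat 91⟩, ⟨.negSucc 1972, .negSucc 72, .negSucc 87, .ofNat 156, .ofNat 274, .ofNat 1046⟩, ⟨.negSucc 447, .negSucc 37, .ofNat 9, .ofNat 334, .negSucc 12, .negSucc 2852⟩, ⟨.ofNat 1170, .ofNat 130, .ofNat 539, .ofNat 2062, .negSucc 354, .negSucc 216⟩, .ofNat 458, .ofNat 103, .ofNat 0, .ofNat 103, .ofNat 1438, .ofNat 0, .ofNat 344, .negSucc 113, .negSucc 130, .ofNat 0, .ofNat 128, .ofNat 24, .ofNat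 0, .ofNat 0, .ofNat 393, .ofNat 14213, .ofNat 1122314587230053240927647451587562836480298582016, .ofNat 0, .ofNat 0, .ofNat 0, .ofNat 0, .ofNat 0, .ofNat 0, .ofNat 0, .ofNat 0, .ofNat 0, .ofNat 0, .ofNat 0, .ofNat 3692680823169039211623933431398239892146325815296, .ofNat 0, .ofNat 0, .ofNat 0⟩)
    (by decide +kernel)

end Crest.Agent.R097C5.N5pm
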