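import Crest.Agent.R097.KS3
import Crest.Agent.R097.T5Ypm

/-!
# Row 97, box cover in dimension n = 5 (generated)
-/

set_option autoImplicit false
set_option Elab.async false
set_option maxHeartbeats 0
set_option maxRecDepth 100000

open Crest.Agent.R097 Crest.Agent.R097.KA


namespace Crest.Agent.R097C5.N5pm

theorem L02709 : Good (Phi V5.P V5.D 1 (-1)) ⟨4, 9, 3, 1, 3, 6, 4, 0, 4, 1⟩ :=
  leafYS_sound T5.ok_pm T5.Ypm.bz_eq (w := 232) (c := ⟨⟨.negSucc 225, .negSucc 44, .negSucc 92, .ofNat 146, .negSucc 11, .negSucc 1432⟩, ⟨.ofNat 73, .ofNat 45, .ofNat 176, .ofNat 217, .negSucc 45, .ofNat 14⟩, ⟨.negSucc 2079, .negSucc 81, .negSucc 79, .ofNat 65, .ofNat 348, .ofNat 1100⟩, ⟨.negSucc 493, .negSucc 57, .ofNat 42, .ofNat 349, .negSucc 48, .negSucc 2862⟩, ⟨.ofNat 1295, .ofNat 164, .ofNat 573, .ofNat 2160, .negSucc 403, .negSucc 201⟩, .ofNat 427, .ofNat 42, .ofNat 0,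 .ofNat 42, .ofNat 1293, .ofNat 0, .ofNat 266, .negSucc 93, .negSucc 166, .ofNat 0, .ofNat 128, .ofNat 27, .ofNat 0, .ofNat 0, .ofNat 469, .ofNat 15360, .ofNat 790680202314846129918283950493022357397828534272, .ofNat 0, .ofNat 0, .ofNat 0, .ofNat 1300971684558375151328123777132895030939062632448, .ofNat 0, .ofNat 1795140494890227521487589650767605607170048, .ofNat 0, .ofNat 3585325154010167648914137883189925849431504060416, .ofNat 0, .ofNat 8600645876888975410743454414785790427004928, .ofNat 0, .ofNat 0, .ofNat 0, .ofNat 0, .ofNat 0⟩)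
    (by decide +kernel)
theorem L02710 : Good (Phi V5.P V5.D 1 (-1)) ⟨3, 4, 3, 1, 3, 6, 4, 1, 4, 1⟩ :=
  leafYS_sound T5.ok_pm T5.Ypm.bz_eq (w := 227) (c := ⟨⟨.negSucc 122, .negSucc 147, .negSucc 61, .ofNat 122, .negSucc 3, .negSucc 1485⟩, ⟨.ofNat 47, .ofNat 11, .ofNat 151, .ofNat 137, .negSucc 29, .ofNat 86⟩, ⟨.negSucc 1714, .negSucc 61, .negSucc 62, .ofNat 51, .ofNat 244, .ofNat 1113⟩, ⟨.negSucc 300, .negSucc 197, .ofNat 49, .ofNat 385, .negSucc 3, .negSucc 3113⟩, ⟨.ofNat 905, .ofNat 292, .ofNat 401, .ofNat 1861, .negSucc 270, .negSucc 126⟩, .ofNat 440, .ofNat 63, .ofNat 0, .ofNat 63, .ofNat 1358, .ofNat 0, .ofNat 354, .negSucc 89, .negSucc 103, .ofNat 0, .ofNat 128, .ofNat 17, .ofNat 0, .ofNat 0, .ofNat 270, .ofNat 5116, .ofNat 0, .ofNat 0, .ofNat 0, .ofNat 0, .ofNat 0, .ofNat 0, .ofNat 0, .ofNat 0, .ofNat 0, .ofNat 0, .ofNat 0, .ofNat 0, .ofNat 0, .ofNat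 0, .ofNat 0, .ofNat 0⟩)
    (by decide +kernel)
theorem L02711 : Good (Phi V5.P V5.D 1 (-1)) ⟨3, 4, 3, 1, 3, 7, 3, 0, 4, 1⟩ :=
  leafYS_sound T5.ok_pm T5.Ypm.bz_eq (w := 222) (c := ⟨⟨.negSucc 319, .ofNat 30, .negSucc 13, .ofNat 43, .ofNat 26, .negSucc 1264⟩, ⟨.ofNat 225, .ofNat 127, .ofNat 217, .ofNat 125, .negSucc 127, .ofNat 64⟩, ⟨.negSucc 1420, .negSucc 190, .negSucc 263, .ofNat 595, .ofNat 305, .ofNat 815⟩, ⟨.negSucc 525, .negSucc 84, .ofNat 397, .ofNat 133, .negSucc 11, .negSucc 2576⟩, ⟨.ofNat 3579, .ofNat 317, .ofNat 940, .ofNat 1313, .negSucc 1322, .negSucc 9⟩, .ofNat 440, .ofNat 67, .ofNat 0, .ofNat 67, .ofNat 1348, .ofNat 0, .ofNat 207, .negSucc 96, .negSucc 179, .ofNat 0, .ofNat 128, .ofNat 7, .ofNat 0, .ofNat 0, .ofNat 421, .ofNat 2329, .ofNat 0, .ofNat 0, .ofNat 0, .ofNat 0, .ofNat 0, .ofNat 0, .ofNat 0, .ofNat 0, .ofNat 0, .ofNat 0, .ofNat 0, .ofNat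 0, .ofNat 0, .ofNat 0, .ofNat 0, .ofNat 0⟩)
    (by decide +kernel)
theorem L02712 : Good (Phi V5.P V5.D 1 (-1)) ⟨4, 10, 3, 1, 2, 3, 5, 0, 4, 1⟩ :=
  leafYS_sound T5.ok_pm T5.Ypm.bz_eq (w := 222) (c := ⟨⟨.negSucc 384, .negSucc 33, .negSucc 46, .ofNat 344, .negSucc 52, .negSucc 1309⟩, ⟨.ofNat 109, .ofNat 104, .ofNat 280, .ofNat 492, .negSucc 40, .negSucc 60⟩, ⟨.negSucc 2275, .negSucc 57, .negSucc 394, .ofNat 1034, .ofNat 248, .ofNat 935⟩, ⟨.negSucc 821, .negSucc 91, .ofNat 186, .ofNat 507, .negSucc 76, .negSucc 2444⟩, ⟨.ofNat 1527, .ofNat 199, .ofNat 1051, .ofNat 3912, .negSucc 332, .negSucc 115⟩, .ofNat 473, .negSucc 31, .ofNat 0, .negSucc 31, .ofNat 1830, .ofNat 0, .ofNat 214, .negSucc 68, .negSucc 219, .ofNat 0, .ofNat 128, .ofNat 11, .ofNat 0, .ofNat 0, .ofNat 558, .ofNat 11626, .ofNat 1246176055341209208673071690063211701223817216, .ofNat 0, .ofNat 141398560268512051373539724990269620224,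 .ofNat 0, .ofNat 0, .ofNat 0, .ofNat 2047385165653233833619613624418355380224, .ofNat 0, .ofNat 0, .ofNat 0, .ofNat 13028370984107396230047229368133849448448, .ofNat 0, .ofNat 0, .ofNat 0, .ofNat 0, .ofNat 0⟩)
    (by decide +kernel)
theorem L02713 : Good (Phi V5.P V5.D 1 (-1)) ⟨4, 10, 3, 1, 2, 3, 5, 1, 4, 1⟩ :=
  leafYS_sound T5.ok_pm T5.Ypm.bz_eq (w := 222) (c := ⟨⟨.negSucc 423, .ofNat 31, .negSucc 25, .ofNat 347, .ofNat 12, .negSucc 1339⟩, ⟨.ofNat 81, .ofNat 106, .ofNat 231, .ofNat 472, .negSucc 32, .negSucc 32⟩, ⟨.negSucc 1868, .negSucc 263, .negSucc 211, .ofNat 791, .ofNat 120, .ofNat 855⟩, ⟨.negSucc 867, .ofNat 17, .ofNat 170, .ofNat 558, .ofNat 17, .negSucc 2524⟩, ⟨.ofNat 1238, .ofNat 240, .ofNat 771, .ofNat 3806, .negSucc 279, .ofNat 55⟩, .ofNat 439, .negSucc 39, .ofNat 0, .negSucc 39, .ofNat 1475, .ofNat 0, .ofNat 294, .negSucc 52, .negSucc 197, .ofNat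 0, .ofNat 128, .ofNat 6, .ofNat 0, .ofNat 0, .ofNat 504, .ofNat 8507, .ofNat 0, .ofNat 0, .ofNat 200435862637613925270138358964447870976, .ofNat 0, .ofNat 0, .ofNat 0, .ofNat 7791957124484382944832239472486561873920, .ofNat 0, .ofNat 0, .ofNat 0, .ofNat 11909586632476058319367566724897959837696, .ofNat 0, .ofNat 0, .ofNat 0, .ofNat 0, .ofNat 0⟩)
    (by decide +kernel)
theorem L02714 : Good (Phi V5.P V5.D 1 (-1)) ⟨4, 10, 3, 1, 2, 3, 4, 1, 4, 1⟩ :=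
  leafYS_sound T5.ok_pm T5.Ypm.bz_eq (w := 217) (c := ⟨⟨.negSucc 347, .negSucc 29, .negSucc 88, .ofNat 454, .negSucc 24, .negSucc 1458⟩, ⟨.ofNat 105, .ofNat 65, .ofNat 216, .ofNat 414, .negSucc 58, .negSucc 53⟩, ⟨.negSucc 1839, .ofNat 71, .negSucc 12, .ofNat 516, .ofNat 246, .ofNat 973⟩, ⟨.negSucc 746, .negSucc 61, .ofNat 60, .ofNat 742, .negSucc 32, .negSucc 2736⟩, ⟨.ofNat 1471, .negSucc 85, .ofNat 513, .ofNat 3262, .negSucc 488, .negSucc 75⟩, .ofNat 484, .negSucc 62, .ofNat 0, .negSucc 62, .ofNat 2125, .ofNat 0, .ofNat 434, .negSucc 38, .negSucc 224, .ofNat 0, .ofNat 128, .ofNat 6, .ofNat 0, .ofNat 0, .ofNat 517, .ofNat 3877, .ofNat 0, .ofNat 0, .ofNat 15609351206495150294964564548065951744, .ofNat 0, .ofNat 0, .ofNat 0, .ofNat 0, .ofNat 0, .ofNat 0, .ofNat 0, .ofNat 1156161243288370056535845933906913132544, .ofNat 0, .ofNat 0, .ofNat 0, .ofNat 182946133889020267497084054087745404928,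 .ofNat 0⟩)
    (by decide +kernel)
theorem L02715 : Good (Phi V5.P V5.D 1 (-1)) ⟨4, 11, 3, 1, 2, 3, 3, 0, 4, 1⟩ :=
  out_sound (S := T5.ds_pm) T5.ok_pm (w := 51) (j := 3) (by decide +kernel)
theorem L02716 : Good (Phi V5.P V5.D 1 (-1)) ⟨3, 4, 3, 1, 2, 3, 3, 1, 4, 1⟩ :=
  leafYS_sound T5.ok_pm T5.Ypm.bz_eq (w := 209) (c := ⟨⟨.negSucc 139, .negSucc 163, .ofNat 28, .ofNat 176, .negSucc 108, .negSucc 1497⟩, ⟨.ofNat 23, .ofNat 36, .ofNat 144, .ofNat 270, .negSucc 91, .ofNat 106⟩, ⟨.negSucc 1389, .ofNat 9, .negSucc 207, .ofNat 458, .ofNat 356, .ofNat 990⟩, ⟨.negSucc 406, .negSucc 255, .ofNat 344, .ofNat 486, .negSucc 277, .negSucc 3032⟩, ⟨.ofNat 870, .ofNat 261, .ofNat 572, .ofNat 2615, .negSucc 911, .ofNat 66⟩, .ofNat 442, .ofNat 70, .ofNat 0, .ofNat 70, .ofNat 1367, .ofNat 0, .ofNat 416, .negSucc 74, .negSucc 229, .ofNat 0, .ofNat 128, .ofNat 26, .ofNat 0, .ofNat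 0, .ofNat 455, .ofNat 2367, .ofNat 0, .ofNat 0, .ofNat 0, .ofNat 0, .ofNat 0, .ofNat 0, .ofNat 27343995303620600159259995484450717696, .ofNat 0, .ofNat 0, .ofNat 0, .ofNat 0, .ofNat 0, .ofNat 0, .ofNat 0, .ofNat 0, .ofNat 0⟩)
    (by decide +kernel)
theorem L02717 : Good (Phi V5.P V5.D 1 (-1)) ⟨3, 5, 3, 1, 2, 3, 3, 1, 4, 1⟩ :=
  leafYS_sound T5.ok_pm T5.Ypm.bz_eq (w := 208) (c := ⟨⟨.negSucc 235, .negSucc 224, .ofNat 84, .ofNat 389, .negSucc 149, .negSucc 1711⟩, ⟨.ofNat 95, .ofNat 81, .ofNat 190, .ofNat 322, .negSucc 104, .negSucc 24⟩, ⟨.negSucc 1531, .ofNat 130, .negSucc 80, .ofNat 258, .ofNat 445, .ofNat 1166⟩, ⟨.negSucc 522, .negSucc 371, .ofNat 307, .ofNat 658, .negSucc 263, .negSucc 3228⟩, ⟨.ofNat 1252, .ofNat 182, .ofNat 327, .ofNat 2577, .negSucc 799, .ofNat 86⟩, .ofNat 458, .negSucc 40, .ofNat 0, .negSucc 40, .ofNat 1716, .ofNat 0, .ofNat 462, .negSucc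 19, .negSucc 259, .ofNat 0, .ofNat 128, .ofNat 11, .ofNat 0, .ofNat 0, .ofNat 509, .ofNat 1884, .ofNat 0, .ofNat 0, .ofNat 3805130466311821082229638217615802368, .ofNat 0, .ofNat 0, .ofNat 0, .ofNat 193566829554723879721591902246979764224, .ofNat 0, .ofNat 0, .ofNat 0, .ofNat 234682175136211077382766881647359950848, .ofNat 0, .ofNat 0, .ofNat 0, .ofNat 49697410220794629527007536246775873536, .ofNat 0⟩)
    (by decide +kernel)
theorem L02718 : Good (Phi V5.P V5.D 1 (-1)) ⟨2, 3, 3, 1, 1, 1, 2, 0, 3, 0⟩ :=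
  out_sound (S := T5.ds_pm) T5.ok_pm (w := 39) (j := 3) (by decide +kernel)
theorem L02719 : Good (Phi V5.P V5.D 1 (-1)) ⟨3, 4, 3, 1, 2, 2, 2, 1, 4, 0⟩ :=
  leafYS_sound T5.ok_pm T5.Ypm.bz_eq (w := 204) (c := ⟨⟨.ofNat 1939, .ofNat 377, .ofNat 4, .ofNat 25, .negSucc 468, .negSucc 1889⟩, ⟨.negSucc 100, .ofNat 149, .negSucc 45, .ofNat 104, .ofNat 14, .ofNat 1⟩, ⟨.negSucc 1637, .negSucc 210, .ofNat 11, .negSucc 150, .ofNat 639, .ofNat 866⟩, ⟨.ofNat 4229, .ofNat 316, .ofNat 48, .ofNat 188, .negSucc 1003, .negSucc 3951⟩, ⟨.ofNat 689, .ofNat 59, .ofNat 188, .ofNat 1422, .negSucc 200, .negSucc 1337⟩, .ofNat 443, .ofNat 77, .ofNat 0, .ofNat 77, .ofNat 1356, .ofNat 0, .ofNat 349, .negSucc 36, .negSucc 204, .ofNat 0, .ofNat 128, .ofNat 28, .ofNat 0, .ofNat 0, .ofNat 360, .ofNat 793, .ofNat 0, .ofNat 0, .ofNat 0, .ofNat 0, .ofNat 0, .ofNat 0, .ofNat 0, .ofNat 0, .ofNat 0,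 .ofNat 0, .ofNat 0, .ofNat 0, .ofNat 0, .ofNat 0, .ofNat 0, .ofNat 0⟩)
    (by decide +kernel)
theorem L02720 : Good (Phi V5.P V5.D 1 (-1)) ⟨3, 5, 3, 1, 2, 2, 2, 1, 4, 0⟩ :=
  leafYS_sound T5.ok_pm T5.Ypm.bz_eq (w := 205) (c := ⟨⟨.ofNat 2523, .ofNat 669, .ofNat 53, .ofNat 189, .negSucc 537, .negSucc 2555⟩, ⟨.ofNat 111, .ofNat 291, .negSucc 56, .ofNat 176, .negSucc 5, .negSucc 212⟩, ⟨.negSucc 1869, .negSucc 158, .ofNat 101, .negSucc 342, .ofNat 572, .ofNat 1131⟩, ⟨.ofNat 4793, .ofNat 726, .ofNat 204, .ofNat 334, .negSucc 1008, .negSucc 4810⟩, ⟨.ofNat 492, .negSucc 99, .ofNat 365, .ofNat 1516, .ofNat 132, .negSucc 1321⟩, .ofNat 438, .negSucc 59, .ofNat 0, .negSucc 59, .ofNat 1317, .ofNat 0, .ofNat 369, .ofNat 55, .negSucc 263, .ofNat 0, .ofNat 128, .ofNat 9, .ofNat 0, .ofNat 0, .ofNat 400, .ofNat 1309, .ofNat 0, .ofNat 0, .ofNat 319631589645182454014133151218008064,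 .ofNat 0, .ofNat 0, .ofNat 0, .ofNat 9779852488679305406157565904723902464, .ofNat 0, .ofNat 0, .ofNat 0, .ofNat 16631769308193325124129224543061409792, .ofNat 0, .ofNat 0, .ofNat 0, .ofNat 5174270269200271516842461867532091392, .ofNat 0⟩)
    (by decide +kernel)
theorem L02721 : Good (Phi V5.P V5.D 1 (-1)) ⟨4, 8, 3, 1, 2, 3, 2, 1, 4, 0⟩ :=
  leafYS_sound T5.ok_pm T5.Ypm.bz_eq (w := 209) (c := ⟨⟨.ofNat 1824, .ofNat 237, .negSucc 8, .negSucc 690, .negSucc 436, .negSucc 1523⟩, ⟨.ofNat 44, .ofNat 63, .negSucc 40, .ofNat 86, .negSucc 41, .negSucc 0⟩, ⟨.negSucc 1766, .negSucc 148, .ofNat 97, .ofNat 948, .ofNat 606, .ofNat 343⟩, ⟨.ofNat 4124, .ofNat 314, .ofNat 138, .negSucc 1412, .negSucc 1042, .negSucc 3363⟩, ⟨.ofNat 2703, .ofNat 136, .negSucc 64, .ofNat 439, .negSucc 1083, .negSucc 1611⟩, .ofNat 530, .ofNat 192, .ofNat 0, .ofNat 192, .ofNat 2413, .ofNat 0, .ofNat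 433, .negSucc 56, .negSucc 414, .ofNat 0, .ofNat 128, .ofNat 43, .ofNat 0, .ofNat 0, .ofNat 635, .ofNat 1088, .ofNat 0, .ofNat 0, .ofNat 0, .ofNat 0, .ofNat 0, .ofNat 0, .ofNat 0, .ofNat 0, .ofNat 0, .ofNat 0, .ofNat 0, .ofNat 0, .ofNat 0, .ofNat 0, .ofNat 0, .ofNat 0⟩)
    (by decide +kernel)
theorem L02722 : Good (Phi V5.P V5.D 1 (-1)) ⟨4, 9, 3, 1, 3, 6, 2, 1, 4, 0⟩ :=
  leafYS_sound T5.ok_pm T5.Ypm.bz_eq (w := 223) (c := ⟨⟨.ofNat 2236, .ofNat 227, .ofNat 121, .negSucc 196, .negSucc 565, .negSucc 2180⟩, ⟨.ofNat 124, .ofNat 104, .negSucc 40, .ofNat 90, .negSucc 43, .negSucc 91⟩, ⟨.negSucc 2026, .negSucc 103, .ofNat 23, .ofNat 114, .ofNat 885, .ofNat 760⟩, ⟨.ofNat 4608, .ofNat 193, .ofNat 398, .negSucc 341, .negSucc 1176, .negSucc 4405⟩, ⟨.ofNat 2369, .ofNat 86, .ofNat 225, .ofNat 921, .negSucc 677, .negSucc 1845⟩, .ofNat 428, .ofNat 44, .ofNat 0, .ofNat 44,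 .ofNat 1290, .ofNat 0, .ofNat 426, .ofNat 7, .negSucc 326, .ofNat 0, .ofNat 128, .ofNat 31, .ofNat 0, .ofNat 0, .ofNat 476, .ofNat 1230, .ofNat 0, .ofNat 0, .ofNat 1154548063946120353058505415609039192064, .ofNat 0, .ofNat 0, .ofNat 0, .ofNat 22725415804461326200876658222814122213376, .ofNat 0, .ofNat 0, .ofNat 0, .ofNat 0, .ofNat 0, .ofNat 0, .ofNat 0, .ofNat 0, .ofNat 0⟩)
    (by decide +kernel)
theorem L02723 : Good (Phi V5.P V5.D 1 (-1)) ⟨4, 9, 3, 1, 4, 14, 2, 1, 4, 0⟩ :=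
  leafYS_sound T5.ok_pm T5.Ypm.bz_eq (w := 237) (c := ⟨⟨.ofNat 1898, .ofNat 340, .ofNat 233, .negSucc 138, .negSucc 686, .negSucc 2094⟩, ⟨.ofNat 215, .ofNat 106, .negSucc 25, .ofNat 7, .negSucc 107, .negSucc 55⟩, ⟨.negSucc 1718, .negSucc 211, .negSucc 59, .ofNat 318, .ofNat 908, .ofNat 584⟩, ⟨.ofNat 3944, .ofNat 445, .ofNat 673, .negSucc 278, .negSucc 1457, .negSucc 4228⟩, ⟨.ofNat 3367, .ofNat 26, .ofNat 139, .ofNat 110, .negSucc 1411, .negSucc 1471⟩, .ofNat 426, .ofNat 33, .ofNat 0, .ofNat 33, .ofNat 1291, .ofNat 0, .ofNat 451, .ofNat 47, .negSucc 329, .ofNat 0, .ofNat 128, .ofNat 13, .ofNat 0, .ofNat 0, .ofNat 394, .ofNat 1130, .ofNat 0, .ofNat 0, .ofNat 22620450039608203803077785866210575229386752, .ofNat 0, .ofNat 0, .ofNat 0, .ofNat 0, .ofNat 0, .ofNat 0, .ofNat 0, .ofNat 0, .ofNat 0, .ofNat 0, .ofNat 0, .ofNat 0, .ofNat 0⟩)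
    (by decide +kernel)
theorem L02724 : Good (Phi V5.P V5.D 1 (-1)) ⟨4, 9, 3, 1, 4, 15, 2, 1, 4, 0⟩ :=
  leafYS_sound T5.ok_pm T5.Ypm.bz_eq (w := 237) (c := ⟨⟨.ofNat 1457, .ofNat 363, .ofNat 275, .negSucc 165, .negSucc 702, .negSucc 1639⟩, ⟨.ofNat 233, .ofNat 87, .negSucc 13, .negSucc 25, .negSucc 151, .negSucc 45⟩, ⟨.negSucc 1067, .negSucc 179, .negSucc 151, .ofNat 445, .ofNat 624, .ofNat 185⟩, ⟨.ofNat 3072, .ofNat 519, .ofNat 716, .negSucc 378, .negSucc 1501, .negSucc 3288⟩, ⟨.ofNat 3328, .ofNat 68, .ofNat 62, .negSucc 433, .negSucc 1787, .negSucc 966⟩, .ofNat 427, .ofNat 42, .ofNat 0, .ofNat 42, .ofNat 1293, .ofNat 0, .ofNat 535, .ofNat 60, .negSucc 576, .ofNat 0, .ofNat 128, .ofNat 5, .ofNat 0, .ofNat 0, .ofNat 613, .ofNat 1029, .ofNat 0, .ofNat 0, .ofNat 31954543243906438368316762460191521150861312, .ofNat 0, .ofNat 0, .ofNat 0, .ofNat 359211305742801464845667598334049829297061888,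 .ofNat 0, .ofNat 0, .ofNat 0, .ofNat 0, .ofNat 0, .ofNat 0, .ofNat 0, .ofNat 0, .ofNat 0⟩)
    (by decide +kernel)
theorem L02725 : Good (Phi V5.P V5.D 1 (-1)) ⟨4, 10, 3, 1, 3, 6, 3, 2, 5, 0⟩ :=
  leafYS_sound T5.ok_pm T5.Ypm.bz_eq (w := 233) (c := ⟨⟨.ofNat 2585, .ofNat 575, .ofNat 112, .ofNat 10, .negSucc 145, .negSucc 1298⟩, ⟨.ofNat 332, .ofNat 231, .negSucc 75, .ofNat 122, .negSucc 34, .negSucc 184⟩, ⟨.negSucc 2185, .negSucc 254, .ofNat 84, .ofNat 7, .ofNat 401, .ofNat 383⟩, ⟨.ofNat 4869, .ofNat 705, .ofNat 436, .negSucc 13, .negSucc 274, .negSucc 2409⟩, ⟨.ofNat 2534, .ofNat 31, .ofNat 196, .ofNat 969, .negSucc 263, .negSucc 1240⟩, .ofNat 406, .negSucc 31, .ofNat 0, .negSucc 31, .ofNat 1167, .ofNat 0, .ofNat 339, .ofNat 84, .negSucc 300, .ofNat 0, .ofNat 128, .ofNat 4, .ofNat 0, .ofNat 0, .ofNat 405, .ofNat 2142, .ofNat 0, .ofNat 0, .ofNat 1669843315380098490383596813019967125454848,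 .ofNat 0, .ofNat 0, .ofNat 0, .ofNat 23501173131907155795512001078511026770542592, .ofNat 0, .ofNat 0, .ofNat 0, .ofNat 25053100655182004479023415918842665699901440, .ofNat 0, .ofNat 0, .ofNat 0, .ofNat 7913737666757576927601840745607644818964480, .ofNat 0⟩)
    (by decide +kernel)
theorem L02726 : Good (Phi V5.P V5.D 1 (-1)) ⟨4, 10, 3, 1, 3, 6, 3, 3, 5, 0⟩ :=
  leafYS_sound T5.ok_pm T5.Ypm.bz_eq (w := 232) (c := ⟨⟨.ofNat 2491, .ofNat 677, .ofNat 167, .negSucc 101, .negSucc 620, .negSucc 1373⟩, ⟨.ofNat 333, .ofNat 260, .negSucc 69, .ofNat 73, .negSucc 80, .negSucc 208⟩, ⟨.negSucc 1871, .negSucc 324, .ofNat 23, .ofNat 168, .ofNat 619, .ofNat 459⟩, ⟨.ofNat 4693, .ofNat 864, .ofNat 507, .negSucc 216, .negSucc 1137, .negSucc 2543⟩, ⟨.ofNat 2406, .ofNat 276, .ofNat 126, .ofNat 649, .negSucc 351, .negSucc 1267⟩, .ofNat 406, .negSucc 31, .ofNat 0, .negSucc 31, .ofNat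 1167, .ofNat 0, .ofNat 275, .ofNat 128, .negSucc 341, .ofNat 0, .ofNat 126, .negSucc 1, .ofNat 0, .ofNat 0, .ofNat 370, .ofNat 903, .ofNat 0, .ofNat 0, .ofNat 976023703492172982214847124041011774357504, .ofNat 0, .ofNat 0, .ofNat 0, .ofNat 13242818382621180600295137748423040137428992, .ofNat 0, .ofNat 0, .ofNat 0, .ofNat 11186389111261225382289739421519137382334464, .ofNat 0, .ofNat 0, .ofNat 0, .ofNat 0, .ofNat 0⟩)
    (by decide +kernel)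
theorem L02727 : Good (Phi V5.P V5.D 1 (-1)) ⟨4, 10, 3, 1, 3, 6, 2, 1, 5, 1⟩ :=
  leafYS_sound T5.ok_pm T5.Ypm.bz_eq (w := 228) (c := ⟨⟨.ofNat 1540, .ofNat 20, .ofNat 62, .negSucc 169, .negSucc 740, .negSucc 1501⟩, ⟨.ofNat 204, .ofNat 42, .negSucc 20, .ofNat 88, .negSucc 100, .negSucc 106⟩, ⟨.negSucc 1917, .ofNat 31, .ofNat 39, .ofNat 69, .ofNat 1087, .ofNat 695⟩, ⟨.ofNat 2876, .negSucc 116, .ofNat 267, .negSucc 327, .negSucc 1392, .negSucc 2807⟩, ⟨.ofNat 1521, .negSucc 366, .ofNat 132, .ofNat 816, .negSucc 728, .negSucc 545⟩, .ofNat 457, .negSucc 46, .ofNat 0, .negSucc 46, .ofNat 1703, .ofNat 0, .ofNat 414, .ofNat 68, .negSucc 350, .ofNat 0, .ofNat 128, .ofNat 8, .ofNat 0, .ofNat 0, .ofNat 464, .ofNat 1858, .ofNat 0, .ofNat 0, .ofNat 0, .ofNat 0, .ofNat 0, .ofNat 0, .ofNat 1179435521504682534654859720740346102022144, .ofNat 0, .ofNat 0, .ofNat 0, .ofNat 2211496109592645172545235405423213235142656,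 .ofNat 0, .ofNat 0, .ofNat 0, .ofNat 1449108605725276613639490569406582123134976, .ofNat 0⟩)
    (by decide +kernel)
theorem L02728 : Good (Phi V5.P V5.D 1 (-1)) ⟨4, 10, 3, 1, 3, 7, 3, 2, 5, 0⟩ :=
  leafYS_sound T5.ok_pm T5.Ypm.bz_eq (w := 232) (c := ⟨⟨.ofNat 2299, .ofNat 800, .ofNat 297, .negSucc 369, .negSucc 128, .negSucc 1072⟩, ⟨.ofNat 458, .ofNat 269, .negSucc 59, .negSucc 49, .negSucc 81, .negSucc 156⟩, ⟨.negSucc 1919, .negSucc 391, .negSucc 136, .ofNat 966, .ofNat 298, .ofNat 158⟩, ⟨.ofNat 4299, .ofNat 1094, .ofNat 758, .negSucc 695, .negSucc 221, .negSucc 1977⟩, ⟨.ofNat 3700, .ofNat 151, .negSucc 112, .negSucc 356, .negSucc 628, .negSucc 970⟩, .ofNat 458, .negSucc 45, .ofNat 0, .negSucc 45, .ofNat 1722, .ofNat 0, .ofNat 391, .ofNat 120, .negSucc 559, .ofNat 0, .ofNat 128, .negSucc 25, .ofNat 0, .ofNat 0, .ofNat 616, .ofNat 1424, .ofNat 0, .ofNat 0, .ofNat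 1474630948580331981007793708065261002686464, .ofNat 0, .ofNat 0, .ofNat 0, .ofNat 29594284915862719373672212581048208217604096, .ofNat 0, .ofNat 0, .ofNat 0, .ofNat 41056966879480389036691450299146562411954176, .ofNat 0, .ofNat 0, .ofNat 0, .ofNat 33882845316097254412934831593609980563947520, .ofNat 0⟩)
    (by decide +kernel)
theorem L02729 : Good (Phi V5.P V5.D 1 (-1)) ⟨4, 10, 3, 1, 3, 7, 3, 3, 5, 0⟩ :=
  leafYS_sound T5.ok_pm T5.Ypm.bz_eq (w := 232) (c := ⟨⟨.ofNat 2068, .ofNat 1045, .ofNat 481, .negSucc 315, .negSucc 758, .negSucc 1174⟩, ⟨.ofNat 402, .ofNat 279, .ofNat 4, .negSucc 83, .negSucc 129, .negSucc 185⟩, ⟨.negSucc 1437, .negSucc 513, .negSucc 216, .ofNat 676, .ofNat 555, .ofNat 216⟩, ⟨.ofNat 3864, .ofNat 1594, .ofNat 1002, .negSucc 583, .negSucc 1397, .negSucc 2141⟩, ⟨.ofNat 3233, .ofNat 353, .ofNat 13, .negSucc 665, .negSucc 838, .negSucc 1114⟩,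 .ofNat 458, .negSucc 51, .ofNat 0, .negSucc 51, .ofNat 1716, .ofNat 0, .ofNat 318, .ofNat 128, .negSucc 332, .ofNat 0, .ofNat 88, .negSucc 15, .ofNat 0, .ofNat 0, .ofNat 304, .ofNat 629, .ofNat 0, .ofNat 0, .ofNat 883693623426164434978243986214339911614464, .ofNat 0, .ofNat 0, .ofNat 0, .ofNat 17211568069161749455777254785414824105869312, .ofNat 0, .ofNat 0, .ofNat 0, .ofNat 17924307450990382708218652424576651910709248, .ofNat 0, .ofNat 0, .ofNat 0, .ofNat 10601746310418170497899560678039842308751360, .ofNat 0⟩)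
    (by decide +kernel)
theorem L02730 : Good (Phi V5.P V5.D 1 (-1)) ⟨4, 10, 3, 1, 3, 7, 2, 1, 5, 1⟩ :=
  leafYS_sound T5.ok_pm T5.Ypm.bz_eq (w := 228) (c := ⟨⟨.ofNat 1205, .ofNat 290, .ofNat 263, .ofNat 135, .negSucc 969, .negSucc 1373⟩, ⟨.ofNat 326, .ofNat 93, .negSucc 4, .ofNat 8, .negSucc 226, .negSucc 98⟩, ⟨.negSucc 1567, .negSucc 195, .negSucc 125, .ofNat 460, .ofNat 901, .ofNat 464⟩, ⟨.ofNat 2197, .ofNat 402, .ofNat 684, .ofNat 253, .negSucc 1776, .negSucc 2562⟩, ⟨.ofNat 2655, .negSucc 164, .negSucc 32, .ofNat 39, .negSucc 1618, .negSucc 414⟩, .ofNat 458, .negSucc 51, .ofNat 0, .negSucc 51, .ofNat 1715, .ofNat 0, .ofNat 543, .ofNat 103, .negSucc 637, .ofNat 0, .ofNat 128, .negSucc 19, .ofNat 0, .ofNat 0, .ofNat 688, .ofNat 825, .ofNat 0, .ofNat 0, .ofNat 40644790131424717456967923700299309514752, .ofNat 0, .ofNat 0, .ofNat 0, .ofNat 1816943567280006127143820541180070561054720,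 .ofNat 0, .ofNat 0, .ofNat 0, .ofNat 1518293878952512076469461794708196522196992, .ofNat 0, .ofNat 0, .ofNat 0, .ofNat 0, .ofNat 0⟩)
    (by decide +kernel)
theorem L02731 : Good (Phi V5.P V5.D 1 (-1)) ⟨4, 11, 3, 1, 2, 3, 2, 1, 4, 0⟩ :=
  out_sound (S := T5.ds_pm) T5.ok_pm (w := 51) (j := 3) (by decide +kernel)
theorem L02732 : Good (Phi V5.P V5.D 1 (-1)) ⟨3, 4, 3, 1, 1, 1, 2, 1, 4, 1⟩ :=
  leafYS_sound T5.ok_pm T5.Ypm.bz_eq (w := 190) (c := ⟨⟨.ofNat 97, .negSucc 238, .ofNat 133, .negSucc 375, .negSucc 371, .negSucc 1494⟩, ⟨.negSucc 67, .negSucc 39, .ofNat 131, .ofNat 243, .negSucc 74, .ofNat 109⟩, ⟨.negSucc 807, .ofNat 12, .negSucc 81, .ofNat 6, .ofNat 740, .ofNat 1099⟩, ⟨.ofNat 38, .negSucc 247, .ofNat 319, .negSucc 596, .negSucc 868, .negSucc 3058⟩, ⟨.negSucc 212, .ofNat 188, .ofNat 159, .ofNat 2309, .negSucc 1014, .negSucc 59⟩, .ofNat 442, .ofNat 73, .ofNat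 0, .ofNat 73, .ofNat 1357, .ofNat 0, .ofNat 504, .negSucc 47, .negSucc 242, .ofNat 0, .ofNat 128, .ofNat 32, .ofNat 0, .ofNat 0, .ofNat 462, .ofNat 726, .ofNat 0, .ofNat 0, .ofNat 0, .ofNat 0, .ofNat 0, .ofNat 0, .ofNat 9180124076621946719418185678848, .ofNat 0, .ofNat 0, .ofNat 0, .ofNat 0, .ofNat 0, .ofNat 0, .ofNat 0, .ofNat 0, .ofNat 0⟩)
    (by decide +kernel)
theorem L02733 : Good (Phi V5.P V5.D 1 (-1)) ⟨3, 5, 3, 1, 1, 1, 2, 1, 4, 1⟩ :=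
  leafYS_sound T5.ok_pm T5.Ypm.bz_eq (w := 189) (c := ⟨⟨.ofNat 67, .ofNat 0, .negSucc 16, .negSucc 305, .negSucc 766, .negSucc 1778⟩, ⟨.negSucc 57, .ofNat 18, .ofNat 160, .ofNat 310, .negSucc 142, .negSucc 67⟩, ⟨.negSucc 1013, .ofNat 284, .negSucc 70, .ofNat 173, .ofNat 911, .ofNat 1169⟩, ⟨.ofNat 28, .ofNat 285, .ofNat 124, .negSucc 649, .negSucc 1430, .negSucc 3303⟩, ⟨.negSucc 244, .ofNat 566, .ofNat 187, .ofNat 2456, .negSucc 938, .negSucc 39⟩, .ofNat 459, .negSucc 72, .ofNat 0, .negSucc 72, .ofNat 1531, .ofNat 0, .ofNat 383, .ofNat 40, .negSucc 291, .ofNat 0, .ofNat 128, .ofNat 17, .ofNat 0, .ofNat 0, .ofNat 436, .ofNat 509, .ofNat 0, .ofNat 0, .ofNat 10510121949891545865090370633728, .ofNat 0, .ofNat 0, .ofNat 0, .ofNat 430392885619419646086550445359104, .ofNat 0, .ofNat 0, .ofNat 0, .ofNat 417928246188067942164881293180928, .ofNat 0, .ofNat 0, .ofNat 0,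 .ofNat 189072001561609770410213139021824, .ofNat 0⟩)
    (by decide +kernel)
theorem L02734 : Good (Phi V5.P V5.D 1 (-1)) ⟨2, 3, 3, 1, 1, 1, 2, 1, 3, 0⟩ :=
  out_sound (S := T5.ds_pm) T5.ok_pm (w := 39) (j := 3) (by decide +kernel)
theorem L02735 : Good (Phi V5.P V5.D 1 (-1)) ⟨3, 4, 2, 0, 2, 2, 3, 0, 4, 2⟩ :=
  leafYS_sound T5.ok_pm T5.Ypm.bz_eq (w := 207) (c := ⟨⟨.negSucc 1330, .negSucc 273, .negSucc 79, .negSucc 125, .negSucc 62, .negSucc 298⟩, ⟨.negSucc 96, .negSucc 139, .ofNat 343, .ofNat 87, .negSucc 4, .negSucc 9⟩, ⟨.negSucc 135, .negSucc 8, .negSucc 85, .negSucc 703, .ofNat 488, .ofNat 552⟩, ⟨.negSucc 3032, .negSucc 44, .negSucc 130, .negSucc 226, .negSucc 107, .negSucc 651⟩, ⟨.negSucc 521, .ofNat 195, .ofNat 264, .ofNat 980, .negSucc 67, .negSucc 172⟩, .ofNat 439, .ofNat 24, .ofNat 0, .ofNat 24, .ofNat 1443, .ofNat 0, .ofNat 336, .negSucc 38, .negSucc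 61, .ofNat 0, .ofNat 128, .ofNat 12, .ofNat 0, .ofNat 0, .ofNat 293, .ofNat 7197, .ofNat 93475908100795945500864014318628358848512, .ofNat 0, .ofNat 0, .ofNat 0, .ofNat 0, .ofNat 0, .ofNat 0, .ofNat 0, .ofNat 0, .ofNat 0, .ofNat 0, .ofNat 0, .ofNat 509685194261659544434646597184062224334848, .ofNat 0, .ofNat 0, .ofNat 0⟩)
    (by decide +kernel)
theorem L02736 : Good (Phi V5.P V5.D 1 (-1)) ⟨3, 5, 2, 0, 2, 2, 3, 0, 4, 2⟩ :=
  leafYS_sound T5.ok_pm T5.Ypm.bz_eq (w := 207) (c := ⟨⟨.negSucc 1564, .negSucc 300, .negSucc 55, .negSucc 58, .negSucc 123, .negSucc 344⟩, ⟨.negSucc 232, .negSucc 196, .ofNat 366, .ofNat 126, .negSucc 28, .negSucc 50⟩, ⟨.negSucc 266, .negSucc 3, .negSucc 60, .negSucc 662, .ofNat 575, .ofNat 524⟩, ⟨.negSucc 2996, .negSucc 55, .negSucc 108, .negSucc 223, .negSucc 238, .negSucc 614⟩, ⟨.negSucc 507, .ofNat 228, .ofNat 342, .ofNat 1132, .negSucc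 38, .negSucc 118⟩, .ofNat 467, .negSucc 201, .ofNat 0, .negSucc 201, .ofNat 1832, .ofNat 0, .ofNat 357, .ofNat 65, .negSucc 111, .ofNat 0, .ofNat 128, .ofNat 7, .ofNat 0, .ofNat 0, .ofNat 533, .ofNat 7813, .ofNat 110214152009017827144779445072160696041472, .ofNat 0, .ofNat 1978343326997515978739110925215727616, .ofNat 0, .ofNat 0, .ofNat 0, .ofNat 60554432772396414485503657368010883072, .ofNat 0, .ofNat 1053031130788852679458873169479610201538560, .ofNat 0, .ofNat 249104336746498124944809187625385590784, .ofNat 0, .ofNat 0, .ofNat 0, .ofNat 0, .ofNat 0⟩)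
    (by decide +kernel)
theorem L02737 : Good (Phi V5.P V5.D 1 (-1)) ⟨2, 2, 2, 0, 2, 2, 3, 0, 4, 3⟩ :=
  leafYS_sound T5.ok_pm T5.Ypm.bz_eq (w := 204) (c := ⟨⟨.negSucc 1631, .negSucc 518, .negSucc 38, .negSucc 67, .negSucc 147, .ofNat 86⟩, ⟨.negSucc 81, .negSucc 398, .ofNat 356, .ofNat 96, .negSucc 4, .negSucc 18⟩, ⟨.ofNat 203, .negSucc 100, .negSucc 37, .negSucc 460, .ofNat 547, .ofNat 300⟩, ⟨.negSucc 3638, .ofNat 89, .negSucc 92, .negSucc 182, .negSucc 282, .ofNat 151⟩, ⟨.negSucc 630, .ofNat 328, .ofNat 187, .ofNat 822, .ofNat 83, .negSucc 230⟩, .ofNat 421, .negSucc 39, .ofNat 0, .negSucc 39, .ofNat 1317, .ofNat 0, .ofNat 259, .negSucc 1, .negSucc 76, .ofNat 0, .ofNat 128, .ofNat 14, .ofNat 0, .ofNat 0, .ofNat 465, .ofNat 20414, .ofNat 0, .ofNat 0, .ofNat 0, .ofNat 0, .ofNat 193077267964087590857722756382329971671040, .ofNat 0, .ofNat 151154530028108736320665237764614127616,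 .ofNat 0, .ofNat 77007176768356272938592968842150542311424, .ofNat 0, .ofNat 398343897224777798247725062242542026752, .ofNat 0, .ofNat 185529129237930573059212571047872218267648, .ofNat 0, .ofNat 160798525824831548566739429548577783808, .ofNat 0⟩)
    (by decide +kernel)
theorem L02738 : Good (Phi V5.P V5.D 1 (-1)) ⟨3, 4, 2, 0, 3, 6, 5, 0, 4, 2⟩ :=
  leafYS_sound T5.ok_pm T5.Ypm.bz_eq (w := 231) (c := ⟨⟨.negSucc 1400, .negSucc 113, .negSucc 198, .ofNat 125, .negSucc 51, .negSucc 397⟩, ⟨.negSucc 67, .negSucc 37, .ofNat 462, .ofNat 138, .negSucc 22, .negSucc 44⟩, ⟨.negSucc 884, .negSucc 133, .negSucc 154, .ofNat 246, .ofNat 140, .ofNat 709⟩, ⟨.negSucc 3170, .ofNat 20, .negSucc 17, .ofNat 327, .negSucc 130, .negSucc 851⟩, ⟨.ofNat 305, .ofNat 453, .ofNat 1233, .ofNat 1899, .negSucc 165, .negSucc 686⟩, .ofNat 327, .ofNat 9, .ofNat 0, .ofNat 9, .ofNat 682, .ofNat 0,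 .ofNat 138, .negSucc 70, .negSucc 51, .ofNat 0, .ofNat 128, .ofNat 14, .ofNat 0, .ofNat 0, .ofNat 175, .ofNat 41871, .ofNat 199769252346720968347518762256112451983549399040, .ofNat 0, .ofNat 0, .ofNat 0, .ofNat 355335088694545741902980660024115655477792079872, .ofNat 0, .ofNat 0, .ofNat 0, .ofNat 293160471770969959347324788828247119152535306240, .ofNat 0, .ofNat 0, .ofNat 0, .ofNat 81695232812541325143459548292105159671499718656, .ofNat 0, .ofNat 0, .ofNat 0⟩)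
    (by decide +kernel)
theorem L02739 : Good (Phi V5.P V5.D 1 (-1)) ⟨3, 4, 2, 0, 3, 6, 5, 1, 4, 2⟩ :=
  leafYS_sound T5.ok_pm T5.Ypm.bz_eq (w := 229) (c := ⟨⟨.negSucc 1485, .negSucc 159, .negSucc 177, .ofNat 145, .negSucc 40, .negSucc 292⟩, ⟨.negSucc 32, .negSucc 74, .ofNat 436, .ofNat 106, .negSucc 22, .negSucc 29⟩, ⟨.negSucc 722, .negSucc 45, .negSucc 94, .ofNat 155, .ofNat 135, .ofNat 641⟩, ⟨.negSucc 3321, .negSucc 44, .negSucc 49, .ofNat 333, .negSucc 58, .negSucc 662⟩, ⟨.ofNat 575, .ofNat 311, .ofNat 908, .ofNat 1582, .negSucc 112, .negSucc 572⟩, .ofNat 327, .ofNat 9, .ofNat 0, .ofNat 9, .ofNat 682, .ofNat 0, .ofNat 164, .negSucc 67, .negSucc 61, .ofNat 0, .ofNat 128, .ofNat 16, .ofNat 0, .ofNat 0, .ofNat 196, .ofNat 12286, .ofNat 0, .ofNat 0, .ofNat 0, .ofNat 0, .ofNat 0, .ofNat 0, .ofNat 0, .ofNat 0, .ofNat 0, .ofNat 0, .ofNat 159065268001431377741685898404512705997176832,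 .ofNat 0, .ofNat 0, .ofNat 0, .ofNat 0, .ofNat 0⟩)
    (by decide +kernel)
theorem L02740 : Good (Phi V5.P V5.D 1 (-1)) ⟨3, 4, 2, 0, 3, 6, 4, 1, 4, 2⟩ :=
  leafYS_sound T5.ok_pm T5.Ypm.bz_eq (w := 223) (c := ⟨⟨.negSucc 1457, .negSucc 168, .negSucc 154, .ofNat 84, .negSucc 66, .negSucc 338⟩, ⟨.negSucc 43, .negSucc 82, .ofNat 425, .ofNat 108, .negSucc 16, .negSucc 28⟩, ⟨.negSucc 597, .negSucc 47, .negSucc 51, .ofNat 103, .ofNat 268, .ofNat 650⟩, ⟨.negSucc 3277, .negSucc 54, .negSucc 27, .ofNat 222, .negSucc 136, .negSucc 709⟩, ⟨.ofNat 503, .ofNat 317, .ofNat 792, .ofNat 1472, .negSucc 153, .negSucc 446⟩, .ofNat 327, .ofNat 8, .ofNat 0, .ofNat 8, .ofNat 680, .ofNat 0, .ofNat 133, .negSucc 59, .negSucc 43, .ofNat 0, .ofNat 128, .ofNat 11, .ofNat 0, .ofNat 0, .ofNat 132, .ofNat 2669, .ofNat 0, .ofNat 0, .ofNat 0, .ofNat 0, .ofNat 0, .ofNat 0, .ofNat 0, .ofNat 0, .ofNat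 0, .ofNat 0, .ofNat 0, .ofNat 0, .ofNat 0, .ofNat 0, .ofNat 0, .ofNat 0⟩)
    (by decide +kernel)
theorem L02741 : Good (Phi V5.P V5.D 1 (-1)) ⟨3, 5, 2, 0, 3, 6, 5, 0, 4, 2⟩ :=
  leafYS_sound T5.ok_pm T5.Ypm.bz_eq (w := 231) (c := ⟨⟨.negSucc 1563, .negSucc 150, .negSucc 195, .ofNat 219, .negSucc 68, .negSucc 409⟩, ⟨.negSucc 148, .ofNat 6, .ofNat 498, .ofNat 217, .negSucc 31, .negSucc 102⟩, ⟨.negSucc 1186, .negSucc 58, .negSucc 135, .ofNat 285, .ofNat 283, .ofNat 694⟩, ⟨.negSucc 3078, .negSucc 83, .negSucc 100, .ofNat 204, .negSucc 147, .negSucc 660⟩, ⟨.ofNat 796, .ofNat 346, .ofNat 1108, .ofNat 1739, .negSucc 63, .negSucc 615⟩, .ofNat 468, .negSucc 144, .ofNat 0, .negSucc 144, .ofNat 1705, .ofNat 0, .ofNat 180, .negSucc 16, .negSucc 54, .ofNat 0, .ofNat 128, .ofNat 6, .ofNat 0, .ofNat 0, .ofNat 224, .ofNat 35819, .ofNat 134684685067280547502820218485409843401220685824,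 .ofNat 0, .ofNat 11039159928180514071798268086319953502797824, .ofNat 0, .ofNat 0, .ofNat 0, .ofNat 0, .ofNat 0, .ofNat 0, .ofNat 0, .ofNat 617264573171293413591984776284123058843680768, .ofNat 0, .ofNat 197834800636731401384388043733374562504682766336, .ofNat 0, .ofNat 7135156751740721799874336947329049477251072, .ofNat 0⟩)
    (by decide +kernel)
theorem L02742 : Good (Phi V5.P V5.D 1 (-1)) ⟨3, 5, 2, 0, 3, 6, 5, 1, 4, 2⟩ :=
  leafYS_sound T5.ok_pm T5.Ypm.bz_eq (w := 230) (c := ⟨⟨.negSucc 1636, .negSucc 198, .negSucc 197, .ofNat 215, .negSucc 68, .negSucc 335⟩, ⟨.negSucc 167, .negSucc 24, .ofNat 502, .ofNat 207, .negSucc 19, .negSucc 84⟩, ⟨.negSucc 858, .negSucc 30, .negSucc 93, .ofNat 219, .ofNat 170, .ofNat 643⟩, ⟨.negSucc 3268, .negSucc 120, .negSucc 142, .ofNat 249, .negSucc 104, .negSucc 569⟩, ⟨.ofNat 809, .ofNat 307, .ofNat 998, .ofNat 1651, .negSucc 68,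 .negSucc 531⟩, .ofNat 394, .negSucc 74, .ofNat 0, .negSucc 74, .ofNat 1033, .ofNat 0, .ofNat 242, .negSucc 22, .negSucc 70, .ofNat 0, .ofNat 128, .ofNat 10, .ofNat 0, .ofNat 0, .ofNat 257, .ofNat 22321, .ofNat 0, .ofNat 0, .ofNat 16518494739070910929517793523972551582154752, .ofNat 0, .ofNat 0, .ofNat 0, .ofNat 0, .ofNat 0, .ofNat 0, .ofNat 0, .ofNat 469669486024086209402173491848498984830107648, .ofNat 0, .ofNat 0, .ofNat 0, .ofNat 0, .ofNat 0⟩)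
    (by decide +kernel)
theorem L02743 : Good (Phi V5.P V5.D 1 (-1)) ⟨3, 5, 2, 0, 3, 6, 4, 1, 4, 2⟩ :=
  leafYS_sound T5.ok_pm T5.Ypm.bz_eq (w := 225) (c := ⟨⟨.negSucc 1673, .negSucc 224, .negSucc 176, .ofNat 160, .negSucc 124, .negSucc 299⟩, ⟨.negSucc 150, .negSucc 57, .ofNat 476, .ofNat 170, .negSucc 33, .negSucc 76⟩, ⟨.negSucc 650, .ofNat 5, .negSucc 61, .ofNat 158, .ofNat 308, .ofNat 608⟩, ⟨.negSucc 3355, .negSucc 106, .negSucc 127, .ofNat 165, .negSucc 201, .negSucc 507⟩, ⟨.ofNat 859, .ofNat 292, .ofNat 692, .ofNat 1341, .negSucc 82, .negSucc 397⟩, .ofNat 468, .negSucc 144, .ofNat 0, .negSucc 144, .ofNat 1705, .ofNat 0, .ofNat 385, .negSucc 5, .negSucc 120, .ofNat 0, .ofNat 128, .ofNat 11, .ofNat 0, .ofNat 0, .ofNat 412, .ofNat 9550, .ofNat 0, .ofNat 0, .ofNat 1094025755278374953388007508727718838534144, .ofNat 0, .ofNat 0, .ofNat 0, .ofNat 0, .ofNat 0,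 .ofNat 0, .ofNat 0, .ofNat 61444796175787130259717473604525575060324352, .ofNat 0, .ofNat 0, .ofNat 0, .ofNat 0, .ofNat 0⟩)
    (by decide +kernel)
theorem L02744 : Good (Phi V5.P V5.D 1 (-1)) ⟨3, 4, 2, 0, 3, 6, 3, 0, 4, 3⟩ :=
  leafYS_sound T5.ok_pm T5.Ypm.bz_eq (w := 221) (c := ⟨⟨.negSucc 1720, .negSucc 185, .negSucc 106, .ofNat 112, .negSucc 152, .ofNat 86⟩, ⟨.negSucc 38, .negSucc 118, .ofNat 413, .ofNat 82, .negSucc 14, .negSucc 34⟩, ⟨.negSucc 174, .negSucc 22, .negSucc 31, .ofNat 70, .ofNat 464, .ofNat 294⟩, ⟨.negSucc 3842, .ofNat 65, .negSucc 43, .ofNat 266, .negSucc 303, .ofNat 146⟩, ⟨.ofNat 428, .ofNat 272, .ofNat 555, .ofNat 1019, .negSucc 213, .negSucc 419⟩, .ofNat 438, .ofNat 18, .ofNat 0, .ofNat 18, .ofNat 1444, .ofNat 0, .ofNat 128, .negSucc 42, .negSucc 37, .ofNat 0, .ofNat 134, .ofNat 7, .ofNat 0, .ofNat 0, .ofNat 228, .ofNat 9844, .ofNat 0, .ofNat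 0, .ofNat 0, .ofNat 0, .ofNat 0, .ofNat 0, .ofNat 0, .ofNat 0, .ofNat 6806226564284824812032159758102612949570945024, .ofNat 0, .ofNat 1551461729108135536546343126316300149719040, .ofNat 0, .ofNat 1488301750740460060029739325289786555431387136, .ofNat 0, .ofNat 0, .ofNat 0⟩)
    (by decide +kernel)
theorem L02745 : Good (Phi V5.P V5.D 1 (-1)) ⟨3, 5, 2, 0, 3, 6, 3, 0, 4, 3⟩ :=
  leafYS_sound T5.ok_pm T5.Ypm.bz_eq (w := 222) (c := ⟨⟨.negSucc 1880, .negSucc 193, .negSucc 118, .ofNat 179, .negSucc 230, .ofNat 98⟩, ⟨.negSucc 168, .negSucc 109, .ofNat 444, .ofNat 146, .negSucc 56, .negSucc 40⟩, ⟨.negSucc 278, .negSucc 7, .negSucc 29, .ofNat 127, .ofNat 539, .ofNat 257⟩, ⟨.negSucc 3720, .ofNat 23, .negSucc 70, .ofNat 199, .negSucc 371, .ofNat 214⟩, ⟨.ofNat 690, .ofNat 249, .ofNat 577, .ofNat 1080, .negSucc 189, .negSucc 447⟩, .ofNat 440, .negSucc 148, .ofNat 0, .negSucc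 148, .ofNat 1507, .ofNat 0, .ofNat 187, .ofNat 21, .negSucc 45, .ofNat 0, .ofNat 128, .ofNat 3, .ofNat 0, .ofNat 0, .ofNat 265, .ofNat 15155, .ofNat 160624492622374398046999374376600017936842752, .ofNat 0, .ofNat 80234650099236690053729272637328455630848, .ofNat 0, .ofNat 3600269742711807836635083163887271848188051456, .ofNat 0, .ofNat 170003903729139841591948467946294964387840, .ofNat 0, .ofNat 2289655423825926727867792339680462131188203520, .ofNat 0, .ofNat 5982991600393339589612266004731116772130816, .ofNat 0, .ofNat 2989214398450865465358103991846596498404933632, .ofNat 0, .ofNat 393500484967665810979573670677466226622464, .ofNat 0⟩)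
    (by decide +kernel)
theorem L02746 : Good (Phi V5.P V5.D 1 (-1)) ⟨3, 4, 2, 0, 3, 7, 3, 0, 4, 2⟩ :=
  leafYS_sound T5.ok_pm T5.Ypm.bz_eq (w := 219) (c := ⟨⟨.negSucc 1388, .negSucc 54, .negSucc 167, .ofNat 221, .negSucc 144, .negSucc 266⟩, ⟨.ofNat 1, .ofNat 16, .ofNat 541, .ofNat 132, .negSucc 49, .negSucc 37⟩, ⟨.negSucc 427, .negSucc 94, .negSucc 183, .ofNat 150, .ofNat 376, .ofNat 506⟩, ⟨.negSucc 3140, .ofNat 93, .ofNat 201, .ofNat 557, .negSucc 332, .negSucc 604⟩, ⟨.ofNat 2085, .ofNat 533, .ofNat 1502, .ofNat 1568, .negSucc 596, .negSucc 653⟩, .ofNat 441, .ofNat 28, .ofNat 0, .ofNat 28, .ofNat 1461, .ofNat 0, .ofNat 138, .negSucc 64, .negSucc 60, .ofNat 0, .ofNat 128, .ofNat 3, .ofNat 0, .ofNat 0, .ofNat 213, .ofNat 2106, .ofNat 0, .ofNat 0, .ofNat 0, .ofNat 0, .ofNat 0, .ofNat 0, .ofNat 0, .ofNat 0, .ofNat 0, .ofNat 0, .ofNat 0, .ofNat 0, .ofNat 0, .ofNat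 0, .ofNat 0, .ofNat 0⟩)
    (by decide +kernel)
theorem L02747 : Good (Phi V5.P V5.D 1 (-1)) ⟨3, 5, 2, 0, 3, 7, 3, 0, 4, 2⟩ :=
  leafYS_sound T5.ok_pm T5.Ypm.bz_eq (w := 219) (c := ⟨⟨.negSucc 1421, .negSucc 80, .negSucc 250, .ofNat 403, .negSucc 242, .negSucc 297⟩, ⟨.ofNat 34, .ofNat 81, .ofNat 586, .ofNat 196, .negSucc 86, .negSucc 99⟩, ⟨.negSucc 558, .negSucc 60, .negSucc 234, .ofNat 169, .ofNat 435, .ofNat 510⟩, ⟨.negSucc 3009, .negSucc 82, .ofNat 24, .ofNat 571, .negSucc 440, .negSucc 481⟩, ⟨.ofNat 2690, .ofNat 277, .ofNat 1722, .ofNat 1375, .negSucc 571, .negSucc 640⟩, .ofNat 406, .negSucc 115, .ofNat 0, .negSucc 115, .ofNat 1191, .ofNat 0, .ofNat 156, .negSucc 10, .negSucc 68, .ofNat 0, .ofNat 128, .negSucc 2, .ofNat 0, .ofNat 0, .ofNat 229, .ofNat 2086, .ofNat 0, .ofNat 0, .ofNat 21924204009305977825949212151257931710464, .ofNat 0, .ofNat 0, .ofNat 0,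 .ofNat 0, .ofNat 0, .ofNat 0, .ofNat 0, .ofNat 1255398215099203292334867983269829464293376, .ofNat 0, .ofNat 296217269400217629615864311267447322445873152, .ofNat 0, .ofNat 477606558878010708549294650668104208613376, .ofNat 0⟩)
    (by decide +kernel)
theorem L02748 : Good (Phi V5.P V5.D 1 (-1)) ⟨2, 2, 2, 0, 3, 7, 3, 0, 4, 3⟩ :=
  leafYS_sound T5.ok_pm T5.Ypm.bz_eq (w := 215) (c := ⟨⟨.negSucc 1620, .negSucc 176, .negSucc 127, .ofNat 276, .negSucc 201, .ofNat 62⟩, ⟨.ofNat 1, .negSucc 48, .ofNat 477, .ofNat 157, .negSucc 46, .negSucc 81⟩, ⟨.negSucc 38, .negSucc 21, .negSucc 69, .ofNat 132, .ofNat 417, .ofNat 277⟩, ⟨.negSucc 3543, .ofNat 114, .ofNat 98, .ofNat 386, .negSucc 364, .ofNat 121⟩, ⟨.ofNat 1531, .ofNat 835, .ofNat 1023, .ofNat 1188, .negSucc 236, .negSucc 784⟩, .ofNat 422, .negSucc 38, .ofNat 0, .negSucc 38, .ofNat 1325, .ofNat 0, .ofNat 259, .negSucc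 24, .negSucc 42, .ofNat 0, .ofNat 128, .ofNat 1, .ofNat 0, .ofNat 0, .ofNat 256, .ofNat 2621, .ofNat 0, .ofNat 0, .ofNat 100761191966542678456142584503291225309184, .ofNat 0, .ofNat 0, .ofNat 0, .ofNat 0, .ofNat 0, .ofNat 0, .ofNat 0, .ofNat 5992424763019031072824193566800185890177024, .ofNat 0, .ofNat 0, .ofNat 0, .ofNat 436369853247521641228391457281418612178944, .ofNat 0⟩)
    (by decide +kernel)
theorem L02749 : Good (Phi V5.P V5.D 1 (-1)) ⟨2, 2, 2, 0, 2, 2, 3, 1, 4, 2⟩ :=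
  leafYS_sound T5.ok_pm T5.Ypm.bz_eq (w := 202) (c := ⟨⟨.negSucc 1326, .negSucc 615, .negSucc 47, .negSucc 171, .negSucc 108, .negSucc 326⟩, ⟨.negSucc 82, .negSucc 362, .ofNat 353, .ofNat 88, .negSucc 5, .negSucc 25⟩, ⟨.ofNat 173, .ofNat 30, .negSucc 89, .negSucc 498, .ofNat 479, .ofNat 539⟩, ⟨.negSucc 3025, .negSucc 128, .negSucc 74, .negSucc 411, .negSucc 193, .negSucc 646⟩, ⟨.negSucc 494, .ofNat 421, .ofNat 136, .ofNat 861, .ofNat 15, .negSucc 200⟩, .ofNat 423, .negSucc 49, .ofNat 0, .negSucc 49, .ofNat 1337, .ofNat 0, .ofNat 376, .ofNat 9, .negSucc 95, .ofNat 0, .ofNat 128, .ofNat 11, .ofNat 0, .ofNat 0, .ofNat 336, .ofNat 3011, .ofNat 0, .ofNat 0, .ofNat 3170344204511785530143447615056904192, .ofNat 0, .ofNat 0, .ofNat 0, .ofNat 0, .ofNat 0, .ofNat 0, .ofNat 0, .ofNat 273787239902837663834259597154301509632, .ofNat 0, .ofNat 0, .ofNat 0, .ofNat 0, .ofNat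 0⟩)
    (by decide +kernel)
theorem L02750 : Good (Phi V5.P V5.D 1 (-1)) ⟨2, 2, 2, 0, 2, 2, 3, 1, 4, 3⟩ :=
  leafYS_sound T5.ok_pm T5.Ypm.bz_eq (w := 203) (c := ⟨⟨.negSucc 1747, .negSucc 561, .negSucc 18, .negSucc 94, .negSucc 81, .ofNat 55⟩, ⟨.negSucc 58, .negSucc 407, .ofNat 350, .ofNat 64, .negSucc 8, .negSucc 13⟩, ⟨.ofNat 690, .ofNat 64, .negSucc 44, .negSucc 401, .ofNat 392, .ofNat 223⟩, ⟨.negSucc 3891, .ofNat 26, .negSucc 48, .negSucc 215, .negSucc 166, .ofNat 129⟩, ⟨.negSucc 316, .ofNat 269, .ofNat 33, .ofNat 633, .negSucc 6, .negSucc 220⟩, .ofNat 423, .negSucc 36, .ofNat 0, .negSucc 36, .ofNat 1327, .ofNat 0, .ofNat 230, .ofNat 3, .negSucc 60, .ofNat 0, .ofNat 128, .ofNat 10, .ofNat 0, .ofNat 0, .ofNat 340, .ofNat 5471, .ofNat 0, .ofNat 0, .ofNat 6577136582184135438419854734389149696, .ofNat 0, .ofNat 0, .ofNat 0, .ofNat 94735333225872004526537302225601953792,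 .ofNat 0, .ofNat 0, .ofNat 0, .ofNat 344889539343799972876089451055557902336, .ofNat 0, .ofNat 0, .ofNat 0, .ofNat 0, .ofNat 0⟩)
    (by decide +kernel)
theorem L02751 : Good (Phi V5.P V5.D 1 (-1)) ⟨3, 4, 2, 0, 3, 6, 3, 1, 4, 2⟩ :=
  leafYS_sound T5.ok_pm T5.Ypm.bz_eq (w := 220) (c := ⟨⟨.negSucc 1498, .negSucc 291, .negSucc 94, .ofNat 19, .negSucc 174, .negSucc 294⟩, ⟨.negSucc 53, .negSucc 120, .ofNat 448, .ofNat 103, .negSucc 21, .negSucc 13⟩, ⟨.negSucc 331, .ofNat 54, .negSucc 45, .ofNat 110, .ofNat 457, .ofNat 569⟩, ⟨.negSucc 3413, .negSucc 139, .ofNat 6, .ofNat 97, .negSucc 345, .negSucc 621⟩, ⟨.ofNat 426, .ofNat 326, .ofNat 591, .ofNat 1210, .negSucc 230, .negSucc 243⟩, .ofNat 440, .ofNat 12, .ofNat 0, .ofNat 12, .ofNat 1473, .ofNat 0, .ofNat 354, .negSucc 44, .negSucc 108, .ofNat 0, .ofNat 128, .ofNat 14, .ofNat 0, .ofNat 0, .ofNat 328, .ofNat 3886, .ofNat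 0, .ofNat 0, .ofNat 0, .ofNat 0, .ofNat 0, .ofNat 0, .ofNat 0, .ofNat 0, .ofNat 0, .ofNat 0, .ofNat 894038302188909945696944449859596417236992, .ofNat 0, .ofNat 0, .ofNat 0, .ofNat 0, .ofNat 0⟩)
    (by decide +kernel)
theorem L02752 : Good (Phi V5.P V5.D 1 (-1)) ⟨3, 4, 2, 0, 3, 7, 3, 1, 4, 2⟩ :=
  leafYS_sound T5.ok_pm T5.Ypm.bz_eq (w := 220) (c := ⟨⟨.negSucc 1507, .negSucc 183, .negSucc 167, .ofNat 290, .negSucc 226, .negSucc 262⟩, ⟨.ofNat 16, .negSucc 62, .ofNat 490, .ofNat 104, .negSucc 42, .negSucc 28⟩, ⟨.negSucc 117, .ofNat 58, .negSucc 47, .ofNat 16, .ofNat 383, .ofNat 504⟩, ⟨.negSucc 3403, .negSucc 50, .ofNat 81, .ofNat 593, .negSucc 492, .negSucc 538⟩, ⟨.ofNat 1856, .ofNat 366, .ofNat 889, .ofNat 1088, .negSucc 585, .negSucc 446⟩, .ofNat 437, .negSucc 0, .ofNat 0, .negSucc 0, .ofNat 1467, .ofNat 0, .ofNat 207, .negSucc 37, .negSucc 73, .ofNat 0, .ofNat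 128, .ofNat 4, .ofNat 0, .ofNat 0, .ofNat 223, .ofNat 2039, .ofNat 0, .ofNat 0, .ofNat 0, .ofNat 0, .ofNat 0, .ofNat 0, .ofNat 0, .ofNat 0, .ofNat 0, .ofNat 0, .ofNat 0, .ofNat 0, .ofNat 0, .ofNat 0, .ofNat 156288827011852392629888499539700340490240, .ofNat 0⟩)
    (by decide +kernel)
theorem L02753 : Good (Phi V5.P V5.D 1 (-1)) ⟨3, 5, 2, 0, 2, 3, 3, 1, 5, 4⟩ :=
  leafYS_sound T5.ok_pm T5.Ypm.bz_eq (w := 211) (c := ⟨⟨.negSucc 1723, .negSucc 301, .negSucc 144, .ofNat 515, .negSucc 327, .negSucc 281⟩, ⟨.negSucc 173, .negSucc 58, .ofNat 487, .ofNat 332, .negSucc 78, .negSucc 30⟩, ⟨.negSucc 304, .ofNat 100, .negSucc 76, .ofNat 131, .ofNat 511, .ofNat 359⟩, ⟨.negSucc 3446, .negSucc 234, .negSucc 7, .ofNat 679, .negSucc 567, .negSucc 493⟩, ⟨.ofNat 816, .ofNat 295, .ofNat 634, .ofNat 2462, .negSucc 381, .negSucc 45⟩, .ofNat 407, .negSucc 101, .ofNat 0, .negSucc 101,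 .ofNat 1211, .ofNat 0, .ofNat 407, .ofNat 10, .negSucc 147, .ofNat 0, .ofNat 128, .ofNat 3, .ofNat 0, .ofNat 0, .ofNat 362, .ofNat 2448, .ofNat 0, .ofNat 0, .ofNat 71950297742096370766222549401133383680, .ofNat 0, .ofNat 0, .ofNat 0, .ofNat 0, .ofNat 0, .ofNat 0, .ofNat 0, .ofNat 3532353884394861208969101333001517662208, .ofNat 0, .ofNat 0, .ofNat 0, .ofNat 682879769273601626656472040502573662208, .ofNat 0⟩)
    (by decide +kernel)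
theorem L02754 : Good (Phi V5.P V5.D 1 (-1)) ⟨3, 5, 2, 0, 2, 3, 3, 1, 5, 5⟩ :=
  leafYS_sound T5.ok_pm T5.Ypm.bz_eq (w := 211) (c := ⟨⟨.negSucc 2063, .negSucc 170, .negSucc 111, .ofNat 552, .negSucc 308, .negSucc 55⟩, ⟨.negSucc 203, .negSucc 59, .ofNat 490, .ofNat 338, .negSucc 88, .negSucc 30⟩, ⟨.ofNat 104, .ofNat 67, .negSucc 12, .ofNat 70, .ofNat 460, .ofNat 185⟩, ⟨.negSucc 4016, .negSucc 47, .negSucc 17, .ofNat 711, .negSucc 515, .negSucc 83⟩, ⟨.ofNat 769, .ofNat 379, .ofNat 613, .ofNat 2301, .negSucc 335, .negSucc 266⟩, .ofNat 441, .negSucc 141, .ofNat 0, .negSucc 141, .ofNat 1529, .ofNat 0, .ofNat 299, .ofNat 18, .negSucc 81, .ofNat 0, .ofNat 128, .ofNat 0, .ofNat 0, .ofNat 0, .ofNat 268, .ofNat 3255, .ofNat 0, .ofNat 0, .ofNat 95825680864693364595480858085575098368, .ofNat 0, .ofNat 0, .ofNat 0, .ofNat 941256972770037367476989886493913776128, .ofNat 0,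 .ofNat 0, .ofNat 0, .ofNat 6520965828189209819294714511952562880512, .ofNat 0, .ofNat 0, .ofNat 0, .ofNat 1407439728174459291613608684357593071616, .ofNat 0⟩)
    (by decide +kernel)
theorem L02755 : Good (Phi V5.P V5.D 1 (-1)) ⟨3, 4, 2, 0, 2, 3, 3, 1, 4, 3⟩ :=
  leafYS_sound T5.ok_pm T5.Ypm.bz_eq (w := 205) (c := ⟨⟨.negSucc 1873, .negSucc 223, .negSucc 125, .ofNat 287, .negSucc 166, .ofNat 132⟩, ⟨.negSucc 43, .negSucc 124, .ofNat 424, .ofNat 144, .negSucc 26, .negSucc 28⟩, ⟨.ofNat 315, .ofNat 55, .ofNat 7, .ofNat 106, .ofNat 362, .ofNat 212⟩, ⟨.negSucc 4147, .negSucc 32, .negSucc 29, .ofNat 623, .negSucc 359, .ofNat 254⟩, ⟨.ofNat 373, .ofNat 241, .ofNat 531, .ofNat 1985, .negSucc 309, .negSucc 432⟩, .ofNat 439, .ofNat 16, .ofNat 0, .ofNat 16, .ofNat 1455, .ofNat 0, .ofNat 220, .negSucc 32, .negSucc 31, .ofNat 0, .ofNat 128, .ofNat 3, .ofNat 0, .ofNat 0, .ofNat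 180, .ofNat 1910, .ofNat 0, .ofNat 0, .ofNat 675027379304305040878786602103472128, .ofNat 0, .ofNat 0, .ofNat 0, .ofNat 0, .ofNat 0, .ofNat 0, .ofNat 0, .ofNat 84855933894950042880156164818347229184, .ofNat 0, .ofNat 0, .ofNat 0, .ofNat 0, .ofNat 0⟩)
    (by decide +kernel)
theorem L02756 : Good (Phi V5.P V5.D 1 (-1)) ⟨3, 5, 2, 0, 2, 3, 3, 1, 4, 3⟩ :=
  leafYS_sound T5.ok_pm T5.Ypm.bz_eq (w := 206) (c := ⟨⟨.negSucc 2135, .negSucc 184, .negSucc 90, .ofNat 462, .negSucc 229, .ofNat 110⟩, ⟨.negSucc 223, .negSucc 94, .ofNat 472, .ofNat 304, .negSucc 57, .negSucc 45⟩, ⟨.ofNat 354, .ofNat 48, .ofNat 0, .ofNat 93, .ofNat 414, .ofNat 193⟩, ⟨.negSucc 4202, .ofNat 59, .ofNat 36, .ofNat 589, .negSucc 366, .ofNat 278⟩, ⟨.ofNat 570, .ofNat 367, .ofNat 687, .ofNat 2054, .negSucc 219, .negSucc 498⟩, .ofNat 465, .negSucc 193, .ofNat 0, .negSucc 193, .ofNat 1789, .ofNat 0, .ofNat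 248, .ofNat 30, .negSucc 43, .ofNat 0, .ofNat 128, .ofNat 0, .ofNat 0, .ofNat 0, .ofNat 241, .ofNat 2977, .ofNat 0, .ofNat 0, .ofNat 2835831985365375598053083540568932352, .ofNat 0, .ofNat 0, .ofNat 0, .ofNat 44391073503152305309962803656391655424, .ofNat 0, .ofNat 0, .ofNat 0, .ofNat 304184873998668317919259981210697334784, .ofNat 0, .ofNat 0, .ofNat 0, .ofNat 32995806577565681396679203092128858112, .ofNat 0⟩)
    (by decide +kernel)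
theorem L02757 : Good (Phi V5.P V5.D 1 (-1)) ⟨3, 4, 2, 0, 2, 2, 2, 1, 4, 2⟩ :=
  leafYS_sound T5.ok_pm T5.Ypm.bz_eq (w := 202) (c := ⟨⟨.negSucc 1182, .negSucc 415, .negSucc 2, .negSucc 426, .negSucc 214, .negSucc 382⟩, ⟨.negSucc 90, .negSucc 165, .ofNat 343, .ofNat 63, .ofNat 6, .ofNat 1⟩, ⟨.ofNat 293, .ofNat 240, .negSucc 50, .negSucc 173, .ofNat 710, .ofNat 528⟩, ⟨.negSucc 2733, .negSucc 310, .ofNat 2, .negSucc 832, .negSucc 425, .negSucc 807⟩, ⟨.negSucc 312, .ofNat 90, .ofNat 172, .ofNat 555, .negSucc 99, .negSucc 172⟩, .ofNat 440, .ofNat 34, .ofNat 0, .ofNat 34, .ofNat 1429, .ofNat 0, .ofNat 393, .negSucc 28, .negSucc 199, .ofNat 0, .ofNat 128, .ofNat 27, .ofNat 0, .ofNat 0, .ofNat 585, .ofNat 2011, .ofNat 0, .ofNat 0, .ofNat 0, .ofNat 0, .ofNat 0, .ofNat 0, .ofNat 0, .ofNat 0, .ofNat 0, .ofNat 0, .ofNat 0, .ofNat 0, .ofNat 0, .ofNat 0, .ofNat 0, .ofNat 0⟩)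
    (by decide +kernel)
theorem L02758 : Good (Phi V5.P V5.D 1 (-1)) ⟨3, 4, 2, 0, 2, 2, 2, 1, 4, 3⟩ :=
  leafYS_sound T5.ok_pm T5.Ypm.bz_eq (w := 202) (c := ⟨⟨.negSucc 1738, .negSucc 321, .negSucc 7, .negSucc 205, .negSucc 122, .ofNat 44⟩, ⟨.negSucc 59, .negSucc 173, .ofNat 348, .ofNat 33, .negSucc 6, .negSucc 14⟩, ⟨.ofNat 921, .ofNat 126, .negSucc 27, .negSucc 273, .ofNat 590, .ofNat 246⟩, ⟨.negSucc 3865, .negSucc 66, .negSucc 44, .negSucc 410, .negSucc 251, .ofNat 71⟩, ⟨.negSucc 302, .ofNat 143, .ofNat 105, .ofNat 335, .negSucc 119, .negSucc 119⟩, .ofNat 440, .ofNat 29, .ofNat 0, .ofNat 29, .ofNat 1439, .ofNat 0, .ofNat 311, .negSucc 23, .negSucc 118, .ofNat 0, .ofNat 128, .ofNat 18, .ofNat 0, .ofNat 0, .ofNat 553, .ofNat 1990, .ofNat 0, .ofNat 0, .ofNat 0, .ofNat 0, .ofNat 0, .ofNat 0, .ofNat 0, .ofNat 0, .ofNat 0, .ofNat 0, .ofNat 0, .ofNat 0, .ofNat 0, .ofNat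 0, .ofNat 0, .ofNat 0⟩)
    (by decide +kernel)
theorem L02759 : Good (Phi V5.P V5.D 1 (-1)) ⟨3, 4, 2, 0, 2, 3, 2, 1, 4, 2⟩ :=
  leafYS_sound T5.ok_pm T5.Ypm.bz_eq (w := 201) (c := ⟨⟨.negSucc 1689, .negSucc 377, .negSucc 88, .ofNat 164, .negSucc 476, .negSucc 230⟩, ⟨.negSucc 65, .negSucc 118, .ofNat 458, .ofNat 146, .negSucc 65, .negSucc 21⟩, ⟨.ofNat 155, .ofNat 185, .negSucc 2, .ofNat 26, .ofNat 780, .ofNat 477⟩, ⟨.negSucc 3852, .negSucc 219, .ofNat 25, .ofNat 372, .negSucc 975, .negSucc 490⟩, ⟨.ofNat 782, .ofNat 215, .ofNat 236, .ofNat 1498, .negSucc 801, .negSucc 335⟩, .ofNat 497, .ofNat 42, .ofNat 0, .ofNat 42, .ofNat 2343, .ofNat 0, .ofNat 370, .negSucc 33, .negSucc 122, .ofNat 0, .ofNat 128, .ofNat 10, .ofNat 0, .ofNat 0, .ofNat 331, .ofNat 1006, .ofNat 0, .ofNat 0, .ofNat 53321637427669374379678672057532416, .ofNat 0, .ofNat 0, .ofNat 0, .ofNat 0, .ofNat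 0, .ofNat 0, .ofNat 0, .ofNat 0, .ofNat 0, .ofNat 0, .ofNat 0, .ofNat 0, .ofNat 0⟩)
    (by decide +kernel)
theorem L02760 : Good (Phi V5.P V5.D 1 (-1)) ⟨3, 4, 2, 0, 2, 3, 2, 1, 4, 3⟩ :=
  leafYS_sound T5.ok_pm T5.Ypm.bz_eq (w := 202) (c := ⟨⟨.negSucc 1956, .negSucc 313, .negSucc 100, .ofNat 172, .negSucc 323, .ofNat 151⟩, ⟨.negSucc 56, .negSucc 143, .ofNat 437, .ofNat 141, .negSucc 27, .negSucc 46⟩, ⟨.ofNat 661, .ofNat 159, .ofNat 26, .ofNat 45, .ofNat 674, .ofNat 177⟩, ⟨.negSucc 4375, .negSucc 95, .negSucc 40, .ofNat 384, .negSucc 669, .ofNat 290⟩, ⟨.ofNat 290, .ofNat 242, .ofNat 342, .ofNat 1677, .negSucc 451, .negSucc 410⟩, .ofNat 439, .ofNat 21, .ofNat 0, .ofNat 21, .ofNat 1448, .ofNat 0, .ofNat 457, .negSucc 26, .negSucc 73, .ofNat 0, .ofNat 128, .ofNat 7, .ofNat 0, .ofNat 0, .ofNat 383, .ofNat 1480, .ofNat 0, .ofNat 0, .ofNat 81393237731298865340431814505791488,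 .ofNat 0, .ofNat 0, .ofNat 0, .ofNat 0, .ofNat 0, .ofNat 0, .ofNat 0, .ofNat 0, .ofNat 0, .ofNat 0, .ofNat 0, .ofNat 203220608261625188486792089010438144, .ofNat 0⟩)
    (by decide +kernel)
theorem L02761 : Good (Phi V5.P V5.D 1 (-1)) ⟨3, 5, 2, 0, 2, 2, 2, 1, 4, 2⟩ :=
  leafYS_sound T5.ok_pm T5.Ypm.bz_eq (w := 202) (c := ⟨⟨.negSucc 1588, .negSucc 563, .negSucc 69, .negSucc 394, .negSucc 384, .negSucc 286⟩, ⟨.negSucc 209, .negSucc 322, .ofNat 364, .ofNat 62, .negSucc 63, .negSucc 34⟩, ⟨.ofNat 476, .ofNat 258, .ofNat 25, .negSucc 231, .ofNat 891, .ofNat 474⟩, ⟨.negSucc 3109, .negSucc 482, .negSucc 120, .negSucc 768, .negSucc 672, .negSucc 497⟩, ⟨.negSucc 403, .ofNat 70, .ofNat 168, .ofNat 880, .negSucc 63, .negSucc 28⟩, .ofNat 408, .negSucc 110, .ofNat 0, .negSucc 110, .ofNat 1212, .ofNat 0, .ofNat 352, .ofNat 58, .negSucc 142, .ofNat 0, .ofNat 128, .ofNat 4, .ofNat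 0, .ofNat 0, .ofNat 389, .ofNat 1867, .ofNat 0, .ofNat 0, .ofNat 97389272737682392561277821043867648, .ofNat 0, .ofNat 0, .ofNat 0, .ofNat 8472388647864651118617482556161916928, .ofNat 0, .ofNat 0, .ofNat 0, .ofNat 5349408088082254620239531075117776896, .ofNat 0, .ofNat 0, .ofNat 0, .ofNat 978529454487318340328424433216651264, .ofNat 0⟩)
    (by decide +kernel)
theorem L02762 : Good (Phi V5.P V5.D 1 (-1)) ⟨3, 5, 2, 0, 3, 6, 2, 1, 4, 2⟩ :=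
  leafYS_sound T5.ok_pm T5.Ypm.bz_eq (w := 216) (c := ⟨⟨.negSucc 2044, .negSucc 538, .negSucc 92, .negSucc 24, .negSucc 648, .negSucc 131⟩, ⟨.negSucc 182, .negSucc 232, .ofNat 479, .ofNat 106, .negSucc 129, .negSucc 45⟩, ⟨.ofNat 323, .ofNat 278, .negSucc 24, .ofNat 46, .ofNat 974, .ofNat 397⟩, ⟨.negSucc 4044, .negSucc 417, .negSucc 19, .negSucc 144, .negSucc 1144, .negSucc 238⟩, ⟨.ofNat 693, .ofNat 332, .ofNat 339, .ofNat 933, .negSucc 532, .negSucc 324⟩, .ofNat 394, .negSucc 74, .ofNat 0, .negSucc 74, .ofNat 1033, .ofNat 0, .ofNat 473, .ofNat 26, .negSucc 232, .ofNat 0, .ofNat 128, .ofNat 15, .ofNat 0, .ofNat 0, .ofNat 491, .ofNat 2038, .ofNat 0, .ofNat 0, .ofNat 2602912223832719020449458622565357453312, .ofNat 0, .ofNat 0, .ofNat 0, .ofNat 186082381911958987013462355654662288310272, .ofNat 0, .ofNat 0, .ofNat 0, .ofNat 85390767240125979328088353924869800329216,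 .ofNat 0, .ofNat 0, .ofNat 0, .ofNat 0, .ofNat 0⟩)
    (by decide +kernel)
theorem L02763 : Good (Phi V5.P V5.D 1 (-1)) ⟨3, 5, 2, 0, 3, 7, 2, 1, 4, 2⟩ :=
  leafYS_sound T5.ok_pm T5.Ypm.bz_eq (w := 216) (c := ⟨⟨.negSucc 2143, .negSucc 350, .negSucc 197, .ofNat 484, .negSucc 850, .ofNat 0⟩, ⟨.negSucc 106, .negSucc 101, .ofNat 502, .ofNat 152, .negSucc 206, .negSucc 24⟩, ⟨.ofNat 506, .ofNat 193, .ofNat 47, .negSucc 197, .ofNat 912, .ofNat 306⟩, ⟨.negSucc 4340, .negSucc 238, .negSucc 120, .ofNat 765, .negSucc 1431, .ofNat 37⟩, ⟨.ofNat 1662, .ofNat 536, .ofNat 176, .ofNat 761, .negSucc 717, .negSucc 160⟩, .ofNat 466, .negSucc 197, .ofNat 0, .negSucc 197, .ofNat 1813, .ofNat 0, .ofNat 476, .ofNat 57, .negSucc 163, .ofNat 0, .ofNat 128, .negSucc 5, .ofNat 0, .ofNat 0, .ofNat 380, .ofNat 1071, .ofNat 0, .ofNat 0, .ofNat 2179652682251444917941638168961456537600, .ofNat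 0, .ofNat 0, .ofNat 0, .ofNat 78908271688511855473688111805471934906368, .ofNat 0, .ofNat 0, .ofNat 0, .ofNat 147674546832165781863995629489344284196864, .ofNat 0, .ofNat 0, .ofNat 0, .ofNat 12153149745571604202254299939104140296192, .ofNat 0⟩)
    (by decide +kernel)
theorem L02764 : Good (Phi V5.P V5.D 1 (-1)) ⟨3, 5, 2, 0, 2, 2, 2, 1, 4, 3⟩ :=
  leafYS_sound T5.ok_pm T5.Ypm.bz_eq (w := 202) (c := ⟨⟨.negSucc 2109, .negSucc 379, .negSucc 23, .negSucc 194, .negSucc 258, .ofNat 167⟩, ⟨.negSucc 242, .negSucc 286, .ofNat 370, .ofNat 41, .negSucc 51, .negSucc 6⟩, ⟨.ofNat 1058, .ofNat 97, .negSucc 74, .negSucc 220, .ofNat 761, .ofNat 151⟩, ⟨.negSucc 4038, .negSucc 89, .negSucc 52, .negSucc 420, .negSucc 458, .ofNat 310⟩, ⟨.negSucc 135, .ofNat 13, .ofNat 63, .ofNat 491, .negSucc 142, .negSucc 189⟩, .ofNat 407, .negSucc 109, .ofNat 0, .negSucc 109, .ofNat 1198, .ofNat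 0, .ofNat 587, .ofNat 50, .negSucc 132, .ofNat 0, .ofNat 128, .ofNat 6, .ofNat 0, .ofNat 0, .ofNat 550, .ofNat 2491, .ofNat 0, .ofNat 0, .ofNat 105940093758401818384413494790324224, .ofNat 0, .ofNat 0, .ofNat 0, .ofNat 0, .ofNat 0, .ofNat 0, .ofNat 0, .ofNat 13232929960957333840357908030240587776, .ofNat 0, .ofNat 0, .ofNat 0, .ofNat 0, .ofNat 0⟩)
    (by decide +kernel)
theorem L02765 : Good (Phi V5.P V5.D 1 (-1)) ⟨3, 5, 2, 0, 3, 6, 2, 1, 4, 3⟩ :=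
  leafYS_sound T5.ok_pm T5.Ypm.bz_eq (w := 217) (c := ⟨⟨.negSucc 2338, .negSucc 360, .negSucc 66, .ofNat 95, .negSucc 453, .ofNat 263⟩, ⟨.negSucc 212, .negSucc 247, .ofNat 427, .ofNat 102, .negSucc 102, .negSucc 12⟩, ⟨.ofNat 850, .ofNat 180, .negSucc 12, .negSucc 26, .ofNat 797, .ofNat 106⟩, ⟨.negSucc 4544, .negSucc 93, .negSucc 77, .ofNat 54, .negSucc 770, .ofNat 519⟩, ⟨.ofNat 516, .ofNat 246, .ofNat 264, .ofNat 734, .negSucc 398, .negSucc 377⟩, .ofNat 408, .negSucc 119, .ofNat 0, .negSucc 119, .ofNat 1218, .ofNat 0, .ofNat 390, .ofNat 39, .negSucc 95, .ofNat 0, .ofNat 128, .ofNat 3, .ofNat 0, .ofNat 0, .ofNat 431, .ofNat 2786, .ofNat 0, .ofNat 0, .ofNat 3459315506999710467727139861865439428608, .ofNat 0, .ofNat 0, .ofNat 0, .ofNat 89302674372788260699488411869734565314560, .ofNat 0, .ofNat 0, .ofNat 0, .ofNat 204889800853696679521562768014044951478272, .ofNat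 0, .ofNat 0, .ofNat 0, .ofNat 0, .ofNat 0⟩)
    (by decide +kernel)
theorem L02766 : Good (Phi V5.P V5.D 1 (-1)) ⟨3, 5, 2, 0, 3, 7, 2, 1, 4, 3⟩ :=
  leafYS_sound T5.ok_pm T5.Ypm.bz_eq (w := 216) (c := ⟨⟨.negSucc 2322, .negSucc 162, .negSucc 19, .ofNat 338, .negSucc 533, .ofNat 288⟩, ⟨.negSucc 171, .negSucc 93, .ofNat 502, .ofNat 175, .negSucc 136, .negSucc 10⟩, ⟨.ofNat 894, .ofNat 98, .ofNat 8, .negSucc 52, .ofNat 706, .ofNat 125⟩, ⟨.negSucc 4594, .ofNat 105, .ofNat 134, .ofNat 465, .negSucc 897, .ofNat 564⟩, ⟨.ofNat 1323, .ofNat 472, .ofNat 241, .ofNat 1039, .negSucc 607, .negSucc 342⟩, .ofNat 407, .negSucc 114, .ofNat 0, .negSucc 114, .ofNat 1206, .ofNat 0, .ofNat 354, .ofNat 25, .negSucc 53, .ofNat 0, .ofNat 128, .negSucc 0, .ofNat 0, .ofNat 0, .ofNat 305, .ofNat 1291, .ofNat 0, .ofNat 0, .ofNat 2341340535478283051902897057482051420160, .ofNat 0, .ofNat 0,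 .ofNat 0, .ofNat 0, .ofNat 0, .ofNat 0, .ofNat 0, .ofNat 85697928105823353217494616123143972978688, .ofNat 0, .ofNat 0, .ofNat 0, .ofNat 58183364377720416495924025828507316649984, .ofNat 0⟩)
    (by decide +kernel)
theorem L02767 : Good (Phi V5.P V5.D 1 (-1)) ⟨2, 3, 2, 0, 1, 1, 1, 0, 3, 1⟩ :=
  out_sound (S := T5.ds_pm) T5.ok_pm (w := 37) (j := 3) (by decide +kernel)
theorem L02768 : Good (Phi V5.P V5.D 1 (-1)) ⟨3, 4, 2, 0, 3, 4, 2, 0, 4, 4⟩ :=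
  leafYS_sound T5.ok_pm T5.Ypm.bz_eq (w := 219) (c := ⟨⟨.negSucc 1684, .negSucc 275, .ofNat 0, .negSucc 45, .negSucc 76, .ofNat 126⟩, ⟨.negSucc 58, .negSucc 172, .ofNat 318, .ofNat 5, .ofNat 1, .ofNat 0⟩, ⟨.ofNat 637, .ofNat 59, .negSucc 32, .negSucc 212, .ofNat 606, .ofNat 129⟩, ⟨.negSucc 3730, .negSucc 12, .negSucc 41, .negSucc 96, .negSucc 160, .ofNat 257⟩, ⟨.negSucc 330, .ofNat 71, .ofNat 59, .ofNat 69, .negSucc 13, .negSucc 34⟩, .ofNat 327, .ofNat 9, .ofNat 0, .ofNat 9, .ofNat 678, .ofNat 0, .ofNat 233, .negSucc 14, .negSucc 53, .ofNat 0, .ofNat 128, .ofNat 16, .ofNat 0, .ofNat 0, .ofNat 382, .ofNat 22772, .ofNat 241870481935590112824275844818240252990717952, .ofNat 0, .ofNat 0, .ofNat 0, .ofNat 0, .ofNat 0, .ofNat 0, .ofNat 0, .ofNat 0, .ofNat 0, .ofNat 0, .ofNat 0, .ofNat 1532715661378427347082084342504247133007249408, .ofNat 0, .ofNat 0, .ofNat 0⟩)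
    (by decide +kernel)
theorem L02769 : Good (Phi V5.P V5.D 1 (-1)) ⟨3, 4, 2, 0, 3, 5, 2, 0, 4, 4⟩ :=
  leafYS_sound T5.ok_pm T5.Ypm.bz_eq (w := 217) (c := ⟨⟨.negSucc 1671, .negSucc 255, .negSucc 28, .negSucc 9, .negSucc 167, .ofNat 163⟩, ⟨.negSucc 44, .negSucc 166, .ofNat 335, .ofNat 25, .negSucc 11, .negSucc 10⟩, ⟨.ofNat 309, .ofNat 30, .negSucc 9, .negSucc 127, .ofNat 733, .ofNat 136⟩, ⟨.negSucc 3706, .ofNat 16, .negSucc 69, .negSucc 13, .negSucc 350, .ofNat 331⟩, ⟨.negSucc 176, .ofNat 133, .ofNat 152, .ofNat 323, .negSucc 142, .negSucc 101⟩, .ofNat 327, .ofNat 9, .ofNat 0, .ofNat 9, .ofNat 682, .ofNat 0, .ofNat 128, .negSucc 25, .negSucc 25, .ofNat 0, .ofNat 143, .ofNat 10, .ofNat 0, .ofNat 0, .ofNat 230, .ofNat 7029, .ofNat 25933766848060915590414793947330144005783552, .ofNat 0, .ofNat 0, .ofNat 0, .ofNat 203197779955211358580944745986514177771962368, .ofNat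 0, .ofNat 0, .ofNat 0, .ofNat 0, .ofNat 0, .ofNat 0, .ofNat 0, .ofNat 302798876562288092619224889467665490831736832, .ofNat 0, .ofNat 0, .ofNat 0⟩)
    (by decide +kernel)
theorem L02770 : Good (Phi V5.P V5.D 1 (-1)) ⟨3, 4, 2, 0, 3, 4, 2, 1, 4, 4⟩ :=
  leafYS_sound T5.ok_pm T5.Ypm.bz_eq (w := 218) (c := ⟨⟨.negSucc 1747, .negSucc 289, .ofNat 8, .negSucc 71, .negSucc 69, .ofNat 119⟩, ⟨.negSucc 56, .negSucc 175, .ofNat 316, .ofNat 8, .negSucc 1, .negSucc 5⟩, ⟨.ofNat 1177, .ofNat 114, .negSucc 15, .negSucc 119, .ofNat 442, .ofNat 107⟩, ⟨.negSucc 3860, .negSucc 37, .negSucc 31, .negSucc 149, .negSucc 149, .ofNat 247⟩, ⟨.negSucc 311, .ofNat 50, .ofNat 42, .ofNat 49, .negSucc 75, .negSucc 35⟩, .ofNat 327, .ofNat 9, .ofNat 0, .ofNat 9, .ofNat 682, .ofNat 0, .ofNat 371, .negSucc 11, .negSucc 111, .ofNat 0, .ofNat 128, .ofNat 25, .ofNat 0, .ofNat 0, .ofNat 701, .ofNat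 10050, .ofNat 130161145574895551734856868970446414535458816, .ofNat 0, .ofNat 0, .ofNat 0, .ofNat 0, .ofNat 0, .ofNat 0, .ofNat 0, .ofNat 0, .ofNat 0, .ofNat 0, .ofNat 0, .ofNat 0, .ofNat 0, .ofNat 0, .ofNat 0⟩)
    (by decide +kernel)
theorem L02771 : Good (Phi V5.P V5.D 1 (-1)) ⟨3, 4, 2, 0, 3, 5, 2, 1, 4, 4⟩ :=
  leafYS_sound T5.ok_pm T5.Ypm.bz_eq (w := 217) (c := ⟨⟨.negSucc 1820, .negSucc 301, .negSucc 8, .negSucc 35, .negSucc 154, .ofNat 180⟩, ⟨.negSucc 50, .negSucc 176, .ofNat 334, .ofNat 21, .negSucc 13, .negSucc 5⟩, ⟨.ofNat 980, .ofNat 125, .negSucc 3, .negSucc 83, .ofNat 618, .ofNat 114⟩, ⟨.negSucc 4031, .negSucc 40, .negSucc 43, .negSucc 64, .negSucc 312, .ofNat 363⟩, ⟨.negSucc 278, .ofNat 120, .ofNat 112, .ofNat 246, .negSucc 145, .negSucc 68⟩, .ofNat 439, .ofNat 26, .ofNat 0, .ofNat 26, .ofNat 1460, .ofNat 0, .ofNat 369, .negSucc 21, .negSucc 57, .ofNat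 0, .ofNat 128, .ofNat 9, .ofNat 0, .ofNat 0, .ofNat 473, .ofNat 5715, .ofNat 0, .ofNat 0, .ofNat 0, .ofNat 0, .ofNat 0, .ofNat 0, .ofNat 0, .ofNat 0, .ofNat 0, .ofNat 0, .ofNat 0, .ofNat 0, .ofNat 0, .ofNat 0, .ofNat 28337661471851355438839690682213267931136, .ofNat 0⟩)
    (by decide +kernel)
theorem L02772 : Good (Phi V5.P V5.D 1 (-1)) ⟨3, 4, 2, 0, 2, 2, 2, 0, 4, 5⟩ :=
  leafYS_sound T5.ok_pm T5.Ypm.bz_eq (w := 205) (c := ⟨⟨.negSucc 1527, .negSucc 242, .negSucc 18, .negSucc 3, .negSucc 152, .ofNat 172⟩, ⟨.negSucc 54, .negSucc 162, .ofNat 308, .ofNat 33, .negSucc 15, .negSucc 5⟩, ⟨.ofNat 627, .ofNat 26, .ofNat 34, .negSucc 241, .ofNat 637, .ofNat 107⟩, ⟨.negSucc 3405, .ofNat 19, .negSucc 55, .ofNat 9, .negSucc 329, .ofNat 351⟩, ⟨.negSucc 469, .ofNat 103, .ofNat 140, .ofNat 512, .negSucc 166, .negSucc 90⟩, .ofNat 324, .ofNat 2, .ofNat 0, .ofNat 2, .ofNat 673,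 .ofNat 0, .ofNat 185, .negSucc 12, .negSucc 39, .ofNat 0, .ofNat 128, .ofNat 14, .ofNat 0, .ofNat 0, .ofNat 700, .ofNat 27898, .ofNat 112176572328150364131501911010382060716032, .ofNat 0, .ofNat 0, .ofNat 0, .ofNat 546785438984524100553805207471886889385984, .ofNat 0, .ofNat 0, .ofNat 0, .ofNat 634429535857507836408254009877864820768768, .ofNat 0, .ofNat 0, .ofNat 0, .ofNat 492089390846720227953251942693040384114688, .ofNat 0, .ofNat 0, .ofNat 0⟩)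
    (by decide +kernel)
theorem L02773 : Good (Phi V5.P V5.D 1 (-1)) ⟨3, 4, 2, 0, 3, 4, 2, 1, 4, 5⟩ :=
  leafYS_sound T5.ok_pm T5.Ypm.bz_eq (w := 219) (c := ⟨⟨.negSucc 1623, .negSucc 280, .ofNat 8, .negSucc 48, .negSucc 86, .ofNat 134⟩, ⟨.negSucc 41, .negSucc 176, .ofNat 289, .ofNat 5, .negSucc 7, .negSucc 4⟩, ⟨.ofNat 1173, .ofNat 144, .ofNat 62, .negSucc 67, .ofNat 459, .ofNat 104⟩, ⟨.negSucc 3596, .negSucc 40, .negSucc 38, .negSucc 102, .negSucc 178, .ofNat 278⟩, ⟨.negSucc 289, .ofNat 29, .ofNat 28, .ofNat 6, .negSucc 101, .negSucc 23⟩, .ofNat 327, .ofNat 9, .ofNat 0, .ofNat 9, .ofNat 682, .ofNat 0, .ofNat 222, .negSucc 10, .negSucc 71, .ofNat 0, .ofNat 128, .ofNat 15, .ofNat 0, .ofNat 0, .ofNat 839, .ofNat 13328, .ofNat 217754575337594741328921507363679900199288832, .ofNat 0, .ofNat 0, .ofNat 0, .ofNat 0, .ofNat 0, .ofNat 0, .ofNat 0, .ofNat 0, .ofNat 0, .ofNat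 0, .ofNat 0, .ofNat 0, .ofNat 0, .ofNat 0, .ofNat 0⟩)
    (by decide +kernel)
theorem L02774 : Good (Phi V5.P V5.D 1 (-1)) ⟨3, 4, 2, 0, 3, 5, 2, 1, 4, 5⟩ :=
  leafYS_sound T5.ok_pm T5.Ypm.bz_eq (w := 217) (c := ⟨⟨.negSucc 1669, .negSucc 265, .negSucc 13, .negSucc 9, .negSucc 130, .ofNat 169⟩, ⟨.negSucc 50, .negSucc 168, .ofNat 306, .ofNat 16, .negSucc 10, .negSucc 5⟩, ⟨.ofNat 1019, .ofNat 115, .ofNat 74, .negSucc 48, .ofNat 628, .ofNat 137⟩, ⟨.negSucc 3691, .negSucc 16, .negSucc 54, .negSucc 16, .negSucc 272, .ofNat 337⟩, ⟨.negSucc 288, .ofNat 70, .ofNat 98, .ofNat 169, .negSucc 168, .negSucc 48⟩, .ofNat 439, .ofNat 26, .ofNat 0, .ofNat 26, .ofNat 1460, .ofNat 0, .ofNat 272, .negSucc 18, .negSucc 36, .ofNat 0, .ofNat 128, .ofNat 5, .ofNat 0, .ofNat 0, .ofNat 841, .ofNat 5850, .ofNat 0, .ofNat 0, .ofNat 0, .ofNat 0, .ofNat 0, .ofNat 0, .ofNat 0, .ofNat 0, .ofNat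 0, .ofNat 0, .ofNat 0, .ofNat 0, .ofNat 0, .ofNat 56668216831888322680309599868781836332171264, .ofNat 0, .ofNat 0⟩)
    (by decide +kernel)
theorem L02775 : Good (Phi V5.P V5.D 1 (-1)) ⟨3, 5, 2, 0, 3, 4, 2, 0, 3, 2⟩ :=
  leafYS_sound T5.ok_pm T5.Ypm.bz_eq (w := 214) (c := ⟨⟨.negSucc 1908, .negSucc 313, .ofNat 3, .negSucc 42, .negSucc 147, .ofNat 304⟩, ⟨.negSucc 211, .negSucc 276, .ofNat 312, .ofNat 4, .negSucc 29, .ofNat 26⟩, ⟨.ofNat 577, .ofNat 43, .negSucc 30, .negSucc 240, .ofNat 759, .ofNat 206⟩, ⟨.negSucc 3674, .ofNat 6, .negSucc 33, .negSucc 85, .negSucc 253, .ofNat 561⟩, ⟨.negSucc 284, .ofNat 56, .ofNat 44, .ofNat 93, .ofNat 14, .negSucc 127⟩, .ofNat 407, .negSucc 109, .ofNat 0, .negSucc 109, .ofNat 1209, .ofNat 0, .ofNat 271, .ofNat 47, .negSucc 63, .ofNat 0, .ofNat 128, .ofNat 7, .ofNat 0, .ofNat 0, .ofNat 519, .ofNat 24581, .ofNat 47758261429153800463996119161484695551606784,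 .ofNat 0, .ofNat 259263378801354421061045969786421379072, .ofNat 0, .ofNat 175524057975628936832169841269511090308382720, .ofNat 0, .ofNat 3097542708490383667392675094297040650240, .ofNat 0, .ofNat 235322089677798191947475362351192947690569728, .ofNat 0, .ofNat 8004985472083784160301497724710737149952, .ofNat 0, .ofNat 404648987788314590961857955374868824594579456, .ofNat 0, .ofNat 906189748308119183166800081477366185984, .ofNat 0⟩)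
    (by decide +kernel)
theorem L02776 : Good (Phi V5.P V5.D 1 (-1)) ⟨3, 5, 2, 0, 3, 5, 2, 0, 3, 2⟩ :=
  leafYS_sound T5.ok_pm T5.Ypm.bz_eq (w := 213) (c := ⟨⟨.negSucc 1903, .negSucc 267, .negSucc 21, .ofNat 22, .negSucc 236, .ofNat 374⟩, ⟨.negSucc 201, .negSucc 247, .ofNat 329, .ofNat 40, .negSucc 46, .ofNat 11⟩, ⟨.ofNat 226, .ofNat 9, .ofNat 0, .negSucc 127, .ofNat 882, .ofNat 187⟩, ⟨.negSucc 3675, .ofNat 58, .negSucc 56, .ofNat 1, .negSucc 411, .ofNat 712⟩, ⟨.negSucc 42, .ofNat 131, .ofNat 138, .ofNat 334, .negSucc 167, .negSucc 229⟩, .ofNat 394, .negSucc 74, .ofNat 0, .negSucc 74, .ofNat 1033, .ofNat 0, .ofNat 235, .ofNat 18, .negSucc 37, .ofNat 0, .ofNat 128, .ofNat 12, .ofNat 0, .ofNat 0, .ofNat 566, .ofNat 11990, .ofNat 8211314567849198386318841508225576545026048, .ofNat 0, .ofNat 194477418041186639521584439714948055040, .ofNat 0, .ofNat 124036739371966235662315788248172440303173632,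 .ofNat 0, .ofNat 3861061588874075408055699411170465153024, .ofNat 0, .ofNat 92387746668720029053569050875447620105404416, .ofNat 0, .ofNat 5521417300745118803841303587810896248832, .ofNat 0, .ofNat 274107630643122031347760030672084641377157120, .ofNat 0, .ofNat 0, .ofNat 0⟩)
    (by decide +kernel)
theorem L02777 : Good (Phi V5.P V5.D 1 (-1)) ⟨3, 5, 2, 0, 3, 4, 2, 1, 4, 4⟩ :=
  leafYS_sound T5.ok_pm T5.Ypm.bz_eq (w := 218) (c := ⟨⟨.negSucc 2032, .negSucc 354, .ofNat 9, .negSucc 82, .negSucc 156, .ofNat 166⟩, ⟨.negSucc 234, .negSucc 290, .ofNat 323, .negSucc 3, .negSucc 28, .ofNat 12⟩, ⟨.ofNat 1258, .ofNat 144, .negSucc 18, .negSucc 133, .ofNat 596, .ofNat 71⟩, ⟨.negSucc 3889, .negSucc 51, .negSucc 28, .negSucc 160, .negSucc 276, .ofNat 309⟩, ⟨.negSucc 244, .ofNat 53, .ofNat 53, .ofNat 48, .negSucc 110, .negSucc 60⟩, .ofNat 307, .negSucc 42, .ofNat 0, .negSucc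 42, .ofNat 623, .ofNat 0, .ofNat 277, .ofNat 25, .negSucc 110, .ofNat 0, .ofNat 128, .ofNat 16, .ofNat 0, .ofNat 0, .ofNat 681, .ofNat 7231, .ofNat 57645773177064217164852454284921629650714624, .ofNat 0, .ofNat 1328595012404108656072327526747343945728, .ofNat 0, .ofNat 0, .ofNat 0, .ofNat 242373455737653274836254647542437669502976, .ofNat 0, .ofNat 0, .ofNat 0, .ofNat 249278586866218816441680008121472253952000, .ofNat 0, .ofNat 0, .ofNat 0, .ofNat 0, .ofNat 0⟩)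
    (by decide +kernel)
theorem L02778 : Good (Phi V5.P V5.D 1 (-1)) ⟨3, 5, 2, 0, 3, 4, 3, 2, 4, 5⟩ :=
  leafYS_sound T5.ok_pm T5.Ypm.bz_eq (w := 224) (c := ⟨⟨.negSucc 1900, .negSucc 316, .ofNat 7, .negSucc 43, .negSucc 77, .ofNat 178⟩, ⟨.negSucc 218, .negSucc 272, .ofNat 294, .negSucc 3, .negSucc 20, .ofNat 20⟩, ⟨.ofNat 1331, .ofNat 75, .ofNat 20, .negSucc 128, .ofNat 316, .ofNat 47⟩, ⟨.negSucc 3637, .negSucc 17, .negSucc 35, .negSucc 79, .negSucc 130, .ofNat 326⟩, ⟨.negSucc 274, .ofNat 34, .ofNat 42, .ofNat 35, .negSucc 54, .negSucc 32⟩, .ofNat 306, .negSucc 41, .ofNat 0, .negSucc 41, .ofNat 616, .ofNat 0, .ofNat 231, .ofNat 23, .negSucc 72, .ofNat 0, .ofNat 128, .ofNat 12, .ofNat 0, .ofNat 0, .ofNat 785, .ofNat 33775, .ofNat 3650736951071727956096807754548906010334986240, .ofNat 0, .ofNat 187698250005831472778574563147362659729408, .ofNat 0, .ofNat 11665562496889386312558009875845369272570216448,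 .ofNat 0, .ofNat 2228956933880978933615646664922122220994560, .ofNat 0, .ofNat 6607198245649923780942984736759113509324718080, .ofNat 0, .ofNat 4279166606120826412006888564526526282858496, .ofNat 0, .ofNat 0, .ofNat 0, .ofNat 0, .ofNat 0⟩)
    (by decide +kernel)
theorem L02779 : Good (Phi V5.P V5.D 1 (-1)) ⟨3, 5, 2, 0, 3, 4, 3, 3, 4, 5⟩ :=
  leafYS_sound T5.ok_pm T5.Ypm.bz_eq (w := 222) (c := ⟨⟨.negSucc 1952, .negSucc 348, .ofNat 0, .negSucc 61, .negSucc 73, .ofNat 170⟩, ⟨.negSucc 226, .negSucc 288, .ofNat 283, .negSucc 12, .negSucc 15, .ofNat 16⟩, ⟨.ofNat 1558, .ofNat 156, .ofNat 79, .negSucc 43, .ofNat 259, .ofNat 42⟩, ⟨.negSucc 3732, .negSucc 57, .negSucc 46, .negSucc 107, .negSucc 124, .ofNat 313⟩, ⟨.negSucc 303, .ofNat 17, .ofNat 24, .negSucc 14, .negSucc 65, .negSucc 31⟩, .ofNat 306, .negSucc 43, .ofNat 0, .negSucc 43, .ofNat 619, .ofNat 0, .ofNat 262,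 .ofNat 26, .negSucc 41, .ofNat 0, .ofNat 128, .ofNat 3, .ofNat 0, .ofNat 0, .ofNat 444, .ofNat 8526, .ofNat 0, .ofNat 0, .ofNat 0, .ofNat 0, .ofNat 0, .ofNat 0, .ofNat 0, .ofNat 0, .ofNat 0, .ofNat 0, .ofNat 0, .ofNat 0, .ofNat 0, .ofNat 0, .ofNat 2752136082988857757578783437363106669395968, .ofNat 0⟩)
    (by decide +kernel)
theorem L02780 : Good (Phi V5.P V5.D 1 (-1)) ⟨3, 5, 2, 0, 3, 5, 2, 1, 3, 2⟩ :=
  leafYS_sound T5.ok_pm T5.Ypm.bz_eq (w := 212) (c := ⟨⟨.negSucc 2124, .negSucc 334, .negSucc 35, .ofNat 1, .negSucc 231, .ofNat 420⟩, ⟨.negSucc 222, .negSucc 286, .ofNat 308, .ofNat 19, .negSucc 54, .ofNat 26⟩, ⟨.ofNat 1085, .ofNat 80, .ofNat 9, .negSucc 95, .ofNat 719, .ofNat 145⟩, ⟨.negSucc 4067, .negSucc 38, .negSucc 81, .negSucc 24, .negSucc 392, .ofNat 775⟩, ⟨.negSucc 129, .ofNat 26, .ofNat 64, .ofNat 208, .negSucc 157, .negSucc 158⟩, .ofNat 407, .negSucc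 110, .ofNat 0, .negSucc 110, .ofNat 1201, .ofNat 0, .ofNat 393, .ofNat 42, .negSucc 50, .ofNat 0, .ofNat 128, .ofNat 3, .ofNat 0, .ofNat 0, .ofNat 703, .ofNat 2563, .ofNat 0, .ofNat 0, .ofNat 38367405689278610462415181109451030528, .ofNat 0, .ofNat 0, .ofNat 0, .ofNat 0, .ofNat 0, .ofNat 0, .ofNat 0, .ofNat 4730305877191940203871681170364606447616, .ofNat 0, .ofNat 0, .ofNat 3211251572826106133702302472990595724869632, .ofNat 8474930327657545467468429747684376576000, .ofNat 0⟩)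
    (by decide +kernel)
theorem L02781 : Good (Phi V5.P V5.D 1 (-1)) ⟨2, 3, 2, 0, 2, 2, 1, 0, 3, 2⟩ :=
  out_sound (S := T5.ds_pm) T5.ok_pm (w := 37) (j := 3) (by decide +kernel)
theorem L02782 : Good (Phi V5.P V5.D 1 (-1)) ⟨3, 4, 2, 0, 2, 3, 2, 0, 4, 4⟩ :=
  leafYS_sound T5.ok_pm T5.Ypm.bz_eq (w := 200) (c := ⟨⟨.negSucc 1660, .negSucc 202, .negSucc 55, .ofNat 218, .negSucc 238, .ofNat 191⟩, ⟨.negSucc 28, .negSucc 127, .ofNat 365, .ofNat 114, .negSucc 31, .negSucc 20⟩, ⟨.ofNat 173, .ofNat 23, .ofNat 2, .ofNat 132, .ofNat 710, .ofNat 157⟩, ⟨.negSucc 3709, .ofNat 45, .negSucc 19, .ofNat 502, .negSucc 462, .ofNat 366⟩, ⟨.ofNat 197, .ofNat 248, .ofNat 362, .ofNat 1521, .negSucc 321, .negSucc 203⟩, .ofNat 439, .ofNat 31, .ofNat 0, .ofNat 31, .ofNat 1423, .ofNat 0, .ofNat 154, .negSucc 31, .negSucc 18, .ofNat 0, .ofNat 128, .ofNat 2, .ofNat 0, .ofNat 0, .ofNat 261,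 .ofNat 502, .ofNat 161382071786526892235678111069431136256, .ofNat 0, .ofNat 0, .ofNat 0, .ofNat 0, .ofNat 0, .ofNat 0, .ofNat 0, .ofNat 0, .ofNat 0, .ofNat 0, .ofNat 0, .ofNat 0, .ofNat 583041589738607008445609444461586153472, .ofNat 185625979321603945257901161191571456, .ofNat 0⟩)
    (by decide +kernel)
theorem L02783 : Good (Phi V5.P V5.D 1 (-1)) ⟨3, 4, 2, 0, 2, 3, 2, 1, 5, 8⟩ :=
  leafYS_sound T5.ok_pm T5.Ypm.bz_eq (w := 207) (c := ⟨⟨.negSucc 1884, .negSucc 237, .negSucc 62, .ofNat 220, .negSucc 261, .ofNat 109⟩, ⟨.negSucc 76, .negSucc 151, .ofNat 399, .ofNat 136, .negSucc 16, .negSucc 7⟩, ⟨.ofNat 815, .ofNat 135, .ofNat 84, .ofNat 100, .ofNat 662, .ofNat 51⟩, ⟨.negSucc 4184, .negSucc 0, .ofNat 6, .ofNat 457, .negSucc 515, .ofNat 221⟩, ⟨.negSucc 98, .ofNat 228, .ofNat 314, .ofNat 1540, .negSucc 284, .negSucc 142⟩, .ofNat 438, .ofNat 0, .ofNat 0, .ofNat 0,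 .ofNat 1477, .ofNat 0, .ofNat 190, .negSucc 15, .negSucc 37, .ofNat 0, .ofNat 128, .ofNat 2, .ofNat 0, .ofNat 0, .ofNat 430, .ofNat 1561, .ofNat 0, .ofNat 0, .ofNat 0, .ofNat 0, .ofNat 0, .ofNat 0, .ofNat 0, .ofNat 0, .ofNat 0, .ofNat 0, .ofNat 0, .ofNat 0, .ofNat 0, .ofNat 23402384513706249326281804263825262772224, .ofNat 0, .ofNat 0⟩)
    (by decide +kernel)
theorem L02784 : Good (Phi V5.P V5.D 1 (-1)) ⟨3, 4, 2, 0, 3, 6, 2, 1, 5, 9⟩ :=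
  leafYS_sound T5.ok_pm T5.Ypm.bz_eq (w := 222) (c := ⟨⟨.negSucc 1759, .negSucc 261, .negSucc 37, .ofNat 54, .negSucc 207, .ofNat 101⟩, ⟨.negSucc 52, .negSucc 159, .ofNat 366, .ofNat 46, .negSucc 21, .negSucc 13⟩, ⟨.ofNat 906, .ofNat 113, .ofNat 57, .ofNat 8, .ofNat 650, .ofNat 64⟩, ⟨.negSucc 3903, .negSucc 0, .negSucc 43, .ofNat 111, .negSucc 425, .ofNat 204⟩, ⟨.negSucc 69, .ofNat 172, .ofNat 229, .ofNat 555, .negSucc 265, .negSucc 113⟩, .ofNat 439, .ofNat 26, .ofNat 0, .ofNat 26, .ofNat 1460, .ofNat 0, .ofNat 348, .negSucc 23, .negSucc 32, .ofNat 0, .ofNat 128, .ofNat 3, .ofNat 0, .ofNat 0, .ofNat 541, .ofNat 3577, .ofNat 0, .ofNat 0, .ofNat 0, .ofNat 0, .ofNat 0, .ofNat 0, .ofNat 0, .ofNat 0, .ofNat 0, .ofNat 0, .ofNat 0, .ofNat 0, .ofNat 0, .ofNat 209713362535042690608638866847313513557262336, .ofNat 0, .ofNat 0⟩)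
    (by decide +kernel)
theorem L02785 : Good (Phi V5.P V5.D 1 (-1)) ⟨3, 4, 2, 0, 3, 7, 2, 1, 5, 9⟩ :=
  leafYS_sound T5.ok_pm T5.Ypm.bz_eq (w := 221) (c := ⟨⟨.negSucc 1720, .negSucc 196, .negSucc 61, .ofNat 157, .negSucc 241, .ofNat 113⟩, ⟨.negSucc 29, .negSucc 115, .ofNat 392, .ofNat 72, .negSucc 37, .negSucc 19⟩, ⟨.ofNat 891, .ofNat 91, .ofNat 99, .ofNat 165, .ofNat 674, .ofNat 85⟩, ⟨.negSucc 3809, .ofNat 42, .ofNat 17, .ofNat 336, .negSucc 514, .ofNat 207⟩, ⟨.ofNat 461, .ofNat 291, .ofNat 372, .ofNat 912, .negSucc 400, .negSucc 157⟩, .ofNat 439, .ofNat 26, .ofNat 0, .ofNat 26, .ofNat 1460, .ofNat 0, .ofNat 222, .negSucc 22, .ofNat 0, .ofNat 0, .ofNat 128, .negSucc 5, .ofNat 0, .ofNat 0, .ofNat 514, .ofNat 1785, .ofNat 0, .ofNat 0, .ofNat 0, .ofNat 0, .ofNat 0, .ofNat 0, .ofNat 0, .ofNat 0, .ofNat 0, .ofNat 0, .ofNat 0, .ofNat 0, .ofNat 0, .ofNat 319578287748714617381460532731472280322834432,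 .ofNat 0, .ofNat 0⟩)
    (by decide +kernel)
theorem L02786 : Good (Phi V5.P V5.D 1 (-1)) ⟨3, 5, 2, 0, 2, 3, 2, 0, 4, 4⟩ :=
  leafYS_sound T5.ok_pm T5.Ypm.bz_eq (w := 201) (c := ⟨⟨.negSucc 1848, .negSucc 190, .negSucc 60, .ofNat 359, .negSucc 317, .ofNat 191⟩, ⟨.negSucc 180, .negSucc 149, .ofNat 379, .ofNat 227, .negSucc 63, .negSucc 10⟩, ⟨.ofNat 158, .ofNat 18, .ofNat 19, .ofNat 121, .ofNat 788, .ofNat 129⟩, ⟨.negSucc 3590, .ofNat 54, .negSucc 10, .ofNat 496, .negSucc 562, .ofNat 346⟩, ⟨.ofNat 420, .ofNat 228, .ofNat 371, .ofNat 1662, .negSucc 278, .negSucc 311⟩, .ofNat 464, .negSucc 169, .ofNat 0, .negSucc 169, .ofNat 1821, .ofNat 0, .ofNat 128, .ofNat 28, .negSucc 23, .ofNat 0, .ofNat 142, .ofNat 1, .ofNat 0, .ofNat 0, .ofNat 302, .ofNat 2058, .ofNat 0, .ofNat 0, .ofNat 84588927740843836378040653936852992, .ofNat 0, .ofNat 16306155326532054687079563494629677465600,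 .ofNat 0, .ofNat 3460217788874388900292684532382957568, .ofNat 0, .ofNat 0, .ofNat 0, .ofNat 24865789682498663481786611751540752384, .ofNat 0, .ofNat 3269727243925342806303913101293296549888, .ofNat 0, .ofNat 1186557750207279672437750956027805696, .ofNat 0⟩)
    (by decide +kernel)
theorem L02787 : Good (Phi V5.P V5.D 1 (-1)) ⟨4, 10, 2, 0, 3, 6, 2, 1, 4, 4⟩ :=
  leafYS_sound T5.ok_pm T5.Ypm.bz_eq (w := 219) (c := ⟨⟨.negSucc 2139, .negSucc 150, .negSucc 34, .ofNat 91, .negSucc 305, .ofNat 242⟩, ⟨.negSucc 215, .negSucc 110, .ofNat 385, .ofNat 74, .negSucc 68, .negSucc 6⟩, ⟨.ofNat 964, .ofNat 64, .ofNat 57, .negSucc 8, .ofNat 726, .ofNat 72⟩, ⟨.negSucc 4150, .negSucc 19, .negSucc 17, .ofNat 117, .negSucc 533, .ofNat 478⟩, ⟨.ofNat 226, .ofNat 78, .ofNat 209, .ofNat 637, .negSucc 356, .negSucc 256⟩, .ofNat 409, .negSucc 90, .ofNat 0, .negSucc 90, .ofNat 1235, .ofNat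 0, .ofNat 303, .ofNat 24, .negSucc 25, .ofNat 0, .ofNat 128, .ofNat 1, .ofNat 0, .ofNat 0, .ofNat 301, .ofNat 713, .ofNat 0, .ofNat 0, .ofNat 204938648421115624228848988390495879168, .ofNat 0, .ofNat 0, .ofNat 0, .ofNat 0, .ofNat 0, .ofNat 0, .ofNat 0, .ofNat 0, .ofNat 0, .ofNat 0, .ofNat 68357323378823323164852358718300635847983104, .ofNat 8646647396309589392293430465554240503808, .ofNat 0⟩)
    (by decide +kernel)
theorem L02788 : Good (Phi V5.P V5.D 1 (-1)) ⟨4, 10, 2, 0, 3, 7, 2, 1, 4, 4⟩ :=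
  leafYS_sound T5.ok_pm T5.Ypm.bz_eq (w := 218) (c := ⟨⟨.negSucc 2033, .negSucc 97, .negSucc 46, .ofNat 241, .negSucc 370, .ofNat 233⟩, ⟨.negSucc 153, .negSucc 65, .ofNat 427, .ofNat 148, .negSucc 93, .negSucc 20⟩, ⟨.ofNat 940, .ofNat 63, .ofNat 95, .ofNat 90, .ofNat 691, .ofNat 124⟩, ⟨.negSucc 4026, .ofNat 32, .ofNat 52, .ofNat 347, .negSucc 630, .ofNat 474⟩, ⟨.ofNat 917, .ofNat 167, .ofNat 365, .ofNat 1072, .negSucc 460, .negSucc 377⟩, .ofNat 409, .negSucc 93, .ofNat 0, .negSucc 93, .ofNat 1242, .ofNat 0, .ofNat 164, .ofNat 15, .negSucc 16, .ofNat 0, .ofNat 128, .negSucc 1, .ofNat 0, .ofNat 0, .ofNat 314, .ofNat 530, .ofNat 0, .ofNat 0, .ofNat 207734338450917611467831117391780118528, .ofNat 0, .ofNat 0, .ofNat 0, .ofNat 0, .ofNat 0, .ofNat 0, .ofNat 0, .ofNat 0, .ofNat 0, .ofNat 0, .ofNat 167350542183491213239164092087777140561412096, .ofNat 2136632779405016980682820911556062085120,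 .ofNat 0⟩)
    (by decide +kernel)
theorem L02789 : Good (Phi V5.P V5.D 1 (-1)) ⟨4, 11, 2, 0, 3, 6, 2, 1, 4, 4⟩ :=
  leafYS_sound T5.ok_pm T5.Ypm.bz_eq (w := 222) (c := ⟨⟨.negSucc 2291, .negSucc 149, .ofNat 45, .ofNat 119, .negSucc 369, .ofNat 269⟩, ⟨.negSucc 335, .negSucc 120, .ofNat 426, .ofNat 99, .negSucc 104, .ofNat 12⟩, ⟨.ofNat 1026, .ofNat 87, .ofNat 98, .negSucc 18, .ofNat 757, .ofNat 41⟩, ⟨.negSucc 4150, .ofNat 1, .ofNat 64, .ofNat 103, .negSucc 594, .ofNat 522⟩, ⟨.ofNat 261, .ofNat 144, .ofNat 416, .ofNat 663, .negSucc 354, .negSucc 253⟩, .ofNat 406, .negSucc 155, .ofNat 0, .negSucc 155, .ofNat 1145, .ofNat 0, .ofNat 266, .ofNat 50, .negSucc 32, .ofNat 0, .ofNat 128, .ofNat 1, .ofNat 0, .ofNat 0, .ofNat 339, .ofNat 6391, .ofNat 0, .ofNat 0, .ofNat 1681766269369515530150522477061284560896, .ofNat 0, .ofNat 0, .ofNat 0, .ofNat 92195989056681162323366660826321398005760,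 .ofNat 0, .ofNat 0, .ofNat 0, .ofNat 115517055552359217239351144979455042125824, .ofNat 0, .ofNat 0, .ofNat 70246785112610734839105970374700467801292800, .ofNat 41721016316912248123371049583632120283136, .ofNat 0⟩)
    (by decide +kernel)
theorem L02790 : Good (Phi V5.P V5.D 1 (-1)) ⟨4, 11, 2, 0, 3, 7, 2, 1, 4, 4⟩ :=
  leafYS_sound T5.ok_pm T5.Ypm.bz_eq (w := 219) (c := ⟨⟨.negSucc 2133, .negSucc 128, .negSucc 49, .ofNat 279, .negSucc 405, .ofNat 242⟩, ⟨.negSucc 231, .negSucc 67, .ofNat 436, .ofNat 186, .negSucc 117, .negSucc 3⟩, ⟨.ofNat 1022, .ofNat 27, .ofNat 15, .ofNat 85, .ofNat 672, .ofNat 106⟩, ⟨.negSucc 3981, .negSucc 29, .ofNat 80, .ofNat 303, .negSucc 649, .ofNat 483⟩, ⟨.ofNat 1048, .ofNat 70, .ofNat 247, .ofNat 1150, .negSucc 444, .negSucc 372⟩, .ofNat 406, .negSucc 154, .ofNat 0, .negSucc 154, .ofNat 1148, .ofNat 0, .ofNat 248, .ofNat 35, .negSucc 16,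 .ofNat 0, .ofNat 128, .negSucc 1, .ofNat 0, .ofNat 0, .ofNat 320, .ofNat 660, .ofNat 0, .ofNat 0, .ofNat 372615837377674332911905610097150132224, .ofNat 0, .ofNat 0, .ofNat 0, .ofNat 0, .ofNat 0, .ofNat 0, .ofNat 0, .ofNat 22803427275731421077604984793429742452736, .ofNat 0, .ofNat 0, .ofNat 147934203602528375493090209310136587035607040, .ofNat 18420283299390118631631615293571437953024, .ofNat 0⟩)
    (by decide +kernel)
theorem L02791 : Good (Phi V5.P V5.D 1 (-1)) ⟨2, 2, 2, 0, 3, 6, 2, 0, 4, 5⟩ :=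
  leafYS_sound T5.ok_pm T5.Ypm.bz_eq (w := 212) (c := ⟨⟨.negSucc 1536, .negSucc 424, .negSucc 35, .ofNat 100, .negSucc 175, .ofNat 181⟩, ⟨.negSucc 63, .negSucc 327, .ofNat 327, .ofNat 78, .negSucc 2, .ofNat 6⟩, ⟨.ofNat 304, .ofNat 35, .ofNat 63, .ofNat 10, .ofNat 717, .ofNat 89⟩, ⟨.negSucc 3408, .ofNat 122, .negSucc 38, .ofNat 125, .negSucc 329, .ofNat 324⟩, ⟨.negSucc 92, .ofNat 358, .ofNat 233, .ofNat 515, .negSucc 75, .negSucc 148⟩, .ofNat 414, .negSucc 30, .ofNat 0, .negSucc 30, .ofNat 1270, .ofNat 0, .ofNat 206, .negSucc 4, .negSucc 8, .ofNat 0, .ofNat 128, .ofNat 3, .ofNat 0, .ofNat 0, .ofNat 455, .ofNat 3494, .ofNat 0, .ofNat 0, .ofNat 0, .ofNat 0, .ofNat 0, .ofNat 0, .ofNat 0, .ofNat 0, .ofNat 0, .ofNat 0, .ofNat 669654841353176672521031770559370806427648, .ofNat 0, .ofNat 61626021420011835604429310270299282404802560, .ofNat 1415964239981008042125438225223278879834112,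 .ofNat 31072581864584343399936239887186474827776, .ofNat 0⟩)
    (by decide +kernel)
theorem L02792 : Good (Phi V5.P V5.D 1 (-1)) ⟨2, 2, 2, 0, 3, 7, 2, 0, 4, 5⟩ :=
  leafYS_sound T5.ok_pm T5.Ypm.bz_eq (w := 211) (c := ⟨⟨.negSucc 1431, .negSucc 295, .negSucc 68, .ofNat 187, .negSucc 223, .ofNat 147⟩, ⟨.negSucc 21, .negSucc 200, .ofNat 353, .ofNat 104, .negSucc 29, .negSucc 13⟩, ⟨.ofNat 308, .ofNat 24, .ofNat 56, .ofNat 214, .ofNat 733, .ofNat 69⟩, ⟨.negSucc 3178, .ofNat 122, .ofNat 22, .ofNat 235, .negSucc 428, .ofNat 317⟩, ⟨.ofNat 495, .ofNat 625, .ofNat 479, .ofNat 890, .negSucc 253, .negSucc 281⟩, .ofNat 313, .negSucc 11, .ofNat 0, .negSucc 11, .ofNat 637, .ofNat 0, .ofNat 128, .negSucc 14, .ofNat 6, .ofNat 0, .ofNat 138, .negSucc 4, .ofNat 0, .ofNat 0, .ofNat 331, .ofNat 1321, .ofNat 0, .ofNat 0, .ofNat 0, .ofNat 0, .ofNat 0, .ofNat 0, .ofNat 0, .ofNat 0,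 .ofNat 0, .ofNat 1320925278766425773534614947764876987072512, .ofNat 383763407390791861439253848168526585528320, .ofNat 0, .ofNat 19916562552489788491519435706247319857922048, .ofNat 1219855828259606122899860213211703720017920, .ofNat 32914441962768163492256026331571497730048, .ofNat 0⟩)
    (by decide +kernel)
theorem L02793 : Good (Phi V5.P V5.D 1 (-1)) ⟨2, 2, 2, 0, 4, 12, 2, 1, 4, 5⟩ :=
  leafYS_sound T5.ok_pm T5.Ypm.bz_eq (w := 225) (c := ⟨⟨.negSucc 1674, .negSucc 511, .negSucc 12, .ofNat 11, .negSucc 207, .ofNat 203⟩, ⟨.negSucc 39, .negSucc 370, .ofNat 342, .ofNat 8, .negSucc 40, .ofNat 6⟩, ⟨.ofNat 956, .ofNat 149, .ofNat 94, .ofNat 9, .ofNat 712, .ofNat 101⟩, ⟨.negSucc 3715, .ofNat 14, .negSucc 40, .ofNat 41, .negSucc 376, .ofNat 385⟩, ⟨.negSucc 142, .ofNat 246, .ofNat 192, .ofNat 232, .negSucc 215, .negSucc 119⟩, .ofNat 317, .negSucc 8, .ofNat 0, .negSucc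 8, .ofNat 647, .ofNat 0, .ofNat 239, .negSucc 7, .negSucc 5, .ofNat 0, .ofNat 128, .ofNat 1, .ofNat 0, .ofNat 0, .ofNat 423, .ofNat 975, .ofNat 0, .ofNat 0, .ofNat 56560872479240658348635581315769915685208064, .ofNat 0, .ofNat 0, .ofNat 0, .ofNat 0, .ofNat 0, .ofNat 0, .ofNat 0, .ofNat 0, .ofNat 0, .ofNat 0, .ofNat 5727311414522656011354938257343614308608638976, .ofNat 598271498276303775048370851022665558236594176, .ofNat 0⟩)
    (by decide +kernel)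
theorem L02794 : Good (Phi V5.P V5.D 1 (-1)) ⟨2, 2, 2, 0, 4, 13, 2, 1, 4, 5⟩ :=
  leafYS_sound T5.ok_pm T5.Ypm.bz_eq (w := 225) (c := ⟨⟨.negSucc 1664, .negSucc 476, .negSucc 30, .ofNat 61, .negSucc 222, .ofNat 225⟩, ⟨.negSucc 34, .negSucc 334, .ofNat 356, .ofNat 33, .negSucc 53, .negSucc 10⟩, ⟨.ofNat 930, .ofNat 176, .ofNat 115, .ofNat 25, .ofNat 716, .ofNat 101⟩, ⟨.negSucc 3674, .ofNat 34, .negSucc 34, .ofNat 81, .negSucc 393, .ofNat 403⟩, ⟨.ofNat 67, .ofNat 344, .ofNat 264, .ofNat 303, .negSucc 278, .negSucc 213⟩, .ofNat 317, .negSucc 14, .ofNat 0, .negSucc 14, .ofNat 652, .ofNat 0, .ofNat 203, .negSucc 7, .negSucc 4, .ofNat 0, .ofNat 128, .ofNat 0, .ofNat 0, .ofNat 0, .ofNat 353, .ofNat 814, .ofNat 0, .ofNat 0, .ofNat 71078561688736240205874419846828048288579584, .ofNat 0, .ofNat 0, .ofNat 0, .ofNat 0, .ofNat 0, .ofNat 0, .ofNat 0, .ofNat 0, .ofNat 0, .ofNat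 0, .ofNat 6498178063907641530554592841477421131318165504, .ofNat 277987160001731301270074104416104842509942784, .ofNat 0⟩)
    (by decide +kernel)
theorem L02795 : Good (Phi V5.P V5.D 1 (-1)) ⟨2, 2, 2, 0, 3, 7, 2, 1, 4, 5⟩ :=
  leafYS_sound T5.ok_pm T5.Ypm.bz_eq (w := 211) (c := ⟨⟨.negSucc 1616, .negSucc 409, .negSucc 45, .ofNat 166, .negSucc 258, .ofNat 182⟩, ⟨.negSucc 23, .negSucc 275, .ofNat 366, .ofNat 92, .negSucc 67, .negSucc 34⟩, ⟨.ofNat 964, .ofNat 172, .ofNat 113, .ofNat 131, .ofNat 689, .ofNat 124⟩, ⟨.negSucc 3610, .ofNat 78, .ofNat 17, .ofNat 204, .negSucc 421, .ofNat 359⟩, ⟨.ofNat 320, .ofNat 463, .ofNat 348, .ofNat 743, .negSucc 228, .negSucc 320⟩, .ofNat 421, .negSucc 41, .ofNat 0, .negSucc 41, .ofNat 1318, .ofNat 0, .ofNat 210, .negSucc 1, .negSucc 2, .ofNat 0, .ofNat 128, .negSucc 0, .ofNat 0, .ofNat 0, .ofNat 271, .ofNat 1098, .ofNat 0, .ofNat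 42379519404163685743818678118743319511040, .ofNat 5713881404102272953900350857352704950272, .ofNat 0, .ofNat 0, .ofNat 0, .ofNat 0, .ofNat 0, .ofNat 0, .ofNat 0, .ofNat 722109972359962712695099560344418087075840, .ofNat 0, .ofNat 0, .ofNat 2019833105877636360543947214659950947074048, .ofNat 0, .ofNat 0⟩)
    (by decide +kernel)
theorem L02796 : Good (Phi V5.P V5.D 1 (-1)) ⟨2, 3, 2, 0, 2, 3, 1, 0, 3, 2⟩ :=
  out_sound (S := T5.ds_pm) T5.ok_pm (w := 37) (j := 3) (by decide +kernel)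

end Crest.Agent.R097C5.N5pm
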