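import Crest.Agent.R097.KS3
import Crest.Agent.R097.T5Ypm

/-!
# Row 97, box cover in dimension n = 5 (generated)
-/

set_option autoImplicit false
set_option Elab.async false
set_option maxHeartbeats 0
set_option maxRecDepth 100000

open Crest.Agent.R097 Crest.Agent.R097.KA


namespace Crest.Agent.R097C5.N5pm

theorem L02797 : Good (Phi V5.P V5.D 1 (-1)) ⟨3, 4, 2, 0, 2, 2, 1, 0, 4, 6⟩ :=
  leafYS_sound T5.ok_pm T5.Ypm.bz_eq (w := 198) (c := ⟨⟨.negSucc 1383, .negSucc 260, .ofNat 5, .negSucc 35, .negSucc 216, .ofNat 135⟩, ⟨.negSucc 30, .negSucc 165, .ofNat 275, .ofNat 6, .negSucc 22, .negSucc 2⟩, ⟨.ofNat 468, .ofNat 136, .ofNat 177, .ofNat 32, .ofNat 1194, .ofNat 153⟩, ⟨.negSucc 3075, .negSucc 21, .negSucc 47, .negSucc 75, .negSucc 461, .ofNat 276⟩, ⟨.negSucc 34, .ofNat 30, .ofNat 16, .ofNat 31, .negSucc 392, .negSucc 7⟩, .ofNat 439, .ofNat 26, .ofNat 0, .ofNat 26, .ofNat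 1460, .ofNat 0, .ofNat 160, .negSucc 16, .negSucc 12, .ofNat 0, .ofNat 128, .ofNat 4, .ofNat 0, .ofNat 0, .ofNat 951, .ofNat 1751, .ofNat 1444039756914184118730135980679050035200, .ofNat 0, .ofNat 0, .ofNat 0, .ofNat 0, .ofNat 674376032057090079623941792773663883264, .ofNat 0, .ofNat 0, .ofNat 0, .ofNat 0, .ofNat 0, .ofNat 0, .ofNat 97260063641231374928120991041110801383424, .ofNat 8556552940584818037725312732911485583360, .ofNat 0, .ofNat 0⟩)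
    (by decide +kernel)
theorem L02798 : Good (Phi V5.P V5.D 1 (-1)) ⟨3, 5, 2, 0, 2, 2, 1, 0, 4, 6⟩ :=
  leafYS_sound T5.ok_pm T5.Ypm.bz_eq (w := 198) (c := ⟨⟨.negSucc 1531, .negSucc 309, .ofNat 8, .negSucc 25, .negSucc 372, .ofNat 164⟩, ⟨.negSucc 141, .negSucc 271, .ofNat 276, .ofNat 3, .negSucc 97, .ofNat 16⟩, ⟨.ofNat 591, .ofNat 120, .ofNat 196, .negSucc 104, .ofNat 1289, .ofNat 101⟩, ⟨.negSucc 3002, .negSucc 17, .negSucc 43, .negSucc 52, .negSucc 609, .ofNat 298⟩, ⟨.negSucc 3, .ofNat 28, .ofNat 14, .ofNat 65, .negSucc 433, .negSucc 36⟩, .ofNat 394, .negSucc 74, .ofNat 0, .negSucc 74, .ofNat 1033, .ofNat 0, .ofNat 176, .ofNat 26, .negSucc 13, .ofNat 0, .ofNat 128, .ofNat 6, .ofNat 0, .ofNat 0, .ofNat 1014, .ofNat 2466, .ofNat 1827253381845877101912606578700466520064, .ofNat 0, .ofNat 13434466978115799894927782692519936, .ofNat 0, .ofNat 13793167423810978648152546735782763692032,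 .ofNat 1334773616531729409501387595475515867136, .ofNat 215082722716551414953925026953297920, .ofNat 0, .ofNat 0, .ofNat 0, .ofNat 0, .ofNat 0, .ofNat 92389414273649229391648783620587816747008, .ofNat 9364093116377468185352493886161922555904, .ofNat 154249887573912991236577366244327424, .ofNat 0⟩)
    (by decide +kernel)
theorem L02799 : Good (Phi V5.P V5.D 1 (-1)) ⟨2, 2, 2, 0, 2, 3, 1, 0, 4, 6⟩ :=
  leafYS_sound T5.ok_pm T5.Ypm.bz_eq (w := 192) (c := ⟨⟨.negSucc 1374, .negSucc 458, .negSucc 8, .ofNat 100, .negSucc 289, .ofNat 192⟩, ⟨.negSucc 28, .negSucc 342, .ofNat 302, .ofNat 60, .negSucc 25, .ofNat 32⟩, ⟨.ofNat 361, .ofNat 16, .ofNat 143, .negSucc 57, .ofNat 1479, .ofNat 86⟩, ⟨.negSucc 3089, .ofNat 43, .negSucc 44, .ofNat 204, .negSucc 552, .ofNat 352⟩, ⟨.negSucc 23, .ofNat 203, .ofNat 150, .ofNat 681, .negSucc 363, .negSucc 43⟩, .ofNat 170, .negSucc 1, .ofNat 0, .negSucc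 1, .ofNat 234, .ofNat 0, .ofNat 128, .negSucc 15, .ofNat 2, .ofNat 0, .ofNat 137, .ofNat 1, .ofNat 0, .ofNat 0, .ofNat 336, .ofNat 746, .ofNat 35396224348228447537008372331715756032, .ofNat 2790359837090637452270462580123762688, .ofNat 27671485171000239661858845049749504, .ofNat 0, .ofNat 31170508674593845610020524117763031040, .ofNat 80957795870849180864057952665434324992, .ofNat 0, .ofNat 0, .ofNat 734157985788233532885628734454689169408, .ofNat 203724958790042892986796727109511282688, .ofNat 207170551100185786055676912795123712, .ofNat 0, .ofNat 1203293229689210296670333597320145272832, .ofNat 214710720827362705753165620464771399680, .ofNat 297550515838185929422170462139449344, .ofNat 0⟩)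
    (by decide +kernel)
theorem L02800 : Good (Phi V5.P V5.D 1 (-1)) ⟨2, 3, 2, 0, 1, 1, 1, 0, 4, 6⟩ :=
  out_sound (S := T5.ds_pm) T5.ok_pm (w := 37) (j := 3) (by decide +kernel)
theorem L02801 : Good (Phi V5.P V5.D 1 (-1)) ⟨2, 2, 2, 0, 2, 2, 2, 0, 4, 7⟩ :=
  out_sound (S := T5.ds_pm) T5.ok_pm (w := 24) (j := 1) (by decide +kernel)
theorem L02802 : Good (Phi V5.P V5.D 1 (-1)) ⟨2, 2, 2, 0, 3, 4, 3, 2, 4, 7⟩ :=
  out_sound (S := T5.ds_pm) T5.ok_pm (w := 27) (j := 1) (by decide +kernel)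
theorem L02803 : Good (Phi V5.P V5.D 1 (-1)) ⟨2, 2, 2, 0, 4, 8, 3, 3, 5, 14⟩ :=
  out_sound (S := T5.ds_pm) T5.ok_pm (w := 31) (j := 1) (by decide +kernel)
theorem L02804 : Good (Phi V5.P V5.D 1 (-1)) ⟨2, 2, 2, 0, 4, 9, 4, 6, 5, 14⟩ :=
  out_sound (S := T5.ds_pm) T5.ok_pm (w := 32) (j := 1) (by decide +kernel)
theorem L02805 : Good (Phi V5.P V5.D 1 (-1)) ⟨2, 2, 2, 0, 5, 18, 4, 7, 6, 28⟩ :=
  leafYS_sound T5.ok_pm T5.Ypm.bz_eq (w := 267) (c := ⟨⟨.negSucc 1464, .negSucc 556, .ofNat 38, .negSucc 0, .negSucc 24, .ofNat 1⟩, ⟨.negSucc 14, .negSucc 424, .ofNat 255, .ofNat 0, .negSucc 16, .ofNat 0⟩, ⟨.ofNat 1817, .ofNat 380, .ofNat 561, .ofNat 1, .negSucc 105, .negSucc 0⟩, ⟨.negSucc 3232, .negSucc 80, .negSucc 13, .negSucc 0, .negSucc 56, .ofNat 2⟩, ⟨.negSucc 406, .negSucc 52, .negSucc 42, .ofNat 0, .negSucc 12, .ofNat 0⟩, .ofNat 169, .negSucc 3, .ofNat 0, .negSucc 3, .ofNat 233,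 .ofNat 0, .ofNat 128, .negSucc 1, .ofNat 11, .ofNat 0, .ofNat 154, .negSucc 17, .ofNat 0, .ofNat 0, .ofNat 466, .ofNat 982436, .ofNat 0, .ofNat 0, .ofNat 0, .ofNat 0, .ofNat 38076804008048212669680663292678286465906053387787436032, .ofNat 117729556398538586301823470808122456410882435385917440, .ofNat 18166691516547004845086474728774688840221542991987212288, .ofNat 0, .ofNat 8060767599774857869853647760161114323502331446037577728, .ofNat 6307671372237629748060446823756290290278951689388032, .ofNat 48584887386475647480596770838466445909204260499792855040, .ofNat 0, .ofNat 51613607412392781457083848606017442349446882463200575488, .ofNat 96319703925879959091680567592529141037145392370679808, .ofNat 14375497137702809275796733464250257691653157708617482240, .ofNat 0⟩)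
    (by decide +kernel)
theorem L02806 : Good (Phi V5.P V5.D 1 (-1)) ⟨2, 2, 2, 0, 5, 19, 6, 28, 7, 56⟩ :=
  out_sound (S := T5.ds_pm) T5.ok_pm (w := 40) (j := 1) (by decide +kernel)
theorem L02807 : Good (Phi V5.P V5.D 1 (-1)) ⟨2, 2, 2, 0, 6, 38, 6, 29, 7, 56⟩ :=
  out_sound (S := T5.ds_pm) T5.ok_pm (w := 42) (j := 1) (by decide +kernel)
theorem L02808 : Good (Phi V5.P V5.D 1 (-1)) ⟨2, 2, 2, 0, 6, 39, 6, 29, 7, 56⟩ :=
  out_sound (S := T5.ds_pm) T5.ok_pm (w := 52) (j := 2) (by decide +kernel)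
theorem L02809 : Good (Phi V5.P V5.D 1 (-1)) ⟨2, 2, 2, 0, 5, 19, 5, 14, 7, 57⟩ :=
  out_sound (S := T5.ds_pm) T5.ok_pm (w := 39) (j := 1) (by decide +kernel)
theorem L02810 : Good (Phi V5.P V5.D 1 (-1)) ⟨2, 2, 2, 0, 7, 76, 6, 30, 7, 56⟩ :=
  out_sound (S := T5.ds_pm) T5.ok_pm (w := 44) (j := 1) (by decide +kernel)
theorem L02811 : Good (Phi V5.P V5.D 1 (-1)) ⟨2, 2, 2, 0, 8, 152, 8, 124, 9, 224⟩ :=
  out_sound (S := T5.ds_pm) T5.ok_pm (w := 52) (j := 1) (by decide +kernel)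
theorem L02812 : Good (Phi V5.P V5.D 1 (-1)) ⟨2, 2, 2, 0, 8, 152, 9, 250, 10, 448⟩ :=
  out_sound (S := T5.ds_pm) T5.ok_pm (w := 55) (j := 1) (by decide +kernel)
theorem L02813 : Good (Phi V5.P V5.D 1 (-1)) ⟨2, 2, 2, 0, 9, 304, 9, 251, 10, 448⟩ :=
  out_sound (S := T5.ds_pm) T5.ok_pm (w := 57) (j := 1) (by decide +kernel)
theorem L02814 : Good (Phi V5.P V5.D 1 (-1)) ⟨2, 2, 2, 0, 9, 305, 9, 251, 10, 448⟩ :=
  out_sound (S := T5.ds_pm) T5.ok_pm (w := 70) (j := 2) (by decide +kernel)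
theorem L02815 : Good (Phi V5.P V5.D 1 (-1)) ⟨2, 2, 2, 0, 8, 152, 8, 125, 10, 449⟩ :=
  out_sound (S := T5.ds_pm) T5.ok_pm (w := 54) (j := 1) (by decide +kernel)
theorem L02816 : Good (Phi V5.P V5.D 1 (-1)) ⟨2, 2, 2, 0, 8, 152, 7, 62, 9, 225⟩ :=
  out_sound (S := T5.ds_pm) T5.ok_pm (w := 51) (j := 1) (by decide +kernel)
theorem L02817 : Good (Phi V5.P V5.D 1 (-1)) ⟨2, 2, 2, 0, 10, 608, 9, 252, 10, 448⟩ :=
  out_sound (S := T5.ds_pm) T5.ok_pm (w := 59) (j := 1) (by decide +kernel)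
theorem L02818 : Good (Phi V5.P V5.D 1 (-1)) ⟨2, 2, 2, 0, 11, 1216, 10, 506, 11, 896⟩ :=
  out_sound (S := T5.ds_pm) T5.ok_pm (w := 64) (j := 1) (by decide +kernel)
theorem L02819 : Good (Phi V5.P V5.D 1 (-1)) ⟨2, 2, 2, 0, 11, 1216, 10, 507, 11, 896⟩ :=
  out_sound (S := T5.ds_pm) T5.ok_pm (w := 78) (j := 2) (by decide +kernel)
theorem L02820 : Good (Phi V5.P V5.D 1 (-1)) ⟨2, 2, 2, 0, 11, 1217, 9, 253, 11, 896⟩ :=
  out_sound (S := T5.ds_pm) T5.ok_pm (w := 76) (j := 2) (by decide +kernel)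
theorem L02821 : Good (Phi V5.P V5.D 1 (-1)) ⟨2, 2, 2, 0, 10, 608, 9, 253, 11, 897⟩ :=
  out_sound (S := T5.ds_pm) T5.ok_pm (w := 74) (j := 2) (by decide +kernel)
theorem L02822 : Good (Phi V5.P V5.D 1 (-1)) ⟨2, 2, 2, 0, 10, 609, 8, 126, 10, 448⟩ :=
  out_sound (S := T5.ds_pm) T5.ok_pm (w := 70) (j := 2) (by decide +kernel)
theorem L02823 : Good (Phi V5.P V5.D 1 (-1)) ⟨2, 2, 2, 0, 9, 304, 8, 126, 10, 449⟩ :=
  out_sound (S := T5.ds_pm) T5.ok_pm (w := 56) (j := 1) (by decide +kernel)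
theorem L02824 : Good (Phi V5.P V5.D 1 (-1)) ⟨2, 2, 2, 0, 9, 304, 8, 127, 9, 224⟩ :=
  out_sound (S := T5.ds_pm) T5.ok_pm (w := 66) (j := 2) (by decide +kernel)
theorem L02825 : Good (Phi V5.P V5.D 1 (-1)) ⟨2, 2, 2, 0, 9, 305, 7, 63, 9, 224⟩ :=
  out_sound (S := T5.ds_pm) T5.ok_pm (w := 64) (j := 2) (by decide +kernel)
theorem L02826 : Good (Phi V5.P V5.D 1 (-1)) ⟨2, 2, 2, 0, 8, 152, 7, 63, 9, 225⟩ :=
  out_sound (S := T5.ds_pm) T5.ok_pm (w := 62) (j := 2) (by decide +kernel)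
theorem L02827 : Good (Phi V5.P V5.D 1 (-1)) ⟨2, 2, 2, 0, 8, 153, 6, 31, 8, 112⟩ :=
  out_sound (S := T5.ds_pm) T5.ok_pm (w := 58) (j := 2) (by decide +kernel)
theorem L02828 : Good (Phi V5.P V5.D 1 (-1)) ⟨2, 2, 2, 0, 7, 76, 6, 31, 8, 113⟩ :=
  out_sound (S := T5.ds_pm) T5.ok_pm (w := 56) (j := 2) (by decide +kernel)
theorem L02829 : Good (Phi V5.P V5.D 1 (-1)) ⟨2, 2, 2, 0, 8, 154, 6, 30, 8, 112⟩ :=
  out_sound (S := T5.ds_pm) T5.ok_pm (w := 48) (j := 1) (by decide +kernel)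
theorem L02830 : Good (Phi V5.P V5.D 1 (-1)) ⟨2, 2, 2, 0, 8, 155, 6, 30, 8, 112⟩ :=
  out_sound (S := T5.ds_pm) T5.ok_pm (w := 58) (j := 2) (by decide +kernel)
theorem L02831 : Good (Phi V5.P V5.D 1 (-1)) ⟨2, 2, 2, 0, 7, 77, 6, 30, 8, 113⟩ :=
  out_sound (S := T5.ds_pm) T5.ok_pm (w := 46) (j := 1) (by decide +kernel)
theorem L02832 : Good (Phi V5.P V5.D 1 (-1)) ⟨2, 2, 2, 0, 7, 77, 6, 31, 7, 56⟩ :=
  out_sound (S := T5.ds_pm) T5.ok_pm (w := 54) (j := 2) (by decide +kernel)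
theorem L02833 : Good (Phi V5.P V5.D 1 (-1)) ⟨2, 2, 2, 0, 6, 38, 5, 15, 7, 57⟩ :=
  out_sound (S := T5.ds_pm) T5.ok_pm (w := 50) (j := 2) (by decide +kernel)
theorem L02834 : Good (Phi V5.P V5.D 1 (-1)) ⟨2, 2, 2, 0, 6, 39, 5, 15, 6, 28⟩ :=
  out_sound (S := T5.ds_pm) T5.ok_pm (w := 48) (j := 2) (by decide +kernel)
theorem L02835 : Good (Phi V5.P V5.D 1 (-1)) ⟨2, 2, 2, 0, 4, 9, 4, 7, 6, 29⟩ :=
  out_sound (S := T5.ds_pm) T5.ok_pm (w := 34) (j := 1) (by decide +kernel)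
theorem L02836 : Good (Phi V5.P V5.D 1 (-1)) ⟨2, 2, 2, 0, 3, 4, 3, 3, 5, 15⟩ :=
  out_sound (S := T5.ds_pm) T5.ok_pm (w := 29) (j := 1) (by decide +kernel)
theorem L02837 : Good (Phi V5.P V5.D 1 (-1)) ⟨2, 2, 2, 0, 4, 10, 3, 2, 5, 14⟩ :=
  out_sound (S := T5.ds_pm) T5.ok_pm (w := 31) (j := 1) (by decide +kernel)
theorem L02838 : Good (Phi V5.P V5.D 1 (-1)) ⟨2, 2, 2, 0, 5, 20, 5, 12, 6, 28⟩ :=
  out_sound (S := T5.ds_pm) T5.ok_pm (w := 37) (j := 1) (by decide +kernel)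
theorem L02839 : Good (Phi V5.P V5.D 1 (-1)) ⟨2, 2, 2, 0, 5, 20, 5, 13, 6, 28⟩ :=
  out_sound (S := T5.ds_pm) T5.ok_pm (w := 46) (j := 2) (by decide +kernel)
theorem L02840 : Good (Phi V5.P V5.D 1 (-1)) ⟨2, 2, 2, 0, 5, 20, 4, 7, 6, 28⟩ :=
  out_sound (S := T5.ds_pm) T5.ok_pm (w := 44) (j := 2) (by decide +kernel)
theorem L02841 : Good (Phi V5.P V5.D 1 (-1)) ⟨2, 2, 2, 0, 5, 20, 3, 3, 6, 29⟩ :=
  out_sound (S := T5.ds_pm) T5.ok_pm (w := 42) (j := 2) (by decide +kernel)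
theorem L02842 : Good (Phi V5.P V5.D 1 (-1)) ⟨2, 2, 2, 0, 5, 21, 3, 3, 5, 14⟩ :=
  out_sound (S := T5.ds_pm) T5.ok_pm (w := 40) (j := 2) (by decide +kernel)
theorem L02843 : Good (Phi V5.P V5.D 1 (-1)) ⟨2, 2, 2, 0, 4, 10, 2, 1, 5, 15⟩ :=
  out_sound (S := T5.ds_pm) T5.ok_pm (w := 36) (j := 2) (by decide +kernel)
theorem L02844 : Good (Phi V5.P V5.D 1 (-1)) ⟨2, 2, 2, 0, 4, 11, 2, 1, 4, 7⟩ :=
  out_sound (S := T5.ds_pm) T5.ok_pm (w := 34) (j := 2) (by decide +kernel)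
theorem L02845 : Good (Phi V5.P V5.D 1 (-1)) ⟨2, 2, 2, 0, 2, 3, 1, 0, 4, 7⟩ :=
  out_sound (S := T5.ds_pm) T5.ok_pm (w := 28) (j := 2) (by decide +kernel)
theorem L02846 : Good (Phi V5.P V5.D 1 (-1)) ⟨2, 3, 2, 0, 1, 1, 1, 0, 4, 7⟩ :=
  out_sound (S := T5.ds_pm) T5.ok_pm (w := 37) (j := 3) (by decide +kernel)
theorem L02847 : Good (Phi V5.P V5.D 1 (-1)) ⟨1, 1, 2, 0, 3, 4, 1, 0, 3, 4⟩ :=
  out_sound (S := T5.ds_pm) T5.ok_pm (w := 23) (j := 1) (by decide +kernel)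
theorem L02848 : Good (Phi V5.P V5.D 1 (-1)) ⟨1, 1, 2, 0, 3, 5, 1, 0, 3, 4⟩ :=
  out_sound (S := T5.ds_pm) T5.ok_pm (w := 28) (j := 2) (by decide +kernel)
theorem L02849 : Good (Phi V5.P V5.D 1 (-1)) ⟨1, 1, 2, 0, 2, 2, 1, 0, 3, 5⟩ :=
  out_sound (S := T5.ds_pm) T5.ok_pm (w := 21) (j := 1) (by decide +kernel)
theorem L02850 : Good (Phi V5.P V5.D 1 (-1)) ⟨1, 1, 2, 0, 2, 2, 1, 0, 2, 3⟩ :=
  out_sound (S := T5.ds_pm) T5.ok_pm (w := 19) (j := 1) (by decide +kernel)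
theorem L02851 : Good (Phi V5.P V5.D 1 (-1)) ⟨1, 1, 2, 0, 2, 3, 1, 0, 1, 1⟩ :=
  out_sound (S := T5.ds_pm) T5.ok_pm (w := 22) (j := 2) (by decide +kernel)
theorem L02852 : Good (Phi V5.P V5.D 1 (-1)) ⟨2, 2, 2, 1, 2, 2, 4, 0, 4, 0⟩ :=
  leafYS_sound T5.ok_pm T5.Ypm.bz_eq (w := 206) (c := ⟨⟨.ofNat 1817, .ofNat 440, .ofNat 101, .negSucc 31, .ofNat 124, .negSucc 2092⟩, ⟨.negSucc 291, .ofNat 229, .negSucc 110, .ofNat 224, .negSucc 15, .ofNat 200⟩, ⟨.negSucc 1129, .negSucc 584, .negSucc 186, .negSucc 932, .ofNat 70, .ofNat 408⟩, ⟨.ofNat 3911, .ofNat 241, .ofNat 348, .ofNat 200, .ofNat 251, .negSucc 4445⟩, ⟨.negSucc 47, .negSucc 27, .ofNat 189, .ofNat 2164, .ofNat 6, .negSucc 782⟩, .ofNat 332, .ofNat 56, .ofNat 0, .ofNat 56, .ofNat 635, .ofNat 0, .ofNat 160, .negSucc 92, .negSucc 45, .ofNat 0, .ofNat 128, .ofNat 15, .ofNat 0, .ofNat 0, .ofNat 152, .ofNat 3900, .ofNat 0, .ofNat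 0, .ofNat 0, .ofNat 0, .ofNat 0, .ofNat 0, .ofNat 623402670085223263011078760287004786688, .ofNat 0, .ofNat 0, .ofNat 0, .ofNat 643596110123579080770420624730953351168, .ofNat 0, .ofNat 31606573492567519402586149575839541362688, .ofNat 0, .ofNat 267305778104630560484054785879443505152, .ofNat 0⟩)
    (by decide +kernel)
theorem L02853 : Good (Phi V5.P V5.D 1 (-1)) ⟨2, 2, 2, 1, 2, 2, 4, 0, 4, 1⟩ :=
  leafYS_sound T5.ok_pm T5.Ypm.bz_eq (w := 206) (c := ⟨⟨.negSucc 124, .negSucc 348, .negSucc 68, .negSucc 260, .ofNat 78, .negSucc 1294⟩, ⟨.negSucc 25, .negSucc 129, .ofNat 230, .ofNat 227, .negSucc 63, .ofNat 204⟩, ⟨.negSucc 800, .negSucc 256, .negSucc 108, .negSucc 1033, .ofNat 234, .ofNat 809⟩, ⟨.negSucc 528, .ofNat 4, .ofNat 56, .negSucc 255, .ofNat 103, .negSucc 2667⟩, ⟨.negSucc 598, .ofNat 273, .ofNat 359, .ofNat 1850, .negSucc 214, .ofNat 2⟩, .ofNat 460, .ofNat 160, .ofNat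 0, .ofNat 160, .ofNat 1270, .ofNat 0, .ofNat 219, .negSucc 119, .negSucc 61, .ofNat 0, .ofNat 128, .ofNat 21, .ofNat 0, .ofNat 0, .ofNat 250, .ofNat 6891, .ofNat 82554538416699040776514892947222029139968, .ofNat 0, .ofNat 37267933377410689912335615688349581312, .ofNat 0, .ofNat 0, .ofNat 0, .ofNat 1755391513300125454234689114619651293184, .ofNat 0, .ofNat 0, .ofNat 0, .ofNat 2063807213348101896057566097354407280640, .ofNat 0, .ofNat 0, .ofNat 0, .ofNat 0, .ofNat 0⟩)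
    (by decide +kernel)
theorem L02854 : Good (Phi V5.P V5.D 1 (-1)) ⟨3, 4, 2, 1, 3, 6, 4, 0, 4, 0⟩ :=
  leafYS_sound T5.ok_pm T5.Ypm.bz_eq (w := 224) (c := ⟨⟨.ofNat 1606, .ofNat 209, .negSucc 107, .ofNat 102, .ofNat 172, .negSucc 1893⟩, ⟨.negSucc 195, .ofNat 320, .ofNat 88, .ofNat 266, .negSucc 57, .ofNat 254⟩, ⟨.negSucc 2076, .negSucc 442, .ofNat 33, .negSucc 267, .ofNat 174, .ofNat 179⟩, ⟨.ofNat 3636, .ofNat 87, .ofNat 816, .ofNat 688, .ofNat 265, .negSucc 4063⟩, ⟨.ofNat 1946, .ofNat 471, .ofNat 1522, .ofNat 2794, .negSucc 450, .negSucc 676⟩, .ofNat 334, .ofNat 61, .ofNat 0, .ofNat 61, .ofNat 634, .ofNat 0, .ofNat 199, .negSucc 99, .negSucc 144, .ofNat 0, .ofNat 128, .ofNat 30, .ofNat 0, .ofNat 0, .ofNat 321, .ofNat 2851, .ofNat 0, .ofNat 0, .ofNat 0, .ofNat 0, .ofNat 0, .ofNat 0, .ofNat 1080361639172912648813316614663792066822144, .ofNat 0, .ofNat 0, .ofNat 0, .ofNat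 0, .ofNat 0, .ofNat 0, .ofNat 0, .ofNat 0, .ofNat 0⟩)
    (by decide +kernel)
theorem L02855 : Good (Phi V5.P V5.D 1 (-1)) ⟨3, 4, 3, 2, 3, 7, 4, 0, 4, 0⟩ :=
  leafYS_sound T5.ok_pm T5.Ypm.bz_eq (w := 227) (c := ⟨⟨.ofNat 845, .ofNat 792, .ofNat 137, .negSucc 761, .ofNat 156, .negSucc 1114⟩, ⟨.ofNat 150, .ofNat 281, .ofNat 44, .ofNat 182, .negSucc 109, .ofNat 243⟩, ⟨.negSucc 1109, .negSucc 1149, .negSucc 395, .ofNat 1577, .negSucc 10, .negSucc 585⟩, ⟨.ofNat 2267, .ofNat 1180, .ofNat 927, .negSucc 1490, .ofNat 191, .negSucc 1959⟩, ⟨.ofNat 3570, .ofNat 962, .ofNat 978, .ofNat 559, .negSucc 824, .ofNat 1385⟩, .ofNat 505, .ofNat 215, .ofNat 0, .ofNat 215, .ofNat 1654, .ofNat 0, .ofNat 322, .negSucc 127, .negSucc 297, .ofNat 0, .ofNat 124, .ofNat 11, .ofNat 0, .ofNat 0, .ofNat 600, .ofNat 2712, .ofNat 0, .ofNat 0, .ofNat 0, .ofNat 0, .ofNat 0, .ofNat 0, .ofNat 0, .ofNat 0, .ofNat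 0, .ofNat 0, .ofNat 8686531528414599255795528955319622865780736, .ofNat 0, .ofNat 219445252190285759723880424693125497779333890048, .ofNat 0, .ofNat 17221502482121160059926962253863939118989312, .ofNat 0⟩)
    (by decide +kernel)
theorem L02856 : Good (Phi V5.P V5.D 1 (-1)) ⟨3, 4, 3, 3, 3, 7, 4, 0, 4, 0⟩ :=
  leafYS_sound T5.ok_pm T5.Ypm.bz_eq (w := 227) (c := ⟨⟨.ofNat 1009, .ofNat 600, .ofNat 197, .negSucc 735, .ofNat 199, .negSucc 1203⟩, ⟨.ofNat 151, .ofNat 176, .ofNat 5, .ofNat 272, .negSucc 174, .ofNat 384⟩, ⟨.negSucc 1518, .negSucc 807, .negSucc 522, .ofNat 1355, .ofNat 117, .negSucc 647⟩, ⟨.ofNat 3271, .ofNat 860, .ofNat 1239, .negSucc 1369, .ofNat 143, .negSucc 2071⟩, ⟨.ofNat 4567, .ofNat 754, .ofNat 1163, .ofNat 946, .negSucc 1208, .ofNat 1644⟩, .ofNat 590, .ofNat 412, .ofNat 0, .ofNat 412, .ofNat 1848, .ofNat 0, .ofNat 150, .negSucc 127, .negSucc 212, .ofNat 0,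 .ofNat 103, .ofNat 23, .ofNat 0, .ofNat 0, .ofNat 419, .ofNat 2724, .ofNat 0, .ofNat 0, .ofNat 1548131851994673996900954475957971023036416, .ofNat 0, .ofNat 0, .ofNat 0, .ofNat 11243658644955942776052639469021206891462656, .ofNat 0, .ofNat 0, .ofNat 0, .ofNat 12785629413081669904898532989689340440346624, .ofNat 0, .ofNat 101579848575937942155698475791964724106952179712, .ofNat 0, .ofNat 29532214509447685144772792668035312049455104, .ofNat 0⟩)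
    (by decide +kernel)
theorem L02857 : Good (Phi V5.P V5.D 1 (-1)) ⟨3, 5, 2, 1, 2, 3, 4, 0, 4, 0⟩ :=
  out_sound (S := T5.ds_pm) T5.ok_pm (w := 43) (j := 3) (by decide +kernel)
theorem L02858 : Good (Phi V5.P V5.D 1 (-1)) ⟨3, 4, 2, 1, 3, 6, 5, 0, 5, 2⟩ :=
  leafYS_sound T5.ok_pm T5.Ypm.bz_eq (w := 235) (c := ⟨⟨.negSucc 225, .negSucc 99, .negSucc 243, .ofNat 125, .ofNat 48, .negSucc 897⟩, ⟨.ofNat 119, .ofNat 97, .ofNat 288, .ofNat 261, .negSucc 25, .ofNat 130⟩, ⟨.negSucc 2028, .negSucc 192, .negSucc 169, .negSucc 60, .ofNat 186, .ofNat 542⟩, ⟨.negSucc 316, .negSucc 252, .ofNat 335, .ofNat 596, .ofNat 37, .negSucc 1814⟩, ⟨.ofNat 1441, .ofNat 287, .ofNat 1229, .ofNat 2721, .negSucc 272, .ofNat 84⟩, .ofNat 456, .ofNat 150, .ofNat 0, .ofNat 150, .ofNat 1264, .ofNat 0, .ofNat 169, .negSucc 127, .negSucc 81, .ofNat 0, .ofNat 124, .ofNat 20, .ofNat 0, .ofNat 0, .ofNat 241, .ofNat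 18600, .ofNat 0, .ofNat 0, .ofNat 0, .ofNat 0, .ofNat 0, .ofNat 0, .ofNat 1914553480008936529597593841948543357852581888, .ofNat 0, .ofNat 0, .ofNat 0, .ofNat 5610305632964128477309960462446252932280090624, .ofNat 0, .ofNat 759076242689572338685013412353510142718225940480, .ofNat 0, .ofNat 510883735962837026585015704637212342758670336, .ofNat 0⟩)
    (by decide +kernel)
theorem L02859 : Good (Phi V5.P V5.D 1 (-1)) ⟨3, 4, 2, 1, 3, 6, 5, 1, 5, 2⟩ :=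
  leafYS_sound T5.ok_pm T5.Ypm.bz_eq (w := 234) (c := ⟨⟨.negSucc 165, .negSucc 71, .negSucc 165, .ofNat 98, .ofNat 59, .negSucc 963⟩, ⟨.ofNat 93, .ofNat 112, .ofNat 267, .ofNat 236, .negSucc 26, .ofNat 129⟩, ⟨.negSucc 1845, .negSucc 207, .negSucc 107, .negSucc 96, .ofNat 171, .ofNat 549⟩, ⟨.negSucc 204, .negSucc 234, .ofNat 316, .ofNat 555, .ofNat 101, .negSucc 1982⟩, ⟨.ofNat 1299, .ofNat 263, .ofNat 1043, .ofNat 2528, .negSucc 213, .negSucc 27⟩, .ofNat 453, .ofNat 142, .ofNat 0, .ofNat 142, .ofNat 1265, .ofNat 0, .ofNat 205, .negSucc 127, .negSucc 150, .ofNat 0, .ofNat 128, .ofNat 35, .ofNat 0, .ofNat 0, .ofNat 405, .ofNat 13278, .ofNat 0, .ofNat 0, .ofNat 380517018013558736136044342773771318304178176, .ofNat 0, .ofNat 0, .ofNat 0, .ofNat 2193751867165787534131050332606601060509810688, .ofNat 0, .ofNat 0, .ofNat 0, .ofNat 8035480077767758107701598833872689731762913280,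 .ofNat 0, .ofNat 0, .ofNat 0, .ofNat 0, .ofNat 0⟩)
    (by decide +kernel)
theorem L02860 : Good (Phi V5.P V5.D 1 (-1)) ⟨3, 4, 2, 1, 3, 6, 5, 0, 5, 3⟩ :=
  leafYS_sound T5.ok_pm T5.Ypm.bz_eq (w := 236) (c := ⟨⟨.negSucc 1049, .negSucc 155, .negSucc 327, .ofNat 83, .negSucc 1, .negSucc 538⟩, ⟨.ofNat 246, .ofNat 62, .ofNat 471, .ofNat 261, .negSucc 48, .ofNat 68⟩, ⟨.negSucc 1577, .negSucc 166, .negSucc 143, .ofNat 78, .ofNat 247, .ofNat 509⟩, ⟨.negSucc 2147, .negSucc 146, .ofNat 116, .ofNat 561, .negSucc 49, .negSucc 1141⟩, ⟨.ofNat 1396, .ofNat 501, .ofNat 1354, .ofNat 2729, .negSucc 354, .negSucc 153⟩, .ofNat 454, .ofNat 146, .ofNat 0, .ofNat 146, .ofNat 1259, .ofNat 0, .ofNat 277, .negSucc 121, .negSucc 108, .ofNat 0, .ofNat 128, .ofNat 30, .ofNat 0, .ofNat 0, .ofNat 341, .ofNat 37465, .ofNat 1543303614775209865166386988513057597293533855744, .ofNat 0, .ofNat 310952805758358324274547082961046538972823552,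 .ofNat 0, .ofNat 0, .ofNat 0, .ofNat 5648723473143430053653071689075967167618351104, .ofNat 0, .ofNat 932085575489044396442660932094470495024548151296, .ofNat 0, .ofNat 7960046882742472409991066980166676122613841920, .ofNat 0, .ofNat 0, .ofNat 0, .ofNat 1879006292617973541087706618221927036293742592, .ofNat 0⟩)
    (by decide +kernel)
theorem L02861 : Good (Phi V5.P V5.D 1 (-1)) ⟨4, 8, 2, 1, 3, 6, 5, 1, 5, 3⟩ :=
  leafYS_sound T5.ok_pm T5.Ypm.bz_eq (w := 239) (c := ⟨⟨.negSucc 1029, .negSucc 84, .negSucc 266, .ofNat 62, .ofNat 21, .negSucc 576⟩, ⟨.ofNat 219, .ofNat 10, .ofNat 434, .ofNat 226, .negSucc 13, .ofNat 100⟩, ⟨.negSucc 1362, .negSucc 46, .negSucc 85, .ofNat 31, .ofNat 163, .ofNat 533⟩, ⟨.negSucc 2124, .negSucc 147, .ofNat 185, .ofNat 661, .negSucc 22, .negSucc 1243⟩, ⟨.ofNat 1233, .ofNat 89, .ofNat 1207, .ofNat 2670, .negSucc 227, .negSucc 135⟩, .ofNat 537, .ofNat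 291, .ofNat 0, .ofNat 291, .ofNat 1749, .ofNat 0, .ofNat 140, .negSucc 127, .negSucc 85, .ofNat 0, .ofNat 111, .ofNat 25, .ofNat 0, .ofNat 0, .ofNat 268, .ofNat 17263, .ofNat 0, .ofNat 0, .ofNat 57774716540537784148683204808766453035565056, .ofNat 0, .ofNat 0, .ofNat 0, .ofNat 331088444891036329203905043520157094206504960, .ofNat 0, .ofNat 0, .ofNat 0, .ofNat 1667842823240382341539220551278727816361803776, .ofNat 0, .ofNat 0, .ofNat 0, .ofNat 188186364814953774085656930110794141506994176, .ofNat 0⟩)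
    (by decide +kernel)
theorem L02862 : Good (Phi V5.P V5.D 1 (-1)) ⟨4, 9, 2, 1, 3, 6, 5, 1, 5, 3⟩ :=
  leafYS_sound T5.ok_pm T5.Ypm.bz_eq (w := 239) (c := ⟨⟨.negSucc 1124, .negSucc 99, .negSucc 280, .ofNat 108, .negSucc 2, .negSucc 565⟩, ⟨.ofNat 217, .ofNat 55, .ofNat 501, .ofNat 275, .negSucc 26, .ofNat 49⟩, ⟨.negSucc 1468, .negSucc 49, .negSucc 67, .ofNat 78, .ofNat 191, .ofNat 561⟩, ⟨.negSucc 2197, .negSucc 128, .ofNat 59, .ofNat 479, .negSucc 24, .negSucc 1121⟩, ⟨.ofNat 1340, .ofNat 290, .ofNat 1313, .ofNat 2551, .negSucc 227, .negSucc 64⟩, .ofNat 447, .ofNat 155, .ofNat 0, .ofNat 155, .ofNat 1140, .ofNat 0, .ofNat 184, .negSucc 119, .negSucc 94, .ofNat 0, .ofNat 128, .ofNat 30, .ofNat 0, .ofNat 0, .ofNat 272, .ofNat 22465, .ofNat 0, .ofNat 0, .ofNat 166174671797453868971163258253932807474642944, .ofNat 0, .ofNat 0, .ofNat 0, .ofNat 522397160079520052408815336660764452733321216,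 .ofNat 0, .ofNat 0, .ofNat 0, .ofNat 2313758014410948865502695829231870427730542592, .ofNat 0, .ofNat 0, .ofNat 0, .ofNat 699473356047933609718490695209188519892221952, .ofNat 0⟩)
    (by decide +kernel)
theorem L02863 : Good (Phi V5.P V5.D 1 (-1)) ⟨4, 8, 2, 1, 4, 14, 4, 0, 4, 1⟩ :=
  leafYS_sound T5.ok_pm T5.Ypm.bz_eq (w := 243) (c := ⟨⟨.negSucc 306, .ofNat 26, .negSucc 125, .ofNat 68, .ofNat 35, .negSucc 1393⟩, ⟨.ofNat 340, .ofNat 61, .ofNat 457, .ofNat 112, .negSucc 87, .ofNat 249⟩, ⟨.negSucc 1828, .negSucc 169, .negSucc 482, .ofNat 143, .ofNat 314, .ofNat 1075⟩, ⟨.negSucc 36, .negSucc 34, .ofNat 1079, .ofNat 452, .negSucc 121, .negSucc 3036⟩, ⟨.ofNat 4339, .ofNat 237, .ofNat 2226, .ofNat 1472, .negSucc 992, .negSucc 271⟩, .ofNat 485, .ofNat 212, .ofNat 0, .ofNat 212, .ofNat 1335, .ofNat 0, .ofNat 156, .negSucc 127, .negSucc 209, .ofNat 0, .ofNat 126, .ofNat 35, .ofNat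 0, .ofNat 0, .ofNat 534, .ofNat 6907, .ofNat 0, .ofNat 0, .ofNat 1870471927189520974423100190741385688662409216, .ofNat 0, .ofNat 0, .ofNat 0, .ofNat 9476354955687015168436103108121604519761018880, .ofNat 0, .ofNat 324461458068598454950352991610182981647021153189888, .ofNat 0, .ofNat 40898309940479697978905592880842285705928376320, .ofNat 0, .ofNat 3149162896566268216937763493318813124814292639547392, .ofNat 0, .ofNat 42923623377828552046768033030506614387812335616, .ofNat 0⟩)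
    (by decide +kernel)
theorem L02864 : Good (Phi V5.P V5.D 1 (-1)) ⟨4, 8, 2, 1, 4, 15, 4, 0, 4, 1⟩ :=
  leafYS_sound T5.ok_pm T5.Ypm.bz_eq (w := 242) (c := ⟨⟨.negSucc 513, .ofNat 86, .negSucc 47, .negSucc 1, .ofNat 49, .negSucc 1107⟩, ⟨.ofNat 486, .ofNat 67, .ofNat 603, .ofNat 106, .negSucc 140, .ofNat 214⟩, ⟨.negSucc 1256, .negSucc 68, .negSucc 1283, .ofNat 147, .ofNat 337, .ofNat 588⟩, ⟨.negSucc 98, .negSucc 230, .ofNat 1879, .ofNat 302, .negSucc 292, .negSucc 2330⟩, ⟨.ofNat 5982, .negSucc 400, .ofNat 4044, .ofNat 1178, .negSucc 1506, .negSucc 64⟩, .ofNat 678, .ofNat 607, .ofNat 0, .ofNat 607, .ofNat 2742, .ofNat 0, .ofNat 128, .negSucc 146, .negSucc 189, .ofNat 0, .ofNat 117, .ofNat 16, .ofNat 0, .ofNat 0, .ofNat 478, .ofNat 3275, .ofNat 0, .ofNat 0, .ofNat 3799166639962074583784794525660122803918077952, .ofNat 0, .ofNat 0, .ofNat 0, .ofNat 1716967187888599932547097074202066738873368576,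 .ofNat 0, .ofNat 0, .ofNat 0, .ofNat 54480312386951116306067892264471659556907253760, .ofNat 0, .ofNat 0, .ofNat 0, .ofNat 81070641401298312758967604920127503633664180224, .ofNat 0⟩)
    (by decide +kernel)
theorem L02865 : Good (Phi V5.P V5.D 1 (-1)) ⟨4, 9, 3, 2, 3, 7, 4, 0, 4, 1⟩ :=
  leafYS_sound T5.ok_pm T5.Ypm.bz_eq (w := 231) (c := ⟨⟨.negSucc 440, .ofNat 120, .ofNat 12, .ofNat 171, .ofNat 97, .negSucc 1328⟩, ⟨.ofNat 485, .ofNat 113, .ofNat 306, .ofNat 239, .negSucc 138, .ofNat 122⟩, ⟨.negSucc 1730, .negSucc 229, .negSucc 595, .ofNat 294, .ofNat 265, .ofNat 865⟩, ⟨.negSucc 408, .ofNat 97, .ofNat 721, .ofNat 538, .ofNat 43, .negSucc 2637⟩, ⟨.ofNat 4747, .ofNat 153, .ofNat 1629, .ofNat 2168, .negSucc 1199, .ofNat 26⟩, .ofNat 500, .ofNat 172, .ofNat 0, .ofNat 172, .ofNat 1820, .ofNat 0, .ofNat 160, .negSucc 117, .negSucc 174, .ofNat 0, .ofNat 128, .ofNat 5, .ofNat 0,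 .ofNat 0, .ofNat 434, .ofNat 5468, .ofNat 0, .ofNat 0, .ofNat 230213176613017944154790858534040190844928, .ofNat 0, .ofNat 0, .ofNat 0, .ofNat 2152983308767424939011262524450375865466880, .ofNat 0, .ofNat 0, .ofNat 0, .ofNat 9493894716151179007146459646552902893305856, .ofNat 0, .ofNat 0, .ofNat 0, .ofNat 6728749566679143403747275643287199784370176, .ofNat 0⟩)
    (by decide +kernel)
theorem L02866 : Good (Phi V5.P V5.D 1 (-1)) ⟨4, 9, 3, 3, 3, 7, 4, 0, 4, 1⟩ :=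
  out_sound (S := T5.ds_pm) T5.ok_pm (w := 51) (j := 3) (by decide +kernel)
theorem L02867 : Good (Phi V5.P V5.D 1 (-1)) ⟨3, 5, 2, 1, 2, 3, 4, 0, 4, 1⟩ :=
  out_sound (S := T5.ds_pm) T5.ok_pm (w := 43) (j := 3) (by decide +kernel)
theorem L02868 : Good (Phi V5.P V5.D 1 (-1)) ⟨3, 4, 2, 1, 2, 2, 4, 1, 3, 0⟩ :=
  leafYS_sound T5.ok_pm T5.Ypm.bz_eq (w := 205) (c := ⟨⟨.ofNat 2049, .ofNat 69, .ofNat 39, .negSucc 309, .ofNat 2, .negSucc 3552⟩, ⟨.negSucc 334, .ofNat 106, .ofNat 64, .ofNat 247, .negSucc 54, .ofNat 439⟩, ⟨.negSucc 1369, .negSucc 57, .ofNat 9, .negSucc 740, .ofNat 146, .ofNat 1296⟩, ⟨.ofNat 4338, .negSucc 73, .ofNat 171, .negSucc 361, .ofNat 138, .negSucc 7657⟩, ⟨.ofNat 11, .ofNat 92, .ofNat 313, .ofNat 1893, .ofNat 107, .negSucc 1029⟩, .ofNat 335, .ofNat 75, .ofNat 0, .ofNat 75, .ofNat 623, .ofNat 0, .ofNat 344, .negSucc 110, .negSucc 101, .ofNat 0, .ofNat 128,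 .ofNat 41, .ofNat 0, .ofNat 0, .ofNat 261, .ofNat 2313, .ofNat 0, .ofNat 0, .ofNat 0, .ofNat 0, .ofNat 0, .ofNat 0, .ofNat 0, .ofNat 0, .ofNat 0, .ofNat 0, .ofNat 5203894265570748718219173950239277056, .ofNat 0, .ofNat 0, .ofNat 0, .ofNat 2240957654344403805891703358437195776, .ofNat 0⟩)
    (by decide +kernel)
theorem L02869 : Good (Phi V5.P V5.D 1 (-1)) ⟨3, 4, 2, 1, 3, 6, 4, 1, 4, 0⟩ :=
  leafYS_sound T5.ok_pm T5.Ypm.bz_eq (w := 224) (c := ⟨⟨.ofNat 1741, .ofNat 250, .negSucc 133, .ofNat 63, .ofNat 108, .negSucc 1906⟩, ⟨.negSucc 123, .ofNat 199, .negSucc 82, .ofNat 243, .negSucc 50, .ofNat 185⟩, ⟨.negSucc 2039, .negSucc 277, .ofNat 152, .negSucc 186, .ofNat 187, .ofNat 346⟩, ⟨.ofNat 4189, .negSucc 143, .ofNat 425, .ofNat 346, .ofNat 194, .negSucc 4055⟩, ⟨.ofNat 2486, .negSucc 264, .ofNat 679, .ofNat 2058, .negSucc 283, .negSucc 908⟩, .ofNat 457, .ofNat 150, .ofNat 0,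 .ofNat 150, .ofNat 1269, .ofNat 0, .ofNat 332, .negSucc 110, .negSucc 169, .ofNat 0, .ofNat 128, .ofNat 33, .ofNat 0, .ofNat 0, .ofNat 402, .ofNat 3640, .ofNat 0, .ofNat 0, .ofNat 402958178553596195076301851921813078016000, .ofNat 0, .ofNat 0, .ofNat 0, .ofNat 6771801188995862322941120199827570114428928, .ofNat 0, .ofNat 0, .ofNat 0, .ofNat 11811673039963212293433010377281608592916480, .ofNat 0, .ofNat 0, .ofNat 0, .ofNat 0, .ofNat 0⟩)
    (by decide +kernel)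
theorem L02870 : Good (Phi V5.P V5.D 1 (-1)) ⟨3, 4, 2, 1, 4, 14, 4, 1, 4, 0⟩ :=
  leafYS_sound T5.ok_pm T5.Ypm.bz_eq (w := 238) (c := ⟨⟨.ofNat 1411, .ofNat 577, .ofNat 91, .negSucc 127, .ofNat 115, .negSucc 1648⟩, ⟨.ofNat 74, .ofNat 315, .ofNat 10, .ofNat 88, .negSucc 96, .ofNat 192⟩, ⟨.negSucc 1722, .negSucc 699, .negSucc 243, .ofNat 386, .ofNat 211, .ofNat 108⟩, ⟨.ofNat 3632, .ofNat 579, .ofNat 1208, .negSucc 172, .ofNat 112, .negSucc 3369⟩, ⟨.ofNat 4076, .ofNat 443, .ofNat 1167, .ofNat 673, .negSucc 762, .negSucc 278⟩, .ofNat 466, .ofNat 172, .ofNat 0, .ofNat 172, .ofNat 1285, .ofNat 0, .ofNat 261, .negSucc 111, .negSucc 193, .ofNat 0, .ofNat 128, .ofNat 22, .ofNat 0, .ofNat 0, .ofNat 362, .ofNat 1830, .ofNat 0, .ofNat 0, .ofNat 7217801360019255473585567679475575739897610240, .ofNat 0, .ofNat 0, .ofNat 0, .ofNat 74157945060499762853066180134370637264300539904, .ofNat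 0, .ofNat 0, .ofNat 0, .ofNat 0, .ofNat 0, .ofNat 0, .ofNat 0, .ofNat 68125307817000968916231019112466852683716755456, .ofNat 0⟩)
    (by decide +kernel)
theorem L02871 : Good (Phi V5.P V5.D 1 (-1)) ⟨3, 4, 2, 1, 4, 15, 4, 1, 4, 0⟩ :=
  leafYS_sound T5.ok_pm T5.Ypm.bz_eq (w := 238) (c := ⟨⟨.ofNat 646, .ofNat 700, .ofNat 411, .negSucc 414, .ofNat 187, .negSucc 1030⟩, ⟨.ofNat 148, .ofNat 242, .ofNat 56, .ofNat 59, .negSucc 121, .ofNat 248⟩, ⟨.negSucc 466, .negSucc 841, .negSucc 879, .ofNat 813, .ofNat 25, .negSucc 657⟩, ⟨.ofNat 1954, .ofNat 793, .ofNat 2018, .negSucc 889, .ofNat 171, .negSucc 1700⟩, ⟨.ofNat 3838, .ofNat 129, .ofNat 1637, .negSucc 339, .negSucc 908, .ofNat 1459⟩, .ofNat 561, .ofNat 345, .ofNat 0, .ofNat 345, .ofNat 1892, .ofNat 0, .ofNat 278, .negSucc 127, .negSucc 250, .ofNat 0, .ofNat 105, .ofNat 18, .ofNat 0, .ofNat 0, .ofNat 428, .ofNat 1547, .ofNat 0,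 .ofNat 0, .ofNat 11312983562022652242303940370808181585520623616, .ofNat 0, .ofNat 0, .ofNat 0, .ofNat 98271757777055286308945597640820700825350307840, .ofNat 0, .ofNat 0, .ofNat 0, .ofNat 104634127659859425456269991060891781558609903616, .ofNat 0, .ofNat 0, .ofNat 0, .ofNat 202728474972387814982396851962623192425025241088, .ofNat 0⟩)
    (by decide +kernel)
theorem L02872 : Good (Phi V5.P V5.D 1 (-1)) ⟨3, 4, 2, 1, 3, 6, 4, 1, 5, 2⟩ :=
  leafYS_sound T5.ok_pm T5.Ypm.bz_eq (w := 229) (c := ⟨⟨.negSucc 89, .negSucc 114, .negSucc 129, .ofNat 90, .ofNat 70, .negSucc 960⟩, ⟨.ofNat 83, .ofNat 89, .ofNat 236, .ofNat 206, .negSucc 67, .ofNat 159⟩, ⟨.negSucc 1715, .negSucc 132, .negSucc 70, .negSucc 61, .ofNat 265, .ofNat 559⟩, ⟨.negSucc 68, .negSucc 304, .ofNat 397, .ofNat 506, .ofNat 123, .negSucc 1974⟩, ⟨.ofNat 1209, .ofNat 231, .ofNat 905, .ofNat 2258, .negSucc 419, .ofNat 74⟩,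 .ofNat 334, .ofNat 61, .ofNat 0, .ofNat 61, .ofNat 635, .ofNat 0, .ofNat 197, .negSucc 102, .negSucc 122, .ofNat 0, .ofNat 128, .ofNat 35, .ofNat 0, .ofNat 0, .ofNat 237, .ofNat 5259, .ofNat 0, .ofNat 0, .ofNat 17108413090405131352224777018966312738619392, .ofNat 0, .ofNat 0, .ofNat 0, .ofNat 80552194504430428153489379858652543324258304, .ofNat 0, .ofNat 0, .ofNat 0, .ofNat 197048025629960785168718437005336023572414464, .ofNat 0, .ofNat 0, .ofNat 0, .ofNat 33765520753519178767767096764093694874746880, .ofNat 0⟩)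
    (by decide +kernel)
theorem L02873 : Good (Phi V5.P V5.D 1 (-1)) ⟨3, 4, 2, 1, 3, 6, 4, 1, 5, 3⟩ :=
  leafYS_sound T5.ok_pm T5.Ypm.bz_eq (w := 229) (c := ⟨⟨.negSucc 958, .negSucc 218, .negSucc 203, .ofNat 27, .ofNat 34, .negSucc 632⟩, ⟨.ofNat 211, .ofNat 33, .ofNat 381, .ofNat 209, .negSucc 53, .ofNat 102⟩, ⟨.negSucc 1226, .negSucc 54, .negSucc 41, .ofNat 24, .ofNat 284, .ofNat 558⟩, ⟨.negSucc 2043, .negSucc 306, .ofNat 252, .ofNat 489, .ofNat 0, .negSucc 1273⟩, ⟨.ofNat 1149, .ofNat 269, .ofNat 964, .ofNat 2254, .negSucc 399, .negSucc 9⟩, .ofNat 464, .ofNat 167, .ofNat 0, .ofNat 167, .ofNat 1285, .ofNat 0, .ofNat 160, .negSucc 121, .negSucc 100, .ofNat 0, .ofNat 128, .ofNat 28, .ofNat 0, .ofNat 0, .ofNat 269, .ofNat 6006, .ofNat 0, .ofNat 0, .ofNat 20557067590718854774282790339641632886882304, .ofNat 0, .ofNat 0, .ofNat 0, .ofNat 169946902234714912526911356179651344554000384,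 .ofNat 0, .ofNat 0, .ofNat 0, .ofNat 387630088758252222236352411726384572437364736, .ofNat 0, .ofNat 0, .ofNat 0, .ofNat 0, .ofNat 0⟩)
    (by decide +kernel)
theorem L02874 : Good (Phi V5.P V5.D 1 (-1)) ⟨3, 4, 2, 1, 4, 14, 4, 1, 5, 2⟩ :=
  leafYS_sound T5.ok_pm T5.Ypm.bz_eq (w := 242) (c := ⟨⟨.negSucc 132, .ofNat 61, .negSucc 53, .ofNat 69, .ofNat 53, .negSucc 946⟩, ⟨.ofNat 272, .ofNat 152, .ofNat 296, .ofNat 122, .negSucc 88, .ofNat 149⟩, ⟨.negSucc 1634, .negSucc 260, .negSucc 323, .ofNat 108, .ofNat 283, .ofNat 574⟩, ⟨.ofNat 229, .negSucc 67, .ofNat 1007, .ofNat 314, .negSucc 60, .negSucc 1905⟩, ⟨.ofNat 3586, .ofNat 325, .ofNat 1570, .ofNat 1216, .negSucc 941, .ofNat 159⟩, .ofNat 470, .ofNat 198, .ofNat 0, .ofNat 198, .ofNat 1235, .ofNat 0, .ofNat 187, .negSucc 125, .negSucc 130, .ofNat 0, .ofNat 128, .ofNat 23, .ofNat 0, .ofNat 0, .ofNat 262, .ofNat 2271, .ofNat 0,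 .ofNat 0, .ofNat 241204899829168871810931292944997175744771653632, .ofNat 0, .ofNat 0, .ofNat 0, .ofNat 0, .ofNat 0, .ofNat 0, .ofNat 0, .ofNat 3032521050313977113266928293565980355589121769472, .ofNat 0, .ofNat 0, .ofNat 0, .ofNat 1418784131118092173286341051309135963837113040896, .ofNat 0⟩)
    (by decide +kernel)
theorem L02875 : Good (Phi V5.P V5.D 1 (-1)) ⟨3, 4, 2, 1, 4, 15, 4, 1, 5, 2⟩ :=
  leafYS_sound T5.ok_pm T5.Ypm.bz_eq (w := 243) (c := ⟨⟨.negSucc 345, .ofNat 312, .ofNat 103, .negSucc 65, .ofNat 103, .negSucc 783⟩, ⟨.ofNat 410, .ofNat 118, .ofNat 319, .ofNat 79, .negSucc 137, .ofNat 182⟩, ⟨.negSucc 1113, .negSucc 421, .negSucc 849, .ofNat 251, .ofNat 193, .ofNat 346⟩, ⟨.negSucc 28, .ofNat 195, .ofNat 1858, .ofNat 127, .negSucc 79, .negSucc 1610⟩, ⟨.ofNat 4702, .ofNat 95, .ofNat 2718, .ofNat 893, .negSucc 1373, .ofNat 247⟩, .ofNat 470, .ofNat 198, .ofNat 0, .ofNat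 198, .ofNat 1235, .ofNat 0, .ofNat 218, .negSucc 127, .negSucc 304, .ofNat 0, .ofNat 125, .ofNat 14, .ofNat 0, .ofNat 0, .ofNat 574, .ofNat 2868, .ofNat 0, .ofNat 0, .ofNat 580587292872193789605036192196538812034069823488, .ofNat 0, .ofNat 0, .ofNat 0, .ofNat 3395580534304870580057911009189260088942983643136, .ofNat 0, .ofNat 0, .ofNat 0, .ofNat 4486606035014732230937768379158124343703168352256, .ofNat 0, .ofNat 0, .ofNat 0, .ofNat 14348583367054328368505755410272371345570163326976, .ofNat 0⟩)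
    (by decide +kernel)
theorem L02876 : Good (Phi V5.P V5.D 1 (-1)) ⟨4, 8, 2, 1, 4, 14, 4, 1, 5, 3⟩ :=
  leafYS_sound T5.ok_pm T5.Ypm.bz_eq (w := 248) (c := ⟨⟨.negSucc 983, .negSucc 33, .negSucc 174, .ofNat 46, .ofNat 3, .negSucc 588⟩, ⟨.ofNat 397, .ofNat 40, .ofNat 460, .ofNat 100, .negSucc 82, .ofNat 115⟩, ⟨.negSucc 1061, .negSucc 68, .negSucc 255, .ofNat 95, .ofNat 268, .ofNat 515⟩, ⟨.negSucc 1675, .negSucc 66, .ofNat 700, .ofNat 338, .negSucc 167, .negSucc 1193⟩, ⟨.ofNat 3505, .ofNat 168, .ofNat 1600, .ofNat 1189, .negSucc 830, .negSucc 8⟩, .ofNat 607, .ofNat 441, .ofNat 0, .ofNat 441, .ofNat 2105, .ofNat 0, .ofNat 128, .negSucc 145, .negSucc 117, .ofNat 0, .ofNat 125, .ofNat 27, .ofNat 0, .ofNat 0, .ofNat 286, .ofNat 5433, .ofNat 0, .ofNat 0, .ofNat 97858497949448612481705408432197312109409730560, .ofNat 0, .ofNat 0, .ofNat 0, .ofNat 0, .ofNat 0, .ofNat 0, .ofNat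 0, .ofNat 1589069955099807690809391871630536739421820026880, .ofNat 0, .ofNat 0, .ofNat 0, .ofNat 539077185499396330176236981214102671869857497088, .ofNat 0⟩)
    (by decide +kernel)
theorem L02877 : Good (Phi V5.P V5.D 1 (-1)) ⟨4, 8, 2, 1, 4, 15, 4, 1, 5, 3⟩ :=
  leafYS_sound T5.ok_pm T5.Ypm.bz_eq (w := 247) (c := ⟨⟨.negSucc 1055, .ofNat 81, .negSucc 114, .ofNat 73, .ofNat 3, .negSucc 535⟩, ⟨.ofNat 494, .ofNat 70, .ofNat 526, .ofNat 73, .negSucc 112, .ofNat 100⟩, ⟨.negSucc 759, .negSucc 185, .negSucc 619, .ofNat 25, .ofNat 266, .ofNat 462⟩, ⟨.negSucc 1534, .ofNat 46, .ofNat 1237, .ofNat 344, .negSucc 268, .negSucc 1189⟩, ⟨.ofNat 4787, .ofNat 198, .ofNat 2467, .ofNat 952, .negSucc 1220, .negSucc 213⟩, .ofNat 629, .ofNat 488, .ofNat 0, .ofNat 488, .ofNat 2580, .ofNat 0, .ofNat 128, .negSucc 136, .negSucc 177, .ofNat 0, .ofNat 116, .ofNat 20, .ofNat 0, .ofNat 0, .ofNat 426,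 .ofNat 3678, .ofNat 0, .ofNat 0, .ofNat 148672838317959371541757137732307275313903042560, .ofNat 0, .ofNat 0, .ofNat 0, .ofNat 0, .ofNat 0, .ofNat 0, .ofNat 0, .ofNat 1682166936019747897718875829379128138274938290176, .ofNat 0, .ofNat 0, .ofNat 0, .ofNat 2393679815810434979446879638492558879195129708544, .ofNat 0⟩)
    (by decide +kernel)
theorem L02878 : Good (Phi V5.P V5.D 1 (-1)) ⟨4, 9, 3, 2, 3, 7, 4, 1, 5, 3⟩ :=
  leafYS_sound T5.ok_pm T5.Ypm.bz_eq (w := 237) (c := ⟨⟨.negSucc 1048, .negSucc 8, .negSucc 104, .ofNat 265, .negSucc 22, .negSucc 608⟩, ⟨.ofNat 464, .ofNat 95, .ofNat 272, .ofNat 183, .negSucc 103, .ofNat 54⟩, ⟨.negSucc 1108, .negSucc 67, .negSucc 181, .ofNat 105, .ofNat 282, .ofNat 520⟩, ⟨.negSucc 1746, .negSucc 105, .ofNat 295, .ofNat 726, .negSucc 148, .negSucc 1242⟩, ⟨.ofNat 3868, .ofNat 132, .ofNat 960, .ofNat 1932, .negSucc 992, .negSucc 67⟩, .ofNat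 503, .ofNat 179, .ofNat 0, .ofNat 179, .ofNat 1851, .ofNat 0, .ofNat 257, .negSucc 109, .negSucc 179, .ofNat 0, .ofNat 128, .ofNat 15, .ofNat 0, .ofNat 0, .ofNat 419, .ofNat 5104, .ofNat 0, .ofNat 0, .ofNat 11100179141582291199391211348775545019039744, .ofNat 0, .ofNat 0, .ofNat 0, .ofNat 0, .ofNat 0, .ofNat 0, .ofNat 0, .ofNat 351913506116983906895872856829950767025618944, .ofNat 0, .ofNat 0, .ofNat 0, .ofNat 292334278465802121772707280047654214423281664, .ofNat 0⟩)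
    (by decide +kernel)
theorem L02879 : Good (Phi V5.P V5.D 1 (-1)) ⟨4, 9, 3, 3, 3, 7, 4, 1, 5, 3⟩ :=
  out_sound (S := T5.ds_pm) T5.ok_pm (w := 51) (j := 3) (by decide +kernel)
theorem L02880 : Good (Phi V5.P V5.D 1 (-1)) ⟨3, 5, 2, 1, 1, 1, 4, 1, 3, 0⟩ :=
  out_sound (S := T5.ds_pm) T5.ok_pm (w := 43) (j := 3) (by decide +kernel)
theorem L02881 : Good (Phi V5.P V5.D 1 (-1)) ⟨2, 3, 2, 1, 1, 1, 3, 0, 3, 0⟩ :=
  out_sound (S := T5.ds_pm) T5.ok_pm (w := 37) (j := 3) (by decide +kernel)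
theorem L02882 : Good (Phi V5.P V5.D 1 (-1)) ⟨3, 4, 2, 1, 2, 2, 3, 1, 3, 0⟩ :=
  leafYS_sound T5.ok_pm T5.Ypm.bz_eq (w := 201) (c := ⟨⟨.ofNat 2042, .ofNat 202, .ofNat 9, .negSucc 181, .ofNat 6, .negSucc 3664⟩, ⟨.negSucc 282, .ofNat 77, .negSucc 93, .ofNat 175, .negSucc 14, .ofNat 457⟩, ⟨.negSucc 1401, .negSucc 157, .negSucc 16, .negSucc 581, .ofNat 237, .ofNat 1542⟩, ⟨.ofNat 4357, .ofNat 140, .ofNat 269, .negSucc 46, .ofNat 64, .negSucc 7949⟩, ⟨.ofNat 212, .negSucc 38, .ofNat 358, .ofNat 1792, .ofNat 116, .negSucc 1275⟩, .ofNat 333, .ofNat 59, .ofNat 0, .ofNat 59, .ofNat 634, .ofNat 0, .ofNat 345, .negSucc 74, .negSucc 141, .ofNat 0, .ofNat 128, .ofNat 42, .ofNat 0, .ofNat 0, .ofNat 294, .ofNat 1145, .ofNat 0, .ofNat 0, .ofNat 0, .ofNat 0, .ofNat 0, .ofNat 0, .ofNat 0, .ofNat 0, .ofNat 0, .ofNat 0, .ofNat 930383050436477620050101246722310144, .ofNat 0, .ofNat 0, .ofNat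 0, .ofNat 0, .ofNat 0⟩)
    (by decide +kernel)
theorem L02883 : Good (Phi V5.P V5.D 1 (-1)) ⟨3, 4, 2, 1, 3, 6, 3, 1, 4, 0⟩ :=
  leafYS_sound T5.ok_pm T5.Ypm.bz_eq (w := 220) (c := ⟨⟨.ofNat 1761, .ofNat 476, .ofNat 293, .negSucc 27, .ofNat 48, .negSucc 1937⟩, ⟨.negSucc 98, .ofNat 227, .negSucc 48, .ofNat 175, .negSucc 98, .ofNat 135⟩, ⟨.negSucc 1909, .negSucc 387, .negSucc 46, .negSucc 44, .ofNat 396, .ofNat 480⟩, ⟨.ofNat 4264, .ofNat 283, .ofNat 1045, .ofNat 157, .negSucc 6, .negSucc 4128⟩, ⟨.ofNat 2698, .negSucc 157, .ofNat 487, .ofNat 1535, .negSucc 652, .negSucc 1322⟩, .ofNat 460, .ofNat 161, .ofNat 0, .ofNat 161, .ofNat 1271, .ofNat 0, .ofNat 249, .negSucc 99, .negSucc 149, .ofNat 0, .ofNat 128, .ofNat 31, .ofNat 0, .ofNat 0, .ofNat 292, .ofNat 1157, .ofNat 0, .ofNat 0, .ofNat 25755544972066679494480177091730963693568, .ofNat 0, .ofNat 0, .ofNat 0, .ofNat 447161599530872945943347785966134478503936,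 .ofNat 0, .ofNat 0, .ofNat 0, .ofNat 0, .ofNat 0, .ofNat 0, .ofNat 0, .ofNat 0, .ofNat 0⟩)
    (by decide +kernel)
theorem L02884 : Good (Phi V5.P V5.D 1 (-1)) ⟨4, 8, 2, 1, 3, 7, 3, 1, 4, 0⟩ :=
  leafYS_sound T5.ok_pm T5.Ypm.bz_eq (w := 223) (c := ⟨⟨.ofNat 1267, .ofNat 353, .ofNat 268, .negSucc 530, .ofNat 135, .negSucc 1217⟩, ⟨.ofNat 88, .ofNat 51, .negSucc 102, .ofNat 98, .negSucc 123, .ofNat 188⟩, ⟨.negSucc 1361, .negSucc 338, .negSucc 328, .ofNat 985, .ofNat 128, .negSucc 148⟩, ⟨.ofNat 3375, .ofNat 528, .ofNat 1283, .negSucc 1204, .ofNat 69, .negSucc 2558⟩, ⟨.ofNat 3987, .ofNat 232, .ofNat 469, .negSucc 248, .negSucc 1144, .negSucc 274⟩, .ofNat 580, .ofNat 375, .ofNat 0, .ofNat 375, .ofNat 2147, .ofNat 0, .ofNat 186, .negSucc 127, .negSucc 174, .ofNat 0, .ofNat 107, .ofNat 24, .ofNat 0, .ofNat 0, .ofNat 297, .ofNat 911, .ofNat 0, .ofNat 0, .ofNat 5301235754843032898060696284547013148672,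 .ofNat 0, .ofNat 0, .ofNat 0, .ofNat 69309910419022719303559114130531536601088, .ofNat 0, .ofNat 0, .ofNat 0, .ofNat 120819556282133732735863836363539123011584, .ofNat 0, .ofNat 0, .ofNat 0, .ofNat 65536960298568805464147739392599497113600, .ofNat 0⟩)
    (by decide +kernel)
theorem L02885 : Good (Phi V5.P V5.D 1 (-1)) ⟨4, 9, 2, 1, 3, 7, 3, 1, 4, 0⟩ :=
  leafYS_sound T5.ok_pm T5.Ypm.bz_eq (w := 224) (c := ⟨⟨.ofNat 1596, .ofNat 548, .ofNat 843, .negSucc 464, .ofNat 114, .negSucc 1568⟩, ⟨.ofNat 228, .ofNat 111, .negSucc 105, .ofNat 55, .negSucc 151, .ofNat 112⟩, ⟨.negSucc 1624, .negSucc 434, .negSucc 720, .ofNat 1039, .ofNat 114, .ofNat 53⟩, ⟨.ofNat 3730, .ofNat 785, .ofNat 2331, .negSucc 961, .ofNat 66, .negSucc 3206⟩, ⟨.ofNat 4205, .ofNat 111, .ofNat 759, .negSucc 84, .negSucc 1343, .negSucc 555⟩, .ofNat 505, .ofNat 189, .ofNat 0, .ofNat 189, .ofNat 1846, .ofNat 0, .ofNat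 282, .negSucc 84, .negSucc 337, .ofNat 0, .ofNat 128, .ofNat 23, .ofNat 0, .ofNat 0, .ofNat 504, .ofNat 1610, .ofNat 0, .ofNat 0, .ofNat 12597314259429195356289891356902248415232, .ofNat 0, .ofNat 0, .ofNat 0, .ofNat 277525505948242658675771839694121298034688, .ofNat 0, .ofNat 0, .ofNat 0, .ofNat 365879783297964612062585139795558234324992, .ofNat 0, .ofNat 0, .ofNat 0, .ofNat 360044127632267436708758872341060052320256, .ofNat 0⟩)
    (by decide +kernel)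
theorem L02886 : Good (Phi V5.P V5.D 1 (-1)) ⟨3, 4, 3, 2, 2, 3, 3, 1, 5, 2⟩ :=
  leafYS_sound T5.ok_pm T5.Ypm.bz_eq (w := 213) (c := ⟨⟨.negSucc 47, .negSucc 18, .negSucc 19, .ofNat 69, .ofNat 82, .negSucc 989⟩, ⟨.ofNat 76, .ofNat 112, .ofNat 97, .ofNat 285, .negSucc 137, .ofNat 152⟩, ⟨.negSucc 1451, .negSucc 68, .negSucc 66, .ofNat 376, .ofNat 293, .ofNat 470⟩, ⟨.ofNat 33, .negSucc 161, .ofNat 286, .ofNat 489, .negSucc 9, .negSucc 1913⟩, ⟨.ofNat 1322, .ofNat 226, .ofNat 441, .ofNat 2642, .negSucc 1206, .ofNat 307⟩, .ofNat 503, .ofNat 211, .ofNat 0, .ofNat 211, .ofNat 1651, .ofNat 0, .ofNat 319, .negSucc 123, .negSucc 218, .ofNat 0, .ofNat 128, .ofNat 37, .ofNat 0, .ofNat 0, .ofNat 413, .ofNat 1554, .ofNat 0, .ofNat 0, .ofNat 100387322014151647838605692726016999424, .ofNat 0, .ofNat 0, .ofNat 0, .ofNat 0, .ofNat 0, .ofNat 0, .ofNat 0, .ofNat 2148089769770743743216053494390148038656,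 .ofNat 0, .ofNat 0, .ofNat 0, .ofNat 1566867612794588622762466242444633571328, .ofNat 0⟩)
    (by decide +kernel)
theorem L02887 : Good (Phi V5.P V5.D 1 (-1)) ⟨3, 4, 3, 3, 2, 3, 3, 1, 5, 2⟩ :=
  leafYS_sound T5.ok_pm T5.Ypm.bz_eq (w := 213) (c := ⟨⟨.negSucc 56, .ofNat 49, .ofNat 22, .negSucc 23, .ofNat 150, .negSucc 993⟩, ⟨.ofNat 166, .ofNat 20, .ofNat 8, .ofNat 303, .negSucc 175, .ofNat 256⟩, ⟨.negSucc 1452, .negSucc 184, .negSucc 38, .ofNat 192, .ofNat 319, .ofNat 517⟩, ⟨.ofNat 358, .negSucc 187, .ofNat 271, .ofNat 728, .negSucc 96, .negSucc 2063⟩, ⟨.ofNat 1983, .negSucc 554, .negSucc 85, .ofNat 3226, .negSucc 1567, .ofNat 190⟩, .ofNat 506, .ofNat 266, .ofNat 0, .ofNat 266, .ofNat 1319, .ofNat 0, .ofNat 204, .negSucc 127, .negSucc 214, .ofNat 0, .ofNat 113, .ofNat 53, .ofNat 0, .ofNat 0, .ofNat 404, .ofNat 1053, .ofNat 0, .ofNat 0, .ofNat 100191082625790023391663041883880292352,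 .ofNat 0, .ofNat 0, .ofNat 0, .ofNat 1426444440185269656575427699735540006912, .ofNat 0, .ofNat 0, .ofNat 0, .ofNat 1364071569321161351954081530670793883648, .ofNat 0, .ofNat 0, .ofNat 0, .ofNat 1751442594333044854278146841451243241472, .ofNat 0⟩)
    (by decide +kernel)
theorem L02888 : Good (Phi V5.P V5.D 1 (-1)) ⟨3, 4, 2, 1, 3, 6, 3, 1, 5, 3⟩ :=
  leafYS_sound T5.ok_pm T5.Ypm.bz_eq (w := 225) (c := ⟨⟨.negSucc 909, .negSucc 256, .negSucc 45, .negSucc 42, .negSucc 20, .negSucc 698⟩, ⟨.ofNat 214, .negSucc 19, .ofNat 307, .ofNat 189, .negSucc 94, .ofNat 120⟩, ⟨.negSucc 989, .ofNat 42, .negSucc 51, .ofNat 59, .ofNat 465, .ofNat 557⟩, ⟨.negSucc 1923, .negSucc 317, .ofNat 418, .ofNat 195, .negSucc 190, .negSucc 1370⟩, ⟨.ofNat 970, .ofNat 254, .ofNat 740, .ofNat 1718, .negSucc 833, .ofNat 165⟩, .ofNat 460, .ofNat 159, .ofNat 0, .ofNat 159, .ofNat 1269, .ofNat 0, .ofNat 231,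 .negSucc 112, .negSucc 94, .ofNat 0, .ofNat 128, .ofNat 25, .ofNat 0, .ofNat 0, .ofNat 214, .ofNat 3700, .ofNat 0, .ofNat 0, .ofNat 1234722566142521331405362169158271682740224, .ofNat 0, .ofNat 0, .ofNat 0, .ofNat 0, .ofNat 0, .ofNat 0, .ofNat 0, .ofNat 21871101565838439359079105219455797226897408, .ofNat 0, .ofNat 0, .ofNat 0, .ofNat 6101319288590599389172655584882174501847040, .ofNat 0⟩)
    (by decide +kernel)
theorem L02889 : Good (Phi V5.P V5.D 1 (-1)) ⟨4, 8, 2, 1, 3, 7, 3, 1, 5, 3⟩ :=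
  leafYS_sound T5.ok_pm T5.Ypm.bz_eq (w := 229) (c := ⟨⟨.negSucc 940, .negSucc 34, .negSucc 125, .ofNat 58, .negSucc 112, .negSucc 641⟩, ⟨.ofNat 376, .ofNat 13, .ofNat 402, .ofNat 95, .negSucc 126, .ofNat 126⟩, ⟨.negSucc 840, .ofNat 5, .negSucc 180, .ofNat 162, .ofNat 445, .ofNat 511⟩, ⟨.negSucc 1585, .negSucc 30, .ofNat 615, .ofNat 244, .negSucc 640, .negSucc 1267⟩, ⟨.ofNat 3201, .ofNat 202, .ofNat 1105, .ofNat 973, .negSucc 1703, .ofNat 120⟩, .ofNat 608, .ofNat 437, .ofNat 0, .ofNat 437, .ofNat 2583, .ofNat 0, .ofNat 150, .negSucc 127, .negSucc 138, .ofNat 0, .ofNat 114, .ofNat 23, .ofNat 0, .ofNat 0, .ofNat 290, .ofNat 1437, .ofNat 0, .ofNat 0, .ofNat 179105373804987329136835896049601102217216, .ofNat 0, .ofNat 0, .ofNat 0, .ofNat 0, .ofNat 0, .ofNat 0, .ofNat 0, .ofNat 9577666221909200452347069081355830396190720, .ofNat 0, .ofNat 0, .ofNat 0, .ofNat 3063063783969655262626540692919331294543872,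 .ofNat 0⟩)
    (by decide +kernel)
theorem L02890 : Good (Phi V5.P V5.D 1 (-1)) ⟨4, 9, 2, 1, 3, 7, 3, 1, 5, 3⟩ :=
  leafYS_sound T5.ok_pm T5.Ypm.bz_eq (w := 229) (c := ⟨⟨.negSucc 1020, .negSucc 71, .negSucc 149, .ofNat 279, .negSucc 169, .negSucc 679⟩, ⟨.ofNat 417, .ofNat 48, .ofNat 420, .ofNat 114, .negSucc 151, .ofNat 82⟩, ⟨.negSucc 856, .ofNat 6, .negSucc 194, .ofNat 70, .ofNat 474, .ofNat 534⟩, ⟨.negSucc 1796, .negSucc 140, .ofNat 395, .ofNat 682, .negSucc 493, .negSucc 1314⟩, ⟨.ofNat 3199, .ofNat 162, .ofNat 941, .ofNat 1259, .negSucc 1497, .ofNat 169⟩, .ofNat 562, .ofNat 331, .ofNat 0, .ofNat 331, .ofNat 2041, .ofNat 0, .ofNat 287, .negSucc 117, .negSucc 184, .ofNat 0, .ofNat 128, .ofNat 27, .ofNat 0, .ofNat 0, .ofNat 346, .ofNat 1953, .ofNat 0, .ofNat 0, .ofNat 339472159477813956500721879282805163163648, .ofNat 0, .ofNat 0, .ofNat 0, .ofNat 0, .ofNat 0, .ofNat 0,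 .ofNat 0, .ofNat 7945847962694860377492916399643108678041600, .ofNat 0, .ofNat 0, .ofNat 0, .ofNat 7999639155498503640005990768993435174043648, .ofNat 0⟩)
    (by decide +kernel)
theorem L02891 : Good (Phi V5.P V5.D 1 (-1)) ⟨3, 5, 2, 1, 1, 1, 3, 1, 3, 0⟩ :=
  out_sound (S := T5.ds_pm) T5.ok_pm (w := 43) (j := 3) (by decide +kernel)
theorem L02892 : Good (Phi V5.P V5.D 1 (-1)) ⟨2, 3, 2, 1, 1, 1, 3, 1, 3, 0⟩ :=
  out_sound (S := T5.ds_pm) T5.ok_pm (w := 37) (j := 3) (by decide +kernel)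
theorem L02893 : Good (Phi V5.P V5.D 1 (-1)) ⟨3, 4, 2, 1, 2, 2, 2, 1, 3, 0⟩ :=
  leafYS_sound T5.ok_pm T5.Ypm.bz_eq (w := 196) (c := ⟨⟨.ofNat 2075, .ofNat 205, .negSucc 192, .negSucc 213, .negSucc 394, .negSucc 3442⟩, ⟨.negSucc 258, .ofNat 114, .negSucc 141, .ofNat 143, .ofNat 20, .ofNat 432⟩, ⟨.negSucc 1551, .negSucc 190, .ofNat 41, .negSucc 101, .ofNat 610, .ofNat 1732⟩, ⟨.ofNat 4479, .ofNat 33, .negSucc 13, .negSucc 103, .negSucc 854, .negSucc 7608⟩, ⟨.ofNat 736, .negSucc 326, .ofNat 101, .ofNat 1518, .negSucc 85, .negSucc 1515⟩, .ofNat 335, .ofNat 75, .ofNat 0, .ofNat 75, .ofNat 623, .ofNat 0, .ofNat 325, .negSucc 68, .negSucc 287, .ofNat 0, .ofNat 128, .ofNat 79, .ofNat 0, .ofNat 0, .ofNat 423, .ofNat 525, .ofNat 0, .ofNat 0, .ofNat 1693286087131858371387170301673472, .ofNat 0, .ofNat 0, .ofNat 0, .ofNat 36132208531410959530450068787167232, .ofNat 0, .ofNat 0, .ofNat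 0, .ofNat 0, .ofNat 0, .ofNat 0, .ofNat 0, .ofNat 0, .ofNat 0⟩)
    (by decide +kernel)
theorem L02894 : Good (Phi V5.P V5.D 1 (-1)) ⟨4, 8, 2, 1, 3, 6, 2, 1, 4, 0⟩ :=
  leafYS_sound T5.ok_pm T5.Ypm.bz_eq (w := 220) (c := ⟨⟨.ofNat 1730, .ofNat 184, .ofNat 31, .negSucc 28, .negSucc 507, .negSucc 1526⟩, ⟨.negSucc 113, .ofNat 60, .negSucc 152, .ofNat 95, .ofNat 15, .ofNat 157⟩, ⟨.negSucc 1680, .negSucc 83, .ofNat 147, .ofNat 78, .ofNat 828, .ofNat 381⟩, ⟨.ofNat 4202, .ofNat 147, .ofNat 461, .ofNat 31, .negSucc 1285, .negSucc 3478⟩, ⟨.ofNat 2576, .negSucc 19, .ofNat 104, .ofNat 712, .negSucc 972, .negSucc 1364⟩, .ofNat 495, .ofNat 242, .ofNat 0, .ofNat 242, .ofNat 1317, .ofNat 0, .ofNat 318, .negSucc 117, .negSucc 282, .ofNat 0, .ofNat 128, .ofNat 74, .ofNat 0, .ofNat 0, .ofNat 456, .ofNat 1335, .ofNat 0, .ofNat 0, .ofNat 370610723589602234597384325184217939968, .ofNat 0, .ofNat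 0, .ofNat 0, .ofNat 2176028935076698554899913271133293510656, .ofNat 0, .ofNat 0, .ofNat 0, .ofNat 11808640182778199806652486683549308551168, .ofNat 0, .ofNat 0, .ofNat 0, .ofNat 0, .ofNat 0⟩)
    (by decide +kernel)
theorem L02895 : Good (Phi V5.P V5.D 1 (-1)) ⟨4, 9, 2, 1, 3, 6, 2, 1, 4, 0⟩ :=
  leafYS_sound T5.ok_pm T5.Ypm.bz_eq (w := 220) (c := ⟨⟨.ofNat 2253, .ofNat 263, .ofNat 162, .negSucc 20, .negSucc 585, .negSucc 2167⟩, ⟨.ofNat 45, .ofNat 100, .negSucc 183, .ofNat 87, .negSucc 39, .ofNat 10⟩, ⟨.negSucc 1959, .negSucc 118, .ofNat 114, .ofNat 73, .ofNat 906, .ofNat 695⟩, ⟨.ofNat 4828, .ofNat 280, .ofNat 771, .ofNat 22, .negSucc 1261, .negSucc 4463⟩, ⟨.ofNat 2688, .ofNat 3, .ofNat 22, .ofNat 767, .negSucc 884, .negSucc 1648⟩, .ofNat 447, .ofNat 155, .ofNat 0, .ofNat 155, .ofNat 1140, .ofNat 0, .ofNat 330, .negSucc 63, .negSucc 263, .ofNat 0, .ofNat 128, .ofNat 52,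 .ofNat 0, .ofNat 0, .ofNat 365, .ofNat 880, .ofNat 0, .ofNat 0, .ofNat 469839653111180111989296530648473796608, .ofNat 0, .ofNat 0, .ofNat 0, .ofNat 7718263737356980692005339157799442055168, .ofNat 0, .ofNat 0, .ofNat 0, .ofNat 12440821596386731268140795261693001203712, .ofNat 0, .ofNat 0, .ofNat 0, .ofNat 0, .ofNat 0⟩)
    (by decide +kernel)
theorem L02896 : Good (Phi V5.P V5.D 1 (-1)) ⟨4, 8, 2, 1, 3, 7, 2, 1, 4, 0⟩ :=
  leafYS_sound T5.ok_pm T5.Ypm.bz_eq (w := 220) (c := ⟨⟨.ofNat 1422, .ofNat 214, .ofNat 226, .negSucc 410, .negSucc 443, .negSucc 1285⟩, ⟨.ofNat 14, .ofNat 51, .negSucc 155, .ofNat 45, .negSucc 90, .ofNat 179⟩, ⟨.negSucc 1177, .negSucc 169, .negSucc 125, .ofNat 611, .ofNat 605, .ofNat 21⟩, ⟨.ofNat 3758, .ofNat 250, .ofNat 893, .negSucc 1111, .negSucc 1394, .negSucc 2873⟩, ⟨.ofNat 3551, .ofNat 43, .ofNat 97, .negSucc 777, .negSucc 1979, .negSucc 844⟩, .ofNat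 495, .ofNat 242, .ofNat 0, .ofNat 242, .ofNat 1317, .ofNat 0, .ofNat 486, .negSucc 123, .negSucc 393, .ofNat 0, .ofNat 128, .ofNat 67, .ofNat 0, .ofNat 0, .ofNat 486, .ofNat 730, .ofNat 0, .ofNat 0, .ofNat 262796879578403431829098485142507225088, .ofNat 0, .ofNat 0, .ofNat 0, .ofNat 17704579271459401288443482586639839002624, .ofNat 0, .ofNat 0, .ofNat 0, .ofNat 6423609998053926702159579633095278592000, .ofNat 0, .ofNat 0, .ofNat 0, .ofNat 10710368669037660807681646038935014473728, .ofNat 0⟩)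
    (by decide +kernel)
theorem L02897 : Good (Phi V5.P V5.D 1 (-1)) ⟨4, 9, 2, 1, 3, 7, 3, 2, 4, 0⟩ :=
  leafYS_sound T5.ok_pm T5.Ypm.bz_eq (w := 224) (c := ⟨⟨.ofNat 1847, .ofNat 474, .ofNat 597, .negSucc 426, .negSucc 141, .negSucc 1750⟩, ⟨.ofNat 148, .ofNat 69, .negSucc 153, .ofNat 8, .negSucc 84, .ofNat 62⟩, ⟨.negSucc 1503, .negSucc 318, .negSucc 346, .ofNat 776, .ofNat 285, .ofNat 223⟩, ⟨.ofNat 4147, .ofNat 698, .ofNat 1571, .negSucc 961, .negSucc 398, .negSucc 3565⟩, ⟨.ofNat 3474, .negSucc 31, .ofNat 149, .negSucc 499, .negSucc 908, .negSucc 938⟩, .ofNat 447, .ofNat 155, .ofNat 0, .ofNat 155, .ofNat 1140, .ofNat 0, .ofNat 520, .negSucc 62, .negSucc 670, .ofNat 0, .ofNat 128, .ofNat 61, .ofNat 0, .ofNat 0, .ofNat 689, .ofNat 1176, .ofNat 0, .ofNat 0, .ofNat 14180238290104197690384401117987563634688, .ofNat 0, .ofNat 0, .ofNat 0, .ofNat 446123661912110353654695163429111111614464,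 .ofNat 0, .ofNat 0, .ofNat 0, .ofNat 207864258094156085777937050603116950454272, .ofNat 0, .ofNat 0, .ofNat 0, .ofNat 587189507358365270820340901838603404967936, .ofNat 0⟩)
    (by decide +kernel)
theorem L02898 : Good (Phi V5.P V5.D 1 (-1)) ⟨4, 9, 2, 1, 3, 7, 3, 3, 4, 0⟩ :=
  leafYS_sound T5.ok_pm T5.Ypm.bz_eq (w := 225) (c := ⟨⟨.ofNat 1956, .ofNat 285, .ofNat 104, .negSucc 536, .negSucc 604, .negSucc 1887⟩, ⟨.ofNat 101, .ofNat 81, .negSucc 135, .negSucc 52, .negSucc 26, .ofNat 41⟩, ⟨.negSucc 1340, .negSucc 111, .ofNat 56, .ofNat 628, .ofNat 507, .ofNat 403⟩, ⟨.ofNat 4303, .ofNat 421, .ofNat 373, .negSucc 1219, .negSucc 1328, .negSucc 3892⟩, ⟨.ofNat 3056, .ofNat 233, .negSucc 511, .negSucc 1075, .negSucc 881, .negSucc 1311⟩, .ofNat 476, .ofNat 144, .ofNat 0, .ofNat 144, .ofNat 1545, .ofNat 0, .ofNat 520, .negSucc 7, .negSucc 510, .ofNat 0, .ofNat 128, .ofNat 39, .ofNat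 0, .ofNat 0, .ofNat 542, .ofNat 1128, .ofNat 0, .ofNat 0, .ofNat 11152104654092508509162935395181041549312, .ofNat 0, .ofNat 0, .ofNat 0, .ofNat 594786658258904498282102979938866912296960, .ofNat 0, .ofNat 0, .ofNat 0, .ofNat 365185621469972157497800386218825942564864, .ofNat 0, .ofNat 0, .ofNat 0, .ofNat 428428098908403037632013502424837942935552, .ofNat 0⟩)
    (by decide +kernel)
theorem L02899 : Good (Phi V5.P V5.D 1 (-1)) ⟨4, 8, 2, 1, 2, 3, 2, 1, 5, 2⟩ :=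
  leafYS_sound T5.ok_pm T5.Ypm.bz_eq (w := 210) (c := ⟨⟨.ofNat 109, .negSucc 54, .ofNat 174, .negSucc 196, .negSucc 358, .negSucc 1024⟩, ⟨.ofNat 37, .ofNat 27, .ofNat 108, .ofNat 134, .negSucc 97, .ofNat 217⟩, ⟨.negSucc 1094, .negSucc 70, .negSucc 118, .ofNat 337, .ofNat 764, .ofNat 567⟩, ⟨.ofNat 407, .negSucc 63, .ofNat 588, .negSucc 200, .negSucc 1126, .negSucc 2170⟩, ⟨.ofNat 1308, .ofNat 165, .ofNat 103, .ofNat 1054, .negSucc 1744, .negSucc 29⟩, .ofNat 544, .ofNat 308, .ofNat 0, .ofNat 308, .ofNat 1754, .ofNat 0, .ofNat 346, .negSucc 127, .negSucc 187, .ofNat 0, .ofNat 114, .ofNat 39, .ofNat 0, .ofNat 0, .ofNat 289, .ofNat 613, .ofNat 0, .ofNat 0, .ofNat 433937311551156928655036714808508416, .ofNat 0, .ofNat 0, .ofNat 0, .ofNat 24322235088156455583754716139361402880, .ofNat 0, .ofNat 0, .ofNat 0, .ofNat 0, .ofNat 0, .ofNat 0, .ofNat 0, .ofNat 10204570350694571388108967909867388928,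 .ofNat 0⟩)
    (by decide +kernel)
theorem L02900 : Good (Phi V5.P V5.D 1 (-1)) ⟨4, 9, 3, 2, 2, 3, 2, 1, 5, 2⟩ :=
  leafYS_sound T5.ok_pm T5.Ypm.bz_eq (w := 212) (c := ⟨⟨.ofNat 103, .negSucc 112, .ofNat 29, .negSucc 12, .negSucc 617, .negSucc 1109⟩, ⟨.ofNat 116, .ofNat 32, .ofNat 83, .ofNat 108, .negSucc 121, .ofNat 125⟩, ⟨.negSucc 1188, .ofNat 12, .negSucc 53, .ofNat 286, .ofNat 910, .ofNat 627⟩, ⟨.ofNat 343, .negSucc 157, .ofNat 265, .ofNat 9, .negSucc 1479, .negSucc 2230⟩, ⟨.ofNat 1332, .ofNat 331, .ofNat 346, .ofNat 844, .negSucc 1755, .ofNat 15⟩, .ofNat 437, .ofNat 107, .ofNat 0, .ofNat 107, .ofNat 1217, .ofNat 0, .ofNat 545, .negSucc 58, .negSucc 236, .ofNat 0, .ofNat 128, .ofNat 29, .ofNat 0, .ofNat 0, .ofNat 317, .ofNat 279, .ofNat 0, .ofNat 0, .ofNat 645895405899941433183676507157954560, .ofNat 0, .ofNat 0, .ofNat 0, .ofNat 74670182572549612115037466122631774208,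 .ofNat 0, .ofNat 0, .ofNat 0, .ofNat 0, .ofNat 0, .ofNat 0, .ofNat 0, .ofNat 21442937970037264209981806911623790592, .ofNat 0⟩)
    (by decide +kernel)
theorem L02901 : Good (Phi V5.P V5.D 1 (-1)) ⟨4, 9, 3, 3, 2, 3, 2, 1, 5, 2⟩ :=
  out_sound (S := T5.ds_pm) T5.ok_pm (w := 51) (j := 3) (by decide +kernel)
theorem L02902 : Good (Phi V5.P V5.D 1 (-1)) ⟨4, 8, 2, 1, 2, 3, 2, 1, 5, 3⟩ :=
  leafYS_sound T5.ok_pm T5.Ypm.bz_eq (w := 210) (c := ⟨⟨.negSucc 817, .negSucc 203, .negSucc 67, .negSucc 138, .negSucc 420, .negSucc 684⟩, ⟨.ofNat 191, .negSucc 13, .ofNat 324, .ofNat 137, .negSucc 77, .ofNat 139⟩, ⟨.negSucc 562, .ofNat 86, .negSucc 22, .ofNat 228, .ofNat 813, .ofNat 514⟩, ⟨.negSucc 1672, .negSucc 287, .ofNat 91, .negSucc 125, .negSucc 1197, .negSucc 1382⟩, ⟨.ofNat 1168, .ofNat 23, .ofNat 134, .ofNat 1057, .negSucc 1646, .ofNat 225⟩, .ofNat 575, .ofNat 363, .ofNat 0, .ofNat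 363, .ofNat 2110, .ofNat 0, .ofNat 369, .negSucc 127, .negSucc 146, .ofNat 0, .ofNat 115, .ofNat 31, .ofNat 0, .ofNat 0, .ofNat 262, .ofNat 409, .ofNat 0, .ofNat 0, .ofNat 294296441276474119485215219002638336, .ofNat 0, .ofNat 0, .ofNat 0, .ofNat 0, .ofNat 0, .ofNat 0, .ofNat 0, .ofNat 0, .ofNat 0, .ofNat 0, .ofNat 0, .ofNat 8553030647171330640533604633004736512, .ofNat 0⟩)
    (by decide +kernel)
theorem L02903 : Good (Phi V5.P V5.D 1 (-1)) ⟨4, 9, 2, 1, 2, 3, 2, 1, 5, 3⟩ :=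
  leafYS_sound T5.ok_pm T5.Ypm.bz_eq (w := 210) (c := ⟨⟨.negSucc 1121, .negSucc 119, .ofNat 78, .ofNat 18, .negSucc 750, .negSucc 606⟩, ⟨.ofNat 220, .negSucc 13, .ofNat 259, .ofNat 146, .negSucc 118, .ofNat 88⟩, ⟨.negSucc 502, .ofNat 76, .negSucc 66, .ofNat 141, .ofNat 992, .ofNat 572⟩, ⟨.negSucc 2180, .negSucc 27, .ofNat 250, .ofNat 80, .negSucc 1643, .negSucc 1241⟩, ⟨.ofNat 1196, .ofNat 409, .negSucc 579, .ofNat 1113, .negSucc 1680, .ofNat 89⟩, .ofNat 501, .ofNat 176, .ofNat 0, .ofNat 176, .ofNat 1842, .ofNat 0, .ofNat 385, .negSucc 81, .negSucc 145, .ofNat 0, .ofNat 128, .ofNat 21, .ofNat 0, .ofNat 0, .ofNat 238, .ofNat 373, .ofNat 0, .ofNat 0, .ofNat 421346285960198306920336592449044480, .ofNat 0, .ofNat 0, .ofNat 0, .ofNat 27976246340725840821035385372704505856, .ofNat 0, .ofNat 0, .ofNat 0, .ofNat 0, .ofNat 0, .ofNat 0, .ofNat 0, .ofNat 12107930614166739300875950337321598976,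 .ofNat 0⟩)
    (by decide +kernel)
theorem L02904 : Good (Phi V5.P V5.D 1 (-1)) ⟨3, 5, 2, 1, 1, 1, 2, 1, 3, 0⟩ :=
  out_sound (S := T5.ds_pm) T5.ok_pm (w := 43) (j := 3) (by decide +kernel)
theorem L02905 : Good (Phi V5.P V5.D 1 (-1)) ⟨2, 3, 2, 1, 1, 1, 2, 1, 3, 0⟩ :=
  out_sound (S := T5.ds_pm) T5.ok_pm (w := 37) (j := 3) (by decide +kernel)
theorem L02906 : Good (Phi V5.P V5.D 1 (-1)) ⟨3, 4, 2, 1, 2, 2, 4, 0, 4, 2⟩ :=
  leafYS_sound T5.ok_pm T5.Ypm.bz_eq (w := 213) (c := ⟨⟨.negSucc 1308, .negSucc 204, .negSucc 111, .negSucc 268, .negSucc 60, .negSucc 365⟩, ⟨.ofNat 105, .negSucc 122, .ofNat 382, .ofNat 219, .ofNat 30, .ofNat 33⟩, ⟨.negSucc 279, .negSucc 65, .ofNat 11, .negSucc 795, .ofNat 359, .ofNat 665⟩, ⟨.negSucc 3086, .ofNat 51, .negSucc 52, .negSucc 294, .negSucc 98, .negSucc 785⟩, ⟨.negSucc 818, .ofNat 216, .ofNat 398, .ofNat 1761, .ofNat 45, .negSucc 204⟩, .ofNat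 454, .ofNat 145, .ofNat 0, .ofNat 145, .ofNat 1259, .ofNat 0, .ofNat 222, .negSucc 102, .negSucc 53, .ofNat 0, .ofNat 128, .ofNat 19, .ofNat 0, .ofNat 0, .ofNat 245, .ofNat 30104, .ofNat 3410977514422689892736706093485398180233216, .ofNat 0, .ofNat 37122809886416993008319526417345806336, .ofNat 0, .ofNat 9754247396012350456858624952980249476333568, .ofNat 0, .ofNat 174601373629313991117125446659888644096, .ofNat 0, .ofNat 14525607470196116853211105684995410256461824, .ofNat 0, .ofNat 992863714503065369844741503426305720320, .ofNat 0, .ofNat 12436297358682556930769001414507935163219968, .ofNat 0, .ofNat 0, .ofNat 0⟩)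
    (by decide +kernel)
theorem L02907 : Good (Phi V5.P V5.D 1 (-1)) ⟨3, 4, 2, 1, 2, 2, 4, 1, 4, 2⟩ :=
  leafYS_sound T5.ok_pm T5.Ypm.bz_eq (w := 211) (c := ⟨⟨.negSucc 1352, .negSucc 253, .negSucc 83, .negSucc 247, .negSucc 12, .negSucc 361⟩, ⟨.ofNat 156, .negSucc 152, .ofNat 362, .ofNat 186, .negSucc 6, .ofNat 64⟩, ⟨.negSucc 36, .negSucc 49, .ofNat 11, .negSucc 629, .ofNat 232, .ofNat 605⟩, ⟨.negSucc 3152, .negSucc 33, .negSucc 35, .negSucc 279, .negSucc 18, .negSucc 736⟩, ⟨.negSucc 542, .ofNat 87, .ofNat 269, .ofNat 1418, .negSucc 33, .negSucc 68⟩, .ofNat 470, .ofNat 198, .ofNat 0, .ofNat 198, .ofNat 1235, .ofNat 0, .ofNat 309, .negSucc 116, .negSucc 84, .ofNat 0, .ofNat 128, .ofNat 34, .ofNat 0, .ofNat 0, .ofNat 364, .ofNat 11738, .ofNat 0, .ofNat 0, .ofNat 29803074122726265269245025702431948800, .ofNat 0, .ofNat 0, .ofNat 0, .ofNat 0, .ofNat 0, .ofNat 0, .ofNat 0,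 .ofNat 1192810438387701012383138417793914896384, .ofNat 0, .ofNat 0, .ofNat 0, .ofNat 0, .ofNat 0⟩)
    (by decide +kernel)
theorem L02908 : Good (Phi V5.P V5.D 1 (-1)) ⟨3, 4, 2, 1, 2, 2, 3, 1, 4, 2⟩ :=
  leafYS_sound T5.ok_pm T5.Ypm.bz_eq (w := 206) (c := ⟨⟨.negSucc 1306, .negSucc 291, .negSucc 24, .negSucc 292, .negSucc 66, .negSucc 353⟩, ⟨.ofNat 174, .negSucc 134, .ofNat 341, .ofNat 158, .ofNat 5, .ofNat 34⟩, ⟨.ofNat 64, .ofNat 21, .negSucc 28, .negSucc 440, .ofNat 453, .ofNat 573⟩, ⟨.negSucc 3048, .negSucc 83, .ofNat 30, .negSucc 444, .negSucc 106, .negSucc 715⟩, ⟨.negSucc 397, .ofNat 251, .ofNat 166, .ofNat 986, .ofNat 50, .negSucc 79⟩, .ofNat 532, .ofNat 256, .ofNat 0, .ofNat 256, .ofNat 1972, .ofNat 0, .ofNat 187, .negSucc 112, .negSucc 68, .ofNat 0, .ofNat 128, .ofNat 19, .ofNat 0, .ofNat 0, .ofNat 250, .ofNat 3023, .ofNat 0, .ofNat 0, .ofNat 1051297091120171968076466254101086208,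 .ofNat 0, .ofNat 0, .ofNat 0, .ofNat 30388659708356692212980734046632935424, .ofNat 0, .ofNat 0, .ofNat 0, .ofNat 62563664998580215531455721081025855488, .ofNat 0, .ofNat 0, .ofNat 0, .ofNat 0, .ofNat 0⟩)
    (by decide +kernel)
theorem L02909 : Good (Phi V5.P V5.D 1 (-1)) ⟨3, 4, 2, 1, 2, 2, 3, 0, 4, 3⟩ :=
  leafYS_sound T5.ok_pm T5.Ypm.bz_eq (w := 208) (c := ⟨⟨.negSucc 1654, .negSucc 265, .negSucc 52, .negSucc 183, .negSucc 88, .ofNat 74⟩, ⟨.ofNat 222, .negSucc 158, .ofNat 364, .ofNat 140, .ofNat 14, .negSucc 45⟩, ⟨.ofNat 226, .negSucc 61, .negSucc 19, .negSucc 476, .ofNat 488, .ofNat 307⟩, ⟨.negSucc 3754, .ofNat 20, .negSucc 58, .negSucc 249, .negSucc 188, .ofNat 144⟩, ⟨.negSucc 420, .ofNat 163, .ofNat 147, .ofNat 1037, .negSucc 14, .negSucc 273⟩, .ofNat 533, .ofNat 259, .ofNat 0, .ofNat 259, .ofNat 1955, .ofNat 0, .ofNat 262, .negSucc 101, .negSucc 44, .ofNat 0, .ofNat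 128, .ofNat 15, .ofNat 0, .ofNat 0, .ofNat 277, .ofNat 19342, .ofNat 38555557293451203129300736013607706296320, .ofNat 0, .ofNat 3159927294220083528402096363097030656, .ofNat 0, .ofNat 0, .ofNat 0, .ofNat 0, .ofNat 0, .ofNat 1349067159310981739548885216268927000117248, .ofNat 0, .ofNat 167001624668286446503354285096293105664, .ofNat 0, .ofNat 1241574737194762270262326118020608014942208, .ofNat 0, .ofNat 0, .ofNat 0⟩)
    (by decide +kernel)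
theorem L02910 : Good (Phi V5.P V5.D 1 (-1)) ⟨3, 4, 2, 1, 2, 2, 3, 1, 4, 3⟩ :=
  leafYS_sound T5.ok_pm T5.Ypm.bz_eq (w := 207) (c := ⟨⟨.negSucc 1722, .negSucc 287, .negSucc 35, .negSucc 182, .negSucc 48, .ofNat 45⟩, ⟨.ofNat 237, .negSucc 151, .ofNat 365, .ofNat 107, .ofNat 5, .negSucc 13⟩, ⟨.ofNat 636, .ofNat 39, .negSucc 2, .negSucc 367, .ofNat 339, .ofNat 260⟩, ⟨.negSucc 3896, .negSucc 0, .negSucc 57, .negSucc 250, .negSucc 102, .ofNat 78⟩, ⟨.negSucc 356, .ofNat 174, .ofNat 139, .ofNat 743, .negSucc 50, .negSucc 71⟩, .ofNat 541, .ofNat 280, .ofNat 0, .ofNat 280, .ofNat 1984, .ofNat 0, .ofNat 270, .negSucc 101, .negSucc 60, .ofNat 0, .ofNat 128, .ofNat 18, .ofNat 0, .ofNat 0, .ofNat 352, .ofNat 5118, .ofNat 0, .ofNat 0, .ofNat 1649481022183086836611655236031873024, .ofNat 0, .ofNat 0, .ofNat 0, .ofNat 0, .ofNat 0, .ofNat 0, .ofNat 0, .ofNat 136286816050574477202475116024526012416,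 .ofNat 0, .ofNat 0, .ofNat 0, .ofNat 0, .ofNat 0⟩)
    (by decide +kernel)
theorem L02911 : Good (Phi V5.P V5.D 1 (-1)) ⟨3, 5, 2, 1, 2, 2, 2, 0, 3, 1⟩ :=
  out_sound (S := T5.ds_pm) T5.ok_pm (w := 43) (j := 3) (by decide +kernel)
theorem L02912 : Good (Phi V5.P V5.D 1 (-1)) ⟨2, 3, 2, 1, 2, 2, 2, 0, 3, 1⟩ :=
  out_sound (S := T5.ds_pm) T5.ok_pm (w := 37) (j := 3) (by decide +kernel)
theorem L02913 : Good (Phi V5.P V5.D 1 (-1)) ⟨3, 4, 2, 1, 4, 12, 5, 0, 5, 4⟩ :=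
  leafYS_sound T5.ok_pm T5.Ypm.bz_eq (w := 252) (c := ⟨⟨.negSucc 1579, .negSucc 200, .negSucc 283, .ofNat 15, .ofNat 25, .negSucc 273⟩, ⟨.ofNat 348, .negSucc 17, .ofNat 480, .ofNat 107, .negSucc 36, .ofNat 14⟩, ⟨.negSucc 1034, .negSucc 110, .negSucc 35, .negSucc 9, .ofNat 186, .ofNat 462⟩, ⟨.negSucc 3330, .negSucc 92, .negSucc 30, .ofNat 282, .ofNat 37, .negSucc 683⟩, ⟨.ofNat 1260, .ofNat 437, .ofNat 1039, .ofNat 1241, .negSucc 192, .negSucc 353⟩, .ofNat 333, .ofNat 59, .ofNat 0, .ofNat 59, .ofNat 635, .ofNat 0, .ofNat 136, .negSucc 98, .negSucc 68, .ofNat 0, .ofNat 128, .ofNat 28, .ofNat 0, .ofNat 0, .ofNat 204, .ofNat 141272, .ofNat 22949181179096926325777199722559029807320253474013184, .ofNat 0, .ofNat 16602637786666399841644927000574848149778348376064, .ofNat 0, .ofNat 26455862438334369539435327333781631722330171274952704, .ofNat 0, .ofNat 28657654149154497412481672514621483082710511517696,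 .ofNat 0, .ofNat 22516536486007383467928924268220060674625603668803584, .ofNat 0, .ofNat 77395878010437341824522715359967459799707206811648, .ofNat 0, .ofNat 8761750716441063147546720426962995091452605071622144, .ofNat 0, .ofNat 0, .ofNat 0⟩)
    (by decide +kernel)
theorem L02914 : Good (Phi V5.P V5.D 1 (-1)) ⟨4, 8, 2, 1, 4, 12, 5, 1, 5, 4⟩ :=
  leafYS_sound T5.ok_pm T5.Ypm.bz_eq (w := 254) (c := ⟨⟨.negSucc 1560, .negSucc 102, .negSucc 245, .negSucc 1, .ofNat 1, .negSucc 247⟩, ⟨.ofNat 316, .negSucc 11, .ofNat 477, .ofNat 101, .negSucc 17, .ofNat 29⟩, ⟨.negSucc 851, .negSucc 52, .negSucc 38, .ofNat 12, .ofNat 172, .ofNat 412⟩, ⟨.negSucc 3307, .negSucc 18, .ofNat 14, .ofNat 211, .negSucc 30, .negSucc 561⟩, ⟨.ofNat 1152, .ofNat 251, .ofNat 951, .ofNat 1089, .negSucc 172, .negSucc 230⟩, .ofNat 495, .ofNat 242, .ofNat 0, .ofNat 242, .ofNat 1317, .ofNat 0, .ofNat 140, .negSucc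 127, .negSucc 42, .ofNat 0, .ofNat 124, .ofNat 17, .ofNat 0, .ofNat 0, .ofNat 159, .ofNat 53598, .ofNat 0, .ofNat 0, .ofNat 2199554203645329350364230413887618332666946912256, .ofNat 0, .ofNat 0, .ofNat 0, .ofNat 0, .ofNat 0, .ofNat 0, .ofNat 0, .ofNat 30623936729486040815524688555982005702500850597888, .ofNat 0, .ofNat 0, .ofNat 0, .ofNat 0, .ofNat 0⟩)
    (by decide +kernel)
theorem L02915 : Good (Phi V5.P V5.D 1 (-1)) ⟨4, 9, 2, 1, 4, 12, 5, 1, 5, 4⟩ :=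
  leafYS_sound T5.ok_pm T5.Ypm.bz_eq (w := 255) (c := ⟨⟨.negSucc 1659, .negSucc 114, .negSucc 267, .ofNat 24, .negSucc 20, .negSucc 249⟩, ⟨.ofNat 301, .negSucc 9, .ofNat 486, .ofNat 112, .negSucc 10, .negSucc 0⟩, ⟨.negSucc 919, .negSucc 32, .negSucc 30, .ofNat 27, .ofNat 181, .ofNat 418⟩, ⟨.negSucc 3286, .negSucc 68, .negSucc 101, .ofNat 158, .negSucc 50, .negSucc 530⟩, ⟨.ofNat 1374, .ofNat 189, .ofNat 922, .ofNat 1061, .negSucc 124, .negSucc 243⟩, .ofNat 447, .ofNat 155, .ofNat 0, .ofNat 155, .ofNat 1140, .ofNat 0, .ofNat 208, .negSucc 110, .negSucc 53, .ofNat 0, .ofNat 128, .ofNat 20, .ofNat 0, .ofNat 0, .ofNat 191, .ofNat 73986, .ofNat 0, .ofNat 0, .ofNat 4898969830716658320208834637733446329530002178048, .ofNat 0, .ofNat 0, .ofNat 0, .ofNat 36127154853609540416272325058057603972145545740288, .ofNat 0, .ofNat 0, .ofNat 0, .ofNat 78704742985350863681527640350142191921010634129408,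 .ofNat 0, .ofNat 0, .ofNat 0, .ofNat 2651550096713811069120781350026752623785698918400, .ofNat 0⟩)
    (by decide +kernel)
theorem L02916 : Good (Phi V5.P V5.D 1 (-1)) ⟨3, 4, 2, 1, 4, 13, 5, 0, 5, 4⟩ :=
  leafYS_sound T5.ok_pm T5.Ypm.bz_eq (w := 251) (c := ⟨⟨.negSucc 1573, .negSucc 141, .negSucc 321, .ofNat 61, .ofNat 1, .negSucc 228⟩, ⟨.ofNat 412, .ofNat 49, .ofNat 566, .ofNat 132, .negSucc 29, .negSucc 13⟩, ⟨.negSucc 965, .negSucc 128, .negSucc 120, .ofNat 79, .ofNat 156, .ofNat 443⟩, ⟨.negSucc 3172, .negSucc 67, .ofNat 237, .ofNat 400, .ofNat 19, .negSucc 567⟩, ⟨.ofNat 2316, .ofNat 582, .ofNat 1613, .ofNat 1483, .negSucc 171, .negSucc 497⟩, .ofNat 458, .ofNat 156, .ofNat 0, .ofNat 156, .ofNat 1263, .ofNat 0, .ofNat 199, .negSucc 108, .negSucc 84, .ofNat 0, .ofNat 128, .ofNat 22, .ofNat 0, .ofNat 0, .ofNat 290, .ofNat 68969, .ofNat 9691401292163149727382501196030067265729868431622144,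 .ofNat 0, .ofNat 5693095130976077419785755294006122912817558323200, .ofNat 0, .ofNat 0, .ofNat 0, .ofNat 68792972990412414720626410631042513793587305512960, .ofNat 0, .ofNat 13959109290884468145453335157668743030499798348201984, .ofNat 0, .ofNat 155128168400843479162546305849926752580847276130304, .ofNat 0, .ofNat 0, .ofNat 0, .ofNat 31648893677732700363697772547588310671833314623488, .ofNat 0⟩)
    (by decide +kernel)
theorem L02917 : Good (Phi V5.P V5.D 1 (-1)) ⟨4, 8, 2, 1, 4, 13, 5, 1, 5, 4⟩ :=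
  leafYS_sound T5.ok_pm T5.Ypm.bz_eq (w := 254) (c := ⟨⟨.negSucc 1573, .negSucc 81, .negSucc 292, .ofNat 49, .negSucc 10, .negSucc 226⟩, ⟨.ofNat 398, .ofNat 16, .ofNat 537, .ofNat 108, .negSucc 18, .ofNat 6⟩, ⟨.negSucc 816, .negSucc 44, .negSucc 88, .ofNat 75, .ofNat 166, .ofNat 423⟩, ⟨.negSucc 3115, .negSucc 65, .ofNat 200, .ofNat 356, .negSucc 85, .negSucc 559⟩, ⟨.ofNat 2269, .ofNat 239, .ofNat 1379, .ofNat 1302, .negSucc 230, .negSucc 405⟩, .ofNat 591, .ofNat 402, .ofNat 0, .ofNat 402, .ofNat 2126, .ofNat 0, .ofNat 143, .negSucc 127, .negSucc 67, .ofNat 0, .ofNat 115, .ofNat 20, .ofNat 0, .ofNat 0, .ofNat 234, .ofNat 34388, .ofNat 0, .ofNat 0, .ofNat 1819858847516836472604503491010945353022714150912, .ofNat 0, .ofNat 0, .ofNat 0, .ofNat 5167498677599624694040310011837625232332607717376, .ofNat 0, .ofNat 0, .ofNat 0, .ofNat 43617131643281975380231595409092493892031642337280,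 .ofNat 0, .ofNat 0, .ofNat 0, .ofNat 4895050804040326414980488761452959037365648621568, .ofNat 0⟩)
    (by decide +kernel)
theorem L02918 : Good (Phi V5.P V5.D 1 (-1)) ⟨4, 9, 2, 1, 4, 13, 5, 1, 5, 4⟩ :=
  leafYS_sound T5.ok_pm T5.Ypm.bz_eq (w := 254) (c := ⟨⟨.negSucc 1646, .negSucc 78, .negSucc 277, .ofNat 69, .negSucc 25, .negSucc 247⟩, ⟨.ofNat 396, .ofNat 39, .ofNat 587, .ofNat 138, .negSucc 25, .negSucc 15⟩, ⟨.negSucc 863, .negSucc 44, .negSucc 127, .ofNat 88, .ofNat 170, .ofNat 427⟩, ⟨.negSucc 3164, .negSucc 48, .ofNat 195, .ofNat 294, .negSucc 70, .negSucc 541⟩, ⟨.ofNat 2445, .ofNat 288, .ofNat 1547, .ofNat 1327, .negSucc 231, .negSucc 387⟩, .ofNat 436, .ofNat 103, .ofNat 0, .ofNat 103, .ofNat 1213, .ofNat 0, .ofNat 181, .negSucc 95, .negSucc 79, .ofNat 0, .ofNat 128, .ofNat 18, .ofNat 0, .ofNat 0, .ofNat 255, .ofNat 42606, .ofNat 0, .ofNat 0, .ofNat 4919064537607190268361220300565676546470375849984,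 .ofNat 0, .ofNat 0, .ofNat 0, .ofNat 9782508678662271168670664697828592698076669411328, .ofNat 0, .ofNat 0, .ofNat 0, .ofNat 60801049188457653395729707389788335906430505713664, .ofNat 0, .ofNat 0, .ofNat 0, .ofNat 12033799828752691773822937205978228178979945185280, .ofNat 0⟩)
    (by decide +kernel)
theorem L02919 : Good (Phi V5.P V5.D 1 (-1)) ⟨3, 4, 2, 1, 4, 12, 5, 0, 5, 5⟩ :=
  out_sound (S := T5.ds_pm) T5.ok_pm (w := 33) (j := 1) (by decide +kernel)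
theorem L02920 : Good (Phi V5.P V5.D 1 (-1)) ⟨3, 4, 2, 1, 4, 12, 5, 1, 5, 5⟩ :=
  leafYS_sound T5.ok_pm T5.Ypm.bz_eq (w := 251) (c := ⟨⟨.negSucc 1810, .negSucc 212, .negSucc 208, .ofNat 14, .negSucc 16, .negSucc 48⟩, ⟨.ofNat 351, .negSucc 69, .ofNat 480, .ofNat 92, .negSucc 5, .negSucc 28⟩, ⟨.negSucc 444, .negSucc 61, .negSucc 25, .ofNat 32, .ofNat 148, .ofNat 288⟩, ⟨.negSucc 3857, .negSucc 4, .negSucc 21, .ofNat 164, .negSucc 35, .negSucc 152⟩, ⟨.ofNat 977, .ofNat 405, .ofNat 803, .ofNat 917, .negSucc 78, .negSucc 334⟩, .ofNat 457, .ofNat 154, .ofNat 0, .ofNat 154, .ofNat 1264, .ofNat 0, .ofNat 217, .negSucc 100, .negSucc 62, .ofNat 0, .ofNat 128, .ofNat 21, .ofNat 0, .ofNat 0, .ofNat 281, .ofNat 68940, .ofNat 0, .ofNat 0, .ofNat 13727533750172444879904336392484563095064561057792, .ofNat 0, .ofNat 0, .ofNat 0, .ofNat 0, .ofNat 0, .ofNat 0, .ofNat 0, .ofNat 238773464292073852229241674544558483300869497421824,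 .ofNat 0, .ofNat 0, .ofNat 0, .ofNat 0, .ofNat 0⟩)
    (by decide +kernel)
theorem L02921 : Good (Phi V5.P V5.D 1 (-1)) ⟨3, 4, 2, 1, 4, 13, 4, 0, 5, 5⟩ :=
  leafYS_sound T5.ok_pm T5.Ypm.bz_eq (w := 245) (c := ⟨⟨.negSucc 1772, .negSucc 166, .negSucc 250, .ofNat 60, .negSucc 60, .negSucc 44⟩, ⟨.ofNat 437, .negSucc 12, .ofNat 535, .ofNat 101, .negSucc 33, .negSucc 41⟩, ⟨.negSucc 554, .negSucc 61, .negSucc 72, .ofNat 85, .ofNat 303, .ofNat 288⟩, ⟨.negSucc 3587, .negSucc 7, .ofNat 193, .ofNat 286, .negSucc 174, .negSucc 176⟩, ⟨.ofNat 2103, .ofNat 511, .ofNat 1262, .ofNat 1117, .negSucc 347, .negSucc 495⟩, .ofNat 462, .ofNat 163, .ofNat 0, .ofNat 163, .ofNat 1281, .ofNat 0, .ofNat 169, .negSucc 119, .negSucc 30, .ofNat 0, .ofNat 156, .ofNat 9, .ofNat 0, .ofNat 0, .ofNat 128, .ofNat 22933, .ofNat 136624229680776945161536196901696780169432403017728, .ofNat 0, .ofNat 485955509172799176260286130631886928595925336064,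 .ofNat 0, .ofNat 0, .ofNat 0, .ofNat 0, .ofNat 0, .ofNat 0, .ofNat 0, .ofNat 14774037807328885305808262155012202206437901860864, .ofNat 0, .ofNat 157724542969606854015090821704485257518314896228352, .ofNat 0, .ofNat 548578642166462250888799680322257887511789436928, .ofNat 0⟩)
    (by decide +kernel)
theorem L02922 : Good (Phi V5.P V5.D 1 (-1)) ⟨5, 16, 2, 1, 3, 6, 4, 1, 5, 4⟩ :=
  leafYS_sound T5.ok_pm T5.Ypm.bz_eq (w := 238) (c := ⟨⟨.negSucc 1552, .negSucc 32, .negSucc 216, .negSucc 3, .negSucc 0, .negSucc 280⟩, ⟨.ofNat 328, .negSucc 13, .ofNat 458, .ofNat 179, .negSucc 35, .ofNat 32⟩, ⟨.negSucc 688, .negSucc 13, .negSucc 23, .ofNat 57, .ofNat 283, .ofNat 391⟩, ⟨.negSucc 3262, .ofNat 7, .ofNat 110, .ofNat 462, .negSucc 116, .negSucc 663⟩, ⟨.ofNat 1256, .ofNat 114, .ofNat 884, .ofNat 2087, .negSucc 400, .negSucc 329⟩, .ofNat 560, .ofNat 338, .ofNat 0, .ofNat 338, .ofNat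 1819, .ofNat 0, .ofNat 128, .negSucc 130, .negSucc 55, .ofNat 0, .ofNat 118, .ofNat 18, .ofNat 0, .ofNat 0, .ofNat 186, .ofNat 11023, .ofNat 0, .ofNat 0, .ofNat 1337304838530995325786140424955331325460480, .ofNat 0, .ofNat 0, .ofNat 0, .ofNat 0, .ofNat 0, .ofNat 0, .ofNat 0, .ofNat 26930869342812672337004201410628530900828160, .ofNat 0, .ofNat 0, .ofNat 0, .ofNat 0, .ofNat 0⟩)
    (by decide +kernel)
theorem L02923 : Good (Phi V5.P V5.D 1 (-1)) ⟨5, 17, 2, 1, 3, 6, 4, 1, 5, 4⟩ :=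
  leafYS_sound T5.ok_pm T5.Ypm.bz_eq (w := 239) (c := ⟨⟨.negSucc 1610, .negSucc 60, .negSucc 221, .ofNat 32, .negSucc 19, .negSucc 272⟩, ⟨.ofNat 301, .negSucc 1, .ofNat 491, .ofNat 191, .negSucc 33, .ofNat 23⟩, ⟨.negSucc 701, .negSucc 3, .negSucc 53, .ofNat 90, .ofNat 274, .ofNat 400⟩, ⟨.negSucc 3315, .negSucc 34, .ofNat 99, .ofNat 410, .negSucc 111, .negSucc 603⟩, ⟨.ofNat 1233, .ofNat 113, .ofNat 965, .ofNat 2075, .negSucc 382, .negSucc 240⟩, .ofNat 583, .ofNat 392, .ofNat 0, .ofNat 392, .ofNat 2000, .ofNat 0, .ofNat 286, .negSucc 127, .negSucc 78, .ofNat 0, .ofNat 115, .ofNat 26, .ofNat 0, .ofNat 0, .ofNat 256, .ofNat 14154, .ofNat 0, .ofNat 0, .ofNat 2289693065709665003247678107212468656799744, .ofNat 0, .ofNat 0, .ofNat 0, .ofNat 0, .ofNat 0, .ofNat 0, .ofNat 0, .ofNat 41632740360338522402404824834688245708095488, .ofNat 0, .ofNat 0, .ofNat 0, .ofNat 3494562042340861769412883630101910700163072,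 .ofNat 0⟩)
    (by decide +kernel)
theorem L02924 : Good (Phi V5.P V5.D 1 (-1)) ⟨4, 9, 2, 1, 3, 6, 4, 1, 5, 4⟩ :=
  leafYS_sound T5.ok_pm T5.Ypm.bz_eq (w := 235) (c := ⟨⟨.negSucc 1674, .negSucc 117, .negSucc 245, .ofNat 70, .negSucc 55, .negSucc 263⟩, ⟨.ofNat 298, .negSucc 14, .ofNat 480, .ofNat 215, .negSucc 24, .ofNat 1⟩, ⟨.negSucc 745, .negSucc 10, .negSucc 82, .ofNat 118, .ofNat 310, .ofNat 406⟩, ⟨.negSucc 3311, .negSucc 82, .ofNat 38, .ofNat 325, .negSucc 145, .negSucc 546⟩, ⟨.ofNat 1359, .ofNat 147, .ofNat 871, .ofNat 2015, .negSucc 308, .negSucc 226⟩, .ofNat 447, .ofNat 155, .ofNat 0, .ofNat 155, .ofNat 1140, .ofNat 0, .ofNat 200, .negSucc 105, .negSucc 66, .ofNat 0, .ofNat 128, .ofNat 22, .ofNat 0, .ofNat 0, .ofNat 204, .ofNat 14132, .ofNat 0, .ofNat 0, .ofNat 13118444792166077532121187944832901673123840, .ofNat 0, .ofNat 0, .ofNat 0, .ofNat 88231623665056350535431465851723499003969536,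 .ofNat 0, .ofNat 0, .ofNat 0, .ofNat 229129015239065222366169518798866724723621888, .ofNat 0, .ofNat 0, .ofNat 0, .ofNat 20407835000095013634988461292697271482187776, .ofNat 0⟩)
    (by decide +kernel)
theorem L02925 : Good (Phi V5.P V5.D 1 (-1)) ⟨5, 16, 2, 1, 3, 6, 4, 1, 5, 5⟩ :=
  leafYS_sound T5.ok_pm T5.Ypm.bz_eq (w := 239) (c := ⟨⟨.negSucc 1820, .negSucc 53, .negSucc 201, .ofNat 13, .negSucc 32, .negSucc 46⟩, ⟨.ofNat 346, .negSucc 12, .ofNat 483, .ofNat 152, .negSucc 10, .negSucc 17⟩, ⟨.negSucc 275, .negSucc 4, .negSucc 33, .ofNat 80, .ofNat 248, .ofNat 270⟩, ⟨.negSucc 3955, .negSucc 8, .ofNat 109, .ofNat 449, .negSucc 103, .negSucc 179⟩, ⟨.ofNat 908, .ofNat 101, .ofNat 857, .ofNat 1832, .negSucc 207, .negSucc 329⟩, .ofNat 566, .ofNat 352, .ofNat 0, .ofNat 352, .ofNat 1812, .ofNat 0, .ofNat 159, .negSucc 127, .negSucc 44, .ofNat 0, .ofNat 124, .ofNat 15, .ofNat 0,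 .ofNat 0, .ofNat 184, .ofNat 16188, .ofNat 0, .ofNat 0, .ofNat 2029879736323569761270454024445658226753536, .ofNat 0, .ofNat 0, .ofNat 0, .ofNat 0, .ofNat 0, .ofNat 0, .ofNat 0, .ofNat 54349363414210708120777189896783068785541120, .ofNat 0, .ofNat 0, .ofNat 0, .ofNat 0, .ofNat 0⟩)
    (by decide +kernel)
theorem L02926 : Good (Phi V5.P V5.D 1 (-1)) ⟨5, 17, 2, 1, 3, 6, 4, 1, 5, 5⟩ :=
  leafYS_sound T5.ok_pm T5.Ypm.bz_eq (w := 239) (c := ⟨⟨.negSucc 1881, .negSucc 51, .negSucc 191, .ofNat 40, .negSucc 47, .negSucc 54⟩, ⟨.ofNat 328, .negSucc 10, .ofNat 493, .ofNat 163, .negSucc 13, .negSucc 18⟩, ⟨.negSucc 302, .negSucc 2, .negSucc 29, .ofNat 92, .ofNat 269, .ofNat 271⟩, ⟨.negSucc 3900, .ofNat 11, .ofNat 62, .ofNat 384, .negSucc 150, .negSucc 161⟩, ⟨.ofNat 1062, .ofNat 124, .ofNat 824, .ofNat 1774, .negSucc 236, .negSucc 286⟩, .ofNat 579, .ofNat 371, .ofNat 0, .ofNat 371, .ofNat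 2304, .ofNat 0, .ofNat 146, .negSucc 125, .negSucc 46, .ofNat 0, .ofNat 128, .ofNat 13, .ofNat 0, .ofNat 0, .ofNat 190, .ofNat 17252, .ofNat 0, .ofNat 0, .ofNat 2747911015745772349181444061992840329166848, .ofNat 0, .ofNat 0, .ofNat 0, .ofNat 6054624589958424277956887570215520654327808, .ofNat 0, .ofNat 0, .ofNat 0, .ofNat 90032987499601906227183857149005547006066688, .ofNat 0, .ofNat 0, .ofNat 0, .ofNat 4446567493661326885429574218483965599154176, .ofNat 0⟩)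
    (by decide +kernel)
theorem L02927 : Good (Phi V5.P V5.D 1 (-1)) ⟨4, 9, 2, 1, 3, 6, 4, 1, 5, 5⟩ :=
  leafYS_sound T5.ok_pm T5.Ypm.bz_eq (w := 235) (c := ⟨⟨.negSucc 1936, .negSucc 115, .negSucc 192, .ofNat 73, .negSucc 73, .negSucc 53⟩, ⟨.ofNat 307, .negSucc 26, .ofNat 500, .ofNat 191, .negSucc 19, .negSucc 28⟩, ⟨.negSucc 323, .negSucc 1, .negSucc 47, .ofNat 120, .ofNat 278, .ofNat 267⟩, ⟨.negSucc 3868, .negSucc 32, .ofNat 12, .ofNat 323, .negSucc 179, .negSucc 140⟩, ⟨.ofNat 1175, .ofNat 169, .ofNat 760, .ofNat 1812, .negSucc 260, .negSucc 318⟩, .ofNat 522, .ofNat 258, .ofNat 0, .ofNat 258, .ofNat 1672, .ofNat 0, .ofNat 234, .negSucc 107, .negSucc 55, .ofNat 0, .ofNat 128, .ofNat 18, .ofNat 0, .ofNat 0, .ofNat 221, .ofNat 21011, .ofNat 0, .ofNat 0, .ofNat 18952999073806507696982656779878247763542016, .ofNat 0, .ofNat 0, .ofNat 0, .ofNat 184361428736557743074677578513225601735720960,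 .ofNat 0, .ofNat 0, .ofNat 0, .ofNat 446115266157624149982143776810727839174230016, .ofNat 0, .ofNat 0, .ofNat 0, .ofNat 18104236179054595279337375093048003520364544, .ofNat 0⟩)
    (by decide +kernel)
theorem L02928 : Good (Phi V5.P V5.D 1 (-1)) ⟨3, 5, 2, 1, 3, 6, 3, 0, 4, 2⟩ :=
  out_sound (S := T5.ds_pm) T5.ok_pm (w := 43) (j := 3) (by decide +kernel)
theorem L02929 : Good (Phi V5.P V5.D 1 (-1)) ⟨2, 3, 2, 1, 3, 6, 3, 0, 4, 2⟩ :=
  out_sound (S := T5.ds_pm) T5.ok_pm (w := 37) (j := 3) (by decide +kernel)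
theorem L02930 : Good (Phi V5.P V5.D 1 (-1)) ⟨4, 8, 2, 1, 4, 14, 3, 0, 5, 4⟩ :=
  leafYS_sound T5.ok_pm T5.Ypm.bz_eq (w := 244) (c := ⟨⟨.negSucc 1529, .negSucc 50, .negSucc 246, .ofNat 75, .negSucc 81, .negSucc 237⟩, ⟨.ofNat 543, .ofNat 28, .ofNat 565, .ofNat 98, .negSucc 123, .ofNat 6⟩, ⟨.negSucc 837, .negSucc 46, .negSucc 191, .ofNat 36, .ofNat 594, .ofNat 412⟩, ⟨.negSucc 2663, .negSucc 28, .ofNat 571, .ofNat 447, .negSucc 549, .negSucc 643⟩, ⟨.ofNat 4127, .ofNat 273, .ofNat 1808, .ofNat 1273, .negSucc 1573, .negSucc 513⟩, .ofNat 607, .ofNat 441, .ofNat 0, .ofNat 441, .ofNat 2105, .ofNat 0, .ofNat 128, .negSucc 233, .negSucc 137, .ofNat 0, .ofNat 220, .ofNat 32, .ofNat 0, .ofNat 0, .ofNat 429, .ofNat 6859, .ofNat 0, .ofNat 0, .ofNat 5551259509754189318635583035913174120860221440, .ofNat 0, .ofNat 0, .ofNat 0, .ofNat 13355919672158183679190310406992192078897741824, .ofNat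 0, .ofNat 0, .ofNat 0, .ofNat 458751688880639211046731139159324054071252353024, .ofNat 0, .ofNat 1905470201303779687806435008594647283499584079265792, .ofNat 0, .ofNat 85165095391974974991766800414998730487575347200, .ofNat 0⟩)
    (by decide +kernel)
theorem L02931 : Good (Phi V5.P V5.D 1 (-1)) ⟨4, 8, 2, 1, 4, 15, 3, 0, 5, 4⟩ :=
  leafYS_sound T5.ok_pm T5.Ypm.bz_eq (w := 244) (c := ⟨⟨.negSucc 1493, .ofNat 20, .negSucc 254, .ofNat 113, .negSucc 92, .negSucc 234⟩, ⟨.ofNat 670, .ofNat 55, .ofNat 644, .ofNat 64, .negSucc 187, .negSucc 13⟩, ⟨.negSucc 771, .negSucc 121, .negSucc 438, .negSucc 17, .ofNat 678, .ofNat 434⟩, ⟨.negSucc 2186, .ofNat 29, .ofNat 1004, .ofNat 354, .negSucc 783, .negSucc 653⟩, ⟨.ofNat 5883, .ofNat 349, .ofNat 2749, .ofNat 819, .negSucc 2364, .negSucc 662⟩, .ofNat 657, .ofNat 554, .ofNat 0, .ofNat 554, .ofNat 2542, .ofNat 0, .ofNat 128, .negSucc 188,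 .negSucc 210, .ofNat 0, .ofNat 176, .ofNat 23, .ofNat 0, .ofNat 0, .ofNat 651, .ofNat 3433, .ofNat 0, .ofNat 0, .ofNat 7331012366824267608131067534980709217860583424, .ofNat 0, .ofNat 0, .ofNat 0, .ofNat 9758140951362298339372383856866636201237413888, .ofNat 0, .ofNat 0, .ofNat 0, .ofNat 293515535413400406250192135891109436845553876992, .ofNat 0, .ofNat 147771130225415073732357622973187699335917777977344, .ofNat 0, .ofNat 393266626083525425767044268921984613335737303040, .ofNat 0⟩)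
    (by decide +kernel)
theorem L02932 : Good (Phi V5.P V5.D 1 (-1)) ⟨4, 8, 2, 1, 3, 7, 3, 0, 5, 5⟩ :=
  leafYS_sound T5.ok_pm T5.Ypm.bz_eq (w := 229) (c := ⟨⟨.negSucc 1774, .negSucc 27, .negSucc 231, .ofNat 187, .negSucc 104, .negSucc 46⟩, ⟨.ofNat 544, .ofNat 14, .ofNat 582, .ofNat 161, .negSucc 96, .negSucc 44⟩, ⟨.negSucc 384, .negSucc 45, .negSucc 167, .negSucc 12, .ofNat 539, .ofNat 276⟩, ⟨.negSucc 3261, .ofNat 2, .ofNat 526, .ofNat 838, .negSucc 579, .negSucc 180⟩, ⟨.ofNat 3679, .ofNat 180, .ofNat 1755, .ofNat 2133, .negSucc 1355, .negSucc 553⟩, .ofNat 644, .ofNat 528, .ofNat 0, .ofNat 528, .ofNat 2784, .ofNat 0, .ofNat 141, .negSucc 123, .negSucc 90, .ofNat 0, .ofNat 128, .ofNat 14, .ofNat 0, .ofNat 0, .ofNat 356, .ofNat 2262, .ofNat 0, .ofNat 0, .ofNat 139871648880022409470413374744924881158144, .ofNat 0, .ofNat 0, .ofNat 0, .ofNat 0, .ofNat 0, .ofNat 0, .ofNat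 0, .ofNat 11774593806472987484202487810759610842742784, .ofNat 0, .ofNat 0, .ofNat 0, .ofNat 7931207347180057737941734046661295988539392, .ofNat 0⟩)
    (by decide +kernel)
theorem L02933 : Good (Phi V5.P V5.D 1 (-1)) ⟨4, 9, 3, 2, 3, 7, 3, 0, 4, 2⟩ :=
  leafYS_sound T5.ok_pm T5.Ypm.bz_eq (w := 227) (c := ⟨⟨.negSucc 1627, .negSucc 4, .negSucc 141, .ofNat 295, .negSucc 162, .negSucc 286⟩, ⟨.ofNat 584, .ofNat 73, .ofNat 340, .ofNat 208, .negSucc 139, .negSucc 90⟩, ⟨.negSucc 790, .negSucc 64, .negSucc 180, .negSucc 31, .ofNat 587, .ofNat 665⟩, ⟨.negSucc 2907, .ofNat 19, .ofNat 282, .ofNat 795, .negSucc 465, .negSucc 659⟩, ⟨.ofNat 4286, .ofNat 341, .ofNat 1191, .ofNat 2104, .negSucc 1328, .negSucc 1026⟩, .ofNat 523, .ofNat 209, .ofNat 0, .ofNat 209, .ofNat 2135, .ofNat 0, .ofNat 175, .negSucc 94, .negSucc 85, .ofNat 0, .ofNat 128, .ofNat 6, .ofNat 0, .ofNat 0, .ofNat 297, .ofNat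 1867, .ofNat 0, .ofNat 0, .ofNat 7785875565124395516394357154115536027648, .ofNat 0, .ofNat 0, .ofNat 0, .ofNat 0, .ofNat 0, .ofNat 0, .ofNat 0, .ofNat 713129309520529482711338555940047733915648, .ofNat 0, .ofNat 0, .ofNat 0, .ofNat 471067086793188987706006123251438526136320, .ofNat 0⟩)
    (by decide +kernel)
theorem L02934 : Good (Phi V5.P V5.D 1 (-1)) ⟨4, 9, 3, 3, 3, 7, 3, 0, 4, 2⟩ :=
  out_sound (S := T5.ds_pm) T5.ok_pm (w := 51) (j := 3) (by decide +kernel)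
theorem L02935 : Good (Phi V5.P V5.D 1 (-1)) ⟨3, 5, 2, 1, 3, 7, 3, 0, 4, 2⟩ :=
  out_sound (S := T5.ds_pm) T5.ok_pm (w := 43) (j := 3) (by decide +kernel)
theorem L02936 : Good (Phi V5.P V5.D 1 (-1)) ⟨2, 3, 2, 1, 3, 7, 3, 0, 4, 2⟩ :=
  out_sound (S := T5.ds_pm) T5.ok_pm (w := 37) (j := 3) (by decide +kernel)
theorem L02937 : Good (Phi V5.P V5.D 1 (-1)) ⟨3, 4, 2, 1, 3, 6, 3, 1, 5, 4⟩ :=
  leafYS_sound T5.ok_pm T5.Ypm.bz_eq (w := 226) (c := ⟨⟨.negSucc 1509, .negSucc 308, .negSucc 153, .negSucc 36, .negSucc 83, .negSucc 305⟩, ⟨.ofNat 310, .negSucc 44, .ofNat 434, .ofNat 174, .negSucc 53, .ofNat 25⟩, ⟨.negSucc 431, .ofNat 77, .negSucc 2, .ofNat 74, .ofNat 447, .ofNat 370⟩, ⟨.negSucc 3239, .negSucc 210, .ofNat 73, .ofNat 150, .negSucc 250, .negSucc 627⟩, ⟨.ofNat 981, .ofNat 427, .ofNat 645, .ofNat 1610, .negSucc 594, .negSucc 121⟩, .ofNat 470, .ofNat 198, .ofNat 0, .ofNat 198,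 .ofNat 1235, .ofNat 0, .ofNat 268, .negSucc 114, .negSucc 90, .ofNat 0, .ofNat 128, .ofNat 29, .ofNat 0, .ofNat 0, .ofNat 237, .ofNat 5325, .ofNat 0, .ofNat 0, .ofNat 1712167291263585708802397818623432931147776, .ofNat 0, .ofNat 0, .ofNat 0, .ofNat 10062636130794235038852477159296329001730048, .ofNat 0, .ofNat 0, .ofNat 0, .ofNat 30683547803604963416824653534230546946719744, .ofNat 0, .ofNat 0, .ofNat 0, .ofNat 3112426329374399708316087197313825320730624, .ofNat 0⟩)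
    (by decide +kernel)
theorem L02938 : Good (Phi V5.P V5.D 1 (-1)) ⟨4, 8, 2, 1, 3, 6, 3, 1, 5, 5⟩ :=
  leafYS_sound T5.ok_pm T5.Ypm.bz_eq (w := 230) (c := ⟨⟨.negSucc 1828, .negSucc 127, .negSucc 136, .negSucc 18, .negSucc 86, .negSucc 81⟩, ⟨.ofNat 355, .negSucc 32, .ofNat 468, .ofNat 143, .negSucc 32, .negSucc 23⟩, ⟨.negSucc 25, .ofNat 29, .negSucc 15, .ofNat 61, .ofNat 422, .ofNat 252⟩, ⟨.negSucc 3906, .negSucc 37, .ofNat 90, .ofNat 245, .negSucc 287, .negSucc 227⟩, ⟨.ofNat 937, .ofNat 232, .ofNat 650, .ofNat 1476, .negSucc 493, .negSucc 320⟩, .ofNat 578, .ofNat 370, .ofNat 0, .ofNat 370, .ofNat 2131, .ofNat 0, .ofNat 228, .negSucc 127, .negSucc 56, .ofNat 0, .ofNat 126, .ofNat 16, .ofNat 0, .ofNat 0, .ofNat 202, .ofNat 8263, .ofNat 0, .ofNat 0, .ofNat 530832081063365465415884119611017147711488, .ofNat 0, .ofNat 0, .ofNat 0, .ofNat 0, .ofNat 0, .ofNat 0, .ofNat 0, .ofNat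 11386592420547737312000827480779873379680256, .ofNat 0, .ofNat 0, .ofNat 0, .ofNat 1151635388695647154130850533790725582094336, .ofNat 0⟩)
    (by decide +kernel)
theorem L02939 : Good (Phi V5.P V5.D 1 (-1)) ⟨4, 9, 2, 1, 3, 6, 3, 1, 5, 5⟩ :=
  leafYS_sound T5.ok_pm T5.Ypm.bz_eq (w := 230) (c := ⟨⟨.negSucc 1951, .negSucc 138, .negSucc 95, .ofNat 0, .negSucc 144, .negSucc 82⟩, ⟨.ofNat 313, .negSucc 42, .ofNat 457, .ofNat 151, .negSucc 32, .negSucc 17⟩, ⟨.negSucc 11, .ofNat 27, .negSucc 22, .ofNat 77, .ofNat 464, .ofNat 242⟩, ⟨.negSucc 3929, .negSucc 49, .ofNat 91, .ofNat 147, .negSucc 329, .negSucc 181⟩, ⟨.ofNat 1113, .ofNat 172, .ofNat 474, .ofNat 1410, .negSucc 427, .negSucc 255⟩, .ofNat 447, .ofNat 155, .ofNat 0, .ofNat 155, .ofNat 1140, .ofNat 0, .ofNat 293, .negSucc 92, .negSucc 71, .ofNat 0, .ofNat 128, .ofNat 22, .ofNat 0, .ofNat 0, .ofNat 235, .ofNat 7622, .ofNat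 0, .ofNat 0, .ofNat 617860364412336501032309345149857780727808, .ofNat 0, .ofNat 0, .ofNat 0, .ofNat 0, .ofNat 0, .ofNat 0, .ofNat 0, .ofNat 17701374741951228030512918174051502068334592, .ofNat 0, .ofNat 0, .ofNat 0, .ofNat 0, .ofNat 0⟩)
    (by decide +kernel)

end Crest.Agent.R097C5.N5pm
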