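import Crest.Agent.R097.KS3
import Crest.Agent.R097.T5Ypm

/-!
# Row 97, box cover in dimension n = 5 (generated)
-/

set_option autoImplicit false
set_option Elab.async false
set_option maxHeartbeats 0
set_option maxRecDepth 100000

open Crest.Agent.R097 Crest.Agent.R097.KA


namespace Crest.Agent.R097C5.N5pm

theorem L03083 : Good (Phi V5.P V5.D 1 (-1)) ⟨6, 43, 4, 1, 4, 15, 3, 7, 5, 0⟩ :=
  leafYS_sound T5.ok_pm T5.Ypm.bz_eq (w := 257) (c := ⟨⟨.negSucc 2600, .negSucc 639, .negSucc 1050, .ofNat 26, .negSucc 694, .negSucc 1838⟩, ⟨.ofNat 62, .negSucc 134, .negSucc 49, .negSucc 95, .ofNat 126, .negSucc 365⟩, ⟨.ofNat 2025, .ofNat 225, .ofNat 288, .negSucc 505, .ofNat 863, .ofNat 576⟩, ⟨.negSucc 5074, .negSucc 1037, .negSucc 1726, .ofNat 125, .negSucc 1434, .negSucc 3171⟩, ⟨.ofNat 2957, .negSucc 340, .negSucc 1348, .negSucc 888, .ofNat 1586, .negSucc 1155⟩, .ofNat 482, .negSucc 212, .ofNat 0, .negSucc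 212, .ofNat 1977, .ofNat 0, .ofNat 128, .ofNat 252, .negSucc 364, .ofNat 0, .ofNat 98, .negSucc 54, .ofNat 0, .ofNat 0, .ofNat 198, .ofNat 93, .ofNat 0, .ofNat 0, .ofNat 1068585229558955072287260733387721481576775680, .ofNat 0, .ofNat 0, .ofNat 0, .ofNat 16490162237185932635902685617731043673862307840, .ofNat 0, .ofNat 0, .ofNat 0, .ofNat 39455168515517688094279998980265742733408206848, .ofNat 0, .ofNat 0, .ofNat 0, .ofNat 32148226336207301915475129603092662447677374464, .ofNat 0⟩)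
    (by decide +kernel)
theorem L03084 : Good (Phi V5.P V5.D 1 (-1)) ⟨5, 21, 4, 0, 4, 15, 3, 7, 5, 1⟩ :=
  leafYS_sound T5.ok_pm T5.Ypm.bz_eq (w := 253) (c := ⟨⟨.negSucc 1872, .negSucc 2216, .negSucc 1070, .ofNat 16, .negSucc 2294, .negSucc 1602⟩, ⟨.ofNat 53, .negSucc 507, .negSucc 25, .negSucc 65, .negSucc 244, .negSucc 267⟩, ⟨.ofNat 1839, .ofNat 755, .ofNat 312, .negSucc 585, .ofNat 1352, .ofNat 657⟩, ⟨.negSucc 4089, .negSucc 3572, .negSucc 1709, .ofNat 108, .negSucc 4177, .negSucc 2818⟩, ⟨.ofNat 3332, .negSucc 1314, .negSucc 961, .negSucc 535, .ofNat 498, .negSucc 613⟩, .ofNat 492, .negSucc 266, .ofNat 0, .negSucc 266, .ofNat 2183, .ofNat 0, .ofNat 128, .ofNat 222, .negSucc 238, .ofNat 0, .ofNat 99, .negSucc 30, .ofNat 0, .ofNat 0, .ofNat 174, .ofNat 170, .ofNat 0, .ofNat 0, .ofNat 0, .ofNat 0, .ofNat 0, .ofNat 0, .ofNat 0, .ofNat 0, .ofNat 0, .ofNat 5717153649714484780553738449374163829717247287361536,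 .ofNat 33949983735635479110082634713649195389689004032, .ofNat 0, .ofNat 0, .ofNat 0, .ofNat 0, .ofNat 0⟩)
    (by decide +kernel)
theorem L03085 : Good (Phi V5.P V5.D 1 (-1)) ⟨6, 42, 4, 1, 4, 15, 3, 7, 5, 1⟩ :=
  leafYS_sound T5.ok_pm T5.Ypm.bz_eq (w := 256) (c := ⟨⟨.negSucc 3134, .negSucc 748, .negSucc 918, .negSucc 422, .negSucc 1817, .negSucc 1240⟩, ⟨.negSucc 79, .negSucc 167, .ofNat 45, .negSucc 154, .negSucc 71, .negSucc 142⟩, ⟨.ofNat 2132, .ofNat 312, .ofNat 314, .negSucc 403, .ofNat 1232, .ofNat 583⟩, ⟨.negSucc 6057, .negSucc 1203, .negSucc 1569, .negSucc 693, .negSucc 3386, .negSucc 2234⟩, ⟨.ofNat 2148, .negSucc 386, .negSucc 886, .negSucc 1039, .ofNat 691, .negSucc 265⟩, .ofNat 483, .negSucc 175, .ofNat 0, .negSucc 175, .ofNat 2109, .ofNat 0, .ofNat 128, .ofNat 136, .negSucc 214, .ofNat 0, .ofNat 62, .negSucc 22, .ofNat 0, .ofNat 0, .ofNat 148, .ofNat 106, .ofNat 0, .ofNat 0, .ofNat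 1750248815970037644675421860771636831613616128, .ofNat 0, .ofNat 0, .ofNat 1606771830302350322471830441465451415979146568794112, .ofNat 9731341581743263887491920890548150572484132864, .ofNat 0, .ofNat 0, .ofNat 28282077739915296721814931915442746588130969447825408, .ofNat 11162373818680046781698367959782632743988363264, .ofNat 0, .ofNat 0, .ofNat 0, .ofNat 11801539331604068382225964721082349218493890560, .ofNat 0⟩)
    (by decide +kernel)
theorem L03086 : Good (Phi V5.P V5.D 1 (-1)) ⟨6, 43, 5, 2, 4, 15, 3, 7, 5, 1⟩ :=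
  leafYS_sound T5.ok_pm T5.Ypm.bz_eq (w := 260) (c := ⟨⟨.negSucc 3664, .negSucc 1097, .negSucc 582, .negSucc 334, .negSucc 2398, .negSucc 1290⟩, ⟨.negSucc 158, .negSucc 248, .ofNat 21, .negSucc 162, .negSucc 222, .negSucc 190⟩, ⟨.ofNat 2368, .ofNat 418, .ofNat 241, .negSucc 507, .ofNat 1426, .ofNat 589⟩, ⟨.negSucc 6921, .negSucc 1747, .negSucc 1007, .negSucc 505, .negSucc 4365, .negSucc 2303⟩, ⟨.ofNat 2014, .negSucc 368, .negSucc 588, .negSucc 1031, .ofNat 347, .negSucc 398⟩, .ofNat 470, .negSucc 191, .ofNat 0, .negSucc 191, .ofNat 1811, .ofNat 0, .ofNat 128, .ofNat 201, .negSucc 305, .ofNat 0, .ofNat 88, .negSucc 40, .ofNat 0, .ofNat 0, .ofNat 194, .ofNat 131, .ofNat 0, .ofNat 11443607062328172710098294362245135765170775079780352, .ofNat 7109498855721071412867731944153773455674703872, .ofNat 0, .ofNat 0, .ofNat 1634816879229500764842593154655082810765688122114048, .ofNat 26422269756541232649919580431915136291050618880,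 .ofNat 0, .ofNat 0, .ofNat 514877413620174639414369101890605087062739677435920384, .ofNat 66810553584564111377427751009073474383810396160, .ofNat 0, .ofNat 0, .ofNat 0, .ofNat 60758537885172481513481925552178744817881186304, .ofNat 0⟩)
    (by decide +kernel)
theorem L03087 : Good (Phi V5.P V5.D 1 (-1)) ⟨6, 43, 5, 3, 4, 15, 3, 7, 5, 1⟩ :=
  leafYS_sound T5.ok_pm T5.Ypm.bz_eq (w := 260) (c := ⟨⟨.negSucc 4023, .negSucc 37, .negSucc 639, .negSucc 683, .negSucc 2568, .negSucc 1364⟩, ⟨.negSucc 161, .negSucc 23, .ofNat 7, .negSucc 216, .negSucc 209, .negSucc 175⟩, ⟨.ofNat 2484, .ofNat 214, .ofNat 228, .negSucc 360, .ofNat 1479, .ofNat 615⟩, ⟨.negSucc 7481, .ofNat 97, .negSucc 1131, .negSucc 1149, .negSucc 4689, .negSucc 2443⟩, ⟨.ofNat 1628, .ofNat 415, .negSucc 715, .negSucc 1276, .ofNat 140, .negSucc 414⟩, .ofNat 472, .negSucc 164, .ofNat 0, .negSucc 164, .ofNat 1872, .ofNat 0, .ofNat 128, .ofNat 177,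 .negSucc 286, .ofNat 0, .ofNat 77, .negSucc 35, .ofNat 0, .ofNat 0, .ofNat 178, .ofNat 210, .ofNat 0, .ofNat 0, .ofNat 16551042929913987968021667729841371805726539776, .ofNat 0, .ofNat 0, .ofNat 111257637904087445580116901779404864636136562408554496, .ofNat 52338551147908543291502871851807892930151055360, .ofNat 0, .ofNat 0, .ofNat 531387477079379510166597497477621936941920826452606976, .ofNat 120725285577412903578596607377393794028985647104, .ofNat 0, .ofNat 0, .ofNat 0, .ofNat 99437882166732689251486839542082757910704685056, .ofNat 0⟩)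
    (by decide +kernel)
theorem L03088 : Good (Phi V5.P V5.D 1 (-1)) ⟨6, 44, 5, 0, 4, 15, 3, 7, 5, 0⟩ :=
  leafYS_sound T5.ok_pm T5.Ypm.bz_eq (w := 260) (c := ⟨⟨.negSucc 2532, .negSucc 921, .negSucc 550, .ofNat 463, .negSucc 840, .negSucc 1900⟩, ⟨.negSucc 19, .negSucc 220, .negSucc 49, .ofNat 16, .ofNat 50, .negSucc 457⟩, ⟨.ofNat 2070, .ofNat 308, .ofNat 150, .negSucc 671, .ofNat 891, .ofNat 570⟩, ⟨.negSucc 5083, .negSucc 1484, .negSucc 831, .ofNat 874, .negSucc 1725, .negSucc 3202⟩, ⟨.ofNat 3584, .negSucc 436, .negSucc 638, .negSucc 496, .ofNat 1623, .negSucc 1470⟩, .ofNat 470, .negSucc 256, .ofNat 0, .negSucc 256, .ofNat 1701, .ofNat 0, .ofNat 128, .ofNat 509, .negSucc 535, .ofNat 0, .ofNat 211, .negSucc 100, .ofNat 0, .ofNat 0, .ofNat 293, .ofNat 134, .ofNat 0, .ofNat 0, .ofNat 0, .ofNat 0, .ofNat 0, .ofNat 142798508987495320503259965147567432694547642786512896, .ofNat 6974354367117768815963985880456267697896816640,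 .ofNat 0, .ofNat 0, .ofNat 0, .ofNat 218046470303576415584382037608009519588976885760, .ofNat 0, .ofNat 0, .ofNat 0, .ofNat 86985484773498127614265221833538408378397622272, .ofNat 0⟩)
    (by decide +kernel)
theorem L03089 : Good (Phi V5.P V5.D 1 (-1)) ⟨6, 44, 5, 1, 4, 15, 3, 7, 5, 0⟩ :=
  leafYS_sound T5.ok_pm T5.Ypm.bz_eq (w := 260) (c := ⟨⟨.negSucc 2784, .negSucc 963, .negSucc 918, .ofNat 440, .negSucc 796, .negSucc 2039⟩, ⟨.negSucc 16, .negSucc 216, .negSucc 125, .negSucc 3, .ofNat 86, .negSucc 463⟩, ⟨.ofNat 2120, .ofNat 252, .ofNat 288, .negSucc 614, .ofNat 923, .ofNat 604⟩, ⟨.negSucc 5432, .negSucc 1567, .negSucc 1485, .ofNat 853, .negSucc 1637, .negSucc 3451⟩, ⟨.ofNat 3189, .negSucc 500, .negSucc 820, .negSucc 539, .ofNat 1599, .negSucc 1473⟩, .ofNat 480, .negSucc 248, .ofNat 0, .negSucc 248, .ofNat 1822, .ofNat 0, .ofNat 128, .ofNat 388, .negSucc 546, .ofNat 0, .ofNat 153, .negSucc 103,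 .ofNat 0, .ofNat 0, .ofNat 262, .ofNat 115, .ofNat 0, .ofNat 0, .ofNat 2998401404505558419378336276889374040898142208, .ofNat 0, .ofNat 0, .ofNat 0, .ofNat 25063169943036433731683721350233033947035467776, .ofNat 0, .ofNat 0, .ofNat 0, .ofNat 187954716613730159115376219514224393083336785920, .ofNat 0, .ofNat 0, .ofNat 0, .ofNat 121661570021182597153034225081476559770396655616, .ofNat 0⟩)
    (by decide +kernel)
theorem L03090 : Good (Phi V5.P V5.D 1 (-1)) ⟨6, 45, 4, 0, 4, 15, 3, 7, 5, 0⟩ :=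
  leafYS_sound T5.ok_pm T5.Ypm.bz_eq (w := 258) (c := ⟨⟨.negSucc 3345, .negSucc 1874, .negSucc 1820, .ofNat 937, .negSucc 901, .negSucc 2147⟩, ⟨.negSucc 185, .negSucc 468, .negSucc 281, .ofNat 125, .ofNat 32, .negSucc 547⟩, ⟨.ofNat 2371, .ofNat 556, .ofNat 565, .negSucc 853, .ofNat 927, .ofNat 652⟩, ⟨.negSucc 6452, .negSucc 2963, .negSucc 2772, .ofNat 1685, .negSucc 1835, .negSucc 3527⟩, ⟨.ofNat 3277, .negSucc 1072, .negSucc 1680, .negSucc 302, .ofNat 1500, .negSucc 1438⟩, .ofNat 503, .negSucc 336, .ofNat 0, .negSucc 336, .ofNat 1970, .ofNat 0, .ofNat 128, .ofNat 500, .negSucc 774, .ofNat 0, .ofNat 207, .negSucc 160, .ofNat 0, .ofNat 0, .ofNat 397, .ofNat 136, .ofNat 0, .ofNat 0, .ofNat 4612796390543974975828179898073535416406900736, .ofNat 0, .ofNat 0, .ofNat 0, .ofNat 47317087427058108654682646551789340584434466816, .ofNat 0, .ofNat 0, .ofNat 0, .ofNat 139895940382215312909130728151444529955389571072,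 .ofNat 0, .ofNat 0, .ofNat 0, .ofNat 156212154125492455212328857724061070441360392192, .ofNat 0⟩)
    (by decide +kernel)
theorem L03091 : Good (Phi V5.P V5.D 1 (-1)) ⟨7, 88, 4, 0, 4, 15, 3, 7, 5, 1⟩ :=
  leafYS_sound T5.ok_pm T5.Ypm.bz_eq (w := 261) (c := ⟨⟨.negSucc 3938, .negSucc 543, .negSucc 1429, .ofNat 183, .negSucc 2294, .negSucc 1012⟩, ⟨.negSucc 364, .negSucc 136, .negSucc 107, .negSucc 61, .negSucc 285, .negSucc 165⟩, ⟨.ofNat 2548, .ofNat 189, .ofNat 458, .negSucc 722, .ofNat 1387, .ofNat 514⟩, ⟨.negSucc 7481, .negSucc 837, .negSucc 2294, .ofNat 431, .negSucc 4138, .negSucc 1787⟩, ⟨.ofNat 2671, .negSucc 217, .negSucc 1341, .negSucc 854, .ofNat 241, .negSucc 71⟩, .ofNat 500, .negSucc 308, .ofNat 0, .negSucc 308, .ofNat 2089, .ofNat 0, .ofNat 128, .ofNat 187, .negSucc 233, .ofNat 0, .ofNat 82, .negSucc 37, .ofNat 0, .ofNat 0, .ofNat 151, .ofNat 103, .ofNat 0, .ofNat 12704199971314447461913661086563646579666960989028352,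 .ofNat 624752220045223795078068385458131477790195712, .ofNat 0, .ofNat 0, .ofNat 0, .ofNat 4511243513052250861041685363553532135463714816, .ofNat 0, .ofNat 0, .ofNat 764243741775404635585700545720796723991161690262601728, .ofNat 5130846967299217659247427998108499641204998144, .ofNat 0, .ofNat 0, .ofNat 0, .ofNat 3122482993665351429987016115848083527711064064, .ofNat 0⟩)
    (by decide +kernel)
theorem L03092 : Good (Phi V5.P V5.D 1 (-1)) ⟨7, 89, 4, 0, 4, 15, 3, 7, 5, 1⟩ :=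
  leafYS_sound T5.ok_pm T5.Ypm.bz_eq (w := 261) (c := ⟨⟨.negSucc 4354, .negSucc 411, .negSucc 1989, .ofNat 435, .negSucc 2614, .negSucc 1244⟩, ⟨.negSucc 452, .negSucc 111, .negSucc 245, .negSucc 0, .negSucc 388, .negSucc 238⟩, ⟨.ofNat 2724, .ofNat 131, .ofNat 610, .negSucc 832, .ofNat 1510, .ofNat 568⟩, ⟨.negSucc 8131, .negSucc 624, .negSucc 3206, .ofNat 862, .negSucc 4660, .negSucc 2157⟩, ⟨.ofNat 2415, .negSucc 72, .negSucc 1645, .negSucc 651, .ofNat 228, .negSucc 246⟩, .ofNat 485, .negSucc 273, .ofNat 0, .negSucc 273, .ofNat 1844, .ofNat 0, .ofNat 128, .ofNat 263, .negSucc 379, .ofNat 0, .ofNat 114, .negSucc 66, .ofNat 0, .ofNat 0, .ofNat 223, .ofNat 142, .ofNat 0, .ofNat 44119451836548194294917784021334587745035876906827776, .ofNat 1132631827447667716463912655977588242824298496, .ofNat 0, .ofNat 0, .ofNat 9133706452382580386500674038179495449787988885635072, .ofNat 4344737365907823446670758762261433651141017600,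 .ofNat 0, .ofNat 0, .ofNat 1396520905989748997421763109901231127324040503064788992, .ofNat 12618998125132983287943698395257090264746950656, .ofNat 0, .ofNat 0, .ofNat 118103587620158017138621670649751359694861741705920512, .ofNat 9834537539477455918557237513605743175645790208, .ofNat 0⟩)
    (by decide +kernel)
theorem L03093 : Good (Phi V5.P V5.D 1 (-1)) ⟨6, 45, 4, 0, 4, 15, 3, 7, 5, 1⟩ :=
  leafYS_sound T5.ok_pm T5.Ypm.bz_eq (w := 258) (c := ⟨⟨.negSucc 4897, .negSucc 1766, .negSucc 2078, .ofNat 527, .negSucc 2798, .negSucc 1118⟩, ⟨.negSucc 573, .negSucc 506, .negSucc 325, .ofNat 11, .negSucc 453, .negSucc 212⟩, ⟨.ofNat 2953, .ofNat 346, .ofNat 500, .negSucc 911, .ofNat 1571, .ofNat 565⟩, ⟨.negSucc 9020, .negSucc 2659, .negSucc 3147, .ofNat 1033, .negSucc 4950, .negSucc 1935⟩, ⟨.ofNat 2235, .negSucc 1005, .negSucc 1695, .negSucc 632, .ofNat 232, .negSucc 151⟩, .ofNat 511, .negSucc 355, .ofNat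 0, .negSucc 355, .ofNat 2058, .ofNat 0, .ofNat 128, .ofNat 324, .negSucc 379, .ofNat 0, .ofNat 142, .negSucc 72, .ofNat 0, .ofNat 0, .ofNat 229, .ofNat 206, .ofNat 0, .ofNat 0, .ofNat 10764955701738351078738685401014752386018705408, .ofNat 0, .ofNat 0, .ofNat 0, .ofNat 46511286296418454966540352327705244481359970304, .ofNat 0, .ofNat 0, .ofNat 0, .ofNat 116502641502605974454106932760967781471662112768, .ofNat 0, .ofNat 0, .ofNat 38572030781278277459665618487874378515356893357015040, .ofNat 80002683335599092108914224704934928692235206656, .ofNat 0⟩)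
    (by decide +kernel)
theorem L03094 : Good (Phi V5.P V5.D 1 (-1)) ⟨5, 22, 4, 1, 4, 15, 3, 7, 4, 0⟩ :=
  out_sound (S := T5.ds_pm) T5.ok_pm (w := 59) (j := 3) (by decide +kernel)
theorem L03095 : Good (Phi V5.P V5.D 1 (-1)) ⟨5, 23, 3, 0, 4, 15, 3, 7, 4, 0⟩ :=
  out_sound (S := T5.ds_pm) T5.ok_pm (w := 57) (j := 3) (by decide +kernel)
theorem L03096 : Good (Phi V5.P V5.D 1 (-1)) ⟨4, 10, 3, 0, 3, 7, 3, 6, 5, 2⟩ :=
  leafYS_sound T5.ok_pm T5.Ypm.bz_eq (w := 232) (c := ⟨⟨.negSucc 3007, .negSucc 1452, .negSucc 528, .ofNat 497, .negSucc 1117, .negSucc 423⟩, ⟨.negSucc 241, .negSucc 354, .ofNat 203, .ofNat 32, .negSucc 37, .negSucc 7⟩, ⟨.ofNat 1981, .ofNat 612, .ofNat 191, .negSucc 841, .ofNat 876, .ofNat 363⟩, ⟨.negSucc 5986, .negSucc 2159, .negSucc 833, .ofNat 914, .negSucc 2090, .negSucc 819⟩, ⟨.ofNat 1336, .negSucc 77, .negSucc 802, .negSucc 549, .ofNat 723, .ofNat 248⟩, .ofNat 466, .negSucc 172,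 .ofNat 0, .negSucc 172, .ofNat 1896, .ofNat 0, .ofNat 244, .ofNat 128, .negSucc 255, .ofNat 0, .ofNat 81, .negSucc 17, .ofNat 0, .ofNat 0, .ofNat 243, .ofNat 304, .ofNat 0, .ofNat 0, .ofNat 0, .ofNat 0, .ofNat 0, .ofNat 0, .ofNat 10622712747926397844764030391474010804191232, .ofNat 0, .ofNat 0, .ofNat 0, .ofNat 8102373991624391242953102854568092444393472, .ofNat 0, .ofNat 0, .ofNat 0, .ofNat 0, .ofNat 0⟩)
    (by decide +kernel)
theorem L03097 : Good (Phi V5.P V5.D 1 (-1)) ⟨5, 20, 3, 0, 3, 7, 3, 7, 6, 4⟩ :=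
  leafYS_sound T5.ok_pm T5.Ypm.bz_eq (w := 241) (c := ⟨⟨.negSucc 3443, .negSucc 886, .negSucc 724, .ofNat 85, .negSucc 1214, .negSucc 524⟩, ⟨.negSucc 219, .negSucc 182, .ofNat 260, .negSucc 31, .ofNat 9, .negSucc 53⟩, ⟨.ofNat 2731, .ofNat 372, .ofNat 227, .negSucc 876, .ofNat 1098, .ofNat 263⟩, ⟨.negSucc 6931, .negSucc 1377, .negSucc 1127, .ofNat 178, .negSucc 2353, .negSucc 970⟩, ⟨.ofNat 2618, .negSucc 392, .negSucc 1072, .negSucc 558, .ofNat 1007, .negSucc 221⟩, .ofNat 469, .negSucc 146, .ofNat 0, .negSucc 146, .ofNat 2021, .ofNat 0, .ofNat 216, .ofNat 128, .negSucc 276, .ofNat 0, .ofNat 78, .negSucc 16, .ofNat 0, .ofNat 0, .ofNat 253, .ofNat 165, .ofNat 0, .ofNat 0, .ofNat 0, .ofNat 0, .ofNat 0, .ofNat 1932342715294470555387159491991424751557658279936, .ofNat 0, .ofNat 0, .ofNat 0, .ofNat 0, .ofNat 0, .ofNat 0, .ofNat 0, .ofNat 0, .ofNat 0, .ofNat 0⟩)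
    (by decide +kernel)
theorem L03098 : Good (Phi V5.P V5.D 1 (-1)) ⟨5, 21, 4, 0, 3, 7, 3, 7, 6, 4⟩ :=
  leafYS_sound T5.ok_pm T5.Ypm.bz_eq (w := 244) (c := ⟨⟨.negSucc 3974, .negSucc 1643, .negSucc 808, .ofNat 155, .negSucc 2028, .negSucc 120⟩, ⟨.negSucc 291, .negSucc 394, .ofNat 54, .negSucc 63, .negSucc 189, .negSucc 0⟩, ⟨.ofNat 3186, .ofNat 571, .ofNat 242, .negSucc 1167, .ofNat 1305, .ofNat 137⟩, ⟨.negSucc 7827, .negSucc 2556, .negSucc 1271, .ofNat 376, .negSucc 3729, .negSucc 238⟩, ⟨.ofNat 2782, .negSucc 786, .negSucc 869, .negSucc 754, .ofNat 578, .ofNat 103⟩, .ofNat 502, .negSucc 296, .ofNat 0, .negSucc 296, .ofNat 2337, .ofNat 0, .ofNat 133, .ofNat 128, .negSucc 141, .ofNat 0, .ofNat 66, .negSucc 15, .ofNat 0, .ofNat 0, .ofNat 118, .ofNat 140, .ofNat 0, .ofNat 1148889964570252621038320566967428285203337969664, .ofNat 3788497247071329239756661568692694655434752, .ofNat 0, .ofNat 0, .ofNat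 0, .ofNat 0, .ofNat 0, .ofNat 0, .ofNat 7343139312206671409605936556121537218336975224832, .ofNat 0, .ofNat 0, .ofNat 0, .ofNat 2100157100237714500033693670652305862407841906688, .ofNat 0, .ofNat 0⟩)
    (by decide +kernel)
theorem L03099 : Good (Phi V5.P V5.D 1 (-1)) ⟨6, 42, 4, 1, 3, 7, 3, 7, 6, 4⟩ :=
  leafYS_sound T5.ok_pm T5.Ypm.bz_eq (w := 248) (c := ⟨⟨.negSucc 4412, .negSucc 832, .negSucc 792, .negSucc 252, .negSucc 1715, .negSucc 179⟩, ⟨.negSucc 214, .negSucc 182, .ofNat 85, .negSucc 144, .negSucc 45, .negSucc 2⟩, ⟨.ofNat 3233, .ofNat 290, .ofNat 299, .negSucc 925, .ofNat 1226, .ofNat 129⟩, ⟨.negSucc 8396, .negSucc 1322, .negSucc 1346, .negSucc 395, .negSucc 3214, .negSucc 337⟩, ⟨.ofNat 2103, .negSucc 421, .negSucc 899, .negSucc 1044, .ofNat 680, .ofNat 128⟩, .ofNat 469, .negSucc 154, .ofNat 0, .negSucc 154, .ofNat 1887, .ofNat 0, .ofNat 205, .ofNat 128, .negSucc 235, .ofNat 0, .ofNat 71,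 .negSucc 20, .ofNat 0, .ofNat 0, .ofNat 190, .ofNat 144, .ofNat 0, .ofNat 6979173253670775208368291625321969040284119465984, .ofNat 4694504075060557322026434196804435198345216, .ofNat 0, .ofNat 0, .ofNat 90143503457992905862929778285457698945465631899648, .ofNat 46864042165337745355941211993724745221668864, .ofNat 0, .ofNat 0, .ofNat 129815404719771230169695291080814231550706677972992, .ofNat 24319066446079235247212864108322002812534784, .ofNat 0, .ofNat 0, .ofNat 0, .ofNat 0, .ofNat 0⟩)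
    (by decide +kernel)
theorem L03100 : Good (Phi V5.P V5.D 1 (-1)) ⟨6, 43, 4, 1, 3, 7, 3, 7, 6, 4⟩ :=
  leafYS_sound T5.ok_pm T5.Ypm.bz_eq (w := 248) (c := ⟨⟨.negSucc 5093, .negSucc 1134, .negSucc 966, .negSucc 210, .negSucc 2361, .ofNat 6⟩, ⟨.negSucc 318, .negSucc 277, .ofNat 37, .negSucc 169, .negSucc 218, .ofNat 24⟩, ⟨.ofNat 3613, .ofNat 379, .ofNat 317, .negSucc 1125, .ofNat 1434, .ofNat 75⟩, ⟨.negSucc 9533, .negSucc 1782, .negSucc 1598, .negSucc 244, .negSucc 4290, .negSucc 10⟩, ⟨.ofNat 1852, .negSucc 520, .negSucc 1079, .negSucc 1108, .ofNat 419, .ofNat 188⟩, .ofNat 480, .negSucc 186, .ofNat 0, .negSucc 186, .ofNat 1934, .ofNat 0, .ofNat 136, .ofNat 128, .negSucc 196, .ofNat 0, .ofNat 67, .negSucc 20, .ofNat 0, .ofNat 0, .ofNat 144, .ofNat 129, .ofNat 0, .ofNat 9951697242455349678577394462039716717829390598144, .ofNat 6160348291706115544013394237470319021391872, .ofNat 0, .ofNat 0, .ofNat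 0, .ofNat 34681701270008981605654643899047685562302464, .ofNat 0, .ofNat 0, .ofNat 91362119407697766058596593126890767556680305606656, .ofNat 33087433307263828251599640702709635070558208, .ofNat 0, .ofNat 0, .ofNat 0, .ofNat 27379038608806338611279373672161009177985024, .ofNat 0⟩)
    (by decide +kernel)
theorem L03101 : Good (Phi V5.P V5.D 1 (-1)) ⟨4, 10, 3, 0, 4, 14, 3, 7, 6, 5⟩ :=
  leafYS_sound T5.ok_pm T5.Ypm.bz_eq (w := 251) (c := ⟨⟨.negSucc 4113, .negSucc 1987, .negSucc 462, .ofNat 188, .negSucc 1196, .ofNat 11⟩, ⟨.negSucc 320, .negSucc 453, .ofNat 362, .ofNat 24, .negSucc 5, .ofNat 7⟩, ⟨.ofNat 3022, .ofNat 916, .ofNat 143, .negSucc 502, .ofNat 1174, .ofNat 63⟩, ⟨.negSucc 8195, .negSucc 3009, .negSucc 640, .ofNat 322, .negSucc 2325, .ofNat 19⟩, ⟨.ofNat 1986, .negSucc 244, .negSucc 961, .ofNat 43, .ofNat 1233, .ofNat 72⟩, .ofNat 410, .negSucc 102, .ofNat 0, .negSucc 102, .ofNat 1248, .ofNat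 0, .ofNat 234, .ofNat 128, .negSucc 321, .ofNat 0, .ofNat 90, .negSucc 21, .ofNat 0, .ofNat 0, .ofNat 295, .ofNat 347, .ofNat 0, .ofNat 0, .ofNat 0, .ofNat 0, .ofNat 0, .ofNat 0, .ofNat 4934404298055538069104023273833660849072692527104, .ofNat 0, .ofNat 0, .ofNat 336798375869228893204441112807490507993277274259456, .ofNat 2710093212703148429223280428918662066228439285760, .ofNat 0, .ofNat 0, .ofNat 81770786617869242542381416145226939829900776833024, .ofNat 4796748808952755388006955252575326733932620152832, .ofNat 0⟩)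
    (by decide +kernel)
theorem L03102 : Good (Phi V5.P V5.D 1 (-1)) ⟨4, 10, 3, 0, 4, 15, 4, 14, 6, 5⟩ :=
  leafYS_sound T5.ok_pm T5.Ypm.bz_eq (w := 255) (c := ⟨⟨.negSucc 3916, .negSucc 1662, .negSucc 779, .ofNat 83, .negSucc 683, .negSucc 57⟩, ⟨.negSucc 254, .negSucc 421, .ofNat 261, .negSucc 23, .negSucc 28, .ofNat 3⟩, ⟨.ofNat 2652, .ofNat 634, .ofNat 273, .negSucc 513, .ofNat 500, .ofNat 98⟩, ⟨.negSucc 7885, .negSucc 2400, .negSucc 1208, .ofNat 164, .negSucc 1261, .negSucc 115⟩, ⟨.ofNat 2201, .negSucc 309, .negSucc 1201, .negSucc 432, .ofNat 545, .ofNat 221⟩, .ofNat 466, .negSucc 170, .ofNat 0, .negSucc 170, .ofNat 1895, .ofNat 0, .ofNat 187, .ofNat 128, .negSucc 203, .ofNat 0, .ofNat 77, .negSucc 15, .ofNat 0, .ofNat 0, .ofNat 201, .ofNat 281, .ofNat 0, .ofNat 0, .ofNat 0, .ofNat 0, .ofNat 0, .ofNat 0, .ofNat 49968792137887592940560383203747769568995909304320, .ofNat 0, .ofNat 0, .ofNat 0,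 .ofNat 75108261929408180030983407175576102080166529859584, .ofNat 0, .ofNat 0, .ofNat 0, .ofNat 0, .ofNat 0⟩)
    (by decide +kernel)
theorem L03103 : Good (Phi V5.P V5.D 1 (-1)) ⟨4, 10, 3, 0, 4, 15, 4, 15, 6, 5⟩ :=
  leafYS_sound T5.ok_pm T5.Ypm.bz_eq (w := 255) (c := ⟨⟨.negSucc 4228, .negSucc 2039, .negSucc 1028, .negSucc 155, .negSucc 475, .negSucc 62⟩, ⟨.negSucc 241, .negSucc 501, .ofNat 266, .negSucc 61, .ofNat 55, .ofNat 8⟩, ⟨.ofNat 3045, .ofNat 788, .ofNat 359, .negSucc 510, .ofNat 524, .ofNat 95⟩, ⟨.negSucc 8521, .negSucc 3028, .negSucc 1605, .negSucc 280, .negSucc 994, .negSucc 145⟩, ⟨.ofNat 3084, .negSucc 668, .negSucc 1327, .negSucc 680, .ofNat 692, .ofNat 81⟩, .ofNat 444, .negSucc 137, .ofNat 0, .negSucc 137, .ofNat 1594, .ofNat 0, .ofNat 238, .ofNat 128, .negSucc 191, .ofNat 0, .ofNat 77, .negSucc 15, .ofNat 0, .ofNat 0, .ofNat 182, .ofNat 167, .ofNat 0, .ofNat 319529697688172402671258231690471157637966238580736,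 .ofNat 6125992548720181303532282623590629289821615423488, .ofNat 0, .ofNat 0, .ofNat 3472802708642502377866196034916255077205869009567744, .ofNat 69448681012455072334930923199713322584535107371008, .ofNat 0, .ofNat 0, .ofNat 2631170959519814781463426125428616983153574619906048, .ofNat 50092915797603979212575942683922469977928742469632, .ofNat 0, .ofNat 0, .ofNat 1894669511475267345168148992682151054214148879548416, .ofNat 27389857846256480984348255628617277092283373584384, .ofNat 0⟩)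
    (by decide +kernel)
theorem L03104 : Good (Phi V5.P V5.D 1 (-1)) ⟨5, 22, 4, 0, 3, 7, 3, 6, 5, 2⟩ :=
  leafYS_sound T5.ok_pm T5.Ypm.bz_eq (w := 240) (c := ⟨⟨.negSucc 4972, .negSucc 1098, .negSucc 534, .ofNat 1236, .negSucc 1175, .negSucc 217⟩, ⟨.negSucc 675, .negSucc 303, .ofNat 64, .ofNat 184, .negSucc 113, .negSucc 5⟩, ⟨.ofNat 2968, .ofNat 420, .ofNat 165, .negSucc 1350, .ofNat 894, .ofNat 263⟩, ⟨.negSucc 9072, .negSucc 1634, .negSucc 822, .ofNat 2206, .negSucc 2185, .negSucc 428⟩, ⟨.ofNat 1100, .negSucc 51, .negSucc 599, .negSucc 157, .ofNat 673, .ofNat 231⟩, .ofNat 495, .negSucc 313, .ofNat 0, .negSucc 313, .ofNat 1953, .ofNat 0, .ofNat 261, .ofNat 128, .negSucc 333, .ofNat 0, .ofNat 71, .negSucc 44, .ofNat 0, .ofNat 0, .ofNat 292, .ofNat 442, .ofNat 0, .ofNat 0, .ofNat 0, .ofNat 0, .ofNat 0, .ofNat 0, .ofNat 8033978253462054836604921398331851304599552, .ofNat 0, .ofNat 0, .ofNat 0, .ofNat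 6436510740764184708369753886495009799143424, .ofNat 0, .ofNat 0, .ofNat 0, .ofNat 7717040666060695338880049331298711640211456, .ofNat 0⟩)
    (by decide +kernel)
theorem L03105 : Good (Phi V5.P V5.D 1 (-1)) ⟨6, 44, 4, 0, 4, 14, 3, 7, 5, 2⟩ :=
  leafYS_sound T5.ok_pm T5.Ypm.bz_eq (w := 258) (c := ⟨⟨.negSucc 6173, .negSucc 773, .negSucc 456, .ofNat 417, .negSucc 1429, .ofNat 178⟩, ⟨.negSucc 793, .negSucc 200, .ofNat 147, .ofNat 74, .negSucc 96, .ofNat 43⟩, ⟨.ofNat 3988, .ofNat 361, .ofNat 127, .negSucc 717, .ofNat 1293, .ofNat 51⟩, ⟨.negSucc 11350, .negSucc 1166, .negSucc 638, .ofNat 730, .negSucc 2703, .ofNat 290⟩, ⟨.ofNat 1828, .negSucc 90, .negSucc 665, .ofNat 35, .ofNat 1069, .ofNat 152⟩, .ofNat 493, .negSucc 301, .ofNat 0, .negSucc 301, .ofNat 1963, .ofNat 0, .ofNat 139, .ofNat 128, .negSucc 292, .ofNat 0, .ofNat 70, .negSucc 39, .ofNat 0, .ofNat 0, .ofNat 242, .ofNat 409, .ofNat 0, .ofNat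 0, .ofNat 0, .ofNat 0, .ofNat 0, .ofNat 8287494131535465996305446484350497837133805798817792, .ofNat 21093717284221090231578547899946819807191498752, .ofNat 0, .ofNat 0, .ofNat 54776174531140397185854604314751054895275127779360768, .ofNat 18120598604194636553000043447117164191714115584, .ofNat 0, .ofNat 0, .ofNat 28924585044873822698017152398160009276035382032465920, .ofNat 26978319056673344711271985510587836287426756608, .ofNat 0⟩)
    (by decide +kernel)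
theorem L03106 : Good (Phi V5.P V5.D 1 (-1)) ⟨6, 44, 4, 0, 4, 15, 3, 7, 5, 2⟩ :=
  leafYS_sound T5.ok_pm T5.Ypm.bz_eq (w := 257) (c := ⟨⟨.negSucc 5618, .negSucc 707, .negSucc 624, .ofNat 252, .negSucc 2086, .ofNat 281⟩, ⟨.negSucc 686, .negSucc 202, .ofNat 99, .negSucc 19, .negSucc 268, .ofNat 102⟩, ⟨.ofNat 3338, .ofNat 248, .ofNat 222, .negSucc 756, .ofNat 1247, .ofNat 44⟩, ⟨.negSucc 10376, .negSucc 1046, .negSucc 938, .ofNat 523, .negSucc 3776, .ofNat 420⟩, ⟨.ofNat 1919, .negSucc 164, .negSucc 858, .negSucc 507, .ofNat 558, .ofNat 523⟩, .ofNat 492, .negSucc 296, .ofNat 0, .negSucc 296, .ofNat 1950, .ofNat 0, .ofNat 128, .ofNat 155, .negSucc 146, .ofNat 0, .ofNat 78, .negSucc 20, .ofNat 0, .ofNat 0, .ofNat 121, .ofNat 141, .ofNat 0, .ofNat 5870543649799699413089066734640301452852890360086528, .ofNat 2462069768505348246929534907525540420482236416, .ofNat 0, .ofNat 0, .ofNat 37666725454795696969903319364070907728358813252714496,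 .ofNat 10989196931196677500720098696577385667049291776, .ofNat 0, .ofNat 0, .ofNat 42288543719421755425136428637854927932745979237761024, .ofNat 22655718542079479451596145840389091482696417280, .ofNat 0, .ofNat 0, .ofNat 723204567965229197448941317048570183308724907540480, .ofNat 11534339275994708918146982134905703632214163456, .ofNat 0⟩)
    (by decide +kernel)
theorem L03107 : Good (Phi V5.P V5.D 1 (-1)) ⟨6, 45, 4, 0, 3, 7, 3, 7, 5, 2⟩ :=
  leafYS_sound T5.ok_pm T5.Ypm.bz_eq (w := 244) (c := ⟨⟨.negSucc 7026, .negSucc 862, .negSucc 1094, .ofNat 930, .negSucc 1918, .ofNat 501⟩, ⟨.negSucc 1007, .negSucc 250, .negSucc 2, .ofNat 102, .negSucc 243, .ofNat 157⟩, ⟨.ofNat 4463, .ofNat 250, .ofNat 495, .negSucc 1671, .ofNat 1285, .negSucc 16⟩, ⟨.negSucc 12661, .negSucc 1242, .negSucc 1660, .ofNat 1711, .negSucc 3483, .ofNat 783⟩, ⟨.ofNat 1736, .negSucc 253, .negSucc 870, .negSucc 466, .ofNat 679, .ofNat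 578⟩, .ofNat 510, .negSucc 354, .ofNat 0, .negSucc 354, .ofNat 2055, .ofNat 0, .ofNat 128, .ofNat 194, .negSucc 296, .ofNat 0, .ofNat 102, .negSucc 45, .ofNat 0, .ofNat 0, .ofNat 240, .ofNat 184, .ofNat 0, .ofNat 2648623662137503978061590043213022375055164702720, .ofNat 264659712874232345229373748115469276020736, .ofNat 0, .ofNat 0, .ofNat 6513159717691803560550373776419369934647885561856, .ofNat 1826759159872759393525920704733785492553728, .ofNat 0, .ofNat 0, .ofNat 28891772259384025612739726746033857516855346855936, .ofNat 2849581127387988545799201149329655728177152, .ofNat 0, .ofNat 0, .ofNat 0, .ofNat 2031395883398528322688444052714173172285440, .ofNat 0⟩)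
    (by decide +kernel)
theorem L03108 : Good (Phi V5.P V5.D 1 (-1)) ⟨5, 22, 4, 1, 3, 7, 2, 3, 5, 2⟩ :=
  out_sound (S := T5.ds_pm) T5.ok_pm (w := 59) (j := 3) (by decide +kernel)
theorem L03109 : Good (Phi V5.P V5.D 1 (-1)) ⟨5, 23, 3, 0, 3, 7, 2, 3, 5, 2⟩ :=
  out_sound (S := T5.ds_pm) T5.ok_pm (w := 57) (j := 3) (by decide +kernel)
theorem L03110 : Good (Phi V5.P V5.D 1 (-1)) ⟨4, 10, 3, 0, 3, 7, 3, 6, 5, 3⟩ :=
  leafYS_sound T5.ok_pm T5.Ypm.bz_eq (w := 232) (c := ⟨⟨.negSucc 3739, .negSucc 1117, .negSucc 454, .ofNat 342, .negSucc 810, .ofNat 189⟩, ⟨.negSucc 341, .negSucc 298, .ofNat 267, .ofNat 49, .negSucc 20, .ofNat 48⟩, ⟨.ofNat 2470, .ofNat 482, .ofNat 179, .negSucc 760, .ofNat 706, .ofNat 67⟩, ⟨.negSucc 7365, .negSucc 1543, .negSucc 653, .ofNat 610, .negSucc 1564, .ofNat 309⟩, ⟨.ofNat 1200, .ofNat 52, .negSucc 781, .ofNat 42, .ofNat 622, .ofNat 231⟩, .ofNat 409, .negSucc 102, .ofNat 0, .negSucc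 102, .ofNat 1242, .ofNat 0, .ofNat 279, .ofNat 128, .negSucc 312, .ofNat 0, .ofNat 116, .negSucc 13, .ofNat 0, .ofNat 0, .ofNat 371, .ofNat 495, .ofNat 0, .ofNat 0, .ofNat 0, .ofNat 0, .ofNat 0, .ofNat 0, .ofNat 10154108551215150073572562444803067476967424, .ofNat 0, .ofNat 0, .ofNat 0, .ofNat 15762417823624203533253819264271417727778816, .ofNat 0, .ofNat 0, .ofNat 0, .ofNat 0, .ofNat 0⟩)
    (by decide +kernel)
theorem L03111 : Good (Phi V5.P V5.D 1 (-1)) ⟨4, 10, 3, 0, 4, 14, 3, 7, 5, 3⟩ :=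
  leafYS_sound T5.ok_pm T5.Ypm.bz_eq (w := 247) (c := ⟨⟨.negSucc 4672, .negSucc 1197, .negSucc 306, .ofNat 157, .negSucc 1055, .ofNat 388⟩, ⟨.negSucc 402, .negSucc 340, .ofNat 383, .ofNat 45, .ofNat 8, .ofNat 53⟩, ⟨.ofNat 3369, .ofNat 535, .ofNat 71, .negSucc 453, .ofNat 1071, .negSucc 93⟩, ⟨.negSucc 9173, .negSucc 1640, .negSucc 378, .ofNat 262, .negSucc 2076, .ofNat 698⟩, ⟨.ofNat 1883, .negSucc 35, .negSucc 788, .ofNat 179, .ofNat 1145, .negSucc 14⟩, .ofNat 409, .negSucc 100, .ofNat 0, .negSucc 100, .ofNat 1236, .ofNat 0, .ofNat 254, .ofNat 128, .negSucc 318, .ofNat 0, .ofNat 113, .negSucc 13, .ofNat 0, .ofNat 0, .ofNat 363, .ofNat 374, .ofNat 0, .ofNat 0, .ofNat 0, .ofNat 0, .ofNat 0, .ofNat 26840232639339876018711675813338348744543905513472, .ofNat 169895537323018202511688715496785582197189902336, .ofNat 0, .ofNat 0, .ofNat 0, .ofNat 0, .ofNat 0, .ofNat 0, .ofNat 0, .ofNat 240732271117282048778299864031193998979500081152,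 .ofNat 0⟩)
    (by decide +kernel)
theorem L03112 : Good (Phi V5.P V5.D 1 (-1)) ⟨4, 10, 3, 0, 4, 15, 3, 7, 5, 3⟩ :=
  leafYS_sound T5.ok_pm T5.Ypm.bz_eq (w := 246) (c := ⟨⟨.negSucc 4479, .negSucc 1066, .negSucc 453, .ofNat 89, .negSucc 987, .ofNat 330⟩, ⟨.negSucc 350, .negSucc 306, .ofNat 325, .negSucc 4, .ofNat 18, .ofNat 72⟩, ⟨.ofNat 2944, .ofNat 401, .ofNat 174, .negSucc 491, .ofNat 847, .negSucc 10⟩, ⟨.negSucc 8873, .negSucc 1368, .negSucc 602, .ofNat 151, .negSucc 1933, .ofNat 574⟩, ⟨.ofNat 2146, .negSucc 74, .negSucc 944, .negSucc 188, .ofNat 1105, .ofNat 291⟩, .ofNat 468, .negSucc 179, .ofNat 0, .negSucc 179, .ofNat 1943, .ofNat 0, .ofNat 288, .ofNat 128, .negSucc 194, .ofNat 0, .ofNat 94, .negSucc 11, .ofNat 0, .ofNat 0, .ofNat 253, .ofNat 242, .ofNat 0, .ofNat 9029953883901936001422434192175460803390342168576, .ofNat 10129156405232997134750492957231083693184909312, .ofNat 0, .ofNat 0,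 .ofNat 73682884988440381804394322926086124818990595309568, .ofNat 215501860161653913900178644299120813296695902208, .ofNat 0, .ofNat 0, .ofNat 83924935534645125178849048870842271765235786317824, .ofNat 118255666943432271559539339422832300314501054464, .ofNat 0, .ofNat 0, .ofNat 0, .ofNat 0, .ofNat 0⟩)
    (by decide +kernel)
theorem L03113 : Good (Phi V5.P V5.D 1 (-1)) ⟨4, 11, 3, 0, 3, 7, 3, 6, 5, 3⟩ :=
  leafYS_sound T5.ok_pm T5.Ypm.bz_eq (w := 233) (c := ⟨⟨.negSucc 5218, .negSucc 1375, .negSucc 573, .ofNat 818, .negSucc 822, .ofNat 422⟩, ⟨.negSucc 720, .negSucc 421, .ofNat 262, .ofNat 160, .negSucc 56, .ofNat 93⟩, ⟨.ofNat 3205, .ofNat 450, .ofNat 197, .negSucc 1093, .ofNat 703, .negSucc 25⟩, ⟨.negSucc 9519, .negSucc 1824, .negSucc 763, .ofNat 1408, .negSucc 1555, .ofNat 706⟩, ⟨.ofNat 1127, .negSucc 42, .negSucc 907, .ofNat 212, .ofNat 628, .ofNat 215⟩, .ofNat 504, .negSucc 327, .ofNat 0, .negSucc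 327, .ofNat 2083, .ofNat 0, .ofNat 302, .ofNat 128, .negSucc 490, .ofNat 0, .ofNat 86, .negSucc 52, .ofNat 0, .ofNat 0, .ofNat 570, .ofNat 591, .ofNat 0, .ofNat 0, .ofNat 1811000970435652918966270588276320862470144, .ofNat 0, .ofNat 0, .ofNat 0, .ofNat 26966604918589623808417413757057793383202816, .ofNat 0, .ofNat 0, .ofNat 0, .ofNat 21333630859616519756076372088421491899629568, .ofNat 0, .ofNat 0, .ofNat 0, .ofNat 33303942079694563686913938700174324102332416, .ofNat 0⟩)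
    (by decide +kernel)
theorem L03114 : Good (Phi V5.P V5.D 1 (-1)) ⟨4, 11, 3, 0, 3, 7, 3, 7, 5, 3⟩ :=
  leafYS_sound T5.ok_pm T5.Ypm.bz_eq (w := 232) (c := ⟨⟨.negSucc 6196, .negSucc 1351, .negSucc 457, .ofNat 572, .negSucc 1394, .ofNat 786⟩, ⟨.negSucc 812, .negSucc 466, .ofNat 369, .ofNat 117, .negSucc 132, .ofNat 183⟩, ⟨.ofNat 4161, .ofNat 380, .ofNat 119, .negSucc 1263, .ofNat 968, .negSucc 190⟩, ⟨.negSucc 11356, .negSucc 1686, .negSucc 536, .ofNat 977, .negSucc 2594, .ofNat 1319⟩, ⟨.ofNat 1732, .negSucc 326, .negSucc 832, .ofNat 175, .ofNat 800, .ofNat 423⟩, .ofNat 469, .negSucc 253, .ofNat 0, .negSucc 253, .ofNat 1689, .ofNat 0, .ofNat 149, .ofNat 128, .negSucc 212, .ofNat 0, .ofNat 85, .negSucc 22, .ofNat 0, .ofNat 0, .ofNat 253, .ofNat 171, .ofNat 0, .ofNat 953617819276049944557722393309021286791380992, .ofNat 1241127907812462933940789159348819409764352, .ofNat 0, .ofNat 0, .ofNat 5011696747178926117183989704155942475706400768,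 .ofNat 9952646986191244349922847230763619290447872, .ofNat 0, .ofNat 0, .ofNat 0, .ofNat 11001529428603807053531205283486497834532864, .ofNat 0, .ofNat 0, .ofNat 0, .ofNat 8015832262794676635321618651298634481532928, .ofNat 0⟩)
    (by decide +kernel)
theorem L03115 : Good (Phi V5.P V5.D 1 (-1)) ⟨3, 4, 3, 1, 3, 7, 2, 2, 4, 0⟩ :=
  leafYS_sound T5.ok_pm T5.Ypm.bz_eq (w := 218) (c := ⟨⟨.ofNat 922, .negSucc 213, .ofNat 197, .negSucc 284, .negSucc 1388, .negSucc 1451⟩, ⟨.ofNat 94, .ofNat 12, .ofNat 28, .negSucc 47, .ofNat 59, .negSucc 25⟩, ⟨.negSucc 572, .ofNat 72, .negSucc 24, .ofNat 236, .ofNat 1077, .ofNat 387⟩, ⟨.ofNat 2021, .negSucc 422, .ofNat 463, .negSucc 703, .negSucc 2919, .negSucc 3010⟩, ⟨.ofNat 2115, .ofNat 70, .negSucc 86, .negSucc 985, .negSucc 480, .negSucc 1057⟩, .ofNat 443, .ofNat 72, .ofNat 0, .ofNat 72, .ofNat 1366, .ofNat 0, .ofNat 598, .ofNat 63, .negSucc 418, .ofNat 0, .ofNat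 128, .ofNat 30, .ofNat 0, .ofNat 0, .ofNat 449, .ofNat 396, .ofNat 0, .ofNat 0, .ofNat 0, .ofNat 0, .ofNat 0, .ofNat 0, .ofNat 244804241971714104033817986710057863086080, .ofNat 0, .ofNat 0, .ofNat 0, .ofNat 0, .ofNat 0, .ofNat 0, .ofNat 0, .ofNat 0, .ofNat 0⟩)
    (by decide +kernel)
theorem L03116 : Good (Phi V5.P V5.D 1 (-1)) ⟨4, 10, 3, 1, 3, 7, 2, 2, 5, 0⟩ :=
  leafYS_sound T5.ok_pm T5.Ypm.bz_eq (w := 227) (c := ⟨⟨.ofNat 1449, .ofNat 521, .ofNat 358, .negSucc 584, .negSucc 2523, .negSucc 1029⟩, ⟨.ofNat 327, .ofNat 155, .ofNat 19, .negSucc 153, .negSucc 160, .negSucc 164⟩, ⟨.negSucc 697, .negSucc 272, .negSucc 243, .ofNat 410, .ofNat 1478, .ofNat 179⟩, ⟨.ofNat 2677, .ofNat 830, .ofNat 747, .negSucc 1086, .negSucc 4732, .negSucc 1880⟩, ⟨.ofNat 2771, .ofNat 384, .negSucc 310, .negSucc 1378, .negSucc 695, .negSucc 999⟩, .ofNat 469, .negSucc 49, .ofNat 0, .negSucc 49, .ofNat 1880, .ofNat 0, .ofNat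 260, .ofNat 128, .negSucc 299, .ofNat 0, .ofNat 72, .negSucc 12, .ofNat 0, .ofNat 0, .ofNat 237, .ofNat 131, .ofNat 0, .ofNat 0, .ofNat 15702862655843595106667880994385237639168, .ofNat 0, .ofNat 0, .ofNat 0, .ofNat 511581509450559534295941003888402420989952, .ofNat 0, .ofNat 0, .ofNat 0, .ofNat 816761604030163014989713952433065615687680, .ofNat 0, .ofNat 0, .ofNat 0, .ofNat 366331838800575798501367519698710985441280, .ofNat 0⟩)
    (by decide +kernel)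
theorem L03117 : Good (Phi V5.P V5.D 1 (-1)) ⟨4, 10, 3, 1, 3, 7, 2, 2, 5, 1⟩ :=
  leafYS_sound T5.ok_pm T5.Ypm.bz_eq (w := 226) (c := ⟨⟨.ofNat 485, .negSucc 655, .ofNat 36, .negSucc 114, .negSucc 2477, .negSucc 1428⟩, ⟨.ofNat 180, .negSucc 62, .ofNat 75, .negSucc 96, .negSucc 141, .negSucc 101⟩, ⟨.negSucc 559, .ofNat 348, .ofNat 80, .ofNat 68, .ofNat 1570, .ofNat 591⟩, ⟨.ofNat 834, .negSucc 1075, .ofNat 112, .negSucc 222, .negSucc 4662, .negSucc 2674⟩, ⟨.ofNat 1625, .ofNat 145, .negSucc 250, .negSucc 959, .negSucc 690, .negSucc 670⟩, .ofNat 458, .negSucc 42, .ofNat 0, .negSucc 42, .ofNat 1710, .ofNat 0, .ofNat 337, .ofNat 128, .negSucc 258, .ofNat 0, .ofNat 93, .negSucc 7, .ofNat 0, .ofNat 0, .ofNat 220, .ofNat 164, .ofNat 0, .ofNat 0, .ofNat 20726599876466563825032772382799031173120, .ofNat 0, .ofNat 0, .ofNat 0, .ofNat 942105777078385575869153406011527261061120, .ofNat 0, .ofNat 0, .ofNat 0,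 .ofNat 1114256762921640921138638158399950156726272, .ofNat 0, .ofNat 0, .ofNat 0, .ofNat 286892237066930612725988785454308860624896, .ofNat 0⟩)
    (by decide +kernel)
theorem L03118 : Good (Phi V5.P V5.D 1 (-1)) ⟨4, 11, 3, 1, 3, 7, 2, 2, 4, 0⟩ :=
  out_sound (S := T5.ds_pm) T5.ok_pm (w := 51) (j := 3) (by decide +kernel)
theorem L03119 : Good (Phi V5.P V5.D 1 (-1)) ⟨3, 4, 3, 1, 3, 7, 2, 2, 4, 1⟩ :=
  leafYS_sound T5.ok_pm T5.Ypm.bz_eq (w := 218) (c := ⟨⟨.negSucc 455, .negSucc 1120, .negSucc 50, .ofNat 140, .negSucc 1063, .negSucc 1496⟩, ⟨.ofNat 104, .negSucc 139, .ofNat 167, .negSucc 14, .ofNat 29, .ofNat 80⟩, ⟨.negSucc 147, .ofNat 565, .ofNat 44, .negSucc 173, .ofNat 1100, .ofNat 993⟩, ⟨.negSucc 1223, .negSucc 1666, .negSucc 64, .ofNat 176, .negSucc 2154, .negSucc 3071⟩, ⟨.ofNat 639, .ofNat 143, .negSucc 320, .negSucc 344, .negSucc 6, .ofNat 26⟩, .ofNat 442, .ofNat 69, .ofNat 0, .ofNat 69, .ofNat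 1359, .ofNat 0, .ofNat 630, .negSucc 2, .negSucc 363, .ofNat 0, .ofNat 128, .ofNat 30, .ofNat 0, .ofNat 0, .ofNat 476, .ofNat 434, .ofNat 0, .ofNat 0, .ofNat 0, .ofNat 0, .ofNat 0, .ofNat 0, .ofNat 312680281276131901248820261266308596760576, .ofNat 0, .ofNat 0, .ofNat 0, .ofNat 0, .ofNat 0, .ofNat 0, .ofNat 0, .ofNat 0, .ofNat 0⟩)
    (by decide +kernel)
theorem L03120 : Good (Phi V5.P V5.D 1 (-1)) ⟨3, 5, 3, 1, 3, 7, 2, 2, 4, 1⟩ :=
  leafYS_sound T5.ok_pm T5.Ypm.bz_eq (w := 219) (c := ⟨⟨.negSucc 1569, .negSucc 1489, .negSucc 175, .ofNat 6, .negSucc 1519, .negSucc 1163⟩, ⟨.ofNat 36, .negSucc 316, .ofNat 209, .negSucc 62, .negSucc 95, .negSucc 1⟩, ⟨.ofNat 437, .ofNat 574, .ofNat 42, .negSucc 188, .ofNat 1252, .ofNat 921⟩, ⟨.negSucc 3087, .negSucc 2144, .negSucc 330, .ofNat 38, .negSucc 2850, .negSucc 2190⟩, ⟨.ofNat 688, .negSucc 453, .negSucc 722, .negSucc 393, .negSucc 304, .ofNat 506⟩, .ofNat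 458, .negSucc 54, .ofNat 0, .negSucc 54, .ofNat 1716, .ofNat 0, .ofNat 530, .ofNat 98, .negSucc 349, .ofNat 0, .ofNat 128, .negSucc 3, .ofNat 0, .ofNat 0, .ofNat 399, .ofNat 572, .ofNat 0, .ofNat 0, .ofNat 10087502822024251904343660266252157321216, .ofNat 0, .ofNat 0, .ofNat 0, .ofNat 283839699715525990628663112608648920039424, .ofNat 0, .ofNat 0, .ofNat 0, .ofNat 291957195356542625409109073076398059421696, .ofNat 0, .ofNat 0, .ofNat 0, .ofNat 222457226287357118795671284888034347057152, .ofNat 0⟩)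
    (by decide +kernel)
theorem L03121 : Good (Phi V5.P V5.D 1 (-1)) ⟨4, 8, 3, 1, 3, 7, 2, 3, 4, 0⟩ :=
  leafYS_sound T5.ok_pm T5.Ypm.bz_eq (w := 223) (c := ⟨⟨.negSucc 520, .negSucc 422, .ofNat 115, .negSucc 204, .negSucc 1227, .negSucc 924⟩, ⟨.ofNat 103, .negSucc 25, .ofNat 127, .negSucc 41, .ofNat 287, .ofNat 41⟩, ⟨.ofNat 643, .ofNat 220, .ofNat 13, .negSucc 117, .ofNat 1397, .ofNat 324⟩, ⟨.negSucc 1129, .negSucc 756, .ofNat 366, .negSucc 534, .negSucc 2421, .negSucc 2008⟩, ⟨.ofNat 1572, .negSucc 72, .negSucc 259, .negSucc 850, .ofNat 2265, .negSucc 649⟩, .ofNat 457, .ofNat 100, .ofNat 0, .ofNat 100, .ofNat 1444, .ofNat 0, .ofNat 621, .ofNat 48, .negSucc 396, .ofNat 0, .ofNat 128, .ofNat 39, .ofNat 0, .ofNat 0, .ofNat 438, .ofNat 588, .ofNat 0, .ofNat 0, .ofNat 0, .ofNat 0, .ofNat 0, .ofNat 1763290346765692510768094638267485533352493056, .ofNat 0, .ofNat 0, .ofNat 0, .ofNat 0, .ofNat 0, .ofNat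 0, .ofNat 0, .ofNat 0, .ofNat 0, .ofNat 0⟩)
    (by decide +kernel)
theorem L03122 : Good (Phi V5.P V5.D 1 (-1)) ⟨4, 9, 3, 1, 3, 7, 2, 3, 4, 0⟩ :=
  leafYS_sound T5.ok_pm T5.Ypm.bz_eq (w := 222) (c := ⟨⟨.negSucc 265, .negSucc 1027, .negSucc 39, .negSucc 287, .negSucc 1583, .negSucc 1762⟩, ⟨.ofNat 144, .negSucc 91, .ofNat 159, .negSucc 109, .ofNat 273, .negSucc 32⟩, ⟨.ofNat 613, .ofNat 377, .ofNat 70, .negSucc 240, .ofNat 1629, .ofNat 692⟩, ⟨.negSucc 702, .negSucc 1813, .ofNat 46, .negSucc 633, .negSucc 3020, .negSucc 3385⟩, ⟨.ofNat 1794, .negSucc 548, .negSucc 538, .negSucc 963, .ofNat 2519, .negSucc 623⟩, .ofNat 485, .ofNat 77, .ofNat 0, .ofNat 77, .ofNat 1986, .ofNat 0, .ofNat 542, .ofNat 113, .negSucc 325, .ofNat 0, .ofNat 128, .ofNat 13, .ofNat 0, .ofNat 0, .ofNat 304, .ofNat 148, .ofNat 0, .ofNat 0, .ofNat 0, .ofNat 0, .ofNat 0, .ofNat 642941439678882745041794342204248026391773184, .ofNat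 56309390139086002777292173025155928293376, .ofNat 0, .ofNat 0, .ofNat 0, .ofNat 0, .ofNat 0, .ofNat 0, .ofNat 86044923313854748768277758220279183614935040, .ofNat 11781252112368534983533870560644962451456, .ofNat 0⟩)
    (by decide +kernel)
theorem L03123 : Good (Phi V5.P V5.D 1 (-1)) ⟨4, 8, 3, 1, 3, 7, 2, 3, 5, 2⟩ :=
  leafYS_sound T5.ok_pm T5.Ypm.bz_eq (w := 228) (c := ⟨⟨.negSucc 1449, .negSucc 612, .negSucc 26, .negSucc 201, .negSucc 1309, .negSucc 716⟩, ⟨.ofNat 113, .negSucc 87, .ofNat 221, .negSucc 3, .ofNat 268, .ofNat 74⟩, ⟨.ofNat 1133, .ofNat 276, .ofNat 9, .negSucc 270, .ofNat 1485, .ofNat 427⟩, ⟨.negSucc 3160, .negSucc 1011, .negSucc 17, .negSucc 507, .negSucc 2665, .negSucc 1576⟩, ⟨.ofNat 982, .negSucc 101, .negSucc 463, .negSucc 596, .ofNat 1892, .negSucc 148⟩, .ofNat 459, .ofNat 104, .ofNat 0, .ofNat 104, .ofNat 1445, .ofNat 0, .ofNat 539, .ofNat 2, .negSucc 444, .ofNat 0, .ofNat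 128, .ofNat 43, .ofNat 0, .ofNat 0, .ofNat 539, .ofNat 568, .ofNat 0, .ofNat 0, .ofNat 0, .ofNat 0, .ofNat 0, .ofNat 14129717386567860972191474014197829138479316992, .ofNat 0, .ofNat 0, .ofNat 0, .ofNat 0, .ofNat 0, .ofNat 0, .ofNat 0, .ofNat 0, .ofNat 0, .ofNat 0⟩)
    (by decide +kernel)
theorem L03124 : Good (Phi V5.P V5.D 1 (-1)) ⟨4, 9, 3, 1, 3, 7, 2, 3, 5, 2⟩ :=
  leafYS_sound T5.ok_pm T5.Ypm.bz_eq (w := 228) (c := ⟨⟨.negSucc 1666, .negSucc 1172, .negSucc 360, .negSucc 469, .negSucc 1899, .negSucc 818⟩, ⟨.ofNat 90, .negSucc 174, .ofNat 249, .negSucc 53, .ofNat 248, .ofNat 45⟩, ⟨.ofNat 1324, .ofNat 517, .ofNat 137, .negSucc 320, .ofNat 1733, .ofNat 466⟩, ⟨.negSucc 3545, .negSucc 1913, .negSucc 640, .negSucc 952, .negSucc 3697, .negSucc 1630⟩, ⟨.ofNat 1395, .negSucc 519, .negSucc 583, .negSucc 1108, .ofNat 1440, .negSucc 117⟩, .ofNat 483, .ofNat 67, .ofNat 0, .ofNat 67, .ofNat 1973, .ofNat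 0, .ofNat 738, .ofNat 64, .negSucc 477, .ofNat 0, .ofNat 128, .ofNat 18, .ofNat 0, .ofNat 0, .ofNat 499, .ofNat 306, .ofNat 0, .ofNat 297418297408396788439259510204816012743802880, .ofNat 16930580687722782757927955305488126574592, .ofNat 0, .ofNat 0, .ofNat 7490839804004458771938933408672026367616876544, .ofNat 4326972951572099895108040940593522822610944, .ofNat 0, .ofNat 0, .ofNat 4236919902741442970748091880604205538697281536, .ofNat 0, .ofNat 0, .ofNat 0, .ofNat 0, .ofNat 0, .ofNat 0⟩)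
    (by decide +kernel)
theorem L03125 : Good (Phi V5.P V5.D 1 (-1)) ⟨3, 4, 3, 1, 3, 7, 2, 3, 5, 3⟩ :=
  leafYS_sound T5.ok_pm T5.Ypm.bz_eq (w := 224) (c := ⟨⟨.negSucc 2102, .negSucc 1548, .negSucc 228, .negSucc 222, .negSucc 1373, .negSucc 194⟩, ⟨.ofNat 188, .negSucc 276, .ofNat 288, .ofNat 12, .ofNat 243, .ofNat 23⟩, ⟨.ofNat 1577, .ofNat 745, .ofNat 125, .negSucc 348, .ofNat 1404, .ofNat 219⟩, ⟨.negSucc 4747, .negSucc 2259, .negSucc 413, .negSucc 538, .negSucc 2728, .negSucc 392⟩, ⟨.ofNat 901, .negSucc 178, .negSucc 645, .negSucc 417, .ofNat 1571, .ofNat 120⟩, .ofNat 444, .ofNat 75, .ofNat 0, .ofNat 75, .ofNat 1367, .ofNat 0, .ofNat 696, .ofNat 0, .negSucc 365, .ofNat 0, .ofNat 128, .ofNat 29, .ofNat 0, .ofNat 0, .ofNat 507, .ofNat 328, .ofNat 0, .ofNat 23900630010708514716996362913768491555225600, .ofNat 93773933176977319883785407163182281129984, .ofNat 0, .ofNat 0, .ofNat 1394214958336309028935911610406740653932281856,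 .ofNat 7078912451988575576114319678352361422585856, .ofNat 0, .ofNat 0, .ofNat 0, .ofNat 0, .ofNat 0, .ofNat 0, .ofNat 0, .ofNat 0, .ofNat 0⟩)
    (by decide +kernel)
theorem L03126 : Good (Phi V5.P V5.D 1 (-1)) ⟨5, 20, 3, 1, 3, 7, 3, 6, 4, 0⟩ :=
  leafYS_sound T5.ok_pm T5.Ypm.bz_eq (w := 230) (c := ⟨⟨.negSucc 721, .negSucc 853, .negSucc 460, .negSucc 471, .negSucc 1034, .negSucc 1943⟩, ⟨.ofNat 209, .negSucc 129, .ofNat 118, .negSucc 167, .ofNat 68, .negSucc 179⟩, ⟨.ofNat 865, .ofNat 385, .ofNat 239, .negSucc 252, .ofNat 833, .ofNat 768⟩, ⟨.negSucc 1489, .negSucc 1450, .negSucc 822, .negSucc 886, .negSucc 1971, .negSucc 3633⟩, ⟨.ofNat 2254, .negSucc 336, .negSucc 1016, .negSucc 1412, .ofNat 733, .negSucc 1117⟩, .ofNat 460, .negSucc 35, .ofNat 0, .negSucc 35, .ofNat 1737, .ofNat 0, .ofNat 256, .ofNat 128, .negSucc 351, .ofNat 0, .ofNat 73, .negSucc 11, .ofNat 0, .ofNat 0, .ofNat 268, .ofNat 215,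 .ofNat 0, .ofNat 0, .ofNat 0, .ofNat 0, .ofNat 0, .ofNat 0, .ofNat 107387844087534061152315408723131557216256, .ofNat 0, .ofNat 0, .ofNat 0, .ofNat 47267006950504073284580343281912408702976, .ofNat 0, .ofNat 0, .ofNat 0, .ofNat 54848439381167390198342308306832796418048, .ofNat 0⟩)
    (by decide +kernel)
theorem L03127 : Good (Phi V5.P V5.D 1 (-1)) ⟨5, 21, 3, 1, 3, 7, 3, 6, 4, 0⟩ :=
  leafYS_sound T5.ok_pm T5.Ypm.bz_eq (w := 231) (c := ⟨⟨.negSucc 1509, .negSucc 577, .negSucc 491, .negSucc 431, .negSucc 1150, .negSucc 2268⟩, ⟨.ofNat 158, .negSucc 121, .ofNat 101, .negSucc 210, .ofNat 20, .negSucc 292⟩, ⟨.ofNat 1338, .ofNat 133, .ofNat 162, .negSucc 393, .ofNat 824, .ofNat 844⟩, ⟨.negSucc 2929, .negSucc 849, .negSucc 793, .negSucc 714, .negSucc 2167, .negSucc 4118⟩, ⟨.ofNat 1948, .negSucc 42, .negSucc 975, .negSucc 1481, .ofNat 669, .negSucc 1292⟩, .ofNat 477, .negSucc 112, .ofNat 0, .negSucc 112,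 .ofNat 1995, .ofNat 0, .ofNat 189, .ofNat 128, .negSucc 407, .ofNat 0, .ofNat 61, .negSucc 30, .ofNat 0, .ofNat 0, .ofNat 283, .ofNat 262, .ofNat 0, .ofNat 0, .ofNat 7695891390426417632585404138624485687296, .ofNat 0, .ofNat 0, .ofNat 0, .ofNat 114084708802733648636874093671145598353408, .ofNat 0, .ofNat 0, .ofNat 0, .ofNat 117184084950598399624768927670629686050816, .ofNat 0, .ofNat 0, .ofNat 0, .ofNat 164273104209599162044983660787680657014784, .ofNat 0⟩)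
    (by decide +kernel)
theorem L03128 : Good (Phi V5.P V5.D 1 (-1)) ⟨4, 10, 3, 1, 4, 14, 3, 7, 4, 0⟩ :=
  leafYS_sound T5.ok_pm T5.Ypm.bz_eq (w := 240) (c := ⟨⟨.negSucc 1750, .negSucc 1414, .ofNat 435, .negSucc 378, .negSucc 475, .negSucc 2549⟩, ⟨.ofNat 236, .negSucc 183, .ofNat 294, .negSucc 68, .ofNat 205, .negSucc 286⟩, ⟨.ofNat 1779, .ofNat 594, .negSucc 264, .negSucc 150, .ofNat 886, .ofNat 1123⟩, ⟨.negSucc 3537, .negSucc 2379, .ofNat 1024, .negSucc 659, .negSucc 921, .negSucc 4712⟩, ⟨.ofNat 2629, .negSucc 338, .negSucc 207, .negSucc 445, .ofNat 1852, .negSucc 1449⟩, .ofNat 458, .negSucc 41, .ofNat 0, .negSucc 41, .ofNat 1714, .ofNat 0, .ofNat 139, .ofNat 128, .negSucc 244, .ofNat 0, .ofNat 71, .negSucc 10, .ofNat 0, .ofNat 0, .ofNat 181, .ofNat 73, .ofNat 0, .ofNat 0, .ofNat 96529181974652313663414219148657232621600768, .ofNat 0, .ofNat 0, .ofNat 0, .ofNat 1290100564002096852787003428055074453514616832,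 .ofNat 0, .ofNat 0, .ofNat 0, .ofNat 4761365968930710175047474871513333523231539200, .ofNat 0, .ofNat 0, .ofNat 0, .ofNat 2115307304262401131013521440620135141192237056, .ofNat 0⟩)
    (by decide +kernel)
theorem L03129 : Good (Phi V5.P V5.D 1 (-1)) ⟨6, 40, 3, 1, 4, 15, 3, 7, 5, 0⟩ :=
  leafYS_sound T5.ok_pm T5.Ypm.bz_eq (w := 253) (c := ⟨⟨.negSucc 1601, .negSucc 470, .negSucc 723, .negSucc 617, .negSucc 474, .negSucc 1022⟩, ⟨.ofNat 221, .negSucc 67, .ofNat 164, .negSucc 133, .ofNat 212, .negSucc 107⟩, ⟨.ofNat 1560, .ofNat 158, .ofNat 277, .negSucc 90, .ofNat 743, .ofNat 288⟩, ⟨.negSucc 3155, .negSucc 829, .negSucc 1197, .negSucc 1208, .negSucc 899, .negSucc 1949⟩, ⟨.ofNat 3003, .negSucc 389, .negSucc 1294, .negSucc 1214, .ofNat 1956, .negSucc 1102⟩, .ofNat 488, .negSucc 24, .ofNat 0, .negSucc 24, .ofNat 2213, .ofNat 0, .ofNat 334, .ofNat 128, .negSucc 323, .ofNat 0, .ofNat 58, .negSucc 14, .ofNat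 0, .ofNat 0, .ofNat 221, .ofNat 128, .ofNat 0, .ofNat 0, .ofNat 0, .ofNat 0, .ofNat 0, .ofNat 0, .ofNat 20210559470699909717289771998031828560247783424, .ofNat 0, .ofNat 0, .ofNat 5555262824810324928975927527024019711612418485387264, .ofNat 1367420649523109392132468602771162580022984704, .ofNat 0, .ofNat 0, .ofNat 0, .ofNat 9849914718873990294689658352454885575653064704, .ofNat 0⟩)
    (by decide +kernel)
theorem L03130 : Good (Phi V5.P V5.D 1 (-1)) ⟨6, 41, 3, 1, 4, 15, 3, 7, 5, 0⟩ :=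
  leafYS_sound T5.ok_pm T5.Ypm.bz_eq (w := 253) (c := ⟨⟨.negSucc 1640, .negSucc 735, .negSucc 1286, .negSucc 696, .negSucc 520, .negSucc 1362⟩, ⟨.ofNat 252, .negSucc 103, .ofNat 78, .negSucc 168, .ofNat 198, .negSucc 185⟩, ⟨.ofNat 1624, .ofNat 255, .ofNat 434, .negSucc 127, .ofNat 778, .ofNat 388⟩, ⟨.negSucc 3230, .negSucc 1294, .negSucc 2197, .negSucc 1280, .negSucc 1043, .negSucc 2511⟩, ⟨.ofNat 3013, .negSucc 490, .negSucc 1698, .negSucc 1273, .ofNat 1777, .negSucc 1186⟩, .ofNat 480, .negSucc 76, .ofNat 0, .negSucc 76, .ofNat 2070, .ofNat 0, .ofNat 132, .ofNat 128, .negSucc 245, .ofNat 0, .ofNat 52, .negSucc 18, .ofNat 0, .ofNat 0, .ofNat 152, .ofNat 73, .ofNat 0, .ofNat 0, .ofNat 271045187524571031640912700902619064861458432, .ofNat 0, .ofNat 0, .ofNat 0, .ofNat 5162141204005826417158292413178580845692190720, .ofNat 0, .ofNat 0, .ofNat 0, .ofNat 3948387479571293692992535664550645547841617920,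 .ofNat 0, .ofNat 0, .ofNat 0, .ofNat 6915142911419528111190974928911263916015747072, .ofNat 0⟩)
    (by decide +kernel)
theorem L03131 : Good (Phi V5.P V5.D 1 (-1)) ⟨5, 20, 4, 2, 4, 15, 3, 7, 5, 1⟩ :=
  leafYS_sound T5.ok_pm T5.Ypm.bz_eq (w := 252) (c := ⟨⟨.negSucc 2144, .negSucc 1586, .negSucc 588, .negSucc 592, .negSucc 1601, .negSucc 1525⟩, ⟨.ofNat 177, .negSucc 260, .ofNat 118, .negSucc 137, .ofNat 46, .negSucc 129⟩, ⟨.ofNat 1728, .ofNat 579, .ofNat 238, .negSucc 231, .ofNat 1137, .ofNat 668⟩, ⟨.negSucc 4271, .negSucc 2676, .negSucc 1055, .negSucc 1105, .negSucc 3025, .negSucc 2860⟩, ⟨.ofNat 2266, .negSucc 894, .negSucc 599, .negSucc 1049, .ofNat 851, .negSucc 804⟩, .ofNat 470, .negSucc 46, .ofNat 0, .negSucc 46, .ofNat 1905, .ofNat 0, .ofNat 215, .ofNat 128, .negSucc 220, .ofNat 0, .ofNat 67, .negSucc 11, .ofNat 0, .ofNat 0, .ofNat 159, .ofNat 82, .ofNat 0, .ofNat 0, .ofNat 5350335648760315557415981497828800115677069312,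 .ofNat 0, .ofNat 0, .ofNat 0, .ofNat 73034208952409608412031172056846925373917626368, .ofNat 0, .ofNat 0, .ofNat 3146792596898855156046961432782431639697896725544960, .ofNat 28678437712277804798580656860159823568145743872, .ofNat 0, .ofNat 0, .ofNat 0, .ofNat 37348122205642111371450416864110564356609015808, .ofNat 0⟩)
    (by decide +kernel)
theorem L03132 : Good (Phi V5.P V5.D 1 (-1)) ⟨5, 20, 4, 3, 4, 15, 3, 7, 5, 1⟩ :=
  leafYS_sound T5.ok_pm T5.Ypm.bz_eq (w := 253) (c := ⟨⟨.negSucc 2356, .negSucc 1976, .negSucc 873, .negSucc 1116, .negSucc 1407, .negSucc 1399⟩, ⟨.ofNat 245, .negSucc 264, .ofNat 78, .negSucc 167, .ofNat 130, .negSucc 65⟩, ⟨.ofNat 1809, .ofNat 670, .ofNat 336, .negSucc 3, .ofNat 1083, .ofNat 617⟩, ⟨.negSucc 4565, .negSucc 3443, .negSucc 1620, .negSucc 2149, .negSucc 2676, .negSucc 2675⟩, ⟨.ofNat 1753, .negSucc 1168, .negSucc 877, .negSucc 1426, .ofNat 971, .negSucc 658⟩, .ofNat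 474, .ofNat 17, .ofNat 0, .ofNat 17, .ofNat 1852, .ofNat 0, .ofNat 286, .ofNat 128, .negSucc 310, .ofNat 0, .ofNat 75, .negSucc 9, .ofNat 0, .ofNat 0, .ofNat 219, .ofNat 215, .ofNat 0, .ofNat 0, .ofNat 20428324506412794178589759804790760825606373376, .ofNat 0, .ofNat 0, .ofNat 0, .ofNat 204581938413009345971720757259939058724728995840, .ofNat 0, .ofNat 0, .ofNat 0, .ofNat 211172868961627346682640283724148126964258963456, .ofNat 0, .ofNat 0, .ofNat 0, .ofNat 175501348638733032517513846233717148336498147328, .ofNat 0⟩)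
    (by decide +kernel)
theorem L03133 : Good (Phi V5.P V5.D 1 (-1)) ⟨5, 21, 3, 1, 4, 15, 3, 7, 4, 0⟩ :=
  leafYS_sound T5.ok_pm T5.Ypm.bz_eq (w := 245) (c := ⟨⟨.negSucc 1667, .negSucc 3116, .negSucc 514, .negSucc 1244, .negSucc 1028, .negSucc 3436⟩, ⟨.ofNat 280, .negSucc 472, .ofNat 307, .negSucc 295, .ofNat 108, .negSucc 465⟩, ⟨.ofNat 1635, .ofNat 1072, .ofNat 119, .negSucc 115, .ofNat 994, .ofNat 1302⟩, ⟨.negSucc 3305, .negSucc 5349, .negSucc 856, .negSucc 2192, .negSucc 1967, .negSucc 6240⟩, ⟨.ofNat 2956, .negSucc 1385, .negSucc 1231, .negSucc 1736, .ofNat 1341, .negSucc 2143⟩, .ofNat 471, .negSucc 105, .ofNat 0, .negSucc 105, .ofNat 1889, .ofNat 0, .ofNat 128, .ofNat 178, .negSucc 256, .ofNat 0, .ofNat 74, .negSucc 25, .ofNat 0, .ofNat 0, .ofNat 155, .ofNat 90, .ofNat 0, .ofNat 0, .ofNat 224212524673639879676832398191074508261031936, .ofNat 0, .ofNat 0, .ofNat 0, .ofNat 839362821491064901266437211202309951328354304,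 .ofNat 0, .ofNat 0, .ofNat 53619251414615101616717253284283900360836511694848, .ofNat 2147170431064515722836780595237063609594937344, .ofNat 0, .ofNat 0, .ofNat 0, .ofNat 1693370733784731133170876287886472158948360192, .ofNat 0⟩)
    (by decide +kernel)
theorem L03134 : Good (Phi V5.P V5.D 1 (-1)) ⟨4, 10, 3, 1, 3, 7, 3, 6, 4, 1⟩ :=
  leafYS_sound T5.ok_pm T5.Ypm.bz_eq (w := 227) (c := ⟨⟨.negSucc 3709, .negSucc 1324, .negSucc 310, .negSucc 78, .negSucc 766, .negSucc 78⟩, ⟨.negSucc 59, .negSucc 315, .ofNat 250, .negSucc 80, .ofNat 64, .ofNat 88⟩, ⟨.ofNat 2224, .ofNat 533, .ofNat 121, .negSucc 542, .ofNat 711, .ofNat 376⟩, ⟨.negSucc 7182, .negSucc 1891, .negSucc 551, .negSucc 131, .negSucc 1456, .negSucc 175⟩, ⟨.ofNat 424, .negSucc 153, .negSucc 982, .negSucc 638, .ofNat 743, .ofNat 722⟩, .ofNat 474, .negSucc 60, .ofNat 0, .negSucc 60, .ofNat 1961, .ofNat 0, .ofNat 486, .ofNat 128, .negSucc 395,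 .ofNat 0, .ofNat 127, .negSucc 7, .ofNat 0, .ofNat 0, .ofNat 423, .ofNat 351, .ofNat 0, .ofNat 0, .ofNat 38179170729604989802260994387355138785280, .ofNat 0, .ofNat 0, .ofNat 0, .ofNat 1187074772365151574346127773369472141754368, .ofNat 0, .ofNat 0, .ofNat 0, .ofNat 1154630920714486333466715470423485302439936, .ofNat 0, .ofNat 0, .ofNat 0, .ofNat 525050602152045573212759469043612529983488, .ofNat 0⟩)
    (by decide +kernel)
theorem L03135 : Good (Phi V5.P V5.D 1 (-1)) ⟨4, 10, 3, 1, 4, 14, 3, 7, 4, 1⟩ :=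
  leafYS_sound T5.ok_pm T5.Ypm.bz_eq (w := 241) (c := ⟨⟨.negSucc 4369, .negSucc 1535, .negSucc 222, .negSucc 18, .negSucc 1234, .negSucc 47⟩, ⟨.negSucc 11, .negSucc 306, .ofNat 349, .ofNat 0, .ofNat 71, .ofNat 28⟩, ⟨.ofNat 2992, .ofNat 709, .ofNat 94, .negSucc 357, .ofNat 1165, .ofNat 284⟩, ⟨.negSucc 8436, .negSucc 2240, .negSucc 305, .negSucc 65, .negSucc 2351, .negSucc 135⟩, ⟨.ofNat 1470, .ofNat 3, .negSucc 618, .negSucc 230, .ofNat 899, .negSucc 108⟩, .ofNat 475, .negSucc 55, .ofNat 0, .negSucc 55, .ofNat 1962, .ofNat 0, .ofNat 542, .ofNat 128, .negSucc 625, .ofNat 0, .ofNat 125, .negSucc 9, .ofNat 0, .ofNat 0, .ofNat 648, .ofNat 100, .ofNat 0, .ofNat 0, .ofNat 348904549728791510523738729465874770542198784, .ofNat 0, .ofNat 0, .ofNat 0, .ofNat 20653695608526323718799713295727130997331853312, .ofNat 0, .ofNat 0, .ofNat 7460962808617449743637246625679409348775000408064, .ofNat 17589033869089111304285733522519425110268444672,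 .ofNat 0, .ofNat 0, .ofNat 0, .ofNat 0, .ofNat 0⟩)
    (by decide +kernel)
theorem L03136 : Good (Phi V5.P V5.D 1 (-1)) ⟨6, 40, 3, 1, 4, 15, 3, 7, 4, 1⟩ :=
  leafYS_sound T5.ok_pm T5.Ypm.bz_eq (w := 250) (c := ⟨⟨.negSucc 4571, .negSucc 213, .negSucc 810, .negSucc 291, .negSucc 1545, .ofNat 269⟩, ⟨.negSucc 63, .negSucc 72, .ofNat 313, .negSucc 66, .ofNat 72, .ofNat 125⟩, ⟨.ofNat 2765, .ofNat 72, .ofNat 347, .negSucc 310, .ofNat 1060, .ofNat 207⟩, ⟨.negSucc 8837, .negSucc 205, .negSucc 1496, .negSucc 591, .negSucc 2934, .ofNat 511⟩, ⟨.ofNat 770, .ofNat 166, .negSucc 1193, .negSucc 707, .ofNat 699, .ofNat 1139⟩, .ofNat 480, .negSucc 15, .ofNat 0, .negSucc 15, .ofNat 2040, .ofNat 0, .ofNat 678, .ofNat 124, .negSucc 340, .ofNat 0, .ofNat 128, .negSucc 5, .ofNat 0, .ofNat 0, .ofNat 374, .ofNat 303, .ofNat 0, .ofNat 193864881791552064430569968288605650359972561682432, .ofNat 47009617221999763857040860995735003164835840,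 .ofNat 0, .ofNat 0, .ofNat 4839081835203107064592915204426185574444755027230720, .ofNat 2070014712894155036209357888819905898527850496, .ofNat 0, .ofNat 0, .ofNat 0, .ofNat 0, .ofNat 0, .ofNat 0, .ofNat 665787605627310049539793422781646123074515302875136, .ofNat 788925075124383613372469496126888897125810176, .ofNat 0⟩)
    (by decide +kernel)
theorem L03137 : Good (Phi V5.P V5.D 1 (-1)) ⟨6, 41, 3, 1, 4, 15, 3, 7, 4, 1⟩ :=
  leafYS_sound T5.ok_pm T5.Ypm.bz_eq (w := 249) (c := ⟨⟨.negSucc 5034, .negSucc 371, .negSucc 793, .negSucc 283, .negSucc 1614, .ofNat 602⟩, ⟨.negSucc 146, .negSucc 90, .ofNat 305, .negSucc 80, .ofNat 30, .ofNat 176⟩, ⟨.ofNat 2961, .ofNat 125, .ofNat 312, .negSucc 351, .ofNat 1089, .ofNat 99⟩, ⟨.negSucc 9497, .negSucc 541, .negSucc 1458, .negSucc 539, .negSucc 3073, .ofNat 1055⟩, ⟨.ofNat 736, .negSucc 89, .negSucc 1309, .negSucc 640, .ofNat 698, .ofNat 1289⟩, .ofNat 454, .negSucc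 15, .ofNat 0, .negSucc 15, .ofNat 1591, .ofNat 0, .ofNat 453, .ofNat 128, .negSucc 380, .ofNat 0, .ofNat 109, .negSucc 14, .ofNat 0, .ofNat 0, .ofNat 352, .ofNat 241, .ofNat 0, .ofNat 175904924532691780242571313552297288068124953804800, .ofNat 54738459916492064147098976932400128881328128, .ofNat 0, .ofNat 0, .ofNat 1937176624664749652611375394538875146901129869131776, .ofNat 1404590432566685419192368354249350892463587328, .ofNat 0, .ofNat 0, .ofNat 3192224709639032717285877389168697285900491596759040, .ofNat 311849973442876440114357386527148234344759296, .ofNat 0, .ofNat 0, .ofNat 0, .ofNat 1026122999099415001931856118229220786557681664, .ofNat 0⟩)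
    (by decide +kernel)
theorem L03138 : Good (Phi V5.P V5.D 1 (-1)) ⟨5, 21, 3, 1, 4, 15, 3, 7, 4, 1⟩ :=
  leafYS_sound T5.ok_pm T5.Ypm.bz_eq (w := 245) (c := ⟨⟨.negSucc 5590, .negSucc 758, .negSucc 2580, .negSucc 312, .negSucc 1491, .ofNat 813⟩, ⟨.negSucc 246, .negSucc 200, .ofNat 90, .negSucc 99, .ofNat 5, .ofNat 205⟩, ⟨.ofNat 3154, .ofNat 358, .ofNat 1035, .negSucc 367, .ofNat 1044, .ofNat 22⟩, ⟨.negSucc 10434, .negSucc 924, .negSucc 4379, .negSucc 546, .negSucc 2798, .ofNat 1430⟩, ⟨.ofNat 603, .negSucc 44, .negSucc 2032, .negSucc 688, .ofNat 684, .ofNat 1243⟩, .ofNat 479, .negSucc 114, .ofNat 0, .negSucc 114, .ofNat 2025, .ofNat 0, .ofNat 278, .ofNat 128, .negSucc 234, .ofNat 0, .ofNat 90, .negSucc 13, .ofNat 0, .ofNat 0, .ofNat 236, .ofNat 183, .ofNat 0, .ofNat 11294184785352590540578947698629869316616369471488, .ofNat 329447680934468635187297029524462329216892928, .ofNat 0, .ofNat 0, .ofNat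 75838465156501158409044505816004849987930879426560, .ofNat 3248982063821049172571920016253786951415496704, .ofNat 0, .ofNat 0, .ofNat 103182359589354414733627339713057518753472999063552, .ofNat 3096473189588112330094641492719557516378243072, .ofNat 0, .ofNat 0, .ofNat 0, .ofNat 2109990514178814815344054447389476083988430848, .ofNat 0⟩)
    (by decide +kernel)
theorem L03139 : Good (Phi V5.P V5.D 1 (-1)) ⟨4, 11, 3, 1, 3, 7, 2, 3, 3, 0⟩ :=
  out_sound (S := T5.ds_pm) T5.ok_pm (w := 51) (j := 3) (by decide +kernel)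
theorem L03140 : Good (Phi V5.P V5.D 1 (-1)) ⟨2, 3, 2, 0, 2, 3, 1, 1, 3, 0⟩ :=
  out_sound (S := T5.ds_pm) T5.ok_pm (w := 37) (j := 3) (by decide +kernel)
theorem L03141 : Good (Phi V5.P V5.D 1 (-1)) ⟨2, 2, 2, 0, 2, 2, 2, 2, 4, 2⟩ :=
  leafYS_sound T5.ok_pm T5.Ypm.bz_eq (w := 197) (c := ⟨⟨.negSucc 1210, .negSucc 1224, .ofNat 126, .negSucc 825, .negSucc 497, .negSucc 217⟩, ⟨.ofNat 19, .negSucc 563, .ofNat 389, .negSucc 19, .negSucc 76, .negSucc 32⟩, ⟨.ofNat 753, .ofNat 770, .negSucc 105, .ofNat 235, .ofNat 928, .ofNat 373⟩, ⟨.negSucc 2926, .negSucc 1073, .ofNat 194, .negSucc 1572, .negSucc 908, .negSucc 406⟩, ⟨.negSucc 346, .ofNat 128, .negSucc 21, .ofNat 598, .ofNat 11, .negSucc 221⟩, .ofNat 420, .negSucc 57, .ofNat 0, .negSucc 57, .ofNat 1321, .ofNat 0, .ofNat 354, .ofNat 38, .negSucc 159, .ofNat 0, .ofNat 128, .ofNat 6, .ofNat 0, .ofNat 0, .ofNat 365, .ofNat 388, .ofNat 0, .ofNat 0, .ofNat 0,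 .ofNat 0, .ofNat 0, .ofNat 0, .ofNat 15711838874500746010329170479880863744, .ofNat 0, .ofNat 0, .ofNat 0, .ofNat 13828100278443999428656139584738951168, .ofNat 0, .ofNat 0, .ofNat 0, .ofNat 30908290618013010084030462539333632, .ofNat 0⟩)
    (by decide +kernel)
theorem L03142 : Good (Phi V5.P V5.D 1 (-1)) ⟨3, 4, 2, 0, 2, 3, 2, 2, 4, 2⟩ :=
  leafYS_sound T5.ok_pm T5.Ypm.bz_eq (w := 201) (c := ⟨⟨.negSucc 2063, .negSucc 589, .negSucc 114, .negSucc 44, .negSucc 630, .negSucc 71⟩, ⟨.negSucc 83, .negSucc 202, .ofNat 483, .ofNat 85, .negSucc 11, .ofNat 4⟩, ⟨.ofNat 1044, .ofNat 322, .ofNat 59, .negSucc 175, .ofNat 882, .ofNat 325⟩, ⟨.negSucc 4602, .negSucc 546, .negSucc 93, .negSucc 170, .negSucc 1280, .negSucc 150⟩, ⟨.ofNat 342, .ofNat 225, .negSucc 285, .ofNat 928, .negSucc 187, .negSucc 149⟩, .ofNat 437, .ofNat 5, .ofNat 0, .ofNat 5, .ofNat 1460, .ofNat 0, .ofNat 537, .ofNat 0, .negSucc 181, .ofNat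 0, .ofNat 128, .ofNat 13, .ofNat 0, .ofNat 0, .ofNat 425, .ofNat 732, .ofNat 0, .ofNat 0, .ofNat 0, .ofNat 0, .ofNat 0, .ofNat 0, .ofNat 4926005022457879967845809815306633216, .ofNat 0, .ofNat 0, .ofNat 0, .ofNat 0, .ofNat 0, .ofNat 0, .ofNat 0, .ofNat 0, .ofNat 0⟩)
    (by decide +kernel)
theorem L03143 : Good (Phi V5.P V5.D 1 (-1)) ⟨3, 5, 2, 0, 2, 3, 2, 2, 4, 2⟩ :=
  leafYS_sound T5.ok_pm T5.Ypm.bz_eq (w := 202) (c := ⟨⟨.negSucc 3103, .negSucc 730, .negSucc 161, .ofNat 312, .negSucc 781, .ofNat 347⟩, ⟨.negSucc 347, .negSucc 301, .ofNat 529, .ofNat 193, .negSucc 116, .ofNat 15⟩, ⟨.ofNat 1634, .ofNat 379, .ofNat 101, .negSucc 425, .ofNat 875, .ofNat 134⟩, ⟨.negSucc 5993, .negSucc 615, .negSucc 75, .ofNat 332, .negSucc 1401, .ofNat 670⟩, ⟨.ofNat 216, .ofNat 598, .ofNat 89, .ofNat 1179, .negSucc 165, .negSucc 60⟩, .ofNat 407, .negSucc 111, .ofNat 0, .negSucc 111, .ofNat 1209, .ofNat 0, .ofNat 381,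 .ofNat 71, .negSucc 204, .ofNat 0, .ofNat 128, .negSucc 1, .ofNat 0, .ofNat 0, .ofNat 431, .ofNat 526, .ofNat 0, .ofNat 0, .ofNat 110376733084120704635889889266630656, .ofNat 0, .ofNat 0, .ofNat 0, .ofNat 4242794974737170169753695339298160640, .ofNat 0, .ofNat 0, .ofNat 0, .ofNat 4647210024378526228778245512157462528, .ofNat 0, .ofNat 0, .ofNat 0, .ofNat 4658538758057471422375572621431406592, .ofNat 0⟩)
    (by decide +kernel)
theorem L03144 : Good (Phi V5.P V5.D 1 (-1)) ⟨3, 4, 2, 0, 2, 2, 2, 3, 4, 2⟩ :=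
  leafYS_sound T5.ok_pm T5.Ypm.bz_eq (w := 201) (c := ⟨⟨.negSucc 1457, .negSucc 748, .negSucc 63, .negSucc 885, .negSucc 879, .negSucc 153⟩, ⟨.negSucc 93, .negSucc 255, .ofNat 419, .ofNat 90, .ofNat 51, .negSucc 32⟩, ⟨.ofNat 1284, .ofNat 533, .ofNat 97, .ofNat 584, .ofNat 1305, .ofNat 246⟩, ⟨.negSucc 3327, .negSucc 746, .negSucc 173, .negSucc 1847, .negSucc 1835, .negSucc 345⟩, ⟨.negSucc 112, .negSucc 154, .negSucc 164, .ofNat 479, .negSucc 18, .negSucc 354⟩, .ofNat 441, .ofNat 36, .ofNat 0, .ofNat 36, .ofNat 1436, .ofNat 0, .ofNat 463, .negSucc 11, .negSucc 296, .ofNat 0, .ofNat 128, .ofNat 24, .ofNat 0, .ofNat 0, .ofNat 648, .ofNat 242, .ofNat 0, .ofNat 0, .ofNat 0, .ofNat 0, .ofNat 0, .ofNat 3853298055287509006434290162501746163712, .ofNat 0, .ofNat 0, .ofNat 0, .ofNat 0, .ofNat 0, .ofNat 0, .ofNat 0, .ofNat 0, .ofNat 0, .ofNat 0⟩)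
    (by decide +kernel)
theorem L03145 : Good (Phi V5.P V5.D 1 (-1)) ⟨3, 4, 2, 0, 2, 3, 2, 3, 4, 2⟩ :=
  leafYS_sound T5.ok_pm T5.Ypm.bz_eq (w := 201) (c := ⟨⟨.negSucc 2620, .negSucc 780, .negSucc 240, .negSucc 258, .negSucc 1062, .ofNat 319⟩, ⟨.negSucc 126, .negSucc 263, .ofNat 576, .ofNat 109, .ofNat 90, .ofNat 29⟩, ⟨.ofNat 2166, .ofNat 395, .ofNat 152, .negSucc 501, .ofNat 1273, .ofNat 102⟩, ⟨.negSucc 5845, .negSucc 812, .negSucc 323, .negSucc 560, .negSucc 2152, .ofNat 624⟩, ⟨.ofNat 469, .negSucc 52, .negSucc 731, .ofNat 975, .ofNat 661, .ofNat 206⟩, .ofNat 439, .ofNat 26, .ofNat 0, .ofNat 26, .ofNat 1460, .ofNat 0, .ofNat 394, .negSucc 2, .negSucc 180, .ofNat 0, .ofNat 128, .ofNat 13, .ofNat 0, .ofNat 0, .ofNat 422, .ofNat 259, .ofNat 0, .ofNat 77353817783037204466078937761330495488, .ofNat 68018220530501918547295217968480256, .ofNat 0, .ofNat 0, .ofNat 2244483049762257674508563489531292024832,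 .ofNat 252538731975670498718750281075523584, .ofNat 0, .ofNat 0, .ofNat 2185098249094257296177798559729383899136, .ofNat 0, .ofNat 0, .ofNat 0, .ofNat 1609973927269997307913550256892647833600, .ofNat 0, .ofNat 0⟩)
    (by decide +kernel)
theorem L03146 : Good (Phi V5.P V5.D 1 (-1)) ⟨3, 5, 2, 0, 2, 2, 2, 3, 4, 2⟩ :=
  leafYS_sound T5.ok_pm T5.Ypm.bz_eq (w := 201) (c := ⟨⟨.negSucc 2027, .negSucc 1161, .negSucc 24, .negSucc 1167, .negSucc 1516, .negSucc 53⟩, ⟨.negSucc 252, .negSucc 523, .ofNat 474, .negSucc 62, .negSucc 170, .negSucc 28⟩, ⟨.ofNat 1860, .ofNat 773, .ofNat 46, .ofNat 589, .ofNat 1743, .ofNat 106⟩, ⟨.negSucc 3962, .negSucc 1215, .negSucc 102, .negSucc 2217, .negSucc 2781, .negSucc 57⟩, ⟨.negSucc 297, .ofNat 226, .ofNat 38, .ofNat 404, .negSucc 130, .negSucc 379⟩, .ofNat 406, .negSucc 108, .ofNat 0, .negSucc 108, .ofNat 1195, .ofNat 0, .ofNat 384, .ofNat 81, .negSucc 333, .ofNat 0, .ofNat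 128, .negSucc 11, .ofNat 0, .ofNat 0, .ofNat 606, .ofNat 172, .ofNat 0, .ofNat 0, .ofNat 173657525780733098581811855943008256, .ofNat 0, .ofNat 0, .ofNat 2388698435468271901740378206519169122304, .ofNat 3281661586373291741481435908808900608, .ofNat 0, .ofNat 0, .ofNat 1238952413387456218023657842796069388288, .ofNat 3762660551723792800585876240234184704, .ofNat 0, .ofNat 0, .ofNat 0, .ofNat 5390710595739625306079403899019591680, .ofNat 0⟩)
    (by decide +kernel)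
theorem L03147 : Good (Phi V5.P V5.D 1 (-1)) ⟨3, 5, 2, 0, 2, 3, 3, 6, 4, 2⟩ :=
  leafYS_sound T5.ok_pm T5.Ypm.bz_eq (w := 207) (c := ⟨⟨.negSucc 4038, .negSucc 1218, .negSucc 363, .ofNat 258, .negSucc 524, .ofNat 872⟩, ⟨.negSucc 467, .negSucc 482, .ofNat 566, .ofNat 224, .negSucc 20, .ofNat 108⟩, ⟨.ofNat 2944, .ofNat 668, .ofNat 286, .negSucc 905, .ofNat 631, .negSucc 217⟩, ⟨.negSucc 7705, .negSucc 1342, .negSucc 461, .ofNat 203, .negSucc 1002, .ofNat 1588⟩, ⟨.ofNat 199, .ofNat 465, .negSucc 624, .ofNat 1558, .ofNat 429, .negSucc 268⟩, .ofNat 445, .negSucc 116, .ofNat 0, .negSucc 116, .ofNat 1443, .ofNat 0, .ofNat 413, .ofNat 76, .negSucc 247, .ofNat 0, .ofNat 128, .negSucc 4, .ofNat 0, .ofNat 0, .ofNat 480, .ofNat 487, .ofNat 0, .ofNat 0, .ofNat 3363426707119112154144056385021673472, .ofNat 0, .ofNat 0, .ofNat 2899948299899843801536168976826671038464, .ofNat 83106600011412924931103345364057456640,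 .ofNat 0, .ofNat 0, .ofNat 0, .ofNat 108199046279893867982155210162234720256, .ofNat 0, .ofNat 0, .ofNat 0, .ofNat 19715384452024422904753734037949906944, .ofNat 0⟩)
    (by decide +kernel)
theorem L03148 : Good (Phi V5.P V5.D 1 (-1)) ⟨3, 5, 2, 0, 2, 3, 3, 7, 4, 2⟩ :=
  leafYS_sound T5.ok_pm T5.Ypm.bz_eq (w := 206) (c := ⟨⟨.negSucc 4537, .negSucc 1429, .negSucc 544, .ofNat 120, .negSucc 1060, .ofNat 1058⟩, ⟨.negSucc 467, .negSucc 562, .ofNat 627, .ofNat 210, .negSucc 115, .ofNat 81⟩, ⟨.ofNat 3763, .ofNat 680, .ofNat 332, .negSucc 1163, .ofNat 1119, .negSucc 418⟩, ⟨.negSucc 8773, .negSucc 1552, .negSucc 705, .negSucc 8, .negSucc 1953, .ofNat 1963⟩, ⟨.ofNat 900, .ofNat 137, .negSucc 1310, .ofNat 1464, .ofNat 610, .negSucc 444⟩, .ofNat 394, .negSucc 74, .ofNat 0, .negSucc 74, .ofNat 1033, .ofNat 0, .ofNat 300, .ofNat 72, .negSucc 187, .ofNat 0, .ofNat 128, .negSucc 5, .ofNat 0, .ofNat 0, .ofNat 378,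 .ofNat 237, .ofNat 0, .ofNat 357244756939464827192741579174386335744, .ofNat 3419806976898477039083229847343857664, .ofNat 0, .ofNat 0, .ofNat 6590994558640537387432041333595991703552, .ofNat 38542765537677742369019908641358086144, .ofNat 0, .ofNat 0, .ofNat 7724368942768114835520380999529358426112, .ofNat 28870321465225436458000850632057028608, .ofNat 0, .ofNat 0, .ofNat 0, .ofNat 22607823486628393006008554536210268160, .ofNat 0⟩)
    (by decide +kernel)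
theorem L03149 : Good (Phi V5.P V5.D 1 (-1)) ⟨3, 4, 2, 0, 2, 2, 2, 2, 4, 3⟩ :=
  leafYS_sound T5.ok_pm T5.Ypm.bz_eq (w := 201) (c := ⟨⟨.negSucc 1720, .negSucc 421, .ofNat 19, .negSucc 456, .negSucc 245, .ofNat 66⟩, ⟨.negSucc 72, .negSucc 210, .ofNat 381, .ofNat 38, .negSucc 3, .negSucc 9⟩, ⟨.ofNat 1271, .ofNat 241, .negSucc 2, .ofNat 109, .ofNat 680, .ofNat 145⟩, ⟨.negSucc 3846, .negSucc 206, .negSucc 22, .negSucc 922, .negSucc 511, .ofNat 117⟩, ⟨.negSucc 298, .ofNat 114, .ofNat 89, .ofNat 179, .negSucc 204, .negSucc 161⟩, .ofNat 437, .ofNat 14, .ofNat 0, .ofNat 14, .ofNat 1445, .ofNat 0, .ofNat 283, .negSucc 10, .negSucc 137, .ofNat 0, .ofNat 128, .ofNat 12, .ofNat 0, .ofNat 0, .ofNat 536, .ofNat 838, .ofNat 0, .ofNat 0, .ofNat 0, .ofNat 0, .ofNat 0, .ofNat 0, .ofNat 0, .ofNat 0, .ofNat 0, .ofNat 0, .ofNat 0, .ofNat 0, .ofNat 0, .ofNat 0, .ofNat 0, .ofNat 0⟩)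
    (by decide +kernel)
theorem L03150 : Good (Phi V5.P V5.D 1 (-1)) ⟨3, 4, 2, 0, 2, 3, 2, 2, 4, 3⟩ :=
  leafYS_sound T5.ok_pm T5.Ypm.bz_eq (w := 202) (c := ⟨⟨.negSucc 2308, .negSucc 361, .negSucc 51, .ofNat 56, .negSucc 430, .ofNat 306⟩, ⟨.negSucc 85, .negSucc 176, .ofNat 450, .ofNat 115, .negSucc 2, .negSucc 19⟩, ⟨.ofNat 1322, .ofNat 242, .ofNat 99, .negSucc 56, .ofNat 751, .ofNat 140⟩, ⟨.negSucc 5132, .negSucc 83, .negSucc 10, .ofNat 109, .negSucc 858, .ofNat 627⟩, ⟨.negSucc 41, .ofNat 210, .ofNat 61, .ofNat 1315, .negSucc 192, .negSucc 162⟩, .ofNat 437, .ofNat 32, .ofNat 0, .ofNat 32, .ofNat 1410, .ofNat 0, .ofNat 523, .negSucc 24, .negSucc 123, .ofNat 0, .ofNat 128, .ofNat 8, .ofNat 0, .ofNat 0, .ofNat 730, .ofNat 1080, .ofNat 0, .ofNat 0, .ofNat 0, .ofNat 0, .ofNat 0, .ofNat 0, .ofNat 0, .ofNat 0, .ofNat 0, .ofNat 1682644473070346865700811922549396996096, .ofNat 0, .ofNat 0, .ofNat 0, .ofNat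 6980926008467164993330452764394187128832, .ofNat 0, .ofNat 0⟩)
    (by decide +kernel)
theorem L03151 : Good (Phi V5.P V5.D 1 (-1)) ⟨3, 5, 2, 0, 2, 2, 2, 2, 4, 3⟩ :=
  leafYS_sound T5.ok_pm T5.Ypm.bz_eq (w := 202) (c := ⟨⟨.negSucc 2171, .negSucc 553, .ofNat 56, .negSucc 491, .negSucc 396, .ofNat 146⟩, ⟨.negSucc 250, .negSucc 349, .ofNat 390, .negSucc 29, .negSucc 78, .ofNat 1⟩, ⟨.ofNat 1572, .ofNat 329, .negSucc 7, .ofNat 73, .ofNat 811, .ofNat 86⟩, ⟨.negSucc 4180, .negSucc 325, .ofNat 46, .negSucc 934, .negSucc 677, .ofNat 288⟩, ⟨.negSucc 197, .ofNat 161, .ofNat 66, .ofNat 224, .negSucc 270, .negSucc 235⟩, .ofNat 408, .negSucc 111, .ofNat 0, .negSucc 111, .ofNat 1217, .ofNat 0, .ofNat 432, .ofNat 59, .negSucc 131, .ofNat 0, .ofNat 128, .negSucc 0, .ofNat 0, .ofNat 0, .ofNat 488, .ofNat 1586, .ofNat 0, .ofNat 0, .ofNat 171528864042560261488828172046696448, .ofNat 0, .ofNat 0, .ofNat 0, .ofNat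 14349808844929937235568599086837792768, .ofNat 0, .ofNat 0, .ofNat 0, .ofNat 14498702452157832120744583506794905600, .ofNat 0, .ofNat 0, .ofNat 0, .ofNat 1808986624601375851787037855488933888, .ofNat 0⟩)
    (by decide +kernel)
theorem L03152 : Good (Phi V5.P V5.D 1 (-1)) ⟨3, 5, 2, 0, 2, 3, 2, 2, 4, 3⟩ :=
  leafYS_sound T5.ok_pm T5.Ypm.bz_eq (w := 202) (c := ⟨⟨.negSucc 2888, .negSucc 381, .negSucc 57, .ofNat 342, .negSucc 549, .ofNat 380⟩, ⟨.negSucc 347, .negSucc 247, .ofNat 491, .ofNat 244, .negSucc 86, .ofNat 4⟩, ⟨.ofNat 1711, .ofNat 161, .ofNat 68, .negSucc 233, .ofNat 810, .ofNat 97⟩, ⟨.negSucc 5511, .negSucc 125, .negSucc 32, .ofNat 385, .negSucc 965, .ofNat 750⟩, ⟨.ofNat 60, .ofNat 122, .ofNat 178, .ofNat 1735, .negSucc 223, .negSucc 335⟩, .ofNat 407, .negSucc 110, .ofNat 0, .negSucc 110, .ofNat 1205, .ofNat 0, .ofNat 537, .ofNat 43, .negSucc 111, .ofNat 0, .ofNat 128, .negSucc 0, .ofNat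 0, .ofNat 0, .ofNat 608, .ofNat 722, .ofNat 0, .ofNat 0, .ofNat 161623140734188206860870469732532224, .ofNat 0, .ofNat 0, .ofNat 0, .ofNat 0, .ofNat 0, .ofNat 0, .ofNat 0, .ofNat 6387848359921839021634713991098925056, .ofNat 0, .ofNat 0, .ofNat 5223405110608429512814532560814390378496, .ofNat 2995842354103938147704810644785070080, .ofNat 0⟩)
    (by decide +kernel)
theorem L03153 : Good (Phi V5.P V5.D 1 (-1)) ⟨2, 2, 2, 0, 2, 2, 2, 3, 4, 3⟩ :=
  leafYS_sound T5.ok_pm T5.Ypm.bz_eq (w := 197) (c := ⟨⟨.negSucc 1890, .negSucc 1256, .ofNat 16, .negSucc 584, .negSucc 950, .ofNat 191⟩, ⟨.ofNat 11, .negSucc 706, .ofNat 401, .negSucc 27, .negSucc 109, .negSucc 26⟩, ⟨.ofNat 1774, .ofNat 928, .ofNat 100, .ofNat 343, .ofNat 1171, .negSucc 70⟩, ⟨.negSucc 4265, .negSucc 850, .negSucc 61, .negSucc 1174, .negSucc 1801, .ofNat 351⟩, ⟨.negSucc 267, .negSucc 93, .negSucc 61, .ofNat 169, .negSucc 390, .negSucc 305⟩,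 .ofNat 313, .negSucc 11, .ofNat 0, .negSucc 11, .ofNat 637, .ofNat 0, .ofNat 460, .ofNat 14, .negSucc 131, .ofNat 0, .ofNat 128, .ofNat 2, .ofNat 0, .ofNat 0, .ofNat 379, .ofNat 250, .ofNat 0, .ofNat 0, .ofNat 524795977034182833384538603295604736, .ofNat 0, .ofNat 0, .ofNat 258706318415925645815183034025009741824, .ofNat 10736238173027395818973811354086932480, .ofNat 0, .ofNat 0, .ofNat 109059512886792698624818108136299692032, .ofNat 2821796815048499067594420469284995072, .ofNat 0, .ofNat 0, .ofNat 150300624352544175905553584145605591040, .ofNat 1815225757397381939628722909637246976, .ofNat 0⟩)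
    (by decide +kernel)
theorem L03154 : Good (Phi V5.P V5.D 1 (-1)) ⟨2, 2, 2, 0, 2, 3, 2, 3, 4, 3⟩ :=
  leafYS_sound T5.ok_pm T5.Ypm.bz_eq (w := 197) (c := ⟨⟨.negSucc 2657, .negSucc 1364, .negSucc 89, .ofNat 89, .negSucc 763, .ofNat 519⟩, ⟨.negSucc 95, .negSucc 668, .ofNat 512, .ofNat 230, .negSucc 63, .ofNat 29⟩, ⟨.ofNat 2279, .ofNat 737, .ofNat 130, .negSucc 489, .ofNat 1182, .negSucc 80⟩, ⟨.negSucc 5816, .negSucc 1038, .negSucc 130, .negSucc 73, .negSucc 1494, .ofNat 988⟩, ⟨.ofNat 7, .negSucc 89, .negSucc 170, .ofNat 1891, .ofNat 29, .negSucc 429⟩, .ofNat 317, .negSucc 13, .ofNat 0, .negSucc 13, .ofNat 652, .ofNat 0, .ofNat 384, .ofNat 4, .negSucc 92, .ofNat 0, .ofNat 128, .ofNat 3, .ofNat 0, .ofNat 0, .ofNat 429, .ofNat 209, .ofNat 0, .ofNat 5727418748475911965058790425794445312, .ofNat 318255924531988022516688467030704128, .ofNat 0, .ofNat 0, .ofNat 264114188960455886723141914050015789056,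 .ofNat 0, .ofNat 0, .ofNat 0, .ofNat 152279240682136981221187227214214594560, .ofNat 2941352529642402510220737532504571904, .ofNat 0, .ofNat 0, .ofNat 301646817698900517479267702641679925248, .ofNat 425220142911596062719506671936208896, .ofNat 0⟩)
    (by decide +kernel)
theorem L03155 : Good (Phi V5.P V5.D 1 (-1)) ⟨2, 3, 2, 0, 1, 1, 1, 1, 3, 1⟩ :=
  out_sound (S := T5.ds_pm) T5.ok_pm (w := 37) (j := 3) (by decide +kernel)
theorem L03156 : Good (Phi V5.P V5.D 1 (-1)) ⟨3, 4, 2, 0, 2, 2, 2, 2, 4, 4⟩ :=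
  leafYS_sound T5.ok_pm T5.Ypm.bz_eq (w := 202) (c := ⟨⟨.negSucc 1814, .negSucc 315, .negSucc 3, .negSucc 214, .negSucc 215, .ofNat 178⟩, ⟨.negSucc 49, .negSucc 195, .ofNat 337, .ofNat 27, .negSucc 17, .negSucc 24⟩, ⟨.ofNat 1458, .ofNat 247, .ofNat 65, .ofNat 3, .ofNat 575, .ofNat 71⟩, ⟨.negSucc 4012, .negSucc 54, .negSucc 68, .negSucc 438, .negSucc 429, .ofNat 361⟩, ⟨.negSucc 356, .ofNat 7, .ofNat 67, .ofNat 176, .negSucc 189, .negSucc 88⟩, .ofNat 439, .ofNat 10, .ofNat 0, .ofNat 10, .ofNat 1476, .ofNat 0, .ofNat 424, .negSucc 8, .negSucc 111, .ofNat 0, .ofNat 128, .ofNat 7, .ofNat 0, .ofNat 0, .ofNat 879, .ofNat 1690, .ofNat 0, .ofNat 0, .ofNat 0, .ofNat 0, .ofNat 0, .ofNat 0, .ofNat 0, .ofNat 0, .ofNat 0, .ofNat 0, .ofNat 0, .ofNat 0, .ofNat 0, .ofNat 17755365693375443130068190574286483750912, .ofNat 0, .ofNat 0⟩)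
    (by decide +kernel)
theorem L03157 : Good (Phi V5.P V5.D 1 (-1)) ⟨3, 4, 2, 0, 3, 6, 2, 2, 5, 8⟩ :=
  leafYS_sound T5.ok_pm T5.Ypm.bz_eq (w := 222) (c := ⟨⟨.negSucc 2037, .negSucc 361, .negSucc 33, .negSucc 9, .negSucc 298, .ofNat 152⟩, ⟨.negSucc 65, .negSucc 196, .ofNat 399, .ofNat 44, .negSucc 20, .negSucc 1⟩, ⟨.ofNat 1433, .ofNat 218, .ofNat 114, .negSucc 16, .ofNat 804, .ofNat 44⟩, ⟨.negSucc 4506, .negSucc 121, .negSucc 70, .negSucc 6, .negSucc 608, .ofNat 298⟩, ⟨.negSucc 185, .ofNat 105, .ofNat 117, .ofNat 549, .negSucc 284, .negSucc 87⟩, .ofNat 437, .ofNat 7, .ofNat 0, .ofNat 7, .ofNat 1465, .ofNat 0, .ofNat 311, .negSucc 14, .negSucc 49, .ofNat 0, .ofNat 128, .ofNat 1, .ofNat 0, .ofNat 0, .ofNat 634, .ofNat 2119, .ofNat 0, .ofNat 0, .ofNat 0, .ofNat 0, .ofNat 0, .ofNat 0, .ofNat 0, .ofNat 0, .ofNat 0, .ofNat 0, .ofNat 0, .ofNat 0, .ofNat 0, .ofNat 418950542327731381569638414375609645806911488,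 .ofNat 0, .ofNat 0⟩)
    (by decide +kernel)
theorem L03158 : Good (Phi V5.P V5.D 1 (-1)) ⟨3, 4, 2, 0, 3, 7, 2, 2, 5, 8⟩ :=
  leafYS_sound T5.ok_pm T5.Ypm.bz_eq (w := 220) (c := ⟨⟨.negSucc 2079, .negSucc 288, .negSucc 64, .ofNat 144, .negSucc 303, .ofNat 169⟩, ⟨.negSucc 41, .negSucc 154, .ofNat 419, .ofNat 71, .negSucc 19, .negSucc 22⟩, ⟨.ofNat 1375, .ofNat 204, .ofNat 164, .ofNat 99, .ofNat 724, .ofNat 100⟩, ⟨.negSucc 4615, .negSucc 50, .ofNat 3, .ofNat 299, .negSucc 615, .ofNat 344⟩, ⟨.ofNat 385, .ofNat 176, .ofNat 94, .ofNat 855, .negSucc 220, .negSucc 113⟩, .ofNat 438, .ofNat 23, .ofNat 0, .ofNat 23, .ofNat 1431, .ofNat 0, .ofNat 344, .negSucc 20, .negSucc 9, .ofNat 0, .ofNat 128, .negSucc 4, .ofNat 0, .ofNat 0, .ofNat 423, .ofNat 396, .ofNat 0, .ofNat 2155678849278973364300486647116765916561408, .ofNat 0, .ofNat 0, .ofNat 0, .ofNat 0, .ofNat 0, .ofNat 0, .ofNat 0, .ofNat 0, .ofNat 0, .ofNat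 0, .ofNat 0, .ofNat 251563380718411344078390958279115024822697984, .ofNat 0, .ofNat 0⟩)
    (by decide +kernel)
theorem L03159 : Good (Phi V5.P V5.D 1 (-1)) ⟨3, 4, 2, 0, 3, 6, 2, 2, 5, 9⟩ :=
  leafYS_sound T5.ok_pm T5.Ypm.bz_eq (w := 220) (c := ⟨⟨.negSucc 1936, .negSucc 330, .negSucc 30, .ofNat 30, .negSucc 218, .ofNat 137⟩, ⟨.negSucc 63, .negSucc 187, .ofNat 369, .ofNat 50, .negSucc 29, .negSucc 5⟩, ⟨.ofNat 1432, .ofNat 223, .ofNat 162, .ofNat 27, .ofNat 780, .ofNat 71⟩, ⟨.negSucc 4287, .negSucc 93, .negSucc 54, .ofNat 75, .negSucc 467, .ofNat 273⟩, ⟨.negSucc 238, .ofNat 48, .ofNat 124, .ofNat 556, .negSucc 309, .negSucc 87⟩, .ofNat 324, .ofNat 7, .ofNat 0, .ofNat 7, .ofNat 669, .ofNat 0, .ofNat 187, .negSucc 16, .negSucc 12, .ofNat 0, .ofNat 128, .negSucc 2, .ofNat 0, .ofNat 0, .ofNat 376, .ofNat 567, .ofNat 0, .ofNat 0, .ofNat 0, .ofNat 0, .ofNat 0, .ofNat 0, .ofNat 0, .ofNat 0, .ofNat 0, .ofNat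 0, .ofNat 0, .ofNat 0, .ofNat 0, .ofNat 198326388432200892034079850061819511926947840, .ofNat 0, .ofNat 0⟩)
    (by decide +kernel)
theorem L03160 : Good (Phi V5.P V5.D 1 (-1)) ⟨3, 4, 2, 0, 3, 7, 2, 2, 5, 9⟩ :=
  leafYS_sound T5.ok_pm T5.Ypm.bz_eq (w := 222) (c := ⟨⟨.negSucc 1918, .negSucc 297, .negSucc 40, .ofNat 103, .negSucc 278, .ofNat 146⟩, ⟨.negSucc 40, .negSucc 166, .ofNat 396, .ofNat 66, .negSucc 28, .negSucc 9⟩, ⟨.ofNat 1475, .ofNat 186, .ofNat 171, .ofNat 108, .ofNat 831, .ofNat 84⟩, ⟨.negSucc 4260, .negSucc 60, .negSucc 6, .ofNat 214, .negSucc 569, .ofNat 294⟩, ⟨.ofNat 255, .ofNat 139, .ofNat 176, .ofNat 790, .negSucc 414, .negSucc 122⟩, .ofNat 326, .ofNat 3, .ofNat 0, .ofNat 3, .ofNat 681, .ofNat 0, .ofNat 173, .negSucc 16, .negSucc 4, .ofNat 0, .ofNat 128, .negSucc 8, .ofNat 0, .ofNat 0, .ofNat 506, .ofNat 3473, .ofNat 0, .ofNat 26270841612060663426631475774398576101163008, .ofNat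 0, .ofNat 0, .ofNat 0, .ofNat 432643248302371803548178164582629377015021568, .ofNat 0, .ofNat 0, .ofNat 0, .ofNat 374974132384535255957445815431638923584995328, .ofNat 0, .ofNat 0, .ofNat 0, .ofNat 1287209817706404697853553138375810101173813248, .ofNat 0, .ofNat 0⟩)
    (by decide +kernel)
theorem L03161 : Good (Phi V5.P V5.D 1 (-1)) ⟨3, 5, 2, 0, 2, 2, 2, 2, 4, 4⟩ :=
  leafYS_sound T5.ok_pm T5.Ypm.bz_eq (w := 202) (c := ⟨⟨.negSucc 2194, .negSucc 437, .ofNat 5, .negSucc 208, .negSucc 311, .ofNat 235⟩, ⟨.negSucc 257, .negSucc 323, .ofNat 325, .negSucc 5, .negSucc 74, .ofNat 21⟩, ⟨.ofNat 1763, .ofNat 239, .ofNat 58, .negSucc 56, .ofNat 698, .ofNat 14⟩, ⟨.negSucc 4180, .negSucc 160, .negSucc 49, .negSucc 409, .negSucc 519, .ofNat 427⟩, ⟨.negSucc 328, .ofNat 94, .ofNat 66, .ofNat 170, .negSucc 330, .negSucc 115⟩, .ofNat 306, .negSucc 44, .ofNat 0, .negSucc 44, .ofNat 619, .ofNat 0, .ofNat 243, .ofNat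 28, .negSucc 71, .ofNat 0, .ofNat 128, .ofNat 2, .ofNat 0, .ofNat 0, .ofNat 471, .ofNat 944, .ofNat 0, .ofNat 0, .ofNat 87500762915892250790749584859594752, .ofNat 0, .ofNat 0, .ofNat 0, .ofNat 0, .ofNat 0, .ofNat 0, .ofNat 0, .ofNat 0, .ofNat 0, .ofNat 0, .ofNat 4456075698507289019249311884788021329920, .ofNat 2284221797469743077651725922533900288, .ofNat 0⟩)
    (by decide +kernel)
theorem L03162 : Good (Phi V5.P V5.D 1 (-1)) ⟨4, 10, 2, 0, 2, 3, 3, 4, 5, 8⟩ :=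
  leafYS_sound T5.ok_pm T5.Ypm.bz_eq (w := 214) (c := ⟨⟨.negSucc 2481, .negSucc 185, .negSucc 43, .ofNat 236, .negSucc 178, .ofNat 180⟩, ⟨.negSucc 304, .negSucc 123, .ofNat 422, .ofNat 192, .negSucc 30, .ofNat 2⟩, ⟨.ofNat 1674, .ofNat 85, .ofNat 114, .negSucc 39, .ofNat 384, .ofNat 44⟩, ⟨.negSucc 4749, .negSucc 51, .negSucc 39, .ofNat 299, .negSucc 324, .ofNat 335⟩, ⟨.negSucc 142, .ofNat 51, .ofNat 145, .ofNat 1480, .negSucc 135, .negSucc 120⟩, .ofNat 455, .negSucc 89, .ofNat 0, .negSucc 89, .ofNat 1687, .ofNat 0, .ofNat 354, .ofNat 14, .negSucc 21, .ofNat 0, .ofNat 128, .negSucc 3, .ofNat 0, .ofNat 0, .ofNat 423, .ofNat 357, .ofNat 0, .ofNat 0, .ofNat 13810896194044490237540997784714346496, .ofNat 0, .ofNat 0, .ofNat 0, .ofNat 0, .ofNat 0, .ofNat 0, .ofNat 0, .ofNat 0, .ofNat 0, .ofNat 0, .ofNat 2138399050582166402504265475640357883478016, .ofNat 67832841435145437646210896843910414336, .ofNat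 0⟩)
    (by decide +kernel)
theorem L03163 : Good (Phi V5.P V5.D 1 (-1)) ⟨4, 11, 2, 0, 2, 3, 3, 4, 5, 8⟩ :=
  leafYS_sound T5.ok_pm T5.Ypm.bz_eq (w := 214) (c := ⟨⟨.negSucc 2731, .negSucc 185, .negSucc 79, .ofNat 401, .negSucc 212, .ofNat 177⟩, ⟨.negSucc 458, .negSucc 138, .ofNat 399, .ofNat 275, .negSucc 55, .ofNat 5⟩, ⟨.ofNat 1827, .ofNat 44, .ofNat 0, .negSucc 117, .ofNat 390, .ofNat 18⟩, ⟨.negSucc 4861, .negSucc 36, .negSucc 83, .ofNat 420, .negSucc 347, .ofNat 344⟩, ⟨.negSucc 139, .ofNat 76, .negSucc 28, .ofNat 1712, .negSucc 168, .negSucc 177⟩, .ofNat 470, .negSucc 256, .ofNat 0, .negSucc 256, .ofNat 1687, .ofNat 0, .ofNat 198, .ofNat 68, .negSucc 13, .ofNat 0, .ofNat 128, .negSucc 0, .ofNat 0, .ofNat 0, .ofNat 189, .ofNat 328, .ofNat 0, .ofNat 0, .ofNat 9949165205581288817061707182027833344, .ofNat 0, .ofNat 0, .ofNat 0, .ofNat 0, .ofNat 0, .ofNat 0, .ofNat 0, .ofNat 1094694727223257887855005372287291490304,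 .ofNat 0, .ofNat 0, .ofNat 440959335044677846278388506506738568003584, .ofNat 177376578544877503960018585465139494912, .ofNat 0⟩)
    (by decide +kernel)
theorem L03164 : Good (Phi V5.P V5.D 1 (-1)) ⟨3, 5, 2, 0, 2, 3, 3, 5, 5, 8⟩ :=
  leafYS_sound T5.ok_pm T5.Ypm.bz_eq (w := 209) (c := ⟨⟨.negSucc 2600, .negSucc 506, .negSucc 37, .ofNat 103, .negSucc 226, .ofNat 185⟩, ⟨.negSucc 300, .negSucc 352, .ofNat 411, .ofNat 164, .negSucc 43, .negSucc 3⟩, ⟨.ofNat 2050, .ofNat 268, .ofNat 167, .negSucc 117, .ofNat 451, .ofNat 19⟩, ⟨.negSucc 4986, .negSucc 209, .negSucc 91, .ofNat 45, .negSucc 381, .ofNat 367⟩, ⟨.negSucc 220, .negSucc 6, .ofNat 85, .ofNat 1304, .negSucc 191, .negSucc 176⟩, .ofNat 306, .negSucc 39, .ofNat 0, .negSucc 39, .ofNat 620, .ofNat 0, .ofNat 201, .ofNat 15, .negSucc 18, .ofNat 0, .ofNat 128, .negSucc 1, .ofNat 0, .ofNat 0, .ofNat 238, .ofNat 165, .ofNat 0, .ofNat 1974845794601403957932715692200726364160,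 .ofNat 35246747118095622621410102279088898048, .ofNat 0, .ofNat 0, .ofNat 0, .ofNat 0, .ofNat 0, .ofNat 0, .ofNat 0, .ofNat 0, .ofNat 0, .ofNat 0, .ofNat 76520811881072997545229862019464649768960, .ofNat 44212931301650268131525098191731032064, .ofNat 0⟩)
    (by decide +kernel)

end Crest.Agent.R097C5.N5pm
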