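import Crest.Agent.R097.KS3
import Crest.Agent.R097.T5Ypm

/-!
# Row 97, box cover in dimension n = 5 (generated)
-/

set_option autoImplicit false
set_option Elab.async false
set_option maxHeartbeats 0
set_option maxRecDepth 100000

open Crest.Agent.R097 Crest.Agent.R097.KA


namespace Crest.Agent.R097C5.N5pm

theorem L03165 : Good (Phi V5.P V5.D 1 (-1)) ⟨3, 5, 2, 0, 3, 6, 2, 2, 5, 9⟩ :=
  leafYS_sound T5.ok_pm T5.Ypm.bz_eq (w := 219) (c := ⟨⟨.negSucc 2296, .negSucc 378, .negSucc 31, .ofNat 83, .negSucc 324, .ofNat 163⟩, ⟨.negSucc 267, .negSucc 295, .ofNat 374, .ofNat 80, .negSucc 82, .ofNat 6⟩, ⟨.ofNat 1673, .ofNat 208, .ofNat 169, .negSucc 19, .ofNat 813, .ofNat 41⟩, ⟨.negSucc 4399, .negSucc 62, .negSucc 50, .ofNat 83, .negSucc 541, .ofNat 294⟩, ⟨.negSucc 178, .ofNat 84, .ofNat 137, .ofNat 550, .negSucc 371, .negSucc 108⟩, .ofNat 406, .negSucc 101, .ofNat 0, .negSucc 101, .ofNat 1192,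 .ofNat 0, .ofNat 202, .ofNat 32, .negSucc 9, .ofNat 0, .ofNat 128, .negSucc 1, .ofNat 0, .ofNat 0, .ofNat 285, .ofNat 311, .ofNat 0, .ofNat 0, .ofNat 38105668617583409564968672956271168585728, .ofNat 0, .ofNat 0, .ofNat 0, .ofNat 0, .ofNat 0, .ofNat 0, .ofNat 0, .ofNat 0, .ofNat 0, .ofNat 0, .ofNat 109241386248898167921569186416582984837627904, .ofNat 234007448131849798550466190422584766496768, .ofNat 0⟩)
    (by decide +kernel)
theorem L03166 : Good (Phi V5.P V5.D 1 (-1)) ⟨3, 5, 2, 0, 3, 7, 2, 2, 5, 9⟩ :=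
  leafYS_sound T5.ok_pm T5.Ypm.bz_eq (w := 221) (c := ⟨⟨.negSucc 2228, .negSucc 329, .negSucc 32, .ofNat 181, .negSucc 345, .ofNat 173⟩, ⟨.negSucc 216, .negSucc 230, .ofNat 406, .ofNat 116, .negSucc 89, .negSucc 3⟩, ⟨.ofNat 1659, .ofNat 181, .ofNat 194, .ofNat 50, .ofNat 792, .ofNat 68⟩, ⟨.negSucc 4331, .negSucc 56, .negSucc 0, .ofNat 224, .negSucc 587, .ofNat 329⟩, ⟨.ofNat 382, .ofNat 136, .ofNat 175, .ofNat 897, .negSucc 383, .negSucc 131⟩, .ofNat 306, .negSucc 40, .ofNat 0, .negSucc 40, .ofNat 617, .ofNat 0, .ofNat 198, .ofNat 7, .negSucc 3, .ofNat 0, .ofNat 128, .negSucc 3, .ofNat 0, .ofNat 0, .ofNat 276, .ofNat 1471, .ofNat 0, .ofNat 12882829561605341032558858964586627413835776, .ofNat 105474875808034633522735434395502937899008, .ofNat 0, .ofNat 0, .ofNat 225048308561283902160184848383225366275162112, .ofNat 0, .ofNat 0, .ofNat 0, .ofNat 178581664572204074303144040545123300806754304,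 .ofNat 1262664049002322328169518599390563649191936, .ofNat 0, .ofNat 0, .ofNat 404383692292240582118125126254776851231670272, .ofNat 94560461191635579597484206207465863249920, .ofNat 0⟩)
    (by decide +kernel)
theorem L03167 : Good (Phi V5.P V5.D 1 (-1)) ⟨2, 2, 2, 0, 2, 2, 3, 4, 4, 5⟩ :=
  leafYS_sound T5.ok_pm T5.Ypm.bz_eq (w := 201) (c := ⟨⟨.negSucc 1692, .negSucc 668, .ofNat 19, .negSucc 122, .negSucc 98, .ofNat 158⟩, ⟨.negSucc 42, .negSucc 465, .ofNat 323, .negSucc 0, .negSucc 9, .ofNat 4⟩, ⟨.ofNat 1501, .ofNat 471, .ofNat 128, .ofNat 39, .ofNat 267, .ofNat 63⟩, ⟨.negSucc 3749, .negSucc 157, .negSucc 52, .negSucc 243, .negSucc 173, .ofNat 307⟩, ⟨.negSucc 332, .negSucc 22, .negSucc 0, .ofNat 29, .negSucc 101, .negSucc 49⟩, .ofNat 316, .negSucc 20, .ofNat 0, .negSucc 20, .ofNat 651, .ofNat 0, .ofNat 174, .ofNat 9, .negSucc 27, .ofNat 0, .ofNat 128, .ofNat 0, .ofNat 0, .ofNat 0, .ofNat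 426, .ofNat 621, .ofNat 0, .ofNat 0, .ofNat 3834051081680410136305362694521749504, .ofNat 0, .ofNat 0, .ofNat 0, .ofNat 0, .ofNat 0, .ofNat 0, .ofNat 0, .ofNat 0, .ofNat 0, .ofNat 0, .ofNat 1190537474741876358794808966309551800320, .ofNat 26229635160228206430222334104048762880, .ofNat 0⟩)
    (by decide +kernel)
theorem L03168 : Good (Phi V5.P V5.D 1 (-1)) ⟨2, 2, 2, 0, 2, 2, 3, 5, 4, 5⟩ :=
  leafYS_sound T5.ok_pm T5.Ypm.bz_eq (w := 201) (c := ⟨⟨.negSucc 1731, .negSucc 768, .ofNat 19, .negSucc 169, .negSucc 146, .ofNat 164⟩, ⟨.negSucc 30, .negSucc 512, .ofNat 321, .negSucc 5, .negSucc 15, .negSucc 2⟩, ⟨.ofNat 1626, .ofNat 615, .ofNat 240, .ofNat 226, .ofNat 265, .ofNat 43⟩, ⟨.negSucc 3854, .negSucc 259, .negSucc 73, .negSucc 339, .negSucc 279, .ofNat 326⟩, ⟨.negSucc 386, .negSucc 113, .negSucc 27, .negSucc 68, .negSucc 152, .negSucc 58⟩, .ofNat 316, .negSucc 15, .ofNat 0, .negSucc 15,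 .ofNat 648, .ofNat 0, .ofNat 161, .ofNat 7, .negSucc 27, .ofNat 0, .ofNat 128, .negSucc 4, .ofNat 0, .ofNat 0, .ofNat 466, .ofNat 511, .ofNat 0, .ofNat 0, .ofNat 9037638498918221495518958931272531968, .ofNat 0, .ofNat 0, .ofNat 582079195454583618730574621232433463296, .ofNat 124899148503716760602182411754936467456, .ofNat 0, .ofNat 0, .ofNat 0, .ofNat 0, .ofNat 0, .ofNat 0, .ofNat 1909497897084032257037200955746537177088, .ofNat 36114114267073628361153976662541467648, .ofNat 0⟩)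
    (by decide +kernel)
theorem L03169 : Good (Phi V5.P V5.D 1 (-1)) ⟨2, 2, 2, 0, 3, 6, 2, 2, 4, 5⟩ :=
  leafYS_sound T5.ok_pm T5.Ypm.bz_eq (w := 210) (c := ⟨⟨.negSucc 1824, .negSucc 662, .negSucc 9, .ofNat 46, .negSucc 274, .ofNat 272⟩, ⟨.negSucc 38, .negSucc 461, .ofNat 340, .ofNat 60, .negSucc 94, .ofNat 13⟩, ⟨.ofNat 1491, .ofNat 396, .ofNat 207, .ofNat 41, .ofNat 819, .ofNat 142⟩, ⟨.negSucc 4049, .negSucc 113, .negSucc 55, .ofNat 71, .negSucc 427, .ofNat 513⟩, ⟨.negSucc 259, .ofNat 72, .ofNat 83, .ofNat 404, .negSucc 323, .negSucc 122⟩, .ofNat 315, .negSucc 22, .ofNat 0, .negSucc 22, .ofNat 651, .ofNat 0, .ofNat 220, .ofNat 3, .negSucc 3, .ofNat 0, .ofNat 128, .negSucc 1, .ofNat 0, .ofNat 0, .ofNat 293, .ofNat 330, .ofNat 0, .ofNat 26901333424662156038563652693113731809280, .ofNat 4440373855166361625648877966801722408960, .ofNat 0, .ofNat 0, .ofNat 0, .ofNat 0, .ofNat 0, .ofNat 0,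 .ofNat 0, .ofNat 0, .ofNat 0, .ofNat 0, .ofNat 1873551012352327319642035464839224551800832, .ofNat 0, .ofNat 0⟩)
    (by decide +kernel)
theorem L03170 : Good (Phi V5.P V5.D 1 (-1)) ⟨2, 2, 2, 0, 3, 7, 2, 2, 4, 5⟩ :=
  out_sound (S := T5.ds_pm) T5.ok_pm (w := 32) (j := 2) (by decide +kernel)
theorem L03171 : Good (Phi V5.P V5.D 1 (-1)) ⟨2, 2, 2, 0, 2, 2, 2, 3, 4, 4⟩ :=
  leafYS_sound T5.ok_pm T5.Ypm.bz_eq (w := 197) (c := ⟨⟨.negSucc 1901, .negSucc 1039, .ofNat 51, .negSucc 400, .negSucc 662, .ofNat 196⟩, ⟨.negSucc 16, .negSucc 647, .ofNat 402, .negSucc 37, .negSucc 120, .ofNat 6⟩, ⟨.ofNat 1811, .ofNat 825, .ofNat 169, .ofNat 344, .ofNat 770, .negSucc 42⟩, ⟨.negSucc 4271, .negSucc 539, .negSucc 59, .negSucc 766, .negSucc 1187, .ofNat 377⟩, ⟨.negSucc 376, .negSucc 204, .negSucc 20, .negSucc 61, .negSucc 541, .negSucc 166⟩, .ofNat 316, .negSucc 19, .ofNat 0, .negSucc 19, .ofNat 652, .ofNat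 0, .ofNat 297, .ofNat 13, .negSucc 67, .ofNat 0, .ofNat 128, .negSucc 2, .ofNat 0, .ofNat 0, .ofNat 419, .ofNat 285, .ofNat 0, .ofNat 8494166172829122150011101013363130368, .ofNat 116633436309310501471956016591536128, .ofNat 0, .ofNat 0, .ofNat 298848274866298043034112540274925240320, .ofNat 11334191168015285411216155065295306752, .ofNat 0, .ofNat 0, .ofNat 256077537147244010894035385624903548928, .ofNat 0, .ofNat 0, .ofNat 0, .ofNat 366327665804085193838291163219853574144, .ofNat 2175978673444323394822645498198884352, .ofNat 0⟩)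
    (by decide +kernel)
theorem L03172 : Good (Phi V5.P V5.D 1 (-1)) ⟨2, 2, 2, 0, 2, 3, 2, 3, 4, 4⟩ :=
  leafYS_sound T5.ok_pm T5.Ypm.bz_eq (w := 198) (c := ⟨⟨.negSucc 2242, .negSucc 1129, .negSucc 36, .negSucc 192, .negSucc 662, .ofNat 385⟩, ⟨.negSucc 41, .negSucc 656, .ofNat 436, .ofNat 84, .negSucc 179, .ofNat 12⟩, ⟨.ofNat 2105, .ofNat 730, .ofNat 209, .ofNat 67, .ofNat 1133, .ofNat 44⟩, ⟨.negSucc 4981, .negSucc 674, .negSucc 158, .negSucc 368, .negSucc 1067, .ofNat 784⟩, ⟨.negSucc 291, .negSucc 165, .negSucc 16, .ofNat 940, .negSucc 418, .negSucc 270⟩, .ofNat 170, .negSucc 1, .ofNat 0, .negSucc 1, .ofNat 234, .ofNat 0, .ofNat 196, .negSucc 12, .negSucc 33, .ofNat 0, .ofNat 128, .negSucc 1, .ofNat 0, .ofNat 0, .ofNat 168, .ofNat 630, .ofNat 0, .ofNat 30341058474407950677113694764314656768, .ofNat 0, .ofNat 0, .ofNat 0, .ofNat 656999882079737239806889022932264157184, .ofNat 1730192161978714089565938739188858880,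 .ofNat 0, .ofNat 0, .ofNat 324119193553382167530755644123177287680, .ofNat 2592505402672896261098831286139617280, .ofNat 0, .ofNat 0, .ofNat 282794804725996946694233991944825995264, .ofNat 423194544440630222447396086362406912, .ofNat 0⟩)
    (by decide +kernel)
theorem L03173 : Good (Phi V5.P V5.D 1 (-1)) ⟨2, 2, 2, 0, 2, 2, 2, 3, 4, 5⟩ :=
  leafYS_sound T5.ok_pm T5.Ypm.bz_eq (w := 196) (c := ⟨⟨.negSucc 1797, .negSucc 904, .ofNat 31, .negSucc 306, .negSucc 579, .ofNat 144⟩, ⟨.negSucc 28, .negSucc 584, .ofNat 329, .negSucc 60, .negSucc 140, .ofNat 17⟩, ⟨.ofNat 1746, .ofNat 803, .ofNat 299, .ofNat 488, .ofNat 559, .negSucc 1⟩, ⟨.negSucc 4021, .negSucc 404, .negSucc 69, .negSucc 536, .negSucc 963, .ofNat 271⟩, ⟨.negSucc 462, .negSucc 194, .negSucc 52, .negSucc 354, .negSucc 444, .negSucc 59⟩, .ofNat 316, .negSucc 13, .ofNat 0, .negSucc 13, .ofNat 646, .ofNat 0, .ofNat 238, .ofNat 7, .negSucc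 27, .ofNat 0, .ofNat 128, .negSucc 5, .ofNat 0, .ofNat 0, .ofNat 351, .ofNat 229, .ofNat 0, .ofNat 9748334964999035761296262126339358720, .ofNat 203550419393389970851702516343635968, .ofNat 0, .ofNat 0, .ofNat 349336618837859296848049339690284744704, .ofNat 0, .ofNat 0, .ofNat 0, .ofNat 309180857206984959439634550980391993344, .ofNat 0, .ofNat 0, .ofNat 0, .ofNat 470788185569660213914058142720972554240, .ofNat 0, .ofNat 0⟩)
    (by decide +kernel)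
theorem L03174 : Good (Phi V5.P V5.D 1 (-1)) ⟨2, 2, 2, 0, 2, 3, 2, 3, 4, 5⟩ :=
  out_sound (S := T5.ds_pm) T5.ok_pm (w := 30) (j := 2) (by decide +kernel)
theorem L03175 : Good (Phi V5.P V5.D 1 (-1)) ⟨2, 3, 2, 0, 1, 1, 1, 1, 3, 2⟩ :=
  out_sound (S := T5.ds_pm) T5.ok_pm (w := 37) (j := 3) (by decide +kernel)
theorem L03176 : Good (Phi V5.P V5.D 1 (-1)) ⟨2, 2, 3, 0, 2, 2, 2, 2, 4, 6⟩ :=
  leafYS_sound T5.ok_pm T5.Ypm.bz_eq (w := 201) (c := ⟨⟨.negSucc 1567, .negSucc 629, .ofNat 11, .negSucc 79, .negSucc 193, .ofNat 141⟩, ⟨.negSucc 35, .negSucc 435, .ofNat 151, .negSucc 22, .negSucc 32, .ofNat 6⟩, ⟨.ofNat 1532, .ofNat 476, .ofNat 143, .ofNat 122, .ofNat 406, .ofNat 90⟩, ⟨.negSucc 3488, .negSucc 132, .negSucc 31, .negSucc 137, .negSucc 351, .ofNat 279⟩, ⟨.negSucc 351, .negSucc 48, .negSucc 7, .negSucc 76, .negSucc 216, .negSucc 27⟩, .ofNat 319, .negSucc 22, .ofNat 0, .negSucc 22, .ofNat 669,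 .ofNat 0, .ofNat 173, .ofNat 11, .negSucc 14, .ofNat 0, .ofNat 128, .negSucc 8, .ofNat 0, .ofNat 0, .ofNat 762, .ofNat 963, .ofNat 0, .ofNat 21887831812488640950838625133985267712, .ofNat 0, .ofNat 0, .ofNat 0, .ofNat 3011796501758579882487151436845576880128, .ofNat 29286202093406802129531844516460363776, .ofNat 0, .ofNat 0, .ofNat 3399323087140268051860623834658830811136, .ofNat 0, .ofNat 0, .ofNat 0, .ofNat 11908970350925461266390450808911212576768, .ofNat 0, .ofNat 0⟩)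
    (by decide +kernel)
theorem L03177 : Good (Phi V5.P V5.D 1 (-1)) ⟨2, 2, 3, 1, 3, 4, 2, 2, 4, 6⟩ :=
  leafYS_sound T5.ok_pm T5.Ypm.bz_eq (w := 215) (c := ⟨⟨.negSucc 1575, .negSucc 583, .ofNat 15, .negSucc 41, .negSucc 167, .ofNat 141⟩, ⟨.ofNat 96, .negSucc 386, .ofNat 145, .negSucc 5, .negSucc 15, .negSucc 11⟩, ⟨.ofNat 1589, .ofNat 490, .ofNat 127, .ofNat 153, .ofNat 447, .ofNat 258⟩, ⟨.negSucc 3523, .negSucc 107, .negSucc 16, .negSucc 77, .negSucc 335, .ofNat 283⟩, ⟨.negSucc 345, .negSucc 41, .negSucc 7, .negSucc 67, .negSucc 221, .negSucc 45⟩, .ofNat 324, .ofNat 20, .ofNat 0, .ofNat 20, .ofNat 649, .ofNat 0, .ofNat 314, .negSucc 15, .negSucc 11, .ofNat 0, .ofNat 128, .negSucc 17, .ofNat 0, .ofNat 0, .ofNat 1234, .ofNat 1702, .ofNat 0, .ofNat 0, .ofNat 20217513886387950427119602485338600112128, .ofNat 0, .ofNat 0, .ofNat 0, .ofNat 0, .ofNat 0, .ofNat 0, .ofNat 11928659692506406291254912969180709182767104,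 .ofNat 1467142418532889781480445065890148879695872, .ofNat 0, .ofNat 0, .ofNat 118163307223400193900007728176933359488860160, .ofNat 869040257236390544379572614029865618767872, .ofNat 0⟩)
    (by decide +kernel)
theorem L03178 : Good (Phi V5.P V5.D 1 (-1)) ⟨2, 2, 3, 1, 3, 5, 2, 2, 4, 6⟩ :=
  leafYS_sound T5.ok_pm T5.Ypm.bz_eq (w := 214) (c := ⟨⟨.negSucc 1619, .negSucc 589, .ofNat 13, .negSucc 10, .negSucc 140, .ofNat 167⟩, ⟨.ofNat 93, .negSucc 387, .ofNat 146, .ofNat 4, .negSucc 16, .negSucc 22⟩, ⟨.ofNat 1679, .ofNat 413, .ofNat 177, .ofNat 172, .ofNat 792, .ofNat 355⟩, ⟨.negSucc 3614, .negSucc 105, .negSucc 18, .negSucc 24, .negSucc 294, .ofNat 345⟩, ⟨.negSucc 383, .negSucc 32, .negSucc 8, .ofNat 18, .negSucc 309, .negSucc 81⟩, .ofNat 322, .ofNat 16, .ofNat 0, .ofNat 16, .ofNat 645, .ofNat 0, .ofNat 186, .negSucc 15, .ofNat 3, .ofNat 0, .ofNat 128, .negSucc 6, .ofNat 0, .ofNat 0, .ofNat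 477, .ofNat 829, .ofNat 0, .ofNat 596428003309635898600431910186204885155840, .ofNat 10000745762830368204763760868036045701120, .ofNat 0, .ofNat 0, .ofNat 14735367381999124232806640828249561762889728, .ofNat 489306926504815690888759031773283049537536, .ofNat 0, .ofNat 0, .ofNat 21938883721458154527257946592523760118530048, .ofNat 0, .ofNat 0, .ofNat 0, .ofNat 44478927078412679132100471399094265457934336, .ofNat 0, .ofNat 0⟩)
    (by decide +kernel)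
theorem L03179 : Good (Phi V5.P V5.D 1 (-1)) ⟨3, 4, 2, 0, 3, 4, 2, 2, 4, 7⟩ :=
  leafYS_sound T5.ok_pm T5.Ypm.bz_eq (w := 217) (c := ⟨⟨.negSucc 1460, .negSucc 280, .ofNat 36, .negSucc 26, .negSucc 162, .ofNat 125⟩, ⟨.negSucc 38, .negSucc 169, .ofNat 259, .negSucc 18, .negSucc 24, .negSucc 3⟩, ⟨.ofNat 1459, .ofNat 234, .ofNat 567, .ofNat 409, .ofNat 412, .ofNat 289⟩, ⟨.negSucc 3240, .negSucc 68, .negSucc 16, .negSucc 39, .negSucc 323, .ofNat 260⟩, ⟨.negSucc 313, .negSucc 46, .negSucc 59, .negSucc 138, .negSucc 240, .negSucc 34⟩, .ofNat 326, .ofNat 6, .ofNat 0, .ofNat 6, .ofNat 677, .ofNat 0, .ofNat 339, .negSucc 5, .ofNat 9, .ofNat 0, .ofNat 128, .negSucc 28, .ofNat 0, .ofNat 0, .ofNat 1495, .ofNat 2779, .ofNat 0, .ofNat 0, .ofNat 0, .ofNat 0, .ofNat 874642998139244296674226072716289671476281344, .ofNat 137329125395621731388374454021081229216972800, .ofNat 0, .ofNat 0, .ofNat 195930489394077716151761061539288541516791808,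 .ofNat 65089773024579525524842748843940494757068800, .ofNat 0, .ofNat 0, .ofNat 11521996221799368816576106248277905377463369728, .ofNat 728215277310475700191035818599847912026406912, .ofNat 0, .ofNat 0⟩)
    (by decide +kernel)
theorem L03180 : Good (Phi V5.P V5.D 1 (-1)) ⟨3, 5, 2, 0, 3, 4, 2, 2, 4, 7⟩ :=
  leafYS_sound T5.ok_pm T5.Ypm.bz_eq (w := 218) (c := ⟨⟨.negSucc 1714, .negSucc 350, .ofNat 23, .negSucc 37, .negSucc 235, .ofNat 153⟩, ⟨.negSucc 197, .negSucc 288, .ofNat 246, .negSucc 24, .negSucc 65, .ofNat 10⟩, ⟨.ofNat 1641, .ofNat 275, .ofNat 615, .ofNat 353, .ofNat 574, .ofNat 327⟩, ⟨.negSucc 3280, .negSucc 75, .negSucc 25, .negSucc 49, .negSucc 390, .ofNat 276⟩, ⟨.negSucc 328, .negSucc 54, .negSucc 67, .negSucc 152, .negSucc 316, .negSucc 56⟩, .ofNat 306, .negSucc 41, .ofNat 0, .negSucc 41, .ofNat 616, .ofNat 0, .ofNat 328, .ofNat 25, .ofNat 1, .ofNat 0, .ofNat 128, .negSucc 44,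 .ofNat 0, .ofNat 0, .ofNat 2144, .ofNat 4773, .ofNat 84155615844829596932045123838841072893558784, .ofNat 0, .ofNat 19756612427675612113823309982067245187072, .ofNat 0, .ofNat 3415059792313798932286705858397117567723372544, .ofNat 253700667955349057817774393697585904780050432, .ofNat 0, .ofNat 0, .ofNat 401532434373434429163099215371105414544359424, .ofNat 58405331220722279678998888068937488124608512, .ofNat 260784744685900605954268224574128014753792, .ofNat 0, .ofNat 26067310083583083301865422916976971664756572160, .ofNat 1532267612555304370895694435405285388468617216, .ofNat 489506987106698077550050373954446699790336, .ofNat 0⟩)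
    (by decide +kernel)
theorem L03181 : Good (Phi V5.P V5.D 1 (-1)) ⟨2, 2, 2, 0, 3, 5, 2, 2, 4, 7⟩ :=
  out_sound (S := T5.ds_pm) T5.ok_pm (w := 32) (j := 2) (by decide +kernel)
theorem L03182 : Good (Phi V5.P V5.D 1 (-1)) ⟨2, 2, 2, 0, 2, 2, 2, 3, 3, 3⟩ :=
  leafYS_sound T5.ok_pm T5.Ypm.bz_eq (w := 194) (c := ⟨⟨.negSucc 1716, .negSucc 797, .ofNat 36, .negSucc 227, .negSucc 401, .ofNat 273⟩, ⟨.negSucc 36, .negSucc 538, .ofNat 305, .negSucc 49, .negSucc 10, .ofNat 67⟩, ⟨.ofNat 1719, .ofNat 768, .ofNat 390, .ofNat 607, .ofNat 185, .negSucc 34⟩, ⟨.negSucc 3801, .negSucc 326, .negSucc 54, .negSucc 388, .negSucc 717, .ofNat 483⟩, ⟨.negSucc 494, .negSucc 225, .negSucc 59, .negSucc 438, .negSucc 367, .negSucc 67⟩, .ofNat 171, .negSucc 1, .ofNat 0, .negSucc 1, .ofNat 235, .ofNat 0, .ofNat 128, .negSucc 0, .negSucc 18, .ofNat 0, .ofNat 143, .negSucc 16, .ofNat 0, .ofNat 0, .ofNat 278, .ofNat 1200,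 .ofNat 0, .ofNat 6178047420781870065929082624073007104, .ofNat 0, .ofNat 0, .ofNat 0, .ofNat 114626118558553188350150669865152675840, .ofNat 120145826329287844840843377639424000, .ofNat 0, .ofNat 0, .ofNat 124831383144484037336967992893658628096, .ofNat 0, .ofNat 0, .ofNat 0, .ofNat 132282540453310448513054198009681674240, .ofNat 37354853918905055274756377218646016, .ofNat 0⟩)
    (by decide +kernel)
theorem L03183 : Good (Phi V5.P V5.D 1 (-1)) ⟨2, 3, 2, 0, 2, 2, 1, 1, 3, 3⟩ :=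
  out_sound (S := T5.ds_pm) T5.ok_pm (w := 37) (j := 3) (by decide +kernel)
theorem L03184 : Good (Phi V5.P V5.D 1 (-1)) ⟨1, 1, 2, 0, 2, 3, 1, 1, 3, 3⟩ :=
  out_sound (S := T5.ds_pm) T5.ok_pm (w := 26) (j := 2) (by decide +kernel)
theorem L03185 : Good (Phi V5.P V5.D 1 (-1)) ⟨2, 2, 2, 0, 4, 8, 3, 4, 4, 8⟩ :=
  out_sound (S := T5.ds_pm) T5.ok_pm (w := 29) (j := 1) (by decide +kernel)
theorem L03186 : Good (Phi V5.P V5.D 1 (-1)) ⟨2, 2, 2, 0, 4, 8, 3, 5, 4, 8⟩ :=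
  out_sound (S := T5.ds_pm) T5.ok_pm (w := 36) (j := 2) (by decide +kernel)
theorem L03187 : Good (Phi V5.P V5.D 1 (-1)) ⟨2, 3, 2, 0, 4, 8, 2, 2, 4, 8⟩ :=
  out_sound (S := T5.ds_pm) T5.ok_pm (w := 37) (j := 3) (by decide +kernel)
theorem L03188 : Good (Phi V5.P V5.D 1 (-1)) ⟨1, 1, 2, 0, 4, 8, 2, 2, 4, 9⟩ :=
  out_sound (S := T5.ds_pm) T5.ok_pm (w := 28) (j := 1) (by decide +kernel)
theorem L03189 : Good (Phi V5.P V5.D 1 (-1)) ⟨1, 1, 2, 0, 4, 9, 2, 2, 3, 4⟩ :=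
  out_sound (S := T5.ds_pm) T5.ok_pm (w := 32) (j := 2) (by decide +kernel)
theorem L03190 : Good (Phi V5.P V5.D 1 (-1)) ⟨1, 1, 2, 0, 3, 4, 2, 3, 3, 4⟩ :=
  out_sound (S := T5.ds_pm) T5.ok_pm (w := 30) (j := 2) (by decide +kernel)
theorem L03191 : Good (Phi V5.P V5.D 1 (-1)) ⟨1, 1, 2, 0, 3, 4, 1, 1, 3, 5⟩ :=
  out_sound (S := T5.ds_pm) T5.ok_pm (w := 28) (j := 2) (by decide +kernel)
theorem L03192 : Good (Phi V5.P V5.D 1 (-1)) ⟨1, 1, 2, 0, 3, 5, 1, 1, 2, 2⟩ :=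
  out_sound (S := T5.ds_pm) T5.ok_pm (w := 26) (j := 2) (by decide +kernel)
theorem L03193 : Good (Phi V5.P V5.D 1 (-1)) ⟨1, 1, 2, 0, 2, 2, 1, 1, 2, 3⟩ :=
  out_sound (S := T5.ds_pm) T5.ok_pm (w := 24) (j := 2) (by decide +kernel)
theorem L03194 : Good (Phi V5.P V5.D 1 (-1)) ⟨1, 1, 2, 0, 2, 3, 1, 1, 1, 1⟩ :=
  out_sound (S := T5.ds_pm) T5.ok_pm (w := 22) (j := 2) (by decide +kernel)
theorem L03195 : Good (Phi V5.P V5.D 1 (-1)) ⟨2, 2, 2, 1, 2, 2, 1, 1, 4, 0⟩ :=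
  leafYS_sound T5.ok_pm T5.Ypm.bz_eq (w := 193) (c := ⟨⟨.ofNat 1338, .ofNat 563, .negSucc 179, .negSucc 182, .negSucc 2652, .negSucc 1233⟩, ⟨.negSucc 278, .ofNat 480, .ofNat 171, .ofNat 68, .ofNat 585, .ofNat 80⟩, ⟨.negSucc 1180, .negSucc 326, .ofNat 225, .ofNat 194, .ofNat 3097, .ofNat 716⟩, ⟨.ofNat 2944, .ofNat 407, .negSucc 214, .negSucc 98, .negSucc 5508, .negSucc 2679⟩, ⟨.ofNat 583, .negSucc 213, .negSucc 191, .ofNat 1280, .ofNat 646, .negSucc 838⟩, .ofNat 456, .ofNat 150, .ofNat 0, .ofNat 150, .ofNat 1266, .ofNat 0, .ofNat 346, .negSucc 53, .negSucc 391, .ofNat 0, .ofNat 128, .ofNat 71, .ofNat 0, .ofNat 0, .ofNat 559, .ofNat 179, .ofNat 0, .ofNat 0, .ofNat 8040434546500957734962997359542272, .ofNat 0, .ofNat 0, .ofNat 1384975232422481352184915930619314176, .ofNat 855352573712119784263888407701225472, .ofNat 0, .ofNat 0, .ofNat 0, .ofNat 841223184546521138967792290011021312, .ofNat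 0, .ofNat 0, .ofNat 9709308372462776927570697358671872000, .ofNat 530077254800735837695540425564094464, .ofNat 0⟩)
    (by decide +kernel)
theorem L03196 : Good (Phi V5.P V5.D 1 (-1)) ⟨3, 4, 2, 1, 2, 2, 1, 1, 4, 1⟩ :=
  leafYS_sound T5.ok_pm T5.Ypm.bz_eq (w := 197) (c := ⟨⟨.ofNat 189, .negSucc 587, .negSucc 128, .negSucc 481, .negSucc 1447, .negSucc 1269⟩, ⟨.negSucc 67, .negSucc 33, .ofNat 254, .ofNat 160, .ofNat 262, .ofNat 193⟩, ⟨.negSucc 550, .ofNat 517, .ofNat 240, .ofNat 145, .ofNat 2422, .ofNat 1024⟩, ⟨.ofNat 229, .negSucc 816, .negSucc 270, .negSucc 950, .negSucc 3024, .negSucc 2680⟩, ⟨.negSucc 36, .ofNat 57, .negSucc 146, .ofNat 583, .ofNat 302, .negSucc 342⟩, .ofNat 456, .ofNat 151, .ofNat 0, .ofNat 151, .ofNat 1263, .ofNat 0, .ofNat 540, .negSucc 73, .negSucc 431, .ofNat 0, .ofNat 128, .ofNat 84, .ofNat 0, .ofNat 0, .ofNat 711, .ofNat 226, .ofNat 0, .ofNat 0, .ofNat 2319572226070837828244150138437632,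 .ofNat 0, .ofNat 0, .ofNat 762664709258501466342748387047557300224, .ofNat 462925856086783124663552887584980992, .ofNat 0, .ofNat 0, .ofNat 0, .ofNat 132189823318350901300609882397868032, .ofNat 0, .ofNat 0, .ofNat 902449111733823696109641619717666897920, .ofNat 104309417980457942729292877798572032, .ofNat 0⟩)
    (by decide +kernel)
theorem L03197 : Good (Phi V5.P V5.D 1 (-1)) ⟨3, 5, 2, 1, 2, 2, 1, 1, 4, 1⟩ :=
  out_sound (S := T5.ds_pm) T5.ok_pm (w := 43) (j := 3) (by decide +kernel)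
theorem L03198 : Good (Phi V5.P V5.D 1 (-1)) ⟨2, 3, 2, 1, 2, 2, 1, 1, 3, 0⟩ :=
  out_sound (S := T5.ds_pm) T5.ok_pm (w := 37) (j := 3) (by decide +kernel)
theorem L03199 : Good (Phi V5.P V5.D 1 (-1)) ⟨3, 4, 2, 1, 2, 2, 2, 2, 3, 1⟩ :=
  leafYS_sound T5.ok_pm T5.Ypm.bz_eq (w := 196) (c := ⟨⟨.negSucc 1427, .negSucc 461, .negSucc 37, .negSucc 529, .negSucc 283, .negSucc 156⟩, ⟨.ofNat 206, .negSucc 167, .ofNat 375, .ofNat 122, .ofNat 25, .ofNat 10⟩, ⟨.ofNat 857, .ofNat 315, .ofNat 50, .ofNat 159, .ofNat 742, .ofNat 477⟩, ⟨.negSucc 3219, .negSucc 360, .negSucc 106, .negSucc 1047, .negSucc 620, .negSucc 397⟩, ⟨.negSucc 182, .ofNat 5, .ofNat 80, .ofNat 374, .negSucc 196, .negSucc 244⟩, .ofNat 459, .ofNat 156, .ofNat 0, .ofNat 156, .ofNat 1273, .ofNat 0, .ofNat 475, .negSucc 78, .negSucc 136, .ofNat 0, .ofNat 128, .ofNat 29, .ofNat 0, .ofNat 0, .ofNat 429, .ofNat 537, .ofNat 0, .ofNat 0, .ofNat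 0, .ofNat 0, .ofNat 0, .ofNat 0, .ofNat 0, .ofNat 0, .ofNat 0, .ofNat 0, .ofNat 0, .ofNat 0, .ofNat 0, .ofNat 0, .ofNat 14311833169805254307574483326599168, .ofNat 0⟩)
    (by decide +kernel)
theorem L03200 : Good (Phi V5.P V5.D 1 (-1)) ⟨3, 4, 2, 1, 2, 2, 2, 3, 4, 2⟩ :=
  leafYS_sound T5.ok_pm T5.Ypm.bz_eq (w := 201) (c := ⟨⟨.negSucc 1262, .negSucc 879, .negSucc 83, .negSucc 982, .negSucc 1023, .negSucc 283⟩, ⟨.ofNat 234, .negSucc 213, .ofNat 335, .ofNat 189, .ofNat 134, .ofNat 17⟩, ⟨.ofNat 1169, .ofNat 657, .ofNat 92, .ofNat 643, .ofNat 1511, .ofNat 352⟩, ⟨.negSucc 3012, .negSucc 1028, .negSucc 192, .negSucc 1975, .negSucc 2090, .negSucc 633⟩, ⟨.negSucc 254, .ofNat 18, .negSucc 143, .ofNat 448, .ofNat 90, .negSucc 296⟩, .ofNat 458, .ofNat 153, .ofNat 0, .ofNat 153, .ofNat 1271, .ofNat 0, .ofNat 514, .negSucc 73, .negSucc 253, .ofNat 0, .ofNat 128, .ofNat 45, .ofNat 0, .ofNat 0, .ofNat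 535, .ofNat 305, .ofNat 0, .ofNat 0, .ofNat 162741049725848380575899870251974656, .ofNat 0, .ofNat 0, .ofNat 3395739958248883408816750143676616802304, .ofNat 3277582841643544205660669224727609344, .ofNat 0, .ofNat 0, .ofNat 1198036290127221666626023629518161313792, .ofNat 2282096298175733343212383217207214080, .ofNat 0, .ofNat 0, .ofNat 2365974924679011200761448848414356799488, .ofNat 1558855765190383379920021201807736832, .ofNat 0⟩)
    (by decide +kernel)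
theorem L03201 : Good (Phi V5.P V5.D 1 (-1)) ⟨3, 4, 2, 1, 2, 2, 2, 3, 4, 3⟩ :=
  leafYS_sound T5.ok_pm T5.Ypm.bz_eq (w := 201) (c := ⟨⟨.negSucc 1866, .negSucc 501, .ofNat 54, .negSucc 659, .negSucc 709, .ofNat 100⟩, ⟨.ofNat 301, .negSucc 250, .ofNat 383, .ofNat 108, .ofNat 63, .negSucc 44⟩, ⟨.ofNat 1721, .ofNat 401, .ofNat 89, .ofNat 512, .ofNat 1145, .ofNat 98⟩, ⟨.negSucc 4256, .negSucc 265, .ofNat 29, .negSucc 1341, .negSucc 1537, .ofNat 178⟩, ⟨.negSucc 309, .negSucc 14, .negSucc 0, .ofNat 179, .negSucc 493, .negSucc 277⟩, .ofNat 460, .ofNat 159, .ofNat 0, .ofNat 159, .ofNat 1277, .ofNat 0, .ofNat 524, .negSucc 77, .negSucc 129, .ofNat 0, .ofNat 128, .ofNat 20, .ofNat 0, .ofNat 0, .ofNat 506, .ofNat 253, .ofNat 0, .ofNat 0, .ofNat 173935660850642333360863833023840256, .ofNat 0, .ofNat 0, .ofNat 0, .ofNat 0, .ofNat 0, .ofNat 0, .ofNat 2098584133172058554377512128142773321728, .ofNat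 2656558661728944802860708887571464192, .ofNat 0, .ofNat 0, .ofNat 5915973702075288508987567175897437962240, .ofNat 1491374611421898953167312134416105472, .ofNat 0⟩)
    (by decide +kernel)
theorem L03202 : Good (Phi V5.P V5.D 1 (-1)) ⟨3, 5, 2, 1, 2, 2, 1, 1, 3, 1⟩ :=
  out_sound (S := T5.ds_pm) T5.ok_pm (w := 43) (j := 3) (by decide +kernel)
theorem L03203 : Good (Phi V5.P V5.D 1 (-1)) ⟨2, 3, 2, 1, 2, 2, 1, 1, 3, 1⟩ :=
  out_sound (S := T5.ds_pm) T5.ok_pm (w := 37) (j := 3) (by decide +kernel)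
theorem L03204 : Good (Phi V5.P V5.D 1 (-1)) ⟨3, 4, 2, 1, 3, 6, 2, 2, 4, 0⟩ :=
  leafYS_sound T5.ok_pm T5.Ypm.bz_eq (w := 215) (c := ⟨⟨.ofNat 1325, .ofNat 310, .ofNat 206, .negSucc 257, .negSucc 1349, .negSucc 1499⟩, ⟨.ofNat 6, .ofNat 115, .negSucc 96, .ofNat 20, .ofNat 146, .ofNat 49⟩, ⟨.negSucc 1016, .negSucc 72, .ofNat 59, .ofNat 188, .ofNat 1336, .ofNat 587⟩, ⟨.ofNat 2936, .ofNat 462, .ofNat 779, .negSucc 518, .negSucc 2784, .negSucc 3189⟩, ⟨.ofNat 1766, .ofNat 416, .ofNat 29, .ofNat 36, .negSucc 236, .negSucc 1144⟩, .ofNat 462, .ofNat 164, .ofNat 0, .ofNat 164, .ofNat 1272, .ofNat 0, .ofNat 355, .negSucc 51, .negSucc 238, .ofNat 0, .ofNat 128, .ofNat 43, .ofNat 0, .ofNat 0, .ofNat 294, .ofNat 450, .ofNat 0, .ofNat 0, .ofNat 842050658091220690302969382455922917376, .ofNat 0, .ofNat 0, .ofNat 0, .ofNat 35948595650623522753025113026399905513472, .ofNat 0, .ofNat 0, .ofNat 0, .ofNat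 55943792974755494206002401873231469346816, .ofNat 0, .ofNat 0, .ofNat 0, .ofNat 26635029195182823910355329911776350306304, .ofNat 0⟩)
    (by decide +kernel)
theorem L03205 : Good (Phi V5.P V5.D 1 (-1)) ⟨4, 8, 2, 1, 3, 7, 2, 2, 4, 0⟩ :=
  leafYS_sound T5.ok_pm T5.Ypm.bz_eq (w := 219) (c := ⟨⟨.ofNat 986, .ofNat 52, .ofNat 233, .negSucc 721, .negSucc 1184, .negSucc 1052⟩, ⟨.negSucc 3, .negSucc 7, .negSucc 80, .negSucc 1, .ofNat 197, .ofNat 135⟩, ⟨.negSucc 559, .negSucc 76, .negSucc 37, .ofNat 493, .ofNat 1025, .ofNat 184⟩, ⟨.ofNat 2647, .ofNat 93, .ofNat 470, .negSucc 2036, .negSucc 2657, .negSucc 2367⟩, ⟨.ofNat 2741, .negSucc 23, .negSucc 498, .negSucc 2141, .negSucc 683, .negSucc 921⟩, .ofNat 584, .ofNat 388, .ofNat 0, .ofNat 388, .ofNat 2117, .ofNat 0, .ofNat 282, .negSucc 127, .negSucc 184, .ofNat 0, .ofNat 109, .ofNat 34, .ofNat 0, .ofNat 0, .ofNat 216, .ofNat 235, .ofNat 0, .ofNat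 0, .ofNat 160397212125527795521352527047024443392, .ofNat 0, .ofNat 0, .ofNat 0, .ofNat 3448053501799061737520325584863635701760, .ofNat 0, .ofNat 0, .ofNat 0, .ofNat 14496955148455958493299772671771665235968, .ofNat 0, .ofNat 0, .ofNat 0, .ofNat 2500233587322220304370227836482117173248, .ofNat 0⟩)
    (by decide +kernel)
theorem L03206 : Good (Phi V5.P V5.D 1 (-1)) ⟨4, 9, 2, 1, 3, 7, 2, 2, 4, 0⟩ :=
  leafYS_sound T5.ok_pm T5.Ypm.bz_eq (w := 220) (c := ⟨⟨.ofNat 1419, .ofNat 61, .ofNat 223, .negSucc 829, .negSucc 1721, .negSucc 1726⟩, ⟨.ofNat 102, .ofNat 19, .negSucc 42, .negSucc 97, .ofNat 118, .ofNat 45⟩, ⟨.negSucc 789, .negSucc 23, .ofNat 25, .ofNat 526, .ofNat 1278, .ofNat 421⟩, ⟨.ofNat 3036, .ofNat 102, .ofNat 560, .negSucc 1823, .negSucc 3523, .negSucc 3507⟩, ⟨.ofNat 2219, .ofNat 19, .negSucc 328, .negSucc 1600, .negSucc 605, .negSucc 939⟩, .ofNat 503, .ofNat 179, .ofNat 0, .ofNat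 179, .ofNat 1850, .ofNat 0, .ofNat 539, .ofNat 4, .negSucc 659, .ofNat 0, .ofNat 128, .ofNat 56, .ofNat 0, .ofNat 0, .ofNat 635, .ofNat 351, .ofNat 0, .ofNat 0, .ofNat 356572747886394371044419876793649987584, .ofNat 0, .ofNat 0, .ofNat 0, .ofNat 50805660991998772127035651368654007697408, .ofNat 0, .ofNat 0, .ofNat 0, .ofNat 27364492812720100559786848924941508673536, .ofNat 0, .ofNat 0, .ofNat 0, .ofNat 33233576742133313355073520842702520844288, .ofNat 0⟩)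
    (by decide +kernel)
theorem L03207 : Good (Phi V5.P V5.D 1 (-1)) ⟨3, 4, 2, 1, 3, 6, 2, 2, 4, 1⟩ :=
  leafYS_sound T5.ok_pm T5.Ypm.bz_eq (w := 215) (c := ⟨⟨.negSucc 32, .negSucc 867, .ofNat 130, .negSucc 481, .negSucc 819, .negSucc 1550⟩, ⟨.ofNat 62, .negSucc 60, .ofNat 215, .ofNat 63, .ofNat 104, .ofNat 230⟩, ⟨.negSucc 387, .ofNat 426, .negSucc 32, .ofNat 153, .ofNat 1198, .ofNat 1090⟩, ⟨.negSucc 200, .negSucc 1365, .ofNat 405, .negSucc 906, .negSucc 1640, .negSucc 3312⟩, ⟨.ofNat 355, .ofNat 70, .ofNat 165, .ofNat 306, .ofNat 80, .negSucc 324⟩, .ofNat 462, .ofNat 166, .ofNat 0, .ofNat 166, .ofNat 1271, .ofNat 0, .ofNat 370, .negSucc 85, .negSucc 180, .ofNat 0, .ofNat 128, .ofNat 35, .ofNat 0, .ofNat 0, .ofNat 251, .ofNat 541, .ofNat 0, .ofNat 0, .ofNat 0, .ofNat 0, .ofNat 0, .ofNat 0, .ofNat 38194318570722686144794901445411415785472, .ofNat 0, .ofNat 0, .ofNat 0, .ofNat 0, .ofNat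 0, .ofNat 0, .ofNat 0, .ofNat 10288375285722373456127971658192035774464, .ofNat 0⟩)
    (by decide +kernel)
theorem L03208 : Good (Phi V5.P V5.D 1 (-1)) ⟨3, 4, 3, 2, 3, 7, 2, 2, 4, 1⟩ :=
  leafYS_sound T5.ok_pm T5.Ypm.bz_eq (w := 218) (c := ⟨⟨.negSucc 322, .negSucc 983, .ofNat 114, .negSucc 367, .negSucc 1048, .negSucc 1601⟩, ⟨.ofNat 130, .negSucc 61, .ofNat 127, .negSucc 22, .ofNat 86, .ofNat 240⟩, ⟨.negSucc 223, .ofNat 475, .ofNat 23, .ofNat 122, .ofNat 1088, .ofNat 1030⟩, ⟨.negSucc 715, .negSucc 1538, .ofNat 201, .negSucc 980, .negSucc 2128, .negSucc 3341⟩, ⟨.ofNat 888, .negSucc 22, .negSucc 139, .negSucc 1116, .negSucc 111, .negSucc 98⟩, .ofNat 506, .ofNat 218, .ofNat 0, .ofNat 218, .ofNat 1664, .ofNat 0, .ofNat 490, .negSucc 88, .negSucc 252, .ofNat 0, .ofNat 128, .ofNat 35, .ofNat 0, .ofNat 0, .ofNat 323, .ofNat 339, .ofNat 0, .ofNat 0, .ofNat 2510711304073537890458739332542218895360,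 .ofNat 0, .ofNat 0, .ofNat 0, .ofNat 283714775956029517198565998294418224840704, .ofNat 0, .ofNat 0, .ofNat 0, .ofNat 0, .ofNat 0, .ofNat 0, .ofNat 0, .ofNat 39525516688777845058479353773126609534976, .ofNat 0⟩)
    (by decide +kernel)
theorem L03209 : Good (Phi V5.P V5.D 1 (-1)) ⟨3, 4, 3, 3, 3, 7, 2, 2, 4, 1⟩ :=
  leafYS_sound T5.ok_pm T5.Ypm.bz_eq (w := 218) (c := ⟨⟨.negSucc 237, .negSucc 783, .ofNat 17, .negSucc 456, .negSucc 847, .negSucc 1639⟩, ⟨.ofNat 128, .ofNat 13, .ofNat 115, .ofNat 25, .ofNat 168, .ofNat 409⟩, ⟨.negSucc 247, .ofNat 338, .ofNat 42, .ofNat 265, .ofNat 1021, .ofNat 1031⟩, ⟨.negSucc 410, .negSucc 1231, .ofNat 6, .negSucc 1291, .negSucc 1916, .negSucc 3504⟩, ⟨.ofNat 793, .negSucc 44, .negSucc 132, .negSucc 1157, .negSucc 404, .ofNat 6⟩, .ofNat 629, .ofNat 488, .ofNat 0, .ofNat 488, .ofNat 2109, .ofNat 0, .ofNat 338, .negSucc 127, .negSucc 156, .ofNat 0, .ofNat 90,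 .ofNat 36, .ofNat 0, .ofNat 0, .ofNat 221, .ofNat 418, .ofNat 0, .ofNat 0, .ofNat 3464819013392817767316240890224651010048, .ofNat 0, .ofNat 0, .ofNat 0, .ofNat 269044885175971427041966730130775647191040, .ofNat 0, .ofNat 0, .ofNat 0, .ofNat 68461315117627411317831626421409673117696, .ofNat 0, .ofNat 0, .ofNat 0, .ofNat 50527119274383245227388737668300536807424, .ofNat 0⟩)
    (by decide +kernel)
theorem L03210 : Good (Phi V5.P V5.D 1 (-1)) ⟨3, 5, 2, 1, 2, 3, 2, 2, 3, 0⟩ :=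
  out_sound (S := T5.ds_pm) T5.ok_pm (w := 43) (j := 3) (by decide +kernel)
theorem L03211 : Good (Phi V5.P V5.D 1 (-1)) ⟨2, 3, 2, 1, 2, 3, 2, 2, 3, 0⟩ :=
  out_sound (S := T5.ds_pm) T5.ok_pm (w := 37) (j := 3) (by decide +kernel)
theorem L03212 : Good (Phi V5.P V5.D 1 (-1)) ⟨4, 8, 2, 1, 2, 3, 3, 6, 4, 0⟩ :=
  leafYS_sound T5.ok_pm T5.Ypm.bz_eq (w := 209) (c := ⟨⟨.negSucc 91, .negSucc 362, .ofNat 177, .negSucc 657, .negSucc 613, .negSucc 803⟩, ⟨.ofNat 136, .ofNat 4, .ofNat 128, .ofNat 25, .ofNat 203, .ofNat 72⟩, ⟨.ofNat 504, .ofNat 168, .negSucc 43, .ofNat 114, .ofNat 732, .ofNat 311⟩, ⟨.ofNat 58, .negSucc 753, .ofNat 580, .negSucc 1606, .negSucc 1186, .negSucc 1899⟩, ⟨.ofNat 2064, .negSucc 365, .negSucc 135, .negSucc 1213, .ofNat 678, .negSucc 1072⟩, .ofNat 593, .ofNat 408, .ofNat 0, .ofNat 408, .ofNat 2123, .ofNat 0, .ofNat 371, .negSucc 127, .negSucc 248, .ofNat 0, .ofNat 115, .ofNat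 54, .ofNat 0, .ofNat 0, .ofNat 303, .ofNat 232, .ofNat 0, .ofNat 0, .ofNat 0, .ofNat 0, .ofNat 0, .ofNat 0, .ofNat 6862407105456793460783139830974382080, .ofNat 0, .ofNat 0, .ofNat 0, .ofNat 0, .ofNat 0, .ofNat 0, .ofNat 0, .ofNat 3230905090098049916930205133651836928, .ofNat 0⟩)
    (by decide +kernel)
theorem L03213 : Good (Phi V5.P V5.D 1 (-1)) ⟨4, 9, 3, 2, 2, 3, 3, 6, 4, 0⟩ :=
  leafYS_sound T5.ok_pm T5.Ypm.bz_eq (w := 213) (c := ⟨⟨.ofNat 355, .negSucc 812, .negSucc 377, .negSucc 977, .negSucc 1100, .negSucc 1586⟩, ⟨.ofNat 211, .negSucc 49, .ofNat 83, .negSucc 39, .ofNat 153, .ofNat 20⟩, ⟨.ofNat 400, .ofNat 347, .ofNat 135, .ofNat 59, .ofNat 924, .ofNat 649⟩, ⟨.ofNat 728, .negSucc 1338, .negSucc 538, .negSucc 2079, .negSucc 2113, .negSucc 3239⟩, ⟨.ofNat 1911, .negSucc 12, .negSucc 160, .negSucc 1262, .ofNat 492, .negSucc 1002⟩, .ofNat 502, .ofNat 178, .ofNat 0, .ofNat 178, .ofNat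 1845, .ofNat 0, .ofNat 662, .ofNat 6, .negSucc 460, .ofNat 0, .ofNat 128, .ofNat 46, .ofNat 0, .ofNat 0, .ofNat 457, .ofNat 346, .ofNat 0, .ofNat 0, .ofNat 0, .ofNat 0, .ofNat 0, .ofNat 0, .ofNat 104034644396450097773033122260888584192, .ofNat 0, .ofNat 0, .ofNat 0, .ofNat 60208780289834547318269712985296470016, .ofNat 0, .ofNat 0, .ofNat 0, .ofNat 24884784956867467338110889257674473472, .ofNat 0⟩)
    (by decide +kernel)
theorem L03214 : Good (Phi V5.P V5.D 1 (-1)) ⟨4, 9, 3, 3, 2, 3, 3, 6, 4, 0⟩ :=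
  out_sound (S := T5.ds_pm) T5.ok_pm (w := 51) (j := 3) (by decide +kernel)
theorem L03215 : Good (Phi V5.P V5.D 1 (-1)) ⟨4, 8, 3, 2, 2, 3, 3, 7, 4, 0⟩ :=
  leafYS_sound T5.ok_pm T5.Ypm.bz_eq (w := 213) (c := ⟨⟨.negSucc 793, .negSucc 400, .ofNat 16, .negSucc 473, .negSucc 716, .negSucc 924⟩, ⟨.ofNat 271, .ofNat 1, .ofNat 145, .ofNat 52, .ofNat 240, .ofNat 94⟩, ⟨.ofNat 1378, .ofNat 212, .ofNat 18, .negSucc 237, .ofNat 877, .ofNat 421⟩, ⟨.negSucc 1444, .negSucc 689, .ofNat 159, .negSucc 1153, .negSucc 1313, .negSucc 2170⟩, ⟨.ofNat 2474, .negSucc 182, .negSucc 370, .negSucc 616, .ofNat 1106, .negSucc 988⟩, .ofNat 575, .ofNat 362, .ofNat 0, .ofNat 362, .ofNat 2162, .ofNat 0, .ofNat 871, .negSucc 110, .negSucc 344, .ofNat 0, .ofNat 128, .ofNat 65, .ofNat 0, .ofNat 0, .ofNat 401, .ofNat 152, .ofNat 0, .ofNat 0, .ofNat 0, .ofNat 0, .ofNat 0, .ofNat 0, .ofNat 0, .ofNat 0, .ofNat 0, .ofNat 0,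 .ofNat 0, .ofNat 0, .ofNat 0, .ofNat 0, .ofNat 0, .ofNat 0⟩)
    (by decide +kernel)
theorem L03216 : Good (Phi V5.P V5.D 1 (-1)) ⟨4, 9, 3, 2, 2, 3, 3, 7, 4, 0⟩ :=
  leafYS_sound T5.ok_pm T5.Ypm.bz_eq (w := 213) (c := ⟨⟨.negSucc 734, .negSucc 795, .negSucc 125, .negSucc 994, .negSucc 650, .negSucc 1571⟩, ⟨.ofNat 316, .negSucc 42, .ofNat 194, .negSucc 7, .ofNat 245, .ofNat 28⟩, ⟨.ofNat 1493, .ofNat 369, .ofNat 97, .negSucc 219, .ofNat 870, .ofNat 661⟩, ⟨.negSucc 1371, .negSucc 1309, .negSucc 149, .negSucc 2090, .negSucc 1203, .negSucc 3209⟩, ⟨.ofNat 2376, .negSucc 46, .negSucc 303, .negSucc 1049, .ofNat 1383, .negSucc 1033⟩, .ofNat 517, .ofNat 202, .ofNat 0, .ofNat 202, .ofNat 2031, .ofNat 0, .ofNat 682, .ofNat 13, .negSucc 570, .ofNat 0, .ofNat 128, .ofNat 54, .ofNat 0, .ofNat 0, .ofNat 551, .ofNat 180, .ofNat 0, .ofNat 9814529264414013732884398048141744537600, .ofNat 607900665564456083226122605652082688,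 .ofNat 0, .ofNat 0, .ofNat 999763512766601687605093854375861905522688, .ofNat 143952937470258359609513834018039136256, .ofNat 0, .ofNat 0, .ofNat 0, .ofNat 53241568451108642755491033012630454272, .ofNat 0, .ofNat 0, .ofNat 813007191211124618804262999338506581442560, .ofNat 27092341348824052777771476245823881216, .ofNat 0⟩)
    (by decide +kernel)
theorem L03217 : Good (Phi V5.P V5.D 1 (-1)) ⟨3, 4, 3, 3, 2, 3, 3, 7, 4, 0⟩ :=
  leafYS_sound T5.ok_pm T5.Ypm.bz_eq (w := 209) (c := ⟨⟨.negSucc 859, .negSucc 719, .ofNat 224, .negSucc 526, .negSucc 613, .negSucc 943⟩, ⟨.ofNat 380, .ofNat 71, .ofNat 114, .ofNat 63, .ofNat 248, .ofNat 139⟩, ⟨.ofNat 1278, .ofNat 620, .ofNat 82, .negSucc 156, .ofNat 843, .ofNat 507⟩, ⟨.negSucc 1341, .negSucc 1537, .ofNat 617, .negSucc 1334, .negSucc 1051, .negSucc 2322⟩, ⟨.ofNat 2195, .negSucc 629, .ofNat 75, .negSucc 708, .ofNat 1067, .negSucc 1114⟩, .ofNat 590,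 .ofNat 412, .ofNat 0, .ofNat 412, .ofNat 1848, .ofNat 0, .ofNat 508, .negSucc 127, .negSucc 486, .ofNat 0, .ofNat 101, .ofNat 106, .ofNat 0, .ofNat 0, .ofNat 489, .ofNat 190, .ofNat 0, .ofNat 0, .ofNat 2811695292965902698991429638735003648, .ofNat 0, .ofNat 0, .ofNat 0, .ofNat 399740917143822285381354572018232590336, .ofNat 0, .ofNat 0, .ofNat 3650204461576205214308467085945497190400, .ofNat 58804453737955248009627299578755678208, .ofNat 0, .ofNat 0, .ofNat 48388262974802411635802156268444815720448, .ofNat 72969809313970811515205895939170500608, .ofNat 0⟩)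
    (by decide +kernel)
theorem L03218 : Good (Phi V5.P V5.D 1 (-1)) ⟨4, 8, 2, 1, 2, 3, 2, 3, 5, 2⟩ :=
  leafYS_sound T5.ok_pm T5.Ypm.bz_eq (w := 210) (c := ⟨⟨.negSucc 669, .negSucc 718, .negSucc 70, .negSucc 1035, .negSucc 1390, .negSucc 811⟩, ⟨.ofNat 118, .ofNat 1, .ofNat 377, .ofNat 128, .ofNat 410, .ofNat 144⟩, ⟨.ofNat 784, .ofNat 377, .ofNat 164, .ofNat 54, .ofNat 1638, .ofNat 530⟩, ⟨.negSucc 1345, .negSucc 1276, .negSucc 231, .negSucc 2506, .negSucc 2592, .negSucc 1837⟩, ⟨.ofNat 1449, .negSucc 264, .negSucc 901, .negSucc 1264, .ofNat 1594, .negSucc 590⟩, .ofNat 607, .ofNat 441, .ofNat 0, .ofNat 441, .ofNat 2105, .ofNat 0, .ofNat 364, .negSucc 127, .negSucc 248, .ofNat 0, .ofNat 97, .ofNat 55, .ofNat 0, .ofNat 0, .ofNat 304, .ofNat 147, .ofNat 0, .ofNat 0, .ofNat 513665304237605693707146715562246144, .ofNat 0, .ofNat 0, .ofNat 106904224902928741598700782225912686968832, .ofNat 10220219485255459277367235930478346240,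 .ofNat 0, .ofNat 0, .ofNat 56282399817840415356056143855343840002048, .ofNat 13784291452335086098905439626699210752, .ofNat 0, .ofNat 0, .ofNat 64320891262790901897108344032847162507264, .ofNat 3629733894150624391225378868054458368, .ofNat 0⟩)
    (by decide +kernel)
theorem L03219 : Good (Phi V5.P V5.D 1 (-1)) ⟨4, 8, 2, 1, 2, 3, 2, 3, 5, 3⟩ :=
  leafYS_sound T5.ok_pm T5.Ypm.bz_eq (w := 210) (c := ⟨⟨.negSucc 1576, .negSucc 723, .negSucc 116, .negSucc 931, .negSucc 1428, .negSucc 400⟩, ⟨.ofNat 261, .negSucc 37, .ofNat 499, .ofNat 128, .ofNat 366, .ofNat 68⟩, ⟨.ofNat 1389, .ofNat 412, .ofNat 248, .negSucc 108, .ofNat 1607, .ofNat 341⟩, ⟨.negSucc 3436, .negSucc 1137, .negSucc 294, .negSucc 2167, .negSucc 2843, .negSucc 886⟩, ⟨.ofNat 797, .negSucc 280, .negSucc 573, .negSucc 767, .ofNat 1110, .negSucc 80⟩, .ofNat 607, .ofNat 441, .ofNat 0, .ofNat 441, .ofNat 2105, .ofNat 0, .ofNat 276, .negSucc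 127, .negSucc 190, .ofNat 0, .ofNat 97, .ofNat 42, .ofNat 0, .ofNat 0, .ofNat 274, .ofNat 151, .ofNat 0, .ofNat 781938014874012348999132446741374173184, .ofNat 816665984662078986633406422810886144, .ofNat 0, .ofNat 0, .ofNat 89855415059060243949821385502370037760000, .ofNat 8638569894448434892788603760486121472, .ofNat 0, .ofNat 0, .ofNat 112336736742325004683197841285930452779008, .ofNat 11881591624022675969580310676440612864, .ofNat 0, .ofNat 0, .ofNat 65175971545129798084425815360804977901568, .ofNat 2438267949156876932899261672012644352, .ofNat 0⟩)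
    (by decide +kernel)
theorem L03220 : Good (Phi V5.P V5.D 1 (-1)) ⟨4, 9, 2, 1, 3, 6, 2, 3, 4, 1⟩ :=
  leafYS_sound T5.ok_pm T5.Ypm.bz_eq (w := 220) (c := ⟨⟨.negSucc 1139, .negSucc 956, .negSucc 107, .negSucc 685, .negSucc 2115, .negSucc 1293⟩, ⟨.ofNat 191, .negSucc 54, .ofNat 568, .ofNat 88, .ofNat 301, .ofNat 64⟩, ⟨.ofNat 1010, .ofNat 508, .ofNat 69, .ofNat 120, .ofNat 2276, .ofNat 953⟩, ⟨.negSucc 2510, .negSucc 1461, .ofNat 1, .negSucc 1292, .negSucc 4077, .negSucc 2634⟩, ⟨.ofNat 372, .ofNat 68, .negSucc 30, .ofNat 348, .ofNat 1056, .negSucc 500⟩, .ofNat 502, .ofNat 179, .ofNat 0, .ofNat 179, .ofNat 1833, .ofNat 0, .ofNat 450, .negSucc 47, .negSucc 556, .ofNat 0, .ofNat 128, .ofNat 66, .ofNat 0, .ofNat 0, .ofNat 672, .ofNat 288, .ofNat 0, .ofNat 0, .ofNat 732217648359049518472253680773366808576, .ofNat 0, .ofNat 0, .ofNat 0, .ofNat 25193290065535362635767409514486639362048, .ofNat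 0, .ofNat 0, .ofNat 0, .ofNat 25060100686364248084403345279177329737728, .ofNat 0, .ofNat 0, .ofNat 0, .ofNat 29323050021236645989736382262096271769600, .ofNat 0⟩)
    (by decide +kernel)
theorem L03221 : Good (Phi V5.P V5.D 1 (-1)) ⟨4, 9, 3, 2, 3, 7, 3, 6, 4, 1⟩ :=
  leafYS_sound T5.ok_pm T5.Ypm.bz_eq (w := 227) (c := ⟨⟨.negSucc 2243, .negSucc 820, .ofNat 81, .negSucc 774, .negSucc 675, .negSucc 738⟩, ⟨.ofNat 293, .negSucc 151, .ofNat 235, .negSucc 47, .ofNat 138, .ofNat 119⟩, ⟨.ofNat 1454, .ofNat 319, .ofNat 23, .negSucc 24, .ofNat 684, .ofNat 643⟩, ⟨.negSucc 4622, .negSucc 1107, .ofNat 127, .negSucc 1678, .negSucc 1304, .negSucc 1513⟩, ⟨.ofNat 583, .ofNat 10, .negSucc 312, .negSucc 1224, .ofNat 550, .ofNat 111⟩, .ofNat 525, .ofNat 216, .ofNat 0, .ofNat 216, .ofNat 2146, .ofNat 0, .ofNat 683, .negSucc 47, .negSucc 406, .ofNat 0, .ofNat 128, .ofNat 39, .ofNat 0, .ofNat 0, .ofNat 480,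 .ofNat 637, .ofNat 0, .ofNat 0, .ofNat 0, .ofNat 0, .ofNat 0, .ofNat 0, .ofNat 2060550084302370271127891235396620707168256, .ofNat 0, .ofNat 0, .ofNat 0, .ofNat 917519650657827092480106042939166137778176, .ofNat 0, .ofNat 0, .ofNat 0, .ofNat 962799988681413786440752709265980672442368, .ofNat 0⟩)
    (by decide +kernel)
theorem L03222 : Good (Phi V5.P V5.D 1 (-1)) ⟨4, 9, 3, 2, 3, 7, 3, 7, 4, 1⟩ :=
  leafYS_sound T5.ok_pm T5.Ypm.bz_eq (w := 227) (c := ⟨⟨.negSucc 2909, .negSucc 1383, .negSucc 364, .negSucc 781, .negSucc 1087, .negSucc 448⟩, ⟨.ofNat 415, .negSucc 172, .ofNat 360, .negSucc 21, .ofNat 212, .ofNat 107⟩, ⟨.ofNat 2292, .ofNat 573, .ofNat 267, .negSucc 274, .ofNat 997, .ofNat 512⟩, ⟨.negSucc 5941, .negSucc 2201, .negSucc 725, .negSucc 1665, .negSucc 2080, .negSucc 936⟩, ⟨.ofNat 1052, .negSucc 478, .negSucc 529, .negSucc 883, .ofNat 947, .ofNat 291⟩, .ofNat 502, .ofNat 179, .ofNat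 0, .ofNat 179, .ofNat 1838, .ofNat 0, .ofNat 769, .negSucc 38, .negSucc 346, .ofNat 0, .ofNat 128, .ofNat 28, .ofNat 0, .ofNat 0, .ofNat 412, .ofNat 298, .ofNat 0, .ofNat 178126975216945040031832666587187768113233920, .ofNat 45319934173529945088567232443147974868992, .ofNat 0, .ofNat 0, .ofNat 4956855075591746444297652000710261242878492672, .ofNat 2056533365566495969256697219959809929904128, .ofNat 0, .ofNat 0, .ofNat 0, .ofNat 0, .ofNat 0, .ofNat 0, .ofNat 5343064372955736343027377300733118491131904, .ofNat 729229242886401790275876861257342131372032, .ofNat 0⟩)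
    (by decide +kernel)
theorem L03223 : Good (Phi V5.P V5.D 1 (-1)) ⟨4, 9, 3, 3, 3, 7, 2, 3, 4, 1⟩ :=
  out_sound (S := T5.ds_pm) T5.ok_pm (w := 51) (j := 3) (by decide +kernel)
theorem L03224 : Good (Phi V5.P V5.D 1 (-1)) ⟨3, 5, 2, 1, 2, 3, 2, 3, 3, 0⟩ :=
  out_sound (S := T5.ds_pm) T5.ok_pm (w := 43) (j := 3) (by decide +kernel)
theorem L03225 : Good (Phi V5.P V5.D 1 (-1)) ⟨2, 3, 2, 1, 2, 3, 2, 3, 3, 0⟩ :=
  out_sound (S := T5.ds_pm) T5.ok_pm (w := 37) (j := 3) (by decide +kernel)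
theorem L03226 : Good (Phi V5.P V5.D 1 (-1)) ⟨3, 4, 2, 1, 2, 3, 2, 2, 4, 2⟩ :=
  leafYS_sound T5.ok_pm T5.Ypm.bz_eq (w := 201) (c := ⟨⟨.negSucc 2053, .negSucc 668, .negSucc 134, .negSucc 219, .negSucc 626, .ofNat 23⟩, ⟨.ofNat 340, .negSucc 155, .ofNat 443, .ofNat 72, .ofNat 53, .ofNat 41⟩, ⟨.ofNat 937, .ofNat 394, .ofNat 117, .ofNat 18, .ofNat 947, .ofNat 325⟩, ⟨.negSucc 4444, .negSucc 636, .negSucc 336, .negSucc 611, .negSucc 1368, .ofNat 106⟩, ⟨.ofNat 445, .ofNat 373, .negSucc 432, .negSucc 210, .negSucc 454, .ofNat 463⟩, .ofNat 511, .ofNat 234, .ofNat 0, .ofNat 234, .ofNat 1656, .ofNat 0, .ofNat 420, .negSucc 100, .negSucc 148, .ofNat 0, .ofNat 128, .ofNat 26, .ofNat 0, .ofNat 0, .ofNat 349, .ofNat 484, .ofNat 0, .ofNat 0, .ofNat 90963282908545476346847627887771648, .ofNat 0, .ofNat 0, .ofNat 0, .ofNat 8716060069381531352659898407311114240, .ofNat 0, .ofNat 0, .ofNat 0, .ofNat 3195675586502628232240441136842276864,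 .ofNat 0, .ofNat 0, .ofNat 0, .ofNat 987761529335434349015179763218644992, .ofNat 0⟩)
    (by decide +kernel)
theorem L03227 : Good (Phi V5.P V5.D 1 (-1)) ⟨3, 4, 2, 1, 2, 3, 3, 6, 4, 2⟩ :=
  leafYS_sound T5.ok_pm T5.Ypm.bz_eq (w := 205) (c := ⟨⟨.negSucc 2495, .negSucc 995, .negSucc 195, .negSucc 594, .negSucc 491, .ofNat 305⟩, ⟨.ofNat 394, .negSucc 215, .ofNat 543, .ofNat 120, .ofNat 115, .ofNat 16⟩, ⟨.ofNat 1916, .ofNat 553, .ofNat 340, .negSucc 127, .ofNat 642, .ofNat 181⟩, ⟨.negSucc 5490, .negSucc 1075, .negSucc 457, .negSucc 1326, .negSucc 970, .ofNat 602⟩, ⟨.ofNat 542, .negSucc 9, .negSucc 585, .negSucc 181, .ofNat 340, .ofNat 148⟩, .ofNat 560, .ofNat 321, .ofNat 0, .ofNat 321, .ofNat 2197, .ofNat 0, .ofNat 344, .negSucc 113, .negSucc 157, .ofNat 0, .ofNat 128, .ofNat 24, .ofNat 0, .ofNat 0, .ofNat 383, .ofNat 191, .ofNat 0, .ofNat 140375038278852598361748299334293651456, .ofNat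 1431415212628784115148410220602982400, .ofNat 0, .ofNat 0, .ofNat 0, .ofNat 87645080860064748130293203213366591488, .ofNat 0, .ofNat 0, .ofNat 2890215015261638059562526734173685678080, .ofNat 41939268528646829357498043556694065152, .ofNat 0, .ofNat 0, .ofNat 0, .ofNat 0, .ofNat 0⟩)
    (by decide +kernel)
theorem L03228 : Good (Phi V5.P V5.D 1 (-1)) ⟨3, 4, 2, 1, 2, 3, 3, 7, 4, 2⟩ :=
  leafYS_sound T5.ok_pm T5.Ypm.bz_eq (w := 206) (c := ⟨⟨.negSucc 2884, .negSucc 1340, .negSucc 266, .negSucc 697, .negSucc 912, .ofNat 257⟩, ⟨.ofNat 515, .negSucc 287, .ofNat 614, .ofNat 171, .ofNat 185, .negSucc 5⟩, ⟨.ofNat 2756, .ofNat 675, .ofNat 253, .negSucc 469, .ofNat 1009, .ofNat 156⟩, ⟨.negSucc 6372, .negSucc 1772, .negSucc 502, .negSucc 1336, .negSucc 1831, .ofNat 422⟩, ⟨.ofNat 737, .negSucc 478, .negSucc 380, .ofNat 616, .ofNat 55, .negSucc 386⟩, .ofNat 504, .ofNat 215, .ofNat 0, .ofNat 215, .ofNat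 1638, .ofNat 0, .ofNat 393, .negSucc 97, .negSucc 191, .ofNat 0, .ofNat 128, .ofNat 27, .ofNat 0, .ofNat 0, .ofNat 392, .ofNat 258, .ofNat 0, .ofNat 725203824966746458113053745417805627392, .ofNat 2886979106821015114837384255827345408, .ofNat 0, .ofNat 0, .ofNat 16448377055742278787180544413011504267264, .ofNat 67129452692108739683919087029723332608, .ofNat 0, .ofNat 0, .ofNat 11390253614222547236794816679002865926144, .ofNat 41043312857131994918662937622261792768, .ofNat 0, .ofNat 0, .ofNat 12297956731398682230193999770789548654592, .ofNat 16893081432176578207988777426171723776, .ofNat 0⟩)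
    (by decide +kernel)
theorem L03229 : Good (Phi V5.P V5.D 1 (-1)) ⟨3, 4, 2, 1, 2, 3, 2, 2, 5, 6⟩ :=
  leafYS_sound T5.ok_pm T5.Ypm.bz_eq (w := 206) (c := ⟨⟨.negSucc 2200, .negSucc 528, .negSucc 152, .negSucc 84, .negSucc 454, .ofNat 146⟩, ⟨.ofNat 362, .negSucc 177, .ofNat 460, .ofNat 122, .ofNat 32, .negSucc 20⟩, ⟨.ofNat 1264, .ofNat 317, .ofNat 167, .ofNat 62, .ofNat 872, .ofNat 125⟩, ⟨.negSucc 4858, .negSucc 404, .negSucc 193, .negSucc 54, .negSucc 976, .ofNat 283⟩, ⟨.ofNat 167, .ofNat 126, .ofNat 12, .ofNat 991, .negSucc 327, .negSucc 38⟩, .ofNat 462, .ofNat 166, .ofNat 0, .ofNat 166, .ofNat 1272, .ofNat 0, .ofNat 226, .negSucc 83, .negSucc 71, .ofNat 0, .ofNat 128, .ofNat 10, .ofNat 0, .ofNat 0, .ofNat 314, .ofNat 325, .ofNat 0, .ofNat 0, .ofNat 1753886842118166132399429487020736512, .ofNat 0, .ofNat 0, .ofNat 0, .ofNat 0, .ofNat 0, .ofNat 0, .ofNat 0, .ofNat 0, .ofNat 0, .ofNat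 0, .ofNat 9390917883415307270314142679857109139456, .ofNat 48694448070838757284893289453944045568, .ofNat 0⟩)
    (by decide +kernel)
theorem L03230 : Good (Phi V5.P V5.D 1 (-1)) ⟨3, 4, 2, 1, 3, 6, 2, 2, 5, 7⟩ :=
  leafYS_sound T5.ok_pm T5.Ypm.bz_eq (w := 221) (c := ⟨⟨.negSucc 2130, .negSucc 430, .negSucc 53, .negSucc 88, .negSucc 366, .ofNat 143⟩, ⟨.ofNat 345, .negSucc 176, .ofNat 437, .ofNat 68, .ofNat 8, .negSucc 27⟩, ⟨.ofNat 1387, .ofNat 279, .ofNat 107, .ofNat 33, .ofNat 896, .ofNat 65⟩, ⟨.negSucc 4718, .negSucc 241, .negSucc 36, .negSucc 107, .negSucc 789, .ofNat 284⟩, ⟨.ofNat 42, .ofNat 125, .ofNat 147, .ofNat 606, .negSucc 379, .negSucc 109⟩, .ofNat 332, .ofNat 56, .ofNat 0, .ofNat 56, .ofNat 637, .ofNat 0, .ofNat 303, .negSucc 49, .negSucc 80, .ofNat 0, .ofNat 128, .ofNat 8, .ofNat 0, .ofNat 0, .ofNat 454, .ofNat 1081, .ofNat 0, .ofNat 0, .ofNat 0, .ofNat 0, .ofNat 0, .ofNat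 0, .ofNat 0, .ofNat 0, .ofNat 0, .ofNat 0, .ofNat 1142688297850750248891026807126253033750528, .ofNat 0, .ofNat 0, .ofNat 125908224388142033749019031359052521773465600, .ofNat 1502434901334024342279422512187804118679552, .ofNat 0⟩)
    (by decide +kernel)
theorem L03231 : Good (Phi V5.P V5.D 1 (-1)) ⟨3, 4, 2, 1, 3, 7, 3, 4, 5, 7⟩ :=
  leafYS_sound T5.ok_pm T5.Ypm.bz_eq (w := 225) (c := ⟨⟨.negSucc 2220, .negSucc 363, .negSucc 146, .ofNat 49, .negSucc 185, .ofNat 154⟩, ⟨.ofNat 422, .negSucc 160, .ofNat 430, .ofNat 44, .ofNat 0, .negSucc 41⟩, ⟨.ofNat 1330, .ofNat 283, .ofNat 294, .ofNat 144, .ofNat 409, .ofNat 143⟩, ⟨.negSucc 4785, .negSucc 126, .negSucc 131, .ofNat 108, .negSucc 437, .ofNat 311⟩, ⟨.ofNat 761, .ofNat 199, .ofNat 11, .ofNat 367, .negSucc 315, .negSucc 64⟩, .ofNat 543, .ofNat 284, .ofNat 0, .ofNat 284, .ofNat 2024, .ofNat 0, .ofNat 265, .negSucc 83, .negSucc 31, .ofNat 0,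 .ofNat 128, .negSucc 8, .ofNat 0, .ofNat 0, .ofNat 500, .ofNat 1430, .ofNat 0, .ofNat 0, .ofNat 1849080557365599665082786030746732131778560, .ofNat 0, .ofNat 0, .ofNat 0, .ofNat 0, .ofNat 0, .ofNat 0, .ofNat 0, .ofNat 26292404571836486429712006018493891504766976, .ofNat 0, .ofNat 0, .ofNat 450203117572829643754801383891810045157965824, .ofNat 33765755400756448233149534750691717296422912, .ofNat 0⟩)
    (by decide +kernel)
theorem L03232 : Good (Phi V5.P V5.D 1 (-1)) ⟨3, 4, 2, 1, 3, 7, 3, 5, 5, 7⟩ :=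
  leafYS_sound T5.ok_pm T5.Ypm.bz_eq (w := 223) (c := ⟨⟨.negSucc 2404, .negSucc 408, .negSucc 110, .ofNat 12, .negSucc 221, .ofNat 220⟩, ⟨.ofNat 430, .negSucc 184, .ofNat 453, .ofNat 52, .ofNat 18, .negSucc 40⟩, ⟨.ofNat 1723, .ofNat 328, .ofNat 351, .ofNat 65, .ofNat 483, .ofNat 129⟩, ⟨.negSucc 5217, .negSucc 178, .negSucc 172, .ofNat 74, .negSucc 474, .ofNat 441⟩, ⟨.ofNat 674, .ofNat 30, .negSucc 357, .ofNat 455, .negSucc 156, .negSucc 95⟩, .ofNat 457, .ofNat 153, .ofNat 0, .ofNat 153, .ofNat 1272, .ofNat 0, .ofNat 219, .negSucc 70, .negSucc 9, .ofNat 0, .ofNat 128, .negSucc 11, .ofNat 0, .ofNat 0, .ofNat 303, .ofNat 191, .ofNat 0, .ofNat 0, .ofNat 601520298195100583548502113321295510765568, .ofNat 0, .ofNat 0, .ofNat 0, .ofNat 0, .ofNat 0, .ofNat 0, .ofNat 0, .ofNat 0, .ofNat 0, .ofNat 0, .ofNat 491908903698558017773079487853583100983377920, .ofNat 3548006609362709708186137018434203095662592,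 .ofNat 0⟩)
    (by decide +kernel)
theorem L03233 : Good (Phi V5.P V5.D 1 (-1)) ⟨3, 4, 2, 1, 2, 3, 3, 6, 5, 6⟩ :=
  leafYS_sound T5.ok_pm T5.Ypm.bz_eq (w := 210) (c := ⟨⟨.negSucc 2628, .negSucc 638, .negSucc 174, .negSucc 239, .negSucc 361, .ofNat 273⟩, ⟨.ofNat 425, .negSucc 234, .ofNat 510, .ofNat 145, .ofNat 42, .negSucc 50⟩, ⟨.ofNat 2228, .ofNat 411, .ofNat 338, .negSucc 184, .ofNat 625, .negSucc 4⟩, ⟨.negSucc 5858, .negSucc 456, .negSucc 340, .negSucc 388, .negSucc 704, .ofNat 563⟩, ⟨.ofNat 86, .ofNat 57, .negSucc 466, .ofNat 881, .negSucc 0, .negSucc 9⟩, .ofNat 541, .ofNat 283, .ofNat 0, .ofNat 283, .ofNat 1963, .ofNat 0, .ofNat 337, .negSucc 104, .negSucc 69, .ofNat 0, .ofNat 128, .ofNat 4, .ofNat 0, .ofNat 0, .ofNat 387, .ofNat 364, .ofNat 0, .ofNat 2653728182215720106419165369579740332032, .ofNat 56620339719915225931656646403534356480, .ofNat 0, .ofNat 0, .ofNat 0, .ofNat 0, .ofNat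 0, .ofNat 0, .ofNat 85812221561223123341830226249269506998272, .ofNat 1605287176517188201782721170527546769408, .ofNat 0, .ofNat 0, .ofNat 140212763484281584470929305267196691218432, .ofNat 546364119089142192789893692596265418752, .ofNat 0⟩)
    (by decide +kernel)
theorem L03234 : Good (Phi V5.P V5.D 1 (-1)) ⟨3, 4, 2, 1, 2, 3, 3, 6, 5, 7⟩ :=
  leafYS_sound T5.ok_pm T5.Ypm.bz_eq (w := 210) (c := ⟨⟨.negSucc 2438, .negSucc 582, .negSucc 83, .negSucc 254, .negSucc 334, .ofNat 192⟩, ⟨.ofNat 393, .negSucc 240, .ofNat 459, .ofNat 159, .ofNat 11, .negSucc 47⟩, ⟨.ofNat 2196, .ofNat 416, .ofNat 292, .ofNat 70, .ofNat 638, .ofNat 82⟩, ⟨.negSucc 5447, .negSucc 427, .negSucc 198, .negSucc 340, .negSucc 684, .ofNat 372⟩, ⟨.negSucc 182, .negSucc 46, .negSucc 98, .ofNat 1326, .negSucc 173, .negSucc 165⟩, .ofNat 333, .ofNat 59, .ofNat 0, .ofNat 59, .ofNat 635, .ofNat 0, .ofNat 265, .negSucc 53, .negSucc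 38, .ofNat 0, .ofNat 128, .negSucc 6, .ofNat 0, .ofNat 0, .ofNat 305, .ofNat 293, .ofNat 0, .ofNat 7783280709381827685317024082214019661824, .ofNat 0, .ofNat 0, .ofNat 0, .ofNat 127681483277658289915073572126847867551744, .ofNat 0, .ofNat 0, .ofNat 0, .ofNat 107515834714058660644992790158573169541120, .ofNat 0, .ofNat 0, .ofNat 0, .ofNat 188078566458027751378884103274777773342720, .ofNat 82579064382572221157729122294937157632, .ofNat 0⟩)
    (by decide +kernel)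
theorem L03235 : Good (Phi V5.P V5.D 1 (-1)) ⟨3, 4, 2, 1, 2, 3, 3, 7, 4, 3⟩ :=
  leafYS_sound T5.ok_pm T5.Ypm.bz_eq (w := 207) (c := ⟨⟨.negSucc 2853, .negSucc 946, .negSucc 130, .negSucc 682, .negSucc 745, .ofNat 347⟩, ⟨.ofNat 462, .negSucc 265, .ofNat 560, .ofNat 252, .ofNat 78, .negSucc 101⟩, ⟨.ofNat 2766, .ofNat 642, .ofNat 259, .ofNat 223, .ofNat 921, .ofNat 15⟩, ⟨.negSucc 6357, .negSucc 1023, .negSucc 341, .negSucc 1234, .negSucc 1472, .ofNat 686⟩, ⟨.negSucc 72, .negSucc 171, .negSucc 202, .ofNat 1395, .negSucc 202, .negSucc 526⟩, .ofNat 333, .ofNat 56, .ofNat 0, .ofNat 56, .ofNat 637, .ofNat 0, .ofNat 249, .negSucc 47, .negSucc 83, .ofNat 0, .ofNat 128, .ofNat 7, .ofNat 0, .ofNat 0, .ofNat 214, .ofNat 1213, .ofNat 0, .ofNat 6129574690798521231294357194827215405056, .ofNat 0, .ofNat 0, .ofNat 0, .ofNat 122484038139530544483838168172072303329280, .ofNat 18479660903237219610111756622272397312,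 .ofNat 0, .ofNat 0, .ofNat 38216877467363677901795811298646884876288, .ofNat 0, .ofNat 0, .ofNat 0, .ofNat 74583411239356811107560645605320699150336, .ofNat 13154650517738578488864607716333584384, .ofNat 0⟩)
    (by decide +kernel)
theorem L03236 : Good (Phi V5.P V5.D 1 (-1)) ⟨3, 5, 2, 1, 2, 3, 1, 1, 3, 1⟩ :=
  out_sound (S := T5.ds_pm) T5.ok_pm (w := 43) (j := 3) (by decide +kernel)
theorem L03237 : Good (Phi V5.P V5.D 1 (-1)) ⟨2, 3, 2, 1, 2, 3, 1, 1, 3, 1⟩ :=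
  out_sound (S := T5.ds_pm) T5.ok_pm (w := 37) (j := 3) (by decide +kernel)
theorem L03238 : Good (Phi V5.P V5.D 1 (-1)) ⟨3, 4, 2, 1, 2, 2, 2, 2, 4, 4⟩ :=
  leafYS_sound T5.ok_pm T5.Ypm.bz_eq (w := 201) (c := ⟨⟨.negSucc 1728, .negSucc 399, .negSucc 41, .negSucc 274, .negSucc 205, .ofNat 158⟩, ⟨.ofNat 254, .negSucc 167, .ofNat 350, .ofNat 74, .ofNat 3, .negSucc 44⟩, ⟨.ofNat 1411, .ofNat 247, .ofNat 87, .ofNat 124, .ofNat 707, .ofNat 152⟩, ⟨.negSucc 3898, .negSucc 200, .negSucc 142, .negSucc 545, .negSucc 452, .ofNat 304⟩, ⟨.negSucc 317, .ofNat 80, .ofNat 27, .ofNat 203, .negSucc 281, .negSucc 139⟩, .ofNat 467, .ofNat 176, .ofNat 0, .ofNat 176, .ofNat 1281, .ofNat 0, .ofNat 287, .negSucc 79, .negSucc 71, .ofNat 0, .ofNat 128, .ofNat 12, .ofNat 0, .ofNat 0, .ofNat 611, .ofNat 514, .ofNat 0, .ofNat 0, .ofNat 0, .ofNat 0, .ofNat 0, .ofNat 0, .ofNat 0, .ofNat 0, .ofNat 0, .ofNat 0, .ofNat 0,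 .ofNat 0, .ofNat 0, .ofNat 8349084692307547828875716153569668235264, .ofNat 1481532002397406047358590950058229760, .ofNat 0⟩)
    (by decide +kernel)
theorem L03239 : Good (Phi V5.P V5.D 1 (-1)) ⟨3, 4, 2, 1, 3, 6, 3, 4, 5, 8⟩ :=
  leafYS_sound T5.ok_pm T5.Ypm.bz_eq (w := 226) (c := ⟨⟨.negSucc 2061, .negSucc 379, .negSucc 39, .negSucc 40, .negSucc 130, .ofNat 152⟩, ⟨.ofNat 328, .negSucc 180, .ofNat 411, .ofNat 63, .negSucc 2, .negSucc 28⟩, ⟨.ofNat 1443, .ofNat 263, .ofNat 173, .ofNat 47, .ofNat 429, .ofNat 96⟩, ⟨.negSucc 4558, .negSucc 164, .negSucc 38, .ofNat 0, .negSucc 305, .ofNat 292⟩, ⟨.negSucc 2, .ofNat 58, .ofNat 100, .ofNat 578, .negSucc 215, .negSucc 111⟩, .ofNat 332, .ofNat 57, .ofNat 0, .ofNat 57, .ofNat 634, .ofNat 0, .ofNat 295, .negSucc 48, .negSucc 51, .ofNat 0, .ofNat 128, .negSucc 3, .ofNat 0, .ofNat 0, .ofNat 605, .ofNat 2976, .ofNat 0, .ofNat 0, .ofNat 0, .ofNat 0, .ofNat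 0, .ofNat 0, .ofNat 0, .ofNat 0, .ofNat 0, .ofNat 0, .ofNat 18157406626248006015633446600263130465435648, .ofNat 0, .ofNat 0, .ofNat 460371832610764745800134165557246104996675584, .ofNat 99342357737244142124946437801128227757883392, .ofNat 0⟩)
    (by decide +kernel)
theorem L03240 : Good (Phi V5.P V5.D 1 (-1)) ⟨3, 4, 2, 1, 3, 7, 3, 4, 5, 8⟩ :=
  leafYS_sound T5.ok_pm T5.Ypm.bz_eq (w := 224) (c := ⟨⟨.negSucc 2124, .negSucc 281, .negSucc 72, .ofNat 80, .negSucc 151, .ofNat 174⟩, ⟨.ofNat 375, .negSucc 134, .ofNat 420, .ofNat 52, .negSucc 3, .negSucc 37⟩, ⟨.ofNat 1478, .ofNat 208, .ofNat 203, .ofNat 200, .ofNat 427, .ofNat 147⟩, ⟨.negSucc 4585, .negSucc 28, .ofNat 9, .ofNat 238, .negSucc 356, .ofNat 335⟩, ⟨.ofNat 588, .ofNat 233, .ofNat 134, .ofNat 577, .negSucc 282, .negSucc 134⟩, .ofNat 466, .ofNat 172, .ofNat 0, .ofNat 172, .ofNat 1286, .ofNat 0, .ofNat 244, .negSucc 69, .negSucc 0, .ofNat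 0, .ofNat 128, .negSucc 17, .ofNat 0, .ofNat 0, .ofNat 462, .ofNat 594, .ofNat 0, .ofNat 0, .ofNat 1322451759500900287437604684888515580788736, .ofNat 0, .ofNat 0, .ofNat 0, .ofNat 0, .ofNat 0, .ofNat 0, .ofNat 0, .ofNat 31921231196094108710313194392159050132357120, .ofNat 0, .ofNat 0, .ofNat 1318878819757985358554430972214934763789615104, .ofNat 12814834328705604100079693734767387004108800, .ofNat 0⟩)
    (by decide +kernel)
theorem L03241 : Good (Phi V5.P V5.D 1 (-1)) ⟨3, 4, 2, 1, 3, 6, 3, 5, 5, 8⟩ :=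
  leafYS_sound T5.ok_pm T5.Ypm.bz_eq (w := 224) (c := ⟨⟨.negSucc 2158, .negSucc 440, .negSucc 62, .negSucc 40, .negSucc 186, .ofNat 171⟩, ⟨.ofNat 346, .negSucc 209, .ofNat 398, .ofNat 61, .negSucc 8, .negSucc 33⟩, ⟨.ofNat 1798, .ofNat 327, .ofNat 255, .ofNat 71, .ofNat 526, .ofNat 119⟩, ⟨.negSucc 4814, .negSucc 233, .negSucc 125, .negSucc 10, .negSucc 393, .ofNat 331⟩, ⟨.negSucc 152, .negSucc 3, .negSucc 14, .ofNat 570, .negSucc 202, .negSucc 121⟩, .ofNat 331, .ofNat 54, .ofNat 0, .ofNat 54, .ofNat 633, .ofNat 0, .ofNat 447, .negSucc 47, .negSucc 23, .ofNat 0, .ofNat 128, .negSucc 12, .ofNat 0, .ofNat 0, .ofNat 459, .ofNat 337, .ofNat 0, .ofNat 0, .ofNat 934048126538308216975622342794632543338496, .ofNat 0, .ofNat 0, .ofNat 0, .ofNat 0, .ofNat 0, .ofNat 0, .ofNat 429739404844800260799702022112452216784683008, .ofNat 5237766455558336712518491016277684249427968, .ofNat 0, .ofNat 0, .ofNat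 1179638080230296186570275947184030409082011648, .ofNat 6343380718574256097751422465285732031266816, .ofNat 0⟩)
    (by decide +kernel)
theorem L03242 : Good (Phi V5.P V5.D 1 (-1)) ⟨3, 4, 2, 1, 3, 7, 3, 5, 5, 8⟩ :=
  leafYS_sound T5.ok_pm T5.Ypm.bz_eq (w := 225) (c := ⟨⟨.negSucc 2241, .negSucc 382, .negSucc 51, .ofNat 61, .negSucc 147, .ofNat 216⟩, ⟨.ofNat 388, .negSucc 180, .ofNat 433, .ofNat 71, .ofNat 4, .negSucc 44⟩, ⟨.ofNat 1860, .ofNat 305, .ofNat 309, .ofNat 99, .ofNat 515, .ofNat 161⟩, ⟨.negSucc 4890, .negSucc 155, .negSucc 33, .ofNat 222, .negSucc 333, .ofNat 414⟩, ⟨.ofNat 436, .ofNat 37, .negSucc 44, .ofNat 726, .negSucc 183, .negSucc 142⟩, .ofNat 331, .ofNat 54, .ofNat 0, .ofNat 54, .ofNat 633, .ofNat 0, .ofNat 306, .negSucc 46, .negSucc 0, .ofNat 0, .ofNat 128, .negSucc 26, .ofNat 0, .ofNat 0, .ofNat 422, .ofNat 1206, .ofNat 0, .ofNat 98669155147163683922801832725334183624310784,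 .ofNat 0, .ofNat 0, .ofNat 0, .ofNat 1085449963569482181231194039238186362036289536, .ofNat 0, .ofNat 0, .ofNat 0, .ofNat 1606232937771390202828419277458052769743110144, .ofNat 907701742753226183846361451118411418435584, .ofNat 0, .ofNat 0, .ofNat 3325846437102861212793568076233638486778839040, .ofNat 5760504502211147730643241212376289476870144, .ofNat 0⟩)
    (by decide +kernel)
theorem L03243 : Good (Phi V5.P V5.D 1 (-1)) ⟨3, 4, 2, 1, 3, 6, 3, 4, 5, 9⟩ :=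
  leafYS_sound T5.ok_pm T5.Ypm.bz_eq (w := 224) (c := ⟨⟨.negSucc 1959, .negSucc 319, .negSucc 36, .ofNat 8, .negSucc 92, .ofNat 131⟩, ⟨.ofNat 316, .negSucc 177, .ofNat 361, .ofNat 50, .negSucc 5, .negSucc 39⟩, ⟨.ofNat 1497, .ofNat 233, .ofNat 224, .ofNat 113, .ofNat 444, .ofNat 149⟩, ⟨.negSucc 4354, .negSucc 79, .negSucc 37, .ofNat 99, .negSucc 227, .ofNat 260⟩, ⟨.negSucc 80, .ofNat 59, .ofNat 82, .ofNat 533, .negSucc 214, .negSucc 121⟩, .ofNat 335, .ofNat 63, .ofNat 0, .ofNat 63, .ofNat 636, .ofNat 0, .ofNat 275, .negSucc 48, .negSucc 3, .ofNat 0, .ofNat 128, .negSucc 13, .ofNat 0, .ofNat 0, .ofNat 472, .ofNat 632, .ofNat 0, .ofNat 0, .ofNat 954164966874760104901366721195693387546624, .ofNat 0, .ofNat 0, .ofNat 0, .ofNat 0, .ofNat 0, .ofNat 0, .ofNat 0, .ofNat 0, .ofNat 0, .ofNat 0, .ofNat 1193892802691779479436899193063648627720716288, .ofNat 11599666844826511827773140210708357654249472,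 .ofNat 0⟩)
    (by decide +kernel)
theorem L03244 : Good (Phi V5.P V5.D 1 (-1)) ⟨3, 4, 2, 1, 3, 7, 3, 4, 5, 9⟩ :=
  leafYS_sound T5.ok_pm T5.Ypm.bz_eq (w := 225) (c := ⟨⟨.negSucc 1963, .negSucc 291, .negSucc 61, .ofNat 84, .negSucc 109, .ofNat 171⟩, ⟨.ofNat 352, .negSucc 147, .ofNat 387, .ofNat 47, .negSucc 15, .negSucc 47⟩, ⟨.ofNat 1583, .ofNat 235, .ofNat 264, .ofNat 225, .ofNat 478, .ofNat 194⟩, ⟨.negSucc 4279, .negSucc 54, .ofNat 17, .ofNat 291, .negSucc 261, .ofNat 304⟩, ⟨.ofNat 470, .ofNat 126, .ofNat 110, .ofNat 702, .negSucc 275, .negSucc 173⟩, .ofNat 335, .ofNat 62, .ofNat 0, .ofNat 62, .ofNat 636, .ofNat 0, .ofNat 293, .negSucc 46, .ofNat 7, .ofNat 0, .ofNat 128, .negSucc 21, .ofNat 0, .ofNat 0, .ofNat 370, .ofNat 1183, .ofNat 0, .ofNat 58709593529572221276500583820356621116112896, .ofNat 1174350416497639332581504138227449572884480, .ofNat 0, .ofNat 0, .ofNat 0, .ofNat 0, .ofNat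 0, .ofNat 0, .ofNat 976768514582979146523535042501346650396557312, .ofNat 0, .ofNat 0, .ofNat 0, .ofNat 2748752210306557543716364433168954503030898688, .ofNat 3082869532157445980732271008130598034210816, .ofNat 0⟩)
    (by decide +kernel)
theorem L03245 : Good (Phi V5.P V5.D 1 (-1)) ⟨3, 4, 2, 1, 2, 3, 3, 5, 5, 9⟩ :=
  leafYS_sound T5.ok_pm T5.Ypm.bz_eq (w := 209) (c := ⟨⟨.negSucc 2027, .negSucc 388, .negSucc 20, .negSucc 101, .negSucc 139, .ofNat 143⟩, ⟨.ofNat 316, .negSucc 200, .ofNat 372, .ofNat 82, .negSucc 19, .negSucc 36⟩, ⟨.ofNat 1886, .ofNat 309, .ofNat 292, .ofNat 322, .ofNat 549, .ofNat 181⟩, ⟨.negSucc 4529, .negSucc 169, .negSucc 89, .negSucc 62, .negSucc 307, .ofNat 290⟩, ⟨.negSucc 213, .negSucc 25, .negSucc 14, .ofNat 795, .negSucc 273, .negSucc 123⟩, .ofNat 173, .ofNat 11, .ofNat 0, .ofNat 11, .ofNat 231, .ofNat 0, .ofNat 192, .negSucc 34, .negSucc 3, .ofNat 0, .ofNat 128,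 .negSucc 25, .ofNat 0, .ofNat 0, .ofNat 280, .ofNat 234, .ofNat 0, .ofNat 7049782172462460177697174233729321664512, .ofNat 14494020874986858778029914627535536128, .ofNat 0, .ofNat 0, .ofNat 96062866885441575225003706930798547435520, .ofNat 0, .ofNat 0, .ofNat 0, .ofNat 102222439416816623851955640123502872231936, .ofNat 0, .ofNat 0, .ofNat 0, .ofNat 254376262781117087947027896837677953056768, .ofNat 0, .ofNat 0⟩)
    (by decide +kernel)
theorem L03246 : Good (Phi V5.P V5.D 1 (-1)) ⟨3, 4, 2, 1, 3, 4, 2, 2, 4, 5⟩ :=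
  leafYS_sound T5.ok_pm T5.Ypm.bz_eq (w := 216) (c := ⟨⟨.negSucc 1675, .negSucc 304, .ofNat 26, .negSucc 90, .negSucc 170, .ofNat 150⟩, ⟨.ofNat 251, .negSucc 179, .ofNat 308, .ofNat 7, .ofNat 0, .negSucc 27⟩, ⟨.ofNat 1520, .ofNat 256, .ofNat 143, .ofNat 141, .ofNat 629, .ofNat 167⟩, ⟨.negSucc 3770, .negSucc 71, .negSucc 36, .negSucc 190, .negSucc 381, .ofNat 310⟩, ⟨.negSucc 321, .negSucc 12, .ofNat 0, .negSucc 49, .negSucc 255, .negSucc 42⟩, .ofNat 456, .ofNat 149, .ofNat 0, .ofNat 149, .ofNat 1267, .ofNat 0, .ofNat 363, .negSucc 65, .negSucc 69, .ofNat 0, .ofNat 128, .ofNat 4, .ofNat 0, .ofNat 0, .ofNat 1253, .ofNat 1756, .ofNat 0, .ofNat 0, .ofNat 0, .ofNat 0, .ofNat 0, .ofNat 0, .ofNat 0, .ofNat 0, .ofNat 0, .ofNat 0, .ofNat 167688070324880603420813752734488377425920, .ofNat 0, .ofNat 0, .ofNat 190130836514022507627746720753807614940282880, .ofNat 176898720861193259827525952311130582941696,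 .ofNat 0⟩)
    (by decide +kernel)
theorem L03247 : Good (Phi V5.P V5.D 1 (-1)) ⟨3, 4, 2, 1, 3, 5, 2, 2, 5, 10⟩ :=
  leafYS_sound T5.ok_pm T5.Ypm.bz_eq (w := 220) (c := ⟨⟨.negSucc 1758, .negSucc 337, .negSucc 3, .negSucc 64, .negSucc 184, .ofNat 105⟩, ⟨.ofNat 267, .negSucc 183, .ofNat 328, .ofNat 20, .negSucc 14, .negSucc 23⟩, ⟨.ofNat 1533, .ofNat 240, .ofNat 247, .ofNat 132, .ofNat 850, .ofNat 139⟩, ⟨.negSucc 3970, .negSucc 104, .negSucc 62, .negSucc 98, .negSucc 423, .ofNat 227⟩, ⟨.negSucc 338, .ofNat 7, .ofNat 10, .ofNat 157, .negSucc 369, .negSucc 31⟩, .ofNat 334, .ofNat 60, .ofNat 0, .ofNat 60, .ofNat 636, .ofNat 0, .ofNat 287, .negSucc 44, .negSucc 16, .ofNat 0, .ofNat 128, .negSucc 9, .ofNat 0, .ofNat 0, .ofNat 652, .ofNat 465, .ofNat 0, .ofNat 0, .ofNat 66761440389316711705556784768773196349440, .ofNat 0, .ofNat 0, .ofNat 0, .ofNat 0, .ofNat 0, .ofNat 0, .ofNat 139469273403639700062965615566805311749619712,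 .ofNat 889040086786290474536777929889828978032640, .ofNat 0, .ofNat 0, .ofNat 556352211260421877979270297280295103111364608, .ofNat 933503705430407481917597626685354009427968, .ofNat 0⟩)
    (by decide +kernel)
theorem L03248 : Good (Phi V5.P V5.D 1 (-1)) ⟨3, 4, 2, 1, 3, 5, 3, 4, 5, 11⟩ :=
  leafYS_sound T5.ok_pm T5.Ypm.bz_eq (w := 225) (c := ⟨⟨.negSucc 1683, .negSucc 312, .ofNat 1, .negSucc 35, .negSucc 68, .ofNat 95⟩, ⟨.ofNat 255, .negSucc 181, .ofNat 298, .ofNat 11, .negSucc 7, .negSucc 26⟩, ⟨.ofNat 1634, .ofNat 213, .ofNat 289, .ofNat 195, .ofNat 439, .ofNat 228⟩, ⟨.negSucc 3794, .negSucc 81, .negSucc 58, .negSucc 56, .negSucc 166, .ofNat 190⟩, ⟨.negSucc 343, .negSucc 3, .negSucc 13, .ofNat 86, .negSucc 176, .negSucc 70⟩, .ofNat 333, .ofNat 59, .ofNat 0, .ofNat 59, .ofNat 632, .ofNat 0, .ofNat 233, .negSucc 41, .negSucc 0, .ofNat 0, .ofNat 128, .negSucc 14, .ofNat 0, .ofNat 0, .ofNat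 820, .ofNat 1767, .ofNat 0, .ofNat 0, .ofNat 2483372491977081006490392517220612567990272, .ofNat 0, .ofNat 0, .ofNat 0, .ofNat 0, .ofNat 0, .ofNat 0, .ofNat 0, .ofNat 53478893577412779986903148837737983373213696, .ofNat 0, .ofNat 0, .ofNat 4742623298972647481251878045568877684875853824, .ofNat 38130767522059735268811013502347161028788224, .ofNat 0⟩)
    (by decide +kernel)
theorem L03249 : Good (Phi V5.P V5.D 1 (-1)) ⟨3, 4, 2, 1, 3, 5, 3, 5, 5, 11⟩ :=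
  leafYS_sound T5.ok_pm T5.Ypm.bz_eq (w := 225) (c := ⟨⟨.negSucc 1749, .negSucc 338, .ofNat 30, .negSucc 40, .negSucc 88, .ofNat 101⟩, ⟨.ofNat 255, .negSucc 192, .ofNat 302, .negSucc 8, .negSucc 23, .negSucc 26⟩, ⟨.ofNat 1955, .ofNat 313, .ofNat 431, .ofNat 387, .ofNat 548, .ofNat 262⟩, ⟨.negSucc 3953, .negSucc 115, .negSucc 53, .negSucc 83, .negSucc 210, .ofNat 201⟩, ⟨.negSucc 462, .negSucc 66, .negSucc 79, .negSucc 50, .negSucc 258, .negSucc 77⟩, .ofNat 334, .ofNat 61, .ofNat 0, .ofNat 61, .ofNat 636, .ofNat 0, .ofNat 184, .negSucc 43, .ofNat 3, .ofNat 0, .ofNat 128, .negSucc 18, .ofNat 0, .ofNat 0, .ofNat 657, .ofNat 1588, .ofNat 0, .ofNat 142403637903388196034095660569969883434975232, .ofNat 0, .ofNat 0, .ofNat 0, .ofNat 1620997342781483702382550769311759129122963456, .ofNat 0, .ofNat 0, .ofNat 0, .ofNat 1995446350348811872616712379097633203450544128, .ofNat 0, .ofNat 0, .ofNat 0,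 .ofNat 7354484277052229064459108308079873145039749120, .ofNat 0, .ofNat 0⟩)
    (by decide +kernel)
theorem L03250 : Good (Phi V5.P V5.D 1 (-1)) ⟨3, 4, 2, 1, 3, 6, 3, 4, 4, 5⟩ :=
  leafYS_sound T5.ok_pm T5.Ypm.bz_eq (w := 219) (c := ⟨⟨.negSucc 1837, .negSucc 311, .negSucc 11, .negSucc 1, .negSucc 81, .ofNat 257⟩, ⟨.ofNat 281, .negSucc 173, .ofNat 350, .ofNat 48, .negSucc 12, .negSucc 47⟩, ⟨.ofNat 1621, .ofNat 241, .ofNat 271, .ofNat 128, .ofNat 486, .ofNat 320⟩, ⟨.negSucc 4096, .negSucc 61, .negSucc 39, .ofNat 73, .negSucc 197, .ofNat 503⟩, ⟨.negSucc 154, .ofNat 36, .ofNat 50, .ofNat 423, .negSucc 224, .negSucc 168⟩, .ofNat 332, .ofNat 58, .ofNat 0, .ofNat 58, .ofNat 634, .ofNat 0, .ofNat 263, .negSucc 44, .ofNat 6, .ofNat 0, .ofNat 128, .negSucc 14, .ofNat 0, .ofNat 0, .ofNat 469, .ofNat 654, .ofNat 0, .ofNat 4798831557296405218173594913542619153825792, .ofNat 16042943633965889161839755973946349977600,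 .ofNat 0, .ofNat 0, .ofNat 0, .ofNat 0, .ofNat 0, .ofNat 0, .ofNat 102956536645969785962374982328807509154856960, .ofNat 0, .ofNat 0, .ofNat 0, .ofNat 345318653398163394813088082617584169701605376, .ofNat 0, .ofNat 0⟩)
    (by decide +kernel)
theorem L03251 : Good (Phi V5.P V5.D 1 (-1)) ⟨3, 4, 2, 1, 3, 6, 3, 5, 4, 5⟩ :=
  out_sound (S := T5.ds_pm) T5.ok_pm (w := 34) (j := 2) (by decide +kernel)
theorem L03252 : Good (Phi V5.P V5.D 1 (-1)) ⟨3, 4, 2, 1, 3, 7, 2, 2, 4, 5⟩ :=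
  out_sound (S := T5.ds_pm) T5.ok_pm (w := 32) (j := 2) (by decide +kernel)
theorem L03253 : Good (Phi V5.P V5.D 1 (-1)) ⟨3, 4, 2, 1, 2, 2, 3, 6, 4, 4⟩ :=
  leafYS_sound T5.ok_pm T5.Ypm.bz_eq (w := 204) (c := ⟨⟨.negSucc 1856, .negSucc 478, .ofNat 13, .negSucc 425, .negSucc 278, .ofNat 154⟩, ⟨.ofNat 281, .negSucc 226, .ofNat 366, .ofNat 64, .ofNat 14, .negSucc 39⟩, ⟨.ofNat 1787, .ofNat 450, .ofNat 256, .ofNat 560, .ofNat 426, .ofNat 116⟩, ⟨.negSucc 4220, .negSucc 295, .negSucc 109, .negSucc 874, .negSucc 589, .ofNat 289⟩, ⟨.negSucc 417, .negSucc 107, .negSucc 81, .negSucc 34, .negSucc 203, .negSucc 160⟩, .ofNat 464, .ofNat 169, .ofNat 0, .ofNat 169, .ofNat 1271, .ofNat 0, .ofNat 230, .negSucc 76, .negSucc 52, .ofNat 0, .ofNat 128, .ofNat 3, .ofNat 0, .ofNat 0, .ofNat 465, .ofNat 225, .ofNat 0, .ofNat 0, .ofNat 2207577251642775067151817407696207872, .ofNat 0, .ofNat 0, .ofNat 0, .ofNat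 0, .ofNat 0, .ofNat 0, .ofNat 0, .ofNat 87634596178121789727487553954702688256, .ofNat 0, .ofNat 0, .ofNat 30650306872430723819049663916647404011520, .ofNat 10699218053494508545050053418552393728, .ofNat 0⟩)
    (by decide +kernel)
theorem L03254 : Good (Phi V5.P V5.D 1 (-1)) ⟨3, 4, 2, 1, 2, 2, 3, 7, 4, 4⟩ :=
  leafYS_sound T5.ok_pm T5.Ypm.bz_eq (w := 207) (c := ⟨⟨.negSucc 2057, .negSucc 562, .ofNat 32, .negSucc 637, .negSucc 499, .ofNat 84⟩, ⟨.ofNat 294, .negSucc 239, .ofNat 386, .ofNat 48, .ofNat 15, .negSucc 22⟩, ⟨.ofNat 2163, .ofNat 510, .ofNat 184, .ofNat 896, .ofNat 501, .ofNat 42⟩, ⟨.negSucc 4675, .negSucc 434, .negSucc 90, .negSucc 1389, .negSucc 1053, .ofNat 161⟩, ⟨.negSucc 621, .negSucc 174, .negSucc 59, .negSucc 484, .negSucc 382, .negSucc 122⟩, .ofNat 331, .ofNat 54, .ofNat 0, .ofNat 54, .ofNat 636, .ofNat 0, .ofNat 287, .negSucc 37, .negSucc 78, .ofNat 0, .ofNat 128, .ofNat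 3, .ofNat 0, .ofNat 0, .ofNat 372, .ofNat 1507, .ofNat 0, .ofNat 5101740687664923425095710206168374706176, .ofNat 0, .ofNat 0, .ofNat 0, .ofNat 122967116268200432150064635324609549303808, .ofNat 44425570982090946027805980246811869184, .ofNat 0, .ofNat 0, .ofNat 53267140366751136106084970890367873318912, .ofNat 0, .ofNat 0, .ofNat 0, .ofNat 82135910717963636546402702114403020439552, .ofNat 5420720952296922664846627892415692800, .ofNat 0⟩)
    (by decide +kernel)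
theorem L03255 : Good (Phi V5.P V5.D 1 (-1)) ⟨3, 4, 2, 1, 3, 4, 3, 6, 4, 5⟩ :=
  leafYS_sound T5.ok_pm T5.Ypm.bz_eq (w := 220) (c := ⟨⟨.negSucc 1794, .negSucc 395, .ofNat 31, .negSucc 150, .negSucc 206, .ofNat 126⟩, ⟨.ofNat 262, .negSucc 207, .ofNat 322, .negSucc 6, .ofNat 1, .negSucc 27⟩, ⟨.ofNat 1938, .ofNat 367, .ofNat 305, .ofNat 383, .ofNat 312, .ofNat 189⟩, ⟨.negSucc 4066, .negSucc 195, .negSucc 67, .negSucc 322, .negSucc 449, .ofNat 254⟩, ⟨.negSucc 490, .negSucc 102, .negSucc 59, .negSucc 184, .negSucc 245, .negSucc 82⟩, .ofNat 334, .ofNat 60, .ofNat 0, .ofNat 60, .ofNat 636, .ofNat 0, .ofNat 258, .negSucc 40, .negSucc 34, .ofNat 0, .ofNat 128, .negSucc 9, .ofNat 0, .ofNat 0, .ofNat 578, .ofNat 738, .ofNat 0, .ofNat 5958297494348697523036479773526702023507968, .ofNat 0, .ofNat 0, .ofNat 0, .ofNat 0, .ofNat 0, .ofNat 0, .ofNat 0, .ofNat 128277135224817914827352929858997418205380608,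 .ofNat 0, .ofNat 0, .ofNat 0, .ofNat 380166499980326335835200509046075760714973184, .ofNat 64235944295595556201258572180821110685696, .ofNat 0⟩)
    (by decide +kernel)
theorem L03256 : Good (Phi V5.P V5.D 1 (-1)) ⟨3, 4, 2, 1, 3, 5, 3, 6, 4, 5⟩ :=
  leafYS_sound T5.ok_pm T5.Ypm.bz_eq (w := 221) (c := ⟨⟨.negSucc 1924, .negSucc 431, .ofNat 18, .ofNat 1, .negSucc 188, .ofNat 1⟩, ⟨.ofNat 270, .negSucc 224, .ofNat 341, .ofNat 0, .negSucc 37, .ofNat 0⟩, ⟨.ofNat 2268, .ofNat 395, .ofNat 347, .negSucc 0, .ofNat 514, .negSucc 0⟩, ⟨.negSucc 4371, .negSucc 229, .negSucc 101, .ofNat 2, .negSucc 397, .ofNat 2⟩, ⟨.negSucc 623, .negSucc 131, .negSucc 96, .ofNat 0, .negSucc 327, .ofNat 0⟩, .ofNat 173, .ofNat 10, .ofNat 0, .ofNat 10, .ofNat 231, .ofNat 0, .ofNat 128, .negSucc 23, .negSucc 14, .ofNat 0, .ofNat 131, .negSucc 12, .ofNat 0, .ofNat 0, .ofNat 189, .ofNat 2528, .ofNat 0, .ofNat 26184216940527657332291824915055234366046208,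 .ofNat 0, .ofNat 0, .ofNat 0, .ofNat 550894808765392859369563476316412871887028224, .ofNat 0, .ofNat 0, .ofNat 0, .ofNat 316080445964732515147255461917095096641126400, .ofNat 0, .ofNat 0, .ofNat 0, .ofNat 364472842740568058702772228260749841845452800, .ofNat 183173601327747978164523463979246557331456, .ofNat 0⟩)
    (by decide +kernel)
theorem L03257 : Good (Phi V5.P V5.D 1 (-1)) ⟨3, 4, 2, 1, 2, 2, 3, 7, 4, 5⟩ :=
  out_sound (S := T5.ds_pm) T5.ok_pm (w := 32) (j := 2) (by decide +kernel)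
theorem L03258 : Good (Phi V5.P V5.D 1 (-1)) ⟨3, 4, 2, 1, 2, 3, 2, 3, 3, 2⟩ :=
  leafYS_sound T5.ok_pm T5.Ypm.bz_eq (w := 196) (c := ⟨⟨.negSucc 2283, .negSucc 530, .negSucc 49, .negSucc 283, .negSucc 508, .ofNat 678⟩, ⟨.ofNat 355, .negSucc 238, .ofNat 419, .ofNat 115, .ofNat 8, .negSucc 190⟩, ⟨.ofNat 2270, .ofNat 410, .ofNat 296, .ofNat 277, .ofNat 1244, .ofNat 512⟩, ⟨.negSucc 5117, .negSucc 352, .negSucc 177, .negSucc 443, .negSucc 1110, .ofNat 1368⟩, ⟨.negSucc 289, .negSucc 102, .negSucc 86, .ofNat 876, .negSucc 571, .negSucc 634⟩, .ofNat 174, .ofNat 12, .ofNat 0, .ofNat 12, .ofNat 231, .ofNat 0, .ofNat 212, .negSucc 37, .negSucc 29, .ofNat 0, .ofNat 128, .negSucc 14, .ofNat 0, .ofNat 0, .ofNat 201, .ofNat 305, .ofNat 0, .ofNat 83114144050895112332016494179086499840, .ofNat 0, .ofNat 0, .ofNat 0, .ofNat 1221876987143170868735654169614101774336, .ofNat 0, .ofNat 0, .ofNat 0, .ofNat 796049815204501458522627940624088694784,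 .ofNat 0, .ofNat 0, .ofNat 0, .ofNat 1117418393315810337302746357311935086592, .ofNat 4714769114256228117671775335088128, .ofNat 0⟩)
    (by decide +kernel)
theorem L03259 : Good (Phi V5.P V5.D 1 (-1)) ⟨3, 5, 2, 1, 1, 1, 1, 1, 3, 2⟩ :=
  out_sound (S := T5.ds_pm) T5.ok_pm (w := 43) (j := 3) (by decide +kernel)
theorem L03260 : Good (Phi V5.P V5.D 1 (-1)) ⟨4, 8, 2, 1, 3, 4, 3, 4, 4, 6⟩ :=
  leafYS_sound T5.ok_pm T5.Ypm.bz_eq (w := 225) (c := ⟨⟨.negSucc 1575, .negSucc 138, .ofNat 16, .negSucc 12, .negSucc 45, .ofNat 139⟩, ⟨.ofNat 229, .negSucc 68, .ofNat 275, .negSucc 6, .negSucc 1, .negSucc 35⟩, ⟨.ofNat 1551, .ofNat 90, .ofNat 280, .ofNat 413, .ofNat 364, .ofNat 548⟩, ⟨.negSucc 3531, .negSucc 38, .negSucc 46, .negSucc 46, .negSucc 120, .ofNat 270⟩, ⟨.negSucc 332, .negSucc 3, .negSucc 39, .negSucc 84, .negSucc 114, .negSucc 78⟩, .ofNat 591, .ofNat 403, .ofNat 0, .ofNat 403, .ofNat 2116,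 .ofNat 0, .ofNat 297, .negSucc 108, .negSucc 8, .ofNat 0, .ofNat 128, .negSucc 12, .ofNat 0, .ofNat 0, .ofNat 2273, .ofNat 3796, .ofNat 0, .ofNat 0, .ofNat 24754595955747346936380887645350256443392, .ofNat 0, .ofNat 0, .ofNat 0, .ofNat 0, .ofNat 0, .ofNat 0, .ofNat 4381057366909861760390949676909315393843101696, .ofNat 746172573647932333963684608190078752129024, .ofNat 0, .ofNat 0, .ofNat 56636339385431134251119309250000516255106203648, .ofNat 985670257932423760756290559829344541212672, .ofNat 0⟩)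
    (by decide +kernel)
theorem L03261 : Good (Phi V5.P V5.D 1 (-1)) ⟨4, 8, 2, 1, 3, 4, 3, 5, 5, 12⟩ :=
  leafYS_sound T5.ok_pm T5.Ypm.bz_eq (w := 230) (c := ⟨⟨.negSucc 1618, .negSucc 149, .ofNat 26, .negSucc 34, .negSucc 83, .ofNat 69⟩, ⟨.ofNat 230, .negSucc 77, .ofNat 279, .negSucc 5, .ofNat 4, .negSucc 18⟩, ⟨.ofNat 1808, .ofNat 152, .ofNat 404, .ofNat 488, .ofNat 334, .ofNat 246⟩, ⟨.negSucc 3645, .negSucc 51, .negSucc 50, .negSucc 104, .negSucc 215, .ofNat 138⟩, ⟨.negSucc 410, .negSucc 32, .negSucc 69, .negSucc 158, .negSucc 167, .negSucc 42⟩, .ofNat 482, .ofNat 206, .ofNat 0, .ofNat 206, .ofNat 1332, .ofNat 0, .ofNat 461, .negSucc 81, .negSucc 4, .ofNat 0, .ofNat 128, .negSucc 27, .ofNat 0, .ofNat 0, .ofNat 2094, .ofNat 3349, .ofNat 0, .ofNat 1563003636374609975708899591571563650595422208, .ofNat 0, .ofNat 0, .ofNat 0, .ofNat 0, .ofNat 0, .ofNat 0, .ofNat 0, .ofNat 43281749749065511551216245786329101435530117120,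 .ofNat 16801142105890960904188841077135261460070400, .ofNat 0, .ofNat 0, .ofNat 540112096861177018714087312942642407206826278912, .ofNat 0, .ofNat 0⟩)
    (by decide +kernel)
theorem L03262 : Good (Phi V5.P V5.D 1 (-1)) ⟨4, 8, 2, 1, 3, 4, 3, 5, 5, 13⟩ :=
  leafYS_sound T5.ok_pm T5.Ypm.bz_eq (w := 230) (c := ⟨⟨.negSucc 1571, .negSucc 139, .ofNat 44, .ofNat 1, .negSucc 69, .ofNat 70⟩, ⟨.ofNat 220, .negSucc 74, .ofNat 264, .negSucc 19, .negSucc 1, .negSucc 18⟩, ⟨.ofNat 1871, .ofNat 166, .ofNat 619, .ofNat 773, .ofNat 409, .ofNat 362⟩, ⟨.negSucc 3538, .negSucc 41, .negSucc 29, .negSucc 41, .negSucc 181, .ofNat 138⟩, ⟨.negSucc 436, .negSucc 33, .negSucc 100, .negSucc 201, .negSucc 156, .negSucc 47⟩, .ofNat 583, .ofNat 383, .ofNat 0, .ofNat 383, .ofNat 2135, .ofNat 0, .ofNat 380, .negSucc 104, .ofNat 24, .ofNat 0, .ofNat 128, .negSucc 26, .ofNat 0, .ofNat 0, .ofNat 1997, .ofNat 3382, .ofNat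 0, .ofNat 3022737409839808638717787383470903680615579648, .ofNat 470520376689867071134379353946678747987968, .ofNat 0, .ofNat 0, .ofNat 0, .ofNat 0, .ofNat 0, .ofNat 0, .ofNat 70767400354888674681211959943352363309158367232, .ofNat 36355039948439461561578944298523655061635072, .ofNat 0, .ofNat 0, .ofNat 686515801626768033635521454219057297632316620800, .ofNat 3198689147690811140549487053549311327469568, .ofNat 0⟩)
    (by decide +kernel)
theorem L03263 : Good (Phi V5.P V5.D 1 (-1)) ⟨4, 8, 2, 1, 3, 5, 3, 4, 4, 6⟩ :=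
  leafYS_sound T5.ok_pm T5.Ypm.bz_eq (w := 225) (c := ⟨⟨.negSucc 1619, .negSucc 132, .ofNat 27, .negSucc 9, .negSucc 37, .ofNat 181⟩, ⟨.ofNat 231, .negSucc 71, .ofNat 276, .ofNat 6, .negSucc 1, .negSucc 52⟩, ⟨.ofNat 1760, .ofNat 111, .ofNat 423, .ofNat 295, .ofNat 475, .ofNat 699⟩, ⟨.negSucc 3635, .negSucc 25, .negSucc 32, .negSucc 18, .negSucc 119, .ofNat 360⟩, ⟨.negSucc 378, .negSucc 8, .negSucc 49, .ofNat 15, .negSucc 164, .negSucc 114⟩, .ofNat 485, .ofNat 214, .ofNat 0, .ofNat 214, .ofNat 1333, .ofNat 0, .ofNat 305, .negSucc 83, .ofNat 27, .ofNat 0, .ofNat 128, .negSucc 21, .ofNat 0, .ofNat 0, .ofNat 1455, .ofNat 2919, .ofNat 0, .ofNat 315171954154659594136099490743483053606174720, .ofNat 12019563123484563674528199889050029522944, .ofNat 0, .ofNat 0, .ofNat 9323023228642314077336966633381150951835959296, .ofNat 0, .ofNat 0, .ofNat 0, .ofNat 8250315468777602666250966436305879640431394816,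 .ofNat 0, .ofNat 0, .ofNat 0, .ofNat 56827925041532138912079312598439476730263502848, .ofNat 0, .ofNat 0⟩)
    (by decide +kernel)
theorem L03264 : Good (Phi V5.P V5.D 1 (-1)) ⟨4, 8, 2, 1, 3, 5, 3, 5, 4, 6⟩ :=
  out_sound (S := T5.ds_pm) T5.ok_pm (w := 34) (j := 2) (by decide +kernel)
theorem L03265 : Good (Phi V5.P V5.D 1 (-1)) ⟨4, 9, 3, 2, 3, 4, 2, 2, 4, 6⟩ :=
  leafYS_sound T5.ok_pm T5.Ypm.bz_eq (w := 224) (c := ⟨⟨.negSucc 1709, .negSucc 156, .ofNat 11, .negSucc 30, .negSucc 151, .ofNat 150⟩, ⟨.ofNat 157, .negSucc 97, .ofNat 134, .negSucc 4, .negSucc 15, .negSucc 25⟩, ⟨.ofNat 1698, .ofNat 101, .ofNat 227, .ofNat 253, .ofNat 674, .ofNat 440⟩, ⟨.negSucc 3569, .negSucc 41, .negSucc 22, .negSucc 66, .negSucc 333, .ofNat 290⟩, ⟨.negSucc 342, .negSucc 4, .negSucc 33, .negSucc 71, .negSucc 283, .negSucc 67⟩, .ofNat 526, .ofNat 219, .ofNat 0, .ofNat 219, .ofNat 2157, .ofNat 0, .ofNat 333,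 .negSucc 61, .negSucc 3, .ofNat 0, .ofNat 128, .negSucc 19, .ofNat 0, .ofNat 0, .ofNat 2260, .ofNat 2734, .ofNat 0, .ofNat 0, .ofNat 5049800451920525184540716867421760126976, .ofNat 0, .ofNat 0, .ofNat 12193122601845992051234259212739031688709931008, .ofNat 0, .ofNat 0, .ofNat 0, .ofNat 6931584120058648462573475120480802293264941056, .ofNat 219388437746845326663907998565418292740096, .ofNat 0, .ofNat 0, .ofNat 115389748580032956938487747211074124736375029760, .ofNat 193272938003607111236668150467583564316672, .ofNat 0⟩)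
    (by decide +kernel)
theorem L03266 : Good (Phi V5.P V5.D 1 (-1)) ⟨4, 9, 3, 3, 3, 4, 2, 2, 4, 6⟩ :=
  out_sound (S := T5.ds_pm) T5.ok_pm (w := 51) (j := 3) (by decide +kernel)
theorem L03267 : Good (Phi V5.P V5.D 1 (-1)) ⟨4, 9, 3, 2, 3, 5, 2, 2, 4, 6⟩ :=
  leafYS_sound T5.ok_pm T5.Ypm.bz_eq (w := 224) (c := ⟨⟨.negSucc 1752, .negSucc 150, .ofNat 9, .negSucc 9, .negSucc 128, .ofNat 186⟩, ⟨.ofNat 157, .negSucc 102, .ofNat 139, .ofNat 3, .negSucc 25, .negSucc 36⟩, ⟨.ofNat 1890, .ofNat 132, .ofNat 205, .ofNat 260, .ofNat 957, .ofNat 555⟩, ⟨.negSucc 3665, .negSucc 26, .negSucc 17, .negSucc 16, .negSucc 297, .ofNat 365⟩, ⟨.negSucc 388, .negSucc 11, .negSucc 14, .ofNat 21, .negSucc 379, .negSucc 112⟩, .ofNat 324, .ofNat 41, .ofNat 0, .ofNat 41, .ofNat 623, .ofNat 0, .ofNat 222, .negSucc 30, .ofNat 15, .ofNat 0, .ofNat 128, .negSucc 24, .ofNat 0, .ofNat 0, .ofNat 1173, .ofNat 2041, .ofNat 0,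 .ofNat 535457376083639990488218956049055963160772608, .ofNat 1302950486946558560939016516839114014720, .ofNat 0, .ofNat 0, .ofNat 13678379462707622277010011874939688615287980032, .ofNat 0, .ofNat 0, .ofNat 0, .ofNat 11073988640820340535678241530364918024934260736, .ofNat 0, .ofNat 0, .ofNat 0, .ofNat 77578151355249377846240203553106457550481522688, .ofNat 0, .ofNat 0⟩)
    (by decide +kernel)
theorem L03268 : Good (Phi V5.P V5.D 1 (-1)) ⟨4, 9, 3, 3, 3, 5, 2, 2, 4, 6⟩ :=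
  out_sound (S := T5.ds_pm) T5.ok_pm (w := 51) (j := 3) (by decide +kernel)
theorem L03269 : Good (Phi V5.P V5.D 1 (-1)) ⟨3, 5, 2, 1, 2, 2, 2, 2, 4, 6⟩ :=
  out_sound (S := T5.ds_pm) T5.ok_pm (w := 43) (j := 3) (by decide +kernel)
theorem L03270 : Good (Phi V5.P V5.D 1 (-1)) ⟨3, 4, 2, 1, 4, 8, 3, 4, 5, 14⟩ :=
  leafYS_sound T5.ok_pm T5.Ypm.bz_eq (w := 242) (c := ⟨⟨.negSucc 1466, .negSucc 281, .ofNat 52, .ofNat 18, .negSucc 40, .ofNat 85⟩, ⟨.ofNat 222, .negSucc 160, .ofNat 244, .negSucc 15, .negSucc 11, .negSucc 34⟩, ⟨.ofNat 1599, .ofNat 193, .ofNat 816, .ofNat 526, .ofNat 571, .ofNat 700⟩, ⟨.negSucc 3291, .negSucc 68, .negSucc 4, .ofNat 7, .negSucc 124, .ofNat 155⟩, ⟨.negSucc 301, .negSucc 24, .negSucc 112, .negSucc 125, .negSucc 187, .negSucc 103⟩, .ofNat 463, .ofNat 165, .ofNat 0, .ofNat 165, .ofNat 1276, .ofNat 0, .ofNat 185, .negSucc 66, .ofNat 52, .ofNat 0, .ofNat 128, .negSucc 50,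 .ofNat 0, .ofNat 0, .ofNat 2997, .ofNat 14472, .ofNat 0, .ofNat 0, .ofNat 0, .ofNat 0, .ofNat 749374395350686964945007917752164811162025495363584, .ofNat 11306461261279425243955858788487903248404837302272, .ofNat 1410372225704141867817076924117338695142398230528, .ofNat 0, .ofNat 806804861053202375143274382617154906131315566837760, .ofNat 15098633078806021170492452634565823455145635086336, .ofNat 1522424884202445580363341372007959357909207351296, .ofNat 0, .ofNat 13372062757447638807261667936534080191427031399923712, .ofNat 340125813071512247399220488802289990378203398537216, .ofNat 4318893936010732393717117380041016005037226196992, .ofNat 0⟩)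
    (by decide +kernel)
theorem L03271 : Good (Phi V5.P V5.D 1 (-1)) ⟨3, 4, 2, 1, 4, 9, 3, 4, 5, 14⟩ :=
  leafYS_sound T5.ok_pm T5.Ypm.bz_eq (w := 241) (c := ⟨⟨.negSucc 1468, .negSucc 261, .ofNat 62, .ofNat 24, .negSucc 18, .ofNat 84⟩, ⟨.ofNat 209, .negSucc 157, .ofNat 243, .negSucc 16, .negSucc 21, .negSucc 16⟩, ⟨.ofNat 2021, .ofNat 237, .ofNat 858, .ofNat 481, .ofNat 721, .ofNat 531⟩, ⟨.negSucc 3315, .negSucc 52, .ofNat 9, .ofNat 37, .negSucc 78, .ofNat 175⟩, ⟨.negSucc 399, .negSucc 40, .negSucc 118, .negSucc 114, .negSucc 229, .negSucc 76⟩, .ofNat 174, .ofNat 12, .ofNat 0, .ofNat 12, .ofNat 232, .ofNat 0, .ofNat 128, .negSucc 30, .ofNat 50, .ofNat 0, .ofNat 205, .negSucc 76, .ofNat 0, .ofNat 0, .ofNat 1273, .ofNat 6415, .ofNat 4511204659046632391704469590835709331579550564352, .ofNat 1153065026078420992138387560367917322055364640768, .ofNat 0, .ofNat 0, .ofNat 342526536228731944233770972350311659229805442760704,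 .ofNat 12313658705994318278663266200379403854321532534784, .ofNat 0, .ofNat 0, .ofNat 311837597868828411431738568388587676392237335314432, .ofNat 24832622867630494715562571964917620105002698670080, .ofNat 0, .ofNat 0, .ofNat 3666261432973181898082788108711936797847350373515264, .ofNat 147823979552131567655817543169435031336089754271744, .ofNat 655293493937309520783458797302181088099670425600, .ofNat 0⟩)
    (by decide +kernel)
theorem L03272 : Good (Phi V5.P V5.D 1 (-1)) ⟨3, 4, 2, 1, 4, 8, 3, 5, 5, 14⟩ :=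
  leafYS_sound T5.ok_pm T5.Ypm.bz_eq (w := 242) (c := ⟨⟨.negSucc 1503, .negSucc 289, .ofNat 67, .negSucc 1, .negSucc 83, .ofNat 70⟩, ⟨.ofNat 219, .negSucc 168, .ofNat 234, .negSucc 27, .negSucc 24, .negSucc 32⟩, ⟨.ofNat 2078, .ofNat 317, .ofNat 1072, .ofNat 466, .ofNat 408, .ofNat 571⟩, ⟨.negSucc 3415, .negSucc 85, .ofNat 7, .negSucc 3, .negSucc 178, .ofNat 143⟩, ⟨.negSucc 457, .negSucc 69, .negSucc 172, .negSucc 139, .negSucc 191, .negSucc 97⟩, .ofNat 334, .ofNat 60, .ofNat 0, .ofNat 60, .ofNat 636, .ofNat 0, .ofNat 183, .negSucc 37, .ofNat 39, .ofNat 0, .ofNat 128, .negSucc 65, .ofNat 0, .ofNat 0, .ofNat 2130, .ofNat 7306, .ofNat 0, .ofNat 2083832067250783402229889672717021639684437049344, .ofNat 0, .ofNat 0, .ofNat 0, .ofNat 23680761134136974746163259652914931659380635992064, .ofNat 0, .ofNat 0, .ofNat 0, .ofNat 27321050740723884611884994138249409115963753758720, .ofNat 0, .ofNat 0,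 .ofNat 0, .ofNat 271137175424660516405181997863914951780178480594944, .ofNat 5540546308458716099513451239416444116346685358080, .ofNat 0⟩)
    (by decide +kernel)
theorem L03273 : Good (Phi V5.P V5.D 1 (-1)) ⟨3, 4, 2, 1, 4, 9, 3, 5, 5, 14⟩ :=
  out_sound (S := T5.ds_pm) T5.ok_pm (w := 38) (j := 2) (by decide +kernel)
theorem L03274 : Good (Phi V5.P V5.D 1 (-1)) ⟨3, 5, 2, 1, 3, 4, 2, 2, 5, 14⟩ :=
  out_sound (S := T5.ds_pm) T5.ok_pm (w := 43) (j := 3) (by decide +kernel)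
theorem L03275 : Good (Phi V5.P V5.D 1 (-1)) ⟨3, 4, 2, 1, 4, 8, 4, 8, 5, 15⟩ :=
  out_sound (S := T5.ds_pm) T5.ok_pm (w := 32) (j := 1) (by decide +kernel)
theorem L03276 : Good (Phi V5.P V5.D 1 (-1)) ⟨3, 4, 2, 1, 5, 16, 4, 9, 6, 30⟩ :=
  out_sound (S := T5.ds_pm) T5.ok_pm (w := 36) (j := 1) (by decide +kernel)
theorem L03277 : Good (Phi V5.P V5.D 1 (-1)) ⟨3, 4, 2, 1, 5, 17, 4, 9, 6, 30⟩ :=
  out_sound (S := T5.ds_pm) T5.ok_pm (w := 44) (j := 2) (by decide +kernel)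
theorem L03278 : Good (Phi V5.P V5.D 1 (-1)) ⟨3, 4, 2, 1, 4, 8, 4, 9, 6, 31⟩ :=
  out_sound (S := T5.ds_pm) T5.ok_pm (w := 34) (j := 1) (by decide +kernel)
theorem L03279 : Good (Phi V5.P V5.D 1 (-1)) ⟨3, 4, 2, 1, 4, 8, 3, 5, 5, 15⟩ :=
  out_sound (S := T5.ds_pm) T5.ok_pm (w := 38) (j := 2) (by decide +kernel)
theorem L03280 : Good (Phi V5.P V5.D 1 (-1)) ⟨3, 4, 2, 1, 4, 9, 2, 2, 5, 15⟩ :=
  out_sound (S := T5.ds_pm) T5.ok_pm (w := 36) (j := 2) (by decide +kernel)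
theorem L03281 : Good (Phi V5.P V5.D 1 (-1)) ⟨3, 5, 2, 1, 3, 4, 2, 2, 5, 15⟩ :=
  out_sound (S := T5.ds_pm) T5.ok_pm (w := 43) (j := 3) (by decide +kernel)
theorem L03282 : Good (Phi V5.P V5.D 1 (-1)) ⟨2, 2, 2, 1, 3, 5, 2, 2, 4, 7⟩ :=
  out_sound (S := T5.ds_pm) T5.ok_pm (w := 32) (j := 2) (by decide +kernel)
theorem L03283 : Good (Phi V5.P V5.D 1 (-1)) ⟨2, 2, 2, 1, 2, 2, 2, 3, 3, 3⟩ :=
  leafYS_sound T5.ok_pm T5.Ypm.bz_eq (w := 193) (c := ⟨⟨.negSucc 1701, .negSucc 716, .ofNat 35, .negSucc 129, .negSucc 280, .ofNat 253⟩, ⟨.ofNat 237, .negSucc 397, .ofNat 289, .negSucc 20, .ofNat 27, .negSucc 57⟩, ⟨.ofNat 2058, .ofNat 793, .ofNat 485, .ofNat 1273, .ofNat 675, .ofNat 724⟩, ⟨.negSucc 3856, .negSucc 326, .negSucc 51, .negSucc 395, .negSucc 715, .ofNat 492⟩, ⟨.negSucc 541, .negSucc 239, .negSucc 96, .negSucc 599, .negSucc 502, .negSucc 214⟩, .ofNat 174, .ofNat 13, .ofNat 0, .ofNat 13, .ofNat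 232, .ofNat 0, .ofNat 207, .negSucc 19, .negSucc 22, .ofNat 0, .ofNat 128, .negSucc 42, .ofNat 0, .ofNat 0, .ofNat 579, .ofNat 767, .ofNat 0, .ofNat 18185985532831427999588025731098083328, .ofNat 13133438972390010250909519060140032, .ofNat 0, .ofNat 0, .ofNat 245229954471356792958638807269001658368, .ofNat 0, .ofNat 0, .ofNat 0, .ofNat 171469134126510237212622589705431547904, .ofNat 179286730286782249212344262039961600, .ofNat 0, .ofNat 0, .ofNat 650065860545405999710849977340930293760, .ofNat 95496837537776581710924766680973312, .ofNat 0⟩)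
    (by decide +kernel)
theorem L03284 : Good (Phi V5.P V5.D 1 (-1)) ⟨2, 2, 2, 1, 2, 3, 1, 1, 3, 3⟩ :=
  out_sound (S := T5.ds_pm) T5.ok_pm (w := 26) (j := 2) (by decide +kernel)
theorem L03285 : Good (Phi V5.P V5.D 1 (-1)) ⟨2, 3, 2, 1, 1, 1, 1, 1, 2, 1⟩ :=
  out_sound (S := T5.ds_pm) T5.ok_pm (w := 37) (j := 3) (by decide +kernel)
theorem L03286 : Good (Phi V5.P V5.D 1 (-1)) ⟨2, 2, 2, 1, 4, 8, 3, 4, 4, 8⟩ :=
  out_sound (S := T5.ds_pm) T5.ok_pm (w := 29) (j := 1) (by decide +kernel)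
theorem L03287 : Good (Phi V5.P V5.D 1 (-1)) ⟨2, 2, 2, 1, 4, 8, 3, 5, 4, 8⟩ :=
  out_sound (S := T5.ds_pm) T5.ok_pm (w := 36) (j := 2) (by decide +kernel)
theorem L03288 : Good (Phi V5.P V5.D 1 (-1)) ⟨2, 2, 2, 1, 4, 8, 2, 2, 4, 9⟩ :=
  out_sound (S := T5.ds_pm) T5.ok_pm (w := 28) (j := 1) (by decide +kernel)
theorem L03289 : Good (Phi V5.P V5.D 1 (-1)) ⟨2, 2, 2, 1, 4, 9, 2, 2, 3, 4⟩ :=
  out_sound (S := T5.ds_pm) T5.ok_pm (w := 32) (j := 2) (by decide +kernel)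
theorem L03290 : Good (Phi V5.P V5.D 1 (-1)) ⟨2, 3, 2, 1, 3, 4, 2, 2, 3, 4⟩ :=
  out_sound (S := T5.ds_pm) T5.ok_pm (w := 37) (j := 3) (by decide +kernel)
theorem L03291 : Good (Phi V5.P V5.D 1 (-1)) ⟨1, 1, 2, 1, 3, 4, 2, 3, 3, 4⟩ :=
  out_sound (S := T5.ds_pm) T5.ok_pm (w := 30) (j := 2) (by decide +kernel)
theorem L03292 : Good (Phi V5.P V5.D 1 (-1)) ⟨1, 1, 2, 1, 3, 4, 1, 1, 3, 5⟩ :=
  out_sound (S := T5.ds_pm) T5.ok_pm (w := 28) (j := 2) (by decide +kernel)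
theorem L03293 : Good (Phi V5.P V5.D 1 (-1)) ⟨1, 1, 2, 1, 3, 5, 1, 1, 2, 2⟩ :=
  out_sound (S := T5.ds_pm) T5.ok_pm (w := 26) (j := 2) (by decide +kernel)
theorem L03294 : Good (Phi V5.P V5.D 1 (-1)) ⟨1, 1, 2, 1, 2, 2, 1, 1, 2, 3⟩ :=
  out_sound (S := T5.ds_pm) T5.ok_pm (w := 24) (j := 2) (by decide +kernel)
theorem L03295 : Good (Phi V5.P V5.D 1 (-1)) ⟨1, 1, 2, 1, 2, 3, 1, 1, 1, 1⟩ :=
  out_sound (S := T5.ds_pm) T5.ok_pm (w := 22) (j := 2) (by decide +kernel)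
theorem L03296 : Good (Phi V5.P V5.D 1 (-1)) ⟨1, 1, 1, 1, 0, 0, 0, 0, 0, 0⟩ :=
  out_sound (S := T5.ds_pm) T5.ok_pm (w := 29) (j := 3) (by decide +kernel)

end Crest.Agent.R097C5.N5pm
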