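import Crest.Agent.R097C5.N5pm_g0
import Crest.Agent.R097C5.N5pm_014
import Crest.Agent.R097C5.N5pm_015
import Crest.Agent.R097C5.N5pm_016
import Crest.Agent.R097C5.N5pm_017
import Crest.Agent.R097C5.N5pm_018
import Crest.Agent.R097C5.N5pm_019
import Crest.Agent.R097C5.N5pm_020
import Crest.Agent.R097C5.N5pm_021
import Crest.Agent.R097C5.N5pm_022
import Crest.Agent.R097C5.N5pm_023
import Crest.Agent.R097C5.N5pm_024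
import Crest.Agent.R097C5.N5pm_025
import Crest.Agent.R097C5.N5pm_026

/-!
# Row 97, box cover in dimension n = 5 (generated)
-/

set_option autoImplicit false
set_option Elab.async false
set_option maxHeartbeats 0
set_option maxRecDepth 100000

open Crest.Agent.R097 Crest.Agent.R097.KA


namespace Crest.Agent.R097C5.N5pm

theorem g00250 : Good (Phi V5.P V5.D 1 (-1)) ⟨2, 1, 2, 2, 1, 0, 1, 1, 4, 6⟩ :=
  Good.n3 (Good.n0 (Good.n2 L01738 (Good.n2 L01739 g00248)) (Good.n1 (Good.n3 L01747 L01748) L01749)) (Good.n2 (Good.n3 L01750 L01751) (Good.n3 g00249 (Good.n0 L01759 L01760)))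
theorem g00251 : Good (Phi V5.P V5.D 1 (-1)) ⟨3, 2, 2, 2, 4, 7, 4, 10, 5, 14⟩ :=
  Good.n1 (Good.n2 L01770 L01771) (Good.n2 L01772 (Good.n4 L01773 (Good.n1 (Good.n3 L01774 (Good.n2 L01775 L01776)) L01777)))
theorem g00252 : Good (Phi V5.P V5.D 1 (-1)) ⟨2, 1, 2, 2, 5, 14, 4, 11, 5, 14⟩ :=
  Good.n1 L01781 (Good.n4 L01782 (Good.n1 (Good.n0 (Good.n3 L01783 (Good.n2 L01784 L01785)) L01786) L01787))
theorem g00253 : Good (Phi V5.P V5.D 1 (-1)) ⟨2, 1, 2, 2, 5, 15, 4, 11, 5, 14⟩ :=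
  Good.n1 L01788 (Good.n0 (Good.n1 (Good.n4 (Good.n3 L01789 L01790) (Good.n3 L01791 L01792)) L01793) L01794)
theorem g00254 : Good (Phi V5.P V5.D 1 (-1)) ⟨2, 1, 2, 2, 3, 3, 3, 5, 5, 14⟩ :=
  Good.n2 (Good.n1 L01766 (Good.n0 (Good.n1 L01767 L01768) L01769)) (Good.n3 (Good.n0 g00251 (Good.n1 (Good.n2 L01778 L01779) L01780)) (Good.n2 g00252 g00253))
theorem g00255 : Good (Phi V5.P V5.D 1 (-1)) ⟨2, 1, 2, 2, 7, 59, 7, 87, 8, 120⟩ :=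
  Good.n4 (Good.n3 L01801 (Good.n2 L01802 (Good.n2 (Good.n4 (Good.n3 L01803 L01804) L01805) L01806))) L01807
theorem g00256 : Good (Phi V5.P V5.D 1 (-1)) ⟨2, 1, 2, 2, 5, 14, 5, 21, 6, 30⟩ :=
  Good.n4 (Good.n3 L01797 (Good.n2 L01798 (Good.n4 (Good.n3 L01799 (Good.n2 L01800 g00255)) L01808))) L01809
theorem g00257 : Good (Phi V5.P V5.D 1 (-1)) ⟨2, 1, 2, 2, 6, 30, 6, 43, 7, 60⟩ :=
  Good.n2 (Good.n3 (Good.n4 (Good.n4 (Good.n3 L01811 (Good.n2 L01812 L01813)) L01814) L01815) L01816) L01817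
theorem g00258 : Good (Phi V5.P V5.D 1 (-1)) ⟨2, 1, 2, 2, 4, 7, 4, 10, 5, 15⟩ :=
  Good.n4 (Good.n3 L01796 (Good.n2 g00256 (Good.n2 (Good.n4 (Good.n3 L01810 g00257) L01818) L01819))) L01820
theorem g00259 : Good (Phi V5.P V5.D 1 (-1)) ⟨2, 1, 2, 2, 4, 7, 4, 11, 5, 15⟩ :=
  Good.n2 (Good.n4 (Good.n1 L01823 (Good.n1 (Good.n3 L01824 L01825) L01826)) (Good.n3 L01827 L01828)) L01829
theorem g00260 : Good (Phi V5.P V5.D 1 (-1)) ⟨2, 1, 2, 2, 3, 3, 2, 2, 4, 7⟩ :=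
  Good.n3 L01765 (Good.n4 g00254 (Good.n3 (Good.n2 L01795 g00258) (Good.n2 (Good.n1 L01821 L01822) g00259)))
theorem g00261 : Good (Phi V5.P V5.D 1 (-1)) ⟨2, 1, 2, 2, 3, 2, 3, 6, 4, 7⟩ :=
  Good.n0 (Good.n1 L01830 (Good.n2 L01831 (Good.n1 (Good.n3 L01832 L01833) L01834))) (Good.n1 L01835 L01836)
theorem g00262 : Good (Phi V5.P V5.D 1 (-1)) ⟨2, 1, 2, 2, 4, 6, 3, 6, 5, 14⟩ :=
  Good.n0 (Good.n1 L01840 (Good.n2 (Good.n1 L01841 L01842) (Good.n3 (Good.n1 L01843 L01844) L01845))) L01846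
theorem g00263 : Good (Phi V5.P V5.D 1 (-1)) ⟨3, 2, 2, 2, 6, 24, 5, 25, 6, 31⟩ :=
  Good.n4 (Good.n3 (Good.n4 (Good.n3 L01854 (Good.n4 (Good.n2 L01855 L01856) L01857)) L01858) L01859) L01860
theorem g00264 : Good (Phi V5.P V5.D 1 (-1)) ⟨3, 2, 2, 2, 4, 6, 4, 12, 6, 31⟩ :=
  Good.n2 (Good.n3 L01853 (Good.n2 g00263 L01861)) (Good.n3 (Good.n2 (Good.n3 L01862 L01863) L01864) L01865)
theorem g00265 : Good (Phi V5.P V5.D 1 (-1)) ⟨3, 2, 2, 2, 4, 6, 3, 6, 5, 15⟩ :=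
  Good.n4 (Good.n1 L01847 (Good.n1 (Good.n2 (Good.n3 L01848 L01849) (Good.n3 L01850 L01851)) L01852)) (Good.n3 g00264 L01866)
theorem g00266 : Good (Phi V5.P V5.D 1 (-1)) ⟨2, 1, 2, 2, 3, 3, 2, 3, 4, 7⟩ :=
  Good.n2 (Good.n3 (Good.n4 g00262 (Good.n0 g00265 (Good.n1 L01867 L01868))) L01869) (Good.n3 (Good.n4 (Good.n3 (Good.n2 L01870 L01871) L01872) L01873) L01874)
theorem g00267 : Good (Phi V5.P V5.D 1 (-1)) ⟨2, 1, 2, 2, 2, 1, 1, 1, 4, 7⟩ :=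
  Good.n3 (Good.n2 L01764 g00260) (Good.n2 (Good.n3 g00261 (Good.n3 (Good.n4 L01837 L01838) L01839)) g00266)
theorem g00268 : Good (Phi V5.P V5.D 1 (-1)) ⟨2, 1, 2, 2, 1, 0, 1, 1, 1, 0⟩ :=
  Good.n4 (Good.n4 (Good.n3 L01727 L01728) (Good.n2 L01729 L01730)) (Good.n4 g00247 (Good.n4 g00250 (Good.n2 (Good.n3 L01761 (Good.n3 L01762 L01763)) g00267)))
theorem g00269 : Good (Phi V5.P V5.D 1 (-1)) ⟨1, 0, 1, 1, 1, 0, 0, 0, 0, 0⟩ :=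
  Good.n3 g00214 (Good.n1 (Good.n0 (Good.n4 (Good.n4 g00215 g00246) L01726) (Good.n4 g00268 L01875)) L01876)
theorem g00270 : Good (Phi V5.P V5.D 1 (-1)) ⟨2, 0, 3, 5, 4, 15, 3, 0, 4, 0⟩ :=
  Good.n0 (Good.n4 L01883 L01884) (Good.n4 L01885 (Good.n3 (Good.n2 L01886 (Good.n1 L01887 L01888)) L01889))
theorem g00271 : Good (Phi V5.P V5.D 1 (-1)) ⟨2, 0, 3, 5, 3, 7, 3, 0, 4, 1⟩ :=
  Good.n0 L01895 (Good.n2 L01896 (Good.n3 (Good.n4 (Good.n2 L01897 (Good.n1 L01898 L01899)) L01900) L01901))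
theorem g00272 : Good (Phi V5.P V5.D 1 (-1)) ⟨2, 0, 2, 2, 2, 3, 3, 0, 3, 0⟩ :=
  Good.n4 (Good.n2 L01879 (Good.n1 (Good.n3 L01880 L01881) (Good.n2 L01882 g00270))) (Good.n1 (Good.n2 (Good.n3 L01890 L01891) (Good.n3 L01892 L01893)) (Good.n2 L01894 g00271))
theorem g00273 : Good (Phi V5.P V5.D 1 (-1)) ⟨2, 0, 2, 2, 1, 1, 2, 0, 3, 0⟩ :=
  Good.n3 (Good.n2 (Good.n4 L01877 L01878) g00272) (Good.n2 L01902 (Good.n4 L01903 (Good.n2 L01904 L01905)))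
theorem g00274 : Good (Phi V5.P V5.D 1 (-1)) ⟨2, 0, 2, 2, 1, 1, 4, 0, 4, 2⟩ :=
  Good.n2 (Good.n3 L01907 (Good.n3 L01908 L01909)) (Good.n1 (Good.n2 (Good.n3 L01910 L01911) L01912) (Good.n2 (Good.n4 L01913 L01914) L01915))
theorem g00275 : Good (Phi V5.P V5.D 1 (-1)) ⟨2, 0, 2, 2, 1, 1, 3, 0, 3, 1⟩ :=
  Good.n4 (Good.n3 g00274 (Good.n2 L01916 (Good.n2 L01917 L01918))) (Good.n2 (Good.n3 L01919 L01920) (Good.n2 (Good.n1 L01921 L01922) L01923))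
theorem g00276 : Good (Phi V5.P V5.D 1 (-1)) ⟨2, 0, 2, 2, 1, 1, 1, 0, 3, 1⟩ :=
  Good.n3 (Good.n3 g00275 (Good.n2 (Good.n4 L01924 L01925) (Good.n4 (Good.n1 L01926 L01927) L01928))) (Good.n3 L01929 L01930)
theorem g00277 : Good (Phi V5.P V5.D 1 (-1)) ⟨2, 0, 2, 2, 1, 1, 1, 0, 3, 2⟩ :=
  Good.n4 (Good.n2 (Good.n3 L01931 L01932) (Good.n3 (Good.n2 L01933 L01934) (Good.n4 L01935 L01936))) (Good.n2 (Good.n3 L01937 (Good.n0 L01938 L01939)) (Good.n3 L01940 (Good.n2 L01941 L01942)))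
theorem g00278 : Good (Phi V5.P V5.D 1 (-1)) ⟨2, 0, 2, 2, 2, 2, 2, 1, 4, 6⟩ :=
  Good.n2 (Good.n3 L01944 (Good.n4 L01945 L01946)) (Good.n4 (Good.n2 L01947 L01948) (Good.n3 L01949 (Good.n2 (Good.n3 L01950 L01951) L01952)))
theorem g00279 : Good (Phi V5.P V5.D 1 (-1)) ⟨2, 0, 2, 2, 9, 304, 8, 126, 9, 224⟩ :=
  Good.n4 (Good.n2 (Good.n3 L01970 (Good.n4 (Good.n2 (Good.n3 L01971 L01972) L01973) L01974)) L01975) L01976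
theorem g00280 : Good (Phi V5.P V5.D 1 (-1)) ⟨2, 0, 2, 2, 8, 152, 6, 31, 8, 112⟩ :=
  Good.n3 (Good.n4 (Good.n3 L01964 (Good.n4 (Good.n3 L01965 (Good.n2 L01966 L01967)) L01968)) L01969) (Good.n4 (Good.n2 (Good.n3 g00279 L01977) L01978) L01979)
theorem g00281 : Good (Phi V5.P V5.D 1 (-1)) ⟨2, 0, 2, 2, 6, 38, 5, 15, 7, 56⟩ :=
  Good.n2 (Good.n3 L01963 (Good.n4 (Good.n2 g00280 L01980) L01981)) (Good.n3 (Good.n4 (Good.n2 L01982 L01983) L01984) L01985)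
theorem g00282 : Good (Phi V5.P V5.D 1 (-1)) ⟨2, 0, 2, 2, 5, 19, 4, 7, 6, 28⟩ :=
  Good.n3 (Good.n4 (Good.n3 L01959 (Good.n2 L01960 L01961)) L01962) (Good.n2 (Good.n4 g00281 L01986) L01987)
theorem g00283 : Good (Phi V5.P V5.D 1 (-1)) ⟨2, 0, 2, 2, 3, 4, 2, 1, 4, 7⟩ :=
  Good.n3 L01955 (Good.n4 (Good.n2 L01956 (Good.n3 L01957 (Good.n4 (Good.n2 L01958 g00282) L01988))) L01989)
theorem g00284 : Good (Phi V5.P V5.D 1 (-1)) ⟨2, 0, 2, 2, 4, 10, 2, 1, 4, 7⟩ :=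
  Good.n4 (Good.n3 L01990 (Good.n2 (Good.n4 (Good.n3 (Good.n3 L01991 L01992) L01993) L01994) L01995)) L01996
theorem g00285 : Good (Phi V5.P V5.D 1 (-1)) ⟨2, 0, 2, 2, 1, 1, 1, 0, 3, 3⟩ :=
  Good.n4 (Good.n2 (Good.n3 L01943 g00278) L01953) (Good.n2 (Good.n3 L01954 (Good.n2 g00283 (Good.n2 g00284 L01997))) L01998)
theorem g00286 : Good (Phi V5.P V5.D 1 (-1)) ⟨2, 0, 1, 1, 1, 1, 1, 0, 0, 0⟩ :=
  Good.n4 (Good.n1 (Good.n4 (Good.n4 (Good.n3 g00273 L01906) g00276) (Good.n4 g00277 g00285)) L01999) (Good.n2 (Good.n4 (Good.n4 (Good.n2 L02000 L02001) L02002) L02003) L02004)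
theorem g00287 : Good (Phi V5.P V5.D 1 (-1)) ⟨3, 2, 2, 2, 2, 3, 3, 0, 4, 0⟩ :=
  Good.n2 L02006 (Good.n2 L02007 (Good.n1 (Good.n4 L02008 L02009) (Good.n4 L02010 (Good.n3 L02011 L02012))))
theorem g00288 : Good (Phi V5.P V5.D 1 (-1)) ⟨2, 1, 1, 1, 1, 1, 3, 0, 4, 0⟩ :=
  Good.n2 L02005 (Good.n1 (Good.n0 g00287 (Good.n1 (Good.n2 L02013 (Good.n3 L02014 L02015)) L02016)) L02017)
theorem g00289 : Good (Phi V5.P V5.D 1 (-1)) ⟨3, 2, 2, 2, 3, 7, 3, 0, 5, 2⟩ :=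
  Good.n1 (Good.n2 L02022 L02023) (Good.n2 L02024 (Good.n3 (Good.n2 L02025 (Good.n1 L02026 L02027)) L02028))
theorem g00290 : Good (Phi V5.P V5.D 1 (-1)) ⟨3, 3, 3, 4, 3, 7, 3, 0, 4, 1⟩ :=
  Good.n0 (Good.n4 (Good.n2 L02032 L02033) (Good.n1 L02034 (Good.n0 L02035 L02036))) (Good.n3 (Good.n1 (Good.n4 L02037 L02038) L02039) (Good.n1 L02040 L02041))
theorem g00291 : Good (Phi V5.P V5.D 1 (-1)) ⟨2, 1, 2, 2, 2, 3, 3, 0, 4, 1⟩ :=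
  Good.n2 (Good.n3 (Good.n3 L02019 L02020) L02021) (Good.n0 (Good.n4 g00289 (Good.n1 L02029 (Good.n3 L02030 L02031))) (Good.n1 g00290 L02042))
theorem g00292 : Good (Phi V5.P V5.D 1 (-1)) ⟨2, 1, 2, 2, 2, 3, 3, 1, 3, 0⟩ :=
  Good.n4 (Good.n2 L02045 L02046) (Good.n2 L02047 (Good.n0 (Good.n1 L02048 L02049) (Good.n1 (Good.n2 L02050 L02051) L02052)))
theorem g00293 : Good (Phi V5.P V5.D 1 (-1)) ⟨2, 1, 1, 1, 1, 1, 2, 0, 3, 0⟩ :=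
  Good.n3 (Good.n4 g00288 (Good.n1 (Good.n2 L02018 g00291) L02043)) (Good.n2 L02044 (Good.n1 g00292 L02053))
theorem g00294 : Good (Phi V5.P V5.D 1 (-1)) ⟨2, 1, 2, 2, 3, 5, 3, 0, 4, 2⟩ :=
  Good.n3 (Good.n4 (Good.n3 L02060 L02061) (Good.n3 L02062 (Good.n1 L02063 L02064))) (Good.n0 L02065 L02066)
theorem g00295 : Good (Phi V5.P V5.D 1 (-1)) ⟨2, 1, 1, 1, 2, 2, 3, 0, 3, 1⟩ :=
  Good.n4 (Good.n1 (Good.n2 L02059 g00294) L02067) (Good.n1 (Good.n3 L02068 (Good.n0 L02069 L02070)) L02071)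
theorem g00296 : Good (Phi V5.P V5.D 1 (-1)) ⟨2, 1, 2, 2, 3, 6, 3, 0, 5, 4⟩ :=
  Good.n3 (Good.n0 (Good.n3 L02074 L02075) (Good.n3 L02076 (Good.n1 L02077 L02078))) (Good.n0 L02079 (Good.n1 (Good.n0 L02080 L02081) L02082))
theorem g00297 : Good (Phi V5.P V5.D 1 (-1)) ⟨2, 1, 2, 2, 2, 3, 3, 0, 5, 4⟩ :=
  Good.n2 g00296 (Good.n0 (Good.n1 L02083 L02084) (Good.n1 (Good.n2 L02085 (Good.n0 L02086 L02087)) L02088))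
theorem g00298 : Good (Phi V5.P V5.D 1 (-1)) ⟨3, 3, 2, 2, 2, 3, 3, 0, 5, 5⟩ :=
  Good.n2 (Good.n3 (Good.n3 L02095 L02096) (Good.n1 (Good.n0 L02097 L02098) L02099)) (Good.n1 L02100 L02101)
theorem g00299 : Good (Phi V5.P V5.D 1 (-1)) ⟨2, 1, 2, 2, 2, 3, 3, 0, 5, 5⟩ :=
  Good.n0 (Good.n1 (Good.n3 (Good.n3 L02089 L02090) L02091) (Good.n2 (Good.n3 L02092 L02093) L02094)) g00298
theorem g00300 : Good (Phi V5.P V5.D 1 (-1)) ⟨2, 1, 2, 2, 2, 3, 3, 0, 4, 3⟩ :=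
  Good.n0 (Good.n2 (Good.n1 L02102 L02103) L02104) (Good.n1 (Good.n2 (Good.n0 L02105 L02106) L02107) L02108)
theorem g00301 : Good (Phi V5.P V5.D 1 (-1)) ⟨2, 1, 2, 2, 2, 3, 3, 1, 3, 1⟩ :=
  Good.n4 (Good.n2 (Good.n4 L02109 L02110) (Good.n2 L02111 (Good.n0 L02112 L02113))) (Good.n0 L02114 (Good.n2 L02115 L02116))
theorem g00302 : Good (Phi V5.P V5.D 1 (-1)) ⟨2, 1, 1, 1, 1, 1, 2, 0, 3, 1⟩ :=
  Good.n2 (Good.n3 g00295 (Good.n4 L02072 L02073)) (Good.n1 (Good.n3 (Good.n4 (Good.n4 g00297 g00299) g00300) g00301) L02117)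
theorem g00303 : Good (Phi V5.P V5.D 1 (-1)) ⟨2, 1, 2, 2, 1, 1, 2, 1, 3, 1⟩ :=
  Good.n4 (Good.n2 L02118 (Good.n0 L02119 L02120)) (Good.n2 L02121 (Good.n0 L02122 (Good.n2 L02123 (Good.n1 L02124 L02125))))
theorem g00304 : Good (Phi V5.P V5.D 1 (-1)) ⟨2, 1, 1, 1, 1, 1, 1, 0, 2, 0⟩ :=
  Good.n4 (Good.n3 g00293 (Good.n1 (Good.n2 L02054 (Good.n4 L02055 (Good.n1 L02056 L02057))) L02058)) (Good.n3 g00302 (Good.n1 g00303 L02126))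
theorem g00305 : Good (Phi V5.P V5.D 1 (-1)) ⟨2, 1, 1, 1, 2, 2, 2, 1, 3, 2⟩ :=
  Good.n0 (Good.n1 (Good.n2 L02129 L02130) L02131) (Good.n1 (Good.n4 (Good.n2 L02132 L02133) (Good.n2 L02134 L02135)) L02136)
theorem g00306 : Good (Phi V5.P V5.D 1 (-1)) ⟨2, 1, 2, 2, 3, 5, 2, 1, 4, 6⟩ :=
  Good.n4 (Good.n3 L02141 (Good.n1 L02142 L02143)) (Good.n3 L02144 (Good.n2 (Good.n2 L02145 L02146) L02147))
theorem g00307 : Good (Phi V5.P V5.D 1 (-1)) ⟨2, 1, 2, 2, 9, 304, 8, 126, 9, 224⟩ :=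
  Good.n4 (Good.n2 (Good.n3 L02165 (Good.n4 (Good.n2 (Good.n3 L02166 L02167) L02168) L02169)) L02170) L02171
theorem g00308 : Good (Phi V5.P V5.D 1 (-1)) ⟨2, 1, 2, 2, 8, 152, 6, 31, 8, 112⟩ :=
  Good.n3 (Good.n4 (Good.n3 L02159 (Good.n4 (Good.n3 L02160 (Good.n2 L02161 L02162)) L02163)) L02164) (Good.n4 (Good.n2 (Good.n3 g00307 L02172) L02173) L02174)
theorem g00309 : Good (Phi V5.P V5.D 1 (-1)) ⟨2, 1, 2, 2, 6, 38, 5, 15, 7, 56⟩ :=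
  Good.n2 (Good.n3 L02158 (Good.n4 (Good.n2 g00308 L02175) L02176)) (Good.n3 (Good.n4 (Good.n2 L02177 L02178) L02179) L02180)
theorem g00310 : Good (Phi V5.P V5.D 1 (-1)) ⟨2, 1, 2, 2, 5, 19, 4, 7, 6, 28⟩ :=
  Good.n3 (Good.n4 (Good.n3 L02154 (Good.n2 L02155 L02156)) L02157) (Good.n2 (Good.n4 g00309 L02181) L02182)
theorem g00311 : Good (Phi V5.P V5.D 1 (-1)) ⟨2, 1, 2, 2, 3, 4, 2, 1, 4, 7⟩ :=
  Good.n3 L02150 (Good.n4 (Good.n2 L02151 (Good.n3 L02152 (Good.n4 (Good.n2 L02153 g00310) L02183))) L02184)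
theorem g00312 : Good (Phi V5.P V5.D 1 (-1)) ⟨2, 1, 2, 2, 4, 10, 2, 1, 4, 7⟩ :=
  Good.n4 (Good.n3 L02185 (Good.n2 (Good.n4 (Good.n3 (Good.n3 L02186 L02187) L02188) L02189) L02190)) L02191
theorem g00313 : Good (Phi V5.P V5.D 1 (-1)) ⟨2, 1, 1, 1, 2, 2, 1, 0, 3, 3⟩ :=
  Good.n4 (Good.n1 (Good.n3 L02137 (Good.n2 (Good.n4 L02138 (Good.n3 L02139 L02140)) g00306)) L02148) (Good.n3 L02149 (Good.n1 (Good.n2 g00311 (Good.n2 g00312 L02192)) L02193))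
theorem g00314 : Good (Phi V5.P V5.D 1 (-1)) ⟨3, 2, 2, 2, 2, 3, 1, 0, 4, 4⟩ :=
  Good.n1 (Good.n3 L02194 (Good.n3 L02195 L02196)) (Good.n1 (Good.n3 L02197 (Good.n2 L02198 L02199)) L02200)
theorem g00315 : Good (Phi V5.P V5.D 1 (-1)) ⟨3, 3, 2, 2, 2, 3, 1, 0, 4, 4⟩ :=
  Good.n3 (Good.n1 (Good.n2 L02201 L02202) L02203) (Good.n1 (Good.n2 L02204 (Good.n4 L02205 L02206)) L02207)
theorem g00316 : Good (Phi V5.P V5.D 1 (-1)) ⟨3, 3, 2, 2, 2, 3, 1, 0, 4, 5⟩ :=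
  Good.n1 (Good.n3 (Good.n4 L02212 L02213) (Good.n4 (Good.n2 L02214 L02215) (Good.n2 L02216 L02217))) L02218
theorem g00317 : Good (Phi V5.P V5.D 1 (-1)) ⟨2, 1, 2, 2, 2, 3, 1, 0, 3, 2⟩ :=
  Good.n4 (Good.n0 g00314 g00315) (Good.n0 (Good.n3 L02208 (Good.n2 (Good.n4 L02209 L02210) L02211)) g00316)
theorem g00318 : Good (Phi V5.P V5.D 1 (-1)) ⟨2, 1, 1, 1, 1, 1, 1, 0, 2, 1⟩ :=
  Good.n2 (Good.n4 (Good.n3 (Good.n2 L02127 L02128) g00305) g00313) (Good.n4 (Good.n1 g00317 L02219) (Good.n4 (Good.n3 L02220 (Good.n3 L02221 L02222)) L02223))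
theorem g00319 : Good (Phi V5.P V5.D 1 (-1)) ⟨2, 1, 1, 1, 1, 1, 1, 0, 0, 0⟩ :=
  Good.n4 (Good.n4 g00304 g00318) (Good.n2 (Good.n4 (Good.n4 (Good.n2 L02224 L02225) L02226) L02227) L02228)
theorem g00320 : Good (Phi V5.P V5.D 1 (-1)) ⟨2, 0, 2, 2, 1, 1, 2, 3, 3, 1⟩ :=
  Good.n2 (Good.n3 L02237 L02238) (Good.n4 (Good.n2 L02239 (Good.n1 L02240 L02241)) (Good.n2 (Good.n3 L02242 L02243) L02244))
theorem g00321 : Good (Phi V5.P V5.D 1 (-1)) ⟨2, 0, 2, 2, 1, 1, 1, 1, 2, 0⟩ :=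
  Good.n4 (Good.n3 L02229 (Good.n4 L02230 L02231)) (Good.n3 (Good.n2 L02232 (Good.n4 L02233 (Good.n2 L02234 (Good.n4 L02235 L02236)))) g00320)
theorem g00322 : Good (Phi V5.P V5.D 1 (-1)) ⟨2, 0, 2, 2, 2, 2, 2, 2, 4, 5⟩ :=
  Good.n2 (Good.n0 (Good.n3 L02248 L02249) (Good.n2 L02250 L02251)) (Good.n3 (Good.n4 L02252 (Good.n2 L02253 L02254)) (Good.n4 L02255 (Good.n2 L02256 L02257)))
theorem g00323 : Good (Phi V5.P V5.D 1 (-1)) ⟨2, 0, 1, 1, 2, 2, 2, 3, 3, 2⟩ :=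
  Good.n4 (Good.n1 (Good.n3 (Good.n2 L02259 L02260) L02261) L02262) (Good.n3 (Good.n2 (Good.n1 (Good.n2 L02263 L02264) L02265) L02266) L02267)
theorem g00324 : Good (Phi V5.P V5.D 1 (-1)) ⟨2, 0, 2, 2, 2, 3, 1, 1, 3, 2⟩ :=
  Good.n4 (Good.n3 (Good.n2 (Good.n4 L02268 (Good.n3 L02269 L02270)) (Good.n3 L02271 L02272)) L02273) (Good.n3 (Good.n2 (Good.n3 L02274 L02275) L02276) L02277)
theorem g00325 : Good (Phi V5.P V5.D 1 (-1)) ⟨2, 0, 1, 1, 1, 1, 1, 1, 3, 2⟩ :=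
  Good.n2 (Good.n3 (Good.n4 (Good.n3 L02246 L02247) (Good.n1 g00322 L02258)) g00323) (Good.n1 g00324 L02278)
theorem g00326 : Good (Phi V5.P V5.D 1 (-1)) ⟨2, 0, 3, 5, 4, 9, 3, 4, 5, 13⟩ :=
  Good.n3 (Good.n4 L02289 (Good.n1 L02290 L02291)) (Good.n4 (Good.n1 (Good.n2 L02292 L02293) L02294) (Good.n2 (Good.n1 L02295 L02296) L02297))
theorem g00327 : Good (Phi V5.P V5.D 1 (-1)) ⟨2, 0, 2, 2, 3, 4, 3, 4, 5, 13⟩ :=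
  Good.n2 (Good.n0 (Good.n1 L02281 L02282) (Good.n1 L02283 (Good.n3 L02284 L02285))) (Good.n1 (Good.n3 L02286 (Good.n4 L02287 L02288)) g00326)
theorem g00328 : Good (Phi V5.P V5.D 1 (-1)) ⟨2, 0, 2, 2, 3, 4, 3, 5, 5, 12⟩ :=
  Good.n2 (Good.n3 L02298 (Good.n1 L02299 L02300)) (Good.n3 (Good.n1 L02301 (Good.n4 L02302 (Good.n1 L02303 L02304))) L02305)
theorem g00329 : Good (Phi V5.P V5.D 1 (-1)) ⟨2, 0, 3, 5, 4, 8, 4, 10, 5, 13⟩ :=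
  Good.n4 (Good.n0 L02310 (Good.n1 L02311 L02312)) (Good.n2 (Good.n1 (Good.n3 L02313 L02314) L02315) (Good.n1 (Good.n3 L02316 L02317) L02318))
theorem g00330 : Good (Phi V5.P V5.D 1 (-1)) ⟨2, 0, 2, 2, 4, 8, 4, 11, 5, 13⟩ :=
  Good.n1 (Good.n4 L02319 L02320) (Good.n4 (Good.n1 (Good.n2 L02321 L02322) L02323) (Good.n2 (Good.n3 L02324 L02325) L02326))
theorem g00331 : Good (Phi V5.P V5.D 1 (-1)) ⟨2, 0, 2, 2, 3, 4, 3, 5, 5, 13⟩ :=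
  Good.n2 (Good.n3 (Good.n1 (Good.n0 (Good.n2 L02306 L02307) (Good.n4 L02308 L02309)) g00329) g00330) (Good.n3 L02327 L02328)
theorem g00332 : Good (Phi V5.P V5.D 1 (-1)) ⟨2, 0, 2, 2, 2, 2, 2, 2, 4, 6⟩ :=
  Good.n2 (Good.n3 (Good.n4 (Good.n1 L02279 L02280) g00327) (Good.n4 g00328 g00331)) (Good.n3 (Good.n4 (Good.n2 (Good.n3 L02329 L02330) L02331) (Good.n3 L02332 L02333)) L02334)
theorem g00333 : Good (Phi V5.P V5.D 1 (-1)) ⟨2, 0, 1, 1, 2, 2, 1, 1, 4, 6⟩ :=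
  Good.n3 (Good.n1 g00332 L02335) (Good.n2 (Good.n3 (Good.n1 (Good.n4 (Good.n2 L02336 L02337) L02338) L02339) L02340) L02341)
theorem g00334 : Good (Phi V5.P V5.D 1 (-1)) ⟨2, 0, 2, 2, 4, 8, 4, 9, 5, 14⟩ :=
  Good.n2 (Good.n1 L02343 (Good.n4 L02344 L02345)) (Good.n4 (Good.n1 L02346 (Good.n1 (Good.n3 L02347 L02348) L02349)) L02350)
theorem g00335 : Good (Phi V5.P V5.D 1 (-1)) ⟨2, 0, 2, 2, 4, 8, 4, 10, 6, 28⟩ :=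
  Good.n2 (Good.n1 L02354 (Good.n1 (Good.n3 (Good.n2 L02355 L02356) (Good.n2 L02357 L02358)) L02359)) L02360
theorem g00336 : Good (Phi V5.P V5.D 1 (-1)) ⟨2, 0, 2, 2, 4, 8, 3, 5, 5, 14⟩ :=
  Good.n3 (Good.n4 g00335 (Good.n2 (Good.n3 (Good.n1 L02361 (Good.n2 L02362 L02363)) L02364) L02365)) L02366
theorem g00337 : Good (Phi V5.P V5.D 1 (-1)) ⟨2, 0, 2, 2, 3, 4, 2, 2, 5, 14⟩ :=
  Good.n3 (Good.n2 (Good.n3 L02342 g00334) (Good.n2 (Good.n3 L02351 L02352) L02353)) (Good.n2 g00336 L02367)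
theorem g00338 : Good (Phi V5.P V5.D 1 (-1)) ⟨2, 0, 1, 1, 3, 4, 2, 2, 5, 15⟩ :=
  Good.n2 (Good.n1 (Good.n3 (Good.n3 L02369 (Good.n4 (Good.n2 L02370 L02371) L02372)) L02373) L02374) L02375
theorem g00339 : Good (Phi V5.P V5.D 1 (-1)) ⟨2, 0, 1, 1, 1, 1, 1, 1, 3, 3⟩ :=
  Good.n2 (Good.n4 g00333 (Good.n3 (Good.n2 (Good.n4 (Good.n1 g00337 L02368) g00338) L02376) L02377)) L02378
theorem g00340 : Good (Phi V5.P V5.D 1 (-1)) ⟨2, 0, 1, 1, 2, 2, 1, 1, 2, 2⟩ :=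
  Good.n2 (Good.n4 (Good.n3 (Good.n2 (Good.n4 (Good.n3 L02379 L02380) L02381) L02382) L02383) L02384) L02385
theorem g00341 : Good (Phi V5.P V5.D 1 (-1)) ⟨2, 0, 1, 1, 1, 1, 1, 1, 0, 0⟩ :=
  Good.n4 (Good.n4 (Good.n1 g00321 L02245) (Good.n4 g00325 g00339)) (Good.n2 (Good.n4 g00340 L02386) L02387)
theorem g00342 : Good (Phi V5.P V5.D 1 (-1)) ⟨2, 1, 1, 1, 1, 1, 1, 1, 3, 0⟩ :=
  Good.n1 (Good.n2 (Good.n3 L02388 L02389) (Good.n4 (Good.n3 L02390 L02391) (Good.n0 L02392 L02393))) L02394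
theorem g00343 : Good (Phi V5.P V5.D 1 (-1)) ⟨2, 1, 2, 2, 2, 3, 2, 2, 4, 3⟩ :=
  Good.n2 L02397 (Good.n0 (Good.n4 L02398 (Good.n1 L02399 L02400)) (Good.n1 (Good.n4 L02401 L02402) L02403))
theorem g00344 : Good (Phi V5.P V5.D 1 (-1)) ⟨2, 1, 2, 2, 2, 3, 2, 3, 3, 1⟩ :=
  Good.n4 (Good.n0 (Good.n3 L02407 L02408) (Good.n3 L02409 L02410)) (Good.n3 (Good.n0 (Good.n4 L02411 L02412) (Good.n1 (Good.n4 L02413 L02414) L02415)) L02416)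
theorem g00345 : Good (Phi V5.P V5.D 1 (-1)) ⟨2, 1, 2, 2, 1, 1, 1, 1, 3, 1⟩ :=
  Good.n3 (Good.n2 L02395 (Good.n4 L02396 g00343)) (Good.n2 (Good.n4 L02404 (Good.n3 L02405 L02406)) g00344)
theorem g00346 : Good (Phi V5.P V5.D 1 (-1)) ⟨2, 1, 2, 2, 2, 3, 2, 2, 4, 4⟩ :=
  Good.n2 (Good.n4 (Good.n0 L02420 L02421) (Good.n3 L02422 (Good.n0 L02423 L02424))) (Good.n4 (Good.n3 (Good.n0 L02425 L02426) L02427) (Good.n3 L02428 L02429))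
theorem g00347 : Good (Phi V5.P V5.D 1 (-1)) ⟨2, 1, 2, 2, 3, 5, 2, 2, 4, 5⟩ :=
  Good.n3 (Good.n0 (Good.n4 L02432 (Good.n2 L02433 L02434)) (Good.n4 L02435 L02436)) (Good.n0 (Good.n4 L02437 (Good.n2 L02438 L02439)) (Good.n4 L02440 (Good.n2 L02441 L02442)))
theorem g00348 : Good (Phi V5.P V5.D 1 (-1)) ⟨2, 1, 2, 2, 1, 1, 2, 2, 4, 5⟩ :=
  Good.n2 (Good.n2 (Good.n1 L02430 L02431) g00347) (Good.n2 (Good.n4 (Good.n3 (Good.n0 L02443 (Good.n1 L02444 L02445)) L02446) L02447) L02448)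
theorem g00349 : Good (Phi V5.P V5.D 1 (-1)) ⟨2, 1, 2, 2, 2, 2, 2, 3, 3, 2⟩ :=
  Good.n4 (Good.n3 (Good.n2 L02449 (Good.n4 L02450 L02451)) L02452) (Good.n3 (Good.n2 (Good.n1 L02453 L02454) L02455) L02456)
theorem g00350 : Good (Phi V5.P V5.D 1 (-1)) ⟨2, 1, 2, 2, 1, 1, 1, 1, 3, 2⟩ :=
  Good.n3 (Good.n4 (Good.n2 (Good.n0 L02418 L02419) g00346) g00348) (Good.n2 g00349 (Good.n4 L02457 L02458))
theorem g00351 : Good (Phi V5.P V5.D 1 (-1)) ⟨2, 1, 2, 2, 3, 4, 3, 4, 5, 13⟩ :=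
  Good.n2 (Good.n1 L02462 (Good.n3 L02463 L02464)) (Good.n3 (Good.n4 L02465 (Good.n2 L02466 L02467)) (Good.n2 (Good.n3 L02468 L02469) L02470))
theorem g00352 : Good (Phi V5.P V5.D 1 (-1)) ⟨3, 2, 2, 2, 4, 8, 3, 5, 5, 13⟩ :=
  Good.n3 (Good.n4 (Good.n1 L02476 L02477) (Good.n1 L02478 (Good.n2 L02479 (Good.n1 L02480 L02481)))) (Good.n2 L02482 L02483)
theorem g00353 : Good (Phi V5.P V5.D 1 (-1)) ⟨3, 2, 2, 2, 3, 4, 3, 5, 4, 6⟩ :=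
  Good.n4 (Good.n2 (Good.n1 L02471 L02472) (Good.n3 (Good.n4 L02473 L02474) L02475)) (Good.n2 g00352 (Good.n3 L02484 L02485))
theorem g00354 : Good (Phi V5.P V5.D 1 (-1)) ⟨3, 3, 2, 2, 3, 4, 3, 5, 4, 6⟩ :=
  Good.n4 (Good.n1 (Good.n2 L02486 L02487) L02488) (Good.n2 (Good.n1 (Good.n3 L02489 L02490) L02491) L02492)
theorem g00355 : Good (Phi V5.P V5.D 1 (-1)) ⟨2, 1, 2, 2, 3, 5, 3, 4, 4, 6⟩ :=
  Good.n4 (Good.n0 (Good.n2 (Good.n3 L02493 L02494) L02495) (Good.n1 (Good.n2 L02496 L02497) L02498)) (Good.n2 L02499 L02500)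
theorem g00356 : Good (Phi V5.P V5.D 1 (-1)) ⟨2, 1, 2, 2, 2, 2, 2, 2, 4, 6⟩ :=
  Good.n2 (Good.n3 (Good.n4 (Good.n2 L02460 L02461) g00351) (Good.n0 g00353 g00354)) (Good.n3 g00355 L02501)
theorem g00357 : Good (Phi V5.P V5.D 1 (-1)) ⟨3, 2, 2, 2, 4, 8, 4, 9, 5, 14⟩ :=
  Good.n2 (Good.n4 L02503 L02504) (Good.n1 L02505 (Good.n4 (Good.n1 (Good.n3 L02506 L02507) L02508) L02509))
theorem g00358 : Good (Phi V5.P V5.D 1 (-1)) ⟨2, 1, 2, 2, 3, 4, 3, 4, 5, 14⟩ :=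
  Good.n2 (Good.n3 L02502 (Good.n0 g00357 (Good.n1 (Good.n2 L02510 L02511) L02512))) (Good.n2 (Good.n3 L02513 L02514) L02515)
theorem g00359 : Good (Phi V5.P V5.D 1 (-1)) ⟨2, 1, 3, 5, 4, 8, 4, 10, 5, 14⟩ :=
  Good.n4 (Good.n0 (Good.n2 (Good.n1 (Good.n3 L02519 L02520) L02521) L02522) L02523) (Good.n2 (Good.n3 (Good.n0 (Good.n1 L02524 L02525) L02526) L02527) L02528)
theorem g00360 : Good (Phi V5.P V5.D 1 (-1)) ⟨2, 1, 2, 2, 3, 4, 2, 2, 5, 14⟩ :=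
  Good.n3 g00358 (Good.n2 (Good.n3 (Good.n1 (Good.n2 (Good.n2 L02516 L02517) L02518) g00359) L02529) L02530)
theorem g00361 : Good (Phi V5.P V5.D 1 (-1)) ⟨2, 1, 2, 2, 3, 4, 2, 2, 4, 7⟩ :=
  Good.n4 g00360 (Good.n2 (Good.n3 (Good.n3 L02531 (Good.n4 (Good.n2 L02532 L02533) L02534)) L02535) L02536)
theorem g00362 : Good (Phi V5.P V5.D 1 (-1)) ⟨2, 1, 2, 2, 2, 2, 1, 1, 3, 3⟩ :=
  Good.n3 (Good.n4 g00356 (Good.n2 g00361 L02537)) (Good.n2 (Good.n4 (Good.n3 (Good.n2 L02538 L02539) L02540) L02541) L02542)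
theorem g00363 : Good (Phi V5.P V5.D 1 (-1)) ⟨2, 1, 1, 1, 1, 1, 1, 1, 1, 0⟩ :=
  Good.n4 (Good.n4 g00342 (Good.n1 g00345 L02417)) (Good.n4 (Good.n1 g00350 L02459) (Good.n2 (Good.n1 g00362 L02543) L02544))
theorem g00364 : Good (Phi V5.P V5.D 1 (-1)) ⟨2, 1, 1, 1, 2, 2, 1, 1, 2, 2⟩ :=
  Good.n2 (Good.n4 (Good.n3 (Good.n2 (Good.n4 (Good.n3 L02545 L02546) L02547) L02548) L02549) L02550) L02551
theorem g00365 : Good (Phi V5.P V5.D 1 (-1)) ⟨1, 0, 1, 1, 1, 1, 0, 0, 0, 0⟩ :=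
  Good.n3 (Good.n0 g00286 g00319) (Good.n0 g00341 (Good.n4 g00363 (Good.n2 (Good.n4 g00364 L02552) L02553)))
theorem g00366 : Good (Phi V5.P V5.D 1 (-1)) ⟨1, 0, 0, 0, 0, 0, 0, 0, 0, 0⟩ :=
  Good.n1 (Good.n0 g00154 (Good.n1 g00176 (Good.n2 g00185 (Good.n3 g00202 g00211)))) (Good.n2 g00269 g00365)
theorem g00367 : Good (Phi V5.P V5.D 1 (-1)) ⟨1, 1, 2, 0, 1, 0, 1, 0, 2, 0⟩ :=
  Good.n4 (Good.n0 (Good.n4 (Good.n3 (Good.n3 (Good.n2 L02554 L02555) L02556) L02557) L02558) L02559) (Good.n0 (Good.n0 (Good.n4 L02560 L02561) (Good.n4 L02562 L02563)) L02564)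
theorem g00368 : Good (Phi V5.P V5.D 1 (-1)) ⟨2, 2, 2, 0, 2, 1, 1, 0, 3, 2⟩ :=
  Good.n0 (Good.n3 L02567 (Good.n4 L02568 L02569)) (Good.n3 L02570 (Good.n4 L02571 (Good.n3 L02572 L02573)))
theorem g00369 : Good (Phi V5.P V5.D 1 (-1)) ⟨1, 1, 2, 0, 1, 0, 1, 0, 1, 0⟩ :=
  Good.n4 g00367 (Good.n4 (Good.n0 (Good.n2 (Good.n3 L02565 L02566) g00368) L02574) (Good.n3 L02575 L02576))
theorem g00370 : Good (Phi V5.P V5.D 1 (-1)) ⟨2, 2, 2, 1, 1, 0, 1, 0, 2, 0⟩ :=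
  Good.n4 (Good.n0 (Good.n4 (Good.n3 (Good.n4 L02578 L02579) L02580) L02581) L02582) (Good.n0 L02583 L02584)
theorem g00371 : Good (Phi V5.P V5.D 1 (-1)) ⟨1, 1, 2, 1, 1, 0, 1, 0, 2, 1⟩ :=
  Good.n0 (Good.n0 (Good.n4 (Good.n3 L02586 (Good.n4 L02587 L02588)) (Good.n3 L02589 L02590)) L02591) L02592
theorem g00372 : Good (Phi V5.P V5.D 1 (-1)) ⟨2, 2, 2, 0, 1, 0, 1, 1, 2, 0⟩ :=
  Good.n4 (Good.n3 (Good.n2 L02594 L02595) (Good.n0 L02596 L02597)) (Good.n3 L02598 (Good.n3 L02599 (Good.n0 L02600 L02601)))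
theorem g00373 : Good (Phi V5.P V5.D 1 (-1)) ⟨2, 2, 2, 0, 1, 0, 1, 1, 3, 2⟩ :=
  Good.n3 (Good.n2 L02603 (Good.n2 L02604 L02605)) (Good.n0 (Good.n3 L02606 L02607) (Good.n3 L02608 L02609))
theorem g00374 : Good (Phi V5.P V5.D 1 (-1)) ⟨2, 2, 2, 0, 1, 0, 1, 1, 3, 3⟩ :=
  Good.n3 (Good.n4 (Good.n2 L02610 L02611) L02612) (Good.n3 (Good.n4 L02613 L02614) (Good.n2 L02615 L02616))
theorem g00375 : Good (Phi V5.P V5.D 1 (-1)) ⟨1, 1, 2, 1, 1, 0, 1, 1, 2, 0⟩ :=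
  Good.n0 (Good.n0 (Good.n4 (Good.n3 L02619 L02620) (Good.n3 L02621 (Good.n3 L02622 L02623))) L02624) L02625
theorem g00376 : Good (Phi V5.P V5.D 1 (-1)) ⟨1, 1, 2, 1, 1, 0, 2, 2, 3, 3⟩ :=
  Good.n0 (Good.n0 (Good.n2 L02630 (Good.n2 L02631 (Good.n4 L02632 (Good.n3 L02633 L02634)))) L02635) L02636
theorem g00377 : Good (Phi V5.P V5.D 1 (-1)) ⟨3, 4, 2, 1, 1, 0, 2, 3, 2, 1⟩ :=
  Good.n4 (Good.n3 L02637 (Good.n4 L02638 L02639)) (Good.n2 (Good.n3 L02640 L02641) (Good.n4 L02642 (Good.n2 L02643 L02644)))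
theorem g00378 : Good (Phi V5.P V5.D 1 (-1)) ⟨1, 1, 2, 1, 1, 0, 1, 1, 2, 1⟩ :=
  Good.n3 (Good.n4 (Good.n0 (Good.n0 (Good.n2 L02626 L02627) L02628) L02629) g00376) (Good.n0 (Good.n0 g00377 L02645) L02646)
theorem g00379 : Good (Phi V5.P V5.D 1 (-1)) ⟨1, 1, 1, 0, 1, 0, 1, 1, 0, 0⟩ :=
  Good.n1 (Good.n4 (Good.n4 (Good.n0 g00372 L02602) (Good.n0 (Good.n4 g00373 g00374) L02617)) L02618) (Good.n4 (Good.n4 g00375 g00378) L02647)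
theorem g00380 : Good (Phi V5.P V5.D 1 (-1)) ⟨1, 1, 1, 0, 1, 0, 0, 0, 0, 0⟩ :=
  Good.n3 (Good.n1 (Good.n4 g00369 L02577) (Good.n4 (Good.n4 (Good.n0 g00370 L02585) g00371) L02593)) g00379
theorem g00381 : Good (Phi V5.P V5.D 1 (-1)) ⟨2, 2, 3, 0, 2, 3, 3, 0, 3, 0⟩ :=
  Good.n4 (Good.n2 (Good.n0 L02651 (Good.n4 L02652 L02653)) (Good.n0 L02654 L02655)) (Good.n0 (Good.n2 L02656 L02657) (Good.n2 (Good.n3 L02658 L02659) L02660))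
theorem g00382 : Good (Phi V5.P V5.D 1 (-1)) ⟨2, 2, 3, 0, 1, 1, 3, 1, 3, 0⟩ :=
  Good.n2 (Good.n4 (Good.n0 L02662 L02663) L02664) (Good.n4 (Good.n0 L02665 (Good.n2 (Good.n4 (Good.n0 L02666 L02667) L02668) L02669)) L02670)
theorem g00383 : Good (Phi V5.P V5.D 1 (-1)) ⟨1, 1, 3, 0, 1, 1, 2, 0, 3, 0⟩ :=
  Good.n3 (Good.n0 (Good.n2 (Good.n4 (Good.n0 L02648 L02649) L02650) g00381) L02661) (Good.n0 g00382 L02671)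
theorem g00384 : Good (Phi V5.P V5.D 1 (-1)) ⟨4, 11, 3, 0, 2, 3, 2, 1, 4, 0⟩ :=
  Good.n2 (Good.n3 L02682 L02683) (Good.n4 (Good.n0 (Good.n1 (Good.n3 L02684 L02685) L02686) L02687) L02688)
theorem g00385 : Good (Phi V5.P V5.D 1 (-1)) ⟨3, 5, 3, 0, 2, 3, 2, 1, 4, 0⟩ :=
  Good.n0 (Good.n2 (Good.n4 (Good.n3 L02676 L02677) L02678) (Good.n4 (Good.n3 L02679 L02680) L02681)) g00384
theorem g00386 : Good (Phi V5.P V5.D 1 (-1)) ⟨2, 2, 3, 0, 1, 1, 2, 1, 3, 0⟩ :=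
  Good.n4 (Good.n2 (Good.n0 L02672 (Good.n0 L02673 L02674)) (Good.n0 L02675 g00385)) (Good.n0 L02689 (Good.n2 L02690 L02691))
theorem g00387 : Good (Phi V5.P V5.D 1 (-1)) ⟨2, 2, 3, 1, 2, 3, 2, 0, 4, 0⟩ :=
  Good.n2 (Good.n0 (Good.n3 L02696 L02697) (Good.n0 (Good.n3 L02698 L02699) L02700)) (Good.n0 (Good.n3 L02701 L02702) (Good.n0 (Good.n3 L02703 L02704) L02705))
theorem g00388 : Good (Phi V5.P V5.D 1 (-1)) ⟨2, 2, 3, 1, 2, 3, 3, 0, 4, 1⟩ :=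
  Good.n0 (Good.n2 (Good.n3 (Good.n0 L02708 L02709) L02710) L02711) (Good.n0 (Good.n3 (Good.n3 L02712 L02713) L02714) L02715)
theorem g00389 : Good (Phi V5.P V5.D 1 (-1)) ⟨2, 2, 3, 1, 1, 1, 2, 0, 3, 0⟩ :=
  Good.n4 (Good.n2 (Good.n0 L02693 (Good.n3 L02694 L02695)) g00387) (Good.n2 (Good.n4 L02706 L02707) (Good.n3 g00388 (Good.n0 L02716 L02717)))
theorem g00390 : Good (Phi V5.P V5.D 1 (-1)) ⟨3, 5, 3, 1, 2, 3, 2, 1, 4, 0⟩ :=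
  Good.n0 (Good.n2 (Good.n4 (Good.n3 L02725 L02726) L02727) (Good.n4 (Good.n3 L02728 L02729) L02730)) L02731
theorem g00391 : Good (Phi V5.P V5.D 1 (-1)) ⟨2, 2, 3, 1, 1, 1, 2, 1, 4, 0⟩ :=
  Good.n2 (Good.n0 L02719 L02720) (Good.n0 (Good.n0 L02721 (Good.n2 L02722 (Good.n2 L02723 L02724))) g00390)
theorem g00392 : Good (Phi V5.P V5.D 1 (-1)) ⟨1, 1, 2, 0, 1, 1, 1, 0, 3, 0⟩ :=
  Good.n1 (Good.n3 g00383 (Good.n0 g00386 L02692)) (Good.n3 (Good.n0 g00389 L02718) (Good.n0 (Good.n4 g00391 (Good.n0 L02732 L02733)) L02734))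
theorem g00393 : Good (Phi V5.P V5.D 1 (-1)) ⟨2, 2, 2, 0, 3, 6, 3, 0, 3, 1⟩ :=
  Good.n4 (Good.n0 (Good.n3 (Good.n3 L02738 L02739) L02740) (Good.n3 (Good.n3 L02741 L02742) L02743)) (Good.n0 L02744 L02745)
theorem g00394 : Good (Phi V5.P V5.D 1 (-1)) ⟨2, 2, 2, 0, 1, 1, 3, 0, 3, 1⟩ :=
  Good.n2 (Good.n4 (Good.n0 L02735 L02736) L02737) (Good.n2 g00393 (Good.n4 (Good.n0 L02746 L02747) L02748))
theorem g00395 : Good (Phi V5.P V5.D 1 (-1)) ⟨2, 2, 2, 0, 1, 1, 3, 1, 3, 1⟩ :=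
  Good.n2 (Good.n4 L02749 L02750) (Good.n4 (Good.n0 (Good.n2 L02751 L02752) (Good.n4 L02753 L02754)) (Good.n0 L02755 L02756))
theorem g00396 : Good (Phi V5.P V5.D 1 (-1)) ⟨2, 2, 2, 0, 1, 1, 2, 1, 3, 1⟩ :=
  Good.n0 (Good.n2 (Good.n4 L02757 L02758) (Good.n4 L02759 L02760)) (Good.n4 (Good.n2 L02761 (Good.n2 L02762 L02763)) (Good.n2 L02764 (Good.n2 L02765 L02766)))
theorem g00397 : Good (Phi V5.P V5.D 1 (-1)) ⟨3, 4, 2, 0, 2, 2, 1, 0, 3, 2⟩ :=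
  Good.n4 (Good.n3 (Good.n2 L02768 L02769) (Good.n2 L02770 L02771)) (Good.n3 L02772 (Good.n2 L02773 L02774))
theorem g00398 : Good (Phi V5.P V5.D 1 (-1)) ⟨2, 2, 2, 0, 2, 2, 1, 0, 3, 2⟩ :=
  Good.n0 g00397 (Good.n3 (Good.n2 L02775 L02776) (Good.n2 (Good.n4 L02777 (Good.n3 L02778 L02779)) L02780))
theorem g00399 : Good (Phi V5.P V5.D 1 (-1)) ⟨2, 2, 2, 0, 2, 3, 1, 0, 4, 4⟩ :=
  Good.n0 (Good.n3 L02782 (Good.n4 L02783 (Good.n2 L02784 L02785))) (Good.n3 L02786 (Good.n0 (Good.n2 L02787 L02788) (Good.n2 L02789 L02790)))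
theorem g00400 : Good (Phi V5.P V5.D 1 (-1)) ⟨1, 1, 2, 0, 2, 3, 1, 0, 3, 2⟩ :=
  Good.n0 (Good.n4 g00399 (Good.n3 (Good.n2 L02791 L02792) (Good.n2 (Good.n2 L02793 L02794) L02795))) L02796
theorem g00401 : Good (Phi V5.P V5.D 1 (-1)) ⟨2, 2, 2, 0, 9, 304, 8, 126, 9, 224⟩ :=
  Good.n4 (Good.n2 (Good.n3 L02817 (Good.n4 (Good.n2 (Good.n3 L02818 L02819) L02820) L02821)) L02822) L02823
theorem g00402 : Good (Phi V5.P V5.D 1 (-1)) ⟨2, 2, 2, 0, 8, 152, 6, 31, 8, 112⟩ :=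
  Good.n3 (Good.n4 (Good.n3 L02811 (Good.n4 (Good.n3 L02812 (Good.n2 L02813 L02814)) L02815)) L02816) (Good.n4 (Good.n2 (Good.n3 g00401 L02824) L02825) L02826)
theorem g00403 : Good (Phi V5.P V5.D 1 (-1)) ⟨2, 2, 2, 0, 6, 38, 5, 15, 7, 56⟩ :=
  Good.n2 (Good.n3 L02810 (Good.n4 (Good.n2 g00402 L02827) L02828)) (Good.n3 (Good.n4 (Good.n2 L02829 L02830) L02831) L02832)
theorem g00404 : Good (Phi V5.P V5.D 1 (-1)) ⟨2, 2, 2, 0, 5, 19, 4, 7, 6, 28⟩ :=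
  Good.n3 (Good.n4 (Good.n3 L02806 (Good.n2 L02807 L02808)) L02809) (Good.n2 (Good.n4 g00403 L02833) L02834)
theorem g00405 : Good (Phi V5.P V5.D 1 (-1)) ⟨2, 2, 2, 0, 3, 4, 2, 1, 4, 7⟩ :=
  Good.n3 L02802 (Good.n4 (Good.n2 L02803 (Good.n3 L02804 (Good.n4 (Good.n2 L02805 g00404) L02835))) L02836)
theorem g00406 : Good (Phi V5.P V5.D 1 (-1)) ⟨2, 2, 2, 0, 4, 10, 2, 1, 4, 7⟩ :=
  Good.n4 (Good.n3 L02837 (Good.n2 (Good.n4 (Good.n3 (Good.n3 L02838 L02839) L02840) L02841) L02842)) L02843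
theorem g00407 : Good (Phi V5.P V5.D 1 (-1)) ⟨1, 1, 2, 0, 1, 1, 1, 0, 3, 3⟩ :=
  Good.n4 (Good.n0 (Good.n2 (Good.n0 L02797 L02798) L02799) L02800) (Good.n0 (Good.n2 (Good.n3 L02801 (Good.n2 g00405 (Good.n2 g00406 L02844))) L02845) L02846)
theorem g00408 : Good (Phi V5.P V5.D 1 (-1)) ⟨1, 1, 2, 0, 1, 1, 1, 0, 1, 0⟩ :=
  Good.n4 (Good.n4 g00392 (Good.n0 (Good.n3 (Good.n3 g00394 g00395) g00396) L02767)) (Good.n4 (Good.n2 (Good.n0 g00398 L02781) g00400) g00407)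
theorem g00409 : Good (Phi V5.P V5.D 1 (-1)) ⟨3, 4, 2, 1, 2, 3, 4, 0, 4, 1⟩ :=
  Good.n2 (Good.n4 (Good.n3 L02858 L02859) (Good.n3 L02860 (Good.n0 L02861 L02862))) (Good.n0 (Good.n2 L02863 L02864) (Good.n1 L02865 L02866))
theorem g00410 : Good (Phi V5.P V5.D 1 (-1)) ⟨2, 2, 2, 1, 1, 1, 4, 0, 3, 0⟩ :=
  Good.n2 (Good.n4 L02852 L02853) (Good.n4 (Good.n0 (Good.n2 L02854 (Good.n1 L02855 L02856)) L02857) (Good.n0 g00409 L02867))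
theorem g00411 : Good (Phi V5.P V5.D 1 (-1)) ⟨3, 4, 2, 1, 2, 3, 4, 1, 4, 1⟩ :=
  Good.n2 (Good.n4 L02872 L02873) (Good.n4 (Good.n2 L02874 L02875) (Good.n0 (Good.n2 L02876 L02877) (Good.n1 L02878 L02879)))
theorem g00412 : Good (Phi V5.P V5.D 1 (-1)) ⟨2, 2, 2, 1, 1, 1, 3, 0, 3, 0⟩ :=
  Good.n3 g00410 (Good.n0 (Good.n2 L02868 (Good.n4 (Good.n2 L02869 (Good.n2 L02870 L02871)) g00411)) L02880)
theorem g00413 : Good (Phi V5.P V5.D 1 (-1)) ⟨3, 4, 2, 1, 2, 3, 3, 1, 3, 0⟩ :=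
  Good.n4 (Good.n2 L02883 (Good.n0 L02884 L02885)) (Good.n4 (Good.n1 L02886 L02887) (Good.n2 L02888 (Good.n0 L02889 L02890)))
theorem g00414 : Good (Phi V5.P V5.D 1 (-1)) ⟨3, 4, 2, 1, 2, 3, 2, 1, 3, 0⟩ :=
  Good.n4 (Good.n2 (Good.n0 L02894 L02895) (Good.n0 L02896 (Good.n3 L02897 L02898))) (Good.n4 (Good.n0 L02899 (Good.n1 L02900 L02901)) (Good.n0 L02902 L02903))
theorem g00415 : Good (Phi V5.P V5.D 1 (-1)) ⟨1, 1, 2, 1, 1, 1, 1, 0, 3, 0⟩ :=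
  Good.n3 (Good.n3 (Good.n0 g00412 L02881) (Good.n0 (Good.n0 (Good.n2 L02882 g00413) L02891) L02892)) (Good.n0 (Good.n0 (Good.n2 L02893 g00414) L02904) L02905)
theorem g00416 : Good (Phi V5.P V5.D 1 (-1)) ⟨1, 1, 2, 1, 2, 2, 2, 0, 3, 1⟩ :=
  Good.n0 (Good.n0 (Good.n4 (Good.n3 (Good.n3 L02906 L02907) L02908) (Good.n3 L02909 L02910)) L02911) L02912
theorem g00417 : Good (Phi V5.P V5.D 1 (-1)) ⟨3, 4, 2, 1, 3, 6, 4, 0, 4, 2⟩ :=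
  Good.n4 (Good.n2 (Good.n3 L02913 (Good.n0 L02914 L02915)) (Good.n3 L02916 (Good.n0 L02917 L02918))) (Good.n2 (Good.n3 L02919 L02920) L02921)
theorem g00418 : Good (Phi V5.P V5.D 1 (-1)) ⟨3, 4, 2, 1, 3, 6, 3, 0, 4, 2⟩ :=
  Good.n3 g00417 (Good.n4 (Good.n0 (Good.n0 L02922 L02923) L02924) (Good.n0 (Good.n0 L02925 L02926) L02927))
theorem g00419 : Good (Phi V5.P V5.D 1 (-1)) ⟨1, 1, 2, 1, 3, 7, 3, 0, 4, 2⟩ :=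
  Good.n0 (Good.n0 (Good.n0 (Good.n4 (Good.n2 L02930 L02931) L02932) (Good.n1 L02933 L02934)) L02935) L02936
theorem g00420 : Good (Phi V5.P V5.D 1 (-1)) ⟨1, 1, 2, 1, 2, 3, 3, 1, 4, 2⟩ :=
  Good.n0 (Good.n0 (Good.n2 (Good.n4 L02937 (Good.n0 L02938 L02939)) (Good.n0 L02940 L02941)) L02942) L02943
theorem g00421 : Good (Phi V5.P V5.D 1 (-1)) ⟨3, 4, 2, 1, 2, 3, 2, 0, 4, 3⟩ :=
  Good.n4 (Good.n2 (Good.n3 (Good.n3 L02944 L02945) (Good.n0 L02946 L02947)) L02948) (Good.n2 L02949 L02950)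
theorem g00422 : Good (Phi V5.P V5.D 1 (-1)) ⟨1, 1, 2, 1, 2, 3, 2, 0, 3, 1⟩ :=
  Good.n4 (Good.n3 (Good.n2 (Good.n0 (Good.n0 g00418 L02928) L02929) g00419) g00420) (Good.n0 (Good.n0 g00421 L02951) L02952)
theorem g00423 : Good (Phi V5.P V5.D 1 (-1)) ⟨3, 4, 2, 1, 1, 1, 2, 1, 3, 1⟩ :=
  Good.n2 (Good.n4 L02953 L02954) (Good.n4 (Good.n3 L02955 L02956) (Good.n2 L02957 (Good.n1 L02958 L02959)))
theorem g00424 : Good (Phi V5.P V5.D 1 (-1)) ⟨3, 4, 2, 1, 2, 2, 1, 0, 3, 2⟩ :=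
  Good.n3 (Good.n2 L02962 L02963) (Good.n3 (Good.n2 (Good.n0 L02964 L02965) L02966) (Good.n4 L02967 L02968))
theorem g00425 : Good (Phi V5.P V5.D 1 (-1)) ⟨3, 4, 2, 1, 9, 304, 8, 126, 9, 224⟩ :=
  Good.n4 (Good.n2 (Good.n3 L02988 (Good.n4 (Good.n2 (Good.n3 L02989 L02990) L02991) L02992)) L02993) L02994
theorem g00426 : Good (Phi V5.P V5.D 1 (-1)) ⟨3, 4, 2, 1, 8, 152, 6, 31, 8, 112⟩ :=
  Good.n3 (Good.n4 (Good.n3 L02982 (Good.n4 (Good.n3 L02983 (Good.n2 L02984 L02985)) L02986)) L02987) (Good.n4 (Good.n2 (Good.n3 g00425 L02995) L02996) L02997)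
theorem g00427 : Good (Phi V5.P V5.D 1 (-1)) ⟨3, 4, 2, 1, 6, 38, 5, 15, 7, 56⟩ :=
  Good.n2 (Good.n3 L02981 (Good.n4 (Good.n2 g00426 L02998) L02999)) (Good.n3 (Good.n4 (Good.n2 L03000 L03001) L03002) L03003)
theorem g00428 : Good (Phi V5.P V5.D 1 (-1)) ⟨3, 4, 2, 1, 5, 19, 4, 7, 6, 28⟩ :=
  Good.n3 (Good.n4 (Good.n3 L02977 (Good.n2 L02978 L02979)) L02980) (Good.n2 (Good.n4 g00427 L03004) L03005)
theorem g00429 : Good (Phi V5.P V5.D 1 (-1)) ⟨3, 4, 2, 1, 3, 4, 2, 1, 4, 7⟩ :=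
  Good.n3 L02973 (Good.n4 (Good.n2 L02974 (Good.n3 L02975 (Good.n4 (Good.n2 L02976 g00428) L03006))) L03007)
theorem g00430 : Good (Phi V5.P V5.D 1 (-1)) ⟨3, 4, 2, 1, 4, 10, 2, 1, 4, 7⟩ :=
  Good.n4 (Good.n3 L03008 (Good.n2 (Good.n4 (Good.n3 (Good.n3 L03009 L03010) L03011) L03012) L03013)) L03014
theorem g00431 : Good (Phi V5.P V5.D 1 (-1)) ⟨3, 4, 2, 1, 2, 2, 1, 0, 3, 3⟩ :=
  Good.n4 (Good.n2 L02969 (Good.n2 L02970 L02971)) (Good.n3 L02972 (Good.n2 g00429 (Good.n2 g00430 L03015)))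
theorem g00432 : Good (Phi V5.P V5.D 1 (-1)) ⟨3, 4, 2, 1, 2, 3, 1, 0, 4, 5⟩ :=
  Good.n3 (Good.n4 (Good.n0 (Good.n2 L03024 L03025) (Good.n2 L03026 L03027)) (Good.n2 L03028 L03029)) (Good.n4 (Good.n2 L03030 L03031) (Good.n2 L03032 L03033))
theorem g00433 : Good (Phi V5.P V5.D 1 (-1)) ⟨3, 4, 2, 1, 2, 3, 1, 0, 3, 2⟩ :=
  Good.n4 (Good.n3 (Good.n2 L03018 L03019) (Good.n4 (Good.n2 L03020 L03021) (Good.n2 L03022 L03023))) g00432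
theorem g00434 : Good (Phi V5.P V5.D 1 (-1)) ⟨1, 1, 2, 1, 1, 1, 1, 0, 2, 1⟩ :=
  Good.n2 (Good.n0 (Good.n0 (Good.n4 g00424 g00431) L03016) L03017) (Good.n0 (Good.n4 (Good.n0 g00433 L03034) L03035) L03036)
theorem g00435 : Good (Phi V5.P V5.D 1 (-1)) ⟨1, 1, 2, 1, 1, 1, 1, 0, 1, 0⟩ :=
  Good.n4 (Good.n4 g00415 (Good.n3 (Good.n2 g00416 g00422) (Good.n0 (Good.n0 g00423 L02960) L02961))) g00434
theorem g00436 : Good (Phi V5.P V5.D 1 (-1)) ⟨1, 1, 2, 1, 1, 1, 1, 0, 0, 0⟩ :=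
  Good.n4 g00435 (Good.n2 (Good.n4 (Good.n0 (Good.n4 (Good.n2 L03037 L03038) L03039) L03040) L03041) L03042)
theorem g00437 : Good (Phi V5.P V5.D 1 (-1)) ⟨1, 1, 1, 0, 1, 1, 1, 0, 0, 0⟩ :=
  Good.n1 (Good.n4 g00408 (Good.n2 (Good.n4 (Good.n4 (Good.n2 L02847 L02848) L02849) L02850) L02851)) g00436
theorem g00438 : Good (Phi V5.P V5.D 1 (-1)) ⟨2, 2, 2, 0, 2, 2, 1, 1, 3, 0⟩ :=
  Good.n3 (Good.n0 L03043 L03044) (Good.n4 (Good.n0 L03045 L03046) (Good.n0 L03047 (Good.n0 L03048 L03049)))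
theorem g00439 : Good (Phi V5.P V5.D 1 (-1)) ⟨2, 2, 2, 0, 3, 6, 1, 1, 4, 1⟩ :=
  Good.n3 (Good.n0 L03057 L03058) (Good.n0 L03059 (Good.n0 L03060 (Good.n1 (Good.n0 (Good.n4 L03061 L03062) L03063) L03064)))
theorem g00440 : Good (Phi V5.P V5.D 1 (-1)) ⟨2, 2, 2, 0, 3, 6, 1, 1, 3, 0⟩ :=
  Good.n4 (Good.n3 (Good.n0 L03051 (Good.n0 L03052 L03053)) (Good.n0 L03054 (Good.n0 L03055 L03056))) g00439
theorem g00441 : Good (Phi V5.P V5.D 1 (-1)) ⟨5, 21, 3, 0, 4, 15, 3, 7, 4, 0⟩ :=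
  Good.n4 (Good.n1 L03081 (Good.n0 L03082 L03083)) (Good.n1 L03084 (Good.n0 L03085 (Good.n1 L03086 L03087)))
theorem g00442 : Good (Phi V5.P V5.D 1 (-1)) ⟨5, 22, 3, 0, 4, 15, 3, 7, 4, 0⟩ :=
  Good.n1 (Good.n4 (Good.n0 (Good.n1 L03088 L03089) L03090) (Good.n0 (Good.n0 L03091 L03092) L03093)) L03094
theorem g00443 : Good (Phi V5.P V5.D 1 (-1)) ⟨3, 5, 3, 0, 3, 7, 3, 7, 4, 0⟩ :=
  Good.n2 (Good.n0 L03077 (Good.n0 L03078 L03079)) (Good.n0 (Good.n0 L03080 g00441) (Good.n0 g00442 L03095))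
theorem g00444 : Good (Phi V5.P V5.D 1 (-1)) ⟨4, 10, 3, 0, 3, 7, 3, 7, 5, 2⟩ :=
  Good.n4 (Good.n0 L03097 (Good.n1 L03098 (Good.n0 L03099 L03100))) (Good.n2 L03101 (Good.n3 L03102 L03103))
theorem g00445 : Good (Phi V5.P V5.D 1 (-1)) ⟨3, 5, 3, 0, 3, 7, 2, 3, 5, 2⟩ :=
  Good.n0 (Good.n3 L03096 g00444) (Good.n0 (Good.n1 (Good.n3 L03104 (Good.n0 (Good.n2 L03105 L03106) L03107)) L03108) L03109)
theorem g00446 : Good (Phi V5.P V5.D 1 (-1)) ⟨3, 5, 3, 0, 3, 7, 2, 3, 3, 0⟩ :=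
  Good.n4 (Good.n3 (Good.n0 (Good.n4 L03072 L03073) (Good.n0 (Good.n1 L03074 L03075) L03076)) g00443) (Good.n4 g00445 (Good.n0 (Good.n3 L03110 (Good.n2 L03111 L03112)) (Good.n3 L03113 L03114)))
theorem g00447 : Good (Phi V5.P V5.D 1 (-1)) ⟨2, 2, 3, 0, 3, 7, 1, 1, 3, 0⟩ :=
  Good.n0 (Good.n4 L03065 (Good.n3 L03066 L03067)) (Good.n3 (Good.n4 (Good.n0 (Good.n0 L03068 L03069) L03070) L03071) g00446)
theorem g00448 : Good (Phi V5.P V5.D 1 (-1)) ⟨4, 10, 3, 1, 3, 7, 2, 3, 4, 0⟩ :=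
  Good.n3 (Good.n0 L03126 L03127) (Good.n2 L03128 (Good.n0 (Good.n4 (Good.n0 L03129 L03130) (Good.n1 L03131 L03132)) L03133))
theorem g00449 : Good (Phi V5.P V5.D 1 (-1)) ⟨3, 5, 3, 1, 3, 7, 2, 3, 3, 0⟩ :=
  Good.n0 (Good.n4 g00448 (Good.n3 L03134 (Good.n2 L03135 (Good.n0 (Good.n0 L03136 L03137) L03138)))) L03139
theorem g00450 : Good (Phi V5.P V5.D 1 (-1)) ⟨2, 2, 3, 1, 3, 7, 1, 1, 3, 0⟩ :=
  Good.n3 (Good.n4 (Good.n0 L03115 (Good.n0 (Good.n4 L03116 L03117) L03118)) (Good.n0 L03119 L03120)) (Good.n0 (Good.n4 (Good.n0 L03121 L03122) (Good.n4 (Good.n0 L03123 L03124) L03125)) g00449)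
theorem g00451 : Good (Phi V5.P V5.D 1 (-1)) ⟨2, 2, 2, 0, 1, 1, 1, 1, 4, 2⟩ :=
  Good.n3 (Good.n2 L03141 (Good.n0 L03142 L03143)) (Good.n0 (Good.n2 L03144 L03145) (Good.n2 L03146 (Good.n3 L03147 L03148)))
theorem g00452 : Good (Phi V5.P V5.D 1 (-1)) ⟨2, 2, 2, 0, 1, 1, 1, 1, 3, 1⟩ :=
  Good.n4 g00451 (Good.n3 (Good.n0 (Good.n2 L03149 L03150) (Good.n2 L03151 L03152)) (Good.n2 L03153 L03154))
theorem g00453 : Good (Phi V5.P V5.D 1 (-1)) ⟨1, 1, 2, 0, 1, 1, 1, 1, 2, 0⟩ :=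
  Good.n4 (Good.n2 (Good.n0 g00438 L03050) (Good.n0 (Good.n2 g00440 (Good.n1 g00447 g00450)) L03140)) (Good.n0 g00452 L03155)
theorem g00454 : Good (Phi V5.P V5.D 1 (-1)) ⟨2, 2, 2, 0, 1, 1, 2, 2, 4, 4⟩ :=
  Good.n0 (Good.n2 L03156 (Good.n4 (Good.n2 L03157 L03158) (Good.n2 L03159 L03160))) (Good.n2 L03161 (Good.n4 (Good.n3 (Good.n0 L03162 L03163) L03164) (Good.n2 L03165 L03166)))
theorem g00455 : Good (Phi V5.P V5.D 1 (-1)) ⟨2, 2, 2, 0, 1, 1, 1, 1, 3, 2⟩ :=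
  Good.n3 (Good.n4 g00454 (Good.n2 (Good.n3 L03167 L03168) (Good.n2 L03169 L03170))) (Good.n4 (Good.n2 L03171 L03172) (Good.n2 L03173 L03174))
theorem g00456 : Good (Phi V5.P V5.D 1 (-1)) ⟨2, 2, 2, 0, 2, 2, 1, 1, 3, 3⟩ :=
  Good.n3 (Good.n4 (Good.n1 L03176 (Good.n2 L03177 L03178)) (Good.n2 (Good.n0 L03179 L03180) L03181)) L03182
theorem g00457 : Good (Phi V5.P V5.D 1 (-1)) ⟨1, 1, 2, 0, 3, 4, 1, 1, 2, 2⟩ :=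
  Good.n4 (Good.n3 (Good.n2 (Good.n4 (Good.n0 (Good.n3 L03185 L03186) L03187) L03188) L03189) L03190) L03191
theorem g00458 : Good (Phi V5.P V5.D 1 (-1)) ⟨1, 1, 2, 0, 1, 1, 1, 1, 0, 0⟩ :=
  Good.n4 (Good.n4 g00453 (Good.n4 (Good.n0 g00455 L03175) (Good.n2 (Good.n0 g00456 L03183) L03184))) (Good.n2 (Good.n4 (Good.n2 g00457 L03192) L03193) L03194)
theorem g00459 : Good (Phi V5.P V5.D 1 (-1)) ⟨1, 1, 2, 1, 2, 2, 1, 1, 2, 0⟩ :=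
  Good.n4 (Good.n0 (Good.n4 L03195 (Good.n0 L03196 L03197)) L03198) (Good.n0 (Good.n0 (Good.n3 L03199 (Good.n4 L03200 L03201)) L03202) L03203)
theorem g00460 : Good (Phi V5.P V5.D 1 (-1)) ⟨2, 2, 2, 1, 2, 3, 2, 2, 3, 0⟩ :=
  Good.n0 (Good.n4 (Good.n2 L03204 (Good.n0 L03205 L03206)) (Good.n2 L03207 (Good.n1 L03208 L03209))) L03210
theorem g00461 : Good (Phi V5.P V5.D 1 (-1)) ⟨3, 4, 2, 1, 2, 3, 2, 3, 3, 0⟩ :=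
  Good.n4 (Good.n3 (Good.n0 L03212 (Good.n1 L03213 L03214)) (Good.n1 (Good.n0 L03215 L03216) L03217)) (Good.n0 (Good.n4 L03218 L03219) (Good.n2 L03220 (Good.n1 (Good.n3 L03221 L03222) L03223)))
theorem g00462 : Good (Phi V5.P V5.D 1 (-1)) ⟨3, 4, 2, 1, 2, 3, 1, 1, 4, 3⟩ :=
  Good.n3 (Good.n4 L03229 (Good.n2 L03230 (Good.n3 L03231 L03232))) (Good.n3 (Good.n4 L03233 L03234) L03235)
theorem g00463 : Good (Phi V5.P V5.D 1 (-1)) ⟨1, 1, 2, 1, 2, 3, 1, 1, 2, 0⟩ :=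
  Good.n4 (Good.n3 (Good.n0 g00460 L03211) (Good.n0 (Good.n0 g00461 L03224) L03225)) (Good.n0 (Good.n0 (Good.n4 (Good.n3 L03226 (Good.n3 L03227 L03228)) g00462) L03236) L03237)
theorem g00464 : Good (Phi V5.P V5.D 1 (-1)) ⟨3, 4, 2, 1, 2, 3, 2, 2, 4, 4⟩ :=
  Good.n4 (Good.n3 (Good.n2 L03239 L03240) (Good.n2 L03241 L03242)) (Good.n3 (Good.n2 L03243 L03244) L03245)
theorem g00465 : Good (Phi V5.P V5.D 1 (-1)) ⟨3, 4, 2, 1, 1, 1, 2, 2, 4, 5⟩ :=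
  Good.n2 (Good.n2 L03246 (Good.n4 L03247 (Good.n3 L03248 L03249))) (Good.n2 (Good.n3 L03250 L03251) L03252)
theorem g00466 : Good (Phi V5.P V5.D 1 (-1)) ⟨3, 4, 2, 1, 1, 1, 1, 1, 3, 2⟩ :=
  Good.n3 (Good.n4 (Good.n2 L03238 g00464) g00465) (Good.n2 (Good.n4 (Good.n3 L03253 L03254) (Good.n3 (Good.n2 L03255 L03256) L03257)) L03258)
theorem g00467 : Good (Phi V5.P V5.D 1 (-1)) ⟨3, 4, 2, 1, 2, 2, 2, 2, 4, 6⟩ :=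
  Good.n0 (Good.n2 (Good.n3 L03260 (Good.n4 L03261 L03262)) (Good.n3 L03263 L03264)) (Good.n2 (Good.n1 L03265 L03266) (Good.n1 L03267 L03268))
theorem g00468 : Good (Phi V5.P V5.D 1 (-1)) ⟨2, 2, 2, 1, 3, 4, 2, 2, 5, 15⟩ :=
  Good.n0 (Good.n2 (Good.n3 (Good.n3 L03275 (Good.n4 (Good.n2 L03276 L03277) L03278)) L03279) L03280) L03281
theorem g00469 : Good (Phi V5.P V5.D 1 (-1)) ⟨2, 2, 2, 1, 2, 2, 2, 2, 4, 7⟩ :=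
  Good.n2 (Good.n4 (Good.n0 (Good.n3 (Good.n2 L03270 L03271) (Good.n2 L03272 L03273)) L03274) g00468) L03282
theorem g00470 : Good (Phi V5.P V5.D 1 (-1)) ⟨2, 2, 2, 1, 1, 1, 1, 1, 2, 1⟩ :=
  Good.n4 (Good.n0 g00466 L03259) (Good.n2 (Good.n3 (Good.n4 (Good.n0 g00467 L03269) g00469) L03283) L03284)
theorem g00471 : Good (Phi V5.P V5.D 1 (-1)) ⟨1, 1, 2, 1, 3, 4, 1, 1, 2, 2⟩ :=
  Good.n4 (Good.n3 (Good.n0 (Good.n2 (Good.n4 (Good.n3 L03286 L03287) L03288) L03289) L03290) L03291) L03292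
theorem g00472 : Good (Phi V5.P V5.D 1 (-1)) ⟨1, 1, 2, 1, 1, 1, 1, 1, 0, 0⟩ :=
  Good.n4 (Good.n4 (Good.n2 g00459 g00463) (Good.n0 g00470 L03285)) (Good.n2 (Good.n4 (Good.n2 g00471 L03293) L03294) L03295)
theorem all : Good (Phi V5.P V5.D 1 (-1)) ⟨0, 0, 0, 0, 0, 0, 0, 0, 0, 0⟩ :=
  Good.n0 g00366 (Good.n1 (Good.n2 g00380 (Good.n3 g00437 (Good.n1 g00458 g00472))) L03296)

end Crest.Agent.R097C5.N5pm
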