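import Crest.Agent.R097C5.N5pp
import Crest.Agent.R097C5.N5pm
import Crest.Agent.R097C5.N5mp
import Crest.Agent.R097C5.N5mm
import Crest.Agent.R097.V5S

/-!
# Row 97: `Cert 5`
-/

set_option autoImplicit false

namespace Crest.Agent.R097C5

open Crest.Agent.R097 Crest.Agent.R097.KA

theorem cover5 : CoverS1 V5.P V5.D :=
  coverS1_of_charts (by simp [CQ.nOK, V5.P]) (by norm_num [CQ.Par.A0, V5.P])
    (by norm_num [CQ.Par.A0, V5.P]) N5pp.all N5pm.all N5mp.all N5mm.all

theorem cert5 : ∃ (C : CertData) (Lam : ℝ), Cert 5 C Lam := ⟨_, _, V5.cert cover5⟩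

end Crest.Agent.R097C5
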