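import Crest.Agent.R097.Link2
import Crest.Agent.R097C4.All
import Crest.Agent.R097C5.All

/-!
# Row 97: the final theorem
-/

set_option autoImplicit false
open MeasureTheory Metric Set Filter Topology
open scoped NNReal RealInnerProductSpace Gradient ContDiff Laplacian
open Crest.AnalysisR.PDE.OnePhase

namespace Crest.Agent.R097

/-- one-homogeneous global minimizers in dimension `≤ 6` are flat -/
theorem S0128_done
    (d : ℕ) (hd1 : 1 ≤ d) (hd6 : d ≤ 6)
    (u : EuclideanSpace ℝ (Fin d) → ℝ) (G : EuclideanSpace ℝ (Fin d) → EuclideanSpace ℝ (Fin d))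
    (hmin : IsGlobalMinimizer u G) (hhom : IsOneHomogeneous u)
    (hne : ¬ (u =ᵐ[volume] 0)) :
    ∃ e : EuclideanSpace ℝ (Fin d), ‖e‖ = 1 ∧ u =ᵐ[volume] fun x => max (inner ℝ x e) 0 :=
  S0128_of_cert45 Crest.Agent.R097C4.cert4 Crest.Agent.R097C5.cert5 d hd1 hd6 u G hmin hhom hne

end Crest.Agent.R097
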