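import Crest.Agent.R097.KP7
import Crest.Agent.R097.T5Ymm

/-!
# Row 97, box cover in dimension n = 5 (generated)
-/

set_option autoImplicit false
set_option Elab.async false
set_option maxHeartbeats 0
set_option maxRecDepth 100000

open Crest.Agent.R097 Crest.Agent.R097.KA


namespace Crest.Agent.R097C5.N5mm

theorem L00000 : Good (Phi V5.P V5.D (-1) (-1)) ⟨2, 0, 2, 0, 1, 0, 3, 0, 3, 0⟩ :=
  leafX_sound T5.ok_mm T5.Ymm.bz_eq (w := 182) (c := ⟨⟨.ofNat 510, .negSucc 41, .ofNat 69, .ofNat 237, .ofNat 94, .negSucc 1956⟩, ⟨.negSucc 50, .negSucc 7, .negSucc 46, .negSucc 103, .ofNat 38, .ofNat 188⟩, ⟨.negSucc 369, .ofNat 7, .negSucc 151, .negSucc 315, .negSucc 193, .ofNat 1771⟩, ⟨.ofNat 1599, .negSucc 120, .ofNat 107, .ofNat 644, .ofNat 185, .negSucc 5851⟩, ⟨.ofNat 18, .negSucc 184, .ofNat 42, .negSucc 877, .ofNat 132, .negSucc 65⟩,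 .ofNat 401, .ofNat 29, .ofNat 0, .ofNat 29, .ofNat 598, .ofNat 0, .ofNat 294, .negSucc 15, .negSucc 156, .ofNat 0, .ofNat 128, .ofNat 28, .ofNat 0, .ofNat 0, .ofNat 477, .ofNat 2977, .ofNat 0, .ofNat 0, .ofNat 0, .ofNat 0, .ofNat 0, .ofNat 0, .ofNat 0, .ofNat 0, .ofNat 0, .ofNat 0, .ofNat 0, .ofNat 0, .ofNat 2273614240545846356220456104733179904, .ofNat 0, .ofNat 0, .ofNat 0⟩)
    (by decide +kernel)
theorem L00001 : Good (Phi V5.P V5.D (-1) (-1)) ⟨2, 0, 2, 0, 1, 0, 3, 0, 3, 1⟩ :=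
  leafX_sound T5.ok_mm T5.Ymm.bz_eq (w := 184) (c := ⟨⟨.negSucc 1143, .negSucc 201, .ofNat 38, .ofNat 76, .ofNat 5, .negSucc 386⟩, ⟨.negSucc 36, .negSucc 33, .ofNat 319, .negSucc 105, .negSucc 0, .ofNat 69⟩, ⟨.ofNat 1467, .ofNat 197, .negSucc 76, .negSucc 1005, .negSucc 53, .ofNat 624⟩, ⟨.negSucc 3409, .negSucc 234, .ofNat 1, .ofNat 119, .ofNat 4, .negSucc 1123⟩, ⟨.negSucc 127, .negSucc 68, .ofNat 12, .negSucc 823, .ofNat 131, .ofNat 190⟩, .ofNat 400, .ofNat 31, .ofNat 0, .ofNat 31, .ofNat 601, .ofNat 0, .ofNat 266, .negSucc 17, .negSucc 133, .ofNat 0, .ofNat 128, .ofNat 33, .ofNat 0, .ofNat 0, .ofNat 645, .ofNat 10167, .ofNat 0, .ofNat 0, .ofNat 0, .ofNat 0, .ofNat 9336791623066348946216320309760360448, .ofNat 0, .ofNat 0, .ofNat 0, .ofNat 0, .ofNat 0, .ofNat 0, .ofNat 0, .ofNat 14430034808509016893564189606898827264, .ofNat 0,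 .ofNat 0, .ofNat 0⟩)
    (by decide +kernel)
theorem L00002 : Good (Phi V5.P V5.D (-1) (-1)) ⟨2, 0, 2, 0, 1, 0, 3, 0, 2, 1⟩ :=
  out_sound (S := T5.ds_mm) T5.ok_mm (w := 19) (j := 1) (by decide +kernel)
theorem L00003 : Good (Phi V5.P V5.D (-1) (-1)) ⟨2, 0, 2, 0, 1, 0, 3, 0, 1, 1⟩ :=
  out_sound (S := T5.ds_mm) T5.ok_mm (w := 17) (j := 1) (by decide +kernel)
theorem L00004 : Good (Phi V5.P V5.D (-1) (-1)) ⟨2, 0, 2, 0, 1, 0, 3, 1, 3, 0⟩ :=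
  leafX_sound T5.ok_mm T5.Ymm.bz_eq (w := 182) (c := ⟨⟨.ofNat 545, .negSucc 132, .ofNat 50, .ofNat 305, .ofNat 32, .negSucc 1877⟩, ⟨.negSucc 19, .ofNat 14, .ofNat 37, .negSucc 164, .negSucc 8, .ofNat 125⟩, ⟨.negSucc 470, .ofNat 200, .negSucc 66, .negSucc 548, .negSucc 44, .ofNat 1697⟩, ⟨.ofNat 1627, .negSucc 239, .ofNat 45, .ofNat 806, .ofNat 51, .negSucc 5474⟩, ⟨.negSucc 231, .ofNat 114, .ofNat 217, .negSucc 618, .ofNat 121, .ofNat 42⟩, .ofNat 582, .ofNat 82, .ofNat 0, .ofNat 82, .ofNat 1154, .ofNat 0, .ofNat 289, .negSucc 27, .negSucc 113, .ofNat 0, .ofNat 128, .ofNat 17, .ofNat 0, .ofNat 0, .ofNat 391, .ofNat 1687, .ofNat 0, .ofNat 0, .ofNat 0, .ofNat 0, .ofNat 0, .ofNat 0, .ofNat 0, .ofNat 0, .ofNat 0, .ofNat 0, .ofNat 0, .ofNat 0, .ofNat 0, .ofNat 0, .ofNat 0, .ofNat 0⟩)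
    (by decide +kernel)
theorem L00005 : Good (Phi V5.P V5.D (-1) (-1)) ⟨2, 0, 2, 0, 1, 0, 3, 1, 3, 1⟩ :=
  leafX_sound T5.ok_mm T5.Ymm.bz_eq (w := 184) (c := ⟨⟨.negSucc 1150, .negSucc 166, .ofNat 39, .negSucc 50, .ofNat 57, .negSucc 138⟩, ⟨.negSucc 29, .negSucc 48, .ofNat 315, .negSucc 66, .negSucc 1, .ofNat 19⟩, ⟨.ofNat 1289, .ofNat 133, .negSucc 59, .negSucc 667, .negSucc 64, .ofNat 374⟩, ⟨.negSucc 3536, .negSucc 133, .ofNat 26, .negSucc 148, .ofNat 184, .negSucc 384⟩, ⟨.negSucc 58, .negSucc 51, .negSucc 16, .negSucc 603, .ofNat 76, .ofNat 30⟩, .ofNat 587, .ofNat 95, .ofNat 0, .ofNat 95, .ofNat 1135, .ofNat 0, .ofNat 480, .negSucc 30, .negSucc 113, .ofNat 0, .ofNat 128, .ofNat 27, .ofNat 0, .ofNat 0, .ofNat 750, .ofNat 8787, .ofNat 0, .ofNat 0, .ofNat 0, .ofNat 0, .ofNat 0, .ofNat 0, .ofNat 0, .ofNat 0, .ofNat 0, .ofNat 0, .ofNat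 0, .ofNat 0, .ofNat 0, .ofNat 0, .ofNat 0, .ofNat 0⟩)
    (by decide +kernel)
theorem L00006 : Good (Phi V5.P V5.D (-1) (-1)) ⟨2, 0, 2, 0, 1, 0, 3, 1, 2, 1⟩ :=
  leafX_sound T5.ok_mm T5.Ymm.bz_eq (w := 182) (c := ⟨⟨.negSucc 1249, .negSucc 166, .ofNat 39, .negSucc 39, .ofNat 36, .ofNat 184⟩, ⟨.negSucc 22, .negSucc 38, .ofNat 328, .negSucc 67, .negSucc 1, .ofNat 66⟩, ⟨.ofNat 1578, .ofNat 138, .negSucc 39, .negSucc 606, .negSucc 21, .ofNat 413⟩, ⟨.negSucc 3786, .negSucc 119, .ofNat 1, .negSucc 160, .ofNat 120, .ofNat 622⟩, ⟨.negSucc 16, .negSucc 29, .ofNat 6, .negSucc 579, .ofNat 51, .ofNat 201⟩, .ofNat 399, .ofNat 27, .ofNat 0, .ofNat 27, .ofNat 604, .ofNat 0, .ofNat 248, .negSucc 14, .negSucc 173, .ofNat 0, .ofNat 128, .ofNat 52, .ofNat 0, .ofNat 0, .ofNat 1370, .ofNat 28973, .ofNat 217696312008528936292141377806925824, .ofNat 0,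 .ofNat 0, .ofNat 0, .ofNat 3466610722306035302189600480176373760, .ofNat 0, .ofNat 0, .ofNat 0, .ofNat 1005280214623855594323744182207774720, .ofNat 0, .ofNat 0, .ofNat 0, .ofNat 2551513958860706672280322084414947328, .ofNat 0, .ofNat 0, .ofNat 0⟩)
    (by decide +kernel)
theorem L00007 : Good (Phi V5.P V5.D (-1) (-1)) ⟨2, 0, 2, 0, 1, 0, 3, 1, 1, 1⟩ :=
  out_sound (S := T5.ds_mm) T5.ok_mm (w := 17) (j := 1) (by decide +kernel)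
theorem L00008 : Good (Phi V5.P V5.D (-1) (-1)) ⟨2, 0, 2, 0, 1, 0, 2, 1, 3, 0⟩ :=
  leafX_sound T5.ok_mm T5.Ymm.bz_eq (w := 178) (c := ⟨⟨.ofNat 396, .ofNat 17, .ofNat 92, .ofNat 326, .negSucc 113, .negSucc 1781⟩, ⟨.negSucc 3, .negSucc 116, .ofNat 120, .negSucc 104, .ofNat 27, .ofNat 104⟩, ⟨.negSucc 323, .ofNat 14, .negSucc 103, .negSucc 620, .ofNat 95, .ofNat 1608⟩, ⟨.ofNat 1150, .ofNat 117, .ofNat 108, .ofNat 897, .negSucc 305, .negSucc 5153⟩, ⟨.ofNat 125, .negSucc 114, .negSucc 30, .negSucc 596, .ofNat 92, .negSucc 124⟩, .ofNat 585, .ofNat 78, .ofNat 0, .ofNat 78, .ofNat 1131, .ofNat 0, .ofNat 414, .negSucc 24, .negSucc 159, .ofNat 0, .ofNat 128, .ofNat 23, .ofNat 0, .ofNat 0, .ofNat 501, .ofNat 787, .ofNat 0, .ofNat 0, .ofNat 0, .ofNat 0, .ofNat 0, .ofNat 0, .ofNat 0, .ofNat 0, .ofNat 0, .ofNat 0, .ofNat 0, .ofNat 0, .ofNat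 0, .ofNat 0, .ofNat 0, .ofNat 0⟩)
    (by decide +kernel)
theorem L00009 : Good (Phi V5.P V5.D (-1) (-1)) ⟨2, 0, 2, 0, 1, 0, 2, 1, 3, 1⟩ :=
  leafX_sound T5.ok_mm T5.Ymm.bz_eq (w := 179) (c := ⟨⟨.negSucc 1182, .negSucc 146, .ofNat 31, .negSucc 34, .ofNat 88, .negSucc 52⟩, ⟨.negSucc 26, .negSucc 37, .ofNat 306, .negSucc 62, .ofNat 5, .ofNat 7⟩, ⟨.ofNat 1211, .ofNat 101, .negSucc 12, .negSucc 509, .negSucc 117, .ofNat 263⟩, ⟨.negSucc 3575, .negSucc 84, .ofNat 12, .negSucc 129, .ofNat 261, .negSucc 161⟩, ⟨.negSucc 87, .negSucc 11, .ofNat 34, .negSucc 508, .ofNat 75, .ofNat 44⟩, .ofNat 584, .ofNat 85, .ofNat 0, .ofNat 85, .ofNat 1147, .ofNat 0, .ofNat 586, .negSucc 26, .negSucc 169, .ofNat 0, .ofNat 128, .ofNat 32, .ofNat 0, .ofNat 0, .ofNat 1022, .ofNat 3308, .ofNat 0, .ofNat 0, .ofNat 0, .ofNat 0, .ofNat 0, .ofNat 0, .ofNat 0, .ofNat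 0, .ofNat 0, .ofNat 0, .ofNat 0, .ofNat 0, .ofNat 0, .ofNat 0, .ofNat 0, .ofNat 0⟩)
    (by decide +kernel)
theorem L00010 : Good (Phi V5.P V5.D (-1) (-1)) ⟨2, 0, 2, 0, 1, 0, 2, 1, 4, 4⟩ :=
  leafX_sound T5.ok_mm T5.Ymm.bz_eq (w := 186) (c := ⟨⟨.negSucc 1214, .negSucc 123, .ofNat 13, .negSucc 42, .ofNat 87, .ofNat 57⟩, ⟨.negSucc 19, .negSucc 40, .ofNat 299, .negSucc 44, .negSucc 2, .negSucc 0⟩, ⟨.ofNat 1401, .ofNat 58, .negSucc 2, .negSucc 320, .negSucc 175, .ofNat 51⟩, ⟨.negSucc 3682, .negSucc 45, .negSucc 6, .negSucc 181, .ofNat 276, .ofNat 164⟩, ⟨.negSucc 45, .negSucc 4, .negSucc 2, .negSucc 438, .ofNat 53, .ofNat 26⟩, .ofNat 399, .ofNat 31, .ofNat 0, .ofNat 31, .ofNat 604, .ofNat 0, .ofNat 247, .negSucc 15, .negSucc 78, .ofNat 0, .ofNat 128, .ofNat 18, .ofNat 0, .ofNat 0, .ofNat 636, .ofNat 9911, .ofNat 0, .ofNat 0, .ofNat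 0, .ofNat 0, .ofNat 0, .ofNat 0, .ofNat 0, .ofNat 0, .ofNat 0, .ofNat 0, .ofNat 0, .ofNat 0, .ofNat 1003031019779627145452696923354955776, .ofNat 0, .ofNat 0, .ofNat 0⟩)
    (by decide +kernel)
theorem L00011 : Good (Phi V5.P V5.D (-1) (-1)) ⟨2, 0, 2, 0, 2, 0, 2, 1, 4, 5⟩ :=
  leafX_sound T5.ok_mm T5.Ymm.bz_eq (w := 202) (c := ⟨⟨.negSucc 1149, .negSucc 103, .ofNat 7, .negSucc 15, .ofNat 70, .ofNat 56⟩, ⟨.negSucc 10, .negSucc 46, .ofNat 274, .negSucc 19, .ofNat 0, .negSucc 1⟩, ⟨.ofNat 1402, .ofNat 72, .ofNat 19, .negSucc 24, .negSucc 273, .negSucc 1⟩, ⟨.negSucc 3544, .negSucc 15, .negSucc 3, .negSucc 54, .ofNat 269, .ofNat 177⟩, ⟨.negSucc 20, .ofNat 4, .negSucc 0, .negSucc 186, .ofNat 16, .ofNat 12⟩, .ofNat 191, .ofNat 5, .ofNat 0, .ofNat 5, .ofNat 227, .ofNat 0, .ofNat 253, .negSucc 4, .negSucc 85, .ofNat 0, .ofNat 128, .ofNat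 12, .ofNat 0, .ofNat 0, .ofNat 517, .ofNat 40024, .ofNat 3693450455619039197543785868752129622016, .ofNat 0, .ofNat 0, .ofNat 0, .ofNat 22798466403979063684792375519808506036224, .ofNat 0, .ofNat 0, .ofNat 0, .ofNat 9570942243745060195648209956487286489088, .ofNat 0, .ofNat 0, .ofNat 0, .ofNat 23593348804079524495008074046332095954944, .ofNat 0, .ofNat 0, .ofNat 0⟩)
    (by decide +kernel)
theorem L00012 : Good (Phi V5.P V5.D (-1) (-1)) ⟨2, 0, 2, 0, 2, 1, 3, 2, 5, 10⟩ :=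
  leafX_sound T5.ok_mm T5.Ymm.bz_eq (w := 212) (c := ⟨⟨.negSucc 1199, .negSucc 123, .ofNat 26, .negSucc 12, .ofNat 55, .ofNat 29⟩, ⟨.negSucc 43, .negSucc 37, .ofNat 300, .negSucc 27, .negSucc 1, .ofNat 1⟩, ⟨.ofNat 1351, .ofNat 71, .ofNat 3, .negSucc 225, .negSucc 102, .ofNat 79⟩, ⟨.negSucc 3586, .negSucc 34, .negSucc 12, .negSucc 81, .ofNat 120, .ofNat 110⟩, ⟨.negSucc 245, .negSucc 12, .ofNat 6, .negSucc 230, .ofNat 42, .ofNat 31⟩, .ofNat 191, .ofNat 5, .ofNat 0, .ofNat 5, .ofNat 228, .ofNat 0, .ofNat 240, .negSucc 8, .negSucc 101, .ofNat 0, .ofNat 128, .ofNat 40, .ofNat 0, .ofNat 0, .ofNat 612, .ofNat 83816, .ofNat 404345688365219251680313304176852778090496, .ofNat 0, .ofNat 0, .ofNat 0, .ofNat 2530677219587514555287322740195343535702016, .ofNat 0, .ofNat 0, .ofNat 0, .ofNat 608590310105422649646348977946962874597376, .ofNat 0,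 .ofNat 0, .ofNat 0, .ofNat 2577276295630839397292449547365849105432576, .ofNat 0, .ofNat 0, .ofNat 0⟩)
    (by decide +kernel)
theorem L00013 : Good (Phi V5.P V5.D (-1) (-1)) ⟨2, 0, 2, 0, 2, 1, 3, 2, 5, 11⟩ :=
  leafX_sound T5.ok_mm T5.Ymm.bz_eq (w := 215) (c := ⟨⟨.negSucc 1072, .negSucc 106, .ofNat 24, .negSucc 39, .negSucc 25, .ofNat 43⟩, ⟨.negSucc 84, .negSucc 36, .ofNat 293, .negSucc 10, .ofNat 30, .negSucc 5⟩, ⟨.ofNat 1223, .ofNat 39, .ofNat 20, .negSucc 129, .ofNat 24, .ofNat 71⟩, ⟨.negSucc 3476, .ofNat 0, .negSucc 20, .negSucc 50, .ofNat 83, .ofNat 119⟩, ⟨.negSucc 275, .negSucc 14, .ofNat 7, .negSucc 177, .ofNat 56, .ofNat 27⟩, .ofNat 191, .ofNat 5, .ofNat 0, .ofNat 5, .ofNat 227, .ofNat 0, .ofNat 258, .negSucc 9, .negSucc 84, .ofNat 0, .ofNat 128, .ofNat 36, .ofNat 0, .ofNat 0, .ofNat 632, .ofNat 506787, .ofNat 3956704112243363968801424406500120436146176,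 .ofNat 0, .ofNat 0, .ofNat 0, .ofNat 6663368817293990285354096370496285842604032, .ofNat 0, .ofNat 0, .ofNat 0, .ofNat 5239621363446806662057563179069753769590784, .ofNat 0, .ofNat 0, .ofNat 0, .ofNat 12625760573222421081972482542770163753680896, .ofNat 0, .ofNat 0, .ofNat 0⟩)
    (by decide +kernel)
theorem L00014 : Good (Phi V5.P V5.D (-1) (-1)) ⟨2, 0, 2, 0, 2, 1, 3, 3, 4, 5⟩ :=
  leafX_sound T5.ok_mm T5.Ymm.bz_eq (w := 205) (c := ⟨⟨.negSucc 1146, .negSucc 104, .ofNat 18, .negSucc 25, .ofNat 34, .ofNat 80⟩, ⟨.negSucc 38, .negSucc 42, .ofNat 282, .negSucc 17, .ofNat 6, .negSucc 9⟩, ⟨.ofNat 1196, .ofNat 50, .ofNat 41, .negSucc 102, .negSucc 91, .ofNat 59⟩, ⟨.negSucc 3467, .ofNat 3, .negSucc 16, .negSucc 95, .ofNat 105, .ofNat 211⟩, ⟨.negSucc 234, .ofNat 15, .ofNat 5, .negSucc 181, .ofNat 32, .ofNat 34⟩, .ofNat 400, .ofNat 27, .ofNat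 0, .ofNat 27, .ofNat 600, .ofNat 0, .ofNat 212, .negSucc 13, .negSucc 66, .ofNat 0, .ofNat 128, .ofNat 16, .ofNat 0, .ofNat 0, .ofNat 785, .ofNat 22967, .ofNat 6266848917424504522146998260377038356480, .ofNat 0, .ofNat 0, .ofNat 0, .ofNat 0, .ofNat 0, .ofNat 0, .ofNat 0, .ofNat 0, .ofNat 0, .ofNat 0, .ofNat 0, .ofNat 0, .ofNat 0, .ofNat 0, .ofNat 0⟩)
    (by decide +kernel)
theorem L00015 : Good (Phi V5.P V5.D (-1) (-1)) ⟨2, 0, 2, 0, 1, 0, 2, 1, 3, 3⟩ :=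
  leafX_sound T5.ok_mm T5.Ymm.bz_eq (w := 184) (c := ⟨⟨.negSucc 1116, .negSucc 83, .ofNat 17, .negSucc 26, .ofNat 75, .ofNat 117⟩, ⟨.negSucc 19, .negSucc 33, .ofNat 274, .negSucc 31, .negSucc 3, .negSucc 2⟩, ⟨.ofNat 1350, .negSucc 18, .ofNat 75, .negSucc 74, .negSucc 156, .ofNat 446⟩, ⟨.negSucc 3318, .ofNat 58, .negSucc 16, .negSucc 122, .ofNat 175, .ofNat 406⟩, ⟨.negSucc 169, .ofNat 19, .ofNat 2, .negSucc 281, .ofNat 124, .ofNat 69⟩, .ofNat 399, .ofNat 31, .ofNat 0, .ofNat 31, .ofNat 605, .ofNat 0, .ofNat 243, .negSucc 16, .negSucc 49, .ofNat 0, .ofNat 128, .ofNat 9, .ofNat 0, .ofNat 0, .ofNat 904, .ofNat 75169, .ofNat 290453239836237022579656667118436352, .ofNat 0, .ofNat 0, .ofNat 0, .ofNat 3491637500678059692610633816105549824, .ofNat 0, .ofNat 0, .ofNat 0, .ofNat 1403183726849730087874564359140147200, .ofNat 0, .ofNat 0, .ofNat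 0, .ofNat 5142113703076334693955913709548208128, .ofNat 0, .ofNat 0, .ofNat 0⟩)
    (by decide +kernel)
theorem L00016 : Good (Phi V5.P V5.D (-1) (-1)) ⟨2, 0, 2, 0, 1, 0, 2, 1, 1, 1⟩ :=
  out_sound (S := T5.ds_mm) T5.ok_mm (w := 16) (j := 1) (by decide +kernel)
theorem L00017 : Good (Phi V5.P V5.D (-1) (-1)) ⟨2, 0, 2, 0, 1, 0, 2, 2, 3, 0⟩ :=
  leafX_sound T5.ok_mm T5.Ymm.bz_eq (w := 177) (c := ⟨⟨.ofNat 18, .negSucc 233, .ofNat 53, .ofNat 375, .negSucc 98, .negSucc 1103⟩, ⟨.negSucc 60, .negSucc 16, .ofNat 145, .negSucc 131, .ofNat 25, .ofNat 111⟩, ⟨.negSucc 17, .ofNat 131, .negSucc 40, .negSucc 567, .ofNat 89, .ofNat 1032⟩, ⟨.ofNat 53, .negSucc 535, .ofNat 125, .ofNat 1106, .negSucc 358, .negSucc 3266⟩, ⟨.ofNat 82, .negSucc 75, .ofNat 178, .negSucc 322, .negSucc 65, .negSucc 230⟩, .ofNat 584, .ofNat 81, .ofNat 0, .ofNat 81, .ofNat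 1135, .ofNat 0, .ofNat 351, .negSucc 23, .negSucc 155, .ofNat 0, .ofNat 128, .ofNat 22, .ofNat 0, .ofNat 0, .ofNat 449, .ofNat 813, .ofNat 0, .ofNat 0, .ofNat 0, .ofNat 0, .ofNat 0, .ofNat 0, .ofNat 0, .ofNat 0, .ofNat 0, .ofNat 0, .ofNat 0, .ofNat 0, .ofNat 0, .ofNat 0, .ofNat 0, .ofNat 0⟩)
    (by decide +kernel)
theorem L00018 : Good (Phi V5.P V5.D (-1) (-1)) ⟨2, 0, 2, 0, 1, 0, 3, 6, 3, 0⟩ :=
  leafX_sound T5.ok_mm T5.Ymm.bz_eq (w := 181) (c := ⟨⟨.negSucc 304, .negSucc 153, .negSucc 10, .ofNat 199, .negSucc 23, .negSucc 648⟩, ⟨.negSucc 50, .negSucc 13, .ofNat 181, .negSucc 57, .negSucc 6, .ofNat 49⟩, ⟨.ofNat 333, .ofNat 51, .ofNat 12, .negSucc 332, .negSucc 8, .ofNat 515⟩, ⟨.negSucc 970, .negSucc 256, .negSucc 92, .ofNat 603, .negSucc 106, .negSucc 1863⟩, ⟨.negSucc 9, .ofNat 47, .negSucc 57, .negSucc 212, .negSucc 99, .negSucc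 88⟩, .ofNat 699, .ofNat 137, .ofNat 0, .ofNat 137, .ofNat 1645, .ofNat 0, .ofNat 274, .negSucc 28, .negSucc 132, .ofNat 0, .ofNat 128, .ofNat 17, .ofNat 0, .ofNat 0, .ofNat 370, .ofNat 846, .ofNat 0, .ofNat 0, .ofNat 0, .ofNat 0, .ofNat 0, .ofNat 0, .ofNat 0, .ofNat 0, .ofNat 0, .ofNat 0, .ofNat 0, .ofNat 0, .ofNat 0, .ofNat 0, .ofNat 0, .ofNat 0⟩)
    (by decide +kernel)
theorem L00019 : Good (Phi V5.P V5.D (-1) (-1)) ⟨2, 0, 2, 0, 2, 0, 4, 14, 3, 0⟩ :=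
  leafX_sound T5.ok_mm T5.Ymm.bz_eq (w := 200) (c := ⟨⟨.negSucc 463, .negSucc 108, .ofNat 31, .ofNat 34, .ofNat 145, .negSucc 343⟩, ⟨.negSucc 31, .negSucc 8, .ofNat 147, .negSucc 37, .negSucc 15, .ofNat 44⟩, ⟨.ofNat 410, .ofNat 58, .negSucc 37, .negSucc 73, .negSucc 169, .ofNat 223⟩, ⟨.negSucc 1408, .negSucc 160, .ofNat 57, .ofNat 84, .ofNat 405, .negSucc 1005⟩, ⟨.negSucc 17, .ofNat 5, .ofNat 9, .negSucc 237, .negSucc 40, .ofNat 17⟩, .ofNat 586, .ofNat 78, .ofNat 0, .ofNat 78, .ofNat 1126, .ofNat 0, .ofNat 247, .negSucc 22, .negSucc 165, .ofNat 0, .ofNat 128, .ofNat 17, .ofNat 0, .ofNat 0, .ofNat 422, .ofNat 2104, .ofNat 0, .ofNat 0, .ofNat 0, .ofNat 0, .ofNat 0, .ofNat 0, .ofNat 0, .ofNat 0, .ofNat 0, .ofNat 0, .ofNat 0, .ofNat 0, .ofNat 0, .ofNat 0, .ofNat 0, .ofNat 0⟩)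
    (by decide +kernel)
theorem L00020 : Good (Phi V5.P V5.D (-1) (-1)) ⟨2, 0, 2, 0, 2, 0, 4, 15, 3, 0⟩ :=
  leafX_sound T5.ok_mm T5.Ymm.bz_eq (w := 201) (c := ⟨⟨.negSucc 428, .negSucc 41, .ofNat 31, .negSucc 18, .ofNat 323, .negSucc 186⟩, ⟨.negSucc 4, .negSucc 13, .ofNat 94, .negSucc 30, .negSucc 36, .ofNat 26⟩, ⟨.ofNat 364, .negSucc 17, .negSucc 40, .negSucc 6, .negSucc 356, .ofNat 26⟩, ⟨.negSucc 1287, .negSucc 12, .ofNat 52, .negSucc 81, .ofNat 934, .negSucc 530⟩, ⟨.negSucc 47, .ofNat 14, .ofNat 19, .negSucc 257, .negSucc 32, .ofNat 43⟩, .ofNat 586, .ofNat 78, .ofNat 0, .ofNat 78, .ofNat 1126, .ofNat 0, .ofNat 235, .negSucc 22, .negSucc 224, .ofNat 0, .ofNat 128, .ofNat 22, .ofNat 0, .ofNat 0, .ofNat 523, .ofNat 2423, .ofNat 0, .ofNat 0, .ofNat 0, .ofNat 0, .ofNat 0, .ofNat 0, .ofNat 0, .ofNat 0, .ofNat 0, .ofNat 0, .ofNat 0,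 .ofNat 0, .ofNat 0, .ofNat 0, .ofNat 0, .ofNat 0⟩)
    (by decide +kernel)
theorem L00021 : Good (Phi V5.P V5.D (-1) (-1)) ⟨2, 0, 2, 0, 2, 1, 3, 7, 3, 0⟩ :=
  leafX_sound T5.ok_mm T5.Ymm.bz_eq (w := 196) (c := ⟨⟨.negSucc 390, .negSucc 35, .ofNat 48, .negSucc 49, .ofNat 259, .negSucc 419⟩, ⟨.negSucc 77, .negSucc 2, .ofNat 134, .ofNat 1, .negSucc 20, .ofNat 51⟩, ⟨.ofNat 329, .negSucc 135, .negSucc 38, .ofNat 106, .negSucc 237, .ofNat 238⟩, ⟨.negSucc 1209, .ofNat 30, .ofNat 72, .negSucc 140, .ofNat 712, .negSucc 1154⟩, ⟨.negSucc 320, .ofNat 11, .ofNat 124, .negSucc 137, .negSucc 65, .ofNat 42⟩, .ofNat 744, .ofNat 164, .ofNat 0, .ofNat 164, .ofNat 1871, .ofNat 0, .ofNat 247, .negSucc 26, .negSucc 220, .ofNat 0, .ofNat 128, .ofNat 33, .ofNat 0, .ofNat 0, .ofNat 536, .ofNat 1107, .ofNat 0, .ofNat 0, .ofNat 0, .ofNat 0, .ofNat 0, .ofNat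 9531511448559931172072355933638885376, .ofNat 0, .ofNat 0, .ofNat 0, .ofNat 0, .ofNat 0, .ofNat 0, .ofNat 0, .ofNat 0, .ofNat 0, .ofNat 0⟩)
    (by decide +kernel)
theorem L00022 : Good (Phi V5.P V5.D (-1) (-1)) ⟨2, 0, 2, 0, 1, 0, 2, 2, 4, 2⟩ :=
  leafX_sound T5.ok_mm T5.Ymm.bz_eq (w := 185) (c := ⟨⟨.negSucc 1034, .negSucc 122, .ofNat 20, .negSucc 26, .ofNat 124, .negSucc 108⟩, ⟨.negSucc 27, .negSucc 36, .ofNat 277, .negSucc 56, .negSucc 0, .ofNat 16⟩, ⟨.ofNat 932, .ofNat 74, .negSucc 6, .negSucc 285, .negSucc 103, .ofNat 150⟩, ⟨.negSucc 3126, .negSucc 72, .ofNat 2, .negSucc 118, .ofNat 358, .negSucc 318⟩, ⟨.negSucc 91, .ofNat 33, .ofNat 13, .negSucc 402, .ofNat 55, .ofNat 14⟩, .ofNat 585, .ofNat 81, .ofNat 0, .ofNat 81, .ofNat 1135, .ofNat 0, .ofNat 459, .negSucc 25, .negSucc 185, .ofNat 0, .ofNat 128, .ofNat 32, .ofNat 0, .ofNat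 0, .ofNat 819, .ofNat 3623, .ofNat 0, .ofNat 0, .ofNat 0, .ofNat 0, .ofNat 0, .ofNat 0, .ofNat 0, .ofNat 0, .ofNat 0, .ofNat 0, .ofNat 0, .ofNat 0, .ofNat 0, .ofNat 0, .ofNat 0, .ofNat 0⟩)
    (by decide +kernel)
theorem L00023 : Good (Phi V5.P V5.D (-1) (-1)) ⟨2, 0, 2, 0, 1, 0, 2, 2, 4, 3⟩ :=
  leafX_sound T5.ok_mm T5.Ymm.bz_eq (w := 185) (c := ⟨⟨.negSucc 1112, .negSucc 112, .ofNat 18, .negSucc 80, .ofNat 128, .negSucc 10⟩, ⟨.negSucc 9, .negSucc 41, .ofNat 271, .negSucc 45, .negSucc 0, .negSucc 3⟩, ⟨.ofNat 1047, .ofNat 40, .ofNat 20, .negSucc 155, .negSucc 205, .ofNat 85⟩, ⟨.negSucc 3396, .ofNat 2, .ofNat 2, .negSucc 256, .ofNat 361, .negSucc 5⟩, ⟨.negSucc 97, .ofNat 25, .ofNat 10, .negSucc 364, .ofNat 59, .ofNat 41⟩, .ofNat 582, .ofNat 73, .ofNat 0, .ofNat 73, .ofNat 1144, .ofNat 0, .ofNat 193, .negSucc 22, .negSucc 146, .ofNat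 0, .ofNat 128, .ofNat 22, .ofNat 0, .ofNat 0, .ofNat 909, .ofNat 3440, .ofNat 0, .ofNat 0, .ofNat 0, .ofNat 0, .ofNat 0, .ofNat 0, .ofNat 0, .ofNat 0, .ofNat 0, .ofNat 0, .ofNat 0, .ofNat 0, .ofNat 0, .ofNat 0, .ofNat 0, .ofNat 0⟩)
    (by decide +kernel)
theorem L00024 : Good (Phi V5.P V5.D (-1) (-1)) ⟨2, 0, 2, 0, 1, 0, 3, 6, 3, 1⟩ :=
  leafX_sound T5.ok_mm T5.Ymm.bz_eq (w := 183) (c := ⟨⟨.negSucc 915, .negSucc 62, .ofNat 22, .negSucc 145, .ofNat 77, .negSucc 72⟩, ⟨.negSucc 40, .negSucc 36, .ofNat 252, .negSucc 16, .ofNat 5, .ofNat 20⟩, ⟨.ofNat 769, .negSucc 56, .ofNat 0, .ofNat 42, .negSucc 100, .ofNat 105⟩, ⟨.negSucc 2806, .ofNat 104, .ofNat 37, .negSucc 426, .ofNat 224, .negSucc 219⟩, ⟨.negSucc 189, .ofNat 45, .negSucc 8, .negSucc 210, .ofNat 114, .ofNat 112⟩, .ofNat 583, .ofNat 92, .ofNat 0, .ofNat 92, .ofNat 1160, .ofNat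 0, .ofNat 364, .negSucc 27, .negSucc 122, .ofNat 0, .ofNat 128, .ofNat 19, .ofNat 0, .ofNat 0, .ofNat 567, .ofNat 1802, .ofNat 0, .ofNat 0, .ofNat 0, .ofNat 0, .ofNat 0, .ofNat 0, .ofNat 0, .ofNat 0, .ofNat 0, .ofNat 0, .ofNat 0, .ofNat 0, .ofNat 0, .ofNat 0, .ofNat 0, .ofNat 0⟩)
    (by decide +kernel)
theorem L00025 : Good (Phi V5.P V5.D (-1) (-1)) ⟨2, 0, 2, 0, 1, 0, 4, 14, 3, 1⟩ :=
  leafX_sound T5.ok_mm T5.Ymm.bz_eq (w := 186) (c := ⟨⟨.negSucc 737, .negSucc 30, .negSucc 14, .negSucc 253, .ofNat 94, .negSucc 119⟩, ⟨.negSucc 36, .negSucc 40, .ofNat 226, .ofNat 18, .negSucc 6, .ofNat 21⟩, ⟨.ofNat 530, .negSucc 109, .ofNat 64, .ofNat 299, .negSucc 136, .ofNat 76⟩, ⟨.negSucc 2255, .ofNat 139, .negSucc 75, .negSucc 738, .ofNat 277, .negSucc 349⟩, ⟨.negSucc 117, .ofNat 101, .ofNat 9, .negSucc 170, .ofNat 23, .ofNat 64⟩, .ofNat 587,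 .ofNat 97, .ofNat 0, .ofNat 97, .ofNat 1141, .ofNat 0, .ofNat 275, .negSucc 28, .negSucc 183, .ofNat 0, .ofNat 128, .ofNat 26, .ofNat 0, .ofNat 0, .ofNat 731, .ofNat 1552, .ofNat 0, .ofNat 0, .ofNat 0, .ofNat 0, .ofNat 0, .ofNat 117629462527311570791685074507005952, .ofNat 0, .ofNat 0, .ofNat 0, .ofNat 0, .ofNat 0, .ofNat 0, .ofNat 0, .ofNat 0, .ofNat 0, .ofNat 0⟩)
    (by decide +kernel)
theorem L00026 : Good (Phi V5.P V5.D (-1) (-1)) ⟨2, 0, 2, 0, 1, 0, 4, 15, 3, 1⟩ :=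
  leafX_sound T5.ok_mm T5.Ymm.bz_eq (w := 186) (c := ⟨⟨.negSucc 581, .negSucc 23, .negSucc 3, .negSucc 276, .ofNat 264, .negSucc 203⟩, ⟨.negSucc 39, .negSucc 22, .ofNat 186, .ofNat 21, .negSucc 19, .ofNat 32⟩, ⟨.ofNat 322, .negSucc 48, .ofNat 34, .ofNat 348, .negSucc 338, .ofNat 88⟩, ⟨.negSucc 1798, .ofNat 123, .negSucc 9, .negSucc 805, .ofNat 762, .negSucc 584⟩, ⟨.negSucc 190, .ofNat 118, .ofNat 32, .negSucc 37, .ofNat 13, .ofNat 126⟩, .ofNat 584, .ofNat 79, .ofNat 0, .ofNat 79, .ofNat 1131, .ofNat 0, .ofNat 333, .negSucc 22, .negSucc 202, .ofNat 0, .ofNat 128, .ofNat 22, .ofNat 0, .ofNat 0, .ofNat 687, .ofNat 1079, .ofNat 0, .ofNat 0, .ofNat 0, .ofNat 0, .ofNat 0, .ofNat 498191492369608775760472144244375552, .ofNat 0, .ofNat 0, .ofNat 0, .ofNat 149018093969741000141024879278292992, .ofNat 0, .ofNat 0, .ofNat 0, .ofNat 507374515702996011821134267147091968,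 .ofNat 0, .ofNat 0⟩)
    (by decide +kernel)
theorem L00027 : Good (Phi V5.P V5.D (-1) (-1)) ⟨2, 0, 2, 0, 1, 0, 2, 2, 4, 4⟩ :=
  leafX_sound T5.ok_mm T5.Ymm.bz_eq (w := 185) (c := ⟨⟨.negSucc 1117, .negSucc 104, .ofNat 21, .negSucc 85, .ofNat 100, .ofNat 49⟩, ⟨.negSucc 11, .negSucc 40, .ofNat 271, .negSucc 26, .negSucc 7, .negSucc 4⟩, ⟨.ofNat 1125, .ofNat 35, .negSucc 8, .negSucc 35, .negSucc 223, .negSucc 9⟩, ⟨.negSucc 3383, .ofNat 15, .ofNat 11, .negSucc 271, .ofNat 291, .ofNat 128⟩, ⟨.negSucc 67, .ofNat 24, .negSucc 4, .negSucc 297, .ofNat 56, .ofNat 18⟩, .ofNat 586, .ofNat 98, .ofNat 0, .ofNat 98, .ofNat 1152, .ofNat 0, .ofNat 276, .negSucc 29, .negSucc 103, .ofNat 0, .ofNat 128, .ofNat 17, .ofNat 0, .ofNat 0, .ofNat 902, .ofNat 4528, .ofNat 0, .ofNat 0, .ofNat 0, .ofNat 0, .ofNat 0, .ofNat 0, .ofNat 0, .ofNat 0, .ofNat 0, .ofNat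 0, .ofNat 0, .ofNat 0, .ofNat 0, .ofNat 0, .ofNat 0, .ofNat 0⟩)
    (by decide +kernel)
theorem L00028 : Good (Phi V5.P V5.D (-1) (-1)) ⟨2, 0, 2, 0, 1, 0, 2, 2, 4, 5⟩ :=
  leafX_sound T5.ok_mm T5.Ymm.bz_eq (w := 185) (c := ⟨⟨.negSucc 1075, .negSucc 78, .ofNat 10, .negSucc 59, .ofNat 78, .ofNat 43⟩, ⟨.negSucc 14, .negSucc 41, .ofNat 262, .negSucc 29, .ofNat 1, .ofNat 0⟩, ⟨.ofNat 1019, .ofNat 23, .ofNat 58, .ofNat 115, .negSucc 243, .ofNat 24⟩, ⟨.negSucc 3251, .ofNat 46, .negSucc 1, .negSucc 216, .ofNat 233, .ofNat 129⟩, ⟨.negSucc 43, .ofNat 35, .negSucc 12, .negSucc 291, .ofNat 64, .ofNat 9⟩, .ofNat 583, .ofNat 93, .ofNat 0, .ofNat 93, .ofNat 1161, .ofNat 0, .ofNat 186, .negSucc 28, .negSucc 58, .ofNat 0, .ofNat 128, .ofNat 7, .ofNat 0, .ofNat 0, .ofNat 719, .ofNat 3003, .ofNat 0, .ofNat 0, .ofNat 0, .ofNat 0, .ofNat 0, .ofNat 0,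 .ofNat 0, .ofNat 0, .ofNat 0, .ofNat 0, .ofNat 0, .ofNat 0, .ofNat 0, .ofNat 0, .ofNat 0, .ofNat 0⟩)
    (by decide +kernel)
theorem L00029 : Good (Phi V5.P V5.D (-1) (-1)) ⟨2, 0, 2, 0, 1, 0, 2, 2, 3, 3⟩ :=
  leafX_sound T5.ok_mm T5.Ymm.bz_eq (w := 180) (c := ⟨⟨.negSucc 1013, .negSucc 65, .ofNat 3, .negSucc 58, .ofNat 57, .ofNat 80⟩, ⟨.negSucc 24, .negSucc 33, .ofNat 255, .negSucc 18, .ofNat 8, .ofNat 1⟩, ⟨.ofNat 940, .ofNat 33, .ofNat 61, .ofNat 244, .negSucc 248, .ofNat 131⟩, ⟨.negSucc 3098, .ofNat 77, .negSucc 3, .negSucc 168, .ofNat 175, .ofNat 227⟩, ⟨.negSucc 112, .ofNat 34, .ofNat 0, .negSucc 191, .ofNat 115, .ofNat 41⟩, .ofNat 582, .ofNat 72, .ofNat 0, .ofNat 72, .ofNat 1142, .ofNat 0, .ofNat 241, .negSucc 21, .negSucc 109, .ofNat 0, .ofNat 128, .negSucc 2, .ofNat 0, .ofNat 0, .ofNat 2169, .ofNat 3645, .ofNat 10800182967132575788056405568651264,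 .ofNat 0, .ofNat 0, .ofNat 0, .ofNat 283279951702782834291243104742670336, .ofNat 18975433927764961801658016974503936, .ofNat 0, .ofNat 0, .ofNat 219702805785477317441928633503449088, .ofNat 9919545889595078663300433273946112, .ofNat 0, .ofNat 0, .ofNat 4617633240386346271931492414393417728, .ofNat 223291737738424518901227228902719488, .ofNat 0, .ofNat 0⟩)
    (by decide +kernel)
theorem L00030 : Good (Phi V5.P V5.D (-1) (-1)) ⟨2, 0, 2, 0, 2, 0, 3, 6, 3, 2⟩ :=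
  leafX_sound T5.ok_mm T5.Ymm.bz_eq (w := 198) (c := ⟨⟨.negSucc 975, .negSucc 73, .negSucc 2, .negSucc 38, .ofNat 77, .ofNat 29⟩, ⟨.negSucc 7, .negSucc 44, .ofNat 239, .negSucc 4, .negSucc 4, .ofNat 2⟩, ⟨.ofNat 782, .ofNat 44, .ofNat 37, .ofNat 95, .negSucc 226, .negSucc 98⟩, ⟨.negSucc 2965, .ofNat 32, .negSucc 21, .negSucc 111, .ofNat 222, .ofNat 86⟩, ⟨.negSucc 50, .ofNat 42, .negSucc 0, .negSucc 94, .ofNat 19, .ofNat 28⟩, .ofNat 744, .ofNat 189, .ofNat 0, .ofNat 189, .ofNat 1922, .ofNat 0, .ofNat 303, .negSucc 34, .negSucc 83, .ofNat 0, .ofNat 128, .ofNat 9, .ofNat 0, .ofNat 0, .ofNat 732, .ofNat 5863, .ofNat 0, .ofNat 0, .ofNat 0, .ofNat 0, .ofNat 0, .ofNat 0, .ofNat 0, .ofNat 0, .ofNat 0, .ofNat 0, .ofNat 0, .ofNat 0, .ofNat 0, .ofNat 0, .ofNat 0, .ofNat 0⟩)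
    (by decide +kernel)
theorem L00031 : Good (Phi V5.P V5.D (-1) (-1)) ⟨2, 0, 2, 0, 2, 0, 3, 7, 3, 2⟩ :=
  leafX_sound T5.ok_mm T5.Ymm.bz_eq (w := 197) (c := ⟨⟨.negSucc 830, .negSucc 44, .negSucc 23, .negSucc 82, .ofNat 153, .negSucc 66⟩, ⟨.negSucc 11, .negSucc 48, .ofNat 223, .ofNat 6, .negSucc 7, .ofNat 15⟩, ⟨.ofNat 490, .ofNat 18, .ofNat 75, .ofNat 180, .negSucc 348, .negSucc 49⟩, ⟨.negSucc 2517, .ofNat 86, .negSucc 66, .negSucc 240, .ofNat 424, .negSucc 194⟩, ⟨.negSucc 17, .ofNat 51, .ofNat 74, .negSucc 80, .ofNat 2, .ofNat 11⟩, .ofNat 698, .ofNat 143, .ofNat 0, .ofNat 143, .ofNat 1669, .ofNat 0, .ofNat 426, .negSucc 30, .negSucc 81, .ofNat 0, .ofNat 128, .ofNat 6, .ofNat 0, .ofNat 0, .ofNat 504, .ofNat 2199, .ofNat 0, .ofNat 0, .ofNat 0, .ofNat 0, .ofNat 0, .ofNat 0, .ofNat 0, .ofNat 0, .ofNat 0, .ofNat 201646220966779694386908000533824405504,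 .ofNat 0, .ofNat 0, .ofNat 0, .ofNat 0, .ofNat 0, .ofNat 0⟩)
    (by decide +kernel)
theorem L00032 : Good (Phi V5.P V5.D (-1) (-1)) ⟨2, 0, 2, 0, 2, 1, 3, 6, 3, 2⟩ :=
  leafX_sound T5.ok_mm T5.Ymm.bz_eq (w := 198) (c := ⟨⟨.negSucc 1023, .negSucc 28, .negSucc 2, .negSucc 110, .ofNat 35, .ofNat 34⟩, ⟨.negSucc 40, .negSucc 43, .ofNat 259, .ofNat 9, .ofNat 14, .ofNat 12⟩, ⟨.ofNat 796, .negSucc 102, .ofNat 115, .ofNat 179, .negSucc 117, .ofNat 51⟩, ⟨.negSucc 3134, .ofNat 192, .negSucc 31, .negSucc 315, .ofNat 117, .ofNat 112⟩, ⟨.negSucc 254, .ofNat 92, .negSucc 11, .negSucc 8, .ofNat 115, .ofNat 106⟩, .ofNat 582, .ofNat 83, .ofNat 0, .ofNat 83, .ofNat 1151, .ofNat 0, .ofNat 322, .negSucc 25, .negSucc 98, .ofNat 0, .ofNat 128, .ofNat 7, .ofNat 0, .ofNat 0, .ofNat 934, .ofNat 2884, .ofNat 0, .ofNat 0, .ofNat 0, .ofNat 0, .ofNat 0, .ofNat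 0, .ofNat 0, .ofNat 0, .ofNat 0, .ofNat 83498466854877199442774025081565741056, .ofNat 0, .ofNat 0, .ofNat 0, .ofNat 579430710852771753828297081312700792832, .ofNat 0, .ofNat 0⟩)
    (by decide +kernel)
theorem L00033 : Good (Phi V5.P V5.D (-1) (-1)) ⟨2, 0, 2, 0, 2, 1, 3, 7, 3, 2⟩ :=
  leafX_sound T5.ok_mm T5.Ymm.bz_eq (w := 197) (c := ⟨⟨.negSucc 937, .ofNat 17, .negSucc 38, .negSucc 170, .ofNat 70, .negSucc 30⟩, ⟨.negSucc 27, .negSucc 40, .ofNat 246, .ofNat 26, .ofNat 27, .ofNat 16⟩, ⟨.ofNat 648, .negSucc 96, .ofNat 125, .ofNat 257, .negSucc 232, .negSucc 12⟩, ⟨.negSucc 2897, .ofNat 320, .negSucc 84, .negSucc 478, .ofNat 237, .negSucc 69⟩, ⟨.negSucc 183, .ofNat 126, .ofNat 0, .ofNat 124, .ofNat 208, .ofNat 99⟩, .ofNat 582, .ofNat 75, .ofNat 0, .ofNat 75, .ofNat 1142, .ofNat 0, .ofNat 428, .negSucc 22, .negSucc 102, .ofNat 0, .ofNat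 128, .ofNat 3, .ofNat 0, .ofNat 0, .ofNat 754, .ofNat 1402, .ofNat 0, .ofNat 0, .ofNat 0, .ofNat 0, .ofNat 0, .ofNat 592933300153813899668752421467004600320, .ofNat 0, .ofNat 0, .ofNat 0, .ofNat 227512117788026084071972751559870119936, .ofNat 0, .ofNat 0, .ofNat 0, .ofNat 597744814135898261686991568125430857728, .ofNat 0, .ofNat 0⟩)
    (by decide +kernel)
theorem L00034 : Good (Phi V5.P V5.D (-1) (-1)) ⟨2, 0, 2, 0, 1, 0, 3, 6, 3, 3⟩ :=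
  leafX_sound T5.ok_mm T5.Ymm.bz_eq (w := 183) (c := ⟨⟨.negSucc 954, .negSucc 32, .ofNat 12, .negSucc 102, .ofNat 36, .ofNat 41⟩, ⟨.negSucc 11, .negSucc 48, .ofNat 242, .ofNat 1, .ofNat 3, .ofNat 3⟩, ⟨.ofNat 639, .negSucc 8, .ofNat 77, .ofNat 447, .negSucc 234, .negSucc 36⟩, ⟨.negSucc 2903, .ofNat 147, .ofNat 18, .negSucc 303, .ofNat 106, .ofNat 133⟩, ⟨.negSucc 56, .ofNat 63, .negSucc 14, .negSucc 89, .ofNat 67, .ofNat 60⟩, .ofNat 656, .ofNat 127, .ofNat 0, .ofNat 127, .ofNat 1427, .ofNat 0, .ofNat 352, .negSucc 31, .negSucc 97, .ofNat 0, .ofNat 128, .negSucc 4, .ofNat 0, .ofNat 0, .ofNat 1572, .ofNat 2142, .ofNat 0, .ofNat 0, .ofNat 0, .ofNat 0, .ofNat 0, .ofNat 0, .ofNat 0, .ofNat 0, .ofNat 0, .ofNat 67758017044049070845766222817001472, .ofNat 0, .ofNat 0, .ofNat 0, .ofNat 678833506305133617400677427201441792, .ofNat 0, .ofNat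 0⟩)
    (by decide +kernel)
theorem L00035 : Good (Phi V5.P V5.D (-1) (-1)) ⟨2, 0, 2, 0, 1, 0, 3, 7, 3, 3⟩ :=
  leafX_sound T5.ok_mm T5.Ymm.bz_eq (w := 183) (c := ⟨⟨.negSucc 875, .negSucc 46, .negSucc 7, .negSucc 145, .ofNat 34, .negSucc 21⟩, ⟨.negSucc 16, .negSucc 41, .ofNat 232, .ofNat 34, .ofNat 4, .ofNat 6⟩, ⟨.ofNat 356, .ofNat 59, .ofNat 77, .ofNat 484, .negSucc 224, .negSucc 57⟩, ⟨.negSucc 2682, .ofNat 117, .negSucc 15, .negSucc 436, .ofNat 117, .negSucc 62⟩, ⟨.negSucc 74, .ofNat 84, .ofNat 26, .ofNat 76, .ofNat 94, .ofNat 43⟩, .ofNat 701, .ofNat 165, .ofNat 0, .ofNat 165, .ofNat 1693, .ofNat 0, .ofNat 411, .negSucc 35, .negSucc 84, .ofNat 0, .ofNat 128, .ofNat 1, .ofNat 0, .ofNat 0, .ofNat 844, .ofNat 1288, .ofNat 0, .ofNat 1002299449193816200188514814394368, .ofNat 0, .ofNat 0, .ofNat 0, .ofNat 199209944643965358683099552920109056,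 .ofNat 0, .ofNat 0, .ofNat 0, .ofNat 83215823913350312408786615643668480, .ofNat 0, .ofNat 0, .ofNat 0, .ofNat 322953152218161478301667487733776384, .ofNat 0, .ofNat 0⟩)
    (by decide +kernel)
theorem L00036 : Good (Phi V5.P V5.D (-1) (-1)) ⟨2, 0, 2, 0, 1, 0, 1, 1, 1, 1⟩ :=
  leafX_sound T5.ok_mm T5.Ymm.bz_eq (w := 173) (c := ⟨⟨.negSucc 948, .negSucc 101, .ofNat 1, .ofNat 0, .ofNat 0, .ofNat 0⟩, ⟨.negSucc 4, .negSucc 44, .ofNat 242, .ofNat 0, .ofNat 0, .ofNat 0⟩, ⟨.ofNat 252, .ofNat 102, .negSucc 0, .ofNat 0, .ofNat 0, .ofNat 0⟩, ⟨.negSucc 2877, .negSucc 45, .ofNat 1, .ofNat 1, .negSucc 0, .ofNat 1⟩, ⟨.ofNat 0, .ofNat 0, .ofNat 0, .ofNat 0, .ofNat 0, .ofNat 0⟩, .ofNat 191, .ofNat 6, .ofNat 0, .ofNat 6, .ofNat 228, .ofNat 0, .ofNat 145, .negSucc 5, .negSucc 104, .ofNat 0, .ofNat 128, .ofNat 4, .ofNat 0, .ofNat 0, .ofNat 306, .ofNat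 10600, .ofNat 10444847073160982777897051750400000000, .ofNat 401746924765715897013888643072262144, .ofNat 0, .ofNat 0, .ofNat 668470212682302897785411312025600000000, .ofNat 26387128883778996825510111916693913600, .ofNat 0, .ofNat 0, .ofNat 668470212682302897785411312025600000000, .ofNat 26387223048074941330237403454483988480, .ofNat 0, .ofNat 0, .ofNat 668470212681683927765768621888150437888, .ofNat 26387127609087612623845110106501939200, .ofNat 0, .ofNat 0⟩)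
    (by decide +kernel)
theorem L00037 : Good (Phi V5.P V5.D (-1) (-1)) ⟨2, 0, 2, 0, 2, 2, 3, 0, 4, 0⟩ :=
  leafX_sound T5.ok_mm T5.Ymm.bz_eq (w := 202) (c := ⟨⟨.ofNat 904, .ofNat 7, .ofNat 166, .ofNat 312, .ofNat 106, .negSucc 1358⟩, ⟨.negSucc 126, .negSucc 5, .negSucc 112, .ofNat 35, .ofNat 70, .ofNat 35⟩, ⟨.negSucc 523, .ofNat 206, .negSucc 155, .negSucc 145, .negSucc 183, .ofNat 283⟩, ⟨.ofNat 2639, .negSucc 123, .ofNat 373, .ofNat 1005, .ofNat 356, .negSucc 3916⟩, ⟨.negSucc 893, .negSucc 521, .ofNat 397, .ofNat 743, .ofNat 540, .negSucc 542⟩, .ofNat 582, .ofNat 75, .ofNat 0, .ofNat 75, .ofNat 1143, .ofNat 0, .ofNat 161, .negSucc 49, .negSucc 44, .ofNat 0, .ofNat 128, .ofNat 13, .ofNat 0, .ofNat 0, .ofNat 264, .ofNat 4517, .ofNat 0, .ofNat 0, .ofNat 0, .ofNat 0, .ofNat 0, .ofNat 0, .ofNat 0, .ofNat 0, .ofNat 0, .ofNat 0, .ofNat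 0, .ofNat 0, .ofNat 0, .ofNat 0, .ofNat 0, .ofNat 0⟩)
    (by decide +kernel)
theorem L00038 : Good (Phi V5.P V5.D (-1) (-1)) ⟨2, 0, 2, 0, 2, 2, 3, 0, 4, 1⟩ :=
  leafX_sound T5.ok_mm T5.Ymm.bz_eq (w := 202) (c := ⟨⟨.negSucc 284, .negSucc 185, .ofNat 131, .ofNat 140, .ofNat 89, .negSucc 933⟩, ⟨.negSucc 191, .negSucc 23, .ofNat 181, .negSucc 19, .ofNat 28, .ofNat 74⟩, ⟨.negSucc 293, .ofNat 350, .negSucc 197, .negSucc 421, .ofNat 56, .ofNat 530⟩, ⟨.negSucc 985, .negSucc 318, .ofNat 194, .ofNat 493, .ofNat 262, .negSucc 2679⟩, ⟨.negSucc 1230, .negSucc 491, .ofNat 297, .ofNat 316, .ofNat 191, .ofNat 22⟩, .ofNat 582, .ofNat 83, .ofNat 0, .ofNat 83, .ofNat 1154, .ofNat 0, .ofNat 202, .negSucc 54, .negSucc 51, .ofNat 0, .ofNat 128, .ofNat 19, .ofNat 0, .ofNat 0, .ofNat 292, .ofNat 5355, .ofNat 14418020349486164854496143461778334941184,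 .ofNat 0, .ofNat 0, .ofNat 0, .ofNat 0, .ofNat 0, .ofNat 0, .ofNat 0, .ofNat 0, .ofNat 0, .ofNat 0, .ofNat 0, .ofNat 0, .ofNat 0, .ofNat 0, .ofNat 0⟩)
    (by decide +kernel)
theorem L00039 : Good (Phi V5.P V5.D (-1) (-1)) ⟨2, 0, 2, 0, 3, 6, 3, 0, 4, 0⟩ :=
  leafX_sound T5.ok_mm T5.Ymm.bz_eq (w := 216) (c := ⟨⟨.ofNat 1007, .ofNat 123, .ofNat 174, .negSucc 200, .ofNat 232, .negSucc 1182⟩, ⟨.ofNat 90, .negSucc 161, .negSucc 84, .ofNat 194, .ofNat 31, .negSucc 120⟩, ⟨.negSucc 745, .ofNat 350, .negSucc 32, .ofNat 224, .negSucc 239, .ofNat 92⟩, ⟨.ofNat 3096, .ofNat 50, .ofNat 657, .negSucc 383, .ofNat 606, .negSucc 3558⟩, ⟨.ofNat 644, .negSucc 1072, .ofNat 665, .ofNat 1534, .ofNat 357, .negSucc 1516⟩, .ofNat 582, .ofNat 75, .ofNat 0, .ofNat 75, .ofNat 1145, .ofNat 0, .ofNat 153, .negSucc 57, .negSucc 75, .ofNat 0, .ofNat 128, .ofNat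 10, .ofNat 0, .ofNat 0, .ofNat 295, .ofNat 4803, .ofNat 0, .ofNat 0, .ofNat 0, .ofNat 0, .ofNat 0, .ofNat 0, .ofNat 0, .ofNat 0, .ofNat 0, .ofNat 0, .ofNat 0, .ofNat 0, .ofNat 0, .ofNat 0, .ofNat 0, .ofNat 0⟩)
    (by decide +kernel)
theorem L00040 : Good (Phi V5.P V5.D (-1) (-1)) ⟨2, 0, 2, 0, 3, 7, 3, 0, 4, 0⟩ :=
  leafX_sound T5.ok_mm T5.Ymm.bz_eq (w := 216) (c := ⟨⟨.ofNat 610, .ofNat 4, .ofNat 168, .negSucc 593, .ofNat 316, .negSucc 854⟩, ⟨.ofNat 315, .negSucc 266, .negSucc 29, .ofNat 220, .ofNat 5, .negSucc 79⟩, ⟨.negSucc 302, .ofNat 401, .ofNat 9, .ofNat 661, .negSucc 326, .negSucc 181⟩, ⟨.ofNat 1939, .negSucc 311, .ofNat 1015, .negSucc 1722, .ofNat 914, .negSucc 2528⟩, ⟨.ofNat 2092, .negSucc 1220, .ofNat 803, .ofNat 1167, .ofNat 351, .negSucc 1204⟩, .ofNat 583, .ofNat 81, .ofNat 0, .ofNat 81, .ofNat 1143, .ofNat 0, .ofNat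 168, .negSucc 56, .negSucc 90, .ofNat 0, .ofNat 128, .negSucc 4, .ofNat 0, .ofNat 0, .ofNat 282, .ofNat 3587, .ofNat 0, .ofNat 0, .ofNat 0, .ofNat 0, .ofNat 0, .ofNat 0, .ofNat 0, .ofNat 0, .ofNat 0, .ofNat 0, .ofNat 0, .ofNat 0, .ofNat 0, .ofNat 0, .ofNat 0, .ofNat 0⟩)
    (by decide +kernel)
theorem L00041 : Good (Phi V5.P V5.D (-1) (-1)) ⟨2, 0, 2, 0, 3, 6, 4, 0, 4, 1⟩ :=
  leafX_sound T5.ok_mm T5.Ymm.bz_eq (w := 220) (c := ⟨⟨.negSucc 135, .negSucc 150, .ofNat 125, .negSucc 51, .ofNat 69, .negSucc 948⟩, ⟨.negSucc 152, .negSucc 71, .ofNat 198, .ofNat 141, .ofNat 1, .ofNat 46⟩, ⟨.negSucc 715, .ofNat 550, .negSucc 202, .ofNat 219, .negSucc 69, .ofNat 554⟩, ⟨.negSucc 400, .negSucc 386, .ofNat 339, .negSucc 65, .ofNat 179, .negSucc 2860⟩, ⟨.negSucc 575, .negSucc 874, .ofNat 496, .ofNat 1031, .ofNat 46, .negSucc 368⟩, .ofNat 400, .ofNat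 26, .ofNat 0, .ofNat 26, .ofNat 599, .ofNat 0, .ofNat 128, .negSucc 75, .negSucc 82, .ofNat 0, .ofNat 132, .ofNat 23, .ofNat 0, .ofNat 0, .ofNat 265, .ofNat 7760, .ofNat 645203612044080679652858740568610336365608960, .ofNat 0, .ofNat 0, .ofNat 0, .ofNat 249098111085571386940929149510733334270967808, .ofNat 0, .ofNat 0, .ofNat 0, .ofNat 0, .ofNat 0, .ofNat 0, .ofNat 0, .ofNat 0, .ofNat 0, .ofNat 0, .ofNat 0⟩)
    (by decide +kernel)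
theorem L00042 : Good (Phi V5.P V5.D (-1) (-1)) ⟨2, 0, 2, 0, 3, 6, 4, 1, 4, 1⟩ :=
  leafX_sound T5.ok_mm T5.Ymm.bz_eq (w := 219) (c := ⟨⟨.negSucc 46, .negSucc 136, .ofNat 136, .negSucc 21, .ofNat 61, .negSucc 999⟩, ⟨.negSucc 145, .negSucc 108, .ofNat 190, .ofNat 108, .ofNat 14, .ofNat 55⟩, ⟨.negSucc 731, .ofNat 466, .negSucc 184, .ofNat 170, .negSucc 25, .ofNat 565⟩, ⟨.negSucc 241, .negSucc 279, .ofNat 364, .ofNat 97, .ofNat 186, .negSucc 2941⟩, ⟨.negSucc 451, .negSucc 711, .ofNat 473, .ofNat 924, .ofNat 81, .negSucc 540⟩, .ofNat 583, .ofNat 81, .ofNat 0, .ofNat 81, .ofNat 1147, .ofNat 0, .ofNat 201, .negSucc 66, .negSucc 44, .ofNat 0, .ofNat 128, .ofNat 11, .ofNat 0, .ofNat 0, .ofNat 172, .ofNat 3219, .ofNat 0, .ofNat 0, .ofNat 0, .ofNat 0, .ofNat 0, .ofNat 0, .ofNat 0, .ofNat 0, .ofNat 0, .ofNat 0, .ofNat 0, .ofNat 0, .ofNat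 0, .ofNat 0, .ofNat 0, .ofNat 0⟩)
    (by decide +kernel)
theorem L00043 : Good (Phi V5.P V5.D (-1) (-1)) ⟨2, 0, 2, 0, 3, 7, 3, 0, 4, 1⟩ :=
  leafX_sound T5.ok_mm T5.Ymm.bz_eq (w := 215) (c := ⟨⟨.negSucc 261, .negSucc 106, .ofNat 88, .negSucc 322, .ofNat 137, .negSucc 766⟩, ⟨.ofNat 51, .negSucc 174, .ofNat 258, .ofNat 234, .negSucc 23, .negSucc 28⟩, ⟨.negSucc 341, .ofNat 383, .negSucc 147, .ofNat 253, .negSucc 114, .ofNat 407⟩, ⟨.negSucc 739, .negSucc 314, .ofNat 557, .negSucc 710, .ofNat 333, .negSucc 2403⟩, ⟨.ofNat 787, .negSucc 971, .ofNat 990, .ofNat 1442, .negSucc 144, .negSucc 972⟩, .ofNat 584, .ofNat 74, .ofNat 0, .ofNat 74, .ofNat 1126, .ofNat 0, .ofNat 168, .negSucc 70, .negSucc 55, .ofNat 0, .ofNat 128, .ofNat 1, .ofNat 0, .ofNat 0, .ofNat 198, .ofNat 2457, .ofNat 0, .ofNat 0, .ofNat 0, .ofNat 0, .ofNat 0, .ofNat 0, .ofNat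 0, .ofNat 0, .ofNat 0, .ofNat 0, .ofNat 0, .ofNat 0, .ofNat 49767518953614250645618309624095284607844352, .ofNat 0, .ofNat 0, .ofNat 0⟩)
    (by decide +kernel)
theorem L00044 : Good (Phi V5.P V5.D (-1) (-1)) ⟨2, 0, 2, 0, 1, 1, 3, 1, 3, 0⟩ :=
  leafX_sound T5.ok_mm T5.Ymm.bz_eq (w := 181) (c := ⟨⟨.ofNat 1144, .negSucc 41, .ofNat 59, .negSucc 42, .ofNat 88, .negSucc 2253⟩, ⟨.negSucc 126, .negSucc 68, .ofNat 29, .ofNat 295, .ofNat 32, .negSucc 2⟩, ⟨.negSucc 1025, .ofNat 261, .ofNat 4, .ofNat 333, .negSucc 29, .ofNat 877⟩, ⟨.ofNat 3282, .negSucc 133, .ofNat 249, .ofNat 72, .ofNat 216, .negSucc 6556⟩, ⟨.negSucc 557, .negSucc 318, .ofNat 675, .ofNat 2228, .ofNat 257, .negSucc 1307⟩, .ofNat 581, .ofNat 66, .ofNat 0, .ofNat 66, .ofNat 1138, .ofNat 0, .ofNat 179, .negSucc 39, .negSucc 76, .ofNat 0, .ofNat 128, .ofNat 17, .ofNat 0, .ofNat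 0, .ofNat 282, .ofNat 613, .ofNat 0, .ofNat 0, .ofNat 0, .ofNat 0, .ofNat 0, .ofNat 0, .ofNat 0, .ofNat 0, .ofNat 0, .ofNat 0, .ofNat 0, .ofNat 0, .ofNat 0, .ofNat 0, .ofNat 0, .ofNat 0⟩)
    (by decide +kernel)
theorem L00045 : Good (Phi V5.P V5.D (-1) (-1)) ⟨2, 0, 2, 0, 1, 1, 2, 1, 3, 0⟩ :=
  leafX_sound T5.ok_mm T5.Ymm.bz_eq (w := 177) (c := ⟨⟨.ofNat 924, .ofNat 110, .ofNat 221, .negSucc 84, .negSucc 105, .negSucc 2026⟩, ⟨.negSucc 109, .negSucc 111, .negSucc 12, .ofNat 284, .ofNat 54, .ofNat 44⟩, ⟨.negSucc 874, .ofNat 19, .negSucc 134, .ofNat 399, .ofNat 187, .ofNat 878⟩, ⟨.ofNat 2677, .ofNat 190, .ofNat 622, .negSucc 211, .negSucc 245, .negSucc 5769⟩, ⟨.ofNat 83, .negSucc 324, .ofNat 171, .ofNat 1601, .ofNat 16, .negSucc 1296⟩, .ofNat 651, .ofNat 105, .ofNat 0, .ofNat 105, .ofNat 1418, .ofNat 0, .ofNat 212, .negSucc 30, .negSucc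 105, .ofNat 0, .ofNat 128, .ofNat 24, .ofNat 0, .ofNat 0, .ofNat 311, .ofNat 475, .ofNat 0, .ofNat 0, .ofNat 0, .ofNat 0, .ofNat 0, .ofNat 0, .ofNat 0, .ofNat 0, .ofNat 0, .ofNat 0, .ofNat 0, .ofNat 0, .ofNat 0, .ofNat 0, .ofNat 0, .ofNat 0⟩)
    (by decide +kernel)
theorem L00046 : Good (Phi V5.P V5.D (-1) (-1)) ⟨2, 0, 2, 0, 2, 2, 3, 0, 4, 2⟩ :=
  leafX_sound T5.ok_mm T5.Ymm.bz_eq (w := 203) (c := ⟨⟨.negSucc 1056, .negSucc 231, .ofNat 57, .ofNat 24, .ofNat 47, .negSucc 287⟩, ⟨.negSucc 170, .negSucc 38, .ofNat 339, .negSucc 0, .ofNat 3, .ofNat 37⟩, ⟨.ofNat 172, .ofNat 346, .negSucc 127, .negSucc 329, .ofNat 23, .ofNat 433⟩, ⟨.negSucc 3229, .negSucc 314, .negSucc 41, .ofNat 99, .ofNat 108, .negSucc 823⟩, ⟨.negSucc 1040, .negSucc 279, .ofNat 123, .negSucc 6, .ofNat 221, .ofNat 36⟩, .ofNat 649, .ofNat 100, .ofNat 0, .ofNat 100, .ofNat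 1430, .ofNat 0, .ofNat 229, .negSucc 46, .negSucc 53, .ofNat 0, .ofNat 128, .ofNat 20, .ofNat 0, .ofNat 0, .ofNat 372, .ofNat 13571, .ofNat 20777947935259357559464087714852191076352, .ofNat 0, .ofNat 0, .ofNat 0, .ofNat 0, .ofNat 0, .ofNat 0, .ofNat 0, .ofNat 0, .ofNat 0, .ofNat 0, .ofNat 0, .ofNat 56719746032843732478777710177716891811840, .ofNat 0, .ofNat 0, .ofNat 0⟩)
    (by decide +kernel)
theorem L00047 : Good (Phi V5.P V5.D (-1) (-1)) ⟨2, 0, 2, 0, 2, 2, 3, 1, 4, 2⟩ :=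
  leafX_sound T5.ok_mm T5.Ymm.bz_eq (w := 203) (c := ⟨⟨.negSucc 1052, .negSucc 203, .ofNat 52, .ofNat 16, .ofNat 42, .negSucc 243⟩, ⟨.negSucc 147, .negSucc 51, .ofNat 343, .negSucc 4, .ofNat 11, .ofNat 23⟩, ⟨.ofNat 243, .ofNat 257, .negSucc 92, .negSucc 275, .ofNat 18, .ofNat 382⟩, ⟨.negSucc 3222, .negSucc 256, .negSucc 35, .ofNat 59, .ofNat 128, .negSucc 701⟩, ⟨.negSucc 780, .negSucc 269, .ofNat 89, .negSucc 104, .ofNat 121, .ofNat 68⟩, .ofNat 586, .ofNat 78, .ofNat 0, .ofNat 78, .ofNat 1126, .ofNat 0, .ofNat 321, .negSucc 41, .negSucc 69, .ofNat 0, .ofNat 128, .ofNat 26, .ofNat 0, .ofNat 0, .ofNat 377, .ofNat 6436, .ofNat 0, .ofNat 0, .ofNat 0, .ofNat 0, .ofNat 0, .ofNat 0, .ofNat 0, .ofNat 0, .ofNat 0, .ofNat 0, .ofNat 0, .ofNat 0, .ofNat 0, .ofNat 0, .ofNat 0, .ofNat 0⟩)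
    (by decide +kernel)
theorem L00048 : Good (Phi V5.P V5.D (-1) (-1)) ⟨2, 0, 2, 0, 2, 2, 2, 1, 4, 2⟩ :=
  leafX_sound T5.ok_mm T5.Ymm.bz_eq (w := 198) (c := ⟨⟨.negSucc 977, .negSucc 213, .ofNat 94, .ofNat 28, .ofNat 79, .negSucc 308⟩, ⟨.negSucc 147, .negSucc 34, .ofNat 319, .negSucc 19, .ofNat 15, .ofNat 45⟩, ⟨.ofNat 302, .ofNat 171, .negSucc 88, .negSucc 254, .ofNat 109, .ofNat 365⟩, ⟨.negSucc 2975, .negSucc 273, .ofNat 91, .ofNat 88, .ofNat 236, .negSucc 920⟩, ⟨.negSucc 651, .negSucc 193, .ofNat 117, .negSucc 83, .ofNat 155, .negSucc 52⟩, .ofNat 583, .ofNat 88, .ofNat 0, .ofNat 88, .ofNat 1154, .ofNat 0, .ofNat 262, .negSucc 39, .negSucc 72, .ofNat 0, .ofNat 128, .ofNat 21, .ofNat 0, .ofNat 0, .ofNat 308, .ofNat 2883, .ofNat 0, .ofNat 0, .ofNat 0, .ofNat 0, .ofNat 0, .ofNat 0, .ofNat 0, .ofNat 0, .ofNat 0, .ofNat 0, .ofNat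 0, .ofNat 0, .ofNat 0, .ofNat 0, .ofNat 0, .ofNat 0⟩)
    (by decide +kernel)
theorem L00049 : Good (Phi V5.P V5.D (-1) (-1)) ⟨2, 0, 2, 0, 4, 12, 4, 0, 4, 2⟩ :=
  leafX_sound T5.ok_mm T5.Ymm.bz_eq (w := 236) (c := ⟨⟨.negSucc 1026, .negSucc 228, .ofNat 53, .ofNat 14, .ofNat 39, .negSucc 282⟩, ⟨.negSucc 150, .negSucc 70, .ofNat 348, .ofNat 31, .ofNat 3, .ofNat 11⟩, ⟨.negSucc 173, .ofNat 507, .negSucc 176, .ofNat 66, .ofNat 1, .ofNat 448⟩, ⟨.negSucc 3100, .negSucc 324, .negSucc 36, .ofNat 59, .ofNat 71, .negSucc 827⟩, ⟨.negSucc 789, .negSucc 489, .ofNat 267, .ofNat 190, .ofNat 39, .negSucc 95⟩, .ofNat 581, .ofNat 57, .ofNat 0, .ofNat 57, .ofNat 1128, .ofNat 0, .ofNat 223, .negSucc 52, .negSucc 44, .ofNat 0, .ofNat 128, .ofNat 15, .ofNat 0, .ofNat 0, .ofNat 258, .ofNat 26186, .ofNat 7326002719590629661755187992709698812983149330432,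 .ofNat 0, .ofNat 0, .ofNat 0, .ofNat 0, .ofNat 0, .ofNat 0, .ofNat 0, .ofNat 0, .ofNat 0, .ofNat 0, .ofNat 0, .ofNat 8212973680059861061527648817564646212341273198592, .ofNat 0, .ofNat 0, .ofNat 0⟩)
    (by decide +kernel)
theorem L00050 : Good (Phi V5.P V5.D (-1) (-1)) ⟨2, 0, 2, 0, 4, 13, 4, 0, 4, 2⟩ :=
  leafX_sound T5.ok_mm T5.Ymm.bz_eq (w := 236) (c := ⟨⟨.negSucc 969, .negSucc 180, .ofNat 3, .ofNat 3, .negSucc 44, .negSucc 268⟩, ⟨.negSucc 111, .negSucc 110, .ofNat 373, .ofNat 33, .ofNat 25, .negSucc 10⟩, ⟨.negSucc 83, .ofNat 500, .negSucc 143, .ofNat 105, .ofNat 2, .ofNat 410⟩, ⟨.negSucc 3003, .negSucc 254, .negSucc 44, .ofNat 49, .negSucc 68, .negSucc 796⟩, ⟨.negSucc 515, .negSucc 563, .ofNat 510, .ofNat 270, .ofNat 100, .negSucc 327⟩, .ofNat 583, .ofNat 58, .ofNat 0, .ofNat 58, .ofNat 1119, .ofNat 0, .ofNat 219, .negSucc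 56, .negSucc 56, .ofNat 0, .ofNat 128, .ofNat 14, .ofNat 0, .ofNat 0, .ofNat 292, .ofNat 21357, .ofNat 5676558684901153889131276405822690419621102616576, .ofNat 0, .ofNat 0, .ofNat 0, .ofNat 0, .ofNat 0, .ofNat 0, .ofNat 0, .ofNat 9812144084492278923273994571131363094931015991296, .ofNat 0, .ofNat 0, .ofNat 0, .ofNat 10390029034002935801356175758040168117873655414784, .ofNat 0, .ofNat 0, .ofNat 0⟩)
    (by decide +kernel)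
theorem L00051 : Good (Phi V5.P V5.D (-1) (-1)) ⟨2, 0, 2, 0, 3, 6, 4, 1, 4, 2⟩ :=
  leafX_sound T5.ok_mm T5.Ymm.bz_eq (w := 221) (c := ⟨⟨.negSucc 1035, .negSucc 177, .ofNat 42, .ofNat 24, .ofNat 53, .negSucc 301⟩, ⟨.negSucc 120, .negSucc 90, .ofNat 356, .ofNat 42, .negSucc 2, .ofNat 10⟩, ⟨.negSucc 101, .ofNat 417, .negSucc 135, .ofNat 127, .negSucc 38, .ofNat 427⟩, ⟨.negSucc 3129, .negSucc 229, .negSucc 4, .ofNat 132, .ofNat 118, .negSucc 886⟩, ⟨.negSucc 764, .negSucc 488, .ofNat 381, .ofNat 411, .ofNat 48, .negSucc 114⟩, .ofNat 580, .ofNat 59, .ofNat 0, .ofNat 59, .ofNat 1136, .ofNat 0, .ofNat 197, .negSucc 52, .negSucc 53, .ofNat 0, .ofNat 128, .ofNat 15, .ofNat 0, .ofNat 0, .ofNat 261, .ofNat 8563, .ofNat 0, .ofNat 0, .ofNat 0, .ofNat 0, .ofNat 0, .ofNat 0, .ofNat 0, .ofNat 0, .ofNat 0, .ofNat 0, .ofNat 0, .ofNat 0, .ofNat 0,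 .ofNat 0, .ofNat 0, .ofNat 0⟩)
    (by decide +kernel)
theorem L00052 : Good (Phi V5.P V5.D (-1) (-1)) ⟨2, 0, 2, 0, 3, 6, 3, 1, 4, 2⟩ :=
  leafX_sound T5.ok_mm T5.Ymm.bz_eq (w := 216) (c := ⟨⟨.negSucc 984, .negSucc 161, .ofNat 56, .ofNat 9, .ofNat 44, .negSucc 341⟩, ⟨.negSucc 129, .negSucc 82, .ofNat 348, .ofNat 54, .negSucc 1, .ofNat 18⟩, ⟨.negSucc 57, .ofNat 278, .negSucc 84, .ofNat 72, .ofNat 12, .ofNat 420⟩, ⟨.negSucc 3024, .negSucc 184, .ofNat 62, .ofNat 94, .ofNat 121, .negSucc 1001⟩, ⟨.negSucc 692, .negSucc 487, .ofNat 356, .ofNat 429, .ofNat 26, .negSucc 138⟩, .ofNat 585, .ofNat 74, .ofNat 0, .ofNat 74, .ofNat 1124, .ofNat 0, .ofNat 201, .negSucc 49, .negSucc 47, .ofNat 0, .ofNat 128, .ofNat 14, .ofNat 0, .ofNat 0, .ofNat 201, .ofNat 2914, .ofNat 0, .ofNat 0, .ofNat 0, .ofNat 0, .ofNat 0, .ofNat 0, .ofNat 0, .ofNat 0, .ofNat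 0, .ofNat 0, .ofNat 0, .ofNat 0, .ofNat 0, .ofNat 0, .ofNat 0, .ofNat 0⟩)
    (by decide +kernel)
theorem L00053 : Good (Phi V5.P V5.D (-1) (-1)) ⟨2, 0, 2, 0, 3, 7, 2, 0, 4, 2⟩ :=
  leafX_sound T5.ok_mm T5.Ymm.bz_eq (w := 211) (c := ⟨⟨.negSucc 1031, .negSucc 152, .ofNat 36, .negSucc 54, .ofNat 74, .negSucc 290⟩, ⟨.negSucc 13, .negSucc 144, .ofNat 360, .ofNat 113, .negSucc 32, .negSucc 13⟩, ⟨.ofNat 113, .ofNat 353, .negSucc 53, .ofNat 39, .negSucc 87, .ofNat 319⟩, ⟨.negSucc 3103, .negSucc 202, .ofNat 161, .negSucc 25, .ofNat 179, .negSucc 881⟩, ⟨.ofNat 131, .negSucc 753, .ofNat 584, .ofNat 791, .negSucc 124, .negSucc 533⟩, .ofNat 581, .ofNat 72, .ofNat 0, .ofNat 72, .ofNat 1142, .ofNat 0, .ofNat 128, .negSucc 66, .negSucc 55, .ofNat 0, .ofNat 157, .ofNat 7, .ofNat 0, .ofNat 0, .ofNat 240, .ofNat 1942, .ofNat 0, .ofNat 0, .ofNat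 0, .ofNat 0, .ofNat 0, .ofNat 0, .ofNat 0, .ofNat 0, .ofNat 0, .ofNat 0, .ofNat 0, .ofNat 0, .ofNat 0, .ofNat 0, .ofNat 0, .ofNat 0⟩)
    (by decide +kernel)
theorem L00054 : Good (Phi V5.P V5.D (-1) (-1)) ⟨2, 0, 2, 0, 2, 3, 2, 1, 4, 2⟩ :=
  leafX_sound T5.ok_mm T5.Ymm.bz_eq (w := 196) (c := ⟨⟨.negSucc 974, .negSucc 126, .ofNat 72, .negSucc 40, .ofNat 13, .negSucc 285⟩, ⟨.negSucc 115, .negSucc 77, .ofNat 343, .ofNat 70, .ofNat 3, .ofNat 5⟩, ⟨.ofNat 47, .ofNat 150, .negSucc 22, .ofNat 162, .ofNat 106, .ofNat 327⟩, ⟨.negSucc 2954, .negSucc 101, .ofNat 114, .negSucc 63, .ofNat 38, .negSucc 841⟩, ⟨.negSucc 596, .negSucc 373, .ofNat 376, .ofNat 537, .negSucc 16, .negSucc 189⟩, .ofNat 581, .ofNat 69, .ofNat 0, .ofNat 69, .ofNat 1142, .ofNat 0, .ofNat 180, .negSucc 36, .negSucc 51, .ofNat 0, .ofNat 128, .ofNat 11, .ofNat 0, .ofNat 0,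 .ofNat 180, .ofNat 899, .ofNat 0, .ofNat 0, .ofNat 0, .ofNat 0, .ofNat 0, .ofNat 0, .ofNat 0, .ofNat 0, .ofNat 0, .ofNat 0, .ofNat 0, .ofNat 0, .ofNat 0, .ofNat 0, .ofNat 0, .ofNat 0⟩)
    (by decide +kernel)
theorem L00055 : Good (Phi V5.P V5.D (-1) (-1)) ⟨2, 0, 2, 0, 2, 2, 2, 0, 4, 3⟩ :=
  leafX_sound T5.ok_mm T5.Ymm.bz_eq (w := 199) (c := ⟨⟨.negSucc 1333, .negSucc 176, .ofNat 36, .ofNat 15, .ofNat 53, .ofNat 15⟩, ⟨.negSucc 128, .negSucc 46, .ofNat 353, .negSucc 17, .ofNat 21, .ofNat 6⟩, ⟨.ofNat 638, .ofNat 206, .negSucc 80, .negSucc 248, .ofNat 19, .ofNat 235⟩, ⟨.negSucc 4034, .negSucc 141, .negSucc 75, .ofNat 48, .ofNat 152, .ofNat 40⟩, ⟨.negSucc 868, .negSucc 178, .ofNat 101, .negSucc 119, .ofNat 241, .ofNat 69⟩, .ofNat 579, .ofNat 71, .ofNat 0, .ofNat 71, .ofNat 1157, .ofNat 0, .ofNat 193, .negSucc 34, .negSucc 73, .ofNat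 0, .ofNat 128, .ofNat 28, .ofNat 0, .ofNat 0, .ofNat 563, .ofNat 9449, .ofNat 694164667904894907922083152641906442240, .ofNat 0, .ofNat 0, .ofNat 0, .ofNat 0, .ofNat 0, .ofNat 0, .ofNat 0, .ofNat 2036409657175844327219749109464528060416, .ofNat 0, .ofNat 0, .ofNat 0, .ofNat 17535199939631802140183815625270097870848, .ofNat 0, .ofNat 0, .ofNat 0⟩)
    (by decide +kernel)
theorem L00056 : Good (Phi V5.P V5.D (-1) (-1)) ⟨2, 0, 2, 0, 2, 2, 2, 1, 4, 3⟩ :=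
  leafX_sound T5.ok_mm T5.Ymm.bz_eq (w := 198) (c := ⟨⟨.negSucc 1262, .negSucc 150, .ofNat 48, .negSucc 27, .ofNat 63, .negSucc 0⟩, ⟨.negSucc 108, .negSucc 43, .ofNat 332, .negSucc 12, .ofNat 18, .ofNat 12⟩, ⟨.ofNat 699, .ofNat 68, .negSucc 36, .negSucc 180, .ofNat 53, .ofNat 192⟩, ⟨.negSucc 3853, .negSucc 55, .negSucc 7, .negSucc 57, .ofNat 187, .negSucc 11⟩, ⟨.negSucc 643, .negSucc 99, .ofNat 67, .negSucc 151, .ofNat 181, .ofNat 52⟩, .ofNat 696, .ofNat 138, .ofNat 0, .ofNat 138, .ofNat 1675, .ofNat 0, .ofNat 247, .negSucc 39, .negSucc 79, .ofNat 0, .ofNat 128, .ofNat 23, .ofNat 0, .ofNat 0, .ofNat 537, .ofNat 3297, .ofNat 0, .ofNat 0, .ofNat 0, .ofNat 0, .ofNat 0, .ofNat 0, .ofNat 0, .ofNat 0, .ofNat 0, .ofNat 0, .ofNat 0, .ofNat 0, .ofNat 0, .ofNat 0, .ofNat 0, .ofNat 0⟩)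
    (by decide +kernel)
theorem L00057 : Good (Phi V5.P V5.D (-1) (-1)) ⟨3, 0, 2, 0, 2, 3, 2, 0, 4, 3⟩ :=
  leafX_sound T5.ok_mm T5.Ymm.bz_eq (w := 201) (c := ⟨⟨.negSucc 1293, .negSucc 20, .ofNat 2, .ofNat 50, .ofNat 2, .ofNat 14⟩, ⟨.negSucc 127, .negSucc 66, .ofNat 379, .ofNat 99, .ofNat 18, .negSucc 11⟩, ⟨.ofNat 376, .ofNat 91, .negSucc 52, .ofNat 103, .ofNat 40, .ofNat 212⟩, ⟨.negSucc 3941, .negSucc 0, .negSucc 76, .ofNat 296, .ofNat 27, .ofNat 34⟩, ⟨.negSucc 918, .negSucc 228, .ofNat 374, .ofNat 782, .ofNat 178, .negSucc 97⟩, .ofNat 761, .ofNat 193, .ofNat 0, .ofNat 193, .ofNat 1756, .ofNat 0, .ofNat 128, .negSucc 57, .negSucc 27, .ofNat 0, .ofNat 137, .ofNat 7, .ofNat 0, .ofNat 0, .ofNat 219, .ofNat 1655, .ofNat 2744158031953375454729739161686669000704, .ofNat 0, .ofNat 0, .ofNat 0, .ofNat 0, .ofNat 0, .ofNat 0, .ofNat 0,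 .ofNat 0, .ofNat 0, .ofNat 0, .ofNat 0, .ofNat 0, .ofNat 0, .ofNat 0, .ofNat 0⟩)
    (by decide +kernel)
theorem L00058 : Good (Phi V5.P V5.D (-1) (-1)) ⟨3, 1, 2, 0, 2, 3, 2, 0, 4, 3⟩ :=
  leafX_sound T5.ok_mm T5.Ymm.bz_eq (w := 202) (c := ⟨⟨.negSucc 1373, .negSucc 100, .ofNat 29, .ofNat 98, .ofNat 21, .ofNat 41⟩, ⟨.negSucc 173, .negSucc 12, .ofNat 366, .ofNat 47, .ofNat 18, .negSucc 12⟩, ⟨.ofNat 598, .ofNat 150, .negSucc 65, .ofNat 50, .negSucc 98, .ofNat 169⟩, ⟨.negSucc 4036, .negSucc 53, .negSucc 67, .ofNat 342, .ofNat 89, .ofNat 100⟩, ⟨.negSucc 1018, .negSucc 178, .ofNat 252, .ofNat 468, .ofNat 183, .negSucc 74⟩, .ofNat 684, .ofNat 138, .ofNat 0, .ofNat 138, .ofNat 1818, .ofNat 0, .ofNat 128, .negSucc 66, .negSucc 62, .ofNat 0, .ofNat 169, .ofNat 12, .ofNat 0, .ofNat 0, .ofNat 484, .ofNat 3075, .ofNat 3071175032782691976945254478590720868352,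 .ofNat 0, .ofNat 0, .ofNat 0, .ofNat 0, .ofNat 0, .ofNat 0, .ofNat 0, .ofNat 0, .ofNat 0, .ofNat 0, .ofNat 0, .ofNat 0, .ofNat 0, .ofNat 0, .ofNat 0⟩)
    (by decide +kernel)
theorem L00059 : Good (Phi V5.P V5.D (-1) (-1)) ⟨2, 0, 2, 0, 2, 3, 2, 1, 4, 3⟩ :=
  leafX_sound T5.ok_mm T5.Ymm.bz_eq (w := 197) (c := ⟨⟨.negSucc 1308, .negSucc 88, .ofNat 28, .ofNat 57, .ofNat 39, .ofNat 8⟩, ⟨.negSucc 99, .negSucc 73, .ofNat 355, .ofNat 43, .ofNat 8, .negSucc 2⟩, ⟨.ofNat 491, .ofNat 57, .negSucc 19, .ofNat 21, .ofNat 77, .ofNat 199⟩, ⟨.negSucc 3931, .ofNat 65, .negSucc 36, .ofNat 203, .ofNat 83, .ofNat 15⟩, ⟨.negSucc 664, .negSucc 283, .ofNat 192, .ofNat 320, .ofNat 144, .negSucc 2⟩, .ofNat 724, .ofNat 167, .ofNat 0, .ofNat 167, .ofNat 1843, .ofNat 0, .ofNat 190, .negSucc 44, .negSucc 58, .ofNat 0, .ofNat 128, .ofNat 12, .ofNat 0, .ofNat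 0, .ofNat 435, .ofNat 1509, .ofNat 0, .ofNat 0, .ofNat 0, .ofNat 0, .ofNat 0, .ofNat 0, .ofNat 0, .ofNat 0, .ofNat 0, .ofNat 0, .ofNat 0, .ofNat 0, .ofNat 0, .ofNat 0, .ofNat 0, .ofNat 0⟩)
    (by decide +kernel)
theorem L00060 : Good (Phi V5.P V5.D (-1) (-1)) ⟨2, 0, 2, 0, 2, 2, 2, 0, 4, 4⟩ :=
  leafX_sound T5.ok_mm T5.Ymm.bz_eq (w := 199) (c := ⟨⟨.negSucc 1359, .negSucc 137, .ofNat 36, .ofNat 39, .ofNat 66, .ofNat 77⟩, ⟨.negSucc 113, .negSucc 37, .ofNat 337, .negSucc 24, .ofNat 21, .ofNat 1⟩, ⟨.ofNat 1012, .ofNat 155, .negSucc 54, .negSucc 300, .negSucc 110, .ofNat 194⟩, ⟨.negSucc 4044, .negSucc 53, .negSucc 55, .ofNat 72, .ofNat 143, .ofNat 237⟩, ⟨.negSucc 677, .negSucc 89, .ofNat 50, .negSucc 214, .ofNat 125, .ofNat 102⟩, .ofNat 585, .ofNat 89, .ofNat 0, .ofNat 89, .ofNat 1140, .ofNat 0, .ofNat 139, .negSucc 34, .negSucc 24,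 .ofNat 0, .ofNat 128, .ofNat 11, .ofNat 0, .ofNat 0, .ofNat 292, .ofNat 8493, .ofNat 395223439151524141853739350082057142272, .ofNat 0, .ofNat 0, .ofNat 0, .ofNat 0, .ofNat 0, .ofNat 0, .ofNat 0, .ofNat 0, .ofNat 0, .ofNat 0, .ofNat 0, .ofNat 5424764525230766757728030244280278712320, .ofNat 0, .ofNat 0, .ofNat 0⟩)
    (by decide +kernel)
theorem L00061 : Good (Phi V5.P V5.D (-1) (-1)) ⟨2, 0, 2, 0, 2, 2, 2, 1, 4, 4⟩ :=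
  leafX_sound T5.ok_mm T5.Ymm.bz_eq (w := 199) (c := ⟨⟨.negSucc 1272, .negSucc 108, .ofNat 28, .ofNat 1, .ofNat 60, .ofNat 57⟩, ⟨.negSucc 97, .negSucc 36, .ofNat 318, .negSucc 12, .ofNat 15, .ofNat 11⟩, ⟨.ofNat 918, .ofNat 12, .ofNat 7, .negSucc 191, .negSucc 17, .ofNat 171⟩, ⟨.negSucc 3875, .ofNat 32, .negSucc 49, .ofNat 11, .ofNat 183, .ofNat 188⟩, ⟨.negSucc 605, .negSucc 45, .ofNat 48, .negSucc 146, .ofNat 164, .ofNat 95⟩, .ofNat 582, .ofNat 73, .ofNat 0, .ofNat 73, .ofNat 1141, .ofNat 0, .ofNat 266, .negSucc 27, .negSucc 85, .ofNat 0, .ofNat 128, .ofNat 26, .ofNat 0, .ofNat 0, .ofNat 949, .ofNat 4370, .ofNat 0, .ofNat 0, .ofNat 0, .ofNat 0, .ofNat 0, .ofNat 0, .ofNat 0, .ofNat 0, .ofNat 0, .ofNat 0, .ofNat 0, .ofNat 0, .ofNat 0, .ofNat 0, .ofNat 0, .ofNat 0⟩)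
    (by decide +kernel)
theorem L00062 : Good (Phi V5.P V5.D (-1) (-1)) ⟨2, 0, 3, 0, 2, 3, 1, 0, 4, 4⟩ :=
  leafX_sound T5.ok_mm T5.Ymm.bz_eq (w := 196) (c := ⟨⟨.negSucc 1324, .negSucc 90, .ofNat 16, .ofNat 137, .ofNat 50, .ofNat 105⟩, ⟨.negSucc 120, .negSucc 63, .ofNat 166, .ofNat 12, .ofNat 47, .ofNat 9⟩, ⟨.ofNat 750, .ofNat 105, .negSucc 55, .negSucc 46, .negSucc 28, .ofNat 154⟩, ⟨.negSucc 3967, .ofNat 77, .negSucc 41, .ofNat 382, .ofNat 122, .ofNat 294⟩, ⟨.negSucc 878, .negSucc 242, .ofNat 88, .ofNat 144, .ofNat 429, .ofNat 118⟩, .ofNat 643, .ofNat 33, .ofNat 0, .ofNat 33, .ofNat 1397, .ofNat 0, .ofNat 163, .negSucc 20, .negSucc 31, .ofNat 0, .ofNat 128, .ofNat 7, .ofNat 0, .ofNat 0, .ofNat 615, .ofNat 953, .ofNat 0, .ofNat 0, .ofNat 0, .ofNat 0, .ofNat 0, .ofNat 0, .ofNat 0, .ofNat 0, .ofNat 0, .ofNat 0, .ofNat 0, .ofNat 0,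 .ofNat 0, .ofNat 623089314628015441317003450933888155648, .ofNat 0, .ofNat 0⟩)
    (by decide +kernel)
theorem L00063 : Good (Phi V5.P V5.D (-1) (-1)) ⟨2, 0, 3, 1, 2, 3, 1, 0, 4, 4⟩ :=
  leafX_sound T5.ok_mm T5.Ymm.bz_eq (w := 195) (c := ⟨⟨.negSucc 1303, .negSucc 87, .ofNat 2, .ofNat 96, .ofNat 41, .ofNat 115⟩, ⟨.ofNat 65, .negSucc 66, .ofNat 170, .ofNat 31, .ofNat 30, .negSucc 11⟩, ⟨.ofNat 654, .ofNat 77, .negSucc 7, .ofNat 38, .ofNat 78, .ofNat 133⟩, ⟨.negSucc 3989, .ofNat 62, .negSucc 55, .ofNat 323, .ofNat 124, .ofNat 305⟩, ⟨.negSucc 726, .negSucc 315, .ofNat 71, .ofNat 326, .ofNat 387, .ofNat 64⟩, .ofNat 723, .ofNat 238, .ofNat 0, .ofNat 238, .ofNat 1710, .ofNat 0, .ofNat 151, .negSucc 55, .negSucc 29, .ofNat 0, .ofNat 128, .ofNat 6, .ofNat 0, .ofNat 0, .ofNat 550, .ofNat 589, .ofNat 0, .ofNat 0, .ofNat 0, .ofNat 0, .ofNat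 0, .ofNat 0, .ofNat 0, .ofNat 0, .ofNat 0, .ofNat 0, .ofNat 0, .ofNat 0, .ofNat 0, .ofNat 568298175184042371564076934377666248704, .ofNat 0, .ofNat 0⟩)
    (by decide +kernel)
theorem L00064 : Good (Phi V5.P V5.D (-1) (-1)) ⟨2, 0, 2, 0, 2, 2, 2, 0, 4, 5⟩ :=
  leafX_sound T5.ok_mm T5.Ymm.bz_eq (w := 201) (c := ⟨⟨.negSucc 1259, .negSucc 99, .ofNat 22, .ofNat 70, .ofNat 11, .ofNat 106⟩, ⟨.negSucc 126, .negSucc 41, .ofNat 310, .negSucc 14, .ofNat 48, .negSucc 3⟩, ⟨.ofNat 1114, .ofNat 68, .negSucc 19, .negSucc 221, .negSucc 44, .ofNat 207⟩, ⟨.negSucc 3816, .ofNat 45, .negSucc 76, .ofNat 177, .ofNat 57, .ofNat 326⟩, ⟨.negSucc 763, .negSucc 122, .ofNat 63, .negSucc 38, .ofNat 209, .ofNat 66⟩, .ofNat 401, .ofNat 31, .ofNat 0, .ofNat 31, .ofNat 598, .ofNat 0, .ofNat 228, .negSucc 23, .negSucc 22, .ofNat 0, .ofNat 128, .ofNat 13, .ofNat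 0, .ofNat 0, .ofNat 555, .ofNat 36058, .ofNat 5627690380483206337511666786107266170880, .ofNat 0, .ofNat 0, .ofNat 0, .ofNat 67649095791385112695722964798369729347584, .ofNat 0, .ofNat 0, .ofNat 0, .ofNat 30458359151398297592236007006760872181760, .ofNat 0, .ofNat 0, .ofNat 0, .ofNat 41949890624464497877813523900040642297856, .ofNat 0, .ofNat 0, .ofNat 0⟩)
    (by decide +kernel)
theorem L00065 : Good (Phi V5.P V5.D (-1) (-1)) ⟨2, 0, 2, 0, 2, 3, 2, 0, 4, 5⟩ :=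
  leafX_sound T5.ok_mm T5.Ymm.bz_eq (w := 196) (c := ⟨⟨.negSucc 1195, .negSucc 74, .ofNat 15, .ofNat 114, .ofNat 5, .ofNat 113⟩, ⟨.negSucc 116, .negSucc 44, .ofNat 307, .ofNat 7, .ofNat 26, .negSucc 2⟩, ⟨.ofNat 928, .ofNat 52, .negSucc 13, .negSucc 22, .negSucc 95, .ofNat 238⟩, ⟨.negSucc 3631, .ofNat 112, .negSucc 95, .ofNat 371, .ofNat 23, .ofNat 314⟩, ⟨.negSucc 771, .negSucc 174, .ofNat 95, .ofNat 97, .ofNat 177, .ofNat 104⟩, .ofNat 652, .ofNat 122, .ofNat 0, .ofNat 122, .ofNat 1445, .ofNat 0, .ofNat 128, .negSucc 47, .negSucc 6, .ofNat 0, .ofNat 164, .ofNat 3, .ofNat 0, .ofNat 0, .ofNat 473, .ofNat 599, .ofNat 0, .ofNat 0, .ofNat 0, .ofNat 0, .ofNat 0, .ofNat 0, .ofNat 0, .ofNat 0, .ofNat 0, .ofNat 0, .ofNat 0, .ofNat 0, .ofNat 9986659422901944127795748775441566007296, .ofNat 478657638240013632312607177869686210560, .ofNat 0,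 .ofNat 0⟩)
    (by decide +kernel)
theorem L00066 : Good (Phi V5.P V5.D (-1) (-1)) ⟨3, 0, 2, 0, 2, 2, 2, 1, 4, 5⟩ :=
  leafX_sound T5.ok_mm T5.Ymm.bz_eq (w := 204) (c := ⟨⟨.negSucc 1205, .negSucc 17, .ofNat 19, .ofNat 8, .ofNat 29, .ofNat 85⟩, ⟨.negSucc 68, .negSucc 36, .ofNat 297, .negSucc 8, .ofNat 18, .negSucc 2⟩, ⟨.ofNat 1005, .negSucc 4, .ofNat 41, .negSucc 143, .ofNat 26, .ofNat 177⟩, ⟨.negSucc 3629, .ofNat 34, .negSucc 54, .ofNat 21, .ofNat 97, .ofNat 254⟩, ⟨.negSucc 515, .negSucc 21, .ofNat 30, .negSucc 75, .ofNat 152, .ofNat 43⟩, .ofNat 594, .ofNat 85, .ofNat 0, .ofNat 85, .ofNat 1078, .ofNat 0, .ofNat 299, .negSucc 28, .negSucc 52, .ofNat 0, .ofNat 128, .ofNat 17, .ofNat 0, .ofNat 0, .ofNat 1287, .ofNat 8452, .ofNat 9766165590516872693659430031104774504448, .ofNat 0, .ofNat 0, .ofNat 0, .ofNat 0, .ofNat 0, .ofNat 0, .ofNat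 0, .ofNat 0, .ofNat 0, .ofNat 0, .ofNat 0, .ofNat 0, .ofNat 30234383611216725580505493356661096579072, .ofNat 0, .ofNat 0⟩)
    (by decide +kernel)
theorem L00067 : Good (Phi V5.P V5.D (-1) (-1)) ⟨3, 1, 2, 0, 2, 2, 2, 1, 4, 5⟩ :=
  leafX_sound T5.ok_mm T5.Ymm.bz_eq (w := 203) (c := ⟨⟨.negSucc 1263, .negSucc 64, .ofNat 25, .ofNat 35, .ofNat 53, .ofNat 103⟩, ⟨.negSucc 110, .negSucc 1, .ofNat 300, .negSucc 15, .ofNat 18, .ofNat 4⟩, ⟨.ofNat 1128, .negSucc 18, .ofNat 13, .negSucc 195, .negSucc 70, .ofNat 120⟩, ⟨.negSucc 3692, .ofNat 35, .negSucc 38, .ofNat 97, .ofNat 160, .ofNat 285⟩, ⟨.negSucc 546, .negSucc 12, .ofNat 24, .negSucc 120, .ofNat 178, .ofNat 64⟩, .ofNat 570, .ofNat 69, .ofNat 0, .ofNat 69, .ofNat 1229, .ofNat 0, .ofNat 245, .negSucc 26, .negSucc 27, .ofNat 0, .ofNat 128, .ofNat 7, .ofNat 0, .ofNat 0, .ofNat 669, .ofNat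 3480, .ofNat 1474701828019345643127628408233983475712, .ofNat 0, .ofNat 0, .ofNat 0, .ofNat 0, .ofNat 0, .ofNat 0, .ofNat 0, .ofNat 0, .ofNat 0, .ofNat 0, .ofNat 0, .ofNat 0, .ofNat 7842603872339356783114084154525893001216, .ofNat 0, .ofNat 0⟩)
    (by decide +kernel)
theorem L00068 : Good (Phi V5.P V5.D (-1) (-1)) ⟨2, 0, 2, 0, 2, 3, 2, 1, 4, 5⟩ :=
  leafX_sound T5.ok_mm T5.Ymm.bz_eq (w := 197) (c := ⟨⟨.negSucc 1197, .negSucc 62, .ofNat 9, .ofNat 103, .ofNat 25, .ofNat 123⟩, ⟨.negSucc 79, .negSucc 53, .ofNat 295, .ofNat 2, .ofNat 28, .negSucc 3⟩, ⟨.ofNat 879, .negSucc 40, .ofNat 52, .ofNat 6, .ofNat 37, .ofNat 175⟩, ⟨.negSucc 3619, .ofNat 143, .negSucc 84, .ofNat 306, .ofNat 84, .ofNat 331⟩, ⟨.negSucc 588, .negSucc 154, .ofNat 54, .ofNat 89, .ofNat 249, .ofNat 93⟩, .ofNat 580, .ofNat 71, .ofNat 0, .ofNat 71, .ofNat 1148, .ofNat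 0, .ofNat 149, .negSucc 27, .negSucc 5, .ofNat 0, .ofNat 128, .ofNat 0, .ofNat 0, .ofNat 0, .ofNat 638, .ofNat 1067, .ofNat 0, .ofNat 0, .ofNat 0, .ofNat 0, .ofNat 0, .ofNat 242436734831059817239723612269824704512, .ofNat 0, .ofNat 0, .ofNat 0, .ofNat 269848375358795740739022611701854896128, .ofNat 0, .ofNat 0, .ofNat 0, .ofNat 1053522651014819503391493700921828835328, .ofNat 0, .ofNat 0⟩)
    (by decide +kernel)
theorem L00069 : Good (Phi V5.P V5.D (-1) (-1)) ⟨2, 0, 2, 0, 2, 2, 1, 0, 4, 6⟩ :=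
  leafX_sound T5.ok_mm T5.Ymm.bz_eq (w := 194) (c := ⟨⟨.negSucc 1144, .negSucc 65, .ofNat 15, .ofNat 32, .ofNat 54, .ofNat 79⟩, ⟨.negSucc 82, .negSucc 33, .ofNat 273, .negSucc 10, .ofNat 29, .negSucc 3⟩, ⟨.ofNat 1143, .negSucc 94, .ofNat 96, .negSucc 45, .ofNat 22, .ofNat 301⟩, ⟨.negSucc 3472, .ofNat 99, .negSucc 39, .ofNat 75, .ofNat 167, .ofNat 255⟩, ⟨.negSucc 622, .ofNat 10, .negSucc 2, .negSucc 74, .ofNat 304, .ofNat 25⟩, .ofNat 399, .ofNat 30, .ofNat 0, .ofNat 30, .ofNat 604, .ofNat 0, .ofNat 151, .negSucc 17, .negSucc 11, .ofNat 0, .ofNat 128, .negSucc 3, .ofNat 0, .ofNat 0, .ofNat 1045, .ofNat 1805, .ofNat 59094924752659545128864595966615879680, .ofNat 0, .ofNat 0, .ofNat 0, .ofNat 98116947906775421899802528665944719360, .ofNat 66073231127544457749322711738812989440, .ofNat 0, .ofNat 0, .ofNat 0, .ofNat 0, .ofNat 0, .ofNat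 0, .ofNat 7764914119402551469582358918111854329856, .ofNat 620227113403462171067275685023472156672, .ofNat 0, .ofNat 0⟩)
    (by decide +kernel)
theorem L00070 : Good (Phi V5.P V5.D (-1) (-1)) ⟨2, 0, 2, 0, 2, 3, 1, 0, 4, 6⟩ :=
  leafX_sound T5.ok_mm T5.Ymm.bz_eq (w := 193) (c := ⟨⟨.negSucc 1107, .negSucc 57, .ofNat 13, .ofNat 137, .ofNat 52, .ofNat 109⟩, ⟨.negSucc 94, .negSucc 41, .ofNat 282, .negSucc 29, .ofNat 31, .negSucc 7⟩, ⟨.ofNat 1129, .negSucc 89, .ofNat 44, .ofNat 3, .negSucc 6, .ofNat 360⟩, ⟨.negSucc 3345, .ofNat 121, .negSucc 83, .ofNat 294, .ofNat 151, .ofNat 306⟩, ⟨.negSucc 692, .negSucc 103, .ofNat 40, .negSucc 12, .ofNat 367, .ofNat 48⟩, .ofNat 400, .ofNat 39, .ofNat 0, .ofNat 39, .ofNat 606, .ofNat 0, .ofNat 135, .negSucc 25, .ofNat 3, .ofNat 0, .ofNat 128, .negSucc 0, .ofNat 0, .ofNat 0, .ofNat 493, .ofNat 1340,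 .ofNat 0, .ofNat 0, .ofNat 0, .ofNat 0, .ofNat 139149113400088600427606520111401271296, .ofNat 101592743623203297722182042616682512384, .ofNat 0, .ofNat 0, .ofNat 0, .ofNat 117803862502100331903804732295715225600, .ofNat 0, .ofNat 0, .ofNat 3724690625435441182463431504391315652608, .ofNat 660325211169884000868902260421072781312, .ofNat 0, .ofNat 0⟩)
    (by decide +kernel)
theorem L00071 : Good (Phi V5.P V5.D (-1) (-1)) ⟨2, 0, 2, 0, 2, 2, 2, 0, 4, 7⟩ :=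
  out_sound (S := T5.ds_mm) T5.ok_mm (w := 24) (j := 1) (by decide +kernel)
theorem L00072 : Good (Phi V5.P V5.D (-1) (-1)) ⟨2, 0, 2, 0, 3, 4, 3, 2, 4, 7⟩ :=
  out_sound (S := T5.ds_mm) T5.ok_mm (w := 27) (j := 1) (by decide +kernel)
theorem L00073 : Good (Phi V5.P V5.D (-1) (-1)) ⟨2, 0, 2, 0, 4, 8, 3, 3, 5, 14⟩ :=
  out_sound (S := T5.ds_mm) T5.ok_mm (w := 31) (j := 1) (by decide +kernel)
theorem L00074 : Good (Phi V5.P V5.D (-1) (-1)) ⟨2, 0, 2, 0, 4, 9, 4, 6, 5, 14⟩ :=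
  out_sound (S := T5.ds_mm) T5.ok_mm (w := 32) (j := 1) (by decide +kernel)
theorem L00075 : Good (Phi V5.P V5.D (-1) (-1)) ⟨2, 0, 2, 0, 5, 18, 4, 7, 6, 28⟩ :=
  leafX_sound T5.ok_mm T5.Ymm.bz_eq (w := 269) (c := ⟨⟨.negSucc 961, .negSucc 53, .ofNat 22, .ofNat 0, .negSucc 35, .ofNat 0⟩, ⟨.negSucc 66, .negSucc 27, .ofNat 246, .ofNat 0, .ofNat 14, .ofNat 0⟩, ⟨.ofNat 1417, .negSucc 259, .ofNat 306, .ofNat 1, .ofNat 68, .negSucc 0⟩, ⟨.negSucc 3059, .ofNat 130, .negSucc 23, .negSucc 0, .ofNat 26, .ofNat 1⟩, ⟨.negSucc 375, .ofNat 55, .negSucc 41, .ofNat 0, .ofNat 51, .ofNat 0⟩, .ofNat 190, .ofNat 6, .ofNat 0, .ofNat 6, .ofNat 228, .ofNat 0, .ofNat 233, .negSucc 10, .ofNat 29, .ofNat 0, .ofNat 128, .negSucc 48, .ofNat 0, .ofNat 0, .ofNat 1092, .ofNat 3576779, .ofNat 0, .ofNat 0, .ofNat 0, .ofNat 0, .ofNat 248574060362531662494867413492593712978797029589237366784,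 .ofNat 571321808524670844925844817970076120566669712920936448, .ofNat 0, .ofNat 0, .ofNat 65869474670568446562017468652776626294613321181556637696, .ofNat 0, .ofNat 0, .ofNat 0, .ofNat 398205140815494515901745676896943660926842751522839724032, .ofNat 1025251786077697322650401590812746609910626492774088704, .ofNat 0, .ofNat 0⟩)
    (by decide +kernel)
theorem L00076 : Good (Phi V5.P V5.D (-1) (-1)) ⟨2, 0, 2, 0, 5, 19, 6, 28, 7, 56⟩ :=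
  out_sound (S := T5.ds_mm) T5.ok_mm (w := 40) (j := 1) (by decide +kernel)
theorem L00077 : Good (Phi V5.P V5.D (-1) (-1)) ⟨2, 0, 2, 0, 6, 38, 6, 29, 7, 56⟩ :=
  out_sound (S := T5.ds_mm) T5.ok_mm (w := 42) (j := 1) (by decide +kernel)
theorem L00078 : Good (Phi V5.P V5.D (-1) (-1)) ⟨2, 0, 2, 0, 6, 39, 6, 29, 7, 56⟩ :=
  out_sound (S := T5.ds_mm) T5.ok_mm (w := 52) (j := 2) (by decide +kernel)
theorem L00079 : Good (Phi V5.P V5.D (-1) (-1)) ⟨2, 0, 2, 0, 5, 19, 5, 14, 7, 57⟩ :=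
  out_sound (S := T5.ds_mm) T5.ok_mm (w := 39) (j := 1) (by decide +kernel)
theorem L00080 : Good (Phi V5.P V5.D (-1) (-1)) ⟨2, 0, 2, 0, 7, 76, 6, 30, 7, 56⟩ :=
  out_sound (S := T5.ds_mm) T5.ok_mm (w := 44) (j := 1) (by decide +kernel)
theorem L00081 : Good (Phi V5.P V5.D (-1) (-1)) ⟨2, 0, 2, 0, 8, 152, 8, 124, 9, 224⟩ :=
  out_sound (S := T5.ds_mm) T5.ok_mm (w := 52) (j := 1) (by decide +kernel)
theorem L00082 : Good (Phi V5.P V5.D (-1) (-1)) ⟨2, 0, 2, 0, 8, 152, 9, 250, 10, 448⟩ :=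
  out_sound (S := T5.ds_mm) T5.ok_mm (w := 55) (j := 1) (by decide +kernel)
theorem L00083 : Good (Phi V5.P V5.D (-1) (-1)) ⟨2, 0, 2, 0, 9, 304, 9, 251, 10, 448⟩ :=
  out_sound (S := T5.ds_mm) T5.ok_mm (w := 57) (j := 1) (by decide +kernel)
theorem L00084 : Good (Phi V5.P V5.D (-1) (-1)) ⟨2, 0, 2, 0, 9, 305, 9, 251, 10, 448⟩ :=
  out_sound (S := T5.ds_mm) T5.ok_mm (w := 70) (j := 2) (by decide +kernel)
theorem L00085 : Good (Phi V5.P V5.D (-1) (-1)) ⟨2, 0, 2, 0, 8, 152, 8, 125, 10, 449⟩ :=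
  out_sound (S := T5.ds_mm) T5.ok_mm (w := 54) (j := 1) (by decide +kernel)
theorem L00086 : Good (Phi V5.P V5.D (-1) (-1)) ⟨2, 0, 2, 0, 8, 152, 7, 62, 9, 225⟩ :=
  out_sound (S := T5.ds_mm) T5.ok_mm (w := 51) (j := 1) (by decide +kernel)
theorem L00087 : Good (Phi V5.P V5.D (-1) (-1)) ⟨2, 0, 2, 0, 10, 608, 9, 252, 10, 448⟩ :=
  out_sound (S := T5.ds_mm) T5.ok_mm (w := 59) (j := 1) (by decide +kernel)
theorem L00088 : Good (Phi V5.P V5.D (-1) (-1)) ⟨2, 0, 2, 0, 11, 1216, 10, 506, 11, 896⟩ :=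
  out_sound (S := T5.ds_mm) T5.ok_mm (w := 64) (j := 1) (by decide +kernel)
theorem L00089 : Good (Phi V5.P V5.D (-1) (-1)) ⟨2, 0, 2, 0, 11, 1216, 10, 507, 11, 896⟩ :=
  out_sound (S := T5.ds_mm) T5.ok_mm (w := 78) (j := 2) (by decide +kernel)
theorem L00090 : Good (Phi V5.P V5.D (-1) (-1)) ⟨2, 0, 2, 0, 11, 1217, 9, 253, 11, 896⟩ :=
  out_sound (S := T5.ds_mm) T5.ok_mm (w := 76) (j := 2) (by decide +kernel)
theorem L00091 : Good (Phi V5.P V5.D (-1) (-1)) ⟨2, 0, 2, 0, 10, 608, 9, 253, 11, 897⟩ :=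
  out_sound (S := T5.ds_mm) T5.ok_mm (w := 74) (j := 2) (by decide +kernel)
theorem L00092 : Good (Phi V5.P V5.D (-1) (-1)) ⟨2, 0, 2, 0, 10, 609, 8, 126, 10, 448⟩ :=
  out_sound (S := T5.ds_mm) T5.ok_mm (w := 70) (j := 2) (by decide +kernel)
theorem L00093 : Good (Phi V5.P V5.D (-1) (-1)) ⟨2, 0, 2, 0, 9, 304, 8, 126, 10, 449⟩ :=
  out_sound (S := T5.ds_mm) T5.ok_mm (w := 56) (j := 1) (by decide +kernel)
theorem L00094 : Good (Phi V5.P V5.D (-1) (-1)) ⟨2, 0, 2, 0, 9, 304, 8, 127, 9, 224⟩ :=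
  out_sound (S := T5.ds_mm) T5.ok_mm (w := 66) (j := 2) (by decide +kernel)
theorem L00095 : Good (Phi V5.P V5.D (-1) (-1)) ⟨2, 0, 2, 0, 9, 305, 7, 63, 9, 224⟩ :=
  out_sound (S := T5.ds_mm) T5.ok_mm (w := 64) (j := 2) (by decide +kernel)
theorem L00096 : Good (Phi V5.P V5.D (-1) (-1)) ⟨2, 0, 2, 0, 8, 152, 7, 63, 9, 225⟩ :=
  out_sound (S := T5.ds_mm) T5.ok_mm (w := 62) (j := 2) (by decide +kernel)
theorem L00097 : Good (Phi V5.P V5.D (-1) (-1)) ⟨2, 0, 2, 0, 8, 153, 6, 31, 8, 112⟩ :=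
  out_sound (S := T5.ds_mm) T5.ok_mm (w := 58) (j := 2) (by decide +kernel)
theorem L00098 : Good (Phi V5.P V5.D (-1) (-1)) ⟨2, 0, 2, 0, 7, 76, 6, 31, 8, 113⟩ :=
  out_sound (S := T5.ds_mm) T5.ok_mm (w := 56) (j := 2) (by decide +kernel)
theorem L00099 : Good (Phi V5.P V5.D (-1) (-1)) ⟨2, 0, 2, 0, 8, 154, 6, 30, 8, 112⟩ :=
  out_sound (S := T5.ds_mm) T5.ok_mm (w := 48) (j := 1) (by decide +kernel)
theorem L00100 : Good (Phi V5.P V5.D (-1) (-1)) ⟨2, 0, 2, 0, 8, 155, 6, 30, 8, 112⟩ :=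
  out_sound (S := T5.ds_mm) T5.ok_mm (w := 58) (j := 2) (by decide +kernel)
theorem L00101 : Good (Phi V5.P V5.D (-1) (-1)) ⟨2, 0, 2, 0, 7, 77, 6, 30, 8, 113⟩ :=
  out_sound (S := T5.ds_mm) T5.ok_mm (w := 46) (j := 1) (by decide +kernel)
theorem L00102 : Good (Phi V5.P V5.D (-1) (-1)) ⟨2, 0, 2, 0, 7, 77, 6, 31, 7, 56⟩ :=
  out_sound (S := T5.ds_mm) T5.ok_mm (w := 54) (j := 2) (by decide +kernel)
theorem L00103 : Good (Phi V5.P V5.D (-1) (-1)) ⟨2, 0, 2, 0, 6, 38, 5, 15, 7, 57⟩ :=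
  out_sound (S := T5.ds_mm) T5.ok_mm (w := 50) (j := 2) (by decide +kernel)
theorem L00104 : Good (Phi V5.P V5.D (-1) (-1)) ⟨2, 0, 2, 0, 6, 39, 5, 15, 6, 28⟩ :=
  out_sound (S := T5.ds_mm) T5.ok_mm (w := 48) (j := 2) (by decide +kernel)
theorem L00105 : Good (Phi V5.P V5.D (-1) (-1)) ⟨2, 0, 2, 0, 4, 9, 4, 7, 6, 29⟩ :=
  out_sound (S := T5.ds_mm) T5.ok_mm (w := 34) (j := 1) (by decide +kernel)
theorem L00106 : Good (Phi V5.P V5.D (-1) (-1)) ⟨2, 0, 2, 0, 3, 4, 3, 3, 5, 15⟩ :=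
  out_sound (S := T5.ds_mm) T5.ok_mm (w := 29) (j := 1) (by decide +kernel)
theorem L00107 : Good (Phi V5.P V5.D (-1) (-1)) ⟨2, 0, 2, 0, 4, 10, 3, 2, 5, 14⟩ :=
  out_sound (S := T5.ds_mm) T5.ok_mm (w := 31) (j := 1) (by decide +kernel)
theorem L00108 : Good (Phi V5.P V5.D (-1) (-1)) ⟨2, 0, 2, 0, 5, 20, 5, 12, 6, 28⟩ :=
  out_sound (S := T5.ds_mm) T5.ok_mm (w := 37) (j := 1) (by decide +kernel)
theorem L00109 : Good (Phi V5.P V5.D (-1) (-1)) ⟨2, 0, 2, 0, 5, 20, 5, 13, 6, 28⟩ :=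
  out_sound (S := T5.ds_mm) T5.ok_mm (w := 46) (j := 2) (by decide +kernel)
theorem L00110 : Good (Phi V5.P V5.D (-1) (-1)) ⟨2, 0, 2, 0, 5, 20, 4, 7, 6, 28⟩ :=
  out_sound (S := T5.ds_mm) T5.ok_mm (w := 44) (j := 2) (by decide +kernel)
theorem L00111 : Good (Phi V5.P V5.D (-1) (-1)) ⟨2, 0, 2, 0, 5, 20, 3, 3, 6, 29⟩ :=
  out_sound (S := T5.ds_mm) T5.ok_mm (w := 42) (j := 2) (by decide +kernel)
theorem L00112 : Good (Phi V5.P V5.D (-1) (-1)) ⟨2, 0, 2, 0, 5, 21, 3, 3, 5, 14⟩ :=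
  out_sound (S := T5.ds_mm) T5.ok_mm (w := 40) (j := 2) (by decide +kernel)
theorem L00113 : Good (Phi V5.P V5.D (-1) (-1)) ⟨2, 0, 2, 0, 4, 10, 2, 1, 5, 15⟩ :=
  out_sound (S := T5.ds_mm) T5.ok_mm (w := 36) (j := 2) (by decide +kernel)
theorem L00114 : Good (Phi V5.P V5.D (-1) (-1)) ⟨2, 0, 2, 0, 4, 11, 2, 1, 4, 7⟩ :=
  out_sound (S := T5.ds_mm) T5.ok_mm (w := 34) (j := 2) (by decide +kernel)
theorem L00115 : Good (Phi V5.P V5.D (-1) (-1)) ⟨2, 0, 2, 0, 2, 3, 1, 0, 4, 7⟩ :=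
  out_sound (S := T5.ds_mm) T5.ok_mm (w := 28) (j := 2) (by decide +kernel)
theorem L00116 : Good (Phi V5.P V5.D (-1) (-1)) ⟨2, 0, 2, 0, 3, 4, 1, 0, 3, 4⟩ :=
  out_sound (S := T5.ds_mm) T5.ok_mm (w := 23) (j := 1) (by decide +kernel)
theorem L00117 : Good (Phi V5.P V5.D (-1) (-1)) ⟨2, 0, 2, 0, 3, 5, 1, 0, 3, 4⟩ :=
  out_sound (S := T5.ds_mm) T5.ok_mm (w := 28) (j := 2) (by decide +kernel)
theorem L00118 : Good (Phi V5.P V5.D (-1) (-1)) ⟨2, 0, 2, 0, 2, 2, 1, 0, 3, 5⟩ :=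
  out_sound (S := T5.ds_mm) T5.ok_mm (w := 21) (j := 1) (by decide +kernel)
theorem L00119 : Good (Phi V5.P V5.D (-1) (-1)) ⟨2, 0, 2, 0, 2, 2, 1, 0, 2, 3⟩ :=
  out_sound (S := T5.ds_mm) T5.ok_mm (w := 19) (j := 1) (by decide +kernel)
theorem L00120 : Good (Phi V5.P V5.D (-1) (-1)) ⟨2, 0, 2, 0, 2, 3, 1, 0, 1, 1⟩ :=
  out_sound (S := T5.ds_mm) T5.ok_mm (w := 22) (j := 2) (by decide +kernel)
theorem L00121 : Good (Phi V5.P V5.D (-1) (-1)) ⟨2, 0, 2, 0, 1, 1, 2, 2, 3, 0⟩ :=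
  leafX_sound T5.ok_mm T5.Ymm.bz_eq (w := 177) (c := ⟨⟨.ofNat 647, .ofNat 35, .negSucc 25, .negSucc 1, .negSucc 359, .negSucc 1444⟩, ⟨.negSucc 85, .negSucc 73, .ofNat 89, .ofNat 67, .ofNat 16, .ofNat 67⟩, ⟨.negSucc 684, .negSucc 77, .ofNat 149, .ofNat 330, .ofNat 496, .ofNat 645⟩, ⟨.ofNat 1956, .ofNat 177, .negSucc 117, .negSucc 5, .negSucc 1130, .negSucc 4270⟩, ⟨.ofNat 173, .ofNat 105, .ofNat 124, .ofNat 422, .negSucc 423, .negSucc 783⟩, .ofNat 585, .ofNat 85, .ofNat 0, .ofNat 85, .ofNat 1136, .ofNat 0, .ofNat 289, .negSucc 11, .negSucc 176, .ofNat 0, .ofNat 128, .ofNat 42, .ofNat 0, .ofNat 0, .ofNat 422, .ofNat 423, .ofNat 0, .ofNat 0, .ofNat 0, .ofNat 0, .ofNat 0, .ofNat 0, .ofNat 0, .ofNat 0, .ofNat 0, .ofNat 0, .ofNat 0, .ofNat 0, .ofNat 0, .ofNat 0, .ofNat 0, .ofNat 0⟩)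
    (by decide +kernel)
theorem L00122 : Good (Phi V5.P V5.D (-1) (-1)) ⟨2, 0, 2, 0, 1, 1, 2, 3, 4, 0⟩ :=
  leafX_sound T5.ok_mm T5.Ymm.bz_eq (w := 182) (c := ⟨⟨.ofNat 83, .negSucc 66, .ofNat 79, .negSucc 247, .negSucc 422, .negSucc 333⟩, ⟨.negSucc 100, .negSucc 86, .ofNat 127, .ofNat 71, .ofNat 106, .ofNat 24⟩, ⟨.negSucc 119, .negSucc 130, .ofNat 103, .ofNat 386, .ofNat 501, .ofNat 103⟩, ⟨.ofNat 146, .negSucc 156, .ofNat 242, .negSucc 679, .negSucc 1190, .negSucc 919⟩, ⟨.negSucc 93, .negSucc 715, .ofNat 194, .ofNat 260, .ofNat 361, .negSucc 120⟩, .ofNat 700, .ofNat 141, .ofNat 0, .ofNat 141, .ofNat 1645, .ofNat 0, .ofNat 205, .ofNat 0, .negSucc 153, .ofNat 0, .ofNat 128, .ofNat 38, .ofNat 0, .ofNat 0, .ofNat 337, .ofNat 399, .ofNat 0, .ofNat 0, .ofNat 0, .ofNat 0, .ofNat 0, .ofNat 0, .ofNat 0, .ofNat 0, .ofNat 0, .ofNat 0, .ofNat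 0, .ofNat 0, .ofNat 0, .ofNat 0, .ofNat 0, .ofNat 0⟩)
    (by decide +kernel)
theorem L00123 : Good (Phi V5.P V5.D (-1) (-1)) ⟨2, 0, 2, 0, 1, 1, 2, 3, 4, 1⟩ :=
  leafX_sound T5.ok_mm T5.Ymm.bz_eq (w := 182) (c := ⟨⟨.negSucc 482, .negSucc 18, .ofNat 90, .negSucc 251, .negSucc 117, .negSucc 452⟩, ⟨.negSucc 134, .negSucc 51, .ofNat 200, .ofNat 74, .ofNat 111, .ofNat 62⟩, ⟨.ofNat 202, .negSucc 187, .ofNat 36, .ofNat 277, .ofNat 347, .ofNat 339⟩, ⟨.negSucc 1558, .ofNat 167, .ofNat 226, .negSucc 698, .negSucc 280, .negSucc 1303⟩, ⟨.negSucc 676, .negSucc 274, .ofNat 79, .ofNat 401, .ofNat 743, .ofNat 211⟩, .ofNat 582, .ofNat 72, .ofNat 0, .ofNat 72, .ofNat 1138, .ofNat 0, .ofNat 200, .negSucc 3, .negSucc 109, .ofNat 0, .ofNat 128, .ofNat 23, .ofNat 0, .ofNat 0, .ofNat 250, .ofNat 312, .ofNat 0, .ofNat 0, .ofNat 0, .ofNat 0, .ofNat 0,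 .ofNat 0, .ofNat 0, .ofNat 0, .ofNat 0, .ofNat 21164459159950328188859656651669504, .ofNat 0, .ofNat 0, .ofNat 0, .ofNat 0, .ofNat 0, .ofNat 0⟩)
    (by decide +kernel)
theorem L00124 : Good (Phi V5.P V5.D (-1) (-1)) ⟨2, 0, 2, 0, 1, 1, 2, 2, 4, 2⟩ :=
  leafX_sound T5.ok_mm T5.Ymm.bz_eq (w := 182) (c := ⟨⟨.negSucc 934, .negSucc 80, .ofNat 45, .negSucc 105, .negSucc 23, .negSucc 251⟩, ⟨.negSucc 107, .negSucc 66, .ofNat 310, .ofNat 20, .ofNat 23, .ofNat 30⟩, ⟨.ofNat 375, .negSucc 92, .ofNat 62, .negSucc 19, .ofNat 251, .ofNat 306⟩, ⟨.negSucc 2893, .ofNat 54, .ofNat 39, .negSucc 268, .negSucc 43, .negSucc 698⟩, ⟨.negSucc 533, .negSucc 226, .ofNat 133, .ofNat 56, .ofNat 148, .ofNat 52⟩, .ofNat 581, .ofNat 80, .ofNat 0, .ofNat 80, .ofNat 1162, .ofNat 0, .ofNat 145, .negSucc 27, .negSucc 72, .ofNat 0, .ofNat 128, .ofNat 17, .ofNat 0,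 .ofNat 0, .ofNat 248, .ofNat 516, .ofNat 0, .ofNat 0, .ofNat 0, .ofNat 0, .ofNat 0, .ofNat 0, .ofNat 0, .ofNat 0, .ofNat 0, .ofNat 0, .ofNat 0, .ofNat 0, .ofNat 0, .ofNat 0, .ofNat 0, .ofNat 0⟩)
    (by decide +kernel)
theorem L00125 : Good (Phi V5.P V5.D (-1) (-1)) ⟨2, 0, 2, 0, 2, 2, 2, 2, 4, 3⟩ :=
  leafX_sound T5.ok_mm T5.Ymm.bz_eq (w := 198) (c := ⟨⟨.negSucc 1209, .negSucc 110, .ofNat 56, .negSucc 55, .ofNat 58, .ofNat 10⟩, ⟨.negSucc 84, .negSucc 40, .ofNat 307, .negSucc 5, .ofNat 28, .ofNat 5⟩, ⟨.ofNat 840, .negSucc 75, .negSucc 29, .negSucc 102, .ofNat 87, .ofNat 83⟩, ⟨.negSucc 3691, .ofNat 56, .ofNat 49, .negSucc 178, .ofNat 169, .ofNat 30⟩, ⟨.negSucc 512, .negSucc 63, .ofNat 20, .negSucc 88, .ofNat 262, .ofNat 53⟩, .ofNat 577, .ofNat 65, .ofNat 0, .ofNat 65, .ofNat 1164, .ofNat 0, .ofNat 286, .negSucc 24, .negSucc 110,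 .ofNat 0, .ofNat 128, .ofNat 24, .ofNat 0, .ofNat 0, .ofNat 642, .ofNat 1737, .ofNat 0, .ofNat 0, .ofNat 0, .ofNat 0, .ofNat 0, .ofNat 0, .ofNat 0, .ofNat 0, .ofNat 0, .ofNat 0, .ofNat 0, .ofNat 0, .ofNat 0, .ofNat 0, .ofNat 0, .ofNat 0⟩)
    (by decide +kernel)
theorem L00126 : Good (Phi V5.P V5.D (-1) (-1)) ⟨3, 0, 2, 0, 2, 3, 2, 2, 4, 3⟩ :=
  leafX_sound T5.ok_mm T5.Ymm.bz_eq (w := 201) (c := ⟨⟨.negSucc 1285, .ofNat 16, .ofNat 2, .negSucc 51, .negSucc 34, .ofNat 40⟩, ⟨.negSucc 89, .negSucc 52, .ofNat 344, .ofNat 85, .ofNat 64, .ofNat 5⟩, ⟨.ofNat 648, .negSucc 83, .ofNat 60, .ofNat 98, .ofNat 290, .ofNat 145⟩, ⟨.negSucc 3880, .ofNat 141, .negSucc 28, .negSucc 105, .negSucc 91, .ofNat 98⟩, ⟨.negSucc 612, .negSucc 92, .ofNat 162, .ofNat 553, .ofNat 437, .ofNat 43⟩, .ofNat 741, .ofNat 160, .ofNat 0, .ofNat 160, .ofNat 1658, .ofNat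 0, .ofNat 169, .negSucc 36, .negSucc 41, .ofNat 0, .ofNat 128, .ofNat 7, .ofNat 0, .ofNat 0, .ofNat 388, .ofNat 739, .ofNat 0, .ofNat 0, .ofNat 0, .ofNat 0, .ofNat 0, .ofNat 1140935865347451943433002053653468545024, .ofNat 0, .ofNat 0, .ofNat 0, .ofNat 2404418941545097267512528844188786098176, .ofNat 0, .ofNat 0, .ofNat 0, .ofNat 3063987885034106558708151834382820179968, .ofNat 0, .ofNat 0⟩)
    (by decide +kernel)
theorem L00127 : Good (Phi V5.P V5.D (-1) (-1)) ⟨3, 1, 2, 0, 2, 3, 2, 2, 4, 3⟩ :=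
  leafX_sound T5.ok_mm T5.Ymm.bz_eq (w := 200) (c := ⟨⟨.negSucc 1305, .negSucc 28, .ofNat 28, .ofNat 34, .ofNat 12, .ofNat 20⟩, ⟨.negSucc 134, .negSucc 23, .ofNat 335, .ofNat 46, .ofNat 61, .ofNat 16⟩, ⟨.ofNat 622, .negSucc 69, .ofNat 40, .ofNat 38, .ofNat 185, .ofNat 130⟩, ⟨.negSucc 3822, .ofNat 130, .negSucc 7, .ofNat 116, .ofNat 58, .ofNat 62⟩, ⟨.negSucc 744, .negSucc 107, .ofNat 165, .ofNat 388, .ofNat 529, .ofNat 127⟩, .ofNat 573, .ofNat 73, .ofNat 0, .ofNat 73, .ofNat 1212, .ofNat 0, .ofNat 221, .negSucc 30, .negSucc 48, .ofNat 0, .ofNat 128, .ofNat 7, .ofNat 0, .ofNat 0, .ofNat 379, .ofNat 422, .ofNat 0, .ofNat 0, .ofNat 0, .ofNat 0, .ofNat 0, .ofNat 0, .ofNat 0, .ofNat 0, .ofNat 0, .ofNat 0, .ofNat 0, .ofNat 0, .ofNat 0, .ofNat 2560543311872474938795626536743922040832, .ofNat 0, .ofNat 0⟩)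
    (by decide +kernel)
theorem L00128 : Good (Phi V5.P V5.D (-1) (-1)) ⟨2, 0, 2, 0, 1, 1, 2, 3, 4, 2⟩ :=
  leafX_sound T5.ok_mm T5.Ymm.bz_eq (w := 181) (c := ⟨⟨.negSucc 937, .negSucc 21, .ofNat 59, .negSucc 315, .ofNat 32, .negSucc 231⟩, ⟨.negSucc 102, .negSucc 58, .ofNat 262, .ofNat 115, .ofNat 76, .ofNat 60⟩, ⟨.ofNat 644, .negSucc 258, .ofNat 23, .ofNat 281, .ofNat 155, .ofNat 273⟩, ⟨.negSucc 2917, .ofNat 236, .ofNat 121, .negSucc 832, .ofNat 140, .negSucc 624⟩, ⟨.negSucc 706, .ofNat 41, .ofNat 12, .ofNat 559, .ofNat 657, .ofNat 255⟩, .ofNat 656, .ofNat 131, .ofNat 0, .ofNat 131, .ofNat 1426, .ofNat 0, .ofNat 143, .negSucc 32, .negSucc 64, .ofNat 0, .ofNat 128, .ofNat 13, .ofNat 0, .ofNat 0, .ofNat 224, .ofNat 175, .ofNat 0, .ofNat 0, .ofNat 0, .ofNat 0, .ofNat 0, .ofNat 6758618115317869827372085585903616, .ofNat 0, .ofNat 0,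 .ofNat 0, .ofNat 38980092659587359852428863528239104, .ofNat 0, .ofNat 0, .ofNat 0, .ofNat 13627533003537952977094223025143808, .ofNat 0, .ofNat 0⟩)
    (by decide +kernel)
theorem L00129 : Good (Phi V5.P V5.D (-1) (-1)) ⟨2, 0, 2, 0, 2, 2, 2, 3, 4, 3⟩ :=
  leafX_sound T5.ok_mm T5.Ymm.bz_eq (w := 197) (c := ⟨⟨.negSucc 1154, .negSucc 30, .ofNat 6, .negSucc 112, .ofNat 26, .negSucc 8⟩, ⟨.negSucc 59, .negSucc 48, .ofNat 296, .ofNat 31, .ofNat 56, .ofNat 13⟩, ⟨.ofNat 906, .negSucc 225, .ofNat 70, .ofNat 71, .ofNat 85, .ofNat 112⟩, ⟨.negSucc 3537, .ofNat 252, .negSucc 15, .negSucc 324, .ofNat 91, .negSucc 21⟩, ⟨.negSucc 427, .ofNat 74, .ofNat 16, .ofNat 187, .ofNat 507, .ofNat 73⟩, .ofNat 584, .ofNat 76, .ofNat 0, .ofNat 76, .ofNat 1130, .ofNat 0, .ofNat 262, .negSucc 25, .negSucc 100, .ofNat 0, .ofNat 128, .ofNat 17, .ofNat 0, .ofNat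 0, .ofNat 568, .ofNat 661, .ofNat 0, .ofNat 0, .ofNat 0, .ofNat 0, .ofNat 0, .ofNat 363080955687397304817523572097249443840, .ofNat 0, .ofNat 0, .ofNat 0, .ofNat 282850295981540677692574841933572079616, .ofNat 0, .ofNat 0, .ofNat 0, .ofNat 492944279846515758369008270445801111552, .ofNat 0, .ofNat 0⟩)
    (by decide +kernel)
theorem L00130 : Good (Phi V5.P V5.D (-1) (-1)) ⟨2, 0, 2, 0, 2, 3, 3, 6, 4, 3⟩ :=
  leafX_sound T5.ok_mm T5.Ymm.bz_eq (w := 200) (c := ⟨⟨.negSucc 1317, .ofNat 73, .negSucc 36, .negSucc 50, .negSucc 48, .ofNat 15⟩, ⟨.negSucc 19, .negSucc 98, .ofNat 315, .ofNat 115, .ofNat 76, .ofNat 35⟩, ⟨.ofNat 998, .negSucc 354, .ofNat 107, .ofNat 109, .ofNat 183, .ofNat 121⟩, ⟨.negSucc 4000, .ofNat 518, .negSucc 80, .negSucc 76, .negSucc 118, .ofNat 53⟩, ⟨.negSucc 273, .negSucc 83, .ofNat 72, .ofNat 823, .ofNat 576, .ofNat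 272⟩, .ofNat 584, .ofNat 92, .ofNat 0, .ofNat 92, .ofNat 1152, .ofNat 0, .ofNat 161, .negSucc 35, .negSucc 29, .ofNat 0, .ofNat 128, .ofNat 4, .ofNat 0, .ofNat 0, .ofNat 240, .ofNat 216, .ofNat 0, .ofNat 0, .ofNat 0, .ofNat 0, .ofNat 0, .ofNat 252676090261331136357893562650666729472, .ofNat 0, .ofNat 0, .ofNat 0, .ofNat 0, .ofNat 0, .ofNat 0, .ofNat 0, .ofNat 486077721434855835218837773537786200064, .ofNat 0, .ofNat 0⟩)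
    (by decide +kernel)
theorem L00131 : Good (Phi V5.P V5.D (-1) (-1)) ⟨2, 0, 2, 0, 2, 3, 3, 7, 4, 3⟩ :=
  leafX_sound T5.ok_mm T5.Ymm.bz_eq (w := 202) (c := ⟨⟨.negSucc 1347, .ofNat 86, .negSucc 55, .negSucc 197, .negSucc 72, .negSucc 87⟩, ⟨.ofNat 49, .negSucc 96, .ofNat 314, .ofNat 216, .ofNat 217, .ofNat 147⟩, ⟨.ofNat 1196, .negSucc 412, .ofNat 136, .ofNat 211, .ofNat 176, .ofNat 139⟩, ⟨.negSucc 4127, .ofNat 612, .negSucc 77, .negSucc 363, .negSucc 147, .negSucc 165⟩, ⟨.ofNat 280, .ofNat 18, .ofNat 16, .ofNat 1088, .ofNat 939, .ofNat 452⟩, .ofNat 191, .ofNat 5, .ofNat 0, .ofNat 5, .ofNat 227, .ofNat 0, .ofNat 196, .ofNat 0, .negSucc 116, .ofNat 0, .ofNat 128, .ofNat 16, .ofNat 0, .ofNat 0, .ofNat 179, .ofNat 1859, .ofNat 0, .ofNat 51942836112810359387758288591531278336, .ofNat 0, .ofNat 0, .ofNat 0, .ofNat 4378790896227910443228554377639571226624,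 .ofNat 0, .ofNat 0, .ofNat 0, .ofNat 2824919394961773348847716767816176631808, .ofNat 0, .ofNat 0, .ofNat 0, .ofNat 3341663061883969599957978700972879249408, .ofNat 0, .ofNat 0⟩)
    (by decide +kernel)
theorem L00132 : Good (Phi V5.P V5.D (-1) (-1)) ⟨2, 0, 2, 0, 2, 2, 2, 2, 4, 4⟩ :=
  leafX_sound T5.ok_mm T5.Ymm.bz_eq (w := 198) (c := ⟨⟨.negSucc 1219, .negSucc 79, .ofNat 21, .negSucc 24, .ofNat 54, .ofNat 61⟩, ⟨.negSucc 73, .negSucc 34, .ofNat 302, .negSucc 1, .ofNat 23, .ofNat 2⟩, ⟨.ofNat 944, .negSucc 89, .ofNat 45, .negSucc 89, .ofNat 28, .ofNat 112⟩, ⟨.negSucc 3710, .ofNat 111, .negSucc 22, .negSucc 75, .ofNat 147, .ofNat 174⟩, ⟨.negSucc 494, .ofNat 72, .ofNat 27, .negSucc 33, .ofNat 191, .ofNat 46⟩, .ofNat 697, .ofNat 138, .ofNat 0, .ofNat 138, .ofNat 1670, .ofNat 0, .ofNat 230, .negSucc 34, .negSucc 64, .ofNat 0, .ofNat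 128, .ofNat 12, .ofNat 0, .ofNat 0, .ofNat 763, .ofNat 1610, .ofNat 0, .ofNat 0, .ofNat 0, .ofNat 0, .ofNat 0, .ofNat 0, .ofNat 0, .ofNat 0, .ofNat 0, .ofNat 216550279020884138783859276305057972224, .ofNat 0, .ofNat 0, .ofNat 0, .ofNat 877427346426371988923301154900823506944, .ofNat 0, .ofNat 0⟩)
    (by decide +kernel)
theorem L00133 : Good (Phi V5.P V5.D (-1) (-1)) ⟨2, 0, 2, 0, 2, 3, 2, 2, 5, 8⟩ :=
  leafX_sound T5.ok_mm T5.Ymm.bz_eq (w := 201) (c := ⟨⟨.negSucc 1281, .negSucc 17, .ofNat 5, .ofNat 42, .ofNat 15, .ofNat 53⟩, ⟨.negSucc 69, .negSucc 67, .ofNat 318, .ofNat 53, .ofNat 56, .ofNat 5⟩, ⟨.ofNat 881, .negSucc 203, .ofNat 52, .ofNat 34, .ofNat 191, .ofNat 42⟩, ⟨.negSucc 3888, .ofNat 286, .negSucc 61, .ofNat 156, .ofNat 68, .ofNat 144⟩, ⟨.negSucc 507, .negSucc 121, .ofNat 88, .ofNat 445, .ofNat 444, .ofNat 40⟩, .ofNat 581,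 .ofNat 74, .ofNat 0, .ofNat 74, .ofNat 1150, .ofNat 0, .ofNat 171, .negSucc 29, .negSucc 16, .ofNat 0, .ofNat 128, .ofNat 0, .ofNat 0, .ofNat 0, .ofNat 366, .ofNat 273, .ofNat 0, .ofNat 0, .ofNat 0, .ofNat 0, .ofNat 0, .ofNat 0, .ofNat 0, .ofNat 0, .ofNat 0, .ofNat 0, .ofNat 0, .ofNat 0, .ofNat 0, .ofNat 2141790809984229185842511778134831923200, .ofNat 0, .ofNat 0⟩)
    (by decide +kernel)
theorem L00134 : Good (Phi V5.P V5.D (-1) (-1)) ⟨3, 0, 2, 0, 2, 3, 2, 2, 5, 9⟩ :=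
  leafX_sound T5.ok_mm T5.Ymm.bz_eq (w := 204) (c := ⟨⟨.negSucc 1233, .ofNat 14, .negSucc 3, .ofNat 29, .ofNat 9, .ofNat 50⟩, ⟨.negSucc 59, .negSucc 43, .ofNat 314, .ofNat 58, .ofNat 49, .ofNat 0⟩, ⟨.ofNat 894, .negSucc 111, .ofNat 84, .ofNat 96, .ofNat 242, .ofNat 90⟩, ⟨.negSucc 3720, .ofNat 137, .negSucc 74, .ofNat 128, .ofNat 41, .ofNat 147⟩, ⟨.negSucc 449, .negSucc 37, .ofNat 85, .ofNat 448, .ofNat 370, .ofNat 26⟩, .ofNat 591, .ofNat 68, .ofNat 0, .ofNat 68, .ofNat 1073, .ofNat 0, .ofNat 128, .negSucc 29, .negSucc 5, .ofNat 0, .ofNat 140, .negSucc 0, .ofNat 0, .ofNat 0, .ofNat 290, .ofNat 170, .ofNat 0, .ofNat 0, .ofNat 0, .ofNat 0, .ofNat 0, .ofNat 0, .ofNat 0, .ofNat 0, .ofNat 0, .ofNat 0, .ofNat 0, .ofNat 0, .ofNat 0, .ofNat 31041708291378904126904507254361502515200, .ofNat 0, .ofNat 0⟩)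
    (by decide +kernel)
theorem L00135 : Good (Phi V5.P V5.D (-1) (-1)) ⟨3, 1, 2, 0, 2, 3, 2, 2, 5, 9⟩ :=
  leafX_sound T5.ok_mm T5.Ymm.bz_eq (w := 205) (c := ⟨⟨.negSucc 1226, .negSucc 19, .negSucc 4, .ofNat 72, .ofNat 24, .ofNat 49⟩, ⟨.negSucc 97, .negSucc 15, .ofNat 304, .ofNat 28, .ofNat 52, .negSucc 1⟩, ⟨.ofNat 834, .negSucc 134, .ofNat 71, .ofNat 4, .ofNat 127, .ofNat 59⟩, ⟨.negSucc 3612, .ofNat 154, .negSucc 80, .ofNat 258, .ofNat 109, .ofNat 147⟩, ⟨.negSucc 502, .negSucc 30, .ofNat 74, .ofNat 345, .ofNat 490, .ofNat 42⟩, .ofNat 574, .ofNat 78, .ofNat 0, .ofNat 78, .ofNat 1213, .ofNat 0, .ofNat 158, .negSucc 31, .negSucc 6, .ofNat 0, .ofNat 128, .negSucc 2, .ofNat 0, .ofNat 0, .ofNat 385, .ofNat 460, .ofNat 0, .ofNat 0, .ofNat 0, .ofNat 0, .ofNat 0, .ofNat 19695125270124008498354642935956365115392, .ofNat 0, .ofNat 0, .ofNat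 0, .ofNat 37254304216799929977119698847405396983808, .ofNat 0, .ofNat 0, .ofNat 0, .ofNat 53331074132962265408915495802561108115456, .ofNat 0, .ofNat 0⟩)
    (by decide +kernel)
theorem L00136 : Good (Phi V5.P V5.D (-1) (-1)) ⟨2, 0, 2, 0, 3, 4, 2, 2, 4, 5⟩ :=
  leafX_sound T5.ok_mm T5.Ymm.bz_eq (w := 213) (c := ⟨⟨.negSucc 1158, .negSucc 67, .ofNat 13, .negSucc 8, .ofNat 42, .ofNat 81⟩, ⟨.negSucc 56, .negSucc 39, .ofNat 281, .ofNat 1, .ofNat 23, .negSucc 4⟩, ⟨.ofNat 1037, .negSucc 110, .ofNat 82, .negSucc 25, .negSucc 16, .ofNat 143⟩, ⟨.negSucc 3523, .ofNat 126, .negSucc 30, .negSucc 32, .ofNat 119, .ofNat 233⟩, ⟨.negSucc 407, .ofNat 36, .negSucc 4, .negSucc 15, .ofNat 223, .ofNat 47⟩, .ofNat 584, .ofNat 81, .ofNat 0, .ofNat 81, .ofNat 1137, .ofNat 0, .ofNat 334, .negSucc 27, .negSucc 64, .ofNat 0, .ofNat 128, .ofNat 4, .ofNat 0,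 .ofNat 0, .ofNat 1409, .ofNat 4373, .ofNat 0, .ofNat 0, .ofNat 0, .ofNat 0, .ofNat 0, .ofNat 0, .ofNat 0, .ofNat 0, .ofNat 0, .ofNat 1095999038432220536758094834688268859080704, .ofNat 0, .ofNat 0, .ofNat 0, .ofNat 14359366272646520029426618888561841395466240, .ofNat 0, .ofNat 0⟩)
    (by decide +kernel)
theorem L00137 : Good (Phi V5.P V5.D (-1) (-1)) ⟨2, 0, 2, 0, 3, 5, 2, 2, 4, 5⟩ :=
  leafX_sound T5.ok_mm T5.Ymm.bz_eq (w := 212) (c := ⟨⟨.negSucc 1177, .negSucc 38, .ofNat 10, .ofNat 6, .ofNat 22, .ofNat 91⟩, ⟨.negSucc 66, .negSucc 44, .ofNat 286, .ofNat 9, .ofNat 34, .ofNat 2⟩, ⟨.ofNat 1020, .negSucc 206, .ofNat 75, .negSucc 6, .ofNat 125, .ofNat 195⟩, ⟨.negSucc 3578, .ofNat 192, .negSucc 47, .ofNat 30, .ofNat 99, .ofNat 254⟩, ⟨.negSucc 459, .ofNat 36, .ofNat 16, .ofNat 34, .ofNat 284, .ofNat 58⟩, .ofNat 581, .ofNat 76, .ofNat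 0, .ofNat 76, .ofNat 1151, .ofNat 0, .ofNat 218, .negSucc 27, .negSucc 22, .ofNat 0, .ofNat 128, .negSucc 4, .ofNat 0, .ofNat 0, .ofNat 1308, .ofNat 2589, .ofNat 0, .ofNat 0, .ofNat 0, .ofNat 0, .ofNat 0, .ofNat 2086899540547988703826794628298255642918912, .ofNat 0, .ofNat 0, .ofNat 0, .ofNat 1323109093034059370190068936842050600435712, .ofNat 0, .ofNat 0, .ofNat 0, .ofNat 16722186327213413382922355751847242089103360, .ofNat 0, .ofNat 0⟩)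
    (by decide +kernel)
theorem L00138 : Good (Phi V5.P V5.D (-1) (-1)) ⟨2, 0, 2, 0, 2, 3, 2, 2, 4, 5⟩ :=
  leafX_sound T5.ok_mm T5.Ymm.bz_eq (w := 197) (c := ⟨⟨.negSucc 1180, .negSucc 20, .negSucc 5, .ofNat 78, .ofNat 36, .ofNat 143⟩, ⟨.negSucc 55, .negSucc 52, .ofNat 298, .ofNat 28, .ofNat 41, .negSucc 19⟩, ⟨.ofNat 1028, .negSucc 248, .ofNat 77, .negSucc 55, .ofNat 136, .ofNat 162⟩, ⟨.negSucc 3573, .ofNat 249, .negSucc 84, .ofNat 232, .ofNat 102, .ofNat 344⟩, ⟨.negSucc 400, .negSucc 39, .ofNat 50, .ofNat 272, .ofNat 390, .ofNat 77⟩, .ofNat 399, .ofNat 24, .ofNat 0, .ofNat 24, .ofNat 599, .ofNat 0, .ofNat 154, .negSucc 19, .negSucc 4, .ofNat 0, .ofNat 128, .negSucc 4, .ofNat 0, .ofNat 0, .ofNat 502, .ofNat 1314, .ofNat 0, .ofNat 0, .ofNat 0, .ofNat 0, .ofNat 0, .ofNat 362059688028484609314004994558693212160, .ofNat 0, .ofNat 0,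 .ofNat 0, .ofNat 456702626481819436513937484948290142208, .ofNat 0, .ofNat 0, .ofNat 0, .ofNat 1561515984899924667959041738342152536064, .ofNat 0, .ofNat 0⟩)
    (by decide +kernel)
theorem L00139 : Good (Phi V5.P V5.D (-1) (-1)) ⟨2, 0, 2, 0, 2, 2, 2, 3, 4, 4⟩ :=
  leafX_sound T5.ok_mm T5.Ymm.bz_eq (w := 197) (c := ⟨⟨.negSucc 1159, .negSucc 10, .negSucc 7, .negSucc 107, .ofNat 8, .ofNat 41⟩, ⟨.negSucc 57, .negSucc 40, .ofNat 287, .ofNat 45, .ofNat 71, .ofNat 11⟩, ⟨.ofNat 987, .negSucc 274, .ofNat 126, .ofNat 111, .ofNat 29, .ofNat 87⟩, ⟨.negSucc 3551, .ofNat 305, .negSucc 46, .negSucc 289, .ofNat 15, .ofNat 121⟩, ⟨.negSucc 359, .ofNat 155, .negSucc 23, .ofNat 204, .ofNat 448, .ofNat 84⟩, .ofNat 701, .ofNat 153, .ofNat 0, .ofNat 153, .ofNat 1668, .ofNat 0, .ofNat 196, .negSucc 37, .negSucc 37, .ofNat 0, .ofNat 128, .ofNat 3, .ofNat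 0, .ofNat 0, .ofNat 456, .ofNat 560, .ofNat 0, .ofNat 0, .ofNat 0, .ofNat 0, .ofNat 0, .ofNat 241157426874131412714769161103926624256, .ofNat 0, .ofNat 0, .ofNat 0, .ofNat 326518896242681778437682908648083292160, .ofNat 0, .ofNat 0, .ofNat 0, .ofNat 493528353839929171348602770110912921600, .ofNat 0, .ofNat 0⟩)
    (by decide +kernel)
theorem L00140 : Good (Phi V5.P V5.D (-1) (-1)) ⟨2, 0, 2, 0, 2, 3, 2, 3, 4, 4⟩ :=
  leafX_sound T5.ok_mm T5.Ymm.bz_eq (w := 197) (c := ⟨⟨.negSucc 1272, .ofNat 46, .negSucc 36, .negSucc 48, .negSucc 87, .ofNat 51⟩, ⟨.negSucc 4, .negSucc 71, .ofNat 311, .ofNat 112, .ofNat 126, .ofNat 16⟩, ⟨.ofNat 1132, .negSucc 382, .ofNat 120, .ofNat 128, .ofNat 297, .ofNat 118⟩, ⟨.negSucc 3887, .ofNat 462, .negSucc 93, .negSucc 55, .negSucc 67, .ofNat 213⟩, ⟨.negSucc 77, .ofNat 73, .ofNat 21, .ofNat 690, .ofNat 906,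 .ofNat 174⟩, .ofNat 191, .ofNat 5, .ofNat 0, .ofNat 5, .ofNat 227, .ofNat 0, .ofNat 284, .negSucc 19, .negSucc 29, .ofNat 0, .ofNat 128, .negSucc 1, .ofNat 0, .ofNat 0, .ofNat 195, .ofNat 1143, .ofNat 0, .ofNat 6092951099514442464145103543810916352, .ofNat 0, .ofNat 0, .ofNat 0, .ofNat 725199915099016340503696433370426769408, .ofNat 0, .ofNat 0, .ofNat 0, .ofNat 627263223974986103413131950268052668416, .ofNat 0, .ofNat 0, .ofNat 0, .ofNat 382424534842241501523992636500016627712, .ofNat 0, .ofNat 0⟩)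
    (by decide +kernel)
theorem L00141 : Good (Phi V5.P V5.D (-1) (-1)) ⟨2, 0, 2, 0, 2, 2, 2, 3, 4, 5⟩ :=
  leafX_sound T5.ok_mm T5.Ymm.bz_eq (w := 198) (c := ⟨⟨.negSucc 1121, .negSucc 8, .negSucc 0, .negSucc 94, .ofNat 5, .ofNat 57⟩, ⟨.negSucc 31, .negSucc 42, .ofNat 268, .ofNat 38, .ofNat 60, .negSucc 0⟩, ⟨.ofNat 1019, .negSucc 240, .ofNat 165, .ofNat 213, .negSucc 47, .ofNat 121⟩, ⟨.negSucc 3425, .ofNat 281, .negSucc 39, .negSucc 255, .ofNat 86, .ofNat 168⟩, ⟨.negSucc 245, .ofNat 151, .negSucc 27, .ofNat 86, .ofNat 451, .ofNat 54⟩, .ofNat 400, .ofNat 35, .ofNat 0, .ofNat 35, .ofNat 603, .ofNat 0, .ofNat 229, .negSucc 18, .negSucc 40, .ofNat 0, .ofNat 128, .negSucc 13, .ofNat 0, .ofNat 0, .ofNat 820, .ofNat 1541, .ofNat 0, .ofNat 0, .ofNat 0, .ofNat 0, .ofNat 0, .ofNat 889335592781148024470205729702066257920, .ofNat 0, .ofNat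 0, .ofNat 0, .ofNat 771318717622824799728565877948561752064, .ofNat 0, .ofNat 0, .ofNat 0, .ofNat 2394312056662535957004922159675280982016, .ofNat 0, .ofNat 0⟩)
    (by decide +kernel)
theorem L00142 : Good (Phi V5.P V5.D (-1) (-1)) ⟨2, 0, 2, 0, 2, 3, 2, 3, 4, 5⟩ :=
  out_sound (S := T5.ds_mm) T5.ok_mm (w := 30) (j := 2) (by decide +kernel)
theorem L00143 : Good (Phi V5.P V5.D (-1) (-1)) ⟨2, 0, 2, 0, 3, 4, 1, 1, 4, 6⟩ :=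
  leafX_sound T5.ok_mm T5.Ymm.bz_eq (w := 207) (c := ⟨⟨.negSucc 1077, .negSucc 65, .ofNat 12, .ofNat 4, .ofNat 74, .ofNat 72⟩, ⟨.negSucc 50, .negSucc 34, .ofNat 265, .ofNat 2, .ofNat 22, .negSucc 6⟩, ⟨.ofNat 1128, .negSucc 125, .ofNat 138, .ofNat 42, .negSucc 34, .ofNat 269⟩, ⟨.negSucc 3299, .ofNat 127, .negSucc 29, .ofNat 18, .ofNat 204, .ofNat 227⟩, ⟨.negSucc 337, .ofNat 40, .negSucc 10, .negSucc 15, .ofNat 351, .ofNat 13⟩, .ofNat 400, .ofNat 26, .ofNat 0, .ofNat 26, .ofNat 596, .ofNat 0, .ofNat 231, .negSucc 14, .negSucc 10, .ofNat 0, .ofNat 128, .negSucc 16, .ofNat 0, .ofNat 0, .ofNat 1176, .ofNat 1135, .ofNat 0, .ofNat 3892464982664268660492735727109868093440, .ofNat 0, .ofNat 0, .ofNat 0, .ofNat 975477166563867213421867122602373585829888, .ofNat 0, .ofNat 0, .ofNat 0, .ofNat 667533758220617054057692363546556878553088, .ofNat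 0, .ofNat 0, .ofNat 0, .ofNat 3695846361846483345557529008015974611288064, .ofNat 0, .ofNat 0⟩)
    (by decide +kernel)
theorem L00144 : Good (Phi V5.P V5.D (-1) (-1)) ⟨2, 0, 2, 0, 3, 4, 1, 1, 4, 7⟩ :=
  leafX_sound T5.ok_mm T5.Ymm.bz_eq (w := 208) (c := ⟨⟨.negSucc 1015, .negSucc 37, .ofNat 19, .ofNat 15, .ofNat 43, .ofNat 74⟩, ⟨.negSucc 47, .negSucc 31, .ofNat 241, .negSucc 1, .ofNat 40, .negSucc 8⟩, ⟨.ofNat 1296, .negSucc 230, .ofNat 350, .ofNat 254, .negSucc 89, .ofNat 460⟩, ⟨.negSucc 3089, .ofNat 159, .negSucc 18, .ofNat 54, .ofNat 164, .ofNat 225⟩, ⟨.negSucc 314, .ofNat 86, .negSucc 50, .negSucc 33, .ofNat 339, .negSucc 31⟩, .ofNat 400, .ofNat 30, .ofNat 0, .ofNat 30, .ofNat 602, .ofNat 0, .ofNat 186, .negSucc 15, .ofNat 12, .ofNat 0, .ofNat 128, .negSucc 38, .ofNat 0, .ofNat 0, .ofNat 1639, .ofNat 1819, .ofNat 0, .ofNat 26032755829546659603151700389222005342208,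 .ofNat 0, .ofNat 0, .ofNat 0, .ofNat 1290289612177993233558129799007092825128960, .ofNat 0, .ofNat 0, .ofNat 0, .ofNat 955151863876306764273379524053432413454336, .ofNat 0, .ofNat 0, .ofNat 91288105178522252997033778800233293063127040, .ofNat 13772992615792014735552652123581223058538496, .ofNat 0, .ofNat 0⟩)
    (by decide +kernel)
theorem L00145 : Good (Phi V5.P V5.D (-1) (-1)) ⟨2, 0, 2, 0, 3, 5, 1, 1, 4, 6⟩ :=
  leafX_sound T5.ok_mm T5.Ymm.bz_eq (w := 208) (c := ⟨⟨.negSucc 1086, .negSucc 43, .ofNat 10, .ofNat 15, .ofNat 32, .ofNat 106⟩, ⟨.negSucc 53, .negSucc 38, .ofNat 269, .ofNat 4, .ofNat 44, .negSucc 14⟩, ⟨.ofNat 1198, .negSucc 249, .ofNat 140, .ofNat 16, .ofNat 328, .ofNat 344⟩, ⟨.negSucc 3301, .ofNat 163, .negSucc 44, .ofNat 63, .ofNat 158, .ofNat 289⟩, ⟨.negSucc 363, .ofNat 41, .negSucc 13, .negSucc 0, .ofNat 354, .ofNat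 36⟩, .ofNat 400, .ofNat 32, .ofNat 0, .ofNat 32, .ofNat 604, .ofNat 0, .ofNat 187, .negSucc 19, .ofNat 2, .ofNat 0, .ofNat 128, .negSucc 12, .ofNat 0, .ofNat 0, .ofNat 945, .ofNat 1814, .ofNat 0, .ofNat 13637558902951894270194324635853671890944, .ofNat 0, .ofNat 0, .ofNat 0, .ofNat 1083445599930631283970065423281334826041344, .ofNat 0, .ofNat 0, .ofNat 0, .ofNat 949519550443617141709821838071269150425088, .ofNat 0, .ofNat 0, .ofNat 0, .ofNat 5649880504892443249235671771980904246804480, .ofNat 0, .ofNat 0⟩)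
    (by decide +kernel)
theorem L00146 : Good (Phi V5.P V5.D (-1) (-1)) ⟨2, 0, 2, 0, 3, 5, 1, 1, 4, 7⟩ :=
  out_sound (S := T5.ds_mm) T5.ok_mm (w := 30) (j := 2) (by decide +kernel)
theorem L00147 : Good (Phi V5.P V5.D (-1) (-1)) ⟨2, 0, 2, 0, 2, 3, 1, 1, 3, 3⟩ :=
  out_sound (S := T5.ds_mm) T5.ok_mm (w := 26) (j := 2) (by decide +kernel)
theorem L00148 : Good (Phi V5.P V5.D (-1) (-1)) ⟨2, 0, 2, 0, 4, 8, 3, 4, 4, 8⟩ :=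
  out_sound (S := T5.ds_mm) T5.ok_mm (w := 29) (j := 1) (by decide +kernel)
theorem L00149 : Good (Phi V5.P V5.D (-1) (-1)) ⟨2, 0, 2, 0, 4, 8, 3, 5, 4, 8⟩ :=
  out_sound (S := T5.ds_mm) T5.ok_mm (w := 36) (j := 2) (by decide +kernel)
theorem L00150 : Good (Phi V5.P V5.D (-1) (-1)) ⟨2, 0, 2, 0, 4, 8, 2, 2, 4, 9⟩ :=
  out_sound (S := T5.ds_mm) T5.ok_mm (w := 28) (j := 1) (by decide +kernel)
theorem L00151 : Good (Phi V5.P V5.D (-1) (-1)) ⟨2, 0, 2, 0, 4, 9, 2, 2, 3, 4⟩ :=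
  out_sound (S := T5.ds_mm) T5.ok_mm (w := 32) (j := 2) (by decide +kernel)
theorem L00152 : Good (Phi V5.P V5.D (-1) (-1)) ⟨2, 0, 2, 0, 3, 4, 2, 3, 3, 4⟩ :=
  out_sound (S := T5.ds_mm) T5.ok_mm (w := 30) (j := 2) (by decide +kernel)
theorem L00153 : Good (Phi V5.P V5.D (-1) (-1)) ⟨2, 0, 2, 0, 3, 4, 1, 1, 3, 5⟩ :=
  out_sound (S := T5.ds_mm) T5.ok_mm (w := 28) (j := 2) (by decide +kernel)
theorem L00154 : Good (Phi V5.P V5.D (-1) (-1)) ⟨2, 0, 2, 0, 3, 5, 1, 1, 2, 2⟩ :=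
  out_sound (S := T5.ds_mm) T5.ok_mm (w := 26) (j := 2) (by decide +kernel)
theorem L00155 : Good (Phi V5.P V5.D (-1) (-1)) ⟨2, 0, 2, 0, 2, 2, 1, 1, 2, 3⟩ :=
  out_sound (S := T5.ds_mm) T5.ok_mm (w := 24) (j := 2) (by decide +kernel)
theorem L00156 : Good (Phi V5.P V5.D (-1) (-1)) ⟨2, 0, 2, 0, 2, 3, 1, 1, 1, 1⟩ :=
  out_sound (S := T5.ds_mm) T5.ok_mm (w := 22) (j := 2) (by decide +kernel)
theorem L00157 : Good (Phi V5.P V5.D (-1) (-1)) ⟨2, 0, 2, 1, 1, 0, 3, 0, 3, 0⟩ :=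
  leafX_sound T5.ok_mm T5.Ymm.bz_eq (w := 182) (c := ⟨⟨.ofNat 557, .negSucc 101, .ofNat 27, .ofNat 369, .ofNat 118, .negSucc 1935⟩, ⟨.negSucc 187, .ofNat 42, .negSucc 56, .negSucc 161, .negSucc 33, .ofNat 641⟩, ⟨.negSucc 363, .ofNat 67, .negSucc 187, .negSucc 517, .negSucc 112, .ofNat 1590⟩, ⟨.ofNat 1757, .negSucc 363, .negSucc 22, .ofNat 866, .ofNat 310, .negSucc 5930⟩, ⟨.ofNat 29, .negSucc 295, .ofNat 18, .negSucc 798, .ofNat 182, .negSucc 162⟩, .ofNat 417, .ofNat 108, .ofNat 0, .ofNat 108, .ofNat 638, .ofNat 0, .ofNat 236, .negSucc 57, .negSucc 122, .ofNat 0, .ofNat 128, .ofNat 40, .ofNat 0, .ofNat 0, .ofNat 384, .ofNat 2846, .ofNat 0, .ofNat 0, .ofNat 445190434372910544339186221056, .ofNat 0, .ofNat 709055510292681617866640823563583488, .ofNat 0, .ofNat 0, .ofNat 0, .ofNat 0, .ofNat 0, .ofNat 0, .ofNat 0, .ofNat 0, .ofNat 0,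 .ofNat 0, .ofNat 0⟩)
    (by decide +kernel)
theorem L00158 : Good (Phi V5.P V5.D (-1) (-1)) ⟨2, 0, 2, 1, 1, 0, 3, 1, 3, 0⟩ :=
  leafX_sound T5.ok_mm T5.Ymm.bz_eq (w := 182) (c := ⟨⟨.ofNat 619, .negSucc 156, .ofNat 48, .ofNat 400, .ofNat 57, .negSucc 1946⟩, ⟨.negSucc 233, .ofNat 74, .negSucc 99, .negSucc 167, .ofNat 59, .ofNat 649⟩, ⟨.negSucc 462, .ofNat 66, .negSucc 147, .negSucc 554, .negSucc 39, .ofNat 1675⟩, ⟨.ofNat 1877, .negSucc 505, .ofNat 76, .ofNat 1088, .ofNat 141, .negSucc 5965⟩, ⟨.ofNat 1, .negSucc 155, .ofNat 85, .negSucc 532, .ofNat 99, .negSucc 221⟩, .ofNat 416, .ofNat 106, .ofNat 0, .ofNat 106, .ofNat 640, .ofNat 0, .ofNat 233, .negSucc 54, .negSucc 128, .ofNat 0, .ofNat 128, .ofNat 39, .ofNat 0, .ofNat 0, .ofNat 353, .ofNat 1583, .ofNat 0, .ofNat 0, .ofNat 0, .ofNat 0, .ofNat 0, .ofNat 0, .ofNat 0, .ofNat 0, .ofNat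 0, .ofNat 0, .ofNat 0, .ofNat 0, .ofNat 0, .ofNat 0, .ofNat 0, .ofNat 0⟩)
    (by decide +kernel)
theorem L00159 : Good (Phi V5.P V5.D (-1) (-1)) ⟨2, 0, 2, 1, 1, 0, 2, 0, 3, 1⟩ :=
  leafX_sound T5.ok_mm T5.Ymm.bz_eq (w := 179) (c := ⟨⟨.negSucc 1158, .negSucc 185, .ofNat 33, .ofNat 40, .ofNat 55, .negSucc 136⟩, ⟨.ofNat 256, .negSucc 20, .ofNat 310, .negSucc 62, .negSucc 6, .ofNat 48⟩, ⟨.ofNat 1291, .ofNat 147, .negSucc 98, .negSucc 747, .negSucc 59, .ofNat 407⟩, ⟨.negSucc 3507, .negSucc 188, .negSucc 2, .negSucc 94, .ofNat 132, .negSucc 365⟩, ⟨.negSucc 44, .negSucc 25, .negSucc 27, .negSucc 608, .ofNat 18, .ofNat 58⟩, .ofNat 658, .ofNat 331, .ofNat 0, .ofNat 331, .ofNat 1354, .ofNat 0, .ofNat 156, .negSucc 91, .negSucc 55, .ofNat 0, .ofNat 128, .ofNat 21, .ofNat 0, .ofNat 0, .ofNat 360, .ofNat 3452, .ofNat 0, .ofNat 0, .ofNat 0,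 .ofNat 0, .ofNat 0, .ofNat 0, .ofNat 0, .ofNat 0, .ofNat 0, .ofNat 0, .ofNat 0, .ofNat 0, .ofNat 174881758019294035369829834061512704, .ofNat 0, .ofNat 0, .ofNat 0⟩)
    (by decide +kernel)

end Crest.Agent.R097C5.N5mm
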