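import Crest.Agent.R097.KP7
import Crest.Agent.R097.T5Ymm

/-!
# Row 97, box cover in dimension n = 5 (generated)
-/

set_option autoImplicit false
set_option Elab.async false
set_option maxHeartbeats 0
set_option maxRecDepth 100000

open Crest.Agent.R097 Crest.Agent.R097.KA


namespace Crest.Agent.R097C5.N5mm

theorem L00160 : Good (Phi V5.P V5.D (-1) (-1)) ⟨2, 0, 2, 1, 1, 0, 2, 0, 2, 1⟩ :=
  leafX_sound T5.ok_mm T5.Ymm.bz_eq (w := 178) (c := ⟨⟨.negSucc 1271, .negSucc 158, .ofNat 39, .negSucc 4, .ofNat 56, .ofNat 216⟩, ⟨.ofNat 272, .negSucc 27, .ofNat 320, .negSucc 37, .ofNat 9, .negSucc 84⟩, ⟨.ofNat 1594, .ofNat 113, .negSucc 29, .negSucc 650, .negSucc 36, .ofNat 572⟩, ⟨.negSucc 3906, .negSucc 114, .negSucc 3, .negSucc 169, .ofNat 238, .ofNat 580⟩, ⟨.negSucc 49, .negSucc 45, .ofNat 11, .negSucc 565, .ofNat 81, .ofNat 251⟩, .ofNat 417, .ofNat 109,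 .ofNat 0, .ofNat 109, .ofNat 640, .ofNat 0, .ofNat 179, .negSucc 53, .negSucc 98, .ofNat 0, .ofNat 128, .ofNat 42, .ofNat 0, .ofNat 0, .ofNat 745, .ofNat 25879, .ofNat 19084306120804123198522818499182592, .ofNat 0, .ofNat 51804552679943381419563155456, .ofNat 0, .ofNat 253844686787541465112851248582754304, .ofNat 0, .ofNat 0, .ofNat 0, .ofNat 45752764510754097587188802177204224, .ofNat 0, .ofNat 0, .ofNat 0, .ofNat 178473014169908377816673963793711104, .ofNat 0, .ofNat 0, .ofNat 0⟩)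
    (by decide +kernel)
theorem L00161 : Good (Phi V5.P V5.D (-1) (-1)) ⟨2, 0, 2, 1, 1, 0, 2, 0, 1, 1⟩ :=
  out_sound (S := T5.ds_mm) T5.ok_mm (w := 16) (j := 1) (by decide +kernel)
theorem L00162 : Good (Phi V5.P V5.D (-1) (-1)) ⟨2, 0, 2, 1, 1, 0, 2, 1, 3, 0⟩ :=
  leafX_sound T5.ok_mm T5.Ymm.bz_eq (w := 177) (c := ⟨⟨.ofNat 254, .negSucc 21, .ofNat 47, .ofNat 371, .negSucc 9, .negSucc 1575⟩, ⟨.negSucc 138, .negSucc 42, .ofNat 69, .negSucc 121, .ofNat 22, .ofNat 544⟩, ⟨.negSucc 232, .ofNat 14, .negSucc 95, .negSucc 699, .ofNat 64, .ofNat 1473⟩, ⟨.ofNat 782, .negSucc 51, .ofNat 96, .ofNat 918, .negSucc 1, .negSucc 4640⟩, ⟨.negSucc 83, .negSucc 109, .ofNat 163, .negSucc 461, .ofNat 141, .negSucc 53⟩, .ofNat 670, .ofNat 353, .ofNat 0, .ofNat 353, .ofNat 1358, .ofNat 0, .ofNat 213, .negSucc 96, .negSucc 95, .ofNat 0, .ofNat 128, .ofNat 34, .ofNat 0, .ofNat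 0, .ofNat 283, .ofNat 600, .ofNat 0, .ofNat 0, .ofNat 0, .ofNat 0, .ofNat 0, .ofNat 0, .ofNat 0, .ofNat 0, .ofNat 0, .ofNat 0, .ofNat 0, .ofNat 0, .ofNat 0, .ofNat 0, .ofNat 409453291646406710377557524480, .ofNat 0⟩)
    (by decide +kernel)
theorem L00163 : Good (Phi V5.P V5.D (-1) (-1)) ⟨2, 0, 2, 1, 1, 0, 2, 1, 3, 1⟩ :=
  leafX_sound T5.ok_mm T5.Ymm.bz_eq (w := 178) (c := ⟨⟨.negSucc 1109, .negSucc 159, .ofNat 17, .ofNat 12, .ofNat 75, .negSucc 117⟩, ⟨.ofNat 247, .negSucc 22, .ofNat 315, .negSucc 48, .negSucc 15, .ofNat 41⟩, ⟨.ofNat 1074, .ofNat 177, .ofNat 4, .negSucc 577, .negSucc 93, .ofNat 361⟩, ⟨.negSucc 3385, .negSucc 135, .negSucc 11, .negSucc 116, .ofNat 249, .negSucc 345⟩, ⟨.negSucc 86, .ofNat 6, .ofNat 38, .negSucc 496, .ofNat 89, .ofNat 7⟩, .ofNat 653, .ofNat 316, .ofNat 0, .ofNat 316, .ofNat 1330, .ofNat 0, .ofNat 259, .negSucc 87, .negSucc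 77, .ofNat 0, .ofNat 128, .ofNat 28, .ofNat 0, .ofNat 0, .ofNat 460, .ofNat 1844, .ofNat 0, .ofNat 0, .ofNat 0, .ofNat 0, .ofNat 0, .ofNat 0, .ofNat 0, .ofNat 0, .ofNat 0, .ofNat 0, .ofNat 0, .ofNat 0, .ofNat 0, .ofNat 0, .ofNat 0, .ofNat 0⟩)
    (by decide +kernel)
theorem L00164 : Good (Phi V5.P V5.D (-1) (-1)) ⟨2, 0, 2, 1, 1, 0, 2, 1, 4, 4⟩ :=
  leafX_sound T5.ok_mm T5.Ymm.bz_eq (w := 185) (c := ⟨⟨.negSucc 1217, .negSucc 128, .ofNat 22, .negSucc 14, .ofNat 88, .ofNat 54⟩, ⟨.ofNat 304, .negSucc 48, .ofNat 288, .negSucc 25, .negSucc 26, .negSucc 18⟩, ⟨.ofNat 1289, .ofNat 104, .ofNat 16, .negSucc 313, .negSucc 131, .ofNat 116⟩, ⟨.negSucc 3689, .negSucc 50, .negSucc 1, .negSucc 183, .ofNat 274, .ofNat 162⟩, ⟨.negSucc 68, .negSucc 11, .ofNat 18, .negSucc 444, .ofNat 57, .ofNat 48⟩, .ofNat 192, .ofNat 20, .ofNat 0, .ofNat 20, .ofNat 231, .ofNat 0, .ofNat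 269, .negSucc 22, .negSucc 148, .ofNat 0, .ofNat 128, .ofNat 51, .ofNat 0, .ofNat 0, .ofNat 678, .ofNat 6217, .ofNat 0, .ofNat 0, .ofNat 0, .ofNat 0, .ofNat 0, .ofNat 0, .ofNat 0, .ofNat 0, .ofNat 0, .ofNat 0, .ofNat 0, .ofNat 0, .ofNat 0, .ofNat 0, .ofNat 0, .ofNat 0⟩)
    (by decide +kernel)
theorem L00165 : Good (Phi V5.P V5.D (-1) (-1)) ⟨2, 0, 2, 1, 2, 0, 2, 1, 4, 5⟩ :=
  leafX_sound T5.ok_mm T5.Ymm.bz_eq (w := 202) (c := ⟨⟨.negSucc 1195, .negSucc 94, .ofNat 10, .ofNat 8, .ofNat 108, .ofNat 53⟩, ⟨.ofNat 297, .negSucc 49, .ofNat 275, .negSucc 16, .negSucc 31, .negSucc 19⟩, ⟨.ofNat 1414, .ofNat 72, .negSucc 4, .negSucc 3, .negSucc 272, .ofNat 10⟩, ⟨.negSucc 3545, .negSucc 19, .negSucc 3, .negSucc 60, .ofNat 274, .ofNat 170⟩, ⟨.negSucc 25, .ofNat 3, .ofNat 0, .negSucc 185, .ofNat 24, .ofNat 8⟩, .ofNat 193, .ofNat 19, .ofNat 0, .ofNat 19, .ofNat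 230, .ofNat 0, .ofNat 272, .negSucc 19, .negSucc 109, .ofNat 0, .ofNat 128, .ofNat 24, .ofNat 0, .ofNat 0, .ofNat 659, .ofNat 34195, .ofNat 3045299394952328931425928812090865221632, .ofNat 0, .ofNat 133874600004332114635279109550243840, .ofNat 0, .ofNat 34707552220047869177171826719834339540992, .ofNat 0, .ofNat 0, .ofNat 0, .ofNat 0, .ofNat 0, .ofNat 0, .ofNat 0, .ofNat 19992412855470624115002613519480589910016, .ofNat 0, .ofNat 0, .ofNat 0⟩)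
    (by decide +kernel)
theorem L00166 : Good (Phi V5.P V5.D (-1) (-1)) ⟨2, 0, 2, 1, 2, 1, 3, 2, 4, 5⟩ :=
  leafX_sound T5.ok_mm T5.Ymm.bz_eq (w := 207) (c := ⟨⟨.negSucc 1161, .negSucc 118, .ofNat 29, .negSucc 16, .ofNat 36, .ofNat 74⟩, ⟨.ofNat 252, .negSucc 31, .ofNat 298, .negSucc 10, .negSucc 6, .negSucc 24⟩, ⟨.ofNat 1311, .ofNat 49, .ofNat 6, .negSucc 213, .negSucc 47, .ofNat 150⟩, ⟨.negSucc 3582, .negSucc 23, .negSucc 11, .negSucc 104, .ofNat 113, .ofNat 228⟩, ⟨.negSucc 244, .negSucc 17, .ofNat 13, .negSucc 218, .ofNat 40, .ofNat 50⟩, .ofNat 192, .ofNat 19, .ofNat 0, .ofNat 19, .ofNat 231, .ofNat 0, .ofNat 195, .negSucc 23, .negSucc 78, .ofNat 0, .ofNat 128, .ofNat 36, .ofNat 0, .ofNat 0, .ofNat 482, .ofNat 67261, .ofNat 47472240725864180543002786668108442501120, .ofNat 0, .ofNat 0, .ofNat 0, .ofNat 250833745721703347689488931134316174376960,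 .ofNat 0, .ofNat 0, .ofNat 0, .ofNat 72950551936975589898991068076679341539328, .ofNat 0, .ofNat 0, .ofNat 0, .ofNat 402805496517760922611372045070375621492736, .ofNat 0, .ofNat 6410790494328771137631101714796904448, .ofNat 0⟩)
    (by decide +kernel)
theorem L00167 : Good (Phi V5.P V5.D (-1) (-1)) ⟨2, 0, 2, 1, 2, 1, 3, 3, 4, 5⟩ :=
  leafX_sound T5.ok_mm T5.Ymm.bz_eq (w := 206) (c := ⟨⟨.negSucc 1135, .negSucc 96, .ofNat 21, .negSucc 17, .ofNat 31, .ofNat 74⟩, ⟨.ofNat 250, .negSucc 39, .ofNat 285, .negSucc 8, .negSucc 2, .negSucc 21⟩, ⟨.ofNat 1222, .ofNat 10, .ofNat 33, .negSucc 95, .negSucc 66, .ofNat 99⟩, ⟨.negSucc 3485, .ofNat 12, .negSucc 8, .negSucc 109, .ofNat 106, .ofNat 211⟩, ⟨.negSucc 232, .ofNat 5, .ofNat 1, .negSucc 177, .ofNat 42, .ofNat 32⟩, .ofNat 414, .ofNat 105, .ofNat 0, .ofNat 105, .ofNat 644, .ofNat 0, .ofNat 223, .negSucc 50, .negSucc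 87, .ofNat 0, .ofNat 128, .ofNat 32, .ofNat 0, .ofNat 0, .ofNat 1038, .ofNat 29769, .ofNat 8010993066269443862581770247467345903616, .ofNat 0, .ofNat 0, .ofNat 0, .ofNat 0, .ofNat 0, .ofNat 0, .ofNat 0, .ofNat 0, .ofNat 0, .ofNat 0, .ofNat 0, .ofNat 0, .ofNat 0, .ofNat 0, .ofNat 0⟩)
    (by decide +kernel)
theorem L00168 : Good (Phi V5.P V5.D (-1) (-1)) ⟨2, 0, 2, 1, 1, 0, 2, 1, 3, 3⟩ :=
  leafX_sound T5.ok_mm T5.Ymm.bz_eq (w := 183) (c := ⟨⟨.negSucc 1098, .negSucc 79, .ofNat 24, .negSucc 15, .ofNat 58, .ofNat 117⟩, ⟨.ofNat 249, .negSucc 36, .ofNat 273, .negSucc 19, .negSucc 7, .negSucc 28⟩, ⟨.ofNat 1343, .negSucc 52, .ofNat 69, .negSucc 13, .negSucc 106, .ofNat 551⟩, ⟨.negSucc 3308, .ofNat 65, .negSucc 13, .negSucc 173, .ofNat 187, .ofNat 418⟩, ⟨.negSucc 141, .ofNat 20, .ofNat 2, .negSucc 296, .ofNat 105, .ofNat 76⟩, .ofNat 414, .ofNat 103, .ofNat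 0, .ofNat 103, .ofNat 644, .ofNat 0, .ofNat 200, .negSucc 49, .negSucc 36, .ofNat 0, .ofNat 128, .ofNat 10, .ofNat 0, .ofNat 0, .ofNat 718, .ofNat 35574, .ofNat 154600767992554807055539779391193088, .ofNat 0, .ofNat 3569632302873608049900335923200, .ofNat 0, .ofNat 1086070118946856031209186437749538816, .ofNat 0, .ofNat 0, .ofNat 0, .ofNat 833162108497579602780418183201292288, .ofNat 0, .ofNat 0, .ofNat 0, .ofNat 3868528743607202127882679465977839616, .ofNat 0, .ofNat 0, .ofNat 0⟩)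
    (by decide +kernel)
theorem L00169 : Good (Phi V5.P V5.D (-1) (-1)) ⟨2, 0, 2, 1, 1, 0, 2, 1, 1, 1⟩ :=
  out_sound (S := T5.ds_mm) T5.ok_mm (w := 16) (j := 1) (by decide +kernel)
theorem L00170 : Good (Phi V5.P V5.D (-1) (-1)) ⟨2, 0, 2, 1, 1, 0, 2, 2, 3, 0⟩ :=
  leafX_sound T5.ok_mm T5.Ymm.bz_eq (w := 177) (c := ⟨⟨.negSucc 113, .negSucc 8, .ofNat 91, .ofNat 332, .negSucc 32, .negSucc 1104⟩, ⟨.negSucc 16, .negSucc 28, .ofNat 123, .negSucc 151, .ofNat 27, .ofNat 352⟩, ⟨.ofNat 68, .negSucc 50, .negSucc 111, .negSucc 544, .ofNat 76, .ofNat 1052⟩, ⟨.negSucc 360, .ofNat 118, .ofNat 181, .ofNat 874, .negSucc 117, .negSucc 3223⟩, ⟨.negSucc 83, .ofNat 72, .negSucc 17, .negSucc 309, .ofNat 24, .negSucc 12⟩, .ofNat 659, .ofNat 330, .ofNat 0, .ofNat 330, .ofNat 1340, .ofNat 0, .ofNat 279, .negSucc 89, .negSucc 167, .ofNat 0, .ofNat 128, .ofNat 54, .ofNat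 0, .ofNat 0, .ofNat 468, .ofNat 621, .ofNat 0, .ofNat 0, .ofNat 0, .ofNat 0, .ofNat 0, .ofNat 0, .ofNat 0, .ofNat 0, .ofNat 0, .ofNat 0, .ofNat 0, .ofNat 0, .ofNat 0, .ofNat 0, .ofNat 0, .ofNat 0⟩)
    (by decide +kernel)
theorem L00171 : Good (Phi V5.P V5.D (-1) (-1)) ⟨2, 0, 2, 1, 1, 0, 2, 2, 3, 1⟩ :=
  leafX_sound T5.ok_mm T5.Ymm.bz_eq (w := 178) (c := ⟨⟨.negSucc 1055, .negSucc 118, .ofNat 11, .negSucc 14, .ofNat 119, .negSucc 76⟩, ⟨.ofNat 248, .negSucc 32, .ofNat 276, .negSucc 26, .negSucc 33, .ofNat 25⟩, ⟨.ofNat 958, .ofNat 60, .negSucc 16, .negSucc 180, .negSucc 158, .ofNat 169⟩, ⟨.negSucc 3219, .negSucc 54, .negSucc 12, .negSucc 171, .ofNat 368, .negSucc 214⟩, ⟨.negSucc 102, .ofNat 42, .ofNat 24, .negSucc 372, .ofNat 45, .ofNat 48⟩, .ofNat 656, .ofNat 316, .ofNat 0, .ofNat 316, .ofNat 1304, .ofNat 0, .ofNat 218, .negSucc 86, .negSucc 82, .ofNat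 0, .ofNat 128, .ofNat 28, .ofNat 0, .ofNat 0, .ofNat 420, .ofNat 1252, .ofNat 0, .ofNat 0, .ofNat 0, .ofNat 0, .ofNat 0, .ofNat 0, .ofNat 0, .ofNat 0, .ofNat 0, .ofNat 0, .ofNat 0, .ofNat 0, .ofNat 0, .ofNat 0, .ofNat 797059096789721497018560413696, .ofNat 0⟩)
    (by decide +kernel)
theorem L00172 : Good (Phi V5.P V5.D (-1) (-1)) ⟨2, 0, 2, 1, 1, 0, 3, 6, 3, 0⟩ :=
  leafX_sound T5.ok_mm T5.Ymm.bz_eq (w := 181) (c := ⟨⟨.negSucc 407, .negSucc 114, .ofNat 35, .ofNat 223, .ofNat 85, .negSucc 580⟩, ⟨.ofNat 85, .negSucc 14, .ofNat 146, .negSucc 105, .negSucc 21, .ofNat 188⟩, ⟨.ofNat 347, .ofNat 37, .negSucc 53, .negSucc 326, .negSucc 70, .ofNat 514⟩, ⟨.negSucc 1244, .negSucc 147, .ofNat 34, .ofNat 524, .ofNat 211, .negSucc 1687⟩, ⟨.negSucc 66, .ofNat 69, .negSucc 1, .negSucc 471, .ofNat 23, .ofNat 35⟩, .ofNat 657, .ofNat 326, .ofNat 0, .ofNat 326, .ofNat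 1343, .ofNat 0, .ofNat 400, .negSucc 87, .negSucc 249, .ofNat 0, .ofNat 128, .ofNat 78, .ofNat 0, .ofNat 0, .ofNat 658, .ofNat 619, .ofNat 0, .ofNat 0, .ofNat 0, .ofNat 0, .ofNat 0, .ofNat 0, .ofNat 0, .ofNat 0, .ofNat 0, .ofNat 0, .ofNat 0, .ofNat 0, .ofNat 0, .ofNat 0, .ofNat 0, .ofNat 0⟩)
    (by decide +kernel)
theorem L00173 : Good (Phi V5.P V5.D (-1) (-1)) ⟨2, 0, 2, 1, 1, 0, 4, 14, 3, 0⟩ :=
  leafX_sound T5.ok_mm T5.Ymm.bz_eq (w := 186) (c := ⟨⟨.negSucc 436, .negSucc 46, .ofNat 81, .ofNat 81, .ofNat 115, .negSucc 414⟩, ⟨.ofNat 79, .negSucc 5, .ofNat 124, .negSucc 64, .negSucc 45, .ofNat 151⟩, ⟨.ofNat 341, .negSucc 41, .negSucc 49, .negSucc 61, .negSucc 107, .ofNat 285⟩, ⟨.negSucc 1349, .ofNat 1, .ofNat 215, .ofNat 128, .ofNat 321, .negSucc 1192⟩, ⟨.negSucc 189, .ofNat 30, .ofNat 98, .negSucc 291, .ofNat 33, .ofNat 56⟩, .ofNat 659, .ofNat 335,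 .ofNat 0, .ofNat 335, .ofNat 1360, .ofNat 0, .ofNat 254, .negSucc 88, .negSucc 225, .ofNat 0, .ofNat 128, .ofNat 71, .ofNat 0, .ofNat 0, .ofNat 543, .ofNat 1346, .ofNat 0, .ofNat 0, .ofNat 0, .ofNat 0, .ofNat 0, .ofNat 0, .ofNat 0, .ofNat 0, .ofNat 0, .ofNat 0, .ofNat 0, .ofNat 0, .ofNat 0, .ofNat 0, .ofNat 0, .ofNat 0⟩)
    (by decide +kernel)
theorem L00174 : Good (Phi V5.P V5.D (-1) (-1)) ⟨2, 0, 2, 1, 2, 0, 5, 30, 3, 0⟩ :=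
  leafX_sound T5.ok_mm T5.Ymm.bz_eq (w := 204) (c := ⟨⟨.negSucc 382, .negSucc 48, .ofNat 41, .ofNat 34, .ofNat 141, .negSucc 260⟩, ⟨.ofNat 80, .negSucc 15, .ofNat 96, .negSucc 33, .negSucc 42, .ofNat 94⟩, ⟨.ofNat 312, .negSucc 24, .negSucc 57, .negSucc 71, .negSucc 158, .ofNat 132⟩, ⟨.negSucc 1163, .negSucc 10, .ofNat 78, .ofNat 23, .ofNat 388, .negSucc 754⟩, ⟨.negSucc 34, .negSucc 0, .ofNat 14, .negSucc 260, .negSucc 23, .ofNat 37⟩, .ofNat 659, .ofNat 329, .ofNat 0, .ofNat 329, .ofNat 1340, .ofNat 0, .ofNat 156, .negSucc 86, .negSucc 177, .ofNat 0, .ofNat 128, .ofNat 53, .ofNat 0, .ofNat 0, .ofNat 422, .ofNat 2265, .ofNat 0, .ofNat 0, .ofNat 0, .ofNat 0, .ofNat 0, .ofNat 0, .ofNat 0, .ofNat 0, .ofNat 0, .ofNat 0, .ofNat 0, .ofNat 0, .ofNat 0, .ofNat 0, .ofNat 188729313909455443509086555912206811136, .ofNat 0⟩)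
    (by decide +kernel)
theorem L00175 : Good (Phi V5.P V5.D (-1) (-1)) ⟨3, 0, 2, 1, 2, 0, 5, 31, 3, 0⟩ :=
  leafX_sound T5.ok_mm T5.Ymm.bz_eq (w := 209) (c := ⟨⟨.negSucc 307, .negSucc 8, .ofNat 33, .ofNat 16, .ofNat 186, .negSucc 160⟩, ⟨.ofNat 77, .ofNat 1, .ofNat 62, .negSucc 30, .negSucc 69, .ofNat 58⟩, ⟨.ofNat 202, .negSucc 15, .negSucc 45, .negSucc 13, .negSucc 202, .ofNat 4⟩, ⟨.negSucc 917, .negSucc 1, .ofNat 71, .negSucc 47, .ofNat 545, .negSucc 472⟩, ⟨.negSucc 7, .ofNat 0, .ofNat 34, .negSucc 288, .negSucc 2, .negSucc 23⟩, .ofNat 675, .ofNat 334, .ofNat 0, .ofNat 334, .ofNat 1262, .ofNat 0, .ofNat 145, .negSucc 83, .negSucc 221, .ofNat 0, .ofNat 128, .ofNat 71, .ofNat 0, .ofNat 0, .ofNat 504, .ofNat 2637, .ofNat 0, .ofNat 0, .ofNat 0, .ofNat 0, .ofNat 0, .ofNat 0, .ofNat 0, .ofNat 0, .ofNat 0, .ofNat 0, .ofNat 0, .ofNat 0, .ofNat 0, .ofNat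 0, .ofNat 0, .ofNat 0⟩)
    (by decide +kernel)
theorem L00176 : Good (Phi V5.P V5.D (-1) (-1)) ⟨3, 1, 2, 1, 2, 0, 5, 31, 3, 0⟩ :=
  leafX_sound T5.ok_mm T5.Ymm.bz_eq (w := 208) (c := ⟨⟨.negSucc 351, .negSucc 21, .ofNat 33, .ofNat 36, .ofNat 211, .negSucc 136⟩, ⟨.ofNat 66, .ofNat 0, .ofNat 77, .negSucc 22, .negSucc 57, .ofNat 43⟩, ⟨.ofNat 250, .negSucc 14, .negSucc 33, .negSucc 92, .negSucc 229, .negSucc 20⟩, ⟨.negSucc 1027, .ofNat 1, .ofNat 57, .ofNat 28, .ofNat 598, .negSucc 380⟩, ⟨.negSucc 46, .negSucc 3, .ofNat 21, .negSucc 254, .ofNat 4, .ofNat 29⟩, .ofNat 631, .ofNat 298, .ofNat 0, .ofNat 298, .ofNat 1416, .ofNat 0, .ofNat 210, .negSucc 83, .negSucc 281, .ofNat 0, .ofNat 128, .ofNat 71, .ofNat 0, .ofNat 0, .ofNat 619, .ofNat 2315, .ofNat 0, .ofNat 0, .ofNat 0, .ofNat 0, .ofNat 0, .ofNat 0, .ofNat 0, .ofNat 0, .ofNat 0, .ofNat 26709979785231312920945491059816817229824,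 .ofNat 96086153286094788281683315773832953856, .ofNat 0, .ofNat 0, .ofNat 0, .ofNat 0, .ofNat 0⟩)
    (by decide +kernel)
theorem L00177 : Good (Phi V5.P V5.D (-1) (-1)) ⟨2, 0, 2, 1, 2, 1, 4, 15, 3, 0⟩ :=
  leafX_sound T5.ok_mm T5.Ymm.bz_eq (w := 200) (c := ⟨⟨.negSucc 291, .ofNat 40, .ofNat 36, .negSucc 113, .ofNat 193, .negSucc 364⟩, ⟨.ofNat 22, .negSucc 24, .ofNat 102, .ofNat 30, .negSucc 53, .ofNat 122⟩, ⟨.ofNat 218, .negSucc 219, .negSucc 9, .ofNat 228, .negSucc 178, .ofNat 202⟩, ⟨.negSucc 981, .ofNat 226, .ofNat 57, .negSucc 336, .ofNat 537, .negSucc 1024⟩, ⟨.negSucc 310, .negSucc 67, .ofNat 69, .negSucc 39, .negSucc 11, .ofNat 101⟩, .ofNat 661, .ofNat 338, .ofNat 0, .ofNat 338, .ofNat 1355, .ofNat 0, .ofNat 162, .negSucc 88, .negSucc 246, .ofNat 0, .ofNat 128, .ofNat 81, .ofNat 0, .ofNat 0, .ofNat 541, .ofNat 1347, .ofNat 0, .ofNat 0, .ofNat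 0, .ofNat 0, .ofNat 0, .ofNat 0, .ofNat 0, .ofNat 0, .ofNat 0, .ofNat 231811612374098733107830513123157082112, .ofNat 0, .ofNat 0, .ofNat 0, .ofNat 0, .ofNat 0, .ofNat 0⟩)
    (by decide +kernel)
theorem L00178 : Good (Phi V5.P V5.D (-1) (-1)) ⟨2, 0, 2, 1, 2, 0, 2, 3, 3, 1⟩ :=
  leafX_sound T5.ok_mm T5.Ymm.bz_eq (w := 192) (c := ⟨⟨.negSucc 832, .negSucc 89, .negSucc 1, .negSucc 37, .ofNat 405, .negSucc 192⟩, ⟨.ofNat 202, .negSucc 18, .ofNat 194, .negSucc 15, .negSucc 128, .ofNat 76⟩, ⟨.ofNat 749, .ofNat 28, .ofNat 5, .ofNat 69, .negSucc 641, .ofNat 109⟩, ⟨.negSucc 2535, .negSucc 55, .ofNat 12, .negSucc 161, .ofNat 1244, .negSucc 586⟩, ⟨.negSucc 92, .ofNat 7, .ofNat 51, .negSucc 141, .ofNat 60, .ofNat 52⟩, .ofNat 416, .ofNat 107, .ofNat 0, .ofNat 107, .ofNat 639, .ofNat 0, .ofNat 298, .negSucc 48, .negSucc 126, .ofNat 0, .ofNat 128, .ofNat 31, .ofNat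 0, .ofNat 0, .ofNat 433, .ofNat 886, .ofNat 0, .ofNat 0, .ofNat 0, .ofNat 0, .ofNat 0, .ofNat 0, .ofNat 0, .ofNat 0, .ofNat 0, .ofNat 0, .ofNat 0, .ofNat 0, .ofNat 0, .ofNat 5360865365828101748880716185332613120, .ofNat 3130440704677722373610547143770112, .ofNat 0⟩)
    (by decide +kernel)
theorem L00179 : Good (Phi V5.P V5.D (-1) (-1)) ⟨2, 0, 2, 1, 2, 1, 2, 3, 3, 1⟩ :=
  leafX_sound T5.ok_mm T5.Ymm.bz_eq (w := 192) (c := ⟨⟨.negSucc 847, .negSucc 47, .ofNat 11, .negSucc 122, .ofNat 241, .negSucc 210⟩, ⟨.ofNat 162, .negSucc 36, .ofNat 249, .ofNat 32, .negSucc 54, .ofNat 72⟩, ⟨.ofNat 644, .negSucc 92, .ofNat 25, .ofNat 131, .negSucc 271, .ofNat 271⟩, ⟨.negSucc 2722, .ofNat 148, .ofNat 26, .negSucc 367, .ofNat 772, .negSucc 557⟩, ⟨.negSucc 450, .ofNat 77, .ofNat 135, .negSucc 45, .ofNat 225, .ofNat 184⟩, .ofNat 654, .ofNat 317, .ofNat 0, .ofNat 317,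 .ofNat 1328, .ofNat 0, .ofNat 271, .negSucc 88, .negSucc 114, .ofNat 0, .ofNat 128, .ofNat 38, .ofNat 0, .ofNat 0, .ofNat 461, .ofNat 677, .ofNat 0, .ofNat 0, .ofNat 0, .ofNat 0, .ofNat 0, .ofNat 0, .ofNat 0, .ofNat 0, .ofNat 0, .ofNat 16044360714961999736771384701484007424, .ofNat 0, .ofNat 0, .ofNat 0, .ofNat 26361892376284496322228923422287593472, .ofNat 0, .ofNat 0⟩)
    (by decide +kernel)
theorem L00180 : Good (Phi V5.P V5.D (-1) (-1)) ⟨2, 0, 2, 1, 1, 0, 2, 2, 4, 4⟩ :=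
  leafX_sound T5.ok_mm T5.Ymm.bz_eq (w := 185) (c := ⟨⟨.negSucc 1105, .negSucc 91, .ofNat 12, .negSucc 56, .ofNat 100, .ofNat 27⟩, ⟨.ofNat 266, .negSucc 47, .ofNat 275, .negSucc 6, .negSucc 27, .negSucc 6⟩, ⟨.ofNat 1080, .ofNat 22, .ofNat 15, .negSucc 26, .negSucc 185, .ofNat 64⟩, ⟨.negSucc 3357, .ofNat 21, .negSucc 2, .negSucc 269, .ofNat 296, .ofNat 85⟩, ⟨.negSucc 73, .ofNat 24, .ofNat 17, .negSucc 309, .ofNat 46, .ofNat 40⟩, .ofNat 658, .ofNat 331, .ofNat 0, .ofNat 331, .ofNat 1349, .ofNat 0, .ofNat 209, .negSucc 88, .negSucc 119, .ofNat 0, .ofNat 128, .ofNat 39, .ofNat 0, .ofNat 0, .ofNat 1010, .ofNat 4662, .ofNat 0, .ofNat 0, .ofNat 0, .ofNat 0, .ofNat 0, .ofNat 0, .ofNat 0, .ofNat 0, .ofNat 0, .ofNat 0, .ofNat 0, .ofNat 0, .ofNat 0, .ofNat 0, .ofNat 0, .ofNat 0⟩)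
    (by decide +kernel)
theorem L00181 : Good (Phi V5.P V5.D (-1) (-1)) ⟨2, 0, 2, 1, 1, 0, 2, 2, 4, 5⟩ :=
  leafX_sound T5.ok_mm T5.Ymm.bz_eq (w := 184) (c := ⟨⟨.negSucc 1065, .negSucc 82, .ofNat 10, .negSucc 60, .ofNat 72, .ofNat 54⟩, ⟨.ofNat 255, .negSucc 43, .ofNat 264, .negSucc 2, .negSucc 15, .negSucc 16⟩, ⟨.ofNat 1045, .negSucc 21, .ofNat 53, .ofNat 139, .negSucc 197, .ofNat 45⟩, ⟨.negSucc 3258, .ofNat 65, .negSucc 13, .negSucc 258, .ofNat 238, .ofNat 153⟩, ⟨.negSucc 72, .ofNat 44, .ofNat 1, .negSucc 272, .ofNat 77, .ofNat 5⟩, .ofNat 653, .ofNat 317, .ofNat 0, .ofNat 317, .ofNat 1339, .ofNat 0, .ofNat 150, .negSucc 85, .negSucc 76, .ofNat 0, .ofNat 128, .ofNat 23, .ofNat 0, .ofNat 0, .ofNat 941, .ofNat 2802, .ofNat 0, .ofNat 0, .ofNat 2094854682421203232088001609728, .ofNat 0, .ofNat 0, .ofNat 0, .ofNat 0, .ofNat 0, .ofNat 0, .ofNat 0, .ofNat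 0, .ofNat 0, .ofNat 0, .ofNat 0, .ofNat 0, .ofNat 0⟩)
    (by decide +kernel)
theorem L00182 : Good (Phi V5.P V5.D (-1) (-1)) ⟨2, 0, 2, 1, 2, 0, 3, 6, 3, 2⟩ :=
  leafX_sound T5.ok_mm T5.Ymm.bz_eq (w := 198) (c := ⟨⟨.negSucc 975, .negSucc 70, .ofNat 5, .negSucc 32, .ofNat 68, .ofNat 21⟩, ⟨.ofNat 238, .negSucc 46, .ofNat 241, .ofNat 2, .negSucc 18, .negSucc 1⟩, ⟨.ofNat 754, .ofNat 41, .ofNat 36, .ofNat 153, .negSucc 203, .negSucc 44⟩, ⟨.negSucc 2972, .ofNat 48, .negSucc 6, .negSucc 125, .ofNat 207, .ofNat 74⟩, ⟨.negSucc 59, .ofNat 28, .ofNat 8, .negSucc 92, .ofNat 31, .ofNat 41⟩, .ofNat 665, .ofNat 340, .ofNat 0, .ofNat 340, .ofNat 1342, .ofNat 0, .ofNat 295, .negSucc 88, .negSucc 123, .ofNat 0, .ofNat 128, .ofNat 36, .ofNat 0, .ofNat 0, .ofNat 1028, .ofNat 5205, .ofNat 0, .ofNat 0, .ofNat 0, .ofNat 0, .ofNat 0, .ofNat 0, .ofNat 0, .ofNat 0, .ofNat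 0, .ofNat 0, .ofNat 0, .ofNat 0, .ofNat 0, .ofNat 0, .ofNat 0, .ofNat 0⟩)
    (by decide +kernel)
theorem L00183 : Good (Phi V5.P V5.D (-1) (-1)) ⟨2, 0, 2, 1, 2, 0, 4, 14, 3, 2⟩ :=
  leafX_sound T5.ok_mm T5.Ymm.bz_eq (w := 201) (c := ⟨⟨.negSucc 869, .negSucc 50, .negSucc 1, .negSucc 50, .ofNat 50, .negSucc 40⟩, ⟨.ofNat 211, .negSucc 51, .ofNat 226, .ofNat 16, .negSucc 13, .ofNat 16⟩, ⟨.ofNat 530, .ofNat 20, .ofNat 57, .ofNat 182, .negSucc 145, .negSucc 37⟩, ⟨.negSucc 2652, .ofNat 96, .negSucc 11, .negSucc 150, .ofNat 143, .negSucc 112⟩, ⟨.negSucc 49, .ofNat 41, .ofNat 10, .negSucc 34, .ofNat 31, .ofNat 32⟩, .ofNat 846, .ofNat 599, .ofNat 0, .ofNat 599, .ofNat 2199, .ofNat 0, .ofNat 200, .negSucc 107, .negSucc 55, .ofNat 0, .ofNat 128, .ofNat 16, .ofNat 0, .ofNat 0, .ofNat 380, .ofNat 1858, .ofNat 0, .ofNat 0, .ofNat 0, .ofNat 0, .ofNat 0, .ofNat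 0, .ofNat 0, .ofNat 0, .ofNat 0, .ofNat 0, .ofNat 0, .ofNat 0, .ofNat 0, .ofNat 0, .ofNat 0, .ofNat 0⟩)
    (by decide +kernel)
theorem L00184 : Good (Phi V5.P V5.D (-1) (-1)) ⟨2, 0, 2, 1, 2, 0, 4, 15, 3, 2⟩ :=
  leafX_sound T5.ok_mm T5.Ymm.bz_eq (w := 201) (c := ⟨⟨.negSucc 767, .ofNat 12, .negSucc 23, .negSucc 85, .ofNat 112, .negSucc 143⟩, ⟨.ofNat 185, .negSucc 72, .ofNat 219, .ofNat 31, .negSucc 28, .ofNat 51⟩, ⟨.ofNat 333, .negSucc 44, .ofNat 75, .ofNat 265, .negSucc 216, .ofNat 46⟩, ⟨.negSucc 2366, .ofNat 252, .negSucc 52, .negSucc 245, .ofNat 341, .negSucc 390⟩, ⟨.negSucc 51, .ofNat 29, .ofNat 25, .ofNat 24, .ofNat 39, .ofNat 62⟩, .ofNat 648, .ofNat 311, .ofNat 0, .ofNat 311, .ofNat 1342, .ofNat 0, .ofNat 221, .negSucc 83, .negSucc 62, .ofNat 0, .ofNat 128, .ofNat 15, .ofNat 0, .ofNat 0, .ofNat 341, .ofNat 1681, .ofNat 0, .ofNat 10261072177138193263395251722687348736,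 .ofNat 0, .ofNat 0, .ofNat 0, .ofNat 0, .ofNat 0, .ofNat 0, .ofNat 0, .ofNat 0, .ofNat 0, .ofNat 0, .ofNat 0, .ofNat 238689550684505251398284470194605654016, .ofNat 0, .ofNat 0⟩)
    (by decide +kernel)
theorem L00185 : Good (Phi V5.P V5.D (-1) (-1)) ⟨2, 0, 2, 1, 2, 1, 4, 12, 3, 2⟩ :=
  leafX_sound T5.ok_mm T5.Ymm.bz_eq (w := 202) (c := ⟨⟨.negSucc 1022, .negSucc 39, .negSucc 4, .negSucc 98, .ofNat 12, .ofNat 41⟩, ⟨.ofNat 227, .negSucc 51, .ofNat 271, .ofNat 29, .ofNat 0, .negSucc 4⟩, ⟨.ofNat 815, .negSucc 105, .ofNat 102, .ofNat 238, .ofNat 1, .ofNat 155⟩, ⟨.negSucc 3158, .ofNat 182, .negSucc 56, .negSucc 311, .ofNat 37, .ofNat 150⟩, ⟨.negSucc 213, .ofNat 86, .negSucc 16, .negSucc 64, .ofNat 36, .ofNat 87⟩, .ofNat 652, .ofNat 314, .ofNat 0, .ofNat 314, .ofNat 1326, .ofNat 0, .ofNat 276, .negSucc 86, .negSucc 136, .ofNat 0, .ofNat 128, .ofNat 35,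 .ofNat 0, .ofNat 0, .ofNat 1404, .ofNat 4753, .ofNat 0, .ofNat 0, .ofNat 211211171266782999802060294968049664, .ofNat 0, .ofNat 0, .ofNat 0, .ofNat 0, .ofNat 0, .ofNat 0, .ofNat 0, .ofNat 0, .ofNat 0, .ofNat 0, .ofNat 5402417422358629525311236404747708661760, .ofNat 0, .ofNat 0⟩)
    (by decide +kernel)
theorem L00186 : Good (Phi V5.P V5.D (-1) (-1)) ⟨3, 0, 2, 1, 2, 1, 4, 13, 3, 2⟩ :=
  leafX_sound T5.ok_mm T5.Ymm.bz_eq (w := 205) (c := ⟨⟨.negSucc 984, .ofNat 11, .ofNat 0, .negSucc 138, .negSucc 3, .ofNat 6⟩, ⟨.ofNat 221, .negSucc 40, .ofNat 262, .ofNat 53, .ofNat 6, .ofNat 6⟩, ⟨.ofNat 730, .negSucc 45, .ofNat 134, .ofNat 373, .negSucc 68, .ofNat 121⟩, ⟨.negSucc 3018, .ofNat 118, .negSucc 37, .negSucc 424, .ofNat 13, .ofNat 45⟩, ⟨.negSucc 187, .ofNat 38, .negSucc 27, .negSucc 10, .ofNat 68, .ofNat 84⟩, .ofNat 673, .ofNat 327, .ofNat 0, .ofNat 327,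 .ofNat 1249, .ofNat 0, .ofNat 220, .negSucc 85, .negSucc 87, .ofNat 0, .ofNat 128, .ofNat 22, .ofNat 0, .ofNat 0, .ofNat 867, .ofNat 2545, .ofNat 0, .ofNat 0, .ofNat 0, .ofNat 0, .ofNat 0, .ofNat 0, .ofNat 0, .ofNat 0, .ofNat 0, .ofNat 0, .ofNat 0, .ofNat 0, .ofNat 0, .ofNat 50590200831737844047469543435468904857600, .ofNat 0, .ofNat 0⟩)
    (by decide +kernel)
theorem L00187 : Good (Phi V5.P V5.D (-1) (-1)) ⟨3, 1, 2, 1, 2, 1, 4, 13, 3, 2⟩ :=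
  leafX_sound T5.ok_mm T5.Ymm.bz_eq (w := 206) (c := ⟨⟨.negSucc 1004, .negSucc 33, .negSucc 13, .negSucc 113, .ofNat 16, .ofNat 29⟩, ⟨.ofNat 196, .negSucc 19, .ofNat 259, .ofNat 35, .ofNat 0, .ofNat 0⟩, ⟨.ofNat 779, .negSucc 78, .ofNat 114, .ofNat 242, .negSucc 79, .ofNat 94⟩, ⟨.negSucc 3007, .ofNat 110, .negSucc 56, .negSucc 313, .ofNat 67, .ofNat 112⟩, ⟨.negSucc 186, .ofNat 56, .negSucc 16, .ofNat 41, .ofNat 73, .ofNat 109⟩, .ofNat 631, .ofNat 301, .ofNat 0, .ofNat 301, .ofNat 1428, .ofNat 0, .ofNat 343, .negSucc 87, .negSucc 102, .ofNat 0, .ofNat 128, .ofNat 19, .ofNat 0, .ofNat 0, .ofNat 1053, .ofNat 3123, .ofNat 0, .ofNat 43317804603490942603956244901441568768, .ofNat 123266110679925401129008977105911808, .ofNat 0, .ofNat 0, .ofNat 0, .ofNat 0, .ofNat 0, .ofNat 0, .ofNat 0, .ofNat 0, .ofNat 0, .ofNat 0, .ofNat 68863976442200223166945488680613312462848,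 .ofNat 0, .ofNat 0⟩)
    (by decide +kernel)
theorem L00188 : Good (Phi V5.P V5.D (-1) (-1)) ⟨2, 0, 2, 1, 2, 1, 3, 7, 4, 4⟩ :=
  leafX_sound T5.ok_mm T5.Ymm.bz_eq (w := 202) (c := ⟨⟨.negSucc 960, .ofNat 18, .negSucc 5, .negSucc 190, .ofNat 91, .negSucc 16⟩, ⟨.ofNat 219, .negSucc 68, .ofNat 255, .ofNat 70, .negSucc 16, .ofNat 10⟩, ⟨.ofNat 713, .negSucc 151, .ofNat 111, .ofNat 350, .negSucc 192, .ofNat 78⟩, ⟨.negSucc 3014, .ofNat 376, .negSucc 30, .negSucc 517, .ofNat 349, .negSucc 25⟩, ⟨.negSucc 200, .ofNat 163, .negSucc 20, .ofNat 83, .ofNat 205, .ofNat 47⟩, .ofNat 659, .ofNat 338, .ofNat 0, .ofNat 338, .ofNat 1371, .ofNat 0, .ofNat 288, .negSucc 93, .negSucc 80, .ofNat 0, .ofNat 128, .ofNat 20, .ofNat 0, .ofNat 0, .ofNat 551, .ofNat 1546, .ofNat 0, .ofNat 0, .ofNat 0, .ofNat 0, .ofNat 0, .ofNat 3967984439926861814867245400879775350784, .ofNat 0,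 .ofNat 0, .ofNat 0, .ofNat 2277881622677351173915610321752567054336, .ofNat 0, .ofNat 0, .ofNat 0, .ofNat 2992703512540673686486420630895006318592, .ofNat 0, .ofNat 0⟩)
    (by decide +kernel)
theorem L00189 : Good (Phi V5.P V5.D (-1) (-1)) ⟨3, 0, 2, 1, 2, 1, 4, 14, 4, 5⟩ :=
  leafX_sound T5.ok_mm T5.Ymm.bz_eq (w := 211) (c := ⟨⟨.negSucc 972, .ofNat 23, .negSucc 10, .negSucc 164, .negSucc 0, .negSucc 8⟩, ⟨.ofNat 231, .negSucc 42, .ofNat 256, .ofNat 61, .ofNat 8, .ofNat 8⟩, ⟨.ofNat 718, .negSucc 59, .ofNat 147, .ofNat 463, .negSucc 90, .ofNat 18⟩, ⟨.negSucc 2968, .ofNat 156, .negSucc 41, .negSucc 482, .ofNat 32, .negSucc 9⟩, ⟨.negSucc 104, .ofNat 59, .negSucc 18, .ofNat 26, .ofNat 97, .ofNat 51⟩, .ofNat 678, .ofNat 342, .ofNat 0, .ofNat 342, .ofNat 1272, .ofNat 0, .ofNat 294, .negSucc 87, .negSucc 68, .ofNat 0, .ofNat 128, .ofNat 12, .ofNat 0, .ofNat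 0, .ofNat 741, .ofNat 3850, .ofNat 0, .ofNat 2321804511226868370616812119289940148224, .ofNat 8157165465595876114441812762247036928, .ofNat 0, .ofNat 0, .ofNat 0, .ofNat 0, .ofNat 0, .ofNat 0, .ofNat 151226714489453766002260958188339086753792, .ofNat 0, .ofNat 0, .ofNat 0, .ofNat 570497491274349968541785005394670825504768, .ofNat 0, .ofNat 0⟩)
    (by decide +kernel)
theorem L00190 : Good (Phi V5.P V5.D (-1) (-1)) ⟨3, 0, 2, 1, 2, 1, 4, 15, 4, 5⟩ :=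
  leafX_sound T5.ok_mm T5.Ymm.bz_eq (w := 212) (c := ⟨⟨.negSucc 952, .ofNat 32, .negSucc 19, .negSucc 223, .ofNat 1, .negSucc 36⟩, ⟨.ofNat 239, .negSucc 48, .ofNat 246, .ofNat 90, .ofNat 11, .ofNat 18⟩, ⟨.ofNat 623, .negSucc 57, .ofNat 137, .ofNat 500, .negSucc 95, .ofNat 13⟩, ⟨.negSucc 2883, .ofNat 181, .negSucc 53, .negSucc 639, .ofNat 59, .negSucc 85⟩, ⟨.negSucc 14, .ofNat 62, .negSucc 15, .ofNat 76, .ofNat 130, .ofNat 62⟩, .ofNat 424, .ofNat 115, .ofNat 0, .ofNat 115, .ofNat 619, .ofNat 0, .ofNat 264, .negSucc 51, .negSucc 91, .ofNat 0, .ofNat 128, .ofNat 9, .ofNat 0, .ofNat 0, .ofNat 573, .ofNat 8142, .ofNat 0, .ofNat 17501362208728188071488199364179281313792, .ofNat 0, .ofNat 0, .ofNat 0, .ofNat 872419825894635910752911014530278477529088, .ofNat 106498439161984874728680572518035095552, .ofNat 0, .ofNat 0, .ofNat 421588850325044168652529407700626661441536,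 .ofNat 0, .ofNat 0, .ofNat 0, .ofNat 827493509509276753291338940240002574974976, .ofNat 0, .ofNat 0⟩)
    (by decide +kernel)
theorem L00191 : Good (Phi V5.P V5.D (-1) (-1)) ⟨3, 1, 3, 2, 2, 1, 3, 7, 4, 5⟩ :=
  leafX_sound T5.ok_mm T5.Ymm.bz_eq (w := 209) (c := ⟨⟨.negSucc 969, .negSucc 10, .negSucc 8, .negSucc 142, .ofNat 56, .negSucc 1⟩, ⟨.ofNat 201, .negSucc 28, .ofNat 122, .ofNat 47, .ofNat 0, .ofNat 4⟩, ⟨.ofNat 704, .negSucc 56, .ofNat 71, .ofNat 324, .negSucc 212, .ofNat 26⟩, ⟨.negSucc 2882, .ofNat 168, .negSucc 20, .negSucc 372, .ofNat 226, .ofNat 8⟩, ⟨.negSucc 75, .ofNat 68, .negSucc 8, .ofNat 111, .ofNat 242, .ofNat 48⟩, .ofNat 624, .ofNat 278, .ofNat 0, .ofNat 278, .ofNat 1397, .ofNat 0, .ofNat 255, .negSucc 81, .negSucc 41, .ofNat 0, .ofNat 128, .ofNat 0, .ofNat 0, .ofNat 0, .ofNat 497, .ofNat 2508, .ofNat 0, .ofNat 0, .ofNat 0, .ofNat 0,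 .ofNat 0, .ofNat 492150754793367372095050078430813952671744, .ofNat 0, .ofNat 0, .ofNat 0, .ofNat 454243621146502116483577448138512432889856, .ofNat 0, .ofNat 0, .ofNat 0, .ofNat 378633421333406735325391838619333820416000, .ofNat 0, .ofNat 0⟩)
    (by decide +kernel)
theorem L00192 : Good (Phi V5.P V5.D (-1) (-1)) ⟨3, 1, 3, 3, 3, 2, 3, 7, 4, 5⟩ :=
  leafX_sound T5.ok_mm T5.Ymm.bz_eq (w := 224) (c := ⟨⟨.negSucc 965, .negSucc 13, .negSucc 14, .negSucc 68, .ofNat 39, .negSucc 7⟩, ⟨.ofNat 319, .negSucc 32, .ofNat 126, .ofNat 27, .ofNat 1, .ofNat 6⟩, ⟨.ofNat 731, .negSucc 38, .ofNat 82, .ofNat 206, .negSucc 185, .ofNat 41⟩, ⟨.negSucc 2869, .ofNat 155, .negSucc 38, .negSucc 184, .ofNat 186, .negSucc 7⟩, ⟨.negSucc 76, .ofNat 69, .negSucc 4, .ofNat 45, .ofNat 219, .ofNat 48⟩, .ofNat 818, .ofNat 622, .ofNat 0, .ofNat 622, .ofNat 2118, .ofNat 0, .ofNat 350,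 .negSucc 126, .negSucc 48, .ofNat 0, .ofNat 128, .ofNat 12, .ofNat 0, .ofNat 0, .ofNat 508, .ofNat 5330, .ofNat 0, .ofNat 32590149549831211637181552246179640186503168, .ofNat 23921789798878424641756087787720198324224, .ofNat 0, .ofNat 0, .ofNat 0, .ofNat 0, .ofNat 0, .ofNat 0, .ofNat 3012673516650709908065383597645826460848488448, .ofNat 691869329752865253630887792406120760344576, .ofNat 0, .ofNat 0, .ofNat 1264733283521630487753200127301132537892438016, .ofNat 0, .ofNat 0⟩)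
    (by decide +kernel)
theorem L00193 : Good (Phi V5.P V5.D (-1) (-1)) ⟨3, 1, 3, 3, 3, 3, 3, 7, 4, 5⟩ :=
  leafX_sound T5.ok_mm T5.Ymm.bz_eq (w := 225) (c := ⟨⟨.negSucc 1049, .negSucc 4, .negSucc 3, .negSucc 83, .negSucc 6, .ofNat 10⟩, ⟨.ofNat 349, .negSucc 35, .ofNat 130, .ofNat 32, .ofNat 20, .negSucc 0⟩, ⟨.ofNat 927, .negSucc 74, .ofNat 87, .ofNat 191, .negSucc 106, .ofNat 76⟩, ⟨.negSucc 3096, .ofNat 189, .negSucc 20, .negSucc 227, .ofNat 59, .ofNat 44⟩, ⟨.negSucc 39, .ofNat 83, .negSucc 21, .ofNat 49, .ofNat 237, .ofNat 49⟩, .ofNat 946, .ofNat 854, .ofNat 0, .ofNat 854, .ofNat 2720, .ofNat 0, .ofNat 179, .negSucc 127, .negSucc 36, .ofNat 0, .ofNat 115, .ofNat 8, .ofNat 0, .ofNat 0, .ofNat 541, .ofNat 7386, .ofNat 0, .ofNat 93607717119214558413199623822059857128718336, .ofNat 0, .ofNat 0, .ofNat 0, .ofNat 2686400824901826898911780058187358566013206528,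 .ofNat 0, .ofNat 0, .ofNat 0, .ofNat 4158851972680862689066425078064806319112585216, .ofNat 0, .ofNat 0, .ofNat 0, .ofNat 4557782477286755978889476489225683773104848896, .ofNat 1380500888206512156062523957327179970248704, .ofNat 0⟩)
    (by decide +kernel)
theorem L00194 : Good (Phi V5.P V5.D (-1) (-1)) ⟨2, 0, 2, 1, 2, 0, 2, 2, 3, 3⟩ :=
  leafX_sound T5.ok_mm T5.Ymm.bz_eq (w := 197) (c := ⟨⟨.negSucc 1024, .negSucc 63, .ofNat 2, .negSucc 17, .ofNat 74, .ofNat 47⟩, ⟨.ofNat 249, .negSucc 49, .ofNat 249, .negSucc 4, .negSucc 17, .negSucc 12⟩, ⟨.ofNat 1047, .ofNat 14, .ofNat 36, .ofNat 190, .negSucc 353, .ofNat 23⟩, ⟨.negSucc 3114, .ofNat 59, .negSucc 7, .negSucc 84, .ofNat 227, .ofNat 166⟩, ⟨.negSucc 35, .ofNat 18, .ofNat 10, .negSucc 132, .ofNat 42, .ofNat 11⟩, .ofNat 651, .ofNat 310, .ofNat 0, .ofNat 310, .ofNat 1318, .ofNat 0, .ofNat 341, .negSucc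 82, .negSucc 75, .ofNat 0, .ofNat 128, .ofNat 19, .ofNat 0, .ofNat 0, .ofNat 1101, .ofNat 25338, .ofNat 0, .ofNat 0, .ofNat 0, .ofNat 0, .ofNat 8311465303370250738544586153901728727040, .ofNat 0, .ofNat 0, .ofNat 0, .ofNat 1966573448938561990944802386451386859520, .ofNat 0, .ofNat 0, .ofNat 0, .ofNat 6291205410733032630077994684807141916672, .ofNat 0, .ofNat 0, .ofNat 0⟩)
    (by decide +kernel)
theorem L00195 : Good (Phi V5.P V5.D (-1) (-1)) ⟨2, 0, 2, 1, 2, 0, 3, 6, 3, 3⟩ :=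
  leafX_sound T5.ok_mm T5.Ymm.bz_eq (w := 199) (c := ⟨⟨.negSucc 944, .negSucc 58, .ofNat 1, .negSucc 37, .ofNat 21, .ofNat 50⟩, ⟨.ofNat 232, .negSucc 52, .ofNat 239, .ofNat 8, .negSucc 2, .negSucc 13⟩, ⟨.ofNat 660, .ofNat 24, .ofNat 61, .ofNat 262, .negSucc 191, .negSucc 72⟩, ⟨.negSucc 2890, .ofNat 97, .negSucc 5, .negSucc 124, .ofNat 80, .ofNat 145⟩, ⟨.negSucc 26, .ofNat 30, .ofNat 14, .negSucc 77, .ofNat 33, .ofNat 47⟩, .ofNat 671, .ofNat 349, .ofNat 0, .ofNat 349, .ofNat 1350, .ofNat 0, .ofNat 196, .negSucc 89, .negSucc 54, .ofNat 0, .ofNat 128, .ofNat 13, .ofNat 0, .ofNat 0, .ofNat 720, .ofNat 8678, .ofNat 0, .ofNat 0, .ofNat 0, .ofNat 0, .ofNat 3918895860326134111930381238991004368896, .ofNat 0, .ofNat 3333720748803479167641129861697765376, .ofNat 0, .ofNat 10173198444342324259311740740565773320192, .ofNat 0, .ofNat 0, .ofNat 0, .ofNat 17557491259138183756637333393310799101952,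 .ofNat 0, .ofNat 319864859966466283931321656431083520, .ofNat 0⟩)
    (by decide +kernel)
theorem L00196 : Good (Phi V5.P V5.D (-1) (-1)) ⟨2, 0, 2, 1, 2, 0, 4, 14, 3, 3⟩ :=
  leafX_sound T5.ok_mm T5.Ymm.bz_eq (w := 203) (c := ⟨⟨.negSucc 886, .negSucc 22, .negSucc 26, .negSucc 63, .ofNat 5, .negSucc 26⟩, ⟨.ofNat 217, .negSucc 69, .ofNat 240, .ofNat 27, .ofNat 4, .ofNat 15⟩, ⟨.ofNat 414, .negSucc 10, .ofNat 98, .ofNat 295, .negSucc 103, .negSucc 34⟩, ⟨.negSucc 2713, .ofNat 157, .negSucc 67, .negSucc 168, .ofNat 25, .negSucc 49⟩, ⟨.negSucc 47, .ofNat 60, .negSucc 7, .ofNat 32, .ofNat 43, .ofNat 69⟩, .ofNat 651, .ofNat 310, .ofNat 0, .ofNat 310, .ofNat 1322, .ofNat 0, .ofNat 246, .negSucc 82, .negSucc 66, .ofNat 0, .ofNat 128, .ofNat 12, .ofNat 0, .ofNat 0, .ofNat 689, .ofNat 9490, .ofNat 0, .ofNat 0, .ofNat 0, .ofNat 0, .ofNat 41977558664600654753907293308707063988224,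 .ofNat 0, .ofNat 0, .ofNat 0, .ofNat 0, .ofNat 0, .ofNat 0, .ofNat 0, .ofNat 0, .ofNat 0, .ofNat 0, .ofNat 0⟩)
    (by decide +kernel)
theorem L00197 : Good (Phi V5.P V5.D (-1) (-1)) ⟨2, 0, 2, 1, 2, 0, 4, 15, 3, 3⟩ :=
  leafX_sound T5.ok_mm T5.Ymm.bz_eq (w := 202) (c := ⟨⟨.negSucc 887, .negSucc 1, .ofNat 1, .negSucc 78, .ofNat 24, .negSucc 66⟩, ⟨.ofNat 221, .negSucc 69, .ofNat 226, .ofNat 37, .negSucc 3, .ofNat 26⟩, ⟨.ofNat 306, .ofNat 21, .ofNat 59, .ofNat 293, .negSucc 139, .ofNat 8⟩, ⟨.negSucc 2677, .ofNat 195, .ofNat 20, .negSucc 230, .ofNat 79, .negSucc 173⟩, ⟨.ofNat 12, .ofNat 22, .ofNat 29, .ofNat 45, .ofNat 30, .ofNat 23⟩, .ofNat 903, .ofNat 691, .ofNat 0, .ofNat 691, .ofNat 2246, .ofNat 0, .ofNat 221, .negSucc 114, .negSucc 79, .ofNat 0, .ofNat 128, .ofNat 21, .ofNat 0, .ofNat 0, .ofNat 655, .ofNat 4130, .ofNat 0, .ofNat 62790053268022392715526653788794388480,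 .ofNat 0, .ofNat 0, .ofNat 0, .ofNat 1917339859274876229433362557069036617728, .ofNat 0, .ofNat 0, .ofNat 0, .ofNat 2832853360883571691570187238098784485376, .ofNat 0, .ofNat 0, .ofNat 0, .ofNat 0, .ofNat 0, .ofNat 0⟩)
    (by decide +kernel)
theorem L00198 : Good (Phi V5.P V5.D (-1) (-1)) ⟨2, 0, 2, 1, 2, 1, 2, 2, 4, 6⟩ :=
  leafX_sound T5.ok_mm T5.Ymm.bz_eq (w := 199) (c := ⟨⟨.negSucc 1003, .negSucc 67, .negSucc 7, .negSucc 37, .ofNat 18, .ofNat 42⟩, ⟨.ofNat 223, .negSucc 42, .ofNat 263, .ofNat 4, .ofNat 4, .negSucc 11⟩, ⟨.ofNat 913, .negSucc 20, .ofNat 227, .ofNat 356, .negSucc 69, .ofNat 190⟩, ⟨.negSucc 3124, .ofNat 106, .negSucc 59, .negSucc 147, .ofNat 86, .ofNat 136⟩, ⟨.negSucc 216, .ofNat 65, .negSucc 20, .negSucc 112, .ofNat 104, .ofNat 14⟩, .ofNat 649, .ofNat 314, .ofNat 0, .ofNat 314, .ofNat 1344, .ofNat 0, .ofNat 199, .negSucc 85, .negSucc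 63, .ofNat 0, .ofNat 128, .ofNat 7, .ofNat 0, .ofNat 0, .ofNat 1733, .ofNat 4308, .ofNat 140114299133211447821171899896166350848, .ofNat 0, .ofNat 0, .ofNat 0, .ofNat 0, .ofNat 0, .ofNat 0, .ofNat 0, .ofNat 0, .ofNat 0, .ofNat 0, .ofNat 0, .ofNat 0, .ofNat 4055375066404444881131794735123507707904, .ofNat 0, .ofNat 0⟩)
    (by decide +kernel)
theorem L00199 : Good (Phi V5.P V5.D (-1) (-1)) ⟨2, 0, 2, 1, 2, 1, 2, 2, 5, 14⟩ :=
  leafX_sound T5.ok_mm T5.Ymm.bz_eq (w := 204) (c := ⟨⟨.negSucc 967, .negSucc 25, .ofNat 18, .negSucc 7, .negSucc 20, .ofNat 33⟩, ⟨.ofNat 215, .negSucc 53, .ofNat 242, .negSucc 5, .ofNat 20, .negSucc 14⟩, ⟨.ofNat 835, .negSucc 86, .ofNat 400, .ofNat 942, .negSucc 186, .ofNat 295⟩, ⟨.negSucc 2958, .ofNat 187, .negSucc 36, .negSucc 94, .negSucc 12, .ofNat 72⟩, ⟨.negSucc 197, .ofNat 109, .negSucc 68, .negSucc 128, .ofNat 100, .negSucc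 26⟩, .ofNat 903, .ofNat 691, .ofNat 0, .ofNat 691, .ofNat 2246, .ofNat 0, .ofNat 225, .negSucc 115, .negSucc 41, .ofNat 0, .ofNat 128, .ofNat 2, .ofNat 0, .ofNat 0, .ofNat 2230, .ofNat 3971, .ofNat 0, .ofNat 64740470213289680304865167391326208000, .ofNat 0, .ofNat 0, .ofNat 0, .ofNat 0, .ofNat 0, .ofNat 0, .ofNat 0, .ofNat 5428166776880763676031858659570613223424, .ofNat 0, .ofNat 0, .ofNat 0, .ofNat 62233257490030153548394512516243720765440, .ofNat 0, .ofNat 0⟩)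
    (by decide +kernel)
theorem L00200 : Good (Phi V5.P V5.D (-1) (-1)) ⟨2, 0, 2, 1, 2, 1, 2, 2, 5, 15⟩ :=
  leafX_sound T5.ok_mm T5.Ymm.bz_eq (w := 205) (c := ⟨⟨.negSucc 962, .negSucc 18, .ofNat 27, .ofNat 58, .negSucc 51, .ofNat 39⟩, ⟨.ofNat 237, .negSucc 48, .ofNat 232, .negSucc 58, .ofNat 25, .negSucc 19⟩, ⟨.ofNat 829, .negSucc 245, .ofNat 669, .ofNat 1964, .negSucc 768, .ofNat 662⟩, ⟨.negSucc 2855, .ofNat 210, .negSucc 18, .negSucc 14, .negSucc 130, .ofNat 77⟩, ⟨.negSucc 208, .ofNat 141, .negSucc 111, .negSucc 298, .ofNat 228, .negSucc 101⟩, .ofNat 903, .ofNat 691, .ofNat 0, .ofNat 691, .ofNat 2246, .ofNat 0, .ofNat 184, .negSucc 115, .negSucc 15, .ofNat 0, .ofNat 128, .negSucc 10, .ofNat 0, .ofNat 0, .ofNat 2314, .ofNat 7481, .ofNat 40961537663137859022978689354209257586688, .ofNat 1372859325137087230828259993944569413632, .ofNat 0, .ofNat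 0, .ofNat 0, .ofNat 0, .ofNat 0, .ofNat 0, .ofNat 353296006743314794773491490933174727344128, .ofNat 12242758386929861691758003286206431887360, .ofNat 0, .ofNat 0, .ofNat 3191034384393461264979657328531072104792064, .ofNat 140156314240720041703429200748381407805440, .ofNat 0, .ofNat 0⟩)
    (by decide +kernel)
theorem L00201 : Good (Phi V5.P V5.D (-1) (-1)) ⟨2, 0, 2, 1, 3, 2, 3, 6, 3, 3⟩ :=
  leafX_sound T5.ok_mm T5.Ymm.bz_eq (w := 212) (c := ⟨⟨.negSucc 981, .negSucc 22, .negSucc 1, .negSucc 36, .negSucc 8, .ofNat 45⟩, ⟨.ofNat 232, .negSucc 60, .ofNat 249, .ofNat 11, .ofNat 11, .negSucc 10⟩, ⟨.ofNat 837, .negSucc 49, .ofNat 178, .ofNat 241, .negSucc 146, .ofNat 89⟩, ⟨.negSucc 3011, .ofNat 210, .negSucc 37, .negSucc 115, .ofNat 6, .ofNat 138⟩, ⟨.negSucc 133, .ofNat 92, .negSucc 18, .negSucc 22, .ofNat 102, .ofNat 29⟩, .ofNat 860, .ofNat 603, .ofNat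 0, .ofNat 603, .ofNat 2120, .ofNat 0, .ofNat 252, .negSucc 106, .negSucc 49, .ofNat 0, .ofNat 128, .ofNat 1, .ofNat 0, .ofNat 0, .ofNat 1340, .ofNat 3958, .ofNat 0, .ofNat 13558278566672296145420734728191004901376, .ofNat 2951598524129436838211116172784435200000, .ofNat 0, .ofNat 0, .ofNat 0, .ofNat 0, .ofNat 0, .ofNat 0, .ofNat 0, .ofNat 0, .ofNat 0, .ofNat 230674049117982734792518184854592665795166208, .ofNat 5486324008965126273693212046438559066882048, .ofNat 0, .ofNat 0⟩)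
    (by decide +kernel)
theorem L00202 : Good (Phi V5.P V5.D (-1) (-1)) ⟨2, 0, 3, 2, 3, 3, 3, 6, 4, 6⟩ :=
  leafX_sound T5.ok_mm T5.Ymm.bz_eq (w := 220) (c := ⟨⟨.negSucc 1033, .negSucc 23, .negSucc 1, .negSucc 25, .negSucc 1, .ofNat 50⟩, ⟨.ofNat 239, .negSucc 54, .ofNat 127, .ofNat 6, .ofNat 11, .negSucc 13⟩, ⟨.ofNat 1073, .negSucc 164, .ofNat 113, .ofNat 225, .negSucc 88, .ofNat 151⟩, ⟨.negSucc 3175, .ofNat 241, .negSucc 14, .negSucc 101, .ofNat 16, .ofNat 123⟩, ⟨.negSucc 182, .ofNat 115, .negSucc 21, .negSucc 18, .ofNat 144, .ofNat 16⟩, .ofNat 410, .ofNat 93, .ofNat 0, .ofNat 93, .ofNat 640, .ofNat 0, .ofNat 327, .negSucc 45, .negSucc 37, .ofNat 0, .ofNat 128, .negSucc 24, .ofNat 0, .ofNat 0, .ofNat 1187, .ofNat 5156, .ofNat 0, .ofNat 0, .ofNat 0, .ofNat 0, .ofNat 0, .ofNat 0, .ofNat 0, .ofNat 0, .ofNat 0, .ofNat 68367435167316334078315256357983002692681728,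 .ofNat 0, .ofNat 0, .ofNat 0, .ofNat 616407385443717344408087729184787935996674048, .ofNat 0, .ofNat 0⟩)
    (by decide +kernel)
theorem L00203 : Good (Phi V5.P V5.D (-1) (-1)) ⟨3, 0, 3, 3, 3, 3, 3, 6, 5, 12⟩ :=
  leafX_sound T5.ok_mm T5.Ymm.bz_eq (w := 231) (c := ⟨⟨.negSucc 1035, .ofNat 12, .ofNat 5, .negSucc 29, .negSucc 28, .ofNat 23⟩, ⟨.ofNat 372, .negSucc 40, .ofNat 132, .ofNat 7, .ofNat 20, .negSucc 9⟩, ⟨.ofNat 1097, .negSucc 89, .ofNat 135, .ofNat 376, .negSucc 58, .ofNat 127⟩, ⟨.negSucc 3181, .ofNat 133, .negSucc 17, .negSucc 118, .negSucc 37, .ofNat 66⟩, ⟨.negSucc 172, .ofNat 63, .negSucc 24, .negSucc 68, .ofNat 112, .negSucc 5⟩, .ofNat 728, .ofNat 434, .ofNat 0, .ofNat 434, .ofNat 1350, .ofNat 0, .ofNat 224, .negSucc 102, .negSucc 20, .ofNat 0, .ofNat 128, .negSucc 27, .ofNat 0, .ofNat 0, .ofNat 1966, .ofNat 12976, .ofNat 0, .ofNat 787089267570581381459169546623686326429417472,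 .ofNat 5399715601369038697933130719373395054559232, .ofNat 0, .ofNat 0, .ofNat 0, .ofNat 0, .ofNat 0, .ofNat 0, .ofNat 10066722935287517372270400699272090026122412032, .ofNat 0, .ofNat 0, .ofNat 0, .ofNat 202414696321071257199915705550399721324391956480, .ofNat 0, .ofNat 0⟩)
    (by decide +kernel)
theorem L00204 : Good (Phi V5.P V5.D (-1) (-1)) ⟨3, 0, 3, 3, 3, 3, 3, 6, 5, 13⟩ :=
  leafX_sound T5.ok_mm T5.Ymm.bz_eq (w := 231) (c := ⟨⟨.negSucc 1017, .ofNat 10, .ofNat 8, .negSucc 16, .negSucc 29, .ofNat 23⟩, ⟨.ofNat 367, .negSucc 38, .ofNat 127, .ofNat 0, .ofNat 20, .negSucc 10⟩, ⟨.ofNat 1164, .negSucc 81, .ofNat 173, .ofNat 495, .negSucc 101, .ofNat 174⟩, ⟨.negSucc 3121, .ofNat 126, .negSucc 10, .negSucc 88, .negSucc 48, .ofNat 57⟩, ⟨.negSucc 160, .ofNat 58, .negSucc 30, .negSucc 86, .ofNat 100, .negSucc 17⟩, .ofNat 1040, .ofNat 885, .ofNat 0, .ofNat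 885, .ofNat 2308, .ofNat 0, .ofNat 139, .negSucc 127, .ofNat 31, .ofNat 0, .ofNat 128, .negSucc 46, .ofNat 0, .ofNat 0, .ofNat 2150, .ofNat 12370, .ofNat 0, .ofNat 1541670943282768616191307790975181885565566976, .ofNat 3853994974696105155058590020596851284115456, .ofNat 0, .ofNat 0, .ofNat 8720100256722144062761686978766861343347703808, .ofNat 0, .ofNat 0, .ofNat 0, .ofNat 15411403937106110984078690910484732562942984192, .ofNat 0, .ofNat 0, .ofNat 0, .ofNat 331639557692020220736556209030237067196539863040, .ofNat 0, .ofNat 0⟩)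
    (by decide +kernel)
theorem L00205 : Good (Phi V5.P V5.D (-1) (-1)) ⟨3, 1, 3, 3, 4, 6, 3, 6, 4, 6⟩ :=
  leafX_sound T5.ok_mm T5.Ymm.bz_eq (w := 240) (c := ⟨⟨.negSucc 1034, .negSucc 22, .ofNat 0, .negSucc 10, .negSucc 5, .ofNat 43⟩, ⟨.ofNat 337, .negSucc 25, .ofNat 126, .ofNat 3, .ofNat 11, .negSucc 14⟩, ⟨.ofNat 1052, .negSucc 50, .ofNat 140, .ofNat 152, .negSucc 79, .ofNat 185⟩, ⟨.negSucc 3085, .ofNat 131, .negSucc 17, .negSucc 36, .ofNat 31, .ofNat 124⟩, ⟨.negSucc 134, .ofNat 54, .negSucc 28, .negSucc 14, .ofNat 148, .ofNat 4⟩, .ofNat 422, .ofNat 141, .ofNat 0, .ofNat 141, .ofNat 698, .ofNat 0, .ofNat 356, .negSucc 65, .negSucc 50, .ofNat 0, .ofNat 128, .negSucc 42, .ofNat 0, .ofNat 0, .ofNat 1947, .ofNat 13401, .ofNat 0, .ofNat 454008070298216308123288520744407898437378375680, .ofNat 2587888273942781003163116541601971796751417344, .ofNat 0,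 .ofNat 0, .ofNat 0, .ofNat 0, .ofNat 0, .ofNat 0, .ofNat 3787125338632758330935756243275548847529533636608, .ofNat 3590450952965529395379058651618697706871980032, .ofNat 0, .ofNat 0, .ofNat 89370836103560581040071168098313938632147751403520, .ofNat 0, .ofNat 0⟩)
    (by decide +kernel)
theorem L00206 : Good (Phi V5.P V5.D (-1) (-1)) ⟨3, 1, 3, 3, 4, 7, 3, 6, 4, 6⟩ :=
  leafX_sound T5.ok_mm T5.Ymm.bz_eq (w := 240) (c := ⟨⟨.negSucc 1053, .negSucc 23, .ofNat 7, .negSucc 7, .negSucc 3, .ofNat 59⟩, ⟨.ofNat 342, .negSucc 22, .ofNat 125, .ofNat 2, .ofNat 9, .negSucc 21⟩, ⟨.ofNat 1150, .negSucc 100, .ofNat 166, .ofNat 152, .negSucc 5, .ofNat 322⟩, ⟨.negSucc 3143, .ofNat 134, .negSucc 9, .negSucc 30, .ofNat 32, .ofNat 161⟩, ⟨.negSucc 146, .ofNat 71, .negSucc 34, .negSucc 16, .ofNat 139, .negSucc 13⟩, .ofNat 678, .ofNat 405, .ofNat 0, .ofNat 405, .ofNat 1524,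 .ofNat 0, .ofNat 151, .negSucc 107, .negSucc 10, .ofNat 0, .ofNat 128, .negSucc 28, .ofNat 0, .ofNat 0, .ofNat 2207, .ofNat 15458, .ofNat 0, .ofNat 926117548707563000015391857456553014659267952640, .ofNat 3473450558041147217403237867857082160689184768, .ofNat 0, .ofNat 0, .ofNat 8072278868301039410147777826027471922372110450688, .ofNat 12833392526239495603117034836358282259103481856, .ofNat 0, .ofNat 0, .ofNat 12285263713069298135411284358561184311366194823168, .ofNat 0, .ofNat 0, .ofNat 0, .ofNat 220207246656801312494544919383898414640151215996928, .ofNat 152461515693263157921133538758171811774120067072, .ofNat 0⟩)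
    (by decide +kernel)
theorem L00207 : Good (Phi V5.P V5.D (-1) (-1)) ⟨2, 0, 2, 1, 3, 3, 3, 6, 4, 7⟩ :=
  leafX_sound T5.ok_mm T5.Ymm.bz_eq (w := 218) (c := ⟨⟨.negSucc 998, .negSucc 17, .ofNat 15, .ofNat 3, .negSucc 21, .ofNat 52⟩, ⟨.ofNat 237, .negSucc 55, .ofNat 241, .negSucc 10, .ofNat 14, .negSucc 24⟩, ⟨.ofNat 1029, .negSucc 151, .ofNat 438, .ofNat 654, .negSucc 80, .ofNat 498⟩, ⟨.negSucc 3044, .ofNat 244, .negSucc 29, .negSucc 60, .negSucc 44, .ofNat 121⟩, ⟨.negSucc 126, .ofNat 132, .negSucc 74, .negSucc 121, .ofNat 90, .negSucc 65⟩, .ofNat 663, .ofNat 333, .ofNat 0, .ofNat 333, .ofNat 1330, .ofNat 0, .ofNat 218, .negSucc 87, .negSucc 0, .ofNat 0, .ofNat 128, .negSucc 45, .ofNat 0, .ofNat 0, .ofNat 2468, .ofNat 6335, .ofNat 0, .ofNat 1614319980219093537991405712191733117222912, .ofNat 85211685743071158396101517951525764202496, .ofNat 0, .ofNat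 0, .ofNat 39492780209539765879462656840625565353377792, .ofNat 0, .ofNat 0, .ofNat 0, .ofNat 34255052457904767142446991074508108082446336, .ofNat 0, .ofNat 0, .ofNat 0, .ofNat 542982125937462371823665000101940818509561856, .ofNat 0, .ofNat 0⟩)
    (by decide +kernel)
theorem L00208 : Good (Phi V5.P V5.D (-1) (-1)) ⟨3, 0, 2, 1, 3, 2, 5, 28, 4, 6⟩ :=
  leafX_sound T5.ok_mm T5.Ymm.bz_eq (w := 231) (c := ⟨⟨.negSucc 976, .ofNat 21, .negSucc 11, .negSucc 70, .negSucc 10, .ofNat 1⟩, ⟨.ofNat 240, .negSucc 45, .ofNat 253, .ofNat 28, .ofNat 8, .ofNat 3⟩, ⟨.ofNat 703, .negSucc 51, .ofNat 187, .ofNat 272, .negSucc 50, .negSucc 10⟩, ⟨.negSucc 2961, .ofNat 149, .negSucc 45, .negSucc 214, .negSucc 11, .ofNat 20⟩, ⟨.negSucc 43, .ofNat 58, .negSucc 30, .negSucc 1, .ofNat 48, .ofNat 45⟩, .ofNat 422, .ofNat 109, .ofNat 0, .ofNat 109, .ofNat 616, .ofNat 0, .ofNat 252,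 .negSucc 48, .negSucc 86, .ofNat 0, .ofNat 128, .negSucc 14, .ofNat 0, .ofNat 0, .ofNat 1122, .ofNat 20608, .ofNat 0, .ofNat 337722962704294793622363546476077080045944832, .ofNat 33972786354526737705323486901124840147648512, .ofNat 0, .ofNat 0, .ofNat 0, .ofNat 0, .ofNat 0, .ofNat 0, .ofNat 0, .ofNat 0, .ofNat 0, .ofNat 0, .ofNat 21207551180370284448643995413851373389574307840, .ofNat 0, .ofNat 0⟩)
    (by decide +kernel)
theorem L00209 : Good (Phi V5.P V5.D (-1) (-1)) ⟨3, 0, 2, 1, 3, 2, 5, 29, 4, 6⟩ :=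
  leafX_sound T5.ok_mm T5.Ymm.bz_eq (w := 231) (c := ⟨⟨.negSucc 982, .ofNat 26, .negSucc 16, .negSucc 75, .negSucc 12, .negSucc 7⟩, ⟨.ofNat 250, .negSucc 48, .ofNat 249, .ofNat 30, .ofNat 10, .ofNat 6⟩, ⟨.ofNat 654, .negSucc 29, .ofNat 170, .ofNat 256, .negSucc 53, .negSucc 15⟩, ⟨.negSucc 2969, .ofNat 164, .negSucc 45, .negSucc 221, .negSucc 13, .negSucc 3⟩, ⟨.negSucc 1, .ofNat 52, .negSucc 25, .ofNat 25, .ofNat 58, .ofNat 47⟩, .ofNat 425, .ofNat 116, .ofNat 0, .ofNat 116, .ofNat 619, .ofNat 0, .ofNat 234, .negSucc 51, .negSucc 60, .ofNat 0, .ofNat 128, .negSucc 19, .ofNat 0, .ofNat 0, .ofNat 830, .ofNat 20873, .ofNat 0, .ofNat 595532377038859992902682009128889370118455296, .ofNat 37193501319855364265662596967517289730539520, .ofNat 0, .ofNat 0, .ofNat 8692208907788841704956438211608605501526376448, .ofNat 0, .ofNat 0, .ofNat 0, .ofNat 3137604610328965840185770356108344216915017728,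 .ofNat 0, .ofNat 0, .ofNat 0, .ofNat 20575816942193150704793336811343402664009400320, .ofNat 0, .ofNat 0⟩)
    (by decide +kernel)
theorem L00210 : Good (Phi V5.P V5.D (-1) (-1)) ⟨3, 0, 2, 1, 3, 3, 4, 14, 4, 6⟩ :=
  leafX_sound T5.ok_mm T5.Ymm.bz_eq (w := 228) (c := ⟨⟨.negSucc 1054, .ofNat 24, .negSucc 7, .negSucc 77, .negSucc 30, .ofNat 12⟩, ⟨.ofNat 262, .negSucc 44, .ofNat 261, .ofNat 34, .ofNat 17, .ofNat 1⟩, ⟨.ofNat 957, .negSucc 74, .ofNat 223, .ofNat 308, .negSucc 57, .ofNat 54⟩, ⟨.negSucc 3194, .ofNat 174, .negSucc 46, .negSucc 225, .negSucc 40, .ofNat 53⟩, ⟨.negSucc 47, .ofNat 80, .negSucc 41, .negSucc 10, .ofNat 100, .ofNat 38⟩, .ofNat 193, .ofNat 19, .ofNat 0, .ofNat 19, .ofNat 227, .ofNat 0, .ofNat 148, .negSucc 20, .negSucc 49, .ofNat 0, .ofNat 128, .negSucc 28, .ofNat 0, .ofNat 0, .ofNat 401, .ofNat 24228, .ofNat 0, .ofNat 388501501079682205624339846400218196544061440,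 .ofNat 0, .ofNat 0, .ofNat 0, .ofNat 4567348144035793155122501186300869392239427584, .ofNat 0, .ofNat 0, .ofNat 0, .ofNat 2507007778661027300696159048797042949704646656, .ofNat 0, .ofNat 0, .ofNat 0, .ofNat 6483845824554676756739355754919567132647751680, .ofNat 0, .ofNat 0⟩)
    (by decide +kernel)
theorem L00211 : Good (Phi V5.P V5.D (-1) (-1)) ⟨3, 1, 2, 1, 3, 2, 4, 14, 4, 6⟩ :=
  leafX_sound T5.ok_mm T5.Ymm.bz_eq (w := 227) (c := ⟨⟨.negSucc 965, .negSucc 18, .negSucc 18, .negSucc 52, .negSucc 2, .ofNat 4⟩, ⟨.ofNat 207, .negSucc 28, .ofNat 240, .ofNat 19, .ofNat 7, .ofNat 3⟩, ⟨.ofNat 686, .negSucc 17, .ofNat 175, .ofNat 212, .negSucc 112, .ofNat 5⟩, ⟨.negSucc 2850, .ofNat 135, .negSucc 46, .negSucc 141, .ofNat 27, .ofNat 23⟩, ⟨.negSucc 11, .ofNat 50, .negSucc 24, .ofNat 47, .ofNat 117, .ofNat 40⟩, .ofNat 408, .ofNat 97, .ofNat 0, .ofNat 97, .ofNat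 663, .ofNat 0, .ofNat 293, .negSucc 46, .negSucc 73, .ofNat 0, .ofNat 128, .negSucc 10, .ofNat 0, .ofNat 0, .ofNat 863, .ofNat 11883, .ofNat 0, .ofNat 74104954929449736289171966701161625847595008, .ofNat 1242029880573808805646248750750582257483776, .ofNat 0, .ofNat 0, .ofNat 0, .ofNat 0, .ofNat 0, .ofNat 0, .ofNat 760269927386100304651495174966993718305882112, .ofNat 0, .ofNat 0, .ofNat 0, .ofNat 3527870283875643475198275505269286902796648448, .ofNat 12448154194748453109582179370735455594086400, .ofNat 0⟩)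
    (by decide +kernel)
theorem L00212 : Good (Phi V5.P V5.D (-1) (-1)) ⟨3, 1, 2, 1, 3, 3, 4, 14, 4, 6⟩ :=
  leafX_sound T5.ok_mm T5.Ymm.bz_eq (w := 228) (c := ⟨⟨.negSucc 1027, .negSucc 13, .negSucc 14, .negSucc 61, .negSucc 5, .ofNat 17⟩, ⟨.ofNat 223, .negSucc 27, .ofNat 248, .ofNat 26, .ofNat 19, .ofNat 1⟩, ⟨.ofNat 888, .negSucc 56, .ofNat 212, .ofNat 216, .negSucc 71, .ofNat 59⟩, ⟨.negSucc 3024, .ofNat 171, .negSucc 43, .negSucc 156, .ofNat 22, .ofNat 65⟩, ⟨.ofNat 29, .ofNat 75, .negSucc 39, .ofNat 51, .ofNat 130, .ofNat 43⟩, .ofNat 191, .ofNat 17, .ofNat 0, .ofNat 17, .ofNat 234, .ofNat 0, .ofNat 190, .negSucc 18, .negSucc 56, .ofNat 0, .ofNat 128, .negSucc 30, .ofNat 0, .ofNat 0, .ofNat 444, .ofNat 29383, .ofNat 0, .ofNat 398251061772282673623647211983922084196646912, .ofNat 0, .ofNat 0, .ofNat 0, .ofNat 5897690865341362928982576008678083375535226880,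 .ofNat 0, .ofNat 0, .ofNat 0, .ofNat 3765244404337462428032187655596928279773184000, .ofNat 3470310817358885773298223250825228352225280, .ofNat 0, .ofNat 0, .ofNat 8151046633845588364476743448420312799732826112, .ofNat 0, .ofNat 0⟩)
    (by decide +kernel)
theorem L00213 : Good (Phi V5.P V5.D (-1) (-1)) ⟨2, 0, 2, 1, 2, 1, 4, 14, 4, 7⟩ :=
  leafX_sound T5.ok_mm T5.Ymm.bz_eq (w := 208) (c := ⟨⟨.negSucc 974, .ofNat 9, .negSucc 11, .negSucc 102, .negSucc 30, .ofNat 13⟩, ⟨.ofNat 253, .negSucc 80, .ofNat 241, .ofNat 36, .ofNat 20, .negSucc 4⟩, ⟨.ofNat 649, .negSucc 4, .ofNat 201, .ofNat 624, .negSucc 104, .negSucc 10⟩, ⟨.negSucc 2956, .ofNat 282, .negSucc 39, .negSucc 292, .negSucc 39, .ofNat 25⟩, ⟨.ofNat 13, .ofNat 89, .negSucc 34, .negSucc 13, .ofNat 90, .ofNat 31⟩, .ofNat 415, .ofNat 106, .ofNat 0, .ofNat 106, .ofNat 644, .ofNat 0, .ofNat 242, .negSucc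 48, .negSucc 47, .ofNat 0, .ofNat 128, .negSucc 20, .ofNat 0, .ofNat 0, .ofNat 849, .ofNat 7205, .ofNat 0, .ofNat 2078409747070413553343264964116939276288, .ofNat 0, .ofNat 0, .ofNat 0, .ofNat 36545130471168861810384424177447076888576, .ofNat 0, .ofNat 0, .ofNat 0, .ofNat 11420559093693674192019221106370002550784, .ofNat 325187593756187144686108291562668556288, .ofNat 0, .ofNat 0, .ofNat 90199506410531073587632971942228488355840, .ofNat 0, .ofNat 0⟩)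
    (by decide +kernel)
theorem L00214 : Good (Phi V5.P V5.D (-1) (-1)) ⟨2, 0, 2, 1, 2, 1, 4, 15, 3, 3⟩ :=
  leafX_sound T5.ok_mm T5.Ymm.bz_eq (w := 204) (c := ⟨⟨.negSucc 980, .ofNat 24, .negSucc 21, .negSucc 160, .negSucc 0, .negSucc 43⟩, ⟨.ofNat 257, .negSucc 80, .ofNat 242, .ofNat 77, .ofNat 16, .ofNat 24⟩, ⟨.ofNat 607, .negSucc 38, .ofNat 153, .ofNat 440, .negSucc 102, .negSucc 15⟩, ⟨.negSucc 2961, .ofNat 333, .negSucc 51, .negSucc 474, .ofNat 19, .negSucc 104⟩, ⟨.ofNat 55, .ofNat 98, .negSucc 22, .ofNat 117, .ofNat 131, .ofNat 96⟩, .ofNat 192, .ofNat 18, .ofNat 0, .ofNat 18, .ofNat 231, .ofNat 0, .ofNat 252, .negSucc 18, .negSucc 132, .ofNat 0, .ofNat 128, .negSucc 28, .ofNat 0, .ofNat 0, .ofNat 566, .ofNat 9833, .ofNat 0, .ofNat 340225481169577863868963738269777920000, .ofNat 1700586418806838097033829759223595008, .ofNat 0, .ofNat 0, .ofNat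 12387057181475407414927987035574640836608, .ofNat 32784374697657122419162357329744101376, .ofNat 0, .ofNat 0, .ofNat 4362734487404266059308352950160882401280, .ofNat 0, .ofNat 0, .ofNat 0, .ofNat 10448357386476820866699926057678167605248, .ofNat 12851397150450646339662071069956636672, .ofNat 0⟩)
    (by decide +kernel)
theorem L00215 : Good (Phi V5.P V5.D (-1) (-1)) ⟨2, 0, 2, 1, 1, 0, 1, 1, 1, 1⟩ :=
  leafX_sound T5.ok_mm T5.Ymm.bz_eq (w := 170) (c := ⟨⟨.negSucc 946, .negSucc 104, .ofNat 0, .ofNat 0, .ofNat 0, .ofNat 0⟩, ⟨.ofNat 235, .negSucc 41, .ofNat 241, .ofNat 0, .ofNat 0, .ofNat 0⟩, ⟨.ofNat 249, .ofNat 105, .ofNat 0, .ofNat 0, .ofNat 0, .ofNat 0⟩, ⟨.negSucc 2876, .negSucc 46, .ofNat 0, .ofNat 1, .negSucc 0, .ofNat 1⟩, ⟨.ofNat 0, .ofNat 0, .ofNat 0, .ofNat 0, .ofNat 0, .ofNat 0⟩, .ofNat 192, .ofNat 18, .ofNat 0, .ofNat 18, .ofNat 231, .ofNat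 0, .ofNat 145, .negSucc 17, .negSucc 105, .ofNat 0, .ofNat 128, .ofNat 11, .ofNat 0, .ofNat 0, .ofNat 308, .ofNat 10658, .ofNat 2210889498233142578049822236868608, .ofNat 124423623499392675165910805250048, .ofNat 0, .ofNat 0, .ofNat 103641035612556933399114502748766208, .ofNat 4900044439501497971347412989509632, .ofNat 4820798310755489334427648, .ofNat 0, .ofNat 668470212682302897785411312025600000000, .ofNat 26387220509794947654248154174601560064, .ofNat 0, .ofNat 0, .ofNat 668470212682302897785411312025600000000, .ofNat 26387168831755893928682569709117243392, .ofNat 0, .ofNat 0⟩)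
    (by decide +kernel)
theorem L00216 : Good (Phi V5.P V5.D (-1) (-1)) ⟨2, 0, 2, 1, 2, 2, 3, 0, 4, 0⟩ :=
  leafX_sound T5.ok_mm T5.Ymm.bz_eq (w := 202) (c := ⟨⟨.ofNat 1026, .ofNat 101, .ofNat 103, .ofNat 247, .ofNat 61, .negSucc 1181⟩, ⟨.negSucc 381, .ofNat 28, .negSucc 155, .ofNat 12, .negSucc 4, .ofNat 374⟩, ⟨.negSucc 760, .ofNat 225, .negSucc 15, .ofNat 69, .negSucc 186, .ofNat 191⟩, ⟨.ofNat 2949, .negSucc 162, .ofNat 293, .ofNat 1285, .ofNat 329, .negSucc 3939⟩, ⟨.negSucc 678, .negSucc 765, .ofNat 357, .ofNat 1517, .ofNat 435, .negSucc 1036⟩, .ofNat 416, .ofNat 109, .ofNat 0, .ofNat 109, .ofNat 644, .ofNat 0, .ofNat 245, .negSucc 89, .negSucc 84, .ofNat 0, .ofNat 128, .ofNat 43, .ofNat 0, .ofNat 0, .ofNat 366, .ofNat 3550, .ofNat 0, .ofNat 0, .ofNat 0, .ofNat 0, .ofNat 0, .ofNat 0, .ofNat 0, .ofNat 0, .ofNat 0, .ofNat 0, .ofNat 0, .ofNat 0,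 .ofNat 0, .ofNat 0, .ofNat 0, .ofNat 0⟩)
    (by decide +kernel)
theorem L00217 : Good (Phi V5.P V5.D (-1) (-1)) ⟨2, 0, 2, 1, 2, 2, 3, 0, 4, 1⟩ :=
  leafX_sound T5.ok_mm T5.Ymm.bz_eq (w := 201) (c := ⟨⟨.negSucc 124, .negSucc 158, .ofNat 56, .ofNat 141, .ofNat 112, .negSucc 981⟩, ⟨.negSucc 114, .negSucc 3, .ofNat 188, .negSucc 9, .negSucc 38, .ofNat 314⟩, ⟨.negSucc 487, .ofNat 308, .negSucc 77, .negSucc 447, .ofNat 71, .ofNat 564⟩, ⟨.negSucc 780, .negSucc 426, .ofNat 76, .ofNat 574, .ofNat 505, .negSucc 2910⟩, ⟨.negSucc 1205, .negSucc 563, .ofNat 274, .ofNat 380, .ofNat 458, .negSucc 31⟩, .ofNat 416, .ofNat 108, .ofNat 0, .ofNat 108, .ofNat 641, .ofNat 0, .ofNat 209, .negSucc 87, .negSucc 34, .ofNat 0, .ofNat 128, .ofNat 19, .ofNat 0, .ofNat 0, .ofNat 138, .ofNat 3038, .ofNat 7043441700528075014002670777516217597952, .ofNat 0, .ofNat 0, .ofNat 0,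 .ofNat 0, .ofNat 0, .ofNat 0, .ofNat 0, .ofNat 0, .ofNat 0, .ofNat 0, .ofNat 0, .ofNat 4711036923245152419148308449817217990656, .ofNat 0, .ofNat 0, .ofNat 0⟩)
    (by decide +kernel)
theorem L00218 : Good (Phi V5.P V5.D (-1) (-1)) ⟨2, 0, 2, 1, 3, 6, 3, 0, 4, 0⟩ :=
  leafX_sound T5.ok_mm T5.Ymm.bz_eq (w := 216) (c := ⟨⟨.ofNat 1164, .ofNat 175, .ofNat 2, .negSucc 208, .ofNat 71, .negSucc 989⟩, ⟨.negSucc 135, .negSucc 164, .negSucc 209, .ofNat 166, .negSucc 3, .ofNat 212⟩, ⟨.negSucc 830, .ofNat 419, .ofNat 186, .ofNat 318, .negSucc 41, .negSucc 248⟩, ⟨.ofNat 3764, .negSucc 91, .ofNat 684, .ofNat 27, .ofNat 308, .negSucc 3432⟩, ⟨.ofNat 1235, .negSucc 1178, .ofNat 824, .ofNat 1726, .ofNat 257, .negSucc 1450⟩, .ofNat 665, .ofNat 344, .ofNat 0, .ofNat 344, .ofNat 1358, .ofNat 0, .ofNat 171, .negSucc 124, .negSucc 90, .ofNat 0, .ofNat 128, .ofNat 33, .ofNat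 0, .ofNat 0, .ofNat 372, .ofNat 3891, .ofNat 0, .ofNat 0, .ofNat 0, .ofNat 0, .ofNat 0, .ofNat 0, .ofNat 0, .ofNat 0, .ofNat 151872141200500313653561599650388916861665280, .ofNat 0, .ofNat 0, .ofNat 0, .ofNat 0, .ofNat 0, .ofNat 193119995477616172572764515357856083476480, .ofNat 0⟩)
    (by decide +kernel)
theorem L00219 : Good (Phi V5.P V5.D (-1) (-1)) ⟨2, 0, 2, 1, 3, 7, 3, 0, 4, 0⟩ :=
  leafX_sound T5.ok_mm T5.Ymm.bz_eq (w := 215) (c := ⟨⟨.ofNat 654, .ofNat 172, .ofNat 98, .negSucc 695, .ofNat 199, .negSucc 706⟩, ⟨.ofNat 213, .negSucc 259, .negSucc 185, .ofNat 248, .negSucc 102, .ofNat 132⟩, ⟨.negSucc 280, .ofNat 420, .ofNat 216, .ofNat 810, .negSucc 165, .negSucc 463⟩, ⟨.ofNat 2581, .ofNat 57, .ofNat 1200, .negSucc 1970, .ofNat 370, .negSucc 1883⟩, ⟨.ofNat 2652, .negSucc 752, .ofNat 983, .ofNat 282, .negSucc 439, .negSucc 264⟩, .ofNat 903, .ofNat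 691, .ofNat 0, .ofNat 691, .ofNat 2246, .ofNat 0, .ofNat 142, .negSucc 127, .negSucc 70, .ofNat 0, .ofNat 111, .ofNat 12, .ofNat 0, .ofNat 0, .ofNat 242, .ofNat 1178, .ofNat 0, .ofNat 0, .ofNat 0, .ofNat 0, .ofNat 0, .ofNat 0, .ofNat 0, .ofNat 0, .ofNat 0, .ofNat 0, .ofNat 0, .ofNat 0, .ofNat 0, .ofNat 0, .ofNat 125805691760001032036250735654154052567040, .ofNat 0⟩)
    (by decide +kernel)
theorem L00220 : Good (Phi V5.P V5.D (-1) (-1)) ⟨2, 0, 2, 1, 3, 6, 4, 0, 4, 1⟩ :=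
  leafX_sound T5.ok_mm T5.Ymm.bz_eq (w := 220) (c := ⟨⟨.ofNat 20, .negSucc 53, .ofNat 46, .negSucc 55, .ofNat 100, .negSucc 1100⟩, ⟨.negSucc 76, .negSucc 91, .ofNat 149, .ofNat 149, .negSucc 50, .ofNat 346⟩, ⟨.negSucc 896, .ofNat 466, .negSucc 117, .ofNat 196, .ofNat 37, .ofNat 482⟩, ⟨.ofNat 24, .negSucc 449, .ofNat 477, .ofNat 400, .ofNat 279, .negSucc 3489⟩, ⟨.negSucc 129, .negSucc 1144, .ofNat 761, .ofNat 1674, .negSucc 51, .negSucc 540⟩, .ofNat 416, .ofNat 110, .ofNat 0, .ofNat 110, .ofNat 647, .ofNat 0, .ofNat 134, .negSucc 99, .negSucc 79, .ofNat 0, .ofNat 128, .ofNat 34, .ofNat 0, .ofNat 0, .ofNat 257, .ofNat 7702, .ofNat 605372011942365984906917383319604808720056320, .ofNat 0, .ofNat 0, .ofNat 0, .ofNat 0, .ofNat 0, .ofNat 0, .ofNat 0, .ofNat 1016845078342445216513176818369532017353162752, .ofNat 0, .ofNat 0, .ofNat 0, .ofNat 1253586729501032293738517359790519499968479232,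 .ofNat 0, .ofNat 0, .ofNat 0⟩)
    (by decide +kernel)
theorem L00221 : Good (Phi V5.P V5.D (-1) (-1)) ⟨2, 0, 2, 1, 3, 7, 4, 0, 4, 1⟩ :=
  leafX_sound T5.ok_mm T5.Ymm.bz_eq (w := 219) (c := ⟨⟨.negSucc 262, .ofNat 1, .negSucc 19, .negSucc 317, .ofNat 120, .negSucc 810⟩, ⟨.ofNat 305, .negSucc 261, .ofNat 191, .ofNat 236, .negSucc 59, .ofNat 149⟩, ⟨.negSucc 530, .ofNat 599, .negSucc 108, .ofNat 199, .negSucc 78, .ofNat 349⟩, ⟨.negSucc 389, .negSucc 353, .ofNat 1053, .negSucc 398, .ofNat 276, .negSucc 2592⟩, ⟨.ofNat 1882, .negSucc 1399, .ofNat 1485, .ofNat 1733, .negSucc 212, .negSucc 833⟩, .ofNat 846, .ofNat 581, .ofNat 0, .ofNat 581, .ofNat 2118, .ofNat 0, .ofNat 128, .negSucc 245, .negSucc 109, .ofNat 0, .ofNat 231, .ofNat 14, .ofNat 0, .ofNat 0, .ofNat 429, .ofNat 1877, .ofNat 104760810535254785033626816130898136586518528, .ofNat 0, .ofNat 0, .ofNat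 0, .ofNat 0, .ofNat 0, .ofNat 5043922605155890642948603575431425758855168, .ofNat 0, .ofNat 0, .ofNat 0, .ofNat 0, .ofNat 0, .ofNat 0, .ofNat 0, .ofNat 0, .ofNat 0⟩)
    (by decide +kernel)
theorem L00222 : Good (Phi V5.P V5.D (-1) (-1)) ⟨2, 0, 2, 1, 2, 3, 4, 1, 4, 1⟩ :=
  leafX_sound T5.ok_mm T5.Ymm.bz_eq (w := 205) (c := ⟨⟨.ofNat 40, .ofNat 14, .ofNat 45, .negSucc 360, .ofNat 100, .negSucc 999⟩, ⟨.ofNat 10, .negSucc 181, .ofNat 125, .ofNat 387, .negSucc 50, .ofNat 247⟩, ⟨.negSucc 809, .ofNat 373, .negSucc 136, .ofNat 504, .ofNat 1, .ofNat 452⟩, ⟨.negSucc 170, .negSucc 154, .ofNat 731, .negSucc 147, .ofNat 276, .negSucc 2665⟩, ⟨.ofNat 57, .negSucc 931, .ofNat 809, .ofNat 2531, .negSucc 78, .negSucc 174⟩, .ofNat 1024, .ofNat 905, .ofNat 0, .ofNat 905, .ofNat 2783, .ofNat 0, .ofNat 128, .negSucc 159, .negSucc 71, .ofNat 0, .ofNat 137, .ofNat 26, .ofNat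 0, .ofNat 0, .ofNat 249, .ofNat 1328, .ofNat 0, .ofNat 0, .ofNat 0, .ofNat 0, .ofNat 0, .ofNat 0, .ofNat 0, .ofNat 0, .ofNat 0, .ofNat 0, .ofNat 0, .ofNat 0, .ofNat 0, .ofNat 0, .ofNat 216846709902235677906884654825251799040, .ofNat 0⟩)
    (by decide +kernel)
theorem L00223 : Good (Phi V5.P V5.D (-1) (-1)) ⟨2, 0, 2, 1, 2, 2, 3, 1, 3, 0⟩ :=
  leafX_sound T5.ok_mm T5.Ymm.bz_eq (w := 197) (c := ⟨⟨.ofNat 1102, .ofNat 28, .ofNat 107, .ofNat 146, .ofNat 39, .negSucc 2165⟩, ⟨.negSucc 447, .ofNat 64, .ofNat 39, .ofNat 47, .ofNat 38, .ofNat 620⟩, ⟨.negSucc 955, .ofNat 176, .negSucc 26, .negSucc 49, .ofNat 85, .ofNat 837⟩, ⟨.ofNat 3284, .negSucc 207, .ofNat 314, .ofNat 672, .ofNat 170, .negSucc 6719⟩, ⟨.negSucc 71, .negSucc 515, .ofNat 275, .ofNat 923, .ofNat 321, .negSucc 1305⟩, .ofNat 655, .ofNat 315, .ofNat 0, .ofNat 315, .ofNat 1310, .ofNat 0, .ofNat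 205, .negSucc 113, .negSucc 81, .ofNat 0, .ofNat 128, .ofNat 38, .ofNat 0, .ofNat 0, .ofNat 315, .ofNat 1663, .ofNat 0, .ofNat 0, .ofNat 0, .ofNat 0, .ofNat 0, .ofNat 0, .ofNat 0, .ofNat 0, .ofNat 0, .ofNat 0, .ofNat 0, .ofNat 0, .ofNat 0, .ofNat 0, .ofNat 0, .ofNat 0⟩)
    (by decide +kernel)
theorem L00224 : Good (Phi V5.P V5.D (-1) (-1)) ⟨2, 0, 2, 1, 2, 3, 3, 1, 3, 0⟩ :=
  leafX_sound T5.ok_mm T5.Ymm.bz_eq (w := 196) (c := ⟨⟨.ofNat 1060, .ofNat 157, .ofNat 101, .negSucc 464, .ofNat 63, .negSucc 1944⟩, ⟨.negSucc 163, .negSucc 140, .negSucc 41, .ofNat 326, .negSucc 31, .ofNat 431⟩, ⟨.negSucc 795, .ofNat 133, .ofNat 42, .ofNat 712, .ofNat 55, .ofNat 343⟩, ⟨.ofNat 3064, .ofNat 76, .ofNat 795, .negSucc 497, .ofNat 180, .negSucc 5586⟩, ⟨.ofNat 764, .negSucc 730, .ofNat 899, .ofNat 2347, .negSucc 101, .negSucc 1227⟩, .ofNat 903, .ofNat 691, .ofNat 0,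 .ofNat 691, .ofNat 2246, .ofNat 0, .ofNat 172, .negSucc 127, .negSucc 94, .ofNat 0, .ofNat 112, .ofNat 35, .ofNat 0, .ofNat 0, .ofNat 286, .ofNat 714, .ofNat 0, .ofNat 0, .ofNat 0, .ofNat 0, .ofNat 0, .ofNat 0, .ofNat 0, .ofNat 0, .ofNat 0, .ofNat 0, .ofNat 0, .ofNat 0, .ofNat 0, .ofNat 0, .ofNat 60296843058401708623854766770880512, .ofNat 0⟩)
    (by decide +kernel)
theorem L00225 : Good (Phi V5.P V5.D (-1) (-1)) ⟨2, 0, 2, 1, 1, 1, 2, 1, 3, 0⟩ :=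
  leafX_sound T5.ok_mm T5.Ymm.bz_eq (w := 178) (c := ⟨⟨.ofNat 1078, .ofNat 40, .ofNat 28, .negSucc 164, .negSucc 146, .negSucc 1863⟩, ⟨.negSucc 212, .negSucc 162, .negSucc 83, .ofNat 226, .ofNat 44, .ofNat 437⟩, ⟨.negSucc 1054, .ofNat 91, .ofNat 77, .ofNat 730, .ofNat 289, .ofNat 608⟩, ⟨.ofNat 3337, .negSucc 111, .ofNat 330, .ofNat 123, .negSucc 583, .negSucc 5814⟩, ⟨.ofNat 630, .negSucc 493, .ofNat 365, .ofNat 1791, .negSucc 248, .negSucc 1583⟩, .ofNat 655, .ofNat 318, .ofNat 0, .ofNat 318, .ofNat 1321, .ofNat 0, .ofNat 201, .negSucc 103, .negSucc 118, .ofNat 0, .ofNat 128, .ofNat 44, .ofNat 0, .ofNat 0, .ofNat 326, .ofNat 353, .ofNat 0, .ofNat 0, .ofNat 0, .ofNat 0, .ofNat 0, .ofNat 0, .ofNat 517706554469322878547436503040, .ofNat 0, .ofNat 0, .ofNat 0, .ofNat 0, .ofNat 0, .ofNat 0, .ofNat 0, .ofNat 0, .ofNat 0⟩)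
    (by decide +kernel)
theorem L00226 : Good (Phi V5.P V5.D (-1) (-1)) ⟨2, 0, 2, 1, 2, 2, 4, 0, 4, 2⟩ :=
  leafX_sound T5.ok_mm T5.Ymm.bz_eq (w := 208) (c := ⟨⟨.negSucc 999, .negSucc 183, .ofNat 42, .ofNat 21, .ofNat 24, .negSucc 378⟩, ⟨.ofNat 103, .negSucc 11, .ofNat 335, .ofNat 20, .negSucc 5, .ofNat 143⟩, ⟨.ofNat 158, .ofNat 322, .negSucc 68, .negSucc 414, .negSucc 79, .ofNat 531⟩, ⟨.negSucc 3253, .negSucc 296, .negSucc 40, .ofNat 123, .ofNat 15, .negSucc 1009⟩, ⟨.negSucc 939, .negSucc 373, .ofNat 136, .ofNat 187, .negSucc 18, .ofNat 187⟩, .ofNat 671, .ofNat 349, .ofNat 0, .ofNat 349, .ofNat 1350, .ofNat 0, .ofNat 128, .negSucc 126, .negSucc 39, .ofNat 0, .ofNat 138, .ofNat 24, .ofNat 0, .ofNat 0, .ofNat 279, .ofNat 27594, .ofNat 392396701578557371335971777055353720537088, .ofNat 0, .ofNat 19085118245345674799411984055960338432, .ofNat 0, .ofNat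 152978891294612779733447512326347457298432, .ofNat 0, .ofNat 0, .ofNat 0, .ofNat 0, .ofNat 0, .ofNat 0, .ofNat 0, .ofNat 251508750851854671258405148577109920186368, .ofNat 0, .ofNat 0, .ofNat 0⟩)
    (by decide +kernel)
theorem L00227 : Good (Phi V5.P V5.D (-1) (-1)) ⟨2, 0, 2, 1, 2, 2, 4, 1, 4, 2⟩ :=
  leafX_sound T5.ok_mm T5.Ymm.bz_eq (w := 207) (c := ⟨⟨.negSucc 979, .negSucc 183, .ofNat 35, .negSucc 3, .ofNat 42, .negSucc 315⟩, ⟨.ofNat 120, .negSucc 20, .ofNat 327, .ofNat 17, .negSucc 3, .ofNat 107⟩, ⟨.ofNat 97, .ofNat 262, .negSucc 67, .negSucc 347, .ofNat 25, .ofNat 458⟩, ⟨.negSucc 3214, .negSucc 282, .negSucc 75, .ofNat 59, .ofNat 148, .negSucc 894⟩, ⟨.negSucc 866, .negSucc 320, .ofNat 96, .ofNat 135, .ofNat 100, .ofNat 25⟩, .ofNat 667, .ofNat 350, .ofNat 0, .ofNat 350, .ofNat 1364, .ofNat 0, .ofNat 249, .negSucc 115, .negSucc 48, .ofNat 0,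 .ofNat 128, .ofNat 26, .ofNat 0, .ofNat 0, .ofNat 280, .ofNat 10588, .ofNat 0, .ofNat 0, .ofNat 0, .ofNat 0, .ofNat 0, .ofNat 0, .ofNat 0, .ofNat 0, .ofNat 0, .ofNat 0, .ofNat 0, .ofNat 0, .ofNat 0, .ofNat 0, .ofNat 0, .ofNat 0⟩)
    (by decide +kernel)
theorem L00228 : Good (Phi V5.P V5.D (-1) (-1)) ⟨2, 0, 2, 1, 2, 2, 3, 1, 4, 2⟩ :=
  leafX_sound T5.ok_mm T5.Ymm.bz_eq (w := 203) (c := ⟨⟨.negSucc 960, .negSucc 163, .ofNat 54, .ofNat 17, .ofNat 60, .negSucc 332⟩, ⟨.ofNat 131, .negSucc 31, .ofNat 319, .ofNat 7, .negSucc 9, .ofNat 107⟩, ⟨.ofNat 126, .ofNat 201, .negSucc 38, .negSucc 291, .ofNat 79, .ofNat 421⟩, ⟨.negSucc 3157, .negSucc 212, .ofNat 70, .ofNat 127, .ofNat 203, .negSucc 960⟩, ⟨.negSucc 764, .negSucc 287, .ofNat 214, .ofNat 140, .ofNat 127, .negSucc 36⟩, .ofNat 671, .ofNat 349, .ofNat 0, .ofNat 349, .ofNat 1350, .ofNat 0, .ofNat 219, .negSucc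 114, .negSucc 63, .ofNat 0, .ofNat 128, .ofNat 33, .ofNat 0, .ofNat 0, .ofNat 312, .ofNat 6462, .ofNat 0, .ofNat 0, .ofNat 0, .ofNat 0, .ofNat 0, .ofNat 0, .ofNat 0, .ofNat 0, .ofNat 0, .ofNat 0, .ofNat 0, .ofNat 0, .ofNat 0, .ofNat 0, .ofNat 0, .ofNat 0⟩)
    (by decide +kernel)
theorem L00229 : Good (Phi V5.P V5.D (-1) (-1)) ⟨3, 0, 2, 1, 2, 2, 2, 0, 4, 3⟩ :=
  leafX_sound T5.ok_mm T5.Ymm.bz_eq (w := 203) (c := ⟨⟨.negSucc 1282, .negSucc 35, .ofNat 26, .negSucc 28, .ofNat 61, .negSucc 24⟩, ⟨.ofNat 225, .negSucc 40, .ofNat 351, .ofNat 14, .ofNat 0, .ofNat 15⟩, ⟨.ofNat 526, .ofNat 30, .negSucc 22, .negSucc 282, .ofNat 129, .ofNat 255⟩, ⟨.negSucc 4077, .negSucc 32, .negSucc 55, .negSucc 38, .ofNat 233, .negSucc 41⟩, ⟨.negSucc 798, .negSucc 109, .ofNat 77, .ofNat 55, .ofNat 206, .ofNat 51⟩, .ofNat 916, .ofNat 658, .ofNat 0, .ofNat 658, .ofNat 2015, .ofNat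 0, .ofNat 128, .negSucc 121, .negSucc 36, .ofNat 0, .ofNat 128, .ofNat 21, .ofNat 0, .ofNat 0, .ofNat 296, .ofNat 7645, .ofNat 12113612930074628981981743653396370423808, .ofNat 0, .ofNat 0, .ofNat 0, .ofNat 0, .ofNat 0, .ofNat 0, .ofNat 0, .ofNat 143667340505672317093898575790305057964032, .ofNat 0, .ofNat 0, .ofNat 0, .ofNat 89881422081165430086648827950085384962048, .ofNat 0, .ofNat 0, .ofNat 0⟩)
    (by decide +kernel)
theorem L00230 : Good (Phi V5.P V5.D (-1) (-1)) ⟨3, 1, 2, 1, 2, 2, 2, 0, 4, 3⟩ :=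
  leafX_sound T5.ok_mm T5.Ymm.bz_eq (w := 204) (c := ⟨⟨.negSucc 1366, .negSucc 121, .ofNat 37, .ofNat 17, .ofNat 86, .negSucc 11⟩, ⟨.ofNat 200, .ofNat 12, .ofNat 360, .negSucc 10, .negSucc 8, .ofNat 10⟩, ⟨.ofNat 650, .ofNat 128, .negSucc 48, .negSucc 273, .ofNat 22, .ofNat 247⟩, ⟨.negSucc 4214, .negSucc 95, .negSucc 60, .ofNat 37, .ofNat 303, .negSucc 27⟩, ⟨.negSucc 908, .negSucc 62, .ofNat 52, .negSucc 50, .ofNat 242, .ofNat 41⟩, .ofNat 900, .ofNat 781, .ofNat 0, .ofNat 781, .ofNat 2690, .ofNat 0, .ofNat 174, .negSucc 127, .negSucc 48, .ofNat 0, .ofNat 109, .ofNat 23, .ofNat 0, .ofNat 0, .ofNat 396, .ofNat 10702, .ofNat 10289671220469610148155214948412698918912, .ofNat 0, .ofNat 27182676104937198209988970493771776, .ofNat 0, .ofNat 0, .ofNat 0, .ofNat 0, .ofNat 0, .ofNat 124379540871512263769371599916129274822656, .ofNat 0, .ofNat 0, .ofNat 0, .ofNat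 115089585211399014618859490071680240320512, .ofNat 0, .ofNat 0, .ofNat 0⟩)
    (by decide +kernel)
theorem L00231 : Good (Phi V5.P V5.D (-1) (-1)) ⟨3, 0, 2, 1, 2, 3, 5, 0, 5, 4⟩ :=
  leafX_sound T5.ok_mm T5.Ymm.bz_eq (w := 221) (c := ⟨⟨.negSucc 992, .ofNat 20, .negSucc 127, .negSucc 238, .ofNat 46, .negSucc 155⟩, ⟨.ofNat 222, .negSucc 132, .ofNat 363, .ofNat 410, .negSucc 27, .ofNat 4⟩, ⟨.negSucc 361, .ofNat 224, .negSucc 101, .ofNat 288, .ofNat 46, .ofNat 237⟩, ⟨.negSucc 3298, .negSucc 67, .ofNat 345, .ofNat 773, .ofNat 68, .negSucc 708⟩, ⟨.negSucc 526, .negSucc 517, .ofNat 1222, .ofNat 3703, .negSucc 229, .negSucc 619⟩, .ofNat 972, .ofNat 745, .ofNat 0, .ofNat 745, .ofNat 2252, .ofNat 0, .ofNat 128, .negSucc 229, .negSucc 125, .ofNat 0, .ofNat 230, .ofNat 41, .ofNat 0, .ofNat 0, .ofNat 603, .ofNat 15895, .ofNat 340031773321905163852395625459182426992410624,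 .ofNat 0, .ofNat 0, .ofNat 0, .ofNat 138048000173802201857258164673321738547757056, .ofNat 0, .ofNat 0, .ofNat 0, .ofNat 0, .ofNat 0, .ofNat 0, .ofNat 0, .ofNat 0, .ofNat 0, .ofNat 0, .ofNat 0⟩)
    (by decide +kernel)
theorem L00232 : Good (Phi V5.P V5.D (-1) (-1)) ⟨3, 0, 2, 1, 2, 3, 5, 1, 5, 4⟩ :=
  leafX_sound T5.ok_mm T5.Ymm.bz_eq (w := 220) (c := ⟨⟨.negSucc 964, .ofNat 30, .negSucc 99, .negSucc 217, .ofNat 38, .negSucc 201⟩, ⟨.ofNat 193, .negSucc 125, .ofNat 365, .ofNat 377, .negSucc 29, .ofNat 46⟩, ⟨.negSucc 284, .ofNat 217, .negSucc 96, .ofNat 235, .ofNat 17, .ofNat 236⟩, ⟨.negSucc 3140, .negSucc 150, .ofNat 380, .ofNat 556, .ofNat 19, .negSucc 728⟩, ⟨.negSucc 516, .negSucc 616, .ofNat 1124, .ofNat 3188, .negSucc 205, .negSucc 294⟩, .ofNat 974, .ofNat 749, .ofNat 0, .ofNat 749, .ofNat 2254, .ofNat 0, .ofNat 128, .negSucc 203, .negSucc 96,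 .ofNat 0, .ofNat 202, .ofNat 32, .ofNat 0, .ofNat 0, .ofNat 458, .ofNat 10022, .ofNat 103215551540088229632266767687322813910220800, .ofNat 0, .ofNat 0, .ofNat 0, .ofNat 0, .ofNat 0, .ofNat 0, .ofNat 0, .ofNat 0, .ofNat 0, .ofNat 0, .ofNat 0, .ofNat 0, .ofNat 0, .ofNat 0, .ofNat 0⟩)
    (by decide +kernel)
theorem L00233 : Good (Phi V5.P V5.D (-1) (-1)) ⟨3, 0, 2, 1, 2, 3, 4, 1, 5, 4⟩ :=
  leafX_sound T5.ok_mm T5.Ymm.bz_eq (w := 215) (c := ⟨⟨.negSucc 942, .ofNat 20, .negSucc 35, .negSucc 210, .ofNat 50, .negSucc 245⟩, ⟨.ofNat 201, .negSucc 112, .ofNat 312, .ofNat 322, .negSucc 29, .ofNat 76⟩, ⟨.negSucc 260, .ofNat 176, .negSucc 80, .ofNat 267, .ofNat 25, .ofNat 244⟩, ⟨.negSucc 3096, .ofNat 67, .ofNat 366, .ofNat 432, .ofNat 67, .negSucc 720⟩, ⟨.negSucc 479, .negSucc 190, .ofNat 851, .ofNat 2645, .negSucc 212, .negSucc 152⟩, .ofNat 1055, .ofNat 886,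 .ofNat 0, .ofNat 886, .ofNat 2499, .ofNat 0, .ofNat 128, .negSucc 148, .negSucc 57, .ofNat 0, .ofNat 141, .ofNat 23, .ofNat 0, .ofNat 0, .ofNat 252, .ofNat 2603, .ofNat 0, .ofNat 0, .ofNat 0, .ofNat 0, .ofNat 0, .ofNat 0, .ofNat 0, .ofNat 0, .ofNat 0, .ofNat 0, .ofNat 0, .ofNat 0, .ofNat 0, .ofNat 0, .ofNat 0, .ofNat 0⟩)
    (by decide +kernel)
theorem L00234 : Good (Phi V5.P V5.D (-1) (-1)) ⟨3, 1, 2, 1, 2, 3, 5, 0, 5, 4⟩ :=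
  leafX_sound T5.ok_mm T5.Ymm.bz_eq (w := 221) (c := ⟨⟨.negSucc 1034, .negSucc 75, .negSucc 26, .negSucc 171, .ofNat 40, .negSucc 169⟩, ⟨.ofNat 172, .negSucc 78, .ofNat 336, .ofNat 245, .negSucc 22, .ofNat 9⟩, ⟨.negSucc 83, .ofNat 287, .negSucc 77, .ofNat 356, .negSucc 7, .ofNat 208⟩, ⟨.negSucc 3355, .negSucc 195, .ofNat 330, .ofNat 278, .ofNat 84, .negSucc 505⟩, ⟨.negSucc 885, .negSucc 570, .ofNat 946, .ofNat 2669, .negSucc 68, .negSucc 341⟩, .ofNat 826, .ofNat 613, .ofNat 0, .ofNat 613, .ofNat 2440, .ofNat 0, .ofNat 128, .negSucc 185, .negSucc 80, .ofNat 0, .ofNat 171, .ofNat 21, .ofNat 0, .ofNat 0, .ofNat 385, .ofNat 25929, .ofNat 552214256648819642245991054822320615704231936, .ofNat 0, .ofNat 0, .ofNat 0, .ofNat 345358256642610205389211953759431596588400640, .ofNat 0, .ofNat 4595920060371967488906312224034187640832, .ofNat 0, .ofNat 0, .ofNat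 0, .ofNat 0, .ofNat 0, .ofNat 0, .ofNat 0, .ofNat 171041797558972381221787288557138244272128, .ofNat 0⟩)
    (by decide +kernel)
theorem L00235 : Good (Phi V5.P V5.D (-1) (-1)) ⟨3, 1, 2, 1, 2, 3, 5, 1, 5, 4⟩ :=
  leafX_sound T5.ok_mm T5.Ymm.bz_eq (w := 220) (c := ⟨⟨.negSucc 1012, .negSucc 80, .negSucc 15, .negSucc 130, .ofNat 15, .negSucc 196⟩, ⟨.ofNat 157, .negSucc 60, .ofNat 331, .ofNat 207, .negSucc 3, .ofNat 31⟩, ⟨.negSucc 79, .ofNat 266, .negSucc 54, .ofNat 363, .negSucc 39, .ofNat 232⟩, ⟨.negSucc 3218, .negSucc 175, .ofNat 376, .ofNat 219, .ofNat 55, .negSucc 616⟩, ⟨.negSucc 765, .negSucc 405, .ofNat 902, .ofNat 2161, .ofNat 36, .negSucc 256⟩, .ofNat 900, .ofNat 781, .ofNat 0, .ofNat 781, .ofNat 2690, .ofNat 0, .ofNat 128, .negSucc 203, .negSucc 72, .ofNat 0, .ofNat 173, .ofNat 25, .ofNat 0, .ofNat 0, .ofNat 312, .ofNat 10261, .ofNat 120515317269612558820462345070077439119458304,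 .ofNat 0, .ofNat 811036994113051209801521448305138073600, .ofNat 0, .ofNat 0, .ofNat 0, .ofNat 0, .ofNat 0, .ofNat 0, .ofNat 0, .ofNat 0, .ofNat 0, .ofNat 0, .ofNat 0, .ofNat 34238235096395664134521136982193325735936, .ofNat 0⟩)
    (by decide +kernel)
theorem L00236 : Good (Phi V5.P V5.D (-1) (-1)) ⟨3, 1, 2, 1, 2, 3, 4, 1, 5, 4⟩ :=
  leafX_sound T5.ok_mm T5.Ymm.bz_eq (w := 215) (c := ⟨⟨.negSucc 970, .negSucc 103, .ofNat 29, .negSucc 98, .ofNat 47, .negSucc 245⟩, ⟨.ofNat 129, .negSucc 30, .ofNat 311, .ofNat 179, .negSucc 8, .ofNat 55⟩, ⟨.negSucc 86, .ofNat 236, .negSucc 88, .ofNat 365, .negSucc 29, .ofNat 235⟩, ⟨.negSucc 3131, .negSucc 184, .ofNat 327, .ofNat 291, .ofNat 143, .negSucc 707⟩, ⟨.negSucc 868, .negSucc 307, .ofNat 701, .ofNat 2021, .ofNat 14, .negSucc 131⟩, .ofNat 825, .ofNat 607, .ofNat 0, .ofNat 607, .ofNat 2422, .ofNat 0, .ofNat 128,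 .negSucc 148, .negSucc 65, .ofNat 0, .ofNat 138, .ofNat 20, .ofNat 0, .ofNat 0, .ofNat 277, .ofNat 5362, .ofNat 0, .ofNat 0, .ofNat 0, .ofNat 0, .ofNat 0, .ofNat 0, .ofNat 0, .ofNat 0, .ofNat 0, .ofNat 0, .ofNat 1393328835864323417641547167058202984448, .ofNat 0, .ofNat 0, .ofNat 0, .ofNat 3526123228809144609716281086705252958208, .ofNat 0⟩)
    (by decide +kernel)
theorem L00237 : Good (Phi V5.P V5.D (-1) (-1)) ⟨2, 0, 2, 1, 3, 6, 4, 0, 5, 5⟩ :=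
  leafX_sound T5.ok_mm T5.Ymm.bz_eq (w := 228) (c := ⟨⟨.negSucc 1264, .negSucc 111, .negSucc 31, .ofNat 27, .ofNat 52, .negSucc 82⟩, ⟨.ofNat 286, .negSucc 98, .ofNat 384, .ofNat 51, .negSucc 39, .ofNat 15⟩, ⟨.negSucc 27, .ofNat 414, .negSucc 95, .ofNat 120, .ofNat 18, .ofNat 192⟩, ⟨.negSucc 3862, .negSucc 207, .negSucc 0, .ofNat 329, .ofNat 107, .negSucc 306⟩, ⟨.negSucc 308, .negSucc 566, .ofNat 481, .ofNat 685, .negSucc 146, .negSucc 167⟩, .ofNat 866, .ofNat 630, .ofNat 0, .ofNat 630, .ofNat 2196, .ofNat 0, .ofNat 128, .negSucc 224, .negSucc 55, .ofNat 0, .ofNat 224, .ofNat 24, .ofNat 0, .ofNat 0, .ofNat 323, .ofNat 36106, .ofNat 16163386098461823072360414401263250671835021312, .ofNat 0, .ofNat 25991695581080328012849602839708361367224320, .ofNat 0, .ofNat 5951865836037504464756006521988009299604930560, .ofNat 0, .ofNat 0, .ofNat 0, .ofNat 0, .ofNat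 0, .ofNat 0, .ofNat 0, .ofNat 29739596496103786618985491814394554974746968064, .ofNat 0, .ofNat 0, .ofNat 0⟩)
    (by decide +kernel)
theorem L00238 : Good (Phi V5.P V5.D (-1) (-1)) ⟨2, 0, 2, 1, 3, 6, 4, 1, 5, 5⟩ :=
  leafX_sound T5.ok_mm T5.Ymm.bz_eq (w := 227) (c := ⟨⟨.negSucc 1179, .negSucc 108, .negSucc 37, .negSucc 1, .ofNat 25, .negSucc 100⟩, ⟨.ofNat 238, .negSucc 91, .ofNat 378, .ofNat 55, .negSucc 4, .ofNat 23⟩, ⟨.negSucc 5, .ofNat 353, .negSucc 77, .ofNat 130, .ofNat 19, .ofNat 202⟩, ⟨.negSucc 3806, .negSucc 161, .ofNat 118, .ofNat 309, .ofNat 62, .negSucc 321⟩, ⟨.negSucc 565, .negSucc 593, .ofNat 610, .ofNat 765, .negSucc 15, .negSucc 106⟩, .ofNat 671, .ofNat 349, .ofNat 0, .ofNat 349, .ofNat 1350, .ofNat 0, .ofNat 128, .negSucc 178, .negSucc 74, .ofNat 0, .ofNat 207, .ofNat 35, .ofNat 0, .ofNat 0, .ofNat 378, .ofNat 19258, .ofNat 0, .ofNat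 0, .ofNat 0, .ofNat 0, .ofNat 0, .ofNat 0, .ofNat 0, .ofNat 0, .ofNat 0, .ofNat 0, .ofNat 0, .ofNat 0, .ofNat 0, .ofNat 0, .ofNat 0, .ofNat 0⟩)
    (by decide +kernel)
theorem L00239 : Good (Phi V5.P V5.D (-1) (-1)) ⟨2, 0, 2, 1, 3, 7, 3, 0, 5, 5⟩ :=
  leafX_sound T5.ok_mm T5.Ymm.bz_eq (w := 221) (c := ⟨⟨.negSucc 1253, .negSucc 26, .negSucc 103, .negSucc 78, .ofNat 61, .negSucc 47⟩, ⟨.ofNat 395, .negSucc 207, .ofNat 396, .ofNat 136, .negSucc 40, .negSucc 7⟩, ⟨.ofNat 183, .ofNat 393, .negSucc 80, .ofNat 25, .ofNat 4, .ofNat 139⟩, ⟨.negSucc 3518, .negSucc 180, .ofNat 335, .ofNat 347, .negSucc 29, .negSucc 362⟩, ⟨.ofNat 700, .negSucc 1028, .ofNat 1154, .ofNat 1252, .negSucc 264, .negSucc 467⟩, .ofNat 991, .ofNat 855, .ofNat 0, .ofNat 855, .ofNat 2749, .ofNat 0, .ofNat 128, .negSucc 233, .negSucc 77, .ofNat 0, .ofNat 237, .ofNat 18, .ofNat 0, .ofNat 0,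 .ofNat 408, .ofNat 2753, .ofNat 0, .ofNat 0, .ofNat 0, .ofNat 0, .ofNat 0, .ofNat 0, .ofNat 3633239690889499887718432451674917767741440, .ofNat 0, .ofNat 0, .ofNat 0, .ofNat 0, .ofNat 0, .ofNat 0, .ofNat 0, .ofNat 0, .ofNat 0⟩)
    (by decide +kernel)
theorem L00240 : Good (Phi V5.P V5.D (-1) (-1)) ⟨2, 0, 2, 1, 2, 3, 3, 1, 4, 2⟩ :=
  leafX_sound T5.ok_mm T5.Ymm.bz_eq (w := 201) (c := ⟨⟨.negSucc 940, .negSucc 101, .negSucc 35, .negSucc 67, .ofNat 69, .negSucc 318⟩, ⟨.ofNat 188, .negSucc 94, .ofNat 358, .ofNat 146, .negSucc 34, .ofNat 74⟩, ⟨.negSucc 153, .ofNat 273, .negSucc 32, .ofNat 238, .ofNat 26, .ofNat 392⟩, ⟨.negSucc 2948, .negSucc 169, .ofNat 219, .ofNat 263, .ofNat 3, .negSucc 974⟩, ⟨.negSucc 246, .negSucc 444, .ofNat 778, .ofNat 1225, .negSucc 263, .negSucc 321⟩, .ofNat 963, .ofNat 798, .ofNat 0, .ofNat 798, .ofNat 2665, .ofNat 0, .ofNat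 129, .negSucc 127, .negSucc 41, .ofNat 0, .ofNat 125, .ofNat 14, .ofNat 0, .ofNat 0, .ofNat 182, .ofNat 893, .ofNat 0, .ofNat 0, .ofNat 0, .ofNat 0, .ofNat 0, .ofNat 0, .ofNat 0, .ofNat 0, .ofNat 0, .ofNat 0, .ofNat 0, .ofNat 0, .ofNat 0, .ofNat 0, .ofNat 6962817285235608672839272603787984896, .ofNat 0⟩)
    (by decide +kernel)
theorem L00241 : Good (Phi V5.P V5.D (-1) (-1)) ⟨2, 0, 2, 1, 2, 3, 3, 0, 4, 3⟩ :=
  leafX_sound T5.ok_mm T5.Ymm.bz_eq (w := 202) (c := ⟨⟨.negSucc 1350, .negSucc 84, .negSucc 34, .ofNat 50, .ofNat 53, .ofNat 33⟩, ⟨.ofNat 296, .negSucc 99, .ofNat 384, .ofNat 85, .negSucc 29, .negSucc 29⟩, ⟨.ofNat 289, .ofNat 306, .negSucc 58, .ofNat 152, .negSucc 25, .ofNat 223⟩, ⟨.negSucc 4159, .negSucc 30, .ofNat 18, .ofNat 539, .ofNat 18, .ofNat 48⟩, ⟨.negSucc 470, .negSucc 434, .ofNat 476, .ofNat 1150, .negSucc 125, .negSucc 222⟩, .ofNat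 887, .ofNat 676, .ofNat 0, .ofNat 676, .ofNat 2265, .ofNat 0, .ofNat 128, .negSucc 187, .negSucc 48, .ofNat 0, .ofNat 202, .ofNat 17, .ofNat 0, .ofNat 0, .ofNat 390, .ofNat 4736, .ofNat 3486806594629869608507638408425842409472, .ofNat 0, .ofNat 0, .ofNat 0, .ofNat 0, .ofNat 0, .ofNat 0, .ofNat 0, .ofNat 0, .ofNat 0, .ofNat 0, .ofNat 0, .ofNat 0, .ofNat 0, .ofNat 20961907712285070962236162031776432128, .ofNat 0⟩)
    (by decide +kernel)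
theorem L00242 : Good (Phi V5.P V5.D (-1) (-1)) ⟨2, 0, 2, 1, 2, 3, 3, 1, 4, 3⟩ :=
  leafX_sound T5.ok_mm T5.Ymm.bz_eq (w := 202) (c := ⟨⟨.negSucc 1306, .negSucc 67, .negSucc 9, .ofNat 13, .ofNat 28, .ofNat 29⟩, ⟨.ofNat 281, .negSucc 100, .ofNat 370, .ofNat 78, .negSucc 5, .negSucc 30⟩, ⟨.ofNat 321, .ofNat 185, .negSucc 26, .ofNat 142, .ofNat 33, .ofNat 219⟩, ⟨.negSucc 4052, .ofNat 11, .ofNat 46, .ofNat 394, .ofNat 44, .negSucc 25⟩, ⟨.negSucc 459, .negSucc 451, .ofNat 437, .ofNat 967, .ofNat 4, .negSucc 246⟩, .ofNat 782, .ofNat 500, .ofNat 0, .ofNat 500, .ofNat 1797, .ofNat 0, .ofNat 128, .negSucc 170, .negSucc 48, .ofNat 0, .ofNat 201, .ofNat 16, .ofNat 0, .ofNat 0, .ofNat 357, .ofNat 3568, .ofNat 0, .ofNat 0, .ofNat 0, .ofNat 0, .ofNat 0, .ofNat 0, .ofNat 0, .ofNat 0, .ofNat 0, .ofNat 0, .ofNat 0, .ofNat 0, .ofNat 0, .ofNat 0, .ofNat 24432660992542777707624393812016627712,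 .ofNat 0⟩)
    (by decide +kernel)
theorem L00243 : Good (Phi V5.P V5.D (-1) (-1)) ⟨2, 0, 2, 1, 1, 1, 2, 1, 4, 2⟩ :=
  leafX_sound T5.ok_mm T5.Ymm.bz_eq (w := 182) (c := ⟨⟨.negSucc 867, .negSucc 116, .ofNat 52, .negSucc 58, .ofNat 64, .negSucc 357⟩, ⟨.ofNat 131, .negSucc 65, .ofNat 288, .ofNat 99, .negSucc 5, .ofNat 109⟩, ⟨.ofNat 45, .ofNat 113, .ofNat 4, .ofNat 42, .ofNat 155, .ofNat 396⟩, ⟨.negSucc 2780, .negSucc 269, .ofNat 97, .ofNat 188, .ofNat 263, .negSucc 1051⟩, ⟨.negSucc 545, .negSucc 411, .ofNat 219, .ofNat 882, .ofNat 207, .negSucc 189⟩, .ofNat 668, .ofNat 351, .ofNat 0, .ofNat 351, .ofNat 1361, .ofNat 0, .ofNat 128, .negSucc 112, .negSucc 69, .ofNat 0, .ofNat 133, .ofNat 27, .ofNat 0, .ofNat 0, .ofNat 264, .ofNat 592, .ofNat 0, .ofNat 0, .ofNat 0, .ofNat 0, .ofNat 0, .ofNat 0, .ofNat 19926026848898275046721023115264, .ofNat 0, .ofNat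 0, .ofNat 0, .ofNat 0, .ofNat 0, .ofNat 0, .ofNat 0, .ofNat 0, .ofNat 0⟩)
    (by decide +kernel)
theorem L00244 : Good (Phi V5.P V5.D (-1) (-1)) ⟨2, 0, 2, 1, 2, 2, 2, 1, 4, 3⟩ :=
  leafX_sound T5.ok_mm T5.Ymm.bz_eq (w := 199) (c := ⟨⟨.negSucc 1224, .negSucc 127, .ofNat 56, .negSucc 25, .ofNat 70, .negSucc 21⟩, ⟨.ofNat 225, .negSucc 35, .ofNat 328, .ofNat 11, .negSucc 4, .ofNat 8⟩, ⟨.ofNat 660, .ofNat 28, .negSucc 52, .negSucc 198, .ofNat 89, .ofNat 227⟩, ⟨.negSucc 3864, .negSucc 53, .ofNat 34, .negSucc 68, .ofNat 250, .negSucc 61⟩, ⟨.negSucc 588, .negSucc 158, .ofNat 90, .negSucc 21, .ofNat 160, .ofNat 18⟩, .ofNat 656, .ofNat 323, .ofNat 0, .ofNat 323, .ofNat 1336, .ofNat 0, .ofNat 160, .negSucc 99, .negSucc 74, .ofNat 0, .ofNat 128, .ofNat 33, .ofNat 0, .ofNat 0, .ofNat 458, .ofNat 4183, .ofNat 0, .ofNat 0, .ofNat 0, .ofNat 0, .ofNat 0, .ofNat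 0, .ofNat 0, .ofNat 0, .ofNat 0, .ofNat 0, .ofNat 0, .ofNat 0, .ofNat 0, .ofNat 0, .ofNat 0, .ofNat 0⟩)
    (by decide +kernel)
theorem L00245 : Good (Phi V5.P V5.D (-1) (-1)) ⟨2, 0, 2, 1, 2, 3, 2, 1, 4, 3⟩ :=
  leafX_sound T5.ok_mm T5.Ymm.bz_eq (w := 197) (c := ⟨⟨.negSucc 1258, .negSucc 63, .negSucc 0, .negSucc 8, .ofNat 48, .negSucc 5⟩, ⟨.ofNat 259, .negSucc 81, .ofNat 351, .ofNat 52, .negSucc 10, .negSucc 0⟩, ⟨.ofNat 418, .ofNat 54, .ofNat 41, .ofNat 121, .ofNat 131, .ofNat 197⟩, ⟨.negSucc 3927, .ofNat 84, .negSucc 7, .ofNat 154, .ofNat 119, .negSucc 38⟩, ⟨.negSucc 459, .negSucc 330, .ofNat 256, .ofNat 524, .ofNat 54, .negSucc 26⟩, .ofNat 855, .ofNat 602, .ofNat 0, .ofNat 602, .ofNat 2145, .ofNat 0, .ofNat 128, .negSucc 142, .negSucc 55, .ofNat 0, .ofNat 163, .ofNat 16, .ofNat 0, .ofNat 0, .ofNat 430, .ofNat 892, .ofNat 0, .ofNat 0, .ofNat 0,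 .ofNat 0, .ofNat 0, .ofNat 0, .ofNat 0, .ofNat 0, .ofNat 0, .ofNat 0, .ofNat 0, .ofNat 0, .ofNat 0, .ofNat 0, .ofNat 0, .ofNat 0⟩)
    (by decide +kernel)
theorem L00246 : Good (Phi V5.P V5.D (-1) (-1)) ⟨2, 0, 2, 1, 2, 2, 1, 0, 4, 4⟩ :=
  leafX_sound T5.ok_mm T5.Ymm.bz_eq (w := 194) (c := ⟨⟨.negSucc 1302, .negSucc 102, .ofNat 20, .negSucc 9, .ofNat 120, .ofNat 59⟩, ⟨.ofNat 249, .negSucc 42, .ofNat 326, .ofNat 0, .negSucc 14, .negSucc 11⟩, ⟨.ofNat 850, .ofNat 1, .ofNat 5, .negSucc 193, .ofNat 85, .ofNat 181⟩, ⟨.negSucc 4107, .ofNat 16, .negSucc 34, .negSucc 44, .ofNat 404, .ofNat 185⟩, ⟨.negSucc 674, .negSucc 104, .ofNat 59, .negSucc 62, .ofNat 286, .ofNat 40⟩, .ofNat 653, .ofNat 316, .ofNat 0, .ofNat 316, .ofNat 1328, .ofNat 0, .ofNat 149, .negSucc 92, .negSucc 53, .ofNat 0, .ofNat 128, .ofNat 24, .ofNat 0, .ofNat 0, .ofNat 571, .ofNat 2806, .ofNat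 6637575503736827250957138160095592448, .ofNat 0, .ofNat 0, .ofNat 0, .ofNat 0, .ofNat 0, .ofNat 0, .ofNat 0, .ofNat 0, .ofNat 0, .ofNat 0, .ofNat 0, .ofNat 576039915254021917324562426742876143616, .ofNat 0, .ofNat 0, .ofNat 0⟩)
    (by decide +kernel)
theorem L00247 : Good (Phi V5.P V5.D (-1) (-1)) ⟨2, 0, 2, 1, 3, 6, 1, 0, 4, 4⟩ :=
  leafX_sound T5.ok_mm T5.Ymm.bz_eq (w := 208) (c := ⟨⟨.negSucc 1292, .negSucc 47, .negSucc 9, .ofNat 19, .ofNat 41, .ofNat 86⟩, ⟨.ofNat 249, .negSucc 81, .ofNat 352, .ofNat 17, .ofNat 20, .negSucc 17⟩, ⟨.ofNat 631, .ofNat 38, .negSucc 45, .ofNat 20, .ofNat 137, .ofNat 133⟩, ⟨.negSucc 4067, .ofNat 94, .negSucc 73, .ofNat 157, .ofNat 222, .ofNat 246⟩, ⟨.negSucc 652, .negSucc 355, .ofNat 194, .ofNat 225, .ofNat 401, .ofNat 30⟩, .ofNat 671, .ofNat 349, .ofNat 0, .ofNat 349, .ofNat 1350, .ofNat 0, .ofNat 160, .negSucc 92,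 .negSucc 50, .ofNat 0, .ofNat 128, .ofNat 19, .ofNat 0, .ofNat 0, .ofNat 805, .ofNat 2643, .ofNat 0, .ofNat 0, .ofNat 0, .ofNat 0, .ofNat 0, .ofNat 0, .ofNat 0, .ofNat 0, .ofNat 0, .ofNat 0, .ofNat 0, .ofNat 0, .ofNat 0, .ofNat 557801548278297899366119439964191374442496, .ofNat 0, .ofNat 0⟩)
    (by decide +kernel)
theorem L00248 : Good (Phi V5.P V5.D (-1) (-1)) ⟨2, 0, 2, 1, 3, 7, 1, 0, 4, 4⟩ :=
  leafX_sound T5.ok_mm T5.Ymm.bz_eq (w := 206) (c := ⟨⟨.negSucc 1268, .ofNat 11, .negSucc 41, .ofNat 5, .negSucc 8, .ofNat 119⟩, ⟨.ofNat 287, .negSucc 126, .ofNat 358, .ofNat 41, .ofNat 22, .negSucc 42⟩, ⟨.ofNat 669, .ofNat 3, .ofNat 10, .ofNat 108, .ofNat 131, .ofNat 174⟩, ⟨.negSucc 3897, .ofNat 176, .ofNat 2, .ofNat 231, .negSucc 8, .ofNat 287⟩, ⟨.negSucc 293, .negSucc 500, .ofNat 443, .ofNat 465, .ofNat 205, .negSucc 137⟩, .ofNat 776, .ofNat 486, .ofNat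 0, .ofNat 486, .ofNat 1781, .ofNat 0, .ofNat 128, .negSucc 119, .negSucc 19, .ofNat 0, .ofNat 165, .negSucc 11, .ofNat 0, .ofNat 0, .ofNat 743, .ofNat 564, .ofNat 0, .ofNat 0, .ofNat 0, .ofNat 0, .ofNat 0, .ofNat 120616058944469338420358605360586807050240, .ofNat 0, .ofNat 0, .ofNat 0, .ofNat 0, .ofNat 0, .ofNat 0, .ofNat 0, .ofNat 700267398996319430834068475901625336070144, .ofNat 0, .ofNat 0⟩)
    (by decide +kernel)
theorem L00249 : Good (Phi V5.P V5.D (-1) (-1)) ⟨2, 0, 2, 1, 2, 2, 2, 0, 4, 5⟩ :=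
  leafX_sound T5.ok_mm T5.Ymm.bz_eq (w := 200) (c := ⟨⟨.negSucc 1231, .negSucc 83, .ofNat 7, .ofNat 24, .ofNat 40, .ofNat 101⟩, ⟨.ofNat 216, .negSucc 40, .ofNat 326, .negSucc 4, .ofNat 10, .negSucc 26⟩, ⟨.ofNat 1107, .ofNat 18, .negSucc 6, .negSucc 205, .negSucc 59, .ofNat 230⟩, ⟨.negSucc 3868, .ofNat 52, .negSucc 71, .ofNat 94, .ofNat 93, .ofNat 334⟩, ⟨.negSucc 739, .negSucc 158, .ofNat 69, .ofNat 44, .ofNat 196, .ofNat 40⟩, .ofNat 415, .ofNat 104, .ofNat 0, .ofNat 104, .ofNat 637, .ofNat 0, .ofNat 231, .negSucc 54, .negSucc 17, .ofNat 0, .ofNat 128, .ofNat 10, .ofNat 0, .ofNat 0, .ofNat 446, .ofNat 17234, .ofNat 3016763953132535516153072672714484875264, .ofNat 0, .ofNat 636776610842330660783633091648290816, .ofNat 0, .ofNat 0, .ofNat 0, .ofNat 0, .ofNat 0, .ofNat 0, .ofNat 0, .ofNat 0, .ofNat 0, .ofNat 10505960819215091704614756798107482062848,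 .ofNat 0, .ofNat 0, .ofNat 0⟩)
    (by decide +kernel)
theorem L00250 : Good (Phi V5.P V5.D (-1) (-1)) ⟨2, 0, 2, 1, 3, 4, 2, 1, 4, 5⟩ :=
  leafX_sound T5.ok_mm T5.Ymm.bz_eq (w := 214) (c := ⟨⟨.negSucc 1168, .negSucc 92, .ofNat 7, .negSucc 5, .ofNat 45, .ofNat 73⟩, ⟨.ofNat 246, .negSucc 39, .ofNat 296, .negSucc 0, .negSucc 9, .negSucc 23⟩, ⟨.ofNat 977, .negSucc 24, .ofNat 97, .negSucc 68, .ofNat 46, .ofNat 251⟩, ⟨.negSucc 3679, .ofNat 48, .negSucc 58, .negSucc 25, .ofNat 161, .ofNat 238⟩, ⟨.negSucc 458, .negSucc 41, .negSucc 6, .negSucc 56, .ofNat 122, .ofNat 43⟩, .ofNat 415, .ofNat 107, .ofNat 0, .ofNat 107, .ofNat 647, .ofNat 0, .ofNat 186, .negSucc 54, .negSucc 56, .ofNat 0, .ofNat 128, .ofNat 21, .ofNat 0, .ofNat 0, .ofNat 966, .ofNat 13176, .ofNat 1860242442034650531176214217160961770389504, .ofNat 0, .ofNat 0, .ofNat 0, .ofNat 0, .ofNat 0, .ofNat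 0, .ofNat 0, .ofNat 0, .ofNat 0, .ofNat 0, .ofNat 0, .ofNat 0, .ofNat 0, .ofNat 0, .ofNat 0⟩)
    (by decide +kernel)
theorem L00251 : Good (Phi V5.P V5.D (-1) (-1)) ⟨2, 0, 2, 1, 3, 5, 2, 1, 4, 5⟩ :=
  leafX_sound T5.ok_mm T5.Ymm.bz_eq (w := 211) (c := ⟨⟨.negSucc 1196, .negSucc 72, .ofNat 20, .ofNat 21, .ofNat 27, .ofNat 97⟩, ⟨.ofNat 231, .negSucc 42, .ofNat 308, .negSucc 4, .ofNat 6, .negSucc 23⟩, ⟨.ofNat 980, .negSucc 78, .ofNat 15, .negSucc 61, .ofNat 85, .ofNat 203⟩, ⟨.negSucc 3757, .ofNat 95, .negSucc 51, .ofNat 57, .ofNat 124, .ofNat 317⟩, ⟨.negSucc 548, .negSucc 85, .ofNat 27, .ofNat 15, .ofNat 177, .ofNat 53⟩, .ofNat 415, .ofNat 106, .ofNat 0, .ofNat 106, .ofNat 642, .ofNat 0, .ofNat 136, .negSucc 54, .negSucc 11, .ofNat 0, .ofNat 128, .ofNat 3, .ofNat 0, .ofNat 0, .ofNat 468, .ofNat 1001, .ofNat 0, .ofNat 0, .ofNat 0, .ofNat 0, .ofNat 0,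 .ofNat 0, .ofNat 0, .ofNat 0, .ofNat 0, .ofNat 0, .ofNat 0, .ofNat 0, .ofNat 0, .ofNat 1558676317239366974428049928633548290392064, .ofNat 0, .ofNat 0⟩)
    (by decide +kernel)
theorem L00252 : Good (Phi V5.P V5.D (-1) (-1)) ⟨2, 0, 2, 1, 2, 3, 2, 0, 4, 5⟩ :=
  leafX_sound T5.ok_mm T5.Ymm.bz_eq (w := 196) (c := ⟨⟨.negSucc 1164, .negSucc 50, .negSucc 6, .ofNat 68, .negSucc 20, .ofNat 122⟩, ⟨.ofNat 203, .negSucc 56, .ofNat 325, .ofNat 15, .ofNat 31, .negSucc 40⟩, ⟨.ofNat 871, .negSucc 0, .negSucc 4, .ofNat 24, .negSucc 18, .ofNat 246⟩, ⟨.negSucc 3762, .ofNat 102, .negSucc 96, .ofNat 377, .ofNat 67, .ofNat 325⟩, ⟨.negSucc 702, .negSucc 237, .ofNat 119, .ofNat 361, .ofNat 241, .ofNat 0⟩, .ofNat 655, .ofNat 324, .ofNat 0, .ofNat 324, .ofNat 1345, .ofNat 0, .ofNat 128, .negSucc 159, .negSucc 6, .ofNat 0, .ofNat 244, .negSucc 0, .ofNat 0, .ofNat 0, .ofNat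 815, .ofNat 880, .ofNat 0, .ofNat 0, .ofNat 0, .ofNat 0, .ofNat 0, .ofNat 193890168438799640250592388782558806016, .ofNat 3577017187590719911326498347018092544, .ofNat 0, .ofNat 0, .ofNat 0, .ofNat 0, .ofNat 0, .ofNat 27488222422454220031165359780218538033152, .ofNat 1668496499328486751869472077847325573120, .ofNat 0, .ofNat 0⟩)
    (by decide +kernel)
theorem L00253 : Good (Phi V5.P V5.D (-1) (-1)) ⟨2, 0, 2, 1, 2, 3, 2, 1, 4, 5⟩ :=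
  leafX_sound T5.ok_mm T5.Ymm.bz_eq (w := 196) (c := ⟨⟨.negSucc 1179, .negSucc 38, .negSucc 4, .ofNat 63, .ofNat 3, .ofNat 113⟩, ⟨.ofNat 242, .negSucc 63, .ofNat 319, .negSucc 4, .ofNat 12, .negSucc 39⟩, ⟨.ofNat 857, .negSucc 152, .ofNat 23, .ofNat 104, .ofNat 201, .ofNat 272⟩, ⟨.negSucc 3689, .ofNat 160, .negSucc 81, .ofNat 261, .ofNat 68, .ofNat 303⟩, ⟨.negSucc 485, .negSucc 163, .ofNat 84, .ofNat 240, .ofNat 179, .ofNat 40⟩, .ofNat 661, .ofNat 338, .ofNat 0, .ofNat 338, .ofNat 1357, .ofNat 0, .ofNat 136, .negSucc 87, .ofNat 3, .ofNat 0, .ofNat 128, .negSucc 5, .ofNat 0, .ofNat 0, .ofNat 601, .ofNat 340, .ofNat 0, .ofNat 0, .ofNat 0, .ofNat 0, .ofNat 0, .ofNat 190159402667920107981960524845146963968, .ofNat 0, .ofNat 0, .ofNat 0, .ofNat 291148425138275440386297565305926320128, .ofNat 0, .ofNat 0, .ofNat 0, .ofNat 1000685620567365471545139606308436049920,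 .ofNat 0, .ofNat 0⟩)
    (by decide +kernel)
theorem L00254 : Good (Phi V5.P V5.D (-1) (-1)) ⟨2, 0, 2, 1, 3, 4, 1, 0, 4, 6⟩ :=
  leafX_sound T5.ok_mm T5.Ymm.bz_eq (w := 210) (c := ⟨⟨.negSucc 1152, .negSucc 63, .ofNat 28, .ofNat 12, .ofNat 77, .ofNat 82⟩, ⟨.ofNat 231, .negSucc 38, .ofNat 271, .negSucc 6, .negSucc 4, .negSucc 28⟩, ⟨.ofNat 1172, .negSucc 119, .ofNat 140, .ofNat 19, .ofNat 32, .ofNat 501⟩, ⟨.negSucc 3602, .ofNat 104, .negSucc 29, .ofNat 5, .ofNat 276, .ofNat 260⟩, ⟨.negSucc 587, .ofNat 16, .negSucc 10, .negSucc 48, .ofNat 271, .negSucc 2⟩, .ofNat 417, .ofNat 110, .ofNat 0, .ofNat 110, .ofNat 640, .ofNat 0, .ofNat 206, .negSucc 52, .negSucc 19, .ofNat 0, .ofNat 128, .negSucc 10, .ofNat 0, .ofNat 0, .ofNat 1992, .ofNat 11796, .ofNat 890605327905260698107930459836855317692416, .ofNat 0, .ofNat 0, .ofNat 0, .ofNat 0, .ofNat 0, .ofNat 0,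 .ofNat 0, .ofNat 8133254583422985983371136320430347567235072, .ofNat 276223881246784895884545270235236352917504, .ofNat 0, .ofNat 0, .ofNat 121604020825613199594427597471904769148715008, .ofNat 9110463991390826884904596231054036914143232, .ofNat 0, .ofNat 0⟩)
    (by decide +kernel)

end Crest.Agent.R097C5.N5mm
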