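import Crest.Agent.R097.KP7
import Crest.Agent.R097.T5Ymm

/-!
# Row 97, box cover in dimension n = 5 (generated)
-/

set_option autoImplicit false
set_option Elab.async false
set_option maxHeartbeats 0
set_option maxRecDepth 100000

open Crest.Agent.R097 Crest.Agent.R097.KA


namespace Crest.Agent.R097C5.N5mm

theorem L00255 : Good (Phi V5.P V5.D (-1) (-1)) ⟨2, 0, 2, 1, 3, 5, 1, 0, 4, 6⟩ :=
  leafX_sound T5.ok_mm T5.Ymm.bz_eq (w := 207) (c := ⟨⟨.negSucc 1118, .negSucc 59, .ofNat 19, .ofNat 23, .ofNat 42, .ofNat 113⟩, ⟨.ofNat 217, .negSucc 41, .ofNat 280, .negSucc 6, .ofNat 4, .negSucc 33⟩, ⟨.ofNat 962, .negSucc 187, .ofNat 102, .ofNat 22, .ofNat 360, .ofNat 451⟩, ⟨.negSucc 3525, .ofNat 113, .negSucc 59, .ofNat 61, .ofNat 191, .ofNat 306⟩, ⟨.negSucc 619, .negSucc 10, .negSucc 2, .negSucc 13, .ofNat 258, .ofNat 30⟩, .ofNat 650, .ofNat 319, .ofNat 0, .ofNat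 319, .ofNat 1359, .ofNat 0, .ofNat 128, .negSucc 101, .ofNat 12, .ofNat 0, .ofNat 150, .negSucc 9, .ofNat 0, .ofNat 0, .ofNat 1137, .ofNat 1681, .ofNat 0, .ofNat 0, .ofNat 0, .ofNat 0, .ofNat 0, .ofNat 0, .ofNat 0, .ofNat 0, .ofNat 0, .ofNat 0, .ofNat 0, .ofNat 0, .ofNat 37718041742834077317878111280483450188988416, .ofNat 4745642852785507104407220020483524032200704, .ofNat 0, .ofNat 0⟩)
    (by decide +kernel)
theorem L00256 : Good (Phi V5.P V5.D (-1) (-1)) ⟨2, 0, 2, 1, 2, 3, 1, 0, 4, 6⟩ :=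
  leafX_sound T5.ok_mm T5.Ymm.bz_eq (w := 193) (c := ⟨⟨.negSucc 1072, .negSucc 46, .ofNat 6, .ofNat 4, .ofNat 5, .ofNat 103⟩, ⟨.ofNat 194, .negSucc 50, .ofNat 294, .ofNat 24, .ofNat 28, .negSucc 30⟩, ⟨.ofNat 1098, .negSucc 150, .ofNat 51, .ofNat 23, .ofNat 181, .ofNat 308⟩, ⟨.negSucc 3450, .ofNat 116, .negSucc 85, .ofNat 275, .ofNat 195, .ofNat 348⟩, ⟨.negSucc 622, .negSucc 130, .ofNat 42, .ofNat 176, .ofNat 333, .ofNat 36⟩, .ofNat 192, .ofNat 19, .ofNat 0, .ofNat 19, .ofNat 230, .ofNat 0, .ofNat 128, .negSucc 61, .ofNat 25, .ofNat 0, .ofNat 255, .negSucc 27, .ofNat 0, .ofNat 0, .ofNat 874, .ofNat 2215, .ofNat 0, .ofNat 0, .ofNat 0, .ofNat 0, .ofNat 1040322391731610032687764321823447056384, .ofNat 214821556403014114830563661703062487040, .ofNat 0, .ofNat 0, .ofNat 2624570811934798716414224911415298228224, .ofNat 727353184053082665594207512842546970624,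 .ofNat 0, .ofNat 0, .ofNat 10185766939422546563155042038884251729920, .ofNat 2194796404910990403358182355017721184256, .ofNat 0, .ofNat 0⟩)
    (by decide +kernel)
theorem L00257 : Good (Phi V5.P V5.D (-1) (-1)) ⟨2, 0, 2, 1, 2, 2, 2, 0, 4, 7⟩ :=
  out_sound (S := T5.ds_mm) T5.ok_mm (w := 24) (j := 1) (by decide +kernel)
theorem L00258 : Good (Phi V5.P V5.D (-1) (-1)) ⟨2, 0, 2, 1, 3, 4, 3, 2, 4, 7⟩ :=
  out_sound (S := T5.ds_mm) T5.ok_mm (w := 27) (j := 1) (by decide +kernel)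
theorem L00259 : Good (Phi V5.P V5.D (-1) (-1)) ⟨2, 0, 2, 1, 4, 8, 3, 3, 5, 14⟩ :=
  out_sound (S := T5.ds_mm) T5.ok_mm (w := 31) (j := 1) (by decide +kernel)
theorem L00260 : Good (Phi V5.P V5.D (-1) (-1)) ⟨2, 0, 2, 1, 4, 9, 4, 6, 5, 14⟩ :=
  out_sound (S := T5.ds_mm) T5.ok_mm (w := 32) (j := 1) (by decide +kernel)
theorem L00261 : Good (Phi V5.P V5.D (-1) (-1)) ⟨2, 0, 2, 1, 5, 18, 4, 7, 6, 28⟩ :=
  leafX_sound T5.ok_mm T5.Ymm.bz_eq (w := 268) (c := ⟨⟨.negSucc 887, .negSucc 59, .ofNat 40, .ofNat 0, .negSucc 89, .ofNat 0⟩, ⟨.ofNat 124, .negSucc 27, .ofNat 244, .ofNat 0, .ofNat 71, .ofNat 0⟩, ⟨.ofNat 1636, .negSucc 403, .ofNat 502, .ofNat 1, .ofNat 215, .negSucc 0⟩, ⟨.negSucc 3108, .ofNat 122, .negSucc 9, .negSucc 0, .ofNat 55, .ofNat 2⟩, ⟨.negSucc 320, .ofNat 70, .negSucc 83, .ofNat 0, .negSucc 51, .ofNat 0⟩, .ofNat 192, .ofNat 19, .ofNat 0, .ofNat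 19, .ofNat 231, .ofNat 0, .ofNat 163, .negSucc 24, .ofNat 67, .ofNat 0, .ofNat 128, .negSucc 93, .ofNat 0, .ofNat 0, .ofNat 1469, .ofNat 2395203, .ofNat 0, .ofNat 0, .ofNat 0, .ofNat 0, .ofNat 131999422564752296908885716185326164077413910157360889856, .ofNat 297915346404923794162900331857091325047326663027720192, .ofNat 0, .ofNat 0, .ofNat 52804890485199354462540271387911395983001207492862541824, .ofNat 0, .ofNat 2585131079349144134116392951866983691073546963516391424, .ofNat 0, .ofNat 681323130494557236880102607428384809403547105113986301952, .ofNat 1483733985961322296611075983969665475279865657209913344, .ofNat 0, .ofNat 0⟩)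
    (by decide +kernel)
theorem L00262 : Good (Phi V5.P V5.D (-1) (-1)) ⟨2, 0, 2, 1, 5, 19, 6, 28, 7, 56⟩ :=
  out_sound (S := T5.ds_mm) T5.ok_mm (w := 40) (j := 1) (by decide +kernel)
theorem L00263 : Good (Phi V5.P V5.D (-1) (-1)) ⟨2, 0, 2, 1, 6, 38, 6, 29, 7, 56⟩ :=
  out_sound (S := T5.ds_mm) T5.ok_mm (w := 42) (j := 1) (by decide +kernel)
theorem L00264 : Good (Phi V5.P V5.D (-1) (-1)) ⟨2, 0, 2, 1, 6, 39, 6, 29, 7, 56⟩ :=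
  out_sound (S := T5.ds_mm) T5.ok_mm (w := 52) (j := 2) (by decide +kernel)
theorem L00265 : Good (Phi V5.P V5.D (-1) (-1)) ⟨2, 0, 2, 1, 5, 19, 5, 14, 7, 57⟩ :=
  out_sound (S := T5.ds_mm) T5.ok_mm (w := 39) (j := 1) (by decide +kernel)
theorem L00266 : Good (Phi V5.P V5.D (-1) (-1)) ⟨2, 0, 2, 1, 7, 76, 6, 30, 7, 56⟩ :=
  out_sound (S := T5.ds_mm) T5.ok_mm (w := 44) (j := 1) (by decide +kernel)
theorem L00267 : Good (Phi V5.P V5.D (-1) (-1)) ⟨2, 0, 2, 1, 8, 152, 8, 124, 9, 224⟩ :=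
  out_sound (S := T5.ds_mm) T5.ok_mm (w := 52) (j := 1) (by decide +kernel)
theorem L00268 : Good (Phi V5.P V5.D (-1) (-1)) ⟨2, 0, 2, 1, 8, 152, 9, 250, 10, 448⟩ :=
  out_sound (S := T5.ds_mm) T5.ok_mm (w := 55) (j := 1) (by decide +kernel)
theorem L00269 : Good (Phi V5.P V5.D (-1) (-1)) ⟨2, 0, 2, 1, 9, 304, 9, 251, 10, 448⟩ :=
  out_sound (S := T5.ds_mm) T5.ok_mm (w := 57) (j := 1) (by decide +kernel)
theorem L00270 : Good (Phi V5.P V5.D (-1) (-1)) ⟨2, 0, 2, 1, 9, 305, 9, 251, 10, 448⟩ :=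
  out_sound (S := T5.ds_mm) T5.ok_mm (w := 70) (j := 2) (by decide +kernel)
theorem L00271 : Good (Phi V5.P V5.D (-1) (-1)) ⟨2, 0, 2, 1, 8, 152, 8, 125, 10, 449⟩ :=
  out_sound (S := T5.ds_mm) T5.ok_mm (w := 54) (j := 1) (by decide +kernel)
theorem L00272 : Good (Phi V5.P V5.D (-1) (-1)) ⟨2, 0, 2, 1, 8, 152, 7, 62, 9, 225⟩ :=
  out_sound (S := T5.ds_mm) T5.ok_mm (w := 51) (j := 1) (by decide +kernel)
theorem L00273 : Good (Phi V5.P V5.D (-1) (-1)) ⟨2, 0, 2, 1, 10, 608, 9, 252, 10, 448⟩ :=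
  out_sound (S := T5.ds_mm) T5.ok_mm (w := 59) (j := 1) (by decide +kernel)
theorem L00274 : Good (Phi V5.P V5.D (-1) (-1)) ⟨2, 0, 2, 1, 11, 1216, 10, 506, 11, 896⟩ :=
  out_sound (S := T5.ds_mm) T5.ok_mm (w := 64) (j := 1) (by decide +kernel)
theorem L00275 : Good (Phi V5.P V5.D (-1) (-1)) ⟨2, 0, 2, 1, 11, 1216, 10, 507, 11, 896⟩ :=
  out_sound (S := T5.ds_mm) T5.ok_mm (w := 78) (j := 2) (by decide +kernel)
theorem L00276 : Good (Phi V5.P V5.D (-1) (-1)) ⟨2, 0, 2, 1, 11, 1217, 9, 253, 11, 896⟩ :=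
  out_sound (S := T5.ds_mm) T5.ok_mm (w := 76) (j := 2) (by decide +kernel)
theorem L00277 : Good (Phi V5.P V5.D (-1) (-1)) ⟨2, 0, 2, 1, 10, 608, 9, 253, 11, 897⟩ :=
  out_sound (S := T5.ds_mm) T5.ok_mm (w := 74) (j := 2) (by decide +kernel)
theorem L00278 : Good (Phi V5.P V5.D (-1) (-1)) ⟨2, 0, 2, 1, 10, 609, 8, 126, 10, 448⟩ :=
  out_sound (S := T5.ds_mm) T5.ok_mm (w := 70) (j := 2) (by decide +kernel)
theorem L00279 : Good (Phi V5.P V5.D (-1) (-1)) ⟨2, 0, 2, 1, 9, 304, 8, 126, 10, 449⟩ :=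
  out_sound (S := T5.ds_mm) T5.ok_mm (w := 56) (j := 1) (by decide +kernel)
theorem L00280 : Good (Phi V5.P V5.D (-1) (-1)) ⟨2, 0, 2, 1, 9, 304, 8, 127, 9, 224⟩ :=
  out_sound (S := T5.ds_mm) T5.ok_mm (w := 66) (j := 2) (by decide +kernel)
theorem L00281 : Good (Phi V5.P V5.D (-1) (-1)) ⟨2, 0, 2, 1, 9, 305, 7, 63, 9, 224⟩ :=
  out_sound (S := T5.ds_mm) T5.ok_mm (w := 64) (j := 2) (by decide +kernel)
theorem L00282 : Good (Phi V5.P V5.D (-1) (-1)) ⟨2, 0, 2, 1, 8, 152, 7, 63, 9, 225⟩ :=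
  out_sound (S := T5.ds_mm) T5.ok_mm (w := 62) (j := 2) (by decide +kernel)
theorem L00283 : Good (Phi V5.P V5.D (-1) (-1)) ⟨2, 0, 2, 1, 8, 153, 6, 31, 8, 112⟩ :=
  out_sound (S := T5.ds_mm) T5.ok_mm (w := 58) (j := 2) (by decide +kernel)
theorem L00284 : Good (Phi V5.P V5.D (-1) (-1)) ⟨2, 0, 2, 1, 7, 76, 6, 31, 8, 113⟩ :=
  out_sound (S := T5.ds_mm) T5.ok_mm (w := 56) (j := 2) (by decide +kernel)
theorem L00285 : Good (Phi V5.P V5.D (-1) (-1)) ⟨2, 0, 2, 1, 8, 154, 6, 30, 8, 112⟩ :=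
  out_sound (S := T5.ds_mm) T5.ok_mm (w := 48) (j := 1) (by decide +kernel)
theorem L00286 : Good (Phi V5.P V5.D (-1) (-1)) ⟨2, 0, 2, 1, 8, 155, 6, 30, 8, 112⟩ :=
  out_sound (S := T5.ds_mm) T5.ok_mm (w := 58) (j := 2) (by decide +kernel)
theorem L00287 : Good (Phi V5.P V5.D (-1) (-1)) ⟨2, 0, 2, 1, 7, 77, 6, 30, 8, 113⟩ :=
  out_sound (S := T5.ds_mm) T5.ok_mm (w := 46) (j := 1) (by decide +kernel)
theorem L00288 : Good (Phi V5.P V5.D (-1) (-1)) ⟨2, 0, 2, 1, 7, 77, 6, 31, 7, 56⟩ :=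
  out_sound (S := T5.ds_mm) T5.ok_mm (w := 54) (j := 2) (by decide +kernel)
theorem L00289 : Good (Phi V5.P V5.D (-1) (-1)) ⟨2, 0, 2, 1, 6, 38, 5, 15, 7, 57⟩ :=
  out_sound (S := T5.ds_mm) T5.ok_mm (w := 50) (j := 2) (by decide +kernel)
theorem L00290 : Good (Phi V5.P V5.D (-1) (-1)) ⟨2, 0, 2, 1, 6, 39, 5, 15, 6, 28⟩ :=
  out_sound (S := T5.ds_mm) T5.ok_mm (w := 48) (j := 2) (by decide +kernel)
theorem L00291 : Good (Phi V5.P V5.D (-1) (-1)) ⟨2, 0, 2, 1, 4, 9, 4, 7, 6, 29⟩ :=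
  out_sound (S := T5.ds_mm) T5.ok_mm (w := 34) (j := 1) (by decide +kernel)
theorem L00292 : Good (Phi V5.P V5.D (-1) (-1)) ⟨2, 0, 2, 1, 3, 4, 3, 3, 5, 15⟩ :=
  out_sound (S := T5.ds_mm) T5.ok_mm (w := 29) (j := 1) (by decide +kernel)
theorem L00293 : Good (Phi V5.P V5.D (-1) (-1)) ⟨2, 0, 2, 1, 4, 10, 3, 2, 5, 14⟩ :=
  out_sound (S := T5.ds_mm) T5.ok_mm (w := 31) (j := 1) (by decide +kernel)
theorem L00294 : Good (Phi V5.P V5.D (-1) (-1)) ⟨2, 0, 2, 1, 5, 20, 5, 12, 6, 28⟩ :=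
  out_sound (S := T5.ds_mm) T5.ok_mm (w := 37) (j := 1) (by decide +kernel)
theorem L00295 : Good (Phi V5.P V5.D (-1) (-1)) ⟨2, 0, 2, 1, 5, 20, 5, 13, 6, 28⟩ :=
  out_sound (S := T5.ds_mm) T5.ok_mm (w := 46) (j := 2) (by decide +kernel)
theorem L00296 : Good (Phi V5.P V5.D (-1) (-1)) ⟨2, 0, 2, 1, 5, 20, 4, 7, 6, 28⟩ :=
  out_sound (S := T5.ds_mm) T5.ok_mm (w := 44) (j := 2) (by decide +kernel)
theorem L00297 : Good (Phi V5.P V5.D (-1) (-1)) ⟨2, 0, 2, 1, 5, 20, 3, 3, 6, 29⟩ :=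
  out_sound (S := T5.ds_mm) T5.ok_mm (w := 42) (j := 2) (by decide +kernel)
theorem L00298 : Good (Phi V5.P V5.D (-1) (-1)) ⟨2, 0, 2, 1, 5, 21, 3, 3, 5, 14⟩ :=
  out_sound (S := T5.ds_mm) T5.ok_mm (w := 40) (j := 2) (by decide +kernel)
theorem L00299 : Good (Phi V5.P V5.D (-1) (-1)) ⟨2, 0, 2, 1, 4, 10, 2, 1, 5, 15⟩ :=
  out_sound (S := T5.ds_mm) T5.ok_mm (w := 36) (j := 2) (by decide +kernel)
theorem L00300 : Good (Phi V5.P V5.D (-1) (-1)) ⟨2, 0, 2, 1, 4, 11, 2, 1, 4, 7⟩ :=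
  out_sound (S := T5.ds_mm) T5.ok_mm (w := 34) (j := 2) (by decide +kernel)
theorem L00301 : Good (Phi V5.P V5.D (-1) (-1)) ⟨2, 0, 2, 1, 2, 3, 1, 0, 4, 7⟩ :=
  out_sound (S := T5.ds_mm) T5.ok_mm (w := 28) (j := 2) (by decide +kernel)
theorem L00302 : Good (Phi V5.P V5.D (-1) (-1)) ⟨2, 0, 2, 1, 3, 4, 1, 0, 3, 4⟩ :=
  out_sound (S := T5.ds_mm) T5.ok_mm (w := 23) (j := 1) (by decide +kernel)
theorem L00303 : Good (Phi V5.P V5.D (-1) (-1)) ⟨2, 0, 2, 1, 3, 5, 1, 0, 3, 4⟩ :=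
  out_sound (S := T5.ds_mm) T5.ok_mm (w := 28) (j := 2) (by decide +kernel)
theorem L00304 : Good (Phi V5.P V5.D (-1) (-1)) ⟨2, 0, 2, 1, 2, 2, 1, 0, 3, 5⟩ :=
  out_sound (S := T5.ds_mm) T5.ok_mm (w := 21) (j := 1) (by decide +kernel)
theorem L00305 : Good (Phi V5.P V5.D (-1) (-1)) ⟨2, 0, 2, 1, 2, 2, 1, 0, 2, 3⟩ :=
  out_sound (S := T5.ds_mm) T5.ok_mm (w := 19) (j := 1) (by decide +kernel)
theorem L00306 : Good (Phi V5.P V5.D (-1) (-1)) ⟨2, 0, 2, 1, 2, 3, 1, 0, 1, 1⟩ :=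
  out_sound (S := T5.ds_mm) T5.ok_mm (w := 22) (j := 2) (by decide +kernel)
theorem L00307 : Good (Phi V5.P V5.D (-1) (-1)) ⟨2, 0, 2, 1, 1, 1, 2, 2, 3, 0⟩ :=
  leafX_sound T5.ok_mm T5.Ymm.bz_eq (w := 178) (c := ⟨⟨.ofNat 513, .negSucc 32, .ofNat 77, .ofNat 52, .negSucc 255, .negSucc 1275⟩, ⟨.negSucc 178, .negSucc 24, .ofNat 41, .ofNat 37, .ofNat 78, .ofNat 340⟩, ⟨.negSucc 603, .negSucc 37, .ofNat 51, .ofNat 421, .ofNat 335, .ofNat 622⟩, ⟨.ofNat 1275, .negSucc 139, .ofNat 454, .ofNat 339, .negSucc 821, .negSucc 3507⟩, ⟨.negSucc 343, .negSucc 296, .ofNat 684, .ofNat 597, .negSucc 259, .negSucc 9⟩, .ofNat 950, .ofNat 773, .ofNat 0, .ofNat 773, .ofNat 2647, .ofNat 0, .ofNat 216, .negSucc 127, .negSucc 130, .ofNat 0, .ofNat 124, .ofNat 48, .ofNat 0, .ofNat 0, .ofNat 332, .ofNat 350, .ofNat 0, .ofNat 0, .ofNat 0, .ofNat 0, .ofNat 0, .ofNat 0, .ofNat 0, .ofNat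 0, .ofNat 0, .ofNat 0, .ofNat 0, .ofNat 0, .ofNat 0, .ofNat 0, .ofNat 0, .ofNat 0⟩)
    (by decide +kernel)
theorem L00308 : Good (Phi V5.P V5.D (-1) (-1)) ⟨2, 0, 2, 1, 2, 2, 2, 3, 3, 0⟩ :=
  leafX_sound T5.ok_mm T5.Ymm.bz_eq (w := 191) (c := ⟨⟨.negSucc 48, .ofNat 98, .ofNat 108, .negSucc 126, .negSucc 340, .negSucc 716⟩, ⟨.negSucc 60, .negSucc 85, .ofNat 95, .ofNat 80, .ofNat 145, .ofNat 225⟩, ⟨.negSucc 43, .negSucc 277, .negSucc 12, .ofNat 343, .ofNat 555, .ofNat 418⟩, ⟨.negSucc 219, .ofNat 278, .ofNat 324, .negSucc 273, .negSucc 936, .negSucc 2076⟩, ⟨.negSucc 253, .negSucc 378, .ofNat 61, .ofNat 363, .ofNat 300, .negSucc 17⟩, .ofNat 671, .ofNat 349, .ofNat 0, .ofNat 349, .ofNat 1350, .ofNat 0, .ofNat 211, .negSucc 95, .negSucc 188, .ofNat 0, .ofNat 128, .ofNat 70, .ofNat 0, .ofNat 0, .ofNat 404, .ofNat 490, .ofNat 0, .ofNat 0, .ofNat 0, .ofNat 0,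 .ofNat 0, .ofNat 0, .ofNat 0, .ofNat 0, .ofNat 0, .ofNat 10251470132410034422638990079605866496, .ofNat 0, .ofNat 0, .ofNat 0, .ofNat 0, .ofNat 0, .ofNat 0⟩)
    (by decide +kernel)
theorem L00309 : Good (Phi V5.P V5.D (-1) (-1)) ⟨2, 0, 2, 1, 2, 3, 2, 3, 3, 0⟩ :=
  leafX_sound T5.ok_mm T5.Ymm.bz_eq (w := 190) (c := ⟨⟨.ofNat 95, .ofNat 58, .ofNat 15, .negSucc 173, .negSucc 609, .negSucc 869⟩, ⟨.ofNat 0, .negSucc 86, .ofNat 75, .ofNat 33, .ofNat 219, .ofNat 250⟩, ⟨.ofNat 250, .negSucc 224, .ofNat 140, .ofNat 235, .ofNat 584, .ofNat 257⟩, ⟨.ofNat 338, .ofNat 55, .ofNat 118, .negSucc 527, .negSucc 1626, .negSucc 2536⟩, ⟨.ofNat 520, .negSucc 658, .negSucc 8, .negSucc 118, .ofNat 388, .negSucc 147⟩, .ofNat 671, .ofNat 349, .ofNat 0, .ofNat 349, .ofNat 1350, .ofNat 0, .ofNat 152, .negSucc 104, .negSucc 89, .ofNat 0, .ofNat 128, .ofNat 34, .ofNat 0, .ofNat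 0, .ofNat 184, .ofNat 168, .ofNat 0, .ofNat 0, .ofNat 0, .ofNat 0, .ofNat 0, .ofNat 0, .ofNat 0, .ofNat 0, .ofNat 0, .ofNat 13200929067263390950692317513570582528, .ofNat 0, .ofNat 0, .ofNat 0, .ofNat 2839811003386411483883970362779631616, .ofNat 826769989185263783391738707574784, .ofNat 0⟩)
    (by decide +kernel)
theorem L00310 : Good (Phi V5.P V5.D (-1) (-1)) ⟨2, 0, 2, 1, 1, 1, 2, 2, 4, 2⟩ :=
  leafX_sound T5.ok_mm T5.Ymm.bz_eq (w := 182) (c := ⟨⟨.negSucc 843, .negSucc 103, .ofNat 72, .negSucc 163, .negSucc 1, .negSucc 268⟩, ⟨.ofNat 133, .negSucc 38, .ofNat 273, .ofNat 80, .ofNat 14, .ofNat 80⟩, ⟨.ofNat 313, .negSucc 52, .ofNat 1, .ofNat 154, .ofNat 258, .ofNat 302⟩, ⟨.negSucc 2724, .negSucc 35, .ofNat 153, .negSucc 383, .ofNat 18, .negSucc 775⟩, ⟨.negSucc 441, .negSucc 199, .ofNat 113, .ofNat 174, .ofNat 122, .negSucc 6⟩, .ofNat 764, .ofNat 464,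 .ofNat 0, .ofNat 464, .ofNat 1766, .ofNat 0, .ofNat 150, .negSucc 115, .negSucc 74, .ofNat 0, .ofNat 128, .ofNat 26, .ofNat 0, .ofNat 0, .ofNat 274, .ofNat 293, .ofNat 0, .ofNat 0, .ofNat 0, .ofNat 0, .ofNat 0, .ofNat 0, .ofNat 0, .ofNat 0, .ofNat 0, .ofNat 0, .ofNat 0, .ofNat 0, .ofNat 0, .ofNat 0, .ofNat 0, .ofNat 0⟩)
    (by decide +kernel)
theorem L00311 : Good (Phi V5.P V5.D (-1) (-1)) ⟨2, 0, 2, 1, 2, 2, 2, 2, 4, 3⟩ :=
  leafX_sound T5.ok_mm T5.Ymm.bz_eq (w := 197) (c := ⟨⟨.negSucc 1117, .negSucc 103, .ofNat 41, .negSucc 77, .ofNat 42, .negSucc 50⟩, ⟨.ofNat 208, .negSucc 35, .ofNat 310, .ofNat 27, .ofNat 3, .ofNat 22⟩, ⟨.ofNat 730, .negSucc 76, .ofNat 5, .negSucc 54, .ofNat 122, .ofNat 214⟩, ⟨.negSucc 3577, .ofNat 69, .ofNat 51, .negSucc 200, .ofNat 165, .negSucc 130⟩, ⟨.negSucc 542, .negSucc 3, .ofNat 77, .ofNat 0, .ofNat 187, .ofNat 70⟩, .ofNat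 770, .ofNat 479, .ofNat 0, .ofNat 479, .ofNat 1792, .ofNat 0, .ofNat 128, .negSucc 117, .negSucc 91, .ofNat 0, .ofNat 132, .ofNat 34, .ofNat 0, .ofNat 0, .ofNat 536, .ofNat 1313, .ofNat 0, .ofNat 0, .ofNat 0, .ofNat 0, .ofNat 0, .ofNat 0, .ofNat 0, .ofNat 0, .ofNat 0, .ofNat 0, .ofNat 0, .ofNat 0, .ofNat 0, .ofNat 0, .ofNat 0, .ofNat 0⟩)
    (by decide +kernel)
theorem L00312 : Good (Phi V5.P V5.D (-1) (-1)) ⟨2, 0, 2, 1, 2, 3, 2, 2, 4, 3⟩ :=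
  leafX_sound T5.ok_mm T5.Ymm.bz_eq (w := 196) (c := ⟨⟨.negSucc 1253, .negSucc 2, .ofNat 14, .negSucc 58, .negSucc 43, .negSucc 17⟩, ⟨.ofNat 266, .negSucc 96, .ofNat 323, .ofNat 62, .ofNat 48, .ofNat 19⟩, ⟨.ofNat 715, .negSucc 200, .ofNat 68, .ofNat 146, .ofNat 283, .ofNat 181⟩, ⟨.negSucc 3903, .ofNat 284, .ofNat 9, .negSucc 47, .negSucc 48, .negSucc 12⟩, ⟨.negSucc 434, .negSucc 199, .ofNat 99, .ofNat 433, .ofNat 353, .ofNat 110⟩, .ofNat 770, .ofNat 471, .ofNat 0, .ofNat 471, .ofNat 1757, .ofNat 0, .ofNat 128, .negSucc 122, .negSucc 43, .ofNat 0, .ofNat 146, .ofNat 5, .ofNat 0, .ofNat 0, .ofNat 469, .ofNat 273, .ofNat 0, .ofNat 0, .ofNat 0, .ofNat 0, .ofNat 0, .ofNat 48311720219363992658530913987009183744, .ofNat 0, .ofNat 0, .ofNat 0, .ofNat 169378953688446400711246933629966745600, .ofNat 0, .ofNat 0, .ofNat 0, .ofNat 295349740563860580066514426256364142592,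 .ofNat 0, .ofNat 0⟩)
    (by decide +kernel)
theorem L00313 : Good (Phi V5.P V5.D (-1) (-1)) ⟨2, 0, 2, 1, 2, 2, 2, 3, 4, 2⟩ :=
  leafX_sound T5.ok_mm T5.Ymm.bz_eq (w := 196) (c := ⟨⟨.negSucc 883, .negSucc 17, .ofNat 22, .negSucc 163, .ofNat 2, .negSucc 233⟩, ⟨.ofNat 161, .negSucc 62, .ofNat 267, .ofNat 65, .ofNat 41, .ofNat 80⟩, ⟨.ofNat 654, .negSucc 257, .ofNat 81, .ofNat 181, .ofNat 194, .ofNat 257⟩, ⟨.negSucc 2860, .ofNat 267, .ofNat 22, .negSucc 420, .ofNat 141, .negSucc 647⟩, ⟨.negSucc 542, .ofNat 9, .ofNat 34, .ofNat 112, .ofNat 532, .ofNat 157⟩, .ofNat 652, .ofNat 321, .ofNat 0, .ofNat 321, .ofNat 1350, .ofNat 0, .ofNat 159, .negSucc 99, .negSucc 121, .ofNat 0, .ofNat 128, .ofNat 40, .ofNat 0, .ofNat 0, .ofNat 391, .ofNat 410, .ofNat 0, .ofNat 0, .ofNat 0, .ofNat 0, .ofNat 0, .ofNat 0, .ofNat 0, .ofNat 0, .ofNat 0, .ofNat 166939356782736000192803092329085796352,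 .ofNat 0, .ofNat 0, .ofNat 0, .ofNat 165538025564966808746966370539219714048, .ofNat 0, .ofNat 0⟩)
    (by decide +kernel)
theorem L00314 : Good (Phi V5.P V5.D (-1) (-1)) ⟨2, 0, 2, 1, 2, 3, 3, 6, 4, 2⟩ :=
  leafX_sound T5.ok_mm T5.Ymm.bz_eq (w := 200) (c := ⟨⟨.negSucc 1018, .ofNat 67, .ofNat 21, .negSucc 182, .negSucc 125, .negSucc 304⟩, ⟨.ofNat 229, .negSucc 140, .ofNat 290, .ofNat 103, .ofNat 79, .ofNat 125⟩, ⟨.ofNat 769, .negSucc 309, .ofNat 136, .ofNat 173, .ofNat 240, .ofNat 288⟩, ⟨.negSucc 3221, .ofNat 467, .ofNat 90, .negSucc 401, .negSucc 225, .negSucc 780⟩, ⟨.negSucc 363, .negSucc 160, .negSucc 32, .ofNat 573, .ofNat 564, .ofNat 312⟩, .ofNat 654, .ofNat 321, .ofNat 0, .ofNat 321, .ofNat 1339, .ofNat 0, .ofNat 195, .negSucc 104, .negSucc 58, .ofNat 0, .ofNat 128, .ofNat 15, .ofNat 0, .ofNat 0, .ofNat 227, .ofNat 203, .ofNat 0, .ofNat 0, .ofNat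 0, .ofNat 0, .ofNat 0, .ofNat 0, .ofNat 0, .ofNat 0, .ofNat 0, .ofNat 0, .ofNat 0, .ofNat 0, .ofNat 0, .ofNat 198580011894190476681795291076964122624, .ofNat 0, .ofNat 0⟩)
    (by decide +kernel)
theorem L00315 : Good (Phi V5.P V5.D (-1) (-1)) ⟨2, 0, 2, 1, 2, 3, 3, 7, 4, 2⟩ :=
  leafX_sound T5.ok_mm T5.Ymm.bz_eq (w := 200) (c := ⟨⟨.negSucc 1141, .ofNat 112, .negSucc 21, .negSucc 261, .negSucc 226, .negSucc 291⟩, ⟨.ofNat 333, .negSucc 179, .ofNat 297, .ofNat 123, .ofNat 122, .ofNat 103⟩, ⟨.ofNat 1057, .negSucc 387, .ofNat 177, .ofNat 160, .ofNat 332, .ofNat 264⟩, ⟨.negSucc 3453, .ofNat 554, .ofNat 51, .negSucc 565, .negSucc 402, .negSucc 752⟩, ⟨.ofNat 250, .negSucc 285, .negSucc 22, .ofNat 617, .ofNat 789, .ofNat 304⟩, .ofNat 851, .ofNat 603, .ofNat 0, .ofNat 603, .ofNat 2182, .ofNat 0, .ofNat 175, .negSucc 127, .negSucc 48, .ofNat 0, .ofNat 124, .ofNat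 14, .ofNat 0, .ofNat 0, .ofNat 172, .ofNat 109, .ofNat 0, .ofNat 4434522621881261241718202932708507648, .ofNat 0, .ofNat 0, .ofNat 0, .ofNat 0, .ofNat 0, .ofNat 0, .ofNat 0, .ofNat 522778213038882468838228618724119674880, .ofNat 0, .ofNat 0, .ofNat 0, .ofNat 247340323173529550972357831982992850944, .ofNat 0, .ofNat 0⟩)
    (by decide +kernel)
theorem L00316 : Good (Phi V5.P V5.D (-1) (-1)) ⟨3, 0, 2, 1, 2, 2, 2, 3, 4, 3⟩ :=
  leafX_sound T5.ok_mm T5.Ymm.bz_eq (w := 200) (c := ⟨⟨.negSucc 1098, .ofNat 25, .ofNat 12, .negSucc 214, .negSucc 97, .negSucc 40⟩, ⟨.ofNat 222, .negSucc 50, .ofNat 302, .ofNat 103, .ofNat 77, .ofNat 24⟩, ⟨.ofNat 868, .negSucc 178, .ofNat 81, .ofNat 266, .ofNat 307, .ofNat 173⟩, ⟨.negSucc 3431, .ofNat 177, .negSucc 6, .negSucc 544, .negSucc 144, .negSucc 101⟩, ⟨.negSucc 418, .ofNat 52, .negSucc 9, .ofNat 255, .ofNat 419, .ofNat 72⟩,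 .ofNat 686, .ofNat 355, .ofNat 0, .ofNat 355, .ofNat 1277, .ofNat 0, .ofNat 128, .negSucc 128, .negSucc 57, .ofNat 0, .ofNat 164, .ofNat 18, .ofNat 0, .ofNat 0, .ofNat 353, .ofNat 317, .ofNat 0, .ofNat 15080803429696316847525773700568711168, .ofNat 0, .ofNat 0, .ofNat 0, .ofNat 1198235690732265980632532755650357231616, .ofNat 0, .ofNat 0, .ofNat 0, .ofNat 5439939796505011341946672010740795179008, .ofNat 0, .ofNat 0, .ofNat 0, .ofNat 3457413410336811304049526719441331552256, .ofNat 0, .ofNat 0⟩)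
    (by decide +kernel)
theorem L00317 : Good (Phi V5.P V5.D (-1) (-1)) ⟨3, 1, 2, 1, 2, 2, 2, 3, 4, 3⟩ :=
  leafX_sound T5.ok_mm T5.Ymm.bz_eq (w := 200) (c := ⟨⟨.negSucc 1102, .negSucc 16, .negSucc 0, .negSucc 165, .negSucc 24, .negSucc 44⟩, ⟨.ofNat 191, .negSucc 28, .ofNat 300, .ofNat 66, .ofNat 48, .ofNat 22⟩, ⟨.ofNat 792, .negSucc 147, .ofNat 87, .ofNat 157, .ofNat 177, .ofNat 147⟩, ⟨.negSucc 3351, .ofNat 172, .negSucc 36, .negSucc 412, .ofNat 109, .negSucc 98⟩, ⟨.negSucc 396, .ofNat 17, .negSucc 29, .ofNat 213, .ofNat 608, .ofNat 111⟩, .ofNat 642, .ofNat 325, .ofNat 0, .ofNat 325, .ofNat 1440, .ofNat 0, .ofNat 157, .negSucc 103, .negSucc 59, .ofNat 0, .ofNat 128, .ofNat 15, .ofNat 0, .ofNat 0, .ofNat 361, .ofNat 406, .ofNat 0, .ofNat 0, .ofNat 0, .ofNat 0, .ofNat 0, .ofNat 1783946539866130461194778436897676984320, .ofNat 0, .ofNat 0, .ofNat 0, .ofNat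 4767545038446611527378436267670782345216, .ofNat 0, .ofNat 0, .ofNat 0, .ofNat 3334288604735815695802017164809105047552, .ofNat 0, .ofNat 0⟩)
    (by decide +kernel)
theorem L00318 : Good (Phi V5.P V5.D (-1) (-1)) ⟨2, 0, 2, 1, 3, 6, 3, 6, 4, 3⟩ :=
  leafX_sound T5.ok_mm T5.Ymm.bz_eq (w := 214) (c := ⟨⟨.negSucc 1290, .ofNat 58, .negSucc 35, .negSucc 79, .negSucc 91, .negSucc 28⟩, ⟨.ofNat 317, .negSucc 128, .ofNat 328, .ofNat 62, .ofNat 68, .ofNat 27⟩, ⟨.ofNat 1067, .negSucc 358, .ofNat 139, .ofNat 81, .ofNat 248, .ofNat 158⟩, ⟨.negSucc 3960, .ofNat 479, .negSucc 90, .negSucc 91, .negSucc 154, .negSucc 44⟩, ⟨.negSucc 198, .negSucc 46, .ofNat 20, .ofNat 468, .ofNat 437, .ofNat 191⟩, .ofNat 418, .ofNat 111, .ofNat 0, .ofNat 111, .ofNat 638, .ofNat 0, .ofNat 165, .negSucc 66, .negSucc 34, .ofNat 0, .ofNat 128, .negSucc 1, .ofNat 0, .ofNat 0, .ofNat 264,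 .ofNat 277, .ofNat 0, .ofNat 0, .ofNat 0, .ofNat 0, .ofNat 0, .ofNat 0, .ofNat 0, .ofNat 0, .ofNat 0, .ofNat 1999910552182828933828462427079213691437056, .ofNat 0, .ofNat 0, .ofNat 0, .ofNat 2481758068012639273578151451948021891203072, .ofNat 0, .ofNat 0⟩)
    (by decide +kernel)
theorem L00319 : Good (Phi V5.P V5.D (-1) (-1)) ⟨2, 0, 2, 1, 3, 7, 3, 6, 4, 3⟩ :=
  leafX_sound T5.ok_mm T5.Ymm.bz_eq (w := 215) (c := ⟨⟨.negSucc 1396, .ofNat 144, .negSucc 62, .negSucc 99, .negSucc 84, .negSucc 45⟩, ⟨.ofNat 412, .negSucc 193, .ofNat 334, .ofNat 63, .ofNat 70, .ofNat 45⟩, ⟨.ofNat 1132, .negSucc 350, .ofNat 172, .ofNat 87, .ofNat 207, .ofNat 156⟩, ⟨.negSucc 4178, .ofNat 692, .negSucc 46, .negSucc 181, .negSucc 56, .ofNat 8⟩, ⟨.ofNat 299, .negSucc 204, .ofNat 36, .ofNat 409, .ofNat 720, .ofNat 423⟩, .ofNat 415, .ofNat 105, .ofNat 0, .ofNat 105, .ofNat 641, .ofNat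 0, .ofNat 173, .negSucc 62, .negSucc 26, .ofNat 0, .ofNat 128, .negSucc 16, .ofNat 0, .ofNat 0, .ofNat 293, .ofNat 906, .ofNat 0, .ofNat 0, .ofNat 0, .ofNat 0, .ofNat 0, .ofNat 3234650718548543110800048339856366824849408, .ofNat 0, .ofNat 0, .ofNat 0, .ofNat 4213585476117298355236247885813969548476416, .ofNat 0, .ofNat 0, .ofNat 0, .ofNat 5303533549164610300009045290876394971070464, .ofNat 0, .ofNat 0⟩)
    (by decide +kernel)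
theorem L00320 : Good (Phi V5.P V5.D (-1) (-1)) ⟨2, 0, 2, 1, 2, 3, 3, 7, 4, 3⟩ :=
  leafX_sound T5.ok_mm T5.Ymm.bz_eq (w := 202) (c := ⟨⟨.negSucc 1401, .ofNat 83, .negSucc 44, .negSucc 261, .negSucc 171, .negSucc 73⟩, ⟨.ofNat 399, .negSucc 142, .ofNat 330, .ofNat 136, .ofNat 78, .ofNat 41⟩, ⟨.ofNat 1333, .negSucc 417, .ofNat 153, .ofNat 235, .ofNat 258, .ofNat 147⟩, ⟨.negSucc 4193, .ofNat 602, .negSucc 78, .negSucc 435, .negSucc 332, .negSucc 248⟩, ⟨.ofNat 302, .ofNat 19, .negSucc 43, .ofNat 1060, .ofNat 651, .ofNat 221⟩, .ofNat 192, .ofNat 19, .ofNat 0, .ofNat 19, .ofNat 231, .ofNat 0, .ofNat 199, .negSucc 33, .negSucc 125, .ofNat 0, .ofNat 128, .ofNat 4, .ofNat 0, .ofNat 0, .ofNat 177, .ofNat 1555, .ofNat 0, .ofNat 59307814684303960866330110490463698944, .ofNat 0, .ofNat 0, .ofNat 0, .ofNat 3745210984455707573285821258140116582400, .ofNat 10229059232736280763309209267287883776,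 .ofNat 0, .ofNat 0, .ofNat 2869349365979833182717805462724374691840, .ofNat 0, .ofNat 0, .ofNat 0, .ofNat 3070036100632640400299716898930363990016, .ofNat 1031044442064127936204803697547411456, .ofNat 0⟩)
    (by decide +kernel)
theorem L00321 : Good (Phi V5.P V5.D (-1) (-1)) ⟨3, 0, 2, 1, 2, 2, 2, 2, 4, 4⟩ :=
  leafX_sound T5.ok_mm T5.Ymm.bz_eq (w := 202) (c := ⟨⟨.negSucc 1155, .negSucc 4, .ofNat 4, .negSucc 87, .negSucc 0, .ofNat 34⟩, ⟨.ofNat 235, .negSucc 39, .ofNat 310, .ofNat 34, .ofNat 20, .negSucc 4⟩, ⟨.ofNat 883, .negSucc 121, .ofNat 91, .ofNat 33, .ofNat 173, .ofNat 167⟩, ⟨.negSucc 3590, .ofNat 67, .negSucc 67, .negSucc 229, .ofNat 45, .ofNat 108⟩, ⟨.negSucc 390, .negSucc 48, .ofNat 2, .ofNat 44, .ofNat 151, .ofNat 33⟩, .ofNat 906, .ofNat 643, .ofNat 0, .ofNat 643, .ofNat 2006, .ofNat 0, .ofNat 141, .negSucc 113, .negSucc 70, .ofNat 0, .ofNat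 128, .ofNat 26, .ofNat 0, .ofNat 0, .ofNat 866, .ofNat 1446, .ofNat 0, .ofNat 0, .ofNat 0, .ofNat 0, .ofNat 0, .ofNat 1805578598172880127967596233125821153280, .ofNat 0, .ofNat 0, .ofNat 0, .ofNat 4786722925310161585801352952883634503680, .ofNat 0, .ofNat 0, .ofNat 0, .ofNat 16966072472184969911997566704642607284224, .ofNat 0, .ofNat 0⟩)
    (by decide +kernel)
theorem L00322 : Good (Phi V5.P V5.D (-1) (-1)) ⟨3, 1, 2, 1, 2, 2, 2, 2, 4, 4⟩ :=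
  leafX_sound T5.ok_mm T5.Ymm.bz_eq (w := 202) (c := ⟨⟨.negSucc 1209, .negSucc 49, .ofNat 5, .negSucc 41, .ofNat 34, .ofNat 55⟩, ⟨.ofNat 208, .negSucc 11, .ofNat 305, .ofNat 16, .ofNat 10, .negSucc 10⟩, ⟨.ofNat 903, .negSucc 66, .ofNat 64, .negSucc 66, .ofNat 89, .ofNat 127⟩, ⟨.negSucc 3671, .ofNat 90, .negSucc 52, .negSucc 107, .ofNat 168, .ofNat 169⟩, ⟨.negSucc 487, .ofNat 35, .ofNat 2, .ofNat 26, .ofNat 262, .ofNat 46⟩, .ofNat 628, .ofNat 293, .ofNat 0, .ofNat 293, .ofNat 1426, .ofNat 0, .ofNat 131, .negSucc 92, .negSucc 56, .ofNat 0, .ofNat 128, .ofNat 14, .ofNat 0, .ofNat 0, .ofNat 649, .ofNat 1456, .ofNat 0, .ofNat 0, .ofNat 0, .ofNat 0, .ofNat 0, .ofNat 0, .ofNat 0, .ofNat 0, .ofNat 0, .ofNat 0, .ofNat 0, .ofNat 0, .ofNat 0, .ofNat 8997394429088112958552315824821715861504, .ofNat 3486277468297325225208432474042925056, .ofNat 0⟩)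
    (by decide +kernel)
theorem L00323 : Good (Phi V5.P V5.D (-1) (-1)) ⟨2, 0, 2, 1, 3, 6, 2, 2, 4, 4⟩ :=
  leafX_sound T5.ok_mm T5.Ymm.bz_eq (w := 210) (c := ⟨⟨.negSucc 1275, .negSucc 10, .ofNat 1, .ofNat 7, .negSucc 18, .ofNat 94⟩, ⟨.ofNat 285, .negSucc 86, .ofNat 318, .ofNat 17, .ofNat 34, .negSucc 25⟩, ⟨.ofNat 919, .negSucc 213, .ofNat 70, .negSucc 1, .ofNat 262, .ofNat 138⟩, ⟨.negSucc 3933, .ofNat 271, .negSucc 53, .ofNat 97, .ofNat 30, .ofNat 256⟩, ⟨.negSucc 391, .negSucc 112, .ofNat 50, .ofNat 247, .ofNat 371, .ofNat 67⟩, .ofNat 656, .ofNat 324, .ofNat 0, .ofNat 324, .ofNat 1336, .ofNat 0, .ofNat 128, .negSucc 123, .negSucc 8, .ofNat 0, .ofNat 171, .negSucc 6, .ofNat 0, .ofNat 0, .ofNat 539, .ofNat 228, .ofNat 0, .ofNat 1937267424096731006127186197221851791360, .ofNat 22821199139985700368224196770773598208, .ofNat 0, .ofNat 0, .ofNat 0, .ofNat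 0, .ofNat 0, .ofNat 0, .ofNat 0, .ofNat 0, .ofNat 0, .ofNat 0, .ofNat 2759716365728721343575774103883854666268672, .ofNat 0, .ofNat 0⟩)
    (by decide +kernel)
theorem L00324 : Good (Phi V5.P V5.D (-1) (-1)) ⟨2, 0, 2, 1, 3, 7, 2, 2, 5, 8⟩ :=
  leafX_sound T5.ok_mm T5.Ymm.bz_eq (w := 215) (c := ⟨⟨.negSucc 1286, .ofNat 54, .negSucc 42, .negSucc 17, .negSucc 23, .ofNat 54⟩, ⟨.ofNat 328, .negSucc 130, .ofNat 332, .ofNat 32, .ofNat 29, .negSucc 15⟩, ⟨.ofNat 910, .negSucc 237, .ofNat 127, .ofNat 147, .ofNat 293, .ofNat 71⟩, ⟨.negSucc 3935, .ofNat 414, .negSucc 47, .ofNat 75, .ofNat 33, .ofNat 162⟩, ⟨.negSucc 80, .negSucc 251, .ofNat 148, .ofNat 350, .ofNat 475, .ofNat 36⟩, .ofNat 418, .ofNat 113, .ofNat 0, .ofNat 113, .ofNat 642, .ofNat 0, .ofNat 136, .negSucc 56, .ofNat 7, .ofNat 0, .ofNat 128, .negSucc 33, .ofNat 0, .ofNat 0, .ofNat 382, .ofNat 434, .ofNat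 0, .ofNat 0, .ofNat 0, .ofNat 0, .ofNat 0, .ofNat 3459554435365760239214364552827164682092544, .ofNat 0, .ofNat 0, .ofNat 0, .ofNat 6319716014994136582084431223941572044259328, .ofNat 0, .ofNat 0, .ofNat 0, .ofNat 16663101496522074261614955139362565795086336, .ofNat 0, .ofNat 0⟩)
    (by decide +kernel)
theorem L00325 : Good (Phi V5.P V5.D (-1) (-1)) ⟨2, 0, 2, 1, 3, 7, 2, 2, 5, 9⟩ :=
  leafX_sound T5.ok_mm T5.Ymm.bz_eq (w := 217) (c := ⟨⟨.negSucc 1225, .ofNat 40, .negSucc 31, .negSucc 13, .negSucc 56, .ofNat 32⟩, ⟨.ofNat 300, .negSucc 115, .ofNat 325, .ofNat 39, .ofNat 46, .negSucc 2⟩, ⟨.ofNat 1024, .negSucc 290, .ofNat 105, .ofNat 159, .ofNat 370, .ofNat 117⟩, ⟨.negSucc 3759, .ofNat 373, .negSucc 48, .ofNat 144, .negSucc 3, .ofNat 125⟩, ⟨.negSucc 81, .negSucc 182, .ofNat 145, .ofNat 365, .ofNat 298, .ofNat 18⟩, .ofNat 419, .ofNat 113, .ofNat 0, .ofNat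 113, .ofNat 639, .ofNat 0, .ofNat 128, .negSucc 91, .ofNat 11, .ofNat 0, .ofNat 207, .negSucc 27, .ofNat 0, .ofNat 0, .ofNat 380, .ofNat 1704, .ofNat 0, .ofNat 0, .ofNat 0, .ofNat 0, .ofNat 0, .ofNat 14539559730391995600408667263291430568722432, .ofNat 0, .ofNat 0, .ofNat 0, .ofNat 23806503427747483185128846201779159994204160, .ofNat 0, .ofNat 0, .ofNat 0, .ofNat 40933351839725465934135465674072218472022016, .ofNat 0, .ofNat 0⟩)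
    (by decide +kernel)
theorem L00326 : Good (Phi V5.P V5.D (-1) (-1)) ⟨2, 0, 2, 1, 3, 4, 2, 2, 4, 5⟩ :=
  leafX_sound T5.ok_mm T5.Ymm.bz_eq (w := 212) (c := ⟨⟨.negSucc 1136, .negSucc 64, .ofNat 11, .negSucc 11, .ofNat 20, .ofNat 80⟩, ⟨.ofNat 239, .negSucc 42, .ofNat 290, .ofNat 1, .ofNat 9, .negSucc 23⟩, ⟨.ofNat 1060, .negSucc 170, .ofNat 95, .ofNat 23, .ofNat 106, .ofNat 222⟩, ⟨.negSucc 3542, .ofNat 136, .negSucc 40, .negSucc 49, .ofNat 93, .ofNat 229⟩, ⟨.negSucc 390, .ofNat 47, .negSucc 1, .negSucc 29, .ofNat 162, .ofNat 37⟩, .ofNat 671, .ofNat 349, .ofNat 0, .ofNat 349, .ofNat 1350, .ofNat 0, .ofNat 200, .negSucc 94, .negSucc 42, .ofNat 0, .ofNat 128, .ofNat 6, .ofNat 0, .ofNat 0, .ofNat 1221, .ofNat 2450, .ofNat 0, .ofNat 0, .ofNat 0, .ofNat 0, .ofNat 0, .ofNat 0, .ofNat 0, .ofNat 0, .ofNat 0, .ofNat 0, .ofNat 0, .ofNat 0, .ofNat 0, .ofNat 12052220300744041856292362585071774615994368,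 .ofNat 0, .ofNat 0⟩)
    (by decide +kernel)
theorem L00327 : Good (Phi V5.P V5.D (-1) (-1)) ⟨2, 0, 2, 1, 3, 5, 2, 2, 4, 5⟩ :=
  leafX_sound T5.ok_mm T5.Ymm.bz_eq (w := 211) (c := ⟨⟨.negSucc 1151, .negSucc 47, .ofNat 8, .negSucc 6, .negSucc 1, .ofNat 86⟩, ⟨.ofNat 236, .negSucc 46, .ofNat 298, .ofNat 9, .ofNat 19, .negSucc 26⟩, ⟨.ofNat 1113, .negSucc 305, .ofNat 63, .ofNat 1, .ofNat 240, .ofNat 300⟩, ⟨.negSucc 3611, .ofNat 187, .negSucc 47, .negSucc 7, .ofNat 59, .ofNat 246⟩, ⟨.negSucc 440, .ofNat 66, .ofNat 4, .ofNat 48, .ofNat 196, .ofNat 22⟩, .ofNat 669, .ofNat 347, .ofNat 0, .ofNat 347, .ofNat 1344, .ofNat 0, .ofNat 135, .negSucc 93, .ofNat 4, .ofNat 0, .ofNat 128, .negSucc 13, .ofNat 0, .ofNat 0, .ofNat 1053, .ofNat 1329, .ofNat 0, .ofNat 0, .ofNat 0, .ofNat 0, .ofNat 0, .ofNat 1047807715903251822301781759386928692592640, .ofNat 0, .ofNat 0, .ofNat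 0, .ofNat 1445761250197168404358441365247582550360064, .ofNat 0, .ofNat 0, .ofNat 0, .ofNat 13494948839440150723474401580219737562939392, .ofNat 0, .ofNat 0⟩)
    (by decide +kernel)
theorem L00328 : Good (Phi V5.P V5.D (-1) (-1)) ⟨2, 0, 2, 1, 2, 3, 2, 2, 4, 5⟩ :=
  leafX_sound T5.ok_mm T5.Ymm.bz_eq (w := 197) (c := ⟨⟨.negSucc 1175, .negSucc 19, .negSucc 4, .ofNat 9, .ofNat 15, .ofNat 107⟩, ⟨.ofNat 257, .negSucc 67, .ofNat 307, .ofNat 21, .ofNat 8, .negSucc 33⟩, ⟨.ofNat 1098, .negSucc 305, .ofNat 96, .ofNat 75, .ofNat 293, .ofNat 249⟩, ⟨.negSucc 3645, .ofNat 246, .negSucc 80, .ofNat 172, .ofNat 95, .ofNat 306⟩, ⟨.negSucc 338, .negSucc 45, .ofNat 28, .ofNat 344, .ofNat 267, .ofNat 51⟩, .ofNat 418, .ofNat 113, .ofNat 0, .ofNat 113, .ofNat 642, .ofNat 0, .ofNat 128, .negSucc 74, .ofNat 11, .ofNat 0, .ofNat 165, .negSucc 20, .ofNat 0, .ofNat 0, .ofNat 549,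 .ofNat 764, .ofNat 0, .ofNat 4881702156805729879470369215262752768, .ofNat 108420859940519572912252690089639936, .ofNat 0, .ofNat 0, .ofNat 335648291040449586880958335084727894016, .ofNat 0, .ofNat 0, .ofNat 0, .ofNat 472456885591740957154121920016151478272, .ofNat 0, .ofNat 0, .ofNat 0, .ofNat 1842388791408766735550693664014399963136, .ofNat 0, .ofNat 0⟩)
    (by decide +kernel)
theorem L00329 : Good (Phi V5.P V5.D (-1) (-1)) ⟨2, 0, 2, 1, 2, 2, 3, 6, 4, 4⟩ :=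
  leafX_sound T5.ok_mm T5.Ymm.bz_eq (w := 201) (c := ⟨⟨.negSucc 1148, .negSucc 24, .ofNat 5, .negSucc 119, .negSucc 16, .ofNat 31⟩, ⟨.ofNat 255, .negSucc 61, .ofNat 293, .ofNat 48, .ofNat 16, .negSucc 5⟩, ⟨.ofNat 1068, .negSucc 276, .ofNat 105, .ofNat 157, .ofNat 66, .ofNat 145⟩, ⟨.negSucc 3573, .ofNat 289, .negSucc 49, .negSucc 320, .negSucc 0, .ofNat 102⟩, ⟨.negSucc 339, .ofNat 159, .negSucc 4, .ofNat 128, .ofNat 172, .ofNat 45⟩, .ofNat 661, .ofNat 336, .ofNat 0, .ofNat 336, .ofNat 1349, .ofNat 0, .ofNat 128, .negSucc 105, .negSucc 44, .ofNat 0, .ofNat 139, .ofNat 7, .ofNat 0, .ofNat 0, .ofNat 623, .ofNat 926, .ofNat 0, .ofNat 0, .ofNat 0, .ofNat 0, .ofNat 0, .ofNat 572781486839012114229815569856937852928, .ofNat 0, .ofNat 0, .ofNat 0, .ofNat 1680879953685291245046084630392764104704, .ofNat 0, .ofNat 0, .ofNat 0, .ofNat 4191652487662140914491417142055919419392,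 .ofNat 0, .ofNat 0⟩)
    (by decide +kernel)
theorem L00330 : Good (Phi V5.P V5.D (-1) (-1)) ⟨2, 0, 2, 1, 2, 2, 3, 7, 4, 4⟩ :=
  leafX_sound T5.ok_mm T5.Ymm.bz_eq (w := 202) (c := ⟨⟨.negSucc 1154, .ofNat 8, .negSucc 7, .negSucc 240, .negSucc 28, .ofNat 0⟩, ⟨.ofNat 281, .negSucc 73, .ofNat 284, .ofNat 88, .ofNat 33, .ofNat 4⟩, ⟨.ofNat 1106, .negSucc 280, .ofNat 121, .ofNat 328, .ofNat 29, .ofNat 102⟩, ⟨.negSucc 3574, .ofNat 413, .negSucc 45, .negSucc 641, .ofNat 9, .ofNat 23⟩, ⟨.negSucc 174, .ofNat 219, .negSucc 35, .ofNat 225, .ofNat 325, .ofNat 108⟩, .ofNat 418, .ofNat 111, .ofNat 0, .ofNat 111, .ofNat 640, .ofNat 0, .ofNat 184, .negSucc 56, .negSucc 53, .ofNat 0, .ofNat 128, .ofNat 6, .ofNat 0, .ofNat 0, .ofNat 354, .ofNat 2189, .ofNat 0, .ofNat 75760353766075005284713042732442976256, .ofNat 0, .ofNat 0, .ofNat 0, .ofNat 3580246585613378176339478335596328386560,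 .ofNat 0, .ofNat 0, .ofNat 0, .ofNat 3533119352714121906093868483035449524224, .ofNat 0, .ofNat 0, .ofNat 0, .ofNat 4646791184150960099891744855096819712000, .ofNat 0, .ofNat 0⟩)
    (by decide +kernel)
theorem L00331 : Good (Phi V5.P V5.D (-1) (-1)) ⟨2, 0, 2, 1, 2, 3, 2, 3, 4, 4⟩ :=
  leafX_sound T5.ok_mm T5.Ymm.bz_eq (w := 198) (c := ⟨⟨.negSucc 1302, .ofNat 33, .negSucc 26, .negSucc 107, .negSucc 113, .ofNat 29⟩, ⟨.ofNat 331, .negSucc 104, .ofNat 319, .ofNat 93, .ofNat 101, .ofNat 7⟩, ⟨.ofNat 1256, .negSucc 403, .ofNat 134, .ofNat 183, .ofNat 439, .ofNat 172⟩, ⟨.negSucc 3970, .ofNat 458, .negSucc 100, .negSucc 87, .negSucc 155, .ofNat 162⟩, ⟨.negSucc 54, .ofNat 82, .negSucc 15, .ofNat 698, .ofNat 713, .ofNat 112⟩, .ofNat 192, .ofNat 18, .ofNat 0, .ofNat 18, .ofNat 231, .ofNat 0, .ofNat 145, .negSucc 40, .negSucc 33, .ofNat 0, .ofNat 128, .negSucc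 27, .ofNat 0, .ofNat 0, .ofNat 308, .ofNat 1225, .ofNat 0, .ofNat 22380240171575863548950907290919108608, .ofNat 312928247610078195138613816812634112, .ofNat 0, .ofNat 0, .ofNat 550724601361012139166090631036769665024, .ofNat 76463440376369824001614299319500800, .ofNat 0, .ofNat 0, .ofNat 671933847457926137505920291251274383360, .ofNat 0, .ofNat 0, .ofNat 0, .ofNat 832250287034878615905033552785670406144, .ofNat 0, .ofNat 0⟩)
    (by decide +kernel)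
theorem L00332 : Good (Phi V5.P V5.D (-1) (-1)) ⟨2, 0, 2, 1, 2, 2, 3, 6, 4, 5⟩ :=
  leafX_sound T5.ok_mm T5.Ymm.bz_eq (w := 202) (c := ⟨⟨.negSucc 1115, .negSucc 18, .ofNat 6, .negSucc 108, .negSucc 21, .ofNat 54⟩, ⟨.ofNat 255, .negSucc 58, .ofNat 279, .ofNat 35, .ofNat 21, .negSucc 18⟩, ⟨.ofNat 1159, .negSucc 279, .ofNat 157, .ofNat 297, .ofNat 50, .ofNat 224⟩, ⟨.negSucc 3461, .ofNat 292, .negSucc 36, .negSucc 287, .negSucc 17, .ofNat 164⟩, ⟨.negSucc 253, .ofNat 155, .negSucc 35, .ofNat 30, .ofNat 170, .ofNat 20⟩, .ofNat 416, .ofNat 107, .ofNat 0, .ofNat 107, .ofNat 638, .ofNat 0, .ofNat 197, .negSucc 53, .negSucc 30, .ofNat 0, .ofNat 128, .negSucc 16, .ofNat 0, .ofNat 0, .ofNat 854, .ofNat 1505, .ofNat 0, .ofNat 28260895490083056585634150687633833984, .ofNat 987994635472200385614676394292281344, .ofNat 0, .ofNat 0, .ofNat 2955669147078850010451917964534421127168,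 .ofNat 0, .ofNat 0, .ofNat 0, .ofNat 2246532629213922247422153157254458638336, .ofNat 0, .ofNat 0, .ofNat 0, .ofNat 13298765323366247774867148900701732601856, .ofNat 0, .ofNat 0⟩)
    (by decide +kernel)
theorem L00333 : Good (Phi V5.P V5.D (-1) (-1)) ⟨2, 0, 2, 1, 2, 2, 3, 7, 4, 5⟩ :=
  out_sound (S := T5.ds_mm) T5.ok_mm (w := 32) (j := 2) (by decide +kernel)
theorem L00334 : Good (Phi V5.P V5.D (-1) (-1)) ⟨2, 0, 2, 1, 2, 3, 2, 3, 4, 5⟩ :=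
  out_sound (S := T5.ds_mm) T5.ok_mm (w := 30) (j := 2) (by decide +kernel)
theorem L00335 : Good (Phi V5.P V5.D (-1) (-1)) ⟨2, 0, 2, 1, 3, 4, 3, 4, 4, 6⟩ :=
  leafX_sound T5.ok_mm T5.Ymm.bz_eq (w := 217) (c := ⟨⟨.negSucc 1077, .negSucc 50, .ofNat 23, .ofNat 6, .ofNat 8, .ofNat 94⟩, ⟨.ofNat 236, .negSucc 42, .ofNat 266, .negSucc 7, .negSucc 0, .negSucc 35⟩, ⟨.ofNat 1176, .negSucc 216, .ofNat 167, .ofNat 140, .ofNat 134, .ofNat 471⟩, ⟨.negSucc 3343, .ofNat 161, .negSucc 20, .negSucc 4, .ofNat 45, .ofNat 244⟩, ⟨.negSucc 322, .ofNat 57, .negSucc 23, .negSucc 53, .ofNat 48, .negSucc 15⟩, .ofNat 413, .ofNat 100, .ofNat 0, .ofNat 100, .ofNat 639, .ofNat 0, .ofNat 170, .negSucc 48, .ofNat 2, .ofNat 0, .ofNat 128, .negSucc 25, .ofNat 0, .ofNat 0, .ofNat 1479, .ofNat 3046, .ofNat 0, .ofNat 0, .ofNat 0, .ofNat 0, .ofNat 0, .ofNat 0, .ofNat 0, .ofNat 0, .ofNat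 0, .ofNat 0, .ofNat 0, .ofNat 0, .ofNat 0, .ofNat 95450025781110825203741918793174049731117056, .ofNat 0, .ofNat 0⟩)
    (by decide +kernel)
theorem L00336 : Good (Phi V5.P V5.D (-1) (-1)) ⟨2, 0, 2, 1, 4, 8, 3, 5, 4, 6⟩ :=
  leafX_sound T5.ok_mm T5.Ymm.bz_eq (w := 232) (c := ⟨⟨.negSucc 1065, .negSucc 40, .ofNat 21, .ofNat 2, .ofNat 0, .ofNat 87⟩, ⟨.ofNat 234, .negSucc 42, .ofNat 260, .negSucc 1, .ofNat 6, .negSucc 34⟩, ⟨.ofNat 1186, .negSucc 271, .ofNat 289, .ofNat 166, .ofNat 134, .ofNat 551⟩, ⟨.negSucc 3300, .ofNat 203, .negSucc 32, .negSucc 8, .ofNat 22, .ofNat 230⟩, ⟨.negSucc 282, .ofNat 127, .negSucc 57, .negSucc 35, .ofNat 56, .negSucc 23⟩, .ofNat 653, .ofNat 309, .ofNat 0, .ofNat 309, .ofNat 1307, .ofNat 0, .ofNat 180, .negSucc 84, .ofNat 10, .ofNat 0, .ofNat 128, .negSucc 31, .ofNat 0, .ofNat 0, .ofNat 1999, .ofNat 5314, .ofNat 0, .ofNat 1967560775919422500290779301931729480845361152,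 .ofNat 1427368072915362443037934457460632861838147584, .ofNat 0, .ofNat 0, .ofNat 0, .ofNat 0, .ofNat 0, .ofNat 0, .ofNat 56488899968775537472196547862741307671976083456, .ofNat 0, .ofNat 0, .ofNat 0, .ofNat 962534539978133346015271378527944451300364648448, .ofNat 0, .ofNat 0⟩)
    (by decide +kernel)
theorem L00337 : Good (Phi V5.P V5.D (-1) (-1)) ⟨2, 0, 2, 1, 4, 9, 3, 5, 4, 6⟩ :=
  leafX_sound T5.ok_mm T5.Ymm.bz_eq (w := 231) (c := ⟨⟨.negSucc 1066, .negSucc 44, .ofNat 20, .ofNat 1, .ofNat 1, .ofNat 96⟩, ⟨.ofNat 230, .negSucc 42, .ofNat 266, .negSucc 1, .ofNat 4, .negSucc 38⟩, ⟨.ofNat 1356, .negSucc 367, .ofNat 281, .ofNat 113, .ofNat 186, .ofNat 588⟩, ⟨.negSucc 3321, .ofNat 206, .negSucc 35, .negSucc 2, .ofNat 32, .ofNat 270⟩, ⟨.negSucc 301, .ofNat 121, .negSucc 64, .negSucc 20, .ofNat 65, .negSucc 43⟩, .ofNat 416, .ofNat 108, .ofNat 0, .ofNat 108,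 .ofNat 641, .ofNat 0, .ofNat 183, .negSucc 53, .ofNat 18, .ofNat 0, .ofNat 128, .negSucc 40, .ofNat 0, .ofNat 0, .ofNat 1331, .ofNat 4124, .ofNat 0, .ofNat 3274902178867540605148484598053110602333683712, .ofNat 2730525749067766990525814308129637896426618880, .ofNat 0, .ofNat 0, .ofNat 74652064045820788327089371529094326772496859136, .ofNat 0, .ofNat 0, .ofNat 0, .ofNat 79214476121923422757969532868631658803794804736, .ofNat 0, .ofNat 0, .ofNat 0, .ofNat 772046850442777984695797348867504899095485480960, .ofNat 0, .ofNat 0⟩)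
    (by decide +kernel)
theorem L00338 : Good (Phi V5.P V5.D (-1) (-1)) ⟨2, 0, 2, 1, 3, 5, 3, 4, 4, 6⟩ :=
  leafX_sound T5.ok_mm T5.Ymm.bz_eq (w := 215) (c := ⟨⟨.negSucc 1078, .negSucc 55, .ofNat 27, .ofNat 34, .ofNat 18, .ofNat 111⟩, ⟨.ofNat 223, .negSucc 35, .ofNat 267, .negSucc 9, .negSucc 0, .negSucc 34⟩, ⟨.ofNat 1308, .negSucc 310, .ofNat 215, .ofNat 110, .ofNat 136, .ofNat 525⟩, ⟨.negSucc 3356, .ofNat 159, .negSucc 45, .ofNat 56, .ofNat 71, .ofNat 312⟩, ⟨.negSucc 368, .ofNat 45, .negSucc 42, .ofNat 0, .ofNat 83, .negSucc 6⟩, .ofNat 192, .ofNat 17, .ofNat 0, .ofNat 17, .ofNat 231, .ofNat 0, .ofNat 237, .negSucc 25, .ofNat 20, .ofNat 0, .ofNat 128, .negSucc 40, .ofNat 0, .ofNat 0, .ofNat 691, .ofNat 1244, .ofNat 0, .ofNat 224793910263328225204847398899813214846976, .ofNat 33872492725580727351324072705081045155840, .ofNat 0, .ofNat 0, .ofNat 7815466582596953033748345000621939277955072,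 .ofNat 0, .ofNat 0, .ofNat 0, .ofNat 6552313036133868829843011402158487399038976, .ofNat 0, .ofNat 0, .ofNat 0, .ofNat 46390761814055285167224968831894939425046528, .ofNat 0, .ofNat 0⟩)
    (by decide +kernel)
theorem L00339 : Good (Phi V5.P V5.D (-1) (-1)) ⟨2, 0, 2, 1, 3, 5, 3, 5, 4, 6⟩ :=
  out_sound (S := T5.ds_mm) T5.ok_mm (w := 34) (j := 2) (by decide +kernel)
theorem L00340 : Good (Phi V5.P V5.D (-1) (-1)) ⟨2, 0, 2, 1, 3, 4, 3, 4, 5, 14⟩ :=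
  leafX_sound T5.ok_mm T5.Ymm.bz_eq (w := 223) (c := ⟨⟨.negSucc 988, .negSucc 45, .ofNat 41, .ofNat 12, .negSucc 3, .ofNat 60⟩, ⟨.ofNat 202, .negSucc 33, .ofNat 239, .negSucc 6, .ofNat 9, .negSucc 31⟩, ⟨.ofNat 1471, .negSucc 363, .ofNat 576, .ofNat 531, .ofNat 113, .ofNat 744⟩, ⟨.negSucc 3112, .ofNat 162, .negSucc 6, .ofNat 63, .ofNat 38, .ofNat 137⟩, ⟨.negSucc 334, .ofNat 120, .negSucc 91, .negSucc 80, .ofNat 47, .negSucc 91⟩, .ofNat 657, .ofNat 323, .ofNat 0, .ofNat 323, .ofNat 1326, .ofNat 0, .ofNat 161, .negSucc 86, .ofNat 50, .ofNat 0, .ofNat 128, .negSucc 48, .ofNat 0, .ofNat 0, .ofNat 2491, .ofNat 6821, .ofNat 676539387527311685613883687366872455094206464, .ofNat 11905916747004532877266612451776893212950528, .ofNat 0, .ofNat 0, .ofNat 11209208103002210104352559410511692974757249024, .ofNat 263293092791511981709513365856730765382909952, .ofNat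 0, .ofNat 0, .ofNat 12612091613398865117424720458477594648678236160, .ofNat 315046378378225032112856346442152888707842048, .ofNat 0, .ofNat 0, .ofNat 123777987826741389142843788127437092703900270592, .ofNat 3940353950960821488975817707055985601118470144, .ofNat 0, .ofNat 0⟩)
    (by decide +kernel)
theorem L00341 : Good (Phi V5.P V5.D (-1) (-1)) ⟨2, 0, 2, 1, 3, 4, 3, 5, 5, 14⟩ :=
  leafX_sound T5.ok_mm T5.Ymm.bz_eq (w := 223) (c := ⟨⟨.negSucc 1001, .negSucc 39, .ofNat 46, .ofNat 52, .ofNat 11, .ofNat 57⟩, ⟨.ofNat 216, .negSucc 36, .ofNat 233, .negSucc 24, .negSucc 2, .negSucc 25⟩, ⟨.ofNat 1526, .negSucc 364, .ofNat 660, .ofNat 829, .ofNat 198, .ofNat 647⟩, ⟨.negSucc 3085, .ofNat 175, .negSucc 3, .ofNat 84, .ofNat 46, .ofNat 139⟩, ⟨.negSucc 269, .ofNat 125, .negSucc 115, .negSucc 167, .ofNat 17, .negSucc 85⟩, .ofNat 415, .ofNat 105, .ofNat 0, .ofNat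 105, .ofNat 642, .ofNat 0, .ofNat 205, .negSucc 49, .ofNat 53, .ofNat 0, .ofNat 128, .negSucc 85, .ofNat 0, .ofNat 0, .ofNat 2625, .ofNat 7762, .ofNat 0, .ofNat 29472507920475825601325962431365100370657280, .ofNat 1254420703426490904109211400182049441579008, .ofNat 0, .ofNat 0, .ofNat 555029058191600996874224499719052926220500992, .ofNat 0, .ofNat 0, .ofNat 0, .ofNat 472673672522074773454902165470231540115963904, .ofNat 0, .ofNat 0, .ofNat 0, .ofNat 7013642395802568301431331592018192816700129280, .ofNat 0, .ofNat 0⟩)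
    (by decide +kernel)
theorem L00342 : Good (Phi V5.P V5.D (-1) (-1)) ⟨2, 0, 2, 1, 4, 8, 4, 8, 5, 15⟩ :=
  out_sound (S := T5.ds_mm) T5.ok_mm (w := 32) (j := 1) (by decide +kernel)
theorem L00343 : Good (Phi V5.P V5.D (-1) (-1)) ⟨2, 0, 2, 1, 5, 16, 4, 9, 6, 30⟩ :=
  out_sound (S := T5.ds_mm) T5.ok_mm (w := 36) (j := 1) (by decide +kernel)
theorem L00344 : Good (Phi V5.P V5.D (-1) (-1)) ⟨2, 0, 2, 1, 5, 17, 4, 9, 6, 30⟩ :=
  out_sound (S := T5.ds_mm) T5.ok_mm (w := 44) (j := 2) (by decide +kernel)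
theorem L00345 : Good (Phi V5.P V5.D (-1) (-1)) ⟨2, 0, 2, 1, 4, 8, 4, 9, 6, 31⟩ :=
  out_sound (S := T5.ds_mm) T5.ok_mm (w := 34) (j := 1) (by decide +kernel)
theorem L00346 : Good (Phi V5.P V5.D (-1) (-1)) ⟨2, 0, 2, 1, 4, 8, 3, 5, 5, 15⟩ :=
  out_sound (S := T5.ds_mm) T5.ok_mm (w := 38) (j := 2) (by decide +kernel)
theorem L00347 : Good (Phi V5.P V5.D (-1) (-1)) ⟨2, 0, 2, 1, 4, 9, 2, 2, 5, 15⟩ :=
  out_sound (S := T5.ds_mm) T5.ok_mm (w := 36) (j := 2) (by decide +kernel)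
theorem L00348 : Good (Phi V5.P V5.D (-1) (-1)) ⟨2, 0, 2, 1, 3, 5, 2, 2, 4, 7⟩ :=
  out_sound (S := T5.ds_mm) T5.ok_mm (w := 32) (j := 2) (by decide +kernel)
theorem L00349 : Good (Phi V5.P V5.D (-1) (-1)) ⟨2, 0, 2, 1, 2, 2, 2, 3, 4, 6⟩ :=
  leafX_sound T5.ok_mm T5.Ymm.bz_eq (w := 199) (c := ⟨⟨.negSucc 1061, .negSucc 20, .ofNat 13, .negSucc 100, .negSucc 41, .ofNat 51⟩, ⟨.ofNat 242, .negSucc 54, .ofNat 261, .ofNat 44, .ofNat 43, .negSucc 16⟩, ⟨.ofNat 1330, .negSucc 294, .ofNat 284, .ofNat 436, .ofNat 14, .ofNat 339⟩, ⟨.negSucc 3294, .ofNat 268, .negSucc 36, .negSucc 133, .ofNat 14, .ofNat 192⟩, ⟨.negSucc 215, .ofNat 158, .negSucc 64, .negSucc 23, .ofNat 280, .negSucc 11⟩, .ofNat 192, .ofNat 19, .ofNat 0, .ofNat 19, .ofNat 231, .ofNat 0, .ofNat 283, .negSucc 23, .negSucc 20, .ofNat 0, .ofNat 128, .negSucc 61, .ofNat 0, .ofNat 0, .ofNat 797, .ofNat 3171,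 .ofNat 0, .ofNat 75751073567294345525673638105547014144, .ofNat 496361218634919491273075846994198528, .ofNat 0, .ofNat 0, .ofNat 3642317213397087914738141799083398922240, .ofNat 0, .ofNat 0, .ofNat 0, .ofNat 1244164325090238812484872145649342087168, .ofNat 0, .ofNat 0, .ofNat 0, .ofNat 8803071964746883573729539433975158669312, .ofNat 1700924054619091972795361655003283456, .ofNat 0⟩)
    (by decide +kernel)
theorem L00350 : Good (Phi V5.P V5.D (-1) (-1)) ⟨2, 0, 2, 1, 2, 2, 2, 3, 4, 7⟩ :=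
  out_sound (S := T5.ds_mm) T5.ok_mm (w := 30) (j := 2) (by decide +kernel)
theorem L00351 : Good (Phi V5.P V5.D (-1) (-1)) ⟨2, 0, 2, 1, 2, 3, 1, 1, 3, 3⟩ :=
  out_sound (S := T5.ds_mm) T5.ok_mm (w := 26) (j := 2) (by decide +kernel)
theorem L00352 : Good (Phi V5.P V5.D (-1) (-1)) ⟨2, 0, 2, 1, 4, 8, 3, 4, 4, 8⟩ :=
  out_sound (S := T5.ds_mm) T5.ok_mm (w := 29) (j := 1) (by decide +kernel)
theorem L00353 : Good (Phi V5.P V5.D (-1) (-1)) ⟨2, 0, 2, 1, 4, 8, 3, 5, 4, 8⟩ :=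
  out_sound (S := T5.ds_mm) T5.ok_mm (w := 36) (j := 2) (by decide +kernel)
theorem L00354 : Good (Phi V5.P V5.D (-1) (-1)) ⟨2, 0, 2, 1, 4, 8, 2, 2, 4, 9⟩ :=
  out_sound (S := T5.ds_mm) T5.ok_mm (w := 28) (j := 1) (by decide +kernel)
theorem L00355 : Good (Phi V5.P V5.D (-1) (-1)) ⟨2, 0, 2, 1, 4, 9, 2, 2, 3, 4⟩ :=
  out_sound (S := T5.ds_mm) T5.ok_mm (w := 32) (j := 2) (by decide +kernel)
theorem L00356 : Good (Phi V5.P V5.D (-1) (-1)) ⟨2, 0, 2, 1, 3, 4, 2, 3, 3, 4⟩ :=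
  out_sound (S := T5.ds_mm) T5.ok_mm (w := 30) (j := 2) (by decide +kernel)
theorem L00357 : Good (Phi V5.P V5.D (-1) (-1)) ⟨2, 0, 2, 1, 3, 4, 1, 1, 3, 5⟩ :=
  out_sound (S := T5.ds_mm) T5.ok_mm (w := 28) (j := 2) (by decide +kernel)
theorem L00358 : Good (Phi V5.P V5.D (-1) (-1)) ⟨2, 0, 2, 1, 3, 5, 1, 1, 2, 2⟩ :=
  out_sound (S := T5.ds_mm) T5.ok_mm (w := 26) (j := 2) (by decide +kernel)
theorem L00359 : Good (Phi V5.P V5.D (-1) (-1)) ⟨2, 0, 2, 1, 2, 2, 1, 1, 2, 3⟩ :=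
  out_sound (S := T5.ds_mm) T5.ok_mm (w := 24) (j := 2) (by decide +kernel)
theorem L00360 : Good (Phi V5.P V5.D (-1) (-1)) ⟨2, 0, 2, 1, 2, 3, 1, 1, 1, 1⟩ :=
  out_sound (S := T5.ds_mm) T5.ok_mm (w := 22) (j := 2) (by decide +kernel)
theorem L00361 : Good (Phi V5.P V5.D (-1) (-1)) ⟨2, 1, 1, 0, 1, 0, 3, 0, 5, 0⟩ :=
  leafX_sound T5.ok_mm T5.Ymm.bz_eq (w := 190) (c := ⟨⟨.ofNat 484, .ofNat 143, .ofNat 285, .ofNat 396, .ofNat 100, .negSucc 836⟩, ⟨.negSucc 9, .ofNat 0, .negSucc 179, .negSucc 99, .negSucc 3, .ofNat 73⟩, ⟨.negSucc 504, .negSucc 51, .negSucc 303, .negSucc 107, .negSucc 220, .ofNat 700⟩, ⟨.ofNat 1493, .negSucc 42, .ofNat 348, .ofNat 818, .ofNat 277, .negSucc 1995⟩, ⟨.ofNat 134, .negSucc 334, .ofNat 13, .negSucc 1376, .ofNat 111, .ofNat 88⟩, .ofNat 517, .ofNat 144, .ofNat 0, .ofNat 144, .ofNat 1776, .ofNat 0, .ofNat 355, .negSucc 63, .negSucc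 171, .ofNat 0, .ofNat 128, .ofNat 20, .ofNat 0, .ofNat 0, .ofNat 468, .ofNat 4477, .ofNat 0, .ofNat 0, .ofNat 1990767230155626069602365859692544, .ofNat 0, .ofNat 0, .ofNat 0, .ofNat 99372134669356176129521581360676864, .ofNat 0, .ofNat 1438194055948979236017992342878289920, .ofNat 0, .ofNat 83947534802501741925481445855330304, .ofNat 0, .ofNat 0, .ofNat 0, .ofNat 47576750206007295122185444889985024, .ofNat 0⟩)
    (by decide +kernel)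
theorem L00362 : Good (Phi V5.P V5.D (-1) (-1)) ⟨2, 1, 1, 0, 1, 0, 3, 0, 5, 1⟩ :=
  leafX_sound T5.ok_mm T5.Ymm.bz_eq (w := 190) (c := ⟨⟨.negSucc 150, .negSucc 160, .ofNat 142, .ofNat 369, .ofNat 40, .negSucc 717⟩, ⟨.negSucc 84, .ofNat 91, .ofNat 197, .negSucc 86, .negSucc 7, .ofNat 68⟩, ⟨.ofNat 390, .ofNat 218, .negSucc 315, .negSucc 644, .negSucc 183, .ofNat 516⟩, ⟨.negSucc 361, .negSucc 243, .ofNat 130, .ofNat 769, .ofNat 85, .negSucc 1793⟩, ⟨.ofNat 30, .negSucc 227, .ofNat 110, .negSucc 1520, .ofNat 181, .ofNat 92⟩, .ofNat 365, .ofNat 34, .ofNat 0, .ofNat 34, .ofNat 731, .ofNat 0, .ofNat 331, .negSucc 23, .negSucc 162, .ofNat 0, .ofNat 128, .ofNat 20, .ofNat 0, .ofNat 0, .ofNat 408, .ofNat 5303, .ofNat 0, .ofNat 0, .ofNat 0, .ofNat 0, .ofNat 0, .ofNat 0, .ofNat 89472966964793866705876910577025024, .ofNat 0, .ofNat 0, .ofNat 0, .ofNat 45081963891814991343477901181845504,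 .ofNat 0, .ofNat 0, .ofNat 0, .ofNat 0, .ofNat 0⟩)
    (by decide +kernel)
theorem L00363 : Good (Phi V5.P V5.D (-1) (-1)) ⟨2, 1, 1, 0, 1, 0, 3, 0, 4, 1⟩ :=
  leafX_sound T5.ok_mm T5.Ymm.bz_eq (w := 185) (c := ⟨⟨.negSucc 647, .negSucc 406, .ofNat 204, .ofNat 169, .negSucc 25, .negSucc 781⟩, ⟨.negSucc 141, .ofNat 146, .ofNat 488, .negSucc 90, .ofNat 24, .ofNat 87⟩, ⟨.ofNat 937, .ofNat 400, .negSucc 246, .negSucc 954, .negSucc 12, .ofNat 702⟩, ⟨.negSucc 1781, .negSucc 477, .ofNat 185, .ofNat 324, .ofNat 29, .negSucc 2085⟩, ⟨.negSucc 89, .negSucc 43, .negSucc 31, .negSucc 1237, .ofNat 136, .ofNat 157⟩, .ofNat 368, .ofNat 36, .ofNat 0, .ofNat 36, .ofNat 723, .ofNat 0, .ofNat 272, .negSucc 24, .negSucc 166, .ofNat 0, .ofNat 128, .ofNat 25, .ofNat 0, .ofNat 0, .ofNat 519, .ofNat 5934, .ofNat 0, .ofNat 0, .ofNat 0, .ofNat 0, .ofNat 1983046042103463443087290332744777728,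 .ofNat 0, .ofNat 1568805257735803623971214980022272, .ofNat 0, .ofNat 745856954814023690502711084329205760, .ofNat 0, .ofNat 1560583238343789185977005050429440, .ofNat 0, .ofNat 0, .ofNat 0, .ofNat 0, .ofNat 0⟩)
    (by decide +kernel)
theorem L00364 : Good (Phi V5.P V5.D (-1) (-1)) ⟨2, 1, 1, 0, 1, 0, 3, 0, 3, 1⟩ :=
  leafX_sound T5.ok_mm T5.Ymm.bz_eq (w := 181) (c := ⟨⟨.negSucc 1278, .negSucc 519, .ofNat 120, .negSucc 45, .negSucc 9, .negSucc 326⟩, ⟨.negSucc 144, .ofNat 165, .ofNat 713, .negSucc 41, .ofNat 11, .ofNat 43⟩, ⟨.ofNat 1541, .ofNat 508, .negSucc 206, .negSucc 885, .ofNat 31, .ofNat 589⟩, ⟨.negSucc 3569, .negSucc 426, .ofNat 31, .negSucc 202, .ofNat 21, .negSucc 803⟩, ⟨.negSucc 148, .negSucc 2, .ofNat 0, .negSucc 958, .ofNat 161, .ofNat 262⟩, .ofNat 368, .ofNat 36, .ofNat 0, .ofNat 36, .ofNat 727, .ofNat 0, .ofNat 277, .negSucc 24, .negSucc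 137, .ofNat 0, .ofNat 128, .ofNat 27, .ofNat 0, .ofNat 0, .ofNat 606, .ofNat 10642, .ofNat 0, .ofNat 0, .ofNat 0, .ofNat 0, .ofNat 899369333490403264733619900894937088, .ofNat 0, .ofNat 31102594486722308897533331505152, .ofNat 0, .ofNat 0, .ofNat 0, .ofNat 0, .ofNat 0, .ofNat 1688155711355578982221279635234095104, .ofNat 0, .ofNat 0, .ofNat 0⟩)
    (by decide +kernel)
theorem L00365 : Good (Phi V5.P V5.D (-1) (-1)) ⟨2, 1, 1, 0, 1, 0, 3, 0, 2, 1⟩ :=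
  out_sound (S := T5.ds_mm) T5.ok_mm (w := 19) (j := 1) (by decide +kernel)
theorem L00366 : Good (Phi V5.P V5.D (-1) (-1)) ⟨2, 1, 1, 0, 1, 0, 3, 0, 1, 1⟩ :=
  out_sound (S := T5.ds_mm) T5.ok_mm (w := 17) (j := 1) (by decide +kernel)
theorem L00367 : Good (Phi V5.P V5.D (-1) (-1)) ⟨2, 1, 1, 0, 1, 0, 3, 1, 3, 0⟩ :=
  leafX_sound T5.ok_mm T5.Ymm.bz_eq (w := 179) (c := ⟨⟨.ofNat 761, .negSucc 132, .negSucc 35, .negSucc 7, .ofNat 17, .negSucc 2225⟩, ⟨.negSucc 155, .ofNat 67, .ofNat 182, .negSucc 20, .negSucc 3, .ofNat 208⟩, ⟨.negSucc 625, .ofNat 46, .negSucc 83, .negSucc 304, .negSucc 113, .ofNat 2103⟩, ⟨.ofNat 1910, .negSucc 286, .negSucc 106, .ofNat 109, .ofNat 94, .negSucc 5854⟩, ⟨.negSucc 60, .negSucc 59, .ofNat 161, .negSucc 899, .ofNat 82, .ofNat 24⟩, .ofNat 366, .ofNat 34, .ofNat 0, .ofNat 34, .ofNat 726, .ofNat 0, .ofNat 365, .negSucc 23, .negSucc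 257, .ofNat 0, .ofNat 128, .ofNat 33, .ofNat 0, .ofNat 0, .ofNat 625, .ofNat 1282, .ofNat 0, .ofNat 0, .ofNat 0, .ofNat 0, .ofNat 0, .ofNat 0, .ofNat 52988246928870726488224992067584, .ofNat 0, .ofNat 0, .ofNat 0, .ofNat 66161446907522266212587207131136, .ofNat 0, .ofNat 0, .ofNat 0, .ofNat 0, .ofNat 0⟩)
    (by decide +kernel)
theorem L00368 : Good (Phi V5.P V5.D (-1) (-1)) ⟨2, 1, 1, 0, 1, 0, 3, 1, 3, 1⟩ :=
  leafX_sound T5.ok_mm T5.Ymm.bz_eq (w := 181) (c := ⟨⟨.negSucc 1380, .negSucc 474, .ofNat 62, .negSucc 104, .ofNat 63, .negSucc 30⟩, ⟨.negSucc 117, .ofNat 159, .ofNat 713, .negSucc 13, .negSucc 7, .negSucc 4⟩, ⟨.ofNat 1596, .ofNat 435, .negSucc 195, .negSucc 666, .negSucc 115, .ofNat 300⟩, ⟨.negSucc 3828, .negSucc 284, .negSucc 6, .negSucc 296, .ofNat 153, .negSucc 84⟩, ⟨.negSucc 61, .negSucc 11, .negSucc 26, .negSucc 662, .ofNat 57, .ofNat 60⟩,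 .ofNat 516, .ofNat 91, .ofNat 0, .ofNat 91, .ofNat 1642, .ofNat 0, .ofNat 427, .negSucc 36, .negSucc 126, .ofNat 0, .ofNat 128, .ofNat 16, .ofNat 0, .ofNat 0, .ofNat 727, .ofNat 5740, .ofNat 0, .ofNat 0, .ofNat 0, .ofNat 0, .ofNat 0, .ofNat 0, .ofNat 0, .ofNat 0, .ofNat 0, .ofNat 0, .ofNat 87912178703473624323460580769792, .ofNat 0, .ofNat 0, .ofNat 0, .ofNat 0, .ofNat 0⟩)
    (by decide +kernel)
theorem L00369 : Good (Phi V5.P V5.D (-1) (-1)) ⟨2, 1, 1, 0, 1, 0, 3, 1, 2, 1⟩ :=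
  leafX_sound T5.ok_mm T5.Ymm.bz_eq (w := 178) (c := ⟨⟨.negSucc 1375, .negSucc 448, .ofNat 94, .negSucc 113, .ofNat 44, .ofNat 482⟩, ⟨.negSucc 101, .ofNat 158, .ofNat 690, .negSucc 14, .negSucc 23, .negSucc 49⟩, ⟨.ofNat 1753, .ofNat 458, .negSucc 179, .negSucc 532, .negSucc 89, .ofNat 203⟩, ⟨.negSucc 3805, .negSucc 243, .ofNat 32, .negSucc 312, .ofNat 111, .ofNat 1113⟩, ⟨.negSucc 69, .ofNat 13, .ofNat 0, .negSucc 603, .ofNat 96, .ofNat 108⟩, .ofNat 363, .ofNat 34, .ofNat 0, .ofNat 34, .ofNat 733, .ofNat 0, .ofNat 140, .negSucc 21, .negSucc 102, .ofNat 0, .ofNat 128, .ofNat 21, .ofNat 0, .ofNat 0, .ofNat 709, .ofNat 12009, .ofNat 18098037808531269384990260482539520, .ofNat 0, .ofNat 0, .ofNat 0, .ofNat 100075554960880113723601879172120576, .ofNat 0, .ofNat 1314031497062922210923683774464, .ofNat 0, .ofNat 0, .ofNat 0, .ofNat 0, .ofNat 0, .ofNat 129903091609254249891348423133626368,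 .ofNat 0, .ofNat 0, .ofNat 0⟩)
    (by decide +kernel)
theorem L00370 : Good (Phi V5.P V5.D (-1) (-1)) ⟨2, 1, 1, 0, 1, 0, 3, 1, 1, 1⟩ :=
  out_sound (S := T5.ds_mm) T5.ok_mm (w := 17) (j := 1) (by decide +kernel)
theorem L00371 : Good (Phi V5.P V5.D (-1) (-1)) ⟨2, 1, 1, 0, 1, 0, 2, 1, 3, 0⟩ :=
  leafX_sound T5.ok_mm T5.Ymm.bz_eq (w := 175) (c := ⟨⟨.ofNat 557, .negSucc 408, .ofNat 87, .ofNat 212, .negSucc 53, .negSucc 1926⟩, ⟨.negSucc 118, .ofNat 91, .ofNat 180, .negSucc 67, .negSucc 6, .ofNat 174⟩, ⟨.negSucc 520, .ofNat 254, .negSucc 116, .negSucc 433, .ofNat 50, .ofNat 1821⟩, ⟨.ofNat 1455, .negSucc 927, .ofNat 115, .ofNat 530, .negSucc 209, .negSucc 4953⟩, ⟨.negSucc 406, .ofNat 85, .ofNat 589, .negSucc 549, .ofNat 108, .ofNat 238⟩, .ofNat 527, .ofNat 132, .ofNat 0, .ofNat 132, .ofNat 1680, .ofNat 0, .ofNat 382, .negSucc 52, .negSucc 203, .ofNat 0,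 .ofNat 128, .ofNat 25, .ofNat 0, .ofNat 0, .ofNat 549, .ofNat 486, .ofNat 0, .ofNat 0, .ofNat 63974739996245810940276113408, .ofNat 0, .ofNat 0, .ofNat 0, .ofNat 0, .ofNat 0, .ofNat 0, .ofNat 0, .ofNat 5094965646320778250198538256384, .ofNat 0, .ofNat 0, .ofNat 0, .ofNat 0, .ofNat 0⟩)
    (by decide +kernel)
theorem L00372 : Good (Phi V5.P V5.D (-1) (-1)) ⟨2, 1, 1, 0, 1, 0, 2, 1, 3, 1⟩ :=
  leafX_sound T5.ok_mm T5.Ymm.bz_eq (w := 176) (c := ⟨⟨.negSucc 1345, .negSucc 471, .ofNat 63, .negSucc 100, .ofNat 164, .ofNat 0⟩, ⟨.negSucc 115, .ofNat 153, .ofNat 655, .negSucc 6, .negSucc 13, .ofNat 2⟩, ⟨.ofNat 1354, .ofNat 449, .negSucc 134, .negSucc 482, .negSucc 219, .ofNat 243⟩, ⟨.negSucc 3727, .negSucc 303, .ofNat 26, .negSucc 280, .ofNat 395, .negSucc 20⟩, ⟨.negSucc 111, .ofNat 21, .negSucc 23, .negSucc 517, .ofNat 87, .ofNat 78⟩, .ofNat 366, .ofNat 35, .ofNat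 0, .ofNat 35, .ofNat 731, .ofNat 0, .ofNat 727, .negSucc 21, .negSucc 218, .ofNat 0, .ofNat 128, .ofNat 35, .ofNat 0, .ofNat 0, .ofNat 976, .ofNat 1394, .ofNat 0, .ofNat 0, .ofNat 0, .ofNat 0, .ofNat 0, .ofNat 0, .ofNat 0, .ofNat 0, .ofNat 0, .ofNat 0, .ofNat 4866272426230117495076437360640, .ofNat 0, .ofNat 0, .ofNat 0, .ofNat 0, .ofNat 0⟩)
    (by decide +kernel)
theorem L00373 : Good (Phi V5.P V5.D (-1) (-1)) ⟨2, 1, 1, 0, 1, 0, 2, 1, 4, 4⟩ :=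
  leafX_sound T5.ok_mm T5.Ymm.bz_eq (w := 183) (c := ⟨⟨.negSucc 1380, .negSucc 364, .ofNat 25, .negSucc 52, .ofNat 125, .ofNat 90⟩, ⟨.negSucc 91, .ofNat 131, .ofNat 620, .negSucc 6, .negSucc 11, .negSucc 10⟩, ⟨.ofNat 1590, .ofNat 338, .negSucc 36, .negSucc 396, .negSucc 255, .ofNat 13⟩, ⟨.negSucc 3791, .negSucc 128, .negSucc 3, .negSucc 193, .ofNat 322, .ofNat 220⟩, ⟨.negSucc 67, .ofNat 20, .negSucc 10, .negSucc 440, .ofNat 70, .ofNat 26⟩, .ofNat 367, .ofNat 38, .ofNat 0, .ofNat 38, .ofNat 727, .ofNat 0, .ofNat 251, .negSucc 22, .negSucc 83, .ofNat 0, .ofNat 128, .ofNat 14, .ofNat 0, .ofNat 0, .ofNat 628, .ofNat 6188, .ofNat 0, .ofNat 0, .ofNat 0, .ofNat 0, .ofNat 0, .ofNat 0, .ofNat 0, .ofNat 0, .ofNat 0, .ofNat 0, .ofNat 0, .ofNat 0, .ofNat 0, .ofNat 0, .ofNat 0, .ofNat 0⟩)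
    (by decide +kernel)
theorem L00374 : Good (Phi V5.P V5.D (-1) (-1)) ⟨2, 1, 1, 0, 2, 0, 2, 1, 4, 5⟩ :=
  leafX_sound T5.ok_mm T5.Ymm.bz_eq (w := 198) (c := ⟨⟨.negSucc 1321, .negSucc 320, .ofNat 11, .negSucc 7, .ofNat 137, .ofNat 74⟩, ⟨.negSucc 58, .ofNat 104, .ofNat 563, .negSucc 10, .negSucc 19, .negSucc 9⟩, ⟨.ofNat 1580, .ofNat 321, .ofNat 12, .negSucc 58, .negSucc 349, .negSucc 26⟩, ⟨.negSucc 3613, .negSucc 72, .negSucc 7, .negSucc 53, .ofNat 319, .ofNat 202⟩, ⟨.negSucc 24, .ofNat 10, .ofNat 1, .negSucc 175, .ofNat 20, .ofNat 9⟩, .ofNat 183, .ofNat 6, .ofNat 0, .ofNat 6, .ofNat 244, .ofNat 0, .ofNat 240, .negSucc 6, .negSucc 109, .ofNat 0, .ofNat 128, .ofNat 14, .ofNat 0, .ofNat 0, .ofNat 623, .ofNat 22221, .ofNat 239241138514282572950171715703331094528, .ofNat 0, .ofNat 57581314544843852676307381181743104, .ofNat 0, .ofNat 2320244726671065222786500240396626427904,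 .ofNat 0, .ofNat 1249529063520864832983787806671241216, .ofNat 0, .ofNat 829129358990687415228922968059114684416, .ofNat 0, .ofNat 944205076336857448046239718226001920, .ofNat 0, .ofNat 0, .ofNat 0, .ofNat 0, .ofNat 0⟩)
    (by decide +kernel)
theorem L00375 : Good (Phi V5.P V5.D (-1) (-1)) ⟨3, 2, 1, 0, 2, 1, 2, 1, 4, 5⟩ :=
  leafX_sound T5.ok_mm T5.Ymm.bz_eq (w := 202) (c := ⟨⟨.negSucc 1337, .negSucc 131, .ofNat 44, .negSucc 12, .ofNat 100, .ofNat 87⟩, ⟨.negSucc 79, .ofNat 30, .ofNat 581, .negSucc 9, .negSucc 2, .negSucc 5⟩, ⟨.ofNat 1435, .ofNat 104, .ofNat 10, .negSucc 176, .negSucc 236, .ofNat 59⟩, ⟨.negSucc 3675, .negSucc 13, .negSucc 11, .negSucc 53, .ofNat 282, .ofNat 237⟩, ⟨.negSucc 291, .ofNat 13, .ofNat 0, .negSucc 184, .ofNat 101, .ofNat 39⟩, .ofNat 379, .ofNat 35, .ofNat 0, .ofNat 35, .ofNat 695, .ofNat 0, .ofNat 203, .negSucc 19, .negSucc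 53, .ofNat 0, .ofNat 128, .ofNat 11, .ofNat 0, .ofNat 0, .ofNat 581, .ofNat 17708, .ofNat 1019886700420766667381742807298695233536, .ofNat 0, .ofNat 0, .ofNat 0, .ofNat 0, .ofNat 0, .ofNat 0, .ofNat 0, .ofNat 26161613359573161505471155288268813107200, .ofNat 0, .ofNat 1053404386329400841335130708298956800, .ofNat 0, .ofNat 27151717161126650040022943828527699460096, .ofNat 0, .ofNat 1095105428580060083774439166729781248, .ofNat 0⟩)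
    (by decide +kernel)
theorem L00376 : Good (Phi V5.P V5.D (-1) (-1)) ⟨3, 3, 1, 0, 2, 1, 2, 1, 5, 10⟩ :=
  leafX_sound T5.ok_mm T5.Ymm.bz_eq (w := 208) (c := ⟨⟨.negSucc 1514, .negSucc 189, .ofNat 46, .negSucc 9, .ofNat 140, .ofNat 59⟩, ⟨.negSucc 46, .ofNat 89, .ofNat 604, .negSucc 6, .negSucc 8, .negSucc 6⟩, ⟨.ofNat 1682, .ofNat 167, .negSucc 37, .negSucc 242, .negSucc 351, .ofNat 9⟩, ⟨.negSucc 3766, .negSucc 37, .negSucc 4, .negSucc 41, .ofNat 342, .ofNat 146⟩, ⟨.negSucc 297, .ofNat 19, .ofNat 1, .negSucc 201, .ofNat 123, .ofNat 20⟩, .ofNat 355, .ofNat 34, .ofNat 0, .ofNat 34, .ofNat 760, .ofNat 0, .ofNat 203, .negSucc 22, .negSucc 71, .ofNat 0, .ofNat 128, .ofNat 13, .ofNat 0, .ofNat 0, .ofNat 646, .ofNat 25141, .ofNat 18055093194800433488512327737650104500224, .ofNat 0, .ofNat 17598341954390040596565280249872384, .ofNat 0, .ofNat 174050787746329907383165431323572333182976,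 .ofNat 0, .ofNat 41255870457815278056732762903259643904, .ofNat 0, .ofNat 131345674576934517155125496867006319689728, .ofNat 0, .ofNat 103912759087314498677429855433177169920, .ofNat 0, .ofNat 418685121704650384915482555281631030018048, .ofNat 0, .ofNat 69499583548745950183737890067166789632, .ofNat 0⟩)
    (by decide +kernel)
theorem L00377 : Good (Phi V5.P V5.D (-1) (-1)) ⟨3, 3, 1, 0, 2, 1, 2, 1, 5, 11⟩ :=
  leafX_sound T5.ok_mm T5.Ymm.bz_eq (w := 208) (c := ⟨⟨.negSucc 1468, .negSucc 171, .ofNat 37, .ofNat 7, .ofNat 138, .ofNat 59⟩, ⟨.negSucc 46, .ofNat 83, .ofNat 572, .negSucc 7, .negSucc 4, .negSucc 4⟩, ⟨.ofNat 1719, .ofNat 135, .ofNat 19, .negSucc 229, .negSucc 374, .ofNat 2⟩, ⟨.negSucc 3645, .negSucc 12, .negSucc 17, .negSucc 2, .ofNat 332, .ofNat 141⟩, ⟨.negSucc 299, .ofNat 11, .negSucc 5, .negSucc 162, .ofNat 134, .ofNat 17⟩, .ofNat 364, .ofNat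 94, .ofNat 0, .ofNat 94, .ofNat 837, .ofNat 0, .ofNat 194, .negSucc 57, .negSucc 55, .ofNat 0, .ofNat 128, .ofNat 14, .ofNat 0, .ofNat 0, .ofNat 650, .ofNat 33144, .ofNat 55089497566683914553430887013978921238528, .ofNat 0, .ofNat 1080194868195994835083902090976690176, .ofNat 0, .ofNat 366324159148865459647256648605776350281728, .ofNat 0, .ofNat 54891437075698186436309262336935329792, .ofNat 0, .ofNat 190450773625495017627941554986452334411776, .ofNat 0, .ofNat 164387059423159457161288049181002301440, .ofNat 0, .ofNat 554832927399761778045654484163045600788480, .ofNat 0, .ofNat 74833043095501440709955752895545606144, .ofNat 0⟩)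
    (by decide +kernel)
theorem L00378 : Good (Phi V5.P V5.D (-1) (-1)) ⟨2, 1, 1, 0, 1, 0, 2, 1, 3, 3⟩ :=
  leafX_sound T5.ok_mm T5.Ymm.bz_eq (w := 180) (c := ⟨⟨.negSucc 1254, .negSucc 262, .ofNat 24, .ofNat 21, .ofNat 81, .ofNat 215⟩, ⟨.negSucc 122, .ofNat 109, .ofNat 560, .negSucc 13, .ofNat 40, .negSucc 23⟩, ⟨.ofNat 1680, .ofNat 133, .ofNat 98, .negSucc 329, .negSucc 251, .ofNat 96⟩, ⟨.negSucc 3451, .ofNat 27, .negSucc 27, .negSucc 6, .ofNat 255, .ofNat 572⟩, ⟨.negSucc 184, .ofNat 17, .negSucc 6, .negSucc 283, .ofNat 160, .ofNat 112⟩, .ofNat 183, .ofNat 6, .ofNat 0, .ofNat 6, .ofNat 243, .ofNat 0, .ofNat 257, .negSucc 8, .negSucc 81, .ofNat 0, .ofNat 128, .ofNat 13, .ofNat 0, .ofNat 0, .ofNat 756, .ofNat 29297, .ofNat 29952381891845228458391802598129664, .ofNat 0, .ofNat 1889813788172790181786952925184, .ofNat 0, .ofNat 203872451414217735828727243898617856,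 .ofNat 0, .ofNat 0, .ofNat 0, .ofNat 114588662522205366194825945036095488, .ofNat 0, .ofNat 1847476802834740881240201625600, .ofNat 0, .ofNat 494290994509121063147868530598215680, .ofNat 0, .ofNat 11511591784591140946448163536896, .ofNat 0⟩)
    (by decide +kernel)
theorem L00379 : Good (Phi V5.P V5.D (-1) (-1)) ⟨2, 1, 1, 0, 1, 0, 2, 1, 1, 1⟩ :=
  out_sound (S := T5.ds_mm) T5.ok_mm (w := 16) (j := 1) (by decide +kernel)
theorem L00380 : Good (Phi V5.P V5.D (-1) (-1)) ⟨2, 1, 1, 0, 1, 0, 2, 2, 4, 0⟩ :=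
  leafX_sound T5.ok_mm T5.Ymm.bz_eq (w := 179) (c := ⟨⟨.negSucc 5, .negSucc 238, .ofNat 283, .ofNat 427, .negSucc 345, .negSucc 873⟩, ⟨.negSucc 104, .ofNat 80, .ofNat 159, .negSucc 79, .ofNat 39, .ofNat 104⟩, ⟨.negSucc 12, .ofNat 141, .negSucc 214, .negSucc 674, .ofNat 330, .ofNat 774⟩, ⟨.negSucc 97, .negSucc 269, .ofNat 562, .ofNat 1112, .negSucc 890, .negSucc 2265⟩, ⟨.negSucc 107, .ofNat 96, .ofNat 234, .negSucc 487, .negSucc 56, .ofNat 3⟩, .ofNat 516, .ofNat 113, .ofNat 0, .ofNat 113, .ofNat 1703, .ofNat 0, .ofNat 297, .negSucc 43, .negSucc 283, .ofNat 0, .ofNat 128, .ofNat 27, .ofNat 0, .ofNat 0, .ofNat 587, .ofNat 561, .ofNat 0, .ofNat 0, .ofNat 0, .ofNat 0, .ofNat 0, .ofNat 0, .ofNat 0, .ofNat 0, .ofNat 0, .ofNat 0, .ofNat 149373570659954801419699043172352, .ofNat 0, .ofNat 0, .ofNat 0, .ofNat 0, .ofNat 0⟩)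
    (by decide +kernel)
theorem L00381 : Good (Phi V5.P V5.D (-1) (-1)) ⟨2, 1, 1, 0, 1, 0, 2, 2, 4, 1⟩ :=
  leafX_sound T5.ok_mm T5.Ymm.bz_eq (w := 180) (c := ⟨⟨.negSucc 802, .negSucc 418, .ofNat 146, .ofNat 165, .negSucc 4, .negSucc 438⟩, ⟨.negSucc 113, .ofNat 121, .ofNat 465, .negSucc 43, .ofNat 8, .ofNat 53⟩, ⟨.ofNat 805, .ofNat 328, .negSucc 157, .negSucc 660, .ofNat 8, .ofNat 430⟩, ⟨.negSucc 2292, .negSucc 397, .ofNat 247, .ofNat 412, .negSucc 8, .negSucc 1106⟩, ⟨.negSucc 273, .ofNat 178, .ofNat 195, .negSucc 420, .ofNat 25, .ofNat 91⟩, .ofNat 523, .ofNat 141, .ofNat 0, .ofNat 141, .ofNat 1724, .ofNat 0, .ofNat 406, .negSucc 56, .negSucc 236, .ofNat 0, .ofNat 128, .ofNat 30, .ofNat 0, .ofNat 0, .ofNat 643, .ofNat 657, .ofNat 0, .ofNat 0, .ofNat 0, .ofNat 0, .ofNat 0, .ofNat 0, .ofNat 0, .ofNat 0, .ofNat 0, .ofNat 0, .ofNat 103599149300894550924230754566144,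 .ofNat 0, .ofNat 0, .ofNat 0, .ofNat 0, .ofNat 0⟩)
    (by decide +kernel)
theorem L00382 : Good (Phi V5.P V5.D (-1) (-1)) ⟨2, 1, 1, 0, 1, 0, 3, 6, 3, 0⟩ :=
  leafX_sound T5.ok_mm T5.Ymm.bz_eq (w := 178) (c := ⟨⟨.negSucc 529, .negSucc 377, .ofNat 166, .ofNat 40, .ofNat 155, .negSucc 598⟩, ⟨.negSucc 121, .ofNat 113, .ofNat 386, .negSucc 26, .negSucc 11, .ofNat 74⟩, ⟨.ofNat 532, .ofNat 236, .negSucc 165, .negSucc 310, .negSucc 110, .ofNat 412⟩, ⟨.negSucc 1512, .negSucc 366, .ofNat 330, .ofNat 127, .ofNat 356, .negSucc 1564⟩, ⟨.negSucc 142, .ofNat 121, .negSucc 21, .negSucc 363, .ofNat 0, .ofNat 14⟩, .ofNat 512, .ofNat 104, .ofNat 0, .ofNat 104, .ofNat 1704, .ofNat 0, .ofNat 300, .negSucc 39, .negSucc 274, .ofNat 0, .ofNat 128, .ofNat 26, .ofNat 0, .ofNat 0, .ofNat 620, .ofNat 418, .ofNat 0, .ofNat 0, .ofNat 0, .ofNat 0, .ofNat 0, .ofNat 0, .ofNat 34607333965494016655203611181056,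 .ofNat 0, .ofNat 0, .ofNat 0, .ofNat 0, .ofNat 0, .ofNat 0, .ofNat 0, .ofNat 0, .ofNat 0⟩)
    (by decide +kernel)
theorem L00383 : Good (Phi V5.P V5.D (-1) (-1)) ⟨2, 1, 1, 0, 1, 0, 3, 7, 3, 0⟩ :=
  leafX_sound T5.ok_mm T5.Ymm.bz_eq (w := 179) (c := ⟨⟨.negSucc 621, .negSucc 207, .ofNat 132, .negSucc 20, .ofNat 523, .negSucc 335⟩, ⟨.negSucc 51, .ofNat 66, .ofNat 258, .negSucc 17, .negSucc 37, .ofNat 37⟩, ⟨.ofNat 560, .ofNat 77, .negSucc 94, .negSucc 160, .negSucc 550, .ofNat 166⟩, ⟨.negSucc 1650, .negSucc 184, .ofNat 235, .negSucc 124, .ofNat 1312, .negSucc 855⟩, ⟨.negSucc 187, .ofNat 9, .negSucc 26, .negSucc 363, .ofNat 19, .ofNat 206⟩, .ofNat 374, .ofNat 81, .ofNat 0, .ofNat 81, .ofNat 784, .ofNat 0, .ofNat 346, .negSucc 44, .negSucc 356, .ofNat 0, .ofNat 128, .ofNat 56, .ofNat 0, .ofNat 0, .ofNat 615, .ofNat 743, .ofNat 0, .ofNat 0, .ofNat 0, .ofNat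 0, .ofNat 0, .ofNat 0, .ofNat 0, .ofNat 0, .ofNat 0, .ofNat 0, .ofNat 2043312710902282363988063813632, .ofNat 0, .ofNat 0, .ofNat 0, .ofNat 22976591611112141264393825419264, .ofNat 0⟩)
    (by decide +kernel)
theorem L00384 : Good (Phi V5.P V5.D (-1) (-1)) ⟨2, 1, 1, 0, 1, 0, 2, 2, 3, 1⟩ :=
  leafX_sound T5.ok_mm T5.Ymm.bz_eq (w := 176) (c := ⟨⟨.negSucc 1225, .negSucc 395, .ofNat 100, .negSucc 128, .ofNat 175, .negSucc 8⟩, ⟨.negSucc 79, .ofNat 108, .ofNat 569, .negSucc 9, .negSucc 10, .negSucc 0⟩, ⟨.ofNat 1193, .ofNat 290, .negSucc 125, .negSucc 318, .negSucc 227, .ofNat 134⟩, ⟨.negSucc 3387, .negSucc 234, .ofNat 99, .negSucc 333, .ofNat 463, .negSucc 29⟩, ⟨.negSucc 120, .ofNat 31, .negSucc 21, .negSucc 373, .ofNat 78, .ofNat 81⟩, .ofNat 366, .ofNat 30, .ofNat 0, .ofNat 30, .ofNat 720, .ofNat 0, .ofNat 463, .negSucc 17, .negSucc 184, .ofNat 0, .ofNat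 128, .ofNat 22, .ofNat 0, .ofNat 0, .ofNat 666, .ofNat 2167, .ofNat 0, .ofNat 0, .ofNat 0, .ofNat 0, .ofNat 0, .ofNat 0, .ofNat 9242152527686408257845715795968, .ofNat 0, .ofNat 0, .ofNat 0, .ofNat 4036328448459651897065574760448, .ofNat 0, .ofNat 0, .ofNat 0, .ofNat 0, .ofNat 0⟩)
    (by decide +kernel)
theorem L00385 : Good (Phi V5.P V5.D (-1) (-1)) ⟨2, 1, 1, 0, 1, 0, 3, 6, 3, 1⟩ :=
  leafX_sound T5.ok_mm T5.Ymm.bz_eq (w := 180) (c := ⟨⟨.negSucc 1085, .negSucc 330, .ofNat 18, .negSucc 73, .ofNat 169, .negSucc 22⟩, ⟨.negSucc 82, .ofNat 112, .ofNat 520, .negSucc 11, .negSucc 9, .ofNat 6⟩, ⟨.ofNat 942, .ofNat 232, .ofNat 22, .negSucc 232, .negSucc 209, .ofNat 49⟩, ⟨.negSucc 2997, .negSucc 132, .negSucc 8, .negSucc 219, .ofNat 410, .negSucc 67⟩, ⟨.negSucc 272, .ofNat 81, .ofNat 14, .negSucc 122, .ofNat 79, .ofNat 179⟩, .ofNat 510, .ofNat 111, .ofNat 0,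 .ofNat 111, .ofNat 1738, .ofNat 0, .ofNat 393, .negSucc 44, .negSucc 208, .ofNat 0, .ofNat 128, .ofNat 21, .ofNat 0, .ofNat 0, .ofNat 803, .ofNat 1590, .ofNat 0, .ofNat 0, .ofNat 0, .ofNat 0, .ofNat 0, .ofNat 0, .ofNat 0, .ofNat 0, .ofNat 0, .ofNat 0, .ofNat 13686256685819719695295334842368, .ofNat 0, .ofNat 0, .ofNat 0, .ofNat 0, .ofNat 0⟩)
    (by decide +kernel)
theorem L00386 : Good (Phi V5.P V5.D (-1) (-1)) ⟨2, 1, 1, 0, 1, 0, 4, 14, 3, 1⟩ :=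
  leafX_sound T5.ok_mm T5.Ymm.bz_eq (w := 183) (c := ⟨⟨.negSucc 852, .negSucc 233, .negSucc 9, .negSucc 177, .ofNat 138, .negSucc 80⟩, ⟨.negSucc 83, .ofNat 82, .ofNat 441, .ofNat 24, .negSucc 10, .ofNat 17⟩, ⟨.ofNat 626, .ofNat 98, .ofNat 80, .ofNat 4, .negSucc 175, .ofNat 74⟩, ⟨.negSucc 2413, .ofNat 4, .negSucc 4, .negSucc 470, .ofNat 361, .negSucc 194⟩, ⟨.negSucc 267, .ofNat 72, .negSucc 5, .ofNat 88, .ofNat 97, .ofNat 188⟩, .ofNat 367, .ofNat 42, .ofNat 0, .ofNat 42, .ofNat 733, .ofNat 0, .ofNat 374, .negSucc 22, .negSucc 301, .ofNat 0, .ofNat 128, .ofNat 31, .ofNat 0, .ofNat 0, .ofNat 846, .ofNat 1428, .ofNat 0, .ofNat 0, .ofNat 0, .ofNat 0, .ofNat 0, .ofNat 0, .ofNat 0, .ofNat 0, .ofNat 0, .ofNat 1076865198686483696888771338305536, .ofNat 4649039597439462297597128998912, .ofNat 0, .ofNat 0, .ofNat 0, .ofNat 0, .ofNat 0⟩)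
    (by decide +kernel)
theorem L00387 : Good (Phi V5.P V5.D (-1) (-1)) ⟨2, 1, 1, 0, 1, 0, 4, 15, 3, 1⟩ :=
  leafX_sound T5.ok_mm T5.Ymm.bz_eq (w := 183) (c := ⟨⟨.negSucc 662, .negSucc 128, .negSucc 56, .negSucc 185, .ofNat 398, .negSucc 176⟩, ⟨.negSucc 67, .ofNat 64, .ofNat 327, .ofNat 27, .negSucc 49, .ofNat 31⟩, ⟨.ofNat 389, .ofNat 64, .ofNat 81, .ofNat 67, .negSucc 452, .ofNat 72⟩, ⟨.negSucc 1844, .ofNat 103, .negSucc 76, .negSucc 502, .ofNat 1031, .negSucc 476⟩, ⟨.negSucc 169, .ofNat 113, .ofNat 318, .ofNat 113, .negSucc 31, .negSucc 33⟩, .ofNat 516, .ofNat 122, .ofNat 0, .ofNat 122, .ofNat 1717, .ofNat 0, .ofNat 351, .negSucc 47, .negSucc 249, .ofNat 0, .ofNat 128, .ofNat 24, .ofNat 0, .ofNat 0, .ofNat 697, .ofNat 647, .ofNat 0, .ofNat 0, .ofNat 0, .ofNat 0, .ofNat 0, .ofNat 0, .ofNat 0, .ofNat 0, .ofNat 0, .ofNat 19437796087108949097711168345079808,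 .ofNat 329090081332234507205291668406272, .ofNat 0, .ofNat 0, .ofNat 50889851191040734790900483694264320, .ofNat 0, .ofNat 0⟩)
    (by decide +kernel)
theorem L00388 : Good (Phi V5.P V5.D (-1) (-1)) ⟨2, 1, 1, 0, 1, 0, 2, 2, 4, 4⟩ :=
  leafX_sound T5.ok_mm T5.Ymm.bz_eq (w := 182) (c := ⟨⟨.negSucc 1263, .negSucc 312, .ofNat 19, .negSucc 71, .ofNat 137, .ofNat 74⟩, ⟨.negSucc 82, .ofNat 114, .ofNat 572, .ofNat 2, .negSucc 10, .negSucc 7⟩, ⟨.ofNat 1294, .ofNat 213, .negSucc 18, .negSucc 190, .negSucc 296, .negSucc 29⟩, ⟨.negSucc 3481, .negSucc 50, .negSucc 14, .negSucc 211, .ofNat 371, .ofNat 191⟩, ⟨.negSucc 75, .ofNat 14, .negSucc 0, .negSucc 286, .ofNat 87, .ofNat 24⟩, .ofNat 367, .ofNat 39, .ofNat 0, .ofNat 39, .ofNat 728, .ofNat 0, .ofNat 344, .negSucc 22, .negSucc 107, .ofNat 0, .ofNat 128, .ofNat 15, .ofNat 0, .ofNat 0, .ofNat 696, .ofNat 4089, .ofNat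 0, .ofNat 0, .ofNat 0, .ofNat 0, .ofNat 0, .ofNat 0, .ofNat 0, .ofNat 0, .ofNat 0, .ofNat 0, .ofNat 0, .ofNat 0, .ofNat 0, .ofNat 0, .ofNat 453533772444469279762781225091072, .ofNat 0⟩)
    (by decide +kernel)
theorem L00389 : Good (Phi V5.P V5.D (-1) (-1)) ⟨2, 1, 1, 0, 1, 0, 2, 2, 4, 5⟩ :=
  leafX_sound T5.ok_mm T5.Ymm.bz_eq (w := 182) (c := ⟨⟨.negSucc 1207, .negSucc 271, .ofNat 13, .negSucc 21, .ofNat 116, .ofNat 68⟩, ⟨.negSucc 71, .ofNat 98, .ofNat 536, .negSucc 7, .negSucc 5, .negSucc 8⟩, ⟨.ofNat 1212, .ofNat 229, .ofNat 94, .negSucc 106, .negSucc 304, .negSucc 59⟩, ⟨.negSucc 3338, .ofNat 10, .negSucc 12, .negSucc 85, .ofNat 316, .ofNat 177⟩, ⟨.negSucc 91, .ofNat 41, .ofNat 43, .negSucc 221, .ofNat 102, .negSucc 5⟩, .ofNat 365, .ofNat 37, .ofNat 0, .ofNat 37, .ofNat 733, .ofNat 0, .ofNat 247, .negSucc 21, .negSucc 95, .ofNat 0, .ofNat 128, .ofNat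 9, .ofNat 0, .ofNat 0, .ofNat 851, .ofNat 3394, .ofNat 0, .ofNat 0, .ofNat 0, .ofNat 0, .ofNat 0, .ofNat 0, .ofNat 0, .ofNat 0, .ofNat 0, .ofNat 0, .ofNat 0, .ofNat 0, .ofNat 0, .ofNat 0, .ofNat 585984010420062287685207048847360, .ofNat 0⟩)
    (by decide +kernel)
theorem L00390 : Good (Phi V5.P V5.D (-1) (-1)) ⟨2, 1, 1, 0, 1, 0, 2, 2, 4, 6⟩ :=
  leafX_sound T5.ok_mm T5.Ymm.bz_eq (w := 182) (c := ⟨⟨.negSucc 1169, .negSucc 251, .negSucc 9, .ofNat 32, .ofNat 122, .ofNat 53⟩, ⟨.negSucc 51, .ofNat 92, .ofNat 499, .negSucc 12, .negSucc 15, .negSucc 5⟩, ⟨.ofNat 1190, .ofNat 187, .ofNat 113, .negSucc 60, .negSucc 352, .ofNat 11⟩, ⟨.negSucc 3193, .ofNat 16, .negSucc 54, .ofNat 46, .ofNat 298, .ofNat 129⟩, ⟨.negSucc 144, .ofNat 44, .negSucc 74, .negSucc 132, .ofNat 186, .ofNat 20⟩, .ofNat 365, .ofNat 32, .ofNat 0, .ofNat 32, .ofNat 724, .ofNat 0, .ofNat 293,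 .negSucc 18, .negSucc 104, .ofNat 0, .ofNat 128, .negSucc 1, .ofNat 0, .ofNat 0, .ofNat 1424, .ofNat 3708, .ofNat 3735426728592270114321906089852928, .ofNat 0, .ofNat 5319324127426157333147065253888, .ofNat 0, .ofNat 0, .ofNat 0, .ofNat 0, .ofNat 0, .ofNat 0, .ofNat 0, .ofNat 0, .ofNat 0, .ofNat 0, .ofNat 72936272530136045776749257090400256, .ofNat 1681900509587016253492719649816576, .ofNat 0⟩)
    (by decide +kernel)
theorem L00391 : Good (Phi V5.P V5.D (-1) (-1)) ⟨2, 1, 1, 0, 1, 0, 2, 2, 4, 7⟩ :=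
  leafX_sound T5.ok_mm T5.Ymm.bz_eq (w := 181) (c := ⟨⟨.negSucc 1079, .negSucc 175, .negSucc 3, .ofNat 10, .ofNat 58, .ofNat 62⟩, ⟨.negSucc 45, .ofNat 73, .ofNat 467, .negSucc 11, .negSucc 1, .negSucc 6⟩, ⟨.ofNat 760, .negSucc 7, .ofNat 302, .ofNat 353, .negSucc 116, .ofNat 8⟩, ⟨.negSucc 2961, .ofNat 170, .negSucc 22, .negSucc 4, .ofNat 148, .ofNat 159⟩, ⟨.negSucc 281, .ofNat 64, .negSucc 30, .ofNat 30, .ofNat 220, .ofNat 30⟩, .ofNat 374, .ofNat 81, .ofNat 0, .ofNat 81, .ofNat 784, .ofNat 0, .ofNat 182, .negSucc 45, .negSucc 72, .ofNat 0, .ofNat 128, .ofNat 2, .ofNat 0, .ofNat 0, .ofNat 1359, .ofNat 2293, .ofNat 21739348977658688622246479595044864, .ofNat 0, .ofNat 27292249166227912717887583813632, .ofNat 0, .ofNat 293649811301553484221985084487499776, .ofNat 7977190351481567326572583348862976, .ofNat 124730906801321729588075339710464, .ofNat 0, .ofNat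 0, .ofNat 0, .ofNat 0, .ofNat 0, .ofNat 2691531295005145389069724547660382208, .ofNat 108635077419218809888370483160678400, .ofNat 1781169825804955269773626586431488, .ofNat 0⟩)
    (by decide +kernel)
theorem L00392 : Good (Phi V5.P V5.D (-1) (-1)) ⟨2, 1, 1, 0, 1, 0, 3, 6, 4, 4⟩ :=
  leafX_sound T5.ok_mm T5.Ymm.bz_eq (w := 185) (c := ⟨⟨.negSucc 1103, .negSucc 237, .ofNat 5, .negSucc 61, .ofNat 103, .ofNat 26⟩, ⟨.negSucc 61, .ofNat 81, .ofNat 500, .negSucc 2, .negSucc 2, .negSucc 3⟩, ⟨.ofNat 935, .ofNat 145, .ofNat 68, .negSucc 38, .negSucc 244, .negSucc 57⟩, ⟨.negSucc 3052, .ofNat 43, .ofNat 2, .negSucc 182, .ofNat 271, .ofNat 71⟩, ⟨.negSucc 128, .ofNat 88, .ofNat 52, .negSucc 54, .ofNat 53, .ofNat 39⟩, .ofNat 517, .ofNat 105, .ofNat 0, .ofNat 105, .ofNat 1672, .ofNat 0, .ofNat 228, .negSucc 40, .negSucc 95, .ofNat 0, .ofNat 128, .ofNat 8, .ofNat 0,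 .ofNat 0, .ofNat 599, .ofNat 1797, .ofNat 0, .ofNat 0, .ofNat 0, .ofNat 0, .ofNat 0, .ofNat 0, .ofNat 2258121147332134444796382615175168, .ofNat 0, .ofNat 0, .ofNat 0, .ofNat 0, .ofNat 0, .ofNat 0, .ofNat 45377928042098198941341166294007808, .ofNat 2694872657928255262239395760046080, .ofNat 0⟩)
    (by decide +kernel)
theorem L00393 : Good (Phi V5.P V5.D (-1) (-1)) ⟨2, 1, 1, 0, 1, 0, 3, 6, 4, 5⟩ :=
  leafX_sound T5.ok_mm T5.Ymm.bz_eq (w := 185) (c := ⟨⟨.negSucc 1068, .negSucc 222, .negSucc 46, .negSucc 39, .ofNat 77, .ofNat 52⟩, ⟨.negSucc 63, .ofNat 78, .ofNat 491, .ofNat 7, .negSucc 0, .negSucc 7⟩, ⟨.ofNat 808, .ofNat 118, .ofNat 221, .ofNat 63, .negSucc 201, .negSucc 56⟩, ⟨.negSucc 2965, .ofNat 64, .negSucc 123, .negSucc 113, .ofNat 217, .ofNat 135⟩, ⟨.negSucc 88, .ofNat 57, .ofNat 6, .ofNat 11, .ofNat 82, .ofNat 12⟩, .ofNat 366, .ofNat 37, .ofNat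 0, .ofNat 37, .ofNat 730, .ofNat 0, .ofNat 264, .negSucc 21, .negSucc 104, .ofNat 0, .ofNat 128, .ofNat 2, .ofNat 0, .ofNat 0, .ofNat 830, .ofNat 2099, .ofNat 0, .ofNat 0, .ofNat 0, .ofNat 0, .ofNat 0, .ofNat 50652109545711863989630214705512448, .ofNat 1604376055223276486272998640189440, .ofNat 0, .ofNat 0, .ofNat 37226337126087410442328743721566208, .ofNat 0, .ofNat 0, .ofNat 0, .ofNat 82199882256764850577563793328439296, .ofNat 9478331408326737860718161456791552, .ofNat 0⟩)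
    (by decide +kernel)
theorem L00394 : Good (Phi V5.P V5.D (-1) (-1)) ⟨2, 1, 1, 0, 1, 0, 3, 7, 4, 4⟩ :=
  leafX_sound T5.ok_mm T5.Ymm.bz_eq (w := 184) (c := ⟨⟨.negSucc 940, .negSucc 180, .negSucc 82, .negSucc 139, .ofNat 251, .ofNat 20⟩, ⟨.negSucc 60, .ofNat 54, .ofNat 458, .ofNat 30, .negSucc 17, .negSucc 1⟩, ⟨.ofNat 583, .ofNat 73, .ofNat 221, .ofNat 162, .negSucc 403, .negSucc 59⟩, ⟨.negSucc 2613, .ofNat 120, .negSucc 178, .negSucc 362, .ofNat 630, .ofNat 27⟩, ⟨.negSucc 114, .ofNat 188, .ofNat 8, .ofNat 137, .ofNat 13, .ofNat 30⟩, .ofNat 578, .ofNat 215, .ofNat 0, .ofNat 215, .ofNat 2491, .ofNat 0, .ofNat 330, .negSucc 71, .negSucc 107, .ofNat 0, .ofNat 128, .ofNat 10, .ofNat 0, .ofNat 0, .ofNat 541, .ofNat 936, .ofNat 0, .ofNat 0, .ofNat 24162371684447300121314191212544, .ofNat 0, .ofNat 0, .ofNat 118673349876726019357514914989080576, .ofNat 742032129543953829056171453972480,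 .ofNat 0, .ofNat 0, .ofNat 63481290027450002392321280750649344, .ofNat 0, .ofNat 0, .ofNat 0, .ofNat 43946304203433116209430413319340032, .ofNat 1559887224126265480433958035390464, .ofNat 0⟩)
    (by decide +kernel)
theorem L00395 : Good (Phi V5.P V5.D (-1) (-1)) ⟨2, 1, 1, 0, 2, 0, 3, 7, 4, 5⟩ :=
  leafX_sound T5.ok_mm T5.Ymm.bz_eq (w := 199) (c := ⟨⟨.negSucc 972, .negSucc 214, .negSucc 31, .ofNat 15, .ofNat 153, .negSucc 21⟩, ⟨.negSucc 37, .ofNat 61, .ofNat 437, .ofNat 0, .negSucc 15, .negSucc 7⟩, ⟨.ofNat 540, .ofNat 200, .ofNat 124, .ofNat 67, .negSucc 340, .negSucc 13⟩, ⟨.negSucc 2689, .ofNat 37, .negSucc 60, .ofNat 31, .ofNat 397, .negSucc 59⟩, ⟨.negSucc 63, .ofNat 61, .ofNat 83, .ofNat 46, .ofNat 83, .ofNat 20⟩, .ofNat 517, .ofNat 121, .ofNat 0, .ofNat 121, .ofNat 1707, .ofNat 0, .ofNat 465, .negSucc 46, .negSucc 110, .ofNat 0, .ofNat 128, .ofNat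 7, .ofNat 0, .ofNat 0, .ofNat 646, .ofNat 2053, .ofNat 0, .ofNat 0, .ofNat 0, .ofNat 0, .ofNat 0, .ofNat 0, .ofNat 0, .ofNat 0, .ofNat 0, .ofNat 273694179423247343142181109749010923520, .ofNat 9359909081911256454138018696439791616, .ofNat 0, .ofNat 0, .ofNat 0, .ofNat 0, .ofNat 0⟩)
    (by decide +kernel)
theorem L00396 : Good (Phi V5.P V5.D (-1) (-1)) ⟨2, 1, 1, 0, 2, 1, 3, 7, 4, 5⟩ :=
  leafX_sound T5.ok_mm T5.Ymm.bz_eq (w := 199) (c := ⟨⟨.negSucc 979, .negSucc 118, .negSucc 50, .negSucc 103, .ofNat 103, .ofNat 3⟩, ⟨.negSucc 41, .ofNat 40, .ofNat 455, .ofNat 23, .negSucc 6, .ofNat 1⟩, ⟨.ofNat 580, .negSucc 8, .ofNat 269, .ofNat 178, .negSucc 238, .ofNat 5⟩, ⟨.negSucc 2732, .ofNat 278, .negSucc 88, .negSucc 250, .ofNat 288, .ofNat 15⟩, ⟨.negSucc 23, .ofNat 116, .negSucc 19, .ofNat 202, .ofNat 240, .ofNat 24⟩, .ofNat 517, .ofNat 119, .ofNat 0, .ofNat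 119, .ofNat 1696, .ofNat 0, .ofNat 313, .negSucc 46, .negSucc 91, .ofNat 0, .ofNat 128, .ofNat 2, .ofNat 0, .ofNat 0, .ofNat 736, .ofNat 1960, .ofNat 0, .ofNat 4128213653069740471710230567081476096, .ofNat 0, .ofNat 0, .ofNat 0, .ofNat 926562349130147864777522032019345768448, .ofNat 51231433796733619872444375771541143552, .ofNat 0, .ofNat 0, .ofNat 498509845710076022824446913052174974976, .ofNat 49527754644735049722394319379452919808, .ofNat 0, .ofNat 0, .ofNat 758106274397575277990779111430663700480, .ofNat 0, .ofNat 0⟩)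
    (by decide +kernel)
theorem L00397 : Good (Phi V5.P V5.D (-1) (-1)) ⟨2, 1, 2, 0, 1, 0, 3, 6, 3, 3⟩ :=
  leafX_sound T5.ok_mm T5.Ymm.bz_eq (w := 182) (c := ⟨⟨.negSucc 1031, .negSucc 226, .negSucc 29, .ofNat 9, .ofNat 37, .ofNat 74⟩, ⟨.negSucc 56, .ofNat 80, .ofNat 240, .negSucc 2, .ofNat 0, .negSucc 6⟩, ⟨.ofNat 728, .ofNat 114, .ofNat 124, .ofNat 172, .negSucc 201, .negSucc 52⟩, ⟨.negSucc 2864, .ofNat 47, .negSucc 64, .ofNat 14, .ofNat 98, .ofNat 187⟩, ⟨.negSucc 91, .ofNat 46, .ofNat 1, .ofNat 75, .ofNat 103, .ofNat 28⟩, .ofNat 365, .ofNat 30, .ofNat 0, .ofNat 30, .ofNat 724, .ofNat 0, .ofNat 369, .negSucc 16, .negSucc 113, .ofNat 0, .ofNat 128, .negSucc 9, .ofNat 0, .ofNat 0, .ofNat 1267, .ofNat 970, .ofNat 0, .ofNat 0, .ofNat 0, .ofNat 0, .ofNat 0, .ofNat 0, .ofNat 0, .ofNat 0, .ofNat 0, .ofNat 54292861699908949186038703016902656, .ofNat 0, .ofNat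 0, .ofNat 0, .ofNat 414230394629243471674990641681530880, .ofNat 0, .ofNat 0⟩)
    (by decide +kernel)
theorem L00398 : Good (Phi V5.P V5.D (-1) (-1)) ⟨2, 1, 2, 1, 1, 0, 3, 6, 4, 6⟩ :=
  leafX_sound T5.ok_mm T5.Ymm.bz_eq (w := 188) (c := ⟨⟨.negSucc 1030, .negSucc 168, .negSucc 16, .negSucc 43, .ofNat 44, .ofNat 24⟩, ⟨.ofNat 184, .ofNat 25, .ofNat 241, .ofNat 11, .negSucc 4, .negSucc 2⟩, ⟨.ofNat 730, .ofNat 65, .ofNat 142, .ofNat 360, .negSucc 190, .ofNat 26⟩, ⟨.negSucc 2865, .ofNat 93, .negSucc 46, .negSucc 108, .ofNat 143, .ofNat 76⟩, ⟨.negSucc 91, .ofNat 49, .negSucc 9, .ofNat 37, .ofNat 102, .ofNat 34⟩, .ofNat 388, .ofNat 139, .ofNat 0, .ofNat 139, .ofNat 854, .ofNat 0, .ofNat 309, .negSucc 75, .negSucc 116, .ofNat 0, .ofNat 128, .ofNat 12, .ofNat 0, .ofNat 0, .ofNat 1215, .ofNat 2285, .ofNat 0, .ofNat 0, .ofNat 890277128154735431378064654729216,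 .ofNat 0, .ofNat 0, .ofNat 0, .ofNat 64706481293641013313628546680225792, .ofNat 0, .ofNat 0, .ofNat 574570224981586928717921642642145280, .ofNat 7423253663629053707103278024622080, .ofNat 0, .ofNat 0, .ofNat 2359250721888618272928337159360872448, .ofNat 61236427085251922117839211364089856, .ofNat 0⟩)
    (by decide +kernel)
theorem L00399 : Good (Phi V5.P V5.D (-1) (-1)) ⟨2, 1, 2, 1, 1, 0, 3, 6, 4, 7⟩ :=
  leafX_sound T5.ok_mm T5.Ymm.bz_eq (w := 189) (c := ⟨⟨.negSucc 1011, .negSucc 142, .negSucc 14, .ofNat 1, .ofNat 14, .ofNat 23⟩, ⟨.ofNat 180, .ofNat 16, .ofNat 234, .ofNat 5, .ofNat 3, .negSucc 5⟩, ⟨.ofNat 679, .ofNat 104, .ofNat 177, .ofNat 506, .negSucc 240, .ofNat 83⟩, ⟨.negSucc 2811, .ofNat 158, .negSucc 25, .ofNat 17, .ofNat 63, .ofNat 52⟩, ⟨.negSucc 108, .ofNat 91, .ofNat 22, .ofNat 94, .ofNat 120, .negSucc 31⟩, .ofNat 752, .ofNat 664, .ofNat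 0, .ofNat 664, .ofNat 3517, .ofNat 0, .ofNat 277, .negSucc 127, .negSucc 85, .ofNat 0, .ofNat 111, .ofNat 9, .ofNat 0, .ofNat 0, .ofNat 1747, .ofNat 2491, .ofNat 0, .ofNat 0, .ofNat 2713907196530635637390736357326848, .ofNat 0, .ofNat 0, .ofNat 1185407185059164588677361952528269312, .ofNat 28407731557757108393447748611866624, .ofNat 0, .ofNat 0, .ofNat 991345608283863455997917757400154112, .ofNat 42159174532622882285018618343194624, .ofNat 0, .ofNat 101590036903826631397129693791090900992, .ofNat 6736662415712469875738486901615624192, .ofNat 136819447519987399149571272018493440, .ofNat 0⟩)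
    (by decide +kernel)
theorem L00400 : Good (Phi V5.P V5.D (-1) (-1)) ⟨2, 1, 1, 0, 2, 0, 3, 7, 4, 6⟩ :=
  leafX_sound T5.ok_mm T5.Ymm.bz_eq (w := 200) (c := ⟨⟨.negSucc 975, .negSucc 211, .negSucc 63, .ofNat 47, .ofNat 61, .negSucc 12⟩, ⟨.negSucc 49, .ofNat 68, .ofNat 456, .ofNat 0, .negSucc 7, .negSucc 1⟩, ⟨.ofNat 482, .ofNat 186, .ofNat 201, .ofNat 82, .negSucc 261, .negSucc 14⟩, ⟨.negSucc 2733, .ofNat 59, .negSucc 90, .ofNat 145, .ofNat 157, .negSucc 44⟩, ⟨.negSucc 17, .negSucc 0, .ofNat 1, .ofNat 149, .ofNat 110, .negSucc 20⟩, .ofNat 374, .ofNat 81, .ofNat 0, .ofNat 81, .ofNat 784, .ofNat 0, .ofNat 339, .negSucc 44, .negSucc 93, .ofNat 0, .ofNat 128, .ofNat 6, .ofNat 0, .ofNat 0, .ofNat 534, .ofNat 3292, .ofNat 0, .ofNat 0, .ofNat 0, .ofNat 0, .ofNat 0, .ofNat 834965542020495214047231610587797520384, .ofNat 0, .ofNat 0, .ofNat 0, .ofNat 382972824425896274958642707722273816576,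 .ofNat 0, .ofNat 0, .ofNat 0, .ofNat 0, .ofNat 0, .ofNat 0⟩)
    (by decide +kernel)
theorem L00401 : Good (Phi V5.P V5.D (-1) (-1)) ⟨2, 1, 1, 0, 2, 1, 3, 7, 4, 6⟩ :=
  leafX_sound T5.ok_mm T5.Ymm.bz_eq (w := 200) (c := ⟨⟨.negSucc 977, .negSucc 124, .negSucc 60, .negSucc 42, .ofNat 67, .ofNat 14⟩, ⟨.negSucc 42, .ofNat 46, .ofNat 451, .ofNat 25, .negSucc 0, .ofNat 4⟩, ⟨.ofNat 571, .ofNat 5, .ofNat 349, .ofNat 190, .negSucc 298, .negSucc 15⟩, ⟨.negSucc 2737, .ofNat 277, .negSucc 88, .negSucc 88, .ofNat 221, .ofNat 41⟩, ⟨.ofNat 25, .ofNat 97, .negSucc 57, .ofNat 226, .ofNat 288, .ofNat 48⟩, .ofNat 374, .ofNat 81, .ofNat 0, .ofNat 81, .ofNat 784, .ofNat 0, .ofNat 328, .negSucc 46, .negSucc 41, .ofNat 0, .ofNat 128, .negSucc 29, .ofNat 0, .ofNat 0, .ofNat 827, .ofNat 2589, .ofNat 0, .ofNat 11861406768020711049230341035589107712, .ofNat 3211246481879693554383116790336061440,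 .ofNat 0, .ofNat 0, .ofNat 1495106710497315926221236199597027622912, .ofNat 0, .ofNat 0, .ofNat 0, .ofNat 508022722358808592423905693147559100416, .ofNat 13453576746027262705524450142042718208, .ofNat 0, .ofNat 0, .ofNat 1276514923206275439251444486211526197248, .ofNat 65153265293254287716056299057188962304, .ofNat 0⟩)
    (by decide +kernel)
theorem L00402 : Good (Phi V5.P V5.D (-1) (-1)) ⟨2, 1, 1, 0, 1, 0, 3, 7, 4, 7⟩ :=
  leafX_sound T5.ok_mm T5.Ymm.bz_eq (w := 185) (c := ⟨⟨.negSucc 1008, .negSucc 153, .negSucc 23, .ofNat 93, .ofNat 0, .negSucc 31⟩, ⟨.negSucc 48, .ofNat 56, .ofNat 451, .ofNat 8, .ofNat 3, .ofNat 4⟩, ⟨.ofNat 504, .ofNat 101, .ofNat 135, .ofNat 170, .negSucc 191, .ofNat 18⟩, ⟨.negSucc 2807, .ofNat 200, .negSucc 8, .ofNat 251, .ofNat 6, .negSucc 72⟩, ⟨.negSucc 82, .ofNat 90, .ofNat 75, .ofNat 270, .ofNat 87, .negSucc 22⟩, .ofNat 518,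 .ofNat 123, .ofNat 0, .ofNat 123, .ofNat 1712, .ofNat 0, .ofNat 559, .negSucc 46, .negSucc 131, .ofNat 0, .ofNat 128, .ofNat 2, .ofNat 0, .ofNat 0, .ofNat 1109, .ofNat 1023, .ofNat 0, .ofNat 2880333919185235787199201260077056, .ofNat 83763321525436434923696773136384, .ofNat 0, .ofNat 0, .ofNat 0, .ofNat 0, .ofNat 0, .ofNat 0, .ofNat 114006239192204851410010180836917248, .ofNat 9073237123906908337702691458252800, .ofNat 0, .ofNat 170905615661038323210251166621368320, .ofNat 617790569608206336601238528692584448, .ofNat 12589658335241174056236370756632576, .ofNat 0⟩)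
    (by decide +kernel)
theorem L00403 : Good (Phi V5.P V5.D (-1) (-1)) ⟨2, 1, 1, 0, 1, 0, 1, 1, 1, 1⟩ :=
  leafX_sound T5.ok_mm T5.Ymm.bz_eq (w := 170) (c := ⟨⟨.negSucc 1051, .negSucc 320, .ofNat 3, .ofNat 1, .negSucc 0, .ofNat 1⟩, ⟨.negSucc 66, .ofNat 98, .ofNat 496, .ofNat 0, .ofNat 0, .ofNat 0⟩, ⟨.ofNat 354, .ofNat 321, .negSucc 2, .ofNat 0, .ofNat 0, .ofNat 0⟩, ⟨.negSucc 2923, .negSucc 143, .ofNat 1, .ofNat 1, .negSucc 0, .ofNat 1⟩, ⟨.negSucc 0, .ofNat 1, .ofNat 1, .ofNat 0, .ofNat 0, .ofNat 0⟩, .ofNat 183, .ofNat 6, .ofNat 0, .ofNat 6, .ofNat 243, .ofNat 0, .ofNat 157, .negSucc 6, .negSucc 119, .ofNat 0, .ofNat 128, .ofNat 4, .ofNat 0, .ofNat 0, .ofNat 327, .ofNat 5074, .ofNat 1305605884145122847237131468800000000, .ofNat 63689364053410041824703656585330688, .ofNat 0, .ofNat 0, .ofNat 13965046602269514687411489012187136, .ofNat 675826993500805307401130198695936,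 .ofNat 16824277956676121947799552, .ofNat 0, .ofNat 83558776585287862223176414003200000000, .ofNat 3298389759729884941206670056978644992, .ofNat 0, .ofNat 0, .ofNat 83558776585287862223176414003200000000, .ofNat 3298386673627573958487439517341974528, .ofNat 0, .ofNat 0⟩)
    (by decide +kernel)
theorem L00404 : Good (Phi V5.P V5.D (-1) (-1)) ⟨2, 1, 2, 0, 2, 2, 3, 0, 4, 0⟩ :=
  leafX_sound T5.ok_mm T5.Ymm.bz_eq (w := 201) (c := ⟨⟨.ofNat 862, .ofNat 212, .ofNat 315, .ofNat 519, .ofNat 191, .negSucc 1821⟩, ⟨.negSucc 117, .ofNat 4, .negSucc 78, .negSucc 66, .ofNat 1, .ofNat 159⟩, ⟨.negSucc 377, .ofNat 194, .negSucc 159, .ofNat 79, .negSucc 332, .ofNat 408⟩, ⟨.ofNat 2548, .negSucc 92, .ofNat 450, .ofNat 1251, .ofNat 482, .negSucc 4620⟩, ⟨.negSucc 1193, .negSucc 947, .ofNat 180, .ofNat 92, .ofNat 579, .negSucc 585⟩, .ofNat 367, .ofNat 33, .ofNat 0, .ofNat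 33, .ofNat 725, .ofNat 0, .ofNat 314, .negSucc 63, .negSucc 66, .ofNat 0, .ofNat 128, .ofNat 16, .ofNat 0, .ofNat 0, .ofNat 250, .ofNat 2942, .ofNat 0, .ofNat 0, .ofNat 0, .ofNat 0, .ofNat 0, .ofNat 0, .ofNat 0, .ofNat 0, .ofNat 0, .ofNat 0, .ofNat 0, .ofNat 0, .ofNat 0, .ofNat 0, .ofNat 0, .ofNat 0⟩)
    (by decide +kernel)
theorem L00405 : Good (Phi V5.P V5.D (-1) (-1)) ⟨2, 1, 2, 0, 2, 2, 3, 1, 4, 0⟩ :=
  leafX_sound T5.ok_mm T5.Ymm.bz_eq (w := 201) (c := ⟨⟨.ofNat 1059, .ofNat 245, .ofNat 155, .ofNat 529, .ofNat 25, .negSucc 1715⟩, ⟨.negSucc 65, .negSucc 27, .negSucc 181, .negSucc 28, .ofNat 69, .ofNat 93⟩, ⟨.negSucc 700, .ofNat 50, .negSucc 51, .negSucc 55, .negSucc 134, .ofNat 576⟩, ⟨.ofNat 2954, .negSucc 35, .ofNat 316, .ofNat 1379, .ofNat 112, .negSucc 4488⟩, ⟨.negSucc 667, .negSucc 970, .ofNat 287, .ofNat 537, .ofNat 526, .negSucc 921⟩, .ofNat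 367, .ofNat 32, .ofNat 0, .ofNat 32, .ofNat 724, .ofNat 0, .ofNat 321, .negSucc 38, .negSucc 156, .ofNat 0, .ofNat 128, .ofNat 31, .ofNat 0, .ofNat 0, .ofNat 383, .ofNat 1551, .ofNat 0, .ofNat 0, .ofNat 0, .ofNat 0, .ofNat 0, .ofNat 0, .ofNat 0, .ofNat 0, .ofNat 0, .ofNat 0, .ofNat 27862951888102300567785621625436635136, .ofNat 0, .ofNat 0, .ofNat 0, .ofNat 0, .ofNat 0⟩)
    (by decide +kernel)
theorem L00406 : Good (Phi V5.P V5.D (-1) (-1)) ⟨2, 1, 2, 0, 2, 2, 3, 0, 4, 1⟩ :=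
  leafX_sound T5.ok_mm T5.Ymm.bz_eq (w := 202) (c := ⟨⟨.negSucc 393, .negSucc 484, .ofNat 199, .ofNat 120, .ofNat 139, .negSucc 1166⟩, ⟨.negSucc 254, .ofNat 189, .ofNat 258, .negSucc 32, .negSucc 18, .ofNat 129⟩, ⟨.negSucc 24, .ofNat 563, .negSucc 214, .negSucc 163, .negSucc 118, .ofNat 640⟩, ⟨.negSucc 1217, .negSucc 803, .ofNat 209, .ofNat 362, .ofNat 476, .negSucc 2968⟩, ⟨.negSucc 1654, .negSucc 476, .ofNat 146, .negSucc 188, .ofNat 465, .ofNat 250⟩, .ofNat 367, .ofNat 33, .ofNat 0, .ofNat 33, .ofNat 735, .ofNat 0, .ofNat 415, .negSucc 65, .negSucc 117, .ofNat 0, .ofNat 128, .ofNat 38, .ofNat 0, .ofNat 0, .ofNat 454, .ofNat 6173, .ofNat 18324232882126574909852128273792753467392, .ofNat 0, .ofNat 881004620470698439423918428177563648, .ofNat 0, .ofNat 0, .ofNat 0, .ofNat 0, .ofNat 0, .ofNat 0, .ofNat 0, .ofNat 0, .ofNat 0, .ofNat 49905805907215325540716246437798483066880,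 .ofNat 0, .ofNat 0, .ofNat 0⟩)
    (by decide +kernel)
theorem L00407 : Good (Phi V5.P V5.D (-1) (-1)) ⟨2, 1, 2, 0, 2, 2, 3, 1, 4, 1⟩ :=
  leafX_sound T5.ok_mm T5.Ymm.bz_eq (w := 201) (c := ⟨⟨.negSucc 270, .negSucc 475, .ofNat 193, .ofNat 141, .ofNat 50, .negSucc 1153⟩, ⟨.negSucc 284, .ofNat 185, .ofNat 243, .ofNat 2, .ofNat 19, .ofNat 152⟩, ⟨.negSucc 203, .ofNat 525, .negSucc 154, .negSucc 177, .negSucc 64, .ofNat 748⟩, ⟨.negSucc 893, .negSucc 757, .ofNat 238, .ofNat 382, .ofNat 198, .negSucc 2867⟩, ⟨.negSucc 1231, .negSucc 306, .ofNat 82, .negSucc 289, .ofNat 251, .ofNat 210⟩, .ofNat 366, .ofNat 29, .ofNat 0, .ofNat 29, .ofNat 721, .ofNat 0, .ofNat 363, .negSucc 45, .negSucc 115, .ofNat 0, .ofNat 128, .ofNat 29, .ofNat 0, .ofNat 0, .ofNat 320, .ofNat 2721, .ofNat 0, .ofNat 0, .ofNat 0, .ofNat 0, .ofNat 0, .ofNat 0, .ofNat 106337476279949889276667111696804872192,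 .ofNat 0, .ofNat 0, .ofNat 0, .ofNat 0, .ofNat 0, .ofNat 0, .ofNat 0, .ofNat 0, .ofNat 0⟩)
    (by decide +kernel)
theorem L00408 : Good (Phi V5.P V5.D (-1) (-1)) ⟨2, 1, 2, 0, 2, 3, 3, 0, 4, 0⟩ :=
  leafX_sound T5.ok_mm T5.Ymm.bz_eq (w := 202) (c := ⟨⟨.ofNat 1196, .ofNat 13, .ofNat 287, .negSucc 807, .ofNat 408, .negSucc 1559⟩, ⟨.negSucc 87, .negSucc 82, .negSucc 68, .ofNat 264, .negSucc 24, .ofNat 51⟩, ⟨.negSucc 281, .ofNat 283, .negSucc 19, .ofNat 675, .negSucc 551, .ofNat 357⟩, ⟨.ofNat 3228, .negSucc 306, .ofNat 684, .negSucc 1793, .ofNat 881, .negSucc 3986⟩, ⟨.negSucc 821, .negSucc 911, .ofNat 390, .ofNat 3048, .ofNat 509, .negSucc 960⟩, .ofNat 519, .ofNat 126, .ofNat 0, .ofNat 126, .ofNat 1710, .ofNat 0, .ofNat 410, .negSucc 98, .negSucc 162, .ofNat 0, .ofNat 128, .ofNat 12, .ofNat 0, .ofNat 0, .ofNat 448, .ofNat 2321, .ofNat 5561272667726692689022057171776622821376,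 .ofNat 0, .ofNat 0, .ofNat 0, .ofNat 0, .ofNat 0, .ofNat 0, .ofNat 0, .ofNat 0, .ofNat 0, .ofNat 0, .ofNat 0, .ofNat 0, .ofNat 0, .ofNat 0, .ofNat 0⟩)
    (by decide +kernel)
theorem L00409 : Good (Phi V5.P V5.D (-1) (-1)) ⟨2, 1, 2, 0, 3, 6, 5, 0, 4, 1⟩ :=
  leafX_sound T5.ok_mm T5.Ymm.bz_eq (w := 226) (c := ⟨⟨.negSucc 226, .negSucc 618, .ofNat 253, .negSucc 58, .ofNat 13, .negSucc 1153⟩, ⟨.negSucc 290, .ofNat 171, .ofNat 250, .ofNat 51, .ofNat 8, .ofNat 132⟩, ⟨.negSucc 169, .ofNat 950, .negSucc 255, .ofNat 369, .negSucc 126, .ofNat 659⟩, ⟨.negSucc 802, .negSucc 1085, .ofNat 404, .negSucc 152, .ofNat 107, .negSucc 2891⟩, ⟨.negSucc 1711, .negSucc 669, .ofNat 294, .ofNat 802, .ofNat 106, .ofNat 192⟩, .ofNat 366, .ofNat 33, .ofNat 0, .ofNat 33, .ofNat 723, .ofNat 0, .ofNat 342, .negSucc 93, .negSucc 105, .ofNat 0, .ofNat 128, .ofNat 24, .ofNat 0, .ofNat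 0, .ofNat 301, .ofNat 25133, .ofNat 20296924959519868677470000997189615757968801792, .ofNat 0, .ofNat 0, .ofNat 0, .ofNat 0, .ofNat 0, .ofNat 0, .ofNat 0, .ofNat 0, .ofNat 0, .ofNat 0, .ofNat 0, .ofNat 0, .ofNat 0, .ofNat 0, .ofNat 0⟩)
    (by decide +kernel)
theorem L00410 : Good (Phi V5.P V5.D (-1) (-1)) ⟨2, 1, 2, 0, 3, 6, 5, 1, 4, 1⟩ :=
  leafX_sound T5.ok_mm T5.Ymm.bz_eq (w := 225) (c := ⟨⟨.negSucc 136, .negSucc 614, .ofNat 229, .negSucc 86, .ofNat 22, .negSucc 1194⟩, ⟨.negSucc 293, .ofNat 175, .ofNat 277, .ofNat 41, .ofNat 5, .ofNat 105⟩, ⟨.negSucc 255, .ofNat 861, .negSucc 267, .ofNat 352, .negSucc 87, .ofNat 687⟩, ⟨.negSucc 591, .negSucc 1080, .ofNat 325, .negSucc 112, .ofNat 52, .negSucc 2890⟩, ⟨.negSucc 1668, .negSucc 569, .ofNat 344, .ofNat 832, .ofNat 23, .ofNat 226⟩, .ofNat 512, .ofNat 95, .ofNat 0, .ofNat 95, .ofNat 1683, .ofNat 0, .ofNat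 357, .negSucc 99, .negSucc 112, .ofNat 0, .ofNat 128, .ofNat 17, .ofNat 0, .ofNat 0, .ofNat 399, .ofNat 9711, .ofNat 0, .ofNat 0, .ofNat 0, .ofNat 0, .ofNat 0, .ofNat 0, .ofNat 0, .ofNat 0, .ofNat 0, .ofNat 0, .ofNat 0, .ofNat 0, .ofNat 0, .ofNat 0, .ofNat 0, .ofNat 0⟩)
    (by decide +kernel)
theorem L00411 : Good (Phi V5.P V5.D (-1) (-1)) ⟨2, 1, 2, 0, 3, 6, 4, 1, 4, 1⟩ :=
  leafX_sound T5.ok_mm T5.Ymm.bz_eq (w := 220) (c := ⟨⟨.negSucc 52, .negSucc 619, .ofNat 215, .negSucc 52, .ofNat 22, .negSucc 1216⟩, ⟨.negSucc 277, .ofNat 194, .ofNat 224, .ofNat 37, .ofNat 16, .ofNat 131⟩, ⟨.negSucc 347, .ofNat 766, .negSucc 201, .ofNat 284, .negSucc 118, .ofNat 708⟩, ⟨.negSucc 353, .negSucc 1208, .ofNat 425, .negSucc 36, .ofNat 134, .negSucc 3122⟩, ⟨.negSucc 1473, .negSucc 782, .ofNat 412, .ofNat 807, .ofNat 194, .negSucc 13⟩, .ofNat 367, .ofNat 30, .ofNat 0,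 .ofNat 30, .ofNat 720, .ofNat 0, .ofNat 269, .negSucc 79, .negSucc 111, .ofNat 0, .ofNat 128, .ofNat 24, .ofNat 0, .ofNat 0, .ofNat 270, .ofNat 4915, .ofNat 0, .ofNat 0, .ofNat 0, .ofNat 0, .ofNat 0, .ofNat 0, .ofNat 0, .ofNat 0, .ofNat 0, .ofNat 0, .ofNat 0, .ofNat 0, .ofNat 0, .ofNat 0, .ofNat 0, .ofNat 0⟩)
    (by decide +kernel)
theorem L00412 : Good (Phi V5.P V5.D (-1) (-1)) ⟨2, 1, 2, 0, 3, 7, 3, 0, 4, 1⟩ :=
  leafX_sound T5.ok_mm T5.Ymm.bz_eq (w := 216) (c := ⟨⟨.negSucc 444, .negSucc 592, .ofNat 238, .negSucc 262, .ofNat 173, .negSucc 908⟩, ⟨.negSucc 134, .ofNat 74, .ofNat 229, .ofNat 119, .negSucc 4, .ofNat 31⟩, ⟨.ofNat 317, .ofNat 631, .negSucc 113, .ofNat 8, .negSucc 270, .ofNat 452⟩, ⟨.negSucc 1338, .negSucc 963, .ofNat 607, .negSucc 528, .ofNat 410, .negSucc 2327⟩, ⟨.negSucc 345, .negSucc 606, .ofNat 527, .ofNat 1467, .negSucc 24, .negSucc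 608⟩, .ofNat 515, .ofNat 94, .ofNat 0, .ofNat 94, .ofNat 1663, .ofNat 0, .ofNat 343, .negSucc 97, .negSucc 167, .ofNat 0, .ofNat 128, .ofNat 8, .ofNat 0, .ofNat 0, .ofNat 489, .ofNat 5413, .ofNat 0, .ofNat 0, .ofNat 0, .ofNat 0, .ofNat 0, .ofNat 0, .ofNat 0, .ofNat 0, .ofNat 0, .ofNat 0, .ofNat 0, .ofNat 0, .ofNat 221027424391434799129441791987086342903300096, .ofNat 0, .ofNat 389124864504470292091953483228574994399232, .ofNat 0⟩)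
    (by decide +kernel)
theorem L00413 : Good (Phi V5.P V5.D (-1) (-1)) ⟨2, 1, 2, 0, 2, 3, 3, 1, 4, 0⟩ :=
  leafX_sound T5.ok_mm T5.Ymm.bz_eq (w := 202) (c := ⟨⟨.ofNat 1590, .ofNat 256, .ofNat 218, .negSucc 938, .ofNat 146, .negSucc 1556⟩, ⟨.ofNat 12, .negSucc 180, .negSucc 197, .ofNat 283, .ofNat 1, .ofNat 9⟩, ⟨.negSucc 889, .ofNat 94, .ofNat 96, .ofNat 936, .negSucc 176, .ofNat 366⟩, ⟨.ofNat 4102, .ofNat 89, .ofNat 687, .negSucc 2148, .ofNat 512, .negSucc 3960⟩, ⟨.ofNat 140, .negSucc 784, .ofNat 455, .ofNat 2678, .ofNat 281, .negSucc 1628⟩, .ofNat 516, .ofNat 89, .ofNat 0, .ofNat 89, .ofNat 1647, .ofNat 0, .ofNat 527, .negSucc 51, .negSucc 192, .ofNat 0, .ofNat 128, .ofNat 15, .ofNat 0, .ofNat 0, .ofNat 443, .ofNat 1458, .ofNat 0, .ofNat 0, .ofNat 0, .ofNat 0, .ofNat 0, .ofNat 0, .ofNat 0, .ofNat 0, .ofNat 0, .ofNat 0, .ofNat 26144829449930562153208893290093477888,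 .ofNat 0, .ofNat 0, .ofNat 0, .ofNat 0, .ofNat 0⟩)
    (by decide +kernel)
theorem L00414 : Good (Phi V5.P V5.D (-1) (-1)) ⟨2, 1, 2, 0, 2, 3, 3, 1, 4, 1⟩ :=
  leafX_sound T5.ok_mm T5.Ymm.bz_eq (w := 201) (c := ⟨⟨.negSucc 5, .negSucc 484, .ofNat 172, .negSucc 295, .ofNat 96, .negSucc 1143⟩, ⟨.negSucc 233, .ofNat 102, .ofNat 233, .ofNat 110, .ofNat 14, .ofNat 69⟩, ⟨.negSucc 375, .ofNat 552, .negSucc 130, .ofNat 401, .negSucc 128, .ofNat 689⟩, ⟨.negSucc 289, .negSucc 809, .ofNat 358, .negSucc 523, .ofNat 231, .negSucc 2892⟩, ⟨.negSucc 1235, .negSucc 684, .ofNat 494, .ofNat 1895, .negSucc 6, .negSucc 333⟩, .ofNat 519, .ofNat 103, .ofNat 0, .ofNat 103, .ofNat 1678, .ofNat 0, .ofNat 359, .negSucc 83, .negSucc 99, .ofNat 0, .ofNat 128, .ofNat 12, .ofNat 0, .ofNat 0, .ofNat 257, .ofNat 1558, .ofNat 0, .ofNat 0, .ofNat 0, .ofNat 0, .ofNat 0, .ofNat 0, .ofNat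 0, .ofNat 0, .ofNat 0, .ofNat 0, .ofNat 0, .ofNat 0, .ofNat 0, .ofNat 0, .ofNat 0, .ofNat 0⟩)
    (by decide +kernel)
theorem L00415 : Good (Phi V5.P V5.D (-1) (-1)) ⟨2, 1, 2, 0, 1, 1, 2, 1, 4, 0⟩ :=
  leafX_sound T5.ok_mm T5.Ymm.bz_eq (w := 183) (c := ⟨⟨.ofNat 1345, .ofNat 285, .ofNat 97, .negSucc 118, .negSucc 296, .negSucc 1510⟩, ⟨.negSucc 38, .negSucc 97, .negSucc 142, .ofNat 139, .ofNat 8, .ofNat 97⟩, ⟨.negSucc 1099, .negSucc 130, .ofNat 35, .ofNat 857, .ofNat 111, .ofNat 527⟩, ⟨.ofNat 3503, .ofNat 327, .ofNat 331, .negSucc 140, .negSucc 773, .negSucc 3847⟩, ⟨.negSucc 397, .negSucc 988, .ofNat 556, .ofNat 2249, .negSucc 249, .negSucc 844⟩, .ofNat 520, .ofNat 110, .ofNat 0, .ofNat 110, .ofNat 1673, .ofNat 0, .ofNat 345, .negSucc 45, .negSucc 213, .ofNat 0, .ofNat 128, .ofNat 28, .ofNat 0, .ofNat 0, .ofNat 466, .ofNat 450, .ofNat 0, .ofNat 0, .ofNat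 0, .ofNat 0, .ofNat 0, .ofNat 0, .ofNat 0, .ofNat 0, .ofNat 0, .ofNat 0, .ofNat 0, .ofNat 0, .ofNat 0, .ofNat 0, .ofNat 0, .ofNat 0⟩)
    (by decide +kernel)
theorem L00416 : Good (Phi V5.P V5.D (-1) (-1)) ⟨2, 1, 2, 0, 1, 1, 2, 1, 4, 1⟩ :=
  leafX_sound T5.ok_mm T5.Ymm.bz_eq (w := 182) (c := ⟨⟨.negSucc 334, .negSucc 373, .ofNat 236, .ofNat 77, .ofNat 70, .negSucc 1016⟩, ⟨.negSucc 178, .ofNat 86, .ofNat 197, .ofNat 36, .negSucc 6, .ofNat 97⟩, ⟨.negSucc 221, .ofNat 374, .negSucc 96, .ofNat 181, .negSucc 8, .ofNat 527⟩, ⟨.negSucc 915, .negSucc 569, .ofNat 498, .ofNat 276, .ofNat 126, .negSucc 2688⟩, ⟨.negSucc 915, .negSucc 454, .ofNat 369, .ofNat 849, .negSucc 106, .negSucc 280⟩, .ofNat 366, .ofNat 31, .ofNat 0, .ofNat 31, .ofNat 724, .ofNat 0, .ofNat 238, .negSucc 30, .negSucc 138, .ofNat 0, .ofNat 128, .ofNat 24, .ofNat 0, .ofNat 0, .ofNat 264, .ofNat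 392, .ofNat 0, .ofNat 0, .ofNat 0, .ofNat 0, .ofNat 0, .ofNat 0, .ofNat 32179549414642462157721219104768, .ofNat 0, .ofNat 0, .ofNat 0, .ofNat 0, .ofNat 0, .ofNat 0, .ofNat 0, .ofNat 0, .ofNat 0⟩)
    (by decide +kernel)
theorem L00417 : Good (Phi V5.P V5.D (-1) (-1)) ⟨2, 1, 2, 0, 2, 2, 4, 0, 3, 1⟩ :=
  leafX_sound T5.ok_mm T5.Ymm.bz_eq (w := 203) (c := ⟨⟨.negSucc 1355, .negSucc 657, .ofNat 97, .ofNat 35, .ofNat 66, .negSucc 533⟩, ⟨.negSucc 258, .ofNat 232, .ofNat 397, .ofNat 4, .ofNat 9, .ofNat 53⟩, ⟨.ofNat 442, .ofNat 773, .negSucc 245, .negSucc 71, .negSucc 8, .ofNat 945⟩, ⟨.negSucc 3719, .negSucc 844, .negSucc 37, .ofNat 120, .ofNat 156, .negSucc 1324⟩, ⟨.negSucc 1309, .negSucc 203, .ofNat 60, .negSucc 153, .ofNat 82, .ofNat 518⟩, .ofNat 367, .ofNat 33, .ofNat 0, .ofNat 33, .ofNat 735, .ofNat 0, .ofNat 363, .negSucc 46, .negSucc 83, .ofNat 0, .ofNat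 128, .ofNat 37, .ofNat 0, .ofNat 0, .ofNat 534, .ofNat 21153, .ofNat 43674896616640968216805704238331521400832, .ofNat 0, .ofNat 3236513847573253170236836928995459072, .ofNat 0, .ofNat 591868488130604059877888051166579844448256, .ofNat 0, .ofNat 0, .ofNat 0, .ofNat 0, .ofNat 0, .ofNat 0, .ofNat 0, .ofNat 117324372726482026086616170260285081255936, .ofNat 0, .ofNat 0, .ofNat 0⟩)
    (by decide +kernel)
theorem L00418 : Good (Phi V5.P V5.D (-1) (-1)) ⟨2, 1, 2, 0, 2, 2, 4, 1, 3, 1⟩ :=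
  leafX_sound T5.ok_mm T5.Ymm.bz_eq (w := 203) (c := ⟨⟨.negSucc 1490, .negSucc 585, .ofNat 89, .ofNat 124, .ofNat 67, .negSucc 144⟩, ⟨.negSucc 205, .ofNat 219, .ofNat 391, .negSucc 25, .negSucc 15, .ofNat 37⟩, ⟨.ofNat 577, .ofNat 688, .negSucc 196, .negSucc 193, .negSucc 66, .ofNat 631⟩, ⟨.negSucc 4084, .negSucc 577, .negSucc 16, .ofNat 298, .ofNat 169, .negSucc 380⟩, ⟨.negSucc 1216, .negSucc 35, .ofNat 91, .negSucc 262, .ofNat 158, .ofNat 213⟩, .ofNat 518, .ofNat 107, .ofNat 0, .ofNat 107, .ofNat 1730, .ofNat 0, .ofNat 582, .negSucc 66, .negSucc 114, .ofNat 0, .ofNat 128, .ofNat 29, .ofNat 0, .ofNat 0, .ofNat 764, .ofNat 14729, .ofNat 0, .ofNat 0, .ofNat 0, .ofNat 0, .ofNat 0, .ofNat 0, .ofNat 0, .ofNat 0, .ofNat 52768448960466674193304849999506440192000, .ofNat 0, .ofNat 0, .ofNat 0, .ofNat 0, .ofNat 0, .ofNat 0, .ofNat 0⟩)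
    (by decide +kernel)
theorem L00419 : Good (Phi V5.P V5.D (-1) (-1)) ⟨2, 1, 2, 0, 2, 2, 3, 1, 3, 1⟩ :=
  leafX_sound T5.ok_mm T5.Ymm.bz_eq (w := 198) (c := ⟨⟨.negSucc 1491, .negSucc 518, .ofNat 54, .ofNat 44, .ofNat 67, .negSucc 21⟩, ⟨.negSucc 185, .ofNat 186, .ofNat 386, .negSucc 16, .ofNat 0, .ofNat 12⟩, ⟨.ofNat 661, .ofNat 577, .negSucc 130, .negSucc 218, .negSucc 101, .ofNat 474⟩, ⟨.negSucc 4076, .negSucc 420, .negSucc 63, .ofNat 95, .ofNat 151, .negSucc 76⟩, ⟨.negSucc 934, .negSucc 54, .ofNat 16, .negSucc 361, .ofNat 117, .ofNat 216⟩, .ofNat 516, .ofNat 81, .ofNat 0, .ofNat 81, .ofNat 1645, .ofNat 0, .ofNat 764, .negSucc 48, .negSucc 110, .ofNat 0, .ofNat 128, .ofNat 24, .ofNat 0, .ofNat 0, .ofNat 654, .ofNat 6375, .ofNat 0, .ofNat 0, .ofNat 0, .ofNat 0, .ofNat 0, .ofNat 0, .ofNat 0, .ofNat 0, .ofNat 0, .ofNat 0, .ofNat 885138313711460655497751664294625280,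 .ofNat 0, .ofNat 0, .ofNat 0, .ofNat 0, .ofNat 0⟩)
    (by decide +kernel)
theorem L00420 : Good (Phi V5.P V5.D (-1) (-1)) ⟨3, 2, 2, 0, 3, 6, 5, 0, 4, 2⟩ :=
  leafX_sound T5.ok_mm T5.Ymm.bz_eq (w := 233) (c := ⟨⟨.negSucc 1300, .negSucc 262, .ofNat 100, .negSucc 3, .ofNat 31, .negSucc 264⟩, ⟨.negSucc 209, .ofNat 58, .ofNat 363, .ofNat 43, .negSucc 0, .ofNat 5⟩, ⟨.ofNat 475, .ofNat 429, .negSucc 237, .ofNat 318, .negSucc 85, .ofNat 305⟩, ⟨.negSucc 3570, .negSucc 354, .ofNat 62, .ofNat 48, .ofNat 67, .negSucc 711⟩, ⟨.negSucc 1408, .negSucc 210, .ofNat 327, .ofNat 614, .negSucc 42, .negSucc 160⟩, .ofNat 538, .ofNat 83, .ofNat 0, .ofNat 83, .ofNat 1513, .ofNat 0, .ofNat 286, .negSucc 74, .negSucc 89, .ofNat 0, .ofNat 128, .ofNat 19, .ofNat 0, .ofNat 0, .ofNat 466, .ofNat 166258, .ofNat 1720800358930378832653199415353223773956626972672, .ofNat 0, .ofNat 0,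 .ofNat 0, .ofNat 1724436638246191735491160266304286600172174049280, .ofNat 0, .ofNat 0, .ofNat 0, .ofNat 2385434300102431095432848933935618879510206742528, .ofNat 0, .ofNat 0, .ofNat 0, .ofNat 1756695865131543111884799546782217985599700205568, .ofNat 0, .ofNat 0, .ofNat 0⟩)
    (by decide +kernel)
theorem L00421 : Good (Phi V5.P V5.D (-1) (-1)) ⟨3, 2, 2, 0, 3, 6, 5, 1, 4, 2⟩ :=
  leafX_sound T5.ok_mm T5.Ymm.bz_eq (w := 231) (c := ⟨⟨.negSucc 1314, .negSucc 259, .ofNat 81, .ofNat 55, .ofNat 28, .negSucc 241⟩, ⟨.negSucc 210, .ofNat 67, .ofNat 377, .ofNat 21, .ofNat 2, .ofNat 17⟩, ⟨.ofNat 460, .ofNat 396, .negSucc 217, .ofNat 212, .negSucc 71, .ofNat 356⟩, ⟨.negSucc 3603, .negSucc 320, .negSucc 5, .ofNat 185, .ofNat 54, .negSucc 628⟩, ⟨.negSucc 1302, .negSucc 139, .ofNat 250, .ofNat 388, .negSucc 41, .ofNat 21⟩, .ofNat 538, .ofNat 94, .ofNat 0, .ofNat 94,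 .ofNat 1527, .ofNat 0, .ofNat 227, .negSucc 74, .negSucc 59, .ofNat 0, .ofNat 128, .ofNat 13, .ofNat 0, .ofNat 0, .ofNat 298, .ofNat 39113, .ofNat 0, .ofNat 0, .ofNat 0, .ofNat 0, .ofNat 0, .ofNat 0, .ofNat 0, .ofNat 0, .ofNat 0, .ofNat 0, .ofNat 0, .ofNat 0, .ofNat 96081125114524904834076769555474737100811665408, .ofNat 0, .ofNat 0, .ofNat 0⟩)
    (by decide +kernel)
theorem L00422 : Good (Phi V5.P V5.D (-1) (-1)) ⟨3, 2, 2, 0, 3, 6, 4, 1, 4, 2⟩ :=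
  leafX_sound T5.ok_mm T5.Ymm.bz_eq (w := 226) (c := ⟨⟨.negSucc 1265, .negSucc 254, .ofNat 97, .ofNat 48, .ofNat 9, .negSucc 274⟩, ⟨.negSucc 199, .ofNat 60, .ofNat 363, .ofNat 20, .ofNat 4, .ofNat 15⟩, ⟨.ofNat 418, .ofNat 351, .negSucc 187, .ofNat 148, .negSucc 82, .ofNat 362⟩, ⟨.negSucc 3460, .negSucc 331, .ofNat 51, .ofNat 143, .ofNat 28, .negSucc 728⟩, ⟨.negSucc 1248, .negSucc 189, .ofNat 265, .ofNat 323, .ofNat 32, .negSucc 2⟩, .ofNat 536, .ofNat 76, .ofNat 0, .ofNat 76, .ofNat 1504, .ofNat 0, .ofNat 399, .negSucc 65, .negSucc 138, .ofNat 0, .ofNat 128, .ofNat 28, .ofNat 0, .ofNat 0, .ofNat 632, .ofNat 25299, .ofNat 0, .ofNat 0, .ofNat 0, .ofNat 0, .ofNat 0, .ofNat 0, .ofNat 0, .ofNat 0, .ofNat 0, .ofNat 0, .ofNat 0, .ofNat 0, .ofNat 0, .ofNat 0, .ofNat 0, .ofNat 0⟩)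
    (by decide +kernel)

end Crest.Agent.R097C5.N5mm
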