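import Crest.Agent.R097.KP7
import Crest.Agent.R097.T5Ymm

/-!
# Row 97, box cover in dimension n = 5 (generated)
-/

set_option autoImplicit false
set_option Elab.async false
set_option maxHeartbeats 0
set_option maxRecDepth 100000

open Crest.Agent.R097 Crest.Agent.R097.KA


namespace Crest.Agent.R097C5.N5mm

theorem L00423 : Good (Phi V5.P V5.D (-1) (-1)) ⟨3, 2, 2, 0, 3, 6, 3, 1, 4, 2⟩ :=
  leafX_sound T5.ok_mm T5.Ymm.bz_eq (w := 221) (c := ⟨⟨.negSucc 1249, .negSucc 232, .ofNat 117, .ofNat 53, .ofNat 71, .negSucc 308⟩, ⟨.negSucc 185, .ofNat 52, .ofNat 352, .ofNat 7, .negSucc 7, .ofNat 23⟩, ⟨.ofNat 363, .ofNat 293, .negSucc 136, .ofNat 88, .negSucc 100, .ofNat 360⟩, ⟨.negSucc 3416, .negSucc 275, .ofNat 108, .ofNat 161, .ofNat 190, .negSucc 815⟩, ⟨.negSucc 1246, .negSucc 74, .ofNat 227, .ofNat 284, .ofNat 126, .negSucc 28⟩, .ofNat 534, .ofNat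 65, .ofNat 0, .ofNat 65, .ofNat 1506, .ofNat 0, .ofNat 429, .negSucc 55, .negSucc 98, .ofNat 0, .ofNat 128, .ofNat 18, .ofNat 0, .ofNat 0, .ofNat 380, .ofNat 10337, .ofNat 0, .ofNat 0, .ofNat 0, .ofNat 0, .ofNat 0, .ofNat 0, .ofNat 0, .ofNat 0, .ofNat 0, .ofNat 0, .ofNat 0, .ofNat 0, .ofNat 0, .ofNat 0, .ofNat 0, .ofNat 0⟩)
    (by decide +kernel)
theorem L00424 : Good (Phi V5.P V5.D (-1) (-1)) ⟨3, 3, 2, 0, 3, 6, 5, 0, 4, 2⟩ :=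
  leafX_sound T5.ok_mm T5.Ymm.bz_eq (w := 233) (c := ⟨⟨.negSucc 1663, .negSucc 435, .ofNat 147, .negSucc 10, .ofNat 83, .negSucc 172⟩, ⟨.negSucc 146, .ofNat 143, .ofNat 407, .ofNat 13, .negSucc 8, .ofNat 14⟩, ⟨.ofNat 1024, .ofNat 579, .negSucc 288, .ofNat 361, .negSucc 172, .ofNat 180⟩, ⟨.negSucc 4167, .negSucc 523, .ofNat 111, .ofNat 19, .ofNat 180, .negSucc 419⟩, ⟨.negSucc 1820, .ofNat 137, .ofNat 202, .ofNat 462, .ofNat 130, .negSucc 27⟩, .ofNat 585, .ofNat 312, .ofNat 0, .ofNat 312, .ofNat 4001, .ofNat 0, .ofNat 318, .negSucc 127, .negSucc 124, .ofNat 0, .ofNat 106, .ofNat 16, .ofNat 0, .ofNat 0, .ofNat 518, .ofNat 126544, .ofNat 1317912913666426107876586436854209146521733038080, .ofNat 0, .ofNat 15177626465732340193666540589674280322596864, .ofNat 0, .ofNat 2640531391373211638554027298084844390846914625536, .ofNat 0, .ofNat 0, .ofNat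 0, .ofNat 247936927474278852785425872059101084415026003968, .ofNat 0, .ofNat 0, .ofNat 0, .ofNat 2667946159332821294502566235711388124573807411200, .ofNat 0, .ofNat 0, .ofNat 0⟩)
    (by decide +kernel)
theorem L00425 : Good (Phi V5.P V5.D (-1) (-1)) ⟨3, 3, 2, 0, 3, 6, 5, 1, 4, 2⟩ :=
  leafX_sound T5.ok_mm T5.Ymm.bz_eq (w := 232) (c := ⟨⟨.negSucc 1619, .negSucc 423, .ofNat 133, .ofNat 31, .ofNat 21, .negSucc 176⟩, ⟨.negSucc 152, .ofNat 145, .ofNat 409, .ofNat 6, .ofNat 1, .ofNat 16⟩, ⟨.ofNat 904, .ofNat 565, .negSucc 265, .ofNat 252, .negSucc 109, .ofNat 298⟩, ⟨.negSucc 4052, .negSucc 524, .ofNat 80, .ofNat 100, .ofNat 38, .negSucc 405⟩, ⟨.negSucc 1522, .negSucc 12, .ofNat 166, .ofNat 307, .ofNat 4, .ofNat 103⟩, .ofNat 499, .ofNat 149, .ofNat 0, .ofNat 149, .ofNat 1965, .ofNat 0, .ofNat 478, .negSucc 112, .negSucc 214, .ofNat 0, .ofNat 128,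 .ofNat 39, .ofNat 0, .ofNat 0, .ofNat 915, .ofNat 71664, .ofNat 0, .ofNat 0, .ofNat 0, .ofNat 0, .ofNat 0, .ofNat 0, .ofNat 0, .ofNat 0, .ofNat 0, .ofNat 0, .ofNat 0, .ofNat 0, .ofNat 0, .ofNat 0, .ofNat 0, .ofNat 0⟩)
    (by decide +kernel)
theorem L00426 : Good (Phi V5.P V5.D (-1) (-1)) ⟨3, 3, 2, 0, 3, 6, 4, 1, 4, 2⟩ :=
  leafX_sound T5.ok_mm T5.Ymm.bz_eq (w := 226) (c := ⟨⟨.negSucc 1589, .negSucc 405, .ofNat 131, .ofNat 63, .ofNat 42, .negSucc 185⟩, ⟨.negSucc 153, .ofNat 152, .ofNat 399, .ofNat 3, .negSucc 3, .ofNat 19⟩, ⟨.ofNat 849, .ofNat 465, .negSucc 215, .ofNat 144, .negSucc 142, .ofNat 305⟩, ⟨.negSucc 3988, .negSucc 496, .ofNat 108, .ofNat 169, .ofNat 117, .negSucc 450⟩, ⟨.negSucc 1417, .negSucc 111, .ofNat 172, .ofNat 251, .ofNat 59, .ofNat 30⟩, .ofNat 499, .ofNat 149, .ofNat 0, .ofNat 149, .ofNat 1965, .ofNat 0, .ofNat 415, .negSucc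 109, .negSucc 140, .ofNat 0, .ofNat 128, .ofNat 25, .ofNat 0, .ofNat 0, .ofNat 544, .ofNat 20435, .ofNat 0, .ofNat 0, .ofNat 0, .ofNat 0, .ofNat 0, .ofNat 0, .ofNat 0, .ofNat 0, .ofNat 0, .ofNat 0, .ofNat 0, .ofNat 0, .ofNat 0, .ofNat 0, .ofNat 0, .ofNat 0⟩)
    (by decide +kernel)
theorem L00427 : Good (Phi V5.P V5.D (-1) (-1)) ⟨3, 3, 2, 0, 3, 6, 3, 1, 4, 2⟩ :=
  leafX_sound T5.ok_mm T5.Ymm.bz_eq (w := 222) (c := ⟨⟨.negSucc 1593, .negSucc 362, .ofNat 151, .ofNat 109, .ofNat 111, .negSucc 224⟩, ⟨.negSucc 140, .ofNat 135, .ofNat 390, .negSucc 3, .negSucc 12, .ofNat 23⟩, ⟨.ofNat 819, .ofNat 378, .negSucc 184, .ofNat 10, .negSucc 236, .ofNat 291⟩, ⟨.negSucc 3952, .negSucc 426, .ofNat 142, .ofNat 259, .ofNat 264, .negSucc 539⟩, ⟨.negSucc 1261, .negSucc 134, .ofNat 160, .ofNat 82, .ofNat 37, .ofNat 41⟩, .ofNat 495, .ofNat 123, .ofNat 0, .ofNat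 123, .ofNat 1895, .ofNat 0, .ofNat 533, .negSucc 91, .negSucc 230, .ofNat 0, .ofNat 128, .ofNat 38, .ofNat 0, .ofNat 0, .ofNat 805, .ofNat 11442, .ofNat 0, .ofNat 0, .ofNat 0, .ofNat 0, .ofNat 0, .ofNat 0, .ofNat 0, .ofNat 0, .ofNat 0, .ofNat 0, .ofNat 0, .ofNat 0, .ofNat 0, .ofNat 0, .ofNat 0, .ofNat 0⟩)
    (by decide +kernel)
theorem L00428 : Good (Phi V5.P V5.D (-1) (-1)) ⟨2, 1, 2, 0, 3, 7, 2, 0, 4, 2⟩ :=
  leafX_sound T5.ok_mm T5.Ymm.bz_eq (w := 212) (c := ⟨⟨.negSucc 1426, .negSucc 498, .ofNat 151, .ofNat 17, .ofNat 146, .negSucc 102⟩, ⟨.negSucc 164, .ofNat 150, .ofNat 369, .ofNat 39, .negSucc 12, .negSucc 9⟩, ⟨.ofNat 915, .ofNat 529, .negSucc 89, .negSucc 192, .negSucc 394, .ofNat 168⟩, ⟨.negSucc 3874, .negSucc 470, .ofNat 248, .ofNat 90, .ofNat 323, .negSucc 303⟩, ⟨.negSucc 649, .negSucc 431, .ofNat 345, .ofNat 750, .negSucc 184, .negSucc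 373⟩, .ofNat 516, .ofNat 109, .ofNat 0, .ofNat 109, .ofNat 1698, .ofNat 0, .ofNat 217, .negSucc 79, .negSucc 134, .ofNat 0, .ofNat 128, .ofNat 14, .ofNat 0, .ofNat 0, .ofNat 492, .ofNat 3019, .ofNat 0, .ofNat 0, .ofNat 0, .ofNat 0, .ofNat 0, .ofNat 0, .ofNat 0, .ofNat 0, .ofNat 0, .ofNat 0, .ofNat 0, .ofNat 0, .ofNat 0, .ofNat 0, .ofNat 0, .ofNat 0⟩)
    (by decide +kernel)
theorem L00429 : Good (Phi V5.P V5.D (-1) (-1)) ⟨3, 2, 2, 0, 2, 3, 2, 0, 4, 3⟩ :=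
  leafX_sound T5.ok_mm T5.Ymm.bz_eq (w := 202) (c := ⟨⟨.negSucc 1576, .negSucc 143, .ofNat 39, .ofNat 169, .ofNat 52, .ofNat 107⟩, ⟨.negSucc 162, .ofNat 48, .ofNat 367, .ofNat 10, .ofNat 3, .negSucc 13⟩, ⟨.ofNat 949, .ofNat 157, .negSucc 26, .negSucc 92, .negSucc 224, .ofNat 50⟩, ⟨.negSucc 4265, .negSucc 30, .negSucc 62, .ofNat 444, .ofNat 135, .ofNat 242⟩, ⟨.negSucc 1027, .negSucc 159, .ofNat 308, .ofNat 203, .ofNat 105, .negSucc 175⟩, .ofNat 672, .ofNat 220, .ofNat 0, .ofNat 220, .ofNat 3246, .ofNat 0, .ofNat 201, .negSucc 68, .negSucc 98, .ofNat 0, .ofNat 128, .ofNat 15, .ofNat 0, .ofNat 0, .ofNat 684, .ofNat 5058, .ofNat 2308280658810838900933038704736396640256, .ofNat 0, .ofNat 0, .ofNat 0, .ofNat 0, .ofNat 0, .ofNat 0, .ofNat 0, .ofNat 0, .ofNat 0, .ofNat 0, .ofNat 0, .ofNat 229456496271402124428523749183105972305920, .ofNat 0, .ofNat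 0, .ofNat 0⟩)
    (by decide +kernel)
theorem L00430 : Good (Phi V5.P V5.D (-1) (-1)) ⟨3, 3, 2, 0, 2, 3, 2, 0, 4, 3⟩ :=
  leafX_sound T5.ok_mm T5.Ymm.bz_eq (w := 203) (c := ⟨⟨.negSucc 1903, .negSucc 221, .ofNat 84, .ofNat 280, .ofNat 117, .ofNat 197⟩, ⟨.negSucc 107, .ofNat 123, .ofNat 392, .negSucc 20, .negSucc 1, .negSucc 22⟩, ⟨.ofNat 1523, .ofNat 209, .negSucc 104, .negSucc 337, .negSucc 487, .negSucc 34⟩, ⟨.negSucc 4679, .negSucc 100, .ofNat 9, .ofNat 652, .ofNat 275, .ofNat 444⟩, ⟨.negSucc 1244, .negSucc 120, .ofNat 203, .ofNat 163, .ofNat 103, .negSucc 14⟩, .ofNat 499, .ofNat 149, .ofNat 0, .ofNat 149, .ofNat 1965, .ofNat 0, .ofNat 209, .negSucc 84, .negSucc 138, .ofNat 0, .ofNat 128, .ofNat 22, .ofNat 0, .ofNat 0, .ofNat 827, .ofNat 6383, .ofNat 2252970617195999871934248877096603484160, .ofNat 0, .ofNat 17131525072178151489764456558231552,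 .ofNat 0, .ofNat 0, .ofNat 0, .ofNat 0, .ofNat 0, .ofNat 0, .ofNat 0, .ofNat 0, .ofNat 0, .ofNat 0, .ofNat 0, .ofNat 0, .ofNat 0⟩)
    (by decide +kernel)
theorem L00431 : Good (Phi V5.P V5.D (-1) (-1)) ⟨2, 1, 2, 0, 2, 2, 2, 1, 4, 2⟩ :=
  leafX_sound T5.ok_mm T5.Ymm.bz_eq (w := 198) (c := ⟨⟨.negSucc 1282, .negSucc 573, .ofNat 122, .ofNat 48, .ofNat 121, .negSucc 219⟩, ⟨.negSucc 191, .ofNat 195, .ofNat 361, .negSucc 21, .ofNat 1, .ofNat 18⟩, ⟨.ofNat 632, .ofNat 454, .negSucc 135, .negSucc 264, .negSucc 61, .ofNat 303⟩, ⟨.negSucc 3534, .negSucc 611, .ofNat 118, .ofNat 101, .ofNat 307, .negSucc 547⟩, ⟨.negSucc 954, .negSucc 22, .ofNat 89, .negSucc 276, .ofNat 173, .ofNat 164⟩, .ofNat 516, .ofNat 98, .ofNat 0, .ofNat 98, .ofNat 1671, .ofNat 0, .ofNat 563, .negSucc 55, .negSucc 136, .ofNat 0, .ofNat 128, .ofNat 23, .ofNat 0, .ofNat 0, .ofNat 493,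 .ofNat 2574, .ofNat 0, .ofNat 0, .ofNat 0, .ofNat 0, .ofNat 0, .ofNat 0, .ofNat 0, .ofNat 0, .ofNat 0, .ofNat 0, .ofNat 0, .ofNat 0, .ofNat 0, .ofNat 0, .ofNat 0, .ofNat 0⟩)
    (by decide +kernel)
theorem L00432 : Good (Phi V5.P V5.D (-1) (-1)) ⟨2, 1, 2, 0, 2, 2, 2, 1, 4, 3⟩ :=
  leafX_sound T5.ok_mm T5.Ymm.bz_eq (w := 199) (c := ⟨⟨.negSucc 1530, .negSucc 431, .ofNat 76, .ofNat 35, .ofNat 120, .ofNat 58⟩, ⟨.negSucc 163, .ofNat 173, .ofNat 355, .negSucc 7, .ofNat 1, .ofNat 5⟩, ⟨.ofNat 983, .ofNat 347, .negSucc 86, .negSucc 280, .negSucc 121, .ofNat 129⟩, ⟨.negSucc 4203, .negSucc 253, .ofNat 32, .ofNat 54, .ofNat 332, .ofNat 180⟩, ⟨.negSucc 726, .negSucc 66, .ofNat 1, .negSucc 310, .ofNat 221, .ofNat 132⟩, .ofNat 366, .ofNat 30, .ofNat 0, .ofNat 30, .ofNat 723, .ofNat 0, .ofNat 398, .negSucc 28, .negSucc 128, .ofNat 0, .ofNat 128, .ofNat 33,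 .ofNat 0, .ofNat 0, .ofNat 586, .ofNat 4905, .ofNat 0, .ofNat 0, .ofNat 0, .ofNat 0, .ofNat 0, .ofNat 0, .ofNat 0, .ofNat 0, .ofNat 0, .ofNat 0, .ofNat 0, .ofNat 0, .ofNat 0, .ofNat 0, .ofNat 0, .ofNat 0⟩)
    (by decide +kernel)
theorem L00433 : Good (Phi V5.P V5.D (-1) (-1)) ⟨2, 1, 2, 0, 2, 3, 2, 1, 4, 2⟩ :=
  leafX_sound T5.ok_mm T5.Ymm.bz_eq (w := 197) (c := ⟨⟨.negSucc 1253, .negSucc 471, .ofNat 116, .ofNat 52, .ofNat 115, .negSucc 215⟩, ⟨.negSucc 184, .ofNat 159, .ofNat 352, .ofNat 13, .negSucc 5, .ofNat 12⟩, ⟨.ofNat 457, .ofNat 366, .negSucc 48, .negSucc 11, .negSucc 94, .ofNat 209⟩, ⟨.negSucc 3439, .negSucc 468, .ofNat 117, .ofNat 134, .ofNat 287, .negSucc 552⟩, ⟨.negSucc 1036, .negSucc 309, .ofNat 176, .ofNat 292, .ofNat 21, .ofNat 84⟩, .ofNat 517, .ofNat 92, .ofNat 0, .ofNat 92, .ofNat 1645, .ofNat 0, .ofNat 341, .negSucc 55, .negSucc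 130, .ofNat 0, .ofNat 128, .ofNat 19, .ofNat 0, .ofNat 0, .ofNat 402, .ofNat 1687, .ofNat 0, .ofNat 0, .ofNat 0, .ofNat 0, .ofNat 0, .ofNat 0, .ofNat 0, .ofNat 0, .ofNat 0, .ofNat 0, .ofNat 0, .ofNat 0, .ofNat 0, .ofNat 0, .ofNat 0, .ofNat 0⟩)
    (by decide +kernel)
theorem L00434 : Good (Phi V5.P V5.D (-1) (-1)) ⟨2, 1, 2, 0, 3, 6, 2, 1, 4, 3⟩ :=
  leafX_sound T5.ok_mm T5.Ymm.bz_eq (w := 213) (c := ⟨⟨.negSucc 1572, .negSucc 319, .ofNat 84, .ofNat 115, .ofNat 126, .ofNat 116⟩, ⟨.negSucc 162, .ofNat 145, .ofNat 349, .ofNat 0, .ofNat 5, .negSucc 0⟩, ⟨.ofNat 875, .ofNat 198, .negSucc 88, .negSucc 121, .negSucc 170, .ofNat 12⟩, ⟨.negSucc 4246, .negSucc 60, .ofNat 29, .ofNat 274, .ofNat 327, .ofNat 275⟩, ⟨.negSucc 1020, .negSucc 243, .ofNat 119, .negSucc 17, .ofNat 258, .ofNat 154⟩, .ofNat 368, .ofNat 26, .ofNat 0, .ofNat 26, .ofNat 714, .ofNat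 0, .ofNat 382, .negSucc 32, .negSucc 175, .ofNat 0, .ofNat 128, .ofNat 42, .ofNat 0, .ofNat 0, .ofNat 812, .ofNat 3299, .ofNat 0, .ofNat 0, .ofNat 743921664362470250537200187552999407616, .ofNat 0, .ofNat 0, .ofNat 0, .ofNat 0, .ofNat 0, .ofNat 0, .ofNat 0, .ofNat 0, .ofNat 0, .ofNat 0, .ofNat 0, .ofNat 0, .ofNat 0⟩)
    (by decide +kernel)
theorem L00435 : Good (Phi V5.P V5.D (-1) (-1)) ⟨2, 1, 2, 0, 3, 7, 2, 1, 4, 3⟩ :=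
  leafX_sound T5.ok_mm T5.Ymm.bz_eq (w := 211) (c := ⟨⟨.negSucc 1493, .negSucc 219, .ofNat 56, .ofNat 105, .ofNat 106, .ofNat 121⟩, ⟨.negSucc 146, .ofNat 129, .ofNat 342, .negSucc 2, .negSucc 4, .negSucc 4⟩, ⟨.ofNat 806, .ofNat 85, .ofNat 7, .negSucc 126, .negSucc 151, .negSucc 16⟩, ⟨.negSucc 4067, .ofNat 129, .ofNat 9, .ofNat 287, .ofNat 294, .ofNat 305⟩, ⟨.negSucc 974, .negSucc 436, .ofNat 311, .ofNat 215, .ofNat 199, .ofNat 131⟩, .ofNat 367, .ofNat 35, .ofNat 0, .ofNat 35, .ofNat 726, .ofNat 0, .ofNat 354, .negSucc 35, .negSucc 104, .ofNat 0, .ofNat 128, .ofNat 14, .ofNat 0, .ofNat 0, .ofNat 564, .ofNat 1562, .ofNat 0, .ofNat 0, .ofNat 0, .ofNat 0, .ofNat 0, .ofNat 0, .ofNat 0, .ofNat 0, .ofNat 0, .ofNat 0, .ofNat 0, .ofNat 0, .ofNat 0, .ofNat 0, .ofNat 0, .ofNat 0⟩)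
    (by decide +kernel)
theorem L00436 : Good (Phi V5.P V5.D (-1) (-1)) ⟨2, 1, 2, 0, 2, 2, 2, 0, 4, 4⟩ :=
  leafX_sound T5.ok_mm T5.Ymm.bz_eq (w := 200) (c := ⟨⟨.negSucc 1605, .negSucc 358, .ofNat 79, .ofNat 91, .ofNat 62, .ofNat 180⟩, ⟨.negSucc 170, .ofNat 167, .ofNat 346, .negSucc 7, .ofNat 22, .negSucc 10⟩, ⟨.ofNat 1497, .ofNat 396, .negSucc 133, .negSucc 345, .negSucc 335, .ofNat 56⟩, ⟨.negSucc 4333, .negSucc 100, .ofNat 12, .ofNat 193, .ofNat 166, .ofNat 447⟩, ⟨.negSucc 807, .negSucc 84, .negSucc 9, .negSucc 324, .ofNat 250, .ofNat 104⟩, .ofNat 366, .ofNat 29, .ofNat 0, .ofNat 29, .ofNat 723, .ofNat 0, .ofNat 426, .negSucc 28, .negSucc 89, .ofNat 0, .ofNat 128, .ofNat 32, .ofNat 0, .ofNat 0, .ofNat 796, .ofNat 15991, .ofNat 0, .ofNat 0, .ofNat 0, .ofNat 0, .ofNat 0, .ofNat 0, .ofNat 0, .ofNat 0, .ofNat 13167403395301955549463805885444247257088,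 .ofNat 0, .ofNat 0, .ofNat 0, .ofNat 52979313536558699490642309856952986894336, .ofNat 0, .ofNat 0, .ofNat 0⟩)
    (by decide +kernel)
theorem L00437 : Good (Phi V5.P V5.D (-1) (-1)) ⟨2, 1, 2, 0, 2, 3, 2, 0, 4, 4⟩ :=
  leafX_sound T5.ok_mm T5.Ymm.bz_eq (w := 198) (c := ⟨⟨.negSucc 1543, .negSucc 264, .ofNat 41, .ofNat 256, .ofNat 77, .ofNat 180⟩, ⟨.negSucc 153, .ofNat 146, .ofNat 334, .negSucc 18, .negSucc 2, .negSucc 5⟩, ⟨.ofNat 1298, .ofNat 236, .negSucc 62, .negSucc 340, .negSucc 364, .negSucc 43⟩, ⟨.negSucc 4157, .ofNat 49, .negSucc 79, .ofNat 621, .ofNat 192, .ofNat 432⟩, ⟨.negSucc 1145, .negSucc 188, .ofNat 144, .ofNat 99, .ofNat 201, .ofNat 105⟩, .ofNat 516, .ofNat 108, .ofNat 0, .ofNat 108, .ofNat 1679, .ofNat 0, .ofNat 241, .negSucc 52, .negSucc 63, .ofNat 0, .ofNat 128, .ofNat 10, .ofNat 0, .ofNat 0, .ofNat 985, .ofNat 4617, .ofNat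 0, .ofNat 0, .ofNat 0, .ofNat 0, .ofNat 0, .ofNat 0, .ofNat 0, .ofNat 0, .ofNat 0, .ofNat 156779910664715108843176600696990466048, .ofNat 0, .ofNat 0, .ofNat 0, .ofNat 0, .ofNat 0, .ofNat 0⟩)
    (by decide +kernel)
theorem L00438 : Good (Phi V5.P V5.D (-1) (-1)) ⟨2, 1, 2, 0, 2, 2, 2, 1, 4, 4⟩ :=
  leafX_sound T5.ok_mm T5.Ymm.bz_eq (w := 199) (c := ⟨⟨.negSucc 1521, .negSucc 337, .ofNat 31, .ofNat 81, .ofNat 114, .ofNat 161⟩, ⟨.negSucc 131, .ofNat 148, .ofNat 336, .negSucc 22, .ofNat 1, .negSucc 2⟩, ⟨.ofNat 1249, .ofNat 214, .negSucc 61, .negSucc 368, .negSucc 215, .ofNat 41⟩, ⟨.negSucc 4143, .negSucc 58, .negSucc 37, .ofNat 179, .ofNat 295, .ofNat 398⟩, ⟨.negSucc 656, .negSucc 30, .ofNat 43, .negSucc 252, .ofNat 228, .ofNat 115⟩, .ofNat 365, .ofNat 25, .ofNat 0, .ofNat 25, .ofNat 722, .ofNat 0, .ofNat 351, .negSucc 22, .negSucc 124, .ofNat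 0, .ofNat 128, .ofNat 32, .ofNat 0, .ofNat 0, .ofNat 1029, .ofNat 4563, .ofNat 0, .ofNat 0, .ofNat 0, .ofNat 0, .ofNat 0, .ofNat 0, .ofNat 0, .ofNat 0, .ofNat 0, .ofNat 0, .ofNat 0, .ofNat 0, .ofNat 0, .ofNat 0, .ofNat 0, .ofNat 0⟩)
    (by decide +kernel)
theorem L00439 : Good (Phi V5.P V5.D (-1) (-1)) ⟨2, 1, 2, 0, 3, 6, 2, 1, 4, 4⟩ :=
  leafX_sound T5.ok_mm T5.Ymm.bz_eq (w := 212) (c := ⟨⟨.negSucc 1453, .negSucc 256, .ofNat 46, .ofNat 112, .ofNat 104, .ofNat 146⟩, ⟨.negSucc 139, .ofNat 138, .ofNat 323, .negSucc 5, .ofNat 2, .negSucc 7⟩, ⟨.ofNat 954, .ofNat 118, .negSucc 98, .negSucc 118, .negSucc 233, .ofNat 8⟩, ⟨.negSucc 3963, .ofNat 80, .negSucc 37, .ofNat 274, .ofNat 274, .ofNat 380⟩, ⟨.negSucc 920, .negSucc 198, .ofNat 106, .negSucc 8, .ofNat 348, .ofNat 168⟩, .ofNat 364, .ofNat 30, .ofNat 0, .ofNat 30, .ofNat 729, .ofNat 0, .ofNat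 243, .negSucc 30, .negSucc 69, .ofNat 0, .ofNat 128, .ofNat 15, .ofNat 0, .ofNat 0, .ofNat 848, .ofNat 3034, .ofNat 0, .ofNat 0, .ofNat 0, .ofNat 0, .ofNat 0, .ofNat 466279684057795569422439829925805164593152, .ofNat 0, .ofNat 0, .ofNat 0, .ofNat 0, .ofNat 0, .ofNat 0, .ofNat 0, .ofNat 0, .ofNat 0, .ofNat 0⟩)
    (by decide +kernel)
theorem L00440 : Good (Phi V5.P V5.D (-1) (-1)) ⟨2, 1, 2, 0, 3, 7, 2, 1, 4, 4⟩ :=
  leafX_sound T5.ok_mm T5.Ymm.bz_eq (w := 212) (c := ⟨⟨.negSucc 1382, .negSucc 167, .ofNat 23, .ofNat 125, .ofNat 102, .ofNat 159⟩, ⟨.negSucc 151, .ofNat 125, .ofNat 322, .ofNat 11, .ofNat 11, .ofNat 2⟩, ⟨.ofNat 915, .negSucc 30, .negSucc 5, .negSucc 142, .negSucc 230, .negSucc 63⟩, ⟨.negSucc 3742, .ofNat 242, .negSucc 90, .ofNat 313, .ofNat 257, .ofNat 395⟩, ⟨.negSucc 949, .negSucc 261, .ofNat 221, .ofNat 161, .ofNat 353, .ofNat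 150⟩, .ofNat 518, .ofNat 107, .ofNat 0, .ofNat 107, .ofNat 1730, .ofNat 0, .ofNat 360, .negSucc 44, .negSucc 19, .ofNat 0, .ofNat 128, .negSucc 3, .ofNat 0, .ofNat 0, .ofNat 813, .ofNat 1729, .ofNat 0, .ofNat 0, .ofNat 0, .ofNat 0, .ofNat 0, .ofNat 0, .ofNat 0, .ofNat 0, .ofNat 0, .ofNat 1175948179584462446848474951157691124285440, .ofNat 0, .ofNat 0, .ofNat 0, .ofNat 4213376285078792313019713115111695564406784, .ofNat 0, .ofNat 0⟩)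
    (by decide +kernel)
theorem L00441 : Good (Phi V5.P V5.D (-1) (-1)) ⟨2, 1, 2, 0, 2, 2, 2, 0, 4, 5⟩ :=
  leafX_sound T5.ok_mm T5.Ymm.bz_eq (w := 202) (c := ⟨⟨.negSucc 1560, .negSucc 287, .ofNat 29, .ofNat 142, .ofNat 141, .ofNat 160⟩, ⟨.negSucc 89, .ofNat 144, .ofNat 329, .negSucc 33, .negSucc 31, .negSucc 15⟩, ⟨.ofNat 1770, .ofNat 235, .negSucc 98, .negSucc 359, .negSucc 469, .ofNat 72⟩, ⟨.negSucc 4108, .negSucc 8, .negSucc 68, .ofNat 326, .ofNat 260, .ofNat 408⟩, ⟨.negSucc 736, .negSucc 88, .ofNat 20, .negSucc 232, .ofNat 207, .ofNat 139⟩, .ofNat 367, .ofNat 37, .ofNat 0, .ofNat 37, .ofNat 727, .ofNat 0, .ofNat 231, .negSucc 30, .negSucc 44, .ofNat 0, .ofNat 128, .ofNat 18, .ofNat 0, .ofNat 0, .ofNat 827, .ofNat 36380, .ofNat 6904449232538463431323232437961750478848, .ofNat 0, .ofNat 0, .ofNat 0, .ofNat 81941456336038063385972844994698659495936,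 .ofNat 0, .ofNat 0, .ofNat 0, .ofNat 0, .ofNat 0, .ofNat 0, .ofNat 0, .ofNat 76330176522063962441468318509392566681600, .ofNat 0, .ofNat 0, .ofNat 0⟩)
    (by decide +kernel)
theorem L00442 : Good (Phi V5.P V5.D (-1) (-1)) ⟨2, 1, 2, 0, 3, 4, 3, 2, 4, 5⟩ :=
  leafX_sound T5.ok_mm T5.Ymm.bz_eq (w := 219) (c := ⟨⟨.negSucc 1379, .negSucc 299, .ofNat 35, .ofNat 25, .ofNat 64, .ofNat 122⟩, ⟨.negSucc 118, .ofNat 131, .ofNat 308, .negSucc 6, .ofNat 4, .negSucc 13⟩, ⟨.ofNat 1332, .ofNat 197, .negSucc 69, .negSucc 169, .negSucc 174, .ofNat 104⟩, ⟨.negSucc 3766, .negSucc 24, .negSucc 24, .ofNat 57, .ofNat 147, .ofNat 333⟩, ⟨.negSucc 529, .negSucc 31, .negSucc 0, .negSucc 120, .ofNat 88, .ofNat 102⟩, .ofNat 184, .ofNat 6, .ofNat 0, .ofNat 6, .ofNat 242, .ofNat 0, .ofNat 223, .negSucc 14, .negSucc 71, .ofNat 0, .ofNat 128, .ofNat 31, .ofNat 0, .ofNat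 0, .ofNat 572, .ofNat 20868, .ofNat 44315992755409323310950365609703087328460800, .ofNat 0, .ofNat 0, .ofNat 0, .ofNat 163003839005749977243829132819313301259288576, .ofNat 0, .ofNat 0, .ofNat 0, .ofNat 0, .ofNat 0, .ofNat 0, .ofNat 0, .ofNat 947896385552765741998244039940634099717242880, .ofNat 0, .ofNat 0, .ofNat 0⟩)
    (by decide +kernel)
theorem L00443 : Good (Phi V5.P V5.D (-1) (-1)) ⟨2, 1, 2, 0, 3, 4, 3, 3, 4, 5⟩ :=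
  leafX_sound T5.ok_mm T5.Ymm.bz_eq (w := 219) (c := ⟨⟨.negSucc 1333, .negSucc 270, .ofNat 30, .ofNat 26, .ofNat 46, .ofNat 123⟩, ⟨.negSucc 106, .ofNat 121, .ofNat 293, .negSucc 2, .ofNat 1, .negSucc 4⟩, ⟨.ofNat 1210, .ofNat 104, .negSucc 30, .negSucc 168, .negSucc 109, .ofNat 75⟩, ⟨.negSucc 3648, .ofNat 34, .negSucc 17, .ofNat 55, .ofNat 127, .ofNat 320⟩, ⟨.negSucc 463, .negSucc 10, .negSucc 12, .negSucc 81, .ofNat 109, .ofNat 82⟩, .ofNat 363, .ofNat 31, .ofNat 0, .ofNat 31, .ofNat 729, .ofNat 0, .ofNat 266, .negSucc 21, .negSucc 66, .ofNat 0, .ofNat 128, .ofNat 14, .ofNat 0, .ofNat 0, .ofNat 918, .ofNat 14992, .ofNat 0, .ofNat 0, .ofNat 0, .ofNat 0, .ofNat 0, .ofNat 0, .ofNat 0, .ofNat 0, .ofNat 0, .ofNat 0, .ofNat 0, .ofNat 0, .ofNat 0, .ofNat 0, .ofNat 2399985296195626422539221244011966862721024, .ofNat 0⟩)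
    (by decide +kernel)
theorem L00444 : Good (Phi V5.P V5.D (-1) (-1)) ⟨2, 1, 2, 0, 3, 5, 2, 1, 4, 5⟩ :=
  leafX_sound T5.ok_mm T5.Ymm.bz_eq (w := 214) (c := ⟨⟨.negSucc 1348, .negSucc 258, .ofNat 7, .ofNat 73, .ofNat 79, .ofNat 140⟩, ⟨.negSucc 115, .ofNat 131, .ofNat 308, .negSucc 11, .negSucc 0, .negSucc 11⟩, ⟨.ofNat 1153, .ofNat 83, .negSucc 22, .negSucc 193, .negSucc 224, .ofNat 69⟩, ⟨.negSucc 3712, .ofNat 59, .negSucc 74, .ofNat 166, .ofNat 238, .ofNat 364⟩, ⟨.negSucc 691, .negSucc 61, .ofNat 32, .negSucc 51, .ofNat 271, .ofNat 118⟩, .ofNat 369, .ofNat 27, .ofNat 0, .ofNat 27, .ofNat 708, .ofNat 0, .ofNat 256, .negSucc 22, .negSucc 43, .ofNat 0, .ofNat 128, .ofNat 11, .ofNat 0, .ofNat 0, .ofNat 1183, .ofNat 6578, .ofNat 0, .ofNat 0, .ofNat 0, .ofNat 0, .ofNat 0, .ofNat 0, .ofNat 0, .ofNat 0, .ofNat 0, .ofNat 1460924323092318128990635317571012184244224,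 .ofNat 0, .ofNat 0, .ofNat 0, .ofNat 5136143694920274454634817702228525601259520, .ofNat 852516598467487455762857113092977441374208, .ofNat 0⟩)
    (by decide +kernel)
theorem L00445 : Good (Phi V5.P V5.D (-1) (-1)) ⟨3, 2, 2, 0, 2, 3, 1, 0, 4, 5⟩ :=
  leafX_sound T5.ok_mm T5.Ymm.bz_eq (w := 197) (c := ⟨⟨.negSucc 1368, .negSucc 97, .ofNat 23, .ofNat 223, .ofNat 139, .ofNat 137⟩, ⟨.negSucc 144, .ofNat 39, .ofNat 299, .ofNat 3, .ofNat 33, .negSucc 0⟩, ⟨.ofNat 1272, .ofNat 45, .negSucc 67, .negSucc 253, .negSucc 533, .ofNat 71⟩, ⟨.negSucc 3740, .ofNat 74, .negSucc 80, .ofNat 560, .ofNat 376, .ofNat 362⟩, ⟨.negSucc 1046, .negSucc 48, .ofNat 73, .ofNat 19, .ofNat 589, .ofNat 90⟩, .ofNat 533, .ofNat 79, .ofNat 0, .ofNat 79, .ofNat 1535, .ofNat 0, .ofNat 241, .negSucc 35, .negSucc 17, .ofNat 0, .ofNat 128, .ofNat 3, .ofNat 0, .ofNat 0, .ofNat 1090,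 .ofNat 853, .ofNat 0, .ofNat 0, .ofNat 0, .ofNat 0, .ofNat 0, .ofNat 2141696670853748769728073158631603830784, .ofNat 0, .ofNat 0, .ofNat 0, .ofNat 1692011592794516275462921385760566280192, .ofNat 0, .ofNat 0, .ofNat 0, .ofNat 6881984835308117603739553368671430639616, .ofNat 0, .ofNat 0⟩)
    (by decide +kernel)
theorem L00446 : Good (Phi V5.P V5.D (-1) (-1)) ⟨3, 3, 2, 0, 2, 3, 1, 0, 4, 5⟩ :=
  leafX_sound T5.ok_mm T5.Ymm.bz_eq (w := 197) (c := ⟨⟨.negSucc 1498, .negSucc 133, .ofNat 25, .ofNat 289, .ofNat 173, .ofNat 169⟩, ⟨.negSucc 82, .ofNat 85, .ofNat 314, .negSucc 27, .negSucc 3, .negSucc 3⟩, ⟨.ofNat 1469, .ofNat 65, .negSucc 104, .negSucc 392, .negSucc 743, .negSucc 57⟩, ⟨.negSucc 3736, .ofNat 43, .negSucc 92, .ofNat 666, .ofNat 478, .ofNat 385⟩, ⟨.negSucc 1094, .negSucc 90, .ofNat 39, .negSucc 91, .ofNat 644, .ofNat 111⟩, .ofNat 497,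 .ofNat 138, .ofNat 0, .ofNat 138, .ofNat 1926, .ofNat 0, .ofNat 324, .negSucc 61, .negSucc 24, .ofNat 0, .ofNat 128, .ofNat 4, .ofNat 0, .ofNat 0, .ofNat 1377, .ofNat 993, .ofNat 0, .ofNat 0, .ofNat 0, .ofNat 0, .ofNat 0, .ofNat 3549820271627105240917650465047512612864, .ofNat 0, .ofNat 0, .ofNat 0, .ofNat 2741429716009573853904398724730267369472, .ofNat 0, .ofNat 0, .ofNat 0, .ofNat 10005400892519275352954897165800548859904, .ofNat 0, .ofNat 0⟩)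
    (by decide +kernel)
theorem L00447 : Good (Phi V5.P V5.D (-1) (-1)) ⟨2, 1, 2, 0, 2, 2, 1, 0, 4, 6⟩ :=
  leafX_sound T5.ok_mm T5.Ymm.bz_eq (w := 195) (c := ⟨⟨.negSucc 1294, .negSucc 222, .ofNat 17, .ofNat 78, .ofNat 117, .ofNat 104⟩, ⟨.negSucc 121, .ofNat 103, .ofNat 278, .negSucc 8, .ofNat 25, .ofNat 1⟩, ⟨.ofNat 1632, .negSucc 43, .ofNat 29, .negSucc 321, .negSucc 456, .ofNat 112⟩, ⟨.negSucc 3566, .ofNat 90, .negSucc 24, .ofNat 184, .ofNat 328, .ofNat 279⟩, ⟨.negSucc 760, .ofNat 23, .negSucc 11, .negSucc 74, .ofNat 454, .ofNat 39⟩, .ofNat 514, .ofNat 87, .ofNat 0, .ofNat 87, .ofNat 1661, .ofNat 0, .ofNat 274, .negSucc 36, .negSucc 25, .ofNat 0, .ofNat 128, .ofNat 0, .ofNat 0, .ofNat 0, .ofNat 1911, .ofNat 4072, .ofNat 164664975845047624587768549541555470336, .ofNat 0, .ofNat 0, .ofNat 0, .ofNat 0, .ofNat 181125259990741560812647295436474810368,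 .ofNat 0, .ofNat 0, .ofNat 0, .ofNat 0, .ofNat 0, .ofNat 0, .ofNat 26127368910818052298284238231715402743808, .ofNat 1832259036029638041785245117144541167616, .ofNat 2484995822834552290053728314928922624, .ofNat 0⟩)
    (by decide +kernel)
theorem L00448 : Good (Phi V5.P V5.D (-1) (-1)) ⟨2, 1, 2, 0, 2, 3, 1, 0, 4, 6⟩ :=
  leafX_sound T5.ok_mm T5.Ymm.bz_eq (w := 193) (c := ⟨⟨.negSucc 1211, .negSucc 204, .ofNat 20, .ofNat 191, .ofNat 117, .ofNat 134⟩, ⟨.negSucc 127, .ofNat 122, .ofNat 278, .negSucc 49, .ofNat 12, .negSucc 36⟩, ⟨.ofNat 1620, .negSucc 64, .negSucc 59, .negSucc 467, .negSucc 929, .ofNat 211⟩, ⟨.negSucc 3348, .ofNat 122, .negSucc 84, .ofNat 507, .ofNat 367, .ofNat 335⟩, ⟨.negSucc 908, .negSucc 79, .ofNat 26, .negSucc 89, .ofNat 575, .ofNat 86⟩, .ofNat 183, .ofNat 6, .ofNat 0, .ofNat 6, .ofNat 243, .ofNat 0, .ofNat 161, .negSucc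 20, .ofNat 5, .ofNat 0, .ofNat 128, .ofNat 1, .ofNat 0, .ofNat 0, .ofNat 692, .ofNat 1706, .ofNat 0, .ofNat 0, .ofNat 0, .ofNat 0, .ofNat 573431596893719817108173742467037790208, .ofNat 167711689719674902372558331337269837824, .ofNat 0, .ofNat 0, .ofNat 1022256510901229704661083235794131353600, .ofNat 255646856903880398418070379631013265408, .ofNat 0, .ofNat 0, .ofNat 7064962184126027835693945939310667628544, .ofNat 1234668891796561998643276267400722382848, .ofNat 0, .ofNat 0⟩)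
    (by decide +kernel)
theorem L00449 : Good (Phi V5.P V5.D (-1) (-1)) ⟨2, 1, 2, 0, 2, 2, 2, 0, 4, 7⟩ :=
  out_sound (S := T5.ds_mm) T5.ok_mm (w := 24) (j := 1) (by decide +kernel)
theorem L00450 : Good (Phi V5.P V5.D (-1) (-1)) ⟨2, 1, 2, 0, 3, 4, 3, 2, 4, 7⟩ :=
  out_sound (S := T5.ds_mm) T5.ok_mm (w := 27) (j := 1) (by decide +kernel)
theorem L00451 : Good (Phi V5.P V5.D (-1) (-1)) ⟨2, 1, 2, 0, 4, 8, 3, 3, 5, 14⟩ :=
  out_sound (S := T5.ds_mm) T5.ok_mm (w := 31) (j := 1) (by decide +kernel)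
theorem L00452 : Good (Phi V5.P V5.D (-1) (-1)) ⟨2, 1, 2, 0, 4, 9, 4, 6, 5, 14⟩ :=
  out_sound (S := T5.ds_mm) T5.ok_mm (w := 32) (j := 1) (by decide +kernel)
theorem L00453 : Good (Phi V5.P V5.D (-1) (-1)) ⟨2, 1, 2, 0, 5, 18, 4, 7, 6, 28⟩ :=
  leafX_sound T5.ok_mm T5.Ymm.bz_eq (w := 268) (c := ⟨⟨.negSucc 1064, .negSucc 197, .ofNat 11, .ofNat 0, .ofNat 15, .ofNat 1⟩, ⟨.negSucc 107, .ofNat 102, .ofNat 247, .ofNat 0, .ofNat 21, .ofNat 0⟩, ⟨.ofNat 1551, .negSucc 391, .ofNat 166, .ofNat 1, .negSucc 252, .negSucc 0⟩, ⟨.negSucc 2919, .ofNat 125, .negSucc 29, .negSucc 0, .ofNat 20, .ofNat 1⟩, ⟨.negSucc 360, .ofNat 66, .negSucc 31, .ofNat 0, .ofNat 86, .ofNat 0⟩, .ofNat 183, .ofNat 5, .ofNat 0, .ofNat 5, .ofNat 242, .ofNat 0, .ofNat 143, .negSucc 10, .ofNat 30, .ofNat 0, .ofNat 128, .negSucc 46, .ofNat 0, .ofNat 0, .ofNat 1161, .ofNat 2120073, .ofNat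 0, .ofNat 0, .ofNat 0, .ofNat 0, .ofNat 92075410529988517026983055456725316407596768534995140608, .ofNat 159472460087249409752766469358139745642855304439791616, .ofNat 0, .ofNat 0, .ofNat 37604638016892789248219540678204376979994250982232948736, .ofNat 0, .ofNat 6286149576297117319354120532505001907207334157524926464, .ofNat 0, .ofNat 221997335815884741901360388683916450340700870391214637056, .ofNat 241243685016930903525170548458182042145233215741231104, .ofNat 38982351854469289315450978333037765711636161490417876992, .ofNat 0⟩)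
    (by decide +kernel)
theorem L00454 : Good (Phi V5.P V5.D (-1) (-1)) ⟨2, 1, 2, 0, 5, 19, 6, 28, 7, 56⟩ :=
  out_sound (S := T5.ds_mm) T5.ok_mm (w := 40) (j := 1) (by decide +kernel)
theorem L00455 : Good (Phi V5.P V5.D (-1) (-1)) ⟨2, 1, 2, 0, 6, 38, 6, 29, 7, 56⟩ :=
  out_sound (S := T5.ds_mm) T5.ok_mm (w := 42) (j := 1) (by decide +kernel)
theorem L00456 : Good (Phi V5.P V5.D (-1) (-1)) ⟨2, 1, 2, 0, 6, 39, 6, 29, 7, 56⟩ :=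
  out_sound (S := T5.ds_mm) T5.ok_mm (w := 52) (j := 2) (by decide +kernel)
theorem L00457 : Good (Phi V5.P V5.D (-1) (-1)) ⟨2, 1, 2, 0, 5, 19, 5, 14, 7, 57⟩ :=
  out_sound (S := T5.ds_mm) T5.ok_mm (w := 39) (j := 1) (by decide +kernel)
theorem L00458 : Good (Phi V5.P V5.D (-1) (-1)) ⟨2, 1, 2, 0, 7, 76, 6, 30, 7, 56⟩ :=
  out_sound (S := T5.ds_mm) T5.ok_mm (w := 44) (j := 1) (by decide +kernel)
theorem L00459 : Good (Phi V5.P V5.D (-1) (-1)) ⟨2, 1, 2, 0, 8, 152, 8, 124, 9, 224⟩ :=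
  out_sound (S := T5.ds_mm) T5.ok_mm (w := 52) (j := 1) (by decide +kernel)
theorem L00460 : Good (Phi V5.P V5.D (-1) (-1)) ⟨2, 1, 2, 0, 8, 152, 9, 250, 10, 448⟩ :=
  out_sound (S := T5.ds_mm) T5.ok_mm (w := 55) (j := 1) (by decide +kernel)
theorem L00461 : Good (Phi V5.P V5.D (-1) (-1)) ⟨2, 1, 2, 0, 9, 304, 9, 251, 10, 448⟩ :=
  out_sound (S := T5.ds_mm) T5.ok_mm (w := 57) (j := 1) (by decide +kernel)
theorem L00462 : Good (Phi V5.P V5.D (-1) (-1)) ⟨2, 1, 2, 0, 9, 305, 9, 251, 10, 448⟩ :=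
  out_sound (S := T5.ds_mm) T5.ok_mm (w := 70) (j := 2) (by decide +kernel)
theorem L00463 : Good (Phi V5.P V5.D (-1) (-1)) ⟨2, 1, 2, 0, 8, 152, 8, 125, 10, 449⟩ :=
  out_sound (S := T5.ds_mm) T5.ok_mm (w := 54) (j := 1) (by decide +kernel)
theorem L00464 : Good (Phi V5.P V5.D (-1) (-1)) ⟨2, 1, 2, 0, 8, 152, 7, 62, 9, 225⟩ :=
  out_sound (S := T5.ds_mm) T5.ok_mm (w := 51) (j := 1) (by decide +kernel)
theorem L00465 : Good (Phi V5.P V5.D (-1) (-1)) ⟨2, 1, 2, 0, 10, 608, 9, 252, 10, 448⟩ :=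
  out_sound (S := T5.ds_mm) T5.ok_mm (w := 59) (j := 1) (by decide +kernel)
theorem L00466 : Good (Phi V5.P V5.D (-1) (-1)) ⟨2, 1, 2, 0, 11, 1216, 10, 506, 11, 896⟩ :=
  out_sound (S := T5.ds_mm) T5.ok_mm (w := 64) (j := 1) (by decide +kernel)
theorem L00467 : Good (Phi V5.P V5.D (-1) (-1)) ⟨2, 1, 2, 0, 11, 1216, 10, 507, 11, 896⟩ :=
  out_sound (S := T5.ds_mm) T5.ok_mm (w := 78) (j := 2) (by decide +kernel)
theorem L00468 : Good (Phi V5.P V5.D (-1) (-1)) ⟨2, 1, 2, 0, 11, 1217, 9, 253, 11, 896⟩ :=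
  out_sound (S := T5.ds_mm) T5.ok_mm (w := 76) (j := 2) (by decide +kernel)
theorem L00469 : Good (Phi V5.P V5.D (-1) (-1)) ⟨2, 1, 2, 0, 10, 608, 9, 253, 11, 897⟩ :=
  out_sound (S := T5.ds_mm) T5.ok_mm (w := 74) (j := 2) (by decide +kernel)
theorem L00470 : Good (Phi V5.P V5.D (-1) (-1)) ⟨2, 1, 2, 0, 10, 609, 8, 126, 10, 448⟩ :=
  out_sound (S := T5.ds_mm) T5.ok_mm (w := 70) (j := 2) (by decide +kernel)
theorem L00471 : Good (Phi V5.P V5.D (-1) (-1)) ⟨2, 1, 2, 0, 9, 304, 8, 126, 10, 449⟩ :=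
  out_sound (S := T5.ds_mm) T5.ok_mm (w := 56) (j := 1) (by decide +kernel)
theorem L00472 : Good (Phi V5.P V5.D (-1) (-1)) ⟨2, 1, 2, 0, 9, 304, 8, 127, 9, 224⟩ :=
  out_sound (S := T5.ds_mm) T5.ok_mm (w := 66) (j := 2) (by decide +kernel)
theorem L00473 : Good (Phi V5.P V5.D (-1) (-1)) ⟨2, 1, 2, 0, 9, 305, 7, 63, 9, 224⟩ :=
  out_sound (S := T5.ds_mm) T5.ok_mm (w := 64) (j := 2) (by decide +kernel)
theorem L00474 : Good (Phi V5.P V5.D (-1) (-1)) ⟨2, 1, 2, 0, 8, 152, 7, 63, 9, 225⟩ :=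
  out_sound (S := T5.ds_mm) T5.ok_mm (w := 62) (j := 2) (by decide +kernel)
theorem L00475 : Good (Phi V5.P V5.D (-1) (-1)) ⟨2, 1, 2, 0, 8, 153, 6, 31, 8, 112⟩ :=
  out_sound (S := T5.ds_mm) T5.ok_mm (w := 58) (j := 2) (by decide +kernel)
theorem L00476 : Good (Phi V5.P V5.D (-1) (-1)) ⟨2, 1, 2, 0, 7, 76, 6, 31, 8, 113⟩ :=
  out_sound (S := T5.ds_mm) T5.ok_mm (w := 56) (j := 2) (by decide +kernel)
theorem L00477 : Good (Phi V5.P V5.D (-1) (-1)) ⟨2, 1, 2, 0, 8, 154, 6, 30, 8, 112⟩ :=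
  out_sound (S := T5.ds_mm) T5.ok_mm (w := 48) (j := 1) (by decide +kernel)
theorem L00478 : Good (Phi V5.P V5.D (-1) (-1)) ⟨2, 1, 2, 0, 8, 155, 6, 30, 8, 112⟩ :=
  out_sound (S := T5.ds_mm) T5.ok_mm (w := 58) (j := 2) (by decide +kernel)
theorem L00479 : Good (Phi V5.P V5.D (-1) (-1)) ⟨2, 1, 2, 0, 7, 77, 6, 30, 8, 113⟩ :=
  out_sound (S := T5.ds_mm) T5.ok_mm (w := 46) (j := 1) (by decide +kernel)
theorem L00480 : Good (Phi V5.P V5.D (-1) (-1)) ⟨2, 1, 2, 0, 7, 77, 6, 31, 7, 56⟩ :=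
  out_sound (S := T5.ds_mm) T5.ok_mm (w := 54) (j := 2) (by decide +kernel)
theorem L00481 : Good (Phi V5.P V5.D (-1) (-1)) ⟨2, 1, 2, 0, 6, 38, 5, 15, 7, 57⟩ :=
  out_sound (S := T5.ds_mm) T5.ok_mm (w := 50) (j := 2) (by decide +kernel)
theorem L00482 : Good (Phi V5.P V5.D (-1) (-1)) ⟨2, 1, 2, 0, 6, 39, 5, 15, 6, 28⟩ :=
  out_sound (S := T5.ds_mm) T5.ok_mm (w := 48) (j := 2) (by decide +kernel)
theorem L00483 : Good (Phi V5.P V5.D (-1) (-1)) ⟨2, 1, 2, 0, 4, 9, 4, 7, 6, 29⟩ :=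
  out_sound (S := T5.ds_mm) T5.ok_mm (w := 34) (j := 1) (by decide +kernel)
theorem L00484 : Good (Phi V5.P V5.D (-1) (-1)) ⟨2, 1, 2, 0, 3, 4, 3, 3, 5, 15⟩ :=
  out_sound (S := T5.ds_mm) T5.ok_mm (w := 29) (j := 1) (by decide +kernel)
theorem L00485 : Good (Phi V5.P V5.D (-1) (-1)) ⟨2, 1, 2, 0, 4, 10, 3, 2, 5, 14⟩ :=
  out_sound (S := T5.ds_mm) T5.ok_mm (w := 31) (j := 1) (by decide +kernel)
theorem L00486 : Good (Phi V5.P V5.D (-1) (-1)) ⟨2, 1, 2, 0, 5, 20, 5, 12, 6, 28⟩ :=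
  out_sound (S := T5.ds_mm) T5.ok_mm (w := 37) (j := 1) (by decide +kernel)
theorem L00487 : Good (Phi V5.P V5.D (-1) (-1)) ⟨2, 1, 2, 0, 5, 20, 5, 13, 6, 28⟩ :=
  out_sound (S := T5.ds_mm) T5.ok_mm (w := 46) (j := 2) (by decide +kernel)
theorem L00488 : Good (Phi V5.P V5.D (-1) (-1)) ⟨2, 1, 2, 0, 5, 20, 4, 7, 6, 28⟩ :=
  out_sound (S := T5.ds_mm) T5.ok_mm (w := 44) (j := 2) (by decide +kernel)
theorem L00489 : Good (Phi V5.P V5.D (-1) (-1)) ⟨2, 1, 2, 0, 5, 20, 3, 3, 6, 29⟩ :=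
  out_sound (S := T5.ds_mm) T5.ok_mm (w := 42) (j := 2) (by decide +kernel)
theorem L00490 : Good (Phi V5.P V5.D (-1) (-1)) ⟨2, 1, 2, 0, 5, 21, 3, 3, 5, 14⟩ :=
  out_sound (S := T5.ds_mm) T5.ok_mm (w := 40) (j := 2) (by decide +kernel)
theorem L00491 : Good (Phi V5.P V5.D (-1) (-1)) ⟨2, 1, 2, 0, 4, 10, 2, 1, 5, 15⟩ :=
  out_sound (S := T5.ds_mm) T5.ok_mm (w := 36) (j := 2) (by decide +kernel)
theorem L00492 : Good (Phi V5.P V5.D (-1) (-1)) ⟨2, 1, 2, 0, 4, 11, 2, 1, 4, 7⟩ :=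
  out_sound (S := T5.ds_mm) T5.ok_mm (w := 34) (j := 2) (by decide +kernel)
theorem L00493 : Good (Phi V5.P V5.D (-1) (-1)) ⟨2, 1, 2, 0, 2, 3, 1, 0, 4, 7⟩ :=
  out_sound (S := T5.ds_mm) T5.ok_mm (w := 28) (j := 2) (by decide +kernel)
theorem L00494 : Good (Phi V5.P V5.D (-1) (-1)) ⟨2, 1, 2, 0, 3, 4, 1, 0, 3, 4⟩ :=
  out_sound (S := T5.ds_mm) T5.ok_mm (w := 23) (j := 1) (by decide +kernel)
theorem L00495 : Good (Phi V5.P V5.D (-1) (-1)) ⟨2, 1, 2, 0, 3, 5, 1, 0, 3, 4⟩ :=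
  out_sound (S := T5.ds_mm) T5.ok_mm (w := 28) (j := 2) (by decide +kernel)
theorem L00496 : Good (Phi V5.P V5.D (-1) (-1)) ⟨2, 1, 2, 0, 2, 2, 1, 0, 3, 5⟩ :=
  out_sound (S := T5.ds_mm) T5.ok_mm (w := 21) (j := 1) (by decide +kernel)
theorem L00497 : Good (Phi V5.P V5.D (-1) (-1)) ⟨2, 1, 2, 0, 2, 2, 1, 0, 2, 3⟩ :=
  out_sound (S := T5.ds_mm) T5.ok_mm (w := 19) (j := 1) (by decide +kernel)
theorem L00498 : Good (Phi V5.P V5.D (-1) (-1)) ⟨2, 1, 2, 0, 2, 3, 1, 0, 1, 1⟩ :=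
  out_sound (S := T5.ds_mm) T5.ok_mm (w := 22) (j := 2) (by decide +kernel)
theorem L00499 : Good (Phi V5.P V5.D (-1) (-1)) ⟨3, 2, 3, 2, 2, 2, 2, 0, 4, 0⟩ :=
  leafX_sound T5.ok_mm T5.Ymm.bz_eq (w := 204) (c := ⟨⟨.ofNat 1144, .ofNat 42, .ofNat 105, .ofNat 494, .ofNat 131, .negSucc 1592⟩, ⟨.negSucc 299, .ofNat 35, .negSucc 51, .negSucc 68, .ofNat 6, .ofNat 292⟩, ⟨.negSucc 526, .ofNat 60, .negSucc 179, .ofNat 11, .negSucc 367, .ofNat 425⟩, ⟨.ofNat 2864, .negSucc 97, .ofNat 183, .ofNat 1430, .ofNat 508, .negSucc 4306⟩, ⟨.negSucc 1298, .negSucc 102, .ofNat 193, .ofNat 712, .ofNat 938, .negSucc 805⟩, .ofNat 753, .ofNat 662, .ofNat 0, .ofNat 662, .ofNat 3479, .ofNat 0, .ofNat 175, .negSucc 127, .negSucc 125, .ofNat 0, .ofNat 81, .ofNat 34, .ofNat 0, .ofNat 0, .ofNat 537, .ofNat 1441, .ofNat 0, .ofNat 0, .ofNat 0, .ofNat 0, .ofNat 0, .ofNat 0, .ofNat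 0, .ofNat 0, .ofNat 0, .ofNat 0, .ofNat 0, .ofNat 0, .ofNat 0, .ofNat 0, .ofNat 0, .ofNat 0⟩)
    (by decide +kernel)
theorem L00500 : Good (Phi V5.P V5.D (-1) (-1)) ⟨3, 2, 3, 2, 2, 2, 3, 0, 4, 1⟩ :=
  leafX_sound T5.ok_mm T5.Ymm.bz_eq (w := 210) (c := ⟨⟨.negSucc 269, .negSucc 196, .ofNat 57, .ofNat 192, .ofNat 113, .negSucc 1127⟩, ⟨.negSucc 56, .ofNat 89, .ofNat 115, .negSucc 36, .negSucc 14, .ofNat 232⟩, ⟨.negSucc 189, .ofNat 241, .negSucc 81, .negSucc 262, .negSucc 37, .ofNat 580⟩, ⟨.negSucc 1108, .negSucc 370, .ofNat 4, .ofNat 499, .ofNat 393, .negSucc 2916⟩, ⟨.negSucc 1542, .negSucc 337, .ofNat 32, .negSucc 34, .ofNat 379, .ofNat 223⟩, .ofNat 582, .ofNat 290, .ofNat 0, .ofNat 290, .ofNat 1774, .ofNat 0, .ofNat 425, .negSucc 127, .negSucc 106, .ofNat 0, .ofNat 113, .ofNat 36, .ofNat 0, .ofNat 0, .ofNat 533, .ofNat 12410, .ofNat 3987211845716678165739657775625642358865920,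 .ofNat 0, .ofNat 1238681489586188289321144353778827264, .ofNat 0, .ofNat 0, .ofNat 0, .ofNat 122175599838379084367806192468879212544, .ofNat 0, .ofNat 0, .ofNat 0, .ofNat 63031311340055852814781708294514802688, .ofNat 0, .ofNat 0, .ofNat 0, .ofNat 0, .ofNat 0⟩)
    (by decide +kernel)
theorem L00501 : Good (Phi V5.P V5.D (-1) (-1)) ⟨3, 2, 3, 2, 2, 2, 3, 1, 4, 1⟩ :=
  leafX_sound T5.ok_mm T5.Ymm.bz_eq (w := 208) (c := ⟨⟨.negSucc 95, .negSucc 219, .ofNat 19, .ofNat 195, .ofNat 54, .negSucc 1153⟩, ⟨.negSucc 76, .ofNat 90, .ofNat 101, .negSucc 38, .ofNat 5, .ofNat 235⟩, ⟨.negSucc 260, .ofNat 233, .negSucc 41, .negSucc 280, .negSucc 19, .ofNat 661⟩, ⟨.negSucc 587, .negSucc 416, .negSucc 9, .ofNat 523, .ofNat 171, .negSucc 2990⟩, ⟨.negSucc 993, .negSucc 321, .negSucc 52, .negSucc 8, .ofNat 188, .negSucc 19⟩, .ofNat 752, .ofNat 671, .ofNat 0, .ofNat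 671, .ofNat 3558, .ofNat 0, .ofNat 373, .negSucc 127, .negSucc 50, .ofNat 0, .ofNat 83, .ofNat 14, .ofNat 0, .ofNat 0, .ofNat 192, .ofNat 2368, .ofNat 0, .ofNat 0, .ofNat 0, .ofNat 0, .ofNat 0, .ofNat 0, .ofNat 0, .ofNat 0, .ofNat 0, .ofNat 0, .ofNat 20761270990048836610060757497521635328, .ofNat 0, .ofNat 0, .ofNat 0, .ofNat 0, .ofNat 0⟩)
    (by decide +kernel)
theorem L00502 : Good (Phi V5.P V5.D (-1) (-1)) ⟨4, 4, 3, 2, 2, 3, 2, 0, 4, 0⟩ :=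
  leafX_sound T5.ok_mm T5.Ymm.bz_eq (w := 209) (c := ⟨⟨.ofNat 1436, .negSucc 27, .ofNat 27, .negSucc 859, .ofNat 412, .negSucc 1164⟩, ⟨.negSucc 229, .negSucc 42, .negSucc 82, .ofNat 315, .negSucc 65, .ofNat 162⟩, ⟨.negSucc 459, .ofNat 96, .ofNat 65, .ofNat 1019, .negSucc 481, .negSucc 41⟩, ⟨.ofNat 3935, .negSucc 248, .ofNat 239, .negSucc 1697, .ofNat 1311, .negSucc 3501⟩, ⟨.ofNat 399, .negSucc 441, .ofNat 346, .ofNat 2714, .ofNat 830, .negSucc 1697⟩, .ofNat 765, .ofNat 635, .ofNat 0, .ofNat 635, .ofNat 3174, .ofNat 0, .ofNat 238, .negSucc 127, .negSucc 118, .ofNat 0, .ofNat 90, .ofNat 25, .ofNat 0, .ofNat 0, .ofNat 369, .ofNat 1729, .ofNat 632156504726629784737018535584842970562560, .ofNat 0, .ofNat 0, .ofNat 0, .ofNat 0, .ofNat 0, .ofNat 360144390936631605749404325998755840, .ofNat 0, .ofNat 0, .ofNat 0, .ofNat 0, .ofNat 0, .ofNat 0, .ofNat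 0, .ofNat 477915938945144497053541460332249088, .ofNat 0⟩)
    (by decide +kernel)
theorem L00503 : Good (Phi V5.P V5.D (-1) (-1)) ⟨4, 5, 3, 2, 2, 3, 2, 0, 4, 0⟩ :=
  leafX_sound T5.ok_mm T5.Ymm.bz_eq (w := 209) (c := ⟨⟨.ofNat 1476, .ofNat 23, .ofNat 201, .negSucc 891, .ofNat 445, .negSucc 1399⟩, ⟨.negSucc 262, .negSucc 25, .negSucc 108, .ofNat 255, .negSucc 51, .ofNat 202⟩, ⟨.negSucc 321, .ofNat 70, .ofNat 76, .ofNat 942, .negSucc 514, .ofNat 92⟩, ⟨.ofNat 3785, .negSucc 55, .ofNat 725, .negSucc 1802, .ofNat 1301, .negSucc 3834⟩, ⟨.negSucc 86, .negSucc 295, .ofNat 368, .ofNat 2666, .ofNat 844, .negSucc 1473⟩, .ofNat 595, .ofNat 390, .ofNat 0, .ofNat 390, .ofNat 2105, .ofNat 0, .ofNat 354, .negSucc 127, .negSucc 203, .ofNat 0, .ofNat 92, .ofNat 43, .ofNat 0, .ofNat 0, .ofNat 528, .ofNat 2107, .ofNat 0, .ofNat 0, .ofNat 0, .ofNat 0, .ofNat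 0, .ofNat 0, .ofNat 1450893999896621688169225881894518784, .ofNat 0, .ofNat 0, .ofNat 0, .ofNat 306044789624794496014239846931365888, .ofNat 0, .ofNat 0, .ofNat 0, .ofNat 1065716673702247249807100727982555136, .ofNat 0⟩)
    (by decide +kernel)
theorem L00504 : Good (Phi V5.P V5.D (-1) (-1)) ⟨3, 2, 3, 2, 3, 6, 4, 0, 4, 1⟩ :=
  leafX_sound T5.ok_mm T5.Ymm.bz_eq (w := 228) (c := ⟨⟨.negSucc 42, .negSucc 204, .ofNat 86, .ofNat 0, .ofNat 99, .negSucc 1226⟩, ⟨.negSucc 83, .ofNat 60, .ofNat 83, .ofNat 42, .negSucc 5, .ofNat 249⟩, ⟨.negSucc 377, .ofNat 388, .negSucc 78, .ofNat 297, .negSucc 155, .ofNat 609⟩, ⟨.negSucc 442, .negSucc 419, .ofNat 239, .ofNat 236, .ofNat 282, .negSucc 3288⟩, ⟨.negSucc 1207, .negSucc 465, .ofNat 225, .ofNat 1059, .ofNat 135, .negSucc 156⟩, .ofNat 582, .ofNat 291, .ofNat 0, .ofNat 291, .ofNat 1778, .ofNat 0, .ofNat 238,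 .negSucc 127, .negSucc 79, .ofNat 0, .ofNat 111, .ofNat 21, .ofNat 0, .ofNat 0, .ofNat 306, .ofNat 16955, .ofNat 176442206793039639004344817023064997976717918208, .ofNat 0, .ofNat 226630962891565632510507817703154273746944, .ofNat 0, .ofNat 0, .ofNat 0, .ofNat 0, .ofNat 0, .ofNat 0, .ofNat 0, .ofNat 0, .ofNat 0, .ofNat 245901615081123676799854741925836062459567276032, .ofNat 0, .ofNat 0, .ofNat 0⟩)
    (by decide +kernel)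
theorem L00505 : Good (Phi V5.P V5.D (-1) (-1)) ⟨3, 2, 3, 2, 3, 6, 4, 1, 4, 1⟩ :=
  leafX_sound T5.ok_mm T5.Ymm.bz_eq (w := 227) (c := ⟨⟨.ofNat 70, .negSucc 204, .ofNat 71, .ofNat 20, .ofNat 64, .negSucc 1238⟩, ⟨.negSucc 79, .ofNat 54, .ofNat 81, .ofNat 38, .negSucc 10, .ofNat 234⟩, ⟨.negSucc 474, .ofNat 322, .negSucc 77, .ofNat 206, .negSucc 77, .ofNat 637⟩, ⟨.negSucc 73, .negSucc 463, .ofNat 153, .ofNat 244, .ofNat 195, .negSucc 3324⟩, ⟨.negSucc 1002, .negSucc 461, .ofNat 195, .ofNat 932, .ofNat 113, .negSucc 205⟩, .ofNat 579, .ofNat 280, .ofNat 0, .ofNat 280, .ofNat 1757, .ofNat 0, .ofNat 292, .negSucc 127, .negSucc 66, .ofNat 0, .ofNat 114, .ofNat 18, .ofNat 0, .ofNat 0, .ofNat 228, .ofNat 7072, .ofNat 0, .ofNat 0, .ofNat 0, .ofNat 0, .ofNat 0, .ofNat 0, .ofNat 0, .ofNat 0, .ofNat 0, .ofNat 0, .ofNat 0, .ofNat 0, .ofNat 0, .ofNat 0, .ofNat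 2728737760691685869531553441907843279093760, .ofNat 0⟩)
    (by decide +kernel)
theorem L00506 : Good (Phi V5.P V5.D (-1) (-1)) ⟨3, 2, 3, 2, 3, 7, 3, 0, 4, 1⟩ :=
  leafX_sound T5.ok_mm T5.Ymm.bz_eq (w := 223) (c := ⟨⟨.negSucc 183, .negSucc 246, .ofNat 146, .negSucc 316, .ofNat 242, .negSucc 1005⟩, ⟨.ofNat 54, .ofNat 3, .ofNat 50, .ofNat 122, .negSucc 48, .ofNat 174⟩, ⟨.ofNat 64, .ofNat 394, .negSucc 11, .ofNat 225, .negSucc 300, .ofNat 454⟩, ⟨.negSucc 530, .negSucc 492, .ofNat 583, .negSucc 602, .ofNat 646, .negSucc 2767⟩, ⟨.ofNat 319, .negSucc 387, .ofNat 500, .ofNat 1368, .ofNat 81, .negSucc 763⟩, .ofNat 745, .ofNat 685, .ofNat 0, .ofNat 685, .ofNat 3742, .ofNat 0, .ofNat 130, .negSucc 127, .negSucc 111, .ofNat 0, .ofNat 84, .ofNat 18, .ofNat 0, .ofNat 0, .ofNat 358, .ofNat 4324, .ofNat 0, .ofNat 0, .ofNat 0, .ofNat 0, .ofNat 0, .ofNat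 0, .ofNat 118752069014472698239156874987045224710144, .ofNat 0, .ofNat 0, .ofNat 0, .ofNat 0, .ofNat 0, .ofNat 0, .ofNat 0, .ofNat 0, .ofNat 0⟩)
    (by decide +kernel)
theorem L00507 : Good (Phi V5.P V5.D (-1) (-1)) ⟨3, 2, 3, 2, 2, 3, 3, 1, 4, 1⟩ :=
  leafX_sound T5.ok_mm T5.Ymm.bz_eq (w := 208) (c := ⟨⟨.ofNat 135, .negSucc 195, .ofNat 70, .negSucc 250, .ofNat 136, .negSucc 1152⟩, ⟨.negSucc 66, .ofNat 40, .ofNat 49, .ofNat 134, .negSucc 28, .ofNat 200⟩, ⟨.negSucc 499, .ofNat 248, .ofNat 39, .ofNat 513, .negSucc 102, .ofNat 580⟩, ⟨.ofNat 109, .negSucc 353, .ofNat 395, .negSucc 259, .ofNat 361, .negSucc 3164⟩, ⟨.negSucc 765, .negSucc 232, .ofNat 498, .ofNat 2118, .negSucc 30, .negSucc 614⟩, .ofNat 577, .ofNat 284, .ofNat 0, .ofNat 284, .ofNat 1793, .ofNat 0, .ofNat 236, .negSucc 127, .negSucc 130, .ofNat 0, .ofNat 118, .ofNat 29, .ofNat 0,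 .ofNat 0, .ofNat 355, .ofNat 2557, .ofNat 0, .ofNat 0, .ofNat 0, .ofNat 0, .ofNat 0, .ofNat 0, .ofNat 22587072240465814927372415995947778048, .ofNat 0, .ofNat 0, .ofNat 0, .ofNat 0, .ofNat 0, .ofNat 0, .ofNat 0, .ofNat 0, .ofNat 0⟩)
    (by decide +kernel)
theorem L00508 : Good (Phi V5.P V5.D (-1) (-1)) ⟨3, 2, 3, 2, 1, 1, 2, 1, 3, 0⟩ :=
  leafX_sound T5.ok_mm T5.Ymm.bz_eq (w := 186) (c := ⟨⟨.ofNat 1406, .negSucc 101, .ofNat 134, .ofNat 99, .negSucc 318, .negSucc 2487⟩, ⟨.negSucc 256, .negSucc 3, .negSucc 87, .ofNat 67, .ofNat 61, .ofNat 409⟩, ⟨.negSucc 977, .ofNat 86, .negSucc 236, .ofNat 643, .ofNat 218, .ofNat 871⟩, ⟨.ofNat 3571, .negSucc 191, .ofNat 717, .ofNat 590, .negSucc 893, .negSucc 6789⟩, ⟨.ofNat 39, .negSucc 118, .ofNat 354, .ofNat 1959, .negSucc 303, .negSucc 1743⟩, .ofNat 574, .ofNat 283, .ofNat 0, .ofNat 283, .ofNat 1811, .ofNat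 0, .ofNat 498, .negSucc 125, .negSucc 254, .ofNat 0, .ofNat 128, .ofNat 61, .ofNat 0, .ofNat 0, .ofNat 620, .ofNat 648, .ofNat 0, .ofNat 0, .ofNat 0, .ofNat 0, .ofNat 0, .ofNat 0, .ofNat 0, .ofNat 0, .ofNat 0, .ofNat 0, .ofNat 0, .ofNat 0, .ofNat 0, .ofNat 0, .ofNat 0, .ofNat 0⟩)
    (by decide +kernel)
theorem L00509 : Good (Phi V5.P V5.D (-1) (-1)) ⟨3, 3, 3, 2, 1, 1, 1, 0, 3, 0⟩ :=
  out_sound (S := T5.ds_mm) T5.ok_mm (w := 45) (j := 3) (by decide +kernel)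
theorem L00510 : Good (Phi V5.P V5.D (-1) (-1)) ⟨2, 1, 3, 3, 1, 1, 1, 0, 3, 0⟩ :=
  out_sound (S := T5.ds_mm) T5.ok_mm (w := 39) (j := 3) (by decide +kernel)
theorem L00511 : Good (Phi V5.P V5.D (-1) (-1)) ⟨2, 1, 2, 1, 2, 2, 4, 0, 4, 2⟩ :=
  leafX_sound T5.ok_mm T5.Ymm.bz_eq (w := 209) (c := ⟨⟨.negSucc 1318, .negSucc 469, .ofNat 72, .ofNat 76, .ofNat 88, .negSucc 356⟩, ⟨.ofNat 154, .ofNat 192, .ofNat 361, .negSucc 19, .negSucc 14, .ofNat 79⟩, ⟨.ofNat 364, .ofNat 588, .negSucc 116, .negSucc 233, .negSucc 25, .ofNat 496⟩, ⟨.negSucc 3901, .negSucc 564, .ofNat 1, .ofNat 184, .ofNat 273, .negSucc 913⟩, ⟨.negSucc 1345, .negSucc 261, .ofNat 217, .negSucc 73, .ofNat 159, .ofNat 187⟩, .ofNat 386, .ofNat 85, .ofNat 0, .ofNat 85, .ofNat 739, .ofNat 0, .ofNat 408, .negSucc 83, .negSucc 130, .ofNat 0, .ofNat 128, .ofNat 60, .ofNat 0, .ofNat 0, .ofNat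 602, .ofNat 43459, .ofNat 710710439162813630263074174336160275365888, .ofNat 0, .ofNat 231552056943009327130016831402915397632, .ofNat 0, .ofNat 2818904102807565187878046901377613820854272, .ofNat 0, .ofNat 1983360525328960128293709928166068322304, .ofNat 0, .ofNat 86976832138933407151139617701452631244800, .ofNat 0, .ofNat 3322735931961658542035026259478577152000, .ofNat 0, .ofNat 1407747885078512159699757771450286075805696, .ofNat 0, .ofNat 6371212323514370840469822557673610018816, .ofNat 0⟩)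
    (by decide +kernel)
theorem L00512 : Good (Phi V5.P V5.D (-1) (-1)) ⟨2, 1, 2, 1, 2, 2, 4, 1, 4, 2⟩ :=
  leafX_sound T5.ok_mm T5.Ymm.bz_eq (w := 208) (c := ⟨⟨.negSucc 1219, .negSucc 482, .ofNat 102, .ofNat 33, .ofNat 38, .negSucc 309⟩, ⟨.ofNat 140, .ofNat 182, .ofNat 367, .negSucc 11, .negSucc 4, .ofNat 72⟩, ⟨.ofNat 352, .ofNat 596, .negSucc 69, .negSucc 229, .negSucc 22, .ofNat 439⟩, ⟨.negSucc 3610, .negSucc 543, .ofNat 63, .ofNat 69, .ofNat 133, .negSucc 791⟩, ⟨.negSucc 1181, .negSucc 158, .ofNat 205, .negSucc 122, .ofNat 113, .ofNat 174⟩, .ofNat 386, .ofNat 82, .ofNat 0, .ofNat 82, .ofNat 733, .ofNat 0, .ofNat 505, .negSucc 73, .negSucc 142, .ofNat 0, .ofNat 128, .ofNat 62, .ofNat 0, .ofNat 0, .ofNat 649, .ofNat 17016, .ofNat 0, .ofNat 0, .ofNat 0, .ofNat 0, .ofNat 0, .ofNat 0, .ofNat 0, .ofNat 0, .ofNat 0, .ofNat 0, .ofNat 2064788908932776812463096771069777805312,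 .ofNat 0, .ofNat 0, .ofNat 0, .ofNat 0, .ofNat 0⟩)
    (by decide +kernel)
theorem L00513 : Good (Phi V5.P V5.D (-1) (-1)) ⟨2, 1, 2, 1, 2, 2, 3, 1, 4, 2⟩ :=
  leafX_sound T5.ok_mm T5.Ymm.bz_eq (w := 203) (c := ⟨⟨.negSucc 1210, .negSucc 453, .ofNat 106, .ofNat 56, .ofNat 58, .negSucc 295⟩, ⟨.ofNat 145, .ofNat 174, .ofNat 347, .negSucc 17, .negSucc 5, .ofNat 66⟩, ⟨.ofNat 345, .ofNat 532, .negSucc 68, .negSucc 234, .negSucc 1, .ofNat 433⟩, ⟨.negSucc 3561, .negSucc 432, .ofNat 126, .ofNat 117, .ofNat 172, .negSucc 757⟩, ⟨.negSucc 1052, .ofNat 1, .ofNat 251, .negSucc 164, .ofNat 124, .ofNat 110⟩, .ofNat 750, .ofNat 685, .ofNat 0, .ofNat 685, .ofNat 3674, .ofNat 0, .ofNat 202, .negSucc 127, .negSucc 85, .ofNat 0, .ofNat 87, .ofNat 24, .ofNat 0, .ofNat 0, .ofNat 419, .ofNat 4998, .ofNat 0, .ofNat 0, .ofNat 0, .ofNat 0, .ofNat 0, .ofNat 0, .ofNat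 19890114092983862695067732544149520384, .ofNat 0, .ofNat 0, .ofNat 0, .ofNat 214220997973421866882592929389452722176, .ofNat 0, .ofNat 0, .ofNat 0, .ofNat 0, .ofNat 0⟩)
    (by decide +kernel)
theorem L00514 : Good (Phi V5.P V5.D (-1) (-1)) ⟨2, 1, 2, 1, 2, 2, 2, 1, 4, 2⟩ :=
  leafX_sound T5.ok_mm T5.Ymm.bz_eq (w := 198) (c := ⟨⟨.negSucc 1133, .negSucc 383, .ofNat 153, .ofNat 34, .ofNat 147, .negSucc 334⟩, ⟨.ofNat 151, .ofNat 131, .ofNat 286, .negSucc 13, .negSucc 20, .ofNat 69⟩, ⟨.ofNat 407, .ofNat 317, .negSucc 139, .negSucc 195, .ofNat 26, .ofNat 358⟩, ⟨.negSucc 3297, .negSucc 340, .ofNat 212, .ofNat 56, .ofNat 412, .negSucc 859⟩, ⟨.negSucc 823, .negSucc 104, .ofNat 80, .negSucc 197, .ofNat 196, .ofNat 73⟩, .ofNat 751, .ofNat 675, .ofNat 0, .ofNat 675, .ofNat 3587, .ofNat 0, .ofNat 226, .negSucc 127, .negSucc 120, .ofNat 0, .ofNat 89, .ofNat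 31, .ofNat 0, .ofNat 0, .ofNat 467, .ofNat 1673, .ofNat 0, .ofNat 0, .ofNat 164047522291029205335117949634084864, .ofNat 0, .ofNat 0, .ofNat 0, .ofNat 0, .ofNat 0, .ofNat 0, .ofNat 0, .ofNat 15166173980292330723756947373822050304, .ofNat 0, .ofNat 0, .ofNat 0, .ofNat 0, .ofNat 0⟩)
    (by decide +kernel)
theorem L00515 : Good (Phi V5.P V5.D (-1) (-1)) ⟨3, 2, 2, 1, 3, 6, 5, 0, 5, 4⟩ :=
  leafX_sound T5.ok_mm T5.Ymm.bz_eq (w := 237) (c := ⟨⟨.negSucc 1184, .negSucc 253, .ofNat 63, .ofNat 26, .ofNat 32, .negSucc 224⟩, ⟨.ofNat 137, .ofNat 75, .ofNat 338, .ofNat 25, .negSucc 0, .ofNat 40⟩, ⟨.ofNat 205, .ofNat 422, .negSucc 163, .ofNat 316, .negSucc 76, .ofNat 222⟩, ⟨.negSucc 3530, .negSucc 393, .ofNat 83, .ofNat 234, .ofNat 112, .negSucc 610⟩, ⟨.negSucc 1278, .negSucc 319, .ofNat 419, .ofNat 817, .ofNat 83, .negSucc 81⟩, .ofNat 386, .ofNat 84,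 .ofNat 0, .ofNat 84, .ofNat 737, .ofNat 0, .ofNat 149, .negSucc 93, .negSucc 109, .ofNat 0, .ofNat 128, .ofNat 37, .ofNat 0, .ofNat 0, .ofNat 388, .ofNat 126199, .ofNat 10663500580622983582470091579707400686452036599808, .ofNat 0, .ofNat 178262592854939189204406048020524142105198592, .ofNat 0, .ofNat 1115930346856205149788191904032040980114497863680, .ofNat 0, .ofNat 2622543368524238066217645733402340093845307392, .ofNat 0, .ofNat 3296767470496867375272995375333839670801363632128, .ofNat 0, .ofNat 2323233938897810980720857637283205319286063104, .ofNat 0, .ofNat 0, .ofNat 0, .ofNat 0, .ofNat 0⟩)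
    (by decide +kernel)
theorem L00516 : Good (Phi V5.P V5.D (-1) (-1)) ⟨3, 2, 2, 1, 3, 6, 5, 1, 5, 4⟩ :=
  leafX_sound T5.ok_mm T5.Ymm.bz_eq (w := 237) (c := ⟨⟨.negSucc 1164, .negSucc 246, .ofNat 95, .ofNat 32, .ofNat 30, .negSucc 236⟩, ⟨.ofNat 144, .ofNat 69, .ofNat 318, .ofNat 23, .negSucc 6, .ofNat 47⟩, ⟨.ofNat 175, .ofNat 387, .negSucc 187, .ofNat 260, .negSucc 49, .ofNat 240⟩, ⟨.negSucc 3442, .negSucc 351, .ofNat 170, .ofNat 225, .ofNat 86, .negSucc 629⟩, ⟨.negSucc 1103, .negSucc 314, .ofNat 300, .ofNat 647, .ofNat 37, .negSucc 11⟩, .ofNat 581, .ofNat 289, .ofNat 0, .ofNat 289, .ofNat 1782, .ofNat 0, .ofNat 148, .negSucc 127, .negSucc 74, .ofNat 0, .ofNat 121, .ofNat 22, .ofNat 0, .ofNat 0, .ofNat 332, .ofNat 64041, .ofNat 0, .ofNat 0, .ofNat 0, .ofNat 0, .ofNat 0, .ofNat 0, .ofNat 3109846423747049839330619439539095054449639424, .ofNat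 0, .ofNat 0, .ofNat 0, .ofNat 5524231361798079793568822486400224610888974336, .ofNat 0, .ofNat 0, .ofNat 0, .ofNat 5627169791374798888087774766105751492552032256, .ofNat 0⟩)
    (by decide +kernel)
theorem L00517 : Good (Phi V5.P V5.D (-1) (-1)) ⟨3, 2, 2, 1, 3, 6, 4, 1, 5, 4⟩ :=
  leafX_sound T5.ok_mm T5.Ymm.bz_eq (w := 231) (c := ⟨⟨.negSucc 1129, .negSucc 248, .ofNat 82, .ofNat 43, .ofNat 57, .negSucc 256⟩, ⟨.ofNat 139, .ofNat 72, .ofNat 320, .ofNat 15, .negSucc 10, .ofNat 53⟩, ⟨.ofNat 176, .ofNat 350, .negSucc 130, .ofNat 192, .negSucc 70, .ofNat 231⟩, ⟨.negSucc 3341, .negSucc 362, .ofNat 132, .ofNat 237, .ofNat 168, .negSucc 679⟩, ⟨.negSucc 1067, .negSucc 250, .ofNat 324, .ofNat 580, .ofNat 42, .negSucc 5⟩, .ofNat 581, .ofNat 290, .ofNat 0, .ofNat 290, .ofNat 1786, .ofNat 0, .ofNat 128, .negSucc 145, .negSucc 112, .ofNat 0, .ofNat 139,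 .ofNat 33, .ofNat 0, .ofNat 0, .ofNat 452, .ofNat 18583, .ofNat 0, .ofNat 0, .ofNat 0, .ofNat 0, .ofNat 0, .ofNat 0, .ofNat 130299577111159102526798413425546691109453824, .ofNat 0, .ofNat 0, .ofNat 0, .ofNat 0, .ofNat 0, .ofNat 0, .ofNat 0, .ofNat 0, .ofNat 0⟩)
    (by decide +kernel)
theorem L00518 : Good (Phi V5.P V5.D (-1) (-1)) ⟨3, 2, 3, 2, 3, 6, 4, 0, 5, 5⟩ :=
  leafX_sound T5.ok_mm T5.Ymm.bz_eq (w := 236) (c := ⟨⟨.negSucc 1408, .negSucc 233, .ofNat 22, .ofNat 59, .ofNat 21, .negSucc 66⟩, ⟨.ofNat 187, .ofNat 71, .ofNat 185, .ofNat 10, .negSucc 0, .ofNat 11⟩, ⟨.ofNat 491, .ofNat 360, .negSucc 86, .ofNat 202, .negSucc 86, .ofNat 155⟩, ⟨.negSucc 4085, .negSucc 271, .negSucc 11, .ofNat 241, .ofNat 64, .negSucc 185⟩, ⟨.negSucc 1076, .negSucc 233, .ofNat 131, .ofNat 438, .ofNat 52, .negSucc 41⟩, .ofNat 672, .ofNat 465, .ofNat 0, .ofNat 465,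 .ofNat 2616, .ofNat 0, .ofNat 128, .negSucc 155, .negSucc 53, .ofNat 0, .ofNat 133, .ofNat 15, .ofNat 0, .ofNat 0, .ofNat 288, .ofNat 66904, .ofNat 3480188706729670203078661678927676136760348246016, .ofNat 0, .ofNat 0, .ofNat 0, .ofNat 491305804535613356489408321335957584025684541440, .ofNat 0, .ofNat 268974949369754051671837349618593480415641600, .ofNat 0, .ofNat 0, .ofNat 0, .ofNat 0, .ofNat 0, .ofNat 4525850040243451658417589303387278994889175465984, .ofNat 0, .ofNat 25060799249435827362773536917861193295593472, .ofNat 0⟩)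
    (by decide +kernel)
theorem L00519 : Good (Phi V5.P V5.D (-1) (-1)) ⟨3, 2, 3, 2, 3, 6, 4, 1, 5, 5⟩ :=
  leafX_sound T5.ok_mm T5.Ymm.bz_eq (w := 235) (c := ⟨⟨.negSucc 1386, .negSucc 230, .ofNat 31, .ofNat 69, .ofNat 28, .negSucc 73⟩, ⟨.ofNat 186, .ofNat 75, .ofNat 184, .ofNat 2, .negSucc 2, .ofNat 14⟩, ⟨.ofNat 444, .ofNat 320, .negSucc 74, .ofNat 146, .negSucc 66, .ofNat 155⟩, ⟨.negSucc 4024, .negSucc 252, .ofNat 34, .ofNat 257, .ofNat 82, .negSucc 207⟩, ⟨.negSucc 1040, .negSucc 187, .ofNat 171, .ofNat 396, .ofNat 42, .negSucc 32⟩, .ofNat 599, .ofNat 352, .ofNat 0, .ofNat 352, .ofNat 1901, .ofNat 0, .ofNat 128, .negSucc 137, .negSucc 84, .ofNat 0, .ofNat 127, .ofNat 26, .ofNat 0, .ofNat 0, .ofNat 405, .ofNat 40609, .ofNat 0, .ofNat 0, .ofNat 0, .ofNat 0, .ofNat 0, .ofNat 0, .ofNat 86269753170568601190026572396116867524067328, .ofNat 0,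 .ofNat 0, .ofNat 0, .ofNat 0, .ofNat 0, .ofNat 0, .ofNat 0, .ofNat 0, .ofNat 0⟩)
    (by decide +kernel)
theorem L00520 : Good (Phi V5.P V5.D (-1) (-1)) ⟨3, 2, 3, 3, 3, 6, 3, 0, 5, 5⟩ :=
  out_sound (S := T5.ds_mm) T5.ok_mm (w := 45) (j := 3) (by decide +kernel)
theorem L00521 : Good (Phi V5.P V5.D (-1) (-1)) ⟨3, 2, 2, 1, 3, 6, 3, 1, 4, 2⟩ :=
  leafX_sound T5.ok_mm T5.Ymm.bz_eq (w := 221) (c := ⟨⟨.negSucc 1110, .negSucc 212, .ofNat 94, .ofNat 51, .ofNat 76, .negSucc 358⟩, ⟨.ofNat 135, .ofNat 68, .ofNat 328, .ofNat 7, .negSucc 13, .ofNat 73⟩, ⟨.ofNat 193, .ofNat 263, .negSucc 76, .ofNat 101, .negSucc 73, .ofNat 386⟩, ⟨.negSucc 3268, .negSucc 242, .ofNat 163, .ofNat 200, .ofNat 224, .negSucc 955⟩, ⟨.negSucc 977, .negSucc 205, .ofNat 364, .ofNat 365, .ofNat 62, .negSucc 24⟩, .ofNat 578, .ofNat 281, .ofNat 0, .ofNat 281, .ofNat 1775, .ofNat 0,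 .ofNat 395, .negSucc 123, .negSucc 124, .ofNat 0, .ofNat 128, .ofNat 35, .ofNat 0, .ofNat 0, .ofNat 489, .ofNat 8422, .ofNat 0, .ofNat 0, .ofNat 0, .ofNat 0, .ofNat 0, .ofNat 0, .ofNat 0, .ofNat 0, .ofNat 0, .ofNat 0, .ofNat 835451674283890792043073670144260302700544, .ofNat 0, .ofNat 0, .ofNat 0, .ofNat 0, .ofNat 0⟩)
    (by decide +kernel)
theorem L00522 : Good (Phi V5.P V5.D (-1) (-1)) ⟨3, 2, 2, 1, 3, 7, 2, 0, 4, 2⟩ :=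
  leafX_sound T5.ok_mm T5.Ymm.bz_eq (w := 215) (c := ⟨⟨.negSucc 1214, .negSucc 194, .negSucc 6, .negSucc 22, .ofNat 131, .negSucc 205⟩, ⟨.ofNat 206, .ofNat 36, .ofNat 340, .ofNat 34, .negSucc 32, .ofNat 23⟩, ⟨.ofNat 567, .ofNat 252, .ofNat 88, .ofNat 51, .negSucc 281, .ofNat 272⟩, ⟨.negSucc 3401, .negSucc 188, .ofNat 63, .ofNat 58, .ofNat 313, .negSucc 624⟩, ⟨.negSucc 218, .negSucc 173, .ofNat 473, .ofNat 626, .negSucc 108, .negSucc 410⟩, .ofNat 846, .ofNat 973, .ofNat 0, .ofNat 973, .ofNat 4982, .ofNat 0, .ofNat 128, .negSucc 157, .negSucc 67, .ofNat 0, .ofNat 111, .ofNat 13, .ofNat 0, .ofNat 0, .ofNat 283, .ofNat 1054, .ofNat 3311349121280326032074430421681980431138816, .ofNat 0, .ofNat 77214667881488198801657286680995954688, .ofNat 0, .ofNat 0, .ofNat 0, .ofNat 6181912971896530673152022059030549626880, .ofNat 0, .ofNat 0, .ofNat 0, .ofNat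 0, .ofNat 0, .ofNat 0, .ofNat 0, .ofNat 5955679705589589302582630607814584696832, .ofNat 0⟩)
    (by decide +kernel)
theorem L00523 : Good (Phi V5.P V5.D (-1) (-1)) ⟨3, 3, 2, 1, 2, 3, 2, 0, 4, 2⟩ :=
  out_sound (S := T5.ds_mm) T5.ok_mm (w := 43) (j := 3) (by decide +kernel)
theorem L00524 : Good (Phi V5.P V5.D (-1) (-1)) ⟨2, 1, 2, 1, 2, 3, 2, 1, 4, 2⟩ :=
  leafX_sound T5.ok_mm T5.Ymm.bz_eq (w := 197) (c := ⟨⟨.negSucc 1060, .negSucc 363, .negSucc 18, .ofNat 40, .ofNat 113, .negSucc 323⟩, ⟨.ofNat 142, .ofNat 110, .ofNat 330, .ofNat 20, .negSucc 25, .ofNat 58⟩, ⟨.ofNat 257, .ofNat 299, .ofNat 72, .ofNat 114, .negSucc 18, .ofNat 290⟩, ⟨.negSucc 3074, .negSucc 348, .ofNat 10, .ofNat 204, .ofNat 265, .negSucc 887⟩, ⟨.negSucc 783, .negSucc 239, .ofNat 759, .ofNat 569, .negSucc 86, .negSucc 133⟩, .ofNat 742, .ofNat 639, .ofNat 0, .ofNat 639, .ofNat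 3482, .ofNat 0, .ofNat 232, .negSucc 127, .negSucc 91, .ofNat 0, .ofNat 96, .ofNat 21, .ofNat 0, .ofNat 0, .ofNat 316, .ofNat 1159, .ofNat 0, .ofNat 0, .ofNat 125796743043018662638242942450401280, .ofNat 0, .ofNat 0, .ofNat 0, .ofNat 3639436338175792476209690979136962560, .ofNat 0, .ofNat 0, .ofNat 0, .ofNat 5372694900412814597534627017191849984, .ofNat 0, .ofNat 0, .ofNat 0, .ofNat 4713217768582637108856868361587392512, .ofNat 0⟩)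
    (by decide +kernel)
theorem L00525 : Good (Phi V5.P V5.D (-1) (-1)) ⟨3, 2, 2, 1, 2, 2, 2, 0, 4, 3⟩ :=
  leafX_sound T5.ok_mm T5.Ymm.bz_eq (w := 204) (c := ⟨⟨.negSucc 1547, .negSucc 195, .ofNat 56, .ofNat 43, .ofNat 88, .ofNat 53⟩, ⟨.ofNat 220, .ofNat 73, .ofNat 374, .negSucc 17, .negSucc 10, .negSucc 2⟩, ⟨.ofNat 908, .ofNat 198, .negSucc 100, .negSucc 266, .negSucc 120, .ofNat 226⟩, ⟨.negSucc 4428, .negSucc 124, .negSucc 32, .ofNat 59, .ofNat 271, .ofNat 159⟩, ⟨.negSucc 928, .negSucc 34, .ofNat 1, .negSucc 247, .ofNat 213, .ofNat 107⟩, .ofNat 757, .ofNat 695, .ofNat 0, .ofNat 695, .ofNat 3642, .ofNat 0, .ofNat 308, .negSucc 127, .negSucc 97, .ofNat 0, .ofNat 94, .ofNat 28, .ofNat 0, .ofNat 0, .ofNat 704, .ofNat 12542, .ofNat 5485806116470966559130026058165361049600, .ofNat 0, .ofNat 43006751544430028528777336180441088, .ofNat 0, .ofNat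 0, .ofNat 0, .ofNat 0, .ofNat 0, .ofNat 20152282877199773943772399392631291904, .ofNat 0, .ofNat 6019883900942830129178319148212551680, .ofNat 0, .ofNat 0, .ofNat 0, .ofNat 0, .ofNat 0⟩)
    (by decide +kernel)
theorem L00526 : Good (Phi V5.P V5.D (-1) (-1)) ⟨3, 2, 2, 1, 2, 2, 2, 1, 4, 3⟩ :=
  leafX_sound T5.ok_mm T5.Ymm.bz_eq (w := 204) (c := ⟨⟨.negSucc 1437, .negSucc 184, .ofNat 8, .ofNat 34, .ofNat 108, .ofNat 29⟩, ⟨.ofNat 216, .ofNat 60, .ofNat 352, .negSucc 14, .negSucc 13, .negSucc 1⟩, ⟨.ofNat 850, .ofNat 113, .negSucc 35, .negSucc 243, .negSucc 38, .ofNat 142⟩, ⟨.negSucc 4094, .negSucc 121, .negSucc 99, .ofNat 49, .ofNat 329, .ofNat 92⟩, ⟨.negSucc 729, .negSucc 49, .ofNat 93, .negSucc 210, .ofNat 211, .ofNat 113⟩, .ofNat 577, .ofNat 280, .ofNat 0, .ofNat 280, .ofNat 1785, .ofNat 0, .ofNat 410, .negSucc 111, .negSucc 137, .ofNat 0,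 .ofNat 128, .ofNat 38, .ofNat 0, .ofNat 0, .ofNat 795, .ofNat 9603, .ofNat 0, .ofNat 0, .ofNat 0, .ofNat 0, .ofNat 0, .ofNat 0, .ofNat 9268771910580167975912889633900331008, .ofNat 0, .ofNat 0, .ofNat 0, .ofNat 4189750983683538940590274718390550528, .ofNat 0, .ofNat 0, .ofNat 0, .ofNat 0, .ofNat 0⟩)
    (by decide +kernel)
theorem L00527 : Good (Phi V5.P V5.D (-1) (-1)) ⟨3, 3, 2, 1, 2, 2, 1, 0, 4, 3⟩ :=
  out_sound (S := T5.ds_mm) T5.ok_mm (w := 43) (j := 3) (by decide +kernel)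
theorem L00528 : Good (Phi V5.P V5.D (-1) (-1)) ⟨3, 2, 2, 1, 2, 3, 2, 0, 4, 3⟩ :=
  leafX_sound T5.ok_mm T5.Ymm.bz_eq (w := 202) (c := ⟨⟨.negSucc 1516, .negSucc 163, .ofNat 49, .ofNat 157, .ofNat 56, .ofNat 89⟩, ⟨.ofNat 225, .ofNat 54, .ofNat 352, .negSucc 11, .negSucc 5, .negSucc 23⟩, ⟨.ofNat 791, .ofNat 194, .negSucc 68, .ofNat 45, .negSucc 222, .ofNat 125⟩, ⟨.negSucc 4345, .negSucc 75, .ofNat 50, .ofNat 499, .ofNat 178, .ofNat 213⟩, ⟨.negSucc 952, .negSucc 126, .ofNat 253, .ofNat 466, .ofNat 154, .negSucc 74⟩, .ofNat 747, .ofNat 660, .ofNat 0, .ofNat 660, .ofNat 3550, .ofNat 0, .ofNat 128, .negSucc 151, .negSucc 72, .ofNat 0, .ofNat 129, .ofNat 16, .ofNat 0, .ofNat 0, .ofNat 524, .ofNat 3883, .ofNat 2097990660550318970839135482679335583744, .ofNat 0, .ofNat 13199498068586183537943141614092288, .ofNat 0, .ofNat 0, .ofNat 0, .ofNat 934730602755070507052954226874384384,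 .ofNat 0, .ofNat 0, .ofNat 0, .ofNat 0, .ofNat 0, .ofNat 0, .ofNat 0, .ofNat 0, .ofNat 0⟩)
    (by decide +kernel)
theorem L00529 : Good (Phi V5.P V5.D (-1) (-1)) ⟨3, 3, 2, 1, 2, 3, 2, 0, 4, 3⟩ :=
  out_sound (S := T5.ds_mm) T5.ok_mm (w := 43) (j := 3) (by decide +kernel)
theorem L00530 : Good (Phi V5.P V5.D (-1) (-1)) ⟨2, 1, 2, 1, 3, 6, 2, 1, 4, 3⟩ :=
  leafX_sound T5.ok_mm T5.Ymm.bz_eq (w := 213) (c := ⟨⟨.negSucc 1434, .negSucc 241, .ofNat 30, .ofNat 83, .ofNat 85, .ofNat 35⟩, ⟨.ofNat 208, .ofNat 90, .ofNat 335, .negSucc 11, .negSucc 5, .negSucc 0⟩, ⟨.ofNat 672, .ofNat 93, .ofNat 30, .negSucc 37, .negSucc 50, .ofNat 101⟩, ⟨.negSucc 4093, .ofNat 3, .negSucc 36, .ofNat 228, .ofNat 268, .ofNat 107⟩, ⟨.negSucc 864, .negSucc 311, .ofNat 129, .ofNat 110, .ofNat 229, .ofNat 97⟩, .ofNat 578, .ofNat 286, .ofNat 0, .ofNat 286, .ofNat 1795, .ofNat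 0, .ofNat 336, .negSucc 110, .negSucc 128, .ofNat 0, .ofNat 128, .ofNat 32, .ofNat 0, .ofNat 0, .ofNat 763, .ofNat 3965, .ofNat 0, .ofNat 0, .ofNat 9303321150884380176145150355936724910080, .ofNat 0, .ofNat 0, .ofNat 0, .ofNat 0, .ofNat 0, .ofNat 0, .ofNat 0, .ofNat 427723134187982275400947896674071852613632, .ofNat 0, .ofNat 0, .ofNat 0, .ofNat 0, .ofNat 0⟩)
    (by decide +kernel)
theorem L00531 : Good (Phi V5.P V5.D (-1) (-1)) ⟨2, 1, 2, 1, 3, 7, 2, 1, 4, 3⟩ :=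
  leafX_sound T5.ok_mm T5.Ymm.bz_eq (w := 212) (c := ⟨⟨.negSucc 1392, .negSucc 152, .ofNat 82, .ofNat 48, .ofNat 70, .ofNat 71⟩, ⟨.ofNat 218, .ofNat 49, .ofNat 314, .ofNat 3, .negSucc 9, .negSucc 11⟩, ⟨.ofNat 693, .ofNat 52, .negSucc 81, .ofNat 38, .negSucc 54, .ofNat 59⟩, ⟨.negSucc 3940, .ofNat 186, .ofNat 149, .ofNat 184, .ofNat 212, .ofNat 183⟩, ⟨.negSucc 639, .negSucc 520, .ofNat 253, .ofNat 325, .ofNat 177, .ofNat 30⟩, .ofNat 582, .ofNat 290, .ofNat 0, .ofNat 290, .ofNat 1781, .ofNat 0, .ofNat 294, .negSucc 97, .negSucc 78, .ofNat 0, .ofNat 128, .ofNat 9, .ofNat 0, .ofNat 0, .ofNat 632, .ofNat 3184, .ofNat 0, .ofNat 0, .ofNat 0, .ofNat 0, .ofNat 0, .ofNat 0, .ofNat 0, .ofNat 0, .ofNat 0, .ofNat 0, .ofNat 208838935779615203218979658178657739866112, .ofNat 0, .ofNat 0, .ofNat 0, .ofNat 473632939384696125819702662603809245626368, .ofNat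 0⟩)
    (by decide +kernel)
theorem L00532 : Good (Phi V5.P V5.D (-1) (-1)) ⟨3, 2, 3, 2, 2, 2, 1, 0, 4, 4⟩ :=
  leafX_sound T5.ok_mm T5.Ymm.bz_eq (w := 202) (c := ⟨⟨.negSucc 1523, .negSucc 143, .ofNat 13, .ofNat 54, .ofNat 176, .ofNat 116⟩, ⟨.ofNat 229, .ofNat 52, .ofNat 165, .negSucc 14, .negSucc 18, .negSucc 19⟩, ⟨.ofNat 1197, .ofNat 70, .negSucc 6, .negSucc 295, .negSucc 227, .ofNat 85⟩, ⟨.negSucc 4333, .negSucc 16, .negSucc 18, .ofNat 104, .ofNat 536, .ofNat 317⟩, ⟨.negSucc 850, .negSucc 14, .ofNat 8, .negSucc 155, .ofNat 416, .ofNat 83⟩, .ofNat 670, .ofNat 469, .ofNat 0, .ofNat 469, .ofNat 2658, .ofNat 0, .ofNat 342, .negSucc 127, .negSucc 82, .ofNat 0, .ofNat 118, .ofNat 22, .ofNat 0, .ofNat 0, .ofNat 866, .ofNat 5595, .ofNat 0, .ofNat 0, .ofNat 0, .ofNat 0, .ofNat 0, .ofNat 0, .ofNat 0, .ofNat 0, .ofNat 0, .ofNat 0, .ofNat 0, .ofNat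 0, .ofNat 299899918898210043101927612661361650171904, .ofNat 0, .ofNat 328506087904508383261124034050392064, .ofNat 0⟩)
    (by decide +kernel)
theorem L00533 : Good (Phi V5.P V5.D (-1) (-1)) ⟨3, 2, 3, 2, 2, 3, 1, 0, 4, 4⟩ :=
  leafX_sound T5.ok_mm T5.Ymm.bz_eq (w := 200) (c := ⟨⟨.negSucc 1444, .negSucc 112, .negSucc 3, .ofNat 173, .ofNat 118, .ofNat 129⟩, ⟨.ofNat 206, .ofNat 46, .ofNat 172, .negSucc 23, .negSucc 3, .negSucc 23⟩, ⟨.ofNat 949, .ofNat 62, .negSucc 2, .negSucc 66, .negSucc 236, .ofNat 50⟩, ⟨.negSucc 4172, .ofNat 27, .negSucc 54, .ofNat 509, .ofNat 424, .ofNat 353⟩, ⟨.negSucc 1065, .negSucc 125, .ofNat 83, .ofNat 286, .ofNat 540, .ofNat 79⟩, .ofNat 579, .ofNat 284, .ofNat 0, .ofNat 284, .ofNat 1778, .ofNat 0, .ofNat 148, .negSucc 93, .negSucc 34, .ofNat 0, .ofNat 128, .ofNat 5, .ofNat 0, .ofNat 0, .ofNat 667, .ofNat 986, .ofNat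 0, .ofNat 0, .ofNat 1557421393564691187324310406561792, .ofNat 0, .ofNat 0, .ofNat 3367658615158034659422704120046607663104, .ofNat 0, .ofNat 0, .ofNat 0, .ofNat 0, .ofNat 0, .ofNat 0, .ofNat 0, .ofNat 14007510238407206746905971741893832212480, .ofNat 429981881978887725154253560843599872, .ofNat 0⟩)
    (by decide +kernel)
theorem L00534 : Good (Phi V5.P V5.D (-1) (-1)) ⟨3, 3, 3, 2, 1, 1, 1, 0, 4, 4⟩ :=
  out_sound (S := T5.ds_mm) T5.ok_mm (w := 45) (j := 3) (by decide +kernel)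
theorem L00535 : Good (Phi V5.P V5.D (-1) (-1)) ⟨2, 1, 3, 3, 1, 1, 1, 0, 4, 4⟩ :=
  out_sound (S := T5.ds_mm) T5.ok_mm (w := 39) (j := 3) (by decide +kernel)
theorem L00536 : Good (Phi V5.P V5.D (-1) (-1)) ⟨2, 1, 2, 1, 2, 2, 2, 0, 4, 5⟩ :=
  leafX_sound T5.ok_mm T5.Ymm.bz_eq (w := 202) (c := ⟨⟨.negSucc 1430, .negSucc 240, .ofNat 12, .ofNat 117, .ofNat 57, .ofNat 132⟩, ⟨.ofNat 217, .ofNat 96, .ofNat 316, .negSucc 28, .negSucc 4, .negSucc 21⟩, ⟨.ofNat 1439, .ofNat 137, .negSucc 31, .negSucc 319, .negSucc 247, .ofNat 148⟩, ⟨.negSucc 4066, .ofNat 12, .negSucc 97, .ofNat 270, .ofNat 197, .ofNat 373⟩, ⟨.negSucc 791, .negSucc 120, .ofNat 54, .negSucc 151, .ofNat 238, .ofNat 118⟩, .ofNat 385, .ofNat 82, .ofNat 0, .ofNat 82, .ofNat 737, .ofNat 0, .ofNat 460, .negSucc 50, .negSucc 47, .ofNat 0, .ofNat 128, .ofNat 21, .ofNat 0, .ofNat 0, .ofNat 1167,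 .ofNat 33169, .ofNat 5993785864593014106606030257346081456128, .ofNat 0, .ofNat 0, .ofNat 0, .ofNat 0, .ofNat 0, .ofNat 0, .ofNat 0, .ofNat 40659858072287396926659861408371919814656, .ofNat 0, .ofNat 31744080372962906244240168328196259840, .ofNat 0, .ofNat 111473715331650251977690403229532252274688, .ofNat 0, .ofNat 0, .ofNat 0⟩)
    (by decide +kernel)
theorem L00537 : Good (Phi V5.P V5.D (-1) (-1)) ⟨2, 1, 2, 1, 2, 3, 2, 0, 4, 5⟩ :=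
  leafX_sound T5.ok_mm T5.Ymm.bz_eq (w := 198) (c := ⟨⟨.negSucc 1314, .negSucc 199, .negSucc 0, .ofNat 186, .ofNat 48, .ofNat 137⟩, ⟨.ofNat 183, .ofNat 90, .ofNat 319, .negSucc 32, .ofNat 2, .negSucc 25⟩, ⟨.ofNat 1156, .ofNat 78, .ofNat 15, .negSucc 153, .negSucc 270, .ofNat 131⟩, ⟨.negSucc 3784, .ofNat 118, .negSucc 109, .ofNat 495, .ofNat 161, .ofNat 372⟩, ⟨.negSucc 915, .negSucc 44, .ofNat 93, .ofNat 92, .ofNat 188, .ofNat 98⟩, .ofNat 916, .ofNat 1188, .ofNat 0, .ofNat 1188, .ofNat 5768, .ofNat 0, .ofNat 151, .negSucc 127, .negSucc 7, .ofNat 0, .ofNat 99, .ofNat 2, .ofNat 0, .ofNat 0, .ofNat 669, .ofNat 2069, .ofNat 0, .ofNat 0, .ofNat 0, .ofNat 0, .ofNat 0, .ofNat 148445729007296176379075683643279015936, .ofNat 16747729547725475544446381643173724160, .ofNat 0, .ofNat 0, .ofNat 344325243283949952283389623812371775488, .ofNat 0, .ofNat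 0, .ofNat 18020285124522908446825712702812609052672, .ofNat 984560477520929622980955997436813246464, .ofNat 17623509792898423683266748778517889024, .ofNat 0⟩)
    (by decide +kernel)
theorem L00538 : Good (Phi V5.P V5.D (-1) (-1)) ⟨3, 2, 2, 1, 2, 2, 2, 1, 4, 5⟩ :=
  leafX_sound T5.ok_mm T5.Ymm.bz_eq (w := 203) (c := ⟨⟨.negSucc 1318, .negSucc 109, .ofNat 17, .ofNat 59, .ofNat 63, .ofNat 101⟩, ⟨.ofNat 208, .ofNat 36, .ofNat 290, .negSucc 15, .negSucc 4, .negSucc 16⟩, ⟨.ofNat 1187, .negSucc 4, .ofNat 19, .negSucc 292, .negSucc 119, .ofNat 135⟩, ⟨.negSucc 3729, .ofNat 31, .negSucc 64, .ofNat 132, .ofNat 204, .ofNat 282⟩, ⟨.negSucc 566, .ofNat 5, .negSucc 23, .negSucc 102, .ofNat 194, .ofNat 63⟩, .ofNat 748, .ofNat 653, .ofNat 0, .ofNat 653, .ofNat 3500, .ofNat 0, .ofNat 365, .negSucc 127, .negSucc 36, .ofNat 0, .ofNat 108, .ofNat 8, .ofNat 0,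 .ofNat 0, .ofNat 942, .ofNat 5179, .ofNat 0, .ofNat 0, .ofNat 36468774630337936838363413859008512, .ofNat 0, .ofNat 0, .ofNat 0, .ofNat 0, .ofNat 0, .ofNat 0, .ofNat 0, .ofNat 8636726085692699304137127966137122816, .ofNat 0, .ofNat 0, .ofNat 15485570556477736836866252348460927811584, .ofNat 6709668969128796953531425073777344512, .ofNat 0⟩)
    (by decide +kernel)
theorem L00539 : Good (Phi V5.P V5.D (-1) (-1)) ⟨3, 3, 2, 1, 2, 2, 2, 1, 4, 5⟩ :=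
  out_sound (S := T5.ds_mm) T5.ok_mm (w := 43) (j := 3) (by decide +kernel)
theorem L00540 : Good (Phi V5.P V5.D (-1) (-1)) ⟨2, 1, 2, 1, 2, 3, 2, 1, 4, 5⟩ :=
  leafX_sound T5.ok_mm T5.Ymm.bz_eq (w := 198) (c := ⟨⟨.negSucc 1270, .negSucc 179, .ofNat 2, .ofNat 170, .ofNat 54, .ofNat 133⟩, ⟨.ofNat 190, .ofNat 75, .ofNat 292, .negSucc 25, .ofNat 1, .negSucc 22⟩, ⟨.ofNat 941, .negSucc 63, .negSucc 9, .negSucc 198, .negSucc 128, .ofNat 76⟩, ⟨.negSucc 3620, .ofNat 128, .negSucc 116, .ofNat 462, .ofNat 201, .ofNat 368⟩, ⟨.negSucc 690, .negSucc 162, .ofNat 22, .ofNat 126, .ofNat 319, .ofNat 96⟩, .ofNat 386, .ofNat 83, .ofNat 0, .ofNat 83, .ofNat 735, .ofNat 0, .ofNat 242, .negSucc 49, .negSucc 2, .ofNat 0, .ofNat 128, .negSucc 6, .ofNat 0, .ofNat 0, .ofNat 885, .ofNat 1941, .ofNat 0, .ofNat 0, .ofNat 0, .ofNat 0, .ofNat 0, .ofNat 564152642330074312645564698571309056000,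 .ofNat 0, .ofNat 0, .ofNat 0, .ofNat 570673290685708040919202965133885177856, .ofNat 11209992441080768398115012583807254528, .ofNat 0, .ofNat 0, .ofNat 2186329903636594249491455995538434949120, .ofNat 13019323372980547888665434051301081088, .ofNat 0⟩)
    (by decide +kernel)
theorem L00541 : Good (Phi V5.P V5.D (-1) (-1)) ⟨2, 1, 2, 1, 2, 2, 1, 0, 4, 6⟩ :=
  leafX_sound T5.ok_mm T5.Ymm.bz_eq (w := 195) (c := ⟨⟨.negSucc 1265, .negSucc 192, .ofNat 21, .ofNat 63, .ofNat 106, .ofNat 97⟩, ⟨.ofNat 193, .ofNat 60, .ofNat 275, .negSucc 14, .negSucc 1, .negSucc 18⟩, ⟨.ofNat 1498, .negSucc 105, .ofNat 11, .negSucc 260, .negSucc 298, .ofNat 261⟩, ⟨.negSucc 3621, .ofNat 83, .negSucc 24, .ofNat 148, .ofNat 370, .ofNat 270⟩, ⟨.negSucc 713, .ofNat 0, .negSucc 13, .negSucc 83, .ofNat 412, .ofNat 42⟩, .ofNat 388, .ofNat 139, .ofNat 0, .ofNat 139, .ofNat 854,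 .ofNat 0, .ofNat 266, .negSucc 77, .negSucc 8, .ofNat 0, .ofNat 128, .ofNat 6, .ofNat 0, .ofNat 0, .ofNat 1858, .ofNat 3249, .ofNat 109722126506041255590281464095900172288, .ofNat 0, .ofNat 15613870689293727543214045396992000, .ofNat 0, .ofNat 0, .ofNat 188564659993600677527511100183397007360, .ofNat 2962980213290335124481925559365926912, .ofNat 0, .ofNat 860424387862438803604091661209269436416, .ofNat 153075171823994822603065037264500293632, .ofNat 1099073384196028523242297518383431680, .ofNat 0, .ofNat 15961206562578208792150829103373246005248, .ofNat 1708579937700498243449590352554609344512, .ofNat 8585006288619653882129736185719816192, .ofNat 0⟩)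
    (by decide +kernel)
theorem L00542 : Good (Phi V5.P V5.D (-1) (-1)) ⟨2, 1, 2, 1, 2, 3, 1, 0, 4, 6⟩ :=
  leafX_sound T5.ok_mm T5.Ymm.bz_eq (w := 194) (c := ⟨⟨.negSucc 1185, .negSucc 179, .ofNat 10, .ofNat 168, .ofNat 96, .ofNat 131⟩, ⟨.ofNat 172, .ofNat 81, .ofNat 292, .negSucc 47, .negSucc 8, .negSucc 26⟩, ⟨.ofNat 1347, .negSucc 126, .ofNat 6, .negSucc 310, .negSucc 496, .ofNat 145⟩, ⟨.negSucc 3411, .ofNat 117, .negSucc 91, .ofNat 386, .ofNat 328, .ofNat 330⟩, ⟨.negSucc 847, .negSucc 95, .ofNat 27, .ofNat 18, .ofNat 517, .ofNat 93⟩, .ofNat 387, .ofNat 86, .ofNat 0, .ofNat 86, .ofNat 735, .ofNat 0, .ofNat 133, .negSucc 48, .ofNat 11, .ofNat 0, .ofNat 128, .negSucc 5, .ofNat 0, .ofNat 0, .ofNat 845, .ofNat 3079, .ofNat 0, .ofNat 0, .ofNat 0, .ofNat 0, .ofNat 381293019559871415298725299412824752128, .ofNat 159606431995073436294760407072912703488,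 .ofNat 869573455006343661797460313764790272, .ofNat 0, .ofNat 36140267711764781762235593705073410048, .ofNat 255341524603844402424431261552719429632, .ofNat 1229897634335308346121751703188406272, .ofNat 0, .ofNat 11259837982934162365098020216246504521728, .ofNat 1922636485196489125362682027106455519232, .ofNat 1516603469846892771912142336544473088, .ofNat 0⟩)
    (by decide +kernel)
theorem L00543 : Good (Phi V5.P V5.D (-1) (-1)) ⟨2, 1, 2, 1, 2, 2, 2, 0, 4, 7⟩ :=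
  out_sound (S := T5.ds_mm) T5.ok_mm (w := 24) (j := 1) (by decide +kernel)
theorem L00544 : Good (Phi V5.P V5.D (-1) (-1)) ⟨2, 1, 2, 1, 3, 4, 3, 2, 4, 7⟩ :=
  out_sound (S := T5.ds_mm) T5.ok_mm (w := 27) (j := 1) (by decide +kernel)
theorem L00545 : Good (Phi V5.P V5.D (-1) (-1)) ⟨2, 1, 2, 1, 4, 8, 3, 3, 5, 14⟩ :=
  out_sound (S := T5.ds_mm) T5.ok_mm (w := 31) (j := 1) (by decide +kernel)
theorem L00546 : Good (Phi V5.P V5.D (-1) (-1)) ⟨2, 1, 2, 1, 4, 9, 4, 6, 5, 14⟩ :=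
  out_sound (S := T5.ds_mm) T5.ok_mm (w := 32) (j := 1) (by decide +kernel)
theorem L00547 : Good (Phi V5.P V5.D (-1) (-1)) ⟨2, 1, 2, 1, 5, 18, 4, 7, 6, 28⟩ :=
  leafX_sound T5.ok_mm T5.Ymm.bz_eq (w := 268) (c := ⟨⟨.negSucc 1062, .negSucc 167, .ofNat 21, .ofNat 0, .ofNat 23, .ofNat 1⟩, ⟨.ofNat 181, .ofNat 54, .ofNat 251, .ofNat 0, .negSucc 12, .ofNat 0⟩, ⟨.ofNat 1500, .negSucc 446, .ofNat 289, .ofNat 1, .ofNat 2, .negSucc 0⟩, ⟨.negSucc 2969, .ofNat 120, .negSucc 23, .negSucc 0, .ofNat 42, .ofNat 1⟩, ⟨.negSucc 351, .ofNat 71, .negSucc 52, .ofNat 0, .ofNat 41, .ofNat 0⟩, .ofNat 186, .ofNat 13, .ofNat 0, .ofNat 13, .ofNat 244, .ofNat 0, .ofNat 213, .negSucc 19, .ofNat 30, .ofNat 0, .ofNat 128, .negSucc 39, .ofNat 0, .ofNat 0, .ofNat 776, .ofNat 1803800, .ofNat 0, .ofNat 0, .ofNat 0, .ofNat 0, .ofNat 118483879446587628120371022220661214401044904222878859264,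 .ofNat 200301685563173677641513516702049876768923357431201792, .ofNat 33317330570299163814082217321566234922917902219260985344, .ofNat 0, .ofNat 24393948472396191186385173574611385690420832596542881792, .ofNat 0, .ofNat 64096284641189353766218956258290453958995366244832509952, .ofNat 0, .ofNat 132904590426412056800324076545579209530811591540049182720, .ofNat 405101243222964285821664456896306601253674989859635200, .ofNat 77170902707353979817148480812852687418068440254659952640, .ofNat 0⟩)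
    (by decide +kernel)
theorem L00548 : Good (Phi V5.P V5.D (-1) (-1)) ⟨2, 1, 2, 1, 5, 19, 6, 28, 7, 56⟩ :=
  out_sound (S := T5.ds_mm) T5.ok_mm (w := 40) (j := 1) (by decide +kernel)
theorem L00549 : Good (Phi V5.P V5.D (-1) (-1)) ⟨2, 1, 2, 1, 6, 38, 6, 29, 7, 56⟩ :=
  out_sound (S := T5.ds_mm) T5.ok_mm (w := 42) (j := 1) (by decide +kernel)
theorem L00550 : Good (Phi V5.P V5.D (-1) (-1)) ⟨2, 1, 2, 1, 6, 39, 6, 29, 7, 56⟩ :=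
  out_sound (S := T5.ds_mm) T5.ok_mm (w := 52) (j := 2) (by decide +kernel)
theorem L00551 : Good (Phi V5.P V5.D (-1) (-1)) ⟨2, 1, 2, 1, 5, 19, 5, 14, 7, 57⟩ :=
  out_sound (S := T5.ds_mm) T5.ok_mm (w := 39) (j := 1) (by decide +kernel)
theorem L00552 : Good (Phi V5.P V5.D (-1) (-1)) ⟨2, 1, 2, 1, 7, 76, 6, 30, 7, 56⟩ :=
  out_sound (S := T5.ds_mm) T5.ok_mm (w := 44) (j := 1) (by decide +kernel)
theorem L00553 : Good (Phi V5.P V5.D (-1) (-1)) ⟨2, 1, 2, 1, 8, 152, 8, 124, 9, 224⟩ :=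
  out_sound (S := T5.ds_mm) T5.ok_mm (w := 52) (j := 1) (by decide +kernel)
theorem L00554 : Good (Phi V5.P V5.D (-1) (-1)) ⟨2, 1, 2, 1, 8, 152, 9, 250, 10, 448⟩ :=
  out_sound (S := T5.ds_mm) T5.ok_mm (w := 55) (j := 1) (by decide +kernel)
theorem L00555 : Good (Phi V5.P V5.D (-1) (-1)) ⟨2, 1, 2, 1, 9, 304, 9, 251, 10, 448⟩ :=
  out_sound (S := T5.ds_mm) T5.ok_mm (w := 57) (j := 1) (by decide +kernel)
theorem L00556 : Good (Phi V5.P V5.D (-1) (-1)) ⟨2, 1, 2, 1, 9, 305, 9, 251, 10, 448⟩ :=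
  out_sound (S := T5.ds_mm) T5.ok_mm (w := 70) (j := 2) (by decide +kernel)
theorem L00557 : Good (Phi V5.P V5.D (-1) (-1)) ⟨2, 1, 2, 1, 8, 152, 8, 125, 10, 449⟩ :=
  out_sound (S := T5.ds_mm) T5.ok_mm (w := 54) (j := 1) (by decide +kernel)
theorem L00558 : Good (Phi V5.P V5.D (-1) (-1)) ⟨2, 1, 2, 1, 8, 152, 7, 62, 9, 225⟩ :=
  out_sound (S := T5.ds_mm) T5.ok_mm (w := 51) (j := 1) (by decide +kernel)
theorem L00559 : Good (Phi V5.P V5.D (-1) (-1)) ⟨2, 1, 2, 1, 10, 608, 9, 252, 10, 448⟩ :=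
  out_sound (S := T5.ds_mm) T5.ok_mm (w := 59) (j := 1) (by decide +kernel)
theorem L00560 : Good (Phi V5.P V5.D (-1) (-1)) ⟨2, 1, 2, 1, 11, 1216, 10, 506, 11, 896⟩ :=
  out_sound (S := T5.ds_mm) T5.ok_mm (w := 64) (j := 1) (by decide +kernel)
theorem L00561 : Good (Phi V5.P V5.D (-1) (-1)) ⟨2, 1, 2, 1, 11, 1216, 10, 507, 11, 896⟩ :=
  out_sound (S := T5.ds_mm) T5.ok_mm (w := 78) (j := 2) (by decide +kernel)
theorem L00562 : Good (Phi V5.P V5.D (-1) (-1)) ⟨2, 1, 2, 1, 11, 1217, 9, 253, 11, 896⟩ :=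
  out_sound (S := T5.ds_mm) T5.ok_mm (w := 76) (j := 2) (by decide +kernel)
theorem L00563 : Good (Phi V5.P V5.D (-1) (-1)) ⟨2, 1, 2, 1, 10, 608, 9, 253, 11, 897⟩ :=
  out_sound (S := T5.ds_mm) T5.ok_mm (w := 74) (j := 2) (by decide +kernel)
theorem L00564 : Good (Phi V5.P V5.D (-1) (-1)) ⟨2, 1, 2, 1, 10, 609, 8, 126, 10, 448⟩ :=
  out_sound (S := T5.ds_mm) T5.ok_mm (w := 70) (j := 2) (by decide +kernel)
theorem L00565 : Good (Phi V5.P V5.D (-1) (-1)) ⟨2, 1, 2, 1, 9, 304, 8, 126, 10, 449⟩ :=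
  out_sound (S := T5.ds_mm) T5.ok_mm (w := 56) (j := 1) (by decide +kernel)
theorem L00566 : Good (Phi V5.P V5.D (-1) (-1)) ⟨2, 1, 2, 1, 9, 304, 8, 127, 9, 224⟩ :=
  out_sound (S := T5.ds_mm) T5.ok_mm (w := 66) (j := 2) (by decide +kernel)
theorem L00567 : Good (Phi V5.P V5.D (-1) (-1)) ⟨2, 1, 2, 1, 9, 305, 7, 63, 9, 224⟩ :=
  out_sound (S := T5.ds_mm) T5.ok_mm (w := 64) (j := 2) (by decide +kernel)
theorem L00568 : Good (Phi V5.P V5.D (-1) (-1)) ⟨2, 1, 2, 1, 8, 152, 7, 63, 9, 225⟩ :=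
  out_sound (S := T5.ds_mm) T5.ok_mm (w := 62) (j := 2) (by decide +kernel)
theorem L00569 : Good (Phi V5.P V5.D (-1) (-1)) ⟨2, 1, 2, 1, 8, 153, 6, 31, 8, 112⟩ :=
  out_sound (S := T5.ds_mm) T5.ok_mm (w := 58) (j := 2) (by decide +kernel)
theorem L00570 : Good (Phi V5.P V5.D (-1) (-1)) ⟨2, 1, 2, 1, 7, 76, 6, 31, 8, 113⟩ :=
  out_sound (S := T5.ds_mm) T5.ok_mm (w := 56) (j := 2) (by decide +kernel)
theorem L00571 : Good (Phi V5.P V5.D (-1) (-1)) ⟨2, 1, 2, 1, 8, 154, 6, 30, 8, 112⟩ :=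
  out_sound (S := T5.ds_mm) T5.ok_mm (w := 48) (j := 1) (by decide +kernel)
theorem L00572 : Good (Phi V5.P V5.D (-1) (-1)) ⟨2, 1, 2, 1, 8, 155, 6, 30, 8, 112⟩ :=
  out_sound (S := T5.ds_mm) T5.ok_mm (w := 58) (j := 2) (by decide +kernel)
theorem L00573 : Good (Phi V5.P V5.D (-1) (-1)) ⟨2, 1, 2, 1, 7, 77, 6, 30, 8, 113⟩ :=
  out_sound (S := T5.ds_mm) T5.ok_mm (w := 46) (j := 1) (by decide +kernel)
theorem L00574 : Good (Phi V5.P V5.D (-1) (-1)) ⟨2, 1, 2, 1, 7, 77, 6, 31, 7, 56⟩ :=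
  out_sound (S := T5.ds_mm) T5.ok_mm (w := 54) (j := 2) (by decide +kernel)
theorem L00575 : Good (Phi V5.P V5.D (-1) (-1)) ⟨2, 1, 2, 1, 6, 38, 5, 15, 7, 57⟩ :=
  out_sound (S := T5.ds_mm) T5.ok_mm (w := 50) (j := 2) (by decide +kernel)
theorem L00576 : Good (Phi V5.P V5.D (-1) (-1)) ⟨2, 1, 2, 1, 6, 39, 5, 15, 6, 28⟩ :=
  out_sound (S := T5.ds_mm) T5.ok_mm (w := 48) (j := 2) (by decide +kernel)
theorem L00577 : Good (Phi V5.P V5.D (-1) (-1)) ⟨2, 1, 2, 1, 4, 9, 4, 7, 6, 29⟩ :=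
  out_sound (S := T5.ds_mm) T5.ok_mm (w := 34) (j := 1) (by decide +kernel)
theorem L00578 : Good (Phi V5.P V5.D (-1) (-1)) ⟨2, 1, 2, 1, 3, 4, 3, 3, 5, 15⟩ :=
  out_sound (S := T5.ds_mm) T5.ok_mm (w := 29) (j := 1) (by decide +kernel)
theorem L00579 : Good (Phi V5.P V5.D (-1) (-1)) ⟨2, 1, 2, 1, 4, 10, 3, 2, 5, 14⟩ :=
  out_sound (S := T5.ds_mm) T5.ok_mm (w := 31) (j := 1) (by decide +kernel)
theorem L00580 : Good (Phi V5.P V5.D (-1) (-1)) ⟨2, 1, 2, 1, 5, 20, 5, 12, 6, 28⟩ :=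
  out_sound (S := T5.ds_mm) T5.ok_mm (w := 37) (j := 1) (by decide +kernel)
theorem L00581 : Good (Phi V5.P V5.D (-1) (-1)) ⟨2, 1, 2, 1, 5, 20, 5, 13, 6, 28⟩ :=
  out_sound (S := T5.ds_mm) T5.ok_mm (w := 46) (j := 2) (by decide +kernel)
theorem L00582 : Good (Phi V5.P V5.D (-1) (-1)) ⟨2, 1, 2, 1, 5, 20, 4, 7, 6, 28⟩ :=
  out_sound (S := T5.ds_mm) T5.ok_mm (w := 44) (j := 2) (by decide +kernel)
theorem L00583 : Good (Phi V5.P V5.D (-1) (-1)) ⟨2, 1, 2, 1, 5, 20, 3, 3, 6, 29⟩ :=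
  out_sound (S := T5.ds_mm) T5.ok_mm (w := 42) (j := 2) (by decide +kernel)
theorem L00584 : Good (Phi V5.P V5.D (-1) (-1)) ⟨2, 1, 2, 1, 5, 21, 3, 3, 5, 14⟩ :=
  out_sound (S := T5.ds_mm) T5.ok_mm (w := 40) (j := 2) (by decide +kernel)
theorem L00585 : Good (Phi V5.P V5.D (-1) (-1)) ⟨2, 1, 2, 1, 4, 10, 2, 1, 5, 15⟩ :=
  out_sound (S := T5.ds_mm) T5.ok_mm (w := 36) (j := 2) (by decide +kernel)
theorem L00586 : Good (Phi V5.P V5.D (-1) (-1)) ⟨2, 1, 2, 1, 4, 11, 2, 1, 4, 7⟩ :=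
  out_sound (S := T5.ds_mm) T5.ok_mm (w := 34) (j := 2) (by decide +kernel)
theorem L00587 : Good (Phi V5.P V5.D (-1) (-1)) ⟨2, 1, 2, 1, 2, 3, 1, 0, 4, 7⟩ :=
  out_sound (S := T5.ds_mm) T5.ok_mm (w := 28) (j := 2) (by decide +kernel)
theorem L00588 : Good (Phi V5.P V5.D (-1) (-1)) ⟨2, 1, 2, 1, 3, 4, 1, 0, 3, 4⟩ :=
  out_sound (S := T5.ds_mm) T5.ok_mm (w := 23) (j := 1) (by decide +kernel)
theorem L00589 : Good (Phi V5.P V5.D (-1) (-1)) ⟨2, 1, 2, 1, 3, 5, 1, 0, 3, 4⟩ :=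
  out_sound (S := T5.ds_mm) T5.ok_mm (w := 28) (j := 2) (by decide +kernel)
theorem L00590 : Good (Phi V5.P V5.D (-1) (-1)) ⟨2, 1, 2, 1, 2, 2, 1, 0, 3, 5⟩ :=
  out_sound (S := T5.ds_mm) T5.ok_mm (w := 21) (j := 1) (by decide +kernel)
theorem L00591 : Good (Phi V5.P V5.D (-1) (-1)) ⟨2, 1, 2, 1, 2, 2, 1, 0, 2, 3⟩ :=
  out_sound (S := T5.ds_mm) T5.ok_mm (w := 19) (j := 1) (by decide +kernel)
theorem L00592 : Good (Phi V5.P V5.D (-1) (-1)) ⟨2, 1, 2, 1, 2, 3, 1, 0, 1, 1⟩ :=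
  out_sound (S := T5.ds_mm) T5.ok_mm (w := 22) (j := 2) (by decide +kernel)
theorem L00593 : Good (Phi V5.P V5.D (-1) (-1)) ⟨2, 1, 2, 0, 2, 2, 2, 2, 4, 0⟩ :=
  leafX_sound T5.ok_mm T5.Ymm.bz_eq (w := 197) (c := ⟨⟨.ofNat 699, .ofNat 62, .ofNat 23, .ofNat 382, .negSucc 569, .negSucc 1049⟩, ⟨.negSucc 107, .ofNat 40, .ofNat 16, .negSucc 26, .ofNat 33, .ofNat 79⟩, ⟨.negSucc 739, .negSucc 47, .ofNat 40, .negSucc 91, .ofNat 455, .ofNat 591⟩, ⟨.ofNat 1772, .ofNat 13, .negSucc 19, .ofNat 942, .negSucc 1406, .negSucc 2615⟩, ⟨.negSucc 109, .negSucc 383, .ofNat 19, .negSucc 210, .negSucc 35, .negSucc 271⟩, .ofNat 517, .ofNat 101, .ofNat 0, .ofNat 101, .ofNat 1681, .ofNat 0, .ofNat 340, .negSucc 30, .negSucc 245, .ofNat 0, .ofNat 128, .ofNat 32, .ofNat 0, .ofNat 0, .ofNat 465, .ofNat 674, .ofNat 0, .ofNat 0, .ofNat 0, .ofNat 0, .ofNat 0, .ofNat 0, .ofNat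 4215065682280464313274024043500011520, .ofNat 0, .ofNat 0, .ofNat 0, .ofNat 0, .ofNat 0, .ofNat 0, .ofNat 0, .ofNat 0, .ofNat 0⟩)
    (by decide +kernel)
theorem L00594 : Good (Phi V5.P V5.D (-1) (-1)) ⟨2, 1, 2, 0, 2, 2, 2, 3, 4, 0⟩ :=
  leafX_sound T5.ok_mm T5.Ymm.bz_eq (w := 197) (c := ⟨⟨.ofNat 119, .negSucc 325, .ofNat 40, .negSucc 46, .negSucc 331, .negSucc 472⟩, ⟨.negSucc 118, .ofNat 74, .ofNat 121, .negSucc 1, .ofNat 36, .ofNat 31⟩, ⟨.negSucc 194, .ofNat 112, .ofNat 56, .ofNat 102, .ofNat 311, .ofNat 204⟩, ⟨.ofNat 171, .negSucc 544, .ofNat 14, .negSucc 150, .negSucc 812, .negSucc 1134⟩, ⟨.negSucc 650, .negSucc 175, .ofNat 25, .ofNat 29, .ofNat 272, .ofNat 16⟩, .ofNat 518, .ofNat 107, .ofNat 0, .ofNat 107, .ofNat 1730, .ofNat 0, .ofNat 540, .negSucc 20, .negSucc 522, .ofNat 0, .ofNat 128, .ofNat 64, .ofNat 0, .ofNat 0, .ofNat 889, .ofNat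 742, .ofNat 0, .ofNat 0, .ofNat 0, .ofNat 0, .ofNat 0, .ofNat 0, .ofNat 0, .ofNat 0, .ofNat 0, .ofNat 0, .ofNat 0, .ofNat 0, .ofNat 0, .ofNat 0, .ofNat 0, .ofNat 0⟩)
    (by decide +kernel)
theorem L00595 : Good (Phi V5.P V5.D (-1) (-1)) ⟨2, 1, 2, 0, 2, 3, 2, 2, 4, 0⟩ :=
  leafX_sound T5.ok_mm T5.Ymm.bz_eq (w := 196) (c := ⟨⟨.ofNat 1141, .ofNat 128, .ofNat 50, .negSucc 501, .negSucc 689, .negSucc 994⟩, ⟨.negSucc 60, .negSucc 26, .negSucc 3, .ofNat 17, .ofNat 17, .ofNat 72⟩, ⟨.negSucc 731, .negSucc 43, .ofNat 157, .ofNat 620, .ofNat 388, .ofNat 278⟩, ⟨.ofNat 2913, .ofNat 168, .ofNat 86, .negSucc 1176, .negSucc 1793, .negSucc 2448⟩, ⟨.ofNat 285, .negSucc 367, .ofNat 432, .ofNat 422, .negSucc 678, .negSucc 797⟩, .ofNat 517, .ofNat 96, .ofNat 0, .ofNat 96, .ofNat 1655, .ofNat 0, .ofNat 228, .ofNat 2, .negSucc 152, .ofNat 0, .ofNat 128, .ofNat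 21, .ofNat 0, .ofNat 0, .ofNat 250, .ofNat 269, .ofNat 0, .ofNat 0, .ofNat 0, .ofNat 0, .ofNat 0, .ofNat 0, .ofNat 1728275132118565687739297440250986496, .ofNat 0, .ofNat 0, .ofNat 0, .ofNat 0, .ofNat 0, .ofNat 0, .ofNat 0, .ofNat 0, .ofNat 0⟩)
    (by decide +kernel)
theorem L00596 : Good (Phi V5.P V5.D (-1) (-1)) ⟨2, 1, 3, 0, 2, 3, 2, 3, 4, 0⟩ :=
  leafX_sound T5.ok_mm T5.Ymm.bz_eq (w := 200) (c := ⟨⟨.ofNat 175, .negSucc 185, .ofNat 32, .negSucc 359, .negSucc 514, .negSucc 475⟩, ⟨.negSucc 135, .ofNat 71, .ofNat 86, .ofNat 7, .ofNat 40, .ofNat 16⟩, ⟨.negSucc 59, .ofNat 50, .ofNat 81, .ofNat 301, .ofNat 284, .ofNat 71⟩, ⟨.ofNat 281, .negSucc 167, .ofNat 0, .negSucc 900, .negSucc 1257, .negSucc 1159⟩, ⟨.negSucc 583, .negSucc 493, .ofNat 141, .negSucc 240, .ofNat 352, .negSucc 66⟩, .ofNat 505, .ofNat 54, .ofNat 0, .ofNat 54, .ofNat 1655, .ofNat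 0, .ofNat 445, .ofNat 45, .negSucc 377, .ofNat 0, .ofNat 128, .ofNat 44, .ofNat 0, .ofNat 0, .ofNat 566, .ofNat 845, .ofNat 0, .ofNat 0, .ofNat 0, .ofNat 0, .ofNat 0, .ofNat 0, .ofNat 0, .ofNat 0, .ofNat 0, .ofNat 0, .ofNat 0, .ofNat 0, .ofNat 0, .ofNat 0, .ofNat 0, .ofNat 0⟩)
    (by decide +kernel)
theorem L00597 : Good (Phi V5.P V5.D (-1) (-1)) ⟨2, 1, 3, 1, 2, 3, 2, 3, 4, 0⟩ :=
  leafX_sound T5.ok_mm T5.Ymm.bz_eq (w := 200) (c := ⟨⟨.ofNat 250, .negSucc 114, .negSucc 7, .negSucc 387, .negSucc 553, .negSucc 509⟩, ⟨.negSucc 107, .ofNat 60, .ofNat 76, .ofNat 49, .ofNat 85, .ofNat 62⟩, ⟨.ofNat 16, .negSucc 28, .ofNat 103, .ofNat 339, .ofNat 309, .ofNat 61⟩, ⟨.ofNat 495, .negSucc 124, .negSucc 29, .negSucc 954, .negSucc 1376, .negSucc 1291⟩, ⟨.negSucc 108, .negSucc 521, .ofNat 91, .negSucc 320, .ofNat 180, .negSucc 283⟩, .ofNat 527, .ofNat 197,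 .ofNat 0, .ofNat 197, .ofNat 1847, .ofNat 0, .ofNat 790, .negSucc 54, .negSucc 438, .ofNat 0, .ofNat 128, .ofNat 75, .ofNat 0, .ofNat 0, .ofNat 667, .ofNat 984, .ofNat 0, .ofNat 0, .ofNat 0, .ofNat 0, .ofNat 0, .ofNat 0, .ofNat 0, .ofNat 0, .ofNat 0, .ofNat 0, .ofNat 888669622861689007696360840988983296, .ofNat 0, .ofNat 0, .ofNat 0, .ofNat 0, .ofNat 0⟩)
    (by decide +kernel)
theorem L00598 : Good (Phi V5.P V5.D (-1) (-1)) ⟨2, 1, 2, 0, 2, 2, 2, 2, 4, 1⟩ :=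
  leafX_sound T5.ok_mm T5.Ymm.bz_eq (w := 197) (c := ⟨⟨.negSucc 493, .negSucc 468, .ofNat 171, .ofNat 137, .negSucc 3, .negSucc 706⟩, ⟨.negSucc 153, .ofNat 130, .ofNat 228, .negSucc 30, .negSucc 5, .ofNat 58⟩, ⟨.ofNat 45, .ofNat 294, .negSucc 59, .negSucc 200, .ofNat 108, .ofNat 509⟩, ⟨.negSucc 1417, .negSucc 645, .ofNat 258, .ofNat 369, .negSucc 36, .negSucc 1767⟩, ⟨.negSucc 812, .negSucc 110, .ofNat 168, .negSucc 232, .ofNat 183, .ofNat 89⟩, .ofNat 517, .ofNat 104, .ofNat 0, .ofNat 104, .ofNat 1668, .ofNat 0, .ofNat 369, .negSucc 46, .negSucc 154, .ofNat 0, .ofNat 128, .ofNat 22, .ofNat 0, .ofNat 0, .ofNat 346, .ofNat 815, .ofNat 0, .ofNat 0, .ofNat 0, .ofNat 0, .ofNat 0, .ofNat 0, .ofNat 7908412928791455748079687619586293760, .ofNat 0, .ofNat 0, .ofNat 0, .ofNat 0, .ofNat 0, .ofNat 0, .ofNat 0, .ofNat 0, .ofNat 0⟩)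
    (by decide +kernel)
theorem L00599 : Good (Phi V5.P V5.D (-1) (-1)) ⟨2, 1, 3, 0, 2, 3, 2, 2, 4, 1⟩ :=
  leafX_sound T5.ok_mm T5.Ymm.bz_eq (w := 200) (c := ⟨⟨.negSucc 316, .negSucc 276, .negSucc 2, .negSucc 133, .negSucc 97, .negSucc 706⟩, ⟨.negSucc 160, .ofNat 104, .ofNat 138, .negSucc 2, .ofNat 2, .ofNat 22⟩, ⟨.negSucc 58, .ofNat 155, .ofNat 90, .ofNat 133, .ofNat 126, .ofNat 327⟩, ⟨.negSucc 952, .negSucc 247, .negSucc 100, .negSucc 347, .negSucc 286, .negSucc 1745⟩, ⟨.negSucc 760, .negSucc 428, .ofNat 108, .negSucc 75, .negSucc 32, .negSucc 46⟩, .ofNat 510, .ofNat 58, .ofNat 0, .ofNat 58, .ofNat 1632, .ofNat 0, .ofNat 419, .negSucc 8, .negSucc 257, .ofNat 0, .ofNat 128, .ofNat 29, .ofNat 0, .ofNat 0, .ofNat 472, .ofNat 998, .ofNat 0, .ofNat 0, .ofNat 0, .ofNat 0, .ofNat 0, .ofNat 0, .ofNat 0, .ofNat 0, .ofNat 0, .ofNat 0, .ofNat 0,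 .ofNat 0, .ofNat 0, .ofNat 0, .ofNat 0, .ofNat 0⟩)
    (by decide +kernel)
theorem L00600 : Good (Phi V5.P V5.D (-1) (-1)) ⟨2, 1, 3, 1, 2, 3, 2, 2, 4, 1⟩ :=
  leafX_sound T5.ok_mm T5.Ymm.bz_eq (w := 199) (c := ⟨⟨.negSucc 66, .negSucc 340, .ofNat 21, .negSucc 176, .negSucc 158, .negSucc 810⟩, ⟨.negSucc 115, .ofNat 137, .ofNat 119, .ofNat 21, .ofNat 19, .ofNat 97⟩, ⟨.negSucc 158, .ofNat 211, .ofNat 69, .ofNat 202, .ofNat 171, .ofNat 351⟩, ⟨.negSucc 473, .negSucc 452, .ofNat 1, .negSucc 435, .negSucc 389, .negSucc 1951⟩, ⟨.negSucc 954, .negSucc 264, .ofNat 412, .ofNat 35, .ofNat 86, .negSucc 58⟩, .ofNat 650, .ofNat 449, .ofNat 0, .ofNat 449, .ofNat 3630, .ofNat 0, .ofNat 287, .negSucc 127, .negSucc 149, .ofNat 0, .ofNat 104, .ofNat 24, .ofNat 0, .ofNat 0, .ofNat 289, .ofNat 593, .ofNat 0, .ofNat 0, .ofNat 0, .ofNat 0, .ofNat 0, .ofNat 0, .ofNat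 0, .ofNat 0, .ofNat 0, .ofNat 0, .ofNat 0, .ofNat 0, .ofNat 0, .ofNat 0, .ofNat 0, .ofNat 0⟩)
    (by decide +kernel)
theorem L00601 : Good (Phi V5.P V5.D (-1) (-1)) ⟨2, 1, 2, 0, 1, 1, 3, 6, 4, 1⟩ :=
  leafX_sound T5.ok_mm T5.Ymm.bz_eq (w := 187) (c := ⟨⟨.negSucc 645, .negSucc 305, .ofNat 153, .negSucc 26, .negSucc 31, .negSucc 495⟩, ⟨.negSucc 157, .ofNat 109, .ofNat 232, .negSucc 9, .ofNat 25, .ofNat 62⟩, ⟨.ofNat 251, .ofNat 66, .ofNat 25, .ofNat 66, .ofNat 65, .ofNat 273⟩, ⟨.negSucc 1816, .negSucc 264, .ofNat 253, .negSucc 127, .negSucc 59, .negSucc 1220⟩, ⟨.negSucc 744, .negSucc 163, .ofNat 192, .negSucc 331, .ofNat 240, .ofNat 224⟩, .ofNat 518, .ofNat 107, .ofNat 0, .ofNat 107, .ofNat 1730, .ofNat 0, .ofNat 428, .negSucc 32, .negSucc 418, .ofNat 0, .ofNat 128, .ofNat 55, .ofNat 0, .ofNat 0, .ofNat 735, .ofNat 877, .ofNat 0, .ofNat 0,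 .ofNat 0, .ofNat 0, .ofNat 0, .ofNat 0, .ofNat 4495721489219399279087030582116352, .ofNat 0, .ofNat 0, .ofNat 0, .ofNat 0, .ofNat 0, .ofNat 0, .ofNat 0, .ofNat 0, .ofNat 0⟩)
    (by decide +kernel)
theorem L00602 : Good (Phi V5.P V5.D (-1) (-1)) ⟨2, 1, 2, 0, 1, 1, 3, 7, 4, 1⟩ :=
  leafX_sound T5.ok_mm T5.Ymm.bz_eq (w := 187) (c := ⟨⟨.negSucc 704, .negSucc 227, .ofNat 83, .negSucc 197, .ofNat 138, .negSucc 321⟩, ⟨.negSucc 119, .ofNat 81, .ofNat 212, .ofNat 33, .negSucc 1, .ofNat 46⟩, ⟨.ofNat 384, .negSucc 62, .ofNat 58, .ofNat 174, .negSucc 106, .ofNat 155⟩, ⟨.negSucc 1983, .negSucc 63, .ofNat 143, .negSucc 538, .ofNat 368, .negSucc 769⟩, ⟨.negSucc 712, .negSucc 152, .ofNat 120, .ofNat 35, .ofNat 443, .ofNat 472⟩, .ofNat 514, .ofNat 100, .ofNat 0, .ofNat 100, .ofNat 1677, .ofNat 0, .ofNat 454, .negSucc 19, .negSucc 297, .ofNat 0, .ofNat 128,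 .ofNat 37, .ofNat 0, .ofNat 0, .ofNat 518, .ofNat 553, .ofNat 0, .ofNat 0, .ofNat 0, .ofNat 0, .ofNat 0, .ofNat 0, .ofNat 0, .ofNat 0, .ofNat 0, .ofNat 192533330584788585266606915012526080, .ofNat 0, .ofNat 0, .ofNat 0, .ofNat 0, .ofNat 0, .ofNat 0⟩)
    (by decide +kernel)
theorem L00603 : Good (Phi V5.P V5.D (-1) (-1)) ⟨2, 1, 2, 0, 2, 2, 2, 2, 4, 2⟩ :=
  leafX_sound T5.ok_mm T5.Ymm.bz_eq (w := 198) (c := ⟨⟨.negSucc 1212, .negSucc 477, .ofNat 105, .ofNat 4, .ofNat 142, .negSucc 157⟩, ⟨.negSucc 155, .ofNat 158, .ofNat 316, .negSucc 15, .ofNat 1, .ofNat 21⟩, ⟨.ofNat 641, .ofNat 296, .negSucc 62, .negSucc 187, .negSucc 43, .ofNat 187⟩, ⟨.negSucc 3334, .negSucc 459, .ofNat 141, .negSucc 16, .ofNat 363, .negSucc 414⟩, ⟨.negSucc 727, .negSucc 58, .ofNat 52, .negSucc 278, .ofNat 277, .ofNat 182⟩, .ofNat 365, .ofNat 32, .ofNat 0, .ofNat 32, .ofNat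 726, .ofNat 0, .ofNat 345, .negSucc 23, .negSucc 257, .ofNat 0, .ofNat 128, .ofNat 47, .ofNat 0, .ofNat 0, .ofNat 633, .ofNat 1401, .ofNat 0, .ofNat 0, .ofNat 0, .ofNat 0, .ofNat 0, .ofNat 0, .ofNat 0, .ofNat 0, .ofNat 0, .ofNat 0, .ofNat 0, .ofNat 0, .ofNat 0, .ofNat 0, .ofNat 0, .ofNat 0⟩)
    (by decide +kernel)
theorem L00604 : Good (Phi V5.P V5.D (-1) (-1)) ⟨2, 1, 2, 0, 2, 2, 2, 2, 4, 3⟩ :=
  leafX_sound T5.ok_mm T5.Ymm.bz_eq (w := 197) (c := ⟨⟨.negSucc 1413, .negSucc 369, .ofNat 56, .ofNat 6, .ofNat 163, .ofNat 54⟩, ⟨.negSucc 124, .ofNat 141, .ofNat 320, .negSucc 8, .negSucc 6, .ofNat 5⟩, ⟨.ofNat 956, .ofNat 166, .negSucc 36, .negSucc 230, .negSucc 141, .ofNat 37⟩, ⟨.negSucc 3892, .negSucc 135, .ofNat 51, .negSucc 0, .ofNat 423, .ofNat 144⟩, ⟨.negSucc 632, .ofNat 5, .ofNat 39, .negSucc 143, .ofNat 342, .ofNat 118⟩, .ofNat 363, .ofNat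 29, .ofNat 0, .ofNat 29, .ofNat 730, .ofNat 0, .ofNat 208, .negSucc 22, .negSucc 111, .ofNat 0, .ofNat 128, .ofNat 20, .ofNat 0, .ofNat 0, .ofNat 441, .ofNat 1272, .ofNat 0, .ofNat 0, .ofNat 0, .ofNat 0, .ofNat 0, .ofNat 0, .ofNat 0, .ofNat 0, .ofNat 0, .ofNat 0, .ofNat 0, .ofNat 0, .ofNat 0, .ofNat 0, .ofNat 0, .ofNat 0⟩)
    (by decide +kernel)
theorem L00605 : Good (Phi V5.P V5.D (-1) (-1)) ⟨3, 2, 2, 0, 2, 3, 2, 2, 4, 2⟩ :=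
  leafX_sound T5.ok_mm T5.Ymm.bz_eq (w := 200) (c := ⟨⟨.negSucc 1125, .negSucc 177, .ofNat 128, .negSucc 1, .ofNat 4, .negSucc 213⟩, ⟨.negSucc 175, .ofNat 49, .ofNat 311, .ofNat 7, .ofNat 24, .ofNat 28⟩, ⟨.ofNat 359, .ofNat 79, .ofNat 9, .ofNat 55, .ofNat 120, .ofNat 210⟩, ⟨.negSucc 3087, .negSucc 161, .ofNat 189, .negSucc 12, .ofNat 25, .negSucc 560⟩, ⟨.negSucc 882, .negSucc 209, .ofNat 197, .negSucc 15, .ofNat 285, .ofNat 130⟩, .ofNat 536, .ofNat 91, .ofNat 0, .ofNat 91, .ofNat 1538, .ofNat 0, .ofNat 273, .negSucc 38, .negSucc 87, .ofNat 0, .ofNat 128, .ofNat 13, .ofNat 0, .ofNat 0, .ofNat 251, .ofNat 385, .ofNat 0, .ofNat 0, .ofNat 0, .ofNat 0, .ofNat 0, .ofNat 0, .ofNat 0, .ofNat 0, .ofNat 0, .ofNat 0, .ofNat 0, .ofNat 0, .ofNat 0, .ofNat 0, .ofNat 0, .ofNat 0⟩)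
    (by decide +kernel)
theorem L00606 : Good (Phi V5.P V5.D (-1) (-1)) ⟨3, 3, 3, 0, 2, 3, 2, 2, 4, 2⟩ :=
  leafX_sound T5.ok_mm T5.Ymm.bz_eq (w := 205) (c := ⟨⟨.negSucc 1482, .negSucc 162, .ofNat 16, .ofNat 202, .ofNat 187, .negSucc 115⟩, ⟨.negSucc 104, .ofNat 84, .ofNat 167, .negSucc 13, .ofNat 14, .ofNat 20⟩, ⟨.ofNat 675, .ofNat 66, .ofNat 28, .negSucc 139, .negSucc 91, .ofNat 67⟩, ⟨.negSucc 3647, .negSucc 23, .negSucc 45, .ofNat 442, .ofNat 431, .negSucc 264⟩, ⟨.negSucc 1175, .negSucc 219, .ofNat 155, .negSucc 73, .ofNat 368, .ofNat 387⟩, .ofNat 566, .ofNat 157, .ofNat 0, .ofNat 157, .ofNat 3560, .ofNat 0, .ofNat 444, .negSucc 62, .negSucc 189, .ofNat 0, .ofNat 128, .ofNat 17, .ofNat 0, .ofNat 0, .ofNat 528, .ofNat 1750, .ofNat 0, .ofNat 0, .ofNat 0, .ofNat 0, .ofNat 0, .ofNat 0, .ofNat 0, .ofNat 0, .ofNat 0, .ofNat 0, .ofNat 0, .ofNat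 0, .ofNat 0, .ofNat 0, .ofNat 0, .ofNat 0⟩)
    (by decide +kernel)
theorem L00607 : Good (Phi V5.P V5.D (-1) (-1)) ⟨3, 3, 3, 1, 2, 3, 2, 2, 4, 2⟩ :=
  leafX_sound T5.ok_mm T5.Ymm.bz_eq (w := 205) (c := ⟨⟨.negSucc 1395, .negSucc 162, .ofNat 33, .ofNat 157, .ofNat 165, .negSucc 144⟩, ⟨.ofNat 64, .ofNat 96, .ofNat 160, .negSucc 21, .negSucc 14, .ofNat 27⟩, ⟨.ofNat 637, .ofNat 57, .ofNat 39, .negSucc 78, .negSucc 76, .ofNat 67⟩, ⟨.negSucc 3553, .negSucc 43, .ofNat 16, .ofNat 349, .ofNat 422, .negSucc 314⟩, ⟨.negSucc 1151, .negSucc 153, .ofNat 94, .ofNat 44, .ofNat 421, .ofNat 344⟩, .ofNat 510, .ofNat 219, .ofNat 0, .ofNat 219, .ofNat 2087, .ofNat 0, .ofNat 492, .negSucc 115, .negSucc 230, .ofNat 0, .ofNat 128, .ofNat 36, .ofNat 0, .ofNat 0, .ofNat 604, .ofNat 1351, .ofNat 0, .ofNat 0, .ofNat 0, .ofNat 0, .ofNat 0, .ofNat 0, .ofNat 0, .ofNat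 0, .ofNat 0, .ofNat 0, .ofNat 0, .ofNat 0, .ofNat 0, .ofNat 0, .ofNat 0, .ofNat 0⟩)
    (by decide +kernel)
theorem L00608 : Good (Phi V5.P V5.D (-1) (-1)) ⟨3, 2, 2, 0, 3, 6, 2, 2, 4, 3⟩ :=
  leafX_sound T5.ok_mm T5.Ymm.bz_eq (w := 216) (c := ⟨⟨.negSucc 1389, .negSucc 92, .ofNat 30, .ofNat 60, .ofNat 72, .ofNat 38⟩, ⟨.negSucc 126, .ofNat 25, .ofNat 315, .negSucc 3, .ofNat 39, .ofNat 15⟩, ⟨.ofNat 677, .negSucc 30, .ofNat 21, .negSucc 52, .ofNat 40, .ofNat 80⟩, ⟨.negSucc 3831, .ofNat 93, .negSucc 2, .ofNat 178, .ofNat 210, .ofNat 121⟩, ⟨.negSucc 877, .negSucc 89, .ofNat 128, .ofNat 111, .ofNat 570, .ofNat 251⟩, .ofNat 537, .ofNat 78, .ofNat 0, .ofNat 78, .ofNat 1499, .ofNat 0, .ofNat 232, .negSucc 37, .negSucc 92, .ofNat 0, .ofNat 128, .ofNat 13, .ofNat 0, .ofNat 0, .ofNat 586, .ofNat 1503, .ofNat 0, .ofNat 0, .ofNat 0, .ofNat 0, .ofNat 0,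 .ofNat 7349762914261311541317844816670907856584704, .ofNat 0, .ofNat 0, .ofNat 0, .ofNat 0, .ofNat 0, .ofNat 0, .ofNat 0, .ofNat 0, .ofNat 0, .ofNat 0⟩)
    (by decide +kernel)
theorem L00609 : Good (Phi V5.P V5.D (-1) (-1)) ⟨3, 2, 2, 0, 3, 7, 2, 2, 4, 3⟩ :=
  leafX_sound T5.ok_mm T5.Ymm.bz_eq (w := 214) (c := ⟨⟨.negSucc 1371, .negSucc 34, .ofNat 7, .ofNat 63, .ofNat 73, .ofNat 84⟩, ⟨.negSucc 123, .ofNat 16, .ofNat 321, .ofNat 8, .ofNat 49, .ofNat 13⟩, ⟨.ofNat 671, .negSucc 92, .ofNat 59, .negSucc 0, .ofNat 50, .ofNat 19⟩, ⟨.negSucc 3749, .ofNat 204, .negSucc 62, .ofNat 163, .ofNat 227, .ofNat 233⟩, ⟨.negSucc 782, .negSucc 208, .ofNat 230, .ofNat 152, .ofNat 720, .ofNat 261⟩, .ofNat 539, .ofNat 103, .ofNat 0, .ofNat 103, .ofNat 1540, .ofNat 0, .ofNat 249, .negSucc 42, .negSucc 34, .ofNat 0, .ofNat 128, .ofNat 1, .ofNat 0, .ofNat 0, .ofNat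 360, .ofNat 294, .ofNat 0, .ofNat 0, .ofNat 0, .ofNat 0, .ofNat 0, .ofNat 0, .ofNat 0, .ofNat 0, .ofNat 0, .ofNat 0, .ofNat 0, .ofNat 0, .ofNat 0, .ofNat 9149058844448565982580007981021444756733952, .ofNat 0, .ofNat 0⟩)
    (by decide +kernel)
theorem L00610 : Good (Phi V5.P V5.D (-1) (-1)) ⟨3, 3, 2, 0, 3, 6, 2, 2, 4, 3⟩ :=
  leafX_sound T5.ok_mm T5.Ymm.bz_eq (w := 216) (c := ⟨⟨.negSucc 1601, .negSucc 138, .ofNat 38, .ofNat 128, .ofNat 157, .ofNat 138⟩, ⟨.negSucc 78, .ofNat 90, .ofNat 324, .negSucc 13, .ofNat 9, .negSucc 3⟩, ⟨.ofNat 834, .ofNat 6, .negSucc 5, .negSucc 110, .negSucc 131, .negSucc 94⟩, ⟨.negSucc 3983, .ofNat 37, .negSucc 17, .ofNat 308, .ofNat 433, .ofNat 335⟩, ⟨.negSucc 955, .negSucc 96, .ofNat 77, .negSucc 7, .ofNat 670, .ofNat 277⟩, .ofNat 355, .ofNat 37, .ofNat 0, .ofNat 37, .ofNat 763, .ofNat 0, .ofNat 203, .negSucc 34,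 .negSucc 93, .ofNat 0, .ofNat 128, .ofNat 16, .ofNat 0, .ofNat 0, .ofNat 410, .ofNat 1238, .ofNat 0, .ofNat 0, .ofNat 0, .ofNat 0, .ofNat 0, .ofNat 3761126655159500656913683554062240149667840, .ofNat 0, .ofNat 0, .ofNat 0, .ofNat 0, .ofNat 0, .ofNat 0, .ofNat 0, .ofNat 6975952253253356747400810400453034801889280, .ofNat 0, .ofNat 0⟩)
    (by decide +kernel)
theorem L00611 : Good (Phi V5.P V5.D (-1) (-1)) ⟨3, 3, 2, 0, 3, 7, 2, 2, 5, 6⟩ :=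
  leafX_sound T5.ok_mm T5.Ymm.bz_eq (w := 220) (c := ⟨⟨.negSucc 1519, .negSucc 35, .negSucc 0, .ofNat 145, .ofNat 184, .ofNat 77⟩, ⟨.negSucc 75, .ofNat 74, .ofNat 305, .negSucc 6, .ofNat 7, .ofNat 0⟩, ⟨.ofNat 724, .negSucc 73, .ofNat 77, .negSucc 85, .negSucc 108, .negSucc 53⟩, ⟨.negSucc 3792, .ofNat 242, .negSucc 76, .ofNat 347, .ofNat 509, .ofNat 198⟩, ⟨.negSucc 1154, .negSucc 163, .ofNat 277, .ofNat 142, .ofNat 835, .ofNat 261⟩, .ofNat 354, .ofNat 36, .ofNat 0, .ofNat 36, .ofNat 762, .ofNat 0, .ofNat 266, .negSucc 29, .negSucc 66, .ofNat 0, .ofNat 128, .ofNat 7, .ofNat 0, .ofNat 0, .ofNat 349, .ofNat 923, .ofNat 0, .ofNat 0, .ofNat 0, .ofNat 0, .ofNat 0, .ofNat 0, .ofNat 0, .ofNat 0, .ofNat 0, .ofNat 0, .ofNat 0, .ofNat 0, .ofNat 0, .ofNat 45824040855811387939419198134721519707750400, .ofNat 0, .ofNat 0⟩)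
    (by decide +kernel)
theorem L00612 : Good (Phi V5.P V5.D (-1) (-1)) ⟨3, 3, 2, 0, 3, 7, 2, 2, 5, 7⟩ :=
  leafX_sound T5.ok_mm T5.Ymm.bz_eq (w := 220) (c := ⟨⟨.negSucc 1433, .negSucc 43, .negSucc 4, .ofNat 142, .ofNat 170, .ofNat 76⟩, ⟨.negSucc 55, .ofNat 70, .ofNat 288, .negSucc 8, .ofNat 8, .negSucc 14⟩, ⟨.ofNat 723, .negSucc 102, .ofNat 38, .negSucc 70, .negSucc 152, .negSucc 61⟩, ⟨.negSucc 3599, .ofNat 233, .negSucc 75, .ofNat 361, .ofNat 473, .ofNat 210⟩, ⟨.negSucc 920, .negSucc 127, .ofNat 233, .ofNat 224, .ofNat 832, .ofNat 186⟩, .ofNat 355, .ofNat 42, .ofNat 0, .ofNat 42, .ofNat 770, .ofNat 0, .ofNat 271, .negSucc 33, .negSucc 29, .ofNat 0, .ofNat 128, .negSucc 2, .ofNat 0, .ofNat 0, .ofNat 389, .ofNat 669, .ofNat 0, .ofNat 0, .ofNat 0, .ofNat 0, .ofNat 0, .ofNat 0, .ofNat 0, .ofNat 0, .ofNat 0, .ofNat 86286487066088878762331277009219431270711296,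 .ofNat 0, .ofNat 0, .ofNat 0, .ofNat 120165090900026407459906621518120622604943360, .ofNat 0, .ofNat 0⟩)
    (by decide +kernel)
theorem L00613 : Good (Phi V5.P V5.D (-1) (-1)) ⟨2, 1, 2, 0, 2, 2, 2, 3, 4, 2⟩ :=
  leafX_sound T5.ok_mm T5.Ymm.bz_eq (w := 196) (c := ⟨⟨.negSucc 1156, .negSucc 318, .ofNat 67, .negSucc 54, .ofNat 214, .negSucc 89⟩, ⟨.negSucc 95, .ofNat 103, .ofNat 253, .ofNat 0, .ofNat 22, .ofNat 12⟩, ⟨.ofNat 710, .ofNat 55, .ofNat 12, .negSucc 59, .negSucc 123, .ofNat 53⟩, ⟨.negSucc 3190, .negSucc 118, .ofNat 120, .negSucc 151, .ofNat 579, .negSucc 247⟩, ⟨.negSucc 696, .ofNat 25, .ofNat 17, .ofNat 40, .ofNat 819, .ofNat 277⟩, .ofNat 366, .ofNat 30, .ofNat 0, .ofNat 30, .ofNat 722, .ofNat 0, .ofNat 221, .negSucc 10, .negSucc 211, .ofNat 0, .ofNat 128, .ofNat 30, .ofNat 0, .ofNat 0, .ofNat 437, .ofNat 406, .ofNat 0, .ofNat 0, .ofNat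 0, .ofNat 0, .ofNat 0, .ofNat 61750164434263178958541980686492893184, .ofNat 0, .ofNat 0, .ofNat 0, .ofNat 150049362070099571166489925977569755136, .ofNat 0, .ofNat 0, .ofNat 0, .ofNat 0, .ofNat 0, .ofNat 0⟩)
    (by decide +kernel)
theorem L00614 : Good (Phi V5.P V5.D (-1) (-1)) ⟨2, 1, 2, 0, 2, 3, 3, 6, 4, 2⟩ :=
  leafX_sound T5.ok_mm T5.Ymm.bz_eq (w := 201) (c := ⟨⟨.negSucc 1246, .negSucc 148, .ofNat 28, .ofNat 99, .ofNat 42, .negSucc 86⟩, ⟨.negSucc 116, .ofNat 88, .ofNat 282, .ofNat 6, .ofNat 27, .ofNat 42⟩, ⟨.ofNat 680, .negSucc 152, .ofNat 69, .negSucc 38, .ofNat 26, .ofNat 63⟩, ⟨.negSucc 3437, .ofNat 294, .ofNat 39, .ofNat 234, .ofNat 126, .negSucc 195⟩, ⟨.negSucc 796, .negSucc 251, .ofNat 129, .ofNat 256, .ofNat 629, .ofNat 547⟩, .ofNat 522, .ofNat 107, .ofNat 0, .ofNat 107, .ofNat 1641, .ofNat 0, .ofNat 303, .negSucc 44, .negSucc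 138, .ofNat 0, .ofNat 128, .ofNat 19, .ofNat 0, .ofNat 0, .ofNat 421, .ofNat 545, .ofNat 0, .ofNat 0, .ofNat 0, .ofNat 0, .ofNat 0, .ofNat 437253809976148887469603330875788886016, .ofNat 0, .ofNat 0, .ofNat 0, .ofNat 0, .ofNat 0, .ofNat 0, .ofNat 0, .ofNat 0, .ofNat 0, .ofNat 0⟩)
    (by decide +kernel)
theorem L00615 : Good (Phi V5.P V5.D (-1) (-1)) ⟨2, 1, 2, 0, 2, 3, 3, 7, 4, 2⟩ :=
  leafX_sound T5.ok_mm T5.Ymm.bz_eq (w := 200) (c := ⟨⟨.negSucc 1164, .negSucc 89, .negSucc 23, .ofNat 55, .negSucc 39, .negSucc 159⟩, ⟨.negSucc 64, .ofNat 47, .ofNat 257, .ofNat 14, .ofNat 56, .ofNat 50⟩, ⟨.ofNat 690, .negSucc 245, .ofNat 114, .negSucc 0, .ofNat 101, .ofNat 105⟩, ⟨.negSucc 3256, .ofNat 467, .negSucc 8, .ofNat 122, .negSucc 84, .negSucc 379⟩, ⟨.negSucc 183, .negSucc 300, .ofNat 65, .ofNat 337, .ofNat 901, .ofNat 695⟩, .ofNat 514, .ofNat 116,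 .ofNat 0, .ofNat 116, .ofNat 1712, .ofNat 0, .ofNat 300, .negSucc 45, .negSucc 112, .ofNat 0, .ofNat 128, .ofNat 14, .ofNat 0, .ofNat 0, .ofNat 284, .ofNat 264, .ofNat 0, .ofNat 0, .ofNat 0, .ofNat 0, .ofNat 0, .ofNat 810993050217664433243816710252680708096, .ofNat 0, .ofNat 0, .ofNat 0, .ofNat 653562168555355397449663761966698594304, .ofNat 0, .ofNat 0, .ofNat 0, .ofNat 352067311481697341007128090801998921728, .ofNat 0, .ofNat 0⟩)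
    (by decide +kernel)

end Crest.Agent.R097C5.N5mm
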