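import Crest.Agent.R097.KP7
import Crest.Agent.R097.T5Ymm

/-!
# Row 97, box cover in dimension n = 5 (generated)
-/

set_option autoImplicit false
set_option Elab.async false
set_option maxHeartbeats 0
set_option maxRecDepth 100000

open Crest.Agent.R097 Crest.Agent.R097.KA


namespace Crest.Agent.R097C5.N5mm

theorem L00616 : Good (Phi V5.P V5.D (-1) (-1)) ⟨2, 1, 2, 0, 2, 2, 2, 3, 4, 3⟩ :=
  leafX_sound T5.ok_mm T5.Ymm.bz_eq (w := 197) (c := ⟨⟨.negSucc 1259, .negSucc 251, .negSucc 1, .negSucc 58, .ofNat 135, .ofNat 59⟩, ⟨.negSucc 101, .ofNat 109, .ofNat 286, .ofNat 14, .ofNat 39, .negSucc 1⟩, ⟨.ofNat 884, .negSucc 66, .ofNat 69, .negSucc 116, .negSucc 104, .negSucc 40⟩, ⟨.negSucc 3506, .ofNat 138, .negSucc 18, .negSucc 142, .ofNat 372, .ofNat 131⟩, ⟨.negSucc 459, .ofNat 151, .ofNat 25, .ofNat 117, .ofNat 635, .ofNat 140⟩, .ofNat 566, .ofNat 154, .ofNat 0, .ofNat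 154, .ofNat 2409, .ofNat 0, .ofNat 387, .negSucc 59, .negSucc 111, .ofNat 0, .ofNat 128, .ofNat 12, .ofNat 0, .ofNat 0, .ofNat 530, .ofNat 736, .ofNat 0, .ofNat 0, .ofNat 0, .ofNat 0, .ofNat 0, .ofNat 457928946101750048852734158583111876608, .ofNat 0, .ofNat 0, .ofNat 0, .ofNat 431669280003901906934476185219002007552, .ofNat 0, .ofNat 0, .ofNat 0, .ofNat 344058782704406485027594962783101255680, .ofNat 0, .ofNat 0⟩)
    (by decide +kernel)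
theorem L00617 : Good (Phi V5.P V5.D (-1) (-1)) ⟨2, 1, 2, 0, 3, 6, 2, 3, 4, 3⟩ :=
  leafX_sound T5.ok_mm T5.Ymm.bz_eq (w := 211) (c := ⟨⟨.negSucc 1335, .negSucc 127, .negSucc 21, .ofNat 79, .ofNat 39, .ofNat 70⟩, ⟨.negSucc 83, .ofNat 88, .ofNat 296, .negSucc 0, .ofNat 69, .ofNat 6⟩, ⟨.ofNat 795, .negSucc 224, .ofNat 85, .negSucc 64, .ofNat 63, .negSucc 37⟩, ⟨.negSucc 3707, .ofNat 388, .negSucc 66, .ofNat 233, .ofNat 258, .ofNat 218⟩, ⟨.negSucc 358, .negSucc 129, .ofNat 72, .ofNat 245, .ofNat 1303, .ofNat 421⟩, .ofNat 362, .ofNat 31, .ofNat 0, .ofNat 31, .ofNat 734, .ofNat 0, .ofNat 238, .negSucc 26, .negSucc 73, .ofNat 0, .ofNat 128, .ofNat 9, .ofNat 0, .ofNat 0, .ofNat 383, .ofNat 584, .ofNat 0, .ofNat 0, .ofNat 0, .ofNat 0, .ofNat 0, .ofNat 796080596846229551758263869512715843141632, .ofNat 0, .ofNat 0, .ofNat 0, .ofNat 1279029559231762623525145695826318091878400,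 .ofNat 0, .ofNat 0, .ofNat 0, .ofNat 1036198372531831738983243158868590952710144, .ofNat 0, .ofNat 0⟩)
    (by decide +kernel)
theorem L00618 : Good (Phi V5.P V5.D (-1) (-1)) ⟨2, 1, 2, 0, 3, 7, 2, 3, 4, 3⟩ :=
  leafX_sound T5.ok_mm T5.Ymm.bz_eq (w := 210) (c := ⟨⟨.negSucc 1311, .ofNat 24, .negSucc 70, .ofNat 99, .ofNat 184, .ofNat 122⟩, ⟨.negSucc 50, .ofNat 37, .ofNat 275, .ofNat 15, .ofNat 49, .ofNat 21⟩, ⟨.ofNat 767, .negSucc 323, .ofNat 114, .ofNat 6, .negSucc 0, .negSucc 69⟩, ⟨.negSucc 3617, .ofNat 728, .negSucc 128, .ofNat 252, .ofNat 521, .ofNat 311⟩, ⟨.negSucc 100, .negSucc 350, .ofNat 177, .ofNat 320, .ofNat 1575, .ofNat 642⟩, .ofNat 366, .ofNat 35, .ofNat 0, .ofNat 35, .ofNat 729, .ofNat 0, .ofNat 363, .negSucc 26, .negSucc 45, .ofNat 0, .ofNat 128, .ofNat 1, .ofNat 0, .ofNat 0, .ofNat 311, .ofNat 194, .ofNat 0, .ofNat 2582384455486301858533335260928856293376,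 .ofNat 0, .ofNat 0, .ofNat 0, .ofNat 0, .ofNat 0, .ofNat 0, .ofNat 0, .ofNat 732520920650902618662643003801691444215808, .ofNat 0, .ofNat 0, .ofNat 0, .ofNat 1177270887003595691948592916234115966042112, .ofNat 0, .ofNat 0⟩)
    (by decide +kernel)
theorem L00619 : Good (Phi V5.P V5.D (-1) (-1)) ⟨3, 2, 2, 0, 2, 2, 2, 2, 4, 4⟩ :=
  leafX_sound T5.ok_mm T5.Ymm.bz_eq (w := 202) (c := ⟨⟨.negSucc 1362, .negSucc 117, .ofNat 28, .ofNat 25, .ofNat 96, .ofNat 102⟩, ⟨.negSucc 93, .ofNat 22, .ofNat 296, .negSucc 6, .ofNat 15, .ofNat 1⟩, ⟨.ofNat 1016, .negSucc 20, .negSucc 17, .negSucc 218, .negSucc 72, .ofNat 34⟩, ⟨.negSucc 3742, .ofNat 33, .negSucc 2, .ofNat 70, .ofNat 269, .ofNat 261⟩, ⟨.negSucc 484, .negSucc 24, .ofNat 16, .negSucc 79, .ofNat 316, .ofNat 115⟩, .ofNat 536, .ofNat 88, .ofNat 0, .ofNat 88, .ofNat 1529, .ofNat 0, .ofNat 263, .negSucc 37, .negSucc 65, .ofNat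 0, .ofNat 128, .ofNat 9, .ofNat 0, .ofNat 0, .ofNat 650, .ofNat 2137, .ofNat 0, .ofNat 0, .ofNat 0, .ofNat 0, .ofNat 0, .ofNat 0, .ofNat 0, .ofNat 0, .ofNat 0, .ofNat 0, .ofNat 0, .ofNat 0, .ofNat 0, .ofNat 8730803679614724748050464873882620788736, .ofNat 0, .ofNat 0⟩)
    (by decide +kernel)
theorem L00620 : Good (Phi V5.P V5.D (-1) (-1)) ⟨3, 3, 2, 0, 2, 2, 2, 2, 4, 4⟩ :=
  leafX_sound T5.ok_mm T5.Ymm.bz_eq (w := 202) (c := ⟨⟨.negSucc 1552, .negSucc 147, .ofNat 16, .ofNat 92, .ofNat 163, .ofNat 137⟩, ⟨.negSucc 53, .ofNat 82, .ofNat 294, .negSucc 5, .negSucc 1, .negSucc 7⟩, ⟨.ofNat 1179, .ofNat 13, .negSucc 16, .negSucc 398, .negSucc 234, .negSucc 38⟩, ⟨.negSucc 3875, .ofNat 43, .negSucc 27, .ofNat 210, .ofNat 426, .ofNat 345⟩, ⟨.negSucc 576, .negSucc 10, .ofNat 4, .negSucc 61, .ofNat 449, .ofNat 152⟩, .ofNat 354, .ofNat 31, .ofNat 0, .ofNat 31, .ofNat 757, .ofNat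 0, .ofNat 208, .negSucc 25, .negSucc 64, .ofNat 0, .ofNat 128, .ofNat 9, .ofNat 0, .ofNat 0, .ofNat 488, .ofNat 1728, .ofNat 0, .ofNat 0, .ofNat 0, .ofNat 0, .ofNat 0, .ofNat 0, .ofNat 0, .ofNat 0, .ofNat 0, .ofNat 2978663431945734105294237926575336062976, .ofNat 0, .ofNat 0, .ofNat 0, .ofNat 3748467830392158117250396627077173346304, .ofNat 872849925466204997570400347660222464, .ofNat 0⟩)
    (by decide +kernel)
theorem L00621 : Good (Phi V5.P V5.D (-1) (-1)) ⟨3, 2, 2, 0, 2, 3, 2, 2, 4, 4⟩ :=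
  leafX_sound T5.ok_mm T5.Ymm.bz_eq (w := 200) (c := ⟨⟨.negSucc 1344, .negSucc 72, .ofNat 2, .ofNat 161, .ofNat 78, .ofNat 122⟩, ⟨.negSucc 114, .ofNat 34, .ofNat 304, .ofNat 4, .ofNat 33, .ofNat 7⟩, ⟨.ofNat 786, .negSucc 83, .ofNat 44, .negSucc 107, .negSucc 50, .negSucc 4⟩, ⟨.negSucc 3673, .ofNat 132, .negSucc 72, .ofNat 426, .ofNat 201, .ofNat 295⟩, ⟨.negSucc 593, .negSucc 38, .ofNat 101, .ofNat 195, .ofNat 452, .ofNat 91⟩, .ofNat 633, .ofNat 169, .ofNat 0, .ofNat 169, .ofNat 2618, .ofNat 0, .ofNat 279, .negSucc 50, .negSucc 22, .ofNat 0, .ofNat 128, .ofNat 0, .ofNat 0, .ofNat 0, .ofNat 632, .ofNat 420, .ofNat 0, .ofNat 0, .ofNat 0, .ofNat 0, .ofNat 0, .ofNat 3771924529414445883685069482966942482432, .ofNat 0, .ofNat 0, .ofNat 0, .ofNat 4557424196997424660301174222165974712320, .ofNat 0, .ofNat 0, .ofNat 0, .ofNat 13424841531495754040134322928377799901184,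 .ofNat 0, .ofNat 0⟩)
    (by decide +kernel)
theorem L00622 : Good (Phi V5.P V5.D (-1) (-1)) ⟨3, 3, 2, 0, 2, 3, 2, 2, 4, 4⟩ :=
  leafX_sound T5.ok_mm T5.Ymm.bz_eq (w := 202) (c := ⟨⟨.negSucc 1456, .negSucc 95, .negSucc 3, .ofNat 260, .ofNat 127, .ofNat 146⟩, ⟨.negSucc 59, .ofNat 71, .ofNat 293, .negSucc 17, .ofNat 13, .negSucc 6⟩, ⟨.ofNat 808, .negSucc 78, .ofNat 8, .negSucc 256, .negSucc 183, .negSucc 97⟩, ⟨.negSucc 3628, .ofNat 147, .negSucc 86, .ofNat 621, .ofNat 329, .ofNat 350⟩, ⟨.negSucc 711, .negSucc 63, .ofNat 127, .ofNat 172, .ofNat 583, .ofNat 192⟩, .ofNat 547, .ofNat 185, .ofNat 0, .ofNat 185, .ofNat 2788, .ofNat 0, .ofNat 445, .negSucc 72, .negSucc 37, .ofNat 0, .ofNat 128, .ofNat 1, .ofNat 0, .ofNat 0, .ofNat 1001, .ofNat 1231, .ofNat 0, .ofNat 0, .ofNat 0, .ofNat 0, .ofNat 0, .ofNat 11249149846794828909683139983889603231744, .ofNat 0, .ofNat 0,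 .ofNat 0, .ofNat 10489523177570834296341378545572510695424, .ofNat 0, .ofNat 0, .ofNat 0, .ofNat 31479661528200745569844431500467264028672, .ofNat 0, .ofNat 0⟩)
    (by decide +kernel)
theorem L00623 : Good (Phi V5.P V5.D (-1) (-1)) ⟨2, 1, 2, 0, 3, 4, 2, 2, 4, 5⟩ :=
  leafX_sound T5.ok_mm T5.Ymm.bz_eq (w := 213) (c := ⟨⟨.negSucc 1273, .negSucc 238, .ofNat 15, .ofNat 15, .ofNat 97, .ofNat 116⟩, ⟨.negSucc 91, .ofNat 102, .ofNat 278, .ofNat 1, .ofNat 10, .negSucc 8⟩, ⟨.ofNat 1103, .negSucc 11, .ofNat 28, .negSucc 140, .negSucc 181, .ofNat 29⟩, ⟨.negSucc 3491, .ofNat 101, .negSucc 22, .ofNat 28, .ofNat 255, .ofNat 271⟩, ⟨.negSucc 421, .ofNat 83, .ofNat 11, .negSucc 15, .ofNat 268, .ofNat 42⟩, .ofNat 576, .ofNat 149, .ofNat 0, .ofNat 149, .ofNat 2306, .ofNat 0, .ofNat 278, .negSucc 52, .negSucc 45, .ofNat 0, .ofNat 128, .ofNat 3, .ofNat 0, .ofNat 0, .ofNat 904, .ofNat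 2998, .ofNat 0, .ofNat 0, .ofNat 0, .ofNat 0, .ofNat 0, .ofNat 0, .ofNat 0, .ofNat 0, .ofNat 0, .ofNat 3157048369497097894698295964267147939545088, .ofNat 0, .ofNat 0, .ofNat 0, .ofNat 4816083308612674541084301398939197297917952, .ofNat 88609318246562484419258681352541205168128, .ofNat 0⟩)
    (by decide +kernel)
theorem L00624 : Good (Phi V5.P V5.D (-1) (-1)) ⟨2, 1, 2, 0, 3, 5, 2, 2, 4, 5⟩ :=
  leafX_sound T5.ok_mm T5.Ymm.bz_eq (w := 212) (c := ⟨⟨.negSucc 1260, .negSucc 215, .ofNat 3, .ofNat 51, .ofNat 80, .ofNat 126⟩, ⟨.negSucc 101, .ofNat 113, .ofNat 291, .negSucc 4, .ofNat 7, .negSucc 12⟩, ⟨.ofNat 1016, .negSucc 143, .ofNat 17, .negSucc 177, .negSucc 144, .negSucc 11⟩, ⟨.negSucc 3481, .ofNat 156, .negSucc 53, .ofNat 130, .ofNat 252, .ofNat 325⟩, ⟨.negSucc 465, .negSucc 3, .ofNat 8, .ofNat 19, .ofNat 432, .ofNat 118⟩, .ofNat 365, .ofNat 33, .ofNat 0, .ofNat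 33, .ofNat 727, .ofNat 0, .ofNat 273, .negSucc 24, .negSucc 16, .ofNat 0, .ofNat 128, .negSucc 3, .ofNat 0, .ofNat 0, .ofNat 797, .ofNat 1412, .ofNat 0, .ofNat 0, .ofNat 0, .ofNat 0, .ofNat 0, .ofNat 0, .ofNat 0, .ofNat 0, .ofNat 0, .ofNat 1534286648514929939128628923725222474940416, .ofNat 0, .ofNat 0, .ofNat 0, .ofNat 6150186998617628373681134292175167063851008, .ofNat 0, .ofNat 0⟩)
    (by decide +kernel)
theorem L00625 : Good (Phi V5.P V5.D (-1) (-1)) ⟨2, 1, 2, 0, 2, 3, 2, 2, 4, 5⟩ :=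
  leafX_sound T5.ok_mm T5.Ymm.bz_eq (w := 198) (c := ⟨⟨.negSucc 1217, .negSucc 172, .negSucc 3, .ofNat 181, .ofNat 95, .ofNat 128⟩, ⟨.negSucc 96, .ofNat 97, .ofNat 275, .ofNat 0, .ofNat 16, .ofNat 4⟩, ⟨.ofNat 881, .negSucc 260, .ofNat 11, .negSucc 331, .negSucc 159, .negSucc 7⟩, ⟨.negSucc 3352, .ofNat 228, .negSucc 89, .ofNat 464, .ofNat 265, .ofNat 342⟩, ⟨.negSucc 465, .negSucc 29, .ofNat 40, .ofNat 246, .ofNat 546, .ofNat 189⟩, .ofNat 365, .ofNat 31, .ofNat 0, .ofNat 31, .ofNat 727, .ofNat 0, .ofNat 152, .negSucc 25, .negSucc 3, .ofNat 0, .ofNat 128, .negSucc 3, .ofNat 0, .ofNat 0, .ofNat 493, .ofNat 1730, .ofNat 0, .ofNat 0, .ofNat 0, .ofNat 0, .ofNat 0, .ofNat 531150839882851226708382878455616765952, .ofNat 0, .ofNat 0, .ofNat 0, .ofNat 773815776186469008435587777729522565120, .ofNat 0, .ofNat 0, .ofNat 0, .ofNat 1220474347022770777448778378123151409152,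 .ofNat 0, .ofNat 0⟩)
    (by decide +kernel)
theorem L00626 : Good (Phi V5.P V5.D (-1) (-1)) ⟨2, 1, 2, 0, 1, 1, 2, 3, 4, 4⟩ :=
  leafX_sound T5.ok_mm T5.Ymm.bz_eq (w := 183) (c := ⟨⟨.negSucc 1211, .negSucc 170, .negSucc 15, .negSucc 102, .ofNat 116, .ofNat 58⟩, ⟨.negSucc 75, .ofNat 70, .ofNat 276, .ofNat 43, .ofNat 32, .negSucc 0⟩, ⟨.ofNat 849, .negSucc 142, .ofNat 98, .negSucc 201, .negSucc 159, .ofNat 35⟩, ⟨.negSucc 3374, .ofNat 257, .negSucc 41, .negSucc 206, .ofNat 350, .ofNat 154⟩, ⟨.negSucc 273, .ofNat 110, .negSucc 4, .ofNat 467, .ofNat 616, .ofNat 111⟩, .ofNat 520, .ofNat 87, .ofNat 0, .ofNat 87, .ofNat 1616, .ofNat 0, .ofNat 379, .negSucc 37, .negSucc 93, .ofNat 0, .ofNat 128, .ofNat 5, .ofNat 0, .ofNat 0, .ofNat 882, .ofNat 540, .ofNat 0, .ofNat 0, .ofNat 0, .ofNat 0, .ofNat 0, .ofNat 259627002069010150726236923167244288, .ofNat 861892020279136281345540329832448,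 .ofNat 0, .ofNat 0, .ofNat 161523674848653171360553963723161600, .ofNat 0, .ofNat 0, .ofNat 0, .ofNat 452414938392320561961869762027847680, .ofNat 0, .ofNat 0⟩)
    (by decide +kernel)
theorem L00627 : Good (Phi V5.P V5.D (-1) (-1)) ⟨2, 1, 2, 0, 1, 1, 2, 3, 4, 5⟩ :=
  leafX_sound T5.ok_mm T5.Ymm.bz_eq (w := 182) (c := ⟨⟨.negSucc 1148, .negSucc 155, .negSucc 11, .negSucc 81, .ofNat 75, .ofNat 73⟩, ⟨.negSucc 69, .ofNat 73, .ofNat 251, .ofNat 72, .ofNat 63, .ofNat 4⟩, ⟨.ofNat 897, .negSucc 225, .ofNat 117, .negSucc 260, .negSucc 215, .ofNat 37⟩, ⟨.negSucc 3192, .ofNat 272, .negSucc 35, .negSucc 143, .ofNat 274, .ofNat 183⟩, ⟨.negSucc 113, .ofNat 139, .negSucc 37, .ofNat 365, .ofNat 489, .ofNat 74⟩, .ofNat 516, .ofNat 100, .ofNat 0, .ofNat 100, .ofNat 1671, .ofNat 0, .ofNat 170, .negSucc 42, .negSucc 35, .ofNat 0, .ofNat 128, .negSucc 2, .ofNat 0, .ofNat 0, .ofNat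 739, .ofNat 403, .ofNat 0, .ofNat 88788107455306758178416923508736, .ofNat 0, .ofNat 0, .ofNat 0, .ofNat 119634399825263150667267159630020608, .ofNat 212111895617101506943089968676864, .ofNat 0, .ofNat 0, .ofNat 161250429466302638534562950556942336, .ofNat 0, .ofNat 0, .ofNat 0, .ofNat 446310974014557391211117532426534912, .ofNat 0, .ofNat 0⟩)
    (by decide +kernel)
theorem L00628 : Good (Phi V5.P V5.D (-1) (-1)) ⟨2, 1, 2, 0, 2, 2, 2, 2, 3, 3⟩ :=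
  leafX_sound T5.ok_mm T5.Ymm.bz_eq (w := 193) (c := ⟨⟨.negSucc 1174, .negSucc 207, .ofNat 18, .ofNat 61, .ofNat 71, .ofNat 200⟩, ⟨.negSucc 80, .ofNat 87, .ofNat 264, .negSucc 11, .ofNat 7, .negSucc 19⟩, ⟨.ofNat 1183, .negSucc 85, .ofNat 31, .negSucc 307, .negSucc 221, .ofNat 252⟩, ⟨.negSucc 3228, .ofNat 113, .negSucc 13, .ofNat 147, .ofNat 214, .ofNat 501⟩, ⟨.negSucc 311, .ofNat 25, .negSucc 5, .negSucc 38, .ofNat 269, .ofNat 78⟩, .ofNat 367, .ofNat 30, .ofNat 0, .ofNat 30, .ofNat 721, .ofNat 0, .ofNat 337, .negSucc 19, .negSucc 13, .ofNat 0, .ofNat 128, .negSucc 21, .ofNat 0, .ofNat 0, .ofNat 1958, .ofNat 1356, .ofNat 0, .ofNat 0, .ofNat 0, .ofNat 0, .ofNat 0, .ofNat 221461690924358314136854514620002467840, .ofNat 0, .ofNat 0, .ofNat 0, .ofNat 95374963376621073128925669084570320896, .ofNat 0, .ofNat 0, .ofNat 0, .ofNat 1334388474025363453313804358782025728000,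 .ofNat 0, .ofNat 0⟩)
    (by decide +kernel)
theorem L00629 : Good (Phi V5.P V5.D (-1) (-1)) ⟨2, 1, 2, 0, 2, 2, 2, 3, 3, 3⟩ :=
  leafX_sound T5.ok_mm T5.Ymm.bz_eq (w := 194) (c := ⟨⟨.negSucc 1078, .negSucc 150, .negSucc 14, .negSucc 23, .ofNat 68, .ofNat 127⟩, ⟨.negSucc 44, .ofNat 62, .ofNat 234, .ofNat 9, .negSucc 1, .negSucc 6⟩, ⟨.ofNat 910, .negSucc 247, .ofNat 178, .negSucc 49, .negSucc 273, .ofNat 116⟩, ⟨.negSucc 3003, .ofNat 264, .negSucc 33, .negSucc 5, .ofNat 273, .ofNat 400⟩, ⟨.negSucc 39, .ofNat 142, .negSucc 38, .ofNat 182, .ofNat 528, .ofNat 129⟩, .ofNat 183, .ofNat 6, .ofNat 0, .ofNat 6, .ofNat 243, .ofNat 0, .ofNat 180, .negSucc 9, .negSucc 30, .ofNat 0, .ofNat 128, .negSucc 32, .ofNat 0, .ofNat 0, .ofNat 574, .ofNat 3074, .ofNat 0, .ofNat 0, .ofNat 0, .ofNat 0, .ofNat 0, .ofNat 156995619118898156420617938751572672512, .ofNat 71492888160228003858131340671057920,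 .ofNat 0, .ofNat 0, .ofNat 254666325730558193998367797131484332032, .ofNat 0, .ofNat 0, .ofNat 0, .ofNat 408617341829408474501269649136801546240, .ofNat 0, .ofNat 0⟩)
    (by decide +kernel)
theorem L00630 : Good (Phi V5.P V5.D (-1) (-1)) ⟨2, 1, 2, 0, 2, 3, 1, 1, 3, 3⟩ :=
  out_sound (S := T5.ds_mm) T5.ok_mm (w := 26) (j := 2) (by decide +kernel)
theorem L00631 : Good (Phi V5.P V5.D (-1) (-1)) ⟨2, 1, 2, 0, 4, 8, 3, 4, 4, 8⟩ :=
  out_sound (S := T5.ds_mm) T5.ok_mm (w := 29) (j := 1) (by decide +kernel)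
theorem L00632 : Good (Phi V5.P V5.D (-1) (-1)) ⟨2, 1, 2, 0, 4, 8, 3, 5, 4, 8⟩ :=
  out_sound (S := T5.ds_mm) T5.ok_mm (w := 36) (j := 2) (by decide +kernel)
theorem L00633 : Good (Phi V5.P V5.D (-1) (-1)) ⟨2, 1, 2, 0, 4, 8, 2, 2, 4, 9⟩ :=
  out_sound (S := T5.ds_mm) T5.ok_mm (w := 28) (j := 1) (by decide +kernel)
theorem L00634 : Good (Phi V5.P V5.D (-1) (-1)) ⟨2, 1, 2, 0, 4, 9, 2, 2, 3, 4⟩ :=
  out_sound (S := T5.ds_mm) T5.ok_mm (w := 32) (j := 2) (by decide +kernel)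
theorem L00635 : Good (Phi V5.P V5.D (-1) (-1)) ⟨2, 1, 2, 0, 3, 4, 2, 3, 3, 4⟩ :=
  out_sound (S := T5.ds_mm) T5.ok_mm (w := 30) (j := 2) (by decide +kernel)
theorem L00636 : Good (Phi V5.P V5.D (-1) (-1)) ⟨2, 1, 2, 0, 3, 4, 1, 1, 3, 5⟩ :=
  out_sound (S := T5.ds_mm) T5.ok_mm (w := 28) (j := 2) (by decide +kernel)
theorem L00637 : Good (Phi V5.P V5.D (-1) (-1)) ⟨2, 1, 2, 0, 3, 5, 1, 1, 2, 2⟩ :=
  out_sound (S := T5.ds_mm) T5.ok_mm (w := 26) (j := 2) (by decide +kernel)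
theorem L00638 : Good (Phi V5.P V5.D (-1) (-1)) ⟨2, 1, 2, 0, 2, 2, 1, 1, 2, 3⟩ :=
  out_sound (S := T5.ds_mm) T5.ok_mm (w := 24) (j := 2) (by decide +kernel)
theorem L00639 : Good (Phi V5.P V5.D (-1) (-1)) ⟨2, 1, 2, 0, 2, 3, 1, 1, 1, 1⟩ :=
  out_sound (S := T5.ds_mm) T5.ok_mm (w := 22) (j := 2) (by decide +kernel)
theorem L00640 : Good (Phi V5.P V5.D (-1) (-1)) ⟨2, 1, 3, 2, 2, 2, 2, 2, 3, 0⟩ :=
  leafX_sound T5.ok_mm T5.Ymm.bz_eq (w := 195) (c := ⟨⟨.ofNat 571, .ofNat 91, .ofNat 271, .ofNat 172, .negSucc 239, .negSucc 1645⟩, ⟨.negSucc 162, .ofNat 69, .ofNat 58, .negSucc 47, .ofNat 47, .ofNat 320⟩, ⟨.negSucc 645, .negSucc 75, .ofNat 9, .ofNat 34, .ofNat 233, .ofNat 996⟩, ⟨.ofNat 1502, .ofNat 175, .ofNat 534, .ofNat 534, .negSucc 708, .negSucc 4442⟩, ⟨.negSucc 158, .negSucc 333, .ofNat 204, .ofNat 102, .negSucc 46, .negSucc 514⟩, .ofNat 386, .ofNat 83, .ofNat 0,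 .ofNat 83, .ofNat 736, .ofNat 0, .ofNat 714, .negSucc 45, .negSucc 433, .ofNat 0, .ofNat 128, .ofNat 104, .ofNat 0, .ofNat 0, .ofNat 772, .ofNat 684, .ofNat 0, .ofNat 0, .ofNat 3504986996021396341837571735683072, .ofNat 0, .ofNat 0, .ofNat 0, .ofNat 0, .ofNat 0, .ofNat 0, .ofNat 0, .ofNat 51026384507161293595346161807392768, .ofNat 0, .ofNat 0, .ofNat 0, .ofNat 0, .ofNat 0⟩)
    (by decide +kernel)
theorem L00641 : Good (Phi V5.P V5.D (-1) (-1)) ⟨2, 1, 3, 2, 2, 2, 2, 3, 3, 0⟩ :=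
  leafX_sound T5.ok_mm T5.Ymm.bz_eq (w := 194) (c := ⟨⟨.ofNat 7, .negSucc 226, .ofNat 12, .negSucc 84, .negSucc 128, .negSucc 853⟩, ⟨.negSucc 53, .ofNat 74, .ofNat 76, .ofNat 17, .ofNat 45, .ofNat 181⟩, ⟨.negSucc 158, .ofNat 68, .ofNat 68, .ofNat 176, .ofNat 246, .ofNat 476⟩, ⟨.negSucc 178, .negSucc 313, .ofNat 58, .negSucc 209, .negSucc 300, .negSucc 2196⟩, ⟨.negSucc 672, .negSucc 180, .ofNat 160, .ofNat 49, .ofNat 376, .ofNat 151⟩, .ofNat 594, .ofNat 440, .ofNat 0, .ofNat 440, .ofNat 2350, .ofNat 0, .ofNat 345, .negSucc 127, .negSucc 330, .ofNat 0, .ofNat 93, .ofNat 77, .ofNat 0, .ofNat 0, .ofNat 578, .ofNat 552, .ofNat 0, .ofNat 0, .ofNat 0, .ofNat 0, .ofNat 0, .ofNat 0, .ofNat 0, .ofNat 0, .ofNat 0, .ofNat 7294332845932360980525352304576036864, .ofNat 8524122367098800457624823938416640, .ofNat 0, .ofNat 0, .ofNat 0, .ofNat 0, .ofNat 0⟩)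
    (by decide +kernel)
theorem L00642 : Good (Phi V5.P V5.D (-1) (-1)) ⟨2, 1, 3, 2, 2, 3, 2, 2, 4, 0⟩ :=
  leafX_sound T5.ok_mm T5.Ymm.bz_eq (w := 200) (c := ⟨⟨.ofNat 969, .ofNat 311, .ofNat 112, .negSucc 414, .negSucc 630, .negSucc 775⟩, ⟨.negSucc 162, .negSucc 51, .negSucc 29, .ofNat 99, .ofNat 97, .ofNat 106⟩, ⟨.negSucc 470, .negSucc 172, .negSucc 58, .ofNat 649, .ofNat 420, .ofNat 95⟩, ⟨.ofNat 2650, .ofNat 761, .ofNat 336, .negSucc 1027, .negSucc 1796, .negSucc 2149⟩, ⟨.ofNat 766, .negSucc 69, .ofNat 56, .ofNat 247, .negSucc 772, .negSucc 916⟩, .ofNat 744, .ofNat 652, .ofNat 0, .ofNat 652, .ofNat 3547, .ofNat 0, .ofNat 362, .negSucc 127, .negSucc 188, .ofNat 0, .ofNat 86, .ofNat 44, .ofNat 0, .ofNat 0, .ofNat 365, .ofNat 380, .ofNat 0, .ofNat 0, .ofNat 0, .ofNat 0, .ofNat 0, .ofNat 0, .ofNat 0, .ofNat 0, .ofNat 0, .ofNat 0, .ofNat 14417954632788796641944693779843776512,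 .ofNat 0, .ofNat 0, .ofNat 0, .ofNat 0, .ofNat 0⟩)
    (by decide +kernel)
theorem L00643 : Good (Phi V5.P V5.D (-1) (-1)) ⟨2, 1, 3, 2, 2, 3, 2, 3, 4, 0⟩ :=
  leafX_sound T5.ok_mm T5.Ymm.bz_eq (w := 199) (c := ⟨⟨.ofNat 216, .negSucc 41, .ofNat 40, .negSucc 361, .negSucc 548, .negSucc 441⟩, ⟨.negSucc 61, .ofNat 4, .ofNat 57, .ofNat 61, .ofNat 121, .ofNat 83⟩, ⟨.ofNat 57, .negSucc 45, .ofNat 135, .ofNat 328, .ofNat 357, .ofNat 55⟩, ⟨.ofNat 452, .ofNat 97, .ofNat 158, .negSucc 975, .negSucc 1406, .negSucc 1172⟩, ⟨.negSucc 198, .negSucc 359, .ofNat 286, .negSucc 196, .ofNat 201, .negSucc 122⟩, .ofNat 755, .ofNat 687, .ofNat 0, .ofNat 687, .ofNat 3607, .ofNat 0, .ofNat 241, .negSucc 127, .negSucc 165, .ofNat 0, .ofNat 84, .ofNat 39, .ofNat 0, .ofNat 0, .ofNat 299, .ofNat 576, .ofNat 0, .ofNat 8103788804206620500385542458272907264, .ofNat 178776593977557583169226219301371904,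 .ofNat 0, .ofNat 0, .ofNat 0, .ofNat 9915045021558974481236878983769882624, .ofNat 0, .ofNat 0, .ofNat 0, .ofNat 11750776574494344353750370747693400064, .ofNat 0, .ofNat 0, .ofNat 0, .ofNat 0, .ofNat 0⟩)
    (by decide +kernel)
theorem L00644 : Good (Phi V5.P V5.D (-1) (-1)) ⟨2, 1, 3, 2, 2, 3, 1, 1, 4, 1⟩ :=
  leafX_sound T5.ok_mm T5.Ymm.bz_eq (w := 195) (c := ⟨⟨.ofNat 2, .negSucc 230, .ofNat 39, .negSucc 193, .negSucc 552, .negSucc 754⟩, ⟨.negSucc 42, .ofNat 50, .ofNat 95, .ofNat 45, .ofNat 137, .ofNat 141⟩, ⟨.negSucc 155, .negSucc 50, .ofNat 16, .ofNat 230, .ofNat 613, .ofNat 392⟩, ⟨.negSucc 177, .negSucc 362, .ofNat 25, .negSucc 433, .negSucc 1323, .negSucc 2016⟩, ⟨.negSucc 516, .negSucc 516, .negSucc 87, .ofNat 239, .ofNat 650, .negSucc 131⟩, .ofNat 747, .ofNat 657, .ofNat 0, .ofNat 657, .ofNat 3533, .ofNat 0, .ofNat 226, .negSucc 127, .negSucc 109, .ofNat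 0, .ofNat 86, .ofNat 24, .ofNat 0, .ofNat 0, .ofNat 224, .ofNat 397, .ofNat 0, .ofNat 0, .ofNat 13429208741795196856188170030546944, .ofNat 0, .ofNat 0, .ofNat 0, .ofNat 498676790952418906292315561924755456, .ofNat 0, .ofNat 0, .ofNat 61656420336329513995554637799575519232, .ofNat 303956018578871031109414169299910656, .ofNat 0, .ofNat 0, .ofNat 3842857337621923785748033841699749888, .ofNat 390736892144918509103807817322594304, .ofNat 0⟩)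
    (by decide +kernel)
theorem L00645 : Good (Phi V5.P V5.D (-1) (-1)) ⟨2, 1, 3, 3, 1, 1, 1, 1, 3, 0⟩ :=
  out_sound (S := T5.ds_mm) T5.ok_mm (w := 39) (j := 3) (by decide +kernel)
theorem L00646 : Good (Phi V5.P V5.D (-1) (-1)) ⟨2, 1, 2, 1, 1, 1, 2, 2, 4, 2⟩ :=
  leafX_sound T5.ok_mm T5.Ymm.bz_eq (w := 182) (c := ⟨⟨.negSucc 1026, .negSucc 289, .ofNat 59, .negSucc 51, .ofNat 44, .negSucc 236⟩, ⟨.ofNat 134, .ofNat 93, .ofNat 291, .ofNat 16, .ofNat 4, .ofNat 54⟩, ⟨.ofNat 412, .ofNat 92, .ofNat 3, .ofNat 16, .ofNat 124, .ofNat 245⟩, ⟨.negSucc 2996, .negSucc 170, .ofNat 100, .negSucc 113, .ofNat 169, .negSucc 595⟩, ⟨.negSucc 721, .negSucc 229, .ofNat 45, .ofNat 26, .ofNat 281, .ofNat 148⟩, .ofNat 578, .ofNat 284, .ofNat 0, .ofNat 284, .ofNat 1787, .ofNat 0, .ofNat 170, .negSucc 116, .negSucc 118, .ofNat 0, .ofNat 128, .ofNat 27, .ofNat 0, .ofNat 0, .ofNat 376, .ofNat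 527, .ofNat 0, .ofNat 0, .ofNat 11653270017505817850192259448832, .ofNat 0, .ofNat 0, .ofNat 0, .ofNat 239661438778194320766017581613056, .ofNat 0, .ofNat 0, .ofNat 0, .ofNat 0, .ofNat 0, .ofNat 0, .ofNat 0, .ofNat 0, .ofNat 0⟩)
    (by decide +kernel)
theorem L00647 : Good (Phi V5.P V5.D (-1) (-1)) ⟨2, 1, 2, 1, 2, 2, 2, 2, 4, 3⟩ :=
  leafX_sound T5.ok_mm T5.Ymm.bz_eq (w := 198) (c := ⟨⟨.negSucc 1302, .negSucc 317, .ofNat 26, .negSucc 24, .ofNat 96, .ofNat 9⟩, ⟨.ofNat 195, .ofNat 107, .ofNat 327, .ofNat 3, .negSucc 6, .ofNat 3⟩, ⟨.ofNat 813, .ofNat 105, .ofNat 42, .negSucc 147, .ofNat 12, .ofNat 72⟩, ⟨.negSucc 3716, .negSucc 96, .ofNat 23, .negSucc 84, .ofNat 313, .ofNat 41⟩, ⟨.negSucc 640, .ofNat 117, .ofNat 100, .negSucc 74, .ofNat 312, .ofNat 130⟩, .ofNat 755, .ofNat 693, .ofNat 0, .ofNat 693, .ofNat 3647, .ofNat 0, .ofNat 152, .negSucc 127, .negSucc 100,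 .ofNat 0, .ofNat 93, .ofNat 24, .ofNat 0, .ofNat 0, .ofNat 528, .ofNat 1717, .ofNat 0, .ofNat 0, .ofNat 0, .ofNat 0, .ofNat 0, .ofNat 0, .ofNat 10870975780022331496317579985229447168, .ofNat 0, .ofNat 0, .ofNat 0, .ofNat 0, .ofNat 0, .ofNat 0, .ofNat 0, .ofNat 0, .ofNat 0⟩)
    (by decide +kernel)
theorem L00648 : Good (Phi V5.P V5.D (-1) (-1)) ⟨3, 2, 3, 2, 2, 3, 2, 2, 5, 6⟩ :=
  leafX_sound T5.ok_mm T5.Ymm.bz_eq (w := 209) (c := ⟨⟨.negSucc 1334, .negSucc 70, .ofNat 28, .ofNat 44, .ofNat 32, .ofNat 10⟩, ⟨.ofNat 201, .ofNat 28, .ofNat 161, .ofNat 8, .ofNat 13, .ofNat 2⟩, ⟨.ofNat 665, .negSucc 50, .ofNat 10, .ofNat 59, .ofNat 109, .ofNat 19⟩, ⟨.negSucc 3830, .ofNat 142, .ofNat 85, .ofNat 196, .ofNat 192, .ofNat 45⟩, ⟨.negSucc 789, .negSucc 69, .ofNat 187, .ofNat 383, .ofNat 503, .ofNat 125⟩, .ofNat 580, .ofNat 283, .ofNat 0, .ofNat 283, .ofNat 1764, .ofNat 0, .ofNat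 138, .negSucc 107, .negSucc 74, .ofNat 0, .ofNat 128, .ofNat 12, .ofNat 0, .ofNat 0, .ofNat 431, .ofNat 1035, .ofNat 0, .ofNat 0, .ofNat 0, .ofNat 0, .ofNat 0, .ofNat 64496854871782413480623846744921319931904, .ofNat 17310582743332926031860936123644641280, .ofNat 0, .ofNat 0, .ofNat 0, .ofNat 0, .ofNat 0, .ofNat 0, .ofNat 154512284084766453391597435149467196063744, .ofNat 165758708074142877860474038420838023168, .ofNat 0⟩)
    (by decide +kernel)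
theorem L00649 : Good (Phi V5.P V5.D (-1) (-1)) ⟨3, 2, 3, 2, 2, 3, 2, 2, 5, 7⟩ :=
  leafX_sound T5.ok_mm T5.Ymm.bz_eq (w := 209) (c := ⟨⟨.negSucc 1354, .negSucc 49, .ofNat 13, .ofNat 89, .ofNat 27, .ofNat 44⟩, ⟨.ofNat 211, .ofNat 14, .ofNat 156, .ofNat 1, .ofNat 19, .negSucc 1⟩, ⟨.ofNat 717, .negSucc 104, .ofNat 49, .ofNat 39, .ofNat 97, .ofNat 16⟩, ⟨.negSucc 3891, .ofNat 190, .ofNat 43, .ofNat 348, .ofNat 207, .ofNat 140⟩, ⟨.negSucc 763, .negSucc 125, .ofNat 101, .ofNat 532, .ofNat 647, .ofNat 140⟩, .ofNat 580, .ofNat 290, .ofNat 0, .ofNat 290, .ofNat 1794, .ofNat 0, .ofNat 152, .negSucc 103, .negSucc 34, .ofNat 0, .ofNat 128, .ofNat 0, .ofNat 0, .ofNat 0, .ofNat 491, .ofNat 1096, .ofNat 0, .ofNat 0, .ofNat 0, .ofNat 0, .ofNat 0, .ofNat 101527929047974723885439887677850086539264, .ofNat 0, .ofNat 0, .ofNat 0, .ofNat 336382938606781888156585076248679278444544,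 .ofNat 0, .ofNat 0, .ofNat 0, .ofNat 343652905399778495731904714383830546382848, .ofNat 193964095121857724907873296958506401792, .ofNat 0⟩)
    (by decide +kernel)
theorem L00650 : Good (Phi V5.P V5.D (-1) (-1)) ⟨3, 3, 3, 2, 2, 3, 2, 2, 4, 3⟩ :=
  out_sound (S := T5.ds_mm) T5.ok_mm (w := 45) (j := 3) (by decide +kernel)
theorem L00651 : Good (Phi V5.P V5.D (-1) (-1)) ⟨2, 1, 3, 3, 2, 3, 2, 2, 4, 3⟩ :=
  out_sound (S := T5.ds_mm) T5.ok_mm (w := 39) (j := 3) (by decide +kernel)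
theorem L00652 : Good (Phi V5.P V5.D (-1) (-1)) ⟨3, 2, 2, 1, 1, 1, 2, 3, 4, 2⟩ :=
  leafX_sound T5.ok_mm T5.Ymm.bz_eq (w := 186) (c := ⟨⟨.negSucc 1007, .negSucc 67, .ofNat 29, .negSucc 199, .ofNat 73, .negSucc 184⟩, ⟨.ofNat 146, .ofNat 15, .ofNat 262, .ofNat 65, .ofNat 15, .ofNat 49⟩, ⟨.ofNat 578, .negSucc 86, .ofNat 64, .ofNat 163, .ofNat 76, .ofNat 160⟩, ⟨.negSucc 2899, .ofNat 125, .ofNat 145, .negSucc 465, .ofNat 327, .negSucc 478⟩, ⟨.negSucc 609, .ofNat 73, .ofNat 266, .ofNat 361, .ofNat 688, .ofNat 128⟩, .ofNat 758, .ofNat 680, .ofNat 0, .ofNat 680, .ofNat 3537, .ofNat 0, .ofNat 144, .negSucc 127, .negSucc 83, .ofNat 0, .ofNat 92, .ofNat 18, .ofNat 0, .ofNat 0, .ofNat 286, .ofNat 312, .ofNat 0, .ofNat 0, .ofNat 0, .ofNat 0, .ofNat 0, .ofNat 113819124948923336193472803224158208, .ofNat 19695074869355596368256587268096, .ofNat 0, .ofNat 0, .ofNat 527701984913865701506622914260107264,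 .ofNat 45059998884085588001760221331456, .ofNat 0, .ofNat 0, .ofNat 276771284089813531906906339198107648, .ofNat 45177561589007860363234818129920, .ofNat 0⟩)
    (by decide +kernel)
theorem L00653 : Good (Phi V5.P V5.D (-1) (-1)) ⟨3, 3, 2, 1, 1, 1, 2, 3, 4, 2⟩ :=
  out_sound (S := T5.ds_mm) T5.ok_mm (w := 43) (j := 3) (by decide +kernel)
theorem L00654 : Good (Phi V5.P V5.D (-1) (-1)) ⟨2, 1, 2, 1, 2, 2, 2, 3, 4, 3⟩ :=
  leafX_sound T5.ok_mm T5.Ymm.bz_eq (w := 197) (c := ⟨⟨.negSucc 1198, .negSucc 132, .negSucc 45, .negSucc 108, .ofNat 93, .negSucc 9⟩, ⟨.ofNat 201, .ofNat 21, .ofNat 289, .ofNat 32, .ofNat 11, .ofNat 8⟩, ⟨.ofNat 807, .negSucc 182, .ofNat 155, .negSucc 0, .negSucc 16, .ofNat 72⟩, ⟨.negSucc 3400, .ofNat 306, .negSucc 125, .negSucc 245, .ofNat 401, .ofNat 3⟩, ⟨.negSucc 461, .ofNat 80, .ofNat 28, .ofNat 229, .ofNat 745, .ofNat 172⟩, .ofNat 582, .ofNat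 291, .ofNat 0, .ofNat 291, .ofNat 1778, .ofNat 0, .ofNat 363, .negSucc 112, .negSucc 138, .ofNat 0, .ofNat 128, .ofNat 27, .ofNat 0, .ofNat 0, .ofNat 740, .ofNat 599, .ofNat 0, .ofNat 0, .ofNat 58980264567292326023533290038755328, .ofNat 0, .ofNat 0, .ofNat 0, .ofNat 0, .ofNat 0, .ofNat 0, .ofNat 410681845629933083827379783797493989376, .ofNat 8407143764678344312439317345482047488, .ofNat 0, .ofNat 0, .ofNat 568250529594160423665847291589458657280, .ofNat 10610760864549803532461764043910152192, .ofNat 0⟩)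
    (by decide +kernel)
theorem L00655 : Good (Phi V5.P V5.D (-1) (-1)) ⟨3, 2, 2, 1, 2, 3, 3, 6, 4, 3⟩ :=
  leafX_sound T5.ok_mm T5.Ymm.bz_eq (w := 204) (c := ⟨⟨.negSucc 1313, .negSucc 51, .negSucc 42, .ofNat 43, .negSucc 14, .ofNat 26⟩, ⟨.ofNat 234, .ofNat 0, .ofNat 300, .ofNat 15, .ofNat 21, .ofNat 6⟩, ⟨.ofNat 831, .negSucc 134, .ofNat 141, .ofNat 32, .ofNat 73, .ofNat 15⟩, ⟨.negSucc 3687, .ofNat 204, .negSucc 56, .ofNat 254, .ofNat 71, .ofNat 130⟩, ⟨.negSucc 296, .negSucc 33, .ofNat 81, .ofNat 704, .ofNat 553, .ofNat 336⟩, .ofNat 579, .ofNat 289, .ofNat 0, .ofNat 289, .ofNat 1795, .ofNat 0, .ofNat 213, .negSucc 115, .negSucc 38, .ofNat 0, .ofNat 128, .ofNat 3, .ofNat 0, .ofNat 0, .ofNat 350, .ofNat 187, .ofNat 0, .ofNat 0, .ofNat 0, .ofNat 0, .ofNat 0, .ofNat 0, .ofNat 0, .ofNat 0, .ofNat 0, .ofNat 15915873249560585231955917428516529897472, .ofNat 0, .ofNat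 0, .ofNat 0, .ofNat 18747150791645782417386306155851164942336, .ofNat 2484520283074516167069503540485423104, .ofNat 0⟩)
    (by decide +kernel)
theorem L00656 : Good (Phi V5.P V5.D (-1) (-1)) ⟨3, 3, 2, 1, 2, 3, 3, 6, 4, 3⟩ :=
  out_sound (S := T5.ds_mm) T5.ok_mm (w := 43) (j := 3) (by decide +kernel)
theorem L00657 : Good (Phi V5.P V5.D (-1) (-1)) ⟨2, 1, 2, 1, 2, 3, 3, 7, 4, 3⟩ :=
  leafX_sound T5.ok_mm T5.Ymm.bz_eq (w := 203) (c := ⟨⟨.negSucc 1327, .negSucc 67, .negSucc 66, .negSucc 111, .negSucc 116, .negSucc 81⟩, ⟨.ofNat 263, .negSucc 32, .ofNat 303, .ofNat 90, .ofNat 132, .ofNat 70⟩, ⟨.ofNat 927, .negSucc 338, .ofNat 151, .ofNat 94, .ofNat 152, .ofNat 67⟩, ⟨.negSucc 3610, .ofNat 502, .negSucc 101, .negSucc 77, .negSucc 57, .negSucc 77⟩, ⟨.ofNat 321, .negSucc 47, .negSucc 31, .ofNat 815, .ofNat 610, .ofNat 407⟩, .ofNat 385, .ofNat 84, .ofNat 0, .ofNat 84,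 .ofNat 741, .ofNat 0, .ofNat 128, .negSucc 76, .negSucc 72, .ofNat 0, .ofNat 167, .ofNat 9, .ofNat 0, .ofNat 0, .ofNat 242, .ofNat 2302, .ofNat 0, .ofNat 0, .ofNat 0, .ofNat 0, .ofNat 0, .ofNat 3683320440012534845598549735337367699456, .ofNat 41712599895651057482554645329230168064, .ofNat 0, .ofNat 0, .ofNat 5874913641360291177675954960372538015744, .ofNat 0, .ofNat 0, .ofNat 0, .ofNat 5316145986631002112675829960427912036352, .ofNat 0, .ofNat 0⟩)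
    (by decide +kernel)
theorem L00658 : Good (Phi V5.P V5.D (-1) (-1)) ⟨3, 2, 2, 1, 2, 2, 2, 2, 4, 4⟩ :=
  leafX_sound T5.ok_mm T5.Ymm.bz_eq (w := 201) (c := ⟨⟨.negSucc 1328, .negSucc 105, .negSucc 0, .ofNat 12, .ofNat 81, .ofNat 87⟩, ⟨.ofNat 217, .ofNat 30, .ofNat 301, .negSucc 1, .negSucc 4, .negSucc 13⟩, ⟨.ofNat 1021, .negSucc 50, .negSucc 23, .negSucc 213, .negSucc 39, .ofNat 49⟩, ⟨.negSucc 3740, .ofNat 51, .negSucc 59, .ofNat 24, .ofNat 272, .ofNat 244⟩, ⟨.negSucc 468, .negSucc 17, .negSucc 14, .negSucc 9, .ofNat 317, .ofNat 80⟩, .ofNat 575, .ofNat 288, .ofNat 0, .ofNat 288, .ofNat 1830, .ofNat 0, .ofNat 150, .negSucc 108, .negSucc 46, .ofNat 0, .ofNat 128, .ofNat 9, .ofNat 0, .ofNat 0, .ofNat 513, .ofNat 1304, .ofNat 0, .ofNat 0, .ofNat 6322268548413672230458601089531904, .ofNat 0, .ofNat 0, .ofNat 0, .ofNat 0, .ofNat 0, .ofNat 0, .ofNat 0, .ofNat 0, .ofNat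 0, .ofNat 0, .ofNat 5204913198333776899521871389225409052672, .ofNat 2089175398069688058896345024279085056, .ofNat 0⟩)
    (by decide +kernel)
theorem L00659 : Good (Phi V5.P V5.D (-1) (-1)) ⟨3, 3, 2, 1, 2, 2, 2, 2, 4, 4⟩ :=
  out_sound (S := T5.ds_mm) T5.ok_mm (w := 43) (j := 3) (by decide +kernel)
theorem L00660 : Good (Phi V5.P V5.D (-1) (-1)) ⟨2, 1, 2, 1, 3, 6, 2, 2, 4, 4⟩ :=
  leafX_sound T5.ok_mm T5.Ymm.bz_eq (w := 211) (c := ⟨⟨.negSucc 1313, .negSucc 157, .negSucc 23, .ofNat 59, .ofNat 34, .ofNat 104⟩, ⟨.ofNat 209, .ofNat 48, .ofNat 309, .negSucc 2, .ofNat 16, .negSucc 15⟩, ⟨.ofNat 783, .negSucc 178, .ofNat 82, .negSucc 53, .ofNat 55, .ofNat 37⟩, ⟨.negSucc 3730, .ofNat 237, .negSucc 94, .ofNat 189, .ofNat 207, .ofNat 302⟩, ⟨.negSucc 568, .negSucc 124, .ofNat 37, .ofNat 161, .ofNat 574, .ofNat 173⟩, .ofNat 580, .ofNat 288, .ofNat 0, .ofNat 288, .ofNat 1783,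 .ofNat 0, .ofNat 167, .negSucc 102, .negSucc 12, .ofNat 0, .ofNat 128, .negSucc 1, .ofNat 0, .ofNat 0, .ofNat 545, .ofNat 885, .ofNat 0, .ofNat 0, .ofNat 0, .ofNat 0, .ofNat 0, .ofNat 629394834193103169915825297220120522784768, .ofNat 82338356031048022691585137264274947702784, .ofNat 0, .ofNat 0, .ofNat 0, .ofNat 0, .ofNat 0, .ofNat 0, .ofNat 2422897850660391101137595689131651345940480, .ofNat 183852054939731771102427204512280869863424, .ofNat 0⟩)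
    (by decide +kernel)
theorem L00661 : Good (Phi V5.P V5.D (-1) (-1)) ⟨2, 1, 2, 1, 3, 7, 2, 2, 4, 4⟩ :=
  leafX_sound T5.ok_mm T5.Ymm.bz_eq (w := 211) (c := ⟨⟨.negSucc 1265, .negSucc 62, .negSucc 26, .ofNat 53, .ofNat 24, .ofNat 93⟩, ⟨.ofNat 212, .ofNat 13, .ofNat 311, .negSucc 0, .ofNat 22, .negSucc 9⟩, ⟨.ofNat 755, .negSucc 300, .ofNat 79, .ofNat 68, .ofNat 87, .ofNat 26⟩, ⟨.negSucc 3570, .ofNat 440, .negSucc 34, .ofNat 206, .ofNat 211, .ofNat 292⟩, ⟨.negSucc 415, .negSucc 181, .ofNat 242, .ofNat 328, .ofNat 692, .ofNat 252⟩, .ofNat 581, .ofNat 282, .ofNat 0, .ofNat 282, .ofNat 1752, .ofNat 0, .ofNat 188, .negSucc 92, .ofNat 0, .ofNat 0, .ofNat 128, .negSucc 10, .ofNat 0, .ofNat 0, .ofNat 475, .ofNat 699, .ofNat 0, .ofNat 0, .ofNat 0, .ofNat 0, .ofNat 0, .ofNat 1052639744443102031571065685482429426434048, .ofNat 0, .ofNat 0, .ofNat 0, .ofNat 1329465239306253219924479858086678850699264,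 .ofNat 0, .ofNat 0, .ofNat 0, .ofNat 3097675025443651881883887093954747566129152, .ofNat 82870640204225369988183623520761260539904, .ofNat 0⟩)
    (by decide +kernel)
theorem L00662 : Good (Phi V5.P V5.D (-1) (-1)) ⟨3, 2, 2, 1, 3, 4, 2, 2, 4, 5⟩ :=
  leafX_sound T5.ok_mm T5.Ymm.bz_eq (w := 217) (c := ⟨⟨.negSucc 1245, .negSucc 92, .ofNat 17, .ofNat 1, .ofNat 71, .ofNat 95⟩, ⟨.ofNat 206, .ofNat 26, .ofNat 277, .negSucc 0, .negSucc 1, .negSucc 15⟩, ⟨.ofNat 1073, .negSucc 50, .ofNat 60, .negSucc 86, .negSucc 78, .ofNat 108⟩, ⟨.negSucc 3505, .ofNat 79, .negSucc 11, .negSucc 1, .ofNat 239, .ofNat 261⟩, ⟨.negSucc 411, .ofNat 53, .ofNat 40, .negSucc 7, .ofNat 253, .ofNat 54⟩, .ofNat 751, .ofNat 683, .ofNat 0, .ofNat 683, .ofNat 3635, .ofNat 0, .ofNat 128, .negSucc 131, .negSucc 40, .ofNat 0, .ofNat 105, .ofNat 7, .ofNat 0, .ofNat 0, .ofNat 901, .ofNat 3263, .ofNat 0,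 .ofNat 0, .ofNat 0, .ofNat 0, .ofNat 0, .ofNat 5139521719043872539128204042911328856178688, .ofNat 35731432740956951770823723510420031406080, .ofNat 0, .ofNat 0, .ofNat 0, .ofNat 0, .ofNat 0, .ofNat 0, .ofNat 82968025319189936193833594827405032681373696, .ofNat 136861319884875056143404212385657300975616, .ofNat 0⟩)
    (by decide +kernel)
theorem L00663 : Good (Phi V5.P V5.D (-1) (-1)) ⟨3, 2, 2, 1, 3, 5, 2, 2, 4, 5⟩ :=
  leafX_sound T5.ok_mm T5.Ymm.bz_eq (w := 217) (c := ⟨⟨.negSucc 1236, .negSucc 92, .negSucc 5, .ofNat 27, .ofNat 55, .ofNat 106⟩, ⟨.ofNat 201, .ofNat 29, .ofNat 291, .negSucc 3, .ofNat 1, .negSucc 18⟩, ⟨.ofNat 975, .negSucc 106, .ofNat 27, .negSucc 116, .negSucc 23, .ofNat 104⟩, ⟨.negSucc 3498, .ofNat 79, .negSucc 66, .ofNat 82, .ofNat 221, .ofNat 295⟩, ⟨.negSucc 453, .ofNat 0, .ofNat 34, .ofNat 38, .ofNat 382, .ofNat 88⟩, .ofNat 578, .ofNat 289,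 .ofNat 0, .ofNat 289, .ofNat 1804, .ofNat 0, .ofNat 274, .negSucc 102, .negSucc 2, .ofNat 0, .ofNat 128, .negSucc 8, .ofNat 0, .ofNat 0, .ofNat 1330, .ofNat 4520, .ofNat 0, .ofNat 0, .ofNat 0, .ofNat 0, .ofNat 0, .ofNat 36624571706183788236767810083541409146601472, .ofNat 162100040303269912248041183211534187233280, .ofNat 0, .ofNat 0, .ofNat 66305377579721394347206780714750875071938560, .ofNat 61261513333612320838594046956000103104512, .ofNat 0, .ofNat 0, .ofNat 286844061730081649876414318906350364381937664, .ofNat 334758082688879748412379452716224232816640, .ofNat 0⟩)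
    (by decide +kernel)
theorem L00664 : Good (Phi V5.P V5.D (-1) (-1)) ⟨3, 3, 2, 1, 2, 2, 2, 2, 4, 5⟩ :=
  out_sound (S := T5.ds_mm) T5.ok_mm (w := 43) (j := 3) (by decide +kernel)
theorem L00665 : Good (Phi V5.P V5.D (-1) (-1)) ⟨2, 1, 2, 1, 2, 3, 2, 2, 4, 5⟩ :=
  leafX_sound T5.ok_mm T5.Ymm.bz_eq (w := 198) (c := ⟨⟨.negSucc 1213, .negSucc 149, .negSucc 13, .ofNat 112, .ofNat 48, .ofNat 118⟩, ⟨.ofNat 195, .ofNat 52, .ofNat 296, .negSucc 8, .ofNat 10, .negSucc 19⟩, ⟨.ofNat 877, .negSucc 298, .ofNat 80, .negSucc 216, .negSucc 53, .ofNat 37⟩, ⟨.negSucc 3425, .ofNat 233, .negSucc 90, .ofNat 351, .ofNat 218, .ofNat 330⟩, ⟨.negSucc 419, .negSucc 21, .ofNat 41, .ofNat 286, .ofNat 475, .ofNat 146⟩, .ofNat 578, .ofNat 281, .ofNat 0, .ofNat 281, .ofNat 1774, .ofNat 0, .ofNat 185, .negSucc 97, .ofNat 5, .ofNat 0, .ofNat 128, .negSucc 6, .ofNat 0, .ofNat 0, .ofNat 661,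 .ofNat 2431, .ofNat 0, .ofNat 0, .ofNat 0, .ofNat 0, .ofNat 0, .ofNat 650593243163233051509660161267491405824, .ofNat 0, .ofNat 0, .ofNat 0, .ofNat 1276722467562729990953530627985455972352, .ofNat 12647499302516997180044231838080696320, .ofNat 0, .ofNat 0, .ofNat 2588414049584720436549200562682909949952, .ofNat 7179905436532781779751976418372747264, .ofNat 0⟩)
    (by decide +kernel)
theorem L00666 : Good (Phi V5.P V5.D (-1) (-1)) ⟨2, 1, 2, 1, 2, 2, 2, 3, 4, 4⟩ :=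
  leafX_sound T5.ok_mm T5.Ymm.bz_eq (w := 197) (c := ⟨⟨.negSucc 1210, .negSucc 130, .negSucc 3, .negSucc 83, .ofNat 65, .ofNat 53⟩, ⟨.ofNat 209, .ofNat 21, .ofNat 279, .ofNat 27, .ofNat 14, .negSucc 6⟩, ⟨.ofNat 919, .negSucc 230, .ofNat 87, .negSucc 51, .negSucc 64, .ofNat 55⟩, ⟨.negSucc 3389, .ofNat 323, .negSucc 23, .negSucc 185, .ofNat 280, .ofNat 154⟩, ⟨.negSucc 246, .ofNat 165, .negSucc 6, .ofNat 175, .ofNat 529, .ofNat 93⟩, .ofNat 813, .ofNat 864, .ofNat 0, .ofNat 864, .ofNat 4428, .ofNat 0, .ofNat 208, .negSucc 127, .negSucc 42, .ofNat 0, .ofNat 91, .ofNat 7, .ofNat 0, .ofNat 0, .ofNat 527, .ofNat 624, .ofNat 0, .ofNat 976706321986248843220879751071662080, .ofNat 0, .ofNat 0, .ofNat 0, .ofNat 299765323057273833181379225993474998272, .ofNat 0, .ofNat 0, .ofNat 0, .ofNat 399996415974767687273329648035350708224, .ofNat 5419721407622576230657215227467137024,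 .ofNat 0, .ofNat 0, .ofNat 554621773467000469525617435978948935680, .ofNat 11490994258280756420077077146063863808, .ofNat 0⟩)
    (by decide +kernel)
theorem L00667 : Good (Phi V5.P V5.D (-1) (-1)) ⟨2, 1, 2, 1, 2, 3, 2, 3, 4, 4⟩ :=
  leafX_sound T5.ok_mm T5.Ymm.bz_eq (w := 197) (c := ⟨⟨.negSucc 1282, .negSucc 96, .negSucc 39, .ofNat 18, .ofNat 20, .ofNat 79⟩, ⟨.ofNat 237, .ofNat 4, .ofNat 297, .ofNat 32, .ofNat 14, .negSucc 10⟩, ⟨.ofNat 887, .negSucc 371, .ofNat 109, .negSucc 73, .ofNat 50, .negSucc 2⟩, ⟨.negSucc 3537, .ofNat 417, .negSucc 96, .ofNat 209, .ofNat 225, .ofNat 254⟩, ⟨.ofNat 3, .ofNat 26, .ofNat 2, .ofNat 692, .ofNat 1056, .ofNat 272⟩, .ofNat 186, .ofNat 13, .ofNat 0, .ofNat 13, .ofNat 243, .ofNat 0, .ofNat 134, .negSucc 34, .negSucc 28, .ofNat 0, .ofNat 128, .negSucc 12, .ofNat 0, .ofNat 0, .ofNat 223, .ofNat 1237, .ofNat 0, .ofNat 0, .ofNat 0,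 .ofNat 0, .ofNat 0, .ofNat 403802063011078267372041986375344455680, .ofNat 1609555544379552309569112242848268288, .ofNat 0, .ofNat 0, .ofNat 842231177049240185107540877118168629248, .ofNat 507899614545266272633511249077862400, .ofNat 0, .ofNat 0, .ofNat 587083656417651252368015311008247578624, .ofNat 641851238387751890419171615938969600, .ofNat 0⟩)
    (by decide +kernel)
theorem L00668 : Good (Phi V5.P V5.D (-1) (-1)) ⟨2, 1, 2, 1, 1, 1, 2, 3, 4, 5⟩ :=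
  leafX_sound T5.ok_mm T5.Ymm.bz_eq (w := 183) (c := ⟨⟨.negSucc 1159, .negSucc 133, .ofNat 0, .negSucc 121, .ofNat 57, .ofNat 66⟩, ⟨.ofNat 206, .ofNat 25, .ofNat 266, .ofNat 38, .ofNat 2, .negSucc 12⟩, ⟨.ofNat 983, .negSucc 250, .ofNat 74, .negSucc 52, .negSucc 72, .ofNat 105⟩, ⟨.negSucc 3226, .ofNat 282, .negSucc 14, .negSucc 262, .ofNat 229, .ofNat 186⟩, ⟨.negSucc 140, .ofNat 164, .negSucc 16, .ofNat 249, .ofNat 452, .ofNat 60⟩, .ofNat 751, .ofNat 675, .ofNat 0, .ofNat 675, .ofNat 3587, .ofNat 0, .ofNat 319, .negSucc 127, .negSucc 36, .ofNat 0, .ofNat 103, .ofNat 2, .ofNat 0, .ofNat 0, .ofNat 1001, .ofNat 1013, .ofNat 0, .ofNat 1510451014925977601622421949906944, .ofNat 3629801825173538869566018420736, .ofNat 0, .ofNat 0, .ofNat 410385710326640664563359541075378176, .ofNat 0, .ofNat 0, .ofNat 0, .ofNat 254509802056989019390170249098690560, .ofNat 1107639404449667674949383884898304,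 .ofNat 0, .ofNat 0, .ofNat 996065250190061696788394026121297920, .ofNat 0, .ofNat 0⟩)
    (by decide +kernel)
theorem L00669 : Good (Phi V5.P V5.D (-1) (-1)) ⟨2, 1, 2, 1, 3, 4, 2, 2, 4, 6⟩ :=
  leafX_sound T5.ok_mm T5.Ymm.bz_eq (w := 213) (c := ⟨⟨.negSucc 1158, .negSucc 176, .ofNat 7, .ofNat 20, .ofNat 63, .ofNat 99⟩, ⟨.ofNat 194, .ofNat 48, .ofNat 261, .negSucc 4, .negSucc 1, .negSucc 20⟩, ⟨.ofNat 1187, .negSucc 119, .ofNat 142, .negSucc 88, .negSucc 121, .ofNat 241⟩, ⟨.negSucc 3247, .ofNat 141, .negSucc 29, .ofNat 44, .ofNat 208, .ofNat 262⟩, ⟨.negSucc 322, .ofNat 62, .negSucc 57, .negSucc 24, .ofNat 221, .ofNat 46⟩, .ofNat 748, .ofNat 652, .ofNat 0, .ofNat 652, .ofNat 3485, .ofNat 0, .ofNat 220, .negSucc 127, .negSucc 3, .ofNat 0, .ofNat 110, .negSucc 6, .ofNat 0, .ofNat 0, .ofNat 2279, .ofNat 2853, .ofNat 0, .ofNat 0, .ofNat 11983024711643062187479564268614530891776,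 .ofNat 0, .ofNat 0, .ofNat 3676612340908724927541847240220564202192896, .ofNat 458382610376276704587608054703684619075584, .ofNat 0, .ofNat 0, .ofNat 4083170801429906137092092056182451588825088, .ofNat 578955688345392091734340460753739124310016, .ofNat 0, .ofNat 0, .ofNat 42086465559454228833036777235284607614582784, .ofNat 4044831456838445425480912798671009384235008, .ofNat 0⟩)
    (by decide +kernel)
theorem L00670 : Good (Phi V5.P V5.D (-1) (-1)) ⟨2, 1, 2, 1, 3, 5, 2, 2, 4, 6⟩ :=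
  leafX_sound T5.ok_mm T5.Ymm.bz_eq (w := 213) (c := ⟨⟨.negSucc 1138, .negSucc 171, .ofNat 9, .ofNat 38, .ofNat 57, .ofNat 109⟩, ⟨.ofNat 185, .ofNat 57, .ofNat 273, .negSucc 9, .negSucc 3, .negSucc 21⟩, ⟨.ofNat 1125, .negSucc 298, .ofNat 65, .negSucc 164, .negSucc 37, .ofNat 260⟩, ⟨.negSucc 3203, .ofNat 148, .negSucc 42, .ofNat 98, .ofNat 202, .ofNat 298⟩, ⟨.negSucc 353, .ofNat 38, .negSucc 14, .ofNat 24, .ofNat 288, .ofNat 56⟩, .ofNat 387, .ofNat 86, .ofNat 0, .ofNat 86, .ofNat 738, .ofNat 0, .ofNat 191, .negSucc 49, .ofNat 25, .ofNat 0, .ofNat 128, .negSucc 30, .ofNat 0, .ofNat 0, .ofNat 1716, .ofNat 5403, .ofNat 0, .ofNat 0, .ofNat 0, .ofNat 0, .ofNat 0, .ofNat 5340657462151266898192055905261872708845568, .ofNat 542711529904697641161468708830962297864192, .ofNat 0, .ofNat 0, .ofNat 6470986117099865248697459010432574850859008, .ofNat 591192828216451423320840275726440964554752,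 .ofNat 0, .ofNat 0, .ofNat 61286526487463533426836459824065183850954752, .ofNat 0, .ofNat 0⟩)
    (by decide +kernel)
theorem L00671 : Good (Phi V5.P V5.D (-1) (-1)) ⟨2, 1, 2, 1, 3, 4, 2, 2, 5, 14⟩ :=
  leafX_sound T5.ok_mm T5.Ymm.bz_eq (w := 218) (c := ⟨⟨.negSucc 1064, .negSucc 160, .ofNat 13, .ofNat 32, .ofNat 51, .ofNat 50⟩, ⟨.ofNat 176, .ofNat 49, .ofNat 248, .negSucc 6, .negSucc 1, .negSucc 11⟩, ⟨.ofNat 1436, .negSucc 404, .ofNat 344, .ofNat 91, .negSucc 87, .ofNat 285⟩, ⟨.negSucc 2996, .ofNat 151, .negSucc 15, .ofNat 80, .ofNat 179, .ofNat 127⟩, ⟨.negSucc 295, .ofNat 109, .negSucc 54, .negSucc 28, .ofNat 203, .negSucc 13⟩, .ofNat 582, .ofNat 287, .ofNat 0, .ofNat 287, .ofNat 1757, .ofNat 0, .ofNat 298, .negSucc 96, .ofNat 35, .ofNat 0, .ofNat 128, .negSucc 26, .ofNat 0, .ofNat 0, .ofNat 2236, .ofNat 4524, .ofNat 0, .ofNat 1259384565601791539471312170417680854024192,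 .ofNat 483949864780079786887388791007842152742912, .ofNat 0, .ofNat 0, .ofNat 66790684846026778519964608659441750238035968, .ofNat 23647613929836715829753593789137242457899008, .ofNat 0, .ofNat 0, .ofNat 51938034104292544847401677422287158522150912, .ofNat 17032473912134893020273199928760234126868480, .ofNat 0, .ofNat 0, .ofNat 605365922103125372427034424680981183514804224, .ofNat 51223532373448009355436532738128254374772736, .ofNat 0⟩)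
    (by decide +kernel)
theorem L00672 : Good (Phi V5.P V5.D (-1) (-1)) ⟨2, 1, 2, 1, 3, 5, 2, 2, 5, 14⟩ :=
  out_sound (S := T5.ds_mm) T5.ok_mm (w := 34) (j := 2) (by decide +kernel)
theorem L00673 : Good (Phi V5.P V5.D (-1) (-1)) ⟨2, 1, 2, 1, 4, 8, 4, 8, 5, 15⟩ :=
  out_sound (S := T5.ds_mm) T5.ok_mm (w := 32) (j := 1) (by decide +kernel)
theorem L00674 : Good (Phi V5.P V5.D (-1) (-1)) ⟨2, 1, 2, 1, 5, 16, 4, 9, 6, 30⟩ :=
  out_sound (S := T5.ds_mm) T5.ok_mm (w := 36) (j := 1) (by decide +kernel)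
theorem L00675 : Good (Phi V5.P V5.D (-1) (-1)) ⟨2, 1, 2, 1, 5, 17, 4, 9, 6, 30⟩ :=
  out_sound (S := T5.ds_mm) T5.ok_mm (w := 44) (j := 2) (by decide +kernel)
theorem L00676 : Good (Phi V5.P V5.D (-1) (-1)) ⟨2, 1, 2, 1, 4, 8, 4, 9, 6, 31⟩ :=
  out_sound (S := T5.ds_mm) T5.ok_mm (w := 34) (j := 1) (by decide +kernel)
theorem L00677 : Good (Phi V5.P V5.D (-1) (-1)) ⟨2, 1, 2, 1, 4, 8, 3, 5, 5, 15⟩ :=
  out_sound (S := T5.ds_mm) T5.ok_mm (w := 38) (j := 2) (by decide +kernel)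
theorem L00678 : Good (Phi V5.P V5.D (-1) (-1)) ⟨2, 1, 2, 1, 4, 9, 2, 2, 5, 15⟩ :=
  out_sound (S := T5.ds_mm) T5.ok_mm (w := 36) (j := 2) (by decide +kernel)
theorem L00679 : Good (Phi V5.P V5.D (-1) (-1)) ⟨2, 1, 2, 1, 3, 5, 2, 2, 5, 15⟩ :=
  out_sound (S := T5.ds_mm) T5.ok_mm (w := 34) (j := 2) (by decide +kernel)
theorem L00680 : Good (Phi V5.P V5.D (-1) (-1)) ⟨2, 1, 2, 1, 2, 2, 2, 3, 3, 3⟩ :=
  leafX_sound T5.ok_mm T5.Ymm.bz_eq (w := 194) (c := ⟨⟨.negSucc 1094, .negSucc 124, .negSucc 1, .negSucc 25, .ofNat 45, .ofNat 137⟩, ⟨.ofNat 197, .ofNat 21, .ofNat 245, .ofNat 10, .ofNat 8, .negSucc 21⟩, ⟨.ofNat 1079, .negSucc 273, .ofNat 201, .ofNat 79, .negSucc 108, .ofNat 300⟩, ⟨.negSucc 3032, .ofNat 263, .negSucc 32, .negSucc 53, .ofNat 199, .ofNat 367⟩, ⟨.negSucc 72, .ofNat 144, .negSucc 48, .ofNat 109, .ofNat 422, .ofNat 74⟩, .ofNat 386, .ofNat 83, .ofNat 0, .ofNat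 83, .ofNat 735, .ofNat 0, .ofNat 188, .negSucc 46, .negSucc 12, .ofNat 0, .ofNat 128, .negSucc 14, .ofNat 0, .ofNat 0, .ofNat 692, .ofNat 4067, .ofNat 0, .ofNat 9222432883844888020162688755578175488, .ofNat 0, .ofNat 0, .ofNat 0, .ofNat 281284181081316329689907365717286584320, .ofNat 442054201720133876464185900896616448, .ofNat 0, .ofNat 0, .ofNat 284168652684077743754931715654532726784, .ofNat 0, .ofNat 0, .ofNat 0, .ofNat 974234636423269171400317153915254603776, .ofNat 253302326950775779409702978859302912, .ofNat 0⟩)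
    (by decide +kernel)
theorem L00681 : Good (Phi V5.P V5.D (-1) (-1)) ⟨2, 1, 2, 1, 2, 3, 1, 1, 3, 3⟩ :=
  out_sound (S := T5.ds_mm) T5.ok_mm (w := 26) (j := 2) (by decide +kernel)
theorem L00682 : Good (Phi V5.P V5.D (-1) (-1)) ⟨2, 1, 2, 1, 4, 8, 3, 4, 4, 8⟩ :=
  out_sound (S := T5.ds_mm) T5.ok_mm (w := 29) (j := 1) (by decide +kernel)
theorem L00683 : Good (Phi V5.P V5.D (-1) (-1)) ⟨2, 1, 2, 1, 4, 8, 3, 5, 4, 8⟩ :=
  out_sound (S := T5.ds_mm) T5.ok_mm (w := 36) (j := 2) (by decide +kernel)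
theorem L00684 : Good (Phi V5.P V5.D (-1) (-1)) ⟨2, 1, 2, 1, 4, 8, 2, 2, 4, 9⟩ :=
  out_sound (S := T5.ds_mm) T5.ok_mm (w := 28) (j := 1) (by decide +kernel)
theorem L00685 : Good (Phi V5.P V5.D (-1) (-1)) ⟨2, 1, 2, 1, 4, 9, 2, 2, 3, 4⟩ :=
  out_sound (S := T5.ds_mm) T5.ok_mm (w := 32) (j := 2) (by decide +kernel)
theorem L00686 : Good (Phi V5.P V5.D (-1) (-1)) ⟨2, 1, 2, 1, 3, 4, 2, 3, 3, 4⟩ :=
  out_sound (S := T5.ds_mm) T5.ok_mm (w := 30) (j := 2) (by decide +kernel)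
theorem L00687 : Good (Phi V5.P V5.D (-1) (-1)) ⟨2, 1, 2, 1, 3, 4, 1, 1, 3, 5⟩ :=
  out_sound (S := T5.ds_mm) T5.ok_mm (w := 28) (j := 2) (by decide +kernel)
theorem L00688 : Good (Phi V5.P V5.D (-1) (-1)) ⟨2, 1, 2, 1, 3, 5, 1, 1, 2, 2⟩ :=
  out_sound (S := T5.ds_mm) T5.ok_mm (w := 26) (j := 2) (by decide +kernel)
theorem L00689 : Good (Phi V5.P V5.D (-1) (-1)) ⟨2, 1, 2, 1, 2, 2, 1, 1, 2, 3⟩ :=
  out_sound (S := T5.ds_mm) T5.ok_mm (w := 24) (j := 2) (by decide +kernel)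
theorem L00690 : Good (Phi V5.P V5.D (-1) (-1)) ⟨2, 1, 2, 1, 2, 3, 1, 1, 1, 1⟩ :=
  out_sound (S := T5.ds_mm) T5.ok_mm (w := 22) (j := 2) (by decide +kernel)
theorem L00691 : Good (Phi V5.P V5.D (-1) (-1)) ⟨3, 0, 2, 2, 1, 0, 2, 0, 5, 0⟩ :=
  leafX_sound T5.ok_mm T5.Ymm.bz_eq (w := 193) (c := ⟨⟨.ofNat 543, .negSucc 16, .ofNat 100, .ofNat 592, .ofNat 41, .negSucc 615⟩, ⟨.negSucc 279, .ofNat 32, .negSucc 221, .negSucc 321, .negSucc 4, .ofNat 308⟩, ⟨.negSucc 551, .ofNat 25, .negSucc 202, .negSucc 527, .negSucc 150, .ofNat 501⟩, ⟨.ofNat 1573, .negSucc 129, .ofNat 184, .ofNat 1558, .ofNat 260, .negSucc 1924⟩, ⟨.negSucc 132, .negSucc 135, .negSucc 51, .negSucc 433, .ofNat 279, .negSucc 119⟩, .ofNat 814, .ofNat 580, .ofNat 0, .ofNat 580, .ofNat 1498, .ofNat 0, .ofNat 236, .negSucc 124, .negSucc 205, .ofNat 0, .ofNat 128, .ofNat 98, .ofNat 0, .ofNat 0, .ofNat 607, .ofNat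 4598, .ofNat 0, .ofNat 0, .ofNat 42428002062369062356612276027392, .ofNat 0, .ofNat 0, .ofNat 0, .ofNat 0, .ofNat 0, .ofNat 40108793414469834353537868407498604544, .ofNat 0, .ofNat 4222935132725251788682119572619264, .ofNat 0, .ofNat 0, .ofNat 0, .ofNat 6751959147831087259148955703836672, .ofNat 0⟩)
    (by decide +kernel)
theorem L00692 : Good (Phi V5.P V5.D (-1) (-1)) ⟨3, 0, 2, 2, 1, 0, 2, 0, 5, 1⟩ :=
  leafX_sound T5.ok_mm T5.Ymm.bz_eq (w := 193) (c := ⟨⟨.negSucc 116, .negSucc 26, .ofNat 132, .ofNat 653, .ofNat 1, .negSucc 563⟩, ⟨.ofNat 47, .ofNat 16, .negSucc 59, .negSucc 370, .ofNat 21, .ofNat 283⟩, ⟨.ofNat 198, .ofNat 56, .negSucc 71, .negSucc 1002, .negSucc 53, .ofNat 435⟩, ⟨.negSucc 444, .negSucc 134, .ofNat 466, .ofNat 1589, .ofNat 177, .negSucc 1686⟩, ⟨.negSucc 204, .negSucc 156, .ofNat 361, .negSucc 674, .ofNat 350, .negSucc 48⟩, .ofNat 1734, .ofNat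 2002, .ofNat 0, .ofNat 2002, .ofNat 4046, .ofNat 0, .ofNat 128, .negSucc 178, .negSucc 101, .ofNat 0, .ofNat 141, .ofNat 54, .ofNat 0, .ofNat 0, .ofNat 341, .ofNat 5945, .ofNat 0, .ofNat 0, .ofNat 0, .ofNat 0, .ofNat 0, .ofNat 0, .ofNat 3889260837957652254325144849219584, .ofNat 0, .ofNat 0, .ofNat 0, .ofNat 11221284018566545404161922198142976, .ofNat 0, .ofNat 0, .ofNat 0, .ofNat 3379597865357375664072061691625472, .ofNat 0⟩)
    (by decide +kernel)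
theorem L00693 : Good (Phi V5.P V5.D (-1) (-1)) ⟨3, 0, 2, 2, 1, 0, 2, 1, 4, 0⟩ :=
  leafX_sound T5.ok_mm T5.Ymm.bz_eq (w := 188) (c := ⟨⟨.ofNat 541, .ofNat 14, .ofNat 229, .ofNat 569, .negSucc 294, .negSucc 1172⟩, ⟨.negSucc 290, .ofNat 26, .negSucc 71, .negSucc 282, .ofNat 152, .ofNat 575⟩, ⟨.negSucc 597, .ofNat 9, .negSucc 469, .negSucc 631, .ofNat 262, .ofNat 1024⟩, ⟨.ofNat 1558, .ofNat 43, .ofNat 552, .ofNat 1582, .negSucc 823, .negSucc 3464⟩, ⟨.negSucc 138, .ofNat 30, .negSucc 38, .negSucc 207, .ofNat 115, .ofNat 20⟩, .ofNat 1712, .ofNat 1985, .ofNat 0, .ofNat 1985, .ofNat 4063, .ofNat 0, .ofNat 128, .negSucc 146, .negSucc 207, .ofNat 0, .ofNat 116, .ofNat 108, .ofNat 0, .ofNat 0, .ofNat 562, .ofNat 1111, .ofNat 0, .ofNat 0, .ofNat 0, .ofNat 0, .ofNat 0, .ofNat 0, .ofNat 106878737958726298161223133298688, .ofNat 0, .ofNat 0, .ofNat 0, .ofNat 214107362573232260705205807480832,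 .ofNat 0, .ofNat 0, .ofNat 0, .ofNat 0, .ofNat 0⟩)
    (by decide +kernel)
theorem L00694 : Good (Phi V5.P V5.D (-1) (-1)) ⟨3, 0, 2, 3, 1, 0, 1, 0, 4, 0⟩ :=
  out_sound (S := T5.ds_mm) T5.ok_mm (w := 43) (j := 3) (by decide +kernel)
theorem L00695 : Good (Phi V5.P V5.D (-1) (-1)) ⟨3, 0, 1, 1, 1, 0, 1, 0, 4, 1⟩ :=
  leafX_sound T5.ok_mm T5.Ymm.bz_eq (w := 180) (c := ⟨⟨.negSucc 573, .ofNat 12, .negSucc 143, .ofNat 369, .negSucc 28, .negSucc 639⟩, ⟨.ofNat 280, .negSucc 29, .ofNat 501, .negSucc 233, .ofNat 23, .ofNat 326⟩, ⟨.ofNat 658, .negSucc 1, .negSucc 105, .negSucc 1051, .ofNat 87, .ofNat 583⟩, ⟨.negSucc 1802, .ofNat 58, .negSucc 520, .ofNat 685, .ofNat 105, .negSucc 1922⟩, ⟨.negSucc 153, .negSucc 72, .ofNat 323, .negSucc 818, .ofNat 365, .negSucc 1⟩, .ofNat 1328, .ofNat 1342, .ofNat 0, .ofNat 1342, .ofNat 2878, .ofNat 0, .ofNat 128, .negSucc 134, .negSucc 93,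 .ofNat 0, .ofNat 114, .ofNat 49, .ofNat 0, .ofNat 0, .ofNat 350, .ofNat 1280, .ofNat 0, .ofNat 0, .ofNat 192806416483275713168634019840, .ofNat 0, .ofNat 0, .ofNat 0, .ofNat 0, .ofNat 0, .ofNat 0, .ofNat 0, .ofNat 6826770643441924946316224364544, .ofNat 0, .ofNat 0, .ofNat 0, .ofNat 1801841016151550559042716827648, .ofNat 0⟩)
    (by decide +kernel)
theorem L00696 : Good (Phi V5.P V5.D (-1) (-1)) ⟨3, 0, 1, 1, 1, 0, 1, 0, 3, 1⟩ :=
  leafX_sound T5.ok_mm T5.Ymm.bz_eq (w := 176) (c := ⟨⟨.negSucc 1171, .negSucc 25, .ofNat 142, .ofNat 40, .ofNat 177, .negSucc 172⟩, ⟨.ofNat 579, .negSucc 37, .ofNat 536, .negSucc 44, .negSucc 83, .ofNat 91⟩, ⟨.ofNat 1128, .negSucc 143, .negSucc 977, .negSucc 494, .negSucc 132, .ofNat 448⟩, ⟨.negSucc 3599, .negSucc 43, .ofNat 49, .negSucc 102, .ofNat 611, .negSucc 491⟩, ⟨.negSucc 138, .negSucc 78, .negSucc 359, .negSucc 456, .ofNat 158,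 .ofNat 43⟩, .ofNat 1317, .ofNat 1329, .ofNat 0, .ofNat 1329, .ofNat 2872, .ofNat 0, .ofNat 128, .negSucc 164, .negSucc 106, .ofNat 0, .ofNat 141, .ofNat 57, .ofNat 0, .ofNat 0, .ofNat 685, .ofNat 1680, .ofNat 872015586037465129202123781701632, .ofNat 0, .ofNat 3917064053696135369980903424, .ofNat 0, .ofNat 0, .ofNat 0, .ofNat 0, .ofNat 0, .ofNat 0, .ofNat 0, .ofNat 275695091668543355916493258752, .ofNat 0, .ofNat 72894564166688651387457168811753472, .ofNat 0, .ofNat 263961479013339895367649460224, .ofNat 0⟩)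
    (by decide +kernel)
theorem L00697 : Good (Phi V5.P V5.D (-1) (-1)) ⟨3, 0, 3, 4, 2, 2, 2, 0, 4, 0⟩ :=
  leafX_sound T5.ok_mm T5.Ymm.bz_eq (w := 206) (c := ⟨⟨.ofNat 1065, .ofNat 209, .ofNat 226, .ofNat 125, .negSucc 31, .negSucc 1096⟩, ⟨.negSucc 543, .negSucc 111, .negSucc 201, .ofNat 29, .ofNat 46, .ofNat 484⟩, ⟨.negSucc 861, .ofNat 14, .negSucc 166, .ofNat 34, .negSucc 20, .ofNat 195⟩, ⟨.ofNat 2963, .ofNat 376, .ofNat 719, .ofNat 1210, .ofNat 221, .negSucc 3751⟩, ⟨.negSucc 432, .negSucc 422, .ofNat 116, .ofNat 1669, .ofNat 608, .negSucc 997⟩, .ofNat 1896, .ofNat 2290, .ofNat 0, .ofNat 2290, .ofNat 4608, .ofNat 0, .ofNat 128, .negSucc 236, .negSucc 162, .ofNat 0, .ofNat 170, .ofNat 96, .ofNat 0, .ofNat 0, .ofNat 745, .ofNat 2115, .ofNat 0, .ofNat 0, .ofNat 0, .ofNat 0, .ofNat 0, .ofNat 0, .ofNat 0, .ofNat 0, .ofNat 221416562422451808270249150897693105586176,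 .ofNat 0, .ofNat 4272377805611885927507990749594517504, .ofNat 0, .ofNat 0, .ofNat 0, .ofNat 0, .ofNat 0⟩)
    (by decide +kernel)
theorem L00698 : Good (Phi V5.P V5.D (-1) (-1)) ⟨3, 0, 3, 4, 2, 2, 2, 0, 4, 1⟩ :=
  leafX_sound T5.ok_mm T5.Ymm.bz_eq (w := 204) (c := ⟨⟨.negSucc 104, .ofNat 13, .ofNat 29, .ofNat 134, .ofNat 172, .negSucc 965⟩, ⟨.negSucc 7, .negSucc 38, .ofNat 71, .negSucc 25, .negSucc 63, .ofNat 482⟩, ⟨.negSucc 586, .ofNat 83, .negSucc 36, .negSucc 432, .ofNat 195, .ofNat 599⟩, ⟨.negSucc 806, .negSucc 70, .ofNat 27, .ofNat 749, .ofNat 761, .negSucc 2980⟩, ⟨.negSucc 945, .negSucc 343, .negSucc 19, .ofNat 688, .ofNat 478, .negSucc 176⟩, .ofNat 820, .ofNat 589, .ofNat 0, .ofNat 589, .ofNat 1502, .ofNat 0, .ofNat 144, .negSucc 127, .negSucc 46, .ofNat 0, .ofNat 113, .ofNat 29, .ofNat 0, .ofNat 0, .ofNat 193, .ofNat 2489, .ofNat 77584113764932988972933344382016978681856,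 .ofNat 0, .ofNat 2879405819150227368752866566078464, .ofNat 0, .ofNat 0, .ofNat 0, .ofNat 0, .ofNat 0, .ofNat 217700082039032865788008499975028719222784, .ofNat 0, .ofNat 1685066810081510251859772518439059456, .ofNat 0, .ofNat 0, .ofNat 0, .ofNat 0, .ofNat 0⟩)
    (by decide +kernel)
theorem L00699 : Good (Phi V5.P V5.D (-1) (-1)) ⟨3, 0, 3, 4, 2, 3, 3, 0, 4, 0⟩ :=
  leafX_sound T5.ok_mm T5.Ymm.bz_eq (w := 210) (c := ⟨⟨.ofNat 1097, .ofNat 36, .ofNat 57, .negSucc 935, .ofNat 217, .negSucc 786⟩, ⟨.negSucc 405, .negSucc 72, .negSucc 158, .ofNat 604, .negSucc 116, .ofNat 336⟩, ⟨.negSucc 454, .ofNat 242, .negSucc 33, .ofNat 1167, .negSucc 232, .negSucc 558⟩, ⟨.ofNat 4318, .negSucc 282, .ofNat 923, .negSucc 1668, .ofNat 520, .negSucc 2673⟩, ⟨.ofNat 2114, .negSucc 555, .ofNat 729, .ofNat 2276, .negSucc 224, .negSucc 757⟩, .ofNat 1664, .ofNat 1894, .ofNat 0, .ofNat 1894,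 .ofNat 3893, .ofNat 0, .ofNat 128, .negSucc 259, .negSucc 115, .ofNat 0, .ofNat 190, .ofNat 53, .ofNat 0, .ofNat 0, .ofNat 515, .ofNat 2280, .ofNat 0, .ofNat 0, .ofNat 2989844741649400644195858331400667136, .ofNat 0, .ofNat 0, .ofNat 0, .ofNat 12853224107351069487240956430673510400, .ofNat 0, .ofNat 0, .ofNat 0, .ofNat 0, .ofNat 0, .ofNat 0, .ofNat 0, .ofNat 86895635769113394783163034204037447680, .ofNat 0⟩)
    (by decide +kernel)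
theorem L00700 : Good (Phi V5.P V5.D (-1) (-1)) ⟨3, 0, 3, 4, 3, 6, 3, 0, 4, 1⟩ :=
  leafX_sound T5.ok_mm T5.Ymm.bz_eq (w := 224) (c := ⟨⟨.ofNat 15, .ofNat 100, .ofNat 41, .negSucc 91, .ofNat 219, .negSucc 1139⟩, ⟨.ofNat 49, .negSucc 122, .negSucc 16, .ofNat 145, .negSucc 128, .ofNat 541⟩, ⟨.negSucc 1020, .ofNat 150, .negSucc 13, .ofNat 133, .ofNat 138, .ofNat 522⟩, ⟨.ofNat 386, .ofNat 9, .ofNat 411, .ofNat 675, .ofNat 473, .negSucc 3671⟩, ⟨.ofNat 740, .negSucc 573, .ofNat 245, .ofNat 1877, .negSucc 351, .negSucc 571⟩, .ofNat 2006, .ofNat 2453, .ofNat 0, .ofNat 2453, .ofNat 4843, .ofNat 0, .ofNat 128, .negSucc 322, .negSucc 119, .ofNat 0, .ofNat 237, .ofNat 67, .ofNat 0, .ofNat 0, .ofNat 496, .ofNat 8807, .ofNat 8770864437529928569143612604630842435321200640, .ofNat 0, .ofNat 7658332807152856738219617870697409282048, .ofNat 0, .ofNat 0, .ofNat 0, .ofNat 486961599155906626915895394011931285127168,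 .ofNat 0, .ofNat 0, .ofNat 0, .ofNat 0, .ofNat 0, .ofNat 29490635229014419804841003973678025020303998976, .ofNat 0, .ofNat 1477944827197840087463936581949076799488000, .ofNat 0⟩)
    (by decide +kernel)
theorem L00701 : Good (Phi V5.P V5.D (-1) (-1)) ⟨3, 0, 3, 4, 3, 7, 3, 0, 4, 1⟩ :=
  leafX_sound T5.ok_mm T5.Ymm.bz_eq (w := 224) (c := ⟨⟨.negSucc 257, .ofNat 215, .negSucc 13, .negSucc 499, .ofNat 330, .negSucc 948⟩, ⟨.ofNat 373, .negSucc 280, .negSucc 33, .ofNat 403, .negSucc 261, .ofNat 454⟩, ⟨.negSucc 822, .ofNat 391, .ofNat 127, .ofNat 244, .ofNat 202, .ofNat 264⟩, ⟨.ofNat 1126, .negSucc 166, .ofNat 796, .negSucc 89, .ofNat 61, .negSucc 3076⟩, ⟨.ofNat 3852, .negSucc 1414, .ofNat 701, .ofNat 2701, .negSucc 1763, .negSucc 545⟩, .ofNat 1734, .ofNat 2004, .ofNat 0, .ofNat 2004, .ofNat 4049, .ofNat 0, .ofNat 128, .negSucc 320, .negSucc 142, .ofNat 0, .ofNat 245,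 .ofNat 52, .ofNat 0, .ofNat 0, .ofNat 568, .ofNat 4612, .ofNat 3357720360071295662893731094941547427333668864, .ofNat 0, .ofNat 16487047121657864322398069094971588214784, .ofNat 0, .ofNat 0, .ofNat 0, .ofNat 554261543414934037857503223937205199175680, .ofNat 0, .ofNat 0, .ofNat 0, .ofNat 0, .ofNat 0, .ofNat 0, .ofNat 0, .ofNat 876496879955388132871551729920762204651520, .ofNat 0⟩)
    (by decide +kernel)
theorem L00702 : Good (Phi V5.P V5.D (-1) (-1)) ⟨3, 0, 3, 4, 2, 3, 3, 1, 3, 0⟩ :=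
  leafX_sound T5.ok_mm T5.Ymm.bz_eq (w := 205) (c := ⟨⟨.ofNat 973, .ofNat 167, .ofNat 25, .negSucc 543, .ofNat 133, .negSucc 1683⟩, ⟨.negSucc 353, .negSucc 142, .negSucc 49, .ofNat 389, .negSucc 98, .ofNat 745⟩, ⟨.negSucc 593, .ofNat 67, .ofNat 15, .ofNat 843, .negSucc 33, .negSucc 64⟩, ⟨.ofNat 3669, .ofNat 521, .ofNat 494, .negSucc 320, .ofNat 237, .negSucc 5923⟩, ⟨.ofNat 1621, .ofNat 132, .ofNat 500, .ofNat 2519, .negSucc 324, .negSucc 1884⟩, .ofNat 1718, .ofNat 1972, .ofNat 0, .ofNat 1972, .ofNat 3988, .ofNat 0, .ofNat 128, .negSucc 177, .negSucc 154, .ofNat 0, .ofNat 130, .ofNat 77, .ofNat 0, .ofNat 0, .ofNat 543, .ofNat 1234, .ofNat 0, .ofNat 0, .ofNat 0, .ofNat 0, .ofNat 0, .ofNat 0, .ofNat 759012901235945385083666539038638080, .ofNat 0, .ofNat 0, .ofNat 0, .ofNat 198765073018693303008444148361461760, .ofNat 0, .ofNat 0, .ofNat 0, .ofNat 0, .ofNat 0⟩)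
    (by decide +kernel)
theorem L00703 : Good (Phi V5.P V5.D (-1) (-1)) ⟨3, 0, 3, 4, 2, 2, 4, 0, 4, 2⟩ :=
  leafX_sound T5.ok_mm T5.Ymm.bz_eq (w := 216) (c := ⟨⟨.negSucc 993, .negSucc 19, .negSucc 5, .negSucc 54, .ofNat 74, .negSucc 387⟩, ⟨.ofNat 434, .negSucc 36, .ofNat 171, .ofNat 63, .negSucc 33, .ofNat 197⟩, ⟨.negSucc 6, .ofNat 114, .ofNat 26, .negSucc 458, .ofNat 65, .ofNat 562⟩, ⟨.negSucc 3494, .negSucc 70, .ofNat 6, .ofNat 131, .ofNat 235, .negSucc 1106⟩, ⟨.negSucc 995, .negSucc 183, .ofNat 179, .ofNat 578, .ofNat 26, .ofNat 92⟩, .ofNat 1319, .ofNat 1338, .ofNat 0, .ofNat 1338, .ofNat 2900, .ofNat 0, .ofNat 128, .negSucc 151, .negSucc 37, .ofNat 0, .ofNat 118, .ofNat 24, .ofNat 0, .ofNat 0, .ofNat 218, .ofNat 43611, .ofNat 64678290803047635094394293490212880294871040, .ofNat 0, .ofNat 37650566865203792456569139091554172928, .ofNat 0, .ofNat 0, .ofNat 0,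 .ofNat 0, .ofNat 0, .ofNat 61961083796147647860614930797041768573435904, .ofNat 0, .ofNat 623459526795129510990111070452990345216, .ofNat 0, .ofNat 46427740900551943517065359344598464306610176, .ofNat 0, .ofNat 226835523180363997744816302928817029120, .ofNat 0⟩)
    (by decide +kernel)
theorem L00704 : Good (Phi V5.P V5.D (-1) (-1)) ⟨3, 0, 3, 4, 2, 2, 4, 1, 4, 2⟩ :=
  leafX_sound T5.ok_mm T5.Ymm.bz_eq (w := 214) (c := ⟨⟨.negSucc 925, .negSucc 32, .ofNat 18, .negSucc 65, .ofNat 38, .negSucc 330⟩, ⟨.ofNat 411, .negSucc 33, .ofNat 155, .ofNat 58, .negSucc 13, .ofNat 172⟩, ⟨.ofNat 65, .ofNat 89, .negSucc 7, .negSucc 404, .ofNat 53, .ofNat 461⟩, ⟨.negSucc 3223, .negSucc 117, .ofNat 22, .ofNat 32, .ofNat 166, .negSucc 980⟩, ⟨.negSucc 853, .negSucc 203, .ofNat 76, .ofNat 441, .ofNat 99, .ofNat 10⟩, .ofNat 1352, .ofNat 1382, .ofNat 0, .ofNat 1382, .ofNat 2939, .ofNat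 0, .ofNat 159, .negSucc 127, .negSucc 34, .ofNat 0, .ofNat 100, .ofNat 22, .ofNat 0, .ofNat 0, .ofNat 198, .ofNat 11507, .ofNat 0, .ofNat 0, .ofNat 0, .ofNat 0, .ofNat 0, .ofNat 0, .ofNat 0, .ofNat 0, .ofNat 0, .ofNat 0, .ofNat 615357595077920201518935002691049357312, .ofNat 0, .ofNat 0, .ofNat 0, .ofNat 0, .ofNat 0⟩)
    (by decide +kernel)
theorem L00705 : Good (Phi V5.P V5.D (-1) (-1)) ⟨3, 0, 3, 4, 3, 6, 4, 0, 4, 2⟩ :=
  leafX_sound T5.ok_mm T5.Ymm.bz_eq (w := 229) (c := ⟨⟨.negSucc 1135, .ofNat 88, .negSucc 1, .negSucc 57, .ofNat 87, .negSucc 324⟩, ⟨.ofNat 584, .negSucc 129, .ofNat 154, .ofNat 103, .negSucc 46, .ofNat 139⟩, ⟨.negSucc 413, .ofNat 141, .negSucc 37, .ofNat 112, .ofNat 68, .ofNat 491⟩, ⟨.negSucc 3379, .ofNat 115, .ofNat 315, .ofNat 568, .ofNat 236, .negSucc 1213⟩, ⟨.ofNat 94, .negSucc 400, .ofNat 464, .ofNat 1453, .negSucc 23, .negSucc 504⟩, .ofNat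 1326, .ofNat 1351, .ofNat 0, .ofNat 1351, .ofNat 2922, .ofNat 0, .ofNat 128, .negSucc 158, .negSucc 38, .ofNat 0, .ofNat 130, .ofNat 23, .ofNat 0, .ofNat 0, .ofNat 214, .ofNat 27112, .ofNat 169998255930793389412408845269032776227107110912, .ofNat 0, .ofNat 560214254620319961437279344372410828718080, .ofNat 0, .ofNat 0, .ofNat 0, .ofNat 0, .ofNat 0, .ofNat 193511782268870159857035483562823059959244128256, .ofNat 0, .ofNat 8977584289630689567399401819816972219580416, .ofNat 0, .ofNat 121492188650364464497021349115500569585095016448, .ofNat 0, .ofNat 4419575116998885531333720744660425389375488, .ofNat 0⟩)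
    (by decide +kernel)
theorem L00706 : Good (Phi V5.P V5.D (-1) (-1)) ⟨3, 0, 3, 4, 3, 6, 4, 1, 4, 2⟩ :=
  leafX_sound T5.ok_mm T5.Ymm.bz_eq (w := 229) (c := ⟨⟨.negSucc 1002, .ofNat 56, .negSucc 24, .negSucc 63, .ofNat 61, .negSucc 366⟩, ⟨.ofNat 513, .negSucc 101, .ofNat 159, .ofNat 100, .negSucc 38, .ofNat 163⟩, ⟨.negSucc 305, .ofNat 93, .negSucc 36, .ofNat 82, .ofNat 64, .ofNat 472⟩, ⟨.negSucc 2910, .negSucc 137, .ofNat 163, .ofNat 543, .ofNat 140, .negSucc 1389⟩, ⟨.ofNat 223, .negSucc 619, .ofNat 299, .ofNat 1402, .negSucc 95, .negSucc 562⟩, .ofNat 1331, .ofNat 1355, .ofNat 0, .ofNat 1355, .ofNat 2918, .ofNat 0, .ofNat 128, .negSucc 208, .negSucc 43, .ofNat 0, .ofNat 170, .ofNat 25, .ofNat 0, .ofNat 0, .ofNat 210, .ofNat 13901, .ofNat 0, .ofNat 0, .ofNat 0, .ofNat 0, .ofNat 0, .ofNat 0, .ofNat 0, .ofNat 0, .ofNat 0, .ofNat 0, .ofNat 9993275844500581586850865697304365095714816,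 .ofNat 0, .ofNat 0, .ofNat 0, .ofNat 5678896716587693978725205447295596446613504, .ofNat 0⟩)
    (by decide +kernel)
theorem L00707 : Good (Phi V5.P V5.D (-1) (-1)) ⟨3, 0, 3, 4, 3, 7, 3, 0, 4, 2⟩ :=
  leafX_sound T5.ok_mm T5.Ymm.bz_eq (w := 225) (c := ⟨⟨.negSucc 1209, .ofNat 61, .negSucc 121, .negSucc 198, .ofNat 149, .negSucc 233⟩, ⟨.ofNat 779, .negSucc 158, .ofNat 165, .ofNat 203, .negSucc 130, .ofNat 53⟩, ⟨.negSucc 261, .ofNat 208, .ofNat 19, .ofNat 118, .ofNat 122, .ofNat 397⟩, ⟨.negSucc 2179, .negSucc 185, .ofNat 440, .ofNat 358, .negSucc 154, .negSucc 1316⟩, ⟨.ofNat 2872, .negSucc 685, .ofNat 963, .ofNat 1880, .negSucc 1140, .negSucc 1235⟩, .ofNat 1691, .ofNat 1948, .ofNat 0, .ofNat 1948, .ofNat 4002, .ofNat 0, .ofNat 128, .negSucc 500, .negSucc 153, .ofNat 0, .ofNat 414, .ofNat 57, .ofNat 0, .ofNat 0, .ofNat 745, .ofNat 5891, .ofNat 0, .ofNat 0, .ofNat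 0, .ofNat 0, .ofNat 0, .ofNat 0, .ofNat 917822647153683398348651234067424808534016, .ofNat 0, .ofNat 0, .ofNat 0, .ofNat 0, .ofNat 0, .ofNat 0, .ofNat 0, .ofNat 0, .ofNat 0⟩)
    (by decide +kernel)
theorem L00708 : Good (Phi V5.P V5.D (-1) (-1)) ⟨3, 0, 3, 4, 2, 2, 3, 0, 4, 3⟩ :=
  leafX_sound T5.ok_mm T5.Ymm.bz_eq (w := 213) (c := ⟨⟨.negSucc 1258, .negSucc 21, .ofNat 3, .negSucc 80, .ofNat 44, .negSucc 1⟩, ⟨.ofNat 592, .negSucc 39, .ofNat 184, .ofNat 54, .negSucc 27, .ofNat 2⟩, ⟨.ofNat 529, .ofNat 69, .ofNat 14, .negSucc 347, .ofNat 25, .ofNat 315⟩, ⟨.negSucc 4069, .negSucc 16, .negSucc 13, .negSucc 133, .ofNat 55, .ofNat 11⟩, ⟨.negSucc 574, .negSucc 105, .ofNat 65, .ofNat 217, .negSucc 128, .ofNat 23⟩, .ofNat 1691, .ofNat 1943, .ofNat 0, .ofNat 1943, .ofNat 3979, .ofNat 0, .ofNat 128, .negSucc 238, .negSucc 63, .ofNat 0, .ofNat 186, .ofNat 39, .ofNat 0, .ofNat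 0, .ofNat 474, .ofNat 54722, .ofNat 5454079364177115701866811421571816066383872, .ofNat 0, .ofNat 10554862848892387651961105382385909760, .ofNat 0, .ofNat 15382371118386598696524512826567046144720896, .ofNat 0, .ofNat 0, .ofNat 0, .ofNat 31691384803879753463630849201383404361220096, .ofNat 0, .ofNat 243779175874010172260091541628634791936, .ofNat 0, .ofNat 27103117647755520393526245916967465564241920, .ofNat 0, .ofNat 0, .ofNat 0⟩)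
    (by decide +kernel)
theorem L00709 : Good (Phi V5.P V5.D (-1) (-1)) ⟨3, 0, 3, 4, 2, 3, 3, 0, 4, 3⟩ :=
  leafX_sound T5.ok_mm T5.Ymm.bz_eq (w := 210) (c := ⟨⟨.negSucc 1387, .ofNat 42, .negSucc 37, .negSucc 70, .ofNat 48, .ofNat 51⟩, ⟨.ofNat 700, .negSucc 99, .ofNat 188, .ofNat 137, .negSucc 34, .negSucc 47⟩, ⟨.ofNat 182, .ofNat 79, .negSucc 50, .ofNat 164, .ofNat 76, .ofNat 252⟩, ⟨.negSucc 4081, .ofNat 0, .ofNat 118, .ofNat 708, .negSucc 17, .negSucc 72⟩, ⟨.ofNat 151, .negSucc 356, .ofNat 329, .ofNat 1837, .negSucc 285, .negSucc 449⟩, .ofNat 1827, .ofNat 2166, .ofNat 0, .ofNat 2166, .ofNat 4367, .ofNat 0, .ofNat 128, .negSucc 308, .negSucc 47, .ofNat 0, .ofNat 258, .ofNat 23, .ofNat 0, .ofNat 0, .ofNat 416, .ofNat 6231, .ofNat 761405802611957717582372765127750728024064, .ofNat 0, .ofNat 1197211496375000759604860508964913152, .ofNat 0, .ofNat 0, .ofNat 0, .ofNat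 0, .ofNat 0, .ofNat 0, .ofNat 0, .ofNat 0, .ofNat 0, .ofNat 0, .ofNat 0, .ofNat 27530136956593794500110326844698394624, .ofNat 0⟩)
    (by decide +kernel)
theorem L00710 : Good (Phi V5.P V5.D (-1) (-1)) ⟨3, 0, 3, 4, 2, 2, 3, 1, 3, 1⟩ :=
  leafX_sound T5.ok_mm T5.Ymm.bz_eq (w := 204) (c := ⟨⟨.negSucc 997, .negSucc 34, .ofNat 19, .negSucc 53, .ofNat 41, .negSucc 274⟩, ⟨.ofNat 458, .negSucc 31, .ofNat 161, .ofNat 37, .negSucc 13, .ofNat 139⟩, ⟨.ofNat 164, .ofNat 14, .negSucc 37, .negSucc 280, .ofNat 88, .ofNat 660⟩, ⟨.negSucc 3301, .negSucc 86, .ofNat 47, .negSucc 78, .ofNat 164, .negSucc 851⟩, ⟨.negSucc 588, .negSucc 142, .ofNat 94, .ofNat 153, .ofNat 75, .negSucc 50⟩, .ofNat 1313, .ofNat 1331, .ofNat 0, .ofNat 1331, .ofNat 2895, .ofNat 0, .ofNat 128, .negSucc 188, .negSucc 34, .ofNat 0, .ofNat 152, .ofNat 21, .ofNat 0, .ofNat 0, .ofNat 213, .ofNat 3759, .ofNat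 0, .ofNat 0, .ofNat 19731228965919246330960050963611648, .ofNat 0, .ofNat 0, .ofNat 0, .ofNat 868426376758134389233541398589865984, .ofNat 0, .ofNat 0, .ofNat 0, .ofNat 1676406618953613416390184395713019904, .ofNat 0, .ofNat 0, .ofNat 0, .ofNat 0, .ofNat 0⟩)
    (by decide +kernel)
theorem L00711 : Good (Phi V5.P V5.D (-1) (-1)) ⟨3, 0, 3, 4, 2, 3, 3, 1, 3, 1⟩ :=
  leafX_sound T5.ok_mm T5.Ymm.bz_eq (w := 204) (c := ⟨⟨.negSucc 1106, .ofNat 62, .ofNat 0, .negSucc 109, .ofNat 80, .negSucc 260⟩, ⟨.ofNat 579, .negSucc 114, .ofNat 131, .ofNat 160, .negSucc 52, .ofNat 90⟩, ⟨.negSucc 97, .ofNat 61, .negSucc 36, .ofNat 194, .ofNat 96, .ofNat 587⟩, ⟨.negSucc 3130, .ofNat 14, .ofNat 134, .ofNat 642, .ofNat 124, .negSucc 1206⟩, ⟨.ofNat 377, .negSucc 421, .ofNat 94, .ofNat 1933, .negSucc 229, .negSucc 817⟩, .ofNat 1329, .ofNat 1350, .ofNat 0, .ofNat 1350, .ofNat 2909, .ofNat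 0, .ofNat 128, .negSucc 189, .negSucc 52, .ofNat 0, .ofNat 162, .ofNat 25, .ofNat 0, .ofNat 0, .ofNat 331, .ofNat 2462, .ofNat 0, .ofNat 0, .ofNat 21418292249273417010006042024607744, .ofNat 0, .ofNat 0, .ofNat 0, .ofNat 0, .ofNat 0, .ofNat 0, .ofNat 0, .ofNat 994981005010243117567131525450825728, .ofNat 0, .ofNat 0, .ofNat 0, .ofNat 612438273426680225000949358331428864, .ofNat 0⟩)
    (by decide +kernel)
theorem L00712 : Good (Phi V5.P V5.D (-1) (-1)) ⟨3, 0, 3, 5, 1, 1, 2, 0, 2, 0⟩ :=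
  out_sound (S := T5.ds_mm) T5.ok_mm (w := 45) (j := 3) (by decide +kernel)
theorem L00713 : Good (Phi V5.P V5.D (-1) (-1)) ⟨3, 0, 2, 2, 1, 1, 2, 1, 3, 0⟩ :=
  leafX_sound T5.ok_mm T5.Ymm.bz_eq (w := 183) (c := ⟨⟨.ofNat 1002, .ofNat 22, .negSucc 410, .negSucc 111, .negSucc 128, .negSucc 1664⟩, ⟨.negSucc 484, .negSucc 18, .ofNat 177, .ofNat 178, .ofNat 45, .ofNat 781⟩, ⟨.negSucc 1079, .ofNat 211, .ofNat 906, .ofNat 511, .ofNat 291, .ofNat 657⟩, ⟨.ofNat 3096, .negSucc 49, .negSucc 17, .ofNat 760, .negSucc 562, .negSucc 5395⟩, ⟨.ofNat 262, .negSucc 169, .ofNat 1743, .ofNat 2167, .negSucc 352, .negSucc 919⟩, .ofNat 1653, .ofNat 1886, .ofNat 0, .ofNat 1886, .ofNat 3908, .ofNat 0, .ofNat 128, .negSucc 216, .negSucc 157, .ofNat 0, .ofNat 159, .ofNat 84, .ofNat 0, .ofNat 0, .ofNat 478, .ofNat 631, .ofNat 0, .ofNat 0, .ofNat 54012201067155962026050715648, .ofNat 0, .ofNat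 0, .ofNat 0, .ofNat 2784145015306504339071684313088, .ofNat 0, .ofNat 0, .ofNat 0, .ofNat 3951859126930761093607451525120, .ofNat 0, .ofNat 0, .ofNat 0, .ofNat 315159695719601519399735918592, .ofNat 0⟩)
    (by decide +kernel)
theorem L00714 : Good (Phi V5.P V5.D (-1) (-1)) ⟨3, 0, 2, 2, 1, 1, 3, 2, 3, 1⟩ :=
  leafX_sound T5.ok_mm T5.Ymm.bz_eq (w := 186) (c := ⟨⟨.negSucc 977, .ofNat 4, .ofNat 138, .negSucc 150, .ofNat 66, .negSucc 280⟩, ⟨.ofNat 459, .negSucc 63, .ofNat 251, .ofNat 133, .negSucc 33, .ofNat 137⟩, ⟨.ofNat 203, .negSucc 31, .negSucc 50, .negSucc 87, .ofNat 61, .ofNat 600⟩, ⟨.negSucc 3157, .negSucc 74, .ofNat 310, .ofNat 36, .ofNat 197, .negSucc 915⟩, ⟨.negSucc 430, .negSucc 312, .negSucc 47, .ofNat 954, .negSucc 4, .negSucc 141⟩, .ofNat 1318, .ofNat 1329, .ofNat 0, .ofNat 1329, .ofNat 2871, .ofNat 0, .ofNat 128, .negSucc 137, .negSucc 53, .ofNat 0,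 .ofNat 113, .ofNat 30, .ofNat 0, .ofNat 0, .ofNat 304, .ofNat 951, .ofNat 0, .ofNat 0, .ofNat 371128562679120363570415534080, .ofNat 0, .ofNat 0, .ofNat 0, .ofNat 0, .ofNat 0, .ofNat 0, .ofNat 0, .ofNat 27821895040671756369866321297408, .ofNat 0, .ofNat 0, .ofNat 0, .ofNat 27386086192256709225213660758016, .ofNat 0⟩)
    (by decide +kernel)
theorem L00715 : Good (Phi V5.P V5.D (-1) (-1)) ⟨3, 0, 2, 2, 1, 1, 3, 3, 3, 1⟩ :=
  leafX_sound T5.ok_mm T5.Ymm.bz_eq (w := 186) (c := ⟨⟨.negSucc 886, .negSucc 17, .ofNat 36, .negSucc 135, .ofNat 29, .negSucc 308⟩, ⟨.ofNat 416, .negSucc 39, .ofNat 277, .ofNat 106, .negSucc 13, .ofNat 150⟩, ⟨.ofNat 272, .negSucc 37, .negSucc 121, .negSucc 2, .ofNat 105, .ofNat 554⟩, ⟨.negSucc 2885, .negSucc 31, .negSucc 95, .negSucc 99, .ofNat 90, .negSucc 970⟩, ⟨.negSucc 419, .negSucc 109, .negSucc 238, .ofNat 605, .ofNat 1, .negSucc 96⟩,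 .ofNat 1712, .ofNat 1975, .ofNat 0, .ofNat 1975, .ofNat 4025, .ofNat 0, .ofNat 128, .negSucc 225, .negSucc 90, .ofNat 0, .ofNat 174, .ofNat 49, .ofNat 0, .ofNat 0, .ofNat 508, .ofNat 653, .ofNat 0, .ofNat 0, .ofNat 1091676065922635349133711376384, .ofNat 0, .ofNat 0, .ofNat 0, .ofNat 0, .ofNat 0, .ofNat 0, .ofNat 0, .ofNat 48932486972958269085276134440960, .ofNat 0, .ofNat 0, .ofNat 0, .ofNat 64174830340814734429307556331520, .ofNat 0⟩)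
    (by decide +kernel)
theorem L00716 : Good (Phi V5.P V5.D (-1) (-1)) ⟨3, 0, 2, 3, 1, 1, 1, 0, 2, 0⟩ :=
  out_sound (S := T5.ds_mm) T5.ok_mm (w := 43) (j := 3) (by decide +kernel)
theorem L00717 : Good (Phi V5.P V5.D (-1) (-1)) ⟨3, 0, 3, 4, 1, 0, 2, 2, 3, 0⟩ :=
  leafX_sound T5.ok_mm T5.Ymm.bz_eq (w := 185) (c := ⟨⟨.negSucc 97, .ofNat 113, .ofNat 138, .ofNat 344, .negSucc 81, .negSucc 1059⟩, ⟨.ofNat 55, .negSucc 90, .negSucc 26, .negSucc 187, .ofNat 37, .ofNat 526⟩, ⟨.negSucc 38, .negSucc 131, .negSucc 30, .negSucc 507, .ofNat 159, .ofNat 1021⟩, ⟨.negSucc 254, .ofNat 350, .ofNat 453, .ofNat 868, .negSucc 268, .negSucc 3248⟩, ⟨.ofNat 96, .negSucc 44, .ofNat 86, .negSucc 326, .negSucc 28, .negSucc 171⟩, .ofNat 1297, .ofNat 1302, .ofNat 0, .ofNat 1302, .ofNat 2849, .ofNat 0, .ofNat 128, .negSucc 164, .negSucc 160, .ofNat 0, .ofNat 140, .ofNat 82, .ofNat 0, .ofNat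 0, .ofNat 476, .ofNat 742, .ofNat 0, .ofNat 0, .ofNat 0, .ofNat 0, .ofNat 0, .ofNat 0, .ofNat 3422726842515724956103746781184, .ofNat 0, .ofNat 0, .ofNat 0, .ofNat 5737228748444667387841282572288, .ofNat 0, .ofNat 0, .ofNat 0, .ofNat 0, .ofNat 0⟩)
    (by decide +kernel)
theorem L00718 : Good (Phi V5.P V5.D (-1) (-1)) ⟨3, 0, 3, 4, 1, 1, 2, 2, 3, 0⟩ :=
  leafX_sound T5.ok_mm T5.Ymm.bz_eq (w := 186) (c := ⟨⟨.ofNat 664, .negSucc 107, .negSucc 241, .negSucc 32, .negSucc 323, .negSucc 1180⟩, ⟨.negSucc 313, .ofNat 37, .ofNat 121, .ofNat 64, .ofNat 149, .ofNat 557⟩, ⟨.negSucc 746, .ofNat 210, .ofNat 390, .ofNat 642, .ofNat 433, .ofNat 457⟩, ⟨.ofNat 2108, .negSucc 289, .negSucc 399, .ofNat 354, .negSucc 1127, .negSucc 3984⟩, ⟨.ofNat 275, .ofNat 53, .ofNat 510, .ofNat 894, .negSucc 313, .negSucc 931⟩, .ofNat 1572, .ofNat 1744, .ofNat 0, .ofNat 1744, .ofNat 3604, .ofNat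 0, .ofNat 128, .negSucc 170, .negSucc 132, .ofNat 0, .ofNat 125, .ofNat 72, .ofNat 0, .ofNat 0, .ofNat 352, .ofNat 521, .ofNat 0, .ofNat 0, .ofNat 0, .ofNat 0, .ofNat 0, .ofNat 0, .ofNat 0, .ofNat 0, .ofNat 0, .ofNat 0, .ofNat 0, .ofNat 0, .ofNat 0, .ofNat 0, .ofNat 0, .ofNat 0⟩)
    (by decide +kernel)
theorem L00719 : Good (Phi V5.P V5.D (-1) (-1)) ⟨3, 0, 3, 4, 1, 0, 2, 2, 3, 1⟩ :=
  leafX_sound T5.ok_mm T5.Ymm.bz_eq (w := 186) (c := ⟨⟨.negSucc 1008, .negSucc 30, .ofNat 59, .negSucc 12, .ofNat 90, .negSucc 139⟩, ⟨.ofNat 500, .negSucc 26, .ofNat 102, .negSucc 10, .negSucc 43, .ofNat 74⟩, ⟨.ofNat 852, .negSucc 28, .negSucc 108, .negSucc 137, .negSucc 86, .ofNat 341⟩, ⟨.negSucc 3074, .negSucc 42, .ofNat 130, .negSucc 209, .ofNat 297, .negSucc 381⟩, ⟨.negSucc 78, .negSucc 17, .negSucc 51, .negSucc 346, .ofNat 51, .ofNat 75⟩, .ofNat 1323, .ofNat 1343, .ofNat 0,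 .ofNat 1343, .ofNat 2903, .ofNat 0, .ofNat 128, .negSucc 192, .negSucc 87, .ofNat 0, .ofNat 164, .ofNat 46, .ofNat 0, .ofNat 0, .ofNat 460, .ofNat 1652, .ofNat 0, .ofNat 0, .ofNat 0, .ofNat 0, .ofNat 0, .ofNat 0, .ofNat 0, .ofNat 0, .ofNat 0, .ofNat 0, .ofNat 0, .ofNat 0, .ofNat 0, .ofNat 0, .ofNat 1459340586712533974174723473408, .ofNat 0⟩)
    (by decide +kernel)
theorem L00720 : Good (Phi V5.P V5.D (-1) (-1)) ⟨3, 0, 3, 4, 1, 1, 2, 2, 4, 2⟩ :=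
  leafX_sound T5.ok_mm T5.Ymm.bz_eq (w := 190) (c := ⟨⟨.negSucc 666, .negSucc 66, .negSucc 20, .negSucc 224, .negSucc 56, .negSucc 369⟩, ⟨.ofNat 306, .negSucc 6, .ofNat 139, .ofNat 153, .ofNat 35, .ofNat 181⟩, ⟨.ofNat 139, .ofNat 42, .ofNat 49, .ofNat 283, .ofNat 373, .ofNat 414⟩, ⟨.negSucc 2251, .negSucc 206, .ofNat 56, .negSucc 298, .negSucc 117, .negSucc 1144⟩, ⟨.negSucc 468, .negSucc 124, .ofNat 246, .ofNat 743, .ofNat 104, .negSucc 96⟩, .ofNat 1683, .ofNat 1932, .ofNat 0, .ofNat 1932, .ofNat 3969, .ofNat 0, .ofNat 128, .negSucc 256, .negSucc 94, .ofNat 0, .ofNat 193, .ofNat 48, .ofNat 0, .ofNat 0, .ofNat 386, .ofNat 552, .ofNat 0, .ofNat 0, .ofNat 0, .ofNat 0, .ofNat 0, .ofNat 0, .ofNat 0, .ofNat 0, .ofNat 0, .ofNat 0, .ofNat 0, .ofNat 0, .ofNat 0, .ofNat 0, .ofNat 136542079435373253435548778889216, .ofNat 0⟩)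
    (by decide +kernel)
theorem L00721 : Good (Phi V5.P V5.D (-1) (-1)) ⟨3, 0, 3, 4, 2, 2, 2, 2, 4, 3⟩ :=
  leafX_sound T5.ok_mm T5.Ymm.bz_eq (w := 206) (c := ⟨⟨.negSucc 1042, .negSucc 18, .negSucc 11, .negSucc 132, .negSucc 6, .negSucc 83⟩, ⟨.ofNat 492, .negSucc 34, .ofNat 172, .ofNat 76, .ofNat 11, .ofNat 45⟩, ⟨.ofNat 637, .negSucc 54, .ofNat 36, .ofNat 68, .ofNat 262, .ofNat 241⟩, ⟨.negSucc 3388, .ofNat 15, .negSucc 22, .negSucc 298, .ofNat 18, .negSucc 222⟩, ⟨.negSucc 489, .negSucc 20, .ofNat 98, .ofNat 188, .ofNat 90, .ofNat 48⟩, .ofNat 2001, .ofNat 2466, .ofNat 0, .ofNat 2466, .ofNat 4916, .ofNat 0, .ofNat 128, .negSucc 411, .negSucc 193, .ofNat 0, .ofNat 313, .ofNat 101, .ofNat 0, .ofNat 0, .ofNat 1268, .ofNat 3819, .ofNat 0, .ofNat 0, .ofNat 0, .ofNat 0, .ofNat 0, .ofNat 0, .ofNat 0, .ofNat 0, .ofNat 0, .ofNat 0, .ofNat 0, .ofNat 0, .ofNat 0, .ofNat 0,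 .ofNat 0, .ofNat 0⟩)
    (by decide +kernel)
theorem L00722 : Good (Phi V5.P V5.D (-1) (-1)) ⟨3, 0, 3, 4, 2, 3, 2, 2, 5, 6⟩ :=
  leafX_sound T5.ok_mm T5.Ymm.bz_eq (w := 209) (c := ⟨⟨.negSucc 1143, .ofNat 68, .negSucc 23, .negSucc 230, .negSucc 119, .negSucc 62⟩, ⟨.ofNat 556, .negSucc 93, .ofNat 177, .ofNat 151, .ofNat 73, .ofNat 36⟩, ⟨.ofNat 617, .negSucc 111, .ofNat 71, .ofNat 285, .ofNat 467, .ofNat 121⟩, ⟨.negSucc 3580, .ofNat 186, .negSucc 29, .negSucc 373, .negSucc 221, .negSucc 167⟩, ⟨.negSucc 274, .negSucc 121, .ofNat 69, .ofNat 606, .ofNat 248, .ofNat 55⟩, .ofNat 1071, .ofNat 949, .ofNat 0, .ofNat 949, .ofNat 2176, .ofNat 0, .ofNat 128, .negSucc 220, .negSucc 50, .ofNat 0, .ofNat 192, .ofNat 13, .ofNat 0, .ofNat 0, .ofNat 487, .ofNat 1071, .ofNat 0, .ofNat 0, .ofNat 0, .ofNat 0, .ofNat 0, .ofNat 0, .ofNat 0, .ofNat 0, .ofNat 0, .ofNat 283412169619259512824751286573342983716864,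 .ofNat 85114108601763918544568031747833331712, .ofNat 0, .ofNat 0, .ofNat 283316360954196024662715634828750419394560, .ofNat 207491497719972502765015736137812017152, .ofNat 0⟩)
    (by decide +kernel)
theorem L00723 : Good (Phi V5.P V5.D (-1) (-1)) ⟨3, 0, 3, 4, 2, 3, 2, 2, 5, 7⟩ :=
  leafX_sound T5.ok_mm T5.Ymm.bz_eq (w := 210) (c := ⟨⟨.negSucc 1229, .ofNat 77, .negSucc 24, .negSucc 186, .negSucc 113, .ofNat 4⟩, ⟨.ofNat 601, .negSucc 96, .ofNat 180, .ofNat 132, .ofNat 70, .negSucc 2⟩, ⟨.ofNat 737, .negSucc 118, .ofNat 72, .ofNat 298, .ofNat 485, .ofNat 104⟩, ⟨.negSucc 3818, .ofNat 236, .negSucc 60, .negSucc 208, .negSucc 226, .ofNat 9⟩, ⟨.negSucc 250, .negSucc 96, .ofNat 13, .ofNat 683, .ofNat 224, .ofNat 12⟩, .ofNat 1548, .ofNat 1704, .ofNat 0, .ofNat 1704, .ofNat 3540, .ofNat 0, .ofNat 128, .negSucc 235, .negSucc 10, .ofNat 0, .ofNat 193, .negSucc 11, .ofNat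 0, .ofNat 0, .ofNat 770, .ofNat 933, .ofNat 0, .ofNat 0, .ofNat 0, .ofNat 0, .ofNat 0, .ofNat 0, .ofNat 0, .ofNat 0, .ofNat 0, .ofNat 375476625038244521967272458564075826184192, .ofNat 118066719054737512248972621824365953024, .ofNat 0, .ofNat 0, .ofNat 982134295933877881930118902375029736996864, .ofNat 477067140389359934119104291154576801792, .ofNat 0⟩)
    (by decide +kernel)
theorem L00724 : Good (Phi V5.P V5.D (-1) (-1)) ⟨3, 0, 3, 4, 1, 0, 3, 6, 3, 0⟩ :=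
  leafX_sound T5.ok_mm T5.Ymm.bz_eq (w := 189) (c := ⟨⟨.negSucc 362, .negSucc 13, .negSucc 1, .ofNat 294, .ofNat 45, .negSucc 644⟩, ⟨.ofNat 177, .ofNat 0, .ofNat 87, .negSucc 167, .negSucc 28, .ofNat 329⟩, ⟨.ofNat 213, .ofNat 0, .ofNat 59, .negSucc 298, .negSucc 27, .ofNat 606⟩, ⟨.negSucc 1097, .negSucc 42, .negSucc 72, .ofNat 697, .ofNat 111, .negSucc 1888⟩, ⟨.negSucc 12, .negSucc 61, .negSucc 86, .negSucc 359, .negSucc 36, .ofNat 73⟩, .ofNat 1328, .ofNat 1344, .ofNat 0, .ofNat 1344, .ofNat 2884, .ofNat 0, .ofNat 177, .negSucc 127, .negSucc 190, .ofNat 0, .ofNat 109, .ofNat 98, .ofNat 0, .ofNat 0, .ofNat 516, .ofNat 866, .ofNat 0, .ofNat 0, .ofNat 0, .ofNat 0, .ofNat 0, .ofNat 0, .ofNat 0, .ofNat 0, .ofNat 0, .ofNat 0, .ofNat 94981379985176896388886670868480, .ofNat 0, .ofNat 0, .ofNat 0, .ofNat 0, .ofNat 0⟩)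
    (by decide +kernel)
theorem L00725 : Good (Phi V5.P V5.D (-1) (-1)) ⟨3, 0, 3, 4, 1, 0, 4, 14, 3, 0⟩ :=
  leafX_sound T5.ok_mm T5.Ymm.bz_eq (w := 193) (c := ⟨⟨.negSucc 383, .ofNat 9, .ofNat 6, .ofNat 135, .ofNat 57, .negSucc 427⟩, ⟨.ofNat 187, .negSucc 24, .ofNat 71, .negSucc 79, .negSucc 29, .ofNat 217⟩, ⟨.ofNat 233, .negSucc 47, .ofNat 80, .ofNat 11, .negSucc 37, .ofNat 285⟩, ⟨.negSucc 1194, .ofNat 70, .ofNat 25, .ofNat 302, .ofNat 143, .negSucc 1263⟩, ⟨.negSucc 86, .ofNat 30, .ofNat 60, .negSucc 194, .negSucc 42, .ofNat 14⟩, .ofNat 1696, .ofNat 1942, .ofNat 0, .ofNat 1942, .ofNat 3957, .ofNat 0, .ofNat 128, .negSucc 158, .negSucc 348, .ofNat 0, .ofNat 129, .ofNat 181, .ofNat 0, .ofNat 0, .ofNat 899, .ofNat 1336, .ofNat 0, .ofNat 0, .ofNat 0, .ofNat 0, .ofNat 0, .ofNat 0, .ofNat 0, .ofNat 0, .ofNat 0, .ofNat 0, .ofNat 604621209480821554655686647873536, .ofNat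 0, .ofNat 0, .ofNat 0, .ofNat 0, .ofNat 0⟩)
    (by decide +kernel)
theorem L00726 : Good (Phi V5.P V5.D (-1) (-1)) ⟨3, 0, 3, 4, 3, 0, 4, 15, 3, 0⟩ :=
  leafX_sound T5.ok_mm T5.Ymm.bz_eq (w := 222) (c := ⟨⟨.negSucc 438, .ofNat 10, .ofNat 9, .ofNat 63, .ofNat 311, .negSucc 185⟩, ⟨.ofNat 221, .negSucc 19, .ofNat 35, .negSucc 38, .negSucc 157, .ofNat 94⟩, ⟨.ofNat 353, .negSucc 28, .negSucc 11, .negSucc 89, .negSucc 348, .ofNat 39⟩, ⟨.negSucc 1308, .ofNat 35, .ofNat 30, .ofNat 109, .ofNat 914, .negSucc 549⟩, ⟨.ofNat 18, .negSucc 32, .ofNat 6, .negSucc 156, .negSucc 21, .ofNat 7⟩, .ofNat 1066, .ofNat 940, .ofNat 0, .ofNat 940, .ofNat 2161, .ofNat 0, .ofNat 128, .negSucc 144, .negSucc 222, .ofNat 0, .ofNat 137, .ofNat 107, .ofNat 0, .ofNat 0, .ofNat 552, .ofNat 3431, .ofNat 0, .ofNat 0, .ofNat 1117050452176933017524031406284002557952, .ofNat 0, .ofNat 0, .ofNat 0,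 .ofNat 0, .ofNat 0, .ofNat 0, .ofNat 17430638356691821541477727267795453492592640, .ofNat 402122525025024753568560073017799764606976, .ofNat 0, .ofNat 0, .ofNat 0, .ofNat 0, .ofNat 0⟩)
    (by decide +kernel)
theorem L00727 : Good (Phi V5.P V5.D (-1) (-1)) ⟨3, 0, 3, 4, 3, 1, 4, 15, 3, 0⟩ :=
  leafX_sound T5.ok_mm T5.Ymm.bz_eq (w := 222) (c := ⟨⟨.negSucc 320, .ofNat 5, .ofNat 1, .ofNat 5, .ofNat 281, .negSucc 247⟩, ⟨.ofNat 153, .negSucc 10, .ofNat 43, .negSucc 12, .negSucc 144, .ofNat 127⟩, ⟨.ofNat 193, .negSucc 45, .ofNat 6, .ofNat 17, .negSucc 303, .ofNat 120⟩, ⟨.negSucc 1049, .ofNat 44, .negSucc 24, .negSucc 45, .ofNat 817, .negSucc 714⟩, ⟨.negSucc 166, .ofNat 8, .ofNat 3, .negSucc 124, .negSucc 36, .ofNat 41⟩, .ofNat 1330, .ofNat 1351, .ofNat 0, .ofNat 1351, .ofNat 2906, .ofNat 0, .ofNat 128, .negSucc 185, .negSucc 252, .ofNat 0, .ofNat 160, .ofNat 127, .ofNat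 0, .ofNat 0, .ofNat 613, .ofNat 4092, .ofNat 0, .ofNat 0, .ofNat 3543371027432584166385470691038132699136, .ofNat 0, .ofNat 0, .ofNat 0, .ofNat 0, .ofNat 0, .ofNat 0, .ofNat 32126362342800718026844343970163944796979200, .ofNat 578531061383550000664385888372090516537344, .ofNat 0, .ofNat 0, .ofNat 127572921341083417402664564029283053984546816, .ofNat 317843357488038865005539950001401463046144, .ofNat 0⟩)
    (by decide +kernel)
theorem L00728 : Good (Phi V5.P V5.D (-1) (-1)) ⟨3, 0, 3, 4, 2, 1, 4, 15, 3, 0⟩ :=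
  leafX_sound T5.ok_mm T5.Ymm.bz_eq (w := 208) (c := ⟨⟨.negSucc 170, .ofNat 16, .ofNat 58, .negSucc 163, .ofNat 158, .negSucc 384⟩, ⟨.ofNat 62, .negSucc 17, .ofNat 26, .ofNat 90, .negSucc 75, .ofNat 196⟩, ⟨.ofNat 32, .negSucc 82, .negSucc 55, .ofNat 364, .negSucc 133, .ofNat 262⟩, ⟨.negSucc 700, .ofNat 64, .ofNat 124, .negSucc 425, .ofNat 474, .negSucc 1098⟩, ⟨.negSucc 359, .negSucc 30, .negSucc 34, .ofNat 122, .ofNat 13, .ofNat 86⟩, .ofNat 1901, .ofNat 2295, .ofNat 0, .ofNat 2295, .ofNat 4607, .ofNat 0, .ofNat 128, .negSucc 208, .negSucc 283, .ofNat 0, .ofNat 166, .ofNat 147, .ofNat 0, .ofNat 0, .ofNat 676, .ofNat 1646, .ofNat 0, .ofNat 0, .ofNat 0, .ofNat 0, .ofNat 0, .ofNat 0, .ofNat 0, .ofNat 0, .ofNat 0, .ofNat 57615241929854352918971647068847323742208, .ofNat 47078532770383970853559045755244642304, .ofNat 0, .ofNat 0, .ofNat 0, .ofNat 56633988882988757489576555861248049152,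 .ofNat 0⟩)
    (by decide +kernel)
theorem L00729 : Good (Phi V5.P V5.D (-1) (-1)) ⟨3, 0, 3, 4, 1, 0, 3, 6, 3, 1⟩ :=
  leafX_sound T5.ok_mm T5.Ymm.bz_eq (w := 190) (c := ⟨⟨.negSucc 839, .negSucc 51, .negSucc 81, .negSucc 87, .ofNat 92, .negSucc 144⟩, ⟨.ofNat 413, .negSucc 9, .ofNat 170, .ofNat 30, .negSucc 44, .ofNat 77⟩, ⟨.ofNat 567, .ofNat 57, .ofNat 216, .ofNat 157, .negSucc 117, .ofNat 225⟩, ⟨.negSucc 2549, .negSucc 89, .negSucc 269, .negSucc 430, .ofNat 257, .negSucc 388⟩, ⟨.negSucc 43, .ofNat 16, .ofNat 3, .negSucc 335, .negSucc 28, .ofNat 81⟩, .ofNat 1994, .ofNat 2439, .ofNat 0, .ofNat 2439, .ofNat 4833, .ofNat 0, .ofNat 128, .negSucc 225, .negSucc 144, .ofNat 0, .ofNat 180, .ofNat 76, .ofNat 0, .ofNat 0, .ofNat 696, .ofNat 1639, .ofNat 0, .ofNat 0, .ofNat 0, .ofNat 0, .ofNat 0, .ofNat 0, .ofNat 0, .ofNat 0, .ofNat 0, .ofNat 0, .ofNat 0, .ofNat 0, .ofNat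 0, .ofNat 0, .ofNat 3761200757665444295901332897792, .ofNat 0⟩)
    (by decide +kernel)
theorem L00730 : Good (Phi V5.P V5.D (-1) (-1)) ⟨3, 0, 3, 4, 1, 0, 3, 7, 3, 1⟩ :=
  leafX_sound T5.ok_mm T5.Ymm.bz_eq (w := 189) (c := ⟨⟨.negSucc 643, .ofNat 26, .negSucc 91, .negSucc 285, .ofNat 290, .negSucc 231⟩, ⟨.ofNat 312, .negSucc 44, .ofNat 154, .ofNat 137, .negSucc 141, .ofNat 123⟩, ⟨.ofNat 338, .negSucc 52, .ofNat 157, .ofNat 571, .negSucc 398, .ofNat 216⟩, ⟨.negSucc 2034, .ofNat 108, .negSucc 214, .negSucc 897, .ofNat 894, .negSucc 618⟩, ⟨.negSucc 195, .negSucc 19, .ofNat 134, .negSucc 89, .ofNat 66, .ofNat 149⟩, .ofNat 1328, .ofNat 1348, .ofNat 0, .ofNat 1348, .ofNat 2901, .ofNat 0, .ofNat 128, .negSucc 202, .negSucc 164, .ofNat 0, .ofNat 172, .ofNat 83, .ofNat 0, .ofNat 0, .ofNat 646, .ofNat 785, .ofNat 0, .ofNat 0, .ofNat 881841604554645727915469176832, .ofNat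 0, .ofNat 0, .ofNat 3271574494449984478318165323973394432, .ofNat 0, .ofNat 0, .ofNat 0, .ofNat 6023212031566568021694936670386782208, .ofNat 5453593238643923599670957309952, .ofNat 0, .ofNat 0, .ofNat 7775840651791950999171772506297073664, .ofNat 0, .ofNat 0⟩)
    (by decide +kernel)
theorem L00731 : Good (Phi V5.P V5.D (-1) (-1)) ⟨3, 0, 3, 4, 2, 2, 2, 3, 3, 0⟩ :=
  leafX_sound T5.ok_mm T5.Ymm.bz_eq (w := 199) (c := ⟨⟨.ofNat 53, .ofNat 156, .negSucc 147, .negSucc 126, .negSucc 431, .negSucc 684⟩, ⟨.negSucc 41, .negSucc 106, .ofNat 135, .ofNat 96, .ofNat 238, .ofNat 333⟩, ⟨.negSucc 129, .negSucc 253, .ofNat 181, .ofNat 401, .ofNat 709, .ofNat 463⟩, ⟨.negSucc 20, .ofNat 364, .negSucc 241, .negSucc 64, .negSucc 1072, .negSucc 2148⟩, ⟨.negSucc 324, .negSucc 255, .ofNat 379, .ofNat 624, .ofNat 432, .negSucc 226⟩, .ofNat 1334, .ofNat 1354, .ofNat 0, .ofNat 1354, .ofNat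 2903, .ofNat 0, .ofNat 128, .negSucc 177, .negSucc 202, .ofNat 0, .ofNat 142, .ofNat 108, .ofNat 0, .ofNat 0, .ofNat 476, .ofNat 765, .ofNat 0, .ofNat 0, .ofNat 0, .ofNat 0, .ofNat 0, .ofNat 0, .ofNat 0, .ofNat 0, .ofNat 0, .ofNat 66409485899557950982973311626539696128, .ofNat 35387835278611495958438971711684608, .ofNat 0, .ofNat 0, .ofNat 0, .ofNat 118760162426379915570347387738128384, .ofNat 0⟩)
    (by decide +kernel)
theorem L00732 : Good (Phi V5.P V5.D (-1) (-1)) ⟨3, 0, 3, 4, 2, 3, 2, 3, 3, 0⟩ :=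
  leafX_sound T5.ok_mm T5.Ymm.bz_eq (w := 199) (c := ⟨⟨.ofNat 127, .ofNat 149, .ofNat 2, .negSucc 202, .negSucc 705, .negSucc 869⟩, ⟨.negSucc 46, .negSucc 110, .ofNat 54, .ofNat 96, .ofNat 387, .ofNat 438⟩, ⟨.ofNat 203, .negSucc 219, .ofNat 105, .ofNat 290, .ofNat 839, .ofNat 431⟩, ⟨.ofNat 495, .ofNat 380, .negSucc 56, .negSucc 644, .negSucc 1748, .negSucc 2584⟩, ⟨.ofNat 251, .negSucc 111, .negSucc 170, .negSucc 64, .ofNat 681, .negSucc 18⟩, .ofNat 1345, .ofNat 1372, .ofNat 0, .ofNat 1372, .ofNat 2929, .ofNat 0, .ofNat 128, .negSucc 284, .negSucc 136, .ofNat 0, .ofNat 207, .ofNat 71, .ofNat 0, .ofNat 0, .ofNat 338, .ofNat 576, .ofNat 0, .ofNat 0, .ofNat 0, .ofNat 0, .ofNat 0, .ofNat 0, .ofNat 0, .ofNat 0, .ofNat 0, .ofNat 3584989695829623100592431262708940144640, .ofNat 152591422032583520789772200067465216, .ofNat 0, .ofNat 0, .ofNat 680877658552277349095973661829333254144,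 .ofNat 98596837608602243384835085625720832, .ofNat 0⟩)
    (by decide +kernel)
theorem L00733 : Good (Phi V5.P V5.D (-1) (-1)) ⟨3, 0, 3, 4, 2, 2, 2, 3, 4, 2⟩ :=
  leafX_sound T5.ok_mm T5.Ymm.bz_eq (w := 205) (c := ⟨⟨.negSucc 736, .ofNat 44, .negSucc 31, .negSucc 246, .negSucc 192, .negSucc 292⟩, ⟨.ofNat 341, .negSucc 64, .ofNat 150, .ofNat 147, .ofNat 124, .ofNat 150⟩, ⟨.ofNat 487, .negSucc 156, .ofNat 73, .ofNat 366, .ofNat 504, .ofNat 327⟩, ⟨.negSucc 2422, .ofNat 121, .negSucc 134, .negSucc 540, .negSucc 326, .negSucc 865⟩, ⟨.negSucc 385, .negSucc 148, .negSucc 58, .ofNat 373, .ofNat 507, .ofNat 4⟩, .ofNat 1314, .ofNat 1327, .ofNat 0, .ofNat 1327, .ofNat 2879, .ofNat 0, .ofNat 128, .negSucc 319, .negSucc 150, .ofNat 0, .ofNat 253, .ofNat 76, .ofNat 0, .ofNat 0, .ofNat 515, .ofNat 927, .ofNat 0, .ofNat 0, .ofNat 0, .ofNat 0, .ofNat 0, .ofNat 14942932364840428414818283174236224749568,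 .ofNat 2083102339395724082474977859010035712, .ofNat 0, .ofNat 0, .ofNat 68909626857500510762382466561418817699840, .ofNat 4655979672866310347305628481812955136, .ofNat 0, .ofNat 0, .ofNat 43226103613890931506333832744495579398144, .ofNat 3679356019409717856832120799400820736, .ofNat 0⟩)
    (by decide +kernel)
theorem L00734 : Good (Phi V5.P V5.D (-1) (-1)) ⟨3, 0, 3, 4, 2, 2, 2, 3, 4, 3⟩ :=
  leafX_sound T5.ok_mm T5.Ymm.bz_eq (w := 205) (c := ⟨⟨.negSucc 1013, .ofNat 6, .negSucc 46, .negSucc 255, .negSucc 164, .negSucc 64⟩, ⟨.ofNat 483, .negSucc 45, .ofNat 188, .ofNat 142, .ofNat 104, .ofNat 32⟩, ⟨.ofNat 829, .negSucc 139, .ofNat 102, .ofNat 344, .ofNat 403, .ofNat 197⟩, ⟨.negSucc 3287, .ofNat 145, .negSucc 108, .negSucc 611, .negSucc 273, .negSucc 180⟩, ⟨.negSucc 468, .ofNat 119, .ofNat 107, .ofNat 291, .ofNat 437, .ofNat 28⟩, .ofNat 1333, .ofNat 1360, .ofNat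 0, .ofNat 1360, .ofNat 2928, .ofNat 0, .ofNat 128, .negSucc 352, .negSucc 105, .ofNat 0, .ofNat 282, .ofNat 49, .ofNat 0, .ofNat 0, .ofNat 751, .ofNat 847, .ofNat 0, .ofNat 0, .ofNat 285871364624543719249275527851147264, .ofNat 0, .ofNat 0, .ofNat 25050451098688690341804418770026444619776, .ofNat 0, .ofNat 0, .ofNat 0, .ofNat 180188466658360033280473940899721281273856, .ofNat 0, .ofNat 0, .ofNat 0, .ofNat 137362417217286593984637103668490592583680, .ofNat 3793260760490626467252012125295476736, .ofNat 0⟩)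
    (by decide +kernel)
theorem L00735 : Good (Phi V5.P V5.D (-1) (-1)) ⟨3, 0, 3, 4, 2, 3, 2, 3, 4, 2⟩ :=
  leafX_sound T5.ok_mm T5.Ymm.bz_eq (w := 203) (c := ⟨⟨.negSucc 812, .ofNat 77, .ofNat 5, .negSucc 370, .negSucc 529, .negSucc 439⟩, ⟨.ofNat 407, .negSucc 114, .ofNat 133, .ofNat 210, .ofNat 314, .ofNat 235⟩, ⟨.ofNat 718, .negSucc 157, .ofNat 137, .ofNat 314, .ofNat 756, .ofNat 367⟩, ⟨.negSucc 2459, .ofNat 146, .negSucc 5, .negSucc 909, .negSucc 1143, .negSucc 1234⟩, ⟨.negSucc 11, .negSucc 279, .negSucc 132, .ofNat 401, .ofNat 863, .ofNat 168⟩, .ofNat 1316, .ofNat 1337, .ofNat 0, .ofNat 1337, .ofNat 2906, .ofNat 0, .ofNat 128, .negSucc 192, .negSucc 47, .ofNat 0, .ofNat 145, .ofNat 19, .ofNat 0, .ofNat 0, .ofNat 239, .ofNat 135, .ofNat 0, .ofNat 184780970940710357558740284938785914880, .ofNat 45451280271214437206467733243297792, .ofNat 0, .ofNat 0, .ofNat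 0, .ofNat 0, .ofNat 0, .ofNat 0, .ofNat 22153201100980382630348797243980890767360, .ofNat 0, .ofNat 0, .ofNat 0, .ofNat 9904505635286536766370343732541581688832, .ofNat 107205518172508111870099401910255616, .ofNat 0⟩)
    (by decide +kernel)
theorem L00736 : Good (Phi V5.P V5.D (-1) (-1)) ⟨3, 0, 3, 4, 3, 6, 3, 6, 4, 3⟩ :=
  leafX_sound T5.ok_mm T5.Ymm.bz_eq (w := 222) (c := ⟨⟨.negSucc 1278, .ofNat 73, .negSucc 20, .negSucc 149, .negSucc 183, .negSucc 75⟩, ⟨.ofNat 636, .negSucc 96, .ofNat 179, .ofNat 101, .ofNat 110, .ofNat 41⟩, ⟨.ofNat 1126, .negSucc 197, .ofNat 96, .ofNat 150, .ofNat 343, .ofNat 242⟩, ⟨.negSucc 3908, .ofNat 287, .negSucc 38, .negSucc 203, .negSucc 364, .negSucc 195⟩, ⟨.negSucc 120, .ofNat 22, .ofNat 0, .ofNat 480, .ofNat 353, .ofNat 58⟩, .ofNat 1843, .ofNat 2195, .ofNat 0, .ofNat 2195, .ofNat 4419, .ofNat 0, .ofNat 128, .negSucc 306, .negSucc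 20, .ofNat 0, .ofNat 231, .ofNat 4, .ofNat 0, .ofNat 0, .ofNat 396, .ofNat 122, .ofNat 0, .ofNat 0, .ofNat 0, .ofNat 0, .ofNat 0, .ofNat 0, .ofNat 0, .ofNat 0, .ofNat 0, .ofNat 0, .ofNat 0, .ofNat 0, .ofNat 0, .ofNat 803402904993668653784182462227827028966506496, .ofNat 118983631096635740716406076421293761101824, .ofNat 0⟩)
    (by decide +kernel)
theorem L00737 : Good (Phi V5.P V5.D (-1) (-1)) ⟨3, 0, 3, 4, 3, 7, 3, 6, 4, 3⟩ :=
  leafX_sound T5.ok_mm T5.Ymm.bz_eq (w := 221) (c := ⟨⟨.negSucc 1422, .ofNat 126, .negSucc 41, .negSucc 189, .negSucc 195, .negSucc 121⟩, ⟨.ofNat 736, .negSucc 136, .ofNat 185, .ofNat 110, .ofNat 134, .ofNat 80⟩, ⟨.ofNat 1243, .negSucc 167, .ofNat 138, .ofNat 157, .ofNat 324, .ofNat 258⟩, ⟨.negSucc 4063, .ofNat 403, .negSucc 142, .negSucc 475, .negSucc 303, .negSucc 257⟩, ⟨.ofNat 421, .negSucc 46, .negSucc 177, .ofNat 192, .ofNat 575,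 .ofNat 228⟩, .ofNat 1323, .ofNat 1344, .ofNat 0, .ofNat 1344, .ofNat 2906, .ofNat 0, .ofNat 164, .negSucc 127, .ofNat 1, .ofNat 0, .ofNat 102, .negSucc 7, .ofNat 0, .ofNat 0, .ofNat 189, .ofNat 170, .ofNat 0, .ofNat 0, .ofNat 0, .ofNat 0, .ofNat 0, .ofNat 0, .ofNat 0, .ofNat 0, .ofNat 0, .ofNat 199259342663732756451828668306012942637203456, .ofNat 0, .ofNat 0, .ofNat 0, .ofNat 316680152912597370593139715644444565999452160, .ofNat 0, .ofNat 0⟩)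
    (by decide +kernel)
theorem L00738 : Good (Phi V5.P V5.D (-1) (-1)) ⟨3, 0, 3, 4, 2, 3, 3, 7, 4, 3⟩ :=
  leafX_sound T5.ok_mm T5.Ymm.bz_eq (w := 211) (c := ⟨⟨.negSucc 1461, .ofNat 85, .negSucc 19, .negSucc 456, .negSucc 308, .negSucc 199⟩, ⟨.ofNat 747, .negSucc 105, .ofNat 181, .ofNat 294, .ofNat 189, .ofNat 108⟩, ⟨.ofNat 1491, .negSucc 229, .ofNat 94, .ofNat 426, .ofNat 421, .ofNat 265⟩, ⟨.negSucc 4271, .ofNat 330, .negSucc 51, .negSucc 776, .negSucc 580, .negSucc 521⟩, ⟨.ofNat 248, .ofNat 32, .negSucc 50, .ofNat 1043, .ofNat 407, .ofNat 36⟩, .ofNat 450, .ofNat 175, .ofNat 0, .ofNat 175, .ofNat 652, .ofNat 0, .ofNat 155, .negSucc 95, .negSucc 52, .ofNat 0, .ofNat 128, .ofNat 6, .ofNat 0, .ofNat 0, .ofNat 221, .ofNat 5217, .ofNat 0, .ofNat 75726888621386255194855345166055200784384, .ofNat 0, .ofNat 0, .ofNat 0, .ofNat 1363759660596430514279189316694773032026112,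 .ofNat 18356956866208676112643069150704435200, .ofNat 0, .ofNat 0, .ofNat 904487081384895955988006626712566242476032, .ofNat 0, .ofNat 0, .ofNat 0, .ofNat 1047463829263408772920507991248174174961664, .ofNat 0, .ofNat 0⟩)
    (by decide +kernel)
theorem L00739 : Good (Phi V5.P V5.D (-1) (-1)) ⟨3, 0, 3, 5, 0, 0, 1, 1, 2, 0⟩ :=
  out_sound (S := T5.ds_mm) T5.ok_mm (w := 45) (j := 3) (by decide +kernel)
theorem L00740 : Good (Phi V5.P V5.D (-1) (-1)) ⟨3, 0, 2, 3, 0, 0, 1, 1, 2, 0⟩ :=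
  out_sound (S := T5.ds_mm) T5.ok_mm (w := 43) (j := 3) (by decide +kernel)
theorem L00741 : Good (Phi V5.P V5.D (-1) (-1)) ⟨3, 1, 1, 1, 0, 0, 0, 0, 2, 0⟩ :=
  out_sound (S := T5.ds_mm) T5.ok_mm (w := 41) (j := 3) (by decide +kernel)
theorem L00742 : Good (Phi V5.P V5.D (-1) (-1)) ⟨2, 1, 1, 1, 0, 0, 0, 0, 2, 0⟩ :=
  out_sound (S := T5.ds_mm) T5.ok_mm (w := 35) (j := 3) (by decide +kernel)
theorem L00743 : Good (Phi V5.P V5.D (-1) (-1)) ⟨2, 0, 1, 1, 1, 0, 1, 0, 4, 4⟩ :=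
  leafX_sound T5.ok_mm T5.Ymm.bz_eq (w := 179) (c := ⟨⟨.negSucc 1280, .negSucc 30, .ofNat 28, .ofNat 4, .ofNat 144, .ofNat 43⟩, ⟨.ofNat 635, .negSucc 74, .ofNat 594, .negSucc 22, .negSucc 68, .negSucc 20⟩, ⟨.ofNat 1351, .negSucc 52, .ofNat 141, .negSucc 244, .negSucc 156, .ofNat 80⟩, ⟨.negSucc 3902, .ofNat 13, .negSucc 44, .negSucc 195, .ofNat 487, .ofNat 140⟩, ⟨.negSucc 108, .negSucc 28, .ofNat 13, .negSucc 410, .ofNat 105, .ofNat 22⟩, .ofNat 818, .ofNat 583, .ofNat 0, .ofNat 583, .ofNat 1487, .ofNat 0, .ofNat 201, .negSucc 119, .negSucc 249, .ofNat 0, .ofNat 128, .ofNat 131, .ofNat 0, .ofNat 0, .ofNat 2355, .ofNat 7801, .ofNat 1689081486893408887870544416866304, .ofNat 0, .ofNat 1029615321201705908623252652032, .ofNat 0, .ofNat 0, .ofNat 0, .ofNat 121394343644999180002499061874688, .ofNat 0, .ofNat 9676964510457400949054888982085632, .ofNat 0, .ofNat 56765206392337166982886381846528,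 .ofNat 0, .ofNat 678218675124032407860387626388291584, .ofNat 0, .ofNat 270035822524893826557759790776320, .ofNat 0⟩)
    (by decide +kernel)
theorem L00744 : Good (Phi V5.P V5.D (-1) (-1)) ⟨2, 0, 1, 1, 1, 0, 2, 0, 4, 5⟩ :=
  out_sound (S := T5.ds_mm) T5.ok_mm (w := 22) (j := 1) (by decide +kernel)
theorem L00745 : Good (Phi V5.P V5.D (-1) (-1)) ⟨2, 0, 1, 1, 2, 0, 2, 1, 5, 10⟩ :=
  leafX_sound T5.ok_mm T5.Ymm.bz_eq (w := 205) (c := ⟨⟨.negSucc 1175, .negSucc 37, .ofNat 14, .ofNat 12, .ofNat 84, .ofNat 29⟩, ⟨.ofNat 587, .negSucc 70, .ofNat 553, .negSucc 14, .negSucc 40, .negSucc 14⟩, ⟨.ofNat 1420, .ofNat 24, .ofNat 26, .ofNat 22, .negSucc 275, .ofNat 0⟩, ⟨.negSucc 3533, .negSucc 9, .negSucc 15, .negSucc 62, .ofNat 254, .ofNat 87⟩, ⟨.negSucc 13, .ofNat 1, .ofNat 1, .negSucc 189, .ofNat 15, .ofNat 2⟩, .ofNat 450, .ofNat 175, .ofNat 0, .ofNat 175, .ofNat 654, .ofNat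 0, .ofNat 228, .negSucc 71, .negSucc 214, .ofNat 0, .ofNat 128, .ofNat 84, .ofNat 0, .ofNat 0, .ofNat 2197, .ofNat 66040, .ofNat 4692822600484919524044438409946184286208, .ofNat 0, .ofNat 10441484859359312336038530970789347328, .ofNat 0, .ofNat 13883625425297955257517446714443643748352, .ofNat 0, .ofNat 2310974392305431845803417302706021203968, .ofNat 0, .ofNat 0, .ofNat 0, .ofNat 912822187435176573156541881717383757824, .ofNat 0, .ofNat 0, .ofNat 0, .ofNat 0, .ofNat 0⟩)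
    (by decide +kernel)
theorem L00746 : Good (Phi V5.P V5.D (-1) (-1)) ⟨2, 0, 1, 1, 2, 1, 2, 1, 5, 10⟩ :=
  leafX_sound T5.ok_mm T5.Ymm.bz_eq (w := 203) (c := ⟨⟨.negSucc 1140, .negSucc 32, .ofNat 42, .negSucc 15, .ofNat 53, .ofNat 28⟩, ⟨.ofNat 555, .negSucc 66, .ofNat 567, .negSucc 0, .negSucc 22, .negSucc 13⟩, ⟨.ofNat 1259, .negSucc 78, .negSucc 40, .negSucc 88, .negSucc 65, .ofNat 53⟩, ⟨.negSucc 3551, .ofNat 27, .negSucc 4, .negSucc 136, .ofNat 185, .ofNat 90⟩, ⟨.negSucc 244, .negSucc 0, .negSucc 16, .negSucc 177, .ofNat 56, .ofNat 10⟩, .ofNat 1323, .ofNat 1341, .ofNat 0, .ofNat 1341, .ofNat 2896, .ofNat 0, .ofNat 128, .negSucc 134, .negSucc 123, .ofNat 0, .ofNat 115, .ofNat 68, .ofNat 0, .ofNat 0, .ofNat 1573, .ofNat 25994, .ofNat 1946552544893562582777858555613452173312, .ofNat 0, .ofNat 28301728435613238150232152664105287680, .ofNat 0, .ofNat 0, .ofNat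 0, .ofNat 1711756798545901022345086132671016337408, .ofNat 0, .ofNat 0, .ofNat 0, .ofNat 1349654995994112390640504533615183396864, .ofNat 0, .ofNat 0, .ofNat 0, .ofNat 1379294534872231689125673771427174547456, .ofNat 0⟩)
    (by decide +kernel)
theorem L00747 : Good (Phi V5.P V5.D (-1) (-1)) ⟨3, 0, 1, 1, 1, 0, 2, 1, 5, 11⟩ :=
  leafX_sound T5.ok_mm T5.Ymm.bz_eq (w := 194) (c := ⟨⟨.negSucc 1103, .negSucc 12, .ofNat 36, .negSucc 10, .ofNat 41, .ofNat 26⟩, ⟨.ofNat 545, .negSucc 35, .ofNat 543, .negSucc 10, .negSucc 15, .negSucc 12⟩, ⟨.ofNat 1183, .negSucc 10, .negSucc 4, .ofNat 70, .negSucc 36, .ofNat 60⟩, ⟨.negSucc 3345, .ofNat 19, .ofNat 1, .negSucc 212, .ofNat 155, .ofNat 90⟩, ⟨.negSucc 73, .negSucc 0, .negSucc 25, .negSucc 342, .ofNat 72, .ofNat 12⟩, .ofNat 450, .ofNat 174, .ofNat 0, .ofNat 174, .ofNat 653, .ofNat 0, .ofNat 187, .negSucc 73, .negSucc 76, .ofNat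 0, .ofNat 128, .ofNat 34, .ofNat 0, .ofNat 0, .ofNat 976, .ofNat 35420, .ofNat 13085088643963023460882150139860353024, .ofNat 0, .ofNat 345791724569203855531999129239552, .ofNat 0, .ofNat 0, .ofNat 0, .ofNat 3122702004230179987927830846504960, .ofNat 0, .ofNat 74720269874900818982589302340371611648, .ofNat 0, .ofNat 4333331780925438144515437936771072, .ofNat 0, .ofNat 459538571888218352094223058086385418240, .ofNat 0, .ofNat 15219155782342624181555773266984960, .ofNat 0⟩)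
    (by decide +kernel)
theorem L00748 : Good (Phi V5.P V5.D (-1) (-1)) ⟨3, 1, 1, 1, 1, 0, 2, 1, 5, 11⟩ :=
  out_sound (S := T5.ds_mm) T5.ok_mm (w := 41) (j := 3) (by decide +kernel)
theorem L00749 : Good (Phi V5.P V5.D (-1) (-1)) ⟨3, 0, 3, 4, 2, 2, 1, 0, 4, 4⟩ :=
  leafX_sound T5.ok_mm T5.Ymm.bz_eq (w := 202) (c := ⟨⟨.negSucc 1244, .negSucc 11, .ofNat 14, .negSucc 54, .ofNat 83, .ofNat 52⟩, ⟨.ofNat 585, .negSucc 38, .ofNat 160, .ofNat 32, .negSucc 29, .negSucc 24⟩, ⟨.ofNat 712, .ofNat 3, .ofNat 11, .negSucc 153, .ofNat 229, .ofNat 181⟩, ⟨.negSucc 4029, .ofNat 24, .negSucc 1, .negSucc 129, .ofNat 329, .ofNat 165⟩, ⟨.negSucc 589, .negSucc 39, .ofNat 13, .ofNat 64, .ofNat 180, .ofNat 19⟩, .ofNat 1927, .ofNat 2335, .ofNat 0, .ofNat 2335, .ofNat 4667, .ofNat 0, .ofNat 128, .negSucc 184, .negSucc 71, .ofNat 0, .ofNat 145, .ofNat 41, .ofNat 0, .ofNat 0, .ofNat 829,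 .ofNat 5914, .ofNat 4602585141264296268260349551601111793664, .ofNat 0, .ofNat 0, .ofNat 0, .ofNat 0, .ofNat 0, .ofNat 0, .ofNat 0, .ofNat 0, .ofNat 0, .ofNat 986542027042112245036485777333157888, .ofNat 0, .ofNat 99493609363568014271956563606636425379840, .ofNat 0, .ofNat 579092159419768907180119050489430016, .ofNat 0⟩)
    (by decide +kernel)
theorem L00750 : Good (Phi V5.P V5.D (-1) (-1)) ⟨3, 0, 3, 4, 2, 3, 2, 0, 4, 4⟩ :=
  leafX_sound T5.ok_mm T5.Ymm.bz_eq (w := 205) (c := ⟨⟨.negSucc 1306, .ofNat 27, .negSucc 15, .negSucc 17, .ofNat 18, .ofNat 95⟩, ⟨.ofNat 640, .negSucc 74, .ofNat 173, .ofNat 63, .negSucc 8, .negSucc 55⟩, ⟨.ofNat 467, .ofNat 31, .negSucc 5, .ofNat 115, .ofNat 156, .ofNat 196⟩, ⟨.negSucc 4060, .ofNat 62, .negSucc 30, .ofNat 427, .ofNat 29, .ofNat 232⟩, ⟨.negSucc 272, .negSucc 193, .ofNat 45, .ofNat 946, .negSucc 22, .negSucc 109⟩, .ofNat 1913,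 .ofNat 2310, .ofNat 0, .ofNat 2310, .ofNat 4620, .ofNat 0, .ofNat 128, .negSucc 285, .negSucc 22, .ofNat 0, .ofNat 247, .ofNat 7, .ofNat 0, .ofNat 0, .ofNat 611, .ofNat 965, .ofNat 0, .ofNat 0, .ofNat 0, .ofNat 0, .ofNat 0, .ofNat 0, .ofNat 0, .ofNat 0, .ofNat 0, .ofNat 0, .ofNat 0, .ofNat 0, .ofNat 0, .ofNat 49585502329356806708454362974719934726144, .ofNat 4462592154889702657443279654466093056, .ofNat 0⟩)
    (by decide +kernel)
theorem L00751 : Good (Phi V5.P V5.D (-1) (-1)) ⟨3, 0, 3, 4, 2, 3, 2, 1, 4, 4⟩ :=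
  leafX_sound T5.ok_mm T5.Ymm.bz_eq (w := 205) (c := ⟨⟨.negSucc 1275, .ofNat 27, .negSucc 6, .negSucc 47, .ofNat 1, .ofNat 86⟩, ⟨.ofNat 620, .negSucc 71, .ofNat 168, .ofNat 68, .ofNat 4, .negSucc 45⟩, ⟨.ofNat 637, .negSucc 65, .negSucc 22, .ofNat 148, .ofNat 258, .ofNat 220⟩, ⟨.negSucc 3982, .ofNat 68, .ofNat 6, .ofNat 249, .ofNat 40, .ofNat 219⟩, ⟨.negSucc 303, .negSucc 168, .ofNat 75, .ofNat 776, .ofNat 87, .negSucc 65⟩, .ofNat 1929, .ofNat 2325, .ofNat 0, .ofNat 2325, .ofNat 4620, .ofNat 0, .ofNat 128, .negSucc 289, .negSucc 10, .ofNat 0, .ofNat 244, .negSucc 8, .ofNat 0, .ofNat 0, .ofNat 1194, .ofNat 1278, .ofNat 0, .ofNat 0, .ofNat 0, .ofNat 0, .ofNat 0, .ofNat 0, .ofNat 0, .ofNat 0, .ofNat 0, .ofNat 0, .ofNat 0, .ofNat 0, .ofNat 0, .ofNat 308230513107538797115467883915273587130368, .ofNat 28696750396274886157490020709325340672, .ofNat 0⟩)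
    (by decide +kernel)
theorem L00752 : Good (Phi V5.P V5.D (-1) (-1)) ⟨3, 0, 3, 5, 1, 1, 1, 0, 4, 4⟩ :=
  out_sound (S := T5.ds_mm) T5.ok_mm (w := 45) (j := 3) (by decide +kernel)
theorem L00753 : Good (Phi V5.P V5.D (-1) (-1)) ⟨3, 1, 2, 2, 1, 1, 1, 0, 4, 4⟩ :=
  out_sound (S := T5.ds_mm) T5.ok_mm (w := 43) (j := 3) (by decide +kernel)
theorem L00754 : Good (Phi V5.P V5.D (-1) (-1)) ⟨2, 0, 2, 2, 2, 2, 2, 0, 4, 5⟩ :=
  leafX_sound T5.ok_mm T5.Ymm.bz_eq (w := 201) (c := ⟨⟨.negSucc 1163, .ofNat 4, .ofNat 13, .negSucc 33, .ofNat 6, .ofNat 111⟩, ⟨.ofNat 545, .negSucc 90, .ofNat 327, .ofNat 23, .ofNat 1, .negSucc 54⟩, ⟨.ofNat 1012, .negSucc 16, .ofNat 44, .negSucc 213, .ofNat 18, .ofNat 312⟩, ⟨.negSucc 3796, .ofNat 87, .negSucc 21, .negSucc 28, .ofNat 36, .ofNat 334⟩, ⟨.negSucc 599, .negSucc 151, .ofNat 99, .ofNat 126, .ofNat 55, .ofNat 13⟩, .ofNat 1341, .ofNat 1371,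 .ofNat 0, .ofNat 1371, .ofNat 2940, .ofNat 0, .ofNat 128, .negSucc 128, .negSucc 30, .ofNat 0, .ofNat 110, .ofNat 18, .ofNat 0, .ofNat 0, .ofNat 1271, .ofNat 23468, .ofNat 3399982317317122617049694117499334819840, .ofNat 0, .ofNat 913066054902951717941148527567568896, .ofNat 0, .ofNat 0, .ofNat 0, .ofNat 0, .ofNat 0, .ofNat 34698551891278869246709479615850895900672, .ofNat 0, .ofNat 36720296425957164294566433485962084352, .ofNat 0, .ofNat 0, .ofNat 0, .ofNat 0, .ofNat 0⟩)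
    (by decide +kernel)

end Crest.Agent.R097C5.N5mm
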