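import Crest.Agent.R097.KP7
import Crest.Agent.R097.T5Ymm

/-!
# Row 97, box cover in dimension n = 5 (generated)
-/

set_option autoImplicit false
set_option Elab.async false
set_option maxHeartbeats 0
set_option maxRecDepth 100000

open Crest.Agent.R097 Crest.Agent.R097.KA


namespace Crest.Agent.R097C5.N5mm

theorem L00755 : Good (Phi V5.P V5.D (-1) (-1)) ⟨2, 0, 2, 2, 2, 2, 2, 1, 4, 5⟩ :=
  leafX_sound T5.ok_mm T5.Ymm.bz_eq (w := 199) (c := ⟨⟨.negSucc 1147, .ofNat 1, .ofNat 8, .negSucc 29, .ofNat 14, .ofNat 80⟩, ⟨.ofNat 546, .negSucc 81, .ofNat 297, .ofNat 16, .negSucc 1, .negSucc 39⟩, ⟨.ofNat 996, .negSucc 208, .negSucc 1, .negSucc 59, .ofNat 160, .ofNat 267⟩, ⟨.negSucc 3675, .ofNat 122, .negSucc 101, .negSucc 92, .ofNat 92, .ofNat 252⟩, ⟨.negSucc 454, .negSucc 27, .negSucc 49, .negSucc 7, .ofNat 98, .ofNat 19⟩, .ofNat 1691, .ofNat 1940, .ofNat 0, .ofNat 1940, .ofNat 3969, .ofNat 0, .ofNat 128,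 .negSucc 170, .negSucc 32, .ofNat 0, .ofNat 138, .ofNat 17, .ofNat 0, .ofNat 0, .ofNat 1237, .ofNat 5286, .ofNat 309505155417529398692833162224774152192, .ofNat 0, .ofNat 359913071613987624324891235797958656, .ofNat 0, .ofNat 0, .ofNat 0, .ofNat 0, .ofNat 0, .ofNat 0, .ofNat 0, .ofNat 28028970933166895086501874702512816128, .ofNat 0, .ofNat 0, .ofNat 2332411624490212087399762230491968700416, .ofNat 68339343166672832929376772240263086080, .ofNat 0⟩)
    (by decide +kernel)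
theorem L00756 : Good (Phi V5.P V5.D (-1) (-1)) ⟨2, 0, 2, 2, 2, 3, 2, 0, 4, 5⟩ :=
  leafX_sound T5.ok_mm T5.Ymm.bz_eq (w := 197) (c := ⟨⟨.negSucc 1195, .ofNat 25, .negSucc 33, .ofNat 11, .ofNat 8, .ofNat 110⟩, ⟨.ofNat 569, .negSucc 106, .ofNat 345, .ofNat 24, .ofNat 1, .negSucc 55⟩, ⟨.ofNat 687, .negSucc 11, .negSucc 0, .ofNat 78, .ofNat 152, .ofNat 316⟩, ⟨.negSucc 3821, .ofNat 126, .negSucc 49, .ofNat 329, .ofNat 47, .ofNat 314⟩, ⟨.negSucc 467, .negSucc 179, .ofNat 231, .ofNat 563, .ofNat 64, .negSucc 23⟩, .ofNat 1698, .ofNat 1965, .ofNat 0, .ofNat 1965, .ofNat 4037, .ofNat 0, .ofNat 128, .negSucc 203, .ofNat 2, .ofNat 0, .ofNat 172, .negSucc 2, .ofNat 0, .ofNat 0, .ofNat 738, .ofNat 1147, .ofNat 0, .ofNat 0, .ofNat 0, .ofNat 0, .ofNat 0, .ofNat 0, .ofNat 0, .ofNat 0, .ofNat 0, .ofNat 0, .ofNat 0, .ofNat 0, .ofNat 16465976415169889582265913502678422388736, .ofNat 1404720402114084780041263156594332401664,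 .ofNat 16946927080370061091963352851605880832, .ofNat 0⟩)
    (by decide +kernel)
theorem L00757 : Good (Phi V5.P V5.D (-1) (-1)) ⟨3, 0, 2, 2, 2, 3, 2, 1, 4, 5⟩ :=
  leafX_sound T5.ok_mm T5.Ymm.bz_eq (w := 201) (c := ⟨⟨.negSucc 1188, .ofNat 16, .negSucc 26, .negSucc 3, .negSucc 0, .ofNat 116⟩, ⟨.ofNat 571, .negSucc 56, .ofNat 328, .ofNat 33, .ofNat 7, .negSucc 59⟩, ⟨.ofNat 857, .negSucc 74, .ofNat 35, .ofNat 82, .ofNat 279, .ofNat 325⟩, ⟨.negSucc 3762, .ofNat 77, .negSucc 83, .ofNat 255, .ofNat 46, .ofNat 320⟩, ⟨.negSucc 379, .negSucc 94, .ofNat 74, .ofNat 538, .ofNat 102, .negSucc 36⟩, .ofNat 1337, .ofNat 1360, .ofNat 0, .ofNat 1360, .ofNat 2913, .ofNat 0, .ofNat 153, .negSucc 127, .ofNat 21, .ofNat 0, .ofNat 114, .negSucc 18, .ofNat 0, .ofNat 0, .ofNat 990, .ofNat 1003, .ofNat 0, .ofNat 0, .ofNat 0, .ofNat 0, .ofNat 0, .ofNat 0, .ofNat 0, .ofNat 0, .ofNat 0, .ofNat 8258329786341736791019144408505539100672,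 .ofNat 2808886036650250074009889562886668288, .ofNat 0, .ofNat 0, .ofNat 46200517885946750182872925694925413023744, .ofNat 12479421976000731362491309129482633216, .ofNat 0⟩)
    (by decide +kernel)
theorem L00758 : Good (Phi V5.P V5.D (-1) (-1)) ⟨3, 1, 2, 2, 2, 3, 2, 1, 4, 5⟩ :=
  out_sound (S := T5.ds_mm) T5.ok_mm (w := 43) (j := 3) (by decide +kernel)
theorem L00759 : Good (Phi V5.P V5.D (-1) (-1)) ⟨2, 0, 2, 3, 1, 1, 1, 0, 3, 2⟩ :=
  out_sound (S := T5.ds_mm) T5.ok_mm (w := 37) (j := 3) (by decide +kernel)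
theorem L00760 : Good (Phi V5.P V5.D (-1) (-1)) ⟨2, 0, 1, 1, 1, 0, 1, 0, 3, 3⟩ :=
  leafX_sound T5.ok_mm T5.Ymm.bz_eq (w := 177) (c := ⟨⟨.negSucc 1066, .negSucc 18, .ofNat 46, .negSucc 35, .ofNat 50, .ofNat 134⟩, ⟨.ofNat 522, .negSucc 66, .ofNat 549, .ofNat 4, .negSucc 18, .negSucc 66⟩, ⟨.ofNat 1148, .negSucc 105, .ofNat 192, .ofNat 147, .ofNat 25, .ofNat 690⟩, ⟨.negSucc 3291, .ofNat 71, .negSucc 24, .negSucc 253, .ofNat 220, .ofNat 413⟩, ⟨.negSucc 166, .ofNat 13, .negSucc 2, .negSucc 291, .ofNat 132, .ofNat 29⟩, .ofNat 513, .ofNat 304, .ofNat 0, .ofNat 304, .ofNat 815, .ofNat 0, .ofNat 189, .negSucc 107, .negSucc 55, .ofNat 0, .ofNat 128, .ofNat 32, .ofNat 0, .ofNat 0, .ofNat 1370, .ofNat 51829, .ofNat 7340002431944875566681004668092416, .ofNat 0, .ofNat 132595539895619234611775668224, .ofNat 0, .ofNat 34811212205783887805121977741475840, .ofNat 0, .ofNat 4066935784362627751559573798912, .ofNat 0,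 .ofNat 25240068750900007149944259502669824, .ofNat 0, .ofNat 1691889809524454628766278221824, .ofNat 0, .ofNat 181142521874742843111109666652815360, .ofNat 0, .ofNat 11215513821378710824099663314944, .ofNat 0⟩)
    (by decide +kernel)
theorem L00761 : Good (Phi V5.P V5.D (-1) (-1)) ⟨2, 0, 1, 1, 2, 2, 2, 0, 4, 6⟩ :=
  leafX_sound T5.ok_mm T5.Ymm.bz_eq (w := 203) (c := ⟨⟨.negSucc 1057, .ofNat 10, .negSucc 9, .negSucc 0, .negSucc 16, .ofNat 1⟩, ⟨.ofNat 499, .negSucc 89, .ofNat 619, .ofNat 0, .ofNat 13, .ofNat 0⟩, ⟨.ofNat 1127, .negSucc 108, .ofNat 92, .ofNat 1, .ofNat 74, .negSucc 0⟩, ⟨.negSucc 3478, .ofNat 85, .negSucc 158, .negSucc 1, .ofNat 49, .ofNat 2⟩, ⟨.negSucc 453, .negSucc 172, .ofNat 112, .ofNat 0, .ofNat 57, .ofNat 0⟩, .ofNat 195, .ofNat 29, .ofNat 0, .ofNat 29, .ofNat 229, .ofNat 0, .ofNat 128, .negSucc 39, .ofNat 5, .ofNat 0, .ofNat 134, .negSucc 5, .ofNat 0, .ofNat 0, .ofNat 141, .ofNat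 730945, .ofNat 20580376381889204992083830867482982219776, .ofNat 0, .ofNat 19542782726411750458550859437466189824, .ofNat 0, .ofNat 26922539038686485598867593288223071141888, .ofNat 0, .ofNat 1614271010691028450199243322503987200, .ofNat 0, .ofNat 6915593140547077528851204086526166171648, .ofNat 0, .ofNat 0, .ofNat 0, .ofNat 8716342076791913019218519488461656817664, .ofNat 0, .ofNat 785314955135456071738410251568807936, .ofNat 0⟩)
    (by decide +kernel)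
theorem L00762 : Good (Phi V5.P V5.D (-1) (-1)) ⟨2, 0, 1, 1, 3, 4, 2, 1, 4, 6⟩ :=
  leafX_sound T5.ok_mm T5.Ymm.bz_eq (w := 212) (c := ⟨⟨.negSucc 1074, .negSucc 13, .ofNat 50, .ofNat 8, .ofNat 11, .ofNat 98⟩, ⟨.ofNat 514, .negSucc 67, .ofNat 529, .negSucc 6, .negSucc 0, .negSucc 51⟩, ⟨.ofNat 1090, .negSucc 178, .ofNat 702, .ofNat 156, .ofNat 164, .ofNat 714⟩, ⟨.negSucc 3421, .ofNat 101, .negSucc 52, .negSucc 13, .ofNat 69, .ofNat 268⟩, ⟨.negSucc 387, .ofNat 23, .negSucc 74, .negSucc 67, .ofNat 71, .negSucc 42⟩, .ofNat 1323, .ofNat 1340, .ofNat 0, .ofNat 1340, .ofNat 2890, .ofNat 0, .ofNat 128, .negSucc 292, .negSucc 3, .ofNat 0, .ofNat 251, .negSucc 11, .ofNat 0, .ofNat 0, .ofNat 4770, .ofNat 12867, .ofNat 929212119059992143933274346203706382352384, .ofNat 0, .ofNat 16109208534126399302445719596686886567936, .ofNat 0, .ofNat 2261084151764719167355153121341470243028992, .ofNat 0, .ofNat 290713408084279325291062332179119320596480,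 .ofNat 0, .ofNat 12844525803819886552040797100084137857908736, .ofNat 0, .ofNat 1113365001130247658828995651994891224875008, .ofNat 0, .ofNat 0, .ofNat 0, .ofNat 10094322552502504289096559193794752660111360, .ofNat 0⟩)
    (by decide +kernel)
theorem L00763 : Good (Phi V5.P V5.D (-1) (-1)) ⟨2, 0, 1, 1, 4, 10, 2, 1, 4, 6⟩ :=
  leafX_sound T5.ok_mm T5.Ymm.bz_eq (w := 224) (c := ⟨⟨.negSucc 1088, .negSucc 2, .ofNat 55, .ofNat 5, .ofNat 25, .ofNat 115⟩, ⟨.ofNat 520, .negSucc 74, .ofNat 551, .negSucc 3, .negSucc 11, .negSucc 59⟩, ⟨.ofNat 1022, .negSucc 205, .ofNat 629, .ofNat 81, .ofNat 434, .ofNat 706⟩, ⟨.negSucc 3478, .ofNat 107, .negSucc 90, .ofNat 11, .ofNat 90, .ofNat 329⟩, ⟨.negSucc 399, .negSucc 31, .negSucc 155, .negSucc 20, .ofNat 23, .negSucc 45⟩, .ofNat 513, .ofNat 304, .ofNat 0, .ofNat 304, .ofNat 815, .ofNat 0, .ofNat 128, .negSucc 170, .ofNat 103, .ofNat 0, .ofNat 203, .negSucc 85, .ofNat 0,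 .ofNat 0, .ofNat 2339, .ofNat 6010, .ofNat 1699309588600470091580908528260042043647066112, .ofNat 0, .ofNat 318002587779022556516926814146036612919721984, .ofNat 0, .ofNat 0, .ofNat 465417146981917320488775668827370457227329536, .ofNat 1210929330534145715375047829746710275256483840, .ofNat 0, .ofNat 0, .ofNat 733190938105110110708136413078155821517373440, .ofNat 5061434604663912454946452292396698768536240128, .ofNat 0, .ofNat 0, .ofNat 31263619271653842525086059145090565121423441920, .ofNat 39226893342580450835832685467683725329192452096, .ofNat 0⟩)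
    (by decide +kernel)
theorem L00764 : Good (Phi V5.P V5.D (-1) (-1)) ⟨2, 0, 1, 1, 4, 11, 2, 1, 4, 6⟩ :=
  leafX_sound T5.ok_mm T5.Ymm.bz_eq (w := 225) (c := ⟨⟨.negSucc 1083, .ofNat 5, .ofNat 23, .ofNat 7, .ofNat 23, .ofNat 120⟩, ⟨.ofNat 515, .negSucc 80, .ofNat 589, .negSucc 2, .negSucc 8, .negSucc 62⟩, ⟨.ofNat 1146, .negSucc 202, .ofNat 186, .ofNat 45, .ofNat 401, .ofNat 607⟩, ⟨.negSucc 3471, .ofNat 111, .negSucc 111, .ofNat 29, .ofNat 91, .ofNat 347⟩, ⟨.negSucc 431, .negSucc 70, .ofNat 33, .ofNat 18, .ofNat 50, .negSucc 31⟩, .ofNat 1070, .ofNat 947, .ofNat 0, .ofNat 947, .ofNat 2169, .ofNat 0, .ofNat 128, .negSucc 234, .ofNat 66, .ofNat 0, .ofNat 223, .negSucc 46, .ofNat 0, .ofNat 0, .ofNat 2381, .ofNat 7020, .ofNat 0, .ofNat 34903262114993475339238042754516681700147200, .ofNat 313029305571035781053144875313132934866665472, .ofNat 0, .ofNat 0, .ofNat 1357224226996303515944942471024008161438728192,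 .ofNat 4505379175799011125151721050124126080890568704, .ofNat 0, .ofNat 0, .ofNat 4252325622745157889296769843231661185719861248, .ofNat 12385143753517562159771742040394689387350196224, .ofNat 0, .ofNat 0, .ofNat 49169478818550325694183622986521973698095742976, .ofNat 55536367676359430074479654364495594517262499840, .ofNat 0⟩)
    (by decide +kernel)
theorem L00765 : Good (Phi V5.P V5.D (-1) (-1)) ⟨2, 0, 1, 1, 2, 3, 1, 0, 4, 6⟩ :=
  leafX_sound T5.ok_mm T5.Ymm.bz_eq (w := 191) (c := ⟨⟨.negSucc 1091, .ofNat 14, .negSucc 5, .ofNat 37, .ofNat 31, .ofNat 124⟩, ⟨.ofNat 518, .negSucc 89, .ofNat 613, .negSucc 7, .negSucc 9, .negSucc 63⟩, ⟨.ofNat 900, .negSucc 178, .ofNat 148, .ofNat 193, .ofNat 627, .ofNat 516⟩, ⟨.negSucc 3500, .ofNat 113, .negSucc 136, .ofNat 148, .ofNat 138, .ofNat 298⟩, ⟨.negSucc 444, .negSucc 134, .ofNat 117, .ofNat 109, .ofNat 96, .negSucc 83⟩, .ofNat 815, .ofNat 583, .ofNat 0, .ofNat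 583, .ofNat 1498, .ofNat 0, .ofNat 128, .negSucc 124, .ofNat 39, .ofNat 0, .ofNat 140, .negSucc 28, .ofNat 0, .ofNat 0, .ofNat 1358, .ofNat 3420, .ofNat 17520401038634030932520947411333414912, .ofNat 2802923090612653238002998068885061632, .ofNat 12326915179852220423838045470457856, .ofNat 0, .ofNat 188364564349597186822817392487703773184, .ofNat 49764127620843052605107624713834725376, .ofNat 123764058189059743903976513305837568, .ofNat 0, .ofNat 213896130440752545489254138481060347904, .ofNat 70011314620708017103064288170973593600, .ofNat 304445700260359949370301867431559168, .ofNat 0, .ofNat 2478940733491975474411758097915648671744, .ofNat 661493138056287020321675331805563060224, .ofNat 1063522641971500350080017969132339200, .ofNat 0⟩)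
    (by decide +kernel)
theorem L00766 : Good (Phi V5.P V5.D (-1) (-1)) ⟨2, 0, 1, 1, 2, 2, 2, 0, 4, 7⟩ :=
  out_sound (S := T5.ds_mm) T5.ok_mm (w := 24) (j := 1) (by decide +kernel)
theorem L00767 : Good (Phi V5.P V5.D (-1) (-1)) ⟨2, 0, 1, 1, 3, 4, 3, 2, 4, 7⟩ :=
  out_sound (S := T5.ds_mm) T5.ok_mm (w := 27) (j := 1) (by decide +kernel)
theorem L00768 : Good (Phi V5.P V5.D (-1) (-1)) ⟨2, 0, 1, 1, 4, 8, 3, 3, 5, 14⟩ :=
  out_sound (S := T5.ds_mm) T5.ok_mm (w := 31) (j := 1) (by decide +kernel)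
theorem L00769 : Good (Phi V5.P V5.D (-1) (-1)) ⟨2, 0, 1, 1, 4, 9, 4, 6, 5, 14⟩ :=
  out_sound (S := T5.ds_mm) T5.ok_mm (w := 32) (j := 1) (by decide +kernel)
theorem L00770 : Good (Phi V5.P V5.D (-1) (-1)) ⟨2, 0, 1, 1, 5, 18, 4, 7, 6, 28⟩ :=
  leafX_sound T5.ok_mm T5.Ymm.bz_eq (w := 264) (c := ⟨⟨.negSucc 950, .negSucc 14, .ofNat 135, .ofNat 0, .ofNat 9, .ofNat 0⟩, ⟨.ofNat 449, .negSucc 50, .ofNat 466, .ofNat 0, .negSucc 6, .ofNat 0⟩, ⟨.ofNat 2151, .negSucc 488, .ofNat 1582, .ofNat 1, .ofNat 243, .negSucc 0⟩, ⟨.negSucc 3109, .ofNat 116, .ofNat 28, .negSucc 0, .ofNat 50, .ofNat 2⟩, ⟨.negSucc 391, .ofNat 75, .negSucc 295, .ofNat 0, .negSucc 69, .ofNat 0⟩, .ofNat 195, .ofNat 29, .ofNat 0, .ofNat 29, .ofNat 230, .ofNat 0, .ofNat 175, .negSucc 33, .ofNat 86, .ofNat 0, .ofNat 128, .negSucc 114, .ofNat 0, .ofNat 0, .ofNat 1416, .ofNat 959495, .ofNat 5876598144138919218728959537029815723831913496524619776,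 .ofNat 0, .ofNat 48375091281838045705704362256378748173407846637716373504, .ofNat 0, .ofNat 9914386793399166904220038368991330202125785090979004416, .ofNat 23536488031136040688363283763005438959275130960740352, .ofNat 5772705657587511033622015306745938641237687181942718464, .ofNat 0, .ofNat 5310673407684369387193891562693430028771373913837928448, .ofNat 4331635644464093017958843346648089363381850807992320, .ofNat 10027104382136484897158877984105301049673219605920743424, .ofNat 0, .ofNat 79745786304681346795513033330405167768850204609986166784, .ofNat 254104805833048191553335100813127193991143618653454336, .ofNat 108027321143849396217077248045399938100005055821552549888, .ofNat 0⟩)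
    (by decide +kernel)
theorem L00771 : Good (Phi V5.P V5.D (-1) (-1)) ⟨2, 0, 1, 1, 5, 19, 6, 28, 7, 56⟩ :=
  out_sound (S := T5.ds_mm) T5.ok_mm (w := 40) (j := 1) (by decide +kernel)
theorem L00772 : Good (Phi V5.P V5.D (-1) (-1)) ⟨2, 0, 1, 1, 6, 38, 6, 29, 7, 56⟩ :=
  out_sound (S := T5.ds_mm) T5.ok_mm (w := 42) (j := 1) (by decide +kernel)
theorem L00773 : Good (Phi V5.P V5.D (-1) (-1)) ⟨2, 0, 1, 1, 6, 39, 6, 29, 7, 56⟩ :=
  out_sound (S := T5.ds_mm) T5.ok_mm (w := 52) (j := 2) (by decide +kernel)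
theorem L00774 : Good (Phi V5.P V5.D (-1) (-1)) ⟨2, 0, 1, 1, 5, 19, 5, 14, 7, 57⟩ :=
  out_sound (S := T5.ds_mm) T5.ok_mm (w := 39) (j := 1) (by decide +kernel)
theorem L00775 : Good (Phi V5.P V5.D (-1) (-1)) ⟨2, 0, 1, 1, 7, 76, 6, 30, 7, 56⟩ :=
  out_sound (S := T5.ds_mm) T5.ok_mm (w := 44) (j := 1) (by decide +kernel)
theorem L00776 : Good (Phi V5.P V5.D (-1) (-1)) ⟨2, 0, 1, 1, 8, 152, 8, 124, 9, 224⟩ :=
  out_sound (S := T5.ds_mm) T5.ok_mm (w := 52) (j := 1) (by decide +kernel)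
theorem L00777 : Good (Phi V5.P V5.D (-1) (-1)) ⟨2, 0, 1, 1, 8, 152, 9, 250, 10, 448⟩ :=
  out_sound (S := T5.ds_mm) T5.ok_mm (w := 55) (j := 1) (by decide +kernel)
theorem L00778 : Good (Phi V5.P V5.D (-1) (-1)) ⟨2, 0, 1, 1, 9, 304, 9, 251, 10, 448⟩ :=
  out_sound (S := T5.ds_mm) T5.ok_mm (w := 57) (j := 1) (by decide +kernel)
theorem L00779 : Good (Phi V5.P V5.D (-1) (-1)) ⟨2, 0, 1, 1, 9, 305, 9, 251, 10, 448⟩ :=
  out_sound (S := T5.ds_mm) T5.ok_mm (w := 70) (j := 2) (by decide +kernel)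
theorem L00780 : Good (Phi V5.P V5.D (-1) (-1)) ⟨2, 0, 1, 1, 8, 152, 8, 125, 10, 449⟩ :=
  out_sound (S := T5.ds_mm) T5.ok_mm (w := 54) (j := 1) (by decide +kernel)
theorem L00781 : Good (Phi V5.P V5.D (-1) (-1)) ⟨2, 0, 1, 1, 8, 152, 7, 62, 9, 225⟩ :=
  out_sound (S := T5.ds_mm) T5.ok_mm (w := 51) (j := 1) (by decide +kernel)
theorem L00782 : Good (Phi V5.P V5.D (-1) (-1)) ⟨2, 0, 1, 1, 10, 608, 9, 252, 10, 448⟩ :=
  out_sound (S := T5.ds_mm) T5.ok_mm (w := 59) (j := 1) (by decide +kernel)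
theorem L00783 : Good (Phi V5.P V5.D (-1) (-1)) ⟨2, 0, 1, 1, 11, 1216, 10, 506, 11, 896⟩ :=
  out_sound (S := T5.ds_mm) T5.ok_mm (w := 64) (j := 1) (by decide +kernel)
theorem L00784 : Good (Phi V5.P V5.D (-1) (-1)) ⟨2, 0, 1, 1, 11, 1216, 10, 507, 11, 896⟩ :=
  out_sound (S := T5.ds_mm) T5.ok_mm (w := 78) (j := 2) (by decide +kernel)
theorem L00785 : Good (Phi V5.P V5.D (-1) (-1)) ⟨2, 0, 1, 1, 11, 1217, 9, 253, 11, 896⟩ :=
  out_sound (S := T5.ds_mm) T5.ok_mm (w := 76) (j := 2) (by decide +kernel)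
theorem L00786 : Good (Phi V5.P V5.D (-1) (-1)) ⟨2, 0, 1, 1, 10, 608, 9, 253, 11, 897⟩ :=
  out_sound (S := T5.ds_mm) T5.ok_mm (w := 74) (j := 2) (by decide +kernel)
theorem L00787 : Good (Phi V5.P V5.D (-1) (-1)) ⟨2, 0, 1, 1, 10, 609, 8, 126, 10, 448⟩ :=
  out_sound (S := T5.ds_mm) T5.ok_mm (w := 70) (j := 2) (by decide +kernel)
theorem L00788 : Good (Phi V5.P V5.D (-1) (-1)) ⟨2, 0, 1, 1, 9, 304, 8, 126, 10, 449⟩ :=
  out_sound (S := T5.ds_mm) T5.ok_mm (w := 56) (j := 1) (by decide +kernel)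
theorem L00789 : Good (Phi V5.P V5.D (-1) (-1)) ⟨2, 0, 1, 1, 9, 304, 8, 127, 9, 224⟩ :=
  out_sound (S := T5.ds_mm) T5.ok_mm (w := 66) (j := 2) (by decide +kernel)
theorem L00790 : Good (Phi V5.P V5.D (-1) (-1)) ⟨2, 0, 1, 1, 9, 305, 7, 63, 9, 224⟩ :=
  out_sound (S := T5.ds_mm) T5.ok_mm (w := 64) (j := 2) (by decide +kernel)
theorem L00791 : Good (Phi V5.P V5.D (-1) (-1)) ⟨2, 0, 1, 1, 8, 152, 7, 63, 9, 225⟩ :=
  out_sound (S := T5.ds_mm) T5.ok_mm (w := 62) (j := 2) (by decide +kernel)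
theorem L00792 : Good (Phi V5.P V5.D (-1) (-1)) ⟨2, 0, 1, 1, 8, 153, 6, 31, 8, 112⟩ :=
  out_sound (S := T5.ds_mm) T5.ok_mm (w := 58) (j := 2) (by decide +kernel)
theorem L00793 : Good (Phi V5.P V5.D (-1) (-1)) ⟨2, 0, 1, 1, 7, 76, 6, 31, 8, 113⟩ :=
  out_sound (S := T5.ds_mm) T5.ok_mm (w := 56) (j := 2) (by decide +kernel)
theorem L00794 : Good (Phi V5.P V5.D (-1) (-1)) ⟨2, 0, 1, 1, 8, 154, 6, 30, 8, 112⟩ :=
  out_sound (S := T5.ds_mm) T5.ok_mm (w := 48) (j := 1) (by decide +kernel)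
theorem L00795 : Good (Phi V5.P V5.D (-1) (-1)) ⟨2, 0, 1, 1, 8, 155, 6, 30, 8, 112⟩ :=
  out_sound (S := T5.ds_mm) T5.ok_mm (w := 58) (j := 2) (by decide +kernel)
theorem L00796 : Good (Phi V5.P V5.D (-1) (-1)) ⟨2, 0, 1, 1, 7, 77, 6, 30, 8, 113⟩ :=
  out_sound (S := T5.ds_mm) T5.ok_mm (w := 46) (j := 1) (by decide +kernel)
theorem L00797 : Good (Phi V5.P V5.D (-1) (-1)) ⟨2, 0, 1, 1, 7, 77, 6, 31, 7, 56⟩ :=
  out_sound (S := T5.ds_mm) T5.ok_mm (w := 54) (j := 2) (by decide +kernel)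
theorem L00798 : Good (Phi V5.P V5.D (-1) (-1)) ⟨2, 0, 1, 1, 6, 38, 5, 15, 7, 57⟩ :=
  out_sound (S := T5.ds_mm) T5.ok_mm (w := 50) (j := 2) (by decide +kernel)
theorem L00799 : Good (Phi V5.P V5.D (-1) (-1)) ⟨2, 0, 1, 1, 6, 39, 5, 15, 6, 28⟩ :=
  out_sound (S := T5.ds_mm) T5.ok_mm (w := 48) (j := 2) (by decide +kernel)
theorem L00800 : Good (Phi V5.P V5.D (-1) (-1)) ⟨2, 0, 1, 1, 4, 9, 4, 7, 6, 29⟩ :=
  out_sound (S := T5.ds_mm) T5.ok_mm (w := 34) (j := 1) (by decide +kernel)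
theorem L00801 : Good (Phi V5.P V5.D (-1) (-1)) ⟨2, 0, 1, 1, 3, 4, 3, 3, 5, 15⟩ :=
  out_sound (S := T5.ds_mm) T5.ok_mm (w := 29) (j := 1) (by decide +kernel)
theorem L00802 : Good (Phi V5.P V5.D (-1) (-1)) ⟨2, 0, 1, 1, 4, 10, 3, 2, 5, 14⟩ :=
  out_sound (S := T5.ds_mm) T5.ok_mm (w := 31) (j := 1) (by decide +kernel)
theorem L00803 : Good (Phi V5.P V5.D (-1) (-1)) ⟨2, 0, 1, 1, 5, 20, 5, 12, 6, 28⟩ :=
  out_sound (S := T5.ds_mm) T5.ok_mm (w := 37) (j := 1) (by decide +kernel)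
theorem L00804 : Good (Phi V5.P V5.D (-1) (-1)) ⟨2, 0, 1, 1, 5, 20, 5, 13, 6, 28⟩ :=
  out_sound (S := T5.ds_mm) T5.ok_mm (w := 46) (j := 2) (by decide +kernel)
theorem L00805 : Good (Phi V5.P V5.D (-1) (-1)) ⟨2, 0, 1, 1, 5, 20, 4, 7, 6, 28⟩ :=
  out_sound (S := T5.ds_mm) T5.ok_mm (w := 44) (j := 2) (by decide +kernel)
theorem L00806 : Good (Phi V5.P V5.D (-1) (-1)) ⟨2, 0, 1, 1, 5, 20, 3, 3, 6, 29⟩ :=
  out_sound (S := T5.ds_mm) T5.ok_mm (w := 42) (j := 2) (by decide +kernel)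
theorem L00807 : Good (Phi V5.P V5.D (-1) (-1)) ⟨2, 0, 1, 1, 5, 21, 3, 3, 5, 14⟩ :=
  out_sound (S := T5.ds_mm) T5.ok_mm (w := 40) (j := 2) (by decide +kernel)
theorem L00808 : Good (Phi V5.P V5.D (-1) (-1)) ⟨2, 0, 1, 1, 4, 10, 2, 1, 5, 15⟩ :=
  out_sound (S := T5.ds_mm) T5.ok_mm (w := 36) (j := 2) (by decide +kernel)
theorem L00809 : Good (Phi V5.P V5.D (-1) (-1)) ⟨2, 0, 1, 1, 4, 11, 2, 1, 4, 7⟩ :=
  out_sound (S := T5.ds_mm) T5.ok_mm (w := 34) (j := 2) (by decide +kernel)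
theorem L00810 : Good (Phi V5.P V5.D (-1) (-1)) ⟨2, 0, 1, 1, 2, 3, 1, 0, 4, 7⟩ :=
  out_sound (S := T5.ds_mm) T5.ok_mm (w := 28) (j := 2) (by decide +kernel)
theorem L00811 : Good (Phi V5.P V5.D (-1) (-1)) ⟨3, 0, 2, 2, 2, 0, 2, 2, 3, 2⟩ :=
  leafX_sound T5.ok_mm T5.Ymm.bz_eq (w := 199) (c := ⟨⟨.negSucc 1118, .negSucc 15, .negSucc 1, .negSucc 0, .ofNat 95, .ofNat 74⟩, ⟨.ofNat 559, .negSucc 35, .ofNat 267, .negSucc 6, .negSucc 47, .negSucc 36⟩, ⟨.ofNat 1119, .negSucc 14, .negSucc 97, .ofNat 82, .negSucc 282, .negSucc 8⟩, ⟨.negSucc 3353, .ofNat 10, .negSucc 3, .negSucc 86, .ofNat 271, .ofNat 211⟩, ⟨.ofNat 9, .ofNat 1, .ofNat 38, .negSucc 167, .negSucc 13, .negSucc 9⟩, .ofNat 1926, .ofNat 2329, .ofNat 0, .ofNat 2329, .ofNat 4645, .ofNat 0, .ofNat 128, .negSucc 168, .negSucc 82, .ofNat 0, .ofNat 137, .ofNat 43, .ofNat 0, .ofNat 0, .ofNat 864, .ofNat 9158, .ofNat 0, .ofNat 0, .ofNat 1638490695587229926903747516039168,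 .ofNat 0, .ofNat 0, .ofNat 0, .ofNat 0, .ofNat 0, .ofNat 0, .ofNat 0, .ofNat 246515110710694850646471063109632000, .ofNat 0, .ofNat 0, .ofNat 0, .ofNat 543234434874032472573873782127591424, .ofNat 0⟩)
    (by decide +kernel)
theorem L00812 : Good (Phi V5.P V5.D (-1) (-1)) ⟨3, 0, 2, 2, 2, 0, 2, 3, 4, 4⟩ :=
  leafX_sound T5.ok_mm T5.Ymm.bz_eq (w := 202) (c := ⟨⟨.negSucc 962, .ofNat 34, .ofNat 25, .negSucc 71, .ofNat 238, .negSucc 41⟩, ⟨.ofNat 479, .negSucc 56, .ofNat 217, .ofNat 32, .negSucc 115, .ofNat 23⟩, ⟨.ofNat 767, .negSucc 83, .negSucc 23, .ofNat 255, .negSucc 540, .ofNat 38⟩, ⟨.negSucc 2922, .ofNat 162, .ofNat 99, .negSucc 271, .ofNat 765, .negSucc 117⟩, ⟨.negSucc 47, .ofNat 15, .ofNat 46, .negSucc 113, .ofNat 94, .ofNat 19⟩, .ofNat 815, .ofNat 582, .ofNat 0, .ofNat 582, .ofNat 1496, .ofNat 0, .ofNat 154, .negSucc 117, .negSucc 57, .ofNat 0, .ofNat 128, .ofNat 26, .ofNat 0, .ofNat 0, .ofNat 355,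 .ofNat 1824, .ofNat 0, .ofNat 0, .ofNat 9041410308112567778300538528989184, .ofNat 0, .ofNat 0, .ofNat 0, .ofNat 0, .ofNat 0, .ofNat 0, .ofNat 0, .ofNat 1275889317550152997688938178245820416, .ofNat 0, .ofNat 0, .ofNat 490927855723880662497220002913372340224, .ofNat 540788467407199107892683654240927744, .ofNat 0⟩)
    (by decide +kernel)
theorem L00813 : Good (Phi V5.P V5.D (-1) (-1)) ⟨3, 0, 2, 2, 2, 0, 3, 6, 4, 5⟩ :=
  leafX_sound T5.ok_mm T5.Ymm.bz_eq (w := 208) (c := ⟨⟨.negSucc 959, .negSucc 3, .negSucc 8, .negSucc 48, .ofNat 45, .ofNat 10⟩, ⟨.ofNat 479, .negSucc 36, .ofNat 249, .ofNat 19, .negSucc 20, .negSucc 3⟩, ⟨.ofNat 716, .negSucc 13, .ofNat 77, .ofNat 289, .negSucc 196, .negSucc 17⟩, ⟨.negSucc 2900, .ofNat 38, .negSucc 30, .negSucc 193, .ofNat 154, .ofNat 41⟩, ⟨.negSucc 29, .ofNat 5, .ofNat 18, .negSucc 97, .ofNat 39, .ofNat 24⟩, .ofNat 817, .ofNat 584, .ofNat 0, .ofNat 584, .ofNat 1495,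 .ofNat 0, .ofNat 131, .negSucc 117, .negSucc 55, .ofNat 0, .ofNat 128, .ofNat 24, .ofNat 0, .ofNat 0, .ofNat 515, .ofNat 10484, .ofNat 0, .ofNat 0, .ofNat 2044053389954915803128388673437958144, .ofNat 0, .ofNat 0, .ofNat 0, .ofNat 21082925746683915984753322506324017152, .ofNat 0, .ofNat 0, .ofNat 0, .ofNat 24936535225002838805858882807836704768, .ofNat 0, .ofNat 0, .ofNat 0, .ofNat 51249674982712858127766304094676844544, .ofNat 0⟩)
    (by decide +kernel)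
theorem L00814 : Good (Phi V5.P V5.D (-1) (-1)) ⟨3, 0, 2, 2, 2, 0, 3, 7, 4, 5⟩ :=
  leafX_sound T5.ok_mm T5.Ymm.bz_eq (w := 207) (c := ⟨⟨.negSucc 868, .ofNat 36, .ofNat 16, .negSucc 103, .ofNat 75, .negSucc 51⟩, ⟨.ofNat 434, .negSucc 57, .ofNat 213, .ofNat 52, .negSucc 32, .ofNat 28⟩, ⟨.ofNat 463, .negSucc 50, .ofNat 15, .ofNat 390, .negSucc 267, .ofNat 18⟩, ⟨.negSucc 2628, .ofNat 144, .ofNat 66, .negSucc 313, .ofNat 276, .negSucc 144⟩, ⟨.negSucc 33, .negSucc 4, .ofNat 51, .negSucc 6, .ofNat 90, .ofNat 21⟩, .ofNat 818, .ofNat 587, .ofNat 0, .ofNat 587, .ofNat 1504, .ofNat 0, .ofNat 128, .negSucc 125, .negSucc 43, .ofNat 0, .ofNat 136, .ofNat 18, .ofNat 0, .ofNat 0, .ofNat 309, .ofNat 2881, .ofNat 0, .ofNat 0, .ofNat 1530780932908804419531000839214727168, .ofNat 0, .ofNat 0, .ofNat 0, .ofNat 0, .ofNat 0, .ofNat 0, .ofNat 40894884383474419701790665181672731836416, .ofNat 21283746593080809670955215222827122688,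 .ofNat 0, .ofNat 0, .ofNat 3233610610268195989540265800102016188416, .ofNat 21075294660925610278252624355902095360, .ofNat 0⟩)
    (by decide +kernel)
theorem L00815 : Good (Phi V5.P V5.D (-1) (-1)) ⟨3, 1, 2, 2, 2, 0, 1, 1, 3, 2⟩ :=
  out_sound (S := T5.ds_mm) T5.ok_mm (w := 43) (j := 3) (by decide +kernel)
theorem L00816 : Good (Phi V5.P V5.D (-1) (-1)) ⟨2, 0, 2, 2, 2, 0, 2, 2, 4, 6⟩ :=
  leafX_sound T5.ok_mm T5.Ymm.bz_eq (w := 201) (c := ⟨⟨.negSucc 1020, .negSucc 23, .negSucc 4, .negSucc 13, .ofNat 61, .ofNat 32⟩, ⟨.ofNat 509, .negSucc 66, .ofNat 252, .ofNat 1, .negSucc 29, .negSucc 15⟩, ⟨.ofNat 1030, .ofNat 21, .ofNat 55, .ofNat 286, .negSucc 339, .negSucc 16⟩, ⟨.negSucc 3078, .ofNat 31, .negSucc 28, .negSucc 110, .ofNat 201, .ofNat 102⟩, ⟨.negSucc 31, .ofNat 17, .ofNat 11, .negSucc 128, .ofNat 33, .ofNat 17⟩, .ofNat 820, .ofNat 588, .ofNat 0, .ofNat 588, .ofNat 1498, .ofNat 0, .ofNat 128, .negSucc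 162, .negSucc 108, .ofNat 0, .ofNat 176, .ofNat 47, .ofNat 0, .ofNat 0, .ofNat 1609, .ofNat 20848, .ofNat 0, .ofNat 0, .ofNat 0, .ofNat 0, .ofNat 0, .ofNat 0, .ofNat 71142214297470002406036417803148328960, .ofNat 0, .ofNat 0, .ofNat 0, .ofNat 0, .ofNat 0, .ofNat 0, .ofNat 0, .ofNat 0, .ofNat 0⟩)
    (by decide +kernel)
theorem L00817 : Good (Phi V5.P V5.D (-1) (-1)) ⟨3, 0, 2, 2, 2, 0, 3, 6, 5, 12⟩ :=
  leafX_sound T5.ok_mm T5.Ymm.bz_eq (w := 215) (c := ⟨⟨.negSucc 934, .negSucc 5, .negSucc 18, .negSucc 52, .ofNat 21, .ofNat 6⟩, ⟨.ofNat 466, .negSucc 36, .ofNat 252, .ofNat 24, .negSucc 8, .negSucc 2⟩, ⟨.ofNat 640, .ofNat 2, .ofNat 111, .ofNat 372, .negSucc 192, .negSucc 7⟩, ⟨.negSucc 2820, .ofNat 32, .negSucc 65, .negSucc 193, .ofNat 82, .ofNat 23⟩, ⟨.negSucc 20, .ofNat 5, .ofNat 11, .negSucc 73, .ofNat 38, .ofNat 12⟩, .ofNat 2022, .ofNat 2491, .ofNat 0, .ofNat 2491, .ofNat 4925, .ofNat 0, .ofNat 128,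 .negSucc 220, .negSucc 59, .ofNat 0, .ofNat 178, .ofNat 30, .ofNat 0, .ofNat 0, .ofNat 742, .ofNat 23511, .ofNat 0, .ofNat 0, .ofNat 279422367427073711242570783453341548544, .ofNat 0, .ofNat 0, .ofNat 0, .ofNat 1478803027803002955225582745125503631360, .ofNat 0, .ofNat 0, .ofNat 0, .ofNat 5008957971566639692294787006368856408064, .ofNat 0, .ofNat 0, .ofNat 0, .ofNat 5608227847970806638160930071658302013440, .ofNat 0⟩)
    (by decide +kernel)
theorem L00818 : Good (Phi V5.P V5.D (-1) (-1)) ⟨3, 0, 2, 2, 2, 0, 4, 14, 5, 12⟩ :=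
  leafX_sound T5.ok_mm T5.Ymm.bz_eq (w := 218) (c := ⟨⟨.negSucc 878, .ofNat 7, .negSucc 27, .negSucc 100, .ofNat 0, .negSucc 14⟩, ⟨.ofNat 437, .negSucc 41, .ofNat 252, .ofNat 53, .ofNat 2, .ofNat 10⟩, ⟨.ofNat 409, .negSucc 15, .ofNat 110, .ofNat 428, .negSucc 96, .ofNat 1⟩, ⟨.negSucc 2657, .ofNat 75, .negSucc 83, .negSucc 297, .ofNat 26, .negSucc 37⟩, ⟨.negSucc 27, .ofNat 14, .negSucc 11, .ofNat 6, .ofNat 48, .ofNat 19⟩, .ofNat 1058, .ofNat 930, .ofNat 0, .ofNat 930, .ofNat 2158, .ofNat 0, .ofNat 128, .negSucc 197, .negSucc 68, .ofNat 0, .ofNat 186, .ofNat 30, .ofNat 0, .ofNat 0, .ofNat 656, .ofNat 16517, .ofNat 0, .ofNat 0, .ofNat 4878870258665871299278886992691471581184, .ofNat 0, .ofNat 0, .ofNat 0, .ofNat 44927825925164741278509012052303274835968, .ofNat 0, .ofNat 0, .ofNat 0, .ofNat 55011877807332492369756924515211385241600, .ofNat 0, .ofNat 0, .ofNat 0, .ofNat 55494414665913224872538727807717709185024,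 .ofNat 0⟩)
    (by decide +kernel)
theorem L00819 : Good (Phi V5.P V5.D (-1) (-1)) ⟨3, 0, 2, 2, 2, 0, 4, 15, 5, 12⟩ :=
  leafX_sound T5.ok_mm T5.Ymm.bz_eq (w := 217) (c := ⟨⟨.negSucc 864, .ofNat 16, .negSucc 20, .negSucc 133, .ofNat 22, .negSucc 12⟩, ⟨.ofNat 433, .negSucc 46, .ofNat 239, .ofNat 72, .negSucc 8, .ofNat 7⟩, ⟨.ofNat 314, .negSucc 23, .ofNat 61, .ofNat 441, .negSucc 134, .negSucc 13⟩, ⟨.negSucc 2607, .ofNat 99, .negSucc 28, .negSucc 365, .ofNat 88, .negSucc 26⟩, ⟨.negSucc 13, .ofNat 20, .ofNat 48, .ofNat 63, .ofNat 42, .ofNat 21⟩, .ofNat 1727, .ofNat 2003, .ofNat 0, .ofNat 2003, .ofNat 4074, .ofNat 0, .ofNat 128, .negSucc 189, .negSucc 75, .ofNat 0, .ofNat 155, .ofNat 36, .ofNat 0, .ofNat 0, .ofNat 616, .ofNat 7596, .ofNat 0, .ofNat 104644630839574058003928954102817824440320, .ofNat 2855604454157902468299894130945072037888, .ofNat 0, .ofNat 0, .ofNat 1793979554443136385115692898441812053590016,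 .ofNat 0, .ofNat 0, .ofNat 0, .ofNat 5073200110529958236879279776948409660866560, .ofNat 53631623184995177486609880406792257667072, .ofNat 0, .ofNat 0, .ofNat 1998007028045605656559084398337024728236032, .ofNat 45951197299439300929763243973220428152832, .ofNat 0⟩)
    (by decide +kernel)
theorem L00820 : Good (Phi V5.P V5.D (-1) (-1)) ⟨3, 0, 2, 2, 2, 0, 3, 6, 5, 13⟩ :=
  leafX_sound T5.ok_mm T5.Ymm.bz_eq (w := 215) (c := ⟨⟨.negSucc 929, .ofNat 11, .negSucc 5, .negSucc 52, .ofNat 5, .ofNat 10⟩, ⟨.ofNat 463, .negSucc 43, .ofNat 246, .ofNat 24, .ofNat 0, .negSucc 4⟩, ⟨.ofNat 607, .negSucc 10, .ofNat 102, .ofNat 428, .negSucc 195, .negSucc 11⟩, ⟨.negSucc 2799, .ofNat 73, .negSucc 34, .negSucc 195, .ofNat 44, .ofNat 32⟩, ⟨.negSucc 19, .ofNat 4, .ofNat 8, .negSucc 72, .ofNat 54, .ofNat 8⟩, .ofNat 820, .ofNat 589, .ofNat 0, .ofNat 589, .ofNat 1504, .ofNat 0, .ofNat 128, .negSucc 137, .negSucc 52, .ofNat 0,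 .ofNat 149, .ofNat 21, .ofNat 0, .ofNat 0, .ofNat 713, .ofNat 24851, .ofNat 0, .ofNat 0, .ofNat 372859168284285852083358675614520311808, .ofNat 0, .ofNat 0, .ofNat 0, .ofNat 3207297146554498688394381594333626236928, .ofNat 0, .ofNat 0, .ofNat 0, .ofNat 2454507024483109726578753540396100354048, .ofNat 0, .ofNat 0, .ofNat 0, .ofNat 4149889042954933899732525930443765186560, .ofNat 0⟩)
    (by decide +kernel)
theorem L00821 : Good (Phi V5.P V5.D (-1) (-1)) ⟨3, 0, 2, 2, 2, 0, 4, 14, 5, 13⟩ :=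
  leafX_sound T5.ok_mm T5.Ymm.bz_eq (w := 218) (c := ⟨⟨.negSucc 879, .ofNat 18, .negSucc 12, .negSucc 111, .negSucc 12, .negSucc 8⟩, ⟨.ofNat 437, .negSucc 47, .ofNat 244, .ofNat 59, .ofNat 10, .ofNat 6⟩, ⟨.ofNat 381, .negSucc 18, .ofNat 82, .ofNat 460, .negSucc 92, .negSucc 3⟩, ⟨.negSucc 2668, .ofNat 110, .negSucc 21, .negSucc 315, .negSucc 5, .negSucc 14⟩, ⟨.negSucc 46, .ofNat 25, .ofNat 39, .ofNat 32, .ofNat 61, .ofNat 22⟩, .ofNat 1946, .ofNat 2362, .ofNat 0, .ofNat 2362, .ofNat 4695, .ofNat 0, .ofNat 128, .negSucc 230, .negSucc 65, .ofNat 0, .ofNat 186, .ofNat 31, .ofNat 0, .ofNat 0, .ofNat 741, .ofNat 21811, .ofNat 0, .ofNat 0, .ofNat 7311757426135239000742770057265069162496, .ofNat 0, .ofNat 0, .ofNat 0, .ofNat 81027189869222932881385618954890462101504, .ofNat 0, .ofNat 0, .ofNat 0, .ofNat 250623225154134503002876773769514898685952, .ofNat 0, .ofNat 0, .ofNat 0, .ofNat 58208486973549839187037245754892288524288,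 .ofNat 0⟩)
    (by decide +kernel)
theorem L00822 : Good (Phi V5.P V5.D (-1) (-1)) ⟨3, 0, 2, 2, 2, 0, 4, 15, 5, 13⟩ :=
  leafX_sound T5.ok_mm T5.Ymm.bz_eq (w := 218) (c := ⟨⟨.negSucc 874, .ofNat 13, .negSucc 14, .negSucc 131, .negSucc 3, .negSucc 13⟩, ⟨.ofNat 437, .negSucc 45, .ofNat 244, .ofNat 72, .ofNat 4, .ofNat 8⟩, ⟨.ofNat 293, .negSucc 11, .ofNat 56, .ofNat 441, .negSucc 97, .negSucc 11⟩, ⟨.negSucc 2638, .ofNat 99, .negSucc 10, .negSucc 347, .ofNat 9, .negSucc 33⟩, ⟨.negSucc 8, .ofNat 24, .ofNat 32, .ofNat 89, .ofNat 40, .ofNat 9⟩, .ofNat 1548, .ofNat 1708, .ofNat 0, .ofNat 1708, .ofNat 3558, .ofNat 0, .ofNat 128, .negSucc 212, .negSucc 78, .ofNat 0, .ofNat 177, .ofNat 36, .ofNat 0, .ofNat 0, .ofNat 681, .ofNat 12265, .ofNat 0, .ofNat 316570623955606159566563986325520231956480, .ofNat 5855566274508781400395022533442062516224, .ofNat 0, .ofNat 0, .ofNat 3166287787462623743078988086628355521118208,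 .ofNat 43120216749231504946372374420167212400640, .ofNat 0, .ofNat 0, .ofNat 7430523253391251073107962614404197631655936, .ofNat 68258187978543739140842454520958570987520, .ofNat 0, .ofNat 0, .ofNat 2024406471422971925403784694177506716024832, .ofNat 74295804615919266638417892067961376604160, .ofNat 0⟩)
    (by decide +kernel)
theorem L00823 : Good (Phi V5.P V5.D (-1) (-1)) ⟨3, 1, 2, 2, 2, 0, 2, 3, 4, 6⟩ :=
  out_sound (S := T5.ds_mm) T5.ok_mm (w := 43) (j := 3) (by decide +kernel)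
theorem L00824 : Good (Phi V5.P V5.D (-1) (-1)) ⟨2, 0, 2, 2, 2, 0, 2, 2, 4, 7⟩ :=
  leafX_sound T5.ok_mm T5.Ymm.bz_eq (w := 205) (c := ⟨⟨.negSucc 909, .negSucc 4, .negSucc 0, .negSucc 46, .negSucc 4, .ofNat 29⟩, ⟨.ofNat 451, .negSucc 74, .ofNat 246, .ofNat 19, .ofNat 5, .negSucc 14⟩, ⟨.ofNat 829, .negSucc 4, .ofNat 133, .ofNat 515, .negSucc 317, .ofNat 2⟩, ⟨.negSucc 2793, .ofNat 100, .negSucc 24, .negSucc 191, .ofNat 48, .ofNat 102⟩, ⟨.negSucc 86, .ofNat 24, .negSucc 8, .negSucc 99, .ofNat 93, .ofNat 23⟩, .ofNat 449, .ofNat 174, .ofNat 0, .ofNat 174, .ofNat 654, .ofNat 0, .ofNat 327, .negSucc 70, .negSucc 146, .ofNat 0, .ofNat 128, .ofNat 30, .ofNat 0, .ofNat 0, .ofNat 2170, .ofNat 254096, .ofNat 0, .ofNat 0, .ofNat 0, .ofNat 0, .ofNat 323466052322950626874708698345146155008000, .ofNat 0, .ofNat 258747626009679010718121600338758729728, .ofNat 0, .ofNat 141937685857153861354997245276957330898944, .ofNat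 0, .ofNat 37980117074044699881332771987698745344, .ofNat 0, .ofNat 446641017769523085051129214650321966465024, .ofNat 0, .ofNat 0, .ofNat 0⟩)
    (by decide +kernel)
theorem L00825 : Good (Phi V5.P V5.D (-1) (-1)) ⟨2, 0, 2, 2, 2, 0, 3, 6, 4, 7⟩ :=
  leafX_sound T5.ok_mm T5.Ymm.bz_eq (w := 206) (c := ⟨⟨.negSucc 898, .negSucc 17, .negSucc 39, .negSucc 61, .negSucc 9, .ofNat 14⟩, ⟨.ofNat 447, .negSucc 67, .ofNat 262, .ofNat 30, .ofNat 8, .negSucc 5⟩, ⟨.ofNat 550, .ofNat 64, .ofNat 232, .ofNat 469, .negSucc 192, .negSucc 65⟩, ⟨.negSucc 2727, .ofNat 59, .negSucc 120, .negSucc 203, .ofNat 8, .ofNat 53⟩, ⟨.negSucc 44, .ofNat 38, .negSucc 15, .negSucc 41, .ofNat 65, .ofNat 36⟩, .ofNat 469, .ofNat 227, .ofNat 0, .ofNat 227, .ofNat 736, .ofNat 0, .ofNat 163, .negSucc 88, .negSucc 51, .ofNat 0, .ofNat 128, .ofNat 15, .ofNat 0, .ofNat 0, .ofNat 643, .ofNat 25968, .ofNat 0, .ofNat 0, .ofNat 0, .ofNat 0, .ofNat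 42964279290590699339794014702726310526976, .ofNat 0, .ofNat 816100181419012773243902572209022959616, .ofNat 0, .ofNat 0, .ofNat 0, .ofNat 219681625340046027972210751342194458624, .ofNat 0, .ofNat 125677072297332168277126472807759392800768, .ofNat 0, .ofNat 576785657700049634169816984962652438528, .ofNat 0⟩)
    (by decide +kernel)
theorem L00826 : Good (Phi V5.P V5.D (-1) (-1)) ⟨2, 0, 2, 2, 2, 0, 3, 7, 4, 7⟩ :=
  leafX_sound T5.ok_mm T5.Ymm.bz_eq (w := 204) (c := ⟨⟨.negSucc 892, .ofNat 40, .negSucc 28, .negSucc 96, .negSucc 38, .negSucc 13⟩, ⟨.ofNat 445, .negSucc 103, .ofNat 254, .ofNat 53, .ofNat 25, .ofNat 8⟩, ⟨.ofNat 384, .ofNat 50, .ofNat 184, .ofNat 424, .negSucc 199, .negSucc 27⟩, ⟨.negSucc 2707, .ofNat 198, .negSucc 93, .negSucc 254, .negSucc 43, .negSucc 28⟩, ⟨.negSucc 43, .ofNat 1, .negSucc 54, .ofNat 67, .ofNat 131, .ofNat 26⟩, .ofNat 450, .ofNat 174, .ofNat 0, .ofNat 174, .ofNat 655, .ofNat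 0, .ofNat 128, .negSucc 78, .negSucc 48, .ofNat 0, .ofNat 142, .ofNat 9, .ofNat 0, .ofNat 0, .ofNat 408, .ofNat 4792, .ofNat 0, .ofNat 252849991524596997077461395473950572544, .ofNat 23631127203822002380152285852730392576, .ofNat 0, .ofNat 0, .ofNat 1840796442872416626813670450805751152640, .ofNat 317482968472988257290187253482143088640, .ofNat 0, .ofNat 0, .ofNat 2888404892408682516683581216397853720576, .ofNat 25945935283370954707378122771094568960, .ofNat 0, .ofNat 0, .ofNat 0, .ofNat 0, .ofNat 0⟩)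
    (by decide +kernel)
theorem L00827 : Good (Phi V5.P V5.D (-1) (-1)) ⟨3, 0, 2, 2, 2, 1, 2, 2, 3, 2⟩ :=
  leafX_sound T5.ok_mm T5.Ymm.bz_eq (w := 198) (c := ⟨⟨.negSucc 1101, .ofNat 14, .ofNat 14, .negSucc 62, .ofNat 31, .ofNat 74⟩, ⟨.ofNat 536, .negSucc 47, .ofNat 281, .ofNat 26, .negSucc 11, .negSucc 34⟩, ⟨.ofNat 926, .negSucc 37, .ofNat 260, .ofNat 125, .negSucc 17, .ofNat 249⟩, ⟨.negSucc 3437, .ofNat 103, .negSucc 18, .negSucc 246, .ofNat 140, .ofNat 245⟩, ⟨.negSucc 240, .ofNat 4, .negSucc 18, .negSucc 127, .ofNat 82, .ofNat 50⟩, .ofNat 813, .ofNat 581, .ofNat 0, .ofNat 581, .ofNat 1503, .ofNat 0, .ofNat 137, .negSucc 120, .negSucc 84, .ofNat 0, .ofNat 128, .ofNat 40, .ofNat 0, .ofNat 0, .ofNat 914, .ofNat 3681, .ofNat 0, .ofNat 0, .ofNat 2229869457062504843735327353864192, .ofNat 0, .ofNat 0, .ofNat 0, .ofNat 0, .ofNat 0, .ofNat 0, .ofNat 0, .ofNat 46335240445272706309445245630152704, .ofNat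 0, .ofNat 0, .ofNat 0, .ofNat 74783691327112547298274703981936640, .ofNat 0⟩)
    (by decide +kernel)
theorem L00828 : Good (Phi V5.P V5.D (-1) (-1)) ⟨3, 0, 3, 4, 2, 1, 3, 6, 4, 4⟩ :=
  leafX_sound T5.ok_mm T5.Ymm.bz_eq (w := 210) (c := ⟨⟨.negSucc 1000, .ofNat 18, .ofNat 5, .negSucc 133, .ofNat 9, .negSucc 2⟩, ⟨.ofNat 487, .negSucc 48, .ofNat 137, .ofNat 64, .ofNat 0, .ofNat 4⟩, ⟨.ofNat 868, .negSucc 100, .ofNat 37, .ofNat 301, .negSucc 18, .ofNat 104⟩, ⟨.negSucc 3112, .ofNat 123, .negSucc 11, .negSucc 432, .ofNat 79, .ofNat 11⟩, ⟨.negSucc 207, .ofNat 27, .negSucc 9, .negSucc 67, .ofNat 104, .ofNat 35⟩, .ofNat 1324, .ofNat 1343, .ofNat 0, .ofNat 1343, .ofNat 2899, .ofNat 0, .ofNat 128, .negSucc 236, .negSucc 116, .ofNat 0, .ofNat 200, .ofNat 57, .ofNat 0, .ofNat 0, .ofNat 992, .ofNat 5660, .ofNat 0, .ofNat 0, .ofNat 0, .ofNat 0, .ofNat 0, .ofNat 0, .ofNat 0, .ofNat 0, .ofNat 0, .ofNat 0, .ofNat 0,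 .ofNat 0, .ofNat 0, .ofNat 667154762220154542343166523314151578664960, .ofNat 321360864062194132462352656487296270336, .ofNat 0⟩)
    (by decide +kernel)
theorem L00829 : Good (Phi V5.P V5.D (-1) (-1)) ⟨3, 0, 3, 4, 2, 1, 3, 6, 4, 5⟩ :=
  leafX_sound T5.ok_mm T5.Ymm.bz_eq (w := 210) (c := ⟨⟨.negSucc 1003, .ofNat 17, .ofNat 13, .negSucc 108, .negSucc 6, .ofNat 20⟩, ⟨.ofNat 492, .negSucc 47, .ofNat 132, .ofNat 51, .ofNat 9, .negSucc 8⟩, ⟨.ofNat 916, .negSucc 93, .ofNat 144, .ofNat 451, .negSucc 67, .ofNat 104⟩, ⟨.negSucc 3107, .ofNat 138, .ofNat 5, .negSucc 373, .ofNat 31, .ofNat 76⟩, ⟨.negSucc 169, .ofNat 60, .negSucc 25, .negSucc 96, .ofNat 98, .ofNat 22⟩, .ofNat 816, .ofNat 583, .ofNat 0, .ofNat 583, .ofNat 1498, .ofNat 0, .ofNat 135, .negSucc 120, .negSucc 67, .ofNat 0, .ofNat 128, .ofNat 23, .ofNat 0, .ofNat 0, .ofNat 1026, .ofNat 3920, .ofNat 0, .ofNat 0, .ofNat 6963932569943687900270525921240285184,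 .ofNat 0, .ofNat 0, .ofNat 0, .ofNat 0, .ofNat 0, .ofNat 0, .ofNat 200992130507885121221595511947735959863296, .ofNat 65952912451722471193300095487099011072, .ofNat 0, .ofNat 0, .ofNat 1078706597147938402974592792027094732242944, .ofNat 367974537019622381309095687662189150208, .ofNat 0⟩)
    (by decide +kernel)
theorem L00830 : Good (Phi V5.P V5.D (-1) (-1)) ⟨3, 0, 3, 4, 2, 1, 3, 7, 4, 4⟩ :=
  leafX_sound T5.ok_mm T5.Ymm.bz_eq (w := 209) (c := ⟨⟨.negSucc 947, .ofNat 45, .ofNat 5, .negSucc 214, .ofNat 25, .negSucc 31⟩, ⟨.ofNat 465, .negSucc 59, .ofNat 130, .ofNat 108, .negSucc 1, .ofNat 18⟩, ⟨.ofNat 751, .negSucc 93, .ofNat 66, .ofNat 496, .negSucc 127, .ofNat 87⟩, ⟨.negSucc 2931, .ofNat 219, .negSucc 1, .negSucc 648, .ofNat 169, .negSucc 67⟩, ⟨.negSucc 162, .ofNat 66, .negSucc 14, .negSucc 12, .ofNat 183, .ofNat 55⟩, .ofNat 817, .ofNat 584, .ofNat 0, .ofNat 584, .ofNat 1497, .ofNat 0, .ofNat 154, .negSucc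 121, .negSucc 55, .ofNat 0, .ofNat 128, .ofNat 22, .ofNat 0, .ofNat 0, .ofNat 401, .ofNat 1456, .ofNat 0, .ofNat 0, .ofNat 0, .ofNat 0, .ofNat 0, .ofNat 228849310022749322105959583809281741291520, .ofNat 19905711919949582208353546329441435648, .ofNat 0, .ofNat 0, .ofNat 285858279870735824427599805214976198574080, .ofNat 0, .ofNat 0, .ofNat 0, .ofNat 236968690847503872447246463945835173380096, .ofNat 30747583479100856150915580704659079168, .ofNat 0⟩)
    (by decide +kernel)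
theorem L00831 : Good (Phi V5.P V5.D (-1) (-1)) ⟨3, 0, 3, 4, 4, 4, 3, 7, 4, 5⟩ :=
  leafX_sound T5.ok_mm T5.Ymm.bz_eq (w := 239) (c := ⟨⟨.negSucc 976, .ofNat 26, .negSucc 9, .negSucc 42, .negSucc 9, .negSucc 18⟩, ⟨.ofNat 484, .negSucc 50, .ofNat 134, .ofNat 22, .ofNat 13, .ofNat 11⟩, ⟨.ofNat 821, .negSucc 52, .ofNat 78, .ofNat 145, .negSucc 156, .ofNat 30⟩, ⟨.negSucc 2968, .ofNat 150, .negSucc 34, .negSucc 132, .ofNat 28, .negSucc 41⟩, ⟨.negSucc 65, .ofNat 44, .negSucc 12, .negSucc 11, .ofNat 119, .ofNat 30⟩, .ofNat 1847, .ofNat 2202, .ofNat 0, .ofNat 2202, .ofNat 4429, .ofNat 0, .ofNat 128, .negSucc 233, .negSucc 40, .ofNat 0, .ofNat 188, .ofNat 19, .ofNat 0, .ofNat 0, .ofNat 426, .ofNat 7987, .ofNat 0, .ofNat 140725840960238950897552474899301572242822922240, .ofNat 3166008249152601624878796294693470271241715712, .ofNat 0, .ofNat 0, .ofNat 7465494340518282595727078722540978498039667752960, .ofNat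 6646587755087213556895289365292996136368340992, .ofNat 0, .ofNat 0, .ofNat 22425119212938032927586041077401793824834818408448, .ofNat 4105767144331860368756718150675945782320824320, .ofNat 0, .ofNat 0, .ofNat 0, .ofNat 0, .ofNat 0⟩)
    (by decide +kernel)
theorem L00832 : Good (Phi V5.P V5.D (-1) (-1)) ⟨3, 0, 3, 4, 4, 5, 3, 7, 4, 5⟩ :=
  leafX_sound T5.ok_mm T5.Ymm.bz_eq (w := 239) (c := ⟨⟨.negSucc 1022, .ofNat 35, .ofNat 2, .negSucc 42, .negSucc 36, .negSucc 10⟩, ⟨.ofNat 506, .negSucc 55, .ofNat 133, .ofNat 21, .ofNat 29, .ofNat 7⟩, ⟨.ofNat 933, .negSucc 68, .ofNat 76, .ofNat 155, .negSucc 92, .ofNat 69⟩, ⟨.negSucc 3128, .ofNat 189, .negSucc 15, .negSucc 134, .negSucc 16, .negSucc 9⟩, ⟨.negSucc 109, .ofNat 75, .negSucc 10, .negSucc 11, .ofNat 188, .ofNat 39⟩, .ofNat 874, .ofNat 684, .ofNat 0, .ofNat 684, .ofNat 1639, .ofNat 0, .ofNat 142, .negSucc 127, .negSucc 35, .ofNat 0, .ofNat 125, .ofNat 11,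 .ofNat 0, .ofNat 0, .ofNat 447, .ofNat 6051, .ofNat 0, .ofNat 171742902095287735347045391911508602677559820288, .ofNat 3126349093225046996794716129710956177942118400, .ofNat 0, .ofNat 0, .ofNat 9312466904066765439079825729407278426704092069888, .ofNat 17089823604208008294017326081063431660785106944, .ofNat 0, .ofNat 0, .ofNat 11671740645820606003500367571791440921499577352192, .ofNat 2363423872506547175112130844319898876420030464, .ofNat 0, .ofNat 0, .ofNat 4132648076542669143265500360618718803555478667264, .ofNat 0, .ofNat 0⟩)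
    (by decide +kernel)
theorem L00833 : Good (Phi V5.P V5.D (-1) (-1)) ⟨3, 0, 3, 4, 3, 3, 3, 7, 4, 5⟩ :=
  leafX_sound T5.ok_mm T5.Ymm.bz_eq (w := 225) (c := ⟨⟨.negSucc 1070, .ofNat 31, .ofNat 0, .negSucc 91, .negSucc 50, .ofNat 5⟩, ⟨.ofNat 529, .negSucc 54, .ofNat 138, .ofNat 45, .ofNat 34, .negSucc 0⟩, ⟨.ofNat 1072, .negSucc 99, .ofNat 103, .ofNat 303, .negSucc 47, .ofNat 119⟩, ⟨.negSucc 3276, .ofNat 189, .negSucc 20, .negSucc 289, .negSucc 65, .ofNat 27⟩, ⟨.negSucc 120, .ofNat 86, .negSucc 21, .negSucc 22, .ofNat 187, .ofNat 30⟩, .ofNat 450, .ofNat 174, .ofNat 0, .ofNat 174, .ofNat 653, .ofNat 0, .ofNat 208, .negSucc 74, .negSucc 52, .ofNat 0, .ofNat 128, .ofNat 0, .ofNat 0, .ofNat 0, .ofNat 645, .ofNat 6134, .ofNat 0, .ofNat 113432675828621573688498357593292983718903808, .ofNat 187126647019784561261169556248831442550784, .ofNat 0, .ofNat 0, .ofNat 3556089399274096694728359764986835336018526208,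 .ofNat 0, .ofNat 0, .ofNat 0, .ofNat 2588400326179091066482565741373759772688384000, .ofNat 0, .ofNat 0, .ofNat 0, .ofNat 6798022387416373231130978738644496103436713984, .ofNat 1417470218563717957195350183248117618442240, .ofNat 0⟩)
    (by decide +kernel)
theorem L00834 : Good (Phi V5.P V5.D (-1) (-1)) ⟨3, 0, 3, 5, 2, 1, 2, 3, 3, 2⟩ :=
  out_sound (S := T5.ds_mm) T5.ok_mm (w := 45) (j := 3) (by decide +kernel)
theorem L00835 : Good (Phi V5.P V5.D (-1) (-1)) ⟨3, 0, 4, 8, 3, 2, 2, 2, 4, 6⟩ :=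
  leafX_sound T5.ok_mm T5.Ymm.bz_eq (w := 226) (c := ⟨⟨.negSucc 1015, .negSucc 2, .negSucc 0, .negSucc 21, .ofNat 16, .ofNat 40⟩, ⟨.ofNat 498, .negSucc 37, .ofNat 67, .ofNat 8, .negSucc 4, .negSucc 19⟩, ⟨.ofNat 1139, .negSucc 14, .ofNat 33, .ofNat 197, .negSucc 137, .ofNat 147⟩, ⟨.negSucc 3152, .ofNat 54, .negSucc 13, .negSucc 94, .ofNat 93, .ofNat 122⟩, ⟨.negSucc 189, .ofNat 18, .negSucc 0, .negSucc 66, .ofNat 75, .ofNat 12⟩, .ofNat 450, .ofNat 175, .ofNat 0, .ofNat 175, .ofNat 653, .ofNat 0, .ofNat 222, .negSucc 72, .negSucc 104, .ofNat 0, .ofNat 128, .ofNat 25, .ofNat 0, .ofNat 0, .ofNat 1708, .ofNat 31997, .ofNat 0, .ofNat 0, .ofNat 0, .ofNat 0, .ofNat 0, .ofNat 0, .ofNat 1464856543360136994851826349257035888984064, .ofNat 0, .ofNat 0, .ofNat 0, .ofNat 0, .ofNat 0, .ofNat 0, .ofNat 0, .ofNat 0, .ofNat 0⟩)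
    (by decide +kernel)
theorem L00836 : Good (Phi V5.P V5.D (-1) (-1)) ⟨3, 0, 4, 8, 3, 3, 3, 4, 4, 6⟩ :=
  leafX_sound T5.ok_mm T5.Ymm.bz_eq (w := 230) (c := ⟨⟨.negSucc 1040, .negSucc 2, .ofNat 3, .negSucc 8, .ofNat 6, .ofNat 60⟩, ⟨.ofNat 504, .negSucc 34, .ofNat 67, .ofNat 1, .negSucc 0, .negSucc 29⟩, ⟨.ofNat 1222, .negSucc 106, .ofNat 12, .ofNat 189, .ofNat 30, .ofNat 348⟩, ⟨.negSucc 3256, .ofNat 65, .negSucc 8, .negSucc 66, .ofNat 35, .ofNat 180⟩, ⟨.negSucc 257, .ofNat 30, .ofNat 0, .negSucc 77, .ofNat 33, .negSucc 0⟩, .ofNat 1318, .ofNat 1330, .ofNat 0, .ofNat 1330, .ofNat 2870, .ofNat 0, .ofNat 128, .negSucc 201, .negSucc 69, .ofNat 0, .ofNat 173, .ofNat 27, .ofNat 0, .ofNat 0, .ofNat 2883, .ofNat 31985, .ofNat 0, .ofNat 0, .ofNat 0, .ofNat 0, .ofNat 0, .ofNat 0, .ofNat 0, .ofNat 0, .ofNat 0, .ofNat 0, .ofNat 0, .ofNat 0, .ofNat 0, .ofNat 0, .ofNat 0, .ofNat 0⟩)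
    (by decide +kernel)
theorem L00837 : Good (Phi V5.P V5.D (-1) (-1)) ⟨3, 0, 4, 8, 3, 3, 3, 5, 4, 6⟩ :=
  leafX_sound T5.ok_mm T5.Ymm.bz_eq (w := 228) (c := ⟨⟨.negSucc 1029, .negSucc 3, .ofNat 2, .negSucc 5, .negSucc 5, .ofNat 58⟩, ⟨.ofNat 502, .negSucc 34, .ofNat 67, .negSucc 0, .ofNat 5, .negSucc 30⟩, ⟨.ofNat 1127, .negSucc 149, .ofNat 16, .ofNat 425, .ofNat 79, .ofNat 432⟩, ⟨.negSucc 3197, .ofNat 70, .negSucc 14, .negSucc 72, .negSucc 4, .ofNat 160⟩, ⟨.negSucc 205, .ofNat 48, .negSucc 0, .negSucc 109, .ofNat 30, .negSucc 29⟩, .ofNat 817, .ofNat 586, .ofNat 0, .ofNat 586, .ofNat 1503, .ofNat 0, .ofNat 145, .negSucc 120, .negSucc 28, .ofNat 0, .ofNat 128, .negSucc 5, .ofNat 0, .ofNat 0, .ofNat 2134, .ofNat 7111, .ofNat 0, .ofNat 188351102933245478414769575794008561649975296, .ofNat 252608213811052789596395674558043030290432, .ofNat 0, .ofNat 0, .ofNat 0, .ofNat 0, .ofNat 0, .ofNat 0, .ofNat 8231009055100219256488587854587196222633672704,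 .ofNat 0, .ofNat 0, .ofNat 0, .ofNat 161730825189980028651608543506519314445436452864, .ofNat 3965519415633321814262828385549360077733888, .ofNat 0⟩)
    (by decide +kernel)
theorem L00838 : Good (Phi V5.P V5.D (-1) (-1)) ⟨3, 0, 4, 9, 2, 1, 3, 4, 4, 6⟩ :=
  leafX_sound T5.ok_mm T5.Ymm.bz_eq (w := 217) (c := ⟨⟨.negSucc 1021, .ofNat 8, .ofNat 4, .negSucc 21, .ofNat 7, .ofNat 56⟩, ⟨.ofNat 568, .negSucc 37, .ofNat 67, .ofNat 6, .negSucc 2, .negSucc 31⟩, ⟨.ofNat 1100, .negSucc 285, .negSucc 38, .ofNat 408, .ofNat 1, .ofNat 354⟩, ⟨.negSucc 3163, .ofNat 39, .negSucc 4, .negSucc 157, .ofNat 37, .ofNat 163⟩, ⟨.negSucc 171, .ofNat 3, .negSucc 2, .negSucc 162, .ofNat 28, .negSucc 6⟩, .ofNat 1939, .ofNat 2248, .ofNat 0, .ofNat 2248, .ofNat 4185, .ofNat 0, .ofNat 128, .negSucc 416, .negSucc 174, .ofNat 0, .ofNat 329, .ofNat 90, .ofNat 0, .ofNat 0, .ofNat 5610, .ofNat 66764, .ofNat 0, .ofNat 0, .ofNat 0, .ofNat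 0, .ofNat 178481051245800526307464026058232020137410560, .ofNat 0, .ofNat 3725164297204636428546918923593213542400, .ofNat 0, .ofNat 0, .ofNat 0, .ofNat 2153945819493796781163379829470513856512, .ofNat 0, .ofNat 0, .ofNat 0, .ofNat 53677074786491330549860594787499036901376, .ofNat 0⟩)
    (by decide +kernel)
theorem L00839 : Good (Phi V5.P V5.D (-1) (-1)) ⟨3, 0, 4, 9, 2, 1, 3, 5, 5, 12⟩ :=
  leafX_sound T5.ok_mm T5.Ymm.bz_eq (w := 221) (c := ⟨⟨.negSucc 996, .ofNat 5, .negSucc 4, .negSucc 46, .negSucc 4, .ofNat 20⟩, ⟨.ofNat 554, .negSucc 36, .ofNat 72, .ofNat 20, .ofNat 5, .negSucc 10⟩, ⟨.ofNat 1019, .negSucc 94, .ofNat 59, .ofNat 590, .ofNat 35, .ofNat 131⟩, ⟨.negSucc 3077, .ofNat 50, .negSucc 27, .negSucc 233, .ofNat 5, .ofNat 63⟩, ⟨.negSucc 146, .ofNat 29, .negSucc 3, .negSucc 169, .ofNat 30, .ofNat 1⟩, .ofNat 928, .ofNat 771, .ofNat 0, .ofNat 771, .ofNat 1747, .ofNat 0, .ofNat 128, .negSucc 226,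 .negSucc 116, .ofNat 0, .ofNat 212, .ofNat 48, .ofNat 0, .ofNat 0, .ofNat 2809, .ofNat 25147, .ofNat 0, .ofNat 0, .ofNat 2228561126733555527016795012235136073728, .ofNat 0, .ofNat 0, .ofNat 0, .ofNat 22667260824394343336690084000613279989760, .ofNat 0, .ofNat 0, .ofNat 17731009170983365757425955519992705637679104, .ofNat 60032245259441098925153654590087972782080, .ofNat 0, .ofNat 0, .ofNat 360321401807682073505720641918994231708352512, .ofNat 210944654110002752834095236663278068301824, .ofNat 0⟩)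
    (by decide +kernel)
theorem L00840 : Good (Phi V5.P V5.D (-1) (-1)) ⟨3, 0, 4, 9, 2, 1, 3, 5, 5, 13⟩ :=
  leafX_sound T5.ok_mm T5.Ymm.bz_eq (w := 221) (c := ⟨⟨.negSucc 981, .ofNat 16, .negSucc 18, .negSucc 16, .negSucc 8, .ofNat 26⟩, ⟨.ofNat 547, .negSucc 42, .ofNat 78, .ofNat 1, .ofNat 6, .negSucc 15⟩, ⟨.ofNat 913, .ofNat 144, .ofNat 62, .ofNat 973, .ofNat 47, .ofNat 237⟩, ⟨.negSucc 3011, .ofNat 49, .negSucc 68, .negSucc 170, .negSucc 11, .ofNat 60⟩, ⟨.negSucc 117, .negSucc 11, .ofNat 1, .negSucc 212, .ofNat 25, .negSucc 29⟩, .ofNat 2843, .ofNat 3681, .ofNat 0, .ofNat 3681, .ofNat 6530, .ofNat 0, .ofNat 128, .negSucc 475, .negSucc 101, .ofNat 0, .ofNat 365, .ofNat 41, .ofNat 0, .ofNat 0, .ofNat 5694, .ofNat 23102, .ofNat 0, .ofNat 2050513937542401359897333801600861431922688, .ofNat 4799884414669616413233521915094152249344, .ofNat 0, .ofNat 0, .ofNat 8388668447005882794415865460678387988168704,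 .ofNat 94293885675143120557672317438839853416448, .ofNat 0, .ofNat 0, .ofNat 172591063585263282174048819944878069071740928, .ofNat 255377821396863984064421503476150250242048, .ofNat 0, .ofNat 0, .ofNat 1742323625513613087358826475118805189996314624, .ofNat 755768125141106241270667233875907980558336, .ofNat 0⟩)
    (by decide +kernel)
theorem L00841 : Good (Phi V5.P V5.D (-1) (-1)) ⟨3, 0, 3, 5, 2, 1, 2, 2, 4, 6⟩ :=
  out_sound (S := T5.ds_mm) T5.ok_mm (w := 45) (j := 3) (by decide +kernel)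
theorem L00842 : Good (Phi V5.P V5.D (-1) (-1)) ⟨3, 0, 2, 2, 3, 2, 2, 2, 4, 7⟩ :=
  leafX_sound T5.ok_mm T5.Ymm.bz_eq (w := 222) (c := ⟨⟨.negSucc 951, .ofNat 3, .ofNat 5, .negSucc 19, .negSucc 14, .ofNat 35⟩, ⟨.ofNat 463, .negSucc 38, .ofNat 253, .ofNat 6, .ofNat 14, .negSucc 18⟩, ⟨.ofNat 1220, .negSucc 32, .ofNat 220, .ofNat 426, .negSucc 219, .ofNat 256⟩, ⟨.negSucc 2956, .ofNat 77, .negSucc 42, .negSucc 100, .ofNat 5, .ofNat 97⟩, ⟨.negSucc 203, .ofNat 31, .negSucc 20, .negSucc 80, .ofNat 110, .negSucc 17⟩, .ofNat 814, .ofNat 581, .ofNat 0, .ofNat 581, .ofNat 1495, .ofNat 0, .ofNat 148, .negSucc 118, .negSucc 78, .ofNat 0, .ofNat 128, .ofNat 11, .ofNat 0, .ofNat 0, .ofNat 2881, .ofNat 84983, .ofNat 125422351100875229384338502363507374774288384, .ofNat 0, .ofNat 54647385642145978368896787400439460003840, .ofNat 0, .ofNat 2494773699182348960048935922778596721620418560, .ofNat 0, .ofNat 157305451410167979084642091331717724897280,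 .ofNat 0, .ofNat 4302590462726552171939006262245037010856181760, .ofNat 0, .ofNat 81775183466820071485381519098422491086848, .ofNat 0, .ofNat 37167137557651241224075409586049874348814106624, .ofNat 0, .ofNat 3349421543089067517773551454760811204968448, .ofNat 0⟩)
    (by decide +kernel)
theorem L00843 : Good (Phi V5.P V5.D (-1) (-1)) ⟨3, 0, 2, 2, 3, 3, 3, 4, 4, 7⟩ :=
  leafX_sound T5.ok_mm T5.Ymm.bz_eq (w := 225) (c := ⟨⟨.negSucc 1014, .ofNat 1, .ofNat 35, .ofNat 29, .ofNat 15, .ofNat 122⟩, ⟨.ofNat 498, .negSucc 33, .ofNat 246, .negSucc 23, .negSucc 9, .negSucc 70⟩, ⟨.ofNat 917, .negSucc 121, .ofNat 551, .ofNat 804, .ofNat 333, .ofNat 1361⟩, ⟨.negSucc 3128, .ofNat 82, .negSucc 15, .ofNat 6, .ofNat 33, .ofNat 248⟩, ⟨.negSucc 154, .ofNat 45, .negSucc 78, .negSucc 167, .negSucc 25, .negSucc 194⟩, .ofNat 1321, .ofNat 1333, .ofNat 0, .ofNat 1333, .ofNat 2872, .ofNat 0, .ofNat 128, .negSucc 179, .ofNat 50,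 .ofNat 0, .ofNat 155, .negSucc 50, .ofNat 0, .ofNat 0, .ofNat 4042, .ofNat 53363, .ofNat 1967246232801296393816301251072170426164576256, .ofNat 0, .ofNat 743373612422465853879616772454220916850688, .ofNat 0, .ofNat 0, .ofNat 0, .ofNat 0, .ofNat 0, .ofNat 67339770524822177289033668348241405756343058432, .ofNat 0, .ofNat 7872796554545974134490234461405491903856640, .ofNat 0, .ofNat 1235341594401437606951931478459589202259560366080, .ofNat 0, .ofNat 88382619814298437856827862687031108946624512, .ofNat 0⟩)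
    (by decide +kernel)
theorem L00844 : Good (Phi V5.P V5.D (-1) (-1)) ⟨3, 0, 2, 2, 4, 6, 3, 5, 4, 7⟩ :=
  leafX_sound T5.ok_mm T5.Ymm.bz_eq (w := 238) (c := ⟨⟨.negSucc 986, .ofNat 7, .ofNat 22, .ofNat 10, .negSucc 8, .ofNat 67⟩, ⟨.ofNat 481, .negSucc 37, .ofNat 251, .negSucc 8, .ofNat 6, .negSucc 39⟩, ⟨.ofNat 1317, .negSucc 81, .ofNat 404, .ofNat 451, .ofNat 54, .ofNat 770⟩, ⟨.negSucc 3066, .ofNat 105, .negSucc 27, .negSucc 13, .negSucc 15, .ofNat 149⟩, ⟨.negSucc 202, .ofNat 53, .negSucc 47, .negSucc 81, .ofNat 20, .negSucc 97⟩, .ofNat 1890, .ofNat 2284, .ofNat 0, .ofNat 2284, .ofNat 4609, .ofNat 0, .ofNat 128, .negSucc 291, .ofNat 55, .ofNat 0, .ofNat 235, .negSucc 71, .ofNat 0, .ofNat 0, .ofNat 6599, .ofNat 21380, .ofNat 0, .ofNat 81225970155551199092066105827491350878521131008, .ofNat 8574373020569067671632699207938283513877364736, .ofNat 0, .ofNat 0, .ofNat 0, .ofNat 36848053565239708710927042952197497639642595328,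 .ofNat 0, .ofNat 355002170444533527482860186104156140220643601809408, .ofNat 2475150812748240267031871879895288720976357883904, .ofNat 143637494494149893278119430468106434688459997184, .ofNat 0, .ofNat 3853897102593294944837995462008292897857555641925632, .ofNat 108182947664055138640701975666684911572054196617216, .ofNat 2476419920144593493945900019158529018927924641792, .ofNat 0⟩)
    (by decide +kernel)
theorem L00845 : Good (Phi V5.P V5.D (-1) (-1)) ⟨3, 0, 3, 4, 4, 7, 4, 10, 5, 14⟩ :=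
  leafX_sound T5.ok_mm T5.Ymm.bz_eq (w := 249) (c := ⟨⟨.negSucc 994, .ofNat 10, .ofNat 34, .ofNat 28, .negSucc 0, .ofNat 58⟩, ⟨.ofNat 482, .negSucc 38, .ofNat 111, .negSucc 19, .ofNat 1, .negSucc 34⟩, ⟨.ofNat 1492, .ofNat 10, .ofNat 556, .ofNat 587, .ofNat 85, .ofNat 733⟩, ⟨.negSucc 3109, .ofNat 105, .ofNat 5, .ofNat 26, .negSucc 1, .ofNat 116⟩, ⟨.negSucc 249, .ofNat 38, .negSucc 91, .negSucc 107, .ofNat 4, .negSucc 107⟩, .ofNat 1982, .ofNat 2435, .ofNat 0, .ofNat 2435, .ofNat 4861, .ofNat 0, .ofNat 128, .negSucc 318, .ofNat 172, .ofNat 0, .ofNat 256, .negSucc 140, .ofNat 0, .ofNat 0, .ofNat 8189, .ofNat 14057, .ofNat 0, .ofNat 7714227564923376313748698278606328557382722912256, .ofNat 8874819977879814051609903683531975220038551470080, .ofNat 0, .ofNat 0, .ofNat 0, .ofNat 40415473283318512922229672719015890810509379764224, .ofNat 0, .ofNat 0, .ofNat 1068362664741943444307076914921878702098413523042304,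 .ofNat 145558241004824290937536426675939280487766034481152, .ofNat 0, .ofNat 0, .ofNat 44268465535265051502295183473383854465337318837321728, .ofNat 2658368866113611256252965206774735813298710407806976, .ofNat 0⟩)
    (by decide +kernel)
theorem L00846 : Good (Phi V5.P V5.D (-1) (-1)) ⟨3, 0, 3, 4, 5, 14, 4, 11, 5, 14⟩ :=
  leafX_sound T5.ok_mm T5.Ymm.bz_eq (w := 264) (c := ⟨⟨.negSucc 993, .ofNat 7, .ofNat 31, .ofNat 18, .ofNat 1, .ofNat 54⟩, ⟨.ofNat 482, .negSucc 35, .ofNat 112, .negSucc 12, .negSucc 1, .negSucc 32⟩, ⟨.ofNat 1594, .negSucc 89, .ofNat 517, .ofNat 389, .ofNat 160, .ofNat 671⟩, ⟨.negSucc 3104, .ofNat 113, .ofNat 0, .ofNat 12, .negSucc 6, .ofNat 105⟩, ⟨.negSucc 239, .ofNat 59, .negSucc 96, .negSucc 79, .negSucc 17, .negSucc 105⟩, .ofNat 1969, .ofNat 2421, .ofNat 0, .ofNat 2421, .ofNat 4863, .ofNat 0, .ofNat 128, .negSucc 204, .ofNat 127, .ofNat 0, .ofNat 165, .negSucc 103, .ofNat 0, .ofNat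 0, .ofNat 5083, .ofNat 23159, .ofNat 0, .ofNat 334355498114136278647431432170166366221667300108402688, .ofNat 62768248711883347790777203451172095139748393682731008, .ofNat 0, .ofNat 0, .ofNat 0, .ofNat 0, .ofNat 0, .ofNat 0, .ofNat 4746998201577655799445259218620233917335136854492577792, .ofNat 471641851242494868212720332152446894871465714018942976, .ofNat 0, .ofNat 0, .ofNat 129439719718914763171904529176477703140428667901288906752, .ofNat 0, .ofNat 0⟩)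
    (by decide +kernel)
theorem L00847 : Good (Phi V5.P V5.D (-1) (-1)) ⟨3, 0, 3, 4, 5, 15, 4, 11, 5, 14⟩ :=
  leafX_sound T5.ok_mm T5.Ymm.bz_eq (w := 264) (c := ⟨⟨.negSucc 981, .ofNat 2, .ofNat 32, .ofNat 25, .ofNat 9, .ofNat 69⟩, ⟨.ofNat 471, .negSucc 29, .ofNat 114, .negSucc 18, .negSucc 7, .negSucc 42⟩, ⟨.ofNat 1934, .negSucc 222, .ofNat 477, .ofNat 463, .ofNat 273, .ofNat 862⟩, ⟨.negSucc 3100, .ofNat 101, .negSucc 1, .ofNat 21, .ofNat 0, .ofNat 129⟩, ⟨.negSucc 307, .ofNat 79, .negSucc 90, .negSucc 101, .negSucc 47, .negSucc 145⟩, .ofNat 1310, .ofNat 1316, .ofNat 0, .ofNat 1316, .ofNat 2849, .ofNat 0, .ofNat 128, .negSucc 167, .ofNat 121, .ofNat 0, .ofNat 146, .negSucc 99, .ofNat 0, .ofNat 0, .ofNat 4120, .ofNat 29302, .ofNat 0, .ofNat 649972087804982534939112297336915956057088609612726272, .ofNat 83201630243613794322399381351666524184973303970004992, .ofNat 0, .ofNat 0, .ofNat 4633608701171958034686476035663504566779995760365666304,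 .ofNat 0, .ofNat 0, .ofNat 0, .ofNat 11880043542434196983534377011267976075595648622057750528, .ofNat 251202239296494395445388063576128448196061517907492864, .ofNat 0, .ofNat 0, .ofNat 177423317881314595926240605449335262610480036088475811840, .ofNat 4946601526477479162599535705095913361116560870827098112, .ofNat 0⟩)
    (by decide +kernel)
theorem L00848 : Good (Phi V5.P V5.D (-1) (-1)) ⟨3, 0, 3, 5, 4, 7, 3, 5, 5, 14⟩ :=
  out_sound (S := T5.ds_mm) T5.ok_mm (w := 45) (j := 3) (by decide +kernel)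
theorem L00849 : Good (Phi V5.P V5.D (-1) (-1)) ⟨3, 0, 2, 2, 4, 7, 3, 5, 5, 15⟩ :=
  leafX_sound T5.ok_mm T5.Ymm.bz_eq (w := 243) (c := ⟨⟨.negSucc 951, .ofNat 5, .ofNat 96, .ofNat 72, .ofNat 14, .ofNat 69⟩, ⟨.ofNat 456, .negSucc 30, .ofNat 202, .negSucc 49, .negSucc 10, .negSucc 41⟩, ⟨.ofNat 2184, .negSucc 150, .ofNat 1640, .ofNat 1164, .ofNat 199, .ofNat 869⟩, ⟨.negSucc 3021, .ofNat 110, .ofNat 34, .ofNat 92, .ofNat 17, .ofNat 118⟩, ⟨.negSucc 372, .ofNat 75, .negSucc 275, .negSucc 188, .ofNat 11, .negSucc 114⟩, .ofNat 1690, .ofNat 1943, .ofNat 0, .ofNat 1943, .ofNat 3982, .ofNat 0, .ofNat 128, .negSucc 187, .ofNat 130, .ofNat 0, .ofNat 153, .negSucc 100, .ofNat 0, .ofNat 0, .ofNat 4138, .ofNat 20593, .ofNat 173740738844499899827599439322152577356192458735616, .ofNat 4524203030637539316452224885019495504967234486272, .ofNat 564329502076899731643923417992795332864569769984, .ofNat 0, .ofNat 1820168363313782233361798932636263483426754330099712,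 .ofNat 34071913064859130555727085502499118220950999400448, .ofNat 0, .ofNat 0, .ofNat 7056837369899779428939371198228480500716205330399232, .ofNat 123753745019734753642945088767956169225296236511232, .ofNat 3980313690051583637874258849352627609478973358080, .ofNat 0, .ofNat 57580696198937674873103932004108585727390231019126784, .ofNat 1248252251175156875117957708126840342506399191793664, .ofNat 45107175006633535475764416163492084368519917993984, .ofNat 0⟩)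
    (by decide +kernel)
theorem L00850 : Good (Phi V5.P V5.D (-1) (-1)) ⟨3, 0, 3, 4, 3, 2, 3, 6, 5, 12⟩ :=
  leafX_sound T5.ok_mm T5.Ymm.bz_eq (w := 232) (c := ⟨⟨.negSucc 981, .ofNat 6, .negSucc 1, .negSucc 42, .negSucc 17, .ofNat 7⟩, ⟨.ofNat 484, .negSucc 41, .ofNat 130, .ofNat 19, .ofNat 14, .negSucc 2⟩, ⟨.ofNat 964, .negSucc 30, .ofNat 100, .ofNat 291, .negSucc 114, .ofNat 43⟩, ⟨.negSucc 3015, .ofNat 93, .negSucc 26, .negSucc 151, .negSucc 13, .ofNat 29⟩, ⟨.negSucc 125, .ofNat 36, .negSucc 20, .negSucc 42, .ofNat 78, .ofNat 15⟩, .ofNat 2011, .ofNat 2477, .ofNat 0, .ofNat 2477, .ofNat 4915, .ofNat 0, .ofNat 128, .negSucc 232, .negSucc 55, .ofNat 0, .ofNat 186, .ofNat 24, .ofNat 0, .ofNat 0, .ofNat 1134, .ofNat 23400, .ofNat 0, .ofNat 0, .ofNat 22037302582332300990216000212892735638601728, .ofNat 0, .ofNat 0, .ofNat 0, .ofNat 0, .ofNat 0, .ofNat 0, .ofNat 0, .ofNat 0, .ofNat 0, .ofNat 0, .ofNat 31176163112404192352157462600317583373094617088,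 .ofNat 399430103697778294192383714571936448278167552, .ofNat 0⟩)
    (by decide +kernel)
theorem L00851 : Good (Phi V5.P V5.D (-1) (-1)) ⟨3, 0, 4, 8, 3, 2, 3, 6, 5, 13⟩ :=
  leafX_sound T5.ok_mm T5.Ymm.bz_eq (w := 235) (c := ⟨⟨.negSucc 968, .ofNat 8, .negSucc 2, .negSucc 38, .negSucc 30, .ofNat 11⟩, ⟨.ofNat 477, .negSucc 41, .ofNat 66, .ofNat 17, .ofNat 21, .negSucc 4⟩, ⟨.ofNat 974, .negSucc 58, .ofNat 49, .ofNat 384, .negSucc 132, .ofNat 45⟩, ⟨.negSucc 2973, .ofNat 104, .negSucc 13, .negSucc 143, .negSucc 52, .ofNat 40⟩, ⟨.negSucc 119, .ofNat 50, .negSucc 0, .negSucc 58, .ofNat 80, .ofNat 14⟩, .ofNat 1858, .ofNat 2215, .ofNat 0, .ofNat 2215, .ofNat 4439, .ofNat 0, .ofNat 128, .negSucc 155, .negSucc 34, .ofNat 0, .ofNat 125, .ofNat 12, .ofNat 0, .ofNat 0, .ofNat 1090, .ofNat 23592, .ofNat 0, .ofNat 13098771614949087680678254304667516429540524032, .ofNat 33207568899042772621984847064107445427109888,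 .ofNat 0, .ofNat 0, .ofNat 0, .ofNat 0, .ofNat 0, .ofNat 0, .ofNat 0, .ofNat 64318438788446317696656202853230330098221056, .ofNat 0, .ofNat 0, .ofNat 224230146018919807669544750532644989325316980736, .ofNat 0, .ofNat 0⟩)
    (by decide +kernel)
theorem L00852 : Good (Phi V5.P V5.D (-1) (-1)) ⟨3, 0, 4, 9, 3, 2, 3, 6, 5, 13⟩ :=
  leafX_sound T5.ok_mm T5.Ymm.bz_eq (w := 236) (c := ⟨⟨.negSucc 966, .ofNat 11, .negSucc 0, .negSucc 41, .negSucc 33, .ofNat 10⟩, ⟨.ofNat 539, .negSucc 39, .ofNat 66, .ofNat 21, .ofNat 22, .negSucc 4⟩, ⟨.ofNat 1021, .negSucc 131, .ofNat 14, .ofNat 408, .negSucc 128, .ofNat 50⟩, ⟨.negSucc 2963, .ofNat 53, .negSucc 12, .negSucc 163, .negSucc 53, .ofNat 32⟩, ⟨.negSucc 109, .ofNat 20, .negSucc 5, .negSucc 69, .ofNat 83, .ofNat 3⟩, .ofNat 2445, .ofNat 3052, .ofNat 0, .ofNat 3052, .ofNat 5511, .ofNat 0, .ofNat 128, .negSucc 319, .negSucc 86, .ofNat 0, .ofNat 247, .ofNat 37, .ofNat 0,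 .ofNat 0, .ofNat 2795, .ofNat 68854, .ofNat 0, .ofNat 49038885750566213348965330386835409064102461440, .ofNat 178739596302606020414457628217027046630490112, .ofNat 0, .ofNat 0, .ofNat 0, .ofNat 2416248585778954957507315272821486306853912576, .ofNat 0, .ofNat 0, .ofNat 192577657327283876835214431213787854531226238976, .ofNat 2105422091583464720419122223966729037674446848, .ofNat 0, .ofNat 0, .ofNat 2129905264885348455760706231016564801338356006912, .ofNat 12068985193724396562468196449615883837600956416, .ofNat 0⟩)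
    (by decide +kernel)
theorem L00853 : Good (Phi V5.P V5.D (-1) (-1)) ⟨3, 0, 3, 5, 3, 2, 3, 6, 4, 6⟩ :=
  out_sound (S := T5.ds_mm) T5.ok_mm (w := 45) (j := 3) (by decide +kernel)
theorem L00854 : Good (Phi V5.P V5.D (-1) (-1)) ⟨3, 0, 3, 4, 4, 4, 4, 14, 6, 24⟩ :=
  leafX_sound T5.ok_mm T5.Ymm.bz_eq (w := 255) (c := ⟨⟨.negSucc 984, .ofNat 24, .negSucc 6, .negSucc 37, .negSucc 23, .negSucc 5⟩, ⟨.ofNat 490, .negSucc 50, .ofNat 131, .ofNat 19, .ofNat 17, .ofNat 4⟩, ⟨.ofNat 843, .negSucc 37, .ofNat 90, .ofNat 154, .negSucc 82, .ofNat 7⟩, ⟨.negSucc 2988, .ofNat 144, .negSucc 27, .negSucc 118, .negSucc 24, .negSucc 10⟩, ⟨.negSucc 50, .ofNat 47, .negSucc 15, .negSucc 6, .ofNat 89, .ofNat 8⟩, .ofNat 458, .ofNat 193, .ofNat 0, .ofNat 193, .ofNat 674, .ofNat 0, .ofNat 199, .negSucc 77, .negSucc 33, .ofNat 0, .ofNat 128, .ofNat 4, .ofNat 0, .ofNat 0, .ofNat 352, .ofNat 30044, .ofNat 0, .ofNat 234988965279136823873689078535389470601081381715968,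 .ofNat 166350533224266058433839134475612290988255788138496, .ofNat 0, .ofNat 0, .ofNat 0, .ofNat 35970090409470912383190964244590807703852349915136, .ofNat 0, .ofNat 0, .ofNat 0, .ofNat 0, .ofNat 0, .ofNat 0, .ofNat 640407393210695568678847647872292003998905569116160, .ofNat 389484381033504634817865045270634751832269338443776, .ofNat 0⟩)
    (by decide +kernel)
theorem L00855 : Good (Phi V5.P V5.D (-1) (-1)) ⟨3, 0, 3, 4, 4, 4, 4, 14, 6, 25⟩ :=
  leafX_sound T5.ok_mm T5.Ymm.bz_eq (w := 255) (c := ⟨⟨.negSucc 993, .ofNat 27, .negSucc 0, .negSucc 35, .negSucc 23, .ofNat 1⟩, ⟨.ofNat 495, .negSucc 52, .ofNat 127, .ofNat 18, .ofNat 16, .ofNat 0⟩, ⟨.ofNat 850, .negSucc 34, .ofNat 88, .ofNat 161, .negSucc 89, .ofNat 0⟩, ⟨.negSucc 3003, .ofNat 150, .negSucc 13, .negSucc 111, .negSucc 27, .ofNat 6⟩, ⟨.negSucc 38, .ofNat 44, .negSucc 11, .negSucc 10, .ofNat 85, .ofNat 9⟩, .ofNat 1308, .ofNat 1326, .ofNat 0, .ofNat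 1326, .ofNat 2898, .ofNat 0, .ofNat 128, .negSucc 160, .negSucc 29, .ofNat 0, .ofNat 138, .ofNat 11, .ofNat 0, .ofNat 0, .ofNat 496, .ofNat 31000, .ofNat 0, .ofNat 358910020083101866036920537916479042461952552992768, .ofNat 229600419255441290229822091597262139573904833773568, .ofNat 0, .ofNat 0, .ofNat 1928749971198766708396508884633464548167903495585792, .ofNat 1065357013533557380556083129200201284066471065944064, .ofNat 0, .ofNat 0, .ofNat 4105552380594305335560306938662735499252450883272704, .ofNat 1156091740470347818979647477789965134178664398716928, .ofNat 0, .ofNat 0, .ofNat 1105935139877961429465564878406117435786038645620736, .ofNat 994116601272435156586962066945830567571727650390016, .ofNat 0⟩)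
    (by decide +kernel)
theorem L00856 : Good (Phi V5.P V5.D (-1) (-1)) ⟨3, 0, 3, 4, 4, 4, 5, 28, 5, 13⟩ :=
  leafX_sound T5.ok_mm T5.Ymm.bz_eq (w := 255) (c := ⟨⟨.negSucc 990, .ofNat 24, .negSucc 4, .negSucc 31, .negSucc 14, .ofNat 1⟩, ⟨.ofNat 494, .negSucc 50, .ofNat 129, .ofNat 16, .ofNat 10, .ofNat 0⟩, ⟨.ofNat 839, .negSucc 25, .ofNat 108, .ofNat 181, .negSucc 50, .ofNat 6⟩, ⟨.negSucc 2990, .ofNat 140, .negSucc 24, .negSucc 102, .negSucc 22, .ofNat 10⟩, ⟨.negSucc 28, .ofNat 45, .negSucc 17, .negSucc 14, .ofNat 43, .ofNat 15⟩, .ofNat 1329, .ofNat 1351, .ofNat 0, .ofNat 1351, .ofNat 2913, .ofNat 0, .ofNat 128, .negSucc 224, .negSucc 67, .ofNat 0, .ofNat 194, .ofNat 20, .ofNat 0, .ofNat 0, .ofNat 1533, .ofNat 56658, .ofNat 0, .ofNat 0, .ofNat 262869395055319304783312803054442589492917959655424, .ofNat 0, .ofNat 0, .ofNat 0, .ofNat 874842681241494518265650309574913888951913534193664, .ofNat 0, .ofNat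 0, .ofNat 0, .ofNat 0, .ofNat 0, .ofNat 0, .ofNat 0, .ofNat 0, .ofNat 0⟩)
    (by decide +kernel)
theorem L00857 : Good (Phi V5.P V5.D (-1) (-1)) ⟨3, 0, 3, 4, 4, 4, 5, 29, 5, 13⟩ :=
  leafX_sound T5.ok_mm T5.Ymm.bz_eq (w := 255) (c := ⟨⟨.negSucc 1002, .ofNat 28, .negSucc 5, .negSucc 37, .negSucc 16, .negSucc 3⟩, ⟨.ofNat 503, .negSucc 54, .ofNat 129, .ofNat 19, .ofNat 11, .ofNat 3⟩, ⟨.ofNat 803, .negSucc 25, .ofNat 101, .ofNat 166, .negSucc 52, .negSucc 6⟩, ⟨.negSucc 3008, .ofNat 156, .negSucc 25, .negSucc 115, .negSucc 26, .negSucc 0⟩, ⟨.ofNat 6, .ofNat 48, .negSucc 19, .negSucc 3, .ofNat 52, .ofNat 20⟩, .ofNat 812, .ofNat 577, .ofNat 0, .ofNat 577, .ofNat 1494, .ofNat 0, .ofNat 143, .negSucc 117, .negSucc 33, .ofNat 0, .ofNat 128, .ofNat 5, .ofNat 0, .ofNat 0, .ofNat 615, .ofNat 51319, .ofNat 0, .ofNat 684291512395032470848142281750732144946611004375040, .ofNat 162536271364425064625122698740751565996814514520064,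 .ofNat 0, .ofNat 0, .ofNat 2074994030343879006937401993436758999895711298879488, .ofNat 537948394643710329320290663278522084875529422372864, .ofNat 0, .ofNat 0, .ofNat 3020680080937975162428225214689383882682544171253760, .ofNat 0, .ofNat 0, .ofNat 0, .ofNat 1833763946279893913918505838753963095261890639560704, .ofNat 1130079387599565949903474234514479597935779182018560, .ofNat 0⟩)
    (by decide +kernel)
theorem L00858 : Good (Phi V5.P V5.D (-1) (-1)) ⟨4, 0, 3, 4, 4, 5, 5, 28, 5, 12⟩ :=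
  leafX_sound T5.ok_mm T5.Ymm.bz_eq (w := 259) (c := ⟨⟨.negSucc 1026, .ofNat 16, .negSucc 1, .negSucc 35, .negSucc 15, .ofNat 3⟩, ⟨.ofNat 510, .negSucc 27, .ofNat 132, .ofNat 17, .ofNat 11, .negSucc 0⟩, ⟨.ofNat 993, .negSucc 31, .ofNat 115, .ofNat 190, .negSucc 37, .ofNat 31⟩, ⟨.negSucc 3115, .ofNat 83, .negSucc 22, .negSucc 117, .negSucc 26, .ofNat 15⟩, ⟨.negSucc 63, .ofNat 34, .negSucc 19, .negSucc 21, .ofNat 44, .ofNat 14⟩, .ofNat 825, .ofNat 593, .ofNat 0, .ofNat 593, .ofNat 1494, .ofNat 0, .ofNat 150, .negSucc 119, .negSucc 44, .ofNat 0, .ofNat 128, .ofNat 6, .ofNat 0, .ofNat 0, .ofNat 1000, .ofNat 45543, .ofNat 0, .ofNat 3640307687855939471860078521503907671968752540319744, .ofNat 48464041247283429560233318592144831840348996108288, .ofNat 0, .ofNat 0, .ofNat 0, .ofNat 0, .ofNat 0, .ofNat 0, .ofNat 20598883835326129082723525967887425071939736102240256, .ofNat 115810937916945421698328783261693547838139816476672,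 .ofNat 0, .ofNat 0, .ofNat 66186786843281919633369358100338415639781850849738752, .ofNat 591046750259233181883277415118950813166778475085824, .ofNat 0⟩)
    (by decide +kernel)
theorem L00859 : Good (Phi V5.P V5.D (-1) (-1)) ⟨4, 0, 3, 4, 4, 5, 5, 29, 5, 12⟩ :=
  leafX_sound T5.ok_mm T5.Ymm.bz_eq (w := 259) (c := ⟨⟨.negSucc 1040, .ofNat 18, .negSucc 4, .negSucc 43, .negSucc 18, .negSucc 1⟩, ⟨.ofNat 520, .negSucc 28, .ofNat 132, .ofNat 22, .ofNat 12, .ofNat 2⟩, ⟨.ofNat 962, .negSucc 29, .ofNat 102, .ofNat 180, .negSucc 37, .ofNat 18⟩, ⟨.negSucc 3138, .ofNat 90, .negSucc 24, .negSucc 137, .negSucc 28, .ofNat 2⟩, ⟨.negSucc 21, .ofNat 34, .negSucc 17, .negSucc 12, .ofNat 51, .ofNat 17⟩, .ofNat 452, .ofNat 177, .ofNat 0, .ofNat 177, .ofNat 651, .ofNat 0, .ofNat 227, .negSucc 72, .negSucc 61, .ofNat 0, .ofNat 128, .negSucc 3, .ofNat 0, .ofNat 0, .ofNat 793, .ofNat 67007, .ofNat 0, .ofNat 13181573035783759536825914273044919638127319688675328,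 .ofNat 51888336957496111070698408715494419263581526687744, .ofNat 0, .ofNat 0, .ofNat 102282369469342056216533188138961541417170191194783744, .ofNat 59140513973520582336038892591409036131005192208384, .ofNat 0, .ofNat 0, .ofNat 52955363532914527481090151779351881971679478650241024, .ofNat 0, .ofNat 0, .ofNat 0, .ofNat 284978396303580893160908401960080461728004480765526016, .ofNat 62278366626083125883739701524795308415773925441536, .ofNat 0⟩)
    (by decide +kernel)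
theorem L00860 : Good (Phi V5.P V5.D (-1) (-1)) ⟨4, 1, 5, 16, 4, 5, 4, 14, 5, 12⟩ :=
  leafX_sound T5.ok_mm T5.Ymm.bz_eq (w := 260) (c := ⟨⟨.negSucc 1012, .ofNat 8, .negSucc 2, .negSucc 33, .negSucc 25, .ofNat 3⟩, ⟨.ofNat 484, .negSucc 24, .ofNat 33, .ofNat 16, .ofNat 17, .negSucc 0⟩, ⟨.ofNat 969, .negSucc 26, .ofNat 22, .ofNat 176, .negSucc 74, .ofNat 31⟩, ⟨.negSucc 3035, .ofNat 75, .negSucc 10, .negSucc 106, .negSucc 33, .ofNat 13⟩, ⟨.negSucc 29, .ofNat 23, .negSucc 4, .negSucc 11, .ofNat 87, .ofNat 10⟩, .ofNat 1877, .ofNat 2336, .ofNat 0, .ofNat 2336, .ofNat 4883, .ofNat 0, .ofNat 128, .negSucc 156, .negSucc 30, .ofNat 0, .ofNat 123, .ofNat 9, .ofNat 0, .ofNat 0, .ofNat 776, .ofNat 39599, .ofNat 0, .ofNat 72042010750287616874627315697799950961080860802023424, .ofNat 5251252594462245259099099953848474891613477273600, .ofNat 0, .ofNat 0, .ofNat 476696686468662541531339004517495639090582566197002240,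 .ofNat 51446053774309125898476446297269742379829173420032, .ofNat 0, .ofNat 0, .ofNat 977764204069784179953244354911428899451919908705665024, .ofNat 33640926488747041950315402779599748979465784393728, .ofNat 0, .ofNat 0, .ofNat 1005083510711431649736664368102978020673899922771148800, .ofNat 0, .ofNat 0⟩)
    (by decide +kernel)
theorem L00861 : Good (Phi V5.P V5.D (-1) (-1)) ⟨4, 1, 5, 17, 4, 5, 4, 14, 5, 12⟩ :=
  out_sound (S := T5.ds_mm) T5.ok_mm (w := 55) (j := 3) (by decide +kernel)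
theorem L00862 : Good (Phi V5.P V5.D (-1) (-1)) ⟨4, 1, 4, 9, 4, 5, 4, 14, 5, 12⟩ :=
  out_sound (S := T5.ds_mm) T5.ok_mm (w := 53) (j := 3) (by decide +kernel)
theorem L00863 : Good (Phi V5.P V5.D (-1) (-1)) ⟨3, 0, 4, 8, 4, 5, 4, 14, 5, 13⟩ :=
  leafX_sound T5.ok_mm T5.Ymm.bz_eq (w := 254) (c := ⟨⟨.negSucc 1023, .ofNat 26, .negSucc 0, .negSucc 29, .negSucc 34, .ofNat 5⟩, ⟨.ofNat 510, .negSucc 52, .ofNat 65, .ofNat 14, .ofNat 22, .negSucc 1⟩, ⟨.ofNat 1010, .negSucc 42, .ofNat 65, .ofNat 211, .negSucc 91, .ofNat 30⟩, ⟨.negSucc 3101, .ofNat 159, .negSucc 11, .negSucc 103, .negSucc 58, .ofNat 20⟩, ⟨.negSucc 45, .ofNat 60, .negSucc 11, .negSucc 25, .ofNat 88, .ofNat 10⟩, .ofNat 449, .ofNat 172, .ofNat 0, .ofNat 172, .ofNat 653, .ofNat 0, .ofNat 238, .negSucc 71, .negSucc 51, .ofNat 0, .ofNat 128, .negSucc 22, .ofNat 0, .ofNat 0, .ofNat 1155, .ofNat 49958, .ofNat 0, .ofNat 1194971712307243066369262533888935615277341756882944,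 .ofNat 21474691380389560817899091714451783368499645120512, .ofNat 0, .ofNat 0, .ofNat 13082350361249245241437747392917501430807288239620096, .ofNat 94083382880773871477731870382670801398028686065664, .ofNat 0, .ofNat 0, .ofNat 6552874009442966323693550961128517994905459759251456, .ofNat 0, .ofNat 0, .ofNat 0, .ofNat 31931845581179732826626691876179203157580159486263296, .ofNat 23986406286407312591187269234022932493718695968768, .ofNat 0⟩)
    (by decide +kernel)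
theorem L00864 : Good (Phi V5.P V5.D (-1) (-1)) ⟨4, 0, 4, 9, 4, 5, 5, 28, 5, 13⟩ :=
  leafX_sound T5.ok_mm T5.Ymm.bz_eq (w := 262) (c := ⟨⟨.negSucc 1025, .ofNat 18, .negSucc 3, .negSucc 30, .negSucc 19, .ofNat 5⟩, ⟨.ofNat 575, .negSucc 27, .ofNat 67, .ofNat 16, .ofNat 13, .negSucc 1⟩, ⟨.ofNat 1071, .negSucc 31, .ofNat 51, .ofNat 238, .negSucc 42, .ofNat 34⟩, ⟨.negSucc 3108, .ofNat 78, .negSucc 17, .negSucc 112, .negSucc 36, .ofNat 19⟩, ⟨.negSucc 54, .ofNat 32, .negSucc 8, .negSucc 37, .ofNat 41, .ofNat 8⟩, .ofNat 462, .ofNat 195, .ofNat 0, .ofNat 195, .ofNat 657, .ofNat 0, .ofNat 246, .negSucc 77, .negSucc 53, .ofNat 0, .ofNat 128, .negSucc 24, .ofNat 0, .ofNat 0, .ofNat 1297, .ofNat 76372, .ofNat 0, .ofNat 96430990069076896443730910005273126182774170976256000, .ofNat 244650632145723917235260733641349366186669701595136, .ofNat 0, .ofNat 0, .ofNat 540978548222205319589854107079309885120747728978051072,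 .ofNat 1006035051210539586864781748341236987579703133995008, .ofNat 0, .ofNat 0, .ofNat 386711930778039392651055652240882888750497443319119872, .ofNat 397292407203242973091231635883901170019589821562880, .ofNat 0, .ofNat 0, .ofNat 2562120183511520730987698645948517237345789561618300928, .ofNat 4316016176012240139030986656503777039899683087974400, .ofNat 0⟩)
    (by decide +kernel)
theorem L00865 : Good (Phi V5.P V5.D (-1) (-1)) ⟨4, 0, 4, 9, 4, 5, 5, 29, 5, 13⟩ :=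
  out_sound (S := T5.ds_mm) T5.ok_mm (w := 42) (j := 2) (by decide +kernel)
theorem L00866 : Good (Phi V5.P V5.D (-1) (-1)) ⟨4, 1, 4, 9, 4, 5, 4, 14, 5, 13⟩ :=
  out_sound (S := T5.ds_mm) T5.ok_mm (w := 53) (j := 3) (by decide +kernel)
theorem L00867 : Good (Phi V5.P V5.D (-1) (-1)) ⟨3, 0, 3, 4, 3, 2, 4, 15, 4, 6⟩ :=
  leafX_sound T5.ok_mm T5.Ymm.bz_eq (w := 231) (c := ⟨⟨.negSucc 1006, .ofNat 33, .negSucc 9, .negSucc 101, .negSucc 28, .negSucc 23⟩, ⟨.ofNat 507, .negSucc 56, .ofNat 129, .ofNat 53, .ofNat 23, .ofNat 15⟩, ⟨.ofNat 760, .negSucc 35, .ofNat 82, .ofNat 309, .negSucc 89, .negSucc 3⟩, ⟨.negSucc 3009, .ofNat 171, .negSucc 28, .negSucc 292, .negSucc 29, .negSucc 49⟩, ⟨.ofNat 35, .ofNat 51, .negSucc 11, .ofNat 17, .ofNat 113, .ofNat 44⟩, .ofNat 450, .ofNat 174, .ofNat 0, .ofNat 174, .ofNat 653, .ofNat 0, .ofNat 195, .negSucc 71, .negSucc 55, .ofNat 0, .ofNat 128, .ofNat 4, .ofNat 0, .ofNat 0,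 .ofNat 486, .ofNat 31846, .ofNat 0, .ofNat 5036423941020419628953755684666977948107014144, .ofNat 8106002582810815975854256301438030525235200, .ofNat 0, .ofNat 0, .ofNat 69857707087267028443651175759174847004682485760, .ofNat 55701132334057538545876263359242891564154880, .ofNat 0, .ofNat 0, .ofNat 40905032509822228944884445254202334429608673280, .ofNat 11741546461143209547565355410472113413292032, .ofNat 0, .ofNat 0, .ofNat 48522106812879223075333956673335106626050326528, .ofNat 10196094452390872072597619040761614992146432, .ofNat 0⟩)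
    (by decide +kernel)
theorem L00868 : Good (Phi V5.P V5.D (-1) (-1)) ⟨3, 0, 3, 5, 3, 2, 3, 7, 4, 6⟩ :=
  out_sound (S := T5.ds_mm) T5.ok_mm (w := 45) (j := 3) (by decide +kernel)
theorem L00869 : Good (Phi V5.P V5.D (-1) (-1)) ⟨3, 0, 2, 2, 3, 2, 3, 6, 4, 7⟩ :=
  leafX_sound T5.ok_mm T5.Ymm.bz_eq (w := 224) (c := ⟨⟨.negSucc 960, .ofNat 16, .ofNat 7, .negSucc 25, .negSucc 38, .ofNat 21⟩, ⟨.ofNat 475, .negSucc 46, .ofNat 249, .ofNat 8, .ofNat 25, .negSucc 9⟩, ⟨.ofNat 979, .ofNat 3, .ofNat 287, .ofNat 498, .negSucc 207, .ofNat 140⟩, ⟨.negSucc 2937, .ofNat 120, .negSucc 32, .negSucc 116, .negSucc 61, .ofNat 54⟩, ⟨.negSucc 95, .ofNat 32, .negSucc 27, .negSucc 82, .ofNat 105, .negSucc 18⟩, .ofNat 1683, .ofNat 1936, .ofNat 0, .ofNat 1936, .ofNat 3984, .ofNat 0, .ofNat 128, .negSucc 201, .negSucc 47, .ofNat 0, .ofNat 165, .ofNat 0, .ofNat 0, .ofNat 0, .ofNat 3145, .ofNat 23944, .ofNat 0, .ofNat 49332497013740255982801629657124852908163072,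 .ofNat 674827853371507969182782336358163786235904, .ofNat 0, .ofNat 0, .ofNat 189411864609872816344181884353843817290399744, .ofNat 1186860427723553918668438723456237578485760, .ofNat 0, .ofNat 4846766118780049658665775516663631528182415360, .ofNat 218909777216294366768178856689055378572312576, .ofNat 2219224831563335127327228969155214249558016, .ofNat 0, .ofNat 179750178036337902471043766166525719050612375552, .ofNat 5253027885543815640271596757670378280490893312, .ofNat 46917251716611223740584827462761406579867648, .ofNat 0⟩)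
    (by decide +kernel)
theorem L00870 : Good (Phi V5.P V5.D (-1) (-1)) ⟨3, 0, 3, 4, 3, 2, 4, 14, 4, 7⟩ :=
  leafX_sound T5.ok_mm T5.Ymm.bz_eq (w := 231) (c := ⟨⟨.negSucc 992, .ofNat 27, .negSucc 2, .negSucc 51, .negSucc 34, .ofNat 6⟩, ⟨.ofNat 497, .negSucc 53, .ofNat 125, .ofNat 24, .ofNat 22, .negSucc 0⟩, ⟨.ofNat 830, .negSucc 2, .ofNat 127, .ofNat 408, .negSucc 110, .negSucc 8⟩, ⟨.negSucc 2987, .ofNat 146, .negSucc 18, .negSucc 176, .negSucc 58, .ofNat 29⟩, ⟨.negSucc 11, .ofNat 41, .negSucc 24, .negSucc 36, .ofNat 93, .ofNat 29⟩, .ofNat 450, .ofNat 175, .ofNat 0, .ofNat 175, .ofNat 654, .ofNat 0, .ofNat 297, .negSucc 71, .negSucc 68, .ofNat 0, .ofNat 128, .negSucc 30, .ofNat 0, .ofNat 0, .ofNat 1525, .ofNat 23484, .ofNat 0, .ofNat 3490729224914249783741301959323030126692663296, .ofNat 11331063265313802374955417805045975159406592, .ofNat 0, .ofNat 0, .ofNat 23740335589032666754334311706392386859446566912,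 .ofNat 37233975331956464351885376280588488062009344, .ofNat 0, .ofNat 0, .ofNat 10103229965247202743417535784921492062428200960, .ofNat 7871718017153172762867422312795053968326656, .ofNat 0, .ofNat 0, .ofNat 153847664711081862858732384162488340988666314752, .ofNat 66626677680302483334867543982685930496458752, .ofNat 0⟩)
    (by decide +kernel)
theorem L00871 : Good (Phi V5.P V5.D (-1) (-1)) ⟨3, 0, 3, 5, 3, 2, 4, 14, 4, 7⟩ :=
  out_sound (S := T5.ds_mm) T5.ok_mm (w := 45) (j := 3) (by decide +kernel)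
theorem L00872 : Good (Phi V5.P V5.D (-1) (-1)) ⟨3, 0, 2, 2, 3, 2, 4, 15, 4, 7⟩ :=
  out_sound (S := T5.ds_mm) T5.ok_mm (w := 36) (j := 2) (by decide +kernel)
theorem L00873 : Good (Phi V5.P V5.D (-1) (-1)) ⟨3, 0, 3, 4, 4, 6, 4, 12, 4, 6⟩ :=
  leafX_sound T5.ok_mm T5.Ymm.bz_eq (w := 245) (c := ⟨⟨.negSucc 1032, .ofNat 11, .ofNat 6, .negSucc 7, .negSucc 11, .ofNat 45⟩, ⟨.ofNat 506, .negSucc 41, .ofNat 131, .ofNat 2, .ofNat 8, .negSucc 24⟩, ⟨.ofNat 1150, .negSucc 94, .ofNat 196, .ofNat 274, .ofNat 4, .ofNat 348⟩, ⟨.negSucc 3186, .ofNat 122, .negSucc 25, .negSucc 57, .negSucc 18, .ofNat 121⟩, ⟨.negSucc 161, .ofNat 59, .negSucc 46, .negSucc 64, .ofNat 33, .negSucc 30⟩, .ofNat 820, .ofNat 590, .ofNat 0, .ofNat 590, .ofNat 1507, .ofNat 0, .ofNat 128, .negSucc 123, .negSucc 27, .ofNat 0, .ofNat 132, .negSucc 15, .ofNat 0, .ofNat 0, .ofNat 2201, .ofNat 21833, .ofNat 0, .ofNat 984479769616321068320370471568661153935305736192,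 .ofNat 274394653477792623326348525162721510106379321344, .ofNat 0, .ofNat 0, .ofNat 0, .ofNat 0, .ofNat 0, .ofNat 0, .ofNat 0, .ofNat 784552727897413622198321504448826261139590479872, .ofNat 0, .ofNat 0, .ofNat 294565934926851933772814741504415708446873897402368, .ofNat 14841677749808728378009418339857033849665004503040, .ofNat 0⟩)
    (by decide +kernel)
theorem L00874 : Good (Phi V5.P V5.D (-1) (-1)) ⟨3, 0, 3, 4, 4, 6, 4, 13, 5, 12⟩ :=
  leafX_sound T5.ok_mm T5.Ymm.bz_eq (w := 250) (c := ⟨⟨.negSucc 1041, .ofNat 20, .ofNat 3, .negSucc 19, .negSucc 23, .ofNat 17⟩, ⟨.ofNat 513, .negSucc 47, .ofNat 134, .ofNat 8, .ofNat 15, .negSucc 8⟩, ⟨.ofNat 1193, .negSucc 89, .ofNat 143, .ofNat 224, .negSucc 33, .ofNat 111⟩, ⟨.negSucc 3203, .ofNat 152, .negSucc 22, .negSucc 81, .negSucc 42, .ofNat 47⟩, ⟨.negSucc 144, .ofNat 71, .negSucc 30, .negSucc 39, .ofNat 59, .negSucc 3⟩, .ofNat 1537, .ofNat 1686, .ofNat 0,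 .ofNat 1686, .ofNat 3514, .ofNat 0, .ofNat 128, .negSucc 178, .negSucc 18, .ofNat 0, .ofNat 147, .negSucc 2, .ofNat 0, .ofNat 0, .ofNat 1416, .ofNat 24989, .ofNat 0, .ofNat 26984517015425015653751288349878738577052120645632, .ofNat 7776118051454943416613110204170088016682019717120, .ofNat 0, .ofNat 0, .ofNat 0, .ofNat 0, .ofNat 0, .ofNat 0, .ofNat 0, .ofNat 0, .ofNat 0, .ofNat 0, .ofNat 2709991906314145626256302685697871083212761670352896, .ofNat 92981065669216386469728770149024781728373972926464, .ofNat 0⟩)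
    (by decide +kernel)
theorem L00875 : Good (Phi V5.P V5.D (-1) (-1)) ⟨3, 0, 4, 8, 4, 6, 4, 13, 5, 13⟩ :=
  leafX_sound T5.ok_mm T5.Ymm.bz_eq (w := 253) (c := ⟨⟨.negSucc 1027, .ofNat 20, .ofNat 3, .negSucc 12, .negSucc 25, .ofNat 19⟩, ⟨.ofNat 505, .negSucc 46, .ofNat 64, .ofNat 4, .ofNat 16, .negSucc 9⟩, ⟨.ofNat 1268, .negSucc 75, .ofNat 100, .ofNat 297, .negSucc 44, .ofNat 147⟩, ⟨.negSucc 3156, .ofNat 146, .negSucc 10, .negSucc 68, .negSucc 44, .ofNat 50⟩, ⟨.negSucc 137, .ofNat 67, .negSucc 20, .negSucc 59, .ofNat 56, .negSucc 14⟩, .ofNat 449, .ofNat 173, .ofNat 0, .ofNat 173, .ofNat 654, .ofNat 0, .ofNat 245, .negSucc 72, .negSucc 25, .ofNat 0, .ofNat 128, .negSucc 55, .ofNat 0, .ofNat 0, .ofNat 1874, .ofNat 34466, .ofNat 0, .ofNat 666277376272313377473138208954640339458254000095232, .ofNat 11910482715085920106300202704446419601394421989376, .ofNat 0, .ofNat 0, .ofNat 0, .ofNat 0, .ofNat 0, .ofNat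 0, .ofNat 4404055730223288600782519937497552620843354040565760, .ofNat 0, .ofNat 0, .ofNat 0, .ofNat 62919089315914805411658557546091712602396254390976512, .ofNat 49585011135040219258532145029946641780437740945408, .ofNat 0⟩)
    (by decide +kernel)
theorem L00876 : Good (Phi V5.P V5.D (-1) (-1)) ⟨3, 0, 4, 9, 4, 6, 4, 13, 5, 13⟩ :=
  leafX_sound T5.ok_mm T5.Ymm.bz_eq (w := 254) (c := ⟨⟨.negSucc 1026, .ofNat 33, .ofNat 5, .negSucc 10, .negSucc 26, .ofNat 20⟩, ⟨.ofNat 571, .negSucc 51, .ofNat 64, .ofNat 3, .ofNat 17, .negSucc 11⟩, ⟨.ofNat 1335, .negSucc 48, .ofNat 121, .ofNat 346, .negSucc 26, .ofNat 175⟩, ⟨.negSucc 3159, .ofNat 118, .negSucc 17, .negSucc 75, .negSucc 54, .ofNat 49⟩, ⟨.negSucc 142, .ofNat 21, .negSucc 33, .negSucc 76, .ofNat 44, .negSucc 22⟩, .ofNat 1586, .ofNat 1705, .ofNat 0, .ofNat 1705, .ofNat 3295, .ofNat 0, .ofNat 128, .negSucc 157, .ofNat 5, .ofNat 0, .ofNat 130, .negSucc 20,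 .ofNat 0, .ofNat 0, .ofNat 2205, .ofNat 40821, .ofNat 0, .ofNat 788159572055370771975963412618472108606066486411264, .ofNat 39278400189717510927209849641559583042415838101504, .ofNat 0, .ofNat 0, .ofNat 2964023414268491016669009523242054669591555776446464, .ofNat 259478513770341864714495735868683898896236100452352, .ofNat 0, .ofNat 0, .ofNat 8112328528549825518459596680821377157516649952182272, .ofNat 170616951708958713380475265592292872717645461323776, .ofNat 0, .ofNat 0, .ofNat 76735106680716653681745349385471894171461189810257920, .ofNat 1381043190943100182593141492730833943733335939350528, .ofNat 0⟩)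
    (by decide +kernel)
theorem L00877 : Good (Phi V5.P V5.D (-1) (-1)) ⟨3, 0, 3, 5, 4, 6, 3, 6, 4, 6⟩ :=
  out_sound (S := T5.ds_mm) T5.ok_mm (w := 45) (j := 3) (by decide +kernel)
theorem L00878 : Good (Phi V5.P V5.D (-1) (-1)) ⟨3, 0, 3, 4, 4, 7, 4, 12, 5, 12⟩ :=
  leafX_sound T5.ok_mm T5.Ymm.bz_eq (w := 249) (c := ⟨⟨.negSucc 1051, .ofNat 14, .ofNat 11, .negSucc 6, .negSucc 14, .ofNat 30⟩, ⟨.ofNat 513, .negSucc 42, .ofNat 133, .ofNat 1, .ofNat 9, .negSucc 15⟩, ⟨.ofNat 1341, .negSucc 118, .ofNat 187, .ofNat 262, .ofNat 42, .ofNat 230⟩, ⟨.negSucc 3265, .ofNat 132, .negSucc 16, .negSucc 53, .negSucc 26, .ofNat 77⟩, ⟨.negSucc 210, .ofNat 70, .negSucc 40, .negSucc 61, .ofNat 32, .negSucc 25⟩, .ofNat 451, .ofNat 175, .ofNat 0, .ofNat 175, .ofNat 653, .ofNat 0, .ofNat 145, .negSucc 74, .negSucc 10, .ofNat 0, .ofNat 128, .negSucc 48, .ofNat 0, .ofNat 0, .ofNat 1677, .ofNat 14486, .ofNat 0, .ofNat 23274825488090522724325142039945112115050373447680,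 .ofNat 2920411452319364312239315547777761080877397311488, .ofNat 0, .ofNat 0, .ofNat 0, .ofNat 0, .ofNat 0, .ofNat 0, .ofNat 254046680267838453136613310609349230964244480000000, .ofNat 7188391791474008554346446563763101253703428997120, .ofNat 0, .ofNat 0, .ofNat 3930139995580493412891227289664515979184251793833984, .ofNat 36325338093356321332460862130774601070772578418688, .ofNat 0⟩)
    (by decide +kernel)
theorem L00879 : Good (Phi V5.P V5.D (-1) (-1)) ⟨3, 0, 4, 8, 4, 7, 4, 12, 5, 13⟩ :=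
  leafX_sound T5.ok_mm T5.Ymm.bz_eq (w := 253) (c := ⟨⟨.negSucc 1025, .ofNat 12, .ofNat 9, .ofNat 4, .negSucc 11, .ofNat 36⟩, ⟨.ofNat 499, .negSucc 39, .ofNat 62, .negSucc 5, .ofNat 7, .negSucc 20⟩, ⟨.ofNat 1514, .negSucc 130, .ofNat 145, .ofNat 387, .ofNat 49, .ofNat 334⟩, ⟨.negSucc 3198, .ofNat 134, .negSucc 4, .negSucc 28, .negSucc 24, .ofNat 84⟩, ⟨.negSucc 227, .ofNat 77, .negSucc 27, .negSucc 83, .ofNat 22, .negSucc 47⟩, .ofNat 1724, .ofNat 1997, .ofNat 0, .ofNat 1997, .ofNat 4062, .ofNat 0, .ofNat 128, .negSucc 194, .ofNat 55, .ofNat 0, .ofNat 157, .negSucc 54, .ofNat 0, .ofNat 0, .ofNat 3227, .ofNat 28607, .ofNat 0, .ofNat 614221846071597918657651446568804038265227844780032, .ofNat 10044723859510978550708140961622991507113432317952, .ofNat 0, .ofNat 0, .ofNat 3582198439158472324783936309461301029760811745148928, .ofNat 0, .ofNat 0, .ofNat 0, .ofNat 13203387925100124085092294950218429750085088765280256,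 .ofNat 16735377468627312556973417037139582355401217146880, .ofNat 0, .ofNat 0, .ofNat 163701794364398654457240114733487152107870950350913536, .ofNat 207249582862547367395169324592835452189028361699328, .ofNat 0⟩)
    (by decide +kernel)
theorem L00880 : Good (Phi V5.P V5.D (-1) (-1)) ⟨3, 0, 4, 9, 4, 7, 4, 12, 5, 13⟩ :=
  leafX_sound T5.ok_mm T5.Ymm.bz_eq (w := 254) (c := ⟨⟨.negSucc 1022, .ofNat 17, .ofNat 10, .ofNat 12, .negSucc 11, .ofNat 41⟩, ⟨.ofNat 566, .negSucc 40, .ofNat 63, .negSucc 11, .ofNat 6, .negSucc 25⟩, ⟨.ofNat 1592, .negSucc 146, .ofNat 163, .ofNat 493, .ofNat 96, .ofNat 412⟩, ⟨.negSucc 3196, .ofNat 67, .negSucc 14, .negSucc 28, .negSucc 31, .ofNat 84⟩, ⟨.negSucc 231, .ofNat 16, .negSucc 38, .negSucc 116, .ofNat 3, .negSucc 67⟩, .ofNat 2220, .ofNat 2691, .ofNat 0, .ofNat 2691, .ofNat 4911, .ofNat 0, .ofNat 128, .negSucc 477, .ofNat 136, .ofNat 0, .ofNat 371, .negSucc 120, .ofNat 0, .ofNat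 0, .ofNat 6553, .ofNat 53499, .ofNat 0, .ofNat 1209681858726835836303697207225171254053173601501184, .ofNat 66967287637523426576329595776714576065670930235392, .ofNat 0, .ofNat 0, .ofNat 9344889765473576187334445470038812299201542166151168, .ofNat 524754701037993729692183353969452815427926296100864, .ofNat 0, .ofNat 0, .ofNat 63850628049704897500161911822515027013791533758414848, .ofNat 1512451330385322706666733683262589151690989422772224, .ofNat 0, .ofNat 0, .ofNat 626555100860279564515559213691782561269135612007415808, .ofNat 15022885538643098444437096870416242622319606756278272, .ofNat 0⟩)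
    (by decide +kernel)
theorem L00881 : Good (Phi V5.P V5.D (-1) (-1)) ⟨3, 0, 3, 4, 4, 7, 4, 13, 4, 6⟩ :=
  leafX_sound T5.ok_mm T5.Ymm.bz_eq (w := 244) (c := ⟨⟨.negSucc 1064, .ofNat 18, .ofNat 6, .negSucc 19, .negSucc 22, .ofNat 47⟩, ⟨.ofNat 521, .negSucc 45, .ofNat 136, .ofNat 7, .ofNat 15, .negSucc 24⟩, ⟨.ofNat 1402, .negSucc 127, .ofNat 156, .ofNat 250, .ofNat 34, .ofNat 344⟩, ⟨.negSucc 3292, .ofNat 157, .negSucc 22, .negSucc 83, .negSucc 43, .ofNat 121⟩, ⟨.negSucc 185, .ofNat 86, .negSucc 36, .negSucc 53, .ofNat 46, .negSucc 35⟩, .ofNat 195, .ofNat 29, .ofNat 0, .ofNat 29, .ofNat 230, .ofNat 0, .ofNat 335, .negSucc 32, .negSucc 46, .ofNat 0, .ofNat 128, .negSucc 80, .ofNat 0, .ofNat 0, .ofNat 959, .ofNat 9745, .ofNat 0, .ofNat 5302321812937652154594554019814782205280810696704, .ofNat 62591270122545234241520807447481261187246587904, .ofNat 0, .ofNat 0, .ofNat 115432791995198494261069575523342109242639882649600,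 .ofNat 0, .ofNat 0, .ofNat 0, .ofNat 63298303977514307375175555990053774321215611076608, .ofNat 0, .ofNat 0, .ofNat 0, .ofNat 504763818417790793839588399652422699578646325100544, .ofNat 518557533525817557539635074465134902279317487616, .ofNat 0⟩)
    (by decide +kernel)
theorem L00882 : Good (Phi V5.P V5.D (-1) (-1)) ⟨3, 0, 3, 5, 4, 7, 3, 6, 4, 6⟩ :=
  out_sound (S := T5.ds_mm) T5.ok_mm (w := 45) (j := 3) (by decide +kernel)
theorem L00883 : Good (Phi V5.P V5.D (-1) (-1)) ⟨3, 0, 2, 2, 3, 3, 3, 7, 4, 6⟩ :=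
  leafX_sound T5.ok_mm T5.Ymm.bz_eq (w := 223) (c := ⟨⟨.negSucc 1064, .ofNat 28, .ofNat 0, .negSucc 69, .negSucc 61, .ofNat 16⟩, ⟨.ofNat 527, .negSucc 52, .ofNat 270, .ofNat 32, .ofNat 39, .negSucc 6⟩, ⟨.ofNat 1179, .negSucc 84, .ofNat 239, .ofNat 390, .negSucc 102, .ofNat 124⟩, ⟨.negSucc 3242, .ofNat 177, .negSucc 46, .negSucc 234, .negSucc 107, .ofNat 52⟩, ⟨.negSucc 87, .ofNat 81, .negSucc 47, .negSucc 57, .ofNat 160, .ofNat 12⟩, .ofNat 196, .ofNat 29, .ofNat 0, .ofNat 29, .ofNat 230, .ofNat 0, .ofNat 200, .negSucc 30, .negSucc 38, .ofNat 0, .ofNat 128, .negSucc 24, .ofNat 0, .ofNat 0, .ofNat 354, .ofNat 9980, .ofNat 0, .ofNat 66088640925372807202146624660837513576841216, .ofNat 100758694350693090882257353491621714329600, .ofNat 0, .ofNat 0, .ofNat 932674563601019004531531106896451941708070912, .ofNat 128624998941445015281711243619907061940224, .ofNat 0, .ofNat 0, .ofNat 553773789172317336559266049199273938354438144,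 .ofNat 0, .ofNat 0, .ofNat 0, .ofNat 1577549787890475917616219635460700917513322496, .ofNat 144378240799739853173076444417351214956544, .ofNat 0⟩)
    (by decide +kernel)
theorem L00884 : Good (Phi V5.P V5.D (-1) (-1)) ⟨3, 0, 3, 4, 4, 6, 4, 12, 5, 14⟩ :=
  leafX_sound T5.ok_mm T5.Ymm.bz_eq (w := 250) (c := ⟨⟨.negSucc 995, .ofNat 11, .ofNat 12, .ofNat 9, .negSucc 14, .ofNat 32⟩, ⟨.ofNat 487, .negSucc 38, .ofNat 124, .negSucc 9, .ofNat 9, .negSucc 18⟩, ⟨.ofNat 1366, .negSucc 96, .ofNat 273, .ofNat 503, .negSucc 19, .ofNat 339⟩, ⟨.negSucc 3075, .ofNat 118, .negSucc 19, .negSucc 27, .negSucc 31, .ofNat 67⟩, ⟨.negSucc 167, .ofNat 65, .negSucc 47, .negSucc 107, .ofNat 28, .negSucc 52⟩, .ofNat 1309, .ofNat 1317, .ofNat 0, .ofNat 1317, .ofNat 2857, .ofNat 0, .ofNat 128, .negSucc 147, .ofNat 49, .ofNat 0, .ofNat 128, .negSucc 60, .ofNat 0, .ofNat 0, .ofNat 3666, .ofNat 20368, .ofNat 0, .ofNat 64397931949946322599116159090590433897954727165952,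 .ofNat 5356454272048780638621117509398945987546136444928, .ofNat 0, .ofNat 0, .ofNat 0, .ofNat 0, .ofNat 0, .ofNat 0, .ofNat 575948526723590565315940016692696026273407744081920, .ofNat 13677083146574464933091407435174879054591107792896, .ofNat 0, .ofNat 0, .ofNat 15585784652674854607522880793828304825663393921761280, .ofNat 0, .ofNat 0⟩)
    (by decide +kernel)
theorem L00885 : Good (Phi V5.P V5.D (-1) (-1)) ⟨3, 0, 3, 4, 4, 6, 4, 13, 5, 14⟩ :=
  leafX_sound T5.ok_mm T5.Ymm.bz_eq (w := 251) (c := ⟨⟨.negSucc 1008, .ofNat 18, .ofNat 8, .negSucc 4, .negSucc 23, .ofNat 21⟩, ⟨.ofNat 496, .negSucc 44, .ofNat 125, .ofNat 0, .ofNat 15, .negSucc 11⟩, ⟨.ofNat 1382, .negSucc 63, .ofNat 259, .ofNat 396, .negSucc 50, .ofNat 198⟩, ⟨.negSucc 3105, .ofNat 138, .negSucc 21, .negSucc 58, .negSucc 47, .ofNat 50⟩, ⟨.negSucc 142, .ofNat 61, .negSucc 52, .negSucc 86, .ofNat 47, .negSucc 28⟩, .ofNat 450, .ofNat 175, .ofNat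 0, .ofNat 175, .ofNat 653, .ofNat 0, .ofNat 265, .negSucc 72, .negSucc 3, .ofNat 0, .ofNat 128, .negSucc 108, .ofNat 0, .ofNat 0, .ofNat 2962, .ofNat 39090, .ofNat 0, .ofNat 178448153801729725292813058024130474053759144034304, .ofNat 7931261660097066918671960021778981692792222253056, .ofNat 0, .ofNat 0, .ofNat 1894825445761018507804330775787726787618882763882496, .ofNat 0, .ofNat 0, .ofNat 0, .ofNat 1559982696062167986073849640031222522160746619469824, .ofNat 13738304250316612780223785192594136597426989957120, .ofNat 0, .ofNat 0, .ofNat 30691724012368565401105688640728537762193162150871040, .ofNat 0, .ofNat 0⟩)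
    (by decide +kernel)
theorem L00886 : Good (Phi V5.P V5.D (-1) (-1)) ⟨3, 0, 3, 5, 4, 6, 3, 6, 5, 14⟩ :=
  out_sound (S := T5.ds_mm) T5.ok_mm (w := 45) (j := 3) (by decide +kernel)
theorem L00887 : Good (Phi V5.P V5.D (-1) (-1)) ⟨3, 0, 2, 2, 4, 6, 3, 6, 5, 15⟩ :=
  leafX_sound T5.ok_mm T5.Ymm.bz_eq (w := 242) (c := ⟨⟨.negSucc 969, .ofNat 8, .ofNat 35, .ofNat 27, .negSucc 28, .ofNat 31⟩, ⟨.ofNat 473, .negSucc 36, .ofNat 236, .negSucc 22, .ofNat 16, .negSucc 19⟩, ⟨.ofNat 1592, .negSucc 144, .ofNat 760, .ofNat 827, .ofNat 3, .ofNat 384⟩, ⟨.negSucc 3017, .ofNat 121, .negSucc 24, .negSucc 6, .negSucc 65, .ofNat 64⟩, ⟨.negSucc 199, .ofNat 79, .negSucc 135, .negSucc 168, .ofNat 39, .negSucc 66⟩, .ofNat 1309, .ofNat 1324, .ofNat 0, .ofNat 1324, .ofNat 2888, .ofNat 0, .ofNat 128, .negSucc 151, .ofNat 71, .ofNat 0, .ofNat 131, .negSucc 73, .ofNat 0, .ofNat 0, .ofNat 3697, .ofNat 15044, .ofNat 0, .ofNat 3736476748284704087322786879628876597542661390336,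 .ofNat 199701476746190736985420840241802922644538916864, .ofNat 0, .ofNat 0, .ofNat 0, .ofNat 1644915707565316125940958556341684422369834172416, .ofNat 0, .ofNat 0, .ofNat 35393336873670640121282911135928453273226439557120, .ofNat 1717330459960088804953094410048408898256685236224, .ofNat 0, .ofNat 1956710696538372334607725795217418216275883711266816, .ofNat 505923159067830233557858601474836069065596879241216, .ofNat 37996452798565974831453217337887060279725119242240, .ofNat 0⟩)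
    (by decide +kernel)
theorem L00888 : Good (Phi V5.P V5.D (-1) (-1)) ⟨3, 0, 2, 2, 4, 7, 4, 12, 4, 7⟩ :=
  leafX_sound T5.ok_mm T5.Ymm.bz_eq (w := 241) (c := ⟨⟨.negSucc 991, .ofNat 10, .ofNat 44, .ofNat 25, .negSucc 4, .ofNat 91⟩, ⟨.ofNat 479, .negSucc 37, .ofNat 240, .negSucc 19, .ofNat 2, .negSucc 56⟩, ⟨.ofNat 1814, .negSucc 130, .ofNat 761, .ofNat 646, .ofNat 127, .ofNat 1073⟩, ⟨.negSucc 3111, .ofNat 122, .negSucc 23, .negSucc 6, .negSucc 23, .ofNat 178⟩, ⟨.negSucc 263, .ofNat 70, .negSucc 151, .negSucc 148, .negSucc 12, .negSucc 189⟩, .ofNat 818, .ofNat 587, .ofNat 0, .ofNat 587, .ofNat 1502, .ofNat 0, .ofNat 128, .negSucc 124, .ofNat 48, .ofNat 0, .ofNat 133, .negSucc 60, .ofNat 0, .ofNat 0, .ofNat 2339, .ofNat 12831, .ofNat 0, .ofNat 2042950636173927345952276452281256646945928118272, .ofNat 67356683612037488089686741826610835791160541184, .ofNat 0, .ofNat 0, .ofNat 19585968576981848281686436872104672889612303073280,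 .ofNat 0, .ofNat 0, .ofNat 0, .ofNat 39638885640033437428601140044544226273464271503360, .ofNat 0, .ofNat 0, .ofNat 0, .ofNat 450937829559452545120890548625604724846208785317888, .ofNat 1816507541747273000750891941193756322035948060672, .ofNat 0⟩)
    (by decide +kernel)
theorem L00889 : Good (Phi V5.P V5.D (-1) (-1)) ⟨3, 0, 2, 2, 4, 7, 4, 13, 4, 7⟩ :=
  out_sound (S := T5.ds_mm) T5.ok_mm (w := 38) (j := 2) (by decide +kernel)
theorem L00890 : Good (Phi V5.P V5.D (-1) (-1)) ⟨3, 0, 2, 2, 3, 3, 3, 7, 4, 7⟩ :=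
  out_sound (S := T5.ds_mm) T5.ok_mm (w := 34) (j := 2) (by decide +kernel)
theorem L00891 : Good (Phi V5.P V5.D (-1) (-1)) ⟨3, 1, 2, 2, 2, 1, 1, 1, 2, 1⟩ :=
  out_sound (S := T5.ds_mm) T5.ok_mm (w := 43) (j := 3) (by decide +kernel)
theorem L00892 : Good (Phi V5.P V5.D (-1) (-1)) ⟨2, 0, 2, 3, 1, 0, 1, 1, 2, 1⟩ :=
  out_sound (S := T5.ds_mm) T5.ok_mm (w := 37) (j := 3) (by decide +kernel)
theorem L00893 : Good (Phi V5.P V5.D (-1) (-1)) ⟨2, 0, 1, 1, 2, 2, 2, 2, 4, 4⟩ :=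
  leafX_sound T5.ok_mm T5.Ymm.bz_eq (w := 194) (c := ⟨⟨.negSucc 1141, .ofNat 6, .negSucc 49, .negSucc 105, .negSucc 10, .ofNat 43⟩, ⟨.ofNat 546, .negSucc 91, .ofNat 671, .ofNat 60, .ofNat 13, .negSucc 20⟩, ⟨.ofNat 908, .negSucc 218, .ofNat 308, .ofNat 63, .ofNat 253, .ofNat 180⟩, ⟨.negSucc 3640, .ofNat 142, .negSucc 266, .negSucc 264, .ofNat 41, .ofNat 132⟩, ⟨.negSucc 409, .negSucc 27, .ofNat 28, .ofNat 98, .ofNat 136, .ofNat 13⟩, .ofNat 815, .ofNat 580, .ofNat 0, .ofNat 580, .ofNat 1491, .ofNat 0, .ofNat 128, .negSucc 217, .negSucc 57, .ofNat 0, .ofNat 222, .ofNat 23, .ofNat 0, .ofNat 0, .ofNat 835, .ofNat 1075, .ofNat 0, .ofNat 0, .ofNat 156244216800311833313157073539694592, .ofNat 0, .ofNat 0, .ofNat 0, .ofNat 0, .ofNat 0, .ofNat 0, .ofNat 0, .ofNat 12604830707213408166585551958856171520, .ofNat 0, .ofNat 0, .ofNat 140687391401078896478943973433233375232, .ofNat 10181601448909797010863752113060577280,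 .ofNat 0⟩)
    (by decide +kernel)
theorem L00894 : Good (Phi V5.P V5.D (-1) (-1)) ⟨2, 0, 1, 1, 3, 4, 2, 2, 4, 5⟩ :=
  leafX_sound T5.ok_mm T5.Ymm.bz_eq (w := 209) (c := ⟨⟨.negSucc 1113, .ofNat 5, .ofNat 1, .negSucc 22, .negSucc 7, .ofNat 70⟩, ⟨.ofNat 535, .negSucc 81, .ofNat 597, .ofNat 11, .ofNat 9, .negSucc 34⟩, ⟨.ofNat 1038, .negSucc 245, .ofNat 168, .ofNat 112, .ofNat 284, .ofNat 339⟩, ⟨.negSucc 3530, .ofNat 174, .negSucc 146, .negSucc 85, .ofNat 25, .ofNat 209⟩, ⟨.negSucc 358, .ofNat 51, .negSucc 34, .negSucc 33, .ofNat 94, .negSucc 1⟩, .ofNat 819, .ofNat 586, .ofNat 0, .ofNat 586, .ofNat 1496, .ofNat 0, .ofNat 128, .negSucc 130, .negSucc 27, .ofNat 0, .ofNat 136, .ofNat 3, .ofNat 0, .ofNat 0, .ofNat 1234, .ofNat 2481, .ofNat 0, .ofNat 0, .ofNat 4354460554328435836598742380714752212992, .ofNat 0, .ofNat 0, .ofNat 0, .ofNat 0, .ofNat 0, .ofNat 0, .ofNat 0, .ofNat 120503936664844871984728463433888780255232,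 .ofNat 0, .ofNat 0, .ofNat 1542177238025454721145195038547306872832000, .ofNat 633938076545816655958340945965936612999168, .ofNat 0⟩)
    (by decide +kernel)
theorem L00895 : Good (Phi V5.P V5.D (-1) (-1)) ⟨2, 0, 1, 1, 3, 5, 3, 4, 4, 5⟩ :=
  leafX_sound T5.ok_mm T5.Ymm.bz_eq (w := 213) (c := ⟨⟨.negSucc 1151, .negSucc 0, .negSucc 2, .negSucc 19, .negSucc 3, .ofNat 94⟩, ⟨.ofNat 553, .negSucc 78, .ofNat 623, .ofNat 12, .ofNat 4, .negSucc 48⟩, ⟨.ofNat 1056, .negSucc 321, .ofNat 137, .ofNat 135, .ofNat 236, .ofNat 399⟩, ⟨.negSucc 3649, .ofNat 152, .negSucc 167, .negSucc 40, .ofNat 8, .ofNat 270⟩, ⟨.negSucc 373, .ofNat 44, .ofNat 18, .ofNat 33, .ofNat 35, .negSucc 22⟩, .ofNat 819, .ofNat 585, .ofNat 0, .ofNat 585, .ofNat 1491, .ofNat 0, .ofNat 128, .negSucc 350, .ofNat 24, .ofNat 0, .ofNat 370, .negSucc 30, .ofNat 0, .ofNat 0, .ofNat 1477, .ofNat 1551, .ofNat 0, .ofNat 0, .ofNat 63997484847843106551171339954042980794368,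 .ofNat 0, .ofNat 0, .ofNat 0, .ofNat 1046296724910909448391362719656925795975168, .ofNat 0, .ofNat 0, .ofNat 0, .ofNat 0, .ofNat 0, .ofNat 0, .ofNat 11535749242904188835481413923239706660700160, .ofNat 12320277616167419528639375532233943221796864, .ofNat 0⟩)
    (by decide +kernel)
theorem L00896 : Good (Phi V5.P V5.D (-1) (-1)) ⟨2, 0, 2, 2, 3, 5, 3, 5, 5, 10⟩ :=
  leafX_sound T5.ok_mm T5.Ymm.bz_eq (w := 221) (c := ⟨⟨.negSucc 1159, .ofNat 29, .ofNat 15, .negSucc 32, .negSucc 15, .ofNat 50⟩, ⟨.ofNat 561, .negSucc 96, .ofNat 302, .ofNat 19, .ofNat 11, .negSucc 26⟩, ⟨.ofNat 1242, .negSucc 350, .ofNat 198, .ofNat 187, .ofNat 265, .ofNat 215⟩, ⟨.negSucc 3644, .ofNat 263, .negSucc 75, .negSucc 83, .negSucc 20, .ofNat 132⟩, ⟨.negSucc 323, .ofNat 82, .negSucc 74, .ofNat 38, .ofNat 58, .negSucc 25⟩, .ofNat 819, .ofNat 588, .ofNat 0, .ofNat 588, .ofNat 1504, .ofNat 0, .ofNat 171, .negSucc 123, .ofNat 18, .ofNat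 0, .ofNat 128, .negSucc 24, .ofNat 0, .ofNat 0, .ofNat 937, .ofNat 2188, .ofNat 0, .ofNat 0, .ofNat 5071020326458242524225345707885855584026624, .ofNat 0, .ofNat 0, .ofNat 0, .ofNat 0, .ofNat 0, .ofNat 0, .ofNat 63014089733846225097878282407675360832389120, .ofNat 78462952704640320798775510214377922568912896, .ofNat 0, .ofNat 0, .ofNat 423801175025834164226871427954725480308932608, .ofNat 507379469038607189589314467931049017949028352, .ofNat 0⟩)
    (by decide +kernel)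
theorem L00897 : Good (Phi V5.P V5.D (-1) (-1)) ⟨2, 0, 2, 2, 3, 5, 3, 5, 5, 11⟩ :=
  leafX_sound T5.ok_mm T5.Ymm.bz_eq (w := 221) (c := ⟨⟨.negSucc 1114, .ofNat 15, .ofNat 29, .negSucc 8, .negSucc 3, .ofNat 58⟩, ⟨.ofNat 537, .negSucc 81, .ofNat 281, .ofNat 4, .ofNat 3, .negSucc 32⟩, ⟨.ofNat 1416, .negSucc 407, .ofNat 317, .ofNat 339, .ofNat 362, .ofNat 358⟩, ⟨.negSucc 3519, .ofNat 240, .negSucc 44, .negSucc 52, .negSucc 1, .ofNat 149⟩, ⟨.negSucc 330, .ofNat 112, .negSucc 97, .negSucc 47, .ofNat 2, .negSucc 54⟩, .ofNat 450, .ofNat 174, .ofNat 0, .ofNat 174, .ofNat 653, .ofNat 0, .ofNat 161, .negSucc 77, .ofNat 29, .ofNat 0, .ofNat 128, .negSucc 48, .ofNat 0, .ofNat 0, .ofNat 1051, .ofNat 2491, .ofNat 0, .ofNat 6972709941805201751187458760056594849857536, .ofNat 5593501406055570919279636543785866190913536, .ofNat 0, .ofNat 0, .ofNat 116772232907914175291857092871927025071292416, .ofNat 0, .ofNat 0, .ofNat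 0, .ofNat 187659975751995125117184445170696884135657472, .ofNat 0, .ofNat 0, .ofNat 0, .ofNat 1197950523602280419746158483989283778466938880, .ofNat 106500271703942766277499807824074342091718656, .ofNat 0⟩)
    (by decide +kernel)
theorem L00898 : Good (Phi V5.P V5.D (-1) (-1)) ⟨2, 0, 2, 3, 3, 5, 3, 5, 4, 5⟩ :=
  out_sound (S := T5.ds_mm) T5.ok_mm (w := 37) (j := 3) (by decide +kernel)
theorem L00899 : Good (Phi V5.P V5.D (-1) (-1)) ⟨3, 0, 3, 4, 3, 6, 2, 2, 4, 4⟩ :=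
  leafX_sound T5.ok_mm T5.Ymm.bz_eq (w := 219) (c := ⟨⟨.negSucc 1261, .ofNat 27, .negSucc 17, .negSucc 45, .negSucc 58, .ofNat 80⟩, ⟨.ofNat 615, .negSucc 63, .ofNat 175, .ofNat 40, .ofNat 39, .negSucc 41⟩, ⟨.ofNat 902, .negSucc 159, .ofNat 25, .ofNat 82, .ofNat 463, .ofNat 257⟩, ⟨.negSucc 3917, .ofNat 132, .negSucc 55, .ofNat 13, .negSucc 92, .ofNat 212⟩, ⟨.negSucc 260, .negSucc 32, .ofNat 32, .ofNat 300, .ofNat 171, .negSucc 43⟩, .ofNat 1708, .ofNat 1973, .ofNat 0, .ofNat 1973, .ofNat 4034, .ofNat 0, .ofNat 128, .negSucc 349, .ofNat 17, .ofNat 0, .ofNat 282, .negSucc 23, .ofNat 0, .ofNat 0, .ofNat 1134, .ofNat 641, .ofNat 0, .ofNat 0, .ofNat 0, .ofNat 0, .ofNat 0, .ofNat 0, .ofNat 0, .ofNat 0, .ofNat 0, .ofNat 524852751027951303937415946223404617614491648, .ofNat 0, .ofNat 0, .ofNat 0, .ofNat 1755084251691435590769938327902518294450536448, .ofNat 115511042382333164270689585635855840575488, .ofNat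 0⟩)
    (by decide +kernel)
theorem L00900 : Good (Phi V5.P V5.D (-1) (-1)) ⟨3, 0, 3, 5, 3, 6, 2, 2, 4, 4⟩ :=
  out_sound (S := T5.ds_mm) T5.ok_mm (w := 45) (j := 3) (by decide +kernel)

end Crest.Agent.R097C5.N5mm
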