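import Crest.Agent.R097.KP7
import Crest.Agent.R097.T5Ymm

/-!
# Row 97, box cover in dimension n = 5 (generated)
-/

set_option autoImplicit false
set_option Elab.async false
set_option maxHeartbeats 0
set_option maxRecDepth 100000

open Crest.Agent.R097 Crest.Agent.R097.KA


namespace Crest.Agent.R097C5.N5mm

theorem L00901 : Good (Phi V5.P V5.D (-1) (-1)) ⟨3, 0, 2, 2, 3, 7, 2, 2, 4, 4⟩ :=
  leafX_sound T5.ok_mm T5.Ymm.bz_eq (w := 214) (c := ⟨⟨.negSucc 1319, .ofNat 65, .negSucc 71, .negSucc 61, .negSucc 73, .ofNat 90⟩, ⟨.ofNat 671, .negSucc 97, .ofNat 352, .ofNat 48, .ofNat 49, .negSucc 48⟩, ⟨.ofNat 960, .negSucc 126, .ofNat 147, .ofNat 241, .ofNat 489, .ofNat 271⟩, ⟨.negSucc 3889, .ofNat 190, .negSucc 84, .negSucc 37, .negSucc 119, .ofNat 220⟩, ⟨.ofNat 159, .negSucc 129, .ofNat 80, .ofNat 292, .ofNat 223, .negSucc 96⟩, .ofNat 1068, .ofNat 945, .ofNat 0, .ofNat 945, .ofNat 2174, .ofNat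 0, .ofNat 144, .negSucc 127, .ofNat 39, .ofNat 0, .ofNat 124, .negSucc 47, .ofNat 0, .ofNat 0, .ofNat 683, .ofNat 392, .ofNat 0, .ofNat 464753556428029574392863994409592779964416, .ofNat 0, .ofNat 0, .ofNat 0, .ofNat 14562132266759495271323018122624393914875904, .ofNat 0, .ofNat 0, .ofNat 0, .ofNat 22628680876336233680429470510939504916824064, .ofNat 9368053576439181715916541354933426847744, .ofNat 0, .ofNat 0, .ofNat 124761612365467915798197271036332037380243456, .ofNat 10093613267546440660044858376182176940032, .ofNat 0⟩)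
    (by decide +kernel)
theorem L00902 : Good (Phi V5.P V5.D (-1) (-1)) ⟨3, 0, 2, 3, 2, 3, 2, 2, 4, 4⟩ :=
  out_sound (S := T5.ds_mm) T5.ok_mm (w := 43) (j := 3) (by decide +kernel)
theorem L00903 : Good (Phi V5.P V5.D (-1) (-1)) ⟨3, 1, 1, 1, 2, 3, 2, 2, 4, 4⟩ :=
  out_sound (S := T5.ds_mm) T5.ok_mm (w := 41) (j := 3) (by decide +kernel)
theorem L00904 : Good (Phi V5.P V5.D (-1) (-1)) ⟨2, 0, 2, 2, 3, 6, 2, 2, 4, 5⟩ :=
  leafX_sound T5.ok_mm T5.Ymm.bz_eq (w := 212) (c := ⟨⟨.negSucc 1187, .ofNat 43, .negSucc 7, .negSucc 26, .negSucc 16, .ofNat 117⟩, ⟨.ofNat 576, .negSucc 111, .ofNat 320, .ofNat 26, .ofNat 16, .negSucc 62⟩, ⟨.ofNat 1153, .negSucc 337, .ofNat 144, .ofNat 121, .ofNat 509, .ofNat 426⟩, ⟨.negSucc 3712, .ofNat 246, .negSucc 69, .ofNat 34, .ofNat 0, .ofNat 309⟩, ⟨.negSucc 286, .negSucc 39, .ofNat 17, .ofNat 210, .ofNat 108, .negSucc 67⟩, .ofNat 1058, .ofNat 930, .ofNat 0, .ofNat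 930, .ofNat 2157, .ofNat 0, .ofNat 128, .negSucc 258, .ofNat 37, .ofNat 0, .ofNat 242, .negSucc 33, .ofNat 0, .ofNat 0, .ofNat 979, .ofNat 1037, .ofNat 0, .ofNat 105304719422749710029048235668135127023616, .ofNat 4982518043072607257427734130911097126912, .ofNat 0, .ofNat 0, .ofNat 2187998854751746662958943330839042229010432, .ofNat 0, .ofNat 0, .ofNat 0, .ofNat 8831443228111484099676478083566559964430336, .ofNat 0, .ofNat 0, .ofNat 0, .ofNat 25453100371298745415217814075440397847363584, .ofNat 88631324818329577234997638580964817895424, .ofNat 0⟩)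
    (by decide +kernel)
theorem L00905 : Good (Phi V5.P V5.D (-1) (-1)) ⟨2, 0, 2, 3, 3, 6, 2, 2, 4, 5⟩ :=
  out_sound (S := T5.ds_mm) T5.ok_mm (w := 37) (j := 3) (by decide +kernel)
theorem L00906 : Good (Phi V5.P V5.D (-1) (-1)) ⟨2, 0, 1, 1, 3, 7, 2, 2, 4, 5⟩ :=
  out_sound (S := T5.ds_mm) T5.ok_mm (w := 32) (j := 2) (by decide +kernel)
theorem L00907 : Good (Phi V5.P V5.D (-1) (-1)) ⟨3, 0, 2, 2, 3, 4, 3, 6, 4, 4⟩ :=
  leafX_sound T5.ok_mm T5.Ymm.bz_eq (w := 221) (c := ⟨⟨.negSucc 1132, .ofNat 18, .ofNat 13, .negSucc 80, .negSucc 48, .ofNat 26⟩, ⟨.ofNat 549, .negSucc 50, .ofNat 300, .ofNat 41, .ofNat 32, .negSucc 11⟩, ⟨.ofNat 1055, .negSucc 149, .ofNat 186, .ofNat 184, .ofNat 144, .ofNat 222⟩, ⟨.negSucc 3556, .ofNat 157, .negSucc 56, .negSucc 231, .negSucc 79, .ofNat 86⟩, ⟨.negSucc 297, .ofNat 70, .negSucc 72, .ofNat 13, .ofNat 139, .ofNat 22⟩, .ofNat 1335, .ofNat 1360, .ofNat 0, .ofNat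 1360, .ofNat 2921, .ofNat 0, .ofNat 128, .negSucc 233, .negSucc 54, .ofNat 0, .ofNat 193, .ofNat 21, .ofNat 0, .ofNat 0, .ofNat 912, .ofNat 3530, .ofNat 0, .ofNat 0, .ofNat 0, .ofNat 0, .ofNat 0, .ofNat 0, .ofNat 0, .ofNat 0, .ofNat 0, .ofNat 161901484959559328789716071200212957291085824, .ofNat 1092346163195371688926093018667161630015488, .ofNat 0, .ofNat 0, .ofNat 510037751688591584686485970828821316293885952, .ofNat 2739340785050785787714938117182006077947904, .ofNat 0⟩)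
    (by decide +kernel)
theorem L00908 : Good (Phi V5.P V5.D (-1) (-1)) ⟨3, 0, 2, 2, 3, 5, 3, 6, 4, 4⟩ :=
  leafX_sound T5.ok_mm T5.Ymm.bz_eq (w := 220) (c := ⟨⟨.negSucc 1223, .ofNat 27, .negSucc 22, .negSucc 104, .negSucc 81, .ofNat 42⟩, ⟨.ofNat 596, .negSucc 57, .ofNat 343, .ofNat 62, .ofNat 50, .negSucc 21⟩, ⟨.ofNat 1209, .negSucc 201, .ofNat 169, .ofNat 181, .ofNat 266, .ofNat 279⟩, ⟨.negSucc 3814, .ofNat 192, .negSucc 130, .negSucc 234, .negSucc 166, .ofNat 114⟩, ⟨.negSucc 272, .ofNat 85, .negSucc 42, .ofNat 156, .ofNat 151, .negSucc 14⟩, .ofNat 1327, .ofNat 1347, .ofNat 0, .ofNat 1347, .ofNat 2904, .ofNat 0, .ofNat 128, .negSucc 339, .negSucc 14, .ofNat 0, .ofNat 277, .negSucc 1, .ofNat 0, .ofNat 0, .ofNat 687, .ofNat 757, .ofNat 0, .ofNat 0, .ofNat 26439953081225020568761818212627564724224, .ofNat 0, .ofNat 0, .ofNat 0, .ofNat 0, .ofNat 0, .ofNat 0, .ofNat 0, .ofNat 0, .ofNat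 0, .ofNat 0, .ofNat 418340185081391351773079718318079393117765632, .ofNat 1463035216626246607305877119420041535684608, .ofNat 0⟩)
    (by decide +kernel)
theorem L00909 : Good (Phi V5.P V5.D (-1) (-1)) ⟨3, 0, 2, 2, 2, 2, 3, 7, 4, 4⟩ :=
  leafX_sound T5.ok_mm T5.Ymm.bz_eq (w := 207) (c := ⟨⟨.negSucc 1162, .ofNat 34, .ofNat 4, .negSucc 303, .negSucc 97, .negSucc 22⟩, ⟨.ofNat 572, .negSucc 59, .ofNat 302, .ofNat 162, .ofNat 60, .ofNat 14⟩, ⟨.ofNat 1203, .negSucc 166, .ofNat 120, .ofNat 518, .ofNat 148, .ofNat 187⟩, ⟨.negSucc 3591, .ofNat 226, .negSucc 33, .negSucc 844, .negSucc 170, .negSucc 46⟩, ⟨.negSucc 185, .ofNat 119, .negSucc 34, .ofNat 99, .ofNat 229, .ofNat 46⟩, .ofNat 450, .ofNat 174, .ofNat 0, .ofNat 174, .ofNat 654, .ofNat 0, .ofNat 169, .negSucc 79, .negSucc 70, .ofNat 0, .ofNat 128, .ofNat 12, .ofNat 0, .ofNat 0, .ofNat 519, .ofNat 3029, .ofNat 0, .ofNat 4523192398820901552615267655157360361472,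 .ofNat 0, .ofNat 0, .ofNat 0, .ofNat 73818255844083557422020057937813545418752, .ofNat 0, .ofNat 0, .ofNat 0, .ofNat 68959183032649724805713682686341285937152, .ofNat 0, .ofNat 0, .ofNat 0, .ofNat 193020715615055284251984580402849863696384, .ofNat 13267222983363225299470777958904365056, .ofNat 0⟩)
    (by decide +kernel)
theorem L00910 : Good (Phi V5.P V5.D (-1) (-1)) ⟨3, 0, 2, 3, 2, 2, 2, 3, 4, 4⟩ :=
  out_sound (S := T5.ds_mm) T5.ok_mm (w := 43) (j := 3) (by decide +kernel)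
theorem L00911 : Good (Phi V5.P V5.D (-1) (-1)) ⟨3, 1, 1, 1, 2, 2, 2, 3, 4, 4⟩ :=
  out_sound (S := T5.ds_mm) T5.ok_mm (w := 41) (j := 3) (by decide +kernel)
theorem L00912 : Good (Phi V5.P V5.D (-1) (-1)) ⟨2, 0, 2, 2, 3, 4, 3, 6, 4, 5⟩ :=
  leafX_sound T5.ok_mm T5.Ymm.bz_eq (w := 217) (c := ⟨⟨.negSucc 1117, .ofNat 27, .ofNat 28, .negSucc 53, .negSucc 42, .ofNat 58⟩, ⟨.ofNat 543, .negSucc 89, .ofNat 276, .ofNat 27, .ofNat 28, .negSucc 29⟩, ⟨.ofNat 1248, .negSucc 279, .ofNat 356, .ofNat 235, .ofNat 98, .ofNat 346⟩, ⟨.negSucc 3490, .ofNat 288, .negSucc 32, .negSucc 173, .negSucc 76, .ofNat 164⟩, ⟨.negSucc 259, .ofNat 152, .negSucc 118, .negSucc 23, .ofNat 110, .negSucc 14⟩, .ofNat 818, .ofNat 587, .ofNat 0, .ofNat 587, .ofNat 1504, .ofNat 0, .ofNat 128, .negSucc 238, .negSucc 13, .ofNat 0, .ofNat 247, .negSucc 18, .ofNat 0, .ofNat 0, .ofNat 1638, .ofNat 3204, .ofNat 0, .ofNat 390870685657965220218655489633117903257600,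 .ofNat 440657828143491808398333114328972580093952, .ofNat 0, .ofNat 0, .ofNat 6521665941103564811675540300546293626830848, .ofNat 2694182796094520359233585149654456082628608, .ofNat 0, .ofNat 0, .ofNat 27622700514736570813951778397142940284616704, .ofNat 9184813201716528025836381232181450838638592, .ofNat 0, .ofNat 0, .ofNat 159087483306821736965087777855772698190282752, .ofNat 55661849298882512366230670419887243701256192, .ofNat 0⟩)
    (by decide +kernel)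
theorem L00913 : Good (Phi V5.P V5.D (-1) (-1)) ⟨2, 0, 2, 2, 3, 5, 3, 6, 4, 5⟩ :=
  leafX_sound T5.ok_mm T5.Ymm.bz_eq (w := 219) (c := ⟨⟨.negSucc 1179, .ofNat 38, .ofNat 12, .ofNat 1, .negSucc 39, .ofNat 1⟩, ⟨.ofNat 573, .negSucc 98, .ofNat 308, .ofNat 0, .ofNat 25, .ofNat 0⟩, ⟨.ofNat 1512, .negSucc 423, .ofNat 212, .negSucc 0, .ofNat 294, .negSucc 0⟩, ⟨.negSucc 3682, .ofNat 343, .negSucc 78, .ofNat 2, .negSucc 82, .ofNat 2⟩, ⟨.negSucc 276, .ofNat 183, .negSucc 88, .ofNat 0, .ofNat 68, .ofNat 0⟩, .ofNat 195, .ofNat 29, .ofNat 0, .ofNat 29, .ofNat 230, .ofNat 0, .ofNat 257, .negSucc 42, .negSucc 16, .ofNat 0, .ofNat 128, .negSucc 67, .ofNat 0, .ofNat 0, .ofNat 623, .ofNat 13258, .ofNat 0, .ofNat 4124967572599295524113968068911750161891328, .ofNat 0, .ofNat 0, .ofNat 0, .ofNat 185427485417894218848168457350788497713135616, .ofNat 6433025911925785356221767160884551789576192, .ofNat 0, .ofNat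 0, .ofNat 53997428139494288818001814685325000313929728, .ofNat 683516352035388059962510442853525828403200, .ofNat 0, .ofNat 0, .ofNat 305313493226948689573291135459698045825843200, .ofNat 3773120961787421477298997689296366468071424, .ofNat 0⟩)
    (by decide +kernel)
theorem L00914 : Good (Phi V5.P V5.D (-1) (-1)) ⟨2, 0, 2, 3, 2, 2, 3, 6, 4, 5⟩ :=
  out_sound (S := T5.ds_mm) T5.ok_mm (w := 37) (j := 3) (by decide +kernel)
theorem L00915 : Good (Phi V5.P V5.D (-1) (-1)) ⟨2, 0, 1, 1, 2, 2, 3, 7, 4, 5⟩ :=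
  out_sound (S := T5.ds_mm) T5.ok_mm (w := 32) (j := 2) (by decide +kernel)
theorem L00916 : Good (Phi V5.P V5.D (-1) (-1)) ⟨2, 0, 1, 1, 2, 3, 2, 3, 3, 2⟩ :=
  leafX_sound T5.ok_mm T5.Ymm.bz_eq (w := 189) (c := ⟨⟨.negSucc 1342, .ofNat 103, .negSucc 47, .negSucc 233, .negSucc 209, .ofNat 92⟩, ⟨.ofNat 668, .negSucc 155, .ofNat 701, .ofNat 160, .ofNat 129, .negSucc 47⟩, ⟨.ofNat 1383, .negSucc 429, .ofNat 345, .ofNat 352, .ofNat 663, .ofNat 588⟩, ⟨.negSucc 4063, .ofNat 486, .negSucc 236, .negSucc 347, .negSucc 421, .ofNat 230⟩, ⟨.negSucc 58, .ofNat 100, .negSucc 110, .ofNat 701, .ofNat 397, .negSucc 90⟩, .ofNat 450, .ofNat 175, .ofNat 0, .ofNat 175, .ofNat 653, .ofNat 0, .ofNat 136, .negSucc 87, .negSucc 5, .ofNat 0, .ofNat 128, .negSucc 20, .ofNat 0, .ofNat 0, .ofNat 342, .ofNat 621, .ofNat 0, .ofNat 878729000552346775727450026745528320, .ofNat 4354776675708907005243566577418240, .ofNat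 0, .ofNat 0, .ofNat 8831494593178326427572473998075756544, .ofNat 0, .ofNat 0, .ofNat 0, .ofNat 9784741885314844572236477442994208768, .ofNat 0, .ofNat 0, .ofNat 0, .ofNat 28997299009145164963587717997336199168, .ofNat 31580511075521440520239862150856704, .ofNat 0⟩)
    (by decide +kernel)
theorem L00917 : Good (Phi V5.P V5.D (-1) (-1)) ⟨2, 0, 2, 2, 3, 4, 3, 4, 5, 12⟩ :=
  leafX_sound T5.ok_mm T5.Ymm.bz_eq (w := 224) (c := ⟨⟨.negSucc 1063, .ofNat 8, .ofNat 25, .ofNat 4, .ofNat 5, .ofNat 47⟩, ⟨.ofNat 512, .negSucc 78, .ofNat 274, .negSucc 5, .negSucc 0, .negSucc 23⟩, ⟨.ofNat 1227, .negSucc 152, .ofNat 250, .ofNat 258, .ofNat 188, .ofNat 310⟩, ⟨.negSucc 3347, .ofNat 155, .negSucc 43, .negSucc 25, .ofNat 23, .ofNat 126⟩, ⟨.negSucc 307, .ofNat 13, .negSucc 49, .negSucc 74, .ofNat 16, .negSucc 20⟩, .ofNat 1690, .ofNat 1933, .ofNat 0, .ofNat 1933, .ofNat 3949, .ofNat 0, .ofNat 128, .negSucc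 265, .ofNat 26, .ofNat 0, .ofNat 216, .negSucc 30, .ofNat 0, .ofNat 0, .ofNat 3731, .ofNat 12000, .ofNat 0, .ofNat 0, .ofNat 14099434294571688238590895345598145987870720, .ofNat 0, .ofNat 0, .ofNat 0, .ofNat 429251605642140838074802454022619096187666432, .ofNat 0, .ofNat 0, .ofNat 179699088628513514675150501609797590062202880, .ofNat 721318220595764164266392020812518164040515584, .ofNat 0, .ofNat 0, .ofNat 3720889806134681533252148348992650547864535040, .ofNat 5174132364155396526791704068851152400112680960, .ofNat 0⟩)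
    (by decide +kernel)
theorem L00918 : Good (Phi V5.P V5.D (-1) (-1)) ⟨2, 0, 2, 2, 4, 8, 3, 4, 5, 13⟩ :=
  leafX_sound T5.ok_mm T5.Ymm.bz_eq (w := 238) (c := ⟨⟨.negSucc 1026, .negSucc 8, .ofNat 23, .ofNat 16, .ofNat 15, .ofNat 51⟩, ⟨.ofNat 494, .negSucc 63, .ofNat 260, .negSucc 10, .negSucc 7, .negSucc 28⟩, ⟨.ofNat 1384, .negSucc 281, .ofNat 381, .ofNat 287, .ofNat 306, .ofNat 490⟩, ⟨.negSucc 3237, .ofNat 139, .negSucc 31, .ofNat 16, .ofNat 29, .ofNat 126⟩, ⟨.negSucc 305, .ofNat 71, .negSucc 42, .negSucc 57, .negSucc 21, .negSucc 52⟩, .ofNat 1925, .ofNat 2321, .ofNat 0, .ofNat 2321, .ofNat 4618, .ofNat 0, .ofNat 128, .negSucc 239, .ofNat 73, .ofNat 0, .ofNat 193, .negSucc 60, .ofNat 0, .ofNat 0, .ofNat 4800, .ofNat 16233, .ofNat 0, .ofNat 0, .ofNat 491941332330612893010536615191601911186103205888, .ofNat 0, .ofNat 0, .ofNat 0, .ofNat 7899760335102100457138413938547333145398532374528,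 .ofNat 0, .ofNat 0, .ofNat 670807131032092945317825285797672427646059806720, .ofNat 15063902298563273671736391979208349992632830656512, .ofNat 0, .ofNat 0, .ofNat 26312733805920349758282570328556467804675371958272, .ofNat 133699861571993326903017922012075135947614195810304, .ofNat 0⟩)
    (by decide +kernel)
theorem L00919 : Good (Phi V5.P V5.D (-1) (-1)) ⟨2, 0, 3, 4, 4, 9, 3, 4, 5, 13⟩ :=
  leafX_sound T5.ok_mm T5.Ymm.bz_eq (w := 241) (c := ⟨⟨.negSucc 1025, .negSucc 8, .ofNat 24, .ofNat 21, .ofNat 22, .ofNat 71⟩, ⟨.ofNat 490, .negSucc 58, .ofNat 126, .negSucc 14, .negSucc 12, .negSucc 39⟩, ⟨.ofNat 1550, .negSucc 412, .ofNat 249, .ofNat 297, .ofNat 414, .ofNat 659⟩, ⟨.negSucc 3252, .ofNat 133, .negSucc 8, .ofNat 26, .ofNat 46, .ofNat 171⟩, ⟨.negSucc 347, .ofNat 82, .negSucc 51, .negSucc 71, .negSucc 37, .negSucc 74⟩, .ofNat 1535, .ofNat 1683, .ofNat 0, .ofNat 1683, .ofNat 3509, .ofNat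 0, .ofNat 128, .negSucc 277, .ofNat 143, .ofNat 0, .ofNat 231, .negSucc 100, .ofNat 0, .ofNat 0, .ofNat 4532, .ofNat 15196, .ofNat 0, .ofNat 706377385981878347263422341233110712027455684608, .ofNat 438173486398383510572807217954734876300693995520, .ofNat 0, .ofNat 0, .ofNat 5167955135370667711369109655298638162445033537536, .ofNat 15889171909639150904243794926177030457272750309376, .ofNat 0, .ofNat 0, .ofNat 35099032557484010013483198752985875717879251337216, .ofNat 11391408069450089187001987797055640930348404047872, .ofNat 0, .ofNat 0, .ofNat 426593246883422027595401812447206603715913613049856, .ofNat 55318712128060942241174400736083254574450560991232, .ofNat 0⟩)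
    (by decide +kernel)
theorem L00920 : Good (Phi V5.P V5.D (-1) (-1)) ⟨2, 0, 3, 5, 4, 9, 3, 4, 5, 13⟩ :=
  out_sound (S := T5.ds_mm) T5.ok_mm (w := 39) (j := 3) (by decide +kernel)
theorem L00921 : Good (Phi V5.P V5.D (-1) (-1)) ⟨2, 0, 2, 2, 4, 8, 3, 5, 5, 12⟩ :=
  leafX_sound T5.ok_mm T5.Ymm.bz_eq (w := 237) (c := ⟨⟨.negSucc 1054, .ofNat 6, .ofNat 22, .ofNat 1, .negSucc 1, .ofNat 44⟩, ⟨.ofNat 510, .negSucc 73, .ofNat 273, .negSucc 2, .ofNat 1, .negSucc 23⟩, ⟨.ofNat 1360, .negSucc 331, .ofNat 297, .ofNat 228, .ofNat 269, .ofNat 327⟩, ⟨.negSucc 3313, .ofNat 201, .negSucc 43, .negSucc 25, .negSucc 7, .ofNat 114⟩, ⟨.negSucc 280, .ofNat 110, .negSucc 68, .negSucc 61, .ofNat 1, .negSucc 34⟩, .ofNat 821, .ofNat 591, .ofNat 0, .ofNat 591, .ofNat 1506, .ofNat 0, .ofNat 128, .negSucc 143, .ofNat 25, .ofNat 0, .ofNat 151, .negSucc 40, .ofNat 0, .ofNat 0, .ofNat 2378, .ofNat 9762, .ofNat 0, .ofNat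 11962311262972794919876689383020342623520948224, .ofNat 479467249473292934396478763958476306161137090560, .ofNat 0, .ofNat 0, .ofNat 149560405494128839815724391909827852910213464064, .ofNat 4827581647121774696639441466727814732708596154368, .ofNat 0, .ofNat 0, .ofNat 588275071308179837371286401595246871288024662016, .ofNat 5546902987103979671012393904326038071328454475776, .ofNat 0, .ofNat 0, .ofNat 8617305814710293653233951919476906617822123130880, .ofNat 55222631070231107715475399880497928349328116547584, .ofNat 0⟩)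
    (by decide +kernel)
theorem L00922 : Good (Phi V5.P V5.D (-1) (-1)) ⟨3, 0, 3, 4, 4, 9, 3, 5, 5, 12⟩ :=
  leafX_sound T5.ok_mm T5.Ymm.bz_eq (w := 244) (c := ⟨⟨.negSucc 1066, .ofNat 4, .ofNat 21, .ofNat 15, .ofNat 11, .ofNat 63⟩, ⟨.ofNat 514, .negSucc 35, .ofNat 131, .negSucc 10, .negSucc 5, .negSucc 35⟩, ⟨.ofNat 1486, .negSucc 193, .ofNat 219, .ofNat 307, .ofNat 409, .ofNat 491⟩, ⟨.negSucc 3361, .ofNat 105, .negSucc 12, .negSucc 0, .ofNat 14, .ofNat 148⟩, ⟨.negSucc 317, .ofNat 61, .negSucc 54, .negSucc 76, .negSucc 28, .negSucc 70⟩, .ofNat 1330, .ofNat 1353, .ofNat 0, .ofNat 1353, .ofNat 2913, .ofNat 0, .ofNat 128, .negSucc 157, .ofNat 60, .ofNat 0, .ofNat 134, .negSucc 47, .ofNat 0, .ofNat 0, .ofNat 1986, .ofNat 6610, .ofNat 0, .ofNat 7027504712067625559472369036236183685107520897024, .ofNat 76722440615986559612643851585541014454513172480, .ofNat 0, .ofNat 0, .ofNat 0, .ofNat 0,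 .ofNat 0, .ofNat 0, .ofNat 199268244003167018387906044526032846788691870351360, .ofNat 0, .ofNat 0, .ofNat 0, .ofNat 1727503106277878558693635416883758074073046700785664, .ofNat 2396430282492485238222062907977210293121076690944, .ofNat 0⟩)
    (by decide +kernel)
theorem L00923 : Good (Phi V5.P V5.D (-1) (-1)) ⟨3, 1, 3, 4, 4, 9, 3, 5, 5, 12⟩ :=
  out_sound (S := T5.ds_mm) T5.ok_mm (w := 45) (j := 3) (by decide +kernel)
theorem L00924 : Good (Phi V5.P V5.D (-1) (-1)) ⟨2, 0, 3, 5, 4, 9, 3, 5, 5, 12⟩ :=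
  out_sound (S := T5.ds_mm) T5.ok_mm (w := 39) (j := 3) (by decide +kernel)
theorem L00925 : Good (Phi V5.P V5.D (-1) (-1)) ⟨3, 0, 3, 4, 4, 8, 4, 10, 5, 13⟩ :=
  leafX_sound T5.ok_mm T5.Ymm.bz_eq (w := 249) (c := ⟨⟨.negSucc 1021, .ofNat 2, .ofNat 21, .ofNat 22, .ofNat 6, .ofNat 56⟩, ⟨.ofNat 492, .negSucc 32, .ofNat 126, .negSucc 15, .negSucc 3, .negSucc 31⟩, ⟨.ofNat 1580, .negSucc 151, .ofNat 258, .ofNat 413, .ofNat 194, .ofNat 557⟩, ⟨.negSucc 3218, .ofNat 97, .negSucc 12, .ofNat 18, .ofNat 8, .ofNat 130⟩, ⟨.negSucc 299, .ofNat 64, .negSucc 49, .negSucc 96, .negSucc 20, .negSucc 72⟩, .ofNat 1585, .ofNat 1778, .ofNat 0, .ofNat 1778, .ofNat 3574, .ofNat 0, .ofNat 128, .negSucc 285, .ofNat 163, .ofNat 0, .ofNat 223, .negSucc 118, .ofNat 0, .ofNat 0, .ofNat 4499, .ofNat 18741, .ofNat 0, .ofNat 54617701699364651287902501780009607896732637593600, .ofNat 2931317644680396906111007774471488956469182726144,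 .ofNat 0, .ofNat 0, .ofNat 0, .ofNat 0, .ofNat 0, .ofNat 0, .ofNat 1637207730813971615432970181196228487430223079407616, .ofNat 0, .ofNat 0, .ofNat 0, .ofNat 27923426053084572951677559135319400141101470918377472, .ofNat 136320470787039835445742520990327923353765464244224, .ofNat 0⟩)
    (by decide +kernel)
theorem L00926 : Good (Phi V5.P V5.D (-1) (-1)) ⟨3, 1, 3, 4, 4, 8, 4, 10, 5, 13⟩ :=
  out_sound (S := T5.ds_mm) T5.ok_mm (w := 45) (j := 3) (by decide +kernel)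
theorem L00927 : Good (Phi V5.P V5.D (-1) (-1)) ⟨2, 0, 3, 4, 4, 8, 4, 11, 5, 13⟩ :=
  leafX_sound T5.ok_mm T5.Ymm.bz_eq (w := 245) (c := ⟨⟨.negSucc 1017, .ofNat 4, .ofNat 21, .ofNat 19, .ofNat 1, .ofNat 58⟩, ⟨.ofNat 490, .negSucc 64, .ofNat 125, .negSucc 15, .negSucc 1, .negSucc 34⟩, ⟨.ofNat 1749, .negSucc 426, .ofNat 281, .ofNat 465, .ofNat 192, .ofNat 594⟩, ⟨.negSucc 3210, .ofNat 204, .negSucc 14, .ofNat 7, .negSucc 3, .ofNat 126⟩, ⟨.negSucc 302, .ofNat 139, .negSucc 67, .negSucc 105, .negSucc 20, .negSucc 91⟩, .ofNat 1546, .ofNat 1700, .ofNat 0, .ofNat 1700, .ofNat 3534, .ofNat 0, .ofNat 128, .negSucc 169, .ofNat 79, .ofNat 0, .ofNat 140, .negSucc 63, .ofNat 0, .ofNat 0, .ofNat 2836, .ofNat 14909, .ofNat 0, .ofNat 4874570019906264939437746296047157807556325277696, .ofNat 13038352803017492483557709386546150802524674719744, .ofNat 0, .ofNat 0, .ofNat 34655655850666646856731517785847450248804260904960,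 .ofNat 222254774756205910416810245209820597261158357925888, .ofNat 0, .ofNat 0, .ofNat 112389959335987570180072022896534921080679908245504, .ofNat 173010144959468260351884276957407826177534745116672, .ofNat 0, .ofNat 0, .ofNat 1254722795851342985194129957048229349694516041351168, .ofNat 386181291844786789408900955235291952757913002442752, .ofNat 0⟩)
    (by decide +kernel)
theorem L00928 : Good (Phi V5.P V5.D (-1) (-1)) ⟨2, 0, 3, 4, 4, 9, 3, 5, 5, 13⟩ :=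
  leafX_sound T5.ok_mm T5.Ymm.bz_eq (w := 241) (c := ⟨⟨.negSucc 1005, .negSucc 0, .ofNat 27, .ofNat 32, .ofNat 30, .ofNat 77⟩, ⟨.ofNat 479, .negSucc 62, .ofNat 125, .negSucc 20, .negSucc 17, .negSucc 44⟩, ⟨.ofNat 1963, .negSucc 451, .ofNat 291, .ofNat 456, .ofNat 519, .ofNat 702⟩, ⟨.negSucc 3213, .ofNat 185, .negSucc 7, .ofNat 29, .ofNat 41, .ofNat 168⟩, ⟨.negSucc 384, .ofNat 128, .negSucc 65, .negSucc 118, .negSucc 73, .negSucc 112⟩, .ofNat 450, .ofNat 175, .ofNat 0, .ofNat 175, .ofNat 653, .ofNat 0, .ofNat 265, .negSucc 74, .ofNat 86, .ofNat 0, .ofNat 128, .negSucc 107, .ofNat 0, .ofNat 0, .ofNat 2455, .ofNat 18814, .ofNat 0, .ofNat 2951017697568827116433601338780935353475172139008, .ofNat 689864464480344434378838666540534109667439149056, .ofNat 0, .ofNat 0, .ofNat 39450499837119886455271896375063920458220139708416, .ofNat 14541848874681889647176826685985614293167220195328, .ofNat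 0, .ofNat 0, .ofNat 38831650441254114856739264938087544230727806615552, .ofNat 7734854156691375038078767473330590051481944064000, .ofNat 0, .ofNat 0, .ofNat 545625891613123147127185274863035582422205127983104, .ofNat 23216286147406440464439543163395706650289026105344, .ofNat 0⟩)
    (by decide +kernel)
theorem L00929 : Good (Phi V5.P V5.D (-1) (-1)) ⟨2, 0, 3, 5, 3, 4, 3, 5, 5, 13⟩ :=
  out_sound (S := T5.ds_mm) T5.ok_mm (w := 39) (j := 3) (by decide +kernel)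
theorem L00930 : Good (Phi V5.P V5.D (-1) (-1)) ⟨2, 0, 2, 2, 3, 5, 3, 4, 5, 12⟩ :=
  leafX_sound T5.ok_mm T5.Ymm.bz_eq (w := 222) (c := ⟨⟨.negSucc 1066, .ofNat 0, .ofNat 32, .ofNat 12, .ofNat 13, .ofNat 63⟩, ⟨.ofNat 510, .negSucc 71, .ofNat 274, .negSucc 5, .negSucc 5, .negSucc 33⟩, ⟨.ofNat 1447, .negSucc 350, .ofNat 299, .ofNat 222, .ofNat 313, .ofNat 407⟩, ⟨.negSucc 3393, .ofNat 161, .negSucc 42, .ofNat 13, .ofNat 37, .ofNat 164⟩, ⟨.negSucc 378, .ofNat 47, .negSucc 68, .negSucc 33, .negSucc 0, .negSucc 41⟩, .ofNat 1064, .ofNat 939, .ofNat 0, .ofNat 939, .ofNat 2164, .ofNat 0, .ofNat 128, .negSucc 156, .ofNat 73, .ofNat 0, .ofNat 146, .negSucc 55, .ofNat 0, .ofNat 0, .ofNat 2142, .ofNat 5472, .ofNat 0, .ofNat 11148043771574851613714164583255212805849088, .ofNat 6481363357104814546382981074231905277181952, .ofNat 0, .ofNat 0, .ofNat 103236043265132546648904770254591569657069568, .ofNat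 202791455721868602740349018841990765047971840, .ofNat 0, .ofNat 0, .ofNat 408100318189439254678048901264999747529211904, .ofNat 136072581654965336457383770283301911025156096, .ofNat 0, .ofNat 0, .ofNat 3875299252675903764879026458501055042209972224, .ofNat 711211876146177860370289920566896125550788608, .ofNat 0⟩)
    (by decide +kernel)
theorem L00931 : Good (Phi V5.P V5.D (-1) (-1)) ⟨2, 0, 2, 2, 3, 5, 3, 4, 5, 13⟩ :=
  leafX_sound T5.ok_mm T5.Ymm.bz_eq (w := 224) (c := ⟨⟨.negSucc 1005, .negSucc 7, .ofNat 43, .ofNat 55, .ofNat 33, .ofNat 78⟩, ⟨.ofNat 477, .negSucc 61, .ofNat 258, .negSucc 39, .negSucc 21, .negSucc 46⟩, ⟨.ofNat 1837, .negSucc 419, .ofNat 469, .ofNat 702, .ofNat 546, .ofNat 712⟩, ⟨.negSucc 3229, .ofNat 136, .negSucc 23, .ofNat 92, .ofNat 69, .ofNat 194⟩, ⟨.negSucc 412, .ofNat 60, .negSucc 97, .negSucc 159, .negSucc 67, .negSucc 99⟩, .ofNat 823, .ofNat 593, .ofNat 0, .ofNat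 593, .ofNat 1503, .ofNat 0, .ofNat 206, .negSucc 119, .ofNat 85, .ofNat 0, .ofNat 128, .negSucc 66, .ofNat 0, .ofNat 0, .ofNat 2214, .ofNat 14718, .ofNat 0, .ofNat 93247989245535109317948563405102473147318272, .ofNat 10821880967073956529150296495890497410170880, .ofNat 0, .ofNat 0, .ofNat 1122614871539576245648759225290718688082657280, .ofNat 0, .ofNat 0, .ofNat 0, .ofNat 1398162308995223465701262713674392749444431872, .ofNat 432233714748309458108661169771954127757115392, .ofNat 0, .ofNat 0, .ofNat 14892376991191917254797394546853298618943668224, .ofNat 798219189363671325357983810007667541916254208, .ofNat 0⟩)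
    (by decide +kernel)
theorem L00932 : Good (Phi V5.P V5.D (-1) (-1)) ⟨2, 0, 2, 2, 3, 5, 3, 5, 4, 6⟩ :=
  out_sound (S := T5.ds_mm) T5.ok_mm (w := 34) (j := 2) (by decide +kernel)
theorem L00933 : Good (Phi V5.P V5.D (-1) (-1)) ⟨2, 0, 2, 3, 2, 2, 2, 2, 4, 6⟩ :=
  out_sound (S := T5.ds_mm) T5.ok_mm (w := 37) (j := 3) (by decide +kernel)
theorem L00934 : Good (Phi V5.P V5.D (-1) (-1)) ⟨2, 0, 3, 4, 3, 4, 3, 6, 5, 12⟩ :=
  leafX_sound T5.ok_mm T5.Ymm.bz_eq (w := 226) (c := ⟨⟨.negSucc 1063, .ofNat 24, .ofNat 15, .negSucc 10, .negSucc 21, .ofNat 39⟩, ⟨.ofNat 515, .negSucc 81, .ofNat 133, .ofNat 0, .ofNat 13, .negSucc 21⟩, ⟨.ofNat 1581, .negSucc 346, .ofNat 197, .ofNat 538, .ofNat 225, .ofNat 315⟩, ⟨.negSucc 3330, .ofNat 275, .negSucc 16, .negSucc 94, .negSucc 45, .ofNat 98⟩, ⟨.negSucc 267, .ofNat 168, .negSucc 48, .negSucc 131, .ofNat 28, .negSucc 45⟩, .ofNat 449, .ofNat 173, .ofNat 0, .ofNat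 173, .ofNat 653, .ofNat 0, .ofNat 276, .negSucc 74, .ofNat 17, .ofNat 0, .ofNat 128, .negSucc 89, .ofNat 0, .ofNat 0, .ofNat 2424, .ofNat 8598, .ofNat 0, .ofNat 216145581880482814288820522323493519108341760, .ofNat 25748089690581596525665631541222403446145024, .ofNat 0, .ofNat 0, .ofNat 5737465692884126826804561896838597739987075072, .ofNat 0, .ofNat 0, .ofNat 0, .ofNat 4045396533225861419238927278857990534642794496, .ofNat 189882354053565068121600636809989576240136192, .ofNat 0, .ofNat 0, .ofNat 59236327137983151026193358824100715334652133376, .ofNat 0, .ofNat 0⟩)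
    (by decide +kernel)
theorem L00935 : Good (Phi V5.P V5.D (-1) (-1)) ⟨2, 0, 3, 5, 3, 4, 3, 6, 5, 12⟩ :=
  out_sound (S := T5.ds_mm) T5.ok_mm (w := 39) (j := 3) (by decide +kernel)
theorem L00936 : Good (Phi V5.P V5.D (-1) (-1)) ⟨2, 0, 2, 2, 3, 4, 3, 6, 5, 13⟩ :=
  out_sound (S := T5.ds_mm) T5.ok_mm (w := 36) (j := 2) (by decide +kernel)
theorem L00937 : Good (Phi V5.P V5.D (-1) (-1)) ⟨2, 0, 2, 3, 3, 4, 3, 6, 4, 6⟩ :=
  out_sound (S := T5.ds_mm) T5.ok_mm (w := 37) (j := 3) (by decide +kernel)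
theorem L00938 : Good (Phi V5.P V5.D (-1) (-1)) ⟨2, 0, 1, 1, 3, 4, 3, 7, 4, 6⟩ :=
  out_sound (S := T5.ds_mm) T5.ok_mm (w := 34) (j := 2) (by decide +kernel)
theorem L00939 : Good (Phi V5.P V5.D (-1) (-1)) ⟨2, 0, 1, 1, 3, 5, 2, 3, 4, 6⟩ :=
  out_sound (S := T5.ds_mm) T5.ok_mm (w := 32) (j := 2) (by decide +kernel)
theorem L00940 : Good (Phi V5.P V5.D (-1) (-1)) ⟨2, 0, 3, 4, 4, 8, 3, 4, 6, 28⟩ :=
  leafX_sound T5.ok_mm T5.Ymm.bz_eq (w := 245) (c := ⟨⟨.negSucc 1003, .ofNat 2, .ofNat 32, .ofNat 46, .ofNat 33, .ofNat 40⟩, ⟨.ofNat 485, .negSucc 61, .ofNat 116, .negSucc 30, .negSucc 21, .negSucc 23⟩, ⟨.ofNat 1406, .negSucc 296, .ofNat 447, .ofNat 722, .ofNat 659, .ofNat 488⟩, ⟨.negSucc 3140, .ofNat 160, .ofNat 1, .ofNat 58, .ofNat 46, .ofNat 86⟩, ⟨.negSucc 242, .ofNat 87, .negSucc 83, .negSucc 159, .negSucc 111, .negSucc 68⟩, .ofNat 451, .ofNat 176, .ofNat 0, .ofNat 176, .ofNat 654, .ofNat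 0, .ofNat 128, .negSucc 85, .ofNat 115, .ofNat 0, .ofNat 150, .negSucc 138, .ofNat 0, .ofNat 0, .ofNat 3691, .ofNat 10093, .ofNat 0, .ofNat 157438859895473969942187857145792041513436315648, .ofNat 45048884587158470779595185964122955181427578109952, .ofNat 0, .ofNat 0, .ofNat 8977652551684139065293236493442748973942273212416, .ofNat 91662454000673936991264044569565271330466134228992, .ofNat 0, .ofNat 0, .ofNat 6915116865099169371324517504911431415791907504128, .ofNat 315875172707261239839521043458626662901008287399936, .ofNat 0, .ofNat 0, .ofNat 1039051316595099825214285940101589406649436686254080, .ofNat 5317691030376223496509559841096533073063695492317184, .ofNat 0⟩)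
    (by decide +kernel)
theorem L00941 : Good (Phi V5.P V5.D (-1) (-1)) ⟨2, 0, 3, 4, 4, 8, 3, 4, 6, 29⟩ :=
  leafX_sound T5.ok_mm T5.Ymm.bz_eq (w := 247) (c := ⟨⟨.negSucc 990, .negSucc 7, .ofNat 44, .ofNat 80, .ofNat 53, .ofNat 57⟩, ⟨.ofNat 480, .negSucc 51, .ofNat 106, .negSucc 53, .negSucc 36, .negSucc 34⟩, ⟨.ofNat 1572, .negSucc 445, .ofNat 629, .ofNat 1197, .ofNat 884, .ofNat 773⟩, ⟨.negSucc 3099, .ofNat 159, .ofNat 15, .ofNat 111, .ofNat 80, .ofNat 97⟩, ⟨.negSucc 239, .ofNat 122, .negSucc 109, .negSucc 248, .negSucc 168, .negSucc 123⟩, .ofNat 812, .ofNat 577, .ofNat 0, .ofNat 577, .ofNat 1494, .ofNat 0, .ofNat 166, .negSucc 118, .ofNat 154, .ofNat 0, .ofNat 128, .negSucc 131, .ofNat 0, .ofNat 0, .ofNat 4494, .ofNat 25364, .ofNat 914246440304052990925130361833187960287686874365952, .ofNat 18398607162953233391448831688731353021114642071552, .ofNat 20932644985054456042298545343083088595052635619328,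 .ofNat 0, .ofNat 7818949255010009790488410227849107381558548319174656, .ofNat 146788406031298855163208745539914800230360248483840, .ofNat 150026618958087706136553404355372443392923662286848, .ofNat 0, .ofNat 23123255088214789120327506389334243863037049346981888, .ofNat 384188595739729856650667172874180476505821424910336, .ofNat 174299971381296142251855058295389842825712089694208, .ofNat 0, .ofNat 176122200382804489659395844822876110098488933130174464, .ofNat 4517525645723856600921027476101383355641106161205248, .ofNat 1268993601936174694021823303565408375457615271952384, .ofNat 0⟩)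
    (by decide +kernel)
theorem L00942 : Good (Phi V5.P V5.D (-1) (-1)) ⟨2, 0, 3, 5, 4, 8, 3, 4, 5, 14⟩ :=
  out_sound (S := T5.ds_mm) T5.ok_mm (w := 39) (j := 3) (by decide +kernel)
theorem L00943 : Good (Phi V5.P V5.D (-1) (-1)) ⟨2, 0, 3, 4, 4, 9, 3, 4, 5, 14⟩ :=
  leafX_sound T5.ok_mm T5.Ymm.bz_eq (w := 241) (c := ⟨⟨.negSucc 967, .negSucc 9, .ofNat 37, .ofNat 54, .ofNat 49, .ofNat 102⟩, ⟨.ofNat 459, .negSucc 53, .ofNat 114, .negSucc 34, .negSucc 30, .negSucc 61⟩, ⟨.ofNat 2046, .negSucc 406, .ofNat 448, .ofNat 704, .ofNat 785, .ofNat 1215⟩, ⟨.negSucc 3100, .ofNat 129, .ofNat 7, .ofNat 84, .ofNat 84, .ofNat 217⟩, ⟨.negSucc 392, .ofNat 77, .negSucc 80, .negSucc 140, .negSucc 118, .negSucc 160⟩, .ofNat 1328, .ofNat 1341, .ofNat 0, .ofNat 1341, .ofNat 2878, .ofNat 0, .ofNat 128, .negSucc 185, .ofNat 165, .ofNat 0, .ofNat 161, .negSucc 115, .ofNat 0, .ofNat 0, .ofNat 4452, .ofNat 17569,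 .ofNat 85571135789581569658357446585352441708728574541824, .ofNat 2748459170818197771579322507453938766613743403008, .ofNat 812027972285472526744575622729944850298038124544, .ofNat 0, .ofNat 699298115638391537283419247644825080301666544123904, .ofNat 19541187068003794304158296142914469447594254794752, .ofNat 14250299002719287545061008173692821122840677842944, .ofNat 0, .ofNat 2081831536235062239183492657246328606240594324357120, .ofNat 66483715310695684259703256934137142974892910575616, .ofNat 13272152597701958086872015851666571661432517033984, .ofNat 0, .ofNat 24609885000935307763226355221405446748123194755907584, .ofNat 890346173670234538875667868341734955640125007069184, .ofNat 39478901208956889250503755647336070004137883860992, .ofNat 0⟩)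
    (by decide +kernel)
theorem L00944 : Good (Phi V5.P V5.D (-1) (-1)) ⟨2, 0, 3, 5, 4, 9, 3, 4, 5, 14⟩ :=
  out_sound (S := T5.ds_mm) T5.ok_mm (w := 39) (j := 3) (by decide +kernel)
theorem L00945 : Good (Phi V5.P V5.D (-1) (-1)) ⟨2, 0, 3, 4, 5, 16, 4, 10, 5, 14⟩ :=
  leafX_sound T5.ok_mm T5.Ymm.bz_eq (w := 260) (c := ⟨⟨.negSucc 971, .negSucc 11, .ofNat 33, .ofNat 25, .ofNat 17, .ofNat 84⟩, ⟨.ofNat 463, .negSucc 50, .ofNat 115, .negSucc 17, .negSucc 10, .negSucc 51⟩, ⟨.ofNat 2032, .negSucc 511, .ofNat 468, .ofNat 419, .ofNat 341, .ofNat 1078⟩, ⟨.negSucc 3093, .ofNat 151, .negSucc 2, .ofNat 32, .ofNat 23, .ofNat 168⟩, ⟨.negSucc 346, .ofNat 128, .negSucc 91, .negSucc 87, .negSucc 53, .negSucc 159⟩, .ofNat 1714, .ofNat 1979, .ofNat 0, .ofNat 1979, .ofNat 4031, .ofNat 0, .ofNat 128, .negSucc 218, .ofNat 156, .ofNat 0, .ofNat 178, .negSucc 113, .ofNat 0, .ofNat 0, .ofNat 4665, .ofNat 26987,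 .ofNat 0, .ofNat 34035966205993121249086211112399665835896323543400448, .ofNat 216008361610249017897107406077133306935701854889181184, .ofNat 0, .ofNat 0, .ofNat 123838609855546356400241456189758219988100430639923200, .ofNat 6063566202011756209925038325955593962161570805545172992, .ofNat 0, .ofNat 0, .ofNat 813152835464415614867271488611298488312114218987945984, .ofNat 4147797202183135099762182763897886285200533363330383872, .ofNat 0, .ofNat 0, .ofNat 11674819416643790279300754826961443836572302685706911744, .ofNat 26062944060535850876810587749199358105866236128405749760, .ofNat 0⟩)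
    (by decide +kernel)
theorem L00946 : Good (Phi V5.P V5.D (-1) (-1)) ⟨2, 0, 3, 4, 5, 17, 4, 10, 5, 14⟩ :=
  leafX_sound T5.ok_mm T5.Ymm.bz_eq (w := 261) (c := ⟨⟨.negSucc 947, .negSucc 7, .ofNat 39, .ofNat 0, .ofNat 19, .ofNat 0⟩, ⟨.ofNat 447, .negSucc 53, .ofNat 112, .ofNat 0, .negSucc 12, .ofNat 0⟩, ⟨.ofNat 2433, .negSucc 480, .ofNat 520, .negSucc 0, .ofNat 424, .negSucc 0⟩, ⟨.negSucc 3067, .ofNat 169, .ofNat 8, .ofNat 1, .ofNat 42, .ofNat 1⟩, ⟨.negSucc 433, .ofNat 136, .negSucc 100, .ofNat 0, .negSucc 99, .ofNat 0⟩, .ofNat 196, .ofNat 29, .ofNat 0, .ofNat 29, .ofNat 229, .ofNat 0, .ofNat 171, .negSucc 32, .ofNat 76, .ofNat 0, .ofNat 128, .negSucc 145, .ofNat 0, .ofNat 0, .ofNat 1536, .ofNat 58342, .ofNat 0, .ofNat 82347691040921568314625375733032493401295917349339136, .ofNat 0, .ofNat 0, .ofNat 0, .ofNat 1486533861291158205641524395833656618098509350935986176, .ofNat 2787837668282797200281197021563037060495853863668023296,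 .ofNat 0, .ofNat 0, .ofNat 618505542011615640002366573109554958054631998979309568, .ofNat 814822556045923649868909436308601825264624015402598400, .ofNat 0, .ofNat 0, .ofNat 10807772935216801787612691651988446877930032852314882048, .ofNat 8494742996833569255606245600032208381662995735635820544, .ofNat 0⟩)
    (by decide +kernel)
theorem L00947 : Good (Phi V5.P V5.D (-1) (-1)) ⟨2, 0, 3, 5, 4, 8, 4, 10, 5, 14⟩ :=
  out_sound (S := T5.ds_mm) T5.ok_mm (w := 39) (j := 3) (by decide +kernel)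
theorem L00948 : Good (Phi V5.P V5.D (-1) (-1)) ⟨2, 0, 2, 2, 4, 8, 4, 11, 5, 14⟩ :=
  out_sound (S := T5.ds_mm) T5.ok_mm (w := 40) (j := 2) (by decide +kernel)
theorem L00949 : Good (Phi V5.P V5.D (-1) (-1)) ⟨2, 0, 2, 2, 4, 9, 3, 5, 5, 14⟩ :=
  out_sound (S := T5.ds_mm) T5.ok_mm (w := 38) (j := 2) (by decide +kernel)
theorem L00950 : Good (Phi V5.P V5.D (-1) (-1)) ⟨2, 0, 2, 3, 3, 4, 2, 2, 5, 14⟩ :=
  out_sound (S := T5.ds_mm) T5.ok_mm (w := 37) (j := 3) (by decide +kernel)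
theorem L00951 : Good (Phi V5.P V5.D (-1) (-1)) ⟨2, 0, 1, 1, 4, 8, 4, 8, 5, 15⟩ :=
  out_sound (S := T5.ds_mm) T5.ok_mm (w := 32) (j := 1) (by decide +kernel)
theorem L00952 : Good (Phi V5.P V5.D (-1) (-1)) ⟨2, 0, 1, 1, 5, 16, 4, 9, 6, 30⟩ :=
  out_sound (S := T5.ds_mm) T5.ok_mm (w := 36) (j := 1) (by decide +kernel)
theorem L00953 : Good (Phi V5.P V5.D (-1) (-1)) ⟨2, 0, 1, 1, 5, 17, 4, 9, 6, 30⟩ :=
  out_sound (S := T5.ds_mm) T5.ok_mm (w := 44) (j := 2) (by decide +kernel)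
theorem L00954 : Good (Phi V5.P V5.D (-1) (-1)) ⟨2, 0, 1, 1, 4, 8, 4, 9, 6, 31⟩ :=
  out_sound (S := T5.ds_mm) T5.ok_mm (w := 34) (j := 1) (by decide +kernel)
theorem L00955 : Good (Phi V5.P V5.D (-1) (-1)) ⟨2, 0, 1, 1, 4, 8, 3, 5, 5, 15⟩ :=
  out_sound (S := T5.ds_mm) T5.ok_mm (w := 38) (j := 2) (by decide +kernel)
theorem L00956 : Good (Phi V5.P V5.D (-1) (-1)) ⟨2, 0, 1, 1, 4, 9, 2, 2, 5, 15⟩ :=
  out_sound (S := T5.ds_mm) T5.ok_mm (w := 36) (j := 2) (by decide +kernel)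
theorem L00957 : Good (Phi V5.P V5.D (-1) (-1)) ⟨2, 0, 1, 1, 3, 5, 2, 2, 4, 7⟩ :=
  out_sound (S := T5.ds_mm) T5.ok_mm (w := 32) (j := 2) (by decide +kernel)
theorem L00958 : Good (Phi V5.P V5.D (-1) (-1)) ⟨2, 0, 1, 1, 2, 2, 2, 3, 4, 7⟩ :=
  out_sound (S := T5.ds_mm) T5.ok_mm (w := 30) (j := 2) (by decide +kernel)
theorem L00959 : Good (Phi V5.P V5.D (-1) (-1)) ⟨2, 0, 1, 1, 2, 3, 1, 1, 3, 3⟩ :=
  out_sound (S := T5.ds_mm) T5.ok_mm (w := 26) (j := 2) (by decide +kernel)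
theorem L00960 : Good (Phi V5.P V5.D (-1) (-1)) ⟨2, 1, 1, 1, 0, 0, 0, 0, 2, 1⟩ :=
  out_sound (S := T5.ds_mm) T5.ok_mm (w := 35) (j := 3) (by decide +kernel)
theorem L00961 : Good (Phi V5.P V5.D (-1) (-1)) ⟨1, 0, 1, 1, 0, 0, 0, 0, 1, 1⟩ :=
  leafX_sound T5.ok_mm T5.Ymm.bz_eq (w := 148) (c := ⟨⟨.negSucc 959, .negSucc 71, .negSucc 0, .ofNat 0, .ofNat 0, .ofNat 0⟩, ⟨.ofNat 480, .negSucc 126, .ofNat 480, .ofNat 0, .ofNat 0, .ofNat 0⟩, ⟨.ofNat 263, .ofNat 72, .ofNat 1, .ofNat 0, .ofNat 0, .ofNat 0⟩, ⟨.negSucc 2882, .negSucc 31, .ofNat 0, .ofNat 1, .negSucc 0, .ofNat 1⟩, ⟨.ofNat 0, .ofNat 0, .ofNat 0, .ofNat 0, .ofNat 0, .ofNat 0⟩, .ofNat 195, .ofNat 29, .ofNat 0, .ofNat 29, .ofNat 230, .ofNat 0, .ofNat 141, .negSucc 27, .negSucc 103, .ofNat 0, .ofNat 128, .ofNat 18, .ofNat 0, .ofNat 0, .ofNat 303, .ofNat 1450, .ofNat 1581980642699672975249627938816, .ofNat 155640349882115593125524144128,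 .ofNat 198917276010933125120, .ofNat 0, .ofNat 7320113764794147345384079360, .ofNat 663123160787732158333583360, .ofNat 9891565624204395020288, .ofNat 0, .ofNat 5549993907791976226600517632, .ofNat 563110580444369110519775232, .ofNat 3215263916702908284928, .ofNat 0, .ofNat 6038004396948357702353944576, .ofNat 574665061399293569607401472, .ofNat 3849717718697304391680, .ofNat 0⟩)
    (by decide +kernel)
theorem L00962 : Good (Phi V5.P V5.D (-1) (-1)) ⟨3, 4, 2, 0, 1, 0, 3, 0, 5, 0⟩ :=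
  leafX_sound T5.ok_mm T5.Ymm.bz_eq (w := 197) (c := ⟨⟨.ofNat 775, .ofNat 195, .ofNat 139, .ofNat 382, .ofNat 193, .negSucc 1100⟩, ⟨.negSucc 62, .negSucc 92, .negSucc 94, .negSucc 99, .negSucc 2, .ofNat 181⟩, ⟨.negSucc 799, .negSucc 51, .negSucc 153, .ofNat 89, .negSucc 336, .ofNat 931⟩, ⟨.ofNat 1783, .ofNat 83, .ofNat 125, .ofNat 510, .ofNat 488, .negSucc 2250⟩, ⟨.ofNat 182, .negSucc 296, .negSucc 135, .negSucc 1676, .ofNat 69, .negSucc 26⟩, .ofNat 462, .ofNat 227, .ofNat 0, .ofNat 227, .ofNat 1980, .ofNat 0, .ofNat 367, .negSucc 115, .negSucc 247, .ofNat 0, .ofNat 128, .ofNat 35, .ofNat 0, .ofNat 0, .ofNat 547, .ofNat 5111, .ofNat 0, .ofNat 0, .ofNat 0, .ofNat 0, .ofNat 0, .ofNat 0, .ofNat 116863690169210766207886734351400960, .ofNat 0, .ofNat 0, .ofNat 0, .ofNat 0, .ofNat 0, .ofNat 0, .ofNat 0, .ofNat 0, .ofNat 0⟩)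
    (by decide +kernel)
theorem L00963 : Good (Phi V5.P V5.D (-1) (-1)) ⟨3, 4, 2, 0, 1, 0, 3, 1, 5, 0⟩ :=
  leafX_sound T5.ok_mm T5.Ymm.bz_eq (w := 196) (c := ⟨⟨.ofNat 1006, .ofNat 268, .ofNat 166, .ofNat 439, .ofNat 1, .negSucc 1433⟩, ⟨.negSucc 30, .negSucc 138, .negSucc 118, .negSucc 140, .negSucc 1, .ofNat 201⟩, ⟨.negSucc 1072, .negSucc 141, .negSucc 64, .ofNat 72, .negSucc 216, .ofNat 1112⟩, ⟨.ofNat 2297, .ofNat 241, .ofNat 118, .ofNat 684, .ofNat 36, .negSucc 2989⟩, ⟨.ofNat 72, .negSucc 177, .ofNat 29, .negSucc 1535, .ofNat 197, .ofNat 67⟩, .ofNat 330, .ofNat 56, .ofNat 0, .ofNat 56, .ofNat 761, .ofNat 0, .ofNat 320, .negSucc 42, .negSucc 326, .ofNat 0, .ofNat 128, .ofNat 40, .ofNat 0, .ofNat 0, .ofNat 544, .ofNat 2090, .ofNat 0, .ofNat 0, .ofNat 0, .ofNat 0, .ofNat 0, .ofNat 0, .ofNat 0, .ofNat 0, .ofNat 0, .ofNat 0, .ofNat 0, .ofNat 0, .ofNat 0, .ofNat 0, .ofNat 0, .ofNat 0⟩)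
    (by decide +kernel)
theorem L00964 : Good (Phi V5.P V5.D (-1) (-1)) ⟨3, 4, 2, 0, 1, 0, 2, 0, 5, 1⟩ :=
  leafX_sound T5.ok_mm T5.Ymm.bz_eq (w := 192) (c := ⟨⟨.negSucc 207, .negSucc 137, .ofNat 177, .ofNat 370, .negSucc 44, .negSucc 967⟩, ⟨.negSucc 54, .ofNat 49, .ofNat 144, .negSucc 110, .ofNat 13, .ofNat 129⟩, ⟨.ofNat 345, .ofNat 122, .negSucc 126, .negSucc 665, .negSucc 123, .ofNat 854⟩, ⟨.negSucc 425, .negSucc 191, .ofNat 195, .ofNat 516, .negSucc 70, .negSucc 1941⟩, ⟨.negSucc 36, .negSucc 7, .negSucc 18, .negSucc 1749, .ofNat 283, .ofNat 81⟩, .ofNat 464, .ofNat 225, .ofNat 0, .ofNat 225, .ofNat 2000, .ofNat 0, .ofNat 381, .negSucc 111, .negSucc 267, .ofNat 0, .ofNat 128, .ofNat 38, .ofNat 0, .ofNat 0, .ofNat 608, .ofNat 2764, .ofNat 0, .ofNat 0, .ofNat 0, .ofNat 0, .ofNat 0, .ofNat 0, .ofNat 0, .ofNat 0, .ofNat 23797606025620031423252856503133011968, .ofNat 0, .ofNat 14349284205473736030672139004674048,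 .ofNat 0, .ofNat 0, .ofNat 0, .ofNat 0, .ofNat 0⟩)
    (by decide +kernel)
theorem L00965 : Good (Phi V5.P V5.D (-1) (-1)) ⟨3, 5, 2, 0, 2, 0, 2, 0, 5, 0⟩ :=
  leafX_sound T5.ok_mm T5.Ymm.bz_eq (w := 206) (c := ⟨⟨.ofNat 1146, .ofNat 289, .ofNat 71, .ofNat 12, .ofNat 403, .negSucc 1527⟩, ⟨.negSucc 152, .negSucc 175, .negSucc 126, .negSucc 97, .negSucc 74, .ofNat 365⟩, ⟨.negSucc 1122, .negSucc 302, .negSucc 76, .ofNat 5, .negSucc 545, .ofNat 1537⟩, ⟨.ofNat 2243, .ofNat 326, .ofNat 42, .negSucc 177, .ofNat 730, .negSucc 2853⟩, ⟨.ofNat 45, .negSucc 2, .ofNat 28, .negSucc 751, .ofNat 127, .negSucc 142⟩, .ofNat 315, .ofNat 106, .ofNat 0, .ofNat 106, .ofNat 681, .ofNat 0, .ofNat 212, .negSucc 68, .negSucc 467, .ofNat 0, .ofNat 128, .ofNat 95, .ofNat 0, .ofNat 0, .ofNat 714, .ofNat 1934, .ofNat 0, .ofNat 0, .ofNat 0, .ofNat 0, .ofNat 0, .ofNat 0, .ofNat 0, .ofNat 0, .ofNat 0, .ofNat 0, .ofNat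 0, .ofNat 0, .ofNat 0, .ofNat 0, .ofNat 0, .ofNat 0⟩)
    (by decide +kernel)
theorem L00966 : Good (Phi V5.P V5.D (-1) (-1)) ⟨3, 5, 2, 0, 2, 0, 2, 0, 5, 1⟩ :=
  leafX_sound T5.ok_mm T5.Ymm.bz_eq (w := 206) (c := ⟨⟨.negSucc 167, .negSucc 168, .ofNat 111, .negSucc 23, .negSucc 204, .negSucc 1158⟩, ⟨.negSucc 55, .ofNat 84, .ofNat 98, .negSucc 23, .ofNat 74, .ofNat 288⟩, ⟨.ofNat 285, .ofNat 164, .negSucc 166, .negSucc 120, .ofNat 41, .ofNat 1166⟩, ⟨.negSucc 316, .negSucc 209, .ofNat 155, .negSucc 198, .negSucc 309, .negSucc 2089⟩, ⟨.ofNat 1, .negSucc 68, .negSucc 22, .negSucc 657, .ofNat 146, .ofNat 55⟩, .ofNat 313, .ofNat 100, .ofNat 0, .ofNat 100, .ofNat 673, .ofNat 0, .ofNat 128, .negSucc 82, .negSucc 335, .ofNat 0, .ofNat 162, .ofNat 68, .ofNat 0, .ofNat 0, .ofNat 573, .ofNat 1778, .ofNat 0, .ofNat 0, .ofNat 0, .ofNat 0, .ofNat 0, .ofNat 0, .ofNat 0, .ofNat 0, .ofNat 0, .ofNat 0, .ofNat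 0, .ofNat 0, .ofNat 0, .ofNat 0, .ofNat 0, .ofNat 0⟩)
    (by decide +kernel)
theorem L00967 : Good (Phi V5.P V5.D (-1) (-1)) ⟨3, 5, 2, 0, 2, 1, 3, 0, 4, 0⟩ :=
  leafX_sound T5.ok_mm T5.Ymm.bz_eq (w := 205) (c := ⟨⟨.ofNat 1007, .ofNat 378, .ofNat 236, .ofNat 819, .ofNat 172, .negSucc 2896⟩, ⟨.negSucc 248, .negSucc 341, .negSucc 4, .negSucc 311, .negSucc 23, .ofNat 780⟩, ⟨.negSucc 764, .negSucc 175, .negSucc 243, .negSucc 137, .negSucc 337, .ofNat 2052⟩, ⟨.ofNat 1888, .ofNat 281, .ofNat 225, .ofNat 998, .ofNat 392, .negSucc 5180⟩, ⟨.negSucc 787, .negSucc 250, .negSucc 45, .negSucc 1460, .ofNat 278, .ofNat 154⟩, .ofNat 314, .ofNat 106, .ofNat 0, .ofNat 106, .ofNat 677, .ofNat 0, .ofNat 213, .negSucc 94, .negSucc 166, .ofNat 0, .ofNat 128, .ofNat 43, .ofNat 0, .ofNat 0, .ofNat 299, .ofNat 2042, .ofNat 0, .ofNat 0, .ofNat 0, .ofNat 0, .ofNat 0, .ofNat 0, .ofNat 0, .ofNat 0, .ofNat 0, .ofNat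 0, .ofNat 0, .ofNat 0, .ofNat 0, .ofNat 0, .ofNat 0, .ofNat 0⟩)
    (by decide +kernel)
theorem L00968 : Good (Phi V5.P V5.D (-1) (-1)) ⟨3, 5, 2, 0, 2, 1, 3, 1, 4, 0⟩ :=
  leafX_sound T5.ok_mm T5.Ymm.bz_eq (w := 205) (c := ⟨⟨.ofNat 1329, .ofNat 348, .ofNat 231, .ofNat 635, .negSucc 83, .negSucc 3211⟩, ⟨.negSucc 331, .negSucc 238, .negSucc 43, .negSucc 198, .ofNat 38, .ofNat 837⟩, ⟨.negSucc 1152, .negSucc 377, .negSucc 223, .negSucc 231, .negSucc 32, .ofNat 2453⟩, ⟨.ofNat 2513, .ofNat 283, .ofNat 220, .ofNat 866, .negSucc 70, .negSucc 5798⟩, ⟨.negSucc 624, .negSucc 197, .ofNat 11, .negSucc 1229, .ofNat 248, .ofNat 123⟩, .ofNat 313, .ofNat 105, .ofNat 0, .ofNat 105, .ofNat 665, .ofNat 0, .ofNat 155, .negSucc 90, .negSucc 316, .ofNat 0, .ofNat 128, .ofNat 80, .ofNat 0, .ofNat 0, .ofNat 477, .ofNat 728, .ofNat 0, .ofNat 0, .ofNat 0, .ofNat 0, .ofNat 0, .ofNat 0, .ofNat 0, .ofNat 0, .ofNat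 0, .ofNat 0, .ofNat 0, .ofNat 0, .ofNat 0, .ofNat 0, .ofNat 0, .ofNat 0⟩)
    (by decide +kernel)
theorem L00969 : Good (Phi V5.P V5.D (-1) (-1)) ⟨2, 2, 2, 0, 1, 0, 2, 1, 4, 0⟩ :=
  leafX_sound T5.ok_mm T5.Ymm.bz_eq (w := 182) (c := ⟨⟨.ofNat 930, .negSucc 69, .ofNat 386, .ofNat 701, .negSucc 363, .negSucc 2509⟩, ⟨.negSucc 177, .negSucc 94, .negSucc 112, .negSucc 222, .ofNat 99, .ofNat 570⟩, ⟨.negSucc 925, .ofNat 66, .negSucc 363, .negSucc 680, .ofNat 232, .ofNat 2268⟩, ⟨.ofNat 2127, .negSucc 248, .ofNat 478, .ofNat 851, .negSucc 763, .negSucc 5066⟩, ⟨.ofNat 264, .negSucc 274, .ofNat 143, .negSucc 1170, .ofNat 15, .negSucc 264⟩, .ofNat 322, .ofNat 91, .ofNat 0, .ofNat 91, .ofNat 721, .ofNat 0, .ofNat 163, .negSucc 64, .negSucc 396, .ofNat 0, .ofNat 128, .ofNat 73, .ofNat 0, .ofNat 0, .ofNat 581, .ofNat 166, .ofNat 0, .ofNat 0, .ofNat 4261573531579299542824980054016, .ofNat 0, .ofNat 0,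 .ofNat 0, .ofNat 0, .ofNat 0, .ofNat 0, .ofNat 0, .ofNat 0, .ofNat 0, .ofNat 0, .ofNat 0, .ofNat 0, .ofNat 0⟩)
    (by decide +kernel)
theorem L00970 : Good (Phi V5.P V5.D (-1) (-1)) ⟨2, 2, 2, 0, 1, 0, 2, 0, 4, 1⟩ :=
  leafX_sound T5.ok_mm T5.Ymm.bz_eq (w := 182) (c := ⟨⟨.negSucc 977, .negSucc 649, .ofNat 142, .ofNat 136, .negSucc 98, .negSucc 1092⟩, ⟨.negSucc 45, .ofNat 287, .ofNat 319, .negSucc 106, .ofNat 18, .ofNat 233⟩, ⟨.ofNat 1270, .ofNat 632, .negSucc 201, .negSucc 988, .negSucc 38, .ofNat 1094⟩, ⟨.negSucc 2006, .negSucc 640, .ofNat 105, .negSucc 86, .negSucc 186, .negSucc 2075⟩, ⟨.negSucc 184, .negSucc 69, .negSucc 66, .negSucc 1468, .ofNat 264, .ofNat 443⟩, .ofNat 322, .ofNat 81, .ofNat 0, .ofNat 81, .ofNat 722, .ofNat 0, .ofNat 202, .negSucc 60, .negSucc 163, .ofNat 0, .ofNat 128, .ofNat 33, .ofNat 0, .ofNat 0, .ofNat 369, .ofNat 702, .ofNat 118808690020010413884937262258454528,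 .ofNat 0, .ofNat 0, .ofNat 0, .ofNat 153208000170278091447980794925023232, .ofNat 0, .ofNat 0, .ofNat 0, .ofNat 0, .ofNat 0, .ofNat 0, .ofNat 0, .ofNat 0, .ofNat 0, .ofNat 0, .ofNat 0⟩)
    (by decide +kernel)
theorem L00971 : Good (Phi V5.P V5.D (-1) (-1)) ⟨2, 2, 2, 0, 1, 0, 2, 1, 4, 1⟩ :=
  leafX_sound T5.ok_mm T5.Ymm.bz_eq (w := 182) (c := ⟨⟨.negSucc 979, .negSucc 991, .ofNat 4, .ofNat 20, .negSucc 40, .negSucc 771⟩, ⟨.negSucc 124, .ofNat 451, .ofNat 382, .negSucc 6, .ofNat 13, .ofNat 147⟩, ⟨.ofNat 1081, .ofNat 898, .negSucc 37, .negSucc 816, .ofNat 16, .ofNat 820⟩, ⟨.negSucc 2223, .negSucc 1073, .ofNat 29, .negSucc 64, .negSucc 86, .negSucc 1580⟩, ⟨.negSucc 87, .negSucc 82, .ofNat 11, .negSucc 921, .ofNat 215, .ofNat 177⟩, .ofNat 322, .ofNat 82, .ofNat 0, .ofNat 82, .ofNat 715, .ofNat 0, .ofNat 239, .negSucc 57, .negSucc 177, .ofNat 0, .ofNat 128, .ofNat 34, .ofNat 0, .ofNat 0, .ofNat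 345, .ofNat 619, .ofNat 0, .ofNat 0, .ofNat 0, .ofNat 0, .ofNat 0, .ofNat 0, .ofNat 0, .ofNat 0, .ofNat 0, .ofNat 0, .ofNat 0, .ofNat 0, .ofNat 0, .ofNat 0, .ofNat 128695389910580088343611400257536, .ofNat 0⟩)
    (by decide +kernel)
theorem L00972 : Good (Phi V5.P V5.D (-1) (-1)) ⟨2, 2, 2, 0, 1, 0, 1, 0, 4, 2⟩ :=
  leafX_sound T5.ok_mm T5.Ymm.bz_eq (w := 179) (c := ⟨⟨.negSucc 1755, .negSucc 1033, .ofNat 64, .negSucc 375, .ofNat 220, .negSucc 41⟩, ⟨.negSucc 15, .ofNat 574, .ofNat 384, .ofNat 34, .negSucc 37, .negSucc 2⟩, ⟨.ofNat 1979, .ofNat 1096, .negSucc 83, .negSucc 474, .negSucc 443, .ofNat 160⟩, ⟨.negSucc 3936, .negSucc 750, .ofNat 117, .negSucc 862, .ofNat 445, .negSucc 90⟩, ⟨.negSucc 212, .ofNat 66, .ofNat 30, .negSucc 643, .ofNat 235, .ofNat 65⟩, .ofNat 320, .ofNat 88, .ofNat 0, .ofNat 88, .ofNat 715, .ofNat 0, .ofNat 297, .negSucc 61, .negSucc 154, .ofNat 0, .ofNat 128, .ofNat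 34, .ofNat 0, .ofNat 0, .ofNat 452, .ofNat 818, .ofNat 0, .ofNat 0, .ofNat 0, .ofNat 0, .ofNat 0, .ofNat 0, .ofNat 0, .ofNat 0, .ofNat 0, .ofNat 0, .ofNat 0, .ofNat 0, .ofNat 38820901357075348359451521788674048, .ofNat 0, .ofNat 132839930708259432105156542464, .ofNat 0⟩)
    (by decide +kernel)
theorem L00973 : Good (Phi V5.P V5.D (-1) (-1)) ⟨2, 2, 2, 0, 1, 0, 1, 0, 4, 3⟩ :=
  leafX_sound T5.ok_mm T5.Ymm.bz_eq (w := 180) (c := ⟨⟨.negSucc 2019, .negSucc 829, .ofNat 0, .negSucc 240, .ofNat 360, .ofNat 130⟩, ⟨.ofNat 34, .ofNat 517, .ofNat 397, .ofNat 28, .negSucc 55, .negSucc 36⟩, ⟨.ofNat 2356, .ofNat 911, .negSucc 149, .negSucc 389, .negSucc 676, .ofNat 39⟩, ⟨.negSucc 4449, .negSucc 424, .negSucc 24, .negSucc 575, .ofNat 734, .ofNat 279⟩, ⟨.negSucc 199, .ofNat 74, .negSucc 39, .negSucc 515, .ofNat 199, .ofNat 100⟩, .ofNat 320, .ofNat 80, .ofNat 0, .ofNat 80, .ofNat 708, .ofNat 0, .ofNat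 252, .negSucc 54, .negSucc 146, .ofNat 0, .ofNat 128, .ofNat 33, .ofNat 0, .ofNat 0, .ofNat 621, .ofNat 1247, .ofNat 0, .ofNat 0, .ofNat 0, .ofNat 0, .ofNat 0, .ofNat 0, .ofNat 49182672361775709938369402241024, .ofNat 0, .ofNat 0, .ofNat 0, .ofNat 0, .ofNat 0, .ofNat 0, .ofNat 0, .ofNat 0, .ofNat 0⟩)
    (by decide +kernel)
theorem L00974 : Good (Phi V5.P V5.D (-1) (-1)) ⟨2, 2, 2, 0, 1, 0, 2, 0, 4, 4⟩ :=
  leafX_sound T5.ok_mm T5.Ymm.bz_eq (w := 186) (c := ⟨⟨.negSucc 1947, .negSucc 834, .ofNat 57, .negSucc 203, .ofNat 218, .ofNat 286⟩, ⟨.ofNat 87, .ofNat 513, .ofNat 385, .ofNat 15, .negSucc 113, .negSucc 43⟩, ⟨.ofNat 2434, .ofNat 984, .negSucc 224, .negSucc 511, .negSucc 276, .negSucc 70⟩, ⟨.negSucc 4150, .negSucc 427, .ofNat 40, .negSucc 531, .ofNat 339, .ofNat 544⟩, ⟨.negSucc 316, .ofNat 86, .negSucc 55, .negSucc 625, .ofNat 406, .ofNat 33⟩, .ofNat 322, .ofNat 89, .ofNat 0, .ofNat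 89, .ofNat 719, .ofNat 0, .ofNat 149, .negSucc 63, .negSucc 101, .ofNat 0, .ofNat 128, .ofNat 30, .ofNat 0, .ofNat 0, .ofNat 551, .ofNat 10809, .ofNat 591586107336539593088825802392338432, .ofNat 0, .ofNat 21961741490089430597484670877696, .ofNat 0, .ofNat 4374710193759551261470941684082671616, .ofNat 0, .ofNat 84011146004319401150263909679104, .ofNat 0, .ofNat 0, .ofNat 0, .ofNat 0, .ofNat 0, .ofNat 5535341762515588089554254451817054208, .ofNat 0, .ofNat 0, .ofNat 0⟩)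
    (by decide +kernel)
theorem L00975 : Good (Phi V5.P V5.D (-1) (-1)) ⟨3, 4, 2, 0, 1, 0, 2, 1, 4, 4⟩ :=
  leafX_sound T5.ok_mm T5.Ymm.bz_eq (w := 190) (c := ⟨⟨.negSucc 1808, .negSucc 294, .ofNat 20, .negSucc 100, .ofNat 167, .ofNat 145⟩, ⟨.ofNat 51, .ofNat 170, .ofNat 324, .ofNat 9, .negSucc 25, .negSucc 22⟩, ⟨.ofNat 2075, .ofNat 291, .negSucc 47, .negSucc 403, .negSucc 363, .negSucc 20⟩, ⟨.negSucc 3981, .negSucc 112, .ofNat 5, .negSucc 270, .ofNat 367, .ofNat 312⟩, ⟨.negSucc 43, .ofNat 9, .negSucc 13, .negSucc 431, .ofNat 69, .ofNat 33⟩, .ofNat 332, .ofNat 61, .ofNat 0, .ofNat 61, .ofNat 773, .ofNat 0, .ofNat 393, .negSucc 40, .negSucc 119, .ofNat 0, .ofNat 128, .ofNat 21, .ofNat 0, .ofNat 0, .ofNat 746, .ofNat 9911, .ofNat 0, .ofNat 0, .ofNat 0, .ofNat 0, .ofNat 0, .ofNat 0, .ofNat 0, .ofNat 0, .ofNat 0, .ofNat 0, .ofNat 0, .ofNat 0, .ofNat 0, .ofNat 0, .ofNat 0, .ofNat 0⟩)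
    (by decide +kernel)
theorem L00976 : Good (Phi V5.P V5.D (-1) (-1)) ⟨3, 5, 2, 0, 1, 0, 2, 1, 4, 4⟩ :=
  leafX_sound T5.ok_mm T5.Ymm.bz_eq (w := 189) (c := ⟨⟨.negSucc 2196, .negSucc 394, .ofNat 44, .negSucc 108, .ofNat 221, .ofNat 223⟩, ⟨.ofNat 254, .ofNat 287, .ofNat 327, .negSucc 2, .negSucc 38, .negSucc 57⟩, ⟨.ofNat 2521, .ofNat 411, .negSucc 103, .negSucc 426, .negSucc 512, .negSucc 96⟩, ⟨.negSucc 4195, .negSucc 160, .ofNat 46, .negSucc 282, .ofNat 392, .ofNat 413⟩, ⟨.negSucc 97, .ofNat 4, .negSucc 28, .negSucc 368, .ofNat 76, .ofNat 70⟩, .ofNat 449, .ofNat 303, .ofNat 0, .ofNat 303, .ofNat 1525, .ofNat 0, .ofNat 242, .negSucc 126, .negSucc 106, .ofNat 0, .ofNat 128, .ofNat 29, .ofNat 0, .ofNat 0, .ofNat 636, .ofNat 3911, .ofNat 1664646001484624608579402379707809792, .ofNat 0, .ofNat 4178393108883544662932895825920, .ofNat 0, .ofNat 0, .ofNat 0, .ofNat 0, .ofNat 0, .ofNat 0, .ofNat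 0, .ofNat 0, .ofNat 0, .ofNat 0, .ofNat 0, .ofNat 0, .ofNat 0⟩)
    (by decide +kernel)
theorem L00977 : Good (Phi V5.P V5.D (-1) (-1)) ⟨2, 2, 2, 0, 1, 0, 2, 0, 4, 5⟩ :=
  out_sound (S := T5.ds_mm) T5.ok_mm (w := 22) (j := 1) (by decide +kernel)
theorem L00978 : Good (Phi V5.P V5.D (-1) (-1)) ⟨2, 2, 2, 0, 2, 0, 3, 2, 4, 5⟩ :=
  leafX_sound T5.ok_mm T5.Ymm.bz_eq (w := 209) (c := ⟨⟨.negSucc 1746, .negSucc 628, .ofNat 11, .negSucc 55, .ofNat 179, .ofNat 1⟩, ⟨.ofNat 165, .ofNat 454, .ofNat 320, .negSucc 9, .negSucc 166, .ofNat 0⟩, ⟨.ofNat 2136, .ofNat 716, .negSucc 47, .negSucc 138, .negSucc 300, .negSucc 0⟩, ⟨.negSucc 3657, .negSucc 197, .ofNat 11, .negSucc 164, .ofNat 195, .ofNat 2⟩, ⟨.ofNat 10, .ofNat 42, .negSucc 3, .negSucc 190, .negSucc 0, .ofNat 0⟩, .ofNat 168, .ofNat 17, .ofNat 0, .ofNat 17, .ofNat 241, .ofNat 0, .ofNat 128, .negSucc 32, .negSucc 51, .ofNat 0, .ofNat 194, .ofNat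 14, .ofNat 0, .ofNat 0, .ofNat 234, .ofNat 233500, .ofNat 826597287812497491014745765066374845038592, .ofNat 0, .ofNat 20181113693423082331396188227216867328, .ofNat 0, .ofNat 687624336377814164807796563338242736259072, .ofNat 0, .ofNat 78914454484847285954641421933177995264, .ofNat 0, .ofNat 360829630919854485404312543024676526358528, .ofNat 0, .ofNat 0, .ofNat 0, .ofNat 656309250592723830848333801190632288419840, .ofNat 0, .ofNat 70849258211601312851943472178292326400, .ofNat 0⟩)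
    (by decide +kernel)
theorem L00979 : Good (Phi V5.P V5.D (-1) (-1)) ⟨2, 2, 2, 0, 3, 2, 3, 2, 5, 10⟩ :=
  leafX_sound T5.ok_mm T5.Ymm.bz_eq (w := 226) (c := ⟨⟨.negSucc 1758, .negSucc 641, .ofNat 26, .negSucc 14, .ofNat 126, .ofNat 95⟩, ⟨.ofNat 72, .ofNat 434, .ofNat 330, .ofNat 7, .negSucc 74, .negSucc 49⟩, ⟨.ofNat 2034, .ofNat 717, .negSucc 85, .negSucc 125, .negSucc 309, .negSucc 17⟩, ⟨.negSucc 3819, .negSucc 211, .ofNat 19, .negSucc 65, .ofNat 191, .ofNat 200⟩, ⟨.negSucc 209, .ofNat 48, .negSucc 9, .negSucc 116, .ofNat 29, .ofNat 9⟩, .ofNat 170, .ofNat 15, .ofNat 0, .ofNat 15, .ofNat 242, .ofNat 0, .ofNat 128, .negSucc 26, .negSucc 66, .ofNat 0, .ofNat 168, .ofNat 21, .ofNat 0, .ofNat 0, .ofNat 310, .ofNat 76872, .ofNat 5494847118287599659823202380151266713664487424, .ofNat 0, .ofNat 0, .ofNat 0, .ofNat 4048316729771114985948988055294617922314436608, .ofNat 0, .ofNat 23294869701354459681929194653535256881135616,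 .ofNat 0, .ofNat 0, .ofNat 0, .ofNat 0, .ofNat 0, .ofNat 4393240672158519438148617206422946801292148736, .ofNat 0, .ofNat 102417858159981250765190610127501008966778880, .ofNat 0⟩)
    (by decide +kernel)
theorem L00980 : Good (Phi V5.P V5.D (-1) (-1)) ⟨2, 2, 2, 0, 3, 3, 4, 4, 5, 10⟩ :=
  leafX_sound T5.ok_mm T5.Ymm.bz_eq (w := 232) (c := ⟨⟨.negSucc 1750, .negSucc 647, .ofNat 48, .ofNat 19, .ofNat 38, .ofNat 103⟩, ⟨.ofNat 43, .ofNat 419, .ofNat 350, .negSucc 26, .negSucc 23, .negSucc 23⟩, ⟨.ofNat 1885, .ofNat 695, .negSucc 187, .negSucc 223, .negSucc 88, .negSucc 30⟩, ⟨.negSucc 3874, .negSucc 232, .ofNat 27, .ofNat 3, .ofNat 76, .ofNat 249⟩, ⟨.negSucc 341, .ofNat 38, .negSucc 27, .negSucc 173, .ofNat 45, .ofNat 29⟩, .ofNat 168, .ofNat 18, .ofNat 0, .ofNat 18, .ofNat 240, .ofNat 0, .ofNat 128, .negSucc 32, .negSucc 89, .ofNat 0, .ofNat 133, .ofNat 38, .ofNat 0, .ofNat 0, .ofNat 407, .ofNat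 207425, .ofNat 150563448104453188113587274153148431720855371776, .ofNat 0, .ofNat 0, .ofNat 0, .ofNat 70379374854408817863370090474689182825086713856, .ofNat 0, .ofNat 412536944262548370488072984870835331545432064, .ofNat 0, .ofNat 59307182669690155939834030200102460528976199680, .ofNat 0, .ofNat 0, .ofNat 0, .ofNat 165280527398122978651525610159928566899630145536, .ofNat 0, .ofNat 994167431559505742104804320075520572422881280, .ofNat 0⟩)
    (by decide +kernel)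
theorem L00981 : Good (Phi V5.P V5.D (-1) (-1)) ⟨2, 2, 2, 0, 3, 3, 4, 5, 6, 20⟩ :=
  leafX_sound T5.ok_mm T5.Ymm.bz_eq (w := 234) (c := ⟨⟨.negSucc 1711, .negSucc 622, .ofNat 42, .ofNat 11, .ofNat 43, .ofNat 59⟩, ⟨.ofNat 13, .ofNat 416, .ofNat 330, .negSucc 6, .negSucc 10, .negSucc 5⟩, ⟨.ofNat 1776, .ofNat 660, .negSucc 132, .negSucc 211, .negSucc 131, .negSucc 13⟩, ⟨.negSucc 3799, .negSucc 208, .ofNat 23, .negSucc 4, .ofNat 95, .ofNat 114⟩, ⟨.negSucc 318, .ofNat 40, .negSucc 18, .negSucc 149, .ofNat 26, .ofNat 11⟩, .ofNat 169, .ofNat 16, .ofNat 0, .ofNat 16, .ofNat 241, .ofNat 0, .ofNat 136, .negSucc 25, .negSucc 73, .ofNat 0, .ofNat 128, .ofNat 27, .ofNat 0, .ofNat 0, .ofNat 339, .ofNat 33259, .ofNat 71287953499639210404193353254642547813236342784, .ofNat 0, .ofNat 0, .ofNat 0, .ofNat 0, .ofNat 0, .ofNat 0, .ofNat 0, .ofNat 0, .ofNat 0, .ofNat 0, .ofNat 0, .ofNat 56668568187699302242312198419358680921464111104,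 .ofNat 0, .ofNat 62708066709635824787925411429713651543060774912, .ofNat 0⟩)
    (by decide +kernel)
theorem L00982 : Good (Phi V5.P V5.D (-1) (-1)) ⟨2, 2, 2, 0, 3, 3, 5, 10, 6, 21⟩ :=
  leafX_sound T5.ok_mm T5.Ymm.bz_eq (w := 241) (c := ⟨⟨.negSucc 1677, .negSucc 583, .ofNat 44, .ofNat 34, .ofNat 5, .ofNat 59⟩, ⟨.ofNat 42, .ofNat 391, .ofNat 330, .negSucc 38, .negSucc 9, .ofNat 10⟩, ⟨.ofNat 1818, .ofNat 593, .negSucc 159, .negSucc 254, .negSucc 40, .negSucc 10⟩, ⟨.negSucc 3730, .negSucc 164, .ofNat 18, .ofNat 41, .ofNat 36, .ofNat 119⟩, ⟨.negSucc 300, .ofNat 25, .negSucc 23, .negSucc 157, .ofNat 20, .ofNat 15⟩, .ofNat 169, .ofNat 15, .ofNat 0, .ofNat 15, .ofNat 241, .ofNat 0, .ofNat 128, .negSucc 27, .negSucc 92, .ofNat 0, .ofNat 135, .ofNat 37, .ofNat 0, .ofNat 0, .ofNat 485, .ofNat 213107, .ofNat 9467037930980164193803923579570526471891355435008, .ofNat 0, .ofNat 0, .ofNat 0, .ofNat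 4865238522891985945604631895579143964123883110400, .ofNat 0, .ofNat 108782143743664465175460233087919475241701605376, .ofNat 0, .ofNat 6261447303193154523269069774006483289623274455040, .ofNat 0, .ofNat 0, .ofNat 0, .ofNat 13727609235265110726874390320471260639780734500864, .ofNat 0, .ofNat 0, .ofNat 0⟩)
    (by decide +kernel)
theorem L00983 : Good (Phi V5.P V5.D (-1) (-1)) ⟨3, 4, 2, 0, 3, 3, 5, 11, 6, 21⟩ :=
  leafX_sound T5.ok_mm T5.Ymm.bz_eq (w := 245) (c := ⟨⟨.negSucc 1660, .negSucc 260, .ofNat 39, .ofNat 19, .ofNat 24, .ofNat 45⟩, ⟨.ofNat 27, .ofNat 159, .ofNat 317, .negSucc 5, .negSucc 2, .negSucc 5⟩, ⟨.ofNat 1722, .ofNat 266, .negSucc 103, .negSucc 212, .negSucc 72, .ofNat 3⟩, ⟨.negSucc 3670, .negSucc 69, .ofNat 12, .ofNat 17, .ofNat 48, .ofNat 100⟩, ⟨.negSucc 301, .ofNat 14, .negSucc 15, .negSucc 137, .ofNat 14, .ofNat 15⟩, .ofNat 331, .ofNat 59, .ofNat 0, .ofNat 59, .ofNat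 765, .ofNat 0, .ofNat 219, .negSucc 42, .negSucc 92, .ofNat 0, .ofNat 128, .ofNat 23, .ofNat 0, .ofNat 0, .ofNat 826, .ofNat 296738, .ofNat 92905662876648308855739973103048884896654558232576, .ofNat 0, .ofNat 0, .ofNat 0, .ofNat 0, .ofNat 0, .ofNat 0, .ofNat 0, .ofNat 135117648482695340514881005509523290868389450350592, .ofNat 0, .ofNat 168834651141631125623000350863268390000199204864, .ofNat 0, .ofNat 0, .ofNat 0, .ofNat 0, .ofNat 0⟩)
    (by decide +kernel)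
theorem L00984 : Good (Phi V5.P V5.D (-1) (-1)) ⟨3, 5, 2, 0, 3, 3, 5, 11, 6, 21⟩ :=
  leafX_sound T5.ok_mm T5.Ymm.bz_eq (w := 244) (c := ⟨⟨.negSucc 1950, .negSucc 327, .ofNat 49, .ofNat 37, .ofNat 31, .ofNat 70⟩, ⟨.ofNat 197, .ofNat 240, .ofNat 322, .negSucc 16, .negSucc 8, .negSucc 17⟩, ⟨.ofNat 2078, .ofNat 336, .negSucc 165, .negSucc 275, .negSucc 88, .negSucc 41⟩, ⟨.negSucc 3768, .negSucc 91, .ofNat 28, .ofNat 28, .ofNat 56, .ofNat 128⟩, ⟨.negSucc 273, .ofNat 19, .negSucc 25, .negSucc 151, .ofNat 14, .ofNat 9⟩, .ofNat 166, .ofNat 20, .ofNat 0, .ofNat 20, .ofNat 236, .ofNat 0, .ofNat 176, .negSucc 31, .negSucc 105, .ofNat 0, .ofNat 128, .ofNat 41, .ofNat 0, .ofNat 0, .ofNat 525, .ofNat 118817, .ofNat 74031812682829624182053894825561423415837429071872, .ofNat 0, .ofNat 0, .ofNat 0, .ofNat 0, .ofNat 0, .ofNat 0, .ofNat 0, .ofNat 0, .ofNat 0, .ofNat 0, .ofNat 0, .ofNat 70883218229516471198051086939113507511072735625216,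 .ofNat 0, .ofNat 72506604560193100736659590689881384566623567872, .ofNat 0⟩)
    (by decide +kernel)
theorem L00985 : Good (Phi V5.P V5.D (-1) (-1)) ⟨2, 2, 2, 0, 2, 1, 3, 2, 5, 11⟩ :=
  leafX_sound T5.ok_mm T5.Ymm.bz_eq (w := 213) (c := ⟨⟨.negSucc 1815, .negSucc 531, .ofNat 37, .ofNat 135, .ofNat 112, .ofNat 74⟩, ⟨.ofNat 89, .ofNat 371, .ofNat 321, .negSucc 40, .negSucc 48, .negSucc 31⟩, ⟨.ofNat 2386, .ofNat 496, .negSucc 138, .negSucc 620, .negSucc 305, .negSucc 10⟩, ⟨.negSucc 3868, .negSucc 108, .ofNat 13, .ofNat 158, .ofNat 202, .ofNat 202⟩, ⟨.negSucc 174, .ofNat 15, .negSucc 20, .negSucc 294, .ofNat 64, .ofNat 33⟩, .ofNat 169, .ofNat 16, .ofNat 0, .ofNat 16, .ofNat 241, .ofNat 0, .ofNat 128, .negSucc 26, .negSucc 77, .ofNat 0, .ofNat 130, .ofNat 29, .ofNat 0, .ofNat 0, .ofNat 461, .ofNat 114279, .ofNat 3889525966705586511354114418485652908670976, .ofNat 0, .ofNat 0, .ofNat 0, .ofNat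 3765898688894580131043187298452973071368192, .ofNat 0, .ofNat 1610468139078973661426521393152372244480, .ofNat 0, .ofNat 1378410086763464464152484909021900895682560, .ofNat 0, .ofNat 0, .ofNat 0, .ofNat 7934312548484606749473132941593785405538304, .ofNat 0, .ofNat 5766919496448021100026406147774818025472, .ofNat 0⟩)
    (by decide +kernel)
theorem L00986 : Good (Phi V5.P V5.D (-1) (-1)) ⟨2, 2, 2, 0, 2, 0, 3, 3, 5, 10⟩ :=
  leafX_sound T5.ok_mm T5.Ymm.bz_eq (w := 210) (c := ⟨⟨.negSucc 1601, .negSucc 579, .ofNat 4, .negSucc 28, .ofNat 76, .ofNat 76⟩, ⟨.ofNat 14, .ofNat 424, .ofNat 300, .negSucc 5, .negSucc 4, .negSucc 18⟩, ⟨.ofNat 1788, .ofNat 618, .negSucc 13, .negSucc 44, .negSucc 219, .negSucc 63⟩, ⟨.negSucc 3542, .negSucc 147, .ofNat 13, .negSucc 89, .ofNat 164, .ofNat 135⟩, ⟨.negSucc 10, .ofNat 17, .negSucc 4, .negSucc 146, .ofNat 8, .negSucc 1⟩, .ofNat 168, .ofNat 17, .ofNat 0, .ofNat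 17, .ofNat 239, .ofNat 0, .ofNat 142, .negSucc 20, .negSucc 50, .ofNat 0, .ofNat 128, .ofNat 9, .ofNat 0, .ofNat 0, .ofNat 243, .ofNat 16153, .ofNat 147955408183366759843378058509372945858560, .ofNat 0, .ofNat 88883356443307261717337183913712287744, .ofNat 0, .ofNat 0, .ofNat 0, .ofNat 0, .ofNat 0, .ofNat 0, .ofNat 0, .ofNat 0, .ofNat 0, .ofNat 103865809747118130879154554524483671031808, .ofNat 0, .ofNat 2250624027768250722628880416066821423104, .ofNat 0⟩)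
    (by decide +kernel)
theorem L00987 : Good (Phi V5.P V5.D (-1) (-1)) ⟨2, 2, 2, 0, 2, 0, 4, 6, 5, 11⟩ :=
  out_sound (S := T5.ds_mm) T5.ok_mm (w := 28) (j := 1) (by decide +kernel)
theorem L00988 : Good (Phi V5.P V5.D (-1) (-1)) ⟨2, 2, 2, 0, 2, 0, 5, 14, 5, 11⟩ :=
  leafX_sound T5.ok_mm T5.Ymm.bz_eq (w := 221) (c := ⟨⟨.negSucc 1501, .negSucc 554, .ofNat 2, .negSucc 23, .ofNat 23, .ofNat 73⟩, ⟨.ofNat 5, .ofNat 391, .ofNat 298, .ofNat 0, .ofNat 5, .negSucc 47⟩, ⟨.ofNat 1687, .ofNat 593, .ofNat 0, .negSucc 89, .negSucc 78, .negSucc 23⟩, ⟨.negSucc 3329, .negSucc 122, .ofNat 1, .negSucc 76, .ofNat 43, .ofNat 150⟩, ⟨.negSucc 22, .ofNat 23, .negSucc 0, .negSucc 138, .ofNat 8, .negSucc 9⟩, .ofNat 169, .ofNat 16, .ofNat 0, .ofNat 16, .ofNat 240, .ofNat 0, .ofNat 128, .negSucc 32, .negSucc 56, .ofNat 0, .ofNat 212, .ofNat 12, .ofNat 0, .ofNat 0, .ofNat 297, .ofNat 132310, .ofNat 175216768900239802816630122358353201719148544,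 .ofNat 0, .ofNat 229900288071303675859921959409772759351296, .ofNat 0, .ofNat 185690204512817468947011772704542869113798656, .ofNat 0, .ofNat 0, .ofNat 0, .ofNat 284243310387737966042314762550929390449983488, .ofNat 0, .ofNat 3504510282224547374979352511871172416110592, .ofNat 0, .ofNat 85576463052551186320997334887197641956917248, .ofNat 0, .ofNat 0, .ofNat 0⟩)
    (by decide +kernel)
theorem L00989 : Good (Phi V5.P V5.D (-1) (-1)) ⟨2, 2, 2, 0, 2, 0, 5, 15, 5, 11⟩ :=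
  leafX_sound T5.ok_mm T5.Ymm.bz_eq (w := 220) (c := ⟨⟨.negSucc 1504, .negSucc 534, .negSucc 1, .negSucc 1, .ofNat 30, .ofNat 60⟩, ⟨.ofNat 14, .ofNat 397, .ofNat 288, .negSucc 16, .negSucc 0, .negSucc 10⟩, ⟨.ofNat 1603, .ofNat 555, .ofNat 14, .negSucc 59, .negSucc 78, .negSucc 23⟩, ⟨.negSucc 3318, .negSucc 107, .ofNat 1, .negSucc 45, .ofNat 42, .ofNat 143⟩, ⟨.negSucc 9, .ofNat 11, .negSucc 0, .negSucc 138, .ofNat 5, .negSucc 2⟩, .ofNat 170, .ofNat 15, .ofNat 0, .ofNat 15, .ofNat 242, .ofNat 0, .ofNat 128, .negSucc 20, .negSucc 49, .ofNat 0, .ofNat 147, .ofNat 8, .ofNat 0, .ofNat 0, .ofNat 271, .ofNat 57902, .ofNat 58014744078648512402422202642461807291138048, .ofNat 0, .ofNat 149784248659173841022831148901160590508032, .ofNat 0, .ofNat 43778133299974493883452524039709677169147904, .ofNat 0, .ofNat 16750605678922469097592549355559596326912, .ofNat 0, .ofNat 0, .ofNat 0, .ofNat 0, .ofNat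 0, .ofNat 0, .ofNat 0, .ofNat 0, .ofNat 0⟩)
    (by decide +kernel)
theorem L00990 : Good (Phi V5.P V5.D (-1) (-1)) ⟨3, 4, 2, 0, 2, 1, 4, 6, 5, 10⟩ :=
  leafX_sound T5.ok_mm T5.Ymm.bz_eq (w := 220) (c := ⟨⟨.negSucc 1664, .negSucc 259, .ofNat 32, .negSucc 3, .ofNat 43, .ofNat 86⟩, ⟨.ofNat 34, .ofNat 158, .ofNat 311, .negSucc 5, .negSucc 7, .negSucc 9⟩, ⟨.ofNat 1780, .ofNat 259, .negSucc 68, .negSucc 318, .negSucc 112, .negSucc 15⟩, ⟨.negSucc 3670, .negSucc 70, .ofNat 15, .negSucc 41, .ofNat 91, .ofNat 179⟩, ⟨.negSucc 187, .ofNat 17, .negSucc 10, .negSucc 236, .ofNat 25, .ofNat 17⟩, .ofNat 331, .ofNat 59, .ofNat 0, .ofNat 59, .ofNat 765, .ofNat 0, .ofNat 357, .negSucc 40, .negSucc 133, .ofNat 0, .ofNat 128, .ofNat 28, .ofNat 0, .ofNat 0, .ofNat 1084, .ofNat 60522, .ofNat 51595436726748170360926657849068204941377536, .ofNat 0, .ofNat 0, .ofNat 0, .ofNat 0, .ofNat 0, .ofNat 0, .ofNat 0,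 .ofNat 0, .ofNat 0, .ofNat 75428547643030808461510939813759477088256, .ofNat 0, .ofNat 0, .ofNat 0, .ofNat 0, .ofNat 0⟩)
    (by decide +kernel)
theorem L00991 : Good (Phi V5.P V5.D (-1) (-1)) ⟨3, 5, 2, 0, 2, 1, 4, 6, 5, 10⟩ :=
  leafX_sound T5.ok_mm T5.Ymm.bz_eq (w := 219) (c := ⟨⟨.negSucc 1967, .negSucc 334, .ofNat 40, .ofNat 24, .ofNat 54, .ofNat 120⟩, ⟨.ofNat 208, .ofNat 251, .ofNat 316, .negSucc 20, .negSucc 13, .negSucc 27⟩, ⟨.ofNat 2161, .ofNat 346, .negSucc 118, .negSucc 428, .negSucc 148, .negSucc 64⟩, ⟨.negSucc 3782, .negSucc 92, .ofNat 30, .negSucc 24, .ofNat 100, .ofNat 218⟩, ⟨.negSucc 156, .ofNat 14, .negSucc 15, .negSucc 243, .ofNat 20, .ofNat 11⟩, .ofNat 314, .ofNat 107, .ofNat 0, .ofNat 107, .ofNat 676, .ofNat 0, .ofNat 156, .negSucc 72, .negSucc 99, .ofNat 0, .ofNat 128, .ofNat 31, .ofNat 0, .ofNat 0, .ofNat 683, .ofNat 31293, .ofNat 56036480223077192977359027977176482815410176,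 .ofNat 0, .ofNat 936682307365149851293498407977157132288, .ofNat 0, .ofNat 0, .ofNat 0, .ofNat 30618162166983068708527251201124930158592, .ofNat 0, .ofNat 0, .ofNat 0, .ofNat 0, .ofNat 0, .ofNat 0, .ofNat 0, .ofNat 0, .ofNat 0⟩)
    (by decide +kernel)
theorem L00992 : Good (Phi V5.P V5.D (-1) (-1)) ⟨2, 2, 2, 0, 3, 2, 5, 12, 6, 22⟩ :=
  leafX_sound T5.ok_mm T5.Ymm.bz_eq (w := 250) (c := ⟨⟨.negSucc 1462, .negSucc 571, .ofNat 23, .negSucc 0, .negSucc 90, .ofNat 1⟩, ⟨.ofNat 1837, .ofNat 400, .ofNat 315, .ofNat 1, .negSucc 1841, .negSucc 0⟩, ⟨.ofNat 1570, .ofNat 597, .negSucc 73, .ofNat 1, .negSucc 15, .negSucc 0⟩, ⟨.negSucc 3482, .negSucc 139, .ofNat 13, .negSucc 1, .ofNat 4, .ofNat 2⟩, ⟨.negSucc 239, .ofNat 33, .negSucc 9, .ofNat 0, .negSucc 32, .ofNat 0⟩, .ofNat 170, .ofNat 15, .ofNat 0, .ofNat 15, .ofNat 242, .ofNat 0, .ofNat 173, .negSucc 20, .negSucc 76, .ofNat 0, .ofNat 128, .ofNat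 24, .ofNat 0, .ofNat 0, .ofNat 412, .ofNat 114239527, .ofNat 7504410715692863018711262236213728547874378306551808, .ofNat 0, .ofNat 0, .ofNat 0, .ofNat 156105124037250120831511513180401760863686206947328, .ofNat 0, .ofNat 0, .ofNat 0, .ofNat 884620427620249874509313173784094275732828946694144, .ofNat 0, .ofNat 9662000756429656973471127267431678710330163200, .ofNat 0, .ofNat 141936522236697582459870424684899193265077977350144, .ofNat 0, .ofNat 0, .ofNat 0⟩)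
    (by decide +kernel)
theorem L00993 : Good (Phi V5.P V5.D (-1) (-1)) ⟨2, 2, 2, 0, 3, 2, 5, 13, 6, 22⟩ :=
  leafX_sound T5.ok_mm T5.Ymm.bz_eq (w := 240) (c := ⟨⟨.negSucc 1556, .negSucc 552, .ofNat 22, .ofNat 2, .ofNat 15, .ofNat 45⟩, ⟨.ofNat 22, .ofNat 391, .ofNat 304, .negSucc 12, .negSucc 10, .negSucc 6⟩, ⟨.ofNat 1691, .ofNat 572, .negSucc 49, .negSucc 154, .negSucc 48, .negSucc 7⟩, ⟨.negSucc 3460, .negSucc 125, .ofNat 11, .negSucc 21, .ofNat 42, .ofNat 93⟩, ⟨.negSucc 173, .ofNat 31, .negSucc 6, .negSucc 100, .ofNat 12, .ofNat 6⟩, .ofNat 169, .ofNat 16, .ofNat 0, .ofNat 16, .ofNat 241, .ofNat 0, .ofNat 128, .negSucc 27, .negSucc 66, .ofNat 0, .ofNat 163, .ofNat 19, .ofNat 0, .ofNat 0, .ofNat 357, .ofNat 138295, .ofNat 5634075588547847996534817410748262871354230964224, .ofNat 0, .ofNat 80488943784775483604988184200966595943721861120, .ofNat 0, .ofNat 0, .ofNat 0, .ofNat 0, .ofNat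 0, .ofNat 0, .ofNat 0, .ofNat 0, .ofNat 0, .ofNat 6890140320089010795023467888727547544786685657088, .ofNat 0, .ofNat 721622189079875491061751830582985015652222238720, .ofNat 0⟩)
    (by decide +kernel)
theorem L00994 : Good (Phi V5.P V5.D (-1) (-1)) ⟨2, 2, 2, 0, 3, 2, 4, 6, 6, 23⟩ :=
  out_sound (S := T5.ds_mm) T5.ok_mm (w := 32) (j := 1) (by decide +kernel)
theorem L00995 : Good (Phi V5.P V5.D (-1) (-1)) ⟨2, 2, 2, 0, 4, 6, 5, 12, 6, 22⟩ :=
  leafX_sound T5.ok_mm T5.Ymm.bz_eq (w := 255) (c := ⟨⟨.negSucc 1598, .negSucc 555, .ofNat 26, .ofNat 12, .ofNat 33, .ofNat 51⟩, ⟨.ofNat 5, .ofNat 386, .ofNat 312, .ofNat 1, .negSucc 3, .negSucc 14⟩, ⟨.ofNat 1664, .ofNat 546, .negSucc 88, .negSucc 110, .negSucc 68, .negSucc 9⟩, ⟨.negSucc 3541, .negSucc 123, .ofNat 12, .ofNat 8, .ofNat 50, .ofNat 99⟩, ⟨.negSucc 282, .ofNat 27, .negSucc 12, .negSucc 62, .ofNat 16, .ofNat 12⟩, .ofNat 169, .ofNat 16,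 .ofNat 0, .ofNat 16, .ofNat 242, .ofNat 0, .ofNat 128, .negSucc 28, .negSucc 78, .ofNat 0, .ofNat 154, .ofNat 25, .ofNat 0, .ofNat 0, .ofNat 433, .ofNat 258043, .ofNat 51617812897671279547687639765989514584876190495932416, .ofNat 0, .ofNat 0, .ofNat 0, .ofNat 9437129211955435207257439148232097905205763903586304, .ofNat 0, .ofNat 1368015679886081796755821908245663204592921488654336, .ofNat 0, .ofNat 28236875608346709555166626457561342163606618503118848, .ofNat 0, .ofNat 6587601220885406900157650636149123556905739156979712, .ofNat 0, .ofNat 37726722687962717317261068562994566880293899298930688, .ofNat 0, .ofNat 15438791565701421327453109468402246584064095102697472, .ofNat 0⟩)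
    (by decide +kernel)
theorem L00996 : Good (Phi V5.P V5.D (-1) (-1)) ⟨2, 2, 2, 0, 4, 6, 5, 12, 6, 23⟩ :=
  out_sound (S := T5.ds_mm) T5.ok_mm (w := 35) (j := 1) (by decide +kernel)
theorem L00997 : Good (Phi V5.P V5.D (-1) (-1)) ⟨3, 4, 2, 0, 4, 6, 5, 13, 5, 11⟩ :=
  leafX_sound T5.ok_mm T5.Ymm.bz_eq (w := 254) (c := ⟨⟨.negSucc 1576, .negSucc 237, .ofNat 27, .ofNat 4, .ofNat 22, .ofNat 85⟩, ⟨.ofNat 27, .ofNat 149, .ofNat 300, .negSucc 3, .negSucc 1, .negSucc 8⟩, ⟨.ofNat 1585, .ofNat 221, .negSucc 51, .negSucc 83, .negSucc 64, .negSucc 9⟩, ⟨.negSucc 3491, .negSucc 43, .ofNat 7, .ofNat 2, .ofNat 45, .ofNat 177⟩, ⟨.negSucc 273, .ofNat 12, .negSucc 6, .negSucc 54, .ofNat 13, .ofNat 21⟩, .ofNat 173, .ofNat 10, .ofNat 0, .ofNat 10, .ofNat 247, .ofNat 0, .ofNat 203, .negSucc 15, .negSucc 100, .ofNat 0, .ofNat 128, .ofNat 28, .ofNat 0, .ofNat 0, .ofNat 603, .ofNat 225558, .ofNat 51958396974161602081767824102845758240096050093228032,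 .ofNat 0, .ofNat 0, .ofNat 0, .ofNat 67679100526481578653707572240630808004545483051630592, .ofNat 0, .ofNat 588829017708353514765016906834490351094484434944, .ofNat 0, .ofNat 35555169497582892064454864780107928593642589062692864, .ofNat 0, .ofNat 0, .ofNat 0, .ofNat 74673771483677731446399326554909900755045958144753664, .ofNat 0, .ofNat 236392623491569567073568200194157572196935774765056, .ofNat 0⟩)
    (by decide +kernel)
theorem L00998 : Good (Phi V5.P V5.D (-1) (-1)) ⟨3, 5, 2, 0, 4, 6, 5, 13, 5, 11⟩ :=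
  leafX_sound T5.ok_mm T5.Ymm.bz_eq (w := 253) (c := ⟨⟨.negSucc 1834, .negSucc 297, .ofNat 33, .ofNat 18, .ofNat 24, .ofNat 109⟩, ⟨.ofNat 183, .ofNat 227, .ofNat 302, .negSucc 8, .negSucc 2, .negSucc 24⟩, ⟨.ofNat 1865, .ofNat 293, .negSucc 94, .negSucc 126, .negSucc 74, .negSucc 43⟩, ⟨.negSucc 3558, .negSucc 60, .ofNat 15, .ofNat 16, .ofNat 50, .ofNat 204⟩, ⟨.negSucc 255, .ofNat 16, .negSucc 12, .negSucc 58, .ofNat 12, .ofNat 17⟩, .ofNat 166, .ofNat 19, .ofNat 0, .ofNat 19, .ofNat 236, .ofNat 0, .ofNat 223, .negSucc 27, .negSucc 139, .ofNat 0, .ofNat 128, .ofNat 44, .ofNat 0, .ofNat 0, .ofNat 761, .ofNat 154631, .ofNat 70308742457881825953389442604365026924445826954559488, .ofNat 0, .ofNat 21555767382038001081902431994041843821006337081344, .ofNat 0, .ofNat 0, .ofNat 0, .ofNat 0, .ofNat 0, .ofNat 0, .ofNat 0, .ofNat 0, .ofNat 0, .ofNat 0, .ofNat 0, .ofNat 0, .ofNat 0⟩)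
    (by decide +kernel)
theorem L00999 : Good (Phi V5.P V5.D (-1) (-1)) ⟨3, 4, 2, 0, 4, 7, 4, 6, 5, 11⟩ :=
  leafX_sound T5.ok_mm T5.Ymm.bz_eq (w := 249) (c := ⟨⟨.negSucc 1598, .negSucc 227, .ofNat 32, .ofNat 17, .ofNat 42, .ofNat 86⟩, ⟨.ofNat 30, .ofNat 146, .ofNat 298, .negSucc 4, .negSucc 5, .negSucc 10⟩, ⟨.ofNat 1584, .ofNat 192, .negSucc 67, .negSucc 116, .negSucc 128, .negSucc 13⟩, ⟨.negSucc 3540, .negSucc 29, .ofNat 5, .ofNat 27, .ofNat 89, .ofNat 183⟩, ⟨.negSucc 345, .ofNat 7, .negSucc 12, .negSucc 54, .ofNat 33, .ofNat 27⟩, .ofNat 331, .ofNat 61, .ofNat 0, .ofNat 61, .ofNat 767, .ofNat 0, .ofNat 199, .negSucc 43, .negSucc 52, .ofNat 0, .ofNat 128, .ofNat 12, .ofNat 0, .ofNat 0, .ofNat 573, .ofNat 130405, .ofNat 3902204047278037838615068199637700174463589383405568, .ofNat 0, .ofNat 0, .ofNat 0, .ofNat 0, .ofNat 0, .ofNat 0, .ofNat 0, .ofNat 7029539596697931727926808359576587217064450588672000,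 .ofNat 0, .ofNat 7139194427395188760705586753363651056682189979648, .ofNat 0, .ofNat 0, .ofNat 0, .ofNat 13789075332358182417263011651304161788349644800000, .ofNat 0⟩)
    (by decide +kernel)
theorem L01000 : Good (Phi V5.P V5.D (-1) (-1)) ⟨4, 10, 2, 0, 4, 7, 4, 6, 5, 11⟩ :=
  leafX_sound T5.ok_mm T5.Ymm.bz_eq (w := 253) (c := ⟨⟨.negSucc 1854, .negSucc 135, .ofNat 37, .ofNat 29, .ofNat 52, .ofNat 108⟩, ⟨.ofNat 189, .ofNat 99, .ofNat 302, .negSucc 7, .negSucc 10, .negSucc 22⟩, ⟨.ofNat 1854, .ofNat 118, .negSucc 114, .negSucc 155, .negSucc 159, .negSucc 47⟩, ⟨.negSucc 3602, .negSucc 23, .ofNat 11, .ofNat 39, .ofNat 103, .ofNat 210⟩, ⟨.negSucc 332, .ofNat 5, .negSucc 17, .negSucc 61, .ofNat 34, .ofNat 26⟩, .ofNat 167, .ofNat 17, .ofNat 0, .ofNat 17, .ofNat 240, .ofNat 0, .ofNat 251, .negSucc 26, .negSucc 117, .ofNat 0, .ofNat 128, .ofNat 38, .ofNat 0, .ofNat 0, .ofNat 726, .ofNat 140316,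 .ofNat 118661292380503489103189786541748166607979516583215104, .ofNat 0, .ofNat 1444466956210578865168018051845768505513281060864, .ofNat 0, .ofNat 0, .ofNat 0, .ofNat 0, .ofNat 0, .ofNat 29173409143528312234266163504995374237537194918019072, .ofNat 0, .ofNat 0, .ofNat 0, .ofNat 0, .ofNat 0, .ofNat 0, .ofNat 0⟩)
    (by decide +kernel)
theorem L01001 : Good (Phi V5.P V5.D (-1) (-1)) ⟨4, 11, 2, 0, 4, 7, 4, 6, 5, 11⟩ :=
  leafX_sound T5.ok_mm T5.Ymm.bz_eq (w := 253) (c := ⟨⟨.negSucc 2007, .negSucc 143, .ofNat 38, .ofNat 38, .ofNat 57, .ofNat 123⟩, ⟨.ofNat 297, .ofNat 118, .ofNat 303, .negSucc 15, .negSucc 10, .negSucc 34⟩, ⟨.ofNat 2022, .ofNat 118, .negSucc 131, .negSucc 183, .negSucc 176, .negSucc 71⟩, ⟨.negSucc 3642, .negSucc 17, .ofNat 14, .ofNat 46, .ofNat 110, .ofNat 223⟩, ⟨.negSucc 323, .ofNat 5, .negSucc 18, .negSucc 65, .ofNat 32, .ofNat 26⟩, .ofNat 164, .ofNat 23, .ofNat 0, .ofNat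 23, .ofNat 232, .ofNat 0, .ofNat 178, .negSucc 34, .negSucc 77, .ofNat 0, .ofNat 128, .ofNat 27, .ofNat 0, .ofNat 0, .ofNat 462, .ofNat 97611, .ofNat 102659326508311433598750803022794326797003926915776512, .ofNat 0, .ofNat 69979119560800377659410436612131416307033702400, .ofNat 0, .ofNat 0, .ofNat 0, .ofNat 0, .ofNat 0, .ofNat 0, .ofNat 0, .ofNat 0, .ofNat 0, .ofNat 0, .ofNat 0, .ofNat 5224361999568796218074556572892657051244137807872, .ofNat 0⟩)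
    (by decide +kernel)
theorem L01002 : Good (Phi V5.P V5.D (-1) (-1)) ⟨2, 2, 2, 0, 3, 2, 4, 7, 5, 10⟩ :=
  leafX_sound T5.ok_mm T5.Ymm.bz_eq (w := 228) (c := ⟨⟨.negSucc 1609, .negSucc 585, .ofNat 17, .negSucc 5, .ofNat 55, .ofNat 89⟩, ⟨.ofNat 13, .ofNat 410, .ofNat 307, .ofNat 0, .negSucc 7, .negSucc 22⟩, ⟨.ofNat 1642, .ofNat 601, .negSucc 40, .negSucc 138, .negSucc 129, .negSucc 29⟩, ⟨.negSucc 3564, .negSucc 159, .ofNat 9, .negSucc 39, .ofNat 103, .ofNat 168⟩, ⟨.negSucc 175, .ofNat 36, .negSucc 4, .negSucc 96, .ofNat 16, .ofNat 10⟩, .ofNat 170, .ofNat 16, .ofNat 0, .ofNat 16, .ofNat 242, .ofNat 0, .ofNat 133, .negSucc 20, .negSucc 60, .ofNat 0, .ofNat 128, .ofNat 16, .ofNat 0, .ofNat 0, .ofNat 278, .ofNat 17342, .ofNat 0, .ofNat 0, .ofNat 0, .ofNat 0, .ofNat 0, .ofNat 0, .ofNat 758593580261217106775904161838133717302771712, .ofNat 0, .ofNat 0, .ofNat 0, .ofNat 0, .ofNat 0, .ofNat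 0, .ofNat 0, .ofNat 1413985403607938376820407706035138907609235456, .ofNat 0⟩)
    (by decide +kernel)
theorem L01003 : Good (Phi V5.P V5.D (-1) (-1)) ⟨3, 4, 2, 0, 3, 2, 4, 7, 5, 11⟩ :=
  leafX_sound T5.ok_mm T5.Ymm.bz_eq (w := 235) (c := ⟨⟨.negSucc 1551, .negSucc 231, .ofNat 18, .ofNat 1, .ofNat 45, .ofNat 65⟩, ⟨.ofNat 37, .ofNat 145, .ofNat 288, .negSucc 4, .negSucc 9, .negSucc 5⟩, ⟨.ofNat 1620, .ofNat 226, .negSucc 11, .negSucc 109, .negSucc 124, .negSucc 5⟩, ⟨.negSucc 3422, .negSucc 37, .ofNat 4, .negSucc 17, .ofNat 89, .ofNat 147⟩, ⟨.negSucc 171, .ofNat 12, .negSucc 1, .negSucc 82, .ofNat 16, .ofNat 14⟩, .ofNat 331, .ofNat 65, .ofNat 0, .ofNat 65, .ofNat 771, .ofNat 0, .ofNat 206, .negSucc 43, .negSucc 78, .ofNat 0, .ofNat 128, .ofNat 14, .ofNat 0, .ofNat 0, .ofNat 728, .ofNat 142972, .ofNat 885265490214442329017442147947611197388298911744, .ofNat 0, .ofNat 0, .ofNat 0, .ofNat 0,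 .ofNat 0, .ofNat 0, .ofNat 0, .ofNat 228168332461403923806975332106283416794139983872, .ofNat 0, .ofNat 741400629854843305059449454561012581369118720, .ofNat 0, .ofNat 0, .ofNat 0, .ofNat 0, .ofNat 0⟩)
    (by decide +kernel)
theorem L01004 : Good (Phi V5.P V5.D (-1) (-1)) ⟨3, 5, 2, 0, 3, 2, 4, 7, 5, 11⟩ :=
  leafX_sound T5.ok_mm T5.Ymm.bz_eq (w := 234) (c := ⟨⟨.negSucc 1805, .negSucc 290, .ofNat 18, .ofNat 7, .ofNat 49, .ofNat 100⟩, ⟨.ofNat 187, .ofNat 230, .ofNat 292, .negSucc 4, .negSucc 9, .negSucc 21⟩, ⟨.ofNat 1912, .ofNat 282, .negSucc 32, .negSucc 154, .negSucc 136, .negSucc 59⟩, ⟨.negSucc 3490, .negSucc 49, .ofNat 6, .negSucc 6, .ofNat 97, .ofNat 183⟩, ⟨.negSucc 156, .ofNat 15, .negSucc 5, .negSucc 84, .ofNat 20, .ofNat 9⟩, .ofNat 166, .ofNat 21, .ofNat 0, .ofNat 21, .ofNat 236, .ofNat 0, .ofNat 209, .negSucc 27, .negSucc 108, .ofNat 0, .ofNat 128, .ofNat 29, .ofNat 0, .ofNat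 0, .ofNat 574, .ofNat 71355, .ofNat 871676898182863214646072367072100635415429513216, .ofNat 0, .ofNat 23927356816922967771056196597448386642182144, .ofNat 0, .ofNat 0, .ofNat 0, .ofNat 0, .ofNat 0, .ofNat 512968237162628749850159788471344698060108201984, .ofNat 0, .ofNat 0, .ofNat 0, .ofNat 0, .ofNat 0, .ofNat 1355343063056224319649459104341417411112599552, .ofNat 0⟩)
    (by decide +kernel)
theorem L01005 : Good (Phi V5.P V5.D (-1) (-1)) ⟨3, 4, 2, 0, 3, 3, 4, 7, 4, 5⟩ :=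
  leafX_sound T5.ok_mm T5.Ymm.bz_eq (w := 228) (c := ⟨⟨.negSucc 1644, .negSucc 238, .ofNat 30, .ofNat 19, .ofNat 50, .ofNat 171⟩, ⟨.ofNat 38, .ofNat 150, .ofNat 299, .negSucc 9, .negSucc 6, .negSucc 20⟩, ⟨.ofNat 1563, .ofNat 204, .negSucc 53, .negSucc 204, .negSucc 121, .negSucc 48⟩, ⟨.negSucc 3634, .negSucc 42, .ofNat 9, .ofNat 24, .ofNat 105, .ofNat 360⟩, ⟨.negSucc 288, .ofNat 10, .negSucc 7, .negSucc 101, .ofNat 35, .ofNat 49⟩, .ofNat 330, .ofNat 59, .ofNat 0, .ofNat 59, .ofNat 763, .ofNat 0, .ofNat 279, .negSucc 41, .negSucc 69, .ofNat 0, .ofNat 128, .ofNat 14, .ofNat 0, .ofNat 0, .ofNat 617, .ofNat 29036, .ofNat 11790458217494910009160485541677411605835415552, .ofNat 0, .ofNat 0, .ofNat 0, .ofNat 0, .ofNat 0, .ofNat 0, .ofNat 0, .ofNat 0, .ofNat 0, .ofNat 0, .ofNat 0, .ofNat 0, .ofNat 0, .ofNat 32133719575744558696276741722277061213552640, .ofNat 0⟩)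
    (by decide +kernel)
theorem L01006 : Good (Phi V5.P V5.D (-1) (-1)) ⟨3, 5, 2, 0, 3, 3, 4, 7, 5, 10⟩ :=
  leafX_sound T5.ok_mm T5.Ymm.bz_eq (w := 233) (c := ⟨⟨.negSucc 1920, .negSucc 317, .ofNat 28, .ofNat 39, .ofNat 60, .ofNat 122⟩, ⟨.ofNat 194, .ofNat 239, .ofNat 318, .negSucc 14, .negSucc 11, .negSucc 29⟩, ⟨.ofNat 1850, .ofNat 293, .negSucc 82, .negSucc 283, .negSucc 156, .negSucc 59⟩, ⟨.negSucc 3718, .negSucc 76, .ofNat 9, .ofNat 33, .ofNat 119, .ofNat 224⟩, ⟨.negSucc 261, .ofNat 22, .negSucc 22, .negSucc 116, .ofNat 37, .ofNat 20⟩, .ofNat 314, .ofNat 111, .ofNat 0, .ofNat 111, .ofNat 674, .ofNat 0, .ofNat 201, .negSucc 76, .negSucc 104, .ofNat 0, .ofNat 128, .ofNat 32, .ofNat 0, .ofNat 0, .ofNat 703, .ofNat 31952, .ofNat 0, .ofNat 0, .ofNat 0, .ofNat 0, .ofNat 0, .ofNat 0, .ofNat 1711209569532690282832248168165229999649980416, .ofNat 0, .ofNat 0, .ofNat 0, .ofNat 0, .ofNat 0,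 .ofNat 0, .ofNat 0, .ofNat 0, .ofNat 0⟩)
    (by decide +kernel)
theorem L01007 : Good (Phi V5.P V5.D (-1) (-1)) ⟨3, 5, 2, 0, 3, 3, 4, 7, 5, 11⟩ :=
  leafX_sound T5.ok_mm T5.Ymm.bz_eq (w := 233) (c := ⟨⟨.negSucc 1817, .negSucc 270, .ofNat 32, .ofNat 48, .ofNat 55, .ofNat 98⟩, ⟨.ofNat 188, .ofNat 211, .ofNat 292, .negSucc 16, .negSucc 9, .negSucc 21⟩, ⟨.ofNat 1823, .ofNat 222, .negSucc 80, .negSucc 296, .negSucc 161, .negSucc 43⟩, ⟨.negSucc 3520, .negSucc 31, .ofNat 13, .ofNat 63, .ofNat 109, .ofNat 186⟩, ⟨.negSucc 250, .ofNat 6, .negSucc 10, .negSucc 96, .ofNat 29, .ofNat 22⟩, .ofNat 317, .ofNat 111, .ofNat 0, .ofNat 111, .ofNat 699, .ofNat 0, .ofNat 211, .negSucc 75, .negSucc 102, .ofNat 0, .ofNat 128, .ofNat 29, .ofNat 0, .ofNat 0, .ofNat 910, .ofNat 32755, .ofNat 388180389866020295694945348180712861834095362048, .ofNat 0, .ofNat 18105603618684142873280672537826814442078208, .ofNat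 0, .ofNat 0, .ofNat 0, .ofNat 0, .ofNat 0, .ofNat 0, .ofNat 0, .ofNat 0, .ofNat 0, .ofNat 0, .ofNat 0, .ofNat 0, .ofNat 0⟩)
    (by decide +kernel)
theorem L01008 : Good (Phi V5.P V5.D (-1) (-1)) ⟨2, 2, 2, 0, 1, 0, 2, 0, 3, 3⟩ :=
  out_sound (S := T5.ds_mm) T5.ok_mm (w := 20) (j := 1) (by decide +kernel)
theorem L01009 : Good (Phi V5.P V5.D (-1) (-1)) ⟨2, 2, 2, 0, 2, 0, 2, 1, 4, 6⟩ :=
  out_sound (S := T5.ds_mm) T5.ok_mm (w := 24) (j := 1) (by decide +kernel)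
theorem L01010 : Good (Phi V5.P V5.D (-1) (-1)) ⟨2, 2, 2, 0, 2, 1, 3, 2, 4, 6⟩ :=
  out_sound (S := T5.ds_mm) T5.ok_mm (w := 25) (j := 1) (by decide +kernel)
theorem L01011 : Good (Phi V5.P V5.D (-1) (-1)) ⟨3, 4, 2, 0, 2, 1, 3, 3, 4, 6⟩ :=
  leafX_sound T5.ok_mm T5.Ymm.bz_eq (w := 212) (c := ⟨⟨.negSucc 1547, .negSucc 197, .ofNat 15, .ofNat 50, .ofNat 74, .ofNat 151⟩, ⟨.ofNat 46, .ofNat 137, .ofNat 277, .negSucc 15, .negSucc 11, .negSucc 12⟩, ⟨.ofNat 1850, .ofNat 131, .negSucc 1, .negSucc 394, .negSucc 245, .negSucc 30⟩, ⟨.negSucc 3420, .ofNat 2, .negSucc 7, .ofNat 81, .ofNat 175, .ofNat 324⟩, ⟨.negSucc 235, .ofNat 7, .negSucc 8, .negSucc 144, .ofNat 93, .ofNat 62⟩, .ofNat 331, .ofNat 58, .ofNat 0, .ofNat 58, .ofNat 764, .ofNat 0, .ofNat 297, .negSucc 39, .negSucc 90, .ofNat 0, .ofNat 128, .ofNat 14, .ofNat 0, .ofNat 0, .ofNat 1285, .ofNat 129890, .ofNat 6822416215720774595735985408400374762569728,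 .ofNat 0, .ofNat 65856205879094873643909060302773157888, .ofNat 0, .ofNat 15666201160623601441558648913531144130002944, .ofNat 0, .ofNat 0, .ofNat 0, .ofNat 11028421595376929767313096718831138937765888, .ofNat 0, .ofNat 0, .ofNat 0, .ofNat 29946719987363832346886580931494585546309632, .ofNat 0, .ofNat 0, .ofNat 0⟩)
    (by decide +kernel)
theorem L01012 : Good (Phi V5.P V5.D (-1) (-1)) ⟨3, 5, 2, 0, 2, 1, 3, 3, 4, 6⟩ :=
  leafX_sound T5.ok_mm T5.Ymm.bz_eq (w := 211) (c := ⟨⟨.negSucc 1810, .negSucc 244, .ofNat 20, .ofNat 95, .ofNat 99, .ofNat 206⟩, ⟨.ofNat 201, .ofNat 201, .ofNat 277, .negSucc 29, .negSucc 18, .negSucc 45⟩, ⟨.ofNat 2235, .ofNat 178, .negSucc 46, .negSucc 577, .negSucc 351, .negSucc 181⟩, ⟨.negSucc 3501, .negSucc 8, .ofNat 0, .ofNat 137, .ofNat 207, .ofNat 387⟩, ⟨.negSucc 227, .ofNat 9, .negSucc 11, .negSucc 151, .ofNat 97, .ofNat 64⟩, .ofNat 166, .ofNat 20, .ofNat 0, .ofNat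 20, .ofNat 236, .ofNat 0, .ofNat 248, .negSucc 28, .negSucc 141, .ofNat 0, .ofNat 128, .ofNat 32, .ofNat 0, .ofNat 0, .ofNat 1110, .ofNat 49727, .ofNat 5325284585001774475739180043417967115894784, .ofNat 0, .ofNat 52960091592813594240104673433782059008, .ofNat 0, .ofNat 8182485609200742534902342796031565215301632, .ofNat 0, .ofNat 137496089915483726412738854569677684736, .ofNat 0, .ofNat 4571858628093079692570086174464114320998400, .ofNat 0, .ofNat 0, .ofNat 0, .ofNat 16512631960006325067433265715574712987287552, .ofNat 0, .ofNat 0, .ofNat 0⟩)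
    (by decide +kernel)
theorem L01013 : Good (Phi V5.P V5.D (-1) (-1)) ⟨2, 2, 2, 0, 1, 0, 2, 1, 4, 7⟩ :=
  out_sound (S := T5.ds_mm) T5.ok_mm (w := 22) (j := 1) (by decide +kernel)
theorem L01014 : Good (Phi V5.P V5.D (-1) (-1)) ⟨2, 3, 3, 0, 1, 0, 1, 0, 3, 0⟩ :=
  out_sound (S := T5.ds_mm) T5.ok_mm (w := 39) (j := 3) (by decide +kernel)
theorem L01015 : Good (Phi V5.P V5.D (-1) (-1)) ⟨3, 6, 3, 1, 2, 0, 3, 0, 4, 0⟩ :=
  leafX_sound T5.ok_mm T5.Ymm.bz_eq (w := 209) (c := ⟨⟨.ofNat 1544, .ofNat 540, .ofNat 56, .ofNat 45, .ofNat 246, .negSucc 3559⟩, ⟨.negSucc 498, .negSucc 365, .negSucc 57, .negSucc 79, .negSucc 84, .ofNat 1275⟩, ⟨.negSucc 1515, .negSucc 585, .negSucc 51, .ofNat 21, .negSucc 348, .ofNat 3529⟩, ⟨.ofNat 2572, .ofNat 586, .ofNat 73, .negSucc 222, .ofNat 437, .negSucc 5791⟩, ⟨.ofNat 26, .negSucc 58, .negSucc 9, .negSucc 882, .ofNat 78, .ofNat 103⟩, .ofNat 437, .ofNat 293, .ofNat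 0, .ofNat 293, .ofNat 910, .ofNat 0, .ofNat 153, .negSucc 107, .negSucc 333, .ofNat 0, .ofNat 128, .ofNat 124, .ofNat 0, .ofNat 0, .ofNat 532, .ofNat 2797, .ofNat 0, .ofNat 0, .ofNat 0, .ofNat 0, .ofNat 0, .ofNat 0, .ofNat 34625807929824846946515448147094798336, .ofNat 0, .ofNat 5158469271852073076263106845265953552334848, .ofNat 0, .ofNat 607261908640701262744851632696208654336, .ofNat 0, .ofNat 687705518547669644947318750366767631040512, .ofNat 0, .ofNat 188874561845377415857874150891028742144, .ofNat 0⟩)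
    (by decide +kernel)
theorem L01016 : Good (Phi V5.P V5.D (-1) (-1)) ⟨3, 6, 3, 1, 2, 1, 3, 0, 4, 0⟩ :=
  leafX_sound T5.ok_mm T5.Ymm.bz_eq (w := 209) (c := ⟨⟨.ofNat 1603, .ofNat 756, .negSucc 44, .ofNat 1301, .ofNat 188, .negSucc 3460⟩, ⟨.negSucc 645, .negSucc 770, .ofNat 90, .negSucc 639, .negSucc 30, .ofNat 1227⟩, ⟨.negSucc 1192, .negSucc 434, .negSucc 70, .negSucc 332, .negSucc 376, .ofNat 2490⟩, ⟨.ofNat 2426, .ofNat 525, .negSucc 133, .ofNat 1466, .ofNat 421, .negSucc 5652⟩, ⟨.negSucc 969, .negSucc 436, .ofNat 23, .negSucc 1852, .ofNat 349, .ofNat 252⟩, .ofNat 437, .ofNat 293, .ofNat 0, .ofNat 293, .ofNat 910, .ofNat 0, .ofNat 141, .negSucc 127, .negSucc 179, .ofNat 0, .ofNat 117, .ofNat 75, .ofNat 0, .ofNat 0, .ofNat 284, .ofNat 2200, .ofNat 0, .ofNat 0, .ofNat 1232123752111831975839102025794060288, .ofNat 0, .ofNat 232841035811680111465688153057434332561408, .ofNat 0, .ofNat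 124469721530422909996998939098575011840, .ofNat 0, .ofNat 0, .ofNat 0, .ofNat 182501105192073624344286675465964355584, .ofNat 0, .ofNat 0, .ofNat 0, .ofNat 85126362449968503014228197652169752576, .ofNat 0⟩)
    (by decide +kernel)
theorem L01017 : Good (Phi V5.P V5.D (-1) (-1)) ⟨3, 6, 3, 1, 1, 0, 3, 1, 4, 0⟩ :=
  leafX_sound T5.ok_mm T5.Ymm.bz_eq (w := 194) (c := ⟨⟨.ofNat 1821, .ofNat 64, .ofNat 0, .ofNat 987, .negSucc 86, .negSucc 3850⟩, ⟨.negSucc 669, .negSucc 257, .ofNat 53, .negSucc 522, .ofNat 54, .ofNat 1388⟩, ⟨.negSucc 1578, .ofNat 143, .negSucc 171, .negSucc 766, .negSucc 73, .ofNat 3406⟩, ⟨.ofNat 3020, .negSucc 168, .ofNat 56, .ofNat 877, .negSucc 81, .negSucc 6317⟩, ⟨.negSucc 65, .ofNat 162, .ofNat 83, .negSucc 2174, .ofNat 243, .ofNat 215⟩, .ofNat 437, .ofNat 293, .ofNat 0, .ofNat 293, .ofNat 910, .ofNat 0, .ofNat 171, .negSucc 116, .negSucc 308, .ofNat 0, .ofNat 128, .ofNat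 120, .ofNat 0, .ofNat 0, .ofNat 431, .ofNat 806, .ofNat 0, .ofNat 0, .ofNat 0, .ofNat 0, .ofNat 0, .ofNat 0, .ofNat 0, .ofNat 0, .ofNat 0, .ofNat 0, .ofNat 16511883269684694432390975963791360, .ofNat 0, .ofNat 0, .ofNat 0, .ofNat 16524233612941010887720438555738112, .ofNat 0⟩)
    (by decide +kernel)
theorem L01018 : Good (Phi V5.P V5.D (-1) (-1)) ⟨3, 7, 3, 1, 1, 0, 2, 0, 4, 0⟩ :=
  out_sound (S := T5.ds_mm) T5.ok_mm (w := 45) (j := 3) (by decide +kernel)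
theorem L01019 : Good (Phi V5.P V5.D (-1) (-1)) ⟨2, 3, 3, 1, 1, 0, 2, 1, 4, 0⟩ :=
  leafX_sound T5.ok_mm T5.Ymm.bz_eq (w := 187) (c := ⟨⟨.ofNat 1851, .ofNat 2422, .negSucc 18, .ofNat 1021, .negSucc 806, .negSucc 4110⟩, ⟨.negSucc 663, .negSucc 1237, .negSucc 3, .negSucc 514, .ofNat 344, .ofNat 1494⟩, ⟨.negSucc 1784, .ofNat 33, .ofNat 45, .negSucc 785, .ofNat 450, .ofNat 3598⟩, ⟨.ofNat 3014, .ofNat 2894, .negSucc 66, .ofNat 1164, .negSucc 1221, .negSucc 6590⟩, ⟨.negSucc 104, .negSucc 2550, .ofNat 90, .negSucc 1261, .ofNat 166, .ofNat 205⟩, .ofNat 620, .ofNat 668, .ofNat 0, .ofNat 668, .ofNat 2012, .ofNat 0, .ofNat 128, .negSucc 175, .negSucc 401, .ofNat 0, .ofNat 135, .ofNat 145, .ofNat 0, .ofNat 0, .ofNat 560, .ofNat 246, .ofNat 0, .ofNat 0, .ofNat 110393166711497445771067919433728, .ofNat 0, .ofNat 0, .ofNat 0, .ofNat 2403571137275692116396456970027008, .ofNat 0, .ofNat 0, .ofNat 0,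 .ofNat 8474431229052238112103607306289152, .ofNat 0, .ofNat 0, .ofNat 0, .ofNat 7581979118524063904388349129916416, .ofNat 0⟩)
    (by decide +kernel)
theorem L01020 : Good (Phi V5.P V5.D (-1) (-1)) ⟨3, 6, 3, 1, 1, 0, 2, 0, 4, 1⟩ :=
  leafX_sound T5.ok_mm T5.Ymm.bz_eq (w := 190) (c := ⟨⟨.negSucc 1408, .negSucc 83, .ofNat 45, .ofNat 212, .negSucc 302, .negSucc 1543⟩, ⟨.ofNat 280, .ofNat 24, .ofNat 209, .negSucc 233, .ofNat 153, .ofNat 596⟩, ⟨.ofNat 1703, .ofNat 91, .negSucc 6, .negSucc 1177, .ofNat 111, .ofNat 1550⟩, ⟨.negSucc 2461, .ofNat 67, .ofNat 77, .negSucc 244, .negSucc 354, .negSucc 2336⟩, ⟨.negSucc 378, .negSucc 867, .ofNat 76, .negSucc 1643, .ofNat 495, .ofNat 566⟩, .ofNat 437, .ofNat 293, .ofNat 0, .ofNat 293, .ofNat 910, .ofNat 0, .ofNat 156, .negSucc 116, .negSucc 184, .ofNat 0, .ofNat 128, .ofNat 77, .ofNat 0, .ofNat 0, .ofNat 357, .ofNat 948, .ofNat 20067653848277130620371723065459998720,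 .ofNat 0, .ofNat 7228421758640942092951159308288, .ofNat 0, .ofNat 0, .ofNat 0, .ofNat 112732014146295315923221310603264, .ofNat 0, .ofNat 0, .ofNat 0, .ofNat 582547581123615906521323740856320, .ofNat 0, .ofNat 7071301484093989598896400822865756160, .ofNat 0, .ofNat 159604940847020451762454457745408, .ofNat 0⟩)
    (by decide +kernel)
theorem L01021 : Good (Phi V5.P V5.D (-1) (-1)) ⟨3, 6, 3, 1, 1, 0, 2, 1, 4, 1⟩ :=
  leafX_sound T5.ok_mm T5.Ymm.bz_eq (w := 190) (c := ⟨⟨.negSucc 1776, .negSucc 467, .negSucc 95, .negSucc 380, .negSucc 58, .negSucc 890⟩, ⟨.ofNat 429, .ofNat 377, .ofNat 241, .ofNat 65, .ofNat 35, .ofNat 322⟩, ⟨.ofNat 1803, .ofNat 376, .ofNat 82, .negSucc 612, .ofNat 56, .ofNat 992⟩, ⟨.negSucc 2973, .negSucc 302, .negSucc 157, .negSucc 878, .negSucc 69, .negSucc 1422⟩, ⟨.negSucc 316, .negSucc 273, .ofNat 142, .negSucc 755, .ofNat 192, .ofNat 290⟩, .ofNat 437, .ofNat 293,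 .ofNat 0, .ofNat 293, .ofNat 910, .ofNat 0, .ofNat 189, .negSucc 113, .negSucc 239, .ofNat 0, .ofNat 128, .ofNat 97, .ofNat 0, .ofNat 0, .ofNat 401, .ofNat 544, .ofNat 0, .ofNat 0, .ofNat 0, .ofNat 0, .ofNat 0, .ofNat 0, .ofNat 0, .ofNat 0, .ofNat 0, .ofNat 0, .ofNat 501312698164757469436955160739840, .ofNat 0, .ofNat 0, .ofNat 0, .ofNat 264002761520224558904239896657920, .ofNat 0⟩)
    (by decide +kernel)
theorem L01022 : Good (Phi V5.P V5.D (-1) (-1)) ⟨3, 7, 3, 1, 1, 0, 1, 0, 4, 1⟩ :=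
  out_sound (S := T5.ds_mm) T5.ok_mm (w := 45) (j := 3) (by decide +kernel)
theorem L01023 : Good (Phi V5.P V5.D (-1) (-1)) ⟨3, 6, 2, 0, 1, 0, 2, 0, 3, 1⟩ :=
  leafX_sound T5.ok_mm T5.Ymm.bz_eq (w := 183) (c := ⟨⟨.negSucc 2788, .negSucc 514, .negSucc 28, .negSucc 487, .negSucc 17, .ofNat 384⟩, ⟨.ofNat 559, .ofNat 432, .ofNat 428, .ofNat 125, .ofNat 25, .negSucc 126⟩, ⟨.ofNat 2981, .ofNat 279, .ofNat 58, .negSucc 382, .negSucc 144, .ofNat 128⟩, ⟨.negSucc 4688, .negSucc 201, .negSucc 60, .negSucc 973, .ofNat 39, .ofNat 657⟩, ⟨.negSucc 214, .negSucc 86, .ofNat 33, .negSucc 501, .ofNat 192, .ofNat 97⟩, .ofNat 627, .ofNat 682, .ofNat 0, .ofNat 682, .ofNat 2033, .ofNat 0, .ofNat 178, .negSucc 127, .negSucc 124, .ofNat 0, .ofNat 99, .ofNat 49, .ofNat 0, .ofNat 0, .ofNat 451, .ofNat 1208, .ofNat 0, .ofNat 0, .ofNat 411212754178774495690447912960, .ofNat 0, .ofNat 0, .ofNat 0, .ofNat 16197232153170941969840866328576,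 .ofNat 0, .ofNat 0, .ofNat 0, .ofNat 19794058979020286078785513586688, .ofNat 0, .ofNat 0, .ofNat 0, .ofNat 6762648224068217695456022495232, .ofNat 0⟩)
    (by decide +kernel)
theorem L01024 : Good (Phi V5.P V5.D (-1) (-1)) ⟨3, 6, 2, 0, 1, 0, 2, 1, 3, 1⟩ :=
  leafX_sound T5.ok_mm T5.Ymm.bz_eq (w := 183) (c := ⟨⟨.negSucc 3185, .negSucc 689, .ofNat 172, .negSucc 386, .ofNat 224, .ofNat 608⟩, ⟨.ofNat 732, .ofNat 502, .ofNat 340, .ofNat 86, .negSucc 71, .negSucc 204⟩, ⟨.ofNat 3202, .ofNat 648, .negSucc 93, .negSucc 383, .negSucc 389, .negSucc 312⟩, ⟨.negSucc 5216, .negSucc 487, .ofNat 228, .negSucc 769, .ofNat 373, .ofNat 970⟩, ⟨.ofNat 124, .negSucc 65, .negSucc 68, .negSucc 417, .ofNat 21, .negSucc 56⟩, .ofNat 628, .ofNat 686, .ofNat 0, .ofNat 686, .ofNat 2045, .ofNat 0, .ofNat 128, .negSucc 137, .negSucc 146, .ofNat 0, .ofNat 106, .ofNat 56, .ofNat 0, .ofNat 0, .ofNat 463, .ofNat 510,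 .ofNat 0, .ofNat 0, .ofNat 104174935316558844701679026176, .ofNat 0, .ofNat 0, .ofNat 0, .ofNat 17555338923206662891909003870208, .ofNat 0, .ofNat 0, .ofNat 0, .ofNat 21143455954647136035969437794304, .ofNat 0, .ofNat 0, .ofNat 0, .ofNat 2940182090875324826494376607744, .ofNat 0⟩)
    (by decide +kernel)
theorem L01025 : Good (Phi V5.P V5.D (-1) (-1)) ⟨3, 7, 2, 0, 1, 0, 1, 0, 3, 1⟩ :=
  out_sound (S := T5.ds_mm) T5.ok_mm (w := 43) (j := 3) (by decide +kernel)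
theorem L01026 : Good (Phi V5.P V5.D (-1) (-1)) ⟨4, 12, 2, 0, 1, 0, 2, 0, 4, 4⟩ :=
  leafX_sound T5.ok_mm T5.Ymm.bz_eq (w := 193) (c := ⟨⟨.negSucc 2623, .negSucc 272, .ofNat 60, .negSucc 347, .ofNat 96, .ofNat 481⟩, ⟨.ofNat 487, .ofNat 209, .ofNat 405, .ofNat 79, .negSucc 1, .negSucc 176⟩, ⟨.ofNat 3233, .ofNat 292, .negSucc 199, .negSucc 352, .negSucc 169, .negSucc 294⟩, ⟨.negSucc 4364, .negSucc 124, .ofNat 41, .negSucc 748, .ofNat 236, .ofNat 758⟩, ⟨.negSucc 153, .ofNat 28, .negSucc 14, .negSucc 518, .ofNat 238, .negSucc 50⟩, .ofNat 476, .ofNat 385, .ofNat 0, .ofNat 385, .ofNat 1268, .ofNat 0, .ofNat 247, .negSucc 127, .negSucc 376, .ofNat 0, .ofNat 114, .ofNat 159, .ofNat 0, .ofNat 0, .ofNat 1809, .ofNat 4228, .ofNat 53464357938022766956538056295556579328, .ofNat 0, .ofNat 3178969411829029480105987014656, .ofNat 0, .ofNat 0, .ofNat 0, .ofNat 260238114062488007748544536510464, .ofNat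 0, .ofNat 1709915608208594409084228395135158714368, .ofNat 0, .ofNat 475704873432778157789405415211008, .ofNat 0, .ofNat 0, .ofNat 0, .ofNat 0, .ofNat 0⟩)
    (by decide +kernel)
theorem L01027 : Good (Phi V5.P V5.D (-1) (-1)) ⟨4, 12, 2, 0, 1, 0, 2, 0, 4, 5⟩ :=
  out_sound (S := T5.ds_mm) T5.ok_mm (w := 22) (j := 1) (by decide +kernel)
theorem L01028 : Good (Phi V5.P V5.D (-1) (-1)) ⟨4, 12, 2, 0, 1, 0, 2, 1, 4, 4⟩ :=
  leafX_sound T5.ok_mm T5.Ymm.bz_eq (w := 194) (c := ⟨⟨.negSucc 2625, .negSucc 239, .ofNat 52, .negSucc 111, .ofNat 226, .ofNat 283⟩, ⟨.ofNat 586, .ofNat 189, .ofNat 331, .ofNat 4, .negSucc 75, .negSucc 100⟩, ⟨.ofNat 3100, .ofNat 216, .negSucc 131, .negSucc 482, .negSucc 547, .negSucc 223⟩, ⟨.negSucc 4323, .negSucc 104, .ofNat 44, .negSucc 324, .ofNat 383, .ofNat 461⟩, ⟨.ofNat 26, .ofNat 0, .negSucc 35, .negSucc 397, .ofNat 41, .ofNat 3⟩, .ofNat 474, .ofNat 382, .ofNat 0,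 .ofNat 382, .ofNat 1256, .ofNat 0, .ofNat 223, .negSucc 127, .negSucc 144, .ofNat 0, .ofNat 119, .ofNat 56, .ofNat 0, .ofNat 0, .ofNat 755, .ofNat 5076, .ofNat 50992606356987097118715364210741608448, .ofNat 0, .ofNat 1910543945264686707534009991168, .ofNat 0, .ofNat 0, .ofNat 0, .ofNat 452324317445911313181371692744704, .ofNat 0, .ofNat 0, .ofNat 0, .ofNat 687412774340631047974195581419520, .ofNat 0, .ofNat 0, .ofNat 0, .ofNat 0, .ofNat 0⟩)
    (by decide +kernel)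
theorem L01029 : Good (Phi V5.P V5.D (-1) (-1)) ⟨4, 12, 2, 0, 2, 0, 2, 1, 5, 10⟩ :=
  leafX_sound T5.ok_mm T5.Ymm.bz_eq (w := 216) (c := ⟨⟨.negSucc 2336, .negSucc 192, .ofNat 15, .negSucc 32, .ofNat 205, .ofNat 97⟩, ⟨.ofNat 522, .ofNat 170, .ofNat 301, .negSucc 0, .negSucc 71, .negSucc 32⟩, ⟨.ofNat 2691, .ofNat 192, .ofNat 7, .negSucc 20, .negSucc 529, .negSucc 66⟩, ⟨.negSucc 3876, .negSucc 52, .ofNat 18, .negSucc 95, .ofNat 338, .ofNat 157⟩, ⟨.negSucc 8, .ofNat 4, .ofNat 0, .negSucc 122, .ofNat 11, .negSucc 2⟩, .ofNat 423, .ofNat 260, .ofNat 0, .ofNat 260, .ofNat 969, .ofNat 0, .ofNat 215, .negSucc 99, .negSucc 88, .ofNat 0, .ofNat 128, .ofNat 31, .ofNat 0, .ofNat 0, .ofNat 655, .ofNat 51705, .ofNat 26365774949444164021975482319387684316905472, .ofNat 0, .ofNat 24283127932938977322937787419692367872, .ofNat 0, .ofNat 95782121328797527922818312918920046705639424, .ofNat 0, .ofNat 261600296824094078382123506751827345408,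 .ofNat 0, .ofNat 44910434890919412089425338806355286210641920, .ofNat 0, .ofNat 589255076335156698798682495078887325696, .ofNat 0, .ofNat 69250074547718797142459323892921237908750336, .ofNat 0, .ofNat 256714735704600444150710598614143467520, .ofNat 0⟩)
    (by decide +kernel)
theorem L01030 : Good (Phi V5.P V5.D (-1) (-1)) ⟨4, 12, 2, 0, 2, 0, 2, 1, 5, 11⟩ :=
  leafX_sound T5.ok_mm T5.Ymm.bz_eq (w := 218) (c := ⟨⟨.negSucc 2253, .negSucc 179, .ofNat 9, .negSucc 0, .ofNat 205, .ofNat 101⟩, ⟨.ofNat 503, .ofNat 163, .ofNat 287, .negSucc 10, .negSucc 64, .negSucc 35⟩, ⟨.ofNat 2668, .ofNat 182, .negSucc 12, .negSucc 39, .negSucc 545, .negSucc 76⟩, ⟨.negSucc 3737, .negSucc 43, .ofNat 2, .negSucc 45, .ofNat 342, .ofNat 164⟩, ⟨.negSucc 18, .ofNat 4, .ofNat 1, .negSucc 123, .ofNat 18, .negSucc 1⟩, .ofNat 301, .ofNat 113, .ofNat 0, .ofNat 113, .ofNat 538, .ofNat 0, .ofNat 351, .negSucc 68, .negSucc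 138, .ofNat 0, .ofNat 128, .ofNat 44, .ofNat 0, .ofNat 0, .ofNat 1122, .ofNat 227636, .ofNat 229008038650882971471338712671282681582977024, .ofNat 0, .ofNat 0, .ofNat 0, .ofNat 560825629233182642207380788699477359336620032, .ofNat 0, .ofNat 245196859351088551610413802140794355712, .ofNat 0, .ofNat 123580092566224131273168200042762634514137088, .ofNat 0, .ofNat 381052112287936018907275600438713384960, .ofNat 0, .ofNat 303008739762687937196628743641199708651651072, .ofNat 0, .ofNat 731069318581546293030163907570625937408, .ofNat 0⟩)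
    (by decide +kernel)
theorem L01031 : Good (Phi V5.P V5.D (-1) (-1)) ⟨4, 12, 2, 0, 2, 1, 4, 4, 5, 10⟩ :=
  leafX_sound T5.ok_mm T5.Ymm.bz_eq (w := 226) (c := ⟨⟨.negSucc 2585, .negSucc 211, .ofNat 74, .ofNat 150, .ofNat 58, .ofNat 187⟩, ⟨.ofNat 551, .ofNat 163, .ofNat 344, .negSucc 90, .negSucc 17, .negSucc 63⟩, ⟨.ofNat 3242, .ofNat 219, .negSucc 255, .negSucc 755, .negSucc 169, .negSucc 93⟩, ⟨.negSucc 4242, .negSucc 74, .ofNat 46, .ofNat 95, .ofNat 103, .ofNat 309⟩, ⟨.negSucc 27, .ofNat 14, .negSucc 41, .negSucc 422, .ofNat 25, .ofNat 15⟩, .ofNat 314, .ofNat 144, .ofNat 0, .ofNat 144, .ofNat 613, .ofNat 0, .ofNat 128, .negSucc 99, .negSucc 87, .ofNat 0, .ofNat 131, .ofNat 40, .ofNat 0, .ofNat 0, .ofNat 521, .ofNat 211015, .ofNat 13528018066851068381190424490754139422338318336, .ofNat 0, .ofNat 2500420542306983183120426306468120100864, .ofNat 0, .ofNat 15777972561150543768579079779978643744965525504,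 .ofNat 0, .ofNat 22335973843078503294965637529567578030080, .ofNat 0, .ofNat 21750381527510780763322187713008360231983382528, .ofNat 0, .ofNat 7583096918333208640206428219941679267840, .ofNat 0, .ofNat 36635684809422823606367491112801548297526312960, .ofNat 0, .ofNat 36985471453393642545996778212213781430272, .ofNat 0⟩)
    (by decide +kernel)
theorem L01032 : Good (Phi V5.P V5.D (-1) (-1)) ⟨4, 12, 2, 0, 2, 1, 4, 5, 5, 10⟩ :=
  leafX_sound T5.ok_mm T5.Ymm.bz_eq (w := 224) (c := ⟨⟨.negSucc 2422, .negSucc 195, .ofNat 58, .ofNat 47, .ofNat 62, .ofNat 168⟩, ⟨.ofNat 509, .ofNat 161, .ofNat 325, .negSucc 42, .negSucc 20, .negSucc 58⟩, ⟨.ofNat 2839, .ofNat 203, .negSucc 196, .negSucc 544, .negSucc 171, .negSucc 98⟩, ⟨.negSucc 4018, .negSucc 54, .ofNat 39, .negSucc 30, .ofNat 109, .ofNat 277⟩, ⟨.negSucc 117, .ofNat 8, .negSucc 33, .negSucc 301, .ofNat 30, .ofNat 13⟩, .ofNat 474, .ofNat 380,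 .ofNat 0, .ofNat 380, .ofNat 1261, .ofNat 0, .ofNat 135, .negSucc 127, .negSucc 99, .ofNat 0, .ofNat 116, .ofNat 42, .ofNat 0, .ofNat 0, .ofNat 671, .ofNat 54256, .ofNat 2638795570039261898716037008793336174889402368, .ofNat 0, .ofNat 7048371585195335127861675164975950200832, .ofNat 0, .ofNat 2187803197125431973990086879194743460742561792, .ofNat 0, .ofNat 58326948541132933693509913182081818558464, .ofNat 0, .ofNat 0, .ofNat 0, .ofNat 41857250252104397989163725079004984639488, .ofNat 0, .ofNat 3152484786839808781913873114161994004346961920, .ofNat 0, .ofNat 75542737968874453343272119850782825644032, .ofNat 0⟩)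
    (by decide +kernel)
theorem L01033 : Good (Phi V5.P V5.D (-1) (-1)) ⟨4, 12, 2, 0, 2, 1, 3, 2, 5, 11⟩ :=
  leafX_sound T5.ok_mm T5.Ymm.bz_eq (w := 223) (c := ⟨⟨.negSucc 2449, .negSucc 170, .ofNat 51, .ofNat 193, .ofNat 125, .ofNat 156⟩, ⟨.ofNat 533, .ofNat 139, .ofNat 318, .negSucc 98, .negSucc 40, .negSucc 51⟩, ⟨.ofNat 3208, .ofNat 156, .negSucc 189, .negSucc 843, .negSucc 365, .negSucc 95⟩, ⟨.negSucc 4042, .negSucc 36, .ofNat 23, .ofNat 194, .ofNat 217, .ofNat 266⟩, ⟨.negSucc 103, .ofNat 6, .negSucc 27, .negSucc 339, .ofNat 58, .ofNat 24⟩, .ofNat 314, .ofNat 144, .ofNat 0, .ofNat 144, .ofNat 615, .ofNat 0, .ofNat 128, .negSucc 125, .negSucc 94, .ofNat 0, .ofNat 170, .ofNat 41, .ofNat 0, .ofNat 0, .ofNat 720, .ofNat 262758, .ofNat 3004964918446882949757976291210711603863355392, .ofNat 0, .ofNat 486939387030474842642017238538218635264, .ofNat 0, .ofNat 2150234087531977367108485229084237639085719552,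 .ofNat 0, .ofNat 1596281018442047841336046720655623716864, .ofNat 0, .ofNat 2079310194247032561410114898080511289817300992, .ofNat 0, .ofNat 0, .ofNat 0, .ofNat 6214416893937422976601614753722445495453876224, .ofNat 0, .ofNat 5758504436316139963937396018121290022912, .ofNat 0⟩)
    (by decide +kernel)

end Crest.Agent.R097C5.N5mm
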