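import Crest.Agent.R097.KP7
import Crest.Agent.R097.T5Ymm

/-!
# Row 97, box cover in dimension n = 5 (generated)
-/

set_option autoImplicit false
set_option Elab.async false
set_option maxHeartbeats 0
set_option maxRecDepth 100000

open Crest.Agent.R097 Crest.Agent.R097.KA


namespace Crest.Agent.R097C5.N5mm

theorem L01034 : Good (Phi V5.P V5.D (-1) (-1)) ⟨4, 12, 2, 0, 2, 1, 4, 6, 5, 10⟩ :=
  leafX_sound T5.ok_mm T5.Ymm.bz_eq (w := 224) (c := ⟨⟨.negSucc 2339, .negSucc 183, .ofNat 41, .ofNat 48, .ofNat 57, .ofNat 152⟩, ⟨.ofNat 492, .ofNat 153, .ofNat 317, .negSucc 40, .negSucc 16, .negSucc 53⟩, ⟨.ofNat 2587, .ofNat 177, .negSucc 127, .negSucc 519, .negSucc 151, .negSucc 97⟩, ⟨.negSucc 3898, .negSucc 52, .ofNat 32, .negSucc 12, .ofNat 99, .ofNat 249⟩, ⟨.negSucc 124, .negSucc 5, .negSucc 9, .negSucc 263, .ofNat 14, .ofNat 4⟩, .ofNat 473, .ofNat 379, .ofNat 0, .ofNat 379, .ofNat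 1265, .ofNat 0, .ofNat 201, .negSucc 127, .negSucc 122, .ofNat 0, .ofNat 117, .ofNat 49, .ofNat 0, .ofNat 0, .ofNat 824, .ofNat 45887, .ofNat 1853331823835189028143273493257049457647681536, .ofNat 0, .ofNat 2969117809955762939401286778893119782912, .ofNat 0, .ofNat 0, .ofNat 0, .ofNat 51141486939176720438607889635483072856064, .ofNat 0, .ofNat 0, .ofNat 0, .ofNat 186197223521424496840642394468665501155328, .ofNat 0, .ofNat 0, .ofNat 0, .ofNat 52426413703805164049877504359055491072000, .ofNat 0⟩)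
    (by decide +kernel)
theorem L01035 : Good (Phi V5.P V5.D (-1) (-1)) ⟨4, 12, 2, 0, 3, 2, 4, 6, 5, 11⟩ :=
  leafX_sound T5.ok_mm T5.Ymm.bz_eq (w := 242) (c := ⟨⟨.negSucc 2201, .negSucc 181, .ofNat 33, .ofNat 19, .ofNat 63, .ofNat 127⟩, ⟨.ofNat 457, .ofNat 158, .ofNat 303, .negSucc 15, .negSucc 20, .negSucc 43⟩, ⟨.ofNat 2491, .ofNat 190, .negSucc 95, .negSucc 217, .negSucc 171, .negSucc 60⟩, ⟨.negSucc 3675, .negSucc 42, .ofNat 20, .negSucc 7, .ofNat 107, .ofNat 211⟩, ⟨.negSucc 134, .ofNat 11, .negSucc 10, .negSucc 106, .ofNat 16, .ofNat 5⟩, .ofNat 315, .ofNat 145, .ofNat 0, .ofNat 145, .ofNat 617, .ofNat 0, .ofNat 206, .negSucc 90, .negSucc 136, .ofNat 0, .ofNat 128, .ofNat 53, .ofNat 0, .ofNat 0, .ofNat 944, .ofNat 568030, .ofNat 181434476470438753264539767386554970904296324857856, .ofNat 0, .ofNat 9506829131458705676275713088910736882663424, .ofNat 0, .ofNat 71574857627894926664633621900750459050355431833600,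 .ofNat 0, .ofNat 341992994819282508082748046678771885496336384, .ofNat 0, .ofNat 42816735057758749440180568507522587814294057910272, .ofNat 0, .ofNat 1308946036786958625137073309570656762872201216, .ofNat 0, .ofNat 306213086908503476736057926224822945235190029484032, .ofNat 0, .ofNat 2932989779696909474218446673051564574957895680, .ofNat 0⟩)
    (by decide +kernel)
theorem L01036 : Good (Phi V5.P V5.D (-1) (-1)) ⟨4, 12, 2, 0, 3, 3, 4, 6, 5, 11⟩ :=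
  leafX_sound T5.ok_mm T5.Ymm.bz_eq (w := 239) (c := ⟨⟨.negSucc 2206, .negSucc 151, .ofNat 38, .ofNat 81, .ofNat 64, .ofNat 141⟩, ⟨.ofNat 447, .ofNat 134, .ofNat 303, .negSucc 40, .negSucc 15, .negSucc 46⟩, ⟨.ofNat 2358, .ofNat 109, .negSucc 124, .negSucc 397, .negSucc 184, .negSucc 101⟩, ⟨.negSucc 3706, .negSucc 13, .ofNat 10, .ofNat 84, .ofNat 115, .ofNat 236⟩, ⟨.negSucc 243, .ofNat 8, .negSucc 26, .negSucc 133, .ofNat 32, .ofNat 21⟩, .ofNat 474, .ofNat 381, .ofNat 0, .ofNat 381, .ofNat 1266, .ofNat 0, .ofNat 142, .negSucc 127, .negSucc 78, .ofNat 0, .ofNat 116, .ofNat 32, .ofNat 0, .ofNat 0, .ofNat 696, .ofNat 115337, .ofNat 38114241434345588639225023476670516716343497064448, .ofNat 0, .ofNat 94338026964809699045140380532226844444852224, .ofNat 0, .ofNat 15278017404049689513285193952975082488217095634944, .ofNat 0, .ofNat 907125399475967918231390661971990293547843584,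 .ofNat 0, .ofNat 0, .ofNat 0, .ofNat 3962385096477643439677048960082426904287641600, .ofNat 0, .ofNat 21468064749436761253913442653410453097825773289472, .ofNat 0, .ofNat 919692715475979954322414385470694216593047552, .ofNat 0⟩)
    (by decide +kernel)
theorem L01037 : Good (Phi V5.P V5.D (-1) (-1)) ⟨4, 12, 2, 0, 2, 1, 4, 7, 5, 10⟩ :=
  leafX_sound T5.ok_mm T5.Ymm.bz_eq (w := 224) (c := ⟨⟨.negSucc 2272, .negSucc 187, .ofNat 39, .ofNat 49, .ofNat 65, .ofNat 135⟩, ⟨.ofNat 476, .ofNat 162, .ofNat 307, .negSucc 38, .negSucc 19, .negSucc 46⟩, ⟨.ofNat 2416, .ofNat 187, .negSucc 113, .negSucc 509, .negSucc 156, .negSucc 88⟩, ⟨.negSucc 3782, .negSucc 46, .ofNat 23, .negSucc 1, .ofNat 111, .ofNat 223⟩, ⟨.negSucc 114, .ofNat 13, .negSucc 18, .negSucc 230, .ofNat 19, .ofNat 2⟩, .ofNat 314, .ofNat 145, .ofNat 0, .ofNat 145, .ofNat 612, .ofNat 0, .ofNat 430, .negSucc 91, .negSucc 200,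 .ofNat 0, .ofNat 128, .ofNat 77, .ofNat 0, .ofNat 0, .ofNat 1189, .ofNat 36545, .ofNat 0, .ofNat 0, .ofNat 0, .ofNat 0, .ofNat 0, .ofNat 0, .ofNat 0, .ofNat 0, .ofNat 0, .ofNat 0, .ofNat 86455373322616794977846529230045339189248, .ofNat 0, .ofNat 0, .ofNat 0, .ofNat 428975580955797692085417804256743205634048, .ofNat 0⟩)
    (by decide +kernel)
theorem L01038 : Good (Phi V5.P V5.D (-1) (-1)) ⟨4, 12, 2, 0, 2, 1, 4, 7, 5, 11⟩ :=
  leafX_sound T5.ok_mm T5.Ymm.bz_eq (w := 225) (c := ⟨⟨.negSucc 2160, .negSucc 166, .ofNat 38, .ofNat 101, .ofNat 61, .ofNat 125⟩, ⟨.ofNat 457, .ofNat 148, .ofNat 287, .negSucc 53, .negSucc 18, .negSucc 43⟩, ⟨.ofNat 2378, .ofNat 164, .negSucc 115, .negSucc 599, .negSucc 162, .negSucc 89⟩, ⟨.negSucc 3610, .negSucc 30, .ofNat 30, .ofNat 92, .ofNat 110, .ofNat 207⟩, ⟨.negSucc 142, .ofNat 15, .negSucc 16, .negSucc 192, .ofNat 36, .ofNat 13⟩, .ofNat 315,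 .ofNat 147, .ofNat 0, .ofNat 147, .ofNat 613, .ofNat 0, .ofNat 278, .negSucc 91, .negSucc 203, .ofNat 0, .ofNat 128, .ofNat 75, .ofNat 0, .ofNat 0, .ofNat 1557, .ofNat 65074, .ofNat 4075244728746955466128728129622613405707796480, .ofNat 0, .ofNat 9586754929781032164256263876656739909632, .ofNat 0, .ofNat 0, .ofNat 0, .ofNat 51969377382206758083207371424517899419648, .ofNat 0, .ofNat 0, .ofNat 0, .ofNat 133243948934573597972613083518549599715328, .ofNat 0, .ofNat 0, .ofNat 0, .ofNat 698361335993262209264106376744296207351808, .ofNat 0⟩)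
    (by decide +kernel)
theorem L01039 : Good (Phi V5.P V5.D (-1) (-1)) ⟨4, 12, 2, 0, 1, 0, 2, 0, 3, 3⟩ :=
  out_sound (S := T5.ds_mm) T5.ok_mm (w := 20) (j := 1) (by decide +kernel)
theorem L01040 : Good (Phi V5.P V5.D (-1) (-1)) ⟨4, 12, 2, 0, 1, 0, 2, 1, 4, 6⟩ :=
  leafX_sound T5.ok_mm T5.Ymm.bz_eq (w := 197) (c := ⟨⟨.negSucc 2376, .negSucc 135, .ofNat 27, .ofNat 285, .ofNat 229, .ofNat 240⟩, ⟨.ofNat 544, .ofNat 125, .ofNat 273, .negSucc 124, .negSucc 60, .negSucc 77⟩, ⟨.ofNat 3660, .ofNat 89, .negSucc 84, .negSucc 1468, .negSucc 709, .negSucc 282⟩, ⟨.negSucc 3954, .negSucc 3, .ofNat 7, .ofNat 356, .ofNat 437, .ofNat 411⟩, ⟨.negSucc 141, .ofNat 4, .negSucc 14, .negSucc 324, .ofNat 194, .ofNat 61⟩, .ofNat 472, .ofNat 377, .ofNat 0, .ofNat 377, .ofNat 1268, .ofNat 0, .ofNat 128, .negSucc 161, .negSucc 96, .ofNat 0, .ofNat 150, .ofNat 34, .ofNat 0, .ofNat 0, .ofNat 1265, .ofNat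 27447, .ofNat 1959961878823947628160069315512265342976, .ofNat 0, .ofNat 13975765888850021315317199798272, .ofNat 0, .ofNat 2573293584107168885650451667023239839744, .ofNat 0, .ofNat 227085701814208212884402563186688, .ofNat 0, .ofNat 3800952438166730279727399288287453511680, .ofNat 0, .ofNat 0, .ofNat 0, .ofNat 23382418134388608791846303409041615880192, .ofNat 0, .ofNat 320076637854919712427249005232128, .ofNat 0⟩)
    (by decide +kernel)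
theorem L01041 : Good (Phi V5.P V5.D (-1) (-1)) ⟨4, 12, 2, 0, 1, 0, 2, 1, 4, 7⟩ :=
  out_sound (S := T5.ds_mm) T5.ok_mm (w := 22) (j := 1) (by decide +kernel)
theorem L01042 : Good (Phi V5.P V5.D (-1) (-1)) ⟨4, 13, 2, 0, 1, 0, 1, 0, 2, 1⟩ :=
  out_sound (S := T5.ds_mm) T5.ok_mm (w := 49) (j := 3) (by decide +kernel)
theorem L01043 : Good (Phi V5.P V5.D (-1) (-1)) ⟨3, 7, 2, 0, 1, 0, 1, 0, 2, 1⟩ :=
  out_sound (S := T5.ds_mm) T5.ok_mm (w := 43) (j := 3) (by decide +kernel)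
theorem L01044 : Good (Phi V5.P V5.D (-1) (-1)) ⟨1, 1, 2, 0, 1, 0, 1, 0, 1, 1⟩ :=
  out_sound (S := T5.ds_mm) T5.ok_mm (w := 15) (j := 1) (by decide +kernel)
theorem L01045 : Good (Phi V5.P V5.D (-1) (-1)) ⟨2, 2, 2, 0, 1, 0, 2, 2, 5, 0⟩ :=
  leafX_sound T5.ok_mm T5.Ymm.bz_eq (w := 187) (c := ⟨⟨.ofNat 214, .negSucc 288, .ofNat 122, .ofNat 895, .negSucc 923, .negSucc 1124⟩, ⟨.negSucc 124, .ofNat 19, .ofNat 116, .negSucc 195, .ofNat 212, .ofNat 235⟩, ⟨.negSucc 224, .ofNat 254, .negSucc 213, .negSucc 1106, .ofNat 825, .ofNat 1036⟩, ⟨.ofNat 488, .negSucc 469, .ofNat 98, .ofNat 1560, .negSucc 1871, .negSucc 2193⟩, ⟨.ofNat 127, .negSucc 16, .ofNat 1, .negSucc 796, .negSucc 105, .negSucc 62⟩, .ofNat 319, .ofNat 89, .ofNat 0, .ofNat 89, .ofNat 705, .ofNat 0, .ofNat 140, .negSucc 57, .negSucc 456, .ofNat 0, .ofNat 128, .ofNat 78, .ofNat 0, .ofNat 0, .ofNat 587, .ofNat 139, .ofNat 0,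 .ofNat 0, .ofNat 0, .ofNat 0, .ofNat 0, .ofNat 0, .ofNat 0, .ofNat 0, .ofNat 0, .ofNat 0, .ofNat 0, .ofNat 0, .ofNat 0, .ofNat 0, .ofNat 0, .ofNat 0⟩)
    (by decide +kernel)
theorem L01046 : Good (Phi V5.P V5.D (-1) (-1)) ⟨2, 2, 2, 0, 1, 0, 2, 2, 5, 1⟩ :=
  leafX_sound T5.ok_mm T5.Ymm.bz_eq (w := 187) (c := ⟨⟨.negSucc 748, .negSucc 1014, .ofNat 198, .ofNat 436, .negSucc 241, .negSucc 581⟩, ⟨.negSucc 69, .ofNat 403, .ofNat 196, .negSucc 126, .ofNat 51, .ofNat 130⟩, ⟨.ofNat 744, .ofNat 893, .negSucc 188, .negSucc 993, .ofNat 240, .ofNat 564⟩, ⟨.negSucc 1680, .negSucc 1248, .ofNat 289, .ofNat 782, .negSucc 527, .negSucc 1176⟩, ⟨.ofNat 105, .negSucc 105, .ofNat 4, .negSucc 676, .ofNat 3, .negSucc 87⟩, .ofNat 321, .ofNat 93, .ofNat 0, .ofNat 93, .ofNat 713, .ofNat 0, .ofNat 237, .negSucc 61, .negSucc 323, .ofNat 0, .ofNat 128, .ofNat 60, .ofNat 0, .ofNat 0, .ofNat 470, .ofNat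 420, .ofNat 0, .ofNat 0, .ofNat 0, .ofNat 0, .ofNat 0, .ofNat 0, .ofNat 0, .ofNat 0, .ofNat 0, .ofNat 0, .ofNat 0, .ofNat 0, .ofNat 0, .ofNat 0, .ofNat 11722664433296149529622281078177792, .ofNat 0⟩)
    (by decide +kernel)
theorem L01047 : Good (Phi V5.P V5.D (-1) (-1)) ⟨2, 2, 2, 0, 1, 0, 2, 2, 4, 1⟩ :=
  leafX_sound T5.ok_mm T5.Ymm.bz_eq (w := 183) (c := ⟨⟨.negSucc 1237, .negSucc 1164, .ofNat 100, .negSucc 176, .ofNat 149, .negSucc 333⟩, ⟨.negSucc 67, .ofNat 539, .ofNat 329, .ofNat 24, .negSucc 34, .ofNat 66⟩, ⟨.ofNat 1243, .ofNat 1064, .negSucc 91, .negSucc 510, .negSucc 134, .ofNat 327⟩, ⟨.negSucc 2807, .negSucc 1241, .ofNat 194, .negSucc 393, .ofNat 286, .negSucc 667⟩, ⟨.negSucc 57, .ofNat 38, .negSucc 24, .negSucc 594, .ofNat 90, .ofNat 110⟩, .ofNat 324, .ofNat 90, .ofNat 0, .ofNat 90, .ofNat 728, .ofNat 0, .ofNat 321, .negSucc 60, .negSucc 329, .ofNat 0, .ofNat 128,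 .ofNat 63, .ofNat 0, .ofNat 0, .ofNat 615, .ofNat 661, .ofNat 0, .ofNat 0, .ofNat 0, .ofNat 0, .ofNat 0, .ofNat 0, .ofNat 0, .ofNat 0, .ofNat 0, .ofNat 0, .ofNat 0, .ofNat 0, .ofNat 0, .ofNat 0, .ofNat 0, .ofNat 0⟩)
    (by decide +kernel)
theorem L01048 : Good (Phi V5.P V5.D (-1) (-1)) ⟨2, 2, 2, 0, 1, 0, 3, 6, 4, 0⟩ :=
  leafX_sound T5.ok_mm T5.Ymm.bz_eq (w := 186) (c := ⟨⟨.negSucc 586, .negSucc 1130, .ofNat 76, .ofNat 316, .ofNat 110, .negSucc 749⟩, ⟨.negSucc 82, .ofNat 383, .ofNat 231, .negSucc 73, .negSucc 17, .ofNat 133⟩, ⟨.ofNat 609, .ofNat 944, .negSucc 69, .negSucc 702, .negSucc 111, .ofNat 610⟩, ⟨.negSucc 1368, .negSucc 1622, .ofNat 157, .ofNat 655, .ofNat 118, .negSucc 1554⟩, ⟨.negSucc 85, .ofNat 7, .ofNat 32, .negSucc 632, .negSucc 35, .ofNat 131⟩, .ofNat 321, .ofNat 91, .ofNat 0, .ofNat 91, .ofNat 718, .ofNat 0, .ofNat 266, .negSucc 56, .negSucc 583, .ofNat 0,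 .ofNat 128, .ofNat 103, .ofNat 0, .ofNat 0, .ofNat 776, .ofNat 357, .ofNat 0, .ofNat 0, .ofNat 0, .ofNat 0, .ofNat 0, .ofNat 0, .ofNat 0, .ofNat 0, .ofNat 0, .ofNat 0, .ofNat 0, .ofNat 0, .ofNat 0, .ofNat 0, .ofNat 0, .ofNat 0⟩)
    (by decide +kernel)
theorem L01049 : Good (Phi V5.P V5.D (-1) (-1)) ⟨2, 2, 2, 0, 1, 0, 3, 6, 4, 1⟩ :=
  leafX_sound T5.ok_mm T5.Ymm.bz_eq (w := 187) (c := ⟨⟨.negSucc 1137, .negSucc 1121, .ofNat 33, .negSucc 238, .ofNat 224, .negSucc 178⟩, ⟨.negSucc 88, .ofNat 516, .ofNat 306, .ofNat 58, .negSucc 69, .ofNat 85⟩, ⟨.ofNat 1110, .ofNat 1013, .negSucc 77, .negSucc 353, .negSucc 234, .ofNat 166⟩, ⟨.negSucc 2595, .negSucc 1295, .ofNat 97, .negSucc 463, .ofNat 368, .negSucc 292⟩, ⟨.negSucc 111, .negSucc 19, .ofNat 70, .negSucc 498, .ofNat 71, .ofNat 191⟩, .ofNat 320, .ofNat 83, .ofNat 0, .ofNat 83, .ofNat 707, .ofNat 0, .ofNat 300, .negSucc 54, .negSucc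 356, .ofNat 0, .ofNat 128, .ofNat 63, .ofNat 0, .ofNat 0, .ofNat 605, .ofNat 692, .ofNat 0, .ofNat 0, .ofNat 0, .ofNat 0, .ofNat 0, .ofNat 0, .ofNat 0, .ofNat 0, .ofNat 0, .ofNat 0, .ofNat 0, .ofNat 0, .ofNat 0, .ofNat 0, .ofNat 10043120072303434449887297041072128, .ofNat 0⟩)
    (by decide +kernel)
theorem L01050 : Good (Phi V5.P V5.D (-1) (-1)) ⟨3, 4, 2, 0, 1, 0, 3, 7, 3, 0⟩ :=
  leafX_sound T5.ok_mm T5.Ymm.bz_eq (w := 186) (c := ⟨⟨.negSucc 864, .negSucc 356, .ofNat 75, .negSucc 70, .ofNat 825, .negSucc 400⟩, ⟨.ofNat 13, .ofNat 86, .ofNat 152, .negSucc 3, .negSucc 97, .ofNat 71⟩, ⟨.ofNat 783, .ofNat 284, .negSucc 39, .negSucc 271, .negSucc 871, .ofNat 219⟩, ⟨.negSucc 1923, .negSucc 515, .ofNat 103, .negSucc 168, .ofNat 1699, .negSucc 763⟩, ⟨.negSucc 272, .ofNat 78, .ofNat 63, .negSucc 384, .negSucc 35, .ofNat 337⟩, .ofNat 459, .ofNat 206, .ofNat 0, .ofNat 206, .ofNat 1942,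 .ofNat 0, .ofNat 319, .negSucc 93, .negSucc 532, .ofNat 0, .ofNat 128, .ofNat 69, .ofNat 0, .ofNat 0, .ofNat 906, .ofNat 652, .ofNat 0, .ofNat 0, .ofNat 0, .ofNat 0, .ofNat 0, .ofNat 0, .ofNat 10270784439189897337743532359680, .ofNat 0, .ofNat 0, .ofNat 0, .ofNat 0, .ofNat 0, .ofNat 0, .ofNat 0, .ofNat 0, .ofNat 0⟩)
    (by decide +kernel)
theorem L01051 : Good (Phi V5.P V5.D (-1) (-1)) ⟨3, 5, 2, 0, 1, 0, 3, 7, 3, 0⟩ :=
  leafX_sound T5.ok_mm T5.Ymm.bz_eq (w := 186) (c := ⟨⟨.negSucc 1198, .negSucc 527, .ofNat 129, .negSucc 88, .ofNat 937, .negSucc 486⟩, ⟨.ofNat 113, .ofNat 221, .ofNat 186, .negSucc 19, .negSucc 213, .ofNat 143⟩, ⟨.ofNat 1190, .ofNat 442, .negSucc 124, .negSucc 374, .negSucc 1030, .ofNat 272⟩, ⟨.negSucc 2359, .negSucc 578, .ofNat 215, .negSucc 236, .ofNat 1729, .negSucc 832⟩, ⟨.negSucc 715, .ofNat 67, .ofNat 70, .negSucc 256, .ofNat 276, .ofNat 715⟩, .ofNat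 449, .ofNat 303, .ofNat 0, .ofNat 303, .ofNat 1525, .ofNat 0, .ofNat 236, .negSucc 125, .negSucc 541, .ofNat 0, .ofNat 128, .ofNat 126, .ofNat 0, .ofNat 0, .ofNat 786, .ofNat 202, .ofNat 0, .ofNat 0, .ofNat 786383919057678405449033973760, .ofNat 0, .ofNat 0, .ofNat 71551215449356660798789454716207104, .ofNat 17654985252536854701631392972800, .ofNat 0, .ofNat 0, .ofNat 0, .ofNat 0, .ofNat 0, .ofNat 0, .ofNat 0, .ofNat 0, .ofNat 0⟩)
    (by decide +kernel)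
theorem L01052 : Good (Phi V5.P V5.D (-1) (-1)) ⟨4, 12, 2, 0, 1, 0, 2, 2, 4, 0⟩ :=
  leafX_sound T5.ok_mm T5.Ymm.bz_eq (w := 191) (c := ⟨⟨.ofNat 1458, .negSucc 829, .negSucc 874, .ofNat 389, .negSucc 831, .negSucc 2523⟩, ⟨.negSucc 633, .ofNat 388, .ofNat 445, .negSucc 224, .ofNat 288, .ofNat 894⟩, ⟨.negSucc 1129, .ofNat 780, .ofNat 627, .negSucc 885, .ofNat 721, .ofNat 2373⟩, ⟨.ofNat 2453, .negSucc 1072, .negSucc 1659, .ofNat 395, .negSucc 1424, .negSucc 3988⟩, ⟨.negSucc 3, .ofNat 70, .negSucc 475, .negSucc 838, .ofNat 203, .ofNat 487⟩, .ofNat 478, .ofNat 390, .ofNat 0, .ofNat 390, .ofNat 1278, .ofNat 0, .ofNat 200, .negSucc 127, .negSucc 466, .ofNat 0, .ofNat 116, .ofNat 163, .ofNat 0, .ofNat 0, .ofNat 623, .ofNat 213, .ofNat 0, .ofNat 0, .ofNat 0, .ofNat 0, .ofNat 0, .ofNat 0, .ofNat 21883213490828168918177757003776, .ofNat 0, .ofNat 0, .ofNat 0, .ofNat 138358473302474022095158725574656,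 .ofNat 0, .ofNat 0, .ofNat 0, .ofNat 157900518567840129823349483241472, .ofNat 0⟩)
    (by decide +kernel)
theorem L01053 : Good (Phi V5.P V5.D (-1) (-1)) ⟨4, 12, 2, 0, 1, 0, 2, 2, 4, 1⟩ :=
  leafX_sound T5.ok_mm T5.Ymm.bz_eq (w := 191) (c := ⟨⟨.negSucc 2624, .negSucc 697, .ofNat 456, .negSucc 443, .ofNat 216, .negSucc 369⟩, ⟨.ofNat 519, .ofNat 370, .ofNat 254, .ofNat 111, .negSucc 67, .ofNat 138⟩, ⟨.ofNat 2489, .ofNat 676, .negSucc 401, .negSucc 385, .negSucc 150, .ofNat 401⟩, ⟨.negSucc 4489, .negSucc 844, .ofNat 868, .negSucc 892, .ofNat 373, .negSucc 566⟩, ⟨.negSucc 393, .negSucc 77, .ofNat 363, .negSucc 484, .ofNat 95, .ofNat 128⟩, .ofNat 630, .ofNat 692, .ofNat 0, .ofNat 692, .ofNat 2061, .ofNat 0, .ofNat 128, .negSucc 141, .negSucc 273, .ofNat 0, .ofNat 108, .ofNat 101, .ofNat 0, .ofNat 0, .ofNat 468, .ofNat 309, .ofNat 0, .ofNat 0, .ofNat 1216048392575165504683310579712,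 .ofNat 0, .ofNat 0, .ofNat 0, .ofNat 56905365593726363320208054026240, .ofNat 0, .ofNat 0, .ofNat 0, .ofNat 74114134995126406034574152826880, .ofNat 0, .ofNat 0, .ofNat 0, .ofNat 0, .ofNat 0⟩)
    (by decide +kernel)
theorem L01054 : Good (Phi V5.P V5.D (-1) (-1)) ⟨4, 12, 3, 0, 1, 0, 2, 3, 3, 0⟩ :=
  out_sound (S := T5.ds_mm) T5.ok_mm (w := 51) (j := 3) (by decide +kernel)
theorem L01055 : Good (Phi V5.P V5.D (-1) (-1)) ⟨4, 12, 3, 1, 1, 0, 2, 3, 4, 0⟩ :=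
  leafX_sound T5.ok_mm T5.Ymm.bz_eq (w := 195) (c := ⟨⟨.negSucc 1839, .negSucc 547, .ofNat 222, .ofNat 539, .ofNat 975, .negSucc 1118⟩, ⟨.ofNat 521, .ofNat 248, .ofNat 52, .negSucc 256, .negSucc 335, .ofNat 417⟩, ⟨.ofNat 1791, .ofNat 537, .negSucc 247, .negSucc 992, .negSucc 1059, .ofNat 962⟩, ⟨.negSucc 3165, .negSucc 633, .ofNat 352, .ofNat 686, .ofNat 1638, .negSucc 1695⟩, ⟨.negSucc 453, .ofNat 282, .ofNat 77, .negSucc 538, .ofNat 150, .ofNat 362⟩, .ofNat 649, .ofNat 694, .ofNat 0, .ofNat 694, .ofNat 2016, .ofNat 0, .ofNat 174, .negSucc 127, .negSucc 670, .ofNat 0, .ofNat 116, .ofNat 240, .ofNat 0, .ofNat 0, .ofNat 864, .ofNat 161, .ofNat 0, .ofNat 0, .ofNat 2117855826829842954313497837568, .ofNat 0, .ofNat 0, .ofNat 0, .ofNat 71846474952679045032081826512896, .ofNat 0, .ofNat 0, .ofNat 0, .ofNat 396414864349062404988492568330240, .ofNat 0, .ofNat 0, .ofNat 0, .ofNat 306504686980087156131523870064640,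 .ofNat 0⟩)
    (by decide +kernel)
theorem L01056 : Good (Phi V5.P V5.D (-1) (-1)) ⟨4, 12, 3, 1, 1, 0, 2, 3, 4, 1⟩ :=
  leafX_sound T5.ok_mm T5.Ymm.bz_eq (w := 194) (c := ⟨⟨.negSucc 2610, .negSucc 451, .ofNat 49, .negSucc 342, .ofNat 1399, .ofNat 110⟩, ⟨.ofNat 778, .ofNat 271, .ofNat 123, .ofNat 97, .negSucc 496, .negSucc 23⟩, ⟨.ofNat 2574, .ofNat 478, .negSucc 77, .negSucc 339, .negSucc 1539, .negSucc 163⟩, ⟨.negSucc 4415, .negSucc 460, .ofNat 134, .negSucc 699, .ofNat 2380, .ofNat 236⟩, ⟨.negSucc 261, .ofNat 155, .ofNat 154, .negSucc 386, .ofNat 173, .ofNat 154⟩, .ofNat 565, .ofNat 529, .ofNat 0, .ofNat 529, .ofNat 1607, .ofNat 0, .ofNat 203, .negSucc 127, .negSucc 514, .ofNat 0, .ofNat 117, .ofNat 188, .ofNat 0, .ofNat 0, .ofNat 790, .ofNat 179, .ofNat 0, .ofNat 0, .ofNat 3008017170085132725922188754944, .ofNat 0, .ofNat 0, .ofNat 36069608342653597355760939712720666624,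 .ofNat 87074698079875132358949366398976, .ofNat 0, .ofNat 0, .ofNat 0, .ofNat 116685964350925914692956268265472, .ofNat 0, .ofNat 0, .ofNat 0, .ofNat 568955542314122537520039735590912, .ofNat 0⟩)
    (by decide +kernel)
theorem L01057 : Good (Phi V5.P V5.D (-1) (-1)) ⟨4, 13, 2, 0, 1, 0, 1, 1, 3, 0⟩ :=
  out_sound (S := T5.ds_mm) T5.ok_mm (w := 49) (j := 3) (by decide +kernel)
theorem L01058 : Good (Phi V5.P V5.D (-1) (-1)) ⟨3, 7, 2, 0, 1, 0, 1, 1, 3, 0⟩ :=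
  out_sound (S := T5.ds_mm) T5.ok_mm (w := 43) (j := 3) (by decide +kernel)
theorem L01059 : Good (Phi V5.P V5.D (-1) (-1)) ⟨2, 2, 2, 0, 1, 0, 2, 2, 3, 1⟩ :=
  leafX_sound T5.ok_mm T5.Ymm.bz_eq (w := 178) (c := ⟨⟨.negSucc 1851, .negSucc 796, .ofNat 31, .negSucc 151, .ofNat 229, .ofNat 296⟩, ⟨.ofNat 52, .ofNat 486, .ofNat 348, .negSucc 4, .negSucc 24, .negSucc 73⟩, ⟨.ofNat 1801, .ofNat 785, .negSucc 51, .negSucc 422, .negSucc 367, .negSucc 132⟩, ⟨.negSucc 4029, .negSucc 513, .ofNat 89, .negSucc 387, .ofNat 482, .ofNat 559⟩, ⟨.negSucc 205, .ofNat 41, .ofNat 6, .negSucc 344, .ofNat 100, .ofNat 198⟩, .ofNat 321, .ofNat 89, .ofNat 0, .ofNat 89, .ofNat 716, .ofNat 0, .ofNat 319, .negSucc 60, .negSucc 151, .ofNat 0, .ofNat 128, .ofNat 31, .ofNat 0, .ofNat 0, .ofNat 451, .ofNat 803, .ofNat 0, .ofNat 0, .ofNat 0, .ofNat 0, .ofNat 0, .ofNat 0, .ofNat 16707947181817873687182667939840,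 .ofNat 0, .ofNat 0, .ofNat 0, .ofNat 0, .ofNat 0, .ofNat 0, .ofNat 0, .ofNat 11841644501493240956710662701056, .ofNat 0⟩)
    (by decide +kernel)
theorem L01060 : Good (Phi V5.P V5.D (-1) (-1)) ⟨2, 2, 2, 0, 1, 0, 3, 6, 3, 1⟩ :=
  leafX_sound T5.ok_mm T5.Ymm.bz_eq (w := 182) (c := ⟨⟨.negSucc 1606, .negSucc 733, .ofNat 36, .negSucc 61, .ofNat 223, .ofNat 216⟩, ⟨.ofNat 38, .ofNat 435, .ofNat 294, .negSucc 0, .negSucc 57, .negSucc 28⟩, ⟨.ofNat 1539, .ofNat 615, .negSucc 3, .negSucc 458, .negSucc 333, .negSucc 240⟩, ⟨.negSucc 3535, .negSucc 475, .ofNat 91, .negSucc 177, .ofNat 460, .ofNat 442⟩, ⟨.negSucc 199, .ofNat 23, .ofNat 36, .negSucc 169, .ofNat 122, .ofNat 190⟩, .ofNat 323, .ofNat 89, .ofNat 0, .ofNat 89, .ofNat 725, .ofNat 0, .ofNat 318, .negSucc 58, .negSucc 188, .ofNat 0, .ofNat 128, .ofNat 35, .ofNat 0, .ofNat 0, .ofNat 483, .ofNat 710, .ofNat 0, .ofNat 0, .ofNat 0,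 .ofNat 0, .ofNat 0, .ofNat 0, .ofNat 104107941048779906894920746532864, .ofNat 0, .ofNat 0, .ofNat 0, .ofNat 0, .ofNat 0, .ofNat 0, .ofNat 0, .ofNat 337010811673064750717245778296832, .ofNat 0⟩)
    (by decide +kernel)
theorem L01061 : Good (Phi V5.P V5.D (-1) (-1)) ⟨2, 2, 2, 0, 1, 0, 3, 7, 3, 1⟩ :=
  leafX_sound T5.ok_mm T5.Ymm.bz_eq (w := 181) (c := ⟨⟨.negSucc 1240, .negSucc 563, .ofNat 14, .negSucc 1, .ofNat 635, .negSucc 42⟩, ⟨.ofNat 18, .ofNat 330, .ofNat 210, .ofNat 13, .negSucc 108, .ofNat 14⟩, ⟨.ofNat 1081, .ofNat 449, .negSucc 20, .negSucc 409, .negSucc 751, .negSucc 42⟩, ⟨.negSucc 2786, .negSucc 391, .ofNat 55, .negSucc 18, .ofNat 1441, .negSucc 95⟩, ⟨.negSucc 365, .ofNat 26, .ofNat 73, .ofNat 278, .ofNat 163, .ofNat 248⟩, .ofNat 323, .ofNat 91, .ofNat 0, .ofNat 91, .ofNat 757, .ofNat 0, .ofNat 355, .negSucc 60, .negSucc 351, .ofNat 0, .ofNat 128, .ofNat 61, .ofNat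 0, .ofNat 0, .ofNat 721, .ofNat 257, .ofNat 0, .ofNat 0, .ofNat 0, .ofNat 0, .ofNat 0, .ofNat 19676529283459208737872797809770496, .ofNat 26836740995212323972834501066752, .ofNat 0, .ofNat 0, .ofNat 5058534430497911882447233008795648, .ofNat 0, .ofNat 0, .ofNat 0, .ofNat 0, .ofNat 0, .ofNat 0⟩)
    (by decide +kernel)
theorem L01062 : Good (Phi V5.P V5.D (-1) (-1)) ⟨3, 6, 2, 0, 1, 0, 2, 2, 3, 1⟩ :=
  leafX_sound T5.ok_mm T5.Ymm.bz_eq (w := 183) (c := ⟨⟨.negSucc 2899, .negSucc 888, .ofNat 80, .negSucc 355, .ofNat 345, .ofNat 638⟩, ⟨.ofNat 651, .ofNat 541, .ofNat 357, .ofNat 91, .negSucc 115, .negSucc 220⟩, ⟨.ofNat 2876, .ofNat 573, .ofNat 2, .negSucc 459, .negSucc 471, .negSucc 447⟩, ⟨.negSucc 4810, .negSucc 822, .ofNat 114, .negSucc 716, .ofNat 594, .ofNat 1075⟩, ⟨.negSucc 141, .negSucc 106, .ofNat 148, .negSucc 421, .ofNat 101, .ofNat 110⟩, .ofNat 622, .ofNat 671, .ofNat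 0, .ofNat 671, .ofNat 2004, .ofNat 0, .ofNat 139, .negSucc 127, .negSucc 152, .ofNat 0, .ofNat 99, .ofNat 57, .ofNat 0, .ofNat 0, .ofNat 423, .ofNat 641, .ofNat 0, .ofNat 0, .ofNat 136142115931194979251755417600, .ofNat 0, .ofNat 0, .ofNat 0, .ofNat 19523195973989804724936022949888, .ofNat 0, .ofNat 0, .ofNat 0, .ofNat 18709930472078270099457839202304, .ofNat 0, .ofNat 0, .ofNat 0, .ofNat 4679050610657972544238985936896, .ofNat 0⟩)
    (by decide +kernel)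
theorem L01063 : Good (Phi V5.P V5.D (-1) (-1)) ⟨4, 12, 3, 0, 1, 0, 2, 3, 3, 1⟩ :=
  out_sound (S := T5.ds_mm) T5.ok_mm (w := 51) (j := 3) (by decide +kernel)
theorem L01064 : Good (Phi V5.P V5.D (-1) (-1)) ⟨4, 12, 3, 1, 1, 0, 2, 3, 4, 2⟩ :=
  leafX_sound T5.ok_mm T5.Ymm.bz_eq (w := 194) (c := ⟨⟨.negSucc 2451, .negSucc 294, .negSucc 31, .negSucc 212, .ofNat 1127, .ofNat 235⟩, ⟨.ofNat 723, .ofNat 206, .ofNat 152, .ofNat 66, .negSucc 387, .negSucc 80⟩, ⟨.ofNat 2404, .ofNat 278, .ofNat 5, .negSucc 432, .negSucc 1355, .negSucc 255⟩, ⟨.negSucc 4104, .negSucc 196, .negSucc 55, .negSucc 403, .ofNat 1952, .ofNat 408⟩, ⟨.negSucc 85, .ofNat 74, .ofNat 15, .negSucc 128, .ofNat 177, .ofNat 38⟩, .ofNat 476, .ofNat 385, .ofNat 0, .ofNat 385, .ofNat 1268, .ofNat 0, .ofNat 241, .negSucc 127, .negSucc 361, .ofNat 0, .ofNat 118, .ofNat 127, .ofNat 0, .ofNat 0, .ofNat 692, .ofNat 239, .ofNat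 0, .ofNat 0, .ofNat 2634898830419189507646948376576, .ofNat 0, .ofNat 0, .ofNat 74154942700052385244212527652262641664, .ofNat 111627425963323369673131263262720, .ofNat 0, .ofNat 0, .ofNat 5545667491448762826653549452897288192, .ofNat 97047110707395997952259307601920, .ofNat 0, .ofNat 0, .ofNat 0, .ofNat 0, .ofNat 0⟩)
    (by decide +kernel)
theorem L01065 : Good (Phi V5.P V5.D (-1) (-1)) ⟨4, 12, 3, 1, 1, 0, 2, 3, 4, 3⟩ :=
  leafX_sound T5.ok_mm T5.Ymm.bz_eq (w := 194) (c := ⟨⟨.negSucc 2284, .negSucc 249, .ofNat 59, .ofNat 15, .ofNat 807, .ofNat 118⟩, ⟨.ofNat 666, .ofNat 185, .ofNat 119, .negSucc 8, .negSucc 265, .negSucc 38⟩, ⟨.ofNat 2224, .ofNat 226, .negSucc 64, .negSucc 658, .negSucc 1077, .negSucc 172⟩, ⟨.negSucc 3859, .negSucc 238, .ofNat 184, .ofNat 3, .ofNat 1374, .ofNat 225⟩, ⟨.negSucc 242, .negSucc 225, .ofNat 283, .negSucc 51, .ofNat 137, .ofNat 129⟩, .ofNat 618,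 .ofNat 661, .ofNat 0, .ofNat 661, .ofNat 1981, .ofNat 0, .ofNat 251, .negSucc 127, .negSucc 209, .ofNat 0, .ofNat 101, .ofNat 76, .ofNat 0, .ofNat 0, .ofNat 557, .ofNat 190, .ofNat 0, .ofNat 0, .ofNat 0, .ofNat 0, .ofNat 0, .ofNat 140054943044958288376322758415281553408, .ofNat 204691348174555624168487567491072, .ofNat 0, .ofNat 0, .ofNat 38015968656751008624671004472469618688, .ofNat 198673450630518713625416344535040, .ofNat 0, .ofNat 0, .ofNat 0, .ofNat 0, .ofNat 0⟩)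
    (by decide +kernel)
theorem L01066 : Good (Phi V5.P V5.D (-1) (-1)) ⟨4, 13, 2, 0, 1, 0, 2, 3, 3, 1⟩ :=
  out_sound (S := T5.ds_mm) T5.ok_mm (w := 49) (j := 3) (by decide +kernel)
theorem L01067 : Good (Phi V5.P V5.D (-1) (-1)) ⟨3, 7, 2, 0, 1, 0, 1, 1, 3, 1⟩ :=
  out_sound (S := T5.ds_mm) T5.ok_mm (w := 43) (j := 3) (by decide +kernel)
theorem L01068 : Good (Phi V5.P V5.D (-1) (-1)) ⟨3, 4, 2, 0, 1, 0, 2, 2, 3, 2⟩ :=
  leafX_sound T5.ok_mm T5.Ymm.bz_eq (w := 184) (c := ⟨⟨.negSucc 1680, .negSucc 233, .ofNat 18, .negSucc 15, .ofNat 190, .ofNat 242⟩, ⟨.ofNat 55, .ofNat 145, .ofNat 286, .negSucc 4, .negSucc 26, .negSucc 32⟩, ⟨.ofNat 1754, .ofNat 193, .negSucc 17, .negSucc 404, .negSucc 414, .negSucc 152⟩, ⟨.negSucc 3685, .negSucc 32, .ofNat 13, .negSucc 62, .ofNat 394, .ofNat 496⟩, ⟨.negSucc 50, .negSucc 11, .ofNat 3, .negSucc 230, .ofNat 55, .ofNat 26⟩, .ofNat 472, .ofNat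 267, .ofNat 0, .ofNat 267, .ofNat 2141, .ofNat 0, .ofNat 416, .negSucc 121, .negSucc 166, .ofNat 0, .ofNat 128, .ofNat 26, .ofNat 0, .ofNat 0, .ofNat 1190, .ofNat 3303, .ofNat 53037539253481406531982532288708608, .ofNat 0, .ofNat 67289866281725841770821976064, .ofNat 0, .ofNat 0, .ofNat 0, .ofNat 0, .ofNat 0, .ofNat 0, .ofNat 0, .ofNat 0, .ofNat 0, .ofNat 0, .ofNat 0, .ofNat 0, .ofNat 0⟩)
    (by decide +kernel)
theorem L01069 : Good (Phi V5.P V5.D (-1) (-1)) ⟨3, 5, 2, 0, 2, 0, 2, 2, 3, 2⟩ :=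
  leafX_sound T5.ok_mm T5.Ymm.bz_eq (w := 199) (c := ⟨⟨.negSucc 1961, .negSucc 310, .negSucc 0, .ofNat 11, .ofNat 201, .ofNat 291⟩, ⟨.ofNat 230, .ofNat 251, .ofNat 287, .negSucc 7, .negSucc 44, .negSucc 69⟩, ⟨.ofNat 2003, .ofNat 327, .negSucc 5, .negSucc 129, .negSucc 475, .negSucc 243⟩, ⟨.negSucc 3761, .negSucc 79, .negSucc 6, .negSucc 17, .ofNat 393, .ofNat 540⟩, ⟨.negSucc 15, .ofNat 7, .negSucc 2, .negSucc 110, .ofNat 34, .negSucc 0⟩, .ofNat 166, .ofNat 19, .ofNat 0, .ofNat 19, .ofNat 235, .ofNat 0, .ofNat 392, .negSucc 22, .negSucc 157, .ofNat 0, .ofNat 128, .ofNat 25, .ofNat 0, .ofNat 0, .ofNat 601, .ofNat 3738, .ofNat 1313038517071390645562430520966546194432, .ofNat 0, .ofNat 0, .ofNat 0, .ofNat 0, .ofNat 0, .ofNat 149995704035914014575958774750642176, .ofNat 0, .ofNat 0, .ofNat 0, .ofNat 0, .ofNat 0, .ofNat 0, .ofNat 0, .ofNat 254494795641749561339294211834380288,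 .ofNat 0⟩)
    (by decide +kernel)
theorem L01070 : Good (Phi V5.P V5.D (-1) (-1)) ⟨3, 5, 2, 0, 2, 1, 2, 2, 3, 2⟩ :=
  leafX_sound T5.ok_mm T5.Ymm.bz_eq (w := 197) (c := ⟨⟨.negSucc 2078, .negSucc 294, .ofNat 29, .ofNat 35, .ofNat 287, .ofNat 412⟩, ⟨.ofNat 251, .ofNat 233, .ofNat 289, .negSucc 16, .negSucc 61, .negSucc 93⟩, ⟨.ofNat 2034, .ofNat 249, .negSucc 51, .negSucc 432, .negSucc 579, .negSucc 297⟩, ⟨.negSucc 3991, .negSucc 48, .ofNat 26, .ofNat 20, .ofNat 564, .ofNat 754⟩, ⟨.negSucc 199, .ofNat 22, .negSucc 8, .negSucc 136, .ofNat 173, .ofNat 55⟩, .ofNat 314, .ofNat 104, .ofNat 0, .ofNat 104, .ofNat 685, .ofNat 0, .ofNat 212, .negSucc 71, .negSucc 94, .ofNat 0, .ofNat 128, .ofNat 23, .ofNat 0, .ofNat 0, .ofNat 525, .ofNat 1027, .ofNat 203860699518536819075740955025271160832, .ofNat 0, .ofNat 0, .ofNat 0, .ofNat 0, .ofNat 0, .ofNat 0, .ofNat 0, .ofNat 0, .ofNat 0, .ofNat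 0, .ofNat 0, .ofNat 0, .ofNat 0, .ofNat 0, .ofNat 0⟩)
    (by decide +kernel)
theorem L01071 : Good (Phi V5.P V5.D (-1) (-1)) ⟨3, 6, 2, 0, 2, 0, 2, 2, 3, 2⟩ :=
  leafX_sound T5.ok_mm T5.Ymm.bz_eq (w := 198) (c := ⟨⟨.negSucc 2319, .negSucc 364, .negSucc 28, .ofNat 8, .ofNat 179, .ofNat 386⟩, ⟨.ofNat 527, .ofNat 338, .ofNat 304, .negSucc 11, .negSucc 59, .negSucc 137⟩, ⟨.ofNat 2369, .ofNat 403, .negSucc 3, .negSucc 97, .negSucc 487, .negSucc 313⟩, ⟨.negSucc 3842, .negSucc 79, .negSucc 53, .negSucc 25, .ofNat 299, .ofNat 620⟩, ⟨.ofNat 12, .ofNat 15, .negSucc 6, .negSucc 107, .ofNat 29, .negSucc 23⟩, .ofNat 669, .ofNat 773, .ofNat 0, .ofNat 773, .ofNat 2270, .ofNat 0, .ofNat 159, .negSucc 127, .negSucc 51, .ofNat 0, .ofNat 102, .ofNat 19, .ofNat 0, .ofNat 0, .ofNat 317, .ofNat 2405, .ofNat 1050706818172031879507815668737726480384, .ofNat 0, .ofNat 2564478604140828327700845574488064,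 .ofNat 0, .ofNat 0, .ofNat 0, .ofNat 1284565625369855330920125416507179008, .ofNat 0, .ofNat 0, .ofNat 0, .ofNat 1205093606759426663945351938176974848, .ofNat 0, .ofNat 0, .ofNat 0, .ofNat 174024373077617183786133996158582784, .ofNat 0⟩)
    (by decide +kernel)
theorem L01072 : Good (Phi V5.P V5.D (-1) (-1)) ⟨3, 6, 2, 0, 2, 1, 2, 2, 3, 2⟩ :=
  leafX_sound T5.ok_mm T5.Ymm.bz_eq (w := 198) (c := ⟨⟨.negSucc 2464, .negSucc 357, .negSucc 1, .ofNat 57, .ofNat 358, .ofNat 539⟩, ⟨.ofNat 556, .ofNat 325, .ofNat 308, .negSucc 33, .negSucc 113, .negSucc 189⟩, ⟨.ofNat 2503, .ofNat 329, .negSucc 110, .negSucc 555, .negSucc 655, .negSucc 427⟩, ⟨.negSucc 4103, .negSucc 49, .negSucc 43, .ofNat 32, .ofNat 638, .ofNat 888⟩, ⟨.negSucc 116, .ofNat 82, .negSucc 58, .negSucc 160, .ofNat 159, .ofNat 40⟩, .ofNat 541, .ofNat 431, .ofNat 0, .ofNat 431, .ofNat 1271, .ofNat 0, .ofNat 156, .negSucc 109,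 .negSucc 147, .ofNat 0, .ofNat 128, .ofNat 59, .ofNat 0, .ofNat 0, .ofNat 775, .ofNat 1268, .ofNat 449363165028923252460367703909693652992, .ofNat 0, .ofNat 1363369631582104964345875413336064, .ofNat 0, .ofNat 0, .ofNat 0, .ofNat 208538418109916342564507905276510208, .ofNat 0, .ofNat 0, .ofNat 0, .ofNat 375447974106248611935358650813513728, .ofNat 0, .ofNat 0, .ofNat 0, .ofNat 474937222607251549159407808107511808, .ofNat 0⟩)
    (by decide +kernel)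
theorem L01073 : Good (Phi V5.P V5.D (-1) (-1)) ⟨3, 7, 2, 0, 1, 0, 2, 2, 3, 2⟩ :=
  out_sound (S := T5.ds_mm) T5.ok_mm (w := 43) (j := 3) (by decide +kernel)
theorem L01074 : Good (Phi V5.P V5.D (-1) (-1)) ⟨2, 2, 2, 0, 2, 0, 3, 4, 4, 6⟩ :=
  leafX_sound T5.ok_mm T5.Ymm.bz_eq (w := 207) (c := ⟨⟨.negSucc 1460, .negSucc 489, .negSucc 1, .ofNat 46, .ofNat 71, .ofNat 104⟩, ⟨.ofNat 14, .ofNat 367, .ofNat 267, .negSucc 11, .negSucc 1, .negSucc 8⟩, ⟨.ofNat 1533, .ofNat 468, .ofNat 42, .negSucc 72, .negSucc 239, .negSucc 125⟩, ⟨.negSucc 3237, .negSucc 78, .negSucc 1, .ofNat 76, .ofNat 156, .ofNat 205⟩, ⟨.negSucc 29, .ofNat 6, .negSucc 0, .negSucc 102, .ofNat 21, .ofNat 10⟩, .ofNat 169, .ofNat 15, .ofNat 0, .ofNat 15, .ofNat 241, .ofNat 0, .ofNat 236, .negSucc 17, .negSucc 81, .ofNat 0, .ofNat 128, .ofNat 9, .ofNat 0, .ofNat 0, .ofNat 473, .ofNat 37910, .ofNat 158255555426179541726464670530617649135616,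 .ofNat 0, .ofNat 56143050903469844743734069380752867328, .ofNat 0, .ofNat 197449586607237571731527198953180510552064, .ofNat 0, .ofNat 0, .ofNat 0, .ofNat 149715599373835220144531841507145132539904, .ofNat 0, .ofNat 0, .ofNat 0, .ofNat 167095453371237775022367768340993079771136, .ofNat 0, .ofNat 268246290291267583272780282398253252608, .ofNat 0⟩)
    (by decide +kernel)
theorem L01075 : Good (Phi V5.P V5.D (-1) (-1)) ⟨2, 2, 2, 0, 2, 0, 3, 4, 4, 7⟩ :=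
  out_sound (S := T5.ds_mm) T5.ok_mm (w := 25) (j := 1) (by decide +kernel)
theorem L01076 : Good (Phi V5.P V5.D (-1) (-1)) ⟨2, 2, 2, 0, 2, 0, 3, 5, 4, 6⟩ :=
  leafX_sound T5.ok_mm T5.Ymm.bz_eq (w := 205) (c := ⟨⟨.negSucc 1404, .negSucc 453, .negSucc 13, .ofNat 75, .ofNat 73, .ofNat 91⟩, ⟨.ofNat 28, .ofNat 339, .ofNat 259, .negSucc 19, .negSucc 14, .negSucc 14⟩, ⟨.ofNat 1323, .ofNat 400, .ofNat 65, .negSucc 110, .negSucc 245, .negSucc 113⟩, ⟨.negSucc 3110, .negSucc 36, .negSucc 21, .ofNat 128, .ofNat 148, .ofNat 175⟩, ⟨.negSucc 36, .negSucc 14, .negSucc 13, .negSucc 51, .ofNat 33, .ofNat 33⟩, .ofNat 324, .ofNat 83, .ofNat 0, .ofNat 83, .ofNat 729, .ofNat 0, .ofNat 229, .negSucc 52, .negSucc 50, .ofNat 0, .ofNat 128, .ofNat 6, .ofNat 0, .ofNat 0, .ofNat 434, .ofNat 11468, .ofNat 31237915420870111335450981595470425489408, .ofNat 0, .ofNat 29895599093169879983377157637619580928,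 .ofNat 0, .ofNat 0, .ofNat 0, .ofNat 0, .ofNat 0, .ofNat 0, .ofNat 0, .ofNat 0, .ofNat 0, .ofNat 5760270537986636197593775475342541062144, .ofNat 0, .ofNat 211822620073392422470900474880454557696, .ofNat 0⟩)
    (by decide +kernel)
theorem L01077 : Good (Phi V5.P V5.D (-1) (-1)) ⟨2, 2, 2, 0, 2, 0, 3, 5, 4, 7⟩ :=
  leafX_sound T5.ok_mm T5.Ymm.bz_eq (w := 208) (c := ⟨⟨.negSucc 1421, .negSucc 363, .negSucc 8, .ofNat 131, .ofNat 100, .negSucc 14⟩, ⟨.ofNat 72, .ofNat 304, .ofNat 226, .negSucc 35, .negSucc 28, .negSucc 5⟩, ⟨.ofNat 1383, .ofNat 261, .ofNat 108, .negSucc 204, .negSucc 303, .negSucc 36⟩, ⟨.negSucc 3085, .ofNat 47, .negSucc 17, .ofNat 232, .ofNat 197, .ofNat 138⟩, ⟨.negSucc 154, .ofNat 9, .negSucc 5, .ofNat 51, .ofNat 89, .ofNat 20⟩, .ofNat 169, .ofNat 16, .ofNat 0, .ofNat 16, .ofNat 240, .ofNat 0, .ofNat 184, .negSucc 18, .negSucc 65, .ofNat 0, .ofNat 128, .negSucc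 2, .ofNat 0, .ofNat 0, .ofNat 422, .ofNat 71078, .ofNat 601699479860162814939862440137068868796416, .ofNat 0, .ofNat 398015935296334257821433584411568242688, .ofNat 0, .ofNat 759708636240625237623579856669362947620864, .ofNat 0, .ofNat 0, .ofNat 0, .ofNat 553852112889397332472971004145746386616320, .ofNat 0, .ofNat 62202830526922593373447825220689723392, .ofNat 0, .ofNat 395676788109496640222532226538667788730368, .ofNat 0, .ofNat 291845413599236304991309138569575006208, .ofNat 0⟩)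
    (by decide +kernel)
theorem L01078 : Good (Phi V5.P V5.D (-1) (-1)) ⟨3, 4, 2, 0, 2, 1, 2, 2, 4, 6⟩ :=
  leafX_sound T5.ok_mm T5.Ymm.bz_eq (w := 203) (c := ⟨⟨.negSucc 1484, .negSucc 173, .ofNat 11, .ofNat 57, .ofNat 177, .ofNat 116⟩, ⟨.ofNat 46, .ofNat 119, .ofNat 259, .negSucc 10, .negSucc 22, .negSucc 18⟩, ⟨.ofNat 1596, .ofNat 81, .ofNat 21, .negSucc 341, .negSucc 526, .negSucc 84⟩, ⟨.negSucc 3274, .ofNat 36, .negSucc 6, .ofNat 104, .ofNat 396, .ofNat 245⟩, ⟨.negSucc 220, .ofNat 30, .negSucc 6, .negSucc 44, .ofNat 208, .ofNat 39⟩, .ofNat 332, .ofNat 63, .ofNat 0, .ofNat 63, .ofNat 773, .ofNat 0, .ofNat 173, .negSucc 41, .negSucc 58, .ofNat 0, .ofNat 128, .ofNat 2, .ofNat 0, .ofNat 0, .ofNat 792, .ofNat 3736, .ofNat 18036669670691099937910590561328174202880, .ofNat 0, .ofNat 0, .ofNat 0, .ofNat 0, .ofNat 0, .ofNat 0, .ofNat 0, .ofNat 0, .ofNat 0, .ofNat 0, .ofNat 0, .ofNat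 0, .ofNat 11991919935044213054014864291298369601536, .ofNat 3854303125818988252687337328297902080, .ofNat 0⟩)
    (by decide +kernel)
theorem L01079 : Good (Phi V5.P V5.D (-1) (-1)) ⟨3, 5, 2, 0, 2, 1, 2, 2, 4, 6⟩ :=
  leafX_sound T5.ok_mm T5.Ymm.bz_eq (w := 203) (c := ⟨⟨.negSucc 1715, .negSucc 238, .ofNat 13, .ofNat 110, .ofNat 234, .ofNat 152⟩, ⟨.ofNat 196, .ofNat 203, .ofNat 258, .negSucc 32, .negSucc 45, .negSucc 41⟩, ⟨.ofNat 1883, .ofNat 146, .negSucc 8, .negSucc 560, .negSucc 723, .negSucc 141⟩, ⟨.negSucc 3314, .ofNat 9, .negSucc 0, .ofNat 177, .ofNat 487, .ofNat 266⟩, ⟨.negSucc 222, .ofNat 34, .negSucc 12, .negSucc 23, .ofNat 283, .ofNat 12⟩, .ofNat 313, .ofNat 106, .ofNat 0, .ofNat 106, .ofNat 670, .ofNat 0, .ofNat 163, .negSucc 69, .negSucc 75, .ofNat 0, .ofNat 128, .ofNat 6, .ofNat 0, .ofNat 0, .ofNat 1070, .ofNat 2777, .ofNat 29595386071645698163288316439230343544832,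 .ofNat 0, .ofNat 72106709336092967074078386280202240, .ofNat 0, .ofNat 0, .ofNat 0, .ofNat 0, .ofNat 0, .ofNat 0, .ofNat 6096258324244950307814207850622360748032, .ofNat 0, .ofNat 0, .ofNat 0, .ofNat 23263993542707801936311387395204023582720, .ofNat 0, .ofNat 0⟩)
    (by decide +kernel)
theorem L01080 : Good (Phi V5.P V5.D (-1) (-1)) ⟨2, 2, 2, 0, 2, 1, 2, 2, 4, 7⟩ :=
  leafX_sound T5.ok_mm T5.Ymm.bz_eq (w := 200) (c := ⟨⟨.negSucc 1399, .negSucc 292, .negSucc 11, .ofNat 92, .ofNat 170, .ofNat 79⟩, ⟨.ofNat 65, .ofNat 280, .ofNat 224, .negSucc 21, .negSucc 39, .negSucc 2⟩, ⟨.ofNat 1732, .negSucc 87, .ofNat 73, .negSucc 696, .negSucc 614, .negSucc 271⟩, ⟨.negSucc 3139, .ofNat 179, .negSucc 11, .ofNat 213, .ofNat 410, .ofNat 182⟩, ⟨.negSucc 442, .ofNat 58, .negSucc 17, .ofNat 199, .ofNat 402, .ofNat 97⟩, .ofNat 323, .ofNat 81, .ofNat 0, .ofNat 81, .ofNat 724, .ofNat 0, .ofNat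 200, .negSucc 52, .negSucc 52, .ofNat 0, .ofNat 128, .negSucc 24, .ofNat 0, .ofNat 0, .ofNat 1779, .ofNat 3736, .ofNat 4352865068099358634822591365986652258304, .ofNat 0, .ofNat 2622102783143936398939750886421823488, .ofNat 0, .ofNat 1200722470663670782316422224429197557760, .ofNat 463801306079104574197575907180499959808, .ofNat 0, .ofNat 0, .ofNat 13907778663588470933660471495075341271040, .ofNat 368119126377323669022182592612694753280, .ofNat 22694833282355908407418586529884274688, .ofNat 0, .ofNat 145256691531406992917856915603710619418624, .ofNat 6908231190064504277192225322334198693888, .ofNat 0, .ofNat 0⟩)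
    (by decide +kernel)
theorem L01081 : Good (Phi V5.P V5.D (-1) (-1)) ⟨4, 12, 3, 0, 1, 0, 2, 2, 3, 3⟩ :=
  out_sound (S := T5.ds_mm) T5.ok_mm (w := 51) (j := 3) (by decide +kernel)
theorem L01082 : Good (Phi V5.P V5.D (-1) (-1)) ⟨4, 12, 3, 1, 2, 0, 2, 2, 4, 6⟩ :=
  leafX_sound T5.ok_mm T5.Ymm.bz_eq (w := 213) (c := ⟨⟨.negSucc 2017, .negSucc 104, .negSucc 19, .ofNat 110, .ofNat 207, .ofNat 97⟩, ⟨.ofNat 583, .ofNat 124, .ofNat 136, .negSucc 45, .negSucc 67, .negSucc 34⟩, ⟨.ofNat 2104, .ofNat 113, .ofNat 27, .negSucc 149, .negSucc 562, .negSucc 137⟩, ⟨.negSucc 3361, .ofNat 53, .negSucc 32, .ofNat 148, .ofNat 356, .ofNat 157⟩, ⟨.negSucc 31, .ofNat 6, .negSucc 1, .negSucc 83, .ofNat 47, .ofNat 2⟩, .ofNat 565, .ofNat 529, .ofNat 0, .ofNat 529, .ofNat 1607, .ofNat 0, .ofNat 242, .negSucc 127, .negSucc 79, .ofNat 0, .ofNat 122, .ofNat 27, .ofNat 0, .ofNat 0, .ofNat 717, .ofNat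 19638, .ofNat 27125839382440772958292560501358515151962112, .ofNat 0, .ofNat 3353372786350427716489522625885765632, .ofNat 0, .ofNat 53018470705015216933986284281751519249825792, .ofNat 0, .ofNat 23456398236050487390605314023315472384, .ofNat 0, .ofNat 15804155110273965403408291291384843593580544, .ofNat 0, .ofNat 40588556767596729920006636611634724864, .ofNat 0, .ofNat 18248831154393172621368232426207903932743680, .ofNat 0, .ofNat 8500167386625319252715779609457590272, .ofNat 0⟩)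
    (by decide +kernel)
theorem L01083 : Good (Phi V5.P V5.D (-1) (-1)) ⟨4, 12, 3, 1, 2, 1, 2, 2, 4, 6⟩ :=
  leafX_sound T5.ok_mm T5.Ymm.bz_eq (w := 211) (c := ⟨⟨.negSucc 1969, .negSucc 139, .ofNat 5, .ofNat 143, .ofNat 256, .ofNat 174⟩, ⟨.ofNat 554, .ofNat 121, .ofNat 125, .negSucc 50, .negSucc 60, .negSucc 61⟩, ⟨.ofNat 2142, .ofNat 128, .negSucc 11, .negSucc 757, .negSucc 769, .negSucc 214⟩, ⟨.negSucc 3336, .negSucc 37, .ofNat 4, .ofNat 228, .ofNat 508, .ofNat 290⟩, ⟨.negSucc 221, .negSucc 56, .ofNat 18, .negSucc 12, .ofNat 269, .ofNat 16⟩, .ofNat 557, .ofNat 540, .ofNat 0, .ofNat 540, .ofNat 1694, .ofNat 0, .ofNat 128, .negSucc 197, .negSucc 84, .ofNat 0, .ofNat 164, .ofNat 23, .ofNat 0, .ofNat 0, .ofNat 1336, .ofNat 4173, .ofNat 7699573292863718991935925106364630511386624, .ofNat 0, .ofNat 242191611554976020386213081194168320, .ofNat 0, .ofNat 0, .ofNat 0, .ofNat 12131994053800032171055300649011904512,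 .ofNat 0, .ofNat 0, .ofNat 1570098107233479624201671992833778445713408, .ofNat 50677011347096479390504910882863054848, .ofNat 0, .ofNat 0, .ofNat 4625844438161926365419299715398907618918400, .ofNat 60508468171854519405598275504481239040, .ofNat 0⟩)
    (by decide +kernel)
theorem L01084 : Good (Phi V5.P V5.D (-1) (-1)) ⟨4, 12, 3, 1, 1, 0, 2, 2, 4, 7⟩ :=
  leafX_sound T5.ok_mm T5.Ymm.bz_eq (w := 196) (c := ⟨⟨.negSucc 2021, .negSucc 86, .negSucc 3, .ofNat 355, .ofNat 273, .ofNat 62⟩, ⟨.ofNat 564, .ofNat 111, .ofNat 105, .negSucc 95, .negSucc 62, .negSucc 8⟩, ⟨.ofNat 2370, .ofNat 9, .ofNat 23, .negSucc 1492, .negSucc 423, .negSucc 663⟩, ⟨.negSucc 3523, .ofNat 54, .negSucc 8, .ofNat 692, .ofNat 569, .ofNat 162⟩, ⟨.negSucc 513, .ofNat 17, .negSucc 15, .ofNat 350, .ofNat 362, .ofNat 160⟩, .ofNat 449, .ofNat 322, .ofNat 0, .ofNat 322, .ofNat 1084, .ofNat 0, .ofNat 150, .negSucc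 116, .negSucc 88, .ofNat 0, .ofNat 128, .ofNat 22, .ofNat 0, .ofNat 0, .ofNat 1345, .ofNat 2002, .ofNat 1747358826814976426019618903860132708352, .ofNat 0, .ofNat 0, .ofNat 0, .ofNat 4738914662560569109119910263967948210176, .ofNat 161996863849370844597264666307898376192, .ofNat 180161254189897446778460249784320, .ofNat 0, .ofNat 6840620664560493179451841308900823400448, .ofNat 301856878048095247896259345151655149568, .ofNat 811916109934422017174077024763904, .ofNat 0, .ofNat 37280350475345336621874972927468672909312, .ofNat 1706583997774788052863424291517962911744, .ofNat 924899506160293127274674266308608, .ofNat 0⟩)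
    (by decide +kernel)
theorem L01085 : Good (Phi V5.P V5.D (-1) (-1)) ⟨4, 13, 2, 0, 1, 0, 2, 2, 3, 3⟩ :=
  out_sound (S := T5.ds_mm) T5.ok_mm (w := 49) (j := 3) (by decide +kernel)
theorem L01086 : Good (Phi V5.P V5.D (-1) (-1)) ⟨3, 7, 2, 0, 1, 0, 2, 2, 3, 3⟩ :=
  out_sound (S := T5.ds_mm) T5.ok_mm (w := 43) (j := 3) (by decide +kernel)
theorem L01087 : Good (Phi V5.P V5.D (-1) (-1)) ⟨2, 2, 2, 0, 1, 0, 2, 3, 4, 4⟩ :=
  leafX_sound T5.ok_mm T5.Ymm.bz_eq (w := 183) (c := ⟨⟨.negSucc 1446, .negSucc 463, .negSucc 23, .ofNat 35, .ofNat 404, .ofNat 64⟩, ⟨.ofNat 30, .ofNat 332, .ofNat 264, .ofNat 0, .negSucc 62, .negSucc 15⟩, ⟨.ofNat 1321, .ofNat 370, .ofNat 43, .negSucc 426, .negSucc 709, .negSucc 81⟩, ⟨.negSucc 3213, .negSucc 55, .negSucc 19, .ofNat 75, .ofNat 841, .ofNat 115⟩, ⟨.negSucc 70, .negSucc 54, .ofNat 16, .ofNat 66, .ofNat 187, .negSucc 32⟩, .ofNat 454, .ofNat 268,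 .ofNat 0, .ofNat 268, .ofNat 1699, .ofNat 0, .ofNat 356, .negSucc 117, .negSucc 119, .ofNat 0, .ofNat 128, .ofNat 21, .ofNat 0, .ofNat 0, .ofNat 522, .ofNat 435, .ofNat 0, .ofNat 0, .ofNat 0, .ofNat 0, .ofNat 0, .ofNat 288975709383754796401328331188862976, .ofNat 272892629661610213312996856299520, .ofNat 0, .ofNat 0, .ofNat 36968565050963574115459556043653120, .ofNat 0, .ofNat 0, .ofNat 0, .ofNat 51177095137246942714338482306678784, .ofNat 0, .ofNat 0⟩)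
    (by decide +kernel)
theorem L01088 : Good (Phi V5.P V5.D (-1) (-1)) ⟨2, 3, 2, 0, 1, 0, 2, 3, 4, 4⟩ :=
  leafX_sound T5.ok_mm T5.Ymm.bz_eq (w := 183) (c := ⟨⟨.negSucc 2093, .negSucc 538, .negSucc 55, .ofNat 263, .ofNat 592, .ofNat 160⟩, ⟨.ofNat 478, .ofNat 573, .ofNat 272, .negSucc 85, .negSucc 185, .negSucc 52⟩, ⟨.ofNat 1959, .ofNat 218, .ofNat 87, .negSucc 837, .negSucc 905, .negSucc 180⟩, ⟨.negSucc 3519, .ofNat 69, .negSucc 67, .ofNat 446, .ofNat 1063, .ofNat 255⟩, ⟨.negSucc 118, .ofNat 173, .ofNat 60, .ofNat 56, .ofNat 241, .negSucc 14⟩, .ofNat 474, .ofNat 381, .ofNat 0, .ofNat 381, .ofNat 1270, .ofNat 0, .ofNat 253, .negSucc 127, .negSucc 116, .ofNat 0, .ofNat 118, .ofNat 39, .ofNat 0, .ofNat 0, .ofNat 426, .ofNat 485, .ofNat 0, .ofNat 0, .ofNat 0, .ofNat 0, .ofNat 0, .ofNat 176120859830549667660196362340794368, .ofNat 4362544731090139514588508345860096, .ofNat 0,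 .ofNat 0, .ofNat 48574072228375311311703877359763456, .ofNat 2005584868693400527029288254308352, .ofNat 0, .ofNat 0, .ofNat 32165646032860000789900867087106048, .ofNat 844454359208361431217846928539648, .ofNat 0⟩)
    (by decide +kernel)
theorem L01089 : Good (Phi V5.P V5.D (-1) (-1)) ⟨2, 2, 2, 0, 1, 0, 2, 3, 4, 5⟩ :=
  leafX_sound T5.ok_mm T5.Ymm.bz_eq (w := 183) (c := ⟨⟨.negSucc 1394, .negSucc 426, .negSucc 19, .ofNat 119, .ofNat 296, .ofNat 70⟩, ⟨.ofNat 47, .ofNat 320, .ofNat 245, .negSucc 22, .negSucc 58, .negSucc 14⟩, ⟨.ofNat 1255, .ofNat 332, .ofNat 10, .negSucc 465, .negSucc 607, .negSucc 113⟩, ⟨.negSucc 3086, .negSucc 7, .negSucc 10, .ofNat 238, .ofNat 588, .ofNat 137⟩, ⟨.negSucc 106, .negSucc 143, .ofNat 56, .ofNat 207, .ofNat 212, .ofNat 56⟩, .ofNat 448, .ofNat 252, .ofNat 0, .ofNat 252, .ofNat 1599, .ofNat 0, .ofNat 376, .negSucc 109, .negSucc 139, .ofNat 0, .ofNat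 128, .ofNat 21, .ofNat 0, .ofNat 0, .ofNat 865, .ofNat 424, .ofNat 0, .ofNat 0, .ofNat 0, .ofNat 0, .ofNat 0, .ofNat 299659294869365382206019372482297856, .ofNat 0, .ofNat 0, .ofNat 0, .ofNat 71086958014088397052259780771446784, .ofNat 383904393500378188433129652355072, .ofNat 0, .ofNat 0, .ofNat 234178252497524622247606914027356160, .ofNat 0, .ofNat 0⟩)
    (by decide +kernel)
theorem L01090 : Good (Phi V5.P V5.D (-1) (-1)) ⟨2, 3, 2, 0, 1, 0, 2, 3, 4, 5⟩ :=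
  leafX_sound T5.ok_mm T5.Ymm.bz_eq (w := 183) (c := ⟨⟨.negSucc 2076, .negSucc 592, .ofNat 89, .ofNat 363, .ofNat 417, .ofNat 127⟩, ⟨.ofNat 489, .ofNat 583, .ofNat 208, .negSucc 116, .negSucc 128, .negSucc 43⟩, ⟨.ofNat 1947, .ofNat 631, .negSucc 121, .negSucc 907, .negSucc 770, .negSucc 167⟩, ⟨.negSucc 3489, .negSucc 120, .ofNat 173, .ofNat 641, .ofNat 751, .ofNat 214⟩, ⟨.negSucc 125, .negSucc 42, .ofNat 60, .ofNat 150, .ofNat 205, .ofNat 34⟩, .ofNat 631, .ofNat 692, .ofNat 0, .ofNat 692, .ofNat 2049, .ofNat 0, .ofNat 176, .negSucc 127, .negSucc 61, .ofNat 0, .ofNat 100, .ofNat 20, .ofNat 0, .ofNat 0, .ofNat 370, .ofNat 273, .ofNat 0, .ofNat 0, .ofNat 0, .ofNat 0, .ofNat 0, .ofNat 40397612457734626294822738998591488, .ofNat 1784466721375608436277325821116416, .ofNat 0, .ofNat 0, .ofNat 39698790388478931438315758227030016, .ofNat 4540368600327163809180184576262144, .ofNat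 0, .ofNat 0, .ofNat 49551675269404830102301724291104768, .ofNat 563729067570902300420257748090880, .ofNat 0⟩)
    (by decide +kernel)
theorem L01091 : Good (Phi V5.P V5.D (-1) (-1)) ⟨3, 4, 2, 0, 2, 0, 2, 3, 3, 3⟩ :=
  leafX_sound T5.ok_mm T5.Ymm.bz_eq (w := 198) (c := ⟨⟨.negSucc 1339, .negSucc 171, .negSucc 39, .ofNat 141, .ofNat 100, .ofNat 41⟩, ⟨.ofNat 44, .ofNat 120, .ofNat 229, .negSucc 18, .negSucc 11, .negSucc 3⟩, ⟨.ofNat 1076, .ofNat 158, .ofNat 71, .negSucc 163, .negSucc 464, .negSucc 128⟩, ⟨.negSucc 2956, .ofNat 39, .negSucc 85, .ofNat 291, .ofNat 223, .ofNat 67⟩, ⟨.negSucc 73, .ofNat 39, .ofNat 49, .ofNat 48, .ofNat 126, .negSucc 1⟩, .ofNat 458, .ofNat 190, .ofNat 0, .ofNat 190, .ofNat 1918, .ofNat 0, .ofNat 880, .negSucc 84, .negSucc 155, .ofNat 0, .ofNat 128, .ofNat 12, .ofNat 0, .ofNat 0, .ofNat 1165, .ofNat 2446, .ofNat 0, .ofNat 0, .ofNat 0, .ofNat 0, .ofNat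 0, .ofNat 0, .ofNat 0, .ofNat 0, .ofNat 0, .ofNat 604358799019062185889834476780283494400, .ofNat 13513106225771891379474225193549824, .ofNat 0, .ofNat 30988535378974596096668778706594930098176, .ofNat 0, .ofNat 318675547255529247175949204871708672, .ofNat 0⟩)
    (by decide +kernel)
theorem L01092 : Good (Phi V5.P V5.D (-1) (-1)) ⟨3, 5, 2, 0, 2, 0, 2, 3, 3, 3⟩ :=
  leafX_sound T5.ok_mm T5.Ymm.bz_eq (w := 198) (c := ⟨⟨.negSucc 1608, .negSucc 213, .negSucc 26, .ofNat 258, .ofNat 150, .ofNat 82⟩, ⟨.ofNat 188, .ofNat 198, .ofNat 232, .negSucc 55, .negSucc 23, .negSucc 18⟩, ⟨.ofNat 1363, .ofNat 168, .ofNat 76, .negSucc 334, .negSucc 536, .negSucc 166⟩, ⟨.negSucc 3106, .ofNat 14, .negSucc 42, .ofNat 493, .ofNat 309, .ofNat 145⟩, ⟨.negSucc 79, .negSucc 19, .negSucc 12, .ofNat 113, .ofNat 166, .ofNat 28⟩, .ofNat 314, .ofNat 104, .ofNat 0, .ofNat 104, .ofNat 685, .ofNat 0, .ofNat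 574, .negSucc 65, .negSucc 127, .ofNat 0, .ofNat 128, .ofNat 15, .ofNat 0, .ofNat 0, .ofNat 785, .ofNat 1497, .ofNat 1566273128600049457489881005361029185536, .ofNat 0, .ofNat 0, .ofNat 0, .ofNat 0, .ofNat 0, .ofNat 0, .ofNat 0, .ofNat 0, .ofNat 678087982689273403297691294196574453760, .ofNat 0, .ofNat 0, .ofNat 12572031939069546770672232482758591512576, .ofNat 0, .ofNat 256241471291328301739896059805564928, .ofNat 0⟩)
    (by decide +kernel)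
theorem L01093 : Good (Phi V5.P V5.D (-1) (-1)) ⟨3, 6, 2, 0, 2, 0, 2, 3, 3, 3⟩ :=
  leafX_sound T5.ok_mm T5.Ymm.bz_eq (w := 198) (c := ⟨⟨.negSucc 1844, .negSucc 121, .negSucc 75, .ofNat 345, .ofNat 94, .ofNat 85⟩, ⟨.ofNat 412, .ofNat 216, .ofNat 263, .negSucc 116, .negSucc 21, .negSucc 29⟩, ⟨.ofNat 1599, .ofNat 50, .ofNat 111, .negSucc 458, .negSucc 489, .negSucc 186⟩, ⟨.negSucc 3090, .ofNat 238, .negSucc 113, .ofNat 591, .ofNat 192, .ofNat 136⟩, ⟨.negSucc 85, .ofNat 39, .ofNat 28, .ofNat 77, .ofNat 119, .ofNat 11⟩, .ofNat 472, .ofNat 376, .ofNat 0, .ofNat 376, .ofNat 1252, .ofNat 0, .ofNat 290, .negSucc 127, .negSucc 83, .ofNat 0, .ofNat 124, .ofNat 23, .ofNat 0, .ofNat 0, .ofNat 520, .ofNat 1966, .ofNat 2770702453589534644860453406532349984768, .ofNat 0, .ofNat 44548831559987969428062251000004608, .ofNat 0, .ofNat 0, .ofNat 3073007716914600130222615273320061337600, .ofNat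 732190986507403924948385315527065600, .ofNat 0, .ofNat 0, .ofNat 1116500702030148903881672769865865232384, .ofNat 834369526835054205297128667588067328, .ofNat 0, .ofNat 3406672304339957059440906703845311119360, .ofNat 99872034290088028673325599503356526592, .ofNat 126043453426039054719811215354232832, .ofNat 0⟩)
    (by decide +kernel)
theorem L01094 : Good (Phi V5.P V5.D (-1) (-1)) ⟨3, 7, 2, 0, 2, 0, 2, 3, 3, 3⟩ :=
  out_sound (S := T5.ds_mm) T5.ok_mm (w := 43) (j := 3) (by decide +kernel)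
theorem L01095 : Good (Phi V5.P V5.D (-1) (-1)) ⟨1, 1, 2, 0, 2, 1, 3, 6, 4, 6⟩ :=
  leafX_sound T5.ok_mm T5.Ymm.bz_eq (w := 196) (c := ⟨⟨.negSucc 1289, .negSucc 577, .negSucc 32, .ofNat 74, .ofNat 128, .ofNat 78⟩, ⟨.ofNat 39, .ofNat 562, .ofNat 226, .negSucc 15, .negSucc 21, .negSucc 10⟩, ⟨.ofNat 1094, .ofNat 50, .ofNat 134, .negSucc 439, .negSucc 323, .negSucc 129⟩, ⟨.negSucc 2870, .ofNat 350, .negSucc 31, .ofNat 181, .ofNat 298, .ofNat 165⟩, ⟨.negSucc 103, .ofNat 133, .negSucc 40, .ofNat 246, .ofNat 222, .ofNat 57⟩, .ofNat 168, .ofNat 17, .ofNat 0, .ofNat 17, .ofNat 239, .ofNat 0, .ofNat 178, .negSucc 21, .negSucc 84, .ofNat 0, .ofNat 128, .negSucc 25, .ofNat 0, .ofNat 0, .ofNat 624, .ofNat 314, .ofNat 0, .ofNat 0, .ofNat 0, .ofNat 0, .ofNat 0, .ofNat 54554540813369340842704596990953521152, .ofNat 52476564293983969323567824382172594176, .ofNat 0, .ofNat 0, .ofNat 41382491408889957149715619014430949376,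 .ofNat 359733205083585278735456164178405883904, .ofNat 0, .ofNat 0, .ofNat 180616478100086428371034516427374592000, .ofNat 123653516045842940442967070642783911936, .ofNat 0⟩)
    (by decide +kernel)
theorem L01096 : Good (Phi V5.P V5.D (-1) (-1)) ⟨1, 1, 2, 0, 2, 1, 3, 7, 4, 6⟩ :=
  leafX_sound T5.ok_mm T5.Ymm.bz_eq (w := 195) (c := ⟨⟨.negSucc 1178, .negSucc 443, .negSucc 36, .ofNat 131, .ofNat 221, .ofNat 49⟩, ⟨.ofNat 40, .ofNat 531, .ofNat 206, .negSucc 36, .negSucc 67, .negSucc 5⟩, ⟨.ofNat 803, .negSucc 46, .ofNat 149, .negSucc 467, .negSucc 422, .negSucc 141⟩, ⟨.negSucc 2623, .ofNat 583, .negSucc 24, .ofNat 329, .ofNat 525, .ofNat 105⟩, ⟨.ofNat 43, .ofNat 174, .negSucc 17, .ofNat 466, .ofNat 380, .ofNat 69⟩, .ofNat 168, .ofNat 17, .ofNat 0, .ofNat 17, .ofNat 239, .ofNat 0, .ofNat 232, .negSucc 21, .negSucc 60, .ofNat 0, .ofNat 128, .negSucc 16, .ofNat 0, .ofNat 0, .ofNat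 318, .ofNat 146, .ofNat 0, .ofNat 551436062557932144187323043805134848, .ofNat 2943338585116949411664246818826354688, .ofNat 0, .ofNat 0, .ofNat 62992217414200661255864091685108580352, .ofNat 39494336301217053942202965159435042816, .ofNat 0, .ofNat 0, .ofNat 54579441708781320246917345755971715072, .ofNat 92003361844287997793280639879763460096, .ofNat 0, .ofNat 0, .ofNat 98464489759808843501681691200837386240, .ofNat 23359264103498693325436593511512145920, .ofNat 0⟩)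
    (by decide +kernel)
theorem L01097 : Good (Phi V5.P V5.D (-1) (-1)) ⟨2, 2, 2, 0, 2, 1, 3, 6, 4, 7⟩ :=
  leafX_sound T5.ok_mm T5.Ymm.bz_eq (w := 203) (c := ⟨⟨.negSucc 1234, .negSucc 259, .negSucc 27, .ofNat 95, .ofNat 106, .ofNat 73⟩, ⟨.ofNat 35, .ofNat 274, .ofNat 213, .negSucc 12, .negSucc 15, .negSucc 8⟩, ⟨.ofNat 1068, .negSucc 39, .ofNat 145, .negSucc 601, .negSucc 336, .negSucc 239⟩, ⟨.negSucc 2746, .ofNat 232, .negSucc 28, .ofNat 230, .ofNat 229, .ofNat 162⟩, ⟨.negSucc 85, .ofNat 0, .negSucc 7, .ofNat 323, .ofNat 217, .ofNat 65⟩, .ofNat 454, .ofNat 254, .ofNat 0, .ofNat 254, .ofNat 1696, .ofNat 0, .ofNat 171, .negSucc 108, .negSucc 61, .ofNat 0, .ofNat 128, .negSucc 3, .ofNat 0, .ofNat 0, .ofNat 1281, .ofNat 2022, .ofNat 12740137620684890174977740216612159488000, .ofNat 0, .ofNat 38628552401338610535324463582387634176, .ofNat 0, .ofNat 0, .ofNat 2325944229735201374314817631363734175744,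 .ofNat 0, .ofNat 0, .ofNat 0, .ofNat 3852427855096812618095987910433180745728, .ofNat 1729139358012276623947068924823647289344, .ofNat 0, .ofNat 0, .ofNat 17931116953996010828992072596750493286400, .ofNat 353236901564682971134365404520417067008, .ofNat 0⟩)
    (by decide +kernel)
theorem L01098 : Good (Phi V5.P V5.D (-1) (-1)) ⟨2, 3, 2, 0, 2, 1, 3, 6, 4, 7⟩ :=
  leafX_sound T5.ok_mm T5.Ymm.bz_eq (w := 202) (c := ⟨⟨.negSucc 1539, .negSucc 325, .negSucc 28, .ofNat 141, .ofNat 142, .ofNat 82⟩, ⟨.ofNat 356, .ofNat 471, .ofNat 188, .negSucc 16, .negSucc 27, .negSucc 23⟩, ⟨.ofNat 1181, .negSucc 165, .ofNat 122, .negSucc 1059, .negSucc 426, .negSucc 199⟩, ⟨.negSucc 2596, .ofNat 261, .negSucc 30, .ofNat 358, .ofNat 320, .ofNat 155⟩, ⟨.negSucc 44, .ofNat 152, .negSucc 24, .ofNat 382, .ofNat 251, .ofNat 67⟩, .ofNat 314, .ofNat 142, .ofNat 0, .ofNat 142, .ofNat 613, .ofNat 0, .ofNat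 265, .negSucc 85, .negSucc 54, .ofNat 0, .ofNat 128, .negSucc 22, .ofNat 0, .ofNat 0, .ofNat 1218, .ofNat 895, .ofNat 8867748952969881038744290322382791376896, .ofNat 0, .ofNat 26773622084354953463057450497212416000, .ofNat 0, .ofNat 0, .ofNat 3478445819604721581914723724252520906752, .ofNat 18408901348547768054161656183175249920, .ofNat 0, .ofNat 0, .ofNat 2720850632285446145290912020819836141568, .ofNat 897986465829589140244825546889938075648, .ofNat 0, .ofNat 0, .ofNat 16110211381132302528151490351890564120576, .ofNat 260738460368300333800579845242994294784, .ofNat 0⟩)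
    (by decide +kernel)
theorem L01099 : Good (Phi V5.P V5.D (-1) (-1)) ⟨1, 1, 2, 0, 2, 1, 3, 7, 4, 7⟩ :=
  leafX_sound T5.ok_mm T5.Ymm.bz_eq (w := 198) (c := ⟨⟨.negSucc 1120, .negSucc 429, .negSucc 49, .ofNat 124, .ofNat 138, .ofNat 17⟩, ⟨.ofNat 7, .ofNat 593, .ofNat 180, .ofNat 41, .ofNat 23, .ofNat 8⟩, ⟨.ofNat 693, .negSucc 163, .ofNat 200, .negSucc 511, .negSucc 385, .negSucc 117⟩, ⟨.negSucc 2513, .ofNat 626, .negSucc 44, .ofNat 366, .ofNat 342, .ofNat 53⟩, ⟨.ofNat 125, .ofNat 156, .negSucc 51, .ofNat 520, .ofNat 340, .ofNat 52⟩, .ofNat 318, .ofNat 97, .ofNat 0, .ofNat 97, .ofNat 692, .ofNat 0, .ofNat 128, .negSucc 65, .negSucc 49, .ofNat 0, .ofNat 138, .negSucc 9, .ofNat 0, .ofNat 0, .ofNat 570, .ofNat 1036, .ofNat 0, .ofNat 0, .ofNat 33097655522516140069646675568318480384, .ofNat 0, .ofNat 0, .ofNat 90313580255149997038593588035334438912, .ofNat 85741484007885071729770241141136949248,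 .ofNat 0, .ofNat 0, .ofNat 200126352700941434160817707608407277568, .ofNat 2717706185983896425006733070845882662912, .ofNat 0, .ofNat 0, .ofNat 514086714473177013501637958317266436096, .ofNat 352225622895321780994628269423537946624, .ofNat 0⟩)
    (by decide +kernel)
theorem L01100 : Good (Phi V5.P V5.D (-1) (-1)) ⟨1, 1, 2, 0, 1, 0, 1, 1, 1, 1⟩ :=
  leafX_sound T5.ok_mm T5.Ymm.bz_eq (w := 169) (c := ⟨⟨.negSucc 1377, .negSucc 1226, .negSucc 14, .ofNat 1, .negSucc 0, .ofNat 1⟩, ⟨.negSucc 14, .ofNat 888, .ofNat 275, .ofNat 0, .ofNat 0, .ofNat 0⟩, ⟨.ofNat 681, .ofNat 1225, .ofNat 15, .negSucc 0, .ofNat 1, .negSucc 0⟩, ⟨.negSucc 3066, .negSucc 554, .negSucc 4, .ofNat 2, .negSucc 1, .ofNat 2⟩, ⟨.ofNat 4, .negSucc 16, .negSucc 0, .ofNat 0, .ofNat 0, .ofNat 0⟩, .ofNat 169, .ofNat 17, .ofNat 0, .ofNat 17, .ofNat 241, .ofNat 0, .ofNat 164, .negSucc 19, .negSucc 137, .ofNat 0, .ofNat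 128, .ofNat 13, .ofNat 0, .ofNat 0, .ofNat 335, .ofNat 2686, .ofNat 652802942072561423618565734400000000, .ofNat 25107658530500011261642443856019456, .ofNat 167739427886911305461792768, .ofNat 0, .ofNat 7104538277245210282443319430610944, .ofNat 345611857417643976808213111635968, .ofNat 0, .ofNat 0, .ofNat 490825371646001559331418071367680, .ofNat 23570969628823239187673674416128, .ofNat 2827851556591525077262008320, .ofNat 0, .ofNat 7758568321393752638980668790931456, .ofNat 380826738307684307021498373111808, .ofNat 0, .ofNat 0⟩)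
    (by decide +kernel)
theorem L01101 : Good (Phi V5.P V5.D (-1) (-1)) ⟨3, 4, 2, 0, 2, 2, 3, 0, 4, 0⟩ :=
  leafX_sound T5.ok_mm T5.Ymm.bz_eq (w := 206) (c := ⟨⟨.ofNat 1305, .ofNat 380, .ofNat 356, .ofNat 700, .ofNat 202, .negSucc 2547⟩, ⟨.negSucc 146, .negSucc 222, .negSucc 100, .negSucc 120, .negSucc 1, .ofNat 314⟩, ⟨.negSucc 313, .negSucc 18, .negSucc 185, .ofNat 266, .negSucc 517, .ofNat 724⟩, ⟨.ofNat 2819, .ofNat 221, .ofNat 308, .ofNat 1411, .ofNat 535, .negSucc 5418⟩, ⟨.negSucc 1978, .negSucc 690, .ofNat 261, .negSucc 721, .ofNat 743, .negSucc 188⟩, .ofNat 331, .ofNat 63, .ofNat 0, .ofNat 63, .ofNat 768, .ofNat 0, .ofNat 317, .negSucc 118, .negSucc 139, .ofNat 0, .ofNat 128, .ofNat 31, .ofNat 0, .ofNat 0, .ofNat 357, .ofNat 3298, .ofNat 0, .ofNat 0, .ofNat 0, .ofNat 0, .ofNat 0, .ofNat 0, .ofNat 0, .ofNat 0, .ofNat 0, .ofNat 0, .ofNat 3994608494125187441497200325117870080,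 .ofNat 0, .ofNat 0, .ofNat 0, .ofNat 0, .ofNat 0⟩)
    (by decide +kernel)
theorem L01102 : Good (Phi V5.P V5.D (-1) (-1)) ⟨3, 4, 2, 0, 2, 2, 3, 0, 5, 2⟩ :=
  leafX_sound T5.ok_mm T5.Ymm.bz_eq (w := 211) (c := ⟨⟨.negSucc 681, .negSucc 337, .ofNat 294, .ofNat 136, .ofNat 112, .negSucc 1041⟩, ⟨.negSucc 158, .ofNat 101, .ofNat 342, .negSucc 27, .ofNat 1, .ofNat 165⟩, ⟨.ofNat 314, .ofNat 376, .negSucc 360, .ofNat 232, .negSucc 267, .ofNat 529⟩, ⟨.negSucc 1668, .negSucc 549, .ofNat 231, .ofNat 237, .ofNat 306, .negSucc 2058⟩, ⟨.negSucc 2154, .negSucc 154, .negSucc 93, .negSucc 580, .ofNat 372, .ofNat 561⟩, .ofNat 462, .ofNat 221, .ofNat 0, .ofNat 221, .ofNat 1988, .ofNat 0, .ofNat 287, .negSucc 127, .negSucc 151, .ofNat 0, .ofNat 87, .ofNat 31, .ofNat 0, .ofNat 0, .ofNat 471, .ofNat 3668, .ofNat 2212801412747085957759743427847124926070784, .ofNat 0, .ofNat 42920172196115202184286600255990923264,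 .ofNat 0, .ofNat 0, .ofNat 0, .ofNat 0, .ofNat 0, .ofNat 0, .ofNat 0, .ofNat 958513031154724123353312827815256653824, .ofNat 0, .ofNat 0, .ofNat 0, .ofNat 0, .ofNat 0⟩)
    (by decide +kernel)
theorem L01103 : Good (Phi V5.P V5.D (-1) (-1)) ⟨3, 4, 2, 0, 2, 2, 3, 0, 5, 3⟩ :=
  leafX_sound T5.ok_mm T5.Ymm.bz_eq (w := 212) (c := ⟨⟨.negSucc 1456, .negSucc 556, .ofNat 188, .negSucc 62, .ofNat 123, .negSucc 564⟩, ⟨.negSucc 117, .ofNat 201, .ofNat 448, .negSucc 2, .ofNat 6, .ofNat 99⟩, ⟨.ofNat 738, .ofNat 535, .negSucc 307, .ofNat 183, .negSucc 224, .ofNat 489⟩, ⟨.negSucc 3365, .negSucc 715, .ofNat 114, .negSucc 154, .ofNat 269, .negSucc 1097⟩, ⟨.negSucc 1741, .negSucc 52, .negSucc 57, .negSucc 366, .ofNat 201, .ofNat 398⟩, .ofNat 459, .ofNat 207, .ofNat 0, .ofNat 207, .ofNat 1935, .ofNat 0, .ofNat 275, .negSucc 127, .negSucc 131, .ofNat 0, .ofNat 97, .ofNat 28, .ofNat 0, .ofNat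 0, .ofNat 432, .ofNat 9355, .ofNat 4002184572500103756619533571675563411636224, .ofNat 0, .ofNat 106414435259686517284548631961840648192, .ofNat 0, .ofNat 0, .ofNat 0, .ofNat 0, .ofNat 0, .ofNat 0, .ofNat 0, .ofNat 0, .ofNat 0, .ofNat 2555465462952828121664207327253661919215616, .ofNat 0, .ofNat 0, .ofNat 0⟩)
    (by decide +kernel)
theorem L01104 : Good (Phi V5.P V5.D (-1) (-1)) ⟨3, 4, 2, 0, 2, 3, 3, 0, 4, 0⟩ :=
  leafX_sound T5.ok_mm T5.Ymm.bz_eq (w := 206) (c := ⟨⟨.ofNat 1856, .ofNat 303, .ofNat 366, .negSucc 1672, .ofNat 569, .negSucc 2468⟩, ⟨.negSucc 297, .negSucc 157, .negSucc 68, .ofNat 361, .negSucc 34, .ofNat 298⟩, ⟨.negSucc 311, .ofNat 84, .negSucc 13, .ofNat 903, .negSucc 698, .ofNat 972⟩, ⟨.ofNat 3731, .ofNat 189, .ofNat 586, .negSucc 2902, .ofNat 1260, .negSucc 5224⟩, ⟨.negSucc 2477, .negSucc 838, .ofNat 737, .ofNat 3677, .ofNat 627, .negSucc 663⟩, .ofNat 457,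 .ofNat 200, .ofNat 0, .ofNat 200, .ofNat 1904, .ofNat 0, .ofNat 252, .negSucc 127, .negSucc 180, .ofNat 0, .ofNat 90, .ofNat 21, .ofNat 0, .ofNat 0, .ofNat 370, .ofNat 1727, .ofNat 85333924533029932920920777647340006670336, .ofNat 0, .ofNat 0, .ofNat 0, .ofNat 0, .ofNat 0, .ofNat 0, .ofNat 0, .ofNat 135780097870347619052934651192460854689792, .ofNat 0, .ofNat 7366222901547255892613691250892079104, .ofNat 0, .ofNat 0, .ofNat 0, .ofNat 0, .ofNat 0⟩)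
    (by decide +kernel)
theorem L01105 : Good (Phi V5.P V5.D (-1) (-1)) ⟨3, 4, 2, 0, 3, 6, 3, 0, 5, 2⟩ :=
  leafX_sound T5.ok_mm T5.Ymm.bz_eq (w := 225) (c := ⟨⟨.negSucc 594, .negSucc 394, .ofNat 407, .negSucc 340, .ofNat 384, .negSucc 1112⟩, ⟨.negSucc 139, .ofNat 104, .ofNat 261, .ofNat 55, .negSucc 60, .ofNat 182⟩, ⟨.ofNat 630, .ofNat 454, .negSucc 252, .ofNat 528, .negSucc 645, .ofNat 619⟩, ⟨.negSucc 1478, .negSucc 746, .ofNat 522, .negSucc 590, .ofNat 856, .negSucc 2314⟩, ⟨.negSucc 2616, .negSucc 384, .ofNat 171, .ofNat 976, .ofNat 220, .ofNat 395⟩, .ofNat 332, .ofNat 65, .ofNat 0, .ofNat 65, .ofNat 776, .ofNat 0, .ofNat 316, .negSucc 127, .negSucc 322, .ofNat 0, .ofNat 116, .ofNat 73, .ofNat 0, .ofNat 0, .ofNat 546, .ofNat 5719, .ofNat 9377954647330889483392626575641105491076055040, .ofNat 0, .ofNat 0, .ofNat 0, .ofNat 0, .ofNat 0, .ofNat 0, .ofNat 0, .ofNat 0, .ofNat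 0, .ofNat 0, .ofNat 0, .ofNat 21455441824031208729458524633888352235228758016, .ofNat 0, .ofNat 0, .ofNat 0⟩)
    (by decide +kernel)
theorem L01106 : Good (Phi V5.P V5.D (-1) (-1)) ⟨3, 4, 2, 0, 3, 6, 5, 0, 5, 3⟩ :=
  leafX_sound T5.ok_mm T5.Ymm.bz_eq (w := 236) (c := ⟨⟨.negSucc 1530, .negSucc 802, .ofNat 316, .negSucc 244, .ofNat 91, .negSucc 501⟩, ⟨.negSucc 111, .ofNat 249, .ofNat 431, .ofNat 56, .negSucc 15, .ofNat 86⟩, ⟨.ofNat 1145, .ofNat 868, .negSucc 413, .ofNat 634, .negSucc 255, .ofNat 416⟩, ⟨.negSucc 3588, .negSucc 1110, .ofNat 370, .negSucc 402, .ofNat 172, .negSucc 965⟩, ⟨.negSucc 2197, .ofNat 136, .negSucc 21, .ofNat 722, .ofNat 20, .ofNat 418⟩, .ofNat 457, .ofNat 206, .ofNat 0, .ofNat 206, .ofNat 1912, .ofNat 0, .ofNat 248, .negSucc 127, .negSucc 133, .ofNat 0, .ofNat 89, .ofNat 26, .ofNat 0, .ofNat 0, .ofNat 368, .ofNat 51137, .ofNat 6228666714011211682785120788773389994931471253504,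 .ofNat 0, .ofNat 146507877828124882692931983452548274799509504, .ofNat 0, .ofNat 0, .ofNat 0, .ofNat 0, .ofNat 0, .ofNat 0, .ofNat 0, .ofNat 0, .ofNat 0, .ofNat 1798779624253626557530918917537560440002553315328, .ofNat 0, .ofNat 1347081975762334147487215315673157203902070784, .ofNat 0⟩)
    (by decide +kernel)
theorem L01107 : Good (Phi V5.P V5.D (-1) (-1)) ⟨3, 4, 2, 0, 3, 6, 5, 1, 5, 3⟩ :=
  leafX_sound T5.ok_mm T5.Ymm.bz_eq (w := 235) (c := ⟨⟨.negSucc 1521, .negSucc 736, .ofNat 309, .negSucc 118, .ofNat 72, .negSucc 547⟩, ⟨.negSucc 91, .ofNat 228, .ofNat 421, .ofNat 24, .negSucc 18, .ofNat 85⟩, ⟨.ofNat 1009, .ofNat 779, .negSucc 369, .ofNat 488, .negSucc 174, .ofNat 429⟩, ⟨.negSucc 3461, .negSucc 1091, .ofNat 366, .negSucc 197, .ofNat 124, .negSucc 1114⟩, ⟨.negSucc 2039, .ofNat 2, .ofNat 18, .ofNat 638, .ofNat 12, .ofNat 357⟩, .ofNat 332, .ofNat 59, .ofNat 0, .ofNat 59,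 .ofNat 767, .ofNat 0, .ofNat 306, .negSucc 127, .negSucc 275, .ofNat 0, .ofNat 125, .ofNat 70, .ofNat 0, .ofNat 0, .ofNat 564, .ofNat 21596, .ofNat 0, .ofNat 0, .ofNat 0, .ofNat 0, .ofNat 0, .ofNat 0, .ofNat 0, .ofNat 0, .ofNat 0, .ofNat 0, .ofNat 0, .ofNat 0, .ofNat 0, .ofNat 0, .ofNat 0, .ofNat 0⟩)
    (by decide +kernel)
theorem L01108 : Good (Phi V5.P V5.D (-1) (-1)) ⟨3, 4, 2, 0, 3, 6, 4, 1, 5, 3⟩ :=
  leafX_sound T5.ok_mm T5.Ymm.bz_eq (w := 230) (c := ⟨⟨.negSucc 1443, .negSucc 658, .ofNat 336, .negSucc 125, .ofNat 83, .negSucc 622⟩, ⟨.negSucc 101, .ofNat 220, .ofNat 387, .ofNat 29, .negSucc 10, .ofNat 109⟩, ⟨.ofNat 880, .ofNat 665, .negSucc 316, .ofNat 422, .negSucc 218, .ofNat 448⟩, ⟨.negSucc 3353, .negSucc 924, .ofNat 440, .negSucc 190, .ofNat 177, .negSucc 1230⟩, ⟨.negSucc 1991, .negSucc 43, .ofNat 48, .ofNat 564, .ofNat 39, .ofNat 365⟩, .ofNat 466, .ofNat 237, .ofNat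 0, .ofNat 237, .ofNat 2029, .ofNat 0, .ofNat 252, .negSucc 127, .negSucc 186, .ofNat 0, .ofNat 86, .ofNat 36, .ofNat 0, .ofNat 0, .ofNat 440, .ofNat 10190, .ofNat 0, .ofNat 0, .ofNat 0, .ofNat 0, .ofNat 0, .ofNat 0, .ofNat 0, .ofNat 0, .ofNat 0, .ofNat 0, .ofNat 81834166264849546789800706048697775419293696, .ofNat 0, .ofNat 0, .ofNat 0, .ofNat 0, .ofNat 0⟩)
    (by decide +kernel)
theorem L01109 : Good (Phi V5.P V5.D (-1) (-1)) ⟨3, 4, 2, 0, 3, 7, 3, 0, 4, 1⟩ :=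
  leafX_sound T5.ok_mm T5.Ymm.bz_eq (w := 220) (c := ⟨⟨.negSucc 1080, .negSucc 741, .ofNat 394, .negSucc 181, .ofNat 217, .negSucc 1054⟩, ⟨.negSucc 116, .ofNat 221, .ofNat 305, .ofNat 74, .negSucc 28, .ofNat 160⟩, ⟨.ofNat 1218, .ofNat 570, .negSucc 161, .negSucc 489, .negSucc 343, .ofNat 584⟩, ⟨.negSucc 2588, .negSucc 1018, .ofNat 745, .negSucc 184, .ofNat 429, .negSucc 2196⟩, ⟨.negSucc 1114, .ofNat 120, .ofNat 150, .ofNat 1614, .negSucc 84, .negSucc 285⟩, .ofNat 459, .ofNat 203, .ofNat 0, .ofNat 203, .ofNat 1936, .ofNat 0, .ofNat 191, .negSucc 127, .negSucc 171, .ofNat 0, .ofNat 94, .ofNat 22, .ofNat 0, .ofNat 0, .ofNat 376, .ofNat 2803, .ofNat 289914223328693838728877430152221202862571520, .ofNat 0, .ofNat 11951529223408144365962123299656994652160, .ofNat 0, .ofNat 0, .ofNat 0, .ofNat 0, .ofNat 0, .ofNat 0, .ofNat 0, .ofNat 0, .ofNat 0, .ofNat 817858617286650287761360746351723921174167552,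 .ofNat 0, .ofNat 114914546964844871488756008076379525480448, .ofNat 0⟩)
    (by decide +kernel)
theorem L01110 : Good (Phi V5.P V5.D (-1) (-1)) ⟨3, 4, 2, 0, 1, 1, 3, 1, 4, 0⟩ :=
  leafX_sound T5.ok_mm T5.Ymm.bz_eq (w := 191) (c := ⟨⟨.ofNat 1849, .ofNat 403, .ofNat 372, .negSucc 398, .ofNat 185, .negSucc 2604⟩, ⟨.negSucc 233, .negSucc 207, .negSucc 153, .ofNat 143, .negSucc 22, .ofNat 371⟩, ⟨.negSucc 1038, .negSucc 186, .negSucc 35, .ofNat 858, .negSucc 193, .ofNat 1022⟩, ⟨.ofNat 3672, .ofNat 406, .ofNat 694, .negSucc 411, .ofNat 410, .negSucc 5241⟩, ⟨.negSucc 2474, .negSucc 359, .ofNat 547, .ofNat 3239, .ofNat 475, .negSucc 412⟩, .ofNat 516, .ofNat 368, .ofNat 0, .ofNat 368, .ofNat 3007, .ofNat 0, .ofNat 285, .negSucc 127, .negSucc 145, .ofNat 0, .ofNat 73, .ofNat 22, .ofNat 0, .ofNat 0, .ofNat 294, .ofNat 538, .ofNat 0, .ofNat 0, .ofNat 0, .ofNat 0, .ofNat 0, .ofNat 0, .ofNat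 0, .ofNat 0, .ofNat 0, .ofNat 0, .ofNat 66852901913226032252279454695424, .ofNat 0, .ofNat 0, .ofNat 0, .ofNat 0, .ofNat 0⟩)
    (by decide +kernel)
theorem L01111 : Good (Phi V5.P V5.D (-1) (-1)) ⟨3, 4, 2, 0, 1, 1, 3, 1, 4, 1⟩ :=
  leafX_sound T5.ok_mm T5.Ymm.bz_eq (w := 190) (c := ⟨⟨.negSucc 626, .negSucc 602, .ofNat 324, .negSucc 158, .ofNat 141, .negSucc 1372⟩, ⟨.negSucc 167, .ofNat 185, .ofNat 333, .ofNat 48, .negSucc 21, .ofNat 200⟩, ⟨.ofNat 203, .ofNat 487, .negSucc 102, .ofNat 215, .negSucc 220, .ofNat 915⟩, ⟨.negSucc 1615, .negSucc 866, .ofNat 487, .negSucc 197, .ofNat 291, .negSucc 2825⟩, ⟨.negSucc 2072, .ofNat 5, .ofNat 270, .ofNat 1089, .negSucc 2, .ofNat 368⟩, .ofNat 472, .ofNat 267, .ofNat 0, .ofNat 267, .ofNat 2141, .ofNat 0, .ofNat 225, .negSucc 127, .negSucc 118, .ofNat 0, .ofNat 78, .ofNat 23, .ofNat 0, .ofNat 0, .ofNat 243, .ofNat 426, .ofNat 0, .ofNat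 0, .ofNat 0, .ofNat 0, .ofNat 0, .ofNat 0, .ofNat 0, .ofNat 0, .ofNat 0, .ofNat 0, .ofNat 0, .ofNat 0, .ofNat 0, .ofNat 0, .ofNat 0, .ofNat 0⟩)
    (by decide +kernel)
theorem L01112 : Good (Phi V5.P V5.D (-1) (-1)) ⟨3, 4, 2, 0, 2, 2, 2, 1, 4, 0⟩ :=
  leafX_sound T5.ok_mm T5.Ymm.bz_eq (w := 201) (c := ⟨⟨.ofNat 1424, .ofNat 436, .ofNat 66, .ofNat 829, .negSucc 259, .negSucc 2301⟩, ⟨.negSucc 147, .negSucc 187, .negSucc 183, .negSucc 31, .ofNat 64, .ofNat 322⟩, ⟨.negSucc 845, .negSucc 315, .negSucc 16, .negSucc 308, .negSucc 90, .ofNat 1218⟩, ⟨.ofNat 3161, .ofNat 359, .negSucc 40, .ofNat 1722, .negSucc 545, .negSucc 4824⟩, ⟨.negSucc 599, .negSucc 354, .negSucc 26, .negSucc 264, .ofNat 479, .negSucc 620⟩, .ofNat 461, .ofNat 215, .ofNat 0, .ofNat 215, .ofNat 1958, .ofNat 0, .ofNat 277, .negSucc 127, .negSucc 143, .ofNat 0, .ofNat 118, .ofNat 23, .ofNat 0, .ofNat 0, .ofNat 247,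 .ofNat 441, .ofNat 0, .ofNat 0, .ofNat 0, .ofNat 0, .ofNat 0, .ofNat 0, .ofNat 0, .ofNat 0, .ofNat 0, .ofNat 0, .ofNat 0, .ofNat 0, .ofNat 0, .ofNat 0, .ofNat 0, .ofNat 0⟩)
    (by decide +kernel)
theorem L01113 : Good (Phi V5.P V5.D (-1) (-1)) ⟨3, 4, 2, 0, 2, 2, 2, 1, 4, 1⟩ :=
  leafX_sound T5.ok_mm T5.Ymm.bz_eq (w := 200) (c := ⟨⟨.negSucc 642, .negSucc 488, .ofNat 226, .ofNat 223, .ofNat 73, .negSucc 1355⟩, ⟨.negSucc 132, .ofNat 156, .ofNat 296, .negSucc 34, .negSucc 30, .ofNat 221⟩, ⟨.ofNat 189, .ofNat 399, .negSucc 158, .negSucc 246, .negSucc 68, .ofNat 956⟩, ⟨.negSucc 1525, .negSucc 645, .ofNat 227, .ofNat 419, .ofNat 170, .negSucc 2828⟩, ⟨.negSucc 1285, .ofNat 20, .ofNat 91, .negSucc 491, .ofNat 383, .ofNat 209⟩, .ofNat 463, .ofNat 221, .ofNat 0, .ofNat 221, .ofNat 1989, .ofNat 0, .ofNat 348, .negSucc 127, .negSucc 149, .ofNat 0, .ofNat 110, .ofNat 26, .ofNat 0, .ofNat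 0, .ofNat 303, .ofNat 452, .ofNat 0, .ofNat 0, .ofNat 0, .ofNat 0, .ofNat 0, .ofNat 0, .ofNat 0, .ofNat 0, .ofNat 0, .ofNat 0, .ofNat 0, .ofNat 0, .ofNat 0, .ofNat 0, .ofNat 0, .ofNat 0⟩)
    (by decide +kernel)
theorem L01114 : Good (Phi V5.P V5.D (-1) (-1)) ⟨3, 4, 2, 0, 2, 3, 2, 1, 4, 0⟩ :=
  leafX_sound T5.ok_mm T5.Ymm.bz_eq (w := 202) (c := ⟨⟨.ofNat 2350, .ofNat 313, .ofNat 47, .negSucc 996, .negSucc 365, .negSucc 2005⟩, ⟨.negSucc 267, .negSucc 130, .negSucc 175, .ofNat 240, .ofNat 80, .ofNat 249⟩, ⟨.negSucc 1337, .negSucc 200, .ofNat 203, .ofNat 1151, .ofNat 54, .ofNat 808⟩, ⟨.ofNat 4990, .ofNat 328, .ofNat 153, .negSucc 1758, .negSucc 807, .negSucc 4373⟩, ⟨.ofNat 252, .negSucc 458, .ofNat 554, .ofNat 1935, .negSucc 504, .negSucc 1814⟩, .ofNat 457, .ofNat 210, .ofNat 0, .ofNat 210, .ofNat 1918, .ofNat 0, .ofNat 393, .negSucc 127, .negSucc 292, .ofNat 0, .ofNat 127, .ofNat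 43, .ofNat 0, .ofNat 0, .ofNat 395, .ofNat 707, .ofNat 0, .ofNat 0, .ofNat 0, .ofNat 0, .ofNat 0, .ofNat 0, .ofNat 0, .ofNat 0, .ofNat 0, .ofNat 0, .ofNat 0, .ofNat 0, .ofNat 0, .ofNat 0, .ofNat 0, .ofNat 0⟩)
    (by decide +kernel)
theorem L01115 : Good (Phi V5.P V5.D (-1) (-1)) ⟨3, 4, 2, 0, 2, 3, 2, 1, 4, 1⟩ :=
  leafX_sound T5.ok_mm T5.Ymm.bz_eq (w := 201) (c := ⟨⟨.negSucc 649, .negSucc 394, .ofNat 397, .negSucc 42, .ofNat 260, .negSucc 1304⟩, ⟨.negSucc 157, .ofNat 139, .ofNat 291, .ofNat 17, .negSucc 49, .ofNat 218⟩, ⟨.ofNat 317, .ofNat 315, .negSucc 126, .ofNat 50, .negSucc 252, .ofNat 670⟩, ⟨.negSucc 1524, .negSucc 534, .ofNat 652, .negSucc 15, .ofNat 483, .negSucc 2763⟩, ⟨.negSucc 1119, .negSucc 239, .ofNat 155, .ofNat 741, .negSucc 210, .negSucc 370⟩, .ofNat 466, .ofNat 234, .ofNat 0, .ofNat 234, .ofNat 2017, .ofNat 0, .ofNat 308, .negSucc 127, .negSucc 270, .ofNat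 0, .ofNat 101, .ofNat 45, .ofNat 0, .ofNat 0, .ofNat 424, .ofNat 689, .ofNat 0, .ofNat 0, .ofNat 0, .ofNat 0, .ofNat 0, .ofNat 0, .ofNat 0, .ofNat 0, .ofNat 0, .ofNat 0, .ofNat 56160461622457261473178097306042368, .ofNat 0, .ofNat 0, .ofNat 0, .ofNat 0, .ofNat 0⟩)
    (by decide +kernel)
theorem L01116 : Good (Phi V5.P V5.D (-1) (-1)) ⟨3, 5, 2, 0, 2, 2, 4, 0, 5, 0⟩ :=
  leafX_sound T5.ok_mm T5.Ymm.bz_eq (w := 215) (c := ⟨⟨.ofNat 1406, .ofNat 1772, .ofNat 123, .ofNat 1659, .negSucc 22, .negSucc 1498⟩, ⟨.negSucc 195, .negSucc 1074, .negSucc 48, .negSucc 504, .ofNat 31, .ofNat 341⟩, ⟨.negSucc 284, .negSucc 541, .negSucc 84, .ofNat 192, .negSucc 381, .ofNat 320⟩, ⟨.ofNat 2693, .ofNat 1860, .negSucc 90, .ofNat 2601, .ofNat 90, .negSucc 2791⟩, ⟨.negSucc 2578, .negSucc 833, .ofNat 518, .negSucc 1136, .ofNat 474, .negSucc 350⟩, .ofNat 455, .ofNat 321, .ofNat 0, .ofNat 321, .ofNat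 1535, .ofNat 0, .ofNat 128, .negSucc 214, .negSucc 84, .ofNat 0, .ofNat 117, .ofNat 25, .ofNat 0, .ofNat 0, .ofNat 226, .ofNat 2438, .ofNat 0, .ofNat 0, .ofNat 393877202313923439273592989942917627904, .ofNat 0, .ofNat 0, .ofNat 0, .ofNat 2238817078106526264704505421596916187136, .ofNat 0, .ofNat 27980310051491297010770197303909413587779584, .ofNat 0, .ofNat 10333556639946286843408871418285025918976, .ofNat 0, .ofNat 0, .ofNat 0, .ofNat 9216983017561965430191255487390689525760, .ofNat 0⟩)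
    (by decide +kernel)
theorem L01117 : Good (Phi V5.P V5.D (-1) (-1)) ⟨3, 5, 2, 0, 2, 2, 4, 0, 5, 1⟩ :=
  leafX_sound T5.ok_mm T5.Ymm.bz_eq (w := 214) (c := ⟨⟨.ofNat 193, .ofNat 773, .ofNat 292, .ofNat 1183, .ofNat 347, .negSucc 1813⟩, ⟨.negSucc 157, .negSucc 579, .ofNat 191, .negSucc 416, .negSucc 105, .ofNat 456⟩, ⟨.ofNat 161, .negSucc 349, .negSucc 137, .negSucc 19, .negSucc 380, .ofNat 650⟩, ⟨.ofNat 205, .ofNat 766, .ofNat 103, .ofNat 1701, .ofNat 636, .negSucc 3168⟩, ⟨.negSucc 2594, .negSucc 712, .ofNat 226, .negSucc 1470, .ofNat 425, .ofNat 177⟩, .ofNat 450, .ofNat 301, .ofNat 0, .ofNat 301, .ofNat 1521, .ofNat 0, .ofNat 128, .negSucc 254, .negSucc 105, .ofNat 0, .ofNat 139, .ofNat 32, .ofNat 0, .ofNat 0, .ofNat 252, .ofNat 2202, .ofNat 14503141692400936601643804996110104989270016, .ofNat 0, .ofNat 498729006335691360758398133815969054720, .ofNat 0, .ofNat 0, .ofNat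 0, .ofNat 0, .ofNat 0, .ofNat 33874287836638808318416920292864847436054528, .ofNat 0, .ofNat 7012765471830592925810777930318219313152, .ofNat 0, .ofNat 0, .ofNat 0, .ofNat 8723890132812028872864030452908365447168, .ofNat 0⟩)
    (by decide +kernel)
theorem L01118 : Good (Phi V5.P V5.D (-1) (-1)) ⟨3, 5, 2, 0, 2, 2, 4, 0, 5, 2⟩ :=
  leafX_sound T5.ok_mm T5.Ymm.bz_eq (w := 214) (c := ⟨⟨.negSucc 769, .negSucc 214, .ofNat 366, .ofNat 200, .ofNat 100, .negSucc 1582⟩, ⟨.negSucc 188, .negSucc 90, .ofNat 380, .negSucc 108, .negSucc 8, .ofNat 456⟩, ⟨.ofNat 390, .ofNat 216, .negSucc 300, .ofNat 357, .negSucc 166, .ofNat 858⟩, ⟨.negSucc 1825, .negSucc 370, .ofNat 239, .ofNat 133, .ofNat 223, .negSucc 2619⟩, ⟨.negSucc 2235, .negSucc 304, .negSucc 195, .negSucc 838, .ofNat 171, .ofNat 576⟩, .ofNat 449, .ofNat 303, .ofNat 0, .ofNat 303, .ofNat 1525, .ofNat 0, .ofNat 128, .negSucc 234, .negSucc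 96, .ofNat 0, .ofNat 128, .ofNat 31, .ofNat 0, .ofNat 0, .ofNat 238, .ofNat 2134, .ofNat 14686153212009139639212572690919287989207040, .ofNat 0, .ofNat 0, .ofNat 0, .ofNat 0, .ofNat 0, .ofNat 0, .ofNat 0, .ofNat 0, .ofNat 0, .ofNat 0, .ofNat 0, .ofNat 0, .ofNat 0, .ofNat 7813465485331671857365804235125206024192, .ofNat 0⟩)
    (by decide +kernel)
theorem L01119 : Good (Phi V5.P V5.D (-1) (-1)) ⟨3, 5, 2, 0, 2, 2, 4, 0, 5, 3⟩ :=
  leafX_sound T5.ok_mm T5.Ymm.bz_eq (w := 215) (c := ⟨⟨.negSucc 1853, .negSucc 880, .ofNat 214, .negSucc 297, .ofNat 139, .negSucc 723⟩, ⟨.negSucc 16, .ofNat 323, .ofNat 510, .ofNat 50, .negSucc 32, .ofNat 208⟩, ⟨.ofNat 1143, .ofNat 611, .negSucc 308, .ofNat 467, .negSucc 211, .ofNat 604⟩, ⟨.negSucc 3818, .negSucc 1050, .ofNat 113, .negSucc 646, .ofNat 234, .negSucc 1188⟩, ⟨.negSucc 1687, .negSucc 93, .negSucc 79, .negSucc 368, .ofNat 11, .ofNat 440⟩,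 .ofNat 447, .ofNat 293, .ofNat 0, .ofNat 293, .ofNat 1508, .ofNat 0, .ofNat 128, .negSucc 170, .negSucc 129, .ofNat 0, .ofNat 106, .ofNat 42, .ofNat 0, .ofNat 0, .ofNat 332, .ofNat 5432, .ofNat 23744264092915388327745675930964491337990144, .ofNat 0, .ofNat 0, .ofNat 0, .ofNat 21955844193256730393439529061318589293789184, .ofNat 0, .ofNat 1720310191403582915203153348682980524032, .ofNat 0, .ofNat 0, .ofNat 0, .ofNat 0, .ofNat 0, .ofNat 0, .ofNat 0, .ofNat 31951222737820177028042845921917345464320, .ofNat 0⟩)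
    (by decide +kernel)
theorem L01120 : Good (Phi V5.P V5.D (-1) (-1)) ⟨4, 10, 2, 0, 3, 6, 4, 0, 4, 0⟩ :=
  leafX_sound T5.ok_mm T5.Ymm.bz_eq (w := 228) (c := ⟨⟨.ofNat 2642, .ofNat 514, .ofNat 167, .negSucc 1072, .ofNat 334, .negSucc 3145⟩, ⟨.negSucc 619, .negSucc 327, .ofNat 41, .ofNat 251, .negSucc 18, .ofNat 567⟩, ⟨.negSucc 456, .negSucc 252, .ofNat 53, .ofNat 607, .negSucc 389, .ofNat 1387⟩, ⟨.ofNat 4554, .ofNat 544, .negSucc 1, .negSucc 1678, .ofNat 701, .negSucc 5967⟩, ⟨.negSucc 3827, .negSucc 582, .ofNat 649, .ofNat 1899, .ofNat 480, .negSucc 169⟩, .ofNat 451, .ofNat 289, .ofNat 0, .ofNat 289, .ofNat 1679, .ofNat 0, .ofNat 128, .negSucc 132, .negSucc 138, .ofNat 0, .ofNat 73, .ofNat 31, .ofNat 0, .ofNat 0, .ofNat 256, .ofNat 2252, .ofNat 0, .ofNat 0, .ofNat 0, .ofNat 0, .ofNat 0, .ofNat 0, .ofNat 0, .ofNat 0, .ofNat 0, .ofNat 0, .ofNat 0, .ofNat 0, .ofNat 66458932971626676363437903350189530202628947968,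 .ofNat 0, .ofNat 0, .ofNat 0⟩)
    (by decide +kernel)
theorem L01121 : Good (Phi V5.P V5.D (-1) (-1)) ⟨4, 11, 2, 0, 3, 6, 4, 0, 4, 0⟩ :=
  leafX_sound T5.ok_mm T5.Ymm.bz_eq (w := 228) (c := ⟨⟨.ofNat 4083, .ofNat 1306, .negSucc 355, .negSucc 1787, .ofNat 128, .negSucc 3714⟩, ⟨.negSucc 1393, .negSucc 708, .ofNat 305, .ofNat 581, .ofNat 71, .ofNat 897⟩, ⟨.negSucc 989, .negSucc 739, .ofNat 376, .ofNat 993, .negSucc 520, .ofNat 1684⟩, ⟨.ofNat 6320, .ofNat 1554, .negSucc 836, .negSucc 2463, .ofNat 453, .negSucc 6745⟩, ⟨.negSucc 4576, .negSucc 1065, .ofNat 772, .ofNat 2128, .ofNat 707, .negSucc 431⟩, .ofNat 441, .ofNat 293, .ofNat 0, .ofNat 293, .ofNat 1325, .ofNat 0, .ofNat 128, .negSucc 193, .negSucc 259, .ofNat 0, .ofNat 108, .ofNat 76, .ofNat 0, .ofNat 0, .ofNat 368, .ofNat 2196, .ofNat 64467642666692873952976570089621022894733656064, .ofNat 0, .ofNat 0, .ofNat 0, .ofNat 0,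 .ofNat 0, .ofNat 750662385275760054271582517778843135115264, .ofNat 0, .ofNat 111667632889952246839938827091190003063440015360, .ofNat 0, .ofNat 1855591273551441140978012214042470618497024, .ofNat 0, .ofNat 82390654235310744368046090191666858816253722624, .ofNat 0, .ofNat 3090746082234749139071698842725210380042240, .ofNat 0⟩)
    (by decide +kernel)
theorem L01122 : Good (Phi V5.P V5.D (-1) (-1)) ⟨3, 5, 2, 0, 3, 7, 4, 0, 4, 0⟩ :=
  leafX_sound T5.ok_mm T5.Ymm.bz_eq (w := 223) (c := ⟨⟨.ofNat 1545, .negSucc 372, .ofNat 555, .negSucc 1688, .ofNat 337, .negSucc 3015⟩, ⟨.negSucc 620, .ofNat 105, .ofNat 70, .ofNat 631, .negSucc 24, .ofNat 660⟩, ⟨.ofNat 191, .ofNat 392, .ofNat 123, .ofNat 133, .negSucc 356, .ofNat 1432⟩, ⟨.ofNat 2437, .negSucc 657, .ofNat 892, .negSucc 2382, .ofNat 695, .negSucc 5584⟩, ⟨.negSucc 1172, .negSucc 984, .negSucc 142, .ofNat 3043, .ofNat 93, .negSucc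 560⟩, .ofNat 446, .ofNat 291, .ofNat 0, .ofNat 291, .ofNat 1468, .ofNat 0, .ofNat 128, .negSucc 224, .negSucc 208, .ofNat 0, .ofNat 132, .ofNat 41, .ofNat 0, .ofNat 0, .ofNat 302, .ofNat 900, .ofNat 0, .ofNat 0, .ofNat 0, .ofNat 0, .ofNat 0, .ofNat 0, .ofNat 0, .ofNat 0, .ofNat 0, .ofNat 0, .ofNat 18613654565404230038741427141226208675495936, .ofNat 0, .ofNat 1545135717559448285063688924419419063938187264, .ofNat 0, .ofNat 2855739437482768741260487642850282048585728, .ofNat 0⟩)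
    (by decide +kernel)
theorem L01123 : Good (Phi V5.P V5.D (-1) (-1)) ⟨4, 10, 2, 0, 3, 6, 4, 0, 5, 2⟩ :=
  leafX_sound T5.ok_mm T5.Ymm.bz_eq (w := 234) (c := ⟨⟨.negSucc 663, .negSucc 371, .ofNat 570, .negSucc 770, .ofNat 251, .negSucc 1662⟩, ⟨.negSucc 243, .ofNat 63, .ofNat 322, .ofNat 213, .negSucc 24, .ofNat 393⟩, ⟨.ofNat 880, .ofNat 411, .negSucc 433, .ofNat 962, .negSucc 493, .ofNat 1079⟩, ⟨.negSucc 1803, .negSucc 597, .ofNat 638, .negSucc 1209, .ofNat 511, .negSucc 2858⟩, ⟨.negSucc 3295, .negSucc 139, .negSucc 161, .ofNat 1277, .negSucc 3, .ofNat 1154⟩, .ofNat 448, .ofNat 280, .ofNat 0, .ofNat 280, .ofNat 1647, .ofNat 0, .ofNat 138, .negSucc 127, .negSucc 237, .ofNat 0, .ofNat 71, .ofNat 61, .ofNat 0, .ofNat 0, .ofNat 422, .ofNat 7081, .ofNat 2005626305400934971244499018621651644870337495040, .ofNat 0, .ofNat 0, .ofNat 0, .ofNat 0, .ofNat 0, .ofNat 0, .ofNat 0, .ofNat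 0, .ofNat 0, .ofNat 11825946986233683498194277066516668566470656, .ofNat 0, .ofNat 0, .ofNat 0, .ofNat 0, .ofNat 0⟩)
    (by decide +kernel)
theorem L01124 : Good (Phi V5.P V5.D (-1) (-1)) ⟨4, 10, 2, 0, 3, 6, 5, 0, 5, 3⟩ :=
  leafX_sound T5.ok_mm T5.Ymm.bz_eq (w := 239) (c := ⟨⟨.negSucc 2353, .negSucc 655, .ofNat 463, .negSucc 433, .ofNat 212, .negSucc 596⟩, ⟨.ofNat 92, .ofNat 224, .ofNat 458, .ofNat 132, .negSucc 54, .ofNat 145⟩, ⟨.ofNat 1953, .ofNat 632, .negSucc 562, .ofNat 907, .negSucc 335, .ofNat 512⟩, ⟨.negSucc 4820, .negSucc 852, .ofNat 613, .negSucc 649, .ofNat 349, .negSucc 993⟩, ⟨.negSucc 2114, .ofNat 288, .negSucc 175, .ofNat 849, .negSucc 111, .ofNat 619⟩, .ofNat 443, .ofNat 262, .ofNat 0, .ofNat 262, .ofNat 1598, .ofNat 0, .ofNat 143, .negSucc 127, .negSucc 174, .ofNat 0, .ofNat 79, .ofNat 47, .ofNat 0, .ofNat 0, .ofNat 360, .ofNat 21822, .ofNat 43854646479405768333637252738772064482862630436864,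 .ofNat 0, .ofNat 0, .ofNat 0, .ofNat 0, .ofNat 0, .ofNat 0, .ofNat 0, .ofNat 0, .ofNat 0, .ofNat 0, .ofNat 0, .ofNat 0, .ofNat 0, .ofNat 0, .ofNat 0⟩)
    (by decide +kernel)
theorem L01125 : Good (Phi V5.P V5.D (-1) (-1)) ⟨4, 10, 2, 0, 3, 6, 5, 1, 5, 3⟩ :=
  leafX_sound T5.ok_mm T5.Ymm.bz_eq (w := 238) (c := ⟨⟨.negSucc 2269, .negSucc 680, .ofNat 447, .negSucc 336, .ofNat 115, .negSucc 591⟩, ⟨.ofNat 73, .ofNat 222, .ofNat 453, .ofNat 106, .negSucc 16, .ofNat 145⟩, ⟨.ofNat 1725, .ofNat 660, .negSucc 504, .ofNat 742, .negSucc 171, .ofNat 474⟩, ⟨.negSucc 4674, .negSucc 907, .ofNat 570, .negSucc 497, .ofNat 238, .negSucc 1008⟩, ⟨.negSucc 2159, .ofNat 401, .negSucc 69, .ofNat 841, .negSucc 104, .ofNat 554⟩, .ofNat 449, .ofNat 281, .ofNat 0, .ofNat 281, .ofNat 1674, .ofNat 0, .ofNat 177, .negSucc 127, .negSucc 191, .ofNat 0, .ofNat 77, .ofNat 51, .ofNat 0, .ofNat 0, .ofNat 381,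 .ofNat 10060, .ofNat 0, .ofNat 0, .ofNat 0, .ofNat 0, .ofNat 0, .ofNat 0, .ofNat 0, .ofNat 0, .ofNat 0, .ofNat 0, .ofNat 0, .ofNat 0, .ofNat 0, .ofNat 0, .ofNat 0, .ofNat 0⟩)
    (by decide +kernel)
theorem L01126 : Good (Phi V5.P V5.D (-1) (-1)) ⟨4, 11, 2, 0, 3, 6, 5, 0, 5, 2⟩ :=
  leafX_sound T5.ok_mm T5.Ymm.bz_eq (w := 238) (c := ⟨⟨.ofNat 81, .negSucc 825, .ofNat 748, .negSucc 1581, .negSucc 141, .negSucc 2710⟩, ⟨.negSucc 700, .ofNat 270, .ofNat 322, .ofNat 540, .ofNat 66, .ofNat 918⟩, ⟨.ofNat 507, .ofNat 692, .negSucc 544, .ofNat 1708, .negSucc 161, .ofNat 1791⟩, ⟨.negSucc 907, .negSucc 1167, .ofNat 926, .negSucc 2341, .negSucc 160, .negSucc 4157⟩, ⟨.negSucc 4391, .ofNat 229, .negSucc 335, .ofNat 1892, .ofNat 306, .ofNat 2055⟩, .ofNat 452, .ofNat 322, .ofNat 0, .ofNat 322, .ofNat 1380, .ofNat 0, .ofNat 128, .negSucc 213, .negSucc 328, .ofNat 0, .ofNat 119, .ofNat 113,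 .ofNat 0, .ofNat 0, .ofNat 449, .ofNat 6086, .ofNat 15592010714176452116182442870691819722471620214784, .ofNat 0, .ofNat 0, .ofNat 0, .ofNat 0, .ofNat 0, .ofNat 21521597463465974257217002060841688164728832, .ofNat 0, .ofNat 0, .ofNat 0, .ofNat 1359527688612562605105272910280055604364967936, .ofNat 0, .ofNat 0, .ofNat 0, .ofNat 3105246066872273205772429153876960223688654848, .ofNat 0⟩)
    (by decide +kernel)
theorem L01127 : Good (Phi V5.P V5.D (-1) (-1)) ⟨4, 11, 2, 0, 3, 6, 5, 1, 5, 2⟩ :=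
  leafX_sound T5.ok_mm T5.Ymm.bz_eq (w := 237) (c := ⟨⟨.negSucc 236, .negSucc 538, .ofNat 1070, .negSucc 1186, .ofNat 34, .negSucc 2806⟩, ⟨.negSucc 517, .ofNat 131, .ofNat 165, .ofNat 398, .negSucc 22, .ofNat 960⟩, ⟨.ofNat 524, .ofNat 502, .negSucc 748, .ofNat 1276, .negSucc 180, .ofNat 1920⟩, ⟨.negSucc 1260, .negSucc 767, .ofNat 1345, .negSucc 1788, .ofNat 97, .negSucc 4297⟩, ⟨.negSucc 3792, .negSucc 85, .negSucc 610, .ofNat 1637, .ofNat 265, .ofNat 1746⟩, .ofNat 451, .ofNat 321, .ofNat 0, .ofNat 321, .ofNat 1368, .ofNat 0, .ofNat 128, .negSucc 213, .negSucc 250, .ofNat 0, .ofNat 121, .ofNat 87, .ofNat 0, .ofNat 0, .ofNat 327, .ofNat 2524, .ofNat 0, .ofNat 0, .ofNat 0, .ofNat 0, .ofNat 0, .ofNat 0, .ofNat 0, .ofNat 0, .ofNat 0, .ofNat 0, .ofNat 0, .ofNat 0, .ofNat 0, .ofNat 0, .ofNat 1585060425942060005592319013053492719209414656, .ofNat 0⟩)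
    (by decide +kernel)
theorem L01128 : Good (Phi V5.P V5.D (-1) (-1)) ⟨4, 11, 2, 0, 3, 6, 5, 0, 6, 6⟩ :=
  leafX_sound T5.ok_mm T5.Ymm.bz_eq (w := 244) (c := ⟨⟨.negSucc 2873, .negSucc 1266, .ofNat 858, .negSucc 1109, .ofNat 160, .negSucc 399⟩, ⟨.ofNat 195, .ofNat 528, .ofNat 360, .ofNat 404, .negSucc 38, .ofNat 137⟩, ⟨.ofNat 2413, .ofNat 1025, .negSucc 810, .ofNat 1530, .negSucc 298, .ofNat 362⟩, ⟨.negSucc 5563, .negSucc 1615, .ofNat 1183, .negSucc 1582, .ofNat 270, .negSucc 586⟩, ⟨.negSucc 1821, .ofNat 660, .negSucc 508, .ofNat 1485, .negSucc 283, .ofNat 394⟩, .ofNat 441, .ofNat 293, .ofNat 0, .ofNat 293, .ofNat 1325, .ofNat 0, .ofNat 128, .negSucc 184, .negSucc 281, .ofNat 0, .ofNat 109, .ofNat 100, .ofNat 0, .ofNat 0, .ofNat 417, .ofNat 14339, .ofNat 237825598169858478307218544177660855520630610591744, .ofNat 0, .ofNat 0, .ofNat 0, .ofNat 0, .ofNat 0, .ofNat 24020023732108599283335142723404253037252837376,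 .ofNat 0, .ofNat 72637205675017777124728047198448016513958433259520, .ofNat 0, .ofNat 80457053313069078241582913531088170906424442880, .ofNat 0, .ofNat 77032628044411300022903917383069549634842974486528, .ofNat 0, .ofNat 116902255664192142236980830954537958847459360768, .ofNat 0⟩)
    (by decide +kernel)
theorem L01129 : Good (Phi V5.P V5.D (-1) (-1)) ⟨4, 11, 2, 0, 3, 6, 5, 1, 6, 6⟩ :=
  leafX_sound T5.ok_mm T5.Ymm.bz_eq (w := 243) (c := ⟨⟨.negSucc 2680, .negSucc 1221, .ofNat 912, .negSucc 1026, .ofNat 129, .negSucc 570⟩, ⟨.ofNat 147, .ofNat 491, .ofNat 325, .ofNat 380, .negSucc 34, .ofNat 213⟩, ⟨.ofNat 2116, .ofNat 1021, .negSucc 856, .ofNat 1399, .negSucc 221, .ofNat 472⟩, ⟨.negSucc 5263, .negSucc 1586, .ofNat 1249, .negSucc 1444, .ofNat 228, .negSucc 803⟩, ⟨.negSucc 2009, .ofNat 548, .negSucc 495, .ofNat 1363, .negSucc 118, .ofNat 457⟩, .ofNat 441, .ofNat 293, .ofNat 0,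 .ofNat 293, .ofNat 1325, .ofNat 0, .ofNat 128, .negSucc 198, .negSucc 300, .ofNat 0, .ofNat 119, .ofNat 106, .ofNat 0, .ofNat 0, .ofNat 423, .ofNat 6918, .ofNat 0, .ofNat 0, .ofNat 0, .ofNat 0, .ofNat 0, .ofNat 0, .ofNat 36339885577648972577780570787397794005159772160, .ofNat 0, .ofNat 0, .ofNat 0, .ofNat 91958728116846956023925875940850823928270028800, .ofNat 0, .ofNat 0, .ofNat 0, .ofNat 119219844766977568583075196930692229160272658432, .ofNat 0⟩)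
    (by decide +kernel)
theorem L01130 : Good (Phi V5.P V5.D (-1) (-1)) ⟨4, 11, 2, 0, 4, 12, 5, 0, 6, 7⟩ :=
  leafX_sound T5.ok_mm T5.Ymm.bz_eq (w := 260) (c := ⟨⟨.negSucc 3288, .negSucc 1159, .ofNat 664, .negSucc 398, .ofNat 137, .negSucc 255⟩, ⟨.ofNat 344, .ofNat 490, .ofNat 437, .ofNat 148, .negSucc 48, .ofNat 92⟩, ⟨.ofNat 2795, .ofNat 1000, .negSucc 864, .ofNat 723, .negSucc 273, .ofNat 282⟩, ⟨.negSucc 6155, .negSucc 1419, .ofNat 892, .negSucc 564, .ofNat 186, .negSucc 364⟩, ⟨.negSucc 1520, .ofNat 680, .negSucc 413, .ofNat 569, .negSucc 101, .ofNat 313⟩, .ofNat 443, .ofNat 298, .ofNat 0, .ofNat 298, .ofNat 1324, .ofNat 0, .ofNat 128, .negSucc 221, .negSucc 294, .ofNat 0, .ofNat 136, .ofNat 109, .ofNat 0, .ofNat 0, .ofNat 503, .ofNat 52737, .ofNat 3320316429218209749583657723143271337169643672990384128, .ofNat 0, .ofNat 0, .ofNat 0, .ofNat 0, .ofNat 0, .ofNat 646250150030747978164926219483172200377660146188288,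 .ofNat 0, .ofNat 0, .ofNat 0, .ofNat 2734179260735126927109696565184656514243841956511744, .ofNat 0, .ofNat 0, .ofNat 0, .ofNat 3705539275995823666069613970026138455983674095566848, .ofNat 0⟩)
    (by decide +kernel)
theorem L01131 : Good (Phi V5.P V5.D (-1) (-1)) ⟨4, 11, 2, 0, 4, 13, 5, 0, 6, 7⟩ :=
  leafX_sound T5.ok_mm T5.Ymm.bz_eq (w := 258) (c := ⟨⟨.negSucc 3946, .negSucc 1318, .ofNat 921, .negSucc 221, .ofNat 130, .negSucc 64⟩, ⟨.ofNat 547, .ofNat 604, .ofNat 350, .ofNat 97, .negSucc 47, .ofNat 36⟩, ⟨.ofNat 3764, .ofNat 1177, .negSucc 963, .ofNat 371, .negSucc 347, .ofNat 80⟩, ⟨.negSucc 7196, .negSucc 1571, .ofNat 1365, .negSucc 285, .ofNat 186, .negSucc 58⟩, ⟨.negSucc 900, .ofNat 850, .negSucc 619, .ofNat 522, .ofNat 46, .ofNat 155⟩, .ofNat 453, .ofNat 327, .ofNat 0, .ofNat 327, .ofNat 1396, .ofNat 0, .ofNat 128, .negSucc 195, .negSucc 279, .ofNat 0, .ofNat 123, .ofNat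 101, .ofNat 0, .ofNat 0, .ofNat 458, .ofNat 23807, .ofNat 1202492183330253947386034148280560248474442703914926080, .ofNat 0, .ofNat 0, .ofNat 0, .ofNat 0, .ofNat 0, .ofNat 600245478574036226761833529673029656388456998240256, .ofNat 0, .ofNat 756636524343942987015712039898694581985529919415779328, .ofNat 0, .ofNat 2124412435057916010296800573569556582246177474347008, .ofNat 0, .ofNat 1044867641045899022217499692792784560717329383513128960, .ofNat 0, .ofNat 2346767922647592524034796486099416756380391385858048, .ofNat 0⟩)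
    (by decide +kernel)
theorem L01132 : Good (Phi V5.P V5.D (-1) (-1)) ⟨4, 11, 2, 0, 3, 6, 5, 1, 6, 7⟩ :=
  leafX_sound T5.ok_mm T5.Ymm.bz_eq (w := 243) (c := ⟨⟨.negSucc 3459, .negSucc 1120, .ofNat 773, .negSucc 555, .ofNat 95, .negSucc 66⟩, ⟨.ofNat 400, .ofNat 491, .ofNat 393, .ofNat 212, .negSucc 37, .ofNat 29⟩, ⟨.ofNat 2781, .ofNat 980, .negSucc 830, .ofNat 976, .negSucc 201, .ofNat 93⟩, ⟨.negSucc 6448, .negSucc 1357, .ofNat 1102, .negSucc 760, .ofNat 132, .negSucc 69⟩, ⟨.negSucc 1406, .ofNat 589, .negSucc 418, .ofNat 1073, .negSucc 72, .ofNat 91⟩, .ofNat 452, .ofNat 322, .ofNat 0, .ofNat 322, .ofNat 1374, .ofNat 0, .ofNat 128, .negSucc 166, .negSucc 270, .ofNat 0, .ofNat 103, .ofNat 99, .ofNat 0, .ofNat 0, .ofNat 434, .ofNat 7867, .ofNat 0, .ofNat 0, .ofNat 0, .ofNat 0, .ofNat 0, .ofNat 0, .ofNat 40350829841261719322903059388561399786017652736, .ofNat 0, .ofNat 0, .ofNat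 0, .ofNat 89073337046151461854206933787967455948940771328, .ofNat 0, .ofNat 0, .ofNat 0, .ofNat 130841624165854618464203923514961245715182911488, .ofNat 0⟩)
    (by decide +kernel)
theorem L01133 : Good (Phi V5.P V5.D (-1) (-1)) ⟨3, 5, 2, 0, 3, 7, 4, 0, 5, 2⟩ :=
  leafX_sound T5.ok_mm T5.Ymm.bz_eq (w := 229) (c := ⟨⟨.negSucc 2009, .negSucc 1949, .ofNat 1073, .negSucc 260, .ofNat 255, .negSucc 975⟩, ⟨.ofNat 9, .ofNat 778, .ofNat 201, .ofNat 227, .negSucc 76, .ofNat 266⟩, ⟨.ofNat 2400, .ofNat 1275, .negSucc 553, .negSucc 1388, .negSucc 188, .ofNat 551⟩, ⟨.negSucc 4222, .negSucc 2579, .ofNat 1747, .ofNat 34, .ofNat 365, .negSucc 1663⟩, ⟨.negSucc 1537, .ofNat 685, .negSucc 594, .ofNat 2497, .negSucc 176, .ofNat 391⟩, .ofNat 439, .ofNat 266, .ofNat 0, .ofNat 266, .ofNat 1426, .ofNat 0, .ofNat 128, .negSucc 280, .negSucc 303, .ofNat 0, .ofNat 168, .ofNat 70, .ofNat 0, .ofNat 0,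 .ofNat 466, .ofNat 1639, .ofNat 16472657902691187538310625850948043655058817024, .ofNat 0, .ofNat 8901862110467476371438793431226627041263616, .ofNat 0, .ofNat 0, .ofNat 0, .ofNat 97925793621126709981170195246962250191208448, .ofNat 0, .ofNat 0, .ofNat 0, .ofNat 891736584251211799579485666479714534219055104, .ofNat 0, .ofNat 0, .ofNat 0, .ofNat 539273070853024824447151384794723361260306432, .ofNat 0⟩)
    (by decide +kernel)
theorem L01134 : Good (Phi V5.P V5.D (-1) (-1)) ⟨3, 5, 2, 0, 3, 7, 4, 0, 5, 3⟩ :=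
  leafX_sound T5.ok_mm T5.Ymm.bz_eq (w := 229) (c := ⟨⟨.negSucc 3185, .negSucc 1822, .ofNat 792, .ofNat 359, .ofNat 145, .negSucc 70⟩, ⟨.ofNat 298, .ofNat 795, .ofNat 304, .ofNat 3, .negSucc 37, .ofNat 16⟩, ⟨.ofNat 3143, .ofNat 1329, .negSucc 412, .negSucc 1671, .negSucc 254, .ofNat 46⟩, ⟨.negSucc 6214, .negSucc 2201, .ofNat 1255, .ofNat 863, .ofNat 226, .negSucc 110⟩, ⟨.negSucc 638, .ofNat 563, .negSucc 525, .ofNat 1202, .negSucc 131, .ofNat 63⟩, .ofNat 499, .ofNat 397, .ofNat 0, .ofNat 397, .ofNat 2027, .ofNat 0, .ofNat 128, .negSucc 330, .negSucc 258, .ofNat 0, .ofNat 198, .ofNat 62, .ofNat 0, .ofNat 0, .ofNat 488, .ofNat 2270, .ofNat 8897549713757682634838908451267946905170083840, .ofNat 0, .ofNat 7861430221337348583225717960513112544116736, .ofNat 0, .ofNat 0, .ofNat 0, .ofNat 86273514234650194586313662879694905612959744, .ofNat 0, .ofNat 0, .ofNat 0, .ofNat 1056618391993202986215097940109536800358268928,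 .ofNat 0, .ofNat 0, .ofNat 0, .ofNat 608473692804984588008742609264039177394061312, .ofNat 0⟩)
    (by decide +kernel)
theorem L01135 : Good (Phi V5.P V5.D (-1) (-1)) ⟨3, 5, 2, 0, 2, 2, 4, 1, 4, 0⟩ :=
  leafX_sound T5.ok_mm T5.Ymm.bz_eq (w := 209) (c := ⟨⟨.ofNat 1750, .ofNat 1564, .ofNat 18, .ofNat 1351, .negSucc 30, .negSucc 3355⟩, ⟨.negSucc 382, .negSucc 946, .ofNat 40, .negSucc 381, .ofNat 68, .ofNat 838⟩, ⟨.negSucc 550, .negSucc 728, .ofNat 42, .negSucc 94, .negSucc 298, .ofNat 1156⟩, ⟨.ofNat 3178, .ofNat 1640, .negSucc 176, .ofNat 2227, .ofNat 41, .negSucc 5999⟩, ⟨.negSucc 2566, .negSucc 717, .ofNat 704, .negSucc 560, .ofNat 489, .negSucc 362⟩, .ofNat 451, .ofNat 307, .ofNat 0, .ofNat 307, .ofNat 1509, .ofNat 0, .ofNat 128, .negSucc 191, .negSucc 96, .ofNat 0, .ofNat 111, .ofNat 28, .ofNat 0, .ofNat 0, .ofNat 202, .ofNat 879, .ofNat 0, .ofNat 0, .ofNat 0, .ofNat 0, .ofNat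 0, .ofNat 0, .ofNat 0, .ofNat 0, .ofNat 0, .ofNat 0, .ofNat 0, .ofNat 0, .ofNat 0, .ofNat 0, .ofNat 181165049043372300606556156860034973696, .ofNat 0⟩)
    (by decide +kernel)
theorem L01136 : Good (Phi V5.P V5.D (-1) (-1)) ⟨3, 5, 2, 0, 2, 3, 4, 1, 4, 0⟩ :=
  leafX_sound T5.ok_mm T5.Ymm.bz_eq (w := 210) (c := ⟨⟨.ofNat 2862, .ofNat 837, .ofNat 716, .negSucc 3213, .ofNat 431, .negSucc 2853⟩, ⟨.negSucc 732, .negSucc 614, .negSucc 154, .ofNat 1073, .negSucc 50, .ofNat 601⟩, ⟨.negSucc 843, .negSucc 310, .negSucc 141, .ofNat 1801, .negSucc 449, .ofNat 1066⟩, ⟨.ofNat 5010, .ofNat 794, .ofNat 873, .negSucc 4615, .ofNat 782, .negSucc 5536⟩, ⟨.negSucc 2449, .negSucc 261, .negSucc 111, .ofNat 3962, .negSucc 17, .negSucc 1468⟩, .ofNat 451, .ofNat 304, .ofNat 0, .ofNat 304, .ofNat 1526, .ofNat 0, .ofNat 128, .negSucc 176, .negSucc 210, .ofNat 0, .ofNat 104, .ofNat 48, .ofNat 0, .ofNat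 0, .ofNat 301, .ofNat 629, .ofNat 0, .ofNat 0, .ofNat 23889880780682798183021047674447069184, .ofNat 0, .ofNat 0, .ofNat 0, .ofNat 65963492063317803389019391239936540672, .ofNat 0, .ofNat 0, .ofNat 0, .ofNat 168268023907503197117036511392952221696, .ofNat 0, .ofNat 0, .ofNat 0, .ofNat 283261488990301137961246883623657799680, .ofNat 0⟩)
    (by decide +kernel)
theorem L01137 : Good (Phi V5.P V5.D (-1) (-1)) ⟨3, 5, 2, 0, 3, 4, 4, 1, 4, 1⟩ :=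
  leafX_sound T5.ok_mm T5.Ymm.bz_eq (w := 223) (c := ⟨⟨.negSucc 668, .negSucc 594, .ofNat 215, .negSucc 111, .negSucc 19, .negSucc 1931⟩, ⟨.negSucc 256, .ofNat 181, .ofNat 404, .ofNat 5, .ofNat 28, .ofNat 545⟩, ⟨.ofNat 343, .ofNat 477, .negSucc 297, .negSucc 52, .negSucc 39, .ofNat 1431⟩, ⟨.negSucc 1805, .negSucc 658, .ofNat 91, .negSucc 266, .ofNat 14, .negSucc 3189⟩, ⟨.negSucc 1920, .negSucc 159, .ofNat 15, .negSucc 507, .ofNat 46, .ofNat 853⟩, .ofNat 444, .ofNat 286, .ofNat 0, .ofNat 286, .ofNat 1451, .ofNat 0, .ofNat 141, .negSucc 127, .negSucc 56, .ofNat 0, .ofNat 86, .ofNat 18, .ofNat 0, .ofNat 0, .ofNat 134, .ofNat 1141, .ofNat 0, .ofNat 0, .ofNat 0, .ofNat 0, .ofNat 0, .ofNat 0, .ofNat 0, .ofNat 0, .ofNat 0, .ofNat 0, .ofNat 0, .ofNat 0, .ofNat 0, .ofNat 0, .ofNat 119233414634609136532377424032963881861120, .ofNat 0⟩)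
    (by decide +kernel)
theorem L01138 : Good (Phi V5.P V5.D (-1) (-1)) ⟨3, 5, 2, 0, 3, 5, 4, 1, 4, 1⟩ :=
  leafX_sound T5.ok_mm T5.Ymm.bz_eq (w := 223) (c := ⟨⟨.negSucc 320, .negSucc 696, .ofNat 298, .negSucc 197, .ofNat 153, .negSucc 2698⟩, ⟨.negSucc 416, .ofNat 187, .ofNat 427, .ofNat 72, .negSucc 52, .ofNat 815⟩, ⟨.ofNat 82, .ofNat 537, .negSucc 338, .ofNat 453, .negSucc 172, .ofNat 1776⟩, ⟨.negSucc 1327, .negSucc 896, .ofNat 178, .negSucc 312, .ofNat 266, .negSucc 4350⟩, ⟨.negSucc 3020, .negSucc 108, .negSucc 13, .negSucc 21, .ofNat 114, .ofNat 1648⟩, .ofNat 452, .ofNat 312, .ofNat 0, .ofNat 312, .ofNat 1518, .ofNat 0, .ofNat 128, .negSucc 152, .negSucc 132, .ofNat 0, .ofNat 86, .ofNat 42, .ofNat 0, .ofNat 0, .ofNat 245, .ofNat 649, .ofNat 0, .ofNat 0, .ofNat 0, .ofNat 0, .ofNat 0, .ofNat 0, .ofNat 0, .ofNat 0, .ofNat 0, .ofNat 0, .ofNat 0, .ofNat 0, .ofNat 0, .ofNat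 0, .ofNat 0, .ofNat 0⟩)
    (by decide +kernel)
theorem L01139 : Good (Phi V5.P V5.D (-1) (-1)) ⟨3, 5, 2, 0, 3, 6, 4, 1, 5, 2⟩ :=
  leafX_sound T5.ok_mm T5.Ymm.bz_eq (w := 229) (c := ⟨⟨.ofNat 40, .negSucc 906, .ofNat 758, .negSucc 869, .ofNat 259, .negSucc 2278⟩, ⟨.negSucc 503, .ofNat 199, .ofNat 254, .ofNat 309, .negSucc 58, .ofNat 665⟩, ⟨.ofNat 149, .ofNat 820, .negSucc 514, .ofNat 1013, .negSucc 436, .ofNat 1489⟩, ⟨.negSucc 690, .negSucc 1414, .ofNat 942, .negSucc 1245, .ofNat 506, .negSucc 3784⟩, ⟨.negSucc 2921, .negSucc 274, .negSucc 205, .ofNat 842, .ofNat 178, .ofNat 851⟩, .ofNat 443, .ofNat 283, .ofNat 0, .ofNat 283, .ofNat 1441, .ofNat 0, .ofNat 128, .negSucc 255, .negSucc 307, .ofNat 0, .ofNat 148, .ofNat 90, .ofNat 0, .ofNat 0, .ofNat 421, .ofNat 1782, .ofNat 0, .ofNat 0, .ofNat 0, .ofNat 0, .ofNat 0, .ofNat 0, .ofNat 42550336569547546907382359880792639077875712,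 .ofNat 0, .ofNat 0, .ofNat 0, .ofNat 580186018118258808453743515720969301308473344, .ofNat 0, .ofNat 0, .ofNat 0, .ofNat 491626627610149740458238633970968024942903296, .ofNat 0⟩)
    (by decide +kernel)
theorem L01140 : Good (Phi V5.P V5.D (-1) (-1)) ⟨3, 5, 2, 0, 3, 6, 4, 1, 5, 3⟩ :=
  leafX_sound T5.ok_mm T5.Ymm.bz_eq (w := 229) (c := ⟨⟨.negSucc 2207, .negSucc 1589, .ofNat 650, .negSucc 303, .ofNat 193, .negSucc 713⟩, ⟨.ofNat 34, .ofNat 593, .ofNat 401, .ofNat 100, .negSucc 63, .ofNat 215⟩, ⟨.ofNat 1620, .ofNat 1346, .negSucc 639, .ofNat 693, .negSucc 369, .ofNat 583⟩, ⟨.negSucc 4584, .negSucc 2075, .ofNat 904, .negSucc 445, .ofNat 326, .negSucc 1141⟩, ⟨.negSucc 2063, .ofNat 484, .negSucc 141, .ofNat 530, .ofNat 33, .ofNat 594⟩, .ofNat 449, .ofNat 303, .ofNat 0, .ofNat 303, .ofNat 1525, .ofNat 0, .ofNat 128, .negSucc 215, .negSucc 286, .ofNat 0, .ofNat 130, .ofNat 89, .ofNat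 0, .ofNat 0, .ofNat 455, .ofNat 1900, .ofNat 0, .ofNat 0, .ofNat 0, .ofNat 0, .ofNat 0, .ofNat 0, .ofNat 77903855829851687446102380855620187554054144, .ofNat 0, .ofNat 0, .ofNat 0, .ofNat 748566307891429869784868104828645930312925184, .ofNat 0, .ofNat 0, .ofNat 0, .ofNat 678090303930686028478102027363396148476772352, .ofNat 0⟩)
    (by decide +kernel)

end Crest.Agent.R097C5.N5mm
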