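import Crest.Agent.R097.KP7
import Crest.Agent.R097.T5Ymm

/-!
# Row 97, box cover in dimension n = 5 (generated)
-/

set_option autoImplicit false
set_option Elab.async false
set_option maxHeartbeats 0
set_option maxRecDepth 100000

open Crest.Agent.R097 Crest.Agent.R097.KA


namespace Crest.Agent.R097C5.N5mm

theorem L01141 : Good (Phi V5.P V5.D (-1) (-1)) ⟨3, 5, 2, 0, 3, 7, 4, 1, 4, 1⟩ :=
  leafX_sound T5.ok_mm T5.Ymm.bz_eq (w := 223) (c := ⟨⟨.negSucc 2069, .negSucc 1573, .ofNat 826, .ofNat 225, .ofNat 189, .negSucc 1147⟩, ⟨.ofNat 67, .ofNat 626, .ofNat 270, .ofNat 65, .negSucc 61, .ofNat 278⟩, ⟨.ofNat 2123, .ofNat 1084, .negSucc 408, .negSucc 1234, .negSucc 194, .ofNat 655⟩, ⟨.negSucc 4171, .negSucc 2076, .ofNat 1344, .ofNat 721, .ofNat 276, .negSucc 2079⟩, ⟨.negSucc 1268, .ofNat 240, .negSucc 424, .ofNat 1678, .ofNat 46, .ofNat 266⟩, .ofNat 448,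 .ofNat 296, .ofNat 0, .ofNat 296, .ofNat 1489, .ofNat 0, .ofNat 128, .negSucc 169, .negSucc 233, .ofNat 0, .ofNat 108, .ofNat 59, .ofNat 0, .ofNat 0, .ofNat 362, .ofNat 950, .ofNat 0, .ofNat 0, .ofNat 311027516811736597564955175624081242324992, .ofNat 0, .ofNat 0, .ofNat 0, .ofNat 2197204401149011039460069554956457104900096, .ofNat 0, .ofNat 0, .ofNat 0, .ofNat 10812436094104985438393500446728663167139840, .ofNat 0, .ofNat 0, .ofNat 0, .ofNat 9166832184609303041799438712687451869020160, .ofNat 0⟩)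
    (by decide +kernel)
theorem L01142 : Good (Phi V5.P V5.D (-1) (-1)) ⟨3, 5, 2, 0, 2, 2, 3, 1, 4, 0⟩ :=
  leafX_sound T5.ok_mm T5.Ymm.bz_eq (w := 205) (c := ⟨⟨.ofNat 1919, .ofNat 925, .ofNat 249, .ofNat 1454, .negSucc 144, .negSucc 3283⟩, ⟨.negSucc 326, .negSucc 645, .negSucc 164, .negSucc 442, .ofNat 133, .ofNat 692⟩, ⟨.negSucc 883, .negSucc 508, .negSucc 90, .negSucc 391, .negSucc 262, .ofNat 1439⟩, ⟨.ofNat 3498, .ofNat 882, .ofNat 128, .ofNat 2433, .negSucc 27, .negSucc 6020⟩, ⟨.negSucc 2567, .negSucc 580, .ofNat 759, .negSucc 275, .ofNat 1110, .negSucc 274⟩, .ofNat 451, .ofNat 303, .ofNat 0, .ofNat 303, .ofNat 1548, .ofNat 0, .ofNat 132, .negSucc 127, .negSucc 110, .ofNat 0, .ofNat 79, .ofNat 30, .ofNat 0, .ofNat 0, .ofNat 184, .ofNat 283, .ofNat 0, .ofNat 0, .ofNat 587995134870040229771634550861987840, .ofNat 0, .ofNat 0, .ofNat 0, .ofNat 0, .ofNat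 0, .ofNat 0, .ofNat 0, .ofNat 0, .ofNat 0, .ofNat 0, .ofNat 0, .ofNat 8663397355373340766926449910227140608, .ofNat 0⟩)
    (by decide +kernel)
theorem L01143 : Good (Phi V5.P V5.D (-1) (-1)) ⟨3, 5, 2, 0, 2, 3, 3, 1, 4, 0⟩ :=
  leafX_sound T5.ok_mm T5.Ymm.bz_eq (w := 205) (c := ⟨⟨.ofNat 3283, .ofNat 589, .ofNat 267, .negSucc 2410, .ofNat 569, .negSucc 3143⟩, ⟨.negSucc 837, .negSucc 338, .negSucc 139, .ofNat 931, .negSucc 92, .ofNat 602⟩, ⟨.negSucc 1547, .negSucc 180, .ofNat 110, .ofNat 1628, .negSucc 580, .ofNat 1455⟩, ⟨.ofNat 5646, .ofNat 536, .ofNat 371, .negSucc 3413, .ofNat 1093, .negSucc 5950⟩, ⟨.negSucc 1861, .negSucc 617, .ofNat 581, .ofNat 3297, .ofNat 169, .negSucc 1269⟩, .ofNat 449, .ofNat 299, .ofNat 0, .ofNat 299, .ofNat 1494, .ofNat 0, .ofNat 131, .negSucc 127, .negSucc 177, .ofNat 0, .ofNat 80, .ofNat 41, .ofNat 0, .ofNat 0, .ofNat 225,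 .ofNat 330, .ofNat 0, .ofNat 0, .ofNat 801689903869075810127186411399413760, .ofNat 0, .ofNat 0, .ofNat 0, .ofNat 0, .ofNat 0, .ofNat 0, .ofNat 0, .ofNat 19888598278578916616998755653644189696, .ofNat 0, .ofNat 0, .ofNat 0, .ofNat 13175219851745919305310468651129765888, .ofNat 0⟩)
    (by decide +kernel)
theorem L01144 : Good (Phi V5.P V5.D (-1) (-1)) ⟨3, 5, 2, 0, 2, 2, 3, 1, 4, 1⟩ :=
  leafX_sound T5.ok_mm T5.Ymm.bz_eq (w := 204) (c := ⟨⟨.negSucc 481, .negSucc 542, .ofNat 154, .ofNat 34, .negSucc 62, .negSucc 2242⟩, ⟨.negSucc 259, .ofNat 160, .ofNat 388, .negSucc 77, .ofNat 76, .ofNat 589⟩, ⟨.ofNat 183, .ofNat 438, .negSucc 201, .negSucc 7, .negSucc 5, .ofNat 1551⟩, ⟨.negSucc 1373, .negSucc 625, .negSucc 1, .negSucc 98, .ofNat 25, .negSucc 3838⟩, ⟨.negSucc 2101, .negSucc 247, .ofNat 128, .negSucc 359, .ofNat 278, .ofNat 935⟩, .ofNat 446, .ofNat 294,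 .ofNat 0, .ofNat 294, .ofNat 1463, .ofNat 0, .ofNat 128, .negSucc 131, .negSucc 122, .ofNat 0, .ofNat 86, .ofNat 37, .ofNat 0, .ofNat 0, .ofNat 218, .ofNat 336, .ofNat 0, .ofNat 0, .ofNat 0, .ofNat 0, .ofNat 0, .ofNat 0, .ofNat 0, .ofNat 0, .ofNat 0, .ofNat 0, .ofNat 0, .ofNat 0, .ofNat 0, .ofNat 0, .ofNat 14368090313884252912555188030177017856, .ofNat 0⟩)
    (by decide +kernel)
theorem L01145 : Good (Phi V5.P V5.D (-1) (-1)) ⟨3, 5, 2, 0, 2, 3, 3, 1, 5, 2⟩ :=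
  leafX_sound T5.ok_mm T5.Ymm.bz_eq (w := 210) (c := ⟨⟨.negSucc 266, .negSucc 972, .ofNat 717, .negSucc 1398, .ofNat 549, .negSucc 1570⟩, ⟨.negSucc 317, .ofNat 279, .ofNat 199, .ofNat 497, .negSucc 158, .ofNat 396⟩, ⟨.ofNat 252, .ofNat 901, .negSucc 242, .ofNat 592, .negSucc 498, .ofNat 1018⟩, ⟨.negSucc 1097, .negSucc 1473, .ofNat 1146, .negSucc 1941, .ofNat 981, .negSucc 2845⟩, ⟨.negSucc 2256, .negSucc 346, .negSucc 47, .ofNat 2501, .ofNat 46, .negSucc 99⟩, .ofNat 449, .ofNat 303, .ofNat 0, .ofNat 303, .ofNat 1525, .ofNat 0, .ofNat 128, .negSucc 173, .negSucc 295, .ofNat 0, .ofNat 107, .ofNat 79, .ofNat 0, .ofNat 0, .ofNat 357, .ofNat 548, .ofNat 0, .ofNat 0, .ofNat 0, .ofNat 0, .ofNat 0, .ofNat 0, .ofNat 0, .ofNat 0, .ofNat 0, .ofNat 0, .ofNat 179608675123791987534585849794879553536, .ofNat 0, .ofNat 0, .ofNat 0, .ofNat 1392025151070223061926786447914081189888,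 .ofNat 0⟩)
    (by decide +kernel)
theorem L01146 : Good (Phi V5.P V5.D (-1) (-1)) ⟨3, 5, 2, 0, 2, 3, 3, 1, 5, 3⟩ :=
  leafX_sound T5.ok_mm T5.Ymm.bz_eq (w := 210) (c := ⟨⟨.negSucc 2519, .negSucc 1340, .ofNat 724, .ofNat 55, .ofNat 406, .negSucc 517⟩, ⟨.ofNat 149, .ofNat 531, .ofNat 347, .ofNat 38, .negSucc 129, .ofNat 149⟩, ⟨.ofNat 1983, .ofNat 1119, .negSucc 527, .negSucc 370, .negSucc 573, .ofNat 381⟩, ⟨.negSucc 5079, .negSucc 1750, .ofNat 1123, .ofNat 346, .ofNat 649, .negSucc 864⟩, ⟨.negSucc 1594, .negSucc 10, .negSucc 287, .ofNat 1245, .negSucc 39, .ofNat 208⟩, .ofNat 450, .ofNat 304, .ofNat 0, .ofNat 304, .ofNat 1495, .ofNat 0, .ofNat 128, .negSucc 148, .negSucc 306, .ofNat 0, .ofNat 95, .ofNat 89, .ofNat 0, .ofNat 0, .ofNat 431, .ofNat 541, .ofNat 0, .ofNat 0, .ofNat 32963943869547593757229488327649918976, .ofNat 0, .ofNat 0, .ofNat 0, .ofNat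 73934115596075392490253955796962377728, .ofNat 0, .ofNat 0, .ofNat 0, .ofNat 584287903401769551298706140208247603200, .ofNat 0, .ofNat 0, .ofNat 0, .ofNat 1972603151510238571302828895966301519872, .ofNat 0⟩)
    (by decide +kernel)
theorem L01147 : Good (Phi V5.P V5.D (-1) (-1)) ⟨4, 10, 2, 0, 2, 2, 2, 1, 4, 0⟩ :=
  leafX_sound T5.ok_mm T5.Ymm.bz_eq (w := 205) (c := ⟨⟨.ofNat 1851, .ofNat 314, .ofNat 183, .ofNat 1285, .negSucc 583, .negSucc 2910⟩, ⟨.negSucc 347, .negSucc 219, .negSucc 115, .negSucc 269, .ofNat 163, .ofNat 602⟩, ⟨.negSucc 1284, .negSucc 217, .ofNat 7, .negSucc 428, .negSucc 0, .ofNat 1621⟩, ⟨.ofNat 3403, .ofNat 354, .ofNat 127, .ofNat 2369, .negSucc 979, .negSucc 5513⟩, ⟨.negSucc 1490, .ofNat 251, .ofNat 324, .negSucc 172, .ofNat 576, .negSucc 563⟩, .ofNat 463, .ofNat 333, .ofNat 0, .ofNat 333, .ofNat 1774, .ofNat 0, .ofNat 200, .negSucc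 127, .negSucc 206, .ofNat 0, .ofNat 82, .ofNat 50, .ofNat 0, .ofNat 0, .ofNat 293, .ofNat 404, .ofNat 0, .ofNat 0, .ofNat 0, .ofNat 0, .ofNat 0, .ofNat 0, .ofNat 0, .ofNat 0, .ofNat 0, .ofNat 0, .ofNat 0, .ofNat 0, .ofNat 0, .ofNat 0, .ofNat 0, .ofNat 0⟩)
    (by decide +kernel)
theorem L01148 : Good (Phi V5.P V5.D (-1) (-1)) ⟨4, 10, 2, 0, 2, 3, 2, 1, 4, 0⟩ :=
  leafX_sound T5.ok_mm T5.Ymm.bz_eq (w := 206) (c := ⟨⟨.ofNat 3282, .ofNat 427, .negSucc 210, .negSucc 1665, .negSucc 300, .negSucc 2507⟩, ⟨.negSucc 557, .negSucc 214, .negSucc 141, .ofNat 427, .ofNat 97, .ofNat 432⟩, ⟨.negSucc 1983, .negSucc 219, .ofNat 462, .ofNat 1572, .negSucc 17, .ofNat 1156⟩, ⟨.ofNat 6068, .ofNat 545, .negSucc 320, .negSucc 2517, .negSucc 563, .negSucc 5074⟩, ⟨.negSucc 1040, .negSucc 85, .ofNat 687, .ofNat 2426, .negSucc 59, .negSucc 1245⟩, .ofNat 455, .ofNat 302, .ofNat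 0, .ofNat 302, .ofNat 1705, .ofNat 0, .ofNat 237, .negSucc 127, .negSucc 270, .ofNat 0, .ofNat 88, .ofNat 57, .ofNat 0, .ofNat 0, .ofNat 314, .ofNat 245, .ofNat 0, .ofNat 0, .ofNat 0, .ofNat 0, .ofNat 0, .ofNat 0, .ofNat 0, .ofNat 0, .ofNat 0, .ofNat 0, .ofNat 0, .ofNat 0, .ofNat 0, .ofNat 0, .ofNat 0, .ofNat 0⟩)
    (by decide +kernel)
theorem L01149 : Good (Phi V5.P V5.D (-1) (-1)) ⟨4, 10, 2, 0, 2, 2, 2, 1, 4, 1⟩ :=
  leafX_sound T5.ok_mm T5.Ymm.bz_eq (w := 205) (c := ⟨⟨.negSucc 889, .negSucc 460, .ofNat 538, .ofNat 202, .ofNat 97, .negSucc 1918⟩, ⟨.negSucc 100, .ofNat 121, .ofNat 315, .negSucc 100, .negSucc 20, .ofNat 455⟩, ⟨.ofNat 429, .ofNat 341, .negSucc 395, .negSucc 221, .negSucc 103, .ofNat 1395⟩, ⟨.negSucc 1901, .negSucc 689, .ofNat 799, .ofNat 275, .ofNat 218, .negSucc 3486⟩, ⟨.negSucc 1493, .ofNat 10, .negSucc 83, .negSucc 511, .ofNat 358,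 .ofNat 595⟩, .ofNat 453, .ofNat 298, .ofNat 0, .ofNat 298, .ofNat 1681, .ofNat 0, .ofNat 266, .negSucc 127, .negSucc 221, .ofNat 0, .ofNat 87, .ofNat 55, .ofNat 0, .ofNat 0, .ofNat 352, .ofNat 385, .ofNat 0, .ofNat 0, .ofNat 0, .ofNat 0, .ofNat 0, .ofNat 0, .ofNat 0, .ofNat 0, .ofNat 0, .ofNat 0, .ofNat 618992161802119467465162339322429440, .ofNat 0, .ofNat 0, .ofNat 0, .ofNat 0, .ofNat 0⟩)
    (by decide +kernel)
theorem L01150 : Good (Phi V5.P V5.D (-1) (-1)) ⟨4, 10, 2, 0, 2, 3, 2, 1, 5, 2⟩ :=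
  leafX_sound T5.ok_mm T5.Ymm.bz_eq (w := 210) (c := ⟨⟨.negSucc 401, .negSucc 332, .ofNat 610, .negSucc 778, .ofNat 400, .negSucc 1287⟩, ⟨.negSucc 135, .ofNat 41, .ofNat 179, .ofNat 213, .negSucc 118, .ofNat 277⟩, ⟨.ofNat 152, .ofNat 231, .negSucc 225, .ofNat 582, .negSucc 296, .ofNat 662⟩, ⟨.negSucc 1031, .negSucc 479, .ofNat 975, .negSucc 1144, .ofNat 638, .negSucc 2481⟩, ⟨.negSucc 1808, .ofNat 68, .ofNat 355, .ofNat 1336, .negSucc 395, .negSucc 123⟩, .ofNat 448, .ofNat 281, .ofNat 0, .ofNat 281, .ofNat 1649, .ofNat 0, .ofNat 170, .negSucc 127, .negSucc 347, .ofNat 0, .ofNat 85, .ofNat 75, .ofNat 0, .ofNat 0, .ofNat 400, .ofNat 550, .ofNat 0, .ofNat 0, .ofNat 0, .ofNat 0, .ofNat 0, .ofNat 0, .ofNat 0, .ofNat 0, .ofNat 0, .ofNat 0, .ofNat 2370601215504543186442802216629698560, .ofNat 0, .ofNat 0, .ofNat 0, .ofNat 0, .ofNat 0⟩)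
    (by decide +kernel)
theorem L01151 : Good (Phi V5.P V5.D (-1) (-1)) ⟨4, 10, 2, 0, 2, 3, 2, 1, 5, 3⟩ :=
  leafX_sound T5.ok_mm T5.Ymm.bz_eq (w := 210) (c := ⟨⟨.negSucc 2376, .negSucc 343, .ofNat 478, .ofNat 227, .ofNat 508, .negSucc 367⟩, ⟨.ofNat 196, .ofNat 109, .ofNat 347, .negSucc 35, .negSucc 128, .ofNat 89⟩, ⟨.ofNat 1545, .ofNat 242, .negSucc 235, .negSucc 235, .negSucc 490, .ofNat 173⟩, ⟨.negSucc 4644, .negSucc 451, .ofNat 716, .ofNat 503, .ofNat 840, .negSucc 732⟩, ⟨.negSucc 1291, .negSucc 46, .ofNat 106, .ofNat 418, .negSucc 366, .negSucc 79⟩, .ofNat 454, .ofNat 302, .ofNat 0, .ofNat 302, .ofNat 1693, .ofNat 0, .ofNat 128, .negSucc 129, .negSucc 254, .ofNat 0, .ofNat 87, .ofNat 60, .ofNat 0, .ofNat 0, .ofNat 330, .ofNat 657, .ofNat 0, .ofNat 0, .ofNat 0, .ofNat 0, .ofNat 0, .ofNat 0, .ofNat 0, .ofNat 0, .ofNat 0, .ofNat 0, .ofNat 0, .ofNat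 0, .ofNat 0, .ofNat 0, .ofNat 0, .ofNat 0⟩)
    (by decide +kernel)
theorem L01152 : Good (Phi V5.P V5.D (-1) (-1)) ⟨4, 11, 2, 0, 2, 2, 2, 1, 4, 0⟩ :=
  leafX_sound T5.ok_mm T5.Ymm.bz_eq (w := 205) (c := ⟨⟨.ofNat 2199, .ofNat 811, .negSucc 149, .ofNat 1722, .negSucc 559, .negSucc 3290⟩, ⟨.negSucc 498, .negSucc 473, .negSucc 116, .negSucc 460, .ofNat 229, .ofNat 767⟩, ⟨.negSucc 1423, .negSucc 620, .ofNat 285, .negSucc 724, .negSucc 177, .ofNat 1837⟩, ⟨.ofNat 3666, .ofNat 932, .negSucc 373, .ofNat 2959, .negSucc 826, .negSucc 5816⟩, ⟨.negSucc 1596, .negSucc 335, .ofNat 408, .negSucc 268, .ofNat 543, .negSucc 274⟩, .ofNat 450, .ofNat 316, .ofNat 0, .ofNat 316, .ofNat 1375, .ofNat 0, .ofNat 203, .negSucc 127, .negSucc 264, .ofNat 0, .ofNat 90, .ofNat 79, .ofNat 0, .ofNat 0, .ofNat 330, .ofNat 305, .ofNat 0, .ofNat 0, .ofNat 17813560489913275507335113092366336,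 .ofNat 0, .ofNat 0, .ofNat 0, .ofNat 0, .ofNat 0, .ofNat 0, .ofNat 0, .ofNat 0, .ofNat 0, .ofNat 0, .ofNat 0, .ofNat 239788076302724752088865686016753664, .ofNat 0⟩)
    (by decide +kernel)
theorem L01153 : Good (Phi V5.P V5.D (-1) (-1)) ⟨4, 11, 2, 0, 3, 6, 2, 1, 4, 0⟩ :=
  leafX_sound T5.ok_mm T5.Ymm.bz_eq (w := 220) (c := ⟨⟨.ofNat 4138, .ofNat 881, .negSucc 728, .negSucc 767, .negSucc 408, .negSucc 2683⟩, ⟨.negSucc 982, .negSucc 428, .ofNat 12, .ofNat 326, .ofNat 118, .ofNat 492⟩, ⟨.negSucc 2507, .negSucc 677, .ofNat 869, .ofNat 732, .negSucc 66, .ofNat 1335⟩, ⟨.ofNat 7011, .ofNat 1059, .negSucc 1050, .negSucc 969, .negSucc 570, .negSucc 5243⟩, ⟨.negSucc 1491, .negSucc 367, .ofNat 1055, .ofNat 1239, .ofNat 472, .negSucc 1642⟩, .ofNat 441, .ofNat 293, .ofNat 0, .ofNat 293, .ofNat 1325, .ofNat 0, .ofNat 171, .negSucc 127, .negSucc 354, .ofNat 0, .ofNat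 94, .ofNat 95, .ofNat 0, .ofNat 0, .ofNat 367, .ofNat 335, .ofNat 0, .ofNat 0, .ofNat 402343653428846111355638680922038992896, .ofNat 0, .ofNat 0, .ofNat 0, .ofNat 0, .ofNat 0, .ofNat 0, .ofNat 0, .ofNat 0, .ofNat 0, .ofNat 0, .ofNat 0, .ofNat 5711171777116415237389652122992870686720, .ofNat 0⟩)
    (by decide +kernel)
theorem L01154 : Good (Phi V5.P V5.D (-1) (-1)) ⟨4, 11, 2, 0, 3, 7, 2, 1, 4, 0⟩ :=
  leafX_sound T5.ok_mm T5.Ymm.bz_eq (w := 220) (c := ⟨⟨.ofNat 2872, .ofNat 110, .negSucc 8, .negSucc 2089, .ofNat 198, .negSucc 2430⟩, ⟨.negSucc 627, .negSucc 90, .negSucc 76, .ofNat 608, .negSucc 38, .ofNat 459⟩, ⟨.negSucc 1525, .negSucc 1, .ofNat 393, .ofNat 1560, .negSucc 319, .ofNat 1069⟩, ⟨.ofNat 5285, .ofNat 61, .ofNat 150, .negSucc 3288, .ofNat 210, .negSucc 4909⟩, ⟨.ofNat 546, .negSucc 34, .ofNat 790, .ofNat 1284, .negSucc 327, .negSucc 2297⟩, .ofNat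 441, .ofNat 293, .ofNat 0, .ofNat 293, .ofNat 1325, .ofNat 0, .ofNat 226, .negSucc 127, .negSucc 343, .ofNat 0, .ofNat 101, .ofNat 81, .ofNat 0, .ofNat 0, .ofNat 344, .ofNat 353, .ofNat 0, .ofNat 0, .ofNat 0, .ofNat 0, .ofNat 0, .ofNat 0, .ofNat 0, .ofNat 0, .ofNat 0, .ofNat 0, .ofNat 0, .ofNat 0, .ofNat 0, .ofNat 0, .ofNat 5971222194197739337007421295908586782720, .ofNat 0⟩)
    (by decide +kernel)
theorem L01155 : Good (Phi V5.P V5.D (-1) (-1)) ⟨4, 11, 2, 0, 3, 4, 2, 1, 4, 1⟩ :=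
  leafX_sound T5.ok_mm T5.Ymm.bz_eq (w := 219) (c := ⟨⟨.negSucc 1207, .negSucc 489, .ofNat 374, .ofNat 123, .negSucc 107, .negSucc 1870⟩, ⟨.negSucc 98, .ofNat 201, .ofNat 363, .negSucc 55, .ofNat 65, .ofNat 556⟩, ⟨.ofNat 591, .ofNat 394, .negSucc 338, .negSucc 230, .ofNat 109, .ofNat 1519⟩, ⟨.negSucc 2511, .negSucc 601, .ofNat 491, .ofNat 116, .negSucc 83, .negSucc 3058⟩, ⟨.negSucc 1652, .negSucc 43, .negSucc 87, .negSucc 389, .ofNat 456, .ofNat 932⟩, .ofNat 452, .ofNat 322, .ofNat 0, .ofNat 322, .ofNat 1394, .ofNat 0, .ofNat 265, .negSucc 127, .negSucc 208, .ofNat 0, .ofNat 91, .ofNat 66, .ofNat 0, .ofNat 0, .ofNat 313, .ofNat 250, .ofNat 0, .ofNat 0, .ofNat 0, .ofNat 0, .ofNat 0, .ofNat 0, .ofNat 0, .ofNat 0, .ofNat 0, .ofNat 0, .ofNat 0, .ofNat 0, .ofNat 0, .ofNat 0, .ofNat 0, .ofNat 0⟩)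
    (by decide +kernel)
theorem L01156 : Good (Phi V5.P V5.D (-1) (-1)) ⟨4, 11, 2, 0, 3, 5, 2, 1, 4, 1⟩ :=
  leafX_sound T5.ok_mm T5.Ymm.bz_eq (w := 218) (c := ⟨⟨.negSucc 542, .negSucc 706, .ofNat 516, .ofNat 61, .ofNat 26, .negSucc 2725⟩, ⟨.negSucc 415, .ofNat 263, .ofNat 378, .negSucc 1, .ofNat 29, .ofNat 850⟩, ⟨.ofNat 150, .ofNat 460, .negSucc 387, .negSucc 56, .negSucc 50, .ofNat 1989⟩, ⟨.negSucc 1544, .negSucc 996, .ofNat 789, .ofNat 78, .ofNat 125, .negSucc 4498⟩, ⟨.negSucc 2049, .ofNat 44, .ofNat 86, .negSucc 270, .ofNat 290, .ofNat 835⟩, .ofNat 441, .ofNat 293, .ofNat 0, .ofNat 293, .ofNat 1325, .ofNat 0, .ofNat 129, .negSucc 127, .negSucc 200, .ofNat 0, .ofNat 85, .ofNat 61, .ofNat 0, .ofNat 0, .ofNat 235, .ofNat 186, .ofNat 0, .ofNat 0, .ofNat 0, .ofNat 0, .ofNat 0, .ofNat 0, .ofNat 0, .ofNat 0, .ofNat 0, .ofNat 0, .ofNat 0, .ofNat 0, .ofNat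 0, .ofNat 0, .ofNat 3305115540323969340752966800559216525312, .ofNat 0⟩)
    (by decide +kernel)
theorem L01157 : Good (Phi V5.P V5.D (-1) (-1)) ⟨4, 11, 2, 0, 2, 3, 2, 1, 5, 2⟩ :=
  leafX_sound T5.ok_mm T5.Ymm.bz_eq (w := 210) (c := ⟨⟨.negSucc 403, .negSucc 324, .ofNat 758, .negSucc 1229, .ofNat 417, .negSucc 1413⟩, ⟨.negSucc 262, .ofNat 81, .ofNat 166, .ofNat 448, .negSucc 135, .ofNat 354⟩, ⟨.ofNat 161, .ofNat 299, .negSucc 363, .ofNat 989, .negSucc 368, .ofNat 750⟩, ⟨.negSucc 1165, .negSucc 489, .ofNat 1192, .negSucc 1692, .ofNat 671, .negSucc 2609⟩, ⟨.negSucc 2142, .negSucc 89, .ofNat 253, .ofNat 1665, .negSucc 194, .negSucc 356⟩, .ofNat 453, .ofNat 327, .ofNat 0, .ofNat 327, .ofNat 1389, .ofNat 0, .ofNat 128, .negSucc 139, .negSucc 291, .ofNat 0, .ofNat 90, .ofNat 82, .ofNat 0, .ofNat 0, .ofNat 288, .ofNat 228, .ofNat 0, .ofNat 0, .ofNat 0, .ofNat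 0, .ofNat 0, .ofNat 0, .ofNat 0, .ofNat 0, .ofNat 0, .ofNat 0, .ofNat 0, .ofNat 0, .ofNat 0, .ofNat 0, .ofNat 9719807079018768987892563916116459520, .ofNat 0⟩)
    (by decide +kernel)
theorem L01158 : Good (Phi V5.P V5.D (-1) (-1)) ⟨4, 11, 2, 0, 3, 6, 2, 1, 5, 3⟩ :=
  leafX_sound T5.ok_mm T5.Ymm.bz_eq (w := 225) (c := ⟨⟨.negSucc 2920, .negSucc 714, .ofNat 799, .ofNat 290, .ofNat 631, .negSucc 724⟩, ⟨.ofNat 327, .ofNat 261, .ofNat 314, .negSucc 94, .negSucc 203, .ofNat 245⟩, ⟨.ofNat 1959, .ofNat 523, .negSucc 547, .negSucc 105, .negSucc 679, .ofNat 475⟩, ⟨.negSucc 5453, .negSucc 958, .ofNat 1187, .ofNat 479, .ofNat 1028, .negSucc 1169⟩, ⟨.negSucc 1334, .ofNat 44, .negSucc 144, .negSucc 70, .negSucc 168, .ofNat 155⟩, .ofNat 452, .ofNat 322, .ofNat 0, .ofNat 322, .ofNat 1377, .ofNat 0, .ofNat 162, .negSucc 127, .negSucc 417, .ofNat 0, .ofNat 83, .ofNat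 132, .ofNat 0, .ofNat 0, .ofNat 468, .ofNat 815, .ofNat 0, .ofNat 0, .ofNat 0, .ofNat 0, .ofNat 0, .ofNat 0, .ofNat 28681230618381144695719754422082829549568, .ofNat 0, .ofNat 0, .ofNat 0, .ofNat 0, .ofNat 0, .ofNat 0, .ofNat 0, .ofNat 619547333378211619337453879327014294388736, .ofNat 0⟩)
    (by decide +kernel)
theorem L01159 : Good (Phi V5.P V5.D (-1) (-1)) ⟨4, 11, 2, 0, 4, 14, 2, 1, 5, 3⟩ :=
  leafX_sound T5.ok_mm T5.Ymm.bz_eq (w := 239) (c := ⟨⟨.negSucc 3115, .negSucc 569, .ofNat 875, .ofNat 212, .ofNat 815, .negSucc 367⟩, ⟨.ofNat 428, .ofNat 205, .ofNat 261, .negSucc 61, .negSucc 261, .ofNat 109⟩, ⟨.ofNat 2225, .ofNat 409, .negSucc 551, .negSucc 188, .negSucc 823, .ofNat 151⟩, ⟨.negSucc 5657, .negSucc 782, .ofNat 1299, .ofNat 378, .ofNat 1290, .negSucc 677⟩, ⟨.negSucc 1006, .negSucc 154, .negSucc 104, .ofNat 106, .negSucc 472, .negSucc 77⟩, .ofNat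 458, .ofNat 340, .ofNat 0, .ofNat 340, .ofNat 1408, .ofNat 0, .ofNat 128, .negSucc 140, .negSucc 352, .ofNat 0, .ofNat 95, .ofNat 106, .ofNat 0, .ofNat 0, .ofNat 391, .ofNat 738, .ofNat 0, .ofNat 0, .ofNat 0, .ofNat 0, .ofNat 0, .ofNat 0, .ofNat 603578192557830070125792361405474134223224832, .ofNat 0, .ofNat 0, .ofNat 0, .ofNat 0, .ofNat 0, .ofNat 0, .ofNat 0, .ofNat 7685775996774154717380520161948914682307805184, .ofNat 0⟩)
    (by decide +kernel)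
theorem L01160 : Good (Phi V5.P V5.D (-1) (-1)) ⟨4, 11, 2, 0, 4, 15, 2, 1, 5, 3⟩ :=
  leafX_sound T5.ok_mm T5.Ymm.bz_eq (w := 239) (c := ⟨⟨.negSucc 3117, .negSucc 439, .ofNat 657, .ofNat 135, .ofNat 922, .negSucc 68⟩, ⟨.ofNat 463, .ofNat 175, .ofNat 303, .negSucc 9, .negSucc 306, .ofNat 3⟩, ⟨.ofNat 2038, .ofNat 261, .negSucc 320, .negSucc 305, .negSucc 730, .ofNat 8⟩, ⟨.negSucc 5590, .negSucc 568, .ofNat 987, .ofNat 303, .ofNat 1383, .negSucc 194⟩, ⟨.negSucc 549, .negSucc 118, .negSucc 127, .ofNat 163, .negSucc 829, .negSucc 185⟩, .ofNat 460, .ofNat 346, .ofNat 0, .ofNat 346, .ofNat 1434, .ofNat 0, .ofNat 128, .negSucc 175, .negSucc 237, .ofNat 0, .ofNat 121, .ofNat 65, .ofNat 0, .ofNat 0, .ofNat 286, .ofNat 798, .ofNat 0, .ofNat 0, .ofNat 0, .ofNat 0, .ofNat 0, .ofNat 0, .ofNat 398187599258832379068453880032755204807983104, .ofNat 0, .ofNat 0, .ofNat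 0, .ofNat 0, .ofNat 0, .ofNat 0, .ofNat 0, .ofNat 5746488980013882289867729326635020076785336320, .ofNat 0⟩)
    (by decide +kernel)
theorem L01161 : Good (Phi V5.P V5.D (-1) (-1)) ⟨3, 4, 2, 0, 2, 2, 4, 0, 4, 2⟩ :=
  leafX_sound T5.ok_mm T5.Ymm.bz_eq (w := 213) (c := ⟨⟨.negSucc 1890, .negSucc 593, .ofNat 107, .negSucc 118, .negSucc 53, .negSucc 125⟩, ⟨.negSucc 49, .ofNat 235, .ofNat 485, .ofNat 9, .negSucc 0, .ofNat 29⟩, ⟨.ofNat 1164, .ofNat 587, .negSucc 365, .ofNat 221, .negSucc 79, .ofNat 477⟩, ⟨.negSucc 4282, .negSucc 647, .negSucc 19, .negSucc 264, .negSucc 99, .negSucc 223⟩, ⟨.negSucc 1508, .ofNat 57, .negSucc 52, .negSucc 205, .ofNat 148, .ofNat 315⟩, .ofNat 515, .ofNat 351, .ofNat 0, .ofNat 351, .ofNat 2986, .ofNat 0, .ofNat 243, .negSucc 127, .negSucc 130, .ofNat 0, .ofNat 82, .ofNat 27, .ofNat 0, .ofNat 0, .ofNat 550, .ofNat 33560, .ofNat 12549292035703630553918899252651242362503168,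 .ofNat 0, .ofNat 110889908818069362050812406042544046080, .ofNat 0, .ofNat 7708583262181451489294738521653779602866176, .ofNat 0, .ofNat 0, .ofNat 0, .ofNat 9153788936619827269497840041400122415775744, .ofNat 0, .ofNat 0, .ofNat 0, .ofNat 21262142419113564154925909648262550970695680, .ofNat 0, .ofNat 0, .ofNat 0⟩)
    (by decide +kernel)
theorem L01162 : Good (Phi V5.P V5.D (-1) (-1)) ⟨3, 4, 2, 0, 2, 2, 4, 1, 4, 2⟩ :=
  leafX_sound T5.ok_mm T5.Ymm.bz_eq (w := 212) (c := ⟨⟨.negSucc 1980, .negSucc 553, .ofNat 139, .negSucc 57, .ofNat 11, .negSucc 164⟩, ⟨.negSucc 37, .ofNat 231, .ofNat 465, .negSucc 1, .ofNat 5, .ofNat 31⟩, ⟨.ofNat 1149, .ofNat 578, .negSucc 329, .ofNat 95, .negSucc 70, .ofNat 426⟩, ⟨.negSucc 4452, .negSucc 554, .ofNat 65, .negSucc 160, .ofNat 27, .negSucc 303⟩, ⟨.negSucc 1343, .ofNat 72, .negSucc 72, .negSucc 272, .ofNat 113, .ofNat 333⟩,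 .ofNat 472, .ofNat 267, .ofNat 0, .ofNat 267, .ofNat 2141, .ofNat 0, .ofNat 415, .negSucc 127, .negSucc 149, .ofNat 0, .ofNat 92, .ofNat 35, .ofNat 0, .ofNat 0, .ofNat 607, .ofNat 13088, .ofNat 0, .ofNat 0, .ofNat 0, .ofNat 0, .ofNat 0, .ofNat 0, .ofNat 0, .ofNat 0, .ofNat 0, .ofNat 0, .ofNat 757770796329800556810287766590854266880, .ofNat 0, .ofNat 0, .ofNat 0, .ofNat 0, .ofNat 0⟩)
    (by decide +kernel)
theorem L01163 : Good (Phi V5.P V5.D (-1) (-1)) ⟨3, 4, 2, 0, 2, 2, 3, 1, 4, 2⟩ :=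
  leafX_sound T5.ok_mm T5.Ymm.bz_eq (w := 207) (c := ⟨⟨.negSucc 1931, .negSucc 569, .ofNat 131, .negSucc 87, .ofNat 69, .negSucc 194⟩, ⟨.negSucc 29, .ofNat 231, .ofNat 457, .negSucc 5, .negSucc 1, .ofNat 29⟩, ⟨.ofNat 1166, .ofNat 569, .negSucc 294, .negSucc 1, .negSucc 170, .ofNat 392⟩, ⟨.negSucc 4354, .negSucc 596, .ofNat 64, .negSucc 206, .ofNat 157, .negSucc 363⟩, ⟨.negSucc 1121, .ofNat 58, .negSucc 77, .negSucc 355, .ofNat 108, .ofNat 257⟩, .ofNat 459, .ofNat 203, .ofNat 0, .ofNat 203, .ofNat 1925, .ofNat 0, .ofNat 630, .negSucc 127, .negSucc 203, .ofNat 0, .ofNat 119, .ofNat 42, .ofNat 0, .ofNat 0, .ofNat 676, .ofNat 6301, .ofNat 0, .ofNat 0, .ofNat 0, .ofNat 0, .ofNat 0, .ofNat 0, .ofNat 0, .ofNat 0, .ofNat 0, .ofNat 0, .ofNat 107237095187070122708256462743848091648, .ofNat 0, .ofNat 0, .ofNat 0, .ofNat 0, .ofNat 0⟩)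
    (by decide +kernel)
theorem L01164 : Good (Phi V5.P V5.D (-1) (-1)) ⟨3, 4, 3, 0, 3, 6, 5, 0, 4, 2⟩ :=
  leafX_sound T5.ok_mm T5.Ymm.bz_eq (w := 236) (c := ⟨⟨.negSucc 2086, .negSucc 749, .ofNat 118, .negSucc 70, .ofNat 28, .ofNat 38⟩, ⟨.negSucc 36, .ofNat 252, .ofNat 230, .ofNat 25, .ofNat 5, .negSucc 10⟩, ⟨.ofNat 1612, .ofNat 844, .negSucc 190, .ofNat 390, .negSucc 131, .ofNat 51⟩, ⟨.negSucc 4714, .negSucc 941, .ofNat 114, .negSucc 87, .ofNat 77, .ofNat 38⟩, ⟨.negSucc 1633, .ofNat 135, .ofNat 8, .ofNat 479, .negSucc 23, .ofNat 30⟩, .ofNat 453, .ofNat 168, .ofNat 0, .ofNat 168, .ofNat 1886, .ofNat 0, .ofNat 440, .negSucc 127, .negSucc 211, .ofNat 0, .ofNat 116, .ofNat 41, .ofNat 0, .ofNat 0, .ofNat 781, .ofNat 136842, .ofNat 17842214393398462519031636357720305854147077341184, .ofNat 0, .ofNat 0, .ofNat 0, .ofNat 18741859449633937499112771955829766641626327810048,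 .ofNat 0, .ofNat 0, .ofNat 0, .ofNat 8277840640700004256248840402585052127699660701696, .ofNat 0, .ofNat 0, .ofNat 0, .ofNat 30900284969035437454282994113054829749547550375936, .ofNat 0, .ofNat 0, .ofNat 0⟩)
    (by decide +kernel)
theorem L01165 : Good (Phi V5.P V5.D (-1) (-1)) ⟨3, 4, 3, 0, 3, 6, 5, 1, 4, 2⟩ :=
  leafX_sound T5.ok_mm T5.Ymm.bz_eq (w := 234) (c := ⟨⟨.negSucc 2126, .negSucc 637, .ofNat 69, .ofNat 12, .negSucc 7, .ofNat 57⟩, ⟨.negSucc 26, .ofNat 236, .ofNat 239, .ofNat 7, .ofNat 2, .negSucc 2⟩, ⟨.ofNat 1527, .ofNat 763, .negSucc 142, .ofNat 248, .negSucc 102, .ofNat 135⟩, ⟨.negSucc 4772, .negSucc 722, .ofNat 34, .ofNat 45, .negSucc 9, .ofNat 111⟩, ⟨.negSucc 1582, .ofNat 125, .ofNat 17, .ofNat 268, .ofNat 68, .ofNat 91⟩, .ofNat 453, .ofNat 168, .ofNat 0, .ofNat 168, .ofNat 1886, .ofNat 0, .ofNat 430, .negSucc 127, .negSucc 233, .ofNat 0,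 .ofNat 117, .ofNat 45, .ofNat 0, .ofNat 0, .ofNat 803, .ofNat 47165, .ofNat 0, .ofNat 0, .ofNat 0, .ofNat 0, .ofNat 0, .ofNat 0, .ofNat 0, .ofNat 0, .ofNat 0, .ofNat 0, .ofNat 0, .ofNat 0, .ofNat 0, .ofNat 0, .ofNat 0, .ofNat 0⟩)
    (by decide +kernel)
theorem L01166 : Good (Phi V5.P V5.D (-1) (-1)) ⟨3, 4, 3, 0, 3, 6, 4, 1, 4, 2⟩ :=
  leafX_sound T5.ok_mm T5.Ymm.bz_eq (w := 229) (c := ⟨⟨.negSucc 2141, .negSucc 632, .ofNat 81, .ofNat 59, .ofNat 75, .ofNat 16⟩, ⟨.negSucc 15, .ofNat 229, .ofNat 232, .ofNat 4, .negSucc 9, .negSucc 0⟩, ⟨.ofNat 1498, .ofNat 695, .negSucc 148, .ofNat 152, .negSucc 245, .ofNat 140⟩, ⟨.negSucc 4790, .negSucc 728, .ofNat 69, .ofNat 140, .ofNat 152, .ofNat 24⟩, ⟨.negSucc 1381, .ofNat 29, .negSucc 5, .ofNat 114, .negSucc 27, .ofNat 91⟩, .ofNat 502, .ofNat 258, .ofNat 0, .ofNat 258, .ofNat 2772, .ofNat 0, .ofNat 376, .negSucc 127,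 .negSucc 151, .ofNat 0, .ofNat 103, .ofNat 25, .ofNat 0, .ofNat 0, .ofNat 509, .ofNat 13674, .ofNat 0, .ofNat 0, .ofNat 0, .ofNat 0, .ofNat 0, .ofNat 0, .ofNat 0, .ofNat 0, .ofNat 0, .ofNat 0, .ofNat 0, .ofNat 0, .ofNat 0, .ofNat 0, .ofNat 0, .ofNat 0⟩)
    (by decide +kernel)
theorem L01167 : Good (Phi V5.P V5.D (-1) (-1)) ⟨3, 4, 3, 0, 3, 6, 3, 1, 4, 2⟩ :=
  leafX_sound T5.ok_mm T5.Ymm.bz_eq (w := 224) (c := ⟨⟨.negSucc 2089, .negSucc 617, .ofNat 130, .ofNat 106, .ofNat 76, .negSucc 1⟩, ⟨.negSucc 11, .ofNat 218, .ofNat 221, .negSucc 11, .negSucc 8, .ofNat 4⟩, ⟨.ofNat 1330, .ofNat 633, .negSucc 177, .ofNat 36, .negSucc 271, .ofNat 147⟩, ⟨.negSucc 4653, .negSucc 718, .ofNat 169, .ofNat 202, .ofNat 152, .negSucc 13⟩, ⟨.negSucc 1307, .negSucc 71, .negSucc 48, .negSucc 9, .ofNat 39, .ofNat 96⟩, .ofNat 536, .ofNat 363, .ofNat 0, .ofNat 363, .ofNat 3753, .ofNat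 0, .ofNat 328, .negSucc 127, .negSucc 173, .ofNat 0, .ofNat 91, .ofNat 27, .ofNat 0, .ofNat 0, .ofNat 502, .ofNat 6498, .ofNat 0, .ofNat 0, .ofNat 0, .ofNat 0, .ofNat 0, .ofNat 0, .ofNat 0, .ofNat 0, .ofNat 0, .ofNat 0, .ofNat 0, .ofNat 0, .ofNat 0, .ofNat 0, .ofNat 0, .ofNat 0⟩)
    (by decide +kernel)
theorem L01168 : Good (Phi V5.P V5.D (-1) (-1)) ⟨3, 4, 3, 0, 3, 7, 2, 0, 4, 2⟩ :=
  leafX_sound T5.ok_mm T5.Ymm.bz_eq (w := 219) (c := ⟨⟨.negSucc 2261, .negSucc 503, .ofNat 127, .ofNat 133, .ofNat 213, .ofNat 191⟩, ⟨.ofNat 32, .ofNat 201, .ofNat 205, .ofNat 8, .negSucc 31, .negSucc 34⟩, ⟨.ofNat 1863, .ofNat 433, .negSucc 87, .negSucc 461, .negSucc 536, .negSucc 97⟩, ⟨.negSucc 4984, .negSucc 503, .ofNat 193, .ofNat 335, .ofNat 417, .ofNat 338⟩, ⟨.negSucc 920, .negSucc 25, .ofNat 58, .ofNat 624, .negSucc 269, .negSucc 311⟩, .ofNat 453, .ofNat 168, .ofNat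 0, .ofNat 168, .ofNat 1886, .ofNat 0, .ofNat 263, .negSucc 123, .negSucc 193, .ofNat 0, .ofNat 128, .ofNat 28, .ofNat 0, .ofNat 0, .ofNat 554, .ofNat 2784, .ofNat 0, .ofNat 0, .ofNat 0, .ofNat 0, .ofNat 0, .ofNat 0, .ofNat 0, .ofNat 0, .ofNat 0, .ofNat 0, .ofNat 0, .ofNat 0, .ofNat 3730220725134291175139200253103248960301039616, .ofNat 0, .ofNat 0, .ofNat 0⟩)
    (by decide +kernel)
theorem L01169 : Good (Phi V5.P V5.D (-1) (-1)) ⟨3, 4, 3, 1, 3, 6, 5, 0, 5, 4⟩ :=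
  leafX_sound T5.ok_mm T5.Ymm.bz_eq (w := 241) (c := ⟨⟨.negSucc 1953, .negSucc 716, .ofNat 82, .negSucc 41, .ofNat 6, .negSucc 82⟩, ⟨.ofNat 188, .ofNat 276, .ofNat 242, .ofNat 10, .ofNat 0, .ofNat 13⟩, ⟨.ofNat 1357, .ofNat 814, .negSucc 181, .ofNat 455, .negSucc 105, .ofNat 105⟩, ⟨.negSucc 4571, .negSucc 884, .ofNat 84, .ofNat 1, .ofNat 18, .negSucc 171⟩, ⟨.negSucc 1638, .ofNat 71, .ofNat 38, .ofNat 512, .negSucc 17, .ofNat 74⟩, .ofNat 488, .ofNat 340, .ofNat 0, .ofNat 340, .ofNat 2278, .ofNat 0, .ofNat 213, .negSucc 127, .negSucc 195, .ofNat 0, .ofNat 79, .ofNat 44, .ofNat 0, .ofNat 0, .ofNat 611, .ofNat 142071, .ofNat 108439467917333316115726316127930518797144314347520, .ofNat 0, .ofNat 2710128983505508490697475777327444477509369856, .ofNat 0, .ofNat 47761018922657272467571181028543436397730787753984, .ofNat 0, .ofNat 0, .ofNat 0, .ofNat 6106712759819752755806040211348681406816251281408,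 .ofNat 0, .ofNat 2763884228225969642608637594376236352894140416, .ofNat 0, .ofNat 0, .ofNat 0, .ofNat 0, .ofNat 0⟩)
    (by decide +kernel)
theorem L01170 : Good (Phi V5.P V5.D (-1) (-1)) ⟨3, 4, 3, 1, 3, 6, 5, 1, 5, 4⟩ :=
  leafX_sound T5.ok_mm T5.Ymm.bz_eq (w := 239) (c := ⟨⟨.negSucc 2011, .negSucc 685, .ofNat 116, .ofNat 36, .ofNat 51, .negSucc 95⟩, ⟨.ofNat 200, .ofNat 268, .ofNat 233, .negSucc 3, .negSucc 10, .ofNat 16⟩, ⟨.ofNat 1331, .ofNat 769, .negSucc 159, .ofNat 319, .negSucc 158, .ofNat 123⟩, ⟨.negSucc 4665, .negSucc 827, .ofNat 138, .ofNat 135, .ofNat 98, .negSucc 186⟩, ⟨.negSucc 1528, .ofNat 9, .negSucc 11, .ofNat 375, .negSucc 17, .ofNat 105⟩, .ofNat 484, .ofNat 323, .ofNat 0, .ofNat 323, .ofNat 2250, .ofNat 0, .ofNat 137, .negSucc 127, .negSucc 122, .ofNat 0, .ofNat 81, .ofNat 27, .ofNat 0, .ofNat 0, .ofNat 384, .ofNat 37329, .ofNat 0, .ofNat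 0, .ofNat 0, .ofNat 0, .ofNat 0, .ofNat 0, .ofNat 0, .ofNat 0, .ofNat 0, .ofNat 0, .ofNat 0, .ofNat 0, .ofNat 0, .ofNat 0, .ofNat 9272141306417890375535746097875163096339709952, .ofNat 0⟩)
    (by decide +kernel)
theorem L01171 : Good (Phi V5.P V5.D (-1) (-1)) ⟨3, 4, 3, 1, 3, 6, 4, 1, 5, 4⟩ :=
  leafX_sound T5.ok_mm T5.Ymm.bz_eq (w := 234) (c := ⟨⟨.negSucc 1953, .negSucc 654, .ofNat 166, .ofNat 35, .ofNat 61, .negSucc 158⟩, ⟨.ofNat 192, .ofNat 256, .ofNat 215, .ofNat 1, .negSucc 11, .ofNat 32⟩, ⟨.ofNat 1219, .ofNat 682, .negSucc 210, .ofNat 276, .negSucc 214, .ofNat 203⟩, ⟨.negSucc 4544, .negSucc 781, .ofNat 213, .ofNat 135, .ofNat 123, .negSucc 289⟩, ⟨.negSucc 1500, .negSucc 2, .ofNat 11, .ofNat 366, .negSucc 24, .ofNat 99⟩, .ofNat 481, .ofNat 312, .ofNat 0, .ofNat 312, .ofNat 2211, .ofNat 0, .ofNat 264, .negSucc 127, .negSucc 234, .ofNat 0, .ofNat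 83, .ofNat 52, .ofNat 0, .ofNat 0, .ofNat 662, .ofNat 19196, .ofNat 0, .ofNat 0, .ofNat 0, .ofNat 0, .ofNat 0, .ofNat 0, .ofNat 0, .ofNat 0, .ofNat 0, .ofNat 0, .ofNat 1184775617455539391673055171419275356023029760, .ofNat 0, .ofNat 0, .ofNat 0, .ofNat 0, .ofNat 0⟩)
    (by decide +kernel)
theorem L01172 : Good (Phi V5.P V5.D (-1) (-1)) ⟨3, 4, 3, 1, 3, 6, 3, 1, 5, 4⟩ :=
  leafX_sound T5.ok_mm T5.Ymm.bz_eq (w := 230) (c := ⟨⟨.negSucc 1918, .negSucc 650, .ofNat 135, .ofNat 102, .ofNat 162, .negSucc 145⟩, ⟨.ofNat 194, .ofNat 248, .ofNat 217, .negSucc 14, .negSucc 27, .ofNat 27⟩, ⟨.ofNat 1146, .ofNat 623, .negSucc 166, .ofNat 90, .negSucc 309, .ofNat 134⟩, ⟨.negSucc 4417, .negSucc 815, .ofNat 164, .ofNat 238, .ofNat 324, .negSucc 287⟩, ⟨.negSucc 1424, .negSucc 80, .ofNat 67, .ofNat 184, .ofNat 4, .ofNat 138⟩, .ofNat 483, .ofNat 322, .ofNat 0, .ofNat 322,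 .ofNat 2228, .ofNat 0, .ofNat 199, .negSucc 127, .negSucc 218, .ofNat 0, .ofNat 81, .ofNat 48, .ofNat 0, .ofNat 0, .ofNat 524, .ofNat 10566, .ofNat 0, .ofNat 0, .ofNat 0, .ofNat 0, .ofNat 0, .ofNat 0, .ofNat 13968697007359938892083858615177017749929984, .ofNat 0, .ofNat 0, .ofNat 0, .ofNat 37683731076143836232081230827683469257080832, .ofNat 0, .ofNat 0, .ofNat 0, .ofNat 0, .ofNat 0⟩)
    (by decide +kernel)
theorem L01173 : Good (Phi V5.P V5.D (-1) (-1)) ⟨3, 4, 3, 1, 3, 7, 2, 0, 5, 4⟩ :=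
  leafX_sound T5.ok_mm T5.Ymm.bz_eq (w := 224) (c := ⟨⟨.negSucc 2106, .negSucc 567, .ofNat 66, .ofNat 109, .ofNat 301, .ofNat 25⟩, ⟨.ofNat 236, .ofNat 241, .ofNat 207, .negSucc 14, .negSucc 54, .negSucc 7⟩, ⟨.ofNat 1759, .ofNat 578, .ofNat 14, .negSucc 457, .negSucc 657, .negSucc 14⟩, ⟨.negSucc 4749, .negSucc 639, .ofNat 115, .ofNat 371, .ofNat 571, .ofNat 9⟩, ⟨.negSucc 857, .negSucc 190, .ofNat 121, .ofNat 919, .negSucc 302, .negSucc 161⟩, .ofNat 486, .ofNat 329, .ofNat 0, .ofNat 329, .ofNat 2278, .ofNat 0, .ofNat 197, .negSucc 127, .negSucc 260, .ofNat 0, .ofNat 89, .ofNat 46, .ofNat 0, .ofNat 0, .ofNat 692, .ofNat 2287, .ofNat 0, .ofNat 0, .ofNat 0, .ofNat 0, .ofNat 0, .ofNat 0, .ofNat 0, .ofNat 0, .ofNat 0, .ofNat 0, .ofNat 0, .ofNat 0, .ofNat 0, .ofNat 0, .ofNat 0, .ofNat 0⟩)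
    (by decide +kernel)
theorem L01174 : Good (Phi V5.P V5.D (-1) (-1)) ⟨3, 4, 3, 1, 2, 3, 4, 0, 5, 5⟩ :=
  leafX_sound T5.ok_mm T5.Ymm.bz_eq (w := 220) (c := ⟨⟨.negSucc 2289, .negSucc 503, .ofNat 86, .ofNat 375, .ofNat 54, .ofNat 133⟩, ⟨.ofNat 258, .ofNat 232, .ofNat 222, .negSucc 67, .negSucc 6, .negSucc 26⟩, ⟨.ofNat 2028, .ofNat 529, .negSucc 167, .negSucc 618, .negSucc 284, .negSucc 32⟩, ⟨.negSucc 5197, .negSucc 474, .ofNat 119, .ofNat 878, .ofNat 104, .ofNat 250⟩, ⟨.negSucc 1354, .negSucc 21, .ofNat 117, .ofNat 771, .ofNat 4, .negSucc 94⟩, .ofNat 503, .ofNat 403, .ofNat 0, .ofNat 403, .ofNat 2512, .ofNat 0, .ofNat 128, .negSucc 170, .negSucc 243, .ofNat 0, .ofNat 111, .ofNat 53, .ofNat 0, .ofNat 0, .ofNat 928, .ofNat 17403, .ofNat 196229406284747986899079821339866971680800768, .ofNat 0, .ofNat 3310901656276426067033534520568963923968, .ofNat 0,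 .ofNat 0, .ofNat 0, .ofNat 0, .ofNat 0, .ofNat 0, .ofNat 0, .ofNat 0, .ofNat 0, .ofNat 0, .ofNat 0, .ofNat 0, .ofNat 0⟩)
    (by decide +kernel)
theorem L01175 : Good (Phi V5.P V5.D (-1) (-1)) ⟨3, 4, 3, 1, 2, 3, 4, 1, 5, 5⟩ :=
  leafX_sound T5.ok_mm T5.Ymm.bz_eq (w := 219) (c := ⟨⟨.negSucc 2255, .negSucc 470, .ofNat 77, .ofNat 384, .ofNat 67, .ofNat 125⟩, ⟨.ofNat 256, .ofNat 219, .ofNat 215, .negSucc 64, .negSucc 10, .negSucc 23⟩, ⟨.ofNat 1750, .ofNat 471, .negSucc 119, .negSucc 507, .negSucc 171, .negSucc 85⟩, ⟨.negSucc 5112, .negSucc 441, .ofNat 90, .ofNat 896, .ofNat 125, .ofNat 235⟩, ⟨.negSucc 1342, .negSucc 58, .ofNat 111, .ofNat 661, .negSucc 49, .negSucc 7⟩, .ofNat 484, .ofNat 325, .ofNat 0, .ofNat 325, .ofNat 2235, .ofNat 0, .ofNat 128, .negSucc 134, .negSucc 161, .ofNat 0, .ofNat 99, .ofNat 33, .ofNat 0, .ofNat 0, .ofNat 575, .ofNat 9304, .ofNat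 0, .ofNat 0, .ofNat 0, .ofNat 0, .ofNat 0, .ofNat 0, .ofNat 0, .ofNat 0, .ofNat 0, .ofNat 0, .ofNat 0, .ofNat 0, .ofNat 0, .ofNat 0, .ofNat 0, .ofNat 0⟩)
    (by decide +kernel)
theorem L01176 : Good (Phi V5.P V5.D (-1) (-1)) ⟨3, 4, 3, 1, 2, 3, 3, 1, 5, 5⟩ :=
  leafX_sound T5.ok_mm T5.Ymm.bz_eq (w := 215) (c := ⟨⟨.negSucc 2245, .negSucc 426, .ofNat 94, .ofNat 400, .ofNat 138, .ofNat 119⟩, ⟨.ofNat 260, .ofNat 206, .ofNat 211, .negSucc 69, .negSucc 24, .negSucc 23⟩, ⟨.ofNat 1565, .ofNat 402, .negSucc 73, .negSucc 394, .negSucc 299, .negSucc 44⟩, ⟨.negSucc 5051, .negSucc 392, .ofNat 95, .ofNat 879, .ofNat 273, .ofNat 228⟩, ⟨.negSucc 1226, .negSucc 131, .negSucc 4, .ofNat 438, .negSucc 31, .negSucc 31⟩, .ofNat 484, .ofNat 334, .ofNat 0, .ofNat 334, .ofNat 2240, .ofNat 0, .ofNat 136, .negSucc 127, .negSucc 165, .ofNat 0, .ofNat 92, .ofNat 35, .ofNat 0, .ofNat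 0, .ofNat 508, .ofNat 4720, .ofNat 0, .ofNat 0, .ofNat 0, .ofNat 0, .ofNat 0, .ofNat 0, .ofNat 0, .ofNat 0, .ofNat 0, .ofNat 0, .ofNat 0, .ofNat 0, .ofNat 0, .ofNat 0, .ofNat 0, .ofNat 0⟩)
    (by decide +kernel)
theorem L01177 : Good (Phi V5.P V5.D (-1) (-1)) ⟨3, 5, 2, 0, 2, 2, 4, 0, 5, 4⟩ :=
  leafX_sound T5.ok_mm T5.Ymm.bz_eq (w := 216) (c := ⟨⟨.negSucc 2302, .negSucc 1029, .ofNat 187, .negSucc 403, .negSucc 55, .negSucc 181⟩, ⟨.ofNat 76, .ofNat 455, .ofNat 532, .ofNat 102, .negSucc 0, .ofNat 61⟩, ⟨.ofNat 1645, .ofNat 851, .negSucc 375, .ofNat 485, .negSucc 154, .ofNat 358⟩, ⟨.negSucc 4672, .negSucc 1129, .ofNat 116, .negSucc 781, .negSucc 69, .negSucc 250⟩, ⟨.negSucc 1346, .ofNat 199, .negSucc 85, .negSucc 207, .negSucc 19, .ofNat 337⟩, .ofNat 314, .ofNat 104, .ofNat 0, .ofNat 104, .ofNat 685, .ofNat 0, .ofNat 185, .negSucc 127, .negSucc 142, .ofNat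 0, .ofNat 115, .ofNat 58, .ofNat 0, .ofNat 0, .ofNat 369, .ofNat 8295, .ofNat 26951453910505820430748962914744259380772864, .ofNat 0, .ofNat 0, .ofNat 0, .ofNat 0, .ofNat 0, .ofNat 0, .ofNat 0, .ofNat 0, .ofNat 0, .ofNat 0, .ofNat 0, .ofNat 7347422774989885989312948146524108693176320, .ofNat 0, .ofNat 29677678443241692534922129922564814798848, .ofNat 0⟩)
    (by decide +kernel)
theorem L01178 : Good (Phi V5.P V5.D (-1) (-1)) ⟨3, 5, 2, 0, 2, 2, 4, 1, 5, 4⟩ :=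
  leafX_sound T5.ok_mm T5.Ymm.bz_eq (w := 216) (c := ⟨⟨.negSucc 2409, .negSucc 1114, .ofNat 252, .negSucc 395, .negSucc 6, .negSucc 109⟩, ⟨.ofNat 91, .ofNat 490, .ofNat 515, .ofNat 88, .ofNat 10, .ofNat 39⟩, ⟨.ofNat 1597, .ofNat 987, .negSucc 477, .ofNat 441, .negSucc 27, .ofNat 222⟩, ⟨.negSucc 4868, .negSucc 1206, .ofNat 230, .negSucc 745, .ofNat 16, .negSucc 147⟩, ⟨.negSucc 1217, .ofNat 216, .negSucc 178, .negSucc 252, .ofNat 86, .ofNat 239⟩, .ofNat 452, .ofNat 308, .ofNat 0, .ofNat 308, .ofNat 1530, .ofNat 0, .ofNat 128, .negSucc 138, .negSucc 114, .ofNat 0, .ofNat 95, .ofNat 38, .ofNat 0, .ofNat 0, .ofNat 312, .ofNat 4536, .ofNat 0, .ofNat 0, .ofNat 0, .ofNat 0, .ofNat 0, .ofNat 0, .ofNat 11483391626812092918089701237327224897536, .ofNat 0, .ofNat 0, .ofNat 0, .ofNat 0, .ofNat 0, .ofNat 0, .ofNat 0, .ofNat 26451435276592164918844444302036667727872,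 .ofNat 0⟩)
    (by decide +kernel)
theorem L01179 : Good (Phi V5.P V5.D (-1) (-1)) ⟨3, 5, 2, 0, 2, 2, 3, 1, 5, 4⟩ :=
  leafX_sound T5.ok_mm T5.Ymm.bz_eq (w := 211) (c := ⟨⟨.negSucc 2466, .negSucc 1120, .ofNat 277, .negSucc 319, .ofNat 88, .negSucc 95⟩, ⟨.ofNat 103, .ofNat 501, .ofNat 513, .ofNat 67, .negSucc 19, .ofNat 42⟩, ⟨.ofNat 1650, .ofNat 954, .negSucc 415, .ofNat 254, .negSucc 212, .ofNat 219⟩, ⟨.negSucc 4961, .negSucc 1233, .ofNat 318, .negSucc 605, .ofNat 155, .negSucc 121⟩, ⟨.negSucc 1120, .ofNat 166, .negSucc 139, .negSucc 210, .ofNat 17, .ofNat 193⟩, .ofNat 449, .ofNat 300, .ofNat 0, .ofNat 300, .ofNat 1500, .ofNat 0, .ofNat 187, .negSucc 127, .negSucc 151, .ofNat 0, .ofNat 90, .ofNat 48, .ofNat 0, .ofNat 0, .ofNat 345, .ofNat 2417, .ofNat 0, .ofNat 0, .ofNat 0, .ofNat 0, .ofNat 0, .ofNat 0, .ofNat 0, .ofNat 0, .ofNat 0, .ofNat 0, .ofNat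 0, .ofNat 0, .ofNat 0, .ofNat 0, .ofNat 1950000234362702766529170612271173337088, .ofNat 0⟩)
    (by decide +kernel)
theorem L01180 : Good (Phi V5.P V5.D (-1) (-1)) ⟨4, 10, 2, 0, 3, 6, 5, 0, 5, 4⟩ :=
  leafX_sound T5.ok_mm T5.Ymm.bz_eq (w := 240) (c := ⟨⟨.negSucc 2881, .negSucc 528, .ofNat 322, .negSucc 215, .negSucc 36, .ofNat 204⟩, ⟨.ofNat 200, .ofNat 227, .ofNat 498, .ofNat 74, .ofNat 16, .negSucc 51⟩, ⟨.ofNat 2541, .ofNat 509, .negSucc 480, .ofNat 600, .negSucc 182, .negSucc 111⟩, ⟨.negSucc 5749, .negSucc 586, .ofNat 403, .negSucc 283, .negSucc 49, .ofNat 353⟩, ⟨.negSucc 1483, .ofNat 249, .negSucc 94, .ofNat 642, .negSucc 26, .negSucc 69⟩, .ofNat 457, .ofNat 310, .ofNat 0, .ofNat 310, .ofNat 1729, .ofNat 0, .ofNat 153, .negSucc 127, .negSucc 187, .ofNat 0, .ofNat 83, .ofNat 53, .ofNat 0, .ofNat 0, .ofNat 461, .ofNat 46414, .ofNat 75128098100448635448185116648019829632514931032064,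 .ofNat 0, .ofNat 0, .ofNat 0, .ofNat 31948665980511953177792198990068487350540719620096, .ofNat 0, .ofNat 0, .ofNat 0, .ofNat 14793312109548331092221557664751671229059352756224, .ofNat 0, .ofNat 0, .ofNat 0, .ofNat 0, .ofNat 0, .ofNat 0, .ofNat 0⟩)
    (by decide +kernel)
theorem L01181 : Good (Phi V5.P V5.D (-1) (-1)) ⟨4, 10, 2, 0, 3, 6, 5, 1, 5, 4⟩ :=
  leafX_sound T5.ok_mm T5.Ymm.bz_eq (w := 239) (c := ⟨⟨.negSucc 2891, .negSucc 594, .ofNat 372, .negSucc 91, .ofNat 36, .ofNat 1⟩, ⟨.ofNat 210, .ofNat 236, .ofNat 485, .ofNat 41, .negSucc 8, .ofNat 10⟩, ⟨.ofNat 2354, .ofNat 598, .negSucc 550, .ofNat 451, .negSucc 137, .ofNat 79⟩, ⟨.negSucc 5763, .negSucc 690, .ofNat 473, .negSucc 81, .ofNat 73, .ofNat 22⟩, ⟨.negSucc 1436, .ofNat 262, .negSucc 174, .ofNat 472, .negSucc 10, .ofNat 78⟩, .ofNat 450, .ofNat 285, .ofNat 0, .ofNat 285, .ofNat 1668, .ofNat 0,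 .ofNat 206, .negSucc 127, .negSucc 206, .ofNat 0, .ofNat 84, .ofNat 59, .ofNat 0, .ofNat 0, .ofNat 500, .ofNat 16211, .ofNat 0, .ofNat 0, .ofNat 0, .ofNat 0, .ofNat 0, .ofNat 0, .ofNat 0, .ofNat 0, .ofNat 0, .ofNat 0, .ofNat 0, .ofNat 0, .ofNat 0, .ofNat 0, .ofNat 0, .ofNat 0⟩)
    (by decide +kernel)
theorem L01182 : Good (Phi V5.P V5.D (-1) (-1)) ⟨4, 10, 2, 0, 3, 6, 4, 1, 5, 4⟩ :=
  leafX_sound T5.ok_mm T5.Ymm.bz_eq (w := 234) (c := ⟨⟨.negSucc 2902, .negSucc 586, .ofNat 383, .ofNat 20, .ofNat 78, .ofNat 0⟩, ⟨.ofNat 226, .ofNat 229, .ofNat 474, .ofNat 6, .negSucc 17, .ofNat 1⟩, ⟨.ofNat 2267, .ofNat 550, .negSucc 518, .ofNat 280, .negSucc 256, .ofNat 88⟩, ⟨.negSucc 5745, .negSucc 706, .ofNat 498, .ofNat 82, .ofNat 141, .ofNat 11⟩, ⟨.negSucc 1388, .ofNat 246, .negSucc 140, .ofNat 321, .negSucc 24, .ofNat 75⟩, .ofNat 445, .ofNat 266, .ofNat 0, .ofNat 266,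 .ofNat 1621, .ofNat 0, .ofNat 144, .negSucc 127, .negSucc 160, .ofNat 0, .ofNat 89, .ofNat 44, .ofNat 0, .ofNat 0, .ofNat 361, .ofNat 7339, .ofNat 0, .ofNat 0, .ofNat 0, .ofNat 0, .ofNat 0, .ofNat 0, .ofNat 0, .ofNat 0, .ofNat 0, .ofNat 0, .ofNat 0, .ofNat 0, .ofNat 0, .ofNat 0, .ofNat 0, .ofNat 0⟩)
    (by decide +kernel)
theorem L01183 : Good (Phi V5.P V5.D (-1) (-1)) ⟨4, 10, 2, 0, 3, 6, 3, 1, 5, 4⟩ :=
  leafX_sound T5.ok_mm T5.Ymm.bz_eq (w := 230) (c := ⟨⟨.negSucc 2918, .negSucc 499, .ofNat 392, .ofNat 138, .ofNat 185, .ofNat 6⟩, ⟨.ofNat 247, .ofNat 195, .ofNat 458, .negSucc 26, .negSucc 45, .negSucc 3⟩, ⟨.ofNat 2114, .ofNat 472, .negSucc 450, .ofNat 63, .negSucc 395, .ofNat 55⟩, ⟨.negSucc 5739, .negSucc 584, .ofNat 515, .ofNat 258, .ofNat 325, .ofNat 15⟩, ⟨.negSucc 1267, .ofNat 122, .negSucc 114, .ofNat 163, .negSucc 112, .ofNat 17⟩, .ofNat 451,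 .ofNat 287, .ofNat 0, .ofNat 287, .ofNat 1674, .ofNat 0, .ofNat 215, .negSucc 127, .negSucc 277, .ofNat 0, .ofNat 88, .ofNat 75, .ofNat 0, .ofNat 0, .ofNat 543, .ofNat 5282, .ofNat 0, .ofNat 0, .ofNat 0, .ofNat 0, .ofNat 0, .ofNat 0, .ofNat 0, .ofNat 0, .ofNat 0, .ofNat 0, .ofNat 0, .ofNat 0, .ofNat 0, .ofNat 0, .ofNat 0, .ofNat 0⟩)
    (by decide +kernel)
theorem L01184 : Good (Phi V5.P V5.D (-1) (-1)) ⟨4, 11, 3, 0, 4, 12, 5, 0, 5, 4⟩ :=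
  leafX_sound T5.ok_mm T5.Ymm.bz_eq (w := 258) (c := ⟨⟨.negSucc 3375, .negSucc 1082, .ofNat 259, .negSucc 367, .negSucc 79, .ofNat 308⟩, ⟨.ofNat 332, .ofNat 485, .ofNat 244, .ofNat 145, .ofNat 66, .negSucc 89⟩, ⟨.ofNat 2919, .ofNat 1017, .negSucc 409, .ofNat 670, .negSucc 66, .negSucc 82⟩, ⟨.negSucc 6396, .negSucc 1260, .ofNat 357, .negSucc 502, .negSucc 37, .ofNat 499⟩, ⟨.negSucc 1278, .ofNat 617, .negSucc 162, .ofNat 499, .ofNat 23, .ofNat 9⟩, .ofNat 430, .ofNat 257, .ofNat 0, .ofNat 257, .ofNat 1241, .ofNat 0, .ofNat 128, .negSucc 207, .negSucc 208, .ofNat 0, .ofNat 140, .ofNat 77, .ofNat 0, .ofNat 0, .ofNat 396, .ofNat 57425, .ofNat 2918859329970601760397383292568321941837003054691385344, .ofNat 0, .ofNat 0, .ofNat 0, .ofNat 721419063557974664893772953751816394235084557317570560, .ofNat 0, .ofNat 40070314871909576290566494095173689393550735704064,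 .ofNat 0, .ofNat 950411975696578809554309483488119020950810533732286464, .ofNat 0, .ofNat 130169231486109199101707014566387631997887648366592, .ofNat 0, .ofNat 5729432803870259161714553326267381349047330375815135232, .ofNat 0, .ofNat 102340821253837945820588324011309440146542308622336, .ofNat 0⟩)
    (by decide +kernel)
theorem L01185 : Good (Phi V5.P V5.D (-1) (-1)) ⟨4, 11, 3, 0, 4, 12, 5, 1, 5, 4⟩ :=
  leafX_sound T5.ok_mm T5.Ymm.bz_eq (w := 256) (c := ⟨⟨.negSucc 3552, .negSucc 961, .ofNat 154, .negSucc 135, .ofNat 67, .ofNat 223⟩, ⟨.ofNat 438, .ofNat 432, .ofNat 276, .ofNat 59, .negSucc 23, .negSucc 48⟩, ⟨.ofNat 2959, .ofNat 898, .negSucc 280, .ofNat 403, .negSucc 217, .negSucc 0⟩, ⟨.negSucc 6559, .negSucc 1096, .ofNat 193, .negSucc 186, .ofNat 99, .ofNat 388⟩, ⟨.negSucc 1171, .ofNat 471, .negSucc 83, .ofNat 310, .negSucc 66, .ofNat 106⟩, .ofNat 425,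 .ofNat 239, .ofNat 0, .ofNat 239, .ofNat 1229, .ofNat 0, .ofNat 128, .negSucc 178, .negSucc 224, .ofNat 0, .ofNat 126, .ofNat 80, .ofNat 0, .ofNat 0, .ofNat 450, .ofNat 19533, .ofNat 0, .ofNat 0, .ofNat 0, .ofNat 0, .ofNat 0, .ofNat 0, .ofNat 44031754461766012190652494138576998878543897165824, .ofNat 0, .ofNat 0, .ofNat 0, .ofNat 160912990102150008946538195592083550541810981928960, .ofNat 0, .ofNat 0, .ofNat 0, .ofNat 168806744263119872019430248642001311489649729863680, .ofNat 0⟩)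
    (by decide +kernel)
theorem L01186 : Good (Phi V5.P V5.D (-1) (-1)) ⟨4, 11, 3, 0, 4, 13, 5, 0, 5, 4⟩ :=
  leafX_sound T5.ok_mm T5.Ymm.bz_eq (w := 257) (c := ⟨⟨.negSucc 4111, .negSucc 1095, .ofNat 384, .negSucc 73, .ofNat 139, .ofNat 552⟩, ⟨.ofNat 650, .ofNat 502, .ofNat 202, .ofNat 49, .negSucc 76, .negSucc 161⟩, ⟨.ofNat 3972, .ofNat 1054, .negSucc 455, .ofNat 144, .negSucc 327, .negSucc 366⟩, ⟨.negSucc 7372, .negSucc 1267, .ofNat 585, .negSucc 65, .ofNat 159, .ofNat 879⟩, ⟨.negSucc 614, .ofNat 694, .negSucc 278, .ofNat 383, .negSucc 17, .negSucc 331⟩, .ofNat 420, .ofNat 225, .ofNat 0, .ofNat 225, .ofNat 1181, .ofNat 0, .ofNat 128, .negSucc 235, .negSucc 283, .ofNat 0, .ofNat 173, .ofNat 100, .ofNat 0, .ofNat 0, .ofNat 543, .ofNat 38278, .ofNat 2102547998788179837437596797225056440423678353780768768, .ofNat 0, .ofNat 0, .ofNat 0, .ofNat 366554627409423370595610712910702550730533443400105984,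 .ofNat 0, .ofNat 42722975586202886361990644657701406617386579132416, .ofNat 0, .ofNat 0, .ofNat 0, .ofNat 258232024012075457867906840311538351948082880446464, .ofNat 0, .ofNat 0, .ofNat 0, .ofNat 226845231068501520445495697105208093100384693780480, .ofNat 0⟩)
    (by decide +kernel)
theorem L01187 : Good (Phi V5.P V5.D (-1) (-1)) ⟨4, 11, 3, 0, 4, 13, 5, 1, 5, 4⟩ :=
  leafX_sound T5.ok_mm T5.Ymm.bz_eq (w := 256) (c := ⟨⟨.negSucc 3933, .negSucc 1056, .ofNat 327, .negSucc 14, .ofNat 31, .ofNat 504⟩, ⟨.ofNat 565, .ofNat 490, .ofNat 219, .ofNat 30, .negSucc 10, .negSucc 149⟩, ⟨.ofNat 3607, .ofNat 999, .negSucc 397, .ofNat 108, .negSucc 198, .negSucc 334⟩, ⟨.negSucc 7138, .negSucc 1214, .ofNat 491, .ofNat 28, .ofNat 41, .ofNat 800⟩, ⟨.negSucc 670, .ofNat 631, .negSucc 231, .ofNat 272, .negSucc 42, .negSucc 226⟩, .ofNat 420, .ofNat 225, .ofNat 0, .ofNat 225,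 .ofNat 1181, .ofNat 0, .ofNat 128, .negSucc 211, .negSucc 252, .ofNat 0, .ofNat 157, .ofNat 88, .ofNat 0, .ofNat 0, .ofNat 460, .ofNat 14341, .ofNat 0, .ofNat 0, .ofNat 0, .ofNat 0, .ofNat 0, .ofNat 0, .ofNat 46143523742038195975389574035404688938503149453312, .ofNat 0, .ofNat 0, .ofNat 0, .ofNat 231332489477451068748550593340479423730850868494336, .ofNat 0, .ofNat 0, .ofNat 0, .ofNat 162349643528360571195813634173034017834362348765184, .ofNat 0⟩)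
    (by decide +kernel)
theorem L01188 : Good (Phi V5.P V5.D (-1) (-1)) ⟨4, 11, 3, 0, 3, 6, 4, 1, 5, 4⟩ :=
  leafX_sound T5.ok_mm T5.Ymm.bz_eq (w := 237) (c := ⟨⟨.negSucc 3707, .negSucc 928, .ofNat 235, .negSucc 95, .ofNat 114, .ofNat 337⟩, ⟨.ofNat 485, .ofNat 422, .ofNat 251, .ofNat 65, .negSucc 43, .negSucc 85⟩, ⟨.ofNat 2982, .ofNat 863, .negSucc 291, .ofNat 410, .negSucc 339, .negSucc 149⟩, ⟨.negSucc 6810, .negSucc 1054, .ofNat 335, .negSucc 83, .ofNat 166, .ofNat 563⟩, ⟨.negSucc 943, .ofNat 415, .negSucc 130, .ofNat 411, .negSucc 142, .negSucc 128⟩, .ofNat 425, .ofNat 241, .ofNat 0, .ofNat 241, .ofNat 1222, .ofNat 0, .ofNat 128, .negSucc 143, .negSucc 280, .ofNat 0, .ofNat 106, .ofNat 97, .ofNat 0, .ofNat 0, .ofNat 500, .ofNat 5176, .ofNat 0, .ofNat 0, .ofNat 0, .ofNat 0, .ofNat 0, .ofNat 0, .ofNat 98004973897845455758145148438187431969161216, .ofNat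 0, .ofNat 0, .ofNat 0, .ofNat 440657442427127889017475936053269907311165440, .ofNat 0, .ofNat 0, .ofNat 0, .ofNat 615559409998265921744600601091180538357612544, .ofNat 0⟩)
    (by decide +kernel)
theorem L01189 : Good (Phi V5.P V5.D (-1) (-1)) ⟨4, 11, 3, 0, 3, 6, 3, 1, 5, 4⟩ :=
  leafX_sound T5.ok_mm T5.Ymm.bz_eq (w := 233) (c := ⟨⟨.negSucc 3716, .negSucc 776, .ofNat 268, .ofNat 121, .ofNat 292, .ofNat 313⟩, ⟨.ofNat 512, .ofNat 330, .ofNat 229, .negSucc 17, .negSucc 90, .negSucc 81⟩, ⟨.ofNat 2845, .ofNat 667, .negSucc 289, .ofNat 104, .negSucc 535, .negSucc 209⟩, ⟨.negSucc 6772, .negSucc 908, .ofNat 368, .ofNat 227, .ofNat 443, .ofNat 519⟩, ⟨.negSucc 983, .ofNat 235, .negSucc 246, .ofNat 205, .negSucc 183, .ofNat 8⟩, .ofNat 429, .ofNat 253, .ofNat 0, .ofNat 253, .ofNat 1251, .ofNat 0, .ofNat 132, .negSucc 127, .negSucc 302, .ofNat 0, .ofNat 96, .ofNat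 100, .ofNat 0, .ofNat 0, .ofNat 476, .ofNat 3077, .ofNat 0, .ofNat 0, .ofNat 0, .ofNat 0, .ofNat 0, .ofNat 0, .ofNat 7090691406927908907511943626662292762918912, .ofNat 0, .ofNat 0, .ofNat 0, .ofNat 36036843644514785689354970550266174866718720, .ofNat 0, .ofNat 0, .ofNat 0, .ofNat 35151713283181470862684749860644913298800640, .ofNat 0⟩)
    (by decide +kernel)
theorem L01190 : Good (Phi V5.P V5.D (-1) (-1)) ⟨4, 11, 3, 1, 3, 6, 5, 0, 5, 4⟩ :=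
  leafX_sound T5.ok_mm T5.Ymm.bz_eq (w := 243) (c := ⟨⟨.negSucc 3488, .negSucc 991, .ofNat 346, .negSucc 282, .ofNat 104, .ofNat 388⟩, ⟨.ofNat 730, .ofNat 467, .ofNat 192, .ofNat 127, .negSucc 24, .negSucc 130⟩, ⟨.ofNat 2883, .ofNat 930, .negSucc 434, .ofNat 793, .negSucc 210, .negSucc 250⟩, ⟨.negSucc 6554, .negSucc 1121, .ofNat 480, .negSucc 290, .ofNat 169, .ofNat 605⟩, ⟨.negSucc 1123, .ofNat 536, .negSucc 197, .ofNat 666, .negSucc 138, .negSucc 161⟩, .ofNat 466, .ofNat 362, .ofNat 0, .ofNat 362, .ofNat 1483, .ofNat 0, .ofNat 128, .negSucc 243, .negSucc 292, .ofNat 0, .ofNat 157, .ofNat 109, .ofNat 0, .ofNat 0, .ofNat 590, .ofNat 45186, .ofNat 566052168233851888103661170793370266929235696287744, .ofNat 0, .ofNat 0, .ofNat 0, .ofNat 387648083679893334495401242640562426117477726420992, .ofNat 0, .ofNat 3056524385103181184220775163655683748074094592,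 .ofNat 0, .ofNat 58704244038202508980700672903529118453998989344768, .ofNat 0, .ofNat 26511443883284790140897526729726944584029700096, .ofNat 0, .ofNat 0, .ofNat 0, .ofNat 0, .ofNat 0⟩)
    (by decide +kernel)
theorem L01191 : Good (Phi V5.P V5.D (-1) (-1)) ⟨4, 11, 3, 1, 3, 6, 5, 1, 5, 4⟩ :=
  leafX_sound T5.ok_mm T5.Ymm.bz_eq (w := 241) (c := ⟨⟨.negSucc 3536, .negSucc 869, .ofNat 275, .ofNat 34, .ofNat 109, .ofNat 237⟩, ⟨.ofNat 761, .ofNat 417, .ofNat 220, .ofNat 10, .negSucc 40, .negSucc 70⟩, ⟨.ofNat 2867, .ofNat 768, .negSucc 376, .ofNat 454, .negSucc 267, .negSucc 109⟩, ⟨.negSucc 6590, .negSucc 951, .ofNat 369, .ofNat 142, .ofNat 151, .ofNat 397⟩, ⟨.negSucc 1117, .ofNat 467, .negSucc 151, .ofNat 363, .negSucc 99, .negSucc 48⟩, .ofNat 473, .ofNat 382, .ofNat 0, .ofNat 382, .ofNat 1520, .ofNat 0, .ofNat 128, .negSucc 166, .negSucc 311, .ofNat 0, .ofNat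 106, .ofNat 118, .ofNat 0, .ofNat 0, .ofNat 616, .ofNat 7618, .ofNat 0, .ofNat 0, .ofNat 0, .ofNat 0, .ofNat 0, .ofNat 0, .ofNat 0, .ofNat 0, .ofNat 0, .ofNat 0, .ofNat 7332026186068155646895705200719734981827493888, .ofNat 0, .ofNat 0, .ofNat 0, .ofNat 0, .ofNat 0⟩)
    (by decide +kernel)
theorem L01192 : Good (Phi V5.P V5.D (-1) (-1)) ⟨4, 11, 3, 1, 3, 6, 4, 1, 5, 4⟩ :=
  leafX_sound T5.ok_mm T5.Ymm.bz_eq (w := 237) (c := ⟨⟨.negSucc 3497, .negSucc 855, .ofNat 308, .ofNat 97, .ofNat 168, .ofNat 198⟩, ⟨.ofNat 760, .ofNat 392, .ofNat 204, .negSucc 16, .negSucc 60, .negSucc 60⟩, ⟨.ofNat 2706, .ofNat 767, .negSucc 388, .ofNat 303, .negSucc 371, .negSucc 66⟩, ⟨.negSucc 6508, .negSucc 974, .ofNat 412, .ofNat 230, .ofNat 241, .ofNat 334⟩, ⟨.negSucc 1116, .ofNat 363, .negSucc 171, .ofNat 274, .negSucc 148, .negSucc 1⟩, .ofNat 470, .ofNat 373, .ofNat 0, .ofNat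 373, .ofNat 1502, .ofNat 0, .ofNat 128, .negSucc 190, .negSucc 299, .ofNat 0, .ofNat 122, .ofNat 111, .ofNat 0, .ofNat 0, .ofNat 558, .ofNat 5358, .ofNat 0, .ofNat 0, .ofNat 0, .ofNat 0, .ofNat 0, .ofNat 0, .ofNat 0, .ofNat 0, .ofNat 0, .ofNat 0, .ofNat 656199230771914376080421544798989568981336064, .ofNat 0, .ofNat 0, .ofNat 0, .ofNat 0, .ofNat 0⟩)
    (by decide +kernel)
theorem L01193 : Good (Phi V5.P V5.D (-1) (-1)) ⟨4, 11, 3, 1, 3, 6, 3, 1, 5, 4⟩ :=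
  leafX_sound T5.ok_mm T5.Ymm.bz_eq (w := 233) (c := ⟨⟨.negSucc 3456, .negSucc 771, .ofNat 312, .ofNat 228, .ofNat 299, .ofNat 130⟩, ⟨.ofNat 755, .ofNat 344, .ofNat 202, .negSucc 66, .negSucc 101, .negSucc 36⟩, ⟨.ofNat 2532, .ofNat 649, .negSucc 344, .ofNat 59, .negSucc 505, .negSucc 46⟩, ⟨.negSucc 6411, .negSucc 907, .ofNat 413, .ofNat 397, .ofNat 455, .ofNat 233⟩, ⟨.negSucc 1090, .ofNat 203, .negSucc 138, .ofNat 74, .negSucc 230, .ofNat 51⟩, .ofNat 470, .ofNat 374, .ofNat 0, .ofNat 374, .ofNat 1491, .ofNat 0, .ofNat 128, .negSucc 141, .negSucc 256, .ofNat 0, .ofNat 90, .ofNat 93, .ofNat 0, .ofNat 0, .ofNat 418, .ofNat 2873, .ofNat 0, .ofNat 0, .ofNat 0, .ofNat 0, .ofNat 0, .ofNat 0, .ofNat 0, .ofNat 0, .ofNat 0, .ofNat 0, .ofNat 25840675785428744997324028882106261612527616, .ofNat 0, .ofNat 0, .ofNat 0, .ofNat 0, .ofNat 0⟩)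
    (by decide +kernel)
theorem L01194 : Good (Phi V5.P V5.D (-1) (-1)) ⟨4, 10, 2, 0, 3, 7, 2, 0, 5, 4⟩ :=
  leafX_sound T5.ok_mm T5.Ymm.bz_eq (w := 224) (c := ⟨⟨.negSucc 3181, .negSucc 468, .ofNat 449, .ofNat 263, .ofNat 426, .ofNat 215⟩, ⟨.ofNat 340, .ofNat 200, .ofNat 391, .negSucc 19, .negSucc 104, .negSucc 54⟩, ⟨.ofNat 2796, .ofNat 380, .negSucc 267, .negSucc 869, .negSucc 817, .negSucc 94⟩, ⟨.negSucc 6180, .negSucc 554, .ofNat 739, .ofNat 659, .ofNat 714, .ofNat 364⟩, ⟨.negSucc 637, .ofNat 102, .negSucc 122, .ofNat 897, .negSucc 590, .negSucc 248⟩, .ofNat 317, .ofNat 91, .ofNat 0, .ofNat 91, .ofNat 713, .ofNat 0, .ofNat 128, .negSucc 131, .negSucc 209, .ofNat 0, .ofNat 134, .ofNat 53, .ofNat 0, .ofNat 0, .ofNat 386, .ofNat 1039, .ofNat 0, .ofNat 0, .ofNat 0, .ofNat 0, .ofNat 0, .ofNat 0, .ofNat 0, .ofNat 0, .ofNat 0, .ofNat 0, .ofNat 0, .ofNat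 0, .ofNat 0, .ofNat 0, .ofNat 0, .ofNat 0⟩)
    (by decide +kernel)
theorem L01195 : Good (Phi V5.P V5.D (-1) (-1)) ⟨4, 11, 2, 0, 4, 14, 2, 0, 5, 4⟩ :=
  leafX_sound T5.ok_mm T5.Ymm.bz_eq (w := 239) (c := ⟨⟨.negSucc 4225, .negSucc 669, .ofNat 623, .ofNat 312, .ofNat 748, .ofNat 466⟩, ⟨.ofNat 746, .ofNat 318, .ofNat 378, .negSucc 91, .negSucc 269, .negSucc 140⟩, ⟨.ofNat 3841, .ofNat 589, .negSucc 503, .negSucc 443, .negSucc 1347, .negSucc 305⟩, ⟨.negSucc 7457, .negSucc 742, .ofNat 903, .ofNat 538, .ofNat 1088, .ofNat 740⟩, ⟨.negSucc 86, .ofNat 176, .negSucc 356, .ofNat 144, .negSucc 791, .negSucc 331⟩, .ofNat 450, .ofNat 316, .ofNat 0, .ofNat 316, .ofNat 1376, .ofNat 0, .ofNat 134, .negSucc 127, .negSucc 215, .ofNat 0, .ofNat 95, .ofNat 71, .ofNat 0, .ofNat 0, .ofNat 391, .ofNat 1327, .ofNat 898082431473899075289323108192376648040687075328, .ofNat 0,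 .ofNat 99175939864188030052282513845576837950865408, .ofNat 0, .ofNat 0, .ofNat 0, .ofNat 2222908351955719002033009097823189741795803136, .ofNat 0, .ofNat 23425646205945084941289703465595533789617820008448, .ofNat 0, .ofNat 8826740336294376487544469840791584207011840000, .ofNat 0, .ofNat 0, .ofNat 0, .ofNat 18169299380478501898701958066427595144917155840, .ofNat 0⟩)
    (by decide +kernel)
theorem L01196 : Good (Phi V5.P V5.D (-1) (-1)) ⟨4, 11, 2, 0, 4, 15, 2, 0, 5, 4⟩ :=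
  leafX_sound T5.ok_mm T5.Ymm.bz_eq (w := 238) (c := ⟨⟨.negSucc 3865, .negSucc 417, .ofNat 521, .ofNat 215, .ofNat 676, .ofNat 433⟩, ⟨.ofNat 719, .ofNat 223, .ofNat 343, .negSucc 29, .negSucc 273, .negSucc 139⟩, ⟨.ofNat 2861, .ofNat 322, .negSucc 242, .negSucc 607, .negSucc 713, .negSucc 288⟩, ⟨.negSucc 6740, .negSucc 399, .ofNat 783, .ofNat 491, .ofNat 879, .ofNat 656⟩, ⟨.ofNat 236, .negSucc 56, .negSucc 179, .ofNat 511, .negSucc 1106, .negSucc 339⟩, .ofNat 441, .ofNat 293, .ofNat 0, .ofNat 293, .ofNat 1325, .ofNat 0, .ofNat 128, .negSucc 164, .negSucc 130, .ofNat 0, .ofNat 128, .ofNat 36, .ofNat 0, .ofNat 0, .ofNat 253, .ofNat 784, .ofNat 0, .ofNat 0, .ofNat 0, .ofNat 0, .ofNat 0, .ofNat 0, .ofNat 0, .ofNat 0, .ofNat 0, .ofNat 0, .ofNat 5449521595833160718586642296084025395537510400, .ofNat 0, .ofNat 0, .ofNat 0, .ofNat 4623042380418896607645532133582529380694884352,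 .ofNat 0⟩)
    (by decide +kernel)
theorem L01197 : Good (Phi V5.P V5.D (-1) (-1)) ⟨3, 5, 2, 0, 2, 2, 4, 0, 5, 5⟩ :=
  leafX_sound T5.ok_mm T5.Ymm.bz_eq (w := 218) (c := ⟨⟨.negSucc 2525, .negSucc 982, .ofNat 174, .negSucc 338, .negSucc 69, .ofNat 260⟩, ⟨.ofNat 115, .ofNat 465, .ofNat 535, .ofNat 104, .ofNat 12, .negSucc 67⟩, ⟨.ofNat 1760, .ofNat 990, .negSucc 501, .ofNat 778, .negSucc 139, .negSucc 0⟩, ⟨.negSucc 5083, .negSucc 979, .ofNat 124, .negSucc 551, .negSucc 139, .ofNat 453⟩, ⟨.negSucc 1469, .ofNat 312, .negSucc 107, .ofNat 126, .ofNat 130, .ofNat 41⟩, .ofNat 314, .ofNat 104, .ofNat 0, .ofNat 104, .ofNat 685, .ofNat 0, .ofNat 213, .negSucc 123, .negSucc 121, .ofNat 0, .ofNat 128, .ofNat 53, .ofNat 0, .ofNat 0, .ofNat 392, .ofNat 22896, .ofNat 43691623613761966545613964008058587633942528, .ofNat 0, .ofNat 0, .ofNat 0, .ofNat 0, .ofNat 0, .ofNat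 0, .ofNat 0, .ofNat 0, .ofNat 0, .ofNat 0, .ofNat 0, .ofNat 187414690312030535894611403631068034067595264, .ofNat 0, .ofNat 27898196020560391859913055853629914742784, .ofNat 0⟩)
    (by decide +kernel)
theorem L01198 : Good (Phi V5.P V5.D (-1) (-1)) ⟨3, 5, 2, 0, 2, 2, 4, 1, 5, 5⟩ :=
  leafX_sound T5.ok_mm T5.Ymm.bz_eq (w := 216) (c := ⟨⟨.negSucc 2683, .negSucc 911, .ofNat 184, .negSucc 191, .ofNat 25, .ofNat 115⟩, ⟨.ofNat 180, .ofNat 444, .ofNat 506, .ofNat 33, .ofNat 4, .negSucc 22⟩, ⟨.ofNat 2095, .ofNat 882, .negSucc 465, .ofNat 165, .negSucc 159, .ofNat 121⟩, ⟨.negSucc 5290, .negSucc 856, .ofNat 135, .negSucc 419, .ofNat 60, .ofNat 220⟩, ⟨.negSucc 909, .ofNat 199, .negSucc 167, .negSucc 320, .ofNat 12, .ofNat 89⟩, .ofNat 451, .ofNat 306, .ofNat 0, .ofNat 306, .ofNat 1505, .ofNat 0, .ofNat 128, .negSucc 131, .negSucc 149, .ofNat 0, .ofNat 96, .ofNat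 52, .ofNat 0, .ofNat 0, .ofNat 473, .ofNat 7427, .ofNat 0, .ofNat 0, .ofNat 0, .ofNat 0, .ofNat 0, .ofNat 0, .ofNat 14831714594186938418740958727193946488832, .ofNat 0, .ofNat 0, .ofNat 0, .ofNat 0, .ofNat 0, .ofNat 0, .ofNat 0, .ofNat 0, .ofNat 0⟩)
    (by decide +kernel)
theorem L01199 : Good (Phi V5.P V5.D (-1) (-1)) ⟨3, 5, 2, 0, 3, 6, 4, 0, 5, 5⟩ :=
  leafX_sound T5.ok_mm T5.Ymm.bz_eq (w := 231) (c := ⟨⟨.negSucc 3029, .negSucc 952, .ofNat 281, .ofNat 189, .negSucc 29, .ofNat 348⟩, ⟨.ofNat 241, .ofNat 449, .ofNat 496, .negSucc 38, .ofNat 26, .negSucc 82⟩, ⟨.ofNat 2822, .ofNat 1033, .negSucc 539, .ofNat 63, .negSucc 253, .negSucc 211⟩, ⟨.negSucc 5940, .negSucc 973, .ofNat 324, .ofNat 349, .negSucc 28, .ofNat 599⟩, ⟨.negSucc 1168, .ofNat 376, .negSucc 89, .ofNat 101, .negSucc 17, .negSucc 103⟩, .ofNat 314, .ofNat 104, .ofNat 0, .ofNat 104, .ofNat 685,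 .ofNat 0, .ofNat 200, .negSucc 127, .negSucc 198, .ofNat 0, .ofNat 127, .ofNat 80, .ofNat 0, .ofNat 0, .ofNat 490, .ofNat 17597, .ofNat 90018134836342598952883214692243411021668024320, .ofNat 0, .ofNat 2072180358249625360613513750650050513469440, .ofNat 0, .ofNat 0, .ofNat 0, .ofNat 623048102279510244023126136791825201860968448, .ofNat 0, .ofNat 154041916782425522612041327588931563229143891968, .ofNat 0, .ofNat 804486861799098671576030800796859386977845248, .ofNat 0, .ofNat 416222998547585556463993915054348737797605556224, .ofNat 0, .ofNat 935440434342072790070547300459710627052519424, .ofNat 0⟩)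
    (by decide +kernel)
theorem L01200 : Good (Phi V5.P V5.D (-1) (-1)) ⟨3, 5, 2, 0, 3, 6, 4, 1, 5, 5⟩ :=
  leafX_sound T5.ok_mm T5.Ymm.bz_eq (w := 230) (c := ⟨⟨.negSucc 3112, .negSucc 861, .ofNat 254, .ofNat 246, .ofNat 78, .ofNat 381⟩, ⟨.ofNat 295, .ofNat 420, .ofNat 496, .negSucc 63, .negSucc 19, .negSucc 103⟩, ⟨.ofNat 2638, .ofNat 866, .negSucc 488, .negSucc 9, .negSucc 310, .negSucc 241⟩, ⟨.negSucc 6040, .negSucc 852, .ofNat 297, .ofNat 430, .ofNat 131, .ofNat 639⟩, ⟨.negSucc 1091, .ofNat 234, .negSucc 101, .ofNat 38, .negSucc 75, .negSucc 112⟩, .ofNat 315, .ofNat 103, .ofNat 0, .ofNat 103, .ofNat 683, .ofNat 0, .ofNat 157, .negSucc 121, .negSucc 176, .ofNat 0, .ofNat 128, .ofNat 68, .ofNat 0, .ofNat 0, .ofNat 411, .ofNat 5794, .ofNat 0, .ofNat 0, .ofNat 0, .ofNat 0, .ofNat 0, .ofNat 0, .ofNat 242556458462202736743550025759803270754205696, .ofNat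 0, .ofNat 0, .ofNat 0, .ofNat 688026313453393995095864869679061210465566720, .ofNat 0, .ofNat 0, .ofNat 0, .ofNat 611446794491750152121132343131945465175605248, .ofNat 0⟩)
    (by decide +kernel)
theorem L01201 : Good (Phi V5.P V5.D (-1) (-1)) ⟨3, 5, 2, 0, 3, 7, 3, 0, 5, 5⟩ :=
  leafX_sound T5.ok_mm T5.Ymm.bz_eq (w := 225) (c := ⟨⟨.negSucc 3072, .negSucc 657, .ofNat 283, .ofNat 423, .ofNat 203, .ofNat 369⟩, ⟨.ofNat 331, .ofNat 346, .ofNat 438, .negSucc 73, .negSucc 68, .negSucc 94⟩, ⟨.ofNat 2879, .ofNat 602, .negSucc 221, .negSucc 1082, .negSucc 453, .negSucc 290⟩, ⟨.negSucc 5929, .negSucc 541, .ofNat 443, .ofNat 879, .ofNat 305, .ofNat 547⟩, ⟨.negSucc 900, .ofNat 96, .ofNat 28, .ofNat 612, .negSucc 140, .negSucc 356⟩, .ofNat 447, .ofNat 292, .ofNat 0, .ofNat 292, .ofNat 1500, .ofNat 0, .ofNat 128, .negSucc 178, .negSucc 189, .ofNat 0, .ofNat 150, .ofNat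 50, .ofNat 0, .ofNat 0, .ofNat 565, .ofNat 3510, .ofNat 0, .ofNat 0, .ofNat 0, .ofNat 0, .ofNat 0, .ofNat 0, .ofNat 12234688310776396566116477756809046378151936, .ofNat 0, .ofNat 0, .ofNat 0, .ofNat 50270010124831492700535232294167722583916544, .ofNat 0, .ofNat 0, .ofNat 0, .ofNat 139697341005328738471574269618647518446354432, .ofNat 0⟩)
    (by decide +kernel)
theorem L01202 : Good (Phi V5.P V5.D (-1) (-1)) ⟨3, 5, 2, 0, 2, 2, 3, 1, 5, 5⟩ :=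
  leafX_sound T5.ok_mm T5.Ymm.bz_eq (w := 212) (c := ⟨⟨.negSucc 2785, .negSucc 883, .ofNat 209, .negSucc 125, .ofNat 90, .ofNat 203⟩, ⟨.ofNat 223, .ofNat 430, .ofNat 491, .ofNat 11, .negSucc 19, .negSucc 44⟩, ⟨.ofNat 2115, .ofNat 835, .negSucc 388, .negSucc 6, .negSucc 214, .negSucc 42⟩, ⟨.negSucc 5433, .negSucc 856, .ofNat 214, .negSucc 331, .ofNat 177, .ofNat 367⟩, ⟨.negSucc 841, .ofNat 169, .negSucc 88, .negSucc 385, .ofNat 61, .ofNat 45⟩, .ofNat 313, .ofNat 104, .ofNat 0, .ofNat 104, .ofNat 672, .ofNat 0, .ofNat 301, .negSucc 114, .negSucc 281, .ofNat 0, .ofNat 128, .ofNat 104, .ofNat 0, .ofNat 0, .ofNat 656, .ofNat 3743, .ofNat 0, .ofNat 0, .ofNat 0, .ofNat 0, .ofNat 0, .ofNat 0, .ofNat 0, .ofNat 0, .ofNat 0, .ofNat 0, .ofNat 0, .ofNat 0, .ofNat 0, .ofNat 0, .ofNat 6143921558308014774911814016462042955776, .ofNat 0⟩)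
    (by decide +kernel)
theorem L01203 : Good (Phi V5.P V5.D (-1) (-1)) ⟨4, 10, 2, 0, 2, 3, 3, 1, 5, 5⟩ :=
  leafX_sound T5.ok_mm T5.Ymm.bz_eq (w := 215) (c := ⟨⟨.negSucc 3056, .negSucc 302, .ofNat 269, .ofNat 654, .ofNat 192, .ofNat 254⟩, ⟨.ofNat 311, .ofNat 124, .ofNat 438, .negSucc 131, .negSucc 44, .negSucc 54⟩, ⟨.ofNat 2443, .ofNat 263, .negSucc 289, .negSucc 762, .negSucc 435, .negSucc 145⟩, ⟨.negSucc 5956, .negSucc 259, .ofNat 314, .ofNat 1233, .ofNat 325, .ofNat 449⟩, ⟨.negSucc 1143, .ofNat 120, .negSucc 2, .ofNat 134, .negSucc 119, .negSucc 100⟩, .ofNat 445, .ofNat 266, .ofNat 0, .ofNat 266, .ofNat 1637, .ofNat 0, .ofNat 131, .negSucc 127, .negSucc 200, .ofNat 0, .ofNat 105, .ofNat 51, .ofNat 0, .ofNat 0, .ofNat 525, .ofNat 2253, .ofNat 0, .ofNat 0, .ofNat 0, .ofNat 0, .ofNat 0, .ofNat 0, .ofNat 0, .ofNat 0, .ofNat 0, .ofNat 0, .ofNat 0, .ofNat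 0, .ofNat 0, .ofNat 0, .ofNat 0, .ofNat 0⟩)
    (by decide +kernel)
theorem L01204 : Good (Phi V5.P V5.D (-1) (-1)) ⟨4, 11, 2, 0, 2, 3, 3, 1, 5, 5⟩ :=
  leafX_sound T5.ok_mm T5.Ymm.bz_eq (w := 215) (c := ⟨⟨.negSucc 3663, .negSucc 335, .ofNat 329, .ofNat 939, .ofNat 248, .ofNat 376⟩, ⟨.ofNat 561, .ofNat 179, .ofNat 439, .negSucc 260, .negSucc 79, .negSucc 103⟩, ⟨.ofNat 2986, .ofNat 275, .negSucc 353, .negSucc 1034, .negSucc 416, .negSucc 274⟩, ⟨.negSucc 6672, .negSucc 286, .ofNat 433, .ofNat 1646, .ofNat 379, .ofNat 632⟩, ⟨.negSucc 1033, .ofNat 28, .ofNat 5, .ofNat 142, .negSucc 206, .negSucc 129⟩, .ofNat 449, .ofNat 313, .ofNat 0, .ofNat 313, .ofNat 1368, .ofNat 0, .ofNat 128, .negSucc 236, .negSucc 181, .ofNat 0, .ofNat 190, .ofNat 60, .ofNat 0, .ofNat 0, .ofNat 408, .ofNat 1892, .ofNat 0, .ofNat 0, .ofNat 6728112544658103716718365279640354816, .ofNat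 0, .ofNat 0, .ofNat 0, .ofNat 219654666062773834395248692211258228736, .ofNat 0, .ofNat 0, .ofNat 0, .ofNat 0, .ofNat 0, .ofNat 0, .ofNat 0, .ofNat 856314205822302984290370288778112663552, .ofNat 0⟩)
    (by decide +kernel)
theorem L01205 : Good (Phi V5.P V5.D (-1) (-1)) ⟨3, 4, 2, 0, 2, 2, 2, 0, 4, 3⟩ :=
  leafX_sound T5.ok_mm T5.Ymm.bz_eq (w := 204) (c := ⟨⟨.negSucc 2305, .negSucc 433, .ofNat 114, .ofNat 104, .ofNat 147, .ofNat 221⟩, ⟨.ofNat 43, .ofNat 212, .ofNat 431, .negSucc 30, .negSucc 22, .negSucc 32⟩, ⟨.ofNat 1983, .ofNat 477, .negSucc 272, .negSucc 302, .negSucc 482, .ofNat 92⟩, ⟨.negSucc 5067, .negSucc 318, .ofNat 76, .ofNat 137, .ofNat 310, .ofNat 457⟩, ⟨.negSucc 932, .ofNat 36, .negSucc 66, .negSucc 410, .ofNat 194, .ofNat 156⟩, .ofNat 462, .ofNat 219, .ofNat 0, .ofNat 219, .ofNat 1970, .ofNat 0, .ofNat 567, .negSucc 126, .negSucc 171, .ofNat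 0, .ofNat 128, .ofNat 39, .ofNat 0, .ofNat 0, .ofNat 905, .ofNat 9077, .ofNat 2952081095023723133379229027225080692736, .ofNat 0, .ofNat 44317711375534003839014363218313216, .ofNat 0, .ofNat 0, .ofNat 0, .ofNat 0, .ofNat 0, .ofNat 0, .ofNat 0, .ofNat 11879436159538931555502715098818936832, .ofNat 0, .ofNat 533854932559386698884632076594924033671168, .ofNat 0, .ofNat 0, .ofNat 0⟩)
    (by decide +kernel)
theorem L01206 : Good (Phi V5.P V5.D (-1) (-1)) ⟨4, 10, 2, 0, 2, 2, 2, 0, 4, 3⟩ :=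
  leafX_sound T5.ok_mm T5.Ymm.bz_eq (w := 208) (c := ⟨⟨.negSucc 2928, .negSucc 251, .ofNat 138, .ofNat 154, .ofNat 196, .ofNat 396⟩, ⟨.ofNat 312, .ofNat 135, .ofNat 443, .negSucc 64, .negSucc 34, .negSucc 82⟩, ⟨.ofNat 2733, .ofNat 280, .negSucc 377, .negSucc 389, .negSucc 591, .negSucc 98⟩, ⟨.negSucc 5656, .negSucc 148, .ofNat 90, .ofNat 181, .ofNat 370, .ofNat 730⟩, ⟨.negSucc 783, .ofNat 86, .negSucc 116, .negSucc 444, .ofNat 130, .ofNat 49⟩, .ofNat 451, .ofNat 292, .ofNat 0, .ofNat 292, .ofNat 1656, .ofNat 0, .ofNat 310, .negSucc 127, .negSucc 199, .ofNat 0, .ofNat 106, .ofNat 60, .ofNat 0, .ofNat 0, .ofNat 846, .ofNat 6012, .ofNat 59628848520762124133663187071828662157312, .ofNat 0, .ofNat 23432825089039924481861332852801536, .ofNat 0, .ofNat 0, .ofNat 0, .ofNat 0, .ofNat 0, .ofNat 433645740821265786915863864922611187187712, .ofNat 0, .ofNat 0, .ofNat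 0, .ofNat 0, .ofNat 0, .ofNat 0, .ofNat 0⟩)
    (by decide +kernel)
theorem L01207 : Good (Phi V5.P V5.D (-1) (-1)) ⟨4, 11, 2, 0, 2, 2, 2, 0, 4, 3⟩ :=
  leafX_sound T5.ok_mm T5.Ymm.bz_eq (w := 207) (c := ⟨⟨.negSucc 3269, .negSucc 311, .ofNat 104, .ofNat 205, .ofNat 187, .ofNat 527⟩, ⟨.ofNat 498, .ofNat 185, .ofNat 462, .negSucc 98, .negSucc 45, .negSucc 139⟩, ⟨.ofNat 3107, .ofNat 283, .negSucc 342, .negSucc 462, .negSucc 591, .negSucc 177⟩, ⟨.negSucc 5894, .negSucc 220, .ofNat 34, .ofNat 205, .ofNat 347, .ofNat 908⟩, ⟨.negSucc 641, .ofNat 13, .negSucc 116, .negSucc 514, .ofNat 118, .ofNat 22⟩, .ofNat 456, .ofNat 335, .ofNat 0, .ofNat 335, .ofNat 1409, .ofNat 0, .ofNat 213, .negSucc 127, .negSucc 156, .ofNat 0, .ofNat 102, .ofNat 60, .ofNat 0, .ofNat 0, .ofNat 587, .ofNat 4083, .ofNat 57620950905489592757594153115474896879616, .ofNat 0, .ofNat 0, .ofNat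 0, .ofNat 0, .ofNat 0, .ofNat 2329143093394843024460357711972794368, .ofNat 0, .ofNat 46209222928501845599635545507238372179968, .ofNat 0, .ofNat 104386683538040027363963614969987072, .ofNat 0, .ofNat 2602143378669393679662832378088852356595712, .ofNat 0, .ofNat 3851753233812344074774240424517173248, .ofNat 0⟩)
    (by decide +kernel)
theorem L01208 : Good (Phi V5.P V5.D (-1) (-1)) ⟨2, 2, 2, 0, 3, 6, 3, 0, 4, 3⟩ :=
  leafX_sound T5.ok_mm T5.Ymm.bz_eq (w := 217) (c := ⟨⟨.negSucc 2382, .negSucc 824, .ofNat 139, .ofNat 241, .ofNat 23, .ofNat 510⟩, ⟨.ofNat 22, .ofNat 439, .ofNat 463, .negSucc 41, .ofNat 14, .negSucc 94⟩, ⟨.ofNat 2245, .ofNat 969, .negSucc 367, .negSucc 124, .negSucc 471, .negSucc 308⟩, ⟨.negSucc 5221, .negSucc 567, .ofNat 83, .ofNat 461, .ofNat 107, .ofNat 940⟩, ⟨.negSucc 1233, .negSucc 50, .negSucc 26, .negSucc 83, .ofNat 59, .ofNat 54⟩,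 .ofNat 321, .ofNat 85, .ofNat 0, .ofNat 85, .ofNat 711, .ofNat 0, .ofNat 234, .negSucc 90, .negSucc 102, .ofNat 0, .ofNat 128, .ofNat 38, .ofNat 0, .ofNat 0, .ofNat 418, .ofNat 5607, .ofNat 11415960988626933985774969554380951656595456, .ofNat 0, .ofNat 0, .ofNat 0, .ofNat 0, .ofNat 0, .ofNat 0, .ofNat 0, .ofNat 0, .ofNat 0, .ofNat 0, .ofNat 0, .ofNat 294502029156016515787166896423636672383549440, .ofNat 0, .ofNat 2432509970596637159647817068823225370148864, .ofNat 0⟩)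
    (by decide +kernel)
theorem L01209 : Good (Phi V5.P V5.D (-1) (-1)) ⟨2, 2, 2, 0, 3, 6, 3, 1, 4, 3⟩ :=
  leafX_sound T5.ok_mm T5.Ymm.bz_eq (w := 216) (c := ⟨⟨.negSucc 2442, .negSucc 683, .ofNat 167, .ofNat 240, .ofNat 140, .ofNat 516⟩, ⟨.ofNat 91, .ofNat 368, .ofNat 425, .negSucc 53, .negSucc 27, .negSucc 99⟩, ⟨.ofNat 1995, .ofNat 657, .negSucc 332, .negSucc 184, .negSucc 445, .negSucc 370⟩, ⟨.negSucc 5193, .negSucc 420, .ofNat 125, .ofNat 436, .ofNat 252, .ofNat 951⟩, ⟨.negSucc 1217, .negSucc 127, .negSucc 17, .negSucc 72, .ofNat 57, .ofNat 122⟩, .ofNat 321, .ofNat 86, .ofNat 0, .ofNat 86, .ofNat 713, .ofNat 0, .ofNat 206, .negSucc 85, .negSucc 98, .ofNat 0, .ofNat 128, .ofNat 34, .ofNat 0, .ofNat 0, .ofNat 378, .ofNat 2678, .ofNat 0, .ofNat 0, .ofNat 0, .ofNat 0, .ofNat 0, .ofNat 0, .ofNat 1869840064996937922033090058010995606945792, .ofNat 0, .ofNat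 0, .ofNat 0, .ofNat 0, .ofNat 0, .ofNat 0, .ofNat 0, .ofNat 1289662680308601834759281151613574125191168, .ofNat 0⟩)
    (by decide +kernel)
theorem L01210 : Good (Phi V5.P V5.D (-1) (-1)) ⟨2, 2, 2, 0, 3, 7, 2, 0, 4, 3⟩ :=
  leafX_sound T5.ok_mm T5.Ymm.bz_eq (w := 211) (c := ⟨⟨.negSucc 2278, .negSucc 504, .ofNat 109, .ofNat 286, .ofNat 266, .ofNat 428⟩, ⟨.ofNat 74, .ofNat 305, .ofNat 400, .negSucc 46, .negSucc 50, .negSucc 77⟩, ⟨.ofNat 2096, .ofNat 479, .negSucc 94, .negSucc 600, .negSucc 760, .negSucc 311⟩, ⟨.negSucc 4931, .negSucc 163, .ofNat 63, .ofNat 607, .ofNat 485, .ofNat 819⟩, ⟨.negSucc 1249, .negSucc 267, .ofNat 200, .ofNat 328, .negSucc 75, .negSucc 22⟩, .ofNat 323, .ofNat 91, .ofNat 0, .ofNat 91, .ofNat 757, .ofNat 0, .ofNat 153, .negSucc 81, .negSucc 86, .ofNat 0, .ofNat 128, .ofNat 20, .ofNat 0, .ofNat 0, .ofNat 397, .ofNat 1265, .ofNat 0,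 .ofNat 0, .ofNat 1950602219112145957992303435658538516480, .ofNat 0, .ofNat 0, .ofNat 0, .ofNat 91876566266386587144200767225880217911296, .ofNat 0, .ofNat 0, .ofNat 0, .ofNat 0, .ofNat 0, .ofNat 9788800972983392330926648273276453127192576, .ofNat 0, .ofNat 188567408275955032471942124836304447340544, .ofNat 0⟩)
    (by decide +kernel)
theorem L01211 : Good (Phi V5.P V5.D (-1) (-1)) ⟨3, 4, 2, 0, 2, 2, 2, 1, 4, 2⟩ :=
  leafX_sound T5.ok_mm T5.Ymm.bz_eq (w := 203) (c := ⟨⟨.negSucc 2001, .negSucc 574, .ofNat 217, .negSucc 28, .ofNat 216, .negSucc 88⟩, ⟨.ofNat 10, .ofNat 226, .ofNat 404, .negSucc 10, .negSucc 29, .ofNat 13⟩, ⟨.ofNat 1232, .ofNat 508, .negSucc 253, .negSucc 149, .negSucc 240, .ofNat 218⟩, ⟨.negSucc 4437, .negSucc 630, .ofNat 245, .negSucc 92, .ofNat 465, .negSucc 183⟩, ⟨.negSucc 986, .ofNat 41, .negSucc 51, .negSucc 401, .ofNat 219, .ofNat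 252⟩, .ofNat 462, .ofNat 213, .ofNat 0, .ofNat 213, .ofNat 1973, .ofNat 0, .ofNat 507, .negSucc 127, .negSucc 311, .ofNat 0, .ofNat 119, .ofNat 57, .ofNat 0, .ofNat 0, .ofNat 821, .ofNat 3361, .ofNat 0, .ofNat 0, .ofNat 0, .ofNat 0, .ofNat 0, .ofNat 0, .ofNat 0, .ofNat 0, .ofNat 0, .ofNat 0, .ofNat 5321658614465900356453858472059994112, .ofNat 0, .ofNat 0, .ofNat 0, .ofNat 0, .ofNat 0⟩)
    (by decide +kernel)
theorem L01212 : Good (Phi V5.P V5.D (-1) (-1)) ⟨3, 4, 2, 0, 2, 3, 2, 1, 4, 2⟩ :=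
  leafX_sound T5.ok_mm T5.Ymm.bz_eq (w := 202) (c := ⟨⟨.negSucc 2259, .negSucc 306, .ofNat 173, .ofNat 388, .ofNat 379, .ofNat 83⟩, ⟨.ofNat 58, .ofNat 152, .ofNat 388, .negSucc 53, .negSucc 55, .negSucc 14⟩, ⟨.ofNat 1412, .ofNat 244, .negSucc 88, .negSucc 375, .negSucc 443, .negSucc 72⟩, ⟨.negSucc 4880, .negSucc 243, .ofNat 159, .ofNat 772, .ofNat 741, .ofNat 138⟩, ⟨.negSucc 1122, .negSucc 195, .ofNat 154, .ofNat 78, .negSucc 169, .negSucc 15⟩, .ofNat 462, .ofNat 231, .ofNat 0, .ofNat 231, .ofNat 1966, .ofNat 0, .ofNat 373, .negSucc 127, .negSucc 314, .ofNat 0, .ofNat 120, .ofNat 56, .ofNat 0, .ofNat 0, .ofNat 723, .ofNat 2178, .ofNat 0, .ofNat 0, .ofNat 0, .ofNat 0, .ofNat 0, .ofNat 0, .ofNat 0, .ofNat 0, .ofNat 0, .ofNat 0, .ofNat 0, .ofNat 0, .ofNat 0, .ofNat 0, .ofNat 4088234535051086473907470001361649664, .ofNat 0⟩)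
    (by decide +kernel)
theorem L01213 : Good (Phi V5.P V5.D (-1) (-1)) ⟨3, 5, 2, 0, 2, 2, 2, 1, 4, 2⟩ :=
  leafX_sound T5.ok_mm T5.Ymm.bz_eq (w := 202) (c := ⟨⟨.negSucc 2844, .negSucc 793, .ofNat 255, .ofNat 26, .ofNat 266, .ofNat 157⟩, ⟨.ofNat 270, .ofNat 400, .ofNat 442, .negSucc 38, .negSucc 50, .negSucc 30⟩, ⟨.ofNat 2062, .ofNat 702, .negSucc 384, .negSucc 327, .negSucc 330, .ofNat 49⟩, ⟨.negSucc 5523, .negSucc 758, .ofNat 301, .negSucc 77, .ofNat 506, .ofNat 329⟩, ⟨.negSucc 922, .ofNat 124, .negSucc 130, .negSucc 450, .ofNat 142, .ofNat 306⟩, .ofNat 451, .ofNat 308, .ofNat 0, .ofNat 308, .ofNat 1516, .ofNat 0, .ofNat 191, .negSucc 127, .negSucc 173, .ofNat 0, .ofNat 96, .ofNat 52, .ofNat 0, .ofNat 0, .ofNat 380, .ofNat 727, .ofNat 0, .ofNat 0, .ofNat 28430040192618659896462136141938688, .ofNat 0, .ofNat 0, .ofNat 0, .ofNat 939964249378675907244138721028603904,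 .ofNat 0, .ofNat 0, .ofNat 0, .ofNat 0, .ofNat 0, .ofNat 0, .ofNat 0, .ofNat 3863499999484245138980045665989558272, .ofNat 0⟩)
    (by decide +kernel)
theorem L01214 : Good (Phi V5.P V5.D (-1) (-1)) ⟨4, 10, 2, 0, 3, 6, 2, 1, 5, 4⟩ :=
  leafX_sound T5.ok_mm T5.Ymm.bz_eq (w := 226) (c := ⟨⟨.negSucc 2822, .negSucc 436, .ofNat 414, .ofNat 311, .ofNat 373, .negSucc 34⟩, ⟨.ofNat 245, .ofNat 162, .ofNat 420, .negSucc 67, .negSucc 74, .ofNat 7⟩, ⟨.ofNat 1891, .ofNat 367, .negSucc 373, .negSucc 206, .negSucc 514, .ofNat 33⟩, ⟨.negSucc 5529, .negSucc 525, .ofNat 550, .ofNat 538, .ofNat 677, .negSucc 47⟩, ⟨.negSucc 1175, .ofNat 69, .negSucc 111, .negSucc 185, .negSucc 62, .ofNat 32⟩, .ofNat 444, .ofNat 264, .ofNat 0, .ofNat 264, .ofNat 1600, .ofNat 0, .ofNat 201, .negSucc 127, .negSucc 323, .ofNat 0, .ofNat 95, .ofNat 80, .ofNat 0, .ofNat 0, .ofNat 527, .ofNat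 2055, .ofNat 0, .ofNat 0, .ofNat 0, .ofNat 0, .ofNat 0, .ofNat 0, .ofNat 0, .ofNat 0, .ofNat 0, .ofNat 0, .ofNat 613861088617174472010004312029974950313984, .ofNat 0, .ofNat 0, .ofNat 0, .ofNat 0, .ofNat 0⟩)
    (by decide +kernel)
theorem L01215 : Good (Phi V5.P V5.D (-1) (-1)) ⟨4, 11, 2, 0, 3, 6, 2, 1, 5, 4⟩ :=
  leafX_sound T5.ok_mm T5.Ymm.bz_eq (w := 225) (c := ⟨⟨.negSucc 3688, .negSucc 595, .ofNat 593, .ofNat 540, .ofNat 558, .ofNat 117⟩, ⟨.ofNat 553, .ofNat 253, .ofNat 389, .negSucc 184, .negSucc 171, .negSucc 19⟩, ⟨.ofNat 2588, .ofNat 449, .negSucc 522, .negSucc 339, .negSucc 664, .negSucc 85⟩, ⟨.negSucc 6666, .negSucc 727, .ofNat 813, .ofNat 832, .ofNat 906, .ofNat 215⟩, ⟨.negSucc 946, .negSucc 19, .negSucc 181, .negSucc 226, .negSucc 204, .ofNat 5⟩, .ofNat 456, .ofNat 334, .ofNat 0, .ofNat 334, .ofNat 1416, .ofNat 0, .ofNat 142, .negSucc 127,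 .negSucc 319, .ofNat 0, .ofNat 87, .ofNat 104, .ofNat 0, .ofNat 0, .ofNat 438, .ofNat 1166, .ofNat 0, .ofNat 0, .ofNat 0, .ofNat 0, .ofNat 0, .ofNat 0, .ofNat 229919030033799406086319551969568657244160, .ofNat 0, .ofNat 0, .ofNat 0, .ofNat 60529582243570237198572838614880638468096, .ofNat 0, .ofNat 0, .ofNat 0, .ofNat 771345132226477391132823014425559874666496, .ofNat 0⟩)
    (by decide +kernel)
theorem L01216 : Good (Phi V5.P V5.D (-1) (-1)) ⟨4, 10, 2, 0, 3, 7, 2, 1, 5, 4⟩ :=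
  leafX_sound T5.ok_mm T5.Ymm.bz_eq (w := 225) (c := ⟨⟨.negSucc 2746, .negSucc 237, .ofNat 378, .ofNat 283, .ofNat 585, .ofNat 114⟩, ⟨.ofNat 272, .ofNat 98, .ofNat 380, .negSucc 51, .negSucc 145, .negSucc 24⟩, ⟨.ofNat 1806, .ofNat 196, .negSucc 194, .negSucc 387, .negSucc 584, .negSucc 115⟩, ⟨.negSucc 5343, .negSucc 232, .ofNat 517, .ofNat 563, .ofNat 987, .ofNat 192⟩, ⟨.negSucc 1061, .negSucc 85, .ofNat 21, .ofNat 230, .negSucc 496, .negSucc 106⟩, .ofNat 456, .ofNat 307, .ofNat 0, .ofNat 307, .ofNat 1725, .ofNat 0, .ofNat 148, .negSucc 127, .negSucc 208, .ofNat 0, .ofNat 98, .ofNat 49, .ofNat 0, .ofNat 0, .ofNat 347, .ofNat 1072, .ofNat 0, .ofNat 0, .ofNat 0, .ofNat 0, .ofNat 0, .ofNat 0, .ofNat 0, .ofNat 0, .ofNat 0, .ofNat 0, .ofNat 0, .ofNat 0, .ofNat 0, .ofNat 0, .ofNat 0, .ofNat 0⟩)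
    (by decide +kernel)
theorem L01217 : Good (Phi V5.P V5.D (-1) (-1)) ⟨4, 11, 2, 0, 3, 7, 2, 1, 5, 4⟩ :=
  leafX_sound T5.ok_mm T5.Ymm.bz_eq (w := 225) (c := ⟨⟨.negSucc 3320, .negSucc 203, .ofNat 384, .ofNat 466, .ofNat 746, .ofNat 263⟩, ⟨.ofNat 486, .ofNat 96, .ofNat 401, .negSucc 113, .negSucc 235, .negSucc 71⟩, ⟨.ofNat 2254, .ofNat 146, .negSucc 225, .negSucc 535, .negSucc 718, .negSucc 206⟩, ⟨.negSucc 6060, .negSucc 178, .ofNat 509, .ofNat 871, .ofNat 1168, .ofNat 444⟩, ⟨.negSucc 1063, .negSucc 216, .ofNat 20, .ofNat 214, .negSucc 523, .negSucc 49⟩, .ofNat 441, .ofNat 293, .ofNat 0, .ofNat 293, .ofNat 1325, .ofNat 0, .ofNat 129, .negSucc 127, .negSucc 208, .ofNat 0, .ofNat 106, .ofNat 61, .ofNat 0, .ofNat 0, .ofNat 306, .ofNat 830, .ofNat 0, .ofNat 0, .ofNat 1347241333379330048792986863689973891072, .ofNat 0, .ofNat 0, .ofNat 0, .ofNat 135011477882828874022867605488299185012736,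 .ofNat 0, .ofNat 0, .ofNat 0, .ofNat 364124743518661421102948472145759696846848, .ofNat 0, .ofNat 0, .ofNat 0, .ofNat 727181547279598414594575072209680593846272, .ofNat 0⟩)
    (by decide +kernel)
theorem L01218 : Good (Phi V5.P V5.D (-1) (-1)) ⟨3, 5, 2, 0, 2, 3, 3, 2, 5, 5⟩ :=
  leafX_sound T5.ok_mm T5.Ymm.bz_eq (w := 211) (c := ⟨⟨.negSucc 3137, .negSucc 444, .ofNat 271, .ofNat 922, .ofNat 256, .ofNat 309⟩, ⟨.ofNat 362, .ofNat 220, .ofNat 433, .negSucc 233, .negSucc 69, .negSucc 74⟩, ⟨.ofNat 2246, .ofNat 332, .negSucc 243, .negSucc 901, .negSucc 339, .negSucc 245⟩, ⟨.negSucc 5997, .negSucc 333, .ofNat 314, .ofNat 1593, .ofNat 422, .ofNat 532⟩, ⟨.negSucc 1103, .negSucc 83, .ofNat 21, .negSucc 101, .negSucc 94, .negSucc 88⟩, .ofNat 449, .ofNat 299, .ofNat 0, .ofNat 299, .ofNat 1504, .ofNat 0, .ofNat 128, .negSucc 159, .negSucc 175, .ofNat 0, .ofNat 132,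 .ofNat 50, .ofNat 0, .ofNat 0, .ofNat 385, .ofNat 1149, .ofNat 0, .ofNat 0, .ofNat 12991806395925502563014403946396516352, .ofNat 0, .ofNat 0, .ofNat 0, .ofNat 282056972595811624588790117257451667456, .ofNat 0, .ofNat 0, .ofNat 0, .ofNat 0, .ofNat 0, .ofNat 0, .ofNat 0, .ofNat 2216592717514170754398969066788384407552, .ofNat 0⟩)
    (by decide +kernel)
theorem L01219 : Good (Phi V5.P V5.D (-1) (-1)) ⟨3, 5, 2, 0, 2, 3, 3, 3, 5, 5⟩ :=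
  leafX_sound T5.ok_mm T5.Ymm.bz_eq (w := 211) (c := ⟨⟨.negSucc 2905, .negSucc 406, .ofNat 204, .ofNat 1039, .ofNat 252, .ofNat 255⟩, ⟨.ofNat 330, .ofNat 206, .ofNat 421, .negSucc 286, .negSucc 73, .negSucc 52⟩, ⟨.ofNat 1880, .ofNat 263, .negSucc 164, .negSucc 915, .negSucc 264, .negSucc 213⟩, ⟨.negSucc 5579, .negSucc 312, .ofNat 235, .ofNat 1751, .ofNat 439, .ofNat 464⟩, ⟨.negSucc 1250, .negSucc 76, .ofNat 136, .negSucc 130, .negSucc 28, .ofNat 20⟩, .ofNat 445, .ofNat 291, .ofNat 0, .ofNat 291, .ofNat 1442, .ofNat 0, .ofNat 172, .negSucc 127, .negSucc 164, .ofNat 0, .ofNat 108, .ofNat 46, .ofNat 0, .ofNat 0, .ofNat 334, .ofNat 1179, .ofNat 0, .ofNat 0, .ofNat 0, .ofNat 0, .ofNat 0, .ofNat 0, .ofNat 793727071458109759454842133185969520640, .ofNat 0, .ofNat 0, .ofNat 0, .ofNat 0, .ofNat 0, .ofNat 0, .ofNat 0, .ofNat 1913598458981946126164407242617327190016,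 .ofNat 0⟩)
    (by decide +kernel)
theorem L01220 : Good (Phi V5.P V5.D (-1) (-1)) ⟨3, 4, 2, 0, 2, 2, 2, 1, 4, 3⟩ :=
  leafX_sound T5.ok_mm T5.Ymm.bz_eq (w := 203) (c := ⟨⟨.negSucc 2192, .negSucc 411, .ofNat 107, .ofNat 138, .ofNat 212, .ofNat 220⟩, ⟨.ofNat 41, .ofNat 194, .ofNat 399, .negSucc 33, .negSucc 18, .negSucc 21⟩, ⟨.ofNat 1659, .ofNat 358, .negSucc 175, .negSucc 435, .negSucc 338, .negSucc 13⟩, ⟨.negSucc 4818, .negSucc 323, .ofNat 68, .ofNat 217, .ofNat 475, .ofNat 464⟩, ⟨.negSucc 706, .negSucc 2, .negSucc 34, .negSucc 443, .ofNat 221, .ofNat 117⟩, .ofNat 332, .ofNat 63, .ofNat 0, .ofNat 63, .ofNat 774, .ofNat 0, .ofNat 625, .negSucc 60, .negSucc 270, .ofNat 0, .ofNat 128, .ofNat 68, .ofNat 0, .ofNat 0, .ofNat 946, .ofNat 3619, .ofNat 0, .ofNat 0, .ofNat 0, .ofNat 0, .ofNat 0, .ofNat 0, .ofNat 0, .ofNat 0, .ofNat 0, .ofNat 0, .ofNat 2298825033881096498156982788400611328,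 .ofNat 0, .ofNat 0, .ofNat 0, .ofNat 0, .ofNat 0⟩)
    (by decide +kernel)
theorem L01221 : Good (Phi V5.P V5.D (-1) (-1)) ⟨3, 4, 2, 0, 2, 3, 2, 1, 5, 6⟩ :=
  leafX_sound T5.ok_mm T5.Ymm.bz_eq (w := 208) (c := ⟨⟨.negSucc 2219, .negSucc 199, .ofNat 112, .ofNat 465, .ofNat 292, .ofNat 194⟩, ⟨.ofNat 40, .ofNat 146, .ofNat 401, .negSucc 68, .negSucc 32, .negSucc 25⟩, ⟨.ofNat 1507, .ofNat 95, .negSucc 143, .negSucc 461, .negSucc 432, .negSucc 151⟩, ⟨.negSucc 4832, .negSucc 35, .ofNat 58, .ofNat 949, .ofNat 602, .ofNat 371⟩, ⟨.negSucc 1106, .negSucc 236, .ofNat 75, .negSucc 12, .ofNat 113, .ofNat 22⟩, .ofNat 460, .ofNat 202, .ofNat 0, .ofNat 202, .ofNat 1938, .ofNat 0, .ofNat 313, .negSucc 110, .negSucc 182, .ofNat 0, .ofNat 128, .ofNat 32, .ofNat 0, .ofNat 0, .ofNat 686, .ofNat 2706, .ofNat 0, .ofNat 0, .ofNat 0, .ofNat 0, .ofNat 0, .ofNat 0, .ofNat 0, .ofNat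 0, .ofNat 0, .ofNat 0, .ofNat 0, .ofNat 0, .ofNat 0, .ofNat 0, .ofNat 0, .ofNat 0⟩)
    (by decide +kernel)
theorem L01222 : Good (Phi V5.P V5.D (-1) (-1)) ⟨3, 4, 2, 0, 2, 3, 2, 1, 5, 7⟩ :=
  leafX_sound T5.ok_mm T5.Ymm.bz_eq (w := 207) (c := ⟨⟨.negSucc 2041, .negSucc 168, .ofNat 78, .ofNat 486, .ofNat 226, .ofNat 149⟩, ⟨.ofNat 55, .ofNat 121, .ofNat 352, .negSucc 75, .negSucc 25, .negSucc 22⟩, ⟨.ofNat 1398, .ofNat 82, .negSucc 93, .negSucc 516, .negSucc 413, .negSucc 119⟩, ⟨.negSucc 4502, .ofNat 14, .ofNat 9, .ofNat 1007, .ofNat 511, .ofNat 320⟩, ⟨.negSucc 1233, .negSucc 108, .ofNat 190, .negSucc 50, .ofNat 301, .ofNat 96⟩, .ofNat 331, .ofNat 60, .ofNat 0, .ofNat 60, .ofNat 767, .ofNat 0, .ofNat 242, .negSucc 54, .negSucc 86, .ofNat 0, .ofNat 128, .ofNat 19, .ofNat 0, .ofNat 0, .ofNat 452, .ofNat 1776, .ofNat 0, .ofNat 0, .ofNat 695283709466934250119408388480696320,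 .ofNat 0, .ofNat 0, .ofNat 0, .ofNat 0, .ofNat 0, .ofNat 0, .ofNat 0, .ofNat 14134021237131577134506160917386887168, .ofNat 0, .ofNat 0, .ofNat 0, .ofNat 97182815472139249707155453503416041472, .ofNat 0⟩)
    (by decide +kernel)
theorem L01223 : Good (Phi V5.P V5.D (-1) (-1)) ⟨3, 5, 2, 0, 2, 2, 2, 1, 4, 3⟩ :=
  leafX_sound T5.ok_mm T5.Ymm.bz_eq (w := 203) (c := ⟨⟨.negSucc 2845, .negSucc 538, .ofNat 161, .ofNat 230, .ofNat 288, .ofNat 441⟩, ⟨.ofNat 333, .ofNat 295, .ofNat 404, .negSucc 88, .negSucc 63, .negSucc 103⟩, ⟨.ofNat 2394, .ofNat 474, .negSucc 285, .negSucc 602, .negSucc 487, .negSucc 278⟩, ⟨.negSucc 5452, .negSucc 385, .ofNat 154, .ofNat 265, .ofNat 564, .ofNat 812⟩, ⟨.negSucc 608, .ofNat 18, .negSucc 68, .negSucc 525, .ofNat 174, .ofNat 91⟩, .ofNat 315, .ofNat 106, .ofNat 0, .ofNat 106, .ofNat 687, .ofNat 0, .ofNat 250, .negSucc 95, .negSucc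 149, .ofNat 0, .ofNat 128, .ofNat 50, .ofNat 0, .ofNat 0, .ofNat 452, .ofNat 2055, .ofNat 0, .ofNat 0, .ofNat 0, .ofNat 0, .ofNat 0, .ofNat 0, .ofNat 4525154510117391778079912715538661376, .ofNat 0, .ofNat 0, .ofNat 0, .ofNat 0, .ofNat 0, .ofNat 0, .ofNat 0, .ofNat 3628578862640575851052879462684164096, .ofNat 0⟩)
    (by decide +kernel)
theorem L01224 : Good (Phi V5.P V5.D (-1) (-1)) ⟨3, 5, 2, 0, 3, 6, 2, 1, 4, 3⟩ :=
  leafX_sound T5.ok_mm T5.Ymm.bz_eq (w := 216) (c := ⟨⟨.negSucc 2719, .negSucc 341, .ofNat 127, .ofNat 457, .ofNat 323, .ofNat 518⟩, ⟨.ofNat 305, .ofNat 188, .ofNat 406, .negSucc 136, .negSucc 66, .negSucc 130⟩, ⟨.ofNat 2020, .ofNat 234, .negSucc 214, .negSucc 432, .negSucc 614, .negSucc 418⟩, ⟨.negSucc 5268, .negSucc 195, .ofNat 61, .ofNat 739, .ofNat 643, .ofNat 957⟩, ⟨.negSucc 1226, .negSucc 87, .ofNat 29, .negSucc 220, .ofNat 204, .ofNat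 177⟩, .ofNat 316, .ofNat 108, .ofNat 0, .ofNat 108, .ofNat 691, .ofNat 0, .ofNat 225, .negSucc 94, .negSucc 130, .ofNat 0, .ofNat 128, .ofNat 44, .ofNat 0, .ofNat 0, .ofNat 423, .ofNat 1715, .ofNat 0, .ofNat 0, .ofNat 0, .ofNat 0, .ofNat 0, .ofNat 0, .ofNat 63508271837417804578151144179006236000256, .ofNat 0, .ofNat 0, .ofNat 0, .ofNat 0, .ofNat 0, .ofNat 0, .ofNat 0, .ofNat 80268054131098450669956288452767619481600, .ofNat 0⟩)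
    (by decide +kernel)

end Crest.Agent.R097C5.N5mm
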