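import Crest.Agent.R097.KP7
import Crest.Agent.R097.T5Ymm

/-!
# Row 97, box cover in dimension n = 5 (generated)
-/

set_option autoImplicit false
set_option Elab.async false
set_option maxHeartbeats 0
set_option maxRecDepth 100000

open Crest.Agent.R097 Crest.Agent.R097.KA


namespace Crest.Agent.R097C5.N5mm

theorem L01225 : Good (Phi V5.P V5.D (-1) (-1)) ⟨3, 5, 2, 0, 3, 7, 2, 1, 4, 3⟩ :=
  leafX_sound T5.ok_mm T5.Ymm.bz_eq (w := 216) (c := ⟨⟨.negSucc 2356, .negSucc 95, .ofNat 104, .ofNat 378, .ofNat 385, .ofNat 430⟩, ⟨.ofNat 196, .ofNat 94, .ofNat 394, .negSucc 60, .negSucc 88, .negSucc 76⟩, ⟨.ofNat 1597, .ofNat 39, .negSucc 48, .negSucc 464, .negSucc 563, .negSucc 420⟩, ⟨.negSucc 4615, .ofNat 99, .ofNat 64, .ofNat 693, .ofNat 721, .ofNat 788⟩, ⟨.negSucc 1369, .negSucc 275, .ofNat 177, .ofNat 73, .ofNat 182, .ofNat 84⟩, .ofNat 455, .ofNat 320, .ofNat 0, .ofNat 320, .ofNat 1536, .ofNat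 0, .ofNat 213, .negSucc 127, .negSucc 83, .ofNat 0, .ofNat 127, .ofNat 21, .ofNat 0, .ofNat 0, .ofNat 407, .ofNat 1181, .ofNat 0, .ofNat 0, .ofNat 0, .ofNat 0, .ofNat 0, .ofNat 0, .ofNat 0, .ofNat 0, .ofNat 0, .ofNat 0, .ofNat 0, .ofNat 0, .ofNat 0, .ofNat 0, .ofNat 18864401573315221585571856991313811472384, .ofNat 0⟩)
    (by decide +kernel)
theorem L01226 : Good (Phi V5.P V5.D (-1) (-1)) ⟨3, 6, 3, 0, 1, 1, 1, 0, 3, 0⟩ :=
  out_sound (S := T5.ds_mm) T5.ok_mm (w := 45) (j := 3) (by decide +kernel)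
theorem L01227 : Good (Phi V5.P V5.D (-1) (-1)) ⟨4, 12, 3, 1, 2, 2, 5, 0, 4, 0⟩ :=
  leafX_sound T5.ok_mm T5.Ymm.bz_eq (w := 222) (c := ⟨⟨.ofNat 3092, .ofNat 1642, .ofNat 27, .ofNat 2896, .ofNat 233, .negSucc 4415⟩, ⟨.negSucc 1326, .negSucc 1117, .ofNat 116, .negSucc 1271, .negSucc 81, .ofNat 1563⟩, ⟨.negSucc 735, .negSucc 765, .negSucc 0, .negSucc 375, .negSucc 207, .ofNat 1167⟩, ⟨.ofNat 4458, .ofNat 1984, .negSucc 272, .ofNat 3746, .ofNat 408, .negSucc 7239⟩, ⟨.negSucc 2817, .negSucc 1017, .ofNat 141, .negSucc 2730, .ofNat 78, .ofNat 102⟩, .ofNat 475, .ofNat 385, .ofNat 0, .ofNat 385, .ofNat 1269, .ofNat 0, .ofNat 128, .negSucc 445, .negSucc 148, .ofNat 0, .ofNat 244, .ofNat 62, .ofNat 0, .ofNat 0, .ofNat 274, .ofNat 3330, .ofNat 1556410123058090942840982459271764890722762752, .ofNat 0, .ofNat 558209279201856849409995736456181579776, .ofNat 0, .ofNat 0, .ofNat 0, .ofNat 2330201594907098753406080806737040900096,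 .ofNat 0, .ofNat 0, .ofNat 0, .ofNat 23832513694360012835101453751253976743936, .ofNat 0, .ofNat 0, .ofNat 0, .ofNat 10182358813841146678707498128141807779840, .ofNat 0⟩)
    (by decide +kernel)
theorem L01228 : Good (Phi V5.P V5.D (-1) (-1)) ⟨4, 12, 3, 1, 2, 2, 5, 0, 5, 2⟩ :=
  leafX_sound T5.ok_mm T5.Ymm.bz_eq (w := 227) (c := ⟨⟨.negSucc 516, .ofNat 203, .ofNat 83, .ofNat 707, .ofNat 104, .negSucc 2455⟩, ⟨.negSucc 225, .negSucc 302, .ofNat 229, .negSucc 392, .negSucc 32, .ofNat 995⟩, ⟨.ofNat 411, .negSucc 159, .negSucc 161, .ofNat 152, .negSucc 177, .ofNat 1349⟩, ⟨.negSucc 1603, .ofNat 156, .negSucc 84, .ofNat 583, .ofNat 182, .negSucc 3605⟩, ⟨.negSucc 2857, .negSucc 339, .ofNat 53, .negSucc 1676, .ofNat 117, .ofNat 1334⟩, .ofNat 473, .ofNat 380, .ofNat 0, .ofNat 380, .ofNat 1258, .ofNat 0, .ofNat 128, .negSucc 310, .negSucc 189, .ofNat 0, .ofNat 182, .ofNat 83, .ofNat 0, .ofNat 0, .ofNat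 337, .ofNat 6606, .ofNat 63117524077853286506111488680410531640589156352, .ofNat 0, .ofNat 5344516730952023738886012685976915148800, .ofNat 0, .ofNat 0, .ofNat 0, .ofNat 46814870336397721454882800898676078149632, .ofNat 0, .ofNat 34584906485200525151782027050340153399420387328, .ofNat 0, .ofNat 1087776420925040732405224661116509659070464, .ofNat 0, .ofNat 0, .ofNat 0, .ofNat 186222650213401811144106889076027603025920, .ofNat 0⟩)
    (by decide +kernel)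
theorem L01229 : Good (Phi V5.P V5.D (-1) (-1)) ⟨4, 12, 3, 1, 2, 2, 5, 0, 5, 3⟩ :=
  leafX_sound T5.ok_mm T5.Ymm.bz_eq (w := 228) (c := ⟨⟨.negSucc 2252, .negSucc 869, .ofNat 160, .negSucc 804, .ofNat 197, .negSucc 1445⟩, ⟨.ofNat 350, .ofNat 375, .ofNat 270, .ofNat 269, .negSucc 91, .ofNat 631⟩, ⟨.ofNat 1222, .ofNat 708, .negSucc 196, .ofNat 1024, .negSucc 253, .ofNat 1147⟩, ⟨.negSucc 4337, .negSucc 1006, .ofNat 137, .negSucc 1383, .ofNat 235, .negSucc 1894⟩, ⟨.negSucc 1919, .ofNat 345, .negSucc 71, .negSucc 126, .negSucc 257, .ofNat 1303⟩, .ofNat 475, .ofNat 384, .ofNat 0, .ofNat 384, .ofNat 1268, .ofNat 0, .ofNat 128, .negSucc 296, .negSucc 351, .ofNat 0, .ofNat 176, .ofNat 158, .ofNat 0, .ofNat 0, .ofNat 591, .ofNat 13150, .ofNat 79071189985891200357006402373797155981267828736, .ofNat 0, .ofNat 0, .ofNat 0, .ofNat 61805054342551344151327581346239482411488378880, .ofNat 0, .ofNat 231268913461856548589115678905510341378048,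 .ofNat 0, .ofNat 0, .ofNat 0, .ofNat 473026011279460816023602645967503229976576, .ofNat 0, .ofNat 0, .ofNat 0, .ofNat 595852482850331601876235937863644911501312, .ofNat 0⟩)
    (by decide +kernel)
theorem L01230 : Good (Phi V5.P V5.D (-1) (-1)) ⟨4, 12, 3, 1, 3, 6, 5, 0, 4, 0⟩ :=
  leafX_sound T5.ok_mm T5.Ymm.bz_eq (w := 236) (c := ⟨⟨.ofNat 5797, .ofNat 2433, .negSucc 925, .negSucc 2810, .ofNat 81, .negSucc 3444⟩, ⟨.negSucc 2490, .negSucc 1418, .ofNat 500, .ofNat 1225, .ofNat 3, .ofNat 1097⟩, ⟨.negSucc 1975, .negSucc 1366, .ofNat 883, .ofNat 1545, .negSucc 137, .ofNat 1376⟩, ⟨.ofNat 7936, .ofNat 2882, .negSucc 1379, .negSucc 3775, .ofNat 264, .negSucc 6102⟩, ⟨.negSucc 5359, .negSucc 1703, .ofNat 1266, .ofNat 2274, .ofNat 251, .negSucc 1221⟩, .ofNat 627, .ofNat 686, .ofNat 0, .ofNat 686, .ofNat 2054, .ofNat 0, .ofNat 128, .negSucc 305, .negSucc 337, .ofNat 0, .ofNat 164, .ofNat 129, .ofNat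 0, .ofNat 0, .ofNat 454, .ofNat 3856, .ofNat 10623057696823291715073806614336755478882773106688, .ofNat 0, .ofNat 11969341482925477501346252848968261299077120, .ofNat 0, .ofNat 0, .ofNat 0, .ofNat 52033412784409694506009136256075900909518848, .ofNat 0, .ofNat 749134167804801726202730184366575707479498293248, .ofNat 0, .ofNat 531804721349623579594223219455180285434396672, .ofNat 0, .ofNat 15044155559130827652032778789092527401949720477696, .ofNat 0, .ofNat 287487795287466810552209491015710902230974464, .ofNat 0⟩)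
    (by decide +kernel)
theorem L01231 : Good (Phi V5.P V5.D (-1) (-1)) ⟨4, 12, 3, 1, 3, 7, 5, 0, 4, 0⟩ :=
  leafX_sound T5.ok_mm T5.Ymm.bz_eq (w := 236) (c := ⟨⟨.ofNat 2065, .negSucc 74, .ofNat 280, .negSucc 1968, .ofNat 240, .negSucc 4028⟩, ⟨.negSucc 990, .negSucc 64, .ofNat 15, .ofNat 1015, .negSucc 47, .ofNat 1325⟩, ⟨.ofNat 395, .ofNat 137, .ofNat 174, .negSucc 364, .negSucc 182, .ofNat 2020⟩, ⟨.ofNat 2734, .negSucc 204, .ofNat 290, .negSucc 1990, .ofNat 493, .negSucc 6861⟩, ⟨.negSucc 2099, .negSucc 140, .negSucc 223, .ofNat 3711, .ofNat 109, .negSucc 656⟩, .ofNat 554, .ofNat 532, .ofNat 0, .ofNat 532, .ofNat 1668, .ofNat 0, .ofNat 128, .negSucc 337, .negSucc 322, .ofNat 0, .ofNat 192, .ofNat 102, .ofNat 0, .ofNat 0, .ofNat 415, .ofNat 4353, .ofNat 0, .ofNat 0, .ofNat 0, .ofNat 0, .ofNat 0, .ofNat 0, .ofNat 153842513953152473999373474759475385136578560, .ofNat 0, .ofNat 0, .ofNat 0,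 .ofNat 413765744023358447324589385304742823263731712, .ofNat 0, .ofNat 0, .ofNat 0, .ofNat 139280971183655325268275774964354156331008000, .ofNat 0⟩)
    (by decide +kernel)
theorem L01232 : Good (Phi V5.P V5.D (-1) (-1)) ⟨4, 12, 3, 1, 3, 6, 5, 0, 6, 4⟩ :=
  leafX_sound T5.ok_mm T5.Ymm.bz_eq (w := 246) (c := ⟨⟨.ofNat 911, .ofNat 1292, .ofNat 172, .negSucc 3054, .ofNat 149, .negSucc 2341⟩, ⟨.negSucc 935, .negSucc 825, .ofNat 210, .ofNat 1307, .negSucc 29, .ofNat 972⟩, ⟨.ofNat 244, .negSucc 752, .negSucc 62, .ofNat 2529, .negSucc 362, .ofNat 1429⟩, ⟨.negSucc 36, .ofNat 1505, .ofNat 34, .negSucc 4118, .ofNat 296, .negSucc 3291⟩, ⟨.negSucc 5039, .negSucc 1347, .negSucc 80, .ofNat 2657, .ofNat 95, .ofNat 1644⟩, .ofNat 472, .ofNat 376, .ofNat 0, .ofNat 376, .ofNat 1255, .ofNat 0, .ofNat 128, .negSucc 326, .negSucc 667, .ofNat 0, .ofNat 186, .ofNat 284, .ofNat 0, .ofNat 0, .ofNat 706, .ofNat 7859,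 .ofNat 1636708149615313195151216267805229508916661205336064, .ofNat 0, .ofNat 1310242679696934530977522973657741546307452928, .ofNat 0, .ofNat 0, .ofNat 0, .ofNat 0, .ofNat 0, .ofNat 0, .ofNat 0, .ofNat 585829754543400834757368520288942450315242766336, .ofNat 0, .ofNat 0, .ofNat 0, .ofNat 567144446975824857038182906935499159890535907328, .ofNat 0⟩)
    (by decide +kernel)
theorem L01233 : Good (Phi V5.P V5.D (-1) (-1)) ⟨4, 12, 3, 1, 3, 6, 5, 0, 6, 5⟩ :=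
  leafX_sound T5.ok_mm T5.Ymm.bz_eq (w := 247) (c := ⟨⟨.negSucc 1626, .negSucc 1281, .ofNat 700, .negSucc 2596, .ofNat 395, .negSucc 1786⟩, ⟨.negSucc 9, .ofNat 510, .ofNat 56, .ofNat 1142, .negSucc 139, .ofNat 760⟩, ⟨.ofNat 1544, .ofNat 988, .negSucc 531, .ofNat 2657, .negSucc 445, .ofNat 1237⟩, ⟨.negSucc 3799, .negSucc 1616, .ofNat 858, .negSucc 3384, .ofNat 612, .negSucc 2415⟩, ⟨.negSucc 3087, .ofNat 628, .negSucc 689, .ofNat 2411, .negSucc 184, .ofNat 1412⟩, .ofNat 624, .ofNat 677, .ofNat 0, .ofNat 677, .ofNat 2030, .ofNat 0, .ofNat 128, .negSucc 286, .negSucc 504, .ofNat 0, .ofNat 155, .ofNat 216, .ofNat 0, .ofNat 0, .ofNat 582, .ofNat 9216, .ofNat 1602646181543419638914512979633903040705594988167168, .ofNat 0, .ofNat 20710630500140404551989755728368622307331014656, .ofNat 0, .ofNat 0, .ofNat 0, .ofNat 221286567471319147460856193079179529867208163328, .ofNat 0, .ofNat 1145224543200480856677058411076017003716463116156928,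 .ofNat 0, .ofNat 551936593507095065125831755571918898421448048640, .ofNat 0, .ofNat 0, .ofNat 0, .ofNat 852757272358200486127694432678897589598440914944, .ofNat 0⟩)
    (by decide +kernel)
theorem L01234 : Good (Phi V5.P V5.D (-1) (-1)) ⟨4, 12, 3, 1, 3, 6, 6, 0, 5, 3⟩ :=
  leafX_sound T5.ok_mm T5.Ymm.bz_eq (w := 247) (c := ⟨⟨.negSucc 3155, .negSucc 2697, .ofNat 1042, .negSucc 2222, .negSucc 336, .ofNat 115⟩, ⟨.ofNat 618, .ofNat 1339, .negSucc 91, .ofNat 991, .ofNat 135, .negSucc 20⟩, ⟨.ofNat 2568, .ofNat 2077, .negSucc 901, .ofNat 2584, .ofNat 162, .negSucc 67⟩, ⟨.negSucc 5977, .negSucc 3168, .ofNat 1398, .negSucc 2809, .negSucc 431, .ofNat 249⟩, ⟨.negSucc 2126, .ofNat 1860, .negSucc 864, .ofNat 2351, .ofNat 495, .ofNat 227⟩, .ofNat 664, .ofNat 766, .ofNat 0, .ofNat 766, .ofNat 2283, .ofNat 0, .ofNat 128, .negSucc 208, .negSucc 311, .ofNat 0, .ofNat 119, .ofNat 133, .ofNat 0, .ofNat 0, .ofNat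 404, .ofNat 23143, .ofNat 5183233046109913004084686885292041103936009497739264, .ofNat 0, .ofNat 8009293912748113043161103204072443997497327616, .ofNat 0, .ofNat 1116315774044568979897436503404799205388611064168448, .ofNat 0, .ofNat 64263701350122832290908388097932836377938886656, .ofNat 0, .ofNat 6112845768767058120018441834413642631128347578466304, .ofNat 0, .ofNat 231881275808715115109349844982158797473277018112, .ofNat 0, .ofNat 5126726964593540122288340133302031674372182580920320, .ofNat 0, .ofNat 182717664431580783057517535749738155290696613888, .ofNat 0⟩)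
    (by decide +kernel)
theorem L01235 : Good (Phi V5.P V5.D (-1) (-1)) ⟨5, 24, 3, 1, 3, 6, 6, 1, 5, 3⟩ :=
  leafX_sound T5.ok_mm T5.Ymm.bz_eq (w := 250) (c := ⟨⟨.negSucc 3638, .negSucc 1114, .ofNat 844, .negSucc 1336, .ofNat 67, .negSucc 784⟩, ⟨.ofNat 823, .ofNat 548, .negSucc 8, .ofNat 615, .negSucc 30, .ofNat 367⟩, ⟨.ofNat 2787, .ofNat 894, .negSucc 730, .ofNat 1886, .negSucc 156, .ofNat 721⟩, ⟨.negSucc 6580, .negSucc 1302, .ofNat 1111, .negSucc 1643, .ofNat 91, .negSucc 949⟩, ⟨.negSucc 1628, .ofNat 776, .negSucc 678, .ofNat 1655, .ofNat 1, .ofNat 949⟩, .ofNat 554, .ofNat 531, .ofNat 0, .ofNat 531, .ofNat 1652, .ofNat 0, .ofNat 128, .negSucc 273, .negSucc 438, .ofNat 0, .ofNat 161, .ofNat 194, .ofNat 0, .ofNat 0, .ofNat 579, .ofNat 17626, .ofNat 24514263937366459479158761358767454394242232863424512, .ofNat 0, .ofNat 1640323272921607380191720847977032061689004032, .ofNat 0, .ofNat 0, .ofNat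 0, .ofNat 14672585582707077327285992760238344006975619072, .ofNat 0, .ofNat 0, .ofNat 0, .ofNat 52849587893013591749104658950008781123646128128, .ofNat 0, .ofNat 0, .ofNat 0, .ofNat 79773497626904772604328176103602985559534862336, .ofNat 0⟩)
    (by decide +kernel)
theorem L01236 : Good (Phi V5.P V5.D (-1) (-1)) ⟨5, 25, 3, 1, 3, 6, 6, 1, 5, 3⟩ :=
  leafX_sound T5.ok_mm T5.Ymm.bz_eq (w := 251) (c := ⟨⟨.negSucc 3271, .negSucc 2836, .negSucc 999, .negSucc 1452, .ofNat 230, .negSucc 521⟩, ⟨.ofNat 693, .ofNat 1412, .ofNat 807, .ofNat 718, .negSucc 109, .ofNat 274⟩, ⟨.ofNat 2236, .ofNat 2506, .ofNat 926, .ofNat 2042, .negSucc 286, .ofNat 547⟩, ⟨.negSucc 6028, .negSucc 3273, .negSucc 1272, .negSucc 1667, .ofNat 274, .negSucc 532⟩, ⟨.negSucc 2011, .ofNat 1843, .ofNat 816, .ofNat 1758, .negSucc 240, .ofNat 799⟩, .ofNat 780, .ofNat 984, .ofNat 0, .ofNat 984, .ofNat 2611, .ofNat 0, .ofNat 128, .negSucc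 344, .negSucc 575, .ofNat 0, .ofNat 201, .ofNat 268, .ofNat 0, .ofNat 0, .ofNat 717, .ofNat 25718, .ofNat 27600220758206692574360078113892545534004812369100800, .ofNat 0, .ofNat 5873611069035607251123856079133374537304899584, .ofNat 0, .ofNat 0, .ofNat 0, .ofNat 152572421579857054331519213189317466005146959872, .ofNat 0, .ofNat 0, .ofNat 0, .ofNat 221985873814130339305430396333694432711970652160, .ofNat 0, .ofNat 0, .ofNat 0, .ofNat 361349043104629508290368763340739201288999272448, .ofNat 0⟩)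
    (by decide +kernel)
theorem L01237 : Good (Phi V5.P V5.D (-1) (-1)) ⟨4, 12, 3, 1, 4, 14, 5, 0, 4, 1⟩ :=
  leafX_sound T5.ok_mm T5.Ymm.bz_eq (w := 250) (c := ⟨⟨.negSucc 3810, .negSucc 1845, .ofNat 872, .ofNat 239, .ofNat 132, .negSucc 1572⟩, ⟨.ofNat 931, .ofNat 870, .negSucc 29, .negSucc 32, .negSucc 61, .ofNat 716⟩, ⟨.ofNat 3898, .ofNat 1372, .negSucc 542, .negSucc 639, .negSucc 219, .ofNat 939⟩, ⟨.negSucc 6702, .negSucc 2321, .ofNat 1276, .ofNat 499, .ofNat 209, .negSucc 2154⟩, ⟨.negSucc 801, .ofNat 878, .negSucc 859, .ofNat 425, .negSucc 177, .ofNat 1555⟩, .ofNat 478, .ofNat 391, .ofNat 0, .ofNat 391, .ofNat 1283, .ofNat 0, .ofNat 128, .negSucc 239, .negSucc 440, .ofNat 0, .ofNat 156, .ofNat 177, .ofNat 0, .ofNat 0, .ofNat 565, .ofNat 6092, .ofNat 26780154468692268507220992489453345218919327533629440, .ofNat 0, .ofNat 206115417896812512679193498038630172996357062656, .ofNat 0, .ofNat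 0, .ofNat 0, .ofNat 1354051808373764291450466075412488927363530227712, .ofNat 0, .ofNat 40088639374935670792910896839528009821810852712415232, .ofNat 0, .ofNat 7605635475807247357743440267033720460512784809984, .ofNat 0, .ofNat 0, .ofNat 0, .ofNat 8046743223889815861014837124763263474532255531008, .ofNat 0⟩)
    (by decide +kernel)
theorem L01238 : Good (Phi V5.P V5.D (-1) (-1)) ⟨4, 12, 3, 1, 4, 15, 5, 0, 4, 1⟩ :=
  leafX_sound T5.ok_mm T5.Ymm.bz_eq (w := 249) (c := ⟨⟨.negSucc 4648, .negSucc 1553, .ofNat 902, .ofNat 218, .ofNat 187, .negSucc 332⟩, ⟨.ofNat 1389, .ofNat 916, .negSucc 143, .ofNat 94, .negSucc 97, .ofNat 163⟩, ⟨.ofNat 3644, .ofNat 618, .negSucc 205, .negSucc 1722, .negSucc 100, .ofNat 270⟩, ⟨.negSucc 7609, .negSucc 1661, .ofNat 1244, .ofNat 997, .ofNat 176, .negSucc 474⟩, ⟨.ofNat 390, .ofNat 948, .negSucc 941, .ofNat 1863, .negSucc 409, .ofNat 508⟩, .ofNat 472, .ofNat 377, .ofNat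 0, .ofNat 377, .ofNat 1254, .ofNat 0, .ofNat 128, .negSucc 387, .negSucc 148, .ofNat 0, .ofNat 252, .ofNat 50, .ofNat 0, .ofNat 0, .ofNat 220, .ofNat 2065, .ofNat 0, .ofNat 0, .ofNat 0, .ofNat 0, .ofNat 0, .ofNat 0, .ofNat 1304816175310522299700217669212711348074295853056, .ofNat 0, .ofNat 0, .ofNat 0, .ofNat 4424945883676661037473297637426577140296903032832, .ofNat 0, .ofNat 0, .ofNat 0, .ofNat 1243649335048260918902918805144736783130544832512, .ofNat 0⟩)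
    (by decide +kernel)
theorem L01239 : Good (Phi V5.P V5.D (-1) (-1)) ⟨4, 12, 3, 1, 2, 2, 5, 1, 4, 0⟩ :=
  leafX_sound T5.ok_mm T5.Ymm.bz_eq (w := 222) (c := ⟨⟨.ofNat 3054, .ofNat 1326, .ofNat 176, .ofNat 2781, .negSucc 213, .negSucc 3937⟩, ⟨.negSucc 1206, .negSucc 903, .negSucc 82, .negSucc 1189, .ofNat 146, .ofNat 1335⟩, ⟨.negSucc 1103, .negSucc 529, .ofNat 46, .negSucc 326, .negSucc 133, .ofNat 1091⟩, ⟨.ofNat 4351, .ofNat 1433, .ofNat 47, .ofNat 3768, .negSucc 110, .negSucc 6658⟩, ⟨.negSucc 3148, .negSucc 45, .ofNat 286, .negSucc 1976, .ofNat 621, .negSucc 875⟩, .ofNat 628, .ofNat 683, .ofNat 0, .ofNat 683, .ofNat 2024, .ofNat 0, .ofNat 128, .negSucc 456, .negSucc 238, .ofNat 0, .ofNat 240, .ofNat 98, .ofNat 0, .ofNat 0, .ofNat 420, .ofNat 2299, .ofNat 0, .ofNat 0, .ofNat 590541311504034999775129220012180504576, .ofNat 0, .ofNat 0, .ofNat 0, .ofNat 11807248154361520512238162425494548512768,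 .ofNat 0, .ofNat 0, .ofNat 0, .ofNat 52068804565495205390295580357229027524608, .ofNat 0, .ofNat 0, .ofNat 0, .ofNat 10981353620407727279233170247010192719872, .ofNat 0⟩)
    (by decide +kernel)
theorem L01240 : Good (Phi V5.P V5.D (-1) (-1)) ⟨4, 12, 3, 1, 2, 3, 5, 1, 4, 0⟩ :=
  leafX_sound T5.ok_mm T5.Ymm.bz_eq (w := 222) (c := ⟨⟨.ofNat 5587, .ofNat 1286, .negSucc 27, .negSucc 5613, .ofNat 152, .negSucc 3675⟩, ⟨.negSucc 2385, .negSucc 765, .ofNat 140, .ofNat 2474, .negSucc 7, .ofNat 1138⟩, ⟨.negSucc 1844, .negSucc 718, .ofNat 144, .ofNat 2662, .negSucc 279, .ofNat 1774⟩, ⟨.ofNat 7856, .ofNat 1534, .negSucc 186, .negSucc 7239, .ofNat 348, .negSucc 6601⟩, ⟨.negSucc 4460, .negSucc 941, .negSucc 24, .ofNat 5967, .ofNat 246, .negSucc 1246⟩, .ofNat 473, .ofNat 380, .ofNat 0, .ofNat 380, .ofNat 1262, .ofNat 0, .ofNat 128, .negSucc 318, .negSucc 381, .ofNat 0, .ofNat 188, .ofNat 127, .ofNat 0,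 .ofNat 0, .ofNat 469, .ofNat 888, .ofNat 0, .ofNat 0, .ofNat 365311477434198666917891961461273526272, .ofNat 0, .ofNat 0, .ofNat 0, .ofNat 5129492114154668923548001333947435843584, .ofNat 0, .ofNat 0, .ofNat 0, .ofNat 19273111712624787489615629760743136559104, .ofNat 0, .ofNat 0, .ofNat 0, .ofNat 7278833258694119111156962732008435351552, .ofNat 0⟩)
    (by decide +kernel)
theorem L01241 : Good (Phi V5.P V5.D (-1) (-1)) ⟨4, 12, 3, 1, 3, 4, 5, 1, 4, 1⟩ :=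
  leafX_sound T5.ok_mm T5.Ymm.bz_eq (w := 235) (c := ⟨⟨.negSucc 469, .negSucc 506, .negSucc 16, .negSucc 115, .negSucc 22, .negSucc 2874⟩, ⟨.negSucc 281, .ofNat 77, .ofNat 308, .ofNat 0, .ofNat 18, .ofNat 1134⟩, ⟨.ofNat 323, .ofNat 222, .negSucc 76, .negSucc 23, .negSucc 20, .ofNat 1954⟩, ⟨.negSucc 1625, .negSucc 730, .negSucc 99, .negSucc 359, .negSucc 7, .negSucc 4244⟩, ⟨.negSucc 2638, .ofNat 208, .ofNat 11, .negSucc 591, .ofNat 109, .ofNat 1497⟩, .ofNat 475, .ofNat 384, .ofNat 0, .ofNat 384, .ofNat 1265, .ofNat 0, .ofNat 128, .negSucc 226, .negSucc 83, .ofNat 0, .ofNat 139, .ofNat 37, .ofNat 0, .ofNat 0, .ofNat 158, .ofNat 2960, .ofNat 0, .ofNat 0, .ofNat 0, .ofNat 0, .ofNat 0, .ofNat 0, .ofNat 0, .ofNat 0, .ofNat 0, .ofNat 0, .ofNat 355859193242518359087791046808102737398464512, .ofNat 0, .ofNat 542108957368137776585845735711728552318875992064, .ofNat 0, .ofNat 16525885706428288728536248849992160695549952,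 .ofNat 0⟩)
    (by decide +kernel)
theorem L01242 : Good (Phi V5.P V5.D (-1) (-1)) ⟨4, 12, 3, 1, 3, 5, 5, 1, 4, 1⟩ :=
  leafX_sound T5.ok_mm T5.Ymm.bz_eq (w := 235) (c := ⟨⟨.ofNat 313, .negSucc 429, .ofNat 449, .negSucc 458, .ofNat 153, .negSucc 4715⟩, ⟨.negSucc 666, .ofNat 69, .ofNat 68, .ofNat 166, .negSucc 66, .ofNat 1990⟩, ⟨.negSucc 100, .ofNat 264, .negSucc 371, .ofNat 695, .negSucc 130, .ofNat 2868⟩, ⟨.negSucc 761, .negSucc 606, .ofNat 438, .negSucc 687, .ofNat 245, .negSucc 6646⟩, ⟨.negSucc 4234, .negSucc 192, .negSucc 140, .ofNat 216, .ofNat 175, .ofNat 3098⟩, .ofNat 477, .ofNat 387, .ofNat 0, .ofNat 387, .ofNat 1267, .ofNat 0, .ofNat 128, .negSucc 355, .negSucc 219, .ofNat 0, .ofNat 204, .ofNat 98, .ofNat 0, .ofNat 0, .ofNat 311, .ofNat 2419, .ofNat 0, .ofNat 0, .ofNat 3964035955352485438216184569872894622957568, .ofNat 0, .ofNat 0, .ofNat 0, .ofNat 0, .ofNat 0, .ofNat 0, .ofNat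 0, .ofNat 258158317688089719854605686480881372113141760, .ofNat 0, .ofNat 0, .ofNat 0, .ofNat 172453133366559497134348517016331002780319744, .ofNat 0⟩)
    (by decide +kernel)
theorem L01243 : Good (Phi V5.P V5.D (-1) (-1)) ⟨4, 12, 3, 1, 3, 6, 5, 1, 5, 2⟩ :=
  leafX_sound T5.ok_mm T5.Ymm.bz_eq (w := 241) (c := ⟨⟨.ofNat 1090, .negSucc 343, .ofNat 546, .negSucc 2621, .ofNat 93, .negSucc 4201⟩, ⟨.negSucc 1092, .ofNat 42, .ofNat 75, .ofNat 1171, .negSucc 4, .ofNat 1780⟩, ⟨.negSucc 364, .ofNat 253, .negSucc 165, .ofNat 2425, .negSucc 197, .ofNat 2623⟩, ⟨.ofNat 54, .negSucc 514, .ofNat 699, .negSucc 3427, .ofNat 232, .negSucc 5856⟩, ⟨.negSucc 5059, .negSucc 380, .negSucc 65, .ofNat 2432, .ofNat 149, .ofNat 2755⟩, .ofNat 476, .ofNat 386, .ofNat 0, .ofNat 386, .ofNat 1266, .ofNat 0, .ofNat 128, .negSucc 273, .negSucc 488, .ofNat 0, .ofNat 158, .ofNat 210, .ofNat 0, .ofNat 0, .ofNat 515, .ofNat 3255,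 .ofNat 0, .ofNat 0, .ofNat 187905614457664930044557435225439237186781184, .ofNat 0, .ofNat 0, .ofNat 0, .ofNat 5392458829692429666597889253053928091269726208, .ofNat 0, .ofNat 0, .ofNat 0, .ofNat 11999347192596234203293608064643115319056924672, .ofNat 0, .ofNat 0, .ofNat 0, .ofNat 11566514189241470670568174111485202031081160704, .ofNat 0⟩)
    (by decide +kernel)
theorem L01244 : Good (Phi V5.P V5.D (-1) (-1)) ⟨4, 12, 3, 1, 3, 6, 5, 1, 5, 3⟩ :=
  leafX_sound T5.ok_mm T5.Ymm.bz_eq (w := 242) (c := ⟨⟨.negSucc 3638, .negSucc 2158, .ofNat 879, .negSucc 996, .negSucc 0, .negSucc 762⟩, ⟨.ofNat 831, .ofNat 1065, .negSucc 30, .ofNat 473, .negSucc 3, .ofNat 344⟩, ⟨.ofNat 2778, .ofNat 1677, .negSucc 794, .ofNat 1531, .negSucc 131, .ofNat 684⟩, ⟨.negSucc 6570, .negSucc 2524, .ofNat 1154, .negSucc 1155, .negSucc 10, .negSucc 954⟩, ⟨.negSucc 1586, .ofNat 1430, .negSucc 712, .ofNat 1433, .negSucc 0, .ofNat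 831⟩, .ofNat 625, .ofNat 679, .ofNat 0, .ofNat 679, .ofNat 2034, .ofNat 0, .ofNat 128, .negSucc 293, .negSucc 396, .ofNat 0, .ofNat 169, .ofNat 172, .ofNat 0, .ofNat 0, .ofNat 524, .ofNat 6104, .ofNat 0, .ofNat 0, .ofNat 545270018849450891088582457700894376204435456, .ofNat 0, .ofNat 0, .ofNat 0, .ofNat 5003445786874627046403233549103958951173554176, .ofNat 0, .ofNat 0, .ofNat 0, .ofNat 26719714131768631302184429318734501284532977664, .ofNat 0, .ofNat 0, .ofNat 0, .ofNat 23964450397059772599639735201596994856427716608, .ofNat 0⟩)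
    (by decide +kernel)
theorem L01245 : Good (Phi V5.P V5.D (-1) (-1)) ⟨4, 12, 3, 1, 3, 7, 5, 1, 5, 2⟩ :=
  leafX_sound T5.ok_mm T5.Ymm.bz_eq (w := 240) (c := ⟨⟨.negSucc 3365, .negSucc 1729, .ofNat 949, .negSucc 203, .ofNat 251, .negSucc 1486⟩, ⟨.ofNat 814, .ofNat 863, .negSucc 122, .ofNat 294, .negSucc 106, .ofNat 588⟩, ⟨.ofNat 3485, .ofNat 880, .negSucc 230, .negSucc 1788, .negSucc 173, .ofNat 765⟩, ⟨.negSucc 5929, .negSucc 2076, .ofNat 1248, .ofNat 489, .ofNat 345, .negSucc 2257⟩, ⟨.negSucc 1228, .ofNat 699, .negSucc 917, .ofNat 2678, .negSucc 310, .ofNat 933⟩, .ofNat 449, .ofNat 322, .ofNat 0, .ofNat 322, .ofNat 1084, .ofNat 0, .ofNat 128, .negSucc 361, .negSucc 391, .ofNat 0, .ofNat 235, .ofNat 151, .ofNat 0, .ofNat 0, .ofNat 402, .ofNat 1707, .ofNat 0, .ofNat 0, .ofNat 211368019202611102231932774371326628613586944, .ofNat 0, .ofNat 0, .ofNat 0, .ofNat 2908207270956600213993829118488143882618929152,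 .ofNat 0, .ofNat 0, .ofNat 0, .ofNat 5745729560812647872766946713164955006682529792, .ofNat 0, .ofNat 0, .ofNat 0, .ofNat 6772690077898997337673163080419537138659360768, .ofNat 0⟩)
    (by decide +kernel)
theorem L01246 : Good (Phi V5.P V5.D (-1) (-1)) ⟨4, 12, 3, 1, 3, 7, 5, 1, 5, 3⟩ :=
  leafX_sound T5.ok_mm T5.Ymm.bz_eq (w := 241) (c := ⟨⟨.negSucc 5418, .negSucc 1554, .ofNat 748, .ofNat 883, .ofNat 129, .ofNat 342⟩, ⟨.ofNat 1640, .ofNat 844, .negSucc 4, .negSucc 206, .negSucc 63, .negSucc 122⟩, ⟨.ofNat 4782, .ofNat 1010, .negSucc 443, .negSucc 2383, .negSucc 118, .negSucc 155⟩, ⟨.negSucc 8969, .negSucc 1781, .ofNat 1155, .ofNat 1878, .ofNat 138, .ofNat 538⟩, ⟨.ofNat 353, .ofNat 629, .negSucc 499, .ofNat 1279, .negSucc 285, .negSucc 124⟩, .ofNat 473, .ofNat 379, .ofNat 0, .ofNat 379, .ofNat 1259, .ofNat 0, .ofNat 128, .negSucc 443, .negSucc 337, .ofNat 0, .ofNat 297, .ofNat 127, .ofNat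 0, .ofNat 0, .ofNat 469, .ofNat 2691, .ofNat 0, .ofNat 0, .ofNat 325515112555516130293341570865279563322097664, .ofNat 0, .ofNat 0, .ofNat 0, .ofNat 4213763131826709808439041949121780676237983744, .ofNat 0, .ofNat 0, .ofNat 0, .ofNat 14236536875884984162385395148174045323873746944, .ofNat 0, .ofNat 0, .ofNat 0, .ofNat 9224512720929966467920997357974027175620247552, .ofNat 0⟩)
    (by decide +kernel)
theorem L01247 : Good (Phi V5.P V5.D (-1) (-1)) ⟨4, 12, 3, 1, 2, 2, 4, 1, 4, 0⟩ :=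
  leafX_sound T5.ok_mm T5.Ymm.bz_eq (w := 217) (c := ⟨⟨.ofNat 3131, .ofNat 1183, .ofNat 123, .ofNat 2795, .negSucc 342, .negSucc 4082⟩, ⟨.negSucc 1203, .negSucc 909, .negSucc 72, .negSucc 1158, .ofNat 220, .ofNat 1401⟩, ⟨.negSucc 1229, .negSucc 807, .ofNat 180, .negSucc 656, .negSucc 200, .ofNat 1354⟩, ⟨.ofNat 4592, .ofNat 1161, .negSucc 67, .ofNat 3879, .negSucc 253, .negSucc 6827⟩, ⟨.negSucc 2523, .negSucc 574, .ofNat 152, .negSucc 1994, .ofNat 846, .negSucc 543⟩, .ofNat 474, .ofNat 382, .ofNat 0, .ofNat 382, .ofNat 1260, .ofNat 0, .ofNat 128, .negSucc 313, .negSucc 193, .ofNat 0, .ofNat 183, .ofNat 78, .ofNat 0, .ofNat 0, .ofNat 297, .ofNat 1418, .ofNat 0, .ofNat 0, .ofNat 27122109588488182308449513464645287936, .ofNat 0, .ofNat 0, .ofNat 0, .ofNat 397457578777471345458318441999176302592, .ofNat 0, .ofNat 0, .ofNat 0, .ofNat 1597804745929322816937837864024174231552, .ofNat 0, .ofNat 0,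 .ofNat 0, .ofNat 613166896328993911447066647690746003456, .ofNat 0⟩)
    (by decide +kernel)
theorem L01248 : Good (Phi V5.P V5.D (-1) (-1)) ⟨4, 12, 3, 1, 2, 2, 4, 1, 4, 1⟩ :=
  leafX_sound T5.ok_mm T5.Ymm.bz_eq (w := 216) (c := ⟨⟨.negSucc 109, .negSucc 919, .ofNat 275, .negSucc 349, .negSucc 72, .negSucc 3444⟩, ⟨.negSucc 442, .ofNat 355, .ofNat 165, .ofNat 82, .ofNat 53, .ofNat 1383⟩, ⟨.negSucc 47, .ofNat 600, .negSucc 194, .ofNat 454, .ofNat 36, .ofNat 2287⟩, ⟨.negSucc 1097, .negSucc 1071, .ofNat 242, .negSucc 724, .negSucc 39, .negSucc 5074⟩, ⟨.negSucc 2984, .ofNat 546, .negSucc 76, .negSucc 621, .ofNat 249, .ofNat 1937⟩, .ofNat 474, .ofNat 381, .ofNat 0, .ofNat 381, .ofNat 1264, .ofNat 0, .ofNat 128, .negSucc 263, .negSucc 176, .ofNat 0, .ofNat 161, .ofNat 76, .ofNat 0, .ofNat 0, .ofNat 279, .ofNat 944, .ofNat 0, .ofNat 0, .ofNat 0, .ofNat 0, .ofNat 0, .ofNat 0, .ofNat 126977734104766226009660343100349874176,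 .ofNat 0, .ofNat 0, .ofNat 0, .ofNat 1433358489274708831569196379380054491136, .ofNat 0, .ofNat 0, .ofNat 0, .ofNat 574732879737520748185294680338410242048, .ofNat 0⟩)
    (by decide +kernel)
theorem L01249 : Good (Phi V5.P V5.D (-1) (-1)) ⟨4, 12, 3, 1, 2, 3, 4, 1, 4, 0⟩ :=
  leafX_sound T5.ok_mm T5.Ymm.bz_eq (w := 218) (c := ⟨⟨.ofNat 5625, .ofNat 860, .negSucc 89, .negSucc 5177, .ofNat 191, .negSucc 3463⟩, ⟨.negSucc 2286, .negSucc 602, .ofNat 91, .ofNat 2308, .negSucc 2, .ofNat 1034⟩, ⟨.negSucc 2199, .ofNat 96, .negSucc 10, .ofNat 2856, .negSucc 268, .ofNat 1436⟩, ⟨.ofNat 7988, .ofNat 855, .negSucc 171, .negSucc 6575, .ofNat 489, .negSucc 6237⟩, ⟨.negSucc 4150, .negSucc 782, .ofNat 494, .ofNat 5385, .ofNat 488, .negSucc 1406⟩, .ofNat 557, .ofNat 539, .ofNat 0, .ofNat 539, .ofNat 1670, .ofNat 0, .ofNat 128, .negSucc 228, .negSucc 243, .ofNat 0, .ofNat 129, .ofNat 84, .ofNat 0, .ofNat 0,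 .ofNat 301, .ofNat 669, .ofNat 0, .ofNat 0, .ofNat 16405034687074558525583949752914935808, .ofNat 0, .ofNat 0, .ofNat 0, .ofNat 0, .ofNat 0, .ofNat 0, .ofNat 0, .ofNat 736364505550130144537015581188726718464, .ofNat 0, .ofNat 0, .ofNat 0, .ofNat 498590165389081725867536441058321760256, .ofNat 0⟩)
    (by decide +kernel)
theorem L01250 : Good (Phi V5.P V5.D (-1) (-1)) ⟨4, 12, 3, 1, 3, 6, 4, 1, 5, 2⟩ :=
  leafX_sound T5.ok_mm T5.Ymm.bz_eq (w := 237) (c := ⟨⟨.ofNat 601, .negSucc 854, .ofNat 638, .negSucc 1843, .ofNat 758, .negSucc 3764⟩, ⟨.negSucc 806, .ofNat 254, .ofNat 54, .ofNat 793, .negSucc 303, .ofNat 1512⟩, ⟨.negSucc 101, .ofNat 632, .negSucc 408, .ofNat 1831, .negSucc 751, .ofNat 2441⟩, ⟨.negSucc 411, .negSucc 1202, .ofNat 818, .negSucc 2458, .ofNat 1124, .negSucc 5400⟩, ⟨.negSucc 4374, .ofNat 240, .negSucc 342, .ofNat 1783, .negSucc 300, .ofNat 2385⟩, .ofNat 475, .ofNat 384, .ofNat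 0, .ofNat 384, .ofNat 1271, .ofNat 0, .ofNat 128, .negSucc 285, .negSucc 433, .ofNat 0, .ofNat 168, .ofNat 180, .ofNat 0, .ofNat 0, .ofNat 449, .ofNat 1721, .ofNat 0, .ofNat 0, .ofNat 12731141824829394176076816759147286528786432, .ofNat 0, .ofNat 0, .ofNat 0, .ofNat 271629568764737629638391147659054452303724544, .ofNat 0, .ofNat 0, .ofNat 0, .ofNat 998392377593349613540280063314369289071362048, .ofNat 0, .ofNat 0, .ofNat 0, .ofNat 553603277472394376248086471041436809473032192, .ofNat 0⟩)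
    (by decide +kernel)
theorem L01251 : Good (Phi V5.P V5.D (-1) (-1)) ⟨4, 12, 3, 1, 3, 6, 4, 1, 5, 3⟩ :=
  leafX_sound T5.ok_mm T5.Ymm.bz_eq (w := 236) (c := ⟨⟨.negSucc 3484, .negSucc 2135, .ofNat 654, .negSucc 751, .ofNat 344, .negSucc 896⟩, ⟨.ofNat 797, .ofNat 1006, .ofNat 67, .ofNat 339, .negSucc 148, .ofNat 387⟩, ⟨.ofNat 2576, .ofNat 1642, .negSucc 529, .ofNat 1143, .negSucc 476, .ofNat 720⟩, ⟨.negSucc 6273, .negSucc 2609, .ofNat 874, .negSucc 944, .ofNat 468, .negSucc 1211⟩, ⟨.negSucc 1595, .ofNat 1015, .negSucc 403, .ofNat 1024, .negSucc 291, .ofNat 848⟩, .ofNat 474, .ofNat 382, .ofNat 0, .ofNat 382, .ofNat 1261, .ofNat 0, .ofNat 135, .negSucc 127, .negSucc 315, .ofNat 0, .ofNat 80, .ofNat 137, .ofNat 0, .ofNat 0, .ofNat 368, .ofNat 1353, .ofNat 0, .ofNat 0, .ofNat 12728459961213136913992947923863225417859072, .ofNat 0, .ofNat 0, .ofNat 0, .ofNat 0, .ofNat 0, .ofNat 0, .ofNat 0,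 .ofNat 170219946528184689670630849675541912167120896, .ofNat 0, .ofNat 0, .ofNat 0, .ofNat 397121851935191771907309962495729915805040640, .ofNat 0⟩)
    (by decide +kernel)
theorem L01252 : Good (Phi V5.P V5.D (-1) (-1)) ⟨4, 12, 3, 1, 3, 7, 4, 1, 5, 2⟩ :=
  leafX_sound T5.ok_mm T5.Ymm.bz_eq (w := 237) (c := ⟨⟨.negSucc 2882, .negSucc 1208, .ofNat 1046, .negSucc 384, .ofNat 657, .negSucc 1935⟩, ⟨.ofNat 679, .ofNat 528, .negSucc 158, .ofNat 317, .negSucc 261, .ofNat 733⟩, ⟨.ofNat 2733, .ofNat 889, .negSucc 436, .negSucc 1031, .negSucc 528, .ofNat 1222⟩, ⟨.negSucc 5191, .negSucc 1632, .ofNat 1535, .ofNat 33, .ofNat 953, .negSucc 2980⟩, ⟨.negSucc 1108, .ofNat 148, .negSucc 572, .ofNat 2018, .negSucc 347, .ofNat 426⟩, .ofNat 627, .ofNat 684, .ofNat 0, .ofNat 684, .ofNat 2048, .ofNat 0, .ofNat 128, .negSucc 386, .negSucc 437, .ofNat 0, .ofNat 222, .ofNat 161, .ofNat 0, .ofNat 0, .ofNat 505, .ofNat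 1333, .ofNat 0, .ofNat 0, .ofNat 14205518948905716921403053675795080353415168, .ofNat 0, .ofNat 0, .ofNat 0, .ofNat 121066342225260750030705265653415305193455616, .ofNat 0, .ofNat 0, .ofNat 0, .ofNat 684565743615081151829432361022273072543039488, .ofNat 0, .ofNat 0, .ofNat 0, .ofNat 606510471338378754779825803941090473872982016, .ofNat 0⟩)
    (by decide +kernel)
theorem L01253 : Good (Phi V5.P V5.D (-1) (-1)) ⟨4, 12, 3, 1, 3, 7, 4, 1, 5, 3⟩ :=
  leafX_sound T5.ok_mm T5.Ymm.bz_eq (w := 237) (c := ⟨⟨.negSucc 5028, .negSucc 1444, .ofNat 812, .ofNat 677, .ofNat 328, .ofNat 106⟩, ⟨.ofNat 1494, .ofNat 766, .negSucc 47, .negSucc 131, .negSucc 155, .negSucc 38⟩, ⟨.ofNat 4147, .ofNat 694, .negSucc 315, .negSucc 1825, .negSucc 239, .negSucc 3⟩, ⟨.negSucc 8330, .negSucc 1667, .ofNat 1163, .ofNat 1465, .ofNat 380, .ofNat 164⟩, ⟨.ofNat 107, .ofNat 597, .negSucc 626, .ofNat 1102, .negSucc 474, .negSucc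 30⟩, .ofNat 618, .ofNat 662, .ofNat 0, .ofNat 662, .ofNat 1997, .ofNat 0, .ofNat 128, .negSucc 408, .negSucc 493, .ofNat 0, .ofNat 253, .ofNat 183, .ofNat 0, .ofNat 0, .ofNat 682, .ofNat 1776, .ofNat 0, .ofNat 0, .ofNat 19157515677922919596096298427595671807721472, .ofNat 0, .ofNat 0, .ofNat 0, .ofNat 241199643952547035177743359023055385911099392, .ofNat 0, .ofNat 0, .ofNat 0, .ofNat 982080950993149439900988272081730108829728768, .ofNat 0, .ofNat 0, .ofNat 0, .ofNat 989572191351889676170577034641638054420283392, .ofNat 0⟩)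
    (by decide +kernel)
theorem L01254 : Good (Phi V5.P V5.D (-1) (-1)) ⟨4, 12, 3, 1, 2, 2, 3, 1, 4, 0⟩ :=
  leafX_sound T5.ok_mm T5.Ymm.bz_eq (w := 213) (c := ⟨⟨.ofNat 3535, .ofNat 1606, .negSucc 359, .ofNat 1444, .negSucc 182, .negSucc 3522⟩, ⟨.negSucc 1360, .negSucc 1070, .ofNat 119, .negSucc 475, .ofNat 148, .ofNat 1093⟩, ⟨.negSucc 1716, .negSucc 802, .ofNat 278, .negSucc 280, .negSucc 465, .ofNat 1393⟩, ⟨.ofNat 5076, .ofNat 1797, .negSucc 617, .ofNat 2391, .negSucc 12, .negSucc 6134⟩, ⟨.negSucc 2912, .negSucc 559, .ofNat 631, .negSucc 16, .ofNat 840, .negSucc 1124⟩, .ofNat 471, .ofNat 376, .ofNat 0, .ofNat 376, .ofNat 1265, .ofNat 0, .ofNat 128, .negSucc 306, .negSucc 380, .ofNat 0, .ofNat 187, .ofNat 146, .ofNat 0, .ofNat 0, .ofNat 498, .ofNat 690, .ofNat 0, .ofNat 0, .ofNat 1421608174713615430531804971946475520, .ofNat 0, .ofNat 0, .ofNat 0, .ofNat 28152755006765979855175571353634865152,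 .ofNat 0, .ofNat 0, .ofNat 0, .ofNat 53164132426071373464268386736116072448, .ofNat 0, .ofNat 0, .ofNat 0, .ofNat 48607278281883654582008459085106642944, .ofNat 0⟩)
    (by decide +kernel)
theorem L01255 : Good (Phi V5.P V5.D (-1) (-1)) ⟨4, 12, 3, 1, 2, 2, 3, 1, 4, 1⟩ :=
  leafX_sound T5.ok_mm T5.Ymm.bz_eq (w := 212) (c := ⟨⟨.negSucc 586, .negSucc 945, .ofNat 354, .negSucc 436, .ofNat 183, .negSucc 3054⟩, ⟨.negSucc 227, .ofNat 337, .ofNat 152, .ofNat 110, .negSucc 44, .ofNat 1211⟩, ⟨.ofNat 219, .ofNat 608, .negSucc 335, .ofNat 352, .negSucc 184, .ofNat 2287⟩, ⟨.negSucc 1657, .negSucc 1237, .ofNat 400, .negSucc 841, .ofNat 374, .negSucc 4604⟩, ⟨.negSucc 2214, .ofNat 326, .negSucc 236, .negSucc 432, .ofNat 140, .ofNat 1416⟩, .ofNat 476, .ofNat 386, .ofNat 0, .ofNat 386, .ofNat 1267, .ofNat 0, .ofNat 128, .negSucc 192, .negSucc 194, .ofNat 0, .ofNat 122, .ofNat 81, .ofNat 0, .ofNat 0, .ofNat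 279, .ofNat 382, .ofNat 0, .ofNat 0, .ofNat 596380923308179332236589798556434432, .ofNat 0, .ofNat 0, .ofNat 0, .ofNat 0, .ofNat 0, .ofNat 0, .ofNat 0, .ofNat 46902580905092072850214240169588948992, .ofNat 0, .ofNat 0, .ofNat 0, .ofNat 27719127450920664707689143759628402688, .ofNat 0⟩)
    (by decide +kernel)
theorem L01256 : Good (Phi V5.P V5.D (-1) (-1)) ⟨4, 12, 3, 1, 2, 3, 3, 1, 4, 0⟩ :=
  leafX_sound T5.ok_mm T5.Ymm.bz_eq (w := 214) (c := ⟨⟨.ofNat 5432, .ofNat 170, .negSucc 174, .negSucc 4472, .negSucc 18, .negSucc 2309⟩, ⟨.negSucc 2068, .negSucc 224, .ofNat 10, .ofNat 2001, .ofNat 127, .ofNat 536⟩, ⟨.negSucc 2655, .ofNat 139, .ofNat 203, .ofNat 3071, .negSucc 345, .ofNat 950⟩, ⟨.ofNat 8034, .negSucc 8, .negSucc 271, .negSucc 5775, .ofNat 414, .negSucc 4701⟩, ⟨.negSucc 2515, .negSucc 221, .ofNat 281, .ofNat 4108, .ofNat 1296, .negSucc 2712⟩, .ofNat 626, .ofNat 678, .ofNat 0, .ofNat 678,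 .ofNat 2010, .ofNat 0, .ofNat 128, .negSucc 183, .negSucc 253, .ofNat 0, .ofNat 103, .ofNat 88, .ofNat 0, .ofNat 0, .ofNat 294, .ofNat 422, .ofNat 0, .ofNat 0, .ofNat 663499032169127620897474992310059008, .ofNat 0, .ofNat 0, .ofNat 0, .ofNat 10715580151970471502851851105880506368, .ofNat 0, .ofNat 0, .ofNat 0, .ofNat 27981095830710403101648322826707402752, .ofNat 0, .ofNat 0, .ofNat 0, .ofNat 14977995335592747264877066828080218112, .ofNat 0⟩)
    (by decide +kernel)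
theorem L01257 : Good (Phi V5.P V5.D (-1) (-1)) ⟨4, 12, 3, 1, 2, 3, 3, 1, 5, 2⟩ :=
  leafX_sound T5.ok_mm T5.Ymm.bz_eq (w := 218) (c := ⟨⟨.negSucc 103, .negSucc 283, .ofNat 395, .negSucc 2066, .ofNat 755, .negSucc 2381⟩, ⟨.negSucc 397, .ofNat 115, .ofNat 73, .ofNat 955, .negSucc 259, .ofNat 843⟩, ⟨.ofNat 618, .ofNat 283, .negSucc 312, .ofNat 1075, .negSucc 732, .ofNat 1468⟩, ⟨.negSucc 1150, .negSucc 367, .ofNat 566, .negSucc 2478, .ofNat 1244, .negSucc 3900⟩, ⟨.negSucc 3068, .negSucc 464, .ofNat 146, .ofNat 2626, .ofNat 106, .ofNat 158⟩, .ofNat 556, .ofNat 537, .ofNat 0, .ofNat 537, .ofNat 1663, .ofNat 0, .ofNat 128, .negSucc 303, .negSucc 596, .ofNat 0, .ofNat 175, .ofNat 224, .ofNat 0, .ofNat 0, .ofNat 609, .ofNat 622, .ofNat 0, .ofNat 0, .ofNat 24704051878626448790195482935588552704, .ofNat 0, .ofNat 0, .ofNat 0, .ofNat 222251063543294231720888405131477909504, .ofNat 0, .ofNat 0, .ofNat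 0, .ofNat 2029054439839241228429802479410021924864, .ofNat 0, .ofNat 0, .ofNat 0, .ofNat 2678426864674187768216352633460023623680, .ofNat 0⟩)
    (by decide +kernel)
theorem L01258 : Good (Phi V5.P V5.D (-1) (-1)) ⟨4, 12, 3, 1, 3, 6, 3, 1, 5, 3⟩ :=
  leafX_sound T5.ok_mm T5.Ymm.bz_eq (w := 232) (c := ⟨⟨.negSucc 3744, .negSucc 1475, .ofNat 807, .negSucc 100, .ofNat 729, .negSucc 975⟩, ⟨.ofNat 915, .ofNat 658, .ofNat 15, .ofNat 64, .negSucc 308, .ofNat 410⟩, ⟨.ofNat 2739, .ofNat 1122, .negSucc 689, .ofNat 447, .negSucc 834, .ofNat 727⟩, ⟨.negSucc 6612, .negSucc 1878, .ofNat 1092, .negSucc 45, .ofNat 1011, .negSucc 1334⟩, ⟨.negSucc 1360, .ofNat 339, .negSucc 447, .ofNat 387, .negSucc 458, .ofNat 763⟩, .ofNat 634, .ofNat 700, .ofNat 0, .ofNat 700, .ofNat 2076, .ofNat 0, .ofNat 128, .negSucc 171, .negSucc 517, .ofNat 0, .ofNat 99, .ofNat 213, .ofNat 0, .ofNat 0, .ofNat 587, .ofNat 806, .ofNat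 0, .ofNat 0, .ofNat 789202418354826379289385005110248809168896, .ofNat 0, .ofNat 0, .ofNat 0, .ofNat 6040314667976883896883548943994938248396800, .ofNat 0, .ofNat 0, .ofNat 0, .ofNat 31085857185930209813815539946514750598283264, .ofNat 0, .ofNat 0, .ofNat 0, .ofNat 47567280549788520001716954969360184438161408, .ofNat 0⟩)
    (by decide +kernel)
theorem L01259 : Good (Phi V5.P V5.D (-1) (-1)) ⟨4, 12, 3, 1, 3, 7, 3, 1, 5, 3⟩ :=
  leafX_sound T5.ok_mm T5.Ymm.bz_eq (w := 233) (c := ⟨⟨.negSucc 4386, .negSucc 963, .ofNat 538, .ofNat 611, .ofNat 655, .negSucc 66⟩, ⟨.ofNat 1223, .ofNat 479, .ofNat 91, .negSucc 156, .negSucc 287, .ofNat 28⟩, ⟨.ofNat 3532, .ofNat 575, .negSucc 338, .negSucc 1151, .negSucc 641, .ofNat 2⟩, ⟨.negSucc 7403, .negSucc 1143, .ofNat 741, .ofNat 1248, .ofNat 830, .negSucc 93⟩, ⟨.negSucc 529, .ofNat 76, .negSucc 272, .ofNat 724, .negSucc 656, .ofNat 62⟩, .ofNat 649, .ofNat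 694, .ofNat 0, .ofNat 694, .ofNat 2016, .ofNat 0, .ofNat 128, .negSucc 256, .negSucc 431, .ofNat 0, .ofNat 172, .ofNat 167, .ofNat 0, .ofNat 0, .ofNat 496, .ofNat 1348, .ofNat 0, .ofNat 0, .ofNat 886393437885094059754306725090422048161792, .ofNat 0, .ofNat 0, .ofNat 0, .ofNat 4348481073305229072278692950724815381069824, .ofNat 0, .ofNat 0, .ofNat 0, .ofNat 27196162211990118954187283902768306704089088, .ofNat 0, .ofNat 0, .ofNat 0, .ofNat 42657647592760546665583224214852833455898624, .ofNat 0⟩)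
    (by decide +kernel)
theorem L01260 : Good (Phi V5.P V5.D (-1) (-1)) ⟨4, 12, 3, 1, 2, 2, 3, 2, 4, 0⟩ :=
  leafX_sound T5.ok_mm T5.Ymm.bz_eq (w := 213) (c := ⟨⟨.ofNat 3228, .ofNat 649, .negSucc 191, .ofNat 1960, .negSucc 520, .negSucc 3679⟩, ⟨.negSucc 1182, .negSucc 494, .negSucc 7, .negSucc 699, .ofNat 253, .ofNat 1246⟩, ⟨.negSucc 2039, .negSucc 354, .ofNat 170, .negSucc 804, .negSucc 92, .ofNat 2041⟩, ⟨.ofNat 4676, .ofNat 692, .negSucc 333, .ofNat 3238, .negSucc 580, .negSucc 6231⟩, ⟨.negSucc 2274, .ofNat 326, .ofNat 371, .ofNat 25, .ofNat 734, .negSucc 806⟩, .ofNat 474, .ofNat 381, .ofNat 0, .ofNat 381, .ofNat 1266, .ofNat 0, .ofNat 128, .negSucc 168, .negSucc 350, .ofNat 0, .ofNat 113, .ofNat 131, .ofNat 0, .ofNat 0, .ofNat 410, .ofNat 446, .ofNat 0, .ofNat 0, .ofNat 818809366620135143853124812611256320, .ofNat 0, .ofNat 0, .ofNat 0, .ofNat 22729281246787827808264217842583339008, .ofNat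 0, .ofNat 0, .ofNat 0, .ofNat 18456030944808102101936121215319015424, .ofNat 0, .ofNat 0, .ofNat 0, .ofNat 34193584606697722515574587544622333952, .ofNat 0⟩)
    (by decide +kernel)
theorem L01261 : Good (Phi V5.P V5.D (-1) (-1)) ⟨4, 12, 3, 1, 2, 2, 3, 2, 4, 1⟩ :=
  leafX_sound T5.ok_mm T5.Ymm.bz_eq (w := 212) (c := ⟨⟨.negSucc 639, .negSucc 611, .ofNat 275, .ofNat 205, .negSucc 19, .negSucc 3366⟩, ⟨.negSucc 143, .ofNat 243, .ofNat 145, .negSucc 140, .ofNat 41, .ofNat 1285⟩, ⟨.ofNat 204, .ofNat 334, .negSucc 169, .negSucc 195, .ofNat 17, .ofNat 2466⟩, ⟨.negSucc 1610, .negSucc 727, .ofNat 320, .ofNat 114, .ofNat 59, .negSucc 5210⟩, ⟨.negSucc 1769, .negSucc 48, .negSucc 21, .negSucc 732, .ofNat 149, .ofNat 1177⟩, .ofNat 471, .ofNat 375, .ofNat 0, .ofNat 375, .ofNat 1249, .ofNat 0, .ofNat 128, .negSucc 180, .negSucc 260, .ofNat 0, .ofNat 118, .ofNat 103, .ofNat 0, .ofNat 0, .ofNat 315, .ofNat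 392, .ofNat 0, .ofNat 0, .ofNat 0, .ofNat 0, .ofNat 0, .ofNat 0, .ofNat 10444488068073709939046570454576791552, .ofNat 0, .ofNat 0, .ofNat 0, .ofNat 63851095384252764838320651690236182528, .ofNat 0, .ofNat 0, .ofNat 0, .ofNat 45213298581582077279346222371287597056, .ofNat 0⟩)
    (by decide +kernel)
theorem L01262 : Good (Phi V5.P V5.D (-1) (-1)) ⟨4, 12, 3, 1, 2, 3, 3, 2, 4, 0⟩ :=
  leafX_sound T5.ok_mm T5.Ymm.bz_eq (w := 213) (c := ⟨⟨.ofNat 5006, .ofNat 257, .negSucc 317, .negSucc 3390, .negSucc 178, .negSucc 2293⟩, ⟨.negSucc 1761, .negSucc 265, .ofNat 39, .ofNat 1526, .ofNat 87, .ofNat 576⟩, ⟨.negSucc 2893, .negSucc 122, .ofNat 336, .ofNat 2818, .negSucc 116, .ofNat 915⟩, ⟨.ofNat 7833, .ofNat 255, .negSucc 506, .negSucc 4292, .negSucc 151, .negSucc 4622⟩, ⟨.negSucc 1155, .ofNat 257, .ofNat 180, .ofNat 3495, .ofNat 367, .negSucc 2495⟩, .ofNat 557, .ofNat 539, .ofNat 0, .ofNat 539, .ofNat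 1667, .ofNat 0, .ofNat 189, .negSucc 127, .negSucc 273, .ofNat 0, .ofNat 76, .ofNat 94, .ofNat 0, .ofNat 0, .ofNat 286, .ofNat 384, .ofNat 0, .ofNat 0, .ofNat 714794800597549176376688537038225408, .ofNat 0, .ofNat 0, .ofNat 0, .ofNat 0, .ofNat 0, .ofNat 0, .ofNat 0, .ofNat 18200434431882762823370366267368144896, .ofNat 0, .ofNat 0, .ofNat 0, .ofNat 14489826272053297433276534721771208704, .ofNat 0⟩)
    (by decide +kernel)
theorem L01263 : Good (Phi V5.P V5.D (-1) (-1)) ⟨4, 12, 3, 1, 3, 6, 3, 2, 4, 1⟩ :=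
  leafX_sound T5.ok_mm T5.Ymm.bz_eq (w := 227) (c := ⟨⟨.negSucc 1086, .negSucc 970, .ofNat 922, .ofNat 321, .ofNat 665, .negSucc 3792⟩, ⟨.negSucc 70, .ofNat 377, .negSucc 41, .negSucc 102, .negSucc 253, .ofNat 1445⟩, ⟨.ofNat 846, .ofNat 669, .negSucc 711, .negSucc 103, .negSucc 612, .ofNat 2525⟩, ⟨.negSucc 2465, .negSucc 1238, .ofNat 1317, .ofNat 586, .ofNat 1014, .negSucc 5914⟩, ⟨.negSucc 1977, .ofNat 132, .negSucc 178, .ofNat 280, .negSucc 130, .ofNat 589⟩, .ofNat 651, .ofNat 699, .ofNat 0, .ofNat 699, .ofNat 2028, .ofNat 0, .ofNat 131, .negSucc 127, .negSucc 411, .ofNat 0, .ofNat 78, .ofNat 163, .ofNat 0, .ofNat 0, .ofNat 372, .ofNat 368, .ofNat 0, .ofNat 0, .ofNat 7234275791161833082029793618783564201984, .ofNat 0, .ofNat 0, .ofNat 0, .ofNat 119681242997995993236720366667377493934080, .ofNat 0, .ofNat 0, .ofNat 0, .ofNat 396572510383630677582446947048650180657152, .ofNat 0, .ofNat 0,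 .ofNat 0, .ofNat 903984057580098802552272979611808555859968, .ofNat 0⟩)
    (by decide +kernel)
theorem L01264 : Good (Phi V5.P V5.D (-1) (-1)) ⟨4, 12, 3, 1, 3, 7, 3, 2, 4, 1⟩ :=
  leafX_sound T5.ok_mm T5.Ymm.bz_eq (w := 227) (c := ⟨⟨.negSucc 2418, .negSucc 489, .ofNat 480, .ofNat 283, .ofNat 591, .negSucc 1313⟩, ⟨.ofNat 534, .ofNat 180, .ofNat 75, .negSucc 29, .negSucc 229, .ofNat 438⟩, ⟨.ofNat 1941, .ofNat 315, .negSucc 236, .negSucc 421, .negSucc 519, .ofNat 581⟩, ⟨.negSucc 4220, .negSucc 607, .ofNat 692, .ofNat 623, .ofNat 855, .negSucc 2389⟩, ⟨.negSucc 1038, .negSucc 138, .negSucc 33, .ofNat 549, .negSucc 262, .negSucc 415⟩, .ofNat 565, .ofNat 529, .ofNat 0, .ofNat 529, .ofNat 1607, .ofNat 0, .ofNat 128, .negSucc 159, .negSucc 500, .ofNat 0, .ofNat 106, .ofNat 180, .ofNat 0, .ofNat 0, .ofNat 490, .ofNat 560, .ofNat 0, .ofNat 0, .ofNat 7563849094220450759724834347191669620736, .ofNat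 0, .ofNat 0, .ofNat 0, .ofNat 33472178875607358581976749149677376503808, .ofNat 0, .ofNat 0, .ofNat 0, .ofNat 192073118317416900447876978337883904540672, .ofNat 0, .ofNat 0, .ofNat 0, .ofNat 607598482308758300627808535245553810800640, .ofNat 0⟩)
    (by decide +kernel)
theorem L01265 : Good (Phi V5.P V5.D (-1) (-1)) ⟨4, 12, 3, 1, 2, 2, 4, 6, 4, 0⟩ :=
  leafX_sound T5.ok_mm T5.Ymm.bz_eq (w := 217) (c := ⟨⟨.ofNat 2506, .negSucc 11, .ofNat 372, .ofNat 1939, .negSucc 187, .negSucc 3687⟩, ⟨.negSucc 772, .negSucc 243, .negSucc 302, .negSucc 692, .ofNat 84, .ofNat 1203⟩, ⟨.negSucc 1931, .ofNat 38, .negSucc 255, .negSucc 873, .ofNat 9, .ofNat 2237⟩, ⟨.ofNat 3824, .negSucc 187, .ofNat 363, .ofNat 3242, .negSucc 229, .negSucc 6261⟩, ⟨.negSucc 1232, .ofNat 591, .negSucc 231, .ofNat 103, .ofNat 182, .negSucc 862⟩, .ofNat 475, .ofNat 384, .ofNat 0, .ofNat 384, .ofNat 1260, .ofNat 0, .ofNat 151, .negSucc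 127, .negSucc 325, .ofNat 0, .ofNat 89, .ofNat 121, .ofNat 0, .ofNat 0, .ofNat 360, .ofNat 627, .ofNat 0, .ofNat 0, .ofNat 20399078048737855689956755309143785472, .ofNat 0, .ofNat 0, .ofNat 0, .ofNat 632496620378452323623949323226755104768, .ofNat 0, .ofNat 0, .ofNat 0, .ofNat 260017289195568383473920396826213613568, .ofNat 0, .ofNat 0, .ofNat 0, .ofNat 763348478124213054000276873933758660608, .ofNat 0⟩)
    (by decide +kernel)
theorem L01266 : Good (Phi V5.P V5.D (-1) (-1)) ⟨4, 12, 3, 1, 2, 3, 4, 6, 4, 0⟩ :=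
  leafX_sound T5.ok_mm T5.Ymm.bz_eq (w := 217) (c := ⟨⟨.ofNat 4495, .ofNat 663, .negSucc 415, .negSucc 2575, .negSucc 51, .negSucc 2246⟩, ⟨.negSucc 1450, .negSucc 267, .negSucc 25, .ofNat 1175, .ofNat 17, .ofNat 545⟩, ⟨.negSucc 2900, .negSucc 391, .ofNat 470, .ofNat 2537, .negSucc 90, .ofNat 969⟩, ⟨.ofNat 7208, .ofNat 838, .negSucc 499, .negSucc 3322, .negSucc 81, .negSucc 4590⟩, ⟨.negSucc 797, .ofNat 87, .ofNat 668, .ofNat 2463, .ofNat 138, .negSucc 2599⟩, .ofNat 626, .ofNat 681, .ofNat 0, .ofNat 681, .ofNat 2039, .ofNat 0, .ofNat 128, .negSucc 138, .negSucc 324, .ofNat 0, .ofNat 80, .ofNat 114, .ofNat 0, .ofNat 0, .ofNat 317, .ofNat 236, .ofNat 0, .ofNat 0, .ofNat 10927593025438002694870946748785754112, .ofNat 0, .ofNat 0, .ofNat 0, .ofNat 551659550341052966500477702195998883840, .ofNat 0, .ofNat 0, .ofNat 0, .ofNat 231491552483083059710190475505416798208, .ofNat 0, .ofNat 0, .ofNat 0,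 .ofNat 275786352997541623280338687632051535872, .ofNat 0⟩)
    (by decide +kernel)
theorem L01267 : Good (Phi V5.P V5.D (-1) (-1)) ⟨4, 12, 3, 1, 2, 2, 4, 6, 4, 1⟩ :=
  leafX_sound T5.ok_mm T5.Ymm.bz_eq (w := 216) (c := ⟨⟨.negSucc 862, .negSucc 1160, .ofNat 164, .ofNat 40, .negSucc 83, .negSucc 2578⟩, ⟨.negSucc 34, .ofNat 428, .ofNat 228, .negSucc 107, .ofNat 32, .ofNat 979⟩, ⟨.ofNat 407, .ofNat 744, .negSucc 107, .negSucc 203, .ofNat 59, .ofNat 1994⟩, ⟨.negSucc 1808, .negSucc 1708, .ofNat 312, .negSucc 172, .negSucc 86, .negSucc 4188⟩, ⟨.negSucc 1230, .ofNat 209, .negSucc 163, .negSucc 618, .ofNat 207, .ofNat 522⟩, .ofNat 449, .ofNat 322, .ofNat 0, .ofNat 322, .ofNat 1084, .ofNat 0, .ofNat 150, .negSucc 127, .negSucc 342, .ofNat 0, .ofNat 92, .ofNat 134, .ofNat 0, .ofNat 0, .ofNat 372, .ofNat 392, .ofNat 0, .ofNat 0, .ofNat 15629645746750618175285161803051433984, .ofNat 0, .ofNat 0, .ofNat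 0, .ofNat 89479448356765147109712333864442003456, .ofNat 0, .ofNat 0, .ofNat 0, .ofNat 599799400002772710571219969141827960832, .ofNat 0, .ofNat 0, .ofNat 0, .ofNat 460614242728585104133407700983616634880, .ofNat 0⟩)
    (by decide +kernel)
theorem L01268 : Good (Phi V5.P V5.D (-1) (-1)) ⟨4, 12, 3, 1, 2, 3, 4, 6, 5, 2⟩ :=
  leafX_sound T5.ok_mm T5.Ymm.bz_eq (w := 222) (c := ⟨⟨.negSucc 71, .negSucc 672, .ofNat 583, .negSucc 1200, .ofNat 243, .negSucc 1599⟩, ⟨.negSucc 273, .ofNat 182, .negSucc 13, .ofNat 546, .negSucc 90, .ofNat 486⟩, ⟨.ofNat 100, .ofNat 544, .negSucc 362, .ofNat 932, .negSucc 227, .ofNat 770⟩, ⟨.negSucc 626, .negSucc 1033, .ofNat 884, .negSucc 1525, .ofNat 339, .negSucc 2934⟩, ⟨.negSucc 1909, .negSucc 116, .ofNat 268, .ofNat 1202, .negSucc 122, .negSucc 575⟩, .ofNat 565, .ofNat 529, .ofNat 0, .ofNat 529, .ofNat 1607, .ofNat 0, .ofNat 128, .negSucc 194, .negSucc 783, .ofNat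 0, .ofNat 125, .ofNat 284, .ofNat 0, .ofNat 0, .ofNat 676, .ofNat 483, .ofNat 0, .ofNat 0, .ofNat 0, .ofNat 0, .ofNat 0, .ofNat 0, .ofNat 1731811233090657183400820164765725753344, .ofNat 0, .ofNat 0, .ofNat 0, .ofNat 6256860021614770693211691755161209798656, .ofNat 0, .ofNat 0, .ofNat 0, .ofNat 37360627178856531540102653080351109283840, .ofNat 0⟩)
    (by decide +kernel)
theorem L01269 : Good (Phi V5.P V5.D (-1) (-1)) ⟨4, 12, 3, 1, 2, 3, 4, 6, 5, 3⟩ :=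
  leafX_sound T5.ok_mm T5.Ymm.bz_eq (w := 223) (c := ⟨⟨.negSucc 3568, .negSucc 528, .ofNat 376, .ofNat 1159, .ofNat 268, .negSucc 261⟩, ⟨.ofNat 904, .ofNat 207, .ofNat 148, .negSucc 407, .negSucc 103, .ofNat 87⟩, ⟨.ofNat 2405, .ofNat 336, .negSucc 243, .negSucc 851, .negSucc 238, .ofNat 80⟩, ⟨.negSucc 6238, .negSucc 785, .ofNat 571, .ofNat 1883, .ofNat 387, .negSucc 539⟩, ⟨.negSucc 1411, .negSucc 224, .ofNat 30, .ofNat 67, .negSucc 88, .negSucc 65⟩, .ofNat 475, .ofNat 383, .ofNat 0, .ofNat 383, .ofNat 1264, .ofNat 0, .ofNat 128, .negSucc 238, .negSucc 685, .ofNat 0, .ofNat 156, .ofNat 249, .ofNat 0, .ofNat 0, .ofNat 681, .ofNat 1207, .ofNat 0, .ofNat 0, .ofNat 149996569336448308850323916966777061376, .ofNat 0, .ofNat 0, .ofNat 0, .ofNat 3641908121156790386258907662702157496320, .ofNat 0, .ofNat 0, .ofNat 0, .ofNat 20784536412268550794615327130524642705408, .ofNat 0, .ofNat 0, .ofNat 0, .ofNat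 47007145831429389738287740514507333566464, .ofNat 0⟩)
    (by decide +kernel)
theorem L01270 : Good (Phi V5.P V5.D (-1) (-1)) ⟨4, 12, 3, 1, 2, 2, 4, 7, 4, 0⟩ :=
  leafX_sound T5.ok_mm T5.Ymm.bz_eq (w := 217) (c := ⟨⟨.ofNat 2459, .ofNat 1169, .negSucc 415, .ofNat 1776, .negSucc 207, .negSucc 3562⟩, ⟨.negSucc 827, .negSucc 617, .ofNat 42, .negSucc 580, .ofNat 53, .ofNat 1153⟩, ⟨.negSucc 2051, .negSucc 916, .ofNat 383, .negSucc 794, .ofNat 13, .ofNat 2255⟩, ⟨.ofNat 3784, .ofNat 1471, .negSucc 724, .ofNat 3027, .negSucc 348, .negSucc 6130⟩, ⟨.negSucc 1056, .negSucc 126, .ofNat 58, .ofNat 344, .negSucc 2, .negSucc 1027⟩, .ofNat 625, .ofNat 680, .ofNat 0, .ofNat 680, .ofNat 2040, .ofNat 0, .ofNat 151, .negSucc 127, .negSucc 352, .ofNat 0, .ofNat 80, .ofNat 132, .ofNat 0, .ofNat 0, .ofNat 392, .ofNat 492, .ofNat 0, .ofNat 0, .ofNat 21348976100887414641242776618624090112, .ofNat 0, .ofNat 0, .ofNat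 0, .ofNat 912640048210478120035566007810489581568, .ofNat 0, .ofNat 0, .ofNat 0, .ofNat 818973637458994159180162752063012339712, .ofNat 0, .ofNat 0, .ofNat 0, .ofNat 1111731127995826284190398481155181510656, .ofNat 0⟩)
    (by decide +kernel)
theorem L01271 : Good (Phi V5.P V5.D (-1) (-1)) ⟨4, 12, 3, 1, 2, 2, 4, 7, 4, 1⟩ :=
  leafX_sound T5.ok_mm T5.Ymm.bz_eq (w := 216) (c := ⟨⟨.negSucc 1210, .negSucc 607, .ofNat 40, .negSucc 104, .negSucc 59, .negSucc 2155⟩, ⟨.ofNat 89, .ofNat 273, .ofNat 244, .negSucc 32, .ofNat 28, .ofNat 834⟩, ⟨.ofNat 710, .ofNat 501, .negSucc 98, .negSucc 115, .ofNat 39, .ofNat 1676⟩, ⟨.negSucc 2218, .negSucc 785, .ofNat 31, .negSucc 365, .negSucc 133, .negSucc 3568⟩, ⟨.negSucc 829, .negSucc 21, .negSucc 139, .negSucc 696, .negSucc 17, .ofNat 379⟩, .ofNat 449, .ofNat 322, .ofNat 0, .ofNat 322, .ofNat 1084, .ofNat 0, .ofNat 153, .negSucc 127, .negSucc 411, .ofNat 0,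 .ofNat 95, .ofNat 159, .ofNat 0, .ofNat 0, .ofNat 442, .ofNat 380, .ofNat 0, .ofNat 0, .ofNat 15322662039228433752996499923142705152, .ofNat 0, .ofNat 0, .ofNat 0, .ofNat 33333292786177834877314764188711649280, .ofNat 0, .ofNat 0, .ofNat 0, .ofNat 549599177298232474611626160795567521792, .ofNat 0, .ofNat 0, .ofNat 0, .ofNat 530248870254949471881134989751919575040, .ofNat 0⟩)
    (by decide +kernel)
theorem L01272 : Good (Phi V5.P V5.D (-1) (-1)) ⟨4, 12, 3, 1, 3, 6, 4, 7, 4, 0⟩ :=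
  leafX_sound T5.ok_mm T5.Ymm.bz_eq (w := 232) (c := ⟨⟨.ofNat 4404, .ofNat 1052, .negSucc 799, .negSucc 670, .negSucc 183, .negSucc 2288⟩, ⟨.negSucc 1415, .negSucc 616, .ofNat 171, .ofNat 353, .ofNat 58, .ofNat 599⟩, ⟨.negSucc 3031, .negSucc 854, .ofNat 799, .ofNat 905, .ofNat 30, .ofNat 1142⟩, ⟨.ofNat 7103, .ofNat 1308, .negSucc 1126, .negSucc 592, .negSucc 356, .negSucc 4635⟩, ⟨.negSucc 742, .negSucc 291, .ofNat 741, .ofNat 1354, .negSucc 103, .negSucc 2255⟩, .ofNat 468, .ofNat 368, .ofNat 0, .ofNat 368, .ofNat 1241, .ofNat 0, .ofNat 128, .negSucc 136, .negSucc 496, .ofNat 0, .ofNat 94, .ofNat 167, .ofNat 0, .ofNat 0, .ofNat 462, .ofNat 525, .ofNat 0, .ofNat 0, .ofNat 394383004137258773436013060205426203688960, .ofNat 0, .ofNat 0, .ofNat 0, .ofNat 6066060136007537472787878127661208112726016, .ofNat 0, .ofNat 0, .ofNat 0, .ofNat 5306428473581431523426255763454591930204160, .ofNat 0, .ofNat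 0, .ofNat 0, .ofNat 14556744235886284256297374912175051208916992, .ofNat 0⟩)
    (by decide +kernel)
theorem L01273 : Good (Phi V5.P V5.D (-1) (-1)) ⟨4, 12, 3, 1, 3, 7, 4, 7, 4, 0⟩ :=
  leafX_sound T5.ok_mm T5.Ymm.bz_eq (w := 232) (c := ⟨⟨.ofNat 3288, .ofNat 292, .negSucc 96, .negSucc 1975, .negSucc 132, .negSucc 2519⟩, ⟨.negSucc 887, .negSucc 159, .negSucc 91, .ofNat 785, .ofNat 25, .ofNat 616⟩, ⟨.negSucc 1759, .negSucc 269, .ofNat 340, .ofNat 1538, .ofNat 43, .ofNat 1103⟩, ⟨.ofNat 5788, .ofNat 360, .negSucc 6, .negSucc 2985, .negSucc 271, .negSucc 5079⟩, ⟨.ofNat 999, .negSucc 201, .ofNat 557, .ofNat 671, .negSucc 146, .negSucc 2629⟩, .ofNat 473, .ofNat 379, .ofNat 0, .ofNat 379, .ofNat 1264, .ofNat 0, .ofNat 140, .negSucc 127, .negSucc 450, .ofNat 0, .ofNat 84, .ofNat 137, .ofNat 0, .ofNat 0, .ofNat 395, .ofNat 727, .ofNat 0, .ofNat 0, .ofNat 0, .ofNat 0, .ofNat 0, .ofNat 0, .ofNat 1895740080544388319265877438084623475146752,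 .ofNat 0, .ofNat 0, .ofNat 0, .ofNat 4919057136396980277988875434129287075069952, .ofNat 0, .ofNat 0, .ofNat 0, .ofNat 7227282293142268588113654241867960529453056, .ofNat 0⟩)
    (by decide +kernel)
theorem L01274 : Good (Phi V5.P V5.D (-1) (-1)) ⟨4, 12, 3, 1, 2, 3, 4, 7, 5, 2⟩ :=
  leafX_sound T5.ok_mm T5.Ymm.bz_eq (w := 221) (c := ⟨⟨.negSucc 433, .negSucc 157, .ofNat 241, .negSucc 666, .ofNat 29, .negSucc 1203⟩, ⟨.negSucc 126, .negSucc 8, .ofNat 110, .ofNat 315, .negSucc 7, .ofNat 354⟩, ⟨.ofNat 248, .ofNat 100, .negSucc 25, .ofNat 598, .negSucc 84, .ofNat 494⟩, ⟨.negSucc 1120, .negSucc 223, .ofNat 375, .negSucc 841, .ofNat 6, .negSucc 2325⟩, ⟨.negSucc 1500, .negSucc 129, .ofNat 212, .ofNat 684, .negSucc 64, .negSucc 719⟩, .ofNat 554, .ofNat 533, .ofNat 0, .ofNat 533, .ofNat 1654, .ofNat 0, .ofNat 128, .negSucc 192, .negSucc 867, .ofNat 0, .ofNat 114, .ofNat 301, .ofNat 0, .ofNat 0, .ofNat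 776, .ofNat 572, .ofNat 0, .ofNat 0, .ofNat 0, .ofNat 0, .ofNat 0, .ofNat 0, .ofNat 1660284300831935883774572876747700699136, .ofNat 0, .ofNat 0, .ofNat 0, .ofNat 17731891080722009843909683706221245235200, .ofNat 0, .ofNat 0, .ofNat 0, .ofNat 43167440663727639036575006916753861115904, .ofNat 0⟩)
    (by decide +kernel)
theorem L01275 : Good (Phi V5.P V5.D (-1) (-1)) ⟨4, 12, 3, 1, 3, 6, 4, 7, 5, 3⟩ :=
  leafX_sound T5.ok_mm T5.Ymm.bz_eq (w := 237) (c := ⟨⟨.negSucc 3275, .negSucc 1043, .ofNat 536, .ofNat 885, .ofNat 146, .negSucc 663⟩, ⟨.ofNat 782, .ofNat 409, .ofNat 114, .negSucc 346, .negSucc 58, .ofNat 245⟩, ⟨.ofNat 2160, .ofNat 732, .negSucc 415, .negSucc 612, .negSucc 122, .ofNat 394⟩, ⟨.negSucc 5802, .negSucc 1459, .ofNat 750, .ofNat 1317, .ofNat 221, .negSucc 1027⟩, ⟨.negSucc 1326, .negSucc 75, .negSucc 175, .negSucc 305, .negSucc 13, .ofNat 205⟩, .ofNat 627, .ofNat 681, .ofNat 0, .ofNat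 681, .ofNat 2026, .ofNat 0, .ofNat 128, .negSucc 156, .negSucc 622, .ofNat 0, .ofNat 91, .ofNat 236, .ofNat 0, .ofNat 0, .ofNat 614, .ofNat 942, .ofNat 0, .ofNat 0, .ofNat 9629535524699070957775352550745330650447872, .ofNat 0, .ofNat 0, .ofNat 0, .ofNat 298027149626278515601409882396524426374938624, .ofNat 0, .ofNat 0, .ofNat 0, .ofNat 554579925375259012801137998122637778567036928, .ofNat 0, .ofNat 0, .ofNat 0, .ofNat 702175733144472248249437656513123271967768576, .ofNat 0⟩)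
    (by decide +kernel)
theorem L01276 : Good (Phi V5.P V5.D (-1) (-1)) ⟨4, 12, 3, 1, 3, 7, 4, 7, 5, 3⟩ :=
  leafX_sound T5.ok_mm T5.Ymm.bz_eq (w := 236) (c := ⟨⟨.negSucc 2798, .negSucc 419, .ofNat 432, .ofNat 523, .ofNat 253, .negSucc 169⟩, ⟨.ofNat 634, .ofNat 132, .ofNat 112, .negSucc 165, .negSucc 97, .ofNat 52⟩, ⟨.ofNat 1813, .ofNat 274, .negSucc 233, .negSucc 443, .negSucc 220, .negSucc 5⟩, ⟨.negSucc 5085, .negSucc 560, .ofNat 608, .ofNat 917, .ofNat 384, .negSucc 321⟩, ⟨.negSucc 1596, .negSucc 183, .ofNat 17, .ofNat 204, .negSucc 65, .negSucc 105⟩, .ofNat 635, .ofNat 699, .ofNat 0, .ofNat 699, .ofNat 2051, .ofNat 0, .ofNat 128, .negSucc 193, .negSucc 613, .ofNat 0, .ofNat 116, .ofNat 222, .ofNat 0, .ofNat 0, .ofNat 645, .ofNat 930, .ofNat 0, .ofNat 0, .ofNat 2830684378081057692990286272593735752613888, .ofNat 0, .ofNat 0, .ofNat 0, .ofNat 310156908869316652990772002200620159415091200,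 .ofNat 0, .ofNat 0, .ofNat 0, .ofNat 362094908002029522114646681199490338547302400, .ofNat 0, .ofNat 0, .ofNat 0, .ofNat 540981325460539511165071922770645903646654464, .ofNat 0⟩)
    (by decide +kernel)
theorem L01277 : Good (Phi V5.P V5.D (-1) (-1)) ⟨4, 13, 3, 1, 1, 1, 1, 0, 3, 0⟩ :=
  out_sound (S := T5.ds_mm) T5.ok_mm (w := 51) (j := 3) (by decide +kernel)
theorem L01278 : Good (Phi V5.P V5.D (-1) (-1)) ⟨3, 6, 3, 0, 1, 1, 1, 0, 3, 1⟩ :=
  out_sound (S := T5.ds_mm) T5.ok_mm (w := 45) (j := 3) (by decide +kernel)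
theorem L01279 : Good (Phi V5.P V5.D (-1) (-1)) ⟨5, 24, 4, 2, 2, 2, 4, 0, 4, 2⟩ :=
  leafX_sound T5.ok_mm T5.Ymm.bz_eq (w := 225) (c := ⟨⟨.negSucc 2950, .negSucc 332, .ofNat 125, .negSucc 868, .negSucc 480, .ofNat 537⟩, ⟨.ofNat 629, .ofNat 172, .ofNat 111, .ofNat 302, .ofNat 201, .negSucc 151⟩, ⟨.ofNat 1957, .ofNat 332, .negSucc 232, .ofNat 913, .ofNat 283, .ofNat 186⟩, ⟨.negSucc 5405, .negSucc 330, .ofNat 148, .negSucc 1352, .negSucc 654, .ofNat 942⟩, ⟨.negSucc 1614, .ofNat 32, .negSucc 64, .ofNat 240, .ofNat 419, .ofNat 194⟩, .ofNat 668, .ofNat 774, .ofNat 0, .ofNat 774, .ofNat 2437, .ofNat 0, .ofNat 140, .negSucc 127, .negSucc 144, .ofNat 0, .ofNat 79, .ofNat 61, .ofNat 0, .ofNat 0, .ofNat 336, .ofNat 4740, .ofNat 31515460458325001142912068765843336427170955264, .ofNat 0, .ofNat 9256015038438990304474511356876292096, .ofNat 0, .ofNat 0, .ofNat 0, .ofNat 465331021037310129060662528786686803968,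 .ofNat 0, .ofNat 64842997452004135082374821107951206453418655744, .ofNat 0, .ofNat 271370068543846433822728189370439827456, .ofNat 0, .ofNat 126460601065513066901266443152690985505692581888, .ofNat 0, .ofNat 203401941416017010411227610656356171776, .ofNat 0⟩)
    (by decide +kernel)
theorem L01280 : Good (Phi V5.P V5.D (-1) (-1)) ⟨5, 24, 4, 2, 2, 2, 4, 1, 4, 2⟩ :=
  leafX_sound T5.ok_mm T5.Ymm.bz_eq (w := 225) (c := ⟨⟨.negSucc 3601, .negSucc 160, .ofNat 116, .negSucc 449, .negSucc 81, .ofNat 360⟩, ⟨.ofNat 897, .ofNat 117, .ofNat 109, .ofNat 137, .ofNat 37, .negSucc 85⟩, ⟨.ofNat 2486, .ofNat 193, .negSucc 213, .ofNat 504, .negSucc 34, .ofNat 199⟩, ⟨.negSucc 6282, .negSucc 57, .ofNat 115, .negSucc 769, .negSucc 101, .ofNat 679⟩, ⟨.negSucc 999, .ofNat 38, .negSucc 161, .negSucc 61, .ofNat 95, .ofNat 268⟩, .ofNat 576, .ofNat 572, .ofNat 0, .ofNat 572, .ofNat 1877, .ofNat 0, .ofNat 150, .negSucc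 127, .negSucc 125, .ofNat 0, .ofNat 83, .ofNat 53, .ofNat 0, .ofNat 0, .ofNat 300, .ofNat 4646, .ofNat 0, .ofNat 0, .ofNat 0, .ofNat 0, .ofNat 0, .ofNat 0, .ofNat 0, .ofNat 0, .ofNat 0, .ofNat 0, .ofNat 540336031990840738635279137916590227456, .ofNat 0, .ofNat 0, .ofNat 0, .ofNat 471443950402007788205976365116321431552, .ofNat 0⟩)
    (by decide +kernel)
theorem L01281 : Good (Phi V5.P V5.D (-1) (-1)) ⟨5, 24, 4, 2, 2, 2, 3, 0, 4, 3⟩ :=
  leafX_sound T5.ok_mm T5.Ymm.bz_eq (w := 223) (c := ⟨⟨.negSucc 3623, .negSucc 231, .ofNat 51, .ofNat 90, .ofNat 131, .ofNat 759⟩, ⟨.ofNat 981, .ofNat 129, .ofNat 113, .negSucc 79, .negSucc 50, .negSucc 239⟩, ⟨.ofNat 3344, .ofNat 260, .negSucc 147, .negSucc 190, .negSucc 437, .negSucc 353⟩, ⟨.negSucc 6163, .negSucc 189, .ofNat 31, .ofNat 5, .ofNat 198, .ofNat 1238⟩, ⟨.negSucc 563, .ofNat 74, .negSucc 68, .negSucc 444, .negSucc 38, .negSucc 44⟩, .ofNat 663,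 .ofNat 764, .ofNat 0, .ofNat 764, .ofNat 2414, .ofNat 0, .ofNat 159, .negSucc 127, .negSucc 101, .ofNat 0, .ofNat 90, .ofNat 44, .ofNat 0, .ofNat 0, .ofNat 353, .ofNat 13763, .ofNat 0, .ofNat 0, .ofNat 0, .ofNat 0, .ofNat 0, .ofNat 0, .ofNat 92357882103198442959178636894796775424, .ofNat 0, .ofNat 11979298425530469946926363907834359873282244608, .ofNat 0, .ofNat 50110534397060418137351035111258193920, .ofNat 0, .ofNat 28169252557803242429793060431897134838965075968, .ofNat 0, .ofNat 13297546692409769235745378052582932480, .ofNat 0⟩)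
    (by decide +kernel)
theorem L01282 : Good (Phi V5.P V5.D (-1) (-1)) ⟨5, 24, 4, 2, 3, 6, 5, 0, 5, 4⟩ :=
  leafX_sound T5.ok_mm T5.Ymm.bz_eq (w := 250) (c := ⟨⟨.negSucc 4856, .negSucc 665, .ofNat 173, .negSucc 329, .ofNat 187, .ofNat 892⟩, ⟨.ofNat 1364, .ofNat 364, .ofNat 99, .ofNat 189, .negSucc 83, .negSucc 351⟩, ⟨.ofNat 4206, .ofNat 608, .negSucc 220, .ofNat 855, .negSucc 409, .negSucc 632⟩, ⟨.negSucc 8142, .negSucc 703, .ofNat 251, .negSucc 299, .ofNat 242, .ofNat 1263⟩, ⟨.negSucc 239, .ofNat 460, .negSucc 124, .ofNat 802, .negSucc 235, .negSucc 620⟩, .ofNat 441, .ofNat 301, .ofNat 0, .ofNat 301, .ofNat 1112, .ofNat 0, .ofNat 128, .negSucc 187, .negSucc 560, .ofNat 0, .ofNat 132, .ofNat 254, .ofNat 0, .ofNat 0, .ofNat 917, .ofNat 39090, .ofNat 61117161849226856163857623673735535434324100633329664, .ofNat 0, .ofNat 454410764660340033587916421184946849739440128, .ofNat 0, .ofNat 0, .ofNat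 0, .ofNat 2288169099609751374620243695036732800705232896, .ofNat 0, .ofNat 65844398361839998429036965847068759600630673732272128, .ofNat 0, .ofNat 7049119175733802455844400598085338103189340160, .ofNat 0, .ofNat 0, .ofNat 0, .ofNat 23905334094220302314088973655879828191622201344, .ofNat 0⟩)
    (by decide +kernel)
theorem L01283 : Good (Phi V5.P V5.D (-1) (-1)) ⟨5, 24, 4, 2, 3, 6, 5, 1, 5, 4⟩ :=
  leafX_sound T5.ok_mm T5.Ymm.bz_eq (w := 250) (c := ⟨⟨.negSucc 4876, .negSucc 653, .ofNat 300, .negSucc 81, .ofNat 108, .ofNat 742⟩, ⟨.ofNat 1374, .ofNat 350, .ofNat 44, .ofNat 79, .negSucc 49, .negSucc 285⟩, ⟨.ofNat 4063, .ofNat 552, .negSucc 364, .ofNat 570, .negSucc 263, .negSucc 485⟩, ⟨.negSucc 8167, .negSucc 690, .ofNat 407, .ofNat 22, .ofNat 132, .ofNat 1075⟩, ⟨.negSucc 265, .ofNat 418, .negSucc 238, .ofNat 529, .negSucc 137, .negSucc 456⟩, .ofNat 520, .ofNat 455, .ofNat 0, .ofNat 455, .ofNat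 1559, .ofNat 0, .ofNat 128, .negSucc 223, .negSucc 575, .ofNat 0, .ofNat 147, .ofNat 245, .ofNat 0, .ofNat 0, .ofNat 997, .ofNat 20149, .ofNat 0, .ofNat 0, .ofNat 0, .ofNat 0, .ofNat 0, .ofNat 0, .ofNat 2651202469132158293210219516686438226278219776, .ofNat 0, .ofNat 0, .ofNat 0, .ofNat 13227309363189334977757661109037511256156667904, .ofNat 0, .ofNat 0, .ofNat 0, .ofNat 22935230909686015190618949588570943027769507840, .ofNat 0⟩)
    (by decide +kernel)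
theorem L01284 : Good (Phi V5.P V5.D (-1) (-1)) ⟨5, 24, 4, 2, 3, 6, 4, 1, 5, 4⟩ :=
  leafX_sound T5.ok_mm T5.Ymm.bz_eq (w := 245) (c := ⟨⟨.negSucc 4714, .negSucc 790, .ofNat 357, .ofNat 86, .ofNat 194, .ofNat 551⟩, ⟨.ofNat 1303, .ofNat 383, .ofNat 30, .ofNat 1, .negSucc 86, .negSucc 203⟩, ⟨.ofNat 3734, .ofNat 701, .negSucc 372, .ofNat 355, .negSucc 393, .negSucc 341⟩, ⟨.negSucc 7940, .negSucc 929, .ofNat 489, .ofNat 215, .ofNat 249, .ofNat 822⟩, ⟨.negSucc 446, .ofNat 450, .negSucc 247, .ofNat 325, .negSucc 243, .negSucc 245⟩, .ofNat 452, .ofNat 330, .ofNat 0, .ofNat 330, .ofNat 1200, .ofNat 0, .ofNat 128, .negSucc 168, .negSucc 399, .ofNat 0, .ofNat 117, .ofNat 170, .ofNat 0, .ofNat 0, .ofNat 627, .ofNat 10635, .ofNat 0, .ofNat 0, .ofNat 0, .ofNat 0, .ofNat 0, .ofNat 0, .ofNat 239385810785455149115744445877481003842273280, .ofNat 0, .ofNat 0, .ofNat 0, .ofNat 613568387963079679848902962834571030326935552,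 .ofNat 0, .ofNat 0, .ofNat 0, .ofNat 937320963323957601429762215590701021546938368, .ofNat 0⟩)
    (by decide +kernel)
theorem L01285 : Good (Phi V5.P V5.D (-1) (-1)) ⟨5, 24, 4, 2, 3, 7, 3, 0, 5, 4⟩ :=
  leafX_sound T5.ok_mm T5.Ymm.bz_eq (w := 240) (c := ⟨⟨.negSucc 4964, .negSucc 358, .ofNat 226, .ofNat 801, .ofNat 431, .ofNat 764⟩, ⟨.ofNat 1459, .ofNat 201, .ofNat 66, .negSucc 180, .negSucc 200, .negSucc 289⟩, ⟨.ofNat 4576, .ofNat 399, .negSucc 294, .negSucc 1769, .negSucc 610, .negSucc 509⟩, ⟨.negSucc 8184, .negSucc 377, .ofNat 356, .ofNat 1552, .ofNat 514, .ofNat 1097⟩, ⟨.ofNat 153, .negSucc 68, .negSucc 21, .ofNat 725, .negSucc 624, .negSucc 512⟩, .ofNat 661, .ofNat 758, .ofNat 0, .ofNat 758, .ofNat 2388, .ofNat 0, .ofNat 128, .negSucc 565, .negSucc 385, .ofNat 0, .ofNat 381, .ofNat 141, .ofNat 0, .ofNat 0, .ofNat 722, .ofNat 2936, .ofNat 0, .ofNat 0, .ofNat 489898244938664699600075248916604865478656,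 .ofNat 0, .ofNat 0, .ofNat 0, .ofNat 9734647312862497631743871639755370090463232, .ofNat 0, .ofNat 0, .ofNat 0, .ofNat 126994571325778529376862897701222433274462208, .ofNat 0, .ofNat 0, .ofNat 0, .ofNat 100791767008501745441184880713116234287153152, .ofNat 0⟩)
    (by decide +kernel)
theorem L01286 : Good (Phi V5.P V5.D (-1) (-1)) ⟨5, 24, 4, 2, 3, 6, 4, 0, 5, 5⟩ :=
  leafX_sound T5.ok_mm T5.Ymm.bz_eq (w := 247) (c := ⟨⟨.negSucc 4309, .negSucc 410, .ofNat 175, .ofNat 334, .ofNat 109, .ofNat 676⟩, ⟨.ofNat 1185, .ofNat 220, .ofNat 80, .negSucc 105, .negSucc 46, .negSucc 255⟩, ⟨.ofNat 3978, .ofNat 462, .negSucc 280, .ofNat 4, .negSucc 419, .negSucc 479⟩, ⟨.negSucc 7287, .negSucc 400, .ofNat 215, .ofNat 555, .ofNat 139, .ofNat 998⟩, ⟨.negSucc 477, .ofNat 195, .negSucc 143, .ofNat 23, .negSucc 150, .negSucc 352⟩, .ofNat 657, .ofNat 751, .ofNat 0, .ofNat 751, .ofNat 2373, .ofNat 0, .ofNat 128,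 .negSucc 239, .negSucc 380, .ofNat 0, .ofNat 163, .ofNat 162, .ofNat 0, .ofNat 0, .ofNat 898, .ofNat 52531, .ofNat 3480617635212565333511830798252183068563004165455872, .ofNat 0, .ofNat 52720968623075627688203108635006491718320128, .ofNat 0, .ofNat 893317016279182096330555825314949465725517896351744, .ofNat 0, .ofNat 522731827007893229500090567854032835345121280, .ofNat 0, .ofNat 0, .ofNat 0, .ofNat 1881902043074137932912474853130649239851892736, .ofNat 0, .ofNat 0, .ofNat 0, .ofNat 2706001087556764920671253697745812852490371072, .ofNat 0⟩)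
    (by decide +kernel)
theorem L01287 : Good (Phi V5.P V5.D (-1) (-1)) ⟨5, 24, 4, 2, 3, 6, 4, 1, 5, 5⟩ :=
  leafX_sound T5.ok_mm T5.Ymm.bz_eq (w := 246) (c := ⟨⟨.negSucc 4205, .negSucc 311, .ofNat 118, .ofNat 400, .ofNat 118, .ofNat 657⟩, ⟨.ofNat 1140, .ofNat 171, .ofNat 107, .negSucc 136, .negSucc 51, .negSucc 243⟩, ⟨.ofNat 3587, .ofNat 297, .negSucc 208, .negSucc 101, .negSucc 359, .negSucc 459⟩, ⟨.negSucc 7148, .negSucc 282, .ofNat 137, .ofNat 628, .ofNat 152, .ofNat 980⟩, ⟨.negSucc 614, .ofNat 118, .negSucc 88, .negSucc 87, .negSucc 129, .negSucc 317⟩, .ofNat 574, .ofNat 565, .ofNat 0, .ofNat 565, .ofNat 1864, .ofNat 0, .ofNat 128, .negSucc 211, .negSucc 442, .ofNat 0, .ofNat 147, .ofNat 188, .ofNat 0, .ofNat 0, .ofNat 1007, .ofNat 19619, .ofNat 0, .ofNat 0, .ofNat 0, .ofNat 0, .ofNat 0, .ofNat 0, .ofNat 205937943929181384910223552981552561104355328, .ofNat 0, .ofNat 0, .ofNat 0, .ofNat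 1505718837274556483860106534671414959051636736, .ofNat 0, .ofNat 0, .ofNat 0, .ofNat 0, .ofNat 0⟩)
    (by decide +kernel)
theorem L01288 : Good (Phi V5.P V5.D (-1) (-1)) ⟨5, 24, 4, 2, 3, 7, 3, 0, 5, 5⟩ :=
  leafX_sound T5.ok_mm T5.Ymm.bz_eq (w := 241) (c := ⟨⟨.negSucc 3920, .negSucc 245, .ofNat 103, .ofNat 629, .ofNat 303, .ofNat 632⟩, ⟨.ofNat 1078, .ofNat 116, .ofNat 96, .negSucc 143, .negSucc 134, .negSucc 240⟩, ⟨.ofNat 3622, .ofNat 372, .negSucc 72, .negSucc 1362, .negSucc 553, .negSucc 472⟩, ⟨.negSucc 6657, .negSucc 251, .ofNat 141, .ofNat 1209, .ofNat 385, .ofNat 921⟩, ⟨.negSucc 528, .negSucc 60, .negSucc 16, .ofNat 564, .negSucc 381, .negSucc 381⟩, .ofNat 570, .ofNat 557, .ofNat 0, .ofNat 557, .ofNat 1853, .ofNat 0, .ofNat 128, .negSucc 335, .negSucc 268, .ofNat 0, .ofNat 259, .ofNat 95, .ofNat 0, .ofNat 0, .ofNat 702, .ofNat 9159, .ofNat 0, .ofNat 0, .ofNat 0, .ofNat 0, .ofNat 0,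 .ofNat 0, .ofNat 10092376029116902114588656671842241777500160, .ofNat 0, .ofNat 0, .ofNat 0, .ofNat 136371092599697761189687529315308971990450176, .ofNat 0, .ofNat 984128446758390180262372102123794440701182969118720, .ofNat 0, .ofNat 33730119895467814196152353618951895831805952, .ofNat 0⟩)
    (by decide +kernel)
theorem L01289 : Good (Phi V5.P V5.D (-1) (-1)) ⟨5, 24, 4, 2, 2, 3, 3, 0, 4, 3⟩ :=
  leafX_sound T5.ok_mm T5.Ymm.bz_eq (w := 221) (c := ⟨⟨.negSucc 3588, .negSucc 87, .ofNat 64, .ofNat 952, .ofNat 188, .ofNat 766⟩, ⟨.ofNat 940, .ofNat 41, .ofNat 94, .negSucc 302, .negSucc 66, .negSucc 262⟩, ⟨.ofNat 3382, .ofNat 137, .ofNat 44, .negSucc 1288, .negSucc 555, .negSucc 559⟩, ⟨.negSucc 6218, .negSucc 34, .ofNat 41, .ofNat 1558, .ofNat 285, .ofNat 1205⟩, ⟨.negSucc 974, .negSucc 84, .negSucc 53, .negSucc 12, .negSucc 78, .negSucc 181⟩, .ofNat 631, .ofNat 691, .ofNat 0, .ofNat 691, .ofNat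 2203, .ofNat 0, .ofNat 128, .negSucc 203, .negSucc 134, .ofNat 0, .ofNat 168, .ofNat 53, .ofNat 0, .ofNat 0, .ofNat 599, .ofNat 6050, .ofNat 0, .ofNat 0, .ofNat 0, .ofNat 0, .ofNat 0, .ofNat 0, .ofNat 9578065310552835843713498660214931456, .ofNat 0, .ofNat 0, .ofNat 0, .ofNat 77981732921730935782440651111052345344, .ofNat 0, .ofNat 35517449188217393573703263590063996480954302464, .ofNat 0, .ofNat 131207610049949478855340922845356097536, .ofNat 0⟩)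
    (by decide +kernel)
theorem L01290 : Good (Phi V5.P V5.D (-1) (-1)) ⟨5, 24, 4, 2, 2, 2, 3, 1, 4, 2⟩ :=
  leafX_sound T5.ok_mm T5.Ymm.bz_eq (w := 220) (c := ⟨⟨.negSucc 3637, .negSucc 218, .negSucc 29, .negSucc 272, .negSucc 48, .ofNat 434⟩, ⟨.ofNat 930, .ofNat 133, .ofNat 158, .ofNat 57, .ofNat 26, .negSucc 116⟩, ⟨.ofNat 2580, .ofNat 143, .negSucc 95, .ofNat 146, .negSucc 91, .ofNat 72⟩, ⟨.negSucc 6298, .negSucc 165, .negSucc 81, .negSucc 544, .negSucc 46, .ofNat 770⟩, ⟨.negSucc 875, .negSucc 37, .negSucc 7, .negSucc 277, .ofNat 107, .ofNat 165⟩, .ofNat 575, .ofNat 570, .ofNat 0, .ofNat 570, .ofNat 1885, .ofNat 0, .ofNat 157, .negSucc 127, .negSucc 151, .ofNat 0, .ofNat 84, .ofNat 62, .ofNat 0, .ofNat 0, .ofNat 323, .ofNat 2133, .ofNat 0, .ofNat 0, .ofNat 0, .ofNat 0, .ofNat 0, .ofNat 0, .ofNat 0, .ofNat 0, .ofNat 0, .ofNat 0, .ofNat 15875082674636769581410647827793575936, .ofNat 0, .ofNat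 0, .ofNat 0, .ofNat 42924529060472644998038953154043707392, .ofNat 0⟩)
    (by decide +kernel)
theorem L01291 : Good (Phi V5.P V5.D (-1) (-1)) ⟨5, 24, 4, 2, 2, 2, 3, 1, 4, 3⟩ :=
  leafX_sound T5.ok_mm T5.Ymm.bz_eq (w := 222) (c := ⟨⟨.negSucc 3528, .negSucc 237, .ofNat 27, .ofNat 261, .ofNat 84, .ofNat 633⟩, ⟨.ofNat 944, .ofNat 126, .ofNat 125, .negSucc 144, .negSucc 19, .negSucc 198⟩, ⟨.ofNat 3039, .ofNat 305, .negSucc 105, .negSucc 515, .negSucc 305, .negSucc 293⟩, ⟨.negSucc 6028, .negSucc 211, .ofNat 17, .ofNat 244, .ofNat 158, .ofNat 1053⟩, ⟨.negSucc 600, .ofNat 67, .negSucc 11, .negSucc 580, .ofNat 60, .ofNat 29⟩, .ofNat 632, .ofNat 694, .ofNat 0, .ofNat 694, .ofNat 2212, .ofNat 0, .ofNat 150, .negSucc 127, .negSucc 95, .ofNat 0, .ofNat 92, .ofNat 40, .ofNat 0, .ofNat 0, .ofNat 332, .ofNat 4976, .ofNat 0, .ofNat 0, .ofNat 0, .ofNat 0, .ofNat 0, .ofNat 0, .ofNat 36354956752655008791512369065885696000,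 .ofNat 0, .ofNat 0, .ofNat 0, .ofNat 73433962975211737916344609988130373632, .ofNat 0, .ofNat 0, .ofNat 0, .ofNat 27424548226506868200020253658518126592, .ofNat 0⟩)
    (by decide +kernel)
theorem L01292 : Good (Phi V5.P V5.D (-1) (-1)) ⟨5, 24, 4, 2, 3, 6, 3, 1, 4, 2⟩ :=
  leafX_sound T5.ok_mm T5.Ymm.bz_eq (w := 235) (c := ⟨⟨.negSucc 4594, .negSucc 317, .ofNat 120, .ofNat 437, .ofNat 308, .ofNat 1065⟩, ⟨.ofNat 1274, .ofNat 173, .ofNat 102, .negSucc 155, .negSucc 129, .negSucc 375⟩, ⟨.ofNat 3467, .ofNat 200, .negSucc 109, .negSucc 118, .negSucc 559, .negSucc 675⟩, ⟨.negSucc 7762, .negSucc 301, .ofNat 136, .ofNat 664, .ofNat 416, .ofNat 1638⟩, ⟨.negSucc 577, .ofNat 102, .negSucc 84, .negSucc 124, .negSucc 284, .negSucc 333⟩, .ofNat 519, .ofNat 453, .ofNat 0, .ofNat 453, .ofNat 1553, .ofNat 0, .ofNat 128, .negSucc 144, .negSucc 308, .ofNat 0, .ofNat 101, .ofNat 125, .ofNat 0, .ofNat 0, .ofNat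 525, .ofNat 3193, .ofNat 0, .ofNat 0, .ofNat 13140588668264844198678960831821500121088, .ofNat 0, .ofNat 0, .ofNat 0, .ofNat 53086935364200436034261732767094752149504, .ofNat 0, .ofNat 0, .ofNat 0, .ofNat 594524450821406947226703316970248733720576, .ofNat 0, .ofNat 0, .ofNat 0, .ofNat 1029836145790992208113642924871512854888448, .ofNat 0⟩)
    (by decide +kernel)
theorem L01293 : Good (Phi V5.P V5.D (-1) (-1)) ⟨5, 24, 4, 2, 3, 7, 3, 1, 4, 2⟩ :=
  leafX_sound T5.ok_mm T5.Ymm.bz_eq (w := 235) (c := ⟨⟨.negSucc 4160, .negSucc 187, .ofNat 126, .ofNat 608, .ofNat 393, .ofNat 1088⟩, ⟨.ofNat 1139, .ofNat 110, .ofNat 85, .negSucc 143, .negSucc 173, .negSucc 393⟩, ⟨.ofNat 3345, .ofNat 58, .negSucc 74, .negSucc 1015, .negSucc 485, .negSucc 802⟩, ⟨.negSucc 7081, .negSucc 137, .ofNat 161, .ofNat 1148, .ofNat 493, .ofNat 1637⟩, ⟨.negSucc 664, .ofNat 3, .negSucc 31, .ofNat 449, .negSucc 481, .negSucc 479⟩,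 .ofNat 626, .ofNat 660, .ofNat 0, .ofNat 660, .ofNat 2097, .ofNat 0, .ofNat 128, .negSucc 205, .negSucc 254, .ofNat 0, .ofNat 158, .ofNat 95, .ofNat 0, .ofNat 0, .ofNat 467, .ofNat 1709, .ofNat 0, .ofNat 0, .ofNat 6352639006095271997455514657729590329344, .ofNat 0, .ofNat 0, .ofNat 0, .ofNat 242609358698832296200797806861933359398912, .ofNat 0, .ofNat 0, .ofNat 0, .ofNat 509774932402479397601895533567467411472384, .ofNat 0, .ofNat 0, .ofNat 0, .ofNat 748604402347140766847978562186546918719488, .ofNat 0⟩)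
    (by decide +kernel)
theorem L01294 : Good (Phi V5.P V5.D (-1) (-1)) ⟨5, 24, 4, 2, 2, 3, 3, 1, 4, 3⟩ :=
  leafX_sound T5.ok_mm T5.Ymm.bz_eq (w := 221) (c := ⟨⟨.negSucc 3382, .negSucc 60, .ofNat 43, .ofNat 967, .ofNat 241, .ofNat 718⟩, ⟨.ofNat 851, .ofNat 31, .ofNat 111, .negSucc 310, .negSucc 82, .negSucc 231⟩, ⟨.ofNat 2807, .ofNat 57, .negSucc 19, .negSucc 1140, .negSucc 494, .negSucc 530⟩, ⟨.negSucc 5946, .negSucc 45, .ofNat 56, .ofNat 1577, .ofNat 373, .ofNat 1164⟩, ⟨.negSucc 1181, .negSucc 228, .ofNat 85, .negSucc 45, .negSucc 75, .negSucc 58⟩, .ofNat 657, .ofNat 749, .ofNat 0, .ofNat 749, .ofNat 2357, .ofNat 0, .ofNat 128, .negSucc 177, .negSucc 99, .ofNat 0, .ofNat 144, .ofNat 39, .ofNat 0, .ofNat 0, .ofNat 388, .ofNat 3055, .ofNat 0, .ofNat 0, .ofNat 0, .ofNat 0, .ofNat 0, .ofNat 0, .ofNat 24618032316707087941251553988427382784, .ofNat 0, .ofNat 0, .ofNat 0, .ofNat 82820325591468369553682457127857160192,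 .ofNat 0, .ofNat 0, .ofNat 0, .ofNat 38546139346847890315088031964966420480, .ofNat 0⟩)
    (by decide +kernel)
theorem L01295 : Good (Phi V5.P V5.D (-1) (-1)) ⟨5, 25, 4, 2, 1, 1, 2, 0, 3, 1⟩ :=
  out_sound (S := T5.ds_mm) T5.ok_mm (w := 59) (j := 3) (by decide +kernel)
theorem L01296 : Good (Phi V5.P V5.D (-1) (-1)) ⟨5, 24, 4, 2, 2, 2, 2, 1, 4, 2⟩ :=
  leafX_sound T5.ok_mm T5.Ymm.bz_eq (w := 216) (c := ⟨⟨.negSucc 3786, .negSucc 328, .ofNat 81, .negSucc 140, .ofNat 292, .ofNat 435⟩, ⟨.ofNat 1016, .ofNat 171, .ofNat 113, .negSucc 13, .negSucc 84, .negSucc 123⟩, ⟨.ofNat 2821, .ofNat 310, .negSucc 154, .negSucc 190, .negSucc 352, .negSucc 169⟩, ⟨.negSucc 6462, .negSucc 341, .ofNat 93, .negSucc 408, .ofNat 512, .ofNat 766⟩, ⟨.negSucc 574, .ofNat 85, .negSucc 62, .negSucc 559, .ofNat 77, .ofNat 126⟩, .ofNat 441, .ofNat 301, .ofNat 0, .ofNat 301, .ofNat 1112, .ofNat 0, .ofNat 191, .negSucc 127,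 .negSucc 350, .ofNat 0, .ofNat 100, .ofNat 136, .ofNat 0, .ofNat 0, .ofNat 568, .ofNat 1283, .ofNat 0, .ofNat 0, .ofNat 0, .ofNat 0, .ofNat 0, .ofNat 0, .ofNat 443734060422589769673235529608462336, .ofNat 0, .ofNat 0, .ofNat 0, .ofNat 1510897431668081585059464312239685632, .ofNat 0, .ofNat 0, .ofNat 0, .ofNat 0, .ofNat 0⟩)
    (by decide +kernel)
theorem L01297 : Good (Phi V5.P V5.D (-1) (-1)) ⟨5, 24, 4, 2, 2, 2, 2, 1, 4, 3⟩ :=
  leafX_sound T5.ok_mm T5.Ymm.bz_eq (w := 217) (c := ⟨⟨.negSucc 3501, .negSucc 114, .ofNat 26, .ofNat 309, .ofNat 307, .ofNat 649⟩, ⟨.ofNat 957, .ofNat 83, .ofNat 111, .negSucc 165, .negSucc 82, .negSucc 205⟩, ⟨.ofNat 2926, .ofNat 100, .negSucc 72, .negSucc 737, .negSucc 513, .negSucc 428⟩, ⟨.negSucc 5945, .negSucc 29, .ofNat 10, .ofNat 305, .ofNat 551, .ofNat 1071⟩, ⟨.negSucc 490, .ofNat 15, .negSucc 36, .negSucc 617, .ofNat 134, .ofNat 16⟩, .ofNat 572, .ofNat 563,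 .ofNat 0, .ofNat 563, .ofNat 1860, .ofNat 0, .ofNat 176, .negSucc 127, .negSucc 166, .ofNat 0, .ofNat 94, .ofNat 66, .ofNat 0, .ofNat 0, .ofNat 485, .ofNat 2253, .ofNat 0, .ofNat 0, .ofNat 0, .ofNat 0, .ofNat 0, .ofNat 0, .ofNat 1997283017899659399355942852611801088, .ofNat 0, .ofNat 0, .ofNat 0, .ofNat 3467630656312220578045699820089245696, .ofNat 0, .ofNat 0, .ofNat 0, .ofNat 0, .ofNat 0⟩)
    (by decide +kernel)
theorem L01298 : Good (Phi V5.P V5.D (-1) (-1)) ⟨5, 24, 4, 2, 3, 6, 2, 1, 4, 2⟩ :=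
  leafX_sound T5.ok_mm T5.Ymm.bz_eq (w := 231) (c := ⟨⟨.negSucc 4388, .negSucc 239, .ofNat 98, .ofNat 747, .ofNat 677, .ofNat 960⟩, ⟨.ofNat 1182, .ofNat 108, .ofNat 106, .negSucc 276, .negSucc 236, .negSucc 310⟩, ⟨.ofNat 3165, .ofNat 228, .negSucc 113, .negSucc 555, .negSucc 827, .negSucc 759⟩, ⟨.negSucc 7518, .negSucc 247, .ofNat 99, .ofNat 1110, .ofNat 1048, .ofNat 1557⟩, ⟨.negSucc 889, .negSucc 37, .negSucc 62, .negSucc 376, .negSucc 202, .negSucc 68⟩, .ofNat 626, .ofNat 660, .ofNat 0, .ofNat 660, .ofNat 2097, .ofNat 0, .ofNat 128, .negSucc 162, .negSucc 294, .ofNat 0, .ofNat 112, .ofNat 114, .ofNat 0, .ofNat 0, .ofNat 414, .ofNat 1394, .ofNat 0, .ofNat 0, .ofNat 356140822274113297436612942005891235840, .ofNat 0, .ofNat 0, .ofNat 0, .ofNat 6365983382630417613842567785148867149824, .ofNat 0, .ofNat 0, .ofNat 0, .ofNat 69035737388953616660388803286196979499008, .ofNat 0, .ofNat 0, .ofNat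 0, .ofNat 19802488724289475614714846821326669217792, .ofNat 0⟩)
    (by decide +kernel)
theorem L01299 : Good (Phi V5.P V5.D (-1) (-1)) ⟨5, 24, 4, 2, 3, 7, 2, 1, 4, 2⟩ :=
  leafX_sound T5.ok_mm T5.Ymm.bz_eq (w := 230) (c := ⟨⟨.negSucc 3507, .negSucc 64, .ofNat 77, .ofNat 582, .ofNat 766, .ofNat 769⟩, ⟨.ofNat 868, .ofNat 19, .ofNat 110, .negSucc 157, .negSucc 284, .negSucc 244⟩, ⟨.ofNat 2462, .ofNat 53, .negSucc 67, .negSucc 626, .negSucc 773, .negSucc 606⟩, ⟨.negSucc 6215, .negSucc 43, .ofNat 108, .ofNat 1039, .ofNat 1137, .ofNat 1261⟩, ⟨.negSucc 1418, .negSucc 150, .ofNat 99, .ofNat 253, .negSucc 381, .negSucc 1⟩, .ofNat 626, .ofNat 660, .ofNat 0, .ofNat 660, .ofNat 2097, .ofNat 0, .ofNat 128, .negSucc 141, .negSucc 182, .ofNat 0, .ofNat 111, .ofNat 66, .ofNat 0, .ofNat 0, .ofNat 299, .ofNat 1199, .ofNat 0, .ofNat 0, .ofNat 104626261342356972408521553112417173504, .ofNat 0, .ofNat 0, .ofNat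 0, .ofNat 0, .ofNat 0, .ofNat 0, .ofNat 0, .ofNat 22168562246218154307673595466966374547456, .ofNat 0, .ofNat 0, .ofNat 0, .ofNat 36320369004609589155734682985175145512960, .ofNat 0⟩)
    (by decide +kernel)
theorem L01300 : Good (Phi V5.P V5.D (-1) (-1)) ⟨5, 24, 4, 2, 2, 3, 2, 1, 4, 3⟩ :=
  leafX_sound T5.ok_mm T5.Ymm.bz_eq (w := 216) (c := ⟨⟨.negSucc 3061, .negSucc 116, .ofNat 16, .ofNat 1018, .ofNat 474, .ofNat 539⟩, ⟨.ofNat 734, .ofNat 54, .ofNat 115, .negSucc 334, .negSucc 139, .negSucc 149⟩, ⟨.ofNat 2200, .ofNat 47, .negSucc 27, .negSucc 993, .negSucc 693, .negSucc 421⟩, ⟨.negSucc 5508, .negSucc 87, .ofNat 17, .ofNat 1657, .ofNat 818, .ofNat 963⟩, ⟨.negSucc 1477, .negSucc 22, .ofNat 100, .negSucc 60, .ofNat 121, .ofNat 240⟩, .ofNat 632, .ofNat 694, .ofNat 0, .ofNat 694, .ofNat 2215, .ofNat 0, .ofNat 128, .negSucc 157, .negSucc 81, .ofNat 0, .ofNat 126, .ofNat 30, .ofNat 0, .ofNat 0,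 .ofNat 307, .ofNat 716, .ofNat 0, .ofNat 0, .ofNat 9382654167654222148934570401071104, .ofNat 0, .ofNat 0, .ofNat 0, .ofNat 627993568780238984643013323865980928, .ofNat 0, .ofNat 0, .ofNat 0, .ofNat 0, .ofNat 0, .ofNat 0, .ofNat 0, .ofNat 0, .ofNat 0⟩)
    (by decide +kernel)
theorem L01301 : Good (Phi V5.P V5.D (-1) (-1)) ⟨5, 25, 4, 2, 1, 1, 2, 1, 3, 1⟩ :=
  out_sound (S := T5.ds_mm) T5.ok_mm (w := 59) (j := 3) (by decide +kernel)
theorem L01302 : Good (Phi V5.P V5.D (-1) (-1)) ⟨4, 12, 4, 3, 3, 4, 2, 0, 4, 2⟩ :=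
  leafX_sound T5.ok_mm T5.Ymm.bz_eq (w := 226) (c := ⟨⟨.negSucc 3318, .negSucc 731, .ofNat 74, .negSucc 271, .negSucc 32, .ofNat 125⟩, ⟨.ofNat 952, .ofNat 394, .ofNat 117, .ofNat 79, .ofNat 37, .negSucc 17⟩, ⟨.ofNat 2320, .ofNat 616, .negSucc 107, .ofNat 16, .negSucc 86, .ofNat 333⟩, ⟨.negSucc 5894, .negSucc 767, .ofNat 81, .negSucc 517, .ofNat 53, .ofNat 316⟩, ⟨.negSucc 1111, .ofNat 56, .negSucc 36, .negSucc 213, .ofNat 301, .ofNat 328⟩, .ofNat 724, .ofNat 898, .ofNat 0, .ofNat 898, .ofNat 2573, .ofNat 0, .ofNat 135, .negSucc 127, .negSucc 120, .ofNat 0, .ofNat 78, .ofNat 52, .ofNat 0, .ofNat 0, .ofNat 273, .ofNat 2443, .ofNat 24045096466067966467086037694274486224109436928, .ofNat 0, .ofNat 1077219049598880170166684979560649326592, .ofNat 0, .ofNat 0, .ofNat 0, .ofNat 161901286012795759576691624580030270537728, .ofNat 0, .ofNat 0, .ofNat 0, .ofNat 158092782947976904265655158288268692291584,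 .ofNat 0, .ofNat 50831133704412855101322011485710501405322641408, .ofNat 0, .ofNat 44058723735428366706924586551950029357056, .ofNat 0⟩)
    (by decide +kernel)
theorem L01303 : Good (Phi V5.P V5.D (-1) (-1)) ⟨4, 12, 4, 3, 3, 5, 4, 0, 5, 4⟩ :=
  leafX_sound T5.ok_mm T5.Ymm.bz_eq (w := 242) (c := ⟨⟨.negSucc 3507, .negSucc 1071, .ofNat 80, .negSucc 419, .negSucc 43, .negSucc 4⟩, ⟨.ofNat 976, .ofNat 554, .ofNat 134, .ofNat 180, .ofNat 18, .ofNat 26⟩, ⟨.ofNat 2282, .ofNat 892, .negSucc 142, .ofNat 708, .negSucc 101, .ofNat 300⟩, ⟨.negSucc 6314, .negSucc 1143, .ofNat 82, .negSucc 572, .negSucc 67, .ofNat 90⟩, ⟨.negSucc 1449, .ofNat 514, .negSucc 53, .ofNat 349, .ofNat 12, .ofNat 287⟩, .ofNat 466, .ofNat 360, .ofNat 0, .ofNat 360, .ofNat 1155, .ofNat 0, .ofNat 128, .negSucc 256, .negSucc 361, .ofNat 0, .ofNat 168, .ofNat 177, .ofNat 0, .ofNat 0, .ofNat 664, .ofNat 32865, .ofNat 432574906704314706366985393632968749370986542923776,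 .ofNat 0, .ofNat 116124485434408893443177176551751878927450112, .ofNat 0, .ofNat 0, .ofNat 0, .ofNat 516333904882838770526416278593126781656498176, .ofNat 0, .ofNat 0, .ofNat 0, .ofNat 5181842120911229233116665301667382699648614400, .ofNat 0, .ofNat 0, .ofNat 0, .ofNat 5425482594194017380829984893201369594893172736, .ofNat 0⟩)
    (by decide +kernel)
theorem L01304 : Good (Phi V5.P V5.D (-1) (-1)) ⟨4, 12, 4, 3, 3, 5, 4, 1, 5, 4⟩ :=
  leafX_sound T5.ok_mm T5.Ymm.bz_eq (w := 241) (c := ⟨⟨.negSucc 3563, .negSucc 995, .ofNat 77, .negSucc 443, .negSucc 10, .ofNat 57⟩, ⟨.ofNat 1001, .ofNat 515, .ofNat 138, .ofNat 187, .ofNat 7, .negSucc 1⟩, ⟨.ofNat 2261, .ofNat 810, .negSucc 130, .ofNat 642, .negSucc 92, .ofNat 202⟩, ⟨.negSucc 6384, .negSucc 1054, .ofNat 81, .negSucc 621, .negSucc 4, .ofNat 165⟩, ⟨.negSucc 1346, .ofNat 374, .negSucc 38, .ofNat 287, .ofNat 23, .ofNat 211⟩, .ofNat 477, .ofNat 388,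 .ofNat 0, .ofNat 388, .ofNat 1274, .ofNat 0, .ofNat 128, .negSucc 194, .negSucc 249, .ofNat 0, .ofNat 124, .ofNat 113, .ofNat 0, .ofNat 0, .ofNat 436, .ofNat 10481, .ofNat 0, .ofNat 0, .ofNat 0, .ofNat 0, .ofNat 0, .ofNat 0, .ofNat 189165516590695019493516668556877893872910336, .ofNat 0, .ofNat 0, .ofNat 0, .ofNat 2684628840513222458524265690735067406004125696, .ofNat 0, .ofNat 0, .ofNat 0, .ofNat 2499880146274913922320494741469822975647678464, .ofNat 0⟩)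
    (by decide +kernel)
theorem L01305 : Good (Phi V5.P V5.D (-1) (-1)) ⟨4, 12, 4, 3, 3, 5, 3, 1, 5, 4⟩ :=
  leafX_sound T5.ok_mm T5.Ymm.bz_eq (w := 236) (c := ⟨⟨.negSucc 3685, .negSucc 1194, .ofNat 121, .negSucc 234, .ofNat 123, .ofNat 35⟩, ⟨.ofNat 1069, .ofNat 600, .ofNat 115, .ofNat 82, .negSucc 45, .ofNat 5⟩, ⟨.ofNat 2401, .ofNat 992, .negSucc 164, .ofNat 292, .negSucc 209, .ofNat 156⟩, ⟨.negSucc 6486, .negSucc 1332, .ofNat 132, .negSucc 405, .ofNat 196, .ofNat 123⟩, ⟨.negSucc 1076, .ofNat 476, .negSucc 87, .negSucc 83, .negSucc 5, .ofNat 191⟩, .ofNat 775, .ofNat 1012, .ofNat 0, .ofNat 1012, .ofNat 2861, .ofNat 0, .ofNat 128, .negSucc 185, .negSucc 283, .ofNat 0, .ofNat 106, .ofNat 120, .ofNat 0, .ofNat 0, .ofNat 447, .ofNat 2641, .ofNat 0, .ofNat 0, .ofNat 0, .ofNat 0, .ofNat 0, .ofNat 0, .ofNat 96003861483791002733200271970439280581410816, .ofNat 0, .ofNat 0, .ofNat 0, .ofNat 165761645232933326210469202753685140197605376,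 .ofNat 0, .ofNat 0, .ofNat 0, .ofNat 118404114685712930399476725592638177216036864, .ofNat 0⟩)
    (by decide +kernel)
theorem L01306 : Good (Phi V5.P V5.D (-1) (-1)) ⟨4, 12, 4, 3, 3, 5, 4, 0, 5, 5⟩ :=
  leafX_sound T5.ok_mm T5.Ymm.bz_eq (w := 243) (c := ⟨⟨.negSucc 3614, .negSucc 730, .ofNat 52, .negSucc 231, .negSucc 80, .ofNat 459⟩, ⟨.ofNat 1041, .ofNat 404, .ofNat 140, .ofNat 102, .ofNat 42, .negSucc 173⟩, ⟨.ofNat 2724, .ofNat 648, .negSucc 144, .ofNat 487, .negSucc 90, .negSucc 131⟩, ⟨.negSucc 6390, .negSucc 681, .ofNat 36, .negSucc 313, .negSucc 96, .ofNat 719⟩, ⟨.negSucc 1091, .ofNat 248, .negSucc 57, .ofNat 165, .ofNat 53, .negSucc 45⟩, .ofNat 770, .ofNat 996, .ofNat 0, .ofNat 996, .ofNat 2808, .ofNat 0, .ofNat 128, .negSucc 235, .negSucc 143, .ofNat 0, .ofNat 142, .ofNat 65, .ofNat 0, .ofNat 0, .ofNat 337, .ofNat 44133, .ofNat 342172325411377750341046391745303633406942701944832,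 .ofNat 0, .ofNat 151675321558491941422744508316230762176184320, .ofNat 0, .ofNat 0, .ofNat 0, .ofNat 1960481097616617891769125017241282826656022528, .ofNat 0, .ofNat 0, .ofNat 0, .ofNat 3845857947479291031250378815598667345151655936, .ofNat 0, .ofNat 1045059743061002741697499396680309595935199566233600, .ofNat 0, .ofNat 2232596288427331639079200098556840763883257856, .ofNat 0⟩)
    (by decide +kernel)
theorem L01307 : Good (Phi V5.P V5.D (-1) (-1)) ⟨4, 12, 4, 3, 3, 5, 4, 1, 5, 5⟩ :=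
  leafX_sound T5.ok_mm T5.Ymm.bz_eq (w := 242) (c := ⟨⟨.negSucc 3757, .negSucc 737, .ofNat 68, .negSucc 65, .ofNat 22, .ofNat 362⟩, ⟨.ofNat 1115, .ofNat 405, .ofNat 128, .ofNat 23, .negSucc 7, .negSucc 127⟩, ⟨.ofNat 2750, .ofNat 680, .negSucc 153, .ofNat 229, .negSucc 141, .negSucc 72⟩, ⟨.negSucc 6554, .negSucc 703, .ofNat 62, .negSucc 113, .ofNat 37, .ofNat 586⟩, ⟨.negSucc 966, .ofNat 280, .negSucc 52, .negSucc 6, .ofNat 1, .negSucc 7⟩, .ofNat 477, .ofNat 387, .ofNat 0, .ofNat 387, .ofNat 1277, .ofNat 0, .ofNat 128, .negSucc 141, .negSucc 157, .ofNat 0, .ofNat 99, .ofNat 73, .ofNat 0, .ofNat 0, .ofNat 368, .ofNat 17465, .ofNat 0, .ofNat 0, .ofNat 0, .ofNat 0, .ofNat 0, .ofNat 0, .ofNat 574833760693843679244619273527975028189036544, .ofNat 0, .ofNat 0, .ofNat 0, .ofNat 3157858271218178878117569132113754094758264832, .ofNat 0, .ofNat 0, .ofNat 0, .ofNat 1937168786031325546817369824369743256679874560,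 .ofNat 0⟩)
    (by decide +kernel)
theorem L01308 : Good (Phi V5.P V5.D (-1) (-1)) ⟨4, 12, 4, 3, 3, 5, 3, 1, 5, 5⟩ :=
  leafX_sound T5.ok_mm T5.Ymm.bz_eq (w := 237) (c := ⟨⟨.negSucc 3856, .negSucc 642, .ofNat 78, .ofNat 45, .ofNat 83, .ofNat 443⟩, ⟨.ofNat 1167, .ofNat 362, .ofNat 122, .negSucc 31, .negSucc 29, .negSucc 163⟩, ⟨.ofNat 2773, .ofNat 519, .negSucc 106, .ofNat 12, .negSucc 237, .negSucc 184⟩, ⟨.negSucc 6668, .negSucc 598, .ofNat 85, .ofNat 12, .ofNat 135, .ofNat 703⟩, ⟨.negSucc 841, .ofNat 142, .negSucc 34, .negSucc 160, .negSucc 1, .negSucc 38⟩, .ofNat 480, .ofNat 395, .ofNat 0, .ofNat 395, .ofNat 1292, .ofNat 0, .ofNat 128, .negSucc 193, .negSucc 231, .ofNat 0, .ofNat 134, .ofNat 102, .ofNat 0, .ofNat 0, .ofNat 470, .ofNat 7637, .ofNat 0, .ofNat 0, .ofNat 0, .ofNat 0, .ofNat 0, .ofNat 0, .ofNat 21713557621782571958104875950463295934169088, .ofNat 0, .ofNat 0, .ofNat 0, .ofNat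 237574340991256584046360810056173452575899648, .ofNat 0, .ofNat 0, .ofNat 0, .ofNat 187861324361470834374575813068777226195959808, .ofNat 0⟩)
    (by decide +kernel)
theorem L01309 : Good (Phi V5.P V5.D (-1) (-1)) ⟨4, 12, 4, 3, 4, 12, 5, 0, 5, 4⟩ :=
  leafX_sound T5.ok_mm T5.Ymm.bz_eq (w := 261) (c := ⟨⟨.negSucc 4355, .negSucc 1577, .ofNat 184, .negSucc 326, .ofNat 179, .ofNat 527⟩, ⟨.ofNat 1329, .ofNat 845, .ofNat 90, .ofNat 161, .negSucc 78, .negSucc 205⟩, ⟨.ofNat 3507, .ofNat 1345, .negSucc 251, .ofNat 709, .negSucc 298, .negSucc 242⟩, ⟨.negSucc 7461, .negSucc 1692, .ofNat 237, .negSucc 351, .ofNat 227, .ofNat 776⟩, ⟨.negSucc 675, .ofNat 1020, .negSucc 134, .ofNat 556, .negSucc 219, .negSucc 191⟩, .ofNat 479, .ofNat 392, .ofNat 0, .ofNat 392, .ofNat 1285, .ofNat 0, .ofNat 128, .negSucc 208, .negSucc 269, .ofNat 0, .ofNat 134, .ofNat 125, .ofNat 0, .ofNat 0, .ofNat 434, .ofNat 76702, .ofNat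 31002991878318507161521019984876624199404761561153142784, .ofNat 0, .ofNat 49286416899045405936128684611801430109865109356544, .ofNat 0, .ofNat 14768254308470981734313601684468362451434782094218231808, .ofNat 0, .ofNat 248923669613650781085385899403525741635529607217152, .ofNat 0, .ofNat 28076999528269383197511734163149384630031675367482195968, .ofNat 0, .ofNat 836591745793487700016812731961931343422797247414272, .ofNat 0, .ofNat 55442963421649892722674248062379885789481718390552788992, .ofNat 0, .ofNat 717606743791768066725210067766083874480140150898688, .ofNat 0⟩)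
    (by decide +kernel)

end Crest.Agent.R097C5.N5mm
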