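import Crest.Agent.R097.KP7
import Crest.Agent.R097.T5Ymm

/-!
# Row 97, box cover in dimension n = 5 (generated)
-/

set_option autoImplicit false
set_option Elab.async false
set_option maxHeartbeats 0
set_option maxRecDepth 100000

open Crest.Agent.R097 Crest.Agent.R097.KA


namespace Crest.Agent.R097C5.N5mm

theorem L01310 : Good (Phi V5.P V5.D (-1) (-1)) ⟨4, 12, 4, 3, 4, 13, 5, 0, 5, 4⟩ :=
  leafX_sound T5.ok_mm T5.Ymm.bz_eq (w := 261) (c := ⟨⟨.negSucc 4980, .negSucc 1432, .ofNat 300, .ofNat 111, .ofNat 163, .ofNat 894⟩, ⟨.ofNat 1621, .ofNat 798, .ofNat 35, .negSucc 26, .negSucc 71, .negSucc 371⟩, ⟨.ofNat 4571, .ofNat 1292, .negSucc 330, .ofNat 80, .negSucc 340, .negSucc 658⟩, ⟨.negSucc 8214, .negSucc 1473, .ofNat 406, .ofNat 229, .ofNat 200, .ofNat 1248⟩, ⟨.ofNat 118, .ofNat 962, .negSucc 242, .ofNat 143, .negSucc 190, .negSucc 564⟩, .ofNat 563, .ofNat 553, .ofNat 0, .ofNat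 553, .ofNat 1710, .ofNat 0, .ofNat 128, .negSucc 330, .negSucc 396, .ofNat 0, .ofNat 217, .ofNat 175, .ofNat 0, .ofNat 0, .ofNat 704, .ofNat 63901, .ofNat 19733392278210088240561188588594646474795534968822956032, .ofNat 0, .ofNat 46999615393772673924264799713202958527999684640768, .ofNat 0, .ofNat 14287162177199129385322642887139420608319917246598086656, .ofNat 0, .ofNat 203467077312189177296579697532594172719682690220032, .ofNat 0, .ofNat 4234238479520767575386079867831955824789124059198652416, .ofNat 0, .ofNat 2511571546348960411479244684082934880297420102565888, .ofNat 0, .ofNat 0, .ofNat 0, .ofNat 1725271431761225269868296671099917081186134975840256, .ofNat 0⟩)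
    (by decide +kernel)
theorem L01311 : Good (Phi V5.P V5.D (-1) (-1)) ⟨4, 12, 4, 3, 3, 6, 5, 1, 5, 4⟩ :=
  leafX_sound T5.ok_mm T5.Ymm.bz_eq (w := 246) (c := ⟨⟨.negSucc 4551, .negSucc 1243, .ofNat 210, .ofNat 16, .ofNat 31, .ofNat 656⟩, ⟨.ofNat 1416, .ofNat 684, .ofNat 79, .ofNat 31, .negSucc 14, .negSucc 263⟩, ⟨.ofNat 3604, .ofNat 1086, .negSucc 242, .ofNat 547, .negSucc 160, .negSucc 395⟩, ⟨.negSucc 7729, .negSucc 1281, .ofNat 282, .ofNat 165, .ofNat 29, .ofNat 947⟩, ⟨.negSucc 540, .ofNat 730, .negSucc 156, .ofNat 435, .negSucc 68, .negSucc 330⟩, .ofNat 477, .ofNat 388, .ofNat 0, .ofNat 388, .ofNat 1281, .ofNat 0, .ofNat 128, .negSucc 308, .negSucc 462, .ofNat 0, .ofNat 210, .ofNat 210, .ofNat 0, .ofNat 0, .ofNat 786, .ofNat 15951, .ofNat 0, .ofNat 0, .ofNat 853200885572871090500617627566699183691792384, .ofNat 0, .ofNat 0, .ofNat 0, .ofNat 3812188705921996846242466916688106992324050944,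 .ofNat 0, .ofNat 0, .ofNat 0, .ofNat 70539030798746830344159896402017979668161888256, .ofNat 0, .ofNat 0, .ofNat 0, .ofNat 86503214866066205053642543259816273822112284672, .ofNat 0⟩)
    (by decide +kernel)
theorem L01312 : Good (Phi V5.P V5.D (-1) (-1)) ⟨4, 12, 4, 3, 3, 6, 4, 1, 5, 4⟩ :=
  leafX_sound T5.ok_mm T5.Ymm.bz_eq (w := 241) (c := ⟨⟨.negSucc 4406, .negSucc 1231, .ofNat 154, .ofNat 214, .ofNat 223, .ofNat 441⟩, ⟨.ofNat 1360, .ofNat 648, .ofNat 105, .negSucc 61, .negSucc 103, .negSucc 167⟩, ⟨.ofNat 3384, .ofNat 1064, .negSucc 196, .ofNat 291, .negSucc 402, .negSucc 255⟩, ⟨.negSucc 7524, .negSucc 1345, .ofNat 196, .ofNat 407, .ofNat 270, .ofNat 689⟩, ⟨.negSucc 658, .ofNat 530, .negSucc 123, .ofNat 179, .negSucc 269, .negSucc 38⟩, .ofNat 639, .ofNat 711, .ofNat 0, .ofNat 711, .ofNat 2097, .ofNat 0, .ofNat 128, .negSucc 289, .negSucc 458, .ofNat 0, .ofNat 177, .ofNat 200,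 .ofNat 0, .ofNat 0, .ofNat 734, .ofNat 5862, .ofNat 0, .ofNat 0, .ofNat 51274881318444404222996054177938716091219968, .ofNat 0, .ofNat 0, .ofNat 0, .ofNat 1321241363050777704552990241114581941018951680, .ofNat 0, .ofNat 0, .ofNat 0, .ofNat 5690666899972333442535538020578554771274727424, .ofNat 0, .ofNat 0, .ofNat 0, .ofNat 4552476324454051869179978961281634535942914048, .ofNat 0⟩)
    (by decide +kernel)
theorem L01313 : Good (Phi V5.P V5.D (-1) (-1)) ⟨4, 12, 4, 3, 3, 6, 3, 1, 5, 4⟩ :=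
  leafX_sound T5.ok_mm T5.Ymm.bz_eq (w := 236) (c := ⟨⟨.negSucc 4299, .negSucc 1197, .ofNat 161, .ofNat 373, .ofNat 348, .ofNat 426⟩, ⟨.ofNat 1314, .ofNat 608, .ofNat 103, .negSucc 135, .negSucc 157, .negSucc 159⟩, ⟨.ofNat 3116, .ofNat 1016, .negSucc 142, .ofNat 3, .negSucc 553, .negSucc 240⟩, ⟨.negSucc 7391, .negSucc 1341, .ofNat 207, .ofNat 597, .ofNat 445, .ofNat 670⟩, ⟨.negSucc 836, .ofNat 464, .negSucc 78, .negSucc 24, .negSucc 319, .negSucc 19⟩, .ofNat 637, .ofNat 703, .ofNat 0, .ofNat 703, .ofNat 2060, .ofNat 0, .ofNat 128, .negSucc 160, .negSucc 355, .ofNat 0, .ofNat 99, .ofNat 152, .ofNat 0, .ofNat 0, .ofNat 517, .ofNat 2389, .ofNat 0, .ofNat 0, .ofNat 1829860029688731160010691990718230925672448, .ofNat 0, .ofNat 0, .ofNat 0, .ofNat 25861957074620401140879860147577755556380672, .ofNat 0, .ofNat 0, .ofNat 0, .ofNat 122674979372521168773134391589093132285771776, .ofNat 0,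 .ofNat 0, .ofNat 0, .ofNat 135863842255015143554420164826445938316804096, .ofNat 0⟩)
    (by decide +kernel)
theorem L01314 : Good (Phi V5.P V5.D (-1) (-1)) ⟨4, 12, 4, 3, 4, 12, 4, 0, 5, 5⟩ :=
  leafX_sound T5.ok_mm T5.Ymm.bz_eq (w := 258) (c := ⟨⟨.negSucc 4145, .negSucc 724, .ofNat 114, .ofNat 124, .ofNat 135, .ofNat 618⟩, ⟨.ofNat 1288, .ofNat 409, .ofNat 109, .negSucc 42, .negSucc 65, .negSucc 243⟩, ⟨.ofNat 3647, .ofNat 694, .negSucc 206, .ofNat 127, .negSucc 414, .negSucc 357⟩, ⟨.negSucc 7063, .negSucc 658, .ofNat 130, .ofNat 209, .ofNat 159, .ofNat 906⟩, ⟨.negSucc 626, .ofNat 337, .negSucc 85, .ofNat 36, .negSucc 154, .negSucc 279⟩, .ofNat 477, .ofNat 389, .ofNat 0, .ofNat 389, .ofNat 1280, .ofNat 0, .ofNat 128, .negSucc 244, .negSucc 279, .ofNat 0, .ofNat 176, .ofNat 131, .ofNat 0, .ofNat 0, .ofNat 639, .ofNat 77298, .ofNat 1491982870551489357173153390095068774350379971709501440,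 .ofNat 0, .ofNat 4511128266261386607097343701280476919103915819008, .ofNat 0, .ofNat 1060621601072412221084988397538184158464560050372345856, .ofNat 0, .ofNat 12829190110973921086383865549325630948212670988288, .ofNat 0, .ofNat 2041187700962754990765290869786405156829932295047610368, .ofNat 0, .ofNat 124913254047614428446143904610466038884929646886912, .ofNat 0, .ofNat 5289864724177935111694920419925773986261884856080269312, .ofNat 0, .ofNat 100733674579863321130544375796153249262508932333568, .ofNat 0⟩)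
    (by decide +kernel)
theorem L01315 : Good (Phi V5.P V5.D (-1) (-1)) ⟨4, 12, 4, 3, 4, 13, 4, 0, 5, 5⟩ :=
  leafX_sound T5.ok_mm T5.Ymm.bz_eq (w := 257) (c := ⟨⟨.negSucc 4154, .negSucc 634, .ofNat 137, .ofNat 253, .ofNat 159, .ofNat 735⟩, ⟨.ofNat 1310, .ofNat 371, .ofNat 92, .negSucc 92, .negSucc 74, .negSucc 299⟩, ⟨.ofNat 3967, .ofNat 620, .negSucc 196, .negSucc 113, .negSucc 476, .negSucc 588⟩, ⟨.negSucc 7017, .negSucc 550, .ofNat 167, .ofNat 402, .ofNat 189, .ofNat 1043⟩, ⟨.negSucc 468, .ofNat 279, .negSucc 92, .negSucc 20, .negSucc 177, .negSucc 440⟩, .ofNat 477, .ofNat 389, .ofNat 0, .ofNat 389, .ofNat 1281, .ofNat 0, .ofNat 128, .negSucc 238, .negSucc 220, .ofNat 0, .ofNat 182, .ofNat 100, .ofNat 0, .ofNat 0, .ofNat 507, .ofNat 46647, .ofNat 0, .ofNat 0, .ofNat 0, .ofNat 0, .ofNat 0, .ofNat 0, .ofNat 10900323525788788463276021070630912569830893682688, .ofNat 0, .ofNat 1246322895390295880388649492514914126523101931418681344,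 .ofNat 0, .ofNat 118742393722402504933999128835579627482756920901632, .ofNat 0, .ofNat 1318643324694603310204991746239963046367881645663453184, .ofNat 0, .ofNat 64019515164371102603872615280575759785395836944384, .ofNat 0⟩)
    (by decide +kernel)
theorem L01316 : Good (Phi V5.P V5.D (-1) (-1)) ⟨4, 12, 4, 3, 3, 6, 4, 1, 5, 5⟩ :=
  leafX_sound T5.ok_mm T5.Ymm.bz_eq (w := 242) (c := ⟨⟨.negSucc 4112, .negSucc 589, .ofNat 124, .ofNat 470, .ofNat 112, .ofNat 640⟩, ⟨.ofNat 1271, .ofNat 330, .ofNat 101, .negSucc 176, .negSucc 47, .negSucc 252⟩, ⟨.ofNat 3390, .ofNat 527, .negSucc 180, .negSucc 122, .negSucc 333, .negSucc 455⟩, ⟨.negSucc 7043, .negSucc 523, .ofNat 146, .ofNat 734, .ofNat 148, .ofNat 942⟩, ⟨.negSucc 742, .ofNat 151, .negSucc 69, .negSucc 58, .negSucc 96, .negSucc 270⟩, .ofNat 638, .ofNat 710, .ofNat 0, .ofNat 710, .ofNat 2107, .ofNat 0, .ofNat 128, .negSucc 319, .negSucc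 344, .ofNat 0, .ofNat 211, .ofNat 152, .ofNat 0, .ofNat 0, .ofNat 757, .ofNat 21110, .ofNat 0, .ofNat 0, .ofNat 95966562759824251533029495847164884931313664, .ofNat 0, .ofNat 0, .ofNat 0, .ofNat 1106583005696022028209377490857083544956567552, .ofNat 0, .ofNat 0, .ofNat 0, .ofNat 14841513003638534243276007097506437551947251712, .ofNat 0, .ofNat 0, .ofNat 0, .ofNat 6838819429390295581989379245571933388377423872, .ofNat 0⟩)
    (by decide +kernel)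
theorem L01317 : Good (Phi V5.P V5.D (-1) (-1)) ⟨4, 12, 4, 3, 3, 6, 3, 1, 5, 5⟩ :=
  leafX_sound T5.ok_mm T5.Ymm.bz_eq (w := 237) (c := ⟨⟨.negSucc 4055, .negSucc 566, .ofNat 112, .ofNat 608, .ofNat 277, .ofNat 596⟩, ⟨.ofNat 1250, .ofNat 303, .ofNat 107, .negSucc 240, .negSucc 117, .negSucc 229⟩, ⟨.ofNat 3158, .ofNat 476, .negSucc 141, .negSucc 348, .negSucc 546, .negSucc 432⟩, ⟨.negSucc 6961, .negSucc 527, .ofNat 129, .ofNat 895, .ofNat 377, .ofNat 902⟩, ⟨.negSucc 799, .ofNat 152, .negSucc 56, .negSucc 243, .negSucc 208, .negSucc 192⟩, .ofNat 477, .ofNat 389, .ofNat 0, .ofNat 389, .ofNat 1277, .ofNat 0, .ofNat 128, .negSucc 197, .negSucc 250, .ofNat 0, .ofNat 146, .ofNat 109, .ofNat 0, .ofNat 0, .ofNat 479, .ofNat 5955, .ofNat 0, .ofNat 0, .ofNat 2503633147819218545139875339243905697710080, .ofNat 0, .ofNat 0, .ofNat 0, .ofNat 24390785637020950392961280993365418334748672, .ofNat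 0, .ofNat 0, .ofNat 0, .ofNat 256160686605070717984059973776920458205069312, .ofNat 0, .ofNat 0, .ofNat 0, .ofNat 111093640108499221456360251711194271515148288, .ofNat 0⟩)
    (by decide +kernel)
theorem L01318 : Good (Phi V5.P V5.D (-1) (-1)) ⟨4, 12, 4, 3, 4, 14, 3, 0, 4, 2⟩ :=
  leafX_sound T5.ok_mm T5.Ymm.bz_eq (w := 245) (c := ⟨⟨.negSucc 4756, .negSucc 549, .ofNat 141, .ofNat 365, .ofNat 455, .ofNat 1459⟩, ⟨.ofNat 1569, .ofNat 337, .ofNat 88, .negSucc 123, .negSucc 210, .negSucc 585⟩, ⟨.ofNat 4457, .ofNat 484, .negSucc 126, .negSucc 545, .negSucc 918, .negSucc 1142⟩, ⟨.negSucc 7825, .negSucc 460, .ofNat 174, .ofNat 630, .ofNat 559, .ofNat 2092⟩, ⟨.ofNat 56, .ofNat 184, .negSucc 138, .ofNat 91, .negSucc 515, .negSucc 808⟩, .ofNat 562, .ofNat 553, .ofNat 0, .ofNat 553, .ofNat 1714, .ofNat 0, .ofNat 128, .negSucc 232, .negSucc 232, .ofNat 0, .ofNat 168, .ofNat 95, .ofNat 0, .ofNat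 0, .ofNat 489, .ofNat 4371, .ofNat 0, .ofNat 0, .ofNat 1286206761906981714879335621728576942613987328, .ofNat 0, .ofNat 0, .ofNat 0, .ofNat 0, .ofNat 0, .ofNat 2210556262596997764901575871505759478932006884081664, .ofNat 0, .ofNat 151840943552701594370425866346711634035643252736, .ofNat 0, .ofNat 0, .ofNat 0, .ofNat 83170181892324077010199409527313140444588670976, .ofNat 0⟩)
    (by decide +kernel)
theorem L01319 : Good (Phi V5.P V5.D (-1) (-1)) ⟨4, 12, 4, 3, 4, 14, 3, 1, 4, 2⟩ :=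
  leafX_sound T5.ok_mm T5.Ymm.bz_eq (w := 245) (c := ⟨⟨.negSucc 4133, .negSucc 392, .ofNat 115, .ofNat 347, .ofNat 425, .ofNat 1184⟩, ⟨.ofNat 1296, .ofNat 214, .ofNat 94, .negSucc 123, .negSucc 184, .negSucc 455⟩, ⟨.ofNat 3340, .ofNat 356, .negSucc 92, .negSucc 391, .negSucc 651, .negSucc 934⟩, ⟨.negSucc 7040, .negSucc 360, .ofNat 136, .ofNat 585, .ofNat 563, .ofNat 1769⟩, ⟨.negSucc 619, .negSucc 12, .negSucc 90, .ofNat 43, .negSucc 422, .negSucc 482⟩, .ofNat 478, .ofNat 390, .ofNat 0, .ofNat 390, .ofNat 1282, .ofNat 0, .ofNat 128, .negSucc 159, .negSucc 230, .ofNat 0, .ofNat 124, .ofNat 93, .ofNat 0, .ofNat 0, .ofNat 410, .ofNat 2499, .ofNat 0, .ofNat 0, .ofNat 767415880142641915849593298584199304319074304, .ofNat 0, .ofNat 0, .ofNat 0, .ofNat 5149723432648307405700772317451544121101516800, .ofNat 0, .ofNat 0, .ofNat 0, .ofNat 71762034955541024173908458300082443236077993984, .ofNat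 0, .ofNat 0, .ofNat 0, .ofNat 39801124464508340192980020253357358522677854208, .ofNat 0⟩)
    (by decide +kernel)
theorem L01320 : Good (Phi V5.P V5.D (-1) (-1)) ⟨4, 12, 4, 3, 4, 15, 2, 0, 4, 2⟩ :=
  leafX_sound T5.ok_mm T5.Ymm.bz_eq (w := 240) (c := ⟨⟨.negSucc 3967, .negSucc 257, .ofNat 102, .ofNat 248, .ofNat 675, .ofNat 1018⟩, ⟨.ofNat 1285, .ofNat 155, .ofNat 89, .negSucc 45, .negSucc 313, .negSucc 394⟩, ⟨.ofNat 3122, .ofNat 204, .negSucc 47, .negSucc 564, .negSucc 857, .negSucc 684⟩, ⟨.negSucc 6600, .negSucc 188, .ofNat 137, .ofNat 586, .ofNat 796, .ofNat 1503⟩, ⟨.negSucc 134, .negSucc 178, .negSucc 16, .ofNat 510, .negSucc 919, .negSucc 467⟩, .ofNat 476, .ofNat 386, .ofNat 0, .ofNat 386, .ofNat 1271, .ofNat 0, .ofNat 128, .negSucc 317, .negSucc 147, .ofNat 0, .ofNat 262, .ofNat 49, .ofNat 0, .ofNat 0, .ofNat 352, .ofNat 888, .ofNat 0, .ofNat 0, .ofNat 26231734200323283944849523433592877727350784,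 .ofNat 0, .ofNat 0, .ofNat 0, .ofNat 0, .ofNat 0, .ofNat 0, .ofNat 0, .ofNat 4713191411636768914113070618080158875836743680, .ofNat 0, .ofNat 0, .ofNat 0, .ofNat 2358133252193645865276149408257480918195765248, .ofNat 0⟩)
    (by decide +kernel)
theorem L01321 : Good (Phi V5.P V5.D (-1) (-1)) ⟨4, 12, 4, 3, 2, 2, 2, 1, 4, 2⟩ :=
  leafX_sound T5.ok_mm T5.Ymm.bz_eq (w := 212) (c := ⟨⟨.negSucc 3780, .negSucc 706, .ofNat 43, .negSucc 16, .ofNat 349, .ofNat 506⟩, ⟨.ofNat 1166, .ofNat 372, .ofNat 128, .negSucc 50, .negSucc 117, .negSucc 168⟩, ⟨.ofNat 2776, .ofNat 597, .negSucc 72, .negSucc 354, .negSucc 363, .negSucc 270⟩, ⟨.negSucc 6482, .negSucc 737, .ofNat 32, .negSucc 246, .ofNat 606, .ofNat 884⟩, ⟨.negSucc 664, .ofNat 121, .negSucc 26, .negSucc 614, .ofNat 118, .ofNat 156⟩, .ofNat 480, .ofNat 394, .ofNat 0, .ofNat 394, .ofNat 1287, .ofNat 0, .ofNat 128, .negSucc 137, .negSucc 280,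 .ofNat 0, .ofNat 97, .ofNat 115, .ofNat 0, .ofNat 0, .ofNat 470, .ofNat 736, .ofNat 0, .ofNat 0, .ofNat 90709463209662554895963553177534464, .ofNat 0, .ofNat 0, .ofNat 0, .ofNat 426547247153814538007723332700471296, .ofNat 0, .ofNat 0, .ofNat 0, .ofNat 7198553947319790962505459436240240640, .ofNat 0, .ofNat 0, .ofNat 0, .ofNat 0, .ofNat 0⟩)
    (by decide +kernel)
theorem L01322 : Good (Phi V5.P V5.D (-1) (-1)) ⟨4, 12, 4, 3, 3, 6, 2, 1, 5, 4⟩ :=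
  leafX_sound T5.ok_mm T5.Ymm.bz_eq (w := 232) (c := ⟨⟨.negSucc 4191, .negSucc 962, .ofNat 277, .ofNat 777, .ofNat 739, .ofNat 362⟩, ⟨.ofNat 1285, .ofNat 425, .ofNat 47, .negSucc 310, .negSucc 286, .negSucc 133⟩, ⟨.ofNat 2926, .ofNat 759, .negSucc 256, .negSucc 521, .negSucc 818, .negSucc 287⟩, ⟨.negSucc 7263, .negSucc 1200, .ofNat 382, .ofNat 1150, .ofNat 1114, .ofNat 592⟩, ⟨.negSucc 1083, .ofNat 61, .negSucc 56, .negSucc 300, .negSucc 220, .ofNat 54⟩, .ofNat 633, .ofNat 698, .ofNat 0, .ofNat 698, .ofNat 2074, .ofNat 0, .ofNat 128, .negSucc 210, .negSucc 491, .ofNat 0, .ofNat 128, .ofNat 196, .ofNat 0, .ofNat 0, .ofNat 624, .ofNat 1276, .ofNat 0, .ofNat 0, .ofNat 41151940937109737029359511656149022670848, .ofNat 0, .ofNat 0, .ofNat 0, .ofNat 2776230494515912518402648150860484371808256, .ofNat 0, .ofNat 0, .ofNat 0, .ofNat 11419120557792427993764135832938271419138048, .ofNat 0,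 .ofNat 0, .ofNat 0, .ofNat 9010695596786520810203793868834156054577152, .ofNat 0⟩)
    (by decide +kernel)
theorem L01323 : Good (Phi V5.P V5.D (-1) (-1)) ⟨4, 12, 4, 3, 3, 7, 2, 1, 5, 4⟩ :=
  leafX_sound T5.ok_mm T5.Ymm.bz_eq (w := 232) (c := ⟨⟨.negSucc 3519, .negSucc 265, .ofNat 114, .ofNat 606, .ofNat 921, .ofNat 380⟩, ⟨.ofNat 1041, .ofNat 110, .ofNat 94, .negSucc 182, .negSucc 371, .negSucc 137⟩, ⟨.ofNat 2452, .ofNat 126, .negSucc 34, .negSucc 669, .negSucc 858, .negSucc 283⟩, ⟨.negSucc 6221, .negSucc 251, .ofNat 131, .ofNat 1124, .ofNat 1336, .ofNat 595⟩, ⟨.negSucc 1252, .negSucc 85, .negSucc 54, .ofNat 367, .negSucc 500, .negSucc 53⟩, .ofNat 466, .ofNat 360, .ofNat 0, .ofNat 360, .ofNat 1155, .ofNat 0, .ofNat 128, .negSucc 218, .negSucc 318, .ofNat 0, .ofNat 175, .ofNat 119, .ofNat 0, .ofNat 0, .ofNat 424, .ofNat 1761, .ofNat 0, .ofNat 0, .ofNat 18314493387540425458425431759268572299264,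 .ofNat 0, .ofNat 0, .ofNat 0, .ofNat 658914464330530012292100517180232087633920, .ofNat 0, .ofNat 0, .ofNat 0, .ofNat 2996263541357510149695195304954042322518016, .ofNat 0, .ofNat 0, .ofNat 0, .ofNat 9185203404519028120037579779380187211235328, .ofNat 0⟩)
    (by decide +kernel)
theorem L01324 : Good (Phi V5.P V5.D (-1) (-1)) ⟨4, 12, 4, 3, 2, 3, 2, 1, 5, 5⟩ :=
  leafX_sound T5.ok_mm T5.Ymm.bz_eq (w := 218) (c := ⟨⟨.negSucc 3800, .negSucc 301, .ofNat 108, .ofNat 1414, .ofNat 701, .ofNat 402⟩, ⟨.ofNat 1165, .ofNat 145, .ofNat 81, .negSucc 532, .negSucc 264, .negSucc 140⟩, ⟨.ofNat 2649, .ofNat 215, .negSucc 90, .negSucc 1115, .negSucc 795, .negSucc 310⟩, ⟨.negSucc 6641, .negSucc 278, .ofNat 138, .ofNat 2217, .ofNat 1088, .ofNat 667⟩, ⟨.negSucc 1171, .negSucc 33, .ofNat 27, .negSucc 284, .negSucc 123, .ofNat 32⟩, .ofNat 466, .ofNat 360, .ofNat 0, .ofNat 360, .ofNat 1155, .ofNat 0,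 .ofNat 128, .negSucc 206, .negSucc 218, .ofNat 0, .ofNat 169, .ofNat 91, .ofNat 0, .ofNat 0, .ofNat 370, .ofNat 1291, .ofNat 0, .ofNat 0, .ofNat 1527213076359445551593422367701860352, .ofNat 0, .ofNat 0, .ofNat 0, .ofNat 43140369860117298739548711322654867456, .ofNat 0, .ofNat 0, .ofNat 0, .ofNat 87855464342248748003849756198517604352, .ofNat 0, .ofNat 0, .ofNat 0, .ofNat 155896953188096084702297613466368737280, .ofNat 0⟩)
    (by decide +kernel)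
theorem L01325 : Good (Phi V5.P V5.D (-1) (-1)) ⟨4, 12, 4, 3, 2, 2, 2, 0, 4, 3⟩ :=
  leafX_sound T5.ok_mm T5.Ymm.bz_eq (w := 213) (c := ⟨⟨.negSucc 3634, .negSucc 392, .ofNat 41, .ofNat 241, .ofNat 231, .ofNat 632⟩, ⟨.ofNat 1127, .ofNat 237, .ofNat 115, .negSucc 136, .negSucc 78, .negSucc 220⟩, ⟨.ofNat 3296, .ofNat 357, .negSucc 70, .negSucc 529, .negSucc 652, .negSucc 289⟩, ⟨.negSucc 6198, .negSucc 294, .ofNat 31, .ofNat 180, .ofNat 390, .ofNat 1037⟩, ⟨.negSucc 571, .ofNat 31, .negSucc 25, .negSucc 593, .ofNat 43, .ofNat 6⟩, .ofNat 639, .ofNat 709, .ofNat 0, .ofNat 709, .ofNat 2081, .ofNat 0, .ofNat 128, .negSucc 148, .negSucc 162, .ofNat 0, .ofNat 100, .ofNat 73, .ofNat 0, .ofNat 0, .ofNat 529, .ofNat 3094, .ofNat 3088171904548213796897468219211017460121600, .ofNat 0, .ofNat 87210377062603648099539198939234304, .ofNat 0, .ofNat 0, .ofNat 0, .ofNat 15065655786840752754237033896447311872,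 .ofNat 0, .ofNat 14845350565743909275735894851652749273071616, .ofNat 0, .ofNat 23971089654378074354945366804211433472, .ofNat 0, .ofNat 0, .ofNat 0, .ofNat 23282375926698100336732856494940225536, .ofNat 0⟩)
    (by decide +kernel)
theorem L01326 : Good (Phi V5.P V5.D (-1) (-1)) ⟨5, 24, 4, 3, 2, 3, 2, 0, 4, 3⟩ :=
  leafX_sound T5.ok_mm T5.Ymm.bz_eq (w := 216) (c := ⟨⟨.negSucc 3536, .negSucc 123, .ofNat 70, .ofNat 1010, .ofNat 402, .ofNat 712⟩, ⟨.ofNat 1064, .ofNat 66, .ofNat 99, .negSucc 358, .negSucc 148, .negSucc 262⟩, ⟨.ofNat 3288, .ofNat 119, .negSucc 170, .negSucc 1086, .negSucc 1004, .negSucc 488⟩, ⟨.negSucc 6202, .negSucc 76, .ofNat 81, .ofNat 1676, .ofNat 604, .ofNat 1116⟩, ⟨.negSucc 1158, .ofNat 31, .ofNat 19, .ofNat 106, .negSucc 145, .negSucc 102⟩, .ofNat 624, .ofNat 679, .ofNat 0, .ofNat 679, .ofNat 2041, .ofNat 0, .ofNat 128, .negSucc 213, .negSucc 122, .ofNat 0, .ofNat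 167, .ofNat 52, .ofNat 0, .ofNat 0, .ofNat 456, .ofNat 2116, .ofNat 5659069174611053776038439121161706423713792, .ofNat 0, .ofNat 8964762354133384015435408336748544, .ofNat 0, .ofNat 0, .ofNat 0, .ofNat 0, .ofNat 0, .ofNat 0, .ofNat 0, .ofNat 0, .ofNat 0, .ofNat 805610843517025974325646857103261847942856704, .ofNat 0, .ofNat 1004034050837668065863133019028586496, .ofNat 0⟩)
    (by decide +kernel)
theorem L01327 : Good (Phi V5.P V5.D (-1) (-1)) ⟨5, 25, 4, 3, 2, 3, 2, 0, 4, 3⟩ :=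
  leafX_sound T5.ok_mm T5.Ymm.bz_eq (w := 217) (c := ⟨⟨.negSucc 3620, .ofNat 111, .ofNat 18, .ofNat 1045, .ofNat 383, .ofNat 698⟩, ⟨.ofNat 1073, .negSucc 75, .ofNat 178, .negSucc 391, .negSucc 148, .negSucc 260⟩, ⟨.ofNat 3847, .ofNat 445, .negSucc 523, .negSucc 1066, .negSucc 1066, .negSucc 567⟩, ⟨.negSucc 6373, .ofNat 182, .ofNat 149, .ofNat 1689, .ofNat 594, .ofNat 1129⟩, ⟨.negSucc 1615, .negSucc 284, .ofNat 423, .ofNat 41, .negSucc 54, .ofNat 22⟩, .ofNat 730, .ofNat 878, .ofNat 0, .ofNat 878, .ofNat 2362, .ofNat 0, .ofNat 128, .negSucc 244, .negSucc 157, .ofNat 0, .ofNat 187, .ofNat 70, .ofNat 0, .ofNat 0, .ofNat 605, .ofNat 2804, .ofNat 16124772554436874908752660329272904857419776, .ofNat 0, .ofNat 207090055677252101769303438278000640, .ofNat 0, .ofNat 0, .ofNat 0, .ofNat 7684423002330114350278083262109712384, .ofNat 0, .ofNat 0, .ofNat 0, .ofNat 25745049526574584561067053125573017600,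 .ofNat 0, .ofNat 3312214798186549031151881744143931453967695872, .ofNat 0, .ofNat 18713440089365815235684726992478928896, .ofNat 0⟩)
    (by decide +kernel)
theorem L01328 : Good (Phi V5.P V5.D (-1) (-1)) ⟨4, 12, 4, 3, 2, 2, 2, 1, 4, 3⟩ :=
  leafX_sound T5.ok_mm T5.Ymm.bz_eq (w := 213) (c := ⟨⟨.negSucc 3467, .negSucc 348, .ofNat 38, .ofNat 336, .ofNat 353, .ofNat 636⟩, ⟨.ofNat 1080, .ofNat 217, .ofNat 107, .negSucc 173, .negSucc 110, .negSucc 224⟩, ⟨.ofNat 2852, .ofNat 366, .negSucc 93, .negSucc 764, .negSucc 551, .negSucc 437⟩, ⟨.negSucc 5924, .negSucc 219, .ofNat 21, .ofNat 341, .ofNat 632, .ofNat 1046⟩, ⟨.negSucc 597, .ofNat 84, .negSucc 33, .negSucc 547, .ofNat 159, .ofNat 48⟩, .ofNat 727, .ofNat 898, .ofNat 0, .ofNat 898, .ofNat 2546, .ofNat 0, .ofNat 128, .negSucc 187, .negSucc 148, .ofNat 0, .ofNat 124, .ofNat 63, .ofNat 0, .ofNat 0, .ofNat 427, .ofNat 1944, .ofNat 0, .ofNat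 0, .ofNat 0, .ofNat 0, .ofNat 0, .ofNat 0, .ofNat 11985884424123173483724891764593524736, .ofNat 0, .ofNat 0, .ofNat 0, .ofNat 36481703670279699742137429403851816960, .ofNat 0, .ofNat 0, .ofNat 0, .ofNat 10841656635564693142347826506231709696, .ofNat 0⟩)
    (by decide +kernel)
theorem L01329 : Good (Phi V5.P V5.D (-1) (-1)) ⟨4, 12, 4, 3, 3, 6, 2, 1, 4, 3⟩ :=
  leafX_sound T5.ok_mm T5.Ymm.bz_eq (w := 227) (c := ⟨⟨.negSucc 3149, .negSucc 124, .ofNat 18, .ofNat 574, .ofNat 447, .ofNat 672⟩, ⟨.ofNat 922, .ofNat 72, .ofNat 115, .negSucc 230, .negSucc 148, .negSucc 225⟩, ⟨.ofNat 2246, .ofNat 100, .negSucc 54, .negSucc 506, .negSucc 732, .negSucc 541⟩, ⟨.negSucc 5609, .ofNat 2, .negSucc 16, .ofNat 853, .ofNat 768, .ofNat 1143⟩, ⟨.negSucc 1244, .negSucc 99, .negSucc 13, .negSucc 214, .ofNat 134, .ofNat 134⟩, .ofNat 780, .ofNat 1019, .ofNat 0, .ofNat 1019, .ofNat 2857, .ofNat 0, .ofNat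 128, .negSucc 222, .negSucc 94, .ofNat 0, .ofNat 153, .ofNat 39, .ofNat 0, .ofNat 0, .ofNat 290, .ofNat 1582, .ofNat 0, .ofNat 0, .ofNat 0, .ofNat 0, .ofNat 0, .ofNat 0, .ofNat 161202573742860698794641175289063725334528, .ofNat 0, .ofNat 0, .ofNat 0, .ofNat 406055364208671198960131747351951407316992, .ofNat 0, .ofNat 0, .ofNat 0, .ofNat 32878224864760567851827416461498942226432, .ofNat 0⟩)
    (by decide +kernel)
theorem L01330 : Good (Phi V5.P V5.D (-1) (-1)) ⟨4, 12, 4, 3, 3, 7, 2, 1, 4, 3⟩ :=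
  leafX_sound T5.ok_mm T5.Ymm.bz_eq (w := 226) (c := ⟨⟨.negSucc 2402, .negSucc 67, .ofNat 32, .ofNat 401, .ofNat 474, .ofNat 413⟩, ⟨.ofNat 630, .ofNat 21, .ofNat 97, .negSucc 102, .negSucc 160, .negSucc 113⟩, ⟨.ofNat 1602, .negSucc 2, .negSucc 5, .negSucc 450, .negSucc 616, .negSucc 398⟩, ⟨.negSucc 4549, .ofNat 8, .ofNat 32, .ofNat 817, .ofNat 810, .ofNat 794⟩, ⟨.negSucc 1715, .negSucc 112, .ofNat 76, .ofNat 439, .ofNat 87, .ofNat 318⟩, .ofNat 479, .ofNat 392, .ofNat 0, .ofNat 392, .ofNat 1279, .ofNat 0, .ofNat 128, .negSucc 156, .negSucc 59, .ofNat 0, .ofNat 151, .ofNat 18, .ofNat 0, .ofNat 0, .ofNat 282, .ofNat 1174, .ofNat 0, .ofNat 0, .ofNat 0, .ofNat 0, .ofNat 0, .ofNat 0, .ofNat 0, .ofNat 0, .ofNat 0, .ofNat 0, .ofNat 0, .ofNat 0, .ofNat 0, .ofNat 0, .ofNat 17254985156947053394806722177640184152064, .ofNat 0⟩)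
    (by decide +kernel)
theorem L01331 : Good (Phi V5.P V5.D (-1) (-1)) ⟨4, 13, 3, 1, 1, 1, 1, 0, 3, 1⟩ :=
  out_sound (S := T5.ds_mm) T5.ok_mm (w := 51) (j := 3) (by decide +kernel)
theorem L01332 : Good (Phi V5.P V5.D (-1) (-1)) ⟨3, 7, 2, 0, 1, 1, 1, 0, 2, 0⟩ :=
  out_sound (S := T5.ds_mm) T5.ok_mm (w := 43) (j := 3) (by decide +kernel)
theorem L01333 : Good (Phi V5.P V5.D (-1) (-1)) ⟨3, 4, 2, 0, 2, 2, 2, 0, 4, 4⟩ :=
  leafX_sound T5.ok_mm T5.Ymm.bz_eq (w := 204) (c := ⟨⟨.negSucc 2205, .negSucc 270, .ofNat 64, .ofNat 199, .ofNat 176, .ofNat 261⟩, ⟨.ofNat 71, .ofNat 166, .ofNat 378, .negSucc 39, .negSucc 32, .negSucc 29⟩, ⟨.ofNat 2361, .ofNat 279, .negSucc 213, .negSucc 500, .negSucc 636, .negSucc 32⟩, ⟨.negSucc 4819, .negSucc 89, .negSucc 4, .ofNat 341, .ofNat 368, .ofNat 567⟩, ⟨.negSucc 763, .negSucc 20, .negSucc 22, .negSucc 434, .ofNat 191, .ofNat 107⟩, .ofNat 332, .ofNat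 65, .ofNat 0, .ofNat 65, .ofNat 777, .ofNat 0, .ofNat 414, .negSucc 56, .negSucc 86, .ofNat 0, .ofNat 128, .ofNat 28, .ofNat 0, .ofNat 0, .ofNat 612, .ofNat 11266, .ofNat 0, .ofNat 0, .ofNat 0, .ofNat 0, .ofNat 0, .ofNat 0, .ofNat 0, .ofNat 0, .ofNat 0, .ofNat 0, .ofNat 0, .ofNat 0, .ofNat 469481150959989737632588579848911918727168, .ofNat 0, .ofNat 0, .ofNat 0⟩)
    (by decide +kernel)
theorem L01334 : Good (Phi V5.P V5.D (-1) (-1)) ⟨4, 10, 2, 0, 2, 2, 2, 0, 4, 4⟩ :=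
  leafX_sound T5.ok_mm T5.Ymm.bz_eq (w := 208) (c := ⟨⟨.negSucc 2538, .negSucc 204, .ofNat 106, .ofNat 256, .ofNat 120, .ofNat 363⟩, ⟨.ofNat 269, .ofNat 114, .ofNat 385, .negSucc 74, .negSucc 21, .negSucc 74⟩, ⟨.ofNat 2863, .ofNat 204, .negSucc 302, .negSucc 608, .negSucc 678, .negSucc 147⟩, ⟨.negSucc 4908, .negSucc 122, .ofNat 64, .ofNat 364, .ofNat 234, .ofNat 701⟩, ⟨.negSucc 666, .ofNat 7, .negSucc 54, .negSucc 504, .ofNat 135, .ofNat 87⟩, .ofNat 319, .ofNat 98, .ofNat 0, .ofNat 98, .ofNat 725, .ofNat 0, .ofNat 323, .negSucc 82, .negSucc 81, .ofNat 0, .ofNat 128, .ofNat 35, .ofNat 0, .ofNat 0, .ofNat 555, .ofNat 9658, .ofNat 239706775680589688669396847094681017778176, .ofNat 0, .ofNat 32407140674530164572491126006611968, .ofNat 0, .ofNat 0, .ofNat 0, .ofNat 0, .ofNat 0, .ofNat 0, .ofNat 0, .ofNat 0, .ofNat 0, .ofNat 7436677269106657694603808998391269602361344, .ofNat 0, .ofNat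 0, .ofNat 0⟩)
    (by decide +kernel)
theorem L01335 : Good (Phi V5.P V5.D (-1) (-1)) ⟨4, 11, 2, 0, 2, 2, 2, 0, 4, 4⟩ :=
  leafX_sound T5.ok_mm T5.Ymm.bz_eq (w := 209) (c := ⟨⟨.negSucc 2833, .negSucc 207, .ofNat 94, .ofNat 357, .ofNat 157, .ofNat 420⟩, ⟨.ofNat 446, .ofNat 140, .ofNat 393, .negSucc 139, .negSucc 45, .negSucc 116⟩, ⟨.ofNat 3210, .ofNat 204, .negSucc 328, .negSucc 742, .negSucc 717, .negSucc 222⟩, ⟨.negSucc 5121, .negSucc 91, .ofNat 29, .ofNat 446, .ofNat 309, .ofNat 752⟩, ⟨.negSucc 597, .ofNat 6, .negSucc 72, .negSucc 568, .ofNat 108, .ofNat 101⟩, .ofNat 314, .ofNat 123, .ofNat 0, .ofNat 123, .ofNat 659, .ofNat 0, .ofNat 335, .negSucc 94, .negSucc 125, .ofNat 0, .ofNat 128, .ofNat 56, .ofNat 0, .ofNat 0, .ofNat 689, .ofNat 11012, .ofNat 443656746561609136225764750451681735475200, .ofNat 0, .ofNat 41728942796304611393040775842365440, .ofNat 0, .ofNat 0, .ofNat 0,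 .ofNat 0, .ofNat 0, .ofNat 0, .ofNat 0, .ofNat 0, .ofNat 0, .ofNat 10935408349829613698107736297911399699447808, .ofNat 0, .ofNat 4102996571857428091968294109904371712, .ofNat 0⟩)
    (by decide +kernel)
theorem L01336 : Good (Phi V5.P V5.D (-1) (-1)) ⟨2, 3, 2, 0, 2, 2, 2, 0, 5, 8⟩ :=
  leafX_sound T5.ok_mm T5.Ymm.bz_eq (w := 206) (c := ⟨⟨.negSucc 3193, .negSucc 949, .ofNat 111, .ofNat 426, .ofNat 219, .ofNat 269⟩, ⟨.ofNat 645, .ofNat 601, .ofNat 415, .negSucc 206, .negSucc 64, .negSucc 92⟩, ⟨.ofNat 3577, .ofNat 839, .negSucc 349, .negSucc 830, .negSucc 775, .negSucc 152⟩, ⟨.negSucc 5370, .negSucc 439, .ofNat 40, .ofNat 474, .ofNat 398, .ofNat 442⟩, ⟨.negSucc 536, .ofNat 75, .negSucc 72, .negSucc 618, .ofNat 85, .ofNat 32⟩, .ofNat 457, .ofNat 278, .ofNat 0, .ofNat 278, .ofNat 728, .ofNat 0, .ofNat 148, .negSucc 105, .negSucc 115, .ofNat 0, .ofNat 128, .ofNat 81, .ofNat 0, .ofNat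 0, .ofNat 441, .ofNat 8983, .ofNat 9454500080141829779259401619123646496768, .ofNat 0, .ofNat 76454412816482446576542685979392081920, .ofNat 0, .ofNat 50744136689056034201989248712202294132736, .ofNat 0, .ofNat 681157875686038013411516407280981508096, .ofNat 0, .ofNat 22330894427891389428194587174071846305792, .ofNat 0, .ofNat 2006159962343075348343991676185559957504, .ofNat 0, .ofNat 117100906778514162997505956105945020891136, .ofNat 0, .ofNat 1951594900065314889326709339461351636992, .ofNat 0⟩)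
    (by decide +kernel)
theorem L01337 : Good (Phi V5.P V5.D (-1) (-1)) ⟨2, 3, 2, 0, 2, 2, 2, 0, 5, 9⟩ :=
  leafX_sound T5.ok_mm T5.Ymm.bz_eq (w := 205) (c := ⟨⟨.negSucc 2947, .negSucc 829, .ofNat 109, .ofNat 458, .ofNat 223, .ofNat 218⟩, ⟨.ofNat 585, .ofNat 528, .ofNat 386, .negSucc 210, .negSucc 66, .negSucc 72⟩, ⟨.ofNat 3523, .ofNat 613, .negSucc 308, .negSucc 949, .negSucc 840, .negSucc 141⟩, ⟨.negSucc 5002, .negSucc 366, .ofNat 70, .ofNat 545, .ofNat 412, .ofNat 371⟩, ⟨.negSucc 566, .ofNat 52, .negSucc 62, .negSucc 569, .ofNat 117, .ofNat 53⟩, .ofNat 490, .ofNat 316, .ofNat 0, .ofNat 316, .ofNat 799, .ofNat 0, .ofNat 157, .negSucc 100, .negSucc 62, .ofNat 0, .ofNat 128, .ofNat 46, .ofNat 0, .ofNat 0, .ofNat 329, .ofNat 8204, .ofNat 17203065549675920908071637873645234159616, .ofNat 0, .ofNat 125200859942718845462951090116869750784, .ofNat 0, .ofNat 0, .ofNat 0, .ofNat 308535955748163833630042953257215590400,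 .ofNat 0, .ofNat 0, .ofNat 0, .ofNat 897891792133078899956762000721786699776, .ofNat 0, .ofNat 78814238456136475500276935260145828495360, .ofNat 0, .ofNat 1065310586987120731817414802356496760832, .ofNat 0⟩)
    (by decide +kernel)
theorem L01338 : Good (Phi V5.P V5.D (-1) (-1)) ⟨2, 2, 2, 0, 2, 3, 2, 0, 4, 4⟩ :=
  leafX_sound T5.ok_mm T5.Ymm.bz_eq (w := 198) (c := ⟨⟨.negSucc 2101, .negSucc 404, .ofNat 56, .ofNat 524, .ofNat 200, .ofNat 321⟩, ⟨.ofNat 47, .ofNat 278, .ofNat 383, .negSucc 95, .negSucc 16, .negSucc 54⟩, ⟨.ofNat 2240, .ofNat 344, .negSucc 227, .negSucc 825, .negSucc 818, .negSucc 209⟩, ⟨.negSucc 4553, .ofNat 6, .negSucc 54, .ofNat 966, .ofNat 397, .ofNat 622⟩, ⟨.negSucc 1299, .negSucc 85, .negSucc 59, .ofNat 117, .ofNat 161, .ofNat 264⟩, .ofNat 451, .ofNat 259, .ofNat 0, .ofNat 259, .ofNat 1635, .ofNat 0, .ofNat 191, .negSucc 109, .negSucc 57, .ofNat 0, .ofNat 128,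 .ofNat 15, .ofNat 0, .ofNat 0, .ofNat 674, .ofNat 2242, .ofNat 76095915279673954574832577697518977024, .ofNat 0, .ofNat 53568767869192984493662162361778176, .ofNat 0, .ofNat 0, .ofNat 70273277447408224272628899109306105856, .ofNat 0, .ofNat 0, .ofNat 0, .ofNat 0, .ofNat 0, .ofNat 0, .ofNat 0, .ofNat 27710332666224796810982868531015581696, .ofNat 23969963932404095781334675144289812480, .ofNat 0⟩)
    (by decide +kernel)
theorem L01339 : Good (Phi V5.P V5.D (-1) (-1)) ⟨4, 12, 3, 0, 2, 3, 2, 0, 4, 4⟩ :=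
  out_sound (S := T5.ds_mm) T5.ok_mm (w := 51) (j := 3) (by decide +kernel)
theorem L01340 : Good (Phi V5.P V5.D (-1) (-1)) ⟨4, 12, 3, 1, 2, 3, 2, 0, 4, 4⟩ :=
  leafX_sound T5.ok_mm T5.Ymm.bz_eq (w := 209) (c := ⟨⟨.negSucc 2686, .negSucc 118, .ofNat 48, .ofNat 795, .ofNat 276, .ofNat 431⟩, ⟨.ofNat 650, .ofNat 58, .ofNat 197, .negSucc 280, .negSucc 84, .negSucc 135⟩, ⟨.ofNat 2758, .ofNat 77, .negSucc 115, .negSucc 1034, .negSucc 997, .negSucc 365⟩, ⟨.negSucc 4841, .negSucc 21, .negSucc 8, .ofNat 1319, .ofNat 497, .ofNat 762⟩, ⟨.negSucc 1358, .negSucc 52, .negSucc 5, .ofNat 66, .ofNat 140, .ofNat 160⟩, .ofNat 474, .ofNat 381, .ofNat 0, .ofNat 381, .ofNat 1262, .ofNat 0, .ofNat 128, .negSucc 168, .negSucc 56, .ofNat 0, .ofNat 171, .ofNat 22, .ofNat 0, .ofNat 0, .ofNat 587, .ofNat 1459, .ofNat 535867857082570060236496385849423604744192, .ofNat 0, .ofNat 0, .ofNat 0, .ofNat 0, .ofNat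 143483032676132626831466422510086176899072, .ofNat 693759585565977638599072097111113728, .ofNat 0, .ofNat 0, .ofNat 0, .ofNat 0, .ofNat 0, .ofNat 0, .ofNat 0, .ofNat 0, .ofNat 0⟩)
    (by decide +kernel)
theorem L01341 : Good (Phi V5.P V5.D (-1) (-1)) ⟨4, 13, 2, 0, 2, 3, 2, 0, 4, 4⟩ :=
  out_sound (S := T5.ds_mm) T5.ok_mm (w := 49) (j := 3) (by decide +kernel)
theorem L01342 : Good (Phi V5.P V5.D (-1) (-1)) ⟨3, 7, 2, 0, 2, 3, 2, 0, 4, 4⟩ :=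
  out_sound (S := T5.ds_mm) T5.ok_mm (w := 43) (j := 3) (by decide +kernel)
theorem L01343 : Good (Phi V5.P V5.D (-1) (-1)) ⟨2, 2, 2, 0, 2, 2, 2, 0, 4, 5⟩ :=
  leafX_sound T5.ok_mm T5.Ymm.bz_eq (w := 201) (c := ⟨⟨.negSucc 1975, .negSucc 448, .ofNat 50, .ofNat 374, .ofNat 34, .ofNat 261⟩, ⟨.ofNat 8, .ofNat 313, .ofNat 339, .negSucc 77, .ofNat 60, .negSucc 51⟩, ⟨.ofNat 2571, .ofNat 373, .negSucc 271, .negSucc 745, .negSucc 585, .negSucc 215⟩, ⟨.negSucc 4407, .negSucc 41, .negSucc 26, .ofNat 627, .ofNat 257, .ofNat 530⟩, ⟨.negSucc 611, .negSucc 59, .negSucc 18, .negSucc 424, .ofNat 146, .ofNat 187⟩, .ofNat 169, .ofNat 16, .ofNat 0, .ofNat 16, .ofNat 241, .ofNat 0, .ofNat 264, .negSucc 36, .negSucc 76, .ofNat 0, .ofNat 128, .ofNat 48, .ofNat 0, .ofNat 0, .ofNat 747, .ofNat 12767, .ofNat 7136344594404410365792498544312821219328, .ofNat 0, .ofNat 0, .ofNat 0, .ofNat 61728461881432419564885845013313133477888,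 .ofNat 0, .ofNat 4913852180672851352880465916412821504, .ofNat 0, .ofNat 7597799103760230332269208198055389560832, .ofNat 0, .ofNat 5418152820123897613534630389225619456, .ofNat 0, .ofNat 47936878837062389170391905939515125006336, .ofNat 0, .ofNat 0, .ofNat 0⟩)
    (by decide +kernel)
theorem L01344 : Good (Phi V5.P V5.D (-1) (-1)) ⟨2, 2, 2, 0, 2, 3, 2, 0, 4, 5⟩ :=
  leafX_sound T5.ok_mm T5.Ymm.bz_eq (w := 197) (c := ⟨⟨.negSucc 1781, .negSucc 339, .ofNat 37, .ofNat 487, .ofNat 188, .ofNat 224⟩, ⟨.ofNat 29, .ofNat 248, .ofNat 343, .negSucc 94, .negSucc 19, .negSucc 35⟩, ⟨.ofNat 2295, .ofNat 216, .negSucc 256, .negSucc 898, .negSucc 1037, .negSucc 178⟩, ⟨.negSucc 3888, .ofNat 60, .negSucc 68, .ofNat 891, .ofNat 364, .ofNat 472⟩, ⟨.negSucc 1154, .negSucc 104, .ofNat 22, .negSucc 115, .ofNat 270, .ofNat 192⟩, .ofNat 321, .ofNat 83, .ofNat 0, .ofNat 83, .ofNat 718, .ofNat 0, .ofNat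 217, .negSucc 59, .negSucc 26, .ofNat 0, .ofNat 128, .ofNat 11, .ofNat 0, .ofNat 0, .ofNat 730, .ofNat 1286, .ofNat 420721255093983637187078339192128798720, .ofNat 0, .ofNat 42366615220328797179943974586023936, .ofNat 0, .ofNat 0, .ofNat 0, .ofNat 0, .ofNat 0, .ofNat 0, .ofNat 386367846199054636898891403952157360128, .ofNat 0, .ofNat 0, .ofNat 21580987541633333928312235453515846123520, .ofNat 1042319016431280594217741724960052740096, .ofNat 14452534256496026993595225643346296832, .ofNat 0⟩)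
    (by decide +kernel)
theorem L01345 : Good (Phi V5.P V5.D (-1) (-1)) ⟨4, 12, 3, 0, 1, 1, 2, 0, 4, 5⟩ :=
  out_sound (S := T5.ds_mm) T5.ok_mm (w := 51) (j := 3) (by decide +kernel)
theorem L01346 : Good (Phi V5.P V5.D (-1) (-1)) ⟨4, 12, 3, 1, 2, 2, 2, 0, 4, 5⟩ :=
  leafX_sound T5.ok_mm T5.Ymm.bz_eq (w := 213) (c := ⟨⟨.negSucc 2725, .negSucc 131, .ofNat 29, .ofNat 576, .ofNat 183, .ofNat 328⟩, ⟨.ofNat 739, .ofNat 89, .ofNat 178, .negSucc 249, .negSucc 45, .negSucc 97⟩, ⟨.ofNat 3476, .ofNat 89, .negSucc 167, .negSucc 1120, .negSucc 938, .negSucc 298⟩, ⟨.negSucc 4695, .negSucc 11, .negSucc 15, .ofNat 766, .ofNat 364, .ofNat 600⟩, ⟨.negSucc 681, .negSucc 15, .negSucc 15, .negSucc 470, .ofNat 174, .ofNat 191⟩, .ofNat 474, .ofNat 381, .ofNat 0, .ofNat 381, .ofNat 1260, .ofNat 0, .ofNat 128, .negSucc 156, .negSucc 35, .ofNat 0, .ofNat 146, .ofNat 17, .ofNat 0, .ofNat 0, .ofNat 467,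 .ofNat 20320, .ofNat 30650372867477702873380565163882017560985600, .ofNat 0, .ofNat 0, .ofNat 0, .ofNat 62176549813838535288260063652539630736113664, .ofNat 0, .ofNat 1120432349880040349271547745191067648, .ofNat 0, .ofNat 0, .ofNat 0, .ofNat 0, .ofNat 0, .ofNat 63816615799795243404565233157663212561235968, .ofNat 0, .ofNat 1159944480619087093524990019875373056, .ofNat 0⟩)
    (by decide +kernel)
theorem L01347 : Good (Phi V5.P V5.D (-1) (-1)) ⟨4, 12, 3, 1, 2, 3, 2, 0, 4, 5⟩ :=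
  leafX_sound T5.ok_mm T5.Ymm.bz_eq (w := 208) (c := ⟨⟨.negSucc 2141, .negSucc 102, .ofNat 16, .ofNat 658, .ofNat 198, .ofNat 279⟩, ⟨.ofNat 497, .ofNat 52, .ofNat 178, .negSucc 239, .negSucc 52, .negSucc 77⟩, ⟨.ofNat 2473, .ofNat 0, .negSucc 137, .negSucc 1067, .negSucc 1063, .negSucc 348⟩, ⟨.negSucc 3910, .ofNat 0, .negSucc 43, .ofNat 1047, .ofNat 393, .ofNat 528⟩, ⟨.negSucc 1220, .ofNat 11, .negSucc 2, .negSucc 67, .ofNat 204, .ofNat 215⟩, .ofNat 629, .ofNat 689, .ofNat 0, .ofNat 689, .ofNat 2069, .ofNat 0, .ofNat 128, .negSucc 202, .negSucc 17, .ofNat 0, .ofNat 173, .ofNat 8, .ofNat 0, .ofNat 0, .ofNat 597, .ofNat 648, .ofNat 625160679117229303733690333530693526618112, .ofNat 0, .ofNat 86560987237880738062150245449465856, .ofNat 0, .ofNat 0, .ofNat 363362099690049523153014736311515005059072, .ofNat 6800448195397456857240601356459311104, .ofNat 0, .ofNat 0, .ofNat 863879240217985564212629673715277695549440,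 .ofNat 16623127696661911535257970401997750272, .ofNat 0, .ofNat 30438651891373294245312437986352095073140736, .ofNat 1646797744565676324555058615540551457439744, .ofNat 4054979326983408807394455419076214784, .ofNat 0⟩)
    (by decide +kernel)
theorem L01348 : Good (Phi V5.P V5.D (-1) (-1)) ⟨4, 13, 2, 0, 1, 1, 2, 0, 4, 5⟩ :=
  out_sound (S := T5.ds_mm) T5.ok_mm (w := 49) (j := 3) (by decide +kernel)
theorem L01349 : Good (Phi V5.P V5.D (-1) (-1)) ⟨3, 7, 2, 0, 1, 1, 2, 0, 4, 5⟩ :=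
  out_sound (S := T5.ds_mm) T5.ok_mm (w := 43) (j := 3) (by decide +kernel)
theorem L01350 : Good (Phi V5.P V5.D (-1) (-1)) ⟨1, 1, 2, 0, 2, 2, 2, 0, 3, 3⟩ :=
  leafX_sound T5.ok_mm T5.Ymm.bz_eq (w := 198) (c := ⟨⟨.negSucc 1426, .negSucc 618, .ofNat 15, .negSucc 0, .ofNat 59, .ofNat 1⟩, ⟨.negSucc 59, .ofNat 486, .ofNat 299, .ofNat 0, .ofNat 56, .ofNat 0⟩, ⟨.ofNat 1748, .negSucc 2, .negSucc 272, .ofNat 1, .negSucc 539, .negSucc 0⟩, ⟨.negSucc 3104, .ofNat 205, .negSucc 86, .negSucc 1, .ofNat 49, .ofNat 2⟩, ⟨.negSucc 717, .negSucc 137, .negSucc 5, .ofNat 0, .ofNat 21, .ofNat 0⟩, .ofNat 305, .ofNat 112, .ofNat 0, .ofNat 112, .ofNat 589, .ofNat 0, .ofNat 128, .negSucc 76, .negSucc 0, .ofNat 0, .ofNat 138, .ofNat 11, .ofNat 0, .ofNat 0, .ofNat 975, .ofNat 918633, .ofNat 25086973432739365768562460448189715578880, .ofNat 0, .ofNat 0, .ofNat 0, .ofNat 3524734299877411035837107825683374014464,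 .ofNat 0, .ofNat 1918325496900201658501567677519101952, .ofNat 0, .ofNat 1707836342095657385487592735633108369408, .ofNat 0, .ofNat 3537859543989729974915970823224295424, .ofNat 0, .ofNat 10107923399224882491259789735102429265920, .ofNat 0, .ofNat 788333415355762478004460534796124160, .ofNat 0⟩)
    (by decide +kernel)
theorem L01351 : Good (Phi V5.P V5.D (-1) (-1)) ⟨1, 1, 2, 0, 2, 3, 2, 0, 3, 3⟩ :=
  leafX_sound T5.ok_mm T5.Ymm.bz_eq (w := 190) (c := ⟨⟨.negSucc 1452, .negSucc 599, .ofNat 8, .ofNat 368, .ofNat 83, .ofNat 1⟩, ⟨.ofNat 0, .ofNat 472, .ofNat 302, .negSucc 86, .negSucc 1, .ofNat 0⟩, ⟨.ofNat 2049, .negSucc 75, .negSucc 272, .negSucc 969, .negSucc 817, .ofNat 0⟩, ⟨.negSucc 3261, .ofNat 214, .negSucc 90, .ofNat 635, .ofNat 206, .ofNat 1⟩, ⟨.negSucc 970, .negSucc 152, .ofNat 4, .negSucc 78, .ofNat 273, .ofNat 0⟩, .ofNat 322, .ofNat 94, .ofNat 0, .ofNat 94, .ofNat 711, .ofNat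 0, .ofNat 146, .negSucc 62, .ofNat 1, .ofNat 0, .ofNat 128, .ofNat 3, .ofNat 0, .ofNat 0, .ofNat 1087, .ofNat 6010, .ofNat 102642472467703186578233683166093115392, .ofNat 1094451143216275273394280386453831680, .ofNat 19824464166745844468962223565307904, .ofNat 0, .ofNat 543441592914014961755834402948207607808, .ofNat 15404406808946020992662344495781642240, .ofNat 1264599698238141695274979959450370048, .ofNat 0, .ofNat 157767546263424970990217896788983021568, .ofNat 9995798098343299926363791806529798144, .ofNat 4376374333686321794344163108034969600, .ofNat 0, .ofNat 2138214282326399989496118888589200195584, .ofNat 97627494994480471986307113803319345152, .ofNat 810413445083041836069046207696076800, .ofNat 0⟩)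
    (by decide +kernel)
theorem L01352 : Good (Phi V5.P V5.D (-1) (-1)) ⟨2, 2, 2, 0, 3, 4, 3, 2, 4, 4⟩ :=
  leafX_sound T5.ok_mm T5.Ymm.bz_eq (w := 218) (c := ⟨⟨.negSucc 2035, .negSucc 711, .ofNat 68, .ofNat 75, .ofNat 82, .ofNat 326⟩, ⟨.ofNat 45, .ofNat 440, .ofNat 371, .negSucc 18, .negSucc 6, .negSucc 72⟩, ⟨.ofNat 1845, .ofNat 672, .negSucc 226, .negSucc 296, .negSucc 236, .negSucc 151⟩, ⟨.negSucc 4440, .negSucc 315, .ofNat 34, .ofNat 70, .ofNat 187, .ofNat 613⟩, ⟨.negSucc 573, .negSucc 4, .negSucc 52, .negSucc 198, .ofNat 69, .ofNat 131⟩, .ofNat 323, .ofNat 88, .ofNat 0, .ofNat 88, .ofNat 719, .ofNat 0, .ofNat 149, .negSucc 69, .negSucc 65, .ofNat 0, .ofNat 128, .ofNat 21, .ofNat 0, .ofNat 0, .ofNat 373, .ofNat 5544, .ofNat 7253191068320161140441275786355308962512896, .ofNat 0, .ofNat 29586034513736470559591731579786627121152, .ofNat 0, .ofNat 0, .ofNat 0, .ofNat 1443784466650564446973258410206047351341056,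 .ofNat 0, .ofNat 0, .ofNat 0, .ofNat 0, .ofNat 0, .ofNat 0, .ofNat 0, .ofNat 0, .ofNat 0⟩)
    (by decide +kernel)
theorem L01353 : Good (Phi V5.P V5.D (-1) (-1)) ⟨2, 2, 2, 0, 3, 4, 3, 3, 4, 4⟩ :=
  leafX_sound T5.ok_mm T5.Ymm.bz_eq (w := 217) (c := ⟨⟨.negSucc 1928, .negSucc 662, .ofNat 46, .ofNat 59, .ofNat 102, .ofNat 291⟩, ⟨.ofNat 26, .ofNat 430, .ofNat 366, .negSucc 15, .negSucc 15, .negSucc 45⟩, ⟨.ofNat 1641, .ofNat 541, .negSucc 146, .negSucc 314, .negSucc 227, .negSucc 155⟩, ⟨.negSucc 4240, .negSucc 260, .ofNat 27, .ofNat 75, .ofNat 222, .ofNat 562⟩, ⟨.negSucc 541, .ofNat 3, .negSucc 28, .negSucc 155, .ofNat 109, .ofNat 119⟩, .ofNat 320, .ofNat 88, .ofNat 0, .ofNat 88, .ofNat 704, .ofNat 0, .ofNat 195, .negSucc 69, .negSucc 88, .ofNat 0, .ofNat 128, .ofNat 26, .ofNat 0, .ofNat 0, .ofNat 454, .ofNat 3778, .ofNat 0, .ofNat 0, .ofNat 0, .ofNat 0, .ofNat 0, .ofNat 0, .ofNat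 0, .ofNat 0, .ofNat 0, .ofNat 0, .ofNat 0, .ofNat 0, .ofNat 0, .ofNat 0, .ofNat 0, .ofNat 0⟩)
    (by decide +kernel)
theorem L01354 : Good (Phi V5.P V5.D (-1) (-1)) ⟨2, 2, 2, 0, 3, 5, 2, 1, 4, 4⟩ :=
  leafX_sound T5.ok_mm T5.Ymm.bz_eq (w := 213) (c := ⟨⟨.negSucc 2091, .negSucc 632, .ofNat 140, .ofNat 194, .ofNat 200, .ofNat 420⟩, ⟨.ofNat 78, .ofNat 384, .ofNat 331, .negSucc 42, .negSucc 24, .negSucc 90⟩, ⟨.ofNat 1783, .ofNat 489, .negSucc 307, .negSucc 378, .negSucc 524, .negSucc 312⟩, ⟨.negSucc 4502, .negSucc 262, .ofNat 90, .ofNat 321, .ofNat 440, .ofNat 752⟩, ⟨.negSucc 830, .negSucc 50, .negSucc 40, .negSucc 168, .ofNat 275, .ofNat 149⟩, .ofNat 321, .ofNat 91, .ofNat 0, .ofNat 91, .ofNat 720, .ofNat 0, .ofNat 271, .negSucc 73, .negSucc 106, .ofNat 0, .ofNat 128, .ofNat 34, .ofNat 0, .ofNat 0, .ofNat 702, .ofNat 2372, .ofNat 0, .ofNat 0, .ofNat 0, .ofNat 0, .ofNat 0, .ofNat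 0, .ofNat 319576644422973133455836160371341899333632, .ofNat 0, .ofNat 0, .ofNat 0, .ofNat 0, .ofNat 0, .ofNat 0, .ofNat 0, .ofNat 0, .ofNat 0⟩)
    (by decide +kernel)
theorem L01355 : Good (Phi V5.P V5.D (-1) (-1)) ⟨3, 4, 2, 0, 3, 4, 4, 4, 5, 10⟩ :=
  leafX_sound T5.ok_mm T5.Ymm.bz_eq (w := 235) (c := ⟨⟨.negSucc 1765, .negSucc 255, .ofNat 49, .ofNat 68, .ofNat 39, .ofNat 109⟩, ⟨.ofNat 28, .ofNat 157, .ofNat 337, .negSucc 14, .negSucc 4, .negSucc 11⟩, ⟨.ofNat 1749, .ofNat 249, .negSucc 172, .negSucc 275, .negSucc 142, .negSucc 10⟩, ⟨.negSucc 3899, .negSucc 67, .negSucc 5, .ofNat 116, .ofNat 83, .ofNat 238⟩, ⟨.negSucc 509, .negSucc 0, .negSucc 23, .negSucc 176, .ofNat 41, .ofNat 50⟩, .ofNat 333, .ofNat 74, .ofNat 0, .ofNat 74, .ofNat 795, .ofNat 0, .ofNat 292, .negSucc 56, .negSucc 71, .ofNat 0, .ofNat 128, .ofNat 22, .ofNat 0, .ofNat 0, .ofNat 704, .ofNat 122811, .ofNat 721545055711928784899285062989389450331906113536,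 .ofNat 0, .ofNat 20246109087316693527928518031554647188045824, .ofNat 0, .ofNat 0, .ofNat 0, .ofNat 0, .ofNat 0, .ofNat 1417517875443493419343471892254851370155958599680, .ofNat 0, .ofNat 0, .ofNat 0, .ofNat 0, .ofNat 0, .ofNat 468761864589649165081736942892058240383713280, .ofNat 0⟩)
    (by decide +kernel)
theorem L01356 : Good (Phi V5.P V5.D (-1) (-1)) ⟨3, 5, 2, 0, 3, 4, 4, 4, 5, 10⟩ :=
  leafX_sound T5.ok_mm T5.Ymm.bz_eq (w := 234) (c := ⟨⟨.negSucc 2091, .negSucc 307, .ofNat 57, .ofNat 127, .ofNat 55, .ofNat 151⟩, ⟨.ofNat 212, .ofNat 220, .ofNat 343, .negSucc 45, .negSucc 9, .negSucc 34⟩, ⟨.ofNat 2174, .ofNat 281, .negSucc 230, .negSucc 406, .negSucc 196, .negSucc 76⟩, ⟨.negSucc 4045, .negSucc 72, .ofNat 11, .ofNat 169, .ofNat 105, .ofNat 281⟩, ⟨.negSucc 484, .negSucc 3, .negSucc 36, .negSucc 200, .ofNat 37, .ofNat 47⟩, .ofNat 314, .ofNat 104, .ofNat 0, .ofNat 104, .ofNat 685,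 .ofNat 0, .ofNat 180, .negSucc 77, .negSucc 69, .ofNat 0, .ofNat 128, .ofNat 27, .ofNat 0, .ofNat 0, .ofNat 569, .ofNat 69981, .ofNat 799573439668985434814381758948784312061704273920, .ofNat 0, .ofNat 0, .ofNat 0, .ofNat 380068672795890535917660549695051468277916106752, .ofNat 0, .ofNat 774607403792224459649941243046922670867218432, .ofNat 0, .ofNat 1310809875907431978485706014236158557167963602944, .ofNat 0, .ofNat 0, .ofNat 0, .ofNat 1190480141093794327036717786125626090617409896448, .ofNat 0, .ofNat 659006903742189751975534167552848728906792960, .ofNat 0⟩)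
    (by decide +kernel)
theorem L01357 : Good (Phi V5.P V5.D (-1) (-1)) ⟨2, 2, 2, 0, 3, 4, 4, 4, 5, 11⟩ :=
  leafX_sound T5.ok_mm T5.Ymm.bz_eq (w := 231) (c := ⟨⟨.negSucc 1744, .negSucc 473, .ofNat 47, .ofNat 143, .ofNat 53, .ofNat 118⟩, ⟨.ofNat 35, .ofNat 334, .ofNat 321, .negSucc 30, .negSucc 5, .negSucc 27⟩, ⟨.ofNat 2004, .ofNat 392, .negSucc 226, .negSucc 447, .negSucc 234, .ofNat 6⟩, ⟨.negSucc 3790, .negSucc 54, .negSucc 10, .ofNat 223, .ofNat 107, .ofNat 237⟩, ⟨.negSucc 443, .negSucc 22, .negSucc 32, .negSucc 179, .ofNat 32, .ofNat 73⟩, .ofNat 168, .ofNat 17, .ofNat 0, .ofNat 17, .ofNat 239, .ofNat 0, .ofNat 171, .negSucc 32, .negSucc 73, .ofNat 0, .ofNat 128, .ofNat 37, .ofNat 0, .ofNat 0, .ofNat 573, .ofNat 148452, .ofNat 181029429468208587368867066267150891781074190336, .ofNat 0, .ofNat 0, .ofNat 0, .ofNat 212625724246958224919516594075007704132122312704, .ofNat 0, .ofNat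 615728908296841814379332608437927108036001792, .ofNat 0, .ofNat 55877298876018881039465779825008179722615521280, .ofNat 0, .ofNat 706877716670088600262708393225631965724540928, .ofNat 0, .ofNat 171999071803058166016814560160247874599121846272, .ofNat 0, .ofNat 1045133267016584133752713420507132459059511296, .ofNat 0⟩)
    (by decide +kernel)
theorem L01358 : Good (Phi V5.P V5.D (-1) (-1)) ⟨3, 4, 2, 0, 4, 8, 4, 5, 5, 10⟩ :=
  leafX_sound T5.ok_mm T5.Ymm.bz_eq (w := 248) (c := ⟨⟨.negSucc 1722, .negSucc 252, .ofNat 47, .ofNat 25, .ofNat 45, .ofNat 102⟩, ⟨.ofNat 26, .ofNat 158, .ofNat 326, .negSucc 6, .negSucc 5, .negSucc 11⟩, ⟨.ofNat 1607, .ofNat 235, .negSucc 135, .negSucc 133, .negSucc 131, .negSucc 13⟩, ⟨.negSucc 3813, .negSucc 58, .ofNat 10, .ofNat 41, .ofNat 92, .ofNat 219⟩, ⟨.negSucc 475, .ofNat 5, .negSucc 18, .negSucc 77, .ofNat 37, .ofNat 37⟩, .ofNat 331, .ofNat 56, .ofNat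 0, .ofNat 56, .ofNat 764, .ofNat 0, .ofNat 223, .negSucc 42, .negSucc 61, .ofNat 0, .ofNat 128, .ofNat 16, .ofNat 0, .ofNat 0, .ofNat 553, .ofNat 83222, .ofNat 1407017871101317314800042059357097768587902094147584, .ofNat 0, .ofNat 0, .ofNat 0, .ofNat 0, .ofNat 0, .ofNat 0, .ofNat 0, .ofNat 0, .ofNat 0, .ofNat 0, .ofNat 0, .ofNat 0, .ofNat 0, .ofNat 14593430342923387535297114269420358921834907828224, .ofNat 0⟩)
    (by decide +kernel)
theorem L01359 : Good (Phi V5.P V5.D (-1) (-1)) ⟨4, 10, 2, 0, 4, 8, 4, 5, 5, 10⟩ :=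
  leafX_sound T5.ok_mm T5.Ymm.bz_eq (w := 253) (c := ⟨⟨.negSucc 2010, .negSucc 151, .ofNat 50, .ofNat 40, .ofNat 51, .ofNat 136⟩, ⟨.ofNat 192, .ofNat 108, .ofNat 333, .negSucc 12, .negSucc 7, .negSucc 23⟩, ⟨.ofNat 1919, .ofNat 146, .negSucc 177, .negSucc 163, .negSucc 157, .negSucc 58⟩, ⟨.negSucc 3914, .negSucc 42, .ofNat 14, .ofNat 59, .ofNat 101, .ofNat 260⟩, ⟨.negSucc 456, .ofNat 5, .negSucc 29, .negSucc 85, .ofNat 33, .ofNat 30⟩, .ofNat 319, .ofNat 98, .ofNat 0, .ofNat 98, .ofNat 725, .ofNat 0, .ofNat 256, .negSucc 72, .negSucc 81, .ofNat 0, .ofNat 128, .ofNat 27, .ofNat 0, .ofNat 0, .ofNat 650, .ofNat 103595, .ofNat 55774389597026150036181750621798048945874935987830784, .ofNat 0, .ofNat 0, .ofNat 0, .ofNat 0, .ofNat 0, .ofNat 0, .ofNat 0, .ofNat 0, .ofNat 0, .ofNat 0, .ofNat 0, .ofNat 0, .ofNat 0, .ofNat 0, .ofNat 0⟩)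
    (by decide +kernel)
theorem L01360 : Good (Phi V5.P V5.D (-1) (-1)) ⟨4, 11, 2, 0, 4, 8, 4, 5, 5, 10⟩ :=
  leafX_sound T5.ok_mm T5.Ymm.bz_eq (w := 252) (c := ⟨⟨.negSucc 2188, .negSucc 164, .ofNat 59, .ofNat 53, .ofNat 56, .ofNat 159⟩, ⟨.ofNat 319, .ofNat 123, .ofNat 331, .negSucc 20, .negSucc 15, .negSucc 42⟩, ⟨.ofNat 2123, .ofNat 146, .negSucc 211, .negSucc 203, .negSucc 167, .negSucc 87⟩, ⟨.negSucc 3978, .negSucc 42, .ofNat 23, .ofNat 66, .ofNat 106, .ofNat 284⟩, ⟨.negSucc 445, .ofNat 3, .negSucc 35, .negSucc 94, .ofNat 35, .ofNat 30⟩, .ofNat 310, .ofNat 109, .ofNat 0, .ofNat 109, .ofNat 639, .ofNat 0, .ofNat 168, .negSucc 78, .negSucc 51, .ofNat 0, .ofNat 128, .ofNat 20, .ofNat 0, .ofNat 0, .ofNat 371, .ofNat 58018, .ofNat 38753922160699397595968112153557525973573641575596032, .ofNat 0, .ofNat 269718917904832765163023396690696293294899462144, .ofNat 0, .ofNat 0, .ofNat 0,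 .ofNat 0, .ofNat 0, .ofNat 0, .ofNat 0, .ofNat 0, .ofNat 0, .ofNat 0, .ofNat 0, .ofNat 6038713239761162219740978329451135031626671587328, .ofNat 0⟩)
    (by decide +kernel)
theorem L01361 : Good (Phi V5.P V5.D (-1) (-1)) ⟨3, 4, 2, 0, 4, 8, 4, 5, 5, 11⟩ :=
  leafX_sound T5.ok_mm T5.Ymm.bz_eq (w := 250) (c := ⟨⟨.negSucc 1628, .negSucc 225, .ofNat 38, .ofNat 33, .ofNat 38, .ofNat 94⟩, ⟨.ofNat 25, .ofNat 145, .ofNat 310, .negSucc 6, .negSucc 1, .negSucc 11⟩, ⟨.ofNat 1618, .ofNat 185, .negSucc 119, .negSucc 149, .negSucc 125, .negSucc 15⟩, ⟨.negSucc 3607, .negSucc 29, .ofNat 0, .ofNat 55, .ofNat 87, .ofNat 204⟩, ⟨.negSucc 443, .ofNat 1, .negSucc 17, .negSucc 67, .ofNat 40, .ofNat 39⟩, .ofNat 331, .ofNat 61, .ofNat 0, .ofNat 61, .ofNat 766, .ofNat 0, .ofNat 248, .negSucc 44, .negSucc 78, .ofNat 0, .ofNat 128, .ofNat 20, .ofNat 0, .ofNat 0, .ofNat 894, .ofNat 265767, .ofNat 10504317312310374860030118789681226918142964383350784,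 .ofNat 0, .ofNat 3150728204959424565551594702975106777108216545280, .ofNat 0, .ofNat 14872537023334309172910665259212460865680666653622272, .ofNat 0, .ofNat 27819899113614663044466471687699174636922119127040, .ofNat 0, .ofNat 14622843394559759939016597538591793106989087677480960, .ofNat 0, .ofNat 0, .ofNat 0, .ofNat 15552420553691507628278479188491390649849009565335552, .ofNat 0, .ofNat 45348615049540987024803139184921073090708209926144, .ofNat 0⟩)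
    (by decide +kernel)
theorem L01362 : Good (Phi V5.P V5.D (-1) (-1)) ⟨3, 5, 2, 0, 4, 8, 4, 5, 5, 11⟩ :=
  leafX_sound T5.ok_mm T5.Ymm.bz_eq (w := 249) (c := ⟨⟨.negSucc 1891, .negSucc 271, .ofNat 46, .ofNat 53, .ofNat 51, .ofNat 121⟩, ⟨.ofNat 185, .ofNat 207, .ofNat 312, .negSucc 15, .negSucc 7, .negSucc 28⟩, ⟨.ofNat 1938, .ofNat 217, .negSucc 188, .negSucc 210, .negSucc 183, .negSucc 62⟩, ⟨.negSucc 3684, .negSucc 36, .ofNat 10, .ofNat 73, .ofNat 108, .ofNat 239⟩, ⟨.negSucc 430, .ofNat 1, .negSucc 29, .negSucc 78, .ofNat 38, .ofNat 42⟩, .ofNat 166, .ofNat 20, .ofNat 0, .ofNat 20, .ofNat 234, .ofNat 0, .ofNat 214, .negSucc 33, .negSucc 83, .ofNat 0, .ofNat 128, .ofNat 34, .ofNat 0, .ofNat 0, .ofNat 546, .ofNat 129503, .ofNat 9863894786734655540411698402417021432833332928839680, .ofNat 0, .ofNat 0, .ofNat 0, .ofNat 5210454422735344000032218178327379630062941908238336, .ofNat 0,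 .ofNat 0, .ofNat 0, .ofNat 4043679160633424686369295544519932666873819101659136, .ofNat 0, .ofNat 0, .ofNat 0, .ofNat 4636229780759461895507077790465277970956037340004352, .ofNat 0, .ofNat 9085397572958722490522021552250240724622190313472, .ofNat 0⟩)
    (by decide +kernel)
theorem L01363 : Good (Phi V5.P V5.D (-1) (-1)) ⟨2, 2, 2, 0, 4, 9, 4, 5, 5, 10⟩ :=
  leafX_sound T5.ok_mm T5.Ymm.bz_eq (w := 242) (c := ⟨⟨.negSucc 1724, .negSucc 508, .ofNat 49, .ofNat 62, .ofNat 54, .ofNat 115⟩, ⟨.ofNat 21, .ofNat 345, .ofNat 333, .negSucc 15, .negSucc 7, .negSucc 17⟩, ⟨.ofNat 1567, .ofNat 410, .negSucc 188, .negSucc 191, .negSucc 168, .negSucc 34⟩, ⟨.negSucc 3805, .negSucc 97, .ofNat 1, .ofNat 92, .ofNat 106, .ofNat 246⟩, ⟨.negSucc 550, .negSucc 16, .negSucc 31, .negSucc 85, .ofNat 44, .ofNat 52⟩, .ofNat 169, .ofNat 15, .ofNat 0, .ofNat 15, .ofNat 241, .ofNat 0, .ofNat 173, .negSucc 30, .negSucc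 82, .ofNat 0, .ofNat 128, .ofNat 35, .ofNat 0, .ofNat 0, .ofNat 480, .ofNat 20418, .ofNat 0, .ofNat 0, .ofNat 0, .ofNat 0, .ofNat 0, .ofNat 0, .ofNat 39049612904170905728203193186056685789992154300416, .ofNat 0, .ofNat 0, .ofNat 0, .ofNat 0, .ofNat 0, .ofNat 0, .ofNat 0, .ofNat 22111818536318552138607643910440660996561876025344, .ofNat 0⟩)
    (by decide +kernel)
theorem L01364 : Good (Phi V5.P V5.D (-1) (-1)) ⟨2, 2, 2, 0, 4, 9, 4, 5, 5, 11⟩ :=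
  leafX_sound T5.ok_mm T5.Ymm.bz_eq (w := 243) (c := ⟨⟨.negSucc 1618, .negSucc 445, .ofNat 28, .ofNat 57, .ofNat 38, .ofNat 115⟩, ⟨.ofNat 26, .ofNat 325, .ofNat 317, .negSucc 13, .negSucc 10, .negSucc 21⟩, ⟨.ofNat 1601, .ofNat 263, .negSucc 165, .negSucc 213, .negSucc 152, .negSucc 68⟩, ⟨.negSucc 3581, .negSucc 14, .negSucc 19, .ofNat 94, .ofNat 91, .ofNat 230⟩, ⟨.negSucc 520, .negSucc 22, .negSucc 19, .negSucc 64, .ofNat 56, .ofNat 52⟩, .ofNat 169, .ofNat 16, .ofNat 0, .ofNat 16, .ofNat 242, .ofNat 0, .ofNat 147, .negSucc 29, .negSucc 59, .ofNat 0, .ofNat 128, .ofNat 25, .ofNat 0, .ofNat 0, .ofNat 539, .ofNat 35367, .ofNat 120793917357129509570696333573124968410680005754880, .ofNat 0, .ofNat 1353453547942039921256359172914015007061376499712, .ofNat 0, .ofNat 16015282396768502841843224282937993784599672520704, .ofNat 0, .ofNat 35852130500005585697439102704460020024274665340928,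 .ofNat 0, .ofNat 0, .ofNat 0, .ofNat 0, .ofNat 0, .ofNat 0, .ofNat 0, .ofNat 0, .ofNat 0⟩)
    (by decide +kernel)
theorem L01365 : Good (Phi V5.P V5.D (-1) (-1)) ⟨3, 4, 2, 0, 3, 4, 3, 3, 4, 5⟩ :=
  leafX_sound T5.ok_mm T5.Ymm.bz_eq (w := 223) (c := ⟨⟨.negSucc 1688, .negSucc 207, .ofNat 36, .ofNat 62, .ofNat 79, .ofNat 188⟩, ⟨.ofNat 34, .ofNat 143, .ofNat 307, .negSucc 10, .negSucc 3, .negSucc 24⟩, ⟨.ofNat 1541, .ofNat 123, .negSucc 108, .negSucc 304, .negSucc 239, .negSucc 60⟩, ⟨.negSucc 3730, .negSucc 0, .ofNat 0, .ofNat 114, .ofNat 176, .ofNat 397⟩, ⟨.negSucc 439, .negSucc 21, .negSucc 32, .negSucc 104, .ofNat 101, .ofNat 75⟩, .ofNat 466, .ofNat 240, .ofNat 0, .ofNat 240, .ofNat 2031, .ofNat 0, .ofNat 322, .negSucc 115, .negSucc 59, .ofNat 0, .ofNat 128, .ofNat 11, .ofNat 0, .ofNat 0, .ofNat 768, .ofNat 11724, .ofNat 0, .ofNat 0, .ofNat 0, .ofNat 0, .ofNat 0, .ofNat 0, .ofNat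 0, .ofNat 0, .ofNat 0, .ofNat 0, .ofNat 0, .ofNat 0, .ofNat 0, .ofNat 0, .ofNat 778748312871313390046846559559420955590656, .ofNat 0⟩)
    (by decide +kernel)
theorem L01366 : Good (Phi V5.P V5.D (-1) (-1)) ⟨4, 10, 2, 0, 3, 4, 3, 3, 4, 5⟩ :=
  leafX_sound T5.ok_mm T5.Ymm.bz_eq (w := 227) (c := ⟨⟨.negSucc 1967, .negSucc 125, .ofNat 47, .ofNat 108, .ofNat 103, .ofNat 242⟩, ⟨.ofNat 207, .ofNat 91, .ofNat 306, .negSucc 27, .negSucc 18, .negSucc 49⟩, ⟨.ofNat 1822, .ofNat 82, .negSucc 154, .negSucc 416, .negSucc 303, .negSucc 158⟩, ⟨.negSucc 3826, .negSucc 12, .ofNat 11, .ofNat 169, .ofNat 221, .ofNat 468⟩, ⟨.negSucc 446, .negSucc 3, .negSucc 30, .negSucc 125, .ofNat 114, .ofNat 85⟩, .ofNat 319, .ofNat 98, .ofNat 0, .ofNat 98, .ofNat 725, .ofNat 0, .ofNat 280, .negSucc 71, .negSucc 90, .ofNat 0, .ofNat 128, .ofNat 25, .ofNat 0, .ofNat 0, .ofNat 889, .ofNat 12780, .ofNat 22123824678865298268408198634509110946184560640,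 .ofNat 0, .ofNat 0, .ofNat 0, .ofNat 0, .ofNat 0, .ofNat 0, .ofNat 0, .ofNat 0, .ofNat 0, .ofNat 0, .ofNat 0, .ofNat 0, .ofNat 0, .ofNat 0, .ofNat 0⟩)
    (by decide +kernel)
theorem L01367 : Good (Phi V5.P V5.D (-1) (-1)) ⟨4, 11, 2, 0, 3, 4, 3, 3, 4, 5⟩ :=
  leafX_sound T5.ok_mm T5.Ymm.bz_eq (w := 226) (c := ⟨⟨.negSucc 2128, .negSucc 134, .ofNat 40, .ofNat 124, .ofNat 114, .ofNat 287⟩, ⟨.ofNat 311, .ofNat 113, .ofNat 317, .negSucc 41, .negSucc 17, .negSucc 70⟩, ⟨.ofNat 1982, .ofNat 92, .negSucc 175, .negSucc 461, .negSucc 347, .negSucc 212⟩, ⟨.negSucc 3872, .negSucc 13, .ofNat 1, .ofNat 181, .ofNat 228, .ofNat 519⟩, ⟨.negSucc 432, .negSucc 12, .negSucc 31, .negSucc 136, .ofNat 109, .ofNat 81⟩, .ofNat 310, .ofNat 110, .ofNat 0, .ofNat 110, .ofNat 640, .ofNat 0, .ofNat 161, .negSucc 78, .negSucc 57, .ofNat 0, .ofNat 128, .ofNat 19, .ofNat 0, .ofNat 0, .ofNat 512, .ofNat 6849, .ofNat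 17841450118899626415202683028298172044765298688, .ofNat 0, .ofNat 0, .ofNat 0, .ofNat 0, .ofNat 0, .ofNat 0, .ofNat 0, .ofNat 0, .ofNat 0, .ofNat 0, .ofNat 0, .ofNat 0, .ofNat 0, .ofNat 0, .ofNat 0⟩)
    (by decide +kernel)
theorem L01368 : Good (Phi V5.P V5.D (-1) (-1)) ⟨2, 2, 2, 0, 3, 5, 3, 2, 5, 10⟩ :=
  leafX_sound T5.ok_mm T5.Ymm.bz_eq (w := 223) (c := ⟨⟨.negSucc 1739, .negSucc 453, .ofNat 33, .ofNat 177, .ofNat 84, .ofNat 128⟩, ⟨.ofNat 25, .ofNat 317, .ofNat 340, .negSucc 37, .negSucc 12, .negSucc 16⟩, ⟨.ofNat 1661, .ofNat 300, .negSucc 234, .negSucc 444, .negSucc 327, .negSucc 91⟩, ⟨.negSucc 3824, .negSucc 38, .negSucc 36, .ofNat 304, .ofNat 178, .ofNat 256⟩, ⟨.negSucc 732, .negSucc 57, .negSucc 6, .negSucc 128, .ofNat 132, .ofNat 92⟩, .ofNat 321, .ofNat 84, .ofNat 0, .ofNat 84, .ofNat 712, .ofNat 0, .ofNat 230, .negSucc 63, .negSucc 59, .ofNat 0, .ofNat 128, .ofNat 21,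 .ofNat 0, .ofNat 0, .ofNat 734, .ofNat 11483, .ofNat 0, .ofNat 0, .ofNat 0, .ofNat 0, .ofNat 0, .ofNat 0, .ofNat 0, .ofNat 0, .ofNat 0, .ofNat 0, .ofNat 0, .ofNat 0, .ofNat 0, .ofNat 0, .ofNat 0, .ofNat 0⟩)
    (by decide +kernel)
theorem L01369 : Good (Phi V5.P V5.D (-1) (-1)) ⟨2, 2, 2, 0, 3, 5, 3, 2, 5, 11⟩ :=
  leafX_sound T5.ok_mm T5.Ymm.bz_eq (w := 224) (c := ⟨⟨.negSucc 1619, .negSucc 388, .ofNat 31, .ofNat 164, .ofNat 72, .ofNat 111⟩, ⟨.ofNat 21, .ofNat 289, .ofNat 313, .negSucc 35, .negSucc 4, .negSucc 12⟩, ⟨.ofNat 1630, .ofNat 177, .negSucc 193, .negSucc 473, .negSucc 351, .negSucc 85⟩, ⟨.negSucc 3583, .ofNat 41, .negSucc 36, .ofNat 283, .ofNat 172, .ofNat 231⟩, ⟨.negSucc 659, .negSucc 44, .negSucc 28, .negSucc 93, .ofNat 142, .ofNat 58⟩, .ofNat 323, .ofNat 83, .ofNat 0, .ofNat 83, .ofNat 724, .ofNat 0, .ofNat 246, .negSucc 59, .negSucc 40, .ofNat 0, .ofNat 128, .ofNat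 14, .ofNat 0, .ofNat 0, .ofNat 1042, .ofNat 13048, .ofNat 1355020391602461902814454280316809567375720448, .ofNat 0, .ofNat 5270541992965347926116833561893414503448576, .ofNat 0, .ofNat 0, .ofNat 0, .ofNat 0, .ofNat 0, .ofNat 0, .ofNat 0, .ofNat 0, .ofNat 0, .ofNat 0, .ofNat 187770816871890023196812527018486895002779648, .ofNat 0, .ofNat 0⟩)
    (by decide +kernel)
theorem L01370 : Good (Phi V5.P V5.D (-1) (-1)) ⟨2, 2, 2, 0, 3, 5, 3, 3, 4, 5⟩ :=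
  leafX_sound T5.ok_mm T5.Ymm.bz_eq (w := 217) (c := ⟨⟨.negSucc 1643, .negSucc 409, .ofNat 37, .ofNat 142, .ofNat 72, .ofNat 216⟩, ⟨.ofNat 35, .ofNat 286, .ofNat 300, .negSucc 24, .negSucc 6, .negSucc 33⟩, ⟨.ofNat 1403, .ofNat 114, .negSucc 193, .negSucc 417, .negSucc 292, .negSucc 224⟩, ⟨.negSucc 3630, .ofNat 18, .negSucc 18, .ofNat 262, .ofNat 174, .ofNat 441⟩, ⟨.negSucc 637, .negSucc 68, .negSucc 4, .negSucc 53, .ofNat 184, .ofNat 180⟩, .ofNat 322, .ofNat 82, .ofNat 0, .ofNat 82, .ofNat 720, .ofNat 0, .ofNat 286, .negSucc 60, .negSucc 59, .ofNat 0, .ofNat 128, .ofNat 14, .ofNat 0, .ofNat 0, .ofNat 1210, .ofNat 3697, .ofNat 0, .ofNat 0, .ofNat 0, .ofNat 0, .ofNat 0, .ofNat 0, .ofNat 0, .ofNat 0, .ofNat 0, .ofNat 0, .ofNat 0, .ofNat 0, .ofNat 0, .ofNat 41195209152223575398191780687778821640814592, .ofNat 0, .ofNat 0⟩)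
    (by decide +kernel)
theorem L01371 : Good (Phi V5.P V5.D (-1) (-1)) ⟨3, 6, 2, 0, 2, 2, 2, 1, 4, 4⟩ :=
  leafX_sound T5.ok_mm T5.Ymm.bz_eq (w := 203) (c := ⟨⟨.negSucc 2957, .negSucc 431, .ofNat 93, .ofNat 443, .ofNat 281, .ofNat 483⟩, ⟨.ofNat 620, .ofNat 297, .ofNat 359, .negSucc 203, .negSucc 78, .negSucc 162⟩, ⟨.ofNat 2857, .ofNat 356, .negSucc 294, .negSucc 994, .negSucc 663, .negSucc 345⟩, ⟨.negSucc 4994, .negSucc 217, .ofNat 43, .ofNat 531, .ofNat 532, .ofNat 822⟩, ⟨.negSucc 551, .negSucc 58, .negSucc 28, .negSucc 518, .ofNat 196, .ofNat 95⟩, .ofNat 315, .ofNat 146, .ofNat 0, .ofNat 146, .ofNat 615, .ofNat 0, .ofNat 193, .negSucc 104, .negSucc 86, .ofNat 0, .ofNat 128, .ofNat 38, .ofNat 0, .ofNat 0, .ofNat 411, .ofNat 2506, .ofNat 6333530206293421340834951485932957597696, .ofNat 0, .ofNat 81814091998150632344060830806966272, .ofNat 0, .ofNat 0, .ofNat 0, .ofNat 2518616779058568189440498601964863488,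 .ofNat 0, .ofNat 0, .ofNat 0, .ofNat 5338674867171046619397759100935733248, .ofNat 0, .ofNat 0, .ofNat 0, .ofNat 21462781383433208315146748649369763840, .ofNat 0⟩)
    (by decide +kernel)
theorem L01372 : Good (Phi V5.P V5.D (-1) (-1)) ⟨3, 6, 2, 0, 2, 2, 4, 4, 5, 10⟩ :=
  leafX_sound T5.ok_mm T5.Ymm.bz_eq (w := 219) (c := ⟨⟨.negSucc 2456, .negSucc 321, .ofNat 57, .ofNat 427, .ofNat 63, .ofNat 170⟩, ⟨.ofNat 465, .ofNat 226, .ofNat 356, .negSucc 189, .negSucc 17, .negSucc 52⟩, ⟨.ofNat 2575, .ofNat 208, .negSucc 247, .negSucc 1070, .negSucc 214, .negSucc 129⟩, ⟨.negSucc 4167, .negSucc 84, .ofNat 0, .ofNat 537, .ofNat 117, .ofNat 299⟩, ⟨.negSucc 485, .negSucc 22, .negSucc 38, .negSucc 445, .ofNat 48, .ofNat 61⟩, .ofNat 524, .ofNat 403, .ofNat 0, .ofNat 403, .ofNat 1207, .ofNat 0, .ofNat 174, .negSucc 113, .negSucc 78, .ofNat 0, .ofNat 128, .ofNat 41, .ofNat 0, .ofNat 0, .ofNat 612,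 .ofNat 21028, .ofNat 72208364198686077696575374269520568389730304, .ofNat 0, .ofNat 18942367742238903456009004923872805388288, .ofNat 0, .ofNat 0, .ofNat 0, .ofNat 144561802044240150469403184761598059216896, .ofNat 0, .ofNat 0, .ofNat 0, .ofNat 468776136875353126613927735714277956255744, .ofNat 0, .ofNat 0, .ofNat 0, .ofNat 437250475597294915979015193451961398591488, .ofNat 0⟩)
    (by decide +kernel)
theorem L01373 : Good (Phi V5.P V5.D (-1) (-1)) ⟨3, 6, 2, 0, 2, 2, 4, 5, 5, 10⟩ :=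
  leafX_sound T5.ok_mm T5.Ymm.bz_eq (w := 218) (c := ⟨⟨.negSucc 2430, .negSucc 326, .ofNat 91, .ofNat 420, .ofNat 73, .ofNat 172⟩, ⟨.ofNat 481, .ofNat 241, .ofNat 321, .negSucc 185, .negSucc 21, .negSucc 57⟩, ⟨.ofNat 2426, .ofNat 205, .negSucc 279, .negSucc 1119, .negSucc 196, .negSucc 133⟩, ⟨.negSucc 4096, .negSucc 76, .ofNat 41, .ofNat 535, .ofNat 134, .ofNat 298⟩, ⟨.negSucc 449, .ofNat 1, .negSucc 46, .negSucc 407, .ofNat 46, .ofNat 52⟩, .ofNat 474, .ofNat 382, .ofNat 0, .ofNat 382, .ofNat 1267, .ofNat 0, .ofNat 172, .negSucc 127, .negSucc 46, .ofNat 0, .ofNat 115, .ofNat 20, .ofNat 0, .ofNat 0, .ofNat 447, .ofNat 8658, .ofNat 26992903275776164511177731347778384452124672, .ofNat 0, .ofNat 4268147878945823385061709546682593574912, .ofNat 0, .ofNat 0, .ofNat 0, .ofNat 158817458756749349505751062536663058087936, .ofNat 0, .ofNat 0, .ofNat 0, .ofNat 187738668690911407109251167810737527586816,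 .ofNat 0, .ofNat 0, .ofNat 0, .ofNat 206540619712738945716203683698232256364544, .ofNat 0⟩)
    (by decide +kernel)
theorem L01374 : Good (Phi V5.P V5.D (-1) (-1)) ⟨3, 6, 2, 0, 2, 2, 3, 2, 5, 11⟩ :=
  leafX_sound T5.ok_mm T5.Ymm.bz_eq (w := 213) (c := ⟨⟨.negSucc 2236, .negSucc 268, .ofNat 31, .ofNat 392, .ofNat 94, .ofNat 142⟩, ⟨.ofNat 425, .ofNat 216, .ofNat 321, .negSucc 164, .negSucc 21, .negSucc 43⟩, ⟨.ofNat 2481, .ofNat 107, .negSucc 180, .negSucc 1225, .negSucc 433, .negSucc 122⟩, ⟨.negSucc 3818, .negSucc 21, .negSucc 36, .ofNat 525, .ofNat 199, .ofNat 254⟩, ⟨.negSucc 506, .ofNat 6, .negSucc 46, .negSucc 310, .ofNat 128, .ofNat 57⟩, .ofNat 315, .ofNat 145, .ofNat 0, .ofNat 145, .ofNat 615, .ofNat 0, .ofNat 199, .negSucc 93, .negSucc 42, .ofNat 0, .ofNat 128, .ofNat 19, .ofNat 0, .ofNat 0, .ofNat 630, .ofNat 8092, .ofNat 5850842686953658445751425506827811564814336, .ofNat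 0, .ofNat 388568177808179870755629098688980189184, .ofNat 0, .ofNat 0, .ofNat 0, .ofNat 2126175711951592489272885434600692645888, .ofNat 0, .ofNat 0, .ofNat 0, .ofNat 3423319205075790315639429635225929383936, .ofNat 0, .ofNat 0, .ofNat 206953372931139059822519916062072566185984, .ofNat 14068295573623008477277435056063070076928, .ofNat 0⟩)
    (by decide +kernel)
theorem L01375 : Good (Phi V5.P V5.D (-1) (-1)) ⟨3, 6, 2, 0, 2, 2, 3, 3, 5, 10⟩ :=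
  leafX_sound T5.ok_mm T5.Ymm.bz_eq (w := 212) (c := ⟨⟨.negSucc 2295, .negSucc 292, .ofNat 22, .ofNat 387, .ofNat 142, .ofNat 165⟩, ⟨.ofNat 441, .ofNat 248, .ofNat 334, .negSucc 163, .negSucc 38, .negSucc 52⟩, ⟨.ofNat 2107, .ofNat 95, .negSucc 101, .negSucc 1171, .negSucc 378, .negSucc 157⟩, ⟨.negSucc 3903, .negSucc 4, .negSucc 41, .ofNat 517, .ofNat 276, .ofNat 293⟩, ⟨.negSucc 417, .ofNat 52, .negSucc 72, .negSucc 306, .ofNat 125, .ofNat 68⟩, .ofNat 476, .ofNat 385, .ofNat 0, .ofNat 385, .ofNat 1268, .ofNat 0, .ofNat 128, .negSucc 149, .negSucc 49, .ofNat 0, .ofNat 133, .ofNat 20, .ofNat 0, .ofNat 0, .ofNat 491, .ofNat 3156, .ofNat 0, .ofNat 0, .ofNat 0, .ofNat 0, .ofNat 0, .ofNat 0, .ofNat 1920486342071970496839499574795479023616, .ofNat 0, .ofNat 0, .ofNat 0, .ofNat 7114371195092628500588936129171880411136, .ofNat 0, .ofNat 0, .ofNat 0, .ofNat 8528568833777116390967199887907635593216,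 .ofNat 0⟩)
    (by decide +kernel)
theorem L01376 : Good (Phi V5.P V5.D (-1) (-1)) ⟨3, 6, 2, 0, 2, 2, 3, 3, 5, 11⟩ :=
  leafX_sound T5.ok_mm T5.Ymm.bz_eq (w := 213) (c := ⟨⟨.negSucc 2125, .negSucc 258, .ofNat 30, .ofNat 355, .ofNat 124, .ofNat 135⟩, ⟨.ofNat 418, .ofNat 223, .ofNat 298, .negSucc 145, .negSucc 31, .negSucc 45⟩, ⟨.ofNat 2069, .ofNat 96, .negSucc 183, .negSucc 1313, .negSucc 405, .negSucc 127⟩, ⟨.negSucc 3608, .negSucc 4, .negSucc 23, .ofNat 499, .ofNat 246, .ofNat 230⟩, ⟨.negSucc 405, .negSucc 12, .negSucc 31, .negSucc 210, .ofNat 124, .ofNat 36⟩, .ofNat 478, .ofNat 389, .ofNat 0, .ofNat 389, .ofNat 1278, .ofNat 0, .ofNat 128, .negSucc 153, .negSucc 38, .ofNat 0, .ofNat 140, .ofNat 14, .ofNat 0, .ofNat 0, .ofNat 849, .ofNat 4115, .ofNat 2571332790763290643233266384767606583197696, .ofNat 0, .ofNat 127562362496937347544135808520529379328, .ofNat 0, .ofNat 0, .ofNat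 0, .ofNat 12591620896099519766026429806077808738304, .ofNat 0, .ofNat 0, .ofNat 250036662215170804876814836994518607200256, .ofNat 13053596730726091717557721858690785476608, .ofNat 0, .ofNat 0, .ofNat 568799822478575642325866419528444516761600, .ofNat 22924576319393591953136355285985681997824, .ofNat 0⟩)
    (by decide +kernel)
theorem L01377 : Good (Phi V5.P V5.D (-1) (-1)) ⟨3, 7, 2, 0, 2, 2, 2, 1, 3, 2⟩ :=
  out_sound (S := T5.ds_mm) T5.ok_mm (w := 43) (j := 3) (by decide +kernel)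
theorem L01378 : Good (Phi V5.P V5.D (-1) (-1)) ⟨2, 2, 2, 0, 3, 4, 3, 2, 4, 6⟩ :=
  leafX_sound T5.ok_mm T5.Ymm.bz_eq (w := 222) (c := ⟨⟨.negSucc 1584, .negSucc 391, .ofNat 30, .ofNat 125, .ofNat 30, .ofNat 174⟩, ⟨.negSucc 1, .ofNat 294, .ofNat 291, .negSucc 26, .ofNat 34, .negSucc 17⟩, ⟨.ofNat 2028, .ofNat 136, .negSucc 176, .negSucc 482, .negSucc 324, .negSucc 105⟩, ⟨.negSucc 3572, .ofNat 39, .negSucc 19, .ofNat 221, .ofNat 164, .ofNat 374⟩, ⟨.negSucc 494, .negSucc 17, .negSucc 20, .negSucc 106, .ofNat 126, .ofNat 127⟩, .ofNat 170, .ofNat 14, .ofNat 0, .ofNat 14, .ofNat 243, .ofNat 0, .ofNat 206, .negSucc 25, .negSucc 61, .ofNat 0, .ofNat 128, .ofNat 23, .ofNat 0, .ofNat 0, .ofNat 931, .ofNat 141638, .ofNat 4358933341758180135024748582106043380460945408, .ofNat 0, .ofNat 0, .ofNat 0, .ofNat 4090702358665821430597134739087693482031054848, .ofNat 0, .ofNat 1697285754987287411575619694752230012878848,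 .ofNat 0, .ofNat 2345279142033955431755875546146877856613924864, .ofNat 0, .ofNat 954598729650599697694713843247467326341120, .ofNat 0, .ofNat 7759714877456186531963018414070901463098327040, .ofNat 0, .ofNat 8210959424195677479410728439836076989743104, .ofNat 0⟩)
    (by decide +kernel)
theorem L01379 : Good (Phi V5.P V5.D (-1) (-1)) ⟨3, 4, 2, 0, 3, 4, 3, 3, 4, 6⟩ :=
  leafX_sound T5.ok_mm T5.Ymm.bz_eq (w := 224) (c := ⟨⟨.negSucc 1510, .negSucc 167, .ofNat 16, .ofNat 75, .ofNat 77, .ofNat 140⟩, ⟨.ofNat 30, .ofNat 125, .ofNat 269, .negSucc 10, .negSucc 1, .negSucc 18⟩, ⟨.ofNat 1548, .ofNat 29, .negSucc 41, .negSucc 365, .negSucc 283, .negSucc 82⟩, ⟨.negSucc 3338, .ofNat 43, .negSucc 19, .ofNat 143, .ofNat 168, .ofNat 301⟩, ⟨.negSucc 406, .negSucc 4, .negSucc 11, .negSucc 48, .ofNat 128, .ofNat 88⟩, .ofNat 462, .ofNat 210, .ofNat 0, .ofNat 210, .ofNat 1964, .ofNat 0, .ofNat 238,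 .negSucc 97, .negSucc 38, .ofNat 0, .ofNat 128, .ofNat 3, .ofNat 0, .ofNat 0, .ofNat 1812, .ofNat 26868, .ofNat 7320052920588171229389814581007346495595216896, .ofNat 0, .ofNat 0, .ofNat 0, .ofNat 0, .ofNat 0, .ofNat 2939629728977768427193933592461671468630016, .ofNat 0, .ofNat 47217107904001643655818129203073809435148156928, .ofNat 0, .ofNat 0, .ofNat 0, .ofNat 0, .ofNat 1209086439338729332952441088135718226834227200, .ofNat 14523811042553904100528802301283039642124288, .ofNat 0⟩)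
    (by decide +kernel)
theorem L01380 : Good (Phi V5.P V5.D (-1) (-1)) ⟨3, 5, 2, 0, 3, 4, 3, 3, 4, 6⟩ :=
  leafX_sound T5.ok_mm T5.Ymm.bz_eq (w := 223) (c := ⟨⟨.negSucc 1728, .negSucc 208, .ofNat 18, .ofNat 111, .ofNat 99, .ofNat 175⟩, ⟨.ofNat 176, .ofNat 179, .ofNat 277, .negSucc 28, .negSucc 13, .negSucc 41⟩, ⟨.ofNat 1825, .ofNat 29, .negSucc 90, .negSucc 564, .negSucc 435, .negSucc 234⟩, ⟨.negSucc 3366, .ofNat 32, .negSucc 20, .ofNat 182, .ofNat 210, .ofNat 343⟩, ⟨.negSucc 425, .ofNat 15, .negSucc 28, .negSucc 39, .ofNat 146, .ofNat 117⟩, .ofNat 314, .ofNat 104, .ofNat 0, .ofNat 104, .ofNat 685, .ofNat 0, .ofNat 152, .negSucc 70, .negSucc 36, .ofNat 0, .ofNat 128, .ofNat 6, .ofNat 0, .ofNat 0, .ofNat 1199, .ofNat 10012, .ofNat 4368799637391298665837729636073212951530569728, .ofNat 0, .ofNat 115072878546240715729943255668411336753152, .ofNat 0, .ofNat 0, .ofNat 42760762324198797401358102903269044422443008,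 .ofNat 2062515429634784273162667781445661285679104, .ofNat 0, .ofNat 0, .ofNat 0, .ofNat 0, .ofNat 0, .ofNat 0, .ofNat 652296239688616373254214267961703489836417024, .ofNat 0, .ofNat 0⟩)
    (by decide +kernel)
theorem L01381 : Good (Phi V5.P V5.D (-1) (-1)) ⟨2, 2, 2, 0, 3, 5, 3, 2, 4, 6⟩ :=
  leafX_sound T5.ok_mm T5.Ymm.bz_eq (w := 218) (c := ⟨⟨.negSucc 1483, .negSucc 344, .negSucc 1, .ofNat 130, .ofNat 49, .ofNat 181⟩, ⟨.ofNat 18, .ofNat 280, .ofNat 301, .negSucc 27, .negSucc 10, .negSucc 36⟩, ⟨.ofNat 1628, .ofNat 6, .negSucc 170, .negSucc 492, .negSucc 338, .negSucc 333⟩, ⟨.negSucc 3312, .ofNat 86, .negSucc 73, .ofNat 240, .ofNat 128, .ofNat 374⟩, ⟨.negSucc 644, .negSucc 45, .negSucc 2, .negSucc 47, .ofNat 166, .ofNat 168⟩, .ofNat 322, .ofNat 92, .ofNat 0, .ofNat 92, .ofNat 713, .ofNat 0, .ofNat 171, .negSucc 62, .negSucc 5, .ofNat 0, .ofNat 128, .ofNat 1, .ofNat 0, .ofNat 0,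 .ofNat 1191, .ofNat 9732, .ofNat 273911408989018596347434182208651932404285440, .ofNat 0, .ofNat 708851921442773687805405692449724450209792, .ofNat 0, .ofNat 496791461992619880271388208408397921352941568, .ofNat 7637121602632983778620858872717278483316736, .ofNat 3964701641828421110842926398067827858735104, .ofNat 0, .ofNat 0, .ofNat 0, .ofNat 0, .ofNat 0, .ofNat 3379957146037893168175055811707362822775111680, .ofNat 70127311794969781410985909128582100257079296, .ofNat 0, .ofNat 0⟩)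
    (by decide +kernel)
theorem L01382 : Good (Phi V5.P V5.D (-1) (-1)) ⟨2, 2, 2, 0, 3, 5, 3, 3, 4, 6⟩ :=
  leafX_sound T5.ok_mm T5.Ymm.bz_eq (w := 215) (c := ⟨⟨.negSucc 1426, .negSucc 326, .negSucc 0, .ofNat 121, .ofNat 61, .ofNat 147⟩, ⟨.ofNat 19, .ofNat 271, .ofNat 275, .negSucc 27, .negSucc 5, .negSucc 19⟩, ⟨.ofNat 1339, .negSucc 194, .negSucc 232, .negSucc 449, .negSucc 344, .negSucc 215⟩, ⟨.negSucc 3180, .ofNat 114, .negSucc 54, .ofNat 217, .ofNat 157, .ofNat 324⟩, ⟨.negSucc 490, .negSucc 11, .negSucc 0, .negSucc 51, .ofNat 179, .ofNat 138⟩, .ofNat 322, .ofNat 86, .ofNat 0, .ofNat 86, .ofNat 722, .ofNat 0, .ofNat 128, .negSucc 76, .ofNat 7, .ofNat 0, .ofNat 165, .negSucc 8, .ofNat 0, .ofNat 0, .ofNat 1300, .ofNat 666, .ofNat 6826531626539733161853406333056462127890432, .ofNat 0, .ofNat 0, .ofNat 0, .ofNat 0, .ofNat 3916644054371505996216457300515028635484160, .ofNat 0, .ofNat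 0, .ofNat 0, .ofNat 0, .ofNat 0, .ofNat 0, .ofNat 0, .ofNat 57189942163261782672707270096623617544552448, .ofNat 0, .ofNat 0⟩)
    (by decide +kernel)
theorem L01383 : Good (Phi V5.P V5.D (-1) (-1)) ⟨2, 2, 2, 0, 3, 4, 3, 2, 4, 7⟩ :=
  out_sound (S := T5.ds_mm) T5.ok_mm (w := 27) (j := 1) (by decide +kernel)
theorem L01384 : Good (Phi V5.P V5.D (-1) (-1)) ⟨2, 2, 2, 0, 4, 8, 3, 3, 5, 14⟩ :=
  out_sound (S := T5.ds_mm) T5.ok_mm (w := 31) (j := 1) (by decide +kernel)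
theorem L01385 : Good (Phi V5.P V5.D (-1) (-1)) ⟨2, 2, 2, 0, 4, 9, 4, 6, 5, 14⟩ :=
  out_sound (S := T5.ds_mm) T5.ok_mm (w := 32) (j := 1) (by decide +kernel)
theorem L01386 : Good (Phi V5.P V5.D (-1) (-1)) ⟨2, 2, 2, 0, 5, 18, 4, 7, 6, 28⟩ :=
  leafX_sound T5.ok_mm T5.Ymm.bz_eq (w := 267) (c := ⟨⟨.negSucc 1362, .negSucc 328, .negSucc 9, .negSucc 0, .ofNat 125, .ofNat 1⟩, ⟨.ofNat 233, .ofNat 284, .ofNat 239, .ofNat 0, .negSucc 224, .ofNat 0⟩, ⟨.ofNat 818, .negSucc 543, .negSucc 98, .ofNat 0, .ofNat 230, .ofNat 0⟩, ⟨.negSucc 2855, .ofNat 116, .negSucc 46, .negSucc 0, .ofNat 88, .ofNat 1⟩, ⟨.negSucc 262, .ofNat 72, .negSucc 8, .ofNat 0, .ofNat 42, .ofNat 0⟩, .ofNat 170, .ofNat 14, .ofNat 0, .ofNat 14, .ofNat 241, .ofNat 0, .ofNat 128, .negSucc 29, .ofNat 29, .ofNat 0, .ofNat 170, .negSucc 37, .ofNat 0, .ofNat 0, .ofNat 944, .ofNat 1081738, .ofNat 511492122144264783183646871518804405136623000670227660800,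 .ofNat 1019146490072725379261086161304402861458823444187578368, .ofNat 567996565854014251730858824325456491415012999553221656576, .ofNat 0, .ofNat 42236728552385888825332615519933231277578570999145693184, .ofNat 33584394000702744637200471712408031430629816260362240, .ofNat 0, .ofNat 0, .ofNat 197673562189312620648535708391637873710843454519248945152, .ofNat 836808610651023148602108935986677205826482089096118272, .ofNat 0, .ofNat 0, .ofNat 190317232647328238236893436230458733140823133714428985344, .ofNat 0, .ofNat 0, .ofNat 0⟩)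
    (by decide +kernel)
theorem L01387 : Good (Phi V5.P V5.D (-1) (-1)) ⟨2, 2, 2, 0, 5, 19, 6, 28, 7, 56⟩ :=
  out_sound (S := T5.ds_mm) T5.ok_mm (w := 40) (j := 1) (by decide +kernel)
theorem L01388 : Good (Phi V5.P V5.D (-1) (-1)) ⟨2, 2, 2, 0, 6, 38, 6, 29, 7, 56⟩ :=
  out_sound (S := T5.ds_mm) T5.ok_mm (w := 42) (j := 1) (by decide +kernel)
theorem L01389 : Good (Phi V5.P V5.D (-1) (-1)) ⟨2, 2, 2, 0, 6, 39, 6, 29, 7, 56⟩ :=
  out_sound (S := T5.ds_mm) T5.ok_mm (w := 52) (j := 2) (by decide +kernel)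
theorem L01390 : Good (Phi V5.P V5.D (-1) (-1)) ⟨2, 2, 2, 0, 5, 19, 5, 14, 7, 57⟩ :=
  out_sound (S := T5.ds_mm) T5.ok_mm (w := 39) (j := 1) (by decide +kernel)
theorem L01391 : Good (Phi V5.P V5.D (-1) (-1)) ⟨2, 2, 2, 0, 7, 76, 6, 30, 7, 56⟩ :=
  out_sound (S := T5.ds_mm) T5.ok_mm (w := 44) (j := 1) (by decide +kernel)
theorem L01392 : Good (Phi V5.P V5.D (-1) (-1)) ⟨2, 2, 2, 0, 8, 152, 8, 124, 9, 224⟩ :=
  out_sound (S := T5.ds_mm) T5.ok_mm (w := 52) (j := 1) (by decide +kernel)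
theorem L01393 : Good (Phi V5.P V5.D (-1) (-1)) ⟨2, 2, 2, 0, 8, 152, 9, 250, 10, 448⟩ :=
  out_sound (S := T5.ds_mm) T5.ok_mm (w := 55) (j := 1) (by decide +kernel)
theorem L01394 : Good (Phi V5.P V5.D (-1) (-1)) ⟨2, 2, 2, 0, 9, 304, 9, 251, 10, 448⟩ :=
  out_sound (S := T5.ds_mm) T5.ok_mm (w := 57) (j := 1) (by decide +kernel)
theorem L01395 : Good (Phi V5.P V5.D (-1) (-1)) ⟨2, 2, 2, 0, 9, 305, 9, 251, 10, 448⟩ :=
  out_sound (S := T5.ds_mm) T5.ok_mm (w := 70) (j := 2) (by decide +kernel)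
theorem L01396 : Good (Phi V5.P V5.D (-1) (-1)) ⟨2, 2, 2, 0, 8, 152, 8, 125, 10, 449⟩ :=
  out_sound (S := T5.ds_mm) T5.ok_mm (w := 54) (j := 1) (by decide +kernel)
theorem L01397 : Good (Phi V5.P V5.D (-1) (-1)) ⟨2, 2, 2, 0, 8, 152, 7, 62, 9, 225⟩ :=
  out_sound (S := T5.ds_mm) T5.ok_mm (w := 51) (j := 1) (by decide +kernel)
theorem L01398 : Good (Phi V5.P V5.D (-1) (-1)) ⟨2, 2, 2, 0, 10, 608, 9, 252, 10, 448⟩ :=
  out_sound (S := T5.ds_mm) T5.ok_mm (w := 59) (j := 1) (by decide +kernel)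
theorem L01399 : Good (Phi V5.P V5.D (-1) (-1)) ⟨2, 2, 2, 0, 11, 1216, 10, 506, 11, 896⟩ :=
  out_sound (S := T5.ds_mm) T5.ok_mm (w := 64) (j := 1) (by decide +kernel)
theorem L01400 : Good (Phi V5.P V5.D (-1) (-1)) ⟨2, 2, 2, 0, 11, 1216, 10, 507, 11, 896⟩ :=
  out_sound (S := T5.ds_mm) T5.ok_mm (w := 78) (j := 2) (by decide +kernel)
theorem L01401 : Good (Phi V5.P V5.D (-1) (-1)) ⟨2, 2, 2, 0, 11, 1217, 9, 253, 11, 896⟩ :=
  out_sound (S := T5.ds_mm) T5.ok_mm (w := 76) (j := 2) (by decide +kernel)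
theorem L01402 : Good (Phi V5.P V5.D (-1) (-1)) ⟨2, 2, 2, 0, 10, 608, 9, 253, 11, 897⟩ :=
  out_sound (S := T5.ds_mm) T5.ok_mm (w := 74) (j := 2) (by decide +kernel)
theorem L01403 : Good (Phi V5.P V5.D (-1) (-1)) ⟨2, 2, 2, 0, 10, 609, 8, 126, 10, 448⟩ :=
  out_sound (S := T5.ds_mm) T5.ok_mm (w := 70) (j := 2) (by decide +kernel)
theorem L01404 : Good (Phi V5.P V5.D (-1) (-1)) ⟨2, 2, 2, 0, 9, 304, 8, 126, 10, 449⟩ :=
  out_sound (S := T5.ds_mm) T5.ok_mm (w := 56) (j := 1) (by decide +kernel)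
theorem L01405 : Good (Phi V5.P V5.D (-1) (-1)) ⟨2, 2, 2, 0, 9, 304, 8, 127, 9, 224⟩ :=
  out_sound (S := T5.ds_mm) T5.ok_mm (w := 66) (j := 2) (by decide +kernel)
theorem L01406 : Good (Phi V5.P V5.D (-1) (-1)) ⟨2, 2, 2, 0, 9, 305, 7, 63, 9, 224⟩ :=
  out_sound (S := T5.ds_mm) T5.ok_mm (w := 64) (j := 2) (by decide +kernel)
theorem L01407 : Good (Phi V5.P V5.D (-1) (-1)) ⟨2, 2, 2, 0, 8, 152, 7, 63, 9, 225⟩ :=
  out_sound (S := T5.ds_mm) T5.ok_mm (w := 62) (j := 2) (by decide +kernel)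
theorem L01408 : Good (Phi V5.P V5.D (-1) (-1)) ⟨2, 2, 2, 0, 8, 153, 6, 31, 8, 112⟩ :=
  out_sound (S := T5.ds_mm) T5.ok_mm (w := 58) (j := 2) (by decide +kernel)
theorem L01409 : Good (Phi V5.P V5.D (-1) (-1)) ⟨2, 2, 2, 0, 7, 76, 6, 31, 8, 113⟩ :=
  out_sound (S := T5.ds_mm) T5.ok_mm (w := 56) (j := 2) (by decide +kernel)
theorem L01410 : Good (Phi V5.P V5.D (-1) (-1)) ⟨2, 2, 2, 0, 8, 154, 6, 30, 8, 112⟩ :=
  out_sound (S := T5.ds_mm) T5.ok_mm (w := 48) (j := 1) (by decide +kernel)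
theorem L01411 : Good (Phi V5.P V5.D (-1) (-1)) ⟨2, 2, 2, 0, 8, 155, 6, 30, 8, 112⟩ :=
  out_sound (S := T5.ds_mm) T5.ok_mm (w := 58) (j := 2) (by decide +kernel)
theorem L01412 : Good (Phi V5.P V5.D (-1) (-1)) ⟨2, 2, 2, 0, 7, 77, 6, 30, 8, 113⟩ :=
  out_sound (S := T5.ds_mm) T5.ok_mm (w := 46) (j := 1) (by decide +kernel)
theorem L01413 : Good (Phi V5.P V5.D (-1) (-1)) ⟨2, 2, 2, 0, 7, 77, 6, 31, 7, 56⟩ :=
  out_sound (S := T5.ds_mm) T5.ok_mm (w := 54) (j := 2) (by decide +kernel)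
theorem L01414 : Good (Phi V5.P V5.D (-1) (-1)) ⟨2, 2, 2, 0, 6, 38, 5, 15, 7, 57⟩ :=
  out_sound (S := T5.ds_mm) T5.ok_mm (w := 50) (j := 2) (by decide +kernel)
theorem L01415 : Good (Phi V5.P V5.D (-1) (-1)) ⟨2, 2, 2, 0, 6, 39, 5, 15, 6, 28⟩ :=
  out_sound (S := T5.ds_mm) T5.ok_mm (w := 48) (j := 2) (by decide +kernel)
theorem L01416 : Good (Phi V5.P V5.D (-1) (-1)) ⟨2, 2, 2, 0, 4, 9, 4, 7, 6, 29⟩ :=
  out_sound (S := T5.ds_mm) T5.ok_mm (w := 34) (j := 1) (by decide +kernel)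
theorem L01417 : Good (Phi V5.P V5.D (-1) (-1)) ⟨2, 2, 2, 0, 3, 4, 3, 3, 5, 15⟩ :=
  out_sound (S := T5.ds_mm) T5.ok_mm (w := 29) (j := 1) (by decide +kernel)
theorem L01418 : Good (Phi V5.P V5.D (-1) (-1)) ⟨2, 2, 2, 0, 4, 10, 3, 2, 5, 14⟩ :=
  out_sound (S := T5.ds_mm) T5.ok_mm (w := 31) (j := 1) (by decide +kernel)
theorem L01419 : Good (Phi V5.P V5.D (-1) (-1)) ⟨2, 2, 2, 0, 5, 20, 5, 12, 6, 28⟩ :=
  out_sound (S := T5.ds_mm) T5.ok_mm (w := 37) (j := 1) (by decide +kernel)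
theorem L01420 : Good (Phi V5.P V5.D (-1) (-1)) ⟨2, 2, 2, 0, 5, 20, 5, 13, 6, 28⟩ :=
  out_sound (S := T5.ds_mm) T5.ok_mm (w := 46) (j := 2) (by decide +kernel)
theorem L01421 : Good (Phi V5.P V5.D (-1) (-1)) ⟨2, 2, 2, 0, 5, 20, 4, 7, 6, 28⟩ :=
  out_sound (S := T5.ds_mm) T5.ok_mm (w := 44) (j := 2) (by decide +kernel)
theorem L01422 : Good (Phi V5.P V5.D (-1) (-1)) ⟨2, 2, 2, 0, 5, 20, 3, 3, 6, 29⟩ :=
  out_sound (S := T5.ds_mm) T5.ok_mm (w := 42) (j := 2) (by decide +kernel)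
theorem L01423 : Good (Phi V5.P V5.D (-1) (-1)) ⟨2, 2, 2, 0, 5, 21, 3, 3, 5, 14⟩ :=
  out_sound (S := T5.ds_mm) T5.ok_mm (w := 40) (j := 2) (by decide +kernel)
theorem L01424 : Good (Phi V5.P V5.D (-1) (-1)) ⟨2, 2, 2, 0, 4, 10, 2, 1, 5, 15⟩ :=
  out_sound (S := T5.ds_mm) T5.ok_mm (w := 36) (j := 2) (by decide +kernel)
theorem L01425 : Good (Phi V5.P V5.D (-1) (-1)) ⟨2, 2, 2, 0, 4, 11, 2, 1, 4, 7⟩ :=
  out_sound (S := T5.ds_mm) T5.ok_mm (w := 34) (j := 2) (by decide +kernel)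
theorem L01426 : Good (Phi V5.P V5.D (-1) (-1)) ⟨4, 12, 2, 0, 3, 4, 2, 1, 4, 6⟩ :=
  leafX_sound T5.ok_mm T5.Ymm.bz_eq (w := 223) (c := ⟨⟨.negSucc 2039, .negSucc 97, .negSucc 11, .ofNat 127, .ofNat 210, .ofNat 191⟩, ⟨.ofNat 397, .ofNat 103, .ofNat 286, .negSucc 49, .negSucc 50, .negSucc 50⟩, ⟨.ofNat 2495, .ofNat 16, .negSucc 154, .negSucc 735, .negSucc 969, .negSucc 349⟩, ⟨.negSucc 3547, .ofNat 34, .negSucc 59, .ofNat 194, .ofNat 447, .ofNat 356⟩, ⟨.negSucc 606, .negSucc 18, .ofNat 10, .negSucc 40, .ofNat 314, .ofNat 132⟩, .ofNat 469, .ofNat 370, .ofNat 0, .ofNat 370, .ofNat 1247, .ofNat 0, .ofNat 133, .negSucc 127, .negSucc 31, .ofNat 0, .ofNat 121, .ofNat 6, .ofNat 0, .ofNat 0, .ofNat 1531, .ofNat 9573, .ofNat 11857666826290482283122876911103387103418908672, .ofNat 0, .ofNat 1564235997217311717539084177534523277312, .ofNat 0, .ofNat 0, .ofNat 0, .ofNat 102343764455700615363887139461970857558016,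 .ofNat 0, .ofNat 0, .ofNat 50495538458810922921805618150778926782218240, .ofNat 99099996289235211756146699256848766205952, .ofNat 0, .ofNat 0, .ofNat 0, .ofNat 0, .ofNat 0⟩)
    (by decide +kernel)
theorem L01427 : Good (Phi V5.P V5.D (-1) (-1)) ⟨4, 12, 2, 0, 3, 5, 2, 1, 4, 6⟩ :=
  leafX_sound T5.ok_mm T5.Ymm.bz_eq (w := 220) (c := ⟨⟨.negSucc 1871, .negSucc 97, .negSucc 2, .ofNat 198, .ofNat 146, .ofNat 184⟩, ⟨.ofNat 315, .ofNat 86, .ofNat 299, .negSucc 74, .negSucc 13, .negSucc 51⟩, ⟨.ofNat 1991, .negSucc 23, .negSucc 310, .negSucc 792, .negSucc 1067, .negSucc 510⟩, ⟨.negSucc 3295, .ofNat 20, .negSucc 65, .ofNat 303, .ofNat 377, .ofNat 356⟩, ⟨.negSucc 714, .negSucc 4, .ofNat 3, .negSucc 41, .ofNat 399, .ofNat 160⟩, .ofNat 472, .ofNat 376, .ofNat 0, .ofNat 376, .ofNat 1247, .ofNat 0, .ofNat 153, .negSucc 127, .ofNat 7, .ofNat 0, .ofNat 123, .negSucc 5, .ofNat 0, .ofNat 0, .ofNat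 928, .ofNat 1819, .ofNat 1844686506873622422316904743408063126345613312, .ofNat 0, .ofNat 6681292757448609302285016370666272718848, .ofNat 0, .ofNat 0, .ofNat 301697596369085205886948490552742375032094720, .ofNat 20119005329083125635603846040732993323008, .ofNat 0, .ofNat 0, .ofNat 671610478624672312269963531706099711948619776, .ofNat 126813099134026432721408986316813220446208, .ofNat 0, .ofNat 0, .ofNat 2469004410195676863633055069049190350042693632, .ofNat 104362959469622282662756275226227465256960, .ofNat 0⟩)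
    (by decide +kernel)
theorem L01428 : Good (Phi V5.P V5.D (-1) (-1)) ⟨4, 13, 2, 0, 2, 2, 2, 1, 4, 6⟩ :=
  out_sound (S := T5.ds_mm) T5.ok_mm (w := 49) (j := 3) (by decide +kernel)
theorem L01429 : Good (Phi V5.P V5.D (-1) (-1)) ⟨3, 6, 2, 0, 3, 4, 3, 2, 4, 7⟩ :=
  out_sound (S := T5.ds_mm) T5.ok_mm (w := 27) (j := 1) (by decide +kernel)
theorem L01430 : Good (Phi V5.P V5.D (-1) (-1)) ⟨3, 6, 2, 0, 4, 8, 3, 3, 5, 14⟩ :=
  out_sound (S := T5.ds_mm) T5.ok_mm (w := 31) (j := 1) (by decide +kernel)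
theorem L01431 : Good (Phi V5.P V5.D (-1) (-1)) ⟨3, 6, 2, 0, 4, 9, 4, 6, 5, 14⟩ :=
  out_sound (S := T5.ds_mm) T5.ok_mm (w := 32) (j := 1) (by decide +kernel)
theorem L01432 : Good (Phi V5.P V5.D (-1) (-1)) ⟨3, 6, 2, 0, 5, 18, 4, 7, 6, 28⟩ :=
  leafX_sound T5.ok_mm T5.Ymm.bz_eq (w := 272) (c := ⟨⟨.negSucc 1566, .negSucc 216, .negSucc 30, .negSucc 0, .negSucc 0, .ofNat 1⟩, ⟨.ofNat 287, .ofNat 223, .ofNat 250, .ofNat 0, .ofNat 21, .ofNat 0⟩, ⟨.ofNat 999, .negSucc 425, .negSucc 313, .ofNat 0, .negSucc 394, .ofNat 0⟩, ⟨.negSucc 2695, .ofNat 45, .negSucc 65, .negSucc 0, .ofNat 52, .ofNat 1⟩, ⟨.negSucc 318, .ofNat 52, .ofNat 19, .ofNat 0, .ofNat 158, .ofNat 0⟩, .ofNat 163, .ofNat 30, .ofNat 0, .ofNat 30, .ofNat 225, .ofNat 0, .ofNat 145, .negSucc 41, .ofNat 45, .ofNat 0, .ofNat 128, .negSucc 50, .ofNat 0, .ofNat 0, .ofNat 851, .ofNat 1711249, .ofNat 17170832295123832055078378951239320520117764619879508344832,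 .ofNat 0, .ofNat 0, .ofNat 0, .ofNat 1196221039248528703057190493540988790638269675549809967104, .ofNat 0, .ofNat 2087842346993097941695293883653703174542971538235195392, .ofNat 0, .ofNat 616838587704781996185077268044970444395154999209407545344, .ofNat 742960072662043856978518472024517251650793768203845632, .ofNat 14773979155829867065860929647054066706235388123993341952, .ofNat 0, .ofNat 5254058596525652137027459223035343273212372370867626180608, .ofNat 0, .ofNat 40358447730833227560750619834007966269345409873119019008, .ofNat 0⟩)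
    (by decide +kernel)
theorem L01433 : Good (Phi V5.P V5.D (-1) (-1)) ⟨3, 6, 2, 0, 5, 19, 6, 28, 7, 56⟩ :=
  out_sound (S := T5.ds_mm) T5.ok_mm (w := 40) (j := 1) (by decide +kernel)
theorem L01434 : Good (Phi V5.P V5.D (-1) (-1)) ⟨3, 6, 2, 0, 6, 38, 6, 29, 7, 56⟩ :=
  out_sound (S := T5.ds_mm) T5.ok_mm (w := 42) (j := 1) (by decide +kernel)
theorem L01435 : Good (Phi V5.P V5.D (-1) (-1)) ⟨3, 6, 2, 0, 6, 39, 6, 29, 7, 56⟩ :=
  out_sound (S := T5.ds_mm) T5.ok_mm (w := 52) (j := 2) (by decide +kernel)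
theorem L01436 : Good (Phi V5.P V5.D (-1) (-1)) ⟨3, 6, 2, 0, 5, 19, 5, 14, 7, 57⟩ :=
  out_sound (S := T5.ds_mm) T5.ok_mm (w := 39) (j := 1) (by decide +kernel)
theorem L01437 : Good (Phi V5.P V5.D (-1) (-1)) ⟨3, 6, 2, 0, 7, 76, 6, 30, 7, 56⟩ :=
  out_sound (S := T5.ds_mm) T5.ok_mm (w := 44) (j := 1) (by decide +kernel)
theorem L01438 : Good (Phi V5.P V5.D (-1) (-1)) ⟨3, 6, 2, 0, 8, 152, 8, 124, 9, 224⟩ :=
  out_sound (S := T5.ds_mm) T5.ok_mm (w := 52) (j := 1) (by decide +kernel)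
theorem L01439 : Good (Phi V5.P V5.D (-1) (-1)) ⟨3, 6, 2, 0, 8, 152, 9, 250, 10, 448⟩ :=
  out_sound (S := T5.ds_mm) T5.ok_mm (w := 55) (j := 1) (by decide +kernel)
theorem L01440 : Good (Phi V5.P V5.D (-1) (-1)) ⟨3, 6, 2, 0, 9, 304, 9, 251, 10, 448⟩ :=
  out_sound (S := T5.ds_mm) T5.ok_mm (w := 57) (j := 1) (by decide +kernel)
theorem L01441 : Good (Phi V5.P V5.D (-1) (-1)) ⟨3, 6, 2, 0, 9, 305, 9, 251, 10, 448⟩ :=
  out_sound (S := T5.ds_mm) T5.ok_mm (w := 70) (j := 2) (by decide +kernel)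
theorem L01442 : Good (Phi V5.P V5.D (-1) (-1)) ⟨3, 6, 2, 0, 8, 152, 8, 125, 10, 449⟩ :=
  out_sound (S := T5.ds_mm) T5.ok_mm (w := 54) (j := 1) (by decide +kernel)
theorem L01443 : Good (Phi V5.P V5.D (-1) (-1)) ⟨3, 6, 2, 0, 8, 152, 7, 62, 9, 225⟩ :=
  out_sound (S := T5.ds_mm) T5.ok_mm (w := 51) (j := 1) (by decide +kernel)
theorem L01444 : Good (Phi V5.P V5.D (-1) (-1)) ⟨3, 6, 2, 0, 10, 608, 9, 252, 10, 448⟩ :=
  out_sound (S := T5.ds_mm) T5.ok_mm (w := 59) (j := 1) (by decide +kernel)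
theorem L01445 : Good (Phi V5.P V5.D (-1) (-1)) ⟨3, 6, 2, 0, 11, 1216, 10, 506, 11, 896⟩ :=
  out_sound (S := T5.ds_mm) T5.ok_mm (w := 64) (j := 1) (by decide +kernel)
theorem L01446 : Good (Phi V5.P V5.D (-1) (-1)) ⟨3, 6, 2, 0, 11, 1216, 10, 507, 11, 896⟩ :=
  out_sound (S := T5.ds_mm) T5.ok_mm (w := 78) (j := 2) (by decide +kernel)
theorem L01447 : Good (Phi V5.P V5.D (-1) (-1)) ⟨3, 6, 2, 0, 11, 1217, 9, 253, 11, 896⟩ :=
  out_sound (S := T5.ds_mm) T5.ok_mm (w := 76) (j := 2) (by decide +kernel)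
theorem L01448 : Good (Phi V5.P V5.D (-1) (-1)) ⟨3, 6, 2, 0, 10, 608, 9, 253, 11, 897⟩ :=
  out_sound (S := T5.ds_mm) T5.ok_mm (w := 74) (j := 2) (by decide +kernel)
theorem L01449 : Good (Phi V5.P V5.D (-1) (-1)) ⟨3, 6, 2, 0, 10, 609, 8, 126, 10, 448⟩ :=
  out_sound (S := T5.ds_mm) T5.ok_mm (w := 70) (j := 2) (by decide +kernel)
theorem L01450 : Good (Phi V5.P V5.D (-1) (-1)) ⟨3, 6, 2, 0, 9, 304, 8, 126, 10, 449⟩ :=
  out_sound (S := T5.ds_mm) T5.ok_mm (w := 56) (j := 1) (by decide +kernel)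
theorem L01451 : Good (Phi V5.P V5.D (-1) (-1)) ⟨3, 6, 2, 0, 9, 304, 8, 127, 9, 224⟩ :=
  out_sound (S := T5.ds_mm) T5.ok_mm (w := 66) (j := 2) (by decide +kernel)
theorem L01452 : Good (Phi V5.P V5.D (-1) (-1)) ⟨3, 6, 2, 0, 9, 305, 7, 63, 9, 224⟩ :=
  out_sound (S := T5.ds_mm) T5.ok_mm (w := 64) (j := 2) (by decide +kernel)
theorem L01453 : Good (Phi V5.P V5.D (-1) (-1)) ⟨3, 6, 2, 0, 8, 152, 7, 63, 9, 225⟩ :=
  out_sound (S := T5.ds_mm) T5.ok_mm (w := 62) (j := 2) (by decide +kernel)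
theorem L01454 : Good (Phi V5.P V5.D (-1) (-1)) ⟨3, 6, 2, 0, 8, 153, 6, 31, 8, 112⟩ :=
  out_sound (S := T5.ds_mm) T5.ok_mm (w := 58) (j := 2) (by decide +kernel)
theorem L01455 : Good (Phi V5.P V5.D (-1) (-1)) ⟨3, 6, 2, 0, 7, 76, 6, 31, 8, 113⟩ :=
  out_sound (S := T5.ds_mm) T5.ok_mm (w := 56) (j := 2) (by decide +kernel)
theorem L01456 : Good (Phi V5.P V5.D (-1) (-1)) ⟨3, 6, 2, 0, 8, 154, 6, 30, 8, 112⟩ :=
  out_sound (S := T5.ds_mm) T5.ok_mm (w := 48) (j := 1) (by decide +kernel)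
theorem L01457 : Good (Phi V5.P V5.D (-1) (-1)) ⟨3, 6, 2, 0, 8, 155, 6, 30, 8, 112⟩ :=
  out_sound (S := T5.ds_mm) T5.ok_mm (w := 58) (j := 2) (by decide +kernel)
theorem L01458 : Good (Phi V5.P V5.D (-1) (-1)) ⟨3, 6, 2, 0, 7, 77, 6, 30, 8, 113⟩ :=
  out_sound (S := T5.ds_mm) T5.ok_mm (w := 46) (j := 1) (by decide +kernel)
theorem L01459 : Good (Phi V5.P V5.D (-1) (-1)) ⟨3, 6, 2, 0, 7, 77, 6, 31, 7, 56⟩ :=
  out_sound (S := T5.ds_mm) T5.ok_mm (w := 54) (j := 2) (by decide +kernel)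
theorem L01460 : Good (Phi V5.P V5.D (-1) (-1)) ⟨3, 6, 2, 0, 6, 38, 5, 15, 7, 57⟩ :=
  out_sound (S := T5.ds_mm) T5.ok_mm (w := 50) (j := 2) (by decide +kernel)
theorem L01461 : Good (Phi V5.P V5.D (-1) (-1)) ⟨3, 6, 2, 0, 6, 39, 5, 15, 6, 28⟩ :=
  out_sound (S := T5.ds_mm) T5.ok_mm (w := 48) (j := 2) (by decide +kernel)
theorem L01462 : Good (Phi V5.P V5.D (-1) (-1)) ⟨3, 6, 2, 0, 4, 9, 4, 7, 6, 29⟩ :=
  out_sound (S := T5.ds_mm) T5.ok_mm (w := 34) (j := 1) (by decide +kernel)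
theorem L01463 : Good (Phi V5.P V5.D (-1) (-1)) ⟨3, 6, 2, 0, 3, 4, 3, 3, 5, 15⟩ :=
  out_sound (S := T5.ds_mm) T5.ok_mm (w := 29) (j := 1) (by decide +kernel)
theorem L01464 : Good (Phi V5.P V5.D (-1) (-1)) ⟨3, 6, 2, 0, 4, 10, 3, 2, 5, 14⟩ :=
  out_sound (S := T5.ds_mm) T5.ok_mm (w := 31) (j := 1) (by decide +kernel)
theorem L01465 : Good (Phi V5.P V5.D (-1) (-1)) ⟨3, 6, 2, 0, 5, 20, 5, 12, 6, 28⟩ :=
  out_sound (S := T5.ds_mm) T5.ok_mm (w := 37) (j := 1) (by decide +kernel)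
theorem L01466 : Good (Phi V5.P V5.D (-1) (-1)) ⟨3, 6, 2, 0, 5, 20, 5, 13, 6, 28⟩ :=
  out_sound (S := T5.ds_mm) T5.ok_mm (w := 46) (j := 2) (by decide +kernel)
theorem L01467 : Good (Phi V5.P V5.D (-1) (-1)) ⟨3, 6, 2, 0, 5, 20, 4, 7, 6, 28⟩ :=
  out_sound (S := T5.ds_mm) T5.ok_mm (w := 44) (j := 2) (by decide +kernel)
theorem L01468 : Good (Phi V5.P V5.D (-1) (-1)) ⟨3, 6, 2, 0, 5, 20, 3, 3, 6, 29⟩ :=
  out_sound (S := T5.ds_mm) T5.ok_mm (w := 42) (j := 2) (by decide +kernel)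
theorem L01469 : Good (Phi V5.P V5.D (-1) (-1)) ⟨3, 6, 2, 0, 5, 21, 3, 3, 5, 14⟩ :=
  out_sound (S := T5.ds_mm) T5.ok_mm (w := 40) (j := 2) (by decide +kernel)
theorem L01470 : Good (Phi V5.P V5.D (-1) (-1)) ⟨3, 6, 2, 0, 4, 10, 2, 1, 5, 15⟩ :=
  out_sound (S := T5.ds_mm) T5.ok_mm (w := 36) (j := 2) (by decide +kernel)
theorem L01471 : Good (Phi V5.P V5.D (-1) (-1)) ⟨3, 6, 2, 0, 4, 11, 2, 1, 4, 7⟩ :=
  out_sound (S := T5.ds_mm) T5.ok_mm (w := 34) (j := 2) (by decide +kernel)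
theorem L01472 : Good (Phi V5.P V5.D (-1) (-1)) ⟨3, 7, 2, 0, 2, 2, 2, 1, 3, 3⟩ :=
  out_sound (S := T5.ds_mm) T5.ok_mm (w := 43) (j := 3) (by decide +kernel)
theorem L01473 : Good (Phi V5.P V5.D (-1) (-1)) ⟨1, 1, 2, 0, 3, 6, 2, 1, 5, 8⟩ :=
  leafX_sound T5.ok_mm T5.Ymm.bz_eq (w := 212) (c := ⟨⟨.negSucc 1895, .negSucc 735, .ofNat 46, .ofNat 266, .ofNat 221, .ofNat 144⟩, ⟨.ofNat 48, .ofNat 527, .ofNat 354, .negSucc 53, .negSucc 32, .negSucc 23⟩, ⟨.ofNat 1450, .ofNat 262, .negSucc 129, .negSucc 326, .negSucc 561, .negSucc 137⟩, ⟨.negSucc 4181, .ofNat 60, .negSucc 46, .ofNat 507, .ofNat 501, .ofNat 310⟩, ⟨.negSucc 1107, .negSucc 453, .ofNat 87, .negSucc 94, .ofNat 371, .ofNat 122⟩, .ofNat 305, .ofNat 112, .ofNat 0, .ofNat 112, .ofNat 589, .ofNat 0, .ofNat 158, .negSucc 85, .negSucc 72, .ofNat 0, .ofNat 128, .ofNat 29, .ofNat 0, .ofNat 0, .ofNat 386, .ofNat 1075, .ofNat 0, .ofNat 0,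 .ofNat 0, .ofNat 0, .ofNat 0, .ofNat 0, .ofNat 3833520336314228614724690227390600800370688, .ofNat 0, .ofNat 0, .ofNat 0, .ofNat 13530606186267497054449563818459998650892288, .ofNat 0, .ofNat 0, .ofNat 0, .ofNat 11858464698218425854980729157668169337274368, .ofNat 0⟩)
    (by decide +kernel)
theorem L01474 : Good (Phi V5.P V5.D (-1) (-1)) ⟨1, 1, 2, 0, 3, 7, 2, 1, 5, 8⟩ :=
  leafX_sound T5.ok_mm T5.Ymm.bz_eq (w := 211) (c := ⟨⟨.negSucc 1674, .negSucc 396, .ofNat 69, .ofNat 257, .ofNat 204, .ofNat 108⟩, ⟨.ofNat 26, .ofNat 350, .ofNat 328, .negSucc 41, .negSucc 20, .negSucc 20⟩, ⟨.ofNat 1173, .negSucc 15, .negSucc 155, .negSucc 360, .negSucc 504, .negSucc 115⟩, ⟨.negSucc 3715, .ofNat 410, .negSucc 12, .ofNat 558, .ofNat 487, .ofNat 256⟩, ⟨.negSucc 1305, .negSucc 460, .ofNat 230, .ofNat 235, .ofNat 392, .ofNat 182⟩, .ofNat 168, .ofNat 17, .ofNat 0, .ofNat 17, .ofNat 239, .ofNat 0,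 .ofNat 146, .negSucc 37, .negSucc 24, .ofNat 0, .ofNat 128, .negSucc 3, .ofNat 0, .ofNat 0, .ofNat 288, .ofNat 330, .ofNat 0, .ofNat 0, .ofNat 0, .ofNat 0, .ofNat 0, .ofNat 0, .ofNat 1546858623959981871331172479527897945604096, .ofNat 0, .ofNat 0, .ofNat 56278736393251399451005567321701313675264, .ofNat 2141605346045992653154697093501014568337408, .ofNat 0, .ofNat 0, .ofNat 188115054937250759160376576530862714126336, .ofNat 3719501933266608214658998949504256256770048, .ofNat 0⟩)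
    (by decide +kernel)
theorem L01475 : Good (Phi V5.P V5.D (-1) (-1)) ⟨2, 2, 2, 0, 2, 3, 2, 1, 5, 9⟩ :=
  leafX_sound T5.ok_mm T5.Ymm.bz_eq (w := 202) (c := ⟨⟨.negSucc 1753, .negSucc 292, .ofNat 18, .ofNat 486, .ofNat 178, .ofNat 141⟩, ⟨.ofNat 36, .ofNat 242, .ofNat 329, .negSucc 88, .negSucc 13, .negSucc 22⟩, ⟨.ofNat 1407, .ofNat 83, .negSucc 140, .negSucc 785, .negSucc 588, .negSucc 171⟩, ⟨.negSucc 3845, .ofNat 115, .negSucc 77, .ofNat 939, .ofNat 406, .ofNat 284⟩, ⟨.negSucc 1062, .negSucc 207, .ofNat 170, .ofNat 76, .ofNat 377, .ofNat 123⟩, .ofNat 321, .ofNat 89, .ofNat 0, .ofNat 89, .ofNat 713, .ofNat 0, .ofNat 213, .negSucc 61, .negSucc 28, .ofNat 0, .ofNat 128, .ofNat 5, .ofNat 0, .ofNat 0, .ofNat 579, .ofNat 874, .ofNat 0, .ofNat 0, .ofNat 0, .ofNat 0, .ofNat 0, .ofNat 1673594118297608426150356036925060546560, .ofNat 479920752500575463345204653576878555136, .ofNat 0, .ofNat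 0, .ofNat 1570696564544838885780434906207995559936, .ofNat 237900657536458739572383681825080344576, .ofNat 0, .ofNat 0, .ofNat 3864681740224196699481905893910880714752, .ofNat 143596616218885818388919832975748628480, .ofNat 0⟩)
    (by decide +kernel)
theorem L01476 : Good (Phi V5.P V5.D (-1) (-1)) ⟨2, 3, 2, 0, 2, 3, 2, 1, 5, 9⟩ :=
  leafX_sound T5.ok_mm T5.Ymm.bz_eq (w := 201) (c := ⟨⟨.negSucc 2158, .negSucc 352, .ofNat 46, .ofNat 700, .ofNat 233, .ofNat 165⟩, ⟨.ofNat 327, .ofNat 199, .ofNat 349, .negSucc 232, .negSucc 47, .negSucc 51⟩, ⟨.ofNat 1694, .negSucc 34, .negSucc 221, .negSucc 1025, .negSucc 820, .negSucc 204⟩, ⟨.negSucc 3843, .ofNat 140, .negSucc 68, .ofNat 1174, .ofNat 506, .ofNat 310⟩, ⟨.negSucc 1167, .ofNat 9, .ofNat 13, .ofNat 99, .ofNat 369, .ofNat 125⟩, .ofNat 470, .ofNat 371, .ofNat 0, .ofNat 371, .ofNat 1246, .ofNat 0, .ofNat 128, .negSucc 137, .negSucc 14, .ofNat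 0, .ofNat 143, .ofNat 3, .ofNat 0, .ofNat 0, .ofNat 387, .ofNat 373, .ofNat 0, .ofNat 0, .ofNat 842721438075668681819543331808477184, .ofNat 0, .ofNat 0, .ofNat 706142440011420006870834637136919003136, .ofNat 162432387686333240985121024144081682432, .ofNat 0, .ofNat 0, .ofNat 2131928592482156106806476038858713595904, .ofNat 796612219773675493647102820148802748416, .ofNat 0, .ofNat 0, .ofNat 1776462975765895744927158700660603486208, .ofNat 422404944224043751936475523947819958272, .ofNat 0⟩)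
    (by decide +kernel)
theorem L01477 : Good (Phi V5.P V5.D (-1) (-1)) ⟨1, 1, 2, 0, 3, 6, 2, 1, 4, 5⟩ :=
  leafX_sound T5.ok_mm T5.Ymm.bz_eq (w := 206) (c := ⟨⟨.negSucc 1590, .negSucc 576, .ofNat 26, .ofNat 216, .ofNat 134, .ofNat 198⟩, ⟨.ofNat 11, .ofNat 465, .ofNat 323, .negSucc 42, .negSucc 4, .negSucc 22⟩, ⟨.ofNat 1286, .ofNat 22, .negSucc 195, .negSucc 363, .negSucc 674, .negSucc 161⟩, ⟨.negSucc 3531, .ofNat 255, .negSucc 77, .ofNat 414, .ofNat 362, .ofNat 443⟩, ⟨.negSucc 892, .negSucc 265, .ofNat 28, .negSucc 42, .ofNat 421, .ofNat 200⟩, .ofNat 168, .ofNat 17, .ofNat 0, .ofNat 17, .ofNat 238, .ofNat 0, .ofNat 133, .negSucc 36, .negSucc 9, .ofNat 0, .ofNat 128, .ofNat 2, .ofNat 0, .ofNat 0, .ofNat 480, .ofNat 417, .ofNat 0, .ofNat 0, .ofNat 0, .ofNat 0, .ofNat 0, .ofNat 19137636756470212386984320394195021856768, .ofNat 36603527184559790515291355243172193107968, .ofNat 0,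 .ofNat 0, .ofNat 41196067362298722074958414594836369768448, .ofNat 130327147430155842052155869592677940985856, .ofNat 0, .ofNat 0, .ofNat 133286712121057720710258430012800614006784, .ofNat 328306928705879134620740265506201757810688, .ofNat 0⟩)
    (by decide +kernel)
theorem L01478 : Good (Phi V5.P V5.D (-1) (-1)) ⟨1, 1, 2, 0, 3, 7, 2, 1, 4, 5⟩ :=
  leafX_sound T5.ok_mm T5.Ymm.bz_eq (w := 207) (c := ⟨⟨.negSucc 1399, .negSucc 425, .ofNat 16, .ofNat 231, .ofNat 140, .ofNat 189⟩, ⟨.negSucc 5, .ofNat 375, .ofNat 305, .negSucc 15, .negSucc 0, .negSucc 3⟩, ⟨.ofNat 952, .negSucc 154, .negSucc 172, .negSucc 360, .negSucc 687, .negSucc 273⟩, ⟨.negSucc 3123, .ofNat 392, .negSucc 91, .ofNat 454, .ofNat 366, .ofNat 421⟩, ⟨.negSucc 986, .negSucc 330, .ofNat 150, .ofNat 72, .ofNat 456, .ofNat 253⟩, .ofNat 168, .ofNat 18, .ofNat 0, .ofNat 18, .ofNat 238, .ofNat 0, .ofNat 141, .negSucc 36, .negSucc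 6, .ofNat 0, .ofNat 128, .negSucc 13, .ofNat 0, .ofNat 0, .ofNat 675, .ofNat 947, .ofNat 0, .ofNat 0, .ofNat 0, .ofNat 0, .ofNat 0, .ofNat 125837893897864465574477205592092581036032, .ofNat 0, .ofNat 0, .ofNat 0, .ofNat 116105231306068302638599509089734040223744, .ofNat 272559408792746742825037928738280574025728, .ofNat 0, .ofNat 0, .ofNat 458976554413050502315762795571818373578752, .ofNat 647543585490378970026391841903232963051520, .ofNat 0⟩)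
    (by decide +kernel)
theorem L01479 : Good (Phi V5.P V5.D (-1) (-1)) ⟨1, 1, 2, 0, 2, 3, 2, 1, 3, 3⟩ :=
  leafX_sound T5.ok_mm T5.Ymm.bz_eq (w := 189) (c := ⟨⟨.negSucc 1373, .negSucc 588, .ofNat 8, .ofNat 364, .ofNat 106, .ofNat 1⟩, ⟨.ofNat 1, .ofNat 485, .ofNat 293, .negSucc 83, .negSucc 18, .ofNat 0⟩, ⟨.ofNat 1228, .negSucc 159, .negSucc 250, .negSucc 946, .negSucc 937, .ofNat 0⟩, ⟨.negSucc 3060, .ofNat 230, .negSucc 92, .ofNat 690, .ofNat 280, .ofNat 1⟩, ⟨.negSucc 706, .negSucc 133, .ofNat 11, .negSucc 89, .ofNat 376, .ofNat 0⟩, .ofNat 169, .ofNat 16, .ofNat 0, .ofNat 16, .ofNat 241, .ofNat 0, .ofNat 128, .negSucc 44, .ofNat 6, .ofNat 0, .ofNat 179, .ofNat 3, .ofNat 0, .ofNat 0, .ofNat 1058, .ofNat 1789, .ofNat 10483931272617999737151018811363688448, .ofNat 524371115079409358131699500988760064, .ofNat 2378299669253830793080911375106048, .ofNat 0, .ofNat 91456935833594928872780901919653625856,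 .ofNat 11729106468324090170410725739035885568, .ofNat 499023858978002733415175116447285248, .ofNat 0, .ofNat 0, .ofNat 13514723646755376085997079751984939008, .ofNat 779095976839866217060923944059535360, .ofNat 0, .ofNat 0, .ofNat 77277747948163063005795652555222548480, .ofNat 0, .ofNat 0⟩)
    (by decide +kernel)
theorem L01480 : Good (Phi V5.P V5.D (-1) (-1)) ⟨1, 1, 2, 0, 3, 4, 1, 0, 3, 4⟩ :=
  out_sound (S := T5.ds_mm) T5.ok_mm (w := 23) (j := 1) (by decide +kernel)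
theorem L01481 : Good (Phi V5.P V5.D (-1) (-1)) ⟨1, 1, 2, 0, 3, 5, 1, 0, 3, 4⟩ :=
  out_sound (S := T5.ds_mm) T5.ok_mm (w := 28) (j := 2) (by decide +kernel)
theorem L01482 : Good (Phi V5.P V5.D (-1) (-1)) ⟨1, 1, 2, 0, 2, 2, 1, 0, 3, 5⟩ :=
  out_sound (S := T5.ds_mm) T5.ok_mm (w := 21) (j := 1) (by decide +kernel)
theorem L01483 : Good (Phi V5.P V5.D (-1) (-1)) ⟨1, 1, 2, 0, 2, 2, 1, 0, 2, 3⟩ :=
  out_sound (S := T5.ds_mm) T5.ok_mm (w := 19) (j := 1) (by decide +kernel)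
theorem L01484 : Good (Phi V5.P V5.D (-1) (-1)) ⟨1, 1, 2, 0, 2, 3, 1, 0, 1, 1⟩ :=
  out_sound (S := T5.ds_mm) T5.ok_mm (w := 22) (j := 2) (by decide +kernel)
theorem L01485 : Good (Phi V5.P V5.D (-1) (-1)) ⟨3, 4, 2, 0, 2, 2, 2, 2, 4, 0⟩ :=
  leafX_sound T5.ok_mm T5.Ymm.bz_eq (w := 201) (c := ⟨⟨.ofNat 772, .negSucc 69, .ofNat 163, .ofNat 659, .negSucc 745, .negSucc 1464⟩, ⟨.negSucc 165, .negSucc 7, .ofNat 60, .negSucc 100, .ofNat 117, .ofNat 204⟩, ⟨.negSucc 799, .negSucc 0, .negSucc 24, .negSucc 299, .ofNat 533, .ofNat 906⟩, ⟨.ofNat 1742, .negSucc 245, .ofNat 198, .ofNat 1384, .negSucc 1673, .negSucc 3215⟩, ⟨.negSucc 675, .negSucc 263, .ofNat 238, .negSucc 173, .ofNat 49, .negSucc 294⟩, .ofNat 331, .ofNat 65, .ofNat 0, .ofNat 65, .ofNat 773, .ofNat 0, .ofNat 504, .negSucc 30, .negSucc 654, .ofNat 0, .ofNat 128, .ofNat 101, .ofNat 0, .ofNat 0, .ofNat 779, .ofNat 602, .ofNat 0, .ofNat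 0, .ofNat 0, .ofNat 0, .ofNat 0, .ofNat 0, .ofNat 0, .ofNat 0, .ofNat 0, .ofNat 0, .ofNat 0, .ofNat 0, .ofNat 0, .ofNat 0, .ofNat 0, .ofNat 0⟩)
    (by decide +kernel)
theorem L01486 : Good (Phi V5.P V5.D (-1) (-1)) ⟨3, 4, 2, 0, 3, 6, 2, 2, 4, 0⟩ :=
  leafX_sound T5.ok_mm T5.Ymm.bz_eq (w := 216) (c := ⟨⟨.ofNat 1677, .ofNat 281, .ofNat 107, .negSucc 105, .negSucc 1065, .negSucc 1623⟩, ⟨.negSucc 168, .negSucc 117, .negSucc 12, .ofNat 17, .ofNat 125, .ofNat 183⟩, ⟨.negSucc 1100, .negSucc 189, .ofNat 96, .ofNat 264, .ofNat 637, .ofNat 772⟩, ⟨.ofNat 3562, .ofNat 406, .ofNat 62, .negSucc 203, .negSucc 2249, .negSucc 3412⟩, ⟨.negSucc 551, .negSucc 86, .ofNat 233, .ofNat 143, .negSucc 245, .negSucc 440⟩, .ofNat 472, .ofNat 267, .ofNat 0, .ofNat 267, .ofNat 2141, .ofNat 0, .ofNat 364, .negSucc 127, .negSucc 406, .ofNat 0, .ofNat 109, .ofNat 66, .ofNat 0, .ofNat 0, .ofNat 492, .ofNat 601,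 .ofNat 0, .ofNat 0, .ofNat 0, .ofNat 0, .ofNat 0, .ofNat 0, .ofNat 0, .ofNat 0, .ofNat 0, .ofNat 0, .ofNat 7254648532457869781509756883228765978624, .ofNat 0, .ofNat 0, .ofNat 0, .ofNat 0, .ofNat 0⟩)
    (by decide +kernel)
theorem L01487 : Good (Phi V5.P V5.D (-1) (-1)) ⟨3, 4, 2, 0, 3, 7, 2, 2, 4, 0⟩ :=
  leafX_sound T5.ok_mm T5.Ymm.bz_eq (w := 215) (c := ⟨⟨.ofNat 1208, .negSucc 19, .ofNat 225, .negSucc 591, .negSucc 768, .negSucc 1181⟩, ⟨.negSucc 249, .ofNat 17, .ofNat 83, .ofNat 89, .ofNat 94, .ofNat 171⟩, ⟨.negSucc 479, .ofNat 32, .ofNat 87, .ofNat 458, .ofNat 362, .ofNat 323⟩, ⟨.ofNat 2733, .negSucc 106, .ofNat 394, .negSucc 1224, .negSucc 1765, .negSucc 2664⟩, ⟨.ofNat 571, .negSucc 225, .ofNat 395, .ofNat 72, .negSucc 1013, .negSucc 1094⟩, .ofNat 464, .ofNat 223, .ofNat 0, .ofNat 223, .ofNat 2003, .ofNat 0, .ofNat 333, .negSucc 108, .negSucc 306, .ofNat 0, .ofNat 128, .ofNat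 44, .ofNat 0, .ofNat 0, .ofNat 358, .ofNat 513, .ofNat 0, .ofNat 0, .ofNat 0, .ofNat 0, .ofNat 0, .ofNat 0, .ofNat 31617559135963451215330065028481258881024, .ofNat 0, .ofNat 0, .ofNat 0, .ofNat 0, .ofNat 0, .ofNat 0, .ofNat 0, .ofNat 0, .ofNat 0⟩)
    (by decide +kernel)
theorem L01488 : Good (Phi V5.P V5.D (-1) (-1)) ⟨3, 4, 2, 0, 2, 2, 3, 6, 4, 0⟩ :=
  leafX_sound T5.ok_mm T5.Ymm.bz_eq (w := 205) (c := ⟨⟨.negSucc 97, .negSucc 279, .ofNat 265, .ofNat 328, .negSucc 260, .negSucc 955⟩, ⟨.negSucc 100, .ofNat 65, .ofNat 133, .negSucc 49, .ofNat 39, .ofNat 143⟩, ⟨.negSucc 134, .ofNat 176, .negSucc 103, .negSucc 171, .ofNat 203, .ofNat 565⟩, ⟨.negSucc 290, .negSucc 464, .ofNat 387, .ofNat 638, .negSucc 530, .negSucc 1988⟩, ⟨.negSucc 799, .negSucc 106, .ofNat 47, .negSucc 334, .ofNat 123, .ofNat 104⟩, .ofNat 463, .ofNat 228, .ofNat 0, .ofNat 228, .ofNat 1988, .ofNat 0, .ofNat 551, .negSucc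 106, .negSucc 611, .ofNat 0, .ofNat 128, .ofNat 94, .ofNat 0, .ofNat 0, .ofNat 837, .ofNat 773, .ofNat 0, .ofNat 0, .ofNat 0, .ofNat 0, .ofNat 0, .ofNat 0, .ofNat 0, .ofNat 0, .ofNat 0, .ofNat 0, .ofNat 18991060227675425882619422229827420160, .ofNat 0, .ofNat 0, .ofNat 0, .ofNat 0, .ofNat 0⟩)
    (by decide +kernel)
theorem L01489 : Good (Phi V5.P V5.D (-1) (-1)) ⟨3, 4, 2, 0, 2, 2, 3, 7, 4, 0⟩ :=
  leafX_sound T5.ok_mm T5.Ymm.bz_eq (w := 205) (c := ⟨⟨.negSucc 427, .negSucc 243, .ofNat 168, .negSucc 14, .ofNat 14, .negSucc 591⟩, ⟨.negSucc 53, .ofNat 63, .ofNat 164, .negSucc 2, .ofNat 6, .ofNat 80⟩, ⟨.ofNat 125, .ofNat 153, .negSucc 4, .ofNat 98, .negSucc 58, .ofNat 255⟩, ⟨.negSucc 966, .negSucc 369, .ofNat 182, .negSucc 80, .ofNat 41, .negSucc 1199⟩, ⟨.negSucc 975, .ofNat 18, .ofNat 128, .negSucc 241, .ofNat 292, .ofNat 281⟩, .ofNat 461, .ofNat 223, .ofNat 0, .ofNat 223, .ofNat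 1958, .ofNat 0, .ofNat 468, .negSucc 88, .negSucc 853, .ofNat 0, .ofNat 128, .ofNat 129, .ofNat 0, .ofNat 0, .ofNat 1101, .ofNat 877, .ofNat 0, .ofNat 0, .ofNat 0, .ofNat 0, .ofNat 0, .ofNat 0, .ofNat 0, .ofNat 0, .ofNat 0, .ofNat 0, .ofNat 15783830507583396930278568395848810496, .ofNat 0, .ofNat 0, .ofNat 0, .ofNat 0, .ofNat 0⟩)
    (by decide +kernel)

end Crest.Agent.R097C5.N5mm
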