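import Crest.Agent.R097.KP7
import Crest.Agent.R097.T5Ymm

/-!
# Row 97, box cover in dimension n = 5 (generated)
-/

set_option autoImplicit false
set_option Elab.async false
set_option maxHeartbeats 0
set_option maxRecDepth 100000

open Crest.Agent.R097 Crest.Agent.R097.KA


namespace Crest.Agent.R097C5.N5mm

theorem L01490 : Good (Phi V5.P V5.D (-1) (-1)) ⟨3, 4, 2, 0, 3, 6, 3, 6, 4, 0⟩ :=
  leafX_sound T5.ok_mm T5.Ymm.bz_eq (w := 219) (c := ⟨⟨.ofNat 299, .negSucc 94, .ofNat 178, .negSucc 64, .negSucc 469, .negSucc 966⟩, ⟨.negSucc 144, .ofNat 33, .ofNat 146, .negSucc 2, .ofNat 68, .ofNat 131⟩, ⟨.negSucc 245, .ofNat 45, .ofNat 63, .ofNat 151, .ofNat 290, .ofNat 387⟩, ⟨.ofNat 562, .negSucc 160, .ofNat 237, .negSucc 141, .negSucc 985, .negSucc 2061⟩, ⟨.negSucc 966, .negSucc 233, .ofNat 297, .negSucc 22, .ofNat 32, .negSucc 177⟩, .ofNat 472,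 .ofNat 267, .ofNat 0, .ofNat 267, .ofNat 2141, .ofNat 0, .ofNat 360, .negSucc 127, .negSucc 506, .ofNat 0, .ofNat 122, .ofNat 81, .ofNat 0, .ofNat 0, .ofNat 580, .ofNat 931, .ofNat 0, .ofNat 0, .ofNat 0, .ofNat 0, .ofNat 0, .ofNat 0, .ofNat 572666331972597856237055948418541884014592, .ofNat 0, .ofNat 0, .ofNat 0, .ofNat 0, .ofNat 0, .ofNat 0, .ofNat 0, .ofNat 0, .ofNat 0⟩)
    (by decide +kernel)
theorem L01491 : Good (Phi V5.P V5.D (-1) (-1)) ⟨3, 4, 2, 0, 3, 7, 3, 6, 4, 0⟩ :=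
  leafX_sound T5.ok_mm T5.Ymm.bz_eq (w := 219) (c := ⟨⟨.negSucc 44, .negSucc 106, .ofNat 187, .negSucc 351, .negSucc 284, .negSucc 619⟩, ⟨.negSucc 119, .ofNat 23, .ofNat 179, .ofNat 57, .ofNat 40, .ofNat 71⟩, ⟨.ofNat 173, .ofNat 49, .ofNat 107, .ofNat 259, .ofNat 90, .ofNat 54⟩, ⟨.negSucc 97, .negSucc 124, .ofNat 227, .negSucc 774, .negSucc 658, .negSucc 1391⟩, ⟨.negSucc 693, .negSucc 151, .ofNat 409, .negSucc 189, .negSucc 289, .negSucc 451⟩, .ofNat 463, .ofNat 214, .ofNat 0, .ofNat 214, .ofNat 1983, .ofNat 0, .ofNat 518, .negSucc 86, .negSucc 541, .ofNat 0, .ofNat 128, .ofNat 80, .ofNat 0, .ofNat 0, .ofNat 604, .ofNat 933, .ofNat 0, .ofNat 0, .ofNat 0, .ofNat 0, .ofNat 0, .ofNat 0, .ofNat 1415557449983080467544803387678067194331136, .ofNat 0, .ofNat 0, .ofNat 0, .ofNat 0, .ofNat 0, .ofNat 0, .ofNat 0, .ofNat 0, .ofNat 0⟩)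
    (by decide +kernel)
theorem L01492 : Good (Phi V5.P V5.D (-1) (-1)) ⟨3, 4, 3, 0, 2, 3, 4, 14, 4, 0⟩ :=
  leafX_sound T5.ok_mm T5.Ymm.bz_eq (w := 213) (c := ⟨⟨.negSucc 394, .negSucc 173, .ofNat 80, .negSucc 222, .negSucc 134, .negSucc 528⟩, ⟨.negSucc 69, .ofNat 58, .ofNat 105, .ofNat 14, .ofNat 16, .ofNat 54⟩, ⟨.ofNat 293, .ofNat 72, .ofNat 39, .ofNat 160, .ofNat 42, .ofNat 59⟩, ⟨.negSucc 899, .negSucc 230, .ofNat 82, .negSucc 520, .negSucc 287, .negSucc 1139⟩, ⟨.negSucc 896, .negSucc 173, .ofNat 133, .negSucc 376, .ofNat 48, .negSucc 91⟩, .ofNat 453, .ofNat 168, .ofNat 0, .ofNat 168, .ofNat 1886, .ofNat 0, .ofNat 484, .negSucc 37, .negSucc 980, .ofNat 0, .ofNat 128, .ofNat 130, .ofNat 0, .ofNat 0, .ofNat 1078, .ofNat 2000, .ofNat 0, .ofNat 0, .ofNat 0, .ofNat 0, .ofNat 0, .ofNat 0, .ofNat 0, .ofNat 0, .ofNat 0, .ofNat 0, .ofNat 0, .ofNat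 0, .ofNat 0, .ofNat 0, .ofNat 0, .ofNat 0⟩)
    (by decide +kernel)
theorem L01493 : Good (Phi V5.P V5.D (-1) (-1)) ⟨3, 4, 3, 0, 2, 3, 4, 15, 4, 0⟩ :=
  leafX_sound T5.ok_mm T5.Ymm.bz_eq (w := 214) (c := ⟨⟨.negSucc 751, .negSucc 139, .ofNat 86, .negSucc 91, .ofNat 2, .negSucc 295⟩, ⟨.negSucc 37, .ofNat 63, .ofNat 111, .negSucc 3, .ofNat 4, .ofNat 38⟩, ⟨.ofNat 544, .ofNat 14, .ofNat 32, .negSucc 14, .negSucc 69, .negSucc 76⟩, ⟨.negSucc 1666, .negSucc 145, .ofNat 112, .negSucc 252, .ofNat 7, .negSucc 619⟩, ⟨.negSucc 898, .negSucc 258, .ofNat 131, .negSucc 427, .ofNat 161, .ofNat 214⟩, .ofNat 454, .ofNat 180, .ofNat 0, .ofNat 180, .ofNat 1867, .ofNat 0, .ofNat 818, .negSucc 39, .negSucc 1043, .ofNat 0, .ofNat 128, .ofNat 144, .ofNat 0, .ofNat 0, .ofNat 1175, .ofNat 2786, .ofNat 0, .ofNat 0, .ofNat 0, .ofNat 0, .ofNat 0, .ofNat 0, .ofNat 0, .ofNat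 0, .ofNat 0, .ofNat 33240055713739617093484894497620155695104, .ofNat 0, .ofNat 0, .ofNat 0, .ofNat 0, .ofNat 0, .ofNat 0⟩)
    (by decide +kernel)
theorem L01494 : Good (Phi V5.P V5.D (-1) (-1)) ⟨3, 4, 4, 2, 2, 3, 3, 7, 4, 0⟩ :=
  leafX_sound T5.ok_mm T5.Ymm.bz_eq (w := 212) (c := ⟨⟨.negSucc 412, .negSucc 120, .ofNat 20, .negSucc 192, .negSucc 180, .negSucc 407⟩, ⟨.ofNat 13, .ofNat 66, .ofNat 50, .ofNat 30, .ofNat 33, .ofNat 72⟩, ⟨.ofNat 426, .ofNat 16, .ofNat 47, .ofNat 131, .negSucc 13, .negSucc 32⟩, ⟨.negSucc 1018, .negSucc 118, .ofNat 15, .negSucc 477, .negSucc 370, .negSucc 866⟩, ⟨.negSucc 771, .negSucc 222, .ofNat 106, .negSucc 342, .ofNat 194, .negSucc 69⟩, .ofNat 485, .ofNat 329, .ofNat 0, .ofNat 329, .ofNat 2308, .ofNat 0, .ofNat 629, .negSucc 127, .negSucc 829, .ofNat 0, .ofNat 95, .ofNat 142, .ofNat 0, .ofNat 0, .ofNat 905, .ofNat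 2117, .ofNat 0, .ofNat 0, .ofNat 0, .ofNat 0, .ofNat 0, .ofNat 0, .ofNat 0, .ofNat 0, .ofNat 0, .ofNat 0, .ofNat 0, .ofNat 0, .ofNat 0, .ofNat 0, .ofNat 0, .ofNat 0⟩)
    (by decide +kernel)
theorem L01495 : Good (Phi V5.P V5.D (-1) (-1)) ⟨3, 4, 4, 3, 2, 3, 3, 7, 4, 0⟩ :=
  leafX_sound T5.ok_mm T5.Ymm.bz_eq (w := 212) (c := ⟨⟨.negSucc 369, .negSucc 15, .negSucc 128, .negSucc 226, .negSucc 202, .negSucc 443⟩, ⟨.ofNat 43, .ofNat 46, .ofNat 70, .ofNat 46, .ofNat 46, .ofNat 95⟩, ⟨.ofNat 435, .negSucc 36, .ofNat 134, .ofNat 175, .negSucc 20, .negSucc 21⟩, ⟨.negSucc 1003, .ofNat 90, .negSucc 266, .negSucc 508, .negSucc 385, .negSucc 905⟩, ⟨.negSucc 742, .negSucc 134, .ofNat 46, .negSucc 214, .ofNat 78, .negSucc 85⟩, .ofNat 782, .ofNat 1481, .ofNat 0, .ofNat 1481, .ofNat 7278, .ofNat 0, .ofNat 128, .negSucc 197, .negSucc 418, .ofNat 0, .ofNat 61,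 .ofNat 89, .ofNat 0, .ofNat 0, .ofNat 468, .ofNat 1288, .ofNat 0, .ofNat 5797190417139352950432319592226432745472, .ofNat 2239196966267461438235442635429904384, .ofNat 0, .ofNat 0, .ofNat 57419174027735833458345700680944922394624, .ofNat 259371891725431502004408498965163540480, .ofNat 0, .ofNat 0, .ofNat 139434917915514189480661400980555992924160, .ofNat 294977991057194903726056282435147005952, .ofNat 0, .ofNat 0, .ofNat 0, .ofNat 319071061465730863574513438255185133568, .ofNat 0⟩)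
    (by decide +kernel)
theorem L01496 : Good (Phi V5.P V5.D (-1) (-1)) ⟨4, 8, 2, 0, 2, 2, 2, 2, 4, 1⟩ :=
  leafX_sound T5.ok_mm T5.Ymm.bz_eq (w := 206) (c := ⟨⟨.negSucc 881, .negSucc 276, .ofNat 285, .ofNat 178, .negSucc 55, .negSucc 855⟩, ⟨.negSucc 75, .ofNat 82, .ofNat 276, .negSucc 28, .ofNat 13, .ofNat 114⟩, ⟨.ofNat 365, .ofNat 200, .negSucc 184, .negSucc 239, .ofNat 69, .ofNat 611⟩, ⟨.negSucc 1986, .negSucc 434, .ofNat 486, .ofNat 343, .negSucc 124, .negSucc 1824⟩, ⟨.negSucc 954, .negSucc 18, .ofNat 55, .negSucc 446, .ofNat 237, .ofNat 265⟩, .ofNat 468, .ofNat 196, .ofNat 0, .ofNat 196, .ofNat 2041, .ofNat 0, .ofNat 623, .negSucc 117, .negSucc 334, .ofNat 0, .ofNat 128, .ofNat 49, .ofNat 0, .ofNat 0, .ofNat 577, .ofNat 1466, .ofNat 0, .ofNat 0, .ofNat 0, .ofNat 0, .ofNat 0, .ofNat 0, .ofNat 0, .ofNat 0, .ofNat 0, .ofNat 0, .ofNat 540149168517120129565189017157238784,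 .ofNat 0, .ofNat 0, .ofNat 0, .ofNat 0, .ofNat 0⟩)
    (by decide +kernel)
theorem L01497 : Good (Phi V5.P V5.D (-1) (-1)) ⟨4, 8, 2, 0, 2, 2, 2, 3, 4, 1⟩ :=
  leafX_sound T5.ok_mm T5.Ymm.bz_eq (w := 206) (c := ⟨⟨.negSucc 1058, .negSucc 182, .ofNat 231, .ofNat 1, .ofNat 269, .negSucc 575⟩, ⟨.negSucc 20, .ofNat 61, .ofNat 220, .negSucc 4, .negSucc 29, .ofNat 86⟩, ⟨.ofNat 500, .ofNat 96, .negSucc 114, .negSucc 31, .negSucc 224, .ofNat 374⟩, ⟨.negSucc 2374, .negSucc 224, .ofNat 413, .negSucc 45, .ofNat 623, .negSucc 1215⟩, ⟨.negSucc 804, .negSucc 11, .ofNat 85, .negSucc 290, .ofNat 525, .ofNat 283⟩, .ofNat 472, .ofNat 212, .ofNat 0, .ofNat 212, .ofNat 2092, .ofNat 0, .ofNat 504, .negSucc 110, .negSucc 615, .ofNat 0, .ofNat 128, .ofNat 87, .ofNat 0, .ofNat 0, .ofNat 943, .ofNat 1064, .ofNat 0, .ofNat 0, .ofNat 0, .ofNat 0, .ofNat 0, .ofNat 38022274278786357800030028634320827056128,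 .ofNat 0, .ofNat 0, .ofNat 0, .ofNat 0, .ofNat 0, .ofNat 0, .ofNat 0, .ofNat 0, .ofNat 0, .ofNat 0⟩)
    (by decide +kernel)
theorem L01498 : Good (Phi V5.P V5.D (-1) (-1)) ⟨4, 8, 3, 0, 2, 3, 3, 4, 4, 1⟩ :=
  leafX_sound T5.ok_mm T5.Ymm.bz_eq (w := 213) (c := ⟨⟨.negSucc 671, .negSucc 73, .ofNat 205, .negSucc 108, .negSucc 26, .negSucc 1008⟩, ⟨.negSucc 77, .ofNat 33, .ofNat 137, .ofNat 16, .negSucc 0, .ofNat 100⟩, ⟨.ofNat 250, .ofNat 71, .negSucc 70, .ofNat 84, .ofNat 6, .ofNat 489⟩, ⟨.negSucc 1487, .negSucc 46, .ofNat 333, .negSucc 258, .negSucc 76, .negSucc 2203⟩, ⟨.negSucc 1052, .negSucc 69, .ofNat 118, .negSucc 44, .negSucc 79, .negSucc 203⟩, .ofNat 461, .ofNat 141, .ofNat 0, .ofNat 141, .ofNat 1919, .ofNat 0, .ofNat 479, .negSucc 78, .negSucc 437, .ofNat 0, .ofNat 128, .ofNat 53, .ofNat 0, .ofNat 0, .ofNat 627, .ofNat 2116, .ofNat 0,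 .ofNat 0, .ofNat 0, .ofNat 0, .ofNat 0, .ofNat 0, .ofNat 0, .ofNat 0, .ofNat 0, .ofNat 0, .ofNat 0, .ofNat 0, .ofNat 0, .ofNat 0, .ofNat 0, .ofNat 0⟩)
    (by decide +kernel)
theorem L01499 : Good (Phi V5.P V5.D (-1) (-1)) ⟨4, 8, 3, 0, 2, 3, 3, 5, 4, 1⟩ :=
  leafX_sound T5.ok_mm T5.Ymm.bz_eq (w := 213) (c := ⟨⟨.negSucc 934, .negSucc 73, .ofNat 106, .ofNat 52, .ofNat 35, .negSucc 683⟩, ⟨.negSucc 55, .ofNat 47, .ofNat 139, .negSucc 9, .negSucc 0, .ofNat 66⟩, ⟨.ofNat 421, .ofNat 41, .negSucc 2, .negSucc 0, .negSucc 27, .ofNat 281⟩, ⟨.negSucc 2104, .negSucc 24, .ofNat 130, .ofNat 72, .ofNat 65, .negSucc 1454⟩, ⟨.negSucc 1224, .ofNat 56, .ofNat 150, .negSucc 280, .negSucc 14, .ofNat 77⟩, .ofNat 543, .ofNat 343, .ofNat 0, .ofNat 343, .ofNat 4097, .ofNat 0, .ofNat 461, .negSucc 127, .negSucc 571, .ofNat 0, .ofNat 104, .ofNat 64, .ofNat 0, .ofNat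 0, .ofNat 788, .ofNat 2019, .ofNat 0, .ofNat 0, .ofNat 0, .ofNat 0, .ofNat 0, .ofNat 0, .ofNat 0, .ofNat 0, .ofNat 0, .ofNat 0, .ofNat 0, .ofNat 0, .ofNat 0, .ofNat 0, .ofNat 0, .ofNat 0⟩)
    (by decide +kernel)
theorem L01500 : Good (Phi V5.P V5.D (-1) (-1)) ⟨4, 8, 3, 0, 2, 3, 3, 6, 4, 1⟩ :=
  leafX_sound T5.ok_mm T5.Ymm.bz_eq (w := 214) (c := ⟨⟨.negSucc 1103, .negSucc 29, .ofNat 78, .ofNat 113, .ofNat 46, .negSucc 446⟩, ⟨.negSucc 39, .ofNat 39, .ofNat 139, .negSucc 16, .ofNat 8, .ofNat 55⟩, ⟨.ofNat 546, .negSucc 15, .ofNat 11, .negSucc 60, .negSucc 55, .ofNat 137⟩, ⟨.negSucc 2463, .ofNat 48, .ofNat 94, .ofNat 190, .ofNat 116, .negSucc 944⟩, ⟨.negSucc 1165, .negSucc 128, .ofNat 104, .negSucc 372, .ofNat 329, .ofNat 315⟩, .ofNat 463, .ofNat 152, .ofNat 0, .ofNat 152, .ofNat 1943, .ofNat 0, .ofNat 1054, .negSucc 68, .negSucc 931, .ofNat 0,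 .ofNat 128, .ofNat 116, .ofNat 0, .ofNat 0, .ofNat 1283, .ofNat 2774, .ofNat 0, .ofNat 0, .ofNat 0, .ofNat 0, .ofNat 0, .ofNat 0, .ofNat 0, .ofNat 0, .ofNat 0, .ofNat 0, .ofNat 0, .ofNat 0, .ofNat 0, .ofNat 0, .ofNat 0, .ofNat 0⟩)
    (by decide +kernel)
theorem L01501 : Good (Phi V5.P V5.D (-1) (-1)) ⟨4, 8, 3, 0, 2, 3, 3, 7, 4, 1⟩ :=
  leafX_sound T5.ok_mm T5.Ymm.bz_eq (w := 213) (c := ⟨⟨.negSucc 1204, .negSucc 95, .ofNat 66, .ofNat 218, .ofNat 101, .negSucc 223⟩, ⟨.negSucc 6, .ofNat 43, .ofNat 123, .negSucc 26, .ofNat 7, .ofNat 44⟩, ⟨.ofNat 602, .ofNat 6, .ofNat 27, .negSucc 159, .negSucc 113, .ofNat 16⟩, ⟨.negSucc 2691, .negSucc 70, .ofNat 96, .ofNat 432, .ofNat 246, .negSucc 433⟩, ⟨.negSucc 875, .negSucc 219, .ofNat 102, .negSucc 259, .ofNat 514, .ofNat 544⟩, .ofNat 549, .ofNat 381, .ofNat 0, .ofNat 381, .ofNat 4214, .ofNat 0, .ofNat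 663, .negSucc 127, .negSucc 455, .ofNat 0, .ofNat 105, .ofNat 53, .ofNat 0, .ofNat 0, .ofNat 648, .ofNat 1420, .ofNat 0, .ofNat 0, .ofNat 0, .ofNat 0, .ofNat 0, .ofNat 5944708072151388128846549127461402755203072, .ofNat 0, .ofNat 0, .ofNat 0, .ofNat 1841068593294152543038278617715972327342080, .ofNat 0, .ofNat 0, .ofNat 0, .ofNat 0, .ofNat 0, .ofNat 0⟩)
    (by decide +kernel)
theorem L01502 : Good (Phi V5.P V5.D (-1) (-1)) ⟨4, 8, 3, 1, 2, 3, 2, 2, 5, 2⟩ :=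
  leafX_sound T5.ok_mm T5.Ymm.bz_eq (w := 213) (c := ⟨⟨.negSucc 193, .negSucc 135, .ofNat 197, .negSucc 283, .negSucc 304, .negSucc 623⟩, ⟨.negSucc 20, .ofNat 48, .ofNat 77, .ofNat 47, .ofNat 47, .ofNat 98⟩, ⟨.negSucc 52, .ofNat 95, .negSucc 37, .ofNat 337, .ofNat 185, .ofNat 289⟩, ⟨.negSucc 610, .negSucc 203, .ofNat 360, .negSucc 583, .negSucc 677, .negSucc 1335⟩, ⟨.negSucc 1152, .ofNat 10, .ofNat 330, .ofNat 120, .negSucc 160, .negSucc 48⟩, .ofNat 653, .ofNat 951, .ofNat 0, .ofNat 951, .ofNat 6484, .ofNat 0, .ofNat 178, .negSucc 127, .negSucc 162, .ofNat 0, .ofNat 43, .ofNat 26, .ofNat 0, .ofNat 0, .ofNat 225, .ofNat 661, .ofNat 0, .ofNat 0, .ofNat 0, .ofNat 0, .ofNat 0, .ofNat 0, .ofNat 0, .ofNat 0, .ofNat 0, .ofNat 0, .ofNat 25947470076944128079433439208798158848, .ofNat 0, .ofNat 0, .ofNat 0, .ofNat 0, .ofNat 0⟩)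
    (by decide +kernel)
theorem L01503 : Good (Phi V5.P V5.D (-1) (-1)) ⟨4, 8, 3, 1, 2, 3, 2, 2, 5, 3⟩ :=
  leafX_sound T5.ok_mm T5.Ymm.bz_eq (w := 214) (c := ⟨⟨.negSucc 1154, .negSucc 110, .ofNat 101, .ofNat 48, .ofNat 42, .negSucc 340⟩, ⟨.ofNat 110, .ofNat 59, .ofNat 146, .negSucc 8, .negSucc 4, .ofNat 53⟩, ⟨.ofNat 522, .ofNat 73, .ofNat 19, .ofNat 23, .negSucc 40, .ofNat 135⟩, ⟨.negSucc 2715, .negSucc 85, .ofNat 119, .ofNat 94, .ofNat 82, .negSucc 684⟩, ⟨.negSucc 1326, .negSucc 16, .ofNat 52, .ofNat 56, .negSucc 34, .ofNat 236⟩, .ofNat 871, .ofNat 2173, .ofNat 0, .ofNat 2173, .ofNat 14085, .ofNat 0, .ofNat 128, .negSucc 166, .negSucc 224, .ofNat 0, .ofNat 42, .ofNat 36, .ofNat 0, .ofNat 0, .ofNat 356, .ofNat 759, .ofNat 0, .ofNat 0, .ofNat 0, .ofNat 0, .ofNat 0, .ofNat 0, .ofNat 0, .ofNat 0, .ofNat 0, .ofNat 0, .ofNat 35057150364105034955197467660851871744,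 .ofNat 0, .ofNat 0, .ofNat 0, .ofNat 0, .ofNat 0⟩)
    (by decide +kernel)
theorem L01504 : Good (Phi V5.P V5.D (-1) (-1)) ⟨4, 8, 3, 1, 2, 3, 2, 3, 4, 1⟩ :=
  leafX_sound T5.ok_mm T5.Ymm.bz_eq (w := 208) (c := ⟨⟨.negSucc 948, .negSucc 97, .ofNat 80, .ofNat 80, .negSucc 16, .negSucc 433⟩, ⟨.ofNat 91, .ofNat 50, .ofNat 122, .negSucc 15, .ofNat 9, .ofNat 68⟩, ⟨.ofNat 518, .ofNat 23, .ofNat 7, .negSucc 34, .negSucc 69, .ofNat 114⟩, ⟨.negSucc 2277, .negSucc 84, .ofNat 106, .ofNat 158, .ofNat 96, .negSucc 859⟩, ⟨.negSucc 1454, .negSucc 85, .ofNat 98, .ofNat 24, .ofNat 995, .ofNat 530⟩, .ofNat 654, .ofNat 952, .ofNat 0, .ofNat 952, .ofNat 6497, .ofNat 0, .ofNat 184, .negSucc 127, .negSucc 204, .ofNat 0, .ofNat 44, .ofNat 33, .ofNat 0, .ofNat 0, .ofNat 293, .ofNat 494, .ofNat 0, .ofNat 0, .ofNat 0, .ofNat 0, .ofNat 0, .ofNat 103731478452084171504578565021047220862976,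 .ofNat 0, .ofNat 0, .ofNat 0, .ofNat 0, .ofNat 365628555545493479312936360967405568, .ofNat 0, .ofNat 0, .ofNat 0, .ofNat 0, .ofNat 0⟩)
    (by decide +kernel)
theorem L01505 : Good (Phi V5.P V5.D (-1) (-1)) ⟨4, 9, 2, 0, 2, 2, 2, 2, 4, 1⟩ :=
  leafX_sound T5.ok_mm T5.Ymm.bz_eq (w := 205) (c := ⟨⟨.negSucc 990, .negSucc 378, .ofNat 339, .ofNat 54, .negSucc 20, .negSucc 913⟩, ⟨.negSucc 55, .ofNat 118, .ofNat 283, .negSucc 18, .ofNat 21, .ofNat 148⟩, ⟨.ofNat 482, .ofNat 265, .negSucc 226, .negSucc 182, .ofNat 42, .ofNat 664⟩, ⟨.negSucc 2167, .negSucc 541, .ofNat 551, .ofNat 85, .negSucc 43, .negSucc 1781⟩, ⟨.negSucc 676, .negSucc 124, .negSucc 126, .negSucc 320, .ofNat 39, .ofNat 121⟩, .ofNat 544, .ofNat 482, .ofNat 0, .ofNat 482, .ofNat 3725, .ofNat 0, .ofNat 278, .negSucc 127, .negSucc 206, .ofNat 0, .ofNat 79, .ofNat 33, .ofNat 0, .ofNat 0,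 .ofNat 340, .ofNat 384, .ofNat 0, .ofNat 0, .ofNat 0, .ofNat 0, .ofNat 0, .ofNat 0, .ofNat 0, .ofNat 0, .ofNat 0, .ofNat 0, .ofNat 939660395622693579573445988521607168, .ofNat 0, .ofNat 0, .ofNat 0, .ofNat 0, .ofNat 0⟩)
    (by decide +kernel)
theorem L01506 : Good (Phi V5.P V5.D (-1) (-1)) ⟨4, 9, 3, 0, 2, 3, 3, 4, 5, 2⟩ :=
  leafX_sound T5.ok_mm T5.Ymm.bz_eq (w := 218) (c := ⟨⟨.negSucc 504, .negSucc 243, .ofNat 242, .negSucc 255, .negSucc 52, .negSucc 757⟩, ⟨.negSucc 87, .ofNat 59, .ofNat 117, .ofNat 50, .ofNat 6, .ofNat 93⟩, ⟨.ofNat 153, .ofNat 159, .negSucc 84, .ofNat 250, .negSucc 3, .ofNat 369⟩, ⟨.negSucc 1135, .negSucc 399, .ofNat 405, .negSucc 475, .negSucc 147, .negSucc 1573⟩, ⟨.negSucc 1248, .negSucc 86, .ofNat 163, .ofNat 241, .negSucc 161, .negSucc 262⟩, .ofNat 448, .ofNat 204, .ofNat 0, .ofNat 204, .ofNat 1807, .ofNat 0, .ofNat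 364, .negSucc 125, .negSucc 657, .ofNat 0, .ofNat 128, .ofNat 103, .ofNat 0, .ofNat 0, .ofNat 785, .ofNat 1833, .ofNat 0, .ofNat 0, .ofNat 0, .ofNat 0, .ofNat 0, .ofNat 0, .ofNat 0, .ofNat 0, .ofNat 0, .ofNat 0, .ofNat 0, .ofNat 0, .ofNat 0, .ofNat 0, .ofNat 0, .ofNat 0⟩)
    (by decide +kernel)
theorem L01507 : Good (Phi V5.P V5.D (-1) (-1)) ⟨4, 9, 3, 0, 2, 3, 3, 5, 5, 2⟩ :=
  leafX_sound T5.ok_mm T5.Ymm.bz_eq (w := 218) (c := ⟨⟨.negSucc 770, .negSucc 142, .ofNat 188, .negSucc 61, .negSucc 162, .negSucc 605⟩, ⟨.negSucc 38, .ofNat 37, .ofNat 122, .ofNat 0, .ofNat 19, .ofNat 82⟩, ⟨.ofNat 301, .ofNat 85, .negSucc 31, .ofNat 102, .ofNat 82, .ofNat 277⟩, ⟨.negSucc 1670, .negSucc 207, .ofNat 280, .negSucc 147, .negSucc 340, .negSucc 1225⟩, ⟨.negSucc 1240, .negSucc 133, .ofNat 80, .negSucc 118, .ofNat 7, .negSucc 88⟩, .ofNat 496, .ofNat 312, .ofNat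 0, .ofNat 312, .ofNat 2631, .ofNat 0, .ofNat 311, .negSucc 127, .negSucc 415, .ofNat 0, .ofNat 102, .ofNat 63, .ofNat 0, .ofNat 0, .ofNat 492, .ofNat 1736, .ofNat 0, .ofNat 0, .ofNat 0, .ofNat 0, .ofNat 0, .ofNat 0, .ofNat 0, .ofNat 0, .ofNat 0, .ofNat 0, .ofNat 0, .ofNat 0, .ofNat 0, .ofNat 0, .ofNat 0, .ofNat 0⟩)
    (by decide +kernel)
theorem L01508 : Good (Phi V5.P V5.D (-1) (-1)) ⟨4, 9, 3, 1, 2, 3, 2, 2, 5, 2⟩ :=
  leafX_sound T5.ok_mm T5.Ymm.bz_eq (w := 213) (c := ⟨⟨.negSucc 375, .negSucc 13, .ofNat 155, .negSucc 194, .negSucc 319, .negSucc 678⟩, ⟨.ofNat 13, .ofNat 20, .ofNat 105, .ofNat 38, .ofNat 62, .ofNat 127⟩, ⟨.ofNat 131, .negSucc 19, .ofNat 25, .ofNat 265, .ofNat 158, .ofNat 278⟩, ⟨.negSucc 947, .negSucc 7, .ofNat 223, .negSucc 355, .negSucc 652, .negSucc 1410⟩, ⟨.negSucc 942, .negSucc 327, .negSucc 87, .ofNat 225, .negSucc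 53, .negSucc 292⟩, .ofNat 676, .ofNat 1070, .ofNat 0, .ofNat 1070, .ofNat 5912, .ofNat 0, .ofNat 128, .negSucc 176, .negSucc 278, .ofNat 0, .ofNat 59, .ofNat 55, .ofNat 0, .ofNat 0, .ofNat 345, .ofNat 767, .ofNat 0, .ofNat 0, .ofNat 0, .ofNat 0, .ofNat 0, .ofNat 0, .ofNat 0, .ofNat 0, .ofNat 0, .ofNat 0, .ofNat 44987243407451635700937962389397045248, .ofNat 0, .ofNat 0, .ofNat 0, .ofNat 0, .ofNat 0⟩)
    (by decide +kernel)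
theorem L01509 : Good (Phi V5.P V5.D (-1) (-1)) ⟨4, 9, 2, 0, 3, 6, 2, 2, 5, 3⟩ :=
  leafX_sound T5.ok_mm T5.Ymm.bz_eq (w := 226) (c := ⟨⟨.negSucc 1602, .negSucc 278, .ofNat 419, .ofNat 246, .ofNat 62, .negSucc 426⟩, ⟨.ofNat 27, .ofNat 85, .ofNat 310, .negSucc 45, .ofNat 2, .ofNat 70⟩, ⟨.ofNat 823, .ofNat 204, .negSucc 233, .negSucc 165, .negSucc 81, .ofNat 241⟩, ⟨.negSucc 3396, .negSucc 378, .ofNat 623, .ofNat 456, .ofNat 149, .negSucc 826⟩, ⟨.negSucc 1388, .ofNat 41, .ofNat 76, .negSucc 188, .ofNat 212, .ofNat 124⟩, .ofNat 453, .ofNat 237, .ofNat 0, .ofNat 237, .ofNat 1874, .ofNat 0, .ofNat 371, .negSucc 127, .negSucc 723, .ofNat 0, .ofNat 107, .ofNat 128, .ofNat 0, .ofNat 0, .ofNat 953, .ofNat 1904, .ofNat 0, .ofNat 0, .ofNat 0, .ofNat 0, .ofNat 0, .ofNat 0, .ofNat 0, .ofNat 0, .ofNat 0, .ofNat 0, .ofNat 403761016274173263584878310308304876732416,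 .ofNat 0, .ofNat 0, .ofNat 0, .ofNat 0, .ofNat 0⟩)
    (by decide +kernel)
theorem L01510 : Good (Phi V5.P V5.D (-1) (-1)) ⟨4, 9, 2, 0, 3, 7, 3, 4, 5, 3⟩ :=
  leafX_sound T5.ok_mm T5.Ymm.bz_eq (w := 229) (c := ⟨⟨.negSucc 1570, .negSucc 123, .ofNat 337, .ofNat 36, .ofNat 128, .negSucc 281⟩, ⟨.ofNat 27, .ofNat 52, .ofNat 326, .negSucc 3, .negSucc 21, .ofNat 39⟩, ⟨.ofNat 818, .ofNat 100, .negSucc 107, .negSucc 78, .negSucc 109, .ofNat 106⟩, ⟨.negSucc 3308, .negSucc 103, .ofNat 472, .ofNat 62, .ofNat 236, .negSucc 579⟩, ⟨.negSucc 1324, .negSucc 121, .ofNat 192, .ofNat 18, .negSucc 147, .negSucc 39⟩, .ofNat 455, .ofNat 236, .ofNat 0, .ofNat 236, .ofNat 1909, .ofNat 0, .ofNat 304, .negSucc 127, .negSucc 344, .ofNat 0, .ofNat 114, .ofNat 57, .ofNat 0, .ofNat 0, .ofNat 467, .ofNat 2599, .ofNat 0, .ofNat 0, .ofNat 0, .ofNat 0, .ofNat 0, .ofNat 0,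 .ofNat 1894109653614257136759653726660143966322688, .ofNat 0, .ofNat 0, .ofNat 0, .ofNat 0, .ofNat 0, .ofNat 0, .ofNat 0, .ofNat 2954535341830652401197710401321623317643264, .ofNat 0⟩)
    (by decide +kernel)
theorem L01511 : Good (Phi V5.P V5.D (-1) (-1)) ⟨4, 9, 2, 0, 3, 7, 3, 5, 5, 3⟩ :=
  leafX_sound T5.ok_mm T5.Ymm.bz_eq (w := 230) (c := ⟨⟨.negSucc 1483, .negSucc 72, .ofNat 234, .ofNat 89, .ofNat 96, .negSucc 130⟩, ⟨.ofNat 25, .ofNat 42, .ofNat 310, .negSucc 16, .negSucc 11, .ofNat 25⟩, ⟨.ofNat 726, .ofNat 23, .negSucc 17, .negSucc 67, .negSucc 86, .ofNat 5⟩, ⟨.negSucc 3132, .negSucc 20, .ofNat 279, .ofNat 141, .ofNat 200, .negSucc 279⟩, ⟨.negSucc 1404, .negSucc 66, .ofNat 229, .negSucc 186, .ofNat 116, .negSucc 0⟩, .ofNat 455, .ofNat 237, .ofNat 0, .ofNat 237, .ofNat 1902, .ofNat 0, .ofNat 493, .negSucc 127, .negSucc 541, .ofNat 0, .ofNat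 118, .ofNat 90, .ofNat 0, .ofNat 0, .ofNat 723, .ofNat 3061, .ofNat 0, .ofNat 0, .ofNat 0, .ofNat 0, .ofNat 0, .ofNat 0, .ofNat 0, .ofNat 0, .ofNat 0, .ofNat 0, .ofNat 4661621393350360846833573358112221907910656, .ofNat 0, .ofNat 0, .ofNat 0, .ofNat 0, .ofNat 0⟩)
    (by decide +kernel)
theorem L01512 : Good (Phi V5.P V5.D (-1) (-1)) ⟨4, 9, 2, 0, 2, 2, 2, 3, 4, 1⟩ :=
  leafX_sound T5.ok_mm T5.Ymm.bz_eq (w := 206) (c := ⟨⟨.negSucc 1336, .negSucc 259, .ofNat 320, .ofNat 1, .ofNat 381, .negSucc 611⟩, ⟨.ofNat 39, .ofNat 86, .ofNat 251, .negSucc 18, .negSucc 29, .ofNat 97⟩, ⟨.ofNat 741, .ofNat 192, .negSucc 193, .negSucc 93, .negSucc 360, .ofNat 400⟩, ⟨.negSucc 2809, .negSucc 334, .ofNat 506, .negSucc 59, .ofNat 811, .negSucc 1171⟩, ⟨.negSucc 851, .ofNat 31, .negSucc 73, .negSucc 211, .ofNat 357, .ofNat 388⟩, .ofNat 456, .ofNat 244, .ofNat 0,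 .ofNat 244, .ofNat 1918, .ofNat 0, .ofNat 502, .negSucc 127, .negSucc 820, .ofNat 0, .ofNat 126, .ofNat 139, .ofNat 0, .ofNat 0, .ofNat 1128, .ofNat 750, .ofNat 0, .ofNat 0, .ofNat 0, .ofNat 0, .ofNat 0, .ofNat 0, .ofNat 0, .ofNat 0, .ofNat 0, .ofNat 0, .ofNat 277203897681475847985568516910612480, .ofNat 0, .ofNat 0, .ofNat 0, .ofNat 0, .ofNat 0⟩)
    (by decide +kernel)
theorem L01513 : Good (Phi V5.P V5.D (-1) (-1)) ⟨4, 9, 2, 0, 3, 6, 2, 3, 5, 2⟩ :=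
  leafX_sound T5.ok_mm T5.Ymm.bz_eq (w := 225) (c := ⟨⟨.negSucc 1169, .negSucc 197, .ofNat 270, .ofNat 123, .negSucc 25, .negSucc 343⟩, ⟨.ofNat 1, .ofNat 65, .ofNat 248, .negSucc 25, .ofNat 26, .ofNat 63⟩, ⟨.ofNat 585, .ofNat 110, .negSucc 80, .negSucc 88, .negSucc 68, .ofNat 157⟩, ⟨.negSucc 2538, .negSucc 242, .ofNat 397, .ofNat 211, .ofNat 62, .negSucc 664⟩, ⟨.negSucc 1279, .negSucc 44, .ofNat 19, .negSucc 226, .ofNat 766, .ofNat 207⟩, .ofNat 456, .ofNat 242, .ofNat 0, .ofNat 242, .ofNat 1922, .ofNat 0, .ofNat 557, .negSucc 127, .negSucc 889, .ofNat 0, .ofNat 127, .ofNat 146, .ofNat 0, .ofNat 0, .ofNat 1001, .ofNat 1718, .ofNat 0, .ofNat 0, .ofNat 0, .ofNat 0, .ofNat 0, .ofNat 0, .ofNat 442700628273824692691920733333360436314112, .ofNat 0, .ofNat 0, .ofNat 0, .ofNat 0, .ofNat 0, .ofNat 0, .ofNat 0, .ofNat 0, .ofNat 0⟩)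
    (by decide +kernel)
theorem L01514 : Good (Phi V5.P V5.D (-1) (-1)) ⟨4, 9, 2, 0, 3, 7, 3, 6, 5, 2⟩ :=
  leafX_sound T5.ok_mm T5.Ymm.bz_eq (w := 229) (c := ⟨⟨.negSucc 1125, .negSucc 55, .ofNat 218, .negSucc 13, .ofNat 10, .negSucc 218⟩, ⟨.negSucc 5, .ofNat 34, .ofNat 267, .ofNat 1, .ofNat 6, .ofNat 30⟩, ⟨.ofNat 574, .ofNat 15, .ofNat 15, .negSucc 0, .negSucc 72, .ofNat 25⟩, ⟨.negSucc 2417, .negSucc 12, .ofNat 264, .negSucc 57, .ofNat 35, .negSucc 431⟩, ⟨.negSucc 1447, .negSucc 54, .ofNat 278, .negSucc 161, .ofNat 183, .ofNat 108⟩, .ofNat 456, .ofNat 242, .ofNat 0, .ofNat 242, .ofNat 1911, .ofNat 0, .ofNat 456, .negSucc 127, .negSucc 746, .ofNat 0, .ofNat 122, .ofNat 120, .ofNat 0, .ofNat 0, .ofNat 827, .ofNat 1932, .ofNat 0, .ofNat 0, .ofNat 0, .ofNat 0, .ofNat 0, .ofNat 0, .ofNat 0, .ofNat 0, .ofNat 0, .ofNat 0, .ofNat 0, .ofNat 0, .ofNat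 0, .ofNat 0, .ofNat 0, .ofNat 0⟩)
    (by decide +kernel)
theorem L01515 : Good (Phi V5.P V5.D (-1) (-1)) ⟨4, 9, 2, 0, 3, 7, 3, 7, 5, 2⟩ :=
  leafX_sound T5.ok_mm T5.Ymm.bz_eq (w := 229) (c := ⟨⟨.negSucc 1225, .negSucc 38, .ofNat 54, .ofNat 125, .ofNat 191, .negSucc 57⟩, ⟨.ofNat 34, .ofNat 29, .ofNat 258, .negSucc 23, .negSucc 10, .ofNat 13⟩, ⟨.ofNat 584, .negSucc 14, .ofNat 105, .negSucc 91, .negSucc 216, .negSucc 51⟩, ⟨.negSucc 2631, .ofNat 28, .negSucc 13, .ofNat 218, .ofNat 474, .negSucc 69⟩, ⟨.negSucc 1244, .negSucc 102, .ofNat 198, .negSucc 178, .ofNat 624, .ofNat 289⟩, .ofNat 467, .ofNat 289, .ofNat 0, .ofNat 289, .ofNat 2051, .ofNat 0, .ofNat 481, .negSucc 127, .negSucc 510, .ofNat 0, .ofNat 100, .ofNat 85, .ofNat 0, .ofNat 0, .ofNat 574, .ofNat 1560, .ofNat 0, .ofNat 0, .ofNat 0, .ofNat 0, .ofNat 0, .ofNat 11850763237777957092843575215965080867630481408,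 .ofNat 0, .ofNat 0, .ofNat 0, .ofNat 3455157746751373549698421046301245316981063680, .ofNat 0, .ofNat 0, .ofNat 0, .ofNat 0, .ofNat 0, .ofNat 0⟩)
    (by decide +kernel)
theorem L01516 : Good (Phi V5.P V5.D (-1) (-1)) ⟨4, 9, 2, 0, 2, 3, 2, 3, 5, 3⟩ :=
  leafX_sound T5.ok_mm T5.Ymm.bz_eq (w := 211) (c := ⟨⟨.negSucc 1755, .negSucc 122, .ofNat 134, .ofNat 517, .ofNat 408, .negSucc 45⟩, ⟨.ofNat 94, .ofNat 48, .ofNat 283, .negSucc 92, .negSucc 22, .ofNat 13⟩, ⟨.ofNat 914, .ofNat 28, .ofNat 8, .negSucc 345, .negSucc 371, .negSucc 32⟩, ⟨.negSucc 3717, .negSucc 103, .ofNat 148, .ofNat 992, .ofNat 951, .negSucc 34⟩, ⟨.negSucc 1224, .negSucc 79, .ofNat 95, .negSucc 327, .ofNat 966, .ofNat 357⟩, .ofNat 457, .ofNat 249, .ofNat 0, .ofNat 249, .ofNat 1931, .ofNat 0, .ofNat 480, .negSucc 127, .negSucc 338, .ofNat 0, .ofNat 114, .ofNat 57, .ofNat 0, .ofNat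 0, .ofNat 443, .ofNat 759, .ofNat 0, .ofNat 0, .ofNat 0, .ofNat 0, .ofNat 0, .ofNat 464386979904733642696559673737699318038528, .ofNat 0, .ofNat 0, .ofNat 0, .ofNat 180767428948134099976137766659320103043072, .ofNat 0, .ofNat 0, .ofNat 0, .ofNat 0, .ofNat 0, .ofNat 0⟩)
    (by decide +kernel)
theorem L01517 : Good (Phi V5.P V5.D (-1) (-1)) ⟨3, 4, 2, 0, 2, 2, 2, 2, 4, 2⟩ :=
  leafX_sound T5.ok_mm T5.Ymm.bz_eq (w := 202) (c := ⟨⟨.negSucc 1922, .negSucc 445, .ofNat 129, .ofNat 99, .ofNat 268, .negSucc 24⟩, ⟨.ofNat 21, .ofNat 199, .ofNat 379, .negSucc 34, .negSucc 27, .ofNat 8⟩, ⟨.ofNat 1297, .ofNat 303, .negSucc 124, .negSucc 345, .negSucc 227, .ofNat 8⟩, ⟨.negSucc 4244, .negSucc 432, .ofNat 151, .ofNat 158, .ofNat 588, .negSucc 46⟩, ⟨.negSucc 746, .negSucc 14, .negSucc 80, .negSucc 343, .ofNat 314, .ofNat 214⟩, .ofNat 460, .ofNat 202, .ofNat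 0, .ofNat 202, .ofNat 1941, .ofNat 0, .ofNat 491, .negSucc 120, .negSucc 465, .ofNat 0, .ofNat 128, .ofNat 76, .ofNat 0, .ofNat 0, .ofNat 1089, .ofNat 1495, .ofNat 0, .ofNat 0, .ofNat 0, .ofNat 0, .ofNat 0, .ofNat 0, .ofNat 0, .ofNat 0, .ofNat 0, .ofNat 0, .ofNat 4200472194211706970077165505342341120, .ofNat 0, .ofNat 0, .ofNat 0, .ofNat 0, .ofNat 0⟩)
    (by decide +kernel)
theorem L01518 : Good (Phi V5.P V5.D (-1) (-1)) ⟨3, 4, 2, 0, 3, 6, 3, 4, 4, 2⟩ :=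
  leafX_sound T5.ok_mm T5.Ymm.bz_eq (w := 221) (c := ⟨⟨.negSucc 1908, .negSucc 374, .ofNat 169, .ofNat 272, .ofNat 163, .negSucc 3⟩, ⟨.ofNat 12, .ofNat 165, .ofNat 361, .negSucc 41, .negSucc 16, .ofNat 10⟩, ⟨.ofNat 1024, .ofNat 257, .negSucc 103, .negSucc 213, .negSucc 158, .negSucc 44⟩, ⟨.negSucc 4233, .negSucc 346, .ofNat 186, .ofNat 523, .ofNat 355, .ofNat 15⟩, ⟨.negSucc 1167, .negSucc 104, .ofNat 70, .negSucc 208, .ofNat 159, .ofNat 211⟩, .ofNat 461, .ofNat 203, .ofNat 0, .ofNat 203, .ofNat 1960, .ofNat 0, .ofNat 560, .negSucc 127, .negSucc 347, .ofNat 0, .ofNat 128, .ofNat 58, .ofNat 0, .ofNat 0, .ofNat 759, .ofNat 2440, .ofNat 0, .ofNat 0, .ofNat 0, .ofNat 0, .ofNat 0, .ofNat 0, .ofNat 0, .ofNat 0, .ofNat 0, .ofNat 0, .ofNat 738204491545753674483876044189937711448064, .ofNat 0, .ofNat 0, .ofNat 0, .ofNat 0, .ofNat 0⟩)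
    (by decide +kernel)
theorem L01519 : Good (Phi V5.P V5.D (-1) (-1)) ⟨3, 4, 2, 0, 3, 7, 3, 4, 4, 2⟩ :=
  leafX_sound T5.ok_mm T5.Ymm.bz_eq (w := 221) (c := ⟨⟨.negSucc 1831, .negSucc 164, .ofNat 142, .ofNat 213, .ofNat 196, .ofNat 141⟩, ⟨.ofNat 15, .ofNat 106, .ofNat 345, .negSucc 26, .negSucc 20, .negSucc 8⟩, ⟨.ofNat 954, .ofNat 85, .negSucc 34, .negSucc 172, .negSucc 170, .negSucc 169⟩, ⟨.negSucc 4030, .negSucc 10, .ofNat 104, .ofNat 422, .ofNat 404, .ofNat 302⟩, ⟨.negSucc 1377, .negSucc 199, .ofNat 232, .negSucc 69, .ofNat 88, .ofNat 270⟩, .ofNat 455, .ofNat 191, .ofNat 0, .ofNat 191, .ofNat 1873, .ofNat 0, .ofNat 577, .negSucc 105, .negSucc 283, .ofNat 0, .ofNat 128, .ofNat 45, .ofNat 0, .ofNat 0, .ofNat 628, .ofNat 2637, .ofNat 0, .ofNat 0, .ofNat 0, .ofNat 0, .ofNat 0, .ofNat 0, .ofNat 0, .ofNat 0, .ofNat 0, .ofNat 0, .ofNat 29032515626070316294655238788294788513792,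 .ofNat 0, .ofNat 0, .ofNat 0, .ofNat 943758560381970274844849741997009302192128, .ofNat 0⟩)
    (by decide +kernel)
theorem L01520 : Good (Phi V5.P V5.D (-1) (-1)) ⟨3, 4, 2, 0, 2, 3, 3, 5, 5, 4⟩ :=
  leafX_sound T5.ok_mm T5.Ymm.bz_eq (w := 211) (c := ⟨⟨.negSucc 1738, .negSucc 265, .ofNat 138, .ofNat 441, .ofNat 79, .negSucc 54⟩, ⟨.ofNat 10, .ofNat 138, .ofNat 341, .negSucc 73, .negSucc 4, .ofNat 18⟩, ⟨.ofNat 870, .ofNat 129, .negSucc 22, .negSucc 318, .negSucc 59, .ofNat 0⟩, ⟨.negSucc 3837, .negSucc 219, .ofNat 152, .ofNat 838, .ofNat 221, .negSucc 90⟩, ⟨.negSucc 1090, .negSucc 171, .ofNat 132, .negSucc 332, .ofNat 231, .ofNat 231⟩, .ofNat 463, .ofNat 216, .ofNat 0, .ofNat 216, .ofNat 1987, .ofNat 0, .ofNat 558, .negSucc 127, .negSucc 523, .ofNat 0, .ofNat 128, .ofNat 83, .ofNat 0, .ofNat 0, .ofNat 950, .ofNat 1460, .ofNat 0, .ofNat 0, .ofNat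 0, .ofNat 0, .ofNat 0, .ofNat 0, .ofNat 0, .ofNat 0, .ofNat 0, .ofNat 0, .ofNat 0, .ofNat 0, .ofNat 0, .ofNat 0, .ofNat 0, .ofNat 0⟩)
    (by decide +kernel)
theorem L01521 : Good (Phi V5.P V5.D (-1) (-1)) ⟨3, 4, 2, 0, 2, 3, 3, 5, 5, 5⟩ :=
  leafX_sound T5.ok_mm T5.Ymm.bz_eq (w := 211) (c := ⟨⟨.negSucc 1895, .negSucc 107, .ofNat 50, .ofNat 541, .ofNat 180, .ofNat 56⟩, ⟨.ofNat 54, .ofNat 109, .ofNat 331, .negSucc 87, .negSucc 22, .negSucc 7⟩, ⟨.ofNat 979, .negSucc 17, .ofNat 10, .negSucc 387, .negSucc 159, .negSucc 68⟩, ⟨.negSucc 4180, .ofNat 89, .ofNat 14, .ofNat 1122, .ofNat 420, .ofNat 160⟩, ⟨.negSucc 1032, .negSucc 154, .ofNat 161, .negSucc 136, .ofNat 347, .ofNat 249⟩, .ofNat 330, .ofNat 65, .ofNat 0, .ofNat 65, .ofNat 770, .ofNat 0, .ofNat 311, .negSucc 55, .negSucc 199, .ofNat 0, .ofNat 128, .ofNat 37, .ofNat 0, .ofNat 0, .ofNat 433,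 .ofNat 916, .ofNat 0, .ofNat 0, .ofNat 0, .ofNat 0, .ofNat 0, .ofNat 0, .ofNat 0, .ofNat 0, .ofNat 0, .ofNat 0, .ofNat 0, .ofNat 0, .ofNat 0, .ofNat 0, .ofNat 0, .ofNat 0⟩)
    (by decide +kernel)
theorem L01522 : Good (Phi V5.P V5.D (-1) (-1)) ⟨3, 4, 2, 0, 2, 2, 2, 3, 4, 2⟩ :=
  leafX_sound T5.ok_mm T5.Ymm.bz_eq (w := 201) (c := ⟨⟨.negSucc 1647, .negSucc 375, .ofNat 131, .negSucc 7, .ofNat 468, .negSucc 7⟩, ⟨.ofNat 19, .ofNat 160, .ofNat 290, .ofNat 0, .negSucc 46, .ofNat 18⟩, ⟨.ofNat 1032, .ofNat 224, .negSucc 80, .negSucc 204, .negSucc 464, .negSucc 47⟩, ⟨.negSucc 3641, .negSucc 339, .ofNat 209, .negSucc 51, .ofNat 1084, .negSucc 10⟩, ⟨.negSucc 632, .ofNat 8, .ofNat 43, .negSucc 220, .ofNat 828, .ofNat 373⟩, .ofNat 457, .ofNat 195, .ofNat 0, .ofNat 195, .ofNat 1908, .ofNat 0, .ofNat 454, .negSucc 107, .negSucc 439, .ofNat 0, .ofNat 128,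 .ofNat 65, .ofNat 0, .ofNat 0, .ofNat 909, .ofNat 486, .ofNat 0, .ofNat 0, .ofNat 0, .ofNat 0, .ofNat 0, .ofNat 0, .ofNat 0, .ofNat 0, .ofNat 0, .ofNat 1447942761361122885382099875424911753216, .ofNat 0, .ofNat 0, .ofNat 0, .ofNat 0, .ofNat 0, .ofNat 0⟩)
    (by decide +kernel)
theorem L01523 : Good (Phi V5.P V5.D (-1) (-1)) ⟨3, 4, 2, 0, 2, 3, 3, 6, 4, 2⟩ :=
  leafX_sound T5.ok_mm T5.Ymm.bz_eq (w := 205) (c := ⟨⟨.negSucc 1745, .negSucc 63, .ofNat 83, .ofNat 551, .ofNat 136, .ofNat 43⟩, ⟨.ofNat 50, .ofNat 88, .ofNat 277, .negSucc 73, .negSucc 0, .ofNat 10⟩, ⟨.ofNat 896, .negSucc 72, .negSucc 3, .negSucc 354, .negSucc 134, .negSucc 105⟩, ⟨.negSucc 3826, .ofNat 92, .ofNat 120, .ofNat 1132, .ofNat 348, .ofNat 167⟩, ⟨.negSucc 941, .negSucc 189, .ofNat 21, .negSucc 53, .ofNat 536, .ofNat 712⟩, .ofNat 333, .ofNat 74, .ofNat 0, .ofNat 74, .ofNat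 795, .ofNat 0, .ofNat 461, .negSucc 59, .negSucc 251, .ofNat 0, .ofNat 128, .ofNat 44, .ofNat 0, .ofNat 0, .ofNat 452, .ofNat 379, .ofNat 0, .ofNat 0, .ofNat 0, .ofNat 0, .ofNat 0, .ofNat 0, .ofNat 0, .ofNat 0, .ofNat 0, .ofNat 5204960433302661636577319988798808915968, .ofNat 6896794846098111378603306181195726848, .ofNat 0, .ofNat 0, .ofNat 0, .ofNat 0, .ofNat 0⟩)
    (by decide +kernel)
theorem L01524 : Good (Phi V5.P V5.D (-1) (-1)) ⟨3, 4, 2, 0, 2, 3, 3, 7, 4, 2⟩ :=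
  leafX_sound T5.ok_mm T5.Ymm.bz_eq (w := 205) (c := ⟨⟨.negSucc 1549, .negSucc 38, .negSucc 53, .ofNat 566, .ofNat 66, .ofNat 94⟩, ⟨.ofNat 70, .ofNat 87, .ofNat 244, .negSucc 87, .negSucc 7, .ofNat 6⟩, ⟨.ofNat 723, .negSucc 90, .ofNat 111, .negSucc 333, .negSucc 75, .negSucc 186⟩, ⟨.negSucc 3446, .ofNat 254, .negSucc 111, .ofNat 1168, .ofNat 331, .ofNat 314⟩, ⟨.negSucc 429, .negSucc 218, .ofNat 58, .ofNat 70, .ofNat 979, .ofNat 848⟩, .ofNat 458, .ofNat 214, .ofNat 0, .ofNat 214, .ofNat 1930, .ofNat 0, .ofNat 560, .negSucc 121, .negSucc 398, .ofNat 0, .ofNat 128, .ofNat 63, .ofNat 0, .ofNat 0, .ofNat 780, .ofNat 335, .ofNat 0, .ofNat 0, .ofNat 0, .ofNat 0, .ofNat 0, .ofNat 33757638586894369355867422510443982225408, .ofNat 0, .ofNat 0, .ofNat 0, .ofNat 13710807233640732569502698301567086362624, .ofNat 0, .ofNat 0, .ofNat 0, .ofNat 0, .ofNat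 0, .ofNat 0⟩)
    (by decide +kernel)
theorem L01525 : Good (Phi V5.P V5.D (-1) (-1)) ⟨3, 4, 2, 0, 2, 2, 2, 2, 4, 3⟩ :=
  leafX_sound T5.ok_mm T5.Ymm.bz_eq (w := 201) (c := ⟨⟨.negSucc 2033, .negSucc 319, .ofNat 89, .ofNat 153, .ofNat 272, .ofNat 244⟩, ⟨.ofNat 51, .ofNat 175, .ofNat 345, .negSucc 34, .negSucc 26, .negSucc 24⟩, ⟨.ofNat 1477, .ofNat 212, .negSucc 109, .negSucc 465, .negSucc 327, .negSucc 170⟩, ⟨.negSucc 4445, .negSucc 174, .ofNat 79, .ofNat 265, .ofNat 598, .ofNat 496⟩, ⟨.negSucc 534, .negSucc 19, .negSucc 25, .negSucc 298, .ofNat 347, .ofNat 86⟩, .ofNat 462, .ofNat 235, .ofNat 0, .ofNat 235, .ofNat 1979, .ofNat 0, .ofNat 180, .negSucc 127, .negSucc 68, .ofNat 0, .ofNat 126, .ofNat 12, .ofNat 0, .ofNat 0, .ofNat 263, .ofNat 641, .ofNat 0, .ofNat 0, .ofNat 0, .ofNat 0, .ofNat 0, .ofNat 0, .ofNat 0, .ofNat 0, .ofNat 0, .ofNat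 0, .ofNat 0, .ofNat 0, .ofNat 0, .ofNat 0, .ofNat 0, .ofNat 0⟩)
    (by decide +kernel)
theorem L01526 : Good (Phi V5.P V5.D (-1) (-1)) ⟨3, 4, 2, 0, 2, 3, 3, 4, 5, 6⟩ :=
  leafX_sound T5.ok_mm T5.Ymm.bz_eq (w := 211) (c := ⟨⟨.negSucc 1931, .negSucc 143, .ofNat 66, .ofNat 522, .ofNat 142, .ofNat 106⟩, ⟨.ofNat 40, .ofNat 120, .ofNat 341, .negSucc 71, .negSucc 13, .negSucc 10⟩, ⟨.ofNat 1044, .ofNat 22, .negSucc 44, .negSucc 434, .negSucc 148, .negSucc 91⟩, ⟨.negSucc 4259, .ofNat 64, .negSucc 1, .ofNat 1067, .ofNat 328, .ofNat 242⟩, ⟨.negSucc 1078, .negSucc 142, .ofNat 171, .negSucc 81, .ofNat 229, .ofNat 168⟩, .ofNat 463, .ofNat 211, .ofNat 0, .ofNat 211, .ofNat 1986, .ofNat 0, .ofNat 285, .negSucc 113, .negSucc 155, .ofNat 0, .ofNat 128, .ofNat 25, .ofNat 0, .ofNat 0, .ofNat 595, .ofNat 1464, .ofNat 0, .ofNat 0, .ofNat 0, .ofNat 0, .ofNat 0,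 .ofNat 0, .ofNat 0, .ofNat 0, .ofNat 0, .ofNat 0, .ofNat 0, .ofNat 0, .ofNat 0, .ofNat 0, .ofNat 0, .ofNat 0⟩)
    (by decide +kernel)
theorem L01527 : Good (Phi V5.P V5.D (-1) (-1)) ⟨3, 4, 2, 0, 2, 3, 3, 5, 5, 6⟩ :=
  leafX_sound T5.ok_mm T5.Ymm.bz_eq (w := 211) (c := ⟨⟨.negSucc 1781, .negSucc 52, .negSucc 13, .ofNat 506, .ofNat 121, .ofNat 95⟩, ⟨.ofNat 40, .ofNat 111, .ofNat 318, .negSucc 75, .negSucc 9, .negSucc 4⟩, ⟨.ofNat 895, .negSucc 107, .ofNat 37, .negSucc 371, .negSucc 107, .negSucc 84⟩, ⟨.negSucc 3947, .ofNat 189, .negSucc 93, .ofNat 1085, .ofNat 338, .ofNat 245⟩, ⟨.negSucc 901, .negSucc 209, .ofNat 140, .ofNat 77, .ofNat 532, .ofNat 301⟩, .ofNat 330, .ofNat 62, .ofNat 0, .ofNat 62, .ofNat 768, .ofNat 0, .ofNat 264, .negSucc 53, .negSucc 99, .ofNat 0, .ofNat 128, .ofNat 18, .ofNat 0, .ofNat 0, .ofNat 367, .ofNat 1035, .ofNat 0,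 .ofNat 0, .ofNat 0, .ofNat 0, .ofNat 0, .ofNat 54996817835278012666029194134586071711744, .ofNat 0, .ofNat 0, .ofNat 0, .ofNat 0, .ofNat 0, .ofNat 0, .ofNat 0, .ofNat 0, .ofNat 263182325974290231791831604073011871744, .ofNat 0⟩)
    (by decide +kernel)
theorem L01528 : Good (Phi V5.P V5.D (-1) (-1)) ⟨3, 4, 2, 0, 3, 6, 2, 2, 5, 7⟩ :=
  leafX_sound T5.ok_mm T5.Ymm.bz_eq (w := 220) (c := ⟨⟨.negSucc 1765, .negSucc 194, .ofNat 40, .ofNat 245, .ofNat 252, .ofNat 104⟩, ⟨.ofNat 46, .ofNat 121, .ofNat 313, .negSucc 38, .negSucc 20, .negSucc 15⟩, ⟨.ofNat 971, .ofNat 54, .negSucc 62, .negSucc 260, .negSucc 352, .negSucc 95⟩, ⟨.negSucc 3948, .ofNat 10, .negSucc 1, .ofNat 512, .ofNat 625, .ofNat 242⟩, ⟨.negSucc 946, .negSucc 76, .ofNat 115, .negSucc 17, .ofNat 742, .ofNat 154⟩, .ofNat 332, .ofNat 57, .ofNat 0, .ofNat 57, .ofNat 768, .ofNat 0, .ofNat 304,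 .negSucc 52, .negSucc 69, .ofNat 0, .ofNat 128, .ofNat 13, .ofNat 0, .ofNat 0, .ofNat 361, .ofNat 961, .ofNat 0, .ofNat 0, .ofNat 0, .ofNat 0, .ofNat 0, .ofNat 0, .ofNat 0, .ofNat 0, .ofNat 0, .ofNat 0, .ofNat 0, .ofNat 0, .ofNat 0, .ofNat 43587658314448493226133695788508789499494400, .ofNat 678061706068626075672004716386382375813120, .ofNat 0⟩)
    (by decide +kernel)
theorem L01529 : Good (Phi V5.P V5.D (-1) (-1)) ⟨3, 4, 2, 0, 3, 7, 2, 2, 5, 7⟩ :=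
  leafX_sound T5.ok_mm T5.Ymm.bz_eq (w := 220) (c := ⟨⟨.negSucc 1561, .negSucc 38, .ofNat 7, .ofNat 242, .ofNat 266, .ofNat 90⟩, ⟨.ofNat 18, .ofNat 80, .ofNat 296, .negSucc 33, .negSucc 5, .ofNat 3⟩, ⟨.ofNat 736, .negSucc 74, .ofNat 3, .negSucc 178, .negSucc 291, .negSucc 116⟩, ⟨.negSucc 3471, .ofNat 237, .negSucc 72, .ofNat 517, .ofNat 626, .ofNat 206⟩, ⟨.negSucc 1035, .negSucc 154, .ofNat 274, .ofNat 95, .ofNat 805, .ofNat 199⟩, .ofNat 457, .ofNat 187, .ofNat 0, .ofNat 187, .ofNat 1902, .ofNat 0, .ofNat 474, .negSucc 85, .negSucc 40, .ofNat 0, .ofNat 128, .ofNat 3, .ofNat 0, .ofNat 0, .ofNat 496, .ofNat 410, .ofNat 0, .ofNat 0, .ofNat 0, .ofNat 0, .ofNat 0, .ofNat 0, .ofNat 0, .ofNat 0, .ofNat 0, .ofNat 0, .ofNat 0, .ofNat 0, .ofNat 0, .ofNat 163312754324741132050303443821079302611402752, .ofNat 708661653638897732551730584233559677992960,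 .ofNat 0⟩)
    (by decide +kernel)
theorem L01530 : Good (Phi V5.P V5.D (-1) (-1)) ⟨3, 4, 2, 0, 2, 2, 3, 6, 4, 3⟩ :=
  leafX_sound T5.ok_mm T5.Ymm.bz_eq (w := 206) (c := ⟨⟨.negSucc 1666, .negSucc 227, .ofNat 72, .ofNat 95, .ofNat 167, .ofNat 145⟩, ⟨.ofNat 49, .ofNat 147, .ofNat 280, .negSucc 18, .negSucc 16, .negSucc 16⟩, ⟨.ofNat 1086, .ofNat 77, .negSucc 76, .negSucc 397, .negSucc 200, .negSucc 164⟩, ⟨.negSucc 3678, .negSucc 34, .ofNat 112, .ofNat 177, .ofNat 392, .ofNat 317⟩, ⟨.negSucc 295, .negSucc 23, .negSucc 49, .negSucc 10, .ofNat 346, .ofNat 211⟩, .ofNat 463, .ofNat 227, .ofNat 0, .ofNat 227, .ofNat 1986, .ofNat 0, .ofNat 603, .negSucc 121, .negSucc 262, .ofNat 0, .ofNat 128, .ofNat 41, .ofNat 0, .ofNat 0, .ofNat 989, .ofNat 852, .ofNat 0, .ofNat 0, .ofNat 0, .ofNat 0, .ofNat 0, .ofNat 0, .ofNat 0, .ofNat 0, .ofNat 0, .ofNat 12201312099469856456512062486064182329344,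 .ofNat 0, .ofNat 0, .ofNat 0, .ofNat 0, .ofNat 0, .ofNat 0⟩)
    (by decide +kernel)
theorem L01531 : Good (Phi V5.P V5.D (-1) (-1)) ⟨3, 4, 2, 0, 2, 2, 3, 7, 4, 3⟩ :=
  leafX_sound T5.ok_mm T5.Ymm.bz_eq (w := 205) (c := ⟨⟨.negSucc 1412, .negSucc 156, .negSucc 33, .negSucc 15, .ofNat 371, .ofNat 101⟩, ⟨.ofNat 44, .ofNat 127, .ofNat 237, .ofNat 10, .negSucc 32, .negSucc 0⟩, ⟨.ofNat 784, .negSucc 13, .ofNat 60, .negSucc 234, .negSucc 409, .negSucc 125⟩, ⟨.negSucc 3148, .ofNat 104, .negSucc 30, .ofNat 1, .ofNat 868, .ofNat 244⟩, ⟨.negSucc 11, .negSucc 13, .negSucc 51, .ofNat 300, .ofNat 643, .ofNat 298⟩, .ofNat 458, .ofNat 171, .ofNat 0, .ofNat 171, .ofNat 1903, .ofNat 0, .ofNat 373, .negSucc 90, .negSucc 122, .ofNat 0, .ofNat 128, .ofNat 15, .ofNat 0, .ofNat 0, .ofNat 404, .ofNat 647, .ofNat 0, .ofNat 0, .ofNat 0, .ofNat 0, .ofNat 0, .ofNat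 0, .ofNat 0, .ofNat 0, .ofNat 0, .ofNat 25564346896301037428489104837248322371584, .ofNat 0, .ofNat 0, .ofNat 0, .ofNat 18594109653510281708603675781312072908800, .ofNat 0, .ofNat 0⟩)
    (by decide +kernel)
theorem L01532 : Good (Phi V5.P V5.D (-1) (-1)) ⟨3, 4, 2, 0, 2, 3, 2, 3, 4, 3⟩ :=
  leafX_sound T5.ok_mm T5.Ymm.bz_eq (w := 201) (c := ⟨⟨.negSucc 1617, .negSucc 62, .negSucc 39, .ofNat 544, .ofNat 348, .ofNat 186⟩, ⟨.ofNat 54, .ofNat 102, .ofNat 259, .negSucc 67, .ofNat 16, .negSucc 11⟩, ⟨.ofNat 716, .negSucc 96, .ofNat 45, .negSucc 326, .negSucc 282, .negSucc 237⟩, ⟨.negSucc 3592, .ofNat 231, .negSucc 98, .ofNat 1175, .ofNat 905, .ofNat 459⟩, ⟨.negSucc 540, .negSucc 102, .ofNat 81, .ofNat 288, .ofNat 1581, .ofNat 607⟩, .ofNat 331, .ofNat 63, .ofNat 0, .ofNat 63, .ofNat 770, .ofNat 0, .ofNat 319, .negSucc 54, .negSucc 111, .ofNat 0, .ofNat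 128, .ofNat 17, .ofNat 0, .ofNat 0, .ofNat 495, .ofNat 355, .ofNat 0, .ofNat 0, .ofNat 0, .ofNat 0, .ofNat 0, .ofNat 4195632446779856517408675165211690270720, .ofNat 0, .ofNat 0, .ofNat 0, .ofNat 4677572855832250526076734875183177793536, .ofNat 667001938616677186761839808278953984, .ofNat 0, .ofNat 0, .ofNat 6454443102583533882910238041183262605312, .ofNat 0, .ofNat 0⟩)
    (by decide +kernel)
theorem L01533 : Good (Phi V5.P V5.D (-1) (-1)) ⟨4, 10, 3, 0, 2, 2, 2, 2, 4, 0⟩ :=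
  leafX_sound T5.ok_mm T5.Ymm.bz_eq (w := 209) (c := ⟨⟨.ofNat 1492, .ofNat 88, .negSucc 4, .ofNat 906, .negSucc 1162, .negSucc 2452⟩, ⟨.negSucc 223, .negSucc 78, .ofNat 14, .negSucc 206, .ofNat 167, .ofNat 396⟩, ⟨.negSucc 1161, .negSucc 151, .ofNat 32, .negSucc 602, .ofNat 731, .ofNat 1697⟩, ⟨.ofNat 2774, .ofNat 46, .negSucc 81, .ofNat 1602, .negSucc 2185, .negSucc 4566⟩, ⟨.negSucc 729, .negSucc 145, .ofNat 53, .negSucc 492, .ofNat 208, .negSucc 161⟩, .ofNat 434, .ofNat 222, .ofNat 0, .ofNat 222, .ofNat 1521, .ofNat 0, .ofNat 434, .negSucc 116, .negSucc 436, .ofNat 0, .ofNat 128, .ofNat 86, .ofNat 0, .ofNat 0, .ofNat 551, .ofNat 607, .ofNat 0, .ofNat 0, .ofNat 0, .ofNat 0, .ofNat 0, .ofNat 0, .ofNat 0, .ofNat 0, .ofNat 0, .ofNat 0, .ofNat 0, .ofNat 0, .ofNat 0, .ofNat 0, .ofNat 0, .ofNat 0⟩)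
    (by decide +kernel)
theorem L01534 : Good (Phi V5.P V5.D (-1) (-1)) ⟨4, 11, 3, 0, 2, 2, 2, 2, 4, 0⟩ :=
  leafX_sound T5.ok_mm T5.Ymm.bz_eq (w := 209) (c := ⟨⟨.ofNat 1598, .ofNat 484, .ofNat 9, .ofNat 1544, .negSucc 1457, .negSucc 3192⟩, ⟨.negSucc 485, .negSucc 263, .ofNat 111, .negSucc 435, .ofNat 361, .ofNat 747⟩, ⟨.negSucc 1353, .negSucc 544, .ofNat 173, .negSucc 1069, .ofNat 901, .ofNat 2325⟩, ⟨.ofNat 2732, .ofNat 594, .ofNat 34, .ofNat 2542, .negSucc 2571, .negSucc 5604⟩, ⟨.negSucc 901, .negSucc 221, .ofNat 237, .negSucc 298, .ofNat 119, .negSucc 365⟩, .ofNat 420, .ofNat 225, .ofNat 0, .ofNat 225, .ofNat 1181, .ofNat 0, .ofNat 323, .negSucc 113, .negSucc 668, .ofNat 0, .ofNat 128, .ofNat 167, .ofNat 0, .ofNat 0, .ofNat 741, .ofNat 445, .ofNat 0, .ofNat 0, .ofNat 63684118894663381933146619888271360, .ofNat 0, .ofNat 0, .ofNat 0, .ofNat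 0, .ofNat 0, .ofNat 0, .ofNat 0, .ofNat 0, .ofNat 0, .ofNat 0, .ofNat 0, .ofNat 3950870498801124311566881284073455616, .ofNat 0⟩)
    (by decide +kernel)
theorem L01535 : Good (Phi V5.P V5.D (-1) (-1)) ⟨4, 10, 3, 0, 2, 2, 2, 2, 4, 1⟩ :=
  leafX_sound T5.ok_mm T5.Ymm.bz_eq (w := 208) (c := ⟨⟨.negSucc 1404, .negSucc 615, .ofNat 267, .ofNat 137, .negSucc 3, .negSucc 976⟩, ⟨.ofNat 17, .ofNat 190, .ofNat 157, .negSucc 56, .ofNat 30, .ofNat 205⟩, ⟨.ofNat 843, .ofNat 447, .negSucc 218, .negSucc 270, .ofNat 20, .ofNat 705⟩, ⟨.negSucc 2905, .negSucc 855, .ofNat 416, .ofNat 192, .ofNat 41, .negSucc 1741⟩, ⟨.negSucc 1088, .ofNat 164, .negSucc 38, .negSucc 484, .ofNat 281, .ofNat 342⟩, .ofNat 517, .ofNat 413, .ofNat 0, .ofNat 413, .ofNat 2570, .ofNat 0, .ofNat 301, .negSucc 127, .negSucc 331, .ofNat 0, .ofNat 95, .ofNat 67, .ofNat 0, .ofNat 0, .ofNat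 480, .ofNat 391, .ofNat 0, .ofNat 0, .ofNat 0, .ofNat 0, .ofNat 0, .ofNat 0, .ofNat 0, .ofNat 0, .ofNat 0, .ofNat 0, .ofNat 0, .ofNat 0, .ofNat 0, .ofNat 0, .ofNat 0, .ofNat 0⟩)
    (by decide +kernel)
theorem L01536 : Good (Phi V5.P V5.D (-1) (-1)) ⟨4, 11, 3, 0, 2, 2, 2, 2, 5, 2⟩ :=
  leafX_sound T5.ok_mm T5.Ymm.bz_eq (w := 213) (c := ⟨⟨.negSucc 1423, .negSucc 674, .ofNat 319, .ofNat 361, .negSucc 557, .negSucc 986⟩, ⟨.ofNat 33, .ofNat 245, .ofNat 137, .negSucc 170, .ofNat 189, .ofNat 268⟩, ⟨.ofNat 779, .ofNat 539, .negSucc 206, .negSucc 439, .ofNat 522, .ofNat 723⟩, ⟨.negSucc 2726, .negSucc 943, .ofNat 527, .ofNat 424, .negSucc 889, .negSucc 1704⟩, ⟨.negSucc 820, .ofNat 27, .negSucc 71, .negSucc 758, .ofNat 332, .ofNat 100⟩, .ofNat 429, .ofNat 252, .ofNat 0, .ofNat 252, .ofNat 1252, .ofNat 0, .ofNat 238, .negSucc 127, .negSucc 477, .ofNat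 0, .ofNat 118, .ofNat 129, .ofNat 0, .ofNat 0, .ofNat 577, .ofNat 482, .ofNat 0, .ofNat 0, .ofNat 1525009849184699397849750445488078848, .ofNat 0, .ofNat 0, .ofNat 0, .ofNat 0, .ofNat 0, .ofNat 0, .ofNat 0, .ofNat 0, .ofNat 0, .ofNat 0, .ofNat 0, .ofNat 115194824729501849014111251570609881088, .ofNat 0⟩)
    (by decide +kernel)
theorem L01537 : Good (Phi V5.P V5.D (-1) (-1)) ⟨4, 11, 3, 0, 2, 2, 2, 2, 5, 3⟩ :=
  leafX_sound T5.ok_mm T5.Ymm.bz_eq (w := 214) (c := ⟨⟨.negSucc 2615, .negSucc 836, .ofNat 358, .negSucc 161, .ofNat 156, .negSucc 282⟩, ⟨.ofNat 318, .ofNat 324, .ofNat 158, .negSucc 19, .negSucc 4, .ofNat 79⟩, ⟨.ofNat 1817, .ofNat 680, .negSucc 310, .negSucc 138, .negSucc 101, .ofNat 201⟩, ⟨.negSucc 4793, .negSucc 1102, .ofNat 536, .negSucc 416, .ofNat 328, .negSucc 446⟩, ⟨.negSucc 721, .ofNat 122, .negSucc 142, .negSucc 624, .ofNat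 342, .ofNat 179⟩, .ofNat 479, .ofNat 347, .ofNat 0, .ofNat 347, .ofNat 1601, .ofNat 0, .ofNat 248, .negSucc 127, .negSucc 414, .ofNat 0, .ofNat 101, .ofNat 116, .ofNat 0, .ofNat 0, .ofNat 543, .ofNat 1027, .ofNat 0, .ofNat 0, .ofNat 2533184924009169875775452371853770752, .ofNat 0, .ofNat 0, .ofNat 0, .ofNat 29092370229053572323970658279608025088, .ofNat 0, .ofNat 0, .ofNat 0, .ofNat 55795725849947048161038414723311206400, .ofNat 0, .ofNat 0, .ofNat 0, .ofNat 135067822322421353211173627694954840064, .ofNat 0⟩)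
    (by decide +kernel)
theorem L01538 : Good (Phi V5.P V5.D (-1) (-1)) ⟨3, 5, 3, 0, 2, 2, 2, 2, 4, 2⟩ :=
  leafX_sound T5.ok_mm T5.Ymm.bz_eq (w := 205) (c := ⟨⟨.negSucc 2678, .negSucc 836, .ofNat 49, .ofNat 74, .ofNat 393, .ofNat 360⟩, ⟨.ofNat 267, .ofNat 389, .ofNat 228, .negSucc 63, .negSucc 63, .negSucc 70⟩, ⟨.ofNat 1973, .ofNat 673, .negSucc 87, .negSucc 435, .negSucc 397, .negSucc 283⟩, ⟨.negSucc 5168, .negSucc 891, .ofNat 62, .ofNat 23, .ofNat 744, .ofNat 654⟩, ⟨.negSucc 630, .ofNat 30, .negSucc 145, .negSucc 485, .ofNat 310, .ofNat 271⟩, .ofNat 428, .ofNat 229, .ofNat 0, .ofNat 229, .ofNat 1345, .ofNat 0, .ofNat 370, .negSucc 127, .negSucc 306, .ofNat 0, .ofNat 123, .ofNat 77, .ofNat 0, .ofNat 0, .ofNat 554, .ofNat 943, .ofNat 0, .ofNat 0, .ofNat 154789962367398750175886154724802560, .ofNat 0, .ofNat 0, .ofNat 0, .ofNat 0, .ofNat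 0, .ofNat 0, .ofNat 0, .ofNat 13432533832912704978574564779725160448, .ofNat 0, .ofNat 0, .ofNat 0, .ofNat 14771697125520686992079334618259521536, .ofNat 0⟩)
    (by decide +kernel)
theorem L01539 : Good (Phi V5.P V5.D (-1) (-1)) ⟨3, 5, 3, 0, 2, 2, 2, 2, 4, 3⟩ :=
  leafX_sound T5.ok_mm T5.Ymm.bz_eq (w := 205) (c := ⟨⟨.negSucc 2524, .negSucc 468, .ofNat 53, .ofNat 228, .ofNat 408, .ofNat 408⟩, ⟨.ofNat 259, .ofNat 268, .ofNat 179, .negSucc 62, .negSucc 44, .negSucc 66⟩, ⟨.ofNat 1941, .ofNat 353, .negSucc 93, .negSucc 632, .negSucc 524, .negSucc 338⟩, ⟨.negSucc 4881, .negSucc 314, .ofNat 43, .ofNat 345, .ofNat 827, .ofNat 772⟩, ⟨.negSucc 564, .negSucc 14, .negSucc 82, .negSucc 310, .ofNat 408, .ofNat 185⟩, .ofNat 432, .ofNat 235, .ofNat 0, .ofNat 235, .ofNat 1399, .ofNat 0, .ofNat 296, .negSucc 124, .negSucc 205, .ofNat 0, .ofNat 128, .ofNat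 51, .ofNat 0, .ofNat 0, .ofNat 622, .ofNat 1071, .ofNat 0, .ofNat 0, .ofNat 0, .ofNat 0, .ofNat 0, .ofNat 0, .ofNat 0, .ofNat 0, .ofNat 0, .ofNat 0, .ofNat 14020818288354780083018473548919341056, .ofNat 0, .ofNat 0, .ofNat 0, .ofNat 0, .ofNat 0⟩)
    (by decide +kernel)
theorem L01540 : Good (Phi V5.P V5.D (-1) (-1)) ⟨4, 10, 3, 0, 2, 2, 2, 3, 4, 0⟩ :=
  leafX_sound T5.ok_mm T5.Ymm.bz_eq (w := 209) (c := ⟨⟨.negSucc 152, .negSucc 362, .ofNat 259, .ofNat 309, .negSucc 538, .negSucc 1323⟩, ⟨.negSucc 101, .ofNat 79, .ofNat 66, .negSucc 87, .ofNat 116, .ofNat 250⟩, ⟨.negSucc 134, .ofNat 273, .negSucc 150, .negSucc 224, .ofNat 386, .ofNat 919⟩, ⟨.negSucc 452, .negSucc 571, .ofNat 412, .ofNat 463, .negSucc 946, .negSucc 2393⟩, ⟨.negSucc 1024, .negSucc 19, .ofNat 14, .negSucc 465, .ofNat 411, .ofNat 295⟩, .ofNat 433, .ofNat 217, .ofNat 0, .ofNat 217,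 .ofNat 1515, .ofNat 0, .ofNat 630, .negSucc 88, .negSucc 1120, .ofNat 0, .ofNat 128, .ofNat 211, .ofNat 0, .ofNat 0, .ofNat 1319, .ofNat 684, .ofNat 0, .ofNat 0, .ofNat 0, .ofNat 0, .ofNat 0, .ofNat 0, .ofNat 0, .ofNat 0, .ofNat 0, .ofNat 28030206904503327321020453063147617517568, .ofNat 0, .ofNat 0, .ofNat 0, .ofNat 0, .ofNat 0, .ofNat 0⟩)
    (by decide +kernel)
theorem L01541 : Good (Phi V5.P V5.D (-1) (-1)) ⟨4, 11, 3, 0, 2, 2, 3, 6, 4, 0⟩ :=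
  leafX_sound T5.ok_mm T5.Ymm.bz_eq (w := 212) (c := ⟨⟨.ofNat 134, .negSucc 397, .ofNat 303, .ofNat 681, .negSucc 611, .negSucc 2233⟩, ⟨.negSucc 256, .ofNat 76, .ofNat 89, .negSucc 206, .ofNat 170, .ofNat 551⟩, ⟨.negSucc 362, .ofNat 289, .negSucc 195, .negSucc 566, .ofNat 487, .ofNat 1697⟩, ⟨.ofNat 101, .negSucc 606, .ofNat 456, .ofNat 1040, .negSucc 1100, .negSucc 3882⟩, ⟨.negSucc 668, .negSucc 17, .negSucc 94, .negSucc 447, .negSucc 52, .ofNat 39⟩, .ofNat 426, .ofNat 243, .ofNat 0, .ofNat 243, .ofNat 1244, .ofNat 0, .ofNat 229, .negSucc 102, .negSucc 738, .ofNat 0, .ofNat 128, .ofNat 183, .ofNat 0, .ofNat 0, .ofNat 815, .ofNat 422, .ofNat 0, .ofNat 0, .ofNat 511991193129360605600160448660897792, .ofNat 0, .ofNat 0, .ofNat 0, .ofNat 15031169124828747180908358706621579264, .ofNat 0, .ofNat 0, .ofNat 0, .ofNat 0, .ofNat 0, .ofNat 0, .ofNat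 0, .ofNat 107763706835183520686065506291141312512, .ofNat 0⟩)
    (by decide +kernel)
theorem L01542 : Good (Phi V5.P V5.D (-1) (-1)) ⟨4, 11, 3, 0, 2, 2, 4, 14, 4, 0⟩ :=
  leafX_sound T5.ok_mm T5.Ymm.bz_eq (w := 216) (c := ⟨⟨.negSucc 427, .negSucc 304, .ofNat 90, .ofNat 173, .negSucc 189, .negSucc 1845⟩, ⟨.negSucc 145, .ofNat 100, .ofNat 154, .negSucc 91, .ofNat 67, .ofNat 499⟩, ⟨.ofNat 90, .ofNat 290, .negSucc 59, .negSucc 145, .ofNat 135, .ofNat 1366⟩, ⟨.negSucc 950, .negSucc 384, .ofNat 105, .ofNat 184, .negSucc 293, .negSucc 3166⟩, ⟨.negSucc 599, .ofNat 123, .negSucc 222, .negSucc 376, .ofNat 112, .negSucc 64⟩, .ofNat 477, .ofNat 339, .ofNat 0, .ofNat 339, .ofNat 1586, .ofNat 0, .ofNat 191, .negSucc 114, .negSucc 732, .ofNat 0, .ofNat 128, .ofNat 187, .ofNat 0, .ofNat 0, .ofNat 809, .ofNat 421, .ofNat 0, .ofNat 0, .ofNat 7260870267603102136495086767202893824,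 .ofNat 0, .ofNat 0, .ofNat 0, .ofNat 157969379943985632376861710913883865088, .ofNat 0, .ofNat 0, .ofNat 0, .ofNat 0, .ofNat 0, .ofNat 0, .ofNat 0, .ofNat 1792669471172252488123659496463506866176, .ofNat 0⟩)
    (by decide +kernel)
theorem L01543 : Good (Phi V5.P V5.D (-1) (-1)) ⟨4, 11, 3, 0, 2, 2, 4, 15, 4, 0⟩ :=
  leafX_sound T5.ok_mm T5.Ymm.bz_eq (w := 216) (c := ⟨⟨.negSucc 681, .negSucc 492, .ofNat 185, .negSucc 393, .ofNat 174, .negSucc 997⟩, ⟨.negSucc 26, .ofNat 126, .ofNat 99, .ofNat 62, .negSucc 29, .ofNat 267⟩, ⟨.ofNat 296, .ofNat 389, .negSucc 131, .ofNat 368, .negSucc 207, .ofNat 630⟩, ⟨.negSucc 1359, .negSucc 773, .ofNat 265, .negSucc 760, .ofNat 320, .negSucc 1668⟩, ⟨.negSucc 754, .negSucc 103, .negSucc 24, .negSucc 421, .ofNat 162, .ofNat 330⟩, .ofNat 513, .ofNat 416, .ofNat 0, .ofNat 416, .ofNat 1878, .ofNat 0, .ofNat 244,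 .negSucc 113, .negSucc 908, .ofNat 0, .ofNat 128, .ofNat 233, .ofNat 0, .ofNat 0, .ofNat 1003, .ofNat 393, .ofNat 0, .ofNat 0, .ofNat 5751544345397733770560005524634468352, .ofNat 0, .ofNat 0, .ofNat 0, .ofNat 353355076594673453960063577790038933504, .ofNat 0, .ofNat 0, .ofNat 0, .ofNat 0, .ofNat 0, .ofNat 0, .ofNat 0, .ofNat 1596827718881455214108395213734664994816, .ofNat 0⟩)
    (by decide +kernel)
theorem L01544 : Good (Phi V5.P V5.D (-1) (-1)) ⟨4, 10, 3, 0, 2, 2, 3, 6, 4, 1⟩ :=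
  leafX_sound T5.ok_mm T5.Ymm.bz_eq (w := 213) (c := ⟨⟨.negSucc 1740, .negSucc 455, .ofNat 188, .negSucc 25, .ofNat 146, .negSucc 449⟩, ⟨.ofNat 122, .ofNat 153, .ofNat 152, .negSucc 31, .negSucc 8, .ofNat 107⟩, ⟨.ofNat 1122, .ofNat 377, .negSucc 153, .negSucc 152, .negSucc 131, .ofNat 252⟩, ⟨.negSucc 3437, .negSucc 599, .ofNat 297, .negSucc 131, .ofNat 292, .negSucc 784⟩, ⟨.negSucc 747, .ofNat 50, .negSucc 48, .negSucc 484, .ofNat 217, .ofNat 389⟩, .ofNat 432, .ofNat 215, .ofNat 0, .ofNat 215, .ofNat 1488, .ofNat 0, .ofNat 605, .negSucc 112, .negSucc 824, .ofNat 0, .ofNat 128, .ofNat 164, .ofNat 0, .ofNat 0, .ofNat 1066, .ofNat 1427, .ofNat 0, .ofNat 0, .ofNat 0, .ofNat 0, .ofNat 0, .ofNat 0, .ofNat 0, .ofNat 0, .ofNat 0, .ofNat 0, .ofNat 0, .ofNat 0, .ofNat 0, .ofNat 0, .ofNat 0, .ofNat 0⟩)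
    (by decide +kernel)
theorem L01545 : Good (Phi V5.P V5.D (-1) (-1)) ⟨4, 11, 3, 0, 2, 2, 3, 6, 4, 1⟩ :=
  leafX_sound T5.ok_mm T5.Ymm.bz_eq (w := 213) (c := ⟨⟨.negSucc 2252, .negSucc 751, .ofNat 367, .negSucc 188, .ofNat 151, .negSucc 427⟩, ⟨.ofNat 258, .ofNat 285, .ofNat 132, .negSucc 10, .negSucc 8, .ofNat 140⟩, ⟨.ofNat 1637, .ofNat 633, .negSucc 327, .negSucc 109, .negSucc 141, .ofNat 196⟩, ⟨.negSucc 4143, .negSucc 1010, .ofNat 585, .negSucc 430, .ofNat 292, .negSucc 683⟩, ⟨.negSucc 591, .ofNat 31, .negSucc 123, .negSucc 498, .ofNat 184, .ofNat 318⟩, .ofNat 500, .ofNat 377, .ofNat 0, .ofNat 377, .ofNat 1778, .ofNat 0, .ofNat 297, .negSucc 127, .negSucc 659, .ofNat 0, .ofNat 116, .ofNat 170, .ofNat 0, .ofNat 0, .ofNat 782, .ofNat 565, .ofNat 0, .ofNat 0, .ofNat 1081782817422640659963770295487037440, .ofNat 0, .ofNat 0, .ofNat 0, .ofNat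 0, .ofNat 0, .ofNat 0, .ofNat 0, .ofNat 55622611724433353096725466332125986816, .ofNat 0, .ofNat 0, .ofNat 0, .ofNat 144783075717131233094500770968825233408, .ofNat 0⟩)
    (by decide +kernel)
theorem L01546 : Good (Phi V5.P V5.D (-1) (-1)) ⟨4, 10, 3, 0, 2, 2, 3, 7, 4, 1⟩ :=
  leafX_sound T5.ok_mm T5.Ymm.bz_eq (w := 213) (c := ⟨⟨.negSucc 1701, .negSucc 380, .ofNat 287, .negSucc 203, .ofNat 676, .negSucc 262⟩, ⟨.ofNat 137, .ofNat 131, .ofNat 104, .ofNat 20, .negSucc 90, .ofNat 83⟩, ⟨.ofNat 1068, .ofNat 300, .negSucc 226, .ofNat 49, .negSucc 639, .ofNat 61⟩, ⟨.negSucc 3329, .negSucc 492, .ofNat 481, .negSucc 452, .ofNat 1292, .negSucc 420⟩, ⟨.negSucc 627, .ofNat 53, .negSucc 67, .negSucc 294, .ofNat 346, .ofNat 430⟩, .ofNat 433, .ofNat 216, .ofNat 0, .ofNat 216, .ofNat 1510, .ofNat 0, .ofNat 410, .negSucc 98, .negSucc 1161, .ofNat 0, .ofNat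 128, .ofNat 221, .ofNat 0, .ofNat 0, .ofNat 1426, .ofNat 923, .ofNat 0, .ofNat 0, .ofNat 0, .ofNat 0, .ofNat 0, .ofNat 0, .ofNat 0, .ofNat 0, .ofNat 0, .ofNat 508127010471761092073857779159452717416448, .ofNat 0, .ofNat 0, .ofNat 0, .ofNat 0, .ofNat 0, .ofNat 0⟩)
    (by decide +kernel)
theorem L01547 : Good (Phi V5.P V5.D (-1) (-1)) ⟨4, 11, 3, 0, 2, 2, 4, 14, 4, 1⟩ :=
  leafX_sound T5.ok_mm T5.Ymm.bz_eq (w := 217) (c := ⟨⟨.negSucc 2252, .negSucc 988, .ofNat 420, .negSucc 373, .ofNat 369, .negSucc 7⟩, ⟨.ofNat 286, .ofNat 345, .ofNat 101, .ofNat 46, .negSucc 64, .ofNat 52⟩, ⟨.ofNat 1622, .ofNat 840, .negSucc 356, .ofNat 85, .negSucc 355, .negSucc 229⟩, ⟨.negSucc 4138, .negSucc 1417, .ofNat 683, .negSucc 720, .ofNat 673, .ofNat 85⟩, ⟨.negSucc 551, .negSucc 20, .negSucc 171, .negSucc 303, .ofNat 223, .ofNat 540⟩, .ofNat 500, .ofNat 377, .ofNat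 0, .ofNat 377, .ofNat 1778, .ofNat 0, .ofNat 352, .negSucc 127, .negSucc 889, .ofNat 0, .ofNat 125, .ofNat 225, .ofNat 0, .ofNat 0, .ofNat 1008, .ofNat 746, .ofNat 0, .ofNat 0, .ofNat 18144914959565517317966395100182347776, .ofNat 0, .ofNat 0, .ofNat 0, .ofNat 0, .ofNat 0, .ofNat 0, .ofNat 0, .ofNat 640771182507942779022762371425813659648, .ofNat 0, .ofNat 0, .ofNat 0, .ofNat 2629480205515378636344823172428172623872, .ofNat 0⟩)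
    (by decide +kernel)
theorem L01548 : Good (Phi V5.P V5.D (-1) (-1)) ⟨4, 11, 3, 0, 2, 2, 4, 15, 4, 1⟩ :=
  leafX_sound T5.ok_mm T5.Ymm.bz_eq (w := 217) (c := ⟨⟨.negSucc 2187, .negSucc 597, .ofNat 348, .negSucc 311, .ofNat 806, .ofNat 292⟩, ⟨.ofNat 313, .ofNat 226, .ofNat 78, .ofNat 45, .negSucc 170, .negSucc 7⟩, ⟨.ofNat 1523, .ofNat 498, .negSucc 312, .ofNat 93, .negSucc 756, .negSucc 523⟩, ⟨.negSucc 3953, .negSucc 884, .ofNat 627, .negSucc 718, .ofNat 1447, .ofNat 650⟩, ⟨.negSucc 263, .negSucc 52, .negSucc 164, .negSucc 428, .ofNat 199, .ofNat 550⟩, .ofNat 420, .ofNat 225, .ofNat 0, .ofNat 225, .ofNat 1181, .ofNat 0, .ofNat 357, .negSucc 92, .negSucc 1479, .ofNat 0, .ofNat 128, .ofNat 352, .ofNat 0, .ofNat 0, .ofNat 1542, .ofNat 361, .ofNat 0, .ofNat 0, .ofNat 9134030131659600060939175358925635584, .ofNat 0, .ofNat 0, .ofNat 0, .ofNat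 0, .ofNat 0, .ofNat 0, .ofNat 0, .ofNat 0, .ofNat 0, .ofNat 0, .ofNat 5421953632905263873778770982381218084945920, .ofNat 2933741011217405117192885950119623524352, .ofNat 0⟩)
    (by decide +kernel)
theorem L01549 : Good (Phi V5.P V5.D (-1) (-1)) ⟨3, 5, 3, 0, 2, 2, 3, 6, 4, 2⟩ :=
  leafX_sound T5.ok_mm T5.Ymm.bz_eq (w := 209) (c := ⟨⟨.negSucc 2347, .negSucc 636, .ofNat 102, .ofNat 111, .ofNat 306, .ofNat 382⟩, ⟨.ofNat 240, .ofNat 321, .ofNat 161, .negSucc 53, .negSucc 31, .negSucc 48⟩, ⟨.ofNat 1659, .ofNat 476, .negSucc 105, .negSucc 431, .negSucc 314, .negSucc 444⟩, ⟨.negSucc 4529, .negSucc 614, .ofNat 148, .ofNat 108, .ofNat 611, .ofNat 746⟩, ⟨.negSucc 493, .ofNat 4, .negSucc 36, .negSucc 331, .ofNat 313, .ofNat 380⟩, .ofNat 427, .ofNat 226, .ofNat 0, .ofNat 226, .ofNat 1349, .ofNat 0, .ofNat 313, .negSucc 123, .negSucc 326, .ofNat 0, .ofNat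 128, .ofNat 76, .ofNat 0, .ofNat 0, .ofNat 534, .ofNat 886, .ofNat 0, .ofNat 0, .ofNat 0, .ofNat 0, .ofNat 0, .ofNat 0, .ofNat 95243032387243582120104633481599909888, .ofNat 0, .ofNat 0, .ofNat 0, .ofNat 0, .ofNat 0, .ofNat 0, .ofNat 0, .ofNat 231517975797929064799618657885217619968, .ofNat 0⟩)
    (by decide +kernel)
theorem L01550 : Good (Phi V5.P V5.D (-1) (-1)) ⟨3, 5, 3, 0, 2, 2, 3, 7, 4, 2⟩ :=
  leafX_sound T5.ok_mm T5.Ymm.bz_eq (w := 208) (c := ⟨⟨.negSucc 1969, .negSucc 612, .ofNat 76, .ofNat 36, .ofNat 681, .ofNat 359⟩, ⟨.ofNat 207, .ofNat 304, .ofNat 135, .negSucc 20, .negSucc 89, .negSucc 36⟩, ⟨.ofNat 1267, .ofNat 444, .negSucc 83, .negSucc 334, .negSucc 652, .negSucc 455⟩, ⟨.negSucc 3806, .negSucc 628, .ofNat 118, .ofNat 56, .ofNat 1346, .ofNat 721⟩, ⟨.negSucc 310, .negSucc 290, .negSucc 115, .ofNat 116, .ofNat 810, .ofNat 617⟩,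 .ofNat 511, .ofNat 407, .ofNat 0, .ofNat 407, .ofNat 2176, .ofNat 0, .ofNat 190, .negSucc 127, .negSucc 348, .ofNat 0, .ofNat 109, .ofNat 78, .ofNat 0, .ofNat 0, .ofNat 526, .ofNat 268, .ofNat 0, .ofNat 0, .ofNat 0, .ofNat 0, .ofNat 0, .ofNat 35513969202998776506878247951678505484288, .ofNat 39162595146403166741841310729285664768, .ofNat 0, .ofNat 0, .ofNat 13514385724784442463826875144747234623488, .ofNat 44295368167376045238863763623538327552, .ofNat 0, .ofNat 0, .ofNat 96913788000060554078056513580836639997952, .ofNat 130387957640791332950972794305928757248, .ofNat 0⟩)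
    (by decide +kernel)
theorem L01551 : Good (Phi V5.P V5.D (-1) (-1)) ⟨3, 5, 3, 0, 2, 2, 3, 6, 4, 3⟩ :=
  leafX_sound T5.ok_mm T5.Ymm.bz_eq (w := 208) (c := ⟨⟨.negSucc 2075, .negSucc 361, .ofNat 12, .ofNat 215, .ofNat 307, .ofNat 402⟩, ⟨.ofNat 222, .ofNat 257, .ofNat 143, .negSucc 48, .negSucc 24, .negSucc 52⟩, ⟨.ofNat 1439, .ofNat 202, .negSucc 38, .negSucc 646, .negSucc 373, .negSucc 470⟩, ⟨.negSucc 4010, .negSucc 168, .negSucc 2, .ofNat 392, .ofNat 625, .ofNat 769⟩, ⟨.negSucc 378, .negSucc 155, .negSucc 56, .ofNat 156, .ofNat 454, .ofNat 406⟩, .ofNat 552, .ofNat 513, .ofNat 0, .ofNat 513, .ofNat 2590, .ofNat 0, .ofNat 212, .negSucc 127, .negSucc 135, .ofNat 0, .ofNat 104, .ofNat 32, .ofNat 0, .ofNat 0, .ofNat 419, .ofNat 499, .ofNat 0, .ofNat 0, .ofNat 0, .ofNat 0, .ofNat 0, .ofNat 34634970637506129941909800630546069454848, .ofNat 99652835982661092426773518550757801984,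 .ofNat 0, .ofNat 0, .ofNat 24874428827383019540402414202156719538176, .ofNat 169508463450476917835397219765387788288, .ofNat 0, .ofNat 0, .ofNat 0, .ofNat 0, .ofNat 0⟩)
    (by decide +kernel)
theorem L01552 : Good (Phi V5.P V5.D (-1) (-1)) ⟨3, 5, 3, 0, 2, 2, 3, 7, 4, 3⟩ :=
  leafX_sound T5.ok_mm T5.Ymm.bz_eq (w := 208) (c := ⟨⟨.negSucc 1736, .negSucc 183, .negSucc 8, .ofNat 179, .ofNat 587, .ofNat 271⟩, ⟨.ofNat 199, .ofNat 225, .ofNat 107, .negSucc 14, .negSucc 43, .negSucc 25⟩, ⟨.ofNat 1003, .ofNat 24, .negSucc 8, .negSucc 529, .negSucc 597, .negSucc 336⟩, ⟨.negSucc 3341, .ofNat 123, .negSucc 2, .ofNat 369, .ofNat 1224, .ofNat 560⟩, ⟨.negSucc 17, .negSucc 2, .negSucc 51, .ofNat 308, .ofNat 885, .ofNat 382⟩, .ofNat 431, .ofNat 236, .ofNat 0, .ofNat 236, .ofNat 1369, .ofNat 0, .ofNat 320, .negSucc 119, .negSucc 195, .ofNat 0, .ofNat 128,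 .ofNat 43, .ofNat 0, .ofNat 0, .ofNat 520, .ofNat 622, .ofNat 0, .ofNat 0, .ofNat 0, .ofNat 0, .ofNat 0, .ofNat 165211300764088888577522578233150811406336, .ofNat 41394787904090209374498587060006289408, .ofNat 0, .ofNat 0, .ofNat 199255016091477228366741777806224019947520, .ofNat 13780695018585486715638427088196730880, .ofNat 0, .ofNat 0, .ofNat 157370928638831666961885395408090283638784, .ofNat 110385109568532754144011106766376927232, .ofNat 0⟩)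
    (by decide +kernel)
theorem L01553 : Good (Phi V5.P V5.D (-1) (-1)) ⟨4, 10, 3, 0, 3, 6, 2, 2, 4, 0⟩ :=
  leafX_sound T5.ok_mm T5.Ymm.bz_eq (w := 224) (c := ⟨⟨.ofNat 2756, .ofNat 311, .negSucc 235, .negSucc 43, .negSucc 1529, .negSucc 2388⟩, ⟨.negSucc 458, .negSucc 144, .ofNat 34, .ofNat 26, .ofNat 248, .ofNat 365⟩, ⟨.negSucc 1964, .negSucc 234, .ofNat 339, .ofNat 293, .ofNat 898, .ofNat 1367⟩, ⟨.ofNat 5059, .ofNat 406, .negSucc 429, .negSucc 0, .negSucc 2900, .negSucc 4580⟩, ⟨.negSucc 655, .negSucc 159, .ofNat 417, .ofNat 414, .negSucc 461, .negSucc 919⟩, .ofNat 434, .ofNat 224, .ofNat 0, .ofNat 224, .ofNat 1515, .ofNat 0, .ofNat 375, .negSucc 110, .negSucc 916, .ofNat 0, .ofNat 128, .ofNat 176, .ofNat 0, .ofNat 0, .ofNat 946, .ofNat 629, .ofNat 0, .ofNat 0, .ofNat 0, .ofNat 0, .ofNat 0, .ofNat 0, .ofNat 0, .ofNat 0, .ofNat 0, .ofNat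 0, .ofNat 0, .ofNat 0, .ofNat 0, .ofNat 0, .ofNat 0, .ofNat 0⟩)
    (by decide +kernel)
theorem L01554 : Good (Phi V5.P V5.D (-1) (-1)) ⟨4, 10, 3, 0, 3, 7, 2, 2, 4, 0⟩ :=
  leafX_sound T5.ok_mm T5.Ymm.bz_eq (w := 223) (c := ⟨⟨.ofNat 1787, .ofNat 313, .negSucc 61, .negSucc 812, .negSucc 915, .negSucc 1651⟩, ⟨.negSucc 352, .negSucc 76, .ofNat 89, .ofNat 173, .ofNat 97, .ofNat 239⟩, ⟨.negSucc 839, .negSucc 224, .ofNat 181, .ofNat 651, .ofNat 394, .ofNat 613⟩, ⟨.ofNat 3467, .ofNat 471, .negSucc 101, .negSucc 1429, .negSucc 1894, .negSucc 3363⟩, ⟨.ofNat 455, .negSucc 232, .ofNat 351, .ofNat 239, .negSucc 916, .negSucc 1478⟩, .ofNat 434, .ofNat 225, .ofNat 0, .ofNat 225, .ofNat 1511, .ofNat 0, .ofNat 212, .negSucc 100, .negSucc 454, .ofNat 0, .ofNat 128, .ofNat 84, .ofNat 0, .ofNat 0, .ofNat 450, .ofNat 536, .ofNat 0, .ofNat 0, .ofNat 0, .ofNat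 0, .ofNat 0, .ofNat 0, .ofNat 0, .ofNat 0, .ofNat 0, .ofNat 0, .ofNat 0, .ofNat 0, .ofNat 0, .ofNat 0, .ofNat 0, .ofNat 0⟩)
    (by decide +kernel)
theorem L01555 : Good (Phi V5.P V5.D (-1) (-1)) ⟨4, 10, 3, 0, 3, 6, 3, 6, 4, 0⟩ :=
  leafX_sound T5.ok_mm T5.Ymm.bz_eq (w := 227) (c := ⟨⟨.ofNat 836, .ofNat 131, .ofNat 51, .negSucc 97, .negSucc 721, .negSucc 1853⟩, ⟨.negSucc 245, .negSucc 56, .ofNat 83, .ofNat 29, .ofNat 126, .ofNat 293⟩, ⟨.negSucc 700, .negSucc 176, .ofNat 64, .ofNat 184, .ofNat 481, .ofNat 1121⟩, ⟨.ofNat 1408, .ofNat 179, .ofNat 19, .negSucc 152, .negSucc 1346, .negSucc 3471⟩, ⟨.negSucc 970, .negSucc 223, .ofNat 55, .negSucc 100, .ofNat 11, .negSucc 208⟩, .ofNat 433, .ofNat 219, .ofNat 0, .ofNat 219, .ofNat 1506, .ofNat 0, .ofNat 368, .negSucc 85, .negSucc 1010, .ofNat 0, .ofNat 128, .ofNat 192, .ofNat 0, .ofNat 0, .ofNat 1013,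 .ofNat 1205, .ofNat 0, .ofNat 0, .ofNat 0, .ofNat 0, .ofNat 0, .ofNat 0, .ofNat 0, .ofNat 0, .ofNat 0, .ofNat 0, .ofNat 0, .ofNat 0, .ofNat 0, .ofNat 0, .ofNat 0, .ofNat 0⟩)
    (by decide +kernel)
theorem L01556 : Good (Phi V5.P V5.D (-1) (-1)) ⟨4, 10, 3, 0, 3, 6, 3, 7, 4, 0⟩ :=
  leafX_sound T5.ok_mm T5.Ymm.bz_eq (w := 227) (c := ⟨⟨.negSucc 404, .negSucc 278, .ofNat 199, .negSucc 25, .negSucc 332, .negSucc 963⟩, ⟨.negSucc 75, .ofNat 52, .ofNat 100, .negSucc 8, .ofNat 76, .ofNat 168⟩, ⟨.ofNat 199, .ofNat 179, .negSucc 63, .ofNat 42, .ofNat 153, .ofNat 459⟩, ⟨.negSucc 953, .negSucc 424, .ofNat 298, .negSucc 79, .negSucc 579, .negSucc 1774⟩, ⟨.negSucc 1223, .negSucc 38, .ofNat 75, .negSucc 138, .ofNat 283, .ofNat 122⟩, .ofNat 520, .ofNat 425, .ofNat 0, .ofNat 425, .ofNat 2618, .ofNat 0, .ofNat 316, .negSucc 127, .negSucc 733, .ofNat 0, .ofNat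 124, .ofNat 141, .ofNat 0, .ofNat 0, .ofNat 760, .ofNat 994, .ofNat 0, .ofNat 0, .ofNat 0, .ofNat 0, .ofNat 0, .ofNat 0, .ofNat 0, .ofNat 0, .ofNat 0, .ofNat 0, .ofNat 0, .ofNat 0, .ofNat 0, .ofNat 576456139939312099350818485571255761671028736, .ofNat 0, .ofNat 0⟩)
    (by decide +kernel)
theorem L01557 : Good (Phi V5.P V5.D (-1) (-1)) ⟨4, 10, 3, 0, 3, 7, 3, 6, 5, 0⟩ :=
  leafX_sound T5.ok_mm T5.Ymm.bz_eq (w := 231) (c := ⟨⟨.ofNat 420, .ofNat 23, .negSucc 28, .negSucc 597, .negSucc 596, .negSucc 599⟩, ⟨.negSucc 151, .negSucc 34, .ofNat 100, .ofNat 101, .ofNat 78, .ofNat 77⟩, ⟨.negSucc 152, .negSucc 23, .ofNat 154, .ofNat 457, .ofNat 241, .ofNat 194⟩, ⟨.ofNat 661, .ofNat 59, .negSucc 107, .negSucc 1105, .negSucc 1161, .negSucc 1164⟩, ⟨.negSucc 939, .ofNat 63, .ofNat 223, .negSucc 33, .negSucc 263, .negSucc 353⟩, .ofNat 526, .ofNat 449, .ofNat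 0, .ofNat 449, .ofNat 2637, .ofNat 0, .ofNat 214, .negSucc 127, .negSucc 636, .ofNat 0, .ofNat 106, .ofNat 128, .ofNat 0, .ofNat 0, .ofNat 631, .ofNat 855, .ofNat 0, .ofNat 0, .ofNat 0, .ofNat 0, .ofNat 0, .ofNat 0, .ofNat 0, .ofNat 0, .ofNat 0, .ofNat 0, .ofNat 0, .ofNat 0, .ofNat 0, .ofNat 0, .ofNat 0, .ofNat 0⟩)
    (by decide +kernel)
theorem L01558 : Good (Phi V5.P V5.D (-1) (-1)) ⟨4, 10, 3, 0, 3, 7, 3, 6, 5, 1⟩ :=
  leafX_sound T5.ok_mm T5.Ymm.bz_eq (w := 232) (c := ⟨⟨.negSucc 507, .negSucc 103, .ofNat 73, .negSucc 272, .negSucc 246, .negSucc 377⟩, ⟨.negSucc 70, .ofNat 13, .ofNat 137, .ofNat 43, .ofNat 38, .ofNat 50⟩, ⟨.ofNat 306, .ofNat 42, .ofNat 60, .ofNat 177, .ofNat 51, .ofNat 81⟩, ⟨.negSucc 1132, .negSucc 134, .ofNat 48, .negSucc 521, .negSucc 482, .negSucc 740⟩, ⟨.negSucc 1176, .negSucc 60, .ofNat 113, .negSucc 124, .negSucc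 145, .negSucc 250⟩, .ofNat 519, .ofNat 422, .ofNat 0, .ofNat 422, .ofNat 2548, .ofNat 0, .ofNat 272, .negSucc 127, .negSucc 752, .ofNat 0, .ofNat 104, .ofNat 146, .ofNat 0, .ofNat 0, .ofNat 746, .ofNat 1503, .ofNat 0, .ofNat 0, .ofNat 0, .ofNat 0, .ofNat 0, .ofNat 0, .ofNat 0, .ofNat 0, .ofNat 0, .ofNat 0, .ofNat 0, .ofNat 0, .ofNat 0, .ofNat 0, .ofNat 0, .ofNat 0⟩)
    (by decide +kernel)
theorem L01559 : Good (Phi V5.P V5.D (-1) (-1)) ⟨4, 10, 3, 0, 3, 7, 3, 7, 5, 0⟩ :=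
  leafX_sound T5.ok_mm T5.Ymm.bz_eq (w := 232) (c := ⟨⟨.negSucc 677, .negSucc 86, .ofNat 77, .negSucc 79, .negSucc 224, .negSucc 222⟩, ⟨.negSucc 19, .ofNat 5, .ofNat 122, .ofNat 1, .ofNat 37, .ofNat 26⟩, ⟨.ofNat 514, .ofNat 22, .ofNat 63, .ofNat 10, .negSucc 44, .negSucc 37⟩, ⟨.negSucc 1429, .negSucc 103, .ofNat 70, .negSucc 189, .negSucc 434, .negSucc 444⟩, ⟨.negSucc 1160, .negSucc 28, .ofNat 170, .negSucc 201, .negSucc 65, .negSucc 149⟩, .ofNat 527, .ofNat 454, .ofNat 0, .ofNat 454, .ofNat 2699, .ofNat 0, .ofNat 423, .negSucc 127, .negSucc 1138, .ofNat 0, .ofNat 112, .ofNat 225, .ofNat 0, .ofNat 0, .ofNat 1142, .ofNat 2013, .ofNat 0, .ofNat 0, .ofNat 0, .ofNat 0, .ofNat 0, .ofNat 0, .ofNat 0, .ofNat 0, .ofNat 0, .ofNat 0, .ofNat 0, .ofNat 0, .ofNat 0, .ofNat 0, .ofNat 0, .ofNat 0⟩)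
    (by decide +kernel)
theorem L01560 : Good (Phi V5.P V5.D (-1) (-1)) ⟨4, 10, 3, 0, 3, 7, 3, 7, 5, 1⟩ :=
  leafX_sound T5.ok_mm T5.Ymm.bz_eq (w := 232) (c := ⟨⟨.negSucc 1173, .negSucc 94, .ofNat 76, .ofNat 114, .ofNat 83, .negSucc 75⟩, ⟨.ofNat 35, .ofNat 14, .ofNat 137, .negSucc 35, .ofNat 5, .ofNat 21⟩, ⟨.ofNat 665, .ofNat 16, .ofNat 41, .negSucc 126, .negSucc 202, .negSucc 78⟩, ⟨.negSucc 2398, .negSucc 116, .ofNat 63, .ofNat 171, .ofNat 189, .negSucc 132⟩, ⟨.negSucc 1360, .negSucc 173, .ofNat 126, .negSucc 226, .ofNat 278, .ofNat 85⟩, .ofNat 518, .ofNat 418, .ofNat 0, .ofNat 418, .ofNat 2607, .ofNat 0, .ofNat 573, .negSucc 127, .negSucc 1110, .ofNat 0, .ofNat 115, .ofNat 209, .ofNat 0, .ofNat 0, .ofNat 1115, .ofNat 944, .ofNat 0, .ofNat 0, .ofNat 0, .ofNat 0, .ofNat 0, .ofNat 0, .ofNat 0, .ofNat 0, .ofNat 0, .ofNat 0, .ofNat 0, .ofNat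 0, .ofNat 0, .ofNat 0, .ofNat 0, .ofNat 0⟩)
    (by decide +kernel)
theorem L01561 : Good (Phi V5.P V5.D (-1) (-1)) ⟨4, 11, 3, 0, 3, 6, 2, 2, 5, 0⟩ :=
  leafX_sound T5.ok_mm T5.Ymm.bz_eq (w := 229) (c := ⟨⟨.ofNat 3597, .ofNat 1054, .negSucc 500, .negSucc 217, .negSucc 1795, .negSucc 1352⟩, ⟨.negSucc 759, .negSucc 456, .ofNat 49, .ofNat 107, .ofNat 371, .ofNat 255⟩, ⟨.negSucc 2632, .negSucc 882, .ofNat 546, .ofNat 486, .ofNat 997, .ofNat 831⟩, ⟨.ofNat 6267, .ofNat 1428, .negSucc 838, .negSucc 241, .negSucc 3279, .negSucc 2510⟩, ⟨.negSucc 839, .negSucc 328, .ofNat 599, .ofNat 662, .negSucc 662, .negSucc 750⟩, .ofNat 427, .ofNat 250, .ofNat 0, .ofNat 250, .ofNat 1222, .ofNat 0, .ofNat 203, .negSucc 109, .negSucc 718, .ofNat 0, .ofNat 128, .ofNat 178, .ofNat 0, .ofNat 0, .ofNat 688, .ofNat 566, .ofNat 0, .ofNat 0, .ofNat 52420720820281240645998871274733214629888,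 .ofNat 0, .ofNat 0, .ofNat 0, .ofNat 0, .ofNat 0, .ofNat 0, .ofNat 0, .ofNat 0, .ofNat 0, .ofNat 0, .ofNat 0, .ofNat 1369689072567593580035659190942085815468032, .ofNat 0⟩)
    (by decide +kernel)
theorem L01562 : Good (Phi V5.P V5.D (-1) (-1)) ⟨4, 11, 3, 0, 3, 6, 2, 2, 5, 1⟩ :=
  leafX_sound T5.ok_mm T5.Ymm.bz_eq (w := 228) (c := ⟨⟨.ofNat 2055, .ofNat 236, .negSucc 108, .ofNat 153, .negSucc 1790, .negSucc 1851⟩, ⟨.negSucc 648, .negSucc 94, .ofNat 112, .negSucc 40, .ofNat 421, .ofNat 414⟩, ⟨.negSucc 1653, .negSucc 241, .ofNat 233, .ofNat 21, .ofNat 1164, .ofNat 1232⟩, ⟨.ofNat 3342, .ofNat 324, .negSucc 190, .ofNat 270, .negSucc 3139, .negSucc 3296⟩, ⟨.negSucc 1450, .negSucc 192, .ofNat 323, .ofNat 83, .ofNat 32, .negSucc 329⟩, .ofNat 425, .ofNat 241, .ofNat 0, .ofNat 241, .ofNat 1228, .ofNat 0, .ofNat 178, .negSucc 126, .negSucc 624, .ofNat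 0, .ofNat 128, .ofNat 152, .ofNat 0, .ofNat 0, .ofNat 569, .ofNat 559, .ofNat 0, .ofNat 0, .ofNat 0, .ofNat 0, .ofNat 0, .ofNat 0, .ofNat 0, .ofNat 0, .ofNat 0, .ofNat 0, .ofNat 0, .ofNat 0, .ofNat 0, .ofNat 0, .ofNat 1604311008827884971048270592499655565639680, .ofNat 0⟩)
    (by decide +kernel)
theorem L01563 : Good (Phi V5.P V5.D (-1) (-1)) ⟨4, 11, 3, 0, 3, 7, 2, 2, 5, 0⟩ :=
  leafX_sound T5.ok_mm T5.Ymm.bz_eq (w := 229) (c := ⟨⟨.ofNat 3107, .ofNat 442, .negSucc 307, .negSucc 1773, .negSucc 1433, .negSucc 1265⟩, ⟨.negSucc 621, .negSucc 198, .ofNat 79, .ofNat 462, .ofNat 205, .ofNat 199⟩, ⟨.negSucc 1874, .negSucc 332, .ofNat 405, .ofNat 1446, .ofNat 674, .ofNat 675⟩, ⟨.ofNat 5504, .ofNat 654, .negSucc 545, .negSucc 2975, .negSucc 2757, .negSucc 2313⟩, ⟨.ofNat 221, .negSucc 226, .ofNat 492, .ofNat 294, .negSucc 1329, .negSucc 495⟩, .ofNat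 515, .ofNat 424, .ofNat 0, .ofNat 424, .ofNat 1878, .ofNat 0, .ofNat 179, .negSucc 127, .negSucc 645, .ofNat 0, .ofNat 114, .ofNat 161, .ofNat 0, .ofNat 0, .ofNat 613, .ofNat 468, .ofNat 0, .ofNat 0, .ofNat 19697440256343902816372643693530517078016, .ofNat 0, .ofNat 0, .ofNat 0, .ofNat 283345958671417742672788351376600483233792, .ofNat 0, .ofNat 0, .ofNat 0, .ofNat 448477151227796306018278239048284741042176, .ofNat 0, .ofNat 0, .ofNat 0, .ofNat 1872255944333062535974081608143669980823552, .ofNat 0⟩)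
    (by decide +kernel)
theorem L01564 : Good (Phi V5.P V5.D (-1) (-1)) ⟨4, 11, 3, 0, 3, 7, 3, 4, 5, 1⟩ :=
  leafX_sound T5.ok_mm T5.Ymm.bz_eq (w := 233) (c := ⟨⟨.ofNat 1679, .ofNat 298, .negSucc 199, .negSucc 1721, .negSucc 450, .negSucc 1364⟩, ⟨.negSucc 462, .negSucc 132, .ofNat 133, .ofNat 464, .ofNat 62, .ofNat 208⟩, ⟨.negSucc 1114, .negSucc 260, .ofNat 323, .ofNat 1312, .ofNat 236, .ofNat 666⟩, ⟨.ofNat 2827, .ofNat 438, .negSucc 336, .negSucc 2813, .negSucc 893, .negSucc 2597⟩, ⟨.negSucc 959, .negSucc 256, .ofNat 473, .ofNat 777, .negSucc 326, .negSucc 750⟩, .ofNat 426, .ofNat 244, .ofNat 0, .ofNat 244, .ofNat 1227, .ofNat 0, .ofNat 265, .negSucc 124, .negSucc 946, .ofNat 0, .ofNat 128, .ofNat 218, .ofNat 0, .ofNat 0, .ofNat 846, .ofNat 1268, .ofNat 0, .ofNat 0, .ofNat 0, .ofNat 0, .ofNat 0, .ofNat 0, .ofNat 0, .ofNat 0, .ofNat 0, .ofNat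 0, .ofNat 8952797245924268635410606550784686088519680, .ofNat 0, .ofNat 0, .ofNat 0, .ofNat 61935554354276830733530940078241587952353280, .ofNat 0⟩)
    (by decide +kernel)
theorem L01565 : Good (Phi V5.P V5.D (-1) (-1)) ⟨4, 11, 3, 0, 3, 7, 3, 5, 5, 1⟩ :=
  leafX_sound T5.ok_mm T5.Ymm.bz_eq (w := 232) (c := ⟨⟨.ofNat 622, .ofNat 161, .negSucc 41, .negSucc 1009, .negSucc 396, .negSucc 955⟩, ⟨.negSucc 291, .negSucc 95, .ofNat 125, .ofNat 261, .ofNat 57, .ofNat 161⟩, ⟨.negSucc 425, .negSucc 136, .ofNat 155, .ofNat 763, .ofNat 138, .ofNat 438⟩, ⟨.ofNat 872, .ofNat 240, .negSucc 103, .negSucc 1664, .negSucc 771, .negSucc 1759⟩, ⟨.negSucc 1263, .negSucc 24, .ofNat 304, .ofNat 279, .negSucc 322, .negSucc 376⟩, .ofNat 514, .ofNat 418, .ofNat 0, .ofNat 418, .ofNat 1901, .ofNat 0, .ofNat 170, .negSucc 127, .negSucc 803, .ofNat 0, .ofNat 105, .ofNat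 197, .ofNat 0, .ofNat 0, .ofNat 735, .ofNat 944, .ofNat 0, .ofNat 0, .ofNat 0, .ofNat 0, .ofNat 0, .ofNat 0, .ofNat 2482156841953543172537841537409692408479744, .ofNat 0, .ofNat 0, .ofNat 0, .ofNat 0, .ofNat 0, .ofNat 0, .ofNat 0, .ofNat 36156957357212277589402953850437183469518848, .ofNat 0⟩)
    (by decide +kernel)
theorem L01566 : Good (Phi V5.P V5.D (-1) (-1)) ⟨5, 22, 3, 0, 3, 6, 3, 6, 5, 0⟩ :=
  leafX_sound T5.ok_mm T5.Ymm.bz_eq (w := 237) (c := ⟨⟨.ofNat 1603, .ofNat 276, .negSucc 274, .negSucc 137, .negSucc 1406, .negSucc 1307⟩, ⟨.negSucc 464, .negSucc 101, .ofNat 129, .ofNat 36, .ofNat 300, .ofNat 247⟩, ⟨.negSucc 1450, .negSucc 269, .ofNat 385, .ofNat 293, .ofNat 1010, .ofNat 909⟩, ⟨.ofNat 2595, .ofNat 421, .negSucc 514, .negSucc 224, .negSucc 2472, .negSucc 2304⟩, ⟨.negSucc 1387, .negSucc 77, .ofNat 259, .ofNat 30, .ofNat 42, .negSucc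 21⟩, .ofNat 471, .ofNat 314, .ofNat 0, .ofNat 314, .ofNat 1639, .ofNat 0, .ofNat 228, .negSucc 102, .negSucc 1048, .ofNat 0, .ofNat 128, .ofNat 244, .ofNat 0, .ofNat 0, .ofNat 1020, .ofNat 1430, .ofNat 0, .ofNat 0, .ofNat 0, .ofNat 0, .ofNat 0, .ofNat 0, .ofNat 947735695230757091383443099708625728307200, .ofNat 0, .ofNat 0, .ofNat 0, .ofNat 0, .ofNat 0, .ofNat 0, .ofNat 0, .ofNat 0, .ofNat 0⟩)
    (by decide +kernel)
theorem L01567 : Good (Phi V5.P V5.D (-1) (-1)) ⟨5, 23, 3, 0, 3, 6, 3, 6, 5, 0⟩ :=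
  leafX_sound T5.ok_mm T5.Ymm.bz_eq (w := 237) (c := ⟨⟨.ofNat 1967, .ofNat 224, .negSucc 203, .negSucc 130, .negSucc 1590, .negSucc 1466⟩, ⟨.negSucc 673, .negSucc 121, .ofNat 132, .ofNat 47, .ofNat 404, .ofNat 352⟩, ⟨.negSucc 1804, .negSucc 206, .ofNat 315, .ofNat 320, .ofNat 1151, .ofNat 1029⟩, ⟨.ofNat 3091, .ofNat 308, .negSucc 378, .negSucc 195, .negSucc 2727, .negSucc 2531⟩, ⟨.negSucc 1413, .negSucc 42, .ofNat 270, .ofNat 76, .negSucc 75, .negSucc 113⟩, .ofNat 481, .ofNat 354, .ofNat 0, .ofNat 354, .ofNat 1513, .ofNat 0, .ofNat 240, .negSucc 119, .negSucc 984, .ofNat 0, .ofNat 128, .ofNat 268, .ofNat 0, .ofNat 0, .ofNat 927, .ofNat 1280, .ofNat 0, .ofNat 0, .ofNat 174219224142240253032811752450575323627520, .ofNat 0, .ofNat 0, .ofNat 0, .ofNat 2865381229440844100758676337220461222952960, .ofNat 0, .ofNat 0, .ofNat 0, .ofNat 20186967518815553247474790173268695905730560,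 .ofNat 0, .ofNat 0, .ofNat 0, .ofNat 23988769818519779063968900094742139739570176, .ofNat 0⟩)
    (by decide +kernel)
theorem L01568 : Good (Phi V5.P V5.D (-1) (-1)) ⟨4, 11, 3, 0, 3, 7, 4, 12, 5, 0⟩ :=
  leafX_sound T5.ok_mm T5.Ymm.bz_eq (w := 236) (c := ⟨⟨.ofNat 968, .ofNat 58, .negSucc 110, .negSucc 1142, .negSucc 306, .negSucc 774⟩, ⟨.negSucc 332, .negSucc 47, .ofNat 102, .ofNat 281, .ofNat 42, .ofNat 120⟩, ⟨.negSucc 600, .negSucc 77, .ofNat 244, .ofNat 921, .ofNat 106, .ofNat 293⟩, ⟨.ofNat 1511, .ofNat 91, .negSucc 211, .negSucc 1914, .negSucc 600, .negSucc 1451⟩, ⟨.negSucc 1026, .negSucc 65, .ofNat 449, .ofNat 239, .negSucc 270, .negSucc 503⟩, .ofNat 511, .ofNat 411, .ofNat 0, .ofNat 411, .ofNat 1851, .ofNat 0, .ofNat 229, .negSucc 127, .negSucc 1011, .ofNat 0, .ofNat 127, .ofNat 256, .ofNat 0, .ofNat 0, .ofNat 923, .ofNat 1013, .ofNat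 0, .ofNat 0, .ofNat 0, .ofNat 0, .ofNat 0, .ofNat 0, .ofNat 0, .ofNat 0, .ofNat 0, .ofNat 0, .ofNat 0, .ofNat 0, .ofNat 0, .ofNat 0, .ofNat 1134058414751898121143828423107396693485682688, .ofNat 0⟩)
    (by decide +kernel)
theorem L01569 : Good (Phi V5.P V5.D (-1) (-1)) ⟨4, 11, 3, 0, 3, 7, 4, 13, 5, 0⟩ :=
  leafX_sound T5.ok_mm T5.Ymm.bz_eq (w := 236) (c := ⟨⟨.negSucc 62, .ofNat 16, .ofNat 62, .negSucc 536, .negSucc 303, .negSucc 513⟩, ⟨.negSucc 156, .negSucc 42, .ofNat 118, .ofNat 126, .ofNat 54, .ofNat 80⟩, ⟨.ofNat 124, .negSucc 68, .ofNat 87, .ofNat 392, .ofNat 109, .ofNat 126⟩, ⟨.negSucc 284, .ofNat 37, .ofNat 56, .negSucc 941, .negSucc 572, .negSucc 990⟩, ⟨.negSucc 955, .negSucc 74, .ofNat 188, .negSucc 98, .negSucc 195, .negSucc 427⟩, .ofNat 513, .ofNat 417, .ofNat 0, .ofNat 417, .ofNat 1872, .ofNat 0, .ofNat 183, .negSucc 126, .negSucc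 1446, .ofNat 0, .ofNat 128, .ofNat 368, .ofNat 0, .ofNat 0, .ofNat 1322, .ofNat 1050, .ofNat 0, .ofNat 0, .ofNat 0, .ofNat 0, .ofNat 0, .ofNat 0, .ofNat 39508848302107300027769989298410118541475840, .ofNat 0, .ofNat 0, .ofNat 0, .ofNat 0, .ofNat 0, .ofNat 0, .ofNat 0, .ofNat 1362197962826060151767355909155892081599709184, .ofNat 0⟩)
    (by decide +kernel)
theorem L01570 : Good (Phi V5.P V5.D (-1) (-1)) ⟨5, 22, 3, 0, 3, 6, 3, 7, 5, 0⟩ :=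
  leafX_sound T5.ok_mm T5.Ymm.bz_eq (w := 236) (c := ⟨⟨.negSucc 354, .negSucc 14, .ofNat 145, .ofNat 43, .negSucc 726, .negSucc 710⟩, ⟨.negSucc 109, .negSucc 9, .ofNat 108, .negSucc 14, .ofNat 169, .ofNat 144⟩, ⟨.ofNat 136, .negSucc 36, .negSucc 12, .negSucc 9, .ofNat 451, .ofNat 401⟩, ⟨.negSucc 853, .negSucc 12, .ofNat 183, .ofNat 60, .negSucc 1238, .negSucc 1255⟩, ⟨.negSucc 1226, .negSucc 63, .ofNat 55, .negSucc 125, .ofNat 216, .negSucc 7⟩, .ofNat 504, .ofNat 385, .ofNat 0, .ofNat 385, .ofNat 1943, .ofNat 0, .ofNat 252, .negSucc 95, .negSucc 1373, .ofNat 0, .ofNat 128, .ofNat 324, .ofNat 0, .ofNat 0, .ofNat 1358, .ofNat 1741, .ofNat 0, .ofNat 0, .ofNat 0, .ofNat 0, .ofNat 0, .ofNat 48691206909001160925024699904902100597069578240, .ofNat 0, .ofNat 0, .ofNat 0, .ofNat 0, .ofNat 0, .ofNat 0, .ofNat 0, .ofNat 0, .ofNat 28856813984328838609251484005302157780713472,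 .ofNat 0⟩)
    (by decide +kernel)
theorem L01571 : Good (Phi V5.P V5.D (-1) (-1)) ⟨5, 23, 3, 0, 3, 6, 3, 7, 5, 0⟩ :=
  leafX_sound T5.ok_mm T5.Ymm.bz_eq (w := 236) (c := ⟨⟨.negSucc 377, .negSucc 130, .ofNat 190, .ofNat 130, .negSucc 823, .negSucc 864⟩, ⟨.negSucc 141, .ofNat 18, .ofNat 95, .negSucc 49, .ofNat 226, .ofNat 218⟩, ⟨.ofNat 122, .ofNat 69, .negSucc 46, .negSucc 93, .ofNat 536, .ofNat 540⟩, ⟨.negSucc 907, .negSucc 210, .ofNat 269, .ofNat 187, .negSucc 1364, .negSucc 1477⟩, ⟨.negSucc 1248, .negSucc 101, .ofNat 107, .negSucc 126, .ofNat 160, .negSucc 24⟩, .ofNat 526, .ofNat 430, .ofNat 0, .ofNat 430, .ofNat 1849, .ofNat 0, .ofNat 316, .negSucc 88, .negSucc 1679, .ofNat 0, .ofNat 128, .ofNat 449, .ofNat 0, .ofNat 0, .ofNat 1617, .ofNat 1683, .ofNat 0, .ofNat 0, .ofNat 19964089665140587109847517756108895682560, .ofNat 0, .ofNat 0, .ofNat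 0, .ofNat 2914957708388096548111116986147340308971520, .ofNat 0, .ofNat 0, .ofNat 15457771939255022298338502278181698666781212672, .ofNat 18436922072538532717010371402554370405957632, .ofNat 0, .ofNat 0, .ofNat 0, .ofNat 41973611923835085031957503734605178713669632, .ofNat 0⟩)
    (by decide +kernel)
theorem L01572 : Good (Phi V5.P V5.D (-1) (-1)) ⟨4, 11, 3, 0, 3, 7, 4, 14, 5, 0⟩ :=
  leafX_sound T5.ok_mm T5.Ymm.bz_eq (w := 236) (c := ⟨⟨.negSucc 603, .negSucc 5, .ofNat 48, .negSucc 223, .negSucc 140, .negSucc 337⟩, ⟨.negSucc 53, .negSucc 38, .ofNat 142, .ofNat 30, .ofNat 21, .ofNat 52⟩, ⟨.ofNat 416, .negSucc 54, .ofNat 108, .ofNat 120, .negSucc 17, .ofNat 27⟩, ⟨.negSucc 1253, .ofNat 6, .ofNat 15, .negSucc 420, .negSucc 281, .negSucc 660⟩, ⟨.negSucc 1132, .negSucc 99, .ofNat 135, .negSucc 154, .negSucc 103, .negSucc 301⟩, .ofNat 500, .ofNat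 377, .ofNat 0, .ofNat 377, .ofNat 1778, .ofNat 0, .ofNat 244, .negSucc 98, .negSucc 1480, .ofNat 0, .ofNat 128, .ofNat 369, .ofNat 0, .ofNat 0, .ofNat 1359, .ofNat 1769, .ofNat 0, .ofNat 0, .ofNat 0, .ofNat 0, .ofNat 0, .ofNat 0, .ofNat 0, .ofNat 0, .ofNat 0, .ofNat 0, .ofNat 0, .ofNat 0, .ofNat 0, .ofNat 0, .ofNat 1320912933333308801520976842233881871784083456, .ofNat 0⟩)
    (by decide +kernel)
theorem L01573 : Good (Phi V5.P V5.D (-1) (-1)) ⟨4, 11, 3, 0, 3, 7, 4, 15, 5, 0⟩ :=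
  leafX_sound T5.ok_mm T5.Ymm.bz_eq (w := 237) (c := ⟨⟨.negSucc 1114, .negSucc 28, .ofNat 74, .ofNat 120, .ofNat 64, .negSucc 107⟩, ⟨.ofNat 44, .negSucc 29, .ofNat 141, .negSucc 53, .negSucc 11, .ofNat 16⟩, ⟨.ofNat 710, .negSucc 50, .ofNat 66, .negSucc 169, .negSucc 170, .negSucc 109⟩, ⟨.negSucc 2193, .negSucc 8, .ofNat 55, .ofNat 155, .ofNat 117, .negSucc 203⟩, ⟨.negSucc 1318, .negSucc 60, .ofNat 122, .negSucc 226, .ofNat 37, .negSucc 62⟩, .ofNat 537, .ofNat 472, .ofNat 0, .ofNat 472, .ofNat 2122, .ofNat 0, .ofNat 349, .negSucc 118, .negSucc 1148, .ofNat 0, .ofNat 128, .ofNat 287, .ofNat 0, .ofNat 0, .ofNat 1094, .ofNat 2307, .ofNat 0, .ofNat 0, .ofNat 0, .ofNat 0, .ofNat 0, .ofNat 0, .ofNat 0, .ofNat 0, .ofNat 0, .ofNat 0, .ofNat 361795679601131816338636481345700416926515200, .ofNat 0, .ofNat 0, .ofNat 0, .ofNat 703336182519338311600076055242534446375632896,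 .ofNat 0⟩)
    (by decide +kernel)
theorem L01574 : Good (Phi V5.P V5.D (-1) (-1)) ⟨4, 11, 3, 0, 3, 6, 3, 6, 5, 1⟩ :=
  leafX_sound T5.ok_mm T5.Ymm.bz_eq (w := 232) (c := ⟨⟨.negSucc 223, .negSucc 175, .ofNat 311, .ofNat 234, .negSucc 957, .negSucc 1418⟩, ⟨.negSucc 216, .ofNat 16, .ofNat 92, .negSucc 58, .ofNat 254, .ofNat 358⟩, ⟨.negSucc 65, .ofNat 71, .negSucc 142, .negSucc 133, .ofNat 675, .ofNat 965⟩, ⟨.negSucc 672, .negSucc 269, .ofNat 472, .ofNat 396, .negSucc 1654, .negSucc 2458⟩, ⟨.negSucc 1278, .negSucc 82, .ofNat 104, .negSucc 211, .ofNat 68, .negSucc 79⟩, .ofNat 426, .ofNat 244, .ofNat 0, .ofNat 244, .ofNat 1220, .ofNat 0, .ofNat 252, .negSucc 105, .negSucc 1262, .ofNat 0, .ofNat 128, .ofNat 309, .ofNat 0, .ofNat 0, .ofNat 1132, .ofNat 1052, .ofNat 0, .ofNat 0, .ofNat 84683808879901810459615982002237450747904, .ofNat 0, .ofNat 0,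 .ofNat 0, .ofNat 0, .ofNat 0, .ofNat 0, .ofNat 0, .ofNat 0, .ofNat 0, .ofNat 0, .ofNat 0, .ofNat 80354577177400735589662138782051708033826816, .ofNat 0⟩)
    (by decide +kernel)
theorem L01575 : Good (Phi V5.P V5.D (-1) (-1)) ⟨4, 11, 3, 0, 3, 6, 4, 14, 5, 1⟩ :=
  leafX_sound T5.ok_mm T5.Ymm.bz_eq (w := 237) (c := ⟨⟨.negSucc 1503, .negSucc 717, .ofNat 418, .ofNat 578, .negSucc 150, .negSucc 799⟩, ⟨.ofNat 95, .ofNat 192, .ofNat 90, .negSucc 175, .ofNat 49, .ofNat 211⟩, ⟨.ofNat 939, .ofNat 535, .negSucc 269, .negSucc 528, .ofNat 66, .ofNat 492⟩, ⟨.negSucc 2882, .negSucc 1109, .ofNat 656, .ofNat 933, .negSucc 233, .negSucc 1365⟩, ⟨.negSucc 1100, .negSucc 43, .negSucc 51, .negSucc 251, .ofNat 149, .ofNat 6⟩, .ofNat 478, .ofNat 343, .ofNat 0, .ofNat 343, .ofNat 1586, .ofNat 0, .ofNat 187, .negSucc 120, .negSucc 1407, .ofNat 0, .ofNat 128, .ofNat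 355, .ofNat 0, .ofNat 0, .ofNat 1314, .ofNat 1531, .ofNat 0, .ofNat 0, .ofNat 3347301105829559317994005027924267228987392, .ofNat 0, .ofNat 0, .ofNat 0, .ofNat 102413391216447000259082916721056410249461760, .ofNat 0, .ofNat 0, .ofNat 0, .ofNat 0, .ofNat 0, .ofNat 0, .ofNat 0, .ofNat 2195925901907914237262085525175891841823801344, .ofNat 0⟩)
    (by decide +kernel)

end Crest.Agent.R097C5.N5mm
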