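import Crest.Agent.R097.KP7
import Crest.Agent.R097.T5Ymm

/-!
# Row 97, box cover in dimension n = 5 (generated)
-/

set_option autoImplicit false
set_option Elab.async false
set_option maxHeartbeats 0
set_option maxRecDepth 100000

open Crest.Agent.R097 Crest.Agent.R097.KA


namespace Crest.Agent.R097C5.N5mm

theorem L01576 : Good (Phi V5.P V5.D (-1) (-1)) ⟨4, 11, 3, 0, 3, 6, 4, 15, 5, 1⟩ :=
  leafX_sound T5.ok_mm T5.Ymm.bz_eq (w := 237) (c := ⟨⟨.negSucc 2076, .negSucc 492, .ofNat 311, .ofNat 795, .ofNat 178, .negSucc 238⟩, ⟨.ofNat 246, .ofNat 149, .ofNat 101, .negSucc 226, .negSucc 18, .ofNat 74⟩, ⟨.ofNat 1404, .ofNat 339, .negSucc 190, .negSucc 757, .negSucc 208, .ofNat 27⟩, ⟨.negSucc 3850, .negSucc 740, .ofNat 477, .ofNat 1312, .ofNat 358, .negSucc 392⟩, ⟨.negSucc 1002, .negSucc 171, .negSucc 53, .negSucc 206, .ofNat 215, .ofNat 156⟩, .ofNat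 478, .ofNat 341, .ofNat 0, .ofNat 341, .ofNat 1603, .ofNat 0, .ofNat 178, .negSucc 108, .negSucc 1330, .ofNat 0, .ofNat 128, .ofNat 329, .ofNat 0, .ofNat 0, .ofNat 1256, .ofNat 941, .ofNat 0, .ofNat 0, .ofNat 0, .ofNat 0, .ofNat 0, .ofNat 0, .ofNat 77301905728938825093734346984850645990768640, .ofNat 0, .ofNat 0, .ofNat 0, .ofNat 0, .ofNat 0, .ofNat 0, .ofNat 0, .ofNat 1401676475051587138350709640471664469519368192, .ofNat 0⟩)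
    (by decide +kernel)
theorem L01577 : Good (Phi V5.P V5.D (-1) (-1)) ⟨4, 11, 3, 0, 4, 14, 3, 6, 5, 1⟩ :=
  leafX_sound T5.ok_mm T5.Ymm.bz_eq (w := 246) (c := ⟨⟨.negSucc 468, .negSucc 113, .ofNat 171, .negSucc 111, .negSucc 436, .negSucc 644⟩, ⟨.negSucc 129, .negSucc 10, .ofNat 130, .ofNat 26, .ofNat 100, .ofNat 132⟩, ⟨.ofNat 240, .ofNat 35, .negSucc 23, .ofNat 89, .ofNat 186, .ofNat 289⟩, ⟨.negSucc 1075, .negSucc 182, .ofNat 225, .negSucc 200, .negSucc 776, .negSucc 1162⟩, ⟨.negSucc 1326, .negSucc 165, .ofNat 117, .negSucc 24, .negSucc 59, .negSucc 188⟩, .ofNat 500, .ofNat 377, .ofNat 0, .ofNat 377, .ofNat 1778, .ofNat 0, .ofNat 205, .negSucc 127, .negSucc 1267, .ofNat 0, .ofNat 128, .ofNat 309, .ofNat 0, .ofNat 0, .ofNat 1126, .ofNat 1669, .ofNat 0, .ofNat 0, .ofNat 0, .ofNat 0, .ofNat 0, .ofNat 0, .ofNat 37018336637557971752186369583080471077089968128,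 .ofNat 0, .ofNat 0, .ofNat 0, .ofNat 0, .ofNat 0, .ofNat 0, .ofNat 0, .ofNat 1105562101585418164351574593369011816369628381184, .ofNat 0⟩)
    (by decide +kernel)
theorem L01578 : Good (Phi V5.P V5.D (-1) (-1)) ⟨4, 11, 3, 0, 4, 14, 3, 7, 5, 1⟩ :=
  leafX_sound T5.ok_mm T5.Ymm.bz_eq (w := 246) (c := ⟨⟨.negSucc 1399, .negSucc 53, .ofNat 119, .ofNat 268, .ofNat 149, .negSucc 114⟩, ⟨.ofNat 78, .negSucc 13, .ofNat 137, .negSucc 70, .negSucc 8, .ofNat 33⟩, ⟨.ofNat 808, .negSucc 26, .ofNat 11, .negSucc 215, .negSucc 275, .negSucc 65⟩, ⟨.negSucc 2718, .negSucc 55, .ofNat 126, .ofNat 426, .ofNat 309, .negSucc 176⟩, ⟨.negSucc 1395, .negSucc 169, .ofNat 33, .negSucc 138, .ofNat 251, .ofNat 132⟩, .ofNat 534, .ofNat 456, .ofNat 0, .ofNat 456, .ofNat 2081, .ofNat 0, .ofNat 338, .negSucc 118, .negSucc 1215, .ofNat 0, .ofNat 128, .ofNat 297, .ofNat 0, .ofNat 0,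 .ofNat 1112, .ofNat 1048, .ofNat 0, .ofNat 0, .ofNat 0, .ofNat 0, .ofNat 0, .ofNat 0, .ofNat 0, .ofNat 0, .ofNat 0, .ofNat 0, .ofNat 494160397923676177477587286599647321707975278592, .ofNat 0, .ofNat 0, .ofNat 0, .ofNat 1345038308461396944368803769671371227805931012096, .ofNat 0⟩)
    (by decide +kernel)
theorem L01579 : Good (Phi V5.P V5.D (-1) (-1)) ⟨4, 11, 3, 0, 4, 15, 3, 6, 5, 1⟩ :=
  leafX_sound T5.ok_mm T5.Ymm.bz_eq (w := 246) (c := ⟨⟨.negSucc 930, .negSucc 67, .ofNat 67, .negSucc 127, .negSucc 90, .negSucc 197⟩, ⟨.negSucc 10, .negSucc 12, .ofNat 146, .ofNat 24, .ofNat 4, .ofNat 27⟩, ⟨.ofNat 587, .ofNat 6, .ofNat 65, .ofNat 59, .negSucc 82, .negSucc 38⟩, ⟨.negSucc 1885, .negSucc 61, .ofNat 27, .negSucc 233, .negSucc 188, .negSucc 387⟩, ⟨.negSucc 1360, .negSucc 46, .ofNat 81, .negSucc 55, .negSucc 122, .negSucc 192⟩, .ofNat 515, .ofNat 423,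 .ofNat 0, .ofNat 423, .ofNat 1882, .ofNat 0, .ofNat 332, .negSucc 127, .negSucc 641, .ofNat 0, .ofNat 109, .ofNat 160, .ofNat 0, .ofNat 0, .ofNat 587, .ofNat 1389, .ofNat 0, .ofNat 0, .ofNat 0, .ofNat 0, .ofNat 0, .ofNat 0, .ofNat 0, .ofNat 0, .ofNat 0, .ofNat 0, .ofNat 243777496620303138679683010456109826775166484480, .ofNat 0, .ofNat 0, .ofNat 0, .ofNat 144024235304577959446845206065233575993856229376, .ofNat 0⟩)
    (by decide +kernel)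
theorem L01580 : Good (Phi V5.P V5.D (-1) (-1)) ⟨4, 11, 3, 0, 4, 15, 3, 7, 5, 1⟩ :=
  leafX_sound T5.ok_mm T5.Ymm.bz_eq (w := 247) (c := ⟨⟨.negSucc 1344, .ofNat 46, .ofNat 53, .ofNat 87, .ofNat 370, .ofNat 112⟩, ⟨.ofNat 53, .negSucc 45, .ofNat 145, .negSucc 22, .negSucc 44, .negSucc 11⟩, ⟨.ofNat 702, .negSucc 92, .ofNat 72, .negSucc 62, .negSucc 413, .negSucc 186⟩, ⟨.negSucc 2673, .ofNat 119, .ofNat 18, .ofNat 146, .ofNat 711, .ofNat 221⟩, ⟨.negSucc 1700, .negSucc 73, .ofNat 143, .negSucc 33, .ofNat 347, .ofNat 149⟩, .ofNat 508, .ofNat 402, .ofNat 0, .ofNat 402, .ofNat 1872, .ofNat 0, .ofNat 449, .negSucc 127, .negSucc 643, .ofNat 0, .ofNat 125, .ofNat 153, .ofNat 0, .ofNat 0, .ofNat 602, .ofNat 2607, .ofNat 0, .ofNat 0, .ofNat 0, .ofNat 0, .ofNat 0, .ofNat 0, .ofNat 514011412820692065669378714714719676831771918336, .ofNat 0, .ofNat 0, .ofNat 0,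 .ofNat 142567056480717412982914608045280019700416249856, .ofNat 0, .ofNat 0, .ofNat 0, .ofNat 363684511428380552752745661420804933446791069696, .ofNat 0⟩)
    (by decide +kernel)
theorem L01581 : Good (Phi V5.P V5.D (-1) (-1)) ⟨3, 5, 3, 0, 3, 6, 2, 2, 6, 4⟩ :=
  leafX_sound T5.ok_mm T5.Ymm.bz_eq (w := 228) (c := ⟨⟨.negSucc 276, .negSucc 710, .ofNat 194, .ofNat 351, .negSucc 936, .negSucc 678⟩, ⟨.negSucc 163, .ofNat 146, .ofNat 136, .negSucc 102, .ofNat 214, .ofNat 136⟩, ⟨.negSucc 53, .ofNat 507, .negSucc 73, .negSucc 215, .ofNat 631, .ofNat 445⟩, ⟨.negSucc 794, .negSucc 1124, .ofNat 281, .ofNat 588, .negSucc 1660, .negSucc 1227⟩, ⟨.negSucc 1454, .negSucc 225, .ofNat 74, .negSucc 74, .ofNat 160, .negSucc 53⟩, .ofNat 428, .ofNat 228, .ofNat 0, .ofNat 228, .ofNat 1343, .ofNat 0, .ofNat 168, .negSucc 127, .negSucc 662, .ofNat 0, .ofNat 122, .ofNat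 148, .ofNat 0, .ofNat 0, .ofNat 642, .ofNat 529, .ofNat 0, .ofNat 0, .ofNat 0, .ofNat 0, .ofNat 0, .ofNat 0, .ofNat 6903632762374268831699935678089104971530240, .ofNat 0, .ofNat 0, .ofNat 0, .ofNat 160773198833053116080189217467667225216286720, .ofNat 0, .ofNat 0, .ofNat 0, .ofNat 231705767589319551817280264223227806943805440, .ofNat 0⟩)
    (by decide +kernel)
theorem L01582 : Good (Phi V5.P V5.D (-1) (-1)) ⟨3, 5, 3, 0, 3, 6, 2, 2, 6, 5⟩ :=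
  leafX_sound T5.ok_mm T5.Ymm.bz_eq (w := 229) (c := ⟨⟨.negSucc 1306, .negSucc 1070, .ofNat 329, .ofNat 381, .negSucc 329, .negSucc 489⟩, ⟨.negSucc 8, .ofNat 287, .ofNat 141, .negSucc 111, .ofNat 92, .ofNat 122⟩, ⟨.ofNat 684, .ofNat 789, .negSucc 212, .negSucc 294, .ofNat 179, .ofNat 326⟩, ⟨.negSucc 2723, .negSucc 1600, .ofNat 500, .ofNat 636, .negSucc 556, .negSucc 849⟩, ⟨.negSucc 1419, .negSucc 169, .negSucc 42, .negSucc 112, .ofNat 177, .ofNat 45⟩, .ofNat 430, .ofNat 232, .ofNat 0, .ofNat 232, .ofNat 1381, .ofNat 0, .ofNat 156, .negSucc 127, .negSucc 614, .ofNat 0, .ofNat 114, .ofNat 138, .ofNat 0, .ofNat 0, .ofNat 619, .ofNat 834, .ofNat 0, .ofNat 0, .ofNat 1103774460269460068842542487115848260517888, .ofNat 0, .ofNat 0, .ofNat 0, .ofNat 12436775053826917550000991930296253905108992, .ofNat 0, .ofNat 0, .ofNat 0, .ofNat 153496845898544541211554637679372320790020096,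 .ofNat 0, .ofNat 0, .ofNat 0, .ofNat 281620885107696469938130627487218758005555200, .ofNat 0⟩)
    (by decide +kernel)
theorem L01583 : Good (Phi V5.P V5.D (-1) (-1)) ⟨4, 10, 3, 0, 3, 6, 2, 2, 5, 3⟩ :=
  leafX_sound T5.ok_mm T5.Ymm.bz_eq (w := 229) (c := ⟨⟨.negSucc 2165, .negSucc 421, .ofNat 243, .ofNat 451, .ofNat 254, .negSucc 308⟩, ⟨.ofNat 151, .ofNat 124, .ofNat 169, .negSucc 99, .negSucc 23, .ofNat 61⟩, ⟨.ofNat 1280, .ofNat 298, .negSucc 148, .negSucc 352, .negSucc 254, .ofNat 152⟩, ⟨.negSucc 4277, .negSucc 582, .ofNat 344, .ofNat 771, .ofNat 489, .negSucc 556⟩, ⟨.negSucc 1219, .negSucc 78, .negSucc 56, .negSucc 323, .ofNat 174, .ofNat 71⟩, .ofNat 513, .ofNat 398, .ofNat 0, .ofNat 398, .ofNat 2514, .ofNat 0, .ofNat 208, .negSucc 127, .negSucc 585, .ofNat 0, .ofNat 90, .ofNat 118, .ofNat 0, .ofNat 0, .ofNat 701, .ofNat 1535, .ofNat 0, .ofNat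 0, .ofNat 0, .ofNat 0, .ofNat 0, .ofNat 0, .ofNat 0, .ofNat 0, .ofNat 0, .ofNat 0, .ofNat 0, .ofNat 0, .ofNat 0, .ofNat 0, .ofNat 0, .ofNat 0⟩)
    (by decide +kernel)
theorem L01584 : Good (Phi V5.P V5.D (-1) (-1)) ⟨4, 11, 3, 0, 3, 6, 2, 2, 5, 3⟩ :=
  leafX_sound T5.ok_mm T5.Ymm.bz_eq (w := 229) (c := ⟨⟨.negSucc 2829, .negSucc 791, .ofNat 386, .ofNat 754, .ofNat 352, .negSucc 311⟩, ⟨.ofNat 338, .ofNat 249, .ofNat 148, .negSucc 225, .negSucc 57, .ofNat 91⟩, ⟨.ofNat 1811, .ofNat 587, .negSucc 294, .negSucc 607, .negSucc 345, .ofNat 146⟩, ⟨.negSucc 5260, .negSucc 1151, .ofNat 591, .ofNat 1210, .ofNat 637, .negSucc 479⟩, ⟨.negSucc 1321, .negSucc 35, .negSucc 74, .negSucc 384, .ofNat 238, .ofNat 195⟩, .ofNat 420, .ofNat 225, .ofNat 0, .ofNat 225, .ofNat 1181, .ofNat 0, .ofNat 234, .negSucc 127, .negSucc 890, .ofNat 0, .ofNat 116, .ofNat 233, .ofNat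 0, .ofNat 0, .ofNat 894, .ofNat 1445, .ofNat 0, .ofNat 0, .ofNat 27831626330292514644514484568060787163136, .ofNat 0, .ofNat 0, .ofNat 0, .ofNat 692359350021890627293757244953835060854784, .ofNat 0, .ofNat 0, .ofNat 0, .ofNat 0, .ofNat 0, .ofNat 0, .ofNat 0, .ofNat 4136086522383659068956991393709266430853120, .ofNat 0⟩)
    (by decide +kernel)
theorem L01585 : Good (Phi V5.P V5.D (-1) (-1)) ⟨3, 5, 3, 0, 3, 7, 3, 4, 5, 2⟩ :=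
  leafX_sound T5.ok_mm T5.Ymm.bz_eq (w := 227) (c := ⟨⟨.negSucc 804, .negSucc 432, .ofNat 229, .negSucc 292, .ofNat 110, .negSucc 762⟩, ⟨.negSucc 38, .ofNat 78, .ofNat 123, .ofNat 78, .negSucc 29, .ofNat 116⟩, ⟨.ofNat 486, .ofNat 281, .negSucc 54, .ofNat 150, .negSucc 141, .ofNat 324⟩, ⟨.negSucc 1734, .negSucc 598, .ofNat 333, .negSucc 474, .ofNat 133, .negSucc 1420⟩, ⟨.negSucc 1418, .negSucc 163, .ofNat 345, .ofNat 290, .negSucc 372, .negSucc 162⟩, .ofNat 516, .ofNat 419, .ofNat 0, .ofNat 419, .ofNat 2127, .ofNat 0, .ofNat 128, .negSucc 128, .negSucc 454, .ofNat 0, .ofNat 94, .ofNat 103, .ofNat 0, .ofNat 0, .ofNat 458, .ofNat 440, .ofNat 0, .ofNat 0, .ofNat 0, .ofNat 0, .ofNat 0, .ofNat 0, .ofNat 7438550403889000616135678911106430370054144, .ofNat 0, .ofNat 0, .ofNat 0, .ofNat 55668860285416888143425916635703687696613376, .ofNat 0, .ofNat 0, .ofNat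 0, .ofNat 45533704537258711981849620842574857872867328, .ofNat 0⟩)
    (by decide +kernel)
theorem L01586 : Good (Phi V5.P V5.D (-1) (-1)) ⟨4, 10, 3, 0, 3, 7, 3, 5, 5, 2⟩ :=
  leafX_sound T5.ok_mm T5.Ymm.bz_eq (w := 232) (c := ⟨⟨.negSucc 992, .negSucc 236, .ofNat 192, .negSucc 92, .ofNat 64, .negSucc 491⟩, ⟨.negSucc 11, .ofNat 43, .ofNat 132, .ofNat 22, .negSucc 12, .ofNat 71⟩, ⟨.ofNat 537, .ofNat 136, .negSucc 38, .ofNat 50, .negSucc 112, .ofNat 182⟩, ⟨.negSucc 2037, .negSucc 366, .ofNat 277, .negSucc 189, .ofNat 71, .negSucc 975⟩, ⟨.negSucc 1386, .negSucc 82, .ofNat 143, .negSucc 43, .negSucc 100, .negSucc 165⟩, .ofNat 434, .ofNat 222, .ofNat 0, .ofNat 222, .ofNat 1517, .ofNat 0, .ofNat 445, .negSucc 118, .negSucc 1126, .ofNat 0, .ofNat 128, .ofNat 212, .ofNat 0, .ofNat 0, .ofNat 1140, .ofNat 2416, .ofNat 0, .ofNat 0, .ofNat 0, .ofNat 0, .ofNat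 0, .ofNat 0, .ofNat 0, .ofNat 0, .ofNat 0, .ofNat 0, .ofNat 0, .ofNat 0, .ofNat 0, .ofNat 0, .ofNat 0, .ofNat 0⟩)
    (by decide +kernel)
theorem L01587 : Good (Phi V5.P V5.D (-1) (-1)) ⟨4, 11, 3, 0, 3, 7, 3, 5, 5, 2⟩ :=
  leafX_sound T5.ok_mm T5.Ymm.bz_eq (w := 232) (c := ⟨⟨.negSucc 1239, .negSucc 199, .ofNat 212, .ofNat 61, .ofNat 42, .negSucc 438⟩, ⟨.ofNat 21, .ofNat 24, .ofNat 139, .negSucc 10, .negSucc 11, .ofNat 75⟩, ⟨.ofNat 704, .ofNat 102, .negSucc 38, .negSucc 57, .negSucc 114, .ofNat 128⟩, ⟨.negSucc 2460, .negSucc 293, .ofNat 304, .ofNat 130, .ofNat 47, .negSucc 832⟩, ⟨.negSucc 1614, .negSucc 168, .ofNat 237, .ofNat 154, .negSucc 28, .negSucc 237⟩, .ofNat 512, .ofNat 413, .ofNat 0, .ofNat 413, .ofNat 1859, .ofNat 0, .ofNat 212, .negSucc 127, .negSucc 785, .ofNat 0, .ofNat 101, .ofNat 198, .ofNat 0, .ofNat 0, .ofNat 739, .ofNat 1110, .ofNat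 0, .ofNat 0, .ofNat 0, .ofNat 0, .ofNat 0, .ofNat 0, .ofNat 4860187554978201352030055202847160390385664, .ofNat 0, .ofNat 0, .ofNat 0, .ofNat 457296849944581798719828371718793437642752, .ofNat 0, .ofNat 0, .ofNat 0, .ofNat 37422612710240927456895271033309299354894336, .ofNat 0⟩)
    (by decide +kernel)
theorem L01588 : Good (Phi V5.P V5.D (-1) (-1)) ⟨4, 10, 3, 0, 3, 7, 3, 4, 5, 3⟩ :=
  leafX_sound T5.ok_mm T5.Ymm.bz_eq (w := 233) (c := ⟨⟨.negSucc 1876, .negSucc 261, .ofNat 229, .ofNat 181, .ofNat 271, .negSucc 240⟩, ⟨.ofNat 106, .ofNat 67, .ofNat 169, .negSucc 26, .negSucc 52, .ofNat 37⟩, ⟨.ofNat 1059, .ofNat 177, .negSucc 104, .negSucc 193, .negSucc 231, .ofNat 85⟩, ⟨.negSucc 3739, .negSucc 349, .ofNat 323, .ofNat 338, .ofNat 465, .negSucc 467⟩, ⟨.negSucc 1497, .negSucc 82, .ofNat 66, .ofNat 26, .negSucc 100, .negSucc 6⟩, .ofNat 433, .ofNat 220,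 .ofNat 0, .ofNat 220, .ofNat 1511, .ofNat 0, .ofNat 327, .negSucc 127, .negSucc 583, .ofNat 0, .ofNat 126, .ofNat 117, .ofNat 0, .ofNat 0, .ofNat 703, .ofNat 2285, .ofNat 0, .ofNat 0, .ofNat 0, .ofNat 0, .ofNat 0, .ofNat 0, .ofNat 0, .ofNat 0, .ofNat 0, .ofNat 0, .ofNat 0, .ofNat 0, .ofNat 0, .ofNat 0, .ofNat 0, .ofNat 0⟩)
    (by decide +kernel)
theorem L01589 : Good (Phi V5.P V5.D (-1) (-1)) ⟨4, 11, 3, 0, 3, 7, 3, 4, 5, 3⟩ :=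
  leafX_sound T5.ok_mm T5.Ymm.bz_eq (w := 232) (c := ⟨⟨.negSucc 2498, .negSucc 207, .ofNat 255, .ofNat 458, .ofNat 391, .negSucc 46⟩, ⟨.ofNat 265, .ofNat 44, .ofNat 172, .negSucc 102, .negSucc 103, .ofNat 6⟩, ⟨.ofNat 1520, .ofNat 144, .negSucc 125, .negSucc 408, .negSucc 324, .negSucc 76⟩, ⟨.negSucc 4673, .negSucc 239, .ofNat 343, .ofNat 792, .ofNat 645, .negSucc 103⟩, ⟨.negSucc 1535, .negSucc 162, .ofNat 29, .ofNat 8, .negSucc 70, .negSucc 52⟩, .ofNat 500, .ofNat 377, .ofNat 0, .ofNat 377, .ofNat 1778, .ofNat 0, .ofNat 202, .negSucc 127, .negSucc 485, .ofNat 0, .ofNat 105, .ofNat 126, .ofNat 0, .ofNat 0, .ofNat 525, .ofNat 1502, .ofNat 0, .ofNat 0, .ofNat 0, .ofNat 0, .ofNat 0, .ofNat 0, .ofNat 6505091938643223657117574761283867602059264, .ofNat 0, .ofNat 0, .ofNat 0, .ofNat 10718045691382291750485722422814654861410304, .ofNat 0, .ofNat 0, .ofNat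 0, .ofNat 25048416211686906084350404361828910292271104, .ofNat 0⟩)
    (by decide +kernel)
theorem L01590 : Good (Phi V5.P V5.D (-1) (-1)) ⟨3, 5, 3, 0, 3, 7, 3, 5, 5, 3⟩ :=
  leafX_sound T5.ok_mm T5.Ymm.bz_eq (w := 228) (c := ⟨⟨.negSucc 2006, .negSucc 173, .ofNat 148, .ofNat 451, .ofNat 310, .ofNat 2⟩, ⟨.ofNat 154, .ofNat 41, .ofNat 170, .negSucc 106, .negSucc 53, .ofNat 2⟩, ⟨.ofNat 1105, .ofNat 68, .negSucc 38, .negSucc 332, .negSucc 258, .negSucc 93⟩, ⟨.negSucc 3962, .negSucc 112, .ofNat 176, .ofNat 780, .ofNat 570, .ofNat 5⟩, ⟨.negSucc 1615, .negSucc 234, .ofNat 87, .negSucc 80, .ofNat 152, .ofNat 113⟩, .ofNat 427, .ofNat 226, .ofNat 0, .ofNat 226, .ofNat 1349, .ofNat 0, .ofNat 321, .negSucc 124, .negSucc 585, .ofNat 0, .ofNat 128, .ofNat 131, .ofNat 0, .ofNat 0, .ofNat 648, .ofNat 1438, .ofNat 0, .ofNat 0, .ofNat 0, .ofNat 0, .ofNat 0, .ofNat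 0, .ofNat 44970003535451029011582405078915312955424768, .ofNat 0, .ofNat 0, .ofNat 0, .ofNat 0, .ofNat 0, .ofNat 0, .ofNat 0, .ofNat 132547566092951992740553245045001974792060928, .ofNat 0⟩)
    (by decide +kernel)
theorem L01591 : Good (Phi V5.P V5.D (-1) (-1)) ⟨4, 10, 3, 0, 3, 6, 3, 6, 5, 2⟩ :=
  leafX_sound T5.ok_mm T5.Ymm.bz_eq (w := 233) (c := ⟨⟨.negSucc 1593, .negSucc 336, .ofNat 310, .ofNat 375, .negSucc 63, .negSucc 413⟩, ⟨.ofNat 81, .ofNat 87, .ofNat 122, .negSucc 81, .ofNat 29, .ofNat 86⟩, ⟨.ofNat 918, .ofNat 229, .negSucc 186, .negSucc 313, .ofNat 0, .ofNat 197⟩, ⟨.negSucc 3213, .negSucc 470, .ofNat 476, .ofNat 658, .negSucc 80, .negSucc 738⟩, ⟨.negSucc 1289, .negSucc 0, .negSucc 8, .negSucc 298, .ofNat 281, .ofNat 167⟩, .ofNat 432, .ofNat 218, .ofNat 0, .ofNat 218, .ofNat 1486, .ofNat 0, .ofNat 683, .negSucc 111, .negSucc 1472, .ofNat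 0, .ofNat 128, .ofNat 286, .ofNat 0, .ofNat 0, .ofNat 1483, .ofNat 2442, .ofNat 0, .ofNat 0, .ofNat 0, .ofNat 0, .ofNat 0, .ofNat 0, .ofNat 0, .ofNat 0, .ofNat 0, .ofNat 0, .ofNat 0, .ofNat 0, .ofNat 0, .ofNat 0, .ofNat 0, .ofNat 0⟩)
    (by decide +kernel)
theorem L01592 : Good (Phi V5.P V5.D (-1) (-1)) ⟨4, 10, 3, 0, 3, 7, 3, 6, 5, 2⟩ :=
  leafX_sound T5.ok_mm T5.Ymm.bz_eq (w := 233) (c := ⟨⟨.negSucc 1409, .negSucc 124, .ofNat 129, .ofNat 156, .ofNat 88, .negSucc 71⟩, ⟨.ofNat 54, .ofNat 28, .ofNat 146, .negSucc 37, .ofNat 0, .ofNat 15⟩, ⟨.ofNat 752, .ofNat 53, .negSucc 1, .negSucc 123, .negSucc 127, .negSucc 67⟩, ⟨.negSucc 2859, .negSucc 136, .ofNat 151, .ofNat 252, .ofNat 176, .negSucc 132⟩, ⟨.negSucc 1501, .negSucc 46, .ofNat 110, .negSucc 215, .ofNat 180, .ofNat 76⟩, .ofNat 434, .ofNat 218, .ofNat 0, .ofNat 218, .ofNat 1538, .ofNat 0, .ofNat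 566, .negSucc 106, .negSucc 1122, .ofNat 0, .ofNat 128, .ofNat 207, .ofNat 0, .ofNat 0, .ofNat 1136, .ofNat 2129, .ofNat 0, .ofNat 0, .ofNat 0, .ofNat 0, .ofNat 0, .ofNat 0, .ofNat 0, .ofNat 0, .ofNat 0, .ofNat 0, .ofNat 0, .ofNat 0, .ofNat 0, .ofNat 0, .ofNat 0, .ofNat 0⟩)
    (by decide +kernel)
theorem L01593 : Good (Phi V5.P V5.D (-1) (-1)) ⟨4, 10, 3, 0, 2, 3, 3, 7, 5, 2⟩ :=
  leafX_sound T5.ok_mm T5.Ymm.bz_eq (w := 219) (c := ⟨⟨.negSucc 1894, .negSucc 48, .ofNat 99, .ofNat 845, .ofNat 309, .negSucc 50⟩, ⟨.ofNat 167, .ofNat 33, .ofNat 140, .negSucc 182, .negSucc 16, .ofNat 26⟩, ⟨.ofNat 1094, .negSucc 27, .negSucc 1, .negSucc 657, .negSucc 324, .negSucc 69⟩, ⟨.negSucc 3716, .negSucc 12, .ofNat 134, .ofNat 1506, .ofNat 662, .negSucc 70⟩, ⟨.negSucc 1072, .negSucc 176, .ofNat 29, .negSucc 413, .ofNat 591, .ofNat 294⟩, .ofNat 433, .ofNat 221, .ofNat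 0, .ofNat 221, .ofNat 1516, .ofNat 0, .ofNat 520, .negSucc 94, .negSucc 1022, .ofNat 0, .ofNat 128, .ofNat 192, .ofNat 0, .ofNat 0, .ofNat 1011, .ofNat 1136, .ofNat 0, .ofNat 0, .ofNat 0, .ofNat 0, .ofNat 0, .ofNat 27295258998167015932465785322400546906177536, .ofNat 0, .ofNat 0, .ofNat 0, .ofNat 10149296317931848450666056388381797745950720, .ofNat 0, .ofNat 0, .ofNat 0, .ofNat 0, .ofNat 0, .ofNat 0⟩)
    (by decide +kernel)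
theorem L01594 : Good (Phi V5.P V5.D (-1) (-1)) ⟨4, 10, 3, 0, 3, 6, 2, 3, 5, 3⟩ :=
  leafX_sound T5.ok_mm T5.Ymm.bz_eq (w := 228) (c := ⟨⟨.negSucc 2198, .negSucc 266, .ofNat 189, .ofNat 511, .ofNat 573, .negSucc 34⟩, ⟨.ofNat 191, .ofNat 100, .ofNat 143, .negSucc 113, .negSucc 41, .ofNat 23⟩, ⟨.ofNat 1282, .ofNat 164, .negSucc 114, .negSucc 425, .negSucc 539, .negSucc 68⟩, ⟨.negSucc 4330, .negSucc 313, .ofNat 278, .ofNat 889, .ofNat 1215, .negSucc 33⟩, ⟨.negSucc 1095, .negSucc 27, .negSucc 59, .negSucc 330, .ofNat 935, .ofNat 209⟩, .ofNat 435, .ofNat 224, .ofNat 0, .ofNat 224, .ofNat 1532, .ofNat 0, .ofNat 296, .negSucc 121, .negSucc 456, .ofNat 0, .ofNat 128, .ofNat 90, .ofNat 0, .ofNat 0, .ofNat 519, .ofNat 648, .ofNat 0, .ofNat 0, .ofNat 0, .ofNat 0, .ofNat 0, .ofNat 7323310776305242131041607349787885662522834944, .ofNat 0, .ofNat 0, .ofNat 0,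 .ofNat 0, .ofNat 0, .ofNat 0, .ofNat 0, .ofNat 0, .ofNat 0, .ofNat 0⟩)
    (by decide +kernel)
theorem L01595 : Good (Phi V5.P V5.D (-1) (-1)) ⟨4, 10, 3, 0, 3, 7, 2, 3, 5, 3⟩ :=
  leafX_sound T5.ok_mm T5.Ymm.bz_eq (w := 228) (c := ⟨⟨.negSucc 1723, .ofNat 4, .ofNat 39, .ofNat 411, .ofNat 674, .ofNat 61⟩, ⟨.ofNat 109, .ofNat 10, .ofNat 156, .negSucc 78, .negSucc 38, .ofNat 3⟩, ⟨.ofNat 845, .negSucc 35, .ofNat 26, .negSucc 250, .negSucc 553, .negSucc 108⟩, ⟨.negSucc 3463, .ofNat 95, .ofNat 4, .ofNat 728, .ofNat 1410, .ofNat 150⟩, ⟨.negSucc 1461, .negSucc 133, .ofNat 56, .negSucc 156, .ofNat 1008, .ofNat 247⟩, .ofNat 433, .ofNat 221, .ofNat 0, .ofNat 221, .ofNat 1516, .ofNat 0, .ofNat 503, .negSucc 115, .negSucc 375, .ofNat 0, .ofNat 128, .ofNat 74, .ofNat 0, .ofNat 0, .ofNat 456, .ofNat 627, .ofNat 0, .ofNat 0, .ofNat 0, .ofNat 0, .ofNat 0, .ofNat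 0, .ofNat 0, .ofNat 0, .ofNat 0, .ofNat 6500520369635400117833400683836546463939166208, .ofNat 0, .ofNat 0, .ofNat 0, .ofNat 0, .ofNat 0, .ofNat 0⟩)
    (by decide +kernel)
theorem L01596 : Good (Phi V5.P V5.D (-1) (-1)) ⟨5, 22, 3, 0, 3, 6, 3, 6, 5, 2⟩ :=
  leafX_sound T5.ok_mm T5.Ymm.bz_eq (w := 238) (c := ⟨⟨.negSucc 2097, .negSucc 433, .ofNat 543, .ofNat 731, .negSucc 150, .negSucc 533⟩, ⟨.ofNat 205, .ofNat 107, .ofNat 84, .negSucc 191, .ofNat 61, .ofNat 128⟩, ⟨.ofNat 1315, .ofNat 320, .negSucc 386, .negSucc 622, .ofNat 72, .ofNat 279⟩, ⟨.negSucc 3930, .negSucc 688, .ofNat 853, .ofNat 1205, .negSucc 220, .negSucc 913⟩, ⟨.negSucc 1207, .ofNat 33, .negSucc 150, .negSucc 381, .ofNat 277, .ofNat 182⟩, .ofNat 425, .ofNat 233, .ofNat 0, .ofNat 233, .ofNat 1270, .ofNat 0, .ofNat 332, .negSucc 117, .negSucc 1643, .ofNat 0, .ofNat 128, .ofNat 383, .ofNat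 0, .ofNat 0, .ofNat 1541, .ofNat 2157, .ofNat 0, .ofNat 0, .ofNat 0, .ofNat 0, .ofNat 0, .ofNat 0, .ofNat 0, .ofNat 0, .ofNat 0, .ofNat 0, .ofNat 0, .ofNat 0, .ofNat 0, .ofNat 0, .ofNat 40459962577501379186556906952512448124420096, .ofNat 0⟩)
    (by decide +kernel)
theorem L01597 : Good (Phi V5.P V5.D (-1) (-1)) ⟨5, 23, 3, 0, 3, 6, 3, 6, 5, 2⟩ :=
  leafX_sound T5.ok_mm T5.Ymm.bz_eq (w := 238) (c := ⟨⟨.negSucc 2903, .negSucc 492, .ofNat 707, .ofNat 1092, .negSucc 24, .negSucc 462⟩, ⟨.ofNat 419, .ofNat 140, .ofNat 40, .negSucc 324, .ofNat 34, .ofNat 132⟩, ⟨.ofNat 1977, .ofNat 373, .negSucc 540, .negSucc 927, .negSucc 40, .ofNat 205⟩, ⟨.negSucc 5200, .negSucc 748, .ofNat 1098, .ofNat 1741, .ofNat 5, .negSucc 758⟩, ⟨.negSucc 1109, .negSucc 82, .negSucc 108, .negSucc 395, .ofNat 188, .ofNat 101⟩, .ofNat 544, .ofNat 468, .ofNat 0, .ofNat 468, .ofNat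 1985, .ofNat 0, .ofNat 242, .negSucc 127, .negSucc 1253, .ofNat 0, .ofNat 115, .ofNat 334, .ofNat 0, .ofNat 0, .ofNat 1150, .ofNat 1513, .ofNat 0, .ofNat 0, .ofNat 203674542887551920905515796351621271650304, .ofNat 0, .ofNat 0, .ofNat 0, .ofNat 3169972206666013851326227325115678091902976, .ofNat 0, .ofNat 0, .ofNat 0, .ofNat 16384401453032906801579485600331156363935744, .ofNat 0, .ofNat 0, .ofNat 0, .ofNat 26651055714657075140990887277398562344796160, .ofNat 0⟩)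
    (by decide +kernel)
theorem L01598 : Good (Phi V5.P V5.D (-1) (-1)) ⟨4, 11, 3, 0, 3, 6, 3, 7, 5, 2⟩ :=
  leafX_sound T5.ok_mm T5.Ymm.bz_eq (w := 233) (c := ⟨⟨.negSucc 2757, .negSucc 517, .ofNat 473, .ofNat 1037, .ofNat 572, .negSucc 61⟩, ⟨.ofNat 395, .ofNat 158, .ofNat 80, .negSucc 285, .negSucc 92, .ofNat 44⟩, ⟨.ofNat 1828, .ofNat 351, .negSucc 342, .negSucc 905, .negSucc 554, .negSucc 88⟩, ⟨.negSucc 5032, .negSucc 760, .ofNat 747, .ofNat 1700, .ofNat 1064, .negSucc 31⟩, ⟨.negSucc 961, .negSucc 220, .negSucc 95, .negSucc 273, .ofNat 424, .ofNat 292⟩, .ofNat 500, .ofNat 377, .ofNat 0, .ofNat 377, .ofNat 1778, .ofNat 0, .ofNat 293, .negSucc 123, .negSucc 1060, .ofNat 0, .ofNat 128, .ofNat 261, .ofNat 0, .ofNat 0, .ofNat 1000, .ofNat 774, .ofNat 0, .ofNat 0, .ofNat 373155468622859737459548891497827733078016, .ofNat 0, .ofNat 0, .ofNat 35631632765621590174635754539339217132597542912,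 .ofNat 7115385397058580089218433385008166411960320, .ofNat 0, .ofNat 0, .ofNat 0, .ofNat 0, .ofNat 0, .ofNat 0, .ofNat 0, .ofNat 61204298486716270332210861135189648655515648, .ofNat 0⟩)
    (by decide +kernel)
theorem L01599 : Good (Phi V5.P V5.D (-1) (-1)) ⟨4, 11, 3, 0, 4, 14, 3, 6, 5, 2⟩ :=
  leafX_sound T5.ok_mm T5.Ymm.bz_eq (w := 247) (c := ⟨⟨.negSucc 1742, .negSucc 132, .ofNat 202, .ofNat 379, .ofNat 146, .negSucc 122⟩, ⟨.ofNat 125, .ofNat 7, .ofNat 143, .negSucc 100, .negSucc 9, .ofNat 35⟩, ⟨.ofNat 984, .ofNat 45, .negSucc 69, .negSucc 269, .negSucc 192, .negSucc 43⟩, ⟨.negSucc 3354, .negSucc 165, .ofNat 257, .ofNat 630, .ofNat 299, .negSucc 197⟩, ⟨.negSucc 1593, .negSucc 130, .ofNat 17, .negSucc 89, .ofNat 229, .ofNat 129⟩, .ofNat 479, .ofNat 346, .ofNat 0, .ofNat 346, .ofNat 1580, .ofNat 0, .ofNat 343, .negSucc 127, .negSucc 1184, .ofNat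 0, .ofNat 109, .ofNat 301, .ofNat 0, .ofNat 0, .ofNat 1081, .ofNat 2422, .ofNat 0, .ofNat 0, .ofNat 0, .ofNat 0, .ofNat 0, .ofNat 0, .ofNat 251079497093095208014632407128569819990734143488, .ofNat 0, .ofNat 0, .ofNat 0, .ofNat 160452914741465216392507898205998111413847982080, .ofNat 0, .ofNat 0, .ofNat 0, .ofNat 964139515581263849033810939155459420782503919616, .ofNat 0⟩)
    (by decide +kernel)
theorem L01600 : Good (Phi V5.P V5.D (-1) (-1)) ⟨4, 11, 3, 0, 4, 14, 3, 7, 5, 2⟩ :=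
  leafX_sound T5.ok_mm T5.Ymm.bz_eq (w := 247) (c := ⟨⟨.negSucc 1710, .ofNat 18, .ofNat 87, .ofNat 376, .ofNat 553, .ofNat 106⟩, ⟨.ofNat 143, .negSucc 21, .ofNat 140, .negSucc 98, .negSucc 61, .ofNat 10⟩, ⟨.ofNat 865, .negSucc 80, .ofNat 15, .negSucc 270, .negSucc 496, .negSucc 172⟩, ⟨.negSucc 3292, .ofNat 78, .ofNat 93, .ofNat 634, .ofNat 1082, .ofNat 250⟩, ⟨.negSucc 1443, .negSucc 165, .ofNat 68, .negSucc 97, .ofNat 593, .ofNat 260⟩, .ofNat 473, .ofNat 326, .ofNat 0, .ofNat 326, .ofNat 1566, .ofNat 0, .ofNat 357, .negSucc 127, .negSucc 660, .ofNat 0, .ofNat 126, .ofNat 161, .ofNat 0, .ofNat 0, .ofNat 618, .ofNat 1553, .ofNat 0, .ofNat 0, .ofNat 0, .ofNat 0, .ofNat 0, .ofNat 218359205366189938026841314289924157895794092933120, .ofNat 278747601195476783585313013208562637150678417408, .ofNat 0, .ofNat 0, .ofNat 126351370630154748354252696913454779517389678575616,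 .ofNat 66872600036974414308504562391650663480692834304, .ofNat 0, .ofNat 0, .ofNat 0, .ofNat 592734066128706558117314299703761433875372310528, .ofNat 0⟩)
    (by decide +kernel)
theorem L01601 : Good (Phi V5.P V5.D (-1) (-1)) ⟨4, 11, 3, 0, 4, 15, 3, 6, 5, 2⟩ :=
  leafX_sound T5.ok_mm T5.Ymm.bz_eq (w := 247) (c := ⟨⟨.negSucc 1512, .ofNat 4, .ofNat 88, .ofNat 125, .ofNat 301, .ofNat 45⟩, ⟨.ofNat 73, .negSucc 34, .ofNat 162, .negSucc 32, .negSucc 51, .negSucc 3⟩, ⟨.ofNat 785, .negSucc 37, .ofNat 28, .negSucc 90, .negSucc 283, .negSucc 140⟩, ⟨.negSucc 2971, .ofNat 67, .ofNat 59, .ofNat 207, .ofNat 556, .ofNat 94⟩, ⟨.negSucc 1741, .negSucc 64, .ofNat 112, .negSucc 23, .ofNat 197, .ofNat 89⟩, .ofNat 511, .ofNat 411, .ofNat 0, .ofNat 411, .ofNat 1858, .ofNat 0, .ofNat 395, .negSucc 127, .negSucc 629, .ofNat 0, .ofNat 105, .ofNat 156, .ofNat 0, .ofNat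 0, .ofNat 613, .ofNat 2637, .ofNat 0, .ofNat 0, .ofNat 0, .ofNat 0, .ofNat 0, .ofNat 0, .ofNat 454447562463747440690989608845295519190967386112, .ofNat 0, .ofNat 0, .ofNat 0, .ofNat 133936590519127911806804690026296487017533407232, .ofNat 0, .ofNat 0, .ofNat 0, .ofNat 0, .ofNat 0⟩)
    (by decide +kernel)
theorem L01602 : Good (Phi V5.P V5.D (-1) (-1)) ⟨4, 11, 3, 0, 4, 15, 3, 7, 5, 2⟩ :=
  leafX_sound T5.ok_mm T5.Ymm.bz_eq (w := 246) (c := ⟨⟨.negSucc 1386, .ofNat 205, .negSucc 43, .ofNat 193, .ofNat 536, .ofNat 235⟩, ⟨.ofNat 73, .negSucc 70, .ofNat 152, .negSucc 45, .negSucc 55, .negSucc 19⟩, ⟨.ofNat 591, .negSucc 169, .ofNat 103, .negSucc 103, .negSucc 459, .negSucc 219⟩, ⟨.negSucc 2755, .ofNat 386, .negSucc 123, .ofNat 328, .ofNat 1080, .ofNat 477⟩, ⟨.negSucc 1680, .negSucc 90, .ofNat 164, .negSucc 28, .ofNat 679, .ofNat 327⟩, .ofNat 424, .ofNat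 237, .ofNat 0, .ofNat 237, .ofNat 1219, .ofNat 0, .ofNat 547, .negSucc 104, .negSucc 370, .ofNat 0, .ofNat 128, .ofNat 84, .ofNat 0, .ofNat 0, .ofNat 357, .ofNat 1542, .ofNat 0, .ofNat 0, .ofNat 0, .ofNat 0, .ofNat 0, .ofNat 0, .ofNat 799707992071514514805479254645480687835306524672, .ofNat 0, .ofNat 0, .ofNat 170239909238197401183339392175413058095944994652160, .ofNat 168209733716868343302434053528769654597313626112, .ofNat 0, .ofNat 0, .ofNat 0, .ofNat 190683063108592843704089151946816854183873871872, .ofNat 0⟩)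
    (by decide +kernel)
theorem L01603 : Good (Phi V5.P V5.D (-1) (-1)) ⟨4, 11, 3, 0, 4, 12, 2, 3, 5, 3⟩ :=
  leafX_sound T5.ok_mm T5.Ymm.bz_eq (w := 242) (c := ⟨⟨.negSucc 2938, .negSucc 680, .ofNat 327, .ofNat 379, .ofNat 887, .ofNat 241⟩, ⟨.ofNat 392, .ofNat 242, .ofNat 130, .negSucc 100, .negSucc 124, .negSucc 35⟩, ⟨.ofNat 1886, .ofNat 494, .negSucc 253, .negSucc 349, .negSucc 817, .negSucc 305⟩, ⟨.negSucc 5417, .negSucc 925, .ofNat 480, .ofNat 626, .ofNat 1717, .ofNat 475⟩, ⟨.negSucc 1067, .negSucc 10, .negSucc 198, .negSucc 110, .ofNat 821, .ofNat 255⟩, .ofNat 478, .ofNat 344, .ofNat 0, .ofNat 344, .ofNat 1595, .ofNat 0, .ofNat 202, .negSucc 127, .negSucc 546, .ofNat 0, .ofNat 107, .ofNat 143, .ofNat 0, .ofNat 0, .ofNat 566, .ofNat 465, .ofNat 0, .ofNat 0, .ofNat 333422057125659927576922324951661747686604800, .ofNat 0, .ofNat 0, .ofNat 14645877599013451495612961951163650822968447074304,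 .ofNat 6416593502383005132501990826383350527290245120, .ofNat 0, .ofNat 0, .ofNat 0, .ofNat 0, .ofNat 0, .ofNat 0, .ofNat 0, .ofNat 20887585908073703979238330783245906030647836672, .ofNat 0⟩)
    (by decide +kernel)
theorem L01604 : Good (Phi V5.P V5.D (-1) (-1)) ⟨4, 11, 3, 0, 4, 13, 2, 3, 5, 3⟩ :=
  leafX_sound T5.ok_mm T5.Ymm.bz_eq (w := 242) (c := ⟨⟨.negSucc 2524, .negSucc 285, .ofNat 253, .ofNat 503, .ofNat 910, .ofNat 146⟩, ⟨.ofNat 311, .ofNat 89, .ofNat 129, .negSucc 134, .negSucc 120, .negSucc 12⟩, ⟨.ofNat 1480, .ofNat 168, .negSucc 162, .negSucc 388, .negSucc 822, .negSucc 211⟩, ⟨.negSucc 4699, .negSucc 362, .ofNat 360, .ofNat 826, .ofNat 1745, .ofNat 304⟩, ⟨.negSucc 1253, .negSucc 135, .negSucc 76, .negSucc 206, .ofNat 819, .ofNat 250⟩, .ofNat 420, .ofNat 225, .ofNat 0, .ofNat 225, .ofNat 1181, .ofNat 0, .ofNat 302, .negSucc 114, .negSucc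 455, .ofNat 0, .ofNat 128, .ofNat 114, .ofNat 0, .ofNat 0, .ofNat 456, .ofNat 438, .ofNat 0, .ofNat 0, .ofNat 109927292107052472967205636150958337833304064, .ofNat 0, .ofNat 0, .ofNat 24867215728303584911873268781476947266080029540352, .ofNat 7959208889437106626162981132574089311399444480, .ofNat 0, .ofNat 0, .ofNat 0, .ofNat 0, .ofNat 0, .ofNat 0, .ofNat 1325091656945293853245904906970185893941497298944, .ofNat 22353706129314869584919914248154321969697783808, .ofNat 0⟩)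
    (by decide +kernel)
theorem L01605 : Good (Phi V5.P V5.D (-1) (-1)) ⟨4, 11, 3, 0, 3, 7, 2, 3, 5, 3⟩ :=
  leafX_sound T5.ok_mm T5.Ymm.bz_eq (w := 228) (c := ⟨⟨.negSucc 1949, .ofNat 63, .ofNat 62, .ofNat 629, .ofNat 857, .ofNat 144⟩, ⟨.ofNat 177, .negSucc 44, .ofNat 163, .negSucc 154, .negSucc 82, .negSucc 4⟩, ⟨.ofNat 953, .negSucc 88, .ofNat 25, .negSucc 375, .negSucc 670, .negSucc 161⟩, ⟨.negSucc 3755, .ofNat 157, .ofNat 58, .ofNat 1065, .ofNat 1740, .ofNat 313⟩, ⟨.negSucc 1686, .negSucc 134, .ofNat 140, .negSucc 128, .ofNat 1141, .ofNat 256⟩, .ofNat 476, .ofNat 336, .ofNat 0, .ofNat 336, .ofNat 1582, .ofNat 0, .ofNat 304, .negSucc 127, .negSucc 396, .ofNat 0, .ofNat 111, .ofNat 101, .ofNat 0, .ofNat 0, .ofNat 449, .ofNat 465, .ofNat 0, .ofNat 0, .ofNat 0, .ofNat 0, .ofNat 0, .ofNat 7101953280523826292952977268651121295344271360, .ofNat 651409896242773905455889918840950143057920,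 .ofNat 0, .ofNat 0, .ofNat 3202901460869399993370683029313335244814811136, .ofNat 23138935122272629511690238838062700298240, .ofNat 0, .ofNat 0, .ofNat 0, .ofNat 1372727861167883502940617124615918146551808, .ofNat 0⟩)
    (by decide +kernel)
theorem L01606 : Good (Phi V5.P V5.D (-1) (-1)) ⟨4, 10, 3, 0, 3, 6, 3, 4, 5, 4⟩ :=
  leafX_sound T5.ok_mm T5.Ymm.bz_eq (w := 234) (c := ⟨⟨.negSucc 2593, .negSucc 385, .ofNat 210, .ofNat 465, .ofNat 236, .ofNat 45⟩, ⟨.ofNat 223, .ofNat 131, .ofNat 194, .negSucc 105, .negSucc 31, .negSucc 3⟩, ⟨.ofNat 1563, .ofNat 283, .negSucc 166, .negSucc 380, .negSucc 230, .negSucc 78⟩, ⟨.negSucc 5074, .negSucc 472, .ofNat 286, .ofNat 800, .ofNat 446, .ofNat 92⟩, ⟨.negSucc 1124, .negSucc 19, .negSucc 48, .negSucc 348, .ofNat 60, .ofNat 78⟩, .ofNat 432, .ofNat 219, .ofNat 0, .ofNat 219, .ofNat 1498, .ofNat 0, .ofNat 379, .negSucc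 127, .negSucc 572, .ofNat 0, .ofNat 115, .ofNat 127, .ofNat 0, .ofNat 0, .ofNat 840, .ofNat 4630, .ofNat 0, .ofNat 0, .ofNat 0, .ofNat 0, .ofNat 0, .ofNat 0, .ofNat 0, .ofNat 0, .ofNat 0, .ofNat 0, .ofNat 0, .ofNat 0, .ofNat 0, .ofNat 0, .ofNat 0, .ofNat 0⟩)
    (by decide +kernel)
theorem L01607 : Good (Phi V5.P V5.D (-1) (-1)) ⟨4, 10, 3, 0, 3, 7, 3, 4, 5, 4⟩ :=
  leafX_sound T5.ok_mm T5.Ymm.bz_eq (w := 232) (c := ⟨⟨.negSucc 2226, .negSucc 98, .ofNat 104, .ofNat 373, .ofNat 297, .ofNat 141⟩, ⟨.ofNat 164, .ofNat 42, .ofNat 192, .negSucc 67, .negSucc 48, .negSucc 18⟩, ⟨.ofNat 1230, .ofNat 49, .negSucc 43, .negSucc 322, .negSucc 246, .negSucc 145⟩, ⟨.negSucc 4423, .negSucc 40, .ofNat 96, .ofNat 687, .ofNat 553, .ofNat 271⟩, ⟨.negSucc 1487, .negSucc 124, .ofNat 63, .negSucc 72, .ofNat 29, .ofNat 68⟩, .ofNat 435, .ofNat 227, .ofNat 0, .ofNat 227, .ofNat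 1529, .ofNat 0, .ofNat 331, .negSucc 127, .negSucc 268, .ofNat 0, .ofNat 128, .ofNat 57, .ofNat 0, .ofNat 0, .ofNat 426, .ofNat 1717, .ofNat 0, .ofNat 0, .ofNat 0, .ofNat 0, .ofNat 0, .ofNat 0, .ofNat 0, .ofNat 0, .ofNat 0, .ofNat 0, .ofNat 0, .ofNat 0, .ofNat 0, .ofNat 0, .ofNat 0, .ofNat 0⟩)
    (by decide +kernel)
theorem L01608 : Good (Phi V5.P V5.D (-1) (-1)) ⟨4, 10, 3, 0, 2, 3, 3, 5, 5, 4⟩ :=
  leafX_sound T5.ok_mm T5.Ymm.bz_eq (w := 219) (c := ⟨⟨.negSucc 2472, .negSucc 54, .ofNat 47, .ofNat 972, .ofNat 277, .ofNat 151⟩, ⟨.ofNat 225, .ofNat 48, .ofNat 188, .negSucc 193, .negSucc 33, .negSucc 10⟩, ⟨.ofNat 1409, .negSucc 3, .negSucc 15, .negSucc 729, .negSucc 231, .negSucc 160⟩, ⟨.negSucc 4844, .ofNat 31, .ofNat 23, .ofNat 1739, .ofNat 551, .ofNat 311⟩, ⟨.negSucc 1203, .negSucc 79, .ofNat 38, .negSucc 478, .ofNat 272, .ofNat 227⟩, .ofNat 437,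 .ofNat 228, .ofNat 0, .ofNat 228, .ofNat 1563, .ofNat 0, .ofNat 492, .negSucc 127, .negSucc 406, .ofNat 0, .ofNat 124, .ofNat 85, .ofNat 0, .ofNat 0, .ofNat 640, .ofNat 1549, .ofNat 0, .ofNat 0, .ofNat 0, .ofNat 0, .ofNat 0, .ofNat 0, .ofNat 0, .ofNat 0, .ofNat 0, .ofNat 0, .ofNat 0, .ofNat 0, .ofNat 0, .ofNat 0, .ofNat 0, .ofNat 0⟩)
    (by decide +kernel)
theorem L01609 : Good (Phi V5.P V5.D (-1) (-1)) ⟨4, 11, 3, 0, 2, 3, 3, 4, 5, 4⟩ :=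
  leafX_sound T5.ok_mm T5.Ymm.bz_eq (w := 219) (c := ⟨⟨.negSucc 3328, .negSucc 212, .ofNat 227, .ofNat 1333, .ofNat 353, .ofNat 218⟩, ⟨.ofNat 487, .ofNat 78, .ofNat 177, .negSucc 372, .negSucc 79, .negSucc 36⟩, ⟨.ofNat 2111, .ofNat 96, .negSucc 129, .negSucc 1081, .negSucc 312, .negSucc 216⟩, ⟨.negSucc 6052, .negSucc 269, .ofNat 330, .ofNat 2188, .ofNat 614, .ofNat 406⟩, ⟨.negSucc 1214, .negSucc 193, .ofNat 50, .negSucc 524, .ofNat 94, .ofNat 137⟩, .ofNat 420, .ofNat 225, .ofNat 0, .ofNat 225, .ofNat 1181, .ofNat 0, .ofNat 234, .negSucc 127, .negSucc 361, .ofNat 0, .ofNat 121, .ofNat 101, .ofNat 0, .ofNat 0, .ofNat 460, .ofNat 1111, .ofNat 0, .ofNat 0, .ofNat 0, .ofNat 0, .ofNat 0, .ofNat 0, .ofNat 914354610583431561015712618729321791488, .ofNat 0, .ofNat 0, .ofNat 0, .ofNat 404671096126374979182377795645152952320, .ofNat 0, .ofNat 0, .ofNat 0,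 .ofNat 2021807304380945291570948179758799650816, .ofNat 0⟩)
    (by decide +kernel)
theorem L01610 : Good (Phi V5.P V5.D (-1) (-1)) ⟨4, 11, 3, 0, 3, 6, 3, 5, 5, 4⟩ :=
  leafX_sound T5.ok_mm T5.Ymm.bz_eq (w := 233) (c := ⟨⟨.negSucc 3087, .negSucc 402, .ofNat 211, .ofNat 858, .ofNat 368, .ofNat 333⟩, ⟨.ofNat 431, .ofNat 158, .ofNat 168, .negSucc 247, .negSucc 68, .negSucc 50⟩, ⟨.ofNat 1925, .ofNat 265, .negSucc 163, .negSucc 726, .negSucc 330, .negSucc 328⟩, ⟨.negSucc 5653, .negSucc 465, .ofNat 276, .ofNat 1384, .ofNat 680, .ofNat 622⟩, ⟨.negSucc 1070, .negSucc 51, .negSucc 69, .negSucc 378, .ofNat 217, .ofNat 147⟩, .ofNat 426, .ofNat 243, .ofNat 0, .ofNat 243, .ofNat 1228, .ofNat 0, .ofNat 186, .negSucc 127, .negSucc 303, .ofNat 0, .ofNat 114, .ofNat 84, .ofNat 0, .ofNat 0, .ofNat 384, .ofNat 1294, .ofNat 0, .ofNat 0, .ofNat 0, .ofNat 0, .ofNat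 0, .ofNat 0, .ofNat 8440949086463412207012895821823519617974272, .ofNat 0, .ofNat 0, .ofNat 0, .ofNat 0, .ofNat 0, .ofNat 0, .ofNat 0, .ofNat 19583317992385305917208479057888155694792704, .ofNat 0⟩)
    (by decide +kernel)
theorem L01611 : Good (Phi V5.P V5.D (-1) (-1)) ⟨4, 11, 3, 0, 3, 7, 3, 5, 5, 4⟩ :=
  leafX_sound T5.ok_mm T5.Ymm.bz_eq (w := 233) (c := ⟨⟨.negSucc 2188, .ofNat 59, .ofNat 20, .ofNat 623, .ofNat 394, .ofNat 200⟩, ⟨.ofNat 205, .negSucc 24, .ofNat 190, .negSucc 152, .negSucc 57, .negSucc 17⟩, ⟨.ofNat 1097, .negSucc 76, .ofNat 27, .negSucc 395, .negSucc 297, .negSucc 187⟩, ⟨.negSucc 4170, .ofNat 180, .negSucc 35, .ofNat 1065, .ofNat 745, .ofNat 401⟩, ⟨.negSucc 1677, .negSucc 123, .ofNat 54, .negSucc 72, .ofNat 301, .ofNat 245⟩, .ofNat 425, .ofNat 239, .ofNat 0, .ofNat 239, .ofNat 1217, .ofNat 0, .ofNat 242, .negSucc 124, .negSucc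 343, .ofNat 0, .ofNat 128, .ofNat 92, .ofNat 0, .ofNat 0, .ofNat 497, .ofNat 1908, .ofNat 0, .ofNat 0, .ofNat 0, .ofNat 0, .ofNat 0, .ofNat 0, .ofNat 2933098244725095942589948078103701735079936, .ofNat 0, .ofNat 0, .ofNat 0, .ofNat 0, .ofNat 0, .ofNat 0, .ofNat 0, .ofNat 52592687088094947835203000671472105889464320, .ofNat 0⟩)
    (by decide +kernel)
theorem L01612 : Good (Phi V5.P V5.D (-1) (-1)) ⟨4, 10, 3, 0, 2, 3, 2, 3, 5, 4⟩ :=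
  leafX_sound T5.ok_mm T5.Ymm.bz_eq (w := 214) (c := ⟨⟨.negSucc 2260, .negSucc 72, .ofNat 23, .ofNat 1067, .ofNat 619, .ofNat 184⟩, ⟨.ofNat 224, .ofNat 48, .ofNat 164, .negSucc 206, .negSucc 18, .negSucc 25⟩, ⟨.ofNat 1203, .negSucc 2, .ofNat 5, .negSucc 737, .negSucc 510, .negSucc 182⟩, ⟨.negSucc 4422, .negSucc 1, .ofNat 6, .ofNat 1908, .ofNat 1405, .ofNat 385⟩, ⟨.negSucc 1013, .negSucc 106, .ofNat 83, .negSucc 399, .ofNat 1295, .ofNat 311⟩, .ofNat 433, .ofNat 219, .ofNat 0, .ofNat 219, .ofNat 1504, .ofNat 0, .ofNat 313, .negSucc 121, .negSucc 346, .ofNat 0, .ofNat 128, .ofNat 72, .ofNat 0, .ofNat 0, .ofNat 544, .ofNat 430, .ofNat 0, .ofNat 0, .ofNat 0, .ofNat 0, .ofNat 0, .ofNat 2623377367200371821948482321312760647909376, .ofNat 0, .ofNat 0, .ofNat 0, .ofNat 2299746124718563606580711421942332573876224, .ofNat 0, .ofNat 0, .ofNat 0, .ofNat 0,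 .ofNat 0, .ofNat 0⟩)
    (by decide +kernel)
theorem L01613 : Good (Phi V5.P V5.D (-1) (-1)) ⟨4, 11, 3, 0, 2, 3, 2, 3, 5, 4⟩ :=
  leafX_sound T5.ok_mm T5.Ymm.bz_eq (w := 213) (c := ⟨⟨.negSucc 2644, .negSucc 94, .ofNat 116, .ofNat 1514, .ofNat 746, .ofNat 225⟩, ⟨.ofNat 368, .ofNat 57, .ofNat 147, .negSucc 398, .negSucc 36, .negSucc 12⟩, ⟨.ofNat 1447, .negSucc 26, .negSucc 55, .negSucc 1030, .negSucc 622, .negSucc 188⟩, ⟨.negSucc 4882, .negSucc 53, .ofNat 145, .ofNat 2545, .ofNat 1652, .ofNat 491⟩, ⟨.negSucc 1069, .negSucc 160, .negSucc 8, .negSucc 381, .ofNat 1325, .ofNat 366⟩, .ofNat 420, .ofNat 225, .ofNat 0, .ofNat 225, .ofNat 1181, .ofNat 0, .ofNat 218, .negSucc 120, .negSucc 272, .ofNat 0, .ofNat 128, .ofNat 73, .ofNat 0, .ofNat 0, .ofNat 368, .ofNat 285, .ofNat 0, .ofNat 0, .ofNat 0, .ofNat 0, .ofNat 0, .ofNat 1238919523405947160446762553738510446100480,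 .ofNat 20909116014325394013201425508463542272, .ofNat 0, .ofNat 0, .ofNat 1390935729075820766279796687928228701011968, .ofNat 0, .ofNat 0, .ofNat 0, .ofNat 0, .ofNat 35821608867241751717938304290064957440, .ofNat 0⟩)
    (by decide +kernel)
theorem L01614 : Good (Phi V5.P V5.D (-1) (-1)) ⟨3, 5, 3, 0, 2, 3, 3, 4, 5, 5⟩ :=
  leafX_sound T5.ok_mm T5.Ymm.bz_eq (w := 214) (c := ⟨⟨.negSucc 2739, .negSucc 173, .ofNat 104, .ofNat 1051, .ofNat 287, .ofNat 212⟩, ⟨.ofNat 301, .ofNat 113, .ofNat 178, .negSucc 249, .negSucc 52, .negSucc 14⟩, ⟨.ofNat 1661, .ofNat 45, .negSucc 70, .negSucc 851, .negSucc 278, .negSucc 176⟩, ⟨.negSucc 5262, .ofNat 11, .ofNat 105, .ofNat 1796, .ofNat 536, .ofNat 440⟩, ⟨.negSucc 1291, .negSucc 137, .ofNat 54, .negSucc 243, .ofNat 233, .ofNat 155⟩, .ofNat 429, .ofNat 233, .ofNat 0, .ofNat 233, .ofNat 1346, .ofNat 0, .ofNat 186, .negSucc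 125, .negSucc 187, .ofNat 0, .ofNat 128, .ofNat 49, .ofNat 0, .ofNat 0, .ofNat 386, .ofNat 1024, .ofNat 0, .ofNat 0, .ofNat 0, .ofNat 0, .ofNat 0, .ofNat 0, .ofNat 1462609519850903442103485126066474844160, .ofNat 0, .ofNat 0, .ofNat 0, .ofNat 0, .ofNat 0, .ofNat 0, .ofNat 0, .ofNat 6523669688652294138218431922207901876224, .ofNat 0⟩)
    (by decide +kernel)
theorem L01615 : Good (Phi V5.P V5.D (-1) (-1)) ⟨3, 5, 3, 0, 2, 3, 3, 5, 5, 5⟩ :=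
  leafX_sound T5.ok_mm T5.Ymm.bz_eq (w := 214) (c := ⟨⟨.negSucc 2365, .negSucc 156, .ofNat 51, .ofNat 1021, .ofNat 268, .ofNat 213⟩, ⟨.ofNat 229, .ofNat 107, .ofNat 166, .negSucc 221, .negSucc 14, .negSucc 18⟩, ⟨.ofNat 1290, .negSucc 4, .negSucc 26, .negSucc 753, .negSucc 244, .negSucc 189⟩, ⟨.negSucc 4609, .ofNat 30, .ofNat 24, .ofNat 1787, .ofNat 569, .ofNat 435⟩, ⟨.negSucc 1191, .negSucc 181, .ofNat 50, .negSucc 185, .ofNat 401, .ofNat 270⟩, .ofNat 429, .ofNat 231, .ofNat 0, .ofNat 231, .ofNat 1348, .ofNat 0, .ofNat 228, .negSucc 123, .negSucc 166, .ofNat 0, .ofNat 128, .ofNat 42, .ofNat 0, .ofNat 0, .ofNat 367, .ofNat 704, .ofNat 0, .ofNat 0, .ofNat 0, .ofNat 0, .ofNat 0, .ofNat 0, .ofNat 2192875762383636496363033485586814992384, .ofNat 0, .ofNat 0, .ofNat 0, .ofNat 0, .ofNat 0, .ofNat 0, .ofNat 0, .ofNat 3692070067750619709845847331146307731456,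 .ofNat 0⟩)
    (by decide +kernel)
theorem L01616 : Good (Phi V5.P V5.D (-1) (-1)) ⟨3, 5, 3, 0, 2, 3, 2, 3, 5, 5⟩ :=
  leafX_sound T5.ok_mm T5.Ymm.bz_eq (w := 209) (c := ⟨⟨.negSucc 2131, .ofNat 47, .negSucc 41, .ofNat 1058, .ofNat 809, .ofNat 133⟩, ⟨.ofNat 244, .ofNat 74, .ofNat 158, .negSucc 233, .negSucc 69, .negSucc 5⟩, ⟨.ofNat 1030, .negSucc 137, .ofNat 38, .negSucc 656, .negSucc 693, .negSucc 146⟩, ⟨.negSucc 4123, .ofNat 351, .negSucc 101, .ofNat 1883, .ofNat 1659, .ofNat 327⟩, ⟨.negSucc 1029, .negSucc 97, .ofNat 56, .ofNat 94, .ofNat 1395, .ofNat 455⟩, .ofNat 429, .ofNat 234, .ofNat 0, .ofNat 234, .ofNat 1341, .ofNat 0, .ofNat 208, .negSucc 124, .negSucc 172, .ofNat 0, .ofNat 128, .ofNat 43, .ofNat 0, .ofNat 0, .ofNat 400, .ofNat 311, .ofNat 0, .ofNat 0, .ofNat 0, .ofNat 0, .ofNat 0, .ofNat 77496209032959901757409089324786435227648, .ofNat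 74691912579717602537739669413820366848, .ofNat 0, .ofNat 0, .ofNat 122640251174121826549205745165710041022464, .ofNat 0, .ofNat 0, .ofNat 0, .ofNat 84156894073534843133041894544416090095616, .ofNat 133607854807040809500386907389515792384, .ofNat 0⟩)
    (by decide +kernel)
theorem L01617 : Good (Phi V5.P V5.D (-1) (-1)) ⟨3, 5, 3, 0, 2, 3, 3, 4, 4, 3⟩ :=
  leafX_sound T5.ok_mm T5.Ymm.bz_eq (w := 208) (c := ⟨⟨.negSucc 2315, .negSucc 194, .ofNat 64, .ofNat 850, .ofNat 142, .ofNat 341⟩, ⟨.ofNat 206, .ofNat 140, .ofNat 174, .negSucc 186, .ofNat 16, .negSucc 38⟩, ⟨.ofNat 1354, .ofNat 41, .negSucc 57, .negSucc 752, .negSucc 200, .negSucc 314⟩, ⟨.negSucc 4539, .ofNat 14, .ofNat 41, .ofNat 1485, .ofNat 349, .ofNat 713⟩, ⟨.negSucc 1293, .negSucc 66, .ofNat 11, .negSucc 2, .ofNat 278, .ofNat 481⟩, .ofNat 430, .ofNat 234, .ofNat 0, .ofNat 234, .ofNat 1372,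 .ofNat 0, .ofNat 207, .negSucc 110, .negSucc 87, .ofNat 0, .ofNat 128, .ofNat 22, .ofNat 0, .ofNat 0, .ofNat 399, .ofNat 686, .ofNat 0, .ofNat 0, .ofNat 0, .ofNat 0, .ofNat 0, .ofNat 16447867540795835356596540155355526594560, .ofNat 72794665717061723486637895840308396032, .ofNat 0, .ofNat 0, .ofNat 0, .ofNat 0, .ofNat 0, .ofNat 0, .ofNat 23058706359445273406013311357047208411136, .ofNat 0, .ofNat 0⟩)
    (by decide +kernel)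
theorem L01618 : Good (Phi V5.P V5.D (-1) (-1)) ⟨4, 10, 3, 0, 2, 3, 3, 5, 4, 3⟩ :=
  leafX_sound T5.ok_mm T5.Ymm.bz_eq (w := 212) (c := ⟨⟨.negSucc 2095, .negSucc 29, .negSucc 10, .ofNat 805, .ofNat 271, .ofNat 313⟩, ⟨.ofNat 188, .ofNat 53, .ofNat 160, .negSucc 140, .negSucc 11, .negSucc 18⟩, ⟨.ofNat 1091, .negSucc 29, .negSucc 24, .negSucc 620, .negSucc 283, .negSucc 359⟩, ⟨.negSucc 4101, .ofNat 105, .negSucc 60, .ofNat 1485, .ofNat 550, .ofNat 658⟩, ⟨.negSucc 932, .negSucc 27, .ofNat 42, .negSucc 92, .ofNat 399, .ofNat 489⟩, .ofNat 434, .ofNat 220, .ofNat 0, .ofNat 220, .ofNat 1518, .ofNat 0, .ofNat 377, .negSucc 110, .negSucc 93, .ofNat 0, .ofNat 128, .ofNat 20, .ofNat 0, .ofNat 0, .ofNat 516, .ofNat 289, .ofNat 0, .ofNat 0, .ofNat 0, .ofNat 0, .ofNat 0, .ofNat 0, .ofNat 0, .ofNat 0, .ofNat 0, .ofNat 998334704519748312979087044044674455044096,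 .ofNat 0, .ofNat 0, .ofNat 0, .ofNat 1880928625466985930345908607629378182971392, .ofNat 0, .ofNat 0⟩)
    (by decide +kernel)
theorem L01619 : Good (Phi V5.P V5.D (-1) (-1)) ⟨4, 11, 3, 0, 2, 3, 3, 5, 4, 3⟩ :=
  leafX_sound T5.ok_mm T5.Ymm.bz_eq (w := 210) (c := ⟨⟨.negSucc 2191, .ofNat 29, .negSucc 18, .ofNat 966, .ofNat 268, .ofNat 292⟩, ⟨.ofNat 277, .ofNat 21, .ofNat 178, .negSucc 240, .negSucc 12, .negSucc 17⟩, ⟨.ofNat 1077, .negSucc 80, .ofNat 26, .negSucc 716, .negSucc 273, .negSucc 385⟩, ⟨.negSucc 4111, .ofNat 155, .negSucc 49, .ofNat 1692, .ofNat 575, .ofNat 665⟩, ⟨.negSucc 1059, .negSucc 126, .ofNat 96, .negSucc 138, .ofNat 499, .ofNat 547⟩, .ofNat 306, .ofNat 94, .ofNat 0, .ofNat 94, .ofNat 618, .ofNat 0, .ofNat 172, .negSucc 75, .negSucc 69, .ofNat 0, .ofNat 128, .ofNat 19, .ofNat 0, .ofNat 0, .ofNat 281, .ofNat 98, .ofNat 0, .ofNat 0,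 .ofNat 156640224646456801592002097589518336, .ofNat 0, .ofNat 0, .ofNat 0, .ofNat 0, .ofNat 0, .ofNat 0, .ofNat 0, .ofNat 0, .ofNat 0, .ofNat 0, .ofNat 405323378905966633309594897252448485769216, .ofNat 3431024752353054859535246520416731136, .ofNat 0⟩)
    (by decide +kernel)
theorem L01620 : Good (Phi V5.P V5.D (-1) (-1)) ⟨3, 5, 3, 0, 2, 3, 2, 3, 4, 3⟩ :=
  leafX_sound T5.ok_mm T5.Ymm.bz_eq (w := 203) (c := ⟨⟨.negSucc 1814, .ofNat 3, .negSucc 42, .ofNat 859, .ofNat 398, .ofNat 268⟩, ⟨.ofNat 177, .ofNat 100, .ofNat 132, .negSucc 142, .ofNat 93, .ofNat 11⟩, ⟨.ofNat 789, .negSucc 198, .ofNat 23, .negSucc 528, .negSucc 406, .negSucc 380⟩, ⟨.negSucc 3557, .ofNat 291, .negSucc 80, .ofNat 1615, .ofNat 1113, .ofNat 631⟩, ⟨.negSucc 549, .negSucc 200, .ofNat 24, .ofNat 108, .ofNat 1630, .ofNat 601⟩, .ofNat 309, .ofNat 84, .ofNat 0, .ofNat 84, .ofNat 645,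 .ofNat 0, .ofNat 249, .negSucc 71, .negSucc 101, .ofNat 0, .ofNat 128, .ofNat 24, .ofNat 0, .ofNat 0, .ofNat 396, .ofNat 197, .ofNat 0, .ofNat 0, .ofNat 0, .ofNat 0, .ofNat 0, .ofNat 18137801069343881149067119570177786642432, .ofNat 1920526271926083080519860500966670336, .ofNat 0, .ofNat 0, .ofNat 21868449230101363121931580798762464837632, .ofNat 644767688003337322745785642848878592, .ofNat 0, .ofNat 0, .ofNat 27083730724225934070536457234712220401664, .ofNat 3182122971586522064021258753231814656, .ofNat 0⟩)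
    (by decide +kernel)
theorem L01621 : Good (Phi V5.P V5.D (-1) (-1)) ⟨4, 10, 3, 1, 2, 2, 2, 2, 4, 0⟩ :=
  leafX_sound T5.ok_mm T5.Ymm.bz_eq (w := 208) (c := ⟨⟨.ofNat 1366, .ofNat 23, .ofNat 64, .ofNat 874, .negSucc 1028, .negSucc 2115⟩, ⟨.negSucc 346, .negSucc 21, .negSucc 34, .negSucc 234, .ofNat 265, .ofNat 514⟩, ⟨.negSucc 1204, .negSucc 138, .ofNat 135, .negSucc 376, .ofNat 649, .ofNat 1443⟩, ⟨.ofNat 2416, .negSucc 146, .ofNat 194, .ofNat 1650, .negSucc 1949, .negSucc 4057⟩, ⟨.negSucc 789, .negSucc 437, .ofNat 555, .ofNat 85, .ofNat 4, .negSucc 386⟩, .ofNat 483, .ofNat 399, .ofNat 0, .ofNat 399, .ofNat 1963, .ofNat 0, .ofNat 186, .negSucc 127, .negSucc 238, .ofNat 0, .ofNat 82, .ofNat 59, .ofNat 0, .ofNat 0, .ofNat 303, .ofNat 451, .ofNat 0, .ofNat 0, .ofNat 0, .ofNat 0, .ofNat 0, .ofNat 0, .ofNat 0, .ofNat 0, .ofNat 0, .ofNat 0, .ofNat 0,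 .ofNat 0, .ofNat 0, .ofNat 0, .ofNat 0, .ofNat 0⟩)
    (by decide +kernel)
theorem L01622 : Good (Phi V5.P V5.D (-1) (-1)) ⟨4, 11, 3, 1, 2, 2, 2, 2, 4, 0⟩ :=
  leafX_sound T5.ok_mm T5.Ymm.bz_eq (w := 208) (c := ⟨⟨.ofNat 1712, .ofNat 133, .ofNat 70, .ofNat 1415, .negSucc 1320, .negSucc 2962⟩, ⟨.negSucc 451, .negSucc 137, .negSucc 31, .negSucc 487, .ofNat 399, .ofNat 849⟩, ⟨.negSucc 1388, .negSucc 190, .ofNat 30, .negSucc 848, .ofNat 773, .ofNat 2104⟩, ⟨.ofNat 2783, .ofNat 125, .ofNat 76, .ofNat 2374, .negSucc 2320, .negSucc 5135⟩, ⟨.negSucc 1029, .negSucc 46, .ofNat 188, .negSucc 109, .negSucc 36, .negSucc 41⟩, .ofNat 476, .ofNat 390, .ofNat 0, .ofNat 390, .ofNat 1509, .ofNat 0, .ofNat 157, .negSucc 127, .negSucc 353, .ofNat 0, .ofNat 92, .ofNat 109, .ofNat 0, .ofNat 0, .ofNat 398, .ofNat 240, .ofNat 0, .ofNat 0, .ofNat 21559114405939996920281192510521344,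 .ofNat 0, .ofNat 0, .ofNat 0, .ofNat 0, .ofNat 0, .ofNat 0, .ofNat 0, .ofNat 0, .ofNat 0, .ofNat 0, .ofNat 0, .ofNat 1185915175258189064073765501488070656, .ofNat 0⟩)
    (by decide +kernel)
theorem L01623 : Good (Phi V5.P V5.D (-1) (-1)) ⟨4, 10, 3, 1, 2, 2, 2, 3, 4, 0⟩ :=
  leafX_sound T5.ok_mm T5.Ymm.bz_eq (w := 208) (c := ⟨⟨.ofNat 153, .negSucc 289, .ofNat 270, .ofNat 162, .negSucc 531, .negSucc 1150⟩, ⟨.negSucc 104, .ofNat 64, .ofNat 10, .negSucc 37, .ofNat 142, .ofNat 292⟩, ⟨.negSucc 327, .ofNat 211, .negSucc 172, .negSucc 20, .ofNat 324, .ofNat 783⟩, ⟨.ofNat 151, .negSucc 503, .ofNat 452, .ofNat 198, .negSucc 1022, .negSucc 2115⟩, ⟨.negSucc 860, .negSucc 5, .ofNat 153, .negSucc 216, .ofNat 110, .ofNat 71⟩, .ofNat 482, .ofNat 397, .ofNat 0, .ofNat 397, .ofNat 1942, .ofNat 0, .ofNat 217, .negSucc 127, .negSucc 602, .ofNat 0, .ofNat 92, .ofNat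 145, .ofNat 0, .ofNat 0, .ofNat 714, .ofNat 503, .ofNat 0, .ofNat 0, .ofNat 0, .ofNat 0, .ofNat 0, .ofNat 0, .ofNat 0, .ofNat 0, .ofNat 0, .ofNat 0, .ofNat 0, .ofNat 0, .ofNat 0, .ofNat 0, .ofNat 0, .ofNat 0⟩)
    (by decide +kernel)
theorem L01624 : Good (Phi V5.P V5.D (-1) (-1)) ⟨4, 11, 3, 1, 2, 2, 3, 6, 4, 0⟩ :=
  leafX_sound T5.ok_mm T5.Ymm.bz_eq (w := 212) (c := ⟨⟨.ofNat 78, .negSucc 219, .ofNat 189, .ofNat 904, .negSucc 695, .negSucc 2090⟩, ⟨.negSucc 141, .ofNat 57, .ofNat 63, .negSucc 299, .ofNat 218, .ofNat 633⟩, ⟨.negSucc 355, .ofNat 160, .negSucc 80, .negSucc 607, .ofNat 546, .ofNat 1553⟩, ⟨.negSucc 102, .negSucc 318, .ofNat 283, .ofNat 1432, .negSucc 1202, .negSucc 3598⟩, ⟨.negSucc 913, .negSucc 27, .ofNat 87, .negSucc 389, .ofNat 75, .ofNat 105⟩, .ofNat 470, .ofNat 375, .ofNat 0, .ofNat 375, .ofNat 1485, .ofNat 0, .ofNat 225, .negSucc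 127, .negSucc 675, .ofNat 0, .ofNat 102, .ofNat 201, .ofNat 0, .ofNat 0, .ofNat 737, .ofNat 358, .ofNat 0, .ofNat 0, .ofNat 0, .ofNat 0, .ofNat 0, .ofNat 0, .ofNat 0, .ofNat 0, .ofNat 0, .ofNat 0, .ofNat 0, .ofNat 0, .ofNat 0, .ofNat 0, .ofNat 0, .ofNat 0⟩)
    (by decide +kernel)
theorem L01625 : Good (Phi V5.P V5.D (-1) (-1)) ⟨4, 11, 3, 1, 2, 2, 3, 7, 4, 0⟩ :=
  leafX_sound T5.ok_mm T5.Ymm.bz_eq (w := 212) (c := ⟨⟨.negSucc 744, .negSucc 230, .ofNat 286, .negSucc 34, .ofNat 146, .negSucc 1058⟩, ⟨.ofNat 73, .ofNat 79, .ofNat 59, .negSucc 1, .negSucc 21, .ofNat 335⟩, ⟨.ofNat 417, .ofNat 137, .negSucc 196, .ofNat 95, .negSucc 203, .ofNat 654⟩, ⟨.negSucc 1527, .negSucc 340, .ofNat 457, .negSucc 163, .ofNat 299, .negSucc 1793⟩, ⟨.negSucc 799, .negSucc 142, .ofNat 43, .negSucc 317, .ofNat 199, .ofNat 133⟩, .ofNat 561, .ofNat 579, .ofNat 0, .ofNat 579,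 .ofNat 2132, .ofNat 0, .ofNat 154, .negSucc 127, .negSucc 639, .ofNat 0, .ofNat 88, .ofNat 193, .ofNat 0, .ofNat 0, .ofNat 701, .ofNat 341, .ofNat 0, .ofNat 0, .ofNat 0, .ofNat 0, .ofNat 0, .ofNat 0, .ofNat 0, .ofNat 0, .ofNat 0, .ofNat 0, .ofNat 0, .ofNat 0, .ofNat 0, .ofNat 0, .ofNat 53423133447880580553275370364647505920, .ofNat 0⟩)
    (by decide +kernel)
theorem L01626 : Good (Phi V5.P V5.D (-1) (-1)) ⟨4, 10, 3, 1, 3, 6, 2, 2, 4, 0⟩ :=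
  leafX_sound T5.ok_mm T5.Ymm.bz_eq (w := 223) (c := ⟨⟨.ofNat 2272, .ofNat 188, .negSucc 21, .negSucc 77, .negSucc 1255, .negSucc 1991⟩, ⟨.negSucc 547, .negSucc 88, .ofNat 12, .ofNat 25, .ofNat 306, .ofNat 459⟩, ⟨.negSucc 1471, .negSucc 186, .ofNat 157, .ofNat 302, .ofNat 733, .ofNat 1050⟩, ⟨.ofNat 4235, .ofNat 147, .negSucc 8, .negSucc 25, .negSucc 2442, .negSucc 3983⟩, ⟨.negSucc 315, .negSucc 342, .ofNat 324, .ofNat 391, .negSucc 318, .negSucc 1064⟩, .ofNat 484, .ofNat 404, .ofNat 0, .ofNat 404, .ofNat 1949, .ofNat 0, .ofNat 249, .negSucc 127, .negSucc 359, .ofNat 0, .ofNat 74, .ofNat 87, .ofNat 0, .ofNat 0, .ofNat 375, .ofNat 617, .ofNat 0, .ofNat 0, .ofNat 0, .ofNat 0, .ofNat 0, .ofNat 0, .ofNat 0, .ofNat 0, .ofNat 0, .ofNat 0, .ofNat 0, .ofNat 0, .ofNat 0, .ofNat 0, .ofNat 0, .ofNat 0⟩)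
    (by decide +kernel)
theorem L01627 : Good (Phi V5.P V5.D (-1) (-1)) ⟨4, 10, 3, 1, 3, 7, 2, 2, 4, 0⟩ :=
  leafX_sound T5.ok_mm T5.Ymm.bz_eq (w := 223) (c := ⟨⟨.ofNat 1783, .negSucc 41, .ofNat 113, .negSucc 839, .negSucc 981, .negSucc 1540⟩, ⟨.negSucc 390, .negSucc 40, .negSucc 38, .ofNat 223, .ofNat 213, .ofNat 343⟩, ⟨.negSucc 646, .ofNat 29, .negSucc 6, .ofNat 641, .ofNat 407, .ofNat 531⟩, ⟨.ofNat 3549, .negSucc 86, .ofNat 232, .negSucc 1512, .negSucc 2137, .negSucc 3245⟩, ⟨.ofNat 862, .negSucc 94, .ofNat 239, .ofNat 203, .negSucc 1140, .negSucc 1529⟩, .ofNat 481, .ofNat 395, .ofNat 0, .ofNat 395, .ofNat 1921, .ofNat 0, .ofNat 219, .negSucc 127, .negSucc 386, .ofNat 0, .ofNat 73, .ofNat 87, .ofNat 0, .ofNat 0, .ofNat 383, .ofNat 554, .ofNat 0, .ofNat 0, .ofNat 0, .ofNat 0, .ofNat 0, .ofNat 0, .ofNat 0, .ofNat 0, .ofNat 0, .ofNat 0, .ofNat 10355752856372941773322321150571641307136,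 .ofNat 0, .ofNat 0, .ofNat 0, .ofNat 0, .ofNat 0⟩)
    (by decide +kernel)
theorem L01628 : Good (Phi V5.P V5.D (-1) (-1)) ⟨4, 11, 3, 1, 3, 6, 2, 2, 5, 0⟩ :=
  leafX_sound T5.ok_mm T5.Ymm.bz_eq (w := 228) (c := ⟨⟨.ofNat 2966, .ofNat 686, .negSucc 310, .negSucc 249, .negSucc 1650, .negSucc 998⟩, ⟨.negSucc 855, .negSucc 300, .ofNat 51, .ofNat 167, .ofNat 446, .ofNat 275⟩, ⟨.negSucc 2029, .negSucc 556, .ofNat 381, .ofNat 566, .ofNat 911, .ofNat 545⟩, ⟨.ofNat 5144, .ofNat 940, .negSucc 490, .negSucc 198, .negSucc 3061, .negSucc 1952⟩, ⟨.negSucc 396, .ofNat 17, .ofNat 269, .ofNat 805, .negSucc 671, .negSucc 799⟩, .ofNat 471, .ofNat 377, .ofNat 0, .ofNat 377, .ofNat 1506, .ofNat 0, .ofNat 190, .negSucc 127, .negSucc 436, .ofNat 0, .ofNat 89, .ofNat 125, .ofNat 0, .ofNat 0, .ofNat 424, .ofNat 626, .ofNat 0, .ofNat 0, .ofNat 0, .ofNat 0, .ofNat 0, .ofNat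 0, .ofNat 0, .ofNat 0, .ofNat 0, .ofNat 0, .ofNat 0, .ofNat 0, .ofNat 0, .ofNat 0, .ofNat 590990290497263480076247239436046985854976, .ofNat 0⟩)
    (by decide +kernel)
theorem L01629 : Good (Phi V5.P V5.D (-1) (-1)) ⟨4, 11, 3, 1, 3, 6, 2, 2, 5, 1⟩ :=
  leafX_sound T5.ok_mm T5.Ymm.bz_eq (w := 228) (c := ⟨⟨.ofNat 1802, .ofNat 276, .negSucc 55, .ofNat 1, .negSucc 1561, .negSucc 1493⟩, ⟨.negSucc 641, .negSucc 143, .ofNat 100, .ofNat 32, .ofNat 474, .ofNat 420⟩, ⟨.negSucc 1365, .negSucc 243, .ofNat 153, .ofNat 235, .ofNat 964, .ofNat 946⟩, ⟨.ofNat 2817, .ofNat 351, .negSucc 97, .ofNat 112, .negSucc 2728, .negSucc 2690⟩, ⟨.negSucc 1160, .negSucc 172, .ofNat 237, .ofNat 310, .negSucc 120, .negSucc 355⟩, .ofNat 473, .ofNat 381, .ofNat 0, .ofNat 381, .ofNat 1502, .ofNat 0, .ofNat 133, .negSucc 127, .negSucc 413, .ofNat 0, .ofNat 82, .ofNat 120, .ofNat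 0, .ofNat 0, .ofNat 379, .ofNat 491, .ofNat 0, .ofNat 0, .ofNat 0, .ofNat 0, .ofNat 0, .ofNat 0, .ofNat 0, .ofNat 0, .ofNat 0, .ofNat 0, .ofNat 0, .ofNat 0, .ofNat 0, .ofNat 0, .ofNat 641804058562965198910984555650783956172800, .ofNat 0⟩)
    (by decide +kernel)
theorem L01630 : Good (Phi V5.P V5.D (-1) (-1)) ⟨4, 11, 3, 1, 3, 7, 3, 4, 4, 0⟩ :=
  leafX_sound T5.ok_mm T5.Ymm.bz_eq (w := 227) (c := ⟨⟨.ofNat 2392, .ofNat 308, .ofNat 80, .negSucc 1583, .negSucc 520, .negSucc 2104⟩, ⟨.negSucc 650, .negSucc 142, .ofNat 2, .ofNat 505, .ofNat 121, .ofNat 526⟩, ⟨.negSucc 1148, .negSucc 182, .ofNat 94, .ofNat 1255, .ofNat 248, .ofNat 870⟩, ⟨.ofNat 4455, .ofNat 372, .ofNat 194, .negSucc 2586, .negSucc 1009, .negSucc 4252⟩, ⟨.ofNat 674, .negSucc 83, .ofNat 269, .ofNat 512, .negSucc 361, .negSucc 1906⟩, .ofNat 478, .ofNat 396, .ofNat 0, .ofNat 396, .ofNat 1529,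 .ofNat 0, .ofNat 204, .negSucc 127, .negSucc 576, .ofNat 0, .ofNat 78, .ofNat 156, .ofNat 0, .ofNat 0, .ofNat 520, .ofNat 562, .ofNat 0, .ofNat 0, .ofNat 0, .ofNat 0, .ofNat 0, .ofNat 0, .ofNat 0, .ofNat 0, .ofNat 0, .ofNat 0, .ofNat 8140120501758085313706121304180955021312, .ofNat 0, .ofNat 0, .ofNat 0, .ofNat 0, .ofNat 0⟩)
    (by decide +kernel)
theorem L01631 : Good (Phi V5.P V5.D (-1) (-1)) ⟨4, 11, 3, 1, 3, 7, 3, 5, 4, 0⟩ :=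
  leafX_sound T5.ok_mm T5.Ymm.bz_eq (w := 226) (c := ⟨⟨.ofNat 1430, .ofNat 87, .ofNat 149, .negSucc 994, .negSucc 471, .negSucc 1614⟩, ⟨.negSucc 436, .negSucc 41, .ofNat 47, .ofNat 295, .ofNat 107, .ofNat 382⟩, ⟨.negSucc 586, .negSucc 52, .ofNat 52, .ofNat 782, .ofNat 169, .ofNat 572⟩, ⟨.ofNat 2567, .ofNat 126, .ofNat 215, .negSucc 1658, .negSucc 1016, .negSucc 3197⟩, ⟨.ofNat 170, .negSucc 27, .ofNat 64, .ofNat 149, .negSucc 614, .negSucc 1320⟩, .ofNat 554, .ofNat 562, .ofNat 0, .ofNat 562, .ofNat 2096, .ofNat 0, .ofNat 160, .negSucc 127, .negSucc 443, .ofNat 0, .ofNat 70, .ofNat 125, .ofNat 0, .ofNat 0, .ofNat 401, .ofNat 437, .ofNat 0, .ofNat 0, .ofNat 0, .ofNat 0, .ofNat 0, .ofNat 0, .ofNat 0, .ofNat 0, .ofNat 0, .ofNat 0, .ofNat 0, .ofNat 0, .ofNat 0, .ofNat 0, .ofNat 431503463365487278800031267770636282363904, .ofNat 0⟩)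
    (by decide +kernel)
theorem L01632 : Good (Phi V5.P V5.D (-1) (-1)) ⟨4, 10, 3, 1, 3, 6, 3, 6, 4, 0⟩ :=
  leafX_sound T5.ok_mm T5.Ymm.bz_eq (w := 226) (c := ⟨⟨.ofNat 628, .ofNat 120, .ofNat 10, .negSucc 77, .negSucc 686, .negSucc 1432⟩, ⟨.negSucc 212, .negSucc 51, .ofNat 74, .ofNat 20, .ofNat 175, .ofNat 347⟩, ⟨.negSucc 416, .negSucc 126, .ofNat 112, .ofNat 192, .ofNat 432, .ofNat 725⟩, ⟨.ofNat 1008, .ofNat 187, .ofNat 2, .negSucc 123, .negSucc 1319, .negSucc 2775⟩, ⟨.negSucc 700, .negSucc 64, .ofNat 166, .ofNat 8, .negSucc 147, .negSucc 520⟩, .ofNat 482, .ofNat 395, .ofNat 0, .ofNat 395, .ofNat 1931, .ofNat 0, .ofNat 179, .negSucc 127, .negSucc 516, .ofNat 0, .ofNat 81, .ofNat 122, .ofNat 0, .ofNat 0, .ofNat 514, .ofNat 816, .ofNat 0, .ofNat 0, .ofNat 0, .ofNat 0, .ofNat 0, .ofNat 0, .ofNat 0, .ofNat 0, .ofNat 0, .ofNat 0, .ofNat 486671667040515610574769210475476452114432,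 .ofNat 0, .ofNat 0, .ofNat 0, .ofNat 0, .ofNat 0⟩)
    (by decide +kernel)
theorem L01633 : Good (Phi V5.P V5.D (-1) (-1)) ⟨4, 10, 3, 1, 3, 6, 3, 7, 4, 0⟩ :=
  leafX_sound T5.ok_mm T5.Ymm.bz_eq (w := 226) (c := ⟨⟨.negSucc 466, .negSucc 137, .ofNat 103, .ofNat 33, .negSucc 325, .negSucc 656⟩, ⟨.ofNat 29, .ofNat 43, .ofNat 102, .negSucc 12, .ofNat 83, .ofNat 161⟩, ⟨.ofNat 372, .ofNat 66, .ofNat 7, .ofNat 4, .ofNat 124, .ofNat 166⟩, ⟨.negSucc 1115, .negSucc 199, .ofNat 131, .ofNat 27, .negSucc 567, .negSucc 1230⟩, ⟨.negSucc 1040, .negSucc 100, .ofNat 64, .negSucc 141, .ofNat 192, .ofNat 32⟩, .ofNat 479, .ofNat 388, .ofNat 0, .ofNat 388, .ofNat 1895, .ofNat 0, .ofNat 336, .negSucc 127, .negSucc 1088, .ofNat 0, .ofNat 89, .ofNat 254, .ofNat 0, .ofNat 0, .ofNat 1074, .ofNat 615, .ofNat 0, .ofNat 0, .ofNat 0, .ofNat 0, .ofNat 0, .ofNat 0, .ofNat 0, .ofNat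 0, .ofNat 0, .ofNat 0, .ofNat 330895855928325044169886521809468867477504, .ofNat 0, .ofNat 0, .ofNat 0, .ofNat 0, .ofNat 0⟩)
    (by decide +kernel)
theorem L01634 : Good (Phi V5.P V5.D (-1) (-1)) ⟨5, 22, 3, 1, 3, 6, 3, 6, 4, 0⟩ :=
  leafX_sound T5.ok_mm T5.Ymm.bz_eq (w := 231) (c := ⟨⟨.ofNat 874, .negSucc 81, .ofNat 113, .ofNat 5, .negSucc 750, .negSucc 1748⟩, ⟨.negSucc 330, .ofNat 0, .ofNat 74, .ofNat 1, .ofNat 209, .ofNat 476⟩, ⟨.negSucc 672, .ofNat 54, .ofNat 35, .ofNat 167, .ofNat 456, .ofNat 973⟩, ⟨.ofNat 1331, .negSucc 152, .ofNat 164, .ofNat 48, .negSucc 1367, .negSucc 3239⟩, ⟨.negSucc 990, .ofNat 23, .ofNat 163, .ofNat 151, .negSucc 87, .negSucc 447⟩, .ofNat 478, .ofNat 395, .ofNat 0, .ofNat 395, .ofNat 1643, .ofNat 0, .ofNat 222, .negSucc 127, .negSucc 645, .ofNat 0, .ofNat 85, .ofNat 175, .ofNat 0, .ofNat 0, .ofNat 601, .ofNat 745, .ofNat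 0, .ofNat 0, .ofNat 0, .ofNat 0, .ofNat 0, .ofNat 0, .ofNat 0, .ofNat 0, .ofNat 0, .ofNat 0, .ofNat 0, .ofNat 0, .ofNat 0, .ofNat 0, .ofNat 0, .ofNat 0⟩)
    (by decide +kernel)
theorem L01635 : Good (Phi V5.P V5.D (-1) (-1)) ⟨5, 23, 3, 1, 3, 6, 3, 6, 4, 0⟩ :=
  leafX_sound T5.ok_mm T5.Ymm.bz_eq (w := 231) (c := ⟨⟨.ofNat 1315, .negSucc 46, .negSucc 28, .ofNat 125, .negSucc 960, .negSucc 2289⟩, ⟨.negSucc 495, .negSucc 25, .ofNat 93, .negSucc 21, .ofNat 292, .ofNat 666⟩, ⟨.negSucc 1042, .ofNat 41, .ofNat 139, .ofNat 78, .ofNat 590, .ofNat 1392⟩, ⟨.ofNat 2008, .negSucc 132, .negSucc 56, .ofNat 237, .negSucc 1712, .negSucc 4068⟩, ⟨.negSucc 1047, .negSucc 78, .ofNat 196, .ofNat 120, .negSucc 101, .negSucc 380⟩, .ofNat 468, .ofNat 369, .ofNat 0, .ofNat 369, .ofNat 1404, .ofNat 0, .ofNat 203, .negSucc 127, .negSucc 1079, .ofNat 0, .ofNat 96, .ofNat 318,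 .ofNat 0, .ofNat 0, .ofNat 962, .ofNat 669, .ofNat 0, .ofNat 0, .ofNat 0, .ofNat 0, .ofNat 0, .ofNat 0, .ofNat 0, .ofNat 0, .ofNat 0, .ofNat 0, .ofNat 0, .ofNat 0, .ofNat 0, .ofNat 0, .ofNat 0, .ofNat 0⟩)
    (by decide +kernel)
theorem L01636 : Good (Phi V5.P V5.D (-1) (-1)) ⟨4, 11, 3, 1, 3, 6, 4, 14, 4, 0⟩ :=
  leafX_sound T5.ok_mm T5.Ymm.bz_eq (w := 230) (c := ⟨⟨.negSucc 329, .negSucc 199, .ofNat 193, .ofNat 34, .negSucc 320, .negSucc 1193⟩, ⟨.negSucc 40, .ofNat 51, .ofNat 83, .negSucc 18, .ofNat 101, .ofNat 346⟩, ⟨.ofNat 201, .ofNat 120, .negSucc 52, .ofNat 31, .ofNat 191, .ofNat 586⟩, ⟨.negSucc 865, .negSucc 306, .ofNat 285, .ofNat 38, .negSucc 558, .negSucc 2114⟩, ⟨.negSucc 1039, .negSucc 112, .ofNat 91, .negSucc 68, .negSucc 2, .negSucc 126⟩, .ofNat 555, .ofNat 564, .ofNat 0, .ofNat 564, .ofNat 2096, .ofNat 0, .ofNat 128, .negSucc 134, .negSucc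 595, .ofNat 0, .ofNat 86, .ofNat 175, .ofNat 0, .ofNat 0, .ofNat 565, .ofNat 487, .ofNat 0, .ofNat 0, .ofNat 0, .ofNat 0, .ofNat 0, .ofNat 0, .ofNat 0, .ofNat 0, .ofNat 0, .ofNat 0, .ofNat 0, .ofNat 0, .ofNat 0, .ofNat 0, .ofNat 10125215852620060775136252686650325185069056, .ofNat 0⟩)
    (by decide +kernel)
theorem L01637 : Good (Phi V5.P V5.D (-1) (-1)) ⟨4, 11, 3, 1, 3, 6, 4, 15, 4, 0⟩ :=
  leafX_sound T5.ok_mm T5.Ymm.bz_eq (w := 230) (c := ⟨⟨.negSucc 1063, .negSucc 194, .ofNat 201, .ofNat 212, .negSucc 44, .negSucc 535⟩, ⟨.ofNat 179, .ofNat 52, .ofNat 89, .negSucc 74, .ofNat 18, .ofNat 156⟩, ⟨.ofNat 795, .ofNat 97, .negSucc 71, .negSucc 193, .negSucc 51, .ofNat 47⟩, ⟨.negSucc 2151, .negSucc 272, .ofNat 279, .ofNat 320, .negSucc 39, .negSucc 920⟩, ⟨.negSucc 1075, .negSucc 111, .ofNat 38, .negSucc 157, .ofNat 144, .ofNat 67⟩, .ofNat 557, .ofNat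 571, .ofNat 0, .ofNat 571, .ofNat 2128, .ofNat 0, .ofNat 140, .negSucc 127, .negSucc 809, .ofNat 0, .ofNat 81, .ofNat 235, .ofNat 0, .ofNat 0, .ofNat 770, .ofNat 639, .ofNat 0, .ofNat 0, .ofNat 0, .ofNat 0, .ofNat 0, .ofNat 2354367233846956894188167075813789453726515200, .ofNat 1536709651966298197304250203634122056794112, .ofNat 0, .ofNat 0, .ofNat 0, .ofNat 0, .ofNat 0, .ofNat 0, .ofNat 0, .ofNat 19984560879734781785908395824731058216108032, .ofNat 0⟩)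
    (by decide +kernel)
theorem L01638 : Good (Phi V5.P V5.D (-1) (-1)) ⟨4, 10, 3, 1, 3, 7, 3, 6, 4, 0⟩ :=
  leafX_sound T5.ok_mm T5.Ymm.bz_eq (w := 226) (c := ⟨⟨.ofNat 212, .negSucc 36, .ofNat 94, .negSucc 433, .negSucc 369, .negSucc 844⟩, ⟨.negSucc 95, .negSucc 10, .ofNat 81, .ofNat 98, .ofNat 89, .ofNat 185⟩, ⟨.ofNat 128, .ofNat 31, .ofNat 51, .ofNat 351, .ofNat 91, .ofNat 138⟩, ⟨.ofNat 313, .negSucc 37, .ofNat 132, .negSucc 826, .negSucc 792, .negSucc 1790⟩, ⟨.negSucc 542, .ofNat 19, .ofNat 181, .negSucc 58, .negSucc 329, .negSucc 780⟩, .ofNat 480, .ofNat 388, .ofNat 0, .ofNat 388, .ofNat 1918, .ofNat 0, .ofNat 267, .negSucc 127, .negSucc 497, .ofNat 0, .ofNat 76, .ofNat 112, .ofNat 0, .ofNat 0, .ofNat 467, .ofNat 835, .ofNat 0, .ofNat 0, .ofNat 0, .ofNat 0, .ofNat 0, .ofNat 0, .ofNat 0, .ofNat 0, .ofNat 0, .ofNat 0, .ofNat 0, .ofNat 0, .ofNat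 0, .ofNat 0, .ofNat 0, .ofNat 0⟩)
    (by decide +kernel)
theorem L01639 : Good (Phi V5.P V5.D (-1) (-1)) ⟨4, 11, 3, 1, 3, 7, 3, 6, 5, 0⟩ :=
  leafX_sound T5.ok_mm T5.Ymm.bz_eq (w := 231) (c := ⟨⟨.ofNat 595, .negSucc 50, .ofNat 9, .negSucc 771, .negSucc 539, .negSucc 565⟩, ⟨.negSucc 210, .negSucc 21, .ofNat 109, .ofNat 204, .ofNat 119, .ofNat 126⟩, ⟨.negSucc 155, .ofNat 14, .ofNat 146, .ofNat 589, .ofNat 155, .ofNat 157⟩, ⟨.ofNat 945, .negSucc 101, .negSucc 21, .negSucc 1363, .negSucc 1126, .negSucc 1113⟩, ⟨.negSucc 530, .negSucc 131, .ofNat 160, .negSucc 49, .negSucc 452, .negSucc 419⟩, .ofNat 470, .ofNat 373, .ofNat 0, .ofNat 373, .ofNat 1500, .ofNat 0, .ofNat 183, .negSucc 127, .negSucc 852, .ofNat 0, .ofNat 87, .ofNat 228, .ofNat 0, .ofNat 0, .ofNat 729, .ofNat 727, .ofNat 0, .ofNat 0, .ofNat 0, .ofNat 0, .ofNat 0, .ofNat 0, .ofNat 0, .ofNat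 0, .ofNat 0, .ofNat 0, .ofNat 0, .ofNat 0, .ofNat 0, .ofNat 0, .ofNat 54554342846465241162448401306953618921881600, .ofNat 0⟩)
    (by decide +kernel)
theorem L01640 : Good (Phi V5.P V5.D (-1) (-1)) ⟨4, 11, 3, 1, 3, 7, 3, 6, 5, 1⟩ :=
  leafX_sound T5.ok_mm T5.Ymm.bz_eq (w := 231) (c := ⟨⟨.negSucc 479, .negSucc 102, .ofNat 100, .negSucc 300, .negSucc 271, .negSucc 414⟩, ⟨.ofNat 18, .negSucc 2, .ofNat 117, .ofNat 80, .ofNat 69, .ofNat 103⟩, ⟨.ofNat 389, .ofNat 33, .ofNat 45, .ofNat 212, .ofNat 32, .ofNat 79⟩, ⟨.negSucc 1095, .negSucc 161, .ofNat 120, .negSucc 553, .negSucc 554, .negSucc 817⟩, ⟨.negSucc 1085, .negSucc 119, .ofNat 137, .negSucc 117, .negSucc 166, .negSucc 257⟩, .ofNat 477, .ofNat 391, .ofNat 0, .ofNat 391, .ofNat 1543, .ofNat 0, .ofNat 174, .negSucc 127, .negSucc 755, .ofNat 0, .ofNat 78, .ofNat 203, .ofNat 0, .ofNat 0, .ofNat 637,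 .ofNat 658, .ofNat 0, .ofNat 0, .ofNat 0, .ofNat 0, .ofNat 0, .ofNat 0, .ofNat 0, .ofNat 0, .ofNat 0, .ofNat 0, .ofNat 0, .ofNat 0, .ofNat 0, .ofNat 0, .ofNat 0, .ofNat 0⟩)
    (by decide +kernel)
theorem L01641 : Good (Phi V5.P V5.D (-1) (-1)) ⟨4, 10, 4, 2, 3, 7, 3, 7, 4, 0⟩ :=
  leafX_sound T5.ok_mm T5.Ymm.bz_eq (w := 229) (c := ⟨⟨.negSucc 791, .negSucc 48, .ofNat 54, .negSucc 12, .negSucc 60, .negSucc 273⟩, ⟨.ofNat 109, .ofNat 12, .ofNat 54, .negSucc 2, .ofNat 19, .ofNat 62⟩, ⟨.ofNat 694, .negSucc 7, .ofNat 18, .negSucc 31, .negSucc 145, .negSucc 146⟩, ⟨.negSucc 1735, .negSucc 35, .ofNat 79, .negSucc 79, .negSucc 95, .negSucc 519⟩, ⟨.negSucc 1108, .negSucc 81, .ofNat 114, .negSucc 224, .ofNat 85, .negSucc 24⟩, .ofNat 641, .ofNat 869, .ofNat 0, .ofNat 869, .ofNat 3973, .ofNat 0, .ofNat 168, .negSucc 127, .negSucc 554, .ofNat 0, .ofNat 54, .ofNat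 129, .ofNat 0, .ofNat 0, .ofNat 558, .ofNat 848, .ofNat 0, .ofNat 0, .ofNat 0, .ofNat 0, .ofNat 0, .ofNat 7975654556981923431762846635221472391722958848, .ofNat 0, .ofNat 0, .ofNat 0, .ofNat 0, .ofNat 0, .ofNat 0, .ofNat 0, .ofNat 0, .ofNat 0, .ofNat 0⟩)
    (by decide +kernel)
theorem L01642 : Good (Phi V5.P V5.D (-1) (-1)) ⟨4, 10, 4, 3, 3, 7, 3, 7, 4, 0⟩ :=
  leafX_sound T5.ok_mm T5.Ymm.bz_eq (w := 230) (c := ⟨⟨.negSucc 712, .ofNat 64, .negSucc 36, .negSucc 44, .negSucc 114, .negSucc 284⟩, ⟨.ofNat 150, .negSucc 7, .ofNat 70, .ofNat 8, .ofNat 30, .ofNat 73⟩, ⟨.ofNat 699, .negSucc 70, .ofNat 57, .negSucc 11, .negSucc 119, .negSucc 147⟩, ⟨.negSucc 1630, .ofNat 192, .negSucc 124, .negSucc 121, .negSucc 184, .negSucc 534⟩, ⟨.negSucc 1083, .negSucc 3, .negSucc 53, .negSucc 145, .ofNat 134, .negSucc 19⟩, .ofNat 789, .ofNat 1367, .ofNat 0, .ofNat 1367,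 .ofNat 5525, .ofNat 0, .ofNat 128, .negSucc 212, .negSucc 516, .ofNat 0, .ofNat 74, .ofNat 132, .ofNat 0, .ofNat 0, .ofNat 521, .ofNat 1037, .ofNat 0, .ofNat 0, .ofNat 3594785685002839538219079383769839304704, .ofNat 0, .ofNat 0, .ofNat 0, .ofNat 0, .ofNat 0, .ofNat 0, .ofNat 0, .ofNat 926533048985645014402189259628446209802240, .ofNat 0, .ofNat 0, .ofNat 0, .ofNat 0, .ofNat 0⟩)
    (by decide +kernel)
theorem L01643 : Good (Phi V5.P V5.D (-1) (-1)) ⟨4, 11, 3, 1, 3, 7, 3, 7, 5, 0⟩ :=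
  leafX_sound T5.ok_mm T5.Ymm.bz_eq (w := 231) (c := ⟨⟨.negSucc 694, .negSucc 52, .ofNat 83, .negSucc 79, .negSucc 124, .negSucc 214⟩, ⟨.ofNat 83, .negSucc 10, .ofNat 114, .ofNat 13, .ofNat 32, .ofNat 54⟩, ⟨.ofNat 619, .negSucc 12, .ofNat 55, .ofNat 22, .negSucc 150, .negSucc 58⟩, ⟨.negSucc 1481, .negSucc 71, .ofNat 102, .negSucc 180, .negSucc 260, .negSucc 430⟩, ⟨.negSucc 1078, .negSucc 92, .ofNat 163, .negSucc 130, .negSucc 96, .negSucc 169⟩, .ofNat 563, .ofNat 584, .ofNat 0, .ofNat 584, .ofNat 2144, .ofNat 0, .ofNat 175, .negSucc 127, .negSucc 711, .ofNat 0, .ofNat 72, .ofNat 204, .ofNat 0, .ofNat 0, .ofNat 643, .ofNat 1058, .ofNat 0, .ofNat 0, .ofNat 106105467792733928168327541377926902579200, .ofNat 0, .ofNat 0, .ofNat 0, .ofNat 0, .ofNat 0, .ofNat 0, .ofNat 0, .ofNat 0, .ofNat 0, .ofNat 0, .ofNat 0, .ofNat 27633486841572752528942679741137079559520256,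 .ofNat 0⟩)
    (by decide +kernel)
theorem L01644 : Good (Phi V5.P V5.D (-1) (-1)) ⟨4, 11, 3, 1, 3, 7, 3, 7, 5, 1⟩ :=
  leafX_sound T5.ok_mm T5.Ymm.bz_eq (w := 231) (c := ⟨⟨.negSucc 1245, .ofNat 41, .ofNat 89, .ofNat 143, .ofNat 205, .negSucc 35⟩, ⟨.ofNat 216, .negSucc 38, .ofNat 130, .negSucc 50, .negSucc 43, .ofNat 14⟩, ⟨.ofNat 774, .negSucc 87, .ofNat 43, .negSucc 117, .negSucc 318, .negSucc 125⟩, ⟨.negSucc 2545, .ofNat 137, .ofNat 114, .ofNat 199, .ofNat 400, .negSucc 52⟩, ⟨.negSucc 1391, .negSucc 36, .ofNat 174, .negSucc 156, .ofNat 200, .ofNat 41⟩, .ofNat 625, .ofNat 736, .ofNat 0, .ofNat 736, .ofNat 2652, .ofNat 0, .ofNat 189, .negSucc 127, .negSucc 471, .ofNat 0, .ofNat 66, .ofNat 134, .ofNat 0, .ofNat 0, .ofNat 433, .ofNat 769, .ofNat 0, .ofNat 0, .ofNat 0, .ofNat 0, .ofNat 0, .ofNat 12471531400007442793777810962134877854859526144, .ofNat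 9651878932875778412963304483766819012739072, .ofNat 0, .ofNat 0, .ofNat 0, .ofNat 0, .ofNat 0, .ofNat 0, .ofNat 0, .ofNat 0, .ofNat 0⟩)
    (by decide +kernel)
theorem L01645 : Good (Phi V5.P V5.D (-1) (-1)) ⟨4, 10, 3, 1, 2, 2, 2, 2, 4, 1⟩ :=
  leafX_sound T5.ok_mm T5.Ymm.bz_eq (w := 208) (c := ⟨⟨.negSucc 1169, .negSucc 353, .ofNat 171, .ofNat 220, .negSucc 45, .negSucc 1089⟩, ⟨.ofNat 149, .ofNat 148, .ofNat 147, .negSucc 68, .ofNat 31, .ofNat 267⟩, ⟨.ofNat 647, .ofNat 255, .negSucc 114, .negSucc 296, .ofNat 44, .ofNat 763⟩, ⟨.negSucc 2475, .negSucc 400, .ofNat 226, .ofNat 275, .negSucc 14, .negSucc 1989⟩, ⟨.negSucc 948, .ofNat 74, .negSucc 73, .negSucc 630, .ofNat 249, .ofNat 324⟩, .ofNat 483, .ofNat 397, .ofNat 0, .ofNat 397, .ofNat 1959, .ofNat 0, .ofNat 193, .negSucc 127, .negSucc 255, .ofNat 0, .ofNat 79, .ofNat 64, .ofNat 0, .ofNat 0, .ofNat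 364, .ofNat 360, .ofNat 0, .ofNat 0, .ofNat 0, .ofNat 0, .ofNat 0, .ofNat 0, .ofNat 0, .ofNat 0, .ofNat 0, .ofNat 0, .ofNat 1270582282979491345127230407478083584, .ofNat 0, .ofNat 0, .ofNat 0, .ofNat 0, .ofNat 0⟩)
    (by decide +kernel)
theorem L01646 : Good (Phi V5.P V5.D (-1) (-1)) ⟨4, 10, 3, 1, 3, 6, 2, 2, 5, 2⟩ :=
  leafX_sound T5.ok_mm T5.Ymm.bz_eq (w := 227) (c := ⟨⟨.negSucc 459, .negSucc 257, .ofNat 311, .ofNat 174, .negSucc 456, .negSucc 909⟩, ⟨.negSucc 1, .ofNat 64, .ofNat 89, .negSucc 44, .ofNat 119, .ofNat 231⟩, ⟨.ofNat 132, .ofNat 186, .negSucc 170, .negSucc 49, .ofNat 285, .ofNat 530⟩, ⟨.negSucc 1189, .negSucc 410, .ofNat 498, .ofNat 303, .negSucc 809, .negSucc 1705⟩, ⟨.negSucc 1438, .negSucc 93, .ofNat 90, .negSucc 80, .ofNat 220, .negSucc 27⟩, .ofNat 482, .ofNat 394, .ofNat 0, .ofNat 394, .ofNat 1954, .ofNat 0, .ofNat 168, .negSucc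 127, .negSucc 383, .ofNat 0, .ofNat 71, .ofNat 92, .ofNat 0, .ofNat 0, .ofNat 408, .ofNat 756, .ofNat 0, .ofNat 0, .ofNat 0, .ofNat 0, .ofNat 0, .ofNat 0, .ofNat 0, .ofNat 0, .ofNat 0, .ofNat 0, .ofNat 1109253275005232932708486581222474661232640, .ofNat 0, .ofNat 0, .ofNat 0, .ofNat 0, .ofNat 0⟩)
    (by decide +kernel)
theorem L01647 : Good (Phi V5.P V5.D (-1) (-1)) ⟨4, 10, 3, 1, 3, 7, 3, 4, 5, 2⟩ :=
  leafX_sound T5.ok_mm T5.Ymm.bz_eq (w := 231) (c := ⟨⟨.negSucc 425, .negSucc 155, .ofNat 193, .negSucc 417, .ofNat 5, .negSucc 742⟩, ⟨.ofNat 11, .ofNat 42, .ofNat 94, .ofNat 110, .negSucc 6, .ofNat 170⟩, ⟨.ofNat 287, .ofNat 105, .negSucc 12, .ofNat 284, .negSucc 47, .ofNat 289⟩, ⟨.negSucc 995, .negSucc 236, .ofNat 325, .negSucc 736, .negSucc 88, .negSucc 1514⟩, ⟨.negSucc 853, .negSucc 188, .ofNat 262, .ofNat 137, .negSucc 343, .negSucc 475⟩, .ofNat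 482, .ofNat 397, .ofNat 0, .ofNat 397, .ofNat 1933, .ofNat 0, .ofNat 128, .negSucc 127, .negSucc 329, .ofNat 0, .ofNat 71, .ofNat 75, .ofNat 0, .ofNat 0, .ofNat 339, .ofNat 1148, .ofNat 0, .ofNat 0, .ofNat 0, .ofNat 0, .ofNat 0, .ofNat 0, .ofNat 0, .ofNat 0, .ofNat 0, .ofNat 0, .ofNat 11167461331992183348407588382397224374501376, .ofNat 0, .ofNat 0, .ofNat 0, .ofNat 0, .ofNat 0⟩)
    (by decide +kernel)
theorem L01648 : Good (Phi V5.P V5.D (-1) (-1)) ⟨4, 10, 3, 1, 3, 7, 3, 5, 5, 2⟩ :=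
  leafX_sound T5.ok_mm T5.Ymm.bz_eq (w := 231) (c := ⟨⟨.negSucc 849, .negSucc 137, .ofNat 256, .negSucc 128, .negSucc 27, .negSucc 469⟩, ⟨.ofNat 100, .ofNat 38, .ofNat 95, .ofNat 34, .ofNat 7, .ofNat 112⟩, ⟨.ofNat 529, .ofNat 88, .negSucc 78, .ofNat 99, .negSucc 49, .ofNat 129⟩, ⟨.negSucc 1840, .negSucc 201, .ofNat 416, .negSucc 242, .negSucc 100, .negSucc 959⟩, ⟨.negSucc 1183, .negSucc 147, .ofNat 234, .negSucc 1, .negSucc 121, .negSucc 289⟩, .ofNat 479, .ofNat 386, .ofNat 0, .ofNat 386, .ofNat 1900, .ofNat 0, .ofNat 204, .negSucc 127, .negSucc 419, .ofNat 0, .ofNat 73, .ofNat 95, .ofNat 0, .ofNat 0, .ofNat 422, .ofNat 1290, .ofNat 0, .ofNat 0, .ofNat 0, .ofNat 0, .ofNat 0, .ofNat 0, .ofNat 0, .ofNat 0, .ofNat 0, .ofNat 0, .ofNat 6408240542856795759336792115481015339712512, .ofNat 0, .ofNat 0, .ofNat 0, .ofNat 0, .ofNat 0⟩)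
    (by decide +kernel)
theorem L01649 : Good (Phi V5.P V5.D (-1) (-1)) ⟨4, 10, 3, 1, 3, 6, 2, 2, 5, 3⟩ :=
  leafX_sound T5.ok_mm T5.Ymm.bz_eq (w := 228) (c := ⟨⟨.negSucc 1789, .negSucc 343, .ofNat 257, .ofNat 352, .ofNat 147, .negSucc 430⟩, ⟨.ofNat 296, .ofNat 118, .ofNat 145, .negSucc 91, .negSucc 26, .ofNat 108⟩, ⟨.ofNat 1011, .ofNat 234, .negSucc 146, .negSucc 240, .negSucc 160, .ofNat 221⟩, ⟨.negSucc 3691, .negSucc 472, .ofNat 377, .ofNat 588, .ofNat 321, .negSucc 774⟩, ⟨.negSucc 1363, .negSucc 107, .ofNat 41, .negSucc 212, .ofNat 228, .ofNat 93⟩, .ofNat 573, .ofNat 647, .ofNat 0, .ofNat 647, .ofNat 2934, .ofNat 0, .ofNat 128, .negSucc 195, .negSucc 423, .ofNat 0, .ofNat 91, .ofNat 107, .ofNat 0, .ofNat 0, .ofNat 510, .ofNat 1500, .ofNat 0, .ofNat 0, .ofNat 0, .ofNat 0, .ofNat 0, .ofNat 0, .ofNat 0, .ofNat 0, .ofNat 0, .ofNat 0, .ofNat 0,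 .ofNat 0, .ofNat 0, .ofNat 0, .ofNat 0, .ofNat 0⟩)
    (by decide +kernel)
theorem L01650 : Good (Phi V5.P V5.D (-1) (-1)) ⟨5, 20, 3, 1, 3, 7, 2, 2, 5, 3⟩ :=
  leafX_sound T5.ok_mm T5.Ymm.bz_eq (w := 232) (c := ⟨⟨.negSucc 1662, .negSucc 56, .ofNat 179, .ofNat 151, .ofNat 318, .negSucc 207⟩, ⟨.ofNat 277, .ofNat 24, .ofNat 144, .negSucc 33, .negSucc 71, .ofNat 47⟩, ⟨.ofNat 953, .ofNat 31, .negSucc 51, .negSucc 112, .negSucc 289, .ofNat 29⟩, ⟨.negSucc 3454, .negSucc 54, .ofNat 268, .ofNat 283, .ofNat 593, .negSucc 399⟩, ⟨.negSucc 1402, .negSucc 77, .ofNat 153, .negSucc 2, .ofNat 13, .negSucc 15⟩, .ofNat 570, .ofNat 646, .ofNat 0, .ofNat 646, .ofNat 3163, .ofNat 0, .ofNat 161, .negSucc 127, .negSucc 206, .ofNat 0, .ofNat 59, .ofNat 47, .ofNat 0, .ofNat 0, .ofNat 265, .ofNat 1199, .ofNat 0, .ofNat 0, .ofNat 0, .ofNat 0, .ofNat 0, .ofNat 0, .ofNat 0,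 .ofNat 0, .ofNat 0, .ofNat 0, .ofNat 0, .ofNat 0, .ofNat 0, .ofNat 0, .ofNat 56164714316333669860991700934610898649088, .ofNat 0⟩)
    (by decide +kernel)
theorem L01651 : Good (Phi V5.P V5.D (-1) (-1)) ⟨5, 21, 3, 1, 3, 7, 2, 2, 5, 3⟩ :=
  leafX_sound T5.ok_mm T5.Ymm.bz_eq (w := 232) (c := ⟨⟨.negSucc 1846, .negSucc 45, .ofNat 168, .ofNat 198, .ofNat 450, .negSucc 163⟩, ⟨.ofNat 329, .ofNat 20, .ofNat 154, .negSucc 46, .negSucc 108, .ofNat 42⟩, ⟨.ofNat 1086, .ofNat 19, .negSucc 44, .negSucc 148, .negSucc 388, .negSucc 5⟩, ⟨.negSucc 3684, .negSucc 53, .ofNat 223, .ofNat 347, .ofNat 781, .negSucc 308⟩, ⟨.negSucc 1305, .negSucc 167, .ofNat 91, .negSucc 49, .negSucc 115, .negSucc 36⟩, .ofNat 699, .ofNat 1035, .ofNat 0, .ofNat 1035, .ofNat 4189, .ofNat 0, .ofNat 128, .negSucc 147, .negSucc 205, .ofNat 0, .ofNat 61, .ofNat 54, .ofNat 0, .ofNat 0, .ofNat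 246, .ofNat 915, .ofNat 0, .ofNat 0, .ofNat 0, .ofNat 0, .ofNat 0, .ofNat 0, .ofNat 0, .ofNat 0, .ofNat 0, .ofNat 0, .ofNat 0, .ofNat 0, .ofNat 0, .ofNat 0, .ofNat 58811078688836858154060672556151376707584, .ofNat 0⟩)
    (by decide +kernel)
theorem L01652 : Good (Phi V5.P V5.D (-1) (-1)) ⟨4, 10, 3, 1, 2, 2, 2, 3, 4, 1⟩ :=
  leafX_sound T5.ok_mm T5.Ymm.bz_eq (w := 208) (c := ⟨⟨.negSucc 1530, .negSucc 317, .ofNat 266, .ofNat 28, .ofNat 521, .negSucc 652⟩, ⟨.ofNat 254, .ofNat 125, .ofNat 100, .negSucc 17, .negSucc 110, .ofNat 174⟩, ⟨.ofNat 953, .ofNat 236, .negSucc 194, .negSucc 120, .negSucc 493, .ofNat 378⟩, ⟨.negSucc 3108, .negSucc 391, .ofNat 484, .negSucc 42, .ofNat 1075, .negSucc 1168⟩, ⟨.negSucc 876, .negSucc 9, .ofNat 97, .negSucc 364, .ofNat 578, .ofNat 283⟩, .ofNat 491, .ofNat 426, .ofNat 0, .ofNat 426, .ofNat 2022, .ofNat 0, .ofNat 221,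 .negSucc 127, .negSucc 544, .ofNat 0, .ofNat 79, .ofNat 135, .ofNat 0, .ofNat 0, .ofNat 676, .ofNat 416, .ofNat 0, .ofNat 0, .ofNat 0, .ofNat 0, .ofNat 0, .ofNat 0, .ofNat 0, .ofNat 0, .ofNat 0, .ofNat 0, .ofNat 146599809225583309933022913742503936, .ofNat 0, .ofNat 0, .ofNat 0, .ofNat 0, .ofNat 0⟩)
    (by decide +kernel)
theorem L01653 : Good (Phi V5.P V5.D (-1) (-1)) ⟨4, 10, 4, 2, 2, 3, 3, 6, 5, 2⟩ :=
  leafX_sound T5.ok_mm T5.Ymm.bz_eq (w := 221) (c := ⟨⟨.negSucc 1434, .negSucc 104, .ofNat 45, .ofNat 456, .ofNat 70, .negSucc 295⟩, ⟨.ofNat 245, .ofNat 35, .ofNat 73, .negSucc 117, .negSucc 10, .ofNat 68⟩, ⟨.ofNat 867, .ofNat 30, .ofNat 9, .negSucc 312, .negSucc 126, .ofNat 60⟩, ⟨.negSucc 2960, .negSucc 111, .ofNat 41, .ofNat 768, .ofNat 158, .negSucc 534⟩, ⟨.negSucc 1230, .negSucc 137, .ofNat 28, .negSucc 264, .ofNat 182, .ofNat 97⟩, .ofNat 626,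 .ofNat 812, .ofNat 0, .ofNat 812, .ofNat 3703, .ofNat 0, .ofNat 149, .negSucc 127, .negSucc 509, .ofNat 0, .ofNat 57, .ofNat 120, .ofNat 0, .ofNat 0, .ofNat 538, .ofNat 833, .ofNat 0, .ofNat 0, .ofNat 0, .ofNat 0, .ofNat 0, .ofNat 0, .ofNat 0, .ofNat 0, .ofNat 0, .ofNat 0, .ofNat 0, .ofNat 0, .ofNat 0, .ofNat 0, .ofNat 0, .ofNat 0⟩)
    (by decide +kernel)
theorem L01654 : Good (Phi V5.P V5.D (-1) (-1)) ⟨4, 10, 4, 2, 2, 3, 3, 6, 5, 3⟩ :=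
  leafX_sound T5.ok_mm T5.Ymm.bz_eq (w := 220) (c := ⟨⟨.negSucc 1999, .negSucc 121, .negSucc 7, .ofNat 861, .ofNat 231, .negSucc 22⟩, ⟨.ofNat 357, .ofNat 57, .ofNat 89, .negSucc 208, .negSucc 37, .ofNat 17⟩, ⟨.ofNat 1140, .ofNat 26, .ofNat 38, .negSucc 594, .negSucc 213, .negSucc 82⟩, ⟨.negSucc 4047, .negSucc 94, .negSucc 46, .ofNat 1529, .ofNat 509, .ofNat 13⟩, ⟨.negSucc 1294, .negSucc 89, .ofNat 3, .negSucc 160, .ofNat 379, .ofNat 244⟩, .ofNat 624, .ofNat 805, .ofNat 0, .ofNat 805, .ofNat 3723, .ofNat 0, .ofNat 128, .negSucc 145, .negSucc 277, .ofNat 0, .ofNat 66, .ofNat 65, .ofNat 0, .ofNat 0, .ofNat 341, .ofNat 465, .ofNat 0, .ofNat 0, .ofNat 0, .ofNat 0, .ofNat 0, .ofNat 0, .ofNat 0, .ofNat 0, .ofNat 0, .ofNat 0, .ofNat 0, .ofNat 0, .ofNat 0, .ofNat 0, .ofNat 0, .ofNat 0⟩)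
    (by decide +kernel)
theorem L01655 : Good (Phi V5.P V5.D (-1) (-1)) ⟨4, 10, 4, 2, 2, 3, 3, 7, 4, 1⟩ :=
  leafX_sound T5.ok_mm T5.Ymm.bz_eq (w := 216) (c := ⟨⟨.negSucc 1771, .ofNat 14, .ofNat 4, .ofNat 744, .ofNat 306, .ofNat 25⟩, ⟨.ofNat 315, .ofNat 17, .ofNat 66, .negSucc 170, .negSucc 47, .ofNat 20⟩, ⟨.ofNat 1026, .negSucc 77, .ofNat 33, .negSucc 500, .negSucc 316, .negSucc 222⟩, ⟨.negSucc 3623, .ofNat 106, .negSucc 9, .ofNat 1355, .ofNat 714, .ofNat 208⟩, ⟨.negSucc 1269, .negSucc 166, .ofNat 42, .negSucc 100, .ofNat 659, .ofNat 733⟩, .ofNat 551, .ofNat 576, .ofNat 0, .ofNat 576, .ofNat 2784, .ofNat 0, .ofNat 252, .negSucc 127, .negSucc 338, .ofNat 0, .ofNat 65, .ofNat 77, .ofNat 0, .ofNat 0, .ofNat 395, .ofNat 599, .ofNat 0, .ofNat 0, .ofNat 0, .ofNat 0, .ofNat 0, .ofNat 9336259156704662031622571288125683307380736, .ofNat 0, .ofNat 0, .ofNat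 0, .ofNat 1656642230406718545313762660682237535584256, .ofNat 0, .ofNat 0, .ofNat 0, .ofNat 0, .ofNat 0, .ofNat 0⟩)
    (by decide +kernel)
theorem L01656 : Good (Phi V5.P V5.D (-1) (-1)) ⟨4, 10, 4, 3, 3, 6, 2, 3, 4, 1⟩ :=
  leafX_sound T5.ok_mm T5.Ymm.bz_eq (w := 226) (c := ⟨⟨.negSucc 1270, .negSucc 267, .ofNat 68, .ofNat 327, .ofNat 112, .negSucc 572⟩, ⟨.ofNat 273, .ofNat 99, .ofNat 70, .negSucc 86, .negSucc 17, .ofNat 153⟩, ⟨.ofNat 757, .ofNat 154, .negSucc 11, .negSucc 233, .negSucc 214, .ofNat 168⟩, ⟨.negSucc 2716, .negSucc 398, .ofNat 100, .ofNat 554, .ofNat 355, .negSucc 1014⟩, ⟨.negSucc 1229, .negSucc 210, .negSucc 11, .negSucc 167, .ofNat 727, .ofNat 307⟩, .ofNat 516, .ofNat 505, .ofNat 0, .ofNat 505, .ofNat 2222, .ofNat 0, .ofNat 245, .negSucc 127, .negSucc 465, .ofNat 0, .ofNat 63, .ofNat 118, .ofNat 0, .ofNat 0, .ofNat 480, .ofNat 626,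 .ofNat 0, .ofNat 0, .ofNat 0, .ofNat 0, .ofNat 0, .ofNat 6405792881757825418042618703203053419775393792, .ofNat 0, .ofNat 0, .ofNat 0, .ofNat 0, .ofNat 0, .ofNat 0, .ofNat 0, .ofNat 2102903335598005756405355922768551375041200128, .ofNat 0, .ofNat 0⟩)
    (by decide +kernel)
theorem L01657 : Good (Phi V5.P V5.D (-1) (-1)) ⟨4, 10, 4, 3, 3, 7, 2, 3, 4, 1⟩ :=
  leafX_sound T5.ok_mm T5.Ymm.bz_eq (w := 225) (c := ⟨⟨.negSucc 1171, .negSucc 70, .ofNat 30, .ofNat 170, .ofNat 258, .negSucc 237⟩, ⟨.ofNat 256, .ofNat 30, .ofNat 67, .negSucc 43, .negSucc 53, .ofNat 65⟩, ⟨.ofNat 723, .ofNat 5, .ofNat 16, .negSucc 89, .negSucc 363, .negSucc 89⟩, ⟨.negSucc 2538, .negSucc 98, .ofNat 8, .ofNat 295, .ofNat 648, .negSucc 390⟩, ⟨.negSucc 1346, .negSucc 237, .negSucc 68, .negSucc 36, .ofNat 773, .ofNat 277⟩, .ofNat 622, .ofNat 806, .ofNat 0, .ofNat 806, .ofNat 3391,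 .ofNat 0, .ofNat 149, .negSucc 127, .negSucc 210, .ofNat 0, .ofNat 52, .ofNat 53, .ofNat 0, .ofNat 0, .ofNat 241, .ofNat 363, .ofNat 0, .ofNat 0, .ofNat 0, .ofNat 0, .ofNat 0, .ofNat 3138990196049659869506841478914423038322671616, .ofNat 0, .ofNat 0, .ofNat 0, .ofNat 818770462212587480081295902988269986143797248, .ofNat 0, .ofNat 0, .ofNat 0, .ofNat 0, .ofNat 0, .ofNat 0⟩)
    (by decide +kernel)

end Crest.Agent.R097C5.N5mm
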