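import Crest.Agent.R097.KP7
import Crest.Agent.R097.T5Ymm

/-!
# Row 97, box cover in dimension n = 5 (generated)
-/

set_option autoImplicit false
set_option Elab.async false
set_option maxHeartbeats 0
set_option maxRecDepth 100000

open Crest.Agent.R097 Crest.Agent.R097.KA


namespace Crest.Agent.R097C5.N5mm

theorem L01658 : Good (Phi V5.P V5.D (-1) (-1)) ⟨5, 22, 4, 2, 2, 2, 2, 2, 4, 1⟩ :=
  leafX_sound T5.ok_mm T5.Ymm.bz_eq (w := 215) (c := ⟨⟨.negSucc 1517, .negSucc 276, .ofNat 181, .ofNat 173, .negSucc 63, .negSucc 1227⟩, ⟨.ofNat 267, .ofNat 105, .ofNat 62, .negSucc 84, .ofNat 36, .ofNat 350⟩, ⟨.ofNat 949, .ofNat 223, .negSucc 131, .negSucc 314, .ofNat 66, .ofNat 860⟩, ⟨.negSucc 3004, .negSucc 374, .ofNat 296, .ofNat 167, .negSucc 37, .negSucc 2044⟩, ⟨.negSucc 1094, .negSucc 45, .ofNat 40, .negSucc 500, .ofNat 291, .ofNat 407⟩, .ofNat 747, .ofNat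 1117, .ofNat 0, .ofNat 1117, .ofNat 4215, .ofNat 0, .ofNat 135, .negSucc 127, .negSucc 286, .ofNat 0, .ofNat 67, .ofNat 83, .ofNat 0, .ofNat 0, .ofNat 385, .ofNat 196, .ofNat 0, .ofNat 0, .ofNat 0, .ofNat 0, .ofNat 0, .ofNat 0, .ofNat 0, .ofNat 0, .ofNat 0, .ofNat 0, .ofNat 0, .ofNat 0, .ofNat 0, .ofNat 0, .ofNat 0, .ofNat 0⟩)
    (by decide +kernel)
theorem L01659 : Good (Phi V5.P V5.D (-1) (-1)) ⟨5, 22, 4, 2, 2, 2, 3, 6, 4, 1⟩ :=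
  leafX_sound T5.ok_mm T5.Ymm.bz_eq (w := 220) (c := ⟨⟨.negSucc 1769, .negSucc 313, .ofNat 179, .negSucc 24, .ofNat 102, .negSucc 755⟩, ⟨.ofNat 357, .ofNat 121, .ofNat 54, .negSucc 30, .negSucc 11, .ofNat 221⟩, ⟨.ofNat 1216, .ofNat 268, .negSucc 138, .negSucc 191, .negSucc 120, .ofNat 440⟩, ⟨.negSucc 3330, .negSucc 440, .ofNat 283, .negSucc 165, .ofNat 222, .negSucc 1273⟩, ⟨.negSucc 637, .negSucc 63, .negSucc 50, .negSucc 525, .ofNat 207, .ofNat 272⟩, .ofNat 596, .ofNat 674, .ofNat 0, .ofNat 674, .ofNat 2693, .ofNat 0, .ofNat 185, .negSucc 127, .negSucc 383, .ofNat 0, .ofNat 76, .ofNat 108, .ofNat 0, .ofNat 0, .ofNat 475, .ofNat 776, .ofNat 0, .ofNat 0, .ofNat 0, .ofNat 0, .ofNat 0, .ofNat 0, .ofNat 0, .ofNat 0, .ofNat 0, .ofNat 0, .ofNat 0, .ofNat 0, .ofNat 0, .ofNat 0, .ofNat 0, .ofNat 0⟩)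
    (by decide +kernel)
theorem L01660 : Good (Phi V5.P V5.D (-1) (-1)) ⟨5, 22, 4, 2, 2, 2, 3, 7, 4, 1⟩ :=
  leafX_sound T5.ok_mm T5.Ymm.bz_eq (w := 220) (c := ⟨⟨.negSucc 1963, .negSucc 314, .ofNat 158, .negSucc 203, .ofNat 752, .negSucc 103⟩, ⟨.ofNat 420, .ofNat 117, .ofNat 45, .ofNat 26, .negSucc 172, .ofNat 57⟩, ⟨.ofNat 1346, .ofNat 238, .negSucc 125, .ofNat 7, .negSucc 697, .negSucc 152⟩, ⟨.negSucc 3665, .negSucc 442, .ofNat 250, .negSucc 459, .ofNat 1411, .negSucc 72⟩, ⟨.negSucc 628, .negSucc 22, .negSucc 31, .negSucc 386, .ofNat 363, .ofNat 438⟩, .ofNat 597, .ofNat 677, .ofNat 0, .ofNat 677, .ofNat 2699, .ofNat 0, .ofNat 169, .negSucc 127, .negSucc 529, .ofNat 0, .ofNat 79, .ofNat 146, .ofNat 0, .ofNat 0, .ofNat 612, .ofNat 664, .ofNat 0, .ofNat 0, .ofNat 0, .ofNat 0, .ofNat 0, .ofNat 28785219218262726217113483275545426477973504, .ofNat 0, .ofNat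 0, .ofNat 0, .ofNat 0, .ofNat 0, .ofNat 0, .ofNat 0, .ofNat 131711356783064607878047359466388016674635776, .ofNat 0, .ofNat 0⟩)
    (by decide +kernel)
theorem L01661 : Good (Phi V5.P V5.D (-1) (-1)) ⟨5, 22, 4, 2, 3, 6, 2, 2, 5, 2⟩ :=
  leafX_sound T5.ok_mm T5.Ymm.bz_eq (w := 235) (c := ⟨⟨.negSucc 631, .negSucc 172, .ofNat 299, .ofNat 441, .negSucc 573, .negSucc 1234⟩, ⟨.ofNat 33, .ofNat 32, .ofNat 6, .negSucc 122, .ofNat 169, .ofNat 327⟩, ⟨.ofNat 321, .ofNat 95, .negSucc 184, .negSucc 265, .ofNat 302, .ofNat 755⟩, ⟨.negSucc 1496, .negSucc 279, .ofNat 478, .ofNat 745, .negSucc 971, .negSucc 2169⟩, ⟨.negSucc 1506, .negSucc 68, .ofNat 59, .negSucc 119, .ofNat 161, .ofNat 0⟩, .ofNat 603, .ofNat 695, .ofNat 0, .ofNat 695, .ofNat 2754, .ofNat 0, .ofNat 136, .negSucc 127, .negSucc 598, .ofNat 0, .ofNat 65, .ofNat 167, .ofNat 0, .ofNat 0, .ofNat 595, .ofNat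 979, .ofNat 0, .ofNat 0, .ofNat 0, .ofNat 0, .ofNat 0, .ofNat 0, .ofNat 0, .ofNat 0, .ofNat 0, .ofNat 0, .ofNat 0, .ofNat 0, .ofNat 0, .ofNat 0, .ofNat 0, .ofNat 0⟩)
    (by decide +kernel)
theorem L01662 : Good (Phi V5.P V5.D (-1) (-1)) ⟨5, 22, 4, 2, 3, 7, 3, 4, 5, 2⟩ :=
  leafX_sound T5.ok_mm T5.Ymm.bz_eq (w := 239) (c := ⟨⟨.negSucc 609, .negSucc 121, .ofNat 185, .negSucc 371, .ofNat 48, .negSucc 907⟩, ⟨.ofNat 50, .ofNat 23, .ofNat 34, .ofNat 119, .negSucc 22, .ofNat 211⟩, ⟨.ofNat 419, .ofNat 86, .negSucc 72, .ofNat 233, .negSucc 85, .ofNat 407⟩, ⟨.negSucc 1383, .negSucc 181, .ofNat 295, .negSucc 576, .ofNat 23, .negSucc 1713⟩, ⟨.negSucc 1174, .negSucc 76, .ofNat 82, .ofNat 288, .negSucc 224, .negSucc 425⟩, .ofNat 601, .ofNat 687, .ofNat 0, .ofNat 687, .ofNat 2726, .ofNat 0, .ofNat 128, .negSucc 149, .negSucc 557, .ofNat 0, .ofNat 77, .ofNat 149,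 .ofNat 0, .ofNat 0, .ofNat 562, .ofNat 1451, .ofNat 0, .ofNat 0, .ofNat 0, .ofNat 0, .ofNat 0, .ofNat 0, .ofNat 0, .ofNat 0, .ofNat 0, .ofNat 0, .ofNat 0, .ofNat 0, .ofNat 0, .ofNat 0, .ofNat 0, .ofNat 0⟩)
    (by decide +kernel)
theorem L01663 : Good (Phi V5.P V5.D (-1) (-1)) ⟨5, 22, 4, 2, 3, 7, 3, 5, 5, 2⟩ :=
  leafX_sound T5.ok_mm T5.Ymm.bz_eq (w := 238) (c := ⟨⟨.negSucc 1015, .ofNat 30, .ofNat 43, .negSucc 75, .ofNat 36, .negSucc 487⟩, ⟨.ofNat 144, .negSucc 17, .ofNat 78, .ofNat 24, .negSucc 13, .ofNat 112⟩, ⟨.ofNat 634, .negSucc 24, .ofNat 23, .ofNat 60, .negSucc 102, .ofNat 136⟩, ⟨.negSucc 2118, .ofNat 52, .ofNat 39, .negSucc 121, .ofNat 37, .negSucc 929⟩, ⟨.negSucc 1293, .negSucc 157, .ofNat 29, .ofNat 43, .negSucc 66, .negSucc 238⟩, .ofNat 599, .ofNat 681, .ofNat 0, .ofNat 681, .ofNat 2707, .ofNat 0, .ofNat 152, .negSucc 127, .negSucc 628,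 .ofNat 0, .ofNat 66, .ofNat 168, .ofNat 0, .ofNat 0, .ofNat 615, .ofNat 895, .ofNat 0, .ofNat 0, .ofNat 0, .ofNat 0, .ofNat 0, .ofNat 0, .ofNat 0, .ofNat 0, .ofNat 0, .ofNat 0, .ofNat 0, .ofNat 0, .ofNat 0, .ofNat 0, .ofNat 0, .ofNat 0⟩)
    (by decide +kernel)
theorem L01664 : Good (Phi V5.P V5.D (-1) (-1)) ⟨5, 22, 4, 2, 2, 3, 3, 6, 5, 2⟩ :=
  leafX_sound T5.ok_mm T5.Ymm.bz_eq (w := 225) (c := ⟨⟨.negSucc 1803, .negSucc 75, .ofNat 117, .ofNat 711, .ofNat 119, .negSucc 229⟩, ⟨.ofNat 354, .ofNat 20, .ofNat 61, .negSucc 208, .negSucc 21, .ofNat 59⟩, ⟨.ofNat 1115, .ofNat 18, .negSucc 35, .negSucc 491, .negSucc 174, .negSucc 9⟩, ⟨.negSucc 3484, .negSucc 104, .ofNat 159, .ofNat 1162, .ofNat 240, .negSucc 430⟩, ⟨.negSucc 1218, .negSucc 108, .negSucc 10, .negSucc 326, .ofNat 176, .negSucc 32⟩, .ofNat 606, .ofNat 701, .ofNat 0, .ofNat 701, .ofNat 2752, .ofNat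 0, .ofNat 129, .negSucc 127, .negSucc 640, .ofNat 0, .ofNat 67, .ofNat 174, .ofNat 0, .ofNat 0, .ofNat 625, .ofNat 535, .ofNat 0, .ofNat 0, .ofNat 0, .ofNat 0, .ofNat 0, .ofNat 0, .ofNat 0, .ofNat 0, .ofNat 0, .ofNat 0, .ofNat 0, .ofNat 0, .ofNat 0, .ofNat 0, .ofNat 0, .ofNat 0⟩)
    (by decide +kernel)
theorem L01665 : Good (Phi V5.P V5.D (-1) (-1)) ⟨5, 22, 4, 2, 2, 3, 3, 7, 5, 2⟩ :=
  leafX_sound T5.ok_mm T5.Ymm.bz_eq (w := 225) (c := ⟨⟨.negSucc 2137, .negSucc 37, .ofNat 76, .ofNat 1075, .ofNat 334, .ofNat 85⟩, ⟨.ofNat 451, .ofNat 10, .ofNat 58, .negSucc 302, .negSucc 50, .negSucc 7⟩, ⟨.ofNat 1301, .negSucc 9, .negSucc 20, .negSucc 801, .negSucc 353, .negSucc 199⟩, ⟨.negSucc 4068, .negSucc 15, .ofNat 93, .ofNat 1802, .ofNat 720, .ofNat 199⟩, ⟨.negSucc 1184, .negSucc 39, .ofNat 14, .negSucc 292, .ofNat 520, .ofNat 197⟩, .ofNat 684, .ofNat 926, .ofNat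 0, .ofNat 926, .ofNat 3553, .ofNat 0, .ofNat 128, .negSucc 144, .negSucc 581, .ofNat 0, .ofNat 74, .ofNat 156, .ofNat 0, .ofNat 0, .ofNat 577, .ofNat 324, .ofNat 0, .ofNat 0, .ofNat 0, .ofNat 0, .ofNat 0, .ofNat 253818186984940246529426693198085419744362496, .ofNat 0, .ofNat 0, .ofNat 0, .ofNat 0, .ofNat 0, .ofNat 0, .ofNat 0, .ofNat 0, .ofNat 0, .ofNat 0⟩)
    (by decide +kernel)
theorem L01666 : Good (Phi V5.P V5.D (-1) (-1)) ⟨5, 22, 4, 2, 3, 6, 2, 2, 5, 3⟩ :=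
  leafX_sound T5.ok_mm T5.Ymm.bz_eq (w := 236) (c := ⟨⟨.negSucc 2408, .negSucc 234, .ofNat 132, .ofNat 647, .ofNat 294, .negSucc 382⟩, ⟨.ofNat 480, .ofNat 83, .ofNat 82, .negSucc 191, .negSucc 62, .ofNat 111⟩, ⟨.ofNat 1486, .ofNat 165, .negSucc 71, .negSucc 484, .negSucc 298, .ofNat 179⟩, ⟨.negSucc 4607, .negSucc 315, .ofNat 180, .ofNat 1042, .ofNat 560, .negSucc 654⟩, ⟨.negSucc 1308, .negSucc 51, .negSucc 19, .negSucc 344, .ofNat 189, .ofNat 71⟩, .ofNat 601, .ofNat 688, .ofNat 0, .ofNat 688, .ofNat 2730, .ofNat 0, .ofNat 128, .negSucc 147, .negSucc 571, .ofNat 0, .ofNat 77, .ofNat 163, .ofNat 0, .ofNat 0, .ofNat 637, .ofNat 1662, .ofNat 0, .ofNat 0, .ofNat 0, .ofNat 0, .ofNat 0, .ofNat 0, .ofNat 0, .ofNat 0, .ofNat 0, .ofNat 0, .ofNat 0, .ofNat 0, .ofNat 0, .ofNat 0, .ofNat 0, .ofNat 0⟩)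
    (by decide +kernel)
theorem L01667 : Good (Phi V5.P V5.D (-1) (-1)) ⟨5, 22, 4, 2, 3, 7, 3, 4, 5, 3⟩ :=
  leafX_sound T5.ok_mm T5.Ymm.bz_eq (w := 239) (c := ⟨⟨.negSucc 2124, .negSucc 20, .ofNat 187, .ofNat 290, .ofNat 285, .negSucc 117⟩, ⟨.ofNat 414, .ofNat 5, .ofNat 57, .negSucc 67, .negSucc 79, .ofNat 23⟩, ⟨.ofNat 1278, .ofNat 11, .negSucc 77, .negSucc 262, .negSucc 242, .negSucc 20⟩, ⟨.negSucc 4126, .ofNat 18, .ofNat 266, .ofNat 521, .ofNat 475, .negSucc 232⟩, ⟨.negSucc 1471, .negSucc 89, .negSucc 24, .ofNat 73, .negSucc 70, .negSucc 72⟩, .ofNat 594, .ofNat 668, .ofNat 0, .ofNat 668, .ofNat 2677, .ofNat 0, .ofNat 128, .negSucc 168, .negSucc 323, .ofNat 0, .ofNat 92, .ofNat 88, .ofNat 0, .ofNat 0, .ofNat 376, .ofNat 1748, .ofNat 0, .ofNat 0, .ofNat 0, .ofNat 0, .ofNat 0, .ofNat 0, .ofNat 0, .ofNat 0, .ofNat 0, .ofNat 0, .ofNat 0, .ofNat 0, .ofNat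 0, .ofNat 0, .ofNat 0, .ofNat 0⟩)
    (by decide +kernel)
theorem L01668 : Good (Phi V5.P V5.D (-1) (-1)) ⟨5, 22, 4, 2, 3, 7, 3, 5, 5, 3⟩ :=
  leafX_sound T5.ok_mm T5.Ymm.bz_eq (w := 239) (c := ⟨⟨.negSucc 1854, .negSucc 66, .ofNat 55, .ofNat 423, .ofNat 263, .negSucc 53⟩, ⟨.ofNat 341, .ofNat 14, .ofNat 85, .negSucc 114, .negSucc 60, .ofNat 19⟩, ⟨.ofNat 1039, .ofNat 32, .negSucc 8, .negSucc 280, .negSucc 229, .negSucc 80⟩, ⟨.negSucc 3689, .negSucc 73, .ofNat 51, .ofNat 731, .ofNat 484, .negSucc 69⟩, ⟨.negSucc 1631, .negSucc 66, .ofNat 44, .negSucc 31, .ofNat 101, .ofNat 106⟩, .ofNat 601, .ofNat 686, .ofNat 0, .ofNat 686, .ofNat 2718, .ofNat 0, .ofNat 128, .negSucc 136, .negSucc 281, .ofNat 0, .ofNat 73, .ofNat 77, .ofNat 0, .ofNat 0, .ofNat 319, .ofNat 1071, .ofNat 0, .ofNat 0, .ofNat 0, .ofNat 0, .ofNat 0, .ofNat 0, .ofNat 0, .ofNat 0, .ofNat 0, .ofNat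 0, .ofNat 0, .ofNat 0, .ofNat 0, .ofNat 0, .ofNat 0, .ofNat 0⟩)
    (by decide +kernel)
theorem L01669 : Good (Phi V5.P V5.D (-1) (-1)) ⟨5, 22, 4, 2, 2, 3, 2, 3, 5, 3⟩ :=
  leafX_sound T5.ok_mm T5.Ymm.bz_eq (w := 221) (c := ⟨⟨.negSucc 2431, .negSucc 28, .ofNat 12, .ofNat 1244, .ofNat 684, .ofNat 29⟩, ⟨.ofNat 514, .ofNat 18, .ofNat 85, .negSucc 349, .negSucc 122, .ofNat 5⟩, ⟨.ofNat 1434, .negSucc 21, .ofNat 18, .negSucc 865, .negSucc 626, .negSucc 127⟩, ⟨.negSucc 4635, .negSucc 5, .ofNat 2, .ofNat 2122, .ofNat 1441, .ofNat 104⟩, ⟨.negSucc 1281, .negSucc 53, .ofNat 18, .negSucc 335, .ofNat 933, .ofNat 210⟩, .ofNat 459, .ofNat 339, .ofNat 0, .ofNat 339, .ofNat 1507, .ofNat 0, .ofNat 329, .negSucc 127, .negSucc 394, .ofNat 0, .ofNat 89, .ofNat 103, .ofNat 0, .ofNat 0, .ofNat 424, .ofNat 464, .ofNat 0, .ofNat 0, .ofNat 0, .ofNat 0, .ofNat 0, .ofNat 285424201763617480650814379225311223828447232,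 .ofNat 0, .ofNat 0, .ofNat 0, .ofNat 108433918043164813707446606326783310343176192, .ofNat 0, .ofNat 0, .ofNat 0, .ofNat 0, .ofNat 0, .ofNat 0⟩)
    (by decide +kernel)
theorem L01670 : Good (Phi V5.P V5.D (-1) (-1)) ⟨5, 23, 4, 2, 2, 2, 2, 2, 5, 2⟩ :=
  leafX_sound T5.ok_mm T5.Ymm.bz_eq (w := 220) (c := ⟨⟨.negSucc 1439, .negSucc 296, .ofNat 375, .ofNat 430, .negSucc 664, .negSucc 1057⟩, ⟨.ofNat 254, .ofNat 122, .ofNat 2, .negSucc 191, .ofNat 225, .ofNat 330⟩, ⟨.ofNat 831, .ofNat 235, .negSucc 246, .negSucc 485, .ofNat 534, .ofNat 831⟩, ⟨.negSucc 2756, .negSucc 384, .ofNat 610, .ofNat 519, .negSucc 1047, .negSucc 1717⟩, ⟨.negSucc 1033, .ofNat 22, .ofNat 6, .negSucc 741, .ofNat 352, .ofNat 273⟩, .ofNat 572, .ofNat 578, .ofNat 0, .ofNat 578, .ofNat 2111, .ofNat 0, .ofNat 192, .negSucc 127, .negSucc 357, .ofNat 0, .ofNat 83, .ofNat 113, .ofNat 0, .ofNat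 0, .ofNat 420, .ofNat 346, .ofNat 0, .ofNat 0, .ofNat 0, .ofNat 0, .ofNat 0, .ofNat 0, .ofNat 0, .ofNat 0, .ofNat 0, .ofNat 0, .ofNat 0, .ofNat 0, .ofNat 0, .ofNat 0, .ofNat 0, .ofNat 0⟩)
    (by decide +kernel)
theorem L01671 : Good (Phi V5.P V5.D (-1) (-1)) ⟨5, 23, 4, 2, 2, 2, 2, 2, 5, 3⟩ :=
  leafX_sound T5.ok_mm T5.Ymm.bz_eq (w := 221) (c := ⟨⟨.negSucc 2747, .negSucc 414, .ofNat 179, .negSucc 167, .ofNat 179, .negSucc 201⟩, ⟨.ofNat 648, .ofNat 177, .ofNat 69, .negSucc 10, .negSucc 33, .ofNat 70⟩, ⟨.ofNat 1903, .ofNat 357, .negSucc 146, .negSucc 168, .negSucc 120, .ofNat 138⟩, ⟨.negSucc 4920, .negSucc 532, .ofNat 256, .negSucc 482, .ofNat 370, .negSucc 278⟩, ⟨.negSucc 702, .ofNat 31, .negSucc 50, .negSucc 685, .ofNat 228, .ofNat 213⟩, .ofNat 578, .ofNat 594, .ofNat 0, .ofNat 594, .ofNat 2141, .ofNat 0, .ofNat 128, .negSucc 129, .negSucc 317, .ofNat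 0, .ofNat 82, .ofNat 103, .ofNat 0, .ofNat 0, .ofNat 408, .ofNat 609, .ofNat 0, .ofNat 0, .ofNat 0, .ofNat 0, .ofNat 0, .ofNat 0, .ofNat 0, .ofNat 0, .ofNat 0, .ofNat 0, .ofNat 0, .ofNat 0, .ofNat 0, .ofNat 0, .ofNat 0, .ofNat 0⟩)
    (by decide +kernel)
theorem L01672 : Good (Phi V5.P V5.D (-1) (-1)) ⟨5, 23, 4, 2, 2, 2, 3, 6, 4, 1⟩ :=
  leafX_sound T5.ok_mm T5.Ymm.bz_eq (w := 219) (c := ⟨⟨.negSucc 2311, .negSucc 546, .ofNat 224, .negSucc 143, .ofNat 151, .negSucc 389⟩, ⟨.ofNat 531, .ofNat 209, .ofNat 45, .negSucc 12, .negSucc 28, .ofNat 146⟩, ⟨.ofNat 1673, .ofNat 469, .negSucc 189, .negSucc 143, .negSucc 135, .ofNat 132⟩, ⟨.negSucc 4147, .negSucc 789, .ofNat 328, .negSucc 408, .ofNat 307, .negSucc 567⟩, ⟨.negSucc 584, .negSucc 47, .negSucc 122, .negSucc 593, .ofNat 196, .ofNat 357⟩, .ofNat 576, .ofNat 590, .ofNat 0, .ofNat 590, .ofNat 2132, .ofNat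 0, .ofNat 145, .negSucc 127, .negSucc 589, .ofNat 0, .ofNat 86, .ofNat 184, .ofNat 0, .ofNat 0, .ofNat 689, .ofNat 303, .ofNat 0, .ofNat 0, .ofNat 0, .ofNat 0, .ofNat 0, .ofNat 0, .ofNat 3886934578682336920602327476389019648, .ofNat 0, .ofNat 0, .ofNat 0, .ofNat 0, .ofNat 0, .ofNat 0, .ofNat 0, .ofNat 0, .ofNat 0⟩)
    (by decide +kernel)
theorem L01673 : Good (Phi V5.P V5.D (-1) (-1)) ⟨5, 23, 4, 2, 2, 2, 3, 7, 4, 1⟩ :=
  leafX_sound T5.ok_mm T5.Ymm.bz_eq (w := 220) (c := ⟨⟨.negSucc 2426, .negSucc 333, .ofNat 274, .negSucc 209, .ofNat 890, .negSucc 36⟩, ⟨.ofNat 585, .ofNat 139, .ofNat 14, .ofNat 14, .negSucc 226, .ofNat 53⟩, ⟨.ofNat 1771, .ofNat 263, .negSucc 246, .negSucc 23, .negSucc 849, .negSucc 218⟩, ⟨.negSucc 4327, .negSucc 419, .ofNat 430, .negSucc 503, .ofNat 1601, .ofNat 61⟩, ⟨.negSucc 571, .ofNat 24, .negSucc 52, .negSucc 482, .ofNat 347,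 .ofNat 457⟩, .ofNat 610, .ofNat 671, .ofNat 0, .ofNat 671, .ofNat 2389, .ofNat 0, .ofNat 183, .negSucc 127, .negSucc 839, .ofNat 0, .ofNat 88, .ofNat 257, .ofNat 0, .ofNat 0, .ofNat 946, .ofNat 241, .ofNat 0, .ofNat 0, .ofNat 0, .ofNat 0, .ofNat 0, .ofNat 0, .ofNat 0, .ofNat 0, .ofNat 0, .ofNat 0, .ofNat 0, .ofNat 0, .ofNat 0, .ofNat 0, .ofNat 0, .ofNat 0⟩)
    (by decide +kernel)
theorem L01674 : Good (Phi V5.P V5.D (-1) (-1)) ⟨5, 23, 4, 2, 3, 6, 2, 2, 5, 2⟩ :=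
  leafX_sound T5.ok_mm T5.Ymm.bz_eq (w := 235) (c := ⟨⟨.negSucc 1139, .ofNat 57, .ofNat 407, .ofNat 757, .negSucc 560, .negSucc 1371⟩, ⟨.ofNat 160, .negSucc 42, .negSucc 31, .negSucc 233, .ofNat 182, .ofNat 391⟩, ⟨.ofNat 683, .negSucc 53, .negSucc 262, .negSucc 495, .ofNat 279, .ofNat 839⟩, ⟨.negSucc 2351, .ofNat 143, .ofNat 638, .ofNat 1242, .negSucc 937, .negSucc 2344⟩, ⟨.negSucc 1554, .ofNat 39, .ofNat 93, .negSucc 39, .ofNat 21, .negSucc 114⟩, .ofNat 567, .ofNat 566, .ofNat 0, .ofNat 566, .ofNat 2079, .ofNat 0, .ofNat 128, .negSucc 138, .negSucc 683, .ofNat 0, .ofNat 83, .ofNat 208, .ofNat 0, .ofNat 0, .ofNat 637, .ofNat 780, .ofNat 0, .ofNat 0, .ofNat 0, .ofNat 0, .ofNat 0, .ofNat 0, .ofNat 0, .ofNat 0, .ofNat 0, .ofNat 0, .ofNat 0, .ofNat 0, .ofNat 0, .ofNat 0, .ofNat 325052981842102383852589486983381392556032, .ofNat 0⟩)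
    (by decide +kernel)
theorem L01675 : Good (Phi V5.P V5.D (-1) (-1)) ⟨5, 23, 4, 2, 3, 6, 2, 2, 5, 3⟩ :=
  leafX_sound T5.ok_mm T5.Ymm.bz_eq (w := 236) (c := ⟨⟨.negSucc 2930, .negSucc 332, .ofNat 249, .ofNat 728, .ofNat 442, .negSucc 316⟩, ⟨.ofNat 652, .ofNat 117, .ofNat 54, .negSucc 244, .negSucc 109, .ofNat 104⟩, ⟨.ofNat 1898, .ofNat 234, .negSucc 185, .negSucc 565, .negSucc 428, .ofNat 133⟩, ⟨.negSucc 5402, .negSucc 438, .ofNat 360, .ofNat 1132, .ofNat 792, .negSucc 490⟩, ⟨.negSucc 1432, .ofNat 18, .negSucc 26, .negSucc 346, .ofNat 189, .ofNat 198⟩, .ofNat 570, .ofNat 575, .ofNat 0, .ofNat 575, .ofNat 2111, .ofNat 0, .ofNat 131, .negSucc 127, .negSucc 693, .ofNat 0, .ofNat 76, .ofNat 217, .ofNat 0, .ofNat 0, .ofNat 716, .ofNat 1089, .ofNat 0, .ofNat 0, .ofNat 0, .ofNat 0, .ofNat 0, .ofNat 0, .ofNat 123129660334304298512273852857930181771264,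 .ofNat 0, .ofNat 0, .ofNat 0, .ofNat 0, .ofNat 0, .ofNat 0, .ofNat 0, .ofNat 0, .ofNat 0⟩)
    (by decide +kernel)
theorem L01676 : Good (Phi V5.P V5.D (-1) (-1)) ⟨5, 23, 4, 2, 3, 7, 3, 4, 5, 2⟩ :=
  leafX_sound T5.ok_mm T5.Ymm.bz_eq (w := 239) (c := ⟨⟨.negSucc 758, .negSucc 196, .ofNat 126, .negSucc 356, .ofNat 41, .negSucc 826⟩, ⟨.ofNat 72, .ofNat 38, .ofNat 58, .ofNat 128, .negSucc 27, .ofNat 192⟩, ⟨.ofNat 555, .ofNat 119, .negSucc 21, .ofNat 210, .negSucc 104, .ofNat 339⟩, ⟨.negSucc 1638, .negSucc 303, .ofNat 186, .negSucc 524, .ofNat 11, .negSucc 1547⟩, ⟨.negSucc 1262, .negSucc 64, .ofNat 86, .ofNat 296, .negSucc 193, .negSucc 471⟩, .ofNat 569, .ofNat 572, .ofNat 0, .ofNat 572, .ofNat 2088, .ofNat 0, .ofNat 128, .negSucc 149, .negSucc 660, .ofNat 0, .ofNat 90, .ofNat 190, .ofNat 0, .ofNat 0, .ofNat 622, .ofNat 1151, .ofNat 0, .ofNat 0, .ofNat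 0, .ofNat 0, .ofNat 0, .ofNat 0, .ofNat 0, .ofNat 0, .ofNat 0, .ofNat 0, .ofNat 0, .ofNat 0, .ofNat 0, .ofNat 0, .ofNat 8832508460172597042190711276296338893963264, .ofNat 0⟩)
    (by decide +kernel)
theorem L01677 : Good (Phi V5.P V5.D (-1) (-1)) ⟨5, 23, 4, 2, 3, 7, 4, 10, 5, 2⟩ :=
  leafX_sound T5.ok_mm T5.Ymm.bz_eq (w := 243) (c := ⟨⟨.negSucc 884, .negSucc 223, .ofNat 104, .negSucc 133, .negSucc 45, .negSucc 588⟩, ⟨.ofNat 92, .ofNat 45, .ofNat 62, .ofNat 47, .ofNat 10, .ofNat 143⟩, ⟨.ofNat 544, .ofNat 125, .negSucc 18, .ofNat 97, .negSucc 9, .ofNat 194⟩, ⟨.negSucc 1885, .negSucc 364, .ofNat 158, .negSucc 191, .negSucc 107, .negSucc 1128⟩, ⟨.negSucc 1420, .negSucc 111, .ofNat 105, .ofNat 129, .negSucc 69, .negSucc 339⟩, .ofNat 573, .ofNat 583, .ofNat 0, .ofNat 583, .ofNat 2117, .ofNat 0, .ofNat 128, .negSucc 130, .negSucc 648, .ofNat 0, .ofNat 78,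 .ofNat 188, .ofNat 0, .ofNat 0, .ofNat 591, .ofNat 1086, .ofNat 0, .ofNat 0, .ofNat 510682314883677978180091797274854804160512, .ofNat 0, .ofNat 0, .ofNat 0, .ofNat 43658996606849019013631771891007760965304320, .ofNat 0, .ofNat 0, .ofNat 0, .ofNat 31532506518612357656593950577804626267996160, .ofNat 0, .ofNat 0, .ofNat 0, .ofNat 0, .ofNat 0⟩)
    (by decide +kernel)
theorem L01678 : Good (Phi V5.P V5.D (-1) (-1)) ⟨5, 23, 4, 2, 3, 7, 4, 11, 5, 2⟩ :=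
  leafX_sound T5.ok_mm T5.Ymm.bz_eq (w := 243) (c := ⟨⟨.negSucc 1336, .negSucc 76, .ofNat 118, .ofNat 160, .ofNat 11, .negSucc 314⟩, ⟨.ofNat 211, .ofNat 4, .ofNat 65, .negSucc 47, .negSucc 2, .ofNat 78⟩, ⟨.ofNat 806, .ofNat 29, .negSucc 30, .negSucc 109, .negSucc 48, .ofNat 44⟩, ⟨.negSucc 2689, .negSucc 106, .ofNat 160, .ofNat 257, .ofNat 18, .negSucc 576⟩, ⟨.negSucc 1501, .negSucc 78, .ofNat 50, .negSucc 37, .ofNat 9, .negSucc 135⟩, .ofNat 640, .ofNat 748, .ofNat 0, .ofNat 748, .ofNat 2628, .ofNat 0, .ofNat 128, .negSucc 134, .negSucc 675, .ofNat 0, .ofNat 76, .ofNat 198, .ofNat 0, .ofNat 0, .ofNat 627, .ofNat 1076, .ofNat 0, .ofNat 0, .ofNat 0, .ofNat 0, .ofNat 0, .ofNat 0, .ofNat 62248705484952763904845327719239652994973696, .ofNat 0, .ofNat 0, .ofNat 0, .ofNat 0, .ofNat 0, .ofNat 0, .ofNat 0, .ofNat 0, .ofNat 0⟩)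
    (by decide +kernel)
theorem L01679 : Good (Phi V5.P V5.D (-1) (-1)) ⟨5, 23, 4, 2, 3, 7, 3, 4, 5, 3⟩ :=
  leafX_sound T5.ok_mm T5.Ymm.bz_eq (w := 239) (c := ⟨⟨.negSucc 2231, .negSucc 77, .ofNat 52, .ofNat 445, .ofNat 347, .negSucc 129⟩, ⟨.ofNat 443, .ofNat 21, .ofNat 106, .negSucc 118, .negSucc 107, .ofNat 31⟩, ⟨.ofNat 1372, .ofNat 25, .negSucc 0, .negSucc 350, .negSucc 293, .negSucc 27⟩, ⟨.negSucc 4227, .negSucc 80, .ofNat 36, .ofNat 773, .ofNat 552, .negSucc 265⟩, ⟨.negSucc 1475, .negSucc 128, .negSucc 13, .ofNat 70, .negSucc 118, .negSucc 149⟩, .ofNat 638, .ofNat 743, .ofNat 0, .ofNat 743, .ofNat 2612, .ofNat 0, .ofNat 151, .negSucc 127, .negSucc 310, .ofNat 0, .ofNat 75, .ofNat 94, .ofNat 0, .ofNat 0, .ofNat 335, .ofNat 1369, .ofNat 0, .ofNat 0, .ofNat 0, .ofNat 0, .ofNat 0, .ofNat 0, .ofNat 0, .ofNat 0, .ofNat 0, .ofNat 0, .ofNat 0, .ofNat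 0, .ofNat 0, .ofNat 0, .ofNat 2311650094505694941408084358513600134905856, .ofNat 0⟩)
    (by decide +kernel)
theorem L01680 : Good (Phi V5.P V5.D (-1) (-1)) ⟨5, 23, 4, 2, 3, 7, 3, 5, 5, 3⟩ :=
  leafX_sound T5.ok_mm T5.Ymm.bz_eq (w := 239) (c := ⟨⟨.negSucc 2089, .negSucc 58, .ofNat 87, .ofNat 546, .ofNat 324, .ofNat 36⟩, ⟨.ofNat 407, .ofNat 5, .ofNat 81, .negSucc 160, .negSucc 81, .negSucc 2⟩, ⟨.ofNat 1191, .ofNat 21, .negSucc 24, .negSucc 366, .negSucc 281, .negSucc 139⟩, ⟨.negSucc 4018, .negSucc 60, .ofNat 100, .ofNat 914, .ofNat 578, .ofNat 80⟩, ⟨.negSucc 1648, .negSucc 95, .ofNat 22, .negSucc 22, .ofNat 130, .ofNat 67⟩, .ofNat 577, .ofNat 593, .ofNat 0, .ofNat 593, .ofNat 2131, .ofNat 0, .ofNat 226, .negSucc 127, .negSucc 376, .ofNat 0, .ofNat 78, .ofNat 113, .ofNat 0, .ofNat 0, .ofNat 402, .ofNat 1180, .ofNat 0, .ofNat 0, .ofNat 0, .ofNat 0,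 .ofNat 0, .ofNat 0, .ofNat 0, .ofNat 0, .ofNat 0, .ofNat 0, .ofNat 7628268878618167195103294872286321606393856, .ofNat 0, .ofNat 0, .ofNat 0, .ofNat 0, .ofNat 0⟩)
    (by decide +kernel)
theorem L01681 : Good (Phi V5.P V5.D (-1) (-1)) ⟨5, 23, 4, 2, 3, 6, 2, 3, 5, 2⟩ :=
  leafX_sound T5.ok_mm T5.Ymm.bz_eq (w := 236) (c := ⟨⟨.negSucc 2057, .negSucc 423, .ofNat 247, .ofNat 819, .ofNat 204, .negSucc 529⟩, ⟨.ofNat 423, .ofNat 132, .ofNat 29, .negSucc 265, .negSucc 10, .ofNat 163⟩, ⟨.ofNat 1308, .ofNat 311, .negSucc 161, .negSucc 660, .negSucc 323, .ofNat 260⟩, ⟨.negSucc 3889, .negSucc 626, .ofNat 384, .ofNat 1291, .ofNat 466, .negSucc 846⟩, ⟨.negSucc 1352, .ofNat 7, .ofNat 42, .negSucc 329, .ofNat 458, .ofNat 200⟩, .ofNat 577, .ofNat 595, .ofNat 0, .ofNat 595, .ofNat 2156, .ofNat 0, .ofNat 234, .negSucc 127, .negSucc 933, .ofNat 0, .ofNat 81, .ofNat 277,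 .ofNat 0, .ofNat 0, .ofNat 867, .ofNat 754, .ofNat 0, .ofNat 0, .ofNat 0, .ofNat 0, .ofNat 0, .ofNat 572957736068623180568007639266413113457558683648, .ofNat 0, .ofNat 0, .ofNat 0, .ofNat 0, .ofNat 0, .ofNat 0, .ofNat 0, .ofNat 0, .ofNat 0, .ofNat 0⟩)
    (by decide +kernel)
theorem L01682 : Good (Phi V5.P V5.D (-1) (-1)) ⟨5, 23, 4, 2, 3, 7, 3, 6, 5, 2⟩ :=
  leafX_sound T5.ok_mm T5.Ymm.bz_eq (w := 239) (c := ⟨⟨.negSucc 1547, .negSucc 10, .ofNat 90, .ofNat 372, .ofNat 202, .negSucc 87⟩, ⟨.ofNat 269, .negSucc 15, .ofNat 69, .negSucc 109, .negSucc 42, .ofNat 24⟩, ⟨.ofNat 886, .negSucc 18, .negSucc 4, .negSucc 227, .negSucc 240, .negSucc 78⟩, ⟨.negSucc 3060, .negSucc 0, .ofNat 137, .ofNat 620, .ofNat 369, .negSucc 160⟩, ⟨.negSucc 1558, .negSucc 83, .ofNat 108, .negSucc 29, .ofNat 130, .negSucc 20⟩, .ofNat 576, .ofNat 589, .ofNat 0, .ofNat 589, .ofNat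 2126, .ofNat 0, .ofNat 229, .negSucc 127, .negSucc 596, .ofNat 0, .ofNat 76, .ofNat 173, .ofNat 0, .ofNat 0, .ofNat 553, .ofNat 1359, .ofNat 0, .ofNat 0, .ofNat 0, .ofNat 0, .ofNat 0, .ofNat 0, .ofNat 6955245486486377009581770900233951855509504, .ofNat 0, .ofNat 0, .ofNat 0, .ofNat 5201327636869576124370791661520976684777472, .ofNat 0, .ofNat 0, .ofNat 0, .ofNat 0, .ofNat 0⟩)
    (by decide +kernel)
theorem L01683 : Good (Phi V5.P V5.D (-1) (-1)) ⟨5, 23, 4, 2, 3, 7, 3, 7, 5, 2⟩ :=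
  leafX_sound T5.ok_mm T5.Ymm.bz_eq (w := 239) (c := ⟨⟨.negSucc 1556, .ofNat 56, .ofNat 8, .ofNat 473, .ofNat 515, .ofNat 166⟩, ⟨.ofNat 283, .negSucc 30, .ofNat 74, .negSucc 134, .negSucc 91, .negSucc 21⟩, ⟨.ofNat 780, .negSucc 70, .ofNat 33, .negSucc 276, .negSucc 460, .negSucc 213⟩, ⟨.negSucc 3078, .ofNat 118, .negSucc 12, .ofNat 806, .ofNat 1046, .ofNat 361⟩, ⟨.negSucc 1539, .negSucc 35, .ofNat 57, .ofNat 10, .ofNat 621, .ofNat 276⟩, .ofNat 573, .ofNat 583, .ofNat 0, .ofNat 583, .ofNat 2117, .ofNat 0, .ofNat 395, .negSucc 127, .negSucc 630, .ofNat 0, .ofNat 78, .ofNat 179, .ofNat 0, .ofNat 0, .ofNat 592, .ofNat 853, .ofNat 0, .ofNat 0, .ofNat 0, .ofNat 0, .ofNat 0, .ofNat 0, .ofNat 0, .ofNat 0, .ofNat 0, .ofNat 1089966248394757805375620668180863573845866446848, .ofNat 0, .ofNat 0, .ofNat 0, .ofNat 0, .ofNat 0, .ofNat 0⟩)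
    (by decide +kernel)
theorem L01684 : Good (Phi V5.P V5.D (-1) (-1)) ⟨5, 23, 4, 2, 3, 6, 2, 3, 5, 3⟩ :=
  leafX_sound T5.ok_mm T5.Ymm.bz_eq (w := 235) (c := ⟨⟨.negSucc 2927, .negSucc 260, .ofNat 179, .ofNat 1016, .ofNat 1020, .ofNat 126⟩, ⟨.ofNat 677, .ofNat 91, .ofNat 55, .negSucc 328, .negSucc 217, .negSucc 16⟩, ⟨.ofNat 1840, .ofNat 161, .negSucc 117, .negSucc 822, .negSucc 921, .negSucc 214⟩, ⟨.negSucc 5332, .negSucc 360, .ofNat 258, .ofNat 1611, .ofNat 1959, .ofNat 278⟩, ⟨.negSucc 1169, .negSucc 90, .negSucc 33, .negSucc 355, .ofNat 818, .ofNat 216⟩, .ofNat 573, .ofNat 582, .ofNat 0, .ofNat 582, .ofNat 2098, .ofNat 0, .ofNat 230, .negSucc 127, .negSucc 430, .ofNat 0, .ofNat 80, .ofNat 131, .ofNat 0, .ofNat 0, .ofNat 438, .ofNat 562, .ofNat 0, .ofNat 0, .ofNat 0, .ofNat 0, .ofNat 0, .ofNat 775279453985676230432545715881005387054653112320, .ofNat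 213903369659287184586677643534836367884288, .ofNat 0, .ofNat 0, .ofNat 275592443722740480408275430282172452523168759808, .ofNat 0, .ofNat 0, .ofNat 0, .ofNat 0, .ofNat 223778601175630940085264640557738706862080, .ofNat 0⟩)
    (by decide +kernel)
theorem L01685 : Good (Phi V5.P V5.D (-1) (-1)) ⟨5, 23, 4, 2, 3, 7, 2, 3, 5, 3⟩ :=
  leafX_sound T5.ok_mm T5.Ymm.bz_eq (w := 235) (c := ⟨⟨.negSucc 1829, .ofNat 40, .negSucc 21, .ofNat 597, .ofNat 883, .ofNat 121⟩, ⟨.ofNat 346, .negSucc 25, .ofNat 90, .negSucc 176, .negSucc 161, .negSucc 8⟩, ⟨.ofNat 906, .negSucc 52, .ofNat 52, .negSucc 326, .negSucc 723, .negSucc 158⟩, ⟨.negSucc 3589, .ofNat 85, .negSucc 69, .ofNat 1021, .ofNat 1798, .ofNat 292⟩, ⟨.negSucc 1699, .negSucc 80, .ofNat 32, .ofNat 41, .ofNat 1053, .ofNat 291⟩, .ofNat 577, .ofNat 590, .ofNat 0, .ofNat 590, .ofNat 2109, .ofNat 0, .ofNat 238, .negSucc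 127, .negSucc 323, .ofNat 0, .ofNat 78, .ofNat 96, .ofNat 0, .ofNat 0, .ofNat 353, .ofNat 475, .ofNat 0, .ofNat 0, .ofNat 0, .ofNat 0, .ofNat 0, .ofNat 749726097303027952273498088874035465638283051008, .ofNat 518861139017689769919215992420582264143872, .ofNat 0, .ofNat 0, .ofNat 269488618329662537814634172157123976439051321344, .ofNat 0, .ofNat 0, .ofNat 0, .ofNat 0, .ofNat 0, .ofNat 0⟩)
    (by decide +kernel)
theorem L01686 : Good (Phi V5.P V5.D (-1) (-1)) ⟨4, 11, 4, 3, 2, 2, 2, 2, 4, 1⟩ :=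
  leafX_sound T5.ok_mm T5.Ymm.bz_eq (w := 211) (c := ⟨⟨.negSucc 1378, .negSucc 607, .ofNat 219, .ofNat 379, .negSucc 46, .negSucc 1471⟩, ⟨.ofNat 303, .ofNat 234, .ofNat 34, .negSucc 148, .ofNat 37, .ofNat 488⟩, ⟨.ofNat 860, .ofNat 476, .negSucc 180, .negSucc 441, .ofNat 32, .ofNat 1023⟩, ⟨.negSucc 2728, .negSucc 827, .ofNat 349, .ofNat 477, .negSucc 17, .negSucc 2502⟩, ⟨.negSucc 924, .negSucc 50, .negSucc 26, .negSucc 603, .ofNat 299, .ofNat 266⟩, .ofNat 490, .ofNat 427, .ofNat 0, .ofNat 427, .ofNat 1605, .ofNat 0, .ofNat 140, .negSucc 127, .negSucc 325, .ofNat 0, .ofNat 80, .ofNat 105, .ofNat 0, .ofNat 0, .ofNat 392, .ofNat 287, .ofNat 0, .ofNat 0, .ofNat 0, .ofNat 0, .ofNat 0, .ofNat 0, .ofNat 0, .ofNat 0, .ofNat 0, .ofNat 0, .ofNat 0, .ofNat 0, .ofNat 0, .ofNat 0, .ofNat 0, .ofNat 0⟩)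
    (by decide +kernel)
theorem L01687 : Good (Phi V5.P V5.D (-1) (-1)) ⟨4, 11, 4, 3, 3, 6, 2, 2, 5, 2⟩ :=
  leafX_sound T5.ok_mm T5.Ymm.bz_eq (w := 230) (c := ⟨⟨.negSucc 349, .negSucc 314, .ofNat 153, .ofNat 322, .negSucc 618, .negSucc 1265⟩, ⟨.ofNat 10, .ofNat 83, .ofNat 44, .negSucc 111, .ofNat 200, .ofNat 389⟩, ⟨.ofNat 113, .ofNat 220, .negSucc 57, .negSucc 151, .ofNat 344, .ofNat 774⟩, ⟨.negSucc 1036, .negSucc 462, .ofNat 229, .ofNat 538, .negSucc 1047, .negSucc 2241⟩, ⟨.negSucc 1352, .negSucc 72, .ofNat 35, .negSucc 40, .ofNat 118, .negSucc 179⟩, .ofNat 493, .ofNat 436, .ofNat 0, .ofNat 436, .ofNat 1651, .ofNat 0, .ofNat 161, .negSucc 127, .negSucc 470, .ofNat 0, .ofNat 72, .ofNat 142, .ofNat 0, .ofNat 0, .ofNat 439, .ofNat 601, .ofNat 0, .ofNat 0, .ofNat 0, .ofNat 0, .ofNat 0, .ofNat 0, .ofNat 0, .ofNat 0, .ofNat 0, .ofNat 0, .ofNat 0, .ofNat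 0, .ofNat 0, .ofNat 0, .ofNat 0, .ofNat 0⟩)
    (by decide +kernel)
theorem L01688 : Good (Phi V5.P V5.D (-1) (-1)) ⟨4, 11, 4, 3, 3, 7, 3, 4, 5, 2⟩ :=
  leafX_sound T5.ok_mm T5.Ymm.bz_eq (w := 234) (c := ⟨⟨.negSucc 355, .negSucc 233, .ofNat 70, .negSucc 405, .negSucc 35, .negSucc 905⟩, ⟨.ofNat 27, .ofNat 56, .ofNat 63, .ofNat 134, .ofNat 9, .ofNat 256⟩, ⟨.ofNat 316, .ofNat 160, .ofNat 11, .ofNat 275, .negSucc 32, .ofNat 369⟩, ⟨.negSucc 945, .negSucc 362, .ofNat 99, .negSucc 638, .negSucc 106, .negSucc 1732⟩, ⟨.negSucc 1072, .negSucc 124, .ofNat 81, .ofNat 225, .negSucc 113, .negSucc 486⟩, .ofNat 705, .ofNat 951, .ofNat 0, .ofNat 951, .ofNat 3176, .ofNat 0, .ofNat 128, .negSucc 190, .negSucc 466, .ofNat 0, .ofNat 88, .ofNat 144, .ofNat 0, .ofNat 0, .ofNat 453, .ofNat 1040, .ofNat 0, .ofNat 0, .ofNat 0, .ofNat 0, .ofNat 0, .ofNat 0, .ofNat 0, .ofNat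 0, .ofNat 0, .ofNat 0, .ofNat 0, .ofNat 0, .ofNat 0, .ofNat 0, .ofNat 0, .ofNat 0⟩)
    (by decide +kernel)
theorem L01689 : Good (Phi V5.P V5.D (-1) (-1)) ⟨4, 11, 4, 3, 3, 7, 3, 5, 5, 2⟩ :=
  leafX_sound T5.ok_mm T5.Ymm.bz_eq (w := 235) (c := ⟨⟨.negSucc 842, .negSucc 120, .ofNat 97, .negSucc 59, .ofNat 62, .negSucc 552⟩, ⟨.ofNat 165, .ofNat 16, .ofNat 57, .ofNat 22, .negSucc 19, .ofNat 163⟩, ⟨.ofNat 574, .ofNat 59, .negSucc 21, .ofNat 78, .negSucc 126, .ofNat 169⟩, ⟨.negSucc 1831, .negSucc 171, .ofNat 129, .negSucc 105, .ofNat 60, .negSucc 1038⟩, ⟨.negSucc 1220, .negSucc 99, .ofNat 27, .negSucc 13, .negSucc 88, .negSucc 224⟩, .ofNat 721, .ofNat 1003, .ofNat 0, .ofNat 1003, .ofNat 3356, .ofNat 0, .ofNat 128, .negSucc 197, .negSucc 530, .ofNat 0, .ofNat 88, .ofNat 163, .ofNat 0, .ofNat 0, .ofNat 507, .ofNat 1162, .ofNat 0, .ofNat 0, .ofNat 0, .ofNat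 0, .ofNat 0, .ofNat 0, .ofNat 0, .ofNat 0, .ofNat 0, .ofNat 0, .ofNat 0, .ofNat 0, .ofNat 0, .ofNat 0, .ofNat 0, .ofNat 0⟩)
    (by decide +kernel)
theorem L01690 : Good (Phi V5.P V5.D (-1) (-1)) ⟨4, 11, 4, 3, 3, 6, 2, 2, 5, 3⟩ :=
  leafX_sound T5.ok_mm T5.Ymm.bz_eq (w := 231) (c := ⟨⟨.negSucc 2255, .negSucc 561, .ofNat 189, .ofNat 682, .ofNat 275, .negSucc 409⟩, ⟨.ofNat 565, .ofNat 209, .ofNat 61, .negSucc 228, .negSucc 78, .ofNat 133⟩, ⟨.ofNat 1401, .ofNat 380, .negSucc 122, .negSucc 501, .negSucc 291, .ofNat 186⟩, ⟨.negSucc 4431, .negSucc 770, .ofNat 267, .ofNat 1118, .ofNat 540, .negSucc 661⟩, ⟨.negSucc 1520, .negSucc 79, .negSucc 35, .negSucc 115, .ofNat 266, .ofNat 139⟩, .ofNat 698, .ofNat 934, .ofNat 0, .ofNat 934, .ofNat 3139, .ofNat 0, .ofNat 128, .negSucc 188, .negSucc 565, .ofNat 0, .ofNat 90, .ofNat 184, .ofNat 0, .ofNat 0, .ofNat 614,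 .ofNat 741, .ofNat 0, .ofNat 0, .ofNat 0, .ofNat 0, .ofNat 0, .ofNat 0, .ofNat 0, .ofNat 0, .ofNat 0, .ofNat 0, .ofNat 0, .ofNat 0, .ofNat 0, .ofNat 0, .ofNat 0, .ofNat 0⟩)
    (by decide +kernel)
theorem L01691 : Good (Phi V5.P V5.D (-1) (-1)) ⟨4, 11, 4, 3, 3, 7, 3, 4, 5, 3⟩ :=
  leafX_sound T5.ok_mm T5.Ymm.bz_eq (w := 235) (c := ⟨⟨.negSucc 1847, .negSucc 189, .ofNat 78, .ofNat 326, .ofNat 214, .negSucc 190⟩, ⟨.ofNat 451, .ofNat 51, .ofNat 84, .negSucc 96, .negSucc 66, .ofNat 55⟩, ⟨.ofNat 1131, .ofNat 108, .negSucc 13, .negSucc 221, .negSucc 202, .negSucc 4⟩, ⟨.negSucc 3683, .negSucc 241, .ofNat 85, .ofNat 588, .ofNat 359, .negSucc 363⟩, ⟨.negSucc 1486, .negSucc 199, .negSucc 6, .ofNat 128, .ofNat 20, .negSucc 86⟩, .ofNat 700, .ofNat 941, .ofNat 0, .ofNat 941, .ofNat 3173, .ofNat 0, .ofNat 128, .negSucc 179, .negSucc 404, .ofNat 0, .ofNat 87, .ofNat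 126, .ofNat 0, .ofNat 0, .ofNat 451, .ofNat 1567, .ofNat 0, .ofNat 0, .ofNat 0, .ofNat 0, .ofNat 0, .ofNat 0, .ofNat 0, .ofNat 0, .ofNat 0, .ofNat 0, .ofNat 0, .ofNat 0, .ofNat 0, .ofNat 0, .ofNat 0, .ofNat 0⟩)
    (by decide +kernel)
theorem L01692 : Good (Phi V5.P V5.D (-1) (-1)) ⟨4, 11, 4, 3, 3, 7, 3, 5, 5, 3⟩ :=
  leafX_sound T5.ok_mm T5.Ymm.bz_eq (w := 235) (c := ⟨⟨.negSucc 1756, .negSucc 99, .ofNat 31, .ofNat 397, .ofNat 272, .negSucc 90⟩, ⟨.ofNat 424, .ofNat 19, .ofNat 91, .negSucc 119, .negSucc 76, .ofNat 34⟩, ⟨.ofNat 1002, .ofNat 38, .ofNat 6, .negSucc 238, .negSucc 238, .negSucc 65⟩, ⟨.negSucc 3566, .negSucc 86, .ofNat 22, .ofNat 696, .ofNat 504, .negSucc 143⟩, ⟨.negSucc 1606, .negSucc 122, .ofNat 67, .ofNat 51, .ofNat 131, .ofNat 33⟩, .ofNat 693, .ofNat 917, .ofNat 0, .ofNat 917, .ofNat 3075, .ofNat 0, .ofNat 128, .negSucc 168, .negSucc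 327, .ofNat 0, .ofNat 82, .ofNat 102, .ofNat 0, .ofNat 0, .ofNat 364, .ofNat 1092, .ofNat 0, .ofNat 0, .ofNat 0, .ofNat 0, .ofNat 0, .ofNat 0, .ofNat 0, .ofNat 0, .ofNat 0, .ofNat 0, .ofNat 0, .ofNat 0, .ofNat 0, .ofNat 0, .ofNat 0, .ofNat 0⟩)
    (by decide +kernel)
theorem L01693 : Good (Phi V5.P V5.D (-1) (-1)) ⟨4, 11, 4, 3, 2, 2, 3, 6, 4, 1⟩ :=
  leafX_sound T5.ok_mm T5.Ymm.bz_eq (w := 215) (c := ⟨⟨.negSucc 1794, .negSucc 650, .ofNat 212, .ofNat 22, .ofNat 197, .negSucc 617⟩, ⟨.ofNat 451, .ofNat 266, .ofNat 35, .negSucc 36, .negSucc 52, .ofNat 210⟩, ⟨.ofNat 1252, .ofNat 508, .negSucc 179, .negSucc 217, .negSucc 169, .ofNat 306⟩, ⟨.negSucc 3376, .negSucc 907, .ofNat 278, .negSucc 112, .ofNat 388, .negSucc 1001⟩, ⟨.negSucc 605, .negSucc 113, .negSucc 174, .negSucc 536, .ofNat 192, .ofNat 293⟩, .ofNat 696, .ofNat 930, .ofNat 0, .ofNat 930, .ofNat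 3129, .ofNat 0, .ofNat 128, .negSucc 129, .negSucc 364, .ofNat 0, .ofNat 68, .ofNat 118, .ofNat 0, .ofNat 0, .ofNat 444, .ofNat 187, .ofNat 0, .ofNat 0, .ofNat 0, .ofNat 0, .ofNat 0, .ofNat 0, .ofNat 0, .ofNat 0, .ofNat 0, .ofNat 0, .ofNat 0, .ofNat 0, .ofNat 0, .ofNat 0, .ofNat 0, .ofNat 0⟩)
    (by decide +kernel)
theorem L01694 : Good (Phi V5.P V5.D (-1) (-1)) ⟨4, 11, 4, 3, 2, 2, 3, 7, 4, 1⟩ :=
  leafX_sound T5.ok_mm T5.Ymm.bz_eq (w := 216) (c := ⟨⟨.negSucc 1736, .negSucc 588, .ofNat 118, .ofNat 9, .ofNat 768, .negSucc 379⟩, ⟨.ofNat 444, .ofNat 242, .ofNat 52, .negSucc 22, .negSucc 221, .ofNat 133⟩, ⟨.ofNat 1156, .ofNat 467, .negSucc 97, .negSucc 149, .negSucc 743, .ofNat 79⟩, ⟨.negSucc 3229, .negSucc 879, .ofNat 171, .negSucc 145, .ofNat 1442, .negSucc 563⟩, ⟨.negSucc 562, .negSucc 175, .negSucc 47, .negSucc 489, .ofNat 402, .ofNat 476⟩, .ofNat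 493, .ofNat 437, .ofNat 0, .ofNat 437, .ofNat 1649, .ofNat 0, .ofNat 171, .negSucc 127, .negSucc 734, .ofNat 0, .ofNat 88, .ofNat 223, .ofNat 0, .ofNat 0, .ofNat 832, .ofNat 407, .ofNat 0, .ofNat 0, .ofNat 0, .ofNat 0, .ofNat 0, .ofNat 0, .ofNat 0, .ofNat 0, .ofNat 0, .ofNat 0, .ofNat 0, .ofNat 0, .ofNat 0, .ofNat 0, .ofNat 0, .ofNat 0⟩)
    (by decide +kernel)
theorem L01695 : Good (Phi V5.P V5.D (-1) (-1)) ⟨4, 11, 4, 3, 2, 3, 3, 6, 5, 2⟩ :=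
  leafX_sound T5.ok_mm T5.Ymm.bz_eq (w := 221) (c := ⟨⟨.negSucc 1703, .negSucc 213, .ofNat 89, .ofNat 783, .ofNat 113, .negSucc 247⟩, ⟨.ofNat 425, .ofNat 60, .ofNat 64, .negSucc 256, .negSucc 26, .ofNat 79⟩, ⟨.ofNat 1083, .ofNat 91, .negSucc 20, .negSucc 515, .negSucc 181, .ofNat 1⟩, ⟨.negSucc 3371, .negSucc 309, .ofNat 122, .ofNat 1299, .ofNat 229, .negSucc 428⟩, ⟨.negSucc 1357, .negSucc 143, .ofNat 41, .negSucc 141, .ofNat 177, .ofNat 56⟩, .ofNat 596, .ofNat 673, .ofNat 0, .ofNat 673, .ofNat 2358, .ofNat 0, .ofNat 128, .negSucc 160, .negSucc 652, .ofNat 0, .ofNat 80, .ofNat 197, .ofNat 0, .ofNat 0, .ofNat 612, .ofNat 714, .ofNat 0, .ofNat 0, .ofNat 0, .ofNat 0, .ofNat 0, .ofNat 0, .ofNat 0, .ofNat 0, .ofNat 0, .ofNat 0, .ofNat 0, .ofNat 0, .ofNat 0, .ofNat 0, .ofNat 0, .ofNat 0⟩)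
    (by decide +kernel)
theorem L01696 : Good (Phi V5.P V5.D (-1) (-1)) ⟨4, 11, 4, 3, 2, 3, 3, 7, 5, 2⟩ :=
  leafX_sound T5.ok_mm T5.Ymm.bz_eq (w := 221) (c := ⟨⟨.negSucc 1931, .negSucc 32, .ofNat 10, .ofNat 1042, .ofNat 353, .negSucc 101⟩, ⟨.ofNat 494, .ofNat 25, .ofNat 89, .negSucc 334, .negSucc 92, .ofNat 43⟩, ⟨.ofNat 1203, .negSucc 74, .ofNat 37, .negSucc 760, .negSucc 371, .negSucc 78⟩, ⟨.negSucc 3761, .ofNat 4, .negSucc 27, .ofNat 1807, .ofNat 782, .negSucc 107⟩, ⟨.negSucc 1262, .negSucc 182, .negSucc 94, .ofNat 104, .ofNat 606, .ofNat 218⟩, .ofNat 705, .ofNat 952, .ofNat 0, .ofNat 952, .ofNat 3183, .ofNat 0, .ofNat 128, .negSucc 128, .negSucc 401, .ofNat 0, .ofNat 61, .ofNat 123, .ofNat 0, .ofNat 0, .ofNat 386, .ofNat 407, .ofNat 0, .ofNat 0, .ofNat 0, .ofNat 0, .ofNat 0, .ofNat 21398718205662163795364888077034106585612288, .ofNat 0, .ofNat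 0, .ofNat 0, .ofNat 4232820030801877300548375612599257987547136, .ofNat 0, .ofNat 0, .ofNat 0, .ofNat 0, .ofNat 0, .ofNat 0⟩)
    (by decide +kernel)
theorem L01697 : Good (Phi V5.P V5.D (-1) (-1)) ⟨4, 11, 4, 3, 2, 3, 3, 6, 5, 3⟩ :=
  leafX_sound T5.ok_mm T5.Ymm.bz_eq (w := 221) (c := ⟨⟨.negSucc 2380, .negSucc 3, .ofNat 51, .ofNat 1289, .ofNat 230, .negSucc 45⟩, ⟨.ofNat 627, .ofNat 13, .ofNat 82, .negSucc 413, .negSucc 55, .ofNat 25⟩, ⟨.ofNat 1420, .negSucc 80, .ofNat 0, .negSucc 863, .negSucc 229, .negSucc 92⟩, ⟨.negSucc 4584, .ofNat 79, .ofNat 75, .ofNat 2185, .ofNat 512, .negSucc 2⟩, ⟨.negSucc 1433, .negSucc 82, .ofNat 79, .negSucc 38, .ofNat 361, .ofNat 194⟩, .ofNat 600, .ofNat 686, .ofNat 0, .ofNat 686, .ofNat 2407, .ofNat 0, .ofNat 137, .negSucc 127, .negSucc 293, .ofNat 0, .ofNat 65, .ofNat 90, .ofNat 0, .ofNat 0, .ofNat 314, .ofNat 394, .ofNat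 0, .ofNat 0, .ofNat 0, .ofNat 0, .ofNat 0, .ofNat 0, .ofNat 0, .ofNat 0, .ofNat 0, .ofNat 0, .ofNat 0, .ofNat 0, .ofNat 0, .ofNat 0, .ofNat 0, .ofNat 0⟩)
    (by decide +kernel)
theorem L01698 : Good (Phi V5.P V5.D (-1) (-1)) ⟨4, 11, 4, 3, 2, 3, 3, 7, 5, 3⟩ :=
  leafX_sound T5.ok_mm T5.Ymm.bz_eq (w := 221) (c := ⟨⟨.negSucc 2168, .ofNat 100, .ofNat 31, .ofNat 1262, .ofNat 467, .ofNat 46⟩, ⟨.ofNat 585, .negSucc 11, .ofNat 65, .negSucc 399, .negSucc 126, .ofNat 6⟩, ⟨.ofNat 1143, .negSucc 112, .ofNat 11, .negSucc 790, .negSucc 404, .negSucc 135⟩, ⟨.negSucc 4176, .ofNat 293, .ofNat 43, .ofNat 2228, .ofNat 1022, .ofNat 201⟩, ⟨.negSucc 1337, .ofNat 54, .ofNat 64, .ofNat 243, .ofNat 754, .ofNat 390⟩, .ofNat 696, .ofNat 921, .ofNat 0, .ofNat 921, .ofNat 3052, .ofNat 0, .ofNat 128, .negSucc 180, .negSucc 433, .ofNat 0, .ofNat 88, .ofNat 136, .ofNat 0, .ofNat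 0, .ofNat 471, .ofNat 301, .ofNat 0, .ofNat 0, .ofNat 0, .ofNat 0, .ofNat 0, .ofNat 21434455995933443022278432321296106229071872, .ofNat 0, .ofNat 0, .ofNat 0, .ofNat 23143603417270362035517562482146677908045824, .ofNat 0, .ofNat 0, .ofNat 0, .ofNat 0, .ofNat 0, .ofNat 0⟩)
    (by decide +kernel)
theorem L01699 : Good (Phi V5.P V5.D (-1) (-1)) ⟨3, 5, 3, 1, 2, 2, 2, 2, 4, 2⟩ :=
  leafX_sound T5.ok_mm T5.Ymm.bz_eq (w := 205) (c := ⟨⟨.negSucc 2619, .negSucc 826, .ofNat 148, .ofNat 189, .ofNat 379, .ofNat 279⟩, ⟨.ofNat 510, .ofNat 397, .ofNat 192, .negSucc 95, .negSucc 91, .negSucc 73⟩, ⟨.ofNat 1846, .ofNat 665, .negSucc 140, .negSucc 503, .negSucc 355, .negSucc 225⟩, ⟨.negSucc 5083, .negSucc 882, .ofNat 217, .ofNat 150, .ofNat 736, .ofNat 535⟩, ⟨.negSucc 689, .negSucc 7, .negSucc 38, .negSucc 566, .ofNat 313, .ofNat 289⟩, .ofNat 476, .ofNat 385, .ofNat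 0, .ofNat 385, .ofNat 1670, .ofNat 0, .ofNat 174, .negSucc 127, .negSucc 209, .ofNat 0, .ofNat 86, .ofNat 62, .ofNat 0, .ofNat 0, .ofNat 374, .ofNat 746, .ofNat 0, .ofNat 0, .ofNat 0, .ofNat 0, .ofNat 0, .ofNat 0, .ofNat 0, .ofNat 0, .ofNat 0, .ofNat 0, .ofNat 0, .ofNat 0, .ofNat 0, .ofNat 0, .ofNat 0, .ofNat 0⟩)
    (by decide +kernel)
theorem L01700 : Good (Phi V5.P V5.D (-1) (-1)) ⟨3, 5, 3, 1, 3, 6, 2, 2, 5, 4⟩ :=
  leafX_sound T5.ok_mm T5.Ymm.bz_eq (w := 224) (c := ⟨⟨.negSucc 2508, .negSucc 649, .ofNat 175, .ofNat 540, .ofNat 475, .ofNat 109⟩, ⟨.ofNat 466, .ofNat 268, .ofNat 184, .negSucc 154, .negSucc 108, .negSucc 22⟩, ⟨.ofNat 1527, .ofNat 423, .negSucc 129, .negSucc 426, .negSucc 457, .negSucc 158⟩, ⟨.negSucc 5000, .negSucc 742, .ofNat 214, .ofNat 899, .ofNat 932, .ofNat 222⟩, ⟨.negSucc 1338, .negSucc 146, .negSucc 40, .negSucc 188, .ofNat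 360, .ofNat 206⟩, .ofNat 474, .ofNat 377, .ofNat 0, .ofNat 377, .ofNat 1651, .ofNat 0, .ofNat 128, .negSucc 134, .negSucc 256, .ofNat 0, .ofNat 86, .ofNat 74, .ofNat 0, .ofNat 0, .ofNat 353, .ofNat 705, .ofNat 0, .ofNat 0, .ofNat 0, .ofNat 0, .ofNat 0, .ofNat 0, .ofNat 0, .ofNat 0, .ofNat 0, .ofNat 0, .ofNat 0, .ofNat 0, .ofNat 0, .ofNat 0, .ofNat 0, .ofNat 0⟩)
    (by decide +kernel)
theorem L01701 : Good (Phi V5.P V5.D (-1) (-1)) ⟨4, 10, 3, 1, 3, 7, 2, 2, 5, 4⟩ :=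
  leafX_sound T5.ok_mm T5.Ymm.bz_eq (w := 228) (c := ⟨⟨.negSucc 2035, .negSucc 60, .ofNat 61, .ofNat 319, .ofNat 504, .ofNat 88⟩, ⟨.ofNat 361, .ofNat 36, .ofNat 169, .negSucc 76, .negSucc 111, .negSucc 9⟩, ⟨.ofNat 1113, .ofNat 4, .ofNat 12, .negSucc 229, .negSucc 414, .negSucc 117⟩, ⟨.negSucc 4180, .negSucc 7, .ofNat 39, .ofNat 605, .ofNat 1012, .ofNat 196⟩, ⟨.negSucc 1522, .negSucc 170, .ofNat 84, .ofNat 57, .ofNat 346, .ofNat 144⟩, .ofNat 480, .ofNat 390, .ofNat 0, .ofNat 390, .ofNat 1914, .ofNat 0, .ofNat 185, .negSucc 127, .negSucc 157, .ofNat 0, .ofNat 82, .ofNat 38, .ofNat 0, .ofNat 0, .ofNat 258, .ofNat 1281, .ofNat 0, .ofNat 0, .ofNat 0, .ofNat 0, .ofNat 0, .ofNat 0, .ofNat 0, .ofNat 0, .ofNat 0, .ofNat 0, .ofNat 0, .ofNat 0, .ofNat 0, .ofNat 0, .ofNat 0, .ofNat 0⟩)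
    (by decide +kernel)
theorem L01702 : Good (Phi V5.P V5.D (-1) (-1)) ⟨4, 11, 3, 1, 3, 7, 2, 2, 5, 4⟩ :=
  leafX_sound T5.ok_mm T5.Ymm.bz_eq (w := 228) (c := ⟨⟨.negSucc 2373, .negSucc 47, .ofNat 110, .ofNat 550, .ofNat 688, .ofNat 154⟩, ⟨.ofNat 495, .ofNat 2, .ofNat 176, .negSucc 154, .negSucc 181, .negSucc 38⟩, ⟨.ofNat 1351, .ofNat 5, .negSucc 40, .negSucc 376, .negSucc 567, .negSucc 177⟩, ⟨.negSucc 4586, .ofNat 26, .ofNat 117, .ofNat 949, .ofNat 1247, .ofNat 298⟩, ⟨.negSucc 1649, .negSucc 82, .ofNat 119, .ofNat 27, .ofNat 238, .ofNat 114⟩, .ofNat 556, .ofNat 564, .ofNat 0, .ofNat 564, .ofNat 2082, .ofNat 0, .ofNat 168, .negSucc 127, .negSucc 200, .ofNat 0, .ofNat 78, .ofNat 61, .ofNat 0, .ofNat 0, .ofNat 298, .ofNat 951, .ofNat 0, .ofNat 0, .ofNat 0, .ofNat 0, .ofNat 0, .ofNat 0, .ofNat 774359529038718685709715745743417632620544, .ofNat 0, .ofNat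 0, .ofNat 0, .ofNat 0, .ofNat 0, .ofNat 0, .ofNat 0, .ofNat 1524060463479508653568981193115361012088832, .ofNat 0⟩)
    (by decide +kernel)
theorem L01703 : Good (Phi V5.P V5.D (-1) (-1)) ⟨4, 10, 3, 1, 2, 3, 2, 2, 5, 5⟩ :=
  leafX_sound T5.ok_mm T5.Ymm.bz_eq (w := 214) (c := ⟨⟨.negSucc 2375, .negSucc 99, .ofNat 54, .ofNat 808, .ofNat 434, .ofNat 125⟩, ⟨.ofNat 447, .ofNat 65, .ofNat 180, .negSucc 201, .negSucc 95, .negSucc 27⟩, ⟨.ofNat 1348, .ofNat 23, .negSucc 33, .negSucc 595, .negSucc 417, .negSucc 147⟩, ⟨.negSucc 4792, .negSucc 20, .ofNat 39, .ofNat 1469, .ofNat 924, .ofNat 286⟩, ⟨.negSucc 1306, .negSucc 67, .ofNat 84, .negSucc 203, .ofNat 484, .ofNat 233⟩, .ofNat 482, .ofNat 394, .ofNat 0, .ofNat 394, .ofNat 1953, .ofNat 0, .ofNat 170, .negSucc 127, .negSucc 117, .ofNat 0, .ofNat 84, .ofNat 29, .ofNat 0, .ofNat 0, .ofNat 263, .ofNat 735, .ofNat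 0, .ofNat 0, .ofNat 0, .ofNat 0, .ofNat 0, .ofNat 0, .ofNat 0, .ofNat 0, .ofNat 0, .ofNat 0, .ofNat 0, .ofNat 0, .ofNat 0, .ofNat 0, .ofNat 0, .ofNat 0⟩)
    (by decide +kernel)
theorem L01704 : Good (Phi V5.P V5.D (-1) (-1)) ⟨4, 11, 3, 1, 2, 3, 2, 2, 5, 5⟩ :=
  leafX_sound T5.ok_mm T5.Ymm.bz_eq (w := 213) (c := ⟨⟨.negSucc 2804, .negSucc 143, .ofNat 112, .ofNat 1176, .ofNat 623, .ofNat 212⟩, ⟨.ofNat 623, .ofNat 67, .ofNat 178, .negSucc 358, .negSucc 156, .negSucc 45⟩, ⟨.ofNat 1663, .ofNat 78, .negSucc 81, .negSucc 865, .negSucc 591, .negSucc 226⟩, ⟨.negSucc 5248, .negSucc 57, .ofNat 125, .ofNat 1933, .ofNat 1149, .ofNat 401⟩, ⟨.negSucc 1290, .negSucc 42, .ofNat 114, .negSucc 282, .ofNat 325, .ofNat 134⟩, .ofNat 631, .ofNat 755, .ofNat 0, .ofNat 755, .ofNat 2720, .ofNat 0, .ofNat 169, .negSucc 127, .negSucc 111, .ofNat 0, .ofNat 75, .ofNat 35, .ofNat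 0, .ofNat 0, .ofNat 233, .ofNat 347, .ofNat 0, .ofNat 0, .ofNat 0, .ofNat 0, .ofNat 0, .ofNat 0, .ofNat 0, .ofNat 0, .ofNat 0, .ofNat 0, .ofNat 0, .ofNat 0, .ofNat 0, .ofNat 0, .ofNat 16269288108946433364055075669682421760, .ofNat 0⟩)
    (by decide +kernel)
theorem L01705 : Good (Phi V5.P V5.D (-1) (-1)) ⟨3, 5, 3, 1, 2, 2, 2, 2, 4, 3⟩ :=
  leafX_sound T5.ok_mm T5.Ymm.bz_eq (w := 204) (c := ⟨⟨.negSucc 2492, .negSucc 436, .ofNat 68, .ofNat 229, .ofNat 426, .ofNat 389⟩, ⟨.ofNat 479, .ofNat 274, .ofNat 176, .negSucc 80, .negSucc 96, .negSucc 93⟩, ⟨.ofNat 1894, .ofNat 294, .negSucc 89, .negSucc 660, .negSucc 529, .negSucc 335⟩, ⟨.negSucc 4858, .negSucc 254, .ofNat 75, .ofNat 311, .ofNat 863, .ofNat 736⟩, ⟨.negSucc 608, .negSucc 21, .negSucc 29, .negSucc 317, .ofNat 385, .ofNat 196⟩, .ofNat 479, .ofNat 393, .ofNat 0, .ofNat 393, .ofNat 1728, .ofNat 0,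 .ofNat 128, .negSucc 148, .negSucc 129, .ofNat 0, .ofNat 105, .ofNat 38, .ofNat 0, .ofNat 0, .ofNat 394, .ofNat 521, .ofNat 0, .ofNat 0, .ofNat 0, .ofNat 0, .ofNat 0, .ofNat 0, .ofNat 5613939059702400683132789534742282240, .ofNat 0, .ofNat 0, .ofNat 0, .ofNat 0, .ofNat 0, .ofNat 0, .ofNat 0, .ofNat 0, .ofNat 0⟩)
    (by decide +kernel)
theorem L01706 : Good (Phi V5.P V5.D (-1) (-1)) ⟨3, 5, 3, 1, 2, 3, 2, 2, 5, 6⟩ :=
  leafX_sound T5.ok_mm T5.Ymm.bz_eq (w := 209) (c := ⟨⟨.negSucc 2266, .negSucc 95, .ofNat 31, .ofNat 845, .ofNat 359, .ofNat 124⟩, ⟨.ofNat 426, .ofNat 97, .ofNat 181, .negSucc 222, .negSucc 70, .negSucc 11⟩, ⟨.ofNat 1258, .negSucc 37, .negSucc 36, .negSucc 662, .negSucc 404, .negSucc 108⟩, ⟨.negSucc 4550, .ofNat 131, .ofNat 0, .ofNat 1515, .ofNat 833, .ofNat 326⟩, ⟨.negSucc 1310, .negSucc 137, .ofNat 47, .ofNat 34, .ofNat 760, .ofNat 331⟩,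 .ofNat 477, .ofNat 388, .ofNat 0, .ofNat 388, .ofNat 1692, .ofNat 0, .ofNat 193, .negSucc 127, .negSucc 82, .ofNat 0, .ofNat 98, .ofNat 22, .ofNat 0, .ofNat 0, .ofNat 316, .ofNat 630, .ofNat 0, .ofNat 0, .ofNat 0, .ofNat 0, .ofNat 0, .ofNat 87593201822621528345847615396116070137856, .ofNat 298090063099936323823763308033947467776, .ofNat 0, .ofNat 0, .ofNat 0, .ofNat 0, .ofNat 0, .ofNat 0, .ofNat 12284275523065001032688136386716654108672, .ofNat 110974273294543992128014326329201655808, .ofNat 0⟩)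
    (by decide +kernel)
theorem L01707 : Good (Phi V5.P V5.D (-1) (-1)) ⟨3, 5, 3, 1, 2, 3, 2, 2, 5, 7⟩ :=
  leafX_sound T5.ok_mm T5.Ymm.bz_eq (w := 208) (c := ⟨⟨.negSucc 2022, .negSucc 78, .ofNat 4, .ofNat 709, .ofNat 324, .ofNat 114⟩, ⟨.ofNat 384, .ofNat 101, .ofNat 167, .negSucc 186, .negSucc 56, .negSucc 26⟩, ⟨.ofNat 1094, .negSucc 69, .negSucc 39, .negSucc 617, .negSucc 521, .negSucc 149⟩, ⟨.negSucc 4075, .ofNat 166, .negSucc 23, .ofNat 1319, .ofNat 784, .ofNat 284⟩, ⟨.negSucc 1141, .negSucc 127, .ofNat 122, .ofNat 190, .ofNat 758, .ofNat 271⟩, .ofNat 474, .ofNat 378, .ofNat 0, .ofNat 378, .ofNat 1657, .ofNat 0, .ofNat 267, .negSucc 127, .negSucc 51, .ofNat 0, .ofNat 106, .ofNat 11, .ofNat 0, .ofNat 0, .ofNat 401, .ofNat 212, .ofNat 0, .ofNat 0, .ofNat 0, .ofNat 0, .ofNat 0, .ofNat 0, .ofNat 0, .ofNat 0, .ofNat 0, .ofNat 77104619965555231483841154363545127747584,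 .ofNat 0, .ofNat 0, .ofNat 0, .ofNat 155002533761630144632341377281870188773376, .ofNat 118045389641561899467292580133803655168, .ofNat 0⟩)
    (by decide +kernel)
theorem L01708 : Good (Phi V5.P V5.D (-1) (-1)) ⟨3, 5, 3, 1, 2, 2, 2, 3, 5, 4⟩ :=
  leafX_sound T5.ok_mm T5.Ymm.bz_eq (w := 209) (c := ⟨⟨.negSucc 2229, .negSucc 726, .ofNat 187, .ofNat 10, .ofNat 879, .ofNat 145⟩, ⟨.ofNat 434, .ofNat 356, .ofNat 123, .negSucc 23, .negSucc 217, .negSucc 37⟩, ⟨.ofNat 1549, .ofNat 519, .negSucc 174, .negSucc 308, .negSucc 869, .negSucc 206⟩, ⟨.negSucc 4352, .negSucc 766, .ofNat 287, .negSucc 84, .ofNat 1766, .ofNat 288⟩, ⟨.negSucc 558, .ofNat 19, .negSucc 31, .negSucc 342, .ofNat 782, .ofNat 184⟩, .ofNat 479, .ofNat 394, .ofNat 0, .ofNat 394, .ofNat 1663, .ofNat 0, .ofNat 192, .negSucc 127, .negSucc 431, .ofNat 0, .ofNat 87, .ofNat 122, .ofNat 0, .ofNat 0,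 .ofNat 613, .ofNat 289, .ofNat 0, .ofNat 0, .ofNat 0, .ofNat 0, .ofNat 0, .ofNat 64857681391931428951661081929387966726144, .ofNat 87717577807485835874226496800150257664, .ofNat 0, .ofNat 0, .ofNat 4391247181427157025133118554082505654272, .ofNat 0, .ofNat 0, .ofNat 0, .ofNat 0, .ofNat 0, .ofNat 0⟩)
    (by decide +kernel)
theorem L01709 : Good (Phi V5.P V5.D (-1) (-1)) ⟨3, 5, 3, 1, 2, 2, 2, 3, 5, 5⟩ :=
  leafX_sound T5.ok_mm T5.Ymm.bz_eq (w := 209) (c := ⟨⟨.negSucc 2210, .negSucc 472, .ofNat 73, .ofNat 220, .ofNat 722, .ofNat 178⟩, ⟨.ofNat 426, .ofNat 288, .ofNat 149, .negSucc 73, .negSucc 159, .negSucc 37⟩, ⟨.ofNat 1516, .ofNat 287, .negSucc 78, .negSucc 548, .negSucc 767, .negSucc 194⟩, ⟨.negSucc 4328, .negSucc 339, .ofNat 103, .ofNat 334, .ofNat 1586, .ofNat 369⟩, ⟨.negSucc 546, .negSucc 46, .ofNat 0, .negSucc 169, .ofNat 1129, .ofNat 199⟩, .ofNat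 478, .ofNat 391, .ofNat 0, .ofNat 391, .ofNat 1671, .ofNat 0, .ofNat 211, .negSucc 127, .negSucc 265, .ofNat 0, .ofNat 88, .ofNat 75, .ofNat 0, .ofNat 0, .ofNat 488, .ofNat 341, .ofNat 0, .ofNat 0, .ofNat 0, .ofNat 0, .ofNat 0, .ofNat 118020862787801603679444698910327109058560, .ofNat 0, .ofNat 0, .ofNat 0, .ofNat 39602370282641790500759510467470222688256, .ofNat 0, .ofNat 0, .ofNat 0, .ofNat 190297760749649456048161997065309592223744, .ofNat 139580105792199513780957257400538103808, .ofNat 0⟩)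
    (by decide +kernel)
theorem L01710 : Good (Phi V5.P V5.D (-1) (-1)) ⟨3, 5, 3, 1, 2, 3, 3, 6, 4, 2⟩ :=
  leafX_sound T5.ok_mm T5.Ymm.bz_eq (w := 208) (c := ⟨⟨.negSucc 2292, .negSucc 30, .ofNat 12, .ofNat 1153, .ofNat 341, .ofNat 220⟩, ⟨.ofNat 448, .ofNat 70, .ofNat 187, .negSucc 327, .negSucc 64, .negSucc 8⟩, ⟨.ofNat 1213, .negSucc 67, .ofNat 18, .negSucc 737, .negSucc 259, .negSucc 292⟩, ⟨.negSucc 4545, .ofNat 207, .negSucc 7, .ofNat 2034, .ofNat 746, .ofNat 604⟩, ⟨.negSucc 1303, .negSucc 149, .ofNat 38, .ofNat 132, .ofNat 570, .ofNat 796⟩, .ofNat 470, .ofNat 366, .ofNat 0, .ofNat 366, .ofNat 1633, .ofNat 0, .ofNat 151, .negSucc 127, .negSucc 152, .ofNat 0, .ofNat 88, .ofNat 41, .ofNat 0, .ofNat 0, .ofNat 287, .ofNat 205, .ofNat 0, .ofNat 0, .ofNat 0, .ofNat 0, .ofNat 0, .ofNat 15114064745478942531056144972063013076992, .ofNat 33392418562147184857184338997164376064,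 .ofNat 0, .ofNat 0, .ofNat 11807539573092285973381382257113869320192, .ofNat 0, .ofNat 0, .ofNat 0, .ofNat 0, .ofNat 65259678005554598286125365295786754048, .ofNat 0⟩)
    (by decide +kernel)
theorem L01711 : Good (Phi V5.P V5.D (-1) (-1)) ⟨3, 5, 3, 1, 2, 3, 3, 7, 4, 2⟩ :=
  leafX_sound T5.ok_mm T5.Ymm.bz_eq (w := 207) (c := ⟨⟨.negSucc 1884, .ofNat 146, .negSucc 62, .ofNat 972, .ofNat 329, .ofNat 240⟩, ⟨.ofNat 381, .ofNat 38, .ofNat 144, .negSucc 259, .negSucc 49, .negSucc 38⟩, ⟨.ofNat 877, .negSucc 240, .ofNat 75, .negSucc 552, .negSucc 242, .negSucc 377⟩, ⟨.negSucc 3729, .ofNat 499, .negSucc 124, .ofNat 1825, .ofNat 871, .ofNat 685⟩, ⟨.negSucc 792, .negSucc 154, .ofNat 17, .ofNat 349, .ofNat 987, .ofNat 936⟩, .ofNat 478, .ofNat 390, .ofNat 0, .ofNat 390, .ofNat 1713, .ofNat 0, .ofNat 128, .negSucc 129, .negSucc 175, .ofNat 0, .ofNat 82, .ofNat 46,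 .ofNat 0, .ofNat 0, .ofNat 283, .ofNat 136, .ofNat 0, .ofNat 0, .ofNat 0, .ofNat 0, .ofNat 0, .ofNat 23049582854652012548785307570284177391616, .ofNat 19727396281210473902325091151923642368, .ofNat 0, .ofNat 0, .ofNat 29828124539587092788506196471162809090048, .ofNat 0, .ofNat 0, .ofNat 0, .ofNat 0, .ofNat 0, .ofNat 0⟩)
    (by decide +kernel)
theorem L01712 : Good (Phi V5.P V5.D (-1) (-1)) ⟨3, 5, 3, 1, 2, 2, 2, 3, 4, 3⟩ :=
  leafX_sound T5.ok_mm T5.Ymm.bz_eq (w := 203) (c := ⟨⟨.negSucc 2023, .negSucc 248, .negSucc 19, .ofNat 195, .ofNat 580, .ofNat 300⟩, ⟨.ofNat 385, .ofNat 221, .ofNat 154, .negSucc 53, .negSucc 115, .negSucc 63⟩, ⟨.ofNat 1384, .ofNat 73, .negSucc 9, .negSucc 621, .negSucc 711, .negSucc 377⟩, ⟨.negSucc 3957, .ofNat 6, .negSucc 44, .ofNat 334, .ofNat 1341, .ofNat 622⟩, ⟨.negSucc 413, .negSucc 79, .negSucc 1, .negSucc 0, .ofNat 1116,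 .ofNat 339⟩, .ofNat 483, .ofNat 408, .ofNat 0, .ofNat 408, .ofNat 1770, .ofNat 0, .ofNat 199, .negSucc 127, .negSucc 117, .ofNat 0, .ofNat 87, .ofNat 31, .ofNat 0, .ofNat 0, .ofNat 358, .ofNat 153, .ofNat 0, .ofNat 0, .ofNat 0, .ofNat 0, .ofNat 0, .ofNat 18491961307813585014402875338225801494528, .ofNat 0, .ofNat 0, .ofNat 0, .ofNat 10849140044224224765785957405035149131776, .ofNat 3079376398847486079728719672251514880, .ofNat 0, .ofNat 0, .ofNat 9175363317767755125134006601865140109312, .ofNat 0, .ofNat 0⟩)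
    (by decide +kernel)
theorem L01713 : Good (Phi V5.P V5.D (-1) (-1)) ⟨3, 5, 3, 1, 2, 3, 2, 3, 5, 6⟩ :=
  leafX_sound T5.ok_mm T5.Ymm.bz_eq (w := 208) (c := ⟨⟨.negSucc 1811, .ofNat 19, .negSucc 28, .ofNat 795, .ofNat 396, .ofNat 77⟩, ⟨.ofNat 358, .ofNat 88, .ofNat 130, .negSucc 199, .negSucc 48, .negSucc 10⟩, ⟨.ofNat 790, .negSucc 194, .negSucc 3, .negSucc 478, .negSucc 455, .negSucc 205⟩, ⟨.negSucc 3582, .ofNat 321, .negSucc 59, .ofNat 1522, .ofNat 1114, .ofNat 234⟩, ⟨.negSucc 634, .negSucc 201, .ofNat 87, .ofNat 351, .ofNat 1383, .ofNat 319⟩, .ofNat 479, .ofNat 391, .ofNat 0, .ofNat 391, .ofNat 1734, .ofNat 0, .ofNat 144, .negSucc 127, .negSucc 59, .ofNat 0, .ofNat 91, .ofNat 14, .ofNat 0, .ofNat 0, .ofNat 277, .ofNat 215, .ofNat 0, .ofNat 0, .ofNat 0, .ofNat 0, .ofNat 0, .ofNat 76755389731902296185246270943566246182912, .ofNat 0, .ofNat 0, .ofNat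 0, .ofNat 99082066872393294121486139762105317851136, .ofNat 0, .ofNat 0, .ofNat 0, .ofNat 90073486615447999800916321574033624662016, .ofNat 37225282882241186234674109843968622592, .ofNat 0⟩)
    (by decide +kernel)
theorem L01714 : Good (Phi V5.P V5.D (-1) (-1)) ⟨3, 5, 3, 1, 2, 3, 2, 3, 5, 7⟩ :=
  leafX_sound T5.ok_mm T5.Ymm.bz_eq (w := 209) (c := ⟨⟨.negSucc 1661, .negSucc 79, .negSucc 34, .ofNat 693, .ofNat 435, .ofNat 105⟩, ⟨.ofNat 319, .ofNat 152, .ofNat 126, .negSucc 175, .negSucc 79, .negSucc 17⟩, ⟨.ofNat 655, .negSucc 169, .negSucc 22, .negSucc 731, .negSucc 673, .negSucc 252⟩, ⟨.negSucc 3252, .ofNat 223, .negSucc 63, .ofNat 1338, .ofNat 1151, .ofNat 271⟩, ⟨.negSucc 303, .negSucc 85, .ofNat 15, .ofNat 375, .ofNat 1481, .ofNat 301⟩, .ofNat 319, .ofNat 122, .ofNat 0, .ofNat 122, .ofNat 705, .ofNat 0, .ofNat 197, .negSucc 101, .negSucc 46, .ofNat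 0, .ofNat 128, .ofNat 8, .ofNat 0, .ofNat 0, .ofNat 273, .ofNat 351, .ofNat 0, .ofNat 0, .ofNat 0, .ofNat 0, .ofNat 0, .ofNat 177653812359970367896538731330188060131328, .ofNat 0, .ofNat 0, .ofNat 0, .ofNat 400728670562567976465667347892872106999808, .ofNat 0, .ofNat 0, .ofNat 0, .ofNat 248610719558100164725180981488381300047872, .ofNat 49831919532419564745077551084884459520, .ofNat 0⟩)
    (by decide +kernel)
theorem L01715 : Good (Phi V5.P V5.D (-1) (-1)) ⟨4, 12, 3, 0, 2, 2, 2, 2, 4, 0⟩ :=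
  out_sound (S := T5.ds_mm) T5.ok_mm (w := 51) (j := 3) (by decide +kernel)
theorem L01716 : Good (Phi V5.P V5.D (-1) (-1)) ⟨4, 12, 3, 1, 3, 4, 2, 2, 4, 0⟩ :=
  leafX_sound T5.ok_mm T5.Ymm.bz_eq (w := 223) (c := ⟨⟨.ofNat 2140, .negSucc 88, .negSucc 5, .ofNat 857, .negSucc 1403, .negSucc 3522⟩, ⟨.negSucc 881, .ofNat 14, .ofNat 29, .negSucc 312, .ofNat 530, .ofNat 1253⟩, ⟨.negSucc 1884, .ofNat 12, .negSucc 50, .negSucc 643, .ofNat 1045, .ofNat 2792⟩, ⟨.ofNat 3207, .negSucc 277, .negSucc 106, .ofNat 1254, .negSucc 2195, .negSucc 5678⟩, ⟨.negSucc 1009, .negSucc 428, .negSucc 85, .negSucc 339, .ofNat 351, .ofNat 192⟩, .ofNat 449, .ofNat 322, .ofNat 0, .ofNat 322, .ofNat 1084, .ofNat 0, .ofNat 225, .negSucc 127, .negSucc 435, .ofNat 0, .ofNat 114, .ofNat 157, .ofNat 0, .ofNat 0, .ofNat 463, .ofNat 651, .ofNat 0, .ofNat 0, .ofNat 0, .ofNat 0, .ofNat 0, .ofNat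 0, .ofNat 20203942150795348729848131689082028818432, .ofNat 0, .ofNat 0, .ofNat 0, .ofNat 96346787924648417524446245045833698377728, .ofNat 0, .ofNat 0, .ofNat 0, .ofNat 51517946880700629407906611716823279730688, .ofNat 0⟩)
    (by decide +kernel)
theorem L01717 : Good (Phi V5.P V5.D (-1) (-1)) ⟨4, 12, 3, 1, 3, 5, 2, 2, 4, 0⟩ :=
  leafX_sound T5.ok_mm T5.Ymm.bz_eq (w := 224) (c := ⟨⟨.ofNat 2900, .ofNat 1041, .negSucc 144, .ofNat 964, .negSucc 1880, .negSucc 3366⟩, ⟨.negSucc 1004, .negSucc 532, .ofNat 5, .negSucc 319, .ofNat 651, .ofNat 1093⟩, ⟨.negSucc 2220, .negSucc 898, .ofNat 142, .negSucc 559, .ofNat 1184, .ofNat 2344⟩, ⟨.ofNat 4545, .ofNat 1407, .negSucc 402, .ofNat 1592, .negSucc 2998, .negSucc 5616⟩, ⟨.negSucc 944, .negSucc 25, .negSucc 178, .ofNat 96, .ofNat 127, .negSucc 445⟩, .ofNat 642, .ofNat 680, .ofNat 0, .ofNat 680, .ofNat 1981, .ofNat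 0, .ofNat 220, .negSucc 127, .negSucc 439, .ofNat 0, .ofNat 92, .ofNat 162, .ofNat 0, .ofNat 0, .ofNat 433, .ofNat 335, .ofNat 0, .ofNat 0, .ofNat 1712948002072858483822904345453985267712, .ofNat 0, .ofNat 0, .ofNat 0, .ofNat 0, .ofNat 0, .ofNat 0, .ofNat 0, .ofNat 47783396835104035478559531775559477493760, .ofNat 0, .ofNat 0, .ofNat 0, .ofNat 77713106675171063255525622366963167657984, .ofNat 0⟩)
    (by decide +kernel)
theorem L01718 : Good (Phi V5.P V5.D (-1) (-1)) ⟨4, 12, 3, 0, 2, 2, 2, 2, 4, 1⟩ :=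
  out_sound (S := T5.ds_mm) T5.ok_mm (w := 51) (j := 3) (by decide +kernel)
theorem L01719 : Good (Phi V5.P V5.D (-1) (-1)) ⟨4, 12, 3, 1, 2, 2, 2, 2, 5, 2⟩ :=
  leafX_sound T5.ok_mm T5.Ymm.bz_eq (w := 213) (c := ⟨⟨.negSucc 1720, .negSucc 902, .ofNat 399, .ofNat 507, .negSucc 700, .negSucc 1204⟩, ⟨.ofNat 308, .ofNat 385, .ofNat 95, .negSucc 252, .ofNat 285, .ofNat 453⟩, ⟨.ofNat 1023, .ofNat 707, .negSucc 304, .negSucc 544, .ofNat 638, .ofNat 928⟩, ⟨.negSucc 3110, .negSucc 1267, .ofNat 616, .ofNat 534, .negSucc 1057, .negSucc 1928⟩, ⟨.negSucc 833, .negSucc 60, .negSucc 80, .negSucc 804, .ofNat 330, .ofNat 182⟩, .ofNat 474, .ofNat 382, .ofNat 0, .ofNat 382, .ofNat 1270, .ofNat 0, .ofNat 148, .negSucc 127, .negSucc 445, .ofNat 0, .ofNat 92, .ofNat 163, .ofNat 0, .ofNat 0, .ofNat 480, .ofNat 258, .ofNat 0, .ofNat 0, .ofNat 1664202349140226275443027877270913024,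 .ofNat 0, .ofNat 0, .ofNat 0, .ofNat 6426377699053269497142296394176921600, .ofNat 0, .ofNat 0, .ofNat 0, .ofNat 84419166315259169466715541802657513472, .ofNat 0, .ofNat 0, .ofNat 0, .ofNat 124090550587767513263395993257699704832, .ofNat 0⟩)
    (by decide +kernel)
theorem L01720 : Good (Phi V5.P V5.D (-1) (-1)) ⟨4, 12, 3, 1, 2, 2, 2, 2, 5, 3⟩ :=
  leafX_sound T5.ok_mm T5.Ymm.bz_eq (w := 214) (c := ⟨⟨.negSucc 3286, .negSucc 1232, .ofNat 503, .negSucc 250, .ofNat 243, .negSucc 123⟩, ⟨.ofNat 860, .ofNat 540, .ofNat 93, .ofNat 17, .negSucc 60, .ofNat 57⟩, ⟨.ofNat 2398, .ofNat 976, .negSucc 438, .negSucc 144, .negSucc 154, .ofNat 64⟩, ⟨.negSucc 5617, .negSucc 1569, .ofNat 656, .negSucc 643, .ofNat 474, .negSucc 111⟩, ⟨.negSucc 555, .ofNat 233, .negSucc 365, .negSucc 699, .ofNat 260, .ofNat 258⟩, .ofNat 737, .ofNat 920, .ofNat 0, .ofNat 920, .ofNat 2635,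 .ofNat 0, .ofNat 138, .negSucc 127, .negSucc 339, .ofNat 0, .ofNat 79, .ofNat 130, .ofNat 0, .ofNat 0, .ofNat 411, .ofNat 215, .ofNat 0, .ofNat 0, .ofNat 1512296003315486869231785290271555584, .ofNat 0, .ofNat 0, .ofNat 0, .ofNat 75123037805270611290964663928784683008, .ofNat 0, .ofNat 0, .ofNat 0, .ofNat 77351235476402372564378207496179810304, .ofNat 0, .ofNat 0, .ofNat 0, .ofNat 57355862896332754595797750790169296896, .ofNat 0⟩)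
    (by decide +kernel)
theorem L01721 : Good (Phi V5.P V5.D (-1) (-1)) ⟨4, 13, 2, 0, 2, 2, 2, 2, 3, 0⟩ :=
  out_sound (S := T5.ds_mm) T5.ok_mm (w := 49) (j := 3) (by decide +kernel)
theorem L01722 : Good (Phi V5.P V5.D (-1) (-1)) ⟨3, 7, 2, 0, 2, 2, 2, 2, 3, 0⟩ :=
  out_sound (S := T5.ds_mm) T5.ok_mm (w := 43) (j := 3) (by decide +kernel)
theorem L01723 : Good (Phi V5.P V5.D (-1) (-1)) ⟨3, 6, 2, 0, 2, 2, 2, 2, 4, 2⟩ :=
  leafX_sound T5.ok_mm T5.Ymm.bz_eq (w := 202) (c := ⟨⟨.negSucc 4023, .negSucc 1158, .ofNat 489, .ofNat 117, .ofNat 618, .ofNat 580⟩, ⟨.ofNat 904, .ofNat 627, .ofNat 324, .negSucc 107, .negSucc 201, .negSucc 191⟩, ⟨.ofNat 3158, .ofNat 916, .negSucc 514, .negSucc 558, .negSucc 586, .negSucc 523⟩, ⟨.negSucc 6694, .negSucc 1204, .ofNat 658, .negSucc 51, .ofNat 1057, .ofNat 990⟩, ⟨.negSucc 328, .ofNat 63, .negSucc 174, .negSucc 680, .ofNat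 160, .ofNat 125⟩, .ofNat 559, .ofNat 543, .ofNat 0, .ofNat 543, .ofNat 1682, .ofNat 0, .ofNat 140, .negSucc 127, .negSucc 237, .ofNat 0, .ofNat 86, .ofNat 91, .ofNat 0, .ofNat 0, .ofNat 377, .ofNat 514, .ofNat 0, .ofNat 0, .ofNat 120691127334479240033981633587576832, .ofNat 0, .ofNat 0, .ofNat 0, .ofNat 3914174371740900097589416322721120256, .ofNat 0, .ofNat 0, .ofNat 0, .ofNat 6268850121411153666206385414216876032, .ofNat 0, .ofNat 0, .ofNat 0, .ofNat 4555650292669818174023592736423149568, .ofNat 0⟩)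
    (by decide +kernel)
theorem L01724 : Good (Phi V5.P V5.D (-1) (-1)) ⟨3, 6, 2, 0, 2, 2, 2, 2, 4, 3⟩ :=
  leafX_sound T5.ok_mm T5.Ymm.bz_eq (w := 202) (c := ⟨⟨.negSucc 3177, .negSucc 532, .ofNat 40, .ofNat 389, .ofNat 560, .ofNat 620⟩, ⟨.ofNat 672, .ofNat 395, .ofNat 410, .negSucc 185, .negSucc 168, .negSucc 209⟩, ⟨.ofNat 2566, .ofNat 382, .negSucc 190, .negSucc 881, .negSucc 671, .negSucc 533⟩, ⟨.negSucc 5345, .negSucc 246, .negSucc 26, .ofNat 444, .ofNat 1019, .ofNat 1050⟩, ⟨.negSucc 423, .ofNat 88, .negSucc 52, .negSucc 543, .ofNat 300, .ofNat 111⟩, .ofNat 475, .ofNat 384, .ofNat 0, .ofNat 384, .ofNat 1272, .ofNat 0, .ofNat 130, .negSucc 127, .negSucc 115, .ofNat 0, .ofNat 100, .ofNat 44, .ofNat 0, .ofNat 0, .ofNat 301, .ofNat 591, .ofNat 0, .ofNat 0, .ofNat 41177342807082789616950160933257216, .ofNat 0, .ofNat 0, .ofNat 0, .ofNat 1795993025057466111484733236348715008,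 .ofNat 0, .ofNat 0, .ofNat 0, .ofNat 3294719303070329995197067440112533504, .ofNat 0, .ofNat 0, .ofNat 0, .ofNat 1530060126928886971532482171776270336, .ofNat 0⟩)
    (by decide +kernel)
theorem L01725 : Good (Phi V5.P V5.D (-1) (-1)) ⟨3, 7, 2, 0, 2, 2, 2, 2, 3, 1⟩ :=
  out_sound (S := T5.ds_mm) T5.ok_mm (w := 43) (j := 3) (by decide +kernel)
theorem L01726 : Good (Phi V5.P V5.D (-1) (-1)) ⟨4, 12, 3, 0, 2, 2, 2, 3, 4, 0⟩ :=
  out_sound (S := T5.ds_mm) T5.ok_mm (w := 51) (j := 3) (by decide +kernel)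
theorem L01727 : Good (Phi V5.P V5.D (-1) (-1)) ⟨5, 24, 3, 1, 2, 2, 3, 6, 5, 0⟩ :=
  leafX_sound T5.ok_mm T5.Ymm.bz_eq (w := 221) (c := ⟨⟨.ofNat 328, .negSucc 115, .ofNat 147, .ofNat 1490, .negSucc 1186, .negSucc 1459⟩, ⟨.negSucc 187, .negSucc 25, .ofNat 4, .negSucc 527, .ofNat 415, .ofNat 467⟩, ⟨.negSucc 576, .ofNat 65, .negSucc 44, .negSucc 1062, .ofNat 923, .ofNat 1120⟩, ⟨.ofNat 377, .negSucc 211, .ofNat 162, .ofNat 2299, .negSucc 1997, .negSucc 2446⟩, ⟨.negSucc 859, .ofNat 20, .ofNat 25, .negSucc 391, .ofNat 4, .ofNat 16⟩, .ofNat 469, .ofNat 370, .ofNat 0, .ofNat 370, .ofNat 1251, .ofNat 0, .ofNat 259, .negSucc 127, .negSucc 922, .ofNat 0, .ofNat 113, .ofNat 317, .ofNat 0, .ofNat 0, .ofNat 968, .ofNat 390, .ofNat 0, .ofNat 0, .ofNat 7221333828426823117313182221675266048, .ofNat 0, .ofNat 0, .ofNat 0, .ofNat 0, .ofNat 0, .ofNat 0, .ofNat 0, .ofNat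 565395387411958228436506688935249838080, .ofNat 0, .ofNat 0, .ofNat 0, .ofNat 738487189008085874890568332050140495872, .ofNat 0⟩)
    (by decide +kernel)
theorem L01728 : Good (Phi V5.P V5.D (-1) (-1)) ⟨5, 24, 3, 1, 2, 2, 3, 6, 5, 1⟩ :=
  leafX_sound T5.ok_mm T5.Ymm.bz_eq (w := 221) (c := ⟨⟨.negSucc 1201, .negSucc 480, .ofNat 581, .ofNat 768, .negSucc 643, .negSucc 1321⟩, ⟨.ofNat 198, .ofNat 181, .negSucc 29, .negSucc 325, .ofNat 246, .ofNat 479⟩, ⟨.ofNat 721, .ofNat 402, .negSucc 447, .negSucc 662, .ofNat 516, .ofNat 992⟩, ⟨.negSucc 2152, .negSucc 725, .ofNat 829, .ofNat 1053, .negSucc 1037, .negSucc 2144⟩, ⟨.negSucc 562, .negSucc 82, .negSucc 178, .negSucc 525, .ofNat 60, .ofNat 28⟩, .ofNat 622, .ofNat 673, .ofNat 0, .ofNat 673, .ofNat 2017, .ofNat 0, .ofNat 162, .negSucc 127, .negSucc 564, .ofNat 0, .ofNat 89, .ofNat 206, .ofNat 0, .ofNat 0, .ofNat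 604, .ofNat 283, .ofNat 0, .ofNat 0, .ofNat 4774915953217892071055351412447772672, .ofNat 0, .ofNat 0, .ofNat 0, .ofNat 214193346837458457531588214910869307392, .ofNat 0, .ofNat 0, .ofNat 0, .ofNat 437430965499361305428097755338583834624, .ofNat 0, .ofNat 0, .ofNat 0, .ofNat 427073202666922154274604955717135761408, .ofNat 0⟩)
    (by decide +kernel)
theorem L01729 : Good (Phi V5.P V5.D (-1) (-1)) ⟨5, 24, 3, 1, 3, 4, 3, 7, 4, 0⟩ :=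
  leafX_sound T5.ok_mm T5.Ymm.bz_eq (w := 231) (c := ⟨⟨.negSucc 650, .negSucc 281, .ofNat 125, .negSucc 45, .ofNat 291, .negSucc 1743⟩, ⟨.ofNat 36, .ofNat 112, .ofNat 84, .ofNat 7, .negSucc 80, .ofNat 631⟩, ⟨.ofNat 247, .ofNat 227, .negSucc 74, .ofNat 57, .negSucc 359, .ofNat 1382⟩, ⟨.negSucc 1348, .negSucc 434, .ofNat 172, .negSucc 183, .ofNat 517, .negSucc 2699⟩, ⟨.negSucc 855, .negSucc 87, .ofNat 77, .negSucc 350, .ofNat 106, .ofNat 435⟩, .ofNat 624, .ofNat 678, .ofNat 0, .ofNat 678, .ofNat 2034, .ofNat 0, .ofNat 144, .negSucc 127, .negSucc 869, .ofNat 0, .ofNat 98, .ofNat 313, .ofNat 0, .ofNat 0, .ofNat 960, .ofNat 403, .ofNat 0, .ofNat 0, .ofNat 0, .ofNat 0, .ofNat 0, .ofNat 0, .ofNat 216139604533933134613862509632337758650368, .ofNat 0, .ofNat 0, .ofNat 0, .ofNat 198454931820824758992737786992300883181568, .ofNat 0, .ofNat 0, .ofNat 0, .ofNat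 221433994910434144287215545823180596707328, .ofNat 0⟩)
    (by decide +kernel)
theorem L01730 : Good (Phi V5.P V5.D (-1) (-1)) ⟨5, 24, 3, 1, 3, 5, 3, 7, 4, 0⟩ :=
  leafX_sound T5.ok_mm T5.Ymm.bz_eq (w := 230) (c := ⟨⟨.negSucc 354, .negSucc 302, .ofNat 247, .negSucc 2, .negSucc 397, .negSucc 2146⟩, ⟨.negSucc 92, .ofNat 114, .ofNat 70, .negSucc 13, .ofNat 149, .ofNat 763⟩, ⟨.ofNat 98, .ofNat 266, .negSucc 214, .ofNat 0, .ofNat 272, .ofNat 1593⟩, ⟨.negSucc 917, .negSucc 462, .ofNat 330, .negSucc 79, .negSucc 573, .negSucc 3429⟩, ⟨.negSucc 989, .negSucc 114, .negSucc 61, .negSucc 197, .ofNat 211, .ofNat 208⟩, .ofNat 581, .ofNat 578, .ofNat 0, .ofNat 578, .ofNat 1826, .ofNat 0, .ofNat 156, .negSucc 127, .negSucc 851, .ofNat 0, .ofNat 104, .ofNat 291, .ofNat 0, .ofNat 0, .ofNat 853, .ofNat 378, .ofNat 0, .ofNat 0, .ofNat 2295064223024702577361777643184520691712,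 .ofNat 0, .ofNat 0, .ofNat 0, .ofNat 86123274175506567519025416286193657577472, .ofNat 0, .ofNat 0, .ofNat 0, .ofNat 0, .ofNat 0, .ofNat 0, .ofNat 39157606788981297822034524570557621183367348224, .ofNat 306304826998687451976965326540498855264256, .ofNat 0⟩)
    (by decide +kernel)
theorem L01731 : Good (Phi V5.P V5.D (-1) (-1)) ⟨5, 25, 3, 1, 2, 2, 2, 3, 4, 0⟩ :=
  leafX_sound T5.ok_mm T5.Ymm.bz_eq (w := 214) (c := ⟨⟨.ofNat 2231, .ofNat 2215, .negSucc 1568, .ofNat 679, .negSucc 1370, .negSucc 2853⟩, ⟨.negSucc 1090, .negSucc 805, .ofNat 760, .negSucc 303, .ofNat 544, .ofNat 1085⟩, ⟨.negSucc 1576, .negSucc 1649, .ofNat 839, .negSucc 556, .ofNat 1000, .ofNat 2265⟩, ⟨.ofNat 2476, .ofNat 2811, .negSucc 1659, .ofNat 895, .negSucc 2129, .negSucc 4569⟩, ⟨.negSucc 1495, .negSucc 431, .ofNat 736, .negSucc 488, .ofNat 204, .ofNat 14⟩, .ofNat 781, .ofNat 985,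 .ofNat 0, .ofNat 985, .ofNat 2611, .ofNat 0, .ofNat 132, .negSucc 127, .negSucc 946, .ofNat 0, .ofNat 89, .ofNat 369, .ofNat 0, .ofNat 0, .ofNat 980, .ofNat 321, .ofNat 0, .ofNat 0, .ofNat 25853852665140021408202010832928768, .ofNat 0, .ofNat 0, .ofNat 0, .ofNat 2635028085666442753330669271746871296, .ofNat 0, .ofNat 0, .ofNat 0, .ofNat 4006963124793401830602904362228383744, .ofNat 0, .ofNat 0, .ofNat 586637307721373553806197883192791864967168, .ofNat 1681175216319339432326392795254226944, .ofNat 0⟩)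
    (by decide +kernel)
theorem L01732 : Good (Phi V5.P V5.D (-1) (-1)) ⟨4, 13, 2, 0, 2, 2, 2, 3, 4, 0⟩ :=
  out_sound (S := T5.ds_mm) T5.ok_mm (w := 49) (j := 3) (by decide +kernel)
theorem L01733 : Good (Phi V5.P V5.D (-1) (-1)) ⟨4, 12, 3, 0, 3, 4, 2, 3, 4, 1⟩ :=
  out_sound (S := T5.ds_mm) T5.ok_mm (w := 51) (j := 3) (by decide +kernel)
theorem L01734 : Good (Phi V5.P V5.D (-1) (-1)) ⟨4, 12, 3, 1, 3, 4, 3, 6, 4, 1⟩ :=
  leafX_sound T5.ok_mm T5.Ymm.bz_eq (w := 228) (c := ⟨⟨.negSucc 2661, .negSucc 1065, .ofNat 407, .negSucc 236, .ofNat 250, .negSucc 488⟩, ⟨.ofNat 671, .ofNat 496, .ofNat 84, .ofNat 55, .negSucc 70, .ofNat 201⟩, ⟨.ofNat 1943, .ofNat 895, .negSucc 359, .ofNat 62, .negSucc 218, .ofNat 287⟩, ⟨.negSucc 4625, .negSucc 1414, .ofNat 627, .negSucc 464, .ofNat 456, .negSucc 694⟩, ⟨.negSucc 716, .negSucc 22, .negSucc 3, .negSucc 220, .ofNat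 215, .ofNat 376⟩, .ofNat 565, .ofNat 529, .ofNat 0, .ofNat 529, .ofNat 1607, .ofNat 0, .ofNat 171, .negSucc 127, .negSucc 689, .ofNat 0, .ofNat 101, .ofNat 257, .ofNat 0, .ofNat 0, .ofNat 802, .ofNat 765, .ofNat 0, .ofNat 0, .ofNat 35407043511745109727775878782008084660224, .ofNat 0, .ofNat 0, .ofNat 0, .ofNat 380013758855260387221371616018936398610432, .ofNat 0, .ofNat 0, .ofNat 0, .ofNat 1296816283513743518438525603999075237101568, .ofNat 0, .ofNat 0, .ofNat 0, .ofNat 1817608801169183301486275611810051787849728, .ofNat 0⟩)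
    (by decide +kernel)
theorem L01735 : Good (Phi V5.P V5.D (-1) (-1)) ⟨4, 12, 3, 1, 3, 4, 3, 7, 4, 1⟩ :=
  leafX_sound T5.ok_mm T5.Ymm.bz_eq (w := 227) (c := ⟨⟨.negSucc 2680, .negSucc 1101, .ofNat 496, .negSucc 353, .ofNat 1062, .negSucc 93⟩, ⟨.ofNat 718, .ofNat 463, .ofNat 22, .ofNat 103, .negSucc 350, .ofNat 71⟩, ⟨.ofNat 1963, .ofNat 964, .negSucc 454, .ofNat 211, .negSucc 1043, .negSucc 104⟩, ⟨.negSucc 4626, .negSucc 1492, .ofNat 825, .negSucc 692, .ofNat 1890, .negSucc 82⟩, ⟨.negSucc 532, .ofNat 151, .negSucc 51, .negSucc 223, .ofNat 320, .ofNat 334⟩, .ofNat 449, .ofNat 322, .ofNat 0, .ofNat 322, .ofNat 1084, .ofNat 0, .ofNat 242, .negSucc 127, .negSucc 1250, .ofNat 0, .ofNat 123, .ofNat 435, .ofNat 0, .ofNat 0, .ofNat 1318, .ofNat 270, .ofNat 0, .ofNat 0, .ofNat 18146365470541272425833578397305342525440, .ofNat 0, .ofNat 0, .ofNat 0, .ofNat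 0, .ofNat 0, .ofNat 0, .ofNat 0, .ofNat 832559571027283328351080916683537017470976, .ofNat 0, .ofNat 0, .ofNat 0, .ofNat 4086355952271290581238220628385189869912064, .ofNat 0⟩)
    (by decide +kernel)
theorem L01736 : Good (Phi V5.P V5.D (-1) (-1)) ⟨4, 12, 2, 0, 3, 5, 3, 6, 5, 2⟩ :=
  leafX_sound T5.ok_mm T5.Ymm.bz_eq (w := 230) (c := ⟨⟨.negSucc 3420, .negSucc 1505, .ofNat 1428, .ofNat 111, .negSucc 107, .negSucc 736⟩, ⟨.ofNat 659, .ofNat 621, .negSucc 11, .negSucc 81, .ofNat 53, .ofNat 276⟩, ⟨.ofNat 2497, .ofNat 1252, .negSucc 1188, .negSucc 208, .ofNat 82, .ofNat 466⟩, ⟨.negSucc 5822, .negSucc 2167, .ofNat 2132, .ofNat 36, .negSucc 123, .negSucc 1124⟩, ⟨.negSucc 779, .negSucc 15, .negSucc 246, .negSucc 425, .ofNat 187, .ofNat 239⟩, .ofNat 511, .ofNat 403, .ofNat 0, .ofNat 403, .ofNat 1357, .ofNat 0, .ofNat 235, .negSucc 127, .negSucc 1255, .ofNat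 0, .ofNat 115, .ofNat 426, .ofNat 0, .ofNat 0, .ofNat 1204, .ofNat 341, .ofNat 0, .ofNat 0, .ofNat 451832891302478219463592228162990143176704, .ofNat 0, .ofNat 0, .ofNat 0, .ofNat 5262165994550077485673197554118283581456384, .ofNat 0, .ofNat 0, .ofNat 0, .ofNat 23274154021959216245069401604659356700246016, .ofNat 0, .ofNat 0, .ofNat 0, .ofNat 36927222991676394177206826601152950422208512, .ofNat 0⟩)
    (by decide +kernel)
theorem L01737 : Good (Phi V5.P V5.D (-1) (-1)) ⟨4, 12, 2, 0, 3, 5, 3, 7, 5, 2⟩ :=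
  leafX_sound T5.ok_mm T5.Ymm.bz_eq (w := 231) (c := ⟨⟨.negSucc 4094, .negSucc 1514, .ofNat 1714, .ofNat 83, .ofNat 787, .negSucc 252⟩, ⟨.ofNat 940, .ofNat 625, .negSucc 144, .negSucc 69, .negSucc 249, .ofNat 103⟩, ⟨.ofNat 3128, .ofNat 1236, .negSucc 1449, .negSucc 231, .negSucc 759, .ofNat 39⟩, ⟨.negSucc 6896, .negSucc 2173, .ofNat 2607, .ofNat 19, .ofNat 1431, .negSucc 340⟩, ⟨.negSucc 510, .negSucc 18, .negSucc 399, .negSucc 382, .ofNat 533, .ofNat 200⟩, .ofNat 511, .ofNat 403, .ofNat 0, .ofNat 403, .ofNat 1357, .ofNat 0, .ofNat 235, .negSucc 125, .negSucc 1359, .ofNat 0, .ofNat 128, .ofNat 447, .ofNat 0, .ofNat 0, .ofNat 1283, .ofNat 634, .ofNat 0, .ofNat 0, .ofNat 688241053960445158713665896718933583462400, .ofNat 0, .ofNat 0, .ofNat 471261001153015378946980994105302052061052928, .ofNat 5207748735218442660558423798674934284156928, .ofNat 0, .ofNat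 0, .ofNat 0, .ofNat 26128051855673329492081208732767379970326528, .ofNat 0, .ofNat 0, .ofNat 1704305275322118306938186410375841418735255552, .ofNat 71912235959796419242415320623212897041907712, .ofNat 0⟩)
    (by decide +kernel)
theorem L01738 : Good (Phi V5.P V5.D (-1) (-1)) ⟨4, 12, 3, 0, 3, 5, 2, 3, 5, 3⟩ :=
  out_sound (S := T5.ds_mm) T5.ok_mm (w := 51) (j := 3) (by decide +kernel)
theorem L01739 : Good (Phi V5.P V5.D (-1) (-1)) ⟨4, 12, 3, 1, 3, 5, 2, 3, 5, 3⟩ :=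
  leafX_sound T5.ok_mm T5.Ymm.bz_eq (w := 228) (c := ⟨⟨.negSucc 3605, .negSucc 1191, .ofNat 503, .ofNat 201, .ofNat 1004, .ofNat 230⟩, ⟨.ofNat 981, .ofNat 505, .ofNat 67, .negSucc 110, .negSucc 301, .negSucc 61⟩, ⟨.ofNat 2573, .ofNat 950, .negSucc 432, .negSucc 338, .negSucc 942, .negSucc 317⟩, ⟨.negSucc 6179, .negSucc 1642, .ofNat 733, .ofNat 188, .ofNat 1812, .ofNat 437⟩, ⟨.negSucc 729, .negSucc 85, .negSucc 98, .negSucc 402, .ofNat 527, .ofNat 190⟩, .ofNat 627, .ofNat 685, .ofNat 0, .ofNat 685, .ofNat 2052, .ofNat 0, .ofNat 225, .negSucc 127, .negSucc 720, .ofNat 0, .ofNat 81, .ofNat 261, .ofNat 0, .ofNat 0, .ofNat 759, .ofNat 224, .ofNat 0, .ofNat 0, .ofNat 33418708119543674158845607959438374731776, .ofNat 0, .ofNat 0, .ofNat 0, .ofNat 1969233507814379706344647221763634748194816, .ofNat 0, .ofNat 0, .ofNat 0, .ofNat 1761690052297173607514393360512155725594624,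 .ofNat 0, .ofNat 0, .ofNat 4309749623151978174041549803214142467509059584, .ofNat 1712987130066243581607081926628499894829056, .ofNat 0⟩)
    (by decide +kernel)
theorem L01740 : Good (Phi V5.P V5.D (-1) (-1)) ⟨4, 13, 2, 0, 2, 2, 2, 3, 4, 1⟩ :=
  out_sound (S := T5.ds_mm) T5.ok_mm (w := 49) (j := 3) (by decide +kernel)
theorem L01741 : Good (Phi V5.P V5.D (-1) (-1)) ⟨3, 7, 2, 0, 2, 2, 2, 3, 3, 0⟩ :=
  out_sound (S := T5.ds_mm) T5.ok_mm (w := 43) (j := 3) (by decide +kernel)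
theorem L01742 : Good (Phi V5.P V5.D (-1) (-1)) ⟨4, 12, 2, 0, 2, 2, 2, 3, 5, 4⟩ :=
  leafX_sound T5.ok_mm T5.Ymm.bz_eq (w := 211) (c := ⟨⟨.negSucc 3513, .negSucc 740, .ofNat 593, .ofNat 37, .ofNat 1117, .ofNat 369⟩, ⟨.ofNat 820, .ofNat 386, .ofNat 193, .negSucc 73, .negSucc 340, .negSucc 125⟩, ⟨.ofNat 2744, .ofNat 610, .negSucc 648, .negSucc 477, .negSucc 1125, .negSucc 396⟩, ⟨.negSucc 5915, .negSucc 888, .ofNat 926, .negSucc 158, .ofNat 2077, .ofNat 641⟩, ⟨.negSucc 335, .ofNat 4, .negSucc 48, .negSucc 608, .ofNat 693, .ofNat 104⟩, .ofNat 476, .ofNat 386, .ofNat 0, .ofNat 386, .ofNat 1262, .ofNat 0, .ofNat 193, .negSucc 127, .negSucc 516, .ofNat 0, .ofNat 96, .ofNat 187, .ofNat 0, .ofNat 0, .ofNat 665, .ofNat 198, .ofNat 0, .ofNat 0, .ofNat 577401037822778716898323988773601280, .ofNat 0, .ofNat 0, .ofNat 118286773304138106166795754344489764782080,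 .ofNat 24803664858444345278059848094678253568, .ofNat 0, .ofNat 0, .ofNat 0, .ofNat 13634942129474741191262797573583273984, .ofNat 0, .ofNat 0, .ofNat 337445158049023403425144066857538437513216, .ofNat 32159135693677389964564916747078991872, .ofNat 0⟩)
    (by decide +kernel)
theorem L01743 : Good (Phi V5.P V5.D (-1) (-1)) ⟨4, 13, 2, 0, 2, 2, 2, 3, 5, 4⟩ :=
  out_sound (S := T5.ds_mm) T5.ok_mm (w := 49) (j := 3) (by decide +kernel)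
theorem L01744 : Good (Phi V5.P V5.D (-1) (-1)) ⟨3, 6, 2, 0, 2, 2, 2, 3, 5, 5⟩ :=
  leafX_sound T5.ok_mm T5.Ymm.bz_eq (w := 206) (c := ⟨⟨.negSucc 3107, .negSucc 703, .ofNat 241, .ofNat 390, .ofNat 1156, .ofNat 385⟩, ⟨.ofNat 731, .ofNat 474, .ofNat 251, .negSucc 187, .negSucc 315, .negSucc 115⟩, ⟨.ofNat 2234, .ofNat 432, .negSucc 205, .negSucc 792, .negSucc 1199, .negSucc 382⟩, ⟨.negSucc 5156, .negSucc 677, .ofNat 309, .ofNat 455, .ofNat 2124, .ofNat 672⟩, ⟨.negSucc 189, .negSucc 288, .negSucc 87, .negSucc 522, .ofNat 710, .ofNat 161⟩, .ofNat 622, .ofNat 672, .ofNat 0, .ofNat 672, .ofNat 2019, .ofNat 0, .ofNat 142, .negSucc 127, .negSucc 269, .ofNat 0, .ofNat 85, .ofNat 99, .ofNat 0, .ofNat 0, .ofNat 438, .ofNat 141, .ofNat 0, .ofNat 0, .ofNat 680225167246565804867554856499412992, .ofNat 0, .ofNat 0, .ofNat 6215485240691043480529587421179931525120,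 .ofNat 146177535870339979896910277178524958720, .ofNat 0, .ofNat 0, .ofNat 5023985426179690272010392107236510924800, .ofNat 148046665876948886463512318909431676928, .ofNat 0, .ofNat 0, .ofNat 18776162252968248542837774976220148006912, .ofNat 108209164710931761103868956606138941440, .ofNat 0⟩)
    (by decide +kernel)
theorem L01745 : Good (Phi V5.P V5.D (-1) (-1)) ⟨3, 6, 2, 0, 2, 2, 2, 3, 4, 3⟩ :=
  leafX_sound T5.ok_mm T5.Ymm.bz_eq (w := 201) (c := ⟨⟨.negSucc 2618, .negSucc 455, .ofNat 105, .ofNat 397, .ofNat 872, .ofNat 454⟩, ⟨.ofNat 620, .ofNat 345, .ofNat 241, .negSucc 150, .negSucc 215, .negSucc 132⟩, ⟨.ofNat 1833, .ofNat 127, .negSucc 108, .negSucc 901, .negSucc 1017, .negSucc 541⟩, ⟨.negSucc 4447, .negSucc 267, .ofNat 163, .ofNat 592, .ofNat 1773, .ofNat 855⟩, ⟨.negSucc 361, .ofNat 30, .ofNat 5, .negSucc 148, .ofNat 1021, .ofNat 330⟩, .ofNat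 625, .ofNat 683, .ofNat 0, .ofNat 683, .ofNat 2062, .ofNat 0, .ofNat 132, .negSucc 127, .negSucc 92, .ofNat 0, .ofNat 88, .ofNat 34, .ofNat 0, .ofNat 0, .ofNat 271, .ofNat 108, .ofNat 0, .ofNat 0, .ofNat 0, .ofNat 0, .ofNat 0, .ofNat 971776977565567551773504441553220796416, .ofNat 4975137049267072915240462130083790848, .ofNat 0, .ofNat 0, .ofNat 1392139729197342698919399986658818392064, .ofNat 6104640665828329117863210902330802176, .ofNat 0, .ofNat 0, .ofNat 0, .ofNat 1726084534606364157861989223554351104, .ofNat 0⟩)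
    (by decide +kernel)
theorem L01746 : Good (Phi V5.P V5.D (-1) (-1)) ⟨3, 7, 2, 0, 2, 2, 2, 3, 3, 1⟩ :=
  out_sound (S := T5.ds_mm) T5.ok_mm (w := 43) (j := 3) (by decide +kernel)
theorem L01747 : Good (Phi V5.P V5.D (-1) (-1)) ⟨2, 3, 3, 0, 2, 3, 1, 1, 3, 0⟩ :=
  out_sound (S := T5.ds_mm) T5.ok_mm (w := 39) (j := 3) (by decide +kernel)
theorem L01748 : Good (Phi V5.P V5.D (-1) (-1)) ⟨4, 12, 3, 1, 3, 6, 2, 2, 5, 0⟩ :=
  leafX_sound T5.ok_mm T5.Ymm.bz_eq (w := 229) (c := ⟨⟨.ofNat 4212, .ofNat 1042, .negSucc 706, .negSucc 684, .negSucc 1740, .negSucc 1040⟩, ⟨.negSucc 1384, .negSucc 545, .ofNat 153, .ofNat 335, .ofNat 559, .ofNat 298⟩, ⟨.negSucc 3044, .negSucc 859, .ofNat 730, .ofNat 949, .ofNat 941, .ofNat 564⟩, ⟨.ofNat 6847, .ofNat 1342, .negSucc 1042, .negSucc 762, .negSucc 3151, .negSucc 2031⟩, ⟨.negSucc 458, .negSucc 287, .ofNat 530, .ofNat 911,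 .negSucc 783, .negSucc 857⟩, .ofNat 475, .ofNat 384, .ofNat 0, .ofNat 384, .ofNat 1263, .ofNat 0, .ofNat 166, .negSucc 127, .negSucc 663, .ofNat 0, .ofNat 93, .ofNat 223, .ofNat 0, .ofNat 0, .ofNat 601, .ofNat 520, .ofNat 0, .ofNat 0, .ofNat 58223686500783529041454200882012218195968, .ofNat 0, .ofNat 0, .ofNat 0, .ofNat 149756712089854419504407860531357636624384, .ofNat 0, .ofNat 0, .ofNat 0, .ofNat 1596593776248975004030760834985050979172352, .ofNat 0, .ofNat 0, .ofNat 0, .ofNat 2209347830309461269652880876169765234671616, .ofNat 0⟩)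
    (by decide +kernel)
theorem L01749 : Good (Phi V5.P V5.D (-1) (-1)) ⟨4, 12, 3, 1, 3, 6, 2, 2, 5, 1⟩ :=
  leafX_sound T5.ok_mm T5.Ymm.bz_eq (w := 228) (c := ⟨⟨.ofNat 2948, .ofNat 642, .negSucc 311, .negSucc 231, .negSucc 2088, .negSucc 2028⟩, ⟨.negSucc 1185, .negSucc 336, .ofNat 202, .ofNat 117, .ofNat 735, .ofNat 660⟩, ⟨.negSucc 2283, .negSucc 550, .ofNat 395, .ofNat 452, .ofNat 1326, .ofNat 1344⟩, ⟨.ofNat 4403, .ofNat 831, .negSucc 434, .negSucc 210, .negSucc 3454, .negSucc 3482⟩, ⟨.negSucc 1416, .negSucc 181, .ofNat 394, .ofNat 440, .negSucc 118, .negSucc 442⟩, .ofNat 556, .ofNat 536, .ofNat 0, .ofNat 536, .ofNat 1666, .ofNat 0, .ofNat 128, .negSucc 133, .negSucc 532, .ofNat 0, .ofNat 82, .ofNat 186, .ofNat 0, .ofNat 0, .ofNat 468, .ofNat 392, .ofNat 0, .ofNat 0, .ofNat 8491088089974644251542263908690919686144, .ofNat 0, .ofNat 0, .ofNat 0,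 .ofNat 236565477622720112733327498563215251472384, .ofNat 0, .ofNat 0, .ofNat 0, .ofNat 996353496494789680205280503862934938583040, .ofNat 0, .ofNat 0, .ofNat 0, .ofNat 2168105077430378150777768065653233990762496, .ofNat 0⟩)
    (by decide +kernel)
theorem L01750 : Good (Phi V5.P V5.D (-1) (-1)) ⟨4, 13, 3, 1, 3, 6, 2, 2, 4, 0⟩ :=
  out_sound (S := T5.ds_mm) T5.ok_mm (w := 51) (j := 3) (by decide +kernel)
theorem L01751 : Good (Phi V5.P V5.D (-1) (-1)) ⟨4, 12, 3, 1, 3, 7, 2, 2, 5, 0⟩ :=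
  leafX_sound T5.ok_mm T5.Ymm.bz_eq (w := 229) (c := ⟨⟨.ofNat 3180, .ofNat 329, .negSucc 263, .negSucc 1908, .negSucc 1443, .negSucc 1057⟩, ⟨.negSucc 933, .negSucc 260, .ofNat 105, .ofNat 665, .ofNat 358, .ofNat 245⟩, ⟨.negSucc 1708, .negSucc 265, .ofNat 372, .ofNat 1581, .ofNat 624, .ofNat 469⟩, ⟨.ofNat 5524, .ofNat 497, .negSucc 398, .negSucc 2988, .negSucc 2821, .negSucc 2018⟩, ⟨.ofNat 874, .ofNat 127, .ofNat 196, .ofNat 313, .negSucc 1340, .negSucc 869⟩, .ofNat 613, .ofNat 651, .ofNat 0, .ofNat 651, .ofNat 1976, .ofNat 0, .ofNat 150, .negSucc 127, .negSucc 364, .ofNat 0, .ofNat 76, .ofNat 121, .ofNat 0, .ofNat 0, .ofNat 328, .ofNat 505, .ofNat 0, .ofNat 0, .ofNat 18625124608559639020574634632982594322432, .ofNat 0, .ofNat 0, .ofNat 0, .ofNat 648823553012304919781895024782838079684608, .ofNat 0, .ofNat 0, .ofNat 0, .ofNat 1658126591112452769474032653481956800987136,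 .ofNat 0, .ofNat 0, .ofNat 0, .ofNat 726110002437655491919375989638628993138688, .ofNat 0⟩)
    (by decide +kernel)
theorem L01752 : Good (Phi V5.P V5.D (-1) (-1)) ⟨4, 12, 4, 2, 3, 7, 2, 2, 5, 1⟩ :=
  leafX_sound T5.ok_mm T5.Ymm.bz_eq (w := 231) (c := ⟨⟨.ofNat 1170, .negSucc 471, .ofNat 70, .negSucc 1051, .negSucc 784, .negSucc 1082⟩, ⟨.negSucc 448, .ofNat 91, .ofNat 47, .ofNat 347, .ofNat 169, .ofNat 272⟩, ⟨.negSucc 505, .ofNat 259, .ofNat 46, .ofNat 760, .ofNat 258, .ofNat 442⟩, ⟨.ofNat 1876, .negSucc 827, .ofNat 125, .negSucc 1708, .negSucc 1566, .negSucc 2015⟩, ⟨.negSucc 243, .negSucc 224, .ofNat 130, .ofNat 58, .negSucc 839, .negSucc 717⟩, .ofNat 633, .ofNat 696, .ofNat 0, .ofNat 696, .ofNat 2223, .ofNat 0, .ofNat 128, .negSucc 140, .negSucc 494, .ofNat 0, .ofNat 85, .ofNat 154, .ofNat 0, .ofNat 0, .ofNat 434, .ofNat 520, .ofNat 0, .ofNat 0,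 .ofNat 7875068615582035805829384380991638863872, .ofNat 0, .ofNat 0, .ofNat 0, .ofNat 856843460618228355242844752958466058878976, .ofNat 0, .ofNat 0, .ofNat 0, .ofNat 1924788466819253802307015980824487782252544, .ofNat 0, .ofNat 0, .ofNat 0, .ofNat 4874251357443975383037568956457817219268608, .ofNat 0⟩)
    (by decide +kernel)
theorem L01753 : Good (Phi V5.P V5.D (-1) (-1)) ⟨4, 12, 4, 3, 3, 7, 2, 2, 5, 1⟩ :=
  leafX_sound T5.ok_mm T5.Ymm.bz_eq (w := 231) (c := ⟨⟨.ofNat 1591, .ofNat 80, .negSucc 163, .negSucc 1325, .negSucc 1002, .negSucc 993⟩, ⟨.negSucc 571, .negSucc 102, .ofNat 114, .ofNat 466, .ofNat 274, .ofNat 273⟩, ⟨.negSucc 756, .negSucc 19, .ofNat 189, .ofNat 1009, .ofNat 385, .ofNat 407⟩, ⟨.ofNat 2608, .ofNat 71, .negSucc 259, .negSucc 2090, .negSucc 1974, .negSucc 1926⟩, ⟨.negSucc 6, .negSucc 163, .ofNat 124, .ofNat 152, .negSucc 935, .negSucc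 854⟩, .ofNat 634, .ofNat 702, .ofNat 0, .ofNat 702, .ofNat 2098, .ofNat 0, .ofNat 128, .negSucc 206, .negSucc 625, .ofNat 0, .ofNat 114, .ofNat 208, .ofNat 0, .ofNat 0, .ofNat 538, .ofNat 790, .ofNat 0, .ofNat 0, .ofNat 9346544885774955776814822232570510442496, .ofNat 0, .ofNat 0, .ofNat 0, .ofNat 1497423549789239102671770565897864385396736, .ofNat 0, .ofNat 0, .ofNat 0, .ofNat 2937412657105623868397716190841962015752192, .ofNat 0, .ofNat 0, .ofNat 0, .ofNat 6569926824050139246276547028781993774022656, .ofNat 0⟩)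
    (by decide +kernel)
theorem L01754 : Good (Phi V5.P V5.D (-1) (-1)) ⟨4, 13, 3, 1, 3, 7, 2, 2, 4, 0⟩ :=
  out_sound (S := T5.ds_mm) T5.ok_mm (w := 51) (j := 3) (by decide +kernel)
theorem L01755 : Good (Phi V5.P V5.D (-1) (-1)) ⟨3, 7, 3, 1, 2, 3, 2, 2, 4, 0⟩ :=
  out_sound (S := T5.ds_mm) T5.ok_mm (w := 45) (j := 3) (by decide +kernel)
theorem L01756 : Good (Phi V5.P V5.D (-1) (-1)) ⟨5, 24, 3, 1, 4, 12, 3, 6, 5, 0⟩ :=
  leafX_sound T5.ok_mm T5.Ymm.bz_eq (w := 251) (c := ⟨⟨.ofNat 2085, .ofNat 269, .negSucc 325, .negSucc 47, .negSucc 1614, .negSucc 1321⟩, ⟨.negSucc 804, .negSucc 157, .ofNat 179, .ofNat 3, .ofNat 543, .ofNat 423⟩, ⟨.negSucc 1810, .negSucc 253, .ofNat 427, .ofNat 175, .ofNat 1182, .ofNat 895⟩, ⟨.ofNat 3129, .ofNat 339, .negSucc 487, .negSucc 27, .negSucc 2724, .negSucc 2302⟩, ⟨.negSucc 1195, .negSucc 75, .ofNat 298, .ofNat 221, .negSucc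 113, .negSucc 290⟩, .ofNat 473, .ofNat 379, .ofNat 0, .ofNat 379, .ofNat 1267, .ofNat 0, .ofNat 149, .negSucc 127, .negSucc 823, .ofNat 0, .ofNat 104, .ofNat 274, .ofNat 0, .ofNat 0, .ofNat 741, .ofNat 899, .ofNat 0, .ofNat 0, .ofNat 3475127197515708886653031091581272730265190400, .ofNat 0, .ofNat 0, .ofNat 0, .ofNat 0, .ofNat 0, .ofNat 0, .ofNat 0, .ofNat 0, .ofNat 0, .ofNat 0, .ofNat 0, .ofNat 273438154651566569612174946436333971451175501824, .ofNat 0⟩)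
    (by decide +kernel)

end Crest.Agent.R097C5.N5mm
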