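import Crest.Agent.R097.KP7
import Crest.Agent.R097.T5Ymm

/-!
# Row 97, box cover in dimension n = 5 (generated)
-/

set_option autoImplicit false
set_option Elab.async false
set_option maxHeartbeats 0
set_option maxRecDepth 100000

open Crest.Agent.R097 Crest.Agent.R097.KA


namespace Crest.Agent.R097C5.N5mm

theorem L01757 : Good (Phi V5.P V5.D (-1) (-1)) ⟨5, 24, 3, 1, 4, 13, 3, 6, 5, 0⟩ :=
  leafX_sound T5.ok_mm T5.Ymm.bz_eq (w := 251) (c := ⟨⟨.ofNat 1965, .ofNat 195, .negSucc 227, .negSucc 369, .negSucc 1497, .negSucc 1231⟩, ⟨.negSucc 764, .negSucc 109, .ofNat 129, .ofNat 148, .ofNat 495, .ofNat 391⟩, ⟨.negSucc 1471, .negSucc 170, .ofNat 306, .ofNat 409, .ofNat 983, .ofNat 760⟩, ⟨.ofNat 3028, .ofNat 245, .negSucc 353, .negSucc 565, .negSucc 2609, .negSucc 2186⟩, ⟨.negSucc 721, .negSucc 80, .ofNat 212, .ofNat 77, .negSucc 378, .negSucc 460⟩, .ofNat 475, .ofNat 384, .ofNat 0, .ofNat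 384, .ofNat 1268, .ofNat 0, .ofNat 144, .negSucc 127, .negSucc 848, .ofNat 0, .ofNat 96, .ofNat 277, .ofNat 0, .ofNat 0, .ofNat 712, .ofNat 881, .ofNat 0, .ofNat 0, .ofNat 1672031792386696150012412866261417737039380480, .ofNat 0, .ofNat 0, .ofNat 0, .ofNat 24865033383733176738221332504630390538928914432, .ofNat 0, .ofNat 0, .ofNat 0, .ofNat 124880798538184874624782435405367958889539043328, .ofNat 0, .ofNat 0, .ofNat 0, .ofNat 208590356566960534954714025997718307395560538112, .ofNat 0⟩)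
    (by decide +kernel)
theorem L01758 : Good (Phi V5.P V5.D (-1) (-1)) ⟨5, 25, 3, 1, 3, 6, 3, 6, 5, 0⟩ :=
  leafX_sound T5.ok_mm T5.Ymm.bz_eq (w := 238) (c := ⟨⟨.ofNat 2105, .ofNat 594, .ofNat 83, .negSucc 533, .negSucc 1719, .negSucc 1270⟩, ⟨.negSucc 985, .negSucc 293, .ofNat 88, .ofNat 228, .ofNat 621, .ofNat 437⟩, ⟨.negSucc 2081, .negSucc 569, .ofNat 380, .ofNat 703, .ofNat 1187, .ofNat 789⟩, ⟨.ofNat 3012, .ofNat 761, .ofNat 200, .negSucc 747, .negSucc 2866, .negSucc 2203⟩, ⟨.negSucc 1163, .negSucc 188, .ofNat 387, .ofNat 282, .negSucc 301, .negSucc 447⟩, .ofNat 769, .ofNat 961, .ofNat 0, .ofNat 961, .ofNat 2555, .ofNat 0, .ofNat 169, .negSucc 127, .negSucc 1062, .ofNat 0, .ofNat 80, .ofNat 404, .ofNat 0, .ofNat 0, .ofNat 960, .ofNat 1374, .ofNat 0, .ofNat 0, .ofNat 335460095859813662042779330800121647464448, .ofNat 0, .ofNat 0, .ofNat 0, .ofNat 48775982211064106556025064600356179425624064,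 .ofNat 0, .ofNat 0, .ofNat 0, .ofNat 22127644529522640411520003160831213036371968, .ofNat 0, .ofNat 0, .ofNat 0, .ofNat 43212681494283820854661748279883485683908608, .ofNat 0⟩)
    (by decide +kernel)
theorem L01759 : Good (Phi V5.P V5.D (-1) (-1)) ⟨4, 12, 3, 1, 4, 14, 3, 6, 5, 0⟩ :=
  leafX_sound T5.ok_mm T5.Ymm.bz_eq (w := 246) (c := ⟨⟨.ofNat 1027, .ofNat 131, .negSucc 92, .negSucc 497, .negSucc 989, .negSucc 798⟩, ⟨.negSucc 449, .negSucc 105, .ofNat 127, .ofNat 175, .ofNat 299, .ofNat 228⟩, ⟨.negSucc 529, .negSucc 145, .ofNat 210, .ofNat 431, .ofNat 496, .ofNat 340⟩, ⟨.ofNat 1586, .ofNat 144, .negSucc 148, .negSucc 808, .negSucc 1838, .negSucc 1510⟩, ⟨.negSucc 488, .negSucc 114, .ofNat 209, .ofNat 0, .negSucc 549, .negSucc 541⟩, .ofNat 476, .ofNat 385, .ofNat 0, .ofNat 385, .ofNat 1277, .ofNat 0, .ofNat 128, .negSucc 127, .negSucc 836, .ofNat 0, .ofNat 90, .ofNat 263, .ofNat 0, .ofNat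 0, .ofNat 667, .ofNat 882, .ofNat 0, .ofNat 0, .ofNat 1284739119929277630536596415457846520505696256, .ofNat 0, .ofNat 0, .ofNat 0, .ofNat 53399461902068964258038520921554304999731757056, .ofNat 0, .ofNat 0, .ofNat 0, .ofNat 333153538357504765695420421513643048684945932288, .ofNat 0, .ofNat 0, .ofNat 0, .ofNat 1387440431959062640113340413712923423904515489792, .ofNat 0⟩)
    (by decide +kernel)
theorem L01760 : Good (Phi V5.P V5.D (-1) (-1)) ⟨4, 12, 3, 1, 4, 15, 3, 6, 5, 0⟩ :=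
  leafX_sound T5.ok_mm T5.Ymm.bz_eq (w := 245) (c := ⟨⟨.ofNat 152, .negSucc 341, .ofNat 104, .negSucc 430, .negSucc 514, .negSucc 536⟩, ⟨.negSucc 128, .ofNat 58, .ofNat 66, .ofNat 128, .ofNat 117, .ofNat 125⟩, ⟨.ofNat 228, .ofNat 202, .ofNat 71, .ofNat 288, .ofNat 91, .ofNat 99⟩, ⟨.ofNat 141, .negSucc 504, .ofNat 132, .negSucc 712, .negSucc 1065, .negSucc 1066⟩, ⟨.negSucc 452, .ofNat 46, .ofNat 105, .negSucc 22, .negSucc 631, .negSucc 540⟩, .ofNat 622, .ofNat 671, .ofNat 0, .ofNat 671, .ofNat 2016, .ofNat 0, .ofNat 147, .negSucc 127, .negSucc 435, .ofNat 0, .ofNat 73, .ofNat 145, .ofNat 0, .ofNat 0, .ofNat 370, .ofNat 889, .ofNat 0, .ofNat 0, .ofNat 1400051342362248418376627984477363328595787776, .ofNat 0, .ofNat 0, .ofNat 0, .ofNat 137062459299030713679681790667386588120750227456, .ofNat 0, .ofNat 0, .ofNat 0, .ofNat 404128355833895799994141198978284560885332574208, .ofNat 0, .ofNat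 0, .ofNat 0, .ofNat 425548095358307861834448432895251086697081864192, .ofNat 0⟩)
    (by decide +kernel)
theorem L01761 : Good (Phi V5.P V5.D (-1) (-1)) ⟨4, 12, 3, 1, 4, 12, 3, 7, 5, 0⟩ :=
  leafX_sound T5.ok_mm T5.Ymm.bz_eq (w := 246) (c := ⟨⟨.negSucc 359, .negSucc 189, .ofNat 311, .ofNat 54, .negSucc 824, .negSucc 844⟩, ⟨.negSucc 78, .ofNat 14, .ofNat 43, .negSucc 15, .ofNat 294, .ofNat 280⟩, ⟨.ofNat 174, .ofNat 76, .negSucc 168, .negSucc 21, .ofNat 556, .ofNat 520⟩, ⟨.negSucc 926, .negSucc 298, .ofNat 455, .ofNat 75, .negSucc 1339, .negSucc 1423⟩, ⟨.negSucc 1080, .negSucc 97, .ofNat 43, .negSucc 79, .ofNat 27, .negSucc 86⟩, .ofNat 552, .ofNat 528, .ofNat 0, .ofNat 528, .ofNat 1660, .ofNat 0, .ofNat 128, .negSucc 128, .negSucc 1031, .ofNat 0, .ofNat 98, .ofNat 354, .ofNat 0, .ofNat 0, .ofNat 969, .ofNat 854, .ofNat 0, .ofNat 0, .ofNat 2232336418632244549920667357635949001718104064,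 .ofNat 0, .ofNat 0, .ofNat 0, .ofNat 267387144757150165013355592629385427468628787200, .ofNat 0, .ofNat 0, .ofNat 0, .ofNat 678917876655880405626118110629500921216610861056, .ofNat 0, .ofNat 0, .ofNat 0, .ofNat 1916870280024660700699401555205849966278265012224, .ofNat 0⟩)
    (by decide +kernel)
theorem L01762 : Good (Phi V5.P V5.D (-1) (-1)) ⟨4, 12, 3, 1, 4, 13, 3, 7, 5, 0⟩ :=
  leafX_sound T5.ok_mm T5.Ymm.bz_eq (w := 246) (c := ⟨⟨.negSucc 548, .negSucc 122, .ofNat 189, .ofNat 46, .negSucc 579, .negSucc 528⟩, ⟨.negSucc 5, .negSucc 3, .ofNat 85, .negSucc 20, .ofNat 196, .ofNat 164⟩, ⟨.ofNat 410, .ofNat 24, .negSucc 42, .negSucc 21, .ofNat 258, .ofNat 195⟩, ⟨.negSucc 1250, .negSucc 187, .ofNat 274, .ofNat 58, .negSucc 962, .negSucc 919⟩, ⟨.negSucc 1169, .negSucc 108, .ofNat 142, .negSucc 51, .negSucc 29, .negSucc 151⟩, .ofNat 619, .ofNat 634, .ofNat 0, .ofNat 634, .ofNat 1868, .ofNat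 0, .ofNat 147, .negSucc 127, .negSucc 1319, .ofNat 0, .ofNat 105, .ofNat 460, .ofNat 0, .ofNat 0, .ofNat 1178, .ofNat 1073, .ofNat 0, .ofNat 0, .ofNat 4627195456611159071371929635504533667244408832, .ofNat 0, .ofNat 0, .ofNat 0, .ofNat 119494341211389102762527918879116296338867748864, .ofNat 0, .ofNat 0, .ofNat 33053834740481946682634970279030540173568573964288, .ofNat 713194438537140031713578959913935322095971991552, .ofNat 0, .ofNat 0, .ofNat 0, .ofNat 2598234994906933258267736448233744550085806522368, .ofNat 0⟩)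
    (by decide +kernel)
theorem L01763 : Good (Phi V5.P V5.D (-1) (-1)) ⟨4, 12, 3, 1, 3, 7, 4, 14, 5, 0⟩ :=
  leafX_sound T5.ok_mm T5.Ymm.bz_eq (w := 236) (c := ⟨⟨.negSucc 733, .negSucc 123, .ofNat 98, .negSucc 111, .negSucc 83, .negSucc 295⟩, ⟨.ofNat 63, .negSucc 7, .ofNat 121, .ofNat 21, .ofNat 18, .ofNat 72⟩, ⟨.ofNat 601, .ofNat 15, .ofNat 59, .ofNat 46, .negSucc 64, .negSucc 26⟩, ⟨.negSucc 1507, .negSucc 204, .ofNat 123, .negSucc 251, .negSucc 179, .negSucc 596⟩, ⟨.negSucc 1044, .negSucc 142, .ofNat 148, .negSucc 198, .negSucc 115, .negSucc 326⟩, .ofNat 649, .ofNat 694, .ofNat 0, .ofNat 694, .ofNat 2016, .ofNat 0, .ofNat 128, .negSucc 143, .negSucc 946, .ofNat 0, .ofNat 105, .ofNat 320, .ofNat 0, .ofNat 0, .ofNat 802, .ofNat 1049, .ofNat 0, .ofNat 0, .ofNat 2058564755434334633232336732974008844156928, .ofNat 0, .ofNat 0, .ofNat 0, .ofNat 69899185321639757081453289209144099775447040,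 .ofNat 0, .ofNat 0, .ofNat 0, .ofNat 152365919442192832538536014169277135323136000, .ofNat 0, .ofNat 0, .ofNat 0, .ofNat 1491223503144486544554561921818312753081745408, .ofNat 0⟩)
    (by decide +kernel)
theorem L01764 : Good (Phi V5.P V5.D (-1) (-1)) ⟨4, 12, 3, 1, 3, 7, 4, 15, 5, 0⟩ :=
  leafX_sound T5.ok_mm T5.Ymm.bz_eq (w := 236) (c := ⟨⟨.negSucc 1055, .negSucc 26, .ofNat 89, .ofNat 119, .ofNat 88, .negSucc 135⟩, ⟨.ofNat 149, .negSucc 45, .ofNat 130, .negSucc 55, .negSucc 28, .ofNat 36⟩, ⟨.ofNat 713, .negSucc 66, .ofNat 61, .negSucc 135, .negSucc 196, .negSucc 108⟩, ⟨.negSucc 2107, .negSucc 57, .ofNat 113, .ofNat 134, .ofNat 145, .negSucc 263⟩, ⟨.negSucc 1262, .negSucc 171, .ofNat 154, .negSucc 170, .ofNat 14, .negSucc 121⟩, .ofNat 649, .ofNat 694, .ofNat 0, .ofNat 694, .ofNat 2016, .ofNat 0, .ofNat 263, .negSucc 127, .negSucc 1102, .ofNat 0, .ofNat 96, .ofNat 371, .ofNat 0, .ofNat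 0, .ofNat 957, .ofNat 919, .ofNat 0, .ofNat 0, .ofNat 1533083151637702878443758667820464110305280, .ofNat 0, .ofNat 0, .ofNat 0, .ofNat 201298398436929356430668551758956801080426496, .ofNat 0, .ofNat 0, .ofNat 0, .ofNat 140988286431813887739561511610672216182620160, .ofNat 0, .ofNat 0, .ofNat 0, .ofNat 696743794809701459346231546297851920152264704, .ofNat 0⟩)
    (by decide +kernel)
theorem L01765 : Good (Phi V5.P V5.D (-1) (-1)) ⟨5, 24, 3, 1, 3, 6, 3, 6, 5, 1⟩ :=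
  leafX_sound T5.ok_mm T5.Ymm.bz_eq (w := 236) (c := ⟨⟨.negSucc 64, .negSucc 115, .ofNat 310, .ofNat 343, .negSucc 1157, .negSucc 1521⟩, ⟨.negSucc 218, .ofNat 21, .ofNat 65, .negSucc 125, .ofNat 414, .ofNat 519⟩, ⟨.negSucc 130, .ofNat 74, .negSucc 148, .negSucc 185, .ofNat 803, .ofNat 994⟩, ⟨.negSucc 490, .negSucc 170, .ofNat 467, .ofNat 527, .negSucc 1900, .negSucc 2564⟩, ⟨.negSucc 1175, .negSucc 33, .ofNat 106, .negSucc 120, .negSucc 48, .negSucc 263⟩, .ofNat 581, .ofNat 578, .ofNat 0, .ofNat 578, .ofNat 1826, .ofNat 0, .ofNat 128, .negSucc 140, .negSucc 737, .ofNat 0, .ofNat 96, .ofNat 247, .ofNat 0, .ofNat 0, .ofNat 640, .ofNat 631, .ofNat 0, .ofNat 0, .ofNat 0, .ofNat 0, .ofNat 0, .ofNat 0, .ofNat 3896059348641348742419339808620294715736064, .ofNat 0, .ofNat 0, .ofNat 0, .ofNat 0, .ofNat 0, .ofNat 0, .ofNat 0, .ofNat 10904718526414905135868429838495444713340928, .ofNat 0⟩)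
    (by decide +kernel)
theorem L01766 : Good (Phi V5.P V5.D (-1) (-1)) ⟨5, 24, 3, 1, 3, 6, 3, 7, 5, 1⟩ :=
  leafX_sound T5.ok_mm T5.Ymm.bz_eq (w := 236) (c := ⟨⟨.negSucc 2067, .negSucc 106, .ofNat 417, .ofNat 783, .ofNat 155, .negSucc 500⟩, ⟨.ofNat 465, .ofNat 29, .ofNat 52, .negSucc 292, .negSucc 37, .ofNat 174⟩, ⟨.ofNat 1450, .ofNat 33, .negSucc 247, .negSucc 670, .negSucc 277, .ofNat 190⟩, ⟨.negSucc 3741, .negSucc 201, .ofNat 612, .ofNat 1232, .ofNat 335, .negSucc 859⟩, ⟨.negSucc 1111, .negSucc 238, .negSucc 81, .negSucc 118, .ofNat 310, .negSucc 61⟩, .ofNat 581, .ofNat 578, .ofNat 0, .ofNat 578, .ofNat 1826, .ofNat 0, .ofNat 133, .negSucc 127, .negSucc 974, .ofNat 0, .ofNat 93, .ofNat 322, .ofNat 0, .ofNat 0, .ofNat 861, .ofNat 727, .ofNat 0, .ofNat 0, .ofNat 0, .ofNat 0, .ofNat 0, .ofNat 74592424203065996351844645938008625285905252352, .ofNat 2834310989217527279000766252037214287429632,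 .ofNat 0, .ofNat 0, .ofNat 0, .ofNat 0, .ofNat 0, .ofNat 0, .ofNat 0, .ofNat 15046798704715224609342288746477498799226880, .ofNat 0⟩)
    (by decide +kernel)
theorem L01767 : Good (Phi V5.P V5.D (-1) (-1)) ⟨5, 25, 3, 1, 3, 6, 3, 6, 5, 1⟩ :=
  leafX_sound T5.ok_mm T5.Ymm.bz_eq (w := 237) (c := ⟨⟨.ofNat 380, .negSucc 25, .negSucc 207, .ofNat 352, .negSucc 1092, .negSucc 1638⟩, ⟨.negSucc 416, .negSucc 107, .ofNat 247, .negSucc 140, .ofNat 406, .ofNat 595⟩, ⟨.negSucc 410, .negSucc 537, .ofNat 196, .negSucc 191, .ofNat 714, .ofNat 1080⟩, ⟨.ofNat 240, .negSucc 191, .negSucc 400, .ofNat 530, .negSucc 1769, .negSucc 2710⟩, ⟨.negSucc 1042, .negSucc 494, .negSucc 106, .negSucc 87, .negSucc 53, .negSucc 233⟩, .ofNat 781, .ofNat 985, .ofNat 0, .ofNat 985, .ofNat 2611, .ofNat 0, .ofNat 169, .negSucc 127, .negSucc 1628, .ofNat 0, .ofNat 76, .ofNat 614, .ofNat 0, .ofNat 0, .ofNat 1398, .ofNat 1149,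 .ofNat 0, .ofNat 0, .ofNat 262829430848029657361382232848614608076800, .ofNat 0, .ofNat 0, .ofNat 0, .ofNat 43554093246497024996467429519564929616576512, .ofNat 0, .ofNat 0, .ofNat 0, .ofNat 28706601354913769249745916168524824792006656, .ofNat 0, .ofNat 0, .ofNat 0, .ofNat 67407206584910189680280379414851858561236992, .ofNat 0⟩)
    (by decide +kernel)
theorem L01768 : Good (Phi V5.P V5.D (-1) (-1)) ⟨5, 25, 3, 1, 3, 6, 3, 7, 5, 1⟩ :=
  leafX_sound T5.ok_mm T5.Ymm.bz_eq (w := 238) (c := ⟨⟨.negSucc 1556, .negSucc 306, .negSucc 474, .ofNat 978, .ofNat 252, .negSucc 495⟩, ⟨.ofNat 294, .ofNat 110, .ofNat 355, .negSucc 388, .negSucc 73, .ofNat 182⟩, ⟨.ofNat 1045, .ofNat 193, .ofNat 413, .negSucc 830, .negSucc 344, .ofNat 184⟩, ⟨.negSucc 2989, .negSucc 405, .negSucc 736, .ofNat 1492, .ofNat 489, .negSucc 816⟩, ⟨.negSucc 1294, .ofNat 29, .ofNat 41, .negSucc 195, .ofNat 223, .negSucc 58⟩, .ofNat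 779, .ofNat 980, .ofNat 0, .ofNat 980, .ofNat 2601, .ofNat 0, .ofNat 200, .negSucc 127, .negSucc 1811, .ofNat 0, .ofNat 80, .ofNat 675, .ofNat 0, .ofNat 0, .ofNat 1590, .ofNat 1126, .ofNat 0, .ofNat 0, .ofNat 44124581042424642251446847645754408828928, .ofNat 0, .ofNat 0, .ofNat 252218231105301334949112171381898068196346298368, .ofNat 25424897388637604655701957976838879578161152, .ofNat 0, .ofNat 0, .ofNat 87200299111769206588917138519935876867972661248, .ofNat 16088246383598268976014514976250015812419584, .ofNat 0, .ofNat 0, .ofNat 0, .ofNat 83830385657923427093120892348346222442971136, .ofNat 0⟩)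
    (by decide +kernel)
theorem L01769 : Good (Phi V5.P V5.D (-1) (-1)) ⟨5, 24, 3, 1, 4, 14, 3, 6, 5, 1⟩ :=
  leafX_sound T5.ok_mm T5.Ymm.bz_eq (w := 250) (c := ⟨⟨.negSucc 585, .negSucc 55, .ofNat 307, .negSucc 45, .negSucc 488, .negSucc 597⟩, ⟨.negSucc 15, .negSucc 9, .ofNat 64, .ofNat 19, .ofNat 155, .ofNat 180⟩, ⟨.ofNat 419, .ofNat 20, .negSucc 105, .ofNat 56, .ofNat 179, .ofNat 203⟩, ⟨.negSucc 1315, .negSucc 82, .ofNat 478, .negSucc 81, .negSucc 881, .negSucc 1100⟩, ⟨.negSucc 1204, .negSucc 44, .ofNat 209, .negSucc 17, .negSucc 234, .negSucc 354⟩, .ofNat 581, .ofNat 578, .ofNat 0, .ofNat 578, .ofNat 1826, .ofNat 0, .ofNat 128, .negSucc 165, .negSucc 1072, .ofNat 0, .ofNat 106, .ofNat 347, .ofNat 0, .ofNat 0, .ofNat 887, .ofNat 1237, .ofNat 0, .ofNat 0, .ofNat 554124006622186522064304760389404373309980672, .ofNat 0, .ofNat 0, .ofNat 0, .ofNat 35518788730939349030786783888610576659736690688,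 .ofNat 0, .ofNat 0, .ofNat 0, .ofNat 178196155884658730642129811884233022657230012416, .ofNat 0, .ofNat 0, .ofNat 0, .ofNat 309989774456864068182101041706423064952750211072, .ofNat 0⟩)
    (by decide +kernel)
theorem L01770 : Good (Phi V5.P V5.D (-1) (-1)) ⟨5, 25, 3, 1, 4, 14, 3, 6, 5, 1⟩ :=
  leafX_sound T5.ok_mm T5.Ymm.bz_eq (w := 251) (c := ⟨⟨.negSucc 703, .negSucc 163, .ofNat 205, .negSucc 5, .negSucc 432, .negSucc 543⟩, ⟨.negSucc 10, .ofNat 40, .ofNat 96, .ofNat 2, .ofNat 144, .ofNat 172⟩, ⟨.ofNat 501, .ofNat 115, .negSucc 48, .ofNat 28, .ofNat 128, .ofNat 161⟩, ⟨.negSucc 1462, .negSucc 199, .ofNat 246, .negSucc 10, .negSucc 776, .negSucc 1003⟩, ⟨.negSucc 1171, .ofNat 60, .ofNat 69, .negSucc 2, .negSucc 210, .negSucc 349⟩, .ofNat 696, .ofNat 808, .ofNat 0, .ofNat 808, .ofNat 2198, .ofNat 0, .ofNat 130, .negSucc 127, .negSucc 1564, .ofNat 0, .ofNat 73, .ofNat 568, .ofNat 0, .ofNat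 0, .ofNat 1273, .ofNat 2593, .ofNat 0, .ofNat 0, .ofNat 879954154384729895646026367381405288447868928, .ofNat 0, .ofNat 0, .ofNat 0, .ofNat 165823637395165367612373534363217516631452286976, .ofNat 0, .ofNat 0, .ofNat 0, .ofNat 285511460585172627651425338777106312964721344512, .ofNat 0, .ofNat 0, .ofNat 0, .ofNat 954334693542667817228293607764799342142054989824, .ofNat 0⟩)
    (by decide +kernel)
theorem L01771 : Good (Phi V5.P V5.D (-1) (-1)) ⟨4, 12, 3, 1, 4, 14, 3, 7, 5, 1⟩ :=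
  leafX_sound T5.ok_mm T5.Ymm.bz_eq (w := 247) (c := ⟨⟨.negSucc 1380, .negSucc 86, .ofNat 82, .ofNat 214, .ofNat 298, .ofNat 27⟩, ⟨.ofNat 235, .negSucc 26, .ofNat 134, .negSucc 75, .negSucc 75, .negSucc 1⟩, ⟨.ofNat 830, .negSucc 9, .ofNat 32, .negSucc 152, .negSucc 394, .negSucc 180⟩, ⟨.negSucc 2727, .negSucc 149, .ofNat 79, .ofNat 352, .ofNat 579, .ofNat 56⟩, ⟨.negSucc 1525, .negSucc 185, .ofNat 98, .ofNat 7, .ofNat 284, .ofNat 55⟩, .ofNat 565, .ofNat 529, .ofNat 0, .ofNat 529, .ofNat 1607, .ofNat 0, .ofNat 300, .negSucc 127, .negSucc 802, .ofNat 0, .ofNat 94, .ofNat 265, .ofNat 0, .ofNat 0, .ofNat 667, .ofNat 1801, .ofNat 0, .ofNat 0, .ofNat 2677461787915994311230027818867742950377390080, .ofNat 0, .ofNat 0, .ofNat 0, .ofNat 283495253786147308358584971678787588118429040640, .ofNat 0, .ofNat 0, .ofNat 0, .ofNat 268374276205467138328732111764239416693312454656, .ofNat 0, .ofNat 0, .ofNat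 0, .ofNat 611075796964050704058612554289835721981224288256, .ofNat 0⟩)
    (by decide +kernel)
theorem L01772 : Good (Phi V5.P V5.D (-1) (-1)) ⟨4, 12, 3, 1, 4, 15, 3, 6, 5, 1⟩ :=
  leafX_sound T5.ok_mm T5.Ymm.bz_eq (w := 246) (c := ⟨⟨.negSucc 870, .negSucc 144, .ofNat 176, .negSucc 143, .negSucc 125, .negSucc 243⟩, ⟨.ofNat 83, .negSucc 2, .ofNat 111, .ofNat 43, .ofNat 26, .ofNat 59⟩, ⟨.ofNat 640, .ofNat 47, .ofNat 13, .ofNat 80, .negSucc 94, .negSucc 43⟩, ⟨.negSucc 1766, .negSucc 259, .ofNat 251, .negSucc 268, .negSucc 287, .negSucc 501⟩, ⟨.negSucc 1160, .negSucc 219, .ofNat 159, .negSucc 95, .negSucc 221, .negSucc 289⟩, .ofNat 642, .ofNat 680, .ofNat 0, .ofNat 680, .ofNat 1981, .ofNat 0, .ofNat 175, .negSucc 127, .negSucc 609, .ofNat 0, .ofNat 84, .ofNat 200, .ofNat 0, .ofNat 0, .ofNat 508, .ofNat 1061, .ofNat 0, .ofNat 0, .ofNat 1560229689886800537264724553507255622618316800, .ofNat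 0, .ofNat 0, .ofNat 0, .ofNat 121629836569683952366482990181309382707388612608, .ofNat 0, .ofNat 0, .ofNat 0, .ofNat 366234857118655782572340093393256975231059230720, .ofNat 0, .ofNat 0, .ofNat 0, .ofNat 0, .ofNat 0⟩)
    (by decide +kernel)
theorem L01773 : Good (Phi V5.P V5.D (-1) (-1)) ⟨4, 12, 3, 1, 4, 15, 3, 7, 5, 1⟩ :=
  leafX_sound T5.ok_mm T5.Ymm.bz_eq (w := 247) (c := ⟨⟨.negSucc 1282, .ofNat 68, .ofNat 71, .ofNat 47, .ofNat 392, .ofNat 147⟩, ⟨.ofNat 197, .negSucc 72, .ofNat 135, .negSucc 15, .negSucc 103, .negSucc 38⟩, ⟨.ofNat 709, .negSucc 100, .ofNat 70, .negSucc 30, .negSucc 442, .negSucc 226⟩, ⟨.negSucc 2641, .ofNat 129, .ofNat 99, .ofNat 80, .ofNat 766, .ofNat 300⟩, ⟨.negSucc 1729, .negSucc 79, .ofNat 213, .ofNat 3, .ofNat 372, .ofNat 178⟩, .ofNat 565, .ofNat 529, .ofNat 0, .ofNat 529, .ofNat 1607, .ofNat 0, .ofNat 330, .negSucc 127, .negSucc 514, .ofNat 0, .ofNat 88, .ofNat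 163, .ofNat 0, .ofNat 0, .ofNat 434, .ofNat 1942, .ofNat 0, .ofNat 0, .ofNat 2661748944212518758661045386205786968487362560, .ofNat 0, .ofNat 0, .ofNat 114540640912323110547544460763042959137368944148480, .ofNat 718908929563022925506319900387889862608295034880, .ofNat 0, .ofNat 0, .ofNat 29853547124919657104793890092630728105076776239104, .ofNat 146250246501223027371161662332515733505323302912, .ofNat 0, .ofNat 0, .ofNat 0, .ofNat 274283767209773177203955562371203186200563154944, .ofNat 0⟩)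
    (by decide +kernel)
theorem L01774 : Good (Phi V5.P V5.D (-1) (-1)) ⟨4, 13, 3, 1, 2, 3, 2, 3, 4, 0⟩ :=
  out_sound (S := T5.ds_mm) T5.ok_mm (w := 51) (j := 3) (by decide +kernel)
theorem L01775 : Good (Phi V5.P V5.D (-1) (-1)) ⟨3, 7, 3, 1, 2, 3, 2, 3, 4, 0⟩ :=
  out_sound (S := T5.ds_mm) T5.ok_mm (w := 45) (j := 3) (by decide +kernel)
theorem L01776 : Good (Phi V5.P V5.D (-1) (-1)) ⟨4, 12, 3, 1, 4, 12, 2, 2, 5, 2⟩ :=
  leafX_sound T5.ok_mm T5.Ymm.bz_eq (w := 242) (c := ⟨⟨.negSucc 442, .negSucc 1086, .ofNat 669, .ofNat 254, .negSucc 1119, .negSucc 1947⟩, ⟨.negSucc 179, .ofNat 354, .ofNat 12, .negSucc 110, .ofNat 431, .ofNat 679⟩, ⟨.ofNat 54, .ofNat 762, .negSucc 410, .negSucc 148, .ofNat 778, .ofNat 1348⟩, ⟨.negSucc 1272, .negSucc 1683, .ofNat 1056, .ofNat 371, .negSucc 1804, .negSucc 3129⟩, ⟨.negSucc 1567, .negSucc 106, .ofNat 24, .negSucc 155, .ofNat 246, .ofNat 11⟩, .ofNat 449,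 .ofNat 322, .ofNat 0, .ofNat 322, .ofNat 1084, .ofNat 0, .ofNat 146, .negSucc 127, .negSucc 844, .ofNat 0, .ofNat 94, .ofNat 294, .ofNat 0, .ofNat 0, .ofNat 697, .ofNat 694, .ofNat 0, .ofNat 0, .ofNat 831354450760889021240392079967174976184778752, .ofNat 0, .ofNat 0, .ofNat 0, .ofNat 2864445789057623111207864093763425297091264512, .ofNat 0, .ofNat 0, .ofNat 0, .ofNat 26447501199243298806050455970614023714571812864, .ofNat 0, .ofNat 0, .ofNat 0, .ofNat 83528597521351343755964815951640363926535798784, .ofNat 0⟩)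
    (by decide +kernel)
theorem L01777 : Good (Phi V5.P V5.D (-1) (-1)) ⟨4, 12, 3, 1, 4, 13, 2, 2, 5, 2⟩ :=
  leafX_sound T5.ok_mm T5.Ymm.bz_eq (w := 242) (c := ⟨⟨.negSucc 329, .negSucc 713, .ofNat 468, .ofNat 233, .negSucc 773, .negSucc 1672⟩, ⟨.negSucc 166, .ofNat 193, .ofNat 36, .negSucc 76, .ofNat 284, .ofNat 560⟩, ⟨.ofNat 126, .ofNat 438, .negSucc 235, .negSucc 126, .ofNat 397, .ofNat 1036⟩, ⟨.negSucc 984, .negSucc 1118, .ofNat 686, .ofNat 359, .negSucc 1261, .negSucc 2835⟩, ⟨.negSucc 1418, .negSucc 84, .ofNat 41, .negSucc 114, .ofNat 94, .negSucc 322⟩, .ofNat 559, .ofNat 542, .ofNat 0, .ofNat 542, .ofNat 1667, .ofNat 0, .ofNat 128, .negSucc 149, .negSucc 849, .ofNat 0, .ofNat 89, .ofNat 299, .ofNat 0, .ofNat 0, .ofNat 719, .ofNat 733, .ofNat 0, .ofNat 0, .ofNat 293174885507853744194019131081895638877601792, .ofNat 0, .ofNat 0, .ofNat 0, .ofNat 19618161269527021064586011123537855680222330880,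 .ofNat 0, .ofNat 0, .ofNat 0, .ofNat 27520498998453225198832974137861399927073013760, .ofNat 0, .ofNat 0, .ofNat 0, .ofNat 83925648057809614741136355381227618370001567744, .ofNat 0⟩)
    (by decide +kernel)
theorem L01778 : Good (Phi V5.P V5.D (-1) (-1)) ⟨4, 12, 3, 1, 4, 12, 3, 6, 5, 2⟩ :=
  leafX_sound T5.ok_mm T5.Ymm.bz_eq (w := 247) (c := ⟨⟨.negSucc 2495, .negSucc 1269, .ofNat 762, .ofNat 544, .negSucc 196, .negSucc 822⟩, ⟨.ofNat 559, .ofNat 473, .negSucc 21, .negSucc 208, .ofNat 84, .ofNat 293⟩, ⟨.ofNat 1656, .ofNat 923, .negSucc 553, .negSucc 465, .ofNat 94, .ofNat 469⟩, ⟨.negSucc 4498, .negSucc 1879, .ofNat 1103, .ofNat 832, .negSucc 264, .negSucc 1301⟩, ⟨.negSucc 1238, .negSucc 110, .negSucc 187, .negSucc 151, .ofNat 197, .ofNat 138⟩, .ofNat 619, .ofNat 634, .ofNat 0, .ofNat 634, .ofNat 1868, .ofNat 0, .ofNat 128, .negSucc 161, .negSucc 1313, .ofNat 0, .ofNat 112, .ofNat 468,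 .ofNat 0, .ofNat 0, .ofNat 1144, .ofNat 547, .ofNat 0, .ofNat 0, .ofNat 14371045898310730965124363450618617377023066112, .ofNat 0, .ofNat 0, .ofNat 0, .ofNat 102859820896999870058495309956373596333580222464, .ofNat 0, .ofNat 0, .ofNat 0, .ofNat 650179581299446868767273358346441142454605316096, .ofNat 0, .ofNat 0, .ofNat 0, .ofNat 1671686633856762445299100835968004754695461535744, .ofNat 0⟩)
    (by decide +kernel)
theorem L01779 : Good (Phi V5.P V5.D (-1) (-1)) ⟨4, 12, 3, 1, 4, 13, 3, 6, 5, 2⟩ :=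
  leafX_sound T5.ok_mm T5.Ymm.bz_eq (w := 246) (c := ⟨⟨.negSucc 2240, .negSucc 604, .ofNat 530, .ofNat 684, .ofNat 22, .negSucc 486⟩, ⟨.ofNat 473, .ofNat 192, .ofNat 44, .negSucc 248, .ofNat 8, .ofNat 173⟩, ⟨.ofNat 1415, .ofNat 375, .negSucc 325, .negSucc 510, .negSucc 109, .ofNat 185⟩, ⟨.negSucc 4128, .negSucc 901, .ofNat 773, .ofNat 1077, .ofNat 79, .negSucc 794⟩, ⟨.negSucc 1423, .negSucc 161, .negSucc 36, .negSucc 101, .ofNat 140, .negSucc 6⟩, .ofNat 626, .ofNat 680, .ofNat 0, .ofNat 680, .ofNat 2028, .ofNat 0, .ofNat 128, .negSucc 141, .negSucc 1039, .ofNat 0, .ofNat 83, .ofNat 364, .ofNat 0, .ofNat 0, .ofNat 889, .ofNat 552, .ofNat 0, .ofNat 0, .ofNat 4569980282964196846548100490914334363260813312, .ofNat 0, .ofNat 0, .ofNat 0, .ofNat 312139167530388905563008910948241988315563163648, .ofNat 0, .ofNat 0, .ofNat 0, .ofNat 322163815806857105474373754234719226358145220608, .ofNat 0,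 .ofNat 0, .ofNat 0, .ofNat 979098256353720232450597678689222107656425046016, .ofNat 0⟩)
    (by decide +kernel)
theorem L01780 : Good (Phi V5.P V5.D (-1) (-1)) ⟨4, 12, 3, 1, 3, 6, 3, 7, 5, 2⟩ :=
  leafX_sound T5.ok_mm T5.Ymm.bz_eq (w := 232) (c := ⟨⟨.negSucc 3287, .negSucc 547, .ofNat 529, .ofNat 1373, .ofNat 788, .ofNat 104⟩, ⟨.ofNat 850, .ofNat 207, .ofNat 45, .negSucc 491, .negSucc 223, .negSucc 26⟩, ⟨.ofNat 2229, .ofNat 293, .negSucc 348, .negSucc 1146, .negSucc 729, .negSucc 244⟩, ⟨.negSucc 5761, .negSucc 870, .ofNat 819, .ofNat 2136, .ofNat 1418, .ofNat 231⟩, ⟨.negSucc 1097, .negSucc 416, .negSucc 22, .negSucc 322, .ofNat 373, .ofNat 222⟩, .ofNat 622, .ofNat 673, .ofNat 0, .ofNat 673, .ofNat 2015, .ofNat 0, .ofNat 133, .negSucc 127, .negSucc 484, .ofNat 0, .ofNat 79, .ofNat 167, .ofNat 0, .ofNat 0, .ofNat 428, .ofNat 194, .ofNat 0, .ofNat 0, .ofNat 216815743837414735380765393182972870393856,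 .ofNat 0, .ofNat 0, .ofNat 0, .ofNat 7503401470227073420929759500878608376791040, .ofNat 0, .ofNat 0, .ofNat 8505814533223874966290631566131490921354625024, .ofNat 15962547764559442199235067632606134019293184, .ofNat 0, .ofNat 0, .ofNat 0, .ofNat 20994316860379851283543524218855887759998976, .ofNat 0⟩)
    (by decide +kernel)
theorem L01781 : Good (Phi V5.P V5.D (-1) (-1)) ⟨4, 12, 3, 1, 3, 6, 2, 2, 5, 3⟩ :=
  leafX_sound T5.ok_mm T5.Ymm.bz_eq (w := 229) (c := ⟨⟨.negSucc 3514, .negSucc 926, .ofNat 438, .ofNat 1102, .ofNat 520, .negSucc 230⟩, ⟨.ofNat 895, .ofNat 358, .ofNat 108, .negSucc 428, .negSucc 165, .ofNat 91⟩, ⟨.ofNat 2339, .ofNat 647, .negSucc 317, .negSucc 854, .negSucc 477, .ofNat 47⟩, ⟨.negSucc 6151, .negSucc 1308, .ofNat 587, .ofNat 1647, .ofNat 874, .negSucc 361⟩, ⟨.negSucc 1268, .negSucc 124, .negSucc 112, .negSucc 417, .ofNat 137, .ofNat 111⟩, .ofNat 472, .ofNat 376, .ofNat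 0, .ofNat 376, .ofNat 1248, .ofNat 0, .ofNat 128, .negSucc 134, .negSucc 786, .ofNat 0, .ofNat 89, .ofNat 280, .ofNat 0, .ofNat 0, .ofNat 727, .ofNat 850, .ofNat 0, .ofNat 0, .ofNat 45637053453724737978390161373262665220096, .ofNat 0, .ofNat 0, .ofNat 0, .ofNat 221180262045203711754419245952762311081984, .ofNat 0, .ofNat 0, .ofNat 0, .ofNat 1737444653954557705235179855894060193546240, .ofNat 0, .ofNat 0, .ofNat 0, .ofNat 3235795972524270156559997117712160832618496, .ofNat 0⟩)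
    (by decide +kernel)
theorem L01782 : Good (Phi V5.P V5.D (-1) (-1)) ⟨4, 12, 3, 1, 3, 6, 2, 3, 5, 3⟩ :=
  leafX_sound T5.ok_mm T5.Ymm.bz_eq (w := 228) (c := ⟨⟨.negSucc 3388, .negSucc 490, .ofNat 300, .ofNat 1310, .ofNat 1029, .ofNat 203⟩, ⟨.ofNat 862, .ofNat 178, .ofNat 151, .negSucc 489, .negSucc 277, .negSucc 45⟩, ⟨.ofNat 2189, .ofNat 254, .negSucc 211, .negSucc 1039, .negSucc 928, .negSucc 264⟩, ⟨.negSucc 5954, .negSucc 717, .ofNat 435, .ofNat 1998, .ofNat 1894, .ofNat 405⟩, ⟨.negSucc 1126, .negSucc 268, .negSucc 90, .negSucc 374, .ofNat 631, .ofNat 188⟩, .ofNat 618, .ofNat 661, .ofNat 0, .ofNat 661, .ofNat 1974, .ofNat 0, .ofNat 146, .negSucc 127, .negSucc 391, .ofNat 0, .ofNat 78, .ofNat 140, .ofNat 0, .ofNat 0, .ofNat 378, .ofNat 260, .ofNat 0, .ofNat 0, .ofNat 16853129238401996205127676825674295803904, .ofNat 0, .ofNat 0, .ofNat 1548555936311016524180333772135154505670983680,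 .ofNat 1258557287559894962296679643972435561152512, .ofNat 0, .ofNat 0, .ofNat 1538995882193441620174106031799832694151446528, .ofNat 933211838444128710819893845064941869989888, .ofNat 0, .ofNat 0, .ofNat 127735867740517404972470363622802909325950976, .ofNat 1101956962808867429123753040066015391645696, .ofNat 0⟩)
    (by decide +kernel)
theorem L01783 : Good (Phi V5.P V5.D (-1) (-1)) ⟨4, 13, 3, 1, 3, 6, 1, 1, 4, 1⟩ :=
  out_sound (S := T5.ds_mm) T5.ok_mm (w := 51) (j := 3) (by decide +kernel)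
theorem L01784 : Good (Phi V5.P V5.D (-1) (-1)) ⟨3, 7, 3, 1, 3, 6, 1, 1, 4, 1⟩ :=
  out_sound (S := T5.ds_mm) T5.ok_mm (w := 45) (j := 3) (by decide +kernel)
theorem L01785 : Good (Phi V5.P V5.D (-1) (-1)) ⟨4, 12, 3, 1, 4, 14, 3, 4, 5, 2⟩ :=
  leafX_sound T5.ok_mm T5.Ymm.bz_eq (w := 245) (c := ⟨⟨.negSucc 576, .negSucc 285, .ofNat 271, .negSucc 85, .negSucc 17, .negSucc 1330⟩, ⟨.negSucc 37, .ofNat 33, .ofNat 92, .ofNat 45, .negSucc 6, .ofNat 419⟩, ⟨.ofNat 393, .ofNat 198, .negSucc 83, .ofNat 93, .negSucc 76, .ofNat 695⟩, ⟨.negSucc 1367, .negSucc 429, .ofNat 429, .negSucc 126, .negSucc 49, .negSucc 2345⟩, ⟨.negSucc 1404, .negSucc 61, .ofNat 253, .ofNat 32, .negSucc 33, .negSucc 509⟩, .ofNat 628, .ofNat 684, .ofNat 0, .ofNat 684, .ofNat 2027, .ofNat 0, .ofNat 157, .negSucc 127, .negSucc 594, .ofNat 0, .ofNat 73, .ofNat 207, .ofNat 0, .ofNat 0, .ofNat 516, .ofNat 880, .ofNat 0, .ofNat 0,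 .ofNat 0, .ofNat 0, .ofNat 0, .ofNat 0, .ofNat 152807910898106529605767347402779688393383084032, .ofNat 0, .ofNat 0, .ofNat 0, .ofNat 253659500210696109852975044266919502368282247168, .ofNat 0, .ofNat 0, .ofNat 0, .ofNat 342279404469769821921755516068272425897564307456, .ofNat 0⟩)
    (by decide +kernel)
theorem L01786 : Good (Phi V5.P V5.D (-1) (-1)) ⟨4, 12, 3, 1, 4, 14, 3, 5, 5, 2⟩ :=
  leafX_sound T5.ok_mm T5.Ymm.bz_eq (w := 246) (c := ⟨⟨.negSucc 842, .negSucc 181, .ofNat 105, .ofNat 124, .negSucc 168, .negSucc 847⟩, ⟨.ofNat 36, .ofNat 5, .ofNat 154, .negSucc 36, .ofNat 50, .ofNat 269⟩, ⟨.ofNat 495, .ofNat 90, .ofNat 24, .negSucc 48, .ofNat 9, .ofNat 385⟩, ⟨.negSucc 1724, .negSucc 321, .ofNat 56, .ofNat 199, .negSucc 327, .negSucc 1532⟩, ⟨.negSucc 1122, .negSucc 304, .negSucc 81, .negSucc 4, .negSucc 121, .negSucc 444⟩, .ofNat 626, .ofNat 678, .ofNat 0, .ofNat 678, .ofNat 2010, .ofNat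 0, .ofNat 128, .negSucc 145, .negSucc 721, .ofNat 0, .ofNat 83, .ofNat 250, .ofNat 0, .ofNat 0, .ofNat 608, .ofNat 820, .ofNat 0, .ofNat 0, .ofNat 827861269078914344589588098158844756526891008, .ofNat 0, .ofNat 0, .ofNat 0, .ofNat 111288671790454822609973646387640498799899574272, .ofNat 0, .ofNat 0, .ofNat 0, .ofNat 234890471175934937340309734629314532041625174016, .ofNat 0, .ofNat 0, .ofNat 0, .ofNat 467949133875615840135081193013646039554826698752, .ofNat 0⟩)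
    (by decide +kernel)
theorem L01787 : Good (Phi V5.P V5.D (-1) (-1)) ⟨4, 12, 3, 1, 4, 15, 3, 4, 5, 2⟩ :=
  leafX_sound T5.ok_mm T5.Ymm.bz_eq (w := 246) (c := ⟨⟨.negSucc 1119, .negSucc 141, .ofNat 220, .negSucc 255, .ofNat 155, .negSucc 738⟩, ⟨.ofNat 144, .negSucc 1, .ofNat 135, .ofNat 102, .negSucc 70, .ofNat 206⟩, ⟨.ofNat 803, .ofNat 82, .negSucc 31, .ofNat 129, .negSucc 176, .ofNat 256⟩, ⟨.negSucc 2157, .negSucc 176, .ofNat 333, .negSucc 389, .ofNat 157, .negSucc 1410⟩, ⟨.negSucc 1069, .negSucc 128, .ofNat 189, .ofNat 64, .negSucc 270, .negSucc 572⟩, .ofNat 565, .ofNat 529, .ofNat 0, .ofNat 529, .ofNat 1607, .ofNat 0, .ofNat 149, .negSucc 127, .negSucc 369, .ofNat 0, .ofNat 85, .ofNat 120, .ofNat 0, .ofNat 0, .ofNat 324, .ofNat 1535, .ofNat 0, .ofNat 0, .ofNat 0, .ofNat 0, .ofNat 0, .ofNat 0, .ofNat 78156048127311933020101740650409946921362784256, .ofNat 0, .ofNat 0, .ofNat 0, .ofNat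 105198113917306391191014118301641786671958589440, .ofNat 0, .ofNat 0, .ofNat 0, .ofNat 210534438458678181871496185783542829065040822272, .ofNat 0⟩)
    (by decide +kernel)
theorem L01788 : Good (Phi V5.P V5.D (-1) (-1)) ⟨4, 12, 3, 1, 4, 15, 3, 5, 5, 2⟩ :=
  leafX_sound T5.ok_mm T5.Ymm.bz_eq (w := 245) (c := ⟨⟨.negSucc 1373, .negSucc 83, .ofNat 176, .negSucc 15, .ofNat 149, .negSucc 292⟩, ⟨.ofNat 213, .negSucc 18, .ofNat 140, .ofNat 9, .negSucc 61, .ofNat 76⟩, ⟨.ofNat 869, .ofNat 23, .negSucc 5, .negSucc 4, .negSucc 191, .ofNat 4⟩, ⟨.negSucc 2687, .negSucc 91, .ofNat 227, .negSucc 11, .ofNat 204, .negSucc 577⟩, ⟨.negSucc 1452, .negSucc 112, .ofNat 130, .ofNat 47, .negSucc 94, .negSucc 279⟩, .ofNat 624, .ofNat 675, .ofNat 0, .ofNat 675, .ofNat 2017, .ofNat 0, .ofNat 134, .negSucc 127, .negSucc 483, .ofNat 0, .ofNat 72, .ofNat 160, .ofNat 0, .ofNat 0, .ofNat 432, .ofNat 796, .ofNat 0, .ofNat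 0, .ofNat 825580374793116399721294110377165342113792000, .ofNat 0, .ofNat 0, .ofNat 0, .ofNat 97679821497772439741429367514589224646387695616, .ofNat 0, .ofNat 0, .ofNat 0, .ofNat 200148959527603225696075558232848965706486644736, .ofNat 0, .ofNat 0, .ofNat 0, .ofNat 0, .ofNat 0⟩)
    (by decide +kernel)
theorem L01789 : Good (Phi V5.P V5.D (-1) (-1)) ⟨4, 12, 3, 1, 3, 7, 3, 4, 5, 3⟩ :=
  leafX_sound T5.ok_mm T5.Ymm.bz_eq (w := 232) (c := ⟨⟨.negSucc 2553, .negSucc 180, .ofNat 216, .ofNat 546, .ofNat 411, .negSucc 56⟩, ⟨.ofNat 555, .ofNat 34, .ofNat 175, .negSucc 178, .negSucc 147, .ofNat 14⟩, ⟨.ofNat 1580, .ofNat 76, .negSucc 74, .negSucc 406, .negSucc 347, .negSucc 90⟩, ⟨.negSucc 4693, .negSucc 216, .ofNat 264, .ofNat 920, .ofNat 641, .negSucc 116⟩, ⟨.negSucc 1627, .negSucc 184, .ofNat 28, .ofNat 89, .negSucc 77, .negSucc 51⟩, .ofNat 627, .ofNat 681, .ofNat 0, .ofNat 681, .ofNat 2020,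 .ofNat 0, .ofNat 128, .negSucc 214, .negSucc 450, .ofNat 0, .ofNat 129, .ofNat 158, .ofNat 0, .ofNat 0, .ofNat 466, .ofNat 1132, .ofNat 0, .ofNat 0, .ofNat 0, .ofNat 0, .ofNat 0, .ofNat 0, .ofNat 19376940179178314670879446710808276537180160, .ofNat 0, .ofNat 0, .ofNat 0, .ofNat 13532378623449700006259404678460655888498688, .ofNat 0, .ofNat 0, .ofNat 0, .ofNat 23849597737731669369063797740049184581484544, .ofNat 0⟩)
    (by decide +kernel)
theorem L01790 : Good (Phi V5.P V5.D (-1) (-1)) ⟨4, 12, 3, 1, 3, 7, 3, 5, 5, 3⟩ :=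
  leafX_sound T5.ok_mm T5.Ymm.bz_eq (w := 232) (c := ⟨⟨.negSucc 2255, .negSucc 86, .ofNat 180, .ofNat 615, .ofNat 412, .ofNat 75⟩, ⟨.ofNat 470, .negSucc 13, .ofNat 155, .negSucc 203, .negSucc 127, .negSucc 19⟩, ⟨.ofNat 1277, .ofNat 10, .negSucc 52, .negSucc 381, .negSucc 342, .negSucc 169⟩, ⟨.negSucc 4247, .negSucc 65, .ofNat 211, .ofNat 1021, .ofNat 706, .ofNat 142⟩, ⟨.negSucc 1787, .negSucc 123, .ofNat 92, .ofNat 48, .ofNat 105, .ofNat 73⟩, .ofNat 616, .ofNat 661, .ofNat 0, .ofNat 661, .ofNat 2006, .ofNat 0, .ofNat 156, .negSucc 127, .negSucc 295, .ofNat 0, .ofNat 76, .ofNat 101, .ofNat 0, .ofNat 0, .ofNat 300, .ofNat 1205, .ofNat 0, .ofNat 0, .ofNat 0, .ofNat 0, .ofNat 0, .ofNat 0, .ofNat 10597475937040932089729093212940800467402752, .ofNat 0, .ofNat 0, .ofNat 0, .ofNat 14376640015063990063642724186645890145976320, .ofNat 0, .ofNat 0, .ofNat 0, .ofNat 13874720330227954458249525026797739040571392,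 .ofNat 0⟩)
    (by decide +kernel)
theorem L01791 : Good (Phi V5.P V5.D (-1) (-1)) ⟨4, 12, 3, 1, 3, 7, 3, 6, 5, 2⟩ :=
  leafX_sound T5.ok_mm T5.Ymm.bz_eq (w := 232) (c := ⟨⟨.negSucc 1630, .negSucc 56, .ofNat 113, .ofNat 419, .ofNat 300, .negSucc 93⟩, ⟨.ofNat 286, .negSucc 34, .ofNat 159, .negSucc 143, .negSucc 87, .ofNat 32⟩, ⟨.ofNat 937, .negSucc 27, .ofNat 8, .negSucc 234, .negSucc 313, .negSucc 96⟩, ⟨.negSucc 3177, .negSucc 66, .ofNat 128, .ofNat 688, .ofNat 552, .negSucc 165⟩, ⟨.negSucc 1656, .negSucc 112, .ofNat 112, .ofNat 20, .ofNat 202, .negSucc 25⟩, .ofNat 642, .ofNat 680, .ofNat 0, .ofNat 680, .ofNat 1981, .ofNat 0, .ofNat 143, .negSucc 127, .negSucc 606, .ofNat 0, .ofNat 84, .ofNat 204, .ofNat 0, .ofNat 0, .ofNat 516, .ofNat 873, .ofNat 0, .ofNat 0, .ofNat 75108112168504180757407760746518727884800, .ofNat 0, .ofNat 0, .ofNat 0, .ofNat 9944365270785193592310258234055497990799360,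 .ofNat 0, .ofNat 0, .ofNat 0, .ofNat 4992836372973159595333039637382494163042304, .ofNat 0, .ofNat 0, .ofNat 0, .ofNat 19876611777168795233501776749947743857803264, .ofNat 0⟩)
    (by decide +kernel)
theorem L01792 : Good (Phi V5.P V5.D (-1) (-1)) ⟨4, 12, 3, 1, 3, 7, 3, 7, 5, 2⟩ :=
  leafX_sound T5.ok_mm T5.Ymm.bz_eq (w := 232) (c := ⟨⟨.negSucc 1498, .ofNat 96, .ofNat 22, .ofNat 481, .ofNat 550, .ofNat 175⟩, ⟨.ofNat 272, .negSucc 86, .ofNat 153, .negSucc 156, .negSucc 132, .negSucc 36⟩, ⟨.ofNat 689, .negSucc 108, .ofNat 77, .negSucc 247, .negSucc 495, .negSucc 223⟩, ⟨.negSucc 2975, .ofNat 178, .negSucc 8, .ofNat 841, .ofNat 1105, .ofNat 379⟩, ⟨.negSucc 1685, .negSucc 110, .ofNat 145, .ofNat 154, .ofNat 607, .ofNat 294⟩, .ofNat 619, .ofNat 634, .ofNat 0, .ofNat 634, .ofNat 1868, .ofNat 0, .ofNat 289, .negSucc 127, .negSucc 490, .ofNat 0, .ofNat 85, .ofNat 161, .ofNat 0, .ofNat 0, .ofNat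 431, .ofNat 394, .ofNat 0, .ofNat 0, .ofNat 0, .ofNat 0, .ofNat 0, .ofNat 0, .ofNat 28622711894865727651107221742995080965259264, .ofNat 0, .ofNat 0, .ofNat 7311150064879442244035300539418347179350163456, .ofNat 2907451973097106124530174436302118279184384, .ofNat 0, .ofNat 0, .ofNat 0, .ofNat 14814035793412684336111058541697185473363968, .ofNat 0⟩)
    (by decide +kernel)
theorem L01793 : Good (Phi V5.P V5.D (-1) (-1)) ⟨4, 12, 3, 1, 3, 7, 2, 3, 5, 3⟩ :=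
  leafX_sound T5.ok_mm T5.Ymm.bz_eq (w := 227) (c := ⟨⟨.negSucc 1828, .ofNat 14, .ofNat 61, .ofNat 633, .ofNat 917, .ofNat 123⟩, ⟨.ofNat 352, .negSucc 51, .ofNat 156, .negSucc 205, .negSucc 213, .negSucc 17⟩, ⟨.ofNat 877, .negSucc 68, .ofNat 31, .negSucc 316, .negSucc 743, .negSucc 168⟩, ⟨.negSucc 3603, .ofNat 4, .ofNat 77, .ofNat 1113, .ofNat 1896, .ofNat 298⟩, ⟨.negSucc 1860, .negSucc 256, .ofNat 167, .ofNat 179, .ofNat 1127, .ofNat 268⟩, .ofNat 476, .ofNat 386, .ofNat 0, .ofNat 386, .ofNat 1276, .ofNat 0, .ofNat 258, .negSucc 127, .negSucc 330, .ofNat 0, .ofNat 83, .ofNat 105, .ofNat 0, .ofNat 0, .ofNat 330, .ofNat 194, .ofNat 0, .ofNat 0, .ofNat 781083138204703724604934922558041489408, .ofNat 0, .ofNat 0, .ofNat 0, .ofNat 1186291786387633838370231315350306177417216, .ofNat 0, .ofNat 0, .ofNat 1545325648852674209273965201298207253534343168, .ofNat 321078931270573949561136053899071882002432,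 .ofNat 0, .ofNat 0, .ofNat 0, .ofNat 504474676643412999317720424774297691619328, .ofNat 0⟩)
    (by decide +kernel)
theorem L01794 : Good (Phi V5.P V5.D (-1) (-1)) ⟨4, 13, 3, 1, 3, 7, 1, 1, 4, 1⟩ :=
  out_sound (S := T5.ds_mm) T5.ok_mm (w := 51) (j := 3) (by decide +kernel)
theorem L01795 : Good (Phi V5.P V5.D (-1) (-1)) ⟨3, 7, 3, 1, 3, 7, 1, 1, 4, 1⟩ :=
  out_sound (S := T5.ds_mm) T5.ok_mm (w := 45) (j := 3) (by decide +kernel)
theorem L01796 : Good (Phi V5.P V5.D (-1) (-1)) ⟨4, 12, 3, 0, 2, 3, 1, 1, 4, 2⟩ :=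
  out_sound (S := T5.ds_mm) T5.ok_mm (w := 51) (j := 3) (by decide +kernel)
theorem L01797 : Good (Phi V5.P V5.D (-1) (-1)) ⟨4, 12, 3, 1, 3, 6, 2, 2, 5, 4⟩ :=
  leafX_sound T5.ok_mm T5.Ymm.bz_eq (w := 229) (c := ⟨⟨.negSucc 3762, .negSucc 522, .ofNat 290, .ofNat 999, .ofNat 779, .ofNat 339⟩, ⟨.ofNat 989, .ofNat 218, .ofNat 166, .negSucc 393, .negSucc 252, .negSucc 109⟩, ⟨.ofNat 2432, .ofNat 320, .negSucc 221, .negSucc 775, .negSucc 706, .negSucc 332⟩, ⟨.negSucc 6588, .negSucc 695, .ofNat 405, .ofNat 1490, .ofNat 1352, .ofNat 604⟩, ⟨.negSucc 1233, .negSucc 183, .negSucc 30, .negSucc 411, .ofNat 232, .ofNat 139⟩, .ofNat 475, .ofNat 383, .ofNat 0, .ofNat 383, .ofNat 1266, .ofNat 0, .ofNat 128, .negSucc 136, .negSucc 397, .ofNat 0, .ofNat 93, .ofNat 146, .ofNat 0, .ofNat 0, .ofNat 460, .ofNat 759, .ofNat 0, .ofNat 0, .ofNat 27746345097379974960796400607879353073664, .ofNat 0, .ofNat 0, .ofNat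 0, .ofNat 446258960752239967327301795203991042260992, .ofNat 0, .ofNat 0, .ofNat 0, .ofNat 1048798568038053723760938702033503651889152, .ofNat 0, .ofNat 0, .ofNat 0, .ofNat 2147567822377206230459955727928936454160384, .ofNat 0⟩)
    (by decide +kernel)
theorem L01798 : Good (Phi V5.P V5.D (-1) (-1)) ⟨4, 12, 3, 1, 3, 7, 2, 2, 5, 4⟩ :=
  leafX_sound T5.ok_mm T5.Ymm.bz_eq (w := 228) (c := ⟨⟨.negSucc 2547, .negSucc 40, .ofNat 93, .ofNat 652, .ofNat 810, .ofNat 188⟩, ⟨.ofNat 572, .negSucc 6, .ofNat 180, .negSucc 220, .negSucc 254, .negSucc 53⟩, ⟨.ofNat 1455, .ofNat 18, .negSucc 48, .negSucc 401, .negSucc 668, .negSucc 220⟩, ⟨.negSucc 4764, .ofNat 31, .ofNat 69, .ofNat 1117, .ofNat 1443, .ofNat 357⟩, ⟨.negSucc 1862, .negSucc 63, .ofNat 61, .ofNat 132, .ofNat 340, .ofNat 140⟩, .ofNat 475, .ofNat 384, .ofNat 0, .ofNat 384, .ofNat 1266, .ofNat 0, .ofNat 154, .negSucc 127, .negSucc 196, .ofNat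 0, .ofNat 93, .ofNat 67, .ofNat 0, .ofNat 0, .ofNat 268, .ofNat 915, .ofNat 0, .ofNat 0, .ofNat 0, .ofNat 0, .ofNat 0, .ofNat 0, .ofNat 548950671664576178956961990242425578192896, .ofNat 0, .ofNat 0, .ofNat 0, .ofNat 131806575604724879553338057198992128737280, .ofNat 0, .ofNat 0, .ofNat 0, .ofNat 1786108090654142666917981664780226675081216, .ofNat 0⟩)
    (by decide +kernel)
theorem L01799 : Good (Phi V5.P V5.D (-1) (-1)) ⟨4, 12, 3, 1, 2, 3, 2, 3, 5, 4⟩ :=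
  leafX_sound T5.ok_mm T5.Ymm.bz_eq (w := 213) (c := ⟨⟨.negSucc 2779, .ofNat 209, .ofNat 23, .ofNat 1774, .ofNat 694, .ofNat 138⟩, ⟨.ofNat 696, .negSucc 103, .ofNat 197, .negSucc 624, .negSucc 121, .negSucc 20⟩, ⟨.ofNat 1543, .negSucc 171, .negSucc 65, .negSucc 1156, .negSucc 591, .negSucc 152⟩, ⟨.negSucc 4966, .ofNat 342, .negSucc 19, .ofNat 2858, .ofNat 1657, .ofNat 374⟩, ⟨.negSucc 1119, .negSucc 112, .negSucc 89, .negSucc 309, .ofNat 1313, .ofNat 387⟩, .ofNat 475, .ofNat 383, .ofNat 0, .ofNat 383, .ofNat 1262, .ofNat 0, .ofNat 128, .negSucc 134, .negSucc 218, .ofNat 0, .ofNat 93, .ofNat 74, .ofNat 0, .ofNat 0, .ofNat 282, .ofNat 140, .ofNat 0, .ofNat 0, .ofNat 370303477108953236754100419179839488, .ofNat 0, .ofNat 0, .ofNat 441757259200044183442531350192750296301568, .ofNat 36008192038532055536871610602865295360, .ofNat 0, .ofNat 0, .ofNat 673287287574094651087422897432472911347712,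 .ofNat 40217649320163861514292950057296592896, .ofNat 0, .ofNat 0, .ofNat 0, .ofNat 19449079652302247990186769497492291584, .ofNat 0⟩)
    (by decide +kernel)
theorem L01800 : Good (Phi V5.P V5.D (-1) (-1)) ⟨4, 12, 3, 1, 2, 3, 2, 2, 5, 5⟩ :=
  leafX_sound T5.ok_mm T5.Ymm.bz_eq (w := 214) (c := ⟨⟨.negSucc 3127, .negSucc 78, .ofNat 163, .ofNat 1397, .ofNat 655, .ofNat 243⟩, ⟨.ofNat 766, .ofNat 37, .ofNat 174, .negSucc 502, .negSucc 169, .negSucc 47⟩, ⟨.ofNat 1863, .negSucc 11, .negSucc 140, .negSucc 973, .negSucc 616, .negSucc 242⟩, ⟨.negSucc 5584, .negSucc 34, .ofNat 169, .ofNat 2230, .ofNat 1249, .ofNat 487⟩, ⟨.negSucc 1268, .negSucc 231, .negSucc 116, .negSucc 215, .ofNat 440, .ofNat 188⟩, .ofNat 475, .ofNat 383, .ofNat 0, .ofNat 383, .ofNat 1270, .ofNat 0, .ofNat 133, .negSucc 127, .negSucc 128, .ofNat 0, .ofNat 98, .ofNat 46, .ofNat 0, .ofNat 0, .ofNat 243, .ofNat 442, .ofNat 0, .ofNat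 0, .ofNat 292197561927873935376925186548826112, .ofNat 0, .ofNat 0, .ofNat 0, .ofNat 30522053328610245298372075262926913536, .ofNat 0, .ofNat 0, .ofNat 0, .ofNat 8294972320812387155295695881570877440, .ofNat 0, .ofNat 0, .ofNat 0, .ofNat 33728369443247151771489003838615060480, .ofNat 0⟩)
    (by decide +kernel)
theorem L01801 : Good (Phi V5.P V5.D (-1) (-1)) ⟨4, 12, 3, 1, 2, 3, 2, 3, 5, 5⟩ :=
  leafX_sound T5.ok_mm T5.Ymm.bz_eq (w := 213) (c := ⟨⟨.negSucc 2307, .negSucc 40, .ofNat 30, .ofNat 1392, .ofNat 685, .ofNat 109⟩, ⟨.ofNat 631, .ofNat 71, .ofNat 101, .negSucc 500, .negSucc 110, .negSucc 15⟩, ⟨.ofNat 1056, .ofNat 4, .negSucc 24, .negSucc 794, .negSucc 615, .negSucc 208⟩, ⟨.negSucc 4138, .ofNat 74, .negSucc 1, .ofNat 2298, .ofNat 1654, .ofNat 310⟩, ⟨.negSucc 1102, .negSucc 25, .ofNat 65, .ofNat 57, .ofNat 1478, .ofNat 353⟩, .ofNat 474, .ofNat 381, .ofNat 0, .ofNat 381, .ofNat 1267,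 .ofNat 0, .ofNat 128, .negSucc 153, .negSucc 143, .ofNat 0, .ofNat 114, .ofNat 48, .ofNat 0, .ofNat 0, .ofNat 309, .ofNat 144, .ofNat 0, .ofNat 0, .ofNat 0, .ofNat 0, .ofNat 0, .ofNat 564199310604453508506999870094432404504576, .ofNat 15756379734845968501552779424681689088, .ofNat 0, .ofNat 0, .ofNat 1456416064885500766537556149278994358861824, .ofNat 48152558680050763126520738722307112960, .ofNat 0, .ofNat 0, .ofNat 0, .ofNat 0, .ofNat 0⟩)
    (by decide +kernel)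
theorem L01802 : Good (Phi V5.P V5.D (-1) (-1)) ⟨4, 12, 3, 0, 2, 3, 2, 2, 4, 3⟩ :=
  out_sound (S := T5.ds_mm) T5.ok_mm (w := 51) (j := 3) (by decide +kernel)
theorem L01803 : Good (Phi V5.P V5.D (-1) (-1)) ⟨4, 12, 3, 1, 2, 3, 2, 2, 5, 6⟩ :=
  leafX_sound T5.ok_mm T5.Ymm.bz_eq (w := 213) (c := ⟨⟨.negSucc 2611, .negSucc 84, .ofNat 10, .ofNat 1227, .ofNat 440, .ofNat 196⟩, ⟨.ofNat 633, .ofNat 49, .ofNat 207, .negSucc 453, .negSucc 85, .negSucc 42⟩, ⟨.ofNat 1423, .negSucc 38, .ofNat 19, .negSucc 892, .negSucc 541, .negSucc 177⟩, ⟨.negSucc 4756, .ofNat 6, .ofNat 14, .ofNat 1939, .ofNat 955, .ofNat 434⟩, ⟨.negSucc 1494, .negSucc 147, .ofNat 240, .negSucc 125, .ofNat 669, .ofNat 356⟩, .ofNat 751, .ofNat 954, .ofNat 0, .ofNat 954, .ofNat 2728, .ofNat 0, .ofNat 128, .negSucc 170, .negSucc 84, .ofNat 0, .ofNat 119, .ofNat 30, .ofNat 0, .ofNat 0, .ofNat 303, .ofNat 225, .ofNat 0, .ofNat 0, .ofNat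 417622561534412711574509119462178816, .ofNat 0, .ofNat 0, .ofNat 502774265669029385896531094743439271526400, .ofNat 181989697858685619849442151064548671488, .ofNat 0, .ofNat 0, .ofNat 0, .ofNat 82794989902887229715442744933369249792, .ofNat 0, .ofNat 0, .ofNat 0, .ofNat 0, .ofNat 0⟩)
    (by decide +kernel)
theorem L01804 : Good (Phi V5.P V5.D (-1) (-1)) ⟨4, 12, 3, 1, 2, 3, 2, 2, 5, 7⟩ :=
  leafX_sound T5.ok_mm T5.Ymm.bz_eq (w := 212) (c := ⟨⟨.negSucc 2286, .negSucc 5, .negSucc 2, .ofNat 954, .ofNat 428, .ofNat 153⟩, ⟨.ofNat 566, .ofNat 24, .ofNat 174, .negSucc 330, .negSucc 89, .negSucc 36⟩, ⟨.ofNat 1196, .negSucc 30, .negSucc 55, .negSucc 783, .negSucc 654, .negSucc 216⟩, ⟨.negSucc 4168, .ofNat 122, .negSucc 24, .ofNat 1602, .ofNat 952, .ofNat 338⟩, ⟨.negSucc 1310, .negSucc 7, .ofNat 139, .ofNat 148, .ofNat 728, .ofNat 241⟩, .ofNat 473, .ofNat 378, .ofNat 0, .ofNat 378, .ofNat 1263,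 .ofNat 0, .ofNat 128, .negSucc 166, .negSucc 45, .ofNat 0, .ofNat 149, .ofNat 13, .ofNat 0, .ofNat 0, .ofNat 333, .ofNat 167, .ofNat 0, .ofNat 0, .ofNat 0, .ofNat 0, .ofNat 0, .ofNat 697563642992081347817252551879868924559360, .ofNat 12808419430223044908269653870958870528, .ofNat 0, .ofNat 0, .ofNat 2699719222583771191591770469419481321963520, .ofNat 101077278262171681340544783019090640896, .ofNat 0, .ofNat 0, .ofNat 1839482650621978304733563453238731926929408, .ofNat 11947846394601558055706408399117746176, .ofNat 0⟩)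
    (by decide +kernel)
theorem L01805 : Good (Phi V5.P V5.D (-1) (-1)) ⟨4, 12, 2, 0, 2, 3, 2, 3, 5, 6⟩ :=
  leafX_sound T5.ok_mm T5.Ymm.bz_eq (w := 209) (c := ⟨⟨.negSucc 1982, .ofNat 17, .negSucc 33, .ofNat 1117, .ofNat 552, .ofNat 146⟩, ⟨.ofNat 365, .ofNat 34, .ofNat 295, .negSucc 376, .negSucc 54, .negSucc 15⟩, ⟨.ofNat 813, .negSucc 43, .negSucc 70, .negSucc 636, .negSucc 777, .negSucc 275⟩, ⟨.negSucc 3481, .ofNat 161, .negSucc 114, .ofNat 1913, .ofNat 1404, .ofNat 358⟩, ⟨.negSucc 631, .ofNat 32, .negSucc 134, .ofNat 258, .ofNat 1447, .ofNat 339⟩, .ofNat 474, .ofNat 380, .ofNat 0, .ofNat 380, .ofNat 1258, .ofNat 0, .ofNat 128, .negSucc 129, .negSucc 71, .ofNat 0, .ofNat 103, .ofNat 21, .ofNat 0, .ofNat 0, .ofNat 306, .ofNat 92, .ofNat 0, .ofNat 0, .ofNat 0, .ofNat 0, .ofNat 0, .ofNat 81543608929593740953207126271097242124288, .ofNat 15895104500221974879174484962456895488, .ofNat 0,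 .ofNat 0, .ofNat 217134047302370513835195600406457329123328, .ofNat 20007844030086029793033553023202230272, .ofNat 0, .ofNat 0, .ofNat 196287821628856197609984422411005700603904, .ofNat 5212202151775660770738365775747219456, .ofNat 0⟩)
    (by decide +kernel)
theorem L01806 : Good (Phi V5.P V5.D (-1) (-1)) ⟨4, 12, 2, 0, 2, 3, 2, 3, 5, 7⟩ :=
  leafX_sound T5.ok_mm T5.Ymm.bz_eq (w := 210) (c := ⟨⟨.negSucc 1730, .negSucc 65, .negSucc 78, .ofNat 865, .ofNat 406, .ofNat 95⟩, ⟨.ofNat 348, .ofNat 91, .ofNat 261, .negSucc 267, .negSucc 7, .negSucc 2⟩, ⟨.ofNat 628, .negSucc 108, .negSucc 97, .negSucc 887, .negSucc 870, .negSucc 319⟩, ⟨.negSucc 2993, .ofNat 74, .negSucc 144, .ofNat 1524, .ofNat 1196, .ofNat 275⟩, ⟨.negSucc 380, .negSucc 17, .negSucc 7, .ofNat 291, .ofNat 1540, .ofNat 346⟩, .ofNat 474, .ofNat 380, .ofNat 0, .ofNat 380, .ofNat 1264, .ofNat 0, .ofNat 154, .negSucc 127, .negSucc 36,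 .ofNat 0, .ofNat 102, .ofNat 10, .ofNat 0, .ofNat 0, .ofNat 232, .ofNat 333, .ofNat 0, .ofNat 0, .ofNat 0, .ofNat 0, .ofNat 0, .ofNat 255889597383388365653913351796000466927616, .ofNat 8160826294723209988872139738141687808, .ofNat 0, .ofNat 0, .ofNat 623787189399550313724949412269421777387520, .ofNat 22365040954416752459588683244500942848, .ofNat 0, .ofNat 0, .ofNat 364056056861556998571189650552249953288192, .ofNat 8317012301183459103124635800362287104, .ofNat 0⟩)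
    (by decide +kernel)
theorem L01807 : Good (Phi V5.P V5.D (-1) (-1)) ⟨4, 13, 2, 0, 2, 3, 1, 1, 3, 1⟩ :=
  out_sound (S := T5.ds_mm) T5.ok_mm (w := 49) (j := 3) (by decide +kernel)
theorem L01808 : Good (Phi V5.P V5.D (-1) (-1)) ⟨3, 7, 2, 0, 2, 3, 1, 1, 3, 1⟩ :=
  out_sound (S := T5.ds_mm) T5.ok_mm (w := 43) (j := 3) (by decide +kernel)
theorem L01809 : Good (Phi V5.P V5.D (-1) (-1)) ⟨3, 4, 2, 0, 2, 2, 2, 2, 4, 4⟩ :=
  leafX_sound T5.ok_mm T5.Ymm.bz_eq (w := 202) (c := ⟨⟨.negSucc 1775, .negSucc 229, .ofNat 23, .ofNat 157, .ofNat 209, .ofNat 186⟩, ⟨.ofNat 43, .ofNat 145, .ofNat 314, .negSucc 27, .negSucc 23, .negSucc 16⟩, ⟨.ofNat 1350, .ofNat 146, .negSucc 38, .negSucc 558, .negSucc 386, .negSucc 115⟩, ⟨.negSucc 3938, .negSucc 25, .negSucc 1, .ofNat 299, .ofNat 477, .ofNat 412⟩, ⟨.negSucc 491, .negSucc 33, .ofNat 25, .negSucc 186, .ofNat 353, .ofNat 154⟩, .ofNat 465, .ofNat 224, .ofNat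 0, .ofNat 224, .ofNat 2006, .ofNat 0, .ofNat 447, .negSucc 114, .negSucc 170, .ofNat 0, .ofNat 128, .ofNat 27, .ofNat 0, .ofNat 0, .ofNat 1353, .ofNat 1138, .ofNat 0, .ofNat 0, .ofNat 0, .ofNat 0, .ofNat 0, .ofNat 0, .ofNat 0, .ofNat 0, .ofNat 0, .ofNat 4469170738518548471338869708843479203840, .ofNat 0, .ofNat 0, .ofNat 0, .ofNat 0, .ofNat 0, .ofNat 0⟩)
    (by decide +kernel)
theorem L01810 : Good (Phi V5.P V5.D (-1) (-1)) ⟨3, 5, 2, 0, 2, 2, 2, 2, 4, 4⟩ :=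
  leafX_sound T5.ok_mm T5.Ymm.bz_eq (w := 201) (c := ⟨⟨.negSucc 2210, .negSucc 277, .ofNat 52, .ofNat 300, .ofNat 299, .ofNat 374⟩, ⟨.ofNat 241, .ofNat 224, .ofNat 338, .negSucc 90, .negSucc 49, .negSucc 91⟩, ⟨.ofNat 1820, .ofNat 109, .negSucc 98, .negSucc 847, .negSucc 558, .negSucc 379⟩, ⟨.negSucc 4259, .negSucc 52, .ofNat 61, .ofNat 475, .ofNat 668, .ofNat 664⟩, ⟨.negSucc 456, .negSucc 43, .ofNat 11, .negSucc 188, .ofNat 439, .ofNat 81⟩, .ofNat 314, .ofNat 107, .ofNat 0, .ofNat 107, .ofNat 676, .ofNat 0, .ofNat 215, .negSucc 82, .negSucc 78, .ofNat 0, .ofNat 128, .ofNat 21, .ofNat 0, .ofNat 0, .ofNat 444, .ofNat 475, .ofNat 0, .ofNat 0, .ofNat 0, .ofNat 0, .ofNat 0, .ofNat 0, .ofNat 0, .ofNat 0, .ofNat 0, .ofNat 0, .ofNat 0, .ofNat 0, .ofNat 0, .ofNat 3142600315712475928233403219337579331584, .ofNat 748696354684326421064892468621737984, .ofNat 0⟩)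
    (by decide +kernel)
theorem L01811 : Good (Phi V5.P V5.D (-1) (-1)) ⟨2, 2, 2, 0, 3, 6, 2, 2, 5, 8⟩ :=
  leafX_sound T5.ok_mm T5.Ymm.bz_eq (w := 216) (c := ⟨⟨.negSucc 1665, .negSucc 268, .ofNat 16, .ofNat 243, .ofNat 222, .ofNat 117⟩, ⟨.ofNat 34, .ofNat 245, .ofNat 305, .negSucc 41, .negSucc 23, .negSucc 8⟩, ⟨.ofNat 961, .negSucc 78, .negSucc 88, .negSucc 305, .negSucc 465, .negSucc 150⟩, ⟨.negSucc 3697, .ofNat 198, .negSucc 45, .ofNat 475, .ofNat 602, .ofNat 255⟩, ⟨.negSucc 843, .negSucc 179, .ofNat 94, .ofNat 61, .ofNat 829, .ofNat 173⟩, .ofNat 322, .ofNat 86, .ofNat 0, .ofNat 86, .ofNat 715, .ofNat 0, .ofNat 314, .negSucc 68, .negSucc 55, .ofNat 0, .ofNat 128, .ofNat 10, .ofNat 0, .ofNat 0, .ofNat 529, .ofNat 656, .ofNat 0, .ofNat 0, .ofNat 0, .ofNat 0, .ofNat 0, .ofNat 0, .ofNat 0, .ofNat 0, .ofNat 0, .ofNat 5041767920211117281172914908673261229309952, .ofNat 0, .ofNat 0, .ofNat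 0, .ofNat 14102876323550471603398560139414729251618816, .ofNat 3732604968708710741568438140877616812392448, .ofNat 0⟩)
    (by decide +kernel)
theorem L01812 : Good (Phi V5.P V5.D (-1) (-1)) ⟨2, 2, 2, 0, 3, 7, 2, 2, 5, 8⟩ :=
  leafX_sound T5.ok_mm T5.Ymm.bz_eq (w := 216) (c := ⟨⟨.negSucc 1422, .negSucc 81, .negSucc 26, .ofNat 220, .ofNat 220, .ofNat 44⟩, ⟨.ofNat 14, .ofNat 169, .ofNat 291, .negSucc 29, .negSucc 17, .ofNat 1⟩, ⟨.ofNat 680, .negSucc 275, .negSucc 53, .negSucc 189, .negSucc 426, .negSucc 145⟩, ⟨.negSucc 3198, .ofNat 429, .negSucc 105, .ofNat 488, .ofNat 600, .ofNat 163⟩, ⟨.negSucc 884, .negSucc 268, .ofNat 262, .ofNat 237, .ofNat 841, .ofNat 228⟩, .ofNat 323, .ofNat 84, .ofNat 0, .ofNat 84, .ofNat 723, .ofNat 0, .ofNat 282, .negSucc 57, .negSucc 13, .ofNat 0, .ofNat 128, .negSucc 6, .ofNat 0, .ofNat 0, .ofNat 510, .ofNat 809, .ofNat 0, .ofNat 0, .ofNat 0, .ofNat 0, .ofNat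 0, .ofNat 12629854603521837645114391097246833226809344, .ofNat 0, .ofNat 0, .ofNat 0, .ofNat 10597378101947965507376440267961739060969472, .ofNat 3042142239916998613636030329568196602888192, .ofNat 0, .ofNat 0, .ofNat 24614381291667548351424361414367712064307200, .ofNat 2274541572184134870579690879342428968452096, .ofNat 0⟩)
    (by decide +kernel)
theorem L01813 : Good (Phi V5.P V5.D (-1) (-1)) ⟨2, 2, 2, 0, 2, 3, 2, 2, 5, 9⟩ :=
  leafX_sound T5.ok_mm T5.Ymm.bz_eq (w := 201) (c := ⟨⟨.negSucc 1539, .negSucc 242, .negSucc 20, .ofNat 451, .ofNat 178, .ofNat 115⟩, ⟨.ofNat 23, .ofNat 237, .ofNat 297, .negSucc 67, .ofNat 6, .negSucc 12⟩, ⟨.ofNat 930, .negSucc 228, .negSucc 91, .negSucc 715, .negSucc 610, .negSucc 203⟩, ⟨.negSucc 3410, .ofNat 235, .negSucc 88, .ofNat 893, .ofNat 498, .ofNat 228⟩, ⟨.negSucc 642, .negSucc 132, .ofNat 79, .ofNat 163, .ofNat 766, .ofNat 92⟩, .ofNat 322, .ofNat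 98, .ofNat 0, .ofNat 98, .ofNat 723, .ofNat 0, .ofNat 213, .negSucc 71, .negSucc 13, .ofNat 0, .ofNat 128, .negSucc 2, .ofNat 0, .ofNat 0, .ofNat 506, .ofNat 316, .ofNat 0, .ofNat 0, .ofNat 0, .ofNat 0, .ofNat 0, .ofNat 2167341661982251682685740656243796606976, .ofNat 101947483761619185649289671458187902976, .ofNat 0, .ofNat 0, .ofNat 2914149839953408494278972210131257786368, .ofNat 0, .ofNat 0, .ofNat 0, .ofNat 5756981145076458952425042988654317797376, .ofNat 15296996124880569372605592218946764800, .ofNat 0⟩)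
    (by decide +kernel)
theorem L01814 : Good (Phi V5.P V5.D (-1) (-1)) ⟨2, 2, 2, 0, 2, 2, 2, 3, 4, 4⟩ :=
  leafX_sound T5.ok_mm T5.Ymm.bz_eq (w := 196) (c := ⟨⟨.negSucc 1519, .negSucc 292, .negSucc 41, .ofNat 110, .ofNat 391, .ofNat 135⟩, ⟨.ofNat 36, .ofNat 307, .ofNat 249, .negSucc 2, .negSucc 21, .negSucc 13⟩, ⟨.ofNat 984, .negSucc 94, .ofNat 29, .negSucc 529, .negSucc 492, .negSucc 137⟩, ⟨.negSucc 3366, .ofNat 256, .negSucc 71, .ofNat 243, .ofNat 931, .ofNat 298⟩, ⟨.negSucc 179, .ofNat 5, .negSucc 36, .ofNat 222, .ofNat 883, .ofNat 195⟩, .ofNat 323, .ofNat 85, .ofNat 0, .ofNat 85, .ofNat 729, .ofNat 0, .ofNat 353, .negSucc 65, .negSucc 89, .ofNat 0, .ofNat 128, .ofNat 11, .ofNat 0, .ofNat 0, .ofNat 577, .ofNat 181, .ofNat 0, .ofNat 0, .ofNat 103826414677507116548161478185713664, .ofNat 0, .ofNat 0, .ofNat 420512620125352845477466504176198483968, .ofNat 0, .ofNat 0, .ofNat 0, .ofNat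 264877522159964986938275255668030046208, .ofNat 0, .ofNat 0, .ofNat 0, .ofNat 595872145684577786926442905690445971456, .ofNat 5424032163500901909668259664979034112, .ofNat 0⟩)
    (by decide +kernel)
theorem L01815 : Good (Phi V5.P V5.D (-1) (-1)) ⟨2, 2, 2, 0, 2, 3, 2, 3, 4, 4⟩ :=
  leafX_sound T5.ok_mm T5.Ymm.bz_eq (w := 197) (c := ⟨⟨.negSucc 1378, .negSucc 214, .negSucc 63, .ofNat 286, .ofNat 144, .ofNat 124⟩, ⟨.ofNat 28, .ofNat 291, .ofNat 241, .negSucc 1, .ofNat 43, .ofNat 16⟩, ⟨.ofNat 571, .negSucc 320, .negSucc 35, .negSucc 654, .negSucc 573, .negSucc 395⟩, ⟨.negSucc 3073, .ofNat 383, .negSucc 107, .ofNat 780, .ofNat 695, .ofNat 399⟩, ⟨.negSucc 5, .negSucc 42, .ofNat 12, .ofNat 500, .ofNat 1388, .ofNat 483⟩, .ofNat 169, .ofNat 16, .ofNat 0, .ofNat 16, .ofNat 241, .ofNat 0, .ofNat 177, .negSucc 40, .negSucc 41, .ofNat 0, .ofNat 128, .ofNat 2, .ofNat 0, .ofNat 0, .ofNat 204, .ofNat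 518, .ofNat 0, .ofNat 3066096833599822812558500236743409664, .ofNat 147001621781034968097279344008757248, .ofNat 0, .ofNat 0, .ofNat 359042329336567737913305170834240831488, .ofNat 0, .ofNat 0, .ofNat 0, .ofNat 588701485696040209138962532235191779328, .ofNat 0, .ofNat 0, .ofNat 0, .ofNat 439284017965053297134841997792523583488, .ofNat 772317555757565335534029783886200832, .ofNat 0⟩)
    (by decide +kernel)
theorem L01816 : Good (Phi V5.P V5.D (-1) (-1)) ⟨4, 12, 3, 0, 1, 1, 2, 2, 4, 4⟩ :=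
  out_sound (S := T5.ds_mm) T5.ok_mm (w := 51) (j := 3) (by decide +kernel)
theorem L01817 : Good (Phi V5.P V5.D (-1) (-1)) ⟨4, 12, 3, 1, 2, 2, 2, 2, 4, 4⟩ :=
  leafX_sound T5.ok_mm T5.Ymm.bz_eq (w := 209) (c := ⟨⟨.negSucc 2571, .negSucc 136, .ofNat 53, .ofNat 416, .ofNat 357, .ofNat 396⟩, ⟨.ofNat 706, .ofNat 109, .ofNat 160, .negSucc 174, .negSucc 80, .negSucc 125⟩, ⟨.ofNat 2063, .ofNat 92, .negSucc 112, .negSucc 1065, .negSucc 748, .negSucc 380⟩, ⟨.negSucc 4417, .negSucc 5, .ofNat 82, .ofNat 565, .ofNat 764, .ofNat 693⟩, ⟨.negSucc 494, .negSucc 31, .ofNat 46, .negSucc 314, .ofNat 515, .ofNat 114⟩, .ofNat 476, .ofNat 386, .ofNat 0, .ofNat 386, .ofNat 1267, .ofNat 0, .ofNat 128, .negSucc 143, .negSucc 59, .ofNat 0, .ofNat 122, .ofNat 21, .ofNat 0, .ofNat 0, .ofNat 395, .ofNat 601, .ofNat 0, .ofNat 0, .ofNat 0, .ofNat 0, .ofNat 0, .ofNat 0, .ofNat 3467365456774573124920531726347796480,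 .ofNat 0, .ofNat 0, .ofNat 254794212832029584497577458253051551809536, .ofNat 1356493700309094578899956062796906496, .ofNat 0, .ofNat 0, .ofNat 302957055273949612513353736232032014434304, .ofNat 4556964450090221101186710965854404608, .ofNat 0⟩)
    (by decide +kernel)
theorem L01818 : Good (Phi V5.P V5.D (-1) (-1)) ⟨4, 12, 3, 1, 3, 6, 2, 2, 4, 4⟩ :=
  leafX_sound T5.ok_mm T5.Ymm.bz_eq (w := 221) (c := ⟨⟨.negSucc 1971, .negSucc 75, .negSucc 40, .ofNat 374, .ofNat 264, .ofNat 240⟩, ⟨.ofNat 473, .ofNat 55, .ofNat 177, .negSucc 129, .negSucc 12, .negSucc 48⟩, ⟨.ofNat 1076, .negSucc 35, .negSucc 121, .negSucc 506, .negSucc 786, .negSucc 554⟩, ⟨.negSucc 3583, .ofNat 55, .negSucc 94, .ofNat 623, .ofNat 724, .ofNat 540⟩, ⟨.negSucc 993, .negSucc 24, .ofNat 48, .ofNat 33, .ofNat 835, .ofNat 412⟩, .ofNat 472, .ofNat 377, .ofNat 0, .ofNat 377, .ofNat 1254, .ofNat 0, .ofNat 164, .negSucc 127, .negSucc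 22, .ofNat 0, .ofNat 116, .ofNat 4, .ofNat 0, .ofNat 0, .ofNat 460, .ofNat 223, .ofNat 0, .ofNat 0, .ofNat 0, .ofNat 0, .ofNat 0, .ofNat 0, .ofNat 0, .ofNat 0, .ofNat 0, .ofNat 1459327486332439554167927604239128669676634112, .ofNat 71667995230775857733508894421422849392640, .ofNat 0, .ofNat 0, .ofNat 3159540112668040426503909585915119042096529408, .ofNat 52518231590466954144672211291421146087424, .ofNat 0⟩)
    (by decide +kernel)
theorem L01819 : Good (Phi V5.P V5.D (-1) (-1)) ⟨4, 12, 3, 1, 4, 14, 2, 2, 4, 4⟩ :=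
  leafX_sound T5.ok_mm T5.Ymm.bz_eq (w := 236) (c := ⟨⟨.negSucc 1569, .negSucc 17, .negSucc 25, .ofNat 186, .ofNat 230, .ofNat 112⟩, ⟨.ofNat 330, .ofNat 26, .ofNat 163, .negSucc 50, .ofNat 18, .ofNat 27⟩, ⟨.ofNat 532, .negSucc 81, .negSucc 51, .negSucc 178, .negSucc 721, .negSucc 604⟩, ⟨.negSucc 2933, .ofNat 93, .negSucc 58, .ofNat 350, .ofNat 714, .ofNat 409⟩, ⟨.negSucc 1082, .negSucc 64, .ofNat 105, .ofNat 143, .ofNat 980, .ofNat 656⟩, .ofNat 472, .ofNat 376, .ofNat 0, .ofNat 376, .ofNat 1256, .ofNat 0, .ofNat 193, .negSucc 127, .negSucc 1, .ofNat 0, .ofNat 127, .negSucc 8, .ofNat 0, .ofNat 0, .ofNat 454, .ofNat 474, .ofNat 0, .ofNat 0, .ofNat 0, .ofNat 0, .ofNat 0, .ofNat 7910816978210090096129219376118925479949050576896, .ofNat 461487274129684325489626298402569950509137920, .ofNat 0, .ofNat 0, .ofNat 12295052989697425186908078716443719338338044346368, .ofNat 1372178954639142944835407481378613171486457856,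 .ofNat 0, .ofNat 0, .ofNat 25480189021153490756653433290635034030947895869440, .ofNat 529061458296807308416508073573138659507437568, .ofNat 0⟩)
    (by decide +kernel)
theorem L01820 : Good (Phi V5.P V5.D (-1) (-1)) ⟨4, 12, 3, 1, 4, 15, 2, 2, 4, 4⟩ :=
  leafX_sound T5.ok_mm T5.Ymm.bz_eq (w := 235) (c := ⟨⟨.negSucc 1370, .ofNat 7, .negSucc 37, .ofNat 152, .ofNat 249, .ofNat 55⟩, ⟨.ofNat 284, .ofNat 15, .ofNat 156, .negSucc 26, .ofNat 6, .ofNat 55⟩, ⟨.ofNat 339, .negSucc 85, .negSucc 43, .negSucc 145, .negSucc 633, .negSucc 619⟩, ⟨.negSucc 2592, .ofNat 122, .negSucc 34, .ofNat 343, .ofNat 729, .ofNat 343⟩, ⟨.negSucc 1022, .negSucc 62, .ofNat 208, .ofNat 274, .ofNat 944, .ofNat 725⟩, .ofNat 627, .ofNat 685, .ofNat 0, .ofNat 685, .ofNat 2045, .ofNat 0, .ofNat 238, .negSucc 127, .ofNat 9, .ofNat 0, .ofNat 115, .negSucc 11, .ofNat 0, .ofNat 0, .ofNat 290, .ofNat 138, .ofNat 0, .ofNat 168905837907400853917972467031493443810626633728,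 .ofNat 553738472151966081452295820590120393768960, .ofNat 0, .ofNat 0, .ofNat 0, .ofNat 0, .ofNat 0, .ofNat 0, .ofNat 6692124224669518699327894108357329135164985442304, .ofNat 992036184644496093766944883634245606001606656, .ofNat 0, .ofNat 0, .ofNat 14025906443779736026244377241039959666535681753088, .ofNat 332975726596800273055183342165862820427595776, .ofNat 0⟩)
    (by decide +kernel)
theorem L01821 : Good (Phi V5.P V5.D (-1) (-1)) ⟨4, 12, 2, 0, 2, 2, 2, 3, 4, 4⟩ :=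
  leafX_sound T5.ok_mm T5.Ymm.bz_eq (w := 204) (c := ⟨⟨.negSucc 1982, .negSucc 80, .negSucc 28, .ofNat 260, .ofNat 599, .ofNat 234⟩, ⟨.ofNat 451, .ofNat 125, .ofNat 239, .negSucc 74, .negSucc 121, .negSucc 58⟩, ⟨.ofNat 1388, .negSucc 72, .negSucc 95, .negSucc 1107, .negSucc 982, .negSucc 454⟩, ⟨.negSucc 3384, .ofNat 85, .negSucc 22, .ofNat 498, .ofNat 1322, .ofNat 472⟩, ⟨.negSucc 233, .ofNat 16, .ofNat 31, .ofNat 205, .ofNat 982, .ofNat 256⟩, .ofNat 473, .ofNat 380, .ofNat 0, .ofNat 380, .ofNat 1265, .ofNat 0, .ofNat 178, .negSucc 127, .negSucc 49, .ofNat 0, .ofNat 108, .ofNat 14, .ofNat 0, .ofNat 0, .ofNat 363, .ofNat 84, .ofNat 0, .ofNat 466559052109964023457331940598197780480, .ofNat 6435251205844196561534683229192192, .ofNat 0, .ofNat 0, .ofNat 37939947450902100056092927887519126650880, .ofNat 168041626511875171958851480311562240, .ofNat 0, .ofNat 0, .ofNat 56675682427387506424572159978450362302464,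 .ofNat 742387129610865893767882112812187648, .ofNat 0, .ofNat 0, .ofNat 60431664154191275078141875467731530153984, .ofNat 341307649833126678743965788178219008, .ofNat 0⟩)
    (by decide +kernel)
theorem L01822 : Good (Phi V5.P V5.D (-1) (-1)) ⟨4, 12, 2, 0, 2, 3, 2, 3, 4, 4⟩ :=
  leafX_sound T5.ok_mm T5.Ymm.bz_eq (w := 205) (c := ⟨⟨.negSucc 1597, .negSucc 62, .negSucc 97, .ofNat 539, .ofNat 302, .ofNat 139⟩, ⟨.ofNat 336, .ofNat 107, .ofNat 256, .negSucc 141, .ofNat 52, .ofNat 17⟩, ⟨.ofNat 357, .negSucc 94, .negSucc 142, .negSucc 1170, .negSucc 944, .negSucc 721⟩, ⟨.negSucc 2693, .ofNat 93, .negSucc 142, .ofNat 1040, .ofNat 1035, .ofNat 459⟩, ⟨.negSucc 82, .negSucc 20, .ofNat 30, .ofNat 492, .ofNat 1567, .ofNat 676⟩, .ofNat 315, .ofNat 146, .ofNat 0, .ofNat 146, .ofNat 611, .ofNat 0, .ofNat 209, .negSucc 111, .negSucc 38, .ofNat 0, .ofNat 128, .ofNat 3, .ofNat 0, .ofNat 0, .ofNat 361,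 .ofNat 832, .ofNat 0, .ofNat 8166070185877559219518313898785443414016, .ofNat 0, .ofNat 0, .ofNat 0, .ofNat 271888194631294979986873669056767555796992, .ofNat 322097167286328215455048339239731200, .ofNat 0, .ofNat 0, .ofNat 388047693207380937122724036854565012766720, .ofNat 826962655769628659132834144015351808, .ofNat 0, .ofNat 0, .ofNat 347377923995010727344492314393311669387264, .ofNat 0, .ofNat 0⟩)
    (by decide +kernel)
theorem L01823 : Good (Phi V5.P V5.D (-1) (-1)) ⟨4, 13, 2, 0, 1, 1, 1, 1, 4, 4⟩ :=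
  out_sound (S := T5.ds_mm) T5.ok_mm (w := 49) (j := 3) (by decide +kernel)
theorem L01824 : Good (Phi V5.P V5.D (-1) (-1)) ⟨3, 7, 2, 0, 1, 1, 1, 1, 4, 4⟩ :=
  out_sound (S := T5.ds_mm) T5.ok_mm (w := 43) (j := 3) (by decide +kernel)
theorem L01825 : Good (Phi V5.P V5.D (-1) (-1)) ⟨2, 2, 2, 0, 2, 2, 2, 2, 4, 5⟩ :=
  leafX_sound T5.ok_mm T5.Ymm.bz_eq (w := 197) (c := ⟨⟨.negSucc 1619, .negSucc 401, .ofNat 37, .ofNat 193, .ofNat 205, .ofNat 182⟩, ⟨.ofNat 42, .ofNat 298, .ofNat 289, .negSucc 39, .negSucc 25, .negSucc 32⟩, ⟨.ofNat 1421, .ofNat 90, .negSucc 152, .negSucc 801, .negSucc 474, .negSucc 163⟩, ⟨.negSucc 3572, .ofNat 51, .ofNat 16, .ofNat 362, .ofNat 489, .ofNat 370⟩, ⟨.negSucc 385, .negSucc 29, .negSucc 9, .negSucc 47, .ofNat 401, .ofNat 103⟩, .ofNat 322, .ofNat 90, .ofNat 0, .ofNat 90, .ofNat 721, .ofNat 0, .ofNat 212, .negSucc 64, .negSucc 53, .ofNat 0, .ofNat 128, .ofNat 6, .ofNat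 0, .ofNat 0, .ofNat 877, .ofNat 508, .ofNat 0, .ofNat 0, .ofNat 0, .ofNat 0, .ofNat 0, .ofNat 322383710087229276590009448759843356672, .ofNat 0, .ofNat 0, .ofNat 0, .ofNat 298212392501027688445527473195900207104, .ofNat 0, .ofNat 0, .ofNat 0, .ofNat 1404463666402776766397298696766640619520, .ofNat 4499897398387563035157096933699354624, .ofNat 0⟩)
    (by decide +kernel)
theorem L01826 : Good (Phi V5.P V5.D (-1) (-1)) ⟨2, 2, 2, 0, 2, 3, 2, 2, 4, 5⟩ :=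
  leafX_sound T5.ok_mm T5.Ymm.bz_eq (w := 197) (c := ⟨⟨.negSucc 1416, .negSucc 271, .negSucc 29, .ofNat 371, .ofNat 178, .ofNat 168⟩, ⟨.ofNat 10, .ofNat 260, .ofNat 284, .negSucc 43, .ofNat 5, .negSucc 11⟩, ⟨.ofNat 828, .negSucc 318, .negSucc 133, .negSucc 978, .negSucc 669, .negSucc 423⟩, ⟨.negSucc 3161, .ofNat 213, .negSucc 103, .ofNat 759, .ofNat 450, .ofNat 385⟩, ⟨.negSucc 524, .negSucc 50, .ofNat 38, .ofNat 171, .ofNat 694, .ofNat 277⟩, .ofNat 321, .ofNat 75, .ofNat 0, .ofNat 75, .ofNat 712, .ofNat 0, .ofNat 206, .negSucc 56, .negSucc 7, .ofNat 0, .ofNat 128, .negSucc 3, .ofNat 0, .ofNat 0, .ofNat 740, .ofNat 964, .ofNat 0, .ofNat 19655342023333172492241351039831244800, .ofNat 224975556813258929372322989382565888, .ofNat 0, .ofNat 0, .ofNat 1190261555172669375444732645538107752448, .ofNat 4677753482371360111160985080739921920, .ofNat 0, .ofNat 0, .ofNat 1039701488965701607857506770704761094144,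 .ofNat 9109390432321030983880995280772923392, .ofNat 0, .ofNat 0, .ofNat 3243326429246142347912063347775816859648, .ofNat 1708596157620168011937271525268258816, .ofNat 0⟩)
    (by decide +kernel)
theorem L01827 : Good (Phi V5.P V5.D (-1) (-1)) ⟨2, 2, 2, 0, 2, 2, 2, 3, 4, 5⟩ :=
  leafX_sound T5.ok_mm T5.Ymm.bz_eq (w := 197) (c := ⟨⟨.negSucc 1366, .negSucc 285, .negSucc 28, .ofNat 76, .ofNat 313, .ofNat 129⟩, ⟨.ofNat 35, .ofNat 295, .ofNat 237, .ofNat 17, .negSucc 6, .negSucc 23⟩, ⟨.ofNat 899, .negSucc 185, .ofNat 29, .negSucc 706, .negSucc 567, .negSucc 190⟩, ⟨.negSucc 3037, .ofNat 271, .negSucc 28, .ofNat 186, .ofNat 753, .ofNat 271⟩, ⟨.negSucc 48, .ofNat 84, .negSucc 29, .ofNat 324, .ofNat 796, .ofNat 151⟩, .ofNat 321, .ofNat 85, .ofNat 0, .ofNat 85, .ofNat 713, .ofNat 0, .ofNat 197, .negSucc 60, .negSucc 41, .ofNat 0, .ofNat 128, .negSucc 1, .ofNat 0, .ofNat 0, .ofNat 582, .ofNat 472,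 .ofNat 0, .ofNat 0, .ofNat 0, .ofNat 0, .ofNat 0, .ofNat 452581652727244797781590735586940944384, .ofNat 0, .ofNat 0, .ofNat 0, .ofNat 640785558858504594995639238905468813312, .ofNat 0, .ofNat 0, .ofNat 0, .ofNat 1378974994038333027734414576538129268736, .ofNat 4647880254414852738134803509852241920, .ofNat 0⟩)
    (by decide +kernel)
theorem L01828 : Good (Phi V5.P V5.D (-1) (-1)) ⟨2, 2, 2, 0, 2, 3, 2, 3, 4, 5⟩ :=
  out_sound (S := T5.ds_mm) T5.ok_mm (w := 30) (j := 2) (by decide +kernel)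
theorem L01829 : Good (Phi V5.P V5.D (-1) (-1)) ⟨4, 12, 3, 0, 2, 2, 2, 2, 4, 5⟩ :=
  out_sound (S := T5.ds_mm) T5.ok_mm (w := 51) (j := 3) (by decide +kernel)
theorem L01830 : Good (Phi V5.P V5.D (-1) (-1)) ⟨4, 12, 3, 1, 2, 2, 2, 2, 4, 5⟩ :=
  leafX_sound T5.ok_mm T5.Ymm.bz_eq (w := 208) (c := ⟨⟨.negSucc 2105, .negSucc 147, .ofNat 10, .ofNat 304, .ofNat 265, .ofNat 261⟩, ⟨.ofNat 571, .ofNat 128, .ofNat 143, .negSucc 114, .negSucc 49, .negSucc 82⟩, ⟨.ofNat 1782, .negSucc 11, .negSucc 74, .negSucc 1377, .negSucc 837, .negSucc 375⟩, ⟨.negSucc 3623, .negSucc 20, .negSucc 5, .ofNat 471, .ofNat 607, .ofNat 473⟩, ⟨.negSucc 427, .ofNat 7, .ofNat 2, .negSucc 53, .ofNat 492, .ofNat 139⟩, .ofNat 475, .ofNat 383, .ofNat 0, .ofNat 383, .ofNat 1269, .ofNat 0, .ofNat 158, .negSucc 127, .negSucc 35, .ofNat 0, .ofNat 114, .ofNat 9, .ofNat 0, .ofNat 0, .ofNat 670, .ofNat 271, .ofNat 0, .ofNat 0, .ofNat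 0, .ofNat 0, .ofNat 0, .ofNat 427370890801143184860480118402312799518720, .ofNat 728668849771137963107679524043620352, .ofNat 0, .ofNat 0, .ofNat 636475739038977153791429746432895417843712, .ofNat 7147318208506723595189202071033217024, .ofNat 0, .ofNat 0, .ofNat 1666681742282112027203915142838299427602432, .ofNat 3667076506082332121035881668757422080, .ofNat 0⟩)
    (by decide +kernel)
theorem L01831 : Good (Phi V5.P V5.D (-1) (-1)) ⟨4, 12, 2, 0, 2, 3, 2, 2, 4, 5⟩ :=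
  leafX_sound T5.ok_mm T5.Ymm.bz_eq (w := 205) (c := ⟨⟨.negSucc 1698, .negSucc 79, .negSucc 35, .ofNat 490, .ofNat 144, .ofNat 157⟩, ⟨.ofNat 274, .ofNat 83, .ofNat 296, .negSucc 134, .ofNat 35, .negSucc 10⟩, ⟨.ofNat 668, .negSucc 99, .negSucc 205, .negSucc 1406, .negSucc 1027, .negSucc 715⟩, ⟨.negSucc 2971, .ofNat 48, .negSucc 107, .ofNat 872, .ofNat 520, .ofNat 385⟩, ⟨.negSucc 610, .negSucc 14, .ofNat 48, .ofNat 236, .ofNat 832, .ofNat 387⟩, .ofNat 315, .ofNat 146, .ofNat 0, .ofNat 146, .ofNat 614, .ofNat 0, .ofNat 163, .negSucc 93, .ofNat 10, .ofNat 0, .ofNat 128, .negSucc 16, .ofNat 0, .ofNat 0, .ofNat 614, .ofNat 516, .ofNat 0, .ofNat 10134220720864003372103853083636868841472, .ofNat 0, .ofNat 0, .ofNat 0, .ofNat 184506185727028714628515757613736739733504, .ofNat 427000152864265994536800017023238144, .ofNat 0, .ofNat 0, .ofNat 244058291739416641919869470548820379041792, .ofNat 1127107545883435593108490345557000192,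 .ofNat 0, .ofNat 0, .ofNat 598989878809644097473594617023846747734016, .ofNat 377008930205080324009005214282547200, .ofNat 0⟩)
    (by decide +kernel)
theorem L01832 : Good (Phi V5.P V5.D (-1) (-1)) ⟨4, 12, 2, 0, 2, 2, 2, 3, 4, 5⟩ :=
  leafX_sound T5.ok_mm T5.Ymm.bz_eq (w := 204) (c := ⟨⟨.negSucc 1683, .negSucc 87, .negSucc 41, .ofNat 102, .ofNat 439, .ofNat 160⟩, ⟨.ofNat 396, .ofNat 131, .ofNat 208, .negSucc 1, .negSucc 69, .negSucc 38⟩, ⟨.ofNat 1033, .negSucc 81, .negSucc 105, .negSucc 1425, .negSucc 1027, .negSucc 463⟩, ⟨.negSucc 2830, .ofNat 69, .negSucc 37, .ofNat 312, .ofNat 1049, .ofNat 332⟩, ⟨.ofNat 2, .ofNat 24, .negSucc 9, .ofNat 413, .ofNat 956, .ofNat 202⟩, .ofNat 474, .ofNat 380, .ofNat 0, .ofNat 380, .ofNat 1260, .ofNat 0, .ofNat 147, .negSucc 127, .negSucc 35, .ofNat 0, .ofNat 114, .ofNat 3, .ofNat 0, .ofNat 0, .ofNat 717, .ofNat 280, .ofNat 0, .ofNat 4007684303511107520990362909220192387072,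 .ofNat 0, .ofNat 0, .ofNat 0, .ofNat 95282127795636576656584743915936366460928, .ofNat 2349665764915884906286486068677050368, .ofNat 0, .ofNat 0, .ofNat 189871818139201722357184927059659615895552, .ofNat 2227479035442071565628841174327361536, .ofNat 0, .ofNat 0, .ofNat 440866499038969739667665748203238982680576, .ofNat 0, .ofNat 0⟩)
    (by decide +kernel)
theorem L01833 : Good (Phi V5.P V5.D (-1) (-1)) ⟨4, 12, 2, 0, 2, 3, 2, 3, 4, 5⟩ :=
  out_sound (S := T5.ds_mm) T5.ok_mm (w := 30) (j := 2) (by decide +kernel)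
theorem L01834 : Good (Phi V5.P V5.D (-1) (-1)) ⟨4, 13, 2, 0, 1, 1, 1, 1, 4, 5⟩ :=
  out_sound (S := T5.ds_mm) T5.ok_mm (w := 49) (j := 3) (by decide +kernel)
theorem L01835 : Good (Phi V5.P V5.D (-1) (-1)) ⟨3, 7, 2, 0, 1, 1, 1, 1, 4, 5⟩ :=
  out_sound (S := T5.ds_mm) T5.ok_mm (w := 43) (j := 3) (by decide +kernel)
theorem L01836 : Good (Phi V5.P V5.D (-1) (-1)) ⟨2, 2, 2, 0, 3, 4, 3, 4, 4, 6⟩ :=
  leafX_sound T5.ok_mm T5.Ymm.bz_eq (w := 217) (c := ⟨⟨.negSucc 1428, .negSucc 339, .ofNat 9, .ofNat 73, .ofNat 80, .ofNat 131⟩, ⟨.ofNat 31, .ofNat 288, .ofNat 257, .negSucc 12, .negSucc 9, .negSucc 22⟩, ⟨.ofNat 1355, .negSucc 87, .negSucc 97, .negSucc 470, .negSucc 276, .negSucc 146⟩, ⟨.negSucc 3172, .ofNat 124, .negSucc 17, .ofNat 143, .ofNat 191, .ofNat 275⟩, ⟨.negSucc 295, .ofNat 5, .negSucc 15, .ofNat 2, .ofNat 170, .ofNat 97⟩, .ofNat 322, .ofNat 85, .ofNat 0, .ofNat 85, .ofNat 716, .ofNat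 0, .ofNat 166, .negSucc 58, .negSucc 17, .ofNat 0, .ofNat 128, .negSucc 7, .ofNat 0, .ofNat 0, .ofNat 1169, .ofNat 3067, .ofNat 44488908426551352583318628526670478168817664, .ofNat 0, .ofNat 29170566075099716757873925474562607153152, .ofNat 0, .ofNat 0, .ofNat 2436973559861481630648646186113314095890432, .ofNat 3186592387492856504695125241943454140858368, .ofNat 0, .ofNat 0, .ofNat 0, .ofNat 0, .ofNat 0, .ofNat 0, .ofNat 56447967264764290534834262922816259901882368, .ofNat 627032082995567523131435693083687787692032, .ofNat 0⟩)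
    (by decide +kernel)
theorem L01837 : Good (Phi V5.P V5.D (-1) (-1)) ⟨2, 2, 2, 0, 3, 4, 3, 5, 4, 6⟩ :=
  leafX_sound T5.ok_mm T5.Ymm.bz_eq (w := 216) (c := ⟨⟨.negSucc 1336, .negSucc 306, .negSucc 12, .ofNat 40, .ofNat 88, .ofNat 113⟩, ⟨.ofNat 25, .ofNat 289, .ofNat 241, .negSucc 10, .negSucc 5, .negSucc 10⟩, ⟨.ofNat 1169, .negSucc 351, .ofNat 2, .negSucc 589, .negSucc 337, .negSucc 246⟩, ⟨.negSucc 2984, .ofNat 188, .negSucc 22, .ofNat 102, .ofNat 226, .ofNat 251⟩, ⟨.negSucc 178, .ofNat 84, .negSucc 20, .ofNat 101, .ofNat 259, .ofNat 116⟩, .ofNat 324, .ofNat 86, .ofNat 0, .ofNat 86, .ofNat 736, .ofNat 0, .ofNat 149, .negSucc 58, .negSucc 7, .ofNat 0, .ofNat 128, .negSucc 12, .ofNat 0, .ofNat 0, .ofNat 874, .ofNat 1439, .ofNat 0, .ofNat 0, .ofNat 0, .ofNat 0, .ofNat 0, .ofNat 4783348779890192999540875223093673031892992, .ofNat 0, .ofNat 0, .ofNat 0, .ofNat 12004765508112998832801200998531002265501696,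 .ofNat 0, .ofNat 0, .ofNat 0, .ofNat 44652855563604323597578536331335607263428608, .ofNat 0, .ofNat 0⟩)
    (by decide +kernel)
theorem L01838 : Good (Phi V5.P V5.D (-1) (-1)) ⟨2, 2, 2, 0, 3, 5, 2, 2, 4, 6⟩ :=
  leafX_sound T5.ok_mm T5.Ymm.bz_eq (w := 211) (c := ⟨⟨.negSucc 1352, .negSucc 323, .negSucc 9, .ofNat 86, .ofNat 122, .ofNat 131⟩, ⟨.ofNat 23, .ofNat 284, .ofNat 250, .negSucc 12, .negSucc 24, .negSucc 20⟩, ⟨.ofNat 1070, .negSucc 352, .negSucc 127, .negSucc 607, .negSucc 778, .negSucc 310⟩, ⟨.negSucc 3018, .ofNat 135, .negSucc 58, .ofNat 185, .ofNat 344, .ofNat 301⟩, ⟨.negSucc 346, .ofNat 38, .negSucc 2, .ofNat 49, .ofNat 521, .ofNat 171⟩, .ofNat 169, .ofNat 16, .ofNat 0, .ofNat 16, .ofNat 241, .ofNat 0, .ofNat 179, .negSucc 27, .ofNat 8, .ofNat 0, .ofNat 128, .negSucc 27, .ofNat 0, .ofNat 0, .ofNat 847, .ofNat 1014, .ofNat 0, .ofNat 0, .ofNat 0, .ofNat 0, .ofNat 0, .ofNat 3053344109840472961124736963798279588413440,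 .ofNat 0, .ofNat 0, .ofNat 0, .ofNat 3271136550027206894389314230974329133203456, .ofNat 0, .ofNat 0, .ofNat 0, .ofNat 15722694407259412764427348153364587032346624, .ofNat 0, .ofNat 0⟩)
    (by decide +kernel)
theorem L01839 : Good (Phi V5.P V5.D (-1) (-1)) ⟨2, 2, 2, 0, 3, 4, 2, 2, 5, 14⟩ :=
  leafX_sound T5.ok_mm T5.Ymm.bz_eq (w := 217) (c := ⟨⟨.negSucc 1280, .negSucc 317, .negSucc 19, .ofNat 46, .ofNat 124, .ofNat 58⟩, ⟨.ofNat 4, .ofNat 294, .ofNat 237, .ofNat 10, .ofNat 16, .negSucc 26⟩, ⟨.ofNat 1557, .negSucc 571, .ofNat 2, .negSucc 847, .negSucc 974, .negSucc 133⟩, ⟨.negSucc 2890, .ofNat 160, .negSucc 38, .ofNat 108, .ofNat 347, .ofNat 111⟩, ⟨.negSucc 295, .ofNat 99, .negSucc 21, .ofNat 90, .ofNat 460, .ofNat 50⟩, .ofNat 323, .ofNat 87, .ofNat 0, .ofNat 87, .ofNat 727, .ofNat 0, .ofNat 166, .negSucc 57, .ofNat 15, .ofNat 0, .ofNat 128, .negSucc 19, .ofNat 0, .ofNat 0, .ofNat 1007,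 .ofNat 1181, .ofNat 41169633987797918397561759946385855959007232, .ofNat 333688721924939166711318951115638907600896, .ofNat 685856220667847240341228696359429105254400, .ofNat 0, .ofNat 0, .ofNat 19238787250003219383706997060491092680507392, .ofNat 0, .ofNat 0, .ofNat 0, .ofNat 27210681467838893806392220425127706650214400, .ofNat 0, .ofNat 0, .ofNat 0, .ofNat 113518138422863218554587245685249136880779264, .ofNat 0, .ofNat 0⟩)
    (by decide +kernel)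
theorem L01840 : Good (Phi V5.P V5.D (-1) (-1)) ⟨2, 2, 2, 0, 4, 8, 4, 8, 5, 15⟩ :=
  out_sound (S := T5.ds_mm) T5.ok_mm (w := 32) (j := 1) (by decide +kernel)
theorem L01841 : Good (Phi V5.P V5.D (-1) (-1)) ⟨2, 2, 2, 0, 5, 16, 4, 9, 6, 30⟩ :=
  out_sound (S := T5.ds_mm) T5.ok_mm (w := 36) (j := 1) (by decide +kernel)
theorem L01842 : Good (Phi V5.P V5.D (-1) (-1)) ⟨2, 2, 2, 0, 5, 17, 4, 9, 6, 30⟩ :=
  out_sound (S := T5.ds_mm) T5.ok_mm (w := 44) (j := 2) (by decide +kernel)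
theorem L01843 : Good (Phi V5.P V5.D (-1) (-1)) ⟨2, 2, 2, 0, 4, 8, 4, 9, 6, 31⟩ :=
  out_sound (S := T5.ds_mm) T5.ok_mm (w := 34) (j := 1) (by decide +kernel)
theorem L01844 : Good (Phi V5.P V5.D (-1) (-1)) ⟨2, 2, 2, 0, 4, 8, 3, 5, 5, 15⟩ :=
  out_sound (S := T5.ds_mm) T5.ok_mm (w := 38) (j := 2) (by decide +kernel)
theorem L01845 : Good (Phi V5.P V5.D (-1) (-1)) ⟨2, 2, 2, 0, 4, 9, 2, 2, 5, 15⟩ :=
  out_sound (S := T5.ds_mm) T5.ok_mm (w := 36) (j := 2) (by decide +kernel)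
theorem L01846 : Good (Phi V5.P V5.D (-1) (-1)) ⟨2, 2, 2, 0, 3, 5, 2, 2, 4, 7⟩ :=
  out_sound (S := T5.ds_mm) T5.ok_mm (w := 32) (j := 2) (by decide +kernel)
theorem L01847 : Good (Phi V5.P V5.D (-1) (-1)) ⟨4, 12, 3, 0, 2, 2, 2, 2, 4, 6⟩ :=
  out_sound (S := T5.ds_mm) T5.ok_mm (w := 51) (j := 3) (by decide +kernel)
theorem L01848 : Good (Phi V5.P V5.D (-1) (-1)) ⟨4, 12, 3, 1, 3, 4, 2, 2, 4, 6⟩ :=
  leafX_sound T5.ok_mm T5.Ymm.bz_eq (w := 223) (c := ⟨⟨.negSucc 1798, .negSucc 103, .negSucc 4, .ofNat 86, .ofNat 190, .ofNat 153⟩, ⟨.ofNat 485, .ofNat 108, .ofNat 125, .negSucc 23, .negSucc 15, .negSucc 41⟩, ⟨.ofNat 1639, .negSucc 119, .negSucc 73, .negSucc 908, .negSucc 1109, .negSucc 509⟩, ⟨.negSucc 3107, .ofNat 29, .negSucc 13, .ofNat 165, .ofNat 497, .ofNat 298⟩, ⟨.negSucc 369, .ofNat 2, .ofNat 10, .ofNat 73, .ofNat 537, .ofNat 142⟩, .ofNat 472, .ofNat 377, .ofNat 0, .ofNat 377, .ofNat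 1248, .ofNat 0, .ofNat 175, .negSucc 127, .ofNat 4, .ofNat 0, .ofNat 120, .negSucc 11, .ofNat 0, .ofNat 0, .ofNat 1057, .ofNat 796, .ofNat 3935421816825993321606655442824138176564559872, .ofNat 0, .ofNat 1310034727132616281452506868230280708096, .ofNat 0, .ofNat 0, .ofNat 3207259750045214539080419820944542327933763584, .ofNat 16414370953544852423456345088759122886656, .ofNat 0, .ofNat 0, .ofNat 4798025048211220229863136932175078784334036992, .ofNat 232920886478423891929722717942690869149696, .ofNat 0, .ofNat 0, .ofNat 23122291401647275994829339012812226927932735488, .ofNat 181639843408269104518032594301348179083264, .ofNat 0⟩)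
    (by decide +kernel)
theorem L01849 : Good (Phi V5.P V5.D (-1) (-1)) ⟨4, 12, 3, 1, 3, 5, 2, 2, 4, 6⟩ :=
  leafX_sound T5.ok_mm T5.Ymm.bz_eq (w := 223) (c := ⟨⟨.negSucc 1685, .negSucc 104, .negSucc 16, .ofNat 85, .ofNat 111, .ofNat 125⟩, ⟨.ofNat 444, .ofNat 109, .ofNat 132, .negSucc 18, .ofNat 24, .negSucc 19⟩, ⟨.ofNat 866, .negSucc 144, .negSucc 139, .negSucc 1094, .negSucc 1318, .negSucc 766⟩, ⟨.negSucc 2912, .ofNat 30, .negSucc 38, .ofNat 182, .ofNat 413, .ofNat 292⟩, ⟨.negSucc 349, .ofNat 19, .ofNat 5, .ofNat 125, .ofNat 666, .ofNat 252⟩, .ofNat 314, .ofNat 142, .ofNat 0, .ofNat 142, .ofNat 614, .ofNat 0, .ofNat 267, .negSucc 89, .ofNat 25, .ofNat 0, .ofNat 128, .negSucc 25, .ofNat 0, .ofNat 0, .ofNat 1040, .ofNat 1109, .ofNat 0, .ofNat 428422528133556781569934108715889115384512512, .ofNat 0, .ofNat 0, .ofNat 0, .ofNat 15273903656697804002783501559085253677287473152, .ofNat 47864989579637961950960973653266468438016,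 .ofNat 0, .ofNat 0, .ofNat 13103055982812024308427051650211309904029810688, .ofNat 125294075577155810693013399538012927295488, .ofNat 0, .ofNat 0, .ofNat 58070956248112025677859218872172871133297639424, .ofNat 108490952833468428307315411825359425896448, .ofNat 0⟩)
    (by decide +kernel)
theorem L01850 : Good (Phi V5.P V5.D (-1) (-1)) ⟨4, 12, 2, 0, 3, 4, 3, 4, 5, 14⟩ :=
  leafX_sound T5.ok_mm T5.Ymm.bz_eq (w := 230) (c := ⟨⟨.negSucc 1598, .negSucc 109, .negSucc 10, .ofNat 9, .ofNat 50, .ofNat 41⟩, ⟨.ofNat 316, .ofNat 120, .ofNat 223, .ofNat 20, .ofNat 14, .negSucc 5⟩, ⟨.ofNat 1438, .negSucc 225, .negSucc 108, .negSucc 1398, .negSucc 764, .negSucc 422⟩, ⟨.negSucc 2746, .ofNat 29, .negSucc 30, .ofNat 84, .ofNat 187, .ofNat 103⟩, ⟨.negSucc 287, .ofNat 39, .negSucc 11, .ofNat 214, .ofNat 311, .ofNat 101⟩, .ofNat 315, .ofNat 145, .ofNat 0, .ofNat 145, .ofNat 613, .ofNat 0, .ofNat 199, .negSucc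 88, .ofNat 69, .ofNat 0, .ofNat 128, .negSucc 70, .ofNat 0, .ofNat 0, .ofNat 2083, .ofNat 2695, .ofNat 306665833323274812964816403850266265221643370496, .ofNat 729757164091536582931545383664974245834784768, .ofNat 0, .ofNat 0, .ofNat 1850886563640151992267356395822276591762775474176, .ofNat 45113016353564012413734689938229739138964258816, .ofNat 0, .ofNat 0, .ofNat 1759559640692348787497552028381795626814007148544, .ofNat 39263256502083784712503495418530357957562990592, .ofNat 46298304968133169220104887959607800349327360, .ofNat 0, .ofNat 26185075501739620883504300647740087846951731593216, .ofNat 599618352031586812455224381750646511922520784896, .ofNat 0, .ofNat 0⟩)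
    (by decide +kernel)
theorem L01851 : Good (Phi V5.P V5.D (-1) (-1)) ⟨4, 12, 2, 0, 3, 4, 3, 5, 5, 14⟩ :=
  leafX_sound T5.ok_mm T5.Ymm.bz_eq (w := 231) (c := ⟨⟨.negSucc 1522, .negSucc 106, .negSucc 28, .negSucc 35, .ofNat 43, .ofNat 26⟩, ⟨.ofNat 332, .ofNat 124, .ofNat 215, .ofNat 39, .ofNat 20, .ofNat 2⟩, ⟨.ofNat 730, .negSucc 238, .negSucc 131, .negSucc 1552, .negSucc 884, .negSucc 480⟩, ⟨.negSucc 2546, .ofNat 37, .negSucc 34, .ofNat 47, .ofNat 198, .ofNat 85⟩, ⟨.negSucc 8, .ofNat 44, .ofNat 7, .ofNat 300, .ofNat 366, .ofNat 117⟩, .ofNat 314, .ofNat 143, .ofNat 0, .ofNat 143, .ofNat 614, .ofNat 0, .ofNat 189, .negSucc 87, .ofNat 55, .ofNat 0, .ofNat 128, .negSucc 64, .ofNat 0, .ofNat 0, .ofNat 1828, .ofNat 5327, .ofNat 0, .ofNat 0, .ofNat 0, .ofNat 0, .ofNat 0, .ofNat 96541267638827344527113918628265422121506701312, .ofNat 34563219821219458690844674607203705442795520, .ofNat 0,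 .ofNat 0, .ofNat 132049310441951242970838483793509321689807192064, .ofNat 22192970725341106202420720648336263857831936, .ofNat 0, .ofNat 0, .ofNat 917645209436348466951913211100409610131594018816, .ofNat 0, .ofNat 0⟩)
    (by decide +kernel)
theorem L01852 : Good (Phi V5.P V5.D (-1) (-1)) ⟨4, 12, 2, 0, 4, 8, 4, 8, 5, 15⟩ :=
  out_sound (S := T5.ds_mm) T5.ok_mm (w := 32) (j := 1) (by decide +kernel)
theorem L01853 : Good (Phi V5.P V5.D (-1) (-1)) ⟨4, 12, 2, 0, 5, 16, 4, 9, 6, 30⟩ :=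
  out_sound (S := T5.ds_mm) T5.ok_mm (w := 36) (j := 1) (by decide +kernel)
theorem L01854 : Good (Phi V5.P V5.D (-1) (-1)) ⟨4, 12, 2, 0, 5, 17, 4, 9, 6, 30⟩ :=
  out_sound (S := T5.ds_mm) T5.ok_mm (w := 44) (j := 2) (by decide +kernel)
theorem L01855 : Good (Phi V5.P V5.D (-1) (-1)) ⟨4, 12, 2, 0, 4, 8, 4, 9, 6, 31⟩ :=
  out_sound (S := T5.ds_mm) T5.ok_mm (w := 34) (j := 1) (by decide +kernel)
theorem L01856 : Good (Phi V5.P V5.D (-1) (-1)) ⟨4, 12, 2, 0, 4, 8, 3, 5, 5, 15⟩ :=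
  out_sound (S := T5.ds_mm) T5.ok_mm (w := 38) (j := 2) (by decide +kernel)
theorem L01857 : Good (Phi V5.P V5.D (-1) (-1)) ⟨4, 12, 2, 0, 4, 9, 2, 2, 5, 15⟩ :=
  out_sound (S := T5.ds_mm) T5.ok_mm (w := 36) (j := 2) (by decide +kernel)
theorem L01858 : Good (Phi V5.P V5.D (-1) (-1)) ⟨4, 12, 2, 0, 3, 5, 2, 2, 4, 7⟩ :=
  out_sound (S := T5.ds_mm) T5.ok_mm (w := 32) (j := 2) (by decide +kernel)
theorem L01859 : Good (Phi V5.P V5.D (-1) (-1)) ⟨4, 13, 2, 0, 2, 2, 2, 2, 3, 3⟩ :=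
  out_sound (S := T5.ds_mm) T5.ok_mm (w := 49) (j := 3) (by decide +kernel)
theorem L01860 : Good (Phi V5.P V5.D (-1) (-1)) ⟨3, 7, 2, 0, 2, 2, 2, 2, 3, 3⟩ :=
  out_sound (S := T5.ds_mm) T5.ok_mm (w := 43) (j := 3) (by decide +kernel)
theorem L01861 : Good (Phi V5.P V5.D (-1) (-1)) ⟨1, 1, 2, 0, 2, 2, 2, 3, 3, 3⟩ :=
  leafX_sound T5.ok_mm T5.Ymm.bz_eq (w := 188) (c := ⟨⟨.negSucc 1238, .negSucc 554, .negSucc 30, .ofNat 16, .ofNat 215, .ofNat 119⟩, ⟨.ofNat 15, .ofNat 609, .ofNat 221, .ofNat 160, .ofNat 111, .ofNat 78⟩, ⟨.ofNat 787, .negSucc 734, .ofNat 52, .negSucc 1047, .negSucc 807, .negSucc 582⟩, ⟨.negSucc 2763, .ofNat 536, .negSucc 25, .ofNat 156, .ofNat 644, .ofNat 440⟩, ⟨.ofNat 78, .ofNat 274, .negSucc 24, .ofNat 400, .ofNat 767, .ofNat 281⟩, .ofNat 168, .ofNat 18, .ofNat 0, .ofNat 18, .ofNat 238, .ofNat 0, .ofNat 128, .negSucc 35, .negSucc 25, .ofNat 0, .ofNat 171, .negSucc 25, .ofNat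 0, .ofNat 0, .ofNat 472, .ofNat 635, .ofNat 0, .ofNat 511100132882886623901321804271058944, .ofNat 0, .ofNat 0, .ofNat 0, .ofNat 5886045665549102414642240918434873344, .ofNat 86530111540073733750216783265005568, .ofNat 0, .ofNat 0, .ofNat 12961350637981363123975295844210442240, .ofNat 592239472945934063200264578685468672, .ofNat 0, .ofNat 0, .ofNat 27712869864413620969720460685971816448, .ofNat 296817611965017437079512195308453888, .ofNat 0⟩)
    (by decide +kernel)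
theorem L01862 : Good (Phi V5.P V5.D (-1) (-1)) ⟨1, 1, 2, 0, 2, 3, 1, 1, 3, 3⟩ :=
  out_sound (S := T5.ds_mm) T5.ok_mm (w := 26) (j := 2) (by decide +kernel)
theorem L01863 : Good (Phi V5.P V5.D (-1) (-1)) ⟨1, 1, 2, 0, 4, 8, 3, 4, 4, 8⟩ :=
  out_sound (S := T5.ds_mm) T5.ok_mm (w := 29) (j := 1) (by decide +kernel)
theorem L01864 : Good (Phi V5.P V5.D (-1) (-1)) ⟨1, 1, 2, 0, 4, 8, 3, 5, 4, 8⟩ :=
  out_sound (S := T5.ds_mm) T5.ok_mm (w := 36) (j := 2) (by decide +kernel)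
theorem L01865 : Good (Phi V5.P V5.D (-1) (-1)) ⟨1, 1, 2, 0, 4, 8, 2, 2, 4, 9⟩ :=
  out_sound (S := T5.ds_mm) T5.ok_mm (w := 28) (j := 1) (by decide +kernel)
theorem L01866 : Good (Phi V5.P V5.D (-1) (-1)) ⟨1, 1, 2, 0, 4, 9, 2, 2, 3, 4⟩ :=
  out_sound (S := T5.ds_mm) T5.ok_mm (w := 32) (j := 2) (by decide +kernel)
theorem L01867 : Good (Phi V5.P V5.D (-1) (-1)) ⟨1, 1, 2, 0, 3, 4, 2, 3, 3, 4⟩ :=
  out_sound (S := T5.ds_mm) T5.ok_mm (w := 30) (j := 2) (by decide +kernel)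
theorem L01868 : Good (Phi V5.P V5.D (-1) (-1)) ⟨1, 1, 2, 0, 3, 4, 1, 1, 3, 5⟩ :=
  out_sound (S := T5.ds_mm) T5.ok_mm (w := 28) (j := 2) (by decide +kernel)
theorem L01869 : Good (Phi V5.P V5.D (-1) (-1)) ⟨1, 1, 2, 0, 3, 5, 1, 1, 2, 2⟩ :=
  out_sound (S := T5.ds_mm) T5.ok_mm (w := 26) (j := 2) (by decide +kernel)
theorem L01870 : Good (Phi V5.P V5.D (-1) (-1)) ⟨1, 1, 2, 0, 2, 2, 1, 1, 2, 3⟩ :=
  out_sound (S := T5.ds_mm) T5.ok_mm (w := 24) (j := 2) (by decide +kernel)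
theorem L01871 : Good (Phi V5.P V5.D (-1) (-1)) ⟨1, 1, 2, 0, 2, 3, 1, 1, 1, 1⟩ :=
  out_sound (S := T5.ds_mm) T5.ok_mm (w := 22) (j := 2) (by decide +kernel)
theorem L01872 : Good (Phi V5.P V5.D (-1) (-1)) ⟨3, 4, 2, 1, 1, 0, 1, 0, 3, 0⟩ :=
  out_sound (S := T5.ds_mm) T5.ok_mm (w := 43) (j := 3) (by decide +kernel)
theorem L01873 : Good (Phi V5.P V5.D (-1) (-1)) ⟨4, 10, 3, 2, 1, 0, 2, 0, 4, 0⟩ :=
  out_sound (S := T5.ds_mm) T5.ok_mm (w := 51) (j := 3) (by decide +kernel)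
theorem L01874 : Good (Phi V5.P V5.D (-1) (-1)) ⟨4, 11, 3, 2, 2, 0, 3, 0, 4, 0⟩ :=
  leafX_sound T5.ok_mm T5.Ymm.bz_eq (w := 213) (c := ⟨⟨.ofNat 1415, .ofNat 46, .ofNat 158, .ofNat 81, .ofNat 227, .negSucc 3153⟩, ⟨.negSucc 444, .negSucc 86, .negSucc 90, .negSucc 49, .negSucc 81, .ofNat 1097⟩, ⟨.negSucc 1319, .negSucc 158, .negSucc 98, .negSucc 68, .negSucc 317, .ofNat 3113⟩, ⟨.ofNat 2495, .negSucc 39, .ofNat 276, .negSucc 118, .ofNat 419, .negSucc 5431⟩, ⟨.negSucc 75, .ofNat 54, .ofNat 84, .negSucc 736, .ofNat 88, .negSucc 10⟩, .ofNat 535, .ofNat 543, .ofNat 0, .ofNat 543, .ofNat 1845, .ofNat 0, .ofNat 128, .negSucc 136, .negSucc 271, .ofNat 0, .ofNat 97, .ofNat 89, .ofNat 0, .ofNat 0, .ofNat 493, .ofNat 3856, .ofNat 0, .ofNat 0, .ofNat 0, .ofNat 0, .ofNat 0, .ofNat 0, .ofNat 0, .ofNat 0, .ofNat 0, .ofNat 0, .ofNat 101097886464324034367262488831958450176, .ofNat 0, .ofNat 0, .ofNat 0,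 .ofNat 0, .ofNat 0⟩)
    (by decide +kernel)
theorem L01875 : Good (Phi V5.P V5.D (-1) (-1)) ⟨4, 11, 3, 2, 2, 1, 3, 0, 4, 0⟩ :=
  leafX_sound T5.ok_mm T5.Ymm.bz_eq (w := 213) (c := ⟨⟨.ofNat 1355, .ofNat 235, .ofNat 190, .ofNat 956, .ofNat 174, .negSucc 3091⟩, ⟨.negSucc 441, .negSucc 172, .negSucc 74, .negSucc 375, .negSucc 50, .ofNat 1072⟩, ⟨.negSucc 1204, .negSucc 68, .negSucc 103, .negSucc 191, .negSucc 261, .ofNat 2228⟩, ⟨.ofNat 2157, .ofNat 226, .ofNat 128, .ofNat 1098, .ofNat 401, .negSucc 5331⟩, ⟨.negSucc 827, .negSucc 120, .negSucc 169, .negSucc 1631, .ofNat 274, .ofNat 204⟩, .ofNat 327, .ofNat 165, .ofNat 0, .ofNat 165, .ofNat 719, .ofNat 0, .ofNat 188, .negSucc 127, .negSucc 197, .ofNat 0, .ofNat 126, .ofNat 66, .ofNat 0, .ofNat 0, .ofNat 325, .ofNat 2644, .ofNat 0, .ofNat 0, .ofNat 0, .ofNat 0, .ofNat 0, .ofNat 0, .ofNat 0, .ofNat 0, .ofNat 0, .ofNat 0, .ofNat 38648918195295030239611936683480580096,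 .ofNat 0, .ofNat 0, .ofNat 0, .ofNat 16975969342961122432078829897899835392, .ofNat 0⟩)
    (by decide +kernel)
theorem L01876 : Good (Phi V5.P V5.D (-1) (-1)) ⟨4, 11, 3, 2, 1, 0, 3, 1, 4, 0⟩ :=
  leafX_sound T5.ok_mm T5.Ymm.bz_eq (w := 198) (c := ⟨⟨.ofNat 1435, .ofNat 382, .negSucc 13, .ofNat 915, .negSucc 91, .negSucc 3448⟩, ⟨.negSucc 439, .negSucc 221, .ofNat 86, .negSucc 382, .ofNat 32, .ofNat 1192⟩, ⟨.negSucc 1471, .negSucc 109, .negSucc 37, .negSucc 693, .ofNat 87, .ofNat 2955⟩, ⟨.ofNat 2635, .ofNat 512, .negSucc 107, .ofNat 899, .negSucc 116, .negSucc 5956⟩, ⟨.ofNat 108, .ofNat 3, .negSucc 349, .negSucc 1860, .ofNat 181, .ofNat 12⟩, .ofNat 535, .ofNat 543, .ofNat 0, .ofNat 543, .ofNat 1869, .ofNat 0, .ofNat 128, .negSucc 192, .negSucc 223, .ofNat 0, .ofNat 127, .ofNat 75, .ofNat 0, .ofNat 0, .ofNat 369, .ofNat 400, .ofNat 0, .ofNat 0, .ofNat 0, .ofNat 0, .ofNat 0, .ofNat 0, .ofNat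 0, .ofNat 0, .ofNat 0, .ofNat 0, .ofNat 0, .ofNat 0, .ofNat 0, .ofNat 0, .ofNat 1057665983122655536881823362580480, .ofNat 0⟩)
    (by decide +kernel)
theorem L01877 : Good (Phi V5.P V5.D (-1) (-1)) ⟨3, 5, 3, 2, 1, 0, 2, 0, 4, 1⟩ :=
  leafX_sound T5.ok_mm T5.Ymm.bz_eq (w := 190) (c := ⟨⟨.negSucc 1057, .negSucc 282, .negSucc 111, .ofNat 72, .negSucc 134, .negSucc 1466⟩, ⟨.ofNat 242, .ofNat 202, .ofNat 252, .negSucc 76, .ofNat 64, .ofNat 524⟩, ⟨.ofNat 1311, .ofNat 385, .negSucc 25, .negSucc 1094, .ofNat 7, .ofNat 1414⟩, ⟨.negSucc 2225, .negSucc 29, .negSucc 325, .negSucc 402, .negSucc 165, .negSucc 2389⟩, ⟨.negSucc 69, .negSucc 44, .negSucc 213, .negSucc 1502, .ofNat 92, .ofNat 299⟩, .ofNat 864, .ofNat 1354, .ofNat 0, .ofNat 1354, .ofNat 4104, .ofNat 0, .ofNat 128, .negSucc 214, .negSucc 135, .ofNat 0, .ofNat 111, .ofNat 48, .ofNat 0, .ofNat 0, .ofNat 310, .ofNat 904, .ofNat 0, .ofNat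 0, .ofNat 0, .ofNat 0, .ofNat 0, .ofNat 0, .ofNat 0, .ofNat 0, .ofNat 0, .ofNat 0, .ofNat 1898716652127057947333209251381248, .ofNat 0, .ofNat 31124314844191962915289953446723059712, .ofNat 0, .ofNat 714753274355499184592170084466688, .ofNat 0⟩)
    (by decide +kernel)
theorem L01878 : Good (Phi V5.P V5.D (-1) (-1)) ⟨3, 5, 3, 2, 1, 0, 2, 1, 4, 0⟩ :=
  leafX_sound T5.ok_mm T5.Ymm.bz_eq (w := 190) (c := ⟨⟨.ofNat 1318, .ofNat 189, .negSucc 251, .ofNat 924, .negSucc 511, .negSucc 3334⟩, ⟨.negSucc 313, .negSucc 253, .ofNat 204, .negSucc 368, .ofNat 183, .ofNat 1152⟩, ⟨.negSucc 1079, .negSucc 152, .ofNat 22, .negSucc 1038, .ofNat 345, .ofNat 2932⟩, ⟨.ofNat 2571, .negSucc 34, .negSucc 293, .ofNat 1120, .negSucc 877, .negSucc 5753⟩, ⟨.ofNat 152, .negSucc 346, .ofNat 144, .negSucc 1246, .ofNat 120, .ofNat 85⟩, .ofNat 536, .ofNat 546, .ofNat 0, .ofNat 546, .ofNat 1871, .ofNat 0, .ofNat 128, .negSucc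 185, .negSucc 342, .ofNat 0, .ofNat 125, .ofNat 113, .ofNat 0, .ofNat 0, .ofNat 511, .ofNat 319, .ofNat 0, .ofNat 0, .ofNat 0, .ofNat 0, .ofNat 0, .ofNat 0, .ofNat 0, .ofNat 0, .ofNat 0, .ofNat 0, .ofNat 2015967407446476582847342236925952, .ofNat 0, .ofNat 0, .ofNat 0, .ofNat 271422643478031238533058199027712, .ofNat 0⟩)
    (by decide +kernel)
theorem L01879 : Good (Phi V5.P V5.D (-1) (-1)) ⟨3, 5, 3, 2, 1, 0, 2, 1, 4, 1⟩ :=
  leafX_sound T5.ok_mm T5.Ymm.bz_eq (w := 189) (c := ⟨⟨.negSucc 1049, .negSucc 904, .ofNat 156, .negSucc 79, .negSucc 126, .negSucc 910⟩, ⟨.ofNat 206, .ofNat 480, .ofNat 114, .ofNat 8, .ofNat 51, .ofNat 307⟩, ⟨.ofNat 1200, .ofNat 770, .negSucc 114, .negSucc 816, .ofNat 90, .ofNat 954⟩, ⟨.negSucc 2212, .negSucc 1048, .ofNat 296, .negSucc 389, .negSucc 162, .negSucc 1559⟩, ⟨.negSucc 1, .negSucc 40, .ofNat 178, .negSucc 826, .ofNat 130, .ofNat 87⟩, .ofNat 533, .ofNat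 539, .ofNat 0, .ofNat 539, .ofNat 1855, .ofNat 0, .ofNat 128, .negSucc 139, .negSucc 177, .ofNat 0, .ofNat 97, .ofNat 59, .ofNat 0, .ofNat 0, .ofNat 343, .ofNat 457, .ofNat 0, .ofNat 0, .ofNat 0, .ofNat 0, .ofNat 0, .ofNat 0, .ofNat 0, .ofNat 0, .ofNat 0, .ofNat 0, .ofNat 290307930833857628863552209027072, .ofNat 0, .ofNat 0, .ofNat 0, .ofNat 0, .ofNat 0⟩)
    (by decide +kernel)
theorem L01880 : Good (Phi V5.P V5.D (-1) (-1)) ⟨3, 5, 3, 3, 1, 0, 1, 0, 3, 0⟩ :=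
  out_sound (S := T5.ds_mm) T5.ok_mm (w := 45) (j := 3) (by decide +kernel)
theorem L01881 : Good (Phi V5.P V5.D (-1) (-1)) ⟨3, 4, 2, 1, 1, 0, 1, 0, 3, 1⟩ :=
  out_sound (S := T5.ds_mm) T5.ok_mm (w := 43) (j := 3) (by decide +kernel)
theorem L01882 : Good (Phi V5.P V5.D (-1) (-1)) ⟨4, 10, 2, 1, 1, 0, 1, 0, 3, 1⟩ :=
  out_sound (S := T5.ds_mm) T5.ok_mm (w := 49) (j := 3) (by decide +kernel)
theorem L01883 : Good (Phi V5.P V5.D (-1) (-1)) ⟨4, 11, 2, 1, 1, 0, 1, 0, 4, 2⟩ :=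
  leafX_sound T5.ok_mm T5.Ymm.bz_eq (w := 188) (c := ⟨⟨.negSucc 2339, .negSucc 315, .negSucc 18, .negSucc 400, .ofNat 184, .negSucc 133⟩, ⟨.ofNat 709, .ofNat 218, .ofNat 423, .ofNat 120, .negSucc 57, .ofNat 52⟩, ⟨.ofNat 2459, .ofNat 393, .negSucc 205, .negSucc 569, .negSucc 324, .ofNat 357⟩, ⟨.negSucc 4286, .negSucc 221, .negSucc 119, .negSucc 935, .ofNat 417, .negSucc 149⟩, ⟨.negSucc 229, .negSucc 38, .negSucc 196, .negSucc 722, .ofNat 303, .ofNat 210⟩, .ofNat 871, .ofNat 1386, .ofNat 0, .ofNat 1386, .ofNat 4249, .ofNat 0, .ofNat 128, .negSucc 290, .negSucc 285, .ofNat 0, .ofNat 150, .ofNat 101, .ofNat 0, .ofNat 0, .ofNat 822, .ofNat 738, .ofNat 510225864674075528743222029051756544, .ofNat 0, .ofNat 191355769403006624378845659136, .ofNat 0, .ofNat 5185840114033145278169755696421142528, .ofNat 0, .ofNat 0, .ofNat 0, .ofNat 0, .ofNat 0, .ofNat 11422598926516702802996570882048, .ofNat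 0, .ofNat 0, .ofNat 0, .ofNat 0, .ofNat 0⟩)
    (by decide +kernel)
theorem L01884 : Good (Phi V5.P V5.D (-1) (-1)) ⟨4, 11, 2, 1, 1, 0, 1, 0, 4, 3⟩ :=
  leafX_sound T5.ok_mm T5.Ymm.bz_eq (w := 187) (c := ⟨⟨.negSucc 2674, .negSucc 261, .negSucc 109, .negSucc 278, .ofNat 397, .ofNat 253⟩, ⟨.ofNat 832, .ofNat 191, .ofNat 434, .ofNat 81, .negSucc 128, .negSucc 84⟩, ⟨.ofNat 3059, .ofNat 273, .ofNat 11, .negSucc 503, .negSucc 731, .negSucc 107⟩, ⟨.negSucc 4809, .negSucc 138, .negSucc 149, .negSucc 653, .ofNat 748, .ofNat 445⟩, ⟨.negSucc 109, .ofNat 3, .ofNat 111, .negSucc 510, .ofNat 184, .ofNat 16⟩, .ofNat 852, .ofNat 1342, .ofNat 0, .ofNat 1342, .ofNat 4168, .ofNat 0, .ofNat 128, .negSucc 127, .negSucc 100, .ofNat 0, .ofNat 67, .ofNat 35, .ofNat 0, .ofNat 0, .ofNat 413, .ofNat 658, .ofNat 480334529005331319665563441674846208, .ofNat 0, .ofNat 193496560582654931143164428288, .ofNat 0, .ofNat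 0, .ofNat 0, .ofNat 0, .ofNat 0, .ofNat 0, .ofNat 0, .ofNat 7834600566688651391297302560768, .ofNat 0, .ofNat 0, .ofNat 0, .ofNat 0, .ofNat 0⟩)
    (by decide +kernel)
theorem L01885 : Good (Phi V5.P V5.D (-1) (-1)) ⟨3, 4, 2, 1, 1, 0, 1, 0, 3, 2⟩ :=
  out_sound (S := T5.ds_mm) T5.ok_mm (w := 43) (j := 3) (by decide +kernel)
theorem L01886 : Good (Phi V5.P V5.D (-1) (-1)) ⟨3, 5, 2, 1, 1, 0, 2, 0, 3, 2⟩ :=
  leafX_sound T5.ok_mm T5.Ymm.bz_eq (w := 185) (c := ⟨⟨.negSucc 2128, .negSucc 505, .ofNat 48, .negSucc 252, .ofNat 130, .ofNat 705⟩, ⟨.ofNat 553, .ofNat 365, .ofNat 394, .ofNat 73, .negSucc 40, .negSucc 241⟩, ⟨.ofNat 2758, .ofNat 559, .negSucc 233, .negSucc 519, .negSucc 377, .negSucc 228⟩, ⟨.negSucc 4184, .negSucc 246, .ofNat 1, .negSucc 611, .ofNat 280, .ofNat 1202⟩, ⟨.negSucc 199, .ofNat 32, .negSucc 66, .negSucc 516, .ofNat 217, .negSucc 15⟩, .ofNat 794, .ofNat 1245, .ofNat 0, .ofNat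 1245, .ofNat 3827, .ofNat 0, .ofNat 128, .negSucc 202, .negSucc 89, .ofNat 0, .ofNat 94, .ofNat 33, .ofNat 0, .ofNat 0, .ofNat 817, .ofNat 8361, .ofNat 2022717118124840014070377180290875392, .ofNat 0, .ofNat 102257057815145195099452866560, .ofNat 0, .ofNat 2812531985617419156207849333837529088, .ofNat 0, .ofNat 0, .ofNat 0, .ofNat 6750101839305448898340098431969656832, .ofNat 0, .ofNat 0, .ofNat 0, .ofNat 16727366281661958874019263952887742464, .ofNat 0, .ofNat 1395036572780176609268648116224, .ofNat 0⟩)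
    (by decide +kernel)
theorem L01887 : Good (Phi V5.P V5.D (-1) (-1)) ⟨3, 5, 2, 1, 1, 0, 2, 1, 4, 4⟩ :=
  leafX_sound T5.ok_mm T5.Ymm.bz_eq (w := 190) (c := ⟨⟨.negSucc 2147, .negSucc 408, .negSucc 56, .negSucc 97, .ofNat 211, .ofNat 247⟩, ⟨.ofNat 581, .ofNat 310, .ofNat 385, .ofNat 25, .negSucc 73, .negSucc 83⟩, ⟨.ofNat 2373, .ofNat 520, .negSucc 159, .negSucc 495, .negSucc 446, .negSucc 151⟩, ⟨.negSucc 4122, .negSucc 171, .negSucc 127, .negSucc 307, .ofNat 386, .ofNat 443⟩, ⟨.negSucc 13, .negSucc 55, .negSucc 10, .negSucc 419, .ofNat 69, .ofNat 48⟩, .ofNat 858, .ofNat 1347, .ofNat 0, .ofNat 1347, .ofNat 4137, .ofNat 0, .ofNat 128, .negSucc 200, .negSucc 95, .ofNat 0, .ofNat 107, .ofNat 34, .ofNat 0, .ofNat 0, .ofNat 555, .ofNat 4973, .ofNat 2426965849107474873305878521404456960, .ofNat 0, .ofNat 11104593928178065308300555059200, .ofNat 0, .ofNat 0, .ofNat 0, .ofNat 0, .ofNat 0, .ofNat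 0, .ofNat 0, .ofNat 829985159266696732844800862060544, .ofNat 0, .ofNat 0, .ofNat 0, .ofNat 412904975738208356453431013015552, .ofNat 0⟩)
    (by decide +kernel)
theorem L01888 : Good (Phi V5.P V5.D (-1) (-1)) ⟨3, 5, 2, 1, 1, 0, 3, 2, 6, 20⟩ :=
  leafX_sound T5.ok_mm T5.Ymm.bz_eq (w := 206) (c := ⟨⟨.negSucc 2019, .negSucc 372, .ofNat 33, .ofNat 36, .ofNat 103, .ofNat 69⟩, ⟨.ofNat 548, .ofNat 288, .ofNat 338, .negSucc 27, .negSucc 33, .negSucc 23⟩, ⟨.ofNat 2754, .ofNat 381, .negSucc 109, .negSucc 918, .negSucc 280, .negSucc 26⟩, ⟨.negSucc 3851, .negSucc 113, .ofNat 5, .negSucc 129, .ofNat 196, .ofNat 121⟩, ⟨.ofNat 70, .ofNat 17, .negSucc 9, .negSucc 564, .ofNat 54, .ofNat 8⟩, .ofNat 355, .ofNat 226, .ofNat 0, .ofNat 226, .ofNat 904, .ofNat 0, .ofNat 135, .negSucc 127, .negSucc 131, .ofNat 0, .ofNat 125, .ofNat 48, .ofNat 0, .ofNat 0, .ofNat 919, .ofNat 25131, .ofNat 14179319176114708168200761222448080224256,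 .ofNat 0, .ofNat 3024989634557702877942261656458362880, .ofNat 0, .ofNat 0, .ofNat 0, .ofNat 4458081993999343495822227648448299008, .ofNat 0, .ofNat 0, .ofNat 0, .ofNat 0, .ofNat 0, .ofNat 415111563385506401700669943703283076956160, .ofNat 0, .ofNat 3984540454500448152448417323806621696, .ofNat 0⟩)
    (by decide +kernel)
theorem L01889 : Good (Phi V5.P V5.D (-1) (-1)) ⟨3, 5, 2, 1, 1, 0, 3, 2, 6, 21⟩ :=
  leafX_sound T5.ok_mm T5.Ymm.bz_eq (w := 206) (c := ⟨⟨.negSucc 2124, .negSucc 350, .ofNat 55, .ofNat 200, .ofNat 112, .ofNat 72⟩, ⟨.ofNat 598, .ofNat 268, .ofNat 325, .negSucc 85, .negSucc 38, .negSucc 24⟩, ⟨.ofNat 3137, .ofNat 343, .negSucc 180, .negSucc 1297, .negSucc 313, .negSucc 36⟩, ⟨.negSucc 3978, .negSucc 102, .ofNat 33, .ofNat 123, .ofNat 208, .ofNat 126⟩, ⟨.ofNat 147, .ofNat 16, .negSucc 22, .negSucc 643, .ofNat 59, .ofNat 9⟩, .ofNat 328, .ofNat 165, .ofNat 0, .ofNat 165, .ofNat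 726, .ofNat 0, .ofNat 160, .negSucc 107, .negSucc 97, .ofNat 0, .ofNat 128, .ofNat 39, .ofNat 0, .ofNat 0, .ofNat 710, .ofNat 29592, .ofNat 22845696514275962715494736506719158927360, .ofNat 0, .ofNat 1527558154577755100409684398088126464, .ofNat 0, .ofNat 60652985746226039832224597563580887334912, .ofNat 0, .ofNat 669007894897348149420000899974037504, .ofNat 0, .ofNat 91900803982121331507893638895115066933248, .ofNat 0, .ofNat 0, .ofNat 0, .ofNat 448401387130343339655296250787161811451904, .ofNat 0, .ofNat 5512287686858347638972989171338051584, .ofNat 0⟩)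
    (by decide +kernel)

end Crest.Agent.R097C5.N5mm
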