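import Crest.Agent.R097.KP7
import Crest.Agent.R097.T5Ymm

/-!
# Row 97, box cover in dimension n = 5 (generated)
-/

set_option autoImplicit false
set_option Elab.async false
set_option maxHeartbeats 0
set_option maxRecDepth 100000

open Crest.Agent.R097 Crest.Agent.R097.KA


namespace Crest.Agent.R097C5.N5mm

theorem L01890 : Good (Phi V5.P V5.D (-1) (-1)) ⟨3, 5, 2, 1, 1, 0, 3, 2, 5, 11⟩ :=
  leafX_sound T5.ok_mm T5.Ymm.bz_eq (w := 204) (c := ⟨⟨.negSucc 2192, .negSucc 312, .ofNat 45, .ofNat 321, .ofNat 104, .ofNat 138⟩, ⟨.ofNat 649, .ofNat 245, .ofNat 324, .negSucc 143, .negSucc 39, .negSucc 42⟩, ⟨.ofNat 3329, .ofNat 267, .negSucc 160, .negSucc 1503, .negSucc 277, .negSucc 94⟩, ⟨.negSucc 4084, .negSucc 61, .ofNat 17, .ofNat 329, .ofNat 209, .ofNat 243⟩, ⟨.ofNat 164, .ofNat 7, .negSucc 22, .negSucc 658, .ofNat 74, .ofNat 25⟩, .ofNat 166, .ofNat 30, .ofNat 0, .ofNat 30, .ofNat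 239, .ofNat 0, .ofNat 203, .negSucc 45, .negSucc 127, .ofNat 0, .ofNat 128, .ofNat 54, .ofNat 0, .ofNat 0, .ofNat 720, .ofNat 115940, .ofNat 16255685143212670272072811521310833246208, .ofNat 0, .ofNat 22040731518391615174750870265921536, .ofNat 0, .ofNat 34909866375504446383570707338122034675712, .ofNat 0, .ofNat 0, .ofNat 0, .ofNat 36394045743305324839282097840089735364608, .ofNat 0, .ofNat 164534211599283745691137823626756096, .ofNat 0, .ofNat 114196805614306818537204387477953701740544, .ofNat 0, .ofNat 0, .ofNat 0⟩)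
    (by decide +kernel)
theorem L01891 : Good (Phi V5.P V5.D (-1) (-1)) ⟨3, 5, 2, 1, 2, 0, 3, 3, 5, 10⟩ :=
  leafX_sound T5.ok_mm T5.Ymm.bz_eq (w := 216) (c := ⟨⟨.negSucc 1860, .negSucc 345, .negSucc 11, .negSucc 21, .ofNat 88, .ofNat 84⟩, ⟨.ofNat 482, .ofNat 293, .ofNat 309, .ofNat 4, .negSucc 29, .negSucc 27⟩, ⟨.ofNat 2038, .ofNat 388, .negSucc 29, .negSucc 44, .negSucc 240, .negSucc 57⟩, ⟨.negSucc 3597, .negSucc 83, .negSucc 22, .negSucc 83, .ofNat 156, .ofNat 144⟩, ⟨.negSucc 7, .ofNat 0, .ofNat 2, .negSucc 131, .ofNat 9, .ofNat 1⟩, .ofNat 532, .ofNat 537, .ofNat 0, .ofNat 537, .ofNat 1850, .ofNat 0, .ofNat 128, .negSucc 145, .negSucc 78, .ofNat 0, .ofNat 106, .ofNat 26, .ofNat 0, .ofNat 0, .ofNat 574, .ofNat 41376, .ofNat 10745177090271939654317454518881366092808192, .ofNat 0, .ofNat 519647034963199558768768784127359975424, .ofNat 0, .ofNat 0, .ofNat 0, .ofNat 4129013628346537205351176313539697573888,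 .ofNat 0, .ofNat 0, .ofNat 0, .ofNat 30494341655292057471046588418757746491392, .ofNat 0, .ofNat 10003869219358800399326028027903104407044096, .ofNat 0, .ofNat 3079680188531792650368262198140445130752, .ofNat 0⟩)
    (by decide +kernel)
theorem L01892 : Good (Phi V5.P V5.D (-1) (-1)) ⟨3, 5, 2, 1, 2, 0, 3, 3, 5, 11⟩ :=
  leafX_sound T5.ok_mm T5.Ymm.bz_eq (w := 217) (c := ⟨⟨.negSucc 1809, .negSucc 321, .ofNat 1, .ofNat 2, .ofNat 93, .ofNat 87⟩, ⟨.ofNat 473, .ofNat 275, .ofNat 291, .negSucc 3, .negSucc 30, .negSucc 30⟩, ⟨.ofNat 1978, .ofNat 377, .negSucc 37, .negSucc 47, .negSucc 225, .negSucc 71⟩, ⟨.negSucc 3494, .negSucc 61, .negSucc 4, .negSucc 40, .ofNat 163, .ofNat 149⟩, ⟨.negSucc 17, .ofNat 4, .ofNat 5, .negSucc 131, .ofNat 15, .ofNat 3⟩, .ofNat 535, .ofNat 544, .ofNat 0, .ofNat 544, .ofNat 1856, .ofNat 0, .ofNat 139, .negSucc 127, .negSucc 90, .ofNat 0, .ofNat 92, .ofNat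 30, .ofNat 0, .ofNat 0, .ofNat 731, .ofNat 115605, .ofNat 41969914772222301171351332923081191025803264, .ofNat 0, .ofNat 817540667914094419455094635669898657792, .ofNat 0, .ofNat 23619009265127570392498803466699203843981312, .ofNat 0, .ofNat 18200444877849678478172010544500322598912, .ofNat 0, .ofNat 26568371688917802570254664096880874663968768, .ofNat 0, .ofNat 53943084639335677909380918019847255752704, .ofNat 0, .ofNat 50853294302362241687082910133411501238648832, .ofNat 0, .ofNat 3198004878238503488957908445370511261696, .ofNat 0⟩)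
    (by decide +kernel)
theorem L01893 : Good (Phi V5.P V5.D (-1) (-1)) ⟨3, 5, 2, 1, 2, 1, 3, 3, 5, 10⟩ :=
  leafX_sound T5.ok_mm T5.Ymm.bz_eq (w := 215) (c := ⟨⟨.negSucc 1952, .negSucc 336, .ofNat 51, .ofNat 56, .ofNat 120, .ofNat 125⟩, ⟨.ofNat 522, .ofNat 271, .ofNat 304, .negSucc 24, .negSucc 38, .negSucc 40⟩, ⟨.ofNat 2131, .ofNat 304, .negSucc 110, .negSucc 518, .negSucc 286, .negSucc 67⟩, ⟨.negSucc 3798, .negSucc 82, .ofNat 45, .ofNat 15, .ofNat 224, .ofNat 218⟩, ⟨.negSucc 183, .ofNat 14, .ofNat 2, .negSucc 234, .ofNat 55, .ofNat 9⟩, .ofNat 533, .ofNat 539, .ofNat 0, .ofNat 539, .ofNat 1847, .ofNat 0, .ofNat 157, .negSucc 127, .negSucc 108, .ofNat 0, .ofNat 89, .ofNat 39, .ofNat 0, .ofNat 0, .ofNat 773, .ofNat 21193, .ofNat 4730632181507935725153101740524319090409472, .ofNat 0, .ofNat 3969907641559339651851270220282855424, .ofNat 0, .ofNat 0, .ofNat 0, .ofNat 4725041228942664622664408758018904162304,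 .ofNat 0, .ofNat 0, .ofNat 0, .ofNat 20781996528115033698191725625564083519488, .ofNat 0, .ofNat 0, .ofNat 0, .ofNat 0, .ofNat 0⟩)
    (by decide +kernel)
theorem L01894 : Good (Phi V5.P V5.D (-1) (-1)) ⟨3, 5, 2, 1, 2, 1, 4, 6, 5, 11⟩ :=
  leafX_sound T5.ok_mm T5.Ymm.bz_eq (w := 221) (c := ⟨⟨.negSucc 1884, .negSucc 292, .ofNat 51, .ofNat 96, .ofNat 57, .ofNat 126⟩, ⟨.ofNat 512, .ofNat 244, .ofNat 292, .negSucc 39, .negSucc 19, .negSucc 42⟩, ⟨.ofNat 2204, .ofNat 233, .negSucc 170, .negSucc 610, .negSucc 159, .negSucc 81⟩, ⟨.negSucc 3647, .negSucc 35, .ofNat 25, .ofNat 73, .ofNat 107, .ofNat 224⟩, ⟨.negSucc 160, .ofNat 8, .negSucc 13, .negSucc 253, .ofNat 34, .ofNat 27⟩, .ofNat 328, .ofNat 166, .ofNat 0, .ofNat 166, .ofNat 728, .ofNat 0, .ofNat 156, .negSucc 105, .negSucc 101, .ofNat 0, .ofNat 128, .ofNat 37, .ofNat 0, .ofNat 0, .ofNat 879, .ofNat 71218, .ofNat 288302017685038974732288753223832167528792064,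 .ofNat 0, .ofNat 46558118767414524255882643047975548354560, .ofNat 0, .ofNat 224459348153712642437272545613071390506745856, .ofNat 0, .ofNat 286694165413276761257427194505712906534912, .ofNat 0, .ofNat 0, .ofNat 0, .ofNat 519667742198667196065998276950944540262400, .ofNat 0, .ofNat 1225744795357077468307423021818192682788323328, .ofNat 0, .ofNat 747934610020631737998757903252250146373632, .ofNat 0⟩)
    (by decide +kernel)
theorem L01895 : Good (Phi V5.P V5.D (-1) (-1)) ⟨3, 5, 2, 1, 2, 1, 4, 7, 5, 11⟩ :=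
  leafX_sound T5.ok_mm T5.Ymm.bz_eq (w := 219) (c := ⟨⟨.negSucc 1797, .negSucc 302, .ofNat 43, .ofNat 77, .ofNat 51, .ofNat 108⟩, ⟨.ofNat 477, .ofNat 253, .ofNat 282, .negSucc 30, .negSucc 16, .negSucc 36⟩, ⟨.ofNat 1939, .ofNat 267, .negSucc 97, .negSucc 522, .negSucc 135, .negSucc 58⟩, ⟨.negSucc 3505, .negSucc 52, .ofNat 40, .ofNat 66, .ofNat 98, .ofNat 189⟩, ⟨.negSucc 160, .ofNat 2, .ofNat 17, .negSucc 189, .ofNat 30, .ofNat 11⟩, .ofNat 536, .ofNat 548, .ofNat 0, .ofNat 548, .ofNat 1883, .ofNat 0, .ofNat 202, .negSucc 127, .negSucc 176, .ofNat 0, .ofNat 89, .ofNat 61, .ofNat 0, .ofNat 0, .ofNat 1582, .ofNat 28674, .ofNat 101874313514873162645824643870442829603930112, .ofNat 0, .ofNat 22709185648807126372078256911109171707904, .ofNat 0, .ofNat 0, .ofNat 0, .ofNat 0, .ofNat 0, .ofNat 0, .ofNat 0, .ofNat 459742651879029860762893030383395568353280, .ofNat 0, .ofNat 0, .ofNat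 0, .ofNat 0, .ofNat 0⟩)
    (by decide +kernel)
theorem L01896 : Good (Phi V5.P V5.D (-1) (-1)) ⟨2, 2, 2, 1, 1, 0, 2, 0, 3, 3⟩ :=
  out_sound (S := T5.ds_mm) T5.ok_mm (w := 20) (j := 1) (by decide +kernel)
theorem L01897 : Good (Phi V5.P V5.D (-1) (-1)) ⟨2, 2, 2, 1, 1, 0, 2, 1, 4, 6⟩ :=
  leafX_sound T5.ok_mm T5.Ymm.bz_eq (w := 189) (c := ⟨⟨.negSucc 1778, .negSucc 512, .ofNat 22, .ofNat 248, .ofNat 207, .ofNat 215⟩, ⟨.ofNat 346, .ofNat 446, .ofNat 282, .negSucc 92, .negSucc 64, .negSucc 73⟩, ⟨.ofNat 3084, .ofNat 330, .negSucc 51, .negSucc 1386, .negSucc 623, .negSucc 205⟩, ⟨.negSucc 3877, .negSucc 11, .ofNat 1, .ofNat 314, .ofNat 417, .ofNat 387⟩, ⟨.negSucc 174, .ofNat 6, .negSucc 14, .negSucc 312, .ofNat 195, .ofNat 56⟩, .ofNat 534, .ofNat 542, .ofNat 0, .ofNat 542, .ofNat 1843, .ofNat 0, .ofNat 128, .negSucc 200, .negSucc 136, .ofNat 0, .ofNat 141, .ofNat 46, .ofNat 0, .ofNat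 0, .ofNat 1752, .ofNat 31542, .ofNat 6816179252081484033519198802865553408, .ofNat 0, .ofNat 1781038988398501081394604914245632, .ofNat 0, .ofNat 10573057737161768079903049786572406784, .ofNat 0, .ofNat 13323249782948399364569543573766144, .ofNat 0, .ofNat 7382063773309902524279627081435840512, .ofNat 0, .ofNat 59530058424928642070617824283328512, .ofNat 0, .ofNat 138016490534931760641356646258839650304, .ofNat 0, .ofNat 0, .ofNat 0⟩)
    (by decide +kernel)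
theorem L01898 : Good (Phi V5.P V5.D (-1) (-1)) ⟨2, 2, 2, 1, 1, 0, 2, 1, 4, 7⟩ :=
  out_sound (S := T5.ds_mm) T5.ok_mm (w := 22) (j := 1) (by decide +kernel)
theorem L01899 : Good (Phi V5.P V5.D (-1) (-1)) ⟨4, 12, 2, 1, 2, 0, 3, 0, 5, 0⟩ :=
  leafX_sound T5.ok_mm T5.Ymm.bz_eq (w := 215) (c := ⟨⟨.ofNat 1617, .ofNat 163, .ofNat 152, .ofNat 198, .ofNat 366, .negSucc 2086⟩, ⟨.negSucc 628, .negSucc 134, .negSucc 162, .negSucc 129, .negSucc 138, .ofNat 902⟩, ⟨.negSucc 1587, .negSucc 127, .negSucc 228, .negSucc 152, .negSucc 459, .ofNat 2043⟩, ⟨.ofNat 2716, .ofNat 125, .ofNat 175, .negSucc 73, .ofNat 627, .negSucc 3401⟩, ⟨.ofNat 48, .negSucc 30, .ofNat 21, .negSucc 910, .ofNat 65, .negSucc 4⟩, .ofNat 340, .ofNat 209, .ofNat 0, .ofNat 209, .ofNat 696, .ofNat 0, .ofNat 160, .negSucc 115, .negSucc 489, .ofNat 0, .ofNat 128, .ofNat 180, .ofNat 0, .ofNat 0, .ofNat 696, .ofNat 2824, .ofNat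 0, .ofNat 0, .ofNat 6649054318805635824038415729560649728, .ofNat 0, .ofNat 0, .ofNat 0, .ofNat 0, .ofNat 0, .ofNat 0, .ofNat 0, .ofNat 671588297022862385012715228963973103616, .ofNat 0, .ofNat 0, .ofNat 0, .ofNat 0, .ofNat 0⟩)
    (by decide +kernel)
theorem L01900 : Good (Phi V5.P V5.D (-1) (-1)) ⟨4, 13, 2, 1, 2, 0, 3, 0, 5, 0⟩ :=
  leafX_sound T5.ok_mm T5.Ymm.bz_eq (w := 215) (c := ⟨⟨.ofNat 1945, .ofNat 437, .negSucc 110, .ofNat 435, .ofNat 605, .negSucc 2395⟩, ⟨.negSucc 914, .negSucc 360, .negSucc 6, .negSucc 277, .negSucc 322, .ofNat 1254⟩, ⟨.negSucc 1849, .negSucc 322, .negSucc 70, .negSucc 319, .negSucc 641, .ofNat 2327⟩, ⟨.ofNat 2988, .ofNat 362, .negSucc 50, .ofNat 121, .ofNat 930, .negSucc 3676⟩, ⟨.ofNat 8, .negSucc 107, .ofNat 102, .negSucc 993, .ofNat 12, .ofNat 4⟩, .ofNat 348, .ofNat 229, .ofNat 0, .ofNat 229, .ofNat 634, .ofNat 0, .ofNat 128, .negSucc 121, .negSucc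 535, .ofNat 0, .ofNat 132, .ofNat 235, .ofNat 0, .ofNat 0, .ofNat 728, .ofNat 3015, .ofNat 0, .ofNat 0, .ofNat 0, .ofNat 0, .ofNat 0, .ofNat 0, .ofNat 155659412559244119469898639627150950400, .ofNat 0, .ofNat 0, .ofNat 0, .ofNat 1797783098723924386406667749303030644736, .ofNat 0, .ofNat 0, .ofNat 0, .ofNat 5766849410561828641050690113649613209600, .ofNat 0⟩)
    (by decide +kernel)
theorem L01901 : Good (Phi V5.P V5.D (-1) (-1)) ⟨3, 6, 2, 1, 2, 0, 3, 0, 5, 1⟩ :=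
  leafX_sound T5.ok_mm T5.Ymm.bz_eq (w := 211) (c := ⟨⟨.negSucc 246, .negSucc 398, .ofNat 181, .ofNat 319, .negSucc 122, .negSucc 1492⟩, ⟨.ofNat 11, .ofNat 316, .ofNat 19, .negSucc 206, .ofNat 75, .ofNat 693⟩, ⟨.ofNat 373, .ofNat 378, .negSucc 203, .negSucc 548, .ofNat 34, .ofNat 1510⟩, ⟨.negSucc 418, .negSucc 375, .ofNat 174, .ofNat 115, .negSucc 115, .negSucc 2368⟩, ⟨.ofNat 36, .negSucc 88, .negSucc 12, .negSucc 774, .ofNat 84, .ofNat 40⟩, .ofNat 334, .ofNat 197, .ofNat 0, .ofNat 197, .ofNat 645, .ofNat 0, .ofNat 128, .negSucc 126, .negSucc 315, .ofNat 0, .ofNat 147, .ofNat 121, .ofNat 0, .ofNat 0, .ofNat 495, .ofNat 3729, .ofNat 0, .ofNat 0, .ofNat 0, .ofNat 0, .ofNat 0, .ofNat 0, .ofNat 0, .ofNat 0, .ofNat 0, .ofNat 0, .ofNat 4929844188512401607097459318416339894272, .ofNat 0, .ofNat 0, .ofNat 0, .ofNat 0, .ofNat 0⟩)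
    (by decide +kernel)
theorem L01902 : Good (Phi V5.P V5.D (-1) (-1)) ⟨4, 12, 2, 1, 2, 1, 4, 0, 4, 0⟩ :=
  leafX_sound T5.ok_mm T5.Ymm.bz_eq (w := 213) (c := ⟨⟨.ofNat 1632, .ofNat 203, .ofNat 358, .ofNat 1227, .ofNat 186, .negSucc 3602⟩, ⟨.negSucc 719, .negSucc 245, .negSucc 62, .negSucc 595, .negSucc 88, .ofNat 1581⟩, ⟨.negSucc 1261, .negSucc 227, .negSucc 341, .negSucc 478, .negSucc 238, .ofNat 2641⟩, ⟨.ofNat 2418, .ofNat 162, .ofNat 239, .ofNat 1252, .ofNat 320, .negSucc 5783⟩, ⟨.negSucc 963, .negSucc 75, .ofNat 53, .negSucc 1890, .ofNat 78, .ofNat 313⟩, .ofNat 340, .ofNat 209, .ofNat 0, .ofNat 209, .ofNat 696, .ofNat 0, .ofNat 128, .negSucc 128, .negSucc 132, .ofNat 0, .ofNat 108, .ofNat 55, .ofNat 0, .ofNat 0, .ofNat 202, .ofNat 1834, .ofNat 0, .ofNat 0, .ofNat 9305372393923893783399839769129123840, .ofNat 0, .ofNat 0, .ofNat 0, .ofNat 0, .ofNat 0, .ofNat 0, .ofNat 0,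 .ofNat 56576418629395625574495314939656273920, .ofNat 0, .ofNat 0, .ofNat 0, .ofNat 0, .ofNat 0⟩)
    (by decide +kernel)
theorem L01903 : Good (Phi V5.P V5.D (-1) (-1)) ⟨4, 13, 2, 1, 2, 1, 4, 0, 4, 0⟩ :=
  leafX_sound T5.ok_mm T5.Ymm.bz_eq (w := 214) (c := ⟨⟨.ofNat 1954, .ofNat 647, .ofNat 246, .ofNat 2056, .ofNat 173, .negSucc 4375⟩, ⟨.negSucc 1100, .negSucc 620, .negSucc 4, .negSucc 1171, .negSucc 73, .ofNat 2321⟩, ⟨.negSucc 1954, .negSucc 851, .ofNat 246, .negSucc 608, .negSucc 87, .ofNat 2964⟩, ⟨.ofNat 2597, .ofNat 492, .ofNat 278, .ofNat 1970, .ofNat 373, .negSucc 6467⟩, ⟨.negSucc 1162, .negSucc 375, .ofNat 229, .negSucc 2222, .ofNat 191, .ofNat 348⟩, .ofNat 532, .ofNat 469, .ofNat 0, .ofNat 469, .ofNat 1096, .ofNat 0, .ofNat 128, .negSucc 309, .negSucc 245, .ofNat 0, .ofNat 239, .ofNat 127, .ofNat 0, .ofNat 0, .ofNat 370, .ofNat 3293, .ofNat 0, .ofNat 0, .ofNat 16857909061075901702540800917665480704,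 .ofNat 0, .ofNat 0, .ofNat 0, .ofNat 147404961452593834372126707735762829312, .ofNat 0, .ofNat 0, .ofNat 0, .ofNat 3096028957074136917192079534660356407296, .ofNat 0, .ofNat 0, .ofNat 0, .ofNat 169960734528384969163579129134948810752, .ofNat 0⟩)
    (by decide +kernel)
theorem L01904 : Good (Phi V5.P V5.D (-1) (-1)) ⟨3, 6, 2, 1, 2, 1, 4, 1, 4, 0⟩ :=
  leafX_sound T5.ok_mm T5.Ymm.bz_eq (w := 209) (c := ⟨⟨.ofNat 1692, .ofNat 652, .ofNat 760, .ofNat 1651, .negSucc 43, .negSucc 3909⟩, ⟨.negSucc 651, .negSucc 678, .negSucc 460, .negSucc 880, .ofNat 38, .ofNat 1870⟩, ⟨.negSucc 1487, .negSucc 1037, .negSucc 125, .negSucc 274, .negSucc 177, .ofNat 2758⟩, ⟨.ofNat 2711, .ofNat 631, .ofNat 558, .ofNat 1741, .ofNat 107, .negSucc 6321⟩, ⟨.negSucc 799, .negSucc 238, .negSucc 156, .negSucc 1811, .ofNat 295, .ofNat 89⟩, .ofNat 334, .ofNat 199, .ofNat 0, .ofNat 199, .ofNat 623, .ofNat 0, .ofNat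 128, .negSucc 173, .negSucc 253, .ofNat 0, .ofNat 156, .ofNat 112, .ofNat 0, .ofNat 0, .ofNat 330, .ofNat 1004, .ofNat 0, .ofNat 0, .ofNat 0, .ofNat 0, .ofNat 0, .ofNat 0, .ofNat 106080780579328172850925154211895181312, .ofNat 0, .ofNat 0, .ofNat 0, .ofNat 1867630606412419864861460768160017809408, .ofNat 0, .ofNat 0, .ofNat 0, .ofNat 0, .ofNat 0⟩)
    (by decide +kernel)
theorem L01905 : Good (Phi V5.P V5.D (-1) (-1)) ⟨4, 12, 2, 1, 1, 0, 3, 1, 4, 0⟩ :=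
  leafX_sound T5.ok_mm T5.Ymm.bz_eq (w := 195) (c := ⟨⟨.ofNat 1788, .ofNat 224, .ofNat 373, .ofNat 1288, .negSucc 13, .negSucc 4134⟩, ⟨.negSucc 721, .negSucc 258, .negSucc 116, .negSucc 637, .negSucc 23, .ofNat 1826⟩, ⟨.negSucc 1742, .negSucc 422, .negSucc 116, .negSucc 689, .ofNat 34, .ofNat 3584⟩, ⟨.ofNat 3068, .ofNat 280, .ofNat 576, .ofNat 1103, .ofNat 49, .negSucc 6872⟩, ⟨.ofNat 126, .negSucc 93, .negSucc 1, .negSucc 2249, .ofNat 250, .ofNat 50⟩, .ofNat 340, .ofNat 209, .ofNat 0, .ofNat 209, .ofNat 696, .ofNat 0, .ofNat 128, .negSucc 139, .negSucc 452, .ofNat 0, .ofNat 142, .ofNat 174, .ofNat 0, .ofNat 0, .ofNat 588, .ofNat 437, .ofNat 0, .ofNat 0, .ofNat 0, .ofNat 0, .ofNat 0, .ofNat 0, .ofNat 189621680402036524771753687252992, .ofNat 0, .ofNat 0, .ofNat 0, .ofNat 844915609887294825524115565182976, .ofNat 0, .ofNat 0, .ofNat 0, .ofNat 0, .ofNat 0⟩)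
    (by decide +kernel)
theorem L01906 : Good (Phi V5.P V5.D (-1) (-1)) ⟨4, 13, 2, 1, 1, 0, 3, 1, 4, 0⟩ :=
  leafX_sound T5.ok_mm T5.Ymm.bz_eq (w := 196) (c := ⟨⟨.ofNat 1867, .ofNat 74, .ofNat 491, .ofNat 2257, .ofNat 29, .negSucc 4825⟩, ⟨.negSucc 894, .negSucc 124, .negSucc 358, .negSucc 1285, .ofNat 9, .ofNat 2573⟩, ⟨.negSucc 2264, .negSucc 497, .ofNat 274, .negSucc 793, .negSucc 373, .ofNat 3957⟩, ⟨.ofNat 3133, .ofNat 82, .ofNat 442, .ofNat 2025, .ofNat 200, .negSucc 7319⟩, ⟨.ofNat 239, .negSucc 24, .negSucc 147, .negSucc 2673, .ofNat 240, .ofNat 149⟩, .ofNat 532, .ofNat 469, .ofNat 0, .ofNat 469, .ofNat 1096, .ofNat 0, .ofNat 128, .negSucc 189, .negSucc 389, .ofNat 0, .ofNat 167, .ofNat 192, .ofNat 0, .ofNat 0, .ofNat 513, .ofNat 369, .ofNat 0, .ofNat 0, .ofNat 142854518468243299060341970829312, .ofNat 0, .ofNat 0, .ofNat 0, .ofNat 419255633580311192103159697768448, .ofNat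 0, .ofNat 0, .ofNat 0, .ofNat 6061892404110295731199064154308608, .ofNat 0, .ofNat 0, .ofNat 0, .ofNat 3458406172812692417757573692784640, .ofNat 0⟩)
    (by decide +kernel)
theorem L01907 : Good (Phi V5.P V5.D (-1) (-1)) ⟨3, 6, 2, 1, 1, 0, 3, 0, 4, 1⟩ :=
  leafX_sound T5.ok_mm T5.Ymm.bz_eq (w := 190) (c := ⟨⟨.negSucc 1325, .negSucc 390, .negSucc 79, .ofNat 84, .negSucc 42, .negSucc 1712⟩, ⟨.ofNat 321, .ofNat 312, .ofNat 442, .negSucc 117, .ofNat 27, .ofNat 853⟩, ⟨.ofNat 1657, .ofNat 508, .negSucc 127, .negSucc 1259, .ofNat 39, .ofNat 1683⟩, ⟨.negSucc 2251, .negSucc 165, .negSucc 232, .negSucc 630, .ofNat 42, .negSucc 2601⟩, ⟨.negSucc 133, .negSucc 507, .ofNat 326, .negSucc 1680, .ofNat 199, .ofNat 415⟩, .ofNat 334, .ofNat 199, .ofNat 0, .ofNat 199, .ofNat 623, .ofNat 0, .ofNat 129, .negSucc 118, .negSucc 128, .ofNat 0, .ofNat 128, .ofNat 58, .ofNat 0, .ofNat 0, .ofNat 237,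 .ofNat 549, .ofNat 23721081519431919956404179942049316864, .ofNat 0, .ofNat 118917790713026615599194064289792, .ofNat 0, .ofNat 0, .ofNat 0, .ofNat 0, .ofNat 0, .ofNat 16318766764382613889800238441925967872, .ofNat 0, .ofNat 2872006531370081127748802392883200, .ofNat 0, .ofNat 29723839648613396261367818312501690368, .ofNat 0, .ofNat 28519986578401191450807367630848, .ofNat 0⟩)
    (by decide +kernel)
theorem L01908 : Good (Phi V5.P V5.D (-1) (-1)) ⟨3, 6, 2, 1, 1, 0, 3, 1, 4, 1⟩ :=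
  leafX_sound T5.ok_mm T5.Ymm.bz_eq (w := 190) (c := ⟨⟨.negSucc 1629, .negSucc 606, .negSucc 44, .negSucc 169, .negSucc 76, .negSucc 1163⟩, ⟨.ofNat 470, .ofNat 418, .ofNat 467, .ofNat 7, .ofNat 60, .ofNat 545⟩, ⟨.ofNat 1839, .ofNat 506, .ofNat 16, .negSucc 1044, .ofNat 54, .ofNat 1283⟩, ⟨.negSucc 2693, .negSucc 553, .ofNat 10, .negSucc 823, .negSucc 96, .negSucc 1809⟩, ⟨.ofNat 5, .negSucc 18, .ofNat 31, .negSucc 1164, .ofNat 34, .ofNat 178⟩, .ofNat 335, .ofNat 201, .ofNat 0, .ofNat 201, .ofNat 644, .ofNat 0, .ofNat 128, .negSucc 139, .negSucc 174, .ofNat 0, .ofNat 149, .ofNat 73, .ofNat 0, .ofNat 0, .ofNat 296, .ofNat 360, .ofNat 0, .ofNat 0, .ofNat 0, .ofNat 0, .ofNat 0, .ofNat 0, .ofNat 0, .ofNat 0, .ofNat 0, .ofNat 0, .ofNat 3368159193358361743976980155465728, .ofNat 0, .ofNat 0, .ofNat 0, .ofNat 641702011297696264164528801972224, .ofNat 0⟩)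
    (by decide +kernel)
theorem L01909 : Good (Phi V5.P V5.D (-1) (-1)) ⟨3, 7, 2, 1, 1, 0, 2, 0, 3, 0⟩ :=
  out_sound (S := T5.ds_mm) T5.ok_mm (w := 43) (j := 3) (by decide +kernel)
theorem L01910 : Good (Phi V5.P V5.D (-1) (-1)) ⟨4, 12, 2, 1, 2, 0, 2, 1, 4, 0⟩ :=
  leafX_sound T5.ok_mm T5.Ymm.bz_eq (w := 206) (c := ⟨⟨.ofNat 2560, .ofNat 122, .ofNat 18, .negSucc 364, .negSucc 906, .negSucc 4450⟩, ⟨.negSucc 1060, .negSucc 100, .ofNat 47, .ofNat 114, .ofNat 357, .ofNat 1867⟩, ⟨.negSucc 2587, .negSucc 230, .ofNat 114, .ofNat 186, .ofNat 842, .ofNat 4417⟩, ⟨.ofNat 4194, .ofNat 216, .negSucc 300, .negSucc 604, .negSucc 1570, .negSucc 7179⟩, ⟨.ofNat 252, .ofNat 119, .negSucc 786, .negSucc 244, .negSucc 225, .negSucc 30⟩, .ofNat 543, .ofNat 529, .ofNat 0, .ofNat 529, .ofNat 1477, .ofNat 0, .ofNat 128, .negSucc 174, .negSucc 576, .ofNat 0, .ofNat 139, .ofNat 229, .ofNat 0, .ofNat 0,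 .ofNat 790, .ofNat 266, .ofNat 0, .ofNat 0, .ofNat 0, .ofNat 0, .ofNat 0, .ofNat 0, .ofNat 0, .ofNat 0, .ofNat 0, .ofNat 0, .ofNat 1460836750044761504584249500701294592, .ofNat 0, .ofNat 0, .ofNat 0, .ofNat 0, .ofNat 0⟩)
    (by decide +kernel)
theorem L01911 : Good (Phi V5.P V5.D (-1) (-1)) ⟨4, 12, 2, 1, 2, 1, 2, 1, 4, 0⟩ :=
  leafX_sound T5.ok_mm T5.Ymm.bz_eq (w := 206) (c := ⟨⟨.ofNat 1997, .ofNat 339, .ofNat 563, .ofNat 1375, .negSucc 958, .negSucc 4448⟩, ⟨.negSucc 847, .negSucc 363, .negSucc 193, .negSucc 692, .ofNat 483, .ofNat 2003⟩, ⟨.negSucc 1897, .negSucc 325, .negSucc 241, .negSucc 784, .ofNat 566, .ofNat 3561⟩, ⟨.ofNat 3010, .ofNat 297, .ofNat 807, .ofNat 1676, .negSucc 1330, .negSucc 6984⟩, ⟨.negSucc 851, .negSucc 102, .ofNat 248, .negSucc 1031, .ofNat 457, .ofNat 202⟩, .ofNat 558, .ofNat 558, .ofNat 0, .ofNat 558, .ofNat 1514, .ofNat 0, .ofNat 128, .negSucc 268,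 .negSucc 485, .ofNat 0, .ofNat 190, .ofNat 205, .ofNat 0, .ofNat 0, .ofNat 619, .ofNat 423, .ofNat 0, .ofNat 0, .ofNat 0, .ofNat 0, .ofNat 0, .ofNat 0, .ofNat 629431219002515881578184531437944832, .ofNat 0, .ofNat 0, .ofNat 0, .ofNat 0, .ofNat 0, .ofNat 0, .ofNat 0, .ofNat 1231230154790058897396992074116497408, .ofNat 0⟩)
    (by decide +kernel)
theorem L01912 : Good (Phi V5.P V5.D (-1) (-1)) ⟨4, 13, 2, 1, 2, 0, 2, 1, 4, 0⟩ :=
  leafX_sound T5.ok_mm T5.Ymm.bz_eq (w := 207) (c := ⟨⟨.ofNat 2375, .negSucc 5, .ofNat 1170, .negSucc 305, .negSucc 937, .negSucc 6041⟩, ⟨.negSucc 1300, .negSucc 119, .negSucc 538, .ofNat 155, .ofNat 497, .ofNat 3222⟩, ⟨.negSucc 2436, .negSucc 3, .negSucc 1196, .ofNat 175, .ofNat 870, .ofNat 6049⟩, ⟨.ofNat 3589, .negSucc 12, .ofNat 1870, .negSucc 802, .negSucc 1471, .negSucc 9151⟩, ⟨.negSucc 77, .ofNat 162, .ofNat 272, .negSucc 693, .negSucc 24, .negSucc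 152⟩, .ofNat 744, .ofNat 806, .ofNat 0, .ofNat 806, .ofNat 1713, .ofNat 0, .ofNat 128, .negSucc 217, .negSucc 725, .ofNat 0, .ofNat 183, .ofNat 360, .ofNat 0, .ofNat 0, .ofNat 921, .ofNat 305, .ofNat 0, .ofNat 0, .ofNat 194715822153259996395935707409940480, .ofNat 0, .ofNat 0, .ofNat 0, .ofNat 2443821254810187951613877239072948224, .ofNat 0, .ofNat 0, .ofNat 0, .ofNat 6535790674157540433291029192552480768, .ofNat 0, .ofNat 0, .ofNat 0, .ofNat 14497385261982596778816590959161114624, .ofNat 0⟩)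
    (by decide +kernel)
theorem L01913 : Good (Phi V5.P V5.D (-1) (-1)) ⟨4, 13, 2, 1, 3, 2, 2, 1, 4, 0⟩ :=
  leafX_sound T5.ok_mm T5.Ymm.bz_eq (w := 221) (c := ⟨⟨.ofNat 3458, .ofNat 574, .negSucc 142, .ofNat 587, .negSucc 1142, .negSucc 6024⟩, ⟨.negSucc 1836, .negSucc 415, .ofNat 103, .negSucc 304, .ofNat 576, .ofNat 3179⟩, ⟨.negSucc 3089, .negSucc 464, .negSucc 170, .negSucc 413, .ofNat 839, .ofNat 5373⟩, ⟨.ofNat 4962, .ofNat 965, .negSucc 512, .ofNat 648, .negSucc 1563, .negSucc 8865⟩, ⟨.negSucc 690, .ofNat 368, .negSucc 331, .negSucc 516, .ofNat 354, .ofNat 348⟩, .ofNat 744, .ofNat 806, .ofNat 0, .ofNat 806, .ofNat 1713, .ofNat 0, .ofNat 128, .negSucc 216, .negSucc 623, .ofNat 0, .ofNat 170, .ofNat 317, .ofNat 0, .ofNat 0, .ofNat 738, .ofNat 387, .ofNat 0, .ofNat 0, .ofNat 0, .ofNat 0, .ofNat 0, .ofNat 0, .ofNat 14396307282745233947394641831368501231616, .ofNat 0, .ofNat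 0, .ofNat 0, .ofNat 112350217771495819699571545335963339194368, .ofNat 0, .ofNat 0, .ofNat 0, .ofNat 171334124467903674124541374203923842203648, .ofNat 0⟩)
    (by decide +kernel)
theorem L01914 : Good (Phi V5.P V5.D (-1) (-1)) ⟨4, 13, 2, 1, 3, 3, 2, 1, 4, 0⟩ :=
  leafX_sound T5.ok_mm T5.Ymm.bz_eq (w := 221) (c := ⟨⟨.ofNat 3547, .ofNat 725, .ofNat 528, .ofNat 940, .negSucc 1227, .negSucc 5831⟩, ⟨.negSucc 1940, .negSucc 656, .negSucc 223, .negSucc 482, .ofNat 701, .ofNat 3116⟩, ⟨.negSucc 3120, .negSucc 939, .negSucc 36, .negSucc 536, .ofNat 661, .ofNat 4516⟩, ⟨.ofNat 4748, .ofNat 738, .ofNat 607, .ofNat 1117, .negSucc 1494, .negSucc 8567⟩, ⟨.negSucc 1615, .negSucc 193, .ofNat 132, .negSucc 654, .ofNat 672, .ofNat 375⟩, .ofNat 532, .ofNat 469, .ofNat 0, .ofNat 469, .ofNat 1096, .ofNat 0, .ofNat 128, .negSucc 221, .negSucc 579, .ofNat 0, .ofNat 175, .ofNat 291, .ofNat 0, .ofNat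 0, .ofNat 621, .ofNat 451, .ofNat 0, .ofNat 0, .ofNat 0, .ofNat 0, .ofNat 0, .ofNat 0, .ofNat 7435015104742893664425290423500789514240, .ofNat 0, .ofNat 0, .ofNat 0, .ofNat 88654111329241743571956963576241031479296, .ofNat 0, .ofNat 0, .ofNat 0, .ofNat 131350891071658447089368015183528851406848, .ofNat 0⟩)
    (by decide +kernel)
theorem L01915 : Good (Phi V5.P V5.D (-1) (-1)) ⟨3, 7, 2, 1, 1, 0, 2, 1, 4, 0⟩ :=
  out_sound (S := T5.ds_mm) T5.ok_mm (w := 43) (j := 3) (by decide +kernel)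
theorem L01916 : Good (Phi V5.P V5.D (-1) (-1)) ⟨3, 6, 2, 1, 1, 0, 2, 1, 4, 1⟩ :=
  leafX_sound T5.ok_mm T5.Ymm.bz_eq (w := 186) (c := ⟨⟨.negSucc 1626, .negSucc 1030, .negSucc 4, .negSucc 296, .negSucc 224, .negSucc 1047⟩, ⟨.ofNat 474, .ofNat 620, .ofNat 480, .ofNat 80, .ofNat 108, .ofNat 475⟩, ⟨.ofNat 1770, .ofNat 1051, .negSucc 121, .negSucc 870, .ofNat 225, .ofNat 1118⟩, ⟨.negSucc 2730, .negSucc 1076, .ofNat 23, .negSucc 820, .negSucc 286, .negSucc 1697⟩, ⟨.negSucc 183, .ofNat 373, .negSucc 139, .negSucc 911, .ofNat 251, .ofNat 228⟩, .ofNat 335, .ofNat 199, .ofNat 0, .ofNat 199, .ofNat 645, .ofNat 0, .ofNat 128, .negSucc 138, .negSucc 229, .ofNat 0, .ofNat 147, .ofNat 96, .ofNat 0, .ofNat 0, .ofNat 349, .ofNat 220, .ofNat 0, .ofNat 0, .ofNat 5119138215611908678249187639296, .ofNat 0, .ofNat 0, .ofNat 0, .ofNat 10169184988556558248449776025600, .ofNat 0, .ofNat 0, .ofNat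 0, .ofNat 175012371789410801411012308238336, .ofNat 0, .ofNat 0, .ofNat 0, .ofNat 141849797036941643920178008817664, .ofNat 0⟩)
    (by decide +kernel)
theorem L01917 : Good (Phi V5.P V5.D (-1) (-1)) ⟨3, 7, 2, 1, 1, 0, 2, 1, 4, 1⟩ :=
  out_sound (S := T5.ds_mm) T5.ok_mm (w := 43) (j := 3) (by decide +kernel)
theorem L01918 : Good (Phi V5.P V5.D (-1) (-1)) ⟨4, 12, 2, 1, 1, 0, 2, 0, 4, 2⟩ :=
  leafX_sound T5.ok_mm T5.Ymm.bz_eq (w := 192) (c := ⟨⟨.negSucc 2590, .negSucc 407, .ofNat 134, .negSucc 621, .negSucc 94, .negSucc 1⟩, ⟨.ofNat 869, .ofNat 295, .ofNat 430, .ofNat 235, .ofNat 39, .ofNat 7⟩, ⟨.ofNat 2919, .ofNat 448, .negSucc 351, .negSucc 612, .negSucc 5, .ofNat 282⟩, ⟨.negSucc 4339, .negSucc 255, .ofNat 65, .negSucc 1358, .negSucc 58, .ofNat 67⟩, ⟨.negSucc 127, .ofNat 138, .negSucc 224, .negSucc 795, .ofNat 214, .ofNat 172⟩, .ofNat 329, .ofNat 184, .ofNat 0, .ofNat 184,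 .ofNat 654, .ofNat 0, .ofNat 175, .negSucc 114, .negSucc 142, .ofNat 0, .ofNat 128, .ofNat 59, .ofNat 0, .ofNat 0, .ofNat 360, .ofNat 2355, .ofNat 0, .ofNat 0, .ofNat 0, .ofNat 0, .ofNat 0, .ofNat 0, .ofNat 0, .ofNat 0, .ofNat 0, .ofNat 0, .ofNat 0, .ofNat 0, .ofNat 22886919232443156286056950749770809344, .ofNat 0, .ofNat 75070045382673481773444847632384, .ofNat 0⟩)
    (by decide +kernel)
theorem L01919 : Good (Phi V5.P V5.D (-1) (-1)) ⟨4, 12, 2, 1, 1, 0, 2, 1, 4, 2⟩ :=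
  leafX_sound T5.ok_mm T5.Ymm.bz_eq (w := 192) (c := ⟨⟨.negSucc 2740, .negSucc 490, .ofNat 108, .negSucc 632, .ofNat 210, .ofNat 172⟩, ⟨.ofNat 951, .ofNat 331, .ofNat 398, .ofNat 242, .negSucc 82, .negSucc 74⟩, ⟨.ofNat 2850, .ofNat 444, .negSucc 193, .negSucc 401, .negSucc 256, .ofNat 56⟩, ⟨.negSucc 4553, .negSucc 430, .ofNat 98, .negSucc 1234, .ofNat 363, .ofNat 317⟩, ⟨.ofNat 23, .ofNat 0, .negSucc 109, .negSucc 552, .ofNat 64, .ofNat 102⟩, .ofNat 537, .ofNat 516, .ofNat 0, .ofNat 516, .ofNat 1463, .ofNat 0, .ofNat 128, .negSucc 161, .negSucc 173, .ofNat 0, .ofNat 124, .ofNat 73, .ofNat 0, .ofNat 0, .ofNat 416, .ofNat 992, .ofNat 0, .ofNat 0, .ofNat 0, .ofNat 0, .ofNat 0, .ofNat 0, .ofNat 0, .ofNat 0, .ofNat 0, .ofNat 0, .ofNat 89402896963864869577970340069376, .ofNat 0, .ofNat 0, .ofNat 0, .ofNat 0, .ofNat 0⟩)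
    (by decide +kernel)
theorem L01920 : Good (Phi V5.P V5.D (-1) (-1)) ⟨4, 13, 2, 1, 2, 0, 1, 0, 4, 2⟩ :=
  leafX_sound T5.ok_mm T5.Ymm.bz_eq (w := 202) (c := ⟨⟨.negSucc 3108, .negSucc 448, .ofNat 81, .negSucc 363, .ofNat 196, .ofNat 117⟩, ⟨.ofNat 1248, .ofNat 373, .ofNat 364, .ofNat 183, .negSucc 96, .negSucc 59⟩, ⟨.ofNat 3369, .ofNat 479, .negSucc 115, .ofNat 22, .negSucc 466, .negSucc 1⟩, ⟨.negSucc 4802, .negSucc 306, .ofNat 109, .negSucc 609, .ofNat 329, .ofNat 188⟩, ⟨.ofNat 2, .ofNat 42, .negSucc 34, .negSucc 120, .ofNat 63, .ofNat 14⟩, .ofNat 532, .ofNat 469, .ofNat 0, .ofNat 469, .ofNat 1096, .ofNat 0, .ofNat 128, .negSucc 165, .negSucc 201, .ofNat 0, .ofNat 156, .ofNat 100, .ofNat 0, .ofNat 0, .ofNat 512, .ofNat 2061, .ofNat 0, .ofNat 0, .ofNat 0, .ofNat 0, .ofNat 0, .ofNat 0, .ofNat 89531835273765359132449746951602176, .ofNat 0, .ofNat 0, .ofNat 0, .ofNat 597469318411784695011354277994037248,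 .ofNat 0, .ofNat 0, .ofNat 0, .ofNat 0, .ofNat 0⟩)
    (by decide +kernel)
theorem L01921 : Good (Phi V5.P V5.D (-1) (-1)) ⟨4, 13, 2, 1, 2, 1, 1, 0, 4, 2⟩ :=
  leafX_sound T5.ok_mm T5.Ymm.bz_eq (w := 202) (c := ⟨⟨.negSucc 3386, .negSucc 680, .ofNat 191, .negSucc 439, .ofNat 108, .ofNat 88⟩, ⟨.ofNat 1287, .ofNat 502, .ofNat 410, .ofNat 210, .negSucc 40, .negSucc 37⟩, ⟨.ofNat 3124, .ofNat 734, .negSucc 345, .negSucc 357, .negSucc 128, .ofNat 161⟩, ⟨.negSucc 5387, .negSucc 553, .ofNat 193, .negSucc 926, .ofNat 339, .ofNat 240⟩, ⟨.negSucc 420, .ofNat 195, .negSucc 82, .negSucc 507, .ofNat 366, .ofNat 209⟩, .ofNat 532, .ofNat 469, .ofNat 0, .ofNat 469, .ofNat 1096, .ofNat 0, .ofNat 128, .negSucc 228, .negSucc 250, .ofNat 0, .ofNat 192, .ofNat 135, .ofNat 0, .ofNat 0, .ofNat 514, .ofNat 1384, .ofNat 3906561683071337841836797125662066343936, .ofNat 0, .ofNat 3157353573450884804499653426937856,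 .ofNat 0, .ofNat 0, .ofNat 0, .ofNat 131841622865657704577984196050419712, .ofNat 0, .ofNat 0, .ofNat 0, .ofNat 677270988914873647621890605947289600, .ofNat 0, .ofNat 14011805716655587744563877613504387088384, .ofNat 0, .ofNat 63748842171841336675287285509390336, .ofNat 0⟩)
    (by decide +kernel)
theorem L01922 : Good (Phi V5.P V5.D (-1) (-1)) ⟨3, 6, 2, 1, 1, 0, 1, 0, 4, 3⟩ :=
  leafX_sound T5.ok_mm T5.Ymm.bz_eq (w := 184) (c := ⟨⟨.negSucc 2976, .negSucc 716, .ofNat 90, .negSucc 392, .ofNat 414, .ofNat 368⟩, ⟨.ofNat 1084, .ofNat 603, .ofNat 354, .ofNat 167, .negSucc 202, .negSucc 183⟩, ⟨.ofNat 3384, .ofNat 660, .negSucc 203, .negSucc 462, .negSucc 697, .negSucc 205⟩, ⟨.negSucc 4990, .negSucc 457, .ofNat 103, .negSucc 823, .ofNat 759, .ofNat 603⟩, ⟨.negSucc 150, .ofNat 60, .negSucc 62, .negSucc 444, .ofNat 210, .ofNat 43⟩, .ofNat 334, .ofNat 197, .ofNat 0, .ofNat 197, .ofNat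 642, .ofNat 0, .ofNat 136, .negSucc 113, .negSucc 114, .ofNat 0, .ofNat 128, .ofNat 51, .ofNat 0, .ofNat 0, .ofNat 376, .ofNat 893, .ofNat 49435670263537567317216302657961984, .ofNat 0, .ofNat 499683460790720924866322628608, .ofNat 0, .ofNat 0, .ofNat 0, .ofNat 8033093831968358504433471979520, .ofNat 0, .ofNat 0, .ofNat 0, .ofNat 34448769861526314564629620064256, .ofNat 0, .ofNat 1021220095643679115842500595145506816, .ofNat 0, .ofNat 4499420423071714187762200477696, .ofNat 0⟩)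
    (by decide +kernel)
theorem L01923 : Good (Phi V5.P V5.D (-1) (-1)) ⟨3, 7, 2, 1, 1, 0, 1, 0, 3, 1⟩ :=
  out_sound (S := T5.ds_mm) T5.ok_mm (w := 43) (j := 3) (by decide +kernel)
theorem L01924 : Good (Phi V5.P V5.D (-1) (-1)) ⟨3, 6, 2, 1, 2, 0, 1, 0, 4, 4⟩ :=
  leafX_sound T5.ok_mm T5.Ymm.bz_eq (w := 200) (c := ⟨⟨.negSucc 2740, .negSucc 461, .ofNat 15, .negSucc 102, .ofNat 422, .ofNat 252⟩, ⟨.ofNat 1007, .ofNat 420, .ofNat 332, .ofNat 39, .negSucc 188, .negSucc 117⟩, ⟨.ofNat 3259, .ofNat 485, .negSucc 36, .negSucc 22, .negSucc 936, .negSucc 152⟩, ⟨.negSucc 4527, .negSucc 157, .ofNat 25, .negSucc 217, .ofNat 678, .ofNat 394⟩, ⟨.negSucc 8, .negSucc 4, .ofNat 10, .negSucc 114, .ofNat 14, .negSucc 2⟩, .ofNat 335, .ofNat 200, .ofNat 0, .ofNat 200, .ofNat 647, .ofNat 0, .ofNat 161, .negSucc 108, .negSucc 86, .ofNat 0, .ofNat 128, .ofNat 35, .ofNat 0, .ofNat 0, .ofNat 420, .ofNat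 3886, .ofNat 1755087012843492891356787412138347986944, .ofNat 0, .ofNat 2443690405835617042672126387027968, .ofNat 0, .ofNat 15984732013962823418878161308752816373760, .ofNat 0, .ofNat 351377602802395544203472957222158336, .ofNat 0, .ofNat 2031328902290019945810165258136561123328, .ofNat 0, .ofNat 1739900802827069530621020443261272064, .ofNat 0, .ofNat 13233887696981928122644081872256408485888, .ofNat 0, .ofNat 319863454888503427914815809360232448, .ofNat 0⟩)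
    (by decide +kernel)
theorem L01925 : Good (Phi V5.P V5.D (-1) (-1)) ⟨3, 6, 2, 1, 2, 0, 2, 0, 4, 5⟩ :=
  out_sound (S := T5.ds_mm) T5.ok_mm (w := 24) (j := 1) (by decide +kernel)
theorem L01926 : Good (Phi V5.P V5.D (-1) (-1)) ⟨3, 6, 2, 1, 2, 0, 2, 1, 5, 10⟩ :=
  leafX_sound T5.ok_mm T5.Ymm.bz_eq (w := 211) (c := ⟨⟨.negSucc 2331, .negSucc 371, .negSucc 8, .negSucc 22, .ofNat 205, .ofNat 106⟩, ⟨.ofNat 846, .ofNat 361, .ofNat 316, .ofNat 4, .negSucc 99, .negSucc 48⟩, ⟨.ofNat 2678, .ofNat 412, .negSucc 15, .negSucc 48, .negSucc 495, .negSucc 67⟩, ⟨.negSucc 3859, .negSucc 61, .negSucc 16, .negSucc 95, .ofNat 327, .ofNat 166⟩, ⟨.negSucc 14, .ofNat 9, .negSucc 2, .negSucc 121, .ofNat 17, .ofNat 0⟩, .ofNat 334, .ofNat 199, .ofNat 0, .ofNat 199, .ofNat 623, .ofNat 0, .ofNat 128, .negSucc 128, .negSucc 56, .ofNat 0, .ofNat 154, .ofNat 24, .ofNat 0, .ofNat 0, .ofNat 359, .ofNat 23848,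 .ofNat 993404702521600855845682770203460744773632, .ofNat 0, .ofNat 27225812393329369131335341676500615168, .ofNat 0, .ofNat 1110882757964132848060947715308951848353792, .ofNat 0, .ofNat 476251364847854793583890141607849099264, .ofNat 0, .ofNat 1561892344053738286323019887008761027493888, .ofNat 0, .ofNat 2301288412597054221059204515275542102016, .ofNat 0, .ofNat 985773656207658540911245637005668887035904, .ofNat 0, .ofNat 338503702326057521966263095310560526336, .ofNat 0⟩)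
    (by decide +kernel)
theorem L01927 : Good (Phi V5.P V5.D (-1) (-1)) ⟨4, 12, 2, 1, 2, 0, 2, 1, 5, 11⟩ :=
  leafX_sound T5.ok_mm T5.Ymm.bz_eq (w := 217) (c := ⟨⟨.negSucc 2232, .negSucc 181, .ofNat 6, .ofNat 5, .ofNat 189, .ofNat 104⟩, ⟨.ofNat 801, .ofNat 171, .ofNat 291, .negSucc 8, .negSucc 80, .negSucc 43⟩, ⟨.ofNat 2667, .ofNat 196, .ofNat 3, .negSucc 54, .negSucc 556, .negSucc 72⟩, ⟨.negSucc 3698, .negSucc 37, .ofNat 2, .negSucc 41, .ofNat 300, .ofNat 163⟩, ⟨.negSucc 10, .ofNat 5, .negSucc 1, .negSucc 117, .ofNat 7, .negSucc 3⟩, .ofNat 546, .ofNat 533, .ofNat 0, .ofNat 533, .ofNat 1468, .ofNat 0, .ofNat 142, .negSucc 127, .negSucc 129, .ofNat 0, .ofNat 103, .ofNat 54, .ofNat 0, .ofNat 0, .ofNat 962, .ofNat 108795, .ofNat 111228837791251822456466050510505446041714688, .ofNat 0, .ofNat 0, .ofNat 0, .ofNat 80006274178251575161528456209177562753007616, .ofNat 0, .ofNat 0,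 .ofNat 0, .ofNat 99015918051109800132666555379809007423193088, .ofNat 0, .ofNat 146197394009729032573771615245984333824, .ofNat 0, .ofNat 147434547917690539353891808821107586446131200, .ofNat 0, .ofNat 0, .ofNat 0⟩)
    (by decide +kernel)
theorem L01928 : Good (Phi V5.P V5.D (-1) (-1)) ⟨4, 13, 2, 1, 2, 0, 2, 1, 5, 11⟩ :=
  leafX_sound T5.ok_mm T5.Ymm.bz_eq (w := 217) (c := ⟨⟨.negSucc 2449, .negSucc 190, .negSucc 0, .ofNat 15, .ofNat 221, .ofNat 116⟩, ⟨.ofNat 1014, .ofNat 196, .ofNat 297, .negSucc 13, .negSucc 120, .negSucc 60⟩, ⟨.ofNat 2791, .ofNat 179, .ofNat 31, .negSucc 76, .negSucc 483, .negSucc 119⟩, ⟨.negSucc 3780, .negSucc 31, .negSucc 10, .negSucc 39, .ofNat 350, .ofNat 170⟩, ⟨.negSucc 17, .ofNat 6, .negSucc 2, .negSucc 117, .ofNat 21, .negSucc 4⟩, .ofNat 349, .ofNat 231, .ofNat 0, .ofNat 231, .ofNat 637, .ofNat 0, .ofNat 159, .negSucc 115, .negSucc 176, .ofNat 0,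 .ofNat 128, .ofNat 82, .ofNat 0, .ofNat 0, .ofNat 1123, .ofNat 102590, .ofNat 124098647706027127585105611210272916195246080, .ofNat 0, .ofNat 25915523235464806133554459746179743744, .ofNat 0, .ofNat 138976529874427667603321919708863523733897216, .ofNat 0, .ofNat 144652254071974429044847730778315948032, .ofNat 0, .ofNat 121929397175432548273505752050783920129572864, .ofNat 0, .ofNat 473001622368568054120575438757778423808, .ofNat 0, .ofNat 227666075713039816031519246736043951840559104, .ofNat 0, .ofNat 443127660328704779092681424789766668288, .ofNat 0⟩)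
    (by decide +kernel)
theorem L01929 : Good (Phi V5.P V5.D (-1) (-1)) ⟨3, 6, 2, 1, 2, 1, 2, 0, 4, 4⟩ :=
  leafX_sound T5.ok_mm T5.Ymm.bz_eq (w := 206) (c := ⟨⟨.negSucc 2842, .negSucc 635, .ofNat 102, .negSucc 91, .ofNat 146, .ofNat 534⟩, ⟨.ofNat 1017, .ofNat 496, .ofNat 388, .ofNat 30, .negSucc 79, .negSucc 270⟩, ⟨.ofNat 3286, .ofNat 687, .negSucc 300, .negSucc 540, .negSucc 350, .negSucc 294⟩, ⟨.negSucc 4796, .negSucc 333, .ofNat 95, .negSucc 341, .ofNat 312, .ofNat 805⟩, ⟨.negSucc 250, .ofNat 93, .negSucc 63, .negSucc 420, .ofNat 161, .negSucc 3⟩, .ofNat 339, .ofNat 209, .ofNat 0, .ofNat 209, .ofNat 640, .ofNat 0, .ofNat 128, .negSucc 137, .negSucc 193, .ofNat 0, .ofNat 143, .ofNat 102, .ofNat 0, .ofNat 0, .ofNat 768, .ofNat 17870, .ofNat 117598625871039097041199219307546146766848, .ofNat 0, .ofNat 0, .ofNat 0, .ofNat 376877388990021818663274946058408989556736, .ofNat 0,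 .ofNat 5610017109687171055020911505308647424, .ofNat 0, .ofNat 503411846153968092785457743957721566150656, .ofNat 0, .ofNat 23770723326544955515361239960209326080, .ofNat 0, .ofNat 735953012135067963711332415111340100681728, .ofNat 0, .ofNat 0, .ofNat 0⟩)
    (by decide +kernel)
theorem L01930 : Good (Phi V5.P V5.D (-1) (-1)) ⟨3, 6, 2, 1, 2, 1, 3, 2, 4, 4⟩ :=
  leafX_sound T5.ok_mm T5.Ymm.bz_eq (w := 209) (c := ⟨⟨.negSucc 2728, .negSucc 525, .ofNat 51, .negSucc 3, .ofNat 102, .ofNat 402⟩, ⟨.ofNat 978, .ofNat 452, .ofNat 369, .negSucc 18, .negSucc 44, .negSucc 194⟩, ⟨.ofNat 2934, .ofNat 530, .negSucc 170, .negSucc 593, .negSucc 256, .negSucc 236⟩, ⟨.negSucc 4543, .negSucc 221, .ofNat 40, .negSucc 188, .ofNat 180, .ofNat 619⟩, ⟨.negSucc 112, .ofNat 7, .negSucc 19, .negSucc 370, .ofNat 28, .ofNat 2⟩, .ofNat 336, .ofNat 203, .ofNat 0, .ofNat 203, .ofNat 641, .ofNat 0, .ofNat 128,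 .negSucc 145, .negSucc 86, .ofNat 0, .ofNat 157, .ofNat 43, .ofNat 0, .ofNat 0, .ofNat 368, .ofNat 7980, .ofNat 221336965932963704868605994817144630542336, .ofNat 0, .ofNat 5265288438404731102887263000904859648, .ofNat 0, .ofNat 0, .ofNat 0, .ofNat 86496021334239524506526700825483411456, .ofNat 0, .ofNat 0, .ofNat 0, .ofNat 0, .ofNat 0, .ofNat 555581613558615767039246336307174987268096, .ofNat 0, .ofNat 101457022777883312615373099993206358016, .ofNat 0⟩)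
    (by decide +kernel)
theorem L01931 : Good (Phi V5.P V5.D (-1) (-1)) ⟨3, 6, 2, 1, 2, 1, 3, 3, 4, 4⟩ :=
  leafX_sound T5.ok_mm T5.Ymm.bz_eq (w := 208) (c := ⟨⟨.negSucc 2609, .negSucc 486, .ofNat 45, .negSucc 5, .ofNat 134, .ofNat 365⟩, ⟨.ofNat 931, .ofNat 405, .ofNat 361, .negSucc 9, .negSucc 55, .negSucc 166⟩, ⟨.ofNat 2660, .ofNat 477, .negSucc 145, .negSucc 561, .negSucc 256, .negSucc 226⟩, ⟨.negSucc 4359, .negSucc 209, .ofNat 47, .negSucc 156, .ofNat 241, .ofNat 586⟩, ⟨.negSucc 134, .ofNat 31, .negSucc 17, .negSucc 320, .ofNat 57, .ofNat 25⟩, .ofNat 335, .ofNat 201, .ofNat 0, .ofNat 201, .ofNat 643, .ofNat 0, .ofNat 139, .negSucc 117, .negSucc 107, .ofNat 0, .ofNat 128, .ofNat 50, .ofNat 0, .ofNat 0, .ofNat 439, .ofNat 4225, .ofNat 0, .ofNat 0, .ofNat 0, .ofNat 0, .ofNat 0, .ofNat 0, .ofNat 52876668846495810727339641638232260608, .ofNat 0, .ofNat 0, .ofNat 0, .ofNat 376092914884763050691121465717614968832,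 .ofNat 0, .ofNat 0, .ofNat 0, .ofNat 0, .ofNat 0⟩)
    (by decide +kernel)
theorem L01932 : Good (Phi V5.P V5.D (-1) (-1)) ⟨3, 6, 2, 1, 2, 1, 2, 0, 4, 5⟩ :=
  out_sound (S := T5.ds_mm) T5.ok_mm (w := 24) (j := 1) (by decide +kernel)
theorem L01933 : Good (Phi V5.P V5.D (-1) (-1)) ⟨3, 6, 2, 1, 2, 1, 4, 4, 5, 10⟩ :=
  leafX_sound T5.ok_mm T5.Ymm.bz_eq (w := 222) (c := ⟨⟨.negSucc 2558, .negSucc 419, .ofNat 66, .ofNat 205, .ofNat 52, .ofNat 200⟩, ⟨.ofNat 927, .ofNat 339, .ofNat 358, .negSucc 126, .negSucc 17, .negSucc 95⟩, ⟨.ofNat 3131, .ofNat 398, .negSucc 240, .negSucc 917, .negSucc 150, .negSucc 123⟩, ⟨.negSucc 4200, .negSucc 135, .ofNat 37, .ofNat 95, .ofNat 105, .ofNat 322⟩, ⟨.negSucc 27, .ofNat 20, .negSucc 38, .negSucc 466, .ofNat 26, .ofNat 17⟩, .ofNat 163, .ofNat 41, .ofNat 0, .ofNat 41, .ofNat 225, .ofNat 0, .ofNat 128, .negSucc 94, .negSucc 149, .ofNat 0, .ofNat 190,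 .ofNat 80, .ofNat 0, .ofNat 0, .ofNat 589, .ofNat 150604, .ofNat 777047290553783211533871559706228232177057792, .ofNat 0, .ofNat 8879900401391421064797410472300151570432, .ofNat 0, .ofNat 541952147191594160066054881806092093496492032, .ofNat 0, .ofNat 27283660989284275440822782353406964006912, .ofNat 0, .ofNat 1367280068623067286532780799135955315998064640, .ofNat 0, .ofNat 11173063347348758647917581293874344624128, .ofNat 0, .ofNat 2586650975386338353223191727609163418781614080, .ofNat 0, .ofNat 64473765879946904709620297588248491851776, .ofNat 0⟩)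
    (by decide +kernel)
theorem L01934 : Good (Phi V5.P V5.D (-1) (-1)) ⟨3, 6, 2, 1, 2, 1, 4, 5, 6, 20⟩ :=
  leafX_sound T5.ok_mm T5.Ymm.bz_eq (w := 225) (c := ⟨⟨.negSucc 2394, .negSucc 425, .ofNat 58, .ofNat 85, .ofNat 68, .ofNat 91⟩, ⟨.ofNat 853, .ofNat 361, .ofNat 335, .negSucc 55, .negSucc 32, .negSucc 43⟩, ⟨.ofNat 2743, .ofNat 428, .negSucc 186, .negSucc 686, .negSucc 172, .negSucc 67⟩, ⟨.negSucc 4001, .negSucc 132, .ofNat 41, .negSucc 11, .ofNat 116, .ofNat 142⟩, ⟨.negSucc 162, .ofNat 51, .negSucc 63, .negSucc 284, .ofNat 35, .ofNat 17⟩, .ofNat 582, .ofNat 591, .ofNat 0, .ofNat 591, .ofNat 1488, .ofNat 0, .ofNat 128, .negSucc 278, .negSucc 196, .ofNat 0, .ofNat 211, .ofNat 97, .ofNat 0, .ofNat 0, .ofNat 1196, .ofNat 57890, .ofNat 1173959964145715889980714909938443477860745216, .ofNat 0, .ofNat 1251407455489791548177309933530796825509888, .ofNat 0, .ofNat 981184853278105554152621991805777543390298112,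 .ofNat 0, .ofNat 14941808690323782600476170533820901609177088, .ofNat 0, .ofNat 278867251284355440739503274667832544352796672, .ofNat 0, .ofNat 64551379352380738284289744561211242325213184, .ofNat 0, .ofNat 0, .ofNat 0, .ofNat 0, .ofNat 0⟩)
    (by decide +kernel)
theorem L01935 : Good (Phi V5.P V5.D (-1) (-1)) ⟨3, 6, 2, 1, 3, 2, 4, 5, 6, 21⟩ :=
  leafX_sound T5.ok_mm T5.Ymm.bz_eq (w := 245) (c := ⟨⟨.negSucc 2280, .negSucc 408, .ofNat 37, .ofNat 25, .ofNat 42, .ofNat 100⟩, ⟨.ofNat 780, .ofNat 363, .ofNat 329, .negSucc 15, .ofNat 0, .negSucc 66⟩, ⟨.ofNat 2607, .ofNat 426, .negSucc 138, .negSucc 288, .negSucc 124, .negSucc 73⟩, ⟨.negSucc 3855, .negSucc 118, .ofNat 30, .negSucc 18, .ofNat 99, .ofNat 129⟩, ⟨.negSucc 127, .ofNat 29, .negSucc 17, .negSucc 145, .ofNat 15, .negSucc 2⟩, .ofNat 163, .ofNat 40, .ofNat 0, .ofNat 40, .ofNat 225, .ofNat 0, .ofNat 128, .negSucc 102, .negSucc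 80, .ofNat 0, .ofNat 240, .ofNat 37, .ofNat 0, .ofNat 0, .ofNat 335, .ofNat 2366951, .ofNat 314131866226743914632037349554375637214739763822592, .ofNat 0, .ofNat 0, .ofNat 0, .ofNat 17389243275159972042236184502210678889975818223616, .ofNat 0, .ofNat 16579564082160507889869707409294410807521574912, .ofNat 0, .ofNat 50995728899136647629552320469667867161968435527680, .ofNat 0, .ofNat 0, .ofNat 0, .ofNat 98128900389278630764314344867673754551932315238400, .ofNat 0, .ofNat 48082343066047054962809738989051476752591749120, .ofNat 0⟩)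
    (by decide +kernel)
theorem L01936 : Good (Phi V5.P V5.D (-1) (-1)) ⟨3, 6, 2, 1, 3, 3, 4, 5, 6, 21⟩ :=
  leafX_sound T5.ok_mm T5.Ymm.bz_eq (w := 240) (c := ⟨⟨.negSucc 2308, .negSucc 360, .ofNat 36, .ofNat 92, .ofNat 66, .ofNat 85⟩, ⟨.ofNat 811, .ofNat 316, .ofNat 337, .negSucc 50, .negSucc 27, .negSucc 41⟩, ⟨.ofNat 2461, .ofNat 303, .negSucc 142, .negSucc 459, .negSucc 187, .negSucc 43⟩, ⟨.negSucc 3911, .negSucc 87, .ofNat 20, .ofNat 52, .ofNat 115, .ofNat 142⟩, ⟨.negSucc 267, .ofNat 9, .negSucc 19, .negSucc 189, .ofNat 24, .ofNat 12⟩, .ofNat 163, .ofNat 42, .ofNat 0, .ofNat 42, .ofNat 224, .ofNat 0, .ofNat 131, .negSucc 60, .negSucc 117, .ofNat 0, .ofNat 128, .ofNat 58, .ofNat 0, .ofNat 0, .ofNat 524, .ofNat 105579, .ofNat 15707828761881032122181788303448325532899235332096, .ofNat 0, .ofNat 2838559752023777606821770910332447883062673408, .ofNat 0, .ofNat 4278669209198414061748294612537214525042115739648,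 .ofNat 0, .ofNat 8675328054207044376474307476961533367846699008, .ofNat 0, .ofNat 6128927602053348359851111146622260222235351449600, .ofNat 0, .ofNat 64274908649320242833861573082244667361206468608, .ofNat 0, .ofNat 10437188777145232599579897593254922315749591613440, .ofNat 0, .ofNat 44839003930413332865666294047510157146737082368, .ofNat 0⟩)
    (by decide +kernel)
theorem L01937 : Good (Phi V5.P V5.D (-1) (-1)) ⟨3, 6, 2, 1, 2, 1, 3, 2, 5, 11⟩ :=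
  leafX_sound T5.ok_mm T5.Ymm.bz_eq (w := 218) (c := ⟨⟨.negSucc 2464, .negSucc 338, .ofNat 46, .ofNat 245, .ofNat 144, .ofNat 152⟩, ⟨.ofNat 924, .ofNat 291, .ofNat 327, .negSucc 144, .negSucc 74, .negSucc 64⟩, ⟨.ofNat 3238, .ofNat 279, .negSucc 188, .negSucc 1042, .negSucc 397, .negSucc 88⟩, ⟨.negSucc 4030, .negSucc 63, .ofNat 18, .ofNat 197, .ofNat 226, .ofNat 265⟩, ⟨.negSucc 91, .ofNat 6, .negSucc 26, .negSucc 376, .ofNat 53, .ofNat 32⟩, .ofNat 163, .ofNat 40, .ofNat 0, .ofNat 40, .ofNat 226, .ofNat 0, .ofNat 128, .negSucc 75, .negSucc 102, .ofNat 0, .ofNat 166, .ofNat 49, .ofNat 0, .ofNat 0, .ofNat 537, .ofNat 178590, .ofNat 161136944174708256139805546737081862699614208, .ofNat 0, .ofNat 1900668146033942481350974557530131267584, .ofNat 0, .ofNat 73571040011394571037923557052752973990461440, .ofNat 0, .ofNat 757129350649614253329893500098575335424, .ofNat 0, .ofNat 135099195766195921236634845556428463514058752,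 .ofNat 0, .ofNat 1852368910812881489839692145291463491584, .ofNat 0, .ofNat 296117514083021434049236441472000864265699328, .ofNat 0, .ofNat 3385341731261569188852391883249782095872, .ofNat 0⟩)
    (by decide +kernel)
theorem L01938 : Good (Phi V5.P V5.D (-1) (-1)) ⟨4, 12, 2, 1, 2, 1, 4, 6, 5, 10⟩ :=
  leafX_sound T5.ok_mm T5.Ymm.bz_eq (w := 224) (c := ⟨⟨.negSucc 2322, .negSucc 196, .ofNat 47, .ofNat 81, .ofNat 62, .ofNat 155⟩, ⟨.ofNat 822, .ofNat 168, .ofNat 315, .negSucc 48, .negSucc 24, .negSucc 64⟩, ⟨.ofNat 2523, .ofNat 200, .negSucc 143, .negSucc 624, .negSucc 156, .negSucc 95⟩, ⟨.negSucc 3894, .negSucc 53, .ofNat 28, .ofNat 10, .ofNat 110, .ofNat 252⟩, ⟨.negSucc 140, .ofNat 15, .negSucc 22, .negSucc 276, .ofNat 22, .ofNat 12⟩, .ofNat 340, .ofNat 209, .ofNat 0, .ofNat 209, .ofNat 696, .ofNat 0, .ofNat 156, .negSucc 120, .negSucc 157, .ofNat 0, .ofNat 128, .ofNat 71, .ofNat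 0, .ofNat 0, .ofNat 935, .ofNat 37667, .ofNat 1754344218441963754013787354450752256004325376, .ofNat 0, .ofNat 0, .ofNat 0, .ofNat 0, .ofNat 0, .ofNat 0, .ofNat 0, .ofNat 0, .ofNat 0, .ofNat 37931951049712104842759085892686913208320, .ofNat 0, .ofNat 0, .ofNat 0, .ofNat 0, .ofNat 0⟩)
    (by decide +kernel)
theorem L01939 : Good (Phi V5.P V5.D (-1) (-1)) ⟨4, 13, 2, 1, 2, 1, 4, 6, 5, 10⟩ :=
  leafX_sound T5.ok_mm T5.Ymm.bz_eq (w := 224) (c := ⟨⟨.negSucc 2541, .negSucc 237, .ofNat 59, .ofNat 107, .ofNat 63, .ofNat 172⟩, ⟨.ofNat 1019, .ofNat 216, .ofNat 305, .negSucc 67, .negSucc 30, .negSucc 90⟩, ⟨.ofNat 2770, .ofNat 248, .negSucc 166, .negSucc 712, .negSucc 147, .negSucc 116⟩, ⟨.negSucc 3946, .negSucc 89, .ofNat 45, .ofNat 8, .ofNat 103, .ofNat 263⟩, ⟨.negSucc 120, .ofNat 13, .negSucc 8, .negSucc 293, .ofNat 19, .ofNat 5⟩, .ofNat 349, .ofNat 230, .ofNat 0, .ofNat 230, .ofNat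 635, .ofNat 0, .ofNat 128, .negSucc 126, .negSucc 136, .ofNat 0, .ofNat 133, .ofNat 71, .ofNat 0, .ofNat 0, .ofNat 759, .ofNat 30393, .ofNat 1680738087604684935976428663831336984210571264, .ofNat 0, .ofNat 2560675060334402307391195629982970806272, .ofNat 0, .ofNat 0, .ofNat 0, .ofNat 12148715483271718805241967118962237898752, .ofNat 0, .ofNat 0, .ofNat 0, .ofNat 143737492171046703537580896955374640300032, .ofNat 0, .ofNat 0, .ofNat 0, .ofNat 344404178895939342602945319322914738143232, .ofNat 0⟩)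
    (by decide +kernel)
theorem L01940 : Good (Phi V5.P V5.D (-1) (-1)) ⟨3, 6, 2, 1, 2, 1, 4, 7, 5, 10⟩ :=
  leafX_sound T5.ok_mm T5.Ymm.bz_eq (w := 219) (c := ⟨⟨.negSucc 2267, .negSucc 378, .ofNat 32, .ofNat 100, .ofNat 68, .ofNat 150⟩, ⟨.ofNat 806, .ofNat 345, .ofNat 316, .negSucc 58, .negSucc 32, .negSucc 72⟩, ⟨.ofNat 2402, .ofNat 346, .negSucc 101, .negSucc 673, .negSucc 150, .negSucc 104⟩, ⟨.negSucc 3792, .negSucc 82, .ofNat 20, .ofNat 39, .ofNat 115, .ofNat 233⟩, ⟨.negSucc 125, .ofNat 35, .negSucc 27, .negSucc 250, .ofNat 23, .ofNat 5⟩, .ofNat 337, .ofNat 205, .ofNat 0, .ofNat 205, .ofNat 643, .ofNat 0, .ofNat 128, .negSucc 129, .negSucc 156, .ofNat 0, .ofNat 144, .ofNat 72, .ofNat 0, .ofNat 0, .ofNat 897, .ofNat 18714, .ofNat 0, .ofNat 0, .ofNat 0, .ofNat 0, .ofNat 0, .ofNat 0, .ofNat 55383587949129096766664745464945849663488, .ofNat 0, .ofNat 0, .ofNat 0, .ofNat 462725587019973036441086969700261725995008,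 .ofNat 0, .ofNat 0, .ofNat 0, .ofNat 438803298340053105830163439038362634158080, .ofNat 0⟩)
    (by decide +kernel)
theorem L01941 : Good (Phi V5.P V5.D (-1) (-1)) ⟨4, 12, 2, 1, 2, 1, 4, 6, 6, 22⟩ :=
  leafX_sound T5.ok_mm T5.Ymm.bz_eq (w := 229) (c := ⟨⟨.negSucc 2211, .negSucc 172, .ofNat 42, .ofNat 131, .ofNat 63, .ofNat 69⟩, ⟨.ofNat 785, .ofNat 152, .ofNat 304, .negSucc 70, .negSucc 27, .negSucc 27⟩, ⟨.ofNat 2533, .ofNat 156, .negSucc 133, .negSucc 733, .negSucc 173, .negSucc 41⟩, ⟨.negSucc 3711, .negSucc 32, .ofNat 20, .ofNat 98, .ofNat 114, .ofNat 114⟩, ⟨.negSucc 146, .ofNat 5, .negSucc 16, .negSucc 259, .ofNat 35, .ofNat 9⟩, .ofNat 340, .ofNat 209, .ofNat 0, .ofNat 209, .ofNat 696, .ofNat 0, .ofNat 128, .negSucc 137, .negSucc 115, .ofNat 0, .ofNat 148, .ofNat 52, .ofNat 0, .ofNat 0, .ofNat 824, .ofNat 59988, .ofNat 36792700723070821702364254787272570380614631424, .ofNat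 0, .ofNat 132337104991280988253455801757830001721344, .ofNat 0, .ofNat 22457007828060355146862119686941988220871639040, .ofNat 0, .ofNat 0, .ofNat 0, .ofNat 0, .ofNat 0, .ofNat 0, .ofNat 0, .ofNat 129906183430281443426235351345304790548426522624, .ofNat 0, .ofNat 0, .ofNat 0⟩)
    (by decide +kernel)
theorem L01942 : Good (Phi V5.P V5.D (-1) (-1)) ⟨4, 13, 2, 1, 2, 1, 4, 6, 6, 22⟩ :=
  leafX_sound T5.ok_mm T5.Ymm.bz_eq (w := 230) (c := ⟨⟨.negSucc 2426, .negSucc 179, .ofNat 44, .ofNat 183, .ofNat 62, .ofNat 79⟩, ⟨.ofNat 973, .ofNat 172, .ofNat 302, .negSucc 109, .negSucc 29, .negSucc 40⟩, ⟨.ofNat 2809, .ofNat 141, .negSucc 134, .negSucc 904, .negSucc 162, .negSucc 53⟩, ⟨.negSucc 3759, .negSucc 26, .ofNat 17, .ofNat 121, .ofNat 109, .ofNat 121⟩, ⟨.negSucc 112, .negSucc 3, .negSucc 13, .negSucc 290, .ofNat 29, .ofNat 5⟩, .ofNat 867, .ofNat 1061, .ofNat 0, .ofNat 1061, .ofNat 2206,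 .ofNat 0, .ofNat 128, .negSucc 331, .negSucc 198, .ofNat 0, .ofNat 233, .ofNat 107, .ofNat 0, .ofNat 0, .ofNat 1485, .ofNat 85630, .ofNat 63097964032219339164025236479682148517797691392, .ofNat 0, .ofNat 8605402722170937610449838991187009077248, .ofNat 0, .ofNat 8609668476563251193185076408001158748355690496, .ofNat 0, .ofNat 12450641460530055361628209300576516635099136, .ofNat 0, .ofNat 0, .ofNat 0, .ofNat 4420216330100779944943553090171565754023936, .ofNat 0, .ofNat 507634600548391329449059687728376161560659230720, .ofNat 0, .ofNat 12864963887651006237447602727274261457666048, .ofNat 0⟩)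
    (by decide +kernel)
theorem L01943 : Good (Phi V5.P V5.D (-1) (-1)) ⟨3, 6, 2, 1, 2, 1, 4, 6, 6, 23⟩ :=
  leafX_sound T5.ok_mm T5.Ymm.bz_eq (w := 226) (c := ⟨⟨.negSucc 2215, .negSucc 302, .ofNat 33, .ofNat 211, .ofNat 62, .ofNat 66⟩, ⟨.ofNat 809, .ofNat 274, .ofNat 304, .negSucc 119, .negSucc 29, .negSucc 29⟩, ⟨.ofNat 2755, .ofNat 217, .negSucc 133, .negSucc 1003, .negSucc 184, .negSucc 61⟩, ⟨.negSucc 3684, .negSucc 24, .ofNat 6, .ofNat 197, .ofNat 114, .ofNat 112⟩, ⟨.negSucc 139, .ofNat 2, .negSucc 18, .negSucc 263, .ofNat 42, .ofNat 17⟩, .ofNat 334, .ofNat 199, .ofNat 0, .ofNat 199, .ofNat 623, .ofNat 0, .ofNat 128, .negSucc 245, .negSucc 165, .ofNat 0, .ofNat 282, .ofNat 79, .ofNat 0, .ofNat 0, .ofNat 1285, .ofNat 108808, .ofNat 6689785134982809814235761782753648937279684608, .ofNat 0, .ofNat 1430414091822514133945994027720540543778816, .ofNat 0, .ofNat 3340117161030332306750565805448061830115098624,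 .ofNat 0, .ofNat 498894075587683635615268146611864878448640, .ofNat 0, .ofNat 0, .ofNat 0, .ofNat 0, .ofNat 0, .ofNat 43468414064456475161777601746763092896457424896, .ofNat 0, .ofNat 8681538303690278003763332887197036534824960, .ofNat 0⟩)
    (by decide +kernel)
theorem L01944 : Good (Phi V5.P V5.D (-1) (-1)) ⟨3, 6, 2, 1, 2, 1, 4, 7, 6, 22⟩ :=
  leafX_sound T5.ok_mm T5.Ymm.bz_eq (w := 224) (c := ⟨⟨.negSucc 2137, .negSucc 332, .ofNat 17, .ofNat 122, .ofNat 68, .ofNat 71⟩, ⟨.ofNat 758, .ofNat 308, .ofNat 309, .negSucc 67, .negSucc 30, .negSucc 34⟩, ⟨.ofNat 2319, .ofNat 285, .negSucc 51, .negSucc 702, .negSucc 174, .negSucc 60⟩, ⟨.negSucc 3587, .negSucc 56, .ofNat 9, .ofNat 88, .ofNat 116, .ofNat 111⟩, ⟨.negSucc 140, .ofNat 5, .negSucc 5, .negSucc 208, .ofNat 25, .ofNat 3⟩, .ofNat 334, .ofNat 199, .ofNat 0, .ofNat 199, .ofNat 623, .ofNat 0, .ofNat 128, .negSucc 121, .negSucc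 174, .ofNat 0, .ofNat 139, .ofNat 80, .ofNat 0, .ofNat 0, .ofNat 1162, .ofNat 28690, .ofNat 899440777175384258617227409299950776315019264, .ofNat 0, .ofNat 615569190876497982579765730689013321302016, .ofNat 0, .ofNat 0, .ofNat 0, .ofNat 658534115445176214202484682409291288674304, .ofNat 0, .ofNat 0, .ofNat 0, .ofNat 15735594909840598273466883489683668643872768, .ofNat 0, .ofNat 0, .ofNat 0, .ofNat 0, .ofNat 0⟩)
    (by decide +kernel)
theorem L01945 : Good (Phi V5.P V5.D (-1) (-1)) ⟨3, 6, 2, 1, 2, 1, 4, 7, 6, 23⟩ :=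
  leafX_sound T5.ok_mm T5.Ymm.bz_eq (w := 224) (c := ⟨⟨.negSucc 2081, .negSucc 319, .ofNat 30, .ofNat 142, .ofNat 55, .ofNat 64⟩, ⟨.ofNat 736, .ofNat 301, .ofNat 289, .negSucc 73, .negSucc 22, .negSucc 30⟩, ⟨.ofNat 2304, .ofNat 273, .negSucc 95, .negSucc 767, .negSucc 143, .negSucc 38⟩, ⟨.negSucc 3503, .negSucc 45, .ofNat 13, .ofNat 130, .ofNat 111, .ofNat 105⟩, ⟨.negSucc 154, .ofNat 9, .negSucc 13, .negSucc 195, .ofNat 43, .ofNat 8⟩, .ofNat 163, .ofNat 41, .ofNat 0, .ofNat 41, .ofNat 225, .ofNat 0, .ofNat 157, .negSucc 54, .negSucc 171, .ofNat 0, .ofNat 128, .ofNat 63, .ofNat 0, .ofNat 0, .ofNat 948, .ofNat 27000, .ofNat 1310682826802217587555937954805166790601080832, .ofNat 0, .ofNat 498436950702785238978550578836467458506752, .ofNat 0, .ofNat 0, .ofNat 0, .ofNat 652285630140762489983532713362200060755968, .ofNat 0, .ofNat 354155057421241519585302573380561788647505920, .ofNat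 0, .ofNat 5485735821784180852536589742536249023922176, .ofNat 0, .ofNat 0, .ofNat 0, .ofNat 0, .ofNat 0⟩)
    (by decide +kernel)
theorem L01946 : Good (Phi V5.P V5.D (-1) (-1)) ⟨3, 6, 2, 1, 1, 0, 2, 0, 3, 3⟩ :=
  out_sound (S := T5.ds_mm) T5.ok_mm (w := 20) (j := 1) (by decide +kernel)
theorem L01947 : Good (Phi V5.P V5.D (-1) (-1)) ⟨3, 6, 2, 1, 2, 0, 2, 1, 4, 6⟩ :=
  out_sound (S := T5.ds_mm) T5.ok_mm (w := 24) (j := 1) (by decide +kernel)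
theorem L01948 : Good (Phi V5.P V5.D (-1) (-1)) ⟨3, 6, 2, 1, 2, 1, 3, 2, 4, 6⟩ :=
  out_sound (S := T5.ds_mm) T5.ok_mm (w := 25) (j := 1) (by decide +kernel)
theorem L01949 : Good (Phi V5.P V5.D (-1) (-1)) ⟨3, 6, 2, 1, 2, 1, 3, 3, 5, 12⟩ :=
  leafX_sound T5.ok_mm T5.Ymm.bz_eq (w := 217) (c := ⟨⟨.negSucc 2134, .negSucc 264, .ofNat 19, .ofNat 195, .ofNat 117, .ofNat 113⟩, ⟨.ofNat 775, .ofNat 259, .ofNat 283, .negSucc 101, .negSucc 51, .negSucc 51⟩, ⟨.ofNat 2682, .ofNat 96, .negSucc 44, .negSucc 993, .negSucc 347, .negSucc 143⟩, ⟨.negSucc 3599, .ofNat 7, .negSucc 2, .ofNat 214, .ofNat 238, .ofNat 197⟩, ⟨.negSucc 217, .ofNat 2, .negSucc 15, .negSucc 180, .ofNat 107, .ofNat 41⟩, .ofNat 339, .ofNat 209, .ofNat 0, .ofNat 209, .ofNat 647, .ofNat 0, .ofNat 128, .negSucc 250, .negSucc 130, .ofNat 0, .ofNat 276, .ofNat 54, .ofNat 0, .ofNat 0, .ofNat 1474, .ofNat 57707, .ofNat 66626824875590311000891491649985321484943360,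 .ofNat 0, .ofNat 5103647210364555606736269322028899631104, .ofNat 0, .ofNat 35425618327310212103430769230386576224157696, .ofNat 0, .ofNat 4873019727751313917835378213851045560320, .ofNat 0, .ofNat 142024662247886239188901995872269192528920576, .ofNat 0, .ofNat 0, .ofNat 0, .ofNat 243589140208452749149533750106117408815054848, .ofNat 0, .ofNat 4357768083357294222016993405548646891520, .ofNat 0⟩)
    (by decide +kernel)
theorem L01950 : Good (Phi V5.P V5.D (-1) (-1)) ⟨3, 6, 2, 1, 2, 1, 3, 3, 5, 13⟩ :=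
  leafX_sound T5.ok_mm T5.Ymm.bz_eq (w := 221) (c := ⟨⟨.negSucc 1798, .negSucc 231, .ofNat 16, .negSucc 0, .ofNat 77, .ofNat 1⟩, ⟨.ofNat 599, .ofNat 235, .ofNat 264, .ofNat 0, .negSucc 6, .ofNat 0⟩, ⟨.ofNat 1689, .negSucc 20, .negSucc 114, .ofNat 1, .negSucc 433, .negSucc 0⟩, ⟨.negSucc 3166, .ofNat 34, .negSucc 12, .negSucc 1, .ofNat 214, .ofNat 2⟩, ⟨.negSucc 383, .ofNat 6, .negSucc 13, .ofNat 0, .ofNat 134, .ofNat 0⟩, .ofNat 164, .ofNat 40, .ofNat 0, .ofNat 40, .ofNat 226, .ofNat 0, .ofNat 128, .negSucc 75, .negSucc 53, .ofNat 0, .ofNat 178, .ofNat 2, .ofNat 0, .ofNat 0, .ofNat 839, .ofNat 1986269, .ofNat 3346755412202063105253958813139006175355863040, .ofNat 0, .ofNat 0, .ofNat 0, .ofNat 406979076168127281718042288921562350354432000, .ofNat 0, .ofNat 2214350433056710628822318669380045504512, .ofNat 0, .ofNat 376762412064716350848061630223859358445338624, .ofNat 0, .ofNat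 0, .ofNat 0, .ofNat 1940204227586215545557682575456782033979703296, .ofNat 0, .ofNat 0, .ofNat 0⟩)
    (by decide +kernel)
theorem L01951 : Good (Phi V5.P V5.D (-1) (-1)) ⟨3, 6, 2, 1, 1, 0, 2, 1, 4, 7⟩ :=
  out_sound (S := T5.ds_mm) T5.ok_mm (w := 22) (j := 1) (by decide +kernel)
theorem L01952 : Good (Phi V5.P V5.D (-1) (-1)) ⟨3, 7, 2, 1, 1, 0, 1, 0, 2, 1⟩ :=
  out_sound (S := T5.ds_mm) T5.ok_mm (w := 43) (j := 3) (by decide +kernel)
theorem L01953 : Good (Phi V5.P V5.D (-1) (-1)) ⟨1, 1, 2, 1, 1, 0, 1, 0, 1, 1⟩ :=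
  out_sound (S := T5.ds_mm) T5.ok_mm (w := 15) (j := 1) (by decide +kernel)
theorem L01954 : Good (Phi V5.P V5.D (-1) (-1)) ⟨2, 2, 3, 2, 1, 0, 2, 2, 4, 0⟩ :=
  leafX_sound T5.ok_mm T5.Ymm.bz_eq (w := 186) (c := ⟨⟨.negSucc 564, .ofNat 748, .negSucc 118, .ofNat 987, .negSucc 607, .negSucc 2231⟩, ⟨.ofNat 115, .negSucc 190, .ofNat 181, .negSucc 385, .ofNat 223, .ofNat 776⟩, ⟨.ofNat 140, .negSucc 253, .ofNat 63, .negSucc 1308, .ofNat 513, .ofNat 2093⟩, ⟨.negSucc 1053, .ofNat 1366, .negSucc 172, .ofNat 1389, .negSucc 1108, .negSucc 3761⟩, ⟨.ofNat 425, .negSucc 537, .negSucc 406, .negSucc 814, .ofNat 50, .ofNat 155⟩, .ofNat 534, .ofNat 540, .ofNat 0, .ofNat 540, .ofNat 1831, .ofNat 0, .ofNat 128, .negSucc 150, .negSucc 356, .ofNat 0, .ofNat 105, .ofNat 118, .ofNat 0, .ofNat 0, .ofNat 495, .ofNat 244, .ofNat 0, .ofNat 0, .ofNat 93173410813388313262392195678208, .ofNat 0, .ofNat 0,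 .ofNat 0, .ofNat 970096681105019737875602558943232, .ofNat 0, .ofNat 0, .ofNat 0, .ofNat 5688462818740180571059683376234496, .ofNat 0, .ofNat 0, .ofNat 0, .ofNat 3680812257863646235213607397752832, .ofNat 0⟩)
    (by decide +kernel)
theorem L01955 : Good (Phi V5.P V5.D (-1) (-1)) ⟨4, 12, 3, 2, 1, 0, 2, 2, 4, 0⟩ :=
  leafX_sound T5.ok_mm T5.Ymm.bz_eq (w := 194) (c := ⟨⟨.ofNat 533, .negSucc 432, .negSucc 65, .ofNat 868, .negSucc 1012, .negSucc 2854⟩, ⟨.negSucc 257, .ofNat 171, .ofNat 116, .negSucc 407, .ofNat 401, .ofNat 1179⟩, ⟨.negSucc 457, .ofNat 412, .ofNat 35, .negSucc 1258, .ofNat 901, .ofNat 2621⟩, ⟨.ofNat 632, .negSucc 507, .negSucc 117, .ofNat 1261, .negSucc 1651, .negSucc 4516⟩, ⟨.negSucc 509, .ofNat 190, .ofNat 52, .negSucc 545, .ofNat 265, .ofNat 227⟩, .ofNat 537, .ofNat 514, .ofNat 0, .ofNat 514, .ofNat 1437, .ofNat 0, .ofNat 128, .negSucc 170, .negSucc 469, .ofNat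 0, .ofNat 134, .ofNat 189, .ofNat 0, .ofNat 0, .ofNat 595, .ofNat 154, .ofNat 0, .ofNat 0, .ofNat 0, .ofNat 0, .ofNat 0, .ofNat 0, .ofNat 0, .ofNat 0, .ofNat 0, .ofNat 0, .ofNat 0, .ofNat 0, .ofNat 0, .ofNat 0, .ofNat 0, .ofNat 0⟩)
    (by decide +kernel)
theorem L01956 : Good (Phi V5.P V5.D (-1) (-1)) ⟨4, 13, 3, 2, 1, 0, 2, 2, 4, 0⟩ :=
  leafX_sound T5.ok_mm T5.Ymm.bz_eq (w := 196) (c := ⟨⟨.negSucc 699, .negSucc 445, .ofNat 1433, .ofNat 865, .negSucc 1355, .negSucc 3261⟩, ⟨.ofNat 294, .ofNat 234, .negSucc 644, .negSucc 477, .ofNat 647, .ofNat 1540⟩, ⟨.negSucc 178, .ofNat 309, .negSucc 450, .negSucc 1323, .ofNat 1226, .ofNat 3067⟩, ⟨.negSucc 651, .negSucc 510, .ofNat 1608, .ofNat 965, .negSucc 2000, .negSucc 4876⟩, ⟨.ofNat 541, .negSucc 476, .negSucc 855, .negSucc 791, .ofNat 213, .ofNat 295⟩, .ofNat 1026, .ofNat 1386, .ofNat 0, .ofNat 1386, .ofNat 3013, .ofNat 0, .ofNat 128,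 .negSucc 321, .negSucc 925, .ofNat 0, .ofNat 221, .ofNat 440, .ofNat 0, .ofNat 0, .ofNat 1158, .ofNat 261, .ofNat 0, .ofNat 0, .ofNat 65019792052466578770407532265472, .ofNat 0, .ofNat 0, .ofNat 0, .ofNat 1647208811174040719814070032662528, .ofNat 0, .ofNat 0, .ofNat 0, .ofNat 2298686530940151535534229300445184, .ofNat 0, .ofNat 0, .ofNat 0, .ofNat 792569100848032784867894604333056, .ofNat 0⟩)
    (by decide +kernel)
theorem L01957 : Good (Phi V5.P V5.D (-1) (-1)) ⟨3, 7, 3, 2, 1, 0, 2, 2, 4, 0⟩ :=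
  out_sound (S := T5.ds_mm) T5.ok_mm (w := 45) (j := 3) (by decide +kernel)
theorem L01958 : Good (Phi V5.P V5.D (-1) (-1)) ⟨2, 2, 3, 2, 1, 0, 2, 3, 4, 0⟩ :=
  leafX_sound T5.ok_mm T5.Ymm.bz_eq (w := 186) (c := ⟨⟨.ofNat 199, .negSucc 2362, .ofNat 337, .ofNat 579, .ofNat 1015, .negSucc 643⟩, ⟨.negSucc 203, .ofNat 939, .ofNat 3, .negSucc 213, .negSucc 352, .ofNat 235⟩, ⟨.negSucc 305, .ofNat 2381, .negSucc 408, .negSucc 993, .negSucc 1049, .ofNat 498⟩, ⟨.negSucc 163, .negSucc 3505, .ofNat 591, .ofNat 759, .ofNat 1788, .negSucc 1082⟩, ⟨.negSucc 23, .negSucc 1, .ofNat 167, .negSucc 751, .ofNat 88, .ofNat 53⟩, .ofNat 534, .ofNat 540, .ofNat 0, .ofNat 540, .ofNat 1842, .ofNat 0, .ofNat 128, .negSucc 135, .negSucc 565, .ofNat 0, .ofNat 96, .ofNat 185, .ofNat 0, .ofNat 0, .ofNat 757, .ofNat 250, .ofNat 0, .ofNat 0, .ofNat 92414798858318654416401045913600, .ofNat 0, .ofNat 0, .ofNat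 0, .ofNat 724805400137146897765916984999936, .ofNat 0, .ofNat 0, .ofNat 0, .ofNat 2368204404192750741997629541974016, .ofNat 0, .ofNat 0, .ofNat 143601494055671120631066947122888704, .ofNat 1141933053136132657888402929090560, .ofNat 0⟩)
    (by decide +kernel)
theorem L01959 : Good (Phi V5.P V5.D (-1) (-1)) ⟨4, 12, 3, 2, 1, 0, 2, 3, 4, 0⟩ :=
  leafX_sound T5.ok_mm T5.Ymm.bz_eq (w := 194) (c := ⟨⟨.negSucc 1567, .negSucc 477, .ofNat 224, .ofNat 685, .ofNat 812, .negSucc 1312⟩, ⟨.ofNat 538, .ofNat 229, .ofNat 54, .negSucc 320, .negSucc 341, .ofNat 584⟩, ⟨.ofNat 1492, .ofNat 501, .negSucc 265, .negSucc 1172, .negSucc 857, .ofNat 1173⟩, ⟨.negSucc 2572, .negSucc 739, .ofNat 346, .ofNat 965, .ofNat 1256, .negSucc 2100⟩, ⟨.ofNat 191, .negSucc 232, .negSucc 142, .negSucc 432, .negSucc 183, .negSucc 129⟩, .ofNat 538, .ofNat 518, .ofNat 0, .ofNat 518, .ofNat 1458, .ofNat 0, .ofNat 128,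 .negSucc 149, .negSucc 690, .ofNat 0, .ofNat 119, .ofNat 273, .ofNat 0, .ofNat 0, .ofNat 845, .ofNat 147, .ofNat 0, .ofNat 0, .ofNat 2071229793622760563283402424320, .ofNat 0, .ofNat 0, .ofNat 0, .ofNat 0, .ofNat 0, .ofNat 0, .ofNat 0, .ofNat 0, .ofNat 0, .ofNat 0, .ofNat 0, .ofNat 0, .ofNat 0⟩)
    (by decide +kernel)
theorem L01960 : Good (Phi V5.P V5.D (-1) (-1)) ⟨4, 13, 4, 4, 1, 0, 2, 3, 4, 0⟩ :=
  out_sound (S := T5.ds_mm) T5.ok_mm (w := 53) (j := 3) (by decide +kernel)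
theorem L01961 : Good (Phi V5.P V5.D (-1) (-1)) ⟨5, 26, 4, 5, 1, 0, 2, 3, 4, 0⟩ :=
  leafX_sound T5.ok_mm T5.Ymm.bz_eq (w := 202) (c := ⟨⟨.negSucc 1637, .negSucc 529, .negSucc 203, .ofNat 602, .ofNat 721, .negSucc 1530⟩, ⟨.ofNat 677, .ofNat 290, .ofNat 188, .negSucc 342, .negSucc 336, .ofNat 735⟩, ⟨.ofNat 1544, .ofNat 671, .ofNat 185, .negSucc 1096, .negSucc 770, .ofNat 1406⟩, ⟨.negSucc 2481, .negSucc 732, .negSucc 454, .ofNat 642, .ofNat 1175, .negSucc 2259⟩, ⟨.ofNat 13, .ofNat 3, .negSucc 149, .negSucc 702, .ofNat 78, .ofNat 254⟩, .ofNat 724, .ofNat 795, .ofNat 0, .ofNat 795, .ofNat 1792, .ofNat 0, .ofNat 128, .negSucc 196, .negSucc 1084, .ofNat 0, .ofNat 161, .ofNat 510, .ofNat 0, .ofNat 0, .ofNat 1308, .ofNat 245, .ofNat 0, .ofNat 0, .ofNat 2337047796361408628850440536064, .ofNat 0, .ofNat 0, .ofNat 0, .ofNat 51557893986148935571066635419648, .ofNat 0, .ofNat 0, .ofNat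 0, .ofNat 133973349561372530389215273287680, .ofNat 0, .ofNat 0, .ofNat 0, .ofNat 1241831177149242472837757955735552, .ofNat 0⟩)
    (by decide +kernel)
theorem L01962 : Good (Phi V5.P V5.D (-1) (-1)) ⟨5, 27, 4, 5, 1, 0, 2, 3, 4, 0⟩ :=
  out_sound (S := T5.ds_mm) T5.ok_mm (w := 59) (j := 3) (by decide +kernel)
theorem L01963 : Good (Phi V5.P V5.D (-1) (-1)) ⟨3, 7, 3, 2, 1, 0, 2, 3, 4, 0⟩ :=
  out_sound (S := T5.ds_mm) T5.ok_mm (w := 45) (j := 3) (by decide +kernel)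
theorem L01964 : Good (Phi V5.P V5.D (-1) (-1)) ⟨3, 4, 3, 2, 1, 0, 1, 1, 4, 1⟩ :=
  out_sound (S := T5.ds_mm) T5.ok_mm (w := 45) (j := 3) (by decide +kernel)
theorem L01965 : Good (Phi V5.P V5.D (-1) (-1)) ⟨4, 10, 3, 2, 1, 0, 1, 1, 4, 1⟩ :=
  out_sound (S := T5.ds_mm) T5.ok_mm (w := 51) (j := 3) (by decide +kernel)
theorem L01966 : Good (Phi V5.P V5.D (-1) (-1)) ⟨4, 11, 3, 2, 1, 0, 2, 2, 4, 1⟩ :=
  leafX_sound T5.ok_mm T5.Ymm.bz_eq (w := 194) (c := ⟨⟨.negSucc 1947, .negSucc 497, .ofNat 12, .ofNat 1, .ofNat 119, .negSucc 405⟩, ⟨.ofNat 591, .ofNat 261, .ofNat 191, .negSucc 10, .negSucc 37, .ofNat 145⟩, ⟨.ofNat 1938, .ofNat 469, .negSucc 47, .negSucc 770, .negSucc 108, .ofNat 402⟩, ⟨.negSucc 3535, .negSucc 553, .ofNat 43, .negSucc 215, .ofNat 266, .negSucc 635⟩, ⟨.negSucc 85, .ofNat 38, .ofNat 141, .negSucc 733, .ofNat 208, .ofNat 202⟩, .ofNat 862, .ofNat 1365, .ofNat 0, .ofNat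 1365, .ofNat 4210, .ofNat 0, .ofNat 128, .negSucc 177, .negSucc 282, .ofNat 0, .ofNat 92, .ofNat 97, .ofNat 0, .ofNat 0, .ofNat 509, .ofNat 226, .ofNat 0, .ofNat 0, .ofNat 0, .ofNat 0, .ofNat 0, .ofNat 0, .ofNat 0, .ofNat 0, .ofNat 0, .ofNat 0, .ofNat 199538697923290156812348568895488, .ofNat 0, .ofNat 0, .ofNat 0, .ofNat 0, .ofNat 0⟩)
    (by decide +kernel)
theorem L01967 : Good (Phi V5.P V5.D (-1) (-1)) ⟨4, 11, 3, 2, 1, 0, 2, 3, 4, 1⟩ :=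
  leafX_sound T5.ok_mm T5.Ymm.bz_eq (w := 194) (c := ⟨⟨.negSucc 2126, .negSucc 376, .ofNat 2, .negSucc 145, .ofNat 1389, .negSucc 38⟩, ⟨.ofNat 675, .ofNat 193, .ofNat 148, .ofNat 35, .negSucc 468, .ofNat 16⟩, ⟨.ofNat 2054, .ofNat 365, .ofNat 44, .negSucc 458, .negSucc 1505, .negSucc 25⟩, ⟨.negSucc 3851, .negSucc 410, .ofNat 14, .negSucc 407, .ofNat 2548, .negSucc 8⟩, ⟨.negSucc 167, .ofNat 49, .ofNat 185, .negSucc 432, .ofNat 216, .ofNat 175⟩, .ofNat 533, .ofNat 540, .ofNat 0, .ofNat 540, .ofNat 1847, .ofNat 0, .ofNat 128, .negSucc 136, .negSucc 385, .ofNat 0, .ofNat 95, .ofNat 127, .ofNat 0, .ofNat 0, .ofNat 605, .ofNat 244, .ofNat 0, .ofNat 0, .ofNat 0, .ofNat 0, .ofNat 0, .ofNat 16790127956290390635436324946473648128, .ofNat 21929718073017312345890339422208, .ofNat 0, .ofNat 0, .ofNat 15645531490135540190686838935548592128, .ofNat 80070330776136371156192797392896, .ofNat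 0, .ofNat 0, .ofNat 0, .ofNat 0, .ofNat 0⟩)
    (by decide +kernel)
theorem L01968 : Good (Phi V5.P V5.D (-1) (-1)) ⟨3, 6, 3, 2, 1, 0, 2, 2, 4, 1⟩ :=
  leafX_sound T5.ok_mm T5.Ymm.bz_eq (w := 190) (c := ⟨⟨.negSucc 2385, .negSucc 1299, .ofNat 136, .negSucc 510, .ofNat 209, .negSucc 172⟩, ⟨.ofNat 805, .ofNat 823, .ofNat 148, .ofNat 189, .negSucc 82, .ofNat 83⟩, ⟨.ofNat 2380, .ofNat 1236, .negSucc 145, .negSucc 413, .negSucc 187, .ofNat 200⟩, ⟨.negSucc 3970, .negSucc 1452, .ofNat 254, .negSucc 1049, .ofNat 349, .negSucc 246⟩, ⟨.ofNat 21, .negSucc 110, .ofNat 93, .negSucc 569, .ofNat 46, .ofNat 90⟩, .ofNat 553, .ofNat 545, .ofNat 0, .ofNat 545, .ofNat 1476, .ofNat 0, .ofNat 128, .negSucc 161, .negSucc 322, .ofNat 0, .ofNat 124, .ofNat 136, .ofNat 0, .ofNat 0, .ofNat 535, .ofNat 107, .ofNat 0, .ofNat 0, .ofNat 17000828892183792997458371411968, .ofNat 0, .ofNat 0, .ofNat 0, .ofNat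 120623215237459323368684558221312, .ofNat 0, .ofNat 0, .ofNat 0, .ofNat 463697329826039944819480876548096, .ofNat 0, .ofNat 0, .ofNat 0, .ofNat 296401966936859752761705560539136, .ofNat 0⟩)
    (by decide +kernel)
theorem L01969 : Good (Phi V5.P V5.D (-1) (-1)) ⟨3, 6, 3, 2, 2, 0, 2, 3, 4, 1⟩ :=
  leafX_sound T5.ok_mm T5.Ymm.bz_eq (w := 204) (c := ⟨⟨.negSucc 2596, .negSucc 761, .negSucc 100, .negSucc 100, .ofNat 1499, .ofNat 195⟩, ⟨.ofNat 967, .ofNat 517, .ofNat 166, .ofNat 43, .negSucc 635, .negSucc 76⟩, ⟨.ofNat 2552, .ofNat 742, .ofNat 87, .negSucc 247, .negSucc 1684, .negSucc 208⟩, ⟨.negSucc 4349, .negSucc 667, .negSucc 139, .negSucc 190, .ofNat 2519, .ofNat 321⟩, ⟨.negSucc 142, .ofNat 252, .ofNat 96, .negSucc 130, .ofNat 8, .ofNat 67⟩, .ofNat 509, .ofNat 443, .ofNat 0, .ofNat 443, .ofNat 1173, .ofNat 0, .ofNat 155, .negSucc 127, .negSucc 449, .ofNat 0, .ofNat 119, .ofNat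 190, .ofNat 0, .ofNat 0, .ofNat 696, .ofNat 126, .ofNat 0, .ofNat 0, .ofNat 85562688780333097517119295604129792, .ofNat 0, .ofNat 0, .ofNat 0, .ofNat 0, .ofNat 0, .ofNat 0, .ofNat 1367404369368303739932485361900202229760, .ofNat 3273979365731795952432665938291064832, .ofNat 0, .ofNat 0, .ofNat 24465345717735080017561863788887850090496, .ofNat 3789471483628435667949938305746862080, .ofNat 0⟩)
    (by decide +kernel)
theorem L01970 : Good (Phi V5.P V5.D (-1) (-1)) ⟨3, 6, 3, 2, 2, 1, 3, 6, 4, 1⟩ :=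
  leafX_sound T5.ok_mm T5.Ymm.bz_eq (w := 209) (c := ⟨⟨.negSucc 2357, .negSucc 1616, .ofNat 178, .negSucc 202, .ofNat 400, .negSucc 152⟩, ⟨.ofNat 800, .ofNat 903, .ofNat 130, .ofNat 75, .negSucc 168, .ofNat 76⟩, ⟨.ofNat 1974, .ofNat 1477, .negSucc 200, .negSucc 175, .negSucc 398, .ofNat 99⟩, ⟨.negSucc 4003, .negSucc 1937, .ofNat 243, .negSucc 460, .ofNat 676, .negSucc 155⟩, ⟨.negSucc 196, .ofNat 134, .negSucc 125, .negSucc 396, .ofNat 135, .ofNat 268⟩, .ofNat 701, .ofNat 777, .ofNat 0, .ofNat 777, .ofNat 1865, .ofNat 0, .ofNat 134, .negSucc 127, .negSucc 336, .ofNat 0, .ofNat 97, .ofNat 153, .ofNat 0, .ofNat 0, .ofNat 463, .ofNat 524, .ofNat 0, .ofNat 0, .ofNat 5094054851937035837544319765136277504, .ofNat 0, .ofNat 0, .ofNat 0, .ofNat 214844920986209977669380841797876449280, .ofNat 0, .ofNat 0, .ofNat 0, .ofNat 183006833356689163385723593744686514176, .ofNat 0, .ofNat 0, .ofNat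 0, .ofNat 319447269971449498919916790183075250176, .ofNat 0⟩)
    (by decide +kernel)
theorem L01971 : Good (Phi V5.P V5.D (-1) (-1)) ⟨3, 6, 3, 2, 2, 1, 3, 7, 4, 1⟩ :=
  leafX_sound T5.ok_mm T5.Ymm.bz_eq (w := 208) (c := ⟨⟨.negSucc 2324, .negSucc 1066, .ofNat 179, .negSucc 213, .ofNat 1769, .ofNat 85⟩, ⟨.ofNat 828, .ofNat 620, .ofNat 70, .ofNat 71, .negSucc 732, .negSucc 10⟩, ⟨.ofNat 1844, .ofNat 1010, .negSucc 189, .negSucc 52, .negSucc 1804, .negSucc 146⟩, ⟨.negSucc 3940, .negSucc 1263, .ofNat 283, .negSucc 423, .ofNat 2899, .ofNat 239⟩, ⟨.negSucc 327, .negSucc 53, .ofNat 16, .negSucc 159, .ofNat 149, .ofNat 321⟩, .ofNat 701, .ofNat 777, .ofNat 0, .ofNat 777, .ofNat 1865, .ofNat 0, .ofNat 128, .negSucc 132, .negSucc 507, .ofNat 0, .ofNat 102, .ofNat 228, .ofNat 0, .ofNat 0, .ofNat 626, .ofNat 105, .ofNat 0, .ofNat 0, .ofNat 1747977599604716088731656186568376320, .ofNat 0,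 .ofNat 0, .ofNat 20458432368528986648587512977266149687296, .ofNat 62055683934586089405466897536996343808, .ofNat 0, .ofNat 0, .ofNat 0, .ofNat 101803142641844275637082390654567317504, .ofNat 0, .ofNat 0, .ofNat 68145557009589703795148404314527686983680, .ofNat 163172985026550433085996493693956128768, .ofNat 0⟩)
    (by decide +kernel)
theorem L01972 : Good (Phi V5.P V5.D (-1) (-1)) ⟨3, 7, 3, 2, 1, 0, 1, 1, 4, 1⟩ :=
  out_sound (S := T5.ds_mm) T5.ok_mm (w := 45) (j := 3) (by decide +kernel)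
theorem L01973 : Good (Phi V5.P V5.D (-1) (-1)) ⟨2, 2, 3, 2, 1, 0, 2, 2, 3, 1⟩ :=
  leafX_sound T5.ok_mm T5.Ymm.bz_eq (w := 181) (c := ⟨⟨.negSucc 1716, .negSucc 1087, .ofNat 92, .negSucc 230, .ofNat 326, .ofNat 483⟩, ⟨.ofNat 223, .ofNat 752, .ofNat 161, .ofNat 66, .negSucc 106, .negSucc 157⟩, ⟨.ofNat 1747, .ofNat 1037, .negSucc 47, .negSucc 533, .negSucc 450, .negSucc 311⟩, ⟨.negSucc 4050, .negSucc 657, .ofNat 141, .negSucc 542, .ofNat 609, .ofNat 874⟩, ⟨.negSucc 169, .ofNat 116, .ofNat 3, .negSucc 433, .ofNat 131, .ofNat 122⟩, .ofNat 680, .ofNat 890, .ofNat 0, .ofNat 890, .ofNat 2854, .ofNat 0, .ofNat 128, .negSucc 139, .negSucc 138, .ofNat 0, .ofNat 82, .ofNat 48, .ofNat 0, .ofNat 0, .ofNat 416, .ofNat 404, .ofNat 0, .ofNat 0, .ofNat 5531070446688462060492135858176, .ofNat 0, .ofNat 0, .ofNat 0, .ofNat 63449938456454940160266650779648, .ofNat 0, .ofNat 0, .ofNat 0, .ofNat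 90452387811749342862259100057600, .ofNat 0, .ofNat 0, .ofNat 0, .ofNat 38801792355790961986586944733184, .ofNat 0⟩)
    (by decide +kernel)
theorem L01974 : Good (Phi V5.P V5.D (-1) (-1)) ⟨3, 6, 3, 2, 1, 0, 2, 2, 4, 2⟩ :=
  leafX_sound T5.ok_mm T5.Ymm.bz_eq (w := 191) (c := ⟨⟨.negSucc 2714, .negSucc 854, .ofNat 28, .negSucc 587, .ofNat 370, .ofNat 352⟩, ⟨.ofNat 951, .ofNat 607, .ofNat 204, .ofNat 227, .negSucc 162, .negSucc 134⟩, ⟨.ofNat 2777, .ofNat 798, .negSucc 76, .negSucc 344, .negSucc 437, .negSucc 224⟩, ⟨.negSucc 4486, .negSucc 702, .ofNat 28, .negSucc 1120, .ofNat 611, .ofNat 596⟩, ⟨.ofNat 59, .ofNat 52, .negSucc 64, .negSucc 463, .ofNat 51, .ofNat 96⟩, .ofNat 535, .ofNat 509, .ofNat 0, .ofNat 509, .ofNat 1424, .ofNat 0, .ofNat 128, .negSucc 142, .negSucc 138, .ofNat 0, .ofNat 112, .ofNat 58, .ofNat 0, .ofNat 0, .ofNat 305, .ofNat 600, .ofNat 0, .ofNat 0, .ofNat 14611128286677360051411541295104,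 .ofNat 0, .ofNat 0, .ofNat 0, .ofNat 181171093786187905416616055144448, .ofNat 0, .ofNat 0, .ofNat 0, .ofNat 1232443221455456880712600709496832, .ofNat 0, .ofNat 0, .ofNat 0, .ofNat 379819503224013046030158341865472, .ofNat 0⟩)
    (by decide +kernel)
theorem L01975 : Good (Phi V5.P V5.D (-1) (-1)) ⟨3, 6, 3, 2, 1, 0, 2, 2, 4, 3⟩ :=
  leafX_sound T5.ok_mm T5.Ymm.bz_eq (w := 190) (c := ⟨⟨.negSucc 2578, .negSucc 571, .ofNat 61, .negSucc 264, .ofNat 327, .ofNat 298⟩, ⟨.ofNat 911, .ofNat 458, .ofNat 157, .ofNat 85, .negSucc 126, .negSucc 113⟩, ⟨.ofNat 2682, .ofNat 598, .negSucc 117, .negSucc 541, .negSucc 482, .negSucc 192⟩, ⟨.negSucc 4272, .negSucc 304, .ofNat 78, .negSucc 585, .ofNat 561, .ofNat 496⟩, ⟨.ofNat 10, .ofNat 29, .negSucc 27, .negSucc 369, .ofNat 76, .ofNat 32⟩, .ofNat 537, .ofNat 515, .ofNat 0, .ofNat 515, .ofNat 1452, .ofNat 0, .ofNat 170, .negSucc 127, .negSucc 142,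 .ofNat 0, .ofNat 101, .ofNat 59, .ofNat 0, .ofNat 0, .ofNat 450, .ofNat 342, .ofNat 0, .ofNat 0, .ofNat 7898515851188716796049480482816, .ofNat 0, .ofNat 0, .ofNat 0, .ofNat 0, .ofNat 0, .ofNat 0, .ofNat 0, .ofNat 726651750452172450708015349235712, .ofNat 0, .ofNat 0, .ofNat 0, .ofNat 0, .ofNat 0⟩)
    (by decide +kernel)
theorem L01976 : Good (Phi V5.P V5.D (-1) (-1)) ⟨3, 7, 3, 2, 1, 0, 2, 2, 3, 1⟩ :=
  out_sound (S := T5.ds_mm) T5.ok_mm (w := 45) (j := 3) (by decide +kernel)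
theorem L01977 : Good (Phi V5.P V5.D (-1) (-1)) ⟨2, 2, 3, 2, 1, 0, 2, 3, 4, 2⟩ :=
  leafX_sound T5.ok_mm T5.Ymm.bz_eq (w := 186) (c := ⟨⟨.negSucc 1266, .negSucc 1214, .ofNat 156, .negSucc 139, .ofNat 1201, .ofNat 150⟩, ⟨.ofNat 128, .ofNat 743, .ofNat 75, .ofNat 38, .negSucc 407, .negSucc 49⟩, ⟨.ofNat 1318, .ofNat 1043, .negSucc 143, .negSucc 520, .negSucc 1370, .negSucc 128⟩, ⟨.negSucc 3191, .negSucc 960, .ofNat 219, .negSucc 347, .ofNat 2190, .ofNat 284⟩, ⟨.negSucc 269, .ofNat 238, .ofNat 4, .negSucc 257, .ofNat 251, .ofNat 73⟩, .ofNat 533, .ofNat 539, .ofNat 0, .ofNat 539, .ofNat 1843, .ofNat 0, .ofNat 128, .negSucc 128, .negSucc 216, .ofNat 0, .ofNat 89, .ofNat 72, .ofNat 0, .ofNat 0, .ofNat 440, .ofNat 227, .ofNat 0, .ofNat 0, .ofNat 108745834095602065780353699676160, .ofNat 0, .ofNat 0, .ofNat 136515332867083981992822803993198592, .ofNat 175736528832815450248507272724480,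 .ofNat 0, .ofNat 0, .ofNat 0, .ofNat 1081383914761704899553415466582016, .ofNat 0, .ofNat 0, .ofNat 0, .ofNat 207476948053696595772542271094784, .ofNat 0⟩)
    (by decide +kernel)
theorem L01978 : Good (Phi V5.P V5.D (-1) (-1)) ⟨4, 12, 3, 2, 1, 0, 2, 3, 4, 2⟩ :=
  leafX_sound T5.ok_mm T5.Ymm.bz_eq (w := 194) (c := ⟨⟨.negSucc 2353, .negSucc 383, .negSucc 76, .negSucc 258, .ofNat 1106, .ofNat 212⟩, ⟨.ofNat 852, .ofNat 263, .ofNat 184, .ofNat 102, .negSucc 460, .negSucc 97⟩, ⟨.ofNat 2342, .ofNat 315, .ofNat 40, .negSucc 469, .negSucc 1307, .negSucc 230⟩, ⟨.negSucc 3920, .negSucc 350, .negSucc 149, .negSucc 509, .ofNat 1915, .ofNat 369⟩, ⟨.negSucc 79, .ofNat 30, .negSucc 72, .negSucc 208, .ofNat 219, .ofNat 130⟩, .ofNat 541, .ofNat 522, .ofNat 0, .ofNat 522, .ofNat 1454, .ofNat 0, .ofNat 129, .negSucc 127, .negSucc 236, .ofNat 0, .ofNat 101, .ofNat 96, .ofNat 0, .ofNat 0, .ofNat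 446, .ofNat 146, .ofNat 0, .ofNat 0, .ofNat 0, .ofNat 0, .ofNat 0, .ofNat 26646680502322566814173892016357769216, .ofNat 5549250717223073568394548609024, .ofNat 0, .ofNat 0, .ofNat 14800367943100420406354786374998032384, .ofNat 0, .ofNat 0, .ofNat 0, .ofNat 0, .ofNat 0, .ofNat 0⟩)
    (by decide +kernel)
theorem L01979 : Good (Phi V5.P V5.D (-1) (-1)) ⟨4, 13, 3, 2, 1, 0, 2, 3, 4, 2⟩ :=
  leafX_sound T5.ok_mm T5.Ymm.bz_eq (w := 195) (c := ⟨⟨.negSucc 2778, .negSucc 408, .negSucc 49, .negSucc 362, .ofNat 1214, .ofNat 350⟩, ⟨.ofNat 1129, .ofNat 293, .ofNat 195, .ofNat 150, .negSucc 551, .negSucc 158⟩, ⟨.ofNat 2906, .ofNat 273, .negSucc 144, .negSucc 456, .negSucc 1395, .negSucc 344⟩, ⟨.negSucc 4268, .negSucc 307, .negSucc 103, .negSucc 695, .ofNat 1972, .ofNat 566⟩, ⟨.ofNat 15, .negSucc 54, .negSucc 18, .negSucc 293, .ofNat 213, .ofNat 59⟩, .ofNat 1115, .ofNat 1557, .ofNat 0, .ofNat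 1557, .ofNat 3355, .ofNat 0, .ofNat 128, .negSucc 243, .negSucc 418, .ofNat 0, .ofNat 166, .ofNat 200, .ofNat 0, .ofNat 0, .ofNat 745, .ofNat 160, .ofNat 0, .ofNat 0, .ofNat 2480781594461765693718545825792, .ofNat 0, .ofNat 0, .ofNat 31344567966012223770432641448212955136, .ofNat 922057355562959585608537819054080, .ofNat 0, .ofNat 0, .ofNat 39192139696105041338453893714949439488, .ofNat 656619645361942929884091319844864, .ofNat 0, .ofNat 0, .ofNat 0, .ofNat 428181432115076058110377429303296, .ofNat 0⟩)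
    (by decide +kernel)
theorem L01980 : Good (Phi V5.P V5.D (-1) (-1)) ⟨3, 7, 3, 2, 1, 0, 2, 3, 4, 2⟩ :=
  out_sound (S := T5.ds_mm) T5.ok_mm (w := 45) (j := 3) (by decide +kernel)
theorem L01981 : Good (Phi V5.P V5.D (-1) (-1)) ⟨2, 2, 3, 2, 1, 0, 2, 3, 4, 3⟩ :=
  leafX_sound T5.ok_mm T5.Ymm.bz_eq (w := 186) (c := ⟨⟨.negSucc 1665, .negSucc 543, .negSucc 73, .ofNat 13, .ofNat 868, .ofNat 147⟩, ⟨.ofNat 287, .ofNat 483, .ofNat 170, .negSucc 7, .negSucc 296, .negSucc 45⟩, ⟨.ofNat 1422, .ofNat 700, .negSucc 29, .negSucc 615, .negSucc 1100, .negSucc 132⟩, ⟨.negSucc 3809, .ofNat 99, .negSucc 134, .negSucc 16, .ofNat 1612, .ofNat 268⟩, ⟨.negSucc 400, .ofNat 372, .negSucc 40, .negSucc 100, .ofNat 298, .ofNat 28⟩, .ofNat 534, .ofNat 540, .ofNat 0, .ofNat 540, .ofNat 1821, .ofNat 0, .ofNat 128, .negSucc 136, .negSucc 134, .ofNat 0, .ofNat 96, .ofNat 45, .ofNat 0, .ofNat 0, .ofNat 378,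 .ofNat 278, .ofNat 0, .ofNat 0, .ofNat 86758241439234535212278194634752, .ofNat 0, .ofNat 0, .ofNat 220151464126374068925415054574092288, .ofNat 559272537269175202627445982232576, .ofNat 0, .ofNat 0, .ofNat 179660178606063543905338384262889472, .ofNat 2996036040404585370944490036002816, .ofNat 0, .ofNat 0, .ofNat 0, .ofNat 0, .ofNat 0⟩)
    (by decide +kernel)
theorem L01982 : Good (Phi V5.P V5.D (-1) (-1)) ⟨2, 3, 3, 2, 1, 0, 2, 3, 4, 3⟩ :=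
  leafX_sound T5.ok_mm T5.Ymm.bz_eq (w := 186) (c := ⟨⟨.negSucc 2287, .negSucc 749, .negSucc 20, .ofNat 113, .ofNat 774, .ofNat 167⟩, ⟨.ofNat 824, .ofNat 706, .ofNat 144, .negSucc 47, .negSucc 302, .negSucc 67⟩, ⟨.ofNat 2187, .ofNat 819, .ofNat 25, .negSucc 741, .negSucc 1033, .negSucc 215⟩, ⟨.negSucc 3843, .negSucc 200, .negSucc 10, .ofNat 152, .ofNat 1470, .ofNat 268⟩, ⟨.negSucc 138, .ofNat 197, .ofNat 9, .negSucc 0, .ofNat 296, .ofNat 72⟩, .ofNat 327, .ofNat 180, .ofNat 0, .ofNat 180, .ofNat 639, .ofNat 0, .ofNat 268, .negSucc 106, .negSucc 250, .ofNat 0, .ofNat 128, .ofNat 89, .ofNat 0, .ofNat 0, .ofNat 568, .ofNat 164, .ofNat 0, .ofNat 0, .ofNat 6825347884108706008589177716736, .ofNat 0, .ofNat 0, .ofNat 435521809553902342075949091160850432, .ofNat 177229284694141339946536457469952, .ofNat 0, .ofNat 0, .ofNat 28515537013032492192857448578547712, .ofNat 874205154128071163316810593337344,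 .ofNat 0, .ofNat 0, .ofNat 0, .ofNat 712125438230333984397950835490816, .ofNat 0⟩)
    (by decide +kernel)
theorem L01983 : Good (Phi V5.P V5.D (-1) (-1)) ⟨2, 2, 3, 3, 2, 0, 1, 1, 3, 0⟩ :=
  out_sound (S := T5.ds_mm) T5.ok_mm (w := 39) (j := 3) (by decide +kernel)
theorem L01984 : Good (Phi V5.P V5.D (-1) (-1)) ⟨4, 12, 3, 3, 2, 0, 2, 2, 4, 0⟩ :=
  leafX_sound T5.ok_mm T5.Ymm.bz_eq (w := 210) (c := ⟨⟨.ofNat 515, .negSucc 1132, .ofNat 59, .negSucc 73, .negSucc 738, .negSucc 2101⟩, ⟨.negSucc 298, .ofNat 584, .ofNat 133, .ofNat 43, .ofNat 340, .ofNat 965⟩, ⟨.negSucc 572, .ofNat 1107, .negSucc 98, .negSucc 282, .ofNat 721, .ofNat 2113⟩, ⟨.ofNat 726, .negSucc 1661, .negSucc 127, .negSucc 101, .negSucc 1284, .negSucc 3224⟩, ⟨.negSucc 3, .negSucc 130, .negSucc 520, .negSucc 12, .negSucc 165, .ofNat 287⟩, .ofNat 1058, .ofNat 1518, .ofNat 0, .ofNat 1518, .ofNat 3424, .ofNat 0, .ofNat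 128, .negSucc 303, .negSucc 932, .ofNat 0, .ofNat 190, .ofNat 429, .ofNat 0, .ofNat 0, .ofNat 1253, .ofNat 242, .ofNat 0, .ofNat 0, .ofNat 0, .ofNat 0, .ofNat 0, .ofNat 0, .ofNat 0, .ofNat 0, .ofNat 0, .ofNat 0, .ofNat 14495562387769737568194184082165334016, .ofNat 0, .ofNat 0, .ofNat 0, .ofNat 0, .ofNat 0⟩)
    (by decide +kernel)
theorem L01985 : Good (Phi V5.P V5.D (-1) (-1)) ⟨4, 13, 3, 3, 2, 0, 3, 4, 4, 0⟩ :=
  leafX_sound T5.ok_mm T5.Ymm.bz_eq (w := 213) (c := ⟨⟨.ofNat 318, .negSucc 1397, .ofNat 814, .ofNat 273, .negSucc 711, .negSucc 3613⟩, ⟨.negSucc 273, .ofNat 843, .negSucc 337, .negSucc 150, .ofNat 395, .ofNat 1901⟩, ⟨.negSucc 355, .ofNat 1326, .negSucc 788, .negSucc 612, .ofNat 683, .ofNat 3579⟩, ⟨.ofNat 323, .negSucc 2204, .ofNat 1408, .ofNat 252, .negSucc 1179, .negSucc 5172⟩, ⟨.negSucc 191, .negSucc 666, .ofNat 431, .negSucc 374, .negSucc 172, .ofNat 515⟩, .ofNat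 1161, .ofNat 1524, .ofNat 0, .ofNat 1524, .ofNat 2959, .ofNat 0, .ofNat 128, .negSucc 189, .negSucc 543, .ofNat 0, .ofNat 139, .ofNat 286, .ofNat 0, .ofNat 0, .ofNat 678, .ofNat 154, .ofNat 0, .ofNat 0, .ofNat 0, .ofNat 0, .ofNat 0, .ofNat 0, .ofNat 84662195307096321280566272348659908608, .ofNat 0, .ofNat 0, .ofNat 0, .ofNat 185873839627554789269350366619740667904, .ofNat 0, .ofNat 0, .ofNat 0, .ofNat 171345432773728059420848591558185844736, .ofNat 0⟩)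
    (by decide +kernel)
theorem L01986 : Good (Phi V5.P V5.D (-1) (-1)) ⟨4, 13, 3, 3, 2, 0, 3, 5, 4, 0⟩ :=
  leafX_sound T5.ok_mm T5.Ymm.bz_eq (w := 213) (c := ⟨⟨.negSucc 1349, .negSucc 1604, .ofNat 315, .ofNat 139, .negSucc 405, .negSucc 1622⟩, ⟨.ofNat 569, .ofNat 945, .ofNat 19, .negSucc 90, .ofNat 208, .ofNat 843⟩, ⟨.ofNat 1274, .ofNat 1571, .negSucc 320, .negSucc 526, .ofNat 402, .ofNat 1632⟩, ⟨.negSucc 2124, .negSucc 2199, .ofNat 554, .ofNat 141, .negSucc 649, .negSucc 2450⟩, ⟨.negSucc 64, .negSucc 19, .ofNat 104, .negSucc 195, .ofNat 34, .ofNat 47⟩, .ofNat 939, .ofNat 1147, .ofNat 0, .ofNat 1147, .ofNat 2293, .ofNat 0, .ofNat 128, .negSucc 194, .negSucc 762, .ofNat 0, .ofNat 146, .ofNat 398, .ofNat 0, .ofNat 0, .ofNat 953, .ofNat 243, .ofNat 0, .ofNat 0, .ofNat 0, .ofNat 0, .ofNat 0, .ofNat 0, .ofNat 48943038565170269224301160693701279744, .ofNat 0, .ofNat 0, .ofNat 0,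 .ofNat 80829340621348046894003827171471130624, .ofNat 0, .ofNat 0, .ofNat 0, .ofNat 0, .ofNat 0⟩)
    (by decide +kernel)
theorem L01987 : Good (Phi V5.P V5.D (-1) (-1)) ⟨3, 6, 3, 3, 2, 0, 2, 2, 4, 1⟩ :=
  leafX_sound T5.ok_mm T5.Ymm.bz_eq (w := 205) (c := ⟨⟨.negSucc 2530, .negSucc 886, .negSucc 46, .negSucc 379, .ofNat 248, .ofNat 73⟩, ⟨.ofNat 1043, .ofNat 674, .ofNat 247, .ofNat 197, .negSucc 126, .negSucc 34⟩, ⟨.ofNat 2511, .ofNat 823, .ofNat 46, .negSucc 17, .negSucc 290, .negSucc 12⟩, ⟨.negSucc 4341, .negSucc 482, .negSucc 147, .negSucc 679, .ofNat 375, .ofNat 226⟩, ⟨.negSucc 209, .ofNat 489, .negSucc 219, .negSucc 248, .ofNat 14, .ofNat 250⟩, .ofNat 1131, .ofNat 1565, .ofNat 0, .ofNat 1565, .ofNat 3237, .ofNat 0, .ofNat 128, .negSucc 337, .negSucc 628, .ofNat 0, .ofNat 222, .ofNat 317, .ofNat 0, .ofNat 0, .ofNat 1070, .ofNat 302, .ofNat 0, .ofNat 0, .ofNat 407754672258929083413636824493457408,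 .ofNat 0, .ofNat 0, .ofNat 0, .ofNat 63012058862676278005309192089219629056, .ofNat 0, .ofNat 0, .ofNat 0, .ofNat 91145173435000912061379599940783702016, .ofNat 0, .ofNat 0, .ofNat 0, .ofNat 0, .ofNat 0⟩)
    (by decide +kernel)
theorem L01988 : Good (Phi V5.P V5.D (-1) (-1)) ⟨4, 12, 3, 3, 2, 0, 2, 3, 4, 0⟩ :=
  leafX_sound T5.ok_mm T5.Ymm.bz_eq (w := 210) (c := ⟨⟨.negSucc 2465, .negSucc 843, .ofNat 424, .ofNat 138, .ofNat 1731, .negSucc 85⟩, ⟨.ofNat 1071, .ofNat 463, .negSucc 21, .negSucc 75, .negSucc 804, .ofNat 47⟩, ⟨.ofNat 2405, .ofNat 855, .negSucc 446, .negSucc 523, .negSucc 1835, .ofNat 61⟩, ⟨.negSucc 4152, .negSucc 1030, .ofNat 556, .ofNat 197, .ofNat 2774, .negSucc 94⟩, ⟨.negSucc 242, .ofNat 314, .negSucc 321, .negSucc 153, .negSucc 36, .ofNat 94⟩, .ofNat 743, .ofNat 943, .ofNat 0, .ofNat 943, .ofNat 2288, .ofNat 0, .ofNat 128, .negSucc 266, .negSucc 1087, .ofNat 0,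 .ofNat 169, .ofNat 482, .ofNat 0, .ofNat 0, .ofNat 1409, .ofNat 402, .ofNat 0, .ofNat 0, .ofNat 0, .ofNat 0, .ofNat 0, .ofNat 0, .ofNat 0, .ofNat 0, .ofNat 0, .ofNat 37980890615444778308458791055139381706752, .ofNat 2367563222672187118252405464066162688, .ofNat 0, .ofNat 0, .ofNat 0, .ofNat 0, .ofNat 0⟩)
    (by decide +kernel)
theorem L01989 : Good (Phi V5.P V5.D (-1) (-1)) ⟨5, 26, 3, 3, 2, 0, 2, 3, 4, 0⟩ :=
  leafX_sound T5.ok_mm T5.Ymm.bz_eq (w := 214) (c := ⟨⟨.negSucc 3348, .negSucc 620, .ofNat 308, .ofNat 9, .ofNat 1799, .ofNat 65⟩, ⟨.ofNat 1610, .ofNat 361, .ofNat 10, .negSucc 16, .negSucc 924, .negSucc 29⟩, ⟨.ofNat 3313, .ofNat 621, .negSucc 322, .negSucc 407, .negSucc 1910, .negSucc 102⟩, ⟨.negSucc 5415, .negSucc 804, .ofNat 628, .negSucc 1, .ofNat 2707, .ofNat 386⟩, ⟨.negSucc 553, .ofNat 25, .ofNat 360, .negSucc 85, .negSucc 81, .ofNat 598⟩, .ofNat 1068, .ofNat 1425,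 .ofNat 0, .ofNat 1425, .ofNat 2914, .ofNat 0, .ofNat 128, .negSucc 198, .negSucc 925, .ofNat 0, .ofNat 137, .ofNat 470, .ofNat 0, .ofNat 0, .ofNat 1159, .ofNat 165, .ofNat 0, .ofNat 0, .ofNat 0, .ofNat 0, .ofNat 0, .ofNat 0, .ofNat 0, .ofNat 0, .ofNat 0, .ofNat 0, .ofNat 924549450094822298990756467929251840, .ofNat 0, .ofNat 0, .ofNat 0, .ofNat 0, .ofNat 0⟩)
    (by decide +kernel)
theorem L01990 : Good (Phi V5.P V5.D (-1) (-1)) ⟨5, 27, 3, 3, 2, 0, 2, 3, 4, 0⟩ :=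
  leafX_sound T5.ok_mm T5.Ymm.bz_eq (w := 215) (c := ⟨⟨.negSucc 4511, .negSucc 1066, .ofNat 708, .ofNat 132, .ofNat 1708, .ofNat 257⟩, ⟨.ofNat 2334, .ofNat 660, .negSucc 226, .negSucc 82, .negSucc 949, .negSucc 136⟩, ⟨.ofNat 4364, .ofNat 985, .negSucc 590, .negSucc 541, .negSucc 1809, .negSucc 296⟩, ⟨.negSucc 6684, .negSucc 1395, .ofNat 963, .ofNat 126, .ofNat 2564, .ofNat 458⟩, ⟨.negSucc 8, .ofNat 6, .negSucc 84, .negSucc 159, .ofNat 37, .ofNat 143⟩, .ofNat 1106, .ofNat 1370, .ofNat 0, .ofNat 1370, .ofNat 2564, .ofNat 0, .ofNat 128, .negSucc 239, .negSucc 1437, .ofNat 0, .ofNat 192, .ofNat 776, .ofNat 0, .ofNat 0, .ofNat 1739, .ofNat 237, .ofNat 0, .ofNat 0, .ofNat 34845337342433763558041401969082368, .ofNat 0, .ofNat 0, .ofNat 0, .ofNat 2811192815134952140090425097718857728, .ofNat 0, .ofNat 0, .ofNat 0, .ofNat 7529161607859548408122453619690700800, .ofNat 0, .ofNat 0, .ofNat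 0, .ofNat 0, .ofNat 0⟩)
    (by decide +kernel)
theorem L01991 : Good (Phi V5.P V5.D (-1) (-1)) ⟨4, 12, 3, 3, 2, 0, 2, 3, 4, 1⟩ :=
  leafX_sound T5.ok_mm T5.Ymm.bz_eq (w := 210) (c := ⟨⟨.negSucc 2601, .negSucc 526, .ofNat 115, .negSucc 134, .ofNat 1483, .ofNat 255⟩, ⟨.ofNat 1117, .ofNat 336, .ofNat 105, .ofNat 58, .negSucc 685, .negSucc 111⟩, ⟨.ofNat 2549, .ofNat 518, .negSucc 129, .negSucc 215, .negSucc 1668, .negSucc 272⟩, ⟨.negSucc 4401, .negSucc 467, .ofNat 236, .negSucc 211, .ofNat 2385, .ofNat 409⟩, ⟨.negSucc 247, .ofNat 241, .ofNat 153, .ofNat 4, .ofNat 43, .ofNat 10⟩, .ofNat 1066, .ofNat 1540, .ofNat 0, .ofNat 1540, .ofNat 3480, .ofNat 0, .ofNat 128, .negSucc 359, .negSucc 751, .ofNat 0, .ofNat 224, .ofNat 346, .ofNat 0, .ofNat 0, .ofNat 1201, .ofNat 230, .ofNat 0, .ofNat 0, .ofNat 48162550995032601667580512847265792, .ofNat 0, .ofNat 0, .ofNat 105538799109552373453989456939630580465664,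 .ofNat 1655295033658956257438728788060930048, .ofNat 0, .ofNat 0, .ofNat 573047452303203881018641046227675456208896, .ofNat 5621790520973905828890094343483817984, .ofNat 0, .ofNat 0, .ofNat 0, .ofNat 0, .ofNat 0⟩)
    (by decide +kernel)
theorem L01992 : Good (Phi V5.P V5.D (-1) (-1)) ⟨4, 13, 3, 3, 2, 0, 2, 3, 4, 1⟩ :=
  leafX_sound T5.ok_mm T5.Ymm.bz_eq (w := 209) (c := ⟨⟨.negSucc 3078, .negSucc 429, .negSucc 72, .negSucc 107, .ofNat 1575, .ofNat 231⟩, ⟨.ofNat 1467, .ofNat 324, .ofNat 214, .ofNat 55, .negSucc 812, .negSucc 124⟩, ⟨.ofNat 3029, .ofNat 420, .ofNat 68, .negSucc 270, .negSucc 1766, .negSucc 245⟩, ⟨.negSucc 4761, .negSucc 456, .negSucc 62, .negSucc 179, .ofNat 2371, .ofNat 399⟩, ⟨.negSucc 8, .negSucc 74, .ofNat 28, .negSucc 95, .negSucc 122, .ofNat 130⟩, .ofNat 939, .ofNat 1147, .ofNat 0, .ofNat 1147, .ofNat 2293, .ofNat 0, .ofNat 128, .negSucc 218, .negSucc 555,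 .ofNat 0, .ofNat 164, .ofNat 291, .ofNat 0, .ofNat 0, .ofNat 840, .ofNat 116, .ofNat 0, .ofNat 0, .ofNat 77609050454893335045856340563984384, .ofNat 0, .ofNat 0, .ofNat 0, .ofNat 1713536786116508658410578020214505472, .ofNat 0, .ofNat 0, .ofNat 146551438443999708673363423271621291409408, .ofNat 4048168222682244080838920265537683456, .ofNat 0, .ofNat 0, .ofNat 621314806379183023289889352265329174118400, .ofNat 4783867691186152672846819333471469568, .ofNat 0⟩)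
    (by decide +kernel)
theorem L01993 : Good (Phi V5.P V5.D (-1) (-1)) ⟨3, 7, 3, 3, 2, 0, 1, 1, 3, 0⟩ :=
  out_sound (S := T5.ds_mm) T5.ok_mm (w := 45) (j := 3) (by decide +kernel)
theorem L01994 : Good (Phi V5.P V5.D (-1) (-1)) ⟨2, 2, 3, 3, 2, 0, 1, 1, 3, 1⟩ :=
  out_sound (S := T5.ds_mm) T5.ok_mm (w := 39) (j := 3) (by decide +kernel)
theorem L01995 : Good (Phi V5.P V5.D (-1) (-1)) ⟨3, 6, 3, 3, 2, 0, 2, 2, 3, 1⟩ :=
  leafX_sound T5.ok_mm T5.Ymm.bz_eq (w := 200) (c := ⟨⟨.negSucc 2885, .negSucc 517, .ofNat 2, .negSucc 123, .ofNat 312, .ofNat 606⟩, ⟨.ofNat 1246, .ofNat 483, .ofNat 178, .ofNat 59, .negSucc 153, .negSucc 301⟩, ⟨.ofNat 2848, .ofNat 540, .negSucc 28, .negSucc 125, .negSucc 490, .negSucc 484⟩, ⟨.negSucc 4754, .negSucc 182, .ofNat 6, .negSucc 233, .ofNat 493, .ofNat 934⟩, ⟨.negSucc 31, .ofNat 33, .ofNat 18, .negSucc 91, .ofNat 33, .ofNat 20⟩, .ofNat 627, .ofNat 662,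 .ofNat 0, .ofNat 662, .ofNat 1532, .ofNat 0, .ofNat 128, .negSucc 219, .negSucc 155, .ofNat 0, .ofNat 170, .ofNat 75, .ofNat 0, .ofNat 0, .ofNat 441, .ofNat 947, .ofNat 0, .ofNat 0, .ofNat 0, .ofNat 0, .ofNat 0, .ofNat 0, .ofNat 0, .ofNat 0, .ofNat 0, .ofNat 0, .ofNat 1942165469318239710250118454014115840, .ofNat 0, .ofNat 0, .ofNat 0, .ofNat 0, .ofNat 0⟩)
    (by decide +kernel)
theorem L01996 : Good (Phi V5.P V5.D (-1) (-1)) ⟨4, 12, 3, 3, 2, 0, 2, 3, 3, 1⟩ :=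
  leafX_sound T5.ok_mm T5.Ymm.bz_eq (w := 203) (c := ⟨⟨.negSucc 2521, .negSucc 202, .negSucc 61, .ofNat 64, .ofNat 924, .ofNat 398⟩, ⟨.ofNat 1075, .ofNat 194, .ofNat 171, .negSucc 29, .negSucc 426, .negSucc 180⟩, ⟨.ofNat 2379, .ofNat 251, .ofNat 80, .negSucc 339, .negSucc 1172, .negSucc 421⟩, ⟨.negSucc 4188, .negSucc 62, .negSucc 71, .ofNat 104, .ofNat 1557, .ofNat 617⟩, ⟨.negSucc 57, .ofNat 20, .ofNat 49, .ofNat 0, .ofNat 114, .negSucc 0⟩, .ofNat 616, .ofNat 664, .ofNat 0, .ofNat 664, .ofNat 1644, .ofNat 0, .ofNat 128, .negSucc 169, .negSucc 228, .ofNat 0, .ofNat 126, .ofNat 102, .ofNat 0, .ofNat 0, .ofNat 513, .ofNat 182, .ofNat 0, .ofNat 0, .ofNat 0, .ofNat 0, .ofNat 0, .ofNat 0, .ofNat 0, .ofNat 0, .ofNat 0, .ofNat 30948116451733783041143226188552978038784, .ofNat 48603794686508266993318993271455744, .ofNat 0, .ofNat 0, .ofNat 0, .ofNat 0, .ofNat 0⟩)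
    (by decide +kernel)
theorem L01997 : Good (Phi V5.P V5.D (-1) (-1)) ⟨4, 13, 3, 3, 2, 0, 2, 3, 3, 1⟩ :=
  leafX_sound T5.ok_mm T5.Ymm.bz_eq (w := 203) (c := ⟨⟨.negSucc 2804, .negSucc 371, .ofNat 6, .ofNat 21, .ofNat 888, .ofNat 552⟩, ⟨.ofNat 1349, .ofNat 314, .ofNat 142, .negSucc 13, .negSucc 471, .negSucc 302⟩, ⟨.ofNat 2695, .ofNat 368, .negSucc 30, .negSucc 302, .negSucc 1130, .negSucc 544⟩, ⟨.negSucc 4331, .negSucc 256, .negSucc 7, .ofNat 35, .ofNat 1452, .ofNat 820⟩, ⟨.negSucc 53, .ofNat 56, .negSucc 9, .ofNat 19, .ofNat 98, .ofNat 18⟩, .ofNat 648, .ofNat 683, .ofNat 0, .ofNat 683, .ofNat 1489, .ofNat 0, .ofNat 128, .negSucc 227, .negSucc 290, .ofNat 0, .ofNat 178, .ofNat 147, .ofNat 0, .ofNat 0, .ofNat 626, .ofNat 130, .ofNat 0, .ofNat 0, .ofNat 965350282697458161317939158974464, .ofNat 0, .ofNat 0, .ofNat 28754088478240669047296046334415755804672, .ofNat 69326211897373008334911523354836992,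 .ofNat 0, .ofNat 0, .ofNat 40468101973677250137287073307786829889536, .ofNat 113101206291271129139553366009970688, .ofNat 0, .ofNat 0, .ofNat 0, .ofNat 0, .ofNat 0⟩)
    (by decide +kernel)
theorem L01998 : Good (Phi V5.P V5.D (-1) (-1)) ⟨3, 7, 3, 3, 2, 0, 1, 1, 3, 1⟩ :=
  out_sound (S := T5.ds_mm) T5.ok_mm (w := 45) (j := 3) (by decide +kernel)
theorem L01999 : Good (Phi V5.P V5.D (-1) (-1)) ⟨2, 2, 3, 3, 2, 1, 2, 2, 3, 0⟩ :=
  out_sound (S := T5.ds_mm) T5.ok_mm (w := 39) (j := 3) (by decide +kernel)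
theorem L02000 : Good (Phi V5.P V5.D (-1) (-1)) ⟨4, 12, 3, 3, 2, 1, 2, 2, 4, 0⟩ :=
  leafX_sound T5.ok_mm T5.Ymm.bz_eq (w := 210) (c := ⟨⟨.ofNat 872, .negSucc 88, .ofNat 111, .ofNat 1639, .negSucc 1385, .negSucc 3794⟩, ⟨.negSucc 457, .ofNat 64, .ofNat 39, .negSucc 793, .ofNat 656, .ofNat 1785⟩, ⟨.negSucc 1032, .ofNat 140, .negSucc 327, .negSucc 1573, .ofNat 1190, .ofNat 3329⟩, ⟨.ofNat 1113, .ofNat 63, .negSucc 96, .ofNat 2161, .negSucc 2154, .negSucc 5852⟩, ⟨.negSucc 274, .ofNat 92, .negSucc 324, .negSucc 902, .ofNat 52, .ofNat 168⟩, .ofNat 1039, .ofNat 1471, .ofNat 0, .ofNat 1471, .ofNat 3302, .ofNat 0, .ofNat 128, .negSucc 313, .negSucc 799, .ofNat 0, .ofNat 191, .ofNat 375, .ofNat 0, .ofNat 0, .ofNat 966, .ofNat 391, .ofNat 0, .ofNat 0, .ofNat 0, .ofNat 0, .ofNat 0, .ofNat 0, .ofNat 5037748247298119458594378418631999488, .ofNat 0, .ofNat 0, .ofNat 0, .ofNat 16150094539861568669922988519820623872,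 .ofNat 0, .ofNat 0, .ofNat 0, .ofNat 0, .ofNat 0⟩)
    (by decide +kernel)
theorem L02001 : Good (Phi V5.P V5.D (-1) (-1)) ⟨4, 13, 3, 3, 2, 1, 2, 2, 4, 0⟩ :=
  leafX_sound T5.ok_mm T5.Ymm.bz_eq (w := 210) (c := ⟨⟨.ofNat 1612, .negSucc 75, .negSucc 726, .ofNat 1251, .negSucc 1247, .negSucc 3771⟩, ⟨.negSucc 931, .negSucc 200, .ofNat 626, .negSucc 685, .ofNat 690, .ofNat 1912⟩, ⟨.negSucc 1638, .negSucc 164, .ofNat 685, .negSucc 1278, .ofNat 1055, .ofNat 3435⟩, ⟨.ofNat 2155, .ofNat 148, .negSucc 1043, .ofNat 1615, .negSucc 2055, .negSucc 5556⟩, ⟨.negSucc 627, .ofNat 1031, .negSucc 347, .negSucc 461, .negSucc 83, .ofNat 450⟩, .ofNat 600, .ofNat 590, .ofNat 0, .ofNat 590, .ofNat 1295, .ofNat 0, .ofNat 128, .negSucc 302, .negSucc 840, .ofNat 0, .ofNat 239, .ofNat 430, .ofNat 0, .ofNat 0, .ofNat 923, .ofNat 256, .ofNat 0, .ofNat 0, .ofNat 133559073618934308458551564042240000, .ofNat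 0, .ofNat 0, .ofNat 0, .ofNat 5300424384812247783481131447269457920, .ofNat 0, .ofNat 0, .ofNat 0, .ofNat 0, .ofNat 0, .ofNat 0, .ofNat 0, .ofNat 17416357558535562333361355132671885312, .ofNat 0⟩)
    (by decide +kernel)
theorem L02002 : Good (Phi V5.P V5.D (-1) (-1)) ⟨4, 12, 3, 3, 2, 1, 2, 2, 4, 1⟩ :=
  leafX_sound T5.ok_mm T5.Ymm.bz_eq (w := 209) (c := ⟨⟨.negSucc 1922, .negSucc 1132, .ofNat 490, .negSucc 62, .ofNat 146, .negSucc 583⟩, ⟨.ofNat 768, .ofNat 645, .negSucc 15, .ofNat 13, .negSucc 61, .ofNat 279⟩, ⟨.ofNat 1488, .ofNat 1031, .negSucc 465, .negSucc 418, .negSucc 84, .ofNat 610⟩, ⟨.negSucc 3402, .negSucc 1366, .ofNat 721, .negSucc 300, .ofNat 260, .negSucc 865⟩, ⟨.negSucc 305, .ofNat 164, .negSucc 47, .negSucc 460, .ofNat 96, .ofNat 158⟩, .ofNat 614, .ofNat 663, .ofNat 0, .ofNat 663, .ofNat 1652, .ofNat 0, .ofNat 128, .negSucc 310, .negSucc 529, .ofNat 0, .ofNat 213,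 .ofNat 242, .ofNat 0, .ofNat 0, .ofNat 769, .ofNat 631, .ofNat 0, .ofNat 0, .ofNat 0, .ofNat 0, .ofNat 0, .ofNat 0, .ofNat 3741148521947031963992678326217998336, .ofNat 0, .ofNat 0, .ofNat 0, .ofNat 0, .ofNat 0, .ofNat 0, .ofNat 0, .ofNat 0, .ofNat 0⟩)
    (by decide +kernel)
theorem L02003 : Good (Phi V5.P V5.D (-1) (-1)) ⟨4, 13, 3, 3, 2, 1, 2, 2, 4, 1⟩ :=
  leafX_sound T5.ok_mm T5.Ymm.bz_eq (w := 210) (c := ⟨⟨.negSucc 3179, .negSucc 601, .ofNat 34, .negSucc 278, .ofNat 234, .negSucc 150⟩, ⟨.ofNat 1466, .ofNat 461, .ofNat 211, .ofNat 129, .negSucc 120, .ofNat 84⟩, ⟨.ofNat 2678, .ofNat 496, .negSucc 37, .negSucc 279, .negSucc 158, .ofNat 212⟩, ⟨.negSucc 5068, .negSucc 359, .ofNat 17, .negSucc 529, .ofNat 350, .negSucc 119⟩, ⟨.negSucc 354, .ofNat 329, .negSucc 27, .negSucc 192, .ofNat 15, .ofNat 222⟩, .ofNat 1150, .ofNat 1550, .ofNat 0, .ofNat 1550, .ofNat 3074, .ofNat 0, .ofNat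 128, .negSucc 332, .negSucc 703, .ofNat 0, .ofNat 218, .ofNat 375, .ofNat 0, .ofNat 0, .ofNat 997, .ofNat 217, .ofNat 0, .ofNat 0, .ofNat 316020386352433004708226550680518656, .ofNat 0, .ofNat 0, .ofNat 0, .ofNat 11394536957781725328931715452864823296, .ofNat 0, .ofNat 0, .ofNat 0, .ofNat 19544107669960194349726186212677386240, .ofNat 0, .ofNat 0, .ofNat 0, .ofNat 0, .ofNat 0⟩)
    (by decide +kernel)
theorem L02004 : Good (Phi V5.P V5.D (-1) (-1)) ⟨3, 7, 3, 3, 2, 1, 2, 2, 3, 0⟩ :=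
  out_sound (S := T5.ds_mm) T5.ok_mm (w := 45) (j := 3) (by decide +kernel)
theorem L02005 : Good (Phi V5.P V5.D (-1) (-1)) ⟨2, 2, 3, 3, 2, 1, 2, 2, 3, 1⟩ :=
  out_sound (S := T5.ds_mm) T5.ok_mm (w := 39) (j := 3) (by decide +kernel)
theorem L02006 : Good (Phi V5.P V5.D (-1) (-1)) ⟨3, 6, 3, 3, 2, 1, 2, 2, 3, 1⟩ :=
  leafX_sound T5.ok_mm T5.Ymm.bz_eq (w := 200) (c := ⟨⟨.negSucc 3206, .negSucc 757, .ofNat 35, .negSucc 186, .ofNat 563, .ofNat 927⟩, ⟨.ofNat 1393, .ofNat 606, .ofNat 205, .ofNat 84, .negSucc 291, .negSucc 468⟩, ⟨.ofNat 2839, .ofNat 833, .negSucc 149, .negSucc 436, .negSucc 621, .negSucc 707⟩, ⟨.negSucc 5307, .negSucc 500, .ofNat 8, .negSucc 451, .ofNat 901, .ofNat 1462⟩, ⟨.negSucc 149, .ofNat 87, .negSucc 123, .negSucc 308, .ofNat 107, .ofNat 135⟩, .ofNat 634, .ofNat 676, .ofNat 0, .ofNat 676, .ofNat 1554, .ofNat 0, .ofNat 128, .negSucc 297, .negSucc 293, .ofNat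 0, .ofNat 216, .ofNat 147, .ofNat 0, .ofNat 0, .ofNat 686, .ofNat 464, .ofNat 0, .ofNat 0, .ofNat 12057461700117059792901915797356544, .ofNat 0, .ofNat 0, .ofNat 0, .ofNat 245374889819771181014024846059765760, .ofNat 0, .ofNat 0, .ofNat 0, .ofNat 1555347803284646643450510070570287104, .ofNat 0, .ofNat 0, .ofNat 0, .ofNat 0, .ofNat 0⟩)
    (by decide +kernel)
theorem L02007 : Good (Phi V5.P V5.D (-1) (-1)) ⟨3, 7, 3, 3, 2, 1, 2, 2, 3, 1⟩ :=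
  out_sound (S := T5.ds_mm) T5.ok_mm (w := 45) (j := 3) (by decide +kernel)
theorem L02008 : Good (Phi V5.P V5.D (-1) (-1)) ⟨2, 2, 3, 3, 2, 1, 2, 3, 4, 0⟩ :=
  out_sound (S := T5.ds_mm) T5.ok_mm (w := 39) (j := 3) (by decide +kernel)
theorem L02009 : Good (Phi V5.P V5.D (-1) (-1)) ⟨4, 12, 3, 3, 2, 1, 2, 3, 4, 0⟩ :=
  leafX_sound T5.ok_mm T5.Ymm.bz_eq (w := 211) (c := ⟨⟨.negSucc 792, .negSucc 797, .negSucc 35, .ofNat 647, .ofNat 1016, .negSucc 1881⟩, ⟨.ofNat 307, .ofNat 419, .ofNat 141, .negSucc 309, .negSucc 475, .ofNat 876⟩, ⟨.ofNat 466, .ofNat 696, .ofNat 24, .negSucc 736, .negSucc 1054, .ofNat 1701⟩, ⟨.negSucc 1739, .negSucc 1157, .ofNat 205, .ofNat 840, .ofNat 1876, .negSucc 2719⟩, ⟨.negSucc 821, .negSucc 207, .ofNat 675, .negSucc 407, .ofNat 624, .ofNat 593⟩, .ofNat 1080, .ofNat 1565, .ofNat 0, .ofNat 1565, .ofNat 3524, .ofNat 0, .ofNat 128, .negSucc 261, .negSucc 1317,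 .ofNat 0, .ofNat 158, .ofNat 611, .ofNat 0, .ofNat 0, .ofNat 1556, .ofNat 237, .ofNat 0, .ofNat 0, .ofNat 138121870999697443140928778637672448, .ofNat 0, .ofNat 0, .ofNat 0, .ofNat 0, .ofNat 0, .ofNat 0, .ofNat 0, .ofNat 9564993368357978338757949127554760704, .ofNat 0, .ofNat 0, .ofNat 0, .ofNat 0, .ofNat 0⟩)
    (by decide +kernel)
theorem L02010 : Good (Phi V5.P V5.D (-1) (-1)) ⟨5, 26, 3, 3, 2, 1, 3, 6, 4, 0⟩ :=
  leafX_sound T5.ok_mm T5.Ymm.bz_eq (w := 218) (c := ⟨⟨.negSucc 1483, .negSucc 568, .ofNat 234, .ofNat 863, .ofNat 93, .negSucc 1917⟩, ⟨.ofNat 641, .ofNat 323, .ofNat 58, .negSucc 466, .negSucc 48, .ofNat 996⟩, ⟨.ofNat 1086, .ofNat 522, .negSucc 221, .negSucc 981, .negSucc 81, .ofNat 1724⟩, ⟨.negSucc 2369, .negSucc 810, .ofNat 160, .ofNat 975, .ofNat 183, .negSucc 2721⟩, ⟨.negSucc 205, .negSucc 96, .negSucc 388, .negSucc 664, .ofNat 150, .ofNat 419⟩, .ofNat 1125,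 .ofNat 1531, .ofNat 0, .ofNat 1531, .ofNat 3108, .ofNat 0, .ofNat 128, .negSucc 212, .negSucc 919, .ofNat 0, .ofNat 139, .ofNat 473, .ofNat 0, .ofNat 0, .ofNat 1066, .ofNat 266, .ofNat 0, .ofNat 0, .ofNat 0, .ofNat 0, .ofNat 0, .ofNat 0, .ofNat 0, .ofNat 0, .ofNat 0, .ofNat 0, .ofNat 873882691966091060596117066943037440, .ofNat 0, .ofNat 0, .ofNat 0, .ofNat 0, .ofNat 0⟩)
    (by decide +kernel)
theorem L02011 : Good (Phi V5.P V5.D (-1) (-1)) ⟨5, 26, 3, 3, 3, 2, 3, 7, 4, 0⟩ :=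
  leafX_sound T5.ok_mm T5.Ymm.bz_eq (w := 232) (c := ⟨⟨.negSucc 2509, .negSucc 527, .ofNat 220, .ofNat 264, .ofNat 2353, .negSucc 651⟩, ⟨.ofNat 1187, .ofNat 291, .ofNat 28, .negSucc 144, .negSucc 1228, .ofNat 359⟩, ⟨.ofNat 2078, .ofNat 492, .negSucc 210, .negSucc 358, .negSucc 2411, .ofNat 537⟩, ⟨.negSucc 4123, .negSucc 726, .ofNat 455, .ofNat 314, .ofNat 3566, .negSucc 811⟩, ⟨.negSucc 568, .negSucc 42, .ofNat 313, .negSucc 176, .ofNat 16, .ofNat 296⟩, .ofNat 1068, .ofNat 1425, .ofNat 0, .ofNat 1425, .ofNat 2914, .ofNat 0, .ofNat 128, .negSucc 180, .negSucc 1086, .ofNat 0, .ofNat 123, .ofNat 554, .ofNat 0, .ofNat 0, .ofNat 1252, .ofNat 207, .ofNat 0, .ofNat 0, .ofNat 0, .ofNat 0, .ofNat 0, .ofNat 0, .ofNat 0, .ofNat 0, .ofNat 0, .ofNat 0, .ofNat 0, .ofNat 0, .ofNat 0, .ofNat 0, .ofNat 0, .ofNat 0⟩)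
    (by decide +kernel)

end Crest.Agent.R097C5.N5mm
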