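import Crest.Agent.R097.KP7
import Crest.Agent.R097.T5Ymm

/-!
# Row 97, box cover in dimension n = 5 (generated)
-/

set_option autoImplicit false
set_option Elab.async false
set_option maxHeartbeats 0
set_option maxRecDepth 100000

open Crest.Agent.R097 Crest.Agent.R097.KA


namespace Crest.Agent.R097C5.N5mm

theorem L02012 : Good (Phi V5.P V5.D (-1) (-1)) ⟨5, 26, 3, 3, 3, 3, 3, 7, 4, 0⟩ :=
  leafX_sound T5.ok_mm T5.Ymm.bz_eq (w := 232) (c := ⟨⟨.negSucc 1775, .negSucc 403, .ofNat 571, .ofNat 425, .ofNat 1751, .negSucc 1583⟩, ⟨.ofNat 798, .ofNat 233, .negSucc 172, .negSucc 224, .negSucc 903, .ofNat 840⟩, ⟨.ofNat 1294, .ofNat 356, .negSucc 522, .negSucc 403, .negSucc 1798, .ofNat 1333⟩, ⟨.negSucc 3077, .negSucc 529, .ofNat 843, .ofNat 581, .ofNat 2729, .negSucc 2250⟩, ⟨.negSucc 688, .ofNat 2, .ofNat 14, .negSucc 108, .ofNat 131, .ofNat 231⟩, .ofNat 849, .ofNat 1036, .ofNat 0, .ofNat 1036, .ofNat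 2188, .ofNat 0, .ofNat 128, .negSucc 226, .negSucc 1571, .ofNat 0, .ofNat 158, .ofNat 790, .ofNat 0, .ofNat 0, .ofNat 1730, .ofNat 417, .ofNat 0, .ofNat 0, .ofNat 0, .ofNat 0, .ofNat 0, .ofNat 0, .ofNat 0, .ofNat 0, .ofNat 0, .ofNat 0, .ofNat 0, .ofNat 0, .ofNat 0, .ofNat 0, .ofNat 0, .ofNat 0⟩)
    (by decide +kernel)
theorem L02013 : Good (Phi V5.P V5.D (-1) (-1)) ⟨6, 54, 3, 3, 2, 1, 3, 6, 4, 0⟩ :=
  leafX_sound T5.ok_mm T5.Ymm.bz_eq (w := 223) (c := ⟨⟨.negSucc 2911, .negSucc 250, .ofNat 1511, .ofNat 1058, .negSucc 234, .negSucc 2283⟩, ⟨.ofNat 1412, .ofNat 150, .negSucc 647, .negSucc 612, .ofNat 134, .ofNat 1282⟩, ⟨.ofNat 2271, .ofNat 98, .negSucc 1180, .negSucc 1186, .ofNat 203, .ofNat 2059⟩, ⟨.negSucc 4443, .negSucc 375, .ofNat 2186, .ofNat 1320, .negSucc 344, .negSucc 3294⟩, ⟨.negSucc 304, .negSucc 139, .ofNat 14, .negSucc 461, .ofNat 4, .ofNat 161⟩, .ofNat 1191, .ofNat 1542, .ofNat 0, .ofNat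 1542, .ofNat 2921, .ofNat 0, .ofNat 128, .negSucc 301, .negSucc 1363, .ofNat 0, .ofNat 223, .ofNat 736, .ofNat 0, .ofNat 0, .ofNat 1536, .ofNat 652, .ofNat 0, .ofNat 0, .ofNat 0, .ofNat 0, .ofNat 0, .ofNat 0, .ofNat 15902265097931970518310368841289433088, .ofNat 0, .ofNat 0, .ofNat 0, .ofNat 70080408505391316679246522960897376256, .ofNat 0, .ofNat 0, .ofNat 0, .ofNat 0, .ofNat 0⟩)
    (by decide +kernel)
theorem L02014 : Good (Phi V5.P V5.D (-1) (-1)) ⟨6, 55, 3, 3, 2, 1, 3, 6, 4, 0⟩ :=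
  out_sound (S := T5.ds_mm) T5.ok_mm (w := 63) (j := 3) (by decide +kernel)
theorem L02015 : Good (Phi V5.P V5.D (-1) (-1)) ⟨6, 54, 3, 3, 2, 1, 3, 7, 4, 0⟩ :=
  leafX_sound T5.ok_mm T5.Ymm.bz_eq (w := 222) (c := ⟨⟨.negSucc 1802, .negSucc 753, .negSucc 622, .ofNat 536, .ofNat 2252, .negSucc 1078⟩, ⟨.ofNat 851, .ofNat 424, .ofNat 481, .negSucc 316, .negSucc 1251, .ofNat 608⟩, ⟨.ofNat 1546, .ofNat 752, .ofNat 418, .negSucc 640, .negSucc 2286, .ofNat 903⟩, ⟨.negSucc 3203, .negSucc 945, .negSucc 695, .ofNat 590, .ofNat 3461, .negSucc 1394⟩, ⟨.negSucc 765, .ofNat 160, .ofNat 288, .negSucc 382, .ofNat 99, .ofNat 332⟩, .ofNat 587, .ofNat 560, .ofNat 0, .ofNat 560, .ofNat 1215, .ofNat 0, .ofNat 128, .negSucc 150, .negSucc 1684, .ofNat 0, .ofNat 130, .ofNat 858, .ofNat 0, .ofNat 0, .ofNat 1816, .ofNat 167, .ofNat 0, .ofNat 0, .ofNat 457164332542619449281550239011962880, .ofNat 0, .ofNat 0, .ofNat 0, .ofNat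 6324165183869857956561653096702279680, .ofNat 0, .ofNat 0, .ofNat 0, .ofNat 2936581684968202638061917396411613184, .ofNat 0, .ofNat 0, .ofNat 0, .ofNat 20072920983195286957216545044334379008, .ofNat 0⟩)
    (by decide +kernel)
theorem L02016 : Good (Phi V5.P V5.D (-1) (-1)) ⟨6, 55, 3, 3, 2, 1, 3, 7, 4, 0⟩ :=
  out_sound (S := T5.ds_mm) T5.ok_mm (w := 63) (j := 3) (by decide +kernel)
theorem L02017 : Good (Phi V5.P V5.D (-1) (-1)) ⟨3, 7, 3, 3, 2, 1, 2, 3, 4, 0⟩ :=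
  out_sound (S := T5.ds_mm) T5.ok_mm (w := 45) (j := 3) (by decide +kernel)
theorem L02018 : Good (Phi V5.P V5.D (-1) (-1)) ⟨2, 2, 3, 3, 2, 1, 2, 3, 4, 1⟩ :=
  out_sound (S := T5.ds_mm) T5.ok_mm (w := 39) (j := 3) (by decide +kernel)
theorem L02019 : Good (Phi V5.P V5.D (-1) (-1)) ⟨3, 6, 3, 3, 2, 1, 3, 6, 4, 1⟩ :=
  leafX_sound T5.ok_mm T5.Ymm.bz_eq (w := 209) (c := ⟨⟨.negSucc 2219, .negSucc 1766, .ofNat 200, .negSucc 237, .ofNat 396, .ofNat 78⟩, ⟨.ofNat 898, .ofNat 1096, .ofNat 138, .ofNat 101, .negSucc 200, .negSucc 37⟩, ⟨.ofNat 1845, .ofNat 1588, .negSucc 190, .negSucc 161, .negSucc 358, .negSucc 121⟩, ⟨.negSucc 3768, .negSucc 2049, .ofNat 263, .negSucc 600, .ofNat 613, .ofNat 185⟩, ⟨.negSucc 175, .ofNat 239, .negSucc 174, .negSucc 490, .ofNat 34, .ofNat 238⟩, .ofNat 636, .ofNat 678, .ofNat 0, .ofNat 678, .ofNat 1548, .ofNat 0, .ofNat 128, .negSucc 188, .negSucc 475, .ofNat 0, .ofNat 136, .ofNat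 233, .ofNat 0, .ofNat 0, .ofNat 634, .ofNat 548, .ofNat 0, .ofNat 0, .ofNat 8088570899965431542488304507066253312, .ofNat 0, .ofNat 0, .ofNat 0, .ofNat 183704167769897526604536029767792590848, .ofNat 0, .ofNat 0, .ofNat 0, .ofNat 378076517830571713666664415480311185408, .ofNat 0, .ofNat 0, .ofNat 0, .ofNat 366100421581042007163961244712569929728, .ofNat 0⟩)
    (by decide +kernel)
theorem L02020 : Good (Phi V5.P V5.D (-1) (-1)) ⟨4, 12, 3, 3, 2, 1, 3, 7, 4, 1⟩ :=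
  leafX_sound T5.ok_mm T5.Ymm.bz_eq (w := 213) (c := ⟨⟨.negSucc 2331, .negSucc 419, .negSucc 3, .negSucc 147, .ofNat 1898, .ofNat 139⟩, ⟨.ofNat 1011, .ofNat 261, .ofNat 139, .ofNat 62, .negSucc 884, .negSucc 57⟩, ⟨.ofNat 1859, .ofNat 359, .ofNat 1, .negSucc 94, .negSucc 1926, .negSucc 212⟩, ⟨.negSucc 3960, .negSucc 426, .ofNat 28, .negSucc 371, .ofNat 3130, .ofNat 309⟩, ⟨.negSucc 287, .ofNat 42, .ofNat 81, .negSucc 261, .ofNat 204, .ofNat 240⟩, .ofNat 611, .ofNat 657, .ofNat 0, .ofNat 657, .ofNat 1638, .ofNat 0, .ofNat 128, .negSucc 197, .negSucc 974, .ofNat 0, .ofNat 140, .ofNat 433, .ofNat 0, .ofNat 0, .ofNat 1205, .ofNat 193, .ofNat 0, .ofNat 0, .ofNat 0, .ofNat 0, .ofNat 0, .ofNat 22454058219640936641494602860847469428736, .ofNat 15480171582782499625321657940806991872, .ofNat 0, .ofNat 0, .ofNat 70270571063198871823936118191552781615104, .ofNat 57197911062045023170653828483284729856, .ofNat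 0, .ofNat 0, .ofNat 0, .ofNat 0, .ofNat 0⟩)
    (by decide +kernel)
theorem L02021 : Good (Phi V5.P V5.D (-1) (-1)) ⟨4, 13, 3, 3, 2, 1, 3, 7, 4, 1⟩ :=
  leafX_sound T5.ok_mm T5.Ymm.bz_eq (w := 214) (c := ⟨⟨.negSucc 2896, .negSucc 794, .ofNat 232, .negSucc 203, .ofNat 2070, .ofNat 254⟩, ⟨.ofNat 1365, .ofNat 487, .ofNat 50, .ofNat 89, .negSucc 1056, .negSucc 114⟩, ⟨.ofNat 2374, .ofNat 722, .negSucc 214, .negSucc 75, .negSucc 2097, .negSucc 313⟩, ⟨.negSucc 4539, .negSucc 1036, .ofNat 476, .negSucc 421, .ofNat 3054, .ofNat 471⟩, ⟨.negSucc 237, .negSucc 164, .ofNat 281, .negSucc 233, .negSucc 108, .ofNat 222⟩, .ofNat 1161, .ofNat 1524, .ofNat 0, .ofNat 1524, .ofNat 2959, .ofNat 0, .ofNat 128, .negSucc 181, .negSucc 651, .ofNat 0, .ofNat 128, .ofNat 347, .ofNat 0, .ofNat 0, .ofNat 776, .ofNat 166, .ofNat 0, .ofNat 0, .ofNat 855276897905590908337246987366694912, .ofNat 0, .ofNat 0, .ofNat 69548131126017763520461416928330712612864,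 .ofNat 66972965838229893646541895827518914560, .ofNat 0, .ofNat 0, .ofNat 0, .ofNat 46451693290711373764159348873820635136, .ofNat 0, .ofNat 0, .ofNat 1324221484765215255390352958553091274178560, .ofNat 125234398732341071426290302235629846528, .ofNat 0⟩)
    (by decide +kernel)
theorem L02022 : Good (Phi V5.P V5.D (-1) (-1)) ⟨3, 7, 3, 3, 2, 1, 2, 3, 4, 1⟩ :=
  out_sound (S := T5.ds_mm) T5.ok_mm (w := 45) (j := 3) (by decide +kernel)
theorem L02023 : Good (Phi V5.P V5.D (-1) (-1)) ⟨2, 2, 3, 3, 2, 1, 2, 3, 3, 1⟩ :=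
  out_sound (S := T5.ds_mm) T5.ok_mm (w := 39) (j := 3) (by decide +kernel)
theorem L02024 : Good (Phi V5.P V5.D (-1) (-1)) ⟨4, 12, 3, 3, 2, 1, 2, 3, 3, 1⟩ :=
  leafX_sound T5.ok_mm T5.Ymm.bz_eq (w := 203) (c := ⟨⟨.negSucc 2649, .negSucc 335, .negSucc 10, .negSucc 24, .ofNat 1171, .ofNat 689⟩, ⟨.ofNat 1128, .ofNat 260, .ofNat 168, .ofNat 10, .negSucc 529, .negSucc 317⟩, ⟨.ofNat 2255, .ofNat 293, .negSucc 1, .negSucc 430, .negSucc 1317, .negSucc 656⟩, ⟨.negSucc 4384, .negSucc 319, .negSucc 46, .negSucc 151, .ofNat 2118, .ofNat 1142⟩, ⟨.negSucc 65, .negSucc 88, .negSucc 84, .negSucc 199, .ofNat 509, .ofNat 131⟩, .ofNat 610, .ofNat 654, .ofNat 0, .ofNat 654, .ofNat 1631, .ofNat 0, .ofNat 128, .negSucc 211, .negSucc 262, .ofNat 0, .ofNat 149, .ofNat 118, .ofNat 0, .ofNat 0, .ofNat 552, .ofNat 182, .ofNat 0, .ofNat 0, .ofNat 0, .ofNat 0, .ofNat 0, .ofNat 18592422495276090703647426641242586349568, .ofNat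 15738383461012790745053708419072000, .ofNat 0, .ofNat 0, .ofNat 18140996652603795314003944362314492280832, .ofNat 104275212902605992730582389920628736, .ofNat 0, .ofNat 0, .ofNat 44526351980862393681825956246877552771072, .ofNat 16616512007973186150738439228620800, .ofNat 0⟩)
    (by decide +kernel)
theorem L02025 : Good (Phi V5.P V5.D (-1) (-1)) ⟨4, 13, 3, 3, 3, 2, 2, 3, 3, 1⟩ :=
  leafX_sound T5.ok_mm T5.Ymm.bz_eq (w := 217) (c := ⟨⟨.negSucc 3058, .negSucc 349, .ofNat 41, .negSucc 16, .ofNat 1364, .ofNat 795⟩, ⟨.ofNat 1485, .ofNat 281, .ofNat 124, .ofNat 10, .negSucc 712, .negSucc 425⟩, ⟨.ofNat 2631, .ofNat 344, .negSucc 77, .negSucc 200, .negSucc 1552, .negSucc 727⟩, ⟨.negSucc 4796, .negSucc 298, .ofNat 123, .negSucc 65, .ofNat 2307, .ofNat 1266⟩, ⟨.negSucc 213, .negSucc 5, .ofNat 119, .negSucc 52, .ofNat 360, .ofNat 144⟩, .ofNat 600, .ofNat 590, .ofNat 0, .ofNat 590, .ofNat 1295, .ofNat 0, .ofNat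 128, .negSucc 177, .negSucc 296, .ofNat 0, .ofNat 144, .ofNat 153, .ofNat 0, .ofNat 0, .ofNat 564, .ofNat 128, .ofNat 0, .ofNat 0, .ofNat 18606249674834290004187729402521452544, .ofNat 0, .ofNat 0, .ofNat 96579152199733953360513768490761660934389760, .ofNat 380936364706095949880194730539102502912, .ofNat 0, .ofNat 0, .ofNat 81440097720589635469214797011227899594801152, .ofNat 837976443568268541352645039621782110208, .ofNat 0, .ofNat 0, .ofNat 190788281574817727134986244671779329301020672, .ofNat 195164263757967239440013667515892760576, .ofNat 0⟩)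
    (by decide +kernel)
theorem L02026 : Good (Phi V5.P V5.D (-1) (-1)) ⟨4, 13, 3, 3, 3, 3, 2, 3, 3, 1⟩ :=
  leafX_sound T5.ok_mm T5.Ymm.bz_eq (w := 218) (c := ⟨⟨.negSucc 3287, .negSucc 385, .ofNat 95, .negSucc 47, .ofNat 1207, .ofNat 1126⟩, ⟨.ofNat 1551, .ofNat 321, .ofNat 148, .ofNat 15, .negSucc 602, .negSucc 577⟩, ⟨.ofNat 2657, .ofNat 311, .negSucc 146, .negSucc 227, .negSucc 1316, .negSucc 1113⟩, ⟨.negSucc 5088, .negSucc 278, .ofNat 70, .negSucc 148, .ofNat 2027, .ofNat 1732⟩, ⟨.negSucc 106, .ofNat 54, .negSucc 158, .negSucc 127, .ofNat 418, .ofNat 126⟩, .ofNat 1161, .ofNat 1524, .ofNat 0, .ofNat 1524, .ofNat 2959, .ofNat 0, .ofNat 128, .negSucc 202, .negSucc 264, .ofNat 0, .ofNat 140, .ofNat 141, .ofNat 0, .ofNat 0, .ofNat 475, .ofNat 71, .ofNat 0, .ofNat 0, .ofNat 43563440990133133729479693085427367936, .ofNat 0, .ofNat 0, .ofNat 65200570308994973254676216913189980214394880, .ofNat 3634937848752560913749137775715814473728,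 .ofNat 0, .ofNat 0, .ofNat 38576695785103071900508683922259781428969472, .ofNat 1559527942969768116134760519973099012096, .ofNat 0, .ofNat 0, .ofNat 129842257711183352665342734992017043157417984, .ofNat 821745867318988605189153809839780003840, .ofNat 0⟩)
    (by decide +kernel)
theorem L02027 : Good (Phi V5.P V5.D (-1) (-1)) ⟨3, 7, 3, 3, 2, 1, 2, 3, 3, 1⟩ :=
  out_sound (S := T5.ds_mm) T5.ok_mm (w := 45) (j := 3) (by decide +kernel)
theorem L02028 : Good (Phi V5.P V5.D (-1) (-1)) ⟨3, 4, 2, 1, 2, 0, 2, 2, 3, 2⟩ :=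
  out_sound (S := T5.ds_mm) T5.ok_mm (w := 43) (j := 3) (by decide +kernel)
theorem L02029 : Good (Phi V5.P V5.D (-1) (-1)) ⟨3, 5, 2, 1, 2, 0, 2, 2, 3, 2⟩ :=
  leafX_sound T5.ok_mm T5.Ymm.bz_eq (w := 199) (c := ⟨⟨.negSucc 1965, .negSucc 337, .ofNat 8, .ofNat 4, .ofNat 209, .ofNat 336⟩, ⟨.ofNat 520, .ofNat 291, .ofNat 290, .negSucc 4, .negSucc 69, .negSucc 115⟩, ⟨.ofNat 2010, .ofNat 331, .ofNat 62, .negSucc 126, .negSucc 474, .negSucc 272⟩, ⟨.negSucc 3768, .negSucc 94, .ofNat 13, .negSucc 34, .ofNat 378, .ofNat 589⟩, ⟨.ofNat 13, .negSucc 74, .ofNat 29, .negSucc 119, .ofNat 61, .ofNat 55⟩, .ofNat 855, .ofNat 1334, .ofNat 0, .ofNat 1334, .ofNat 4066, .ofNat 0, .ofNat 128, .negSucc 222, .negSucc 67, .ofNat 0, .ofNat 121, .ofNat 23, .ofNat 0, .ofNat 0, .ofNat 419, .ofNat 3493, .ofNat 1275595803188017925748002651913307815936, .ofNat 0, .ofNat 2384820314078691186392263760543744, .ofNat 0, .ofNat 0, .ofNat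 0, .ofNat 439905163782078913268424952281825280, .ofNat 0, .ofNat 0, .ofNat 0, .ofNat 1038245707093315420527484677520359424, .ofNat 0, .ofNat 0, .ofNat 0, .ofNat 0, .ofNat 0⟩)
    (by decide +kernel)
theorem L02030 : Good (Phi V5.P V5.D (-1) (-1)) ⟨3, 6, 2, 1, 2, 0, 2, 2, 4, 4⟩ :=
  leafX_sound T5.ok_mm T5.Ymm.bz_eq (w := 203) (c := ⟨⟨.negSucc 2342, .negSucc 433, .ofNat 5, .negSucc 15, .ofNat 272, .ofNat 221⟩, ⟨.ofNat 842, .ofNat 402, .ofNat 307, .ofNat 3, .negSucc 123, .negSucc 100⟩, ⟨.ofNat 2395, .ofNat 456, .negSucc 14, .negSucc 127, .negSucc 520, .negSucc 182⟩, ⟨.negSucc 3886, .negSucc 152, .ofNat 13, .negSucc 67, .ofNat 442, .ofNat 347⟩, ⟨.negSucc 11, .ofNat 9, .ofNat 1, .negSucc 87, .ofNat 22, .negSucc 4⟩, .ofNat 336, .ofNat 203, .ofNat 0, .ofNat 203, .ofNat 644, .ofNat 0, .ofNat 182, .negSucc 109, .negSucc 96, .ofNat 0, .ofNat 128, .ofNat 39, .ofNat 0, .ofNat 0, .ofNat 410, .ofNat 2375, .ofNat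 0, .ofNat 0, .ofNat 0, .ofNat 0, .ofNat 0, .ofNat 0, .ofNat 0, .ofNat 0, .ofNat 0, .ofNat 0, .ofNat 21798370124324067274147717879374544896, .ofNat 0, .ofNat 0, .ofNat 0, .ofNat 0, .ofNat 0⟩)
    (by decide +kernel)
theorem L02031 : Good (Phi V5.P V5.D (-1) (-1)) ⟨3, 6, 2, 1, 2, 0, 2, 2, 5, 10⟩ :=
  leafX_sound T5.ok_mm T5.Ymm.bz_eq (w := 209) (c := ⟨⟨.negSucc 2150, .negSucc 389, .ofNat 13, .ofNat 19, .ofNat 224, .ofNat 103⟩, ⟨.ofNat 768, .ofNat 381, .ofNat 281, .negSucc 14, .negSucc 101, .negSucc 48⟩, ⟨.ofNat 2232, .ofNat 422, .negSucc 38, .negSucc 105, .negSucc 529, .negSucc 87⟩, ⟨.negSucc 3570, .negSucc 91, .ofNat 9, .negSucc 19, .ofNat 371, .ofNat 157⟩, ⟨.negSucc 15, .ofNat 5, .ofNat 9, .negSucc 104, .ofNat 40, .ofNat 0⟩, .ofNat 337, .ofNat 203, .ofNat 0, .ofNat 203, .ofNat 646, .ofNat 0, .ofNat 220, .negSucc 109, .negSucc 85, .ofNat 0, .ofNat 128, .ofNat 34, .ofNat 0, .ofNat 0, .ofNat 462, .ofNat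 6039, .ofNat 0, .ofNat 0, .ofNat 0, .ofNat 0, .ofNat 0, .ofNat 0, .ofNat 0, .ofNat 0, .ofNat 0, .ofNat 0, .ofNat 0, .ofNat 0, .ofNat 0, .ofNat 0, .ofNat 279527510464509715594275594727122272256, .ofNat 0⟩)
    (by decide +kernel)
theorem L02032 : Good (Phi V5.P V5.D (-1) (-1)) ⟨3, 6, 2, 1, 2, 0, 2, 2, 5, 11⟩ :=
  leafX_sound T5.ok_mm T5.Ymm.bz_eq (w := 210) (c := ⟨⟨.negSucc 2063, .negSucc 357, .ofNat 4, .ofNat 56, .ofNat 197, .ofNat 78⟩, ⟨.ofNat 737, .ofNat 340, .ofNat 291, .negSucc 34, .negSucc 91, .negSucc 37⟩, ⟨.ofNat 2140, .ofNat 364, .negSucc 6, .negSucc 89, .negSucc 529, .negSucc 68⟩, ⟨.negSucc 3425, .negSucc 83, .ofNat 14, .ofNat 36, .ofNat 325, .ofNat 120⟩, ⟨.negSucc 11, .ofNat 5, .ofNat 2, .negSucc 103, .ofNat 32, .negSucc 3⟩, .ofNat 336, .ofNat 202, .ofNat 0, .ofNat 202, .ofNat 642, .ofNat 0, .ofNat 219, .negSucc 108, .negSucc 82, .ofNat 0, .ofNat 128, .ofNat 32, .ofNat 0, .ofNat 0, .ofNat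 520, .ofNat 8063, .ofNat 377115822776327027080743082099456413270016, .ofNat 0, .ofNat 28298476145886939060215936660140982272, .ofNat 0, .ofNat 0, .ofNat 0, .ofNat 285452682697365695270998269891404890112, .ofNat 0, .ofNat 0, .ofNat 0, .ofNat 249091337463414334488776139151654256640, .ofNat 0, .ofNat 0, .ofNat 0, .ofNat 326070110848326078455629631247563620352, .ofNat 0⟩)
    (by decide +kernel)
theorem L02033 : Good (Phi V5.P V5.D (-1) (-1)) ⟨3, 7, 2, 1, 2, 0, 2, 2, 3, 2⟩ :=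
  out_sound (S := T5.ds_mm) T5.ok_mm (w := 43) (j := 3) (by decide +kernel)
theorem L02034 : Good (Phi V5.P V5.D (-1) (-1)) ⟨3, 4, 2, 1, 2, 0, 2, 2, 3, 3⟩ :=
  out_sound (S := T5.ds_mm) T5.ok_mm (w := 43) (j := 3) (by decide +kernel)
theorem L02035 : Good (Phi V5.P V5.D (-1) (-1)) ⟨3, 5, 2, 1, 2, 0, 2, 2, 4, 6⟩ :=
  leafX_sound T5.ok_mm T5.Ymm.bz_eq (w := 205) (c := ⟨⟨.negSucc 1733, .negSucc 227, .negSucc 16, .ofNat 114, .ofNat 152, .ofNat 90⟩, ⟨.ofNat 463, .ofNat 222, .ofNat 259, .negSucc 39, .negSucc 47, .negSucc 29⟩, ⟨.ofNat 1834, .ofNat 217, .ofNat 19, .negSucc 123, .negSucc 506, .negSucc 116⟩, ⟨.negSucc 3325, .ofNat 27, .negSucc 20, .ofNat 174, .ofNat 279, .ofNat 158⟩, ⟨.negSucc 39, .ofNat 10, .negSucc 4, .negSucc 69, .ofNat 31, .ofNat 14⟩, .ofNat 532, .ofNat 537, .ofNat 0, .ofNat 537, .ofNat 1862, .ofNat 0, .ofNat 193, .negSucc 127, .negSucc 68, .ofNat 0, .ofNat 93, .ofNat 21, .ofNat 0, .ofNat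 0, .ofNat 596, .ofNat 12476, .ofNat 123088873727264891890466929842539512987648, .ofNat 0, .ofNat 1254115361944000081766416557728071680, .ofNat 0, .ofNat 0, .ofNat 0, .ofNat 0, .ofNat 0, .ofNat 139372858703077639362339885148968778203136, .ofNat 0, .ofNat 21352268959262798031138985742560133120, .ofNat 0, .ofNat 0, .ofNat 0, .ofNat 7094311142752762686740913724697083904, .ofNat 0⟩)
    (by decide +kernel)
theorem L02036 : Good (Phi V5.P V5.D (-1) (-1)) ⟨3, 5, 2, 1, 2, 0, 2, 2, 4, 7⟩ :=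
  leafX_sound T5.ok_mm T5.Ymm.bz_eq (w := 209) (c := ⟨⟨.negSucc 1716, .negSucc 217, .negSucc 4, .ofNat 165, .ofNat 200, .ofNat 84⟩, ⟨.ofNat 464, .ofNat 209, .ofNat 230, .negSucc 56, .negSucc 62, .negSucc 23⟩, ⟨.ofNat 1909, .ofNat 149, .ofNat 81, .negSucc 262, .negSucc 559, .negSucc 126⟩, ⟨.negSucc 3325, .ofNat 20, .negSucc 11, .ofNat 298, .ofNat 393, .ofNat 158⟩, ⟨.negSucc 221, .ofNat 3, .ofNat 1, .ofNat 52, .ofNat 155, .ofNat 30⟩, .ofNat 328, .ofNat 165, .ofNat 0, .ofNat 165, .ofNat 732, .ofNat 0, .ofNat 138, .negSucc 98, .negSucc 78, .ofNat 0, .ofNat 128, .ofNat 15, .ofNat 0, .ofNat 0, .ofNat 744, .ofNat 143807, .ofNat 2495315588433813685732357350284665661947904, .ofNat 0, .ofNat 0, .ofNat 0, .ofNat 1772673563591312989842032152351231795265536, .ofNat 0, .ofNat 15060329800117729098617104745640230912, .ofNat 0, .ofNat 3183138687827974909882520557456968829108224, .ofNat 0, .ofNat 46179839810613538127272113441649721344,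 .ofNat 0, .ofNat 810777697505251014165545620775914031808512, .ofNat 0, .ofNat 50614711039354805428656964637323952128, .ofNat 0⟩)
    (by decide +kernel)
theorem L02037 : Good (Phi V5.P V5.D (-1) (-1)) ⟨3, 6, 2, 1, 2, 0, 2, 2, 5, 12⟩ :=
  leafX_sound T5.ok_mm T5.Ymm.bz_eq (w := 211) (c := ⟨⟨.negSucc 2028, .negSucc 307, .ofNat 2, .ofNat 114, .ofNat 197, .ofNat 74⟩, ⟨.ofNat 738, .ofNat 299, .ofNat 277, .negSucc 60, .negSucc 96, .negSucc 35⟩, ⟨.ofNat 2124, .ofNat 281, .ofNat 23, .negSucc 146, .negSucc 553, .negSucc 60⟩, ⟨.negSucc 3363, .negSucc 42, .ofNat 12, .ofNat 136, .ofNat 322, .ofNat 114⟩, ⟨.negSucc 34, .ofNat 1, .ofNat 12, .negSucc 78, .ofNat 38, .negSucc 2⟩, .ofNat 334, .ofNat 199, .ofNat 0, .ofNat 199, .ofNat 623, .ofNat 0, .ofNat 262, .negSucc 106, .negSucc 84, .ofNat 0, .ofNat 128, .ofNat 33, .ofNat 0, .ofNat 0, .ofNat 610, .ofNat 14440, .ofNat 1445897106634330763321516030472062968528896,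 .ofNat 0, .ofNat 82047513017291868836821141538153168896, .ofNat 0, .ofNat 0, .ofNat 0, .ofNat 405396211787687155792982014075670102016, .ofNat 0, .ofNat 0, .ofNat 0, .ofNat 1302339779706260885786457401919642009600, .ofNat 0, .ofNat 0, .ofNat 0, .ofNat 274978740375400803725708385196372393984, .ofNat 0⟩)
    (by decide +kernel)
theorem L02038 : Good (Phi V5.P V5.D (-1) (-1)) ⟨3, 6, 2, 1, 2, 0, 2, 2, 5, 13⟩ :=
  leafX_sound T5.ok_mm T5.Ymm.bz_eq (w := 211) (c := ⟨⟨.negSucc 2062, .negSucc 259, .negSucc 10, .ofNat 207, .ofNat 250, .ofNat 48⟩, ⟨.ofNat 762, .ofNat 284, .ofNat 250, .negSucc 101, .negSucc 113, .negSucc 23⟩, ⟨.ofNat 2149, .ofNat 242, .ofNat 59, .negSucc 222, .negSucc 619, .negSucc 76⟩, ⟨.negSucc 3432, .ofNat 21, .negSucc 24, .ofNat 304, .ofNat 427, .ofNat 77⟩, ⟨.negSucc 92, .ofNat 5, .negSucc 2, .negSucc 29, .ofNat 84, .ofNat 7⟩, .ofNat 337, .ofNat 205, .ofNat 0, .ofNat 205, .ofNat 644, .ofNat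 0, .ofNat 140, .negSucc 109, .negSucc 46, .ofNat 0, .ofNat 128, .ofNat 16, .ofNat 0, .ofNat 0, .ofNat 356, .ofNat 13956, .ofNat 2316320191704855613956009956189945158696960, .ofNat 0, .ofNat 0, .ofNat 0, .ofNat 3624551406840134066178170247972905098936320, .ofNat 0, .ofNat 281638974708645435059725912400151445504, .ofNat 0, .ofNat 0, .ofNat 0, .ofNat 0, .ofNat 0, .ofNat 1436583401088304799311803098259486521950208, .ofNat 0, .ofNat 189789709164567602832304165705543057408, .ofNat 0⟩)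
    (by decide +kernel)
theorem L02039 : Good (Phi V5.P V5.D (-1) (-1)) ⟨3, 6, 2, 1, 2, 0, 2, 2, 4, 7⟩ :=
  leafX_sound T5.ok_mm T5.Ymm.bz_eq (w := 208) (c := ⟨⟨.negSucc 1987, .negSucc 240, .negSucc 9, .ofNat 213, .ofNat 216, .ofNat 128⟩, ⟨.ofNat 743, .ofNat 267, .ofNat 229, .negSucc 105, .negSucc 96, .negSucc 51⟩, ⟨.ofNat 2182, .ofNat 169, .ofNat 101, .negSucc 366, .negSucc 603, .negSucc 199⟩, ⟨.negSucc 3406, .ofNat 13, .negSucc 15, .ofNat 365, .ofNat 442, .ofNat 213⟩, ⟨.negSucc 247, .ofNat 2, .negSucc 3, .ofNat 61, .ofNat 179, .ofNat 22⟩, .ofNat 163, .ofNat 40, .ofNat 0, .ofNat 40, .ofNat 225, .ofNat 0, .ofNat 128, .negSucc 55, .negSucc 75, .ofNat 0, .ofNat 147, .ofNat 7, .ofNat 0, .ofNat 0, .ofNat 451, .ofNat 64228, .ofNat 1687697761986314774509038203907436456181760, .ofNat 0, .ofNat 0, .ofNat 0, .ofNat 803289173008850793037613527754865245159424, .ofNat 0, .ofNat 3286889311126962495474651788447055872,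 .ofNat 0, .ofNat 1237003998784307244795142393936630008250368, .ofNat 0, .ofNat 24758516304069098871837198241186709504, .ofNat 0, .ofNat 632640235035705108847621898735684054679552, .ofNat 0, .ofNat 10361488563193995740908554234693156864, .ofNat 0⟩)
    (by decide +kernel)
theorem L02040 : Good (Phi V5.P V5.D (-1) (-1)) ⟨3, 7, 2, 1, 2, 0, 2, 2, 3, 3⟩ :=
  out_sound (S := T5.ds_mm) T5.ok_mm (w := 43) (j := 3) (by decide +kernel)
theorem L02041 : Good (Phi V5.P V5.D (-1) (-1)) ⟨2, 2, 2, 1, 2, 0, 2, 3, 3, 2⟩ :=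
  leafX_sound T5.ok_mm T5.Ymm.bz_eq (w := 192) (c := ⟨⟨.negSucc 1574, .negSucc 443, .negSucc 227, .ofNat 174, .ofNat 433, .ofNat 135⟩, ⟨.ofNat 239, .ofNat 476, .ofNat 329, .negSucc 61, .negSucc 146, .negSucc 49⟩, ⟨.ofNat 1427, .ofNat 433, .ofNat 174, .negSucc 294, .negSucc 793, .negSucc 206⟩, ⟨.negSucc 3547, .ofNat 165, .negSucc 341, .ofNat 310, .ofNat 794, .ofNat 213⟩, ⟨.negSucc 144, .ofNat 103, .ofNat 130, .ofNat 27, .ofNat 101, .negSucc 17⟩, .ofNat 534, .ofNat 539, .ofNat 0, .ofNat 539, .ofNat 1808, .ofNat 0, .ofNat 200, .negSucc 127, .negSucc 100, .ofNat 0, .ofNat 93, .ofNat 32, .ofNat 0, .ofNat 0, .ofNat 401, .ofNat 477, .ofNat 0, .ofNat 0, .ofNat 15143750074813724124486666182197248, .ofNat 0, .ofNat 0, .ofNat 0, .ofNat 0, .ofNat 0, .ofNat 0, .ofNat 29811405652889586400429441696581812224, .ofNat 638768980185844921747079407662530560, .ofNat 0, .ofNat 0, .ofNat 0, .ofNat 279231892159395819989486642483167232,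 .ofNat 0⟩)
    (by decide +kernel)
theorem L02042 : Good (Phi V5.P V5.D (-1) (-1)) ⟨2, 3, 2, 1, 2, 0, 2, 3, 3, 2⟩ :=
  leafX_sound T5.ok_mm T5.Ymm.bz_eq (w := 192) (c := ⟨⟨.negSucc 2112, .negSucc 447, .negSucc 107, .ofNat 229, .ofNat 475, .ofNat 231⟩, ⟨.ofNat 780, .ofNat 544, .ofNat 304, .negSucc 102, .negSucc 213, .negSucc 111⟩, ⟨.ofNat 1923, .ofNat 490, .ofNat 113, .negSucc 320, .negSucc 829, .negSucc 285⟩, ⟨.negSucc 3517, .ofNat 169, .negSucc 163, .ofNat 402, .ofNat 842, .ofNat 365⟩, ⟨.negSucc 57, .ofNat 43, .negSucc 12, .ofNat 80, .ofNat 128, .ofNat 17⟩, .ofNat 333, .ofNat 196, .ofNat 0, .ofNat 196, .ofNat 642, .ofNat 0, .ofNat 260, .negSucc 106, .negSucc 129, .ofNat 0, .ofNat 128, .ofNat 46, .ofNat 0, .ofNat 0, .ofNat 456, .ofNat 215, .ofNat 0, .ofNat 0, .ofNat 1985291198750902631663853123928064, .ofNat 0, .ofNat 0, .ofNat 0, .ofNat 0, .ofNat 0, .ofNat 0, .ofNat 253794907695919730167372109255278592,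 .ofNat 133967659871284769127808887123083264, .ofNat 0, .ofNat 0, .ofNat 0, .ofNat 0, .ofNat 0⟩)
    (by decide +kernel)
theorem L02043 : Good (Phi V5.P V5.D (-1) (-1)) ⟨3, 4, 2, 1, 2, 0, 2, 3, 3, 3⟩ :=
  out_sound (S := T5.ds_mm) T5.ok_mm (w := 43) (j := 3) (by decide +kernel)
theorem L02044 : Good (Phi V5.P V5.D (-1) (-1)) ⟨3, 5, 2, 1, 2, 0, 2, 3, 3, 3⟩ :=
  leafX_sound T5.ok_mm T5.Ymm.bz_eq (w := 197) (c := ⟨⟨.negSucc 1710, .negSucc 129, .negSucc 156, .ofNat 326, .ofNat 110, .ofNat 68⟩, ⟨.ofNat 458, .ofNat 190, .ofNat 278, .negSucc 109, .negSucc 34, .negSucc 23⟩, ⟨.ofNat 1519, .ofNat 76, .ofNat 218, .negSucc 375, .negSucc 515, .negSucc 147⟩, ⟨.negSucc 3307, .ofNat 207, .negSucc 261, .ofNat 605, .ofNat 256, .ofNat 105⟩, ⟨.negSucc 158, .ofNat 65, .negSucc 7, .ofNat 134, .ofNat 214, .negSucc 20⟩, .ofNat 680, .ofNat 889, .ofNat 0, .ofNat 889, .ofNat 2841, .ofNat 0, .ofNat 128, .negSucc 139, .negSucc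 49, .ofNat 0, .ofNat 85, .ofNat 16, .ofNat 0, .ofNat 0, .ofNat 328, .ofNat 1110, .ofNat 1417920286493343053364003183867438563328, .ofNat 0, .ofNat 12686271240164494949820955126398976, .ofNat 0, .ofNat 0, .ofNat 723373254418147038297566116684318638080, .ofNat 118253077552762776159709156702420992, .ofNat 0, .ofNat 0, .ofNat 688517774270616749159835723425556463616, .ofNat 109988876240033425144223745930428416, .ofNat 0, .ofNat 2227666148046447406042594604037024251904, .ofNat 0, .ofNat 125785342946737518863973328808312832, .ofNat 0⟩)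
    (by decide +kernel)
theorem L02045 : Good (Phi V5.P V5.D (-1) (-1)) ⟨4, 12, 2, 1, 2, 0, 2, 3, 4, 6⟩ :=
  leafX_sound T5.ok_mm T5.Ymm.bz_eq (w := 206) (c := ⟨⟨.negSucc 1860, .negSucc 152, .negSucc 24, .ofNat 267, .ofNat 159, .ofNat 67⟩, ⟨.ofNat 666, .ofNat 146, .ofNat 244, .negSucc 108, .negSucc 60, .negSucc 26⟩, ⟨.ofNat 1619, .ofNat 149, .ofNat 52, .negSucc 324, .negSucc 577, .negSucc 110⟩, ⟨.negSucc 3106, .negSucc 51, .negSucc 11, .ofNat 462, .ofNat 299, .ofNat 99⟩, ⟨.negSucc 47, .negSucc 28, .ofNat 65, .ofNat 79, .ofNat 100, .negSucc 19⟩, .ofNat 548, .ofNat 541, .ofNat 0, .ofNat 541, .ofNat 1518, .ofNat 0, .ofNat 146, .negSucc 127, .negSucc 52, .ofNat 0, .ofNat 102, .ofNat 19, .ofNat 0, .ofNat 0, .ofNat 329, .ofNat 1278, .ofNat 0, .ofNat 0, .ofNat 0, .ofNat 0, .ofNat 0, .ofNat 155832589915752204706777906093232092086272, .ofNat 2042215286178151415253490517919399936, .ofNat 0, .ofNat 0, .ofNat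 97762453564001049888940624073288331558912, .ofNat 1906005715977692778177980287284150272, .ofNat 0, .ofNat 0, .ofNat 0, .ofNat 0, .ofNat 0⟩)
    (by decide +kernel)
theorem L02046 : Good (Phi V5.P V5.D (-1) (-1)) ⟨4, 12, 2, 1, 2, 0, 2, 3, 4, 7⟩ :=
  leafX_sound T5.ok_mm T5.Ymm.bz_eq (w := 207) (c := ⟨⟨.negSucc 1825, .negSucc 121, .negSucc 81, .ofNat 360, .ofNat 108, .ofNat 24⟩, ⟨.ofNat 660, .ofNat 135, .ofNat 241, .negSucc 149, .negSucc 38, .negSucc 8⟩, ⟨.ofNat 1544, .ofNat 79, .ofNat 178, .negSucc 435, .negSucc 494, .negSucc 83⟩, ⟨.negSucc 3047, .negSucc 7, .negSucc 136, .ofNat 626, .ofNat 222, .ofNat 39⟩, ⟨.negSucc 48, .negSucc 16, .negSucc 35, .ofNat 105, .ofNat 126, .ofNat 29⟩, .ofNat 340, .ofNat 209, .ofNat 0, .ofNat 209, .ofNat 696, .ofNat 0, .ofNat 260, .negSucc 112, .negSucc 72, .ofNat 0, .ofNat 128, .ofNat 20, .ofNat 0, .ofNat 0, .ofNat 473, .ofNat 2433, .ofNat 980073819658222403201192225311212053725184,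 .ofNat 0, .ofNat 942151208448493359772365912457347072, .ofNat 0, .ofNat 0, .ofNat 328660277029905796645482965816961975451648, .ofNat 2834729259181810065084954772223557632, .ofNat 0, .ofNat 0, .ofNat 0, .ofNat 0, .ofNat 0, .ofNat 731284707549777037707852750157421972815872, .ofNat 29529619689265568863947807824269688176640, .ofNat 1376044951415047261770680709427494912, .ofNat 0⟩)
    (by decide +kernel)
theorem L02047 : Good (Phi V5.P V5.D (-1) (-1)) ⟨4, 13, 2, 1, 2, 0, 2, 3, 4, 6⟩ :=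
  leafX_sound T5.ok_mm T5.Ymm.bz_eq (w := 207) (c := ⟨⟨.negSucc 2078, .negSucc 167, .ofNat 24, .ofNat 325, .ofNat 174, .ofNat 101⟩, ⟨.ofNat 871, .ofNat 169, .ofNat 218, .negSucc 166, .negSucc 84, .negSucc 53⟩, ⟨.ofNat 1845, .ofNat 156, .negSucc 6, .negSucc 384, .negSucc 597, .negSucc 148⟩, ⟨.negSucc 3251, .negSucc 60, .ofNat 65, .ofNat 532, .ofNat 330, .ofNat 156⟩, ⟨.negSucc 110, .negSucc 49, .ofNat 74, .ofNat 82, .ofNat 141, .ofNat 11⟩, .ofNat 532, .ofNat 469, .ofNat 0, .ofNat 469, .ofNat 1096, .ofNat 0, .ofNat 147, .negSucc 127, .negSucc 63, .ofNat 0, .ofNat 121, .ofNat 28, .ofNat 0, .ofNat 0, .ofNat 344, .ofNat 1291, .ofNat 0, .ofNat 0, .ofNat 0, .ofNat 0, .ofNat 0, .ofNat 161138966431301835279615051306324581154816, .ofNat 1467867451748528985275698563025731584, .ofNat 0, .ofNat 0, .ofNat 16742961465256169411291504816492050907136, .ofNat 3439687206621518084900630051646603264, .ofNat 0, .ofNat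 0, .ofNat 1471215790376528980123105649246332780544, .ofNat 586198467431337745792407537639751680, .ofNat 0⟩)
    (by decide +kernel)
theorem L02048 : Good (Phi V5.P V5.D (-1) (-1)) ⟨4, 13, 2, 1, 2, 0, 2, 3, 4, 7⟩ :=
  leafX_sound T5.ok_mm T5.Ymm.bz_eq (w := 208) (c := ⟨⟨.negSucc 2089, .negSucc 121, .ofNat 71, .ofNat 426, .ofNat 106, .ofNat 74⟩, ⟨.ofNat 887, .ofNat 148, .ofNat 174, .negSucc 212, .negSucc 47, .negSucc 37⟩, ⟨.ofNat 1796, .ofNat 85, .ofNat 11, .negSucc 509, .negSucc 536, .negSucc 132⟩, ⟨.negSucc 3323, .ofNat 34, .ofNat 188, .ofNat 696, .ofNat 200, .ofNat 158⟩, ⟨.negSucc 206, .ofNat 25, .ofNat 147, .ofNat 110, .ofNat 83, .ofNat 92⟩, .ofNat 929, .ofNat 1115, .ofNat 0, .ofNat 1115, .ofNat 2267, .ofNat 0, .ofNat 128, .negSucc 216, .negSucc 57, .ofNat 0, .ofNat 180, .ofNat 26, .ofNat 0, .ofNat 0, .ofNat 411, .ofNat 2084, .ofNat 976169985640567279836027717205215802294272, .ofNat 0, .ofNat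 1237877661063239953364548500947206144, .ofNat 0, .ofNat 0, .ofNat 143232167530021024506411414628805243830272, .ofNat 8699117164014414135411512447493734400, .ofNat 0, .ofNat 0, .ofNat 0, .ofNat 4750576087749019862052141950717394944, .ofNat 0, .ofNat 775576404345438387063785165434728638054400, .ofNat 0, .ofNat 2908814506473641909842850170345095168, .ofNat 0⟩)
    (by decide +kernel)
theorem L02049 : Good (Phi V5.P V5.D (-1) (-1)) ⟨3, 7, 2, 1, 2, 0, 2, 3, 3, 3⟩ :=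
  out_sound (S := T5.ds_mm) T5.ok_mm (w := 43) (j := 3) (by decide +kernel)
theorem L02050 : Good (Phi V5.P V5.D (-1) (-1)) ⟨3, 4, 2, 1, 2, 1, 2, 2, 3, 2⟩ :=
  out_sound (S := T5.ds_mm) T5.ok_mm (w := 43) (j := 3) (by decide +kernel)
theorem L02051 : Good (Phi V5.P V5.D (-1) (-1)) ⟨3, 5, 2, 1, 2, 1, 2, 2, 3, 2⟩ :=
  leafX_sound T5.ok_mm T5.Ymm.bz_eq (w := 198) (c := ⟨⟨.negSucc 2055, .negSucc 346, .ofNat 87, .ofNat 49, .ofNat 314, .ofNat 458⟩, ⟨.ofNat 556, .ofNat 279, .ofNat 275, .negSucc 21, .negSucc 103, .negSucc 153⟩, ⟨.ofNat 2019, .ofNat 279, .negSucc 172, .negSucc 506, .negSucc 569, .negSucc 325⟩, ⟨.negSucc 3977, .negSucc 102, .ofNat 134, .ofNat 29, .ofNat 596, .ofNat 808⟩, ⟨.negSucc 190, .ofNat 1, .ofNat 48, .negSucc 152, .ofNat 164, .ofNat 65⟩, .ofNat 533, .ofNat 539, .ofNat 0, .ofNat 539, .ofNat 1854, .ofNat 0, .ofNat 128, .negSucc 148, .negSucc 94, .ofNat 0, .ofNat 103, .ofNat 32, .ofNat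 0, .ofNat 0, .ofNat 566, .ofNat 1545, .ofNat 487288064226636171264799584848254599168, .ofNat 0, .ofNat 7036340011140861028829466439188480, .ofNat 0, .ofNat 0, .ofNat 0, .ofNat 111095695906719348500017699476209664, .ofNat 0, .ofNat 0, .ofNat 0, .ofNat 770811961107376212760795493540298752, .ofNat 0, .ofNat 0, .ofNat 0, .ofNat 91502142932415324367316108309430272, .ofNat 0⟩)
    (by decide +kernel)
theorem L02052 : Good (Phi V5.P V5.D (-1) (-1)) ⟨3, 6, 2, 1, 2, 1, 3, 4, 4, 4⟩ :=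
  leafX_sound T5.ok_mm T5.Ymm.bz_eq (w := 207) (c := ⟨⟨.negSucc 2454, .negSucc 465, .ofNat 21, .ofNat 23, .ofNat 168, .ofNat 307⟩, ⟨.ofNat 872, .ofNat 415, .ofNat 343, .negSucc 30, .negSucc 70, .negSucc 131⟩, ⟨.ofNat 2374, .ofNat 501, .negSucc 122, .negSucc 555, .negSucc 316, .negSucc 215⟩, ⟨.negSucc 4107, .negSucc 159, .ofNat 7, .negSucc 83, .ofNat 290, .ofNat 495⟩, ⟨.negSucc 113, .ofNat 46, .negSucc 28, .negSucc 240, .ofNat 48, .ofNat 5⟩, .ofNat 334, .ofNat 197, .ofNat 0, .ofNat 197, .ofNat 639, .ofNat 0, .ofNat 158, .negSucc 115, .negSucc 117, .ofNat 0, .ofNat 128, .ofNat 52, .ofNat 0, .ofNat 0, .ofNat 460, .ofNat 2200, .ofNat 0, .ofNat 0, .ofNat 0, .ofNat 0, .ofNat 0, .ofNat 0, .ofNat 49308253503982236968487739480336236544, .ofNat 0, .ofNat 0, .ofNat 0, .ofNat 0, .ofNat 0, .ofNat 0, .ofNat 0, .ofNat 179171354334230070794961342530368569344, .ofNat 0⟩)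
    (by decide +kernel)
theorem L02053 : Good (Phi V5.P V5.D (-1) (-1)) ⟨3, 6, 2, 1, 2, 1, 3, 4, 4, 5⟩ :=
  leafX_sound T5.ok_mm T5.Ymm.bz_eq (w := 208) (c := ⟨⟨.negSucc 2197, .negSucc 360, .ofNat 32, .ofNat 126, .ofNat 125, .ofNat 272⟩, ⟨.ofNat 787, .ofNat 335, .ofNat 290, .negSucc 71, .negSucc 48, .negSucc 127⟩, ⟨.ofNat 2244, .ofNat 330, .negSucc 69, .negSucc 724, .negSucc 273, .negSucc 263⟩, ⟨.negSucc 3679, .negSucc 79, .ofNat 21, .ofNat 120, .ofNat 230, .ofNat 417⟩, ⟨.negSucc 143, .ofNat 14, .negSucc 25, .negSucc 129, .ofNat 61, .ofNat 17⟩, .ofNat 585, .ofNat 597, .ofNat 0, .ofNat 597, .ofNat 1491, .ofNat 0, .ofNat 128, .negSucc 168, .negSucc 119, .ofNat 0, .ofNat 129, .ofNat 55, .ofNat 0, .ofNat 0, .ofNat 834, .ofNat 4955, .ofNat 208060860317657767088453932209278109614080, .ofNat 0, .ofNat 3419969640304700639781778979532308480, .ofNat 0, .ofNat 0, .ofNat 0, .ofNat 226232219484727625213443567049410347008,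 .ofNat 0, .ofNat 0, .ofNat 0, .ofNat 752338465257162008824389134032331341824, .ofNat 0, .ofNat 0, .ofNat 0, .ofNat 710100665288067317698567745638913540096, .ofNat 0⟩)
    (by decide +kernel)
theorem L02054 : Good (Phi V5.P V5.D (-1) (-1)) ⟨3, 6, 2, 1, 2, 1, 3, 5, 3, 2⟩ :=
  leafX_sound T5.ok_mm T5.Ymm.bz_eq (w := 201) (c := ⟨⟨.negSucc 2291, .negSucc 345, .negSucc 15, .ofNat 117, .ofNat 171, .ofNat 525⟩, ⟨.ofNat 828, .ofNat 340, .ofNat 303, .negSucc 56, .negSucc 69, .negSucc 242⟩, ⟨.ofNat 2123, .ofNat 265, .ofNat 11, .negSucc 681, .negSucc 282, .negSucc 524⟩, ⟨.negSucc 3838, .negSucc 67, .negSucc 41, .ofNat 145, .ofNat 329, .ofNat 856⟩, ⟨.negSucc 142, .ofNat 10, .negSucc 37, .negSucc 56, .ofNat 124, .ofNat 83⟩, .ofNat 336, .ofNat 202, .ofNat 0, .ofNat 202, .ofNat 647, .ofNat 0, .ofNat 128, .negSucc 123, .negSucc 166, .ofNat 0, .ofNat 137, .ofNat 65, .ofNat 0, .ofNat 0, .ofNat 813, .ofNat 963, .ofNat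 0, .ofNat 0, .ofNat 0, .ofNat 0, .ofNat 0, .ofNat 0, .ofNat 818993518728741575730610255716941824, .ofNat 0, .ofNat 0, .ofNat 0, .ofNat 0, .ofNat 0, .ofNat 0, .ofNat 0, .ofNat 0, .ofNat 0⟩)
    (by decide +kernel)
theorem L02055 : Good (Phi V5.P V5.D (-1) (-1)) ⟨3, 7, 2, 1, 2, 1, 2, 2, 3, 2⟩ :=
  out_sound (S := T5.ds_mm) T5.ok_mm (w := 43) (j := 3) (by decide +kernel)
theorem L02056 : Good (Phi V5.P V5.D (-1) (-1)) ⟨3, 4, 2, 1, 2, 1, 2, 2, 3, 3⟩ :=
  out_sound (S := T5.ds_mm) T5.ok_mm (w := 43) (j := 3) (by decide +kernel)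
theorem L02057 : Good (Phi V5.P V5.D (-1) (-1)) ⟨3, 5, 2, 1, 2, 1, 2, 2, 4, 6⟩ :=
  leafX_sound T5.ok_mm T5.Ymm.bz_eq (w := 204) (c := ⟨⟨.negSucc 1685, .negSucc 244, .negSucc 45, .ofNat 114, .ofNat 227, .ofNat 149⟩, ⟨.ofNat 448, .ofNat 222, .ofNat 278, .negSucc 36, .negSucc 69, .negSucc 52⟩, ⟨.ofNat 1771, .ofNat 238, .ofNat 75, .negSucc 595, .negSucc 640, .negSucc 134⟩, ⟨.negSucc 3278, .negSucc 16, .negSucc 113, .ofNat 187, .ofNat 481, .ofNat 259⟩, ⟨.negSucc 148, .negSucc 60, .negSucc 44, .negSucc 34, .ofNat 268, .ofNat 10⟩, .ofNat 684, .ofNat 903, .ofNat 0, .ofNat 903, .ofNat 2899, .ofNat 0, .ofNat 128, .negSucc 250, .negSucc 104, .ofNat 0, .ofNat 148, .ofNat 31, .ofNat 0, .ofNat 0, .ofNat 1645, .ofNat 4692, .ofNat 51950654732605606821427503679775967281152, .ofNat 0, .ofNat 505284796912724936564982960854401024, .ofNat 0, .ofNat 0, .ofNat 2765955094560052726739594660541945085952, .ofNat 6394788565561187196072030034836062208,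 .ofNat 0, .ofNat 0, .ofNat 12608082823463300988918663227847139655680, .ofNat 29062131674923537609474722210208808960, .ofNat 0, .ofNat 0, .ofNat 68930620722455524736618802108882835472384, .ofNat 105685531701162473735249446469957058560, .ofNat 0⟩)
    (by decide +kernel)
theorem L02058 : Good (Phi V5.P V5.D (-1) (-1)) ⟨3, 5, 2, 1, 2, 1, 2, 2, 4, 7⟩ :=
  leafX_sound T5.ok_mm T5.Ymm.bz_eq (w := 203) (c := ⟨⟨.negSucc 1594, .negSucc 170, .negSucc 2, .ofNat 115, .ofNat 206, .ofNat 92⟩, ⟨.ofNat 414, .ofNat 195, .ofNat 204, .negSucc 31, .negSucc 57, .negSucc 29⟩, ⟨.ofNat 2071, .negSucc 55, .negSucc 213, .negSucc 969, .negSucc 730, .negSucc 263⟩, ⟨.negSucc 3192, .ofNat 88, .ofNat 1, .ofNat 277, .ofNat 505, .ofNat 188⟩, ⟨.negSucc 488, .ofNat 30, .ofNat 0, .ofNat 255, .ofNat 445, .ofNat 93⟩, .ofNat 355, .ofNat 226, .ofNat 0, .ofNat 226, .ofNat 904, .ofNat 0, .ofNat 157, .negSucc 127, .negSucc 46, .ofNat 0,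 .ofNat 126, .negSucc 3, .ofNat 0, .ofNat 0, .ofNat 1849, .ofNat 1511, .ofNat 35563543514068601284173321770762785259520, .ofNat 30171481704025161104474384498025299968, .ofNat 1033608727255065026644187538654232576, .ofNat 0, .ofNat 0, .ofNat 4740437610940376840153342357373475356672, .ofNat 2910732731973515168733891545438093312, .ofNat 0, .ofNat 287984059174984876645571018703773221519360, .ofNat 12888825198089158028859517542096529522688, .ofNat 2663365922434222789284206697378742272, .ofNat 0, .ofNat 2286128560880753241734584253305346471231488, .ofNat 114158820289452109461749938710233743360000, .ofNat 89313351042438655631868514553558990848, .ofNat 0⟩)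
    (by decide +kernel)
theorem L02059 : Good (Phi V5.P V5.D (-1) (-1)) ⟨3, 6, 2, 1, 3, 2, 2, 2, 5, 12⟩ :=
  leafX_sound T5.ok_mm T5.Ymm.bz_eq (w := 223) (c := ⟨⟨.negSucc 1972, .negSucc 285, .ofNat 10, .ofNat 71, .ofNat 275, .ofNat 96⟩, ⟨.ofNat 704, .ofNat 280, .ofNat 271, .negSucc 33, .negSucc 120, .negSucc 45⟩, ⟨.ofNat 2071, .ofNat 232, .negSucc 5, .negSucc 308, .negSucc 685, .negSucc 84⟩, ⟨.negSucc 3328, .negSucc 19, .ofNat 6, .ofNat 96, .ofNat 517, .ofNat 141⟩, ⟨.negSucc 160, .negSucc 1, .ofNat 3, .negSucc 27, .ofNat 179, .negSucc 11⟩, .ofNat 334, .ofNat 199, .ofNat 0, .ofNat 199, .ofNat 623, .ofNat 0, .ofNat 128, .negSucc 127, .negSucc 52, .ofNat 0, .ofNat 149, .ofNat 20, .ofNat 0, .ofNat 0, .ofNat 443, .ofNat 5788, .ofNat 2739672661387365873923772366170449116236087296, .ofNat 0, .ofNat 508841107920717795072805571337368536875008, .ofNat 0, .ofNat 0, .ofNat 0, .ofNat 2397232290587633270362071813643765209366528,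 .ofNat 0, .ofNat 0, .ofNat 0, .ofNat 0, .ofNat 0, .ofNat 0, .ofNat 0, .ofNat 6671187641453202418646943080639408673652736, .ofNat 0⟩)
    (by decide +kernel)
theorem L02060 : Good (Phi V5.P V5.D (-1) (-1)) ⟨3, 6, 2, 1, 3, 3, 2, 2, 5, 12⟩ :=
  leafX_sound T5.ok_mm T5.Ymm.bz_eq (w := 222) (c := ⟨⟨.negSucc 1915, .negSucc 254, .ofNat 9, .ofNat 91, .ofNat 268, .ofNat 102⟩, ⟨.ofNat 677, .ofNat 273, .ofNat 265, .negSucc 41, .negSucc 111, .negSucc 53⟩, ⟨.ofNat 1848, .ofNat 133, .negSucc 53, .negSucc 538, .negSucc 822, .negSucc 88⟩, ⟨.negSucc 3260, .ofNat 35, .negSucc 12, .ofNat 122, .ofNat 561, .ofNat 158⟩, ⟨.negSucc 228, .negSucc 2, .ofNat 1, .negSucc 39, .ofNat 326, .ofNat 15⟩, .ofNat 586, .ofNat 598, .ofNat 0, .ofNat 598, .ofNat 1488, .ofNat 0, .ofNat 128, .negSucc 226, .negSucc 68, .ofNat 0, .ofNat 174, .ofNat 26, .ofNat 0, .ofNat 0, .ofNat 1087, .ofNat 2874, .ofNat 1407123640565355515699090905389934715990966272,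 .ofNat 0, .ofNat 245194780651551060006792869176023883710464, .ofNat 0, .ofNat 0, .ofNat 0, .ofNat 10989897998784846362740993436706157895876608, .ofNat 0, .ofNat 0, .ofNat 0, .ofNat 20604225665286610808282268761940749184925696, .ofNat 0, .ofNat 0, .ofNat 1135423372050921994462829847204179367830749184, .ofNat 17761928261513231115603777474546833291214848, .ofNat 0⟩)
    (by decide +kernel)
theorem L02061 : Good (Phi V5.P V5.D (-1) (-1)) ⟨3, 6, 2, 1, 2, 1, 2, 2, 5, 13⟩ :=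
  leafX_sound T5.ok_mm T5.Ymm.bz_eq (w := 208) (c := ⟨⟨.negSucc 1894, .negSucc 218, .ofNat 5, .ofNat 165, .ofNat 247, .ofNat 77⟩, ⟨.ofNat 681, .ofNat 238, .ofNat 236, .negSucc 73, .negSucc 97, .negSucc 33⟩, ⟨.ofNat 2300, .negSucc 265, .ofNat 175, .negSucc 1074, .negSucc 815, .negSucc 195⟩, ⟨.negSucc 3271, .ofNat 81, .negSucc 21, .ofNat 306, .ofNat 563, .ofNat 116⟩, ⟨.negSucc 335, .ofNat 57, .negSucc 32, .ofNat 118, .ofNat 385, .negSucc 5⟩, .ofNat 334, .ofNat 199, .ofNat 0, .ofNat 199, .ofNat 623, .ofNat 0, .ofNat 128, .negSucc 159, .negSucc 94, .ofNat 0, .ofNat 186, .ofNat 24, .ofNat 0, .ofNat 0, .ofNat 1390, .ofNat 2051, .ofNat 376024860527083753371217948677246587764736, .ofNat 0, .ofNat 29594368332126110436442685711463743488, .ofNat 0, .ofNat 0, .ofNat 20854807006502897303523525685661652746240, .ofNat 213926848790731246274295498853429805056, .ofNat 0, .ofNat 0, .ofNat 78906965676110706812579938333847069917184,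 .ofNat 678498500979550946727874621723562213376, .ofNat 0, .ofNat 0, .ofNat 333194813089843782796144747524341570207744, .ofNat 2275122657695214701874027425888311705600, .ofNat 0⟩)
    (by decide +kernel)
theorem L02062 : Good (Phi V5.P V5.D (-1) (-1)) ⟨3, 6, 2, 1, 3, 2, 2, 2, 4, 7⟩ :=
  leafX_sound T5.ok_mm T5.Ymm.bz_eq (w := 221) (c := ⟨⟨.negSucc 1826, .negSucc 189, .negSucc 14, .ofNat 83, .ofNat 256, .ofNat 106⟩, ⟨.ofNat 669, .ofNat 235, .ofNat 217, .negSucc 33, .negSucc 110, .negSucc 53⟩, ⟨.ofNat 2035, .negSucc 42, .ofNat 153, .negSucc 423, .negSucc 731, .negSucc 460⟩, ⟨.negSucc 3162, .ofNat 86, .negSucc 21, .ofNat 174, .ofNat 541, .ofNat 223⟩, ⟨.negSucc 323, .ofNat 23, .negSucc 14, .ofNat 97, .ofNat 305, .ofNat 118⟩, .ofNat 333, .ofNat 196, .ofNat 0, .ofNat 196, .ofNat 643, .ofNat 0, .ofNat 128, .negSucc 153, .negSucc 94, .ofNat 0, .ofNat 182, .ofNat 7, .ofNat 0, .ofNat 0, .ofNat 1538, .ofNat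 26523, .ofNat 3691460885521459027157803034973619365311676416, .ofNat 0, .ofNat 103173222062446484050104520199044838981632, .ofNat 0, .ofNat 1579006787148511129747182176695076260828676096, .ofNat 0, .ofNat 277065754438059263938148735886820804395008, .ofNat 0, .ofNat 2485161636111752730429677349014963497256091648, .ofNat 0, .ofNat 427660040682307715967176602762133878341632, .ofNat 0, .ofNat 0, .ofNat 0, .ofNat 0, .ofNat 0⟩)
    (by decide +kernel)
theorem L02063 : Good (Phi V5.P V5.D (-1) (-1)) ⟨3, 6, 2, 1, 3, 3, 3, 4, 4, 7⟩ :=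
  leafX_sound T5.ok_mm T5.Ymm.bz_eq (w := 225) (c := ⟨⟨.negSucc 1603, .negSucc 216, .negSucc 8, .negSucc 1, .ofNat 41, .ofNat 58⟩, ⟨.ofNat 554, .ofNat 254, .ofNat 221, .ofNat 7, .negSucc 10, .negSucc 9⟩, ⟨.ofNat 2774, .negSucc 386, .negSucc 26, .negSucc 1422, .negSucc 879, .negSucc 1007⟩, ⟨.negSucc 2902, .ofNat 72, .negSucc 16, .ofNat 100, .ofNat 210, .ofNat 193⟩, ⟨.negSucc 488, .ofNat 72, .negSucc 11, .ofNat 207, .ofNat 300, .ofNat 215⟩, .ofNat 334, .ofNat 198, .ofNat 0, .ofNat 198, .ofNat 644, .ofNat 0, .ofNat 145, .negSucc 110, .ofNat 27, .ofNat 0, .ofNat 128, .negSucc 50, .ofNat 0, .ofNat 0, .ofNat 1988, .ofNat 26423, .ofNat 30876516236793868497871162697873920352562708480, .ofNat 0, .ofNat 0, .ofNat 0, .ofNat 20338711215720171497744475160452476729829621760, .ofNat 0, .ofNat 1325888410802868990641601502732389573459968, .ofNat 0, .ofNat 34734197927891853388815484725590861629945282560, .ofNat 0,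 .ofNat 7448821127970237787760909921351043477667840, .ofNat 0, .ofNat 345337708931593857439643837596314988047891431424, .ofNat 0, .ofNat 37815991473764591554893639406716483297869824, .ofNat 0⟩)
    (by decide +kernel)
theorem L02064 : Good (Phi V5.P V5.D (-1) (-1)) ⟨4, 12, 2, 1, 3, 3, 3, 5, 5, 14⟩ :=
  leafX_sound T5.ok_mm T5.Ymm.bz_eq (w := 229) (c := ⟨⟨.negSucc 1562, .negSucc 106, .negSucc 8, .negSucc 6, .ofNat 74, .ofNat 44⟩, ⟨.ofNat 544, .ofNat 128, .ofNat 198, .ofNat 18, .negSucc 15, .negSucc 15⟩, ⟨.ofNat 1705, .negSucc 184, .ofNat 10, .negSucc 1301, .negSucc 673, .negSucc 266⟩, ⟨.negSucc 2700, .ofNat 43, .negSucc 12, .ofNat 105, .ofNat 250, .ofNat 97⟩, ⟨.negSucc 216, .ofNat 48, .negSucc 21, .ofNat 256, .ofNat 302, .ofNat 62⟩, .ofNat 556, .ofNat 555, .ofNat 0, .ofNat 555, .ofNat 1525, .ofNat 0, .ofNat 153, .negSucc 127, .ofNat 22, .ofNat 0, .ofNat 99, .negSucc 26, .ofNat 0, .ofNat 0, .ofNat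 1486, .ofNat 1383, .ofNat 109406607351047987585812469873808580325954027520, .ofNat 0, .ofNat 1792180477051156384969123236594678493085696, .ofNat 0, .ofNat 0, .ofNat 0, .ofNat 0, .ofNat 0, .ofNat 0, .ofNat 11718621366293129122553104861103996413870604288, .ofNat 40181926672691835122880992931807344977772544, .ofNat 0, .ofNat 0, .ofNat 150399787287797530640695047043453209417648963584, .ofNat 328032237858608296576212511032841063750434816, .ofNat 0⟩)
    (by decide +kernel)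
theorem L02065 : Good (Phi V5.P V5.D (-1) (-1)) ⟨4, 12, 2, 1, 3, 3, 3, 5, 5, 15⟩ :=
  leafX_sound T5.ok_mm T5.Ymm.bz_eq (w := 231) (c := ⟨⟨.negSucc 1495, .negSucc 93, .negSucc 35, .negSucc 51, .ofNat 65, .ofNat 28⟩, ⟨.ofNat 527, .ofNat 128, .ofNat 186, .ofNat 37, .negSucc 12, .negSucc 6⟩, ⟨.ofNat 1525, .negSucc 199, .negSucc 49, .negSucc 1546, .negSucc 648, .negSucc 328⟩, ⟨.negSucc 2625, .ofNat 58, .negSucc 19, .ofNat 97, .ofNat 272, .ofNat 82⟩, ⟨.negSucc 261, .ofNat 50, .ofNat 3, .ofNat 399, .ofNat 373, .ofNat 90⟩, .ofNat 329, .ofNat 185, .ofNat 0, .ofNat 185, .ofNat 652, .ofNat 0, .ofNat 132, .negSucc 104, .ofNat 52, .ofNat 0, .ofNat 128, .negSucc 85, .ofNat 0, .ofNat 0, .ofNat 2145, .ofNat 3860, .ofNat 702373489328216085255531197244297954151383433216, .ofNat 3206876819289010607561942947488441041952964608, .ofNat 3943878877582805563092573986310824973565952, .ofNat 0, .ofNat 999598270862525054997156018038405514862121713664,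 .ofNat 25158294313792447291616139103677235094244818944, .ofNat 45038327217655687968085733296156376102338560, .ofNat 0, .ofNat 1577019211622103332488530544133931289571613474816, .ofNat 35285837686532204695115808691553559713297727488, .ofNat 17250486563153283430171670447205245058547712, .ofNat 0, .ofNat 19298391039868608576485499684587842415280561061888, .ofNat 532388943505081051538102619303336575185664868352, .ofNat 1001135985529556859425632804902604406496690176, .ofNat 0⟩)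
    (by decide +kernel)
theorem L02066 : Good (Phi V5.P V5.D (-1) (-1)) ⟨4, 13, 3, 2, 3, 3, 3, 5, 4, 7⟩ :=
  leafX_sound T5.ok_mm T5.Ymm.bz_eq (w := 228) (c := ⟨⟨.negSucc 1695, .negSucc 93, .ofNat 8, .ofNat 5, .ofNat 89, .ofNat 73⟩, ⟨.ofNat 689, .ofNat 130, .ofNat 88, .ofNat 15, .negSucc 19, .negSucc 21⟩, ⟨.ofNat 1481, .negSucc 296, .ofNat 69, .negSucc 1285, .negSucc 660, .negSucc 728⟩, ⟨.negSucc 2697, .ofNat 27, .ofNat 8, .ofNat 130, .ofNat 275, .ofNat 198⟩, ⟨.negSucc 154, .negSucc 47, .negSucc 27, .ofNat 263, .ofNat 296, .ofNat 186⟩, .ofNat 730, .ofNat 765, .ofNat 0, .ofNat 765, .ofNat 1667, .ofNat 0, .ofNat 128, .negSucc 196, .ofNat 81, .ofNat 0, .ofNat 183, .negSucc 82, .ofNat 0, .ofNat 0, .ofNat 2373, .ofNat 2445, .ofNat 355239666598900164701553495446972231851825954816, .ofNat 856532155048013543046146912135840033490862080, .ofNat 151400832088280035577794620983479755603968, .ofNat 0, .ofNat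 1029486922138090892830462803949157851040768327680, .ofNat 20839257309127902743095225038992172169742516224, .ofNat 3789938972562442735419500754893344895664128, .ofNat 0, .ofNat 3397468577799888217037234103043137847436500795392, .ofNat 31323149133835033007181788949010635188502265856, .ofNat 19494994702879053214361808883393625264750592, .ofNat 0, .ofNat 20711002921659811482730760944148145059600988635136, .ofNat 554664624668868002660005930066136497450771283968, .ofNat 11660968602213578167339014247804305508663296, .ofNat 0⟩)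
    (by decide +kernel)
theorem L02067 : Good (Phi V5.P V5.D (-1) (-1)) ⟨4, 13, 3, 3, 4, 6, 3, 5, 4, 7⟩ :=
  leafX_sound T5.ok_mm T5.Ymm.bz_eq (w := 244) (c := ⟨⟨.negSucc 1687, .negSucc 136, .ofNat 3, .negSucc 2, .ofNat 113, .ofNat 36⟩, ⟨.ofNat 790, .ofNat 168, .ofNat 87, .ofNat 7, .negSucc 46, .negSucc 11⟩, ⟨.ofNat 1564, .negSucc 440, .ofNat 121, .negSucc 699, .negSucc 544, .negSucc 889⟩, ⟨.negSucc 2702, .ofNat 49, .negSucc 9, .ofNat 75, .ofNat 302, .ofNat 174⟩, ⟨.negSucc 179, .ofNat 107, .negSucc 26, .ofNat 147, .ofNat 257, .ofNat 219⟩, .ofNat 649, .ofNat 689, .ofNat 0, .ofNat 689, .ofNat 1514, .ofNat 0, .ofNat 128, .negSucc 357, .ofNat 65, .ofNat 0, .ofNat 277, .negSucc 85, .ofNat 0, .ofNat 0, .ofNat 4243, .ofNat 11670, .ofNat 6718026318294299653810666374368138979848180157382656, .ofNat 0, .ofNat 22101339521933082804046398354688391501427245056, .ofNat 0, .ofNat 5226244140330002206996427228019489289883347467632640,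 .ofNat 21064355715834825944896434027961720552907354406912, .ofNat 132136586474316729464959689324212779109842944000, .ofNat 0, .ofNat 38166668825766474338045454541578936579425247852232704, .ofNat 317586511293442268832708854869634338851161471188992, .ofNat 969933983258243990719639208302146108695787864064, .ofNat 0, .ofNat 255368883958049953023915124038381746199316164457267200, .ofNat 6243336869576091185897187249091252944585482051780608, .ofNat 1335818863391929817207390173003481725844653604864, .ofNat 0⟩)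
    (by decide +kernel)
theorem L02068 : Good (Phi V5.P V5.D (-1) (-1)) ⟨4, 13, 3, 3, 5, 14, 3, 5, 5, 14⟩ :=
  leafX_sound T5.ok_mm T5.Ymm.bz_eq (w := 262) (c := ⟨⟨.negSucc 1661, .negSucc 127, .negSucc 1, .negSucc 18, .ofNat 46, .ofNat 31⟩, ⟨.ofNat 778, .ofNat 158, .ofNat 95, .ofNat 13, .negSucc 7, .negSucc 11⟩, ⟨.ofNat 1088, .negSucc 348, .ofNat 17, .negSucc 489, .negSucc 905, .negSucc 455⟩, ⟨.negSucc 2614, .ofNat 48, .negSucc 7, .ofNat 22, .ofNat 256, .ofNat 91⟩, ⟨.negSucc 79, .ofNat 74, .negSucc 15, .ofNat 92, .ofNat 349, .ofNat 91⟩, .ofNat 869, .ofNat 1066, .ofNat 0, .ofNat 1066, .ofNat 2215, .ofNat 0, .ofNat 128, .negSucc 289, .ofNat 142, .ofNat 0, .ofNat 207, .negSucc 105, .ofNat 0, .ofNat 0, .ofNat 3546, .ofNat 6019, .ofNat 100281498457188673121455350412739664928805385056691421184, .ofNat 0, .ofNat 6255653801877017975066740700707462454540807276855296, .ofNat 0, .ofNat 0, .ofNat 1782897024836822778843687700684859821990460148397637632,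 .ofNat 94728565824893232089457616542989647837168391828799488, .ofNat 0, .ofNat 0, .ofNat 10273756601958841134623837036694664234912824119238066176, .ofNat 349770126719666150788199476768127308842802390444802048, .ofNat 0, .ofNat 0, .ofNat 157609105998103678674116025956428662331617854912997621760, .ofNat 324952387655121703431904328527195926108443458555346944, .ofNat 0⟩)
    (by decide +kernel)
theorem L02069 : Good (Phi V5.P V5.D (-1) (-1)) ⟨4, 13, 3, 3, 5, 15, 3, 5, 5, 14⟩ :=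
  leafX_sound T5.ok_mm T5.Ymm.bz_eq (w := 262) (c := ⟨⟨.negSucc 1626, .negSucc 155, .negSucc 7, .negSucc 57, .negSucc 26, .negSucc 11⟩, ⟨.ofNat 758, .ofNat 185, .ofNat 95, .ofNat 37, .ofNat 34, .ofNat 15⟩, ⟨.ofNat 988, .negSucc 577, .negSucc 8, .negSucc 771, .negSucc 1329, .negSucc 841⟩, ⟨.negSucc 2567, .ofNat 24, .negSucc 5, .negSucc 9, .ofNat 210, .ofNat 70⟩, ⟨.negSucc 85, .ofNat 95, .ofNat 8, .ofNat 142, .ofNat 469, .ofNat 162⟩, .ofNat 600, .ofNat 590, .ofNat 0, .ofNat 590, .ofNat 1295, .ofNat 0, .ofNat 128, .negSucc 226, .ofNat 180, .ofNat 0, .ofNat 190, .negSucc 137, .ofNat 0, .ofNat 0, .ofNat 2550, .ofNat 4551, .ofNat 64012340451482646506045722059251600227276522638771486720, .ofNat 236958163079978276873993644228477725657298702027456512, .ofNat 2496962976889151816207046397035288540316678943145984, .ofNat 0, .ofNat 0, .ofNat 0, .ofNat 0, .ofNat 0, .ofNat 0, .ofNat 10004530724298544320795664578339646996959943903630327808,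 .ofNat 140340850802737309224161629857862328856201273716768768, .ofNat 0, .ofNat 0, .ofNat 117181799733056262769968744892116146167029274933070921728, .ofNat 358816836532467721066027763865595175715205920954777600, .ofNat 0⟩)
    (by decide +kernel)
theorem L02070 : Good (Phi V5.P V5.D (-1) (-1)) ⟨4, 13, 3, 3, 4, 7, 3, 5, 5, 15⟩ :=
  leafX_sound T5.ok_mm T5.Ymm.bz_eq (w := 250) (c := ⟨⟨.negSucc 1505, .negSucc 145, .negSucc 34, .negSucc 199, .negSucc 96, .negSucc 53⟩, ⟨.ofNat 693, .ofNat 188, .ofNat 98, .ofNat 127, .ofNat 83, .ofNat 36⟩, ⟨.ofNat 1369, .negSucc 581, .negSucc 177, .negSucc 2059, .negSucc 1703, .negSucc 980⟩, ⟨.negSucc 2467, .ofNat 42, .negSucc 17, .negSucc 54, .ofNat 193, .ofNat 43⟩, ⟨.negSucc 222, .ofNat 109, .ofNat 31, .ofNat 462, .ofNat 638, .ofNat 240⟩, .ofNat 348, .ofNat 228, .ofNat 0, .ofNat 228, .ofNat 637, .ofNat 0, .ofNat 128, .negSucc 228, .ofNat 186, .ofNat 0, .ofNat 250, .negSucc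 189, .ofNat 0, .ofNat 0, .ofNat 3235, .ofNat 15391, .ofNat 117609962623544381069963835599338542801026134522724352, .ofNat 876861668894765511591966295180770506318826518347776, .ofNat 667848558514226566141150498027219426772401520640, .ofNat 0, .ofNat 444891311758049225789584991326795310341590585243074560, .ofNat 7151803699542036215165124739340989495104645390925824, .ofNat 948165819189462791886291080681474813313704525824, .ofNat 0, .ofNat 2059267175202732983157873215784583221321076088489639936, .ofNat 32904612485627130575758780218152083273406378428858368, .ofNat 14548600862149500976020237749766271788110082736128, .ofNat 0, .ofNat 8840438580946003687659780812753253225168884425197355008, .ofNat 171570174491804566117542576591867094676400180461305856, .ofNat 9205836687437209282647839698347183545039173189632, .ofNat 0⟩)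
    (by decide +kernel)
theorem L02071 : Good (Phi V5.P V5.D (-1) (-1)) ⟨3, 7, 2, 1, 2, 1, 2, 2, 3, 3⟩ :=
  out_sound (S := T5.ds_mm) T5.ok_mm (w := 43) (j := 3) (by decide +kernel)
theorem L02072 : Good (Phi V5.P V5.D (-1) (-1)) ⟨2, 2, 2, 1, 2, 1, 2, 3, 3, 2⟩ :=
  leafX_sound T5.ok_mm T5.Ymm.bz_eq (w := 192) (c := ⟨⟨.negSucc 1587, .negSucc 399, .ofNat 6, .ofNat 78, .ofNat 614, .ofNat 306⟩, ⟨.ofNat 267, .ofNat 425, .ofNat 206, .negSucc 20, .negSucc 193, .negSucc 97⟩, ⟨.ofNat 1588, .ofNat 76, .ofNat 30, .negSucc 564, .negSucc 895, .negSucc 335⟩, ⟨.negSucc 3519, .ofNat 115, .ofNat 58, .ofNat 187, .ofNat 1285, .ofNat 576⟩, ⟨.negSucc 136, .negSucc 107, .ofNat 167, .ofNat 170, .ofNat 636, .ofNat 153⟩, .ofNat 534, .ofNat 542, .ofNat 0, .ofNat 542, .ofNat 1843, .ofNat 0, .ofNat 128, .negSucc 135, .negSucc 69, .ofNat 0, .ofNat 95, .ofNat 21, .ofNat 0, .ofNat 0, .ofNat 417, .ofNat 353, .ofNat 0, .ofNat 0,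 .ofNat 8200910135868074765431651904258048, .ofNat 0, .ofNat 0, .ofNat 24876598694905765592396578648739545088, .ofNat 0, .ofNat 0, .ofNat 0, .ofNat 24128727306563304750238788160447315968, .ofNat 560812796810758667711150814612422656, .ofNat 0, .ofNat 0, .ofNat 19953717068084572374860312625427775488, .ofNat 1368815585855398529609932215712481280, .ofNat 0⟩)
    (by decide +kernel)
theorem L02073 : Good (Phi V5.P V5.D (-1) (-1)) ⟨2, 2, 2, 1, 2, 1, 2, 3, 4, 6⟩ :=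
  leafX_sound T5.ok_mm T5.Ymm.bz_eq (w := 198) (c := ⟨⟨.negSucc 1354, .negSucc 293, .negSucc 18, .ofNat 116, .ofNat 347, .ofNat 98⟩, ⟨.ofNat 194, .ofNat 388, .ofNat 196, .negSucc 31, .negSucc 102, .negSucc 30⟩, ⟨.ofNat 1406, .negSucc 71, .negSucc 44, .negSucc 751, .negSucc 739, .negSucc 117⟩, ⟨.negSucc 3056, .ofNat 286, .ofNat 4, .ofNat 286, .ofNat 756, .ofNat 178⟩, ⟨.negSucc 154, .ofNat 102, .ofNat 34, .ofNat 251, .ofNat 468, .ofNat 30⟩, .ofNat 684, .ofNat 897, .ofNat 0, .ofNat 897, .ofNat 2847, .ofNat 0, .ofNat 128, .negSucc 160, .negSucc 37, .ofNat 0, .ofNat 96, .ofNat 9, .ofNat 0, .ofNat 0, .ofNat 647, .ofNat 777, .ofNat 0, .ofNat 0, .ofNat 507728338669901244492734040798920704, .ofNat 0, .ofNat 0, .ofNat 426673948169613891428531795702170255360, .ofNat 26604165836410053607006908653684916224, .ofNat 0, .ofNat 0, .ofNat 532362468731543265098422803806919065600, .ofNat 23838587499002698316637900208575873024,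 .ofNat 0, .ofNat 0, .ofNat 933871574897221085140821973929813868544, .ofNat 52175273669022636276490700220073508864, .ofNat 0⟩)
    (by decide +kernel)
theorem L02074 : Good (Phi V5.P V5.D (-1) (-1)) ⟨2, 2, 2, 1, 2, 1, 2, 3, 4, 7⟩ :=
  leafX_sound T5.ok_mm T5.Ymm.bz_eq (w := 197) (c := ⟨⟨.negSucc 1223, .negSucc 327, .negSucc 16, .ofNat 127, .ofNat 250, .ofNat 65⟩, ⟨.ofNat 157, .ofNat 393, .ofNat 201, .negSucc 34, .negSucc 73, .negSucc 18⟩, ⟨.ofNat 1588, .negSucc 371, .ofNat 138, .negSucc 867, .negSucc 677, .negSucc 226⟩, ⟨.negSucc 2826, .ofNat 233, .negSucc 16, .ofNat 325, .ofNat 585, .ofNat 130⟩, ⟨.negSucc 166, .ofNat 138, .negSucc 10, .ofNat 318, .ofNat 461, .ofNat 53⟩, .ofNat 535, .ofNat 542, .ofNat 0, .ofNat 542, .ofNat 1849, .ofNat 0, .ofNat 132, .negSucc 127, .negSucc 33, .ofNat 0, .ofNat 92, .ofNat 2, .ofNat 0, .ofNat 0, .ofNat 862, .ofNat 605, .ofNat 637499659983951661221674753861953257472,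 .ofNat 3949432731897558545796353335972855808, .ofNat 2217350727806642163690687258135887872, .ofNat 0, .ofNat 0, .ofNat 374255709430639115615809558291366805504, .ofNat 5083051913166615200128507366470582272, .ofNat 0, .ofNat 0, .ofNat 775255667914496720025112146181063966720, .ofNat 49822163834448001517681647528334852096, .ofNat 0, .ofNat 0, .ofNat 2185996866119327317906046783600967286784, .ofNat 80533709220475092616206691430731612160, .ofNat 0⟩)
    (by decide +kernel)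
theorem L02075 : Good (Phi V5.P V5.D (-1) (-1)) ⟨3, 6, 2, 1, 2, 1, 2, 3, 3, 2⟩ :=
  leafX_sound T5.ok_mm T5.Ymm.bz_eq (w := 195) (c := ⟨⟨.negSucc 2080, .negSucc 261, .ofNat 17, .ofNat 139, .ofNat 704, .ofNat 377⟩, ⟨.ofNat 757, .ofNat 300, .ofNat 220, .negSucc 48, .negSucc 267, .negSucc 159⟩, ⟨.ofNat 1839, .ofNat 96, .ofNat 29, .negSucc 747, .negSucc 1003, .negSucc 429⟩, ⟨.negSucc 3511, .ofNat 39, .ofNat 19, .ofNat 272, .ofNat 1373, .ofNat 658⟩, ⟨.negSucc 203, .ofNat 69, .negSucc 40, .ofNat 148, .ofNat 593, .ofNat 180⟩, .ofNat 569, .ofNat 571, .ofNat 0, .ofNat 571, .ofNat 1469, .ofNat 0, .ofNat 128, .negSucc 150, .negSucc 81, .ofNat 0, .ofNat 115, .ofNat 33, .ofNat 0, .ofNat 0, .ofNat 412, .ofNat 117, .ofNat 0, .ofNat 0, .ofNat 0, .ofNat 0, .ofNat 0, .ofNat 314337574023568413028794061138478235648, .ofNat 79207752000382863276584019404259328, .ofNat 0, .ofNat 0, .ofNat 261220088517086836432877976973706526720,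 .ofNat 270428153353158798566393194989223936, .ofNat 0, .ofNat 0, .ofNat 419700135411614567641848231582937120768, .ofNat 0, .ofNat 0⟩)
    (by decide +kernel)
theorem L02076 : Good (Phi V5.P V5.D (-1) (-1)) ⟨3, 7, 2, 1, 2, 1, 2, 3, 3, 2⟩ :=
  out_sound (S := T5.ds_mm) T5.ok_mm (w := 43) (j := 3) (by decide +kernel)
theorem L02077 : Good (Phi V5.P V5.D (-1) (-1)) ⟨4, 12, 2, 1, 2, 1, 2, 3, 4, 6⟩ :=
  leafX_sound T5.ok_mm T5.Ymm.bz_eq (w := 205) (c := ⟨⟨.negSucc 1677, .negSucc 100, .negSucc 5, .ofNat 137, .ofNat 380, .ofNat 108⟩, ⟨.ofNat 600, .ofNat 123, .ofNat 193, .negSucc 40, .negSucc 135, .negSucc 42⟩, ⟨.ofNat 1554, .negSucc 113, .ofNat 95, .negSucc 1085, .negSucc 876, .negSucc 183⟩, ⟨.negSucc 2833, .ofNat 52, .ofNat 6, .ofNat 349, .ofNat 835, .ofNat 188⟩, ⟨.negSucc 104, .ofNat 36, .negSucc 7, .ofNat 311, .ofNat 539, .ofNat 43⟩, .ofNat 554, .ofNat 550, .ofNat 0, .ofNat 550, .ofNat 1505, .ofNat 0,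 .ofNat 128, .negSucc 164, .negSucc 38, .ofNat 0, .ofNat 129, .ofNat 8, .ofNat 0, .ofNat 0, .ofNat 668, .ofNat 279, .ofNat 0, .ofNat 0, .ofNat 0, .ofNat 0, .ofNat 0, .ofNat 53911302560950166099188877942204837920768, .ofNat 2323693205905233849005806972091498496, .ofNat 0, .ofNat 0, .ofNat 143259870913127425533197805479086014857216, .ofNat 2755494332011900898429317869406781440, .ofNat 0, .ofNat 0, .ofNat 259622095260406461645759704723520770539520, .ofNat 516156693632165382342507730003034112, .ofNat 0⟩)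
    (by decide +kernel)
theorem L02078 : Good (Phi V5.P V5.D (-1) (-1)) ⟨4, 13, 2, 1, 2, 1, 2, 3, 4, 6⟩ :=
  leafX_sound T5.ok_mm T5.Ymm.bz_eq (w := 205) (c := ⟨⟨.negSucc 1802, .negSucc 99, .negSucc 3, .ofNat 146, .ofNat 410, .ofNat 128⟩, ⟨.ofNat 756, .ofNat 139, .ofNat 194, .negSucc 63, .negSucc 187, .negSucc 64⟩, ⟨.ofNat 1517, .negSucc 71, .ofNat 165, .negSucc 1305, .negSucc 835, .negSucc 189⟩, ⟨.negSucc 2802, .ofNat 90, .negSucc 46, .ofNat 394, .ofNat 870, .ofNat 219⟩, ⟨.negSucc 58, .ofNat 66, .negSucc 52, .ofNat 327, .ofNat 505, .ofNat 53⟩, .ofNat 923, .ofNat 1105, .ofNat 0, .ofNat 1105, .ofNat 2250, .ofNat 0, .ofNat 128, .negSucc 230, .negSucc 25, .ofNat 0, .ofNat 188, .negSucc 5, .ofNat 0, .ofNat 0, .ofNat 943, .ofNat 301, .ofNat 0, .ofNat 0, .ofNat 0, .ofNat 0, .ofNat 0, .ofNat 73133204066199349217064969337023550717952, .ofNat 7174355243365378831026258499736698880, .ofNat 0, .ofNat 0, .ofNat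 203387127295019194542316367150164257800192, .ofNat 7361406363137701969265164362356621312, .ofNat 0, .ofNat 0, .ofNat 526553757624261280106322773748299713216512, .ofNat 3391907768815283998984511791176876032, .ofNat 0⟩)
    (by decide +kernel)
theorem L02079 : Good (Phi V5.P V5.D (-1) (-1)) ⟨3, 7, 2, 1, 2, 1, 2, 3, 4, 6⟩ :=
  out_sound (S := T5.ds_mm) T5.ok_mm (w := 43) (j := 3) (by decide +kernel)
theorem L02080 : Good (Phi V5.P V5.D (-1) (-1)) ⟨3, 6, 2, 1, 3, 2, 2, 3, 4, 7⟩ :=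
  leafX_sound T5.ok_mm T5.Ymm.bz_eq (w := 216) (c := ⟨⟨.negSucc 1558, .negSucc 181, .negSucc 18, .ofNat 79, .ofNat 281, .ofNat 59⟩, ⟨.ofNat 564, .ofNat 240, .ofNat 189, .negSucc 28, .negSucc 111, .negSucc 27⟩, ⟨.ofNat 1426, .negSucc 185, .ofNat 146, .negSucc 632, .negSucc 830, .negSucc 254⟩, ⟨.negSucc 2643, .ofNat 130, .negSucc 22, .ofNat 216, .ofNat 678, .ofNat 129⟩, ⟨.negSucc 87, .ofNat 95, .negSucc 29, .ofNat 197, .ofNat 504, .ofNat 72⟩, .ofNat 335, .ofNat 200, .ofNat 0, .ofNat 200, .ofNat 647, .ofNat 0, .ofNat 185, .negSucc 109, .negSucc 38, .ofNat 0, .ofNat 128, .negSucc 10, .ofNat 0, .ofNat 0, .ofNat 847, .ofNat 1191, .ofNat 152839599175863131723757495546956216153407488, .ofNat 263832600830231129991210175612386199732224, .ofNat 6492236448221837158248656689275791736832, .ofNat 0, .ofNat 0, .ofNat 54265289253616555444420880021046323931250688, .ofNat 49088371124930307546370532349597196484608,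 .ofNat 0, .ofNat 0, .ofNat 36728848637946496856544484331008834987360256, .ofNat 141313046273212320637091533988425956851712, .ofNat 0, .ofNat 0, .ofNat 106059527697891927224323118529496321015939072, .ofNat 0, .ofNat 0⟩)
    (by decide +kernel)
theorem L02081 : Good (Phi V5.P V5.D (-1) (-1)) ⟨3, 6, 2, 1, 4, 6, 3, 6, 4, 7⟩ :=
  leafX_sound T5.ok_mm T5.Ymm.bz_eq (w := 234) (c := ⟨⟨.negSucc 1477, .negSucc 191, .negSucc 27, .ofNat 8, .ofNat 124, .ofNat 43⟩, ⟨.ofNat 526, .ofNat 266, .ofNat 182, .ofNat 8, .negSucc 35, .negSucc 10⟩, ⟨.ofNat 992, .negSucc 419, .ofNat 77, .negSucc 531, .negSucc 460, .negSucc 639⟩, ⟨.negSucc 2448, .ofNat 138, .negSucc 21, .ofNat 75, .ofNat 339, .ofNat 146⟩, ⟨.ofNat 77, .ofNat 107, .negSucc 19, .ofNat 139, .ofNat 320, .ofNat 153⟩, .ofNat 571, .ofNat 573, .ofNat 0, .ofNat 573, .ofNat 1471, .ofNat 0, .ofNat 132, .negSucc 127, .ofNat 16, .ofNat 0, .ofNat 101, .negSucc 25, .ofNat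 0, .ofNat 0, .ofNat 1240, .ofNat 1643, .ofNat 6700804622574333994474716710312181609025054441472, .ofNat 25461938533720738759870371239832525618443976704, .ofNat 2578875668276315496483975834029335523304144896, .ofNat 0, .ofNat 0, .ofNat 0, .ofNat 65861913558251372054772647710727171509697118208, .ofNat 0, .ofNat 0, .ofNat 1111452842067948869572343433148071928510248124416, .ofNat 90006840849879908301910233445024385030378487808, .ofNat 0, .ofNat 0, .ofNat 6757143132190457242812818305102097120988428763136, .ofNat 0, .ofNat 0⟩)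
    (by decide +kernel)
theorem L02082 : Good (Phi V5.P V5.D (-1) (-1)) ⟨3, 6, 2, 1, 4, 7, 3, 6, 4, 7⟩ :=
  leafX_sound T5.ok_mm T5.Ymm.bz_eq (w := 236) (c := ⟨⟨.negSucc 1467, .negSucc 202, .negSucc 37, .negSucc 44, .ofNat 72, .ofNat 26⟩, ⟨.ofNat 528, .ofNat 288, .ofNat 181, .ofNat 35, .negSucc 15, .ofNat 2⟩, ⟨.ofNat 526, .negSucc 518, .negSucc 20, .negSucc 824, .negSucc 736, .negSucc 842⟩, ⟨.negSucc 2376, .ofNat 122, .negSucc 20, .ofNat 42, .ofNat 319, .ofNat 151⟩, ⟨.ofNat 202, .ofNat 123, .negSucc 4, .ofNat 236, .ofNat 462, .ofNat 244⟩, .ofNat 163, .ofNat 41, .ofNat 0, .ofNat 41, .ofNat 225, .ofNat 0, .ofNat 128, .negSucc 52, .ofNat 25, .ofNat 0, .ofNat 128, .negSucc 144, .ofNat 0, .ofNat 0, .ofNat 1497, .ofNat 5154, .ofNat 0, .ofNat 1147181165657399593713833300854836500953504415744, .ofNat 23283133862995764188993942029029548000471416832, .ofNat 0, .ofNat 0, .ofNat 2423460405688333408276813122259168122780201779200,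 .ofNat 0, .ofNat 0, .ofNat 0, .ofNat 4188916253180422766883169720036178558623863013376, .ofNat 1055255209767831175407379691940810083417456640, .ofNat 0, .ofNat 0, .ofNat 33704574314019586380978986888452893054924142673920, .ofNat 0, .ofNat 0⟩)
    (by decide +kernel)
theorem L02083 : Good (Phi V5.P V5.D (-1) (-1)) ⟨3, 6, 2, 1, 3, 3, 3, 7, 4, 7⟩ :=
  out_sound (S := T5.ds_mm) T5.ok_mm (w := 34) (j := 2) (by decide +kernel)
theorem L02084 : Good (Phi V5.P V5.D (-1) (-1)) ⟨3, 7, 2, 1, 2, 1, 2, 3, 4, 7⟩ :=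
  out_sound (S := T5.ds_mm) T5.ok_mm (w := 43) (j := 3) (by decide +kernel)
theorem L02085 : Good (Phi V5.P V5.D (-1) (-1)) ⟨1, 1, 2, 1, 1, 0, 1, 1, 1, 1⟩ :=
  leafX_sound T5.ok_mm T5.Ymm.bz_eq (w := 163) (c := ⟨⟨.negSucc 1235, .negSucc 1565, .negSucc 38, .ofNat 1, .negSucc 0, .ofNat 1⟩, ⟨.ofNat 45, .ofNat 1327, .ofNat 340, .ofNat 0, .ofNat 0, .ofNat 0⟩, ⟨.ofNat 550, .ofNat 1540, .ofNat 45, .negSucc 0, .ofNat 1, .negSucc 0⟩, ⟨.negSucc 3000, .negSucc 708, .negSucc 16, .ofNat 2, .negSucc 1, .ofNat 2⟩, ⟨.ofNat 8, .negSucc 15, .ofNat 1, .ofNat 0, .ofNat 0, .ofNat 0⟩, .ofNat 164, .ofNat 37, .ofNat 0, .ofNat 37, .ofNat 230, .ofNat 0, .ofNat 156, .negSucc 43, .negSucc 146, .ofNat 0, .ofNat 128, .ofNat 31, .ofNat 0, .ofNat 0, .ofNat 326, .ofNat 2310, .ofNat 217999521946650615530584002265088, .ofNat 8123956909667381572697128435712, .ofNat 0, .ofNat 115628150936017973615054028800, .ofNat 6432299196347865478460354955575296,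 .ofNat 311959468064727594941553374658560, .ofNat 0, .ofNat 4044970856294455674488464867328, .ofNat 486620733968630599624244932378624, .ofNat 22899585751615843083421363470336, .ofNat 1701225748486610017012678656, .ofNat 0, .ofNat 7124035857325813403037742844084224, .ofNat 348092691863118177423155114541056, .ofNat 0, .ofNat 486469157894351706606266220544⟩)
    (by decide +kernel)
theorem L02086 : Good (Phi V5.P V5.D (-1) (-1)) ⟨3, 4, 3, 2, 2, 2, 1, 0, 3, 0⟩ :=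
  out_sound (S := T5.ds_mm) T5.ok_mm (w := 45) (j := 3) (by decide +kernel)
theorem L02087 : Good (Phi V5.P V5.D (-1) (-1)) ⟨3, 5, 4, 4, 2, 2, 3, 0, 4, 0⟩ :=
  leafX_sound T5.ok_mm T5.Ymm.bz_eq (w := 213) (c := ⟨⟨.ofNat 1539, .ofNat 1890, .ofNat 217, .ofNat 1448, .ofNat 48, .negSucc 3760⟩, ⟨.negSucc 144, .negSucc 1245, .negSucc 90, .negSucc 535, .ofNat 14, .ofNat 1284⟩, ⟨.negSucc 305, .negSucc 696, .negSucc 26, .ofNat 284, .negSucc 729, .ofNat 1143⟩, ⟨.ofNat 2492, .ofNat 2179, .ofNat 134, .ofNat 2197, .ofNat 396, .negSucc 6577⟩, ⟨.negSucc 3056, .ofNat 3, .negSucc 333, .negSucc 627, .ofNat 874, .negSucc 385⟩, .ofNat 682, .ofNat 891, .ofNat 0, .ofNat 891, .ofNat 2829, .ofNat 0, .ofNat 128, .negSucc 505, .negSucc 255, .ofNat 0, .ofNat 229, .ofNat 94, .ofNat 0, .ofNat 0, .ofNat 525, .ofNat 2602, .ofNat 8636606517417931873496457942662363498938368, .ofNat 0, .ofNat 7142506724393579129796162860873678848,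 .ofNat 0, .ofNat 0, .ofNat 0, .ofNat 328314619655017892592838671525795069952, .ofNat 0, .ofNat 0, .ofNat 0, .ofNat 0, .ofNat 0, .ofNat 0, .ofNat 0, .ofNat 0, .ofNat 0⟩)
    (by decide +kernel)
theorem L02088 : Good (Phi V5.P V5.D (-1) (-1)) ⟨3, 5, 4, 5, 2, 2, 3, 0, 4, 0⟩ :=
  leafX_sound T5.ok_mm T5.Ymm.bz_eq (w := 214) (c := ⟨⟨.ofNat 2215, .ofNat 1250, .ofNat 963, .ofNat 1520, .negSucc 150, .negSucc 3846⟩, ⟨.negSucc 320, .negSucc 1113, .negSucc 386, .negSucc 612, .ofNat 90, .ofNat 1474⟩, ⟨.ofNat 252, .negSucc 1332, .negSucc 220, .ofNat 280, .negSucc 670, .ofNat 1179⟩, ⟨.ofNat 3722, .ofNat 852, .ofNat 1310, .ofNat 2127, .ofNat 234, .negSucc 6614⟩, ⟨.negSucc 2562, .negSucc 514, .negSucc 488, .negSucc 1082, .ofNat 1275, .negSucc 486⟩, .ofNat 759, .ofNat 1035, .ofNat 0, .ofNat 1035, .ofNat 2915, .ofNat 0, .ofNat 128, .negSucc 1022, .negSucc 347, .ofNat 0, .ofNat 481, .ofNat 141, .ofNat 0, .ofNat 0,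 .ofNat 655, .ofNat 4302, .ofNat 14504958633935893812473046875583740546908160, .ofNat 0, .ofNat 91237511462533083614902025882007764992, .ofNat 0, .ofNat 0, .ofNat 0, .ofNat 869097742761123729148557557273041305600, .ofNat 0, .ofNat 0, .ofNat 0, .ofNat 580998321749683186504112731162499088384, .ofNat 0, .ofNat 0, .ofNat 0, .ofNat 1697782317176021278282030666680222351360, .ofNat 0⟩)
    (by decide +kernel)
theorem L02089 : Good (Phi V5.P V5.D (-1) (-1)) ⟨3, 5, 3, 2, 2, 2, 3, 1, 4, 0⟩ :=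
  leafX_sound T5.ok_mm T5.Ymm.bz_eq (w := 210) (c := ⟨⟨.ofNat 1915, .ofNat 1605, .negSucc 309, .ofNat 1233, .negSucc 320, .negSucc 3490⟩, ⟨.negSucc 413, .negSucc 920, .ofNat 5, .negSucc 437, .ofNat 120, .ofNat 1196⟩, ⟨.negSucc 795, .negSucc 1001, .ofNat 161, .negSucc 44, .negSucc 257, .ofNat 1524⟩, ⟨.ofNat 3239, .ofNat 1737, .negSucc 438, .ofNat 2141, .negSucc 180, .negSucc 6240⟩, ⟨.negSucc 1734, .negSucc 885, .ofNat 834, .negSucc 41, .ofNat 1073, .negSucc 831⟩, .ofNat 536, .ofNat 547, .ofNat 0, .ofNat 547, .ofNat 1860, .ofNat 0, .ofNat 128, .negSucc 375, .negSucc 241, .ofNat 0, .ofNat 192, .ofNat 87, .ofNat 0, .ofNat 0, .ofNat 364, .ofNat 1432, .ofNat 0, .ofNat 0, .ofNat 0, .ofNat 0, .ofNat 0, .ofNat 0, .ofNat 29734675151854141544740960310422142976, .ofNat 0, .ofNat 0, .ofNat 0, .ofNat 0, .ofNat 0, .ofNat 0, .ofNat 0, .ofNat 73033642625998074567002643790091517952, .ofNat 0⟩)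
    (by decide +kernel)
theorem L02090 : Good (Phi V5.P V5.D (-1) (-1)) ⟨4, 10, 3, 2, 2, 2, 3, 0, 5, 2⟩ :=
  out_sound (S := T5.ds_mm) T5.ok_mm (w := 51) (j := 3) (by decide +kernel)
theorem L02091 : Good (Phi V5.P V5.D (-1) (-1)) ⟨4, 11, 3, 2, 2, 2, 3, 0, 5, 2⟩ :=
  leafX_sound T5.ok_mm T5.Ymm.bz_eq (w := 218) (c := ⟨⟨.negSucc 487, .ofNat 91, .ofNat 98, .ofNat 254, .ofNat 108, .negSucc 1928⟩, ⟨.ofNat 108, .negSucc 151, .ofNat 242, .negSucc 108, .negSucc 15, .ofNat 689⟩, ⟨.ofNat 241, .negSucc 43, .negSucc 117, .ofNat 284, .negSucc 203, .ofNat 1036⟩, ⟨.negSucc 1718, .ofNat 49, .ofNat 4, .ofNat 91, .ofNat 399, .negSucc 3027⟩, ⟨.negSucc 2623, .negSucc 259, .negSucc 17, .negSucc 1071, .ofNat 563, .ofNat 907⟩, .ofNat 534, .ofNat 543, .ofNat 0, .ofNat 543, .ofNat 1863, .ofNat 0, .ofNat 128, .negSucc 346, .negSucc 218, .ofNat 0, .ofNat 173, .ofNat 83, .ofNat 0, .ofNat 0, .ofNat 402, .ofNat 3472, .ofNat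 323952304792818597405899577540041412544823296, .ofNat 0, .ofNat 0, .ofNat 0, .ofNat 104222611089925381152322598699616658203344896, .ofNat 0, .ofNat 0, .ofNat 0, .ofNat 81211242138038716413945010895353284590043136, .ofNat 0, .ofNat 0, .ofNat 0, .ofNat 0, .ofNat 0, .ofNat 0, .ofNat 0⟩)
    (by decide +kernel)
theorem L02092 : Good (Phi V5.P V5.D (-1) (-1)) ⟨3, 5, 3, 2, 2, 2, 4, 0, 5, 3⟩ :=
  leafX_sound T5.ok_mm T5.Ymm.bz_eq (w := 219) (c := ⟨⟨.negSucc 1301, .negSucc 1068, .ofNat 126, .negSucc 425, .ofNat 106, .negSucc 939⟩, ⟨.ofNat 277, .ofNat 452, .ofNat 285, .ofNat 143, .negSucc 41, .ofNat 356⟩, ⟨.ofNat 419, .ofNat 868, .negSucc 179, .ofNat 628, .negSucc 130, .ofNat 755⟩, ⟨.negSucc 3420, .negSucc 1141, .ofNat 30, .negSucc 836, .ofNat 181, .negSucc 1362⟩, ⟨.negSucc 2152, .ofNat 374, .negSucc 293, .negSucc 374, .ofNat 52, .ofNat 635⟩, .ofNat 852, .ofNat 1333, .ofNat 0, .ofNat 1333, .ofNat 4101, .ofNat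 0, .ofNat 128, .negSucc 449, .negSucc 306, .ofNat 0, .ofNat 201, .ofNat 116, .ofNat 0, .ofNat 0, .ofNat 708, .ofNat 6071, .ofNat 230585654997393803013954690013701409786036224, .ofNat 0, .ofNat 415211405085737916286345166591333761024, .ofNat 0, .ofNat 256031034311588959862782781886846691769843712, .ofNat 0, .ofNat 67667047717423369607967420644510731862016, .ofNat 0, .ofNat 0, .ofNat 0, .ofNat 0, .ofNat 0, .ofNat 0, .ofNat 0, .ofNat 0, .ofNat 0⟩)
    (by decide +kernel)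
theorem L02093 : Good (Phi V5.P V5.D (-1) (-1)) ⟨3, 5, 3, 2, 2, 2, 4, 1, 5, 3⟩ :=
  leafX_sound T5.ok_mm T5.Ymm.bz_eq (w := 219) (c := ⟨⟨.negSucc 1193, .negSucc 1131, .ofNat 226, .negSucc 374, .ofNat 41, .negSucc 938⟩, ⟨.ofNat 269, .ofNat 460, .ofNat 238, .ofNat 119, .negSucc 15, .ofNat 333⟩, ⟨.ofNat 537, .ofNat 731, .negSucc 144, .ofNat 441, .negSucc 49, .ofNat 685⟩, ⟨.negSucc 3086, .negSucc 1389, .ofNat 297, .negSucc 762, .ofNat 111, .negSucc 1418⟩, ⟨.negSucc 1926, .ofNat 104, .negSucc 46, .negSucc 355, .ofNat 137, .ofNat 635⟩, .ofNat 535, .ofNat 543, .ofNat 0, .ofNat 543, .ofNat 1855, .ofNat 0, .ofNat 128, .negSucc 372, .negSucc 204, .ofNat 0, .ofNat 196, .ofNat 79, .ofNat 0, .ofNat 0, .ofNat 400, .ofNat 4210, .ofNat 0, .ofNat 0, .ofNat 0, .ofNat 0, .ofNat 0, .ofNat 0, .ofNat 1936192475481724633532422352947784974336, .ofNat 0, .ofNat 0, .ofNat 0, .ofNat 0, .ofNat 0, .ofNat 0, .ofNat 0, .ofNat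 34248329152280293243483015677050856931328, .ofNat 0⟩)
    (by decide +kernel)
theorem L02094 : Good (Phi V5.P V5.D (-1) (-1)) ⟨3, 5, 3, 2, 2, 2, 3, 1, 4, 1⟩ :=
  leafX_sound T5.ok_mm T5.Ymm.bz_eq (w := 208) (c := ⟨⟨.negSucc 126, .negSucc 312, .negSucc 332, .negSucc 20, .ofNat 57, .negSucc 2760⟩, ⟨.negSucc 24, .ofNat 54, .ofNat 414, .negSucc 0, .ofNat 4, .ofNat 979⟩, ⟨.negSucc 209, .ofNat 447, .negSucc 61, .ofNat 112, .negSucc 80, .ofNat 1816⟩, ⟨.negSucc 1212, .negSucc 168, .negSucc 647, .negSucc 200, .ofNat 215, .negSucc 4454⟩, ⟨.negSucc 2332, .ofNat 329, .negSucc 81, .negSucc 579, .ofNat 215, .ofNat 1005⟩, .ofNat 534, .ofNat 543, .ofNat 0, .ofNat 543, .ofNat 1861, .ofNat 0, .ofNat 128, .negSucc 311, .negSucc 192, .ofNat 0, .ofNat 163, .ofNat 71, .ofNat 0, .ofNat 0, .ofNat 308, .ofNat 655, .ofNat 0, .ofNat 0, .ofNat 3127218847032842970225926143031115776, .ofNat 0, .ofNat 0, .ofNat 0, .ofNat 0, .ofNat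 0, .ofNat 0, .ofNat 0, .ofNat 0, .ofNat 0, .ofNat 0, .ofNat 0, .ofNat 47418639690090052481336932778146529280, .ofNat 0⟩)
    (by decide +kernel)
theorem L02095 : Good (Phi V5.P V5.D (-1) (-1)) ⟨3, 5, 3, 2, 2, 2, 2, 1, 4, 0⟩ :=
  leafX_sound T5.ok_mm T5.Ymm.bz_eq (w := 205) (c := ⟨⟨.ofNat 2150, .ofNat 1008, .negSucc 421, .ofNat 1306, .negSucc 961, .negSucc 3244⟩, ⟨.negSucc 561, .negSucc 646, .ofNat 82, .negSucc 442, .ofNat 352, .ofNat 1109⟩, ⟨.negSucc 1298, .negSucc 744, .ofNat 251, .negSucc 389, .ofNat 180, .ofNat 1886⟩, ⟨.ofNat 3642, .ofNat 991, .negSucc 535, .ofNat 2337, .negSucc 1359, .negSucc 5799⟩, ⟨.negSucc 1263, .negSucc 555, .ofNat 976, .ofNat 111, .ofNat 824, .negSucc 700⟩, .ofNat 535, .ofNat 543, .ofNat 0, .ofNat 543, .ofNat 1846, .ofNat 0, .ofNat 128, .negSucc 175, .negSucc 294, .ofNat 0, .ofNat 96, .ofNat 102, .ofNat 0, .ofNat 0, .ofNat 372, .ofNat 544, .ofNat 0, .ofNat 0, .ofNat 0,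 .ofNat 0, .ofNat 0, .ofNat 0, .ofNat 0, .ofNat 0, .ofNat 0, .ofNat 0, .ofNat 11703196199080895065101434910601641984, .ofNat 0, .ofNat 0, .ofNat 0, .ofNat 0, .ofNat 0⟩)
    (by decide +kernel)
theorem L02096 : Good (Phi V5.P V5.D (-1) (-1)) ⟨3, 5, 3, 2, 2, 2, 2, 1, 4, 1⟩ :=
  leafX_sound T5.ok_mm T5.Ymm.bz_eq (w := 204) (c := ⟨⟨.ofNat 200, .negSucc 1117, .negSucc 104, .ofNat 144, .ofNat 7, .negSucc 2385⟩, ⟨.negSucc 147, .ofNat 414, .ofNat 284, .negSucc 76, .negSucc 0, .ofNat 823⟩, ⟨.negSucc 432, .ofNat 933, .negSucc 136, .negSucc 160, .negSucc 22, .ofNat 1680⟩, ⟨.negSucc 471, .negSucc 1443, .negSucc 388, .ofNat 49, .ofNat 141, .negSucc 3991⟩, ⟨.negSucc 1584, .ofNat 215, .negSucc 353, .negSucc 746, .ofNat 428, .ofNat 533⟩, .ofNat 535, .ofNat 544, .ofNat 0, .ofNat 544, .ofNat 1853, .ofNat 0, .ofNat 128, .negSucc 180, .negSucc 272, .ofNat 0, .ofNat 97, .ofNat 97, .ofNat 0, .ofNat 0, .ofNat 360, .ofNat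 252, .ofNat 0, .ofNat 0, .ofNat 0, .ofNat 0, .ofNat 0, .ofNat 0, .ofNat 0, .ofNat 0, .ofNat 0, .ofNat 0, .ofNat 5354413995610986198632430225537892352, .ofNat 0, .ofNat 0, .ofNat 0, .ofNat 0, .ofNat 0⟩)
    (by decide +kernel)
theorem L02097 : Good (Phi V5.P V5.D (-1) (-1)) ⟨3, 4, 3, 2, 2, 2, 2, 0, 3, 1⟩ :=
  out_sound (S := T5.ds_mm) T5.ok_mm (w := 45) (j := 3) (by decide +kernel)
theorem L02098 : Good (Phi V5.P V5.D (-1) (-1)) ⟨4, 10, 3, 2, 2, 2, 2, 0, 4, 2⟩ :=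
  out_sound (S := T5.ds_mm) T5.ok_mm (w := 51) (j := 3) (by decide +kernel)
theorem L02099 : Good (Phi V5.P V5.D (-1) (-1)) ⟨4, 11, 3, 2, 3, 4, 2, 0, 4, 2⟩ :=
  leafX_sound T5.ok_mm T5.Ymm.bz_eq (w := 224) (c := ⟨⟨.negSucc 2786, .negSucc 498, .ofNat 187, .negSucc 162, .ofNat 76, .negSucc 65⟩, ⟨.ofNat 833, .ofNat 262, .ofNat 220, .ofNat 48, .negSucc 14, .ofNat 32⟩, ⟨.ofNat 1807, .ofNat 452, .negSucc 290, .negSucc 76, .negSucc 114, .ofNat 403⟩, ⟨.negSucc 5432, .negSucc 469, .ofNat 218, .negSucc 352, .ofNat 244, .ofNat 17⟩, ⟨.negSucc 1330, .ofNat 104, .negSucc 98, .negSucc 217, .ofNat 323, .ofNat 382⟩, .ofNat 858, .ofNat 1337, .ofNat 0, .ofNat 1337, .ofNat 4062, .ofNat 0, .ofNat 128, .negSucc 253, .negSucc 184, .ofNat 0, .ofNat 121, .ofNat 70, .ofNat 0, .ofNat 0, .ofNat 477, .ofNat 4390, .ofNat 6368025224033835531916561055642554973781229568, .ofNat 0, .ofNat 4809708751238673800654565628316393406464,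 .ofNat 0, .ofNat 15473332384808785617152167995895507034210041856, .ofNat 0, .ofNat 0, .ofNat 0, .ofNat 0, .ofNat 0, .ofNat 0, .ofNat 0, .ofNat 0, .ofNat 0, .ofNat 83919228625549468410667022810735427190784, .ofNat 0⟩)
    (by decide +kernel)
theorem L02100 : Good (Phi V5.P V5.D (-1) (-1)) ⟨4, 11, 3, 2, 3, 5, 4, 0, 5, 4⟩ :=
  leafX_sound T5.ok_mm T5.Ymm.bz_eq (w := 239) (c := ⟨⟨.negSucc 2820, .negSucc 686, .ofNat 175, .negSucc 229, .negSucc 9, .negSucc 113⟩, ⟨.ofNat 829, .ofNat 330, .ofNat 257, .ofNat 87, .ofNat 7, .ofNat 47⟩, ⟨.ofNat 1691, .ofNat 587, .negSucc 248, .ofNat 496, .negSucc 118, .ofNat 293⟩, ⟨.negSucc 5615, .negSucc 727, .ofNat 183, .negSucc 334, .negSucc 0, .negSucc 97⟩, ⟨.negSucc 1651, .ofNat 235, .negSucc 79, .ofNat 155, .ofNat 19, .ofNat 303⟩, .ofNat 531, .ofNat 534, .ofNat 0, .ofNat 534, .ofNat 1825, .ofNat 0, .ofNat 128, .negSucc 191, .negSucc 170, .ofNat 0, .ofNat 105, .ofNat 69,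 .ofNat 0, .ofNat 0, .ofNat 397, .ofNat 40976, .ofNat 68939992709630212340378588794659388130706667339776, .ofNat 0, .ofNat 74914022420217562504574878187840893783900160, .ofNat 0, .ofNat 0, .ofNat 0, .ofNat 393743161560724210302882760015157552926949376, .ofNat 0, .ofNat 0, .ofNat 0, .ofNat 369423104332525051106016305267654886594445312, .ofNat 0, .ofNat 47693712621742551040326345844852424275078124929024, .ofNat 0, .ofNat 226236716257093530182737090059836819557580800, .ofNat 0⟩)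
    (by decide +kernel)
theorem L02101 : Good (Phi V5.P V5.D (-1) (-1)) ⟨4, 11, 3, 2, 3, 5, 4, 1, 5, 4⟩ :=
  leafX_sound T5.ok_mm T5.Ymm.bz_eq (w := 238) (c := ⟨⟨.negSucc 2846, .negSucc 647, .ofNat 130, .negSucc 176, .ofNat 2, .negSucc 137⟩, ⟨.ofNat 845, .ofNat 313, .ofNat 274, .ofNat 64, .ofNat 0, .ofNat 57⟩, ⟨.ofNat 1675, .ofNat 498, .negSucc 223, .ofNat 377, .negSucc 81, .ofNat 297⟩, ⟨.negSucc 5609, .negSucc 696, .ofNat 127, .negSucc 275, .ofNat 24, .negSucc 133⟩, ⟨.negSucc 1551, .ofNat 139, .negSucc 42, .ofNat 87, .ofNat 58, .ofNat 310⟩, .ofNat 533, .ofNat 538, .ofNat 0, .ofNat 538, .ofNat 1836, .ofNat 0, .ofNat 128, .negSucc 141, .negSucc 141, .ofNat 0, .ofNat 78, .ofNat 57, .ofNat 0, .ofNat 0, .ofNat 306, .ofNat 10589, .ofNat 0, .ofNat 0, .ofNat 0, .ofNat 0, .ofNat 0, .ofNat 0, .ofNat 0, .ofNat 0, .ofNat 0, .ofNat 0, .ofNat 175444277508984607975449090620455285197635584, .ofNat 0, .ofNat 0,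 .ofNat 0, .ofNat 0, .ofNat 0⟩)
    (by decide +kernel)
theorem L02102 : Good (Phi V5.P V5.D (-1) (-1)) ⟨4, 11, 3, 2, 3, 5, 3, 1, 5, 4⟩ :=
  leafX_sound T5.ok_mm T5.Ymm.bz_eq (w := 234) (c := ⟨⟨.negSucc 2841, .negSucc 700, .ofNat 187, .negSucc 124, .ofNat 99, .negSucc 126⟩, ⟨.ofNat 849, .ofNat 334, .ofNat 246, .ofNat 41, .negSucc 32, .ofNat 49⟩, ⟨.ofNat 1692, .ofNat 560, .negSucc 228, .ofNat 200, .negSucc 146, .ofNat 211⟩, ⟨.negSucc 5544, .negSucc 785, .ofNat 212, .negSucc 236, .ofNat 199, .negSucc 147⟩, ⟨.negSucc 1368, .ofNat 131, .negSucc 62, .negSucc 65, .ofNat 74, .ofNat 229⟩, .ofNat 535, .ofNat 544, .ofNat 0, .ofNat 544, .ofNat 1857, .ofNat 0, .ofNat 128, .negSucc 195, .negSucc 261, .ofNat 0, .ofNat 107, .ofNat 101, .ofNat 0, .ofNat 0, .ofNat 486, .ofNat 6673, .ofNat 0, .ofNat 0, .ofNat 0, .ofNat 0, .ofNat 0, .ofNat 0, .ofNat 17651010563230939031106932948971183434366976, .ofNat 0, .ofNat 0,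 .ofNat 0, .ofNat 29117101573526167851959020547791600383688704, .ofNat 0, .ofNat 0, .ofNat 0, .ofNat 0, .ofNat 0⟩)
    (by decide +kernel)
theorem L02103 : Good (Phi V5.P V5.D (-1) (-1)) ⟨4, 11, 3, 2, 3, 5, 4, 0, 5, 5⟩ :=
  leafX_sound T5.ok_mm T5.Ymm.bz_eq (w := 240) (c := ⟨⟨.negSucc 3045, .negSucc 545, .ofNat 56, .negSucc 83, .negSucc 48, .ofNat 310⟩, ⟨.ofNat 920, .ofNat 286, .ofNat 291, .ofNat 33, .ofNat 13, .negSucc 107⟩, ⟨.ofNat 2104, .ofNat 507, .negSucc 239, .ofNat 348, .negSucc 108, .negSucc 52⟩, ⟨.negSucc 5867, .negSucc 508, .ofNat 3, .negSucc 117, .negSucc 74, .ofNat 522⟩, ⟨.negSucc 1260, .ofNat 155, .negSucc 33, .ofNat 56, .ofNat 10, .ofNat 7⟩, .ofNat 532, .ofNat 534, .ofNat 0, .ofNat 534, .ofNat 1817, .ofNat 0, .ofNat 128, .negSucc 194, .negSucc 124, .ofNat 0, .ofNat 113, .ofNat 52, .ofNat 0, .ofNat 0, .ofNat 337, .ofNat 66657, .ofNat 74834179958470058704293804164237740523367268614144,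 .ofNat 0, .ofNat 0, .ofNat 0, .ofNat 0, .ofNat 0, .ofNat 447424778584257312002488429479741180543500288, .ofNat 0, .ofNat 0, .ofNat 0, .ofNat 0, .ofNat 0, .ofNat 138238993681873334721878042589744896007306787946496, .ofNat 0, .ofNat 209324076052460614758825832962932575668535296, .ofNat 0⟩)
    (by decide +kernel)
theorem L02104 : Good (Phi V5.P V5.D (-1) (-1)) ⟨4, 11, 3, 2, 3, 5, 4, 1, 5, 5⟩ :=
  leafX_sound T5.ok_mm T5.Ymm.bz_eq (w := 239) (c := ⟨⟨.negSucc 3134, .negSucc 546, .ofNat 99, .ofNat 8, .ofNat 23, .ofNat 239⟩, ⟨.ofNat 952, .ofNat 284, .ofNat 265, .negSucc 3, .negSucc 5, .negSucc 80⟩, ⟨.ofNat 2108, .ofNat 493, .negSucc 261, .ofNat 157, .negSucc 133, .ofNat 5⟩, ⟨.negSucc 5981, .negSucc 522, .ofNat 60, .negSucc 10, .ofNat 51, .ofNat 426⟩, ⟨.negSucc 1171, .ofNat 139, .negSucc 87, .negSucc 71, .ofNat 22, .ofNat 61⟩, .ofNat 533, .ofNat 538, .ofNat 0, .ofNat 538, .ofNat 1841, .ofNat 0, .ofNat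 128, .negSucc 188, .negSucc 199, .ofNat 0, .ofNat 109, .ofNat 81, .ofNat 0, .ofNat 0, .ofNat 532, .ofNat 29233, .ofNat 0, .ofNat 0, .ofNat 0, .ofNat 0, .ofNat 0, .ofNat 0, .ofNat 313324638247093200823576359015446722167963648, .ofNat 0, .ofNat 0, .ofNat 0, .ofNat 0, .ofNat 0, .ofNat 0, .ofNat 0, .ofNat 592044408530022407926097891777315174227116032, .ofNat 0⟩)
    (by decide +kernel)
theorem L02105 : Good (Phi V5.P V5.D (-1) (-1)) ⟨4, 11, 3, 2, 3, 5, 3, 1, 5, 5⟩ :=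
  leafX_sound T5.ok_mm T5.Ymm.bz_eq (w := 234) (c := ⟨⟨.negSucc 3130, .negSucc 510, .ofNat 83, .ofNat 78, .ofNat 93, .ofNat 215⟩, ⟨.ofNat 957, .ofNat 264, .ofNat 270, .negSucc 31, .negSucc 29, .negSucc 70⟩, ⟨.ofNat 2098, .ofNat 444, .negSucc 177, .negSucc 22, .negSucc 219, .negSucc 15⟩, ⟨.negSucc 5932, .negSucc 500, .ofNat 66, .ofNat 68, .ofNat 179, .ofNat 394⟩, ⟨.negSucc 1072, .ofNat 72, .negSucc 13, .negSucc 184, .ofNat 43, .ofNat 81⟩, .ofNat 533, .ofNat 542, .ofNat 0, .ofNat 542, .ofNat 1887, .ofNat 0, .ofNat 128, .negSucc 165, .negSucc 185, .ofNat 0, .ofNat 95, .ofNat 71, .ofNat 0, .ofNat 0, .ofNat 434, .ofNat 8605, .ofNat 0, .ofNat 0, .ofNat 0, .ofNat 0, .ofNat 0, .ofNat 0, .ofNat 0, .ofNat 0, .ofNat 0, .ofNat 0, .ofNat 4167835406084497459336434402098012022112256, .ofNat 0, .ofNat 0, .ofNat 0, .ofNat 0, .ofNat 0⟩)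
    (by decide +kernel)
theorem L02106 : Good (Phi V5.P V5.D (-1) (-1)) ⟨3, 5, 3, 2, 2, 2, 2, 0, 4, 3⟩ :=
  leafX_sound T5.ok_mm T5.Ymm.bz_eq (w := 206) (c := ⟨⟨.negSucc 2925, .negSucc 535, .negSucc 8, .ofNat 207, .ofNat 211, .ofNat 505⟩, ⟨.ofNat 838, .ofNat 330, .ofNat 271, .negSucc 86, .negSucc 72, .negSucc 171⟩, ⟨.ofNat 2580, .ofNat 431, .negSucc 98, .negSucc 477, .negSucc 546, .negSucc 208⟩, ⟨.negSucc 5727, .negSucc 316, .negSucc 59, .ofNat 157, .ofNat 392, .ofNat 883⟩, ⟨.negSucc 734, .ofNat 14, .negSucc 1, .negSucc 559, .ofNat 108, .ofNat 57⟩, .ofNat 535, .ofNat 543, .ofNat 0, .ofNat 543, .ofNat 1846, .ofNat 0, .ofNat 128, .negSucc 140, .negSucc 100, .ofNat 0, .ofNat 88, .ofNat 40, .ofNat 0, .ofNat 0, .ofNat 370, .ofNat 3511, .ofNat 25575382806717729878870385552191226118144, .ofNat 0, .ofNat 315596492607610108607866718342086656, .ofNat 0, .ofNat 0, .ofNat 0, .ofNat 0, .ofNat 0, .ofNat 0, .ofNat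 0, .ofNat 6553157246330530151491393623452286976, .ofNat 0, .ofNat 650957161181831900468574672789633163591680, .ofNat 0, .ofNat 14095390440796331186400829844427374592, .ofNat 0⟩)
    (by decide +kernel)
theorem L02107 : Good (Phi V5.P V5.D (-1) (-1)) ⟨3, 4, 3, 2, 2, 2, 2, 1, 3, 1⟩ :=
  out_sound (S := T5.ds_mm) T5.ok_mm (w := 45) (j := 3) (by decide +kernel)
theorem L02108 : Good (Phi V5.P V5.D (-1) (-1)) ⟨4, 10, 3, 2, 2, 2, 2, 1, 3, 1⟩ :=
  out_sound (S := T5.ds_mm) T5.ok_mm (w := 51) (j := 3) (by decide +kernel)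
theorem L02109 : Good (Phi V5.P V5.D (-1) (-1)) ⟨4, 11, 3, 2, 2, 2, 2, 1, 4, 2⟩ :=
  leafX_sound T5.ok_mm T5.Ymm.bz_eq (w := 209) (c := ⟨⟨.negSucc 2968, .negSucc 495, .ofNat 89, .ofNat 1, .ofNat 271, .ofNat 165⟩, ⟨.ofNat 914, .ofNat 261, .ofNat 243, .negSucc 17, .negSucc 88, .negSucc 52⟩, ⟨.ofNat 1991, .ofNat 441, .negSucc 174, .negSucc 273, .negSucc 297, .ofNat 56⟩, ⟨.negSucc 5552, .negSucc 509, .ofNat 60, .negSucc 180, .ofNat 513, .ofNat 343⟩, ⟨.negSucc 818, .negSucc 1, .negSucc 54, .negSucc 540, .ofNat 135, .ofNat 230⟩, .ofNat 535, .ofNat 544, .ofNat 0, .ofNat 544, .ofNat 1864, .ofNat 0, .ofNat 128, .negSucc 158, .negSucc 200, .ofNat 0, .ofNat 92, .ofNat 74, .ofNat 0, .ofNat 0, .ofNat 387, .ofNat 784, .ofNat 0, .ofNat 0, .ofNat 0, .ofNat 0, .ofNat 0, .ofNat 0, .ofNat 0, .ofNat 0, .ofNat 0, .ofNat 0, .ofNat 1891031766789291114217442959645736960, .ofNat 0, .ofNat 0, .ofNat 0, .ofNat 0, .ofNat 0⟩)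
    (by decide +kernel)
theorem L02110 : Good (Phi V5.P V5.D (-1) (-1)) ⟨4, 11, 3, 2, 2, 2, 2, 1, 4, 3⟩ :=
  leafX_sound T5.ok_mm T5.Ymm.bz_eq (w := 210) (c := ⟨⟨.negSucc 2982, .negSucc 316, .ofNat 149, .ofNat 297, .ofNat 288, .ofNat 470⟩, ⟨.ofNat 928, .ofNat 188, .ofNat 175, .negSucc 115, .negSucc 88, .negSucc 156⟩, ⟨.ofNat 2352, .ofNat 298, .negSucc 195, .negSucc 675, .negSucc 470, .negSucc 291⟩, ⟨.negSucc 5506, .negSucc 235, .ofNat 150, .ofNat 312, .ofNat 560, .ofNat 841⟩, ⟨.negSucc 654, .ofNat 40, .negSucc 67, .negSucc 563, .ofNat 163, .ofNat 100⟩, .ofNat 535, .ofNat 544, .ofNat 0, .ofNat 544, .ofNat 1848, .ofNat 0, .ofNat 128, .negSucc 173, .negSucc 100, .ofNat 0, .ofNat 109, .ofNat 38, .ofNat 0, .ofNat 0, .ofNat 313, .ofNat 1821, .ofNat 0, .ofNat 0, .ofNat 0, .ofNat 0, .ofNat 0, .ofNat 0, .ofNat 0, .ofNat 0, .ofNat 0, .ofNat 0, .ofNat 7661081937809260051822876702787239936, .ofNat 0, .ofNat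 0, .ofNat 0, .ofNat 0, .ofNat 0⟩)
    (by decide +kernel)
theorem L02111 : Good (Phi V5.P V5.D (-1) (-1)) ⟨4, 12, 3, 2, 3, 4, 4, 0, 4, 0⟩ :=
  leafX_sound T5.ok_mm T5.Ymm.bz_eq (w := 231) (c := ⟨⟨.ofNat 3132, .ofNat 1348, .ofNat 199, .ofNat 1814, .negSucc 94, .negSucc 4638⟩, ⟨.negSucc 1302, .negSucc 926, .negSucc 66, .negSucc 869, .ofNat 99, .ofNat 1949⟩, ⟨.negSucc 984, .negSucc 564, .negSucc 9, .negSucc 62, .negSucc 301, .ofNat 1343⟩, ⟨.ofNat 4168, .ofNat 1535, .ofNat 18, .ofNat 2338, .negSucc 1, .negSucc 7302⟩, ⟨.negSucc 2928, .negSucc 631, .negSucc 23, .negSucc 1223, .ofNat 301, .ofNat 338⟩, .ofNat 543, .ofNat 528, .ofNat 0, .ofNat 528, .ofNat 1474, .ofNat 0, .ofNat 128, .negSucc 316, .negSucc 145, .ofNat 0, .ofNat 176, .ofNat 66, .ofNat 0, .ofNat 0, .ofNat 260, .ofNat 2355, .ofNat 0, .ofNat 0, .ofNat 0, .ofNat 0, .ofNat 0, .ofNat 0, .ofNat 0, .ofNat 0, .ofNat 2993425665397535487355259144060716891348863549440,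 .ofNat 0, .ofNat 6752441510549481103790229766987199455166464, .ofNat 0, .ofNat 0, .ofNat 0, .ofNat 0, .ofNat 0⟩)
    (by decide +kernel)
theorem L02112 : Good (Phi V5.P V5.D (-1) (-1)) ⟨4, 13, 3, 2, 3, 4, 4, 0, 4, 0⟩ :=
  leafX_sound T5.ok_mm T5.Ymm.bz_eq (w := 234) (c := ⟨⟨.ofNat 5646, .ofNat 3631, .negSucc 1149, .ofNat 2490, .negSucc 441, .negSucc 4757⟩, ⟨.negSucc 2934, .negSucc 2304, .ofNat 625, .negSucc 1296, .ofNat 269, .ofNat 2208⟩, ⟨.negSucc 2254, .negSucc 719, .ofNat 824, .negSucc 343, .negSucc 181, .ofNat 1268⟩, ⟨.ofNat 6726, .ofNat 3807, .negSucc 1294, .ofNat 3009, .negSucc 279, .negSucc 7378⟩, ⟨.negSucc 4683, .negSucc 1489, .ofNat 1419, .negSucc 1746, .ofNat 841, .negSucc 134⟩, .ofNat 1147, .ofNat 1617, .ofNat 0, .ofNat 1617, .ofNat 3470, .ofNat 0, .ofNat 128, .negSucc 780, .negSucc 396, .ofNat 0, .ofNat 436, .ofNat 203, .ofNat 0, .ofNat 0, .ofNat 609, .ofNat 8743, .ofNat 0, .ofNat 0,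 .ofNat 2559839699659403461518552790814056140242944, .ofNat 0, .ofNat 0, .ofNat 0, .ofNat 188962153374581458474223405001185998703427584, .ofNat 0, .ofNat 16364531373497159112513654962069682676483621912576, .ofNat 0, .ofNat 284721034968365291246047598022372868759748608, .ofNat 0, .ofNat 0, .ofNat 0, .ofNat 110654259639032437918417661829105760136593408, .ofNat 0⟩)
    (by decide +kernel)
theorem L02113 : Good (Phi V5.P V5.D (-1) (-1)) ⟨3, 6, 3, 2, 3, 5, 4, 0, 5, 0⟩ :=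
  leafX_sound T5.ok_mm T5.Ymm.bz_eq (w := 233) (c := ⟨⟨.ofNat 4570, .ofNat 4712, .negSucc 352, .negSucc 14, .negSucc 124, .negSucc 815⟩, ⟨.negSucc 1860, .negSucc 3254, .ofNat 142, .ofNat 22, .ofNat 126, .ofNat 246⟩, ⟨.negSucc 516, .negSucc 1922, .ofNat 264, .ofNat 122, .negSucc 627, .negSucc 33⟩, ⟨.ofNat 6200, .ofNat 5082, .negSucc 662, .ofNat 19, .ofNat 77, .negSucc 1845⟩, ⟨.negSucc 3955, .negSucc 2148, .ofNat 478, .negSucc 166, .ofNat 660, .negSucc 1100⟩, .ofNat 509, .ofNat 443, .ofNat 0, .ofNat 443, .ofNat 1173, .ofNat 0, .ofNat 128, .negSucc 494, .negSucc 184, .ofNat 0, .ofNat 280, .ofNat 90, .ofNat 0, .ofNat 0, .ofNat 278, .ofNat 2528, .ofNat 0, .ofNat 0, .ofNat 137760266257556970503458911149235148291047424, .ofNat 0, .ofNat 0, .ofNat 0, .ofNat 294957906196772193484462380357127816850964480, .ofNat 0, .ofNat 4377150466950967353034659484139524050772635418624, .ofNat 0, .ofNat 5657424861248869111385599039372802828942704640,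 .ofNat 0, .ofNat 0, .ofNat 0, .ofNat 1322427130224789112123091304121407154738429952, .ofNat 0⟩)
    (by decide +kernel)
theorem L02114 : Good (Phi V5.P V5.D (-1) (-1)) ⟨4, 12, 3, 2, 3, 5, 4, 0, 5, 1⟩ :=
  leafX_sound T5.ok_mm T5.Ymm.bz_eq (w := 237) (c := ⟨⟨.ofNat 2862, .ofNat 2649, .negSucc 181, .ofNat 1479, .negSucc 50, .negSucc 3261⟩, ⟨.negSucc 1283, .negSucc 1674, .ofNat 203, .negSucc 738, .ofNat 71, .ofNat 1375⟩, ⟨.negSucc 353, .negSucc 1228, .ofNat 240, .negSucc 321, .negSucc 485, .ofNat 886⟩, ⟨.ofNat 3132, .ofNat 3068, .negSucc 543, .ofNat 1853, .ofNat 189, .negSucc 4986⟩, ⟨.negSucc 4682, .negSucc 1543, .ofNat 296, .negSucc 1003, .ofNat 592, .ofNat 690⟩, .ofNat 538, .ofNat 519, .ofNat 0, .ofNat 519, .ofNat 1462, .ofNat 0, .ofNat 128, .negSucc 624, .negSucc 336, .ofNat 0, .ofNat 327, .ofNat 155, .ofNat 0, .ofNat 0, .ofNat 461, .ofNat 4622, .ofNat 0, .ofNat 0, .ofNat 0, .ofNat 0, .ofNat 0,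 .ofNat 0, .ofNat 0, .ofNat 0, .ofNat 89176734180535266274905708647928590881524348354560, .ofNat 0, .ofNat 1950290856392010828259787374151011184530161664, .ofNat 0, .ofNat 0, .ofNat 0, .ofNat 1065249349012664429302707656026010504579252224, .ofNat 0⟩)
    (by decide +kernel)
theorem L02115 : Good (Phi V5.P V5.D (-1) (-1)) ⟨4, 13, 3, 2, 3, 5, 4, 0, 5, 1⟩ :=
  leafX_sound T5.ok_mm T5.Ymm.bz_eq (w := 240) (c := ⟨⟨.ofNat 7600, .ofNat 6756, .negSucc 1897, .ofNat 1644, .negSucc 876, .negSucc 3206⟩, ⟨.negSucc 4219, .negSucc 4259, .ofNat 1166, .negSucc 861, .ofNat 511, .ofNat 1502⟩, ⟨.negSucc 2147, .negSucc 2634, .ofNat 796, .negSucc 474, .negSucc 332, .ofNat 836⟩, ⟨.ofNat 8286, .ofNat 7299, .negSucc 2235, .ofNat 1928, .negSucc 707, .negSucc 4862⟩, ⟨.negSucc 8033, .negSucc 4008, .ofNat 2120, .negSucc 1313, .ofNat 1381, .ofNat 170⟩, .ofNat 840, .ofNat 1041, .ofNat 0, .ofNat 1041, .ofNat 2338, .ofNat 0, .ofNat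 128, .negSucc 1170, .negSucc 509, .ofNat 0, .ofNat 640, .ofNat 262, .ofNat 0, .ofNat 0, .ofNat 596, .ofNat 10279, .ofNat 27408451298947011428941689124263797071056405004288, .ofNat 0, .ofNat 409844101950778781578115898951683681114128384, .ofNat 0, .ofNat 0, .ofNat 0, .ofNat 2444595460879009517767664551789979661806600192, .ofNat 0, .ofNat 0, .ofNat 0, .ofNat 16258767160236863957844542432973185869374554112, .ofNat 0, .ofNat 0, .ofNat 0, .ofNat 6928896375483574132176816354621279651296706560, .ofNat 0⟩)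
    (by decide +kernel)
theorem L02116 : Good (Phi V5.P V5.D (-1) (-1)) ⟨3, 7, 3, 2, 2, 2, 4, 0, 4, 0⟩ :=
  out_sound (S := T5.ds_mm) T5.ok_mm (w := 45) (j := 3) (by decide +kernel)
theorem L02117 : Good (Phi V5.P V5.D (-1) (-1)) ⟨3, 6, 3, 2, 3, 4, 4, 0, 4, 1⟩ :=
  leafX_sound T5.ok_mm T5.Ymm.bz_eq (w := 226) (c := ⟨⟨.negSucc 270, .negSucc 586, .negSucc 74, .negSucc 231, .ofNat 111, .negSucc 3054⟩, ⟨.negSucc 178, .ofNat 135, .ofNat 344, .ofNat 64, .negSucc 96, .ofNat 1386⟩, ⟨.ofNat 196, .ofNat 337, .negSucc 32, .ofNat 19, .negSucc 123, .ofNat 2003⟩, ⟨.negSucc 1600, .negSucc 689, .negSucc 110, .negSucc 484, .ofNat 225, .negSucc 4426⟩, ⟨.negSucc 2873, .negSucc 175, .ofNat 117, .negSucc 455, .ofNat 255, .ofNat 1549⟩, .ofNat 328, .ofNat 181, .ofNat 0, .ofNat 181, .ofNat 650, .ofNat 0, .ofNat 128, .negSucc 284, .negSucc 142, .ofNat 0, .ofNat 198, .ofNat 69, .ofNat 0, .ofNat 0, .ofNat 217, .ofNat 1101,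 .ofNat 49097472218515804156670225540923267243212537856, .ofNat 0, .ofNat 219630602515989867712198698843002414039040, .ofNat 0, .ofNat 0, .ofNat 0, .ofNat 0, .ofNat 0, .ofNat 0, .ofNat 0, .ofNat 33437029137624739842683651309301627940241408, .ofNat 0, .ofNat 21344505808241715611067545302430502335968968704, .ofNat 0, .ofNat 13676998090588887732224714074460426965352448, .ofNat 0⟩)
    (by decide +kernel)
theorem L02118 : Good (Phi V5.P V5.D (-1) (-1)) ⟨4, 12, 3, 2, 3, 5, 4, 0, 5, 2⟩ :=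
  leafX_sound T5.ok_mm T5.Ymm.bz_eq (w := 237) (c := ⟨⟨.ofNat 920, .ofNat 634, .ofNat 59, .ofNat 603, .negSucc 65, .negSucc 4226⟩, ⟨.negSucc 750, .negSucc 503, .ofNat 199, .negSucc 309, .ofNat 80, .ofNat 1999⟩, ⟨.negSucc 142, .negSucc 325, .ofNat 60, .ofNat 95, .negSucc 234, .ofNat 1971⟩, ⟨.negSucc 246, .ofNat 625, .negSucc 74, .ofNat 681, .ofNat 129, .negSucc 5861⟩, ⟨.negSucc 4407, .negSucc 954, .ofNat 530, .negSucc 590, .ofNat 515, .ofNat 1860⟩, .ofNat 551, .ofNat 539, .ofNat 0, .ofNat 539, .ofNat 1450, .ofNat 0, .ofNat 128, .negSucc 838, .negSucc 570, .ofNat 0, .ofNat 458, .ofNat 278, .ofNat 0, .ofNat 0, .ofNat 670, .ofNat 4677, .ofNat 17761575611099175638871399153088228211419231813632, .ofNat 0, .ofNat 11293839460085714541648168579225487518203904, .ofNat 0, .ofNat 0, .ofNat 0, .ofNat 0, .ofNat 0, .ofNat 0, .ofNat 0, .ofNat 5231998785405448001667126509256584469650866176, .ofNat 0, .ofNat 0, .ofNat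 0, .ofNat 1544924983591069632422527735347877918653022208, .ofNat 0⟩)
    (by decide +kernel)
theorem L02119 : Good (Phi V5.P V5.D (-1) (-1)) ⟨4, 13, 3, 2, 3, 5, 4, 0, 5, 2⟩ :=
  leafX_sound T5.ok_mm T5.Ymm.bz_eq (w := 239) (c := ⟨⟨.ofNat 1601, .ofNat 2076, .ofNat 943, .ofNat 681, .negSucc 440, .negSucc 5450⟩, ⟨.negSucc 1385, .negSucc 1446, .negSucc 180, .negSucc 389, .ofNat 267, .ofNat 2772⟩, ⟨.negSucc 472, .negSucc 722, .negSucc 492, .ofNat 128, .negSucc 9, .ofNat 2605⟩, ⟨.ofNat 321, .ofNat 2433, .ofNat 977, .ofNat 638, .negSucc 289, .negSucc 6980⟩, ⟨.negSucc 5406, .negSucc 1158, .negSucc 244, .negSucc 852, .ofNat 826, .ofNat 3116⟩, .ofNat 704, .ofNat 792, .ofNat 0, .ofNat 792, .ofNat 1841, .ofNat 0, .ofNat 128, .negSucc 1213, .negSucc 937, .ofNat 0, .ofNat 682, .ofNat 490, .ofNat 0, .ofNat 0, .ofNat 959, .ofNat 13945, .ofNat 60795366876334819708162417469674822487660405194752, .ofNat 0, .ofNat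 248033834295040384184407778970394365131751424, .ofNat 0, .ofNat 0, .ofNat 0, .ofNat 4645877739284451132888355610183557292574638080, .ofNat 0, .ofNat 0, .ofNat 0, .ofNat 35329946055732013791612209549902992600069046272, .ofNat 0, .ofNat 47738100518514237256410359022607665462484653834240, .ofNat 0, .ofNat 16641044940207851489137938847629340168006139904, .ofNat 0⟩)
    (by decide +kernel)
theorem L02120 : Good (Phi V5.P V5.D (-1) (-1)) ⟨4, 12, 3, 2, 3, 5, 4, 0, 5, 3⟩ :=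
  leafX_sound T5.ok_mm T5.Ymm.bz_eq (w := 238) (c := ⟨⟨.negSucc 2163, .negSucc 995, .ofNat 105, .negSucc 666, .ofNat 83, .negSucc 1352⟩, ⟨.ofNat 545, .ofNat 478, .ofNat 298, .ofNat 308, .negSucc 28, .ofNat 618⟩, ⟨.ofNat 1146, .ofNat 657, .negSucc 178, .ofNat 877, .negSucc 93, .ofNat 1001⟩, ⟨.negSucc 4599, .negSucc 1134, .ofNat 61, .negSucc 916, .ofNat 166, .negSucc 1767⟩, ⟨.negSucc 2536, .ofNat 326, .ofNat 3, .ofNat 332, .ofNat 66, .ofNat 1043⟩, .ofNat 546, .ofNat 533, .ofNat 0, .ofNat 533, .ofNat 1473, .ofNat 0, .ofNat 128, .negSucc 480, .negSucc 434, .ofNat 0, .ofNat 274, .ofNat 212, .ofNat 0, .ofNat 0, .ofNat 637, .ofNat 9625, .ofNat 21684784615314290960083657149275434632940118605824, .ofNat 0, .ofNat 11665474948932590746845435358020553353986048, .ofNat 0, .ofNat 14076272394503858781825962909956577300416236093440, .ofNat 0, .ofNat 0, .ofNat 0, .ofNat 0, .ofNat 0, .ofNat 2344532256660895995485213202226490539954405376,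 .ofNat 0, .ofNat 0, .ofNat 0, .ofNat 2227378179991306740071535413049934088316649472, .ofNat 0⟩)
    (by decide +kernel)
theorem L02121 : Good (Phi V5.P V5.D (-1) (-1)) ⟨4, 13, 3, 2, 3, 5, 4, 0, 5, 3⟩ :=
  leafX_sound T5.ok_mm T5.Ymm.bz_eq (w := 239) (c := ⟨⟨.negSucc 2871, .negSucc 896, .ofNat 171, .negSucc 1035, .ofNat 70, .negSucc 1716⟩, ⟨.ofNat 832, .ofNat 554, .ofNat 252, .ofNat 540, .negSucc 30, .ofNat 906⟩, ⟨.ofNat 1792, .ofNat 805, .negSucc 454, .ofNat 1107, .negSucc 65, .ofNat 1278⟩, ⟨.negSucc 5438, .negSucc 683, .ofNat 53, .negSucc 1243, .ofNat 127, .negSucc 1984⟩, ⟨.negSucc 2466, .ofNat 383, .negSucc 106, .ofNat 744, .ofNat 46, .ofNat 1408⟩, .ofNat 1024, .ofNat 1383, .ofNat 0, .ofNat 1383, .ofNat 3008, .ofNat 0, .ofNat 128, .negSucc 713, .negSucc 617, .ofNat 0, .ofNat 409, .ofNat 327, .ofNat 0, .ofNat 0, .ofNat 761, .ofNat 20385, .ofNat 45612487606378900276207889469293757104018193121280,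 .ofNat 0, .ofNat 163091003123785127814392558524495440361029632, .ofNat 0, .ofNat 0, .ofNat 0, .ofNat 3737931715133319939505210848711784398218854400, .ofNat 0, .ofNat 0, .ofNat 0, .ofNat 9765618652450009537054661826695894082793766912, .ofNat 0, .ofNat 62049575107594017371719028816643982015869575233536, .ofNat 0, .ofNat 18323991790380664753640284399175664524150702080, .ofNat 0⟩)
    (by decide +kernel)
theorem L02122 : Good (Phi V5.P V5.D (-1) (-1)) ⟨3, 7, 3, 2, 2, 2, 4, 0, 4, 1⟩ :=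
  out_sound (S := T5.ds_mm) T5.ok_mm (w := 45) (j := 3) (by decide +kernel)
theorem L02123 : Good (Phi V5.P V5.D (-1) (-1)) ⟨3, 6, 3, 2, 3, 4, 4, 1, 4, 0⟩ :=
  leafX_sound T5.ok_mm T5.Ymm.bz_eq (w := 228) (c := ⟨⟨.ofNat 3164, .ofNat 2969, .ofNat 11, .ofNat 1411, .negSucc 214, .negSucc 4192⟩, ⟨.negSucc 1279, .negSucc 2045, .negSucc 33, .negSucc 657, .ofNat 106, .ofNat 1748⟩, ⟨.negSucc 1344, .negSucc 2022, .ofNat 206, .negSucc 32, .negSucc 193, .ofNat 1546⟩, ⟨.ofNat 4360, .ofNat 3091, .negSucc 95, .ofNat 1890, .negSucc 125, .negSucc 6838⟩, ⟨.negSucc 2630, .negSucc 1475, .ofNat 383, .negSucc 928, .ofNat 475, .negSucc 235⟩, .ofNat 540, .ofNat 520, .ofNat 0, .ofNat 520, .ofNat 1446, .ofNat 0, .ofNat 128, .negSucc 449, .negSucc 257, .ofNat 0, .ofNat 258, .ofNat 116, .ofNat 0, .ofNat 0, .ofNat 389, .ofNat 1468, .ofNat 0, .ofNat 0, .ofNat 5480171966104489992192609046982659248488448, .ofNat 0, .ofNat 0,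 .ofNat 0, .ofNat 20989623281362948850499726989216997110185984, .ofNat 0, .ofNat 0, .ofNat 0, .ofNat 200352778379625329171386771643157403555332096, .ofNat 0, .ofNat 0, .ofNat 0, .ofNat 145465124356495382720898489754295134115069952, .ofNat 0⟩)
    (by decide +kernel)
theorem L02124 : Good (Phi V5.P V5.D (-1) (-1)) ⟨3, 6, 3, 2, 3, 5, 4, 1, 4, 0⟩ :=
  leafX_sound T5.ok_mm T5.Ymm.bz_eq (w := 228) (c := ⟨⟨.ofNat 4682, .ofNat 3390, .negSucc 189, .ofNat 302, .negSucc 662, .negSucc 3310⟩, ⟨.negSucc 1907, .negSucc 2463, .ofNat 87, .negSucc 96, .ofNat 336, .ofNat 1229⟩, ⟨.negSucc 1259, .negSucc 1841, .ofNat 213, .ofNat 80, .negSucc 186, .ofNat 771⟩, ⟨.ofNat 6399, .ofNat 3906, .negSucc 398, .ofNat 555, .negSucc 606, .negSucc 5934⟩, ⟨.negSucc 3609, .negSucc 930, .ofNat 444, .negSucc 193, .ofNat 962, .negSucc 1030⟩, .ofNat 509, .ofNat 443, .ofNat 0, .ofNat 443, .ofNat 1173, .ofNat 0, .ofNat 128, .negSucc 482,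 .negSucc 384, .ofNat 0, .ofNat 277, .ofNat 186, .ofNat 0, .ofNat 0, .ofNat 427, .ofNat 1352, .ofNat 0, .ofNat 0, .ofNat 4457302210314102954858425700417348380393472, .ofNat 0, .ofNat 0, .ofNat 0, .ofNat 22709776352277048547470697644770337828634624, .ofNat 0, .ofNat 0, .ofNat 0, .ofNat 177468452296980513889478537826977751570055168, .ofNat 0, .ofNat 0, .ofNat 0, .ofNat 76967857586296781732617031422906544787816448, .ofNat 0⟩)
    (by decide +kernel)
theorem L02125 : Good (Phi V5.P V5.D (-1) (-1)) ⟨3, 6, 3, 2, 2, 2, 4, 1, 5, 2⟩ :=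
  leafX_sound T5.ok_mm T5.Ymm.bz_eq (w := 217) (c := ⟨⟨.negSucc 187, .ofNat 374, .ofNat 184, .ofNat 1250, .negSucc 123, .negSucc 2751⟩, ⟨.negSucc 176, .negSucc 505, .ofNat 161, .negSucc 658, .ofNat 118, .ofNat 1267⟩, ⟨.ofNat 105, .negSucc 241, .negSucc 85, .negSucc 371, .negSucc 31, .ofNat 1445⟩, ⟨.negSucc 1241, .ofNat 273, .ofNat 92, .ofNat 1318, .ofNat 5, .negSucc 4078⟩, ⟨.negSucc 2503, .negSucc 1362, .ofNat 72, .negSucc 1422, .ofNat 311, .ofNat 1056⟩, .ofNat 509, .ofNat 443, .ofNat 0, .ofNat 443, .ofNat 1173, .ofNat 0, .ofNat 128, .negSucc 360, .negSucc 318, .ofNat 0, .ofNat 215, .ofNat 160, .ofNat 0, .ofNat 0, .ofNat 343, .ofNat 626, .ofNat 0, .ofNat 0, .ofNat 2015306294126738848184432944250122928128, .ofNat 0, .ofNat 0, .ofNat 0, .ofNat 17727706443386039764688450240939105976320, .ofNat 0, .ofNat 0, .ofNat 0, .ofNat 307735417689049807516333581386063384936448, .ofNat 0, .ofNat 0, .ofNat 0, .ofNat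 86487210694020012843062718491636520714240, .ofNat 0⟩)
    (by decide +kernel)

end Crest.Agent.R097C5.N5mm
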