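import Crest.Agent.R097.KP7
import Crest.Agent.R097.T5Ymm

/-!
# Row 97, box cover in dimension n = 5 (generated)
-/

set_option autoImplicit false
set_option Elab.async false
set_option maxHeartbeats 0
set_option maxRecDepth 100000

open Crest.Agent.R097 Crest.Agent.R097.KA


namespace Crest.Agent.R097C5.N5mm

theorem L02126 : Good (Phi V5.P V5.D (-1) (-1)) ⟨3, 6, 3, 2, 2, 2, 4, 1, 5, 3⟩ :=
  leafX_sound T5.ok_mm T5.Ymm.bz_eq (w := 218) (c := ⟨⟨.negSucc 2015, .negSucc 1764, .ofNat 255, .negSucc 895, .ofNat 29, .negSucc 1184⟩, ⟨.ofNat 512, .ofNat 822, .ofNat 242, .ofNat 384, .negSucc 10, .ofNat 558⟩, ⟨.ofNat 1100, .ofNat 1136, .negSucc 255, .ofNat 767, .negSucc 12, .ofNat 918⟩, ⟨.negSucc 4086, .negSucc 2043, .ofNat 279, .negSucc 1484, .ofNat 88, .negSucc 1580⟩, ⟨.negSucc 1834, .ofNat 751, .negSucc 225, .negSucc 273, .ofNat 95, .ofNat 807⟩, .ofNat 509, .ofNat 443, .ofNat 0, .ofNat 443,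 .ofNat 1173, .ofNat 0, .ofNat 128, .negSucc 305, .negSucc 354, .ofNat 0, .ofNat 191, .ofNat 182, .ofNat 0, .ofNat 0, .ofNat 448, .ofNat 2354, .ofNat 0, .ofNat 0, .ofNat 2972679553234898521215250743520504315904, .ofNat 0, .ofNat 0, .ofNat 0, .ofNat 52420286694476889810445416381457073438720, .ofNat 0, .ofNat 0, .ofNat 0, .ofNat 167736641273347450370199312823983336849408, .ofNat 0, .ofNat 0, .ofNat 0, .ofNat 264977821680346515887182348257080396218368, .ofNat 0⟩)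
    (by decide +kernel)
theorem L02127 : Good (Phi V5.P V5.D (-1) (-1)) ⟨3, 7, 3, 2, 2, 2, 4, 1, 3, 0⟩ :=
  out_sound (S := T5.ds_mm) T5.ok_mm (w := 45) (j := 3) (by decide +kernel)
theorem L02128 : Good (Phi V5.P V5.D (-1) (-1)) ⟨4, 12, 3, 2, 2, 2, 3, 1, 4, 0⟩ :=
  leafX_sound T5.ok_mm T5.Ymm.bz_eq (w := 214) (c := ⟨⟨.ofNat 3501, .ofNat 1666, .negSucc 589, .ofNat 1405, .negSucc 465, .negSucc 3739⟩, ⟨.negSucc 1428, .negSucc 1057, .ofNat 170, .negSucc 541, .ofNat 279, .ofNat 1494⟩, ⟨.negSucc 1735, .negSucc 953, .ofNat 456, .negSucc 78, .negSucc 364, .ofNat 1545⟩, ⟨.ofNat 4828, .ofNat 1798, .negSucc 806, .ofNat 2378, .negSucc 292, .negSucc 6377⟩, ⟨.negSucc 2667, .negSucc 636, .ofNat 632, .ofNat 153, .ofNat 1107, .negSucc 1046⟩, .ofNat 536, .ofNat 513, .ofNat 0, .ofNat 513, .ofNat 1437, .ofNat 0, .ofNat 128, .negSucc 327, .negSucc 310, .ofNat 0, .ofNat 191, .ofNat 135, .ofNat 0, .ofNat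 0, .ofNat 390, .ofNat 838, .ofNat 0, .ofNat 0, .ofNat 0, .ofNat 0, .ofNat 0, .ofNat 0, .ofNat 0, .ofNat 0, .ofNat 0, .ofNat 0, .ofNat 98456010056540229549427018503496400896, .ofNat 0, .ofNat 0, .ofNat 0, .ofNat 62983544285199417789056890282224648192, .ofNat 0⟩)
    (by decide +kernel)
theorem L02129 : Good (Phi V5.P V5.D (-1) (-1)) ⟨5, 26, 3, 2, 2, 2, 3, 1, 4, 0⟩ :=
  leafX_sound T5.ok_mm T5.Ymm.bz_eq (w := 220) (c := ⟨⟨.ofNat 5915, .negSucc 2085, .negSucc 1034, .ofNat 1204, .negSucc 661, .negSucc 3197⟩, ⟨.negSucc 2953, .ofNat 923, .ofNat 463, .negSucc 532, .ofNat 403, .ofNat 1376⟩, ⟨.negSucc 3621, .ofNat 720, .ofNat 1153, .ofNat 163, .negSucc 255, .ofNat 1256⟩, ⟨.ofNat 7409, .negSucc 2491, .negSucc 1331, .ofNat 2046, .negSucc 426, .negSucc 5640⟩, ⟨.negSucc 4066, .ofNat 1962, .ofNat 983, .ofNat 405, .ofNat 1284, .negSucc 1559⟩, .ofNat 1148, .ofNat 1618, .ofNat 0, .ofNat 1618, .ofNat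 3465, .ofNat 0, .ofNat 128, .negSucc 799, .negSucc 909, .ofNat 0, .ofNat 459, .ofNat 453, .ofNat 0, .ofNat 0, .ofNat 1071, .ofNat 1620, .ofNat 0, .ofNat 0, .ofNat 4143307207612158647519532160424869888, .ofNat 0, .ofNat 0, .ofNat 0, .ofNat 160201821236124377745474855363420356608, .ofNat 0, .ofNat 0, .ofNat 0, .ofNat 405007322874907689355509103839861014528, .ofNat 0, .ofNat 0, .ofNat 0, .ofNat 273801412895751286358433326679921262592, .ofNat 0⟩)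
    (by decide +kernel)
theorem L02130 : Good (Phi V5.P V5.D (-1) (-1)) ⟨5, 27, 3, 2, 2, 2, 3, 1, 4, 0⟩ :=
  out_sound (S := T5.ds_mm) T5.ok_mm (w := 57) (j := 3) (by decide +kernel)
theorem L02131 : Good (Phi V5.P V5.D (-1) (-1)) ⟨4, 12, 3, 2, 2, 2, 3, 1, 4, 1⟩ :=
  leafX_sound T5.ok_mm T5.Ymm.bz_eq (w := 212) (c := ⟨⟨.ofNat 372, .negSucc 237, .negSucc 65, .negSucc 167, .negSucc 308, .negSucc 4001⟩, ⟨.negSucc 490, .ofNat 104, .ofNat 292, .ofNat 48, .ofNat 164, .ofNat 1802⟩, ⟨.negSucc 378, .ofNat 222, .ofNat 6, .ofNat 280, .ofNat 87, .ofNat 2617⟩, ⟨.negSucc 535, .negSucc 113, .negSucc 266, .negSucc 371, .negSucc 284, .negSucc 5822⟩, ⟨.negSucc 2595, .negSucc 27, .negSucc 40, .negSucc 384, .ofNat 383, .ofNat 1617⟩, .ofNat 536, .ofNat 515, .ofNat 0, .ofNat 515, .ofNat 1451, .ofNat 0, .ofNat 128, .negSucc 277, .negSucc 346, .ofNat 0, .ofNat 160, .ofNat 156, .ofNat 0, .ofNat 0, .ofNat 418,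 .ofNat 410, .ofNat 0, .ofNat 0, .ofNat 1704417341386393665477467319717330944, .ofNat 0, .ofNat 0, .ofNat 0, .ofNat 0, .ofNat 0, .ofNat 0, .ofNat 0, .ofNat 3483015071395068279869586506082418688, .ofNat 0, .ofNat 0, .ofNat 0, .ofNat 68506370669995927218967849692081160192, .ofNat 0⟩)
    (by decide +kernel)
theorem L02132 : Good (Phi V5.P V5.D (-1) (-1)) ⟨4, 13, 3, 2, 2, 2, 3, 1, 4, 1⟩ :=
  leafX_sound T5.ok_mm T5.Ymm.bz_eq (w := 214) (c := ⟨⟨.negSucc 834, .ofNat 1605, .ofNat 760, .negSucc 415, .ofNat 247, .negSucc 4400⟩, ⟨.negSucc 102, .negSucc 856, .negSucc 44, .ofNat 161, .negSucc 106, .ofNat 2210⟩, ⟨.ofNat 188, .negSucc 669, .negSucc 455, .ofNat 343, .negSucc 151, .ofNat 3142⟩, ⟨.negSucc 2253, .ofNat 1922, .ofNat 869, .negSucc 821, .ofNat 439, .negSucc 5809⟩, ⟨.negSucc 2128, .negSucc 1387, .negSucc 583, .negSucc 384, .ofNat 124, .ofNat 2071⟩, .ofNat 1079, .ofNat 1487, .ofNat 0, .ofNat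 1487, .ofNat 3216, .ofNat 0, .ofNat 128, .negSucc 466, .negSucc 498, .ofNat 0, .ofNat 271, .ofNat 254, .ofNat 0, .ofNat 0, .ofNat 591, .ofNat 775, .ofNat 0, .ofNat 0, .ofNat 5265544621173988663579190065331437568, .ofNat 0, .ofNat 0, .ofNat 0, .ofNat 243215092391985757713607139788161286144, .ofNat 0, .ofNat 0, .ofNat 0, .ofNat 431866235253993138879342331565355040768, .ofNat 0, .ofNat 0, .ofNat 0, .ofNat 289214184135148167868213469627585396736, .ofNat 0⟩)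
    (by decide +kernel)
theorem L02133 : Good (Phi V5.P V5.D (-1) (-1)) ⟨3, 7, 3, 2, 2, 2, 3, 1, 3, 0⟩ :=
  out_sound (S := T5.ds_mm) T5.ok_mm (w := 45) (j := 3) (by decide +kernel)
theorem L02134 : Good (Phi V5.P V5.D (-1) (-1)) ⟨4, 12, 3, 2, 2, 2, 2, 1, 4, 0⟩ :=
  leafX_sound T5.ok_mm T5.Ymm.bz_eq (w := 209) (c := ⟨⟨.ofNat 2914, .ofNat 750, .ofNat 333, .ofNat 1598, .negSucc 1033, .negSucc 3336⟩, ⟨.negSucc 1111, .negSucc 541, .negSucc 253, .negSucc 626, .ofNat 443, .ofNat 1289⟩, ⟨.negSucc 1827, .negSucc 628, .negSucc 283, .negSucc 512, .ofNat 153, .ofNat 1974⟩, ⟨.ofNat 4214, .ofNat 771, .ofNat 376, .ofNat 2764, .negSucc 1307, .negSucc 5827⟩, ⟨.negSucc 1678, .negSucc 79, .negSucc 50, .ofNat 334, .ofNat 902, .negSucc 1155⟩, .ofNat 536, .ofNat 515, .ofNat 0, .ofNat 515, .ofNat 1451, .ofNat 0, .ofNat 128, .negSucc 218, .negSucc 428, .ofNat 0, .ofNat 133, .ofNat 179, .ofNat 0, .ofNat 0,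 .ofNat 457, .ofNat 421, .ofNat 0, .ofNat 0, .ofNat 94896727724131526566556415861719040, .ofNat 0, .ofNat 0, .ofNat 0, .ofNat 0, .ofNat 0, .ofNat 0, .ofNat 0, .ofNat 1169932102116285058442848747151949824, .ofNat 0, .ofNat 0, .ofNat 0, .ofNat 4670044264249917258693328440238538752, .ofNat 0⟩)
    (by decide +kernel)
theorem L02135 : Good (Phi V5.P V5.D (-1) (-1)) ⟨4, 12, 3, 2, 3, 4, 2, 1, 4, 1⟩ :=
  leafX_sound T5.ok_mm T5.Ymm.bz_eq (w := 222) (c := ⟨⟨.negSucc 912, .negSucc 858, .ofNat 217, .negSucc 107, .negSucc 85, .negSucc 2275⟩, ⟨.ofNat 127, .ofNat 408, .ofNat 179, .ofNat 7, .ofNat 65, .ofNat 982⟩, ⟨.ofNat 276, .ofNat 639, .negSucc 172, .negSucc 95, .ofNat 193, .ofNat 1867⟩, ⟨.negSucc 2168, .negSucc 1045, .ofNat 294, .negSucc 331, .ofNat 1, .negSucc 3418⟩, ⟨.negSucc 1493, .ofNat 167, .negSucc 80, .negSucc 375, .ofNat 385, .ofNat 594⟩, .ofNat 537, .ofNat 513, .ofNat 0, .ofNat 513,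 .ofNat 1430, .ofNat 0, .ofNat 128, .negSucc 332, .negSucc 381, .ofNat 0, .ofNat 211, .ofNat 167, .ofNat 0, .ofNat 0, .ofNat 476, .ofNat 396, .ofNat 0, .ofNat 0, .ofNat 0, .ofNat 0, .ofNat 0, .ofNat 0, .ofNat 0, .ofNat 0, .ofNat 0, .ofNat 0, .ofNat 0, .ofNat 0, .ofNat 0, .ofNat 0, .ofNat 0, .ofNat 0⟩)
    (by decide +kernel)
theorem L02136 : Good (Phi V5.P V5.D (-1) (-1)) ⟨4, 12, 3, 2, 3, 5, 2, 1, 4, 1⟩ :=
  leafX_sound T5.ok_mm T5.Ymm.bz_eq (w := 222) (c := ⟨⟨.ofNat 46, .negSucc 1033, .ofNat 410, .ofNat 178, .ofNat 50, .negSucc 3680⟩, ⟨.negSucc 306, .ofNat 477, .ofNat 89, .negSucc 105, .negSucc 17, .ofNat 1609⟩, ⟨.negSucc 286, .ofNat 793, .negSucc 318, .negSucc 138, .negSucc 73, .ofNat 2631⟩, ⟨.negSucc 708, .negSucc 1333, .ofNat 529, .ofNat 89, .ofNat 197, .negSucc 5708⟩, ⟨.negSucc 1796, .ofNat 114, .negSucc 68, .negSucc 512, .ofNat 444, .ofNat 495⟩, .ofNat 536, .ofNat 515, .ofNat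 0, .ofNat 515, .ofNat 1451, .ofNat 0, .ofNat 128, .negSucc 255, .negSucc 480, .ofNat 0, .ofNat 149, .ofNat 205, .ofNat 0, .ofNat 0, .ofNat 474, .ofNat 294, .ofNat 0, .ofNat 0, .ofNat 1153027241475790326651477885369945423872, .ofNat 0, .ofNat 0, .ofNat 0, .ofNat 0, .ofNat 0, .ofNat 0, .ofNat 0, .ofNat 0, .ofNat 0, .ofNat 0, .ofNat 0, .ofNat 78988945704303232649516255336246900948992, .ofNat 0⟩)
    (by decide +kernel)
theorem L02137 : Good (Phi V5.P V5.D (-1) (-1)) ⟨5, 26, 4, 4, 2, 2, 2, 1, 3, 0⟩ :=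
  out_sound (S := T5.ds_mm) T5.ok_mm (w := 59) (j := 3) (by decide +kernel)
theorem L02138 : Good (Phi V5.P V5.D (-1) (-1)) ⟨6, 52, 4, 5, 2, 2, 2, 1, 5, 0⟩ :=
  leafX_sound T5.ok_mm T5.Ymm.bz_eq (w := 227) (c := ⟨⟨.ofNat 5041, .ofNat 492, .negSucc 627, .ofNat 298, .negSucc 1109, .negSucc 1001⟩, ⟨.negSucc 2475, .negSucc 322, .ofNat 248, .negSucc 17, .ofNat 577, .ofNat 391⟩, ⟨.negSucc 3438, .negSucc 372, .ofNat 489, .ofNat 602, .negSucc 28, .ofNat 488⟩, ⟨.ofNat 6411, .ofNat 499, .negSucc 734, .ofNat 1266, .negSucc 1331, .negSucc 1986⟩, ⟨.negSucc 2949, .negSucc 256, .ofNat 565, .ofNat 1652, .ofNat 816, .negSucc 967⟩, .ofNat 704, .ofNat 792, .ofNat 0, .ofNat 792, .ofNat 1838, .ofNat 0, .ofNat 128, .negSucc 463, .negSucc 1257, .ofNat 0, .ofNat 290, .ofNat 600, .ofNat 0, .ofNat 0, .ofNat 1363, .ofNat 800, .ofNat 0, .ofNat 0, .ofNat 959434317929113007261619343415312384, .ofNat 0, .ofNat 0,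 .ofNat 0, .ofNat 12272309344674380856755460115496173568, .ofNat 0, .ofNat 0, .ofNat 0, .ofNat 0, .ofNat 0, .ofNat 0, .ofNat 0, .ofNat 0, .ofNat 0⟩)
    (by decide +kernel)
theorem L02139 : Good (Phi V5.P V5.D (-1) (-1)) ⟨6, 52, 4, 5, 2, 2, 2, 1, 5, 1⟩ :=
  leafX_sound T5.ok_mm T5.Ymm.bz_eq (w := 227) (c := ⟨⟨.ofNat 2501, .ofNat 278, .negSucc 655, .ofNat 2992, .negSucc 1532, .negSucc 2232⟩, ⟨.negSucc 1354, .negSucc 157, .ofNat 325, .negSucc 1419, .ofNat 824, .ofNat 1016⟩, ⟨.negSucc 1804, .negSucc 1, .ofNat 463, .negSucc 1576, .ofNat 588, .ofNat 1330⟩, ⟨.ofNat 2592, .ofNat 529, .negSucc 851, .ofNat 4471, .negSucc 1699, .negSucc 3647⟩, ⟨.negSucc 2850, .ofNat 417, .ofNat 471, .negSucc 266, .ofNat 1401, .negSucc 465⟩, .ofNat 1118, .ofNat 1559, .ofNat 0, .ofNat 1559, .ofNat 3351, .ofNat 0, .ofNat 128, .negSucc 362, .negSucc 554, .ofNat 0, .ofNat 213, .ofNat 272, .ofNat 0, .ofNat 0, .ofNat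 567, .ofNat 1281, .ofNat 0, .ofNat 0, .ofNat 0, .ofNat 0, .ofNat 0, .ofNat 0, .ofNat 80492879264995647814306402805141733376, .ofNat 0, .ofNat 0, .ofNat 0, .ofNat 75913423254211591755966151487668617216, .ofNat 0, .ofNat 0, .ofNat 0, .ofNat 173690485373813808303371271956640825344, .ofNat 0⟩)
    (by decide +kernel)
theorem L02140 : Good (Phi V5.P V5.D (-1) (-1)) ⟨6, 53, 4, 5, 2, 2, 2, 1, 4, 0⟩ :=
  out_sound (S := T5.ds_mm) T5.ok_mm (w := 65) (j := 3) (by decide +kernel)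
theorem L02141 : Good (Phi V5.P V5.D (-1) (-1)) ⟨5, 26, 4, 5, 2, 2, 2, 1, 4, 1⟩ :=
  leafX_sound T5.ok_mm T5.Ymm.bz_eq (w := 217) (c := ⟨⟨.negSucc 730, .negSucc 2531, .ofNat 685, .ofNat 167, .negSucc 263, .negSucc 3898⟩, ⟨.ofNat 95, .ofNat 1230, .negSucc 197, .negSucc 138, .ofNat 164, .ofNat 1896⟩, ⟨.ofNat 322, .ofNat 1747, .negSucc 431, .negSucc 254, .ofNat 170, .ofNat 2822⟩, ⟨.negSucc 1656, .negSucc 3430, .ofNat 729, .negSucc 109, .negSucc 169, .negSucc 5596⟩, ⟨.negSucc 1213, .ofNat 545, .negSucc 639, .negSucc 795, .ofNat 529, .ofNat 951⟩, .ofNat 949, .ofNat 1242, .ofNat 0, .ofNat 1242, .ofNat 2730, .ofNat 0, .ofNat 128, .negSucc 405, .negSucc 509, .ofNat 0, .ofNat 241, .ofNat 252, .ofNat 0, .ofNat 0, .ofNat 555, .ofNat 484, .ofNat 0, .ofNat 0, .ofNat 305958878750649770643155385021628416, .ofNat 0, .ofNat 0, .ofNat 0, .ofNat 12585289057118261924588368118492954624, .ofNat 0, .ofNat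 0, .ofNat 0, .ofNat 8593784557348159059491990881064452096, .ofNat 0, .ofNat 0, .ofNat 0, .ofNat 7727111591100364720953897300411809792, .ofNat 0⟩)
    (by decide +kernel)
theorem L02142 : Good (Phi V5.P V5.D (-1) (-1)) ⟨5, 27, 3, 2, 2, 2, 2, 1, 3, 0⟩ :=
  out_sound (S := T5.ds_mm) T5.ok_mm (w := 57) (j := 3) (by decide +kernel)
theorem L02143 : Good (Phi V5.P V5.D (-1) (-1)) ⟨3, 7, 3, 2, 2, 2, 2, 1, 3, 0⟩ :=
  out_sound (S := T5.ds_mm) T5.ok_mm (w := 45) (j := 3) (by decide +kernel)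
theorem L02144 : Good (Phi V5.P V5.D (-1) (-1)) ⟨4, 12, 3, 2, 2, 2, 5, 0, 5, 4⟩ :=
  leafX_sound T5.ok_mm T5.Ymm.bz_eq (w := 231) (c := ⟨⟨.negSucc 2349, .negSucc 1569, .ofNat 376, .negSucc 1390, .negSucc 187, .ofNat 143⟩, ⟨.ofNat 518, .ofNat 857, .ofNat 174, .ofNat 711, .ofNat 92, .negSucc 77⟩, ⟨.ofNat 334, .ofNat 1179, .negSucc 491, .ofNat 2519, .ofNat 88, .ofNat 153⟩, ⟨.negSucc 5112, .negSucc 1660, .ofNat 437, .negSucc 1504, .negSucc 294, .ofNat 273⟩, ⟨.negSucc 3086, .ofNat 923, .negSucc 264, .ofNat 1908, .ofNat 138, .ofNat 191⟩, .ofNat 329, .ofNat 184, .ofNat 0, .ofNat 184, .ofNat 646, .ofNat 0, .ofNat 128, .negSucc 293, .negSucc 450, .ofNat 0, .ofNat 206, .ofNat 242, .ofNat 0, .ofNat 0, .ofNat 560, .ofNat 97977, .ofNat 471797736967416401962096815370121214344642428928, .ofNat 0, .ofNat 0, .ofNat 0, .ofNat 834170345454029315764202659865372546524770205696, .ofNat 0, .ofNat 149193158717602503874550736111533576683520,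 .ofNat 0, .ofNat 828411440123623411144386617887694359148399427584, .ofNat 0, .ofNat 1018569536203450350814746507125676425871360, .ofNat 0, .ofNat 2224771076222079277482211993678408394594804826112, .ofNat 0, .ofNat 1403699293273718368561322034579160589926400, .ofNat 0⟩)
    (by decide +kernel)
theorem L02145 : Good (Phi V5.P V5.D (-1) (-1)) ⟨4, 12, 3, 2, 2, 2, 5, 1, 5, 4⟩ :=
  leafX_sound T5.ok_mm T5.Ymm.bz_eq (w := 229) (c := ⟨⟨.negSucc 3012, .negSucc 981, .ofNat 202, .negSucc 917, .negSucc 31, .ofNat 22⟩, ⟨.ofNat 943, .ofNat 541, .ofNat 241, .ofNat 402, .ofNat 2, .ofNat 2⟩, ⟨.ofNat 1915, .ofNat 807, .negSucc 330, .ofNat 794, .negSucc 67, .ofNat 296⟩, ⟨.negSucc 5536, .negSucc 996, .ofNat 185, .negSucc 1397, .negSucc 75, .ofNat 148⟩, ⟨.negSucc 1316, .ofNat 388, .negSucc 187, .ofNat 119, .negSucc 29, .ofNat 311⟩, .ofNat 536, .ofNat 515, .ofNat 0, .ofNat 515, .ofNat 1451, .ofNat 0, .ofNat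 128, .negSucc 404, .negSucc 338, .ofNat 0, .ofNat 246, .ofNat 167, .ofNat 0, .ofNat 0, .ofNat 690, .ofNat 18940, .ofNat 0, .ofNat 0, .ofNat 0, .ofNat 0, .ofNat 0, .ofNat 0, .ofNat 417785096143995831086473835621509215813632, .ofNat 0, .ofNat 0, .ofNat 0, .ofNat 2195004296541832222671484059227771407171584, .ofNat 0, .ofNat 0, .ofNat 0, .ofNat 2283071747325866264394228686936236915425280, .ofNat 0⟩)
    (by decide +kernel)
theorem L02146 : Good (Phi V5.P V5.D (-1) (-1)) ⟨4, 12, 3, 2, 2, 2, 4, 1, 5, 4⟩ :=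
  leafX_sound T5.ok_mm T5.Ymm.bz_eq (w := 223) (c := ⟨⟨.negSucc 3159, .negSucc 861, .ofNat 202, .negSucc 766, .negSucc 9, .negSucc 35⟩, ⟨.ofNat 1001, .ofNat 487, .ofNat 240, .ofNat 328, .ofNat 6, .ofNat 30⟩, ⟨.ofNat 2007, .ofNat 666, .negSucc 283, .ofNat 624, .negSucc 20, .ofNat 272⟩, ⟨.negSucc 5752, .negSucc 869, .ofNat 201, .negSucc 1194, .ofNat 11, .ofNat 63⟩, ⟨.negSucc 1213, .ofNat 211, .negSucc 145, .ofNat 51, .ofNat 63, .ofNat 279⟩, .ofNat 536, .ofNat 515, .ofNat 0, .ofNat 515, .ofNat 1451, .ofNat 0, .ofNat 128, .negSucc 232, .negSucc 193, .ofNat 0, .ofNat 142, .ofNat 93, .ofNat 0, .ofNat 0, .ofNat 358, .ofNat 4263, .ofNat 0, .ofNat 0, .ofNat 0, .ofNat 0, .ofNat 0, .ofNat 0, .ofNat 0, .ofNat 0, .ofNat 0, .ofNat 0, .ofNat 42115115858818053873411942651132534325248, .ofNat 0, .ofNat 0, .ofNat 0, .ofNat 48102658544403014356501262489175998857216, .ofNat 0⟩)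
    (by decide +kernel)
theorem L02147 : Good (Phi V5.P V5.D (-1) (-1)) ⟨4, 12, 3, 2, 2, 2, 3, 1, 5, 4⟩ :=
  leafX_sound T5.ok_mm T5.Ymm.bz_eq (w := 218) (c := ⟨⟨.negSucc 3418, .negSucc 919, .ofNat 290, .negSucc 497, .ofNat 126, .ofNat 81⟩, ⟨.ofNat 1122, .ofNat 513, .ofNat 203, .ofNat 203, .negSucc 46, .negSucc 30⟩, ⟨.ofNat 2295, .ofNat 698, .negSucc 350, .ofNat 336, .negSucc 154, .ofNat 67⟩, ⟨.negSucc 6069, .negSucc 973, .ofNat 342, .negSucc 845, .ofNat 218, .ofNat 203⟩, ⟨.negSucc 1015, .ofNat 230, .negSucc 192, .negSucc 126, .ofNat 23, .ofNat 218⟩, .ofNat 542, .ofNat 525, .ofNat 0, .ofNat 525, .ofNat 1458, .ofNat 0, .ofNat 128, .negSucc 174, .negSucc 213, .ofNat 0, .ofNat 109, .ofNat 100, .ofNat 0, .ofNat 0, .ofNat 345, .ofNat 1973, .ofNat 0, .ofNat 0, .ofNat 0, .ofNat 0, .ofNat 0, .ofNat 0, .ofNat 1379934065325479693879961699285173534720, .ofNat 0, .ofNat 0, .ofNat 0, .ofNat 429725304449681678524138723146857447424,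 .ofNat 0, .ofNat 0, .ofNat 0, .ofNat 2214425738489297767375453845081101959168, .ofNat 0⟩)
    (by decide +kernel)
theorem L02148 : Good (Phi V5.P V5.D (-1) (-1)) ⟨5, 24, 3, 2, 2, 2, 4, 0, 5, 5⟩ :=
  leafX_sound T5.ok_mm T5.Ymm.bz_eq (w := 229) (c := ⟨⟨.negSucc 3495, .negSucc 339, .ofNat 156, .negSucc 335, .negSucc 7, .ofNat 463⟩, ⟨.ofNat 1158, .ofNat 195, .ofNat 254, .ofNat 149, .ofNat 2, .negSucc 190⟩, ⟨.ofNat 2352, .ofNat 303, .negSucc 311, .ofNat 760, .negSucc 191, .negSucc 136⟩, ⟨.negSucc 6242, .negSucc 304, .ofNat 150, .negSucc 448, .negSucc 19, .ofNat 713⟩, ⟨.negSucc 1167, .ofNat 119, .negSucc 95, .ofNat 247, .negSucc 21, .negSucc 93⟩, .ofNat 550, .ofNat 556, .ofNat 0, .ofNat 556, .ofNat 1616, .ofNat 0, .ofNat 128, .negSucc 201, .negSucc 136, .ofNat 0, .ofNat 124, .ofNat 66, .ofNat 0, .ofNat 0, .ofNat 391, .ofNat 35010, .ofNat 155205468849753175586439097074544614026604707840,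 .ofNat 0, .ofNat 0, .ofNat 0, .ofNat 782553513488508916730526989658797013831218364416, .ofNat 0, .ofNat 0, .ofNat 0, .ofNat 0, .ofNat 0, .ofNat 0, .ofNat 0, .ofNat 556722012299704540370386010168094970026437640192, .ofNat 0, .ofNat 10597381363985173802102704176993555972096, .ofNat 0⟩)
    (by decide +kernel)
theorem L02149 : Good (Phi V5.P V5.D (-1) (-1)) ⟨5, 24, 3, 2, 2, 2, 4, 1, 5, 5⟩ :=
  leafX_sound T5.ok_mm T5.Ymm.bz_eq (w := 228) (c := ⟨⟨.negSucc 3438, .negSucc 300, .ofNat 117, .negSucc 294, .negSucc 19, .ofNat 249⟩, ⟨.ofNat 1158, .ofNat 176, .ofNat 256, .ofNat 107, .ofNat 9, .negSucc 94⟩, ⟨.ofNat 2522, .ofNat 265, .negSucc 245, .ofNat 192, .negSucc 81, .ofNat 32⟩, ⟨.negSucc 6042, .negSucc 255, .ofNat 90, .negSucc 550, .negSucc 21, .ofNat 435⟩, ⟨.negSucc 893, .ofNat 99, .negSucc 93, .negSucc 180, .ofNat 19, .ofNat 76⟩, .ofNat 669, .ofNat 794, .ofNat 0, .ofNat 794, .ofNat 2207,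 .ofNat 0, .ofNat 128, .negSucc 192, .negSucc 152, .ofNat 0, .ofNat 113, .ofNat 70, .ofNat 0, .ofNat 0, .ofNat 390, .ofNat 10366, .ofNat 0, .ofNat 0, .ofNat 0, .ofNat 0, .ofNat 0, .ofNat 0, .ofNat 0, .ofNat 0, .ofNat 0, .ofNat 0, .ofNat 0, .ofNat 0, .ofNat 0, .ofNat 0, .ofNat 0, .ofNat 0⟩)
    (by decide +kernel)
theorem L02150 : Good (Phi V5.P V5.D (-1) (-1)) ⟨5, 24, 3, 2, 2, 2, 3, 1, 5, 5⟩ :=
  leafX_sound T5.ok_mm T5.Ymm.bz_eq (w := 223) (c := ⟨⟨.negSucc 3606, .negSucc 358, .ofNat 169, .negSucc 44, .ofNat 94, .ofNat 315⟩, ⟨.ofNat 1236, .ofNat 196, .ofNat 227, .negSucc 2, .negSucc 34, .negSucc 119⟩, ⟨.ofNat 2659, .ofNat 316, .negSucc 279, .negSucc 176, .negSucc 182, .negSucc 59⟩, ⟨.negSucc 6233, .negSucc 365, .ofNat 176, .negSucc 251, .ofNat 176, .ofNat 525⟩, ⟨.negSucc 682, .ofNat 89, .negSucc 109, .negSucc 467, .ofNat 51, .ofNat 18⟩, .ofNat 535, .ofNat 521, .ofNat 0, .ofNat 521,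 .ofNat 1546, .ofNat 0, .ofNat 128, .negSucc 142, .negSucc 123, .ofNat 0, .ofNat 91, .ofNat 56, .ofNat 0, .ofNat 0, .ofNat 275, .ofNat 3063, .ofNat 0, .ofNat 0, .ofNat 0, .ofNat 0, .ofNat 0, .ofNat 0, .ofNat 0, .ofNat 0, .ofNat 0, .ofNat 0, .ofNat 0, .ofNat 0, .ofNat 0, .ofNat 0, .ofNat 0, .ofNat 0⟩)
    (by decide +kernel)
theorem L02151 : Good (Phi V5.P V5.D (-1) (-1)) ⟨5, 25, 3, 2, 2, 2, 4, 0, 5, 5⟩ :=
  leafX_sound T5.ok_mm T5.Ymm.bz_eq (w := 229) (c := ⟨⟨.negSucc 3849, .negSucc 461, .ofNat 191, .negSucc 402, .negSucc 1, .ofNat 595⟩, ⟨.ofNat 1356, .ofNat 277, .ofNat 239, .ofNat 198, .negSucc 8, .negSucc 271⟩, ⟨.ofNat 2630, .ofNat 362, .negSucc 327, .ofNat 794, .negSucc 148, .negSucc 221⟩, ⟨.negSucc 6608, .negSucc 427, .ofNat 195, .negSucc 480, .negSucc 1, .ofNat 853⟩, ⟨.negSucc 1118, .ofNat 172, .negSucc 108, .ofNat 368, .ofNat 0, .negSucc 180⟩, .ofNat 523, .ofNat 477, .ofNat 0,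 .ofNat 477, .ofNat 1304, .ofNat 0, .ofNat 128, .negSucc 204, .negSucc 143, .ofNat 0, .ofNat 138, .ofNat 77, .ofNat 0, .ofNat 0, .ofNat 367, .ofNat 30398, .ofNat 118842344169866639487801413530075302645603500032, .ofNat 0, .ofNat 0, .ofNat 0, .ofNat 716210597343689038343278931527723914378113712128, .ofNat 0, .ofNat 4800826972950785047763044130933260156928, .ofNat 0, .ofNat 283757121576484024470633270440271418587650981888, .ofNat 0, .ofNat 0, .ofNat 0, .ofNat 552623884671603724024181410703645505741173817344, .ofNat 0, .ofNat 13137606640892298798236525992498289442816, .ofNat 0⟩)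
    (by decide +kernel)
theorem L02152 : Good (Phi V5.P V5.D (-1) (-1)) ⟨5, 25, 3, 2, 2, 2, 4, 1, 5, 5⟩ :=
  leafX_sound T5.ok_mm T5.Ymm.bz_eq (w := 228) (c := ⟨⟨.negSucc 3829, .negSucc 342, .ofNat 137, .negSucc 270, .negSucc 54, .ofNat 398⟩, ⟨.ofNat 1371, .ofNat 213, .ofNat 249, .ofNat 107, .ofNat 26, .negSucc 171⟩, ⟨.ofNat 2864, .ofNat 280, .negSucc 258, .ofNat 135, .negSucc 45, .negSucc 61⟩, ⟨.negSucc 6418, .negSucc 299, .ofNat 125, .negSucc 514, .negSucc 68, .ofNat 627⟩, ⟨.negSucc 750, .ofNat 73, .negSucc 77, .negSucc 203, .ofNat 32, .ofNat 3⟩, .ofNat 746, .ofNat 893, .ofNat 0, .ofNat 893, .ofNat 2207, .ofNat 0, .ofNat 128, .negSucc 256, .negSucc 211, .ofNat 0, .ofNat 159, .ofNat 107, .ofNat 0, .ofNat 0, .ofNat 483, .ofNat 11486, .ofNat 0, .ofNat 0, .ofNat 0, .ofNat 0, .ofNat 0, .ofNat 0, .ofNat 10193631886522852229642461269289963880448, .ofNat 0, .ofNat 0, .ofNat 0, .ofNat 18394800309207593414042754368570088488960,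 .ofNat 0, .ofNat 0, .ofNat 0, .ofNat 26869346877166269427996931688205412990976, .ofNat 0⟩)
    (by decide +kernel)
theorem L02153 : Good (Phi V5.P V5.D (-1) (-1)) ⟨5, 25, 3, 2, 2, 2, 3, 1, 5, 5⟩ :=
  leafX_sound T5.ok_mm T5.Ymm.bz_eq (w := 223) (c := ⟨⟨.negSucc 4048, .negSucc 346, .ofNat 244, .negSucc 55, .ofNat 114, .ofNat 396⟩, ⟨.ofNat 1485, .ofNat 213, .ofNat 197, .negSucc 4, .negSucc 49, .negSucc 173⟩, ⟨.ofNat 3085, .ofNat 267, .negSucc 314, .negSucc 177, .negSucc 217, .negSucc 177⟩, ⟨.negSucc 6677, .negSucc 334, .ofNat 288, .negSucc 274, .ofNat 184, .ofNat 623⟩, ⟨.negSucc 563, .ofNat 5, .negSucc 95, .negSucc 404, .ofNat 26, .negSucc 14⟩, .ofNat 546, .ofNat 524, .ofNat 0, .ofNat 524, .ofNat 1379, .ofNat 0, .ofNat 128, .negSucc 210, .negSucc 206, .ofNat 0, .ofNat 142, .ofNat 103, .ofNat 0, .ofNat 0, .ofNat 410, .ofNat 3670, .ofNat 0, .ofNat 0, .ofNat 0, .ofNat 0, .ofNat 0, .ofNat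 0, .ofNat 720000102762210313099359136828503359488, .ofNat 0, .ofNat 0, .ofNat 0, .ofNat 0, .ofNat 0, .ofNat 0, .ofNat 0, .ofNat 397601950945401410767505707410281988096, .ofNat 0⟩)
    (by decide +kernel)
theorem L02154 : Good (Phi V5.P V5.D (-1) (-1)) ⟨6, 52, 3, 2, 2, 2, 5, 0, 4, 2⟩ :=
  leafX_sound T5.ok_mm T5.Ymm.bz_eq (w := 235) (c := ⟨⟨.negSucc 4067, .negSucc 650, .ofNat 699, .negSucc 2034, .ofNat 186, .ofNat 546⟩, ⟨.ofNat 1377, .ofNat 390, .negSucc 1, .ofNat 1150, .negSucc 102, .negSucc 237⟩, ⟨.ofNat 1534, .ofNat 464, .negSucc 761, .ofNat 3082, .negSucc 169, .ofNat 237⟩, ⟨.negSucc 7306, .negSucc 651, .ofNat 798, .negSucc 1874, .ofNat 184, .ofNat 908⟩, ⟨.negSucc 2247, .ofNat 435, .negSucc 570, .ofNat 2710, .negSucc 193, .ofNat 138⟩, .ofNat 561, .ofNat 542, .ofNat 0, .ofNat 542, .ofNat 1337, .ofNat 0, .ofNat 128, .negSucc 289, .negSucc 343, .ofNat 0, .ofNat 183, .ofNat 190, .ofNat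 0, .ofNat 0, .ofNat 439, .ofNat 160745, .ofNat 20128312032123965937809610770070468012894976999424, .ofNat 0, .ofNat 0, .ofNat 0, .ofNat 43533401077302522223727743568232031556754586206208, .ofNat 0, .ofNat 795452867470907974125448865761405698048, .ofNat 0, .ofNat 40217468243109529417611972533575453665478003654656, .ofNat 0, .ofNat 3439712131211682700620436283984718069760, .ofNat 0, .ofNat 80770402239860623085557623003138788639735885594624, .ofNat 0, .ofNat 3334691766381718779967109863055523053568, .ofNat 0⟩)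
    (by decide +kernel)
theorem L02155 : Good (Phi V5.P V5.D (-1) (-1)) ⟨6, 52, 3, 2, 2, 2, 5, 1, 4, 2⟩ :=
  leafX_sound T5.ok_mm T5.Ymm.bz_eq (w := 231) (c := ⟨⟨.negSucc 3859, .ofNat 39, .ofNat 143, .negSucc 1133, .negSucc 314, .ofNat 1044⟩, ⟨.ofNat 1360, .ofNat 2, .ofNat 294, .ofNat 566, .ofNat 160, .negSucc 494⟩, ⟨.ofNat 2203, .negSucc 74, .ofNat 169, .ofNat 943, .ofNat 134, .negSucc 216⟩, ⟨.negSucc 6543, .ofNat 95, .ofNat 229, .negSucc 1521, .negSucc 407, .ofNat 1536⟩, ⟨.negSucc 1355, .negSucc 169, .ofNat 130, .ofNat 470, .ofNat 164, .negSucc 131⟩, .ofNat 827, .ofNat 989, .ofNat 0, .ofNat 989, .ofNat 2241, .ofNat 0, .ofNat 128, .negSucc 342, .negSucc 303, .ofNat 0, .ofNat 224, .ofNat 167, .ofNat 0, .ofNat 0, .ofNat 604, .ofNat 12596, .ofNat 550775942247253313467966320887048673926964051968, .ofNat 0, .ofNat 52477161351768575390376381825155072000, .ofNat 0, .ofNat 0, .ofNat 0, .ofNat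 1892119550164202258398623449026956099584, .ofNat 0, .ofNat 1841041571107304356186252392437848538591042469888, .ofNat 0, .ofNat 7540909081872925454924863195456666075136, .ofNat 0, .ofNat 8109381840664956505382341658713197038748682944512, .ofNat 0, .ofNat 16656129852836728764055515918979936813056, .ofNat 0⟩)
    (by decide +kernel)
theorem L02156 : Good (Phi V5.P V5.D (-1) (-1)) ⟨6, 52, 3, 2, 2, 2, 4, 1, 4, 2⟩ :=
  leafX_sound T5.ok_mm T5.Ymm.bz_eq (w := 227) (c := ⟨⟨.negSucc 3527, .negSucc 163, .negSucc 730, .negSucc 336, .negSucc 132, .ofNat 668⟩, ⟨.ofNat 1239, .ofNat 108, .ofNat 691, .ofNat 151, .ofNat 72, .negSucc 303⟩, ⟨.ofNat 2140, .ofNat 56, .ofNat 577, .ofNat 282, .ofNat 83, .negSucc 17⟩, ⟨.negSucc 6087, .negSucc 156, .negSucc 923, .negSucc 562, .negSucc 134, .ofNat 1075⟩, ⟨.negSucc 1404, .negSucc 5, .ofNat 467, .negSucc 96, .ofNat 152, .ofNat 95⟩, .ofNat 1147, .ofNat 1615, .ofNat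 0, .ofNat 1615, .ofNat 3459, .ofNat 0, .ofNat 128, .negSucc 455, .negSucc 353, .ofNat 0, .ofNat 279, .ofNat 188, .ofNat 0, .ofNat 0, .ofNat 720, .ofNat 6537, .ofNat 0, .ofNat 0, .ofNat 5290819882768275257966565612727566336, .ofNat 0, .ofNat 0, .ofNat 0, .ofNat 466006825015378055170783018831117811712, .ofNat 0, .ofNat 0, .ofNat 0, .ofNat 259265408080636994178701070083190423552, .ofNat 0, .ofNat 0, .ofNat 0, .ofNat 2387489566321552271050381015401076097024, .ofNat 0⟩)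
    (by decide +kernel)
theorem L02157 : Good (Phi V5.P V5.D (-1) (-1)) ⟨6, 52, 3, 2, 2, 2, 3, 1, 4, 2⟩ :=
  leafX_sound T5.ok_mm T5.Ymm.bz_eq (w := 223) (c := ⟨⟨.negSucc 5106, .negSucc 217, .ofNat 573, .negSucc 72, .ofNat 51, .ofNat 853⟩, ⟨.ofNat 2028, .ofNat 140, .ofNat 51, .ofNat 6, .negSucc 20, .negSucc 398⟩, ⟨.ofNat 3468, .ofNat 289, .negSucc 344, .negSucc 161, .negSucc 124, .negSucc 351⟩, ⟨.negSucc 7998, .negSucc 190, .ofNat 691, .negSucc 294, .ofNat 94, .ofNat 1310⟩, ⟨.negSucc 449, .ofNat 54, .negSucc 201, .negSucc 390, .ofNat 29, .negSucc 3⟩, .ofNat 1122, .ofNat 1568, .ofNat 0, .ofNat 1568, .ofNat 3368, .ofNat 0, .ofNat 128, .negSucc 364, .negSucc 365, .ofNat 0, .ofNat 222, .ofNat 190, .ofNat 0, .ofNat 0, .ofNat 635, .ofNat 2781, .ofNat 0, .ofNat 0, .ofNat 126296651915971715554264608946520064, .ofNat 0, .ofNat 0, .ofNat 0, .ofNat 88412371988623823655655631959271407616, .ofNat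 0, .ofNat 0, .ofNat 0, .ofNat 26502912221737561804327488132340514816, .ofNat 0, .ofNat 0, .ofNat 0, .ofNat 12729959895452651007989944925496016896, .ofNat 0⟩)
    (by decide +kernel)
theorem L02158 : Good (Phi V5.P V5.D (-1) (-1)) ⟨6, 53, 3, 2, 2, 2, 2, 0, 4, 2⟩ :=
  out_sound (S := T5.ds_mm) T5.ok_mm (w := 63) (j := 3) (by decide +kernel)
theorem L02159 : Good (Phi V5.P V5.D (-1) (-1)) ⟨5, 27, 3, 2, 2, 2, 2, 0, 4, 2⟩ :=
  out_sound (S := T5.ds_mm) T5.ok_mm (w := 57) (j := 3) (by decide +kernel)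
theorem L02160 : Good (Phi V5.P V5.D (-1) (-1)) ⟨3, 6, 3, 2, 2, 2, 2, 1, 5, 4⟩ :=
  leafX_sound T5.ok_mm T5.Ymm.bz_eq (w := 210) (c := ⟨⟨.negSucc 3656, .negSucc 1955, .ofNat 345, .negSucc 132, .ofNat 509, .ofNat 204⟩, ⟨.ofNat 1275, .ofNat 1045, .ofNat 166, .ofNat 18, .negSucc 225, .negSucc 94⟩, ⟨.ofNat 2630, .ofNat 1527, .negSucc 322, .negSucc 222, .negSucc 429, .negSucc 149⟩, ⟨.negSucc 6263, .negSucc 2288, .ofNat 455, .negSucc 471, .ofNat 807, .ofNat 370⟩, ⟨.negSucc 608, .ofNat 185, .negSucc 132, .negSucc 645, .ofNat 11, .ofNat 160⟩, .ofNat 549, .ofNat 538, .ofNat 0, .ofNat 538, .ofNat 1459, .ofNat 0, .ofNat 128, .negSucc 258, .negSucc 376, .ofNat 0, .ofNat 165, .ofNat 171, .ofNat 0, .ofNat 0, .ofNat 530, .ofNat 540, .ofNat 0, .ofNat 0, .ofNat 12199724974546688798909843290009370624, .ofNat 0, .ofNat 0, .ofNat 0, .ofNat 351611499485209295478077753876822360064, .ofNat 0, .ofNat 0, .ofNat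 0, .ofNat 899763332204529446171760853154839658496, .ofNat 0, .ofNat 0, .ofNat 0, .ofNat 477410551834252556876934115553848590336, .ofNat 0⟩)
    (by decide +kernel)
theorem L02161 : Good (Phi V5.P V5.D (-1) (-1)) ⟨3, 6, 3, 2, 2, 2, 2, 1, 5, 5⟩ :=
  leafX_sound T5.ok_mm T5.Ymm.bz_eq (w := 210) (c := ⟨⟨.negSucc 3681, .negSucc 1245, .ofNat 188, .ofNat 99, .ofNat 429, .ofNat 373⟩, ⟨.ofNat 1297, .ofNat 717, .ofNat 214, .negSucc 81, .negSucc 172, .negSucc 158⟩, ⟨.ofNat 2744, .ofNat 1091, .negSucc 260, .negSucc 451, .negSucc 441, .negSucc 214⟩, ⟨.negSucc 6261, .negSucc 1207, .ofNat 209, .negSucc 104, .ofNat 711, .ofNat 609⟩, ⟨.negSucc 487, .ofNat 126, .negSucc 120, .negSucc 661, .ofNat 35, .ofNat 58⟩, .ofNat 537, .ofNat 514, .ofNat 0, .ofNat 514, .ofNat 1438, .ofNat 0, .ofNat 128, .negSucc 222, .negSucc 185, .ofNat 0, .ofNat 148, .ofNat 84, .ofNat 0, .ofNat 0, .ofNat 336, .ofNat 1078, .ofNat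 0, .ofNat 0, .ofNat 8731766722205393460188123564966150144, .ofNat 0, .ofNat 0, .ofNat 0, .ofNat 287488182585927290606634315275655184384, .ofNat 0, .ofNat 0, .ofNat 0, .ofNat 1131503990122446171689118610986033479680, .ofNat 0, .ofNat 0, .ofNat 0, .ofNat 277098617686659217480142593227959042048, .ofNat 0⟩)
    (by decide +kernel)
theorem L02162 : Good (Phi V5.P V5.D (-1) (-1)) ⟨3, 6, 3, 2, 2, 2, 3, 0, 4, 3⟩ :=
  leafX_sound T5.ok_mm T5.Ymm.bz_eq (w := 211) (c := ⟨⟨.negSucc 3441, .negSucc 834, .ofNat 99, .ofNat 131, .negSucc 41, .ofNat 837⟩, ⟨.ofNat 1187, .ofNat 527, .ofNat 235, .negSucc 76, .ofNat 25, .negSucc 359⟩, ⟨.ofNat 2929, .ofNat 752, .negSucc 254, .negSucc 243, .negSucc 167, .negSucc 418⟩, ⟨.negSucc 5976, .negSucc 598, .ofNat 65, .ofNat 20, .negSucc 1, .ofNat 1302⟩, ⟨.negSucc 770, .ofNat 161, .negSucc 87, .negSucc 439, .ofNat 107, .negSucc 28⟩, .ofNat 509, .ofNat 443, .ofNat 0,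 .ofNat 443, .ofNat 1173, .ofNat 0, .ofNat 128, .negSucc 144, .negSucc 85, .ofNat 0, .ofNat 112, .ofNat 49, .ofNat 0, .ofNat 0, .ofNat 287, .ofNat 8089, .ofNat 597305188893837376591478366599786480533504, .ofNat 0, .ofNat 9646750201395049339064057189457985536, .ofNat 0, .ofNat 0, .ofNat 0, .ofNat 0, .ofNat 0, .ofNat 0, .ofNat 0, .ofNat 364619756171039444082799761328015671296, .ofNat 0, .ofNat 7839188620218727622307993105332746682630144, .ofNat 0, .ofNat 157327687537242996658126463392188203008, .ofNat 0⟩)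
    (by decide +kernel)
theorem L02163 : Good (Phi V5.P V5.D (-1) (-1)) ⟨3, 6, 3, 2, 2, 2, 3, 1, 4, 3⟩ :=
  leafX_sound T5.ok_mm T5.Ymm.bz_eq (w := 210) (c := ⟨⟨.negSucc 3552, .negSucc 717, .ofNat 86, .ofNat 304, .ofNat 104, .ofNat 682⟩, ⟨.ofNat 1258, .ofNat 468, .ofNat 226, .negSucc 163, .negSucc 37, .negSucc 290⟩, ⟨.ofNat 2950, .ofNat 594, .negSucc 176, .negSucc 638, .negSucc 254, .negSucc 349⟩, ⟨.negSucc 6047, .negSucc 468, .ofNat 64, .ofNat 197, .ofNat 184, .ofNat 1090⟩, ⟨.negSucc 578, .ofNat 73, .negSucc 45, .negSucc 628, .ofNat 44, .ofNat 18⟩, .ofNat 322, .ofNat 173, .ofNat 0, .ofNat 173, .ofNat 581, .ofNat 0, .ofNat 138, .negSucc 127, .negSucc 136, .ofNat 0, .ofNat 124, .ofNat 76, .ofNat 0, .ofNat 0, .ofNat 347, .ofNat 3007, .ofNat 0, .ofNat 0, .ofNat 0, .ofNat 0, .ofNat 0, .ofNat 0, .ofNat 65740072203640963387741870031883993088, .ofNat 0, .ofNat 0, .ofNat 0, .ofNat 234332163210430551812967462950173409280,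 .ofNat 0, .ofNat 0, .ofNat 0, .ofNat 136719037342512796549700622452669808640, .ofNat 0⟩)
    (by decide +kernel)
theorem L02164 : Good (Phi V5.P V5.D (-1) (-1)) ⟨3, 6, 3, 2, 2, 2, 2, 1, 4, 3⟩ :=
  leafX_sound T5.ok_mm T5.Ymm.bz_eq (w := 205) (c := ⟨⟨.negSucc 3430, .negSucc 765, .ofNat 83, .ofNat 364, .ofNat 363, .ofNat 612⟩, ⟨.ofNat 1208, .ofNat 486, .ofNat 211, .negSucc 186, .negSucc 138, .negSucc 243⟩, ⟨.ofNat 2776, .ofNat 630, .negSucc 158, .negSucc 810, .negSucc 540, .negSucc 407⟩, ⟨.negSucc 5861, .negSucc 589, .ofNat 61, .ofNat 316, .ofNat 635, .ofNat 1018⟩, ⟨.negSucc 546, .ofNat 82, .negSucc 55, .negSucc 652, .ofNat 124, .ofNat 58⟩, .ofNat 327, .ofNat 181, .ofNat 0, .ofNat 181, .ofNat 646, .ofNat 0, .ofNat 160, .negSucc 127, .negSucc 137, .ofNat 0, .ofNat 124, .ofNat 63, .ofNat 0, .ofNat 0, .ofNat 346, .ofNat 1120, .ofNat 0, .ofNat 0, .ofNat 102857331879010540575235313036689408,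 .ofNat 0, .ofNat 0, .ofNat 0, .ofNat 2816249704375972455857879632962387968, .ofNat 0, .ofNat 0, .ofNat 0, .ofNat 14286377604395831525009204995443130368, .ofNat 0, .ofNat 0, .ofNat 0, .ofNat 5937254394212680128978297862737625088, .ofNat 0⟩)
    (by decide +kernel)
theorem L02165 : Good (Phi V5.P V5.D (-1) (-1)) ⟨3, 7, 3, 2, 2, 2, 1, 0, 3, 1⟩ :=
  out_sound (S := T5.ds_mm) T5.ok_mm (w := 45) (j := 3) (by decide +kernel)
theorem L02166 : Good (Phi V5.P V5.D (-1) (-1)) ⟨2, 2, 3, 2, 3, 6, 4, 0, 4, 0⟩ :=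
  leafX_sound T5.ok_mm T5.Ymm.bz_eq (w := 223) (c := ⟨⟨.ofNat 719, .ofNat 3693, .negSucc 142, .negSucc 1574, .ofNat 216, .negSucc 3226⟩, ⟨.ofNat 520, .negSucc 2257, .ofNat 94, .ofNat 590, .negSucc 49, .ofNat 1050⟩, ⟨.ofNat 738, .negSucc 1612, .ofNat 301, .ofNat 959, .negSucc 502, .ofNat 1206⟩, ⟨.ofNat 2275, .ofNat 3825, .negSucc 299, .negSucc 2059, .ofNat 681, .negSucc 6206⟩, ⟨.negSucc 1011, .negSucc 3094, .ofNat 643, .ofNat 1890, .ofNat 848, .negSucc 1458⟩, .ofNat 348, .ofNat 180, .ofNat 0, .ofNat 180, .ofNat 917, .ofNat 0, .ofNat 128, .negSucc 200, .negSucc 195, .ofNat 0, .ofNat 128, .ofNat 55, .ofNat 0, .ofNat 0, .ofNat 348, .ofNat 2043, .ofNat 2894072571831466024934982917182987561726902272, .ofNat 0, .ofNat 7319084794233016092570883888933810804359168, .ofNat 0, .ofNat 0, .ofNat 0, .ofNat 23392431952142432994934632767188698123993088, .ofNat 0, .ofNat 0, .ofNat 0, .ofNat 82934866374890786926378265581658357765242880,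 .ofNat 0, .ofNat 0, .ofNat 0, .ofNat 40794085924519260362764223992359597197230080, .ofNat 0⟩)
    (by decide +kernel)
theorem L02167 : Good (Phi V5.P V5.D (-1) (-1)) ⟨4, 12, 3, 2, 3, 6, 4, 0, 5, 0⟩ :=
  leafX_sound T5.ok_mm T5.Ymm.bz_eq (w := 237) (c := ⟨⟨.ofNat 4801, .ofNat 1655, .negSucc 557, .negSucc 2821, .negSucc 91, .negSucc 409⟩, ⟨.negSucc 2046, .negSucc 1119, .ofNat 232, .ofNat 1354, .ofNat 119, .ofNat 12⟩, ⟨.negSucc 826, .negSucc 940, .ofNat 678, .ofNat 1374, .negSucc 495, .negSucc 76⟩, ⟨.ofNat 6402, .ofNat 1718, .negSucc 836, .negSucc 3522, .ofNat 363, .negSucc 1461⟩, ⟨.negSucc 4098, .negSucc 952, .ofNat 746, .ofNat 2279, .ofNat 1268, .negSucc 1679⟩, .ofNat 535, .ofNat 513, .ofNat 0, .ofNat 513, .ofNat 1463, .ofNat 0, .ofNat 128, .negSucc 516, .negSucc 312, .ofNat 0, .ofNat 294, .ofNat 127, .ofNat 0, .ofNat 0, .ofNat 464, .ofNat 4299, .ofNat 0, .ofNat 0, .ofNat 0, .ofNat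 0, .ofNat 0, .ofNat 0, .ofNat 213264343906045213792635819042988258479833088, .ofNat 0, .ofNat 0, .ofNat 0, .ofNat 3525049015653590480422608012783231505350524928, .ofNat 0, .ofNat 5672071422683508878473887522657732951658712793088, .ofNat 0, .ofNat 471492775547276652577566231606058883735355392, .ofNat 0⟩)
    (by decide +kernel)
theorem L02168 : Good (Phi V5.P V5.D (-1) (-1)) ⟨4, 12, 3, 2, 3, 6, 4, 0, 5, 1⟩ :=
  leafX_sound T5.ok_mm T5.Ymm.bz_eq (w := 238) (c := ⟨⟨.ofNat 4248, .ofNat 2596, .negSucc 634, .negSucc 3558, .negSucc 51, .negSucc 2691⟩, ⟨.negSucc 2015, .negSucc 1664, .ofNat 438, .ofNat 1743, .ofNat 115, .ofNat 1140⟩, ⟨.negSucc 955, .negSucc 1533, .ofNat 705, .ofNat 2199, .negSucc 547, .ofNat 1124⟩, ⟨.ofNat 4764, .ofNat 2964, .negSucc 976, .negSucc 4493, .ofNat 376, .negSucc 4415⟩, ⟨.negSucc 5799, .negSucc 1506, .ofNat 862, .ofNat 2629, .ofNat 964, .negSucc 292⟩, .ofNat 540,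 .ofNat 522, .ofNat 0, .ofNat 522, .ofNat 1453, .ofNat 0, .ofNat 128, .negSucc 532, .negSucc 566, .ofNat 0, .ofNat 299, .ofNat 252, .ofNat 0, .ofNat 0, .ofNat 662, .ofNat 3635, .ofNat 8614787804161855482194605124851281370192059301888, .ofNat 0, .ofNat 3178721666417814159016563886397283385737216, .ofNat 0, .ofNat 0, .ofNat 0, .ofNat 60659726174750014265616841406285401578012672, .ofNat 0, .ofNat 0, .ofNat 0, .ofNat 2908467296733477230397118648093675870884986880, .ofNat 0, .ofNat 27476535976294898996697969744091113088024043323392, .ofNat 0, .ofNat 1141348222002372609467557844517493347329245184, .ofNat 0⟩)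
    (by decide +kernel)
theorem L02169 : Good (Phi V5.P V5.D (-1) (-1)) ⟨4, 13, 3, 2, 3, 6, 4, 0, 4, 0⟩ :=
  leafX_sound T5.ok_mm T5.Ymm.bz_eq (w := 233) (c := ⟨⟨.ofNat 7536, .ofNat 2105, .negSucc 1210, .negSucc 3998, .negSucc 667, .negSucc 1350⟩, ⟨.negSucc 3956, .negSucc 1512, .ofNat 703, .ofNat 2062, .ofNat 431, .ofNat 372⟩, ⟨.negSucc 2590, .negSucc 1620, .ofNat 1220, .ofNat 2466, .negSucc 80, .negSucc 236⟩, ⟨.ofNat 9176, .ofNat 1909, .negSucc 1532, .negSucc 4676, .negSucc 231, .negSucc 3772⟩, ⟨.negSucc 6535, .negSucc 2037, .ofNat 1724, .ofNat 3538, .ofNat 1708, .negSucc 3281⟩, .ofNat 632, .ofNat 607, .ofNat 0, .ofNat 607, .ofNat 1376, .ofNat 0, .ofNat 128, .negSucc 513, .negSucc 882, .ofNat 0, .ofNat 328, .ofNat 455, .ofNat 0, .ofNat 0, .ofNat 850, .ofNat 3484, .ofNat 1100249617305926212271419147387937671942942752768, .ofNat 0, .ofNat 2854574856490201219040224402566500226957312,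 .ofNat 0, .ofNat 0, .ofNat 0, .ofNat 14629721466932955494761684839801976873025536, .ofNat 0, .ofNat 4862164261605683656403461572530489798224525656064, .ofNat 0, .ofNat 151114332534547327507567868332264783528067072, .ofNat 0, .ofNat 0, .ofNat 0, .ofNat 63547844046695629132764326891819961438699520, .ofNat 0⟩)
    (by decide +kernel)
theorem L02170 : Good (Phi V5.P V5.D (-1) (-1)) ⟨3, 7, 3, 2, 3, 6, 4, 0, 4, 0⟩ :=
  out_sound (S := T5.ds_mm) T5.ok_mm (w := 45) (j := 3) (by decide +kernel)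
theorem L02171 : Good (Phi V5.P V5.D (-1) (-1)) ⟨2, 2, 3, 2, 3, 6, 4, 1, 4, 0⟩ :=
  leafX_sound T5.ok_mm T5.Ymm.bz_eq (w := 224) (c := ⟨⟨.ofNat 1596, .ofNat 2983, .negSucc 255, .negSucc 1593, .ofNat 120, .negSucc 3264⟩, ⟨.ofNat 147, .negSucc 1905, .ofNat 166, .ofNat 625, .negSucc 35, .ofNat 1065⟩, ⟨.negSucc 231, .negSucc 1249, .ofNat 326, .ofNat 1046, .negSucc 334, .ofNat 1342⟩, ⟨.ofNat 3779, .ofNat 2888, .negSucc 338, .negSucc 1994, .ofNat 482, .negSucc 6258⟩, ⟨.negSucc 304, .negSucc 2841, .ofNat 834, .ofNat 1952, .ofNat 835, .negSucc 1760⟩, .ofNat 534, .ofNat 541, .ofNat 0, .ofNat 541, .ofNat 1832, .ofNat 0, .ofNat 128, .negSucc 525, .negSucc 537, .ofNat 0, .ofNat 267, .ofNat 187, .ofNat 0, .ofNat 0, .ofNat 776, .ofNat 1846, .ofNat 0, .ofNat 0, .ofNat 21618355307804343863877925299324950627221504, .ofNat 0, .ofNat 0, .ofNat 0, .ofNat 64805673709320378923556505404838082135457792, .ofNat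 0, .ofNat 0, .ofNat 0, .ofNat 323796437012749623927588546358188460491145216, .ofNat 0, .ofNat 0, .ofNat 0, .ofNat 199663293605597117283654640725888911666053120, .ofNat 0⟩)
    (by decide +kernel)
theorem L02172 : Good (Phi V5.P V5.D (-1) (-1)) ⟨4, 12, 3, 2, 3, 6, 4, 1, 4, 0⟩ :=
  leafX_sound T5.ok_mm T5.Ymm.bz_eq (w := 232) (c := ⟨⟨.ofNat 4560, .ofNat 1379, .negSucc 222, .negSucc 2313, .ofNat 246, .negSucc 2746⟩, ⟨.negSucc 1936, .negSucc 934, .ofNat 169, .ofNat 1084, .negSucc 32, .ofNat 978⟩, ⟨.negSucc 1557, .negSucc 828, .ofNat 364, .ofNat 1620, .negSucc 402, .ofNat 1026⟩, ⟨.ofNat 6524, .ofNat 1536, .negSucc 322, .negSucc 2870, .ofNat 671, .negSucc 5491⟩, ⟨.negSucc 2758, .negSucc 731, .ofNat 569, .ofNat 2055, .ofNat 590, .negSucc 2291⟩, .ofNat 542, .ofNat 527, .ofNat 0, .ofNat 527, .ofNat 1481, .ofNat 0, .ofNat 128, .negSucc 466, .negSucc 582, .ofNat 0, .ofNat 265, .ofNat 242, .ofNat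 0, .ofNat 0, .ofNat 704, .ofNat 1486, .ofNat 0, .ofNat 0, .ofNat 0, .ofNat 0, .ofNat 0, .ofNat 0, .ofNat 1750688049796405202006757230278389868265472, .ofNat 0, .ofNat 0, .ofNat 0, .ofNat 59552045808296577759733715025076165694980096, .ofNat 0, .ofNat 0, .ofNat 0, .ofNat 0, .ofNat 0⟩)
    (by decide +kernel)
theorem L02173 : Good (Phi V5.P V5.D (-1) (-1)) ⟨4, 13, 3, 2, 3, 6, 4, 1, 4, 0⟩ :=
  leafX_sound T5.ok_mm T5.Ymm.bz_eq (w := 234) (c := ⟨⟨.ofNat 7202, .ofNat 2674, .negSucc 1426, .negSucc 3267, .negSucc 308, .negSucc 1685⟩, ⟨.negSucc 3608, .negSucc 1780, .ofNat 715, .ofNat 1722, .ofNat 222, .ofNat 541⟩, ⟨.negSucc 2328, .negSucc 1295, .ofNat 493, .ofNat 2112, .negSucc 169, .ofNat 193⟩, ⟨.ofNat 9373, .ofNat 2807, .negSucc 1833, .negSucc 3739, .ofNat 37, .negSucc 4177⟩, ⟨.negSucc 3938, .negSucc 1068, .ofNat 966, .ofNat 2787, .ofNat 1083, .negSucc 3354⟩, .ofNat 1026, .ofNat 1387, .ofNat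 0, .ofNat 1387, .ofNat 3014, .ofNat 0, .ofNat 128, .negSucc 796, .negSucc 1083, .ofNat 0, .ofNat 452, .ofNat 528, .ofNat 0, .ofNat 0, .ofNat 1289, .ofNat 2758, .ofNat 0, .ofNat 0, .ofNat 2736886965515315618972945295410878274863104, .ofNat 0, .ofNat 0, .ofNat 0, .ofNat 154721391198562116594422253426420714362109952, .ofNat 0, .ofNat 0, .ofNat 0, .ofNat 281722784687077297525207398068167982167621632, .ofNat 0, .ofNat 0, .ofNat 0, .ofNat 108053128801771438937177964709985920145686528, .ofNat 0⟩)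
    (by decide +kernel)
theorem L02174 : Good (Phi V5.P V5.D (-1) (-1)) ⟨3, 7, 3, 2, 3, 6, 4, 1, 4, 0⟩ :=
  out_sound (S := T5.ds_mm) T5.ok_mm (w := 45) (j := 3) (by decide +kernel)
theorem L02175 : Good (Phi V5.P V5.D (-1) (-1)) ⟨3, 4, 3, 2, 3, 6, 3, 0, 5, 2⟩ :=
  out_sound (S := T5.ds_mm) T5.ok_mm (w := 45) (j := 3) (by decide +kernel)
theorem L02176 : Good (Phi V5.P V5.D (-1) (-1)) ⟨3, 5, 3, 2, 3, 6, 4, 0, 5, 2⟩ :=
  leafX_sound T5.ok_mm T5.Ymm.bz_eq (w := 233) (c := ⟨⟨.ofNat 190, .negSucc 380, .ofNat 263, .negSucc 1271, .ofNat 433, .negSucc 2417⟩, ⟨.negSucc 135, .ofNat 5, .ofNat 212, .ofNat 495, .negSucc 153, .ofNat 889⟩, ⟨.ofNat 292, .ofNat 512, .negSucc 183, .ofNat 1461, .negSucc 633, .ofNat 1470⟩, ⟨.negSucc 1037, .negSucc 642, .ofNat 298, .negSucc 1681, .ofNat 763, .negSucc 3631⟩, ⟨.negSucc 3478, .negSucc 587, .negSucc 56, .ofNat 1386, .ofNat 105, .ofNat 1438⟩, .ofNat 532, .ofNat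 537, .ofNat 0, .ofNat 537, .ofNat 1844, .ofNat 0, .ofNat 128, .negSucc 272, .negSucc 287, .ofNat 0, .ofNat 140, .ofNat 108, .ofNat 0, .ofNat 0, .ofNat 420, .ofNat 6499, .ofNat 917121573440771864935821353594215001866425597952, .ofNat 0, .ofNat 31164470088242342547191824696885582227308544, .ofNat 0, .ofNat 0, .ofNat 0, .ofNat 0, .ofNat 0, .ofNat 612236817542580330578536237996526706537906831360, .ofNat 0, .ofNat 1392179661827251864486894977334599965451747328, .ofNat 0, .ofNat 828191744703718290204712111629404747826798264320, .ofNat 0, .ofNat 1645446630180139133089936298403828144975904768, .ofNat 0⟩)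
    (by decide +kernel)
theorem L02177 : Good (Phi V5.P V5.D (-1) (-1)) ⟨3, 5, 3, 2, 3, 6, 4, 1, 5, 2⟩ :=
  leafX_sound T5.ok_mm T5.Ymm.bz_eq (w := 232) (c := ⟨⟨.ofNat 745, .negSucc 856, .ofNat 763, .negSucc 972, .ofNat 442, .negSucc 2417⟩, ⟨.negSucc 339, .ofNat 229, .negSucc 87, .ofNat 378, .negSucc 168, .ofNat 880⟩, ⟨.negSucc 347, .ofNat 799, .negSucc 380, .ofNat 1161, .negSucc 486, .ofNat 1433⟩, ⟨.negSucc 0, .negSucc 1336, .ofNat 970, .negSucc 1261, .ofNat 739, .negSucc 3756⟩, ⟨.negSucc 3137, .negSucc 454, .negSucc 67, .ofNat 1134, .ofNat 18, .ofNat 1075⟩, .ofNat 533, .ofNat 539, .ofNat 0, .ofNat 539, .ofNat 1839, .ofNat 0, .ofNat 128, .negSucc 284, .negSucc 245, .ofNat 0, .ofNat 145, .ofNat 91, .ofNat 0, .ofNat 0, .ofNat 322, .ofNat 2953, .ofNat 0, .ofNat 0, .ofNat 0, .ofNat 0, .ofNat 0, .ofNat 0, .ofNat 0, .ofNat 0, .ofNat 0, .ofNat 0, .ofNat 695438174813071708037459052750931636191756288,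 .ofNat 0, .ofNat 0, .ofNat 0, .ofNat 1631103472584763059985462973374494477859684352, .ofNat 0⟩)
    (by decide +kernel)
theorem L02178 : Good (Phi V5.P V5.D (-1) (-1)) ⟨5, 24, 3, 2, 3, 6, 5, 0, 5, 2⟩ :=
  leafX_sound T5.ok_mm T5.Ymm.bz_eq (w := 245) (c := ⟨⟨.ofNat 277, .negSucc 153, .ofNat 628, .negSucc 2103, .ofNat 480, .negSucc 3351⟩, ⟨.negSucc 423, .ofNat 2, .ofNat 24, .ofNat 926, .negSucc 216, .ofNat 1469⟩, ⟨.ofNat 510, .ofNat 149, .negSucc 402, .ofNat 2159, .negSucc 496, .ofNat 1997⟩, ⟨.negSucc 1239, .negSucc 251, .ofNat 698, .negSucc 2667, .ofNat 737, .negSucc 4566⟩, ⟨.negSucc 4598, .negSucc 118, .negSucc 297, .ofNat 2116, .negSucc 96, .ofNat 2391⟩, .ofNat 534, .ofNat 519, .ofNat 0, .ofNat 519, .ofNat 1537, .ofNat 0, .ofNat 128, .negSucc 250, .negSucc 525, .ofNat 0, .ofNat 141, .ofNat 233, .ofNat 0, .ofNat 0, .ofNat 625, .ofNat 5989, .ofNat 1972994255671948972163822690129622438018900251639808,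 .ofNat 0, .ofNat 0, .ofNat 0, .ofNat 0, .ofNat 0, .ofNat 0, .ofNat 0, .ofNat 2148464229368473530198274384350291523940582420381696, .ofNat 0, .ofNat 0, .ofNat 0, .ofNat 0, .ofNat 0, .ofNat 0, .ofNat 0⟩)
    (by decide +kernel)
theorem L02179 : Good (Phi V5.P V5.D (-1) (-1)) ⟨5, 24, 3, 2, 3, 6, 5, 1, 5, 2⟩ :=
  leafX_sound T5.ok_mm T5.Ymm.bz_eq (w := 245) (c := ⟨⟨.ofNat 539, .negSucc 205, .ofNat 420, .negSucc 1742, .ofNat 294, .negSucc 3226⟩, ⟨.negSucc 541, .ofNat 36, .ofNat 121, .ofNat 780, .negSucc 121, .ofNat 1382⟩, ⟨.ofNat 105, .ofNat 199, .negSucc 256, .ofNat 1847, .negSucc 348, .ofNat 1951⟩, ⟨.negSucc 842, .negSucc 290, .ofNat 467, .negSucc 2109, .ofNat 459, .negSucc 4479⟩, ⟨.negSucc 4473, .negSucc 10, .negSucc 117, .ofNat 1881, .negSucc 43, .ofNat 1951⟩, .ofNat 809, .ofNat 1096, .ofNat 0, .ofNat 1096, .ofNat 2919, .ofNat 0, .ofNat 128, .negSucc 335, .negSucc 394, .ofNat 0, .ofNat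 173, .ofNat 171, .ofNat 0, .ofNat 0, .ofNat 471, .ofNat 5248, .ofNat 0, .ofNat 0, .ofNat 0, .ofNat 0, .ofNat 0, .ofNat 0, .ofNat 0, .ofNat 0, .ofNat 0, .ofNat 0, .ofNat 0, .ofNat 0, .ofNat 0, .ofNat 0, .ofNat 0, .ofNat 0⟩)
    (by decide +kernel)
theorem L02180 : Good (Phi V5.P V5.D (-1) (-1)) ⟨5, 24, 3, 2, 3, 6, 4, 1, 5, 2⟩ :=
  leafX_sound T5.ok_mm T5.Ymm.bz_eq (w := 241) (c := ⟨⟨.ofNat 851, .negSucc 114, .ofNat 289, .negSucc 1534, .ofNat 501, .negSucc 3464⟩, ⟨.negSucc 630, .ofNat 8, .ofNat 144, .ofNat 689, .negSucc 209, .ofNat 1454⟩, ⟨.negSucc 180, .ofNat 167, .negSucc 176, .ofNat 1525, .negSucc 562, .ofNat 2136⟩, ⟨.negSucc 175, .negSucc 175, .ofNat 293, .negSucc 1906, .ofNat 817, .negSucc 5010⟩, ⟨.negSucc 4152, .negSucc 168, .negSucc 9, .ofNat 1553, .ofNat 47, .ofNat 1698⟩, .ofNat 538, .ofNat 528, .ofNat 0, .ofNat 528, .ofNat 1566, .ofNat 0, .ofNat 128, .negSucc 261, .negSucc 331,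 .ofNat 0, .ofNat 146, .ofNat 141, .ofNat 0, .ofNat 0, .ofNat 369, .ofNat 2696, .ofNat 0, .ofNat 0, .ofNat 0, .ofNat 0, .ofNat 0, .ofNat 0, .ofNat 0, .ofNat 0, .ofNat 0, .ofNat 0, .ofNat 0, .ofNat 0, .ofNat 0, .ofNat 0, .ofNat 0, .ofNat 0⟩)
    (by decide +kernel)
theorem L02181 : Good (Phi V5.P V5.D (-1) (-1)) ⟨5, 25, 3, 2, 4, 12, 4, 0, 5, 2⟩ :=
  leafX_sound T5.ok_mm T5.Ymm.bz_eq (w := 255) (c := ⟨⟨.ofNat 1527, .ofNat 75, .ofNat 230, .negSucc 962, .ofNat 369, .negSucc 4802⟩, ⟨.negSucc 1192, .negSucc 151, .ofNat 202, .ofNat 477, .negSucc 146, .ofNat 2291⟩, ⟨.negSucc 168, .negSucc 42, .negSucc 84, .ofNat 934, .negSucc 508, .ofNat 2702⟩, ⟨.ofNat 248, .negSucc 16, .ofNat 163, .negSucc 1172, .ofNat 653, .negSucc 6326⟩, ⟨.negSucc 5431, .negSucc 302, .ofNat 87, .ofNat 824, .ofNat 157, .ofNat 3013⟩, .ofNat 549, .ofNat 532, .ofNat 0, .ofNat 532, .ofNat 1406, .ofNat 0, .ofNat 128, .negSucc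 431, .negSucc 625, .ofNat 0, .ofNat 249, .ofNat 310, .ofNat 0, .ofNat 0, .ofNat 610, .ofNat 4176, .ofNat 738872004812090488104176597434330913373256396576915456, .ofNat 0, .ofNat 76037025305628529986621338004705465103342895104, .ofNat 0, .ofNat 0, .ofNat 0, .ofNat 0, .ofNat 0, .ofNat 3291499032149791841510798789802761452914541064731230208, .ofNat 0, .ofNat 9494404318047441005280168523128487571429821251584, .ofNat 0, .ofNat 0, .ofNat 0, .ofNat 8456131001636995627930273660027215494826407493632, .ofNat 0⟩)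
    (by decide +kernel)
theorem L02182 : Good (Phi V5.P V5.D (-1) (-1)) ⟨5, 25, 3, 2, 4, 13, 4, 0, 5, 2⟩ :=
  leafX_sound T5.ok_mm T5.Ymm.bz_eq (w := 255) (c := ⟨⟨.negSucc 715, .negSucc 326, .ofNat 835, .negSucc 1288, .ofNat 837, .negSucc 4167⟩, ⟨.negSucc 121, .ofNat 93, .negSucc 68, .ofNat 612, .negSucc 380, .ofNat 1998⟩, ⟨.ofNat 1593, .ofNat 263, .negSucc 530, .ofNat 1253, .negSucc 975, .ofNat 2566⟩, ⟨.negSucc 2620, .negSucc 455, .ofNat 1028, .negSucc 1560, .ofNat 1201, .negSucc 5444⟩, ⟨.negSucc 3736, .ofNat 9, .negSucc 318, .ofNat 1286, .negSucc 269, .ofNat 2639⟩, .ofNat 689, .ofNat 791, .ofNat 0, .ofNat 791, .ofNat 1964, .ofNat 0, .ofNat 128, .negSucc 339, .negSucc 481, .ofNat 0, .ofNat 198, .ofNat 232, .ofNat 0, .ofNat 0, .ofNat 508, .ofNat 4960, .ofNat 576501076751302093673932576189778400897036076265242624, .ofNat 0, .ofNat 58433841085931172219082538977922785746318524416, .ofNat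 0, .ofNat 0, .ofNat 0, .ofNat 0, .ofNat 0, .ofNat 1436597837842811531988188146270351330646799203501604864, .ofNat 0, .ofNat 5492851640414772485262349588928683356547035693056, .ofNat 0, .ofNat 103732863229563427846761241767224341714920805071060992, .ofNat 0, .ofNat 7987569673416057881111938143238430953008116269056, .ofNat 0⟩)
    (by decide +kernel)
theorem L02183 : Good (Phi V5.P V5.D (-1) (-1)) ⟨5, 25, 3, 2, 3, 6, 4, 1, 5, 2⟩ :=
  leafX_sound T5.ok_mm T5.Ymm.bz_eq (w := 241) (c := ⟨⟨.ofNat 1633, .ofNat 87, .ofNat 291, .negSucc 2073, .ofNat 351, .negSucc 4480⟩, ⟨.negSucc 1196, .negSucc 133, .ofNat 141, .ofNat 1049, .negSucc 138, .ofNat 2115⟩, ⟨.negSucc 617, .negSucc 12, .negSucc 67, .ofNat 1898, .negSucc 475, .ofNat 2668⟩, ⟨.ofNat 648, .ofNat 10, .ofNat 328, .negSucc 2472, .ofNat 629, .negSucc 6163⟩, ⟨.negSucc 4685, .negSucc 320, .ofNat 131, .ofNat 1736, .ofNat 161, .ofNat 2110⟩, .ofNat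 552, .ofNat 536, .ofNat 0, .ofNat 536, .ofNat 1411, .ofNat 0, .ofNat 128, .negSucc 365, .negSucc 551, .ofNat 0, .ofNat 215, .ofNat 264, .ofNat 0, .ofNat 0, .ofNat 532, .ofNat 2199, .ofNat 0, .ofNat 0, .ofNat 0, .ofNat 0, .ofNat 0, .ofNat 0, .ofNat 0, .ofNat 0, .ofNat 0, .ofNat 0, .ofNat 224039944754017854802388245983985978908344320, .ofNat 0, .ofNat 0, .ofNat 0, .ofNat 269975698843075742714615463425773509252481024, .ofNat 0⟩)
    (by decide +kernel)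
theorem L02184 : Good (Phi V5.P V5.D (-1) (-1)) ⟨5, 26, 3, 2, 3, 6, 4, 0, 6, 4⟩ :=
  leafX_sound T5.ok_mm T5.Ymm.bz_eq (w := 248) (c := ⟨⟨.ofNat 3117, .ofNat 1115, .ofNat 372, .negSucc 4747, .ofNat 378, .negSucc 2995⟩, ⟨.negSucc 2181, .negSucc 784, .ofNat 78, .ofNat 2483, .negSucc 133, .ofNat 1511⟩, ⟨.negSucc 587, .negSucc 770, .negSucc 457, .ofNat 3509, .negSucc 631, .ofNat 1634⟩, ⟨.ofNat 1979, .ofNat 1181, .ofNat 177, .negSucc 5600, .ofNat 831, .negSucc 3879⟩, ⟨.negSucc 6665, .negSucc 785, .negSucc 239, .ofNat 3670, .ofNat 525, .ofNat 1613⟩, .ofNat 846, .ofNat 1050, .ofNat 0, .ofNat 1050, .ofNat 2350, .ofNat 0, .ofNat 128, .negSucc 794, .negSucc 1220, .ofNat 0, .ofNat 460, .ofNat 629, .ofNat 0, .ofNat 0, .ofNat 1140, .ofNat 9541, .ofNat 3140034954206618247523447586156669506727309020758016, .ofNat 0, .ofNat 344988919079113669788572368596401597571923968, .ofNat 0, .ofNat 1400573351899756922471748662398580859466406749536256,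 .ofNat 0, .ofNat 27958019519308980878322490222199871403510988800, .ofNat 0, .ofNat 0, .ofNat 0, .ofNat 139244256675288305026321965829904483201841102848, .ofNat 0, .ofNat 0, .ofNat 0, .ofNat 86546677568042435235525065964473159801993428992, .ofNat 0⟩)
    (by decide +kernel)
theorem L02185 : Good (Phi V5.P V5.D (-1) (-1)) ⟨5, 26, 3, 2, 3, 6, 4, 0, 6, 5⟩ :=
  leafX_sound T5.ok_mm T5.Ymm.bz_eq (w := 248) (c := ⟨⟨.negSucc 1388, .ofNat 306, .ofNat 223, .negSucc 2723, .ofNat 1185, .negSucc 2695⟩, ⟨.ofNat 70, .negSucc 200, .ofNat 221, .ofNat 1440, .negSucc 601, .ofNat 1401⟩, ⟨.ofNat 1551, .negSucc 98, .negSucc 272, .ofNat 2703, .negSucc 1082, .ofNat 1699⟩, ⟨.negSucc 3611, .ofNat 486, .ofNat 48, .negSucc 3113, .ofNat 1513, .negSucc 3236⟩, ⟨.negSucc 3491, .negSucc 136, .negSucc 289, .ofNat 2325, .negSucc 670, .ofNat 1981⟩, .ofNat 847, .ofNat 1052, .ofNat 0, .ofNat 1052, .ofNat 2355, .ofNat 0,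 .ofNat 128, .negSucc 478, .negSucc 997, .ofNat 0, .ofNat 282, .ofNat 522, .ofNat 0, .ofNat 0, .ofNat 954, .ofNat 11174, .ofNat 2929098008524702222493909562036880824882231125213184, .ofNat 0, .ofNat 684929916205856852088315384103927627963695104, .ofNat 0, .ofNat 1465082601767401841126952502844268831218029543030784, .ofNat 0, .ofNat 24554380879023117454603576994227886533304647680, .ofNat 0, .ofNat 5920571473889592099685156131214400723132306373476352, .ofNat 0, .ofNat 40321137589325632235670785531709611025455120384, .ofNat 0, .ofNat 0, .ofNat 0, .ofNat 79217570260719782756058704246778614348106432512, .ofNat 0⟩)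
    (by decide +kernel)
theorem L02186 : Good (Phi V5.P V5.D (-1) (-1)) ⟨5, 26, 3, 2, 3, 6, 4, 1, 5, 2⟩ :=
  leafX_sound T5.ok_mm T5.Ymm.bz_eq (w := 243) (c := ⟨⟨.ofNat 5969, .ofNat 1357, .negSucc 3437, .negSucc 2946, .ofNat 497, .negSucc 5397⟩, ⟨.negSucc 3529, .negSucc 748, .ofNat 1974, .ofNat 1548, .negSucc 215, .ofNat 2716⟩, ⟨.negSucc 3148, .negSucc 901, .ofNat 2094, .ofNat 2522, .negSucc 571, .ofNat 3224⟩, ⟨.ofNat 5820, .ofNat 1609, .negSucc 4404, .negSucc 3442, .ofNat 854, .negSucc 7057⟩, ⟨.negSucc 7667, .negSucc 1102, .ofNat 2347, .ofNat 2352, .ofNat 194, .ofNat 2729⟩, .ofNat 844, .ofNat 1046, .ofNat 0, .ofNat 1046, .ofNat 2344, .ofNat 0, .ofNat 128, .negSucc 465, .negSucc 570, .ofNat 0, .ofNat 269, .ofNat 291, .ofNat 0, .ofNat 0, .ofNat 529, .ofNat 2703, .ofNat 0, .ofNat 0, .ofNat 7790294193278919070853080970430760246837248, .ofNat 0, .ofNat 0, .ofNat 0, .ofNat 189009992431964365545221692621524669296541696,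 .ofNat 0, .ofNat 0, .ofNat 0, .ofNat 974498282738491616796926759821979997236625408, .ofNat 0, .ofNat 0, .ofNat 0, .ofNat 563278065981993235789131808348931562663837696, .ofNat 0⟩)
    (by decide +kernel)
theorem L02187 : Good (Phi V5.P V5.D (-1) (-1)) ⟨5, 27, 3, 2, 3, 6, 3, 0, 5, 2⟩ :=
  out_sound (S := T5.ds_mm) T5.ok_mm (w := 57) (j := 3) (by decide +kernel)
theorem L02188 : Good (Phi V5.P V5.D (-1) (-1)) ⟨3, 7, 3, 2, 3, 6, 3, 0, 5, 2⟩ :=
  out_sound (S := T5.ds_mm) T5.ok_mm (w := 45) (j := 3) (by decide +kernel)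
theorem L02189 : Good (Phi V5.P V5.D (-1) (-1)) ⟨3, 4, 3, 2, 3, 6, 4, 0, 5, 3⟩ :=
  out_sound (S := T5.ds_mm) T5.ok_mm (w := 45) (j := 3) (by decide +kernel)
theorem L02190 : Good (Phi V5.P V5.D (-1) (-1)) ⟨3, 5, 3, 2, 3, 6, 6, 0, 5, 3⟩ :=
  leafX_sound T5.ok_mm T5.Ymm.bz_eq (w := 244) (c := ⟨⟨.negSucc 949, .negSucc 2138, .ofNat 472, .negSucc 879, .negSucc 31, .negSucc 592⟩, ⟨.ofNat 61, .ofNat 942, .ofNat 132, .ofNat 334, .ofNat 24, .ofNat 209⟩, ⟨.ofNat 669, .ofNat 1820, .negSucc 356, .ofNat 1418, .negSucc 59, .ofNat 396⟩, ⟨.negSucc 3224, .negSucc 2583, .ofNat 595, .negSucc 1095, .negSucc 14, .negSucc 821⟩, ⟨.negSucc 3001, .ofNat 1027, .negSucc 342, .ofNat 1230, .ofNat 46, .ofNat 677⟩, .ofNat 534, .ofNat 540, .ofNat 0, .ofNat 540, .ofNat 1847, .ofNat 0, .ofNat 128, .negSucc 306, .negSucc 321, .ofNat 0, .ofNat 169, .ofNat 123, .ofNat 0, .ofNat 0, .ofNat 529, .ofNat 86155, .ofNat 994287273647559425145105251408136640105450315972608,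 .ofNat 0, .ofNat 57196279826932038079153282946810633681742331904, .ofNat 0, .ofNat 133494329324364069135603111066947056863371396644864, .ofNat 0, .ofNat 138871185412455531171653511774080101763399024640, .ofNat 0, .ofNat 507552570067092080873381748618475736800132216127488, .ofNat 0, .ofNat 1167529342181083394180107000251147444101094309888, .ofNat 0, .ofNat 290347980182848588707967275998435284101837266878464, .ofNat 0, .ofNat 1677158775767631966760314002317508319284782170112, .ofNat 0⟩)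
    (by decide +kernel)
theorem L02191 : Good (Phi V5.P V5.D (-1) (-1)) ⟨3, 5, 3, 2, 3, 6, 6, 1, 5, 3⟩ :=
  leafX_sound T5.ok_mm T5.Ymm.bz_eq (w := 243) (c := ⟨⟨.negSucc 1209, .negSucc 1954, .ofNat 323, .negSucc 589, .ofNat 4, .negSucc 751⟩, ⟨.ofNat 166, .ofNat 873, .ofNat 197, .ofNat 224, .ofNat 5, .ofNat 272⟩, ⟨.ofNat 785, .ofNat 1627, .negSucc 248, .ofNat 1189, .negSucc 71, .ofNat 567⟩, ⟨.negSucc 3557, .negSucc 2323, .ofNat 401, .negSucc 689, .ofNat 17, .negSucc 1058⟩, ⟨.negSucc 2739, .ofNat 865, .negSucc 198, .ofNat 1008, .negSucc 16, .ofNat 766⟩, .ofNat 532, .ofNat 538, .ofNat 0, .ofNat 538, .ofNat 1857, .ofNat 0, .ofNat 128, .negSucc 304, .negSucc 255, .ofNat 0, .ofNat 166, .ofNat 98, .ofNat 0, .ofNat 0, .ofNat 440, .ofNat 26056, .ofNat 153373958458824161861427033123666490153146488193024, .ofNat 0, .ofNat 6051720397923548193845317007748180809384722432, .ofNat 0, .ofNat 0, .ofNat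 0, .ofNat 102472058068919637286287603659509067264171180032, .ofNat 0, .ofNat 0, .ofNat 0, .ofNat 440077202700404313876652834099865861381735579648, .ofNat 0, .ofNat 0, .ofNat 0, .ofNat 356504605443212650414460097268004996423178256384, .ofNat 0⟩)
    (by decide +kernel)
theorem L02192 : Good (Phi V5.P V5.D (-1) (-1)) ⟨3, 5, 3, 2, 3, 6, 5, 1, 5, 3⟩ :=
  leafX_sound T5.ok_mm T5.Ymm.bz_eq (w := 237) (c := ⟨⟨.negSucc 1192, .negSucc 2012, .ofNat 452, .negSucc 435, .ofNat 71, .negSucc 740⟩, ⟨.ofNat 173, .ofNat 874, .ofNat 160, .ofNat 169, .negSucc 20, .ofNat 269⟩, ⟨.ofNat 736, .ofNat 1700, .negSucc 453, .ofNat 992, .negSucc 182, .ofNat 546⟩, ⟨.negSucc 3504, .negSucc 2439, .ofNat 601, .negSucc 473, .ofNat 123, .negSucc 1048⟩, ⟨.negSucc 2706, .ofNat 917, .negSucc 330, .ofNat 831, .negSucc 27, .ofNat 699⟩, .ofNat 533, .ofNat 538, .ofNat 0, .ofNat 538, .ofNat 1834, .ofNat 0, .ofNat 128, .negSucc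 225, .negSucc 268, .ofNat 0, .ofNat 123, .ofNat 104, .ofNat 0, .ofNat 0, .ofNat 434, .ofNat 10294, .ofNat 0, .ofNat 0, .ofNat 0, .ofNat 0, .ofNat 0, .ofNat 0, .ofNat 5705947065258596301617258420044023896653955072, .ofNat 0, .ofNat 0, .ofNat 0, .ofNat 26985842498344848549547848736174895108842323968, .ofNat 0, .ofNat 0, .ofNat 0, .ofNat 27993196975081680587645624196146680840820097024, .ofNat 0⟩)
    (by decide +kernel)
theorem L02193 : Good (Phi V5.P V5.D (-1) (-1)) ⟨5, 24, 3, 2, 3, 6, 6, 0, 5, 3⟩ :=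
  leafX_sound T5.ok_mm T5.Ymm.bz_eq (w := 252) (c := ⟨⟨.negSucc 2918, .negSucc 856, .ofNat 765, .negSucc 1437, .negSucc 105, .negSucc 146⟩, ⟨.ofNat 880, .ofNat 443, .negSucc 1, .ofNat 653, .ofNat 32, .ofNat 82⟩, ⟨.ofNat 2343, .ofNat 662, .negSucc 663, .ofNat 1971, .negSucc 70, .ofNat 78⟩, ⟨.negSucc 5630, .negSucc 947, .ofNat 983, .negSucc 1731, .negSucc 174, .negSucc 86⟩, ⟨.negSucc 2056, .ofNat 544, .negSucc 601, .ofNat 1674, .ofNat 20, .ofNat 463⟩, .ofNat 533, .ofNat 518, .ofNat 0, .ofNat 518, .ofNat 1543, .ofNat 0, .ofNat 128, .negSucc 348, .negSucc 463, .ofNat 0, .ofNat 210, .ofNat 208, .ofNat 0, .ofNat 0, .ofNat 630, .ofNat 73510, .ofNat 238905992768275055144057572083884306636782311009419264, .ofNat 0, .ofNat 0, .ofNat 0, .ofNat 141419759550325952942117112648173794238916262170198016, .ofNat 0, .ofNat 0, .ofNat 0, .ofNat 336983588580602369309299099974461383406996889062604800, .ofNat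 0, .ofNat 0, .ofNat 0, .ofNat 106543209326893702136124371800345822097794383059353600, .ofNat 0, .ofNat 85920110552561538393898558300646341765029167104, .ofNat 0⟩)
    (by decide +kernel)
theorem L02194 : Good (Phi V5.P V5.D (-1) (-1)) ⟨5, 24, 3, 2, 3, 6, 6, 1, 5, 3⟩ :=
  leafX_sound T5.ok_mm T5.Ymm.bz_eq (w := 251) (c := ⟨⟨.negSucc 3074, .negSucc 915, .ofNat 789, .negSucc 852, .negSucc 61, .negSucc 833⟩, ⟨.ofNat 941, .ofNat 460, .negSucc 13, .ofNat 397, .ofNat 33, .ofNat 375⟩, ⟨.ofNat 2294, .ofNat 713, .negSucc 696, .ofNat 1512, .negSucc 33, .ofNat 663⟩, ⟨.negSucc 5865, .negSucc 1053, .ofNat 1005, .negSucc 935, .negSucc 80, .negSucc 1011⟩, ⟨.negSucc 1998, .ofNat 580, .negSucc 535, .ofNat 1202, .ofNat 12, .ofNat 982⟩, .ofNat 534, .ofNat 519, .ofNat 0, .ofNat 519, .ofNat 1539, .ofNat 0, .ofNat 128, .negSucc 312, .negSucc 449, .ofNat 0, .ofNat 185, .ofNat 205, .ofNat 0, .ofNat 0, .ofNat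 628, .ofNat 23380, .ofNat 31566984916863669007533281375629686576623663431286784, .ofNat 0, .ofNat 915465174852693947248206372449962412744900608, .ofNat 0, .ofNat 0, .ofNat 0, .ofNat 0, .ofNat 0, .ofNat 0, .ofNat 0, .ofNat 0, .ofNat 0, .ofNat 0, .ofNat 0, .ofNat 0, .ofNat 0⟩)
    (by decide +kernel)
theorem L02195 : Good (Phi V5.P V5.D (-1) (-1)) ⟨5, 24, 3, 2, 3, 6, 5, 1, 5, 3⟩ :=
  leafX_sound T5.ok_mm T5.Ymm.bz_eq (w := 246) (c := ⟨⟨.negSucc 3151, .negSucc 795, .ofNat 840, .negSucc 563, .ofNat 214, .negSucc 935⟩, ⟨.ofNat 993, .ofNat 392, .negSucc 36, .ofNat 271, .negSucc 99, .ofNat 421⟩, ⟨.ofNat 2292, .ofNat 600, .negSucc 683, .ofNat 1199, .negSucc 279, .ofNat 735⟩, ⟨.negSucc 5975, .negSucc 1003, .ofNat 1160, .negSucc 490, .ofNat 279, .negSucc 1148⟩, ⟨.negSucc 2036, .ofNat 198, .negSucc 307, .ofNat 1226, .negSucc 127, .ofNat 959⟩, .ofNat 811, .ofNat 1105, .ofNat 0, .ofNat 1105, .ofNat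 2957, .ofNat 0, .ofNat 128, .negSucc 418, .negSucc 513, .ofNat 0, .ofNat 223, .ofNat 226, .ofNat 0, .ofNat 0, .ofNat 713, .ofNat 8471, .ofNat 0, .ofNat 0, .ofNat 0, .ofNat 0, .ofNat 0, .ofNat 0, .ofNat 0, .ofNat 0, .ofNat 0, .ofNat 0, .ofNat 0, .ofNat 0, .ofNat 0, .ofNat 0, .ofNat 0, .ofNat 0⟩)
    (by decide +kernel)
theorem L02196 : Good (Phi V5.P V5.D (-1) (-1)) ⟨5, 25, 3, 2, 3, 6, 6, 0, 5, 3⟩ :=
  leafX_sound T5.ok_mm T5.Ymm.bz_eq (w := 252) (c := ⟨⟨.negSucc 4192, .negSucc 1506, .ofNat 1649, .negSucc 1879, .negSucc 14, .ofNat 93⟩, ⟨.ofNat 1441, .ofNat 842, .negSucc 448, .ofNat 958, .ofNat 10, .negSucc 23⟩, ⟨.ofNat 3165, .ofNat 1133, .negSucc 1325, .ofNat 2466, .negSucc 86, .negSucc 101⟩, ⟨.negSucc 7299, .negSucc 1648, .ofNat 2042, .negSucc 2082, .negSucc 3, .ofNat 304⟩, ⟨.negSucc 1341, .ofNat 968, .negSucc 1290, .ofNat 2119, .ofNat 22, .ofNat 412⟩, .ofNat 794, .ofNat 992, .ofNat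 0, .ofNat 992, .ofNat 2409, .ofNat 0, .ofNat 128, .negSucc 318, .negSucc 516, .ofNat 0, .ofNat 190, .ofNat 255, .ofNat 0, .ofNat 0, .ofNat 628, .ofNat 51347, .ofNat 169148603293654636894910049953043041869338066359943168, .ofNat 0, .ofNat 0, .ofNat 0, .ofNat 0, .ofNat 0, .ofNat 54253944401183747085535741222631408726500704256, .ofNat 0, .ofNat 243146660980509806849703157604369325622361397257043968, .ofNat 0, .ofNat 84004863956666486538042465057341256114867535872, .ofNat 0, .ofNat 273842549133020241822176764337719213008580572191129600, .ofNat 0, .ofNat 114450442207528544132306081901993489356568920064, .ofNat 0⟩)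
    (by decide +kernel)
theorem L02197 : Good (Phi V5.P V5.D (-1) (-1)) ⟨5, 25, 3, 2, 3, 6, 6, 1, 5, 3⟩ :=
  leafX_sound T5.ok_mm T5.Ymm.bz_eq (w := 251) (c := ⟨⟨.negSucc 4469, .negSucc 1487, .ofNat 1210, .negSucc 907, .ofNat 245, .negSucc 649⟩, ⟨.ofNat 1584, .ofNat 832, .negSucc 237, .ofNat 480, .negSucc 124, .ofNat 342⟩, ⟨.ofNat 3289, .ofNat 1121, .negSucc 1047, .ofNat 1695, .negSucc 261, .ofNat 557⟩, ⟨.negSucc 7599, .negSucc 1586, .ofNat 1485, .negSucc 903, .ofNat 266, .negSucc 646⟩, ⟨.negSucc 937, .ofNat 1050, .negSucc 997, .ofNat 1210, .negSucc 290, .ofNat 873⟩, .ofNat 746, .ofNat 893, .ofNat 0, .ofNat 893, .ofNat 2207, .ofNat 0, .ofNat 128, .negSucc 313, .negSucc 494, .ofNat 0, .ofNat 186, .ofNat 248, .ofNat 0, .ofNat 0, .ofNat 579, .ofNat 16862, .ofNat 19374789805838839100450546756264047264660368383803392, .ofNat 0, .ofNat 3055276840997539039329742353088378130097242112, .ofNat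 0, .ofNat 0, .ofNat 0, .ofNat 17002622816220139131692092505188748986939342848, .ofNat 0, .ofNat 0, .ofNat 0, .ofNat 58483476919196340677236704426161594744099045376, .ofNat 0, .ofNat 0, .ofNat 0, .ofNat 113776310498541027589181949055045379908891049984, .ofNat 0⟩)
    (by decide +kernel)
theorem L02198 : Good (Phi V5.P V5.D (-1) (-1)) ⟨5, 25, 3, 2, 3, 6, 5, 1, 5, 3⟩ :=
  leafX_sound T5.ok_mm T5.Ymm.bz_eq (w := 246) (c := ⟨⟨.negSucc 4062, .negSucc 1159, .ofNat 1004, .negSucc 880, .ofNat 390, .negSucc 911⟩, ⟨.ofNat 1403, .ofNat 640, .negSucc 142, .ofNat 461, .negSucc 192, .ofNat 467⟩, ⟨.ofNat 2964, .ofNat 888, .negSucc 877, .ofNat 1532, .negSucc 418, .ofNat 735⟩, ⟨.negSucc 6995, .negSucc 1355, .ofNat 1171, .negSucc 873, .ofNat 440, .negSucc 975⟩, ⟨.negSucc 1153, .ofNat 421, .negSucc 964, .ofNat 1346, .negSucc 455, .ofNat 1129⟩, .ofNat 812, .ofNat 1028, .ofNat 0, .ofNat 1028, .ofNat 2470,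 .ofNat 0, .ofNat 128, .negSucc 353, .negSucc 588, .ofNat 0, .ofNat 206, .ofNat 291, .ofNat 0, .ofNat 0, .ofNat 705, .ofNat 7715, .ofNat 0, .ofNat 0, .ofNat 103573229622016942934844147799935003853324288, .ofNat 0, .ofNat 0, .ofNat 0, .ofNat 2158744332732103155245778840168027679962955776, .ofNat 0, .ofNat 0, .ofNat 0, .ofNat 5080777473161578716797125611903871349862432768, .ofNat 0, .ofNat 0, .ofNat 0, .ofNat 9849225864607059985759213688531449461371568128, .ofNat 0⟩)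
    (by decide +kernel)
theorem L02199 : Good (Phi V5.P V5.D (-1) (-1)) ⟨6, 52, 3, 2, 3, 6, 6, 0, 5, 3⟩ :=
  leafX_sound T5.ok_mm T5.Ymm.bz_eq (w := 257) (c := ⟨⟨.negSucc 6810, .negSucc 2025, .ofNat 3014, .negSucc 1978, .negSucc 172, .ofNat 371⟩, ⟨.ofNat 2881, .ofNat 1127, .negSucc 1227, .ofNat 1071, .ofNat 92, .negSucc 155⟩, ⟨.ofNat 4979, .ofNat 1411, .negSucc 2317, .ofNat 2687, .ofNat 20, .negSucc 233⟩, ⟨.negSucc 9964, .negSucc 2192, .ofNat 3281, .negSucc 2088, .negSucc 205, .ofNat 700⟩, ⟨.ofNat 1088, .ofNat 1568, .negSucc 2823, .ofNat 2034, .ofNat 171, .ofNat 223⟩, .ofNat 832, .ofNat 997, .ofNat 0, .ofNat 997, .ofNat 2257, .ofNat 0, .ofNat 128, .negSucc 499, .negSucc 1044, .ofNat 0, .ofNat 317, .ofNat 572, .ofNat 0, .ofNat 0, .ofNat 1018, .ofNat 73587, .ofNat 3528937661616972845894120171037005410412378258378063872, .ofNat 0, .ofNat 3602168192975097814327444418104371622205980672,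 .ofNat 0, .ofNat 637246299640573456015551315181650550283824517361958912, .ofNat 0, .ofNat 56652695166227731313255663444505927254643048448, .ofNat 0, .ofNat 5136838690211817789331216881686866563687356154779795456, .ofNat 0, .ofNat 134787876481952295596535683594167306797308706816, .ofNat 0, .ofNat 6874670459681325018365553845950606904562554612052131840, .ofNat 0, .ofNat 108050605532720733061784679811415423193966444544, .ofNat 0⟩)
    (by decide +kernel)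
theorem L02200 : Good (Phi V5.P V5.D (-1) (-1)) ⟨6, 52, 3, 2, 3, 6, 6, 1, 5, 3⟩ :=
  leafX_sound T5.ok_mm T5.Ymm.bz_eq (w := 255) (c := ⟨⟨.negSucc 6141, .negSucc 779, .ofNat 1558, .negSucc 904, .ofNat 85, .negSucc 607⟩, ⟨.ofNat 2536, .ofNat 462, .negSucc 467, .ofNat 512, .negSucc 50, .ofNat 351⟩, ⟨.ofNat 4542, .ofNat 483, .negSucc 1394, .ofNat 1806, .negSucc 124, .ofNat 561⟩, ⟨.negSucc 9423, .negSucc 846, .ofNat 1878, .negSucc 849, .ofNat 67, .negSucc 543⟩, ⟨.ofNat 281, .ofNat 476, .negSucc 1386, .ofNat 1260, .negSucc 160, .ofNat 968⟩, .ofNat 560, .ofNat 540, .ofNat 0, .ofNat 540, .ofNat 1334, .ofNat 0, .ofNat 128, .negSucc 484, .negSucc 784, .ofNat 0, .ofNat 315, .ofNat 426, .ofNat 0, .ofNat 0, .ofNat 861, .ofNat 22991, .ofNat 371820242511976735041300180388533358307857497350733824, .ofNat 0, .ofNat 1539221954069144517944908967801472202875863040, .ofNat 0, .ofNat 0, .ofNat 0, .ofNat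 21891992225591896044287312364218175548110667776, .ofNat 0, .ofNat 0, .ofNat 0, .ofNat 37031202551643898574861904661694760908329320448, .ofNat 0, .ofNat 0, .ofNat 0, .ofNat 74726202782141973446581014712330300312841617408, .ofNat 0⟩)
    (by decide +kernel)
theorem L02201 : Good (Phi V5.P V5.D (-1) (-1)) ⟨6, 52, 3, 2, 3, 6, 5, 1, 5, 3⟩ :=
  leafX_sound T5.ok_mm T5.Ymm.bz_eq (w := 251) (c := ⟨⟨.negSucc 5515, .negSucc 907, .ofNat 1377, .negSucc 567, .ofNat 227, .negSucc 852⟩, ⟨.ofNat 2175, .ofNat 514, .negSucc 336, .ofNat 331, .negSucc 124, .ofNat 471⟩, ⟨.ofNat 3899, .ofNat 683, .negSucc 1072, .ofNat 1397, .negSucc 265, .ofNat 694⟩, ⟨.negSucc 8802, .negSucc 987, .ofNat 1801, .negSucc 515, .ofNat 231, .negSucc 879⟩, ⟨.negSucc 212, .ofNat 696, .negSucc 1261, .ofNat 942, .negSucc 254, .ofNat 1050⟩, .ofNat 561, .ofNat 541, .ofNat 0, .ofNat 541, .ofNat 1337, .ofNat 0, .ofNat 128, .negSucc 411,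 .negSucc 698, .ofNat 0, .ofNat 267, .ofNat 376, .ofNat 0, .ofNat 0, .ofNat 757, .ofNat 11471, .ofNat 0, .ofNat 0, .ofNat 62748004672529627008630434386487497703030784, .ofNat 0, .ofNat 0, .ofNat 0, .ofNat 560602414473994307347412995156579527467991040, .ofNat 0, .ofNat 0, .ofNat 0, .ofNat 1783922636684027379138039533712071624088354816, .ofNat 0, .ofNat 0, .ofNat 0, .ofNat 11464671982586126697044745326680259774449188864, .ofNat 0⟩)
    (by decide +kernel)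
theorem L02202 : Good (Phi V5.P V5.D (-1) (-1)) ⟨6, 53, 3, 2, 3, 6, 4, 0, 5, 3⟩ :=
  out_sound (S := T5.ds_mm) T5.ok_mm (w := 63) (j := 3) (by decide +kernel)
theorem L02203 : Good (Phi V5.P V5.D (-1) (-1)) ⟨5, 27, 3, 2, 3, 6, 4, 0, 5, 3⟩ :=
  out_sound (S := T5.ds_mm) T5.ok_mm (w := 57) (j := 3) (by decide +kernel)
theorem L02204 : Good (Phi V5.P V5.D (-1) (-1)) ⟨3, 7, 3, 2, 3, 6, 4, 0, 5, 3⟩ :=
  out_sound (S := T5.ds_mm) T5.ok_mm (w := 45) (j := 3) (by decide +kernel)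
theorem L02205 : Good (Phi V5.P V5.D (-1) (-1)) ⟨2, 2, 3, 2, 3, 6, 4, 1, 5, 3⟩ :=
  leafX_sound T5.ok_mm T5.Ymm.bz_eq (w := 229) (c := ⟨⟨.ofNat 1114, .negSucc 4209, .ofNat 596, .negSucc 270, .ofNat 202, .negSucc 891⟩, ⟨.negSucc 801, .ofNat 1816, .ofNat 60, .ofNat 105, .negSucc 70, .ofNat 329⟩, ⟨.negSucc 1178, .ofNat 3463, .negSucc 505, .ofNat 727, .negSucc 337, .ofNat 629⟩, ⟨.negSucc 468, .negSucc 5273, .ofNat 755, .negSucc 270, .ofNat 320, .negSucc 1308⟩, ⟨.negSucc 3187, .ofNat 1384, .negSucc 270, .ofNat 612, .negSucc 80, .ofNat 636⟩, .ofNat 535, .ofNat 543, .ofNat 0, .ofNat 543, .ofNat 1843, .ofNat 0, .ofNat 128, .negSucc 312, .negSucc 354, .ofNat 0, .ofNat 169, .ofNat 136, .ofNat 0, .ofNat 0, .ofNat 527, .ofNat 3598, .ofNat 0, .ofNat 0, .ofNat 178408211538983135521834172251376127263637504, .ofNat 0, .ofNat 0, .ofNat 0, .ofNat 4313401020577151624692886972230428832959561728, .ofNat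 0, .ofNat 0, .ofNat 0, .ofNat 32816614241505469001515080633270712649753034752, .ofNat 0, .ofNat 0, .ofNat 0, .ofNat 35342723557879335975339603272920426709539356672, .ofNat 0⟩)
    (by decide +kernel)
theorem L02206 : Good (Phi V5.P V5.D (-1) (-1)) ⟨4, 12, 3, 2, 3, 6, 4, 1, 5, 3⟩ :=
  leafX_sound T5.ok_mm T5.Ymm.bz_eq (w := 237) (c := ⟨⟨.negSucc 2866, .negSucc 1794, .ofNat 782, .negSucc 469, .ofNat 213, .negSucc 1138⟩, ⟨.ofNat 827, .ofNat 923, .negSucc 15, .ofNat 235, .negSucc 90, .ofNat 545⟩, ⟨.ofNat 2051, .ofNat 1364, .negSucc 728, .ofNat 1033, .negSucc 364, .ofNat 884⟩, ⟨.negSucc 5562, .negSucc 2118, .ofNat 1005, .negSucc 459, .ofNat 299, .negSucc 1426⟩, ⟨.negSucc 1863, .ofNat 712, .negSucc 441, .ofNat 823, .negSucc 216, .ofNat 901⟩, .ofNat 538, .ofNat 522, .ofNat 0, .ofNat 522, .ofNat 1488, .ofNat 0, .ofNat 128, .negSucc 311, .negSucc 379, .ofNat 0, .ofNat 187, .ofNat 175, .ofNat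 0, .ofNat 0, .ofNat 457, .ofNat 3178, .ofNat 0, .ofNat 0, .ofNat 27099119161762458933100900109959534624112640, .ofNat 0, .ofNat 0, .ofNat 0, .ofNat 0, .ofNat 0, .ofNat 0, .ofNat 0, .ofNat 1152160338972507407196072125311935674161561600, .ofNat 0, .ofNat 0, .ofNat 0, .ofNat 1087489869959353481300125231262280894241570816, .ofNat 0⟩)
    (by decide +kernel)
theorem L02207 : Good (Phi V5.P V5.D (-1) (-1)) ⟨4, 13, 3, 2, 3, 6, 4, 1, 5, 3⟩ :=
  leafX_sound T5.ok_mm T5.Ymm.bz_eq (w := 238) (c := ⟨⟨.negSucc 4140, .negSucc 682, .negSucc 290, .negSucc 220, .ofNat 536, .negSucc 922⟩, ⟨.ofNat 1480, .ofNat 504, .ofNat 513, .ofNat 139, .negSucc 288, .ofNat 498⟩, ⟨.ofNat 2653, .ofNat 592, .ofNat 372, .ofNat 946, .negSucc 561, .ofNat 704⟩, ⟨.negSucc 6963, .negSucc 391, .negSucc 428, .negSucc 108, .ofNat 578, .negSucc 995⟩, ⟨.negSucc 1307, .ofNat 48, .ofNat 140, .ofNat 498, .negSucc 525, .ofNat 910⟩,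 .ofNat 1143, .ofNat 1609, .ofNat 0, .ofNat 1609, .ofNat 3452, .ofNat 0, .ofNat 128, .negSucc 556, .negSucc 943, .ofNat 0, .ofNat 332, .ofNat 491, .ofNat 0, .ofNat 0, .ofNat 1011, .ofNat 4931, .ofNat 0, .ofNat 0, .ofNat 44641679961997434408270442523061187833233408, .ofNat 0, .ofNat 0, .ofNat 0, .ofNat 3236917367595874267110569985685446438521143296, .ofNat 0, .ofNat 0, .ofNat 0, .ofNat 6246023940973273320168676543569259278303756288, .ofNat 0, .ofNat 0, .ofNat 0, .ofNat 6273259344115981544985970270635044815717269504, .ofNat 0⟩)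
    (by decide +kernel)
theorem L02208 : Good (Phi V5.P V5.D (-1) (-1)) ⟨3, 7, 3, 2, 3, 6, 4, 1, 5, 3⟩ :=
  out_sound (S := T5.ds_mm) T5.ok_mm (w := 45) (j := 3) (by decide +kernel)
theorem L02209 : Good (Phi V5.P V5.D (-1) (-1)) ⟨3, 4, 3, 2, 3, 6, 3, 1, 3, 0⟩ :=
  out_sound (S := T5.ds_mm) T5.ok_mm (w := 45) (j := 3) (by decide +kernel)
theorem L02210 : Good (Phi V5.P V5.D (-1) (-1)) ⟨3, 5, 3, 2, 3, 6, 3, 1, 4, 0⟩ :=
  leafX_sound T5.ok_mm T5.Ymm.bz_eq (w := 224) (c := ⟨⟨.ofNat 3325, .ofNat 790, .negSucc 265, .negSucc 1178, .ofNat 200, .negSucc 2594⟩, ⟨.negSucc 916, .negSucc 604, .negSucc 14, .ofNat 479, .negSucc 64, .ofNat 815⟩, ⟨.negSucc 1125, .negSucc 503, .ofNat 314, .ofNat 879, .negSucc 469, .ofNat 1040⟩, ⟨.ofNat 5795, .ofNat 550, .negSucc 390, .negSucc 1375, .ofNat 691, .negSucc 5361⟩, ⟨.negSucc 1322, .negSucc 424, .ofNat 571, .ofNat 1846, .ofNat 1002, .negSucc 2554⟩, .ofNat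 530, .ofNat 532, .ofNat 0, .ofNat 532, .ofNat 1837, .ofNat 0, .ofNat 128, .negSucc 254, .negSucc 267, .ofNat 0, .ofNat 130, .ofNat 90, .ofNat 0, .ofNat 0, .ofNat 345, .ofNat 1466, .ofNat 0, .ofNat 0, .ofNat 0, .ofNat 0, .ofNat 0, .ofNat 0, .ofNat 430724614086186430300462011212358005817344, .ofNat 0, .ofNat 0, .ofNat 0, .ofNat 954309373373099738628162665997423754608640, .ofNat 0, .ofNat 0, .ofNat 0, .ofNat 337349401070828576318876974389148193390592, .ofNat 0⟩)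
    (by decide +kernel)
theorem L02211 : Good (Phi V5.P V5.D (-1) (-1)) ⟨3, 5, 3, 2, 3, 6, 3, 1, 4, 1⟩ :=
  leafX_sound T5.ok_mm T5.Ymm.bz_eq (w := 223) (c := ⟨⟨.ofNat 723, .negSucc 1201, .ofNat 184, .negSucc 330, .ofNat 608, .negSucc 3259⟩, ⟨.negSucc 444, .ofNat 481, .ofNat 186, .ofNat 122, .negSucc 214, .ofNat 1200⟩, ⟨.negSucc 467, .ofNat 997, .negSucc 172, .ofNat 569, .negSucc 642, .ofNat 2039⟩, ⟨.ofNat 19, .negSucc 1574, .ofNat 200, .negSucc 472, .ofNat 1008, .negSucc 5245⟩, ⟨.negSucc 2289, .negSucc 94, .ofNat 37, .ofNat 260, .negSucc 78, .ofNat 913⟩, .ofNat 537, .ofNat 547, .ofNat 0, .ofNat 547, .ofNat 1838, .ofNat 0, .ofNat 128, .negSucc 300, .negSucc 324, .ofNat 0, .ofNat 159, .ofNat 120, .ofNat 0, .ofNat 0, .ofNat 405, .ofNat 1062, .ofNat 0, .ofNat 0, .ofNat 0, .ofNat 0, .ofNat 0, .ofNat 0, .ofNat 646016080835851308475553519146765939376128, .ofNat 0, .ofNat 0, .ofNat 0, .ofNat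 0, .ofNat 0, .ofNat 0, .ofNat 0, .ofNat 0, .ofNat 0⟩)
    (by decide +kernel)
theorem L02212 : Good (Phi V5.P V5.D (-1) (-1)) ⟨3, 6, 3, 2, 3, 6, 3, 1, 4, 0⟩ :=
  leafX_sound T5.ok_mm T5.Ymm.bz_eq (w := 224) (c := ⟨⟨.ofNat 4630, .ofNat 1835, .negSucc 454, .negSucc 1764, .negSucc 192, .negSucc 2139⟩, ⟨.negSucc 1879, .negSucc 1249, .ofNat 100, .ofNat 881, .ofNat 156, .ofNat 693⟩, ⟨.negSucc 1945, .negSucc 1261, .ofNat 552, .ofNat 1322, .negSucc 295, .ofNat 718⟩, ⟨.ofNat 6939, .ofNat 1722, .negSucc 561, .negSucc 2043, .ofNat 140, .negSucc 4650⟩, ⟨.negSucc 1800, .negSucc 1053, .ofNat 662, .ofNat 1856, .ofNat 1017, .negSucc 2704⟩, .ofNat 538, .ofNat 519, .ofNat 0, .ofNat 519, .ofNat 1462, .ofNat 0, .ofNat 128, .negSucc 333, .negSucc 414, .ofNat 0, .ofNat 191, .ofNat 169, .ofNat 0, .ofNat 0, .ofNat 472, .ofNat 351, .ofNat 0, .ofNat 0, .ofNat 137014950808999817722369916305621724954624, .ofNat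 0, .ofNat 0, .ofNat 0, .ofNat 523488537712238196374901454971957327953920, .ofNat 0, .ofNat 0, .ofNat 0, .ofNat 5781606818558458843704055574284677435883520, .ofNat 0, .ofNat 0, .ofNat 0, .ofNat 2281805830607987822363081515709531603075072, .ofNat 0⟩)
    (by decide +kernel)
theorem L02213 : Good (Phi V5.P V5.D (-1) (-1)) ⟨3, 6, 3, 2, 3, 6, 3, 1, 5, 2⟩ :=
  leafX_sound T5.ok_mm T5.Ymm.bz_eq (w := 228) (c := ⟨⟨.ofNat 1244, .negSucc 635, .ofNat 619, .negSucc 1213, .ofNat 572, .negSucc 3644⟩, ⟨.negSucc 801, .ofNat 61, .negSucc 93, .ofNat 558, .negSucc 207, .ofNat 1607⟩, ⟨.negSucc 574, .ofNat 489, .negSucc 311, .ofNat 1201, .negSucc 641, .ofNat 2195⟩, ⟨.ofNat 696, .negSucc 1030, .ofNat 765, .negSucc 1587, .ofNat 1107, .negSucc 5569⟩, ⟨.negSucc 3303, .negSucc 384, .ofNat 87, .ofNat 924, .ofNat 363, .ofNat 600⟩, .ofNat 539, .ofNat 518, .ofNat 0, .ofNat 518, .ofNat 1439, .ofNat 0, .ofNat 128,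 .negSucc 430, .negSucc 637, .ofNat 0, .ofNat 248, .ofNat 278, .ofNat 0, .ofNat 0, .ofNat 607, .ofNat 607, .ofNat 0, .ofNat 0, .ofNat 1706530175566041880233062084052079381315584, .ofNat 0, .ofNat 0, .ofNat 0, .ofNat 42096024702869869789987888349693875230605312, .ofNat 0, .ofNat 0, .ofNat 0, .ofNat 334775829186579590458048610096047760594698240, .ofNat 0, .ofNat 0, .ofNat 0, .ofNat 275641719534756163279292197149310634231332864, .ofNat 0⟩)
    (by decide +kernel)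
theorem L02214 : Good (Phi V5.P V5.D (-1) (-1)) ⟨4, 12, 3, 2, 3, 6, 3, 1, 5, 3⟩ :=
  leafX_sound T5.ok_mm T5.Ymm.bz_eq (w := 233) (c := ⟨⟨.negSucc 2956, .negSucc 1583, .ofNat 767, .ofNat 42, .ofNat 489, .negSucc 973⟩, ⟨.ofNat 915, .ofNat 763, .negSucc 4, .negSucc 5, .negSucc 209, .ofNat 430⟩, ⟨.ofNat 2048, .ofNat 1213, .negSucc 643, .ofNat 381, .negSucc 577, .ofNat 676⟩, ⟨.negSucc 5530, .negSucc 2021, .ofNat 1036, .ofNat 184, .ofNat 695, .negSucc 1395⟩, ⟨.negSucc 1669, .ofNat 376, .negSucc 288, .ofNat 367, .negSucc 289, .ofNat 499⟩, .ofNat 539, .ofNat 520, .ofNat 0, .ofNat 520, .ofNat 1458, .ofNat 0, .ofNat 128, .negSucc 248, .negSucc 432, .ofNat 0, .ofNat 149, .ofNat 195, .ofNat 0, .ofNat 0, .ofNat 468, .ofNat 1755, .ofNat 0, .ofNat 0, .ofNat 0, .ofNat 0, .ofNat 0, .ofNat 0, .ofNat 8715316265903444939179074942404151956471808, .ofNat 0, .ofNat 0, .ofNat 0, .ofNat 38696294850276123155571893010112984056332288,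 .ofNat 0, .ofNat 0, .ofNat 0, .ofNat 47717483928274874678073732421252522367254528, .ofNat 0⟩)
    (by decide +kernel)
theorem L02215 : Good (Phi V5.P V5.D (-1) (-1)) ⟨4, 13, 3, 2, 3, 6, 3, 1, 5, 3⟩ :=
  leafX_sound T5.ok_mm T5.Ymm.bz_eq (w := 234) (c := ⟨⟨.negSucc 5308, .negSucc 2072, .ofNat 1304, .ofNat 363, .ofNat 781, .negSucc 989⟩, ⟨.ofNat 2081, .ofNat 1158, .negSucc 296, .negSucc 170, .negSucc 408, .ofNat 512⟩, ⟨.ofNat 3689, .ofNat 1903, .negSucc 943, .ofNat 206, .negSucc 791, .ofNat 669⟩, ⟨.negSucc 8368, .negSucc 2165, .ofNat 1582, .ofNat 532, .ofNat 927, .negSucc 1247⟩, ⟨.negSucc 662, .ofNat 1069, .negSucc 661, .negSucc 24, .negSucc 603, .ofNat 647⟩, .ofNat 847, .ofNat 1054, .ofNat 0, .ofNat 1054, .ofNat 2362, .ofNat 0, .ofNat 128, .negSucc 336, .negSucc 939, .ofNat 0, .ofNat 201, .ofNat 475, .ofNat 0, .ofNat 0, .ofNat 941, .ofNat 3064, .ofNat 0, .ofNat 0, .ofNat 3304139471048760072818362939896675442884608,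 .ofNat 0, .ofNat 0, .ofNat 0, .ofNat 66420021757372284884515678966857454657208320, .ofNat 0, .ofNat 0, .ofNat 0, .ofNat 226440693726468715623356782948208645752487936, .ofNat 0, .ofNat 0, .ofNat 0, .ofNat 224209544989063748407489963548569107917963264, .ofNat 0⟩)
    (by decide +kernel)
theorem L02216 : Good (Phi V5.P V5.D (-1) (-1)) ⟨3, 7, 3, 2, 3, 6, 3, 1, 3, 0⟩ :=
  out_sound (S := T5.ds_mm) T5.ok_mm (w := 45) (j := 3) (by decide +kernel)
theorem L02217 : Good (Phi V5.P V5.D (-1) (-1)) ⟨2, 2, 3, 2, 3, 7, 4, 0, 4, 0⟩ :=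
  leafX_sound T5.ok_mm T5.Ymm.bz_eq (w := 223) (c := ⟨⟨.ofNat 1390, .ofNat 382, .negSucc 192, .negSucc 1317, .ofNat 438, .negSucc 2978⟩, ⟨.negSucc 258, .negSucc 436, .ofNat 157, .ofNat 504, .negSucc 123, .ofNat 989⟩, ⟨.ofNat 87, .ofNat 727, .ofNat 486, .ofNat 145, .negSucc 458, .ofNat 1172⟩, ⟨.ofNat 2741, .negSucc 303, .negSucc 247, .negSucc 1506, .ofNat 976, .negSucc 5597⟩, ⟨.ofNat 332, .negSucc 2107, .ofNat 354, .ofNat 2379, .ofNat 556, .negSucc 1297⟩, .ofNat 534, .ofNat 540, .ofNat 0, .ofNat 540, .ofNat 1841, .ofNat 0, .ofNat 128, .negSucc 330, .negSucc 463, .ofNat 0, .ofNat 172, .ofNat 131, .ofNat 0, .ofNat 0, .ofNat 661, .ofNat 3187, .ofNat 0, .ofNat 0, .ofNat 14296677636603458583290783028010399578456064, .ofNat 0, .ofNat 0, .ofNat 0, .ofNat 20092370057445487197268847400346677571223552, .ofNat 0, .ofNat 0, .ofNat 0, .ofNat 126523772247738341993288399361898559808995328, .ofNat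 0, .ofNat 0, .ofNat 0, .ofNat 0, .ofNat 0⟩)
    (by decide +kernel)
theorem L02218 : Good (Phi V5.P V5.D (-1) (-1)) ⟨3, 4, 3, 2, 3, 7, 4, 0, 4, 1⟩ :=
  out_sound (S := T5.ds_mm) T5.ok_mm (w := 45) (j := 3) (by decide +kernel)
theorem L02219 : Good (Phi V5.P V5.D (-1) (-1)) ⟨3, 5, 3, 2, 3, 7, 4, 0, 4, 1⟩ :=
  leafX_sound T5.ok_mm T5.Ymm.bz_eq (w := 227) (c := ⟨⟨.negSucc 1130, .negSucc 2056, .ofNat 603, .ofNat 130, .ofNat 172, .negSucc 1164⟩, ⟨.ofNat 158, .ofNat 924, .ofNat 22, .negSucc 9, .negSucc 60, .ofNat 407⟩, ⟨.ofNat 2126, .ofNat 1250, .negSucc 272, .negSucc 1121, .negSucc 346, .ofNat 581⟩, ⟨.negSucc 3124, .negSucc 2625, .ofNat 860, .ofNat 777, .ofNat 297, .negSucc 1855⟩, ⟨.negSucc 1954, .ofNat 524, .negSucc 212, .ofNat 1707, .negSucc 8, .ofNat 571⟩, .ofNat 683, .ofNat 900, .ofNat 0, .ofNat 900, .ofNat 2902, .ofNat 0, .ofNat 128, .negSucc 255, .negSucc 237, .ofNat 0, .ofNat 129,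 .ofNat 78, .ofNat 0, .ofNat 0, .ofNat 391, .ofNat 3015, .ofNat 15351757975644854974222391306491546796805849088, .ofNat 0, .ofNat 758821576347849908249652535352018016927744, .ofNat 0, .ofNat 0, .ofNat 0, .ofNat 0, .ofNat 0, .ofNat 0, .ofNat 0, .ofNat 0, .ofNat 0, .ofNat 0, .ofNat 0, .ofNat 27522979645549929462186686701339116797165568, .ofNat 0⟩)
    (by decide +kernel)
theorem L02220 : Good (Phi V5.P V5.D (-1) (-1)) ⟨3, 6, 3, 2, 3, 7, 4, 0, 4, 0⟩ :=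
  leafX_sound T5.ok_mm T5.Ymm.bz_eq (w := 227) (c := ⟨⟨.ofNat 1961, .negSucc 113, .ofNat 515, .negSucc 1441, .ofNat 237, .negSucc 3520⟩, ⟨.negSucc 989, .negSucc 72, .negSucc 133, .ofNat 759, .negSucc 13, .ofNat 1407⟩, ⟨.ofNat 686, .ofNat 376, .ofNat 299, .negSucc 36, .negSucc 429, .ofNat 1320⟩, ⟨.ofNat 2529, .negSucc 292, .ofNat 523, .negSucc 1397, .ofNat 853, .negSucc 6234⟩, ⟨.negSucc 1329, .negSucc 621, .negSucc 697, .ofNat 2141, .ofNat 1013, .negSucc 1256⟩, .ofNat 548, .ofNat 536, .ofNat 0, .ofNat 536, .ofNat 1469, .ofNat 0, .ofNat 128, .negSucc 311, .negSucc 435, .ofNat 0, .ofNat 183, .ofNat 154, .ofNat 0, .ofNat 0, .ofNat 541, .ofNat 770, .ofNat 14677707274442930361684619462194893558990766080, .ofNat 0, .ofNat 475139806253281741217716049019471900180480, .ofNat 0, .ofNat 0, .ofNat 0, .ofNat 5756448535899693135789391444494134844325888, .ofNat 0, .ofNat 0, .ofNat 0, .ofNat 52045528621086024989216553618301324399476736,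 .ofNat 0, .ofNat 0, .ofNat 0, .ofNat 33133236033722781185428358279775372615614464, .ofNat 0⟩)
    (by decide +kernel)
theorem L02221 : Good (Phi V5.P V5.D (-1) (-1)) ⟨4, 12, 3, 2, 4, 14, 4, 0, 5, 2⟩ :=
  leafX_sound T5.ok_mm T5.Ymm.bz_eq (w := 251) (c := ⟨⟨.negSucc 2245, .negSucc 1607, .ofNat 1096, .negSucc 491, .ofNat 774, .negSucc 2362⟩, ⟨.ofNat 636, .ofNat 741, .negSucc 181, .ofNat 247, .negSucc 346, .ofNat 1067⟩, ⟨.ofNat 2863, .ofNat 1188, .negSucc 577, .ofNat 59, .negSucc 910, .ofNat 1466⟩, ⟨.negSucc 4423, .negSucc 2094, .ofNat 1432, .negSucc 520, .ofNat 1147, .negSucc 3328⟩, ⟨.negSucc 1735, .ofNat 416, .negSucc 637, .ofNat 677, .negSucc 183, .ofNat 1083⟩, .ofNat 539, .ofNat 521, .ofNat 0, .ofNat 521, .ofNat 1475, .ofNat 0, .ofNat 128, .negSucc 327, .negSucc 460, .ofNat 0, .ofNat 201, .ofNat 193, .ofNat 0, .ofNat 0, .ofNat 538, .ofNat 5229, .ofNat 0, .ofNat 0, .ofNat 0, .ofNat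 0, .ofNat 0, .ofNat 0, .ofNat 0, .ofNat 0, .ofNat 0, .ofNat 0, .ofNat 22367935617859095590196161397634920299340595462144, .ofNat 0, .ofNat 30536388785481367020796019467212401494968392950480896, .ofNat 0, .ofNat 24072739561194221798041978722329674749430800056320, .ofNat 0⟩)
    (by decide +kernel)
theorem L02222 : Good (Phi V5.P V5.D (-1) (-1)) ⟨4, 12, 3, 2, 4, 15, 4, 0, 5, 2⟩ :=
  leafX_sound T5.ok_mm T5.Ymm.bz_eq (w := 251) (c := ⟨⟨.negSucc 3002, .negSucc 1401, .ofNat 926, .negSucc 65, .ofNat 512, .negSucc 1303⟩, ⟨.ofNat 1010, .ofNat 762, .negSucc 186, .ofNat 134, .negSucc 257, .ofNat 577⟩, ⟨.ofNat 2875, .ofNat 698, .negSucc 83, .negSucc 1275, .negSucc 276, .ofNat 570⟩, ⟨.negSucc 5299, .negSucc 1716, .ofNat 1162, .ofNat 693, .ofNat 590, .negSucc 1801⟩, ⟨.negSucc 684, .ofNat 351, .negSucc 934, .ofNat 2041, .negSucc 531, .ofNat 689⟩, .ofNat 539, .ofNat 522, .ofNat 0, .ofNat 522, .ofNat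 1475, .ofNat 0, .ofNat 128, .negSucc 533, .negSucc 324, .ofNat 0, .ofNat 325, .ofNat 115, .ofNat 0, .ofNat 0, .ofNat 430, .ofNat 3903, .ofNat 0, .ofNat 0, .ofNat 0, .ofNat 0, .ofNat 0, .ofNat 0, .ofNat 0, .ofNat 0, .ofNat 0, .ofNat 0, .ofNat 32009477935371621443474408423395573780198627213312, .ofNat 0, .ofNat 0, .ofNat 0, .ofNat 8076472269131976469845950544685568856510682890240, .ofNat 0⟩)
    (by decide +kernel)
theorem L02223 : Good (Phi V5.P V5.D (-1) (-1)) ⟨5, 24, 3, 2, 3, 7, 4, 0, 5, 3⟩ :=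
  leafX_sound T5.ok_mm T5.Ymm.bz_eq (w := 241) (c := ⟨⟨.negSucc 4637, .negSucc 669, .ofNat 673, .ofNat 730, .ofNat 389, .ofNat 76⟩, ⟨.ofNat 1672, .ofNat 368, .negSucc 19, .negSucc 235, .negSucc 175, .negSucc 25⟩, ⟨.ofNat 4178, .ofNat 476, .negSucc 210, .negSucc 1971, .negSucc 459, .ofNat 138⟩, ⟨.negSucc 7470, .negSucc 858, .ofNat 782, .ofNat 1146, .ofNat 399, .ofNat 266⟩, ⟨.ofNat 535, .negSucc 15, .negSucc 749, .ofNat 41, .negSucc 611, .ofNat 293⟩, .ofNat 1052, .ofNat 1636, .ofNat 0, .ofNat 1636, .ofNat 4168, .ofNat 0, .ofNat 128, .negSucc 430, .negSucc 263, .ofNat 0, .ofNat 238, .ofNat 107, .ofNat 0, .ofNat 0, .ofNat 423, .ofNat 1718, .ofNat 0, .ofNat 0, .ofNat 593252637401753562045984365062918795952128, .ofNat 0, .ofNat 37360341419785690979342653509036358178524731801600, .ofNat 0, .ofNat 0, .ofNat 0, .ofNat 0, .ofNat 0, .ofNat 0, .ofNat 0, .ofNat 0, .ofNat 0, .ofNat 0, .ofNat 0⟩)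
    (by decide +kernel)
theorem L02224 : Good (Phi V5.P V5.D (-1) (-1)) ⟨5, 25, 3, 2, 4, 14, 4, 0, 5, 3⟩ :=
  leafX_sound T5.ok_mm T5.Ymm.bz_eq (w := 256) (c := ⟨⟨.negSucc 5825, .negSucc 929, .ofNat 1103, .ofNat 474, .ofNat 524, .ofNat 105⟩, ⟨.ofNat 2291, .ofNat 538, .negSucc 195, .negSucc 216, .negSucc 263, .negSucc 26⟩, ⟨.ofNat 5261, .ofNat 691, .negSucc 752, .negSucc 606, .negSucc 716, .negSucc 93⟩, ⟨.negSucc 9075, .negSucc 1016, .ofNat 1365, .ofNat 688, .ofNat 610, .ofNat 298⟩, ⟨.ofNat 549, .ofNat 394, .negSucc 898, .negSucc 119, .negSucc 500, .ofNat 331⟩, .ofNat 820, .ofNat 1044, .ofNat 0, .ofNat 1044, .ofNat 2505, .ofNat 0, .ofNat 128, .negSucc 412, .negSucc 709, .ofNat 0, .ofNat 256, .ofNat 333, .ofNat 0, .ofNat 0, .ofNat 945, .ofNat 7523, .ofNat 0, .ofNat 0, .ofNat 0, .ofNat 0, .ofNat 0, .ofNat 0, .ofNat 2235750881407634991430124360176244741746775293952, .ofNat 0, .ofNat 0,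 .ofNat 0, .ofNat 13513331014362728936845194479763410077880032428032, .ofNat 0, .ofNat 0, .ofNat 0, .ofNat 22192667130749073400375470867280164524548476108800, .ofNat 0⟩)
    (by decide +kernel)
theorem L02225 : Good (Phi V5.P V5.D (-1) (-1)) ⟨5, 25, 3, 2, 4, 15, 4, 0, 5, 3⟩ :=
  leafX_sound T5.ok_mm T5.Ymm.bz_eq (w := 256) (c := ⟨⟨.negSucc 5323, .negSucc 715, .ofNat 922, .ofNat 364, .ofNat 434, .ofNat 423⟩, ⟨.ofNat 2154, .ofNat 454, .negSucc 213, .negSucc 54, .negSucc 250, .negSucc 202⟩, ⟨.ofNat 3981, .ofNat 266, .negSucc 42, .negSucc 1570, .negSucc 261, .negSucc 72⟩, ⟨.negSucc 8125, .negSucc 684, .ofNat 984, .ofNat 1167, .ofNat 338, .ofNat 596⟩, ⟨.ofNat 1032, .ofNat 449, .negSucc 1256, .ofNat 1465, .negSucc 836, .negSucc 228⟩, .ofNat 682, .ofNat 776, .ofNat 0, .ofNat 776, .ofNat 1928, .ofNat 0, .ofNat 128, .negSucc 561, .negSucc 362, .ofNat 0, .ofNat 365, .ofNat 144, .ofNat 0, .ofNat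 0, .ofNat 573, .ofNat 7101, .ofNat 0, .ofNat 0, .ofNat 0, .ofNat 0, .ofNat 294088656176785683223842226759773109167341679090335744, .ofNat 0, .ofNat 5988098520244614651118295007805729590652960768, .ofNat 0, .ofNat 0, .ofNat 0, .ofNat 15375473144325993999300757665938609708294545080320, .ofNat 0, .ofNat 0, .ofNat 0, .ofNat 11436579310756230941366454322249993602921310191616, .ofNat 0⟩)
    (by decide +kernel)
theorem L02226 : Good (Phi V5.P V5.D (-1) (-1)) ⟨5, 26, 3, 2, 4, 14, 4, 0, 4, 1⟩ :=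
  leafX_sound T5.ok_mm T5.Ymm.bz_eq (w := 251) (c := ⟨⟨.negSucc 6185, .negSucc 955, .ofNat 2267, .ofNat 543, .ofNat 836, .negSucc 2046⟩, ⟨.ofNat 2517, .ofNat 552, .negSucc 802, .negSucc 249, .negSucc 427, .ofNat 1118⟩, ⟨.ofNat 5761, .ofNat 643, .negSucc 1530, .negSucc 544, .negSucc 958, .ofNat 1056⟩, ⟨.negSucc 9414, .negSucc 1091, .ofNat 2782, .ofNat 722, .ofNat 1055, .negSucc 2379⟩, ⟨.negSucc 28, .ofNat 170, .negSucc 1326, .negSucc 144, .negSucc 518, .ofNat 1886⟩, .ofNat 705, .ofNat 794, .ofNat 0, .ofNat 794, .ofNat 1843, .ofNat 0, .ofNat 128, .negSucc 373, .negSucc 511, .ofNat 0, .ofNat 245, .ofNat 251, .ofNat 0, .ofNat 0, .ofNat 614, .ofNat 4687, .ofNat 21516997918566296301274122793658513946531414874783744, .ofNat 0, .ofNat 6526319240619676040273974563748997104396140544, .ofNat 0, .ofNat 0, .ofNat 0, .ofNat 93217771427257447927913205364328429430432071680, .ofNat 0, .ofNat 0, .ofNat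 0, .ofNat 535879624431369346058623621707438952322596601856, .ofNat 0, .ofNat 0, .ofNat 0, .ofNat 384362937858367339386106602680388482311460487168, .ofNat 0⟩)
    (by decide +kernel)

end Crest.Agent.R097C5.N5mm
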