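import Crest.Agent.R097.KP7
import Crest.Agent.R097.T5Ymm

/-!
# Row 97, box cover in dimension n = 5 (generated)
-/

set_option autoImplicit false
set_option Elab.async false
set_option maxHeartbeats 0
set_option maxRecDepth 100000

open Crest.Agent.R097 Crest.Agent.R097.KA


namespace Crest.Agent.R097C5.N5mm

theorem L02227 : Good (Phi V5.P V5.D (-1) (-1)) ⟨5, 26, 3, 2, 4, 15, 4, 0, 4, 1⟩ :=
  leafX_sound T5.ok_mm T5.Ymm.bz_eq (w := 250) (c := ⟨⟨.negSucc 3218, .ofNat 134, .negSucc 927, .ofNat 324, .ofNat 413, .negSucc 908⟩, ⟨.ofNat 1103, .ofNat 21, .ofNat 753, .negSucc 40, .negSucc 232, .ofNat 523⟩, ⟨.ofNat 3271, .ofNat 15, .ofNat 580, .negSucc 1384, .negSucc 300, .ofNat 355⟩, ⟨.negSucc 5564, .ofNat 332, .negSucc 1232, .ofNat 1155, .ofNat 377, .negSucc 994⟩, ⟨.negSucc 1466, .negSucc 194, .ofNat 550, .ofNat 1469, .negSucc 608, .ofNat 1038⟩, .ofNat 703, .ofNat 790, .ofNat 0, .ofNat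 790, .ofNat 1835, .ofNat 0, .ofNat 128, .negSucc 527, .negSucc 413, .ofNat 0, .ofNat 343, .ofNat 175, .ofNat 0, .ofNat 0, .ofNat 559, .ofNat 1945, .ofNat 0, .ofNat 0, .ofNat 4490791000496020490777942253833844723405553664, .ofNat 0, .ofNat 0, .ofNat 0, .ofNat 86397214035727096582914600030078805169546461184, .ofNat 0, .ofNat 0, .ofNat 0, .ofNat 372618671282193165257445573707563988005773377536, .ofNat 0, .ofNat 0, .ofNat 0, .ofNat 118081952519636630347517472026424369399451353088, .ofNat 0⟩)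
    (by decide +kernel)
theorem L02228 : Good (Phi V5.P V5.D (-1) (-1)) ⟨5, 27, 3, 2, 3, 7, 4, 0, 4, 1⟩ :=
  out_sound (S := T5.ds_mm) T5.ok_mm (w := 57) (j := 3) (by decide +kernel)
theorem L02229 : Good (Phi V5.P V5.D (-1) (-1)) ⟨3, 7, 3, 2, 3, 7, 4, 0, 3, 0⟩ :=
  out_sound (S := T5.ds_mm) T5.ok_mm (w := 45) (j := 3) (by decide +kernel)
theorem L02230 : Good (Phi V5.P V5.D (-1) (-1)) ⟨2, 2, 3, 2, 3, 7, 4, 1, 4, 0⟩ :=
  leafX_sound T5.ok_mm T5.Ymm.bz_eq (w := 224) (c := ⟨⟨.ofNat 1899, .ofNat 213, .ofNat 449, .negSucc 1423, .ofNat 388, .negSucc 2924⟩, ⟨.negSucc 477, .negSucc 310, .negSucc 60, .ofNat 558, .negSucc 107, .ofNat 960⟩, ⟨.negSucc 19, .ofNat 206, .negSucc 141, .ofNat 576, .negSucc 438, .ofNat 1226⟩, ⟨.ofNat 3591, .negSucc 121, .ofNat 803, .negSucc 1843, .ofNat 868, .negSucc 5737⟩, ⟨.ofNat 418, .negSucc 772, .ofNat 149, .ofNat 1707, .ofNat 526, .negSucc 2065⟩, .ofNat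 534, .ofNat 540, .ofNat 0, .ofNat 540, .ofNat 1830, .ofNat 0, .ofNat 128, .negSucc 337, .negSucc 470, .ofNat 0, .ofNat 175, .ofNat 138, .ofNat 0, .ofNat 0, .ofNat 622, .ofNat 3059, .ofNat 0, .ofNat 0, .ofNat 0, .ofNat 0, .ofNat 0, .ofNat 0, .ofNat 84601731594654216714297679187442497983873024, .ofNat 0, .ofNat 0, .ofNat 0, .ofNat 116247865151278918363506278027697365605941248, .ofNat 0, .ofNat 0, .ofNat 0, .ofNat 83272140710377672780095407674514750287380480, .ofNat 0⟩)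
    (by decide +kernel)
theorem L02231 : Good (Phi V5.P V5.D (-1) (-1)) ⟨2, 2, 3, 2, 3, 7, 4, 1, 4, 1⟩ :=
  leafX_sound T5.ok_mm T5.Ymm.bz_eq (w := 223) (c := ⟨⟨.ofNat 709, .negSucc 3143, .ofNat 529, .negSucc 38, .ofNat 264, .negSucc 1490⟩, ⟨.negSucc 637, .ofNat 1441, .ofNat 33, .ofNat 56, .negSucc 88, .ofNat 525⟩, ⟨.ofNat 458, .ofNat 2079, .negSucc 162, .negSucc 756, .negSucc 381, .ofNat 833⟩, ⟨.negSucc 462, .negSucc 3983, .ofNat 683, .ofNat 411, .ofNat 443, .negSucc 2545⟩, ⟨.negSucc 1312, .negSucc 120, .negSucc 318, .ofNat 1527, .negSucc 124, .ofNat 296⟩, .ofNat 532, .ofNat 537, .ofNat 0, .ofNat 537, .ofNat 1836, .ofNat 0, .ofNat 128, .negSucc 214, .negSucc 254, .ofNat 0, .ofNat 121, .ofNat 82, .ofNat 0, .ofNat 0, .ofNat 372, .ofNat 1716, .ofNat 0, .ofNat 0, .ofNat 2829526265067783136873114547392600036343808, .ofNat 0, .ofNat 0, .ofNat 0, .ofNat 21562821682611286016455477571552130487025664,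 .ofNat 0, .ofNat 0, .ofNat 0, .ofNat 110667562064413830100541459321515234857844736, .ofNat 0, .ofNat 0, .ofNat 0, .ofNat 133255321158029755435965141802402139330314240, .ofNat 0⟩)
    (by decide +kernel)
theorem L02232 : Good (Phi V5.P V5.D (-1) (-1)) ⟨3, 6, 3, 2, 3, 7, 4, 1, 4, 0⟩ :=
  leafX_sound T5.ok_mm T5.Ymm.bz_eq (w := 227) (c := ⟨⟨.ofNat 2397, .ofNat 513, .ofNat 183, .negSucc 1568, .ofNat 371, .negSucc 3381⟩, ⟨.negSucc 998, .negSucc 398, .negSucc 20, .ofNat 718, .negSucc 87, .ofNat 1261⟩, ⟨.negSucc 15, .ofNat 127, .ofNat 221, .ofNat 506, .negSucc 417, .ofNat 1458⟩, ⟨.ofNat 3837, .ofNat 208, .ofNat 289, .negSucc 1860, .ofNat 921, .negSucc 6432⟩, ⟨.negSucc 197, .negSucc 997, .negSucc 27, .ofNat 1768, .ofNat 650, .negSucc 2322⟩, .ofNat 533, .ofNat 506, .ofNat 0, .ofNat 506, .ofNat 1426, .ofNat 0, .ofNat 128, .negSucc 353, .negSucc 475, .ofNat 0, .ofNat 206, .ofNat 165, .ofNat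 0, .ofNat 0, .ofNat 553, .ofNat 1025, .ofNat 0, .ofNat 0, .ofNat 0, .ofNat 0, .ofNat 0, .ofNat 0, .ofNat 12855267186438696933618520940461260172951552, .ofNat 0, .ofNat 0, .ofNat 0, .ofNat 65767995557524170326986909476114927798190080, .ofNat 0, .ofNat 0, .ofNat 0, .ofNat 25729345157041989518774079783419051222499328, .ofNat 0⟩)
    (by decide +kernel)
theorem L02233 : Good (Phi V5.P V5.D (-1) (-1)) ⟨4, 12, 3, 2, 3, 7, 4, 1, 5, 2⟩ :=
  leafX_sound T5.ok_mm T5.Ymm.bz_eq (w := 237) (c := ⟨⟨.negSucc 1658, .negSucc 883, .ofNat 658, .negSucc 543, .ofNat 408, .negSucc 2000⟩, ⟨.ofNat 405, .ofNat 426, .negSucc 31, .ofNat 350, .negSucc 167, .ofNat 866⟩, ⟨.ofNat 2161, .ofNat 512, .negSucc 176, .negSucc 700, .negSucc 355, .ofNat 1110⟩, ⟨.negSucc 3520, .negSucc 1205, .ofNat 888, .negSucc 78, .ofNat 694, .negSucc 3026⟩, ⟨.negSucc 1749, .negSucc 310, .negSucc 164, .ofNat 1873, .ofNat 105, .ofNat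 295⟩, .ofNat 806, .ofNat 1049, .ofNat 0, .ofNat 1049, .ofNat 2651, .ofNat 0, .ofNat 128, .negSucc 316, .negSucc 418, .ofNat 0, .ofNat 176, .ofNat 172, .ofNat 0, .ofNat 0, .ofNat 482, .ofNat 1648, .ofNat 0, .ofNat 0, .ofNat 0, .ofNat 0, .ofNat 0, .ofNat 0, .ofNat 0, .ofNat 0, .ofNat 0, .ofNat 0, .ofNat 502574239633342154210580814222258889209937920, .ofNat 0, .ofNat 0, .ofNat 0, .ofNat 707681180625649213297015499704310682798260224, .ofNat 0⟩)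
    (by decide +kernel)
theorem L02234 : Good (Phi V5.P V5.D (-1) (-1)) ⟨4, 12, 3, 2, 3, 7, 4, 1, 5, 3⟩ :=
  leafX_sound T5.ok_mm T5.Ymm.bz_eq (w := 237) (c := ⟨⟨.negSucc 4082, .negSucc 1070, .ofNat 596, .ofNat 544, .ofNat 363, .negSucc 143⟩, ⟨.ofNat 1429, .ofNat 582, .ofNat 43, .negSucc 181, .negSucc 170, .ofNat 79⟩, ⟨.ofNat 3517, .ofNat 793, .negSucc 299, .negSucc 1301, .negSucc 354, .ofNat 89⟩, ⟨.negSucc 6971, .negSucc 1286, .ofNat 783, .ofNat 1264, .ofNat 427, .negSucc 143⟩, ⟨.negSucc 457, .ofNat 1, .negSucc 480, .ofNat 974, .negSucc 429, .ofNat 207⟩, .ofNat 547, .ofNat 537, .ofNat 0, .ofNat 537, .ofNat 1489, .ofNat 0, .ofNat 128, .negSucc 433, .negSucc 464, .ofNat 0, .ofNat 282, .ofNat 189, .ofNat 0, .ofNat 0, .ofNat 619, .ofNat 1929, .ofNat 0, .ofNat 0, .ofNat 23947800071835545545870983491686014616862720, .ofNat 0, .ofNat 0, .ofNat 0, .ofNat 8499811744299131240041151804895894559522816,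 .ofNat 0, .ofNat 0, .ofNat 0, .ofNat 0, .ofNat 0, .ofNat 0, .ofNat 0, .ofNat 1111668733667875309592497595668303773104603136, .ofNat 0⟩)
    (by decide +kernel)
theorem L02235 : Good (Phi V5.P V5.D (-1) (-1)) ⟨4, 13, 4, 4, 3, 7, 4, 1, 4, 1⟩ :=
  out_sound (S := T5.ds_mm) T5.ok_mm (w := 53) (j := 3) (by decide +kernel)
theorem L02236 : Good (Phi V5.P V5.D (-1) (-1)) ⟨4, 13, 4, 5, 3, 7, 4, 1, 4, 1⟩ :=
  leafX_sound T5.ok_mm T5.Ymm.bz_eq (w := 235) (c := ⟨⟨.negSucc 3555, .negSucc 1172, .ofNat 182, .ofNat 717, .ofNat 315, .negSucc 1565⟩, ⟨.ofNat 1427, .ofNat 602, .ofNat 29, .negSucc 266, .negSucc 162, .ofNat 812⟩, ⟨.ofNat 3324, .ofNat 644, .ofNat 276, .negSucc 1404, .negSucc 365, .ofNat 659⟩, ⟨.negSucc 5933, .negSucc 1247, .ofNat 35, .ofNat 1487, .ofNat 357, .negSucc 2064⟩, ⟨.negSucc 1065, .ofNat 93, .negSucc 533, .ofNat 910, .negSucc 274, .ofNat 905⟩, .ofNat 704, .ofNat 793, .ofNat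 0, .ofNat 793, .ofNat 1842, .ofNat 0, .ofNat 128, .negSucc 297, .negSucc 405, .ofNat 0, .ofNat 191, .ofNat 184, .ofNat 0, .ofNat 0, .ofNat 482, .ofNat 1351, .ofNat 0, .ofNat 0, .ofNat 1386453150160328310558484875535259724152832, .ofNat 0, .ofNat 0, .ofNat 0, .ofNat 20468569852795790941924702237133261720518656, .ofNat 0, .ofNat 0, .ofNat 0, .ofNat 38094973629527959813176234746671005444341760, .ofNat 0, .ofNat 0, .ofNat 0, .ofNat 41508893996172930381512264437446163031916544, .ofNat 0⟩)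
    (by decide +kernel)
theorem L02237 : Good (Phi V5.P V5.D (-1) (-1)) ⟨3, 7, 3, 2, 3, 7, 4, 1, 3, 0⟩ :=
  out_sound (S := T5.ds_mm) T5.ok_mm (w := 45) (j := 3) (by decide +kernel)
theorem L02238 : Good (Phi V5.P V5.D (-1) (-1)) ⟨3, 4, 3, 2, 3, 7, 3, 1, 3, 0⟩ :=
  out_sound (S := T5.ds_mm) T5.ok_mm (w := 45) (j := 3) (by decide +kernel)
theorem L02239 : Good (Phi V5.P V5.D (-1) (-1)) ⟨3, 5, 3, 2, 3, 7, 3, 1, 4, 0⟩ :=
  leafX_sound T5.ok_mm T5.Ymm.bz_eq (w := 224) (c := ⟨⟨.ofNat 2239, .ofNat 274, .ofNat 79, .negSucc 1532, .ofNat 331, .negSucc 2440⟩, ⟨.negSucc 675, .negSucc 198, .ofNat 27, .ofNat 567, .negSucc 98, .ofNat 769⟩, ⟨.negSucc 507, .ofNat 140, .ofNat 125, .ofNat 935, .negSucc 349, .ofNat 830⟩, ⟨.ofNat 4395, .ofNat 69, .ofNat 374, .negSucc 2151, .ofNat 790, .negSucc 5126⟩, ⟨.ofNat 1194, .negSucc 689, .ofNat 362, .ofNat 1430, .ofNat 609, .negSucc 2578⟩, .ofNat 536, .ofNat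 544, .ofNat 0, .ofNat 544, .ofNat 1849, .ofNat 0, .ofNat 128, .negSucc 315, .negSucc 457, .ofNat 0, .ofNat 160, .ofNat 136, .ofNat 0, .ofNat 0, .ofNat 537, .ofNat 1264, .ofNat 0, .ofNat 0, .ofNat 0, .ofNat 0, .ofNat 0, .ofNat 0, .ofNat 1736768274642985011456919698768117098348544, .ofNat 0, .ofNat 0, .ofNat 0, .ofNat 1162536670721520508798058061301978568327168, .ofNat 0, .ofNat 0, .ofNat 0, .ofNat 0, .ofNat 0⟩)
    (by decide +kernel)
theorem L02240 : Good (Phi V5.P V5.D (-1) (-1)) ⟨3, 5, 3, 2, 3, 7, 3, 1, 4, 1⟩ :=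
  leafX_sound T5.ok_mm T5.Ymm.bz_eq (w := 222) (c := ⟨⟨.negSucc 677, .negSucc 1238, .ofNat 49, .negSucc 149, .ofNat 479, .negSucc 1539⟩, ⟨.ofNat 92, .ofNat 535, .ofNat 217, .ofNat 77, .negSucc 180, .ofNat 524⟩, ⟨.ofNat 1072, .ofNat 754, .ofNat 147, .negSucc 328, .negSucc 461, .ofNat 810⟩, ⟨.negSucc 1816, .negSucc 1712, .ofNat 125, .ofNat 139, .ofNat 708, .negSucc 2815⟩, ⟨.negSucc 1025, .negSucc 391, .ofNat 460, .ofNat 1277, .negSucc 259, .negSucc 139⟩, .ofNat 534, .ofNat 542, .ofNat 0, .ofNat 542, .ofNat 1856, .ofNat 0, .ofNat 128, .negSucc 164, .negSucc 237, .ofNat 0, .ofNat 91, .ofNat 77, .ofNat 0, .ofNat 0, .ofNat 312, .ofNat 783, .ofNat 0, .ofNat 0, .ofNat 0, .ofNat 0, .ofNat 0, .ofNat 0, .ofNat 0, .ofNat 0, .ofNat 0, .ofNat 0, .ofNat 1063963992166466149312113632836051804356608, .ofNat 0, .ofNat 0, .ofNat 0, .ofNat 489054693297816728906308691985310018437120, .ofNat 0⟩)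
    (by decide +kernel)
theorem L02241 : Good (Phi V5.P V5.D (-1) (-1)) ⟨3, 6, 3, 2, 3, 7, 3, 1, 4, 0⟩ :=
  leafX_sound T5.ok_mm T5.Ymm.bz_eq (w := 223) (c := ⟨⟨.ofNat 2617, .ofNat 761, .negSucc 14, .negSucc 1591, .ofNat 331, .negSucc 2908⟩, ⟨.negSucc 1008, .negSucc 372, .negSucc 61, .ofNat 746, .negSucc 81, .ofNat 1071⟩, ⟨.negSucc 543, .negSucc 289, .ofNat 367, .ofNat 962, .negSucc 446, .ofNat 1209⟩, ⟨.ofNat 4515, .ofNat 653, .ofNat 216, .negSucc 2015, .ofNat 932, .negSucc 5928⟩, ⟨.ofNat 771, .negSucc 791, .ofNat 361, .ofNat 1266, .ofNat 863, .negSucc 2984⟩, .ofNat 541, .ofNat 521, .ofNat 0, .ofNat 521, .ofNat 1438, .ofNat 0, .ofNat 128, .negSucc 291, .negSucc 433, .ofNat 0, .ofNat 167, .ofNat 155, .ofNat 0, .ofNat 0, .ofNat 458, .ofNat 709, .ofNat 0, .ofNat 0, .ofNat 0, .ofNat 0, .ofNat 0, .ofNat 0, .ofNat 622535625694256299128161684210408782561280, .ofNat 0, .ofNat 0, .ofNat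 0, .ofNat 2634569444330276515130371524483083216617472, .ofNat 0, .ofNat 0, .ofNat 0, .ofNat 1256767571223775540126329622036388027301888, .ofNat 0⟩)
    (by decide +kernel)
theorem L02242 : Good (Phi V5.P V5.D (-1) (-1)) ⟨4, 12, 3, 2, 3, 7, 3, 1, 5, 2⟩ :=
  leafX_sound T5.ok_mm T5.Ymm.bz_eq (w := 232) (c := ⟨⟨.negSucc 1142, .negSucc 852, .ofNat 593, .negSucc 612, .ofNat 857, .negSucc 1896⟩, ⟨.ofNat 252, .ofNat 389, .negSucc 33, .ofNat 316, .negSucc 370, .ofNat 790⟩, ⟨.ofNat 1431, .ofNat 664, .negSucc 209, .negSucc 72, .negSucc 758, .ofNat 1012⟩, ⟨.negSucc 2347, .negSucc 1144, .ofNat 791, .negSucc 547, .ofNat 1385, .negSucc 3242⟩, ⟨.negSucc 1072, .negSucc 38, .negSucc 238, .ofNat 1136, .ofNat 126, .negSucc 572⟩, .ofNat 679, .ofNat 791, .ofNat 0, .ofNat 791, .ofNat 2069, .ofNat 0, .ofNat 128, .negSucc 244, .negSucc 573, .ofNat 0, .ofNat 137, .ofNat 228, .ofNat 0, .ofNat 0, .ofNat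 592, .ofNat 743, .ofNat 0, .ofNat 0, .ofNat 0, .ofNat 0, .ofNat 0, .ofNat 0, .ofNat 0, .ofNat 0, .ofNat 0, .ofNat 0, .ofNat 5760184757274707595364479860520907769380864, .ofNat 0, .ofNat 0, .ofNat 0, .ofNat 0, .ofNat 0⟩)
    (by decide +kernel)
theorem L02243 : Good (Phi V5.P V5.D (-1) (-1)) ⟨4, 12, 3, 2, 3, 7, 3, 1, 5, 3⟩ :=
  leafX_sound T5.ok_mm T5.Ymm.bz_eq (w := 233) (c := ⟨⟨.negSucc 3593, .negSucc 791, .ofNat 503, .ofNat 380, .ofNat 594, .negSucc 227⟩, ⟨.ofNat 1234, .ofNat 395, .ofNat 64, .negSucc 118, .negSucc 265, .ofNat 104⟩, ⟨.ofNat 2974, .ofNat 542, .negSucc 222, .negSucc 760, .negSucc 595, .ofNat 6⟩, ⟨.negSucc 6291, .negSucc 1007, .ofNat 675, .ofNat 850, .ofNat 804, .negSucc 328⟩, ⟨.negSucc 1004, .negSucc 189, .negSucc 152, .ofNat 620, .negSucc 349, .ofNat 107⟩, .ofNat 807, .ofNat 1062, .ofNat 0, .ofNat 1062, .ofNat 2729, .ofNat 0, .ofNat 128, .negSucc 318, .negSucc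 460, .ofNat 0, .ofNat 181, .ofNat 186, .ofNat 0, .ofNat 0, .ofNat 569, .ofNat 951, .ofNat 0, .ofNat 0, .ofNat 861838583551714352830995898478856293580800, .ofNat 0, .ofNat 0, .ofNat 0, .ofNat 21020910927370815168667336528976326202228736, .ofNat 0, .ofNat 0, .ofNat 0, .ofNat 41855082780553730938171499122320854501818368, .ofNat 0, .ofNat 0, .ofNat 0, .ofNat 0, .ofNat 0⟩)
    (by decide +kernel)
theorem L02244 : Good (Phi V5.P V5.D (-1) (-1)) ⟨4, 13, 3, 2, 4, 14, 3, 1, 4, 1⟩ :=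
  leafX_sound T5.ok_mm T5.Ymm.bz_eq (w := 242) (c := ⟨⟨.negSucc 3163, .negSucc 1041, .ofNat 901, .ofNat 211, .ofNat 1142, .negSucc 2513⟩, ⟨.ofNat 1080, .ofNat 458, .negSucc 127, .negSucc 82, .negSucc 555, .ofNat 1215⟩, ⟨.ofNat 2835, .ofNat 644, .negSucc 504, .negSucc 153, .negSucc 1104, .ofNat 1363⟩, ⟨.negSucc 5183, .negSucc 1403, .ofNat 980, .ofNat 411, .ofNat 1591, .negSucc 3684⟩, ⟨.negSucc 946, .negSucc 427, .negSucc 600, .ofNat 203, .negSucc 357, .ofNat 467⟩, .ofNat 949, .ofNat 1242, .ofNat 0, .ofNat 1242, .ofNat 2734, .ofNat 0, .ofNat 128, .negSucc 245, .negSucc 532, .ofNat 0, .ofNat 148, .ofNat 255, .ofNat 0, .ofNat 0, .ofNat 556, .ofNat 1058, .ofNat 0, .ofNat 0, .ofNat 381929832972342567888039313881745230735081472, .ofNat 0, .ofNat 0, .ofNat 0, .ofNat 54935040333661888790763763807402053512107917312, .ofNat 0, .ofNat 0, .ofNat 0, .ofNat 23659543547030585278469793147544125507419242496,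 .ofNat 0, .ofNat 0, .ofNat 0, .ofNat 21099992254520617443521186273847886056859369472, .ofNat 0⟩)
    (by decide +kernel)
theorem L02245 : Good (Phi V5.P V5.D (-1) (-1)) ⟨4, 13, 3, 2, 4, 15, 3, 1, 4, 1⟩ :=
  leafX_sound T5.ok_mm T5.Ymm.bz_eq (w := 242) (c := ⟨⟨.negSucc 2994, .negSucc 1345, .ofNat 217, .ofNat 152, .ofNat 717, .negSucc 1162⟩, ⟨.ofNat 1068, .ofNat 654, .ofNat 155, .negSucc 31, .negSucc 370, .ofNat 559⟩, ⟨.ofNat 2695, .ofNat 669, .negSucc 161, .negSucc 491, .negSucc 579, .ofNat 437⟩, ⟨.negSucc 4830, .negSucc 1530, .ofNat 44, .ofNat 461, .ofNat 886, .negSucc 1775⟩, ⟨.negSucc 722, .ofNat 139, .negSucc 360, .ofNat 495, .negSucc 477, .ofNat 99⟩, .ofNat 950, .ofNat 1245, .ofNat 0, .ofNat 1245, .ofNat 2736, .ofNat 0, .ofNat 128, .negSucc 277, .negSucc 373, .ofNat 0, .ofNat 167, .ofNat 166, .ofNat 0, .ofNat 0, .ofNat 415, .ofNat 1249, .ofNat 0, .ofNat 0, .ofNat 234677161097714148905497001062510750848778240,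 .ofNat 0, .ofNat 0, .ofNat 0, .ofNat 42803610280969237300031952610124124664941772800, .ofNat 0, .ofNat 0, .ofNat 0, .ofNat 47395376325799943540194397279231632350229037056, .ofNat 0, .ofNat 0, .ofNat 0, .ofNat 8206874164651341067641747805592684097586593792, .ofNat 0⟩)
    (by decide +kernel)
theorem L02246 : Good (Phi V5.P V5.D (-1) (-1)) ⟨3, 7, 3, 2, 3, 7, 3, 1, 3, 0⟩ :=
  out_sound (S := T5.ds_mm) T5.ok_mm (w := 45) (j := 3) (by decide +kernel)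
theorem L02247 : Good (Phi V5.P V5.D (-1) (-1)) ⟨2, 2, 3, 2, 2, 3, 2, 1, 4, 0⟩ :=
  leafX_sound T5.ok_mm T5.Ymm.bz_eq (w := 201) (c := ⟨⟨.ofNat 1882, .ofNat 2045, .negSucc 99, .negSucc 1950, .negSucc 464, .negSucc 2112⟩, ⟨.negSucc 387, .negSucc 999, .negSucc 68, .ofNat 757, .ofNat 172, .ofNat 662⟩, ⟨.negSucc 1022, .negSucc 993, .ofNat 174, .ofNat 1996, .negSucc 20, .ofNat 804⟩, ⟨.ofNat 3993, .ofNat 2600, .negSucc 41, .negSucc 2545, .negSucc 709, .negSucc 4492⟩, ⟨.ofNat 221, .negSucc 423, .ofNat 488, .ofNat 2350, .ofNat 162, .negSucc 2462⟩, .ofNat 535, .ofNat 543, .ofNat 0, .ofNat 543, .ofNat 1843, .ofNat 0, .ofNat 128, .negSucc 187, .negSucc 233, .ofNat 0, .ofNat 94, .ofNat 74, .ofNat 0, .ofNat 0, .ofNat 245, .ofNat 272, .ofNat 0, .ofNat 0, .ofNat 654561149611434037539110449015947264, .ofNat 0, .ofNat 0, .ofNat 0, .ofNat 4499663809141069889979104135718371328, .ofNat 0, .ofNat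 0, .ofNat 0, .ofNat 5777929767924305429531178782393630720, .ofNat 0, .ofNat 0, .ofNat 0, .ofNat 12164898743106027167201002720610746368, .ofNat 0⟩)
    (by decide +kernel)
theorem L02248 : Good (Phi V5.P V5.D (-1) (-1)) ⟨4, 12, 3, 2, 3, 6, 2, 1, 4, 0⟩ :=
  leafX_sound T5.ok_mm T5.Ymm.bz_eq (w := 223) (c := ⟨⟨.ofNat 4120, .ofNat 871, .negSucc 523, .negSucc 930, .negSucc 549, .negSucc 1853⟩, ⟨.negSucc 1590, .negSucc 527, .ofNat 83, .ofNat 462, .ofNat 269, .ofNat 637⟩, ⟨.negSucc 2265, .negSucc 615, .ofNat 545, .ofNat 1075, .negSucc 72, .ofNat 774⟩, ⟨.ofNat 6478, .ofNat 1078, .negSucc 683, .negSucc 799, .negSucc 696, .negSucc 4036⟩, ⟨.negSucc 796, .negSucc 1, .ofNat 558, .ofNat 1633, .ofNat 389, .negSucc 2307⟩, .ofNat 536, .ofNat 515, .ofNat 0, .ofNat 515, .ofNat 1451, .ofNat 0, .ofNat 128, .negSucc 199, .negSucc 459, .ofNat 0, .ofNat 115, .ofNat 180, .ofNat 0, .ofNat 0, .ofNat 441,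 .ofNat 483, .ofNat 0, .ofNat 0, .ofNat 1710830645428801837124971556177537138688, .ofNat 0, .ofNat 0, .ofNat 0, .ofNat 0, .ofNat 0, .ofNat 0, .ofNat 0, .ofNat 35704521780382980419032392509760536051712, .ofNat 0, .ofNat 0, .ofNat 0, .ofNat 15149517575355097321693305727902168383488, .ofNat 0⟩)
    (by decide +kernel)
theorem L02249 : Good (Phi V5.P V5.D (-1) (-1)) ⟨4, 12, 3, 2, 3, 7, 2, 1, 4, 0⟩ :=
  leafX_sound T5.ok_mm T5.Ymm.bz_eq (w := 223) (c := ⟨⟨.ofNat 2859, .ofNat 379, .negSucc 23, .negSucc 1549, .negSucc 79, .negSucc 2319⟩, ⟨.negSucc 1077, .negSucc 151, .negSucc 54, .ofNat 674, .ofNat 63, .ofNat 821⟩, ⟨.negSucc 982, .negSucc 156, .ofNat 234, .ofNat 1315, .negSucc 260, .ofNat 862⟩, ⟨.ofNat 5295, .ofNat 526, .ofNat 215, .negSucc 2262, .negSucc 214, .negSucc 4927⟩, ⟨.ofNat 1514, .ofNat 37, .ofNat 558, .ofNat 566, .negSucc 164, .negSucc 2771⟩, .ofNat 540, .ofNat 521, .ofNat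 0, .ofNat 521, .ofNat 1441, .ofNat 0, .ofNat 128, .negSucc 185, .negSucc 348, .ofNat 0, .ofNat 101, .ofNat 123, .ofNat 0, .ofNat 0, .ofNat 304, .ofNat 486, .ofNat 0, .ofNat 0, .ofNat 0, .ofNat 0, .ofNat 0, .ofNat 0, .ofNat 9095566774257668233639212416279326490624, .ofNat 0, .ofNat 0, .ofNat 0, .ofNat 7203623968155119895681529141843852263424, .ofNat 0, .ofNat 0, .ofNat 0, .ofNat 9724916854924732983711666583292402991104, .ofNat 0⟩)
    (by decide +kernel)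
theorem L02250 : Good (Phi V5.P V5.D (-1) (-1)) ⟨4, 13, 3, 2, 2, 3, 2, 1, 4, 0⟩ :=
  leafX_sound T5.ok_mm T5.Ymm.bz_eq (w := 210) (c := ⟨⟨.ofNat 3981, .ofNat 1590, .ofNat 713, .negSucc 2988, .negSucc 510, .negSucc 1788⟩, ⟨.negSucc 1721, .negSucc 882, .negSucc 489, .ofNat 1592, .ofNat 268, .ofNat 663⟩, ⟨.negSucc 2560, .negSucc 632, .ofNat 129, .ofNat 2946, .negSucc 144, .ofNat 628⟩, ⟨.ofNat 5836, .ofNat 1781, .ofNat 1406, .negSucc 3388, .negSucc 607, .negSucc 4012⟩, ⟨.negSucc 681, .negSucc 848, .ofNat 635, .ofNat 2649, .ofNat 371, .negSucc 2616⟩, .ofNat 707, .ofNat 798, .ofNat 0, .ofNat 798, .ofNat 1853, .ofNat 0, .ofNat 128, .negSucc 186, .negSucc 388, .ofNat 0, .ofNat 106, .ofNat 170, .ofNat 0, .ofNat 0, .ofNat 363, .ofNat 339, .ofNat 0, .ofNat 0, .ofNat 118235076514175758446236743877263360, .ofNat 0, .ofNat 0, .ofNat 0, .ofNat 1321345526556247858172552332208766976, .ofNat 0,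 .ofNat 0, .ofNat 0, .ofNat 2253725322454278613005371663349448704, .ofNat 0, .ofNat 0, .ofNat 0, .ofNat 2240966880883184066216169524418314240, .ofNat 0⟩)
    (by decide +kernel)
theorem L02251 : Good (Phi V5.P V5.D (-1) (-1)) ⟨3, 7, 3, 2, 2, 3, 2, 1, 4, 0⟩ :=
  out_sound (S := T5.ds_mm) T5.ok_mm (w := 45) (j := 3) (by decide +kernel)
theorem L02252 : Good (Phi V5.P V5.D (-1) (-1)) ⟨2, 2, 3, 2, 2, 3, 2, 1, 5, 2⟩ :=
  leafX_sound T5.ok_mm T5.Ymm.bz_eq (w := 205) (c := ⟨⟨.ofNat 423, .negSucc 330, .negSucc 152, .negSucc 846, .ofNat 218, .negSucc 1368⟩, ⟨.negSucc 127, .ofNat 20, .ofNat 261, .ofNat 323, .negSucc 79, .ofNat 446⟩, ⟨.negSucc 314, .ofNat 431, .negSucc 3, .ofNat 785, .negSucc 311, .ofNat 641⟩, ⟨.ofNat 265, .negSucc 653, .negSucc 131, .negSucc 1070, .ofNat 345, .negSucc 2575⟩, ⟨.negSucc 478, .negSucc 1382, .ofNat 542, .ofNat 1075, .ofNat 29, .negSucc 527⟩, .ofNat 532, .ofNat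 534, .ofNat 0, .ofNat 534, .ofNat 1822, .ofNat 0, .ofNat 128, .negSucc 187, .negSucc 524, .ofNat 0, .ofNat 96, .ofNat 171, .ofNat 0, .ofNat 0, .ofNat 526, .ofNat 308, .ofNat 0, .ofNat 0, .ofNat 10908993238849056624082707886320386048, .ofNat 0, .ofNat 0, .ofNat 0, .ofNat 561046675341522223252427801953661091840, .ofNat 0, .ofNat 0, .ofNat 0, .ofNat 812141709039630100739983551642640318464, .ofNat 0, .ofNat 0, .ofNat 0, .ofNat 0, .ofNat 0⟩)
    (by decide +kernel)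
theorem L02253 : Good (Phi V5.P V5.D (-1) (-1)) ⟨3, 6, 3, 2, 3, 6, 2, 1, 5, 2⟩ :=
  leafX_sound T5.ok_mm T5.Ymm.bz_eq (w := 224) (c := ⟨⟨.ofNat 679, .negSucc 389, .ofNat 475, .negSucc 78, .ofNat 364, .negSucc 3012⟩, ⟨.negSucc 461, .negSucc 88, .ofNat 5, .ofNat 36, .negSucc 140, .ofNat 1269⟩, ⟨.negSucc 436, .ofNat 279, .negSucc 231, .ofNat 292, .negSucc 475, .ofNat 1902⟩, ⟨.ofNat 376, .negSucc 708, .ofNat 699, .ofNat 53, .ofNat 675, .negSucc 5036⟩, ⟨.negSucc 1938, .ofNat 21, .ofNat 59, .ofNat 375, .ofNat 442, .negSucc 512⟩, .ofNat 509, .ofNat 443, .ofNat 0, .ofNat 443, .ofNat 1173, .ofNat 0, .ofNat 128, .negSucc 231, .negSucc 820, .ofNat 0, .ofNat 144, .ofNat 357, .ofNat 0, .ofNat 0, .ofNat 649, .ofNat 416, .ofNat 0, .ofNat 0, .ofNat 52029501583046336819617825606013751918592, .ofNat 0, .ofNat 0, .ofNat 0, .ofNat 931576486497465099807526220519513884983296, .ofNat 0, .ofNat 0, .ofNat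 0, .ofNat 7174752389391504984061125610303565051461632, .ofNat 0, .ofNat 0, .ofNat 0, .ofNat 13818553528670477764961524161614535796457472, .ofNat 0⟩)
    (by decide +kernel)
theorem L02254 : Good (Phi V5.P V5.D (-1) (-1)) ⟨4, 12, 3, 2, 3, 7, 2, 1, 5, 2⟩ :=
  leafX_sound T5.ok_mm T5.Ymm.bz_eq (w := 228) (c := ⟨⟨.negSucc 544, .negSucc 288, .ofNat 316, .negSucc 760, .ofNat 589, .negSucc 1487⟩, ⟨.ofNat 56, .ofNat 91, .ofNat 61, .ofNat 362, .negSucc 253, .ofNat 594⟩, ⟨.ofNat 730, .ofNat 190, .negSucc 84, .ofNat 438, .negSucc 563, .ofNat 689⟩, ⟨.negSucc 1213, .negSucc 477, .ofNat 568, .negSucc 979, .ofNat 881, .negSucc 2792⟩, ⟨.negSucc 780, .negSucc 372, .ofNat 333, .ofNat 574, .negSucc 94, .negSucc 981⟩, .ofNat 680, .ofNat 792, .ofNat 0, .ofNat 792, .ofNat 2066, .ofNat 0, .ofNat 128, .negSucc 265, .negSucc 556, .ofNat 0, .ofNat 142, .ofNat 217, .ofNat 0, .ofNat 0, .ofNat 501, .ofNat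 736, .ofNat 0, .ofNat 0, .ofNat 0, .ofNat 0, .ofNat 0, .ofNat 0, .ofNat 719316713163802324011528432141221979226112, .ofNat 0, .ofNat 0, .ofNat 0, .ofNat 780213622537884012234168630975413843132416, .ofNat 0, .ofNat 0, .ofNat 0, .ofNat 1176476568762125167697703426316909286522880, .ofNat 0⟩)
    (by decide +kernel)
theorem L02255 : Good (Phi V5.P V5.D (-1) (-1)) ⟨4, 13, 3, 2, 3, 7, 2, 1, 5, 2⟩ :=
  leafX_sound T5.ok_mm T5.Ymm.bz_eq (w := 228) (c := ⟨⟨.negSucc 745, .ofNat 334, .ofNat 130, .negSucc 713, .ofNat 691, .negSucc 1586⟩, ⟨.ofNat 75, .negSucc 266, .ofNat 162, .ofNat 367, .negSucc 321, .ofNat 668⟩, ⟨.ofNat 918, .ofNat 79, .ofNat 67, .ofNat 445, .negSucc 664, .ofNat 651⟩, ⟨.negSucc 1484, .ofNat 246, .ofNat 188, .negSucc 936, .ofNat 1005, .negSucc 2897⟩, ⟨.negSucc 883, .negSucc 732, .ofNat 87, .ofNat 383, .negSucc 102, .negSucc 926⟩, .ofNat 704, .ofNat 792, .ofNat 0, .ofNat 792,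 .ofNat 1842, .ofNat 0, .ofNat 128, .negSucc 303, .negSucc 735, .ofNat 0, .ofNat 172, .ofNat 315, .ofNat 0, .ofNat 0, .ofNat 621, .ofNat 1096, .ofNat 0, .ofNat 0, .ofNat 0, .ofNat 0, .ofNat 0, .ofNat 0, .ofNat 1257667094937403096102171156670419623215104, .ofNat 0, .ofNat 0, .ofNat 0, .ofNat 4535130345436097704167063297107935778308096, .ofNat 0, .ofNat 0, .ofNat 0, .ofNat 6925024678044461834985496136808945365811200, .ofNat 0⟩)
    (by decide +kernel)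
theorem L02256 : Good (Phi V5.P V5.D (-1) (-1)) ⟨3, 7, 3, 2, 2, 3, 2, 1, 5, 2⟩ :=
  out_sound (S := T5.ds_mm) T5.ok_mm (w := 45) (j := 3) (by decide +kernel)
theorem L02257 : Good (Phi V5.P V5.D (-1) (-1)) ⟨3, 4, 3, 2, 2, 3, 2, 1, 5, 3⟩ :=
  out_sound (S := T5.ds_mm) T5.ok_mm (w := 45) (j := 3) (by decide +kernel)
theorem L02258 : Good (Phi V5.P V5.D (-1) (-1)) ⟨4, 10, 3, 2, 2, 3, 2, 1, 5, 3⟩ :=
  out_sound (S := T5.ds_mm) T5.ok_mm (w := 51) (j := 3) (by decide +kernel)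
theorem L02259 : Good (Phi V5.P V5.D (-1) (-1)) ⟨4, 11, 3, 2, 3, 6, 2, 1, 5, 3⟩ :=
  leafX_sound T5.ok_mm T5.Ymm.bz_eq (w := 228) (c := ⟨⟨.negSucc 1992, .negSucc 573, .ofNat 52, .ofNat 343, .ofNat 521, .negSucc 872⟩, ⟨.ofNat 596, .ofNat 221, .ofNat 237, .negSucc 119, .negSucc 181, .ofNat 302⟩, ⟨.ofNat 1285, .ofNat 399, .ofNat 36, .negSucc 115, .negSucc 550, .ofNat 536⟩, ⟨.negSucc 4081, .negSucc 789, .ofNat 32, .ofNat 592, .ofNat 888, .negSucc 1437⟩, ⟨.negSucc 1664, .negSucc 148, .ofNat 223, .ofNat 40, .ofNat 45, .ofNat 239⟩, .ofNat 595, .ofNat 697, .ofNat 0, .ofNat 697, .ofNat 2226, .ofNat 0, .ofNat 128, .negSucc 192, .negSucc 661, .ofNat 0, .ofNat 93, .ofNat 238, .ofNat 0, .ofNat 0, .ofNat 736, .ofNat 1000, .ofNat 0, .ofNat 0, .ofNat 0, .ofNat 0, .ofNat 0, .ofNat 0, .ofNat 0, .ofNat 0, .ofNat 0, .ofNat 0, .ofNat 1575370450989486584373863118986040391499776, .ofNat 0, .ofNat 0,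 .ofNat 0, .ofNat 0, .ofNat 0⟩)
    (by decide +kernel)
theorem L02260 : Good (Phi V5.P V5.D (-1) (-1)) ⟨4, 11, 3, 2, 3, 7, 2, 1, 5, 3⟩ :=
  leafX_sound T5.ok_mm T5.Ymm.bz_eq (w := 228) (c := ⟨⟨.negSucc 2151, .negSucc 493, .ofNat 614, .ofNat 30, .ofNat 752, .negSucc 378⟩, ⟨.ofNat 659, .ofNat 205, .ofNat 2, .ofNat 0, .negSucc 267, .ofNat 122⟩, ⟨.ofNat 1560, .ofNat 367, .negSucc 311, .negSucc 197, .negSucc 676, .ofNat 151⟩, ⟨.negSucc 4174, .negSucc 682, .ofNat 876, .ofNat 226, .ofNat 1143, .negSucc 729⟩, ⟨.negSucc 1136, .negSucc 210, .negSucc 145, .ofNat 575, .negSucc 419, .negSucc 156⟩, .ofNat 537, .ofNat 549, .ofNat 0, .ofNat 549, .ofNat 1870, .ofNat 0, .ofNat 128, .negSucc 235, .negSucc 373, .ofNat 0, .ofNat 129, .ofNat 120, .ofNat 0, .ofNat 0, .ofNat 442, .ofNat 1666, .ofNat 0, .ofNat 0, .ofNat 0, .ofNat 0, .ofNat 0, .ofNat 0, .ofNat 133657887805594864545311976771348445790208,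 .ofNat 0, .ofNat 0, .ofNat 0, .ofNat 2003715417816472015401834987540012601442304, .ofNat 0, .ofNat 0, .ofNat 0, .ofNat 406465847914806031760617712823890387927040, .ofNat 0⟩)
    (by decide +kernel)
theorem L02261 : Good (Phi V5.P V5.D (-1) (-1)) ⟨4, 12, 3, 2, 3, 6, 2, 1, 5, 3⟩ :=
  leafX_sound T5.ok_mm T5.Ymm.bz_eq (w := 229) (c := ⟨⟨.negSucc 3043, .negSucc 963, .ofNat 597, .ofNat 598, .ofNat 876, .negSucc 931⟩, ⟨.ofNat 1010, .ofNat 424, .ofNat 57, .negSucc 259, .negSucc 386, .ofNat 398⟩, ⟨.ofNat 2085, .ofNat 659, .negSucc 401, .negSucc 273, .negSucc 863, .ofNat 560⟩, ⟨.negSucc 5538, .negSucc 1264, .ofNat 826, .ofNat 921, .ofNat 1289, .negSucc 1427⟩, ⟨.negSucc 1500, .negSucc 7, .negSucc 101, .negSucc 61, .negSucc 174, .ofNat 222⟩, .ofNat 540, .ofNat 521, .ofNat 0, .ofNat 521, .ofNat 1461, .ofNat 0, .ofNat 128, .negSucc 203, .negSucc 663, .ofNat 0, .ofNat 120, .ofNat 279, .ofNat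 0, .ofNat 0, .ofNat 639, .ofNat 925, .ofNat 0, .ofNat 0, .ofNat 0, .ofNat 0, .ofNat 0, .ofNat 0, .ofNat 128839358660954279049046380960490813652992, .ofNat 0, .ofNat 0, .ofNat 0, .ofNat 253161477943691891663668076643907549528064, .ofNat 0, .ofNat 0, .ofNat 0, .ofNat 3116548950184324180529310426738799839019008, .ofNat 0⟩)
    (by decide +kernel)
theorem L02262 : Good (Phi V5.P V5.D (-1) (-1)) ⟨4, 12, 3, 2, 3, 7, 3, 2, 5, 3⟩ :=
  leafX_sound T5.ok_mm T5.Ymm.bz_eq (w := 233) (c := ⟨⟨.negSucc 2833, .negSucc 621, .ofNat 419, .ofNat 248, .ofNat 498, .negSucc 290⟩, ⟨.ofNat 929, .ofNat 279, .ofNat 101, .negSucc 67, .negSucc 216, .ofNat 109⟩, ⟨.ofNat 2091, .ofNat 420, .negSucc 209, .negSucc 388, .negSucc 460, .ofNat 91⟩, ⟨.negSucc 5091, .negSucc 876, .ofNat 579, .ofNat 547, .ofNat 685, .negSucc 538⟩, ⟨.negSucc 1158, .negSucc 320, .negSucc 29, .ofNat 383, .negSucc 268, .negSucc 131⟩, .ofNat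 801, .ofNat 1037, .ofNat 0, .ofNat 1037, .ofNat 2625, .ofNat 0, .ofNat 128, .negSucc 289, .negSucc 569, .ofNat 0, .ofNat 163, .ofNat 231, .ofNat 0, .ofNat 0, .ofNat 632, .ofNat 1197, .ofNat 0, .ofNat 0, .ofNat 0, .ofNat 0, .ofNat 0, .ofNat 0, .ofNat 8432733139031989960748817726347811743596544, .ofNat 0, .ofNat 0, .ofNat 0, .ofNat 0, .ofNat 0, .ofNat 0, .ofNat 0, .ofNat 0, .ofNat 0⟩)
    (by decide +kernel)
theorem L02263 : Good (Phi V5.P V5.D (-1) (-1)) ⟨4, 12, 3, 2, 3, 7, 3, 3, 5, 3⟩ :=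
  leafX_sound T5.ok_mm T5.Ymm.bz_eq (w := 233) (c := ⟨⟨.negSucc 2376, .negSucc 482, .ofNat 386, .ofNat 320, .ofNat 434, .negSucc 247⟩, ⟨.ofNat 758, .ofNat 181, .ofNat 100, .negSucc 105, .negSucc 183, .ofNat 85⟩, ⟨.ofNat 1615, .ofNat 285, .negSucc 175, .negSucc 266, .negSucc 352, .ofNat 8⟩, ⟨.negSucc 4414, .negSucc 741, .ofNat 551, .ofNat 655, .ofNat 628, .negSucc 496⟩, ⟨.negSucc 1447, .negSucc 298, .ofNat 40, .ofNat 423, .negSucc 164, .negSucc 200⟩, .ofNat 671, .ofNat 777, .ofNat 0, .ofNat 777, .ofNat 2054, .ofNat 0, .ofNat 128, .negSucc 292, .negSucc 513, .ofNat 0, .ofNat 164, .ofNat 201, .ofNat 0, .ofNat 0, .ofNat 525, .ofNat 1987, .ofNat 0, .ofNat 0, .ofNat 0, .ofNat 0, .ofNat 0, .ofNat 0, .ofNat 11900006351494827991057677114287733474328576, .ofNat 0, .ofNat 0, .ofNat 0, .ofNat 22602975160002986397470521925730503028113408, .ofNat 0, .ofNat 0, .ofNat 0, .ofNat 52575618913800992005329278172148491035344896,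 .ofNat 0⟩)
    (by decide +kernel)
theorem L02264 : Good (Phi V5.P V5.D (-1) (-1)) ⟨5, 26, 3, 2, 3, 6, 2, 1, 5, 3⟩ :=
  leafX_sound T5.ok_mm T5.Ymm.bz_eq (w := 234) (c := ⟨⟨.negSucc 4643, .ofNat 188, .ofNat 726, .ofNat 1135, .ofNat 952, .negSucc 959⟩, ⟨.ofNat 1780, .negSucc 82, .negSucc 27, .negSucc 564, .negSucc 468, .ofNat 464⟩, ⟨.ofNat 3080, .negSucc 357, .negSucc 350, .negSucc 681, .negSucc 871, .ofNat 553⟩, ⟨.negSucc 7587, .ofNat 376, .ofNat 968, .ofNat 1539, .ofNat 1295, .negSucc 1391⟩, ⟨.negSucc 1134, .negSucc 72, .negSucc 128, .negSucc 435, .negSucc 344, .ofNat 205⟩, .ofNat 747, .ofNat 826, .ofNat 0, .ofNat 826, .ofNat 1871, .ofNat 0, .ofNat 128, .negSucc 229, .negSucc 1037, .ofNat 0, .ofNat 147, .ofNat 503, .ofNat 0, .ofNat 0, .ofNat 890, .ofNat 936, .ofNat 0, .ofNat 0, .ofNat 9391119131059076639129441842630024495104, .ofNat 0, .ofNat 0, .ofNat 0, .ofNat 705094186295321430463786679713086090248192,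 .ofNat 0, .ofNat 0, .ofNat 0, .ofNat 830455347236987950864835089738422751854592, .ofNat 0, .ofNat 0, .ofNat 0, .ofNat 1822313062677693857819239254166854141214720, .ofNat 0⟩)
    (by decide +kernel)
theorem L02265 : Good (Phi V5.P V5.D (-1) (-1)) ⟨5, 26, 3, 2, 3, 7, 2, 1, 5, 3⟩ :=
  leafX_sound T5.ok_mm T5.Ymm.bz_eq (w := 233) (c := ⟨⟨.negSucc 3133, .ofNat 231, .negSucc 129, .ofNat 429, .ofNat 1124, .negSucc 284⟩, ⟨.ofNat 1076, .negSucc 123, .ofNat 349, .negSucc 178, .negSucc 544, .ofNat 128⟩, ⟨.ofNat 2322, .negSucc 18, .ofNat 94, .negSucc 349, .negSucc 995, .ofNat 33⟩, ⟨.negSucc 5533, .ofNat 389, .negSucc 194, .ofNat 787, .ofNat 1601, .negSucc 490⟩, ⟨.negSucc 1698, .negSucc 148, .ofNat 205, .ofNat 277, .negSucc 275, .negSucc 97⟩, .ofNat 956, .ofNat 1256, .ofNat 0, .ofNat 1256, .ofNat 2757, .ofNat 0, .ofNat 128, .negSucc 379, .negSucc 676, .ofNat 0, .ofNat 221, .ofNat 309, .ofNat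 0, .ofNat 0, .ofNat 668, .ofNat 1642, .ofNat 0, .ofNat 0, .ofNat 2020194555761363156852393608487712587776, .ofNat 0, .ofNat 0, .ofNat 0, .ofNat 958850569556470420475787494650237809590272, .ofNat 0, .ofNat 0, .ofNat 0, .ofNat 8544742809430403912472884825986048121110528, .ofNat 0, .ofNat 0, .ofNat 0, .ofNat 2274789165462883142383648555610520896405504, .ofNat 0⟩)
    (by decide +kernel)
theorem L02266 : Good (Phi V5.P V5.D (-1) (-1)) ⟨5, 27, 3, 2, 2, 3, 2, 1, 5, 3⟩ :=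
  out_sound (S := T5.ds_mm) T5.ok_mm (w := 57) (j := 3) (by decide +kernel)
theorem L02267 : Good (Phi V5.P V5.D (-1) (-1)) ⟨3, 7, 3, 2, 2, 3, 2, 1, 5, 3⟩ :=
  out_sound (S := T5.ds_mm) T5.ok_mm (w := 45) (j := 3) (by decide +kernel)
theorem L02268 : Good (Phi V5.P V5.D (-1) (-1)) ⟨3, 4, 3, 2, 3, 6, 4, 0, 4, 2⟩ :=
  out_sound (S := T5.ds_mm) T5.ok_mm (w := 45) (j := 3) (by decide +kernel)
theorem L02269 : Good (Phi V5.P V5.D (-1) (-1)) ⟨4, 10, 3, 2, 3, 6, 4, 0, 4, 2⟩ :=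
  out_sound (S := T5.ds_mm) T5.ok_mm (w := 51) (j := 3) (by decide +kernel)
theorem L02270 : Good (Phi V5.P V5.D (-1) (-1)) ⟨4, 11, 3, 2, 3, 6, 5, 0, 5, 4⟩ :=
  leafX_sound T5.ok_mm T5.Ymm.bz_eq (w := 244) (c := ⟨⟨.negSucc 3178, .negSucc 856, .ofNat 457, .negSucc 90, .negSucc 35, .ofNat 276⟩, ⟨.ofNat 949, .ofNat 422, .ofNat 134, .ofNat 48, .ofNat 15, .negSucc 99⟩, ⟨.ofNat 2427, .ofNat 794, .negSucc 517, .ofNat 714, .negSucc 69, .negSucc 183⟩, ⟨.negSucc 6144, .negSucc 922, .ofNat 618, .ofNat 36, .negSucc 54, .ofNat 441⟩, ⟨.negSucc 1351, .ofNat 401, .negSucc 255, .ofNat 561, .negSucc 15, .negSucc 61⟩, .ofNat 595, .ofNat 697, .ofNat 0, .ofNat 697, .ofNat 2226, .ofNat 0, .ofNat 128, .negSucc 228, .negSucc 215, .ofNat 0, .ofNat 124, .ofNat 87, .ofNat 0, .ofNat 0, .ofNat 488, .ofNat 56228, .ofNat 733525374753210211144229832944916068330384243294208, .ofNat 0, .ofNat 0, .ofNat 0, .ofNat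 0, .ofNat 0, .ofNat 3724662481657576401735271324913213361813979136, .ofNat 0, .ofNat 166618378956897400983460502572591897226282249748480, .ofNat 0, .ofNat 7463649417514745983355417657128121564879912960, .ofNat 0, .ofNat 1093443018141325362820123797861470979876319729287168, .ofNat 0, .ofNat 5381925370545007496935928962140841270589784064, .ofNat 0⟩)
    (by decide +kernel)
theorem L02271 : Good (Phi V5.P V5.D (-1) (-1)) ⟨4, 11, 3, 2, 3, 6, 5, 1, 5, 4⟩ :=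
  leafX_sound T5.ok_mm T5.Ymm.bz_eq (w := 242) (c := ⟨⟨.negSucc 3259, .negSucc 753, .ofNat 300, .ofNat 42, .ofNat 48, .ofNat 169⟩, ⟨.ofNat 985, .ofNat 372, .ofNat 206, .negSucc 4, .negSucc 16, .negSucc 56⟩, ⟨.ofNat 2426, .ofNat 683, .negSucc 381, .ofNat 528, .negSucc 169, .negSucc 41⟩, ⟨.negSucc 6244, .negSucc 798, .ofNat 410, .ofNat 202, .ofNat 69, .ofNat 292⟩, ⟨.negSucc 1280, .ofNat 301, .negSucc 148, .ofNat 394, .negSucc 44, .ofNat 31⟩, .ofNat 535, .ofNat 543, .ofNat 0, .ofNat 543, .ofNat 1859, .ofNat 0, .ofNat 128, .negSucc 207, .negSucc 316, .ofNat 0, .ofNat 121, .ofNat 124, .ofNat 0, .ofNat 0, .ofNat 657, .ofNat 20554, .ofNat 82448967646338107758236058112163760818234186530816, .ofNat 0, .ofNat 99788489575887355907850040241647262967529472, .ofNat 0, .ofNat 0, .ofNat 0, .ofNat 0, .ofNat 0, .ofNat 0, .ofNat 0, .ofNat 0, .ofNat 0, .ofNat 0, .ofNat 0, .ofNat 0, .ofNat 0⟩)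
    (by decide +kernel)
theorem L02272 : Good (Phi V5.P V5.D (-1) (-1)) ⟨4, 11, 3, 2, 3, 6, 4, 0, 5, 5⟩ :=
  leafX_sound T5.ok_mm T5.Ymm.bz_eq (w := 239) (c := ⟨⟨.negSucc 3355, .negSucc 499, .ofNat 172, .ofNat 322, .ofNat 71, .ofNat 408⟩, ⟨.ofNat 1039, .ofNat 269, .ofNat 229, .negSucc 111, .negSucc 29, .negSucc 144⟩, ⟨.ofNat 2833, .ofNat 513, .negSucc 313, .ofNat 76, .negSucc 336, .negSucc 265⟩, ⟨.negSucc 6278, .negSucc 457, .ofNat 207, .ofNat 559, .ofNat 85, .ofNat 637⟩, ⟨.negSucc 1005, .ofNat 149, .negSucc 53, .ofNat 54, .negSucc 83, .negSucc 185⟩, .ofNat 328, .ofNat 167, .ofNat 0, .ofNat 167, .ofNat 728, .ofNat 0, .ofNat 128, .negSucc 139, .negSucc 269, .ofNat 0, .ofNat 125, .ofNat 123, .ofNat 0, .ofNat 0, .ofNat 645, .ofNat 40021, .ofNat 27220425034128819532681210063101521069207394975744, .ofNat 0, .ofNat 23795490596777534136450058700073128115044352, .ofNat 0, .ofNat 0, .ofNat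 0, .ofNat 471498355040202299420459556157162494185439232, .ofNat 0, .ofNat 0, .ofNat 0, .ofNat 226231670324593066378730873302535999764561920, .ofNat 0, .ofNat 0, .ofNat 0, .ofNat 0, .ofNat 0⟩)
    (by decide +kernel)
theorem L02273 : Good (Phi V5.P V5.D (-1) (-1)) ⟨4, 12, 3, 2, 4, 12, 6, 0, 5, 4⟩ :=
  out_sound (S := T5.ds_mm) T5.ok_mm (w := 34) (j := 1) (by decide +kernel)
theorem L02274 : Good (Phi V5.P V5.D (-1) (-1)) ⟨4, 12, 3, 2, 4, 12, 6, 1, 5, 4⟩ :=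
  leafX_sound T5.ok_mm T5.Ymm.bz_eq (w := 262) (c := ⟨⟨.negSucc 4208, .negSucc 1539, .ofNat 570, .negSucc 175, .ofNat 102, .ofNat 410⟩, ⟨.ofNat 1444, .ofNat 857, .ofNat 82, .ofNat 91, .negSucc 47, .negSucc 168⟩, ⟨.ofNat 3239, .ofNat 1255, .negSucc 678, .ofNat 595, .negSucc 181, .negSucc 137⟩, ⟨.negSucc 7300, .negSucc 1589, .ofNat 728, .negSucc 120, .ofNat 121, .ofNat 644⟩, ⟨.negSucc 779, .ofNat 951, .negSucc 419, .ofNat 439, .negSucc 179, .negSucc 10⟩, .ofNat 537, .ofNat 516, .ofNat 0, .ofNat 516, .ofNat 1450, .ofNat 0, .ofNat 128, .negSucc 347, .negSucc 444, .ofNat 0, .ofNat 218, .ofNat 220, .ofNat 0, .ofNat 0, .ofNat 693, .ofNat 75554, .ofNat 22850022549837692967613607393901620785770802993004806144, .ofNat 0, .ofNat 311618526157747996567448290333298333173783357030400, .ofNat 0, .ofNat 42184086563944088190127799160338808987517710614713597952, .ofNat 0, .ofNat 2296829980633207976709745996985844638978183532642304,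 .ofNat 0, .ofNat 0, .ofNat 0, .ofNat 12832281467076873020175686589907408229573864357625856, .ofNat 0, .ofNat 0, .ofNat 0, .ofNat 12493382338591119362419124024081124984499538652823552, .ofNat 0⟩)
    (by decide +kernel)
theorem L02275 : Good (Phi V5.P V5.D (-1) (-1)) ⟨4, 12, 3, 2, 4, 12, 5, 1, 5, 4⟩ :=
  leafX_sound T5.ok_mm T5.Ymm.bz_eq (w := 257) (c := ⟨⟨.negSucc 4159, .negSucc 1376, .ofNat 454, .negSucc 34, .ofNat 68, .ofNat 388⟩, ⟨.ofNat 1420, .ofNat 778, .ofNat 135, .ofNat 27, .negSucc 35, .negSucc 163⟩, ⟨.ofNat 3123, .ofNat 1152, .negSucc 570, .ofNat 402, .negSucc 164, .negSucc 112⟩, ⟨.negSucc 7232, .negSucc 1403, .ofNat 577, .ofNat 37, .ofNat 68, .ofNat 603⟩, ⟨.negSucc 896, .ofNat 760, .negSucc 326, .ofNat 294, .negSucc 71, .negSucc 10⟩, .ofNat 544, .ofNat 530, .ofNat 0, .ofNat 530, .ofNat 1466, .ofNat 0, .ofNat 128, .negSucc 412, .negSucc 414, .ofNat 0, .ofNat 263, .ofNat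 206, .ofNat 0, .ofNat 0, .ofNat 685, .ofNat 20680, .ofNat 177498945112603590783977520271373399926189527360602112, .ofNat 0, .ofNat 10226393843410190862249065184661206902824255881216, .ofNat 0, .ofNat 0, .ofNat 0, .ofNat 38841661059077814642294612342839657712768212008960, .ofNat 0, .ofNat 0, .ofNat 0, .ofNat 1021308941237352962048476243539325863320593924882432, .ofNat 0, .ofNat 0, .ofNat 0, .ofNat 906246259465904724848564511636435860598084694179840, .ofNat 0⟩)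
    (by decide +kernel)
theorem L02276 : Good (Phi V5.P V5.D (-1) (-1)) ⟨4, 12, 3, 2, 4, 13, 5, 0, 5, 4⟩ :=
  leafX_sound T5.ok_mm T5.Ymm.bz_eq (w := 258) (c := ⟨⟨.negSucc 4788, .negSucc 1351, .ofNat 564, .ofNat 230, .ofNat 264, .ofNat 775⟩, ⟨.ofNat 1754, .ofNat 800, .ofNat 61, .negSucc 93, .negSucc 156, .negSucc 349⟩, ⟨.ofNat 4247, .ofNat 1166, .negSucc 608, .ofNat 90, .negSucc 380, .negSucc 574⟩, ⟨.negSucc 7865, .negSucc 1314, .ofNat 725, .ofNat 371, .ofNat 252, .ofNat 1062⟩, ⟨.negSucc 18, .ofNat 824, .negSucc 393, .ofNat 43, .negSucc 337, .negSucc 377⟩, .ofNat 536, .ofNat 515, .ofNat 0, .ofNat 515, .ofNat 1451, .ofNat 0, .ofNat 128, .negSucc 562, .negSucc 437, .ofNat 0, .ofNat 382, .ofNat 213, .ofNat 0, .ofNat 0, .ofNat 760, .ofNat 41752, .ofNat 1635133033758007371514604186884603828646328770699984896, .ofNat 0, .ofNat 19922630318697720633923638940548133295067093794816, .ofNat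 0, .ofNat 409076609545327558714912360111608634743355260018884608, .ofNat 0, .ofNat 8314374030977430132052604332388448406601291792384, .ofNat 0, .ofNat 0, .ofNat 0, .ofNat 1682406349955300316930045677632451038929645626982400, .ofNat 0, .ofNat 0, .ofNat 0, .ofNat 1099293319512820147345772493728510871687795583221760, .ofNat 0⟩)
    (by decide +kernel)
theorem L02277 : Good (Phi V5.P V5.D (-1) (-1)) ⟨4, 12, 3, 2, 4, 13, 5, 1, 5, 4⟩ :=
  leafX_sound T5.ok_mm T5.Ymm.bz_eq (w := 256) (c := ⟨⟨.negSucc 4477, .negSucc 1251, .ofNat 551, .ofNat 180, .ofNat 117, .ofNat 693⟩, ⟨.ofNat 1581, .ofNat 729, .ofNat 69, .negSucc 63, .negSucc 58, .negSucc 304⟩, ⟨.ofNat 3833, .ofNat 1094, .negSucc 588, .ofNat 96, .negSucc 268, .negSucc 502⟩, ⟨.negSucc 7539, .negSucc 1235, .ofNat 698, .ofNat 324, .ofNat 114, .ofNat 974⟩, ⟨.negSucc 354, .ofNat 735, .negSucc 418, .ofNat 83, .negSucc 203, .negSucc 292⟩,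 .ofNat 536, .ofNat 515, .ofNat 0, .ofNat 515, .ofNat 1451, .ofNat 0, .ofNat 128, .negSucc 289, .negSucc 277, .ofNat 0, .ofNat 195, .ofNat 134, .ofNat 0, .ofNat 0, .ofNat 459, .ofNat 14279, .ofNat 0, .ofNat 0, .ofNat 0, .ofNat 0, .ofNat 0, .ofNat 0, .ofNat 0, .ofNat 0, .ofNat 0, .ofNat 0, .ofNat 1028572567063225465153936464246747854689439479496704, .ofNat 0, .ofNat 0, .ofNat 0, .ofNat 375026538755903303171357208804382092894696363786240, .ofNat 0⟩)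
    (by decide +kernel)
theorem L02278 : Good (Phi V5.P V5.D (-1) (-1)) ⟨4, 12, 3, 2, 3, 6, 5, 0, 5, 5⟩ :=
  leafX_sound T5.ok_mm T5.Ymm.bz_eq (w := 246) (c := ⟨⟨.negSucc 4313, .negSucc 699, .ofNat 308, .ofNat 650, .ofNat 22, .ofNat 749⟩, ⟨.ofNat 1532, .ofNat 435, .ofNat 162, .negSucc 284, .ofNat 1, .negSucc 342⟩, ⟨.ofNat 3898, .ofNat 656, .negSucc 392, .negSucc 242, .negSucc 231, .negSucc 620⟩, ⟨.negSucc 7281, .negSucc 585, .ofNat 375, .ofNat 965, .ofNat 16, .ofNat 1017⟩, ⟨.negSucc 453, .ofNat 278, .negSucc 180, .negSucc 129, .negSucc 105, .negSucc 376⟩, .ofNat 683, .ofNat 796, .ofNat 0, .ofNat 796, .ofNat 2070, .ofNat 0, .ofNat 128, .negSucc 391, .negSucc 324, .ofNat 0, .ofNat 264, .ofNat 155, .ofNat 0, .ofNat 0, .ofNat 741, .ofNat 233322, .ofNat 3157791789392596620150683325389565406360730400194560, .ofNat 0, .ofNat 0, .ofNat 0, .ofNat 986244166559051297891354544752808595741736775450624,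 .ofNat 0, .ofNat 11811687050100764874510919717204758254470561792, .ofNat 0, .ofNat 8658451775074429976636266813850943834331846549700608, .ofNat 0, .ofNat 93900594240824744810495028289926827147511463936, .ofNat 0, .ofNat 13417304627005921393498746123178064711400234269278208, .ofNat 0, .ofNat 40762730499472004305752685558503303724381765632, .ofNat 0⟩)
    (by decide +kernel)
theorem L02279 : Good (Phi V5.P V5.D (-1) (-1)) ⟨4, 12, 3, 2, 3, 6, 5, 1, 5, 5⟩ :=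
  leafX_sound T5.ok_mm T5.Ymm.bz_eq (w := 244) (c := ⟨⟨.negSucc 4051, .negSucc 638, .ofNat 210, .ofNat 488, .ofNat 52, .ofNat 662⟩, ⟨.ofNat 1411, .ofNat 389, .ofNat 218, .negSucc 205, .negSucc 17, .negSucc 293⟩, ⟨.ofNat 3334, .ofNat 587, .negSucc 339, .ofNat 10, .negSucc 206, .negSucc 469⟩, ⟨.negSucc 6973, .negSucc 539, .ofNat 245, .ofNat 766, .ofNat 65, .ofNat 934⟩, ⟨.negSucc 795, .ofNat 229, .negSucc 99, .ofNat 14, .negSucc 73, .negSucc 266⟩, .ofNat 535, .ofNat 512, .ofNat 0, .ofNat 512, .ofNat 1449, .ofNat 0, .ofNat 128, .negSucc 367, .negSucc 264, .ofNat 0, .ofNat 259, .ofNat 129, .ofNat 0, .ofNat 0, .ofNat 604, .ofNat 39904, .ofNat 0, .ofNat 0, .ofNat 0, .ofNat 0, .ofNat 0, .ofNat 0, .ofNat 0, .ofNat 0, .ofNat 0, .ofNat 0, .ofNat 77307276529422843235929542936110251379559235584, .ofNat 0, .ofNat 408892238346337453942191658636610047910547625607168, .ofNat 0, .ofNat 49331485453085140955706543030970063335110737920,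 .ofNat 0⟩)
    (by decide +kernel)
theorem L02280 : Good (Phi V5.P V5.D (-1) (-1)) ⟨5, 26, 3, 2, 3, 6, 6, 0, 4, 2⟩ :=
  leafX_sound T5.ok_mm T5.Ymm.bz_eq (w := 251) (c := ⟨⟨.negSucc 6883, .negSucc 1275, .ofNat 1386, .negSucc 2, .ofNat 145, .ofNat 3⟩, ⟨.ofNat 3028, .ofNat 816, .negSucc 415, .ofNat 2, .negSucc 81, .negSucc 1⟩, ⟨.ofNat 6234, .ofNat 996, .negSucc 1171, .ofNat 3, .negSucc 231, .negSucc 2⟩, ⟨.negSucc 9811, .negSucc 1187, .ofNat 1596, .negSucc 4, .ofNat 137, .ofNat 5⟩, ⟨.ofNat 1829, .ofNat 958, .negSucc 1241, .ofNat 1, .negSucc 188, .negSucc 0⟩, .ofNat 497, .ofNat 411, .ofNat 0, .ofNat 411, .ofNat 1057, .ofNat 0, .ofNat 128, .negSucc 206, .negSucc 245, .ofNat 0, .ofNat 160, .ofNat 145, .ofNat 0, .ofNat 0, .ofNat 394, .ofNat 743986, .ofNat 358259085368104431540230341290220094998959289266077696, .ofNat 0, .ofNat 0, .ofNat 0, .ofNat 224389443450628719508937478274399665643655964202631168,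 .ofNat 0, .ofNat 1563941666504036511642461724276118529069023232, .ofNat 0, .ofNat 302196011068135202130652844206800024501140895129665536, .ofNat 0, .ofNat 2780785223534683389189305095055061710519926784, .ofNat 0, .ofNat 345833017835123605307884800466978567908096637841440768, .ofNat 0, .ofNat 3692270826549971516911635394452542196331577344, .ofNat 0⟩)
    (by decide +kernel)
theorem L02281 : Good (Phi V5.P V5.D (-1) (-1)) ⟨5, 26, 3, 2, 3, 6, 6, 1, 4, 2⟩ :=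
  leafX_sound T5.ok_mm T5.Ymm.bz_eq (w := 247) (c := ⟨⟨.negSucc 6309, .negSucc 533, .ofNat 624, .ofNat 312, .ofNat 64, .ofNat 2330⟩, ⟨.ofNat 2684, .ofNat 377, .negSucc 9, .negSucc 124, .negSucc 36, .negSucc 1205⟩, ⟨.ofNat 4674, .ofNat 338, .negSucc 537, .ofNat 740, .negSucc 74, .negSucc 1851⟩, ⟨.negSucc 9435, .negSucc 408, .ofNat 723, .ofNat 646, .ofNat 68, .ofNat 2800⟩, ⟨.ofNat 549, .ofNat 255, .negSucc 405, .ofNat 352, .negSucc 68, .negSucc 1676⟩, .ofNat 798, .ofNat 916, .ofNat 0, .ofNat 916, .ofNat 2045, .ofNat 0, .ofNat 128, .negSucc 286, .negSucc 460, .ofNat 0, .ofNat 207, .ofNat 264, .ofNat 0, .ofNat 0, .ofNat 745, .ofNat 35815, .ofNat 3586079736286619693469127766430355726071689692315648, .ofNat 0, .ofNat 212217219974303947885490838655364886656188416, .ofNat 0, .ofNat 0, .ofNat 0, .ofNat 1028975440913827869412929610351360248719081472, .ofNat 0, .ofNat 23246200427526461340037481441261226728967330437529600,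 .ofNat 0, .ofNat 5550615390608726479322027500959577274612449280, .ofNat 0, .ofNat 28527694872022849684978772156792450447027208896643072, .ofNat 0, .ofNat 5460218112479592757888115154257662027881250816, .ofNat 0⟩)
    (by decide +kernel)
theorem L02282 : Good (Phi V5.P V5.D (-1) (-1)) ⟨5, 26, 3, 2, 3, 6, 5, 1, 4, 2⟩ :=
  leafX_sound T5.ok_mm T5.Ymm.bz_eq (w := 243) (c := ⟨⟨.negSucc 5822, .negSucc 200, .ofNat 71, .ofNat 635, .ofNat 104, .ofNat 1898⟩, ⟨.ofNat 2408, .ofNat 161, .ofNat 308, .negSucc 304, .negSucc 60, .negSucc 970⟩, ⟨.ofNat 4350, .negSucc 121, .ofNat 40, .ofNat 75, .negSucc 207, .negSucc 1316⟩, ⟨.negSucc 8889, .negSucc 120, .ofNat 134, .ofNat 923, .ofNat 84, .ofNat 2395⟩, ⟨.ofNat 182, .negSucc 97, .ofNat 68, .negSucc 100, .negSucc 160, .negSucc 1134⟩, .ofNat 706, .ofNat 794, .ofNat 0, .ofNat 794, .ofNat 1842, .ofNat 0, .ofNat 128, .negSucc 420, .negSucc 535, .ofNat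 0, .ofNat 287, .ofNat 291, .ofNat 0, .ofNat 0, .ofNat 994, .ofNat 23723, .ofNat 89128206882671098225802948890911850258226248417280, .ofNat 0, .ofNat 9600574160442340303087333433288225454030848, .ofNat 0, .ofNat 0, .ofNat 0, .ofNat 138405249967988723976774111904203166699225088, .ofNat 0, .ofNat 0, .ofNat 0, .ofNat 1427218688947197631550038087658041947017183232, .ofNat 0, .ofNat 0, .ofNat 0, .ofNat 1080947045164908941701997738221526672650272768, .ofNat 0⟩)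
    (by decide +kernel)
theorem L02283 : Good (Phi V5.P V5.D (-1) (-1)) ⟨5, 27, 3, 2, 3, 6, 4, 0, 4, 2⟩ :=
  out_sound (S := T5.ds_mm) T5.ok_mm (w := 57) (j := 3) (by decide +kernel)
theorem L02284 : Good (Phi V5.P V5.D (-1) (-1)) ⟨3, 7, 3, 2, 3, 6, 4, 0, 4, 2⟩ :=
  out_sound (S := T5.ds_mm) T5.ok_mm (w := 45) (j := 3) (by decide +kernel)
theorem L02285 : Good (Phi V5.P V5.D (-1) (-1)) ⟨2, 2, 3, 2, 3, 6, 4, 1, 4, 2⟩ :=
  leafX_sound T5.ok_mm T5.Ymm.bz_eq (w := 224) (c := ⟨⟨.negSucc 1985, .negSucc 1979, .ofNat 189, .ofNat 251, .ofNat 137, .ofNat 569⟩, ⟨.ofNat 300, .ofNat 1036, .ofNat 235, .negSucc 83, .negSucc 52, .negSucc 198⟩, ⟨.ofNat 1142, .ofNat 1854, .negSucc 257, .ofNat 186, .negSucc 304, .negSucc 295⟩, ⟨.negSucc 5108, .negSucc 1854, .ofNat 198, .ofNat 456, .ofNat 190, .ofNat 923⟩, ⟨.negSucc 1397, .ofNat 414, .negSucc 143, .ofNat 113, .negSucc 121, .negSucc 99⟩, .ofNat 534,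 .ofNat 540, .ofNat 0, .ofNat 540, .ofNat 1845, .ofNat 0, .ofNat 128, .negSucc 179, .negSucc 191, .ofNat 0, .ofNat 109, .ofNat 75, .ofNat 0, .ofNat 0, .ofNat 432, .ofNat 4017, .ofNat 0, .ofNat 0, .ofNat 8254616230595978595104830613162702059601920, .ofNat 0, .ofNat 0, .ofNat 0, .ofNat 131645934276366116014415195558327864965201920, .ofNat 0, .ofNat 0, .ofNat 0, .ofNat 426379634068164484946560761740855332166434816, .ofNat 0, .ofNat 0, .ofNat 0, .ofNat 332446140948203635705429628711005441996357632, .ofNat 0⟩)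
    (by decide +kernel)
theorem L02286 : Good (Phi V5.P V5.D (-1) (-1)) ⟨4, 12, 3, 2, 3, 6, 4, 1, 5, 4⟩ :=
  leafX_sound T5.ok_mm T5.Ymm.bz_eq (w := 238) (c := ⟨⟨.negSucc 4478, .negSucc 1272, .ofNat 592, .ofNat 432, .ofNat 319, .ofNat 534⟩, ⟨.ofNat 1587, .ofNat 720, .ofNat 55, .negSucc 184, .negSucc 164, .negSucc 242⟩, ⟨.ofNat 3347, .ofNat 1055, .negSucc 641, .ofNat 188, .negSucc 466, .negSucc 331⟩, ⟨.negSucc 7618, .negSucc 1318, .ofNat 733, .ofNat 708, .ofNat 363, .ofNat 776⟩, ⟨.negSucc 729, .ofNat 590, .negSucc 356, .ofNat 119, .negSucc 262, .negSucc 95⟩, .ofNat 541, .ofNat 520, .ofNat 0, .ofNat 520, .ofNat 1431, .ofNat 0, .ofNat 128, .negSucc 386, .negSucc 492, .ofNat 0, .ofNat 254, .ofNat 241, .ofNat 0, .ofNat 0, .ofNat 748, .ofNat 4419, .ofNat 0, .ofNat 0, .ofNat 26104711614951371631513513663284644207919104, .ofNat 0, .ofNat 0, .ofNat 0, .ofNat 24711234587986744544979443630511825205854208,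 .ofNat 0, .ofNat 0, .ofNat 0, .ofNat 2287772237892518361437297922302062487396155392, .ofNat 0, .ofNat 0, .ofNat 0, .ofNat 2305440589682347628831757390207858774198190080, .ofNat 0⟩)
    (by decide +kernel)
theorem L02287 : Good (Phi V5.P V5.D (-1) (-1)) ⟨4, 13, 3, 2, 3, 6, 4, 1, 5, 4⟩ :=
  leafX_sound T5.ok_mm T5.Ymm.bz_eq (w := 239) (c := ⟨⟨.negSucc 5798, .negSucc 1073, .ofNat 348, .ofNat 600, .ofNat 244, .ofNat 810⟩, ⟨.ofNat 2373, .ofNat 706, .ofNat 168, .negSucc 283, .negSucc 138, .negSucc 402⟩, ⟨.ofNat 4270, .ofNat 966, .negSucc 384, .ofNat 164, .negSucc 399, .negSucc 469⟩, ⟨.negSucc 8848, .negSucc 835, .ofNat 352, .ofNat 899, .ofNat 217, .ofNat 1086⟩, ⟨.ofNat 81, .ofNat 321, .negSucc 249, .negSucc 46, .negSucc 339, .negSucc 340⟩, .ofNat 1149, .ofNat 1622, .ofNat 0, .ofNat 1622, .ofNat 3479, .ofNat 0, .ofNat 128, .negSucc 502, .negSucc 1151, .ofNat 0, .ofNat 312, .ofNat 607,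 .ofNat 0, .ofNat 0, .ofNat 1653, .ofNat 13284, .ofNat 0, .ofNat 0, .ofNat 75459805980566994943444606208780461651525632, .ofNat 0, .ofNat 0, .ofNat 0, .ofNat 3816316481463972415275303704461793990893633536, .ofNat 0, .ofNat 0, .ofNat 0, .ofNat 17076830074535275587674934226876387773483319296, .ofNat 0, .ofNat 0, .ofNat 0, .ofNat 11099068911938596756019061386617744692999094272, .ofNat 0⟩)
    (by decide +kernel)
theorem L02288 : Good (Phi V5.P V5.D (-1) (-1)) ⟨3, 6, 3, 2, 3, 6, 4, 1, 5, 5⟩ :=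
  leafX_sound T5.ok_mm T5.Ymm.bz_eq (w := 233) (c := ⟨⟨.negSucc 4067, .negSucc 1179, .ofNat 246, .ofNat 587, .ofNat 91, .ofNat 646⟩, ⟨.ofNat 1436, .ofNat 691, .ofNat 194, .negSucc 253, .negSucc 38, .negSucc 289⟩, ⟨.ofNat 3225, .ofNat 1075, .negSucc 341, .negSucc 151, .negSucc 302, .negSucc 451⟩, ⟨.negSucc 6971, .negSucc 1031, .ofNat 279, .ofNat 879, .ofNat 105, .ofNat 917⟩, ⟨.negSucc 769, .ofNat 383, .negSucc 121, .negSucc 128, .negSucc 112, .negSucc 276⟩, .ofNat 329, .ofNat 183, .ofNat 0, .ofNat 183, .ofNat 649, .ofNat 0, .ofNat 128, .negSucc 205, .negSucc 239, .ofNat 0, .ofNat 185, .ofNat 126, .ofNat 0, .ofNat 0, .ofNat 462, .ofNat 5389, .ofNat 0, .ofNat 0, .ofNat 63372233646825213411661296900250966018752512, .ofNat 0, .ofNat 0, .ofNat 0, .ofNat 388786998445696182082834716274368687250604032, .ofNat 0, .ofNat 0, .ofNat 0, .ofNat 4441208025212678775276216973444515403552260096,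 .ofNat 0, .ofNat 0, .ofNat 0, .ofNat 2195480033208223183674248388761872073066807296, .ofNat 0⟩)
    (by decide +kernel)
theorem L02289 : Good (Phi V5.P V5.D (-1) (-1)) ⟨3, 7, 3, 2, 3, 6, 4, 1, 4, 2⟩ :=
  out_sound (S := T5.ds_mm) T5.ok_mm (w := 45) (j := 3) (by decide +kernel)
theorem L02290 : Good (Phi V5.P V5.D (-1) (-1)) ⟨2, 2, 3, 2, 3, 7, 3, 0, 4, 2⟩ :=
  leafX_sound T5.ok_mm T5.Ymm.bz_eq (w := 219) (c := ⟨⟨.negSucc 2428, .negSucc 1483, .ofNat 232, .ofNat 491, .ofNat 252, .ofNat 804⟩, ⟨.ofNat 384, .ofNat 964, .ofNat 135, .negSucc 147, .negSucc 88, .negSucc 289⟩, ⟨.ofNat 2877, .ofNat 599, .ofNat 16, .negSucc 1082, .negSucc 567, .negSucc 538⟩, ⟨.negSucc 5675, .negSucc 1080, .ofNat 301, .ofNat 1131, .ofNat 347, .ofNat 1189⟩, ⟨.negSucc 812, .ofNat 251, .negSucc 51, .ofNat 839, .negSucc 287, .negSucc 530⟩, .ofNat 533, .ofNat 539, .ofNat 0, .ofNat 539, .ofNat 1826, .ofNat 0, .ofNat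 128, .negSucc 248, .negSucc 199, .ofNat 0, .ofNat 170, .ofNat 64, .ofNat 0, .ofNat 0, .ofNat 537, .ofNat 3378, .ofNat 0, .ofNat 0, .ofNat 630255398257701865147667958960994113290240, .ofNat 0, .ofNat 0, .ofNat 0, .ofNat 5042013870490457898369201763867322075840512, .ofNat 0, .ofNat 0, .ofNat 0, .ofNat 15854627983340028804280403618862430295162880, .ofNat 0, .ofNat 0, .ofNat 0, .ofNat 11779787049384235864559533561684419923673088, .ofNat 0⟩)
    (by decide +kernel)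
theorem L02291 : Good (Phi V5.P V5.D (-1) (-1)) ⟨4, 12, 3, 2, 4, 14, 3, 0, 4, 2⟩ :=
  leafX_sound T5.ok_mm T5.Ymm.bz_eq (w := 242) (c := ⟨⟨.negSucc 4500, .negSucc 558, .ofNat 316, .ofNat 372, .ofNat 447, .ofNat 1323⟩, ⟨.ofNat 1638, .ofNat 342, .ofNat 157, .negSucc 146, .negSucc 214, .negSucc 580⟩, ⟨.ofNat 4207, .ofNat 482, .negSucc 272, .negSucc 427, .negSucc 935, .negSucc 1051⟩, ⟨.negSucc 7438, .negSucc 495, .ofNat 387, .ofNat 617, .ofNat 507, .ofNat 1878⟩, ⟨.negSucc 117, .ofNat 102, .negSucc 249, .ofNat 42, .negSucc 542, .negSucc 542⟩, .ofNat 683, .ofNat 802, .ofNat 0, .ofNat 802, .ofNat 2107, .ofNat 0, .ofNat 128, .negSucc 268, .negSucc 206, .ofNat 0, .ofNat 181, .ofNat 91, .ofNat 0, .ofNat 0, .ofNat 431, .ofNat 3263, .ofNat 0, .ofNat 0, .ofNat 651581446247394917095147564445031377651367936, .ofNat 0, .ofNat 0, .ofNat 0, .ofNat 0, .ofNat 0, .ofNat 570187854860503285067016368792575162472683997757440,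 .ofNat 0, .ofNat 73600536014418618775615952144990140093748477952, .ofNat 0, .ofNat 794176114197196185731129054965879113085408459620352, .ofNat 0, .ofNat 23478402316563348916160858495407150063905931264, .ofNat 0⟩)
    (by decide +kernel)
theorem L02292 : Good (Phi V5.P V5.D (-1) (-1)) ⟨4, 12, 3, 2, 4, 15, 3, 0, 4, 2⟩ :=
  leafX_sound T5.ok_mm T5.Ymm.bz_eq (w := 242) (c := ⟨⟨.negSucc 3991, .negSucc 316, .ofNat 215, .ofNat 210, .ofNat 341, .ofNat 1165⟩, ⟨.ofNat 1474, .ofNat 238, .ofNat 141, .negSucc 29, .negSucc 179, .negSucc 528⟩, ⟨.ofNat 3220, .ofNat 168, .ofNat 96, .negSucc 856, .negSucc 429, .negSucc 694⟩, ⟨.negSucc 6586, .negSucc 181, .ofNat 231, .ofNat 699, .ofNat 334, .ofNat 1601⟩, ⟨.negSucc 87, .ofNat 14, .negSucc 268, .ofNat 898, .negSucc 526, .negSucc 613⟩, .ofNat 688, .ofNat 812, .ofNat 0, .ofNat 812, .ofNat 2128, .ofNat 0, .ofNat 128, .negSucc 334, .negSucc 231, .ofNat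 0, .ofNat 233, .ofNat 85, .ofNat 0, .ofNat 0, .ofNat 591, .ofNat 3348, .ofNat 0, .ofNat 0, .ofNat 0, .ofNat 0, .ofNat 0, .ofNat 0, .ofNat 5823225731343132497858821938463729056462405632, .ofNat 0, .ofNat 0, .ofNat 0, .ofNat 71373932158459370469531205665682996859548729344, .ofNat 0, .ofNat 0, .ofNat 0, .ofNat 0, .ofNat 0⟩)
    (by decide +kernel)
theorem L02293 : Good (Phi V5.P V5.D (-1) (-1)) ⟨4, 13, 3, 2, 3, 7, 3, 0, 4, 2⟩ :=
  leafX_sound T5.ok_mm T5.Ymm.bz_eq (w := 228) (c := ⟨⟨.negSucc 5071, .negSucc 27, .ofNat 285, .ofNat 817, .ofNat 391, .ofNat 1420⟩, ⟨.ofNat 2092, .ofNat 94, .ofNat 123, .negSucc 347, .negSucc 212, .negSucc 705⟩, ⟨.ofNat 4149, .negSucc 109, .ofNat 193, .negSucc 1207, .negSucc 702, .negSucc 975⟩, ⟨.negSucc 7714, .ofNat 217, .ofNat 154, .ofNat 1507, .ofNat 391, .ofNat 1892⟩, ⟨.ofNat 195, .negSucc 123, .negSucc 542, .ofNat 512, .negSucc 470, .negSucc 646⟩, .ofNat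 704, .ofNat 792, .ofNat 0, .ofNat 792, .ofNat 1843, .ofNat 0, .ofNat 128, .negSucc 350, .negSucc 299, .ofNat 0, .ofNat 262, .ofNat 137, .ofNat 0, .ofNat 0, .ofNat 663, .ofNat 2726, .ofNat 0, .ofNat 0, .ofNat 52358252513544460773827248529332615774208, .ofNat 0, .ofNat 0, .ofNat 0, .ofNat 569267783183760512857237658055489846509568, .ofNat 0, .ofNat 0, .ofNat 0, .ofNat 11197808149487585779431649433932924029239296, .ofNat 0, .ofNat 0, .ofNat 0, .ofNat 10137594594108414988855252701327946281910272, .ofNat 0⟩)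
    (by decide +kernel)
theorem L02294 : Good (Phi V5.P V5.D (-1) (-1)) ⟨3, 7, 3, 2, 3, 7, 3, 0, 4, 2⟩ :=
  out_sound (S := T5.ds_mm) T5.ok_mm (w := 45) (j := 3) (by decide +kernel)
theorem L02295 : Good (Phi V5.P V5.D (-1) (-1)) ⟨3, 4, 3, 2, 2, 3, 3, 1, 4, 2⟩ :=
  out_sound (S := T5.ds_mm) T5.ok_mm (w := 45) (j := 3) (by decide +kernel)
theorem L02296 : Good (Phi V5.P V5.D (-1) (-1)) ⟨3, 5, 3, 2, 2, 3, 3, 1, 4, 2⟩ :=
  leafX_sound T5.ok_mm T5.Ymm.bz_eq (w := 210) (c := ⟨⟨.negSucc 3163, .negSucc 783, .ofNat 235, .ofNat 903, .ofNat 269, .ofNat 615⟩, ⟨.ofNat 913, .ofNat 409, .ofNat 184, .negSucc 303, .negSucc 95, .negSucc 216⟩, ⟨.ofNat 2213, .ofNat 831, .negSucc 245, .negSucc 723, .negSucc 459, .negSucc 461⟩, ⟨.negSucc 6237, .negSucc 786, .ofNat 305, .ofNat 1667, .ofNat 398, .ofNat 1005⟩, ⟨.negSucc 1041, .negSucc 133, .negSucc 57, .ofNat 388, .negSucc 183, .negSucc 106⟩, .ofNat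 686, .ofNat 904, .ofNat 0, .ofNat 904, .ofNat 2874, .ofNat 0, .ofNat 128, .negSucc 252, .negSucc 240, .ofNat 0, .ofNat 138, .ofNat 87, .ofNat 0, .ofNat 0, .ofNat 515, .ofNat 2153, .ofNat 0, .ofNat 0, .ofNat 1686678945619702054198263764974829568, .ofNat 0, .ofNat 0, .ofNat 0, .ofNat 179932371160687237121686581308467183616, .ofNat 0, .ofNat 0, .ofNat 0, .ofNat 16984320521051091454948610819909222400, .ofNat 0, .ofNat 0, .ofNat 0, .ofNat 128430111203175291804145322174600708096, .ofNat 0⟩)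
    (by decide +kernel)
theorem L02297 : Good (Phi V5.P V5.D (-1) (-1)) ⟨4, 12, 3, 2, 3, 6, 3, 1, 5, 4⟩ :=
  leafX_sound T5.ok_mm T5.Ymm.bz_eq (w := 233) (c := ⟨⟨.negSucc 4224, .negSucc 1037, .ofNat 450, .ofNat 576, .ofNat 399, .ofNat 366⟩, ⟨.ofNat 1478, .ofNat 549, .ofNat 128, .negSucc 251, .negSucc 187, .negSucc 150⟩, ⟨.ofNat 3058, .ofNat 829, .negSucc 462, .negSucc 138, .negSucc 572, .negSucc 256⟩, ⟨.negSucc 7304, .negSucc 1184, .ofNat 592, .ofNat 890, .ofNat 505, .ofNat 592⟩, ⟨.negSucc 975, .ofNat 129, .negSucc 117, .ofNat 26, .negSucc 298, .ofNat 46⟩, .ofNat 805, .ofNat 1051, .ofNat 0, .ofNat 1051, .ofNat 2673, .ofNat 0, .ofNat 128, .negSucc 343, .negSucc 412, .ofNat 0, .ofNat 198, .ofNat 189, .ofNat 0, .ofNat 0, .ofNat 589, .ofNat 1848, .ofNat 0, .ofNat 0, .ofNat 901050027158916319641066313740081717837824, .ofNat 0, .ofNat 0, .ofNat 0, .ofNat 43346467797736685777071004888058294022701056,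 .ofNat 0, .ofNat 0, .ofNat 0, .ofNat 136191806068011448810008882392493542653034496, .ofNat 0, .ofNat 0, .ofNat 0, .ofNat 87974025904519506776044335321571328289406976, .ofNat 0⟩)
    (by decide +kernel)
theorem L02298 : Good (Phi V5.P V5.D (-1) (-1)) ⟨4, 12, 3, 2, 3, 7, 3, 1, 5, 4⟩ :=
  leafX_sound T5.ok_mm T5.Ymm.bz_eq (w := 233) (c := ⟨⟨.negSucc 3936, .negSucc 511, .ofNat 339, .ofNat 700, .ofNat 479, .ofNat 481⟩, ⟨.ofNat 1391, .ofNat 273, .ofNat 140, .negSucc 265, .negSucc 219, .negSucc 199⟩, ⟨.ofNat 3131, .ofNat 413, .negSucc 275, .negSucc 882, .negSucc 565, .negSucc 399⟩, ⟨.negSucc 6780, .negSucc 516, .ofNat 455, .ofNat 1329, .ofNat 577, .ofNat 717⟩, ⟨.negSucc 822, .ofNat 22, .negSucc 143, .ofNat 505, .negSucc 456, .negSucc 101⟩, .ofNat 543, .ofNat 528, .ofNat 0, .ofNat 528, .ofNat 1467, .ofNat 0, .ofNat 128, .negSucc 273, .negSucc 411, .ofNat 0, .ofNat 193, .ofNat 166, .ofNat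 0, .ofNat 0, .ofNat 658, .ofNat 2448, .ofNat 0, .ofNat 0, .ofNat 1066838166607098079877626563111468960579584, .ofNat 0, .ofNat 0, .ofNat 0, .ofNat 0, .ofNat 0, .ofNat 0, .ofNat 0, .ofNat 44610561600991671960386601064520256088702976, .ofNat 0, .ofNat 0, .ofNat 0, .ofNat 0, .ofNat 0⟩)
    (by decide +kernel)
theorem L02299 : Good (Phi V5.P V5.D (-1) (-1)) ⟨4, 12, 3, 2, 2, 3, 3, 1, 5, 5⟩ :=
  leafX_sound T5.ok_mm T5.Ymm.bz_eq (w := 219) (c := ⟨⟨.negSucc 4000, .negSucc 327, .ofNat 178, .ofNat 1326, .ofNat 303, .ofNat 487⟩, ⟨.ofNat 1417, .ofNat 186, .ofNat 212, .negSucc 545, .negSucc 136, .negSucc 207⟩, ⟨.ofNat 3077, .ofNat 275, .negSucc 186, .negSucc 1059, .negSucc 524, .negSucc 369⟩, ⟨.negSucc 6932, .negSucc 269, .ofNat 224, .ofNat 2200, .ofNat 404, .ofNat 718⟩, ⟨.negSucc 1036, .negSucc 55, .ofNat 19, .ofNat 206, .negSucc 189, .negSucc 146⟩, .ofNat 538, .ofNat 516, .ofNat 0, .ofNat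 516, .ofNat 1440, .ofNat 0, .ofNat 128, .negSucc 349, .negSucc 230, .ofNat 0, .ofNat 258, .ofNat 101, .ofNat 0, .ofNat 0, .ofNat 484, .ofNat 3067, .ofNat 0, .ofNat 0, .ofNat 56559623618974477194826388133235392512, .ofNat 0, .ofNat 0, .ofNat 0, .ofNat 0, .ofNat 0, .ofNat 0, .ofNat 0, .ofNat 0, .ofNat 0, .ofNat 0, .ofNat 0, .ofNat 5585612601150929357678248439418753908736, .ofNat 0⟩)
    (by decide +kernel)
theorem L02300 : Good (Phi V5.P V5.D (-1) (-1)) ⟨5, 26, 3, 2, 2, 3, 3, 1, 5, 4⟩ :=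
  leafX_sound T5.ok_mm T5.Ymm.bz_eq (w := 224) (c := ⟨⟨.negSucc 5503, .negSucc 241, .ofNat 243, .ofNat 1828, .ofNat 513, .ofNat 599⟩, ⟨.ofNat 2213, .ofNat 155, .ofNat 225, .negSucc 885, .negSucc 277, .negSucc 288⟩, ⟨.ofNat 4302, .ofNat 201, .negSucc 521, .negSucc 1308, .negSucc 558, .negSucc 329⟩, ⟨.negSucc 8761, .negSucc 214, .ofNat 405, .ofNat 2754, .ofNat 534, .ofNat 850⟩, ⟨.negSucc 634, .negSucc 80, .ofNat 119, .negSucc 132, .negSucc 545, .negSucc 145⟩, .ofNat 664, .ofNat 683, .ofNat 0, .ofNat 683, .ofNat 1594, .ofNat 0, .ofNat 128, .negSucc 445, .negSucc 412, .ofNat 0, .ofNat 326, .ofNat 214, .ofNat 0, .ofNat 0, .ofNat 516, .ofNat 2806, .ofNat 0, .ofNat 0, .ofNat 18437170451663988582348959088012951552, .ofNat 0, .ofNat 0, .ofNat 0, .ofNat 626534844788055660522351127646804377600, .ofNat 0, .ofNat 0, .ofNat 0, .ofNat 3045073260717699479653896649546674470912, .ofNat 0, .ofNat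 0, .ofNat 0, .ofNat 3577353465802044850894449744380199698432, .ofNat 0⟩)
    (by decide +kernel)
theorem L02301 : Good (Phi V5.P V5.D (-1) (-1)) ⟨5, 26, 3, 2, 2, 3, 3, 1, 5, 5⟩ :=
  leafX_sound T5.ok_mm T5.Ymm.bz_eq (w := 224) (c := ⟨⟨.negSucc 4380, .negSucc 128, .ofNat 14, .ofNat 1588, .ofNat 335, .ofNat 549⟩, ⟨.ofNat 1677, .ofNat 66, .ofNat 304, .negSucc 741, .negSucc 174, .negSucc 262⟩, ⟨.ofNat 3452, .ofNat 62, .negSucc 189, .negSucc 1125, .negSucc 524, .negSucc 410⟩, ⟨.negSucc 7187, .negSucc 84, .negSucc 8, .ofNat 2446, .ofNat 394, .ofNat 810⟩, ⟨.negSucc 1094, .negSucc 70, .ofNat 108, .ofNat 9, .negSucc 259, .negSucc 69⟩, .ofNat 1159, .ofNat 1637, .ofNat 0, .ofNat 1637, .ofNat 3502, .ofNat 0, .ofNat 128, .negSucc 603, .negSucc 352, .ofNat 0, .ofNat 404, .ofNat 174, .ofNat 0, .ofNat 0, .ofNat 713, .ofNat 5308, .ofNat 0, .ofNat 0, .ofNat 19867224759050415080757074316933201920,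 .ofNat 0, .ofNat 0, .ofNat 0, .ofNat 5182306236987161434203671403629134217216, .ofNat 0, .ofNat 0, .ofNat 0, .ofNat 15573713229360314822819816659047474528256, .ofNat 0, .ofNat 0, .ofNat 0, .ofNat 4938407675322714026267773415154375458816, .ofNat 0⟩)
    (by decide +kernel)
theorem L02302 : Good (Phi V5.P V5.D (-1) (-1)) ⟨5, 27, 3, 2, 2, 3, 3, 1, 4, 2⟩ :=
  out_sound (S := T5.ds_mm) T5.ok_mm (w := 57) (j := 3) (by decide +kernel)
theorem L02303 : Good (Phi V5.P V5.D (-1) (-1)) ⟨3, 7, 3, 2, 2, 3, 3, 1, 4, 2⟩ :=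
  out_sound (S := T5.ds_mm) T5.ok_mm (w := 45) (j := 3) (by decide +kernel)
theorem L02304 : Good (Phi V5.P V5.D (-1) (-1)) ⟨3, 4, 3, 2, 2, 3, 2, 0, 4, 3⟩ :=
  out_sound (S := T5.ds_mm) T5.ok_mm (w := 45) (j := 3) (by decide +kernel)
theorem L02305 : Good (Phi V5.P V5.D (-1) (-1)) ⟨3, 5, 3, 2, 3, 6, 2, 0, 4, 3⟩ :=
  leafX_sound T5.ok_mm T5.Ymm.bz_eq (w := 219) (c := ⟨⟨.negSucc 2963, .negSucc 338, .ofNat 74, .ofNat 434, .ofNat 311, .ofNat 606⟩, ⟨.ofNat 904, .ofNat 183, .ofNat 243, .negSucc 156, .negSucc 110, .negSucc 208⟩, ⟨.ofNat 2655, .ofNat 289, .negSucc 233, .negSucc 298, .negSucc 936, .negSucc 429⟩, ⟨.negSucc 5795, .negSucc 186, .ofNat 64, .ofNat 692, .ofNat 531, .ofNat 1043⟩, ⟨.negSucc 1066, .negSucc 153, .ofNat 45, .negSucc 150, .negSucc 21, .ofNat 8⟩, .ofNat 328, .ofNat 166, .ofNat 0, .ofNat 166, .ofNat 725, .ofNat 0, .ofNat 128, .negSucc 126, .negSucc 94, .ofNat 0, .ofNat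 133, .ofNat 41, .ofNat 0, .ofNat 0, .ofNat 324, .ofNat 2781, .ofNat 38472953751065941126788355201133212537454592, .ofNat 0, .ofNat 6673654383937756550265371906703131410432, .ofNat 0, .ofNat 0, .ofNat 0, .ofNat 0, .ofNat 0, .ofNat 0, .ofNat 0, .ofNat 0, .ofNat 0, .ofNat 2071385747280787474554022469337979525554765824, .ofNat 0, .ofNat 57830657588686362848944765097111594205184, .ofNat 0⟩)
    (by decide +kernel)
theorem L02306 : Good (Phi V5.P V5.D (-1) (-1)) ⟨3, 5, 3, 2, 3, 7, 2, 0, 4, 3⟩ :=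
  leafX_sound T5.ok_mm T5.Ymm.bz_eq (w := 219) (c := ⟨⟨.negSucc 2579, .negSucc 222, .ofNat 6, .ofNat 375, .ofNat 360, .ofNat 551⟩, ⟨.ofNat 766, .ofNat 141, .ofNat 225, .negSucc 112, .negSucc 123, .negSucc 189⟩, ⟨.ofNat 2416, .ofNat 158, .ofNat 23, .negSucc 606, .negSucc 865, .negSucc 487⟩, ⟨.negSucc 5127, .negSucc 62, .negSucc 11, .ofNat 822, .ofNat 573, .ofNat 940⟩, ⟨.negSucc 1065, .negSucc 302, .ofNat 170, .ofNat 499, .negSucc 162, .negSucc 7⟩, .ofNat 534, .ofNat 541, .ofNat 0, .ofNat 541, .ofNat 1856, .ofNat 0, .ofNat 128, .negSucc 155, .negSucc 143, .ofNat 0, .ofNat 121, .ofNat 43, .ofNat 0, .ofNat 0, .ofNat 709, .ofNat 3460, .ofNat 0, .ofNat 0, .ofNat 0, .ofNat 0, .ofNat 0, .ofNat 0, .ofNat 170221524087163419058724898442270727995392, .ofNat 0, .ofNat 0, .ofNat 0, .ofNat 0, .ofNat 0, .ofNat 0, .ofNat 0, .ofNat 0, .ofNat 0⟩)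
    (by decide +kernel)
theorem L02307 : Good (Phi V5.P V5.D (-1) (-1)) ⟨4, 12, 3, 2, 3, 6, 2, 0, 4, 3⟩ :=
  leafX_sound T5.ok_mm T5.Ymm.bz_eq (w := 224) (c := ⟨⟨.negSucc 3521, .negSucc 157, .ofNat 54, .ofNat 557, .ofNat 353, .ofNat 747⟩, ⟨.ofNat 1243, .ofNat 86, .ofNat 248, .negSucc 248, .negSucc 147, .negSucc 310⟩, ⟨.ofNat 3202, .ofNat 131, .negSucc 198, .negSucc 378, .negSucc 1045, .negSucc 567⟩, ⟨.negSucc 6173, .negSucc 46, .ofNat 10, .ofNat 804, .ofNat 545, .ofNat 1197⟩, ⟨.negSucc 1094, .negSucc 48, .negSucc 6, .negSucc 188, .negSucc 74, .negSucc 34⟩, .ofNat 327, .ofNat 179, .ofNat 0, .ofNat 179, .ofNat 649, .ofNat 0, .ofNat 128, .negSucc 163, .negSucc 109, .ofNat 0, .ofNat 174, .ofNat 56, .ofNat 0, .ofNat 0, .ofNat 365, .ofNat 2564, .ofNat 604539985669333589707605131269475068079505408, .ofNat 0, .ofNat 1127181149508351423653187264722180767744, .ofNat 0, .ofNat 0, .ofNat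 0, .ofNat 34690246519586740055939521172437095940096, .ofNat 0, .ofNat 0, .ofNat 0, .ofNat 0, .ofNat 0, .ofNat 33140478620839605415354493294760991978023813120, .ofNat 0, .ofNat 82054403032943441713222629340668198125568, .ofNat 0⟩)
    (by decide +kernel)
theorem L02308 : Good (Phi V5.P V5.D (-1) (-1)) ⟨4, 12, 3, 2, 3, 7, 2, 0, 4, 3⟩ :=
  leafX_sound T5.ok_mm T5.Ymm.bz_eq (w := 223) (c := ⟨⟨.negSucc 2911, .negSucc 68, .ofNat 54, .ofNat 438, .ofNat 411, .ofNat 590⟩, ⟨.ofNat 989, .ofNat 32, .ofNat 218, .negSucc 152, .negSucc 169, .negSucc 242⟩, ⟨.ofNat 2730, .ofNat 65, .negSucc 33, .negSucc 570, .negSucc 1034, .negSucc 511⟩, ⟨.negSucc 5294, .ofNat 32, .ofNat 47, .ofNat 920, .ofNat 612, .ofNat 965⟩, ⟨.negSucc 1358, .negSucc 110, .ofNat 92, .ofNat 533, .negSucc 153, .ofNat 32⟩, .ofNat 536, .ofNat 517, .ofNat 0, .ofNat 517, .ofNat 1480, .ofNat 0, .ofNat 128, .negSucc 201, .negSucc 125,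 .ofNat 0, .ofNat 175, .ofNat 46, .ofNat 0, .ofNat 0, .ofNat 594, .ofNat 2803, .ofNat 0, .ofNat 0, .ofNat 0, .ofNat 0, .ofNat 0, .ofNat 0, .ofNat 24107307753034104776539497850752995426304, .ofNat 0, .ofNat 0, .ofNat 0, .ofNat 157765072891724880711748451315435278696448, .ofNat 0, .ofNat 0, .ofNat 0, .ofNat 0, .ofNat 0⟩)
    (by decide +kernel)
theorem L02309 : Good (Phi V5.P V5.D (-1) (-1)) ⟨4, 13, 3, 2, 2, 3, 2, 0, 4, 3⟩ :=
  leafX_sound T5.ok_mm T5.Ymm.bz_eq (w := 211) (c := ⟨⟨.negSucc 3928, .negSucc 304, .ofNat 205, .ofNat 1213, .ofNat 414, .ofNat 753⟩, ⟨.ofNat 1499, .ofNat 155, .ofNat 166, .negSucc 563, .negSucc 201, .negSucc 354⟩, ⟨.ofNat 3739, .ofNat 205, .negSucc 521, .negSucc 897, .negSucc 1062, .negSucc 577⟩, ⟨.negSucc 6540, .negSucc 167, .ofNat 254, .ofNat 1888, .ofNat 570, .ofNat 1139⟩, ⟨.negSucc 1253, .ofNat 34, .ofNat 98, .ofNat 45, .negSucc 142, .negSucc 43⟩, .ofNat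 1080, .ofNat 1490, .ofNat 0, .ofNat 1490, .ofNat 3219, .ofNat 0, .ofNat 128, .negSucc 392, .negSucc 182, .ofNat 0, .ofNat 280, .ofNat 92, .ofNat 0, .ofNat 0, .ofNat 672, .ofNat 3853, .ofNat 265846364092215743800658583707942377226240, .ofNat 0, .ofNat 102252155198545355122465125246697472, .ofNat 0, .ofNat 0, .ofNat 0, .ofNat 40331466771505498858574351812070998016, .ofNat 0, .ofNat 0, .ofNat 0, .ofNat 46730955892777245265147783102517477376, .ofNat 0, .ofNat 16622091419300746771956635708818568245149696, .ofNat 0, .ofNat 55506803817465684683242455529466888192, .ofNat 0⟩)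
    (by decide +kernel)
theorem L02310 : Good (Phi V5.P V5.D (-1) (-1)) ⟨3, 7, 3, 2, 2, 3, 2, 0, 4, 3⟩ :=
  out_sound (S := T5.ds_mm) T5.ok_mm (w := 45) (j := 3) (by decide +kernel)
theorem L02311 : Good (Phi V5.P V5.D (-1) (-1)) ⟨3, 4, 3, 2, 2, 3, 2, 1, 4, 2⟩ :=
  out_sound (S := T5.ds_mm) T5.ok_mm (w := 45) (j := 3) (by decide +kernel)
theorem L02312 : Good (Phi V5.P V5.D (-1) (-1)) ⟨4, 10, 3, 2, 2, 3, 2, 1, 4, 2⟩ :=
  out_sound (S := T5.ds_mm) T5.ok_mm (w := 51) (j := 3) (by decide +kernel)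
theorem L02313 : Good (Phi V5.P V5.D (-1) (-1)) ⟨4, 11, 3, 2, 3, 6, 2, 1, 4, 2⟩ :=
  leafX_sound T5.ok_mm T5.Ymm.bz_eq (w := 224) (c := ⟨⟨.negSucc 3237, .negSucc 320, .ofNat 80, .ofNat 564, .ofNat 527, .ofNat 393⟩, ⟨.ofNat 1011, .ofNat 156, .ofNat 246, .negSucc 199, .negSucc 181, .negSucc 127⟩, ⟨.ofNat 2200, .ofNat 218, .negSucc 65, .negSucc 385, .negSucc 627, .negSucc 357⟩, ⟨.negSucc 6133, .negSucc 330, .ofNat 61, .ofNat 896, .ofNat 908, .ofNat 725⟩, ⟨.negSucc 1339, .negSucc 45, .negSucc 33, .negSucc 191, .negSucc 0, .ofNat 208⟩, .ofNat 595, .ofNat 697, .ofNat 0, .ofNat 697, .ofNat 2226, .ofNat 0, .ofNat 128, .negSucc 206, .negSucc 262, .ofNat 0, .ofNat 108, .ofNat 97, .ofNat 0, .ofNat 0, .ofNat 420, .ofNat 1601, .ofNat 0, .ofNat 0, .ofNat 0, .ofNat 0, .ofNat 0, .ofNat 0, .ofNat 0, .ofNat 0, .ofNat 0, .ofNat 0, .ofNat 42184441788634132350630308177952815185920, .ofNat 0, .ofNat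 0, .ofNat 0, .ofNat 112340924136741609136932324753346905767936, .ofNat 0⟩)
    (by decide +kernel)
theorem L02314 : Good (Phi V5.P V5.D (-1) (-1)) ⟨4, 11, 3, 2, 3, 7, 2, 1, 4, 2⟩ :=
  leafX_sound T5.ok_mm T5.Ymm.bz_eq (w := 223) (c := ⟨⟨.negSucc 2780, .negSucc 165, .ofNat 110, .ofNat 407, .ofNat 623, .ofNat 423⟩, ⟨.ofNat 871, .ofNat 79, .ofNat 204, .negSucc 129, .negSucc 224, .negSucc 142⟩, ⟨.ofNat 1896, .ofNat 112, .negSucc 21, .negSucc 389, .negSucc 633, .negSucc 405⟩, ⟨.negSucc 5345, .negSucc 141, .ofNat 150, .ofNat 837, .ofNat 979, .ofNat 737⟩, ⟨.negSucc 1370, .negSucc 150, .ofNat 132, .ofNat 395, .negSucc 280, .ofNat 61⟩, .ofNat 595, .ofNat 697, .ofNat 0, .ofNat 697, .ofNat 2226, .ofNat 0, .ofNat 128, .negSucc 245, .negSucc 186, .ofNat 0, .ofNat 139, .ofNat 64, .ofNat 0, .ofNat 0, .ofNat 338, .ofNat 1425, .ofNat 0, .ofNat 0, .ofNat 291513802773511813716497445244324806656,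 .ofNat 0, .ofNat 0, .ofNat 0, .ofNat 0, .ofNat 0, .ofNat 0, .ofNat 0, .ofNat 0, .ofNat 0, .ofNat 0, .ofNat 0, .ofNat 2045443303296085046414110682573537542144, .ofNat 0⟩)
    (by decide +kernel)
theorem L02315 : Good (Phi V5.P V5.D (-1) (-1)) ⟨3, 4, 3, 2, 2, 3, 2, 1, 4, 3⟩ :=
  out_sound (S := T5.ds_mm) T5.ok_mm (w := 45) (j := 3) (by decide +kernel)
theorem L02316 : Good (Phi V5.P V5.D (-1) (-1)) ⟨3, 5, 3, 2, 3, 6, 2, 1, 4, 3⟩ :=
  leafX_sound T5.ok_mm T5.Ymm.bz_eq (w := 220) (c := ⟨⟨.negSucc 2630, .negSucc 245, .negSucc 25, .ofNat 447, .ofNat 362, .ofNat 496⟩, ⟨.ofNat 774, .ofNat 152, .ofNat 264, .negSucc 154, .negSucc 115, .negSucc 161⟩, ⟨.ofNat 1774, .ofNat 196, .negSucc 61, .negSucc 387, .negSucc 612, .negSucc 406⟩, ⟨.negSucc 5254, .negSucc 57, .negSucc 91, .ofNat 713, .ofNat 698, .ofNat 922⟩, ⟨.negSucc 1125, .negSucc 234, .ofNat 48, .negSucc 161, .ofNat 196, .ofNat 172⟩,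 .ofNat 534, .ofNat 543, .ofNat 0, .ofNat 543, .ofNat 1860, .ofNat 0, .ofNat 128, .negSucc 185, .negSucc 111, .ofNat 0, .ofNat 122, .ofNat 41, .ofNat 0, .ofNat 0, .ofNat 390, .ofNat 2394, .ofNat 0, .ofNat 0, .ofNat 1759791649868972649004546435408273080320, .ofNat 0, .ofNat 0, .ofNat 0, .ofNat 56012138896331357753809971300990074224640, .ofNat 0, .ofNat 0, .ofNat 0, .ofNat 49402346228523643554700799779810935046144, .ofNat 0, .ofNat 0, .ofNat 0, .ofNat 339625079282118624023784664615250215043072, .ofNat 0⟩)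
    (by decide +kernel)
theorem L02317 : Good (Phi V5.P V5.D (-1) (-1)) ⟨3, 5, 3, 2, 3, 7, 2, 1, 4, 3⟩ :=
  leafX_sound T5.ok_mm T5.Ymm.bz_eq (w := 219) (c := ⟨⟨.negSucc 2197, .negSucc 83, .ofNat 81, .ofNat 363, .ofNat 369, .ofNat 338⟩, ⟨.ofNat 655, .ofNat 55, .ofNat 181, .negSucc 109, .negSucc 119, .negSucc 102⟩, ⟨.ofNat 1442, .ofNat 55, .negSucc 104, .negSucc 358, .negSucc 549, .negSucc 365⟩, ⟨.negSucc 4526, .ofNat 112, .ofNat 55, .ofNat 776, .ofNat 688, .ofNat 699⟩, ⟨.negSucc 1396, .negSucc 291, .ofNat 41, .ofNat 424, .ofNat 143, .ofNat 341⟩, .ofNat 864, .ofNat 1367, .ofNat 0, .ofNat 1367, .ofNat 4198, .ofNat 0, .ofNat 128, .negSucc 305, .negSucc 102, .ofNat 0, .ofNat 170, .ofNat 33, .ofNat 0, .ofNat 0, .ofNat 506, .ofNat 1488, .ofNat 0, .ofNat 0, .ofNat 2042448576149216385269653229214334189568, .ofNat 0, .ofNat 0, .ofNat 0, .ofNat 108960134153078005599636204520437696167936,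 .ofNat 0, .ofNat 0, .ofNat 0, .ofNat 0, .ofNat 0, .ofNat 0, .ofNat 0, .ofNat 271878761583972251799221031396035616833536, .ofNat 0⟩)
    (by decide +kernel)
theorem L02318 : Good (Phi V5.P V5.D (-1) (-1)) ⟨4, 12, 3, 2, 3, 6, 2, 1, 5, 4⟩ :=
  leafX_sound T5.ok_mm T5.Ymm.bz_eq (w := 229) (c := ⟨⟨.negSucc 4129, .negSucc 811, .ofNat 409, .ofNat 903, .ofNat 813, .ofNat 339⟩, ⟨.ofNat 1468, .ofNat 405, .ofNat 137, .negSucc 414, .negSucc 363, .negSucc 145⟩, ⟨.ofNat 2831, .ofNat 591, .negSucc 355, .negSucc 576, .negSucc 841, .negSucc 269⟩, ⟨.negSucc 7124, .negSucc 941, .ofNat 498, .ofNat 1278, .ofNat 1168, .ofNat 533⟩, ⟨.negSucc 1003, .ofNat 65, .negSucc 179, .negSucc 362, .negSucc 280, .ofNat 16⟩, .ofNat 538, .ofNat 516, .ofNat 0, .ofNat 516, .ofNat 1436, .ofNat 0, .ofNat 128, .negSucc 310, .negSucc 382, .ofNat 0, .ofNat 196, .ofNat 168, .ofNat 0, .ofNat 0, .ofNat 460, .ofNat 1454, .ofNat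 0, .ofNat 0, .ofNat 0, .ofNat 0, .ofNat 0, .ofNat 0, .ofNat 567759705376093396940235624395381466464256, .ofNat 0, .ofNat 0, .ofNat 0, .ofNat 0, .ofNat 0, .ofNat 0, .ofNat 0, .ofNat 2333986728200406102509814247367567770386432, .ofNat 0⟩)
    (by decide +kernel)
theorem L02319 : Good (Phi V5.P V5.D (-1) (-1)) ⟨4, 12, 3, 2, 3, 7, 2, 1, 5, 4⟩ :=
  leafX_sound T5.ok_mm T5.Ymm.bz_eq (w := 229) (c := ⟨⟨.negSucc 3347, .negSucc 215, .ofNat 178, .ofNat 619, .ofNat 902, .ofNat 314⟩, ⟨.ofNat 1184, .ofNat 72, .ofNat 191, .negSucc 249, .negSucc 406, .negSucc 134⟩, ⟨.ofNat 2307, .ofNat 106, .negSucc 30, .negSucc 510, .negSucc 867, .negSucc 291⟩, ⟨.negSucc 6003, .negSucc 214, .ofNat 221, .ofNat 1143, .ofNat 1297, .ofNat 505⟩, ⟨.negSucc 1462, .negSucc 120, .ofNat 40, .ofNat 374, .negSucc 342, .ofNat 36⟩, .ofNat 545, .ofNat 531, .ofNat 0, .ofNat 531, .ofNat 1464, .ofNat 0, .ofNat 128, .negSucc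 311, .negSucc 326, .ofNat 0, .ofNat 209, .ofNat 129, .ofNat 0, .ofNat 0, .ofNat 454, .ofNat 1321, .ofNat 0, .ofNat 0, .ofNat 9179334629710888234484374258351521923072, .ofNat 0, .ofNat 0, .ofNat 0, .ofNat 617348675317556337386915937122277128142848, .ofNat 0, .ofNat 0, .ofNat 0, .ofNat 0, .ofNat 0, .ofNat 0, .ofNat 0, .ofNat 4979661090883235127446654798667885836238848, .ofNat 0⟩)
    (by decide +kernel)
theorem L02320 : Good (Phi V5.P V5.D (-1) (-1)) ⟨4, 12, 3, 2, 2, 3, 2, 1, 5, 5⟩ :=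
  leafX_sound T5.ok_mm T5.Ymm.bz_eq (w := 215) (c := ⟨⟨.negSucc 3699, .negSucc 250, .ofNat 141, .ofNat 1401, .ofNat 678, .ofNat 378⟩, ⟨.ofNat 1315, .ofNat 130, .ofNat 208, .negSucc 596, .negSucc 298, .negSucc 156⟩, ⟨.ofNat 2543, .ofNat 110, .negSucc 116, .negSucc 1019, .negSucc 756, .negSucc 314⟩, ⟨.negSucc 6521, .negSucc 190, .ofNat 172, .ofNat 2229, .ofNat 1006, .ofNat 628⟩, ⟨.negSucc 1310, .negSucc 26, .ofNat 66, .negSucc 4, .negSucc 153, .ofNat 55⟩, .ofNat 544, .ofNat 529, .ofNat 0, .ofNat 529, .ofNat 1476, .ofNat 0, .ofNat 128, .negSucc 257, .negSucc 189, .ofNat 0, .ofNat 180, .ofNat 81, .ofNat 0, .ofNat 0, .ofNat 354, .ofNat 1392, .ofNat 0, .ofNat 0, .ofNat 461676826785538752376830862118879232, .ofNat 0, .ofNat 0, .ofNat 0, .ofNat 66309180178436276336817823250317836288, .ofNat 0, .ofNat 0, .ofNat 0, .ofNat 0, .ofNat 0, .ofNat 0, .ofNat 0, .ofNat 181344794066347519986908735156523106304,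 .ofNat 0⟩)
    (by decide +kernel)
theorem L02321 : Good (Phi V5.P V5.D (-1) (-1)) ⟨5, 26, 3, 2, 3, 6, 2, 1, 4, 2⟩ :=
  leafX_sound T5.ok_mm T5.Ymm.bz_eq (w := 229) (c := ⟨⟨.negSucc 4117, .negSucc 256, .negSucc 628, .ofNat 1010, .ofNat 755, .ofNat 1111⟩, ⟨.ofNat 1499, .ofNat 123, .ofNat 654, .negSucc 503, .negSucc 369, .negSucc 514⟩, ⟨.ofNat 3132, .ofNat 236, .ofNat 93, .negSucc 672, .negSucc 830, .negSucc 870⟩, ⟨.negSucc 7050, .negSucc 304, .negSucc 769, .ofNat 1365, .ofNat 1059, .ofNat 1730⟩, ⟨.negSucc 1642, .negSucc 101, .ofNat 568, .negSucc 408, .negSucc 223, .ofNat 49⟩, .ofNat 794, .ofNat 909, .ofNat 0, .ofNat 909, .ofNat 2031, .ofNat 0, .ofNat 128, .negSucc 274, .negSucc 359, .ofNat 0, .ofNat 190, .ofNat 182, .ofNat 0, .ofNat 0, .ofNat 445, .ofNat 1518, .ofNat 0, .ofNat 0, .ofNat 1690483404268991611143342376457760407552, .ofNat 0, .ofNat 0, .ofNat 0, .ofNat 28378930910009948133915943378039687086080,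 .ofNat 0, .ofNat 0, .ofNat 0, .ofNat 411109948725548578186218202507614902812672, .ofNat 0, .ofNat 0, .ofNat 0, .ofNat 77889879583125515758739867898252233801728, .ofNat 0⟩)
    (by decide +kernel)
theorem L02322 : Good (Phi V5.P V5.D (-1) (-1)) ⟨5, 26, 3, 2, 3, 7, 2, 1, 4, 2⟩ :=
  leafX_sound T5.ok_mm T5.Ymm.bz_eq (w := 228) (c := ⟨⟨.negSucc 3483, .negSucc 331, .ofNat 160, .ofNat 601, .ofNat 744, .ofNat 701⟩, ⟨.ofNat 1252, .ofNat 181, .ofNat 182, .negSucc 247, .negSucc 362, .negSucc 304⟩, ⟨.ofNat 2385, .ofNat 152, .negSucc 68, .negSucc 435, .negSucc 799, .negSucc 598⟩, ⟨.negSucc 6093, .negSucc 283, .ofNat 133, .ofNat 1130, .ofNat 1056, .ofNat 1217⟩, ⟨.negSucc 1753, .ofNat 230, .negSucc 24, .ofNat 441, .negSucc 191, .ofNat 300⟩, .ofNat 1077, .ofNat 1483, .ofNat 0, .ofNat 1483, .ofNat 3204, .ofNat 0, .ofNat 128, .negSucc 267, .negSucc 278, .ofNat 0, .ofNat 175, .ofNat 130, .ofNat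 0, .ofNat 0, .ofNat 487, .ofNat 1805, .ofNat 0, .ofNat 0, .ofNat 229288434508613882005246995620597596160, .ofNat 0, .ofNat 0, .ofNat 0, .ofNat 49486198534265639541331706800299093000192, .ofNat 0, .ofNat 0, .ofNat 0, .ofNat 80348115022165559133041281397916153413632, .ofNat 0, .ofNat 0, .ofNat 0, .ofNat 62290628487265490407080324703499052908544, .ofNat 0⟩)
    (by decide +kernel)
theorem L02323 : Good (Phi V5.P V5.D (-1) (-1)) ⟨5, 27, 3, 2, 2, 3, 2, 1, 4, 2⟩ :=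
  out_sound (S := T5.ds_mm) T5.ok_mm (w := 57) (j := 3) (by decide +kernel)
theorem L02324 : Good (Phi V5.P V5.D (-1) (-1)) ⟨3, 6, 3, 2, 3, 6, 2, 1, 4, 3⟩ :=
  leafX_sound T5.ok_mm T5.Ymm.bz_eq (w := 218) (c := ⟨⟨.negSucc 3171, .negSucc 342, .ofNat 78, .ofNat 646, .ofNat 466, .ofNat 682⟩, ⟨.ofNat 1123, .ofNat 175, .ofNat 205, .negSucc 290, .negSucc 196, .negSucc 293⟩, ⟨.ofNat 2197, .ofNat 182, .negSucc 129, .negSucc 499, .negSucc 729, .negSucc 545⟩, ⟨.negSucc 5662, .negSucc 186, .ofNat 40, .ofNat 932, .ofNat 813, .ofNat 1162⟩, ⟨.negSucc 1289, .negSucc 112, .ofNat 16, .negSucc 244, .ofNat 166, .ofNat 159⟩, .ofNat 328, .ofNat 183, .ofNat 0, .ofNat 183, .ofNat 645, .ofNat 0, .ofNat 128, .negSucc 146, .negSucc 74, .ofNat 0, .ofNat 151, .ofNat 33, .ofNat 0, .ofNat 0, .ofNat 214, .ofNat 601, .ofNat 0, .ofNat 0, .ofNat 908136344784424745169981870078949326848, .ofNat 0, .ofNat 0, .ofNat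 0, .ofNat 0, .ofNat 0, .ofNat 0, .ofNat 0, .ofNat 0, .ofNat 0, .ofNat 0, .ofNat 0, .ofNat 75037485577277821669980318478438443778048, .ofNat 0⟩)
    (by decide +kernel)
theorem L02325 : Good (Phi V5.P V5.D (-1) (-1)) ⟨3, 6, 3, 2, 3, 7, 2, 1, 4, 3⟩ :=
  leafX_sound T5.ok_mm T5.Ymm.bz_eq (w := 219) (c := ⟨⟨.negSucc 2436, .negSucc 28, .ofNat 53, .ofNat 437, .ofNat 446, .ofNat 428⟩, ⟨.ofNat 789, .ofNat 16, .ofNat 189, .negSucc 149, .negSucc 172, .negSucc 150⟩, ⟨.ofNat 1622, .ofNat 38, .negSucc 53, .negSucc 365, .negSucc 681, .negSucc 458⟩, ⟨.negSucc 4600, .ofNat 166, .ofNat 48, .ofNat 866, .ofNat 767, .ofNat 798⟩, ⟨.negSucc 1587, .negSucc 265, .ofNat 96, .ofNat 402, .ofNat 131, .ofNat 266⟩, .ofNat 701, .ofNat 777, .ofNat 0, .ofNat 777, .ofNat 1865, .ofNat 0, .ofNat 128, .negSucc 202, .negSucc 73, .ofNat 0, .ofNat 171, .ofNat 29, .ofNat 0, .ofNat 0, .ofNat 323, .ofNat 774, .ofNat 0,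 .ofNat 0, .ofNat 0, .ofNat 0, .ofNat 0, .ofNat 0, .ofNat 109631418915062297548808751159339034607616, .ofNat 0, .ofNat 0, .ofNat 0, .ofNat 227044371205492194611042983482154530373632, .ofNat 0, .ofNat 0, .ofNat 0, .ofNat 108827672452848705479250069780097870594048, .ofNat 0⟩)
    (by decide +kernel)
theorem L02326 : Good (Phi V5.P V5.D (-1) (-1)) ⟨3, 7, 3, 2, 2, 3, 2, 1, 3, 1⟩ :=
  out_sound (S := T5.ds_mm) T5.ok_mm (w := 45) (j := 3) (by decide +kernel)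
theorem L02327 : Good (Phi V5.P V5.D (-1) (-1)) ⟨2, 2, 3, 3, 1, 1, 2, 0, 3, 0⟩ :=
  out_sound (S := T5.ds_mm) T5.ok_mm (w := 39) (j := 3) (by decide +kernel)
theorem L02328 : Good (Phi V5.P V5.D (-1) (-1)) ⟨4, 12, 3, 3, 3, 4, 4, 0, 4, 0⟩ :=
  leafX_sound T5.ok_mm T5.Ymm.bz_eq (w := 232) (c := ⟨⟨.ofNat 2908, .ofNat 1884, .negSucc 76, .ofNat 1809, .negSucc 196, .negSucc 4582⟩, ⟨.negSucc 1128, .negSucc 1350, .ofNat 137, .negSucc 897, .ofNat 113, .ofNat 2129⟩, ⟨.negSucc 1063, .negSucc 654, .negSucc 58, .ofNat 30, .negSucc 274, .ofNat 1450⟩, ⟨.ofNat 3774, .ofNat 1990, .negSucc 177, .ofNat 2242, .negSucc 33, .negSucc 7215⟩, ⟨.negSucc 2759, .negSucc 824, .ofNat 181, .negSucc 1278, .ofNat 608, .ofNat 60⟩, .ofNat 617, .ofNat 667, .ofNat 0, .ofNat 667, .ofNat 1658, .ofNat 0, .ofNat 128, .negSucc 584, .negSucc 329, .ofNat 0, .ofNat 327, .ofNat 161, .ofNat 0, .ofNat 0, .ofNat 547, .ofNat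 5633, .ofNat 0, .ofNat 0, .ofNat 0, .ofNat 0, .ofNat 0, .ofNat 0, .ofNat 0, .ofNat 0, .ofNat 9159710052992245217349469175413332913864180760576, .ofNat 0, .ofNat 2659005678440013901320074101506234470367232, .ofNat 0, .ofNat 0, .ofNat 0, .ofNat 0, .ofNat 0⟩)
    (by decide +kernel)
theorem L02329 : Good (Phi V5.P V5.D (-1) (-1)) ⟨4, 13, 3, 3, 3, 4, 4, 0, 4, 0⟩ :=
  leafX_sound T5.ok_mm T5.Ymm.bz_eq (w := 232) (c := ⟨⟨.ofNat 4399, .ofNat 3149, .negSucc 491, .ofNat 2567, .negSucc 172, .negSucc 4830⟩, ⟨.negSucc 2248, .negSucc 2329, .ofNat 312, .negSucc 1439, .ofNat 90, .ofNat 2542⟩, ⟨.negSucc 1522, .negSucc 1756, .ofNat 458, .negSucc 41, .negSucc 482, .ofNat 1307⟩, ⟨.ofNat 5231, .ofNat 3405, .negSucc 720, .ofNat 3151, .negSucc 47, .negSucc 7388⟩, ⟨.negSucc 3535, .negSucc 993, .ofNat 498, .negSucc 1453, .ofNat 576, .negSucc 194⟩, .ofNat 649, .ofNat 689, .ofNat 0, .ofNat 689, .ofNat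 1515, .ofNat 0, .ofNat 128, .negSucc 521, .negSucc 311, .ofNat 0, .ofNat 313, .ofNat 170, .ofNat 0, .ofNat 0, .ofNat 433, .ofNat 1621, .ofNat 0, .ofNat 0, .ofNat 1124871349409044617582081468370842604797952, .ofNat 0, .ofNat 0, .ofNat 0, .ofNat 0, .ofNat 0, .ofNat 6780594479547606386084481512432695956844882952192, .ofNat 0, .ofNat 80456355045043328284405142478290158004207616, .ofNat 0, .ofNat 0, .ofNat 0, .ofNat 0, .ofNat 0⟩)
    (by decide +kernel)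
theorem L02330 : Good (Phi V5.P V5.D (-1) (-1)) ⟨4, 12, 3, 3, 3, 5, 4, 0, 5, 0⟩ :=
  leafX_sound T5.ok_mm T5.Ymm.bz_eq (w := 239) (c := ⟨⟨.ofNat 4072, .ofNat 2907, .negSucc 602, .negSucc 214, .negSucc 587, .negSucc 618⟩, ⟨.negSucc 1586, .negSucc 1981, .ofNat 258, .ofNat 116, .ofNat 313, .ofNat 223⟩, ⟨.negSucc 175, .negSucc 1151, .ofNat 466, .ofNat 335, .negSucc 552, .negSucc 122⟩, ⟨.ofNat 5497, .ofNat 2995, .negSucc 786, .negSucc 187, .negSucc 473, .negSucc 1640⟩, ⟨.negSucc 3333, .negSucc 1607, .ofNat 987, .ofNat 260, .ofNat 956, .negSucc 1405⟩, .ofNat 1064, .ofNat 1533, .ofNat 0, .ofNat 1533, .ofNat 3454, .ofNat 0, .ofNat 128, .negSucc 1320, .negSucc 244, .ofNat 0, .ofNat 683, .ofNat 120, .ofNat 0, .ofNat 0, .ofNat 446, .ofNat 6716, .ofNat 0, .ofNat 0, .ofNat 0, .ofNat 0, .ofNat 0, .ofNat 0, .ofNat 808098102567626645665418833371492288173178880, .ofNat 0, .ofNat 0, .ofNat 0, .ofNat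 0, .ofNat 0, .ofNat 0, .ofNat 0, .ofNat 1610057236620611010401459943475495121690034176, .ofNat 0⟩)
    (by decide +kernel)
theorem L02331 : Good (Phi V5.P V5.D (-1) (-1)) ⟨4, 13, 3, 3, 3, 5, 4, 0, 5, 0⟩ :=
  leafX_sound T5.ok_mm T5.Ymm.bz_eq (w := 239) (c := ⟨⟨.ofNat 7108, .ofNat 4056, .negSucc 1079, .negSucc 958, .negSucc 1023, .ofNat 175⟩, ⟨.negSucc 3687, .negSucc 2986, .ofNat 571, .ofNat 550, .ofNat 599, .negSucc 188⟩, ⟨.negSucc 1204, .negSucc 1550, .ofNat 546, .ofNat 634, .negSucc 587, .negSucc 526⟩, ⟨.ofNat 8661, .ofNat 4299, .negSucc 1492, .negSucc 1013, .negSucc 953, .negSucc 759⟩, ⟨.negSucc 4839, .negSucc 1707, .ofNat 864, .ofNat 619, .ofNat 1204, .negSucc 1943⟩, .ofNat 600, .ofNat 590, .ofNat 0, .ofNat 590, .ofNat 1295, .ofNat 0, .ofNat 128, .negSucc 1534, .negSucc 466, .ofNat 0, .ofNat 917, .ofNat 262, .ofNat 0, .ofNat 0, .ofNat 650, .ofNat 4654, .ofNat 0, .ofNat 0,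 .ofNat 107998807893874508187296152387780200682749952, .ofNat 0, .ofNat 5392923491696677556422692957303955023400324300800, .ofNat 0, .ofNat 839816780722576912437354864357967360172228608, .ofNat 0, .ofNat 0, .ofNat 0, .ofNat 11996781361053710339801596832911082247937851392, .ofNat 0, .ofNat 0, .ofNat 0, .ofNat 2070525941761990757368515894368238468388093952, .ofNat 0⟩)
    (by decide +kernel)
theorem L02332 : Good (Phi V5.P V5.D (-1) (-1)) ⟨4, 12, 3, 3, 3, 5, 4, 0, 5, 1⟩ :=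
  leafX_sound T5.ok_mm T5.Ymm.bz_eq (w := 239) (c := ⟨⟨.ofNat 2697, .ofNat 3184, .negSucc 933, .ofNat 839, .negSucc 662, .negSucc 3288⟩, ⟨.negSucc 982, .negSucc 2142, .ofNat 567, .negSucc 427, .ofNat 357, .ofNat 1547⟩, ⟨.negSucc 45, .negSucc 1465, .ofNat 681, .negSucc 47, .negSucc 342, .ofNat 873⟩, ⟨.ofNat 2348, .ofNat 3931, .negSucc 1446, .ofNat 1227, .negSucc 480, .negSucc 5061⟩, ⟨.negSucc 5373, .negSucc 703, .ofNat 897, .negSucc 160, .ofNat 1187, .ofNat 159⟩, .ofNat 1042, .ofNat 1487, .ofNat 0, .ofNat 1487, .ofNat 3361, .ofNat 0, .ofNat 128, .negSucc 1269, .negSucc 521, .ofNat 0, .ofNat 656, .ofNat 257, .ofNat 0, .ofNat 0, .ofNat 699, .ofNat 7488, .ofNat 0, .ofNat 0, .ofNat 0, .ofNat 0, .ofNat 0, .ofNat 0, .ofNat 1541033408559048092482888168529141823766003712, .ofNat 0, .ofNat 0, .ofNat 0, .ofNat 0, .ofNat 0, .ofNat 0, .ofNat 0, .ofNat 1573005646619654934120162231221884288336134144,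 .ofNat 0⟩)
    (by decide +kernel)
theorem L02333 : Good (Phi V5.P V5.D (-1) (-1)) ⟨5, 26, 3, 3, 3, 5, 4, 0, 5, 1⟩ :=
  leafX_sound T5.ok_mm T5.Ymm.bz_eq (w := 243) (c := ⟨⟨.ofNat 6648, .ofNat 3254, .negSucc 2079, .ofNat 843, .negSucc 1352, .negSucc 2837⟩, ⟨.negSucc 3572, .negSucc 2162, .ofNat 1230, .negSucc 494, .ofNat 779, .ofNat 1468⟩, ⟨.negSucc 1766, .negSucc 1369, .ofNat 1124, .ofNat 55, .negSucc 185, .ofNat 607⟩, ⟨.ofNat 7140, .ofNat 3683, .negSucc 2788, .ofNat 849, .negSucc 1160, .negSucc 4439⟩, ⟨.negSucc 6586, .negSucc 1642, .ofNat 1597, .negSucc 914, .ofNat 1758, .negSucc 198⟩, .ofNat 648, .ofNat 690, .ofNat 0, .ofNat 690, .ofNat 1526, .ofNat 0, .ofNat 128, .negSucc 1153, .negSucc 579, .ofNat 0, .ofNat 663, .ofNat 318, .ofNat 0, .ofNat 0, .ofNat 586, .ofNat 5113, .ofNat 229669631769770336059835752177838946554909045030912, .ofNat 0, .ofNat 41526699472361492140142387478219604369604608,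 .ofNat 0, .ofNat 0, .ofNat 0, .ofNat 0, .ofNat 0, .ofNat 0, .ofNat 0, .ofNat 3040837719241816104077667836712625408936247296, .ofNat 0, .ofNat 223228344331252737226569529000054449950784825065472, .ofNat 0, .ofNat 1158868309281941691268323946888574675080708096, .ofNat 0⟩)
    (by decide +kernel)
theorem L02334 : Good (Phi V5.P V5.D (-1) (-1)) ⟨6, 54, 3, 3, 3, 5, 4, 0, 5, 1⟩ :=
  leafX_sound T5.ok_mm T5.Ymm.bz_eq (w := 248) (c := ⟨⟨.ofNat 9657, .ofNat 2352, .negSucc 1680, .ofNat 480, .negSucc 2000, .negSucc 1790⟩, ⟨.negSucc 5754, .negSucc 1585, .ofNat 1105, .negSucc 282, .ofNat 1199, .ofNat 942⟩, ⟨.negSucc 3048, .negSucc 1022, .ofNat 1067, .ofNat 196, .negSucc 81, .ofNat 152⟩, ⟨.ofNat 10633, .ofNat 2703, .negSucc 2564, .ofNat 542, .negSucc 1843, .negSucc 3291⟩, ⟨.negSucc 7435, .negSucc 1117, .ofNat 659, .negSucc 513, .ofNat 2130, .negSucc 1188⟩, .ofNat 679, .ofNat 724, .ofNat 0,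 .ofNat 724, .ofNat 1502, .ofNat 0, .ofNat 128, .negSucc 1929, .negSucc 1389, .ofNat 0, .ofNat 1152, .ofNat 801, .ofNat 0, .ofNat 0, .ofNat 1275, .ofNat 7747, .ofNat 5569061368902904897194843838201673337635684137041920, .ofNat 0, .ofNat 17950947932470590095465231270250353036099584, .ofNat 0, .ofNat 3918379857832209224509042104267270013215088431857664, .ofNat 0, .ofNat 380522143201927485722976334874134419353894912, .ofNat 0, .ofNat 0, .ofNat 0, .ofNat 1745829940976789783748845013382939891409616896, .ofNat 0, .ofNat 0, .ofNat 0, .ofNat 1187942812308746133547786615167542590986780672, .ofNat 0⟩)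
    (by decide +kernel)
theorem L02335 : Good (Phi V5.P V5.D (-1) (-1)) ⟨6, 55, 3, 3, 3, 5, 4, 0, 5, 1⟩ :=
  out_sound (S := T5.ds_mm) T5.ok_mm (w := 63) (j := 3) (by decide +kernel)
theorem L02336 : Good (Phi V5.P V5.D (-1) (-1)) ⟨3, 7, 3, 3, 2, 2, 4, 0, 4, 0⟩ :=
  out_sound (S := T5.ds_mm) T5.ok_mm (w := 45) (j := 3) (by decide +kernel)
theorem L02337 : Good (Phi V5.P V5.D (-1) (-1)) ⟨4, 12, 3, 3, 3, 6, 4, 0, 4, 0⟩ :=
  leafX_sound T5.ok_mm T5.Ymm.bz_eq (w := 234) (c := ⟨⟨.ofNat 4718, .ofNat 1223, .ofNat 68, .negSucc 3344, .ofNat 246, .negSucc 2740⟩, ⟨.negSucc 2075, .negSucc 958, .ofNat 50, .ofNat 1657, .negSucc 57, .ofNat 1174⟩, ⟨.negSucc 623, .negSucc 557, .ofNat 281, .ofNat 2034, .negSucc 707, .ofNat 750⟩, ⟨.ofNat 5864, .ofNat 1379, .negSucc 100, .negSucc 3959, .ofNat 822, .negSucc 5292⟩, ⟨.negSucc 4210, .negSucc 108, .negSucc 33, .ofNat 2770, .ofNat 871, .negSucc 1937⟩,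 .ofNat 1070, .ofNat 1543, .ofNat 0, .ofNat 1543, .ofNat 3470, .ofNat 0, .ofNat 128, .negSucc 946, .negSucc 758, .ofNat 0, .ofNat 505, .ofNat 361, .ofNat 0, .ofNat 0, .ofNat 1026, .ofNat 4862, .ofNat 1578852307282871645273052664238557277777314185216, .ofNat 0, .ofNat 572573862507426980318750518186025781559296, .ofNat 0, .ofNat 0, .ofNat 0, .ofNat 13475460940964952558628957779990784675676160, .ofNat 0, .ofNat 0, .ofNat 0, .ofNat 0, .ofNat 0, .ofNat 0, .ofNat 0, .ofNat 0, .ofNat 0⟩)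
    (by decide +kernel)

end Crest.Agent.R097C5.N5mm
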