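import Crest.Agent.R097.KP7
import Crest.Agent.R097.T5Ymm

/-!
# Row 97, box cover in dimension n = 5 (generated)
-/

set_option autoImplicit false
set_option Elab.async false
set_option maxHeartbeats 0
set_option maxRecDepth 100000

open Crest.Agent.R097 Crest.Agent.R097.KA


namespace Crest.Agent.R097C5.N5mm

theorem L02338 : Good (Phi V5.P V5.D (-1) (-1)) ⟨4, 13, 3, 3, 3, 6, 4, 0, 5, 0⟩ :=
  leafX_sound T5.ok_mm T5.Ymm.bz_eq (w := 238) (c := ⟨⟨.ofNat 6070, .ofNat 1496, .negSucc 723, .negSucc 3375, .negSucc 490, .ofNat 102⟩, ⟨.negSucc 3190, .negSucc 1174, .ofNat 347, .ofNat 1866, .ofNat 307, .negSucc 170⟩, ⟨.negSucc 1106, .negSucc 880, .ofNat 876, .ofNat 1859, .negSucc 396, .negSucc 457⟩, ⟨.ofNat 7301, .ofNat 1343, .negSucc 866, .negSucc 3854, .ofNat 17, .negSucc 935⟩, ⟨.negSucc 4369, .negSucc 1055, .ofNat 1114, .ofNat 2568, .ofNat 1535, .negSucc 2011⟩, .ofNat 642, .ofNat 680, .ofNat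 0, .ofNat 680, .ofNat 1510, .ofNat 0, .ofNat 128, .negSucc 877, .negSucc 531, .ofNat 0, .ofNat 532, .ofNat 267, .ofNat 0, .ofNat 0, .ofNat 749, .ofNat 3663, .ofNat 0, .ofNat 0, .ofNat 60393445276952006671323641689195902341742592, .ofNat 0, .ofNat 0, .ofNat 0, .ofNat 334135280470181442711412997492247803130281984, .ofNat 0, .ofNat 0, .ofNat 0, .ofNat 5573447860791846727298848120904277388183994368, .ofNat 0, .ofNat 0, .ofNat 0, .ofNat 1287324642964272714855171088085235116237914112, .ofNat 0⟩)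
    (by decide +kernel)
theorem L02339 : Good (Phi V5.P V5.D (-1) (-1)) ⟨4, 13, 3, 3, 3, 6, 4, 0, 5, 1⟩ :=
  leafX_sound T5.ok_mm T5.Ymm.bz_eq (w := 239) (c := ⟨⟨.ofNat 6827, .ofNat 4416, .negSucc 1634, .negSucc 4850, .negSucc 589, .negSucc 2231⟩, ⟨.negSucc 3803, .negSucc 3136, .ofNat 1137, .ofNat 2724, .ofNat 376, .ofNat 1101⟩, ⟨.negSucc 1947, .negSucc 2518, .ofNat 1383, .ofNat 2830, .negSucc 334, .ofNat 671⟩, ⟨.ofNat 7063, .ofNat 4642, .negSucc 2022, .negSucc 5565, .ofNat 11, .negSucc 3815⟩, ⟨.negSucc 7129, .negSucc 2637, .ofNat 1383, .ofNat 3349, .ofNat 1797, .negSucc 530⟩, .ofNat 643, .ofNat 680, .ofNat 0, .ofNat 680, .ofNat 1507, .ofNat 0, .ofNat 128, .negSucc 1155, .negSucc 777, .ofNat 0, .ofNat 699, .ofNat 413, .ofNat 0, .ofNat 0, .ofNat 811, .ofNat 3642, .ofNat 7677822801125434777493419656807010531291196030976, .ofNat 0, .ofNat 120470329205890403509932932327284227159621632,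 .ofNat 0, .ofNat 783503811292338073363275721743075571547320090624, .ofNat 0, .ofNat 636646108971717509625868238720346215220772864, .ofNat 0, .ofNat 216336678020876112376021920699458621640956536946688, .ofNat 0, .ofNat 12282078873479490752508578689217132244968144896, .ofNat 0, .ofNat 0, .ofNat 0, .ofNat 4738405152469616329231644623413252927770329088, .ofNat 0⟩)
    (by decide +kernel)
theorem L02340 : Good (Phi V5.P V5.D (-1) (-1)) ⟨4, 12, 3, 3, 3, 7, 4, 0, 4, 0⟩ :=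
  leafX_sound T5.ok_mm T5.Ymm.bz_eq (w := 232) (c := ⟨⟨.ofNat 1838, .ofNat 579, .negSucc 121, .negSucc 1202, .ofNat 514, .negSucc 3370⟩, ⟨.negSucc 813, .negSucc 411, .ofNat 180, .ofNat 606, .negSucc 198, .ofNat 1482⟩, ⟨.ofNat 1106, .negSucc 218, .ofNat 658, .ofNat 195, .negSucc 629, .ofNat 1330⟩, ⟨.ofNat 2454, .ofNat 479, .negSucc 319, .negSucc 1280, .ofNat 1339, .negSucc 6178⟩, ⟨.negSucc 1104, .negSucc 806, .negSucc 186, .ofNat 1353, .ofNat 1100, .negSucc 1733⟩, .ofNat 611, .ofNat 656, .ofNat 0, .ofNat 656, .ofNat 1630, .ofNat 0, .ofNat 128, .negSucc 573, .negSucc 610, .ofNat 0, .ofNat 336, .ofNat 239, .ofNat 0, .ofNat 0, .ofNat 747, .ofNat 3186, .ofNat 0, .ofNat 0, .ofNat 0, .ofNat 0, .ofNat 0, .ofNat 0, .ofNat 6611136831463159798816944007833064369553408, .ofNat 0, .ofNat 0, .ofNat 0, .ofNat 0, .ofNat 0, .ofNat 0, .ofNat 0, .ofNat 0, .ofNat 0⟩)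
    (by decide +kernel)
theorem L02341 : Good (Phi V5.P V5.D (-1) (-1)) ⟨4, 13, 3, 3, 3, 7, 4, 0, 4, 0⟩ :=
  leafX_sound T5.ok_mm T5.Ymm.bz_eq (w := 232) (c := ⟨⟨.ofNat 2328, .ofNat 264, .ofNat 855, .negSucc 901, .ofNat 298, .negSucc 3869⟩, ⟨.negSucc 1304, .negSucc 408, .negSucc 259, .ofNat 459, .negSucc 84, .ofNat 1898⟩, ⟨.ofNat 1034, .ofNat 459, .negSucc 64, .ofNat 224, .negSucc 643, .ofNat 1479⟩, ⟨.ofNat 2923, .negSucc 89, .ofNat 838, .negSucc 1049, .ofNat 1144, .negSucc 6831⟩, ⟨.negSucc 1377, .negSucc 659, .negSucc 740, .ofNat 740, .ofNat 1253, .negSucc 1799⟩, .ofNat 865, .ofNat 1063, .ofNat 0, .ofNat 1063, .ofNat 2228, .ofNat 0, .ofNat 128, .negSucc 594, .negSucc 397, .ofNat 0, .ofNat 358, .ofNat 182, .ofNat 0, .ofNat 0, .ofNat 462, .ofNat 1522, .ofNat 0, .ofNat 0, .ofNat 0, .ofNat 0, .ofNat 0, .ofNat 0, .ofNat 11207867446435222925450984774138703372091392, .ofNat 0, .ofNat 0,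 .ofNat 0, .ofNat 78130896791864909874818178386000920665128960, .ofNat 0, .ofNat 0, .ofNat 0, .ofNat 21117043356185694261134225978801490390679552, .ofNat 0⟩)
    (by decide +kernel)
theorem L02342 : Good (Phi V5.P V5.D (-1) (-1)) ⟨3, 7, 3, 3, 2, 3, 4, 0, 4, 0⟩ :=
  out_sound (S := T5.ds_mm) T5.ok_mm (w := 45) (j := 3) (by decide +kernel)
theorem L02343 : Good (Phi V5.P V5.D (-1) (-1)) ⟨4, 12, 3, 3, 2, 2, 4, 1, 4, 0⟩ :=
  leafX_sound T5.ok_mm T5.Ymm.bz_eq (w := 220) (c := ⟨⟨.ofNat 3004, .ofNat 2082, .negSucc 466, .ofNat 1761, .negSucc 844, .negSucc 3634⟩, ⟨.negSucc 1183, .negSucc 1423, .ofNat 200, .negSucc 832, .ofNat 450, .ofNat 1653⟩, ⟨.negSucc 1149, .negSucc 920, .ofNat 177, .ofNat 117, .negSucc 87, .ofNat 1128⟩, ⟨.ofNat 3463, .ofNat 3065, .negSucc 916, .ofNat 2403, .negSucc 699, .negSucc 6222⟩, ⟨.negSucc 3935, .ofNat 1178, .ofNat 126, .negSucc 872, .ofNat 1334, .negSucc 1167⟩, .ofNat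 1068, .ofNat 1535, .ofNat 0, .ofNat 1535, .ofNat 3444, .ofNat 0, .ofNat 128, .negSucc 988, .negSucc 809, .ofNat 0, .ofNat 521, .ofNat 395, .ofNat 0, .ofNat 0, .ofNat 1124, .ofNat 1764, .ofNat 0, .ofNat 0, .ofNat 0, .ofNat 0, .ofNat 0, .ofNat 0, .ofNat 685114360860934683019463765753304449024, .ofNat 0, .ofNat 0, .ofNat 0, .ofNat 0, .ofNat 0, .ofNat 0, .ofNat 0, .ofNat 0, .ofNat 0⟩)
    (by decide +kernel)
theorem L02344 : Good (Phi V5.P V5.D (-1) (-1)) ⟨4, 13, 3, 3, 3, 4, 4, 1, 4, 0⟩ :=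
  leafX_sound T5.ok_mm T5.Ymm.bz_eq (w := 232) (c := ⟨⟨.ofNat 4450, .ofNat 2583, .negSucc 368, .ofNat 1863, .negSucc 556, .negSucc 4177⟩, ⟨.negSucc 2262, .negSucc 1934, .ofNat 164, .negSucc 1011, .ofNat 303, .ofNat 2142⟩, ⟨.negSucc 1918, .negSucc 1324, .ofNat 155, .negSucc 114, .negSucc 192, .ofNat 1390⟩, ⟨.ofNat 5456, .ofNat 2813, .negSucc 655, .ofNat 2388, .negSucc 477, .negSucc 6588⟩, ⟨.negSucc 3079, .negSucc 691, .ofNat 256, .negSucc 902, .ofNat 719, .negSucc 524⟩, .ofNat 638, .ofNat 673, .ofNat 0, .ofNat 673, .ofNat 1500, .ofNat 0, .ofNat 128, .negSucc 478, .negSucc 430, .ofNat 0, .ofNat 290, .ofNat 229, .ofNat 0, .ofNat 0, .ofNat 546, .ofNat 1391, .ofNat 0, .ofNat 0, .ofNat 885390397696686806542716029522969127550976, .ofNat 0, .ofNat 0, .ofNat 0, .ofNat 10936757305997877436265518047440377418350592, .ofNat 0, .ofNat 0, .ofNat 0, .ofNat 85883034900398360345192241995306086386630656,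 .ofNat 0, .ofNat 0, .ofNat 0, .ofNat 24831837542219018640686008061586311905017856, .ofNat 0⟩)
    (by decide +kernel)
theorem L02345 : Good (Phi V5.P V5.D (-1) (-1)) ⟨4, 13, 3, 3, 3, 5, 4, 1, 4, 0⟩ :=
  leafX_sound T5.ok_mm T5.Ymm.bz_eq (w := 233) (c := ⟨⟨.ofNat 6145, .ofNat 1973, .ofNat 74, .negSucc 547, .negSucc 920, .negSucc 1920⟩, ⟨.negSucc 3195, .negSucc 1737, .ofNat 14, .ofNat 343, .ofNat 523, .ofNat 834⟩, ⟨.negSucc 1996, .negSucc 1219, .ofNat 267, .ofNat 622, .negSucc 99, .ofNat 162⟩, ⟨.ofNat 7618, .ofNat 2102, .negSucc 75, .negSucc 331, .negSucc 818, .negSucc 4196⟩, ⟨.negSucc 3837, .negSucc 233, .ofNat 110, .ofNat 536, .ofNat 1011, .negSucc 2051⟩, .ofNat 643, .ofNat 678, .ofNat 0, .ofNat 678, .ofNat 1499, .ofNat 0, .ofNat 128, .negSucc 779, .negSucc 606, .ofNat 0, .ofNat 458, .ofNat 327, .ofNat 0, .ofNat 0, .ofNat 700, .ofNat 1780, .ofNat 0, .ofNat 0, .ofNat 1782534890269455989446136974511744143589376,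 .ofNat 0, .ofNat 0, .ofNat 0, .ofNat 9378190245216055221306902268084206149042176, .ofNat 0, .ofNat 0, .ofNat 0, .ofNat 221035657387225331315513793261000171987140608, .ofNat 0, .ofNat 0, .ofNat 0, .ofNat 57911830429736915156197230803903777559543808, .ofNat 0⟩)
    (by decide +kernel)
theorem L02346 : Good (Phi V5.P V5.D (-1) (-1)) ⟨4, 12, 3, 3, 2, 3, 4, 1, 4, 0⟩ :=
  leafX_sound T5.ok_mm T5.Ymm.bz_eq (w := 219) (c := ⟨⟨.ofNat 4814, .ofNat 487, .negSucc 151, .negSucc 4049, .ofNat 5, .negSucc 2774⟩, ⟨.negSucc 2150, .negSucc 501, .ofNat 181, .ofNat 2020, .ofNat 31, .ofNat 1218⟩, ⟨.negSucc 1492, .negSucc 56, .ofNat 689, .ofNat 2531, .negSucc 247, .ofNat 976⟩, ⟨.ofNat 6671, .ofNat 448, .negSucc 511, .negSucc 4773, .ofNat 389, .negSucc 5443⟩, ⟨.negSucc 2337, .negSucc 158, .negSucc 499, .ofNat 3399, .ofNat 846, .negSucc 2319⟩, .ofNat 1056, .ofNat 1515, .ofNat 0, .ofNat 1515, .ofNat 3417, .ofNat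 0, .ofNat 128, .negSucc 505, .negSucc 509, .ofNat 0, .ofNat 269, .ofNat 229, .ofNat 0, .ofNat 0, .ofNat 619, .ofNat 2336, .ofNat 0, .ofNat 0, .ofNat 0, .ofNat 0, .ofNat 0, .ofNat 0, .ofNat 1312669756058442647508498687272530477056, .ofNat 0, .ofNat 0, .ofNat 0, .ofNat 976919870665972856953179813186742779904, .ofNat 0, .ofNat 0, .ofNat 0, .ofNat 0, .ofNat 0⟩)
    (by decide +kernel)
theorem L02347 : Good (Phi V5.P V5.D (-1) (-1)) ⟨4, 13, 3, 3, 2, 3, 4, 1, 4, 0⟩ :=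
  leafX_sound T5.ok_mm T5.Ymm.bz_eq (w := 218) (c := ⟨⟨.ofNat 5114, .ofNat 1904, .negSucc 334, .negSucc 4390, .ofNat 60, .negSucc 1749⟩, ⟨.negSucc 2706, .negSucc 1212, .ofNat 119, .ofNat 2409, .ofNat 23, .ofNat 823⟩, ⟨.negSucc 1510, .negSucc 560, .ofNat 435, .ofNat 3068, .negSucc 415, .ofNat 244⟩, ⟨.ofNat 6789, .ofNat 2087, .negSucc 459, .negSucc 5080, .ofNat 512, .negSucc 4232⟩, ⟨.negSucc 2776, .negSucc 1520, .ofNat 1153, .ofNat 3147, .ofNat 751, .negSucc 2624⟩, .ofNat 645, .ofNat 683, .ofNat 0, .ofNat 683, .ofNat 1507, .ofNat 0, .ofNat 128, .negSucc 464, .negSucc 465, .ofNat 0, .ofNat 279, .ofNat 218, .ofNat 0, .ofNat 0, .ofNat 506, .ofNat 1096, .ofNat 0, .ofNat 0, .ofNat 62089481448570023351231369938760368128, .ofNat 0, .ofNat 0, .ofNat 0, .ofNat 952039422331905250073568401951540903936, .ofNat 0, .ofNat 0, .ofNat 0, .ofNat 3867377900358565212497548475741388144640, .ofNat 0, .ofNat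 0, .ofNat 0, .ofNat 1105102330441468117607403154900047101952, .ofNat 0⟩)
    (by decide +kernel)
theorem L02348 : Good (Phi V5.P V5.D (-1) (-1)) ⟨3, 7, 3, 3, 1, 1, 4, 1, 4, 0⟩ :=
  out_sound (S := T5.ds_mm) T5.ok_mm (w := 45) (j := 3) (by decide +kernel)
theorem L02349 : Good (Phi V5.P V5.D (-1) (-1)) ⟨3, 6, 3, 3, 3, 4, 4, 0, 5, 2⟩ :=
  leafX_sound T5.ok_mm T5.Ymm.bz_eq (w := 232) (c := ⟨⟨.negSucc 290, .ofNat 408, .ofNat 80, .ofNat 639, .negSucc 32, .negSucc 2477⟩, ⟨.ofNat 109, .negSucc 590, .ofNat 240, .negSucc 377, .ofNat 5, .ofNat 1285⟩, ⟨.ofNat 330, .negSucc 397, .ofNat 20, .negSucc 282, .negSucc 112, .ofNat 1292⟩, ⟨.negSucc 1606, .ofNat 352, .negSucc 14, .ofNat 490, .ofNat 106, .negSucc 3620⟩, ⟨.negSucc 2461, .negSucc 1125, .ofNat 158, .negSucc 1029, .ofNat 374, .ofNat 949⟩, .ofNat 349, .ofNat 230, .ofNat 0, .ofNat 230, .ofNat 673, .ofNat 0, .ofNat 128, .negSucc 594, .negSucc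 322, .ofNat 0, .ofNat 377, .ofNat 171, .ofNat 0, .ofNat 0, .ofNat 378, .ofNat 1570, .ofNat 603838366197567223222713993171564293901512605696, .ofNat 0, .ofNat 43924278043684033255721606561887771395358720, .ofNat 0, .ofNat 0, .ofNat 0, .ofNat 0, .ofNat 0, .ofNat 0, .ofNat 0, .ofNat 5252297463264386584203327746124235358253088768, .ofNat 0, .ofNat 0, .ofNat 0, .ofNat 2232152299912852177967062943135112017179836416, .ofNat 0⟩)
    (by decide +kernel)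
theorem L02350 : Good (Phi V5.P V5.D (-1) (-1)) ⟨4, 12, 3, 3, 3, 5, 4, 0, 5, 2⟩ :=
  leafX_sound T5.ok_mm T5.Ymm.bz_eq (w := 238) (c := ⟨⟨.ofNat 574, .ofNat 771, .ofNat 273, .ofNat 332, .ofNat 63, .negSucc 4085⟩, ⟨.negSucc 279, .negSucc 612, .ofNat 142, .negSucc 180, .negSucc 14, .ofNat 1975⟩, ⟨.ofNat 28, .negSucc 343, .negSucc 202, .ofNat 302, .negSucc 224, .ofNat 1827⟩, ⟨.negSucc 845, .ofNat 825, .ofNat 102, .ofNat 233, .ofNat 241, .negSucc 5490⟩, ⟨.negSucc 3949, .negSucc 734, .negSucc 93, .negSucc 619, .ofNat 317, .ofNat 2095⟩, .ofNat 609, .ofNat 652, .ofNat 0, .ofNat 652, .ofNat 1630, .ofNat 0, .ofNat 128, .negSucc 653, .negSucc 707, .ofNat 0, .ofNat 357, .ofNat 355, .ofNat 0, .ofNat 0, .ofNat 813, .ofNat 6911, .ofNat 26917900133178646906926612692745266235786376773632, .ofNat 0, .ofNat 39426545153612686731449852955292261066735616, .ofNat 0, .ofNat 0, .ofNat 0, .ofNat 0, .ofNat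 0, .ofNat 90327479015466847951479666337291466083227966373888, .ofNat 0, .ofNat 0, .ofNat 0, .ofNat 0, .ofNat 0, .ofNat 0, .ofNat 0⟩)
    (by decide +kernel)
theorem L02351 : Good (Phi V5.P V5.D (-1) (-1)) ⟨5, 26, 3, 3, 3, 5, 4, 0, 5, 2⟩ :=
  leafX_sound T5.ok_mm T5.Ymm.bz_eq (w := 242) (c := ⟨⟨.ofNat 2289, .ofNat 1197, .negSucc 183, .ofNat 894, .negSucc 209, .negSucc 5889⟩, ⟨.negSucc 1503, .negSucc 875, .ofNat 417, .negSucc 518, .ofNat 158, .ofNat 3194⟩, ⟨.negSucc 737, .negSucc 603, .ofNat 205, .negSucc 3, .negSucc 141, .ofNat 2619⟩, ⟨.ofNat 974, .ofNat 1309, .negSucc 435, .ofNat 820, .ofNat 48, .negSucc 7486⟩, ⟨.negSucc 5316, .negSucc 750, .ofNat 274, .negSucc 1009, .ofNat 670, .ofNat 2900⟩, .ofNat 629, .ofNat 657, .ofNat 0, .ofNat 657, .ofNat 1479, .ofNat 0, .ofNat 128, .negSucc 774, .negSucc 734, .ofNat 0, .ofNat 450, .ofNat 406, .ofNat 0, .ofNat 0, .ofNat 638, .ofNat 4895, .ofNat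 308640608904507863305305374972210892229640741453824, .ofNat 0, .ofNat 16119830262209948420271076083073541426118656, .ofNat 0, .ofNat 0, .ofNat 0, .ofNat 0, .ofNat 0, .ofNat 2377908198531005949328052067326017118279431312375808, .ofNat 0, .ofNat 1316768018612623125109742331851421323291000832, .ofNat 0, .ofNat 0, .ofNat 0, .ofNat 1263664921722699813872250976163989532818014208, .ofNat 0⟩)
    (by decide +kernel)
theorem L02352 : Good (Phi V5.P V5.D (-1) (-1)) ⟨5, 27, 3, 3, 3, 5, 4, 0, 5, 2⟩ :=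
  leafX_sound T5.ok_mm T5.Ymm.bz_eq (w := 244) (c := ⟨⟨.ofNat 5491, .ofNat 2263, .negSucc 1780, .ofNat 1139, .negSucc 259, .negSucc 7505⟩, ⟨.negSucc 3634, .negSucc 1557, .ofNat 1368, .negSucc 691, .ofNat 177, .ofNat 4319⟩, ⟨.negSucc 2107, .negSucc 1200, .ofNat 835, .negSucc 60, .negSucc 165, .ofNat 3339⟩, ⟨.ofNat 4295, .ofNat 2300, .negSucc 2148, .ofNat 1048, .ofNat 59, .negSucc 8985⟩, ⟨.negSucc 7677, .negSucc 1611, .ofNat 1469, .negSucc 1167, .ofNat 858, .ofNat 4091⟩, .ofNat 679, .ofNat 725, .ofNat 0, .ofNat 725, .ofNat 1506, .ofNat 0, .ofNat 128, .negSucc 1563, .negSucc 1581, .ofNat 0, .ofNat 950, .ofNat 925, .ofNat 0, .ofNat 0, .ofNat 1272, .ofNat 7237, .ofNat 480177269227671089957638043073803799243514766688256, .ofNat 0, .ofNat 104226032272744985931961660112568105956278272, .ofNat 0, .ofNat 118028698095866199589947687496225064435083718426624, .ofNat 0, .ofNat 571322445832180002347036578850413921494368256,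 .ofNat 0, .ofNat 0, .ofNat 0, .ofNat 12729069568477952844499493847166985913606602752, .ofNat 0, .ofNat 0, .ofNat 0, .ofNat 7378097790385119017709084699798791421639524352, .ofNat 0⟩)
    (by decide +kernel)
theorem L02353 : Good (Phi V5.P V5.D (-1) (-1)) ⟨4, 12, 3, 3, 3, 6, 4, 0, 6, 4⟩ :=
  leafX_sound T5.ok_mm T5.Ymm.bz_eq (w := 243) (c := ⟨⟨.ofNat 599, .ofNat 1359, .negSucc 212, .negSucc 2876, .ofNat 576, .negSucc 2218⟩, ⟨.negSucc 291, .negSucc 940, .ofNat 407, .ofNat 1432, .negSucc 255, .ofNat 1088⟩, ⟨.ofNat 602, .negSucc 850, .ofNat 336, .ofNat 2414, .negSucc 719, .ofNat 1185⟩, ⟨.negSucc 1009, .ofNat 1412, .negSucc 315, .negSucc 3474, .ofNat 1084, .negSucc 2970⟩, ⟨.negSucc 4424, .negSucc 1377, .ofNat 659, .ofNat 2245, .ofNat 390, .ofNat 1107⟩, .ofNat 612, .ofNat 658, .ofNat 0, .ofNat 658, .ofNat 1636, .ofNat 0, .ofNat 128, .negSucc 568, .negSucc 796, .ofNat 0, .ofNat 327, .ofNat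 391, .ofNat 0, .ofNat 0, .ofNat 842, .ofNat 6525, .ofNat 128060344729430284597130940561006818564369318674432, .ofNat 0, .ofNat 851738835302971012703953741965064986523860992, .ofNat 0, .ofNat 0, .ofNat 0, .ofNat 0, .ofNat 0, .ofNat 644929292301305148270188561438412211650989077299200, .ofNat 0, .ofNat 33557752505853990233070621314142324603177926656, .ofNat 0, .ofNat 0, .ofNat 0, .ofNat 71444718452840070440054545775843658523679391744, .ofNat 0⟩)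
    (by decide +kernel)
theorem L02354 : Good (Phi V5.P V5.D (-1) (-1)) ⟨4, 12, 3, 3, 3, 6, 4, 0, 6, 5⟩ :=
  leafX_sound T5.ok_mm T5.Ymm.bz_eq (w := 243) (c := ⟨⟨.negSucc 739, .negSucc 912, .ofNat 890, .negSucc 1787, .ofNat 833, .negSucc 1931⟩, ⟨.ofNat 212, .ofNat 363, .negSucc 98, .ofNat 908, .negSucc 404, .ofNat 957⟩, ⟨.ofNat 970, .ofNat 674, .negSucc 629, .ofNat 2035, .negSucc 879, .ofNat 1183⟩, ⟨.negSucc 2919, .negSucc 1200, .ofNat 1076, .negSucc 2031, .ofNat 1158, .negSucc 2439⟩, ⟨.negSucc 3511, .ofNat 86, .negSucc 404, .ofNat 1666, .negSucc 338, .ofNat 1324⟩, .ofNat 612, .ofNat 657, .ofNat 0, .ofNat 657, .ofNat 1630, .ofNat 0, .ofNat 128, .negSucc 487, .negSucc 679, .ofNat 0, .ofNat 287, .ofNat 341, .ofNat 0, .ofNat 0, .ofNat 724, .ofNat 9438, .ofNat 157770061748121247110259351297400133317362012127232, .ofNat 0, .ofNat 0, .ofNat 0, .ofNat 83794637586558128737756751069241284724376006033408,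 .ofNat 0, .ofNat 6726783948084846890744487574290010769807376384, .ofNat 0, .ofNat 0, .ofNat 0, .ofNat 11436981115098748815917276246902591267763388416, .ofNat 0, .ofNat 412050318376754571848221982333179292806000249143296, .ofNat 0, .ofNat 34274819210146493856486558856197846965774450688, .ofNat 0⟩)
    (by decide +kernel)
theorem L02355 : Good (Phi V5.P V5.D (-1) (-1)) ⟨5, 24, 3, 3, 3, 7, 4, 0, 5, 2⟩ :=
  out_sound (S := T5.ds_mm) T5.ok_mm (w := 57) (j := 3) (by decide +kernel)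
theorem L02356 : Good (Phi V5.P V5.D (-1) (-1)) ⟨5, 25, 3, 3, 3, 7, 4, 0, 5, 2⟩ :=
  leafX_sound T5.ok_mm T5.Ymm.bz_eq (w := 242) (c := ⟨⟨.negSucc 2343, .negSucc 547, .ofNat 657, .ofNat 1, .ofNat 603, .negSucc 1944⟩, ⟨.ofNat 965, .ofNat 298, .negSucc 137, .ofNat 63, .negSucc 274, .ofNat 932⟩, ⟨.ofNat 3261, .ofNat 303, .ofNat 478, .negSucc 1321, .negSucc 558, .ofNat 910⟩, ⟨.negSucc 4680, .negSucc 738, .ofNat 640, .ofNat 786, .ofNat 848, .negSucc 2683⟩, ⟨.negSucc 2053, .negSucc 90, .negSucc 448, .ofNat 1743, .negSucc 247, .ofNat 846⟩, .ofNat 1071, .ofNat 1551, .ofNat 0, .ofNat 1551, .ofNat 3503, .ofNat 0, .ofNat 128, .negSucc 685, .negSucc 695, .ofNat 0, .ofNat 385, .ofNat 314, .ofNat 0, .ofNat 0, .ofNat 863, .ofNat 5079, .ofNat 0, .ofNat 0, .ofNat 35428329728747200222740871561499260944908288, .ofNat 0, .ofNat 30586670543375187555624794242423131428509070655488, .ofNat 0, .ofNat 0, .ofNat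 0, .ofNat 0, .ofNat 0, .ofNat 0, .ofNat 0, .ofNat 0, .ofNat 0, .ofNat 732244482934031728729124916276135165199122432, .ofNat 0⟩)
    (by decide +kernel)
theorem L02357 : Good (Phi V5.P V5.D (-1) (-1)) ⟨4, 13, 3, 3, 3, 6, 6, 0, 5, 2⟩ :=
  leafX_sound T5.ok_mm T5.Ymm.bz_eq (w := 246) (c := ⟨⟨.ofNat 2445, .ofNat 1960, .negSucc 176, .negSucc 3450, .ofNat 582, .negSucc 6134⟩, ⟨.negSucc 1733, .negSucc 1489, .ofNat 486, .ofNat 1973, .negSucc 319, .ofNat 3470⟩, ⟨.negSucc 573, .negSucc 1204, .ofNat 342, .ofNat 3036, .negSucc 438, .ofNat 3260⟩, ⟨.ofNat 650, .ofNat 1726, .negSucc 178, .negSucc 3581, .ofNat 627, .negSucc 7158⟩, ⟨.negSucc 5997, .negSucc 2108, .ofNat 607, .ofNat 3083, .negSucc 620, .ofNat 3931⟩, .ofNat 882, .ofNat 1086, .ofNat 0, .ofNat 1086, .ofNat 2242, .ofNat 0, .ofNat 128, .negSucc 478, .negSucc 514, .ofNat 0, .ofNat 289, .ofNat 289, .ofNat 0, .ofNat 0, .ofNat 475, .ofNat 5676,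 .ofNat 865561504622340028576424877461010640443879815380992, .ofNat 0, .ofNat 4329910046584385828239267544892097603265626112, .ofNat 0, .ofNat 0, .ofNat 0, .ofNat 118880098085751224919106296406137765111617552384, .ofNat 0, .ofNat 2727506810485652459187061066883638749353133555580928, .ofNat 0, .ofNat 743893140556029438386620483752071196599230922752, .ofNat 0, .ofNat 0, .ofNat 0, .ofNat 373380842404999520053435727685564429764103503872, .ofNat 0⟩)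
    (by decide +kernel)
theorem L02358 : Good (Phi V5.P V5.D (-1) (-1)) ⟨4, 13, 3, 3, 3, 6, 6, 1, 5, 2⟩ :=
  leafX_sound T5.ok_mm T5.Ymm.bz_eq (w := 246) (c := ⟨⟨.ofNat 2625, .ofNat 423, .ofNat 284, .negSucc 3308, .ofNat 165, .negSucc 5565⟩, ⟨.negSucc 1799, .negSucc 469, .ofNat 182, .ofNat 1854, .negSucc 62, .ofNat 3055⟩, ⟨.negSucc 780, .negSucc 244, .negSucc 72, .ofNat 2890, .negSucc 186, .ofNat 3016⟩, ⟨.ofNat 1029, .ofNat 404, .ofNat 146, .negSucc 3655, .ofNat 254, .negSucc 6731⟩, ⟨.negSucc 5984, .negSucc 700, .negSucc 99, .ofNat 2707, .negSucc 45, .ofNat 3466⟩, .ofNat 646, .ofNat 685, .ofNat 0, .ofNat 685, .ofNat 1512, .ofNat 0, .ofNat 128, .negSucc 536, .negSucc 534, .ofNat 0, .ofNat 334, .ofNat 298, .ofNat 0, .ofNat 0, .ofNat 486, .ofNat 3524, .ofNat 0, .ofNat 0, .ofNat 4564982574382921105163083369537386375184121856, .ofNat 0, .ofNat 0, .ofNat 0, .ofNat 95186204786657851969239404362840719377322475520,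 .ofNat 0, .ofNat 0, .ofNat 0, .ofNat 795381691467215534502113821594005424475543175168, .ofNat 0, .ofNat 0, .ofNat 0, .ofNat 469620025392609134725059853475641242538519560192, .ofNat 0⟩)
    (by decide +kernel)
theorem L02359 : Good (Phi V5.P V5.D (-1) (-1)) ⟨4, 13, 3, 3, 3, 6, 5, 1, 5, 2⟩ :=
  leafX_sound T5.ok_mm T5.Ymm.bz_eq (w := 241) (c := ⟨⟨.ofNat 2808, .negSucc 142, .ofNat 551, .negSucc 3164, .ofNat 164, .negSucc 5282⟩, ⟨.negSucc 1863, .negSucc 88, .negSucc 51, .ofNat 1779, .negSucc 71, .ofNat 2884⟩, ⟨.negSucc 942, .negSucc 188, .negSucc 65, .ofNat 2689, .negSucc 253, .ofNat 2876⟩, ⟨.ofNat 1463, .ofNat 99, .ofNat 314, .negSucc 3516, .ofNat 317, .negSucc 6732⟩, ⟨.negSucc 5880, .ofNat 41, .negSucc 114, .ofNat 2466, .ofNat 190, .ofNat 2792⟩, .ofNat 600, .ofNat 590, .ofNat 0, .ofNat 590, .ofNat 1295, .ofNat 0, .ofNat 128, .negSucc 391, .negSucc 586, .ofNat 0, .ofNat 252, .ofNat 336,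 .ofNat 0, .ofNat 0, .ofNat 459, .ofNat 1900, .ofNat 0, .ofNat 0, .ofNat 271771897068357320063607268056519579298430976, .ofNat 0, .ofNat 0, .ofNat 0, .ofNat 0, .ofNat 0, .ofNat 0, .ofNat 0, .ofNat 34582311098003515574041770765774549185720221696, .ofNat 0, .ofNat 0, .ofNat 0, .ofNat 19145286581091891792492797888261096092823715840, .ofNat 0⟩)
    (by decide +kernel)
theorem L02360 : Good (Phi V5.P V5.D (-1) (-1)) ⟨4, 13, 3, 3, 4, 14, 4, 0, 5, 2⟩ :=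
  leafX_sound T5.ok_mm T5.Ymm.bz_eq (w := 252) (c := ⟨⟨.negSucc 2694, .negSucc 2295, .ofNat 1668, .negSucc 518, .ofNat 989, .negSucc 3033⟩, ⟨.ofNat 1092, .ofNat 1241, .negSucc 540, .ofNat 273, .negSucc 520, .ofNat 1638⟩, ⟨.ofNat 3459, .ofNat 1588, .negSucc 954, .ofNat 303, .negSucc 1089, .ofNat 1667⟩, ⟨.negSucc 5056, .negSucc 2897, .ofNat 1931, .negSucc 765, .ofNat 1398, .negSucc 3813⟩, ⟨.negSucc 1825, .ofNat 418, .negSucc 1012, .ofNat 81, .negSucc 164, .ofNat 1514⟩, .ofNat 1100, .ofNat 1472, .ofNat 0, .ofNat 1472, .ofNat 2965, .ofNat 0, .ofNat 128, .negSucc 481, .negSucc 560, .ofNat 0, .ofNat 298, .ofNat 296, .ofNat 0, .ofNat 0, .ofNat 599, .ofNat 4347, .ofNat 18091282047888503053104612783139479567240607966429184, .ofNat 0, .ofNat 432520241337559605118052337700895634621212917760, .ofNat 0, .ofNat 0, .ofNat 0, .ofNat 32210875861898782548830559218115824125559542120448, .ofNat 0, .ofNat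 0, .ofNat 0, .ofNat 31051644597370136696699247322719808443588372594688, .ofNat 0, .ofNat 0, .ofNat 0, .ofNat 26483564766706786405103557649226727924873985785856, .ofNat 0⟩)
    (by decide +kernel)
theorem L02361 : Good (Phi V5.P V5.D (-1) (-1)) ⟨4, 13, 3, 3, 4, 15, 4, 0, 5, 2⟩ :=
  leafX_sound T5.ok_mm T5.Ymm.bz_eq (w := 251) (c := ⟨⟨.negSucc 3090, .negSucc 1317, .ofNat 1014, .ofNat 150, .ofNat 558, .negSucc 2068⟩, ⟨.ofNat 1322, .ofNat 778, .negSucc 295, .negSucc 11, .negSucc 280, .ofNat 1128⟩, ⟨.ofNat 3290, .ofNat 826, .negSucc 74, .negSucc 1031, .negSucc 443, .ofNat 870⟩, ⟨.negSucc 5293, .negSucc 1727, .ofNat 702, .ofNat 774, .ofNat 739, .negSucc 2656⟩, ⟨.negSucc 1031, .negSucc 252, .negSucc 1474, .ofNat 1124, .negSucc 195, .ofNat 855⟩, .ofNat 1114, .ofNat 1496, .ofNat 0, .ofNat 1496, .ofNat 3007, .ofNat 0, .ofNat 128, .negSucc 677, .negSucc 447, .ofNat 0, .ofNat 421, .ofNat 218,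 .ofNat 0, .ofNat 0, .ofNat 522, .ofNat 1916, .ofNat 0, .ofNat 0, .ofNat 459228912343911352769608616805093199560512110592, .ofNat 0, .ofNat 0, .ofNat 0, .ofNat 15537027030116390403886410556602110849649825808384, .ofNat 0, .ofNat 0, .ofNat 0, .ofNat 62618045204904611965668141386237233142799433465856, .ofNat 0, .ofNat 0, .ofNat 0, .ofNat 12010188237037610809725210315047148286975638765568, .ofNat 0⟩)
    (by decide +kernel)
theorem L02362 : Good (Phi V5.P V5.D (-1) (-1)) ⟨3, 7, 3, 3, 1, 1, 4, 0, 5, 2⟩ :=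
  out_sound (S := T5.ds_mm) T5.ok_mm (w := 45) (j := 3) (by decide +kernel)
theorem L02363 : Good (Phi V5.P V5.D (-1) (-1)) ⟨3, 6, 3, 3, 3, 4, 4, 1, 5, 2⟩ :=
  leafX_sound T5.ok_mm T5.Ymm.bz_eq (w := 232) (c := ⟨⟨.ofNat 220, .ofNat 86, .ofNat 159, .ofNat 500, .negSucc 464, .negSucc 2901⟩, ⟨.negSucc 282, .negSucc 255, .ofNat 127, .negSucc 298, .ofNat 311, .ofNat 1584⟩, ⟨.negSucc 103, .negSucc 94, .negSucc 84, .negSucc 277, .ofNat 158, .ofNat 1617⟩, ⟨.negSucc 823, .negSucc 261, .ofNat 230, .ofNat 324, .negSucc 361, .negSucc 4093⟩, ⟨.negSucc 1886, .negSucc 1603, .ofNat 595, .negSucc 844, .ofNat 469, .ofNat 431⟩, .ofNat 630, .ofNat 671, .ofNat 0, .ofNat 671, .ofNat 1560, .ofNat 0, .ofNat 128, .negSucc 717, .negSucc 429, .ofNat 0, .ofNat 426, .ofNat 225, .ofNat 0, .ofNat 0, .ofNat 536, .ofNat 1957, .ofNat 0, .ofNat 0, .ofNat 0, .ofNat 0, .ofNat 0, .ofNat 0, .ofNat 1516343183193592608647042319628740627485687808,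 .ofNat 0, .ofNat 0, .ofNat 0, .ofNat 15550576713198587228026462122417849039138586624, .ofNat 0, .ofNat 0, .ofNat 0, .ofNat 6814708767963940248550095313573662156233113600, .ofNat 0⟩)
    (by decide +kernel)
theorem L02364 : Good (Phi V5.P V5.D (-1) (-1)) ⟨4, 12, 3, 3, 3, 5, 4, 1, 5, 2⟩ :=
  leafX_sound T5.ok_mm T5.Ymm.bz_eq (w := 238) (c := ⟨⟨.ofNat 441, .ofNat 1214, .negSucc 709, .ofNat 463, .ofNat 42, .negSucc 4072⟩, ⟨.negSucc 211, .negSucc 849, .ofNat 690, .negSucc 244, .ofNat 0, .ofNat 1998⟩, ⟨.negSucc 77, .negSucc 700, .ofNat 507, .ofNat 139, .negSucc 126, .ofNat 2010⟩, ⟨.negSucc 798, .ofNat 1339, .negSucc 962, .ofNat 471, .ofNat 213, .negSucc 5560⟩, ⟨.negSucc 3320, .negSucc 1094, .ofNat 695, .negSucc 502, .ofNat 299, .ofNat 1748⟩, .ofNat 614, .ofNat 661, .ofNat 0, .ofNat 661, .ofNat 1643, .ofNat 0, .ofNat 128, .negSucc 710, .negSucc 689, .ofNat 0, .ofNat 391, .ofNat 342, .ofNat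 0, .ofNat 0, .ofNat 744, .ofNat 5755, .ofNat 0, .ofNat 0, .ofNat 0, .ofNat 0, .ofNat 0, .ofNat 0, .ofNat 212461136007306105188719506638603392812843008, .ofNat 0, .ofNat 0, .ofNat 0, .ofNat 6055062459434538353703294777912292301441335296, .ofNat 0, .ofNat 0, .ofNat 0, .ofNat 4035709940307791599806198609047039165218160640, .ofNat 0⟩)
    (by decide +kernel)
theorem L02365 : Good (Phi V5.P V5.D (-1) (-1)) ⟨4, 13, 3, 3, 3, 5, 4, 1, 5, 2⟩ :=
  leafX_sound T5.ok_mm T5.Ymm.bz_eq (w := 238) (c := ⟨⟨.ofNat 2307, .ofNat 3939, .negSucc 1221, .ofNat 1072, .negSucc 86, .negSucc 5769⟩, ⟨.negSucc 1559, .negSucc 2690, .ofNat 1055, .negSucc 627, .ofNat 69, .ofNat 3219⟩, ⟨.negSucc 991, .negSucc 1787, .ofNat 530, .negSucc 184, .negSucc 131, .ofNat 2836⟩, ⟨.ofNat 1247, .ofNat 4224, .negSucc 1493, .ofNat 1185, .ofNat 142, .negSucc 7522⟩, ⟨.negSucc 4507, .negSucc 2380, .ofNat 784, .negSucc 732, .ofNat 516,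 .ofNat 2141⟩, .ofNat 642, .ofNat 678, .ofNat 0, .ofNat 678, .ofNat 1503, .ofNat 0, .ofNat 128, .negSucc 781, .negSucc 619, .ofNat 0, .ofNat 462, .ofNat 340, .ofNat 0, .ofNat 0, .ofNat 557, .ofNat 1025, .ofNat 0, .ofNat 0, .ofNat 45217308929551326818027552890696412193357824, .ofNat 0, .ofNat 0, .ofNat 0, .ofNat 221283804378575037744981625477980876106104832, .ofNat 0, .ofNat 0, .ofNat 0, .ofNat 2238486872237538473244948353677732882107334656, .ofNat 0, .ofNat 0, .ofNat 0, .ofNat 3415634046700996739992894323512984957150560256, .ofNat 0⟩)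
    (by decide +kernel)
theorem L02366 : Good (Phi V5.P V5.D (-1) (-1)) ⟨4, 12, 3, 3, 2, 3, 4, 1, 5, 2⟩ :=
  leafX_sound T5.ok_mm T5.Ymm.bz_eq (w := 224) (c := ⟨⟨.ofNat 1365, .negSucc 992, .ofNat 1303, .negSucc 2497, .ofNat 612, .negSucc 2766⟩, ⟨.negSucc 805, .ofNat 447, .negSucc 421, .ofNat 1278, .negSucc 290, .ofNat 1314⟩, ⟨.negSucc 199, .ofNat 868, .negSucc 758, .ofNat 1616, .negSucc 663, .ofNat 1524⟩, ⟨.ofNat 1019, .negSucc 1709, .ofNat 1710, .negSucc 2964, .ofNat 936, .negSucc 4492⟩, ⟨.negSucc 1789, .negSucc 921, .negSucc 165, .ofNat 1926, .negSucc 24, .negSucc 509⟩, .ofNat 1271, .ofNat 1946, .ofNat 0, .ofNat 1946, .ofNat 4311, .ofNat 0, .ofNat 128, .negSucc 644, .negSucc 804, .ofNat 0, .ofNat 346, .ofNat 379, .ofNat 0, .ofNat 0, .ofNat 878, .ofNat 987, .ofNat 0, .ofNat 0, .ofNat 1325736233656055726325960971937759887360, .ofNat 0, .ofNat 0, .ofNat 0, .ofNat 27783169986907693747521408122964095795200,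 .ofNat 0, .ofNat 0, .ofNat 0, .ofNat 0, .ofNat 0, .ofNat 0, .ofNat 0, .ofNat 0, .ofNat 0⟩)
    (by decide +kernel)
theorem L02367 : Good (Phi V5.P V5.D (-1) (-1)) ⟨4, 13, 3, 3, 3, 6, 4, 1, 5, 2⟩ :=
  leafX_sound T5.ok_mm T5.Ymm.bz_eq (w := 237) (c := ⟨⟨.ofNat 2573, .ofNat 1, .ofNat 729, .negSucc 2790, .ofNat 422, .negSucc 5001⟩, ⟨.negSucc 1668, .negSucc 240, .negSucc 102, .ofNat 1572, .negSucc 197, .ofNat 2679⟩, ⟨.negSucc 977, .negSucc 34, .negSucc 240, .ofNat 2299, .negSucc 511, .ofNat 2785⟩, ⟨.ofNat 1404, .negSucc 429, .ofNat 906, .negSucc 3014, .ofNat 776, .negSucc 6558⟩, ⟨.negSucc 5371, .negSucc 1263, .ofNat 279, .ofNat 2463, .ofNat 258, .ofNat 2366⟩, .ofNat 600, .ofNat 590, .ofNat 0, .ofNat 590, .ofNat 1295, .ofNat 0, .ofNat 128, .negSucc 295, .negSucc 620, .ofNat 0, .ofNat 189, .ofNat 347, .ofNat 0, .ofNat 0, .ofNat 495, .ofNat 963, .ofNat 0, .ofNat 0, .ofNat 15500718617113061513997388105624615095631872,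 .ofNat 0, .ofNat 0, .ofNat 0, .ofNat 0, .ofNat 0, .ofNat 0, .ofNat 0, .ofNat 1390347988925399568149509764808276834363899904, .ofNat 0, .ofNat 0, .ofNat 0, .ofNat 1355125678682394873142572499396772129650245632, .ofNat 0⟩)
    (by decide +kernel)
theorem L02368 : Good (Phi V5.P V5.D (-1) (-1)) ⟨4, 13, 3, 3, 3, 7, 4, 1, 5, 2⟩ :=
  leafX_sound T5.ok_mm T5.Ymm.bz_eq (w := 237) (c := ⟨⟨.negSucc 1741, .negSucc 960, .ofNat 1008, .negSucc 484, .ofNat 554, .negSucc 2569⟩, ⟨.ofNat 641, .ofNat 439, .negSucc 229, .ofNat 303, .negSucc 286, .ofNat 1351⟩, ⟨.ofNat 2342, .ofNat 645, .negSucc 341, .negSucc 257, .negSucc 521, .ofNat 1311⟩, ⟨.negSucc 3366, .negSucc 1278, .ofNat 1070, .negSucc 528, .ofNat 888, .negSucc 3734⟩, ⟨.negSucc 1272, .ofNat 125, .negSucc 900, .ofNat 416, .ofNat 60, .ofNat 264⟩, .ofNat 871, .ofNat 1071, .ofNat 0, .ofNat 1071, .ofNat 2232, .ofNat 0, .ofNat 128, .negSucc 371, .negSucc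 468, .ofNat 0, .ofNat 229, .ofNat 231, .ofNat 0, .ofNat 0, .ofNat 479, .ofNat 1769, .ofNat 0, .ofNat 0, .ofNat 0, .ofNat 0, .ofNat 0, .ofNat 0, .ofNat 250493140372114218035821516224269433543065600, .ofNat 0, .ofNat 0, .ofNat 0, .ofNat 1252139018110685172034084232987439570400313344, .ofNat 0, .ofNat 0, .ofNat 0, .ofNat 892500799362872199885987113892355931344207872, .ofNat 0⟩)
    (by decide +kernel)
theorem L02369 : Good (Phi V5.P V5.D (-1) (-1)) ⟨3, 7, 3, 3, 1, 1, 4, 1, 5, 2⟩ :=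
  out_sound (S := T5.ds_mm) T5.ok_mm (w := 45) (j := 3) (by decide +kernel)
theorem L02370 : Good (Phi V5.P V5.D (-1) (-1)) ⟨4, 12, 3, 3, 2, 2, 4, 0, 5, 3⟩ :=
  leafX_sound T5.ok_mm T5.Ymm.bz_eq (w := 224) (c := ⟨⟨.negSucc 1777, .negSucc 883, .ofNat 122, .negSucc 948, .ofNat 122, .negSucc 1172⟩, ⟨.ofNat 683, .ofNat 457, .ofNat 286, .ofNat 439, .negSucc 60, .ofNat 571⟩, ⟨.ofNat 756, .ofNat 621, .negSucc 118, .ofNat 848, .ofNat 2, .ofNat 842⟩, ⟨.negSucc 4055, .negSucc 966, .ofNat 0, .negSucc 1518, .ofNat 271, .negSucc 1500⟩, ⟨.negSucc 2220, .ofNat 168, .negSucc 172, .negSucc 71, .ofNat 214, .ofNat 757⟩, .ofNat 1079, .ofNat 1567, .ofNat 0, .ofNat 1567, .ofNat 3538, .ofNat 0, .ofNat 128, .negSucc 633, .negSucc 433, .ofNat 0, .ofNat 341, .ofNat 216, .ofNat 0, .ofNat 0, .ofNat 714, .ofNat 12558, .ofNat 6961015427944582210942588859223191753999777792, .ofNat 0, .ofNat 0, .ofNat 0, .ofNat 6630134850591727481472162803639256337684103168,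 .ofNat 0, .ofNat 34063295931432752986941416577850513817600, .ofNat 0, .ofNat 0, .ofNat 0, .ofNat 0, .ofNat 0, .ofNat 14818676434401851321838049961789940831900139520, .ofNat 0, .ofNat 0, .ofNat 0⟩)
    (by decide +kernel)
theorem L02371 : Good (Phi V5.P V5.D (-1) (-1)) ⟨4, 12, 3, 3, 2, 2, 4, 1, 5, 3⟩ :=
  leafX_sound T5.ok_mm T5.Ymm.bz_eq (w := 223) (c := ⟨⟨.negSucc 1587, .negSucc 906, .ofNat 122, .negSucc 929, .ofNat 3, .negSucc 1235⟩, ⟨.ofNat 582, .ofNat 471, .ofNat 296, .ofNat 431, .ofNat 7, .ofNat 604⟩, ⟨.ofNat 773, .ofNat 561, .negSucc 151, .ofNat 797, .negSucc 8, .ofNat 912⟩, ⟨.negSucc 3730, .negSucc 1032, .ofNat 83, .negSucc 1442, .ofNat 76, .negSucc 1557⟩, ⟨.negSucc 2156, .ofNat 135, .negSucc 67, .ofNat 18, .ofNat 121, .ofNat 905⟩, .ofNat 613, .ofNat 661, .ofNat 0, .ofNat 661, .ofNat 1648, .ofNat 0, .ofNat 128, .negSucc 528, .negSucc 374, .ofNat 0, .ofNat 306, .ofNat 188, .ofNat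 0, .ofNat 0, .ofNat 527, .ofNat 4827, .ofNat 0, .ofNat 0, .ofNat 0, .ofNat 0, .ofNat 0, .ofNat 0, .ofNat 34750748600058554445022167644129831419904, .ofNat 0, .ofNat 0, .ofNat 0, .ofNat 0, .ofNat 0, .ofNat 0, .ofNat 0, .ofNat 12950090595479094121475975979933997465600, .ofNat 0⟩)
    (by decide +kernel)
theorem L02372 : Good (Phi V5.P V5.D (-1) (-1)) ⟨4, 13, 3, 3, 3, 4, 3, 0, 5, 3⟩ :=
  leafX_sound T5.ok_mm T5.Ymm.bz_eq (w := 234) (c := ⟨⟨.negSucc 2185, .negSucc 990, .ofNat 83, .negSucc 711, .negSucc 157, .negSucc 1287⟩, ⟨.ofNat 835, .ofNat 578, .ofNat 278, .ofNat 370, .ofNat 90, .ofNat 712⟩, ⟨.ofNat 1250, .ofNat 633, .negSucc 150, .ofNat 218, .ofNat 167, .ofNat 1024⟩, ⟨.negSucc 4388, .negSucc 1009, .ofNat 1, .negSucc 1177, .negSucc 29, .negSucc 1564⟩, ⟨.negSucc 2073, .ofNat 314, .ofNat 13, .negSucc 275, .ofNat 438, .ofNat 767⟩, .ofNat 645, .ofNat 682, .ofNat 0, .ofNat 682, .ofNat 1506,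 .ofNat 0, .ofNat 128, .negSucc 656, .negSucc 431, .ofNat 0, .ofNat 413, .ofNat 240, .ofNat 0, .ofNat 0, .ofNat 604, .ofNat 6982, .ofNat 2941664125719622843598507497834081598687466749952, .ofNat 0, .ofNat 7317108350845238899228322072714620329525248, .ofNat 0, .ofNat 0, .ofNat 0, .ofNat 67051865136519531576931269874799871998820352, .ofNat 0, .ofNat 0, .ofNat 0, .ofNat 110808533429560697993655689261619062511763456, .ofNat 0, .ofNat 0, .ofNat 0, .ofNat 97560232554191587003300692740494847767478272, .ofNat 0⟩)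
    (by decide +kernel)
theorem L02373 : Good (Phi V5.P V5.D (-1) (-1)) ⟨4, 13, 3, 3, 3, 5, 5, 0, 5, 3⟩ :=
  leafX_sound T5.ok_mm T5.Ymm.bz_eq (w := 243) (c := ⟨⟨.negSucc 2523, .negSucc 2222, .ofNat 496, .negSucc 946, .ofNat 1, .negSucc 2055⟩, ⟨.ofNat 924, .ofNat 1305, .ofNat 94, .ofNat 530, .ofNat 16, .ofNat 1148⟩, ⟨.ofNat 1337, .ofNat 1204, .negSucc 370, .ofNat 1069, .negSucc 30, .ofNat 1336⟩, ⟨.negSucc 5209, .negSucc 2234, .ofNat 469, .negSucc 1092, .negSucc 17, .negSucc 2267⟩, ⟨.negSucc 2503, .ofNat 1367, .negSucc 398, .ofNat 667, .negSucc 107, .ofNat 1671⟩, .ofNat 600, .ofNat 590, .ofNat 0, .ofNat 590, .ofNat 1295, .ofNat 0, .ofNat 128, .negSucc 347, .negSucc 558, .ofNat 0, .ofNat 219, .ofNat 332, .ofNat 0, .ofNat 0, .ofNat 539, .ofNat 17921, .ofNat 440773387554570168345610835692391178093019474690048, .ofNat 0, .ofNat 718169744719125113859642901104776614848233472, .ofNat 0, .ofNat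 0, .ofNat 0, .ofNat 15167972079490352112552904896435699381061025792, .ofNat 0, .ofNat 120560172542441293877588652542534314952603197243392, .ofNat 0, .ofNat 33843923140339532283625820877797462559101550592, .ofNat 0, .ofNat 0, .ofNat 0, .ofNat 47248577882406950435796501991011557147121025024, .ofNat 0⟩)
    (by decide +kernel)
theorem L02374 : Good (Phi V5.P V5.D (-1) (-1)) ⟨4, 13, 3, 3, 3, 5, 5, 1, 5, 3⟩ :=
  leafX_sound T5.ok_mm T5.Ymm.bz_eq (w := 242) (c := ⟨⟨.negSucc 2651, .negSucc 1902, .ofNat 388, .negSucc 990, .ofNat 120, .negSucc 1780⟩, ⟨.ofNat 1012, .ofNat 1097, .ofNat 177, .ofNat 553, .negSucc 75, .ofNat 1003⟩, ⟨.ofNat 1360, .ofNat 1144, .negSucc 400, .ofNat 1026, .negSucc 63, .ofNat 1294⟩, ⟨.negSucc 5381, .negSucc 2033, .ofNat 419, .negSucc 1079, .ofNat 128, .negSucc 1968⟩, ⟨.negSucc 2557, .ofNat 843, .negSucc 281, .ofNat 844, .negSucc 84, .ofNat 1504⟩, .ofNat 600, .ofNat 590,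 .ofNat 0, .ofNat 590, .ofNat 1295, .ofNat 0, .ofNat 128, .negSucc 370, .negSucc 544, .ofNat 0, .ofNat 234, .ofNat 320, .ofNat 0, .ofNat 0, .ofNat 513, .ofNat 7775, .ofNat 0, .ofNat 0, .ofNat 358199801844034361287464926192549318908444672, .ofNat 0, .ofNat 0, .ofNat 0, .ofNat 12552096576187497178598836147826101741611384832, .ofNat 0, .ofNat 0, .ofNat 0, .ofNat 30426373449302274995917336181727064461412401152, .ofNat 0, .ofNat 0, .ofNat 0, .ofNat 68974543502050967544350425914302502152630697984, .ofNat 0⟩)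
    (by decide +kernel)
theorem L02375 : Good (Phi V5.P V5.D (-1) (-1)) ⟨4, 13, 3, 3, 3, 5, 4, 1, 5, 3⟩ :=
  leafX_sound T5.ok_mm T5.Ymm.bz_eq (w := 238) (c := ⟨⟨.negSucc 2708, .negSucc 2234, .ofNat 664, .negSucc 726, .ofNat 169, .negSucc 1886⟩, ⟨.ofNat 1046, .ofNat 1275, .ofNat 26, .ofNat 403, .negSucc 86, .ofNat 1044⟩, ⟨.ofNat 1420, .ofNat 1322, .negSucc 492, .ofNat 839, .negSucc 83, .ofNat 1284⟩, ⟨.negSucc 5374, .negSucc 2478, .ofNat 766, .negSucc 861, .ofNat 266, .negSucc 2195⟩, ⟨.negSucc 2309, .ofNat 1040, .negSucc 419, .ofNat 398, .negSucc 39, .ofNat 1393⟩, .ofNat 600, .ofNat 590, .ofNat 0, .ofNat 590, .ofNat 1295, .ofNat 0, .ofNat 128, .negSucc 358, .negSucc 609, .ofNat 0, .ofNat 227, .ofNat 352, .ofNat 0, .ofNat 0, .ofNat 559, .ofNat 3956, .ofNat 0, .ofNat 0, .ofNat 35574773048388746278994648081487229022633984, .ofNat 0, .ofNat 0, .ofNat 0, .ofNat 1379798510063662288076523290089955539942375424,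 .ofNat 0, .ofNat 0, .ofNat 0, .ofNat 1845335644475248824282792391842706842235961344, .ofNat 0, .ofNat 0, .ofNat 0, .ofNat 2951890475595057352488586432178815868547891200, .ofNat 0⟩)
    (by decide +kernel)
theorem L02376 : Good (Phi V5.P V5.D (-1) (-1)) ⟨3, 7, 3, 3, 2, 2, 3, 0, 5, 3⟩ :=
  out_sound (S := T5.ds_mm) T5.ok_mm (w := 45) (j := 3) (by decide +kernel)
theorem L02377 : Good (Phi V5.P V5.D (-1) (-1)) ⟨5, 24, 3, 3, 3, 6, 3, 0, 5, 3⟩ :=
  out_sound (S := T5.ds_mm) T5.ok_mm (w := 57) (j := 3) (by decide +kernel)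
theorem L02378 : Good (Phi V5.P V5.D (-1) (-1)) ⟨5, 25, 3, 3, 3, 6, 5, 0, 6, 6⟩ :=
  leafX_sound T5.ok_mm T5.Ymm.bz_eq (w := 253) (c := ⟨⟨.negSucc 3193, .negSucc 1084, .ofNat 914, .negSucc 925, .ofNat 368, .negSucc 761⟩, ⟨.ofNat 1338, .ofNat 593, .negSucc 114, .ofNat 476, .negSucc 185, .ofNat 388⟩, ⟨.ofNat 2380, .ofNat 789, .negSucc 768, .ofNat 1683, .negSucc 444, .ofNat 520⟩, ⟨.negSucc 6031, .negSucc 1252, .ofNat 1032, .negSucc 937, .ofNat 508, .negSucc 859⟩, ⟨.negSucc 1925, .ofNat 444, .negSucc 657, .ofNat 1128, .negSucc 163, .ofNat 720⟩, .ofNat 1069, .ofNat 1542, .ofNat 0, .ofNat 1542, .ofNat 3470, .ofNat 0, .ofNat 128, .negSucc 476, .negSucc 606, .ofNat 0, .ofNat 264, .ofNat 304, .ofNat 0, .ofNat 0, .ofNat 747, .ofNat 42747, .ofNat 86981779437720282830343420242024750287055720447737856, .ofNat 0, .ofNat 0, .ofNat 0, .ofNat 63326382585955523031412136666151869136719311823437824, .ofNat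 0, .ofNat 0, .ofNat 0, .ofNat 0, .ofNat 0, .ofNat 179706963080444747917292283586535564891066990592, .ofNat 0, .ofNat 103265108302839900024645881245989318236479113763225600, .ofNat 0, .ofNat 25668106393043541008757576773726969012387053568, .ofNat 0⟩)
    (by decide +kernel)
theorem L02379 : Good (Phi V5.P V5.D (-1) (-1)) ⟨5, 25, 3, 3, 3, 6, 5, 1, 6, 6⟩ :=
  leafX_sound T5.ok_mm T5.Ymm.bz_eq (w := 252) (c := ⟨⟨.negSucc 2961, .negSucc 1148, .ofNat 1455, .negSucc 761, .ofNat 279, .negSucc 811⟩, ⟨.ofNat 1232, .ofNat 617, .negSucc 393, .ofNat 391, .negSucc 137, .ofNat 403⟩, ⟨.ofNat 2081, .ofNat 882, .negSucc 1127, .ofNat 1445, .negSucc 313, .ofNat 512⟩, ⟨.negSucc 5683, .negSucc 1327, .ofNat 1735, .negSucc 732, .ofNat 326, .negSucc 968⟩, ⟨.negSucc 1990, .ofNat 533, .negSucc 965, .ofNat 1005, .negSucc 241, .ofNat 659⟩, .ofNat 1064, .ofNat 1535, .ofNat 0, .ofNat 1535, .ofNat 3469, .ofNat 0,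 .ofNat 128, .negSucc 489, .negSucc 670, .ofNat 0, .ofNat 271, .ofNat 333, .ofNat 0, .ofNat 0, .ofNat 805, .ofNat 15200, .ofNat 0, .ofNat 0, .ofNat 0, .ofNat 0, .ofNat 0, .ofNat 0, .ofNat 0, .ofNat 0, .ofNat 0, .ofNat 0, .ofNat 164825995919534581401314920763273988564842446848, .ofNat 0, .ofNat 0, .ofNat 0, .ofNat 249377529867157036885916358693706981997079953408, .ofNat 0⟩)
    (by decide +kernel)
theorem L02380 : Good (Phi V5.P V5.D (-1) (-1)) ⟨5, 25, 3, 3, 3, 6, 4, 1, 6, 6⟩ :=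
  leafX_sound T5.ok_mm T5.Ymm.bz_eq (w := 247) (c := ⟨⟨.negSucc 2681, .negSucc 982, .ofNat 1188, .negSucc 608, .ofNat 426, .negSucc 1019⟩, ⟨.ofNat 1108, .ofNat 511, .negSucc 245, .ofNat 314, .negSucc 213, .ofNat 503⟩, ⟨.ofNat 1853, .ofNat 747, .negSucc 916, .ofNat 1133, .negSucc 473, .ofNat 677⟩, ⟨.negSucc 5301, .negSucc 1243, .ofNat 1558, .negSucc 562, .ofNat 552, .negSucc 1244⟩, ⟨.negSucc 2167, .ofNat 200, .negSucc 396, .ofNat 858, .negSucc 229, .ofNat 769⟩, .ofNat 1077, .ofNat 1554, .ofNat 0, .ofNat 1554, .ofNat 3488, .ofNat 0, .ofNat 128, .negSucc 468, .negSucc 790, .ofNat 0, .ofNat 257, .ofNat 391, .ofNat 0, .ofNat 0, .ofNat 891, .ofNat 6848, .ofNat 0, .ofNat 0, .ofNat 0, .ofNat 0, .ofNat 0, .ofNat 0, .ofNat 0, .ofNat 0, .ofNat 0, .ofNat 0, .ofNat 6509469780059299974608332824251049156437606400, .ofNat 0, .ofNat 0, .ofNat 0, .ofNat 0, .ofNat 0⟩)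
    (by decide +kernel)
theorem L02381 : Good (Phi V5.P V5.D (-1) (-1)) ⟨5, 25, 3, 3, 4, 12, 6, 0, 6, 7⟩ :=
  out_sound (S := T5.ds_mm) T5.ok_mm (w := 36) (j := 1) (by decide +kernel)
theorem L02382 : Good (Phi V5.P V5.D (-1) (-1)) ⟨5, 25, 3, 3, 4, 12, 6, 1, 6, 7⟩ :=
  leafX_sound T5.ok_mm T5.Ymm.bz_eq (w := 271) (c := ⟨⟨.negSucc 3952, .negSucc 1053, .ofNat 952, .negSucc 244, .ofNat 80, .negSucc 318⟩, ⟨.ofNat 1716, .ofNat 593, .negSucc 132, .ofNat 134, .negSucc 45, .ofNat 165⟩, ⟨.ofNat 2767, .ofNat 754, .negSucc 877, .ofNat 707, .negSucc 128, .ofNat 292⟩, ⟨.negSucc 6907, .negSucc 1098, .ofNat 1103, .negSucc 140, .ofNat 67, .negSucc 309⟩, ⟨.negSucc 1263, .ofNat 662, .negSucc 755, .ofNat 533, .negSucc 108, .ofNat 426⟩, .ofNat 613, .ofNat 662, .ofNat 0, .ofNat 662, .ofNat 1653, .ofNat 0, .ofNat 128, .negSucc 314, .negSucc 336, .ofNat 0, .ofNat 189, .ofNat 175, .ofNat 0, .ofNat 0, .ofNat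 453, .ofNat 67183, .ofNat 2588367843830915623192799319356379796370707012348245180416, .ofNat 0, .ofNat 264758331806097180411972607579724120845698274951168, .ofNat 0, .ofNat 0, .ofNat 0, .ofNat 0, .ofNat 0, .ofNat 0, .ofNat 0, .ofNat 32053206725250060554937912942579031750103939474784256, .ofNat 0, .ofNat 1395852520094251150896486639266617677360744777716108099584, .ofNat 0, .ofNat 24092033635988315638917523689481116992859143009206272, .ofNat 0⟩)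
    (by decide +kernel)
theorem L02383 : Good (Phi V5.P V5.D (-1) (-1)) ⟨5, 25, 3, 3, 4, 13, 5, 0, 6, 7⟩ :=
  leafX_sound T5.ok_mm T5.Ymm.bz_eq (w := 267) (c := ⟨⟨.negSucc 4587, .negSucc 1048, .ofNat 1149, .ofNat 14, .ofNat 193, .ofNat 68⟩, ⟨.ofNat 2030, .ofNat 614, .negSucc 247, .ofNat 1, .negSucc 97, .negSucc 28⟩, ⟨.ofNat 3914, .ofNat 829, .negSucc 1034, .ofNat 417, .negSucc 339, .negSucc 61⟩, ⟨.negSucc 7514, .negSucc 1056, .ofNat 1360, .ofNat 98, .ofNat 188, .ofNat 154⟩, ⟨.negSucc 364, .ofNat 690, .negSucc 923, .ofNat 169, .negSucc 258, .ofNat 113⟩, .ofNat 615, .ofNat 664, .ofNat 0, .ofNat 664, .ofNat 1652, .ofNat 0, .ofNat 128, .negSucc 414, .negSucc 482, .ofNat 0, .ofNat 264, .ofNat 246, .ofNat 0, .ofNat 0, .ofNat 667, .ofNat 87630, .ofNat 457553981665806390183713853222672227305198678556119400448, .ofNat 0, .ofNat 0, .ofNat 0, .ofNat 0, .ofNat 0, .ofNat 1015823807508305567601138955120904233434451648970752,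 .ofNat 0, .ofNat 508069317524757104461787296947684629733868277517743292416, .ofNat 0, .ofNat 3124248560452008499191004538799827284386434923888640, .ofNat 0, .ofNat 690119148967280620271964352313412836323701106415646015488, .ofNat 0, .ofNat 4529902878238008928680312803863627262486817942798336, .ofNat 0⟩)
    (by decide +kernel)
theorem L02384 : Good (Phi V5.P V5.D (-1) (-1)) ⟨5, 25, 3, 3, 3, 6, 5, 1, 6, 7⟩ :=
  leafX_sound T5.ok_mm T5.Ymm.bz_eq (w := 252) (c := ⟨⟨.negSucc 4082, .negSucc 915, .ofNat 843, .negSucc 159, .ofNat 151, .negSucc 187⟩, ⟨.ofNat 1774, .ofNat 527, .negSucc 80, .ofNat 99, .negSucc 77, .ofNat 100⟩, ⟨.ofNat 2832, .ofNat 674, .negSucc 722, .ofNat 1028, .negSucc 235, .ofNat 185⟩, ⟨.negSucc 7064, .negSucc 946, .ofNat 991, .ofNat 41, .ofNat 147, .negSucc 158⟩, ⟨.negSucc 1152, .ofNat 528, .negSucc 614, .ofNat 645, .negSucc 183, .ofNat 301⟩, .ofNat 614, .ofNat 660, .ofNat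 0, .ofNat 660, .ofNat 1632, .ofNat 0, .ofNat 128, .negSucc 323, .negSucc 568, .ofNat 0, .ofNat 199, .ofNat 293, .ofNat 0, .ofNat 0, .ofNat 732, .ofNat 24998, .ofNat 0, .ofNat 0, .ofNat 0, .ofNat 0, .ofNat 0, .ofNat 0, .ofNat 0, .ofNat 0, .ofNat 0, .ofNat 0, .ofNat 98141063241953655223754803476683262043648688128, .ofNat 0, .ofNat 0, .ofNat 0, .ofNat 0, .ofNat 0⟩)
    (by decide +kernel)
theorem L02385 : Good (Phi V5.P V5.D (-1) (-1)) ⟨5, 25, 3, 3, 3, 6, 4, 1, 6, 7⟩ :=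
  leafX_sound T5.ok_mm T5.Ymm.bz_eq (w := 248) (c := ⟨⟨.negSucc 3958, .negSucc 986, .ofNat 951, .ofNat 82, .ofNat 328, .negSucc 244⟩, ⟨.ofNat 1726, .ofNat 539, .negSucc 131, .negSucc 27, .negSucc 163, .ofNat 123⟩, ⟨.ofNat 2736, .ofNat 788, .negSucc 840, .ofNat 603, .negSucc 433, .ofNat 195⟩, ⟨.negSucc 6879, .negSucc 1095, .ofNat 1151, .ofNat 290, .ofNat 374, .negSucc 274⟩, ⟨.negSucc 1213, .ofNat 510, .negSucc 625, .ofNat 373, .negSucc 312, .ofNat 271⟩, .ofNat 612, .ofNat 659, .ofNat 0, .ofNat 659, .ofNat 1649, .ofNat 0, .ofNat 128, .negSucc 353, .negSucc 632, .ofNat 0, .ofNat 215, .ofNat 316, .ofNat 0, .ofNat 0, .ofNat 773, .ofNat 11687, .ofNat 0, .ofNat 0, .ofNat 0, .ofNat 0, .ofNat 0, .ofNat 0, .ofNat 0, .ofNat 0, .ofNat 0, .ofNat 0, .ofNat 7311440618594353219625982702335540438306390016, .ofNat 0, .ofNat 0, .ofNat 0, .ofNat 12946016194297687483966254745552140551483031552, .ofNat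 0⟩)
    (by decide +kernel)
theorem L02386 : Good (Phi V5.P V5.D (-1) (-1)) ⟨6, 52, 3, 3, 3, 6, 5, 0, 6, 6⟩ :=
  leafX_sound T5.ok_mm T5.Ymm.bz_eq (w := 257) (c := ⟨⟨.negSucc 4348, .negSucc 790, .ofNat 1628, .negSucc 1009, .ofNat 303, .negSucc 1001⟩, ⟨.ofNat 1951, .ofNat 462, .negSucc 513, .ofNat 561, .negSucc 164, .ofNat 548⟩, ⟨.ofNat 3108, .ofNat 539, .negSucc 1243, .ofNat 1891, .negSucc 357, .ofNat 685⟩, ⟨.negSucc 7311, .negSucc 834, .ofNat 1840, .negSucc 948, .ofNat 334, .negSucc 1032⟩, ⟨.negSucc 1259, .ofNat 470, .negSucc 1220, .ofNat 1233, .negSucc 246, .ofNat 1029⟩, .ofNat 1045, .ofNat 1412, .ofNat 0, .ofNat 1412, .ofNat 2975, .ofNat 0, .ofNat 128, .negSucc 604, .negSucc 958, .ofNat 0, .ofNat 359, .ofNat 519, .ofNat 0, .ofNat 0, .ofNat 1052, .ofNat 37335, .ofNat 1231671819609605821429850362378117084400083986271961088, .ofNat 0, .ofNat 6700535320398607650120078659070828047927083008,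 .ofNat 0, .ofNat 898526908613992187604260022760372042533916370192564224, .ofNat 0, .ofNat 29674926689622519545275015493207701306982006784, .ofNat 0, .ofNat 0, .ofNat 0, .ofNat 0, .ofNat 0, .ofNat 0, .ofNat 0, .ofNat 581438273417304660897808381751983535903861637120, .ofNat 0⟩)
    (by decide +kernel)
theorem L02387 : Good (Phi V5.P V5.D (-1) (-1)) ⟨6, 52, 3, 3, 3, 6, 5, 1, 6, 6⟩ :=
  leafX_sound T5.ok_mm T5.Ymm.bz_eq (w := 256) (c := ⟨⟨.negSucc 4123, .negSucc 546, .ofNat 1626, .negSucc 830, .ofNat 443, .negSucc 1098⟩, ⟨.ofNat 1835, .ofNat 314, .negSucc 506, .ofNat 465, .negSucc 237, .ofNat 595⟩, ⟨.ofNat 2914, .ofNat 346, .negSucc 1238, .ofNat 1590, .negSucc 414, .ofNat 733⟩, ⟨.negSucc 7008, .negSucc 602, .ofNat 1851, .negSucc 771, .ofNat 505, .negSucc 1230⟩, ⟨.negSucc 1367, .ofNat 226, .negSucc 1176, .ofNat 1031, .negSucc 374, .ofNat 1001⟩, .ofNat 616, .ofNat 643, .ofNat 0, .ofNat 643,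 .ofNat 1494, .ofNat 0, .ofNat 128, .negSucc 456, .negSucc 848, .ofNat 0, .ofNat 289, .ofNat 461, .ofNat 0, .ofNat 0, .ofNat 872, .ofNat 20155, .ofNat 0, .ofNat 0, .ofNat 0, .ofNat 0, .ofNat 0, .ofNat 0, .ofNat 0, .ofNat 0, .ofNat 0, .ofNat 0, .ofNat 0, .ofNat 0, .ofNat 0, .ofNat 0, .ofNat 228915524693703864815903604892761464252359770112, .ofNat 0⟩)
    (by decide +kernel)
theorem L02388 : Good (Phi V5.P V5.D (-1) (-1)) ⟨6, 52, 3, 3, 3, 6, 4, 1, 6, 6⟩ :=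
  leafX_sound T5.ok_mm T5.Ymm.bz_eq (w := 252) (c := ⟨⟨.negSucc 3799, .negSucc 547, .ofNat 1361, .negSucc 508, .ofNat 601, .negSucc 1227⟩, ⟨.ofNat 1670, .ofNat 310, .negSucc 364, .ofNat 286, .negSucc 324, .ofNat 658⟩, ⟨.ofNat 2646, .ofNat 400, .negSucc 1017, .ofNat 1125, .negSucc 594, .ofNat 804⟩, ⟨.negSucc 6617, .negSucc 625, .ofNat 1562, .negSucc 431, .ofNat 690, .negSucc 1410⟩, ⟨.negSucc 1571, .ofNat 209, .negSucc 900, .ofNat 707, .negSucc 460, .ofNat 947⟩, .ofNat 1065, .ofNat 1447, .ofNat 0, .ofNat 1447, .ofNat 3031, .ofNat 0, .ofNat 128, .negSucc 435, .negSucc 1004, .ofNat 0, .ofNat 256, .ofNat 535, .ofNat 0, .ofNat 0, .ofNat 1024, .ofNat 9867, .ofNat 0, .ofNat 0, .ofNat 0, .ofNat 0, .ofNat 0, .ofNat 0, .ofNat 326441007306813719732628686187998716270477312, .ofNat 0, .ofNat 0, .ofNat 0, .ofNat 0, .ofNat 0, .ofNat 0, .ofNat 0, .ofNat 0, .ofNat 0⟩)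
    (by decide +kernel)
theorem L02389 : Good (Phi V5.P V5.D (-1) (-1)) ⟨6, 52, 4, 6, 4, 12, 6, 0, 6, 7⟩ :=
  out_sound (S := T5.ds_mm) T5.ok_mm (w := 36) (j := 1) (by decide +kernel)
theorem L02390 : Good (Phi V5.P V5.D (-1) (-1)) ⟨6, 52, 4, 6, 4, 12, 6, 1, 6, 7⟩ :=
  leafX_sound T5.ok_mm T5.Ymm.bz_eq (w := 280) (c := ⟨⟨.negSucc 5303, .negSucc 802, .ofNat 644, .negSucc 253, .ofNat 142, .negSucc 109⟩, ⟨.ofNat 2467, .ofNat 486, .negSucc 169, .ofNat 153, .negSucc 82, .ofNat 69⟩, ⟨.ofNat 3697, .ofNat 554, .negSucc 566, .ofNat 775, .negSucc 164, .ofNat 166⟩, ⟨.negSucc 8353, .negSucc 794, .ofNat 723, .negSucc 113, .ofNat 130, .negSucc 31⟩, ⟨.negSucc 357, .ofNat 573, .negSucc 527, .ofNat 588, .negSucc 169, .ofNat 281⟩, .ofNat 991, .ofNat 1309, .ofNat 0, .ofNat 1309, .ofNat 2782, .ofNat 0, .ofNat 128, .negSucc 520, .negSucc 829, .ofNat 0, .ofNat 312, .ofNat 454, .ofNat 0, .ofNat 0, .ofNat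 991, .ofNat 177370, .ofNat 823872343194684468496236712570343922597817233433617550540800, .ofNat 0, .ofNat 0, .ofNat 0, .ofNat 139824625586018322128227461265348066420755287772751472885760, .ofNat 0, .ofNat 61139272575350736407192026151536712127303778966700032, .ofNat 0, .ofNat 0, .ofNat 0, .ofNat 161138723829373097663193645137287400377822732208832512, .ofNat 0, .ofNat 1417632783577760827113001296020809376286133561965549908393984, .ofNat 0, .ofNat 375483759384071556969490416573276489693491869639507968, .ofNat 0⟩)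
    (by decide +kernel)
theorem L02391 : Good (Phi V5.P V5.D (-1) (-1)) ⟨6, 52, 4, 6, 4, 13, 5, 0, 6, 7⟩ :=
  leafX_sound T5.ok_mm T5.Ymm.bz_eq (w := 275) (c := ⟨⟨.negSucc 6085, .negSucc 731, .ofNat 818, .ofNat 122, .ofNat 369, .ofNat 176⟩, ⟨.ofNat 2909, .ofNat 454, .negSucc 269, .negSucc 58, .negSucc 206, .negSucc 83⟩, ⟨.ofNat 5038, .ofNat 559, .negSucc 703, .ofNat 387, .negSucc 494, .negSucc 92⟩, ⟨.negSucc 9031, .negSucc 718, .ofNat 941, .ofNat 210, .ofNat 349, .ofNat 284⟩, ⟨.ofNat 739, .ofNat 496, .negSucc 657, .ofNat 50, .negSucc 426, .ofNat 19⟩, .ofNat 992, .ofNat 1315, .ofNat 0, .ofNat 1315, .ofNat 2803, .ofNat 0, .ofNat 128, .negSucc 708, .negSucc 1043, .ofNat 0, .ofNat 440, .ofNat 563, .ofNat 0, .ofNat 0, .ofNat 1319, .ofNat 88321, .ofNat 53852410205907296173796441788253366517371106359699765723136, .ofNat 0, .ofNat 0, .ofNat 0, .ofNat 42968623067237628623900405699863555714281635688426309156864,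 .ofNat 0, .ofNat 3692745650054295353996777121765152636671392414171136, .ofNat 0, .ofNat 0, .ofNat 0, .ofNat 29592816895207872620965294482289302368171577602736128, .ofNat 0, .ofNat 0, .ofNat 0, .ofNat 35425895029118369696072298855545725087301546310369280, .ofNat 0⟩)
    (by decide +kernel)
theorem L02392 : Good (Phi V5.P V5.D (-1) (-1)) ⟨6, 52, 4, 6, 3, 6, 5, 1, 6, 7⟩ :=
  leafX_sound T5.ok_mm T5.Ymm.bz_eq (w := 259) (c := ⟨⟨.negSucc 5355, .negSucc 705, .ofNat 602, .negSucc 32, .ofNat 253, .negSucc 20⟩, ⟨.ofNat 2490, .ofNat 428, .negSucc 141, .ofNat 42, .negSucc 144, .ofNat 21⟩, ⟨.ofNat 3736, .ofNat 490, .negSucc 542, .ofNat 1012, .negSucc 301, .ofNat 92⟩, ⟨.negSucc 8373, .negSucc 760, .ofNat 755, .ofNat 128, .ofNat 226, .ofNat 26⟩, ⟨.negSucc 226, .ofNat 353, .negSucc 314, .ofNat 380, .negSucc 342, .ofNat 98⟩, .ofNat 1548, .ofNat 2344, .ofNat 0, .ofNat 2344, .ofNat 4748, .ofNat 0, .ofNat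 128, .negSucc 568, .negSucc 1235, .ofNat 0, .ofNat 337, .ofNat 667, .ofNat 0, .ofNat 0, .ofNat 1493, .ofNat 7929, .ofNat 0, .ofNat 0, .ofNat 0, .ofNat 0, .ofNat 0, .ofNat 0, .ofNat 319525346505474100397987163785364232925358325760, .ofNat 0, .ofNat 0, .ofNat 0, .ofNat 0, .ofNat 0, .ofNat 0, .ofNat 0, .ofNat 0, .ofNat 0⟩)
    (by decide +kernel)
theorem L02393 : Good (Phi V5.P V5.D (-1) (-1)) ⟨6, 52, 4, 6, 3, 6, 4, 1, 6, 7⟩ :=
  leafX_sound T5.ok_mm T5.Ymm.bz_eq (w := 255) (c := ⟨⟨.negSucc 5080, .negSucc 617, .ofNat 583, .ofNat 206, .ofNat 377, .negSucc 176⟩, ⟨.ofNat 2345, .ofNat 366, .negSucc 126, .negSucc 87, .negSucc 210, .ofNat 100⟩, ⟨.ofNat 3491, .ofNat 479, .negSucc 491, .ofNat 631, .negSucc 447, .ofNat 143⟩, ⟨.negSucc 8119, .negSucc 664, .ofNat 688, .ofNat 449, .ofNat 348, .negSucc 126⟩, ⟨.negSucc 603, .ofNat 301, .negSucc 381, .ofNat 300, .negSucc 480, .ofNat 307⟩, .ofNat 1012,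 .ofNat 1348, .ofNat 0, .ofNat 1348, .ofNat 2847, .ofNat 0, .ofNat 128, .negSucc 462, .negSucc 1206, .ofNat 0, .ofNat 278, .ofNat 647, .ofNat 0, .ofNat 0, .ofNat 1361, .ofNat 13778, .ofNat 0, .ofNat 0, .ofNat 0, .ofNat 0, .ofNat 0, .ofNat 0, .ofNat 6646531287353110901669729083871571932350513152, .ofNat 0, .ofNat 0, .ofNat 0, .ofNat 19810767652122117110889428440292742724889608192, .ofNat 0, .ofNat 0, .ofNat 0, .ofNat 0, .ofNat 0⟩)
    (by decide +kernel)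
theorem L02394 : Good (Phi V5.P V5.D (-1) (-1)) ⟨6, 52, 4, 7, 3, 6, 5, 0, 6, 7⟩ :=
  leafX_sound T5.ok_mm T5.Ymm.bz_eq (w := 261) (c := ⟨⟨.negSucc 4916, .negSucc 756, .ofNat 742, .ofNat 3, .ofNat 164, .negSucc 17⟩, ⟨.ofNat 2440, .ofNat 457, .negSucc 233, .ofNat 16, .negSucc 89, .ofNat 14⟩, ⟨.ofNat 3428, .ofNat 560, .negSucc 613, .ofNat 1123, .negSucc 287, .ofNat 43⟩, ⟨.negSucc 7841, .negSucc 756, .ofNat 795, .ofNat 258, .ofNat 112, .ofNat 54⟩, ⟨.negSucc 483, .ofNat 502, .negSucc 631, .ofNat 498, .negSucc 286, .ofNat 167⟩, .ofNat 1225, .ofNat 1743, .ofNat 0, .ofNat 1743, .ofNat 3571, .ofNat 0, .ofNat 128, .negSucc 686, .negSucc 1132, .ofNat 0, .ofNat 407, .ofNat 618, .ofNat 0, .ofNat 0, .ofNat 1451, .ofNat 95797, .ofNat 22212921175908470850205487336338191482601784347268743168, .ofNat 0, .ofNat 0, .ofNat 0, .ofNat 11331030702462550331232836024610416927876947671106191360, .ofNat 0, .ofNat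 0, .ofNat 0, .ofNat 0, .ofNat 0, .ofNat 775845563317813382234286911547970465498551812096, .ofNat 0, .ofNat 0, .ofNat 0, .ofNat 0, .ofNat 0⟩)
    (by decide +kernel)
theorem L02395 : Good (Phi V5.P V5.D (-1) (-1)) ⟨6, 52, 4, 7, 3, 6, 5, 1, 6, 7⟩ :=
  leafX_sound T5.ok_mm T5.Ymm.bz_eq (w := 260) (c := ⟨⟨.negSucc 4847, .negSucc 570, .ofNat 592, .ofNat 182, .ofNat 222, .negSucc 91⟩, ⟨.ofNat 2404, .ofNat 349, .negSucc 149, .negSucc 81, .negSucc 123, .ofNat 55⟩, ⟨.ofNat 3282, .ofNat 423, .negSucc 530, .ofNat 843, .negSucc 284, .ofNat 98⟩, ⟨.negSucc 7817, .negSucc 593, .ofNat 735, .ofNat 425, .ofNat 211, .negSucc 32⟩, ⟨.negSucc 666, .ofNat 279, .negSucc 282, .ofNat 293, .negSucc 250, .ofNat 208⟩, .ofNat 1978, .ofNat 3143, .ofNat 0, .ofNat 3143, .ofNat 6214, .ofNat 0, .ofNat 128, .negSucc 459, .negSucc 839, .ofNat 0, .ofNat 265, .ofNat 454, .ofNat 0, .ofNat 0, .ofNat 1048, .ofNat 40380, .ofNat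 0, .ofNat 0, .ofNat 0, .ofNat 0, .ofNat 0, .ofNat 0, .ofNat 0, .ofNat 0, .ofNat 0, .ofNat 0, .ofNat 0, .ofNat 0, .ofNat 0, .ofNat 0, .ofNat 0, .ofNat 0⟩)
    (by decide +kernel)
theorem L02396 : Good (Phi V5.P V5.D (-1) (-1)) ⟨6, 52, 4, 7, 3, 6, 4, 1, 6, 7⟩ :=
  leafX_sound T5.ok_mm T5.Ymm.bz_eq (w := 255) (c := ⟨⟨.negSucc 4552, .negSucc 629, .ofNat 657, .ofNat 284, .ofNat 377, .negSucc 223⟩, ⟨.ofNat 2251, .ofNat 368, .negSucc 179, .negSucc 139, .negSucc 204, .ofNat 123⟩, ⟨.ofNat 3059, .ofNat 463, .negSucc 511, .ofNat 554, .negSucc 429, .ofNat 165⟩, ⟨.negSucc 7555, .negSucc 685, .ofNat 748, .ofNat 562, .ofNat 422, .negSucc 162⟩, ⟨.negSucc 1061, .ofNat 302, .negSucc 425, .ofNat 261, .negSucc 297, .ofNat 361⟩, .ofNat 1780, .ofNat 2773, .ofNat 0, .ofNat 2773, .ofNat 5516, .ofNat 0, .ofNat 128, .negSucc 451, .negSucc 822, .ofNat 0, .ofNat 259, .ofNat 441, .ofNat 0, .ofNat 0, .ofNat 961,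 .ofNat 14607, .ofNat 0, .ofNat 0, .ofNat 0, .ofNat 0, .ofNat 0, .ofNat 0, .ofNat 0, .ofNat 0, .ofNat 0, .ofNat 0, .ofNat 6817884306481228246868556406368058825257254912, .ofNat 0, .ofNat 0, .ofNat 0, .ofNat 0, .ofNat 0⟩)
    (by decide +kernel)
theorem L02397 : Good (Phi V5.P V5.D (-1) (-1)) ⟨6, 53, 3, 3, 3, 6, 5, 0, 6, 6⟩ :=
  leafX_sound T5.ok_mm T5.Ymm.bz_eq (w := 257) (c := ⟨⟨.negSucc 5417, .negSucc 763, .ofNat 2033, .negSucc 723, .ofNat 257, .negSucc 1165⟩, ⟨.ofNat 2577, .ofNat 474, .negSucc 789, .ofNat 429, .negSucc 154, .ofNat 672⟩, ⟨.ofNat 3763, .ofNat 517, .negSucc 1463, .ofNat 1739, .negSucc 311, .ofNat 783⟩, ⟨.negSucc 8405, .negSucc 861, .ofNat 2256, .negSucc 503, .ofNat 191, .negSucc 1175⟩, ⟨.negSucc 452, .ofNat 265, .negSucc 1435, .ofNat 1148, .negSucc 348, .ofNat 1073⟩, .ofNat 1574, .ofNat 2291, .ofNat 0, .ofNat 2291, .ofNat 4389, .ofNat 0, .ofNat 128, .negSucc 720, .negSucc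 1001, .ofNat 0, .ofNat 436, .ofNat 570, .ofNat 0, .ofNat 0, .ofNat 1031, .ofNat 23953, .ofNat 772749652811984008009504518269460441877176087287431168, .ofNat 0, .ofNat 4886960710964258002231210489918406128549494784, .ofNat 0, .ofNat 736377175494700631642683481053718624276667923056033792, .ofNat 0, .ofNat 134182328661753125271325253028208301972954021888, .ofNat 0, .ofNat 0, .ofNat 0, .ofNat 261919031106281797630103073962677026030834679808, .ofNat 0, .ofNat 0, .ofNat 0, .ofNat 350729916806747982871118789537366709589168357376, .ofNat 0⟩)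
    (by decide +kernel)
theorem L02398 : Good (Phi V5.P V5.D (-1) (-1)) ⟨6, 53, 3, 3, 3, 6, 5, 1, 6, 6⟩ :=
  leafX_sound T5.ok_mm T5.Ymm.bz_eq (w := 256) (c := ⟨⟨.negSucc 4730, .negSucc 790, .ofNat 1552, .negSucc 708, .ofNat 440, .negSucc 1163⟩, ⟨.ofNat 2190, .ofNat 478, .negSucc 510, .ofNat 417, .negSucc 254, .ofNat 662⟩, ⟨.ofNat 3248, .ofNat 549, .negSucc 1114, .ofNat 1530, .negSucc 394, .ofNat 731⟩, ⟨.negSucc 7755, .negSucc 901, .ofNat 1871, .negSucc 452, .ofNat 342, .negSucc 1220⟩, ⟨.negSucc 1265, .ofNat 288, .negSucc 680, .ofNat 1216, .negSucc 609, .ofNat 982⟩, .ofNat 1585, .ofNat 2306, .ofNat 0, .ofNat 2306, .ofNat 4408, .ofNat 0, .ofNat 128, .negSucc 526, .negSucc 1080, .ofNat 0, .ofNat 318, .ofNat 611, .ofNat 0, .ofNat 0, .ofNat 1085, .ofNat 13970, .ofNat 0, .ofNat 0, .ofNat 0, .ofNat 0, .ofNat 0, .ofNat 0, .ofNat 152814660054085895013477588903693141255642939392, .ofNat 0,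 .ofNat 0, .ofNat 0, .ofNat 105346283402137155867646974089924349517174407168, .ofNat 0, .ofNat 0, .ofNat 0, .ofNat 318599523643143917844822164273654007635759857664, .ofNat 0⟩)
    (by decide +kernel)
theorem L02399 : Good (Phi V5.P V5.D (-1) (-1)) ⟨6, 53, 3, 3, 3, 6, 4, 1, 6, 6⟩ :=
  leafX_sound T5.ok_mm T5.Ymm.bz_eq (w := 252) (c := ⟨⟨.negSucc 4585, .negSucc 566, .ofNat 1637, .negSucc 422, .ofNat 592, .negSucc 1221⟩, ⟨.ofNat 2112, .ofNat 331, .negSucc 546, .ofNat 250, .negSucc 336, .ofNat 688⟩, ⟨.ofNat 3154, .ofNat 402, .negSucc 1211, .ofNat 1138, .negSucc 569, .ofNat 787⟩, ⟨.negSucc 7536, .negSucc 652, .ofNat 1857, .negSucc 263, .ofNat 636, .negSucc 1329⟩, ⟨.negSucc 1273, .ofNat 181, .negSucc 985, .ofNat 734, .negSucc 486, .ofNat 977⟩, .ofNat 1152, .ofNat 1550, .ofNat 0, .ofNat 1550, .ofNat 3062, .ofNat 0, .ofNat 128, .negSucc 639, .negSucc 1181, .ofNat 0, .ofNat 387, .ofNat 662,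 .ofNat 0, .ofNat 0, .ofNat 1145, .ofNat 8575, .ofNat 0, .ofNat 0, .ofNat 0, .ofNat 0, .ofNat 0, .ofNat 0, .ofNat 3050344829276301608777676259091512163236315136, .ofNat 0, .ofNat 0, .ofNat 0, .ofNat 7127890607312674505146789388680037321119105024, .ofNat 0, .ofNat 0, .ofNat 0, .ofNat 19663527393281745037229118020162936239449702400, .ofNat 0⟩)
    (by decide +kernel)
theorem L02400 : Good (Phi V5.P V5.D (-1) (-1)) ⟨6, 53, 3, 3, 4, 12, 5, 0, 6, 7⟩ :=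
  leafX_sound T5.ok_mm T5.Ymm.bz_eq (w := 272) (c := ⟨⟨.negSucc 6511, .negSucc 871, .ofNat 1538, .negSucc 68, .ofNat 247, .negSucc 64⟩, ⟨.ofNat 3198, .ofNat 551, .negSucc 512, .ofNat 56, .negSucc 146, .ofNat 46⟩, ⟨.ofNat 4557, .ofNat 573, .negSucc 1284, .ofNat 682, .negSucc 287, .ofNat 139⟩, ⟨.negSucc 9544, .negSucc 827, .ofNat 1660, .ofNat 123, .ofNat 211, .ofNat 20⟩, ⟨.ofNat 600, .ofNat 612, .negSucc 1263, .ofNat 445, .negSucc 286, .ofNat 211⟩, .ofNat 998, .ofNat 1273, .ofNat 0, .ofNat 1273, .ofNat 2573, .ofNat 0, .ofNat 128, .negSucc 546, .negSucc 686, .ofNat 0, .ofNat 341, .ofNat 398, .ofNat 0, .ofNat 0, .ofNat 748, .ofNat 104354, .ofNat 12242262839394294835271812747617169805484313613457999003648, .ofNat 0, .ofNat 167468999551288641835627202589427188402213256953856, .ofNat 0, .ofNat 9939895837307755836403116346527783763805102682087742242816, .ofNat 0, .ofNat 749620671790039897573236257046978926351314302533632,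 .ofNat 0, .ofNat 0, .ofNat 0, .ofNat 4884441038547897019319763095366389461569708820004864, .ofNat 0, .ofNat 6699895854215222670178972106098608832467833982234369458176, .ofNat 0, .ofNat 6651332571559780202313027155499053814463531195564032, .ofNat 0⟩)
    (by decide +kernel)
theorem L02401 : Good (Phi V5.P V5.D (-1) (-1)) ⟨6, 53, 3, 3, 4, 12, 5, 1, 6, 7⟩ :=
  leafX_sound T5.ok_mm T5.Ymm.bz_eq (w := 271) (c := ⟨⟨.negSucc 6222, .negSucc 810, .ofNat 1533, .ofNat 2, .ofNat 190, .negSucc 170⟩, ⟨.ofNat 3027, .ofNat 512, .negSucc 503, .ofNat 14, .negSucc 114, .ofNat 105⟩, ⟨.ofNat 4278, .ofNat 553, .negSucc 1280, .ofNat 560, .negSucc 209, .ofNat 193⟩, ⟨.negSucc 9265, .negSucc 787, .ofNat 1656, .ofNat 173, .ofNat 133, .negSucc 83⟩, ⟨.ofNat 282, .ofNat 519, .negSucc 1224, .ofNat 343, .negSucc 285, .ofNat 330⟩, .ofNat 898, .ofNat 1107, .ofNat 0, .ofNat 1107, .ofNat 2258, .ofNat 0, .ofNat 128, .negSucc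 413, .negSucc 787, .ofNat 0, .ofNat 259, .ofNat 454, .ofNat 0, .ofNat 0, .ofNat 866, .ofNat 37063, .ofNat 0, .ofNat 0, .ofNat 0, .ofNat 0, .ofNat 0, .ofNat 0, .ofNat 649298305150075893371856564876811796789188924276736, .ofNat 0, .ofNat 0, .ofNat 0, .ofNat 2395081411253533013542844949147173609850725015224320, .ofNat 0, .ofNat 0, .ofNat 0, .ofNat 6364437713969278008488905080158377391152372350189568, .ofNat 0⟩)
    (by decide +kernel)
theorem L02402 : Good (Phi V5.P V5.D (-1) (-1)) ⟨6, 53, 3, 3, 4, 13, 4, 0, 6, 7⟩ :=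
  leafX_sound T5.ok_mm T5.Ymm.bz_eq (w := 266) (c := ⟨⟨.negSucc 6799, .negSucc 721, .ofNat 1517, .ofNat 340, .ofNat 644, .ofNat 136⟩, ⟨.ofNat 3389, .ofNat 465, .negSucc 517, .negSucc 186, .negSucc 378, .negSucc 66⟩, ⟨.ofNat 5468, .ofNat 539, .negSucc 1252, .ofNat 245, .negSucc 790, .negSucc 86⟩, ⟨.negSucc 9664, .negSucc 709, .ofNat 1651, .ofNat 434, .ofNat 584, .ofNat 250⟩, ⟨.ofNat 1154, .ofNat 406, .negSucc 1155, .negSucc 144, .negSucc 716, .ofNat 82⟩, .ofNat 1465, .ofNat 2095, .ofNat 0, .ofNat 2095, .ofNat 4058, .ofNat 0, .ofNat 128, .negSucc 384, .negSucc 903, .ofNat 0, .ofNat 245, .ofNat 514, .ofNat 0, .ofNat 0, .ofNat 1058, .ofNat 16321, .ofNat 99949088376032666422875691750158431384208605330196660224, .ofNat 0, .ofNat 4050488616039995266553799908959974274226123177984, .ofNat 0, .ofNat 0, .ofNat 0, .ofNat 106151791426911331357014170065169383886230420193280, .ofNat 0, .ofNat 205283540111566412016067867448252635322406116452376510464,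 .ofNat 0, .ofNat 198305687190530274062202904006244072872753680613376, .ofNat 0, .ofNat 0, .ofNat 0, .ofNat 414770087087649327033108246309358296785518774452224, .ofNat 0⟩)
    (by decide +kernel)
theorem L02403 : Good (Phi V5.P V5.D (-1) (-1)) ⟨6, 53, 3, 3, 3, 6, 4, 1, 6, 7⟩ :=
  leafX_sound T5.ok_mm T5.Ymm.bz_eq (w := 252) (c := ⟨⟨.negSucc 6014, .negSucc 735, .ofNat 1355, .ofNat 584, .ofNat 415, .negSucc 216⟩, ⟨.ofNat 2909, .ofNat 452, .negSucc 394, .negSucc 313, .negSucc 242, .ofNat 129⟩, ⟨.ofNat 4148, .ofNat 527, .negSucc 1147, .ofNat 399, .negSucc 439, .ofNat 184⟩, ⟨.negSucc 9063, .negSucc 752, .ofNat 1495, .ofNat 829, .ofNat 388, .negSucc 174⟩, ⟨.ofNat 1, .ofNat 411, .negSucc 942, .negSucc 69, .negSucc 443, .ofNat 291⟩, .ofNat 1178, .ofNat 1594, .ofNat 0, .ofNat 1594, .ofNat 3136, .ofNat 0, .ofNat 128, .negSucc 516, .negSucc 1177, .ofNat 0, .ofNat 317, .ofNat 665, .ofNat 0, .ofNat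 0, .ofNat 1287, .ofNat 11829, .ofNat 0, .ofNat 0, .ofNat 0, .ofNat 0, .ofNat 0, .ofNat 0, .ofNat 9391154128046211228151430977004752891937816576, .ofNat 0, .ofNat 0, .ofNat 0, .ofNat 9922122863788755905398882084765132553239658496, .ofNat 0, .ofNat 0, .ofNat 0, .ofNat 27851960467911351156045462764120039088543760384, .ofNat 0⟩)
    (by decide +kernel)
theorem L02404 : Good (Phi V5.P V5.D (-1) (-1)) ⟨5, 27, 4, 6, 3, 6, 3, 0, 5, 3⟩ :=
  out_sound (S := T5.ds_mm) T5.ok_mm (w := 59) (j := 3) (by decide +kernel)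
theorem L02405 : Good (Phi V5.P V5.D (-1) (-1)) ⟨5, 27, 4, 7, 3, 6, 5, 0, 5, 3⟩ :=
  leafX_sound T5.ok_mm T5.Ymm.bz_eq (w := 250) (c := ⟨⟨.negSucc 6219, .negSucc 1987, .ofNat 764, .ofNat 246, .ofNat 401, .negSucc 616⟩, ⟨.ofNat 3271, .ofNat 1275, .negSucc 264, .negSucc 123, .negSucc 244, .ofNat 381⟩, ⟨.ofNat 4190, .ofNat 1472, .negSucc 710, .ofNat 1215, .negSucc 377, .ofNat 498⟩, ⟨.negSucc 9167, .negSucc 1844, .ofNat 775, .ofNat 500, .ofNat 355, .negSucc 390⟩, ⟨.ofNat 18, .ofNat 1603, .negSucc 759, .ofNat 430, .negSucc 444, .ofNat 1218⟩, .ofNat 613, .ofNat 597, .ofNat 0, .ofNat 597, .ofNat 1245, .ofNat 0, .ofNat 128, .negSucc 515, .negSucc 892, .ofNat 0, .ofNat 363, .ofNat 565, .ofNat 0, .ofNat 0, .ofNat 762, .ofNat 14648, .ofNat 25228676640436403931662005156921877981787327905660928, .ofNat 0, .ofNat 807889328560206594243683016941920391161446400, .ofNat 0, .ofNat 0, .ofNat 0, .ofNat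 8679479696453068012354428462873427406340751360, .ofNat 0, .ofNat 86003004035958832242321046596544703216219869927178240, .ofNat 0, .ofNat 20910656907623553691637038814086566374193233920, .ofNat 0, .ofNat 0, .ofNat 0, .ofNat 42405066978437943490798490819947421817941000192, .ofNat 0⟩)
    (by decide +kernel)
theorem L02406 : Good (Phi V5.P V5.D (-1) (-1)) ⟨5, 27, 4, 7, 3, 6, 5, 1, 5, 3⟩ :=
  leafX_sound T5.ok_mm T5.Ymm.bz_eq (w := 250) (c := ⟨⟨.negSucc 5294, .negSucc 573, .ofNat 613, .ofNat 231, .ofNat 362, .negSucc 1165⟩, ⟨.ofNat 2717, .ofNat 388, .negSucc 164, .negSucc 115, .negSucc 216, .ofNat 697⟩, ⟨.ofNat 3382, .ofNat 474, .negSucc 364, .ofNat 942, .negSucc 338, .ofNat 859⟩, ⟨.negSucc 8458, .negSucc 326, .ofNat 733, .ofNat 532, .ofNat 322, .negSucc 840⟩, ⟨.negSucc 1182, .ofNat 498, .negSucc 244, .ofNat 379, .negSucc 379, .ofNat 1674⟩, .ofNat 1184, .ofNat 1505, .ofNat 0, .ofNat 1505,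 .ofNat 2776, .ofNat 0, .ofNat 128, .negSucc 534, .negSucc 1048, .ofNat 0, .ofNat 356, .ofNat 644, .ofNat 0, .ofNat 0, .ofNat 929, .ofNat 9091, .ofNat 0, .ofNat 0, .ofNat 601505405129666305934351295066255331866705920, .ofNat 0, .ofNat 0, .ofNat 0, .ofNat 11065821959656346146766645457318297972093485056, .ofNat 0, .ofNat 0, .ofNat 0, .ofNat 32902335556219502874790603649479599356431564800, .ofNat 0, .ofNat 0, .ofNat 0, .ofNat 55561548351939729967055153330147916594850824192, .ofNat 0⟩)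
    (by decide +kernel)
theorem L02407 : Good (Phi V5.P V5.D (-1) (-1)) ⟨5, 27, 4, 7, 3, 6, 4, 1, 5, 3⟩ :=
  leafX_sound T5.ok_mm T5.Ymm.bz_eq (w := 246) (c := ⟨⟨.negSucc 5274, .negSucc 1231, .ofNat 967, .ofNat 483, .ofNat 493, .negSucc 1287⟩, ⟨.ofNat 2702, .ofNat 754, .negSucc 363, .negSucc 262, .negSucc 296, .ofNat 761⟩, ⟨.ofNat 3583, .ofNat 877, .negSucc 742, .ofNat 516, .negSucc 513, .ofNat 857⟩, ⟨.negSucc 8211, .negSucc 1155, .ofNat 1061, .ofNat 694, .ofNat 477, .negSucc 1333⟩, ⟨.negSucc 815, .ofNat 775, .negSucc 581, .negSucc 8, .negSucc 471, .ofNat 1144⟩, .ofNat 937, .ofNat 1148, .ofNat 0, .ofNat 1148, .ofNat 2248, .ofNat 0, .ofNat 128, .negSucc 635, .negSucc 974, .ofNat 0, .ofNat 406, .ofNat 568, .ofNat 0, .ofNat 0, .ofNat 970, .ofNat 7639, .ofNat 0, .ofNat 0, .ofNat 39838204612412991203118061200204715343740928, .ofNat 0, .ofNat 0, .ofNat 0, .ofNat 2271480206652522675807745433984981687357931520,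 .ofNat 0, .ofNat 0, .ofNat 0, .ofNat 5103917925346707205176862180859706507370954752, .ofNat 0, .ofNat 0, .ofNat 0, .ofNat 4645789875828932848408195966777150811641217024, .ofNat 0⟩)
    (by decide +kernel)
theorem L02408 : Good (Phi V5.P V5.D (-1) (-1)) ⟨3, 7, 3, 3, 3, 6, 3, 0, 5, 3⟩ :=
  out_sound (S := T5.ds_mm) T5.ok_mm (w := 45) (j := 3) (by decide +kernel)
theorem L02409 : Good (Phi V5.P V5.D (-1) (-1)) ⟨5, 24, 3, 3, 3, 7, 3, 0, 5, 3⟩ :=
  out_sound (S := T5.ds_mm) T5.ok_mm (w := 57) (j := 3) (by decide +kernel)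
theorem L02410 : Good (Phi V5.P V5.D (-1) (-1)) ⟨5, 25, 3, 3, 3, 7, 3, 0, 5, 3⟩ :=
  leafX_sound T5.ok_mm T5.Ymm.bz_eq (w := 238) (c := ⟨⟨.negSucc 4513, .negSucc 603, .ofNat 656, .ofNat 768, .ofNat 701, .negSucc 15⟩, ⟨.ofNat 2004, .ofNat 358, .negSucc 36, .negSucc 336, .negSucc 344, .ofNat 24⟩, ⟨.ofNat 4135, .ofNat 442, .negSucc 340, .negSucc 1461, .negSucc 788, .ofNat 26⟩, ⟨.negSucc 7445, .negSucc 647, .ofNat 718, .ofNat 1629, .ofNat 774, .ofNat 41⟩, ⟨.negSucc 517, .ofNat 165, .negSucc 567, .ofNat 932, .negSucc 722, .ofNat 143⟩, .ofNat 1076, .ofNat 1558, .ofNat 0, .ofNat 1558, .ofNat 3512, .ofNat 0, .ofNat 128, .negSucc 574, .negSucc 494, .ofNat 0, .ofNat 335, .ofNat 228, .ofNat 0, .ofNat 0, .ofNat 711, .ofNat 3007, .ofNat 0, .ofNat 0, .ofNat 0, .ofNat 0, .ofNat 0, .ofNat 0, .ofNat 0, .ofNat 0, .ofNat 0, .ofNat 0, .ofNat 0, .ofNat 0, .ofNat 0, .ofNat 0, .ofNat 0, .ofNat 0⟩)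
    (by decide +kernel)
theorem L02411 : Good (Phi V5.P V5.D (-1) (-1)) ⟨5, 26, 3, 3, 4, 14, 3, 0, 5, 3⟩ :=
  leafX_sound T5.ok_mm T5.Ymm.bz_eq (w := 251) (c := ⟨⟨.negSucc 5642, .negSucc 925, .ofNat 1120, .ofNat 534, .ofNat 1254, .negSucc 53⟩, ⟨.ofNat 2674, .ofNat 542, .negSucc 242, .negSucc 285, .negSucc 693, .ofNat 58⟩, ⟨.ofNat 5096, .ofNat 665, .negSucc 693, .negSucc 385, .negSucc 1557, .negSucc 75⟩, ⟨.negSucc 8608, .negSucc 1064, .ofNat 1374, .ofNat 630, .ofNat 1387, .ofNat 99⟩, ⟨.ofNat 144, .ofNat 259, .negSucc 662, .negSucc 331, .negSucc 1061, .ofNat 359⟩, .ofNat 633, .ofNat 665, .ofNat 0, .ofNat 665, .ofNat 1497, .ofNat 0, .ofNat 128, .negSucc 378, .negSucc 524, .ofNat 0, .ofNat 263, .ofNat 273, .ofNat 0, .ofNat 0, .ofNat 652, .ofNat 3539, .ofNat 7441699882203247636887281728259730203984129605763072, .ofNat 0, .ofNat 8962053083447759992405076383948385807614607360, .ofNat 0, .ofNat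 0, .ofNat 0, .ofNat 82592223869767783066360677990806265120499433472, .ofNat 0, .ofNat 0, .ofNat 0, .ofNat 873651782838519855631181656890147227068635545600, .ofNat 0, .ofNat 0, .ofNat 0, .ofNat 1098378108085923511835348599227505583017288531968, .ofNat 0⟩)
    (by decide +kernel)
theorem L02412 : Good (Phi V5.P V5.D (-1) (-1)) ⟨5, 26, 3, 3, 4, 15, 3, 0, 5, 3⟩ :=
  leafX_sound T5.ok_mm T5.Ymm.bz_eq (w := 251) (c := ⟨⟨.negSucc 4992, .negSucc 447, .ofNat 555, .ofNat 532, .ofNat 743, .ofNat 232⟩, ⟨.ofNat 2356, .ofNat 281, .ofNat 5, .negSucc 241, .negSucc 423, .negSucc 90⟩, ⟨.ofNat 4069, .ofNat 430, .negSucc 57, .negSucc 1101, .negSucc 722, .negSucc 182⟩, ⟨.negSucc 7627, .negSucc 601, .ofNat 441, .ofNat 1160, .ofNat 657, .ofNat 480⟩, ⟨.ofNat 147, .negSucc 232, .negSucc 790, .ofNat 742, .negSucc 1010, .ofNat 252⟩, .ofNat 629, .ofNat 657, .ofNat 0, .ofNat 657, .ofNat 1479, .ofNat 0, .ofNat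 128, .negSucc 590, .negSucc 352, .ofNat 0, .ofNat 418, .ofNat 154, .ofNat 0, .ofNat 0, .ofNat 494, .ofNat 1353, .ofNat 0, .ofNat 0, .ofNat 0, .ofNat 0, .ofNat 0, .ofNat 0, .ofNat 16767091083302239357617140835921088348118056960, .ofNat 0, .ofNat 0, .ofNat 0, .ofNat 610686654844429913625879850589260721815946264576, .ofNat 0, .ofNat 0, .ofNat 0, .ofNat 0, .ofNat 0⟩)
    (by decide +kernel)
theorem L02413 : Good (Phi V5.P V5.D (-1) (-1)) ⟨5, 27, 4, 6, 3, 7, 3, 0, 5, 3⟩ :=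
  out_sound (S := T5.ds_mm) T5.ok_mm (w := 59) (j := 3) (by decide +kernel)
theorem L02414 : Good (Phi V5.P V5.D (-1) (-1)) ⟨5, 27, 4, 7, 3, 7, 3, 0, 5, 3⟩ :=
  leafX_sound T5.ok_mm T5.Ymm.bz_eq (w := 242) (c := ⟨⟨.negSucc 5776, .negSucc 474, .ofNat 211, .ofNat 1162, .ofNat 881, .ofNat 228⟩, ⟨.ofNat 3016, .ofNat 319, .ofNat 54, .negSucc 668, .negSucc 517, .negSucc 104⟩, ⟨.ofNat 5201, .ofNat 584, .negSucc 225, .negSucc 1068, .negSucc 1070, .negSucc 326⟩, ⟨.negSucc 8731, .negSucc 400, .ofNat 226, .ofNat 1360, .ofNat 902, .ofNat 559⟩, ⟨.negSucc 318, .ofNat 121, .negSucc 103, .negSucc 650, .negSucc 726, .ofNat 403⟩, .ofNat 1964, .ofNat 2888, .ofNat 0, .ofNat 2888, .ofNat 5259, .ofNat 0, .ofNat 128, .negSucc 750, .negSucc 753, .ofNat 0, .ofNat 485, .ofNat 413, .ofNat 0, .ofNat 0, .ofNat 955, .ofNat 2873, .ofNat 0, .ofNat 0, .ofNat 2847377763945211481485773626724264152399872, .ofNat 0, .ofNat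 0, .ofNat 0, .ofNat 274701108952889244729041293517498392921505792, .ofNat 0, .ofNat 0, .ofNat 0, .ofNat 249059191809409009011311715619841114724368384, .ofNat 0, .ofNat 0, .ofNat 0, .ofNat 180896316818443142936109684255704687044460544, .ofNat 0⟩)
    (by decide +kernel)
theorem L02415 : Good (Phi V5.P V5.D (-1) (-1)) ⟨3, 7, 3, 3, 3, 7, 3, 0, 5, 3⟩ :=
  out_sound (S := T5.ds_mm) T5.ok_mm (w := 45) (j := 3) (by decide +kernel)
theorem L02416 : Good (Phi V5.P V5.D (-1) (-1)) ⟨5, 24, 3, 3, 2, 2, 3, 1, 5, 0⟩ :=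
  out_sound (S := T5.ds_mm) T5.ok_mm (w := 57) (j := 3) (by decide +kernel)
theorem L02417 : Good (Phi V5.P V5.D (-1) (-1)) ⟨5, 25, 3, 3, 2, 2, 3, 1, 5, 0⟩ :=
  leafX_sound T5.ok_mm T5.Ymm.bz_eq (w := 224) (c := ⟨⟨.ofNat 3906, .ofNat 827, .negSucc 426, .ofNat 751, .negSucc 472, .negSucc 1138⟩, ⟨.negSucc 1818, .negSucc 575, .ofNat 116, .negSucc 307, .ofNat 265, .ofNat 490⟩, ⟨.negSucc 2025, .negSucc 466, .ofNat 419, .ofNat 494, .negSucc 400, .ofNat 355⟩, ⟨.ofNat 5021, .ofNat 866, .negSucc 287, .ofNat 1502, .negSucc 194, .negSucc 2174⟩, ⟨.negSucc 2763, .negSucc 317, .ofNat 1223, .ofNat 660, .ofNat 1217, .negSucc 844⟩, .ofNat 1586, .ofNat 2573, .ofNat 0, .ofNat 2573, .ofNat 5510, .ofNat 0, .ofNat 128, .negSucc 416, .negSucc 296, .ofNat 0, .ofNat 215, .ofNat 146, .ofNat 0, .ofNat 0, .ofNat 393, .ofNat 1483, .ofNat 0, .ofNat 0, .ofNat 0, .ofNat 0, .ofNat 0, .ofNat 0, .ofNat 0, .ofNat 0,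 .ofNat 0, .ofNat 0, .ofNat 0, .ofNat 0, .ofNat 0, .ofNat 0, .ofNat 0, .ofNat 0⟩)
    (by decide +kernel)
theorem L02418 : Good (Phi V5.P V5.D (-1) (-1)) ⟨4, 13, 3, 3, 2, 2, 3, 1, 5, 0⟩ :=
  leafX_sound T5.ok_mm T5.Ymm.bz_eq (w := 220) (c := ⟨⟨.ofNat 5209, .ofNat 1645, .negSucc 254, .negSucc 69, .negSucc 769, .negSucc 793⟩, ⟨.negSucc 2681, .negSucc 1331, .ofNat 37, .ofNat 122, .ofNat 456, .ofNat 353⟩, ⟨.negSucc 2801, .negSucc 987, .ofNat 272, .ofNat 1057, .negSucc 280, .ofNat 177⟩, ⟨.ofNat 6325, .ofNat 1677, .negSucc 435, .ofNat 727, .negSucc 567, .negSucc 1745⟩, ⟨.negSucc 3432, .negSucc 208, .ofNat 223, .ofNat 1393, .ofNat 1128, .negSucc 1078⟩, .ofNat 645, .ofNat 682, .ofNat 0, .ofNat 682, .ofNat 1501, .ofNat 0, .ofNat 128, .negSucc 948, .negSucc 675, .ofNat 0, .ofNat 585, .ofNat 354, .ofNat 0, .ofNat 0, .ofNat 788, .ofNat 1777, .ofNat 0, .ofNat 0, .ofNat 183886164720623144735327670068137951232,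 .ofNat 0, .ofNat 0, .ofNat 0, .ofNat 4443194671737869965559315814477704724480, .ofNat 0, .ofNat 0, .ofNat 0, .ofNat 17030449248628716953070137321748328087552, .ofNat 0, .ofNat 0, .ofNat 0, .ofNat 3775746074510019980387155172074914316288, .ofNat 0⟩)
    (by decide +kernel)
theorem L02419 : Good (Phi V5.P V5.D (-1) (-1)) ⟨3, 6, 3, 3, 2, 2, 3, 1, 5, 1⟩ :=
  leafX_sound T5.ok_mm T5.Ymm.bz_eq (w := 215) (c := ⟨⟨.ofNat 1434, .ofNat 2475, .ofNat 107, .ofNat 3036, .negSucc 890, .negSucc 2693⟩, ⟨.negSucc 571, .negSucc 1768, .negSucc 161, .negSucc 1602, .ofNat 556, .ofNat 1405⟩, ⟨.negSucc 605, .negSucc 1820, .ofNat 187, .negSucc 934, .negSucc 64, .ofNat 1195⟩, ⟨.ofNat 1112, .ofNat 3001, .negSucc 201, .ofNat 4219, .negSucc 676, .negSucc 4139⟩, ⟨.negSucc 2930, .negSucc 575, .ofNat 43, .negSucc 701, .ofNat 1259, .negSucc 214⟩, .ofNat 633, .ofNat 675, .ofNat 0, .ofNat 675, .ofNat 1557, .ofNat 0,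 .ofNat 128, .negSucc 561, .negSucc 513, .ofNat 0, .ofNat 332, .ofNat 261, .ofNat 0, .ofNat 0, .ofNat 535, .ofNat 846, .ofNat 0, .ofNat 0, .ofNat 528930118613330127633373050169532088320, .ofNat 0, .ofNat 0, .ofNat 0, .ofNat 6153399589331389856798747556216032985088, .ofNat 0, .ofNat 0, .ofNat 0, .ofNat 40935675378605221257385057984291861954560, .ofNat 0, .ofNat 0, .ofNat 0, .ofNat 21423780173537965688770415987736386207744, .ofNat 0⟩)
    (by decide +kernel)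
theorem L02420 : Good (Phi V5.P V5.D (-1) (-1)) ⟨4, 12, 3, 3, 2, 3, 3, 1, 4, 0⟩ :=
  leafX_sound T5.ok_mm T5.Ymm.bz_eq (w := 214) (c := ⟨⟨.ofNat 3660, .ofNat 1248, .negSucc 61, .negSucc 3220, .ofNat 9, .negSucc 2133⟩, ⟨.negSucc 1656, .negSucc 691, .negSucc 2, .ofNat 1589, .ofNat 50, .ofNat 891⟩, ⟨.negSucc 1309, .negSucc 556, .ofNat 228, .ofNat 2561, .negSucc 369, .ofNat 718⟩, ⟨.ofNat 5580, .ofNat 1506, .negSucc 96, .negSucc 3700, .ofNat 522, .negSucc 4706⟩, ⟨.negSucc 803, .negSucc 536, .negSucc 173, .ofNat 3047, .ofNat 1012, .negSucc 2728⟩, .ofNat 612, .ofNat 659, .ofNat 0, .ofNat 659, .ofNat 1651, .ofNat 0, .ofNat 128, .negSucc 332, .negSucc 379, .ofNat 0, .ofNat 183, .ofNat 158, .ofNat 0, .ofNat 0, .ofNat 401, .ofNat 861, .ofNat 0, .ofNat 0, .ofNat 0, .ofNat 0, .ofNat 0, .ofNat 0, .ofNat 31318276200903178968167039357438394368, .ofNat 0, .ofNat 0, .ofNat 0, .ofNat 85365032863288113866351575900738289664,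 .ofNat 0, .ofNat 0, .ofNat 0, .ofNat 74435661096083595605982018027963547648, .ofNat 0⟩)
    (by decide +kernel)
theorem L02421 : Good (Phi V5.P V5.D (-1) (-1)) ⟨4, 13, 3, 3, 2, 3, 3, 1, 4, 0⟩ :=
  leafX_sound T5.ok_mm T5.Ymm.bz_eq (w := 214) (c := ⟨⟨.ofNat 4853, .ofNat 853, .negSucc 1, .negSucc 3267, .negSucc 442, .negSucc 1896⟩, ⟨.negSucc 2524, .negSucc 541, .negSucc 96, .ofNat 1848, .ofNat 285, .ofNat 897⟩, ⟨.negSucc 1916, .negSucc 458, .ofNat 398, .ofNat 2818, .negSucc 242, .ofNat 486⟩, ⟨.ofNat 6698, .ofNat 375, .ofNat 400, .negSucc 3385, .ofNat 12, .negSucc 4324⟩, ⟨.negSucc 1335, .negSucc 1467, .ofNat 903, .ofNat 2891, .ofNat 1288, .negSucc 2748⟩, .ofNat 939, .ofNat 1147, .ofNat 0, .ofNat 1147, .ofNat 2293, .ofNat 0, .ofNat 128, .negSucc 353, .negSucc 359, .ofNat 0, .ofNat 212, .ofNat 182, .ofNat 0, .ofNat 0, .ofNat 378, .ofNat 475, .ofNat 0, .ofNat 0, .ofNat 2520828038123688918528232537263702016,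 .ofNat 0, .ofNat 0, .ofNat 0, .ofNat 25360515142894733704159611591390658560, .ofNat 0, .ofNat 0, .ofNat 0, .ofNat 149920067648512600258791821216619429888, .ofNat 0, .ofNat 0, .ofNat 0, .ofNat 91343300750163891378848059601176231936, .ofNat 0⟩)
    (by decide +kernel)
theorem L02422 : Good (Phi V5.P V5.D (-1) (-1)) ⟨3, 7, 3, 3, 1, 1, 3, 1, 4, 0⟩ :=
  out_sound (S := T5.ds_mm) T5.ok_mm (w := 45) (j := 3) (by decide +kernel)
theorem L02423 : Good (Phi V5.P V5.D (-1) (-1)) ⟨4, 12, 3, 3, 2, 2, 3, 1, 4, 1⟩ :=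
  leafX_sound T5.ok_mm T5.Ymm.bz_eq (w := 214) (c := ⟨⟨.ofNat 481, .negSucc 642, .ofNat 771, .negSucc 310, .ofNat 95, .negSucc 3962⟩, ⟨.negSucc 345, .ofNat 272, .negSucc 135, .ofNat 125, .negSucc 12, .ofNat 1922⟩, ⟨.negSucc 423, .ofNat 419, .negSucc 388, .ofNat 287, .negSucc 104, .ofNat 2578⟩, ⟨.negSucc 573, .negSucc 601, .ofNat 1162, .negSucc 684, .ofNat 220, .negSucc 5705⟩, ⟨.negSucc 2491, .ofNat 431, .ofNat 405, .negSucc 498, .ofNat 34, .ofNat 1099⟩, .ofNat 1053, .ofNat 1506, .ofNat 0, .ofNat 1506, .ofNat 3392, .ofNat 0, .ofNat 128, .negSucc 670, .negSucc 464, .ofNat 0, .ofNat 365, .ofNat 227, .ofNat 0, .ofNat 0, .ofNat 595, .ofNat 716, .ofNat 0, .ofNat 0, .ofNat 0, .ofNat 0, .ofNat 0, .ofNat 0, .ofNat 139868345924366193758586173871196471296, .ofNat 0, .ofNat 0, .ofNat 0, .ofNat 0, .ofNat 0, .ofNat 0, .ofNat 0, .ofNat 0, .ofNat 0⟩)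
    (by decide +kernel)
theorem L02424 : Good (Phi V5.P V5.D (-1) (-1)) ⟨4, 13, 3, 3, 3, 4, 3, 1, 4, 1⟩ :=
  leafX_sound T5.ok_mm T5.Ymm.bz_eq (w := 227) (c := ⟨⟨.negSucc 275, .negSucc 1068, .ofNat 262, .negSucc 82, .ofNat 7, .negSucc 3822⟩, ⟨.negSucc 148, .ofNat 525, .ofNat 174, .ofNat 18, .ofNat 1, .ofNat 2073⟩, ⟨.negSucc 75, .ofNat 529, .negSucc 97, .negSucc 108, .ofNat 50, .ofNat 2749⟩, ⟨.negSucc 1565, .negSucc 1149, .ofNat 263, .negSucc 390, .ofNat 143, .negSucc 5154⟩, ⟨.negSucc 2317, .ofNat 543, .negSucc 173, .negSucc 528, .ofNat 291, .ofNat 1449⟩, .ofNat 600, .ofNat 590, .ofNat 0, .ofNat 590, .ofNat 1295, .ofNat 0, .ofNat 128, .negSucc 499, .negSucc 445, .ofNat 0, .ofNat 328, .ofNat 247, .ofNat 0, .ofNat 0, .ofNat 483, .ofNat 754, .ofNat 0, .ofNat 0, .ofNat 0, .ofNat 0, .ofNat 0, .ofNat 0, .ofNat 466289036842235980909462625070902776168448, .ofNat 0, .ofNat 0, .ofNat 0, .ofNat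 8296851320796912746434036536272263900561408, .ofNat 0, .ofNat 0, .ofNat 0, .ofNat 3339131336298143149656870890263122599215104, .ofNat 0⟩)
    (by decide +kernel)
theorem L02425 : Good (Phi V5.P V5.D (-1) (-1)) ⟨4, 13, 3, 3, 3, 5, 3, 1, 4, 1⟩ :=
  leafX_sound T5.ok_mm T5.Ymm.bz_eq (w := 228) (c := ⟨⟨.ofNat 2003, .negSucc 2161, .ofNat 895, .negSucc 393, .ofNat 119, .negSucc 6951⟩, ⟨.negSucc 1429, .ofNat 1172, .negSucc 196, .ofNat 230, .negSucc 44, .ofNat 3796⟩, ⟨.negSucc 1250, .ofNat 1311, .negSucc 583, .ofNat 454, .negSucc 127, .ofNat 4256⟩, ⟨.ofNat 982, .negSucc 2463, .ofNat 1087, .negSucc 475, .ofNat 324, .negSucc 9173⟩, ⟨.negSucc 4132, .ofNat 461, .negSucc 2, .ofNat 60, .ofNat 303, .ofNat 3055⟩, .ofNat 600, .ofNat 590, .ofNat 0, .ofNat 590, .ofNat 1295, .ofNat 0, .ofNat 128, .negSucc 352, .negSucc 554, .ofNat 0, .ofNat 221, .ofNat 307, .ofNat 0, .ofNat 0, .ofNat 454, .ofNat 519,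 .ofNat 0, .ofNat 0, .ofNat 29697877114619678816511066117411121922048, .ofNat 0, .ofNat 0, .ofNat 0, .ofNat 247561066817965939981406200267144251310080, .ofNat 0, .ofNat 0, .ofNat 0, .ofNat 3459131210969937933364152563742095246884864, .ofNat 0, .ofNat 0, .ofNat 0, .ofNat 3632560379152217300382575317861370553171968, .ofNat 0⟩)
    (by decide +kernel)
theorem L02426 : Good (Phi V5.P V5.D (-1) (-1)) ⟨4, 12, 3, 3, 2, 3, 3, 1, 5, 2⟩ :=
  leafX_sound T5.ok_mm T5.Ymm.bz_eq (w := 220) (c := ⟨⟨.ofNat 1236, .negSucc 720, .ofNat 897, .negSucc 1970, .ofNat 728, .negSucc 2687⟩, ⟨.negSucc 678, .ofNat 291, .negSucc 198, .ofNat 994, .negSucc 329, .ofNat 1255⟩, ⟨.negSucc 378, .ofNat 732, .negSucc 451, .ofNat 1197, .negSucc 681, .ofNat 1578⟩, ⟨.ofNat 939, .negSucc 1376, .ofNat 851, .negSucc 2293, .ofNat 1287, .negSucc 4181⟩, ⟨.negSucc 1811, .negSucc 948, .negSucc 892, .ofNat 1699, .ofNat 337, .ofNat 15⟩,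 .ofNat 1455, .ofNat 2305, .ofNat 0, .ofNat 2305, .ofNat 5017, .ofNat 0, .ofNat 128, .negSucc 406, .negSucc 642, .ofNat 0, .ofNat 215, .ofNat 304, .ofNat 0, .ofNat 0, .ofNat 648, .ofNat 1370, .ofNat 0, .ofNat 0, .ofNat 0, .ofNat 0, .ofNat 0, .ofNat 0, .ofNat 0, .ofNat 0, .ofNat 0, .ofNat 0, .ofNat 4474090918052813237873576237543471448064, .ofNat 0, .ofNat 0, .ofNat 0, .ofNat 0, .ofNat 0⟩)
    (by decide +kernel)
theorem L02427 : Good (Phi V5.P V5.D (-1) (-1)) ⟨5, 24, 3, 3, 2, 3, 3, 1, 5, 3⟩ :=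
  out_sound (S := T5.ds_mm) T5.ok_mm (w := 57) (j := 3) (by decide +kernel)
theorem L02428 : Good (Phi V5.P V5.D (-1) (-1)) ⟨5, 25, 3, 3, 3, 6, 3, 1, 5, 3⟩ :=
  leafX_sound T5.ok_mm T5.Ymm.bz_eq (w := 238) (c := ⟨⟨.negSucc 3011, .negSucc 697, .ofNat 829, .ofNat 249, .ofNat 741, .negSucc 1295⟩, ⟨.ofNat 1283, .ofNat 355, .negSucc 63, .negSucc 111, .negSucc 362, .ofNat 629⟩, ⟨.ofNat 2070, .ofNat 498, .negSucc 649, .ofNat 257, .negSucc 728, .ofNat 832⟩, ⟨.negSucc 5584, .negSucc 821, .ofNat 968, .ofNat 448, .ofNat 973, .negSucc 1755⟩, ⟨.negSucc 1683, .ofNat 219, .negSucc 522, .ofNat 141, .negSucc 398, .ofNat 607⟩, .ofNat 1055, .ofNat 1507, .ofNat 0, .ofNat 1507, .ofNat 3383, .ofNat 0, .ofNat 128, .negSucc 466, .negSucc 879, .ofNat 0, .ofNat 256, .ofNat 429, .ofNat 0, .ofNat 0, .ofNat 937, .ofNat 1298, .ofNat 0, .ofNat 0, .ofNat 0, .ofNat 0, .ofNat 0, .ofNat 0, .ofNat 0, .ofNat 0, .ofNat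 0, .ofNat 0, .ofNat 0, .ofNat 0, .ofNat 0, .ofNat 0, .ofNat 0, .ofNat 0⟩)
    (by decide +kernel)

end Crest.Agent.R097C5.N5mm
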