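import Crest.Agent.R097.KP7
import Crest.Agent.R097.T5Ymm

/-!
# Row 97, box cover in dimension n = 5 (generated)
-/

set_option autoImplicit false
set_option Elab.async false
set_option maxHeartbeats 0
set_option maxRecDepth 100000

open Crest.Agent.R097 Crest.Agent.R097.KA


namespace Crest.Agent.R097C5.N5mm

theorem L02429 : Good (Phi V5.P V5.D (-1) (-1)) ⟨5, 25, 3, 3, 3, 7, 3, 1, 5, 3⟩ :=
  leafX_sound T5.ok_mm T5.Ymm.bz_eq (w := 237) (c := ⟨⟨.negSucc 3363, .negSucc 586, .ofNat 667, .ofNat 300, .ofNat 649, .negSucc 307⟩, ⟨.ofNat 1463, .ofNat 309, .negSucc 42, .negSucc 114, .negSucc 309, .ofNat 144⟩, ⟨.ofNat 2861, .ofNat 330, .negSucc 271, .negSucc 556, .negSucc 680, .ofNat 121⟩, ⟨.negSucc 5940, .negSucc 754, .ofNat 781, .ofNat 757, .ofNat 886, .negSucc 441⟩, ⟨.negSucc 1266, .negSucc 31, .negSucc 292, .ofNat 641, .negSucc 291, .ofNat 123⟩, .ofNat 1055, .ofNat 1518, .ofNat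 0, .ofNat 1518, .ofNat 3440, .ofNat 0, .ofNat 128, .negSucc 301, .negSucc 493, .ofNat 0, .ofNat 170, .ofNat 225, .ofNat 0, .ofNat 0, .ofNat 593, .ofNat 2323, .ofNat 0, .ofNat 0, .ofNat 0, .ofNat 0, .ofNat 0, .ofNat 0, .ofNat 0, .ofNat 0, .ofNat 0, .ofNat 0, .ofNat 10271622214506688260669552847762784438452224, .ofNat 0, .ofNat 0, .ofNat 0, .ofNat 22761055351477378719501505082633698098020352, .ofNat 0⟩)
    (by decide +kernel)
theorem L02430 : Good (Phi V5.P V5.D (-1) (-1)) ⟨5, 26, 3, 3, 2, 3, 3, 1, 5, 2⟩ :=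
  leafX_sound T5.ok_mm T5.Ymm.bz_eq (w := 222) (c := ⟨⟨.ofNat 1238, .ofNat 88, .ofNat 234, .negSucc 2649, .ofNat 871, .negSucc 3021⟩, ⟨.negSucc 878, .negSucc 93, .ofNat 127, .ofNat 1444, .negSucc 416, .ofNat 1518⟩, ⟨.negSucc 231, .ofNat 127, .negSucc 17, .ofNat 2010, .negSucc 831, .ofNat 1453⟩, ⟨.ofNat 539, .ofNat 63, .ofNat 288, .negSucc 3052, .ofNat 1417, .negSucc 4864⟩, ⟨.negSucc 2735, .negSucc 283, .ofNat 73, .ofNat 1924, .ofNat 202, .negSucc 387⟩, .ofNat 643, .ofNat 682, .ofNat 0, .ofNat 682, .ofNat 1523, .ofNat 0, .ofNat 128, .negSucc 245, .negSucc 530, .ofNat 0, .ofNat 148, .ofNat 256, .ofNat 0, .ofNat 0, .ofNat 462, .ofNat 628, .ofNat 0, .ofNat 0, .ofNat 0, .ofNat 0, .ofNat 0, .ofNat 0, .ofNat 0, .ofNat 0, .ofNat 0, .ofNat 0, .ofNat 247743912122909815390016157984816627712, .ofNat 0, .ofNat 0, .ofNat 0, .ofNat 909389193209333355272422816416268288000, .ofNat 0⟩)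
    (by decide +kernel)
theorem L02431 : Good (Phi V5.P V5.D (-1) (-1)) ⟨5, 27, 4, 6, 2, 3, 3, 1, 5, 2⟩ :=
  out_sound (S := T5.ds_mm) T5.ok_mm (w := 59) (j := 3) (by decide +kernel)
theorem L02432 : Good (Phi V5.P V5.D (-1) (-1)) ⟨6, 54, 4, 7, 2, 3, 3, 1, 5, 2⟩ :=
  leafX_sound T5.ok_mm T5.Ymm.bz_eq (w := 230) (c := ⟨⟨.ofNat 1720, .ofNat 170, .ofNat 299, .negSucc 3070, .ofNat 830, .negSucc 3584⟩, ⟨.negSucc 1190, .negSucc 166, .negSucc 14, .ofNat 1772, .negSucc 439, .ofNat 1958⟩, ⟨.negSucc 692, .negSucc 225, .ofNat 146, .ofNat 2504, .negSucc 839, .ofNat 1888⟩, ⟨.ofNat 815, .negSucc 120, .ofNat 605, .negSucc 3567, .ofNat 1487, .negSucc 5511⟩, ⟨.negSucc 3253, .negSucc 713, .ofNat 391, .ofNat 1786, .ofNat 492, .negSucc 303⟩, .ofNat 936, .ofNat 1144, .ofNat 0, .ofNat 1144, .ofNat 2240, .ofNat 0, .ofNat 128, .negSucc 299, .negSucc 715, .ofNat 0, .ofNat 183, .ofNat 387, .ofNat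 0, .ofNat 0, .ofNat 605, .ofNat 519, .ofNat 0, .ofNat 0, .ofNat 3505075060426581285832320051658620928, .ofNat 0, .ofNat 0, .ofNat 0, .ofNat 591015448601273672800922790770983829504, .ofNat 0, .ofNat 0, .ofNat 0, .ofNat 213868164363868076652688482672255696896, .ofNat 0, .ofNat 0, .ofNat 0, .ofNat 0, .ofNat 0⟩)
    (by decide +kernel)
theorem L02433 : Good (Phi V5.P V5.D (-1) (-1)) ⟨6, 55, 4, 7, 2, 3, 3, 1, 5, 2⟩ :=
  out_sound (S := T5.ds_mm) T5.ok_mm (w := 65) (j := 3) (by decide +kernel)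
theorem L02434 : Good (Phi V5.P V5.D (-1) (-1)) ⟨4, 13, 3, 3, 3, 6, 3, 1, 5, 3⟩ :=
  leafX_sound T5.ok_mm T5.Ymm.bz_eq (w := 234) (c := ⟨⟨.negSucc 3935, .negSucc 2001, .ofNat 1079, .ofNat 468, .ofNat 754, .negSucc 1346⟩, ⟨.ofNat 1742, .ofNat 1145, .negSucc 225, .negSucc 246, .negSucc 418, .ofNat 743⟩, ⟨.ofNat 2724, .ofNat 1407, .negSucc 853, .ofNat 163, .negSucc 725, .ofNat 861⟩, ⟨.negSucc 6628, .negSucc 2341, .ofNat 1273, .ofNat 665, .ofNat 874, .negSucc 1721⟩, ⟨.negSucc 1185, .ofNat 477, .negSucc 532, .negSucc 43, .negSucc 511, .ofNat 609⟩, .ofNat 875, .ofNat 1075, .ofNat 0, .ofNat 1075, .ofNat 2230, .ofNat 0, .ofNat 128, .negSucc 379, .negSucc 691, .ofNat 0, .ofNat 232, .ofNat 375, .ofNat 0, .ofNat 0, .ofNat 670, .ofNat 1449, .ofNat 0, .ofNat 0, .ofNat 1369890278074102400127013197601431816765440, .ofNat 0, .ofNat 0, .ofNat 0, .ofNat 75949156342970678509086990570413214283071488,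 .ofNat 0, .ofNat 0, .ofNat 0, .ofNat 194704914966057184974599054979234097585455104, .ofNat 0, .ofNat 0, .ofNat 0, .ofNat 114842632525827125945899480788159200690700288, .ofNat 0⟩)
    (by decide +kernel)
theorem L02435 : Good (Phi V5.P V5.D (-1) (-1)) ⟨4, 13, 3, 3, 3, 7, 3, 1, 5, 3⟩ :=
  leafX_sound T5.ok_mm T5.Ymm.bz_eq (w := 233) (c := ⟨⟨.negSucc 4110, .negSucc 1009, .ofNat 688, .ofNat 507, .ofNat 796, .negSucc 258⟩, ⟨.ofNat 1877, .ofNat 578, .negSucc 52, .negSucc 245, .negSucc 434, .ofNat 141⟩, ⟨.ofNat 3221, .ofNat 635, .negSucc 217, .negSucc 655, .negSucc 748, .ofNat 126⟩, ⟨.negSucc 6756, .negSucc 1375, .ofNat 858, .ofNat 859, .ofNat 987, .negSucc 351⟩, ⟨.negSucc 928, .negSucc 359, .negSucc 242, .ofNat 230, .negSucc 426, .ofNat 66⟩, .ofNat 1143, .ofNat 1541, .ofNat 0, .ofNat 1541, .ofNat 3070, .ofNat 0, .ofNat 128, .negSucc 357, .negSucc 499, .ofNat 0, .ofNat 221, .ofNat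 256, .ofNat 0, .ofNat 0, .ofNat 560, .ofNat 791, .ofNat 0, .ofNat 0, .ofNat 643727293437400942926173338676014406959104, .ofNat 0, .ofNat 0, .ofNat 0, .ofNat 27466626691874851177038321484892032487915520, .ofNat 0, .ofNat 0, .ofNat 0, .ofNat 39338725952121657182040694196001783081336832, .ofNat 0, .ofNat 0, .ofNat 0, .ofNat 41627640495937366827631670621296788336803840, .ofNat 0⟩)
    (by decide +kernel)
theorem L02436 : Good (Phi V5.P V5.D (-1) (-1)) ⟨3, 7, 3, 3, 1, 1, 3, 1, 4, 1⟩ :=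
  out_sound (S := T5.ds_mm) T5.ok_mm (w := 45) (j := 3) (by decide +kernel)
theorem L02437 : Good (Phi V5.P V5.D (-1) (-1)) ⟨2, 2, 3, 3, 2, 2, 2, 1, 4, 0⟩ :=
  out_sound (S := T5.ds_mm) T5.ok_mm (w := 39) (j := 3) (by decide +kernel)
theorem L02438 : Good (Phi V5.P V5.D (-1) (-1)) ⟨4, 12, 3, 3, 2, 2, 2, 1, 4, 0⟩ :=
  leafX_sound T5.ok_mm T5.Ymm.bz_eq (w := 211) (c := ⟨⟨.ofNat 3226, .ofNat 1232, .negSucc 604, .ofNat 306, .negSucc 977, .negSucc 2966⟩, ⟨.negSucc 1396, .negSucc 803, .ofNat 141, .negSucc 80, .ofNat 476, .ofNat 1344⟩, ⟨.negSucc 2000, .negSucc 1012, .ofNat 515, .ofNat 563, .ofNat 45, .ofNat 1578⟩, ⟨.ofNat 4349, .ofNat 1636, .negSucc 839, .ofNat 1046, .negSucc 1301, .negSucc 5037⟩, ⟨.negSucc 2237, .ofNat 311, .ofNat 387, .ofNat 1153, .ofNat 497, .negSucc 863⟩, .ofNat 1456, .ofNat 2314, .ofNat 0, .ofNat 2314, .ofNat 5049, .ofNat 0, .ofNat 128, .negSucc 364, .negSucc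 887, .ofNat 0, .ofNat 196, .ofNat 423, .ofNat 0, .ofNat 0, .ofNat 997, .ofNat 375, .ofNat 0, .ofNat 0, .ofNat 57218947134977504413937277832527872, .ofNat 0, .ofNat 0, .ofNat 0, .ofNat 430034391237253854420997735291289600, .ofNat 0, .ofNat 0, .ofNat 0, .ofNat 14984348748214181369513056090829357056, .ofNat 0, .ofNat 0, .ofNat 0, .ofNat 0, .ofNat 0⟩)
    (by decide +kernel)
theorem L02439 : Good (Phi V5.P V5.D (-1) (-1)) ⟨5, 26, 3, 3, 2, 2, 2, 1, 5, 0⟩ :=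
  leafX_sound T5.ok_mm T5.Ymm.bz_eq (w := 220) (c := ⟨⟨.ofNat 4511, .ofNat 138, .ofNat 23, .ofNat 223, .negSucc 1115, .negSucc 877⟩, ⟨.negSucc 2269, .negSucc 211, .negSucc 164, .negSucc 28, .ofNat 597, .ofNat 398⟩, ⟨.negSucc 3157, .negSucc 111, .ofNat 56, .ofNat 745, .ofNat 26, .ofNat 488⟩, ⟨.ofNat 5824, .ofNat 154, .negSucc 112, .ofNat 1039, .negSucc 1330, .negSucc 1706⟩, ⟨.negSucc 2220, .ofNat 385, .negSucc 152, .ofNat 1318, .ofNat 653, .negSucc 727⟩, .ofNat 1098, .ofNat 1483, .ofNat 0, .ofNat 1483, .ofNat 3027, .ofNat 0, .ofNat 128, .negSucc 431, .negSucc 981, .ofNat 0, .ofNat 258, .ofNat 509, .ofNat 0, .ofNat 0, .ofNat 1052, .ofNat 613, .ofNat 0, .ofNat 0, .ofNat 2555641850061470408177845132066816000, .ofNat 0, .ofNat 0, .ofNat 0, .ofNat 34103784830647920421510027029556232192, .ofNat 0, .ofNat 0, .ofNat 0, .ofNat 0, .ofNat 0, .ofNat 0, .ofNat 0, .ofNat 0, .ofNat 0⟩)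
    (by decide +kernel)
theorem L02440 : Good (Phi V5.P V5.D (-1) (-1)) ⟨5, 26, 3, 3, 2, 2, 2, 1, 5, 1⟩ :=
  leafX_sound T5.ok_mm T5.Ymm.bz_eq (w := 219) (c := ⟨⟨.ofNat 2177, .ofNat 1009, .negSucc 669, .ofNat 2284, .negSucc 1380, .negSucc 2217⟩, ⟨.negSucc 1186, .negSucc 699, .ofNat 401, .negSucc 1158, .ofNat 781, .ofNat 1134⟩, ⟨.negSucc 1660, .negSucc 834, .ofNat 719, .negSucc 916, .ofNat 443, .ofNat 1351⟩, ⟨.ofNat 2250, .ofNat 1333, .negSucc 942, .ofNat 3263, .negSucc 1513, .negSucc 3262⟩, ⟨.negSucc 2362, .ofNat 20, .ofNat 315, .negSucc 321, .ofNat 1104, .ofNat 129⟩, .ofNat 1508, .ofNat 2212, .ofNat 0, .ofNat 2212, .ofNat 4344, .ofNat 0, .ofNat 128, .negSucc 233, .negSucc 601, .ofNat 0, .ofNat 137, .ofNat 319, .ofNat 0, .ofNat 0, .ofNat 606, .ofNat 270, .ofNat 0, .ofNat 0, .ofNat 0, .ofNat 0, .ofNat 0, .ofNat 0, .ofNat 57030398387969725990762181918042619904, .ofNat 0, .ofNat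 0, .ofNat 0, .ofNat 35746696904340750344689476278765486080, .ofNat 0, .ofNat 0, .ofNat 0, .ofNat 0, .ofNat 0⟩)
    (by decide +kernel)
theorem L02441 : Good (Phi V5.P V5.D (-1) (-1)) ⟨6, 54, 3, 3, 2, 2, 2, 1, 5, 0⟩ :=
  leafX_sound T5.ok_mm T5.Ymm.bz_eq (w := 225) (c := ⟨⟨.ofNat 6872, .ofNat 1331, .negSucc 1977, .negSucc 234, .negSucc 1277, .negSucc 858⟩, ⟨.negSucc 3799, .negSucc 845, .ofNat 998, .ofNat 204, .ofNat 752, .ofNat 442⟩, ⟨.negSucc 4910, .negSucc 946, .ofNat 1578, .ofNat 1197, .ofNat 21, .ofNat 398⟩, ⟨.ofNat 8277, .ofNat 1393, .negSucc 2294, .ofNat 630, .negSucc 1406, .negSucc 1718⟩, ⟨.negSucc 3502, .negSucc 757, .ofNat 1157, .ofNat 1733, .ofNat 899, .negSucc 795⟩, .ofNat 934, .ofNat 1141, .ofNat 0, .ofNat 1141, .ofNat 2232, .ofNat 0, .ofNat 128, .negSucc 592, .negSucc 1706, .ofNat 0, .ofNat 375, .ofNat 940, .ofNat 0, .ofNat 0, .ofNat 1763, .ofNat 1128, .ofNat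 0, .ofNat 0, .ofNat 2180088204241362090089479488514555904, .ofNat 0, .ofNat 0, .ofNat 0, .ofNat 30746374784543915110740977133251723264, .ofNat 0, .ofNat 0, .ofNat 0, .ofNat 161567944070169352031573534556286877696, .ofNat 0, .ofNat 0, .ofNat 0, .ofNat 105325920825919758020091885813598519296, .ofNat 0⟩)
    (by decide +kernel)
theorem L02442 : Good (Phi V5.P V5.D (-1) (-1)) ⟨6, 54, 3, 3, 2, 2, 2, 1, 5, 1⟩ :=
  leafX_sound T5.ok_mm T5.Ymm.bz_eq (w := 225) (c := ⟨⟨.ofNat 4320, .ofNat 874, .negSucc 1699, .ofNat 2521, .negSucc 1771, .negSucc 2647⟩, ⟨.negSucc 2496, .negSucc 588, .ofNat 964, .negSucc 1389, .ofNat 1045, .ofNat 1448⟩, ⟨.negSucc 3702, .negSucc 896, .ofNat 1923, .negSucc 992, .ofNat 674, .ofNat 1617⟩, ⟨.ofNat 4411, .ofNat 1047, .negSucc 1938, .ofNat 3887, .negSucc 1856, .negSucc 3974⟩, ⟨.negSucc 3879, .negSucc 227, .ofNat 1289, .ofNat 279, .ofNat 1429, .negSucc 126⟩,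 .ofNat 889, .ofNat 1042, .ofNat 0, .ofNat 1042, .ofNat 2058, .ofNat 0, .ofNat 128, .negSucc 470, .negSucc 1053, .ofNat 0, .ofNat 304, .ofNat 578, .ofNat 0, .ofNat 0, .ofNat 967, .ofNat 1126, .ofNat 0, .ofNat 0, .ofNat 0, .ofNat 0, .ofNat 0, .ofNat 0, .ofNat 69294293649153297492122711916005031936, .ofNat 0, .ofNat 0, .ofNat 0, .ofNat 38907875766530741572373647226879082496, .ofNat 0, .ofNat 0, .ofNat 0, .ofNat 257644002290416033673631757401010995200, .ofNat 0⟩)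
    (by decide +kernel)
theorem L02443 : Good (Phi V5.P V5.D (-1) (-1)) ⟨6, 55, 3, 3, 2, 2, 2, 1, 4, 0⟩ :=
  out_sound (S := T5.ds_mm) T5.ok_mm (w := 63) (j := 3) (by decide +kernel)
theorem L02444 : Good (Phi V5.P V5.D (-1) (-1)) ⟨3, 7, 3, 3, 2, 2, 2, 1, 4, 0⟩ :=
  out_sound (S := T5.ds_mm) T5.ok_mm (w := 45) (j := 3) (by decide +kernel)
theorem L02445 : Good (Phi V5.P V5.D (-1) (-1)) ⟨2, 2, 3, 3, 2, 3, 2, 1, 4, 0⟩ :=
  out_sound (S := T5.ds_mm) T5.ok_mm (w := 39) (j := 3) (by decide +kernel)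
theorem L02446 : Good (Phi V5.P V5.D (-1) (-1)) ⟨4, 12, 3, 3, 3, 6, 2, 1, 4, 0⟩ :=
  leafX_sound T5.ok_mm T5.Ymm.bz_eq (w := 225) (c := ⟨⟨.ofNat 3503, .ofNat 959, .negSucc 476, .negSucc 1058, .negSucc 519, .negSucc 1757⟩, ⟨.negSucc 1553, .negSucc 541, .ofNat 113, .ofNat 557, .ofNat 257, .ofNat 729⟩, ⟨.negSucc 1730, .negSucc 585, .ofNat 513, .ofNat 1247, .negSucc 141, .ofNat 656⟩, ⟨.ofNat 5503, .ofNat 1303, .negSucc 572, .negSucc 866, .negSucc 627, .negSucc 3887⟩, ⟨.negSucc 473, .ofNat 209, .ofNat 334, .ofNat 1690, .ofNat 381, .negSucc 2388⟩, .ofNat 1082, .ofNat 1570, .ofNat 0, .ofNat 1570, .ofNat 3537, .ofNat 0, .ofNat 128, .negSucc 483, .negSucc 777, .ofNat 0, .ofNat 251, .ofNat 357, .ofNat 0, .ofNat 0, .ofNat 771, .ofNat 736, .ofNat 0, .ofNat 0, .ofNat 0, .ofNat 0, .ofNat 0, .ofNat 0, .ofNat 0, .ofNat 0, .ofNat 0, .ofNat 0, .ofNat 0, .ofNat 0, .ofNat 0, .ofNat 0, .ofNat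 0, .ofNat 0⟩)
    (by decide +kernel)
theorem L02447 : Good (Phi V5.P V5.D (-1) (-1)) ⟨4, 13, 3, 3, 3, 6, 2, 1, 4, 0⟩ :=
  leafX_sound T5.ok_mm T5.Ymm.bz_eq (w := 224) (c := ⟨⟨.ofNat 4279, .ofNat 818, .negSucc 453, .negSucc 1112, .negSucc 577, .negSucc 1228⟩, ⟨.negSucc 2138, .negSucc 602, .ofNat 129, .ofNat 678, .ofNat 321, .ofNat 550⟩, ⟨.negSucc 2263, .negSucc 715, .ofNat 576, .ofNat 1384, .negSucc 147, .ofNat 361⟩, ⟨.ofNat 6304, .ofNat 764, .negSucc 370, .negSucc 676, .negSucc 776, .negSucc 2950⟩, ⟨.negSucc 533, .negSucc 291, .ofNat 590, .ofNat 1949, .ofNat 237, .negSucc 2072⟩, .ofNat 939, .ofNat 1147, .ofNat 0, .ofNat 1147, .ofNat 2293, .ofNat 0, .ofNat 128, .negSucc 227, .negSucc 572, .ofNat 0, .ofNat 136, .ofNat 295, .ofNat 0, .ofNat 0, .ofNat 536, .ofNat 207, .ofNat 0, .ofNat 0, .ofNat 1228852536978633317767939472184446025728, .ofNat 0, .ofNat 0, .ofNat 0, .ofNat 30480389933905361923156906914328688459776,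 .ofNat 0, .ofNat 0, .ofNat 0, .ofNat 58082606674145625502797302600440534269952, .ofNat 0, .ofNat 0, .ofNat 0, .ofNat 43839913866134437841549461348644716281856, .ofNat 0⟩)
    (by decide +kernel)
theorem L02448 : Good (Phi V5.P V5.D (-1) (-1)) ⟨4, 12, 3, 3, 3, 7, 2, 1, 4, 0⟩ :=
  leafX_sound T5.ok_mm T5.Ymm.bz_eq (w := 225) (c := ⟨⟨.ofNat 2987, .ofNat 62, .ofNat 310, .negSucc 1625, .negSucc 66, .negSucc 2208⟩, ⟨.negSucc 1291, .negSucc 42, .negSucc 264, .ofNat 775, .ofNat 33, .ofNat 922⟩, ⟨.negSucc 788, .ofNat 11, .ofNat 56, .ofNat 1328, .negSucc 264, .ofNat 666⟩, ⟨.ofNat 5829, .negSucc 5, .ofNat 623, .negSucc 2323, .negSucc 238, .negSucc 4830⟩, ⟨.ofNat 2333, .negSucc 69, .ofNat 232, .ofNat 479, .negSucc 275, .negSucc 2918⟩, .ofNat 1060, .ofNat 1516, .ofNat 0, .ofNat 1516, .ofNat 3402, .ofNat 0, .ofNat 128, .negSucc 455, .negSucc 560, .ofNat 0, .ofNat 230, .ofNat 245, .ofNat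 0, .ofNat 0, .ofNat 520, .ofNat 868, .ofNat 0, .ofNat 0, .ofNat 0, .ofNat 0, .ofNat 0, .ofNat 0, .ofNat 93077976183492916840157464326346628923392, .ofNat 0, .ofNat 0, .ofNat 0, .ofNat 370679692274236117685420223422805974188032, .ofNat 0, .ofNat 0, .ofNat 0, .ofNat 30000282556776702464758083950346097393664, .ofNat 0⟩)
    (by decide +kernel)
theorem L02449 : Good (Phi V5.P V5.D (-1) (-1)) ⟨4, 13, 3, 3, 3, 7, 2, 1, 4, 0⟩ :=
  leafX_sound T5.ok_mm T5.Ymm.bz_eq (w := 224) (c := ⟨⟨.ofNat 3037, .ofNat 1050, .negSucc 281, .negSucc 1356, .negSucc 90, .negSucc 2124⟩, ⟨.negSucc 1416, .negSucc 503, .negSucc 11, .ofNat 737, .ofNat 56, .ofNat 1004⟩, ⟨.negSucc 715, .negSucc 395, .ofNat 299, .ofNat 1257, .negSucc 353, .ofNat 637⟩, ⟨.ofNat 5539, .ofNat 1595, .negSucc 211, .negSucc 1711, .negSucc 66, .negSucc 4638⟩, ⟨.ofNat 1808, .ofNat 237, .ofNat 277, .ofNat 685, .ofNat 158, .negSucc 2729⟩,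 .ofNat 1125, .ofNat 1509, .ofNat 0, .ofNat 1509, .ofNat 3016, .ofNat 0, .ofNat 128, .negSucc 318, .negSucc 489, .ofNat 0, .ofNat 175, .ofNat 239, .ofNat 0, .ofNat 0, .ofNat 421, .ofNat 315, .ofNat 0, .ofNat 0, .ofNat 629842733200192000781136307758204715008, .ofNat 0, .ofNat 0, .ofNat 0, .ofNat 56962225794385355726194034376377632817152, .ofNat 0, .ofNat 0, .ofNat 0, .ofNat 100091140037391859892737207033583760310272, .ofNat 0, .ofNat 0, .ofNat 0, .ofNat 73819551516971813484089382439172259708928, .ofNat 0⟩)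
    (by decide +kernel)
theorem L02450 : Good (Phi V5.P V5.D (-1) (-1)) ⟨3, 7, 3, 3, 2, 3, 2, 1, 4, 0⟩ :=
  out_sound (S := T5.ds_mm) T5.ok_mm (w := 45) (j := 3) (by decide +kernel)
theorem L02451 : Good (Phi V5.P V5.D (-1) (-1)) ⟨2, 2, 3, 3, 1, 1, 2, 1, 4, 1⟩ :=
  out_sound (S := T5.ds_mm) T5.ok_mm (w := 39) (j := 3) (by decide +kernel)
theorem L02452 : Good (Phi V5.P V5.D (-1) (-1)) ⟨4, 12, 3, 3, 2, 2, 2, 1, 4, 1⟩ :=
  leafX_sound T5.ok_mm T5.Ymm.bz_eq (w := 210) (c := ⟨⟨.ofNat 523, .negSucc 986, .ofNat 635, .ofNat 205, .negSucc 246, .negSucc 3713⟩, ⟨.negSucc 340, .ofNat 429, .negSucc 19, .negSucc 114, .ofNat 153, .ofNat 1782⟩, ⟨.negSucc 525, .ofNat 762, .negSucc 492, .negSucc 178, .ofNat 118, .ofNat 2558⟩, ⟨.negSucc 284, .negSucc 1008, .ofNat 690, .ofNat 102, .negSucc 179, .negSucc 5583⟩, ⟨.negSucc 2063, .ofNat 773, .negSucc 527, .negSucc 530, .ofNat 409, .ofNat 551⟩,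 .ofNat 1060, .ofNat 1523, .ofNat 0, .ofNat 1523, .ofNat 3435, .ofNat 0, .ofNat 128, .negSucc 475, .negSucc 544, .ofNat 0, .ofNat 259, .ofNat 260, .ofNat 0, .ofNat 0, .ofNat 609, .ofNat 505, .ofNat 0, .ofNat 0, .ofNat 0, .ofNat 0, .ofNat 0, .ofNat 0, .ofNat 2446408580675326987528161341072211968, .ofNat 0, .ofNat 0, .ofNat 0, .ofNat 16503735364330538255859460851451822080, .ofNat 0, .ofNat 0, .ofNat 0, .ofNat 4842400222709787912724935058126798848, .ofNat 0⟩)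
    (by decide +kernel)
theorem L02453 : Good (Phi V5.P V5.D (-1) (-1)) ⟨4, 13, 3, 3, 3, 4, 2, 1, 4, 1⟩ :=
  leafX_sound T5.ok_mm T5.Ymm.bz_eq (w := 223) (c := ⟨⟨.negSucc 1013, .negSucc 498, .negSucc 72, .negSucc 123, .negSucc 293, .negSucc 2821⟩, ⟨.ofNat 265, .ofNat 345, .ofNat 321, .ofNat 42, .ofNat 184, .ofNat 1494⟩, ⟨.ofNat 346, .ofNat 434, .negSucc 2, .negSucc 105, .ofNat 368, .ofNat 2265⟩, ⟨.negSucc 2446, .negSucc 575, .negSucc 100, .negSucc 372, .negSucc 201, .negSucc 3803⟩, ⟨.negSucc 1640, .negSucc 374, .ofNat 110, .negSucc 394, .ofNat 482, .ofNat 934⟩, .ofNat 939, .ofNat 1147, .ofNat 0, .ofNat 1147, .ofNat 2293, .ofNat 0, .ofNat 128, .negSucc 375, .negSucc 474, .ofNat 0, .ofNat 242, .ofNat 260, .ofNat 0, .ofNat 0, .ofNat 503, .ofNat 358, .ofNat 0, .ofNat 0, .ofNat 2379026265570291964112972929671391870976, .ofNat 0, .ofNat 0, .ofNat 0, .ofNat 60247741790340767127935106890746004766720,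 .ofNat 0, .ofNat 0, .ofNat 0, .ofNat 200479608034247355533628971957534028988416, .ofNat 0, .ofNat 0, .ofNat 0, .ofNat 253502093544581277772992427047568606756864, .ofNat 0⟩)
    (by decide +kernel)
theorem L02454 : Good (Phi V5.P V5.D (-1) (-1)) ⟨5, 26, 3, 3, 3, 5, 2, 1, 4, 1⟩ :=
  leafX_sound T5.ok_mm T5.Ymm.bz_eq (w := 228) (c := ⟨⟨.ofNat 429, .negSucc 753, .ofNat 557, .ofNat 483, .ofNat 125, .negSucc 5202⟩, ⟨.negSucc 499, .ofNat 406, .ofNat 11, .negSucc 265, .negSucc 56, .ofNat 2736⟩, ⟨.negSucc 435, .ofNat 537, .negSucc 462, .negSucc 276, .negSucc 160, .ofNat 3518⟩, ⟨.negSucc 275, .negSucc 1078, .ofNat 645, .ofNat 613, .ofNat 287, .negSucc 7527⟩, ⟨.negSucc 1610, .negSucc 283, .negSucc 166, .negSucc 279, .ofNat 229, .ofNat 576⟩, .ofNat 1068, .ofNat 1425, .ofNat 0, .ofNat 1425, .ofNat 2914, .ofNat 0, .ofNat 128, .negSucc 455, .negSucc 683, .ofNat 0, .ofNat 266, .ofNat 359,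 .ofNat 0, .ofNat 0, .ofNat 617, .ofNat 371, .ofNat 0, .ofNat 0, .ofNat 511313037742289031800886865866382114816, .ofNat 0, .ofNat 0, .ofNat 0, .ofNat 0, .ofNat 0, .ofNat 0, .ofNat 0, .ofNat 0, .ofNat 0, .ofNat 0, .ofNat 0, .ofNat 37649027216644258119058576632111649783808, .ofNat 0⟩)
    (by decide +kernel)
theorem L02455 : Good (Phi V5.P V5.D (-1) (-1)) ⟨5, 27, 3, 3, 3, 5, 2, 1, 4, 1⟩ :=
  leafX_sound T5.ok_mm T5.Ymm.bz_eq (w := 229) (c := ⟨⟨.ofNat 465, .ofNat 134, .ofNat 72, .ofNat 426, .ofNat 273, .negSucc 5872⟩, ⟨.negSucc 618, .negSucc 79, .ofNat 248, .negSucc 262, .negSucc 137, .ofNat 3298⟩, ⟨.negSucc 317, .negSucc 190, .negSucc 213, .negSucc 273, .negSucc 234, .ofNat 3975⟩, ⟨.negSucc 299, .negSucc 97, .negSucc 107, .ofNat 359, .ofNat 467, .negSucc 7951⟩, ⟨.negSucc 1852, .negSucc 740, .negSucc 313, .negSucc 536, .ofNat 148, .ofNat 1386⟩, .ofNat 1227, .ofNat 1631, .ofNat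 0, .ofNat 1631, .ofNat 3082, .ofNat 0, .ofNat 128, .negSucc 562, .negSucc 1034, .ofNat 0, .ofNat 343, .ofNat 582, .ofNat 0, .ofNat 0, .ofNat 923, .ofNat 731, .ofNat 0, .ofNat 0, .ofNat 830211979564537713428701880894783225856, .ofNat 0, .ofNat 0, .ofNat 0, .ofNat 118321643162142152329697026709642966728704, .ofNat 0, .ofNat 0, .ofNat 0, .ofNat 217253523050726422598544626104898106163200, .ofNat 0, .ofNat 0, .ofNat 0, .ofNat 278632012999704980640954667168896370343936, .ofNat 0⟩)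
    (by decide +kernel)
theorem L02456 : Good (Phi V5.P V5.D (-1) (-1)) ⟨3, 7, 3, 3, 2, 2, 2, 1, 4, 1⟩ :=
  out_sound (S := T5.ds_mm) T5.ok_mm (w := 45) (j := 3) (by decide +kernel)
theorem L02457 : Good (Phi V5.P V5.D (-1) (-1)) ⟨4, 12, 3, 3, 2, 3, 3, 2, 5, 2⟩ :=
  leafX_sound T5.ok_mm T5.Ymm.bz_eq (w := 219) (c := ⟨⟨.ofNat 1166, .negSucc 348, .ofNat 390, .negSucc 1605, .ofNat 260, .negSucc 2097⟩, ⟨.negSucc 581, .ofNat 94, .ofNat 20, .ofNat 803, .negSucc 113, .ofNat 934⟩, ⟨.negSucc 493, .ofNat 182, .ofNat 199, .ofNat 1326, .negSucc 227, .ofNat 1055⟩, ⟨.ofNat 1134, .negSucc 648, .ofNat 606, .negSucc 1928, .ofNat 434, .negSucc 3669⟩, ⟨.negSucc 1386, .negSucc 385, .ofNat 89, .ofNat 1274, .ofNat 54, .negSucc 768⟩, .ofNat 1059, .ofNat 1527, .ofNat 0, .ofNat 1527, .ofNat 3461, .ofNat 0, .ofNat 128, .negSucc 346, .negSucc 813, .ofNat 0, .ofNat 181, .ofNat 369, .ofNat 0, .ofNat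 0, .ofNat 746, .ofNat 1091, .ofNat 0, .ofNat 0, .ofNat 0, .ofNat 0, .ofNat 0, .ofNat 0, .ofNat 2918665926554333902728429797272467800064, .ofNat 0, .ofNat 0, .ofNat 0, .ofNat 4987502148042915304271747333431681351680, .ofNat 0, .ofNat 0, .ofNat 0, .ofNat 0, .ofNat 0⟩)
    (by decide +kernel)
theorem L02458 : Good (Phi V5.P V5.D (-1) (-1)) ⟨4, 13, 3, 3, 3, 6, 3, 2, 5, 2⟩ :=
  leafX_sound T5.ok_mm T5.Ymm.bz_eq (w := 233) (c := ⟨⟨.ofNat 1916, .ofNat 692, .negSucc 60, .negSucc 888, .ofNat 219, .negSucc 3727⟩, ⟨.negSucc 1191, .negSucc 537, .ofNat 217, .ofNat 519, .negSucc 99, .ofNat 1961⟩, ⟨.negSucc 1122, .negSucc 593, .ofNat 225, .ofNat 932, .negSucc 277, .ofNat 2201⟩, ⟨.ofNat 1730, .ofNat 798, .ofNat 48, .negSucc 770, .ofNat 464, .negSucc 5957⟩, ⟨.negSucc 2416, .negSucc 336, .ofNat 484, .ofNat 1065, .ofNat 259, .negSucc 572⟩, .ofNat 645, .ofNat 681, .ofNat 0, .ofNat 681, .ofNat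 1499, .ofNat 0, .ofNat 128, .negSucc 293, .negSucc 864, .ofNat 0, .ofNat 175, .ofNat 436, .ofNat 0, .ofNat 0, .ofNat 688, .ofNat 907, .ofNat 0, .ofNat 0, .ofNat 0, .ofNat 0, .ofNat 0, .ofNat 0, .ofNat 9974553642056207477277664068816256785973248, .ofNat 0, .ofNat 0, .ofNat 0, .ofNat 114844229780998044813720636156397885428072448, .ofNat 0, .ofNat 0, .ofNat 0, .ofNat 181800153107088023252557814967516996489445376, .ofNat 0⟩)
    (by decide +kernel)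
theorem L02459 : Good (Phi V5.P V5.D (-1) (-1)) ⟨4, 13, 3, 3, 3, 7, 3, 2, 5, 2⟩ :=
  leafX_sound T5.ok_mm T5.Ymm.bz_eq (w := 232) (c := ⟨⟨.negSucc 223, .negSucc 563, .ofNat 502, .negSucc 887, .ofNat 422, .negSucc 1864⟩, ⟨.negSucc 32, .ofNat 280, .negSucc 87, .ofNat 491, .negSucc 220, .ofNat 927⟩, ⟨.ofNat 701, .ofNat 438, .negSucc 127, .ofNat 616, .negSucc 398, .ofNat 818⟩, ⟨.negSucc 643, .negSucc 1092, .ofNat 943, .negSucc 1210, .ofNat 736, .negSucc 3518⟩, ⟨.negSucc 544, .negSucc 748, .ofNat 493, .ofNat 249, .ofNat 170, .negSucc 1386⟩, .ofNat 1158, .ofNat 1573, .ofNat 0, .ofNat 1573, .ofNat 3141, .ofNat 0, .ofNat 128, .negSucc 335, .negSucc 623, .ofNat 0, .ofNat 190, .ofNat 310, .ofNat 0, .ofNat 0, .ofNat 528, .ofNat 550, .ofNat 0, .ofNat 0, .ofNat 0, .ofNat 0, .ofNat 0, .ofNat 0, .ofNat 28273745694956411128278179066387370619174912, .ofNat 0, .ofNat 0, .ofNat 0, .ofNat 85401270395922727398110711093966620749463552,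 .ofNat 0, .ofNat 0, .ofNat 0, .ofNat 122430002900992443049625452573606242510962688, .ofNat 0⟩)
    (by decide +kernel)
theorem L02460 : Good (Phi V5.P V5.D (-1) (-1)) ⟨3, 7, 3, 3, 2, 3, 3, 2, 5, 2⟩ :=
  out_sound (S := T5.ds_mm) T5.ok_mm (w := 45) (j := 3) (by decide +kernel)
theorem L02461 : Good (Phi V5.P V5.D (-1) (-1)) ⟨4, 12, 3, 3, 2, 3, 3, 3, 6, 4⟩ :=
  leafX_sound T5.ok_mm T5.Ymm.bz_eq (w := 225) (c := ⟨⟨.ofNat 1020, .ofNat 184, .ofNat 125, .negSucc 1600, .negSucc 186, .negSucc 967⟩, ⟨.negSucc 493, .negSucc 152, .ofNat 40, .ofNat 795, .ofNat 82, .ofNat 436⟩, ⟨.negSucc 532, .negSucc 157, .ofNat 49, .ofNat 1502, .negSucc 9, .ofNat 438⟩, ⟨.ofNat 1119, .ofNat 194, .ofNat 266, .negSucc 2120, .negSucc 323, .negSucc 1783⟩, ⟨.negSucc 999, .negSucc 221, .ofNat 293, .ofNat 801, .negSucc 71, .negSucc 581⟩, .ofNat 1491, .ofNat 2378, .ofNat 0, .ofNat 2378, .ofNat 5160, .ofNat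 0, .ofNat 128, .negSucc 283, .negSucc 875, .ofNat 0, .ofNat 145, .ofNat 405, .ofNat 0, .ofNat 0, .ofNat 761, .ofNat 760, .ofNat 0, .ofNat 0, .ofNat 0, .ofNat 0, .ofNat 0, .ofNat 0, .ofNat 0, .ofNat 0, .ofNat 0, .ofNat 0, .ofNat 155171173003345043327600366382017081769984, .ofNat 0, .ofNat 0, .ofNat 0, .ofNat 0, .ofNat 0⟩)
    (by decide +kernel)
theorem L02462 : Good (Phi V5.P V5.D (-1) (-1)) ⟨4, 13, 4, 6, 2, 3, 3, 3, 6, 4⟩ :=
  leafX_sound T5.ok_mm T5.Ymm.bz_eq (w := 226) (c := ⟨⟨.ofNat 1421, .negSucc 358, .ofNat 302, .negSucc 2044, .negSucc 126, .negSucc 1102⟩, ⟨.negSucc 814, .ofNat 88, .negSucc 86, .ofNat 1088, .ofNat 61, .ofNat 508⟩, ⟨.negSucc 875, .ofNat 278, .negSucc 109, .ofNat 1865, .negSucc 59, .ofNat 502⟩, ⟨.ofNat 1433, .negSucc 658, .ofNat 553, .negSucc 2587, .negSucc 191, .negSucc 1973⟩, ⟨.negSucc 1538, .negSucc 236, .ofNat 251, .ofNat 1061, .ofNat 20, .negSucc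 551⟩, .ofNat 979, .ofNat 1209, .ofNat 0, .ofNat 1209, .ofNat 2418, .ofNat 0, .ofNat 128, .negSucc 217, .negSucc 654, .ofNat 0, .ofNat 129, .ofNat 323, .ofNat 0, .ofNat 0, .ofNat 511, .ofNat 439, .ofNat 0, .ofNat 0, .ofNat 0, .ofNat 0, .ofNat 0, .ofNat 0, .ofNat 54442758332541536824328448537687920476160, .ofNat 0, .ofNat 0, .ofNat 0, .ofNat 11494707324017450176009779734539222908928, .ofNat 0, .ofNat 0, .ofNat 0, .ofNat 106432575521634126778463553688490523754496, .ofNat 0⟩)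
    (by decide +kernel)
theorem L02463 : Good (Phi V5.P V5.D (-1) (-1)) ⟨4, 13, 4, 7, 2, 3, 3, 3, 6, 4⟩ :=
  leafX_sound T5.ok_mm T5.Ymm.bz_eq (w := 227) (c := ⟨⟨.ofNat 1552, .ofNat 464, .negSucc 158, .negSucc 1878, .negSucc 155, .negSucc 1061⟩, ⟨.negSucc 867, .negSucc 367, .ofNat 148, .ofNat 1061, .ofNat 78, .ofNat 534⟩, ⟨.negSucc 865, .negSucc 365, .ofNat 225, .ofNat 1835, .negSucc 74, .ofNat 453⟩, ⟨.ofNat 1923, .ofNat 354, .negSucc 151, .negSucc 2416, .negSucc 263, .negSucc 2032⟩, ⟨.negSucc 822, .negSucc 538, .ofNat 163, .ofNat 758, .negSucc 45, .negSucc 803⟩, .ofNat 1101, .ofNat 1429, .ofNat 0, .ofNat 1429, .ofNat 2774, .ofNat 0, .ofNat 128, .negSucc 232, .negSucc 764, .ofNat 0, .ofNat 134, .ofNat 396, .ofNat 0, .ofNat 0, .ofNat 587, .ofNat 452, .ofNat 0, .ofNat 0, .ofNat 0, .ofNat 0, .ofNat 0, .ofNat 0, .ofNat 121960735031032166261871136162138541785088, .ofNat 0, .ofNat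 0, .ofNat 0, .ofNat 16396097442336040093865073318765533331456, .ofNat 0, .ofNat 0, .ofNat 0, .ofNat 295097784121751991193239656602655036276736, .ofNat 0⟩)
    (by decide +kernel)
theorem L02464 : Good (Phi V5.P V5.D (-1) (-1)) ⟨4, 12, 3, 3, 2, 3, 3, 3, 6, 5⟩ :=
  leafX_sound T5.ok_mm T5.Ymm.bz_eq (w := 223) (c := ⟨⟨.negSucc 625, .negSucc 257, .ofNat 313, .negSucc 550, .ofNat 191, .negSucc 747⟩, ⟨.ofNat 245, .ofNat 66, .ofNat 60, .ofNat 286, .negSucc 92, .ofNat 331⟩, ⟨.ofNat 452, .ofNat 178, .negSucc 94, .ofNat 615, .negSucc 219, .ofNat 329⟩, ⟨.negSucc 1626, .negSucc 473, .ofNat 516, .negSucc 579, .ofNat 263, .negSucc 1377⟩, ⟨.negSucc 1245, .negSucc 407, .ofNat 229, .ofNat 609, .negSucc 54, .negSucc 384⟩, .ofNat 819, .ofNat 1051, .ofNat 0, .ofNat 1051, .ofNat 2463, .ofNat 0, .ofNat 128, .negSucc 322, .negSucc 918, .ofNat 0, .ofNat 171, .ofNat 406, .ofNat 0, .ofNat 0, .ofNat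 793, .ofNat 1520, .ofNat 0, .ofNat 0, .ofNat 0, .ofNat 0, .ofNat 0, .ofNat 0, .ofNat 48645983523069460966045995508921414975488, .ofNat 0, .ofNat 0, .ofNat 0, .ofNat 260638615258346196129138891425991006093312, .ofNat 0, .ofNat 0, .ofNat 0, .ofNat 0, .ofNat 0⟩)
    (by decide +kernel)
theorem L02465 : Good (Phi V5.P V5.D (-1) (-1)) ⟨4, 13, 3, 3, 3, 6, 3, 3, 6, 5⟩ :=
  leafX_sound T5.ok_mm T5.Ymm.bz_eq (w := 237) (c := ⟨⟨.negSucc 664, .negSucc 752, .ofNat 726, .ofNat 171, .negSucc 62, .negSucc 1621⟩, ⟨.ofNat 161, .ofNat 270, .negSucc 158, .negSucc 73, .ofNat 37, .ofNat 840⟩, ⟨.ofNat 399, .ofNat 530, .negSucc 464, .ofNat 134, .negSucc 36, .ofNat 991⟩, ⟨.negSucc 1857, .negSucc 1080, .ofNat 1086, .ofNat 437, .negSucc 90, .negSucc 2637⟩, ⟨.negSucc 1793, .ofNat 16, .ofNat 208, .ofNat 325, .ofNat 25, .negSucc 282⟩, .ofNat 600, .ofNat 590, .ofNat 0, .ofNat 590, .ofNat 1295, .ofNat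 0, .ofNat 128, .negSucc 231, .negSucc 985, .ofNat 0, .ofNat 142, .ofNat 488, .ofNat 0, .ofNat 0, .ofNat 724, .ofNat 1161, .ofNat 0, .ofNat 0, .ofNat 0, .ofNat 0, .ofNat 0, .ofNat 0, .ofNat 113966483285278361934662033540633825934049280, .ofNat 0, .ofNat 0, .ofNat 0, .ofNat 1641318778768321867146198202542528783842279424, .ofNat 0, .ofNat 0, .ofNat 0, .ofNat 6954259708766987896888319377420585852978855936, .ofNat 0⟩)
    (by decide +kernel)
theorem L02466 : Good (Phi V5.P V5.D (-1) (-1)) ⟨4, 13, 3, 3, 3, 7, 3, 3, 6, 5⟩ :=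
  leafX_sound T5.ok_mm T5.Ymm.bz_eq (w := 238) (c := ⟨⟨.negSucc 1080, .negSucc 575, .ofNat 480, .negSucc 536, .ofNat 249, .negSucc 733⟩, ⟨.ofNat 392, .ofNat 218, .negSucc 28, .ofNat 293, .negSucc 130, .ofNat 364⟩, ⟨.ofNat 945, .ofNat 353, .negSucc 179, .ofNat 453, .negSucc 273, .ofNat 312⟩, ⟨.negSucc 2202, .negSucc 992, .ofNat 825, .negSucc 765, .ofNat 341, .negSucc 1367⟩, ⟨.negSucc 1141, .negSucc 422, .ofNat 342, .ofNat 86, .negSucc 65, .negSucc 483⟩, .ofNat 874, .ofNat 1070, .ofNat 0, .ofNat 1070, .ofNat 2211, .ofNat 0, .ofNat 128, .negSucc 335, .negSucc 1065, .ofNat 0, .ofNat 188, .ofNat 511, .ofNat 0, .ofNat 0, .ofNat 817, .ofNat 1329, .ofNat 0, .ofNat 0, .ofNat 0, .ofNat 0, .ofNat 0, .ofNat 0, .ofNat 657965712165702786418658038839979536940007424, .ofNat 0, .ofNat 0, .ofNat 0, .ofNat 1040993554687880159375446057391418618748600320, .ofNat 0, .ofNat 0, .ofNat 0, .ofNat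 2029307707692081710890510774980336382694653952, .ofNat 0⟩)
    (by decide +kernel)
theorem L02467 : Good (Phi V5.P V5.D (-1) (-1)) ⟨3, 7, 3, 3, 2, 3, 3, 3, 5, 2⟩ :=
  out_sound (S := T5.ds_mm) T5.ok_mm (w := 45) (j := 3) (by decide +kernel)
theorem L02468 : Good (Phi V5.P V5.D (-1) (-1)) ⟨4, 12, 3, 3, 3, 6, 2, 1, 5, 3⟩ :=
  leafX_sound T5.ok_mm T5.Ymm.bz_eq (w := 230) (c := ⟨⟨.negSucc 2629, .negSucc 822, .ofNat 662, .ofNat 883, .ofNat 772, .negSucc 989⟩, ⟨.ofNat 1141, .ofNat 374, .negSucc 7, .negSucc 422, .negSucc 366, .ofNat 468⟩, ⟨.ofNat 1793, .ofNat 573, .negSucc 481, .negSucc 483, .negSucc 707, .ofNat 527⟩, ⟨.negSucc 5101, .negSucc 1072, .ofNat 812, .ofNat 1384, .ofNat 1157, .negSucc 1391⟩, ⟨.negSucc 1742, .negSucc 90, .negSucc 215, .ofNat 57, .negSucc 86, .ofNat 330⟩, .ofNat 1799, .ofNat 3016, .ofNat 0, .ofNat 3016, .ofNat 6511, .ofNat 0, .ofNat 128, .negSucc 218, .negSucc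 563, .ofNat 0, .ofNat 114, .ofNat 268, .ofNat 0, .ofNat 0, .ofNat 546, .ofNat 396, .ofNat 0, .ofNat 0, .ofNat 8324483635456941984730846242440717795328, .ofNat 0, .ofNat 0, .ofNat 0, .ofNat 0, .ofNat 0, .ofNat 0, .ofNat 0, .ofNat 2729599572734215128050905518524585201369088, .ofNat 0, .ofNat 0, .ofNat 0, .ofNat 0, .ofNat 0⟩)
    (by decide +kernel)
theorem L02469 : Good (Phi V5.P V5.D (-1) (-1)) ⟨4, 13, 3, 3, 4, 12, 2, 1, 5, 3⟩ :=
  leafX_sound T5.ok_mm T5.Ymm.bz_eq (w := 243) (c := ⟨⟨.negSucc 3335, .negSucc 1733, .ofNat 844, .ofNat 577, .ofNat 729, .negSucc 1432⟩, ⟨.ofNat 1449, .ofNat 898, .negSucc 75, .negSucc 319, .negSucc 389, .ofNat 768⟩, ⟨.ofNat 2237, .ofNat 1148, .negSucc 590, .negSucc 348, .negSucc 628, .ofNat 881⟩, ⟨.negSucc 5780, .negSucc 2177, .ofNat 1091, .ofNat 768, .ofNat 945, .negSucc 2060⟩, ⟨.negSucc 1344, .ofNat 298, .negSucc 244, .negSucc 191, .negSucc 269,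 .ofNat 169⟩, .ofNat 939, .ofNat 1147, .ofNat 0, .ofNat 1147, .ofNat 2293, .ofNat 0, .ofNat 128, .negSucc 306, .negSucc 756, .ofNat 0, .ofNat 189, .ofNat 408, .ofNat 0, .ofNat 0, .ofNat 637, .ofNat 597, .ofNat 0, .ofNat 0, .ofNat 1117453999082108745391948497134677343445450752, .ofNat 0, .ofNat 0, .ofNat 0, .ofNat 22173866139594890700699811134679898917718458368, .ofNat 0, .ofNat 0, .ofNat 0, .ofNat 111313301784737970005262808348172654103247192064, .ofNat 0, .ofNat 0, .ofNat 0, .ofNat 173234880841811784581802173443201795666749685760, .ofNat 0⟩)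
    (by decide +kernel)
theorem L02470 : Good (Phi V5.P V5.D (-1) (-1)) ⟨4, 13, 3, 3, 4, 13, 2, 1, 5, 3⟩ :=
  leafX_sound T5.ok_mm T5.Ymm.bz_eq (w := 243) (c := ⟨⟨.negSucc 3261, .negSucc 1099, .ofNat 708, .ofNat 558, .ofNat 963, .negSucc 1035⟩, ⟨.ofNat 1434, .ofNat 568, .negSucc 47, .negSucc 300, .negSucc 514, .ofNat 550⟩, ⟨.ofNat 2334, .ofNat 705, .negSucc 462, .negSucc 301, .negSucc 901, .ofNat 543⟩, ⟨.negSucc 5708, .negSucc 1438, .ofNat 921, .ofNat 800, .ofNat 1280, .negSucc 1489⟩, ⟨.negSucc 1524, .negSucc 92, .negSucc 98, .negSucc 47, .negSucc 286, .ofNat 155⟩, .ofNat 939, .ofNat 1147, .ofNat 0, .ofNat 1147, .ofNat 2293, .ofNat 0, .ofNat 128, .negSucc 228, .negSucc 712, .ofNat 0, .ofNat 141, .ofNat 377, .ofNat 0, .ofNat 0, .ofNat 609, .ofNat 726, .ofNat 0, .ofNat 0, .ofNat 455000064853764827151899295351479545794396160, .ofNat 0, .ofNat 0, .ofNat 0, .ofNat 4967516208552391469236026093537087955495026688,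 .ofNat 0, .ofNat 0, .ofNat 0, .ofNat 43275051248054300262709104082203493208049057792, .ofNat 0, .ofNat 0, .ofNat 0, .ofNat 64981193245872785599536376300435090626737864704, .ofNat 0⟩)
    (by decide +kernel)
theorem L02471 : Good (Phi V5.P V5.D (-1) (-1)) ⟨3, 7, 3, 3, 3, 6, 2, 1, 5, 3⟩ :=
  out_sound (S := T5.ds_mm) T5.ok_mm (w := 45) (j := 3) (by decide +kernel)
theorem L02472 : Good (Phi V5.P V5.D (-1) (-1)) ⟨3, 6, 4, 6, 3, 7, 2, 1, 6, 6⟩ :=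
  leafX_sound T5.ok_mm T5.Ymm.bz_eq (w := 232) (c := ⟨⟨.negSucc 2208, .negSucc 1117, .ofNat 154, .ofNat 52, .ofNat 1048, .negSucc 377⟩, ⟨.ofNat 968, .ofNat 465, .ofNat 60, .negSucc 16, .negSucc 507, .ofNat 167⟩, ⟨.ofNat 1676, .ofNat 912, .negSucc 104, .negSucc 82, .negSucc 922, .ofNat 114⟩, ⟨.negSucc 4150, .negSucc 1730, .ofNat 235, .ofNat 259, .ofNat 1534, .negSucc 662⟩, ⟨.negSucc 1228, .negSucc 808, .ofNat 116, .ofNat 408, .negSucc 198, .negSucc 95⟩, .ofNat 610, .ofNat 639, .ofNat 0, .ofNat 639, .ofNat 1524, .ofNat 0, .ofNat 128, .negSucc 327, .negSucc 572, .ofNat 0, .ofNat 192, .ofNat 247, .ofNat 0, .ofNat 0, .ofNat 504, .ofNat 1013, .ofNat 0, .ofNat 0, .ofNat 2889423280969163181022800203357136451796992, .ofNat 0, .ofNat 0, .ofNat 0, .ofNat 136923286601794947900517080356853252020502528, .ofNat 0, .ofNat 0, .ofNat 0, .ofNat 318342179363418472614239342509803053730758656,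 .ofNat 0, .ofNat 0, .ofNat 0, .ofNat 558286640294747604067423702002991216524787712, .ofNat 0⟩)
    (by decide +kernel)
theorem L02473 : Good (Phi V5.P V5.D (-1) (-1)) ⟨3, 6, 4, 7, 3, 7, 2, 1, 6, 6⟩ :=
  leafX_sound T5.ok_mm T5.Ymm.bz_eq (w := 233) (c := ⟨⟨.negSucc 1854, .negSucc 1591, .ofNat 307, .ofNat 121, .ofNat 1084, .negSucc 340⟩, ⟨.ofNat 938, .ofNat 724, .negSucc 26, .negSucc 58, .negSucc 571, .ofNat 169⟩, ⟨.ofNat 1516, .ofNat 1023, .negSucc 133, .negSucc 20, .negSucc 962, .ofNat 103⟩, ⟨.negSucc 3595, .negSucc 2429, .ofNat 447, .ofNat 283, .ofNat 1618, .negSucc 621⟩, ⟨.negSucc 1128, .negSucc 721, .ofNat 65, .ofNat 201, .negSucc 28, .negSucc 193⟩, .ofNat 919, .ofNat 1153, .ofNat 0, .ofNat 1153, .ofNat 2365, .ofNat 0, .ofNat 128, .negSucc 374, .negSucc 758, .ofNat 0, .ofNat 217, .ofNat 372, .ofNat 0, .ofNat 0, .ofNat 661, .ofNat 1071, .ofNat 0, .ofNat 0, .ofNat 4643508445664105784249970515017714628558848,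 .ofNat 0, .ofNat 0, .ofNat 0, .ofNat 598256402080782888432024867444232312651251712, .ofNat 0, .ofNat 0, .ofNat 0, .ofNat 763675543411550721228643320107003923119734784, .ofNat 0, .ofNat 0, .ofNat 0, .ofNat 824757037441401609487856692333554262735847424, .ofNat 0⟩)
    (by decide +kernel)
theorem L02474 : Good (Phi V5.P V5.D (-1) (-1)) ⟨3, 6, 3, 3, 3, 7, 2, 1, 6, 7⟩ :=
  leafX_sound T5.ok_mm T5.Ymm.bz_eq (w := 230) (c := ⟨⟨.negSucc 2883, .negSucc 999, .ofNat 367, .ofNat 452, .ofNat 1047, .negSucc 38⟩, ⟨.ofNat 1306, .ofNat 412, .ofNat 105, .negSucc 221, .negSucc 534, .ofNat 13⟩, ⟨.ofNat 2052, .ofNat 725, .negSucc 199, .negSucc 282, .negSucc 952, .negSucc 65⟩, ⟨.negSucc 5323, .negSucc 1338, .ofNat 474, .ofNat 870, .ofNat 1530, .negSucc 69⟩, ⟨.negSucc 1458, .negSucc 455, .ofNat 44, .ofNat 358, .negSucc 160, .ofNat 12⟩, .ofNat 632, .ofNat 675, .ofNat 0, .ofNat 675, .ofNat 1562,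 .ofNat 0, .ofNat 128, .negSucc 338, .negSucc 469, .ofNat 0, .ofNat 207, .ofNat 211, .ofNat 0, .ofNat 0, .ofNat 469, .ofNat 1362, .ofNat 0, .ofNat 0, .ofNat 1832331054133089794346026158164338989334528, .ofNat 0, .ofNat 0, .ofNat 0, .ofNat 63406868492014233509361054181171908145315840, .ofNat 0, .ofNat 0, .ofNat 0, .ofNat 548852021993622847509868245295555235673014272, .ofNat 0, .ofNat 0, .ofNat 0, .ofNat 416364280558700749208462892571855810285535232, .ofNat 0⟩)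
    (by decide +kernel)
theorem L02475 : Good (Phi V5.P V5.D (-1) (-1)) ⟨3, 7, 3, 3, 3, 7, 2, 1, 5, 3⟩ :=
  out_sound (S := T5.ds_mm) T5.ok_mm (w := 45) (j := 3) (by decide +kernel)
theorem L02476 : Good (Phi V5.P V5.D (-1) (-1)) ⟨2, 2, 3, 3, 1, 1, 1, 0, 3, 1⟩ :=
  out_sound (S := T5.ds_mm) T5.ok_mm (w := 39) (j := 3) (by decide +kernel)
theorem L02477 : Good (Phi V5.P V5.D (-1) (-1)) ⟨5, 24, 4, 6, 1, 1, 2, 0, 3, 1⟩ :=
  out_sound (S := T5.ds_mm) T5.ok_mm (w := 59) (j := 3) (by decide +kernel)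
theorem L02478 : Good (Phi V5.P V5.D (-1) (-1)) ⟨5, 25, 4, 6, 2, 2, 5, 0, 5, 4⟩ :=
  leafX_sound T5.ok_mm T5.Ymm.bz_eq (w := 239) (c := ⟨⟨.negSucc 2828, .negSucc 906, .ofNat 296, .negSucc 1339, .negSucc 76, .ofNat 116⟩, ⟨.ofNat 1061, .ofNat 522, .ofNat 24, .ofNat 734, .ofNat 69, .negSucc 62⟩, ⟨.ofNat 522, .ofNat 658, .negSucc 326, .ofNat 2468, .negSucc 8, .ofNat 148⟩, ⟨.negSucc 5915, .negSucc 917, .ofNat 326, .negSucc 1210, .negSucc 88, .ofNat 259⟩, ⟨.negSucc 2760, .ofNat 543, .negSucc 224, .ofNat 1853, .negSucc 10, .ofNat 221⟩, .ofNat 611, .ofNat 656, .ofNat 0, .ofNat 656, .ofNat 1633, .ofNat 0, .ofNat 128, .negSucc 432, .negSucc 387, .ofNat 0, .ofNat 258, .ofNat 203, .ofNat 0, .ofNat 0, .ofNat 573, .ofNat 187554, .ofNat 86555167023156485104935544617015125311126165782528, .ofNat 0, .ofNat 0, .ofNat 0, .ofNat 199812776956772654480136318426278662804397644316672, .ofNat 0,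 .ofNat 0, .ofNat 0, .ofNat 264410027728145981490662471052942884434273556758528, .ofNat 0, .ofNat 0, .ofNat 0, .ofNat 489500058785557086268151117875106600094610168479744, .ofNat 0, .ofNat 2005066416532400792902456157085911297818624, .ofNat 0⟩)
    (by decide +kernel)
theorem L02479 : Good (Phi V5.P V5.D (-1) (-1)) ⟨5, 25, 4, 6, 2, 2, 5, 1, 5, 4⟩ :=
  leafX_sound T5.ok_mm T5.Ymm.bz_eq (w := 236) (c := ⟨⟨.negSucc 3221, .negSucc 540, .ofNat 92, .negSucc 929, .negSucc 107, .ofNat 64⟩, ⟨.ofNat 1378, .ofNat 309, .ofNat 127, .ofNat 444, .ofNat 51, .negSucc 22⟩, ⟨.ofNat 1939, .ofNat 355, .negSucc 119, .ofNat 790, .ofNat 66, .ofNat 196⟩, ⟨.negSucc 5789, .negSucc 557, .ofNat 73, .negSucc 1354, .negSucc 141, .ofNat 188⟩, ⟨.negSucc 1328, .ofNat 165, .negSucc 91, .ofNat 222, .ofNat 59, .ofNat 190⟩, .ofNat 829, .ofNat 1066, .ofNat 0, .ofNat 1066, .ofNat 2478, .ofNat 0, .ofNat 128, .negSucc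 370, .negSucc 351, .ofNat 0, .ofNat 212, .ofNat 180, .ofNat 0, .ofNat 0, .ofNat 662, .ofNat 28883, .ofNat 0, .ofNat 0, .ofNat 0, .ofNat 0, .ofNat 0, .ofNat 0, .ofNat 0, .ofNat 0, .ofNat 0, .ofNat 0, .ofNat 0, .ofNat 0, .ofNat 124165727940142862445043485823481696290105982976, .ofNat 0, .ofNat 0, .ofNat 0⟩)
    (by decide +kernel)
theorem L02480 : Good (Phi V5.P V5.D (-1) (-1)) ⟨5, 25, 4, 6, 2, 2, 4, 1, 5, 4⟩ :=
  leafX_sound T5.ok_mm T5.Ymm.bz_eq (w := 231) (c := ⟨⟨.negSucc 3314, .negSucc 443, .ofNat 45, .negSucc 881, .ofNat 10, .negSucc 124⟩, ⟨.ofNat 1424, .ofNat 268, .ofNat 145, .ofNat 415, .negSucc 2, .ofNat 68⟩, ⟨.ofNat 2074, .ofNat 330, .negSucc 93, .ofNat 631, .ofNat 6, .ofNat 232⟩, ⟨.negSucc 5883, .negSucc 423, .ofNat 16, .negSucc 1342, .ofNat 53, .negSucc 89⟩, ⟨.negSucc 1210, .ofNat 125, .negSucc 56, .ofNat 73, .ofNat 80, .ofNat 223⟩, .ofNat 818, .ofNat 1048, .ofNat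 0, .ofNat 1048, .ofNat 2454, .ofNat 0, .ofNat 128, .negSucc 425, .negSucc 366, .ofNat 0, .ofNat 245, .ofNat 184, .ofNat 0, .ofNat 0, .ofNat 689, .ofNat 10122, .ofNat 0, .ofNat 0, .ofNat 0, .ofNat 0, .ofNat 0, .ofNat 0, .ofNat 0, .ofNat 0, .ofNat 0, .ofNat 0, .ofNat 0, .ofNat 0, .ofNat 0, .ofNat 0, .ofNat 0, .ofNat 0⟩)
    (by decide +kernel)
theorem L02481 : Good (Phi V5.P V5.D (-1) (-1)) ⟨5, 25, 4, 6, 2, 2, 3, 1, 5, 4⟩ :=
  leafX_sound T5.ok_mm T5.Ymm.bz_eq (w := 227) (c := ⟨⟨.negSucc 3513, .negSucc 479, .ofNat 148, .negSucc 556, .ofNat 71, .ofNat 19⟩, ⟨.ofNat 1526, .ofNat 282, .ofNat 94, .ofNat 252, .negSucc 30, .negSucc 0⟩, ⟨.ofNat 2247, .ofNat 376, .negSucc 157, .ofNat 315, .negSucc 104, .ofNat 154⟩, ⟨.negSucc 6112, .negSucc 490, .ofNat 183, .negSucc 944, .ofNat 127, .ofNat 133⟩, ⟨.negSucc 1044, .ofNat 115, .negSucc 41, .negSucc 159, .ofNat 23, .ofNat 232⟩, .ofNat 1054,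 .ofNat 1510, .ofNat 0, .ofNat 1510, .ofNat 3402, .ofNat 0, .ofNat 128, .negSucc 368, .negSucc 300, .ofNat 0, .ofNat 205, .ofNat 148, .ofNat 0, .ofNat 0, .ofNat 476, .ofNat 4319, .ofNat 0, .ofNat 0, .ofNat 0, .ofNat 0, .ofNat 0, .ofNat 0, .ofNat 0, .ofNat 0, .ofNat 0, .ofNat 0, .ofNat 0, .ofNat 0, .ofNat 0, .ofNat 0, .ofNat 0, .ofNat 0⟩)
    (by decide +kernel)
theorem L02482 : Good (Phi V5.P V5.D (-1) (-1)) ⟨5, 25, 4, 6, 2, 2, 4, 0, 5, 5⟩ :=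
  leafX_sound T5.ok_mm T5.Ymm.bz_eq (w := 233) (c := ⟨⟨.negSucc 3709, .negSucc 387, .ofNat 120, .negSucc 365, .negSucc 45, .ofNat 641⟩, ⟨.ofNat 1604, .ofNat 242, .ofNat 105, .ofNat 189, .ofNat 27, .negSucc 309⟩, ⟨.ofNat 2398, .ofNat 342, .negSucc 203, .ofNat 712, .negSucc 160, .negSucc 252⟩, ⟨.negSucc 6462, .negSucc 325, .ofNat 114, .negSucc 432, .negSucc 85, .ofNat 915⟩, ⟨.negSucc 1103, .ofNat 152, .negSucc 86, .ofNat 293, .negSucc 59, .negSucc 174⟩, .ofNat 638, .ofNat 710, .ofNat 0, .ofNat 710, .ofNat 1739, .ofNat 0, .ofNat 128, .negSucc 353, .negSucc 167, .ofNat 0, .ofNat 217, .ofNat 89, .ofNat 0, .ofNat 0, .ofNat 431, .ofNat 37884, .ofNat 1090688866984730866292875752827257883055806742528, .ofNat 0, .ofNat 3203883361304357837316740167679493537792, .ofNat 0, .ofNat 6535384951968109922629370324438541956070036733952, .ofNat 0, .ofNat 0, .ofNat 0, .ofNat 0, .ofNat 0, .ofNat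 0, .ofNat 0, .ofNat 6265598811170701388424849262706679627431555366912, .ofNat 0, .ofNat 50163569205414304317711364402719804620800, .ofNat 0⟩)
    (by decide +kernel)
theorem L02483 : Good (Phi V5.P V5.D (-1) (-1)) ⟨5, 25, 4, 6, 2, 2, 4, 1, 5, 5⟩ :=
  leafX_sound T5.ok_mm T5.Ymm.bz_eq (w := 231) (c := ⟨⟨.negSucc 3684, .negSucc 317, .ofNat 75, .negSucc 249, .negSucc 26, .ofNat 328⟩, ⟨.ofNat 1615, .ofNat 202, .ofNat 122, .ofNat 109, .ofNat 14, .negSucc 150⟩, ⟨.ofNat 2625, .ofNat 239, .negSucc 111, .ofNat 87, .negSucc 53, .negSucc 40⟩, ⟨.negSucc 6287, .negSucc 263, .ofNat 59, .negSucc 491, .negSucc 32, .ofNat 551⟩, ⟨.negSucc 857, .ofNat 68, .negSucc 64, .negSucc 204, .ofNat 14, .ofNat 86⟩, .ofNat 823, .ofNat 1060, .ofNat 0, .ofNat 1060, .ofNat 2482, .ofNat 0, .ofNat 128, .negSucc 348, .negSucc 193, .ofNat 0, .ofNat 205, .ofNat 98, .ofNat 0, .ofNat 0, .ofNat 444, .ofNat 10853,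 .ofNat 0, .ofNat 0, .ofNat 0, .ofNat 0, .ofNat 0, .ofNat 0, .ofNat 0, .ofNat 0, .ofNat 0, .ofNat 0, .ofNat 0, .ofNat 0, .ofNat 0, .ofNat 0, .ofNat 0, .ofNat 0⟩)
    (by decide +kernel)
theorem L02484 : Good (Phi V5.P V5.D (-1) (-1)) ⟨5, 25, 4, 6, 2, 2, 3, 1, 5, 5⟩ :=
  leafX_sound T5.ok_mm T5.Ymm.bz_eq (w := 226) (c := ⟨⟨.negSucc 3854, .negSucc 326, .ofNat 27, .ofNat 15, .ofNat 107, .ofNat 406⟩, ⟨.ofNat 1702, .ofNat 204, .ofNat 143, .negSucc 24, .negSucc 47, .negSucc 187⟩, ⟨.ofNat 2794, .ofNat 295, .negSucc 31, .negSucc 277, .negSucc 178, .negSucc 194⟩, ⟨.negSucc 6470, .negSucc 293, .ofNat 35, .negSucc 198, .ofNat 186, .ofNat 633⟩, ⟨.negSucc 668, .ofNat 43, .ofNat 50, .negSucc 471, .ofNat 35, .negSucc 14⟩, .ofNat 610, .ofNat 655, .ofNat 0, .ofNat 655, .ofNat 1636, .ofNat 0, .ofNat 128, .negSucc 205, .negSucc 165, .ofNat 0, .ofNat 131, .ofNat 83, .ofNat 0, .ofNat 0, .ofNat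 336, .ofNat 3924, .ofNat 0, .ofNat 0, .ofNat 0, .ofNat 0, .ofNat 0, .ofNat 0, .ofNat 0, .ofNat 0, .ofNat 0, .ofNat 0, .ofNat 0, .ofNat 0, .ofNat 0, .ofNat 0, .ofNat 0, .ofNat 0⟩)
    (by decide +kernel)
theorem L02485 : Good (Phi V5.P V5.D (-1) (-1)) ⟨5, 25, 4, 6, 2, 2, 3, 0, 4, 3⟩ :=
  leafX_sound T5.ok_mm T5.Ymm.bz_eq (w := 223) (c := ⟨⟨.negSucc 3768, .negSucc 140, .ofNat 32, .ofNat 206, .ofNat 34, .ofNat 921⟩, ⟨.ofNat 1669, .ofNat 105, .ofNat 129, .negSucc 114, .negSucc 10, .negSucc 432⟩, ⟨.ofNat 3215, .ofNat 138, .negSucc 97, .negSucc 320, .negSucc 420, .negSucc 469⟩, ⟨.negSucc 6294, .negSucc 48, .negSucc 0, .ofNat 112, .ofNat 47, .ofNat 1402⟩, ⟨.negSucc 627, .negSucc 6, .negSucc 31, .negSucc 436, .negSucc 27, .negSucc 82⟩, .ofNat 1060, .ofNat 1522, .ofNat 0, .ofNat 1522, .ofNat 3425, .ofNat 0, .ofNat 128, .negSucc 411, .negSucc 137, .ofNat 0, .ofNat 241, .ofNat 70,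 .ofNat 0, .ofNat 0, .ofNat 422, .ofNat 14132, .ofNat 3117151509511462882218731072026075185866080256, .ofNat 0, .ofNat 765034126445307637184649392723853312, .ofNat 0, .ofNat 0, .ofNat 0, .ofNat 0, .ofNat 0, .ofNat 0, .ofNat 0, .ofNat 0, .ofNat 0, .ofNat 38546764201612782485426085490698387339348017152, .ofNat 0, .ofNat 0, .ofNat 0⟩)
    (by decide +kernel)
theorem L02486 : Good (Phi V5.P V5.D (-1) (-1)) ⟨5, 25, 4, 6, 2, 2, 3, 1, 4, 3⟩ :=
  leafX_sound T5.ok_mm T5.Ymm.bz_eq (w := 221) (c := ⟨⟨.negSucc 3677, .negSucc 193, .ofNat 32, .ofNat 357, .ofNat 111, .ofNat 707⟩, ⟨.ofNat 1630, .ofNat 132, .ofNat 119, .negSucc 185, .negSucc 49, .negSucc 326⟩, ⟨.ofNat 2937, .ofNat 181, .negSucc 87, .negSucc 685, .negSucc 272, .negSucc 350⟩, ⟨.negSucc 6130, .negSucc 126, .ofNat 6, .ofNat 242, .ofNat 188, .ofNat 1124⟩, ⟨.negSucc 589, .ofNat 24, .negSucc 35, .negSucc 649, .ofNat 47, .ofNat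 7⟩, .ofNat 341, .ofNat 212, .ofNat 0, .ofNat 212, .ofNat 675, .ofNat 0, .ofNat 128, .negSucc 131, .negSucc 102, .ofNat 0, .ofNat 118, .ofNat 55, .ofNat 0, .ofNat 0, .ofNat 295, .ofNat 4156, .ofNat 0, .ofNat 0, .ofNat 0, .ofNat 0, .ofNat 0, .ofNat 0, .ofNat 0, .ofNat 0, .ofNat 0, .ofNat 0, .ofNat 0, .ofNat 0, .ofNat 0, .ofNat 0, .ofNat 0, .ofNat 0⟩)
    (by decide +kernel)
theorem L02487 : Good (Phi V5.P V5.D (-1) (-1)) ⟨5, 25, 4, 6, 4, 12, 5, 0, 5, 4⟩ :=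
  leafX_sound T5.ok_mm T5.Ymm.bz_eq (w := 266) (c := ⟨⟨.negSucc 4308, .negSucc 812, .ofNat 286, .negSucc 81, .negSucc 63, .ofNat 600⟩, ⟨.ofNat 1877, .ofNat 488, .ofNat 20, .ofNat 56, .ofNat 42, .negSucc 295⟩, ⟨.ofNat 3127, .ofNat 642, .negSucc 334, .ofNat 553, .negSucc 68, .negSucc 304⟩, ⟨.negSucc 7315, .negSucc 807, .ofNat 344, .ofNat 39, .negSucc 61, .ofNat 852⟩, ⟨.negSucc 866, .ofNat 440, .negSucc 174, .ofNat 355, .ofNat 44, .negSucc 150⟩, .ofNat 1065, .ofNat 1533, .ofNat 0, .ofNat 1533, .ofNat 3452, .ofNat 0, .ofNat 128, .negSucc 712, .negSucc 697, .ofNat 0, .ofNat 404, .ofNat 355, .ofNat 0, .ofNat 0, .ofNat 1110, .ofNat 116181, .ofNat 773518995691804187630596847070314476790117932924999303168, .ofNat 0, .ofNat 0, .ofNat 0, .ofNat 1771187477605547472766927391374812657359586227355700428800, .ofNat 0, .ofNat 0, .ofNat 0, .ofNat 0, .ofNat 0, .ofNat 0, .ofNat 0, .ofNat 0,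 .ofNat 0, .ofNat 0, .ofNat 0⟩)
    (by decide +kernel)
theorem L02488 : Good (Phi V5.P V5.D (-1) (-1)) ⟨5, 25, 4, 6, 4, 12, 5, 1, 5, 4⟩ :=
  leafX_sound T5.ok_mm T5.Ymm.bz_eq (w := 265) (c := ⟨⟨.negSucc 4438, .negSucc 735, .ofNat 293, .ofNat 95, .ofNat 72, .ofNat 470⟩, ⟨.ofNat 1955, .ofNat 439, .ofNat 18, .negSucc 38, .negSucc 35, .negSucc 224⟩, ⟨.ofNat 3131, .ofNat 595, .negSucc 344, .ofNat 332, .negSucc 142, .negSucc 196⟩, ⟨.negSucc 7442, .negSucc 713, .ofNat 328, .ofNat 226, .ofNat 73, .ofNat 668⟩, ⟨.negSucc 764, .ofNat 425, .negSucc 244, .ofNat 185, .negSucc 84, .negSucc 136⟩, .ofNat 611, .ofNat 655, .ofNat 0, .ofNat 655, .ofNat 1634, .ofNat 0, .ofNat 128, .negSucc 577, .negSucc 568, .ofNat 0, .ofNat 362, .ofNat 297, .ofNat 0, .ofNat 0, .ofNat 919, .ofNat 34171, .ofNat 45298677265836720658670169656937934109149996280178540544, .ofNat 0, .ofNat 7475159547271128682333279413653268369704862351360,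 .ofNat 0, .ofNat 43276768540148037159159339401078256858659038865056071680, .ofNat 0, .ofNat 0, .ofNat 0, .ofNat 0, .ofNat 0, .ofNat 0, .ofNat 0, .ofNat 0, .ofNat 0, .ofNat 0, .ofNat 0⟩)
    (by decide +kernel)
theorem L02489 : Good (Phi V5.P V5.D (-1) (-1)) ⟨5, 25, 4, 6, 4, 12, 4, 1, 5, 4⟩ :=
  leafX_sound T5.ok_mm T5.Ymm.bz_eq (w := 259) (c := ⟨⟨.negSucc 4345, .negSucc 714, .ofNat 346, .ofNat 160, .ofNat 136, .ofNat 362⟩, ⟨.ofNat 1912, .ofNat 416, .negSucc 5, .negSucc 72, .negSucc 68, .negSucc 167⟩, ⟨.ofNat 3015, .ofNat 545, .negSucc 329, .ofNat 204, .negSucc 245, .negSucc 131⟩, ⟨.negSucc 7328, .negSucc 736, .ofNat 418, .ofNat 278, .ofNat 135, .ofNat 553⟩, ⟨.negSucc 839, .ofNat 319, .negSucc 201, .ofNat 72, .negSucc 177, .negSucc 16⟩, .ofNat 614, .ofNat 664, .ofNat 0, .ofNat 664, .ofNat 1664, .ofNat 0, .ofNat 128, .negSucc 514, .negSucc 628, .ofNat 0, .ofNat 318, .ofNat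 321, .ofNat 0, .ofNat 0, .ofNat 966, .ofNat 9915, .ofNat 0, .ofNat 0, .ofNat 0, .ofNat 0, .ofNat 0, .ofNat 0, .ofNat 0, .ofNat 0, .ofNat 0, .ofNat 0, .ofNat 0, .ofNat 0, .ofNat 0, .ofNat 0, .ofNat 0, .ofNat 0⟩)
    (by decide +kernel)
theorem L02490 : Good (Phi V5.P V5.D (-1) (-1)) ⟨5, 25, 4, 6, 4, 13, 5, 0, 5, 4⟩ :=
  leafX_sound T5.ok_mm T5.Ymm.bz_eq (w := 266) (c := ⟨⟨.negSucc 4798, .negSucc 667, .ofNat 341, .ofNat 225, .ofNat 232, .ofNat 748⟩, ⟨.ofNat 2152, .ofNat 415, .negSucc 14, .negSucc 102, .negSucc 124, .negSucc 364⟩, ⟨.ofNat 4099, .ofNat 582, .negSucc 368, .ofNat 173, .negSucc 375, .negSucc 534⟩, ⟨.negSucc 7696, .negSucc 610, .ofNat 401, .ofNat 362, .ofNat 230, .ofNat 982⟩, ⟨.negSucc 90, .ofNat 416, .negSucc 260, .ofNat 21, .negSucc 281, .negSucc 395⟩, .ofNat 638, .ofNat 710, .ofNat 0, .ofNat 710, .ofNat 1739, .ofNat 0, .ofNat 128, .negSucc 382, .negSucc 442,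 .ofNat 0, .ofNat 252, .ofNat 229, .ofNat 0, .ofNat 0, .ofNat 787, .ofNat 102946, .ofNat 595085800227285465305319454657050703977751454433673216000, .ofNat 0, .ofNat 0, .ofNat 0, .ofNat 0, .ofNat 0, .ofNat 0, .ofNat 0, .ofNat 114610474491337600851423536754885258296273426341982896128, .ofNat 0, .ofNat 0, .ofNat 0, .ofNat 0, .ofNat 0, .ofNat 0, .ofNat 0⟩)
    (by decide +kernel)
theorem L02491 : Good (Phi V5.P V5.D (-1) (-1)) ⟨5, 25, 4, 6, 4, 13, 5, 1, 5, 4⟩ :=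
  leafX_sound T5.ok_mm T5.Ymm.bz_eq (w := 265) (c := ⟨⟨.negSucc 4578, .negSucc 646, .ofNat 317, .ofNat 272, .ofNat 175, .ofNat 691⟩, ⟨.ofNat 2039, .ofNat 395, .negSucc 3, .negSucc 125, .negSucc 91, .negSucc 333⟩, ⟨.ofNat 3747, .ofNat 550, .negSucc 345, .ofNat 102, .negSucc 293, .negSucc 497⟩, ⟨.negSucc 7493, .negSucc 620, .ofNat 374, .ofNat 433, .ofNat 179, .ofNat 961⟩, ⟨.negSucc 412, .ofNat 344, .negSucc 230, .ofNat 19, .negSucc 195, .negSucc 242⟩, .ofNat 823, .ofNat 1058, .ofNat 0, .ofNat 1058, .ofNat 2472, .ofNat 0, .ofNat 128, .negSucc 537, .negSucc 612, .ofNat 0, .ofNat 330, .ofNat 309, .ofNat 0, .ofNat 0, .ofNat 1021, .ofNat 51102, .ofNat 0, .ofNat 0, .ofNat 0, .ofNat 0, .ofNat 0, .ofNat 0, .ofNat 47949708224860080285329976151555452688627732054016, .ofNat 0, .ofNat 0, .ofNat 0, .ofNat 0, .ofNat 0, .ofNat 0, .ofNat 0, .ofNat 0, .ofNat 0⟩)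
    (by decide +kernel)
theorem L02492 : Good (Phi V5.P V5.D (-1) (-1)) ⟨5, 25, 4, 6, 4, 13, 4, 1, 5, 4⟩ :=
  leafX_sound T5.ok_mm T5.Ymm.bz_eq (w := 260) (c := ⟨⟨.negSucc 4428, .negSucc 571, .ofNat 247, .ofNat 342, .ofNat 257, .ofNat 606⟩, ⟨.ofNat 1965, .ofNat 343, .ofNat 40, .negSucc 162, .negSucc 130, .negSucc 290⟩, ⟨.ofNat 3494, .ofNat 459, .negSucc 232, .ofNat 7, .negSucc 435, .negSucc 440⟩, ⟨.negSucc 7328, .negSucc 562, .ofNat 295, .ofNat 513, .ofNat 258, .ofNat 843⟩, ⟨.negSucc 574, .ofNat 254, .negSucc 155, .negSucc 35, .negSucc 310, .negSucc 218⟩, .ofNat 612, .ofNat 658, .ofNat 0, .ofNat 658, .ofNat 1644, .ofNat 0, .ofNat 128, .negSucc 540, .negSucc 504, .ofNat 0, .ofNat 354, .ofNat 254, .ofNat 0, .ofNat 0, .ofNat 783, .ofNat 18178, .ofNat 0, .ofNat 0, .ofNat 0, .ofNat 0, .ofNat 0, .ofNat 0, .ofNat 5766007727952868403368471543160797838178825273344, .ofNat 0, .ofNat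 0, .ofNat 0, .ofNat 0, .ofNat 0, .ofNat 0, .ofNat 0, .ofNat 0, .ofNat 0⟩)
    (by decide +kernel)
theorem L02493 : Good (Phi V5.P V5.D (-1) (-1)) ⟨5, 25, 4, 6, 3, 6, 5, 0, 5, 5⟩ :=
  leafX_sound T5.ok_mm T5.Ymm.bz_eq (w := 253) (c := ⟨⟨.negSucc 4411, .negSucc 340, .ofNat 168, .ofNat 674, .ofNat 72, .ofNat 735⟩, ⟨.ofNat 1972, .ofNat 219, .ofNat 67, .negSucc 318, .negSucc 41, .negSucc 356⟩, ⟨.ofNat 3763, .ofNat 314, .negSucc 200, .negSucc 146, .negSucc 255, .negSucc 608⟩, ⟨.negSucc 7247, .negSucc 269, .ofNat 194, .ofNat 992, .ofNat 62, .ofNat 947⟩, ⟨.negSucc 492, .ofNat 157, .negSucc 108, .negSucc 139, .negSucc 90, .negSucc 459⟩, .ofNat 340, .ofNat 212, .ofNat 0, .ofNat 212, .ofNat 671, .ofNat 0, .ofNat 128, .negSucc 312, .negSucc 234, .ofNat 0, .ofNat 292, .ofNat 127, .ofNat 0, .ofNat 0, .ofNat 484, .ofNat 185143, .ofNat 313081791266677848403895203345569178517590202946420736,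 .ofNat 0, .ofNat 0, .ofNat 0, .ofNat 53454360850130114897179144047941681849868528815964160, .ofNat 0, .ofNat 6823886510566423015189191400442670649054330880, .ofNat 0, .ofNat 0, .ofNat 0, .ofNat 0, .ofNat 0, .ofNat 762287780093192179913198859911975365141864734936530944, .ofNat 0, .ofNat 2971968849038855334130806744935561097054781440, .ofNat 0⟩)
    (by decide +kernel)
theorem L02494 : Good (Phi V5.P V5.D (-1) (-1)) ⟨5, 25, 4, 6, 3, 6, 5, 1, 5, 5⟩ :=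
  leafX_sound T5.ok_mm T5.Ymm.bz_eq (w := 252) (c := ⟨⟨.negSucc 4206, .negSucc 341, .ofNat 170, .ofNat 576, .ofNat 69, .ofNat 664⟩, ⟨.ofNat 1866, .ofNat 216, .ofNat 66, .negSucc 271, .negSucc 33, .negSucc 322⟩, ⟨.ofNat 3270, .ofNat 318, .negSucc 251, .ofNat 23, .negSucc 212, .negSucc 427⟩, ⟨.negSucc 7034, .negSucc 276, .ofNat 182, .ofNat 869, .ofNat 70, .ofNat 895⟩, ⟨.negSucc 723, .ofNat 144, .negSucc 113, .negSucc 59, .negSucc 89, .negSucc 306⟩, .ofNat 613, .ofNat 661, .ofNat 0, .ofNat 661, .ofNat 1651, .ofNat 0, .ofNat 128, .negSucc 548, .negSucc 426, .ofNat 0, .ofNat 372, .ofNat 222, .ofNat 0, .ofNat 0, .ofNat 972, .ofNat 102852, .ofNat 31446537922762712298231871975227692898171420038660096, .ofNat 0, .ofNat 901110851518884515933403067414511048577777664, .ofNat 0, .ofNat 33635168043633915798311224497234285465892835819520, .ofNat 0, .ofNat 24346191643994856393423067178227088034172502016,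 .ofNat 0, .ofNat 0, .ofNat 0, .ofNat 0, .ofNat 0, .ofNat 27067615473341099364510203182524771627377053805838336, .ofNat 0, .ofNat 0, .ofNat 0⟩)
    (by decide +kernel)
theorem L02495 : Good (Phi V5.P V5.D (-1) (-1)) ⟨5, 25, 4, 6, 3, 6, 4, 1, 5, 5⟩ :=
  leafX_sound T5.ok_mm T5.Ymm.bz_eq (w := 247) (c := ⟨⟨.negSucc 4133, .negSucc 336, .ofNat 170, .ofNat 633, .ofNat 131, .ofNat 614⟩, ⟨.ofNat 1831, .ofNat 208, .ofNat 65, .negSucc 300, .negSucc 66, .negSucc 292⟩, ⟨.ofNat 3110, .ofNat 296, .negSucc 220, .negSucc 122, .negSucc 320, .negSucc 407⟩, ⟨.negSucc 6959, .negSucc 288, .ofNat 182, .ofNat 927, .ofNat 142, .ofNat 858⟩, ⟨.negSucc 813, .ofNat 107, .negSucc 83, .negSucc 131, .negSucc 134, .negSucc 228⟩, .ofNat 610, .ofNat 654, .ofNat 0, .ofNat 654, .ofNat 1635, .ofNat 0, .ofNat 128, .negSucc 471, .negSucc 396, .ofNat 0, .ofNat 319, .ofNat 204, .ofNat 0, .ofNat 0, .ofNat 849, .ofNat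 36573, .ofNat 0, .ofNat 0, .ofNat 0, .ofNat 0, .ofNat 0, .ofNat 0, .ofNat 662702432721965019794426149175622188941705216, .ofNat 0, .ofNat 0, .ofNat 0, .ofNat 0, .ofNat 0, .ofNat 0, .ofNat 0, .ofNat 0, .ofNat 0⟩)
    (by decide +kernel)
theorem L02496 : Good (Phi V5.P V5.D (-1) (-1)) ⟨5, 25, 4, 6, 3, 6, 3, 0, 4, 3⟩ :=
  leafX_sound T5.ok_mm T5.Ymm.bz_eq (w := 237) (c := ⟨⟨.negSucc 3561, .negSucc 126, .ofNat 87, .ofNat 555, .ofNat 178, .ofNat 794⟩, ⟨.ofNat 1566, .ofNat 72, .ofNat 95, .negSucc 260, .negSucc 77, .negSucc 369⟩, ⟨.ofNat 3076, .ofNat 107, .negSucc 98, .negSucc 312, .negSucc 572, .negSucc 577⟩, ⟨.negSucc 6157, .negSucc 82, .ofNat 76, .ofNat 799, .ofNat 250, .ofNat 1209⟩, ⟨.negSucc 1035, .negSucc 30, .negSucc 31, .negSucc 159, .negSucc 105, .negSucc 97⟩, .ofNat 610, .ofNat 654, .ofNat 0, .ofNat 654, .ofNat 1634, .ofNat 0, .ofNat 128, .negSucc 296, .negSucc 139, .ofNat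 0, .ofNat 216, .ofNat 72, .ofNat 0, .ofNat 0, .ofNat 519, .ofNat 14627, .ofNat 0, .ofNat 0, .ofNat 0, .ofNat 0, .ofNat 0, .ofNat 0, .ofNat 0, .ofNat 0, .ofNat 0, .ofNat 0, .ofNat 0, .ofNat 0, .ofNat 179608258267094497645986680605551477170373195202560, .ofNat 0, .ofNat 0, .ofNat 0⟩)
    (by decide +kernel)
theorem L02497 : Good (Phi V5.P V5.D (-1) (-1)) ⟨5, 25, 4, 6, 3, 7, 3, 0, 4, 2⟩ :=
  leafX_sound T5.ok_mm T5.Ymm.bz_eq (w := 236) (c := ⟨⟨.negSucc 4304, .negSucc 203, .ofNat 166, .ofNat 695, .ofNat 327, .ofNat 1130⟩, ⟨.ofNat 1922, .ofNat 147, .ofNat 44, .negSucc 298, .negSucc 164, .negSucc 535⟩, ⟨.ofNat 3908, .ofNat 86, .ofNat 5, .negSucc 1122, .negSucc 657, .negSucc 717⟩, ⟨.negSucc 7077, .negSucc 189, .ofNat 164, .ofNat 1383, .ofNat 376, .ofNat 1564⟩, ⟨.negSucc 495, .negSucc 118, .negSucc 106, .ofNat 630, .negSucc 285, .negSucc 458⟩, .ofNat 1071, .ofNat 1547, .ofNat 0,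 .ofNat 1547, .ofNat 3485, .ofNat 0, .ofNat 128, .negSucc 529, .negSucc 366, .ofNat 0, .ofNat 334, .ofNat 166, .ofNat 0, .ofNat 0, .ofNat 854, .ofNat 4295, .ofNat 0, .ofNat 0, .ofNat 0, .ofNat 0, .ofNat 0, .ofNat 0, .ofNat 92088131990800628777160144822591635324928, .ofNat 0, .ofNat 0, .ofNat 0, .ofNat 0, .ofNat 0, .ofNat 0, .ofNat 0, .ofNat 0, .ofNat 0⟩)
    (by decide +kernel)
theorem L02498 : Good (Phi V5.P V5.D (-1) (-1)) ⟨5, 25, 4, 6, 3, 7, 3, 0, 4, 3⟩ :=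
  leafX_sound T5.ok_mm T5.Ymm.bz_eq (w := 236) (c := ⟨⟨.negSucc 2961, .negSucc 46, .ofNat 68, .ofNat 459, .ofNat 211, .ofNat 657⟩, ⟨.ofNat 1292, .ofNat 26, .ofNat 92, .negSucc 187, .negSucc 101, .negSucc 302⟩, ⟨.ofNat 2903, .ofNat 24, .negSucc 47, .negSucc 666, .negSucc 611, .negSucc 625⟩, ⟨.negSucc 5330, .ofNat 6, .ofNat 90, .ofNat 1056, .ofNat 287, .ofNat 1018⟩, ⟨.negSucc 1351, .negSucc 43, .ofNat 39, .ofNat 711, .negSucc 102, .negSucc 28⟩, .ofNat 638, .ofNat 710, .ofNat 0, .ofNat 710, .ofNat 1739, .ofNat 0, .ofNat 128, .negSucc 280, .negSucc 189, .ofNat 0, .ofNat 228, .ofNat 75, .ofNat 0, .ofNat 0, .ofNat 923, .ofNat 9632, .ofNat 0, .ofNat 0, .ofNat 0, .ofNat 0, .ofNat 0, .ofNat 0, .ofNat 0, .ofNat 0, .ofNat 0, .ofNat 0, .ofNat 0, .ofNat 0, .ofNat 0, .ofNat 0, .ofNat 0, .ofNat 0⟩)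
    (by decide +kernel)
theorem L02499 : Good (Phi V5.P V5.D (-1) (-1)) ⟨5, 25, 4, 6, 3, 6, 3, 1, 4, 2⟩ :=
  leafX_sound T5.ok_mm T5.Ymm.bz_eq (w := 236) (c := ⟨⟨.negSucc 4526, .negSucc 344, .ofNat 146, .ofNat 757, .ofNat 346, .ofNat 1056⟩, ⟨.ofNat 2017, .ofNat 199, .ofNat 97, .negSucc 362, .negSucc 172, .negSucc 500⟩, ⟨.ofNat 3228, .ofNat 219, .negSucc 128, .negSucc 284, .negSucc 533, .negSucc 746⟩, ⟨.negSucc 7580, .negSucc 346, .ofNat 179, .ofNat 1091, .ofNat 421, .ofNat 1546⟩, ⟨.negSucc 875, .ofNat 92, .negSucc 82, .negSucc 188, .negSucc 273, .negSucc 186⟩, .ofNat 638, .ofNat 710, .ofNat 0, .ofNat 710, .ofNat 1739, .ofNat 0, .ofNat 128, .negSucc 316, .negSucc 417, .ofNat 0, .ofNat 200, .ofNat 209, .ofNat 0, .ofNat 0, .ofNat 656, .ofNat 4412, .ofNat 0, .ofNat 0, .ofNat 0, .ofNat 0, .ofNat 0, .ofNat 0, .ofNat 505872055773503319506187702941328559046656, .ofNat 0, .ofNat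 0, .ofNat 0, .ofNat 201685874088823099734656822454083548872704, .ofNat 0, .ofNat 0, .ofNat 0, .ofNat 1908883099940304811736431711338219888967680, .ofNat 0⟩)
    (by decide +kernel)
theorem L02500 : Good (Phi V5.P V5.D (-1) (-1)) ⟨5, 25, 4, 6, 3, 7, 3, 1, 4, 2⟩ :=
  leafX_sound T5.ok_mm T5.Ymm.bz_eq (w := 235) (c := ⟨⟨.negSucc 3765, .negSucc 155, .ofNat 139, .ofNat 614, .ofNat 369, .ofNat 925⟩, ⟨.ofNat 1665, .ofNat 89, .ofNat 63, .negSucc 267, .negSucc 182, .negSucc 432⟩, ⟨.ofNat 2963, .ofNat 136, .negSucc 66, .negSucc 639, .negSucc 517, .negSucc 739⟩, ⟨.negSucc 6505, .negSucc 151, .ofNat 162, .ofNat 1218, .ofNat 443, .ofNat 1411⟩, ⟨.negSucc 1120, .negSucc 77, .negSucc 39, .ofNat 528, .negSucc 308, .negSucc 87⟩, .ofNat 616, .ofNat 666, .ofNat 0, .ofNat 666, .ofNat 1651, .ofNat 0, .ofNat 128, .negSucc 334, .negSucc 259, .ofNat 0, .ofNat 237, .ofNat 111, .ofNat 0, .ofNat 0,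 .ofNat 509, .ofNat 3475, .ofNat 0, .ofNat 0, .ofNat 0, .ofNat 0, .ofNat 0, .ofNat 0, .ofNat 120099667686766091691664182033229534986240, .ofNat 0, .ofNat 0, .ofNat 0, .ofNat 0, .ofNat 0, .ofNat 0, .ofNat 0, .ofNat 0, .ofNat 0⟩)
    (by decide +kernel)
theorem L02501 : Good (Phi V5.P V5.D (-1) (-1)) ⟨5, 25, 4, 6, 2, 3, 3, 1, 4, 3⟩ :=
  leafX_sound T5.ok_mm T5.Ymm.bz_eq (w := 221) (c := ⟨⟨.negSucc 3303, .negSucc 95, .ofNat 76, .ofNat 1068, .ofNat 220, .ofNat 645⟩, ⟨.ofNat 1448, .ofNat 49, .ofNat 94, .negSucc 482, .negSucc 101, .negSucc 296⟩, ⟨.ofNat 2531, .ofNat 67, .negSucc 43, .negSucc 879, .negSucc 466, .negSucc 522⟩, ⟨.negSucc 5879, .negSucc 82, .ofNat 90, .ofNat 1859, .ofNat 348, .ofNat 1031⟩, ⟨.negSucc 1360, .negSucc 100, .ofNat 28, .ofNat 369, .ofNat 16, .ofNat 14⟩, .ofNat 612, .ofNat 659, .ofNat 0, .ofNat 659, .ofNat 1647, .ofNat 0, .ofNat 128, .negSucc 265, .negSucc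 79, .ofNat 0, .ofNat 206, .ofNat 35, .ofNat 0, .ofNat 0, .ofNat 348, .ofNat 3311, .ofNat 0, .ofNat 0, .ofNat 0, .ofNat 0, .ofNat 0, .ofNat 0, .ofNat 0, .ofNat 0, .ofNat 0, .ofNat 0, .ofNat 0, .ofNat 0, .ofNat 0, .ofNat 0, .ofNat 40218949655862833238223836120535269376, .ofNat 0⟩)
    (by decide +kernel)
theorem L02502 : Good (Phi V5.P V5.D (-1) (-1)) ⟨5, 26, 4, 6, 2, 2, 5, 0, 5, 4⟩ :=
  leafX_sound T5.ok_mm T5.Ymm.bz_eq (w := 239) (c := ⟨⟨.negSucc 3852, .negSucc 1231, .ofNat 295, .negSucc 1513, .ofNat 184, .ofNat 373⟩, ⟨.ofNat 1623, .ofNat 759, .ofNat 29, .ofNat 873, .negSucc 94, .negSucc 193⟩, ⟨.ofNat 1238, .ofNat 835, .negSucc 326, .ofNat 2645, .negSucc 220, .ofNat 30⟩, ⟨.negSucc 7075, .negSucc 1197, .ofNat 339, .negSucc 1271, .ofNat 184, .ofNat 578⟩, ⟨.negSucc 2228, .ofNat 762, .negSucc 213, .ofNat 2123, .negSucc 235, .ofNat 47⟩, .ofNat 911, .ofNat 1139, .ofNat 0, .ofNat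 1139, .ofNat 2404, .ofNat 0, .ofNat 128, .negSucc 552, .negSucc 413, .ofNat 0, .ofNat 338, .ofNat 234, .ofNat 0, .ofNat 0, .ofNat 742, .ofNat 219737, .ofNat 105555479304177895853367575801844581416234444128256, .ofNat 0, .ofNat 72211576016738196973919517895449561268224, .ofNat 0, .ofNat 226824265226187807878717820372694053223053175816192, .ofNat 0, .ofNat 430482591718572065890321128066928460431360, .ofNat 0, .ofNat 544926007797072058254634164326489589169021752705024, .ofNat 0, .ofNat 4902169886596880577987591794663099138572288, .ofNat 0, .ofNat 617636596451973709846597182872109668197853934125056, .ofNat 0, .ofNat 2165743088301917066097248956384628770340864, .ofNat 0⟩)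
    (by decide +kernel)
theorem L02503 : Good (Phi V5.P V5.D (-1) (-1)) ⟨5, 26, 4, 6, 2, 2, 5, 1, 5, 4⟩ :=
  leafX_sound T5.ok_mm T5.Ymm.bz_eq (w := 236) (c := ⟨⟨.negSucc 3676, .negSucc 675, .ofNat 157, .negSucc 1245, .negSucc 11, .ofNat 74⟩, ⟨.ofNat 1608, .ofNat 417, .ofNat 97, .ofNat 655, .ofNat 8, .negSucc 22⟩, ⟨.ofNat 2284, .ofNat 457, .negSucc 183, .ofNat 964, .negSucc 5, .ofNat 242⟩, ⟨.negSucc 6292, .negSucc 692, .ofNat 183, .negSucc 1654, .negSucc 22, .ofNat 244⟩, ⟨.negSucc 1218, .ofNat 198, .negSucc 72, .ofNat 476, .negSucc 26, .ofNat 258⟩, .ofNat 809, .ofNat 973, .ofNat 0, .ofNat 973, .ofNat 2109, .ofNat 0, .ofNat 128, .negSucc 507, .negSucc 431, .ofNat 0, .ofNat 311, .ofNat 239, .ofNat 0, .ofNat 0, .ofNat 728, .ofNat 27439, .ofNat 4951889519824678959117805504968676716480433225728, .ofNat 0, .ofNat 0, .ofNat 0, .ofNat 5111493277963763016354973526511009693628270379008,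 .ofNat 0, .ofNat 1851192972764779741396553505447827665321984, .ofNat 0, .ofNat 0, .ofNat 0, .ofNat 7306992125260749838105918302999852273893376, .ofNat 0, .ofNat 0, .ofNat 0, .ofNat 3372804868384966176941892032196961640644608, .ofNat 0⟩)
    (by decide +kernel)
theorem L02504 : Good (Phi V5.P V5.D (-1) (-1)) ⟨5, 26, 4, 6, 2, 2, 4, 1, 5, 4⟩ :=
  leafX_sound T5.ok_mm T5.Ymm.bz_eq (w := 232) (c := ⟨⟨.negSucc 3821, .negSucc 577, .ofNat 12, .negSucc 1017, .negSucc 20, .ofNat 181⟩, ⟨.ofNat 1701, .ofNat 372, .ofNat 163, .ofNat 527, .ofNat 10, .negSucc 81⟩, ⟨.ofNat 2384, .ofNat 493, .negSucc 95, .ofNat 750, .negSucc 16, .ofNat 139⟩, ⟨.negSucc 6438, .negSucc 525, .negSucc 48, .negSucc 1380, .negSucc 35, .ofNat 365⟩, ⟨.negSucc 1100, .ofNat 234, .negSucc 88, .ofNat 324, .negSucc 8, .ofNat 194⟩, .ofNat 1309, .ofNat 1882, .ofNat 0, .ofNat 1882, .ofNat 3832, .ofNat 0, .ofNat 128, .negSucc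 569, .negSucc 515, .ofNat 0, .ofNat 338, .ofNat 280, .ofNat 0, .ofNat 0, .ofNat 845, .ofNat 9993, .ofNat 0, .ofNat 0, .ofNat 0, .ofNat 0, .ofNat 0, .ofNat 0, .ofNat 139216820666542524528841484048898927362048, .ofNat 0, .ofNat 0, .ofNat 0, .ofNat 521984749479548879558350099172898149236736, .ofNat 0, .ofNat 0, .ofNat 0, .ofNat 211253764839963040167005136160547340812288, .ofNat 0⟩)
    (by decide +kernel)
theorem L02505 : Good (Phi V5.P V5.D (-1) (-1)) ⟨5, 26, 4, 6, 2, 2, 4, 0, 5, 5⟩ :=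
  leafX_sound T5.ok_mm T5.Ymm.bz_eq (w := 232) (c := ⟨⟨.negSucc 4116, .negSucc 483, .ofNat 116, .negSucc 446, .negSucc 52, .ofNat 819⟩, ⟨.ofNat 1842, .ofNat 317, .ofNat 106, .ofNat 254, .ofNat 35, .negSucc 429⟩, ⟨.ofNat 2712, .ofNat 366, .negSucc 189, .ofNat 758, .negSucc 109, .negSucc 369⟩, ⟨.negSucc 6900, .negSucc 421, .ofNat 115, .negSucc 444, .negSucc 52, .ofNat 1084⟩, ⟨.negSucc 1107, .ofNat 177, .negSucc 78, .ofNat 465, .ofNat 33, .negSucc 306⟩, .ofNat 803, .ofNat 962, .ofNat 0, .ofNat 962, .ofNat 2089, .ofNat 0, .ofNat 128, .negSucc 384, .negSucc 207, .ofNat 0, .ofNat 246, .ofNat 117, .ofNat 0, .ofNat 0, .ofNat 410, .ofNat 29176, .ofNat 844273457347287107516722564942629452527549022208, .ofNat 0, .ofNat 1556166638107853502754434579859914096640, .ofNat 0, .ofNat 0, .ofNat 0, .ofNat 89402774418597827987087523907430047023104, .ofNat 0, .ofNat 0, .ofNat 0, .ofNat 0, .ofNat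 0, .ofNat 7856659119694677691565609081902776721470792925184, .ofNat 0, .ofNat 60792061623337433239799271638192686628864, .ofNat 0⟩)
    (by decide +kernel)
theorem L02506 : Good (Phi V5.P V5.D (-1) (-1)) ⟨5, 26, 4, 6, 2, 2, 4, 1, 5, 5⟩ :=
  leafX_sound T5.ok_mm T5.Ymm.bz_eq (w := 232) (c := ⟨⟨.negSucc 4104, .negSucc 381, .ofNat 87, .negSucc 268, .negSucc 7, .ofNat 447⟩, ⟨.ofNat 1870, .ofNat 253, .ofNat 117, .ofNat 125, .ofNat 5, .negSucc 221⟩, ⟨.ofNat 2987, .ofNat 309, .negSucc 143, .ofNat 70, .negSucc 83, .negSucc 119⟩, ⟨.negSucc 6646, .negSucc 330, .ofNat 71, .negSucc 510, .negSucc 3, .ofNat 662⟩, ⟨.negSucc 657, .ofNat 79, .negSucc 81, .negSucc 209, .ofNat 14, .negSucc 44⟩, .ofNat 911, .ofNat 1139, .ofNat 0, .ofNat 1139, .ofNat 2404, .ofNat 0, .ofNat 128, .negSucc 432, .negSucc 393, .ofNat 0, .ofNat 275, .ofNat 220, .ofNat 0, .ofNat 0, .ofNat 800, .ofNat 15774, .ofNat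 0, .ofNat 0, .ofNat 0, .ofNat 0, .ofNat 0, .ofNat 0, .ofNat 89335381235245554608962808231279588278272, .ofNat 0, .ofNat 0, .ofNat 0, .ofNat 352016921575927386878204366841319228702720, .ofNat 0, .ofNat 0, .ofNat 0, .ofNat 181016498662705584099449939641377090437120, .ofNat 0⟩)
    (by decide +kernel)
theorem L02507 : Good (Phi V5.P V5.D (-1) (-1)) ⟨5, 26, 4, 6, 2, 2, 3, 0, 4, 3⟩ :=
  leafX_sound T5.ok_mm T5.Ymm.bz_eq (w := 223) (c := ⟨⟨.negSucc 3992, .negSucc 140, .ofNat 40, .ofNat 224, .ofNat 43, .ofNat 995⟩, ⟨.ofNat 1846, .ofNat 109, .ofNat 124, .negSucc 143, .negSucc 21, .negSucc 502⟩, ⟨.ofNat 3467, .ofNat 162, .negSucc 140, .negSucc 482, .negSucc 371, .negSucc 489⟩, ⟨.negSucc 6374, .negSucc 50, .ofNat 23, .ofNat 70, .ofNat 38, .ofNat 1457⟩, ⟨.negSucc 533, .negSucc 21, .negSucc 13, .negSucc 529, .negSucc 39, .negSucc 104⟩, .ofNat 1000, .ofNat 1314, .ofNat 0, .ofNat 1314,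 .ofNat 2755, .ofNat 0, .ofNat 128, .negSucc 337, .negSucc 131, .ofNat 0, .ofNat 218, .ofNat 73, .ofNat 0, .ofNat 0, .ofNat 396, .ofNat 15518, .ofNat 3259182534729792679779199836943624299616403456, .ofNat 0, .ofNat 0, .ofNat 0, .ofNat 0, .ofNat 0, .ofNat 209728044624313060091511312493511180288, .ofNat 0, .ofNat 0, .ofNat 0, .ofNat 312020336252566953212931190198527590400, .ofNat 0, .ofNat 22726829838956674251726343396126709271456907264, .ofNat 0, .ofNat 73767100130635982716611343998590648320, .ofNat 0⟩)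
    (by decide +kernel)
theorem L02508 : Good (Phi V5.P V5.D (-1) (-1)) ⟨5, 26, 4, 6, 4, 12, 5, 0, 5, 4⟩ :=
  leafX_sound T5.ok_mm T5.Ymm.bz_eq (w := 267) (c := ⟨⟨.negSucc 5535, .negSucc 1058, .ofNat 410, .negSucc 20, .ofNat 106, .ofNat 1053⟩, ⟨.ofNat 2596, .ofNat 677, .negSucc 44, .ofNat 31, .negSucc 56, .negSucc 564⟩, ⟨.ofNat 3991, .ofNat 801, .negSucc 431, .ofNat 539, .negSucc 144, .negSucc 595⟩, ⟨.negSucc 8535, .negSucc 980, .ofNat 468, .ofNat 150, .ofNat 98, .ofNat 1286⟩, ⟨.ofNat 115, .ofNat 710, .negSucc 319, .ofNat 359, .negSucc 263, .negSucc 569⟩, .ofNat 605, .ofNat 619, .ofNat 0, .ofNat 619, .ofNat 1438, .ofNat 0, .ofNat 128, .negSucc 474, .negSucc 597, .ofNat 0, .ofNat 314, .ofNat 341, .ofNat 0, .ofNat 0, .ofNat 809, .ofNat 185540, .ofNat 1193640173592800923156292199358392264620828972455133446144, .ofNat 0, .ofNat 64130587026187084106073700897872442327634634866688,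 .ofNat 0, .ofNat 433864795246127742869793876544525917852257852739379265536, .ofNat 0, .ofNat 252651539524156619876749309123859539518897843601408, .ofNat 0, .ofNat 1738063836715550125286939300638265394397253919591530233856, .ofNat 0, .ofNat 1573492705618990516023812042768502269605584807395328, .ofNat 0, .ofNat 3915737354111666008456292548914335946177519553146878164992, .ofNat 0, .ofNat 1713444686543543011210421469061473111827349164261376, .ofNat 0⟩)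
    (by decide +kernel)
theorem L02509 : Good (Phi V5.P V5.D (-1) (-1)) ⟨5, 26, 4, 6, 4, 12, 5, 1, 5, 4⟩ :=
  leafX_sound T5.ok_mm T5.Ymm.bz_eq (w := 265) (c := ⟨⟨.negSucc 5590, .negSucc 857, .ofNat 351, .ofNat 205, .ofNat 131, .ofNat 895⟩, ⟨.ofNat 2636, .ofNat 557, .negSucc 14, .negSucc 98, .negSucc 77, .negSucc 474⟩, ⟨.ofNat 4029, .ofNat 669, .negSucc 396, .ofNat 271, .negSucc 206, .negSucc 484⟩, ⟨.negSucc 8630, .negSucc 786, .ofNat 398, .ofNat 377, .ofNat 102, .ofNat 1185⟩, ⟨.negSucc 60, .ofNat 493, .negSucc 280, .ofNat 154, .negSucc 181, .negSucc 332⟩, .ofNat 1297, .ofNat 1860, .ofNat 0, .ofNat 1860, .ofNat 3788, .ofNat 0, .ofNat 128, .negSucc 868, .negSucc 661, .ofNat 0, .ofNat 530, .ofNat 366, .ofNat 0, .ofNat 0, .ofNat 993, .ofNat 22751, .ofNat 0, .ofNat 0, .ofNat 0, .ofNat 0, .ofNat 0, .ofNat 0, .ofNat 796066790923669026835141302204978688914105691013120, .ofNat 0,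 .ofNat 0, .ofNat 0, .ofNat 2230530327585379526053127107041110578837178250428416, .ofNat 0, .ofNat 0, .ofNat 0, .ofNat 1300951749492495330090057861115642026660539465203712, .ofNat 0⟩)
    (by decide +kernel)
theorem L02510 : Good (Phi V5.P V5.D (-1) (-1)) ⟨5, 26, 4, 6, 4, 12, 4, 1, 5, 4⟩ :=
  leafX_sound T5.ok_mm T5.Ymm.bz_eq (w := 260) (c := ⟨⟨.negSucc 5384, .negSucc 797, .ofNat 324, .ofNat 262, .ofNat 195, .ofNat 774⟩, ⟨.ofNat 2516, .ofNat 506, .ofNat 5, .negSucc 131, .negSucc 111, .negSucc 400⟩, ⟨.ofNat 3779, .ofNat 611, .negSucc 341, .ofNat 164, .negSucc 279, .negSucc 433⟩, ⟨.negSucc 8402, .negSucc 757, .ofNat 366, .ofNat 404, .ofNat 159, .ofNat 1034⟩, ⟨.negSucc 243, .ofNat 413, .negSucc 249, .ofNat 38, .negSucc 278, .negSucc 276⟩, .ofNat 606, .ofNat 621, .ofNat 0, .ofNat 621, .ofNat 1444, .ofNat 0, .ofNat 128, .negSucc 648, .negSucc 774, .ofNat 0, .ofNat 430, .ofNat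 432, .ofNat 0, .ofNat 0, .ofNat 1046, .ofNat 9952, .ofNat 0, .ofNat 0, .ofNat 444006561376224565540596970251625736095555125248, .ofNat 0, .ofNat 0, .ofNat 0, .ofNat 6443741699929388597717065124817338195362984230912, .ofNat 0, .ofNat 0, .ofNat 0, .ofNat 70306369796067459095880164320071085290430811602944, .ofNat 0, .ofNat 0, .ofNat 0, .ofNat 81737089517689823308705224938106027181474471477248, .ofNat 0⟩)
    (by decide +kernel)
theorem L02511 : Good (Phi V5.P V5.D (-1) (-1)) ⟨5, 26, 4, 6, 4, 13, 5, 0, 5, 4⟩ :=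
  leafX_sound T5.ok_mm T5.Ymm.bz_eq (w := 266) (c := ⟨⟨.negSucc 5849, .negSucc 674, .ofNat 344, .ofNat 358, .ofNat 298, .ofNat 1104⟩, ⟨.ofNat 2800, .ofNat 464, .negSucc 18, .negSucc 183, .negSucc 167, .negSucc 585⟩, ⟨.ofNat 4943, .ofNat 545, .negSucc 360, .ofNat 122, .negSucc 439, .negSucc 803⟩, ⟨.negSucc 8652, .negSucc 562, .ofNat 405, .ofNat 487, .ofNat 252, .ofNat 1340⟩, ⟨.ofNat 733, .ofNat 417, .negSucc 282, .negSucc 98, .negSucc 407, .negSucc 699⟩, .ofNat 609, .ofNat 626, .ofNat 0, .ofNat 626, .ofNat 1444, .ofNat 0, .ofNat 128, .negSucc 453, .negSucc 550, .ofNat 0, .ofNat 324, .ofNat 310, .ofNat 0, .ofNat 0, .ofNat 869, .ofNat 113924, .ofNat 567793499462203776892995110564639076662481000145826611200, .ofNat 0, .ofNat 46348803428011336619225540902338636875198187438080, .ofNat 0, .ofNat 0, .ofNat 0, .ofNat 218559028495442484359379968292408961212578281816064, .ofNat 0,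 .ofNat 415777803527905866385766405900188554863267878372227678208, .ofNat 0, .ofNat 2235391179784969410903015906622825308902146156003328, .ofNat 0, .ofNat 1322250638134225786673101271797186615298709899975893975040, .ofNat 0, .ofNat 1179276454653053587962488995466965834522613551988736, .ofNat 0⟩)
    (by decide +kernel)
theorem L02512 : Good (Phi V5.P V5.D (-1) (-1)) ⟨5, 26, 4, 6, 4, 13, 5, 1, 5, 4⟩ :=
  leafX_sound T5.ok_mm T5.Ymm.bz_eq (w := 265) (c := ⟨⟨.negSucc 5572, .negSucc 711, .ofNat 350, .ofNat 400, .ofNat 227, .ofNat 1041⟩, ⟨.ofNat 2655, .ofNat 472, .negSucc 24, .negSucc 207, .negSucc 135, .negSucc 556⟩, ⟨.ofNat 4550, .ofNat 583, .negSucc 370, .ofNat 25, .negSucc 343, .negSucc 748⟩, ⟨.negSucc 8440, .negSucc 618, .ofNat 407, .ofNat 568, .ofNat 191, .ofNat 1290⟩, ⟨.ofNat 253, .ofNat 423, .negSucc 256, .negSucc 67, .negSucc 285, .negSucc 577⟩, .ofNat 1005, .ofNat 1324,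 .ofNat 0, .ofNat 1324, .ofNat 2773, .ofNat 0, .ofNat 128, .negSucc 760, .negSucc 640, .ofNat 0, .ofNat 491, .ofNat 352, .ofNat 0, .ofNat 0, .ofNat 976, .ofNat 34873, .ofNat 0, .ofNat 0, .ofNat 0, .ofNat 0, .ofNat 0, .ofNat 0, .ofNat 364997857894482284000785824860059737840501661892608, .ofNat 0, .ofNat 0, .ofNat 0, .ofNat 2497671079316541395935434891011340096873325377093632, .ofNat 0, .ofNat 0, .ofNat 0, .ofNat 1276510177280172913997890781144460055681991861862400, .ofNat 0⟩)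
    (by decide +kernel)
theorem L02513 : Good (Phi V5.P V5.D (-1) (-1)) ⟨5, 26, 4, 6, 4, 13, 4, 1, 5, 4⟩ :=
  leafX_sound T5.ok_mm T5.Ymm.bz_eq (w := 260) (c := ⟨⟨.negSucc 5317, .negSucc 625, .ofNat 349, .ofNat 417, .ofNat 306, .ofNat 891⟩, ⟨.ofNat 2504, .ofNat 402, .negSucc 15, .negSucc 215, .negSucc 176, .negSucc 467⟩, ⟨.ofNat 4210, .ofNat 519, .negSucc 365, .negSucc 45, .negSucc 493, .negSucc 621⟩, ⟨.negSucc 8208, .negSucc 573, .ofNat 401, .ofNat 578, .ofNat 272, .ofNat 1153⟩, ⟨.negSucc 47, .ofNat 319, .negSucc 264, .negSucc 109, .negSucc 396, .negSucc 407⟩, .ofNat 610, .ofNat 626, .ofNat 0, .ofNat 626, .ofNat 1444, .ofNat 0, .ofNat 128, .negSucc 530, .negSucc 584, .ofNat 0, .ofNat 374, .ofNat 322, .ofNat 0, .ofNat 0, .ofNat 855, .ofNat 13552, .ofNat 0, .ofNat 0, .ofNat 0, .ofNat 0, .ofNat 0, .ofNat 0, .ofNat 2973378109839514178703856553563270022193137844224, .ofNat 0,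 .ofNat 0, .ofNat 0, .ofNat 75428321178384425027615656501945764467386936721408, .ofNat 0, .ofNat 0, .ofNat 0, .ofNat 51854352506977863143029795867942228332642304000000, .ofNat 0⟩)
    (by decide +kernel)
theorem L02514 : Good (Phi V5.P V5.D (-1) (-1)) ⟨5, 26, 4, 6, 3, 7, 3, 0, 5, 4⟩ :=
  leafX_sound T5.ok_mm T5.Ymm.bz_eq (w := 241) (c := ⟨⟨.negSucc 5013, .negSucc 418, .ofNat 194, .ofNat 1036, .ofNat 489, .ofNat 776⟩, ⟨.ofNat 2369, .ofNat 289, .ofNat 39, .negSucc 505, .negSucc 270, .negSucc 401⟩, ⟨.ofNat 4454, .ofNat 290, .negSucc 61, .negSucc 1382, .negSucc 784, .negSucc 450⟩, ⟨.negSucc 7770, .negSucc 321, .ofNat 196, .ofNat 1742, .ofNat 462, .ofNat 1041⟩, ⟨.negSucc 130, .ofNat 197, .negSucc 176, .ofNat 334, .negSucc 565, .negSucc 279⟩, .ofNat 989, .ofNat 1295, .ofNat 0, .ofNat 1295, .ofNat 2720, .ofNat 0, .ofNat 128, .negSucc 431, .negSucc 429, .ofNat 0, .ofNat 295, .ofNat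 211, .ofNat 0, .ofNat 0, .ofNat 788, .ofNat 4044, .ofNat 0, .ofNat 0, .ofNat 628925623000673372945164543554482866225152, .ofNat 0, .ofNat 0, .ofNat 0, .ofNat 15803180661700189732066803079469324210012160, .ofNat 0, .ofNat 0, .ofNat 0, .ofNat 95266427549238220712962350353482722956017664, .ofNat 0, .ofNat 0, .ofNat 0, .ofNat 252024466711940323122066724854418145462452224, .ofNat 0⟩)
    (by decide +kernel)
theorem L02515 : Good (Phi V5.P V5.D (-1) (-1)) ⟨5, 26, 4, 6, 3, 6, 5, 0, 5, 5⟩ :=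
  leafX_sound T5.ok_mm T5.Ymm.bz_eq (w := 253) (c := ⟨⟨.negSucc 4987, .negSucc 336, .ofNat 182, .ofNat 872, .ofNat 55, .ofNat 886⟩, ⟨.ofNat 2343, .ofNat 231, .ofNat 54, .negSucc 442, .negSucc 28, .negSucc 470⟩, ⟨.ofNat 4160, .ofNat 302, .negSucc 214, .negSucc 206, .negSucc 222, .negSucc 734⟩, ⟨.negSucc 7713, .negSucc 240, .ofNat 200, .ofNat 1171, .ofNat 33, .ofNat 1079⟩, ⟨.negSucc 78, .ofNat 159, .negSucc 121, .negSucc 354, .negSucc 108, .negSucc 543⟩, .ofNat 607, .ofNat 621, .ofNat 0, .ofNat 621, .ofNat 1438, .ofNat 0, .ofNat 128, .negSucc 351, .negSucc 283, .ofNat 0, .ofNat 268, .ofNat 157, .ofNat 0, .ofNat 0, .ofNat 603, .ofNat 257697, .ofNat 407308700568163805836940245915954271259044074905141248, .ofNat 0, .ofNat 1311197608830187685902496043664431770299793408, .ofNat 0, .ofNat 113351062941452706198260715636332098267161947734540288, .ofNat 0, .ofNat 0, .ofNat 0, .ofNat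 234750420564696428935828514794005635357027120554442752, .ofNat 0, .ofNat 114255399522505275975734605726680196496985423872, .ofNat 0, .ofNat 1328422338431154608102918002175863036318368860028796928, .ofNat 0, .ofNat 20563066333007408428918022988664534131787431936, .ofNat 0⟩)
    (by decide +kernel)
theorem L02516 : Good (Phi V5.P V5.D (-1) (-1)) ⟨5, 26, 4, 6, 3, 6, 5, 1, 5, 5⟩ :=
  leafX_sound T5.ok_mm T5.Ymm.bz_eq (w := 252) (c := ⟨⟨.negSucc 4693, .negSucc 349, .ofNat 124, .ofNat 699, .ofNat 68, .ofNat 836⟩, ⟨.ofNat 2180, .ofNat 237, .ofNat 97, .negSucc 355, .negSucc 37, .negSucc 443⟩, ⟨.ofNat 3662, .ofNat 317, .negSucc 199, .negSucc 25, .negSucc 215, .negSucc 562⟩, ⟨.negSucc 7440, .negSucc 261, .ofNat 138, .ofNat 984, .ofNat 47, .ofNat 1060⟩, ⟨.negSucc 460, .ofNat 142, .negSucc 67, .negSucc 157, .negSucc 120, .negSucc 417⟩, .ofNat 796, .ofNat 952, .ofNat 0, .ofNat 952, .ofNat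 2080, .ofNat 0, .ofNat 128, .negSucc 560, .negSucc 478, .ofNat 0, .ofNat 380, .ofNat 267, .ofNat 0, .ofNat 0, .ofNat 1012, .ofNat 87156, .ofNat 0, .ofNat 0, .ofNat 0, .ofNat 0, .ofNat 36456865397973520675406643416190421481613248530743296, .ofNat 0, .ofNat 10498405079232020681130433044386092356038819840, .ofNat 0, .ofNat 211907655061747070413207330541373802178514251912577024, .ofNat 0, .ofNat 274346343624720785583098442565203405540687872000, .ofNat 0, .ofNat 167758491828210223055506275252183944723374903572561920, .ofNat 0, .ofNat 85374244220661035482712723822613116423136870400, .ofNat 0⟩)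
    (by decide +kernel)
theorem L02517 : Good (Phi V5.P V5.D (-1) (-1)) ⟨5, 26, 4, 6, 3, 6, 4, 1, 5, 5⟩ :=
  leafX_sound T5.ok_mm T5.Ymm.bz_eq (w := 247) (c := ⟨⟨.negSucc 4637, .negSucc 316, .ofNat 133, .ofNat 777, .ofNat 179, .ofNat 749⟩, ⟨.ofNat 2159, .ofNat 214, .ofNat 83, .negSucc 399, .negSucc 103, .negSucc 391⟩, ⟨.ofNat 3497, .ofNat 248, .negSucc 191, .negSucc 191, .negSucc 342, .negSucc 493⟩, ⟨.negSucc 7392, .negSucc 240, .ofNat 135, .ofNat 1071, .ofNat 177, .ofNat 979⟩, ⟨.negSucc 569, .ofNat 99, .negSucc 69, .negSucc 222, .negSucc 183, .negSucc 334⟩, .ofNat 610, .ofNat 628, .ofNat 0, .ofNat 628, .ofNat 1453, .ofNat 0, .ofNat 128, .negSucc 457, .negSucc 378, .ofNat 0, .ofNat 331, .ofNat 211, .ofNat 0, .ofNat 0, .ofNat 751, .ofNat 23770, .ofNat 0, .ofNat 0, .ofNat 0, .ofNat 0, .ofNat 0, .ofNat 0, .ofNat 552542795036518534660728744671344671227641856, .ofNat 0, .ofNat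 0, .ofNat 0, .ofNat 4170163881498465881874628276568621805991886848, .ofNat 0, .ofNat 0, .ofNat 0, .ofNat 3777210224422020189834162068946184911103983616, .ofNat 0⟩)
    (by decide +kernel)
theorem L02518 : Good (Phi V5.P V5.D (-1) (-1)) ⟨5, 26, 4, 6, 3, 7, 3, 0, 5, 5⟩ :=
  leafX_sound T5.ok_mm T5.Ymm.bz_eq (w := 241) (c := ⟨⟨.negSucc 3943, .negSucc 145, .ofNat 75, .ofNat 737, .ofNat 336, .ofNat 653⟩, ⟨.ofNat 1816, .ofNat 103, .ofNat 90, .negSucc 330, .negSucc 182, .negSucc 334⟩, ⟨.ofNat 3646, .ofNat 173, .ofNat 31, .negSucc 973, .negSucc 684, .negSucc 574⟩, ⟨.negSucc 6451, .negSucc 69, .ofNat 43, .ofNat 1369, .ofNat 413, .ofNat 884⟩, ⟨.negSucc 819, .ofNat 4, .negSucc 99, .ofNat 511, .negSucc 208, .negSucc 204⟩, .ofNat 1254, .ofNat 1778, .ofNat 0, .ofNat 1778, .ofNat 3632, .ofNat 0, .ofNat 128, .negSucc 616, .negSucc 466, .ofNat 0, .ofNat 431, .ofNat 228, .ofNat 0, .ofNat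 0, .ofNat 1227, .ofNat 7834, .ofNat 0, .ofNat 0, .ofNat 0, .ofNat 0, .ofNat 0, .ofNat 0, .ofNat 82836582531015575351249776955397000063352832, .ofNat 0, .ofNat 0, .ofNat 0, .ofNat 404559124339877963066068776809932709141938176, .ofNat 0, .ofNat 0, .ofNat 0, .ofNat 0, .ofNat 0⟩)
    (by decide +kernel)
theorem L02519 : Good (Phi V5.P V5.D (-1) (-1)) ⟨5, 26, 4, 6, 2, 3, 3, 0, 4, 3⟩ :=
  leafX_sound T5.ok_mm T5.Ymm.bz_eq (w := 222) (c := ⟨⟨.negSucc 3796, .negSucc 70, .ofNat 75, .ofNat 1190, .ofNat 245, .ofNat 812⟩, ⟨.ofNat 1731, .ofNat 45, .ofNat 95, .negSucc 578, .negSucc 127, .negSucc 405⟩, ⟨.ofNat 3325, .ofNat 63, .negSucc 42, .negSucc 914, .negSucc 667, .negSucc 583⟩, ⟨.negSucc 6292, .ofNat 33, .ofNat 42, .ofNat 1812, .ofNat 289, .ofNat 1163⟩, ⟨.negSucc 982, .ofNat 6, .negSucc 66, .ofNat 5, .negSucc 157, .negSucc 161⟩, .ofNat 1294, .ofNat 1861, .ofNat 0, .ofNat 1861, .ofNat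 3811, .ofNat 0, .ofNat 128, .negSucc 404, .negSucc 143, .ofNat 0, .ofNat 280, .ofNat 74, .ofNat 0, .ofNat 0, .ofNat 593, .ofNat 6802, .ofNat 664222987708808916434391877008466074010648576, .ofNat 0, .ofNat 4845054730011673252366949266829082624, .ofNat 0, .ofNat 0, .ofNat 0, .ofNat 500399392410441659998902168907606392832, .ofNat 0, .ofNat 0, .ofNat 0, .ofNat 489526023973993434426164889588393312256, .ofNat 0, .ofNat 26928426378801007852105908532151211820985614336, .ofNat 0, .ofNat 90118445953578521943485494693208260608, .ofNat 0⟩)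
    (by decide +kernel)
theorem L02520 : Good (Phi V5.P V5.D (-1) (-1)) ⟨5, 26, 4, 6, 2, 2, 3, 1, 4, 2⟩ :=
  leafX_sound T5.ok_mm T5.Ymm.bz_eq (w := 222) (c := ⟨⟨.negSucc 4366, .negSucc 443, .ofNat 25, .negSucc 192, .ofNat 86, .ofNat 723⟩, ⟨.ofNat 2002, .ofNat 291, .ofNat 147, .ofNat 76, .negSucc 38, .negSucc 356⟩, ⟨.ofNat 2981, .ofNat 371, .negSucc 77, .negSucc 74, .negSucc 126, .negSucc 252⟩, ⟨.negSucc 7051, .negSucc 393, .negSucc 0, .negSucc 494, .ofNat 108, .ofNat 1146⟩, ⟨.negSucc 685, .ofNat 139, .negSucc 16, .negSucc 405, .negSucc 60, .ofNat 96⟩, .ofNat 982, .ofNat 1285, .ofNat 0, .ofNat 1285, .ofNat 2713, .ofNat 0, .ofNat 128, .negSucc 534, .negSucc 419, .ofNat 0, .ofNat 328, .ofNat 226, .ofNat 0, .ofNat 0, .ofNat 711, .ofNat 3819, .ofNat 0, .ofNat 0, .ofNat 0, .ofNat 0, .ofNat 0, .ofNat 0, .ofNat 168268601815515964225842260154200883200, .ofNat 0, .ofNat 0, .ofNat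 0, .ofNat 847780794985598330426632555195143290880, .ofNat 0, .ofNat 0, .ofNat 0, .ofNat 301078868219265097518732170628991811584, .ofNat 0⟩)
    (by decide +kernel)
theorem L02521 : Good (Phi V5.P V5.D (-1) (-1)) ⟨5, 26, 4, 6, 2, 2, 3, 1, 4, 3⟩ :=
  leafX_sound T5.ok_mm T5.Ymm.bz_eq (w := 223) (c := ⟨⟨.negSucc 4041, .negSucc 144, .ofNat 23, .ofNat 431, .ofNat 155, .ofNat 859⟩, ⟨.ofNat 1878, .ofNat 111, .ofNat 123, .negSucc 251, .negSucc 75, .negSucc 430⟩, ⟨.ofNat 3261, .ofNat 148, .negSucc 72, .negSucc 758, .negSucc 316, .negSucc 492⟩, ⟨.negSucc 6449, .negSucc 36, .negSucc 5, .ofNat 321, .ofNat 239, .ofNat 1287⟩, ⟨.negSucc 514, .ofNat 32, .negSucc 17, .negSucc 665, .ofNat 1, .negSucc 37⟩, .ofNat 1002, .ofNat 1320, .ofNat 0, .ofNat 1320, .ofNat 2769, .ofNat 0, .ofNat 128, .negSucc 450, .negSucc 194, .ofNat 0, .ofNat 290, .ofNat 106, .ofNat 0, .ofNat 0, .ofNat 555, .ofNat 7823,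 .ofNat 0, .ofNat 0, .ofNat 0, .ofNat 0, .ofNat 0, .ofNat 0, .ofNat 248704434013648720682566189295561867264, .ofNat 0, .ofNat 0, .ofNat 0, .ofNat 550058266936569054392044376586188750848, .ofNat 0, .ofNat 0, .ofNat 0, .ofNat 68769303721911547728763189283925262336, .ofNat 0⟩)
    (by decide +kernel)

end Crest.Agent.R097C5.N5mm
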