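import Crest.Agent.R097.KP7
import Crest.Agent.R097.T5Ymm

/-!
# Row 97, box cover in dimension n = 5 (generated)
-/

set_option autoImplicit false
set_option Elab.async false
set_option maxHeartbeats 0
set_option maxRecDepth 100000

open Crest.Agent.R097 Crest.Agent.R097.KA


namespace Crest.Agent.R097C5.N5mm

theorem L02522 : Good (Phi V5.P V5.D (-1) (-1)) ⟨5, 26, 4, 6, 2, 3, 3, 1, 5, 4⟩ :=
  leafX_sound T5.ok_mm T5.Ymm.bz_eq (w := 227) (c := ⟨⟨.negSucc 5344, .negSucc 302, .ofNat 145, .ofNat 1957, .ofNat 527, .ofNat 670⟩, ⟨.ofNat 2507, .ofNat 185, .ofNat 93, .negSucc 1005, .negSucc 290, .negSucc 339⟩, ⟨.ofNat 3834, .ofNat 270, .negSucc 181, .negSucc 1080, .negSucc 629, .negSucc 452⟩, ⟨.negSucc 8460, .negSucc 339, .ofNat 213, .ofNat 2776, .ofNat 554, .ofNat 945⟩, ⟨.negSucc 545, .negSucc 121, .ofNat 37, .negSucc 414, .negSucc 496, .negSucc 150⟩, .ofNat 996, .ofNat 1308, .ofNat 0, .ofNat 1308, .ofNat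 2749, .ofNat 0, .ofNat 128, .negSucc 599, .negSucc 458, .ofNat 0, .ofNat 380, .ofNat 239, .ofNat 0, .ofNat 0, .ofNat 639, .ofNat 3008, .ofNat 0, .ofNat 0, .ofNat 41091009594170147820168367612182396928, .ofNat 0, .ofNat 0, .ofNat 0, .ofNat 2322757694890995236122337906200561057792, .ofNat 0, .ofNat 0, .ofNat 0, .ofNat 8208906758496983947820358886234913767424, .ofNat 0, .ofNat 0, .ofNat 0, .ofNat 4228396934464565853363677325261163986944, .ofNat 0⟩)
    (by decide +kernel)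
theorem L02523 : Good (Phi V5.P V5.D (-1) (-1)) ⟨5, 26, 4, 6, 2, 3, 3, 1, 5, 5⟩ :=
  leafX_sound T5.ok_mm T5.Ymm.bz_eq (w := 227) (c := ⟨⟨.negSucc 4432, .negSucc 113, .ofNat 74, .ofNat 1645, .ofNat 360, .ofNat 547⟩, ⟨.ofNat 2048, .ofNat 80, .ofNat 103, .negSucc 824, .negSucc 190, .negSucc 267⟩, ⟨.ofNat 3295, .negSucc 6, .negSucc 44, .negSucc 1068, .negSucc 546, .negSucc 454⟩, ⟨.negSucc 7281, .negSucc 40, .ofNat 96, .ofNat 2531, .ofNat 390, .ofNat 819⟩, ⟨.negSucc 1012, .ofNat 11, .ofNat 23, .ofNat 62, .negSucc 326, .negSucc 29⟩, .ofNat 994, .ofNat 1300, .ofNat 0, .ofNat 1300, .ofNat 2719, .ofNat 0, .ofNat 128, .negSucc 481, .negSucc 240, .ofNat 0, .ofNat 323, .ofNat 124, .ofNat 0, .ofNat 0, .ofNat 483, .ofNat 3599, .ofNat 0, .ofNat 0, .ofNat 44329995007334971161089526347742576640, .ofNat 0, .ofNat 0, .ofNat 0, .ofNat 3101212808725530780584940753562506362880, .ofNat 0, .ofNat 0, .ofNat 0, .ofNat 0,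 .ofNat 0, .ofNat 0, .ofNat 0, .ofNat 3688228510497656057786134747465060974592, .ofNat 0⟩)
    (by decide +kernel)
theorem L02524 : Good (Phi V5.P V5.D (-1) (-1)) ⟨5, 26, 4, 6, 2, 3, 3, 1, 4, 3⟩ :=
  leafX_sound T5.ok_mm T5.Ymm.bz_eq (w := 222) (c := ⟨⟨.negSucc 3509, .negSucc 66, .ofNat 18, .ofNat 1215, .ofNat 223, .ofNat 752⟩, ⟨.ofNat 1585, .ofNat 31, .ofNat 122, .negSucc 590, .negSucc 115, .negSucc 372⟩, ⟨.ofNat 2603, .ofNat 86, .negSucc 27, .negSucc 846, .negSucc 475, .negSucc 572⟩, ⟨.negSucc 5964, .negSucc 31, .negSucc 4, .ofNat 1885, .ofNat 295, .ofNat 1141⟩, ⟨.negSucc 1205, .negSucc 87, .ofNat 11, .ofNat 72, .negSucc 95, .negSucc 12⟩, .ofNat 1269, .ofNat 1812, .ofNat 0, .ofNat 1812, .ofNat 3713, .ofNat 0, .ofNat 128, .negSucc 401, .negSucc 137, .ofNat 0, .ofNat 274, .ofNat 70, .ofNat 0, .ofNat 0, .ofNat 510, .ofNat 3410, .ofNat 0, .ofNat 0, .ofNat 0, .ofNat 0, .ofNat 0, .ofNat 0, .ofNat 414151309077871453418101408163296182272,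 .ofNat 0, .ofNat 0, .ofNat 0, .ofNat 288202512359474927705076765657432850432, .ofNat 0, .ofNat 0, .ofNat 0, .ofNat 0, .ofNat 0⟩)
    (by decide +kernel)
theorem L02525 : Good (Phi V5.P V5.D (-1) (-1)) ⟨5, 27, 4, 6, 1, 1, 2, 0, 3, 1⟩ :=
  out_sound (S := T5.ds_mm) T5.ok_mm (w := 59) (j := 3) (by decide +kernel)
theorem L02526 : Good (Phi V5.P V5.D (-1) (-1)) ⟨3, 7, 4, 6, 1, 1, 2, 0, 3, 1⟩ :=
  out_sound (S := T5.ds_mm) T5.ok_mm (w := 47) (j := 3) (by decide +kernel)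
theorem L02527 : Good (Phi V5.P V5.D (-1) (-1)) ⟨3, 6, 4, 7, 3, 4, 3, 0, 4, 2⟩ :=
  leafX_sound T5.ok_mm T5.Ymm.bz_eq (w := 228) (c := ⟨⟨.negSucc 2949, .negSucc 1539, .ofNat 13, .negSucc 453, .negSucc 190, .ofNat 386⟩, ⟨.ofNat 1292, .ofNat 1045, .ofNat 158, .ofNat 236, .ofNat 113, .negSucc 197⟩, ⟨.ofNat 1797, .ofNat 1235, .negSucc 85, .ofNat 50, .ofNat 148, .ofNat 180⟩, ⟨.negSucc 5688, .negSucc 1268, .negSucc 41, .negSucc 788, .negSucc 141, .ofNat 719⟩, ⟨.negSucc 1339, .ofNat 382, .negSucc 78, .negSucc 183, .ofNat 277, .ofNat 292⟩, .ofNat 727, .ofNat 861, .ofNat 0, .ofNat 861, .ofNat 1925, .ofNat 0, .ofNat 128, .negSucc 569, .negSucc 263, .ofNat 0, .ofNat 346, .ofNat 143, .ofNat 0, .ofNat 0, .ofNat 566, .ofNat 8554, .ofNat 126928860689051415648819566213852817341074636800, .ofNat 0, .ofNat 841231589344737381388600755588040224669696, .ofNat 0, .ofNat 0, .ofNat 0, .ofNat 24652049052495010044653670964811371175215104,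 .ofNat 0, .ofNat 210360052940233554752180528141093435580883140608, .ofNat 0, .ofNat 91004312685657774551635693668262076663988224, .ofNat 0, .ofNat 262107361265526194221783476183739929703753973760, .ofNat 0, .ofNat 35617550070822816291681749327714916839194624, .ofNat 0⟩)
    (by decide +kernel)
theorem L02528 : Good (Phi V5.P V5.D (-1) (-1)) ⟨3, 6, 4, 7, 3, 4, 3, 1, 4, 2⟩ :=
  leafX_sound T5.ok_mm T5.Ymm.bz_eq (w := 227) (c := ⟨⟨.negSucc 3052, .negSucc 1885, .ofNat 107, .negSucc 348, .ofNat 29, .ofNat 488⟩, ⟨.ofNat 1353, .ofNat 1243, .ofNat 102, .ofNat 177, .negSucc 8, .negSucc 256⟩, ⟨.ofNat 1895, .ofNat 1546, .negSucc 148, .negSucc 20, .negSucc 14, .negSucc 10⟩, ⟨.negSucc 5679, .negSucc 1773, .ofNat 98, .negSucc 653, .ofNat 102, .ofNat 822⟩, ⟨.negSucc 1041, .ofNat 431, .negSucc 75, .negSucc 228, .ofNat 109, .ofNat 199⟩, .ofNat 662, .ofNat 714, .ofNat 0, .ofNat 714, .ofNat 1559, .ofNat 0, .ofNat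 128, .negSucc 417, .negSucc 500, .ofNat 0, .ofNat 275, .ofNat 277, .ofNat 0, .ofNat 0, .ofNat 840, .ofNat 2738, .ofNat 0, .ofNat 0, .ofNat 0, .ofNat 0, .ofNat 0, .ofNat 0, .ofNat 16938084533765155159991210831090178395734016, .ofNat 0, .ofNat 0, .ofNat 0, .ofNat 49443582849831282345440111415038420124172288, .ofNat 0, .ofNat 0, .ofNat 0, .ofNat 0, .ofNat 0⟩)
    (by decide +kernel)
theorem L02529 : Good (Phi V5.P V5.D (-1) (-1)) ⟨3, 6, 4, 7, 3, 4, 2, 0, 4, 3⟩ :=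
  leafX_sound T5.ok_mm T5.Ymm.bz_eq (w := 224) (c := ⟨⟨.negSucc 3538, .negSucc 788, .negSucc 1, .ofNat 70, .ofNat 180, .ofNat 788⟩, ⟨.ofNat 1661, .ofNat 601, .ofNat 139, .negSucc 48, .negSucc 86, .negSucc 415⟩, ⟨.ofNat 2859, .ofNat 709, .negSucc 64, .negSucc 387, .negSucc 372, .negSucc 387⟩, ⟨.negSucc 6134, .negSucc 466, .negSucc 28, .negSucc 75, .ofNat 342, .ofNat 1180⟩, ⟨.negSucc 676, .ofNat 85, .negSucc 16, .negSucc 333, .ofNat 130, .negSucc 24⟩, .ofNat 351, .ofNat 234, .ofNat 0, .ofNat 234, .ofNat 645, .ofNat 0, .ofNat 128, .negSucc 223, .negSucc 143, .ofNat 0, .ofNat 198, .ofNat 84, .ofNat 0, .ofNat 0, .ofNat 387, .ofNat 5259, .ofNat 3233040572579648710167482790709100117690941440, .ofNat 0, .ofNat 57709380114825877588179661730721912848384, .ofNat 0, .ofNat 4132343945455478243065752082674723379872792576, .ofNat 0, .ofNat 313611356968486336382423150526468143972352, .ofNat 0, .ofNat 0, .ofNat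 0, .ofNat 1273370220948609626573668370656018305122304, .ofNat 0, .ofNat 13117489154673238673751868012463075001249038336, .ofNat 0, .ofNat 1138260376193228918130885363646475970543616, .ofNat 0⟩)
    (by decide +kernel)
theorem L02530 : Good (Phi V5.P V5.D (-1) (-1)) ⟨4, 12, 4, 7, 3, 5, 5, 0, 4, 2⟩ :=
  leafX_sound T5.ok_mm T5.Ymm.bz_eq (w := 245) (c := ⟨⟨.negSucc 4449, .negSucc 1, .ofNat 64, .negSucc 459, .ofNat 70, .ofNat 46⟩, ⟨.ofNat 2185, .ofNat 1, .ofNat 146, .ofNat 255, .negSucc 36, .negSucc 7⟩, ⟨.ofNat 2310, .ofNat 1, .negSucc 95, .ofNat 1073, .negSucc 87, .ofNat 434⟩, ⟨.negSucc 7571, .negSucc 3, .ofNat 43, .negSucc 282, .ofNat 83, .ofNat 221⟩, ⟨.negSucc 1400, .ofNat 0, .negSucc 20, .ofNat 853, .negSucc 50, .ofNat 311⟩, .ofNat 844, .ofNat 1150, .ofNat 0, .ofNat 1150, .ofNat 2694, .ofNat 0, .ofNat 128, .negSucc 668, .negSucc 292, .ofNat 0, .ofNat 363, .ofNat 148, .ofNat 0, .ofNat 0, .ofNat 698,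 .ofNat 561129, .ofNat 8233722122806896651038826050259181451044584423424000, .ofNat 0, .ofNat 1006526881460251445383813162194516612812374016, .ofNat 0, .ofNat 7978332559171821457221611225194341704138945273528320, .ofNat 0, .ofNat 634159054287325041787644307598186044928819200, .ofNat 0, .ofNat 28973355847399837713171625707357504937691305461415936, .ofNat 0, .ofNat 60763309877895676907824398329190329854703173632, .ofNat 0, .ofNat 15975951072360301013168105787528526721895585380564992, .ofNat 0, .ofNat 33531491332238928182800676341083142432606912512, .ofNat 0⟩)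
    (by decide +kernel)
theorem L02531 : Good (Phi V5.P V5.D (-1) (-1)) ⟨4, 12, 4, 7, 3, 5, 5, 1, 4, 2⟩ :=
  leafX_sound T5.ok_mm T5.Ymm.bz_eq (w := 244) (c := ⟨⟨.negSucc 4493, .negSucc 1, .negSucc 277, .negSucc 139, .ofNat 36, .ofNat 709⟩, ⟨.ofNat 2216, .ofNat 1, .ofNat 297, .ofNat 75, .negSucc 18, .negSucc 352⟩, ⟨.ofNat 2662, .ofNat 1, .negSucc 206, .ofNat 397, .negSucc 62, .negSucc 13⟩, ⟨.negSucc 7479, .negSucc 3, .negSucc 94, .negSucc 110, .ofNat 59, .ofNat 1087⟩, ⟨.negSucc 1077, .ofNat 0, .ofNat 50, .ofNat 211, .negSucc 1, .negSucc 1⟩, .ofNat 2165, .ofNat 3574, .ofNat 0, .ofNat 3574, .ofNat 7204, .ofNat 0, .ofNat 128, .negSucc 1332, .negSucc 892, .ofNat 0, .ofNat 740, .ofNat 473, .ofNat 0, .ofNat 0, .ofNat 1659, .ofNat 126946, .ofNat 722286192413662461925012363115098880505668318527488, .ofNat 0, .ofNat 124963460404941223453590824126738596041326592, .ofNat 0, .ofNat 612948831220821974229889411266335904593935490613248,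 .ofNat 0, .ofNat 42294845281507248587410164409783216419737960448, .ofNat 0, .ofNat 0, .ofNat 0, .ofNat 136968247836828369966567776999072647214341816320, .ofNat 0, .ofNat 3110816101298330170888848085582014177246616326504448, .ofNat 0, .ofNat 104957274979757404970688171220635965882189742080, .ofNat 0⟩)
    (by decide +kernel)
theorem L02532 : Good (Phi V5.P V5.D (-1) (-1)) ⟨4, 12, 4, 7, 3, 5, 4, 1, 4, 2⟩ :=
  leafX_sound T5.ok_mm T5.Ymm.bz_eq (w := 238) (c := ⟨⟨.negSucc 4563, .negSucc 1, .negSucc 947, .ofNat 18, .ofNat 6, .ofNat 781⟩, ⟨.ofNat 2253, .ofNat 1, .ofNat 633, .negSucc 8, .negSucc 1, .negSucc 390⟩, ⟨.ofNat 2721, .ofNat 2, .ofNat 1134, .ofNat 198, .negSucc 36, .negSucc 143⟩, ⟨.negSucc 7535, .negSucc 3, .negSucc 572, .ofNat 25, .ofNat 17, .ofNat 1192⟩, ⟨.negSucc 979, .ofNat 0, .ofNat 328, .ofNat 10, .ofNat 24, .negSucc 26⟩, .ofNat 1267, .ofNat 1860, .ofNat 0, .ofNat 1860, .ofNat 3889, .ofNat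 0, .ofNat 128, .negSucc 1033, .negSucc 835, .ofNat 0, .ofNat 589, .ofNat 444, .ofNat 0, .ofNat 0, .ofNat 1486, .ofNat 28179, .ofNat 0, .ofNat 0, .ofNat 31299468932027310775280892261687723772870656, .ofNat 0, .ofNat 0, .ofNat 0, .ofNat 1160226532066796033530560907453875800294555648, .ofNat 0, .ofNat 0, .ofNat 0, .ofNat 4894807257524292968824617072556049619843284992, .ofNat 0, .ofNat 0, .ofNat 0, .ofNat 12716673442840269849050879156172473390361214976, .ofNat 0⟩)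
    (by decide +kernel)
theorem L02533 : Good (Phi V5.P V5.D (-1) (-1)) ⟨4, 12, 4, 7, 3, 5, 3, 1, 4, 2⟩ :=
  leafX_sound T5.ok_mm T5.Ymm.bz_eq (w := 234) (c := ⟨⟨.negSucc 4718, .negSucc 1, .ofNat 754, .ofNat 160, .ofNat 154, .ofNat 847⟩, ⟨.ofNat 2336, .ofNat 1, .negSucc 211, .negSucc 85, .negSucc 77, .negSucc 423⟩, ⟨.ofNat 2954, .ofNat 1, .negSucc 1039, .negSucc 61, .negSucc 165, .negSucc 312⟩, ⟨.negSucc 7681, .negSucc 2, .ofNat 317, .ofNat 146, .ofNat 220, .ofNat 1278⟩, ⟨.negSucc 807, .negSucc 0, .negSucc 164, .negSucc 202, .negSucc 35, .negSucc 49⟩, .ofNat 1900, .ofNat 3066, .ofNat 0, .ofNat 3066, .ofNat 6223, .ofNat 0, .ofNat 128, .negSucc 1167, .negSucc 943, .ofNat 0, .ofNat 650, .ofNat 493, .ofNat 0, .ofNat 0, .ofNat 1546, .ofNat 14034, .ofNat 0, .ofNat 0, .ofNat 260860307546356087286289184036610497314816, .ofNat 0, .ofNat 0, .ofNat 0, .ofNat 51659018032648920735661529225370086422872064, .ofNat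 0, .ofNat 0, .ofNat 0, .ofNat 235823674026863055210596391151232994169061376, .ofNat 0, .ofNat 0, .ofNat 0, .ofNat 575162483624210406382249976247200680729640960, .ofNat 0⟩)
    (by decide +kernel)
theorem L02534 : Good (Phi V5.P V5.D (-1) (-1)) ⟨5, 26, 4, 7, 3, 5, 5, 0, 5, 4⟩ :=
  leafX_sound T5.ok_mm T5.Ymm.bz_eq (w := 254) (c := ⟨⟨.negSucc 4523, .negSucc 1291, .ofNat 423, .negSucc 559, .ofNat 230, .ofNat 338⟩, ⟨.ofNat 2218, .ofNat 810, .negSucc 53, .ofNat 335, .negSucc 147, .negSucc 172⟩, ⟨.ofNat 2362, .ofNat 876, .negSucc 418, .ofNat 1191, .negSucc 246, .ofNat 50⟩, ⟨.negSucc 7686, .negSucc 1237, .ofNat 456, .negSucc 315, .ofNat 211, .ofNat 561⟩, ⟨.negSucc 1367, .ofNat 822, .negSucc 332, .ofNat 1020, .negSucc 231, .ofNat 100⟩, .ofNat 683, .ofNat 756, .ofNat 0, .ofNat 756, .ofNat 1651, .ofNat 0, .ofNat 128, .negSucc 472, .negSucc 277, .ofNat 0, .ofNat 296, .ofNat 161, .ofNat 0, .ofNat 0, .ofNat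 443, .ofNat 310576, .ofNat 552583840984455612613620313795246082331221146868908032, .ofNat 0, .ofNat 0, .ofNat 0, .ofNat 766034152332006092466519470546845578543940226978414592, .ofNat 0, .ofNat 9848370348774408954711772597016412489831677952, .ofNat 0, .ofNat 1366287027943385388983300623308948856647018357284929536, .ofNat 0, .ofNat 47735382002116660910827698587202515547973484544, .ofNat 0, .ofNat 592029170747317508196777526359957198556223233985609728, .ofNat 0, .ofNat 41719698942032045580440718441981727366591807488, .ofNat 0⟩)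
    (by decide +kernel)
theorem L02535 : Good (Phi V5.P V5.D (-1) (-1)) ⟨5, 26, 4, 7, 3, 5, 5, 1, 5, 4⟩ :=
  leafX_sound T5.ok_mm T5.Ymm.bz_eq (w := 251) (c := ⟨⟨.negSucc 4419, .negSucc 825, .ofNat 235, .negSucc 389, .negSucc 11, .ofNat 338⟩, ⟨.ofNat 2172, .ofNat 520, .ofNat 51, .ofNat 219, .ofNat 3, .negSucc 172⟩, ⟨.ofNat 2591, .ofNat 584, .negSucc 284, .ofNat 579, .negSucc 39, .ofNat 79⟩, ⟨.negSucc 7387, .negSucc 798, .ofNat 232, .negSucc 381, .negSucc 35, .ofNat 569⟩, ⟨.negSucc 1127, .ofNat 401, .negSucc 215, .ofNat 428, .negSucc 31, .ofNat 125⟩, .ofNat 683, .ofNat 756, .ofNat 0, .ofNat 756, .ofNat 1651, .ofNat 0, .ofNat 128, .negSucc 744, .negSucc 621, .ofNat 0, .ofNat 466, .ofNat 356, .ofNat 0, .ofNat 0, .ofNat 929, .ofNat 31599, .ofNat 19287043720271479725252525141180988307231461735399424, .ofNat 0, .ofNat 117538918343885366521840950170173376305299456, .ofNat 0, .ofNat 21286896137903556254756956056827801448880348537552896,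 .ofNat 0, .ofNat 13907050302310836033552146419120136944009347072, .ofNat 0, .ofNat 0, .ofNat 0, .ofNat 0, .ofNat 0, .ofNat 0, .ofNat 0, .ofNat 0, .ofNat 0⟩)
    (by decide +kernel)
theorem L02536 : Good (Phi V5.P V5.D (-1) (-1)) ⟨5, 26, 4, 7, 3, 5, 4, 1, 5, 4⟩ :=
  leafX_sound T5.ok_mm T5.Ymm.bz_eq (w := 246) (c := ⟨⟨.negSucc 4618, .negSucc 673, .ofNat 184, .negSucc 236, .ofNat 124, .ofNat 381⟩, ⟨.ofNat 2281, .ofNat 433, .ofNat 80, .ofNat 133, .negSucc 67, .negSucc 197⟩, ⟨.ofNat 2761, .ofNat 498, .negSucc 226, .ofNat 380, .negSucc 125, .negSucc 28⟩, ⟨.negSucc 7610, .negSucc 629, .ofNat 174, .negSucc 253, .ofNat 143, .ofNat 599⟩, ⟨.negSucc 976, .ofNat 294, .negSucc 167, .ofNat 218, .negSucc 82, .ofNat 61⟩, .ofNat 661, .ofNat 716, .ofNat 0, .ofNat 716, .ofNat 1581, .ofNat 0, .ofNat 128, .negSucc 504, .negSucc 553, .ofNat 0, .ofNat 318, .ofNat 312, .ofNat 0, .ofNat 0, .ofNat 785, .ofNat 14597, .ofNat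 0, .ofNat 0, .ofNat 0, .ofNat 0, .ofNat 0, .ofNat 0, .ofNat 243596768624230704364663193999665968210509824, .ofNat 0, .ofNat 0, .ofNat 0, .ofNat 5569509261679191343395244732803026492699181056, .ofNat 0, .ofNat 0, .ofNat 0, .ofNat 7754046765980058455303691512884925358919385088, .ofNat 0⟩)
    (by decide +kernel)
theorem L02537 : Good (Phi V5.P V5.D (-1) (-1)) ⟨5, 27, 4, 7, 3, 5, 5, 0, 5, 4⟩ :=
  leafX_sound T5.ok_mm T5.Ymm.bz_eq (w := 255) (c := ⟨⟨.negSucc 5728, .negSucc 1730, .ofNat 478, .negSucc 617, .ofNat 77, .ofNat 786⟩, ⟨.ofNat 2959, .ofNat 1137, .negSucc 95, .ofNat 394, .negSucc 48, .negSucc 444⟩, ⟨.ofNat 3130, .ofNat 1094, .negSucc 452, .ofNat 1225, .negSucc 98, .negSucc 175⟩, ⟨.negSucc 8903, .negSucc 1606, .ofNat 500, .negSucc 267, .ofNat 48, .ofNat 1007⟩, ⟨.negSucc 656, .ofNat 1117, .negSucc 369, .ofNat 1170, .negSucc 160, .negSucc 257⟩, .ofNat 1223, .ofNat 1628, .ofNat 0, .ofNat 1628, .ofNat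 3081, .ofNat 0, .ofNat 128, .negSucc 960, .negSucc 771, .ofNat 0, .ofNat 599, .ofNat 460, .ofNat 0, .ofNat 0, .ofNat 897, .ofNat 732459, .ofNat 1352929997671586055482515059857876668041970649032294400, .ofNat 0, .ofNat 6184302275682991526674072575124038570001563648, .ofNat 0, .ofNat 1835782274916907229699060959198571609599183597265223680, .ofNat 0, .ofNat 132782054400428403066422668152674054631623491584, .ofNat 0, .ofNat 8955424810721658040798149066588794557171959097915867136, .ofNat 0, .ofNat 359204185002787028165739161759745372897167802368, .ofNat 0, .ofNat 2874045851850813913902444247797813488648471616329613312, .ofNat 0, .ofNat 223597058797511069901999583454231226410948624384, .ofNat 0⟩)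
    (by decide +kernel)
theorem L02538 : Good (Phi V5.P V5.D (-1) (-1)) ⟨5, 27, 4, 7, 3, 5, 5, 1, 5, 4⟩ :=
  leafX_sound T5.ok_mm T5.Ymm.bz_eq (w := 252) (c := ⟨⟨.negSucc 5402, .negSucc 1226, .ofNat 391, .negSucc 646, .ofNat 57, .ofNat 437⟩, ⟨.ofNat 2782, .ofNat 795, .negSucc 40, .ofNat 387, .negSucc 32, .negSucc 240⟩, ⟨.ofNat 3185, .ofNat 769, .negSucc 306, .ofNat 737, .negSucc 22, .negSucc 0⟩, ⟨.negSucc 8366, .negSucc 1201, .ofNat 423, .negSucc 609, .ofNat 38, .ofNat 647⟩, ⟨.negSucc 632, .ofNat 563, .negSucc 236, .ofNat 632, .negSucc 91, .ofNat 4⟩, .ofNat 1681, .ofNat 2408, .ofNat 0, .ofNat 2408, .ofNat 4433, .ofNat 0, .ofNat 128, .negSucc 1025, .negSucc 851, .ofNat 0, .ofNat 633, .ofNat 504, .ofNat 0, .ofNat 0, .ofNat 1199, .ofNat 42207, .ofNat 27600345103024085999356103601342998594898268264595456, .ofNat 0, .ofNat 524670859889584141590688827176246057929539584, .ofNat 0, .ofNat 100107905004659971581953705981144547384482263969300480,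 .ofNat 0, .ofNat 305602707579969832399082219897176320261035655168, .ofNat 0, .ofNat 0, .ofNat 0, .ofNat 301571090059224325391087599536394886587378302976, .ofNat 0, .ofNat 0, .ofNat 0, .ofNat 138628158310912168287516260881461031600237051904, .ofNat 0⟩)
    (by decide +kernel)
theorem L02539 : Good (Phi V5.P V5.D (-1) (-1)) ⟨5, 27, 4, 7, 3, 5, 4, 1, 5, 4⟩ :=
  leafX_sound T5.ok_mm T5.Ymm.bz_eq (w := 247) (c := ⟨⟨.negSucc 5545, .negSucc 1393, .ofNat 543, .negSucc 358, .negSucc 21, .ofNat 485⟩, ⟨.ofNat 2865, .ofNat 888, .negSucc 126, .ofNat 213, .ofNat 11, .negSucc 264⟩, ⟨.ofNat 3370, .ofNat 1073, .negSucc 461, .ofNat 464, .ofNat 11, .negSucc 44⟩, ⟨.negSucc 8538, .negSucc 1322, .ofNat 582, .negSucc 347, .negSucc 54, .ofNat 762⟩, ⟨.negSucc 569, .ofNat 803, .negSucc 358, .ofNat 337, .negSucc 42, .ofNat 82⟩, .ofNat 1999, .ofNat 2949, .ofNat 0, .ofNat 2949, .ofNat 5363, .ofNat 0, .ofNat 128, .negSucc 1016,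 .negSucc 1214, .ofNat 0, .ofNat 625, .ofNat 714, .ofNat 0, .ofNat 0, .ofNat 1618, .ofNat 18989, .ofNat 0, .ofNat 0, .ofNat 0, .ofNat 0, .ofNat 0, .ofNat 0, .ofNat 19798225623773476784150024462916258529621835776, .ofNat 0, .ofNat 0, .ofNat 0, .ofNat 24666313895895436005940415523435322072887197696, .ofNat 0, .ofNat 0, .ofNat 0, .ofNat 10849523100056580078334901201335892320989478912, .ofNat 0⟩)
    (by decide +kernel)
theorem L02540 : Good (Phi V5.P V5.D (-1) (-1)) ⟨4, 13, 4, 7, 3, 5, 3, 1, 5, 4⟩ :=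
  leafX_sound T5.ok_mm T5.Ymm.bz_eq (w := 237) (c := ⟨⟨.negSucc 4581, .negSucc 1492, .ofNat 117, .negSucc 44, .ofNat 162, .ofNat 404⟩, ⟨.ofNat 2268, .ofNat 931, .ofNat 126, .ofNat 19, .negSucc 86, .negSucc 212⟩, ⟨.ofNat 2834, .ofNat 1030, .negSucc 144, .ofNat 108, .negSucc 135, .negSucc 127⟩, ⟨.negSucc 7501, .negSucc 1525, .ofNat 73, .negSucc 145, .ofNat 189, .ofNat 671⟩, ⟨.negSucc 858, .ofNat 448, .negSucc 169, .negSucc 161, .negSucc 116, .ofNat 144⟩, .ofNat 1221, .ofNat 1690, .ofNat 0, .ofNat 1690, .ofNat 3356, .ofNat 0, .ofNat 128, .negSucc 662, .negSucc 672, .ofNat 0, .ofNat 395, .ofNat 372, .ofNat 0, .ofNat 0, .ofNat 871, .ofNat 2448, .ofNat 0, .ofNat 0, .ofNat 4158942895309058980560664557810976508870656, .ofNat 0, .ofNat 0, .ofNat 0, .ofNat 861040156935778127303222839442349995589632000, .ofNat 0, .ofNat 0, .ofNat 0, .ofNat 1336513191847415491471479067255934935237656576, .ofNat 0, .ofNat 0,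 .ofNat 0, .ofNat 605122616582659471524447306400983159201071104, .ofNat 0⟩)
    (by decide +kernel)
theorem L02541 : Good (Phi V5.P V5.D (-1) (-1)) ⟨4, 13, 4, 7, 3, 5, 4, 0, 5, 5⟩ :=
  leafX_sound T5.ok_mm T5.Ymm.bz_eq (w := 243) (c := ⟨⟨.negSucc 4407, .negSucc 1139, .ofNat 149, .negSucc 27, .ofNat 34, .ofNat 770⟩, ⟨.ofNat 2158, .ofNat 749, .ofNat 90, .ofNat 24, .ofNat 3, .negSucc 419⟩, ⟨.ofNat 2931, .ofNat 845, .negSucc 207, .ofNat 299, .negSucc 112, .negSucc 350⟩, ⟨.negSucc 7291, .negSucc 1007, .ofNat 141, .ofNat 66, .ofNat 80, .ofNat 1008⟩, ⟨.negSucc 918, .ofNat 458, .negSucc 117, .ofNat 206, .ofNat 1, .negSucc 273⟩, .ofNat 923, .ofNat 1162, .ofNat 0, .ofNat 1162, .ofNat 2384, .ofNat 0, .ofNat 128, .negSucc 568, .negSucc 232, .ofNat 0, .ofNat 359, .ofNat 134, .ofNat 0, .ofNat 0, .ofNat 444, .ofNat 55125, .ofNat 387510821496126027556859484088674541092387703226368, .ofNat 0, .ofNat 314867661171180145806299085904415809674936320,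 .ofNat 0, .ofNat 869985244398853981232401630022287017495946952966144, .ofNat 0, .ofNat 4922929312533532771183082239797610996098400256, .ofNat 0, .ofNat 0, .ofNat 0, .ofNat 12655606290183572483195247511346248180452818944, .ofNat 0, .ofNat 1518622476534792113824192106660537570696052579762176, .ofNat 0, .ofNat 7093220548936670299684751327014626925387710464, .ofNat 0⟩)
    (by decide +kernel)
theorem L02542 : Good (Phi V5.P V5.D (-1) (-1)) ⟨4, 13, 4, 7, 3, 5, 4, 1, 5, 5⟩ :=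
  leafX_sound T5.ok_mm T5.Ymm.bz_eq (w := 243) (c := ⟨⟨.negSucc 4507, .negSucc 766, .ofNat 74, .ofNat 125, .ofNat 74, .ofNat 675⟩, ⟨.ofNat 2247, .ofNat 516, .ofNat 131, .negSucc 67, .negSucc 42, .negSucc 364⟩, ⟨.ofNat 3024, .ofNat 604, .negSucc 161, .ofNat 23, .negSucc 134, .negSucc 301⟩, ⟨.negSucc 7306, .negSucc 624, .ofNat 59, .ofNat 143, .ofNat 80, .ofNat 939⟩, ⟨.negSucc 751, .ofNat 201, .negSucc 55, .negSucc 67, .negSucc 61, .negSucc 122⟩, .ofNat 645, .ofNat 669, .ofNat 0, .ofNat 669, .ofNat 1429, .ofNat 0, .ofNat 128, .negSucc 605, .negSucc 393, .ofNat 0, .ofNat 415, .ofNat 237, .ofNat 0, .ofNat 0, .ofNat 703, .ofNat 25646, .ofNat 0, .ofNat 0, .ofNat 0, .ofNat 0, .ofNat 0, .ofNat 0, .ofNat 4735340622377439049041052178795949521681514496, .ofNat 0, .ofNat 0, .ofNat 0, .ofNat 35768600208683974636603931646092824168378662912, .ofNat 0, .ofNat 0, .ofNat 0, .ofNat 17682025561628053563242876293341396298656382976,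 .ofNat 0⟩)
    (by decide +kernel)
theorem L02543 : Good (Phi V5.P V5.D (-1) (-1)) ⟨4, 13, 4, 7, 3, 5, 3, 1, 5, 5⟩ :=
  leafX_sound T5.ok_mm T5.Ymm.bz_eq (w := 238) (c := ⟨⟨.negSucc 4484, .negSucc 952, .ofNat 139, .ofNat 248, .ofNat 172, .ofNat 652⟩, ⟨.ofNat 2237, .ofNat 621, .ofNat 89, .negSucc 140, .negSucc 93, .negSucc 349⟩, ⟨.ofNat 2992, .ofNat 780, .negSucc 216, .negSucc 188, .negSucc 216, .negSucc 332⟩, ⟨.negSucc 7258, .negSucc 863, .ofNat 130, .ofNat 231, .ofNat 217, .ofNat 926⟩, ⟨.negSucc 721, .ofNat 293, .negSucc 101, .negSucc 265, .negSucc 77, .negSucc 97⟩, .ofNat 645, .ofNat 669, .ofNat 0, .ofNat 669, .ofNat 1429, .ofNat 0, .ofNat 128, .negSucc 417, .negSucc 443, .ofNat 0, .ofNat 285, .ofNat 258, .ofNat 0, .ofNat 0, .ofNat 702, .ofNat 8719, .ofNat 0, .ofNat 0, .ofNat 0, .ofNat 0, .ofNat 0, .ofNat 0, .ofNat 303384830827610059854922149691386864695508992, .ofNat 0, .ofNat 0, .ofNat 0, .ofNat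 1286601856027470141841150003619106012595748864, .ofNat 0, .ofNat 0, .ofNat 0, .ofNat 463099708060783538811372331843809000518844416, .ofNat 0⟩)
    (by decide +kernel)
theorem L02544 : Good (Phi V5.P V5.D (-1) (-1)) ⟨4, 12, 4, 7, 3, 5, 2, 0, 4, 3⟩ :=
  leafX_sound T5.ok_mm T5.Ymm.bz_eq (w := 231) (c := ⟨⟨.negSucc 4028, .negSucc 1, .ofNat 24, .ofNat 364, .ofNat 308, .ofNat 867⟩, ⟨.ofNat 1991, .ofNat 1, .ofNat 115, .negSucc 191, .negSucc 154, .negSucc 435⟩, ⟨.ofNat 3125, .ofNat 1, .ofNat 185, .negSucc 355, .negSucc 662, .negSucc 478⟩, ⟨.negSucc 6625, .negSucc 2, .ofNat 7, .ofNat 398, .ofNat 464, .ofNat 1289⟩, ⟨.negSucc 812, .negSucc 0, .negSucc 0, .negSucc 328, .negSucc 21, .negSucc 95⟩, .ofNat 2599, .ofNat 4408, .ofNat 0, .ofNat 4408, .ofNat 8814, .ofNat 0, .ofNat 128, .negSucc 1166, .negSucc 640, .ofNat 0, .ofNat 664, .ofNat 337, .ofNat 0, .ofNat 0, .ofNat 1960, .ofNat 27402, .ofNat 137361242720139565989549573733926400542602428416,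 .ofNat 0, .ofNat 133451227264844241872761939854102592749568, .ofNat 0, .ofNat 690279548942045531651140537035029735215474933760, .ofNat 0, .ofNat 18152084022817907471446593708183825718181888, .ofNat 0, .ofNat 0, .ofNat 0, .ofNat 46672691070663191609234159402247776427311104, .ofNat 0, .ofNat 0, .ofNat 0, .ofNat 47623660021659469762034512634793068146458624, .ofNat 0⟩)
    (by decide +kernel)
theorem L02545 : Good (Phi V5.P V5.D (-1) (-1)) ⟨4, 13, 4, 7, 3, 5, 3, 0, 4, 3⟩ :=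
  leafX_sound T5.ok_mm T5.Ymm.bz_eq (w := 234) (c := ⟨⟨.negSucc 4064, .negSucc 375, .ofNat 16, .ofNat 365, .ofNat 74, .ofNat 1069⟩, ⟨.ofNat 2032, .ofNat 256, .ofNat 145, .negSucc 204, .negSucc 38, .negSucc 574⟩, ⟨.ofNat 3176, .ofNat 330, .negSucc 107, .negSucc 264, .negSucc 387, .negSucc 569⟩, ⟨.negSucc 6627, .negSucc 224, .negSucc 8, .ofNat 393, .ofNat 89, .ofNat 1518⟩, ⟨.negSucc 776, .ofNat 24, .negSucc 16, .negSucc 285, .negSucc 46, .negSucc 164⟩, .ofNat 667, .ofNat 719, .ofNat 0, .ofNat 719, .ofNat 1561, .ofNat 0, .ofNat 128, .negSucc 479, .negSucc 191, .ofNat 0, .ofNat 338, .ofNat 113, .ofNat 0, .ofNat 0, .ofNat 560, .ofNat 28371, .ofNat 1537821743460394676392799674186433675296858177536, .ofNat 0, .ofNat 341026812213021316526002304824172359974912, .ofNat 0, .ofNat 0, .ofNat 0, .ofNat 6672769630551331653145236269168758083289088, .ofNat 0, .ofNat 0, .ofNat 0, .ofNat 35344095987776878783333799702705177819611136,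 .ofNat 0, .ofNat 13366129259433870422322411574516338905126082183168, .ofNat 0, .ofNat 14169403384131952357895009038311910484738048, .ofNat 0⟩)
    (by decide +kernel)
theorem L02546 : Good (Phi V5.P V5.D (-1) (-1)) ⟨4, 13, 4, 7, 3, 5, 3, 1, 4, 3⟩ :=
  leafX_sound T5.ok_mm T5.Ymm.bz_eq (w := 233) (c := ⟨⟨.negSucc 3963, .negSucc 333, .negSucc 1, .ofNat 394, .ofNat 163, .ofNat 951⟩, ⟨.ofNat 1981, .ofNat 229, .ofNat 148, .negSucc 218, .negSucc 87, .negSucc 503⟩, ⟨.ofNat 2858, .ofNat 273, .negSucc 90, .negSucc 382, .negSucc 312, .negSucc 552⟩, ⟨.negSucc 6495, .negSucc 215, .negSucc 24, .ofNat 405, .ofNat 236, .ofNat 1413⟩, ⟨.negSucc 820, .negSucc 65, .ofNat 15, .negSucc 360, .negSucc 10, .negSucc 40⟩, .ofNat 670, .ofNat 728, .ofNat 0, .ofNat 728, .ofNat 1589, .ofNat 0, .ofNat 128, .negSucc 358, .negSucc 192, .ofNat 0, .ofNat 249, .ofNat 110, .ofNat 0, .ofNat 0, .ofNat 540, .ofNat 8330, .ofNat 0, .ofNat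 0, .ofNat 0, .ofNat 0, .ofNat 0, .ofNat 0, .ofNat 4360769866317837589961480585678551938760704, .ofNat 0, .ofNat 0, .ofNat 0, .ofNat 31859605329756645889766021410657265743036416, .ofNat 0, .ofNat 0, .ofNat 0, .ofNat 7009609569295100932728768798654143219630080, .ofNat 0⟩)
    (by decide +kernel)
theorem L02547 : Good (Phi V5.P V5.D (-1) (-1)) ⟨5, 24, 4, 7, 3, 6, 3, 0, 5, 4⟩ :=
  out_sound (S := T5.ds_mm) T5.ok_mm (w := 59) (j := 3) (by decide +kernel)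
theorem L02548 : Good (Phi V5.P V5.D (-1) (-1)) ⟨5, 25, 4, 7, 3, 6, 5, 0, 5, 4⟩ :=
  leafX_sound T5.ok_mm T5.Ymm.bz_eq (w := 254) (c := ⟨⟨.negSucc 5167, .negSucc 1, .negSucc 74, .ofNat 394, .ofNat 92, .ofNat 759⟩, ⟨.ofNat 2579, .ofNat 1, .ofNat 200, .negSucc 191, .negSucc 50, .negSucc 391⟩, ⟨.ofNat 3735, .ofNat 2, .ofNat 130, .ofNat 646, .negSucc 222, .negSucc 513⟩, ⟨.negSucc 8086, .negSucc 3, .negSucc 51, .ofNat 699, .ofNat 74, .ofNat 967⟩, ⟨.negSucc 227, .ofNat 0, .ofNat 44, .ofNat 193, .negSucc 132, .negSucc 403⟩, .ofNat 929, .ofNat 1225, .ofNat 0, .ofNat 1225, .ofNat 2657, .ofNat 0, .ofNat 128, .negSucc 950, .negSucc 1372, .ofNat 0, .ofNat 589, .ofNat 734, .ofNat 0, .ofNat 0, .ofNat 2297, .ofNat 510744, .ofNat 921343827822607637235662849746886973523274798846705664, .ofNat 0, .ofNat 7082372257948262907860687873175202167414325248, .ofNat 0, .ofNat 0, .ofNat 0, .ofNat 114439770426958384668630757224961712647116423168,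 .ofNat 0, .ofNat 0, .ofNat 0, .ofNat 1950049920712292926191313788847277905212338077696, .ofNat 0, .ofNat 3859614196591771845235831836068038250596813018962591744, .ofNat 0, .ofNat 2879654251377491760656463126632643273205567455232, .ofNat 0⟩)
    (by decide +kernel)
theorem L02549 : Good (Phi V5.P V5.D (-1) (-1)) ⟨5, 25, 4, 7, 3, 6, 5, 1, 5, 4⟩ :=
  leafX_sound T5.ok_mm T5.Ymm.bz_eq (w := 253) (c := ⟨⟨.negSucc 5083, .negSucc 1, .ofNat 101, .ofNat 524, .ofNat 104, .ofNat 616⟩, ⟨.ofNat 2532, .ofNat 1, .ofNat 116, .negSucc 259, .negSucc 55, .negSucc 315⟩, ⟨.ofNat 3591, .ofNat 2, .ofNat 59, .ofNat 385, .negSucc 207, .negSucc 337⟩, ⟨.negSucc 8021, .negSucc 3, .ofNat 73, .ofNat 839, .ofNat 81, .ofNat 818⟩, ⟨.negSucc 350, .ofNat 0, .negSucc 29, .ofNat 69, .negSucc 159, .negSucc 262⟩, .ofNat 930, .ofNat 1226, .ofNat 0, .ofNat 1226, .ofNat 2658, .ofNat 0, .ofNat 128, .negSucc 879, .negSucc 1317, .ofNat 0,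 .ofNat 537, .ofNat 707, .ofNat 0, .ofNat 0, .ofNat 2173, .ofNat 141102, .ofNat 0, .ofNat 0, .ofNat 9093328340544632626019910352844407596562513920, .ofNat 0, .ofNat 0, .ofNat 0, .ofNat 46837930169916229390780043351083186566679494656, .ofNat 0, .ofNat 0, .ofNat 0, .ofNat 1539164766301291911751705073771920630593538228224, .ofNat 0, .ofNat 0, .ofNat 0, .ofNat 2108711047364696604314890387520937263290294206464, .ofNat 0⟩)
    (by decide +kernel)
theorem L02550 : Good (Phi V5.P V5.D (-1) (-1)) ⟨5, 25, 4, 7, 3, 6, 4, 1, 5, 4⟩ :=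
  leafX_sound T5.ok_mm T5.Ymm.bz_eq (w := 250) (c := ⟨⟨.negSucc 4922, .negSucc 1, .ofNat 370, .ofNat 631, .ofNat 227, .ofNat 484⟩, ⟨.ofNat 2446, .ofNat 1, .negSucc 23, .negSucc 317, .negSucc 121, .negSucc 245⟩, ⟨.ofNat 3391, .ofNat 1, .negSucc 612, .ofNat 154, .negSucc 354, .negSucc 241⟩, ⟨.negSucc 7866, .negSucc 2, .ofNat 90, .ofNat 931, .ofNat 213, .ofNat 680⟩, ⟨.negSucc 543, .ofNat 0, .negSucc 43, .negSucc 82, .negSucc 274, .negSucc 136⟩, .ofNat 2601, .ofNat 4412, .ofNat 0, .ofNat 4412, .ofNat 8822, .ofNat 0, .ofNat 128, .negSucc 1354, .negSucc 2729, .ofNat 0, .ofNat 763, .ofNat 1431, .ofNat 0, .ofNat 0, .ofNat 4156, .ofNat 35260, .ofNat 0, .ofNat 0, .ofNat 0, .ofNat 0, .ofNat 0, .ofNat 0, .ofNat 23430457267913420475053327433239808995194044416, .ofNat 0, .ofNat 0, .ofNat 0, .ofNat 38510231419158752996167619800919816453671092224, .ofNat 0, .ofNat 0, .ofNat 0, .ofNat 0, .ofNat 0⟩)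
    (by decide +kernel)
theorem L02551 : Good (Phi V5.P V5.D (-1) (-1)) ⟨5, 26, 4, 7, 3, 6, 5, 0, 6, 8⟩ :=
  leafX_sound T5.ok_mm T5.Ymm.bz_eq (w := 257) (c := ⟨⟨.negSucc 5327, .negSucc 1054, .ofNat 491, .ofNat 542, .ofNat 189, .ofNat 384⟩, ⟨.ofNat 2669, .ofNat 687, .negSucc 107, .negSucc 279, .negSucc 105, .negSucc 205⟩, ⟨.ofNat 3915, .ofNat 794, .negSucc 459, .ofNat 590, .negSucc 404, .negSucc 219⟩, ⟨.negSucc 8224, .negSucc 954, .ofNat 554, .ofNat 866, .ofNat 126, .ofNat 498⟩, ⟨.negSucc 35, .ofNat 726, .negSucc 364, .ofNat 111, .negSucc 333, .negSucc 155⟩, .ofNat 683, .ofNat 756, .ofNat 0, .ofNat 756, .ofNat 1651, .ofNat 0, .ofNat 128, .negSucc 705, .negSucc 690, .ofNat 0, .ofNat 471, .ofNat 400, .ofNat 0, .ofNat 0, .ofNat 994, .ofNat 134359, .ofNat 1664630266359350282360809075934293311131894675658506240, .ofNat 0, .ofNat 90381742767213005510470586136289131075666444288, .ofNat 0, .ofNat 210896963036690445876141446402475498312099742976311296,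 .ofNat 0, .ofNat 913285739668764928614405518954175193835982815232, .ofNat 0, .ofNat 5160216649251647964882245985446662046584133487305949184, .ofNat 0, .ofNat 4562151333020954077230528763016216813493572075520, .ofNat 0, .ofNat 3488227293224166217239724835759712888681929120830980096, .ofNat 0, .ofNat 4455076510952941830812246673363138631705829572608, .ofNat 0⟩)
    (by decide +kernel)
theorem L02552 : Good (Phi V5.P V5.D (-1) (-1)) ⟨5, 26, 4, 7, 3, 6, 5, 1, 6, 8⟩ :=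
  leafX_sound T5.ok_mm T5.Ymm.bz_eq (w := 255) (c := ⟨⟨.negSucc 5158, .negSucc 1046, .ofNat 529, .ofNat 601, .ofNat 182, .ofNat 348⟩, ⟨.ofNat 2581, .ofNat 677, .negSucc 132, .negSucc 312, .negSucc 108, .negSucc 188⟩, ⟨.ofNat 3576, .ofNat 803, .negSucc 514, .ofNat 457, .negSucc 251, .negSucc 194⟩, ⟨.negSucc 8077, .negSucc 991, .ofNat 566, .ofNat 912, .ofNat 144, .ofNat 441⟩, ⟨.negSucc 329, .ofNat 695, .negSucc 412, .ofNat 48, .negSucc 252, .negSucc 121⟩, .ofNat 350, .ofNat 233, .ofNat 0, .ofNat 233, .ofNat 651, .ofNat 0, .ofNat 128, .negSucc 365, .negSucc 577, .ofNat 0, .ofNat 289, .ofNat 348, .ofNat 0, .ofNat 0, .ofNat 684, .ofNat 25864, .ofNat 0, .ofNat 0, .ofNat 0, .ofNat 0, .ofNat 0, .ofNat 0, .ofNat 83049096632852608173503207595184889764241211392, .ofNat 0, .ofNat 0, .ofNat 0, .ofNat 1013148766499303399964183972689705015487496192000, .ofNat 0, .ofNat 0, .ofNat 0, .ofNat 1713321445210397802821041050736036542784148078592,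 .ofNat 0⟩)
    (by decide +kernel)
theorem L02553 : Good (Phi V5.P V5.D (-1) (-1)) ⟨5, 26, 4, 7, 3, 6, 4, 1, 6, 8⟩ :=
  leafX_sound T5.ok_mm T5.Ymm.bz_eq (w := 250) (c := ⟨⟨.negSucc 5116, .negSucc 868, .ofNat 417, .ofNat 801, .ofNat 372, .ofNat 276⟩, ⟨.ofNat 2565, .ofNat 547, .negSucc 51, .negSucc 428, .negSucc 217, .negSucc 146⟩, ⟨.ofNat 3522, .ofNat 655, .negSucc 422, .ofNat 124, .negSucc 450, .negSucc 187⟩, ⟨.negSucc 8073, .negSucc 858, .ofNat 462, .ofNat 1143, .ofNat 328, .ofNat 385⟩, ⟨.negSucc 431, .ofNat 400, .negSucc 296, .negSucc 100, .negSucc 420, .negSucc 36⟩, .ofNat 661, .ofNat 716, .ofNat 0, .ofNat 716, .ofNat 1587, .ofNat 0, .ofNat 128, .negSucc 631, .negSucc 1005, .ofNat 0, .ofNat 415, .ofNat 563, .ofNat 0, .ofNat 0, .ofNat 1286, .ofNat 7500, .ofNat 0, .ofNat 0, .ofNat 0, .ofNat 0, .ofNat 0, .ofNat 0, .ofNat 15577814432219924890264644381912668327957757952, .ofNat 0, .ofNat 0, .ofNat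 0, .ofNat 0, .ofNat 0, .ofNat 0, .ofNat 0, .ofNat 0, .ofNat 0⟩)
    (by decide +kernel)
theorem L02554 : Good (Phi V5.P V5.D (-1) (-1)) ⟨6, 52, 4, 7, 3, 6, 5, 0, 6, 9⟩ :=
  leafX_sound T5.ok_mm T5.Ymm.bz_eq (w := 263) (c := ⟨⟨.negSucc 5140, .negSucc 311, .ofNat 314, .ofNat 696, .ofNat 185, .ofNat 459⟩, ⟨.ofNat 2580, .ofNat 207, .negSucc 15, .negSucc 358, .negSucc 103, .negSucc 243⟩, ⟨.ofNat 3909, .ofNat 269, .negSucc 328, .ofNat 269, .negSucc 357, .negSucc 329⟩, ⟨.negSucc 7955, .negSucc 258, .ofNat 341, .ofNat 1007, .ofNat 161, .ofNat 556⟩, ⟨.negSucc 79, .ofNat 191, .negSucc 237, .negSucc 105, .negSucc 233, .negSucc 282⟩, .ofNat 660, .ofNat 724, .ofNat 0, .ofNat 724, .ofNat 1636, .ofNat 0, .ofNat 128, .negSucc 775, .negSucc 846, .ofNat 0, .ofNat 539, .ofNat 470, .ofNat 0, .ofNat 0, .ofNat 1485, .ofNat 479439, .ofNat 96007858119253607302921466640442218469553052219667906560, .ofNat 0, .ofNat 60034492423361216566482272215904826188265160704,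 .ofNat 0, .ofNat 17544543634461039933003737310409470830007656488529559552, .ofNat 0, .ofNat 206708803447336057496227571851189446967954505728, .ofNat 0, .ofNat 0, .ofNat 0, .ofNat 0, .ofNat 0, .ofNat 397920644048282195177053279150848098650365203159801921536, .ofNat 0, .ofNat 995376272180414585282826815200007647293163438080, .ofNat 0⟩)
    (by decide +kernel)
theorem L02555 : Good (Phi V5.P V5.D (-1) (-1)) ⟨6, 52, 4, 7, 3, 6, 5, 1, 6, 9⟩ :=
  leafX_sound T5.ok_mm T5.Ymm.bz_eq (w := 261) (c := ⟨⟨.negSucc 4856, .negSucc 345, .ofNat 291, .ofNat 641, .ofNat 127, .ofNat 380⟩, ⟨.ofNat 2422, .ofNat 222, .ofNat 8, .negSucc 327, .negSucc 72, .negSucc 200⟩, ⟨.ofNat 3505, .ofNat 281, .negSucc 354, .ofNat 247, .negSucc 239, .negSucc 219⟩, ⟨.negSucc 7701, .negSucc 309, .ofNat 322, .ofNat 969, .ofNat 100, .ofNat 488⟩, ⟨.negSucc 431, .ofNat 202, .negSucc 204, .negSucc 11, .negSucc 180, .negSucc 181⟩, .ofNat 704,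 .ofNat 806, .ofNat 0, .ofNat 806, .ofNat 1781, .ofNat 0, .ofNat 128, .negSucc 550, .negSucc 774, .ofNat 0, .ofNat 364, .ofNat 434, .ofNat 0, .ofNat 0, .ofNat 1307, .ofNat 120383, .ofNat 5208336421621119338601978895723101158331724850951880704, .ofNat 0, .ofNat 10674288448815214436874381393509453272774082560, .ofNat 0, .ofNat 0, .ofNat 0, .ofNat 128640132530566194126473450423468771885895909376, .ofNat 0, .ofNat 0, .ofNat 0, .ofNat 0, .ofNat 0, .ofNat 0, .ofNat 0, .ofNat 0, .ofNat 0⟩)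
    (by decide +kernel)
theorem L02556 : Good (Phi V5.P V5.D (-1) (-1)) ⟨6, 52, 4, 7, 3, 6, 4, 1, 6, 9⟩ :=
  leafX_sound T5.ok_mm T5.Ymm.bz_eq (w := 256) (c := ⟨⟨.negSucc 4817, .negSucc 288, .ofNat 283, .ofNat 764, .ofNat 221, .ofNat 346⟩, ⟨.ofNat 2404, .ofNat 181, .ofNat 13, .negSucc 394, .negSucc 121, .negSucc 181⟩, ⟨.ofNat 3417, .ofNat 226, .negSucc 312, .negSucc 9, .negSucc 378, .negSucc 189⟩, ⟨.negSucc 7680, .negSucc 272, .ofNat 314, .ofNat 1088, .ofNat 196, .ofNat 462⟩, ⟨.negSucc 513, .ofNat 121, .negSucc 188, .negSucc 154, .negSucc 273, .negSucc 132⟩, .ofNat 661, .ofNat 725, .ofNat 0, .ofNat 725, .ofNat 1636, .ofNat 0, .ofNat 128, .negSucc 475, .negSucc 1042, .ofNat 0, .ofNat 318, .ofNat 575, .ofNat 0, .ofNat 0, .ofNat 1636, .ofNat 37376, .ofNat 0, .ofNat 0, .ofNat 0, .ofNat 0, .ofNat 0, .ofNat 0, .ofNat 4867283533037592830021896965346132112032399360, .ofNat 0, .ofNat 0, .ofNat 0, .ofNat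 0, .ofNat 0, .ofNat 0, .ofNat 0, .ofNat 0, .ofNat 0⟩)
    (by decide +kernel)
theorem L02557 : Good (Phi V5.P V5.D (-1) (-1)) ⟨6, 53, 4, 7, 3, 6, 5, 0, 6, 9⟩ :=
  leafX_sound T5.ok_mm T5.Ymm.bz_eq (w := 263) (c := ⟨⟨.negSucc 5659, .negSucc 358, .ofNat 354, .ofNat 877, .ofNat 209, .ofNat 539⟩, ⟨.ofNat 2933, .ofNat 247, .negSucc 45, .negSucc 479, .negSucc 127, .negSucc 300⟩, ⟨.ofNat 4238, .ofNat 305, .negSucc 372, .ofNat 196, .negSucc 321, .negSucc 394⟩, ⟨.negSucc 8392, .negSucc 284, .ofNat 373, .ofNat 1174, .ofNat 168, .ofNat 628⟩, ⟨.ofNat 281, .ofNat 243, .negSucc 278, .negSucc 254, .negSucc 255, .negSucc 342⟩, .ofNat 914, .ofNat 1135, .ofNat 0, .ofNat 1135, .ofNat 2303, .ofNat 0, .ofNat 128, .negSucc 720, .negSucc 683, .ofNat 0, .ofNat 489, .ofNat 395, .ofNat 0, .ofNat 0, .ofNat 1163, .ofNat 390230, .ofNat 79075326685054429634930070692036048197430509479365967872, .ofNat 0, .ofNat 0, .ofNat 0, .ofNat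 20083941613371127560546292374904642850068576701029285888, .ofNat 0, .ofNat 0, .ofNat 0, .ofNat 159057338223368994779230921094258064358199763698769199104, .ofNat 0, .ofNat 1842403561484059508031278789713717185569320075264, .ofNat 0, .ofNat 304427456893377972862127547835701670371906790399741526016, .ofNat 0, .ofNat 1069716217931054468210528905294139966809616416768, .ofNat 0⟩)
    (by decide +kernel)
theorem L02558 : Good (Phi V5.P V5.D (-1) (-1)) ⟨6, 53, 4, 7, 3, 6, 5, 1, 6, 9⟩ :=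
  leafX_sound T5.ok_mm T5.Ymm.bz_eq (w := 261) (c := ⟨⟨.negSucc 5388, .negSucc 319, .ofNat 286, .ofNat 841, .ofNat 124, .ofNat 521⟩, ⟨.ofNat 2769, .ofNat 219, .ofNat 3, .negSucc 458, .negSucc 75, .negSucc 292⟩, ⟨.ofNat 3930, .ofNat 232, .negSucc 318, .ofNat 133, .negSucc 232, .negSucc 348⟩, ⟨.negSucc 8176, .negSucc 263, .ofNat 306, .ofNat 1165, .ofNat 86, .ofNat 614⟩, ⟨.negSucc 76, .ofNat 183, .negSucc 209, .negSucc 166, .negSucc 179, .negSucc 310⟩, .ofNat 663, .ofNat 711, .ofNat 0, .ofNat 711, .ofNat 1534, .ofNat 0, .ofNat 128, .negSucc 720, .negSucc 618, .ofNat 0, .ofNat 504, .ofNat 365, .ofNat 0, .ofNat 0, .ofNat 968, .ofNat 73978, .ofNat 0, .ofNat 0, .ofNat 0, .ofNat 0, .ofNat 0, .ofNat 0, .ofNat 0, .ofNat 0, .ofNat 0, .ofNat 0, .ofNat 0, .ofNat 0, .ofNat 27984223246888356378637964870726383979046484537432342528, .ofNat 0, .ofNat 331116961611652288069419167421202985722618839040, .ofNat 0⟩)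
    (by decide +kernel)
theorem L02559 : Good (Phi V5.P V5.D (-1) (-1)) ⟨6, 53, 4, 7, 3, 6, 4, 1, 6, 9⟩ :=
  leafX_sound T5.ok_mm T5.Ymm.bz_eq (w := 256) (c := ⟨⟨.negSucc 5267, .negSucc 314, .ofNat 297, .ofNat 934, .ofNat 223, .ofNat 453⟩, ⟨.ofNat 2697, .ofNat 206, .ofNat 2, .negSucc 511, .negSucc 131, .negSucc 250⟩, ⟨.ofNat 3733, .ofNat 231, .negSucc 302, .negSucc 84, .negSucc 371, .negSucc 268⟩, ⟨.negSucc 8100, .negSucc 286, .ofNat 331, .ofNat 1258, .ofNat 171, .ofNat 575⟩, ⟨.negSucc 279, .ofNat 143, .negSucc 183, .negSucc 262, .negSucc 304, .negSucc 191⟩, .ofNat 665, .ofNat 713, .ofNat 0, .ofNat 713, .ofNat 1539, .ofNat 0, .ofNat 128, .negSucc 668, .negSucc 779, .ofNat 0, .ofNat 464, .ofNat 450, .ofNat 0, .ofNat 0, .ofNat 1163, .ofNat 40603, .ofNat 0, .ofNat 0, .ofNat 0, .ofNat 0, .ofNat 0, .ofNat 0, .ofNat 12687348921538448034716893790346203392689307648, .ofNat 0, .ofNat 0, .ofNat 0, .ofNat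 97998267916463506174843491621917268613152112640, .ofNat 0, .ofNat 0, .ofNat 0, .ofNat 113179093286319970765857608008483362372386291712, .ofNat 0⟩)
    (by decide +kernel)
theorem L02560 : Good (Phi V5.P V5.D (-1) (-1)) ⟨6, 54, 4, 7, 3, 6, 5, 0, 6, 8⟩ :=
  leafX_sound T5.ok_mm T5.Ymm.bz_eq (w := 262) (c := ⟨⟨.negSucc 6655, .negSucc 720, .ofNat 679, .ofNat 839, .ofNat 46, .ofNat 551⟩, ⟨.ofNat 3556, .ofNat 490, .negSucc 239, .negSucc 467, .negSucc 26, .negSucc 318⟩, ⟨.ofNat 4714, .ofNat 557, .negSucc 647, .ofNat 528, .negSucc 164, .negSucc 312⟩, ⟨.negSucc 9435, .negSucc 595, .ofNat 687, .ofNat 1198, .negSucc 5, .ofNat 649⟩, ⟨.ofNat 835, .ofNat 563, .negSucc 573, .negSucc 76, .negSucc 145, .negSucc 302⟩, .ofNat 1716, .ofNat 2460, .ofNat 0, .ofNat 2460, .ofNat 4507, .ofNat 0, .ofNat 128, .negSucc 945, .negSucc 1623, .ofNat 0, .ofNat 605, .ofNat 967, .ofNat 0, .ofNat 0, .ofNat 2193, .ofNat 209861, .ofNat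 43148067419791499268127163849778245319226535949407092736, .ofNat 0, .ofNat 48581374778597632051240164113053896717117685760, .ofNat 0, .ofNat 0, .ofNat 0, .ofNat 1403346042675669670169350785441684370432133693440, .ofNat 0, .ofNat 92009507894164608995592017734895080077266220196793679872, .ofNat 0, .ofNat 6720603473582184140367898243458287797966817198080, .ofNat 0, .ofNat 0, .ofNat 0, .ofNat 5339900622217211358401087697044796229862907969536, .ofNat 0⟩)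
    (by decide +kernel)
theorem L02561 : Good (Phi V5.P V5.D (-1) (-1)) ⟨6, 54, 4, 7, 3, 6, 5, 1, 6, 8⟩ :=
  leafX_sound T5.ok_mm T5.Ymm.bz_eq (w := 262) (c := ⟨⟨.negSucc 6515, .negSucc 574, .ofNat 539, .ofNat 940, .ofNat 190, .ofNat 505⟩, ⟨.ofNat 3463, .ofNat 391, .negSucc 141, .negSucc 528, .negSucc 118, .negSucc 290⟩, ⟨.ofNat 4565, .ofNat 445, .negSucc 554, .ofNat 283, .negSucc 249, .negSucc 284⟩, ⟨.negSucc 9348, .negSucc 523, .ofNat 574, .ofNat 1267, .ofNat 117, .ofNat 610⟩, ⟨.ofNat 600, .ofNat 320, .negSucc 398, .negSucc 220, .negSucc 296, .negSucc 248⟩, .ofNat 1229, .ofNat 1637, .ofNat 0, .ofNat 1637, .ofNat 3095, .ofNat 0, .ofNat 128, .negSucc 895, .negSucc 1183, .ofNat 0, .ofNat 578, .ofNat 705, .ofNat 0, .ofNat 0, .ofNat 1542, .ofNat 113215, .ofNat 0, .ofNat 0, .ofNat 0, .ofNat 0, .ofNat 0, .ofNat 0, .ofNat 875018098565708587457575791087111852217134481408, .ofNat 0, .ofNat 0, .ofNat 0,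 .ofNat 7043425000454727501507246811774263626390594125824, .ofNat 0, .ofNat 0, .ofNat 0, .ofNat 3013868825360992432034442622794610909126466732032, .ofNat 0⟩)
    (by decide +kernel)
theorem L02562 : Good (Phi V5.P V5.D (-1) (-1)) ⟨6, 54, 4, 7, 3, 6, 4, 1, 6, 8⟩ :=
  leafX_sound T5.ok_mm T5.Ymm.bz_eq (w := 257) (c := ⟨⟨.negSucc 6385, .negSucc 566, .ofNat 517, .ofNat 1128, .ofNat 354, .ofNat 449⟩, ⟨.ofNat 3383, .ofNat 377, .negSucc 128, .negSucc 642, .negSucc 217, .negSucc 255⟩, ⟨.ofNat 4449, .ofNat 400, .negSucc 474, .negSucc 100, .negSucc 427, .negSucc 282⟩, ⟨.negSucc 9278, .negSucc 516, .ofNat 546, .ofNat 1441, .ofNat 253, .ofNat 570⟩, ⟨.ofNat 343, .ofNat 322, .negSucc 356, .negSucc 410, .negSucc 491, .negSucc 166⟩, .ofNat 1698, .ofNat 2433, .ofNat 0, .ofNat 2433, .ofNat 4470, .ofNat 0, .ofNat 128, .negSucc 891, .negSucc 1235, .ofNat 0, .ofNat 565, .ofNat 725, .ofNat 0, .ofNat 0, .ofNat 1530, .ofNat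 37764, .ofNat 0, .ofNat 0, .ofNat 0, .ofNat 0, .ofNat 0, .ofNat 0, .ofNat 88657496177871690455296619029681040507594080256, .ofNat 0, .ofNat 0, .ofNat 0, .ofNat 368218037126677944357592432250686966708930871296, .ofNat 0, .ofNat 0, .ofNat 0, .ofNat 112173759562960665263502836585466763710593761280, .ofNat 0⟩)
    (by decide +kernel)
theorem L02563 : Good (Phi V5.P V5.D (-1) (-1)) ⟨6, 54, 4, 7, 3, 6, 5, 0, 6, 9⟩ :=
  leafX_sound T5.ok_mm T5.Ymm.bz_eq (w := 262) (c := ⟨⟨.negSucc 6182, .negSucc 341, .ofNat 365, .ofNat 1078, .ofNat 193, .ofNat 593⟩, ⟨.ofNat 3305, .ofNat 245, .negSucc 59, .negSucc 616, .negSucc 121, .negSucc 344⟩, ⟨.ofNat 4599, .ofNat 243, .negSucc 344, .ofNat 76, .negSucc 314, .negSucc 411⟩, ⟨.negSucc 8796, .negSucc 250, .ofNat 375, .ofNat 1340, .ofNat 139, .ofNat 669⟩, ⟨.ofNat 655, .ofNat 218, .negSucc 266, .negSucc 453, .negSucc 248, .negSucc 378⟩, .ofNat 1512, .ofNat 2087, .ofNat 0,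 .ofNat 2087, .ofNat 3837, .ofNat 0, .ofNat 128, .negSucc 641, .negSucc 559, .ofNat 0, .ofNat 435, .ofNat 342, .ofNat 0, .ofNat 0, .ofNat 866, .ofNat 270390, .ofNat 51225338646600511469436032780870347438346416698226114560, .ofNat 0, .ofNat 30386620387430463635174257119629815224255643648, .ofNat 0, .ofNat 60403907209220904268365852470771368350962544177093541888, .ofNat 0, .ofNat 489749162431856122229879764328236417966426554368, .ofNat 0, .ofNat 92515272415994356073258207815296673767634484011225579520, .ofNat 0, .ofNat 742364653372111332712549120489995205582677606400, .ofNat 0, .ofNat 188385593622051628307113563502937714940130720389709955072, .ofNat 0, .ofNat 1013654960904785878602867430838600291544958238720, .ofNat 0⟩)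
    (by decide +kernel)
theorem L02564 : Good (Phi V5.P V5.D (-1) (-1)) ⟨6, 54, 4, 7, 3, 6, 5, 1, 6, 9⟩ :=
  leafX_sound T5.ok_mm T5.Ymm.bz_eq (w := 262) (c := ⟨⟨.negSucc 5854, .negSucc 431, .ofNat 369, .ofNat 973, .ofNat 121, .ofNat 565⟩, ⟨.ofNat 3092, .ofNat 297, .negSucc 53, .negSucc 549, .negSucc 75, .negSucc 327⟩, ⟨.ofNat 4257, .ofNat 337, .negSucc 424, .ofNat 84, .negSucc 219, .negSucc 342⟩, ⟨.negSucc 8560, .negSucc 356, .ofNat 366, .ofNat 1293, .ofNat 72, .ofNat 655⟩, ⟨.ofNat 237, .ofNat 274, .negSucc 310, .negSucc 263, .negSucc 195, .negSucc 328⟩, .ofNat 1227, .ofNat 1633, .ofNat 0, .ofNat 1633, .ofNat 3084, .ofNat 0, .ofNat 128, .negSucc 674, .negSucc 829, .ofNat 0, .ofNat 446, .ofNat 494, .ofNat 0, .ofNat 0, .ofNat 1301, .ofNat 135873, .ofNat 0, .ofNat 0, .ofNat 0, .ofNat 0, .ofNat 0, .ofNat 0, .ofNat 911348844650962575568119723091075617114397081600, .ofNat 0, .ofNat 0, .ofNat 0, .ofNat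 5329760995452597550111841041930391426428292825088, .ofNat 0, .ofNat 0, .ofNat 0, .ofNat 2534943494523110749998101415426440733452169904128, .ofNat 0⟩)
    (by decide +kernel)
theorem L02565 : Good (Phi V5.P V5.D (-1) (-1)) ⟨6, 54, 4, 7, 3, 6, 4, 1, 6, 9⟩ :=
  leafX_sound T5.ok_mm T5.Ymm.bz_eq (w := 257) (c := ⟨⟨.negSucc 5779, .negSucc 420, .ofNat 400, .ofNat 1088, .ofNat 243, .ofNat 508⟩, ⟨.ofNat 3045, .ofNat 284, .negSucc 70, .negSucc 619, .negSucc 149, .negSucc 292⟩, ⟨.ofNat 4167, .ofNat 321, .negSucc 466, .negSucc 146, .negSucc 373, .negSucc 335⟩, ⟨.negSucc 8548, .negSucc 351, .ofNat 400, .ofNat 1408, .ofNat 174, .ofNat 623⟩, ⟨.ofNat 8, .ofNat 255, .negSucc 280, .negSucc 359, .negSucc 332, .negSucc 227⟩, .ofNat 1722, .ofNat 2470, .ofNat 0, .ofNat 2470, .ofNat 4524, .ofNat 0, .ofNat 128, .negSucc 1208, .negSucc 1586, .ofNat 0, .ofNat 776, .ofNat 936, .ofNat 0, .ofNat 0, .ofNat 2339, .ofNat 25068,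 .ofNat 0, .ofNat 0, .ofNat 0, .ofNat 0, .ofNat 0, .ofNat 0, .ofNat 57151240236279846082447661144496339159961567232, .ofNat 0, .ofNat 0, .ofNat 0, .ofNat 167908588979880243406688782836189885382982107136, .ofNat 0, .ofNat 0, .ofNat 0, .ofNat 0, .ofNat 0⟩)
    (by decide +kernel)
theorem L02566 : Good (Phi V5.P V5.D (-1) (-1)) ⟨6, 55, 4, 7, 3, 6, 3, 0, 5, 4⟩ :=
  out_sound (S := T5.ds_mm) T5.ok_mm (w := 65) (j := 3) (by decide +kernel)
theorem L02567 : Good (Phi V5.P V5.D (-1) (-1)) ⟨4, 12, 4, 7, 3, 6, 4, 0, 5, 5⟩ :=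
  leafX_sound T5.ok_mm T5.Ymm.bz_eq (w := 246) (c := ⟨⟨.negSucc 4570, .negSucc 1, .negSucc 251, .ofNat 656, .ofNat 188, .ofNat 703⟩, ⟨.ofNat 2272, .ofNat 1, .ofNat 260, .negSucc 331, .negSucc 100, .negSucc 361⟩, ⟨.ofNat 3593, .ofNat 2, .negSucc 111, .ofNat 21, .negSucc 423, .negSucc 432⟩, ⟨.negSucc 7298, .negSucc 2, .negSucc 82, .ofNat 938, .ofNat 184, .ofNat 903⟩, ⟨.negSucc 479, .ofNat 0, .ofNat 40, .negSucc 144, .negSucc 211, .negSucc 361⟩, .ofNat 2534, .ofNat 4282, .ofNat 0, .ofNat 4282, .ofNat 8571, .ofNat 0, .ofNat 128, .negSucc 923, .negSucc 1362, .ofNat 0, .ofNat 533, .ofNat 720, .ofNat 0, .ofNat 0, .ofNat 3029, .ofNat 276535, .ofNat 1306957048261189469573486917209778997427149184434176, .ofNat 0, .ofNat 5219803883810793893688804110445713790269915136, .ofNat 0, .ofNat 295371067726459136782022825658984254308548746412032, .ofNat 0, .ofNat 295701207511364126056526052038233841508244520960, .ofNat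 0, .ofNat 3801822004623849751448952716143490038119686742212608, .ofNat 0, .ofNat 928044058413865165682566020958938338637467615232, .ofNat 0, .ofNat 0, .ofNat 0, .ofNat 2747259002236772334385143476659311436397197393920, .ofNat 0⟩)
    (by decide +kernel)
theorem L02568 : Good (Phi V5.P V5.D (-1) (-1)) ⟨4, 12, 4, 7, 3, 6, 4, 1, 5, 5⟩ :=
  leafX_sound T5.ok_mm T5.Ymm.bz_eq (w := 244) (c := ⟨⟨.negSucc 4386, .negSucc 1, .ofNat 0, .ofNat 722, .ofNat 132, .ofNat 670⟩, ⟨.ofNat 2173, .ofNat 1, .ofNat 157, .negSucc 366, .negSucc 69, .negSucc 342⟩, ⟨.ofNat 3228, .ofNat 1, .negSucc 372, .negSucc 172, .negSucc 290, .negSucc 441⟩, ⟨.negSucc 7138, .negSucc 2, .ofNat 3, .ofNat 1018, .ofNat 139, .ofNat 898⟩, ⟨.negSucc 728, .negSucc 0, .ofNat 13, .negSucc 191, .negSucc 129, .negSucc 272⟩, .ofNat 1267, .ofNat 1860, .ofNat 0, .ofNat 1860, .ofNat 3890, .ofNat 0, .ofNat 128, .negSucc 612, .negSucc 803, .ofNat 0, .ofNat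 368, .ofNat 425, .ofNat 0, .ofNat 0, .ofNat 1677, .ofNat 94114, .ofNat 0, .ofNat 0, .ofNat 0, .ofNat 0, .ofNat 0, .ofNat 0, .ofNat 54791343980257896220612119881733304626530222080, .ofNat 0, .ofNat 0, .ofNat 0, .ofNat 254245273046186728174423070614571398793764274176, .ofNat 0, .ofNat 0, .ofNat 0, .ofNat 335707388622523054239174642145696065551425601536, .ofNat 0⟩)
    (by decide +kernel)
theorem L02569 : Good (Phi V5.P V5.D (-1) (-1)) ⟨5, 26, 4, 7, 4, 12, 5, 0, 5, 5⟩ :=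
  out_sound (S := T5.ds_mm) T5.ok_mm (w := 33) (j := 1) (by decide +kernel)
theorem L02570 : Good (Phi V5.P V5.D (-1) (-1)) ⟨5, 26, 4, 7, 4, 12, 5, 1, 5, 5⟩ :=
  leafX_sound T5.ok_mm T5.Ymm.bz_eq (w := 266) (c := ⟨⟨.negSucc 4536, .negSucc 416, .ofNat 169, .ofNat 331, .ofNat 47, .ofNat 842⟩, ⟨.ofNat 2272, .ofNat 278, .ofNat 68, .negSucc 178, .negSucc 28, .negSucc 458⟩, ⟨.ofNat 3386, .ofNat 338, .negSucc 242, .ofNat 27, .negSucc 153, .negSucc 508⟩, ⟨.negSucc 7259, .negSucc 334, .ofNat 172, .ofNat 467, .ofNat 31, .ofNat 1047⟩, ⟨.negSucc 568, .ofNat 189, .negSucc 119, .negSucc 58, .negSucc 82, .negSucc 433⟩, .ofNat 353, .ofNat 239, .ofNat 0, .ofNat 239, .ofNat 659, .ofNat 0, .ofNat 128, .negSucc 386, .negSucc 239, .ofNat 0, .ofNat 329, .ofNat 151, .ofNat 0, .ofNat 0, .ofNat 445, .ofNat 68194, .ofNat 104689718527726147762333013483626317316011718818442248192, .ofNat 0, .ofNat 10976079497691338918453029927692624245833047474176,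 .ofNat 0, .ofNat 0, .ofNat 0, .ofNat 235880500146375362294355399787928895554457035603968, .ofNat 0, .ofNat 0, .ofNat 0, .ofNat 0, .ofNat 0, .ofNat 292812611523985417852603276831472047979803029356949798912, .ofNat 0, .ofNat 636485831301039985366206297563500697903944005844992, .ofNat 0⟩)
    (by decide +kernel)
theorem L02571 : Good (Phi V5.P V5.D (-1) (-1)) ⟨5, 26, 4, 7, 4, 13, 4, 0, 5, 5⟩ :=
  leafX_sound T5.ok_mm T5.Ymm.bz_eq (w := 261) (c := ⟨⟨.negSucc 4381, .negSucc 349, .ofNat 168, .ofNat 437, .ofNat 217, .ofNat 815⟩, ⟨.ofNat 2202, .ofNat 237, .ofNat 60, .negSucc 234, .negSucc 125, .negSucc 443⟩, ⟨.ofNat 3778, .ofNat 279, .negSucc 193, .negSucc 91, .negSucc 472, .negSucc 603⟩, ⟨.negSucc 6941, .negSucc 260, .ofNat 171, .ofNat 592, .ofNat 187, .ofNat 995⟩, ⟨.negSucc 429, .ofNat 160, .negSucc 110, .negSucc 127, .negSucc 266, .negSucc 457⟩, .ofNat 350, .ofNat 232, .ofNat 0, .ofNat 232, .ofNat 650,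 .ofNat 0, .ofNat 128, .negSucc 335, .negSucc 326, .ofNat 0, .ofNat 314, .ofNat 196, .ofNat 0, .ofNat 0, .ofNat 662, .ofNat 63779, .ofNat 0, .ofNat 0, .ofNat 0, .ofNat 0, .ofNat 0, .ofNat 0, .ofNat 20541594934470678733275820231697038700778623074304, .ofNat 0, .ofNat 34122844717971386805946914005792730211681736487038091264, .ofNat 0, .ofNat 70767447330911298798634065912213389187158789586944, .ofNat 0, .ofNat 100243281886013164714354132662401580310928725795682648064, .ofNat 0, .ofNat 68004389189859432571610744884105361985350383173632, .ofNat 0⟩)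
    (by decide +kernel)
theorem L02572 : Good (Phi V5.P V5.D (-1) (-1)) ⟨5, 26, 4, 7, 3, 6, 4, 1, 5, 5⟩ :=
  leafX_sound T5.ok_mm T5.Ymm.bz_eq (w := 247) (c := ⟨⟨.negSucc 4542, .negSucc 328, .ofNat 155, .ofNat 821, .ofNat 160, .ofNat 788⟩, ⟨.ofNat 2280, .ofNat 215, .ofNat 75, .negSucc 437, .negSucc 93, .negSucc 425⟩, ⟨.ofNat 3341, .ofNat 271, .negSucc 181, .negSucc 212, .negSucc 336, .negSucc 523⟩, ⟨.negSucc 7303, .negSucc 242, .ofNat 158, .ofNat 1130, .ofNat 142, .ofNat 1018⟩, ⟨.negSucc 667, .ofNat 144, .negSucc 91, .negSucc 203, .negSucc 187, .negSucc 333⟩, .ofNat 660, .ofNat 713, .ofNat 0, .ofNat 713, .ofNat 1574, .ofNat 0, .ofNat 128, .negSucc 493, .negSucc 343, .ofNat 0, .ofNat 349, .ofNat 196, .ofNat 0, .ofNat 0, .ofNat 684, .ofNat 24277, .ofNat 0, .ofNat 0, .ofNat 0, .ofNat 0, .ofNat 0, .ofNat 0, .ofNat 272365248332680480261067689290965991464894464, .ofNat 0, .ofNat 0, .ofNat 0, .ofNat 0,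 .ofNat 0, .ofNat 0, .ofNat 0, .ofNat 1666546243573880246867605109600220946909626368, .ofNat 0⟩)
    (by decide +kernel)
theorem L02573 : Good (Phi V5.P V5.D (-1) (-1)) ⟨6, 54, 4, 7, 3, 6, 4, 0, 5, 5⟩ :=
  leafX_sound T5.ok_mm T5.Ymm.bz_eq (w := 252) (c := ⟨⟨.negSucc 5097, .negSucc 199, .ofNat 115, .ofNat 865, .ofNat 160, .ofNat 908⟩, ⟨.ofNat 2664, .ofNat 142, .ofNat 90, .negSucc 488, .negSucc 97, .negSucc 524⟩, ⟨.ofNat 4053, .ofNat 204, .negSucc 267, .negSucc 73, .negSucc 403, .negSucc 588⟩, ⟨.negSucc 7656, .negSucc 138, .ofNat 95, .ofNat 1144, .ofNat 104, .ofNat 1074⟩, ⟨.negSucc 193, .ofNat 91, .negSucc 85, .negSucc 245, .negSucc 242, .negSucc 486⟩, .ofNat 1499, .ofNat 2094, .ofNat 0, .ofNat 2094, .ofNat 3884, .ofNat 0, .ofNat 128, .negSucc 588, .negSucc 447, .ofNat 0, .ofNat 390, .ofNat 267, .ofNat 0, .ofNat 0, .ofNat 935, .ofNat 105500, .ofNat 106905423131006802393615156589652740457666950171983872,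 .ofNat 0, .ofNat 62208946015732759032217656213863929600802816, .ofNat 0, .ofNat 0, .ofNat 0, .ofNat 2146444044996280461382629311358120221281878016, .ofNat 0, .ofNat 366739286539340036808627516756561390798292326920749056, .ofNat 0, .ofNat 9378016182497495819400280576657483190105014272, .ofNat 0, .ofNat 844263750612745067162855350198196917870406989015678976, .ofNat 0, .ofNat 4382105804946709692177623666282145331137216512, .ofNat 0⟩)
    (by decide +kernel)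
theorem L02574 : Good (Phi V5.P V5.D (-1) (-1)) ⟨6, 54, 4, 7, 3, 6, 4, 1, 5, 5⟩ :=
  leafX_sound T5.ok_mm T5.Ymm.bz_eq (w := 251) (c := ⟨⟨.negSucc 5024, .negSucc 190, .ofNat 211, .ofNat 956, .ofNat 166, .ofNat 824⟩, ⟨.ofNat 2622, .ofNat 127, .ofNat 30, .negSucc 542, .negSucc 101, .negSucc 470⟩, ⟨.ofNat 3715, .ofNat 162, .negSucc 265, .negSucc 265, .negSucc 326, .negSucc 558⟩, ⟨.negSucc 7687, .negSucc 140, .ofNat 221, .ofNat 1250, .ofNat 133, .ofNat 1036⟩, ⟨.negSucc 478, .ofNat 87, .negSucc 85, .negSucc 296, .negSucc 202, .negSucc 336⟩, .ofNat 1237, .ofNat 1650, .ofNat 0, .ofNat 1650, .ofNat 3116, .ofNat 0, .ofNat 128, .negSucc 621, .negSucc 553, .ofNat 0, .ofNat 417, .ofNat 327, .ofNat 0, .ofNat 0, .ofNat 1067, .ofNat 37847, .ofNat 0, .ofNat 0, .ofNat 0, .ofNat 0, .ofNat 0, .ofNat 0, .ofNat 1689363047610841892147853203616701500899721216, .ofNat 0, .ofNat 0, .ofNat 0, .ofNat 9021704459031180927413910464517764970788683776,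 .ofNat 0, .ofNat 0, .ofNat 0, .ofNat 1455923051075535069064227101055095076064067584, .ofNat 0⟩)
    (by decide +kernel)
theorem L02575 : Good (Phi V5.P V5.D (-1) (-1)) ⟨6, 55, 4, 7, 3, 6, 3, 0, 5, 5⟩ :=
  out_sound (S := T5.ds_mm) T5.ok_mm (w := 65) (j := 3) (by decide +kernel)
theorem L02576 : Good (Phi V5.P V5.D (-1) (-1)) ⟨4, 12, 4, 7, 3, 6, 3, 1, 4, 2⟩ :=
  leafX_sound T5.ok_mm T5.Ymm.bz_eq (w := 236) (c := ⟨⟨.negSucc 4735, .negSucc 1, .ofNat 659, .ofNat 776, .ofNat 345, .ofNat 1048⟩, ⟨.ofNat 2345, .ofNat 1, .negSucc 201, .negSucc 394, .negSucc 181, .negSucc 529⟩, ⟨.ofNat 3233, .ofNat 2, .ofNat 1348, .negSucc 242, .negSucc 485, .negSucc 718⟩, ⟨.negSucc 7699, .negSucc 2, .ofNat 193, .ofNat 1060, .ofNat 379, .ofNat 1510⟩, ⟨.negSucc 792, .negSucc 0, .negSucc 104, .negSucc 269, .negSucc 310, .negSucc 208⟩, .ofNat 2602, .ofNat 4414, .ofNat 0, .ofNat 4414, .ofNat 8826, .ofNat 0, .ofNat 128, .negSucc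 1115, .negSucc 1204, .ofNat 0, .ofNat 627, .ofNat 627, .ofNat 0, .ofNat 0, .ofNat 1902, .ofNat 17945, .ofNat 0, .ofNat 0, .ofNat 191873588571794759912611502383740800204800, .ofNat 0, .ofNat 0, .ofNat 0, .ofNat 153355138911819573413810295140152646693814272, .ofNat 0, .ofNat 0, .ofNat 0, .ofNat 1860581000621545104884963019560641613243875328, .ofNat 0, .ofNat 0, .ofNat 0, .ofNat 2480601577468085792458680026214127667347718144, .ofNat 0⟩)
    (by decide +kernel)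
theorem L02577 : Good (Phi V5.P V5.D (-1) (-1)) ⟨4, 13, 4, 7, 3, 6, 3, 1, 4, 2⟩ :=
  leafX_sound T5.ok_mm T5.Ymm.bz_eq (w := 232) (c := ⟨⟨.negSucc 5002, .negSucc 719, .ofNat 197, .ofNat 929, .ofNat 308, .ofNat 1303⟩, ⟨.ofNat 2529, .ofNat 420, .ofNat 68, .negSucc 503, .negSucc 175, .negSucc 696⟩, ⟨.ofNat 3460, .ofNat 612, .negSucc 268, .negSucc 365, .negSucc 473, .negSucc 900⟩, ⟨.negSucc 8016, .negSucc 764, .ofNat 251, .ofNat 1260, .ofNat 316, .ofNat 1826⟩, ⟨.negSucc 750, .ofNat 143, .negSucc 72, .negSucc 268, .negSucc 310, .negSucc 242⟩, .ofNat 645, .ofNat 669, .ofNat 0, .ofNat 669, .ofNat 1429, .ofNat 0, .ofNat 128, .negSucc 500, .negSucc 411, .ofNat 0, .ofNat 353, .ofNat 237, .ofNat 0, .ofNat 0, .ofNat 569, .ofNat 3005, .ofNat 0, .ofNat 0, .ofNat 100319767343620795989252121405340434563072, .ofNat 0, .ofNat 0, .ofNat 0, .ofNat 4397791455912035811312777222191744374800384, .ofNat 0, .ofNat 0, .ofNat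 0, .ofNat 30111767976496368260733449641112070199967744, .ofNat 0, .ofNat 0, .ofNat 0, .ofNat 12255263163276474149125712871887197861576704, .ofNat 0⟩)
    (by decide +kernel)
theorem L02578 : Good (Phi V5.P V5.D (-1) (-1)) ⟨4, 12, 4, 7, 3, 7, 2, 0, 5, 4⟩ :=
  leafX_sound T5.ok_mm T5.Ymm.bz_eq (w := 235) (c := ⟨⟨.negSucc 4495, .negSucc 1, .negSucc 140, .ofNat 777, .ofNat 948, .ofNat 539⟩, ⟨.ofNat 2228, .ofNat 1, .ofNat 227, .negSucc 381, .negSucc 496, .negSucc 267⟩, ⟨.ofNat 3971, .ofNat 1, .negSucc 376, .negSucc 725, .negSucc 1386, .negSucc 437⟩, ⟨.negSucc 7246, .negSucc 2, .negSucc 70, .ofNat 1341, .ofNat 1037, .ofNat 827⟩, ⟨.negSucc 609, .ofNat 0, .ofNat 46, .ofNat 282, .negSucc 853, .negSucc 6⟩, .ofNat 1901, .ofNat 3067, .ofNat 0, .ofNat 3067, .ofNat 6226, .ofNat 0, .ofNat 128, .negSucc 867, .negSucc 847, .ofNat 0, .ofNat 510, .ofNat 422, .ofNat 0, .ofNat 0, .ofNat 1467, .ofNat 6270, .ofNat 0,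 .ofNat 0, .ofNat 165599420455530843057797615597147425603584, .ofNat 0, .ofNat 0, .ofNat 0, .ofNat 44496258396486008642709757485816592570777600, .ofNat 0, .ofNat 0, .ofNat 0, .ofNat 289929590664009566711971615232473824197869568, .ofNat 0, .ofNat 16071325279708702969089875208082659515065933234176, .ofNat 0, .ofNat 131780532418230241251628650466120457311485952, .ofNat 0⟩)
    (by decide +kernel)
theorem L02579 : Good (Phi V5.P V5.D (-1) (-1)) ⟨4, 13, 4, 7, 4, 14, 2, 0, 5, 4⟩ :=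
  leafX_sound T5.ok_mm T5.Ymm.bz_eq (w := 247) (c := ⟨⟨.negSucc 4899, .negSucc 747, .ofNat 234, .ofNat 546, .ofNat 1183, .ofNat 760⟩, ⟨.ofNat 2500, .ofNat 452, .ofNat 41, .negSucc 293, .negSucc 676, .negSucc 405⟩, ⟨.ofNat 4443, .ofNat 542, .negSucc 164, .negSucc 327, .negSucc 1842, .negSucc 637⟩, ⟨.negSucc 7631, .negSucc 631, .ofNat 242, .ofNat 761, .ofNat 1221, .ofNat 1093⟩, ⟨.negSucc 329, .ofNat 317, .negSucc 187, .negSucc 103, .negSucc 1046, .negSucc 59⟩, .ofNat 1101, .ofNat 1429, .ofNat 0, .ofNat 1429, .ofNat 2774, .ofNat 0, .ofNat 128, .negSucc 369, .negSucc 506, .ofNat 0, .ofNat 253, .ofNat 280, .ofNat 0, .ofNat 0, .ofNat 757, .ofNat 2544, .ofNat 0, .ofNat 0, .ofNat 3270932745808835904307422289195397273572343808, .ofNat 0, .ofNat 0, .ofNat 0, .ofNat 263534400600082279822547539640302967070774001664, .ofNat 0, .ofNat 3577521687804495705684279087431987558877054239768576, .ofNat 0, .ofNat 365169133506235894049218046718024180689545461760,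 .ofNat 0, .ofNat 0, .ofNat 0, .ofNat 557006194198301135730281343918049777620539670528, .ofNat 0⟩)
    (by decide +kernel)
theorem L02580 : Good (Phi V5.P V5.D (-1) (-1)) ⟨4, 13, 4, 7, 4, 15, 2, 0, 5, 4⟩ :=
  leafX_sound T5.ok_mm T5.Ymm.bz_eq (w := 246) (c := ⟨⟨.negSucc 4179, .negSucc 409, .ofNat 139, .ofNat 368, .ofNat 974, .ofNat 621⟩, ⟨.ofNat 2103, .ofNat 260, .ofNat 63, .negSucc 184, .negSucc 543, .negSucc 316⟩, ⟨.ofNat 3636, .ofNat 208, .ofNat 77, .negSucc 465, .negSucc 1312, .negSucc 456⟩, ⟨.negSucc 6688, .negSucc 370, .ofNat 82, .ofNat 729, .ofNat 1034, .ofNat 968⟩, ⟨.negSucc 564, .negSucc 61, .negSucc 191, .ofNat 348, .negSucc 867, .ofNat 68⟩, .ofNat 665, .ofNat 720, .ofNat 0, .ofNat 720, .ofNat 1578, .ofNat 0, .ofNat 128, .negSucc 374, .negSucc 375, .ofNat 0, .ofNat 276, .ofNat 164, .ofNat 0, .ofNat 0, .ofNat 659, .ofNat 1458, .ofNat 0, .ofNat 0, .ofNat 1959842709276697676505775850567380992908066816,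 .ofNat 0, .ofNat 0, .ofNat 0, .ofNat 92298650615891069656082857872530030670777417728, .ofNat 0, .ofNat 0, .ofNat 0, .ofNat 320924204034228693670746901239202638724214030336, .ofNat 0, .ofNat 0, .ofNat 0, .ofNat 0, .ofNat 0⟩)
    (by decide +kernel)
theorem L02581 : Good (Phi V5.P V5.D (-1) (-1)) ⟨3, 6, 4, 7, 4, 14, 2, 0, 5, 5⟩ :=
  leafX_sound T5.ok_mm T5.Ymm.bz_eq (w := 242) (c := ⟨⟨.negSucc 3591, .negSucc 552, .ofNat 87, .ofNat 386, .ofNat 758, .ofNat 602⟩, ⟨.ofNat 1782, .ofNat 315, .ofNat 99, .negSucc 195, .negSucc 421, .negSucc 320⟩, ⟨.ofNat 3348, .ofNat 429, .negSucc 68, .negSucc 218, .negSucc 1478, .negSucc 495⟩, ⟨.negSucc 6151, .negSucc 405, .ofNat 94, .ofNat 641, .ofNat 859, .ofNat 846⟩, ⟨.negSucc 758, .negSucc 201, .negSucc 4, .ofNat 98, .negSucc 544, .negSucc 105⟩, .ofNat 665, .ofNat 719, .ofNat 0, .ofNat 719, .ofNat 1569, .ofNat 0, .ofNat 128, .negSucc 347, .negSucc 300, .ofNat 0, .ofNat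 267, .ofNat 156, .ofNat 0, .ofNat 0, .ofNat 675, .ofNat 4809, .ofNat 0, .ofNat 0, .ofNat 0, .ofNat 0, .ofNat 0, .ofNat 0, .ofNat 227528148981213899821380001798801767068317253632, .ofNat 0, .ofNat 0, .ofNat 0, .ofNat 1176033659277711299101672909317222733522145378304, .ofNat 0, .ofNat 1571676231358177322062661514091265696714278041550848, .ofNat 0, .ofNat 1614813145329800456200917678077594207497412935680, .ofNat 0⟩)
    (by decide +kernel)
theorem L02582 : Good (Phi V5.P V5.D (-1) (-1)) ⟨3, 6, 4, 7, 4, 15, 2, 0, 5, 5⟩ :=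
  leafX_sound T5.ok_mm T5.Ymm.bz_eq (w := 242) (c := ⟨⟨.negSucc 3134, .negSucc 436, .ofNat 97, .ofNat 296, .ofNat 688, .ofNat 482⟩, ⟨.ofNat 1553, .ofNat 254, .ofNat 68, .negSucc 142, .negSucc 382, .negSucc 253⟩, ⟨.ofNat 2810, .ofNat 369, .ofNat 10, .negSucc 320, .negSucc 1144, .negSucc 408⟩, ⟨.negSucc 5474, .negSucc 280, .ofNat 83, .ofNat 680, .ofNat 814, .ofNat 753⟩, ⟨.negSucc 871, .negSucc 159, .negSucc 57, .ofNat 440, .negSucc 421, .ofNat 64⟩, .ofNat 727, .ofNat 861, .ofNat 0, .ofNat 861, .ofNat 1925, .ofNat 0, .ofNat 128, .negSucc 379, .negSucc 257, .ofNat 0, .ofNat 279, .ofNat 107, .ofNat 0, .ofNat 0, .ofNat 676, .ofNat 3568, .ofNat 0, .ofNat 0, .ofNat 0, .ofNat 0, .ofNat 115396722252481023691221428110200499721993367584768, .ofNat 0, .ofNat 424000482235096195983723955932557933920408043520, .ofNat 0, .ofNat 0, .ofNat 0, .ofNat 1650306913379016445986312920940193079783516536832, .ofNat 0, .ofNat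 0, .ofNat 0, .ofNat 0, .ofNat 0⟩)
    (by decide +kernel)
theorem L02583 : Good (Phi V5.P V5.D (-1) (-1)) ⟨4, 12, 4, 7, 2, 3, 2, 0, 4, 3⟩ :=
  leafX_sound T5.ok_mm T5.Ymm.bz_eq (w := 216) (c := ⟨⟨.negSucc 3618, .negSucc 0, .negSucc 996, .ofNat 1170, .ofNat 407, .ofNat 689⟩, ⟨.ofNat 1772, .ofNat 1, .ofNat 648, .negSucc 577, .negSucc 204, .negSucc 344⟩, ⟨.ofNat 3080, .ofNat 1, .negSucc 423, .negSucc 739, .negSucc 1049, .negSucc 557⟩, ⟨.negSucc 6231, .negSucc 1, .negSucc 263, .ofNat 1892, .ofNat 612, .ofNat 1054⟩, ⟨.negSucc 1273, .negSucc 0, .ofNat 141, .ofNat 179, .negSucc 29, .negSucc 16⟩, .ofNat 2599, .ofNat 4407, .ofNat 0, .ofNat 4407, .ofNat 8812, .ofNat 0, .ofNat 128, .negSucc 718, .negSucc 272, .ofNat 0, .ofNat 432, .ofNat 138, .ofNat 0, .ofNat 0, .ofNat 1142, .ofNat 8653, .ofNat 5439853941994663887043116650673559098621952, .ofNat 0, .ofNat 13898224238662278226186406307022503936, .ofNat 0, .ofNat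 0, .ofNat 0, .ofNat 1065842373892312251374324910016761430016, .ofNat 0, .ofNat 0, .ofNat 0, .ofNat 4367723931733757547926029820094157160448, .ofNat 0, .ofNat 657756102399040977050581746152489056208945152, .ofNat 0, .ofNat 1392307082176533958265593481099586043904, .ofNat 0⟩)
    (by decide +kernel)
theorem L02584 : Good (Phi V5.P V5.D (-1) (-1)) ⟨4, 13, 4, 7, 3, 6, 2, 0, 4, 3⟩ :=
  leafX_sound T5.ok_mm T5.Ymm.bz_eq (w := 227) (c := ⟨⟨.negSucc 3776, .negSucc 188, .ofNat 43, .ofNat 656, .ofNat 449, .ofNat 846⟩, ⟨.ofNat 1895, .ofNat 85, .ofNat 127, .negSucc 350, .negSucc 248, .negSucc 453⟩, ⟨.ofNat 3129, .ofNat 235, .negSucc 127, .negSucc 337, .negSucc 1080, .negSucc 636⟩, ⟨.negSucc 6338, .negSucc 101, .ofNat 34, .ofNat 918, .ofNat 592, .ofNat 1255⟩, ⟨.negSucc 1085, .negSucc 33, .ofNat 4, .negSucc 164, .negSucc 161, .negSucc 78⟩, .ofNat 349, .ofNat 230, .ofNat 0, .ofNat 230, .ofNat 618, .ofNat 0, .ofNat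 128, .negSucc 172, .negSucc 100, .ofNat 0, .ofNat 176, .ofNat 62, .ofNat 0, .ofNat 0, .ofNat 299, .ofNat 2779, .ofNat 8385155642988936829978500929279515476862435328, .ofNat 0, .ofNat 2629210938104866495774916021618584059904, .ofNat 0, .ofNat 0, .ofNat 0, .ofNat 0, .ofNat 0, .ofNat 0, .ofNat 0, .ofNat 355647954121135719824650435700735269142528, .ofNat 0, .ofNat 102585237433016056824793823519090569076877033472, .ofNat 0, .ofNat 167226118661142237239789441551466997219328, .ofNat 0⟩)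
    (by decide +kernel)
theorem L02585 : Good (Phi V5.P V5.D (-1) (-1)) ⟨4, 13, 4, 7, 3, 7, 2, 0, 4, 3⟩ :=
  leafX_sound T5.ok_mm T5.Ymm.bz_eq (w := 227) (c := ⟨⟨.negSucc 3015, .negSucc 119, .ofNat 30, .ofNat 534, .ofNat 471, .ofNat 634⟩, ⟨.ofNat 1483, .ofNat 64, .ofNat 105, .negSucc 261, .negSucc 249, .negSucc 328⟩, ⟨.ofNat 2828, .ofNat 53, .negSucc 2, .negSucc 393, .negSucc 1179, .negSucc 595⟩, ⟨.negSucc 5328, .negSucc 36, .ofNat 34, .ofNat 1127, .ofNat 655, .ofNat 1002⟩, ⟨.negSucc 1365, .negSucc 87, .ofNat 31, .ofNat 601, .negSucc 127, .ofNat 72⟩, .ofNat 645, .ofNat 669, .ofNat 0, .ofNat 669, .ofNat 1429, .ofNat 0, .ofNat 128, .negSucc 301, .negSucc 158, .ofNat 0, .ofNat 272, .ofNat 68, .ofNat 0, .ofNat 0, .ofNat 726, .ofNat 3513, .ofNat 0, .ofNat 0, .ofNat 0, .ofNat 0, .ofNat 0, .ofNat 0, .ofNat 0, .ofNat 0, .ofNat 0, .ofNat 0, .ofNat 284104529658127176393165699394510579040256, .ofNat 0, .ofNat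 0, .ofNat 0, .ofNat 0, .ofNat 0⟩)
    (by decide +kernel)
theorem L02586 : Good (Phi V5.P V5.D (-1) (-1)) ⟨3, 7, 4, 7, 1, 1, 2, 0, 3, 1⟩ :=
  out_sound (S := T5.ds_mm) T5.ok_mm (w := 47) (j := 3) (by decide +kernel)
theorem L02587 : Good (Phi V5.P V5.D (-1) (-1)) ⟨4, 12, 3, 3, 2, 2, 2, 1, 5, 4⟩ :=
  leafX_sound T5.ok_mm T5.Ymm.bz_eq (w := 215) (c := ⟨⟨.negSucc 3496, .negSucc 807, .ofNat 116, .negSucc 97, .ofNat 532, .ofNat 260⟩, ⟨.ofNat 1503, .ofNat 461, .ofNat 269, .ofNat 20, .negSucc 250, .negSucc 120⟩, ⟨.ofNat 2488, .ofNat 557, .negSucc 78, .negSucc 235, .negSucc 446, .negSucc 202⟩, ⟨.negSucc 6054, .negSucc 893, .ofNat 141, .negSucc 459, .ofNat 831, .ofNat 446⟩, ⟨.negSucc 557, .negSucc 78, .ofNat 66, .negSucc 669, .ofNat 2, .ofNat 97⟩, .ofNat 1073, .ofNat 1548, .ofNat 0, .ofNat 1548, .ofNat 3483, .ofNat 0, .ofNat 128, .negSucc 428, .negSucc 617, .ofNat 0, .ofNat 238, .ofNat 298, .ofNat 0, .ofNat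 0, .ofNat 859, .ofNat 1269, .ofNat 0, .ofNat 0, .ofNat 0, .ofNat 0, .ofNat 0, .ofNat 0, .ofNat 10212020104823818411364318148728717312, .ofNat 0, .ofNat 0, .ofNat 0, .ofNat 0, .ofNat 0, .ofNat 0, .ofNat 0, .ofNat 0, .ofNat 0⟩)
    (by decide +kernel)
theorem L02588 : Good (Phi V5.P V5.D (-1) (-1)) ⟨4, 13, 3, 3, 2, 2, 2, 1, 5, 4⟩ :=
  leafX_sound T5.ok_mm T5.Ymm.bz_eq (w := 215) (c := ⟨⟨.negSucc 4286, .negSucc 1217, .ofNat 332, .negSucc 184, .ofNat 481, .ofNat 189⟩, ⟨.ofNat 1976, .ofNat 763, .ofNat 152, .ofNat 60, .negSucc 252, .negSucc 92⟩, ⟨.ofNat 3076, .ofNat 908, .negSucc 351, .negSucc 248, .negSucc 353, .negSucc 118⟩, ⟨.negSucc 6850, .negSucc 1305, .ofNat 353, .negSucc 630, .ofNat 710, .ofNat 386⟩, ⟨.negSucc 481, .ofNat 266, .negSucc 219, .negSucc 734, .negSucc 42, .ofNat 174⟩, .ofNat 640, .ofNat 677, .ofNat 0, .ofNat 677, .ofNat 1507, .ofNat 0, .ofNat 128, .negSucc 407, .negSucc 528, .ofNat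 0, .ofNat 266, .ofNat 280, .ofNat 0, .ofNat 0, .ofNat 681, .ofNat 1071, .ofNat 0, .ofNat 0, .ofNat 5303573123944275046372344310041411584, .ofNat 0, .ofNat 0, .ofNat 0, .ofNat 238175178663914979104240357182321721344, .ofNat 0, .ofNat 0, .ofNat 0, .ofNat 1197637386246100000401421517945103712256, .ofNat 0, .ofNat 0, .ofNat 0, .ofNat 381582594692147190807226878336092340224, .ofNat 0⟩)
    (by decide +kernel)
theorem L02589 : Good (Phi V5.P V5.D (-1) (-1)) ⟨3, 6, 3, 3, 3, 4, 2, 1, 5, 5⟩ :=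
  leafX_sound T5.ok_mm T5.Ymm.bz_eq (w := 225) (c := ⟨⟨.negSucc 3379, .negSucc 1353, .ofNat 102, .negSucc 89, .ofNat 380, .ofNat 355⟩, ⟨.ofNat 1439, .ofNat 881, .ofNat 247, .ofNat 31, .negSucc 193, .negSucc 175⟩, ⟨.ofNat 2428, .ofNat 1224, .negSucc 205, .negSucc 251, .negSucc 344, .negSucc 210⟩, ⟨.negSucc 5860, .negSucc 1267, .ofNat 109, .negSucc 314, .ofNat 627, .ofNat 573⟩, ⟨.negSucc 575, .ofNat 100, .negSucc 42, .negSucc 359, .ofNat 99, .ofNat 67⟩, .ofNat 638, .ofNat 681, .ofNat 0, .ofNat 681, .ofNat 1552, .ofNat 0, .ofNat 128, .negSucc 368, .negSucc 480, .ofNat 0, .ofNat 246, .ofNat 251, .ofNat 0, .ofNat 0, .ofNat 849, .ofNat 1526, .ofNat 0, .ofNat 0, .ofNat 374830415379956055971169926465541589958656, .ofNat 0, .ofNat 0, .ofNat 0, .ofNat 9951988647712860129038786189480657770512384, .ofNat 0, .ofNat 0, .ofNat 0, .ofNat 57464138965390542329928970454306634527145984, .ofNat 0, .ofNat 0, .ofNat 0,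 .ofNat 0, .ofNat 0⟩)
    (by decide +kernel)
theorem L02590 : Good (Phi V5.P V5.D (-1) (-1)) ⟨3, 6, 3, 3, 3, 5, 2, 1, 5, 5⟩ :=
  leafX_sound T5.ok_mm T5.Ymm.bz_eq (w := 225) (c := ⟨⟨.negSucc 3724, .negSucc 1341, .ofNat 145, .ofNat 337, .ofNat 533, .ofNat 558⟩, ⟨.ofNat 1619, .ofNat 801, .ofNat 256, .negSucc 190, .negSucc 260, .negSucc 277⟩, ⟨.ofNat 2551, .ofNat 961, .negSucc 181, .negSucc 420, .negSucc 527, .negSucc 424⟩, ⟨.negSucc 6497, .negSucc 1296, .ofNat 152, .ofNat 322, .ofNat 827, .ofNat 853⟩, ⟨.negSucc 853, .ofNat 219, .negSucc 99, .negSucc 399, .negSucc 16, .negSucc 11⟩, .ofNat 345, .ofNat 221, .ofNat 0, .ofNat 221, .ofNat 650, .ofNat 0, .ofNat 128, .negSucc 237, .negSucc 289, .ofNat 0, .ofNat 188, .ofNat 144, .ofNat 0, .ofNat 0, .ofNat 391, .ofNat 1565, .ofNat 0, .ofNat 0, .ofNat 192657708925149956472954273399846467534848, .ofNat 0, .ofNat 0, .ofNat 0, .ofNat 1578425141759496130325371068202902882353152,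 .ofNat 0, .ofNat 0, .ofNat 0, .ofNat 21678191151704829174543966450080267777343488, .ofNat 0, .ofNat 0, .ofNat 0, .ofNat 11404972542670708757804589333432512421036032, .ofNat 0⟩)
    (by decide +kernel)
theorem L02591 : Good (Phi V5.P V5.D (-1) (-1)) ⟨4, 12, 3, 3, 3, 6, 2, 1, 4, 2⟩ :=
  leafX_sound T5.ok_mm T5.Ymm.bz_eq (w := 224) (c := ⟨⟨.negSucc 3697, .negSucc 663, .ofNat 371, .ofNat 827, .ofNat 650, .ofNat 726⟩, ⟨.ofNat 1608, .ofNat 346, .ofNat 116, .negSucc 397, .negSucc 306, .negSucc 331⟩, ⟨.ofNat 2499, .ofNat 460, .negSucc 348, .negSucc 525, .negSucc 717, .negSucc 618⟩, ⟨.negSucc 6625, .negSucc 749, .ofNat 438, .ofNat 1183, .ofNat 981, .ofNat 1199⟩, ⟨.negSucc 1309, .ofNat 18, .negSucc 46, .negSucc 267, .negSucc 120, .ofNat 151⟩, .ofNat 616, .ofNat 669, .ofNat 0, .ofNat 669, .ofNat 1669, .ofNat 0, .ofNat 128, .negSucc 331, .negSucc 307, .ofNat 0, .ofNat 205, .ofNat 145, .ofNat 0, .ofNat 0, .ofNat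 431, .ofNat 1341, .ofNat 0, .ofNat 0, .ofNat 1524466440626952060284246958704359899136, .ofNat 0, .ofNat 0, .ofNat 0, .ofNat 21866172906155195570967757133123233513472, .ofNat 0, .ofNat 0, .ofNat 0, .ofNat 51716145719561449512552134594303340052480, .ofNat 0, .ofNat 0, .ofNat 0, .ofNat 72129959068317535043819998540439918477312, .ofNat 0⟩)
    (by decide +kernel)
theorem L02592 : Good (Phi V5.P V5.D (-1) (-1)) ⟨4, 12, 3, 3, 3, 7, 2, 1, 4, 2⟩ :=
  leafX_sound T5.ok_mm T5.Ymm.bz_eq (w := 224) (c := ⟨⟨.negSucc 3118, .negSucc 64, .ofNat 24, .ofNat 599, .ofNat 706, .ofNat 571⟩, ⟨.ofNat 1372, .ofNat 13, .ofNat 241, .negSucc 267, .negSucc 335, .negSucc 256⟩, ⟨.ofNat 2180, .ofNat 72, .negSucc 54, .negSucc 416, .negSucc 773, .negSucc 567⟩, ⟨.negSucc 5744, .negSucc 20, .ofNat 18, .ofNat 1137, .ofNat 1045, .ofNat 1005⟩, ⟨.negSucc 1522, .negSucc 223, .ofNat 164, .ofNat 411, .negSucc 167, .ofNat 243⟩, .ofNat 614,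 .ofNat 661, .ofNat 0, .ofNat 661, .ofNat 1641, .ofNat 0, .ofNat 128, .negSucc 224, .negSucc 199, .ofNat 0, .ofNat 151, .ofNat 85, .ofNat 0, .ofNat 0, .ofNat 346, .ofNat 1467, .ofNat 0, .ofNat 0, .ofNat 676364532998701007936876310026841489408, .ofNat 0, .ofNat 0, .ofNat 0, .ofNat 10672461667817341611837414594072497094656, .ofNat 0, .ofNat 0, .ofNat 0, .ofNat 76113738875316004099011015742056183103488, .ofNat 0, .ofNat 0, .ofNat 0, .ofNat 13101532853934378419083762744066473721856, .ofNat 0⟩)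
    (by decide +kernel)
theorem L02593 : Good (Phi V5.P V5.D (-1) (-1)) ⟨4, 13, 3, 3, 3, 6, 2, 1, 5, 4⟩ :=
  leafX_sound T5.ok_mm T5.Ymm.bz_eq (w := 230) (c := ⟨⟨.negSucc 4768, .negSucc 874, .ofNat 396, .ofNat 1218, .ofNat 883, .ofNat 407⟩, ⟨.ofNat 2227, .ofNat 480, .ofNat 125, .negSucc 656, .negSucc 473, .negSucc 208⟩, ⟨.ofNat 3205, .ofNat 565, .negSucc 327, .negSucc 739, .negSucc 854, .negSucc 353⟩, ⟨.negSucc 7797, .negSucc 1049, .ofNat 508, .ofNat 1596, .ofNat 1154, .ofNat 656⟩, ⟨.negSucc 1099, .negSucc 89, .ofNat 2, .negSucc 452, .negSucc 334, .ofNat 96⟩, .ofNat 939, .ofNat 1147, .ofNat 0, .ofNat 1147, .ofNat 2293, .ofNat 0, .ofNat 128, .negSucc 311, .negSucc 409, .ofNat 0, .ofNat 199, .ofNat 223, .ofNat 0, .ofNat 0, .ofNat 429, .ofNat 1383, .ofNat 0, .ofNat 0, .ofNat 45336937373617217878503418949933564166144, .ofNat 0, .ofNat 0, .ofNat 0, .ofNat 1675998666849366186770241059719127477780480,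 .ofNat 0, .ofNat 0, .ofNat 0, .ofNat 14481450351624952833487239064968847526199296, .ofNat 0, .ofNat 0, .ofNat 0, .ofNat 9296713444235541850428008676946129138483200, .ofNat 0⟩)
    (by decide +kernel)
theorem L02594 : Good (Phi V5.P V5.D (-1) (-1)) ⟨4, 13, 3, 3, 3, 7, 2, 1, 5, 4⟩ :=
  leafX_sound T5.ok_mm T5.Ymm.bz_eq (w := 229) (c := ⟨⟨.negSucc 3542, .negSucc 395, .ofNat 309, .ofNat 731, .ofNat 968, .ofNat 342⟩, ⟨.ofNat 1594, .ofNat 183, .ofNat 120, .negSucc 349, .negSucc 511, .negSucc 174⟩, ⟨.ofNat 2475, .ofNat 200, .negSucc 140, .negSucc 456, .negSucc 950, .negSucc 329⟩, ⟨.negSucc 6152, .negSucc 527, .ofNat 417, .ofNat 1230, .ofNat 1304, .ofNat 576⟩, ⟨.negSucc 1542, .negSucc 269, .ofNat 75, .ofNat 242, .negSucc 302, .ofNat 149⟩, .ofNat 939, .ofNat 1147, .ofNat 0, .ofNat 1147, .ofNat 2293, .ofNat 0, .ofNat 128, .negSucc 263, .negSucc 277, .ofNat 0, .ofNat 175, .ofNat 141, .ofNat 0, .ofNat 0, .ofNat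 351, .ofNat 1788, .ofNat 0, .ofNat 0, .ofNat 11863452496423354818615578410150071894016, .ofNat 0, .ofNat 0, .ofNat 0, .ofNat 1328585790006118830171182073124871332691968, .ofNat 0, .ofNat 0, .ofNat 0, .ofNat 3726785391825617764858766793691329472757760, .ofNat 0, .ofNat 0, .ofNat 0, .ofNat 5266181769522615218828058614062551362699264, .ofNat 0⟩)
    (by decide +kernel)
theorem L02595 : Good (Phi V5.P V5.D (-1) (-1)) ⟨4, 13, 3, 3, 3, 6, 2, 1, 5, 5⟩ :=
  leafX_sound T5.ok_mm T5.Ymm.bz_eq (w := 229) (c := ⟨⟨.negSucc 4082, .negSucc 349, .ofNat 126, .ofNat 986, .ofNat 687, .ofNat 525⟩, ⟨.ofNat 1880, .ofNat 192, .ofNat 241, .negSucc 528, .negSucc 363, .negSucc 272⟩, ⟨.ofNat 2748, .ofNat 222, .negSucc 165, .negSucc 647, .negSucc 798, .negSucc 413⟩, ⟨.negSucc 6845, .negSucc 348, .ofNat 119, .ofNat 1335, .ofNat 990, .ofNat 836⟩, ⟨.negSucc 1188, .negSucc 93, .negSucc 29, .negSucc 333, .negSucc 125, .ofNat 52⟩,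 .ofNat 347, .ofNat 227, .ofNat 0, .ofNat 227, .ofNat 636, .ofNat 0, .ofNat 128, .negSucc 285, .negSucc 241, .ofNat 0, .ofNat 237, .ofNat 121, .ofNat 0, .ofNat 0, .ofNat 326, .ofNat 1137, .ofNat 0, .ofNat 0, .ofNat 27521921277718573834016974834641200480256, .ofNat 0, .ofNat 0, .ofNat 0, .ofNat 845277448849089187600243359457593327091712, .ofNat 0, .ofNat 0, .ofNat 0, .ofNat 3009920634987953936334689881247406893301760, .ofNat 0, .ofNat 0, .ofNat 0, .ofNat 4190902664111312546157849909066225684578304, .ofNat 0⟩)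
    (by decide +kernel)
theorem L02596 : Good (Phi V5.P V5.D (-1) (-1)) ⟨4, 13, 3, 3, 3, 7, 2, 1, 5, 5⟩ :=
  leafX_sound T5.ok_mm T5.Ymm.bz_eq (w := 228) (c := ⟨⟨.negSucc 2982, .negSucc 181, .ofNat 132, .ofNat 625, .ofNat 725, .ofNat 353⟩, ⟨.ofNat 1336, .ofNat 68, .ofNat 181, .negSucc 308, .negSucc 390, .negSucc 172⟩, ⟨.ofNat 1947, .ofNat 159, .negSucc 59, .negSucc 361, .negSucc 786, .negSucc 293⟩, ⟨.negSucc 5408, .negSucc 166, .ofNat 169, .ofNat 1255, .ofNat 1054, .ofNat 599⟩, ⟨.negSucc 1696, .negSucc 116, .ofNat 99, .ofNat 576, .negSucc 117, .ofNat 115⟩, .ofNat 348, .ofNat 228, .ofNat 0, .ofNat 228, .ofNat 637, .ofNat 0, .ofNat 128, .negSucc 144, .negSucc 135, .ofNat 0, .ofNat 138, .ofNat 48, .ofNat 0, .ofNat 0, .ofNat 247, .ofNat 1158, .ofNat 0, .ofNat 0, .ofNat 8798793373595105199258152980489091153920, .ofNat 0, .ofNat 0, .ofNat 0, .ofNat 0, .ofNat 0, .ofNat 0, .ofNat 0, .ofNat 0, .ofNat 0,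 .ofNat 0, .ofNat 0, .ofNat 1879419842296058552334421896253466774339584, .ofNat 0⟩)
    (by decide +kernel)
theorem L02597 : Good (Phi V5.P V5.D (-1) (-1)) ⟨4, 12, 3, 3, 2, 2, 2, 1, 4, 3⟩ :=
  leafX_sound T5.ok_mm T5.Ymm.bz_eq (w := 211) (c := ⟨⟨.negSucc 3408, .negSucc 352, .ofNat 23, .ofNat 441, .ofNat 367, .ofNat 664⟩, ⟨.ofNat 1478, .ofNat 237, .ofNat 233, .negSucc 230, .negSucc 164, .negSucc 307⟩, ⟨.ofNat 2703, .ofNat 283, .negSucc 98, .negSucc 867, .negSucc 563, .negSucc 472⟩, ⟨.negSucc 5855, .negSucc 221, .negSucc 36, .ofNat 395, .ofNat 625, .ofNat 1051⟩, ⟨.negSucc 585, .ofNat 48, .negSucc 41, .negSucc 636, .ofNat 105, .ofNat 21⟩, .ofNat 1048, .ofNat 1493, .ofNat 0, .ofNat 1493, .ofNat 3354, .ofNat 0, .ofNat 128, .negSucc 373, .negSucc 233, .ofNat 0, .ofNat 221, .ofNat 115, .ofNat 0, .ofNat 0, .ofNat 670, .ofNat 2767, .ofNat 0, .ofNat 0, .ofNat 0, .ofNat 0, .ofNat 0, .ofNat 0, .ofNat 0, .ofNat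 0, .ofNat 0, .ofNat 0, .ofNat 14380047186695226773280315810651308032, .ofNat 0, .ofNat 0, .ofNat 0, .ofNat 0, .ofNat 0⟩)
    (by decide +kernel)
theorem L02598 : Good (Phi V5.P V5.D (-1) (-1)) ⟨4, 12, 3, 3, 3, 6, 2, 1, 4, 3⟩ :=
  leafX_sound T5.ok_mm T5.Ymm.bz_eq (w := 224) (c := ⟨⟨.negSucc 2900, .negSucc 355, .ofNat 262, .ofNat 580, .ofNat 443, .ofNat 611⟩, ⟨.ofNat 1259, .ofNat 175, .ofNat 120, .negSucc 273, .negSucc 200, .negSucc 275⟩, ⟨.ofNat 2016, .ofNat 139, .negSucc 201, .negSucc 461, .negSucc 708, .negSucc 530⟩, ⟨.negSucc 5402, .negSucc 292, .ofNat 211, .ofNat 891, .ofNat 754, .ofNat 1070⟩, ⟨.negSucc 1480, .ofNat 63, .negSucc 186, .negSucc 29, .ofNat 131, .ofNat 259⟩, .ofNat 1499, .ofNat 2405, .ofNat 0, .ofNat 2405, .ofNat 5245, .ofNat 0, .ofNat 128, .negSucc 378, .negSucc 115, .ofNat 0, .ofNat 219, .ofNat 56, .ofNat 0, .ofNat 0, .ofNat 370, .ofNat 1921, .ofNat 0, .ofNat 0, .ofNat 722616666757625824237406841218898329600,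 .ofNat 0, .ofNat 0, .ofNat 0, .ofNat 0, .ofNat 0, .ofNat 0, .ofNat 0, .ofNat 243113223654452881678379046501599676465152, .ofNat 0, .ofNat 0, .ofNat 0, .ofNat 212109797615868960679957186751249583702016, .ofNat 0⟩)
    (by decide +kernel)
theorem L02599 : Good (Phi V5.P V5.D (-1) (-1)) ⟨4, 12, 3, 3, 3, 7, 2, 1, 4, 3⟩ :=
  leafX_sound T5.ok_mm T5.Ymm.bz_eq (w := 224) (c := ⟨⟨.negSucc 2347, .negSucc 59, .ofNat 122, .ofNat 443, .ofNat 456, .ofNat 384⟩, ⟨.ofNat 1010, .ofNat 13, .ofNat 158, .negSucc 184, .negSucc 203, .negSucc 160⟩, ⟨.ofNat 1527, .ofNat 67, .negSucc 139, .negSucc 336, .negSucc 678, .negSucc 452⟩, ⟨.negSucc 4497, .negSucc 36, .ofNat 171, .ofNat 947, .ofNat 774, .ofNat 763⟩, ⟨.negSucc 1457, .negSucc 263, .ofNat 153, .ofNat 528, .ofNat 120, .ofNat 336⟩, .ofNat 1056, .ofNat 1509, .ofNat 0, .ofNat 1509, .ofNat 3389, .ofNat 0, .ofNat 128, .negSucc 423, .negSucc 95, .ofNat 0, .ofNat 277, .ofNat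 40, .ofNat 0, .ofNat 0, .ofNat 494, .ofNat 1237, .ofNat 0, .ofNat 0, .ofNat 1122908680111192479865793538743901093888, .ofNat 0, .ofNat 0, .ofNat 0, .ofNat 55850259394866238603150523350421700870144, .ofNat 0, .ofNat 0, .ofNat 0, .ofNat 0, .ofNat 0, .ofNat 0, .ofNat 0, .ofNat 238589120887881986800920300436099738632192, .ofNat 0⟩)
    (by decide +kernel)
theorem L02600 : Good (Phi V5.P V5.D (-1) (-1)) ⟨4, 13, 3, 3, 2, 2, 2, 1, 4, 3⟩ :=
  leafX_sound T5.ok_mm T5.Ymm.bz_eq (w := 211) (c := ⟨⟨.negSucc 3895, .negSucc 521, .ofNat 157, .ofNat 480, .ofNat 425, .ofNat 824⟩, ⟨.ofNat 1833, .ofNat 362, .ofNat 161, .negSucc 287, .negSucc 214, .negSucc 430⟩, ⟨.ofNat 3126, .ofNat 462, .negSucc 287, .negSucc 976, .negSucc 571, .negSucc 556⟩, ⟨.negSucc 6179, .negSucc 436, .ofNat 132, .ofNat 323, .ofNat 695, .ofNat 1249⟩, ⟨.negSucc 494, .ofNat 31, .negSucc 42, .negSucc 750, .ofNat 104, .ofNat 20⟩, .ofNat 648, .ofNat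 687, .ofNat 0, .ofNat 687, .ofNat 1507, .ofNat 0, .ofNat 128, .negSucc 346, .negSucc 187, .ofNat 0, .ofNat 243, .ofNat 102, .ofNat 0, .ofNat 0, .ofNat 452, .ofNat 2093, .ofNat 0, .ofNat 0, .ofNat 0, .ofNat 0, .ofNat 0, .ofNat 0, .ofNat 4755185796533454842824043329465876480, .ofNat 0, .ofNat 0, .ofNat 0, .ofNat 11430773005804524565690691413864349696, .ofNat 0, .ofNat 0, .ofNat 0, .ofNat 41377847902224411642097382575505932288, .ofNat 0⟩)
    (by decide +kernel)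
theorem L02601 : Good (Phi V5.P V5.D (-1) (-1)) ⟨4, 13, 3, 3, 2, 3, 2, 1, 5, 6⟩ :=
  leafX_sound T5.ok_mm T5.Ymm.bz_eq (w := 215) (c := ⟨⟨.negSucc 3372, .negSucc 40, .ofNat 54, .ofNat 1390, .ofNat 571, .ofNat 347⟩, ⟨.ofNat 1525, .negSucc 5, .ofNat 253, .negSucc 709, .negSucc 297, .negSucc 179⟩, ⟨.ofNat 2217, .negSucc 57, .negSucc 94, .negSucc 878, .negSucc 755, .negSucc 301⟩, ⟨.negSucc 5776, .ofNat 81, .negSucc 12, .ofNat 2168, .ofNat 840, .ofNat 532⟩, ⟨.negSucc 1269, .negSucc 82, .negSucc 76, .ofNat 130, .negSucc 38, .ofNat 19⟩, .ofNat 939, .ofNat 1147, .ofNat 0, .ofNat 1147, .ofNat 2293, .ofNat 0, .ofNat 128, .negSucc 391, .negSucc 190, .ofNat 0, .ofNat 284, .ofNat 102, .ofNat 0, .ofNat 0, .ofNat 495, .ofNat 1626, .ofNat 0, .ofNat 0, .ofNat 1500494528518017295763709526206840832, .ofNat 0, .ofNat 0, .ofNat 0, .ofNat 166195588261811484829245987360463650816, .ofNat 0, .ofNat 0, .ofNat 0, .ofNat 181294247567934128272271266560327286784,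 .ofNat 0, .ofNat 0, .ofNat 0, .ofNat 122559766903701385443574921022941429760, .ofNat 0⟩)
    (by decide +kernel)
theorem L02602 : Good (Phi V5.P V5.D (-1) (-1)) ⟨4, 13, 3, 3, 2, 3, 2, 1, 5, 7⟩ :=
  leafX_sound T5.ok_mm T5.Ymm.bz_eq (w := 215) (c := ⟨⟨.negSucc 2836, .negSucc 102, .ofNat 64, .ofNat 1126, .ofNat 380, .ofNat 256⟩, ⟨.ofNat 1272, .ofNat 31, .ofNat 203, .negSucc 575, .negSucc 185, .negSucc 124⟩, ⟨.ofNat 1845, .ofNat 101, .negSucc 146, .negSucc 792, .negSucc 749, .negSucc 255⟩, ⟨.negSucc 5003, .ofNat 138, .ofNat 12, .ofNat 1775, .ofNat 627, .ofNat 432⟩, ⟨.negSucc 1366, .ofNat 225, .negSucc 21, .ofNat 184, .ofNat 102, .ofNat 57⟩, .ofNat 1323, .ofNat 1803, .ofNat 0, .ofNat 1803, .ofNat 3450, .ofNat 0, .ofNat 128, .negSucc 426, .negSucc 118, .ofNat 0, .ofNat 313, .ofNat 61, .ofNat 0, .ofNat 0, .ofNat 569, .ofNat 994, .ofNat 0, .ofNat 0, .ofNat 0, .ofNat 0, .ofNat 0, .ofNat 0, .ofNat 782113659051938105204691359233864630272,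 .ofNat 0, .ofNat 0, .ofNat 0, .ofNat 662156854045666310427206231999045959680, .ofNat 0, .ofNat 0, .ofNat 0, .ofNat 302169805927312685626235950790485213184, .ofNat 0⟩)
    (by decide +kernel)
theorem L02603 : Good (Phi V5.P V5.D (-1) (-1)) ⟨3, 7, 3, 3, 1, 1, 2, 1, 3, 1⟩ :=
  out_sound (S := T5.ds_mm) T5.ok_mm (w := 45) (j := 3) (by decide +kernel)
theorem L02604 : Good (Phi V5.P V5.D (-1) (-1)) ⟨3, 4, 2, 1, 2, 2, 1, 0, 4, 4⟩ :=
  out_sound (S := T5.ds_mm) T5.ok_mm (w := 43) (j := 3) (by decide +kernel)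
theorem L02605 : Good (Phi V5.P V5.D (-1) (-1)) ⟨3, 5, 2, 1, 2, 2, 2, 0, 4, 4⟩ :=
  leafX_sound T5.ok_mm T5.Ymm.bz_eq (w := 205) (c := ⟨⟨.negSucc 2576, .negSucc 397, .ofNat 90, .ofNat 344, .ofNat 210, .ofNat 403⟩, ⟨.ofNat 726, .ofNat 268, .ofNat 409, .negSucc 130, .negSucc 63, .negSucc 130⟩, ⟨.ofNat 2747, .ofNat 323, .negSucc 310, .negSucc 737, .negSucc 727, .negSucc 225⟩, ⟨.negSucc 5079, .negSucc 147, .negSucc 20, .ofNat 404, .ofNat 405, .ofNat 740⟩, ⟨.negSucc 722, .ofNat 16, .negSucc 117, .negSucc 524, .ofNat 121, .ofNat 143⟩, .ofNat 533, .ofNat 538, .ofNat 0, .ofNat 538, .ofNat 1848, .ofNat 0, .ofNat 128, .negSucc 189, .negSucc 87, .ofNat 0, .ofNat 126, .ofNat 35, .ofNat 0, .ofNat 0, .ofNat 512, .ofNat 10778, .ofNat 27447995763067912335535102277283819290624, .ofNat 0, .ofNat 908801556193156505533498635233263616, .ofNat 0, .ofNat 120862872903478311239614505168152737873920, .ofNat 0, .ofNat 6091325476771847300859960547329703936,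 .ofNat 0, .ofNat 201282052482388248386943540860939325669376, .ofNat 0, .ofNat 7299223158217987329281317798701694976, .ofNat 0, .ofNat 282600611350542119557767226617238793486336, .ofNat 0, .ofNat 5162411121701972120974781156058726400, .ofNat 0⟩)
    (by decide +kernel)
theorem L02606 : Good (Phi V5.P V5.D (-1) (-1)) ⟨3, 5, 2, 1, 2, 2, 2, 1, 4, 4⟩ :=
  leafX_sound T5.ok_mm T5.Ymm.bz_eq (w := 203) (c := ⟨⟨.negSucc 2417, .negSucc 352, .ofNat 100, .ofNat 369, .ofNat 248, .ofNat 397⟩, ⟨.ofNat 685, .ofNat 250, .ofNat 361, .negSucc 139, .negSucc 79, .negSucc 132⟩, ⟨.ofNat 2112, .ofNat 291, .negSucc 217, .negSucc 846, .negSucc 578, .negSucc 245⟩, ⟨.negSucc 4742, .negSucc 102, .ofNat 13, .ofNat 462, .ofNat 488, .ofNat 721⟩, ⟨.negSucc 585, .negSucc 13, .negSucc 101, .negSucc 478, .ofNat 186, .ofNat 99⟩, .ofNat 538, .ofNat 550, .ofNat 0, .ofNat 550, .ofNat 1857, .ofNat 0, .ofNat 128, .negSucc 143, .negSucc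 78, .ofNat 0, .ofNat 95, .ofNat 30, .ofNat 0, .ofNat 0, .ofNat 455, .ofNat 2897, .ofNat 3988594994525530035239519182079255379968, .ofNat 0, .ofNat 42625495978352211510551330978529280, .ofNat 0, .ofNat 0, .ofNat 0, .ofNat 1395637293135896121333690947168370688, .ofNat 0, .ofNat 0, .ofNat 0, .ofNat 28936374637365634985518351366330777600, .ofNat 0, .ofNat 0, .ofNat 0, .ofNat 2062348082405810105244108971365629952, .ofNat 0⟩)
    (by decide +kernel)

end Crest.Agent.R097C5.N5mm
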