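import Crest.Agent.R097.KP7
import Crest.Agent.R097.T5Ymm

/-!
# Row 97, box cover in dimension n = 5 (generated)
-/

set_option autoImplicit false
set_option Elab.async false
set_option maxHeartbeats 0
set_option maxRecDepth 100000

open Crest.Agent.R097 Crest.Agent.R097.KA


namespace Crest.Agent.R097C5.N5mm

theorem L02607 : Good (Phi V5.P V5.D (-1) (-1)) ⟨3, 6, 2, 1, 2, 2, 2, 0, 5, 8⟩ :=
  leafX_sound T5.ok_mm T5.Ymm.bz_eq (w := 209) (c := ⟨⟨.negSucc 3171, .negSucc 522, .ofNat 151, .ofNat 500, .ofNat 256, .ofNat 301⟩, ⟨.ofNat 1166, .ofNat 361, .ofNat 394, .negSucc 270, .negSucc 125, .negSucc 144⟩, ⟨.ofNat 3294, .ofNat 442, .negSucc 383, .negSucc 954, .negSucc 743, .negSucc 187⟩, ⟨.negSucc 5363, .negSucc 255, .ofNat 78, .ofNat 475, .ofNat 414, .ofNat 474⟩, ⟨.negSucc 598, .ofNat 37, .negSucc 76, .negSucc 629, .ofNat 78, .ofNat 34⟩, .ofNat 334, .ofNat 199, .ofNat 0, .ofNat 199, .ofNat 623,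 .ofNat 0, .ofNat 128, .negSucc 155, .negSucc 55, .ofNat 0, .ofNat 156, .ofNat 34, .ofNat 0, .ofNat 0, .ofNat 245, .ofNat 4577, .ofNat 119920487458268903008944824463595084447744, .ofNat 0, .ofNat 2958480073892107427177046130869403648, .ofNat 0, .ofNat 0, .ofNat 0, .ofNat 95077155658048355796137202689689780224, .ofNat 0, .ofNat 0, .ofNat 0, .ofNat 0, .ofNat 0, .ofNat 608600660023825200658618990398801834934272, .ofNat 0, .ofNat 93502265609797270556197389297787076608, .ofNat 0⟩)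
    (by decide +kernel)
theorem L02608 : Good (Phi V5.P V5.D (-1) (-1)) ⟨3, 6, 2, 1, 2, 2, 2, 0, 5, 9⟩ :=
  leafX_sound T5.ok_mm T5.Ymm.bz_eq (w := 209) (c := ⟨⟨.negSucc 2817, .negSucc 408, .ofNat 88, .ofNat 488, .ofNat 192, .ofNat 220⟩, ⟨.ofNat 1010, .ofNat 293, .ofNat 384, .negSucc 242, .negSucc 92, .negSucc 96⟩, ⟨.ofNat 3247, .ofNat 322, .negSucc 331, .negSucc 1029, .negSucc 841, .negSucc 137⟩, ⟨.negSucc 4843, .negSucc 180, .ofNat 14, .ofNat 500, .ofNat 343, .ofNat 389⟩, ⟨.negSucc 654, .negSucc 12, .negSucc 52, .negSucc 573, .ofNat 150, .ofNat 56⟩, .ofNat 163, .ofNat 40, .ofNat 0, .ofNat 40, .ofNat 225, .ofNat 0, .ofNat 239, .negSucc 70, .negSucc 79, .ofNat 0, .ofNat 128, .ofNat 51, .ofNat 0, .ofNat 0, .ofNat 332, .ofNat 7347, .ofNat 365261616679778129770539823052142111883264, .ofNat 0, .ofNat 2608755968109278838669897064672919552, .ofNat 0, .ofNat 0, .ofNat 0, .ofNat 0, .ofNat 0, .ofNat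 0, .ofNat 0, .ofNat 0, .ofNat 0, .ofNat 908757755431109629891292915208654554136576, .ofNat 0, .ofNat 278192049249055776752275073035734614016, .ofNat 0⟩)
    (by decide +kernel)
theorem L02609 : Good (Phi V5.P V5.D (-1) (-1)) ⟨3, 7, 2, 1, 2, 2, 2, 0, 4, 4⟩ :=
  out_sound (S := T5.ds_mm) T5.ok_mm (w := 43) (j := 3) (by decide +kernel)
theorem L02610 : Good (Phi V5.P V5.D (-1) (-1)) ⟨3, 6, 2, 1, 3, 4, 3, 2, 4, 4⟩ :=
  leafX_sound T5.ok_mm T5.Ymm.bz_eq (w := 223) (c := ⟨⟨.negSucc 2846, .negSucc 455, .ofNat 95, .ofNat 173, .ofNat 128, .ofNat 478⟩, ⟨.ofNat 1007, .ofNat 336, .ofNat 393, .negSucc 87, .negSucc 55, .negSucc 213⟩, ⟨.ofNat 2517, .ofNat 387, .negSucc 281, .negSucc 497, .negSucc 295, .negSucc 300⟩, ⟨.negSucc 4885, .negSucc 189, .ofNat 49, .ofNat 148, .ofNat 234, .ofNat 789⟩, ⟨.negSucc 526, .ofNat 6, .negSucc 68, .negSucc 279, .ofNat 69, .ofNat 61⟩, .ofNat 334, .ofNat 198, .ofNat 0, .ofNat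 198, .ofNat 650, .ofNat 0, .ofNat 128, .negSucc 203, .negSucc 141, .ofNat 0, .ofNat 208, .ofNat 72, .ofNat 0, .ofNat 0, .ofNat 641, .ofNat 7384, .ofNat 732119390547778472705655345819470165889253376, .ofNat 0, .ofNat 109925707894384905330173116779281353015296, .ofNat 0, .ofNat 0, .ofNat 0, .ofNat 1213869927289298758993245330731530989862912, .ofNat 0, .ofNat 0, .ofNat 0, .ofNat 13648129560026304314631241401677583059255296, .ofNat 0, .ofNat 0, .ofNat 0, .ofNat 0, .ofNat 0⟩)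
    (by decide +kernel)
theorem L02611 : Good (Phi V5.P V5.D (-1) (-1)) ⟨3, 6, 2, 1, 3, 5, 3, 2, 4, 4⟩ :=
  leafX_sound T5.ok_mm T5.Ymm.bz_eq (w := 221) (c := ⟨⟨.negSucc 2731, .negSucc 402, .ofNat 106, .ofNat 354, .ofNat 124, .ofNat 515⟩, ⟨.ofNat 959, .ofNat 256, .ofNat 407, .negSucc 182, .negSucc 47, .negSucc 236⟩, ⟨.ofNat 2136, .ofNat 215, .negSucc 258, .negSucc 530, .negSucc 345, .negSucc 378⟩, ⟨.negSucc 4814, .negSucc 157, .ofNat 22, .ofNat 426, .ofNat 249, .ofNat 877⟩, ⟨.negSucc 840, .negSucc 1, .negSucc 77, .negSucc 298, .ofNat 98, .ofNat 113⟩, .ofNat 163, .ofNat 40, .ofNat 0, .ofNat 40, .ofNat 225, .ofNat 0, .ofNat 128, .negSucc 110, .negSucc 72, .ofNat 0, .ofNat 188, .ofNat 40, .ofNat 0, .ofNat 0, .ofNat 246, .ofNat 2115, .ofNat 0, .ofNat 0, .ofNat 0, .ofNat 0, .ofNat 0, .ofNat 0, .ofNat 528205601064436481967833907945846169665536, .ofNat 0, .ofNat 0, .ofNat 0, .ofNat 0, .ofNat 0,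 .ofNat 0, .ofNat 0, .ofNat 1239386773483318826135812410133944335335424, .ofNat 0⟩)
    (by decide +kernel)
theorem L02612 : Good (Phi V5.P V5.D (-1) (-1)) ⟨3, 6, 2, 1, 2, 2, 3, 3, 4, 4⟩ :=
  leafX_sound T5.ok_mm T5.Ymm.bz_eq (w := 207) (c := ⟨⟨.negSucc 2723, .negSucc 445, .ofNat 99, .ofNat 427, .ofNat 181, .ofNat 487⟩, ⟨.ofNat 969, .ofNat 313, .ofNat 368, .negSucc 213, .negSucc 79, .negSucc 210⟩, ⟨.ofNat 2267, .ofNat 304, .negSucc 248, .negSucc 1064, .negSucc 341, .negSucc 369⟩, ⟨.negSucc 4682, .negSucc 215, .ofNat 84, .ofNat 483, .ofNat 325, .ofNat 816⟩, ⟨.negSucc 551, .negSucc 57, .ofNat 38, .negSucc 398, .ofNat 101, .ofNat 117⟩, .ofNat 587, .ofNat 599, .ofNat 0, .ofNat 599, .ofNat 1482, .ofNat 0, .ofNat 128, .negSucc 324, .negSucc 111, .ofNat 0, .ofNat 237, .ofNat 55, .ofNat 0, .ofNat 0, .ofNat 544, .ofNat 1446, .ofNat 0, .ofNat 0, .ofNat 0, .ofNat 0, .ofNat 0, .ofNat 0, .ofNat 136628420131172879198845988956385837056,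 .ofNat 0, .ofNat 0, .ofNat 0, .ofNat 0, .ofNat 0, .ofNat 0, .ofNat 0, .ofNat 204376411751582722311751377952926859264, .ofNat 0⟩)
    (by decide +kernel)
theorem L02613 : Good (Phi V5.P V5.D (-1) (-1)) ⟨3, 7, 2, 1, 2, 2, 2, 1, 4, 4⟩ :=
  out_sound (S := T5.ds_mm) T5.ok_mm (w := 43) (j := 3) (by decide +kernel)
theorem L02614 : Good (Phi V5.P V5.D (-1) (-1)) ⟨3, 4, 2, 1, 2, 3, 1, 0, 4, 4⟩ :=
  out_sound (S := T5.ds_mm) T5.ok_mm (w := 43) (j := 3) (by decide +kernel)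
theorem L02615 : Good (Phi V5.P V5.D (-1) (-1)) ⟨4, 10, 3, 2, 2, 3, 1, 0, 4, 4⟩ :=
  out_sound (S := T5.ds_mm) T5.ok_mm (w := 51) (j := 3) (by decide +kernel)
theorem L02616 : Good (Phi V5.P V5.D (-1) (-1)) ⟨4, 11, 3, 2, 2, 3, 2, 0, 4, 4⟩ :=
  leafX_sound T5.ok_mm T5.Ymm.bz_eq (w := 209) (c := ⟨⟨.negSucc 2440, .negSucc 79, .negSucc 18, .ofNat 679, .ofNat 229, .ofNat 376⟩, ⟨.ofNat 765, .ofNat 51, .ofNat 231, .negSucc 235, .negSucc 80, .negSucc 127⟩, ⟨.ofNat 2356, .ofNat 102, .negSucc 143, .negSucc 886, .negSucc 858, .negSucc 293⟩, ⟨.negSucc 4747, .ofNat 31, .negSucc 34, .ofNat 1225, .ofNat 422, .ofNat 705⟩, ⟨.negSucc 1400, .negSucc 53, .ofNat 207, .ofNat 220, .ofNat 134, .ofNat 191⟩, .ofNat 863, .ofNat 1366, .ofNat 0, .ofNat 1366, .ofNat 4203, .ofNat 0, .ofNat 128, .negSucc 259, .negSucc 62, .ofNat 0, .ofNat 152, .ofNat 21, .ofNat 0, .ofNat 0, .ofNat 805, .ofNat 2050, .ofNat 0, .ofNat 0,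 .ofNat 0, .ofNat 0, .ofNat 0, .ofNat 252408276944228578562519155119705080987648, .ofNat 0, .ofNat 0, .ofNat 0, .ofNat 0, .ofNat 0, .ofNat 0, .ofNat 0, .ofNat 0, .ofNat 0, .ofNat 0⟩)
    (by decide +kernel)
theorem L02617 : Good (Phi V5.P V5.D (-1) (-1)) ⟨4, 11, 3, 2, 2, 3, 2, 1, 4, 4⟩ :=
  leafX_sound T5.ok_mm T5.Ymm.bz_eq (w := 209) (c := ⟨⟨.negSucc 2187, .negSucc 92, .ofNat 36, .ofNat 672, .ofNat 238, .ofNat 333⟩, ⟨.ofNat 672, .ofNat 59, .ofNat 197, .negSucc 225, .negSucc 72, .negSucc 105⟩, ⟨.ofNat 1544, .ofNat 11, .negSucc 112, .negSucc 790, .negSucc 685, .negSucc 345⟩, ⟨.negSucc 4314, .ofNat 35, .negSucc 1, .ofNat 1265, .ofNat 535, .ofNat 688⟩, ⟨.negSucc 1352, .ofNat 18, .ofNat 4, .ofNat 355, .ofNat 363, .ofNat 346⟩, .ofNat 855, .ofNat 1343, .ofNat 0, .ofNat 1343, .ofNat 4135, .ofNat 0, .ofNat 128, .negSucc 245, .negSucc 34, .ofNat 0, .ofNat 138, .ofNat 11, .ofNat 0, .ofNat 0, .ofNat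 563, .ofNat 523, .ofNat 0, .ofNat 0, .ofNat 29635624494384219794199586589900800, .ofNat 0, .ofNat 0, .ofNat 326990769405325238802091291382128786276352, .ofNat 0, .ofNat 0, .ofNat 0, .ofNat 508530615169234087769009941250214765527040, .ofNat 0, .ofNat 0, .ofNat 0, .ofNat 850262855126635881789491386613211066269696, .ofNat 4823391271526237295456336782781579264, .ofNat 0⟩)
    (by decide +kernel)
theorem L02618 : Good (Phi V5.P V5.D (-1) (-1)) ⟨3, 5, 3, 3, 2, 3, 1, 0, 4, 4⟩ :=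
  out_sound (S := T5.ds_mm) T5.ok_mm (w := 45) (j := 3) (by decide +kernel)
theorem L02619 : Good (Phi V5.P V5.D (-1) (-1)) ⟨3, 6, 2, 1, 2, 3, 2, 0, 4, 4⟩ :=
  leafX_sound T5.ok_mm T5.Ymm.bz_eq (w := 202) (c := ⟨⟨.negSucc 2654, .negSucc 251, .ofNat 110, .ofNat 828, .ofNat 269, .ofNat 425⟩, ⟨.ofNat 928, .ofNat 83, .ofNat 419, .negSucc 372, .negSucc 107, .negSucc 196⟩, ⟨.ofNat 2603, .ofNat 138, .negSucc 293, .negSucc 853, .negSucc 982, .negSucc 381⟩, ⟨.negSucc 4862, .negSucc 39, .ofNat 54, .ofNat 1394, .ofNat 473, .ofNat 736⟩, ⟨.negSucc 1416, .ofNat 21, .ofNat 43, .ofNat 263, .ofNat 113, .ofNat 186⟩, .ofNat 570, .ofNat 561, .ofNat 0, .ofNat 561, .ofNat 1384, .ofNat 0, .ofNat 128, .negSucc 208, .negSucc 51, .ofNat 0, .ofNat 191, .ofNat 23, .ofNat 0, .ofNat 0, .ofNat 554, .ofNat 2000, .ofNat 2929895641114072226319068198235363344384, .ofNat 0, .ofNat 174274272444046965066393862663045120, .ofNat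 0, .ofNat 0, .ofNat 0, .ofNat 5162710200254159706923277482857594880, .ofNat 0, .ofNat 0, .ofNat 1771803861927904361846707075801671532544, .ofNat 15973081702952732849213599538959351808, .ofNat 0, .ofNat 0, .ofNat 2660218378464520412994855308187144290304, .ofNat 7869911474104667670852124784919052288, .ofNat 0⟩)
    (by decide +kernel)
theorem L02620 : Good (Phi V5.P V5.D (-1) (-1)) ⟨4, 12, 2, 1, 3, 6, 2, 1, 4, 4⟩ :=
  leafX_sound T5.ok_mm T5.Ymm.bz_eq (w := 220) (c := ⟨⟨.negSucc 2318, .negSucc 71, .negSucc 14, .ofNat 387, .ofNat 222, .ofNat 352⟩, ⟨.ofNat 779, .ofNat 36, .ofNat 410, .negSucc 161, .negSucc 79, .negSucc 139⟩, ⟨.ofNat 1656, .ofNat 39, .negSucc 262, .negSucc 481, .negSucc 758, .negSucc 437⟩, ⟨.negSucc 4309, .ofNat 51, .negSucc 127, .ofNat 609, .ofNat 525, .ofNat 696⟩, ⟨.negSucc 1285, .negSucc 34, .ofNat 104, .negSucc 32, .ofNat 384, .ofNat 293⟩, .ofNat 545, .ofNat 533, .ofNat 0,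 .ofNat 533, .ofNat 1490, .ofNat 0, .ofNat 128, .negSucc 190, .negSucc 47, .ofNat 0, .ofNat 154, .ofNat 18, .ofNat 0, .ofNat 0, .ofNat 604, .ofNat 1512, .ofNat 0, .ofNat 0, .ofNat 0, .ofNat 0, .ofNat 0, .ofNat 0, .ofNat 0, .ofNat 0, .ofNat 0, .ofNat 107387737061415209000598945760994210720251904, .ofNat 32532783923814643457236693348972062834688, .ofNat 0, .ofNat 0, .ofNat 397636722889683055057910284836106589932879872, .ofNat 135905812619891729818870469496241431511040, .ofNat 0⟩)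
    (by decide +kernel)
theorem L02621 : Good (Phi V5.P V5.D (-1) (-1)) ⟨4, 12, 3, 2, 3, 7, 2, 1, 4, 4⟩ :=
  leafX_sound T5.ok_mm T5.Ymm.bz_eq (w := 221) (c := ⟨⟨.negSucc 1878, .negSucc 25, .ofNat 7, .ofNat 347, .ofNat 230, .ofNat 225⟩, ⟨.ofNat 588, .ofNat 16, .ofNat 179, .negSucc 112, .negSucc 65, .negSucc 64⟩, ⟨.ofNat 1167, .negSucc 2, .negSucc 64, .negSucc 381, .negSucc 751, .negSucc 509⟩, ⟨.negSucc 3660, .ofNat 81, .negSucc 2, .ofNat 765, .ofNat 580, .ofNat 539⟩, ⟨.negSucc 1480, .negSucc 58, .ofNat 130, .ofNat 496, .ofNat 511, .ofNat 432⟩, .ofNat 327, .ofNat 180, .ofNat 0, .ofNat 180, .ofNat 644, .ofNat 0, .ofNat 135, .negSucc 89, .negSucc 3, .ofNat 0, .ofNat 128, .negSucc 19, .ofNat 0, .ofNat 0, .ofNat 434, .ofNat 352, .ofNat 0, .ofNat 0, .ofNat 0, .ofNat 0, .ofNat 0, .ofNat 0, .ofNat 0, .ofNat 0, .ofNat 0, .ofNat 904880076216623792092043690731693605287624704, .ofNat 10116643712899363809016367238820692754432,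 .ofNat 0, .ofNat 0, .ofNat 2969324899821055453415514965054286104916656128, .ofNat 0, .ofNat 0⟩)
    (by decide +kernel)
theorem L02622 : Good (Phi V5.P V5.D (-1) (-1)) ⟨4, 12, 3, 3, 3, 7, 2, 1, 4, 4⟩ :=
  leafX_sound T5.ok_mm T5.Ymm.bz_eq (w := 223) (c := ⟨⟨.negSucc 1831, .negSucc 59, .negSucc 3, .ofNat 358, .ofNat 192, .ofNat 202⟩, ⟨.ofNat 772, .ofNat 34, .ofNat 170, .negSucc 144, .negSucc 67, .negSucc 75⟩, ⟨.ofNat 1205, .negSucc 73, .negSucc 83, .negSucc 361, .negSucc 811, .negSucc 590⟩, ⟨.negSucc 3632, .ofNat 30, .ofNat 42, .ofNat 834, .ofNat 551, .ofNat 528⟩, ⟨.negSucc 1393, .negSucc 48, .ofNat 214, .ofNat 584, .ofNat 535, .ofNat 452⟩, .ofNat 1274, .ofNat 1942, .ofNat 0, .ofNat 1942, .ofNat 4273, .ofNat 0, .ofNat 128, .negSucc 330, .negSucc 0, .ofNat 0, .ofNat 222, .negSucc 10, .ofNat 0, .ofNat 0, .ofNat 866, .ofNat 802, .ofNat 0, .ofNat 0, .ofNat 0, .ofNat 0, .ofNat 0, .ofNat 1207506852641473886262209653461807095588323328,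 .ofNat 10793396720619627999248898703059461341184, .ofNat 0, .ofNat 0, .ofNat 4834222038503190698123445503205894477412564992, .ofNat 23034110504052282387407884010668106448896, .ofNat 0, .ofNat 0, .ofNat 12252394439294014937088314763535958596667834368, .ofNat 372424423426953584167017288273627411644416, .ofNat 0⟩)
    (by decide +kernel)
theorem L02623 : Good (Phi V5.P V5.D (-1) (-1)) ⟨4, 13, 2, 1, 2, 3, 2, 1, 5, 8⟩ :=
  leafX_sound T5.ok_mm T5.Ymm.bz_eq (w := 211) (c := ⟨⟨.negSucc 2395, .negSucc 16, .negSucc 33, .ofNat 865, .ofNat 236, .ofNat 163⟩, ⟨.ofNat 887, .ofNat 24, .ofNat 390, .negSucc 437, .negSucc 108, .negSucc 79⟩, ⟨.ofNat 1717, .ofNat 42, .negSucc 271, .negSucc 826, .negSucc 771, .negSucc 252⟩, ⟨.negSucc 4586, .ofNat 18, .ofNat 139, .ofNat 1657, .ofNat 640, .ofNat 326⟩, ⟨.negSucc 1985, .negSucc 273, .ofNat 657, .ofNat 677, .ofNat 523, .ofNat 154⟩, .ofNat 650, .ofNat 691, .ofNat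 0, .ofNat 691, .ofNat 1519, .ofNat 0, .ofNat 128, .negSucc 314, .negSucc 37, .ofNat 0, .ofNat 260, .ofNat 7, .ofNat 0, .ofNat 0, .ofNat 644, .ofNat 794, .ofNat 0, .ofNat 0, .ofNat 0, .ofNat 0, .ofNat 0, .ofNat 155619190717445075697882826006046447763456, .ofNat 86672015799369311893466853705439510528, .ofNat 0, .ofNat 0, .ofNat 580863144743650831172919538079748086300672, .ofNat 174347525172368272981645725571569680384, .ofNat 0, .ofNat 0, .ofNat 1085899006665824693190979482863037424074752, .ofNat 99362081022810553206692612558492270592, .ofNat 0⟩)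
    (by decide +kernel)
theorem L02624 : Good (Phi V5.P V5.D (-1) (-1)) ⟨4, 13, 2, 1, 3, 6, 2, 1, 5, 9⟩ :=
  leafX_sound T5.ok_mm T5.Ymm.bz_eq (w := 226) (c := ⟨⟨.negSucc 2175, .negSucc 85, .negSucc 2, .ofNat 377, .ofNat 155, .ofNat 136⟩, ⟨.ofNat 747, .ofNat 35, .ofNat 414, .negSucc 192, .negSucc 59, .negSucc 62⟩, ⟨.ofNat 1611, .ofNat 26, .negSucc 326, .negSucc 564, .negSucc 917, .negSucc 310⟩, ⟨.negSucc 3924, .ofNat 41, .negSucc 61, .ofNat 618, .ofNat 497, .ofNat 309⟩, ⟨.negSucc 1300, .negSucc 6, .ofNat 105, .ofNat 102, .ofNat 496, .ofNat 195⟩, .ofNat 643, .ofNat 678, .ofNat 0, .ofNat 678, .ofNat 1497, .ofNat 0, .ofNat 128, .negSucc 411, .negSucc 37, .ofNat 0, .ofNat 332, .ofNat 10, .ofNat 0, .ofNat 0, .ofNat 1101, .ofNat 2020, .ofNat 0, .ofNat 0, .ofNat 0, .ofNat 0, .ofNat 0, .ofNat 723946309440454929287447881232430033543364608, .ofNat 4502211360499552375295869433135973101731840, .ofNat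 0, .ofNat 0, .ofNat 9081593867540636385471227564553819830874013696, .ofNat 14510930256807330445332861140446141936041984, .ofNat 0, .ofNat 0, .ofNat 12959030518143186812888751270213249655375921152, .ofNat 13297955930972387015946986273573810833719296, .ofNat 0⟩)
    (by decide +kernel)
theorem L02625 : Good (Phi V5.P V5.D (-1) (-1)) ⟨4, 13, 2, 1, 3, 7, 2, 1, 5, 9⟩ :=
  leafX_sound T5.ok_mm T5.Ymm.bz_eq (w := 224) (c := ⟨⟨.negSucc 1715, .negSucc 26, .negSucc 34, .ofNat 312, .ofNat 79, .ofNat 53⟩, ⟨.ofNat 560, .ofNat 8, .ofNat 358, .negSucc 121, .negSucc 5, .negSucc 13⟩, ⟨.ofNat 1061, .negSucc 76, .negSucc 189, .negSucc 477, .negSucc 1065, .negSucc 420⟩, ⟨.negSucc 3355, .ofNat 88, .ofNat 103, .ofNat 841, .ofNat 444, .ofNat 187⟩, ⟨.negSucc 1560, .negSucc 97, .ofNat 519, .ofNat 732, .ofNat 633, .ofNat 204⟩, .ofNat 1128, .ofNat 1516, .ofNat 0, .ofNat 1516, .ofNat 3032, .ofNat 0, .ofNat 128, .negSucc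 166, .ofNat 26, .ofNat 0, .ofNat 128, .negSucc 24, .ofNat 0, .ofNat 0, .ofNat 520, .ofNat 365, .ofNat 0, .ofNat 24233721690000674348854421994782678736437248, .ofNat 14479097994987244819027417547716966744064, .ofNat 0, .ofNat 0, .ofNat 1187884940264737044778112214480948562019483648, .ofNat 3672325172134589156307090124153519190573056, .ofNat 0, .ofNat 0, .ofNat 2363822730687883779228973925173060256502120448, .ofNat 3946140110309885935864415025038851779330048, .ofNat 0, .ofNat 0, .ofNat 6442364493755067494585469177335262119437795328, .ofNat 512987347092734606065516300241526096658432, .ofNat 0⟩)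
    (by decide +kernel)
theorem L02626 : Good (Phi V5.P V5.D (-1) (-1)) ⟨3, 7, 2, 1, 2, 3, 1, 0, 4, 4⟩ :=
  out_sound (S := T5.ds_mm) T5.ok_mm (w := 43) (j := 3) (by decide +kernel)
theorem L02627 : Good (Phi V5.P V5.D (-1) (-1)) ⟨3, 4, 2, 1, 1, 1, 1, 0, 4, 5⟩ :=
  out_sound (S := T5.ds_mm) T5.ok_mm (w := 43) (j := 3) (by decide +kernel)
theorem L02628 : Good (Phi V5.P V5.D (-1) (-1)) ⟨4, 10, 2, 1, 1, 1, 1, 0, 4, 5⟩ :=
  out_sound (S := T5.ds_mm) T5.ok_mm (w := 49) (j := 3) (by decide +kernel)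
theorem L02629 : Good (Phi V5.P V5.D (-1) (-1)) ⟨4, 11, 2, 1, 2, 2, 2, 0, 4, 5⟩ :=
  leafX_sound T5.ok_mm T5.Ymm.bz_eq (w := 210) (c := ⟨⟨.negSucc 2495, .negSucc 128, .ofNat 22, .ofNat 485, .ofNat 189, .ofNat 290⟩, ⟨.ofNat 762, .ofNat 91, .ofNat 339, .negSucc 167, .negSucc 41, .negSucc 100⟩, ⟨.ofNat 2929, .ofNat 74, .negSucc 360, .negSucc 928, .negSucc 777, .negSucc 293⟩, ⟨.negSucc 4622, .negSucc 14, .negSucc 115, .ofNat 670, .ofNat 376, .ofNat 569⟩, ⟨.negSucc 670, .negSucc 12, .negSucc 32, .negSucc 468, .ofNat 159, .ofNat 213⟩, .ofNat 328, .ofNat 164, .ofNat 0, .ofNat 164, .ofNat 728, .ofNat 0, .ofNat 184, .negSucc 104, .negSucc 54, .ofNat 0, .ofNat 128, .ofNat 26, .ofNat 0, .ofNat 0, .ofNat 784, .ofNat 20603, .ofNat 3331955942270454385930647226457283704651776, .ofNat 0, .ofNat 0, .ofNat 0, .ofNat 11951480451918937126157131709540923481260032, .ofNat 0, .ofNat 8061208925363362326187660454710476800,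 .ofNat 0, .ofNat 0, .ofNat 0, .ofNat 2539726111123432827696888775354351616, .ofNat 0, .ofNat 11620354018410589860410994275039674160381952, .ofNat 0, .ofNat 1084942253454311992750641577325494272, .ofNat 0⟩)
    (by decide +kernel)
theorem L02630 : Good (Phi V5.P V5.D (-1) (-1)) ⟨4, 11, 3, 2, 2, 2, 3, 2, 5, 10⟩ :=
  leafX_sound T5.ok_mm T5.Ymm.bz_eq (w := 221) (c := ⟨⟨.negSucc 2202, .negSucc 133, .ofNat 2, .ofNat 348, .ofNat 97, .ofNat 161⟩, ⟨.ofNat 682, .ofNat 103, .ofNat 180, .negSucc 127, .negSucc 27, .negSucc 54⟩, ⟨.ofNat 2140, .ofNat 90, .negSucc 115, .negSucc 986, .negSucc 344, .negSucc 103⟩, ⟨.negSucc 4092, .negSucc 7, .negSucc 46, .ofNat 464, .ofNat 205, .ofNat 287⟩, ⟨.negSucc 553, .negSucc 3, .negSucc 9, .negSucc 375, .ofNat 106, .ofNat 48⟩, .ofNat 328, .ofNat 164, .ofNat 0, .ofNat 164, .ofNat 733, .ofNat 0, .ofNat 238, .negSucc 107, .negSucc 69, .ofNat 0, .ofNat 128, .ofNat 29, .ofNat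 0, .ofNat 0, .ofNat 681, .ofNat 13535, .ofNat 581719943790690229450286032795609497170083840, .ofNat 0, .ofNat 0, .ofNat 0, .ofNat 0, .ofNat 0, .ofNat 0, .ofNat 0, .ofNat 0, .ofNat 0, .ofNat 0, .ofNat 0, .ofNat 0, .ofNat 0, .ofNat 4209492848900073056094514074055818084352, .ofNat 0⟩)
    (by decide +kernel)
theorem L02631 : Good (Phi V5.P V5.D (-1) (-1)) ⟨4, 11, 3, 2, 2, 2, 3, 2, 5, 11⟩ :=
  leafX_sound T5.ok_mm T5.Ymm.bz_eq (w := 221) (c := ⟨⟨.negSucc 2037, .negSucc 116, .ofNat 6, .ofNat 321, .ofNat 84, .ofNat 124⟩, ⟨.ofNat 629, .ofNat 97, .ofNat 162, .negSucc 116, .negSucc 24, .negSucc 41⟩, ⟨.ofNat 2154, .ofNat 65, .negSucc 86, .negSucc 1138, .negSucc 409, .negSucc 109⟩, ⟨.negSucc 3811, .ofNat 9, .negSucc 30, .ofNat 461, .ofNat 194, .ofNat 232⟩, ⟨.negSucc 566, .negSucc 14, .negSucc 10, .negSucc 252, .ofNat 141, .ofNat 59⟩, .ofNat 535, .ofNat 543, .ofNat 0, .ofNat 543, .ofNat 1852, .ofNat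 0, .ofNat 128, .negSucc 150, .negSucc 54, .ofNat 0, .ofNat 107, .ofNat 20, .ofNat 0, .ofNat 0, .ofNat 1102, .ofNat 17042, .ofNat 1175995610426062484340592497524673639759216640, .ofNat 0, .ofNat 0, .ofNat 0, .ofNat 0, .ofNat 0, .ofNat 2095145268276784373866654591748740743168, .ofNat 0, .ofNat 275645617989446522659556539000695213638287360, .ofNat 0, .ofNat 6142204915382468728682310734405789810688, .ofNat 0, .ofNat 0, .ofNat 88998869429933530788533236424267521163526144, .ofNat 25436726946617963091684456387735980081152, .ofNat 0⟩)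
    (by decide +kernel)
theorem L02632 : Good (Phi V5.P V5.D (-1) (-1)) ⟨4, 11, 3, 2, 3, 4, 3, 3, 4, 5⟩ :=
  leafX_sound T5.ok_mm T5.Ymm.bz_eq (w := 231) (c := ⟨⟨.negSucc 2081, .negSucc 138, .ofNat 24, .ofNat 128, .ofNat 114, .ofNat 277⟩, ⟨.ofNat 644, .ofNat 112, .ofNat 155, .negSucc 48, .negSucc 35, .negSucc 91⟩, ⟨.ofNat 1826, .ofNat 61, .negSucc 78, .negSucc 507, .negSucc 333, .negSucc 198⟩, ⟨.negSucc 3860, .negSucc 11, .ofNat 0, .ofNat 171, .ofNat 237, .ofNat 506⟩, ⟨.negSucc 478, .ofNat 5, .negSucc 11, .negSucc 134, .ofNat 123, .ofNat 95⟩, .ofNat 536, .ofNat 546, .ofNat 0, .ofNat 546, .ofNat 1855, .ofNat 0, .ofNat 128, .negSucc 259, .negSucc 107, .ofNat 0, .ofNat 178, .ofNat 38, .ofNat 0, .ofNat 0, .ofNat 1233, .ofNat 17415, .ofNat 364434938295802168485118253561746154254845870080, .ofNat 0, .ofNat 66476844629292197653533305292180336672768, .ofNat 0, .ofNat 0, .ofNat 0, .ofNat 4978576940815283173310779995224401713823744,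 .ofNat 0, .ofNat 0, .ofNat 0, .ofNat 0, .ofNat 0, .ofNat 0, .ofNat 0, .ofNat 0, .ofNat 0⟩)
    (by decide +kernel)
theorem L02633 : Good (Phi V5.P V5.D (-1) (-1)) ⟨4, 11, 3, 2, 3, 5, 3, 3, 4, 5⟩ :=
  leafX_sound T5.ok_mm T5.Ymm.bz_eq (w := 228) (c := ⟨⟨.negSucc 1944, .negSucc 98, .negSucc 17, .ofNat 189, .ofNat 91, .ofNat 249⟩, ⟨.ofNat 599, .ofNat 86, .ofNat 166, .negSucc 68, .negSucc 24, .negSucc 82⟩, ⟨.ofNat 1421, .ofNat 28, .negSucc 172, .negSucc 629, .negSucc 391, .negSucc 334⟩, ⟨.negSucc 3684, .ofNat 27, .negSucc 74, .ofNat 299, .ofNat 233, .ofNat 490⟩, ⟨.negSucc 689, .negSucc 16, .negSucc 0, .negSucc 63, .ofNat 219, .ofNat 186⟩, .ofNat 535, .ofNat 543, .ofNat 0, .ofNat 543, .ofNat 1832, .ofNat 0, .ofNat 128, .negSucc 153, .negSucc 34, .ofNat 0, .ofNat 109, .ofNat 11, .ofNat 0, .ofNat 0, .ofNat 1029, .ofNat 3372, .ofNat 0, .ofNat 0, .ofNat 0, .ofNat 0, .ofNat 0, .ofNat 0, .ofNat 0,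 .ofNat 0, .ofNat 0, .ofNat 9139536043467240448945481291765205882353221632, .ofNat 0, .ofNat 0, .ofNat 0, .ofNat 55742419767026861559669974172624806471566098432, .ofNat 7012777247570778576692287275561999644229632, .ofNat 0⟩)
    (by decide +kernel)
theorem L02634 : Good (Phi V5.P V5.D (-1) (-1)) ⟨4, 11, 3, 3, 2, 2, 2, 1, 4, 5⟩ :=
  out_sound (S := T5.ds_mm) T5.ok_mm (w := 51) (j := 3) (by decide +kernel)
theorem L02635 : Good (Phi V5.P V5.D (-1) (-1)) ⟨4, 11, 2, 1, 2, 3, 2, 0, 4, 5⟩ :=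
  leafX_sound T5.ok_mm T5.Ymm.bz_eq (w := 205) (c := ⟨⟨.negSucc 1981, .negSucc 84, .ofNat 63, .ofNat 564, .ofNat 146, .ofNat 256⟩, ⟨.ofNat 603, .ofNat 59, .ofNat 324, .negSucc 190, .negSucc 43, .negSucc 77⟩, ⟨.ofNat 2204, .ofNat 10, .negSucc 258, .negSucc 939, .negSucc 1010, .negSucc 262⟩, ⟨.negSucc 3907, .ofNat 23, .negSucc 36, .ofNat 944, .ofNat 328, .ofNat 516⟩, ⟨.negSucc 1195, .negSucc 9, .negSucc 27, .negSucc 64, .ofNat 225, .ofNat 212⟩, .ofNat 533, .ofNat 540, .ofNat 0, .ofNat 540, .ofNat 1857, .ofNat 0, .ofNat 130, .negSucc 127, .negSucc 7, .ofNat 0, .ofNat 101, .ofNat 2, .ofNat 0, .ofNat 0, .ofNat 500, .ofNat 872, .ofNat 58054488571777140696935628707506537103360, .ofNat 0, .ofNat 0, .ofNat 0, .ofNat 0, .ofNat 0, .ofNat 0, .ofNat 0, .ofNat 0, .ofNat 64215564604741823441196538645473147224064, .ofNat 1478828825088766385796699971332866048, .ofNat 0, .ofNat 2418840832041749642425042233200245053849600,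 .ofNat 148313692272810658684507353257189381767168, .ofNat 1870958089466570328658101537714733056, .ofNat 0⟩)
    (by decide +kernel)
theorem L02636 : Good (Phi V5.P V5.D (-1) (-1)) ⟨4, 11, 3, 2, 2, 3, 2, 1, 5, 10⟩ :=
  leafX_sound T5.ok_mm T5.Ymm.bz_eq (w := 214) (c := ⟨⟨.negSucc 1826, .negSucc 72, .negSucc 5, .ofNat 546, .ofNat 154, .ofNat 112⟩, ⟨.ofNat 557, .ofNat 56, .ofNat 181, .negSucc 185, .negSucc 38, .negSucc 35⟩, ⟨.ofNat 1282, .negSucc 26, .negSucc 108, .negSucc 1041, .negSucc 834, .negSucc 225⟩, ⟨.negSucc 3571, .ofNat 39, .negSucc 62, .ofNat 983, .ofNat 420, .ofNat 225⟩, ⟨.negSucc 1007, .negSucc 35, .ofNat 14, .ofNat 171, .ofNat 462, .ofNat 103⟩, .ofNat 850, .ofNat 1322, .ofNat 0, .ofNat 1322, .ofNat 4038, .ofNat 0, .ofNat 128, .negSucc 251, .negSucc 3, .ofNat 0, .ofNat 144, .negSucc 0, .ofNat 0, .ofNat 0, .ofNat 904, .ofNat 1285, .ofNat 0, .ofNat 0, .ofNat 0, .ofNat 0, .ofNat 0,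 .ofNat 6564248752823190714422410188000193044021248, .ofNat 0, .ofNat 0, .ofNat 0, .ofNat 18377245168495720886075340246602195914457088, .ofNat 0, .ofNat 0, .ofNat 0, .ofNat 36752680732861547597557034521736276002996224, .ofNat 0, .ofNat 0⟩)
    (by decide +kernel)
theorem L02637 : Good (Phi V5.P V5.D (-1) (-1)) ⟨4, 11, 3, 2, 2, 3, 2, 1, 5, 11⟩ :=
  leafX_sound T5.ok_mm T5.Ymm.bz_eq (w := 214) (c := ⟨⟨.negSucc 1687, .negSucc 86, .ofNat 3, .ofNat 476, .ofNat 111, .ofNat 99⟩, ⟨.ofNat 512, .ofNat 66, .ofNat 162, .negSucc 167, .negSucc 26, .negSucc 29⟩, ⟨.ofNat 1171, .negSucc 80, .negSucc 113, .negSucc 1263, .negSucc 996, .negSucc 231⟩, ⟨.negSucc 3290, .ofNat 23, .negSucc 35, .ofNat 802, .ofNat 348, .ofNat 208⟩, ⟨.negSucc 872, .negSucc 11, .ofNat 29, .negSucc 1, .ofNat 458, .ofNat 109⟩, .ofNat 533, .ofNat 538, .ofNat 0, .ofNat 538, .ofNat 1832, .ofNat 0, .ofNat 151, .negSucc 127, .ofNat 10, .ofNat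 0, .ofNat 98, .negSucc 5, .ofNat 0, .ofNat 0, .ofNat 780, .ofNat 1471, .ofNat 0, .ofNat 151470527098371322304687920479928391303168, .ofNat 0, .ofNat 0, .ofNat 0, .ofNat 11746341258024340693600179737496450330787840, .ofNat 128953254140049019543299975154208079872, .ofNat 0, .ofNat 0, .ofNat 18982037753848057111701394343359233329725440, .ofNat 71625596626325500526196803319460003840, .ofNat 0, .ofNat 0, .ofNat 46015876143607279075262153314087438001373184, .ofNat 0, .ofNat 0⟩)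
    (by decide +kernel)
theorem L02638 : Good (Phi V5.P V5.D (-1) (-1)) ⟨4, 11, 3, 3, 2, 3, 2, 1, 4, 5⟩ :=
  out_sound (S := T5.ds_mm) T5.ok_mm (w := 51) (j := 3) (by decide +kernel)
theorem L02639 : Good (Phi V5.P V5.D (-1) (-1)) ⟨3, 6, 2, 1, 2, 2, 2, 0, 4, 5⟩ :=
  leafX_sound T5.ok_mm T5.Ymm.bz_eq (w := 205) (c := ⟨⟨.negSucc 2711, .negSucc 213, .ofNat 23, .ofNat 589, .ofNat 189, .ofNat 289⟩, ⟨.ofNat 1000, .ofNat 146, .ofNat 377, .negSucc 329, .negSucc 56, .negSucc 114⟩, ⟨.ofNat 3341, .ofNat 73, .negSucc 311, .negSucc 1254, .negSucc 817, .negSucc 367⟩, ⟨.negSucc 4673, .ofNat 20, .negSucc 70, .ofNat 690, .ofNat 384, .ofNat 570⟩, ⟨.negSucc 728, .negSucc 65, .ofNat 9, .negSucc 412, .ofNat 141, .ofNat 229⟩, .ofNat 336, .ofNat 202, .ofNat 0, .ofNat 202, .ofNat 645, .ofNat 0, .ofNat 128, .negSucc 150, .negSucc 57, .ofNat 0, .ofNat 170, .ofNat 33, .ofNat 0, .ofNat 0, .ofNat 885, .ofNat 13640,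 .ofNat 192960679763441201072079320884458085679104, .ofNat 0, .ofNat 970461773486668449449929869310820352, .ofNat 0, .ofNat 360117199749441059604240301006249451847680, .ofNat 0, .ofNat 4098901883562514907938128532435107840, .ofNat 0, .ofNat 342537433347067926296670615415945309454336, .ofNat 0, .ofNat 4480738953584211128480335906908143616, .ofNat 0, .ofNat 902503669351615332801781797878818479800320, .ofNat 0, .ofNat 0, .ofNat 0⟩)
    (by decide +kernel)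
theorem L02640 : Good (Phi V5.P V5.D (-1) (-1)) ⟨4, 12, 2, 1, 3, 4, 4, 4, 5, 10⟩ :=
  leafX_sound T5.ok_mm T5.Ymm.bz_eq (w := 238) (c := ⟨⟨.negSucc 2384, .negSucc 177, .ofNat 71, .ofNat 170, .ofNat 61, .ofNat 183⟩, ⟨.ofNat 827, .ofNat 138, .ofNat 348, .negSucc 81, .negSucc 25, .negSucc 77⟩, ⟨.ofNat 2303, .ofNat 151, .negSucc 283, .negSucc 522, .negSucc 192, .negSucc 127⟩, ⟨.negSucc 4126, .negSucc 49, .ofNat 16, .ofNat 173, .ofNat 115, .ofNat 312⟩, ⟨.negSucc 502, .negSucc 2, .negSucc 38, .negSucc 240, .ofNat 38, .ofNat 46⟩, .ofNat 164, .ofNat 36, .ofNat 0, .ofNat 36, .ofNat 228, .ofNat 0, .ofNat 190, .negSucc 59, .negSucc 80, .ofNat 0, .ofNat 128, .ofNat 44, .ofNat 0, .ofNat 0, .ofNat 396, .ofNat 68037, .ofNat 17652965313048239784797788137011158181342588436480, .ofNat 0, .ofNat 158155108642872667018212336816802673243193344, .ofNat 0, .ofNat 9114161367347736687988927615051432261729514422272,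 .ofNat 0, .ofNat 403750778876930542557458819702746741729132544, .ofNat 0, .ofNat 0, .ofNat 0, .ofNat 212601820322000223672910760988922889893838848, .ofNat 0, .ofNat 3246009536710743788105293293821114687828573290496, .ofNat 0, .ofNat 345159155721329290414817872799376714286235648, .ofNat 0⟩)
    (by decide +kernel)
theorem L02641 : Good (Phi V5.P V5.D (-1) (-1)) ⟨4, 13, 2, 1, 3, 4, 4, 4, 5, 10⟩ :=
  leafX_sound T5.ok_mm T5.Ymm.bz_eq (w := 239) (c := ⟨⟨.negSucc 2593, .negSucc 192, .ofNat 82, .ofNat 208, .ofNat 58, .ofNat 197⟩, ⟨.ofNat 1000, .ofNat 158, .ofNat 339, .negSucc 118, .negSucc 25, .negSucc 100⟩, ⟨.ofNat 2502, .ofNat 133, .negSucc 281, .negSucc 612, .negSucc 178, .negSucc 151⟩, ⟨.negSucc 4167, .negSucc 45, .ofNat 1, .ofNat 177, .ofNat 111, .ofNat 325⟩, ⟨.negSucc 486, .ofNat 3, .negSucc 56, .negSucc 260, .ofNat 39, .ofNat 52⟩, .ofNat 327, .ofNat 188, .ofNat 0, .ofNat 188, .ofNat 553,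 .ofNat 0, .ofNat 128, .negSucc 128, .negSucc 69, .ofNat 0, .ofNat 148, .ofNat 42, .ofNat 0, .ofNat 0, .ofNat 456, .ofNat 85801, .ofNat 27706574458496742186955188598101249380243969409024, .ofNat 0, .ofNat 56496604172429591389396510899919814578405376, .ofNat 0, .ofNat 0, .ofNat 0, .ofNat 428013807707461299045394517759397886898995200, .ofNat 0, .ofNat 0, .ofNat 0, .ofNat 2535062118888958433392600705637755157468938240, .ofNat 0, .ofNat 0, .ofNat 0, .ofNat 2531772641128636432670141902484959715580182528, .ofNat 0⟩)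
    (by decide +kernel)
theorem L02642 : Good (Phi V5.P V5.D (-1) (-1)) ⟨4, 12, 2, 1, 3, 4, 4, 5, 5, 10⟩ :=
  leafX_sound T5.ok_mm T5.Ymm.bz_eq (w := 238) (c := ⟨⟨.negSucc 2324, .negSucc 169, .ofNat 68, .ofNat 169, .ofNat 59, .ofNat 178⟩, ⟨.ofNat 803, .ofNat 135, .ofNat 339, .negSucc 82, .negSucc 20, .negSucc 71⟩, ⟨.ofNat 2128, .ofNat 128, .negSucc 246, .negSucc 548, .negSucc 177, .negSucc 127⟩, ⟨.negSucc 4021, .negSucc 35, .ofNat 16, .ofNat 185, .ofNat 111, .ofNat 301⟩, ⟨.negSucc 485, .negSucc 1, .negSucc 41, .negSucc 199, .ofNat 39, .ofNat 43⟩, .ofNat 614, .ofNat 678, .ofNat 0, .ofNat 678, .ofNat 1769, .ofNat 0, .ofNat 128, .negSucc 170, .negSucc 65, .ofNat 0, .ofNat 117, .ofNat 31, .ofNat 0, .ofNat 0, .ofNat 511, .ofNat 36521, .ofNat 8094883532144308811910403908508112593256252964864, .ofNat 0, .ofNat 14920373480035014943173265656749912223645696, .ofNat 0, .ofNat 0, .ofNat 0, .ofNat 1233470779499628513217009976052521263635103744,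 .ofNat 0, .ofNat 0, .ofNat 0, .ofNat 767592593789985035480752869889738926679130112, .ofNat 0, .ofNat 0, .ofNat 0, .ofNat 0, .ofNat 0⟩)
    (by decide +kernel)
theorem L02643 : Good (Phi V5.P V5.D (-1) (-1)) ⟨4, 13, 2, 1, 3, 4, 4, 5, 5, 10⟩ :=
  leafX_sound T5.ok_mm T5.Ymm.bz_eq (w := 238) (c := ⟨⟨.negSucc 2510, .negSucc 170, .ofNat 50, .ofNat 199, .ofNat 65, .ofNat 195⟩, ⟨.ofNat 968, .ofNat 147, .ofNat 346, .negSucc 113, .negSucc 31, .negSucc 100⟩, ⟨.ofNat 2284, .ofNat 106, .negSucc 216, .negSucc 631, .negSucc 173, .negSucc 150⟩, ⟨.negSucc 4054, .negSucc 29, .negSucc 6, .ofNat 176, .ofNat 116, .ofNat 319⟩, ⟨.negSucc 472, .negSucc 9, .negSucc 32, .negSucc 235, .ofNat 36, .ofNat 44⟩, .ofNat 327, .ofNat 188, .ofNat 0, .ofNat 188, .ofNat 553, .ofNat 0, .ofNat 128, .negSucc 120, .negSucc 95, .ofNat 0, .ofNat 138, .ofNat 54, .ofNat 0, .ofNat 0, .ofNat 616, .ofNat 41026, .ofNat 11233456173471075651908025105401758897924116316160,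 .ofNat 0, .ofNat 24018611846674799066487989811825731981803520, .ofNat 0, .ofNat 0, .ofNat 0, .ofNat 655179415271499117531049829787174457466421248, .ofNat 0, .ofNat 0, .ofNat 0, .ofNat 1012856180837430176427226195183741399950426112, .ofNat 0, .ofNat 0, .ofNat 0, .ofNat 4659951822726060476438033236423808870707625984, .ofNat 0⟩)
    (by decide +kernel)
theorem L02644 : Good (Phi V5.P V5.D (-1) (-1)) ⟨4, 12, 2, 1, 3, 4, 3, 2, 5, 11⟩ :=
  leafX_sound T5.ok_mm T5.Ymm.bz_eq (w := 234) (c := ⟨⟨.negSucc 2191, .negSucc 139, .ofNat 45, .ofNat 165, .ofNat 96, .ofNat 143⟩, ⟨.ofNat 757, .ofNat 115, .ofNat 318, .negSucc 76, .negSucc 32, .negSucc 57⟩, ⟨.ofNat 2232, .ofNat 86, .negSucc 233, .negSucc 587, .negSucc 374, .negSucc 134⟩, ⟨.negSucc 3822, .negSucc 11, .negSucc 13, .ofNat 191, .ofNat 204, .ofNat 254⟩, ⟨.negSucc 518, .negSucc 9, .negSucc 29, .negSucc 177, .ofNat 106, .ofNat 58⟩, .ofNat 330, .ofNat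 186, .ofNat 0, .ofNat 186, .ofNat 653, .ofNat 0, .ofNat 129, .negSucc 112, .negSucc 62, .ofNat 0, .ofNat 128, .ofNat 29, .ofNat 0, .ofNat 0, .ofNat 701, .ofNat 60277, .ofNat 2850063043444384707125409834983480460153209225216, .ofNat 0, .ofNat 19421750328605223370296347811057400754995200, .ofNat 0, .ofNat 0, .ofNat 0, .ofNat 37828395280214169142139645994559349150711808, .ofNat 0, .ofNat 2543309229064387754852888978098003230108881518592, .ofNat 0, .ofNat 60324106380801898579230260213546327063134208, .ofNat 0, .ofNat 0, .ofNat 0, .ofNat 0, .ofNat 0⟩)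
    (by decide +kernel)
theorem L02645 : Good (Phi V5.P V5.D (-1) (-1)) ⟨4, 13, 2, 1, 3, 4, 3, 2, 5, 11⟩ :=
  leafX_sound T5.ok_mm T5.Ymm.bz_eq (w := 235) (c := ⟨⟨.negSucc 2352, .negSucc 141, .ofNat 42, .ofNat 186, .ofNat 102, .ofNat 150⟩, ⟨.ofNat 903, .ofNat 121, .ofNat 327, .negSucc 104, .negSucc 46, .negSucc 76⟩, ⟨.ofNat 2420, .ofNat 73, .negSucc 242, .negSucc 700, .negSucc 405, .negSucc 171⟩, ⟨.negSucc 3839, .negSucc 5, .negSucc 11, .ofNat 185, .ofNat 211, .ofNat 259⟩, ⟨.negSucc 534, .negSucc 11, .negSucc 22, .negSucc 180, .ofNat 113, .ofNat 62⟩, .ofNat 532, .ofNat 469, .ofNat 0, .ofNat 469, .ofNat 1096, .ofNat 0, .ofNat 128, .negSucc 208, .negSucc 97, .ofNat 0, .ofNat 188, .ofNat 56, .ofNat 0, .ofNat 0, .ofNat 1037, .ofNat 78759, .ofNat 4814503646612460361311515774871742416559494135808, .ofNat 0, .ofNat 2614009419683781970146463868112949181677568, .ofNat 0, .ofNat 0, .ofNat 0, .ofNat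 141068910510886713799720313306630724947804160, .ofNat 0, .ofNat 4473898308583890096051084853971559508611958833152, .ofNat 0, .ofNat 286092993800616942633859110459941318708690944, .ofNat 0, .ofNat 0, .ofNat 0, .ofNat 144712560570602514168878749877794436940824576, .ofNat 0⟩)
    (by decide +kernel)
theorem L02646 : Good (Phi V5.P V5.D (-1) (-1)) ⟨3, 6, 2, 1, 3, 4, 4, 6, 5, 10⟩ :=
  leafX_sound T5.ok_mm T5.Ymm.bz_eq (w := 232) (c := ⟨⟨.negSucc 2271, .negSucc 304, .ofNat 44, .ofNat 177, .ofNat 65, .ofNat 177⟩, ⟨.ofNat 797, .ofNat 258, .ofNat 339, .negSucc 95, .negSucc 26, .negSucc 80⟩, ⟨.ofNat 1991, .ofNat 186, .negSucc 201, .negSucc 613, .negSucc 173, .negSucc 147⟩, ⟨.negSucc 3918, .negSucc 36, .ofNat 2, .ofNat 186, .ofNat 129, .ofNat 301⟩, ⟨.negSucc 448, .negSucc 18, .negSucc 23, .negSucc 192, .ofNat 49, .ofNat 42⟩, .ofNat 163, .ofNat 41, .ofNat 0, .ofNat 41, .ofNat 225, .ofNat 0, .ofNat 166,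 .negSucc 64, .negSucc 88, .ofNat 0, .ofNat 128, .ofNat 40, .ofNat 0, .ofNat 0, .ofNat 438, .ofNat 13197, .ofNat 0, .ofNat 0, .ofNat 0, .ofNat 0, .ofNat 0, .ofNat 0, .ofNat 558237462640193749408114481619094795530010624, .ofNat 0, .ofNat 0, .ofNat 0, .ofNat 611506693831072540697193656697551451783692288, .ofNat 0, .ofNat 0, .ofNat 0, .ofNat 2823513111267475309446458677917383989559033856, .ofNat 0⟩)
    (by decide +kernel)
theorem L02647 : Good (Phi V5.P V5.D (-1) (-1)) ⟨3, 6, 2, 1, 3, 4, 4, 6, 5, 11⟩ :=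
  leafX_sound T5.ok_mm T5.Ymm.bz_eq (w := 233) (c := ⟨⟨.negSucc 2092, .negSucc 274, .ofNat 39, .ofNat 162, .ofNat 62, .ofNat 139⟩, ⟨.ofNat 727, .ofNat 245, .ofNat 310, .negSucc 81, .negSucc 25, .negSucc 58⟩, ⟨.ofNat 1898, .ofNat 169, .negSucc 236, .negSucc 672, .negSucc 211, .negSucc 113⟩, ⟨.negSucc 3620, .negSucc 5, .negSucc 10, .ofNat 187, .ofNat 122, .ofNat 245⟩, ⟨.negSucc 430, .negSucc 17, .negSucc 17, .negSucc 144, .ofNat 57, .ofNat 45⟩, .ofNat 163, .ofNat 39, .ofNat 0, .ofNat 39, .ofNat 226, .ofNat 0, .ofNat 128, .negSucc 80, .negSucc 87, .ofNat 0, .ofNat 177, .ofNat 36, .ofNat 0, .ofNat 0, .ofNat 700, .ofNat 18273, .ofNat 420406505489923224443270251190172543667723567104, .ofNat 0, .ofNat 220517035329262681483547118955844777327722496, .ofNat 0, .ofNat 0, .ofNat 0, .ofNat 886662840984496556744086613811339146102308864, .ofNat 0, .ofNat 0, .ofNat 0, .ofNat 0, .ofNat 0, .ofNat 0, .ofNat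 0, .ofNat 6402871336809423767847566590796242807949361152, .ofNat 0⟩)
    (by decide +kernel)
theorem L02648 : Good (Phi V5.P V5.D (-1) (-1)) ⟨3, 6, 2, 1, 3, 4, 4, 7, 4, 5⟩ :=
  leafX_sound T5.ok_mm T5.Ymm.bz_eq (w := 226) (c := ⟨⟨.negSucc 2183, .negSucc 277, .ofNat 43, .ofNat 153, .ofNat 61, .ofNat 294⟩, ⟨.ofNat 767, .ofNat 247, .ofNat 295, .negSucc 74, .negSucc 23, .negSucc 123⟩, ⟨.ofNat 1847, .ofNat 131, .negSucc 232, .negSucc 659, .negSucc 184, .negSucc 294⟩, ⟨.negSucc 3770, .negSucc 17, .negSucc 1, .ofNat 188, .ofNat 133, .ofNat 513⟩, ⟨.negSucc 433, .negSucc 14, .negSucc 21, .negSucc 117, .ofNat 73, .ofNat 101⟩, .ofNat 333, .ofNat 196, .ofNat 0, .ofNat 196, .ofNat 640, .ofNat 0, .ofNat 148, .negSucc 116, .negSucc 91, .ofNat 0, .ofNat 128, .ofNat 39, .ofNat 0, .ofNat 0, .ofNat 876, .ofNat 4628, .ofNat 0, .ofNat 0, .ofNat 0, .ofNat 0, .ofNat 0, .ofNat 0, .ofNat 0, .ofNat 0, .ofNat 0, .ofNat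 0, .ofNat 75102079940718514529663295309501027913302016, .ofNat 0, .ofNat 0, .ofNat 0, .ofNat 0, .ofNat 0⟩)
    (by decide +kernel)
theorem L02649 : Good (Phi V5.P V5.D (-1) (-1)) ⟨3, 6, 2, 1, 3, 5, 2, 1, 5, 10⟩ :=
  leafX_sound T5.ok_mm T5.Ymm.bz_eq (w := 221) (c := ⟨⟨.negSucc 2219, .negSucc 244, .ofNat 38, .ofNat 271, .ofNat 203, .ofNat 171⟩, ⟨.ofNat 755, .ofNat 198, .ofNat 352, .negSucc 132, .negSucc 69, .negSucc 72⟩, ⟨.ofNat 1848, .ofNat 137, .negSucc 288, .negSucc 637, .negSucc 822, .negSucc 172⟩, ⟨.negSucc 3949, .ofNat 7, .negSucc 47, .ofNat 343, .ofNat 460, .ofNat 295⟩, ⟨.negSucc 771, .negSucc 83, .negSucc 8, .negSucc 151, .ofNat 305, .ofNat 62⟩, .ofNat 570, .ofNat 561, .ofNat 0, .ofNat 561, .ofNat 1384, .ofNat 0, .ofNat 128, .negSucc 244, .negSucc 47, .ofNat 0, .ofNat 194, .ofNat 23, .ofNat 0, .ofNat 0, .ofNat 650, .ofNat 1829, .ofNat 441685983843975869593369338351390025781870592,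 .ofNat 0, .ofNat 30695787762479012099197981684323707781120, .ofNat 0, .ofNat 0, .ofNat 0, .ofNat 4074274650585627898153769978900188212756480, .ofNat 0, .ofNat 0, .ofNat 0, .ofNat 0, .ofNat 0, .ofNat 0, .ofNat 0, .ofNat 6679053106950268266104664182973826196307968, .ofNat 0⟩)
    (by decide +kernel)
theorem L02650 : Good (Phi V5.P V5.D (-1) (-1)) ⟨3, 6, 2, 1, 3, 5, 2, 1, 5, 11⟩ :=
  leafX_sound T5.ok_mm T5.Ymm.bz_eq (w := 221) (c := ⟨⟨.negSucc 2016, .negSucc 214, .ofNat 14, .ofNat 220, .ofNat 145, .ofNat 131⟩, ⟨.ofNat 684, .ofNat 174, .ofNat 338, .negSucc 103, .negSucc 48, .negSucc 55⟩, ⟨.ofNat 1807, .ofNat 21, .negSucc 309, .negSucc 768, .negSucc 979, .negSucc 194⟩, ⟨.negSucc 3620, .ofNat 42, .negSucc 81, .ofNat 310, .ofNat 414, .ofNat 239⟩, ⟨.negSucc 772, .negSucc 25, .negSucc 7, .negSucc 70, .ofNat 408, .ofNat 72⟩, .ofNat 334, .ofNat 198, .ofNat 0, .ofNat 198, .ofNat 648, .ofNat 0, .ofNat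 128, .negSucc 165, .negSucc 17, .ofNat 0, .ofNat 190, .ofNat 2, .ofNat 0, .ofNat 0, .ofNat 1154, .ofNat 1847, .ofNat 678509690284070229543147222526862111245598720, .ofNat 0, .ofNat 129871095266055750049434156868692248363008, .ofNat 0, .ofNat 0, .ofNat 107311544697602781779205298162586909006626816, .ofNat 2253597274475058942992385232962010476445696, .ofNat 0, .ofNat 0, .ofNat 344164395370967972637237500117650388690141184, .ofNat 7034035186070471047360296199889927526154240, .ofNat 0, .ofNat 0, .ofNat 1302984295985606091508731934084761253176147968, .ofNat 39194326454914876467737475508443483054538752, .ofNat 0⟩)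
    (by decide +kernel)
theorem L02651 : Good (Phi V5.P V5.D (-1) (-1)) ⟨3, 6, 2, 1, 3, 6, 2, 0, 4, 5⟩ :=
  leafX_sound T5.ok_mm T5.Ymm.bz_eq (w := 216) (c := ⟨⟨.negSucc 2083, .negSucc 159, .ofNat 2, .ofNat 322, .ofNat 156, .ofNat 251⟩, ⟨.ofNat 690, .ofNat 90, .ofNat 373, .negSucc 150, .negSucc 48, .negSucc 105⟩, ⟨.ofNat 2375, .ofNat 47, .negSucc 354, .negSucc 558, .negSucc 1064, .negSucc 449⟩, ⟨.negSucc 3941, .ofNat 68, .negSucc 108, .ofNat 511, .ofNat 381, .ofNat 510⟩, ⟨.negSucc 1323, .negSucc 46, .ofNat 53, .ofNat 15, .ofNat 299, .ofNat 236⟩, .ofNat 334, .ofNat 196, .ofNat 0, .ofNat 196, .ofNat 650, .ofNat 0, .ofNat 164, .negSucc 100, .negSucc 9, .ofNat 0, .ofNat 128, .ofNat 1, .ofNat 0, .ofNat 0, .ofNat 793, .ofNat 2272, .ofNat 73310692519723070178299557015972638242111488, .ofNat 0, .ofNat 4938458754174648906943239914102034792448, .ofNat 0, .ofNat 0, .ofNat 0, .ofNat 0, .ofNat 0, .ofNat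 74944715940841729282864405382117470318362624, .ofNat 12944175441589648071212393301620389882888192, .ofNat 99943381930286344613101958143736341856256, .ofNat 0, .ofNat 1265106116659768572407075554830842251511332864, .ofNat 73994120919999737780917288717407392821673984, .ofNat 484772905772101185418255890607935559041024, .ofNat 0⟩)
    (by decide +kernel)
theorem L02652 : Good (Phi V5.P V5.D (-1) (-1)) ⟨3, 6, 2, 1, 3, 7, 2, 0, 4, 5⟩ :=
  leafX_sound T5.ok_mm T5.Ymm.bz_eq (w := 215) (c := ⟨⟨.negSucc 1758, .negSucc 119, .ofNat 22, .ofNat 284, .ofNat 137, .ofNat 209⟩, ⟨.ofNat 557, .ofNat 53, .ofNat 347, .negSucc 102, .negSucc 41, .negSucc 76⟩, ⟨.ofNat 1922, .negSucc 39, .negSucc 202, .negSucc 582, .negSucc 1191, .negSucc 547⟩, ⟨.negSucc 3446, .ofNat 67, .ofNat 7, .ofNat 645, .ofNat 368, .ofNat 468⟩, ⟨.negSucc 1397, .negSucc 90, .ofNat 229, .ofNat 442, .ofNat 321, .ofNat 312⟩, .ofNat 576, .ofNat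 583, .ofNat 0, .ofNat 583, .ofNat 1487, .ofNat 0, .ofNat 165, .negSucc 127, .ofNat 1, .ofNat 0, .ofNat 120, .negSucc 13, .ofNat 0, .ofNat 0, .ofNat 1041, .ofNat 1764, .ofNat 0, .ofNat 0, .ofNat 0, .ofNat 0, .ofNat 0, .ofNat 31325147666224849309142339120541500346204160, .ofNat 68451477475213346236372085109038201700352, .ofNat 0, .ofNat 144008111431036764711635923320520828210118656, .ofNat 53232642379319022788827148975720266943430656, .ofNat 227817347012715349143344241786894420017152, .ofNat 0, .ofNat 1865339639247892400782316427031799799090249728, .ofNat 209221053684965763634770987865360312582537216, .ofNat 0, .ofNat 0⟩)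
    (by decide +kernel)
theorem L02653 : Good (Phi V5.P V5.D (-1) (-1)) ⟨3, 6, 2, 1, 3, 6, 2, 1, 5, 10⟩ :=
  leafX_sound T5.ok_mm T5.Ymm.bz_eq (w := 220) (c := ⟨⟨.negSucc 1902, .negSucc 204, .ofNat 0, .ofNat 306, .ofNat 107, .ofNat 123⟩, ⟨.ofNat 630, .ofNat 121, .ofNat 360, .negSucc 142, .negSucc 24, .negSucc 47⟩, ⟨.ofNat 1423, .negSucc 182, .negSucc 258, .negSucc 651, .negSucc 1066, .negSucc 290⟩, ⟨.negSucc 3569, .ofNat 44, .negSucc 85, .ofNat 518, .ofNat 438, .ofNat 256⟩, ⟨.negSucc 1094, .ofNat 37, .ofNat 44, .ofNat 90, .ofNat 554, .ofNat 138⟩, .ofNat 336, .ofNat 203, .ofNat 0, .ofNat 203, .ofNat 644, .ofNat 0, .ofNat 128, .negSucc 136, .ofNat 6, .ofNat 0, .ofNat 167, .negSucc 15, .ofNat 0, .ofNat 0, .ofNat 695, .ofNat 848, .ofNat 0, .ofNat 0, .ofNat 0, .ofNat 0, .ofNat 0, .ofNat 77305359615196804439741406652045856321044480, .ofNat 588396235356545506240273779697645468516352, .ofNat 0,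 .ofNat 0, .ofNat 280245142159350025304518700887975926343663616, .ofNat 5332958879945195319011027138068012377047040, .ofNat 0, .ofNat 0, .ofNat 652433563602978246458921600747585771107516416, .ofNat 4657052001032725191718626495347443625885696, .ofNat 0⟩)
    (by decide +kernel)
theorem L02654 : Good (Phi V5.P V5.D (-1) (-1)) ⟨3, 6, 2, 1, 3, 7, 2, 1, 5, 10⟩ :=
  leafX_sound T5.ok_mm T5.Ymm.bz_eq (w := 220) (c := ⟨⟨.negSucc 1588, .negSucc 110, .negSucc 28, .ofNat 268, .ofNat 86, .ofNat 53⟩, ⟨.ofNat 504, .ofNat 73, .ofNat 345, .negSucc 100, .negSucc 7, .negSucc 13⟩, ⟨.ofNat 837, .negSucc 131, .negSucc 268, .negSucc 635, .negSucc 1121, .negSucc 415⟩, ⟨.negSucc 3053, .ofNat 112, .negSucc 47, .ofNat 661, .ofNat 424, .ofNat 202⟩, ⟨.negSucc 1086, .negSucc 51, .ofNat 239, .ofNat 482, .ofNat 624, .ofNat 236⟩, .ofNat 336, .ofNat 202, .ofNat 0, .ofNat 202, .ofNat 645, .ofNat 0, .ofNat 169, .negSucc 93,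 .ofNat 16, .ofNat 0, .ofNat 128, .negSucc 25, .ofNat 0, .ofNat 0, .ofNat 506, .ofNat 1252, .ofNat 0, .ofNat 9994539818254890842268418771292159838519296, .ofNat 80264385646761292116442320182627792846848, .ofNat 0, .ofNat 0, .ofNat 328024529084572528800481700913849221200740352, .ofNat 0, .ofNat 0, .ofNat 0, .ofNat 530688129642190416772150762884237959662403584, .ofNat 1840562890862507468939212926385552676093952, .ofNat 0, .ofNat 0, .ofNat 1060630131521952174519605874547073247334105088, .ofNat 0, .ofNat 0⟩)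
    (by decide +kernel)
theorem L02655 : Good (Phi V5.P V5.D (-1) (-1)) ⟨3, 6, 2, 1, 3, 6, 2, 1, 5, 11⟩ :=
  leafX_sound T5.ok_mm T5.Ymm.bz_eq (w := 220) (c := ⟨⟨.negSucc 1768, .negSucc 156, .negSucc 30, .ofNat 243, .ofNat 91, .ofNat 95⟩, ⟨.ofNat 577, .ofNat 116, .ofNat 355, .negSucc 109, .negSucc 18, .negSucc 35⟩, ⟨.ofNat 1173, .negSucc 54, .negSucc 379, .negSucc 782, .negSucc 1114, .negSucc 303⟩, ⟨.negSucc 3267, .ofNat 60, .negSucc 114, .ofNat 415, .ofNat 358, .ofNat 206⟩, ⟨.negSucc 898, .negSucc 69, .ofNat 75, .ofNat 57, .ofNat 478, .ofNat 121⟩, .ofNat 336, .ofNat 203, .ofNat 0, .ofNat 203, .ofNat 650, .ofNat 0, .ofNat 128, .negSucc 125, .ofNat 19, .ofNat 0, .ofNat 154, .negSucc 16, .ofNat 0, .ofNat 0, .ofNat 692, .ofNat 995, .ofNat 0, .ofNat 5055530134741140654710808779429399666622464, .ofNat 24205196547681135003960239278636151078912, .ofNat 0, .ofNat 0, .ofNat 160999527754385551278609184051876980043284480,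 .ofNat 1115414287256991490269499269554567844462592, .ofNat 0, .ofNat 0, .ofNat 527562312927623787811716386294788829611032576, .ofNat 2488797880903917132306792491174402291924992, .ofNat 0, .ofNat 0, .ofNat 1184336316973730232417790625776265952300630016, .ofNat 0, .ofNat 0⟩)
    (by decide +kernel)
theorem L02656 : Good (Phi V5.P V5.D (-1) (-1)) ⟨3, 6, 2, 1, 3, 7, 2, 1, 5, 11⟩ :=
  out_sound (S := T5.ds_mm) T5.ok_mm (w := 34) (j := 2) (by decide +kernel)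
theorem L02657 : Good (Phi V5.P V5.D (-1) (-1)) ⟨3, 7, 2, 1, 1, 1, 1, 0, 4, 5⟩ :=
  out_sound (S := T5.ds_mm) T5.ok_mm (w := 43) (j := 3) (by decide +kernel)
theorem L02658 : Good (Phi V5.P V5.D (-1) (-1)) ⟨1, 1, 2, 1, 2, 2, 2, 0, 4, 6⟩ :=
  leafX_sound T5.ok_mm T5.Ymm.bz_eq (w := 202) (c := ⟨⟨.negSucc 1317, .negSucc 662, .negSucc 25, .negSucc 0, .negSucc 14, .ofNat 1⟩, ⟨.ofNat 237, .ofNat 481, .ofNat 348, .ofNat 0, .ofNat 63, .ofNat 0⟩, ⟨.ofNat 1601, .negSucc 186, .negSucc 433, .ofNat 1, .negSucc 575, .negSucc 0⟩, ⟨.negSucc 3251, .ofNat 197, .negSucc 116, .negSucc 1, .ofNat 110, .ofNat 2⟩, ⟨.negSucc 976, .negSucc 151, .ofNat 38, .ofNat 0, .ofNat 285, .ofNat 0⟩, .ofNat 164, .ofNat 35, .ofNat 0, .ofNat 35, .ofNat 232, .ofNat 0, .ofNat 128, .negSucc 56, .ofNat 15, .ofNat 0, .ofNat 141, .negSucc 12, .ofNat 0, .ofNat 0, .ofNat 776, .ofNat 843332, .ofNat 142610839839827429166003444562240760446976,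 .ofNat 0, .ofNat 0, .ofNat 586045919457723580922636855202077277683712, .ofNat 20453662269219374199559392725008469983232, .ofNat 0, .ofNat 10278189864087235832815863735424909312, .ofNat 10359725450257454924412520197196718538752, .ofNat 9785901653942418033608302057194128408576, .ofNat 0, .ofNat 25073128486901559596922405778375049216, .ofNat 146651198252071262054134116243802274398208, .ofNat 62445112894948689160794675311016960589824, .ofNat 0, .ofNat 94053673910105759834202373179544961024, .ofNat 0⟩)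
    (by decide +kernel)
theorem L02659 : Good (Phi V5.P V5.D (-1) (-1)) ⟨3, 4, 2, 1, 2, 2, 2, 1, 4, 6⟩ :=
  out_sound (S := T5.ds_mm) T5.ok_mm (w := 43) (j := 3) (by decide +kernel)
theorem L02660 : Good (Phi V5.P V5.D (-1) (-1)) ⟨3, 5, 2, 1, 3, 4, 2, 1, 4, 6⟩ :=
  leafX_sound T5.ok_mm T5.Ymm.bz_eq (w := 218) (c := ⟨⟨.negSucc 1780, .negSucc 222, .ofNat 11, .ofNat 112, .ofNat 182, .ofNat 165⟩, ⟨.ofNat 482, .ofNat 199, .ofNat 266, .negSucc 39, .negSucc 53, .negSucc 53⟩, ⟨.ofNat 2246, .negSucc 55, .negSucc 125, .negSucc 688, .negSucc 813, .negSucc 365⟩, ⟨.negSucc 3549, .ofNat 20, .negSucc 21, .ofNat 168, .ofNat 382, .ofNat 342⟩, ⟨.negSucc 537, .negSucc 13, .ofNat 24, .negSucc 54, .ofNat 230, .ofNat 163⟩, .ofNat 855, .ofNat 1337, .ofNat 0, .ofNat 1337, .ofNat 4088, .ofNat 0, .ofNat 128, .negSucc 216, .negSucc 42, .ofNat 0, .ofNat 116, .ofNat 13, .ofNat 0, .ofNat 0, .ofNat 2128, .ofNat 4527,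 .ofNat 282099429881708608308107562335719137073954816, .ofNat 0, .ofNat 23227823414601369821152601663304389099520, .ofNat 0, .ofNat 0, .ofNat 0, .ofNat 0, .ofNat 0, .ofNat 0, .ofNat 18884769415437367905448417978900230493437952, .ofNat 315394393970878954347164717885666667528192, .ofNat 0, .ofNat 0, .ofNat 0, .ofNat 0, .ofNat 0⟩)
    (by decide +kernel)
theorem L02661 : Good (Phi V5.P V5.D (-1) (-1)) ⟨3, 5, 2, 1, 3, 5, 2, 1, 4, 6⟩ :=
  leafX_sound T5.ok_mm T5.Ymm.bz_eq (w := 216) (c := ⟨⟨.negSucc 1657, .negSucc 178, .negSucc 27, .ofNat 155, .ofNat 115, .ofNat 167⟩, ⟨.ofNat 456, .ofNat 155, .ofNat 308, .negSucc 53, .negSucc 27, .negSucc 54⟩, ⟨.ofNat 1765, .negSucc 98, .negSucc 378, .negSucc 792, .negSucc 1011, .negSucc 482⟩, ⟨.negSucc 3382, .ofNat 55, .negSucc 96, .ofNat 263, .ofNat 346, .ofNat 345⟩, ⟨.negSucc 733, .negSucc 20, .ofNat 23, .ofNat 7, .ofNat 428, .ofNat 170⟩, .ofNat 535, .ofNat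 543, .ofNat 0, .ofNat 543, .ofNat 1851, .ofNat 0, .ofNat 128, .negSucc 178, .ofNat 19, .ofNat 0, .ofNat 130, .negSucc 9, .ofNat 0, .ofNat 0, .ofNat 1207, .ofNat 2074, .ofNat 124892111231149639764593475599082993135648768, .ofNat 302404262068120980182334015215047303757824, .ofNat 19668924475086720758780850292977746051072, .ofNat 0, .ofNat 0, .ofNat 14227545946482852238430429436981535798460416, .ofNat 133545458925499517583949113169342562828288, .ofNat 0, .ofNat 0, .ofNat 63641003893022923770557697348509235595444224, .ofNat 137892084250612243875599343604936197799936, .ofNat 0, .ofNat 0, .ofNat 264942275709876418980946017667463262721015808, .ofNat 1251062691009513744348545005334052804231168, .ofNat 0⟩)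
    (by decide +kernel)
theorem L02662 : Good (Phi V5.P V5.D (-1) (-1)) ⟨3, 6, 2, 1, 3, 4, 3, 2, 5, 12⟩ :=
  leafX_sound T5.ok_mm T5.Ymm.bz_eq (w := 232) (c := ⟨⟨.negSucc 2033, .negSucc 236, .ofNat 25, .ofNat 164, .ofNat 73, .ofNat 114⟩, ⟨.ofNat 704, .ofNat 203, .ofNat 307, .negSucc 76, .negSucc 24, .negSucc 52⟩, ⟨.ofNat 2391, .ofNat 12, .negSucc 258, .negSucc 783, .negSucc 472, .negSucc 190⟩, ⟨.negSucc 3577, .ofNat 13, .negSucc 36, .ofNat 211, .ofNat 190, .ofNat 219⟩, ⟨.negSucc 554, .negSucc 13, .negSucc 19, .negSucc 114, .ofNat 149, .ofNat 82⟩, .ofNat 164, .ofNat 40, .ofNat 0, .ofNat 40, .ofNat 226, .ofNat 0, .ofNat 285, .negSucc 57, .negSucc 38, .ofNat 0, .ofNat 128, .ofNat 12, .ofNat 0, .ofNat 0, .ofNat 797, .ofNat 147733, .ofNat 819714181949297985207908724707810874905679888384, .ofNat 0, .ofNat 0, .ofNat 0, .ofNat 210388392906886581539969823349108748726407528448, .ofNat 0, .ofNat 0,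 .ofNat 0, .ofNat 278925222964387407305692004751826733990359859200, .ofNat 0, .ofNat 39196253691949869421106662767982244951752704, .ofNat 0, .ofNat 1199838382451827936500457512755684643121032855552, .ofNat 0, .ofNat 106722604142291782833718792988610913980383232, .ofNat 0⟩)
    (by decide +kernel)
theorem L02663 : Good (Phi V5.P V5.D (-1) (-1)) ⟨3, 6, 2, 1, 3, 4, 3, 3, 5, 12⟩ :=
  leafX_sound T5.ok_mm T5.Ymm.bz_eq (w := 228) (c := ⟨⟨.negSucc 1934, .negSucc 258, .ofNat 34, .ofNat 126, .ofNat 94, .ofNat 115⟩, ⟨.ofNat 675, .ofNat 227, .ofNat 288, .negSucc 59, .negSucc 38, .negSucc 52⟩, ⟨.ofNat 1930, .negSucc 63, .negSucc 135, .negSucc 862, .negSucc 527, .negSucc 147⟩, ⟨.negSucc 3363, .ofNat 2, .negSucc 3, .ofNat 170, .ofNat 211, .ofNat 202⟩, ⟨.negSucc 442, .ofNat 45, .negSucc 52, .negSucc 51, .ofNat 163, .ofNat 47⟩, .ofNat 578, .ofNat 583, .ofNat 0, .ofNat 583, .ofNat 1467, .ofNat 0, .ofNat 128,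 .negSucc 215, .negSucc 55, .ofNat 0, .ofNat 168, .ofNat 21, .ofNat 0, .ofNat 0, .ofNat 1876, .ofNat 9364, .ofNat 42561423241965384263022294087071038433786855424, .ofNat 0, .ofNat 22441483309233289052027718238611912548941824, .ofNat 0, .ofNat 0, .ofNat 0, .ofNat 142643728544456201722570108115136594764103680, .ofNat 0, .ofNat 0, .ofNat 0, .ofNat 445369221084470074446528670298178146137014272, .ofNat 0, .ofNat 0, .ofNat 0, .ofNat 0, .ofNat 0⟩)
    (by decide +kernel)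
theorem L02664 : Good (Phi V5.P V5.D (-1) (-1)) ⟨3, 6, 2, 1, 3, 4, 2, 1, 5, 13⟩ :=
  leafX_sound T5.ok_mm T5.Ymm.bz_eq (w := 224) (c := ⟨⟨.negSucc 1837, .negSucc 217, .negSucc 2, .ofNat 72, .ofNat 122, .ofNat 43⟩, ⟨.ofNat 625, .ofNat 224, .ofNat 265, .negSucc 28, .negSucc 31, .negSucc 14⟩, ⟨.ofNat 2558, .negSucc 200, .negSucc 186, .negSucc 1131, .negSucc 1170, .negSucc 524⟩, ⟨.negSucc 3315, .ofNat 59, .negSucc 38, .ofNat 124, .ofNat 369, .ofNat 120⟩, ⟨.negSucc 631, .ofNat 41, .negSucc 14, .ofNat 1, .ofNat 383, .ofNat 100⟩, .ofNat 574, .ofNat 580, .ofNat 0, .ofNat 580, .ofNat 1495, .ofNat 0, .ofNat 128, .negSucc 334, .ofNat 54, .ofNat 0, .ofNat 261, .negSucc 40, .ofNat 0, .ofNat 0, .ofNat 2773, .ofNat 12732, .ofNat 10565573748277850669608665752324765918454349824, .ofNat 0, .ofNat 1257734112786367468679622657417769375498240, .ofNat 0, .ofNat 11461235230870785400851799163269656084144455680,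 .ofNat 0, .ofNat 12594624287657453816528555591269855243796480, .ofNat 0, .ofNat 56849116168384359470272244942982628083335430144, .ofNat 1486817937555391572234575631393795510091382784, .ofNat 106515558011681164779487502688624387834249216, .ofNat 0, .ofNat 179812460848581192386925693137701873665131413504, .ofNat 10339093847972453651177341779821976916584300544, .ofNat 239802304981460400340353393990584499972341760, .ofNat 0⟩)
    (by decide +kernel)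
theorem L02665 : Good (Phi V5.P V5.D (-1) (-1)) ⟨3, 7, 2, 1, 3, 4, 2, 1, 4, 6⟩ :=
  out_sound (S := T5.ds_mm) T5.ok_mm (w := 43) (j := 3) (by decide +kernel)
theorem L02666 : Good (Phi V5.P V5.D (-1) (-1)) ⟨3, 6, 2, 1, 3, 5, 3, 2, 5, 12⟩ :=
  leafX_sound T5.ok_mm T5.Ymm.bz_eq (w := 226) (c := ⟨⟨.negSucc 1821, .negSucc 219, .ofNat 9, .ofNat 147, .ofNat 22, .ofNat 100⟩, ⟨.ofNat 609, .ofNat 173, .ofNat 317, .negSucc 68, .ofNat 1, .negSucc 43⟩, ⟨.ofNat 1842, .negSucc 180, .negSucc 246, .negSucc 1015, .negSucc 660, .negSucc 249⟩, ⟨.negSucc 3310, .ofNat 25, .negSucc 61, .ofNat 233, .ofNat 138, .ofNat 198⟩, ⟨.negSucc 739, .ofNat 5, .negSucc 14, .negSucc 6, .ofNat 218, .ofNat 86⟩, .ofNat 335, .ofNat 199, .ofNat 0, .ofNat 199, .ofNat 648, .ofNat 0, .ofNat 140, .negSucc 108, .ofNat 15, .ofNat 0, .ofNat 128, .negSucc 12, .ofNat 0, .ofNat 0, .ofNat 1030, .ofNat 5105, .ofNat 22679360576522475243464101610754309290090037248,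 .ofNat 0, .ofNat 6015622346764004542051108349724689417895936, .ofNat 0, .ofNat 0, .ofNat 0, .ofNat 0, .ofNat 0, .ofNat 0, .ofNat 743971329436584962093737521967011736871501824, .ofNat 104667770842165371343572857182812847803990016, .ofNat 0, .ofNat 0, .ofNat 4594046699780176639297126533590224052464648192, .ofNat 644508556729295642143592970140380217642844160, .ofNat 0⟩)
    (by decide +kernel)
theorem L02667 : Good (Phi V5.P V5.D (-1) (-1)) ⟨3, 6, 2, 1, 3, 5, 3, 3, 5, 12⟩ :=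
  leafX_sound T5.ok_mm T5.Ymm.bz_eq (w := 225) (c := ⟨⟨.negSucc 1767, .negSucc 215, .negSucc 10, .ofNat 110, .ofNat 31, .ofNat 73⟩, ⟨.ofNat 597, .ofNat 201, .ofNat 302, .negSucc 48, .negSucc 3, .negSucc 28⟩, ⟨.ofNat 1321, .negSucc 243, .negSucc 245, .negSucc 1157, .negSucc 726, .negSucc 384⟩, ⟨.negSucc 3143, .ofNat 53, .negSucc 76, .ofNat 193, .ofNat 164, .ofNat 162⟩, ⟨.negSucc 541, .ofNat 3, .ofNat 4, .ofNat 20, .ofNat 232, .ofNat 103⟩, .ofNat 569, .ofNat 574, .ofNat 0, .ofNat 574, .ofNat 1501, .ofNat 0, .ofNat 128, .negSucc 226, .ofNat 46, .ofNat 0, .ofNat 179, .negSucc 29, .ofNat 0, .ofNat 0, .ofNat 1518, .ofNat 1791, .ofNat 0, .ofNat 0, .ofNat 0, .ofNat 0, .ofNat 0, .ofNat 817354317127482755290787925189700861441343488, .ofNat 122308771308726875792340154056286478712963072, .ofNat 0, .ofNat 0, .ofNat 3541985883188706512479038433429001150857740288, .ofNat 526246158814704331620255612962507312907419648,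 .ofNat 0, .ofNat 0, .ofNat 16085750507325317685724839968082366319034368000, .ofNat 0, .ofNat 0⟩)
    (by decide +kernel)
theorem L02668 : Good (Phi V5.P V5.D (-1) (-1)) ⟨3, 6, 2, 1, 4, 10, 2, 1, 5, 13⟩ :=
  leafX_sound T5.ok_mm T5.Ymm.bz_eq (w := 236) (c := ⟨⟨.negSucc 1635, .negSucc 225, .negSucc 41, .ofNat 9, .negSucc 17, .ofNat 21⟩, ⟨.ofNat 529, .ofNat 214, .ofNat 297, .ofNat 1, .ofNat 39, .negSucc 0⟩, ⟨.ofNat 2162, .negSucc 338, .negSucc 448, .negSucc 829, .negSucc 1837, .negSucc 690⟩, ⟨.negSucc 3079, .ofNat 39, .negSucc 91, .ofNat 54, .ofNat 272, .ofNat 116⟩, ⟨.negSucc 805, .ofNat 34, .ofNat 32, .ofNat 73, .ofNat 601, .ofNat 141⟩, .ofNat 334, .ofNat 199, .ofNat 0, .ofNat 199, .ofNat 623, .ofNat 0, .ofNat 128, .negSucc 147, .ofNat 80, .ofNat 0, .ofNat 177, .negSucc 53, .ofNat 0, .ofNat 0, .ofNat 1447, .ofNat 3972, .ofNat 11675616265934656850273543145733393054800600367104, .ofNat 108894291233883129365333324666034237311639617536,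 .ofNat 13761684281196773608024718856795515184958406656, .ofNat 0, .ofNat 25394371453523809434770558367989890846546966085632, .ofNat 1492720034626329733215739582013195618745906626560, .ofNat 53332176503792844676920291209708579091958988800, .ofNat 0, .ofNat 71995348740042114280864602997404778418198613590016, .ofNat 4184505760201342683070500923259458659254055993344, .ofNat 254386217166813278536223745288700948035682697216, .ofNat 0, .ofNat 433100063847578023490861000695814678213774177992704, .ofNat 27483121657327380928027987159168810412279580327936, .ofNat 137856379678355043643292251824159081322990534656, .ofNat 0⟩)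
    (by decide +kernel)
theorem L02669 : Good (Phi V5.P V5.D (-1) (-1)) ⟨3, 6, 2, 1, 4, 11, 2, 1, 5, 13⟩ :=
  leafX_sound T5.ok_mm T5.Ymm.bz_eq (w := 237) (c := ⟨⟨.negSucc 1619, .negSucc 208, .negSucc 52, .ofNat 1, .negSucc 22, .ofNat 1⟩, ⟨.ofNat 523, .ofNat 189, .ofNat 318, .ofNat 0, .ofNat 49, .ofNat 0⟩, ⟨.ofNat 1099, .negSucc 289, .negSucc 528, .ofNat 0, .negSucc 1178, .ofNat 0⟩, ⟨.negSucc 2954, .ofNat 36, .negSucc 118, .ofNat 1, .ofNat 163, .ofNat 1⟩, ⟨.negSucc 705, .ofNat 9, .ofNat 52, .ofNat 0, .ofNat 533, .ofNat 0⟩, .ofNat 163, .ofNat 40, .ofNat 0, .ofNat 40, .ofNat 225, .ofNat 0, .ofNat 128, .negSucc 72, .ofNat 58, .ofNat 0, .ofNat 171, .negSucc 51, .ofNat 0, .ofNat 0, .ofNat 906, .ofNat 8896, .ofNat 22502509947216221985636823918717027436202301587456, .ofNat 205007040860367828441611133544360912079258910720, .ofNat 6006596223852071011412566436284376930955821056, .ofNat 0, .ofNat 110883739178688256933349850766941728011720499134464,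 .ofNat 7294802341660829897949924117867900438158258470912, .ofNat 3796114117487343304641483750983611914626531328, .ofNat 0, .ofNat 461034083116518112320545793929050920834987301273600, .ofNat 33987292726122140665017283077538599220203279613952, .ofNat 7051041140377837164503317316503816497902125056, .ofNat 0, .ofNat 943517333572005244475882583353369702624995838001152, .ofNat 82862460823706412187448960906019528063403782307840, .ofNat 44751763148925064338304366199600474537636921344, .ofNat 0⟩)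
    (by decide +kernel)
theorem L02670 : Good (Phi V5.P V5.D (-1) (-1)) ⟨3, 7, 2, 1, 3, 5, 2, 1, 4, 6⟩ :=
  out_sound (S := T5.ds_mm) T5.ok_mm (w := 43) (j := 3) (by decide +kernel)
theorem L02671 : Good (Phi V5.P V5.D (-1) (-1)) ⟨2, 2, 2, 1, 2, 3, 1, 0, 4, 6⟩ :=
  leafX_sound T5.ok_mm T5.Ymm.bz_eq (w := 194) (c := ⟨⟨.negSucc 1420, .negSucc 325, .negSucc 15, .ofNat 390, .ofNat 162, .ofNat 176⟩, ⟨.ofNat 303, .ofNat 258, .ofNat 322, .negSucc 135, .negSucc 31, .negSucc 53⟩, ⟨.ofNat 2212, .negSucc 178, .negSucc 334, .negSucc 1368, .negSucc 2253, .negSucc 396⟩, ⟨.negSucc 3426, .ofNat 101, .negSucc 107, .ofNat 636, .ofNat 564, .ofNat 339⟩, ⟨.negSucc 1112, .negSucc 70, .ofNat 41, .negSucc 24, .ofNat 833, .ofNat 169⟩, .ofNat 328, .ofNat 165, .ofNat 0, .ofNat 165, .ofNat 731, .ofNat 0, .ofNat 128, .negSucc 99, .ofNat 20, .ofNat 0, .ofNat 134, .negSucc 10, .ofNat 0, .ofNat 0, .ofNat 995, .ofNat 2659,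 .ofNat 339067840235972673753419353503379226624, .ofNat 36788468503271639545579233873833754624, .ofNat 76145668006347491944019877886427136, .ofNat 0, .ofNat 2277283701802806627398853289513028943872, .ofNat 560704340778812864787971041890203074560, .ofNat 2855895404536646471536445144497651712, .ofNat 0, .ofNat 2625784594079296978521494531388909551616, .ofNat 911806048398438551797832014963803160576, .ofNat 1420614961447332146831369403327578112, .ofNat 0, .ofNat 15821382222719970830405941125797786943488, .ofNat 3129907545084505084821109636136167276544, .ofNat 12549223474038499491222101837553336320, .ofNat 0⟩)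
    (by decide +kernel)
theorem L02672 : Good (Phi V5.P V5.D (-1) (-1)) ⟨2, 3, 2, 1, 2, 3, 2, 0, 4, 6⟩ :=
  leafX_sound T5.ok_mm T5.Ymm.bz_eq (w := 200) (c := ⟨⟨.negSucc 1686, .negSucc 326, .negSucc 34, .ofNat 387, .ofNat 23, .ofNat 1⟩, ⟨.ofNat 525, .ofNat 227, .ofNat 353, .negSucc 174, .ofNat 17, .ofNat 0⟩, ⟨.ofNat 2285, .negSucc 156, .negSucc 455, .negSucc 1821, .negSucc 1338, .ofNat 0⟩, ⟨.negSucc 3270, .ofNat 110, .negSucc 123, .ofNat 651, .ofNat 228, .ofNat 1⟩, ⟨.negSucc 1187, .negSucc 76, .ofNat 57, .ofNat 91, .ofNat 413, .ofNat 0⟩, .ofNat 333, .ofNat 196, .ofNat 0, .ofNat 196, .ofNat 639, .ofNat 0, .ofNat 128, .negSucc 137, .ofNat 30, .ofNat 0, .ofNat 174, .negSucc 20, .ofNat 0, .ofNat 0, .ofNat 1064, .ofNat 8975, .ofNat 12443609672682651652513516826669367689216, .ofNat 120467374429576461133675526361723174912, .ofNat 263754125686805470162161731920461824, .ofNat 0, .ofNat 76551826848858281981368813139297361199104,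 .ofNat 2056206129559812633898143494220992741376, .ofNat 8371081942818263270664256443794849792, .ofNat 0, .ofNat 65475756357949548630035234072446269128704, .ofNat 5291955375034687374202277918327418388480, .ofNat 40366651665897754971636700202047373312, .ofNat 0, .ofNat 223837074294522637158813609722223840460800, .ofNat 18716133382583319388591754681750325821440, .ofNat 36336723070758803674344322112516259840, .ofNat 0⟩)
    (by decide +kernel)
theorem L02673 : Good (Phi V5.P V5.D (-1) (-1)) ⟨2, 3, 2, 1, 2, 3, 3, 2, 4, 6⟩ :=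
  leafX_sound T5.ok_mm T5.Ymm.bz_eq (w := 203) (c := ⟨⟨.negSucc 1656, .negSucc 360, .negSucc 33, .ofNat 378, .ofNat 15, .ofNat 171⟩, ⟨.ofNat 538, .ofNat 269, .ofNat 343, .negSucc 163, .ofNat 5, .negSucc 60⟩, ⟨.ofNat 962, .negSucc 308, .negSucc 427, .negSucc 1770, .negSucc 699, .negSucc 586⟩, ⟨.negSucc 3041, .ofNat 100, .negSucc 120, .ofNat 645, .ofNat 141, .ofNat 347⟩, ⟨.negSucc 778, .negSucc 28, .ofNat 46, .ofNat 92, .ofNat 241, .ofNat 227⟩, .ofNat 333, .ofNat 195, .ofNat 0, .ofNat 195, .ofNat 644, .ofNat 0, .ofNat 128, .negSucc 168, .ofNat 32, .ofNat 0, .ofNat 211, .negSucc 21, .ofNat 0, .ofNat 0, .ofNat 946, .ofNat 4193, .ofNat 0, .ofNat 673508449493701610320444265590517923840, .ofNat 22315966318778580166017252188256993280, .ofNat 0, .ofNat 0, .ofNat 8263331400523034803524680376956498214912, .ofNat 115997403559388823801918041318926319616, .ofNat 0, .ofNat 0, .ofNat 24896489543002935223018435988970868310016,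 .ofNat 595546695986465160816964928108354338816, .ofNat 0, .ofNat 0, .ofNat 57481382026383264589322942958019494805504, .ofNat 1030489985422625596286888708078512898048, .ofNat 0⟩)
    (by decide +kernel)
theorem L02674 : Good (Phi V5.P V5.D (-1) (-1)) ⟨2, 3, 2, 1, 2, 3, 3, 3, 4, 6⟩ :=
  out_sound (S := T5.ds_mm) T5.ok_mm (w := 32) (j := 2) (by decide +kernel)
theorem L02675 : Good (Phi V5.P V5.D (-1) (-1)) ⟨1, 1, 2, 1, 2, 2, 2, 0, 4, 7⟩ :=
  out_sound (S := T5.ds_mm) T5.ok_mm (w := 24) (j := 1) (by decide +kernel)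
theorem L02676 : Good (Phi V5.P V5.D (-1) (-1)) ⟨1, 1, 2, 1, 3, 4, 3, 2, 4, 7⟩ :=
  out_sound (S := T5.ds_mm) T5.ok_mm (w := 27) (j := 1) (by decide +kernel)
theorem L02677 : Good (Phi V5.P V5.D (-1) (-1)) ⟨1, 1, 2, 1, 4, 8, 3, 3, 5, 14⟩ :=
  out_sound (S := T5.ds_mm) T5.ok_mm (w := 31) (j := 1) (by decide +kernel)
theorem L02678 : Good (Phi V5.P V5.D (-1) (-1)) ⟨1, 1, 2, 1, 4, 9, 4, 6, 5, 14⟩ :=
  out_sound (S := T5.ds_mm) T5.ok_mm (w := 32) (j := 1) (by decide +kernel)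
theorem L02679 : Good (Phi V5.P V5.D (-1) (-1)) ⟨1, 1, 2, 1, 5, 18, 4, 7, 6, 28⟩ :=
  leafX_sound T5.ok_mm T5.Ymm.bz_eq (w := 262) (c := ⟨⟨.negSucc 1207, .negSucc 835, .negSucc 108, .negSucc 0, .ofNat 36, .ofNat 1⟩, ⟨.ofNat 162, .ofNat 852, .ofNat 316, .ofNat 0, .negSucc 38, .ofNat 0⟩, ⟨.ofNat 1547, .negSucc 1747, .negSucc 778, .ofNat 0, .negSucc 313, .ofNat 0⟩, ⟨.negSucc 2843, .ofNat 174, .negSucc 105, .negSucc 0, .ofNat 52, .ofNat 1⟩, ⟨.negSucc 435, .ofNat 229, .ofNat 91, .ofNat 0, .ofNat 170, .ofNat 0⟩, .ofNat 164, .ofNat 37, .ofNat 0, .ofNat 37, .ofNat 229, .ofNat 0, .ofNat 128, .negSucc 81, .ofNat 106, .ofNat 0, .ofNat 210, .negSucc 113, .ofNat 0, .ofNat 0, .ofNat 1573, .ofNat 430216, .ofNat 23033985848632827863392596424151242987626910906893467648, .ofNat 58978035342173017074554616189816768971499833732890624, .ofNat 0, .ofNat 1608670374826783796979160832472143451766440083121541165875200,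 .ofNat 791908936599649308382726120375481831801478466599124992, .ofNat 0, .ofNat 14011813707272409964815897540607750873123763629764640768, .ofNat 0, .ofNat 2316796910352119720623827044665069437524095052489424896, .ofNat 3208119349196364521091093747198857267392047910748160, .ofNat 142983006342292457324799803721581216628179854542864646144, .ofNat 315864478940704687121979344641448423487580586418655320866816, .ofNat 17979633556007493127499528731292659204103519511167107072, .ofNat 65940962025728129329420364683190420998735428799430656, .ofNat 151527449608180900463562945857846265090136845469475667968, .ofNat 466813801133462819844392700275743053974640521306595104129024⟩)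
    (by decide +kernel)
theorem L02680 : Good (Phi V5.P V5.D (-1) (-1)) ⟨1, 1, 2, 1, 5, 19, 6, 28, 7, 56⟩ :=
  out_sound (S := T5.ds_mm) T5.ok_mm (w := 40) (j := 1) (by decide +kernel)
theorem L02681 : Good (Phi V5.P V5.D (-1) (-1)) ⟨1, 1, 2, 1, 6, 38, 6, 29, 7, 56⟩ :=
  out_sound (S := T5.ds_mm) T5.ok_mm (w := 42) (j := 1) (by decide +kernel)
theorem L02682 : Good (Phi V5.P V5.D (-1) (-1)) ⟨1, 1, 2, 1, 6, 39, 6, 29, 7, 56⟩ :=
  out_sound (S := T5.ds_mm) T5.ok_mm (w := 52) (j := 2) (by decide +kernel)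
theorem L02683 : Good (Phi V5.P V5.D (-1) (-1)) ⟨1, 1, 2, 1, 5, 19, 5, 14, 7, 57⟩ :=
  out_sound (S := T5.ds_mm) T5.ok_mm (w := 39) (j := 1) (by decide +kernel)
theorem L02684 : Good (Phi V5.P V5.D (-1) (-1)) ⟨1, 1, 2, 1, 7, 76, 6, 30, 7, 56⟩ :=
  out_sound (S := T5.ds_mm) T5.ok_mm (w := 44) (j := 1) (by decide +kernel)
theorem L02685 : Good (Phi V5.P V5.D (-1) (-1)) ⟨1, 1, 2, 1, 8, 152, 8, 124, 9, 224⟩ :=
  out_sound (S := T5.ds_mm) T5.ok_mm (w := 52) (j := 1) (by decide +kernel)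
theorem L02686 : Good (Phi V5.P V5.D (-1) (-1)) ⟨1, 1, 2, 1, 8, 152, 9, 250, 10, 448⟩ :=
  out_sound (S := T5.ds_mm) T5.ok_mm (w := 55) (j := 1) (by decide +kernel)
theorem L02687 : Good (Phi V5.P V5.D (-1) (-1)) ⟨1, 1, 2, 1, 9, 304, 9, 251, 10, 448⟩ :=
  out_sound (S := T5.ds_mm) T5.ok_mm (w := 57) (j := 1) (by decide +kernel)
theorem L02688 : Good (Phi V5.P V5.D (-1) (-1)) ⟨1, 1, 2, 1, 9, 305, 9, 251, 10, 448⟩ :=
  out_sound (S := T5.ds_mm) T5.ok_mm (w := 70) (j := 2) (by decide +kernel)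
theorem L02689 : Good (Phi V5.P V5.D (-1) (-1)) ⟨1, 1, 2, 1, 8, 152, 8, 125, 10, 449⟩ :=
  out_sound (S := T5.ds_mm) T5.ok_mm (w := 54) (j := 1) (by decide +kernel)
theorem L02690 : Good (Phi V5.P V5.D (-1) (-1)) ⟨1, 1, 2, 1, 8, 152, 7, 62, 9, 225⟩ :=
  out_sound (S := T5.ds_mm) T5.ok_mm (w := 51) (j := 1) (by decide +kernel)
theorem L02691 : Good (Phi V5.P V5.D (-1) (-1)) ⟨1, 1, 2, 1, 10, 608, 9, 252, 10, 448⟩ :=
  out_sound (S := T5.ds_mm) T5.ok_mm (w := 59) (j := 1) (by decide +kernel)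
theorem L02692 : Good (Phi V5.P V5.D (-1) (-1)) ⟨1, 1, 2, 1, 11, 1216, 10, 506, 11, 896⟩ :=
  out_sound (S := T5.ds_mm) T5.ok_mm (w := 64) (j := 1) (by decide +kernel)
theorem L02693 : Good (Phi V5.P V5.D (-1) (-1)) ⟨1, 1, 2, 1, 11, 1216, 10, 507, 11, 896⟩ :=
  out_sound (S := T5.ds_mm) T5.ok_mm (w := 78) (j := 2) (by decide +kernel)
theorem L02694 : Good (Phi V5.P V5.D (-1) (-1)) ⟨1, 1, 2, 1, 11, 1217, 9, 253, 11, 896⟩ :=
  out_sound (S := T5.ds_mm) T5.ok_mm (w := 76) (j := 2) (by decide +kernel)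
theorem L02695 : Good (Phi V5.P V5.D (-1) (-1)) ⟨1, 1, 2, 1, 10, 608, 9, 253, 11, 897⟩ :=
  out_sound (S := T5.ds_mm) T5.ok_mm (w := 74) (j := 2) (by decide +kernel)
theorem L02696 : Good (Phi V5.P V5.D (-1) (-1)) ⟨1, 1, 2, 1, 10, 609, 8, 126, 10, 448⟩ :=
  out_sound (S := T5.ds_mm) T5.ok_mm (w := 70) (j := 2) (by decide +kernel)
theorem L02697 : Good (Phi V5.P V5.D (-1) (-1)) ⟨1, 1, 2, 1, 9, 304, 8, 126, 10, 449⟩ :=
  out_sound (S := T5.ds_mm) T5.ok_mm (w := 56) (j := 1) (by decide +kernel)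
theorem L02698 : Good (Phi V5.P V5.D (-1) (-1)) ⟨1, 1, 2, 1, 9, 304, 8, 127, 9, 224⟩ :=
  out_sound (S := T5.ds_mm) T5.ok_mm (w := 66) (j := 2) (by decide +kernel)
theorem L02699 : Good (Phi V5.P V5.D (-1) (-1)) ⟨1, 1, 2, 1, 9, 305, 7, 63, 9, 224⟩ :=
  out_sound (S := T5.ds_mm) T5.ok_mm (w := 64) (j := 2) (by decide +kernel)
theorem L02700 : Good (Phi V5.P V5.D (-1) (-1)) ⟨1, 1, 2, 1, 8, 152, 7, 63, 9, 225⟩ :=
  out_sound (S := T5.ds_mm) T5.ok_mm (w := 62) (j := 2) (by decide +kernel)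
theorem L02701 : Good (Phi V5.P V5.D (-1) (-1)) ⟨1, 1, 2, 1, 8, 153, 6, 31, 8, 112⟩ :=
  out_sound (S := T5.ds_mm) T5.ok_mm (w := 58) (j := 2) (by decide +kernel)
theorem L02702 : Good (Phi V5.P V5.D (-1) (-1)) ⟨1, 1, 2, 1, 7, 76, 6, 31, 8, 113⟩ :=
  out_sound (S := T5.ds_mm) T5.ok_mm (w := 56) (j := 2) (by decide +kernel)
theorem L02703 : Good (Phi V5.P V5.D (-1) (-1)) ⟨1, 1, 2, 1, 8, 154, 6, 30, 8, 112⟩ :=
  out_sound (S := T5.ds_mm) T5.ok_mm (w := 48) (j := 1) (by decide +kernel)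
theorem L02704 : Good (Phi V5.P V5.D (-1) (-1)) ⟨1, 1, 2, 1, 8, 155, 6, 30, 8, 112⟩ :=
  out_sound (S := T5.ds_mm) T5.ok_mm (w := 58) (j := 2) (by decide +kernel)
theorem L02705 : Good (Phi V5.P V5.D (-1) (-1)) ⟨1, 1, 2, 1, 7, 77, 6, 30, 8, 113⟩ :=
  out_sound (S := T5.ds_mm) T5.ok_mm (w := 46) (j := 1) (by decide +kernel)
theorem L02706 : Good (Phi V5.P V5.D (-1) (-1)) ⟨1, 1, 2, 1, 7, 77, 6, 31, 7, 56⟩ :=
  out_sound (S := T5.ds_mm) T5.ok_mm (w := 54) (j := 2) (by decide +kernel)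
theorem L02707 : Good (Phi V5.P V5.D (-1) (-1)) ⟨1, 1, 2, 1, 6, 38, 5, 15, 7, 57⟩ :=
  out_sound (S := T5.ds_mm) T5.ok_mm (w := 50) (j := 2) (by decide +kernel)
theorem L02708 : Good (Phi V5.P V5.D (-1) (-1)) ⟨1, 1, 2, 1, 6, 39, 5, 15, 6, 28⟩ :=
  out_sound (S := T5.ds_mm) T5.ok_mm (w := 48) (j := 2) (by decide +kernel)
theorem L02709 : Good (Phi V5.P V5.D (-1) (-1)) ⟨1, 1, 2, 1, 4, 9, 4, 7, 6, 29⟩ :=
  out_sound (S := T5.ds_mm) T5.ok_mm (w := 34) (j := 1) (by decide +kernel)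
theorem L02710 : Good (Phi V5.P V5.D (-1) (-1)) ⟨1, 1, 2, 1, 3, 4, 3, 3, 5, 15⟩ :=
  out_sound (S := T5.ds_mm) T5.ok_mm (w := 29) (j := 1) (by decide +kernel)
theorem L02711 : Good (Phi V5.P V5.D (-1) (-1)) ⟨1, 1, 2, 1, 4, 10, 3, 2, 5, 14⟩ :=
  out_sound (S := T5.ds_mm) T5.ok_mm (w := 31) (j := 1) (by decide +kernel)
theorem L02712 : Good (Phi V5.P V5.D (-1) (-1)) ⟨1, 1, 2, 1, 5, 20, 5, 12, 6, 28⟩ :=
  out_sound (S := T5.ds_mm) T5.ok_mm (w := 37) (j := 1) (by decide +kernel)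
theorem L02713 : Good (Phi V5.P V5.D (-1) (-1)) ⟨1, 1, 2, 1, 5, 20, 5, 13, 6, 28⟩ :=
  out_sound (S := T5.ds_mm) T5.ok_mm (w := 46) (j := 2) (by decide +kernel)
theorem L02714 : Good (Phi V5.P V5.D (-1) (-1)) ⟨1, 1, 2, 1, 5, 20, 4, 7, 6, 28⟩ :=
  out_sound (S := T5.ds_mm) T5.ok_mm (w := 44) (j := 2) (by decide +kernel)
theorem L02715 : Good (Phi V5.P V5.D (-1) (-1)) ⟨1, 1, 2, 1, 5, 20, 3, 3, 6, 29⟩ :=
  out_sound (S := T5.ds_mm) T5.ok_mm (w := 42) (j := 2) (by decide +kernel)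
theorem L02716 : Good (Phi V5.P V5.D (-1) (-1)) ⟨1, 1, 2, 1, 5, 21, 3, 3, 5, 14⟩ :=
  out_sound (S := T5.ds_mm) T5.ok_mm (w := 40) (j := 2) (by decide +kernel)
theorem L02717 : Good (Phi V5.P V5.D (-1) (-1)) ⟨1, 1, 2, 1, 4, 10, 2, 1, 5, 15⟩ :=
  out_sound (S := T5.ds_mm) T5.ok_mm (w := 36) (j := 2) (by decide +kernel)
theorem L02718 : Good (Phi V5.P V5.D (-1) (-1)) ⟨1, 1, 2, 1, 4, 11, 2, 1, 4, 7⟩ :=
  out_sound (S := T5.ds_mm) T5.ok_mm (w := 34) (j := 2) (by decide +kernel)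
theorem L02719 : Good (Phi V5.P V5.D (-1) (-1)) ⟨1, 1, 2, 1, 2, 3, 1, 0, 4, 7⟩ :=
  out_sound (S := T5.ds_mm) T5.ok_mm (w := 28) (j := 2) (by decide +kernel)
theorem L02720 : Good (Phi V5.P V5.D (-1) (-1)) ⟨1, 1, 2, 1, 3, 4, 1, 0, 3, 4⟩ :=
  out_sound (S := T5.ds_mm) T5.ok_mm (w := 23) (j := 1) (by decide +kernel)
theorem L02721 : Good (Phi V5.P V5.D (-1) (-1)) ⟨1, 1, 2, 1, 3, 5, 1, 0, 3, 4⟩ :=
  out_sound (S := T5.ds_mm) T5.ok_mm (w := 28) (j := 2) (by decide +kernel)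
theorem L02722 : Good (Phi V5.P V5.D (-1) (-1)) ⟨1, 1, 2, 1, 2, 2, 1, 0, 3, 5⟩ :=
  out_sound (S := T5.ds_mm) T5.ok_mm (w := 21) (j := 1) (by decide +kernel)
theorem L02723 : Good (Phi V5.P V5.D (-1) (-1)) ⟨1, 1, 2, 1, 2, 2, 1, 0, 2, 3⟩ :=
  out_sound (S := T5.ds_mm) T5.ok_mm (w := 19) (j := 1) (by decide +kernel)
theorem L02724 : Good (Phi V5.P V5.D (-1) (-1)) ⟨1, 1, 2, 1, 2, 3, 1, 0, 1, 1⟩ :=
  out_sound (S := T5.ds_mm) T5.ok_mm (w := 22) (j := 2) (by decide +kernel)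
theorem L02725 : Good (Phi V5.P V5.D (-1) (-1)) ⟨3, 4, 3, 2, 2, 2, 1, 1, 4, 0⟩ :=
  out_sound (S := T5.ds_mm) T5.ok_mm (w := 45) (j := 3) (by decide +kernel)
theorem L02726 : Good (Phi V5.P V5.D (-1) (-1)) ⟨4, 10, 3, 2, 2, 2, 1, 1, 4, 0⟩ :=
  out_sound (S := T5.ds_mm) T5.ok_mm (w := 51) (j := 3) (by decide +kernel)
theorem L02727 : Good (Phi V5.P V5.D (-1) (-1)) ⟨4, 11, 3, 2, 2, 2, 2, 2, 4, 0⟩ :=
  leafX_sound T5.ok_mm T5.Ymm.bz_eq (w := 209) (c := ⟨⟨.ofNat 1528, .ofNat 443, .negSucc 179, .ofNat 1158, .negSucc 1257, .negSucc 2653⟩, ⟨.negSucc 533, .negSucc 255, .ofNat 92, .negSucc 395, .ofNat 467, .ofNat 932⟩, ⟨.negSucc 1300, .negSucc 433, .ofNat 341, .negSucc 632, .ofNat 823, .ofNat 1917⟩, ⟨.ofNat 2438, .ofNat 481, .negSucc 124, .ofNat 1986, .negSucc 2148, .negSucc 4635⟩, ⟨.negSucc 692, .negSucc 310, .ofNat 540, .negSucc 78, .ofNat 40, .negSucc 356⟩, .ofNat 536, .ofNat 547, .ofNat 0, .ofNat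 547, .ofNat 1852, .ofNat 0, .ofNat 128, .negSucc 199, .negSucc 342, .ofNat 0, .ofNat 116, .ofNat 116, .ofNat 0, .ofNat 0, .ofNat 386, .ofNat 427, .ofNat 0, .ofNat 0, .ofNat 0, .ofNat 0, .ofNat 0, .ofNat 0, .ofNat 0, .ofNat 0, .ofNat 0, .ofNat 0, .ofNat 0, .ofNat 0, .ofNat 0, .ofNat 0, .ofNat 563884104793496398618572706715533312, .ofNat 0⟩)
    (by decide +kernel)
theorem L02728 : Good (Phi V5.P V5.D (-1) (-1)) ⟨4, 11, 3, 2, 2, 2, 2, 3, 4, 0⟩ :=
  leafX_sound T5.ok_mm T5.Ymm.bz_eq (w := 208) (c := ⟨⟨.negSucc 1, .negSucc 215, .ofNat 507, .ofNat 449, .negSucc 492, .negSucc 1322⟩, ⟨.negSucc 55, .ofNat 59, .negSucc 49, .negSucc 158, .ofNat 196, .ofNat 465⟩, ⟨.negSucc 187, .ofNat 137, .negSucc 284, .negSucc 257, .ofNat 294, .ofNat 914⟩, ⟨.negSucc 135, .negSucc 376, .ofNat 823, .ofNat 602, .negSucc 906, .negSucc 2312⟩, ⟨.negSucc 504, .negSucc 169, .negSucc 179, .negSucc 194, .negSucc 24, .negSucc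 212⟩, .ofNat 535, .ofNat 544, .ofNat 0, .ofNat 544, .ofNat 1850, .ofNat 0, .ofNat 128, .negSucc 158, .negSucc 698, .ofNat 0, .ofNat 100, .ofNat 230, .ofNat 0, .ofNat 0, .ofNat 758, .ofNat 356, .ofNat 0, .ofNat 0, .ofNat 0, .ofNat 0, .ofNat 0, .ofNat 0, .ofNat 362321221944484280382860616620048384, .ofNat 0, .ofNat 0, .ofNat 0, .ofNat 2739637665580228265570170818986508288, .ofNat 0, .ofNat 0, .ofNat 47814808987374476036790569734898326700032, .ofNat 1961397322701384832660278882129149952, .ofNat 0⟩)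
    (by decide +kernel)
theorem L02729 : Good (Phi V5.P V5.D (-1) (-1)) ⟨3, 4, 3, 2, 2, 2, 1, 1, 4, 1⟩ :=
  out_sound (S := T5.ds_mm) T5.ok_mm (w := 45) (j := 3) (by decide +kernel)
theorem L02730 : Good (Phi V5.P V5.D (-1) (-1)) ⟨4, 10, 3, 2, 2, 2, 1, 1, 4, 1⟩ :=
  out_sound (S := T5.ds_mm) T5.ok_mm (w := 51) (j := 3) (by decide +kernel)
theorem L02731 : Good (Phi V5.P V5.D (-1) (-1)) ⟨4, 11, 3, 2, 2, 2, 2, 2, 4, 1⟩ :=
  leafX_sound T5.ok_mm T5.Ymm.bz_eq (w := 208) (c := ⟨⟨.negSucc 1122, .negSucc 638, .ofNat 623, .ofNat 404, .negSucc 94, .negSucc 1523⟩, ⟨.ofNat 299, .ofNat 257, .negSucc 14, .negSucc 165, .ofNat 44, .ofNat 549⟩, ⟨.ofNat 617, .ofNat 520, .negSucc 462, .negSucc 418, .ofNat 63, .ofNat 1071⟩, ⟨.negSucc 2259, .negSucc 923, .ofNat 1020, .ofNat 505, .negSucc 116, .negSucc 2646⟩, ⟨.negSucc 641, .negSucc 154, .ofNat 6, .negSucc 573, .ofNat 173, .negSucc 12⟩, .ofNat 534, .ofNat 543,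 .ofNat 0, .ofNat 543, .ofNat 1879, .ofNat 0, .ofNat 128, .negSucc 184, .negSucc 316, .ofNat 0, .ofNat 104, .ofNat 107, .ofNat 0, .ofNat 0, .ofNat 394, .ofNat 354, .ofNat 0, .ofNat 0, .ofNat 0, .ofNat 0, .ofNat 0, .ofNat 0, .ofNat 0, .ofNat 0, .ofNat 0, .ofNat 0, .ofNat 2214604257616790656415752742951190528, .ofNat 0, .ofNat 0, .ofNat 0, .ofNat 0, .ofNat 0⟩)
    (by decide +kernel)
theorem L02732 : Good (Phi V5.P V5.D (-1) (-1)) ⟨4, 11, 3, 2, 2, 2, 2, 3, 4, 1⟩ :=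
  leafX_sound T5.ok_mm T5.Ymm.bz_eq (w := 208) (c := ⟨⟨.negSucc 1642, .negSucc 746, .ofNat 441, .ofNat 299, .ofNat 548, .negSucc 709⟩, ⟨.ofNat 488, .ofNat 307, .ofNat 43, .negSucc 116, .negSucc 170, .ofNat 256⟩, ⟨.ofNat 1131, .ofNat 579, .negSucc 353, .negSucc 402, .negSucc 545, .ofNat 364⟩, ⟨.negSucc 3090, .negSucc 1144, .ofNat 753, .ofNat 299, .ofNat 1050, .negSucc 1176⟩, ⟨.negSucc 637, .negSucc 194, .ofNat 38, .negSucc 590, .ofNat 451, .ofNat 332⟩, .ofNat 595, .ofNat 697, .ofNat 0, .ofNat 697, .ofNat 2226, .ofNat 0, .ofNat 128, .negSucc 152, .negSucc 494, .ofNat 0, .ofNat 81, .ofNat 171, .ofNat 0, .ofNat 0, .ofNat 557, .ofNat 249, .ofNat 0, .ofNat 0, .ofNat 0, .ofNat 0, .ofNat 0, .ofNat 0, .ofNat 0, .ofNat 0, .ofNat 0, .ofNat 0, .ofNat 1438057321254906906950803173232607232, .ofNat 0, .ofNat 0, .ofNat 0, .ofNat 0, .ofNat 0⟩)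
    (by decide +kernel)
theorem L02733 : Good (Phi V5.P V5.D (-1) (-1)) ⟨5, 24, 3, 2, 2, 2, 2, 2, 4, 0⟩ :=
  leafX_sound T5.ok_mm T5.Ymm.bz_eq (w := 213) (c := ⟨⟨.ofNat 1874, .ofNat 447, .negSucc 18, .ofNat 1566, .negSucc 1613, .negSucc 3121⟩, ⟨.negSucc 724, .negSucc 228, .negSucc 28, .negSucc 596, .ofNat 629, .ofNat 1181⟩, ⟨.negSucc 1617, .negSucc 412, .ofNat 93, .negSucc 733, .ofNat 992, .ofNat 2150⟩, ⟨.ofNat 2813, .ofNat 571, .negSucc 79, .ofNat 2659, .negSucc 2654, .negSucc 5317⟩, ⟨.negSucc 768, .negSucc 151, .ofNat 14, .ofNat 179, .negSucc 5, .negSucc 530⟩, .ofNat 535, .ofNat 521, .ofNat 0, .ofNat 521, .ofNat 1545, .ofNat 0, .ofNat 128, .negSucc 176, .negSucc 475, .ofNat 0, .ofNat 113, .ofNat 183, .ofNat 0, .ofNat 0, .ofNat 500, .ofNat 262, .ofNat 0, .ofNat 0, .ofNat 0, .ofNat 0, .ofNat 0, .ofNat 0, .ofNat 320927887350275560686477662329241600, .ofNat 0, .ofNat 0, .ofNat 0, .ofNat 0,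 .ofNat 0, .ofNat 0, .ofNat 0, .ofNat 0, .ofNat 0⟩)
    (by decide +kernel)
theorem L02734 : Good (Phi V5.P V5.D (-1) (-1)) ⟨5, 25, 3, 2, 2, 2, 2, 2, 5, 0⟩ :=
  leafX_sound T5.ok_mm T5.Ymm.bz_eq (w := 218) (c := ⟨⟨.ofNat 2507, .ofNat 539, .negSucc 219, .ofNat 1479, .negSucc 1876, .negSucc 1516⟩, ⟨.negSucc 1062, .negSucc 378, .ofNat 48, .negSucc 577, .ofNat 786, .ofNat 619⟩, ⟨.negSucc 2243, .negSucc 455, .ofNat 254, .negSucc 563, .ofNat 1093, .ofNat 1081⟩, ⟨.ofNat 3512, .ofNat 658, .negSucc 401, .ofNat 2674, .negSucc 3027, .negSucc 2548⟩, ⟨.negSucc 1191, .negSucc 58, .ofNat 53, .ofNat 672, .negSucc 170, .negSucc 379⟩, .ofNat 542, .ofNat 518, .ofNat 0, .ofNat 518, .ofNat 1377, .ofNat 0, .ofNat 128, .negSucc 146, .negSucc 621, .ofNat 0, .ofNat 101, .ofNat 263, .ofNat 0, .ofNat 0, .ofNat 618, .ofNat 378, .ofNat 0, .ofNat 0, .ofNat 812587709470657308397308790385410048, .ofNat 0, .ofNat 0, .ofNat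 0, .ofNat 0, .ofNat 0, .ofNat 0, .ofNat 0, .ofNat 0, .ofNat 0, .ofNat 0, .ofNat 0, .ofNat 0, .ofNat 0⟩)
    (by decide +kernel)
theorem L02735 : Good (Phi V5.P V5.D (-1) (-1)) ⟨5, 25, 3, 2, 2, 2, 2, 2, 5, 1⟩ :=
  leafX_sound T5.ok_mm T5.Ymm.bz_eq (w := 218) (c := ⟨⟨.ofNat 474, .negSucc 447, .ofNat 540, .ofNat 1906, .negSucc 1715, .negSucc 1941⟩, ⟨.negSucc 350, .ofNat 135, .negSucc 95, .negSucc 862, .ofNat 762, .ofNat 852⟩, ⟨.negSucc 606, .ofNat 290, .negSucc 333, .negSucc 1351, .ofNat 1266, .ofNat 1417⟩, ⟨.ofNat 403, .negSucc 667, .ofNat 696, .ofNat 2785, .negSucc 2586, .negSucc 3091⟩, ⟨.negSucc 972, .ofNat 40, .negSucc 124, .negSucc 474, .ofNat 334, .negSucc 75⟩, .ofNat 817, .ofNat 1035, .ofNat 0, .ofNat 1035, .ofNat 2473, .ofNat 0, .ofNat 128, .negSucc 187, .negSucc 434, .ofNat 0, .ofNat 113, .ofNat 194, .ofNat 0, .ofNat 0, .ofNat 439, .ofNat 236, .ofNat 0, .ofNat 0, .ofNat 0, .ofNat 0,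 .ofNat 0, .ofNat 0, .ofNat 6948286614886719817157738478065156096, .ofNat 0, .ofNat 0, .ofNat 0, .ofNat 0, .ofNat 0, .ofNat 0, .ofNat 0, .ofNat 20711917114674511539376141728443531264, .ofNat 0⟩)
    (by decide +kernel)
theorem L02736 : Good (Phi V5.P V5.D (-1) (-1)) ⟨5, 26, 3, 2, 2, 2, 2, 2, 4, 0⟩ :=
  leafX_sound T5.ok_mm T5.Ymm.bz_eq (w := 214) (c := ⟨⟨.ofNat 1236, .ofNat 1471, .ofNat 1249, .ofNat 2088, .negSucc 2115, .negSucc 3548⟩, ⟨.negSucc 619, .negSucc 812, .negSucc 580, .negSucc 991, .ofNat 1008, .ofNat 1614⟩, ⟨.negSucc 1228, .negSucc 1457, .negSucc 807, .negSucc 1336, .ofNat 1469, .ofNat 2589⟩, ⟨.ofNat 1750, .ofNat 1901, .ofNat 1709, .ofNat 3184, .negSucc 3141, .negSucc 5721⟩, ⟨.negSucc 620, .negSucc 397, .negSucc 202, .negSucc 40, .ofNat 242, .negSucc 565⟩, .ofNat 794, .ofNat 909, .ofNat 0, .ofNat 909, .ofNat 2031, .ofNat 0, .ofNat 128, .negSucc 138, .negSucc 463, .ofNat 0, .ofNat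 100, .ofNat 217, .ofNat 0, .ofNat 0, .ofNat 454, .ofNat 415, .ofNat 0, .ofNat 0, .ofNat 23705242473034226378694330089996288, .ofNat 0, .ofNat 0, .ofNat 0, .ofNat 1286645282108533693789295333886394368, .ofNat 0, .ofNat 0, .ofNat 0, .ofNat 2540920815613604431662918344384708608, .ofNat 0, .ofNat 0, .ofNat 0, .ofNat 5301534765082362152386329582923415552, .ofNat 0⟩)
    (by decide +kernel)
theorem L02737 : Good (Phi V5.P V5.D (-1) (-1)) ⟨5, 27, 3, 2, 2, 2, 2, 2, 4, 0⟩ :=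
  out_sound (S := T5.ds_mm) T5.ok_mm (w := 57) (j := 3) (by decide +kernel)
theorem L02738 : Good (Phi V5.P V5.D (-1) (-1)) ⟨4, 12, 3, 2, 3, 4, 2, 2, 4, 1⟩ :=
  leafX_sound T5.ok_mm T5.Ymm.bz_eq (w := 223) (c := ⟨⟨.negSucc 2066, .negSucc 967, .ofNat 323, .negSucc 60, .ofNat 66, .negSucc 973⟩, ⟨.ofNat 621, .ofNat 495, .ofNat 107, .ofNat 13, .negSucc 11, .ofNat 426⟩, ⟨.ofNat 1297, .ofNat 780, .negSucc 285, .negSucc 80, .ofNat 41, .ofNat 757⟩, ⟨.negSucc 3751, .negSucc 1209, .ofNat 458, .negSucc 214, .ofNat 128, .negSucc 1455⟩, ⟨.negSucc 786, .ofNat 47, .negSucc 38, .negSucc 330, .ofNat 137, .ofNat 273⟩, .ofNat 541, .ofNat 523, .ofNat 0, .ofNat 523, .ofNat 1456, .ofNat 0, .ofNat 128, .negSucc 265, .negSucc 694, .ofNat 0, .ofNat 176, .ofNat 291, .ofNat 0, .ofNat 0, .ofNat 810, .ofNat 302, .ofNat 0, .ofNat 0, .ofNat 1706191188125164923890955255620464279552, .ofNat 0, .ofNat 0, .ofNat 0, .ofNat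 1475984425532367004996271848963222536192, .ofNat 0, .ofNat 0, .ofNat 0, .ofNat 0, .ofNat 0, .ofNat 0, .ofNat 0, .ofNat 0, .ofNat 0⟩)
    (by decide +kernel)
theorem L02739 : Good (Phi V5.P V5.D (-1) (-1)) ⟨4, 12, 3, 2, 3, 5, 2, 2, 5, 2⟩ :=
  leafX_sound T5.ok_mm T5.Ymm.bz_eq (w := 227) (c := ⟨⟨.negSucc 415, .negSucc 1030, .ofNat 413, .ofNat 423, .negSucc 979, .negSucc 1770⟩, ⟨.negSucc 61, .ofNat 450, .ofNat 79, .negSucc 182, .ofNat 437, .ofNat 732⟩, ⟨.ofNat 47, .ofNat 759, .negSucc 278, .negSucc 347, .ofNat 757, .ofNat 1286⟩, ⟨.negSucc 1170, .negSucc 1481, .ofNat 591, .ofNat 567, .negSucc 1561, .negSucc 2839⟩, ⟨.negSucc 1113, .negSucc 101, .negSucc 110, .negSucc 289, .ofNat 153, .ofNat 28⟩, .ofNat 532, .ofNat 506, .ofNat 0, .ofNat 506, .ofNat 1435, .ofNat 0, .ofNat 128, .negSucc 202, .negSucc 750, .ofNat 0, .ofNat 125, .ofNat 302, .ofNat 0, .ofNat 0, .ofNat 707, .ofNat 190, .ofNat 0, .ofNat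 0, .ofNat 27571849135075081257978235838768896540672, .ofNat 0, .ofNat 0, .ofNat 0, .ofNat 0, .ofNat 0, .ofNat 0, .ofNat 0, .ofNat 0, .ofNat 0, .ofNat 0, .ofNat 0, .ofNat 3688169302902481957451556137136299909840896, .ofNat 0⟩)
    (by decide +kernel)
theorem L02740 : Good (Phi V5.P V5.D (-1) (-1)) ⟨4, 12, 3, 2, 3, 5, 2, 2, 5, 3⟩ :=
  leafX_sound T5.ok_mm T5.Ymm.bz_eq (w := 228) (c := ⟨⟨.negSucc 2931, .negSucc 1240, .ofNat 425, .ofNat 218, .ofNat 225, .negSucc 270⟩, ⟨.ofNat 967, .ofNat 596, .ofNat 104, .negSucc 120, .negSucc 81, .ofNat 121⟩, ⟨.ofNat 1938, .ofNat 961, .negSucc 344, .negSucc 306, .negSucc 161, .ofNat 117⟩, ⟨.negSucc 5198, .negSucc 1691, .ofNat 580, .ofNat 180, .ofNat 405, .negSucc 389⟩, ⟨.negSucc 896, .negSucc 77, .negSucc 99, .negSucc 447, .ofNat 126, .ofNat 120⟩, .ofNat 543, .ofNat 528, .ofNat 0, .ofNat 528, .ofNat 1463, .ofNat 0, .ofNat 128, .negSucc 325, .negSucc 990, .ofNat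 0, .ofNat 200, .ofNat 412, .ofNat 0, .ofNat 0, .ofNat 1007, .ofNat 292, .ofNat 0, .ofNat 0, .ofNat 48495664623339884750599925502677855764480, .ofNat 0, .ofNat 0, .ofNat 0, .ofNat 391639791539603528204708288552921215270912, .ofNat 0, .ofNat 0, .ofNat 0, .ofNat 0, .ofNat 0, .ofNat 0, .ofNat 0, .ofNat 0, .ofNat 0⟩)
    (by decide +kernel)
theorem L02741 : Good (Phi V5.P V5.D (-1) (-1)) ⟨4, 13, 3, 2, 2, 2, 2, 2, 4, 1⟩ :=
  leafX_sound T5.ok_mm T5.Ymm.bz_eq (w := 209) (c := ⟨⟨.negSucc 2860, .negSucc 1056, .ofNat 493, .negSucc 126, .negSucc 79, .negSucc 1313⟩, ⟨.ofNat 1023, .ofNat 525, .ofNat 29, .negSucc 9, .ofNat 55, .ofNat 643⟩, ⟨.ofNat 2068, .ofNat 612, .negSucc 475, .negSucc 174, .ofNat 205, .ofNat 912⟩, ⟨.negSucc 4603, .negSucc 982, .ofNat 629, .negSucc 599, .negSucc 96, .negSucc 1927⟩, ⟨.negSucc 502, .ofNat 238, .negSucc 305, .negSucc 894, .ofNat 182, .ofNat 321⟩, .ofNat 701, .ofNat 717,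 .ofNat 0, .ofNat 717, .ofNat 1580, .ofNat 0, .ofNat 128, .negSucc 163, .negSucc 637, .ofNat 0, .ofNat 120, .ofNat 315, .ofNat 0, .ofNat 0, .ofNat 617, .ofNat 249, .ofNat 0, .ofNat 0, .ofNat 123996569150035235195918940031156224, .ofNat 0, .ofNat 0, .ofNat 0, .ofNat 1939149631125054207957138899264864256, .ofNat 0, .ofNat 0, .ofNat 0, .ofNat 2568370123626181221860916274946637824, .ofNat 0, .ofNat 0, .ofNat 0, .ofNat 5404395953529940171923284256169656320, .ofNat 0⟩)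
    (by decide +kernel)
theorem L02742 : Good (Phi V5.P V5.D (-1) (-1)) ⟨3, 7, 3, 2, 2, 2, 2, 2, 3, 0⟩ :=
  out_sound (S := T5.ds_mm) T5.ok_mm (w := 45) (j := 3) (by decide +kernel)
theorem L02743 : Good (Phi V5.P V5.D (-1) (-1)) ⟨5, 24, 3, 2, 2, 2, 3, 6, 4, 0⟩ :=
  leafX_sound T5.ok_mm T5.Ymm.bz_eq (w := 217) (c := ⟨⟨.ofNat 534, .ofNat 77, .ofNat 121, .ofNat 738, .negSucc 966, .negSucc 2392⟩, ⟨.negSucc 270, .negSucc 36, .ofNat 40, .negSucc 337, .ofNat 387, .ofNat 941⟩, ⟨.negSucc 646, .negSucc 72, .negSucc 4, .negSucc 490, .ofNat 758, .ofNat 1736⟩, ⟨.ofNat 461, .ofNat 231, .ofNat 164, .ofNat 976, .negSucc 1461, .negSucc 3777⟩, ⟨.negSucc 1083, .ofNat 168, .ofNat 123, .negSucc 533, .ofNat 308, .ofNat 282⟩, .ofNat 809, .ofNat 1097, .ofNat 0, .ofNat 1097, .ofNat 2928, .ofNat 0, .ofNat 128, .negSucc 188, .negSucc 493, .ofNat 0, .ofNat 108, .ofNat 196, .ofNat 0, .ofNat 0, .ofNat 524, .ofNat 355,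 .ofNat 0, .ofNat 0, .ofNat 0, .ofNat 0, .ofNat 0, .ofNat 0, .ofNat 0, .ofNat 0, .ofNat 0, .ofNat 0, .ofNat 10452652719954458712633946353745002496, .ofNat 0, .ofNat 0, .ofNat 0, .ofNat 0, .ofNat 0⟩)
    (by decide +kernel)
theorem L02744 : Good (Phi V5.P V5.D (-1) (-1)) ⟨5, 25, 3, 2, 2, 2, 3, 6, 5, 0⟩ :=
  leafX_sound T5.ok_mm T5.Ymm.bz_eq (w := 222) (c := ⟨⟨.ofNat 731, .ofNat 228, .negSucc 291, .ofNat 1467, .negSucc 1252, .negSucc 1536⟩, ⟨.negSucc 455, .negSucc 154, .ofNat 234, .negSucc 635, .ofNat 570, .ofNat 674⟩, ⟨.negSucc 936, .negSucc 172, .ofNat 292, .negSucc 991, .ofNat 1007, .ofNat 1216⟩, ⟨.ofNat 839, .ofNat 363, .negSucc 479, .ofNat 2213, .negSucc 2042, .negSucc 2495⟩, ⟨.negSucc 787, .ofNat 96, .negSucc 28, .negSucc 174, .negSucc 87, .negSucc 177⟩, .ofNat 545, .ofNat 522, .ofNat 0, .ofNat 522, .ofNat 1378, .ofNat 0, .ofNat 128, .negSucc 166, .negSucc 724, .ofNat 0, .ofNat 123, .ofNat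 306, .ofNat 0, .ofNat 0, .ofNat 730, .ofNat 322, .ofNat 0, .ofNat 0, .ofNat 10007102323024219370965676561205821440, .ofNat 0, .ofNat 0, .ofNat 0, .ofNat 89008218576254531261097581928943452160, .ofNat 0, .ofNat 0, .ofNat 0, .ofNat 0, .ofNat 0, .ofNat 0, .ofNat 0, .ofNat 555480812990084609909127940732136456192, .ofNat 0⟩)
    (by decide +kernel)
theorem L02745 : Good (Phi V5.P V5.D (-1) (-1)) ⟨5, 25, 3, 2, 2, 2, 3, 6, 5, 1⟩ :=
  leafX_sound T5.ok_mm T5.Ymm.bz_eq (w := 222) (c := ⟨⟨.negSucc 1304, .negSucc 589, .ofNat 572, .ofNat 837, .negSucc 520, .negSucc 1182⟩, ⟨.ofNat 392, .ofNat 244, .negSucc 67, .negSucc 396, .ofNat 238, .ofNat 511⟩, ⟨.ofNat 776, .ofNat 484, .negSucc 423, .negSucc 670, .ofNat 435, .ofNat 904⟩, ⟨.negSucc 2357, .negSucc 813, .ofNat 751, .ofNat 1134, .negSucc 814, .negSucc 1837⟩, ⟨.negSucc 793, .ofNat 133, .negSucc 217, .negSucc 402, .ofNat 76, .ofNat 118⟩, .ofNat 820, .ofNat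 1044, .ofNat 0, .ofNat 1044, .ofNat 2509, .ofNat 0, .ofNat 128, .negSucc 216, .negSucc 640, .ofNat 0, .ofNat 133, .ofNat 281, .ofNat 0, .ofNat 0, .ofNat 648, .ofNat 276, .ofNat 0, .ofNat 0, .ofNat 5946404669290621202202113280606994432, .ofNat 0, .ofNat 0, .ofNat 0, .ofNat 192465247536852800003905528081263099904, .ofNat 0, .ofNat 0, .ofNat 0, .ofNat 0, .ofNat 0, .ofNat 0, .ofNat 0, .ofNat 650627020704447134130009950981147590656, .ofNat 0⟩)
    (by decide +kernel)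
theorem L02746 : Good (Phi V5.P V5.D (-1) (-1)) ⟨4, 13, 3, 2, 2, 2, 3, 6, 4, 0⟩ :=
  leafX_sound T5.ok_mm T5.Ymm.bz_eq (w := 214) (c := ⟨⟨.negSucc 331, .negSucc 685, .ofNat 1267, .ofNat 1453, .negSucc 1344, .negSucc 3645⟩, ⟨.negSucc 101, .ofNat 264, .negSucc 371, .negSucc 709, .ofNat 625, .ofNat 1693⟩, ⟨.negSucc 385, .ofNat 286, .negSucc 563, .negSucc 1052, .ofNat 1043, .ofNat 2818⟩, ⟨.negSucc 827, .negSucc 844, .ofNat 1946, .ofNat 2048, .negSucc 2093, .negSucc 5683⟩, ⟨.negSucc 940, .ofNat 137, .ofNat 274, .negSucc 392, .negSucc 47, .negSucc 164⟩, .ofNat 1114, .ofNat 1553, .ofNat 0, .ofNat 1553, .ofNat 3341, .ofNat 0, .ofNat 128, .negSucc 187, .negSucc 589, .ofNat 0, .ofNat 117, .ofNat 279, .ofNat 0, .ofNat 0, .ofNat 590, .ofNat 266, .ofNat 0, .ofNat 0, .ofNat 3147070573162300953770204211504480256, .ofNat 0, .ofNat 0, .ofNat 0, .ofNat 213824002837384453685846037078860627968, .ofNat 0, .ofNat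 0, .ofNat 0, .ofNat 296580175612083803371705749075591692288, .ofNat 0, .ofNat 0, .ofNat 0, .ofNat 81144556952808287460100470506644307968, .ofNat 0⟩)
    (by decide +kernel)
theorem L02747 : Good (Phi V5.P V5.D (-1) (-1)) ⟨5, 24, 3, 2, 2, 2, 3, 6, 4, 1⟩ :=
  leafX_sound T5.ok_mm T5.Ymm.bz_eq (w := 216) (c := ⟨⟨.negSucc 2350, .negSucc 450, .ofNat 436, .ofNat 55, .ofNat 310, .negSucc 635⟩, ⟨.ofNat 783, .ofNat 210, .ofNat 51, .negSucc 64, .negSucc 111, .ofNat 272⟩, ⟨.ofNat 1702, .ofNat 388, .negSucc 376, .negSucc 280, .negSucc 285, .ofNat 323⟩, ⟨.negSucc 4095, .negSucc 580, .ofNat 680, .negSucc 177, .ofNat 483, .negSucc 1013⟩, ⟨.negSucc 579, .ofNat 20, .negSucc 36, .negSucc 695, .ofNat 79, .ofNat 175⟩, .ofNat 550, .ofNat 556, .ofNat 0, .ofNat 556, .ofNat 1616, .ofNat 0, .ofNat 128, .negSucc 149, .negSucc 540, .ofNat 0, .ofNat 93, .ofNat 210, .ofNat 0, .ofNat 0, .ofNat 577, .ofNat 260, .ofNat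 0, .ofNat 0, .ofNat 0, .ofNat 0, .ofNat 0, .ofNat 0, .ofNat 0, .ofNat 0, .ofNat 0, .ofNat 0, .ofNat 0, .ofNat 0, .ofNat 0, .ofNat 0, .ofNat 0, .ofNat 0⟩)
    (by decide +kernel)
theorem L02748 : Good (Phi V5.P V5.D (-1) (-1)) ⟨5, 25, 3, 2, 2, 2, 3, 6, 4, 1⟩ :=
  leafX_sound T5.ok_mm T5.Ymm.bz_eq (w := 217) (c := ⟨⟨.negSucc 3245, .negSucc 709, .ofNat 711, .negSucc 39, .ofNat 353, .negSucc 168⟩, ⟨.ofNat 1172, .ofNat 342, .negSucc 39, .negSucc 47, .negSucc 141, .ofNat 97⟩, ⟨.ofNat 2540, .ofNat 582, .negSucc 608, .negSucc 280, .negSucc 319, .negSucc 134⟩, ⟨.negSucc 5325, .negSucc 992, .ofNat 994, .negSucc 375, .ofNat 548, .negSucc 201⟩, ⟨.negSucc 386, .negSucc 93, .negSucc 217, .negSucc 754, .ofNat 15, .ofNat 202⟩, .ofNat 821, .ofNat 1044, .ofNat 0, .ofNat 1044, .ofNat 2498, .ofNat 0, .ofNat 128, .negSucc 187, .negSucc 619, .ofNat 0, .ofNat 114, .ofNat 275, .ofNat 0, .ofNat 0, .ofNat 677, .ofNat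 208, .ofNat 0, .ofNat 0, .ofNat 281840814183498089348635878332825600, .ofNat 0, .ofNat 0, .ofNat 0, .ofNat 8802255424860114043346760003835920384, .ofNat 0, .ofNat 0, .ofNat 0, .ofNat 423526971061040613399655350775316480, .ofNat 0, .ofNat 0, .ofNat 0, .ofNat 20954736393762878541227254658189230080, .ofNat 0⟩)
    (by decide +kernel)
theorem L02749 : Good (Phi V5.P V5.D (-1) (-1)) ⟨4, 13, 3, 2, 2, 2, 3, 6, 4, 1⟩ :=
  leafX_sound T5.ok_mm T5.Ymm.bz_eq (w := 214) (c := ⟨⟨.negSucc 3822, .ofNat 972, .ofNat 482, .ofNat 45, .ofNat 401, .negSucc 266⟩, ⟨.ofNat 1476, .negSucc 392, .ofNat 57, .negSucc 96, .negSucc 179, .ofNat 146⟩, ⟨.ofNat 3194, .negSucc 738, .negSucc 551, .negSucc 398, .negSucc 367, .negSucc 112⟩, ⟨.negSucc 6157, .ofNat 1723, .ofNat 789, .negSucc 333, .ofNat 600, .negSucc 377⟩, ⟨.negSucc 598, .negSucc 44, .ofNat 112, .negSucc 900, .ofNat 1, .ofNat 149⟩, .ofNat 843, .ofNat 1045, .ofNat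 0, .ofNat 1045, .ofNat 2341, .ofNat 0, .ofNat 128, .negSucc 290, .negSucc 1062, .ofNat 0, .ofNat 182, .ofNat 500, .ofNat 0, .ofNat 0, .ofNat 1106, .ofNat 522, .ofNat 0, .ofNat 0, .ofNat 2767692108210811967914242404492771328, .ofNat 0, .ofNat 0, .ofNat 0, .ofNat 140782114238083223714909549325207994368, .ofNat 0, .ofNat 0, .ofNat 0, .ofNat 115645205200468360418919056965311135744, .ofNat 0, .ofNat 0, .ofNat 0, .ofNat 446363172254579889379495756129638547456, .ofNat 0⟩)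
    (by decide +kernel)
theorem L02750 : Good (Phi V5.P V5.D (-1) (-1)) ⟨3, 7, 3, 2, 2, 2, 3, 6, 3, 0⟩ :=
  out_sound (S := T5.ds_mm) T5.ok_mm (w := 45) (j := 3) (by decide +kernel)
theorem L02751 : Good (Phi V5.P V5.D (-1) (-1)) ⟨5, 24, 3, 2, 2, 2, 4, 14, 4, 0⟩ :=
  leafX_sound T5.ok_mm T5.Ymm.bz_eq (w := 220) (c := ⟨⟨.negSucc 660, .negSucc 289, .ofNat 415, .ofNat 354, .negSucc 111, .negSucc 1559⟩, ⟨.ofNat 152, .ofNat 110, .negSucc 16, .negSucc 158, .ofNat 53, .ofNat 627⟩, ⟨.ofNat 337, .ofNat 237, .negSucc 315, .negSucc 213, .ofNat 74, .ofNat 1062⟩, ⟨.negSucc 1339, .negSucc 455, .ofNat 634, .ofNat 398, .negSucc 189, .negSucc 2527⟩, ⟨.negSucc 715, .negSucc 115, .ofNat 66, .negSucc 436, .negSucc 0, .ofNat 120⟩, .ofNat 684, .ofNat 828, .ofNat 0, .ofNat 828, .ofNat 2280, .ofNat 0, .ofNat 128, .negSucc 146, .negSucc 472, .ofNat 0, .ofNat 89, .ofNat 184, .ofNat 0, .ofNat 0, .ofNat 491, .ofNat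 356, .ofNat 0, .ofNat 0, .ofNat 0, .ofNat 0, .ofNat 0, .ofNat 0, .ofNat 0, .ofNat 0, .ofNat 0, .ofNat 0, .ofNat 0, .ofNat 0, .ofNat 0, .ofNat 0, .ofNat 0, .ofNat 0⟩)
    (by decide +kernel)
theorem L02752 : Good (Phi V5.P V5.D (-1) (-1)) ⟨5, 25, 3, 2, 2, 2, 4, 14, 4, 0⟩ :=
  leafX_sound T5.ok_mm T5.Ymm.bz_eq (w := 220) (c := ⟨⟨.negSucc 934, .negSucc 334, .ofNat 615, .ofNat 304, .negSucc 22, .negSucc 2044⟩, ⟨.ofNat 224, .ofNat 150, .negSucc 77, .negSucc 180, .ofNat 22, .ofNat 901⟩, ⟨.ofNat 551, .ofNat 303, .negSucc 484, .negSucc 185, .ofNat 14, .ofNat 1460⟩, ⟨.negSucc 1829, .negSucc 451, .ofNat 885, .ofNat 298, .ofNat 24, .negSucc 3165⟩, ⟨.negSucc 878, .ofNat 24, .negSucc 72, .negSucc 359, .ofNat 156, .ofNat 122⟩, .ofNat 815, .ofNat 1031, .ofNat 0, .ofNat 1031, .ofNat 2469, .ofNat 0, .ofNat 128, .negSucc 133, .negSucc 491, .ofNat 0, .ofNat 86, .ofNat 215, .ofNat 0, .ofNat 0, .ofNat 507, .ofNat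 194, .ofNat 0, .ofNat 0, .ofNat 1084016265304473801274102826718461952, .ofNat 0, .ofNat 0, .ofNat 0, .ofNat 131361499440706735757829996856525979648, .ofNat 0, .ofNat 0, .ofNat 0, .ofNat 0, .ofNat 0, .ofNat 0, .ofNat 0, .ofNat 181743491532418580737739774843433254912, .ofNat 0⟩)
    (by decide +kernel)
theorem L02753 : Good (Phi V5.P V5.D (-1) (-1)) ⟨4, 13, 3, 2, 2, 2, 4, 14, 4, 0⟩ :=
  leafX_sound T5.ok_mm T5.Ymm.bz_eq (w := 218) (c := ⟨⟨.negSucc 1025, .negSucc 936, .ofNat 546, .ofNat 474, .negSucc 162, .negSucc 2457⟩, ⟨.ofNat 257, .ofNat 438, .negSucc 74, .negSucc 258, .ofNat 80, .ofNat 1146⟩, ⟨.ofNat 669, .ofNat 923, .negSucc 447, .negSucc 350, .ofNat 110, .ofNat 1831⟩, ⟨.negSucc 1726, .negSucc 974, .ofNat 647, .ofNat 487, .negSucc 231, .negSucc 3804⟩, ⟨.negSucc 574, .ofNat 282, .negSucc 118, .negSucc 515, .ofNat 38, .negSucc 36⟩, .ofNat 1110, .ofNat 1547, .ofNat 0, .ofNat 1547, .ofNat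 3336, .ofNat 0, .ofNat 128, .negSucc 203, .negSucc 767, .ofNat 0, .ofNat 130, .ofNat 360, .ofNat 0, .ofNat 0, .ofNat 773, .ofNat 612, .ofNat 0, .ofNat 0, .ofNat 19340865220501524855740630596740710400, .ofNat 0, .ofNat 0, .ofNat 0, .ofNat 9763575583191227524559651207121263919104, .ofNat 0, .ofNat 0, .ofNat 0, .ofNat 2425482683580481394380918697992927576064, .ofNat 0, .ofNat 0, .ofNat 0, .ofNat 3088239728363408454232089101905155850240, .ofNat 0⟩)
    (by decide +kernel)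
theorem L02754 : Good (Phi V5.P V5.D (-1) (-1)) ⟨4, 12, 4, 4, 2, 2, 4, 15, 4, 0⟩ :=
  leafX_sound T5.ok_mm T5.Ymm.bz_eq (w := 219) (c := ⟨⟨.negSucc 703, .negSucc 556, .ofNat 141, .negSucc 283, .ofNat 304, .negSucc 967⟩, ⟨.ofNat 182, .ofNat 210, .ofNat 25, .ofNat 85, .negSucc 114, .ofNat 387⟩, ⟨.ofNat 346, .ofNat 462, .negSucc 100, .ofNat 345, .negSucc 320, .ofNat 528⟩, ⟨.negSucc 1499, .negSucc 769, .ofNat 179, .negSucc 491, .ofNat 582, .negSucc 1614⟩, ⟨.negSucc 861, .ofNat 72, .negSucc 69, .negSucc 46, .ofNat 270, .negSucc 198⟩, .ofNat 910, .ofNat 1270, .ofNat 0, .ofNat 1270, .ofNat 3220, .ofNat 0, .ofNat 141, .negSucc 127, .negSucc 551, .ofNat 0, .ofNat 84, .ofNat 221, .ofNat 0, .ofNat 0, .ofNat 579, .ofNat 172, .ofNat 0, .ofNat 0, .ofNat 0, .ofNat 0, .ofNat 0, .ofNat 0, .ofNat 743480640055546454609328320763777777664, .ofNat 0, .ofNat 0, .ofNat 0, .ofNat 1262410772033012671735544777523444318208,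 .ofNat 0, .ofNat 0, .ofNat 0, .ofNat 2254698812528474927761062306784150028288, .ofNat 0⟩)
    (by decide +kernel)
theorem L02755 : Good (Phi V5.P V5.D (-1) (-1)) ⟨4, 12, 4, 5, 2, 2, 4, 15, 4, 0⟩ :=
  leafX_sound T5.ok_mm T5.Ymm.bz_eq (w := 220) (c := ⟨⟨.negSucc 633, .negSucc 431, .ofNat 273, .negSucc 151, .ofNat 273, .negSucc 854⟩, ⟨.ofNat 212, .ofNat 165, .negSucc 47, .ofNat 51, .negSucc 107, .ofNat 370⟩, ⟨.ofNat 285, .ofNat 325, .negSucc 197, .ofNat 281, .negSucc 298, .ofNat 427⟩, ⟨.negSucc 1300, .negSucc 748, .ofNat 478, .negSucc 449, .ofNat 572, .negSucc 1399⟩, ⟨.negSucc 630, .negSucc 373, .ofNat 185, .negSucc 470, .ofNat 360, .negSucc 40⟩, .ofNat 895, .ofNat 1236, .ofNat 0, .ofNat 1236, .ofNat 3028, .ofNat 0, .ofNat 128, .negSucc 245, .negSucc 924, .ofNat 0, .ofNat 145, .ofNat 392, .ofNat 0, .ofNat 0, .ofNat 963, .ofNat 222, .ofNat 0, .ofNat 0, .ofNat 12714667560153642675615931965024239616,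 .ofNat 0, .ofNat 0, .ofNat 0, .ofNat 901082292823425792204209688595836960768, .ofNat 0, .ofNat 0, .ofNat 0, .ofNat 0, .ofNat 0, .ofNat 0, .ofNat 0, .ofNat 1409262191499545212927235068897804681216, .ofNat 0⟩)
    (by decide +kernel)
theorem L02756 : Good (Phi V5.P V5.D (-1) (-1)) ⟨4, 13, 3, 2, 2, 2, 4, 15, 4, 0⟩ :=
  leafX_sound T5.ok_mm T5.Ymm.bz_eq (w := 217) (c := ⟨⟨.negSucc 1013, .negSucc 694, .ofNat 167, .negSucc 81, .ofNat 535, .negSucc 1216⟩, ⟨.ofNat 298, .ofNat 297, .ofNat 53, .ofNat 6, .negSucc 242, .ofNat 573⟩, ⟨.ofNat 687, .ofNat 541, .negSucc 185, .ofNat 183, .negSucc 571, .ofNat 734⟩, ⟨.negSucc 1656, .negSucc 1098, .ofNat 116, .negSucc 399, .ofNat 819, .negSucc 1933⟩, ⟨.negSucc 375, .negSucc 249, .negSucc 189, .negSucc 537, .ofNat 23, .negSucc 67⟩, .ofNat 846, .ofNat 1050, .ofNat 0, .ofNat 1050, .ofNat 2352, .ofNat 0, .ofNat 128, .negSucc 159, .negSucc 1036, .ofNat 0, .ofNat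 106, .ofNat 479, .ofNat 0, .ofNat 0, .ofNat 1045, .ofNat 342, .ofNat 0, .ofNat 0, .ofNat 6527058810946061973262929699754999808, .ofNat 0, .ofNat 0, .ofNat 0, .ofNat 5303955933009722890781704912524854427648, .ofNat 0, .ofNat 0, .ofNat 0, .ofNat 1493043211972189918784605198144656900096, .ofNat 0, .ofNat 0, .ofNat 0, .ofNat 3618847186954973449599363913102462550016, .ofNat 0⟩)
    (by decide +kernel)
theorem L02757 : Good (Phi V5.P V5.D (-1) (-1)) ⟨4, 12, 3, 2, 2, 2, 4, 14, 4, 1⟩ :=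
  leafX_sound T5.ok_mm T5.Ymm.bz_eq (w := 217) (c := ⟨⟨.negSucc 2604, .negSucc 1037, .ofNat 618, .ofNat 57, .ofNat 404, .ofNat 194⟩, ⟨.ofNat 900, .ofNat 489, .negSucc 36, .negSucc 68, .negSucc 160, .negSucc 51⟩, ⟨.ofNat 1943, .ofNat 864, .negSucc 526, .negSucc 281, .negSucc 374, .negSucc 496⟩, ⟨.negSucc 4452, .negSucc 1499, .ofNat 919, .negSucc 197, .ofNat 725, .ofNat 434⟩, ⟨.negSucc 438, .negSucc 250, .negSucc 71, .negSucc 679, .ofNat 196, .ofNat 338⟩, .ofNat 816, .ofNat 1071, .ofNat 0, .ofNat 1071, .ofNat 2698, .ofNat 0, .ofNat 128, .negSucc 193, .negSucc 579, .ofNat 0, .ofNat 114, .ofNat 241, .ofNat 0, .ofNat 0, .ofNat 616, .ofNat 198, .ofNat 0, .ofNat 0, .ofNat 8455059435126264951302504070219038720, .ofNat 0, .ofNat 0, .ofNat 0, .ofNat 458696578990736907466689166745677070336, .ofNat 0, .ofNat 0, .ofNat 0, .ofNat 0, .ofNat 0, .ofNat 0, .ofNat 0, .ofNat 1159730869617409182819298682344763817984,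 .ofNat 0⟩)
    (by decide +kernel)
theorem L02758 : Good (Phi V5.P V5.D (-1) (-1)) ⟨4, 13, 3, 2, 2, 2, 4, 14, 4, 1⟩ :=
  leafX_sound T5.ok_mm T5.Ymm.bz_eq (w := 218) (c := ⟨⟨.negSucc 3802, .negSucc 1130, .ofNat 621, .ofNat 202, .ofNat 517, .ofNat 209⟩, ⟨.ofNat 1506, .ofNat 573, .negSucc 48, .negSucc 159, .negSucc 232, .negSucc 71⟩, ⟨.ofNat 2970, .ofNat 437, .negSucc 490, .negSucc 469, .negSucc 487, .negSucc 541⟩, ⟨.negSucc 5821, .negSucc 1106, .ofNat 634, .negSucc 81, .ofNat 849, .ofNat 478⟩, ⟨.negSucc 166, .ofNat 291, .negSucc 404, .negSucc 857, .ofNat 122, .ofNat 361⟩, .ofNat 1160, .ofNat 1641, .ofNat 0, .ofNat 1641, .ofNat 3518, .ofNat 0, .ofNat 128, .negSucc 322, .negSucc 943, .ofNat 0, .ofNat 201, .ofNat 445, .ofNat 0, .ofNat 0, .ofNat 985, .ofNat 389, .ofNat 0, .ofNat 0, .ofNat 22155258854722200270089009928832286720, .ofNat 0, .ofNat 0, .ofNat 0, .ofNat 6917401069379094405622122316185749946368,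 .ofNat 0, .ofNat 0, .ofNat 0, .ofNat 2466885594782697826751713730677746696192, .ofNat 0, .ofNat 0, .ofNat 0, .ofNat 5475206726777424945798880056344322244608, .ofNat 0⟩)
    (by decide +kernel)
theorem L02759 : Good (Phi V5.P V5.D (-1) (-1)) ⟨5, 24, 3, 2, 2, 2, 4, 15, 4, 1⟩ :=
  leafX_sound T5.ok_mm T5.Ymm.bz_eq (w := 221) (c := ⟨⟨.negSucc 2022, .negSucc 365, .ofNat 468, .negSucc 265, .ofNat 906, .ofNat 105⟩, ⟨.ofNat 689, .ofNat 164, .negSucc 13, .ofNat 67, .negSucc 333, .negSucc 8⟩, ⟨.ofNat 1340, .ofNat 308, .negSucc 387, .ofNat 71, .negSucc 838, .negSucc 376⟩, ⟨.negSucc 3518, .negSucc 513, .ofNat 684, .negSucc 584, .ofNat 1541, .ofNat 298⟩, ⟨.negSucc 473, .negSucc 52, .negSucc 104, .negSucc 388, .ofNat 198, .ofNat 355⟩, .ofNat 868, .ofNat 1232, .ofNat 0, .ofNat 1232, .ofNat 3232, .ofNat 0, .ofNat 128, .negSucc 180, .negSucc 668, .ofNat 0, .ofNat 99, .ofNat 264, .ofNat 0, .ofNat 0, .ofNat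 685, .ofNat 363, .ofNat 0, .ofNat 0, .ofNat 0, .ofNat 0, .ofNat 0, .ofNat 0, .ofNat 0, .ofNat 0, .ofNat 0, .ofNat 12981558110616373370556888432441827860152320, .ofNat 0, .ofNat 0, .ofNat 0, .ofNat 0, .ofNat 0, .ofNat 0⟩)
    (by decide +kernel)
theorem L02760 : Good (Phi V5.P V5.D (-1) (-1)) ⟨5, 25, 3, 2, 2, 2, 4, 15, 4, 1⟩ :=
  leafX_sound T5.ok_mm T5.Ymm.bz_eq (w := 221) (c := ⟨⟨.negSucc 2464, .negSucc 464, .ofNat 413, .negSucc 117, .ofNat 1092, .ofNat 338⟩, ⟨.ofNat 914, .ofNat 223, .negSucc 15, .ofNat 7, .negSucc 457, .negSucc 113⟩, ⟨.ofNat 1725, .ofNat 377, .negSucc 328, .negSucc 52, .negSucc 1029, .negSucc 637⟩, ⟨.negSucc 4133, .negSucc 689, .ofNat 680, .negSucc 482, .ofNat 1820, .ofNat 729⟩, ⟨.negSucc 532, .negSucc 92, .ofNat 94, .negSucc 593, .ofNat 176, .ofNat 467⟩, .ofNat 692, .ofNat 798, .ofNat 0, .ofNat 798, .ofNat 1984, .ofNat 0, .ofNat 128, .negSucc 163, .negSucc 859, .ofNat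 0, .ofNat 105, .ofNat 365, .ofNat 0, .ofNat 0, .ofNat 864, .ofNat 106, .ofNat 0, .ofNat 0, .ofNat 2172717353970606812990529645274202112, .ofNat 0, .ofNat 0, .ofNat 12005025756476989544242553215339857189011456, .ofNat 53708855989745461118215541341940613120, .ofNat 0, .ofNat 0, .ofNat 0, .ofNat 0, .ofNat 0, .ofNat 0, .ofNat 0, .ofNat 246062240896391767755093382409117237248, .ofNat 0⟩)
    (by decide +kernel)

end Crest.Agent.R097C5.N5mm
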