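import Crest.Agent.R097.KP7
import Crest.Agent.R097.T5Ymm

/-!
# Row 97, box cover in dimension n = 5 (generated)
-/

set_option autoImplicit false
set_option Elab.async false
set_option maxHeartbeats 0
set_option maxRecDepth 100000

open Crest.Agent.R097 Crest.Agent.R097.KA


namespace Crest.Agent.R097C5.N5mm

theorem L02761 : Good (Phi V5.P V5.D (-1) (-1)) ⟨5, 26, 3, 2, 2, 2, 4, 15, 4, 1⟩ :=
  leafX_sound T5.ok_mm T5.Ymm.bz_eq (w := 222) (c := ⟨⟨.negSucc 2428, .ofNat 51, .negSucc 373, .ofNat 66, .ofNat 1581, .ofNat 502⟩, ⟨.ofNat 917, .negSucc 21, .ofNat 363, .negSucc 88, .negSucc 715, .negSucc 195⟩, ⟨.ofNat 1700, .negSucc 146, .ofNat 376, .negSucc 258, .negSucc 1470, .negSucc 836⟩, ⟨.negSucc 3996, .negSucc 53, .negSucc 565, .negSucc 273, .ofNat 2576, .ofNat 1042⟩, ⟨.negSucc 581, .negSucc 500, .ofNat 62, .negSucc 777, .ofNat 291, .ofNat 581⟩, .ofNat 798, .ofNat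 916, .ofNat 0, .ofNat 916, .ofNat 2045, .ofNat 0, .ofNat 128, .negSucc 142, .negSucc 915, .ofNat 0, .ofNat 106, .ofNat 408, .ofNat 0, .ofNat 0, .ofNat 870, .ofNat 359, .ofNat 0, .ofNat 0, .ofNat 0, .ofNat 0, .ofNat 0, .ofNat 15080233223111862070703220940783203624419328, .ofNat 266673699795093920616412069051328626688, .ofNat 0, .ofNat 0, .ofNat 0, .ofNat 138314561314989113592900166045805838336, .ofNat 0, .ofNat 0, .ofNat 44395906245697371208614511987330653867737088, .ofNat 619501000119077745409770502673569677312, .ofNat 0⟩)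
    (by decide +kernel)
theorem L02762 : Good (Phi V5.P V5.D (-1) (-1)) ⟨5, 27, 3, 2, 2, 2, 4, 15, 4, 1⟩ :=
  out_sound (S := T5.ds_mm) T5.ok_mm (w := 57) (j := 3) (by decide +kernel)
theorem L02763 : Good (Phi V5.P V5.D (-1) (-1)) ⟨3, 7, 3, 2, 2, 2, 3, 7, 3, 0⟩ :=
  out_sound (S := T5.ds_mm) T5.ok_mm (w := 45) (j := 3) (by decide +kernel)
theorem L02764 : Good (Phi V5.P V5.D (-1) (-1)) ⟨3, 4, 3, 2, 2, 3, 1, 1, 3, 0⟩ :=
  out_sound (S := T5.ds_mm) T5.ok_mm (w := 45) (j := 3) (by decide +kernel)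
theorem L02765 : Good (Phi V5.P V5.D (-1) (-1)) ⟨3, 5, 3, 2, 3, 6, 2, 2, 4, 0⟩ :=
  leafX_sound T5.ok_mm T5.Ymm.bz_eq (w := 219) (c := ⟨⟨.ofNat 2226, .ofNat 841, .negSucc 67, .negSucc 170, .negSucc 1490, .negSucc 2132⟩, ⟨.negSucc 640, .negSucc 448, .ofNat 17, .ofNat 77, .ofNat 494, .ofNat 690⟩, ⟨.negSucc 1306, .negSucc 666, .ofNat 168, .ofNat 452, .ofNat 823, .ofNat 1152⟩, ⟨.ofNat 4092, .ofNat 1112, .negSucc 132, .negSucc 73, .negSucc 2794, .negSucc 4149⟩, ⟨.ofNat 34, .negSucc 56, .ofNat 121, .ofNat 604, .negSucc 631, .negSucc 1364⟩, .ofNat 535, .ofNat 544, .ofNat 0, .ofNat 544, .ofNat 1866, .ofNat 0, .ofNat 128, .negSucc 189, .negSucc 549, .ofNat 0, .ofNat 99, .ofNat 176, .ofNat 0, .ofNat 0, .ofNat 521, .ofNat 447, .ofNat 0, .ofNat 0, .ofNat 2771305168282894360712353042538919100416, .ofNat 0, .ofNat 0, .ofNat 0, .ofNat 18695815889362813557919495101316081909760,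 .ofNat 0, .ofNat 0, .ofNat 0, .ofNat 295846746852494073531180581742625486274560, .ofNat 0, .ofNat 0, .ofNat 0, .ofNat 0, .ofNat 0⟩)
    (by decide +kernel)
theorem L02766 : Good (Phi V5.P V5.D (-1) (-1)) ⟨3, 5, 3, 2, 3, 7, 2, 2, 4, 0⟩ :=
  leafX_sound T5.ok_mm T5.Ymm.bz_eq (w := 220) (c := ⟨⟨.ofNat 1881, .ofNat 147, .negSucc 166, .negSucc 1016, .negSucc 939, .negSucc 1555⟩, ⟨.negSucc 605, .negSucc 66, .ofNat 51, .ofNat 358, .ofNat 291, .ofNat 489⟩, ⟨.negSucc 587, .negSucc 97, .ofNat 160, .ofNat 810, .ofNat 331, .ofNat 535⟩, ⟨.ofNat 3775, .ofNat 76, .negSucc 161, .negSucc 1757, .negSucc 2038, .negSucc 3225⟩, ⟨.ofNat 1355, .negSucc 161, .ofNat 231, .negSucc 98, .negSucc 1217, .negSucc 1587⟩, .ofNat 681, .ofNat 892, .ofNat 0, .ofNat 892, .ofNat 2856, .ofNat 0, .ofNat 128, .negSucc 252, .negSucc 500, .ofNat 0, .ofNat 110, .ofNat 160, .ofNat 0, .ofNat 0, .ofNat 454,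 .ofNat 597, .ofNat 0, .ofNat 0, .ofNat 1535679335317659534120227150214608191488, .ofNat 0, .ofNat 0, .ofNat 0, .ofNat 0, .ofNat 0, .ofNat 0, .ofNat 0, .ofNat 475947749749760927176579697547809042464768, .ofNat 0, .ofNat 0, .ofNat 0, .ofNat 0, .ofNat 0⟩)
    (by decide +kernel)
theorem L02767 : Good (Phi V5.P V5.D (-1) (-1)) ⟨4, 10, 3, 2, 2, 3, 3, 6, 4, 0⟩ :=
  out_sound (S := T5.ds_mm) T5.ok_mm (w := 51) (j := 3) (by decide +kernel)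
theorem L02768 : Good (Phi V5.P V5.D (-1) (-1)) ⟨4, 11, 3, 2, 3, 6, 3, 6, 4, 0⟩ :=
  leafX_sound T5.ok_mm T5.Ymm.bz_eq (w := 227) (c := ⟨⟨.ofNat 892, .negSucc 93, .ofNat 180, .negSucc 44, .negSucc 810, .negSucc 1565⟩, ⟨.negSucc 326, .ofNat 1, .ofNat 47, .ofNat 29, .ofNat 270, .ofNat 522⟩, ⟨.negSucc 526, .ofNat 29, .negSucc 93, .ofNat 177, .ofNat 504, .ofNat 807⟩, ⟨.ofNat 1347, .negSucc 220, .ofNat 322, .negSucc 57, .negSucc 1465, .negSucc 2918⟩, ⟨.negSucc 592, .negSucc 199, .ofNat 216, .ofNat 24, .negSucc 145, .negSucc 604⟩, .ofNat 536, .ofNat 547, .ofNat 0, .ofNat 547, .ofNat 1870, .ofNat 0, .ofNat 128, .negSucc 195, .negSucc 746, .ofNat 0, .ofNat 104, .ofNat 236, .ofNat 0, .ofNat 0, .ofNat 668, .ofNat 568, .ofNat 0, .ofNat 0, .ofNat 0, .ofNat 0, .ofNat 0, .ofNat 0, .ofNat 77763162440770750420747160178657060716544, .ofNat 0, .ofNat 0, .ofNat 0, .ofNat 2167320121489601093927219487916875885576192,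 .ofNat 0, .ofNat 0, .ofNat 0, .ofNat 0, .ofNat 0⟩)
    (by decide +kernel)
theorem L02769 : Good (Phi V5.P V5.D (-1) (-1)) ⟨4, 11, 3, 2, 3, 7, 3, 6, 5, 0⟩ :=
  leafX_sound T5.ok_mm T5.Ymm.bz_eq (w := 231) (c := ⟨⟨.ofNat 465, .ofNat 77, .negSucc 65, .negSucc 695, .negSucc 570, .negSucc 529⟩, ⟨.negSucc 163, .negSucc 55, .ofNat 93, .ofNat 239, .ofNat 182, .ofNat 167⟩, ⟨.ofNat 84, .negSucc 109, .ofNat 184, .ofNat 560, .ofNat 183, .ofNat 133⟩, ⟨.ofNat 731, .ofNat 129, .negSucc 96, .negSucc 1267, .negSucc 1168, .negSucc 1089⟩, ⟨.negSucc 172, .negSucc 10, .ofNat 183, .negSucc 292, .negSucc 560, .negSucc 507⟩, .ofNat 853, .ofNat 1328, .ofNat 0, .ofNat 1328, .ofNat 4061, .ofNat 0, .ofNat 128, .negSucc 186, .negSucc 539, .ofNat 0, .ofNat 78, .ofNat 180, .ofNat 0, .ofNat 0, .ofNat 482, .ofNat 550, .ofNat 0, .ofNat 0, .ofNat 0, .ofNat 0, .ofNat 0, .ofNat 0, .ofNat 0, .ofNat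 0, .ofNat 0, .ofNat 0, .ofNat 45818371328052565910541761456332615555481600, .ofNat 0, .ofNat 0, .ofNat 0, .ofNat 0, .ofNat 0⟩)
    (by decide +kernel)
theorem L02770 : Good (Phi V5.P V5.D (-1) (-1)) ⟨4, 11, 3, 2, 3, 7, 3, 6, 5, 1⟩ :=
  leafX_sound T5.ok_mm T5.Ymm.bz_eq (w := 232) (c := ⟨⟨.negSucc 327, .negSucc 9, .ofNat 108, .negSucc 331, .negSucc 305, .negSucc 389⟩, ⟨.ofNat 83, .negSucc 24, .ofNat 88, .ofNat 113, .ofNat 100, .ofNat 126⟩, ⟨.ofNat 399, .negSucc 34, .ofNat 52, .ofNat 255, .ofNat 43, .ofNat 52⟩, ⟨.negSucc 862, .ofNat 31, .ofNat 130, .negSucc 644, .negSucc 584, .negSucc 819⟩, ⟨.negSucc 833, .ofNat 7, .ofNat 97, .negSucc 241, .negSucc 138, .negSucc 440⟩, .ofNat 861, .ofNat 1363, .ofNat 0, .ofNat 1363, .ofNat 4205, .ofNat 0, .ofNat 128, .negSucc 344, .negSucc 760, .ofNat 0, .ofNat 142, .ofNat 250, .ofNat 0, .ofNat 0, .ofNat 680, .ofNat 1397, .ofNat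 0, .ofNat 0, .ofNat 0, .ofNat 0, .ofNat 0, .ofNat 0, .ofNat 5384207482577713220005701165388103212335104, .ofNat 0, .ofNat 0, .ofNat 0, .ofNat 94002341043959293296383502780872824121720832, .ofNat 0, .ofNat 0, .ofNat 0, .ofNat 79086796188619442853647061327330833684496384, .ofNat 0⟩)
    (by decide +kernel)
theorem L02771 : Good (Phi V5.P V5.D (-1) (-1)) ⟨4, 10, 3, 2, 2, 3, 3, 7, 4, 0⟩ :=
  out_sound (S := T5.ds_mm) T5.ok_mm (w := 51) (j := 3) (by decide +kernel)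
theorem L02772 : Good (Phi V5.P V5.D (-1) (-1)) ⟨4, 11, 3, 2, 3, 6, 3, 7, 4, 0⟩ :=
  leafX_sound T5.ok_mm T5.Ymm.bz_eq (w := 226) (c := ⟨⟨.negSucc 431, .negSucc 239, .ofNat 275, .ofNat 151, .negSucc 345, .negSucc 729⟩, ⟨.ofNat 115, .ofNat 64, .ofNat 41, .negSucc 59, .ofNat 122, .ofNat 245⟩, ⟨.ofNat 418, .ofNat 154, .negSucc 113, .negSucc 79, .ofNat 102, .ofNat 175⟩, ⟨.negSucc 1069, .negSucc 401, .ofNat 455, .ofNat 245, .negSucc 582, .negSucc 1345⟩, ⟨.negSucc 930, .negSucc 174, .ofNat 188, .negSucc 14, .ofNat 66, .negSucc 199⟩, .ofNat 595, .ofNat 697, .ofNat 0, .ofNat 697, .ofNat 2226, .ofNat 0, .ofNat 128, .negSucc 137, .negSucc 656, .ofNat 0, .ofNat 67, .ofNat 218, .ofNat 0, .ofNat 0, .ofNat 588, .ofNat 544, .ofNat 0, .ofNat 0, .ofNat 0, .ofNat 0, .ofNat 0, .ofNat 0, .ofNat 0, .ofNat 0, .ofNat 0, .ofNat 0, .ofNat 694917441583589494301928254730912172867584, .ofNat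 0, .ofNat 0, .ofNat 0, .ofNat 0, .ofNat 0⟩)
    (by decide +kernel)
theorem L02773 : Good (Phi V5.P V5.D (-1) (-1)) ⟨4, 11, 3, 2, 4, 14, 3, 7, 4, 0⟩ :=
  leafX_sound T5.ok_mm T5.Ymm.bz_eq (w := 242) (c := ⟨⟨.negSucc 681, .negSucc 72, .ofNat 250, .ofNat 58, .negSucc 170, .negSucc 344⟩, ⟨.ofNat 196, .ofNat 6, .ofNat 52, .negSucc 19, .ofNat 58, .ofNat 113⟩, ⟨.ofNat 702, .ofNat 2, .negSucc 74, .negSucc 41, .negSucc 94, .negSucc 140⟩, ⟨.negSucc 1535, .negSucc 93, .ofNat 391, .ofNat 86, .negSucc 307, .negSucc 639⟩, ⟨.negSucc 984, .negSucc 100, .ofNat 122, .negSucc 39, .negSucc 39, .negSucc 139⟩, .ofNat 1031, .ofNat 1802, .ofNat 0, .ofNat 1802, .ofNat 5372, .ofNat 0, .ofNat 128, .negSucc 256, .negSucc 688, .ofNat 0, .ofNat 106, .ofNat 234, .ofNat 0, .ofNat 0, .ofNat 629, .ofNat 731, .ofNat 0, .ofNat 0, .ofNat 0, .ofNat 0, .ofNat 0, .ofNat 0, .ofNat 0, .ofNat 0, .ofNat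 0, .ofNat 0, .ofNat 28858887035791788001012078516952778044323397632, .ofNat 0, .ofNat 0, .ofNat 0, .ofNat 0, .ofNat 0⟩)
    (by decide +kernel)
theorem L02774 : Good (Phi V5.P V5.D (-1) (-1)) ⟨4, 11, 3, 2, 4, 15, 3, 7, 4, 0⟩ :=
  leafX_sound T5.ok_mm T5.Ymm.bz_eq (w := 240) (c := ⟨⟨.negSucc 850, .ofNat 1, .ofNat 76, .ofNat 18, .ofNat 29, .negSucc 174⟩, ⟨.ofNat 252, .negSucc 24, .ofNat 115, .negSucc 6, .negSucc 8, .ofNat 58⟩, ⟨.ofNat 816, .negSucc 47, .ofNat 62, .negSucc 29, .negSucc 252, .negSucc 244⟩, ⟨.negSucc 1875, .ofNat 28, .ofNat 124, .ofNat 19, .ofNat 61, .negSucc 330⟩, ⟨.negSucc 1161, .negSucc 83, .ofNat 213, .negSucc 24, .ofNat 49, .negSucc 77⟩, .ofNat 681, .ofNat 889, .ofNat 0, .ofNat 889, .ofNat 2825, .ofNat 0, .ofNat 128, .negSucc 134, .negSucc 274, .ofNat 0, .ofNat 58, .ofNat 87, .ofNat 0, .ofNat 0, .ofNat 242, .ofNat 605, .ofNat 0, .ofNat 4174473976460222692640914295098926583636819968,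 .ofNat 28854861887550042652102891522096439639408640, .ofNat 0, .ofNat 0, .ofNat 0, .ofNat 0, .ofNat 0, .ofNat 0, .ofNat 0, .ofNat 5496797508103671151952088384858063964171403264, .ofNat 0, .ofNat 0, .ofNat 0, .ofNat 6060409636942221042890649121162320967981072384, .ofNat 0⟩)
    (by decide +kernel)
theorem L02775 : Good (Phi V5.P V5.D (-1) (-1)) ⟨4, 10, 3, 2, 2, 3, 1, 1, 4, 1⟩ :=
  out_sound (S := T5.ds_mm) T5.ok_mm (w := 51) (j := 3) (by decide +kernel)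
theorem L02776 : Good (Phi V5.P V5.D (-1) (-1)) ⟨4, 11, 3, 2, 3, 6, 2, 2, 5, 2⟩ :=
  leafX_sound T5.ok_mm T5.Ymm.bz_eq (w := 228) (c := ⟨⟨.negSucc 88, .negSucc 382, .ofNat 373, .ofNat 330, .negSucc 680, .negSucc 1233⟩, ⟨.negSucc 25, .ofNat 113, .ofNat 33, .negSucc 115, .ofNat 244, .ofNat 420⟩, ⟨.negSucc 40, .ofNat 268, .negSucc 172, .negSucc 132, .ofNat 395, .ofNat 719⟩, ⟨.negSucc 543, .negSucc 648, .ofNat 634, .ofNat 530, .negSucc 1193, .negSucc 2229⟩, ⟨.negSucc 932, .negSucc 336, .ofNat 451, .negSucc 107, .negSucc 107, .negSucc 378⟩, .ofNat 862, .ofNat 1357, .ofNat 0, .ofNat 1357, .ofNat 4153, .ofNat 0, .ofNat 128, .negSucc 333, .negSucc 796, .ofNat 0, .ofNat 144, .ofNat 273, .ofNat 0, .ofNat 0, .ofNat 770, .ofNat 843, .ofNat 0, .ofNat 0, .ofNat 0, .ofNat 0, .ofNat 0, .ofNat 0, .ofNat 545165163901121532798779295237873797693440, .ofNat 0, .ofNat 0, .ofNat 0,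 .ofNat 5324088351204720458708359426964026145374208, .ofNat 0, .ofNat 0, .ofNat 0, .ofNat 0, .ofNat 0⟩)
    (by decide +kernel)
theorem L02777 : Good (Phi V5.P V5.D (-1) (-1)) ⟨4, 11, 3, 2, 3, 7, 3, 4, 5, 2⟩ :=
  leafX_sound T5.ok_mm T5.Ymm.bz_eq (w := 231) (c := ⟨⟨.negSucc 351, .negSucc 213, .ofNat 284, .negSucc 377, .ofNat 9, .negSucc 781⟩, ⟨.ofNat 86, .ofNat 57, .ofNat 40, .ofNat 133, .negSucc 6, .ofNat 249⟩, ⟨.ofNat 371, .ofNat 145, .negSucc 45, .ofNat 290, .negSucc 85, .ofNat 264⟩, ⟨.negSucc 863, .negSucc 380, .ofNat 549, .negSucc 585, .negSucc 87, .negSucc 1616⟩, ⟨.negSucc 787, .negSucc 226, .ofNat 412, .ofNat 226, .negSucc 248, .negSucc 678⟩, .ofNat 535, .ofNat 545, .ofNat 0, .ofNat 545, .ofNat 1872, .ofNat 0, .ofNat 128, .negSucc 205, .negSucc 680, .ofNat 0, .ofNat 100, .ofNat 207, .ofNat 0, .ofNat 0, .ofNat 612, .ofNat 910, .ofNat 0, .ofNat 0, .ofNat 0,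 .ofNat 0, .ofNat 0, .ofNat 0, .ofNat 15779520921347394687585474600561237418835968, .ofNat 0, .ofNat 0, .ofNat 0, .ofNat 39146984192154958353865228215268880465002496, .ofNat 0, .ofNat 0, .ofNat 0, .ofNat 0, .ofNat 0⟩)
    (by decide +kernel)
theorem L02778 : Good (Phi V5.P V5.D (-1) (-1)) ⟨4, 11, 3, 2, 3, 7, 3, 5, 5, 2⟩ :=
  leafX_sound T5.ok_mm T5.Ymm.bz_eq (w := 232) (c := ⟨⟨.negSucc 703, .negSucc 85, .ofNat 3, .negSucc 152, .negSucc 11, .negSucc 450⟩, ⟨.ofNat 203, .negSucc 2, .ofNat 164, .ofNat 55, .ofNat 3, .ofNat 146⟩, ⟨.ofNat 535, .ofNat 25, .ofNat 122, .ofNat 144, .negSucc 80, .ofNat 83⟩, ⟨.negSucc 1625, .negSucc 109, .ofNat 98, .negSucc 224, .negSucc 89, .negSucc 912⟩, ⟨.negSucc 1192, .negSucc 87, .ofNat 637, .ofNat 133, .negSucc 171, .negSucc 379⟩, .ofNat 855, .ofNat 1347, .ofNat 0, .ofNat 1347, .ofNat 4165, .ofNat 0, .ofNat 128, .negSucc 289, .negSucc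 829, .ofNat 0, .ofNat 121, .ofNat 273, .ofNat 0, .ofNat 0, .ofNat 786, .ofNat 719, .ofNat 0, .ofNat 0, .ofNat 16467932097037934204428463789215479496704, .ofNat 0, .ofNat 0, .ofNat 0, .ofNat 0, .ofNat 0, .ofNat 0, .ofNat 0, .ofNat 58953372161013111409780098406857070260256768, .ofNat 0, .ofNat 0, .ofNat 0, .ofNat 0, .ofNat 0⟩)
    (by decide +kernel)
theorem L02779 : Good (Phi V5.P V5.D (-1) (-1)) ⟨4, 11, 3, 2, 3, 6, 2, 2, 5, 3⟩ :=
  leafX_sound T5.ok_mm T5.Ymm.bz_eq (w := 229) (c := ⟨⟨.negSucc 1979, .negSucc 509, .ofNat 497, .ofNat 585, .ofNat 218, .negSucc 513⟩, ⟨.ofNat 602, .ofNat 190, .ofNat 57, .negSucc 209, .negSucc 69, .ofNat 178⟩, ⟨.ofNat 1218, .ofNat 336, .negSucc 341, .negSucc 397, .negSucc 253, .ofNat 238⟩, ⟨.negSucc 3985, .negSucc 713, .ofNat 747, .ofNat 957, .ofNat 430, .negSucc 864⟩, ⟨.negSucc 1483, .negSucc 88, .ofNat 49, .negSucc 125, .ofNat 219,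 .ofNat 71⟩, .ofNat 595, .ofNat 697, .ofNat 0, .ofNat 697, .ofNat 2226, .ofNat 0, .ofNat 128, .negSucc 215, .negSucc 865, .ofNat 0, .ofNat 102, .ofNat 300, .ofNat 0, .ofNat 0, .ofNat 870, .ofNat 994, .ofNat 0, .ofNat 0, .ofNat 0, .ofNat 0, .ofNat 0, .ofNat 0, .ofNat 0, .ofNat 0, .ofNat 0, .ofNat 0, .ofNat 2346258260907794924625635691240393992568832, .ofNat 0, .ofNat 0, .ofNat 0, .ofNat 0, .ofNat 0⟩)
    (by decide +kernel)
theorem L02780 : Good (Phi V5.P V5.D (-1) (-1)) ⟨4, 11, 3, 2, 3, 7, 2, 2, 5, 3⟩ :=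
  leafX_sound T5.ok_mm T5.Ymm.bz_eq (w := 228) (c := ⟨⟨.negSucc 1848, .negSucc 134, .ofNat 197, .ofNat 294, .ofNat 483, .negSucc 128⟩, ⟨.ofNat 567, .ofNat 36, .ofNat 132, .negSucc 97, .negSucc 162, .ofNat 44⟩, ⟨.ofNat 1160, .ofNat 68, .negSucc 56, .negSucc 190, .negSucc 436, .negSucc 52⟩, ⟨.negSucc 3747, .negSucc 158, .ofNat 248, .ofNat 553, .ofNat 852, .negSucc 231⟩, ⟨.negSucc 1541, .negSucc 155, .ofNat 75, .ofNat 160, .ofNat 94, .negSucc 1⟩, .ofNat 531, .ofNat 534, .ofNat 0, .ofNat 534, .ofNat 1832, .ofNat 0, .ofNat 128, .negSucc 180, .negSucc 417, .ofNat 0, .ofNat 95, .ofNat 130, .ofNat 0, .ofNat 0, .ofNat 441, .ofNat 1033, .ofNat 0, .ofNat 0, .ofNat 0, .ofNat 0, .ofNat 0, .ofNat 0, .ofNat 112320827184103858206412759119365660475392, .ofNat 0, .ofNat 0, .ofNat 0, .ofNat 714140516886391416551785644217521045241856, .ofNat 0, .ofNat 0, .ofNat 0, .ofNat 803300214478826491357694773915177459908608,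 .ofNat 0⟩)
    (by decide +kernel)
theorem L02781 : Good (Phi V5.P V5.D (-1) (-1)) ⟨4, 11, 4, 4, 3, 6, 2, 3, 4, 1⟩ :=
  leafX_sound T5.ok_mm T5.Ymm.bz_eq (w := 226) (c := ⟨⟨.negSucc 1517, .negSucc 270, .ofNat 33, .ofNat 563, .ofNat 212, .negSucc 622⟩, ⟨.ofNat 456, .ofNat 97, .ofNat 85, .negSucc 202, .negSucc 52, .ofNat 221⟩, ⟨.ofNat 973, .ofNat 152, .ofNat 4, .negSucc 415, .negSucc 339, .ofNat 146⟩, ⟨.negSucc 3088, .negSucc 425, .ofNat 32, .ofNat 901, .ofNat 568, .negSucc 1007⟩, ⟨.negSucc 1335, .negSucc 253, .ofNat 23, .negSucc 112, .ofNat 712, .ofNat 266⟩, .ofNat 678, .ofNat 880, .ofNat 0, .ofNat 880, .ofNat 2795, .ofNat 0, .ofNat 128, .negSucc 140, .negSucc 413, .ofNat 0, .ofNat 67, .ofNat 138, .ofNat 0, .ofNat 0, .ofNat 401, .ofNat 372, .ofNat 0, .ofNat 0, .ofNat 0, .ofNat 0, .ofNat 0, .ofNat 2233977496782159080613838988727989236288978944, .ofNat 0, .ofNat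 0, .ofNat 0, .ofNat 0, .ofNat 0, .ofNat 0, .ofNat 0, .ofNat 0, .ofNat 0, .ofNat 0⟩)
    (by decide +kernel)
theorem L02782 : Good (Phi V5.P V5.D (-1) (-1)) ⟨4, 11, 5, 8, 3, 7, 2, 3, 4, 1⟩ :=
  leafX_sound T5.ok_mm T5.Ymm.bz_eq (w := 228) (c := ⟨⟨.negSucc 1407, .ofNat 34, .ofNat 7, .ofNat 337, .ofNat 402, .negSucc 109⟩, ⟨.ofNat 423, .negSucc 26, .ofNat 39, .negSucc 111, .negSucc 110, .ofNat 44⟩, ⟨.ofNat 885, .negSucc 45, .ofNat 13, .negSucc 167, .negSucc 496, .negSucc 210⟩, ⟨.negSucc 2932, .ofNat 121, .negSucc 19, .ofNat 572, .ofNat 910, .negSucc 155⟩, ⟨.negSucc 1476, .negSucc 56, .negSucc 16, .ofNat 35, .ofNat 726, .ofNat 140⟩, .ofNat 673, .ofNat 873, .ofNat 0, .ofNat 873, .ofNat 2817, .ofNat 0, .ofNat 128, .negSucc 156, .negSucc 232, .ofNat 0, .ofNat 71, .ofNat 74, .ofNat 0, .ofNat 0, .ofNat 245, .ofNat 351, .ofNat 0, .ofNat 0, .ofNat 0, .ofNat 0, .ofNat 0, .ofNat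 19968704577463800858024871905614840400294445056, .ofNat 0, .ofNat 0, .ofNat 0, .ofNat 9859263700238797268803559211175107001099223040, .ofNat 0, .ofNat 0, .ofNat 0, .ofNat 0, .ofNat 0, .ofNat 0⟩)
    (by decide +kernel)
theorem L02783 : Good (Phi V5.P V5.D (-1) (-1)) ⟨4, 11, 5, 9, 3, 7, 2, 3, 4, 1⟩ :=
  leafX_sound T5.ok_mm T5.Ymm.bz_eq (w := 228) (c := ⟨⟨.negSucc 1371, .ofNat 78, .negSucc 51, .ofNat 270, .ofNat 482, .negSucc 136⟩, ⟨.ofNat 458, .negSucc 42, .ofNat 58, .negSucc 95, .negSucc 153, .ofNat 55⟩, ⟨.ofNat 895, .negSucc 73, .ofNat 53, .negSucc 126, .negSucc 562, .negSucc 218⟩, ⟨.negSucc 2874, .ofNat 175, .negSucc 91, .ofNat 440, .ofNat 1026, .negSucc 192⟩, ⟨.negSucc 1400, .negSucc 129, .ofNat 40, .negSucc 8, .ofNat 655, .ofNat 175⟩, .ofNat 721, .ofNat 969, .ofNat 0, .ofNat 969, .ofNat 2891, .ofNat 0, .ofNat 128, .negSucc 199, .negSucc 271, .ofNat 0, .ofNat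 90, .ofNat 93, .ofNat 0, .ofNat 0, .ofNat 265, .ofNat 450, .ofNat 0, .ofNat 0, .ofNat 0, .ofNat 0, .ofNat 0, .ofNat 25797837220900571083682838298222164525696679936, .ofNat 0, .ofNat 0, .ofNat 0, .ofNat 20317705381796720236434473870624989484609961984, .ofNat 0, .ofNat 0, .ofNat 0, .ofNat 0, .ofNat 0, .ofNat 0⟩)
    (by decide +kernel)
theorem L02784 : Good (Phi V5.P V5.D (-1) (-1)) ⟨4, 11, 4, 5, 3, 6, 2, 3, 4, 1⟩ :=
  leafX_sound T5.ok_mm T5.Ymm.bz_eq (w := 229) (c := ⟨⟨.negSucc 2178, .ofNat 381, .negSucc 30, .ofNat 671, .ofNat 352, .negSucc 607⟩, ⟨.ofNat 796, .negSucc 136, .ofNat 112, .negSucc 264, .negSucc 121, .ofNat 239⟩, ⟨.ofNat 1464, .negSucc 288, .ofNat 21, .negSucc 491, .negSucc 448, .ofNat 112⟩, ⟨.negSucc 4071, .ofNat 538, .ofNat 12, .ofNat 1057, .ofNat 780, .negSucc 962⟩, ⟨.negSucc 1172, .negSucc 188, .ofNat 66, .negSucc 166, .ofNat 502, .ofNat 134⟩,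 .ofNat 1959, .ofNat 3952, .ofNat 0, .ofNat 3952, .ofNat 10195, .ofNat 0, .ofNat 128, .negSucc 396, .negSucc 847, .ofNat 0, .ofNat 173, .ofNat 328, .ofNat 0, .ofNat 0, .ofNat 814, .ofNat 1102, .ofNat 0, .ofNat 0, .ofNat 0, .ofNat 0, .ofNat 0, .ofNat 4876001987874922002211005844272858665754558464, .ofNat 106210313018714328309106822480461014499328, .ofNat 0, .ofNat 0, .ofNat 6966431042707931505332754843307185573866766336, .ofNat 715137666378518445195041348694980775903232, .ofNat 0, .ofNat 0, .ofNat 3132360876043909499589755753959604657984634880, .ofNat 858407613590993945302791955741447716601856, .ofNat 0⟩)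
    (by decide +kernel)
theorem L02785 : Good (Phi V5.P V5.D (-1) (-1)) ⟨4, 11, 4, 5, 3, 7, 2, 3, 4, 1⟩ :=
  leafX_sound T5.ok_mm T5.Ymm.bz_eq (w := 228) (c := ⟨⟨.negSucc 1254, .negSucc 128, .ofNat 133, .ofNat 322, .ofNat 500, .negSucc 122⟩, ⟨.ofNat 485, .ofNat 8, .ofNat 28, .negSucc 122, .negSucc 174, .ofNat 52⟩, ⟨.ofNat 992, .negSucc 104, .ofNat 66, .negSucc 151, .negSucc 590, .negSucc 233⟩, ⟨.negSucc 2783, .negSucc 95, .ofNat 98, .ofNat 557, .ofNat 1075, .negSucc 148⟩, ⟨.negSucc 1448, .negSucc 48, .negSucc 121, .ofNat 53, .ofNat 630, .ofNat 152⟩, .ofNat 1891, .ofNat 3780, .ofNat 0, .ofNat 3780, .ofNat 9756, .ofNat 0, .ofNat 128, .negSucc 416, .negSucc 494, .ofNat 0, .ofNat 178, .ofNat 189, .ofNat 0, .ofNat 0, .ofNat 503, .ofNat 859, .ofNat 0, .ofNat 0, .ofNat 505107670318469069151808162906152894464, .ofNat 0, .ofNat 0, .ofNat 6075262673680845203172175484308792665016631296,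 .ofNat 0, .ofNat 0, .ofNat 0, .ofNat 9357800378141025563618843136533351512047353856, .ofNat 300710504189315134792803930231900773285888, .ofNat 0, .ofNat 0, .ofNat 0, .ofNat 383137484083866588523254587275276982419456, .ofNat 0⟩)
    (by decide +kernel)
theorem L02786 : Good (Phi V5.P V5.D (-1) (-1)) ⟨4, 12, 4, 4, 3, 6, 2, 2, 5, 0⟩ :=
  leafX_sound T5.ok_mm T5.Ymm.bz_eq (w := 232) (c := ⟨⟨.ofNat 3355, .ofNat 1073, .negSucc 292, .negSucc 492, .negSucc 1636, .negSucc 909⟩, ⟨.negSucc 1247, .negSucc 525, .ofNat 54, .ofNat 266, .ofNat 593, .ofNat 298⟩, ⟨.negSucc 2237, .negSucc 856, .ofNat 286, .ofNat 831, .ofNat 853, .ofNat 493⟩, ⟨.ofNat 5474, .ofNat 1561, .negSucc 511, .negSucc 454, .negSucc 2949, .negSucc 1735⟩, ⟨.negSucc 100, .ofNat 241, .negSucc 89, .ofNat 843, .negSucc 775, .negSucc 672⟩, .ofNat 740, .ofNat 921, .ofNat 0, .ofNat 921, .ofNat 2445, .ofNat 0, .ofNat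 128, .negSucc 137, .negSucc 474, .ofNat 0, .ofNat 76, .ofNat 186, .ofNat 0, .ofNat 0, .ofNat 443, .ofNat 526, .ofNat 0, .ofNat 0, .ofNat 124920632231757087185458626773498797752320, .ofNat 0, .ofNat 0, .ofNat 0, .ofNat 1043571649842830461463595810015922888900608, .ofNat 0, .ofNat 0, .ofNat 0, .ofNat 1689518550278006811513179771610764106792960, .ofNat 0, .ofNat 0, .ofNat 0, .ofNat 1747851624747082829288927828956162964848640, .ofNat 0⟩)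
    (by decide +kernel)
theorem L02787 : Good (Phi V5.P V5.D (-1) (-1)) ⟨4, 12, 4, 5, 3, 6, 2, 2, 5, 0⟩ :=
  leafX_sound T5.ok_mm T5.Ymm.bz_eq (w := 231) (c := ⟨⟨.ofNat 3171, .ofNat 855, .negSucc 297, .negSucc 620, .negSucc 1586, .negSucc 792⟩, ⟨.negSucc 1298, .negSucc 488, .ofNat 95, .ofNat 327, .ofNat 651, .ofNat 317⟩, ⟨.negSucc 2049, .negSucc 688, .ofNat 320, .ofNat 973, .ofNat 786, .ofNat 409⟩, ⟨.ofNat 5250, .ofNat 1065, .negSucc 407, .negSucc 546, .negSucc 2993, .negSucc 1578⟩, ⟨.ofNat 117, .negSucc 82, .ofNat 170, .ofNat 965, .negSucc 1026, .negSucc 684⟩, .ofNat 561, .ofNat 567, .ofNat 0, .ofNat 567, .ofNat 1544, .ofNat 0, .ofNat 128, .negSucc 152, .negSucc 542, .ofNat 0, .ofNat 88, .ofNat 213, .ofNat 0, .ofNat 0, .ofNat 481, .ofNat 333, .ofNat 0, .ofNat 0, .ofNat 94718787045627555682502489162205504733184, .ofNat 0, .ofNat 0, .ofNat 0, .ofNat 0, .ofNat 0,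 .ofNat 0, .ofNat 0, .ofNat 0, .ofNat 0, .ofNat 0, .ofNat 0, .ofNat 0, .ofNat 0⟩)
    (by decide +kernel)
theorem L02788 : Good (Phi V5.P V5.D (-1) (-1)) ⟨4, 13, 3, 2, 3, 6, 2, 2, 5, 0⟩ :=
  leafX_sound T5.ok_mm T5.Ymm.bz_eq (w := 230) (c := ⟨⟨.ofNat 4582, .ofNat 323, .negSucc 649, .negSucc 894, .negSucc 1617, .negSucc 786⟩, ⟨.negSucc 2016, .negSucc 206, .ofNat 185, .ofNat 501, .ofNat 696, .ofNat 302⟩, ⟨.negSucc 3188, .negSucc 97, .ofNat 599, .ofNat 1230, .ofNat 775, .ofNat 374⟩, ⟨.ofNat 7045, .ofNat 409, .negSucc 880, .negSucc 865, .negSucc 2914, .negSucc 1654⟩, ⟨.negSucc 45, .ofNat 439, .ofNat 222, .ofNat 1105, .negSucc 881, .negSucc 917⟩, .ofNat 845, .ofNat 1048, .ofNat 0, .ofNat 1048, .ofNat 2348, .ofNat 0, .ofNat 128, .negSucc 148, .negSucc 696, .ofNat 0, .ofNat 86, .ofNat 318, .ofNat 0, .ofNat 0, .ofNat 626, .ofNat 950, .ofNat 0, .ofNat 0, .ofNat 100986814526327327374344937399029210284032,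 .ofNat 0, .ofNat 0, .ofNat 0, .ofNat 4130001062074715198262373944449299373883392, .ofNat 0, .ofNat 0, .ofNat 0, .ofNat 4307829599571699909241382516764283508883456, .ofNat 0, .ofNat 0, .ofNat 0, .ofNat 5022598289088678420780216240530460237627392, .ofNat 0⟩)
    (by decide +kernel)
theorem L02789 : Good (Phi V5.P V5.D (-1) (-1)) ⟨5, 24, 3, 2, 4, 12, 3, 6, 5, 0⟩ :=
  leafX_sound T5.ok_mm T5.Ymm.bz_eq (w := 250) (c := ⟨⟨.ofNat 1532, .ofNat 239, .negSucc 169, .negSucc 26, .negSucc 1387, .negSucc 1068⟩, ⟨.negSucc 635, .negSucc 138, .ofNat 114, .ofNat 15, .ofNat 537, .ofNat 399⟩, ⟨.negSucc 1204, .negSucc 216, .ofNat 272, .ofNat 154, .ofNat 992, .ofNat 684⟩, ⟨.ofNat 2248, .ofNat 325, .negSucc 269, .negSucc 6, .negSucc 2362, .negSucc 1875⟩, ⟨.negSucc 827, .negSucc 33, .ofNat 181, .ofNat 114, .negSucc 186, .negSucc 300⟩, .ofNat 534, .ofNat 520, .ofNat 0, .ofNat 520, .ofNat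 1546, .ofNat 0, .ofNat 128, .negSucc 197, .negSucc 893, .ofNat 0, .ofNat 123, .ofNat 326, .ofNat 0, .ofNat 0, .ofNat 801, .ofNat 798, .ofNat 0, .ofNat 0, .ofNat 0, .ofNat 0, .ofNat 0, .ofNat 0, .ofNat 0, .ofNat 0, .ofNat 0, .ofNat 0, .ofNat 354822879878646229421942897039714350064153395200, .ofNat 0, .ofNat 0, .ofNat 0, .ofNat 0, .ofNat 0⟩)
    (by decide +kernel)
theorem L02790 : Good (Phi V5.P V5.D (-1) (-1)) ⟨5, 24, 3, 2, 4, 12, 3, 7, 5, 0⟩ :=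
  leafX_sound T5.ok_mm T5.Ymm.bz_eq (w := 250) (c := ⟨⟨.negSucc 124, .negSucc 79, .ofNat 127, .negSucc 26, .negSucc 709, .negSucc 725⟩, ⟨.negSucc 45, .ofNat 13, .ofNat 84, .ofNat 11, .ofNat 277, .ofNat 275⟩, ⟨.ofNat 74, .ofNat 26, .negSucc 1, .ofNat 65, .ofNat 443, .ofNat 405⟩, ⟨.negSucc 579, .negSucc 125, .ofNat 168, .negSucc 55, .negSucc 1162, .negSucc 1230⟩, ⟨.negSucc 992, .negSucc 41, .ofNat 77, .negSucc 43, .negSucc 10, .negSucc 118⟩, .ofNat 809, .ofNat 1097, .ofNat 0, .ofNat 1097, .ofNat 2925, .ofNat 0, .ofNat 128, .negSucc 250, .negSucc 1021, .ofNat 0, .ofNat 136, .ofNat 396, .ofNat 0, .ofNat 0, .ofNat 963, .ofNat 991, .ofNat 0, .ofNat 0, .ofNat 0, .ofNat 0, .ofNat 0, .ofNat 0, .ofNat 0, .ofNat 0, .ofNat 0, .ofNat 0, .ofNat 463381535362307060045164455148043448849625251840, .ofNat 0, .ofNat 0, .ofNat 0, .ofNat 0, .ofNat 0⟩)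
    (by decide +kernel)
theorem L02791 : Good (Phi V5.P V5.D (-1) (-1)) ⟨5, 25, 3, 2, 4, 12, 3, 6, 5, 0⟩ :=
  leafX_sound T5.ok_mm T5.Ymm.bz_eq (w := 251) (c := ⟨⟨.ofNat 2075, .ofNat 431, .negSucc 397, .negSucc 81, .negSucc 1566, .negSucc 1261⟩, ⟨.negSucc 947, .negSucc 238, .ofNat 211, .ofNat 37, .ofNat 672, .ofNat 523⟩, ⟨.negSucc 1681, .negSucc 374, .ofNat 462, .ofNat 231, .ofNat 1099, .ofNat 827⟩, ⟨.ofNat 2992, .ofNat 594, .negSucc 563, .negSucc 50, .negSucc 2635, .negSucc 2180⟩, ⟨.negSucc 857, .negSucc 31, .ofNat 244, .ofNat 210, .negSucc 307, .negSucc 383⟩, .ofNat 540, .ofNat 512, .ofNat 0, .ofNat 512, .ofNat 1365, .ofNat 0, .ofNat 128, .negSucc 139, .negSucc 858, .ofNat 0, .ofNat 91, .ofNat 344, .ofNat 0, .ofNat 0, .ofNat 733, .ofNat 691, .ofNat 0, .ofNat 0, .ofNat 3270097588857936657431346457928796254786027520, .ofNat 0, .ofNat 0, .ofNat 0, .ofNat 0, .ofNat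 0, .ofNat 0, .ofNat 0, .ofNat 0, .ofNat 0, .ofNat 0, .ofNat 0, .ofNat 106444473042151778122220373267605646367722045440, .ofNat 0⟩)
    (by decide +kernel)
theorem L02792 : Good (Phi V5.P V5.D (-1) (-1)) ⟨5, 25, 3, 2, 4, 12, 3, 7, 5, 0⟩ :=
  leafX_sound T5.ok_mm T5.Ymm.bz_eq (w := 250) (c := ⟨⟨.negSucc 190, .negSucc 28, .ofNat 162, .ofNat 38, .negSucc 866, .negSucc 702⟩, ⟨.negSucc 65, .negSucc 14, .ofNat 69, .negSucc 21, .ofNat 375, .ofNat 294⟩, ⟨.ofNat 99, .negSucc 4, .negSucc 31, .ofNat 14, .ofNat 563, .ofNat 381⟩, ⟨.negSucc 631, .negSucc 18, .ofNat 142, .ofNat 49, .negSucc 1421, .negSucc 1198⟩, ⟨.negSucc 830, .ofNat 12, .negSucc 113, .negSucc 16, .negSucc 141, .negSucc 218⟩, .ofNat 818, .ofNat 1036, .ofNat 0, .ofNat 1036, .ofNat 2477, .ofNat 0, .ofNat 128, .negSucc 158, .negSucc 869, .ofNat 0, .ofNat 94, .ofNat 373, .ofNat 0, .ofNat 0, .ofNat 800, .ofNat 451,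 .ofNat 0, .ofNat 0, .ofNat 0, .ofNat 0, .ofNat 0, .ofNat 0, .ofNat 37290286270620373191152116717031316545135968256, .ofNat 0, .ofNat 0, .ofNat 0, .ofNat 0, .ofNat 0, .ofNat 0, .ofNat 0, .ofNat 194934150362280523322462049974294748299987517440, .ofNat 0⟩)
    (by decide +kernel)
theorem L02793 : Good (Phi V5.P V5.D (-1) (-1)) ⟨4, 13, 3, 2, 4, 12, 3, 6, 5, 0⟩ :=
  leafX_sound T5.ok_mm T5.Ymm.bz_eq (w := 247) (c := ⟨⟨.ofNat 2487, .ofNat 435, .negSucc 145, .negSucc 152, .negSucc 1829, .negSucc 1444⟩, ⟨.negSucc 1252, .negSucc 303, .ofNat 120, .ofNat 86, .ofNat 830, .ofNat 645⟩, ⟨.negSucc 2037, .negSucc 389, .ofNat 242, .ofNat 297, .ofNat 1307, .ofNat 987⟩, ⟨.ofNat 3523, .ofNat 525, .negSucc 191, .negSucc 144, .negSucc 2981, .negSucc 2428⟩, ⟨.negSucc 753, .negSucc 27, .ofNat 161, .ofNat 191, .negSucc 349, .negSucc 433⟩, .ofNat 845, .ofNat 1048, .ofNat 0, .ofNat 1048,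 .ofNat 2349, .ofNat 0, .ofNat 130, .negSucc 127, .negSucc 684, .ofNat 0, .ofNat 76, .ofNat 313, .ofNat 0, .ofNat 0, .ofNat 606, .ofNat 1124, .ofNat 0, .ofNat 0, .ofNat 23470040807606633653652685370924992732548038656, .ofNat 0, .ofNat 0, .ofNat 0, .ofNat 1414429346390037874328436303854188037572965433344, .ofNat 0, .ofNat 0, .ofNat 0, .ofNat 2551802546933602567169883111323939212766880989184, .ofNat 0, .ofNat 0, .ofNat 0, .ofNat 1807543318089899546877715954034041833265760829440, .ofNat 0⟩)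
    (by decide +kernel)
theorem L02794 : Good (Phi V5.P V5.D (-1) (-1)) ⟨4, 13, 3, 2, 4, 12, 3, 7, 5, 0⟩ :=
  leafX_sound T5.ok_mm T5.Ymm.bz_eq (w := 249) (c := ⟨⟨.negSucc 439, .ofNat 94, .ofNat 565, .negSucc 145, .negSucc 880, .negSucc 765⟩, ⟨.ofNat 4, .negSucc 119, .negSucc 120, .ofNat 66, .ofNat 404, .ofNat 342⟩, ⟨.ofNat 280, .negSucc 204, .negSucc 383, .ofNat 182, .ofNat 568, .ofNat 436⟩, ⟨.negSucc 1006, .ofNat 164, .ofNat 751, .negSucc 225, .negSucc 1402, .negSucc 1279⟩, ⟨.negSucc 889, .negSucc 48, .negSucc 58, .negSucc 2, .negSucc 100, .negSucc 215⟩, .ofNat 1115, .ofNat 1557, .ofNat 0, .ofNat 1557, .ofNat 3356, .ofNat 0, .ofNat 128, .negSucc 199, .negSucc 1923, .ofNat 0, .ofNat 119, .ofNat 886, .ofNat 0, .ofNat 0, .ofNat 1761, .ofNat 468, .ofNat 0, .ofNat 0, .ofNat 4989940302261438960396260012363832553025568768, .ofNat 0, .ofNat 0, .ofNat 0, .ofNat 7203353951447552283213816407090745047973590204416,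 .ofNat 0, .ofNat 0, .ofNat 0, .ofNat 1061010195365662174831676012936542853388302286848, .ofNat 0, .ofNat 0, .ofNat 0, .ofNat 3137475863464458838887443614404607056282271088640, .ofNat 0⟩)
    (by decide +kernel)
theorem L02795 : Good (Phi V5.P V5.D (-1) (-1)) ⟨4, 12, 4, 4, 4, 13, 3, 6, 5, 0⟩ :=
  leafX_sound T5.ok_mm T5.Ymm.bz_eq (w := 249) (c := ⟨⟨.ofNat 1585, .ofNat 416, .negSucc 169, .negSucc 325, .negSucc 1427, .negSucc 981⟩, ⟨.negSucc 625, .negSucc 240, .ofNat 88, .ofNat 126, .ofNat 528, .ofNat 348⟩, ⟨.negSucc 1035, .negSucc 357, .ofNat 205, .ofNat 388, .ofNat 913, .ofNat 531⟩, ⟨.ofNat 2390, .ofNat 572, .negSucc 240, .negSucc 473, .negSucc 2477, .negSucc 1770⟩, ⟨.negSucc 543, .negSucc 54, .ofNat 160, .ofNat 154, .negSucc 450, .negSucc 468⟩, .ofNat 744, .ofNat 932, .ofNat 0, .ofNat 932, .ofNat 2484, .ofNat 0, .ofNat 128, .negSucc 176, .negSucc 706, .ofNat 0,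 .ofNat 96, .ofNat 272, .ofNat 0, .ofNat 0, .ofNat 618, .ofNat 676, .ofNat 0, .ofNat 0, .ofNat 7931238515386383175578231661877339579750547456, .ofNat 0, .ofNat 0, .ofNat 0, .ofNat 388410154640595619937120955501230400791317053440, .ofNat 0, .ofNat 0, .ofNat 0, .ofNat 1148049725806347390731828973369867625939179929600, .ofNat 0, .ofNat 0, .ofNat 0, .ofNat 2922392360927301154808797736071292684109233520640, .ofNat 0⟩)
    (by decide +kernel)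
theorem L02796 : Good (Phi V5.P V5.D (-1) (-1)) ⟨4, 12, 4, 4, 4, 13, 4, 14, 5, 0⟩ :=
  leafX_sound T5.ok_mm T5.Ymm.bz_eq (w := 253) (c := ⟨⟨.negSucc 166, .negSucc 60, .ofNat 58, .negSucc 97, .negSucc 464, .negSucc 618⟩, ⟨.negSucc 14, .negSucc 29, .ofNat 40, .ofNat 36, .ofNat 176, .ofNat 227⟩, ⟨.ofNat 201, .negSucc 11, .ofNat 13, .ofNat 118, .ofNat 263, .ofNat 259⟩, ⟨.negSucc 606, .negSucc 113, .ofNat 73, .negSucc 162, .negSucc 798, .negSucc 1124⟩, ⟨.negSucc 876, .negSucc 122, .ofNat 54, .negSucc 6, .negSucc 129, .negSucc 334⟩, .ofNat 748, .ofNat 937, .ofNat 0, .ofNat 937, .ofNat 2481, .ofNat 0, .ofNat 128, .negSucc 162, .negSucc 1183, .ofNat 0, .ofNat 90, .ofNat 456, .ofNat 0, .ofNat 0, .ofNat 1037, .ofNat 657, .ofNat 0, .ofNat 0, .ofNat 79783518560956005952333202478286248950368305152, .ofNat 0, .ofNat 0, .ofNat 0, .ofNat 4797206470786369195160809543729311920151255318528,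 .ofNat 0, .ofNat 0, .ofNat 0, .ofNat 16648990113550731578873379511465534748453230346240, .ofNat 0, .ofNat 0, .ofNat 0, .ofNat 59585590306498294471618186099593446117004801998848, .ofNat 0⟩)
    (by decide +kernel)
theorem L02797 : Good (Phi V5.P V5.D (-1) (-1)) ⟨4, 12, 4, 4, 4, 13, 4, 15, 5, 0⟩ :=
  leafX_sound T5.ok_mm T5.Ymm.bz_eq (w := 254) (c := ⟨⟨.negSucc 880, .negSucc 215, .ofNat 91, .ofNat 88, .negSucc 97, .negSucc 313⟩, ⟨.ofNat 245, .ofNat 41, .ofNat 41, .negSucc 37, .ofNat 38, .ofNat 111⟩, ⟨.ofNat 695, .ofNat 97, .negSucc 19, .negSucc 69, .negSucc 28, .ofNat 23⟩, ⟨.negSucc 1836, .negSucc 345, .ofNat 125, .ofNat 125, .negSucc 161, .negSucc 575⟩, ⟨.negSucc 1053, .negSucc 163, .ofNat 42, .negSucc 38, .negSucc 0, .negSucc 163⟩, .ofNat 745, .ofNat 940, .ofNat 0, .ofNat 940, .ofNat 2521, .ofNat 0, .ofNat 128, .negSucc 185, .negSucc 1189, .ofNat 0, .ofNat 104,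 .ofNat 453, .ofNat 0, .ofNat 0, .ofNat 1068, .ofNat 1773, .ofNat 0, .ofNat 0, .ofNat 256040666906777100264729394719150240475060895744, .ofNat 0, .ofNat 0, .ofNat 0, .ofNat 6992826861641134920201250102542928759986761760768, .ofNat 0, .ofNat 0, .ofNat 0, .ofNat 26263382763221234059357020033386356490991677997056, .ofNat 0, .ofNat 0, .ofNat 0, .ofNat 59496354267867719751991960070720646237704731754496, .ofNat 0⟩)
    (by decide +kernel)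
theorem L02798 : Good (Phi V5.P V5.D (-1) (-1)) ⟨4, 12, 4, 5, 4, 13, 3, 6, 5, 0⟩ :=
  leafX_sound T5.ok_mm T5.Ymm.bz_eq (w := 250) (c := ⟨⟨.ofNat 1274, .ofNat 290, .negSucc 89, .negSucc 266, .negSucc 1239, .negSucc 874⟩, ⟨.negSucc 539, .negSucc 189, .ofNat 70, .ofNat 119, .ofNat 504, .ofNat 347⟩, ⟨.negSucc 699, .negSucc 274, .ofNat 137, .ofNat 332, .ofNat 753, .ofNat 449⟩, ⟨.ofNat 1981, .ofNat 402, .negSucc 136, .negSucc 412, .negSucc 2246, .negSucc 1639⟩, ⟨.negSucc 224, .negSucc 4, .ofNat 65, .ofNat 18, .negSucc 591, .negSucc 563⟩, .ofNat 726, .ofNat 891, .ofNat 0, .ofNat 891, .ofNat 2274, .ofNat 0, .ofNat 128, .negSucc 267, .negSucc 1009, .ofNat 0, .ofNat 141, .ofNat 408, .ofNat 0, .ofNat 0, .ofNat 854, .ofNat 928, .ofNat 0, .ofNat 0, .ofNat 0, .ofNat 0, .ofNat 0, .ofNat 0, .ofNat 0, .ofNat 0, .ofNat 0, .ofNat 0, .ofNat 0, .ofNat 0, .ofNat 0, .ofNat 0, .ofNat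 0, .ofNat 0⟩)
    (by decide +kernel)
theorem L02799 : Good (Phi V5.P V5.D (-1) (-1)) ⟨5, 24, 4, 5, 4, 13, 3, 7, 5, 0⟩ :=
  leafX_sound T5.ok_mm T5.Ymm.bz_eq (w := 255) (c := ⟨⟨.negSucc 320, .negSucc 53, .ofNat 70, .negSucc 10, .negSucc 502, .negSucc 410⟩, ⟨.ofNat 92, .ofNat 4, .ofNat 39, .ofNat 4, .ofNat 200, .ofNat 158⟩, ⟨.ofNat 388, .ofNat 7, .negSucc 5, .ofNat 39, .ofNat 188, .ofNat 104⟩, ⟨.negSucc 893, .negSucc 95, .ofNat 87, .negSucc 25, .negSucc 864, .negSucc 742⟩, ⟨.negSucc 909, .negSucc 79, .ofNat 15, .negSucc 14, .negSucc 96, .negSucc 161⟩, .ofNat 1039, .ofNat 1612, .ofNat 0, .ofNat 1612, .ofNat 4056, .ofNat 0, .ofNat 128, .negSucc 228, .negSucc 1274, .ofNat 0, .ofNat 109, .ofNat 516, .ofNat 0, .ofNat 0, .ofNat 1135, .ofNat 973, .ofNat 0, .ofNat 0, .ofNat 0, .ofNat 0, .ofNat 0, .ofNat 0, .ofNat 0, .ofNat 0, .ofNat 0, .ofNat 0, .ofNat 917589479627903046457383535024694733399306272768,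 .ofNat 0, .ofNat 0, .ofNat 0, .ofNat 0, .ofNat 0⟩)
    (by decide +kernel)
theorem L02800 : Good (Phi V5.P V5.D (-1) (-1)) ⟨5, 25, 4, 5, 4, 13, 3, 7, 5, 0⟩ :=
  leafX_sound T5.ok_mm T5.Ymm.bz_eq (w := 254) (c := ⟨⟨.negSucc 493, .negSucc 148, .ofNat 113, .ofNat 44, .negSucc 414, .negSucc 354⟩, ⟨.ofNat 132, .ofNat 38, .ofNat 21, .negSucc 20, .ofNat 175, .ofNat 145⟩, ⟨.ofNat 503, .ofNat 78, .negSucc 34, .negSucc 11, .ofNat 105, .ofNat 57⟩, ⟨.negSucc 1140, .negSucc 248, .ofNat 137, .ofNat 38, .negSucc 730, .negSucc 652⟩, ⟨.negSucc 855, .negSucc 84, .negSucc 11, .negSucc 64, .negSucc 173, .negSucc 206⟩, .ofNat 1132, .ofNat 1670, .ofNat 0, .ofNat 1670, .ofNat 3814, .ofNat 0, .ofNat 128, .negSucc 156, .negSucc 947, .ofNat 0, .ofNat 85, .ofNat 409, .ofNat 0, .ofNat 0, .ofNat 826, .ofNat 866, .ofNat 0, .ofNat 0, .ofNat 3240152892765499590019436939960709054277353472, .ofNat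 0, .ofNat 0, .ofNat 0, .ofNat 281768347010658033458124073889641072023801167872, .ofNat 0, .ofNat 0, .ofNat 0, .ofNat 0, .ofNat 0, .ofNat 0, .ofNat 0, .ofNat 81766552976808100921545722856486193214213062656, .ofNat 0⟩)
    (by decide +kernel)
theorem L02801 : Good (Phi V5.P V5.D (-1) (-1)) ⟨4, 13, 3, 2, 4, 13, 3, 6, 5, 0⟩ :=
  leafX_sound T5.ok_mm T5.Ymm.bz_eq (w := 247) (c := ⟨⟨.ofNat 2197, .ofNat 922, .negSucc 273, .negSucc 471, .negSucc 1568, .negSucc 1154⟩, ⟨.negSucc 1094, .negSucc 516, .ofNat 190, .ofNat 224, .ofNat 690, .ofNat 498⟩, ⟨.negSucc 1503, .negSucc 839, .ofNat 342, .ofNat 484, .ofNat 963, .ofNat 662⟩, ⟨.ofNat 3376, .ofNat 1447, .negSucc 514, .negSucc 663, .negSucc 2724, .negSucc 2035⟩, ⟨.negSucc 155, .ofNat 233, .negSucc 68, .ofNat 96, .negSucc 607, .negSucc 539⟩, .ofNat 632, .ofNat 607, .ofNat 0, .ofNat 607, .ofNat 1376, .ofNat 0, .ofNat 187, .negSucc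 127, .negSucc 1049, .ofNat 0, .ofNat 93, .ofNat 456, .ofNat 0, .ofNat 0, .ofNat 838, .ofNat 1259, .ofNat 0, .ofNat 0, .ofNat 20951911837353243076482783393021499357960077312, .ofNat 0, .ofNat 0, .ofNat 0, .ofNat 242816307708466066587419604527358245499240972288, .ofNat 0, .ofNat 0, .ofNat 0, .ofNat 3185597221659783561876963297398329711890641453056, .ofNat 0, .ofNat 0, .ofNat 0, .ofNat 1637512234711927067323133196455726226265903988736, .ofNat 0⟩)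
    (by decide +kernel)
theorem L02802 : Good (Phi V5.P V5.D (-1) (-1)) ⟨4, 13, 3, 2, 4, 13, 3, 7, 5, 0⟩ :=
  leafX_sound T5.ok_mm T5.Ymm.bz_eq (w := 247) (c := ⟨⟨.negSucc 712, .negSucc 151, .ofNat 367, .negSucc 33, .negSucc 457, .negSucc 387⟩, ⟨.ofNat 127, .ofNat 0, .negSucc 19, .ofNat 12, .ofNat 197, .ofNat 163⟩, ⟨.ofNat 596, .ofNat 95, .negSucc 187, .ofNat 62, .ofNat 102, .ofNat 84⟩, ⟨.negSucc 1394, .negSucc 169, .ofNat 487, .negSucc 83, .negSucc 846, .negSucc 777⟩, ⟨.negSucc 899, .ofNat 44, .ofNat 25, .negSucc 53, .negSucc 219, .negSucc 297⟩, .ofNat 632, .ofNat 607, .ofNat 0, .ofNat 607, .ofNat 1376, .ofNat 0, .ofNat 188, .negSucc 127, .negSucc 1704, .ofNat 0, .ofNat 97, .ofNat 736, .ofNat 0, .ofNat 0, .ofNat 1392, .ofNat 1724, .ofNat 0, .ofNat 0, .ofNat 15057005205652167659905796792582823088285024256, .ofNat 0, .ofNat 0, .ofNat 0, .ofNat 399443671465072298150223336478714386907844837376,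 .ofNat 0, .ofNat 0, .ofNat 0, .ofNat 1206825871852727034614860802543385266042741719040, .ofNat 0, .ofNat 0, .ofNat 0, .ofNat 3464046083352342934384448311734476735929657589760, .ofNat 0⟩)
    (by decide +kernel)
theorem L02803 : Good (Phi V5.P V5.D (-1) (-1)) ⟨3, 6, 3, 2, 3, 7, 2, 2, 5, 0⟩ :=
  leafX_sound T5.ok_mm T5.Ymm.bz_eq (w := 224) (c := ⟨⟨.ofNat 2574, .ofNat 674, .negSucc 167, .negSucc 1486, .negSucc 1316, .negSucc 793⟩, ⟨.negSucc 978, .negSucc 373, .ofNat 86, .ofNat 611, .ofNat 454, .ofNat 297⟩, ⟨.negSucc 1058, .negSucc 409, .ofNat 277, .ofNat 1220, .ofNat 460, .ofNat 281⟩, ⟨.ofNat 4764, .ofNat 940, .negSucc 134, .negSucc 2359, .negSucc 2770, .negSucc 1716⟩, ⟨.ofNat 1461, .ofNat 27, .ofNat 338, .ofNat 3, .negSucc 1547, .negSucc 1065⟩, .ofNat 701, .ofNat 777, .ofNat 0, .ofNat 777, .ofNat 1865, .ofNat 0, .ofNat 128, .negSucc 162, .negSucc 395, .ofNat 0,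 .ofNat 91, .ofNat 158, .ofNat 0, .ofNat 0, .ofNat 321, .ofNat 209, .ofNat 0, .ofNat 0, .ofNat 40446337442322461067557045435463842660352, .ofNat 0, .ofNat 0, .ofNat 0, .ofNat 1513729941424144745441605630362080197476352, .ofNat 0, .ofNat 0, .ofNat 0, .ofNat 1617924407825001298051263731748194469543936, .ofNat 0, .ofNat 0, .ofNat 0, .ofNat 3245971939991882195285850882509473163771904, .ofNat 0⟩)
    (by decide +kernel)
theorem L02804 : Good (Phi V5.P V5.D (-1) (-1)) ⟨4, 12, 4, 4, 4, 14, 3, 6, 5, 0⟩ :=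
  leafX_sound T5.ok_mm T5.Ymm.bz_eq (w := 249) (c := ⟨⟨.ofNat 901, .ofNat 99, .negSucc 18, .negSucc 468, .negSucc 990, .negSucc 754⟩, ⟨.negSucc 369, .negSucc 94, .ofNat 48, .ofNat 181, .ofNat 346, .ofNat 261⟩, ⟨.negSucc 287, .negSucc 111, .ofNat 90, .ofNat 417, .ofNat 480, .ofNat 292⟩, ⟨.ofNat 1422, .ofNat 114, .negSucc 16, .negSucc 784, .negSucc 1861, .negSucc 1471⟩, ⟨.negSucc 99, .negSucc 76, .ofNat 110, .negSucc 96, .negSucc 680, .negSucc 660⟩, .ofNat 714, .ofNat 855, .ofNat 0, .ofNat 855, .ofNat 2269, .ofNat 0, .ofNat 128, .negSucc 155, .negSucc 682, .ofNat 0, .ofNat 84, .ofNat 258, .ofNat 0, .ofNat 0, .ofNat 562, .ofNat 1085, .ofNat 0, .ofNat 0, .ofNat 7266164073227723155780043910683315960142626816, .ofNat 0, .ofNat 0, .ofNat 0, .ofNat 430553371926717547175656657839422533445800165376, .ofNat 0, .ofNat 0, .ofNat 0, .ofNat 439297721286651417343566832393271791317715779584,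 .ofNat 0, .ofNat 0, .ofNat 0, .ofNat 2503429666923929543183357564055310596321507803136, .ofNat 0⟩)
    (by decide +kernel)
theorem L02805 : Good (Phi V5.P V5.D (-1) (-1)) ⟨4, 12, 4, 5, 4, 14, 3, 6, 5, 0⟩ :=
  leafX_sound T5.ok_mm T5.Ymm.bz_eq (w := 249) (c := ⟨⟨.ofNat 836, .ofNat 38, .ofNat 74, .negSucc 400, .negSucc 936, .negSucc 735⟩, ⟨.negSucc 353, .negSucc 64, .ofNat 7, .ofNat 172, .ofNat 372, .ofNat 289⟩, ⟨.negSucc 159, .negSucc 53, .ofNat 12, .ofNat 351, .ofNat 419, .ofNat 282⟩, ⟨.ofNat 1327, .ofNat 55, .ofNat 108, .negSucc 681, .negSucc 1789, .negSucc 1397⟩, ⟨.negSucc 32, .negSucc 13, .ofNat 41, .negSucc 101, .negSucc 680, .negSucc 546⟩, .ofNat 897, .ofNat 1235, .ofNat 0, .ofNat 1235, .ofNat 3011, .ofNat 0, .ofNat 128, .negSucc 269, .negSucc 704, .ofNat 0, .ofNat 133, .ofNat 289, .ofNat 0, .ofNat 0, .ofNat 574, .ofNat 874, .ofNat 0, .ofNat 0, .ofNat 0,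 .ofNat 0, .ofNat 0, .ofNat 0, .ofNat 0, .ofNat 0, .ofNat 0, .ofNat 0, .ofNat 0, .ofNat 0, .ofNat 0, .ofNat 0, .ofNat 0, .ofNat 0⟩)
    (by decide +kernel)
theorem L02806 : Good (Phi V5.P V5.D (-1) (-1)) ⟨4, 12, 3, 2, 4, 15, 3, 6, 5, 0⟩ :=
  leafX_sound T5.ok_mm T5.Ymm.bz_eq (w := 244) (c := ⟨⟨.ofNat 27, .negSucc 54, .ofNat 117, .negSucc 324, .negSucc 476, .negSucc 475⟩, ⟨.negSucc 71, .negSucc 10, .ofNat 62, .ofNat 128, .ofNat 164, .ofNat 168⟩, ⟨.ofNat 462, .negSucc 4, .ofNat 52, .ofNat 219, .ofNat 60, .ofNat 45⟩, ⟨.negSucc 33, .negSucc 119, .ofNat 194, .negSucc 564, .negSucc 1004, .negSucc 1007⟩, ⟨.negSucc 236, .negSucc 137, .ofNat 148, .negSucc 114, .negSucc 565, .negSucc 586⟩, .ofNat 828, .ofNat 1099, .ofNat 0, .ofNat 1099, .ofNat 2765, .ofNat 0, .ofNat 128, .negSucc 133, .negSucc 346, .ofNat 0, .ofNat 64, .ofNat 135, .ofNat 0, .ofNat 0, .ofNat 279, .ofNat 373,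 .ofNat 0, .ofNat 0, .ofNat 2561384102828581516637530150670292716108120064, .ofNat 0, .ofNat 0, .ofNat 0, .ofNat 259129227035589344737420717801466931822089732096, .ofNat 0, .ofNat 0, .ofNat 0, .ofNat 0, .ofNat 0, .ofNat 0, .ofNat 0, .ofNat 0, .ofNat 0⟩)
    (by decide +kernel)
theorem L02807 : Good (Phi V5.P V5.D (-1) (-1)) ⟨5, 26, 3, 2, 3, 7, 3, 6, 5, 0⟩ :=
  leafX_sound T5.ok_mm T5.Ymm.bz_eq (w := 236) (c := ⟨⟨.ofNat 768, .negSucc 374, .negSucc 152, .negSucc 744, .negSucc 660, .negSucc 580⟩, ⟨.negSucc 446, .ofNat 140, .ofNat 168, .ofNat 328, .ofNat 256, .ofNat 226⟩, ⟨.negSucc 138, .ofNat 264, .ofNat 236, .ofNat 578, .ofNat 165, .ofNat 128⟩, ⟨.ofNat 1275, .negSucc 590, .negSucc 303, .negSucc 1290, .negSucc 1370, .negSucc 1186⟩, ⟨.ofNat 76, .negSucc 70, .negSucc 27, .negSucc 301, .negSucc 746, .negSucc 621⟩, .ofNat 783, .ofNat 889, .ofNat 0, .ofNat 889, .ofNat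 1993, .ofNat 0, .ofNat 128, .negSucc 129, .negSucc 1149, .ofNat 0, .ofNat 77, .ofNat 475, .ofNat 0, .ofNat 0, .ofNat 879, .ofNat 1223, .ofNat 0, .ofNat 0, .ofNat 93462327236376002585027037319050741940224, .ofNat 0, .ofNat 0, .ofNat 0, .ofNat 6988022623207020892722542632544327327285248, .ofNat 0, .ofNat 0, .ofNat 0, .ofNat 8698166777776371687061011698998430484398080, .ofNat 0, .ofNat 0, .ofNat 0, .ofNat 84398632939127469829223765013560606406475776, .ofNat 0⟩)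
    (by decide +kernel)
theorem L02808 : Good (Phi V5.P V5.D (-1) (-1)) ⟨5, 27, 3, 2, 3, 7, 3, 6, 5, 0⟩ :=
  out_sound (S := T5.ds_mm) T5.ok_mm (w := 57) (j := 3) (by decide +kernel)
theorem L02809 : Good (Phi V5.P V5.D (-1) (-1)) ⟨4, 12, 3, 2, 3, 7, 4, 14, 5, 0⟩ :=
  leafX_sound T5.ok_mm T5.Ymm.bz_eq (w := 235) (c := ⟨⟨.negSucc 603, .negSucc 92, .ofNat 102, .negSucc 158, .negSucc 74, .negSucc 243⟩, ⟨.ofNat 141, .negSucc 15, .ofNat 100, .ofNat 60, .ofNat 25, .ofNat 86⟩, ⟨.ofNat 623, .ofNat 1, .ofNat 45, .ofNat 103, .negSucc 78, .negSucc 65⟩, ⟨.negSucc 1308, .negSucc 174, .ofNat 171, .negSucc 342, .negSucc 189, .negSucc 514⟩, ⟨.negSucc 898, .negSucc 168, .ofNat 195, .negSucc 204, .negSucc 138, .negSucc 283⟩, .ofNat 682, .ofNat 800, .ofNat 0, .ofNat 800, .ofNat 2097, .ofNat 0, .ofNat 128, .negSucc 217, .negSucc 848, .ofNat 0, .ofNat 109, .ofNat 320, .ofNat 0, .ofNat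 0, .ofNat 674, .ofNat 659, .ofNat 0, .ofNat 0, .ofNat 2720705837443791045611924251664160984662016, .ofNat 0, .ofNat 0, .ofNat 0, .ofNat 170007681685878824653810748910675559079477248, .ofNat 0, .ofNat 0, .ofNat 0, .ofNat 0, .ofNat 0, .ofNat 0, .ofNat 0, .ofNat 0, .ofNat 0⟩)
    (by decide +kernel)
theorem L02810 : Good (Phi V5.P V5.D (-1) (-1)) ⟨4, 12, 3, 2, 3, 7, 4, 15, 5, 0⟩ :=
  leafX_sound T5.ok_mm T5.Ymm.bz_eq (w := 235) (c := ⟨⟨.negSucc 967, .negSucc 58, .ofNat 104, .ofNat 100, .ofNat 103, .negSucc 99⟩, ⟨.ofNat 273, .negSucc 29, .ofNat 109, .negSucc 43, .negSucc 39, .ofNat 36⟩, ⟨.ofNat 764, .negSucc 36, .ofNat 45, .negSucc 99, .negSucc 207, .negSucc 139⟩, ⟨.negSucc 2039, .negSucc 103, .ofNat 143, .ofNat 145, .ofNat 193, .negSucc 190⟩, ⟨.negSucc 1233, .negSucc 135, .ofNat 141, .negSucc 40, .ofNat 73, .negSucc 60⟩, .ofNat 691, .ofNat 819, .ofNat 0, .ofNat 819,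 .ofNat 2141, .ofNat 0, .ofNat 128, .negSucc 161, .negSucc 606, .ofNat 0, .ofNat 81, .ofNat 228, .ofNat 0, .ofNat 0, .ofNat 490, .ofNat 684, .ofNat 0, .ofNat 0, .ofNat 1546203726772682090021467681345128059895808, .ofNat 0, .ofNat 0, .ofNat 0, .ofNat 0, .ofNat 0, .ofNat 0, .ofNat 0, .ofNat 0, .ofNat 0, .ofNat 0, .ofNat 0, .ofNat 0, .ofNat 0⟩)
    (by decide +kernel)
theorem L02811 : Good (Phi V5.P V5.D (-1) (-1)) ⟨4, 13, 3, 2, 3, 7, 4, 14, 5, 0⟩ :=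
  leafX_sound T5.ok_mm T5.Ymm.bz_eq (w := 238) (c := ⟨⟨.negSucc 777, .negSucc 498, .ofNat 129, .negSucc 123, .negSucc 57, .negSucc 260⟩, ⟨.ofNat 149, .ofNat 149, .ofNat 99, .ofNat 45, .ofNat 17, .ofNat 98⟩, ⟨.ofNat 688, .ofNat 266, .ofNat 29, .ofNat 75, .negSucc 97, .negSucc 63⟩, ⟨.negSucc 1522, .negSucc 620, .ofNat 89, .negSucc 275, .negSucc 153, .negSucc 550⟩, ⟨.negSucc 916, .ofNat 41, .ofNat 9, .negSucc 181, .negSucc 138, .negSucc 321⟩, .ofNat 1144, .ofNat 1610, .ofNat 0, .ofNat 1610, .ofNat 3454, .ofNat 0, .ofNat 128, .negSucc 191, .negSucc 1161, .ofNat 0, .ofNat 100, .ofNat 512, .ofNat 0, .ofNat 0, .ofNat 916, .ofNat 1894, .ofNat 0, .ofNat 0, .ofNat 9827120374074172663084990532483204679467008, .ofNat 0, .ofNat 0, .ofNat 0, .ofNat 4554199610074939791789969994624838343008976896, .ofNat 0, .ofNat 0, .ofNat 0, .ofNat 550500518056785798789430298392376566624550912,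 .ofNat 0, .ofNat 0, .ofNat 0, .ofNat 3048029699412417266621031657555044905420587008, .ofNat 0⟩)
    (by decide +kernel)
theorem L02812 : Good (Phi V5.P V5.D (-1) (-1)) ⟨4, 13, 3, 2, 3, 7, 4, 15, 5, 0⟩ :=
  leafX_sound T5.ok_mm T5.Ymm.bz_eq (w := 237) (c := ⟨⟨.negSucc 1185, .negSucc 18, .ofNat 208, .ofNat 141, .ofNat 149, .negSucc 86⟩, ⟨.ofNat 306, .negSucc 55, .ofNat 72, .negSucc 65, .negSucc 65, .ofNat 33⟩, ⟨.ofNat 818, .negSucc 92, .negSucc 10, .negSucc 115, .negSucc 242, .negSucc 150⟩, ⟨.negSucc 2396, .ofNat 31, .ofNat 312, .ofNat 222, .ofNat 249, .negSucc 181⟩, ⟨.negSucc 1400, .ofNat 35, .ofNat 174, .ofNat 8, .ofNat 43, .negSucc 104⟩, .ofNat 1027, .ofNat 1388, .ofNat 0, .ofNat 1388, .ofNat 3017, .ofNat 0, .ofNat 142, .negSucc 127, .negSucc 602, .ofNat 0, .ofNat 67, .ofNat 264, .ofNat 0, .ofNat 0, .ofNat 487, .ofNat 2235, .ofNat 0, .ofNat 0, .ofNat 9870258922549288021373247173125637729681408,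 .ofNat 0, .ofNat 0, .ofNat 112575894064278891355395822093164313343244107776, .ofNat 3338308857654526981975114876379330727139868672, .ofNat 0, .ofNat 0, .ofNat 0, .ofNat 383340213620099841683628666501461994496851968, .ofNat 0, .ofNat 0, .ofNat 0, .ofNat 448019883923935001689072243411350082706997248, .ofNat 0⟩)
    (by decide +kernel)
theorem L02813 : Good (Phi V5.P V5.D (-1) (-1)) ⟨3, 7, 3, 2, 2, 3, 1, 1, 5, 0⟩ :=
  out_sound (S := T5.ds_mm) T5.ok_mm (w := 45) (j := 3) (by decide +kernel)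
theorem L02814 : Good (Phi V5.P V5.D (-1) (-1)) ⟨4, 12, 4, 4, 3, 6, 2, 2, 5, 1⟩ :=
  leafX_sound T5.ok_mm T5.Ymm.bz_eq (w := 231) (c := ⟨⟨.ofNat 2522, .ofNat 580, .negSucc 41, .negSucc 345, .negSucc 1942, .negSucc 1647⟩, ⟨.negSucc 1047, .negSucc 342, .ofNat 50, .ofNat 173, .ofNat 766, .ofNat 611⟩, ⟨.negSucc 1776, .negSucc 493, .ofNat 133, .ofNat 562, .ofNat 1171, .ofNat 972⟩, ⟨.ofNat 3793, .ofNat 727, .ofNat 3, .negSucc 360, .negSucc 3260, .negSucc 2963⟩, ⟨.negSucc 794, .negSucc 225, .ofNat 299, .ofNat 413, .negSucc 341, .negSucc 792⟩, .ofNat 631, .ofNat 693, .ofNat 0, .ofNat 693, .ofNat 1901, .ofNat 0, .ofNat 128, .negSucc 170, .negSucc 632, .ofNat 0, .ofNat 95, .ofNat 244, .ofNat 0, .ofNat 0, .ofNat 547, .ofNat 366, .ofNat 0, .ofNat 0, .ofNat 0, .ofNat 0, .ofNat 0, .ofNat 0, .ofNat 0, .ofNat 0, .ofNat 0, .ofNat 0, .ofNat 0, .ofNat 0, .ofNat 0, .ofNat 0, .ofNat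 5901930906239552579927531302230859341365248, .ofNat 0⟩)
    (by decide +kernel)
theorem L02815 : Good (Phi V5.P V5.D (-1) (-1)) ⟨4, 12, 4, 4, 3, 6, 3, 6, 5, 1⟩ :=
  leafX_sound T5.ok_mm T5.Ymm.bz_eq (w := 235) (c := ⟨⟨.negSucc 25, .negSucc 189, .ofNat 150, .ofNat 227, .negSucc 914, .negSucc 1092⟩, ⟨.negSucc 90, .ofNat 17, .ofNat 19, .negSucc 87, .ofNat 356, .ofNat 411⟩, ⟨.negSucc 24, .ofNat 71, .negSucc 71, .negSucc 78, .ofNat 575, .ofNat 634⟩, ⟨.negSucc 409, .negSucc 354, .ofNat 202, .ofNat 396, .negSucc 1548, .negSucc 1894⟩, ⟨.negSucc 950, .negSucc 230, .negSucc 21, .ofNat 76, .negSucc 178, .negSucc 315⟩, .ofNat 748, .ofNat 939, .ofNat 0, .ofNat 939, .ofNat 2491, .ofNat 0, .ofNat 128, .negSucc 212, .negSucc 1070, .ofNat 0, .ofNat 116, .ofNat 414, .ofNat 0, .ofNat 0, .ofNat 921, .ofNat 600, .ofNat 0, .ofNat 0, .ofNat 200844729443920083399454386440384521699328,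 .ofNat 0, .ofNat 0, .ofNat 0, .ofNat 29739699642794663895206484116845981876617216, .ofNat 0, .ofNat 0, .ofNat 0, .ofNat 101661449399082110080655822083378455290839040, .ofNat 0, .ofNat 0, .ofNat 0, .ofNat 438691625831730083969521641034832810392682496, .ofNat 0⟩)
    (by decide +kernel)
theorem L02816 : Good (Phi V5.P V5.D (-1) (-1)) ⟨5, 24, 4, 4, 3, 6, 3, 7, 5, 1⟩ :=
  leafX_sound T5.ok_mm T5.Ymm.bz_eq (w := 239) (c := ⟨⟨.negSucc 1364, .negSucc 288, .ofNat 174, .ofNat 500, .ofNat 68, .negSucc 455⟩, ⟨.ofNat 412, .ofNat 96, .ofNat 22, .negSucc 199, .negSucc 14, .ofNat 172⟩, ⟨.ofNat 928, .ofNat 199, .negSucc 90, .negSucc 393, .negSucc 203, .ofNat 155⟩, ⟨.negSucc 2654, .negSucc 459, .ofNat 247, .ofNat 743, .ofNat 164, .negSucc 772⟩, ⟨.negSucc 1100, .negSucc 108, .ofNat 2, .negSucc 190, .ofNat 138, .negSucc 55⟩, .ofNat 764, .ofNat 1000, .ofNat 0, .ofNat 1000, .ofNat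 2746, .ofNat 0, .ofNat 128, .negSucc 144, .negSucc 1017, .ofNat 0, .ofNat 77, .ofNat 379, .ofNat 0, .ofNat 0, .ofNat 903, .ofNat 864, .ofNat 0, .ofNat 0, .ofNat 0, .ofNat 0, .ofNat 0, .ofNat 0, .ofNat 0, .ofNat 0, .ofNat 0, .ofNat 0, .ofNat 0, .ofNat 0, .ofNat 0, .ofNat 0, .ofNat 0, .ofNat 0⟩)
    (by decide +kernel)
theorem L02817 : Good (Phi V5.P V5.D (-1) (-1)) ⟨5, 25, 4, 4, 3, 6, 3, 7, 5, 1⟩ :=
  leafX_sound T5.ok_mm T5.Ymm.bz_eq (w := 240) (c := ⟨⟨.negSucc 1970, .negSucc 287, .ofNat 303, .ofNat 768, .ofNat 287, .negSucc 491⟩, ⟨.ofNat 635, .ofNat 95, .negSucc 19, .negSucc 326, .negSucc 98, .ofNat 193⟩, ⟨.ofNat 1404, .ofNat 175, .negSucc 191, .negSucc 635, .negSucc 384, .ofNat 170⟩, ⟨.negSucc 3608, .negSucc 466, .ofNat 456, .ofNat 1163, .ofNat 520, .negSucc 833⟩, ⟨.negSucc 1223, .negSucc 168, .ofNat 35, .negSucc 119, .ofNat 168, .negSucc 123⟩, .ofNat 828, .ofNat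 1067, .ofNat 0, .ofNat 1067, .ofNat 2652, .ofNat 0, .ofNat 128, .negSucc 142, .negSucc 1137, .ofNat 0, .ofNat 84, .ofNat 455, .ofNat 0, .ofNat 0, .ofNat 989, .ofNat 492, .ofNat 0, .ofNat 0, .ofNat 20616930814516869610409869531635836256256, .ofNat 0, .ofNat 0, .ofNat 628178123161029635357616888417099529469380526080, .ofNat 4260982866537507627961488314101382909001728, .ofNat 0, .ofNat 0, .ofNat 0, .ofNat 16168736514291474935939311304609735265746944, .ofNat 0, .ofNat 0, .ofNat 0, .ofNat 41785442188266287555527748969664162033565696, .ofNat 0⟩)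
    (by decide +kernel)
theorem L02818 : Good (Phi V5.P V5.D (-1) (-1)) ⟨4, 13, 4, 4, 3, 6, 1, 1, 5, 1⟩ :=
  out_sound (S := T5.ds_mm) T5.ok_mm (w := 53) (j := 3) (by decide +kernel)
theorem L02819 : Good (Phi V5.P V5.D (-1) (-1)) ⟨3, 7, 4, 4, 3, 6, 1, 1, 5, 1⟩ :=
  out_sound (S := T5.ds_mm) T5.ok_mm (w := 47) (j := 3) (by decide +kernel)
theorem L02820 : Good (Phi V5.P V5.D (-1) (-1)) ⟨3, 6, 4, 4, 3, 7, 3, 4, 5, 1⟩ :=
  leafX_sound T5.ok_mm T5.Ymm.bz_eq (w := 231) (c := ⟨⟨.ofNat 1658, .negSucc 256, .ofNat 180, .negSucc 1411, .negSucc 522, .negSucc 1226⟩, ⟨.negSucc 653, .ofNat 3, .negSucc 44, .ofNat 575, .ofNat 183, .ofNat 425⟩, ⟨.negSucc 728, .ofNat 271, .negSucc 58, .ofNat 1090, .ofNat 206, .ofNat 523⟩, ⟨.ofNat 2783, .negSucc 506, .ofNat 321, .negSucc 2244, .negSucc 1030, .negSucc 2410⟩, ⟨.ofNat 227, .negSucc 195, .ofNat 175, .ofNat 60, .negSucc 481, .negSucc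 1081⟩, .ofNat 741, .ofNat 922, .ofNat 0, .ofNat 922, .ofNat 2448, .ofNat 0, .ofNat 128, .negSucc 182, .negSucc 387, .ofNat 0, .ofNat 93, .ofNat 144, .ofNat 0, .ofNat 0, .ofNat 330, .ofNat 407, .ofNat 0, .ofNat 0, .ofNat 0, .ofNat 0, .ofNat 0, .ofNat 0, .ofNat 69993572284415075966028634155544421844647936, .ofNat 0, .ofNat 0, .ofNat 0, .ofNat 95361908322162184566886595032893437587226624, .ofNat 0, .ofNat 0, .ofNat 0, .ofNat 161164525057857617305346269999009289948102656, .ofNat 0⟩)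
    (by decide +kernel)
theorem L02821 : Good (Phi V5.P V5.D (-1) (-1)) ⟨4, 12, 4, 4, 3, 7, 3, 5, 5, 1⟩ :=
  leafX_sound T5.ok_mm T5.Ymm.bz_eq (w := 235) (c := ⟨⟨.ofNat 532, .negSucc 182, .ofNat 155, .negSucc 875, .negSucc 462, .negSucc 753⟩, ⟨.negSucc 254, .ofNat 21, .ofNat 2, .ofNat 343, .ofNat 153, .ofNat 250⟩, ⟨.negSucc 42, .ofNat 103, .negSucc 41, .ofNat 660, .ofNat 140, .ofNat 223⟩, ⟨.ofNat 764, .negSucc 318, .ofNat 254, .negSucc 1447, .negSucc 956, .negSucc 1512⟩, ⟨.negSucc 311, .negSucc 100, .ofNat 92, .negSucc 81, .negSucc 503, .negSucc 725⟩, .ofNat 748, .ofNat 941, .ofNat 0, .ofNat 941, .ofNat 2508, .ofNat 0, .ofNat 128, .negSucc 247, .negSucc 1001, .ofNat 0, .ofNat 124, .ofNat 370, .ofNat 0, .ofNat 0, .ofNat 827, .ofNat 1019, .ofNat 0, .ofNat 0, .ofNat 419743304452046301462446541752647494402048, .ofNat 0, .ofNat 0, .ofNat 0, .ofNat 40660566840595978974893702663783647042076672,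 .ofNat 0, .ofNat 0, .ofNat 0, .ofNat 25169164997620610192579113858229084021063680, .ofNat 0, .ofNat 0, .ofNat 0, .ofNat 196356263059555407676474161662392794901118976, .ofNat 0⟩)
    (by decide +kernel)
theorem L02822 : Good (Phi V5.P V5.D (-1) (-1)) ⟨4, 13, 4, 4, 3, 7, 3, 5, 5, 1⟩ :=
  out_sound (S := T5.ds_mm) T5.ok_mm (w := 53) (j := 3) (by decide +kernel)
theorem L02823 : Good (Phi V5.P V5.D (-1) (-1)) ⟨5, 24, 4, 4, 3, 7, 3, 6, 5, 1⟩ :=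
  leafX_sound T5.ok_mm T5.Ymm.bz_eq (w := 239) (c := ⟨⟨.negSucc 582, .negSucc 83, .ofNat 47, .negSucc 157, .negSucc 188, .negSucc 335⟩, ⟨.ofNat 135, .ofNat 6, .ofNat 61, .ofNat 55, .ofNat 60, .ofNat 109⟩, ⟨.ofNat 561, .ofNat 25, .ofNat 28, .ofNat 122, .negSucc 54, .ofNat 8⟩, ⟨.negSucc 1296, .negSucc 132, .ofNat 64, .negSucc 312, .negSucc 414, .negSucc 689⟩, ⟨.negSucc 968, .negSucc 55, .ofNat 78, .negSucc 133, .negSucc 234, .negSucc 331⟩, .ofNat 641, .ofNat 732, .ofNat 0, .ofNat 732, .ofNat 2085, .ofNat 0, .ofNat 128, .negSucc 254, .negSucc 1462, .ofNat 0, .ofNat 127, .ofNat 513, .ofNat 0, .ofNat 0, .ofNat 1183, .ofNat 1362, .ofNat 0, .ofNat 0, .ofNat 0, .ofNat 0, .ofNat 0, .ofNat 0, .ofNat 0, .ofNat 0, .ofNat 0, .ofNat 0, .ofNat 0, .ofNat 0, .ofNat 0, .ofNat 0, .ofNat 0, .ofNat 0⟩)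
    (by decide +kernel)
theorem L02824 : Good (Phi V5.P V5.D (-1) (-1)) ⟨5, 25, 4, 4, 3, 7, 3, 6, 5, 1⟩ :=
  leafX_sound T5.ok_mm T5.Ymm.bz_eq (w := 239) (c := ⟨⟨.negSucc 768, .negSucc 113, .ofNat 95, .negSucc 159, .negSucc 125, .negSucc 265⟩, ⟨.ofNat 171, .ofNat 13, .ofNat 50, .ofNat 59, .ofNat 36, .ofNat 85⟩, ⟨.ofNat 653, .ofNat 53, .ofNat 0, .ofNat 129, .negSucc 102, .negSucc 42⟩, ⟨.negSucc 1660, .negSucc 175, .ofNat 140, .negSucc 277, .negSucc 276, .negSucc 541⟩, ⟨.negSucc 1136, .negSucc 58, .ofNat 88, .negSucc 59, .negSucc 188, .negSucc 297⟩, .ofNat 900, .ofNat 1215, .ofNat 0, .ofNat 1215, .ofNat 2974, .ofNat 0, .ofNat 128, .negSucc 169, .negSucc 946, .ofNat 0, .ofNat 88, .ofNat 367, .ofNat 0, .ofNat 0, .ofNat 764, .ofNat 632, .ofNat 0, .ofNat 0, .ofNat 93624686193484057969980843945911633575936, .ofNat 0, .ofNat 0, .ofNat 0, .ofNat 12062349107882432640213486232109539536142336,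 .ofNat 0, .ofNat 0, .ofNat 0, .ofNat 1358431288618328282315730102944802558443520, .ofNat 0, .ofNat 0, .ofNat 0, .ofNat 0, .ofNat 0⟩)
    (by decide +kernel)
theorem L02825 : Good (Phi V5.P V5.D (-1) (-1)) ⟨4, 12, 4, 4, 3, 7, 3, 7, 5, 1⟩ :=
  leafX_sound T5.ok_mm T5.Ymm.bz_eq (w := 235) (c := ⟨⟨.negSucc 1357, .ofNat 35, .ofNat 25, .ofNat 233, .ofNat 350, .ofNat 108⟩, ⟨.ofNat 397, .negSucc 60, .ofNat 68, .negSucc 87, .negSucc 110, .negSucc 31⟩, ⟨.ofNat 885, .negSucc 88, .ofNat 33, .negSucc 148, .negSucc 430, .negSucc 222⟩, ⟨.negSucc 2823, .ofNat 89, .ofNat 21, .ofNat 406, .ofNat 712, .ofNat 231⟩, ⟨.negSucc 1626, .negSucc 53, .ofNat 66, .ofNat 76, .ofNat 392, .ofNat 153⟩, .ofNat 714, .ofNat 855, .ofNat 0, .ofNat 855, .ofNat 2269, .ofNat 0, .ofNat 133, .negSucc 127, .negSucc 443, .ofNat 0, .ofNat 67, .ofNat 162, .ofNat 0, .ofNat 0, .ofNat 363, .ofNat 814, .ofNat 0,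 .ofNat 0, .ofNat 264867830660477568666227487188838713917440, .ofNat 0, .ofNat 0, .ofNat 68038774390919874060511993632059821502651957248, .ofNat 12717661919764228369888501468535424622264320, .ofNat 0, .ofNat 0, .ofNat 0, .ofNat 0, .ofNat 0, .ofNat 0, .ofNat 0, .ofNat 9778537132143502350568809038010508954828800, .ofNat 0⟩)
    (by decide +kernel)
theorem L02826 : Good (Phi V5.P V5.D (-1) (-1)) ⟨4, 13, 4, 4, 3, 7, 2, 3, 5, 1⟩ :=
  out_sound (S := T5.ds_mm) T5.ok_mm (w := 53) (j := 3) (by decide +kernel)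
theorem L02827 : Good (Phi V5.P V5.D (-1) (-1)) ⟨3, 7, 4, 4, 3, 7, 1, 1, 5, 1⟩ :=
  out_sound (S := T5.ds_mm) T5.ok_mm (w := 47) (j := 3) (by decide +kernel)
theorem L02828 : Good (Phi V5.P V5.D (-1) (-1)) ⟨5, 24, 4, 5, 3, 6, 2, 2, 5, 1⟩ :=
  leafX_sound T5.ok_mm T5.Ymm.bz_eq (w := 236) (c := ⟨⟨.ofNat 2196, .ofNat 235, .ofNat 24, .negSucc 251, .negSucc 1676, .negSucc 1499⟩, ⟨.negSucc 908, .negSucc 137, .ofNat 28, .ofNat 121, .ofNat 672, .ofNat 588⟩, ⟨.negSucc 1475, .negSucc 204, .ofNat 47, .ofNat 481, .ofNat 990, .ofNat 889⟩, ⟨.ofNat 3322, .ofNat 285, .ofNat 62, .negSucc 195, .negSucc 2885, .negSucc 2690⟩, ⟨.negSucc 734, .negSucc 119, .ofNat 112, .ofNat 532, .negSucc 351, .negSucc 589⟩, .ofNat 933, .ofNat 1377, .ofNat 0, .ofNat 1377, .ofNat 3546, .ofNat 0, .ofNat 128, .negSucc 259, .negSucc 968, .ofNat 0, .ofNat 125, .ofNat 389, .ofNat 0, .ofNat 0, .ofNat 870,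 .ofNat 616, .ofNat 0, .ofNat 0, .ofNat 0, .ofNat 0, .ofNat 0, .ofNat 0, .ofNat 1512659943153963619213123255813840251650048, .ofNat 0, .ofNat 0, .ofNat 0, .ofNat 0, .ofNat 0, .ofNat 0, .ofNat 0, .ofNat 0, .ofNat 0⟩)
    (by decide +kernel)
theorem L02829 : Good (Phi V5.P V5.D (-1) (-1)) ⟨5, 25, 4, 5, 3, 6, 2, 2, 5, 1⟩ :=
  leafX_sound T5.ok_mm T5.Ymm.bz_eq (w := 236) (c := ⟨⟨.ofNat 2644, .ofNat 398, .negSucc 139, .negSucc 390, .negSucc 1771, .negSucc 1613⟩, ⟨.negSucc 1175, .negSucc 232, .ofNat 82, .ofNat 195, .ofNat 752, .ofNat 663⟩, ⟨.negSucc 1792, .negSucc 320, .ofNat 196, .ofNat 611, .ofNat 977, .ofNat 968⟩, ⟨.ofNat 3980, .ofNat 511, .negSucc 171, .negSucc 396, .negSucc 3053, .negSucc 2890⟩, ⟨.negSucc 493, .negSucc 141, .ofNat 186, .ofNat 441, .negSucc 569, .negSucc 744⟩, .ofNat 704, .ofNat 819, .ofNat 0, .ofNat 819, .ofNat 2012, .ofNat 0, .ofNat 128, .negSucc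 152, .negSucc 681, .ofNat 0, .ofNat 84, .ofNat 289, .ofNat 0, .ofNat 0, .ofNat 571, .ofNat 483, .ofNat 0, .ofNat 0, .ofNat 0, .ofNat 0, .ofNat 0, .ofNat 0, .ofNat 0, .ofNat 0, .ofNat 0, .ofNat 0, .ofNat 0, .ofNat 0, .ofNat 0, .ofNat 0, .ofNat 565228906172727293382436048750479847456768, .ofNat 0⟩)
    (by decide +kernel)
theorem L02830 : Good (Phi V5.P V5.D (-1) (-1)) ⟨6, 52, 4, 5, 3, 6, 2, 2, 5, 1⟩ :=
  leafX_sound T5.ok_mm T5.Ymm.bz_eq (w := 241) (c := ⟨⟨.ofNat 3607, .ofNat 378, .negSucc 422, .negSucc 527, .negSucc 2207, .negSucc 1795⟩, ⟨.negSucc 1776, .negSucc 220, .ofNat 256, .ofNat 290, .ofNat 1001, .ofNat 787⟩, ⟨.negSucc 2618, .negSucc 321, .ofNat 484, .ofNat 751, .ofNat 1299, .ofNat 1085⟩, ⟨.ofNat 5071, .ofNat 476, .negSucc 410, .negSucc 526, .negSucc 3618, .negSucc 3114⟩, ⟨.negSucc 1110, .negSucc 153, .ofNat 593, .ofNat 604, .negSucc 469, .negSucc 746⟩,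 .ofNat 1023, .ofNat 1380, .ofNat 0, .ofNat 1380, .ofNat 2999, .ofNat 0, .ofNat 128, .negSucc 146, .negSucc 943, .ofNat 0, .ofNat 82, .ofNat 435, .ofNat 0, .ofNat 0, .ofNat 791, .ofNat 778, .ofNat 0, .ofNat 0, .ofNat 0, .ofNat 0, .ofNat 0, .ofNat 0, .ofNat 1445097029546186594840659828538460193423360, .ofNat 0, .ofNat 0, .ofNat 0, .ofNat 593798431970416301083604606104470906994688, .ofNat 0, .ofNat 0, .ofNat 0, .ofNat 1927538038901790091907942481661301637513216, .ofNat 0⟩)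
    (by decide +kernel)
theorem L02831 : Good (Phi V5.P V5.D (-1) (-1)) ⟨6, 53, 4, 5, 3, 6, 2, 2, 5, 1⟩ :=
  out_sound (S := T5.ds_mm) T5.ok_mm (w := 65) (j := 3) (by decide +kernel)
theorem L02832 : Good (Phi V5.P V5.D (-1) (-1)) ⟨5, 27, 4, 5, 3, 6, 2, 2, 5, 1⟩ :=
  out_sound (S := T5.ds_mm) T5.ok_mm (w := 59) (j := 3) (by decide +kernel)
theorem L02833 : Good (Phi V5.P V5.D (-1) (-1)) ⟨3, 7, 4, 5, 3, 6, 2, 2, 5, 1⟩ :=
  out_sound (S := T5.ds_mm) T5.ok_mm (w := 47) (j := 3) (by decide +kernel)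
theorem L02834 : Good (Phi V5.P V5.D (-1) (-1)) ⟨5, 24, 4, 5, 3, 6, 3, 6, 5, 1⟩ :=
  leafX_sound T5.ok_mm T5.Ymm.bz_eq (w := 240) (c := ⟨⟨.negSucc 2, .negSucc 1, .ofNat 65, .ofNat 197, .negSucc 747, .negSucc 993⟩, ⟨.negSucc 44, .negSucc 21, .ofNat 44, .negSucc 81, .ofNat 306, .ofNat 398⟩, ⟨.negSucc 16, .negSucc 34, .ofNat 15, .negSucc 19, .ofNat 438, .ofNat 549⟩, ⟨.negSucc 398, .negSucc 25, .ofNat 103, .ofNat 341, .negSucc 1287, .negSucc 1746⟩, ⟨.negSucc 966, .negSucc 107, .ofNat 87, .ofNat 46, .negSucc 163, .negSucc 294⟩, .ofNat 973, .ofNat 1464, .ofNat 0, .ofNat 1464, .ofNat 3730, .ofNat 0, .ofNat 128, .negSucc 270, .negSucc 941, .ofNat 0, .ofNat 130, .ofNat 378, .ofNat 0, .ofNat 0, .ofNat 822, .ofNat 1212, .ofNat 0, .ofNat 0, .ofNat 0, .ofNat 0, .ofNat 0, .ofNat 0, .ofNat 0, .ofNat 0, .ofNat 0, .ofNat 0, .ofNat 81669787475405455442703758733692368695853056,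 .ofNat 0, .ofNat 0, .ofNat 0, .ofNat 0, .ofNat 0⟩)
    (by decide +kernel)
theorem L02835 : Good (Phi V5.P V5.D (-1) (-1)) ⟨5, 24, 4, 5, 3, 6, 3, 7, 5, 1⟩ :=
  leafX_sound T5.ok_mm T5.Ymm.bz_eq (w := 241) (c := ⟨⟨.negSucc 1238, .negSucc 117, .ofNat 206, .ofNat 370, .negSucc 22, .negSucc 305⟩, ⟨.ofNat 451, .ofNat 35, .negSucc 3, .negSucc 155, .ofNat 15, .ofNat 122⟩, ⟨.ofNat 879, .ofNat 48, .negSucc 112, .negSucc 274, .negSucc 136, .ofNat 26⟩, ⟨.negSucc 2492, .negSucc 190, .ofNat 317, .ofNat 570, .ofNat 14, .negSucc 522⟩, ⟨.negSucc 1126, .negSucc 114, .ofNat 56, .negSucc 83, .ofNat 135, .negSucc 40⟩, .ofNat 952, .ofNat 1418, .ofNat 0, .ofNat 1418, .ofNat 3639, .ofNat 0, .ofNat 128, .negSucc 264, .negSucc 1215, .ofNat 0, .ofNat 129, .ofNat 481, .ofNat 0, .ofNat 0, .ofNat 1074, .ofNat 1114, .ofNat 0, .ofNat 0, .ofNat 0, .ofNat 0, .ofNat 0, .ofNat 0, .ofNat 0, .ofNat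 0, .ofNat 0, .ofNat 0, .ofNat 67186864957389300051335908442836896996917248, .ofNat 0, .ofNat 0, .ofNat 0, .ofNat 0, .ofNat 0⟩)
    (by decide +kernel)
theorem L02836 : Good (Phi V5.P V5.D (-1) (-1)) ⟨5, 25, 4, 5, 3, 6, 3, 6, 5, 1⟩ :=
  leafX_sound T5.ok_mm T5.Ymm.bz_eq (w := 239) (c := ⟨⟨.ofNat 104, .negSucc 103, .ofNat 59, .ofNat 261, .negSucc 991, .negSucc 1179⟩, ⟨.negSucc 126, .ofNat 15, .ofNat 49, .negSucc 110, .ofNat 420, .ofNat 489⟩, ⟨.negSucc 95, .ofNat 34, .ofNat 4, .negSucc 82, .ofNat 620, .ofNat 664⟩, ⟨.negSucc 272, .negSucc 184, .ofNat 86, .ofNat 416, .negSucc 1631, .negSucc 2011⟩, ⟨.negSucc 1028, .negSucc 100, .ofNat 73, .ofNat 3, .negSucc 138, .negSucc 327⟩, .ofNat 848, .ofNat 1103, .ofNat 0, .ofNat 1103, .ofNat 2631, .ofNat 0, .ofNat 128, .negSucc 246, .negSucc 1010, .ofNat 0, .ofNat 134, .ofNat 431, .ofNat 0, .ofNat 0, .ofNat 846, .ofNat 822, .ofNat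 0, .ofNat 0, .ofNat 0, .ofNat 0, .ofNat 0, .ofNat 0, .ofNat 0, .ofNat 0, .ofNat 0, .ofNat 0, .ofNat 0, .ofNat 0, .ofNat 0, .ofNat 0, .ofNat 36460676363630620141254507118557682607325184, .ofNat 0⟩)
    (by decide +kernel)
theorem L02837 : Good (Phi V5.P V5.D (-1) (-1)) ⟨5, 25, 4, 5, 3, 6, 3, 7, 5, 1⟩ :=
  leafX_sound T5.ok_mm T5.Ymm.bz_eq (w := 240) (c := ⟨⟨.negSucc 1778, .negSucc 257, .ofNat 303, .ofNat 692, .ofNat 314, .negSucc 305⟩, ⟨.ofNat 664, .ofNat 90, .negSucc 36, .negSucc 310, .negSucc 124, .ofNat 129⟩, ⟨.ofNat 1283, .ofNat 157, .negSucc 187, .negSucc 550, .negSucc 397, .ofNat 11⟩, ⟨.negSucc 3284, .negSucc 429, .ofNat 448, .ofNat 1024, .ofNat 562, .negSucc 566⟩, ⟨.negSucc 1123, .negSucc 160, .ofNat 14, .negSucc 138, .ofNat 173, .negSucc 165⟩, .ofNat 854, .ofNat 1113, .ofNat 0, .ofNat 1113, .ofNat 2640, .ofNat 0, .ofNat 128, .negSucc 172, .negSucc 1035,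 .ofNat 0, .ofNat 96, .ofNat 440, .ofNat 0, .ofNat 0, .ofNat 884, .ofNat 609, .ofNat 0, .ofNat 0, .ofNat 0, .ofNat 0, .ofNat 0, .ofNat 0, .ofNat 0, .ofNat 0, .ofNat 0, .ofNat 0, .ofNat 0, .ofNat 0, .ofNat 0, .ofNat 0, .ofNat 0, .ofNat 0⟩)
    (by decide +kernel)
theorem L02838 : Good (Phi V5.P V5.D (-1) (-1)) ⟨6, 52, 4, 5, 3, 6, 3, 6, 5, 1⟩ :=
  leafX_sound T5.ok_mm T5.Ymm.bz_eq (w := 244) (c := ⟨⟨.ofNat 117, .ofNat 18, .ofNat 137, .ofNat 217, .negSucc 1170, .negSucc 1384⟩, ⟨.negSucc 190, .negSucc 25, .ofNat 16, .negSucc 96, .ofNat 530, .ofNat 608⟩, ⟨.negSucc 118, .negSucc 48, .negSucc 58, .negSucc 25, .ofNat 737, .ofNat 791⟩, ⟨.negSucc 217, .negSucc 5, .ofNat 172, .ofNat 376, .negSucc 1917, .negSucc 2374⟩, ⟨.negSucc 927, .negSucc 97, .ofNat 0, .ofNat 87, .negSucc 240, .negSucc 515⟩, .ofNat 928, .ofNat 1181, .ofNat 0, .ofNat 1181, .ofNat 2592, .ofNat 0, .ofNat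 131, .negSucc 127, .negSucc 1398, .ofNat 0, .ofNat 76, .ofNat 626, .ofNat 0, .ofNat 0, .ofNat 1136, .ofNat 748, .ofNat 0, .ofNat 0, .ofNat 60545116536331984262094679559027961102336, .ofNat 0, .ofNat 0, .ofNat 0, .ofNat 9692993388883600501509054066967613125165056, .ofNat 0, .ofNat 0, .ofNat 0, .ofNat 6844569027701112202946066399075752780759040, .ofNat 0, .ofNat 0, .ofNat 0, .ofNat 21710909331030459332521509762345871026946048, .ofNat 0⟩)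
    (by decide +kernel)
theorem L02839 : Good (Phi V5.P V5.D (-1) (-1)) ⟨6, 53, 4, 5, 3, 6, 3, 6, 5, 1⟩ :=
  out_sound (S := T5.ds_mm) T5.ok_mm (w := 65) (j := 3) (by decide +kernel)
theorem L02840 : Good (Phi V5.P V5.D (-1) (-1)) ⟨5, 26, 4, 5, 3, 6, 3, 7, 5, 1⟩ :=
  leafX_sound T5.ok_mm T5.Ymm.bz_eq (w := 241) (c := ⟨⟨.negSucc 1920, .ofNat 226, .ofNat 57, .ofNat 798, .ofNat 377, .negSucc 427⟩, ⟨.ofNat 713, .negSucc 124, .ofNat 77, .negSucc 380, .negSucc 162, .ofNat 189⟩, ⟨.ofNat 1361, .negSucc 251, .ofNat 15, .negSucc 643, .negSucc 451, .ofNat 92⟩, ⟨.negSucc 3417, .ofNat 325, .negSucc 31, .ofNat 1165, .ofNat 650, .negSucc 732⟩, ⟨.negSucc 1023, .negSucc 111, .negSucc 214, .negSucc 128, .ofNat 151, .negSucc 161⟩, .ofNat 1143, .ofNat 1607, .ofNat 0, .ofNat 1607, .ofNat 3444, .ofNat 0, .ofNat 128, .negSucc 181, .negSucc 1535, .ofNat 0, .ofNat 104, .ofNat 696, .ofNat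 0, .ofNat 0, .ofNat 1292, .ofNat 622, .ofNat 0, .ofNat 0, .ofNat 472813220759118106451850504690696261206016, .ofNat 0, .ofNat 0, .ofNat 1315124579246033370609859629804044794793725788160, .ofNat 95438867275871509486085252056820895304384512, .ofNat 0, .ofNat 0, .ofNat 0, .ofNat 23518247302289862752929051009360539309572096, .ofNat 0, .ofNat 0, .ofNat 0, .ofNat 73267053203868831976425270768770133293793280, .ofNat 0⟩)
    (by decide +kernel)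
theorem L02841 : Good (Phi V5.P V5.D (-1) (-1)) ⟨5, 27, 4, 5, 3, 6, 2, 3, 5, 1⟩ :=
  out_sound (S := T5.ds_mm) T5.ok_mm (w := 59) (j := 3) (by decide +kernel)
theorem L02842 : Good (Phi V5.P V5.D (-1) (-1)) ⟨3, 7, 4, 5, 3, 6, 2, 3, 5, 1⟩ :=
  out_sound (S := T5.ds_mm) T5.ok_mm (w := 47) (j := 3) (by decide +kernel)
theorem L02843 : Good (Phi V5.P V5.D (-1) (-1)) ⟨4, 12, 4, 5, 3, 7, 3, 4, 5, 1⟩ :=
  leafX_sound T5.ok_mm T5.Ymm.bz_eq (w := 235) (c := ⟨⟨.ofNat 1566, .ofNat 136, .ofNat 84, .negSucc 1365, .negSucc 485, .negSucc 1119⟩, ⟨.negSucc 643, .negSucc 106, .negSucc 27, .ofNat 599, .ofNat 190, .ofNat 430⟩, ⟨.negSucc 564, .negSucc 100, .ofNat 38, .ofNat 1074, .ofNat 175, .ofNat 426⟩, ⟨.ofNat 2755, .ofNat 158, .ofNat 161, .negSucc 2209, .negSucc 1003, .negSucc 2304⟩, ⟨.ofNat 516, .negSucc 51, .ofNat 118, .negSucc 102, .negSucc 515, .negSucc 1142⟩, .ofNat 560, .ofNat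 563, .ofNat 0, .ofNat 563, .ofNat 1531, .ofNat 0, .ofNat 128, .negSucc 144, .negSucc 506, .ofNat 0, .ofNat 74, .ofNat 184, .ofNat 0, .ofNat 0, .ofNat 382, .ofNat 608, .ofNat 0, .ofNat 0, .ofNat 0, .ofNat 0, .ofNat 0, .ofNat 0, .ofNat 0, .ofNat 0, .ofNat 0, .ofNat 0, .ofNat 0, .ofNat 0, .ofNat 0, .ofNat 0, .ofNat 0, .ofNat 0⟩)
    (by decide +kernel)
theorem L02844 : Good (Phi V5.P V5.D (-1) (-1)) ⟨4, 12, 4, 5, 3, 7, 3, 5, 5, 1⟩ :=
  leafX_sound T5.ok_mm T5.Ymm.bz_eq (w := 235) (c := ⟨⟨.ofNat 616, .negSucc 54, .ofNat 156, .negSucc 899, .negSucc 447, .negSucc 640⟩, ⟨.negSucc 299, .negSucc 25, .negSucc 12, .ofNat 395, .ofNat 181, .ofNat 255⟩, ⟨.negSucc 73, .ofNat 4, .negSucc 19, .ofNat 726, .ofNat 132, .ofNat 156⟩, ⟨.ofNat 987, .negSucc 152, .ofNat 312, .negSucc 1535, .negSucc 983, .negSucc 1385⟩, ⟨.negSucc 10, .negSucc 176, .ofNat 170, .negSucc 295, .negSucc 555,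 .negSucc 773⟩, .ofNat 568, .ofNat 582, .ofNat 0, .ofNat 582, .ofNat 1580, .ofNat 0, .ofNat 128, .negSucc 254, .negSucc 1076, .ofNat 0, .ofNat 126, .ofNat 388, .ofNat 0, .ofNat 0, .ofNat 778, .ofNat 775, .ofNat 0, .ofNat 0, .ofNat 467612769432593516082691595057402111590400, .ofNat 0, .ofNat 0, .ofNat 0, .ofNat 25178219915506290883334388083071935473254400, .ofNat 0, .ofNat 0, .ofNat 0, .ofNat 0, .ofNat 0, .ofNat 0, .ofNat 0, .ofNat 0, .ofNat 0⟩)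
    (by decide +kernel)
theorem L02845 : Good (Phi V5.P V5.D (-1) (-1)) ⟨4, 13, 4, 5, 3, 7, 2, 2, 5, 1⟩ :=
  leafX_sound T5.ok_mm T5.Ymm.bz_eq (w := 232) (c := ⟨⟨.ofNat 1937, .ofNat 336, .negSucc 207, .negSucc 1404, .negSucc 1045, .negSucc 1021⟩, ⟨.negSucc 895, .negSucc 265, .ofNat 136, .ofNat 648, .ofNat 411, .ofNat 404⟩, ⟨.negSucc 780, .negSucc 509, .ofNat 244, .ofNat 1057, .ofNat 325, .ofNat 363⟩, ⟨.ofNat 3302, .ofNat 370, .negSucc 382, .negSucc 2213, .negSucc 2121, .negSucc 2042⟩, ⟨.ofNat 662, .negSucc 238, .negSucc 111, .negSucc 124, .negSucc 1077, .negSucc 1004⟩, .ofNat 951, .ofNat 1246, .ofNat 0, .ofNat 1246, .ofNat 2739, .ofNat 0, .ofNat 128, .negSucc 231, .negSucc 813, .ofNat 0, .ofNat 122, .ofNat 354, .ofNat 0, .ofNat 0, .ofNat 639, .ofNat 1247, .ofNat 0, .ofNat 0, .ofNat 83495103760540771601355091887621113118720, .ofNat 0, .ofNat 0, .ofNat 0, .ofNat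 16586166595985969637779725589991722431021056, .ofNat 0, .ofNat 0, .ofNat 0, .ofNat 9012850444249171723639404725075658326147072, .ofNat 0, .ofNat 0, .ofNat 0, .ofNat 30099015615174594332031770544992179556712448, .ofNat 0⟩)
    (by decide +kernel)
theorem L02846 : Good (Phi V5.P V5.D (-1) (-1)) ⟨3, 7, 4, 5, 3, 7, 2, 2, 5, 1⟩ :=
  out_sound (S := T5.ds_mm) T5.ok_mm (w := 47) (j := 3) (by decide +kernel)
theorem L02847 : Good (Phi V5.P V5.D (-1) (-1)) ⟨4, 12, 4, 5, 4, 14, 3, 6, 5, 1⟩ :=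
  leafX_sound T5.ok_mm T5.Ymm.bz_eq (w := 250) (c := ⟨⟨.negSucc 191, .negSucc 236, .ofNat 144, .negSucc 125, .negSucc 473, .negSucc 506⟩, ⟨.ofNat 38, .ofNat 37, .ofNat 17, .ofNat 51, .ofNat 188, .ofNat 198⟩, ⟨.ofNat 324, .ofNat 109, .negSucc 38, .ofNat 128, .ofNat 145, .ofNat 127⟩, ⟨.negSucc 666, .negSucc 444, .ofNat 247, .negSucc 202, .negSucc 871, .negSucc 963⟩, ⟨.negSucc 858, .negSucc 260, .ofNat 140, .ofNat 4, .negSucc 247, .negSucc 339⟩, .ofNat 925, .ofNat 1305, .ofNat 0, .ofNat 1305, .ofNat 3193, .ofNat 0, .ofNat 128, .negSucc 296, .negSucc 1001, .ofNat 0, .ofNat 143, .ofNat 409, .ofNat 0, .ofNat 0, .ofNat 794, .ofNat 1147, .ofNat 0, .ofNat 0, .ofNat 0, .ofNat 0, .ofNat 0, .ofNat 0, .ofNat 1092397509018108147094236951213828991838532403200, .ofNat 0, .ofNat 0, .ofNat 0, .ofNat 0, .ofNat 0, .ofNat 0, .ofNat 0, .ofNat 0, .ofNat 0⟩)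
    (by decide +kernel)
theorem L02848 : Good (Phi V5.P V5.D (-1) (-1)) ⟨4, 12, 4, 5, 4, 14, 3, 7, 5, 1⟩ :=
  leafX_sound T5.ok_mm T5.Ymm.bz_eq (w := 249) (c := ⟨⟨.negSucc 1074, .negSucc 37, .ofNat 86, .ofNat 125, .ofNat 168, .negSucc 31⟩, ⟨.ofNat 385, .negSucc 37, .ofNat 42, .negSucc 50, .negSucc 62, .ofNat 14⟩, ⟨.ofNat 766, .negSucc 48, .negSucc 7, .negSucc 62, .negSucc 325, .negSucc 156⟩, ⟨.negSucc 2301, .negSucc 80, .ofNat 136, .ofNat 222, .ofNat 383, .negSucc 46⟩, ⟨.negSucc 1353, .negSucc 173, .ofNat 92, .ofNat 57, .ofNat 289, .ofNat 24⟩, .ofNat 925, .ofNat 1305, .ofNat 0, .ofNat 1305, .ofNat 3193, .ofNat 0, .ofNat 128, .negSucc 237, .negSucc 800, .ofNat 0, .ofNat 116, .ofNat 325, .ofNat 0, .ofNat 0, .ofNat 651, .ofNat 1205, .ofNat 0, .ofNat 0, .ofNat 0, .ofNat 0, .ofNat 0, .ofNat 300925902866783144681580832563352798086923592663040, .ofNat 782926641044645772574802004643189325789858365440,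 .ofNat 0, .ofNat 0, .ofNat 0, .ofNat 0, .ofNat 0, .ofNat 0, .ofNat 0, .ofNat 0, .ofNat 0⟩)
    (by decide +kernel)
theorem L02849 : Good (Phi V5.P V5.D (-1) (-1)) ⟨4, 12, 4, 5, 4, 15, 3, 6, 5, 1⟩ :=
  leafX_sound T5.ok_mm T5.Ymm.bz_eq (w := 249) (c := ⟨⟨.negSucc 701, .negSucc 134, .ofNat 51, .negSucc 125, .negSucc 126, .negSucc 189⟩, ⟨.ofNat 244, .ofNat 2, .ofNat 60, .ofNat 49, .ofNat 41, .ofNat 68⟩, ⟨.ofNat 720, .ofNat 35, .ofNat 29, .ofNat 83, .negSucc 112, .negSucc 87⟩, ⟨.negSucc 1554, .negSucc 206, .ofNat 67, .negSucc 239, .negSucc 298, .negSucc 405⟩, ⟨.negSucc 990, .negSucc 107, .ofNat 66, .negSucc 91, .negSucc 222, .negSucc 237⟩, .ofNat 1030, .ofNat 1519, .ofNat 0, .ofNat 1519, .ofNat 3655, .ofNat 0, .ofNat 128, .negSucc 293, .negSucc 593, .ofNat 0, .ofNat 139, .ofNat 239, .ofNat 0, .ofNat 0, .ofNat 482, .ofNat 1291, .ofNat 0, .ofNat 0, .ofNat 0, .ofNat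 0, .ofNat 0, .ofNat 0, .ofNat 1445691612686165481367893538724112067058148048896, .ofNat 0, .ofNat 0, .ofNat 0, .ofNat 0, .ofNat 0, .ofNat 0, .ofNat 0, .ofNat 0, .ofNat 0⟩)
    (by decide +kernel)
theorem L02850 : Good (Phi V5.P V5.D (-1) (-1)) ⟨4, 12, 4, 5, 4, 15, 3, 7, 5, 1⟩ :=
  leafX_sound T5.ok_mm T5.Ymm.bz_eq (w := 249) (c := ⟨⟨.negSucc 1102, .ofNat 10, .ofNat 42, .ofNat 38, .ofNat 314, .ofNat 125⟩, ⟨.ofNat 392, .negSucc 55, .ofNat 54, .negSucc 12, .negSucc 115, .negSucc 43⟩, ⟨.ofNat 765, .negSucc 60, .ofNat 22, .negSucc 11, .negSucc 409, .negSucc 225⟩, ⟨.negSucc 2405, .ofNat 18, .ofNat 70, .ofNat 87, .ofNat 677, .ofNat 276⟩, ⟨.negSucc 1484, .negSucc 109, .ofNat 99, .ofNat 58, .ofNat 419, .ofNat 184⟩, .ofNat 893, .ofNat 1236, .ofNat 0, .ofNat 1236, .ofNat 3046, .ofNat 0, .ofNat 128, .negSucc 168, .negSucc 286, .ofNat 0, .ofNat 80, .ofNat 113, .ofNat 0, .ofNat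 0, .ofNat 235, .ofNat 998, .ofNat 0, .ofNat 0, .ofNat 0, .ofNat 0, .ofNat 0, .ofNat 424385760046428884115014076413438139046457570754560, .ofNat 859593554051358867503802705566111907472469917696, .ofNat 0, .ofNat 0, .ofNat 0, .ofNat 0, .ofNat 0, .ofNat 0, .ofNat 0, .ofNat 0, .ofNat 0⟩)
    (by decide +kernel)
theorem L02851 : Good (Phi V5.P V5.D (-1) (-1)) ⟨4, 13, 4, 5, 3, 7, 3, 6, 5, 1⟩ :=
  leafX_sound T5.ok_mm T5.Ymm.bz_eq (w := 237) (c := ⟨⟨.negSucc 799, .negSucc 33, .ofNat 116, .negSucc 191, .negSucc 134, .negSucc 244⟩, ⟨.ofNat 223, .negSucc 56, .ofNat 34, .ofNat 82, .ofNat 45, .ofNat 92⟩, ⟨.ofNat 705, .negSucc 68, .negSucc 3, .ofNat 158, .negSucc 118, .negSucc 62⟩, ⟨.negSucc 1675, .negSucc 25, .ofNat 173, .negSucc 351, .negSucc 327, .negSucc 531⟩, ⟨.negSucc 1035, .negSucc 61, .ofNat 78, .negSucc 120, .negSucc 253, .negSucc 325⟩, .ofNat 1030, .ofNat 1394, .ofNat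 0, .ofNat 1394, .ofNat 3030, .ofNat 0, .ofNat 128, .negSucc 283, .negSucc 1641, .ofNat 0, .ofNat 147, .ofNat 717, .ofNat 0, .ofNat 0, .ofNat 1255, .ofNat 1652, .ofNat 0, .ofNat 0, .ofNat 1790064478827702353599186841686478445084672, .ofNat 0, .ofNat 0, .ofNat 0, .ofNat 208718081919132296070597529224120248272158720, .ofNat 0, .ofNat 0, .ofNat 0, .ofNat 336232229084807679767520920983905581211320320, .ofNat 0, .ofNat 0, .ofNat 0, .ofNat 565049802711667303319022217421440371738542080, .ofNat 0⟩)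
    (by decide +kernel)
theorem L02852 : Good (Phi V5.P V5.D (-1) (-1)) ⟨4, 13, 4, 5, 3, 7, 3, 7, 5, 1⟩ :=
  leafX_sound T5.ok_mm T5.Ymm.bz_eq (w := 235) (c := ⟨⟨.negSucc 1357, .ofNat 77, .ofNat 96, .ofNat 203, .ofNat 427, .ofNat 145⟩, ⟨.ofNat 444, .negSucc 85, .ofNat 45, .negSucc 83, .negSucc 172, .negSucc 60⟩, ⟨.ofNat 833, .negSucc 147, .ofNat 32, .negSucc 99, .negSucc 490, .negSucc 260⟩, ⟨.negSucc 2873, .ofNat 150, .ofNat 229, .ofNat 384, .ofNat 815, .ofNat 270⟩, ⟨.negSucc 1743, .negSucc 12, .ofNat 247, .ofNat 150, .ofNat 343, .ofNat 102⟩, .ofNat 951, .ofNat 1246, .ofNat 0, .ofNat 1246, .ofNat 2739, .ofNat 0, .ofNat 128, .negSucc 152, .negSucc 555, .ofNat 0, .ofNat 80, .ofNat 239, .ofNat 0, .ofNat 0, .ofNat 433, .ofNat 883, .ofNat 0, .ofNat 0, .ofNat 455891946375188282221886371116665104498688, .ofNat 0, .ofNat 0, .ofNat 132803944203161291819704081771085705547150786560,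 .ofNat 214451356678972091394725440384000938001563648, .ofNat 0, .ofNat 0, .ofNat 0, .ofNat 28832036116597487670116731069457799581794304, .ofNat 0, .ofNat 0, .ofNat 0, .ofNat 42662346593427795431547739128983570868076544, .ofNat 0⟩)
    (by decide +kernel)
theorem L02853 : Good (Phi V5.P V5.D (-1) (-1)) ⟨3, 7, 4, 5, 3, 7, 2, 3, 5, 1⟩ :=
  out_sound (S := T5.ds_mm) T5.ok_mm (w := 47) (j := 3) (by decide +kernel)
theorem L02854 : Good (Phi V5.P V5.D (-1) (-1)) ⟨4, 12, 3, 2, 3, 6, 2, 2, 6, 4⟩ :=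
  leafX_sound T5.ok_mm T5.Ymm.bz_eq (w := 233) (c := ⟨⟨.ofNat 0, .negSucc 143, .ofNat 263, .ofNat 405, .negSucc 1160, .negSucc 1037⟩, ⟨.negSucc 141, .negSucc 4, .ofNat 40, .negSucc 165, .ofNat 497, .ofNat 428⟩, ⟨.negSucc 80, .ofNat 73, .negSucc 89, .negSucc 128, .ofNat 648, .ofNat 638⟩, ⟨.negSucc 462, .negSucc 323, .ofNat 482, .ofNat 698, .negSucc 2044, .negSucc 1724⟩, ⟨.negSucc 1183, .negSucc 316, .ofNat 397, .ofNat 96, .negSucc 451, .negSucc 167⟩, .ofNat 692, .ofNat 813, .ofNat 0, .ofNat 813, .ofNat 2094, .ofNat 0, .ofNat 128, .negSucc 210, .negSucc 785, .ofNat 0, .ofNat 113, .ofNat 321, .ofNat 0, .ofNat 0, .ofNat 653, .ofNat 602, .ofNat 0, .ofNat 0, .ofNat 0, .ofNat 0, .ofNat 0, .ofNat 0, .ofNat 16550137837511701960586546666294333807788032, .ofNat 0, .ofNat 0, .ofNat 0, .ofNat 0, .ofNat 0, .ofNat 0, .ofNat 0, .ofNat 47176687751762010650835455120954009986269184,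 .ofNat 0⟩)
    (by decide +kernel)
theorem L02855 : Good (Phi V5.P V5.D (-1) (-1)) ⟨4, 12, 3, 2, 3, 6, 2, 2, 6, 5⟩ :=
  leafX_sound T5.ok_mm T5.Ymm.bz_eq (w := 233) (c := ⟨⟨.negSucc 1419, .negSucc 699, .ofNat 517, .ofNat 645, .negSucc 491, .negSucc 725⟩, ⟨.ofNat 396, .ofNat 250, .ofNat 14, .negSucc 278, .ofNat 208, .ofNat 297⟩, ⟨.ofNat 861, .ofNat 462, .negSucc 308, .negSucc 391, .ofNat 230, .ofNat 434⟩, ⟨.negSucc 2868, .negSucc 1103, .ofNat 789, .ofNat 1035, .negSucc 809, .negSucc 1225⟩, ⟨.negSucc 1453, .negSucc 231, .ofNat 127, .negSucc 34, .ofNat 19, .negSucc 110⟩, .ofNat 545, .ofNat 532, .ofNat 0, .ofNat 532, .ofNat 1487, .ofNat 0, .ofNat 128, .negSucc 267, .negSucc 1230, .ofNat 0, .ofNat 151, .ofNat 482, .ofNat 0, .ofNat 0, .ofNat 1013, .ofNat 727, .ofNat 0, .ofNat 0, .ofNat 0, .ofNat 0, .ofNat 0, .ofNat 0, .ofNat 10896440275741333717250615177364550721732608,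 .ofNat 0, .ofNat 0, .ofNat 0, .ofNat 0, .ofNat 0, .ofNat 0, .ofNat 0, .ofNat 270465995989008761847550091098662605152059392, .ofNat 0⟩)
    (by decide +kernel)
theorem L02856 : Good (Phi V5.P V5.D (-1) (-1)) ⟨4, 12, 4, 4, 3, 6, 3, 6, 5, 2⟩ :=
  leafX_sound T5.ok_mm T5.Ymm.bz_eq (w := 235) (c := ⟨⟨.negSucc 2052, .negSucc 841, .ofNat 415, .ofNat 991, .ofNat 6, .negSucc 594⟩, ⟨.ofNat 652, .ofNat 309, .negSucc 48, .negSucc 396, .ofNat 6, .ofNat 233⟩, ⟨.ofNat 1366, .ofNat 562, .negSucc 285, .negSucc 755, .negSucc 95, .ofNat 251⟩, ⟨.negSucc 3849, .negSucc 1311, .ofNat 631, .ofNat 1577, .ofNat 49, .negSucc 1011⟩, ⟨.negSucc 1296, .negSucc 302, .ofNat 14, .negSucc 37, .ofNat 128, .negSucc 122⟩, .ofNat 742, .ofNat 931, .ofNat 0, .ofNat 931, .ofNat 2492, .ofNat 0, .ofNat 128, .negSucc 161, .negSucc 728, .ofNat 0, .ofNat 87, .ofNat 281, .ofNat 0, .ofNat 0, .ofNat 633, .ofNat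 459, .ofNat 0, .ofNat 0, .ofNat 0, .ofNat 0, .ofNat 0, .ofNat 0, .ofNat 0, .ofNat 0, .ofNat 0, .ofNat 0, .ofNat 64079890424725240664126632798099811610918912, .ofNat 0, .ofNat 0, .ofNat 0, .ofNat 167924236832325669942156679992995027506692096, .ofNat 0⟩)
    (by decide +kernel)
theorem L02857 : Good (Phi V5.P V5.D (-1) (-1)) ⟨4, 12, 4, 4, 3, 6, 3, 7, 5, 2⟩ :=
  leafX_sound T5.ok_mm T5.Ymm.bz_eq (w := 235) (c := ⟨⟨.negSucc 2481, .negSucc 603, .ofNat 315, .ofNat 1183, .ofNat 691, .negSucc 71⟩, ⟨.ofNat 828, .ofNat 229, .negSucc 20, .negSucc 484, .negSucc 233, .ofNat 39⟩, ⟨.ofNat 1629, .ofNat 373, .negSucc 204, .negSucc 929, .negSucc 652, .negSucc 145⟩, ⟨.negSucc 4518, .negSucc 937, .ofNat 451, .ofNat 1876, .ofNat 1306, .negSucc 79⟩, ⟨.negSucc 1220, .negSucc 344, .negSucc 43, .negSucc 8, .ofNat 502, .ofNat 95⟩, .ofNat 736, .ofNat 907, .ofNat 0, .ofNat 907, .ofNat 2401,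 .ofNat 0, .ofNat 137, .negSucc 127, .negSucc 683, .ofNat 0, .ofNat 71, .ofNat 262, .ofNat 0, .ofNat 0, .ofNat 591, .ofNat 361, .ofNat 0, .ofNat 0, .ofNat 0, .ofNat 0, .ofNat 0, .ofNat 0, .ofNat 0, .ofNat 0, .ofNat 0, .ofNat 0, .ofNat 13715375676629253239274242492892859137523712, .ofNat 0, .ofNat 0, .ofNat 0, .ofNat 120035175224041314622913705150788996274585600, .ofNat 0⟩)
    (by decide +kernel)

end Crest.Agent.R097C5.N5mm
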