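import Crest.Agent.R097.KP7
import Crest.Agent.R097.T5Ymm

/-!
# Row 97, box cover in dimension n = 5 (generated)
-/

set_option autoImplicit false
set_option Elab.async false
set_option maxHeartbeats 0
set_option maxRecDepth 100000

open Crest.Agent.R097 Crest.Agent.R097.KA


namespace Crest.Agent.R097C5.N5mm

theorem L02858 : Good (Phi V5.P V5.D (-1) (-1)) ⟨4, 12, 4, 5, 4, 12, 2, 3, 5, 2⟩ :=
  leafX_sound T5.ok_mm T5.Ymm.bz_eq (w := 246) (c := ⟨⟨.negSucc 1519, .negSucc 949, .ofNat 380, .ofNat 355, .ofNat 120, .negSucc 707⟩, ⟨.ofNat 546, .ofNat 388, .negSucc 51, .negSucc 159, .negSucc 30, .ofNat 300⟩, ⟨.ofNat 966, .ofNat 669, .negSucc 254, .negSucc 281, .negSucc 274, .ofNat 354⟩, ⟨.negSucc 3016, .negSucc 1481, .ofNat 583, .ofNat 583, .ofNat 350, .negSucc 1243⟩, ⟨.negSucc 1240, .negSucc 334, .ofNat 68, .ofNat 69, .ofNat 397, .negSucc 266⟩, .ofNat 903, .ofNat 1251, .ofNat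 0, .ofNat 1251, .ofNat 3054, .ofNat 0, .ofNat 128, .negSucc 275, .negSucc 1244, .ofNat 0, .ofNat 144, .ofNat 522, .ofNat 0, .ofNat 0, .ofNat 1086, .ofNat 460, .ofNat 0, .ofNat 0, .ofNat 0, .ofNat 0, .ofNat 0, .ofNat 8466759942030252265098866394905549237930678026240, .ofNat 29041235102139412268997793812770708957083729920, .ofNat 0, .ofNat 0, .ofNat 0, .ofNat 0, .ofNat 0, .ofNat 0, .ofNat 0, .ofNat 0, .ofNat 0⟩)
    (by decide +kernel)
theorem L02859 : Good (Phi V5.P V5.D (-1) (-1)) ⟨4, 12, 4, 5, 4, 13, 3, 6, 5, 2⟩ :=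
  leafX_sound T5.ok_mm T5.Ymm.bz_eq (w := 250) (c := ⟨⟨.negSucc 1325, .negSucc 505, .ofNat 214, .ofNat 438, .ofNat 0, .negSucc 536⟩, ⟨.ofNat 475, .ofNat 167, .ofNat 14, .negSucc 187, .ofNat 5, .ofNat 225⟩, ⟨.ofNat 853, .ofNat 290, .negSucc 109, .negSucc 294, .negSucc 113, .ofNat 190⟩, ⟨.negSucc 2740, .negSucc 849, .ofNat 346, .ofNat 757, .ofNat 50, .negSucc 933⟩, ⟨.negSucc 1392, .negSucc 390, .ofNat 141, .ofNat 163, .ofNat 151, .negSucc 171⟩, .ofNat 887, .ofNat 1217, .ofNat 0, .ofNat 1217, .ofNat 2984, .ofNat 0, .ofNat 128, .negSucc 304, .negSucc 1199, .ofNat 0, .ofNat 155, .ofNat 497, .ofNat 0, .ofNat 0, .ofNat 995, .ofNat 1106, .ofNat 0, .ofNat 0, .ofNat 0, .ofNat 0, .ofNat 0, .ofNat 0, .ofNat 0, .ofNat 0, .ofNat 0, .ofNat 0, .ofNat 0, .ofNat 0, .ofNat 0, .ofNat 0, .ofNat 0, .ofNat 0⟩)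
    (by decide +kernel)
theorem L02860 : Good (Phi V5.P V5.D (-1) (-1)) ⟨4, 12, 4, 5, 4, 13, 3, 7, 5, 2⟩ :=
  leafX_sound T5.ok_mm T5.Ymm.bz_eq (w := 250) (c := ⟨⟨.negSucc 1789, .negSucc 151, .ofNat 99, .ofNat 496, .ofNat 548, .negSucc 0⟩, ⟨.ofNat 672, .ofNat 26, .ofNat 48, .negSucc 211, .negSucc 211, .ofNat 11⟩, ⟨.ofNat 1083, .ofNat 32, .negSucc 33, .negSucc 349, .negSucc 541, .negSucc 170⟩, ⟨.negSucc 3486, .negSucc 248, .ofNat 134, .ofNat 815, .ofNat 1096, .ofNat 34⟩, ⟨.negSucc 1409, .negSucc 252, .ofNat 39, .ofNat 93, .ofNat 529, .ofNat 104⟩, .ofNat 897, .ofNat 1238, .ofNat 0, .ofNat 1238, .ofNat 3025, .ofNat 0, .ofNat 128, .negSucc 206, .negSucc 685, .ofNat 0, .ofNat 106, .ofNat 281, .ofNat 0, .ofNat 0, .ofNat 572, .ofNat 709, .ofNat 0, .ofNat 0, .ofNat 0, .ofNat 0, .ofNat 0, .ofNat 640703363040713575746291708675433373032780511838208, .ofNat 822807755279440910433911068782656808886061760512,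 .ofNat 0, .ofNat 0, .ofNat 0, .ofNat 0, .ofNat 0, .ofNat 0, .ofNat 54850126680317456243215674452788612030916401823744, .ofNat 0, .ofNat 0⟩)
    (by decide +kernel)
theorem L02861 : Good (Phi V5.P V5.D (-1) (-1)) ⟨6, 52, 3, 2, 3, 6, 2, 2, 5, 2⟩ :=
  leafX_sound T5.ok_mm T5.Ymm.bz_eq (w := 236) (c := ⟨⟨.negSucc 201, .ofNat 296, .ofNat 146, .ofNat 933, .negSucc 1218, .negSucc 2283⟩, ⟨.negSucc 198, .negSucc 158, .ofNat 145, .negSucc 435, .ofNat 569, .ofNat 1033⟩, ⟨.ofNat 92, .negSucc 242, .negSucc 18, .negSucc 571, .ofNat 685, .ofNat 1399⟩, ⟨.negSucc 864, .ofNat 431, .ofNat 184, .ofNat 1437, .negSucc 1926, .negSucc 3684⟩, ⟨.negSucc 1322, .negSucc 73, .ofNat 61, .ofNat 3, .negSucc 100, .negSucc 372⟩, .ofNat 832, .ofNat 997, .ofNat 0, .ofNat 997, .ofNat 2257, .ofNat 0, .ofNat 134, .negSucc 127, .negSucc 1011, .ofNat 0, .ofNat 78, .ofNat 449, .ofNat 0, .ofNat 0, .ofNat 804,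 .ofNat 751, .ofNat 0, .ofNat 0, .ofNat 1590217508772719770399573668073012461568, .ofNat 0, .ofNat 0, .ofNat 0, .ofNat 183836744243422621195490690666373482283008, .ofNat 0, .ofNat 0, .ofNat 0, .ofNat 174120622328238318388743466461159814594560, .ofNat 0, .ofNat 0, .ofNat 0, .ofNat 374851594401364550268706011137998174814208, .ofNat 0⟩)
    (by decide +kernel)
theorem L02862 : Good (Phi V5.P V5.D (-1) (-1)) ⟨6, 53, 3, 2, 3, 6, 2, 2, 5, 2⟩ :=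
  out_sound (S := T5.ds_mm) T5.ok_mm (w := 63) (j := 3) (by decide +kernel)
theorem L02863 : Good (Phi V5.P V5.D (-1) (-1)) ⟨5, 27, 3, 2, 3, 6, 2, 2, 5, 2⟩ :=
  out_sound (S := T5.ds_mm) T5.ok_mm (w := 57) (j := 3) (by decide +kernel)
theorem L02864 : Good (Phi V5.P V5.D (-1) (-1)) ⟨5, 26, 3, 2, 3, 6, 3, 6, 5, 2⟩ :=
  leafX_sound T5.ok_mm T5.Ymm.bz_eq (w := 238) (c := ⟨⟨.negSucc 3681, .negSucc 468, .ofNat 1224, .ofNat 1452, .ofNat 53, .negSucc 685⟩, ⟨.ofNat 1370, .ofNat 196, .negSucc 314, .negSucc 685, .negSucc 18, .ofNat 311⟩, ⟨.ofNat 2530, .ofNat 269, .negSucc 839, .negSucc 1091, .negSucc 144, .ofNat 270⟩, ⟨.negSucc 6194, .negSucc 634, .ofNat 1730, .ofNat 2175, .ofNat 107, .negSucc 1122⟩, ⟨.negSucc 1385, .negSucc 45, .negSucc 49, .negSucc 124, .ofNat 65, .negSucc 138⟩, .ofNat 1021, .ofNat 1377, .ofNat 0, .ofNat 1377, .ofNat 2998, .ofNat 0, .ofNat 128, .negSucc 216,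 .negSucc 1651, .ofNat 0, .ofNat 122, .ofNat 755, .ofNat 0, .ofNat 0, .ofNat 1339, .ofNat 940, .ofNat 0, .ofNat 0, .ofNat 342768554504541079939286495704537150521344, .ofNat 0, .ofNat 0, .ofNat 0, .ofNat 88224320067524938050585887298440100866686976, .ofNat 0, .ofNat 0, .ofNat 0, .ofNat 36157729511547685229836440745037835288969216, .ofNat 0, .ofNat 0, .ofNat 0, .ofNat 49098351234790479001947477327849565439655936, .ofNat 0⟩)
    (by decide +kernel)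
theorem L02865 : Good (Phi V5.P V5.D (-1) (-1)) ⟨5, 27, 3, 2, 3, 6, 3, 6, 5, 2⟩ :=
  out_sound (S := T5.ds_mm) T5.ok_mm (w := 57) (j := 3) (by decide +kernel)
theorem L02866 : Good (Phi V5.P V5.D (-1) (-1)) ⟨4, 13, 3, 2, 3, 6, 3, 7, 5, 2⟩ :=
  leafX_sound T5.ok_mm T5.Ymm.bz_eq (w := 234) (c := ⟨⟨.negSucc 3603, .negSucc 521, .ofNat 736, .ofNat 1443, .ofNat 1024, .ofNat 54⟩, ⟨.ofNat 1339, .ofNat 179, .negSucc 98, .negSucc 675, .negSucc 438, .negSucc 13⟩, ⟨.ofNat 2365, .ofNat 221, .negSucc 464, .negSucc 1115, .negSucc 869, .negSucc 245⟩, ⟨.negSucc 6214, .negSucc 679, .ofNat 1065, .ofNat 2215, .ofNat 1844, .ofNat 143⟩, ⟨.negSucc 1622, .negSucc 156, .ofNat 81, .negSucc 20, .ofNat 563, .ofNat 136⟩, .ofNat 950, .ofNat 1245, .ofNat 0, .ofNat 1245, .ofNat 2739, .ofNat 0, .ofNat 130, .negSucc 127, .negSucc 1124, .ofNat 0, .ofNat 73, .ofNat 505, .ofNat 0, .ofNat 0, .ofNat 926,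 .ofNat 704, .ofNat 0, .ofNat 0, .ofNat 639348395689854166092174529668147197247488, .ofNat 0, .ofNat 0, .ofNat 19280922669892158581142017994202053983082643456, .ofNat 174866482075118734766784186191911843992174592, .ofNat 0, .ofNat 0, .ofNat 143623525748009410194861357591000238792900608, .ofNat 34082996646983355547589619079259586595651584, .ofNat 0, .ofNat 0, .ofNat 26726065575462442261116739320632823406787559424, .ofNat 165030710122675257696295536868179709672816640, .ofNat 0⟩)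
    (by decide +kernel)
theorem L02867 : Good (Phi V5.P V5.D (-1) (-1)) ⟨3, 7, 3, 2, 3, 6, 1, 1, 5, 2⟩ :=
  out_sound (S := T5.ds_mm) T5.ok_mm (w := 45) (j := 3) (by decide +kernel)
theorem L02868 : Good (Phi V5.P V5.D (-1) (-1)) ⟨4, 12, 3, 2, 3, 6, 2, 2, 5, 3⟩ :=
  leafX_sound T5.ok_mm T5.Ymm.bz_eq (w := 229) (c := ⟨⟨.negSucc 2949, .negSucc 798, .ofNat 515, .ofNat 1099, .ofNat 506, .negSucc 433⟩, ⟨.ofNat 1001, .ofNat 333, .ofNat 51, .negSucc 489, .negSucc 205, .ofNat 187⟩, ⟨.ofNat 1945, .ofNat 522, .negSucc 343, .negSucc 801, .negSucc 493, .ofNat 155⟩, ⟨.negSucc 5398, .negSucc 1152, .ofNat 761, .ofNat 1709, .ofNat 848, .negSucc 670⟩, ⟨.negSucc 1638, .negSucc 150, .ofNat 66, .negSucc 64, .ofNat 199, .ofNat 109⟩, .ofNat 545, .ofNat 531, .ofNat 0, .ofNat 531, .ofNat 1462, .ofNat 0, .ofNat 128, .negSucc 241, .negSucc 956, .ofNat 0, .ofNat 141, .ofNat 387, .ofNat 0, .ofNat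 0, .ofNat 855, .ofNat 727, .ofNat 0, .ofNat 0, .ofNat 15590420062422897120090748507434394845184, .ofNat 0, .ofNat 0, .ofNat 0, .ofNat 170471824297020669746949224233600878116864, .ofNat 0, .ofNat 0, .ofNat 0, .ofNat 0, .ofNat 0, .ofNat 0, .ofNat 0, .ofNat 6231998563902282299144558213195570092179456, .ofNat 0⟩)
    (by decide +kernel)
theorem L02869 : Good (Phi V5.P V5.D (-1) (-1)) ⟨4, 12, 3, 2, 3, 6, 2, 3, 5, 3⟩ :=
  leafX_sound T5.ok_mm T5.Ymm.bz_eq (w := 228) (c := ⟨⟨.negSucc 2978, .negSucc 419, .ofNat 315, .ofNat 1146, .ofNat 955, .ofNat 138⟩, ⟨.ofNat 1024, .ofNat 167, .ofNat 113, .negSucc 492, .negSucc 360, .negSucc 43⟩, ⟨.ofNat 1890, .ofNat 205, .negSucc 195, .negSucc 862, .negSucc 889, .negSucc 254⟩, ⟨.negSucc 5385, .negSucc 609, .ofNat 466, .ofNat 1788, .ofNat 1873, .ofNat 244⟩, ⟨.negSucc 1373, .negSucc 255, .ofNat 74, .negSucc 113, .ofNat 854, .ofNat 57⟩, .ofNat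 682, .ofNat 796, .ofNat 0, .ofNat 796, .ofNat 2072, .ofNat 0, .ofNat 128, .negSucc 186, .negSucc 523, .ofNat 0, .ofNat 103, .ofNat 210, .ofNat 0, .ofNat 0, .ofNat 477, .ofNat 227, .ofNat 0, .ofNat 0, .ofNat 10437118969084715883271700130581257912320, .ofNat 0, .ofNat 0, .ofNat 1496532518345064452475555885026134392064442368, .ofNat 508221011547247555245202406249940893302784, .ofNat 0, .ofNat 0, .ofNat 0, .ofNat 0, .ofNat 0, .ofNat 0, .ofNat 895184265474950503867610315365842303294898176, .ofNat 414234567316971133730261355149075740098560, .ofNat 0⟩)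
    (by decide +kernel)
theorem L02870 : Good (Phi V5.P V5.D (-1) (-1)) ⟨4, 13, 3, 2, 3, 6, 2, 2, 5, 3⟩ :=
  leafX_sound T5.ok_mm T5.Ymm.bz_eq (w := 230) (c := ⟨⟨.negSucc 3904, .negSucc 411, .ofNat 312, .ofNat 1482, .ofNat 498, .negSucc 389⟩, ⟨.ofNat 1433, .ofNat 178, .ofNat 150, .negSucc 719, .negSucc 225, .ofNat 185⟩, ⟨.ofNat 2583, .ofNat 220, .negSucc 205, .negSucc 1055, .negSucc 481, .ofNat 119⟩, ⟨.negSucc 6607, .negSucc 427, .ofNat 368, .ofNat 2110, .ofNat 783, .negSucc 576⟩, ⟨.negSucc 1471, .negSucc 43, .negSucc 49, .negSucc 355, .ofNat 81, .ofNat 67⟩, .ofNat 701, .ofNat 717, .ofNat 0, .ofNat 717, .ofNat 1580, .ofNat 0, .ofNat 128, .negSucc 212, .negSucc 1207, .ofNat 0, .ofNat 144, .ofNat 570, .ofNat 0, .ofNat 0, .ofNat 978, .ofNat 903, .ofNat 0, .ofNat 0, .ofNat 60638724412985234753928986790831964815360, .ofNat 0, .ofNat 0, .ofNat 0, .ofNat 545125694849234271541251889697526118350848,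 .ofNat 0, .ofNat 0, .ofNat 0, .ofNat 1863703087831560895779127743680555442503680, .ofNat 0, .ofNat 0, .ofNat 0, .ofNat 10629246107008955054914736131426087224737792, .ofNat 0⟩)
    (by decide +kernel)
theorem L02871 : Good (Phi V5.P V5.D (-1) (-1)) ⟨4, 13, 3, 2, 3, 6, 2, 3, 5, 3⟩ :=
  leafX_sound T5.ok_mm T5.Ymm.bz_eq (w := 229) (c := ⟨⟨.negSucc 3802, .negSucc 20, .ofNat 301, .ofNat 1504, .ofNat 1494, .ofNat 309⟩, ⟨.ofNat 1402, .negSucc 32, .ofNat 124, .negSucc 712, .negSucc 633, .negSucc 125⟩, ⟨.ofNat 2296, .negSucc 229, .negSucc 82, .negSucc 1110, .negSucc 1244, .negSucc 380⟩, ⟨.negSucc 6578, .ofNat 69, .ofNat 400, .ofNat 2253, .ofNat 2707, .ofNat 596⟩, ⟨.negSucc 1660, .negSucc 210, .ofNat 11, .negSucc 157, .ofNat 863, .ofNat 255⟩, .ofNat 742, .ofNat 784, .ofNat 0, .ofNat 784, .ofNat 1703, .ofNat 0, .ofNat 128, .negSucc 157, .negSucc 670, .ofNat 0, .ofNat 108, .ofNat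 301, .ofNat 0, .ofNat 0, .ofNat 553, .ofNat 251, .ofNat 0, .ofNat 0, .ofNat 25644716127768703393065937349523405799424, .ofNat 0, .ofNat 0, .ofNat 0, .ofNat 500621633223612100555396764452064233259008, .ofNat 0, .ofNat 0, .ofNat 2552272350640428403385667311595771961454624768, .ofNat 1121464024160435750477455479323838247862272, .ofNat 0, .ofNat 0, .ofNat 3134089129135201982469339002428646629916540928, .ofNat 5518756612501020870647955447640657370284032, .ofNat 0⟩)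
    (by decide +kernel)
theorem L02872 : Good (Phi V5.P V5.D (-1) (-1)) ⟨3, 7, 3, 2, 3, 6, 1, 1, 5, 3⟩ :=
  out_sound (S := T5.ds_mm) T5.ok_mm (w := 45) (j := 3) (by decide +kernel)
theorem L02873 : Good (Phi V5.P V5.D (-1) (-1)) ⟨4, 12, 3, 2, 3, 7, 3, 4, 6, 4⟩ :=
  leafX_sound T5.ok_mm T5.Ymm.bz_eq (w := 236) (c := ⟨⟨.negSucc 46, .negSucc 236, .ofNat 339, .negSucc 859, .negSucc 170, .negSucc 634⟩, ⟨.negSucc 96, .ofNat 37, .ofNat 12, .ofNat 378, .ofNat 58, .ofNat 246⟩, ⟨.ofNat 161, .ofNat 130, .negSucc 69, .ofNat 646, .ofNat 11, .ofNat 268⟩, ⟨.negSucc 401, .negSucc 413, .ofNat 580, .negSucc 1378, .negSucc 379, .negSucc 1195⟩, ⟨.negSucc 797, .negSucc 157, .ofNat 254, .negSucc 89, .negSucc 231, .negSucc 441⟩, .ofNat 813, .ofNat 1063, .ofNat 0, .ofNat 1063, .ofNat 2675, .ofNat 0, .ofNat 128, .negSucc 180, .negSucc 634, .ofNat 0, .ofNat 91, .ofNat 250, .ofNat 0, .ofNat 0,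 .ofNat 530, .ofNat 641, .ofNat 0, .ofNat 0, .ofNat 0, .ofNat 0, .ofNat 0, .ofNat 0, .ofNat 345765328203564328701206682025074829981384704, .ofNat 0, .ofNat 0, .ofNat 0, .ofNat 0, .ofNat 0, .ofNat 0, .ofNat 0, .ofNat 0, .ofNat 0⟩)
    (by decide +kernel)
theorem L02874 : Good (Phi V5.P V5.D (-1) (-1)) ⟨4, 12, 3, 2, 3, 7, 3, 4, 6, 5⟩ :=
  leafX_sound T5.ok_mm T5.Ymm.bz_eq (w := 237) (c := ⟨⟨.negSucc 1249, .negSucc 303, .ofNat 331, .negSucc 198, .ofNat 150, .negSucc 357⟩, ⟨.ofNat 349, .ofNat 74, .ofNat 69, .ofNat 91, .negSucc 65, .ofNat 130⟩, ⟨.ofNat 852, .ofNat 193, .negSucc 108, .ofNat 145, .negSucc 180, .ofNat 129⟩, ⟨.negSucc 2560, .negSucc 483, .ofNat 541, .negSucc 263, .ofNat 181, .negSucc 665⟩, ⟨.negSucc 1356, .negSucc 240, .ofNat 258, .ofNat 148, .negSucc 146, .negSucc 222⟩, .ofNat 806, .ofNat 1060, .ofNat 0, .ofNat 1060, .ofNat 2719, .ofNat 0, .ofNat 128, .negSucc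 330, .negSucc 680, .ofNat 0, .ofNat 168, .ofNat 264, .ofNat 0, .ofNat 0, .ofNat 600, .ofNat 1261, .ofNat 0, .ofNat 0, .ofNat 0, .ofNat 0, .ofNat 0, .ofNat 0, .ofNat 747874337854366027138466836653359811117711360, .ofNat 0, .ofNat 0, .ofNat 0, .ofNat 0, .ofNat 0, .ofNat 0, .ofNat 0, .ofNat 0, .ofNat 0⟩)
    (by decide +kernel)
theorem L02875 : Good (Phi V5.P V5.D (-1) (-1)) ⟨4, 12, 3, 2, 3, 7, 3, 5, 6, 4⟩ :=
  leafX_sound T5.ok_mm T5.Ymm.bz_eq (w := 237) (c := ⟨⟨.negSucc 730, .negSucc 322, .ofNat 303, .negSucc 238, .negSucc 46, .negSucc 351⟩, ⟨.ofNat 169, .ofNat 72, .ofNat 52, .ofNat 100, .ofNat 8, .ofNat 128⟩, ⟨.ofNat 544, .ofNat 159, .negSucc 72, .ofNat 201, .negSucc 92, .ofNat 114⟩, ⟨.negSucc 1611, .negSucc 537, .ofNat 494, .negSucc 368, .negSucc 178, .negSucc 698⟩, ⟨.negSucc 1126, .negSucc 183, .ofNat 238, .ofNat 26, .negSucc 225, .negSucc 326⟩, .ofNat 775, .ofNat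 982, .ofNat 0, .ofNat 982, .ofNat 2511, .ofNat 0, .ofNat 128, .negSucc 327, .negSucc 1084, .ofNat 0, .ofNat 167, .ofNat 419, .ofNat 0, .ofNat 0, .ofNat 890, .ofNat 1215, .ofNat 0, .ofNat 0, .ofNat 10722045351321221070269752367889490236145664, .ofNat 0, .ofNat 0, .ofNat 0, .ofNat 298104662619967648558660307682273243265236992, .ofNat 0, .ofNat 0, .ofNat 0, .ofNat 0, .ofNat 0, .ofNat 0, .ofNat 0, .ofNat 0, .ofNat 0⟩)
    (by decide +kernel)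
theorem L02876 : Good (Phi V5.P V5.D (-1) (-1)) ⟨4, 12, 3, 2, 3, 7, 3, 5, 6, 5⟩ :=
  leafX_sound T5.ok_mm T5.Ymm.bz_eq (w := 238) (c := ⟨⟨.negSucc 1448, .negSucc 177, .ofNat 262, .ofNat 149, .ofNat 125, .negSucc 188⟩, ⟨.ofNat 422, .ofNat 16, .ofNat 99, .negSucc 54, .negSucc 51, .ofNat 72⟩, ⟨.ofNat 905, .ofNat 77, .negSucc 63, .negSucc 57, .negSucc 181, .ofNat 21⟩, ⟨.negSucc 2929, .negSucc 292, .ofNat 399, .ofNat 277, .ofNat 178, .negSucc 348⟩, ⟨.negSucc 1503, .negSucc 231, .ofNat 181, .ofNat 97, .negSucc 40, .negSucc 99⟩, .ofNat 794, .ofNat 1032, .ofNat 0, .ofNat 1032, .ofNat 2653, .ofNat 0, .ofNat 128, .negSucc 428, .negSucc 911, .ofNat 0, .ofNat 216, .ofNat 352, .ofNat 0, .ofNat 0, .ofNat 786, .ofNat 1649, .ofNat 0, .ofNat 0, .ofNat 5610094583130726788459264979936633866420224, .ofNat 0, .ofNat 0, .ofNat 0, .ofNat 858798708413685866418022883106480122920697856, .ofNat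 0, .ofNat 0, .ofNat 0, .ofNat 0, .ofNat 0, .ofNat 0, .ofNat 0, .ofNat 0, .ofNat 0⟩)
    (by decide +kernel)
theorem L02877 : Good (Phi V5.P V5.D (-1) (-1)) ⟨5, 26, 4, 4, 3, 7, 2, 2, 5, 2⟩ :=
  out_sound (S := T5.ds_mm) T5.ok_mm (w := 59) (j := 3) (by decide +kernel)
theorem L02878 : Good (Phi V5.P V5.D (-1) (-1)) ⟨5, 26, 5, 10, 3, 7, 2, 2, 5, 2⟩ :=
  out_sound (S := T5.ds_mm) T5.ok_mm (w := 61) (j := 3) (by decide +kernel)
theorem L02879 : Good (Phi V5.P V5.D (-1) (-1)) ⟨5, 26, 5, 11, 3, 7, 3, 4, 5, 2⟩ :=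
  leafX_sound T5.ok_mm T5.Ymm.bz_eq (w := 244) (c := ⟨⟨.negSucc 411, .negSucc 77, .negSucc 21, .negSucc 462, .negSucc 4, .negSucc 955⟩, ⟨.ofNat 85, .ofNat 9, .ofNat 61, .ofNat 227, .negSucc 8, .ofNat 393⟩, ⟨.ofNat 510, .ofNat 55, .ofNat 52, .ofNat 375, .negSucc 108, .ofNat 329⟩, ⟨.negSucc 1076, .negSucc 30, .negSucc 23, .negSucc 629, .negSucc 95, .negSucc 1818⟩, ⟨.negSucc 980, .ofNat 118, .ofNat 67, .ofNat 175, .negSucc 186, .negSucc 745⟩, .ofNat 1153, .ofNat 1629, .ofNat 0, .ofNat 1629, .ofNat 3492, .ofNat 0, .ofNat 128, .negSucc 302, .negSucc 1067, .ofNat 0, .ofNat 162, .ofNat 473, .ofNat 0, .ofNat 0, .ofNat 868, .ofNat 1822, .ofNat 0, .ofNat 0, .ofNat 0, .ofNat 0, .ofNat 0, .ofNat 0, .ofNat 187892670619768515011773478765118846878613504, .ofNat 0, .ofNat 0, .ofNat 0, .ofNat 18812655730614741254527671798621939395723264, .ofNat 0, .ofNat 0, .ofNat 0, .ofNat 117548808149355970032402512513377740208996352,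 .ofNat 0⟩)
    (by decide +kernel)
theorem L02880 : Good (Phi V5.P V5.D (-1) (-1)) ⟨5, 26, 5, 11, 3, 7, 3, 5, 5, 2⟩ :=
  leafX_sound T5.ok_mm T5.Ymm.bz_eq (w := 243) (c := ⟨⟨.negSucc 978, .negSucc 471, .ofNat 53, .negSucc 12, .ofNat 31, .negSucc 407⟩, ⟨.ofNat 334, .ofNat 164, .ofNat 21, .ofNat 17, .negSucc 23, .ofNat 159⟩, ⟨.ofNat 766, .ofNat 230, .negSucc 10, .ofNat 92, .negSucc 149, .ofNat 15⟩, ⟨.negSucc 2046, .negSucc 825, .ofNat 39, .ofNat 48, .negSucc 10, .negSucc 817⟩, ⟨.negSucc 1222, .negSucc 324, .negSucc 22, .ofNat 152, .negSucc 115, .negSucc 385⟩, .ofNat 963, .ofNat 1221, .ofNat 0, .ofNat 1221, .ofNat 2593, .ofNat 0, .ofNat 128, .negSucc 312, .negSucc 1202, .ofNat 0, .ofNat 175, .ofNat 528, .ofNat 0, .ofNat 0, .ofNat 919, .ofNat 1556, .ofNat 0, .ofNat 0, .ofNat 501879793627976329630145894371960213733376, .ofNat 0, .ofNat 0, .ofNat 0, .ofNat 97592429001123995455124814381004351072108544,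 .ofNat 0, .ofNat 0, .ofNat 0, .ofNat 104410090091038467023255966125647333030887424, .ofNat 0, .ofNat 0, .ofNat 0, .ofNat 105105424327411003351513632952386622911938560, .ofNat 0⟩)
    (by decide +kernel)
theorem L02881 : Good (Phi V5.P V5.D (-1) (-1)) ⟨5, 27, 3, 2, 3, 7, 2, 2, 5, 2⟩ :=
  out_sound (S := T5.ds_mm) T5.ok_mm (w := 57) (j := 3) (by decide +kernel)
theorem L02882 : Good (Phi V5.P V5.D (-1) (-1)) ⟨3, 6, 3, 2, 3, 7, 3, 4, 5, 3⟩ :=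
  leafX_sound T5.ok_mm T5.Ymm.bz_eq (w := 229) (c := ⟨⟨.negSucc 2077, .negSucc 636, .ofNat 272, .ofNat 411, .ofNat 405, .negSucc 183⟩, ⟨.ofNat 648, .ofNat 170, .ofNat 128, .negSucc 150, .negSucc 164, .ofNat 73⟩, ⟨.ofNat 1306, .ofNat 364, .negSucc 99, .negSucc 249, .negSucc 337, .negSucc 40⟩, ⟨.negSucc 3982, .negSucc 983, .ofNat 394, .ofNat 741, .ofNat 618, .negSucc 356⟩, ⟨.negSucc 1604, .negSucc 473, .ofNat 124, .ofNat 203, .negSucc 39, .negSucc 94⟩, .ofNat 701, .ofNat 777, .ofNat 0, .ofNat 777, .ofNat 1865, .ofNat 0, .ofNat 128, .negSucc 291, .negSucc 523, .ofNat 0, .ofNat 177, .ofNat 219, .ofNat 0, .ofNat 0, .ofNat 487, .ofNat 1533, .ofNat 0, .ofNat 0, .ofNat 807598205087259664169050574020743916421120, .ofNat 0, .ofNat 0, .ofNat 0, .ofNat 45227881797818468629670378078154897024352256, .ofNat 0, .ofNat 0, .ofNat 0, .ofNat 85387760882433762904384697561765753506496512,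 .ofNat 0, .ofNat 0, .ofNat 0, .ofNat 201677439196045474014798436786285715912654848, .ofNat 0⟩)
    (by decide +kernel)
theorem L02883 : Good (Phi V5.P V5.D (-1) (-1)) ⟨3, 6, 3, 2, 3, 7, 3, 5, 5, 3⟩ :=
  leafX_sound T5.ok_mm T5.Ymm.bz_eq (w := 229) (c := ⟨⟨.negSucc 2015, .negSucc 236, .ofNat 187, .ofNat 604, .ofNat 355, .ofNat 23⟩, ⟨.ofNat 638, .negSucc 0, .ofNat 138, .negSucc 238, .negSucc 133, .negSucc 10⟩, ⟨.ofNat 1171, .ofNat 63, .negSucc 41, .negSucc 313, .negSucc 300, .negSucc 160⟩, ⟨.negSucc 3934, .negSucc 245, .ofNat 222, .ofNat 1021, .ofNat 569, .ofNat 114⟩, ⟨.negSucc 1763, .negSucc 170, .ofNat 53, .ofNat 179, .ofNat 51, .ofNat 201⟩, .ofNat 850, .ofNat 1054, .ofNat 0, .ofNat 1054, .ofNat 2429, .ofNat 0, .ofNat 128, .negSucc 269, .negSucc 453, .ofNat 0, .ofNat 158, .ofNat 190, .ofNat 0, .ofNat 0, .ofNat 422, .ofNat 1255, .ofNat 0, .ofNat 0, .ofNat 874489487006239077931203541243979498520576,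 .ofNat 0, .ofNat 0, .ofNat 0, .ofNat 74865264171900992866089825402565474444640256, .ofNat 0, .ofNat 0, .ofNat 0, .ofNat 127643332216856806584911721171645939650134016, .ofNat 0, .ofNat 0, .ofNat 0, .ofNat 148421788728086395041680359994738677970370560, .ofNat 0⟩)
    (by decide +kernel)
theorem L02884 : Good (Phi V5.P V5.D (-1) (-1)) ⟨3, 7, 3, 2, 3, 7, 2, 2, 4, 1⟩ :=
  out_sound (S := T5.ds_mm) T5.ok_mm (w := 45) (j := 3) (by decide +kernel)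
theorem L02885 : Good (Phi V5.P V5.D (-1) (-1)) ⟨4, 12, 3, 2, 3, 7, 3, 6, 5, 2⟩ :=
  leafX_sound T5.ok_mm T5.Ymm.bz_eq (w := 232) (c := ⟨⟨.negSucc 1519, .ofNat 50, .ofNat 110, .ofNat 371, .ofNat 272, .negSucc 25⟩, ⟨.ofNat 463, .negSucc 66, .ofNat 134, .negSucc 141, .negSucc 103, .ofNat 7⟩, ⟨.ofNat 931, .negSucc 77, .ofNat 23, .negSucc 164, .negSucc 291, .negSucc 153⟩, ⟨.negSucc 3050, .ofNat 45, .ofNat 235, .ofNat 657, .ofNat 480, .negSucc 97⟩, ⟨.negSucc 1550, .negSucc 249, .ofNat 360, .ofNat 167, .ofNat 149, .negSucc 128⟩, .ofNat 800, .ofNat 1040, .ofNat 0, .ofNat 1040, .ofNat 2649, .ofNat 0, .ofNat 128, .negSucc 175, .negSucc 541, .ofNat 0, .ofNat 87, .ofNat 210, .ofNat 0, .ofNat 0, .ofNat 449, .ofNat 521, .ofNat 0, .ofNat 0, .ofNat 83978122828101544034145513907259317420032, .ofNat 0, .ofNat 0, .ofNat 0, .ofNat 12158814965861134102884571179429345712144384, .ofNat 0,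 .ofNat 0, .ofNat 0, .ofNat 1524622174061269395445530628744690637209600, .ofNat 0, .ofNat 0, .ofNat 0, .ofNat 0, .ofNat 0⟩)
    (by decide +kernel)
theorem L02886 : Good (Phi V5.P V5.D (-1) (-1)) ⟨4, 12, 3, 2, 3, 7, 3, 7, 5, 2⟩ :=
  leafX_sound T5.ok_mm T5.Ymm.bz_eq (w := 231) (c := ⟨⟨.negSucc 1421, .ofNat 124, .ofNat 42, .ofNat 422, .ofNat 481, .ofNat 154⟩, ⟨.ofNat 433, .negSucc 97, .ofNat 124, .negSucc 153, .negSucc 156, .negSucc 44⟩, ⟨.ofNat 722, .negSucc 133, .ofNat 55, .negSucc 188, .negSucc 465, .negSucc 216⟩, ⟨.negSucc 2941, .ofNat 218, .ofNat 26, .ofNat 800, .ofNat 1048, .ofNat 377⟩, ⟨.negSucc 1642, .negSucc 87, .ofNat 87, .ofNat 299, .ofNat 689, .ofNat 326⟩, .ofNat 800, .ofNat 1040, .ofNat 0, .ofNat 1040, .ofNat 2649, .ofNat 0, .ofNat 128, .negSucc 219, .negSucc 372, .ofNat 0, .ofNat 109, .ofNat 143, .ofNat 0, .ofNat 0, .ofNat 318, .ofNat 215, .ofNat 0, .ofNat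 0, .ofNat 0, .ofNat 0, .ofNat 0, .ofNat 0, .ofNat 22325420350217277584345156575819609944358912, .ofNat 0, .ofNat 0, .ofNat 0, .ofNat 0, .ofNat 0, .ofNat 0, .ofNat 0, .ofNat 0, .ofNat 0⟩)
    (by decide +kernel)
theorem L02887 : Good (Phi V5.P V5.D (-1) (-1)) ⟨4, 12, 3, 2, 3, 7, 2, 3, 5, 3⟩ :=
  leafX_sound T5.ok_mm T5.Ymm.bz_eq (w := 227) (c := ⟨⟨.negSucc 1751, .ofNat 100, .ofNat 52, .ofNat 579, .ofNat 864, .ofNat 104⟩, ⟨.ofNat 551, .negSucc 91, .ofNat 147, .negSucc 223, .negSucc 295, .negSucc 25⟩, ⟨.ofNat 883, .negSucc 89, .ofNat 25, .negSucc 250, .negSucc 747, .negSucc 164⟩, ⟨.negSucc 3573, .ofNat 200, .ofNat 52, .ofNat 1075, .ofNat 1883, .ofNat 254⟩, ⟨.negSucc 1841, .negSucc 76, .ofNat 124, .ofNat 324, .ofNat 1158, .ofNat 208⟩, .ofNat 537, .ofNat 516, .ofNat 0, .ofNat 516, .ofNat 1451, .ofNat 0, .ofNat 128, .negSucc 155, .negSucc 298, .ofNat 0, .ofNat 86, .ofNat 107,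 .ofNat 0, .ofNat 0, .ofNat 274, .ofNat 258, .ofNat 0, .ofNat 0, .ofNat 0, .ofNat 0, .ofNat 0, .ofNat 1835019610541667041933405418080884180499038208, .ofNat 233579626487671036305903142109386098343936, .ofNat 0, .ofNat 0, .ofNat 1001742674623262060278597635491432670192205824, .ofNat 0, .ofNat 0, .ofNat 0, .ofNat 0, .ofNat 0, .ofNat 0⟩)
    (by decide +kernel)
theorem L02888 : Good (Phi V5.P V5.D (-1) (-1)) ⟨4, 13, 3, 2, 3, 7, 3, 6, 4, 1⟩ :=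
  leafX_sound T5.ok_mm T5.Ymm.bz_eq (w := 228) (c := ⟨⟨.negSucc 1849, .ofNat 332, .ofNat 228, .ofNat 598, .ofNat 354, .ofNat 98⟩, ⟨.ofNat 550, .negSucc 237, .ofNat 95, .negSucc 253, .negSucc 145, .negSucc 33⟩, ⟨.ofNat 1040, .negSucc 159, .negSucc 22, .negSucc 261, .negSucc 351, .negSucc 371⟩, ⟨.negSucc 3694, .ofNat 473, .ofNat 419, .ofNat 1079, .ofNat 660, .ofNat 195⟩, ⟨.negSucc 2008, .negSucc 130, .ofNat 345, .ofNat 342, .ofNat 250, .ofNat 101⟩, .ofNat 1116, .ofNat 1558, .ofNat 0, .ofNat 1558, .ofNat 3356, .ofNat 0, .ofNat 128, .negSucc 283, .negSucc 397, .ofNat 0, .ofNat 152, .ofNat 176, .ofNat 0, .ofNat 0, .ofNat 352, .ofNat 664, .ofNat 0, .ofNat 0, .ofNat 8241084192791564571197857186588288614400, .ofNat 0, .ofNat 0, .ofNat 0, .ofNat 2272674991157930430194283163385833401090048, .ofNat 0, .ofNat 0, .ofNat 0, .ofNat 576796345255595089200388516267320078761984, .ofNat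 0, .ofNat 0, .ofNat 0, .ofNat 886283138312096938681060278016388309712896, .ofNat 0⟩)
    (by decide +kernel)
theorem L02889 : Good (Phi V5.P V5.D (-1) (-1)) ⟨4, 13, 3, 2, 3, 7, 3, 7, 4, 1⟩ :=
  leafX_sound T5.ok_mm T5.Ymm.bz_eq (w := 227) (c := ⟨⟨.negSucc 1177, .ofNat 201, .negSucc 147, .ofNat 449, .ofNat 560, .ofNat 460⟩, ⟨.ofNat 296, .negSucc 163, .ofNat 215, .negSucc 182, .negSucc 215, .negSucc 162⟩, ⟨.ofNat 443, .negSucc 253, .ofNat 237, .negSucc 168, .negSucc 515, .negSucc 473⟩, ⟨.negSucc 2577, .ofNat 303, .negSucc 218, .ofNat 861, .ofNat 1155, .ofNat 1033⟩, ⟨.negSucc 1761, .negSucc 40, .ofNat 151, .ofNat 363, .ofNat 630, .ofNat 695⟩, .ofNat 1160, .ofNat 1641, .ofNat 0, .ofNat 1641, .ofNat 3516, .ofNat 0, .ofNat 128, .negSucc 243, .negSucc 303, .ofNat 0, .ofNat 130, .ofNat 132, .ofNat 0, .ofNat 0, .ofNat 274, .ofNat 437, .ofNat 0, .ofNat 0, .ofNat 0, .ofNat 0, .ofNat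 0, .ofNat 2049434145807323103890767356630630998963388416, .ofNat 6915530361935715586423899166594497406566400, .ofNat 0, .ofNat 0, .ofNat 2634870895129861235093824361438213334252912640, .ofNat 480557149066464634701738046702139104821248, .ofNat 0, .ofNat 0, .ofNat 0, .ofNat 2942566915319067527500950095298757753044992, .ofNat 0⟩)
    (by decide +kernel)
theorem L02890 : Good (Phi V5.P V5.D (-1) (-1)) ⟨3, 7, 3, 2, 3, 7, 2, 3, 4, 1⟩ :=
  out_sound (S := T5.ds_mm) T5.ok_mm (w := 45) (j := 3) (by decide +kernel)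
theorem L02891 : Good (Phi V5.P V5.D (-1) (-1)) ⟨3, 4, 3, 2, 2, 2, 1, 1, 3, 1⟩ :=
  out_sound (S := T5.ds_mm) T5.ok_mm (w := 45) (j := 3) (by decide +kernel)
theorem L02892 : Good (Phi V5.P V5.D (-1) (-1)) ⟨4, 10, 3, 2, 2, 2, 1, 1, 4, 2⟩ :=
  out_sound (S := T5.ds_mm) T5.ok_mm (w := 51) (j := 3) (by decide +kernel)
theorem L02893 : Good (Phi V5.P V5.D (-1) (-1)) ⟨4, 11, 3, 2, 2, 2, 2, 2, 4, 2⟩ :=
  leafX_sound T5.ok_mm T5.Ymm.bz_eq (w := 210) (c := ⟨⟨.negSucc 2873, .negSucc 489, .ofNat 292, .ofNat 175, .ofNat 436, .ofNat 316⟩, ⟨.ofNat 895, .ofNat 249, .ofNat 138, .negSucc 78, .negSucc 141, .negSucc 103⟩, ⟨.ofNat 2092, .ofNat 343, .negSucc 235, .negSucc 509, .negSucc 425, .negSucc 308⟩, ⟨.negSucc 5322, .negSucc 529, .ofNat 381, .ofNat 98, .ofNat 834, .ofNat 613⟩, ⟨.negSucc 689, .ofNat 20, .negSucc 151, .negSucc 579, .ofNat 245, .ofNat 271⟩, .ofNat 595, .ofNat 697, .ofNat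 0, .ofNat 697, .ofNat 2226, .ofNat 0, .ofNat 128, .negSucc 184, .negSucc 265, .ofNat 0, .ofNat 96, .ofNat 96, .ofNat 0, .ofNat 0, .ofNat 435, .ofNat 1051, .ofNat 0, .ofNat 0, .ofNat 0, .ofNat 0, .ofNat 0, .ofNat 0, .ofNat 0, .ofNat 0, .ofNat 0, .ofNat 0, .ofNat 1627412127539077348502374758674857984, .ofNat 0, .ofNat 0, .ofNat 0, .ofNat 0, .ofNat 0⟩)
    (by decide +kernel)
theorem L02894 : Good (Phi V5.P V5.D (-1) (-1)) ⟨4, 11, 3, 2, 2, 2, 2, 3, 4, 2⟩ :=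
  leafX_sound T5.ok_mm T5.Ymm.bz_eq (w := 209) (c := ⟨⟨.negSucc 2519, .negSucc 352, .ofNat 202, .ofNat 236, .ofNat 844, .ofNat 381⟩, ⟨.ofNat 783, .ofNat 195, .ofNat 123, .negSucc 91, .negSucc 270, .negSucc 121⟩, ⟨.ofNat 1761, .ofNat 242, .negSucc 182, .negSucc 535, .negSucc 832, .negSucc 470⟩, ⟨.negSucc 4647, .negSucc 397, .ofNat 334, .ofNat 225, .ofNat 1770, .ofNat 798⟩, ⟨.negSucc 554, .negSucc 95, .ofNat 4, .negSucc 446, .ofNat 842, .ofNat 430⟩, .ofNat 595, .ofNat 697, .ofNat 0, .ofNat 697, .ofNat 2226, .ofNat 0, .ofNat 128, .negSucc 203, .negSucc 430, .ofNat 0, .ofNat 107, .ofNat 149, .ofNat 0, .ofNat 0, .ofNat 643, .ofNat 185, .ofNat 0, .ofNat 0, .ofNat 0, .ofNat 0, .ofNat 0, .ofNat 65588868896116211603053376938141634527232, .ofNat 0, .ofNat 0, .ofNat 0, .ofNat 76533479130294456160142417634623884361728, .ofNat 1583221992536781583393911698351980544, .ofNat 0, .ofNat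 0, .ofNat 0, .ofNat 0, .ofNat 0⟩)
    (by decide +kernel)
theorem L02895 : Good (Phi V5.P V5.D (-1) (-1)) ⟨4, 10, 3, 2, 2, 2, 1, 1, 4, 3⟩ :=
  out_sound (S := T5.ds_mm) T5.ok_mm (w := 51) (j := 3) (by decide +kernel)
theorem L02896 : Good (Phi V5.P V5.D (-1) (-1)) ⟨4, 11, 3, 2, 2, 2, 2, 2, 4, 3⟩ :=
  leafX_sound T5.ok_mm T5.Ymm.bz_eq (w := 210) (c := ⟨⟨.negSucc 2698, .negSucc 220, .negSucc 20, .ofNat 302, .ofNat 433, .ofNat 439⟩, ⟨.ofNat 843, .ofNat 151, .ofNat 207, .negSucc 114, .negSucc 138, .negSucc 147⟩, ⟨.ofNat 2039, .ofNat 139, .negSucc 67, .negSucc 752, .negSucc 557, .negSucc 395⟩, ⟨.negSucc 4973, .negSucc 114, .negSucc 89, .ofNat 359, .ofNat 870, .ofNat 806⟩, ⟨.negSucc 571, .negSucc 1, .negSucc 29, .negSucc 459, .ofNat 373, .ofNat 169⟩, .ofNat 534, .ofNat 540, .ofNat 0, .ofNat 540, .ofNat 1842, .ofNat 0, .ofNat 128, .negSucc 222, .negSucc 221, .ofNat 0, .ofNat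 138, .ofNat 78, .ofNat 0, .ofNat 0, .ofNat 645, .ofNat 1175, .ofNat 0, .ofNat 0, .ofNat 0, .ofNat 0, .ofNat 0, .ofNat 0, .ofNat 131445380734373482535011801995673600, .ofNat 0, .ofNat 0, .ofNat 0, .ofNat 0, .ofNat 0, .ofNat 0, .ofNat 0, .ofNat 0, .ofNat 0⟩)
    (by decide +kernel)
theorem L02897 : Good (Phi V5.P V5.D (-1) (-1)) ⟨4, 11, 3, 2, 2, 2, 2, 3, 4, 3⟩ :=
  leafX_sound T5.ok_mm T5.Ymm.bz_eq (w := 208) (c := ⟨⟨.negSucc 2185, .negSucc 176, .ofNat 67, .ofNat 260, .ofNat 683, .ofNat 306⟩, ⟨.ofNat 676, .ofNat 141, .ofNat 128, .negSucc 91, .negSucc 205, .negSucc 95⟩, ⟨.ofNat 1484, .ofNat 63, .negSucc 113, .negSucc 723, .negSucc 824, .negSucc 428⟩, ⟨.negSucc 4021, .negSucc 70, .ofNat 72, .ofNat 412, .ofNat 1510, .ofNat 666⟩, ⟨.negSucc 403, .negSucc 30, .negSucc 71, .negSucc 91, .ofNat 997, .ofNat 432⟩, .ofNat 853, .ofNat 1337, .ofNat 0, .ofNat 1337, .ofNat 4122, .ofNat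 0, .ofNat 128, .negSucc 232, .negSucc 162, .ofNat 0, .ofNat 113, .ofNat 55, .ofNat 0, .ofNat 0, .ofNat 488, .ofNat 149, .ofNat 0, .ofNat 0, .ofNat 0, .ofNat 0, .ofNat 0, .ofNat 185157172270221806810958433585592212127744, .ofNat 0, .ofNat 0, .ofNat 0, .ofNat 354413483216880213137166358452012809453568, .ofNat 681511351236923529376643854922416128, .ofNat 0, .ofNat 0, .ofNat 0, .ofNat 0, .ofNat 0⟩)
    (by decide +kernel)
theorem L02898 : Good (Phi V5.P V5.D (-1) (-1)) ⟨4, 12, 3, 2, 2, 2, 2, 2, 4, 2⟩ :=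
  leafX_sound T5.ok_mm T5.Ymm.bz_eq (w := 209) (c := ⟨⟨.negSucc 3713, .negSucc 576, .ofNat 210, .ofNat 263, .ofNat 628, .ofNat 722⟩, ⟨.ofNat 1332, .ofNat 326, .ofNat 180, .negSucc 153, .negSucc 259, .negSucc 296⟩, ⟨.ofNat 2829, .ofNat 394, .negSucc 198, .negSucc 703, .negSucc 579, .negSucc 638⟩, ⟨.negSucc 6292, .negSucc 605, .ofNat 258, .ofNat 131, .ofNat 1052, .ofNat 1229⟩, ⟨.negSucc 555, .ofNat 1, .negSucc 101, .negSucc 684, .ofNat 140, .ofNat 250⟩, .ofNat 671, .ofNat 778, .ofNat 0, .ofNat 778, .ofNat 2066, .ofNat 0, .ofNat 128, .negSucc 204, .negSucc 269, .ofNat 0, .ofNat 124, .ofNat 115, .ofNat 0, .ofNat 0, .ofNat 417, .ofNat 563, .ofNat 0, .ofNat 0, .ofNat 81275655082299382333909660982050816, .ofNat 0, .ofNat 0, .ofNat 0, .ofNat 1118975839992457890165938224713695232, .ofNat 0, .ofNat 0, .ofNat 0, .ofNat 0, .ofNat 0, .ofNat 0, .ofNat 0, .ofNat 3935562173591570110237045388677742592,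 .ofNat 0⟩)
    (by decide +kernel)
theorem L02899 : Good (Phi V5.P V5.D (-1) (-1)) ⟨4, 12, 3, 2, 2, 2, 2, 3, 5, 4⟩ :=
  leafX_sound T5.ok_mm T5.Ymm.bz_eq (w := 214) (c := ⟨⟨.negSucc 3003, .negSucc 663, .ofNat 217, .ofNat 244, .ofNat 1038, .ofNat 341⟩, ⟨.ofNat 1056, .ofNat 357, .ofNat 140, .negSucc 139, .negSucc 396, .negSucc 128⟩, ⟨.ofNat 2181, .ofNat 480, .negSucc 193, .negSucc 627, .negSucc 1046, .negSucc 366⟩, ⟨.negSucc 5120, .negSucc 764, .ofNat 276, .ofNat 142, .ofNat 1975, .ofNat 612⟩, ⟨.negSucc 410, .negSucc 5, .negSucc 101, .negSucc 637, .ofNat 810, .ofNat 149⟩, .ofNat 691, .ofNat 816, .ofNat 0, .ofNat 816, .ofNat 2127, .ofNat 0, .ofNat 128, .negSucc 198, .negSucc 416, .ofNat 0, .ofNat 119, .ofNat 174, .ofNat 0, .ofNat 0, .ofNat 535, .ofNat 179, .ofNat 0, .ofNat 0, .ofNat 1466395898729118769148406682989101056, .ofNat 0, .ofNat 0, .ofNat 417834009727169520649241084331597347422208,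 .ofNat 21324164318782591326267457135016148992, .ofNat 0, .ofNat 0, .ofNat 0, .ofNat 0, .ofNat 0, .ofNat 0, .ofNat 1621100357366192057983782987661868181487616, .ofNat 39520508709292699136382323244201410560, .ofNat 0⟩)
    (by decide +kernel)
theorem L02900 : Good (Phi V5.P V5.D (-1) (-1)) ⟨4, 12, 3, 2, 2, 2, 2, 3, 5, 5⟩ :=
  leafX_sound T5.ok_mm T5.Ymm.bz_eq (w := 213) (c := ⟨⟨.negSucc 2841, .negSucc 363, .ofNat 92, .ofNat 381, .ofNat 1045, .ofNat 398⟩, ⟨.ofNat 1012, .ofNat 240, .ofNat 149, .negSucc 182, .negSucc 389, .negSucc 158⟩, ⟨.ofNat 2017, .ofNat 214, .negSucc 102, .negSucc 794, .negSucc 1111, .negSucc 394⟩, ⟨.negSucc 4822, .negSucc 343, .ofNat 135, .ofNat 404, .ofNat 2076, .ofNat 700⟩, ⟨.negSucc 353, .negSucc 42, .negSucc 1, .negSucc 553, .ofNat 1018, .ofNat 159⟩, .ofNat 541, .ofNat 521, .ofNat 0, .ofNat 521, .ofNat 1441, .ofNat 0, .ofNat 128, .negSucc 152, .negSucc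 236, .ofNat 0, .ofNat 102, .ofNat 96, .ofNat 0, .ofNat 0, .ofNat 371, .ofNat 249, .ofNat 0, .ofNat 0, .ofNat 0, .ofNat 0, .ofNat 0, .ofNat 887350355202207790946391781815197869539328, .ofNat 35997024070013683391639019535539896320, .ofNat 0, .ofNat 0, .ofNat 713315225327776782426090797794504065679360, .ofNat 9953178586366113702870557237622865920, .ofNat 0, .ofNat 0, .ofNat 1706269764970662652783367522498141640196096, .ofNat 20533571939034236520223340660137132032, .ofNat 0⟩)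
    (by decide +kernel)
theorem L02901 : Good (Phi V5.P V5.D (-1) (-1)) ⟨5, 26, 3, 2, 2, 2, 2, 2, 4, 2⟩ :=
  leafX_sound T5.ok_mm T5.Ymm.bz_eq (w := 214) (c := ⟨⟨.negSucc 4095, .negSucc 426, .negSucc 119, .ofNat 179, .ofNat 705, .ofNat 841⟩, ⟨.ofNat 1613, .ofNat 255, .ofNat 335, .negSucc 146, .negSucc 323, .negSucc 386⟩, ⟨.ofNat 3087, .ofNat 316, .ofNat 80, .negSucc 674, .negSucc 610, .negSucc 756⟩, ⟨.negSucc 6401, .negSucc 407, .negSucc 292, .negSucc 124, .ofNat 1108, .ofNat 1330⟩, ⟨.negSucc 271, .ofNat 130, .negSucc 130, .negSucc 863, .ofNat 54, .ofNat 75⟩, .ofNat 1031, .ofNat 1397, .ofNat 0, .ofNat 1397, .ofNat 3036, .ofNat 0, .ofNat 128, .negSucc 456, .negSucc 619, .ofNat 0, .ofNat 281, .ofNat 304, .ofNat 0, .ofNat 0, .ofNat 861, .ofNat 623, .ofNat 0, .ofNat 0, .ofNat 49418368793147891636497445174640640, .ofNat 0, .ofNat 0, .ofNat 0, .ofNat 5473607410137102706673406647564500992,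 .ofNat 0, .ofNat 0, .ofNat 0, .ofNat 1999768886768918203646194502779011072, .ofNat 0, .ofNat 0, .ofNat 0, .ofNat 2726188911164109931046951254147203072, .ofNat 0⟩)
    (by decide +kernel)
theorem L02902 : Good (Phi V5.P V5.D (-1) (-1)) ⟨5, 26, 3, 2, 2, 2, 2, 3, 5, 4⟩ :=
  leafX_sound T5.ok_mm T5.Ymm.bz_eq (w := 219) (c := ⟨⟨.negSucc 4001, .negSucc 243, .ofNat 322, .ofNat 328, .ofNat 1553, .ofNat 577⟩, ⟨.ofNat 1620, .ofNat 152, .ofNat 78, .negSucc 213, .negSucc 685, .negSucc 258⟩, ⟨.ofNat 3038, .ofNat 142, .negSucc 325, .negSucc 757, .negSucc 1474, .negSucc 589⟩, ⟨.negSucc 6204, .negSucc 216, .ofNat 350, .ofNat 131, .ofNat 2608, .ofNat 944⟩, ⟨.negSucc 181, .negSucc 30, .negSucc 197, .negSucc 797, .ofNat 476, .ofNat 123⟩, .ofNat 1143, .ofNat 1608, .ofNat 0, .ofNat 1608, .ofNat 3447, .ofNat 0, .ofNat 128, .negSucc 220, .negSucc 719, .ofNat 0, .ofNat 135, .ofNat 342, .ofNat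 0, .ofNat 0, .ofNat 870, .ofNat 189, .ofNat 0, .ofNat 0, .ofNat 457117609140361853010075491237888000, .ofNat 0, .ofNat 0, .ofNat 15092739418876799849049783301932908271370240, .ofNat 168704396631672744996835237102905982976, .ofNat 0, .ofNat 0, .ofNat 2728606188599174933127254943969014636871680, .ofNat 56965325787476989767090070509026541568, .ofNat 0, .ofNat 0, .ofNat 0, .ofNat 0, .ofNat 0⟩)
    (by decide +kernel)
theorem L02903 : Good (Phi V5.P V5.D (-1) (-1)) ⟨5, 26, 3, 2, 2, 2, 2, 3, 5, 5⟩ :=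
  leafX_sound T5.ok_mm T5.Ymm.bz_eq (w := 219) (c := ⟨⟨.negSucc 3037, .ofNat 92, .negSucc 115, .ofNat 452, .ofNat 1250, .ofNat 357⟩, ⟨.ofNat 1196, .negSucc 28, .ofNat 257, .negSucc 258, .negSucc 521, .negSucc 152⟩, ⟨.ofNat 2278, .ofNat 48, .negSucc 82, .negSucc 897, .negSucc 1306, .negSucc 387⟩, ⟨.negSucc 4890, .ofNat 153, .negSucc 134, .ofNat 396, .ofNat 2297, .ofNat 637⟩, ⟨.negSucc 478, .negSucc 247, .ofNat 137, .negSucc 640, .ofNat 803, .ofNat 186⟩, .ofNat 1119, .ofNat 1562, .ofNat 0, .ofNat 1562, .ofNat 3358, .ofNat 0, .ofNat 128, .negSucc 241, .negSucc 381, .ofNat 0, .ofNat 150, .ofNat 181, .ofNat 0, .ofNat 0, .ofNat 598, .ofNat 375, .ofNat 0, .ofNat 0, .ofNat 0, .ofNat 0, .ofNat 0, .ofNat 26595583604410034810396353418147059839533056, .ofNat 188340965050493995397329330969138692096, .ofNat 0, .ofNat 0, .ofNat 27725573331993580011194526243748360065384448, .ofNat 103108980270308705425447306952349581312,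 .ofNat 0, .ofNat 0, .ofNat 0, .ofNat 77418097024742221363183602034242748416, .ofNat 0⟩)
    (by decide +kernel)
theorem L02904 : Good (Phi V5.P V5.D (-1) (-1)) ⟨5, 27, 3, 2, 2, 2, 1, 1, 4, 2⟩ :=
  out_sound (S := T5.ds_mm) T5.ok_mm (w := 57) (j := 3) (by decide +kernel)
theorem L02905 : Good (Phi V5.P V5.D (-1) (-1)) ⟨3, 6, 3, 2, 2, 2, 2, 2, 4, 3⟩ :=
  leafX_sound T5.ok_mm T5.Ymm.bz_eq (w := 205) (c := ⟨⟨.negSucc 3131, .negSucc 675, .ofNat 82, .ofNat 426, .ofNat 552, .ofNat 689⟩, ⟨.ofNat 1110, .ofNat 416, .ofNat 190, .negSucc 207, .negSucc 203, .negSucc 281⟩, ⟨.ofNat 2405, .ofNat 442, .negSucc 130, .negSucc 919, .negSucc 641, .negSucc 628⟩, ⟨.negSucc 5329, .negSucc 555, .ofNat 66, .ofNat 447, .ofNat 1013, .ofNat 1160⟩, ⟨.negSucc 481, .negSucc 87, .negSucc 36, .negSucc 561, .ofNat 282, .ofNat 183⟩, .ofNat 543, .ofNat 525, .ofNat 0, .ofNat 525, .ofNat 1447, .ofNat 0, .ofNat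 128, .negSucc 146, .negSucc 86, .ofNat 0, .ofNat 102, .ofNat 38, .ofNat 0, .ofNat 0, .ofNat 226, .ofNat 444, .ofNat 0, .ofNat 0, .ofNat 96725390359195438043734971491811328, .ofNat 0, .ofNat 0, .ofNat 0, .ofNat 3294853425145142148532230118843613184, .ofNat 0, .ofNat 0, .ofNat 0, .ofNat 9601388990701061270687338877931225088, .ofNat 0, .ofNat 0, .ofNat 0, .ofNat 6008813684812235104892410146607595520, .ofNat 0⟩)
    (by decide +kernel)
theorem L02906 : Good (Phi V5.P V5.D (-1) (-1)) ⟨3, 6, 3, 2, 2, 2, 2, 3, 4, 3⟩ :=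
  leafX_sound T5.ok_mm T5.Ymm.bz_eq (w := 203) (c := ⟨⟨.negSucc 2522, .negSucc 405, .ofNat 52, .ofNat 399, .ofNat 796, .ofNat 442⟩, ⟨.ofNat 894, .ofNat 338, .ofNat 143, .negSucc 171, .negSucc 256, .negSucc 174⟩, ⟨.ofNat 1805, .negSucc 13, .negSucc 56, .negSucc 970, .negSucc 945, .negSucc 591⟩, ⟨.negSucc 4328, .negSucc 110, .ofNat 37, .ofNat 589, .ofNat 1694, .ofNat 863⟩, ⟨.negSucc 437, .ofNat 195, .negSucc 88, .negSucc 116, .ofNat 1011, .ofNat 390⟩, .ofNat 543, .ofNat 527, .ofNat 0, .ofNat 527, .ofNat 1461, .ofNat 0, .ofNat 128, .negSucc 146, .negSucc 84, .ofNat 0, .ofNat 101, .ofNat 34, .ofNat 0, .ofNat 0, .ofNat 254, .ofNat 69, .ofNat 0, .ofNat 0, .ofNat 0, .ofNat 0, .ofNat 0, .ofNat 0, .ofNat 6129798976876952629045177613832683520, .ofNat 0, .ofNat 0, .ofNat 9749268370456556084500011553945615859712, .ofNat 7735701585822399496101305416509554688, .ofNat 0, .ofNat 0,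 .ofNat 4367580735287619363533547527514741538816, .ofNat 1034055689979274545766567813868158976, .ofNat 0⟩)
    (by decide +kernel)
theorem L02907 : Good (Phi V5.P V5.D (-1) (-1)) ⟨3, 7, 3, 2, 2, 2, 1, 1, 3, 1⟩ :=
  out_sound (S := T5.ds_mm) T5.ok_mm (w := 45) (j := 3) (by decide +kernel)
theorem L02908 : Good (Phi V5.P V5.D (-1) (-1)) ⟨3, 4, 3, 2, 2, 3, 2, 2, 4, 2⟩ :=
  out_sound (S := T5.ds_mm) T5.ok_mm (w := 45) (j := 3) (by decide +kernel)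
theorem L02909 : Good (Phi V5.P V5.D (-1) (-1)) ⟨3, 5, 3, 2, 3, 6, 2, 2, 5, 4⟩ :=
  leafX_sound T5.ok_mm T5.Ymm.bz_eq (w := 224) (c := ⟨⟨.negSucc 2374, .negSucc 601, .ofNat 131, .ofNat 665, .ofNat 507, .ofNat 50⟩, ⟨.ofNat 697, .ofNat 263, .ofNat 200, .negSucc 235, .negSucc 162, .negSucc 9⟩, ⟨.ofNat 1435, .ofNat 374, .negSucc 96, .negSucc 494, .negSucc 476, .negSucc 134⟩, ⟨.negSucc 4808, .negSucc 709, .ofNat 157, .ofNat 1053, .ofNat 978, .ofNat 142⟩, ⟨.negSucc 1204, .negSucc 268, .ofNat 29, .negSucc 256, .ofNat 320, .ofNat 165⟩, .ofNat 534, .ofNat 540, .ofNat 0, .ofNat 540, .ofNat 1856, .ofNat 0, .ofNat 130, .negSucc 127, .negSucc 341, .ofNat 0, .ofNat 70, .ofNat 115, .ofNat 0, .ofNat 0, .ofNat 442, .ofNat 814, .ofNat 0, .ofNat 0, .ofNat 0, .ofNat 0, .ofNat 0, .ofNat 0, .ofNat 0, .ofNat 0, .ofNat 0, .ofNat 0, .ofNat 4220858576642406211762621089167309883310080, .ofNat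 0, .ofNat 0, .ofNat 0, .ofNat 0, .ofNat 0⟩)
    (by decide +kernel)
theorem L02910 : Good (Phi V5.P V5.D (-1) (-1)) ⟨3, 5, 3, 2, 3, 7, 2, 2, 5, 4⟩ :=
  leafX_sound T5.ok_mm T5.Ymm.bz_eq (w := 224) (c := ⟨⟨.negSucc 1997, .negSucc 199, .ofNat 129, .ofNat 447, .ofNat 559, .ofNat 83⟩, ⟨.ofNat 612, .ofNat 59, .ofNat 164, .negSucc 147, .negSucc 181, .negSucc 19⟩, ⟨.ofNat 1144, .ofNat 95, .negSucc 66, .negSucc 270, .negSucc 485, .negSucc 157⟩, ⟨.negSucc 4194, .negSucc 117, .ofNat 109, .ofNat 849, .ofNat 1084, .ofNat 186⟩, ⟨.negSucc 1610, .negSucc 197, .negSucc 17, .ofNat 268, .ofNat 373, .ofNat 112⟩, .ofNat 859, .ofNat 1354, .ofNat 0, .ofNat 1354, .ofNat 4170, .ofNat 0, .ofNat 128, .negSucc 282, .negSucc 255, .ofNat 0, .ofNat 129, .ofNat 86, .ofNat 0, .ofNat 0, .ofNat 381, .ofNat 839, .ofNat 0, .ofNat 0, .ofNat 4188031153816838817198547512373255602176, .ofNat 0, .ofNat 0, .ofNat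 0, .ofNat 0, .ofNat 0, .ofNat 0, .ofNat 0, .ofNat 0, .ofNat 0, .ofNat 0, .ofNat 0, .ofNat 0, .ofNat 0⟩)
    (by decide +kernel)
theorem L02911 : Good (Phi V5.P V5.D (-1) (-1)) ⟨3, 5, 3, 2, 2, 3, 2, 2, 5, 5⟩ :=
  leafX_sound T5.ok_mm T5.Ymm.bz_eq (w := 210) (c := ⟨⟨.negSucc 2561, .negSucc 155, .ofNat 74, .ofNat 1099, .ofNat 508, .ofNat 173⟩, ⟨.ofNat 780, .ofNat 94, .ofNat 195, .negSucc 382, .negSucc 159, .negSucc 52⟩, ⟨.ofNat 1501, .ofNat 16, .negSucc 74, .negSucc 737, .negSucc 502, .negSucc 186⟩, ⟨.negSucc 5129, .ofNat 26, .ofNat 48, .ofNat 1873, .ofNat 1042, .ofNat 391⟩, ⟨.negSucc 1399, .negSucc 140, .negSucc 29, .negSucc 2, .ofNat 496, .ofNat 278⟩, .ofNat 685, .ofNat 897, .ofNat 0, .ofNat 897, .ofNat 2841, .ofNat 0, .ofNat 128, .negSucc 228, .negSucc 163, .ofNat 0, .ofNat 120, .ofNat 56, .ofNat 0, .ofNat 0, .ofNat 348, .ofNat 984, .ofNat 0, .ofNat 0, .ofNat 0, .ofNat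 0, .ofNat 0, .ofNat 0, .ofNat 44107872519341792572265831758519336960, .ofNat 0, .ofNat 0, .ofNat 0, .ofNat 555752904158538550961794770155218141184, .ofNat 0, .ofNat 0, .ofNat 0, .ofNat 718437152128952911455435133253719162880, .ofNat 0⟩)
    (by decide +kernel)
theorem L02912 : Good (Phi V5.P V5.D (-1) (-1)) ⟨4, 12, 3, 2, 3, 6, 2, 2, 5, 4⟩ :=
  leafX_sound T5.ok_mm T5.Ymm.bz_eq (w := 229) (c := ⟨⟨.negSucc 3547, .negSucc 408, .ofNat 280, .ofNat 1020, .ofNat 784, .ofNat 323⟩, ⟨.ofNat 1242, .ofNat 170, .ofNat 161, .negSucc 451, .negSucc 320, .negSucc 127⟩, ⟨.ofNat 2260, .ofNat 230, .negSucc 195, .negSucc 760, .negSucc 704, .negSucc 339⟩, ⟨.negSucc 6304, .negSucc 483, .ofNat 363, .ofNat 1475, .ofNat 1349, .ofNat 591⟩, ⟨.negSucc 1387, .negSucc 44, .negSucc 28, .negSucc 388, .ofNat 255, .ofNat 211⟩, .ofNat 540, .ofNat 523, .ofNat 0, .ofNat 523, .ofNat 1473, .ofNat 0, .ofNat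 128, .negSucc 222, .negSucc 416, .ofNat 0, .ofNat 135, .ofNat 170, .ofNat 0, .ofNat 0, .ofNat 474, .ofNat 965, .ofNat 0, .ofNat 0, .ofNat 0, .ofNat 0, .ofNat 0, .ofNat 0, .ofNat 804001579959531850877134824777280877756416, .ofNat 0, .ofNat 0, .ofNat 0, .ofNat 0, .ofNat 0, .ofNat 0, .ofNat 0, .ofNat 3626548702339977063361100714485749337030656, .ofNat 0⟩)
    (by decide +kernel)
theorem L02913 : Good (Phi V5.P V5.D (-1) (-1)) ⟨4, 12, 3, 2, 3, 7, 2, 2, 5, 4⟩ :=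
  leafX_sound T5.ok_mm T5.Ymm.bz_eq (w := 228) (c := ⟨⟨.negSucc 2377, .negSucc 13, .ofNat 105, .ofNat 624, .ofNat 708, .ofNat 122⟩, ⟨.ofNat 776, .negSucc 32, .ofNat 181, .negSucc 243, .negSucc 274, .negSucc 43⟩, ⟨.ofNat 1357, .negSucc 27, .negSucc 22, .negSucc 343, .negSucc 588, .negSucc 196⟩, ⟨.negSucc 4603, .ofNat 47, .ofNat 99, .ofNat 1127, .ofNat 1301, .ofNat 275⟩, ⟨.negSucc 1886, .negSucc 114, .ofNat 53, .ofNat 299, .ofNat 405, .ofNat 189⟩, .ofNat 544, .ofNat 530, .ofNat 0, .ofNat 530, .ofNat 1472, .ofNat 0, .ofNat 128, .negSucc 191, .negSucc 224, .ofNat 0, .ofNat 121, .ofNat 85, .ofNat 0, .ofNat 0, .ofNat 304, .ofNat 856, .ofNat 0, .ofNat 0, .ofNat 0, .ofNat 0, .ofNat 0, .ofNat 0, .ofNat 838734755556975811106760244491611363344384, .ofNat 0, .ofNat 0, .ofNat 0, .ofNat 0, .ofNat 0, .ofNat 0, .ofNat 0, .ofNat 1863492517936538069711539000575290687619072, .ofNat 0⟩)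
    (by decide +kernel)
theorem L02914 : Good (Phi V5.P V5.D (-1) (-1)) ⟨4, 12, 3, 2, 2, 3, 2, 2, 5, 5⟩ :=
  leafX_sound T5.ok_mm T5.Ymm.bz_eq (w := 214) (c := ⟨⟨.negSucc 2906, .negSucc 76, .ofNat 75, .ofNat 1356, .ofNat 598, .ofNat 216⟩, ⟨.ofNat 989, .ofNat 12, .ofNat 195, .negSucc 561, .negSucc 222, .negSucc 54⟩, ⟨.ofNat 1622, .negSucc 6, .negSucc 33, .negSucc 843, .negSucc 562, .negSucc 228⟩, ⟨.negSucc 5370, .negSucc 16, .ofNat 84, .ofNat 2191, .ofNat 1172, .ofNat 459⟩, ⟨.negSucc 1559, .negSucc 91, .ofNat 126, .negSucc 41, .ofNat 469, .ofNat 228⟩, .ofNat 541, .ofNat 526, .ofNat 0, .ofNat 526, .ofNat 1477, .ofNat 0, .ofNat 128, .negSucc 177, .negSucc 142, .ofNat 0, .ofNat 118, .ofNat 56, .ofNat 0, .ofNat 0, .ofNat 270, .ofNat 423, .ofNat 0, .ofNat 0, .ofNat 0, .ofNat 0, .ofNat 0, .ofNat 0, .ofNat 54832825781535520142738038630786269184, .ofNat 0, .ofNat 0, .ofNat 0,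 .ofNat 0, .ofNat 0, .ofNat 0, .ofNat 0, .ofNat 82585368688007892496485344855367614464, .ofNat 0⟩)
    (by decide +kernel)
theorem L02915 : Good (Phi V5.P V5.D (-1) (-1)) ⟨4, 13, 3, 2, 3, 6, 2, 2, 4, 2⟩ :=
  leafX_sound T5.ok_mm T5.Ymm.bz_eq (w := 224) (c := ⟨⟨.negSucc 4022, .negSucc 109, .ofNat 241, .ofNat 1054, .ofNat 766, .ofNat 821⟩, ⟨.ofNat 1515, .ofNat 66, .ofNat 146, .negSucc 514, .negSucc 333, .negSucc 353⟩, ⟨.ofNat 2532, .ofNat 141, .negSucc 162, .negSucc 770, .negSucc 728, .negSucc 788⟩, ⟨.negSucc 6757, .ofNat 29, .ofNat 186, .ofNat 1480, .ofNat 1325, .ofNat 1436⟩, ⟨.negSucc 1331, .negSucc 84, .negSucc 235, .negSucc 318, .ofNat 309, .ofNat 364⟩, .ofNat 742, .ofNat 784, .ofNat 0, .ofNat 784, .ofNat 1703, .ofNat 0, .ofNat 128, .negSucc 296, .negSucc 326, .ofNat 0, .ofNat 213, .ofNat 161, .ofNat 0, .ofNat 0, .ofNat 376, .ofNat 973, .ofNat 0, .ofNat 0, .ofNat 1010357237149475749982550312869154521088,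 .ofNat 0, .ofNat 0, .ofNat 0, .ofNat 43948318333492395367603463239178173546496, .ofNat 0, .ofNat 0, .ofNat 0, .ofNat 63920948903926498523985483081020713467904, .ofNat 0, .ofNat 0, .ofNat 0, .ofNat 234380288774672119446694365681804954828800, .ofNat 0⟩)
    (by decide +kernel)
theorem L02916 : Good (Phi V5.P V5.D (-1) (-1)) ⟨4, 13, 3, 2, 3, 7, 2, 2, 4, 2⟩ :=
  leafX_sound T5.ok_mm T5.Ymm.bz_eq (w := 224) (c := ⟨⟨.negSucc 2404, .negSucc 234, .ofNat 59, .ofNat 658, .ofNat 702, .ofNat 337⟩, ⟨.ofNat 787, .ofNat 72, .ofNat 174, .negSucc 281, .negSucc 296, .negSucc 122⟩, ⟨.ofNat 1308, .ofNat 268, .ofNat 11, .negSucc 318, .negSucc 596, .negSucc 419⟩, ⟨.negSucc 4540, .negSucc 136, .negSucc 13, .ofNat 1181, .ofNat 1271, .ofNat 736⟩, ⟨.negSucc 1995, .ofNat 195, .negSucc 0, .ofNat 360, .ofNat 406, .ofNat 465⟩, .ofNat 1079, .ofNat 1487, .ofNat 0, .ofNat 1487, .ofNat 3212, .ofNat 0,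 .ofNat 128, .negSucc 419, .negSucc 271, .ofNat 0, .ofNat 257, .ofNat 122, .ofNat 0, .ofNat 0, .ofNat 470, .ofNat 1131, .ofNat 0, .ofNat 0, .ofNat 281852814150822473017788006888921628672, .ofNat 0, .ofNat 0, .ofNat 0, .ofNat 354728730048551161171512256837171328057344, .ofNat 0, .ofNat 0, .ofNat 0, .ofNat 130292726053623825334420438045403417411584, .ofNat 0, .ofNat 0, .ofNat 0, .ofNat 315937568386880660049218746937482271522816, .ofNat 0⟩)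
    (by decide +kernel)
theorem L02917 : Good (Phi V5.P V5.D (-1) (-1)) ⟨3, 7, 3, 2, 2, 3, 2, 2, 4, 2⟩ :=
  out_sound (S := T5.ds_mm) T5.ok_mm (w := 45) (j := 3) (by decide +kernel)
theorem L02918 : Good (Phi V5.P V5.D (-1) (-1)) ⟨3, 4, 3, 2, 2, 3, 2, 2, 4, 3⟩ :=
  out_sound (S := T5.ds_mm) T5.ok_mm (w := 45) (j := 3) (by decide +kernel)
theorem L02919 : Good (Phi V5.P V5.D (-1) (-1)) ⟨4, 10, 3, 2, 2, 3, 2, 2, 4, 3⟩ :=
  out_sound (S := T5.ds_mm) T5.ok_mm (w := 51) (j := 3) (by decide +kernel)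
theorem L02920 : Good (Phi V5.P V5.D (-1) (-1)) ⟨4, 11, 3, 2, 2, 3, 2, 2, 5, 6⟩ :=
  leafX_sound T5.ok_mm T5.Ymm.bz_eq (w := 213) (c := ⟨⟨.negSucc 2369, .negSucc 27, .ofNat 64, .ofNat 926, .ofNat 440, .ofNat 155⟩, ⟨.ofNat 731, .ofNat 36, .ofNat 146, .negSucc 307, .negSucc 133, .negSucc 38⟩, ⟨.ofNat 1270, .negSucc 14, .negSucc 30, .negSucc 671, .negSucc 489, .negSucc 202⟩, ⟨.negSucc 4585, .ofNat 81, .ofNat 83, .ofNat 1638, .ofNat 932, .ofNat 326⟩, ⟨.negSucc 1207, .negSucc 125, .ofNat 209, .ofNat 109, .ofNat 503, .ofNat 115⟩, .ofNat 857, .ofNat 1351, .ofNat 0, .ofNat 1351, .ofNat 4173, .ofNat 0, .ofNat 128, .negSucc 207, .negSucc 87, .ofNat 0, .ofNat 104, .ofNat 29, .ofNat 0, .ofNat 0, .ofNat 322, .ofNat 342, .ofNat 0, .ofNat 0, .ofNat 1582590903064811476269736807018528768, .ofNat 0, .ofNat 0, .ofNat 0, .ofNat 0, .ofNat 0, .ofNat 0, .ofNat 452979974901768110731258430138209479426048,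 .ofNat 0, .ofNat 0, .ofNat 0, .ofNat 0, .ofNat 0, .ofNat 0⟩)
    (by decide +kernel)
theorem L02921 : Good (Phi V5.P V5.D (-1) (-1)) ⟨4, 11, 3, 2, 2, 3, 2, 2, 5, 7⟩ :=
  leafX_sound T5.ok_mm T5.Ymm.bz_eq (w := 213) (c := ⟨⟨.negSucc 2114, .negSucc 101, .ofNat 90, .ofNat 817, .ofNat 322, .ofNat 136⟩, ⟨.ofNat 652, .ofNat 66, .ofNat 127, .negSucc 269, .negSucc 87, .negSucc 41⟩, ⟨.ofNat 1084, .negSucc 0, .negSucc 128, .negSucc 682, .negSucc 524, .negSucc 203⟩, ⟨.negSucc 4121, .ofNat 15, .ofNat 95, .ofNat 1475, .ofNat 831, .ofNat 313⟩, ⟨.negSucc 1155, .ofNat 23, .ofNat 154, .ofNat 186, .ofNat 789, .ofNat 233⟩, .ofNat 536, .ofNat 546, .ofNat 0, .ofNat 546, .ofNat 1859, .ofNat 0, .ofNat 128, .negSucc 211, .negSucc 68, .ofNat 0, .ofNat 143, .ofNat 19, .ofNat 0, .ofNat 0, .ofNat 487, .ofNat 419, .ofNat 0, .ofNat 0, .ofNat 0, .ofNat 0, .ofNat 0, .ofNat 1223637865936025294699227580716953852968960,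 .ofNat 15872697588310929800660499835931066368, .ofNat 0, .ofNat 0, .ofNat 3729296843158657192901764137586727197868032, .ofNat 82943650630749872733150987942811926528, .ofNat 0, .ofNat 0, .ofNat 3683996133525964711611103458291608897716224, .ofNat 96043954420388464329041857055735939072, .ofNat 0⟩)
    (by decide +kernel)
theorem L02922 : Good (Phi V5.P V5.D (-1) (-1)) ⟨3, 6, 3, 2, 3, 6, 2, 2, 4, 3⟩ :=
  leafX_sound T5.ok_mm T5.Ymm.bz_eq (w := 217) (c := ⟨⟨.negSucc 2560, .negSucc 297, .ofNat 50, .ofNat 556, .ofNat 425, .ofNat 424⟩, ⟨.ofNat 862, .ofNat 148, .ofNat 200, .negSucc 241, .negSucc 142, .negSucc 156⟩, ⟨.ofNat 1447, .ofNat 120, .negSucc 95, .negSucc 489, .negSucc 639, .negSucc 502⟩, ⟨.negSucc 4698, .negSucc 123, .ofNat 19, .ofNat 847, .ofNat 974, .ofNat 872⟩, ⟨.negSucc 1237, .negSucc 98, .ofNat 4, .negSucc 167, .ofNat 676, .ofNat 420⟩, .ofNat 328, .ofNat 183, .ofNat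 0, .ofNat 183, .ofNat 647, .ofNat 0, .ofNat 128, .negSucc 128, .negSucc 80, .ofNat 0, .ofNat 125, .ofNat 29, .ofNat 0, .ofNat 0, .ofNat 264, .ofNat 231, .ofNat 0, .ofNat 0, .ofNat 0, .ofNat 0, .ofNat 0, .ofNat 0, .ofNat 0, .ofNat 0, .ofNat 0, .ofNat 19460272014492910062862838805231574397747200, .ofNat 40822783867323774697074113214222262337536, .ofNat 0, .ofNat 0, .ofNat 0, .ofNat 0, .ofNat 0⟩)
    (by decide +kernel)
theorem L02923 : Good (Phi V5.P V5.D (-1) (-1)) ⟨3, 6, 3, 2, 4, 14, 2, 2, 4, 3⟩ :=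
  leafX_sound T5.ok_mm T5.Ymm.bz_eq (w := 231) (c := ⟨⟨.negSucc 1835, .negSucc 35, .negSucc 23, .ofNat 231, .ofNat 376, .ofNat 194⟩, ⟨.ofNat 582, .negSucc 13, .ofNat 195, .negSucc 96, .negSucc 112, .negSucc 46⟩, ⟨.ofNat 886, .negSucc 43, .negSucc 21, .negSucc 153, .negSucc 563, .negSucc 464⟩, ⟨.negSucc 3648, .ofNat 125, .negSucc 39, .ofNat 427, .ofNat 958, .ofNat 596⟩, ⟨.negSucc 1595, .negSucc 216, .ofNat 156, .ofNat 103, .ofNat 830, .ofNat 663⟩, .ofNat 509, .ofNat 443, .ofNat 0, .ofNat 443, .ofNat 1173, .ofNat 0, .ofNat 142, .negSucc 127, .negSucc 40, .ofNat 0, .ofNat 110, .ofNat 11, .ofNat 0, .ofNat 0, .ofNat 261, .ofNat 152, .ofNat 0, .ofNat 0, .ofNat 0, .ofNat 0, .ofNat 0, .ofNat 0, .ofNat 0, .ofNat 0, .ofNat 0, .ofNat 75175584986329761441642773953726875115402035200, .ofNat 1307910306163260026072975746057659985260707840, .ofNat 0, .ofNat 0, .ofNat 145780620935580882630993653440577736969572843520,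 .ofNat 189548360747175795938870939567096152956338176, .ofNat 0⟩)
    (by decide +kernel)
theorem L02924 : Good (Phi V5.P V5.D (-1) (-1)) ⟨3, 6, 3, 2, 4, 15, 2, 2, 4, 3⟩ :=
  leafX_sound T5.ok_mm T5.Ymm.bz_eq (w := 231) (c := ⟨⟨.negSucc 1596, .ofNat 75, .negSucc 25, .ofNat 186, .ofNat 405, .ofNat 141⟩, ⟨.ofNat 492, .negSucc 31, .ofNat 171, .negSucc 62, .negSucc 125, .negSucc 21⟩, ⟨.ofNat 694, .negSucc 104, .ofNat 20, .negSucc 117, .negSucc 456, .negSucc 434⟩, ⟨.negSucc 3204, .ofNat 288, .negSucc 15, .ofNat 424, .ofNat 936, .ofNat 508⟩, ⟨.negSucc 1484, .negSucc 183, .ofNat 199, .ofNat 291, .ofNat 713, .ofNat 669⟩, .ofNat 701, .ofNat 777, .ofNat 0, .ofNat 777, .ofNat 1865, .ofNat 0, .ofNat 128, .negSucc 141, .negSucc 8, .ofNat 0, .ofNat 116, .negSucc 8, .ofNat 0, .ofNat 0, .ofNat 299, .ofNat 74, .ofNat 0, .ofNat 0, .ofNat 13331339100838843923654242909950274380496896, .ofNat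 0, .ofNat 0, .ofNat 0, .ofNat 944669490725613903172643468044396871003668480, .ofNat 0, .ofNat 0, .ofNat 68977951904988535736696321689993979478956572672, .ofNat 3004416708117074757469294255096973438503354368, .ofNat 0, .ofNat 0, .ofNat 280142489072883319927569000022492733444030726144, .ofNat 215726941138331350395755370325035184180690944, .ofNat 0⟩)
    (by decide +kernel)
theorem L02925 : Good (Phi V5.P V5.D (-1) (-1)) ⟨3, 7, 3, 2, 2, 3, 2, 2, 4, 3⟩ :=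
  out_sound (S := T5.ds_mm) T5.ok_mm (w := 45) (j := 3) (by decide +kernel)
theorem L02926 : Good (Phi V5.P V5.D (-1) (-1)) ⟨3, 4, 3, 2, 2, 3, 2, 3, 3, 1⟩ :=
  out_sound (S := T5.ds_mm) T5.ok_mm (w := 45) (j := 3) (by decide +kernel)
theorem L02927 : Good (Phi V5.P V5.D (-1) (-1)) ⟨3, 5, 3, 2, 2, 3, 2, 3, 4, 2⟩ :=
  leafX_sound T5.ok_mm T5.Ymm.bz_eq (w := 204) (c := ⟨⟨.negSucc 2292, .ofNat 107, .ofNat 6, .ofNat 1101, .ofNat 530, .ofNat 154⟩, ⟨.ofNat 691, .ofNat 11, .ofNat 150, .negSucc 376, .negSucc 150, .negSucc 29⟩, ⟨.ofNat 1331, .negSucc 248, .ofNat 26, .negSucc 677, .negSucc 526, .negSucc 325⟩, ⟨.negSucc 4495, .ofNat 322, .negSucc 0, .ofNat 1918, .ofNat 1315, .ofNat 508⟩, ⟨.negSucc 943, .negSucc 388, .ofNat 96, .ofNat 2, .ofNat 1125, .ofNat 628⟩, .ofNat 533, .ofNat 539, .ofNat 0, .ofNat 539, .ofNat 1861, .ofNat 0, .ofNat 128, .negSucc 213, .negSucc 167, .ofNat 0,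 .ofNat 120, .ofNat 53, .ofNat 0, .ofNat 0, .ofNat 302, .ofNat 144, .ofNat 0, .ofNat 0, .ofNat 158491216612587833464839197132062720, .ofNat 0, .ofNat 0, .ofNat 3879588494083998423863997014997026734080, .ofNat 2381604657502425496644154878488215552, .ofNat 0, .ofNat 0, .ofNat 10285807814847555469519021317785198264320, .ofNat 6714413578705521534205725726493114368, .ofNat 0, .ofNat 0, .ofNat 0, .ofNat 0, .ofNat 0⟩)
    (by decide +kernel)
theorem L02928 : Good (Phi V5.P V5.D (-1) (-1)) ⟨3, 5, 3, 2, 2, 3, 2, 3, 4, 3⟩ :=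
  leafX_sound T5.ok_mm T5.Ymm.bz_eq (w := 203) (c := ⟨⟨.negSucc 1870, .negSucc 21, .negSucc 33, .ofNat 879, .ofNat 456, .ofNat 199⟩, ⟨.ofNat 533, .ofNat 101, .ofNat 128, .negSucc 290, .negSucc 127, .negSucc 50⟩, ⟨.ofNat 780, .negSucc 121, .negSucc 20, .negSucc 521, .negSucc 571, .negSucc 462⟩, ⟨.negSucc 3715, .ofNat 272, .negSucc 46, .ofNat 1647, .ofNat 1274, .ofNat 583⟩, ⟨.negSucc 744, .negSucc 32, .ofNat 63, .ofNat 413, .ofNat 1540, .ofNat 718⟩, .ofNat 533, .ofNat 541, .ofNat 0, .ofNat 541, .ofNat 1866, .ofNat 0, .ofNat 128, .negSucc 188, .negSucc 70, .ofNat 0, .ofNat 116, .ofNat 20, .ofNat 0, .ofNat 0, .ofNat 350, .ofNat 96, .ofNat 0, .ofNat 54161214574307925674349623841801633792, .ofNat 418536591364810279219786720735133696, .ofNat 0, .ofNat 0, .ofNat 8473664640945202601022767228848055517184, .ofNat 0, .ofNat 0, .ofNat 0, .ofNat 25362349887415667102806055139700484603904,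 .ofNat 5013746509986212569967349285169135616, .ofNat 0, .ofNat 0, .ofNat 25175070080516618211848426423614949031936, .ofNat 3318982325713058324765966487347265536, .ofNat 0⟩)
    (by decide +kernel)
theorem L02929 : Good (Phi V5.P V5.D (-1) (-1)) ⟨4, 12, 3, 2, 3, 6, 2, 3, 4, 2⟩ :=
  leafX_sound T5.ok_mm T5.Ymm.bz_eq (w := 222) (c := ⟨⟨.negSucc 2717, .negSucc 233, .ofNat 213, .ofNat 871, .ofNat 799, .ofNat 476⟩, ⟨.ofNat 926, .ofNat 103, .ofNat 118, .negSucc 364, .negSucc 260, .negSucc 152⟩, ⟨.ofNat 1532, .ofNat 100, .negSucc 156, .negSucc 653, .negSucc 774, .negSucc 592⟩, ⟨.negSucc 4912, .negSucc 219, .ofNat 215, .ofNat 1358, .ofNat 1700, .ofNat 1036⟩, ⟨.negSucc 1238, .negSucc 35, .negSucc 167, .negSucc 76, .ofNat 1046, .ofNat 672⟩, .ofNat 676, .ofNat 783, .ofNat 0, .ofNat 783, .ofNat 2054, .ofNat 0, .ofNat 128, .negSucc 236, .negSucc 208, .ofNat 0, .ofNat 138, .ofNat 85,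 .ofNat 0, .ofNat 0, .ofNat 318, .ofNat 116, .ofNat 0, .ofNat 0, .ofNat 0, .ofNat 0, .ofNat 0, .ofNat 247937830359752474338076392719674493137584128, .ofNat 22900973109093122807846438040131562635264, .ofNat 0, .ofNat 0, .ofNat 489753602837487138534249327021607718467141632, .ofNat 9901700077088583682971588265909520695296, .ofNat 0, .ofNat 0, .ofNat 0, .ofNat 19026886945473084846074535884616454111232, .ofNat 0⟩)
    (by decide +kernel)
theorem L02930 : Good (Phi V5.P V5.D (-1) (-1)) ⟨4, 12, 3, 2, 3, 7, 3, 6, 4, 2⟩ :=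
  leafX_sound T5.ok_mm T5.Ymm.bz_eq (w := 226) (c := ⟨⟨.negSucc 1617, .ofNat 126, .negSucc 10, .ofNat 596, .ofNat 348, .ofNat 126⟩, ⟨.ofNat 499, .negSucc 84, .ofNat 162, .negSucc 219, .negSucc 101, .negSucc 8⟩, ⟨.ofNat 671, .negSucc 97, .ofNat 48, .negSucc 236, .negSucc 284, .negSucc 305⟩, ⟨.negSucc 3243, .ofNat 262, .negSucc 56, .ofNat 1089, .ofNat 814, .ofNat 503⟩, ⟨.negSucc 1568, .negSucc 61, .ofNat 83, .ofNat 321, .ofNat 628, .ofNat 731⟩, .ofNat 681, .ofNat 792, .ofNat 0, .ofNat 792, .ofNat 2060, .ofNat 0, .ofNat 128, .negSucc 250, .negSucc 123, .ofNat 0, .ofNat 147, .ofNat 46, .ofNat 0, .ofNat 0, .ofNat 267, .ofNat 410, .ofNat 0, .ofNat 0, .ofNat 0, .ofNat 0, .ofNat 0, .ofNat 1025068536774127185345547420054584444338569216, .ofNat 501414406297877693412447723204806409453568, .ofNat 0, .ofNat 0, .ofNat 1434426525404570282120728484308323955040583680, .ofNat 208086465706537243764732467602400963723264,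 .ofNat 0, .ofNat 0, .ofNat 0, .ofNat 0, .ofNat 0⟩)
    (by decide +kernel)
theorem L02931 : Good (Phi V5.P V5.D (-1) (-1)) ⟨4, 12, 3, 2, 3, 7, 3, 7, 4, 2⟩ :=
  leafX_sound T5.ok_mm T5.Ymm.bz_eq (w := 226) (c := ⟨⟨.negSucc 1237, .ofNat 287, .negSucc 86, .ofNat 625, .ofNat 430, .ofNat 40⟩, ⟨.ofNat 417, .negSucc 123, .ofNat 125, .negSucc 239, .negSucc 143, .ofNat 26⟩, ⟨.ofNat 325, .negSucc 182, .ofNat 83, .negSucc 158, .negSucc 366, .negSucc 242⟩, ⟨.negSucc 2446, .ofNat 510, .negSucc 150, .ofNat 1219, .ofNat 1156, .ofNat 505⟩, ⟨.negSucc 1054, .negSucc 45, .ofNat 66, .ofNat 506, .ofNat 1095, .ofNat 1027⟩, .ofNat 541, .ofNat 524, .ofNat 0, .ofNat 524, .ofNat 1466, .ofNat 0, .ofNat 128, .negSucc 259, .negSucc 189, .ofNat 0, .ofNat 151, .ofNat 67, .ofNat 0, .ofNat 0, .ofNat 271, .ofNat 542, .ofNat 0, .ofNat 0, .ofNat 0, .ofNat 0, .ofNat 0, .ofNat 2694690320107261022559592389001435206607962112,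 .ofNat 326603620590206259694605234747724588384256, .ofNat 0, .ofNat 0, .ofNat 7024707516879327045881630063728983967396790272, .ofNat 141185936374355173936726303194902486319104, .ofNat 0, .ofNat 0, .ofNat 3750045084645014529484417626375801528408604672, .ofNat 125603122372682706540087848523494772965376, .ofNat 0⟩)
    (by decide +kernel)
theorem L02932 : Good (Phi V5.P V5.D (-1) (-1)) ⟨5, 26, 3, 2, 2, 3, 2, 3, 5, 4⟩ :=
  leafX_sound T5.ok_mm T5.Ymm.bz_eq (w := 218) (c := ⟨⟨.negSucc 2598, .negSucc 13, .negSucc 74, .ofNat 1845, .ofNat 889, .ofNat 77⟩, ⟨.ofNat 894, .ofNat 1, .ofNat 252, .negSucc 850, .negSucc 321, .negSucc 2⟩, ⟨.ofNat 1033, .negSucc 102, .ofNat 318, .negSucc 1014, .negSucc 710, .negSucc 144⟩, ⟨.negSucc 4962, .ofNat 48, .ofNat 86, .ofNat 2974, .ofNat 1998, .ofNat 331⟩, ⟨.negSucc 2187, .negSucc 15, .ofNat 616, .ofNat 234, .ofNat 1335, .ofNat 434⟩, .ofNat 664,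 .ofNat 683, .ofNat 0, .ofNat 683, .ofNat 1594, .ofNat 0, .ofNat 128, .negSucc 210, .negSucc 260, .ofNat 0, .ofNat 137, .ofNat 113, .ofNat 0, .ofNat 0, .ofNat 302, .ofNat 229, .ofNat 0, .ofNat 0, .ofNat 0, .ofNat 0, .ofNat 0, .ofNat 11849936296007753337966919365757477616353280, .ofNat 19615186260773069412844347682275196928, .ofNat 0, .ofNat 0, .ofNat 21188974844934147693245620657879369258106880, .ofNat 16328299046711697763525423056245751808, .ofNat 0, .ofNat 0, .ofNat 1197016680188309220880489797934102135963648, .ofNat 22537594407602104880534777760581681152, .ofNat 0⟩)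
    (by decide +kernel)
theorem L02933 : Good (Phi V5.P V5.D (-1) (-1)) ⟨5, 26, 3, 2, 2, 3, 2, 3, 5, 5⟩ :=
  leafX_sound T5.ok_mm T5.Ymm.bz_eq (w := 218) (c := ⟨⟨.negSucc 2227, .ofNat 37, .ofNat 22, .ofNat 1394, .ofNat 677, .ofNat 42⟩, ⟨.ofNat 831, .ofNat 12, .ofNat 99, .negSucc 619, .negSucc 199, .ofNat 17⟩, ⟨.ofNat 956, .ofNat 111, .negSucc 169, .negSucc 603, .negSucc 530, .negSucc 148⟩, ⟨.negSucc 4010, .ofNat 173, .negSucc 56, .ofNat 2345, .ofNat 1745, .ofNat 294⟩, ⟨.negSucc 1368, .ofNat 135, .negSucc 60, .ofNat 434, .ofNat 1529, .ofNat 495⟩, .ofNat 1113, .ofNat 1550, .ofNat 0, .ofNat 1550, .ofNat 3333, .ofNat 0, .ofNat 128, .negSucc 438, .negSucc 266, .ofNat 0, .ofNat 265, .ofNat 117, .ofNat 0, .ofNat 0, .ofNat 600, .ofNat 133, .ofNat 0, .ofNat 0, .ofNat 149898878659104466134808334186840064, .ofNat 0, .ofNat 0, .ofNat 17398664884835039026365444699871908030578688,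 .ofNat 123139334668947173126949327301804818432, .ofNat 0, .ofNat 0, .ofNat 98043721136500204915514272684403729394302976, .ofNat 162706809790965738079409510320376381440, .ofNat 0, .ofNat 0, .ofNat 0, .ofNat 0, .ofNat 0⟩)
    (by decide +kernel)
theorem L02934 : Good (Phi V5.P V5.D (-1) (-1)) ⟨5, 27, 3, 2, 2, 3, 2, 3, 4, 2⟩ :=
  out_sound (S := T5.ds_mm) T5.ok_mm (w := 57) (j := 3) (by decide +kernel)
theorem L02935 : Good (Phi V5.P V5.D (-1) (-1)) ⟨3, 6, 3, 2, 2, 3, 2, 3, 5, 6⟩ :=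
  leafX_sound T5.ok_mm T5.Ymm.bz_eq (w := 208) (c := ⟨⟨.negSucc 1958, .ofNat 102, .negSucc 76, .ofNat 1084, .ofNat 534, .ofNat 46⟩, ⟨.ofNat 681, .ofNat 39, .ofNat 150, .negSucc 436, .negSucc 133, .ofNat 5⟩, ⟨.ofNat 703, .negSucc 293, .ofNat 43, .negSucc 532, .negSucc 692, .negSucc 297⟩, ⟨.negSucc 3565, .ofNat 293, .negSucc 86, .ofNat 1946, .ofNat 1474, .ofNat 249⟩, ⟨.negSucc 847, .negSucc 427, .ofNat 158, .ofNat 504, .ofNat 1524, .ofNat 382⟩, .ofNat 542, .ofNat 525, .ofNat 0, .ofNat 525, .ofNat 1462, .ofNat 0, .ofNat 128, .negSucc 215, .negSucc 58, .ofNat 0, .ofNat 148, .ofNat 18, .ofNat 0, .ofNat 0, .ofNat 280, .ofNat 52, .ofNat 0, .ofNat 594292150701051481733071233967772925952, .ofNat 227635745062785796036412444812247040, .ofNat 0, .ofNat 0, .ofNat 43452585873594490712236156423635707363328, .ofNat 47618867962579190831719125936680992768, .ofNat 0, .ofNat 0, .ofNat 155133427783081329205877154378541638352896,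 .ofNat 245334356251651738902307818689206943744, .ofNat 0, .ofNat 0, .ofNat 111547458533227343546048206387799128014848, .ofNat 38393565162544327052160396242764955648, .ofNat 0⟩)
    (by decide +kernel)
theorem L02936 : Good (Phi V5.P V5.D (-1) (-1)) ⟨3, 6, 3, 2, 2, 3, 2, 3, 5, 7⟩ :=
  leafX_sound T5.ok_mm T5.Ymm.bz_eq (w := 208) (c := ⟨⟨.negSucc 1782, .negSucc 96, .negSucc 59, .ofNat 784, .ofNat 334, .ofNat 67⟩, ⟨.ofNat 616, .ofNat 172, .ofNat 142, .negSucc 291, .negSucc 44, .negSucc 3⟩, ⟨.ofNat 545, .negSucc 234, .negSucc 48, .negSucc 900, .negSucc 848, .negSucc 347⟩, ⟨.negSucc 3135, .ofNat 179, .negSucc 94, .ofNat 1476, .ofNat 1224, .ofNat 280⟩, ⟨.negSucc 444, .negSucc 98, .ofNat 26, .ofNat 503, .ofNat 1627, .ofNat 405⟩, .ofNat 329, .ofNat 185, .ofNat 0, .ofNat 185, .ofNat 647, .ofNat 0, .ofNat 128, .negSucc 145, .negSucc 36, .ofNat 0, .ofNat 139, .ofNat 4, .ofNat 0,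 .ofNat 0, .ofNat 253, .ofNat 195, .ofNat 0, .ofNat 0, .ofNat 0, .ofNat 0, .ofNat 0, .ofNat 77427729597510676096596565333446515228672, .ofNat 0, .ofNat 0, .ofNat 0, .ofNat 341268823274776890150622213370880192413696, .ofNat 157654756672150527248072018433427898368, .ofNat 0, .ofNat 0, .ofNat 230680338993053435454702489986049628962816, .ofNat 80833829878595673626945731965625565184, .ofNat 0⟩)
    (by decide +kernel)
theorem L02937 : Good (Phi V5.P V5.D (-1) (-1)) ⟨3, 7, 3, 2, 2, 3, 2, 3, 3, 1⟩ :=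
  out_sound (S := T5.ds_mm) T5.ok_mm (w := 45) (j := 3) (by decide +kernel)
theorem L02938 : Good (Phi V5.P V5.D (-1) (-1)) ⟨2, 2, 3, 3, 2, 2, 2, 2, 3, 0⟩ :=
  out_sound (S := T5.ds_mm) T5.ok_mm (w := 39) (j := 3) (by decide +kernel)
theorem L02939 : Good (Phi V5.P V5.D (-1) (-1)) ⟨4, 12, 4, 6, 2, 2, 2, 2, 4, 0⟩ :=
  leafX_sound T5.ok_mm T5.Ymm.bz_eq (w := 213) (c := ⟨⟨.ofNat 1662, .ofNat 1268, .negSucc 242, .ofNat 949, .negSucc 1560, .negSucc 3251⟩, ⟨.negSucc 712, .negSucc 734, .ofNat 119, .negSucc 410, .ofNat 725, .ofNat 1502⟩, ⟨.negSucc 1338, .negSucc 1212, .ofNat 247, .negSucc 154, .ofNat 940, .ofNat 2235⟩, ⟨.ofNat 2548, .ofNat 1460, .negSucc 234, .ofNat 1789, .negSucc 2531, .negSucc 5460⟩, ⟨.negSucc 503, .negSucc 563, .ofNat 335, .ofNat 545, .negSucc 154, .negSucc 825⟩, .ofNat 1075, .ofNat 1554, .ofNat 0, .ofNat 1554, .ofNat 3495, .ofNat 0, .ofNat 128, .negSucc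 321, .negSucc 934, .ofNat 0, .ofNat 180, .ofNat 436, .ofNat 0, .ofNat 0, .ofNat 982, .ofNat 373, .ofNat 0, .ofNat 0, .ofNat 263132519938681099449241689797951488, .ofNat 0, .ofNat 0, .ofNat 0, .ofNat 7957919230010979067063236806446153728, .ofNat 0, .ofNat 0, .ofNat 0, .ofNat 22789181322839022296629217577672900608, .ofNat 0, .ofNat 0, .ofNat 0, .ofNat 0, .ofNat 0⟩)
    (by decide +kernel)
theorem L02940 : Good (Phi V5.P V5.D (-1) (-1)) ⟨4, 12, 4, 6, 2, 2, 2, 2, 4, 1⟩ :=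
  leafX_sound T5.ok_mm T5.Ymm.bz_eq (w := 212) (c := ⟨⟨.negSucc 1081, .negSucc 1336, .ofNat 415, .ofNat 379, .ofNat 73, .negSucc 1596⟩, ⟨.ofNat 413, .ofNat 642, .negSucc 57, .negSucc 202, .negSucc 16, .ofNat 755⟩, ⟨.ofNat 721, .ofNat 911, .negSucc 287, .negSucc 463, .negSucc 19, .ofNat 1107⟩, ⟨.negSucc 2183, .negSucc 1774, .ofNat 491, .ofNat 227, .ofNat 147, .negSucc 2513⟩, ⟨.negSucc 730, .ofNat 81, .negSucc 242, .negSucc 834, .ofNat 134, .ofNat 176⟩, .ofNat 816, .ofNat 1041, .ofNat 0, .ofNat 1041, .ofNat 2429, .ofNat 0, .ofNat 128, .negSucc 356, .negSucc 657, .ofNat 0, .ofNat 206, .ofNat 307, .ofNat 0, .ofNat 0, .ofNat 717, .ofNat 364, .ofNat 0, .ofNat 0, .ofNat 0, .ofNat 0, .ofNat 0, .ofNat 0, .ofNat 7840504307148804562646387845194842112, .ofNat 0, .ofNat 0, .ofNat 0, .ofNat 0, .ofNat 0, .ofNat 0, .ofNat 0, .ofNat 0, .ofNat 0⟩)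
    (by decide +kernel)
theorem L02941 : Good (Phi V5.P V5.D (-1) (-1)) ⟨5, 26, 4, 6, 2, 2, 2, 2, 5, 0⟩ :=
  leafX_sound T5.ok_mm T5.Ymm.bz_eq (w := 222) (c := ⟨⟨.ofNat 3171, .ofNat 641, .negSucc 394, .ofNat 918, .negSucc 1986, .negSucc 1237⟩, ⟨.negSucc 1594, .negSucc 410, .ofNat 165, .negSucc 414, .ofNat 988, .ofNat 593⟩, ⟨.negSucc 2822, .negSucc 546, .ofNat 381, .ofNat 6, .ofNat 1206, .ofNat 813⟩, ⟨.ofNat 4154, .ofNat 831, .negSucc 522, .ofNat 1949, .negSucc 3069, .negSucc 2163⟩, ⟨.negSucc 1400, .ofNat 33, .ofNat 213, .ofNat 947, .negSucc 79, .negSucc 555⟩, .ofNat 612, .ofNat 632, .ofNat 0, .ofNat 632, .ofNat 1461, .ofNat 0, .ofNat 128, .negSucc 192, .negSucc 1094, .ofNat 0, .ofNat 129, .ofNat 524, .ofNat 0, .ofNat 0, .ofNat 1069, .ofNat 541, .ofNat 0, .ofNat 0, .ofNat 2484392686421018399257466431629950976, .ofNat 0, .ofNat 0, .ofNat 0, .ofNat 17527354324947461402815104109871366144,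 .ofNat 0, .ofNat 0, .ofNat 0, .ofNat 127463323142053110368799781639671513088, .ofNat 0, .ofNat 0, .ofNat 0, .ofNat 295600511441828542841289804789254717440, .ofNat 0⟩)
    (by decide +kernel)
theorem L02942 : Good (Phi V5.P V5.D (-1) (-1)) ⟨5, 26, 4, 6, 2, 2, 2, 2, 5, 1⟩ :=
  leafX_sound T5.ok_mm T5.Ymm.bz_eq (w := 221) (c := ⟨⟨.ofNat 285, .ofNat 356, .ofNat 255, .ofNat 2343, .negSucc 1772, .negSucc 1987⟩, ⟨.negSucc 190, .negSucc 229, .negSucc 68, .negSucc 1212, .ofNat 889, .ofNat 979⟩, ⟨.negSucc 340, .negSucc 380, .negSucc 77, .negSucc 1635, .ofNat 1166, .ofNat 1429⟩, ⟨.ofNat 115, .ofNat 490, .ofNat 343, .ofNat 3376, .negSucc 2675, .negSucc 3179⟩, ⟨.negSucc 825, .negSucc 88, .ofNat 23, .negSucc 321, .ofNat 106, .negSucc 270⟩, .ofNat 1013, .ofNat 1342, .ofNat 0, .ofNat 1342, .ofNat 2813, .ofNat 0, .ofNat 128, .negSucc 283, .negSucc 658, .ofNat 0, .ofNat 172, .ofNat 331,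 .ofNat 0, .ofNat 0, .ofNat 649, .ofNat 259, .ofNat 0, .ofNat 0, .ofNat 0, .ofNat 0, .ofNat 0, .ofNat 0, .ofNat 0, .ofNat 0, .ofNat 0, .ofNat 0, .ofNat 0, .ofNat 0, .ofNat 0, .ofNat 0, .ofNat 244832063258921128245628175670560423936, .ofNat 0⟩)
    (by decide +kernel)
theorem L02943 : Good (Phi V5.P V5.D (-1) (-1)) ⟨5, 26, 4, 6, 2, 2, 2, 2, 5, 2⟩ :=
  leafX_sound T5.ok_mm T5.Ymm.bz_eq (w := 221) (c := ⟨⟨.negSucc 1601, .negSucc 481, .ofNat 403, .ofNat 970, .negSucc 938, .negSucc 1702⟩, ⟨.ofNat 652, .ofNat 248, .negSucc 75, .negSucc 532, .ofNat 492, .ofNat 865⟩, ⟨.ofNat 1036, .ofNat 309, .negSucc 257, .negSucc 916, .ofNat 763, .ofNat 1255⟩, ⟨.negSucc 2726, .negSucc 754, .ofNat 543, .ofNat 1014, .negSucc 1358, .negSucc 2591⟩, ⟨.negSucc 608, .negSucc 295, .negSucc 74, .negSucc 955, .ofNat 225, .ofNat 56⟩, .ofNat 911, .ofNat 1139, .ofNat 0, .ofNat 1139, .ofNat 2404, .ofNat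 0, .ofNat 128, .negSucc 329, .negSucc 703, .ofNat 0, .ofNat 206, .ofNat 355, .ofNat 0, .ofNat 0, .ofNat 686, .ofNat 326, .ofNat 0, .ofNat 0, .ofNat 1775163214894458400035206410564272128, .ofNat 0, .ofNat 0, .ofNat 0, .ofNat 49702396525823309811554376338095734784, .ofNat 0, .ofNat 0, .ofNat 0, .ofNat 0, .ofNat 0, .ofNat 0, .ofNat 0, .ofNat 302415605993845272297551992266407542784, .ofNat 0⟩)
    (by decide +kernel)
theorem L02944 : Good (Phi V5.P V5.D (-1) (-1)) ⟨5, 26, 4, 6, 2, 2, 2, 2, 5, 3⟩ :=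
  leafX_sound T5.ok_mm T5.Ymm.bz_eq (w := 221) (c := ⟨⟨.negSucc 3896, .negSucc 783, .ofNat 310, .ofNat 183, .ofNat 479, .negSucc 154⟩, ⟨.ofNat 1809, .ofNat 426, .negSucc 1, .negSucc 160, .negSucc 237, .ofNat 81⟩, ⟨.ofNat 2925, .ofNat 574, .negSucc 240, .negSucc 558, .negSucc 359, .negSucc 15⟩, ⟨.negSucc 6254, .negSucc 1054, .ofNat 447, .negSucc 131, .ofNat 730, .negSucc 192⟩, ⟨.negSucc 470, .negSucc 45, .negSucc 38, .negSucc 944, .ofNat 32, .ofNat 106⟩, .ofNat 585, .ofNat 577, .ofNat 0, .ofNat 577, .ofNat 1342, .ofNat 0, .ofNat 128, .negSucc 281, .negSucc 773, .ofNat 0, .ofNat 188, .ofNat 380, .ofNat 0, .ofNat 0, .ofNat 784, .ofNat 347, .ofNat 0, .ofNat 0, .ofNat 2497925754544375041472702126600749056, .ofNat 0, .ofNat 0, .ofNat 0, .ofNat 41190006465118631790002775436170362880, .ofNat 0, .ofNat 0, .ofNat 0, .ofNat 0, .ofNat 0, .ofNat 0, .ofNat 0, .ofNat 221845914476575122794703841752378245120,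 .ofNat 0⟩)
    (by decide +kernel)
theorem L02945 : Good (Phi V5.P V5.D (-1) (-1)) ⟨5, 27, 4, 6, 2, 2, 2, 2, 3, 0⟩ :=
  out_sound (S := T5.ds_mm) T5.ok_mm (w := 59) (j := 3) (by decide +kernel)
theorem L02946 : Good (Phi V5.P V5.D (-1) (-1)) ⟨4, 12, 4, 7, 2, 2, 2, 2, 4, 0⟩ :=
  leafX_sound T5.ok_mm T5.Ymm.bz_eq (w := 217) (c := ⟨⟨.ofNat 2481, .ofNat 0, .negSucc 2080, .ofNat 1216, .negSucc 1583, .negSucc 3043⟩, ⟨.negSucc 1269, .ofNat 0, .ofNat 1340, .negSucc 594, .ofNat 793, .ofNat 1505⟩, ⟨.negSucc 2124, .ofNat 0, .ofNat 3275, .negSucc 374, .ofNat 923, .ofNat 2118⟩, ⟨.ofNat 3329, .ofNat 0, .negSucc 1140, .ofNat 2166, .negSucc 2491, .negSucc 4991⟩, ⟨.negSucc 951, .ofNat 0, .ofNat 561, .ofNat 567, .negSucc 100, .negSucc 599⟩, .ofNat 1900, .ofNat 3067, .ofNat 0, .ofNat 3067, .ofNat 6225, .ofNat 0, .ofNat 128, .negSucc 733, .negSucc 2085, .ofNat 0, .ofNat 407, .ofNat 1050,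 .ofNat 0, .ofNat 0, .ofNat 2142, .ofNat 1239, .ofNat 0, .ofNat 0, .ofNat 4655841743535921591454181451018272768, .ofNat 0, .ofNat 0, .ofNat 0, .ofNat 314529321586421056740362754373864914944, .ofNat 0, .ofNat 0, .ofNat 0, .ofNat 471228806496298088779338194180364042240, .ofNat 0, .ofNat 0, .ofNat 0, .ofNat 1137340807704224887682646223232104923136, .ofNat 0⟩)
    (by decide +kernel)
theorem L02947 : Good (Phi V5.P V5.D (-1) (-1)) ⟨4, 12, 4, 7, 2, 2, 2, 2, 4, 1⟩ :=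
  leafX_sound T5.ok_mm T5.Ymm.bz_eq (w := 218) (c := ⟨⟨.negSucc 1936, .negSucc 0, .ofNat 1949, .ofNat 581, .negSucc 43, .negSucc 1945⟩, ⟨.ofNat 944, .ofNat 0, .negSucc 792, .negSucc 316, .ofNat 27, .ofNat 982⟩, ⟨.ofNat 1309, .ofNat 1, .ofNat 569, .negSucc 614, .ofNat 23, .ofNat 1339⟩, ⟨.negSucc 3412, .negSucc 1, .ofNat 550, .ofNat 450, .ofNat 26, .negSucc 2809⟩, ⟨.negSucc 888, .negSucc 0, .negSucc 261, .negSucc 876, .ofNat 182, .ofNat 379⟩, .ofNat 2599, .ofNat 4407, .ofNat 0, .ofNat 4407, .ofNat 8813, .ofNat 0, .ofNat 128, .negSucc 970, .negSucc 1513, .ofNat 0, .ofNat 532, .ofNat 767, .ofNat 0, .ofNat 0, .ofNat 1620, .ofNat 1452, .ofNat 0, .ofNat 0, .ofNat 3843929297692727737829164461510885376, .ofNat 0, .ofNat 0, .ofNat 0, .ofNat 274850589483284477128222549584111468544, .ofNat 0, .ofNat 0, .ofNat 0, .ofNat 1778008236477390066147603549355555946496, .ofNat 0, .ofNat 0,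 .ofNat 0, .ofNat 889785235796223110597648541855315394560, .ofNat 0⟩)
    (by decide +kernel)
theorem L02948 : Good (Phi V5.P V5.D (-1) (-1)) ⟨6, 52, 4, 7, 2, 2, 3, 4, 5, 0⟩ :=
  leafX_sound T5.ok_mm T5.Ymm.bz_eq (w := 230) (c := ⟨⟨.ofNat 2819, .ofNat 417, .negSucc 335, .ofNat 806, .negSucc 813, .negSucc 1313⟩, ⟨.negSucc 1449, .negSucc 256, .ofNat 115, .negSucc 377, .ofNat 419, .ofNat 643⟩, ⟨.negSucc 2508, .negSucc 371, .ofNat 322, .ofNat 164, .ofNat 410, .ofNat 862⟩, ⟨.ofNat 3652, .ofNat 517, .negSucc 514, .ofNat 1842, .negSucc 1248, .negSucc 2263⟩, ⟨.negSucc 1344, .negSucc 25, .ofNat 18, .ofNat 1120, .ofNat 5, .negSucc 534⟩, .ofNat 660, .ofNat 724, .ofNat 0, .ofNat 724, .ofNat 1639, .ofNat 0, .ofNat 128, .negSucc 235, .negSucc 1392, .ofNat 0, .ofNat 151, .ofNat 679, .ofNat 0, .ofNat 0, .ofNat 1391, .ofNat 1040, .ofNat 0, .ofNat 0, .ofNat 0, .ofNat 0, .ofNat 0, .ofNat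 0, .ofNat 1273653412021260497045893061684494336000, .ofNat 0, .ofNat 0, .ofNat 0, .ofNat 0, .ofNat 0, .ofNat 0, .ofNat 0, .ofNat 0, .ofNat 0⟩)
    (by decide +kernel)
theorem L02949 : Good (Phi V5.P V5.D (-1) (-1)) ⟨6, 53, 4, 7, 2, 2, 3, 4, 5, 0⟩ :=
  leafX_sound T5.ok_mm T5.Ymm.bz_eq (w := 231) (c := ⟨⟨.ofNat 3200, .ofNat 546, .negSucc 300, .ofNat 616, .negSucc 761, .negSucc 1176⟩, ⟨.negSucc 1710, .negSucc 353, .ofNat 116, .negSucc 279, .ofNat 406, .ofNat 601⟩, ⟨.negSucc 2884, .negSucc 475, .ofNat 289, .ofNat 389, .ofNat 354, .ofNat 762⟩, ⟨.ofNat 4057, .ofNat 605, .negSucc 406, .ofNat 1666, .negSucc 1158, .negSucc 2096⟩, ⟨.negSucc 1498, .negSucc 228, .ofNat 161, .ofNat 1364, .negSucc 30, .negSucc 631⟩, .ofNat 914, .ofNat 1135, .ofNat 0, .ofNat 1135, .ofNat 2303, .ofNat 0, .ofNat 128, .negSucc 282, .negSucc 1876, .ofNat 0, .ofNat 178, .ofNat 986, .ofNat 0, .ofNat 0,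 .ofNat 1865, .ofNat 931, .ofNat 0, .ofNat 0, .ofNat 0, .ofNat 0, .ofNat 0, .ofNat 0, .ofNat 0, .ofNat 0, .ofNat 0, .ofNat 0, .ofNat 0, .ofNat 0, .ofNat 0, .ofNat 0, .ofNat 0, .ofNat 0⟩)
    (by decide +kernel)
theorem L02950 : Good (Phi V5.P V5.D (-1) (-1)) ⟨5, 26, 4, 7, 2, 2, 3, 5, 5, 0⟩ :=
  leafX_sound T5.ok_mm T5.Ymm.bz_eq (w := 228) (c := ⟨⟨.ofNat 1824, .ofNat 595, .negSucc 292, .ofNat 1334, .negSucc 1176, .negSucc 1549⟩, ⟨.negSucc 968, .negSucc 372, .ofNat 110, .negSucc 658, .ofNat 622, .ofNat 810⟩, ⟨.negSucc 1844, .negSucc 571, .ofNat 292, .negSucc 421, .ofNat 817, .ofNat 1156⟩, ⟨.ofNat 2113, .ofNat 1027, .negSucc 481, .ofNat 2300, .negSucc 1674, .negSucc 2466⟩, ⟨.negSucc 1338, .ofNat 492, .negSucc 24, .ofNat 502, .ofNat 193, .negSucc 273⟩, .ofNat 1964, .ofNat 3046, .ofNat 0, .ofNat 3046, .ofNat 5866, .ofNat 0, .ofNat 128, .negSucc 266, .negSucc 1161, .ofNat 0,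 .ofNat 157, .ofNat 615, .ofNat 0, .ofNat 0, .ofNat 1181, .ofNat 496, .ofNat 0, .ofNat 0, .ofNat 0, .ofNat 0, .ofNat 0, .ofNat 0, .ofNat 5540103380646771625316678761300724023296, .ofNat 0, .ofNat 0, .ofNat 0, .ofNat 0, .ofNat 0, .ofNat 0, .ofNat 0, .ofNat 0, .ofNat 0⟩)
    (by decide +kernel)
theorem L02951 : Good (Phi V5.P V5.D (-1) (-1)) ⟨5, 26, 4, 7, 2, 2, 2, 2, 5, 1⟩ :=
  leafX_sound T5.ok_mm T5.Ymm.bz_eq (w := 222) (c := ⟨⟨.ofNat 750, .ofNat 400, .negSucc 33, .ofNat 2251, .negSucc 2093, .negSucc 2162⟩, ⟨.negSucc 423, .negSucc 243, .ofNat 31, .negSucc 1203, .ofNat 1133, .ofNat 1125⟩, ⟨.negSucc 855, .negSucc 330, .ofNat 103, .negSucc 1468, .ofNat 1554, .ofNat 1597⟩, ⟨.ofNat 551, .ofNat 506, .negSucc 12, .ofNat 3367, .negSucc 3006, .negSucc 3362⟩, ⟨.negSucc 1163, .negSucc 145, .ofNat 168, .negSucc 51, .ofNat 286, .negSucc 190⟩, .ofNat 1244, .ofNat 1745, .ofNat 0, .ofNat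 1745, .ofNat 3488, .ofNat 0, .ofNat 128, .negSucc 307, .negSucc 695, .ofNat 0, .ofNat 183, .ofNat 364, .ofNat 0, .ofNat 0, .ofNat 683, .ofNat 566, .ofNat 0, .ofNat 0, .ofNat 0, .ofNat 0, .ofNat 0, .ofNat 0, .ofNat 0, .ofNat 0, .ofNat 0, .ofNat 0, .ofNat 0, .ofNat 0, .ofNat 0, .ofNat 0, .ofNat 108734423363001712459232281492254097408, .ofNat 0⟩)
    (by decide +kernel)
theorem L02952 : Good (Phi V5.P V5.D (-1) (-1)) ⟨7, 108, 4, 7, 2, 2, 3, 4, 5, 0⟩ :=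
  leafX_sound T5.ok_mm T5.Ymm.bz_eq (w := 238) (c := ⟨⟨.ofNat 4122, .ofNat 316, .negSucc 556, .ofNat 37, .negSucc 824, .negSucc 1024⟩, ⟨.negSucc 2285, .negSucc 197, .ofNat 249, .ofNat 47, .ofNat 454, .ofNat 540⟩, ⟨.negSucc 3680, .negSucc 267, .ofNat 506, .ofNat 915, .ofNat 391, .ofNat 620⟩, ⟨.ofNat 5128, .ofNat 347, .negSucc 685, .ofNat 939, .negSucc 1231, .negSucc 1847⟩, ⟨.negSucc 1825, .negSucc 125, .ofNat 281, .ofNat 1590, .negSucc 22, .negSucc 598⟩, .ofNat 1539, .ofNat 2157, .ofNat 0, .ofNat 2157, .ofNat 4003, .ofNat 0, .ofNat 128, .negSucc 393, .negSucc 2705, .ofNat 0, .ofNat 251, .ofNat 1488, .ofNat 0, .ofNat 0, .ofNat 2705, .ofNat 837, .ofNat 0, .ofNat 0, .ofNat 9400033250423332537930004349587554304, .ofNat 0, .ofNat 0, .ofNat 0, .ofNat 1065722278395183283527505694464866779136, .ofNat 0, .ofNat 0, .ofNat 0, .ofNat 1113512576350806356859632989899178639360, .ofNat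 0, .ofNat 0, .ofNat 0, .ofNat 0, .ofNat 0⟩)
    (by decide +kernel)
theorem L02953 : Good (Phi V5.P V5.D (-1) (-1)) ⟨7, 109, 4, 7, 2, 2, 3, 4, 5, 0⟩ :=
  out_sound (S := T5.ds_mm) T5.ok_mm (w := 71) (j := 3) (by decide +kernel)
theorem L02954 : Good (Phi V5.P V5.D (-1) (-1)) ⟨6, 54, 4, 7, 2, 2, 3, 5, 5, 0⟩ :=
  leafX_sound T5.ok_mm T5.Ymm.bz_eq (w := 232) (c := ⟨⟨.ofNat 2414, .ofNat 217, .negSucc 20, .ofNat 1561, .negSucc 1420, .negSucc 1735⟩, ⟨.negSucc 1350, .negSucc 173, .negSucc 13, .negSucc 835, .ofNat 789, .ofNat 948⟩, ⟨.negSucc 2403, .negSucc 217, .ofNat 41, .negSucc 609, .ofNat 1027, .ofNat 1341⟩, ⟨.ofNat 2919, .ofNat 289, .negSucc 80, .ofNat 2701, .negSucc 2054, .negSucc 2703⟩, ⟨.negSucc 1252, .ofNat 54, .negSucc 37, .ofNat 703, .ofNat 81, .negSucc 254⟩, .ofNat 1228, .ofNat 1635, .ofNat 0, .ofNat 1635, .ofNat 3087, .ofNat 0, .ofNat 128, .negSucc 260, .negSucc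 1612, .ofNat 0, .ofNat 167, .ofNat 887, .ofNat 0, .ofNat 0, .ofNat 1593, .ofNat 988, .ofNat 0, .ofNat 0, .ofNat 15342304512073453927277124514188623872, .ofNat 0, .ofNat 0, .ofNat 0, .ofNat 2450867969536048779381531771949362970624, .ofNat 0, .ofNat 0, .ofNat 0, .ofNat 2641404073969062571037415597759520571392, .ofNat 0, .ofNat 0, .ofNat 0, .ofNat 0, .ofNat 0⟩)
    (by decide +kernel)
theorem L02955 : Good (Phi V5.P V5.D (-1) (-1)) ⟨6, 55, 4, 7, 2, 2, 2, 2, 5, 0⟩ :=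
  out_sound (S := T5.ds_mm) T5.ok_mm (w := 65) (j := 3) (by decide +kernel)
theorem L02956 : Good (Phi V5.P V5.D (-1) (-1)) ⟨5, 27, 4, 7, 2, 2, 2, 2, 5, 1⟩ :=
  leafX_sound T5.ok_mm T5.Ymm.bz_eq (w := 225) (c := ⟨⟨.ofNat 234, .ofNat 381, .ofNat 753, .ofNat 2379, .negSucc 2153, .negSucc 2141⟩, ⟨.negSucc 205, .negSucc 308, .negSucc 361, .negSucc 1317, .ofNat 1198, .ofNat 1168⟩, ⟨.negSucc 451, .negSucc 601, .negSucc 383, .negSucc 1457, .ofNat 1415, .ofNat 1487⟩, ⟨.ofNat 87, .ofNat 432, .ofNat 909, .ofNat 3417, .negSucc 3180, .negSucc 3297⟩, ⟨.negSucc 601, .negSucc 236, .negSucc 219, .negSucc 178, .ofNat 2, .negSucc 232⟩, .ofNat 2106, .ofNat 3125, .ofNat 0, .ofNat 3125, .ofNat 5652, .ofNat 0, .ofNat 128, .negSucc 483, .negSucc 1231, .ofNat 0, .ofNat 297, .ofNat 688, .ofNat 0, .ofNat 0, .ofNat 1165, .ofNat 523, .ofNat 0, .ofNat 0, .ofNat 2716591261742060573033355640406278144,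 .ofNat 0, .ofNat 0, .ofNat 0, .ofNat 1868482089023998660607129361964263800832, .ofNat 0, .ofNat 0, .ofNat 0, .ofNat 1594534980798628809094727676280952586240, .ofNat 0, .ofNat 0, .ofNat 0, .ofNat 780905406700177468180418474680122343424, .ofNat 0⟩)
    (by decide +kernel)
theorem L02957 : Good (Phi V5.P V5.D (-1) (-1)) ⟨5, 26, 4, 7, 2, 2, 2, 2, 5, 2⟩ :=
  leafX_sound T5.ok_mm T5.Ymm.bz_eq (w := 222) (c := ⟨⟨.negSucc 1401, .negSucc 346, .ofNat 0, .ofNat 1002, .negSucc 839, .negSucc 1638⟩, ⟨.ofNat 676, .ofNat 189, .ofNat 105, .negSucc 558, .ofNat 442, .ofNat 849⟩, ⟨.ofNat 919, .ofNat 259, .ofNat 6, .negSucc 966, .ofNat 701, .ofNat 1184⟩, ⟨.negSucc 2504, .negSucc 403, .negSucc 166, .ofNat 1041, .negSucc 1192, .negSucc 2503⟩, ⟨.negSucc 750, .ofNat 27, .negSucc 203, .negSucc 941, .ofNat 233, .ofNat 6⟩, .ofNat 1206, .ofNat 1680, .ofNat 0, .ofNat 1680, .ofNat 3384, .ofNat 0,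 .ofNat 128, .negSucc 415, .negSucc 904, .ofNat 0, .ofNat 247, .ofNat 470, .ofNat 0, .ofNat 0, .ofNat 907, .ofNat 312, .ofNat 0, .ofNat 0, .ofNat 0, .ofNat 0, .ofNat 0, .ofNat 0, .ofNat 0, .ofNat 0, .ofNat 0, .ofNat 0, .ofNat 0, .ofNat 0, .ofNat 0, .ofNat 0, .ofNat 474854881214338845191278760331965366272, .ofNat 0⟩)
    (by decide +kernel)
theorem L02958 : Good (Phi V5.P V5.D (-1) (-1)) ⟨5, 26, 4, 7, 2, 2, 2, 2, 5, 3⟩ :=
  leafX_sound T5.ok_mm T5.Ymm.bz_eq (w := 223) (c := ⟨⟨.negSucc 3634, .negSucc 737, .ofNat 294, .ofNat 444, .ofNat 409, .negSucc 212⟩, ⟨.ofNat 1823, .ofNat 416, .negSucc 4, .negSucc 281, .negSucc 213, .ofNat 114⟩, ⟨.ofNat 2707, .ofNat 569, .negSucc 223, .negSucc 750, .negSucc 301, .ofNat 9⟩, ⟨.negSucc 5789, .negSucc 995, .ofNat 358, .ofNat 55, .ofNat 659, .negSucc 219⟩, ⟨.negSucc 429, .negSucc 94, .negSucc 97, .negSucc 1212, .ofNat 116, .ofNat 221⟩, .ofNat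 1225, .ofNat 1700, .ofNat 0, .ofNat 1700, .ofNat 3381, .ofNat 0, .ofNat 128, .negSucc 411, .negSucc 903, .ofNat 0, .ofNat 247, .ofNat 477, .ofNat 0, .ofNat 0, .ofNat 960, .ofNat 749, .ofNat 0, .ofNat 0, .ofNat 0, .ofNat 0, .ofNat 0, .ofNat 0, .ofNat 478958413233702269570682697552054190080, .ofNat 0, .ofNat 0, .ofNat 0, .ofNat 0, .ofNat 0, .ofNat 0, .ofNat 0, .ofNat 0, .ofNat 0⟩)
    (by decide +kernel)
theorem L02959 : Good (Phi V5.P V5.D (-1) (-1)) ⟨6, 54, 4, 7, 2, 2, 2, 2, 4, 1⟩ :=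
  leafX_sound T5.ok_mm T5.Ymm.bz_eq (w := 221) (c := ⟨⟨.negSucc 3252, .negSucc 9, .ofNat 259, .ofNat 445, .ofNat 437, .negSucc 1420⟩, ⟨.ofNat 1624, .ofNat 18, .ofNat 10, .negSucc 303, .negSucc 230, .ofNat 809⟩, ⟨.ofNat 2336, .negSucc 109, .negSucc 117, .negSucc 676, .negSucc 285, .ofNat 959⟩, ⟨.negSucc 4908, .negSucc 18, .ofNat 276, .ofNat 168, .ofNat 556, .negSucc 2197⟩, ⟨.negSucc 318, .negSucc 139, .negSucc 147, .negSucc 945, .negSucc 71, .ofNat 18⟩, .ofNat 1024, .ofNat 1272, .ofNat 0, .ofNat 1272, .ofNat 2442, .ofNat 0, .ofNat 128, .negSucc 412, .negSucc 1161, .ofNat 0, .ofNat 268, .ofNat 641, .ofNat 0, .ofNat 0, .ofNat 1114, .ofNat 401, .ofNat 0, .ofNat 0, .ofNat 63750705089808241048051146544906240, .ofNat 0, .ofNat 0, .ofNat 0, .ofNat 1845238730534380459185498570285383680, .ofNat 0, .ofNat 0, .ofNat 0, .ofNat 6854315938838002641085091884742737920, .ofNat 0, .ofNat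 0, .ofNat 0, .ofNat 10671435172876611158776867554716549120, .ofNat 0⟩)
    (by decide +kernel)
theorem L02960 : Good (Phi V5.P V5.D (-1) (-1)) ⟨6, 55, 4, 7, 2, 2, 2, 2, 4, 1⟩ :=
  out_sound (S := T5.ds_mm) T5.ok_mm (w := 65) (j := 3) (by decide +kernel)
theorem L02961 : Good (Phi V5.P V5.D (-1) (-1)) ⟨3, 7, 3, 3, 2, 2, 2, 2, 3, 0⟩ :=
  out_sound (S := T5.ds_mm) T5.ok_mm (w := 45) (j := 3) (by decide +kernel)
theorem L02962 : Good (Phi V5.P V5.D (-1) (-1)) ⟨2, 2, 3, 3, 2, 2, 2, 2, 3, 1⟩ :=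
  out_sound (S := T5.ds_mm) T5.ok_mm (w := 39) (j := 3) (by decide +kernel)
theorem L02963 : Good (Phi V5.P V5.D (-1) (-1)) ⟨4, 12, 3, 3, 2, 2, 2, 2, 4, 2⟩ :=
  leafX_sound T5.ok_mm T5.Ymm.bz_eq (w := 210) (c := ⟨⟨.negSucc 3620, .negSucc 591, .ofNat 250, .ofNat 409, .ofNat 659, .ofNat 747⟩, ⟨.ofNat 1577, .ofNat 353, .ofNat 161, .negSucc 225, .negSucc 301, .negSucc 346⟩, ⟨.ofNat 2718, .ofNat 414, .negSucc 246, .negSucc 812, .negSucc 596, .negSucc 660⟩, ⟨.negSucc 6175, .negSucc 612, .ofNat 266, .ofNat 320, .ofNat 1106, .ofNat 1233⟩, ⟨.negSucc 535, .negSucc 41, .negSucc 186, .negSucc 663, .ofNat 163, .ofNat 158⟩, .ofNat 1059, .ofNat 1516, .ofNat 0, .ofNat 1516, .ofNat 3407, .ofNat 0, .ofNat 128, .negSucc 482, .negSucc 577, .ofNat 0, .ofNat 273, .ofNat 274, .ofNat 0, .ofNat 0, .ofNat 850, .ofNat 752, .ofNat 0, .ofNat 0, .ofNat 0, .ofNat 0, .ofNat 0, .ofNat 0, .ofNat 3766832306689554623895090220794642432,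 .ofNat 0, .ofNat 0, .ofNat 0, .ofNat 0, .ofNat 0, .ofNat 0, .ofNat 0, .ofNat 0, .ofNat 0⟩)
    (by decide +kernel)
theorem L02964 : Good (Phi V5.P V5.D (-1) (-1)) ⟨4, 13, 3, 3, 2, 2, 2, 2, 4, 2⟩ :=
  leafX_sound T5.ok_mm T5.Ymm.bz_eq (w := 210) (c := ⟨⟨.negSucc 4378, .negSucc 567, .ofNat 195, .ofNat 397, .ofNat 776, .ofNat 937⟩, ⟨.ofNat 2070, .ofNat 383, .ofNat 184, .negSucc 256, .negSucc 405, .negSucc 489⟩, ⟨.ofNat 3341, .ofNat 391, .negSucc 200, .negSucc 876, .negSucc 702, .negSucc 851⟩, ⟨.negSucc 6911, .negSucc 496, .ofNat 213, .ofNat 131, .ofNat 1225, .ofNat 1488⟩, ⟨.negSucc 452, .ofNat 52, .negSucc 93, .negSucc 854, .ofNat 115, .ofNat 156⟩, .ofNat 651, .ofNat 693, .ofNat 0, .ofNat 693, .ofNat 1521, .ofNat 0, .ofNat 128, .negSucc 285, .negSucc 434, .ofNat 0, .ofNat 189, .ofNat 224, .ofNat 0, .ofNat 0, .ofNat 592, .ofNat 429, .ofNat 0, .ofNat 0, .ofNat 172086269010717009856255456293421056,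 .ofNat 0, .ofNat 0, .ofNat 0, .ofNat 1679263843523596296670116424842215424, .ofNat 0, .ofNat 0, .ofNat 0, .ofNat 6329538465482783897049211664498425856, .ofNat 0, .ofNat 0, .ofNat 0, .ofNat 5261533535800795996459046607846899712, .ofNat 0⟩)
    (by decide +kernel)
theorem L02965 : Good (Phi V5.P V5.D (-1) (-1)) ⟨3, 6, 3, 3, 2, 2, 2, 2, 4, 3⟩ :=
  leafX_sound T5.ok_mm T5.Ymm.bz_eq (w := 206) (c := ⟨⟨.negSucc 3025, .negSucc 848, .ofNat 166, .ofNat 490, .ofNat 520, .ofNat 700⟩, ⟨.ofNat 1324, .ofNat 534, .ofNat 175, .negSucc 269, .negSucc 240, .negSucc 348⟩, ⟨.ofNat 2313, .ofNat 520, .negSucc 170, .negSucc 1021, .negSucc 651, .negSucc 620⟩, ⟨.negSucc 5181, .negSucc 716, .ofNat 206, .ofNat 436, .ofNat 986, .ofNat 1127⟩, ⟨.negSucc 547, .ofNat 130, .negSucc 91, .negSucc 622, .ofNat 374, .ofNat 160⟩, .ofNat 633, .ofNat 675, .ofNat 0, .ofNat 675, .ofNat 1556, .ofNat 0, .ofNat 128,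 .negSucc 404, .negSucc 237, .ofNat 0, .ofNat 275, .ofNat 118, .ofNat 0, .ofNat 0, .ofNat 584, .ofNat 734, .ofNat 0, .ofNat 0, .ofNat 0, .ofNat 0, .ofNat 0, .ofNat 0, .ofNat 17370266954440853909049199262940790784, .ofNat 0, .ofNat 0, .ofNat 0, .ofNat 27914079493442892157106805589399306240, .ofNat 0, .ofNat 0, .ofNat 0, .ofNat 25348024423258412868387828728793661440, .ofNat 0⟩)
    (by decide +kernel)
theorem L02966 : Good (Phi V5.P V5.D (-1) (-1)) ⟨3, 7, 3, 3, 2, 2, 2, 2, 3, 1⟩ :=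
  out_sound (S := T5.ds_mm) T5.ok_mm (w := 45) (j := 3) (by decide +kernel)
theorem L02967 : Good (Phi V5.P V5.D (-1) (-1)) ⟨2, 2, 4, 6, 2, 2, 2, 3, 4, 0⟩ :=
  out_sound (S := T5.ds_mm) T5.ok_mm (w := 41) (j := 3) (by decide +kernel)
theorem L02968 : Good (Phi V5.P V5.D (-1) (-1)) ⟨4, 12, 4, 6, 2, 2, 3, 6, 4, 0⟩ :=
  leafX_sound T5.ok_mm T5.Ymm.bz_eq (w := 217) (c := ⟨⟨.ofNat 787, .negSucc 583, .ofNat 195, .ofNat 993, .negSucc 814, .negSucc 2482⟩, ⟨.negSucc 336, .ofNat 187, .negSucc 37, .negSucc 483, .ofNat 377, .ofNat 1156⟩, ⟨.negSucc 803, .ofNat 424, .negSucc 101, .negSucc 673, .ofNat 643, .ofNat 1821⟩, ⟨.ofNat 845, .negSucc 803, .ofNat 295, .ofNat 1470, .negSucc 1263, .negSucc 4082⟩, ⟨.negSucc 835, .ofNat 110, .ofNat 106, .negSucc 166, .ofNat 93, .negSucc 382⟩, .ofNat 1070, .ofNat 1546, .ofNat 0, .ofNat 1546, .ofNat 3483, .ofNat 0, .ofNat 128, .negSucc 268, .negSucc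 630, .ofNat 0, .ofNat 153, .ofNat 292, .ofNat 0, .ofNat 0, .ofNat 652, .ofNat 419, .ofNat 0, .ofNat 0, .ofNat 0, .ofNat 0, .ofNat 0, .ofNat 0, .ofNat 0, .ofNat 0, .ofNat 0, .ofNat 0, .ofNat 0, .ofNat 0, .ofNat 0, .ofNat 0, .ofNat 0, .ofNat 0⟩)
    (by decide +kernel)
theorem L02969 : Good (Phi V5.P V5.D (-1) (-1)) ⟨4, 13, 4, 6, 2, 2, 3, 6, 5, 0⟩ :=
  leafX_sound T5.ok_mm T5.Ymm.bz_eq (w := 222) (c := ⟨⟨.ofNat 760, .ofNat 499, .ofNat 63, .ofNat 1450, .negSucc 1498, .negSucc 1636⟩, ⟨.negSucc 433, .negSucc 418, .ofNat 4, .negSucc 712, .ofNat 748, .ofNat 801⟩, ⟨.negSucc 997, .negSucc 461, .ofNat 6, .negSucc 835, .ofNat 1194, .ofNat 1238⟩, ⟨.ofNat 731, .ofNat 867, .negSucc 20, .ofNat 2291, .negSucc 2298, .negSucc 2583⟩, ⟨.negSucc 895, .ofNat 462, .negSucc 186, .ofNat 166, .negSucc 46, .negSucc 229⟩, .ofNat 1284, .ofNat 1845, .ofNat 0, .ofNat 1845, .ofNat 3785, .ofNat 0, .ofNat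 128, .negSucc 220, .negSucc 633, .ofNat 0, .ofNat 135, .ofNat 316, .ofNat 0, .ofNat 0, .ofNat 645, .ofNat 241, .ofNat 0, .ofNat 0, .ofNat 121750056685473727273204340241786208256, .ofNat 0, .ofNat 0, .ofNat 0, .ofNat 15530037979876253682459818744294380929024, .ofNat 0, .ofNat 0, .ofNat 0, .ofNat 7726372193908275923676752361598513840128, .ofNat 0, .ofNat 0, .ofNat 0, .ofNat 16319770918299611977146692749586763612160, .ofNat 0⟩)
    (by decide +kernel)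
theorem L02970 : Good (Phi V5.P V5.D (-1) (-1)) ⟨4, 13, 4, 6, 2, 2, 3, 6, 5, 1⟩ :=
  leafX_sound T5.ok_mm T5.Ymm.bz_eq (w := 221) (c := ⟨⟨.negSucc 1009, .negSucc 461, .ofNat 100, .ofNat 1506, .negSucc 938, .negSucc 1772⟩, ⟨.ofNat 407, .ofNat 186, .ofNat 20, .negSucc 767, .ofNat 474, .ofNat 875⟩, ⟨.ofNat 582, .ofNat 466, .negSucc 88, .negSucc 1183, .ofNat 748, .ofNat 1370⟩, ⟨.negSucc 1945, .negSucc 418, .ofNat 82, .ofNat 2120, .negSucc 1393, .negSucc 2753⟩, ⟨.negSucc 865, .ofNat 367, .negSucc 64, .negSucc 311, .ofNat 110, .negSucc 82⟩, .ofNat 979, .ofNat 1209, .ofNat 0, .ofNat 1209, .ofNat 2418, .ofNat 0, .ofNat 128, .negSucc 212, .negSucc 682, .ofNat 0, .ofNat 146, .ofNat 351, .ofNat 0, .ofNat 0, .ofNat 658, .ofNat 369, .ofNat 0, .ofNat 0, .ofNat 52785892610848500573186283676893184000, .ofNat 0, .ofNat 0, .ofNat 0, .ofNat 2788090492270131686462651042551331553280, .ofNat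 0, .ofNat 0, .ofNat 0, .ofNat 4783757594520198522682554745809289609216, .ofNat 0, .ofNat 0, .ofNat 0, .ofNat 15392825329190009591878977579318092234752, .ofNat 0⟩)
    (by decide +kernel)
theorem L02971 : Good (Phi V5.P V5.D (-1) (-1)) ⟨5, 24, 4, 6, 2, 2, 3, 7, 4, 0⟩ :=
  out_sound (S := T5.ds_mm) T5.ok_mm (w := 59) (j := 3) (by decide +kernel)
theorem L02972 : Good (Phi V5.P V5.D (-1) (-1)) ⟨5, 25, 4, 6, 3, 4, 3, 7, 4, 0⟩ :=
  leafX_sound T5.ok_mm T5.Ymm.bz_eq (w := 238) (c := ⟨⟨.negSucc 776, .negSucc 82, .ofNat 221, .ofNat 190, .ofNat 541, .negSucc 1498⟩, ⟨.ofNat 321, .ofNat 31, .negSucc 42, .negSucc 103, .negSucc 241, .ofNat 701⟩, ⟨.ofNat 378, .ofNat 81, .negSucc 180, .negSucc 100, .negSucc 598, .ofNat 1134⟩, ⟨.negSucc 1675, .negSucc 104, .ofNat 439, .ofNat 277, .ofNat 980, .negSucc 2371⟩, ⟨.negSucc 966, .negSucc 57, .ofNat 292, .ofNat 11, .ofNat 280, .negSucc 61⟩,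 .ofNat 1509, .ofNat 2437, .ofNat 0, .ofNat 2437, .ofNat 5340, .ofNat 0, .ofNat 128, .negSucc 281, .negSucc 1593, .ofNat 0, .ofNat 158, .ofNat 741, .ofNat 0, .ofNat 0, .ofNat 1724, .ofNat 222, .ofNat 0, .ofNat 0, .ofNat 0, .ofNat 0, .ofNat 0, .ofNat 0, .ofNat 0, .ofNat 0, .ofNat 0, .ofNat 0, .ofNat 0, .ofNat 0, .ofNat 0, .ofNat 0, .ofNat 0, .ofNat 0⟩)
    (by decide +kernel)

end Crest.Agent.R097C5.N5mm
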