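import Crest.Agent.R097.KP7
import Crest.Agent.R097.T5Ymm

/-!
# Row 97, box cover in dimension n = 5 (generated)
-/

set_option autoImplicit false
set_option Elab.async false
set_option maxHeartbeats 0
set_option maxRecDepth 100000

open Crest.Agent.R097 Crest.Agent.R097.KA


namespace Crest.Agent.R097C5.N5mm

theorem L02973 : Good (Phi V5.P V5.D (-1) (-1)) ⟨6, 50, 4, 6, 3, 5, 3, 7, 4, 0⟩ :=
  leafX_sound T5.ok_mm T5.Ymm.bz_eq (w := 242) (c := ⟨⟨.negSucc 381, .negSucc 98, .negSucc 87, .ofNat 193, .negSucc 144, .negSucc 1455⟩, ⟨.ofNat 139, .ofNat 38, .ofNat 111, .negSucc 92, .ofNat 69, .ofNat 659⟩, ⟨.ofNat 194, .ofNat 82, .ofNat 107, .negSucc 79, .ofNat 8, .ofNat 922⟩, ⟨.negSucc 1053, .negSucc 153, .negSucc 174, .ofNat 243, .negSucc 155, .negSucc 2316⟩, ⟨.negSucc 971, .negSucc 39, .negSucc 0, .negSucc 135, .ofNat 164, .negSucc 18⟩, .ofNat 1313, .ofNat 2075,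 .ofNat 0, .ofNat 2075, .ofNat 4652, .ofNat 0, .ofNat 128, .negSucc 359, .negSucc 2072, .ofNat 0, .ofNat 190, .ofNat 949, .ofNat 0, .ofNat 0, .ofNat 2051, .ofNat 1075, .ofNat 0, .ofNat 0, .ofNat 0, .ofNat 0, .ofNat 0, .ofNat 0, .ofNat 0, .ofNat 0, .ofNat 0, .ofNat 0, .ofNat 692773367797823505072595234368924925558784, .ofNat 0, .ofNat 0, .ofNat 0, .ofNat 0, .ofNat 0⟩)
    (by decide +kernel)
theorem L02974 : Good (Phi V5.P V5.D (-1) (-1)) ⟨6, 51, 4, 6, 3, 5, 3, 7, 4, 0⟩ :=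
  leafX_sound T5.ok_mm T5.Ymm.bz_eq (w := 241) (c := ⟨⟨.negSucc 378, .negSucc 133, .ofNat 357, .ofNat 111, .negSucc 177, .negSucc 1674⟩, ⟨.ofNat 115, .ofNat 54, .negSucc 94, .negSucc 58, .ofNat 90, .ofNat 790⟩, ⟨.ofNat 204, .ofNat 85, .negSucc 275, .negSucc 29, .ofNat 37, .ofNat 1110⟩, ⟨.negSucc 1010, .negSucc 334, .ofNat 533, .ofNat 142, .negSucc 238, .negSucc 2572⟩, ⟨.negSucc 880, .negSucc 313, .ofNat 2, .negSucc 63, .ofNat 85, .ofNat 70⟩, .ofNat 1398, .ofNat 2154, .ofNat 0, .ofNat 2154, .ofNat 4615, .ofNat 0, .ofNat 128, .negSucc 336, .negSucc 1584, .ofNat 0, .ofNat 191, .ofNat 748, .ofNat 0, .ofNat 0, .ofNat 1567, .ofNat 516, .ofNat 0, .ofNat 0, .ofNat 0, .ofNat 0, .ofNat 0, .ofNat 0, .ofNat 0, .ofNat 0, .ofNat 0, .ofNat 0, .ofNat 0, .ofNat 0, .ofNat 0, .ofNat 0, .ofNat 0, .ofNat 0⟩)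
    (by decide +kernel)
theorem L02975 : Good (Phi V5.P V5.D (-1) (-1)) ⟨6, 52, 4, 6, 3, 4, 3, 7, 4, 0⟩ :=
  leafX_sound T5.ok_mm T5.Ymm.bz_eq (w := 241) (c := ⟨⟨.negSucc 686, .negSucc 272, .ofNat 268, .ofNat 152, .ofNat 610, .negSucc 1905⟩, ⟨.ofNat 259, .ofNat 130, .negSucc 64, .negSucc 93, .negSucc 296, .ofNat 950⟩, ⟨.ofNat 296, .ofNat 253, .negSucc 218, .negSucc 86, .negSucc 690, .ofNat 1532⟩, ⟨.negSucc 1469, .negSucc 468, .ofNat 430, .ofNat 96, .ofNat 953, .negSucc 2665⟩, ⟨.negSucc 884, .negSucc 172, .ofNat 94, .negSucc 252, .ofNat 69, .ofNat 512⟩, .ofNat 1292, .ofNat 1870, .ofNat 0, .ofNat 1870, .ofNat 3861, .ofNat 0, .ofNat 128, .negSucc 196, .negSucc 1441, .ofNat 0, .ofNat 123, .ofNat 712, .ofNat 0, .ofNat 0, .ofNat 1536, .ofNat 250, .ofNat 0, .ofNat 0, .ofNat 0, .ofNat 0, .ofNat 0, .ofNat 0, .ofNat 0, .ofNat 0, .ofNat 0, .ofNat 0, .ofNat 0, .ofNat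 0, .ofNat 0, .ofNat 0, .ofNat 0, .ofNat 0⟩)
    (by decide +kernel)
theorem L02976 : Good (Phi V5.P V5.D (-1) (-1)) ⟨6, 52, 4, 6, 3, 5, 3, 7, 4, 0⟩ :=
  leafX_sound T5.ok_mm T5.Ymm.bz_eq (w := 240) (c := ⟨⟨.negSucc 401, .negSucc 67, .ofNat 289, .ofNat 161, .negSucc 144, .negSucc 2037⟩, ⟨.ofNat 102, .ofNat 29, .negSucc 62, .negSucc 90, .ofNat 79, .ofNat 995⟩, ⟨.ofNat 198, .ofNat 49, .negSucc 218, .negSucc 73, .ofNat 6, .ofNat 1417⟩, ⟨.negSucc 1145, .negSucc 78, .ofNat 424, .ofNat 164, .negSucc 131, .negSucc 3088⟩, ⟨.negSucc 1090, .ofNat 0, .ofNat 28, .negSucc 161, .ofNat 181, .ofNat 48⟩, .ofNat 1292, .ofNat 1870, .ofNat 0, .ofNat 1870, .ofNat 3859, .ofNat 0, .ofNat 128, .negSucc 285, .negSucc 1226, .ofNat 0, .ofNat 171, .ofNat 600, .ofNat 0, .ofNat 0, .ofNat 1183, .ofNat 353, .ofNat 0, .ofNat 0, .ofNat 0, .ofNat 0, .ofNat 0, .ofNat 0, .ofNat 126142141909030334667405956472769878163456,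 .ofNat 0, .ofNat 0, .ofNat 0, .ofNat 0, .ofNat 0, .ofNat 0, .ofNat 0, .ofNat 0, .ofNat 0⟩)
    (by decide +kernel)
theorem L02977 : Good (Phi V5.P V5.D (-1) (-1)) ⟨6, 53, 4, 6, 2, 2, 4, 14, 4, 0⟩ :=
  leafX_sound T5.ok_mm T5.Ymm.bz_eq (w := 229) (c := ⟨⟨.negSucc 725, .negSucc 234, .ofNat 315, .ofNat 690, .negSucc 90, .negSucc 2414⟩, ⟨.ofNat 252, .ofNat 90, .negSucc 66, .negSucc 379, .ofNat 55, .ofNat 1224⟩, ⟨.ofNat 304, .ofNat 104, .negSucc 134, .negSucc 486, .ofNat 66, .ofNat 1802⟩, ⟨.negSucc 1479, .negSucc 486, .ofNat 610, .ofNat 769, .negSucc 126, .negSucc 3752⟩, ⟨.negSucc 791, .negSucc 292, .ofNat 293, .negSucc 522, .ofNat 28, .negSucc 188⟩, .ofNat 1134, .ofNat 1505, .ofNat 0, .ofNat 1505, .ofNat 3016, .ofNat 0, .ofNat 128, .negSucc 229, .negSucc 903, .ofNat 0, .ofNat 155, .ofNat 455, .ofNat 0, .ofNat 0, .ofNat 901, .ofNat 759, .ofNat 0, .ofNat 0,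 .ofNat 0, .ofNat 0, .ofNat 0, .ofNat 0, .ofNat 756091410005732249360657090438259277824, .ofNat 0, .ofNat 0, .ofNat 0, .ofNat 287945047587520607702464319351062265856, .ofNat 0, .ofNat 0, .ofNat 0, .ofNat 656999109520972803058191627185607933952, .ofNat 0⟩)
    (by decide +kernel)
theorem L02978 : Good (Phi V5.P V5.D (-1) (-1)) ⟨6, 53, 4, 6, 2, 2, 4, 15, 4, 0⟩ :=
  leafX_sound T5.ok_mm T5.Ymm.bz_eq (w := 229) (c := ⟨⟨.negSucc 1193, .negSucc 524, .ofNat 479, .negSucc 31, .ofNat 485, .negSucc 1074⟩, ⟨.ofNat 497, .ofNat 256, .negSucc 163, .negSucc 9, .negSucc 236, .ofNat 549⟩, ⟨.ofNat 760, .ofNat 505, .negSucc 395, .ofNat 174, .negSucc 508, .ofNat 587⟩, ⟨.negSucc 2111, .negSucc 795, .ofNat 713, .negSucc 330, .ofNat 789, .negSucc 1641⟩, ⟨.negSucc 685, .negSucc 64, .ofNat 50, .negSucc 534, .ofNat 128, .negSucc 18⟩, .ofNat 1046, .ofNat 1351, .ofNat 0, .ofNat 1351,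 .ofNat 2735, .ofNat 0, .ofNat 128, .negSucc 223, .negSucc 1164, .ofNat 0, .ofNat 154, .ofNat 582, .ofNat 0, .ofNat 0, .ofNat 1169, .ofNat 543, .ofNat 0, .ofNat 0, .ofNat 0, .ofNat 0, .ofNat 0, .ofNat 0, .ofNat 845851125650779782413451317154917908480, .ofNat 0, .ofNat 0, .ofNat 0, .ofNat 601637474563842686301322291972329701376, .ofNat 0, .ofNat 0, .ofNat 0, .ofNat 575740908620541198053648192212488421376, .ofNat 0⟩)
    (by decide +kernel)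
theorem L02979 : Good (Phi V5.P V5.D (-1) (-1)) ⟨5, 27, 4, 6, 2, 2, 3, 7, 4, 0⟩ :=
  out_sound (S := T5.ds_mm) T5.ok_mm (w := 59) (j := 3) (by decide +kernel)
theorem L02980 : Good (Phi V5.P V5.D (-1) (-1)) ⟨3, 7, 4, 6, 2, 2, 2, 3, 4, 0⟩ :=
  out_sound (S := T5.ds_mm) T5.ok_mm (w := 47) (j := 3) (by decide +kernel)
theorem L02981 : Good (Phi V5.P V5.D (-1) (-1)) ⟨2, 2, 4, 6, 2, 2, 2, 3, 4, 1⟩ :=
  out_sound (S := T5.ds_mm) T5.ok_mm (w := 41) (j := 3) (by decide +kernel)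
theorem L02982 : Good (Phi V5.P V5.D (-1) (-1)) ⟨5, 24, 4, 6, 2, 2, 3, 6, 4, 1⟩ :=
  out_sound (S := T5.ds_mm) T5.ok_mm (w := 59) (j := 3) (by decide +kernel)
theorem L02983 : Good (Phi V5.P V5.D (-1) (-1)) ⟨5, 25, 4, 6, 2, 2, 3, 6, 4, 1⟩ :=
  leafX_sound T5.ok_mm T5.Ymm.bz_eq (w := 221) (c := ⟨⟨.negSucc 2466, .negSucc 650, .ofNat 469, .ofNat 437, .ofNat 263, .negSucc 688⟩, ⟨.ofNat 1082, .ofNat 321, .negSucc 95, .negSucc 238, .negSucc 114, .ofNat 334⟩, ⟨.ofNat 1816, .ofNat 529, .negSucc 374, .negSucc 554, .negSucc 238, .ofNat 292⟩, ⟨.negSucc 4179, .negSucc 952, .ofNat 705, .ofNat 364, .ofNat 405, .negSucc 1042⟩, ⟨.negSucc 571, .negSucc 136, .ofNat 28, .negSucc 684, .ofNat 26, .ofNat 140⟩, .ofNat 1065, .ofNat 1537, .ofNat 0, .ofNat 1537, .ofNat 3472, .ofNat 0, .ofNat 128, .negSucc 318, .negSucc 764, .ofNat 0, .ofNat 179, .ofNat 353, .ofNat 0, .ofNat 0,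 .ofNat 821, .ofNat 373, .ofNat 0, .ofNat 0, .ofNat 0, .ofNat 0, .ofNat 0, .ofNat 0, .ofNat 0, .ofNat 0, .ofNat 0, .ofNat 0, .ofNat 0, .ofNat 0, .ofNat 0, .ofNat 0, .ofNat 0, .ofNat 0⟩)
    (by decide +kernel)
theorem L02984 : Good (Phi V5.P V5.D (-1) (-1)) ⟨5, 26, 4, 6, 2, 2, 3, 6, 5, 2⟩ :=
  leafX_sound T5.ok_mm T5.Ymm.bz_eq (w := 226) (c := ⟨⟨.negSucc 2961, .negSucc 660, .ofNat 398, .ofNat 410, .ofNat 160, .negSucc 738⟩, ⟨.ofNat 1340, .ofNat 351, .negSucc 61, .negSucc 260, .negSucc 68, .ofNat 375⟩, ⟨.ofNat 2202, .ofNat 574, .negSucc 317, .negSucc 550, .negSucc 138, .ofNat 469⟩, ⟨.negSucc 4775, .negSucc 936, .ofNat 555, .ofNat 201, .ofNat 245, .negSucc 1117⟩, ⟨.negSucc 483, .negSucc 162, .negSucc 53, .negSucc 855, .ofNat 34, .ofNat 56⟩, .ofNat 999, .ofNat 1312, .ofNat 0, .ofNat 1312, .ofNat 2748, .ofNat 0, .ofNat 128, .negSucc 274, .negSucc 1007, .ofNat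 0, .ofNat 169, .ofNat 502, .ofNat 0, .ofNat 0, .ofNat 1007, .ofNat 514, .ofNat 0, .ofNat 0, .ofNat 47006561287812280962045570309385355264, .ofNat 0, .ofNat 0, .ofNat 0, .ofNat 1067385515493095563723673665291270750208, .ofNat 0, .ofNat 0, .ofNat 0, .ofNat 5848256267811993197635283776917060190208, .ofNat 0, .ofNat 0, .ofNat 0, .ofNat 4682384858694187562441639903354347847680, .ofNat 0⟩)
    (by decide +kernel)
theorem L02985 : Good (Phi V5.P V5.D (-1) (-1)) ⟨5, 26, 4, 6, 2, 2, 3, 6, 5, 3⟩ :=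
  leafX_sound T5.ok_mm T5.Ymm.bz_eq (w := 227) (c := ⟨⟨.negSucc 3868, .negSucc 627, .ofNat 378, .ofNat 149, .ofNat 530, .ofNat 336⟩, ⟨.ofNat 1792, .ofNat 362, .negSucc 48, .negSucc 135, .negSucc 256, .negSucc 159⟩, ⟨.ofNat 2964, .ofNat 497, .negSucc 322, .negSucc 555, .negSucc 471, .negSucc 440⟩, ⟨.negSucc 6123, .negSucc 841, .ofNat 519, .negSucc 259, .ofNat 852, .ofNat 585⟩, ⟨.negSucc 368, .negSucc 99, .negSucc 70, .negSucc 991, .ofNat 81, .ofNat 160⟩, .ofNat 1017, .ofNat 1346, .ofNat 0, .ofNat 1346, .ofNat 2811, .ofNat 0, .ofNat 128, .negSucc 254, .negSucc 675, .ofNat 0, .ofNat 155, .ofNat 338, .ofNat 0, .ofNat 0, .ofNat 717, .ofNat 1011, .ofNat 0, .ofNat 0, .ofNat 0, .ofNat 0, .ofNat 0, .ofNat 0, .ofNat 1677705030488396756413502727883575001088, .ofNat 0, .ofNat 0, .ofNat 0, .ofNat 1334919648855861349000145148068300324864, .ofNat 0, .ofNat 0, .ofNat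 0, .ofNat 3498420656855526684439603082426234961920, .ofNat 0⟩)
    (by decide +kernel)
theorem L02986 : Good (Phi V5.P V5.D (-1) (-1)) ⟨5, 27, 4, 6, 2, 2, 3, 6, 4, 1⟩ :=
  out_sound (S := T5.ds_mm) T5.ok_mm (w := 59) (j := 3) (by decide +kernel)
theorem L02987 : Good (Phi V5.P V5.D (-1) (-1)) ⟨4, 12, 4, 6, 2, 2, 3, 7, 4, 1⟩ :=
  leafX_sound T5.ok_mm T5.Ymm.bz_eq (w := 217) (c := ⟨⟨.negSucc 1811, .negSucc 1206, .ofNat 394, .ofNat 354, .ofNat 1233, .negSucc 247⟩, ⟨.ofNat 775, .ofNat 592, .negSucc 82, .negSucc 191, .negSucc 566, .ofNat 130⟩, ⟨.ofNat 1292, .ofNat 898, .negSucc 290, .negSucc 439, .negSucc 1120, .negSucc 115⟩, ⟨.negSucc 3296, .negSucc 1676, .ofNat 580, .ofNat 271, .ofNat 2111, .negSucc 297⟩, ⟨.negSucc 692, .ofNat 29, .ofNat 3, .negSucc 591, .ofNat 400, .ofNat 255⟩, .ofNat 1076, .ofNat 1556, .ofNat 0, .ofNat 1556, .ofNat 3500, .ofNat 0, .ofNat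 128, .negSucc 333, .negSucc 983, .ofNat 0, .ofNat 188, .ofNat 452, .ofNat 0, .ofNat 0, .ofNat 1024, .ofNat 211, .ofNat 0, .ofNat 0, .ofNat 1370333484315475783141997090447556608, .ofNat 0, .ofNat 0, .ofNat 0, .ofNat 41931981180674062927505071105944584192, .ofNat 0, .ofNat 0, .ofNat 0, .ofNat 0, .ofNat 0, .ofNat 0, .ofNat 0, .ofNat 0, .ofNat 0⟩)
    (by decide +kernel)
theorem L02988 : Good (Phi V5.P V5.D (-1) (-1)) ⟨5, 26, 4, 6, 2, 2, 4, 14, 4, 1⟩ :=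
  leafX_sound T5.ok_mm T5.Ymm.bz_eq (w := 225) (c := ⟨⟨.negSucc 3252, .negSucc 644, .ofNat 288, .ofNat 248, .ofNat 696, .ofNat 263⟩, ⟨.ofNat 1495, .ofNat 349, .negSucc 19, .negSucc 175, .negSucc 339, .negSucc 109⟩, ⟨.ofNat 2528, .ofNat 521, .negSucc 239, .negSucc 485, .negSucc 626, .negSucc 627⟩, ⟨.negSucc 5254, .negSucc 898, .ofNat 378, .negSucc 40, .ofNat 1144, .ofNat 580⟩, ⟨.negSucc 550, .negSucc 94, .negSucc 81, .negSucc 842, .ofNat 180, .ofNat 401⟩, .ofNat 1012, .ofNat 1336, .ofNat 0, .ofNat 1336, .ofNat 2797, .ofNat 0, .ofNat 128, .negSucc 292, .negSucc 1002, .ofNat 0, .ofNat 179, .ofNat 495, .ofNat 0, .ofNat 0, .ofNat 1002, .ofNat 360, .ofNat 0, .ofNat 0, .ofNat 0, .ofNat 0, .ofNat 0, .ofNat 0, .ofNat 914935969812095992354568362999433658368, .ofNat 0, .ofNat 0, .ofNat 0, .ofNat 0, .ofNat 0, .ofNat 0, .ofNat 0, .ofNat 1986566712434151720719492268679323713536,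 .ofNat 0⟩)
    (by decide +kernel)
theorem L02989 : Good (Phi V5.P V5.D (-1) (-1)) ⟨5, 26, 4, 6, 2, 2, 4, 15, 4, 1⟩ :=
  leafX_sound T5.ok_mm T5.Ymm.bz_eq (w := 225) (c := ⟨⟨.negSucc 2761, .negSucc 402, .ofNat 450, .ofNat 216, .ofNat 1439, .ofNat 239⟩, ⟨.ofNat 1276, .ofNat 205, .negSucc 131, .negSucc 144, .negSucc 696, .negSucc 91⟩, ⟨.ofNat 1948, .ofNat 284, .negSucc 356, .negSucc 296, .negSucc 1300, .negSucc 555⟩, ⟨.negSucc 4481, .negSucc 659, .ofNat 701, .negSucc 36, .ofNat 2331, .ofNat 588⟩, ⟨.negSucc 498, .negSucc 280, .ofNat 63, .negSucc 723, .ofNat 234, .ofNat 463⟩, .ofNat 1006, .ofNat 1330, .ofNat 0, .ofNat 1330, .ofNat 2794, .ofNat 0, .ofNat 128, .negSucc 244, .negSucc 1019, .ofNat 0, .ofNat 150, .ofNat 496, .ofNat 0, .ofNat 0, .ofNat 988, .ofNat 269, .ofNat 0, .ofNat 0, .ofNat 0, .ofNat 0, .ofNat 0, .ofNat 245197461984201722158481027359201833624010752,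 .ofNat 958669037104952710664639921214137040896, .ofNat 0, .ofNat 0, .ofNat 0, .ofNat 0, .ofNat 0, .ofNat 0, .ofNat 0, .ofNat 1157662162020099168198851045238031515648, .ofNat 0⟩)
    (by decide +kernel)
theorem L02990 : Good (Phi V5.P V5.D (-1) (-1)) ⟨5, 27, 4, 6, 2, 2, 3, 7, 4, 1⟩ :=
  out_sound (S := T5.ds_mm) T5.ok_mm (w := 59) (j := 3) (by decide +kernel)
theorem L02991 : Good (Phi V5.P V5.D (-1) (-1)) ⟨3, 7, 4, 6, 2, 2, 2, 3, 4, 1⟩ :=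
  out_sound (S := T5.ds_mm) T5.ok_mm (w := 47) (j := 3) (by decide +kernel)
theorem L02992 : Good (Phi V5.P V5.D (-1) (-1)) ⟨2, 2, 4, 7, 2, 2, 2, 3, 3, 0⟩ :=
  out_sound (S := T5.ds_mm) T5.ok_mm (w := 41) (j := 3) (by decide +kernel)
theorem L02993 : Good (Phi V5.P V5.D (-1) (-1)) ⟨4, 12, 5, 14, 2, 2, 2, 3, 4, 0⟩ :=
  leafX_sound T5.ok_mm T5.Ymm.bz_eq (w := 222) (c := ⟨⟨.ofNat 435, .ofNat 0, .ofNat 659, .ofNat 756, .negSucc 1245, .negSucc 2220⟩, ⟨.negSucc 241, .ofNat 0, .negSucc 269, .negSucc 383, .ofNat 628, .ofNat 1106⟩, ⟨.negSucc 488, .ofNat 0, .negSucc 220, .negSucc 489, .ofNat 889, .ofNat 1611⟩, ⟨.ofNat 256, .negSucc 0, .ofNat 463, .ofNat 1083, .negSucc 1845, .negSucc 3449⟩, ⟨.negSucc 847, .ofNat 0, .negSucc 178, .negSucc 165, .ofNat 158, .negSucc 48⟩, .ofNat 2534, .ofNat 4282, .ofNat 0, .ofNat 4282, .ofNat 8572, .ofNat 0, .ofNat 128, .negSucc 613,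 .negSucc 3232, .ofNat 0, .ofNat 342, .ofNat 1622, .ofNat 0, .ofNat 0, .ofNat 3320, .ofNat 898, .ofNat 0, .ofNat 0, .ofNat 2155014780905209594543148832684769280, .ofNat 0, .ofNat 0, .ofNat 4492110019435163483601103827834849181302784, .ofNat 330257143390607733297572485220748230656, .ofNat 0, .ofNat 0, .ofNat 0, .ofNat 1074467675059711916866396810700463800320, .ofNat 0, .ofNat 0, .ofNat 0, .ofNat 0, .ofNat 0⟩)
    (by decide +kernel)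
theorem L02994 : Good (Phi V5.P V5.D (-1) (-1)) ⟨4, 12, 5, 15, 2, 2, 2, 3, 4, 0⟩ :=
  out_sound (S := T5.ds_mm) T5.ok_mm (w := 55) (j := 3) (by decide +kernel)
theorem L02995 : Good (Phi V5.P V5.D (-1) (-1)) ⟨6, 52, 4, 7, 2, 2, 3, 6, 4, 0⟩ :=
  leafX_sound T5.ok_mm T5.Ymm.bz_eq (w := 227) (c := ⟨⟨.ofNat 471, .negSucc 37, .ofNat 42, .ofNat 1421, .negSucc 855, .negSucc 2988⟩, ⟨.negSucc 271, .ofNat 6, .ofNat 44, .negSucc 731, .ofNat 440, .ofNat 1521⟩, ⟨.negSucc 626, .ofNat 48, .negSucc 71, .negSucc 982, .ofNat 695, .ofNat 2270⟩, ⟨.ofNat 385, .negSucc 19, .negSucc 55, .ofNat 2021, .negSucc 1317, .negSucc 4717⟩, ⟨.negSucc 674, .ofNat 63, .negSucc 196, .negSucc 288, .ofNat 7, .negSucc 278⟩, .ofNat 1473, .ofNat 2203, .ofNat 0, .ofNat 2203, .ofNat 4417, .ofNat 0, .ofNat 128, .negSucc 366, .negSucc 1091, .ofNat 0, .ofNat 212, .ofNat 562, .ofNat 0, .ofNat 0, .ofNat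 1097, .ofNat 804, .ofNat 0, .ofNat 0, .ofNat 0, .ofNat 0, .ofNat 0, .ofNat 0, .ofNat 34438918585478554385637670011482931200, .ofNat 0, .ofNat 0, .ofNat 0, .ofNat 76992447548261740145483389408617955328, .ofNat 0, .ofNat 0, .ofNat 0, .ofNat 0, .ofNat 0⟩)
    (by decide +kernel)
theorem L02996 : Good (Phi V5.P V5.D (-1) (-1)) ⟨6, 53, 4, 7, 2, 2, 3, 6, 4, 0⟩ :=
  leafX_sound T5.ok_mm T5.Ymm.bz_eq (w := 225) (c := ⟨⟨.ofNat 561, .negSucc 35, .ofNat 384, .ofNat 1326, .negSucc 858, .negSucc 3328⟩, ⟨.negSucc 359, .negSucc 9, .negSucc 144, .negSucc 699, .ofNat 466, .ofNat 1766⟩, ⟨.negSucc 643, .negSucc 135, .negSucc 254, .negSucc 824, .ofNat 617, .ofNat 2577⟩, ⟨.ofNat 633, .negSucc 276, .ofNat 520, .ofNat 1943, .negSucc 1448, .negSucc 5058⟩, ⟨.negSucc 410, .negSucc 399, .negSucc 60, .negSucc 109, .negSucc 269, .negSucc 134⟩, .ofNat 1481, .ofNat 2124, .ofNat 0, .ofNat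 2124, .ofNat 4075, .ofNat 0, .ofNat 128, .negSucc 244, .negSucc 761, .ofNat 0, .ofNat 150, .ofNat 406, .ofNat 0, .ofNat 0, .ofNat 756, .ofNat 379, .ofNat 0, .ofNat 0, .ofNat 722797426954529514006911562683514880, .ofNat 0, .ofNat 0, .ofNat 0, .ofNat 0, .ofNat 0, .ofNat 0, .ofNat 0, .ofNat 0, .ofNat 0, .ofNat 0, .ofNat 0, .ofNat 20520395510502672883470597146812612608, .ofNat 0⟩)
    (by decide +kernel)
theorem L02997 : Good (Phi V5.P V5.D (-1) (-1)) ⟨5, 26, 4, 7, 3, 4, 3, 7, 5, 0⟩ :=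
  leafX_sound T5.ok_mm T5.Ymm.bz_eq (w := 243) (c := ⟨⟨.negSucc 678, .ofNat 213, .ofNat 129, .ofNat 263, .ofNat 461, .negSucc 1051⟩, ⟨.ofNat 314, .negSucc 137, .negSucc 13, .negSucc 142, .negSucc 235, .ofNat 556⟩, ⟨.ofNat 271, .negSucc 217, .negSucc 103, .negSucc 130, .negSucc 539, .ofNat 878⟩, ⟨.negSucc 1318, .ofNat 239, .ofNat 115, .ofNat 195, .ofNat 745, .negSucc 1585⟩, ⟨.negSucc 560, .negSucc 215, .negSucc 84, .negSucc 362, .ofNat 108, .negSucc 15⟩, .ofNat 1195, .ofNat 1653, .ofNat 0, .ofNat 1653, .ofNat 3315, .ofNat 0, .ofNat 128, .negSucc 372, .negSucc 2500, .ofNat 0, .ofNat 237, .ofNat 1289, .ofNat 0, .ofNat 0, .ofNat 2659, .ofNat 908, .ofNat 0, .ofNat 0, .ofNat 0, .ofNat 0, .ofNat 0, .ofNat 0, .ofNat 0, .ofNat 0, .ofNat 0, .ofNat 0, .ofNat 0, .ofNat 0, .ofNat 0, .ofNat 0, .ofNat 0, .ofNat 0⟩)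
    (by decide +kernel)
theorem L02998 : Good (Phi V5.P V5.D (-1) (-1)) ⟨5, 26, 4, 7, 3, 4, 3, 7, 5, 1⟩ :=
  leafX_sound T5.ok_mm T5.Ymm.bz_eq (w := 242) (c := ⟨⟨.negSucc 1700, .negSucc 807, .ofNat 440, .ofNat 171, .ofNat 1475, .negSucc 854⟩, ⟨.ofNat 840, .ofNat 426, .negSucc 155, .negSucc 105, .negSucc 771, .ofNat 453⟩, ⟨.ofNat 1136, .ofNat 717, .negSucc 395, .negSucc 128, .negSucc 1446, .ofNat 655⟩, ⟨.negSucc 3082, .negSucc 1217, .ofNat 705, .ofNat 158, .ofNat 2455, .negSucc 1181⟩, ⟨.negSucc 947, .negSucc 151, .ofNat 130, .negSucc 154, .ofNat 451, .ofNat 213⟩, .ofNat 1202, .ofNat 1661, .ofNat 0, .ofNat 1661, .ofNat 3320, .ofNat 0, .ofNat 128, .negSucc 307, .negSucc 1850, .ofNat 0, .ofNat 193, .ofNat 956, .ofNat 0, .ofNat 0, .ofNat 1912, .ofNat 796, .ofNat 0, .ofNat 0, .ofNat 0, .ofNat 0, .ofNat 0, .ofNat 0, .ofNat 0, .ofNat 0, .ofNat 0, .ofNat 0, .ofNat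 0, .ofNat 0, .ofNat 0, .ofNat 19976348383128084171329541691165562567774575788032, .ofNat 0, .ofNat 0⟩)
    (by decide +kernel)
theorem L02999 : Good (Phi V5.P V5.D (-1) (-1)) ⟨5, 26, 4, 7, 3, 5, 3, 7, 5, 0⟩ :=
  leafX_sound T5.ok_mm T5.Ymm.bz_eq (w := 243) (c := ⟨⟨.negSucc 45, .negSucc 221, .ofNat 367, .negSucc 54, .negSucc 475, .negSucc 723⟩, ⟨.negSucc 15, .ofNat 86, .negSucc 133, .ofNat 24, .ofNat 252, .ofNat 375⟩, ⟨.negSucc 118, .ofNat 182, .negSucc 291, .ofNat 191, .ofNat 299, .ofNat 454⟩, ⟨.negSucc 532, .negSucc 317, .ofNat 578, .negSucc 136, .negSucc 712, .negSucc 1196⟩, ⟨.negSucc 902, .ofNat 2, .ofNat 107, .negSucc 88, .ofNat 26, .negSucc 193⟩, .ofNat 1241, .ofNat 1741, .ofNat 0, .ofNat 1741, .ofNat 3482, .ofNat 0, .ofNat 128, .negSucc 381, .negSucc 2192, .ofNat 0, .ofNat 229, .ofNat 1123, .ofNat 0, .ofNat 0, .ofNat 2135, .ofNat 478, .ofNat 0, .ofNat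 0, .ofNat 0, .ofNat 0, .ofNat 0, .ofNat 0, .ofNat 0, .ofNat 0, .ofNat 0, .ofNat 0, .ofNat 0, .ofNat 0, .ofNat 0, .ofNat 0, .ofNat 0, .ofNat 0⟩)
    (by decide +kernel)
theorem L03000 : Good (Phi V5.P V5.D (-1) (-1)) ⟨5, 26, 4, 7, 3, 5, 3, 7, 5, 1⟩ :=
  leafX_sound T5.ok_mm T5.Ymm.bz_eq (w := 243) (c := ⟨⟨.negSucc 1238, .negSucc 620, .ofNat 552, .ofNat 227, .ofNat 491, .negSucc 1011⟩, ⟨.ofNat 592, .ofNat 300, .negSucc 196, .negSucc 130, .negSucc 247, .ofNat 525⟩, ⟨.ofNat 811, .ofNat 511, .negSucc 434, .negSucc 165, .negSucc 522, .ofNat 663⟩, ⟨.negSucc 2374, .negSucc 990, .ofNat 823, .ofNat 235, .ofNat 908, .negSucc 1593⟩, ⟨.negSucc 926, .negSucc 231, .ofNat 60, .negSucc 193, .ofNat 329, .negSucc 130⟩, .ofNat 1744, .ofNat 2641, .ofNat 0, .ofNat 2641, .ofNat 5122, .ofNat 0, .ofNat 128, .negSucc 391, .negSucc 1973, .ofNat 0, .ofNat 229, .ofNat 1023, .ofNat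 0, .ofNat 0, .ofNat 1853, .ofNat 331, .ofNat 0, .ofNat 0, .ofNat 371877200700306917202045191819303466303488, .ofNat 0, .ofNat 0, .ofNat 0, .ofNat 45329709739809705757461817959108367983050752, .ofNat 0, .ofNat 0, .ofNat 0, .ofNat 0, .ofNat 0, .ofNat 0, .ofNat 0, .ofNat 0, .ofNat 0⟩)
    (by decide +kernel)
theorem L03001 : Good (Phi V5.P V5.D (-1) (-1)) ⟨6, 54, 4, 7, 2, 2, 3, 6, 4, 0⟩ :=
  leafX_sound T5.ok_mm T5.Ymm.bz_eq (w := 227) (c := ⟨⟨.ofNat 1096, .negSucc 368, .negSucc 118, .ofNat 1540, .negSucc 1091, .negSucc 3574⟩, ⟨.negSucc 659, .ofNat 194, .ofNat 102, .negSucc 866, .ofNat 598, .ofNat 1963⟩, ⟨.negSucc 1134, .ofNat 304, .ofNat 156, .negSucc 1097, .ofNat 852, .ofNat 2744⟩, ⟨.ofNat 1301, .negSucc 576, .negSucc 130, .ofNat 2049, .negSucc 1579, .negSucc 5498⟩, ⟨.negSucc 660, .negSucc 82, .ofNat 167, .negSucc 416, .ofNat 87, .negSucc 374⟩, .ofNat 1691,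 .ofNat 2418, .ofNat 0, .ofNat 2418, .ofNat 4439, .ofNat 0, .ofNat 128, .negSucc 395, .negSucc 1356, .ofNat 0, .ofNat 249, .ofNat 750, .ofNat 0, .ofNat 0, .ofNat 1318, .ofNat 424, .ofNat 0, .ofNat 0, .ofNat 463626443676368161594142868925054976, .ofNat 0, .ofNat 0, .ofNat 0, .ofNat 125348562939043807870763020090668482560, .ofNat 0, .ofNat 0, .ofNat 0, .ofNat 0, .ofNat 0, .ofNat 0, .ofNat 0, .ofNat 43132584582640685776938702777838731264, .ofNat 0⟩)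
    (by decide +kernel)
theorem L03002 : Good (Phi V5.P V5.D (-1) (-1)) ⟨6, 54, 5, 14, 2, 2, 3, 7, 4, 0⟩ :=
  out_sound (S := T5.ds_mm) T5.ok_mm (w := 67) (j := 3) (by decide +kernel)
theorem L03003 : Good (Phi V5.P V5.D (-1) (-1)) ⟨6, 54, 5, 15, 3, 4, 3, 7, 4, 0⟩ :=
  leafX_sound T5.ok_mm T5.Ymm.bz_eq (w := 247) (c := ⟨⟨.negSucc 966, .negSucc 597, .ofNat 336, .ofNat 274, .ofNat 1144, .negSucc 1992⟩, ⟨.ofNat 472, .ofNat 324, .negSucc 150, .negSucc 161, .negSucc 626, .ofNat 1110⟩, ⟨.ofNat 555, .ofNat 552, .negSucc 319, .negSucc 166, .negSucc 1213, .ofNat 1636⟩, ⟨.negSucc 1770, .negSucc 687, .ofNat 304, .ofNat 277, .ofNat 1712, .negSucc 2848⟩, ⟨.negSucc 614, .ofNat 341, .negSucc 340, .negSucc 226, .ofNat 41, .ofNat 170⟩, .ofNat 1984, .ofNat 2923, .ofNat 0, .ofNat 2923, .ofNat 5320, .ofNat 0, .ofNat 128, .negSucc 345, .negSucc 2653, .ofNat 0, .ofNat 223,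 .ofNat 1467, .ofNat 0, .ofNat 0, .ofNat 2768, .ofNat 305, .ofNat 0, .ofNat 0, .ofNat 10012642523806478657820270279619076161536, .ofNat 0, .ofNat 0, .ofNat 14740549488799355177475200063168099575053779206144, .ofNat 6544118187539884011040046829082771556663296, .ofNat 0, .ofNat 0, .ofNat 0, .ofNat 5261569773947830466969344156430591863029760, .ofNat 0, .ofNat 0, .ofNat 0, .ofNat 0, .ofNat 0⟩)
    (by decide +kernel)
theorem L03004 : Good (Phi V5.P V5.D (-1) (-1)) ⟨6, 54, 5, 15, 3, 5, 3, 7, 4, 0⟩ :=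
  leafX_sound T5.ok_mm T5.Ymm.bz_eq (w := 244) (c := ⟨⟨.negSucc 177, .ofNat 83, .negSucc 170, .ofNat 243, .ofNat 480, .negSucc 2244⟩, ⟨.ofNat 36, .negSucc 58, .ofNat 133, .negSucc 142, .negSucc 262, .ofNat 1229⟩, ⟨.ofNat 45, .negSucc 152, .ofNat 173, .negSucc 166, .negSucc 551, .ofNat 1602⟩, ⟨.negSucc 750, .ofNat 101, .negSucc 243, .ofNat 159, .ofNat 858, .negSucc 3438⟩, ⟨.negSucc 899, .negSucc 80, .ofNat 42, .negSucc 328, .ofNat 256, .negSucc 213⟩, .ofNat 1114, .ofNat 1425, .ofNat 0, .ofNat 1425, .ofNat 2697, .ofNat 0, .ofNat 128, .negSucc 343, .negSucc 1999, .ofNat 0, .ofNat 224, .ofNat 1077, .ofNat 0, .ofNat 0, .ofNat 1864, .ofNat 607, .ofNat 0, .ofNat 0, .ofNat 0, .ofNat 0, .ofNat 0, .ofNat 0, .ofNat 2140830697691694003294925894635588583161856, .ofNat 0, .ofNat 0, .ofNat 0, .ofNat 0, .ofNat 0, .ofNat 0, .ofNat 0, .ofNat 4326757420353763799397589996100233086369792,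 .ofNat 0⟩)
    (by decide +kernel)
theorem L03005 : Good (Phi V5.P V5.D (-1) (-1)) ⟨6, 55, 4, 7, 2, 2, 2, 3, 4, 0⟩ :=
  out_sound (S := T5.ds_mm) T5.ok_mm (w := 65) (j := 3) (by decide +kernel)
theorem L03006 : Good (Phi V5.P V5.D (-1) (-1)) ⟨3, 7, 4, 7, 2, 2, 2, 3, 4, 0⟩ :=
  out_sound (S := T5.ds_mm) T5.ok_mm (w := 47) (j := 3) (by decide +kernel)
theorem L03007 : Good (Phi V5.P V5.D (-1) (-1)) ⟨5, 24, 4, 7, 2, 2, 2, 3, 4, 1⟩ :=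
  out_sound (S := T5.ds_mm) T5.ok_mm (w := 59) (j := 3) (by decide +kernel)
theorem L03008 : Good (Phi V5.P V5.D (-1) (-1)) ⟨5, 25, 4, 7, 2, 2, 2, 3, 4, 1⟩ :=
  leafX_sound T5.ok_mm T5.Ymm.bz_eq (w := 222) (c := ⟨⟨.negSucc 2617, .negSucc 0, .ofNat 75, .ofNat 390, .ofNat 862, .negSucc 869⟩, ⟨.ofNat 1291, .ofNat 1, .ofNat 125, .negSucc 220, .negSucc 422, .ofNat 441⟩, ⟨.ofNat 1966, .ofNat 1, .negSucc 447, .negSucc 520, .negSucc 827, .ofNat 406⟩, ⟨.negSucc 4334, .negSucc 1, .ofNat 17, .ofNat 176, .ofNat 1426, .negSucc 1262⟩, ⟨.negSucc 593, .ofNat 0, .ofNat 5, .negSucc 852, .ofNat 204, .ofNat 169⟩, .ofNat 2352, .ofNat 3934, .ofNat 0, .ofNat 3934, .ofNat 7899, .ofNat 0, .ofNat 128, .negSucc 760, .negSucc 2597, .ofNat 0, .ofNat 420, .ofNat 1303, .ofNat 0, .ofNat 0, .ofNat 2685, .ofNat 451, .ofNat 0, .ofNat 0, .ofNat 459323902113509849045280963898114048, .ofNat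 0, .ofNat 0, .ofNat 12246943101693296607619374480206454579003392, .ofNat 15552700621477968269078490271950307328, .ofNat 0, .ofNat 0, .ofNat 0, .ofNat 45421685783477418741076300373812051968, .ofNat 0, .ofNat 0, .ofNat 0, .ofNat 0, .ofNat 0⟩)
    (by decide +kernel)
theorem L03009 : Good (Phi V5.P V5.D (-1) (-1)) ⟨5, 26, 4, 7, 2, 2, 3, 6, 5, 2⟩ :=
  leafX_sound T5.ok_mm T5.Ymm.bz_eq (w := 227) (c := ⟨⟨.negSucc 2530, .negSucc 942, .ofNat 422, .ofNat 540, .ofNat 80, .negSucc 693⟩, ⟨.ofNat 1252, .ofNat 498, .negSucc 84, .negSucc 318, .negSucc 39, .ofNat 370⟩, ⟨.ofNat 1867, .ofNat 774, .negSucc 346, .negSucc 637, .negSucc 80, .ofNat 425⟩, ⟨.negSucc 4129, .negSucc 1386, .ofNat 620, .ofNat 353, .ofNat 152, .negSucc 1079⟩, ⟨.negSucc 499, .negSucc 157, .ofNat 26, .negSucc 915, .ofNat 116, .negSucc 14⟩, .ofNat 1316, .ofNat 1874, .ofNat 0, .ofNat 1874, .ofNat 3717,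 .ofNat 0, .ofNat 128, .negSucc 369, .negSucc 978, .ofNat 0, .ofNat 219, .ofNat 511, .ofNat 0, .ofNat 0, .ofNat 964, .ofNat 629, .ofNat 0, .ofNat 0, .ofNat 0, .ofNat 0, .ofNat 0, .ofNat 0, .ofNat 8498105950249801340269408121293803356160, .ofNat 0, .ofNat 0, .ofNat 0, .ofNat 0, .ofNat 0, .ofNat 0, .ofNat 0, .ofNat 1910800344019797369964521873909777170432, .ofNat 0⟩)
    (by decide +kernel)
theorem L03010 : Good (Phi V5.P V5.D (-1) (-1)) ⟨5, 26, 4, 7, 2, 2, 3, 7, 5, 2⟩ :=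
  leafX_sound T5.ok_mm T5.Ymm.bz_eq (w := 228) (c := ⟨⟨.negSucc 2750, .negSucc 791, .ofNat 450, .ofNat 264, .ofNat 1689, .negSucc 113⟩, ⟨.ofNat 1377, .ofNat 419, .negSucc 113, .negSucc 179, .negSucc 879, .ofNat 69⟩, ⟨.ofNat 2016, .ofNat 674, .negSucc 371, .negSucc 397, .negSucc 1529, .negSucc 103⟩, ⟨.negSucc 4551, .negSucc 1182, .ofNat 699, .ofNat 1, .ofNat 2962, .negSucc 159⟩, ⟨.negSucc 651, .negSucc 196, .ofNat 87, .negSucc 757, .ofNat 800, .ofNat 19⟩, .ofNat 1316, .ofNat 1874, .ofNat 0, .ofNat 1874, .ofNat 3717, .ofNat 0, .ofNat 128, .negSucc 347, .negSucc 1411, .ofNat 0, .ofNat 208, .ofNat 729, .ofNat 0, .ofNat 0, .ofNat 1369, .ofNat 175, .ofNat 0, .ofNat 0, .ofNat 0, .ofNat 0, .ofNat 0, .ofNat 227639492449251221025817517366763491130605568, .ofNat 1837164249586833070857948674874157301760, .ofNat 0, .ofNat 0, .ofNat 0, .ofNat 0, .ofNat 0, .ofNat 0,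 .ofNat 0, .ofNat 0, .ofNat 0⟩)
    (by decide +kernel)
theorem L03011 : Good (Phi V5.P V5.D (-1) (-1)) ⟨5, 26, 4, 7, 2, 2, 2, 3, 5, 3⟩ :=
  leafX_sound T5.ok_mm T5.Ymm.bz_eq (w := 223) (c := ⟨⟨.negSucc 3437, .negSucc 506, .ofNat 163, .ofNat 142, .ofNat 1449, .ofNat 121⟩, ⟨.ofNat 1720, .ofNat 294, .ofNat 53, .negSucc 120, .negSucc 747, .negSucc 54⟩, ⟨.ofNat 2574, .ofNat 411, .negSucc 149, .negSucc 516, .negSucc 1325, .negSucc 238⟩, ⟨.negSucc 5575, .negSucc 689, .ofNat 258, .negSucc 262, .ofNat 2496, .ofNat 310⟩, ⟨.negSucc 565, .negSucc 160, .ofNat 91, .negSucc 939, .ofNat 566, .ofNat 255⟩, .ofNat 1220, .ofNat 1695, .ofNat 0, .ofNat 1695, .ofNat 3385, .ofNat 0, .ofNat 128, .negSucc 360, .negSucc 1036, .ofNat 0, .ofNat 216, .ofNat 537, .ofNat 0, .ofNat 0, .ofNat 1070, .ofNat 224, .ofNat 0, .ofNat 0, .ofNat 0, .ofNat 0, .ofNat 0, .ofNat 60960527598855977957895294366662373496848384,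 .ofNat 98438846450246096472334603154649776128, .ofNat 0, .ofNat 0, .ofNat 0, .ofNat 0, .ofNat 0, .ofNat 0, .ofNat 0, .ofNat 0, .ofNat 0⟩)
    (by decide +kernel)
theorem L03012 : Good (Phi V5.P V5.D (-1) (-1)) ⟨6, 54, 4, 7, 2, 2, 3, 6, 5, 2⟩ :=
  leafX_sound T5.ok_mm T5.Ymm.bz_eq (w := 232) (c := ⟨⟨.negSucc 4067, .negSucc 783, .ofNat 1315, .ofNat 654, .ofNat 132, .negSucc 930⟩, ⟨.ofNat 2093, .ofNat 440, .negSucc 576, .negSucc 408, .negSucc 71, .ofNat 517⟩, ⟨.ofNat 3143, .ofNat 662, .negSucc 1054, .negSucc 760, .negSucc 129, .ofNat 583⟩, ⟨.negSucc 6245, .negSucc 1217, .ofNat 1912, .ofNat 419, .ofNat 176, .negSucc 1393⟩, ⟨.negSucc 439, .negSucc 245, .ofNat 2, .negSucc 997, .negSucc 21, .negSucc 7⟩, .ofNat 1512, .ofNat 2087, .ofNat 0, .ofNat 2087, .ofNat 3837, .ofNat 0, .ofNat 128, .negSucc 392, .negSucc 1416, .ofNat 0, .ofNat 255, .ofNat 777, .ofNat 0, .ofNat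 0, .ofNat 1357, .ofNat 938, .ofNat 0, .ofNat 0, .ofNat 0, .ofNat 0, .ofNat 0, .ofNat 0, .ofNat 3811157799859772660357658825090511405056, .ofNat 0, .ofNat 0, .ofNat 0, .ofNat 7193471198022271040732875298622693965824, .ofNat 0, .ofNat 0, .ofNat 0, .ofNat 2229051505704382767413911061770587340800, .ofNat 0⟩)
    (by decide +kernel)
theorem L03013 : Good (Phi V5.P V5.D (-1) (-1)) ⟨6, 54, 4, 7, 2, 2, 3, 7, 5, 2⟩ :=
  leafX_sound T5.ok_mm T5.Ymm.bz_eq (w := 231) (c := ⟨⟨.negSucc 3874, .negSucc 434, .ofNat 702, .ofNat 379, .ofNat 2237, .negSucc 108⟩, ⟨.ofNat 2001, .ofNat 243, .negSucc 256, .negSucc 253, .negSucc 1223, .ofNat 64⟩, ⟨.ofNat 2930, .ofNat 357, .negSucc 521, .negSucc 521, .negSucc 2017, .negSucc 144⟩, ⟨.negSucc 6062, .negSucc 728, .ofNat 1062, .ofNat 7, .ofNat 3586, .negSucc 127⟩, ⟨.negSucc 605, .negSucc 221, .ofNat 77, .negSucc 999, .ofNat 466, .ofNat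 76⟩, .ofNat 1024, .ofNat 1272, .ofNat 0, .ofNat 1272, .ofNat 2442, .ofNat 0, .ofNat 128, .negSucc 256, .negSucc 1418, .ofNat 0, .ofNat 171, .ofNat 756, .ofNat 0, .ofNat 0, .ofNat 1335, .ofNat 164, .ofNat 0, .ofNat 0, .ofNat 5567912594876909716263986699249385472, .ofNat 0, .ofNat 0, .ofNat 11169479817400241301153729202010875744984498176, .ofNat 1142223841629477897725390213209017810944, .ofNat 0, .ofNat 0, .ofNat 0, .ofNat 1710398162606091740735363706270074798080, .ofNat 0, .ofNat 0, .ofNat 0, .ofNat 1363437579842963347147630361396453048320, .ofNat 0⟩)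
    (by decide +kernel)
theorem L03014 : Good (Phi V5.P V5.D (-1) (-1)) ⟨6, 55, 4, 7, 2, 2, 2, 3, 5, 2⟩ :=
  out_sound (S := T5.ds_mm) T5.ok_mm (w := 65) (j := 3) (by decide +kernel)
theorem L03015 : Good (Phi V5.P V5.D (-1) (-1)) ⟨5, 27, 4, 7, 2, 2, 2, 3, 5, 3⟩ :=
  leafX_sound T5.ok_mm T5.Ymm.bz_eq (w := 224) (c := ⟨⟨.negSucc 4428, .negSucc 480, .ofNat 431, .ofNat 224, .ofNat 1880, .ofNat 240⟩, ⟨.ofNat 2302, .ofNat 309, .negSucc 100, .negSucc 173, .negSucc 1029, .negSucc 123⟩, ⟨.ofNat 3413, .ofNat 400, .negSucc 380, .negSucc 609, .negSucc 1684, .negSucc 370⟩, ⟨.negSucc 6781, .negSucc 523, .ofNat 612, .negSucc 315, .ofNat 2811, .ofNat 477⟩, ⟨.negSucc 420, .ofNat 17, .ofNat 12, .negSucc 1169, .ofNat 49, .ofNat 219⟩, .ofNat 2157, .ofNat 3219, .ofNat 0, .ofNat 3219, .ofNat 5826, .ofNat 0, .ofNat 128, .negSucc 290, .negSucc 920, .ofNat 0, .ofNat 180, .ofNat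 510, .ofNat 0, .ofNat 0, .ofNat 939, .ofNat 193, .ofNat 0, .ofNat 0, .ofNat 6690220690767499283467562867232866304, .ofNat 0, .ofNat 0, .ofNat 141201334983830689427659379883063012763893760, .ofNat 1631316583054164696856294344207112339456, .ofNat 0, .ofNat 0, .ofNat 0, .ofNat 260673819902423152393125220650397466624, .ofNat 0, .ofNat 0, .ofNat 0, .ofNat 947825891104036238291104708640276217856, .ofNat 0⟩)
    (by decide +kernel)
theorem L03016 : Good (Phi V5.P V5.D (-1) (-1)) ⟨3, 7, 4, 7, 2, 2, 2, 3, 4, 1⟩ :=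
  out_sound (S := T5.ds_mm) T5.ok_mm (w := 47) (j := 3) (by decide +kernel)
theorem L03017 : Good (Phi V5.P V5.D (-1) (-1)) ⟨2, 2, 3, 3, 2, 2, 2, 3, 3, 1⟩ :=
  out_sound (S := T5.ds_mm) T5.ok_mm (w := 39) (j := 3) (by decide +kernel)
theorem L03018 : Good (Phi V5.P V5.D (-1) (-1)) ⟨4, 12, 3, 3, 2, 2, 3, 6, 4, 2⟩ :=
  leafX_sound T5.ok_mm T5.Ymm.bz_eq (w := 214) (c := ⟨⟨.negSucc 2989, .negSucc 518, .ofNat 301, .ofNat 425, .ofNat 490, .ofNat 727⟩, ⟨.ofNat 1287, .ofNat 315, .ofNat 83, .negSucc 221, .negSucc 216, .negSucc 325⟩, ⟨.ofNat 2245, .ofNat 279, .negSucc 217, .negSucc 818, .negSucc 480, .negSucc 796⟩, ⟨.negSucc 5186, .negSucc 471, .ofNat 264, .ofNat 380, .ofNat 883, .ofNat 1323⟩, ⟨.negSucc 640, .ofNat 183, .negSucc 408, .negSucc 614, .ofNat 249, .ofNat 406⟩, .ofNat 1083, .ofNat 1580, .ofNat 0, .ofNat 1580, .ofNat 3579, .ofNat 0, .ofNat 128, .negSucc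 341, .negSucc 485, .ofNat 0, .ofNat 190, .ofNat 225, .ofNat 0, .ofNat 0, .ofNat 711, .ofNat 500, .ofNat 0, .ofNat 0, .ofNat 0, .ofNat 0, .ofNat 0, .ofNat 0, .ofNat 0, .ofNat 0, .ofNat 0, .ofNat 0, .ofNat 123336757644043233080439182478492565504, .ofNat 0, .ofNat 0, .ofNat 0, .ofNat 0, .ofNat 0⟩)
    (by decide +kernel)
theorem L03019 : Good (Phi V5.P V5.D (-1) (-1)) ⟨5, 24, 3, 3, 2, 2, 3, 7, 4, 2⟩ :=
  out_sound (S := T5.ds_mm) T5.ok_mm (w := 57) (j := 3) (by decide +kernel)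
theorem L03020 : Good (Phi V5.P V5.D (-1) (-1)) ⟨5, 25, 3, 3, 2, 2, 3, 7, 4, 2⟩ :=
  leafX_sound T5.ok_mm T5.Ymm.bz_eq (w := 218) (c := ⟨⟨.negSucc 2535, .negSucc 148, .ofNat 94, .ofNat 286, .ofNat 1074, .ofNat 446⟩, ⟨.ofNat 1133, .ofNat 98, .ofNat 132, .negSucc 153, .negSucc 478, .negSucc 189⟩, ⟨.ofNat 1670, .ofNat 92, .negSucc 122, .negSucc 611, .negSucc 1023, .negSucc 607⟩, ⟨.negSucc 4266, .negSucc 114, .ofNat 78, .ofNat 272, .ofNat 2020, .ofNat 1013⟩, ⟨.negSucc 514, .ofNat 37, .negSucc 124, .negSucc 367, .ofNat 721, .ofNat 699⟩, .ofNat 1077, .ofNat 1552, .ofNat 0, .ofNat 1552, .ofNat 3476, .ofNat 0, .ofNat 128, .negSucc 449, .negSucc 810, .ofNat 0, .ofNat 254, .ofNat 374, .ofNat 0, .ofNat 0, .ofNat 1113, .ofNat 141, .ofNat 0, .ofNat 0, .ofNat 0, .ofNat 0, .ofNat 0, .ofNat 7038568259417537393962300870785902611267584, .ofNat 0, .ofNat 0, .ofNat 0, .ofNat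 20379547550426370035926799496690146291482624, .ofNat 53023035752009131741403550706112135168, .ofNat 0, .ofNat 0, .ofNat 0, .ofNat 0, .ofNat 0⟩)
    (by decide +kernel)
theorem L03021 : Good (Phi V5.P V5.D (-1) (-1)) ⟨4, 13, 3, 3, 2, 2, 2, 3, 5, 4⟩ :=
  leafX_sound T5.ok_mm T5.Ymm.bz_eq (w := 215) (c := ⟨⟨.negSucc 3609, .negSucc 623, .ofNat 259, .ofNat 323, .ofNat 1497, .ofNat 550⟩, ⟨.ofNat 1684, .ofNat 395, .ofNat 106, .negSucc 201, .negSucc 756, .negSucc 271⟩, ⟨.ofNat 2665, .ofNat 429, .negSucc 232, .negSucc 772, .negSucc 1415, .negSucc 566⟩, ⟨.negSucc 5728, .negSucc 640, .ofNat 243, .ofNat 100, .ofNat 2670, .ofNat 901⟩, ⟨.negSucc 378, .ofNat 71, .negSucc 249, .negSucc 754, .ofNat 779, .ofNat 105⟩, .ofNat 939, .ofNat 1147, .ofNat 0, .ofNat 1147, .ofNat 2293, .ofNat 0, .ofNat 128, .negSucc 246, .negSucc 605, .ofNat 0, .ofNat 162, .ofNat 315, .ofNat 0,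 .ofNat 0, .ofNat 687, .ofNat 129, .ofNat 0, .ofNat 0, .ofNat 1900780472118724894706796022575661056, .ofNat 0, .ofNat 0, .ofNat 826710000757722085594550222586421526396928, .ofNat 85947225877683899959706387084566593536, .ofNat 0, .ofNat 0, .ofNat 79733853164840102146531170181621324185600, .ofNat 91249996918332300530553875472756768768, .ofNat 0, .ofNat 0, .ofNat 0, .ofNat 0, .ofNat 0⟩)
    (by decide +kernel)
theorem L03022 : Good (Phi V5.P V5.D (-1) (-1)) ⟨4, 13, 3, 3, 2, 2, 2, 3, 5, 5⟩ :=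
  leafX_sound T5.ok_mm T5.Ymm.bz_eq (w := 214) (c := ⟨⟨.negSucc 3105, .negSucc 526, .ofNat 192, .ofNat 423, .ofNat 1354, .ofNat 364⟩, ⟨.ofNat 1462, .ofNat 355, .ofNat 80, .negSucc 244, .negSucc 667, .negSucc 174⟩, ⟨.ofNat 2173, .ofNat 388, .negSucc 205, .negSucc 876, .negSucc 1340, .negSucc 401⟩, ⟨.negSucc 4958, .negSucc 514, .ofNat 258, .ofNat 305, .ofNat 2475, .ofNat 634⟩, ⟨.negSucc 403, .ofNat 19, .negSucc 11, .negSucc 651, .ofNat 853, .ofNat 166⟩, .ofNat 1135, .ofNat 1537, .ofNat 0, .ofNat 1537, .ofNat 3088, .ofNat 0, .ofNat 128, .negSucc 274, .negSucc 392, .ofNat 0, .ofNat 169, .ofNat 203, .ofNat 0, .ofNat 0, .ofNat 593, .ofNat 68, .ofNat 0, .ofNat 0, .ofNat 1852746950521344740884821214482137088, .ofNat 0, .ofNat 0, .ofNat 807032046252357239623435128180541357031424, .ofNat 212995040409481754201466424539345846272, .ofNat 0, .ofNat 0, .ofNat 921900504056857913612047028766446299643904,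 .ofNat 243258559297314967241080846596513464320, .ofNat 0, .ofNat 0, .ofNat 0, .ofNat 0, .ofNat 0⟩)
    (by decide +kernel)
theorem L03023 : Good (Phi V5.P V5.D (-1) (-1)) ⟨3, 6, 3, 3, 2, 2, 2, 3, 4, 3⟩ :=
  leafX_sound T5.ok_mm T5.Ymm.bz_eq (w := 204) (c := ⟨⟨.negSucc 2476, .negSucc 160, .negSucc 87, .ofNat 372, .ofNat 860, .ofNat 377⟩, ⟨.ofNat 1084, .ofNat 204, .ofNat 211, .negSucc 195, .negSucc 383, .negSucc 172⟩, ⟨.ofNat 1812, .negSucc 70, .negSucc 18, .negSucc 1016, .negSucc 1092, .negSucc 593⟩, ⟨.negSucc 4304, .ofNat 171, .negSucc 118, .ofNat 502, .ofNat 1918, .ofNat 813⟩, ⟨.negSucc 559, .negSucc 35, .ofNat 47, .negSucc 139, .ofNat 1219, .ofNat 487⟩, .ofNat 625, .ofNat 662, .ofNat 0, .ofNat 662, .ofNat 1549, .ofNat 0, .ofNat 128, .negSucc 401, .negSucc 160, .ofNat 0, .ofNat 271, .ofNat 74, .ofNat 0, .ofNat 0, .ofNat 439, .ofNat 111, .ofNat 0, .ofNat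 0, .ofNat 144449799179698693692314578612912128, .ofNat 0, .ofNat 0, .ofNat 11066157519070803169970232851233536737280, .ofNat 5441339566163318914368969811163086848, .ofNat 0, .ofNat 0, .ofNat 53444334706098372434334916051760094117888, .ofNat 26311649645377483260676043718361350144, .ofNat 0, .ofNat 0, .ofNat 16846207604552971531751794261087590809600, .ofNat 8769180281742871190819853692871639040, .ofNat 0⟩)
    (by decide +kernel)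
theorem L03024 : Good (Phi V5.P V5.D (-1) (-1)) ⟨3, 7, 3, 3, 2, 2, 2, 3, 3, 1⟩ :=
  out_sound (S := T5.ds_mm) T5.ok_mm (w := 45) (j := 3) (by decide +kernel)
theorem L03025 : Good (Phi V5.P V5.D (-1) (-1)) ⟨2, 2, 4, 6, 2, 3, 1, 1, 3, 0⟩ :=
  out_sound (S := T5.ds_mm) T5.ok_mm (w := 41) (j := 3) (by decide +kernel)
theorem L03026 : Good (Phi V5.P V5.D (-1) (-1)) ⟨5, 24, 4, 6, 2, 3, 1, 1, 4, 0⟩ :=
  out_sound (S := T5.ds_mm) T5.ok_mm (w := 59) (j := 3) (by decide +kernel)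
theorem L03027 : Good (Phi V5.P V5.D (-1) (-1)) ⟨5, 25, 4, 6, 3, 6, 2, 2, 5, 0⟩ :=
  leafX_sound T5.ok_mm T5.Ymm.bz_eq (w := 237) (c := ⟨⟨.ofNat 3310, .ofNat 328, .negSucc 199, .negSucc 603, .negSucc 1560, .negSucc 770⟩, ⟨.negSucc 1507, .negSucc 190, .ofNat 20, .ofNat 336, .ofNat 697, .ofNat 336⟩, ⟨.negSucc 2108, .negSucc 242, .ofNat 188, .ofNat 977, .ofNat 776, .ofNat 392⟩, ⟨.ofNat 5258, .ofNat 533, .negSucc 341, .negSucc 554, .negSucc 2804, .negSucc 1451⟩, ⟨.negSucc 4, .ofNat 321, .negSucc 51, .ofNat 827, .negSucc 762, .negSucc 521⟩, .ofNat 1482, .ofNat 2375, .ofNat 0, .ofNat 2375, .ofNat 5197, .ofNat 0, .ofNat 128, .negSucc 267, .negSucc 716, .ofNat 0, .ofNat 138, .ofNat 331, .ofNat 0, .ofNat 0, .ofNat 672, .ofNat 395, .ofNat 0, .ofNat 0, .ofNat 0, .ofNat 0, .ofNat 0, .ofNat 0, .ofNat 0, .ofNat 0, .ofNat 0, .ofNat 0, .ofNat 0, .ofNat 0, .ofNat 0, .ofNat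 0, .ofNat 0, .ofNat 0⟩)
    (by decide +kernel)
theorem L03028 : Good (Phi V5.P V5.D (-1) (-1)) ⟨5, 25, 4, 6, 3, 6, 2, 2, 5, 1⟩ :=
  leafX_sound T5.ok_mm T5.Ymm.bz_eq (w := 236) (c := ⟨⟨.ofNat 2484, .ofNat 379, .negSucc 279, .negSucc 275, .negSucc 1819, .negSucc 1529⟩, ⟨.negSucc 1174, .negSucc 200, .ofNat 122, .ofNat 152, .ofNat 838, .ofNat 699⟩, ⟨.negSucc 1594, .negSucc 335, .ofNat 307, .ofNat 514, .ofNat 1025, .ofNat 915⟩, ⟨.ofNat 3712, .ofNat 556, .negSucc 466, .negSucc 198, .negSucc 3155, .negSucc 2659⟩, ⟨.negSucc 444, .ofNat 18, .negSucc 9, .ofNat 459, .negSucc 643, .negSucc 541⟩, .ofNat 1068, .ofNat 1535, .ofNat 0, .ofNat 1535, .ofNat 3441, .ofNat 0, .ofNat 128, .negSucc 219, .negSucc 476, .ofNat 0, .ofNat 115, .ofNat 218, .ofNat 0, .ofNat 0, .ofNat 411, .ofNat 417, .ofNat 0, .ofNat 0, .ofNat 0, .ofNat 0, .ofNat 0, .ofNat 0, .ofNat 0, .ofNat 0, .ofNat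 0, .ofNat 0, .ofNat 0, .ofNat 0, .ofNat 0, .ofNat 0, .ofNat 0, .ofNat 0⟩)
    (by decide +kernel)
theorem L03029 : Good (Phi V5.P V5.D (-1) (-1)) ⟨5, 25, 4, 6, 4, 12, 3, 6, 5, 0⟩ :=
  leafX_sound T5.ok_mm T5.Ymm.bz_eq (w := 254) (c := ⟨⟨.ofNat 1500, .ofNat 455, .negSucc 232, .negSucc 60, .negSucc 1347, .negSucc 1023⟩, ⟨.negSucc 719, .negSucc 238, .ofNat 114, .ofNat 37, .ofNat 629, .ofNat 470⟩, ⟨.negSucc 1066, .negSucc 410, .ofNat 260, .ofNat 201, .ofNat 931, .ofNat 639⟩, ⟨.ofNat 2174, .ofNat 605, .negSucc 319, .negSucc 27, .negSucc 2317, .negSucc 1814⟩, ⟨.negSucc 491, .negSucc 84, .ofNat 125, .ofNat 144, .negSucc 383, .negSucc 429⟩, .ofNat 616, .ofNat 665, .ofNat 0, .ofNat 665, .ofNat 1652, .ofNat 0, .ofNat 128, .negSucc 347, .negSucc 1319, .ofNat 0, .ofNat 202, .ofNat 562, .ofNat 0, .ofNat 0, .ofNat 1125, .ofNat 1428, .ofNat 0, .ofNat 0, .ofNat 0, .ofNat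 0, .ofNat 0, .ofNat 0, .ofNat 0, .ofNat 0, .ofNat 0, .ofNat 0, .ofNat 0, .ofNat 0, .ofNat 0, .ofNat 0, .ofNat 0, .ofNat 0⟩)
    (by decide +kernel)
theorem L03030 : Good (Phi V5.P V5.D (-1) (-1)) ⟨5, 25, 4, 6, 4, 13, 3, 6, 5, 0⟩ :=
  leafX_sound T5.ok_mm T5.Ymm.bz_eq (w := 255) (c := ⟨⟨.ofNat 1411, .ofNat 211, .negSucc 138, .negSucc 286, .negSucc 1301, .negSucc 867⟩, ⟨.negSucc 650, .negSucc 133, .ofNat 63, .ofNat 145, .ofNat 584, .ofNat 386⟩, ⟨.negSucc 758, .negSucc 178, .ofNat 161, .ofNat 353, .ofNat 770, .ofNat 438⟩, ⟨.ofNat 2109, .ofNat 332, .negSucc 192, .negSucc 402, .negSucc 2329, .negSucc 1561⟩, ⟨.negSucc 258, .ofNat 58, .ofNat 104, .ofNat 94, .negSucc 611, .negSucc 442⟩, .ofNat 1053, .ofNat 1506, .ofNat 0, .ofNat 1506, .ofNat 3389, .ofNat 0, .ofNat 128, .negSucc 380, .negSucc 1327, .ofNat 0, .ofNat 198, .ofNat 598, .ofNat 0, .ofNat 0, .ofNat 1123,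 .ofNat 1114, .ofNat 0, .ofNat 0, .ofNat 0, .ofNat 0, .ofNat 0, .ofNat 0, .ofNat 0, .ofNat 0, .ofNat 0, .ofNat 0, .ofNat 0, .ofNat 0, .ofNat 0, .ofNat 0, .ofNat 0, .ofNat 0⟩)
    (by decide +kernel)
theorem L03031 : Good (Phi V5.P V5.D (-1) (-1)) ⟨5, 25, 4, 6, 3, 6, 3, 7, 5, 0⟩ :=
  leafX_sound T5.ok_mm T5.Ymm.bz_eq (w := 242) (c := ⟨⟨.negSucc 366, .negSucc 103, .ofNat 141, .ofNat 0, .negSucc 494, .negSucc 317⟩, ⟨.ofNat 133, .ofNat 21, .ofNat 3, .negSucc 1, .ofNat 226, .ofNat 141⟩, ⟨.ofNat 403, .ofNat 41, .negSucc 56, .ofNat 78, .ofNat 194, .ofNat 25⟩, ⟨.negSucc 959, .negSucc 188, .ofNat 226, .negSucc 22, .negSucc 861, .negSucc 601⟩, ⟨.negSucc 828, .negSucc 106, .ofNat 87, .negSucc 46, .negSucc 162, .negSucc 212⟩, .ofNat 1195, .ofNat 1796, .ofNat 0, .ofNat 1796, .ofNat 3980, .ofNat 0, .ofNat 128, .negSucc 304, .negSucc 1464, .ofNat 0, .ofNat 159, .ofNat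 672, .ofNat 0, .ofNat 0, .ofNat 1295, .ofNat 865, .ofNat 0, .ofNat 0, .ofNat 0, .ofNat 0, .ofNat 0, .ofNat 0, .ofNat 0, .ofNat 0, .ofNat 0, .ofNat 0, .ofNat 0, .ofNat 0, .ofNat 0, .ofNat 0, .ofNat 0, .ofNat 0⟩)
    (by decide +kernel)
theorem L03032 : Good (Phi V5.P V5.D (-1) (-1)) ⟨5, 25, 4, 6, 3, 6, 3, 6, 5, 1⟩ :=
  leafX_sound T5.ok_mm T5.Ymm.bz_eq (w := 241) (c := ⟨⟨.ofNat 221, .negSucc 20, .ofNat 12, .ofNat 92, .negSucc 947, .negSucc 1065⟩, ⟨.negSucc 137, .negSucc 20, .ofNat 57, .negSucc 39, .ofNat 432, .ofNat 481⟩, ⟨.negSucc 162, .negSucc 25, .ofNat 56, .ofNat 99, .ofNat 578, .ofNat 585⟩, ⟨.negSucc 50, .negSucc 43, .ofNat 40, .ofNat 170, .negSucc 1617, .negSucc 1884⟩, ⟨.negSucc 852, .negSucc 54, .ofNat 129, .ofNat 36, .negSucc 272, .negSucc 445⟩, .ofNat 1195, .ofNat 1796, .ofNat 0, .ofNat 1796, .ofNat 3980, .ofNat 0, .ofNat 128, .negSucc 327, .negSucc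 1210, .ofNat 0, .ofNat 168, .ofNat 556, .ofNat 0, .ofNat 0, .ofNat 1004, .ofNat 1071, .ofNat 0, .ofNat 0, .ofNat 0, .ofNat 0, .ofNat 0, .ofNat 0, .ofNat 0, .ofNat 0, .ofNat 0, .ofNat 0, .ofNat 0, .ofNat 0, .ofNat 0, .ofNat 0, .ofNat 0, .ofNat 0⟩)
    (by decide +kernel)
theorem L03033 : Good (Phi V5.P V5.D (-1) (-1)) ⟨5, 25, 4, 6, 3, 6, 3, 7, 5, 1⟩ :=
  leafX_sound T5.ok_mm T5.Ymm.bz_eq (w := 243) (c := ⟨⟨.negSucc 1222, .negSucc 81, .ofNat 129, .ofNat 338, .ofNat 106, .negSucc 330⟩, ⟨.ofNat 515, .ofNat 13, .ofNat 25, .negSucc 160, .negSucc 43, .ofNat 152⟩, ⟨.ofNat 873, .ofNat 11, .negSucc 41, .negSucc 229, .negSucc 253, .ofNat 44⟩, ⟨.negSucc 2471, .negSucc 114, .ofNat 183, .ofNat 512, .ofNat 222, .negSucc 591⟩, ⟨.negSucc 1173, .negSucc 46, .ofNat 39, .negSucc 42, .ofNat 129, .negSucc 132⟩, .ofNat 1195, .ofNat 1796, .ofNat 0, .ofNat 1796, .ofNat 3980, .ofNat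 0, .ofNat 128, .negSucc 413, .negSucc 2129, .ofNat 0, .ofNat 214, .ofNat 971, .ofNat 0, .ofNat 0, .ofNat 1794, .ofNat 709, .ofNat 0, .ofNat 0, .ofNat 0, .ofNat 0, .ofNat 0, .ofNat 590299874874646387653900699463786081599778455552, .ofNat 0, .ofNat 0, .ofNat 0, .ofNat 0, .ofNat 0, .ofNat 0, .ofNat 0, .ofNat 0, .ofNat 0, .ofNat 0⟩)
    (by decide +kernel)
theorem L03034 : Good (Phi V5.P V5.D (-1) (-1)) ⟨5, 25, 4, 6, 3, 7, 2, 2, 5, 0⟩ :=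
  leafX_sound T5.ok_mm T5.Ymm.bz_eq (w := 236) (c := ⟨⟨.ofNat 2574, .ofNat 96, .negSucc 166, .negSucc 1329, .negSucc 1357, .negSucc 744⟩, ⟨.negSucc 1140, .negSucc 28, .ofNat 20, .ofNat 619, .ofNat 586, .ofNat 317⟩, ⟨.negSucc 896, .negSucc 33, .ofNat 165, .ofNat 1140, .ofNat 494, .ofNat 224⟩, ⟨.ofNat 4868, .ofNat 151, .negSucc 218, .negSucc 2160, .negSucc 2881, .negSucc 1587⟩, ⟨.ofNat 1762, .ofNat 68, .ofNat 50, .negSucc 165, .negSucc 1598, .negSucc 900⟩, .ofNat 1073, .ofNat 1557, .ofNat 0, .ofNat 1557, .ofNat 3521, .ofNat 0, .ofNat 128, .negSucc 224, .negSucc 514, .ofNat 0, .ofNat 110, .ofNat 225, .ofNat 0, .ofNat 0, .ofNat 427, .ofNat 362, .ofNat 0, .ofNat 0, .ofNat 0, .ofNat 0, .ofNat 0, .ofNat 0, .ofNat 0, .ofNat 0, .ofNat 0, .ofNat 0, .ofNat 0, .ofNat 0, .ofNat 0, .ofNat 0, .ofNat 0, .ofNat 0⟩)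
    (by decide +kernel)
theorem L03035 : Good (Phi V5.P V5.D (-1) (-1)) ⟨5, 25, 4, 6, 3, 7, 2, 2, 5, 1⟩ :=
  leafX_sound T5.ok_mm T5.Ymm.bz_eq (w := 236) (c := ⟨⟨.ofNat 1458, .ofNat 25, .ofNat 71, .negSucc 1151, .negSucc 1095, .negSucc 853⟩, ⟨.negSucc 651, .negSucc 39, .negSucc 2, .ofNat 532, .ofNat 470, .ofNat 363⟩, ⟨.negSucc 356, .negSucc 35, .ofNat 37, .ofNat 908, .ofNat 356, .ofNat 256⟩, ⟨.ofNat 2604, .negSucc 11, .ofNat 172, .negSucc 1856, .negSucc 2286, .negSucc 1768⟩, ⟨.ofNat 649, .negSucc 101, .ofNat 174, .negSucc 111, .negSucc 1199, .negSucc 905⟩, .ofNat 1073, .ofNat 1555, .ofNat 0, .ofNat 1555, .ofNat 3513, .ofNat 0, .ofNat 128, .negSucc 275, .negSucc 748, .ofNat 0, .ofNat 136, .ofNat 327, .ofNat 0, .ofNat 0, .ofNat 596, .ofNat 760, .ofNat 0, .ofNat 0, .ofNat 0, .ofNat 0, .ofNat 0, .ofNat 0, .ofNat 0, .ofNat 0, .ofNat 0, .ofNat 0, .ofNat 0, .ofNat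 0, .ofNat 0, .ofNat 0, .ofNat 0, .ofNat 0⟩)
    (by decide +kernel)
theorem L03036 : Good (Phi V5.P V5.D (-1) (-1)) ⟨5, 25, 4, 6, 4, 14, 3, 6, 4, 0⟩ :=
  leafX_sound T5.ok_mm T5.Ymm.bz_eq (w := 250) (c := ⟨⟨.ofNat 700, .negSucc 29, .ofNat 150, .negSucc 344, .negSucc 692, .negSucc 1230⟩, ⟨.negSucc 330, .negSucc 10, .negSucc 19, .ofNat 162, .ofNat 305, .ofNat 534⟩, ⟨.negSucc 11, .ofNat 8, .negSucc 43, .ofNat 307, .ofNat 257, .ofNat 366⟩, ⟨.ofNat 1091, .negSucc 48, .ofNat 211, .negSucc 559, .negSucc 1343, .negSucc 2457⟩, ⟨.negSucc 34, .negSucc 19, .ofNat 16, .negSucc 35, .negSucc 541, .negSucc 1112⟩, .ofNat 1076, .ofNat 1555, .ofNat 0, .ofNat 1555, .ofNat 3495, .ofNat 0, .ofNat 128, .negSucc 351, .negSucc 1147, .ofNat 0, .ofNat 175, .ofNat 509, .ofNat 0, .ofNat 0, .ofNat 898, .ofNat 1407, .ofNat 0, .ofNat 0, .ofNat 0, .ofNat 0, .ofNat 0, .ofNat 0, .ofNat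 0, .ofNat 0, .ofNat 0, .ofNat 0, .ofNat 0, .ofNat 0, .ofNat 0, .ofNat 0, .ofNat 0, .ofNat 0⟩)
    (by decide +kernel)
theorem L03037 : Good (Phi V5.P V5.D (-1) (-1)) ⟨5, 25, 4, 6, 4, 14, 3, 7, 5, 0⟩ :=
  leafX_sound T5.ok_mm T5.Ymm.bz_eq (w := 255) (c := ⟨⟨.negSucc 478, .negSucc 103, .ofNat 83, .negSucc 18, .negSucc 224, .negSucc 252⟩, ⟨.ofNat 189, .ofNat 20, .ofNat 26, .ofNat 7, .ofNat 97, .ofNat 109⟩, ⟨.ofNat 606, .ofNat 41, .ofNat 4, .ofNat 28, .negSucc 98, .negSucc 40⟩, ⟨.negSucc 1105, .negSucc 185, .ofNat 151, .negSucc 86, .negSucc 477, .negSucc 519⟩, ⟨.negSucc 764, .negSucc 96, .ofNat 119, .negSucc 120, .negSucc 256, .negSucc 251⟩, .ofNat 1068, .ofNat 1536, .ofNat 0, .ofNat 1536, .ofNat 3452, .ofNat 0, .ofNat 128, .negSucc 409, .negSucc 1368, .ofNat 0, .ofNat 205, .ofNat 607, .ofNat 0, .ofNat 0, .ofNat 1106, .ofNat 2855, .ofNat 0, .ofNat 0, .ofNat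 0, .ofNat 0, .ofNat 0, .ofNat 0, .ofNat 0, .ofNat 0, .ofNat 0, .ofNat 0, .ofNat 0, .ofNat 0, .ofNat 0, .ofNat 0, .ofNat 0, .ofNat 0⟩)
    (by decide +kernel)
theorem L03038 : Good (Phi V5.P V5.D (-1) (-1)) ⟨5, 25, 4, 6, 4, 14, 3, 7, 5, 1⟩ :=
  leafX_sound T5.ok_mm T5.Ymm.bz_eq (w := 255) (c := ⟨⟨.negSucc 983, .negSucc 56, .ofNat 75, .ofNat 83, .ofNat 176, .negSucc 48⟩, ⟨.ofNat 404, .negSucc 1, .ofNat 41, .negSucc 37, .negSucc 73, .ofNat 21⟩, ⟨.ofNat 728, .negSucc 1, .ofNat 6, .negSucc 39, .negSucc 335, .negSucc 153⟩, ⟨.negSucc 2169, .negSucc 135, .ofNat 88, .ofNat 192, .ofNat 368, .negSucc 34⟩, ⟨.negSucc 1337, .negSucc 157, .ofNat 25, .ofNat 130, .ofNat 206, .ofNat 96⟩, .ofNat 1491, .ofNat 2381, .ofNat 0, .ofNat 2381, .ofNat 5178, .ofNat 0, .ofNat 128, .negSucc 307, .negSucc 857, .ofNat 0, .ofNat 153, .ofNat 387, .ofNat 0, .ofNat 0, .ofNat 693, .ofNat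 1609, .ofNat 0, .ofNat 0, .ofNat 0, .ofNat 0, .ofNat 0, .ofNat 9229248918259882666880469196216138372181179716599808, .ofNat 0, .ofNat 0, .ofNat 0, .ofNat 0, .ofNat 0, .ofNat 0, .ofNat 0, .ofNat 0, .ofNat 0, .ofNat 0⟩)
    (by decide +kernel)
theorem L03039 : Good (Phi V5.P V5.D (-1) (-1)) ⟨5, 25, 4, 6, 4, 15, 3, 6, 4, 0⟩ :=
  leafX_sound T5.ok_mm T5.Ymm.bz_eq (w := 250) (c := ⟨⟨.negSucc 9, .negSucc 82, .ofNat 116, .negSucc 296, .negSucc 370, .negSucc 763⟩, ⟨.negSucc 8, .ofNat 16, .ofNat 10, .ofNat 129, .ofNat 155, .ofNat 322⟩, ⟨.ofNat 590, .ofNat 33, .negSucc 3, .ofNat 193, .negSucc 4, .ofNat 5⟩, ⟨.negSucc 64, .negSucc 151, .ofNat 200, .negSucc 589, .negSucc 850, .negSucc 1648⟩, ⟨.negSucc 105, .negSucc 88, .ofNat 109, .negSucc 264, .negSucc 569, .negSucc 960⟩, .ofNat 1071, .ofNat 1547, .ofNat 0, .ofNat 1547, .ofNat 3486, .ofNat 0, .ofNat 128, .negSucc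 419, .negSucc 1457, .ofNat 0, .ofNat 203, .ofNat 634, .ofNat 0, .ofNat 0, .ofNat 1119, .ofNat 1270, .ofNat 0, .ofNat 0, .ofNat 0, .ofNat 0, .ofNat 0, .ofNat 0, .ofNat 0, .ofNat 0, .ofNat 0, .ofNat 0, .ofNat 0, .ofNat 0, .ofNat 0, .ofNat 0, .ofNat 0, .ofNat 0⟩)
    (by decide +kernel)
theorem L03040 : Good (Phi V5.P V5.D (-1) (-1)) ⟨5, 25, 4, 6, 4, 15, 3, 7, 4, 0⟩ :=
  leafX_sound T5.ok_mm T5.Ymm.bz_eq (w := 249) (c := ⟨⟨.negSucc 940, .ofNat 30, .ofNat 55, .ofNat 19, .ofNat 178, .negSucc 6⟩, ⟨.ofNat 386, .negSucc 38, .ofNat 46, .negSucc 8, .negSucc 77, .ofNat 3⟩, ⟨.ofNat 914, .negSucc 38, .ofNat 16, .negSucc 12, .negSucc 374, .negSucc 370⟩, ⟨.negSucc 2078, .ofNat 101, .ofNat 51, .ofNat 41, .ofNat 337, .ofNat 13⟩, ⟨.negSucc 1290, .ofNat 66, .ofNat 11, .ofNat 23, .ofNat 127, .ofNat 56⟩, .ofNat 1195, .ofNat 1796, .ofNat 0, .ofNat 1796, .ofNat 3980, .ofNat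 0, .ofNat 128, .negSucc 362, .negSucc 768, .ofNat 0, .ofNat 175, .ofNat 341, .ofNat 0, .ofNat 0, .ofNat 595, .ofNat 1036, .ofNat 0, .ofNat 524748989474810500905976549302770135512758878208, .ofNat 39959597920386810295901983933748432804511744, .ofNat 0, .ofNat 0, .ofNat 1068562777832946773676619993798597364780957826023424, .ofNat 0, .ofNat 0, .ofNat 0, .ofNat 0, .ofNat 0, .ofNat 0, .ofNat 0, .ofNat 0, .ofNat 0, .ofNat 0⟩)
    (by decide +kernel)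
theorem L03041 : Good (Phi V5.P V5.D (-1) (-1)) ⟨5, 26, 4, 6, 3, 6, 2, 2, 5, 0⟩ :=
  leafX_sound T5.ok_mm T5.Ymm.bz_eq (w := 236) (c := ⟨⟨.ofNat 3777, .ofNat 469, .negSucc 267, .negSucc 897, .negSucc 1505, .negSucc 652⟩, ⟨.negSucc 1810, .negSucc 272, .ofNat 57, .ofNat 533, .ofNat 700, .ofNat 281⟩, ⟨.negSucc 2440, .negSucc 371, .ofNat 251, .ofNat 1243, .ofNat 688, .ofNat 271⟩, ⟨.ofNat 5988, .ofNat 602, .negSucc 421, .negSucc 812, .negSucc 2749, .negSucc 1474⟩, ⟨.ofNat 390, .ofNat 14, .negSucc 35, .ofNat 1109, .negSucc 904, .negSucc 962⟩, .ofNat 1005, .ofNat 1321, .ofNat 0, .ofNat 1321, .ofNat 2761, .ofNat 0, .ofNat 128, .negSucc 253, .negSucc 801, .ofNat 0, .ofNat 143, .ofNat 390, .ofNat 0, .ofNat 0, .ofNat 718, .ofNat 507, .ofNat 0, .ofNat 0, .ofNat 34874522135549763237348991449637350014976, .ofNat 0, .ofNat 0, .ofNat 0, .ofNat 214358287215252843513130005437611495129088,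 .ofNat 0, .ofNat 0, .ofNat 0, .ofNat 0, .ofNat 0, .ofNat 0, .ofNat 0, .ofNat 0, .ofNat 0⟩)
    (by decide +kernel)
theorem L03042 : Good (Phi V5.P V5.D (-1) (-1)) ⟨5, 26, 4, 6, 3, 6, 2, 2, 5, 1⟩ :=
  leafX_sound T5.ok_mm T5.Ymm.bz_eq (w := 236) (c := ⟨⟨.ofNat 3179, .ofNat 255, .negSucc 93, .negSucc 664, .negSucc 2028, .negSucc 1613⟩, ⟨.negSucc 1606, .negSucc 195, .ofNat 81, .ofNat 362, .ofNat 984, .ofNat 758⟩, ⟨.negSucc 2141, .negSucc 235, .ofNat 157, .ofNat 870, .ofNat 1147, .ofNat 938⟩, ⟨.ofNat 4585, .ofNat 281, .negSucc 67, .negSucc 664, .negSucc 3402, .negSucc 2810⟩, ⟨.negSucc 598, .negSucc 69, .ofNat 194, .ofNat 663, .negSucc 607, .negSucc 680⟩, .ofNat 998, .ofNat 1312, .ofNat 0, .ofNat 1312, .ofNat 2755, .ofNat 0, .ofNat 128, .negSucc 191, .negSucc 859, .ofNat 0, .ofNat 107, .ofNat 415, .ofNat 0, .ofNat 0, .ofNat 703, .ofNat 527, .ofNat 0, .ofNat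 0, .ofNat 0, .ofNat 0, .ofNat 0, .ofNat 0, .ofNat 1331070802060874900253408358211727709437952, .ofNat 0, .ofNat 0, .ofNat 0, .ofNat 1111949821761348361363242629752411998126080, .ofNat 0, .ofNat 0, .ofNat 0, .ofNat 5577126107542861805229232226815621336137728, .ofNat 0⟩)
    (by decide +kernel)
theorem L03043 : Good (Phi V5.P V5.D (-1) (-1)) ⟨5, 26, 4, 6, 4, 12, 3, 6, 4, 0⟩ :=
  leafX_sound T5.ok_mm T5.Ymm.bz_eq (w := 249) (c := ⟨⟨.ofNat 2025, .ofNat 171, .negSucc 30, .ofNat 21, .negSucc 1417, .negSucc 2916⟩, ⟨.negSucc 1056, .negSucc 123, .ofNat 70, .negSucc 7, .ofNat 690, .ofNat 1401⟩, ⟨.negSucc 1487, .negSucc 174, .ofNat 110, .ofNat 90, .ofNat 963, .ofNat 1896⟩, ⟨.ofNat 2909, .ofNat 133, .negSucc 39, .ofNat 69, .negSucc 2311, .negSucc 4940⟩, ⟨.negSucc 402, .negSucc 214, .ofNat 74, .ofNat 46, .negSucc 300, .negSucc 961⟩, .ofNat 795, .ofNat 948, .ofNat 0,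 .ofNat 948, .ofNat 2061, .ofNat 0, .ofNat 128, .negSucc 236, .negSucc 1214, .ofNat 0, .ofNat 139, .ofNat 575, .ofNat 0, .ofNat 0, .ofNat 1014, .ofNat 739, .ofNat 0, .ofNat 0, .ofNat 286637461907079470550363746303182110585782272, .ofNat 0, .ofNat 0, .ofNat 0, .ofNat 25716891225178176931896924137717299295501156352, .ofNat 0, .ofNat 0, .ofNat 0, .ofNat 13183578905243318433132637243514237775385722880, .ofNat 0, .ofNat 0, .ofNat 0, .ofNat 99070443369292342416198564586680380163247570944, .ofNat 0⟩)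
    (by decide +kernel)
theorem L03044 : Good (Phi V5.P V5.D (-1) (-1)) ⟨5, 26, 4, 6, 4, 13, 4, 12, 4, 0⟩ :=
  leafX_sound T5.ok_mm T5.Ymm.bz_eq (w := 253) (c := ⟨⟨.ofNat 1784, .ofNat 390, .negSucc 120, .negSucc 281, .negSucc 707, .negSucc 2377⟩, ⟨.negSucc 893, .negSucc 214, .ofNat 84, .ofNat 142, .ofNat 339, .ofNat 1103⟩, ⟨.negSucc 1054, .negSucc 326, .ofNat 175, .ofNat 328, .ofNat 420, .ofNat 1315⟩, ⟨.ofNat 2650, .ofNat 546, .negSucc 161, .negSucc 354, .negSucc 1218, .negSucc 4232⟩, ⟨.negSucc 195, .negSucc 69, .ofNat 113, .ofNat 144, .negSucc 289, .negSucc 1197⟩, .ofNat 911, .ofNat 1139, .ofNat 0, .ofNat 1139, .ofNat 2404, .ofNat 0, .ofNat 128, .negSucc 321, .negSucc 1234, .ofNat 0, .ofNat 183, .ofNat 584, .ofNat 0, .ofNat 0, .ofNat 971, .ofNat 962, .ofNat 0, .ofNat 0, .ofNat 2013287279306345829862157356089354965118615552, .ofNat 0, .ofNat 0, .ofNat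 0, .ofNat 161719596635346967761275306643598246342981320704, .ofNat 0, .ofNat 0, .ofNat 0, .ofNat 0, .ofNat 0, .ofNat 0, .ofNat 0, .ofNat 2258125103067847103064930648797242874772951400448, .ofNat 0⟩)
    (by decide +kernel)
theorem L03045 : Good (Phi V5.P V5.D (-1) (-1)) ⟨5, 26, 4, 6, 4, 13, 4, 13, 4, 0⟩ :=
  leafX_sound T5.ok_mm T5.Ymm.bz_eq (w := 253) (c := ⟨⟨.ofNat 602, .negSucc 16, .ofNat 93, .negSucc 69, .negSucc 546, .negSucc 1761⟩, ⟨.negSucc 358, .negSucc 26, .ofNat 13, .ofNat 36, .ofNat 262, .ofNat 833⟩, ⟨.negSucc 213, .negSucc 2, .negSucc 15, .ofNat 119, .ofNat 297, .ofNat 848⟩, ⟨.ofNat 638, .negSucc 45, .ofNat 130, .negSucc 59, .negSucc 926, .negSucc 3107⟩, ⟨.negSucc 612, .negSucc 48, .ofNat 48, .ofNat 97, .negSucc 187, .negSucc 838⟩, .ofNat 1127, .ofNat 1526, .ofNat 0, .ofNat 1526, .ofNat 3127, .ofNat 0, .ofNat 128, .negSucc 193, .negSucc 1059,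 .ofNat 0, .ofNat 110, .ofNat 508, .ofNat 0, .ofNat 0, .ofNat 846, .ofNat 954, .ofNat 0, .ofNat 0, .ofNat 4822678619379981939161109349158727519528026112, .ofNat 0, .ofNat 0, .ofNat 0, .ofNat 113002080279074545115454348276019467432799240192, .ofNat 0, .ofNat 0, .ofNat 0, .ofNat 134958823836376835898185280112911095043295543296, .ofNat 0, .ofNat 0, .ofNat 0, .ofNat 1397668931039068199460556088784855470145236107264, .ofNat 0⟩)
    (by decide +kernel)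
theorem L03046 : Good (Phi V5.P V5.D (-1) (-1)) ⟨5, 26, 4, 6, 4, 12, 3, 7, 4, 0⟩ :=
  leafX_sound T5.ok_mm T5.Ymm.bz_eq (w := 250) (c := ⟨⟨.negSucc 642, .negSucc 28, .ofNat 299, .ofNat 202, .negSucc 146, .negSucc 1308⟩, ⟨.ofNat 218, .negSucc 18, .negSucc 61, .negSucc 101, .ofNat 73, .ofNat 628⟩, ⟨.ofNat 583, .negSucc 26, .negSucc 190, .negSucc 146, .negSucc 82, .ofNat 640⟩, ⟨.negSucc 1464, .negSucc 75, .ofNat 465, .ofNat 302, .negSucc 189, .negSucc 2212⟩, ⟨.negSucc 1009, .negSucc 117, .ofNat 91, .negSucc 17, .ofNat 58, .negSucc 404⟩, .ofNat 911, .ofNat 1139, .ofNat 0, .ofNat 1139, .ofNat 2404, .ofNat 0, .ofNat 128, .negSucc 248, .negSucc 1553, .ofNat 0, .ofNat 150, .ofNat 741, .ofNat 0, .ofNat 0, .ofNat 1337, .ofNat 579, .ofNat 0, .ofNat 0, .ofNat 139883331777660007497534105289277227407507456, .ofNat 0, .ofNat 0, .ofNat 0, .ofNat 0, .ofNat 0, .ofNat 0,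 .ofNat 0, .ofNat 22883631216244612034008185921844301372774678528, .ofNat 0, .ofNat 0, .ofNat 0, .ofNat 138913043239026501786782345875534900881260544000, .ofNat 0⟩)
    (by decide +kernel)
theorem L03047 : Good (Phi V5.P V5.D (-1) (-1)) ⟨5, 26, 4, 6, 4, 13, 3, 7, 5, 0⟩ :=
  leafX_sound T5.ok_mm T5.Ymm.bz_eq (w := 255) (c := ⟨⟨.negSucc 225, .negSucc 62, .ofNat 4, .negSucc 47, .negSucc 534, .negSucc 416⟩, ⟨.ofNat 38, .negSucc 1, .ofNat 60, .ofNat 19, .ofNat 251, .ofNat 191⟩, ⟨.ofNat 310, .negSucc 4, .ofNat 65, .ofNat 73, .ofNat 175, .ofNat 94⟩, ⟨.negSucc 816, .negSucc 97, .negSucc 21, .negSucc 67, .negSucc 864, .negSucc 710⟩, ⟨.negSucc 995, .negSucc 44, .ofNat 21, .ofNat 15, .negSucc 96, .negSucc 150⟩, .ofNat 1287, .ofNat 1816, .ofNat 0, .ofNat 1816, .ofNat 3666, .ofNat 0, .ofNat 128, .negSucc 183, .negSucc 1243, .ofNat 0, .ofNat 105, .ofNat 598, .ofNat 0,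 .ofNat 0, .ofNat 1042, .ofNat 1222, .ofNat 0, .ofNat 0, .ofNat 5132942085287158707220815094570754923514822656, .ofNat 0, .ofNat 0, .ofNat 0, .ofNat 352994940504620817655893394594380511899637776384, .ofNat 0, .ofNat 0, .ofNat 0, .ofNat 237218782163875210264590796455055812801339588608, .ofNat 0, .ofNat 0, .ofNat 0, .ofNat 1006033761712626270937764039952824985734032130048, .ofNat 0⟩)
    (by decide +kernel)
theorem L03048 : Good (Phi V5.P V5.D (-1) (-1)) ⟨5, 26, 4, 6, 4, 13, 3, 7, 5, 1⟩ :=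
  leafX_sound T5.ok_mm T5.Ymm.bz_eq (w := 255) (c := ⟨⟨.negSucc 1478, .negSucc 61, .ofNat 231, .ofNat 305, .ofNat 300, .negSucc 163⟩, ⟨.ofNat 608, .negSucc 4, .negSucc 19, .negSucc 151, .negSucc 138, .ofNat 75⟩, ⟨.ofNat 1036, .ofNat 6, .negSucc 116, .negSucc 216, .negSucc 412, .negSucc 85⟩, ⟨.negSucc 2872, .negSucc 145, .ofNat 374, .ofNat 435, .ofNat 542, .negSucc 344⟩, ⟨.negSucc 1285, .negSucc 158, .ofNat 111, .negSucc 62, .ofNat 177, .negSucc 162⟩, .ofNat 911, .ofNat 1139, .ofNat 0, .ofNat 1139, .ofNat 2404, .ofNat 0, .ofNat 128, .negSucc 231, .negSucc 1551, .ofNat 0, .ofNat 132, .ofNat 724, .ofNat 0, .ofNat 0, .ofNat 1214, .ofNat 1057, .ofNat 0, .ofNat 0, .ofNat 3441879485252543984233499657158669790401789952, .ofNat 0, .ofNat 0, .ofNat 8458897297158046247824525136610114735769926949142528, .ofNat 112710388463784379778538715338770927311055224832, .ofNat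 0, .ofNat 0, .ofNat 0, .ofNat 0, .ofNat 0, .ofNat 0, .ofNat 0, .ofNat 1160480829556519017397640304480088227644444770304, .ofNat 0⟩)
    (by decide +kernel)
theorem L03049 : Good (Phi V5.P V5.D (-1) (-1)) ⟨5, 27, 4, 6, 3, 6, 1, 1, 4, 0⟩ :=
  out_sound (S := T5.ds_mm) T5.ok_mm (w := 59) (j := 3) (by decide +kernel)
theorem L03050 : Good (Phi V5.P V5.D (-1) (-1)) ⟨5, 26, 4, 6, 3, 7, 2, 2, 5, 0⟩ :=
  leafX_sound T5.ok_mm T5.Ymm.bz_eq (w := 236) (c := ⟨⟨.ofNat 2853, .ofNat 129, .negSucc 56, .negSucc 1452, .negSucc 1522, .negSucc 782⟩, ⟨.negSucc 1285, .negSucc 80, .ofNat 4, .ofNat 709, .ofNat 661, .ofNat 344⟩, ⟨.negSucc 992, .negSucc 135, .ofNat 134, .ofNat 1227, .ofNat 512, .ofNat 250⟩, ⟨.ofNat 5352, .ofNat 115, .ofNat 8, .negSucc 2306, .negSucc 3237, .negSucc 1643⟩, ⟨.ofNat 2009, .negSucc 118, .ofNat 179, .negSucc 195, .negSucc 1829, .negSucc 903⟩, .ofNat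 998, .ofNat 1311, .ofNat 0, .ofNat 1311, .ofNat 2751, .ofNat 0, .ofNat 128, .negSucc 176, .negSucc 343, .ofNat 0, .ofNat 93, .ofNat 159, .ofNat 0, .ofNat 0, .ofNat 269, .ofNat 456, .ofNat 0, .ofNat 0, .ofNat 0, .ofNat 0, .ofNat 0, .ofNat 0, .ofNat 1724849569733447346499656481775664968499200, .ofNat 0, .ofNat 0, .ofNat 0, .ofNat 0, .ofNat 0, .ofNat 0, .ofNat 0, .ofNat 829105932980362109432250980148801112637440, .ofNat 0⟩)
    (by decide +kernel)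
theorem L03051 : Good (Phi V5.P V5.D (-1) (-1)) ⟨5, 26, 5, 12, 3, 7, 2, 2, 5, 1⟩ :=
  leafX_sound T5.ok_mm T5.Ymm.bz_eq (w := 239) (c := ⟨⟨.ofNat 1816, .ofNat 162, .negSucc 32, .negSucc 1366, .negSucc 1131, .negSucc 1104⟩, ⟨.negSucc 844, .negSucc 85, .ofNat 29, .ofNat 650, .ofNat 474, .ofNat 472⟩, ⟨.negSucc 620, .negSucc 61, .ofNat 59, .ofNat 1056, .ofNat 357, .ofNat 420⟩, ⟨.ofNat 3048, .ofNat 296, .negSucc 27, .negSucc 2150, .negSucc 2291, .negSucc 2149⟩, ⟨.ofNat 535, .ofNat 154, .ofNat 57, .negSucc 119, .negSucc 1146, .negSucc 952⟩, .ofNat 1156, .ofNat 1617, .ofNat 0, .ofNat 1617, .ofNat 3398, .ofNat 0, .ofNat 128, .negSucc 264, .negSucc 742, .ofNat 0, .ofNat 139, .ofNat 339, .ofNat 0, .ofNat 0, .ofNat 581, .ofNat 1135, .ofNat 0, .ofNat 0, .ofNat 32225142759050929287935066622333248602112, .ofNat 0, .ofNat 0, .ofNat 0, .ofNat 4735580710175237746851220859630494758731776,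 .ofNat 0, .ofNat 0, .ofNat 0, .ofNat 1728154959914076807086993971041463739351040, .ofNat 0, .ofNat 0, .ofNat 0, .ofNat 5844856163163793478911597539790413375733760, .ofNat 0⟩)
    (by decide +kernel)
theorem L03052 : Good (Phi V5.P V5.D (-1) (-1)) ⟨5, 26, 5, 13, 3, 7, 2, 2, 5, 1⟩ :=
  leafX_sound T5.ok_mm T5.Ymm.bz_eq (w := 239) (c := ⟨⟨.ofNat 1681, .ofNat 1, .ofNat 72, .negSucc 1235, .negSucc 1185, .negSucc 1015⟩, ⟨.negSucc 801, .negSucc 33, .negSucc 19, .ofNat 606, .ofNat 533, .ofNat 460⟩, ⟨.negSucc 455, .negSucc 5, .ofNat 7, .ofNat 964, .ofNat 374, .ofNat 349⟩, ⟨.ofNat 2904, .negSucc 28, .ofNat 180, .negSucc 1982, .negSucc 2400, .negSucc 2027⟩, ⟨.ofNat 654, .negSucc 42, .ofNat 163, .negSucc 197, .negSucc 1166, .negSucc 953⟩, .ofNat 1222, .ofNat 1727, .ofNat 0, .ofNat 1727, .ofNat 3546, .ofNat 0, .ofNat 128, .negSucc 220, .negSucc 971, .ofNat 0, .ofNat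 116, .ofNat 459, .ofNat 0, .ofNat 0, .ofNat 746, .ofNat 955, .ofNat 0, .ofNat 0, .ofNat 36622984444259711524693330347685788516352, .ofNat 0, .ofNat 0, .ofNat 0, .ofNat 6668654320951738214051476595221428260831232, .ofNat 0, .ofNat 0, .ofNat 0, .ofNat 1616447276916005957952652212701853237903360, .ofNat 0, .ofNat 0, .ofNat 0, .ofNat 0, .ofNat 0⟩)
    (by decide +kernel)
theorem L03053 : Good (Phi V5.P V5.D (-1) (-1)) ⟨5, 26, 4, 6, 4, 14, 3, 6, 5, 0⟩ :=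
  leafX_sound T5.ok_mm T5.Ymm.bz_eq (w := 254) (c := ⟨⟨.ofNat 1019, .negSucc 99, .ofNat 35, .negSucc 455, .negSucc 1007, .negSucc 815⟩, ⟨.negSucc 503, .ofNat 32, .ofNat 3, .ofNat 225, .ofNat 458, .ofNat 362⟩, ⟨.negSucc 243, .ofNat 74, .ofNat 30, .ofNat 406, .ofNat 439, .ofNat 312⟩, ⟨.ofNat 1628, .negSucc 158, .ofNat 63, .negSucc 717, .negSucc 1957, .negSucc 1588⟩, ⟨.ofNat 102, .ofNat 0, .ofNat 57, .negSucc 33, .negSucc 831, .negSucc 685⟩, .ofNat 911, .ofNat 1139, .ofNat 0, .ofNat 1139, .ofNat 2404, .ofNat 0, .ofNat 128, .negSucc 267, .negSucc 1140, .ofNat 0, .ofNat 145, .ofNat 528, .ofNat 0, .ofNat 0, .ofNat 855, .ofNat 1338, .ofNat 0, .ofNat 0, .ofNat 5957866992628730992260515736320291666539839488, .ofNat 0, .ofNat 0, .ofNat 0, .ofNat 401979334215128226701651386514704343455231901696, .ofNat 0, .ofNat 0, .ofNat 0, .ofNat 0, .ofNat 0, .ofNat 0, .ofNat 0,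 .ofNat 1175380311284619915798193389294202673322633723904, .ofNat 0⟩)
    (by decide +kernel)
theorem L03054 : Good (Phi V5.P V5.D (-1) (-1)) ⟨5, 26, 4, 6, 4, 15, 3, 6, 5, 0⟩ :=
  leafX_sound T5.ok_mm T5.Ymm.bz_eq (w := 253) (c := ⟨⟨.ofNat 169, .negSucc 106, .ofNat 65, .negSucc 366, .negSucc 599, .negSucc 565⟩, ⟨.negSucc 114, .ofNat 28, .ofNat 21, .ofNat 167, .ofNat 260, .ofNat 250⟩, ⟨.ofNat 486, .ofNat 34, .ofNat 25, .ofNat 241, .ofNat 98, .ofNat 97⟩, ⟨.ofNat 268, .negSucc 206, .ofNat 111, .negSucc 701, .negSucc 1282, .negSucc 1173⟩, ⟨.negSucc 15, .negSucc 120, .ofNat 77, .negSucc 283, .negSucc 728, .negSucc 616⟩, .ofNat 1014, .ofNat 1343, .ofNat 0, .ofNat 1343, .ofNat 2811, .ofNat 0, .ofNat 128, .negSucc 162, .negSucc 921, .ofNat 0, .ofNat 84, .ofNat 425, .ofNat 0, .ofNat 0, .ofNat 667, .ofNat 497, .ofNat 0, .ofNat 0, .ofNat 2889585177544261193955317898178483466518134784,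 .ofNat 0, .ofNat 0, .ofNat 0, .ofNat 407280048784187013438104075582588110797973487616, .ofNat 0, .ofNat 0, .ofNat 0, .ofNat 0, .ofNat 0, .ofNat 0, .ofNat 0, .ofNat 0, .ofNat 0⟩)
    (by decide +kernel)
theorem L03055 : Good (Phi V5.P V5.D (-1) (-1)) ⟨6, 52, 4, 6, 3, 7, 3, 6, 5, 1⟩ :=
  leafX_sound T5.ok_mm T5.Ymm.bz_eq (w := 245) (c := ⟨⟨.negSucc 617, .negSucc 86, .ofNat 128, .negSucc 239, .negSucc 185, .negSucc 217⟩, ⟨.ofNat 211, .ofNat 24, .ofNat 23, .ofNat 111, .ofNat 79, .ofNat 93⟩, ⟨.ofNat 647, .ofNat 41, .negSucc 15, .ofNat 208, .negSucc 89, .negSucc 81⟩, ⟨.negSucc 1356, .negSucc 150, .ofNat 231, .negSucc 437, .negSucc 460, .negSucc 502⟩, ⟨.negSucc 887, .negSucc 59, .ofNat 154, .negSucc 145, .negSucc 336, .negSucc 334⟩, .ofNat 992, .ofNat 1313, .ofNat 0, .ofNat 1313, .ofNat 2792, .ofNat 0, .ofNat 128, .negSucc 350, .negSucc 1746, .ofNat 0, .ofNat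 182, .ofNat 795, .ofNat 0, .ofNat 0, .ofNat 1280, .ofNat 1397, .ofNat 0, .ofNat 0, .ofNat 102996650881991070703661817508026816397312, .ofNat 0, .ofNat 0, .ofNat 0, .ofNat 2829703603905433870779520004099287478697984, .ofNat 0, .ofNat 0, .ofNat 0, .ofNat 0, .ofNat 0, .ofNat 0, .ofNat 0, .ofNat 0, .ofNat 0⟩)
    (by decide +kernel)
theorem L03056 : Good (Phi V5.P V5.D (-1) (-1)) ⟨6, 53, 4, 6, 3, 7, 3, 6, 5, 1⟩ :=
  leafX_sound T5.ok_mm T5.Ymm.bz_eq (w := 246) (c := ⟨⟨.negSucc 489, .negSucc 273, .ofNat 23, .negSucc 257, .negSucc 236, .negSucc 289⟩, ⟨.ofNat 135, .ofNat 112, .ofNat 68, .ofNat 125, .ofNat 101, .ofNat 125⟩, ⟨.ofNat 552, .ofNat 150, .ofNat 59, .ofNat 227, .negSucc 71, .negSucc 53⟩, ⟨.negSucc 1145, .negSucc 490, .ofNat 56, .negSucc 458, .negSucc 552, .negSucc 649⟩, ⟨.negSucc 861, .negSucc 175, .ofNat 113, .negSucc 133, .negSucc 375, .negSucc 413⟩,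 .ofNat 1134, .ofNat 1505, .ofNat 0, .ofNat 1505, .ofNat 3016, .ofNat 0, .ofNat 128, .negSucc 360, .negSucc 1664, .ofNat 0, .ofNat 196, .ofNat 775, .ofNat 0, .ofNat 0, .ofNat 1198, .ofNat 1944, .ofNat 0, .ofNat 0, .ofNat 113888754018941071567213203815992465031168, .ofNat 0, .ofNat 0, .ofNat 0, .ofNat 14594559260556118075893278162859810655043584, .ofNat 0, .ofNat 0, .ofNat 0, .ofNat 13253522775357735598968139278392207591079936, .ofNat 0, .ofNat 0, .ofNat 0, .ofNat 71531490172410934996460675451356130066825216, .ofNat 0⟩)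
    (by decide +kernel)
theorem L03057 : Good (Phi V5.P V5.D (-1) (-1)) ⟨5, 26, 4, 6, 3, 7, 4, 14, 5, 0⟩ :=
  leafX_sound T5.ok_mm T5.Ymm.bz_eq (w := 245) (c := ⟨⟨.negSucc 559, .negSucc 71, .ofNat 35, .negSucc 168, .negSucc 62, .negSucc 300⟩, ⟨.ofNat 198, .ofNat 1, .ofNat 56, .ofNat 72, .ofNat 25, .ofNat 125⟩, ⟨.ofNat 651, .ofNat 10, .ofNat 41, .ofNat 120, .negSucc 104, .negSucc 36⟩, ⟨.negSucc 1277, .negSucc 156, .ofNat 92, .negSucc 334, .negSucc 170, .negSucc 630⟩, ⟨.negSucc 887, .negSucc 136, .ofNat 155, .negSucc 158, .negSucc 144, .negSucc 355⟩, .ofNat 1266, .ofNat 1800, .ofNat 0, .ofNat 1800, .ofNat 3678, .ofNat 0, .ofNat 128, .negSucc 249, .negSucc 1084, .ofNat 0, .ofNat 131, .ofNat 510, .ofNat 0, .ofNat 0, .ofNat 830, .ofNat 1262, .ofNat 0, .ofNat 0, .ofNat 5575176892083174142836940169556420886265856, .ofNat 0, .ofNat 0, .ofNat 0, .ofNat 510822499581761118105482759779715412370915328,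 .ofNat 0, .ofNat 0, .ofNat 0, .ofNat 0, .ofNat 0, .ofNat 0, .ofNat 0, .ofNat 0, .ofNat 0⟩)
    (by decide +kernel)
theorem L03058 : Good (Phi V5.P V5.D (-1) (-1)) ⟨5, 26, 4, 6, 3, 7, 4, 15, 5, 0⟩ :=
  leafX_sound T5.ok_mm T5.Ymm.bz_eq (w := 243) (c := ⟨⟨.negSucc 906, .negSucc 108, .ofNat 50, .ofNat 67, .ofNat 123, .negSucc 86⟩, ⟨.ofNat 349, .ofNat 13, .ofNat 51, .negSucc 35, .negSucc 58, .ofNat 38⟩, ⟨.ofNat 761, .ofNat 20, .ofNat 28, .negSucc 67, .negSucc 229, .negSucc 151⟩, ⟨.negSucc 1921, .negSucc 223, .ofNat 71, .ofNat 50, .ofNat 185, .negSucc 173⟩, ⟨.negSucc 1125, .negSucc 155, .ofNat 67, .negSucc 100, .negSucc 3, .negSucc 83⟩, .ofNat 1442, .ofNat 2122, .ofNat 0, .ofNat 2122, .ofNat 4272, .ofNat 0, .ofNat 128, .negSucc 127, .negSucc 461, .ofNat 0, .ofNat 68, .ofNat 219, .ofNat 0, .ofNat 0, .ofNat 366, .ofNat 1328, .ofNat 0, .ofNat 0, .ofNat 3906384456398739798949728215562607359164416,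 .ofNat 0, .ofNat 0, .ofNat 0, .ofNat 778547890028298113246408030764340308325957632, .ofNat 0, .ofNat 0, .ofNat 0, .ofNat 85869681626042536147355411486788169561538560, .ofNat 0, .ofNat 0, .ofNat 0, .ofNat 153730587480954865311557666646374556981264384, .ofNat 0⟩)
    (by decide +kernel)
theorem L03059 : Good (Phi V5.P V5.D (-1) (-1)) ⟨5, 26, 4, 6, 3, 7, 3, 7, 5, 1⟩ :=
  leafX_sound T5.ok_mm T5.Ymm.bz_eq (w := 239) (c := ⟨⟨.negSucc 1248, .negSucc 41, .ofNat 86, .ofNat 169, .ofNat 419, .ofNat 155⟩, ⟨.ofNat 498, .negSucc 18, .ofNat 34, .negSucc 71, .negSucc 188, .negSucc 68⟩, ⟨.ofNat 838, .negSucc 7, .ofNat 1, .negSucc 58, .negSucc 490, .negSucc 268⟩, ⟨.negSucc 2657, .negSucc 33, .ofNat 91, .ofNat 389, .ofNat 778, .ofNat 325⟩, ⟨.negSucc 1555, .ofNat 9, .ofNat 2, .ofNat 261, .ofNat 286, .ofNat 180⟩, .ofNat 1298, .ofNat 1862, .ofNat 0, .ofNat 1862, .ofNat 3794,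 .ofNat 0, .ofNat 128, .negSucc 193, .negSucc 575, .ofNat 0, .ofNat 102, .ofNat 269, .ofNat 0, .ofNat 0, .ofNat 439, .ofNat 563, .ofNat 0, .ofNat 0, .ofNat 91943905173693848500398371068812059475968, .ofNat 0, .ofNat 0, .ofNat 1565339797364054228675131294348877771316823851008, .ofNat 30873431615993959212991591338438737497423872, .ofNat 0, .ofNat 0, .ofNat 0, .ofNat 0, .ofNat 0, .ofNat 0, .ofNat 0, .ofNat 0, .ofNat 0⟩)
    (by decide +kernel)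
theorem L03060 : Good (Phi V5.P V5.D (-1) (-1)) ⟨5, 27, 4, 6, 3, 7, 1, 1, 4, 0⟩ :=
  out_sound (S := T5.ds_mm) T5.ok_mm (w := 59) (j := 3) (by decide +kernel)
theorem L03061 : Good (Phi V5.P V5.D (-1) (-1)) ⟨5, 24, 4, 6, 4, 12, 2, 2, 4, 1⟩ :=
  out_sound (S := T5.ds_mm) T5.ok_mm (w := 59) (j := 3) (by decide +kernel)
theorem L03062 : Good (Phi V5.P V5.D (-1) (-1)) ⟨5, 25, 4, 6, 4, 12, 2, 2, 4, 1⟩ :=
  leafX_sound T5.ok_mm T5.Ymm.bz_eq (w := 246) (c := ⟨⟨.negSucc 877, .negSucc 423, .ofNat 423, .ofNat 371, .ofNat 40, .negSucc 2305⟩, ⟨.ofNat 316, .ofNat 195, .negSucc 86, .negSucc 177, .negSucc 9, .ofNat 1089⟩, ⟨.ofNat 597, .ofNat 254, .negSucc 249, .negSucc 233, .negSucc 135, .ofNat 1315⟩, ⟨.negSucc 2156, .negSucc 448, .ofNat 475, .ofNat 642, .ofNat 112, .negSucc 3671⟩, ⟨.negSucc 1681, .ofNat 289, .negSucc 309, .ofNat 148, .ofNat 206, .negSucc 82⟩, .ofNat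 1195, .ofNat 1796, .ofNat 0, .ofNat 1796, .ofNat 3980, .ofNat 0, .ofNat 128, .negSucc 331, .negSucc 1282, .ofNat 0, .ofNat 172, .ofNat 599, .ofNat 0, .ofNat 0, .ofNat 1112, .ofNat 616, .ofNat 0, .ofNat 0, .ofNat 0, .ofNat 0, .ofNat 0, .ofNat 0, .ofNat 0, .ofNat 0, .ofNat 0, .ofNat 0, .ofNat 0, .ofNat 0, .ofNat 0, .ofNat 0, .ofNat 0, .ofNat 0⟩)
    (by decide +kernel)
theorem L03063 : Good (Phi V5.P V5.D (-1) (-1)) ⟨4, 12, 4, 6, 4, 12, 2, 3, 4, 1⟩ :=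
  leafX_sound T5.ok_mm T5.Ymm.bz_eq (w := 241) (c := ⟨⟨.negSucc 1499, .negSucc 830, .ofNat 245, .ofNat 541, .ofNat 576, .negSucc 809⟩, ⟨.ofNat 634, .ofNat 358, .ofNat 7, .negSucc 257, .negSucc 241, .ofNat 384⟩, ⟨.ofNat 1011, .ofNat 544, .negSucc 144, .negSucc 404, .negSucc 636, .ofNat 205⟩, ⟨.negSucc 2934, .negSucc 1407, .ofNat 444, .ofNat 858, .ofNat 995, .negSucc 1357⟩, ⟨.negSucc 1108, .negSucc 544, .ofNat 170, .ofNat 54, .ofNat 377, .negSucc 56⟩, .ofNat 813, .ofNat 1039, .ofNat 0, .ofNat 1039, .ofNat 2438, .ofNat 0, .ofNat 128, .negSucc 256, .negSucc 1074, .ofNat 0, .ofNat 139, .ofNat 474, .ofNat 0, .ofNat 0, .ofNat 927, .ofNat 483, .ofNat 0, .ofNat 0, .ofNat 0, .ofNat 0, .ofNat 0, .ofNat 0, .ofNat 0, .ofNat 0, .ofNat 0, .ofNat 0, .ofNat 0, .ofNat 0, .ofNat 0, .ofNat 12174357890779464477112485110883004235521531576320, .ofNat 0, .ofNat 0⟩)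
    (by decide +kernel)
theorem L03064 : Good (Phi V5.P V5.D (-1) (-1)) ⟨5, 26, 4, 6, 4, 12, 2, 2, 5, 2⟩ :=
  leafX_sound T5.ok_mm T5.Ymm.bz_eq (w := 251) (c := ⟨⟨.ofNat 493, .negSucc 242, .ofNat 68, .ofNat 604, .negSucc 1743, .negSucc 2483⟩, ⟨.negSucc 401, .ofNat 84, .ofNat 100, .negSucc 305, .ofNat 882, .ofNat 1208⟩, ⟨.negSucc 435, .ofNat 121, .ofNat 21, .negSucc 365, .ofNat 1131, .ofNat 1603⟩, ⟨.ofNat 97, .negSucc 402, .ofNat 122, .ofNat 913, .negSucc 2655, .negSucc 3992⟩, ⟨.negSucc 1299, .negSucc 171, .ofNat 103, .negSucc 26, .ofNat 7, .negSucc 449⟩, .ofNat 1000, .ofNat 1318, .ofNat 0, .ofNat 1318, .ofNat 2773, .ofNat 0, .ofNat 128, .negSucc 295, .negSucc 1522, .ofNat 0, .ofNat 168, .ofNat 747, .ofNat 0, .ofNat 0, .ofNat 1246, .ofNat 547, .ofNat 0, .ofNat 0, .ofNat 318430037094104952006093098734554175678447616, .ofNat 0, .ofNat 0, .ofNat 0, .ofNat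 0, .ofNat 0, .ofNat 0, .ofNat 0, .ofNat 0, .ofNat 0, .ofNat 0, .ofNat 0, .ofNat 0, .ofNat 0⟩)
    (by decide +kernel)
theorem L03065 : Good (Phi V5.P V5.D (-1) (-1)) ⟨5, 26, 4, 6, 4, 12, 2, 3, 5, 2⟩ :=
  leafX_sound T5.ok_mm T5.Ymm.bz_eq (w := 250) (c := ⟨⟨.negSucc 2432, .negSucc 573, .ofNat 499, .ofNat 551, .ofNat 703, .negSucc 796⟩, ⟨.ofNat 1050, .ofNat 265, .negSucc 116, .negSucc 283, .negSucc 334, .ofNat 390⟩, ⟨.ofNat 1649, .ofNat 396, .negSucc 344, .negSucc 435, .negSucc 734, .ofNat 394⟩, ⟨.negSucc 4290, .negSucc 904, .ofNat 677, .ofNat 746, .ofNat 1092, .negSucc 1291⟩, ⟨.negSucc 1161, .negSucc 256, .negSucc 85, .negSucc 168, .ofNat 57, .negSucc 179⟩, .ofNat 1237, .ofNat 1725, .ofNat 0, .ofNat 1725, .ofNat 3498, .ofNat 0, .ofNat 128, .negSucc 148, .negSucc 1026, .ofNat 0, .ofNat 86, .ofNat 498, .ofNat 0, .ofNat 0, .ofNat 837, .ofNat 437, .ofNat 0,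 .ofNat 0, .ofNat 281931778211503267099459852969015281761386496, .ofNat 0, .ofNat 0, .ofNat 1380721047487000112473472234207710642204459124391936, .ofNat 16338141427470991056455611971484382477869383680, .ofNat 0, .ofNat 0, .ofNat 0, .ofNat 6606908360027849593028573536860882931118243840, .ofNat 0, .ofNat 0, .ofNat 0, .ofNat 117100164251007988898720704992507699165636067328, .ofNat 0⟩)
    (by decide +kernel)
theorem L03066 : Good (Phi V5.P V5.D (-1) (-1)) ⟨5, 26, 4, 6, 4, 12, 2, 2, 5, 3⟩ :=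
  leafX_sound T5.ok_mm T5.Ymm.bz_eq (w := 250) (c := ⟨⟨.negSucc 3492, .negSucc 690, .ofNat 390, .ofNat 723, .ofNat 541, .negSucc 423⟩, ⟨.ofNat 1551, .ofNat 341, .negSucc 38, .negSucc 380, .negSucc 260, .ofNat 216⟩, ⟨.ofNat 2306, .ofNat 462, .negSucc 278, .negSucc 546, .negSucc 486, .ofNat 137⟩, ⟨.negSucc 6052, .negSucc 991, .ofNat 577, .ofNat 1013, .ofNat 769, .negSucc 627⟩, ⟨.negSucc 1512, .negSucc 97, .ofNat 27, .negSucc 161, .ofNat 11, .ofNat 54⟩, .ofNat 607, .ofNat 620, .ofNat 0, .ofNat 620, .ofNat 1431, .ofNat 0, .ofNat 128, .negSucc 256, .negSucc 1532, .ofNat 0, .ofNat 155, .ofNat 725, .ofNat 0, .ofNat 0, .ofNat 1264, .ofNat 808, .ofNat 0, .ofNat 0, .ofNat 721188638866570269294397580832238979768123392, .ofNat 0, .ofNat 0, .ofNat 0, .ofNat 13010240121216978476034034531439176129762557952, .ofNat 0, .ofNat 0, .ofNat 0, .ofNat 49850633868858963682227879178394064158365581312,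 .ofNat 0, .ofNat 0, .ofNat 0, .ofNat 154260465894882424080728978308778663508042579968, .ofNat 0⟩)
    (by decide +kernel)
theorem L03067 : Good (Phi V5.P V5.D (-1) (-1)) ⟨5, 26, 4, 6, 4, 12, 2, 3, 5, 3⟩ :=
  leafX_sound T5.ok_mm T5.Ymm.bz_eq (w := 250) (c := ⟨⟨.negSucc 3401, .negSucc 525, .ofNat 281, .ofNat 800, .ofNat 1564, .ofNat 115⟩, ⟨.ofNat 1516, .ofNat 249, .ofNat 0, .negSucc 404, .negSucc 745, .negSucc 49⟩, ⟨.ofNat 2161, .ofNat 333, .negSucc 190, .negSucc 615, .negSucc 1328, .negSucc 267⟩, ⟨.negSucc 5944, .negSucc 819, .ofNat 416, .ofNat 1155, .ofNat 2745, .ofNat 208⟩, ⟨.negSucc 1509, .negSucc 230, .ofNat 40, .negSucc 119, .ofNat 741, .ofNat 63⟩, .ofNat 992, .ofNat 1301, .ofNat 0, .ofNat 1301, .ofNat 2736, .ofNat 0, .ofNat 128, .negSucc 136, .negSucc 778, .ofNat 0, .ofNat 78, .ofNat 376, .ofNat 0, .ofNat 0, .ofNat 667, .ofNat 124, .ofNat 0, .ofNat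 0, .ofNat 280341080262479621448745865180882308217962496, .ofNat 0, .ofNat 0, .ofNat 0, .ofNat 0, .ofNat 0, .ofNat 0, .ofNat 0, .ofNat 3511905534913924296062347321414185498055802880, .ofNat 0, .ofNat 0, .ofNat 0, .ofNat 0, .ofNat 0⟩)
    (by decide +kernel)
theorem L03068 : Good (Phi V5.P V5.D (-1) (-1)) ⟨5, 27, 4, 6, 4, 12, 1, 1, 4, 1⟩ :=
  out_sound (S := T5.ds_mm) T5.ok_mm (w := 59) (j := 3) (by decide +kernel)
theorem L03069 : Good (Phi V5.P V5.D (-1) (-1)) ⟨4, 12, 4, 6, 4, 13, 2, 2, 5, 2⟩ :=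
  leafX_sound T5.ok_mm T5.Ymm.bz_eq (w := 248) (c := ⟨⟨.ofNat 466, .negSucc 359, .ofNat 100, .ofNat 183, .negSucc 845, .negSucc 1597⟩, ⟨.negSucc 227, .ofNat 94, .ofNat 45, .negSucc 80, .ofNat 392, .ofNat 720⟩, ⟨.negSucc 199, .ofNat 206, .negSucc 11, .negSucc 28, .ofNat 390, .ofNat 875⟩, ⟨.ofNat 250, .negSucc 587, .ofNat 218, .ofNat 346, .negSucc 1442, .negSucc 2797⟩, ⟨.negSucc 948, .negSucc 158, .ofNat 222, .ofNat 128, .negSucc 250, .negSucc 662⟩, .ofNat 1282, .ofNat 1966, .ofNat 0, .ofNat 1966, .ofNat 4343, .ofNat 0, .ofNat 128, .negSucc 325, .negSucc 1509, .ofNat 0, .ofNat 167, .ofNat 691, .ofNat 0, .ofNat 0, .ofNat 1244, .ofNat 1010, .ofNat 0, .ofNat 0, .ofNat 0, .ofNat 0, .ofNat 0, .ofNat 0, .ofNat 0, .ofNat 0, .ofNat 0, .ofNat 0, .ofNat 42227238519143196451511911047792288154391674880, .ofNat 0, .ofNat 0, .ofNat 0, .ofNat 0, .ofNat 0⟩)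
    (by decide +kernel)
theorem L03070 : Good (Phi V5.P V5.D (-1) (-1)) ⟨4, 12, 4, 6, 4, 13, 2, 3, 5, 2⟩ :=
  leafX_sound T5.ok_mm T5.Ymm.bz_eq (w := 247) (c := ⟨⟨.negSucc 1259, .negSucc 243, .ofNat 139, .ofNat 368, .ofNat 336, .negSucc 574⟩, ⟨.ofNat 552, .ofNat 54, .ofNat 33, .negSucc 171, .negSucc 139, .ofNat 262⟩, ⟨.ofNat 854, .ofNat 104, .negSucc 48, .negSucc 228, .negSucc 500, .ofNat 198⟩, ⟨.negSucc 2638, .negSucc 364, .ofNat 207, .ofNat 583, .ofNat 675, .negSucc 1012⟩, ⟨.negSucc 1307, .negSucc 161, .ofNat 83, .ofNat 19, .ofNat 349, .negSucc 234⟩, .ofNat 1276, .ofNat 1949, .ofNat 0, .ofNat 1949, .ofNat 4296, .ofNat 0, .ofNat 128, .negSucc 232, .negSucc 995, .ofNat 0, .ofNat 119, .ofNat 452, .ofNat 0, .ofNat 0, .ofNat 808, .ofNat 780, .ofNat 0, .ofNat 0, .ofNat 0, .ofNat 0, .ofNat 0, .ofNat 0, .ofNat 0, .ofNat 0, .ofNat 0, .ofNat 9448177223740702705923922025426157896484601724928,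 .ofNat 37331973395696744738838900081199479900092760064, .ofNat 0, .ofNat 0, .ofNat 0, .ofNat 0, .ofNat 0⟩)
    (by decide +kernel)
theorem L03071 : Good (Phi V5.P V5.D (-1) (-1)) ⟨4, 12, 4, 6, 4, 13, 2, 2, 5, 3⟩ :=
  leafX_sound T5.ok_mm T5.Ymm.bz_eq (w := 247) (c := ⟨⟨.negSucc 1846, .negSucc 726, .ofNat 288, .ofNat 551, .ofNat 418, .negSucc 523⟩, ⟨.ofNat 795, .ofNat 297, .negSucc 0, .negSucc 257, .negSucc 189, .ofNat 241⟩, ⟨.ofNat 1208, .ofNat 434, .negSucc 174, .negSucc 343, .negSucc 440, .ofNat 182⟩, ⟨.negSucc 3737, .negSucc 1064, .ofNat 387, .ofNat 858, .ofNat 720, .negSucc 815⟩, ⟨.negSucc 1562, .negSucc 222, .negSucc 18, .negSucc 8, .ofNat 167, .ofNat 31⟩, .ofNat 1064, .ofNat 1533, .ofNat 0, .ofNat 1533, .ofNat 3458, .ofNat 0, .ofNat 128, .negSucc 350, .negSucc 1407, .ofNat 0, .ofNat 184, .ofNat 644, .ofNat 0, .ofNat 0, .ofNat 1257, .ofNat 1359, .ofNat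 0, .ofNat 0, .ofNat 0, .ofNat 0, .ofNat 0, .ofNat 0, .ofNat 0, .ofNat 0, .ofNat 0, .ofNat 0, .ofNat 62458520410550209280201305204158267607671111680, .ofNat 0, .ofNat 0, .ofNat 0, .ofNat 0, .ofNat 0⟩)
    (by decide +kernel)
theorem L03072 : Good (Phi V5.P V5.D (-1) (-1)) ⟨4, 12, 4, 6, 4, 13, 2, 3, 5, 3⟩ :=
  leafX_sound T5.ok_mm T5.Ymm.bz_eq (w := 246) (c := ⟨⟨.negSucc 2089, .negSucc 265, .ofNat 144, .ofNat 598, .ofNat 1017, .negSucc 14⟩, ⟨.ofNat 913, .ofNat 81, .ofNat 42, .negSucc 277, .negSucc 437, .ofNat 13⟩, ⟨.ofNat 1239, .ofNat 106, .negSucc 69, .negSucc 393, .negSucc 912, .negSucc 163⟩, ⟨.negSucc 4095, .negSucc 340, .ofNat 222, .ofNat 948, .ofNat 1924, .ofNat 33⟩, ⟨.negSucc 1548, .negSucc 140, .ofNat 106, .ofNat 23, .ofNat 726, .ofNat 119⟩, .ofNat 1438, .ofNat 2282, .ofNat 0, .ofNat 2282, .ofNat 4996, .ofNat 0, .ofNat 128, .negSucc 158, .negSucc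 508, .ofNat 0, .ofNat 81, .ofNat 232, .ofNat 0, .ofNat 0, .ofNat 453, .ofNat 204, .ofNat 0, .ofNat 0, .ofNat 0, .ofNat 0, .ofNat 0, .ofNat 0, .ofNat 0, .ofNat 0, .ofNat 0, .ofNat 16551596474274698965813431515206341001962233790464, .ofNat 42164526462792451201682551416574650741434613760, .ofNat 0, .ofNat 0, .ofNat 0, .ofNat 0, .ofNat 0⟩)
    (by decide +kernel)

end Crest.Agent.R097C5.N5mm
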