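import Crest.Agent.R097.KP7
import Crest.Agent.R097.T5Ymm

/-!
# Row 97, box cover in dimension n = 5 (generated)
-/

set_option autoImplicit false
set_option Elab.async false
set_option maxHeartbeats 0
set_option maxRecDepth 100000

open Crest.Agent.R097 Crest.Agent.R097.KA


namespace Crest.Agent.R097C5.N5mm

theorem L03073 : Good (Phi V5.P V5.D (-1) (-1)) ⟨5, 26, 4, 6, 4, 13, 3, 4, 5, 2⟩ :=
  leafX_sound T5.ok_mm T5.Ymm.bz_eq (w := 254) (c := ⟨⟨.ofNat 533, .negSucc 493, .ofNat 376, .ofNat 125, .negSucc 539, .negSucc 2315⟩, ⟨.negSucc 378, .ofNat 208, .negSucc 99, .negSucc 45, .ofNat 267, .ofNat 1110⟩, ⟨.negSucc 253, .ofNat 293, .negSucc 197, .ofNat 12, .ofNat 263, .ofNat 1329⟩, ⟨.ofNat 368, .negSucc 750, .ofNat 560, .ofNat 194, .negSucc 852, .negSucc 3965⟩, ⟨.negSucc 915, .negSucc 46, .ofNat 60, .negSucc 4, .negSucc 53, .negSucc 891⟩, .ofNat 1001, .ofNat 1315,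 .ofNat 0, .ofNat 1315, .ofNat 2753, .ofNat 0, .ofNat 128, .negSucc 239, .negSucc 1212, .ofNat 0, .ofNat 134, .ofNat 590, .ofNat 0, .ofNat 0, .ofNat 949, .ofNat 1210, .ofNat 0, .ofNat 0, .ofNat 0, .ofNat 0, .ofNat 0, .ofNat 0, .ofNat 7336015483011375717207410459128077709802995712, .ofNat 0, .ofNat 0, .ofNat 0, .ofNat 0, .ofNat 0, .ofNat 0, .ofNat 0, .ofNat 1880223990656178228589782870802206073915703296000, .ofNat 0⟩)
    (by decide +kernel)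
theorem L03074 : Good (Phi V5.P V5.D (-1) (-1)) ⟨5, 26, 4, 6, 4, 13, 3, 5, 5, 2⟩ :=
  leafX_sound T5.ok_mm T5.Ymm.bz_eq (w := 255) (c := ⟨⟨.negSucc 314, .negSucc 20, .ofNat 122, .ofNat 321, .negSucc 460, .negSucc 1815⟩, ⟨.ofNat 38, .negSucc 39, .ofNat 50, .negSucc 154, .ofNat 218, .ofNat 871⟩, ⟨.ofNat 217, .negSucc 11, .negSucc 31, .negSucc 150, .ofNat 212, .ofNat 1025⟩, ⟨.negSucc 1018, .negSucc 48, .ofNat 151, .ofNat 525, .negSucc 786, .negSucc 3072⟩, ⟨.negSucc 1123, .negSucc 87, .ofNat 10, .ofNat 78, .negSucc 154, .negSucc 616⟩, .ofNat 993, .ofNat 1302, .ofNat 0, .ofNat 1302, .ofNat 2733, .ofNat 0, .ofNat 128, .negSucc 217, .negSucc 1489, .ofNat 0, .ofNat 121, .ofNat 717, .ofNat 0, .ofNat 0, .ofNat 1145, .ofNat 1150, .ofNat 0, .ofNat 0, .ofNat 0, .ofNat 0, .ofNat 0, .ofNat 0, .ofNat 17594871719418385469747138486695078532604755968, .ofNat 0, .ofNat 0, .ofNat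 0, .ofNat 223189667574477962778648654032596834897092411392, .ofNat 0, .ofNat 0, .ofNat 0, .ofNat 2085153845029990183312119123771033677751516135424, .ofNat 0⟩)
    (by decide +kernel)
theorem L03075 : Good (Phi V5.P V5.D (-1) (-1)) ⟨5, 26, 4, 6, 4, 13, 2, 3, 5, 2⟩ :=
  leafX_sound T5.ok_mm T5.Ymm.bz_eq (w := 250) (c := ⟨⟨.negSucc 1815, .negSucc 260, .ofNat 181, .ofNat 587, .ofNat 543, .negSucc 381⟩, ⟨.ofNat 754, .ofNat 87, .ofNat 24, .negSucc 287, .negSucc 248, .ofNat 182⟩, ⟨.ofNat 1187, .ofNat 135, .negSucc 82, .negSucc 378, .negSucc 657, .ofNat 55⟩, ⟨.negSucc 3546, .negSucc 385, .ofNat 319, .ofNat 928, .ofNat 927, .negSucc 669⟩, ⟨.negSucc 1631, .negSucc 41, .ofNat 166, .ofNat 73, .ofNat 272, .negSucc 146⟩, .ofNat 987, .ofNat 1289, .ofNat 0, .ofNat 1289, .ofNat 2704, .ofNat 0, .ofNat 128, .negSucc 152, .negSucc 884, .ofNat 0, .ofNat 85, .ofNat 420, .ofNat 0,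 .ofNat 0, .ofNat 677, .ofNat 494, .ofNat 0, .ofNat 0, .ofNat 88522413382515770126707987824518005816033280, .ofNat 0, .ofNat 0, .ofNat 1441522614448852060993977243620704115333826355396608, .ofNat 5589540318796522946869995566252536278619783168, .ofNat 0, .ofNat 0, .ofNat 131850524718881856475567357396544010513237304934400, .ofNat 2380526047536843824709802000046049411687514112, .ofNat 0, .ofNat 0, .ofNat 0, .ofNat 90447247767520864120371484106566170692338843648, .ofNat 0⟩)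
    (by decide +kernel)
theorem L03076 : Good (Phi V5.P V5.D (-1) (-1)) ⟨5, 26, 4, 6, 4, 13, 2, 2, 5, 3⟩ :=
  leafX_sound T5.ok_mm T5.Ymm.bz_eq (w := 251) (c := ⟨⟨.negSucc 2752, .negSucc 415, .ofNat 404, .ofNat 669, .ofNat 593, .negSucc 551⟩, ⟨.ofNat 1191, .ofNat 177, .negSucc 63, .negSucc 334, .negSucc 285, .ofNat 271⟩, ⟨.ofNat 1781, .ofNat 241, .negSucc 248, .negSucc 428, .negSucc 569, .ofNat 189⟩, ⟨.negSucc 5000, .negSucc 659, .ofNat 553, .ofNat 1049, .ofNat 913, .negSucc 849⟩, ⟨.negSucc 1653, .negSucc 202, .negSucc 33, .ofNat 75, .ofNat 55, .negSucc 17⟩, .ofNat 1002, .ofNat 1320, .ofNat 0, .ofNat 1320, .ofNat 2767, .ofNat 0, .ofNat 128, .negSucc 257, .negSucc 1438, .ofNat 0, .ofNat 146, .ofNat 705, .ofNat 0, .ofNat 0, .ofNat 1212, .ofNat 644, .ofNat 0, .ofNat 0, .ofNat 222581776573986512498845724012744555527929856, .ofNat 0, .ofNat 0, .ofNat 0, .ofNat 0,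 .ofNat 0, .ofNat 0, .ofNat 0, .ofNat 0, .ofNat 0, .ofNat 0, .ofNat 0, .ofNat 0, .ofNat 0⟩)
    (by decide +kernel)
theorem L03077 : Good (Phi V5.P V5.D (-1) (-1)) ⟨5, 26, 5, 12, 4, 13, 2, 3, 5, 3⟩ :=
  leafX_sound T5.ok_mm T5.Ymm.bz_eq (w := 253) (c := ⟨⟨.negSucc 2553, .negSucc 201, .ofNat 39, .ofNat 774, .ofNat 1323, .ofNat 103⟩, ⟨.ofNat 1091, .ofNat 61, .ofNat 40, .negSucc 372, .negSucc 585, .negSucc 35⟩, ⟨.ofNat 1480, .ofNat 100, .negSucc 14, .negSucc 509, .negSucc 1120, .negSucc 235⟩, ⟨.negSucc 4723, .negSucc 294, .ofNat 18, .ofNat 1184, .ofNat 2405, .ofNat 246⟩, ⟨.negSucc 1685, .negSucc 114, .negSucc 38, .negSucc 2, .ofNat 802, .ofNat 187⟩, .ofNat 1155, .ofNat 1574, .ofNat 0, .ofNat 1574, .ofNat 3230, .ofNat 0, .ofNat 128, .negSucc 212, .negSucc 778, .ofNat 0, .ofNat 122, .ofNat 369, .ofNat 0, .ofNat 0, .ofNat 652, .ofNat 447, .ofNat 0, .ofNat 0, .ofNat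 0, .ofNat 0, .ofNat 0, .ofNat 0, .ofNat 100618695378130967811500972010927190208394821632, .ofNat 0, .ofNat 0, .ofNat 13558940755019241390534534636025449943763328578879488, .ofNat 34051021203922993658315375616018414708520386560, .ofNat 0, .ofNat 0, .ofNat 0, .ofNat 0, .ofNat 0⟩)
    (by decide +kernel)
theorem L03078 : Good (Phi V5.P V5.D (-1) (-1)) ⟨5, 26, 5, 13, 4, 13, 2, 3, 5, 3⟩ :=
  leafX_sound T5.ok_mm T5.Ymm.bz_eq (w := 253) (c := ⟨⟨.negSucc 2442, .negSucc 206, .ofNat 81, .ofNat 757, .ofNat 1224, .ofNat 28⟩, ⟨.ofNat 1109, .ofNat 75, .ofNat 20, .negSucc 376, .negSucc 567, .negSucc 8⟩, ⟨.ofNat 1420, .ofNat 91, .negSucc 36, .negSucc 497, .negSucc 1046, .negSucc 190⟩, ⟨.negSucc 4597, .negSucc 334, .ofNat 129, .ofNat 1186, .ofNat 2275, .ofNat 128⟩, ⟨.negSucc 1721, .negSucc 169, .ofNat 50, .ofNat 57, .ofNat 833, .ofNat 164⟩, .ofNat 1035, .ofNat 1383, .ofNat 0,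 .ofNat 1383, .ofNat 2891, .ofNat 0, .ofNat 128, .negSucc 168, .negSucc 628, .ofNat 0, .ofNat 94, .ofNat 303, .ofNat 0, .ofNat 0, .ofNat 533, .ofNat 311, .ofNat 0, .ofNat 0, .ofNat 0, .ofNat 0, .ofNat 0, .ofNat 0, .ofNat 0, .ofNat 0, .ofNat 0, .ofNat 2021568008135547295825707970501418760748474560413696, .ofNat 0, .ofNat 0, .ofNat 0, .ofNat 0, .ofNat 0, .ofNat 0⟩)
    (by decide +kernel)
theorem L03079 : Good (Phi V5.P V5.D (-1) (-1)) ⟨5, 27, 4, 6, 4, 13, 1, 1, 4, 1⟩ :=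
  out_sound (S := T5.ds_mm) T5.ok_mm (w := 59) (j := 3) (by decide +kernel)
theorem L03080 : Good (Phi V5.P V5.D (-1) (-1)) ⟨4, 12, 4, 6, 3, 7, 3, 4, 5, 2⟩ :=
  leafX_sound T5.ok_mm T5.Ymm.bz_eq (w := 237) (c := ⟨⟨.ofNat 232, .negSucc 694, .ofNat 202, .negSucc 401, .negSucc 11, .negSucc 1024⟩, ⟨.negSucc 106, .ofNat 263, .negSucc 15, .ofNat 192, .negSucc 0, .ofNat 439⟩, ⟨.ofNat 140, .ofNat 450, .negSucc 58, .ofNat 350, .negSucc 101, .ofNat 360⟩, ⟨.ofNat 73, .negSucc 1025, .ofNat 373, .negSucc 671, .negSucc 155, .negSucc 2022⟩, ⟨.negSucc 480, .negSucc 76, .ofNat 226, .negSucc 81, .negSucc 306, .negSucc 889⟩, .ofNat 1505, .ofNat 2427, .ofNat 0, .ofNat 2427, .ofNat 5315, .ofNat 0, .ofNat 128, .negSucc 355, .negSucc 967, .ofNat 0, .ofNat 177, .ofNat 434, .ofNat 0, .ofNat 0, .ofNat 812, .ofNat 1552, .ofNat 0, .ofNat 0, .ofNat 0, .ofNat 0, .ofNat 0, .ofNat 0, .ofNat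 0, .ofNat 0, .ofNat 0, .ofNat 0, .ofNat 126236972361443287430611026571036704173457408, .ofNat 0, .ofNat 0, .ofNat 0, .ofNat 0, .ofNat 0⟩)
    (by decide +kernel)
theorem L03081 : Good (Phi V5.P V5.D (-1) (-1)) ⟨4, 12, 4, 6, 3, 7, 3, 5, 5, 2⟩ :=
  leafX_sound T5.ok_mm T5.Ymm.bz_eq (w := 238) (c := ⟨⟨.negSucc 404, .negSucc 529, .ofNat 204, .negSucc 129, .ofNat 43, .negSucc 486⟩, ⟨.ofNat 181, .ofNat 169, .negSucc 7, .ofNat 63, .negSucc 19, .ofNat 209⟩, ⟨.ofNat 452, .ofNat 290, .negSucc 65, .ofNat 171, .negSucc 148, .ofNat 78⟩, ⟨.negSucc 1095, .negSucc 822, .ofNat 340, .negSucc 155, .negSucc 77, .negSucc 1005⟩, ⟨.negSucc 941, .negSucc 128, .ofNat 154, .ofNat 133, .negSucc 294, .negSucc 484⟩, .ofNat 1067, .ofNat 1539, .ofNat 0, .ofNat 1539, .ofNat 3468, .ofNat 0, .ofNat 128, .negSucc 501, .negSucc 1619, .ofNat 0, .ofNat 251, .ofNat 713, .ofNat 0, .ofNat 0, .ofNat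 1294, .ofNat 1801, .ofNat 0, .ofNat 0, .ofNat 0, .ofNat 0, .ofNat 0, .ofNat 0, .ofNat 60555149025478195280703875728413371800748032, .ofNat 0, .ofNat 0, .ofNat 0, .ofNat 127391974613365926272813462054944015114043392, .ofNat 0, .ofNat 0, .ofNat 0, .ofNat 0, .ofNat 0⟩)
    (by decide +kernel)
theorem L03082 : Good (Phi V5.P V5.D (-1) (-1)) ⟨4, 12, 4, 6, 3, 7, 3, 6, 5, 2⟩ :=
  leafX_sound T5.ok_mm T5.Ymm.bz_eq (w := 237) (c := ⟨⟨.negSucc 1217, .negSucc 132, .ofNat 89, .ofNat 323, .ofNat 213, .negSucc 25⟩, ⟨.ofNat 535, .ofNat 0, .ofNat 42, .negSucc 143, .negSucc 94, .ofNat 13⟩, ⟨.ofNat 856, .ofNat 5, .ofNat 1, .negSucc 106, .negSucc 276, .negSucc 160⟩, ⟨.negSucc 2644, .negSucc 224, .ofNat 225, .ofNat 549, .ofNat 355, .ofNat 95⟩, ⟨.negSucc 1506, .negSucc 174, .ofNat 278, .ofNat 93, .ofNat 63, .ofNat 299⟩, .ofNat 1447, .ofNat 2293, .ofNat 0, .ofNat 2293, .ofNat 5004,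 .ofNat 0, .ofNat 128, .negSucc 418, .negSucc 926, .ofNat 0, .ofNat 208, .ofNat 415, .ofNat 0, .ofNat 0, .ofNat 758, .ofNat 1446, .ofNat 0, .ofNat 0, .ofNat 0, .ofNat 0, .ofNat 0, .ofNat 0, .ofNat 0, .ofNat 0, .ofNat 0, .ofNat 0, .ofNat 0, .ofNat 0, .ofNat 0, .ofNat 0, .ofNat 0, .ofNat 0⟩)
    (by decide +kernel)
theorem L03083 : Good (Phi V5.P V5.D (-1) (-1)) ⟨4, 12, 4, 6, 3, 7, 3, 7, 5, 2⟩ :=
  leafX_sound T5.ok_mm T5.Ymm.bz_eq (w := 235) (c := ⟨⟨.negSucc 1345, .ofNat 105, .ofNat 56, .ofNat 368, .ofNat 534, .ofNat 149⟩, ⟨.ofNat 589, .negSucc 101, .ofNat 44, .negSucc 158, .negSucc 220, .negSucc 58⟩, ⟨.ofNat 777, .negSucc 140, .ofNat 18, .negSucc 152, .negSucc 483, .negSucc 226⟩, ⟨.negSucc 2816, .ofNat 149, .ofNat 99, .ofNat 715, .ofNat 1157, .ofNat 358⟩, ⟨.negSucc 1456, .negSucc 130, .ofNat 95, .ofNat 294, .ofNat 693, .ofNat 267⟩, .ofNat 1061, .ofNat 1530, .ofNat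 0, .ofNat 1530, .ofNat 3461, .ofNat 0, .ofNat 128, .negSucc 195, .negSucc 362, .ofNat 0, .ofNat 96, .ofNat 157, .ofNat 0, .ofNat 0, .ofNat 294, .ofNat 569, .ofNat 0, .ofNat 0, .ofNat 0, .ofNat 0, .ofNat 0, .ofNat 0, .ofNat 0, .ofNat 0, .ofNat 0, .ofNat 63400114702037782169458574347143044926227349504, .ofNat 0, .ofNat 0, .ofNat 0, .ofNat 0, .ofNat 0, .ofNat 0⟩)
    (by decide +kernel)
theorem L03084 : Good (Phi V5.P V5.D (-1) (-1)) ⟨5, 26, 4, 6, 3, 7, 3, 4, 6, 4⟩ :=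
  leafX_sound T5.ok_mm T5.Ymm.bz_eq (w := 245) (c := ⟨⟨.ofNat 170, .ofNat 2, .ofNat 141, .negSucc 1017, .negSucc 233, .negSucc 693⟩, ⟨.negSucc 154, .negSucc 30, .negSucc 2, .ofNat 509, .ofNat 100, .ofNat 315⟩, ⟨.ofNat 158, .negSucc 11, .negSucc 8, .ofNat 772, .ofNat 5, .ofNat 291⟩, ⟨.negSucc 27, .negSucc 63, .ofNat 279, .negSucc 1607, .negSucc 536, .negSucc 1302⟩, ⟨.negSucc 610, .negSucc 183, .ofNat 203, .negSucc 124, .negSucc 348, .negSucc 486⟩, .ofNat 996, .ofNat 1310, .ofNat 0, .ofNat 1310, .ofNat 2755, .ofNat 0, .ofNat 128, .negSucc 285, .negSucc 1290, .ofNat 0, .ofNat 152, .ofNat 596, .ofNat 0, .ofNat 0, .ofNat 977, .ofNat 1114, .ofNat 0, .ofNat 0, .ofNat 0, .ofNat 0, .ofNat 0, .ofNat 0, .ofNat 369632157024147279345604867453857325712932864, .ofNat 0, .ofNat 0, .ofNat 0, .ofNat 0, .ofNat 0, .ofNat 0, .ofNat 0, .ofNat 0, .ofNat 0⟩)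
    (by decide +kernel)
theorem L03085 : Good (Phi V5.P V5.D (-1) (-1)) ⟨5, 26, 4, 6, 3, 7, 3, 4, 6, 5⟩ :=
  leafX_sound T5.ok_mm T5.Ymm.bz_eq (w := 245) (c := ⟨⟨.negSucc 1099, .negSucc 227, .ofNat 96, .negSucc 200, .ofNat 158, .negSucc 491⟩, ⟨.ofNat 415, .ofNat 77, .ofNat 58, .ofNat 107, .negSucc 80, .ofNat 225⟩, ⟨.ofNat 846, .ofNat 124, .negSucc 1, .ofNat 223, .negSucc 213, .ofNat 176⟩, ⟨.negSucc 2296, .negSucc 378, .ofNat 146, .negSucc 246, .ofNat 205, .negSucc 928⟩, ⟨.negSucc 1274, .negSucc 152, .ofNat 84, .ofNat 121, .negSucc 66, .negSucc 364⟩, .ofNat 1293, .ofNat 1854, .ofNat 0, .ofNat 1854, .ofNat 3785, .ofNat 0, .ofNat 128, .negSucc 191, .negSucc 685, .ofNat 0, .ofNat 104, .ofNat 326, .ofNat 0, .ofNat 0, .ofNat 550, .ofNat 988, .ofNat 0, .ofNat 0, .ofNat 4957837461168467198623889658414110716461056, .ofNat 0, .ofNat 0, .ofNat 0, .ofNat 1174863545101540159078722274029183017804627968,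 .ofNat 0, .ofNat 0, .ofNat 0, .ofNat 19141524535255676162745375803038559415304192, .ofNat 0, .ofNat 0, .ofNat 0, .ofNat 0, .ofNat 0⟩)
    (by decide +kernel)
theorem L03086 : Good (Phi V5.P V5.D (-1) (-1)) ⟨5, 26, 4, 6, 3, 7, 3, 5, 6, 4⟩ :=
  leafX_sound T5.ok_mm T5.Ymm.bz_eq (w := 245) (c := ⟨⟨.negSucc 636, .negSucc 135, .ofNat 110, .negSucc 399, .negSucc 94, .negSucc 236⟩, ⟨.ofNat 214, .ofNat 29, .ofNat 31, .ofNat 198, .ofNat 35, .ofNat 103⟩, ⟨.ofNat 561, .ofNat 71, .negSucc 8, .ofNat 349, .negSucc 87, .ofNat 22⟩, ⟨.negSucc 1484, .negSucc 221, .ofNat 184, .negSucc 627, .negSucc 271, .negSucc 484⟩, ⟨.negSucc 1089, .negSucc 77, .ofNat 116, .negSucc 35, .negSucc 235, .negSucc 236⟩, .ofNat 1002, .ofNat 1322, .ofNat 0, .ofNat 1322, .ofNat 2778, .ofNat 0, .ofNat 128, .negSucc 223, .negSucc 970, .ofNat 0, .ofNat 118, .ofNat 448, .ofNat 0, .ofNat 0, .ofNat 716, .ofNat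 1243, .ofNat 0, .ofNat 0, .ofNat 7211130907766629579664846105044045495533568, .ofNat 0, .ofNat 0, .ofNat 0, .ofNat 661151647734326092232061380378827964037464064, .ofNat 0, .ofNat 0, .ofNat 0, .ofNat 0, .ofNat 0, .ofNat 0, .ofNat 0, .ofNat 0, .ofNat 0⟩)
    (by decide +kernel)
theorem L03087 : Good (Phi V5.P V5.D (-1) (-1)) ⟨5, 26, 4, 6, 3, 7, 3, 5, 6, 5⟩ :=
  leafX_sound T5.ok_mm T5.Ymm.bz_eq (w := 246) (c := ⟨⟨.negSucc 1493, .negSucc 92, .ofNat 121, .ofNat 244, .ofNat 164, .negSucc 156⟩, ⟨.ofNat 600, .ofNat 7, .ofNat 44, .negSucc 110, .negSucc 81, .ofNat 70⟩, ⟨.ofNat 979, .ofNat 32, .negSucc 19, .negSucc 52, .negSucc 220, .negSucc 14⟩, ⟨.negSucc 3018, .negSucc 164, .ofNat 201, .ofNat 472, .ofNat 207, .negSucc 316⟩, ⟨.negSucc 1540, .negSucc 123, .ofNat 126, .ofNat 199, .negSucc 72, .negSucc 147⟩, .ofNat 994, .ofNat 1308, .ofNat 0, .ofNat 1308, .ofNat 2756, .ofNat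 0, .ofNat 128, .negSucc 400, .negSucc 1321, .ofNat 0, .ofNat 214, .ofNat 611, .ofNat 0, .ofNat 0, .ofNat 1020, .ofNat 3533, .ofNat 0, .ofNat 0, .ofNat 14676306114356577334620051895636172495388672, .ofNat 0, .ofNat 0, .ofNat 0, .ofNat 996638585030778153443105619529698742598893568, .ofNat 0, .ofNat 0, .ofNat 0, .ofNat 937563958034831624652201196942321402828029952, .ofNat 0, .ofNat 0, .ofNat 0, .ofNat 642632259890575619317533198728434652234645504, .ofNat 0⟩)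
    (by decide +kernel)
theorem L03088 : Good (Phi V5.P V5.D (-1) (-1)) ⟨5, 26, 4, 6, 4, 14, 2, 3, 5, 2⟩ :=
  leafX_sound T5.ok_mm T5.Ymm.bz_eq (w := 249) (c := ⟨⟨.negSucc 1398, .negSucc 65, .ofNat 121, .ofNat 267, .ofNat 628, .negSucc 97⟩, ⟨.ofNat 562, .negSucc 1, .ofNat 28, .negSucc 124, .negSucc 286, .ofNat 45⟩, ⟨.ofNat 912, .ofNat 3, .negSucc 30, .negSucc 118, .negSucc 722, .negSucc 117⟩, ⟨.negSucc 2892, .negSucc 101, .ofNat 189, .ofNat 490, .ofNat 1153, .negSucc 194⟩, ⟨.negSucc 1576, .negSucc 54, .ofNat 93, .ofNat 170, .ofNat 416, .negSucc 92⟩, .ofNat 1288, .ofNat 1836, .ofNat 0, .ofNat 1836, .ofNat 3731, .ofNat 0, .ofNat 128, .negSucc 167, .negSucc 487, .ofNat 0, .ofNat 90, .ofNat 232, .ofNat 0, .ofNat 0, .ofNat 373, .ofNat 629, .ofNat 0, .ofNat 0, .ofNat 233000864658410291278601164014440135589363712, .ofNat 0, .ofNat 0, .ofNat 1891189898217118756461395939332142015179753045098496,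 .ofNat 32251556791658170975194583237469368671677710336, .ofNat 0, .ofNat 0, .ofNat 378200744534935665377249152814649297802360430526464, .ofNat 10275406781868382482206224965834174730197794816, .ofNat 0, .ofNat 0, .ofNat 0, .ofNat 26494989024533381637570116652279118378802610176, .ofNat 0⟩)
    (by decide +kernel)
theorem L03089 : Good (Phi V5.P V5.D (-1) (-1)) ⟨5, 26, 4, 6, 4, 15, 2, 3, 5, 2⟩ :=
  leafX_sound T5.ok_mm T5.Ymm.bz_eq (w := 249) (c := ⟨⟨.negSucc 1297, .negSucc 51, .ofNat 112, .ofNat 90, .ofNat 851, .ofNat 165⟩, ⟨.ofNat 514, .negSucc 14, .ofNat 28, .negSucc 34, .negSucc 378, .negSucc 72⟩, ⟨.ofNat 851, .negSucc 1, .negSucc 6, .ofNat 10, .negSucc 828, .negSucc 232⟩, ⟨.negSucc 2771, .negSucc 191, .ofNat 226, .ofNat 213, .ofNat 1708, .ofNat 361⟩, ⟨.negSucc 1642, .negSucc 261, .ofNat 187, .ofNat 157, .ofNat 836, .ofNat 225⟩, .ofNat 911, .ofNat 1139, .ofNat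 0, .ofNat 1139, .ofNat 2404, .ofNat 0, .ofNat 128, .negSucc 222, .negSucc 312, .ofNat 0, .ofNat 117, .ofNat 139, .ofNat 0, .ofNat 0, .ofNat 236, .ofNat 569, .ofNat 0, .ofNat 0, .ofNat 126784444806967764431282597590103669623226368, .ofNat 0, .ofNat 0, .ofNat 1872788785478066463388313182149654715291930923630592, .ofNat 18925654204767537561778719995382351071981600768, .ofNat 0, .ofNat 0, .ofNat 921030111146896150662783137097800104168321298989056, .ofNat 15433047277270938351604314866454222256025370624, .ofNat 0, .ofNat 0, .ofNat 0, .ofNat 6298946562991297493594629221073302756152836096, .ofNat 0⟩)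
    (by decide +kernel)
theorem L03090 : Good (Phi V5.P V5.D (-1) (-1)) ⟨5, 27, 4, 6, 3, 7, 1, 1, 5, 2⟩ :=
  out_sound (S := T5.ds_mm) T5.ok_mm (w := 59) (j := 3) (by decide +kernel)
theorem L03091 : Good (Phi V5.P V5.D (-1) (-1)) ⟨4, 12, 4, 6, 3, 7, 2, 2, 5, 3⟩ :=
  leafX_sound T5.ok_mm T5.Ymm.bz_eq (w := 233) (c := ⟨⟨.negSucc 1991, .negSucc 135, .ofNat 90, .ofNat 457, .ofNat 681, .negSucc 99⟩, ⟨.ofNat 877, .ofNat 2, .ofNat 72, .negSucc 200, .negSucc 310, .ofNat 45⟩, ⟨.ofNat 1322, .ofNat 33, .negSucc 11, .negSucc 199, .negSucc 598, .negSucc 100⟩, ⟨.negSucc 3940, .negSucc 209, .ofNat 151, .ofNat 850, .ofNat 1133, .negSucc 182⟩, ⟨.negSucc 1605, .negSucc 215, .ofNat 125, .ofNat 283, .ofNat 148, .negSucc 51⟩, .ofNat 1305, .ofNat 2009, .ofNat 0, .ofNat 2009, .ofNat 4421, .ofNat 0, .ofNat 128, .negSucc 414, .negSucc 756, .ofNat 0, .ofNat 214, .ofNat 342, .ofNat 0,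 .ofNat 0, .ofNat 734, .ofNat 2175, .ofNat 0, .ofNat 0, .ofNat 0, .ofNat 0, .ofNat 0, .ofNat 0, .ofNat 397172477072140105336362113105348937121792, .ofNat 0, .ofNat 0, .ofNat 0, .ofNat 3087578600505761759294692609078192542580736, .ofNat 0, .ofNat 0, .ofNat 0, .ofNat 10656850801636202473903756260942708876509184, .ofNat 0⟩)
    (by decide +kernel)
theorem L03092 : Good (Phi V5.P V5.D (-1) (-1)) ⟨4, 12, 4, 6, 3, 7, 2, 3, 5, 3⟩ :=
  leafX_sound T5.ok_mm T5.Ymm.bz_eq (w := 231) (c := ⟨⟨.negSucc 1648, .ofNat 135, .ofNat 22, .ofNat 559, .ofNat 807, .ofNat 51⟩, ⟨.ofNat 720, .negSucc 118, .ofNat 68, .negSucc 243, .negSucc 331, .negSucc 15⟩, ⟨.ofNat 882, .negSucc 125, .ofNat 26, .negSucc 199, .negSucc 706, .negSucc 162⟩, ⟨.negSucc 3416, .ofNat 203, .ofNat 24, .ofNat 1077, .ofNat 1796, .ofNat 178⟩, ⟨.negSucc 1678, .negSucc 168, .ofNat 65, .ofNat 414, .ofNat 1135, .ofNat 210⟩,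 .ofNat 820, .ofNat 1054, .ofNat 0, .ofNat 1054, .ofNat 2473, .ofNat 0, .ofNat 128, .negSucc 282, .negSucc 269, .ofNat 0, .ofNat 145, .ofNat 114, .ofNat 0, .ofNat 0, .ofNat 254, .ofNat 373, .ofNat 0, .ofNat 0, .ofNat 0, .ofNat 0, .ofNat 0, .ofNat 0, .ofNat 0, .ofNat 0, .ofNat 0, .ofNat 32041481769075391391274056418370862787707535360, .ofNat 0, .ofNat 0, .ofNat 0, .ofNat 0, .ofNat 0, .ofNat 0⟩)
    (by decide +kernel)
theorem L03093 : Good (Phi V5.P V5.D (-1) (-1)) ⟨5, 26, 4, 6, 4, 14, 2, 2, 5, 3⟩ :=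
  leafX_sound T5.ok_mm T5.Ymm.bz_eq (w := 251) (c := ⟨⟨.negSucc 2227, .negSucc 152, .ofNat 129, .ofNat 382, .ofNat 732, .negSucc 190⟩, ⟨.ofNat 935, .ofNat 41, .ofNat 63, .negSucc 180, .negSucc 354, .ofNat 88⟩, ⟨.ofNat 1451, .ofNat 69, .negSucc 48, .negSucc 193, .negSucc 661, .negSucc 58⟩, ⟨.negSucc 4252, .negSucc 239, .ofNat 187, .ofNat 633, .ofNat 1186, .negSucc 340⟩, ⟨.negSucc 1759, .negSucc 134, .ofNat 81, .ofNat 104, .ofNat 153, .negSucc 91⟩, .ofNat 1003, .ofNat 1324, .ofNat 0, .ofNat 1324, .ofNat 2786, .ofNat 0, .ofNat 128, .negSucc 324, .negSucc 1028, .ofNat 0, .ofNat 182, .ofNat 493, .ofNat 0, .ofNat 0, .ofNat 908, .ofNat 2204, .ofNat 0, .ofNat 0, .ofNat 617345692900209465759962036238814878527127552, .ofNat 0, .ofNat 0, .ofNat 0, .ofNat 10605213964020116467850868428074886588136423424, .ofNat 0, .ofNat 0, .ofNat 0, .ofNat 32030552236949186652591408680462415792061808640,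 .ofNat 0, .ofNat 0, .ofNat 0, .ofNat 0, .ofNat 0⟩)
    (by decide +kernel)
theorem L03094 : Good (Phi V5.P V5.D (-1) (-1)) ⟨5, 26, 4, 6, 4, 15, 2, 2, 5, 3⟩ :=
  leafX_sound T5.ok_mm T5.Ymm.bz_eq (w := 250) (c := ⟨⟨.negSucc 1953, .negSucc 156, .ofNat 104, .ofNat 139, .ofNat 854, .negSucc 1⟩, ⟨.ofNat 815, .ofNat 40, .ofNat 54, .negSucc 58, .negSucc 404, .ofNat 1⟩, ⟨.ofNat 1279, .ofNat 58, .negSucc 1, .negSucc 45, .negSucc 678, .negSucc 147⟩, ⟨.negSucc 3774, .negSucc 235, .ofNat 134, .ofNat 286, .ofNat 1391, .negSucc 33⟩, ⟨.negSucc 1636, .negSucc 71, .ofNat 38, .ofNat 152, .ofNat 188, .negSucc 64⟩, .ofNat 981, .ofNat 1283, .ofNat 0, .ofNat 1283, .ofNat 2708, .ofNat 0, .ofNat 128, .negSucc 207, .negSucc 321, .ofNat 0, .ofNat 115, .ofNat 147, .ofNat 0, .ofNat 0, .ofNat 301, .ofNat 1496, .ofNat 0, .ofNat 0, .ofNat 243858136711419959315982264221626894311751680, .ofNat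 0, .ofNat 0, .ofNat 0, .ofNat 0, .ofNat 0, .ofNat 0, .ofNat 0, .ofNat 42999113796004825754219127185278902146552561664, .ofNat 0, .ofNat 0, .ofNat 0, .ofNat 0, .ofNat 0⟩)
    (by decide +kernel)
theorem L03095 : Good (Phi V5.P V5.D (-1) (-1)) ⟨5, 26, 4, 6, 3, 7, 2, 3, 5, 3⟩ :=
  leafX_sound T5.ok_mm T5.Ymm.bz_eq (w := 235) (c := ⟨⟨.negSucc 1651, .negSucc 23, .ofNat 62, .ofNat 700, .ofNat 998, .ofNat 85⟩, ⟨.ofNat 673, .negSucc 29, .ofNat 61, .negSucc 322, .negSucc 436, .negSucc 31⟩, ⟨.ofNat 813, .negSucc 33, .ofNat 21, .negSucc 236, .negSucc 795, .negSucc 174⟩, ⟨.negSucc 3434, .negSucc 91, .ofNat 109, .ofNat 1327, .ofNat 2077, .ofNat 257⟩, ⟨.negSucc 1870, .negSucc 165, .ofNat 109, .ofNat 514, .ofNat 1121, .ofNat 247⟩, .ofNat 1002, .ofNat 1315, .ofNat 0, .ofNat 1315, .ofNat 2749, .ofNat 0, .ofNat 128, .negSucc 213, .negSucc 207, .ofNat 0, .ofNat 116, .ofNat 97,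 .ofNat 0, .ofNat 0, .ofNat 190, .ofNat 302, .ofNat 0, .ofNat 0, .ofNat 0, .ofNat 0, .ofNat 0, .ofNat 400748048587096472053636236311713610570288594944, .ofNat 685952510291274223145610397917062293880832, .ofNat 0, .ofNat 0, .ofNat 267186219581108458187878732441010778658201141248, .ofNat 751827440971786096958050883540557789921280, .ofNat 0, .ofNat 0, .ofNat 11779465646211775484989082577866081181926162432, .ofNat 492991156560792088481661043536023642963968, .ofNat 0⟩)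
    (by decide +kernel)
theorem L03096 : Good (Phi V5.P V5.D (-1) (-1)) ⟨5, 27, 4, 6, 3, 7, 1, 1, 5, 3⟩ :=
  out_sound (S := T5.ds_mm) T5.ok_mm (w := 59) (j := 3) (by decide +kernel)
theorem L03097 : Good (Phi V5.P V5.D (-1) (-1)) ⟨3, 7, 4, 6, 2, 3, 1, 1, 3, 0⟩ :=
  out_sound (S := T5.ds_mm) T5.ok_mm (w := 47) (j := 3) (by decide +kernel)
theorem L03098 : Good (Phi V5.P V5.D (-1) (-1)) ⟨2, 2, 4, 7, 3, 6, 1, 1, 3, 0⟩ :=
  out_sound (S := T5.ds_mm) T5.ok_mm (w := 41) (j := 3) (by decide +kernel)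
theorem L03099 : Good (Phi V5.P V5.D (-1) (-1)) ⟨4, 12, 4, 7, 3, 6, 2, 2, 4, 0⟩ :=
  leafX_sound T5.ok_mm T5.Ymm.bz_eq (w := 233) (c := ⟨⟨.ofNat 3535, .ofNat 1, .negSucc 288, .negSucc 563, .negSucc 1622, .negSucc 1961⟩, ⟨.negSucc 1760, .ofNat 0, .ofNat 164, .ofNat 303, .ofNat 795, .ofNat 940⟩, ⟨.negSucc 2162, .ofNat 0, .ofNat 51, .ofNat 831, .ofNat 859, .ofNat 1006⟩, ⟨.ofNat 5523, .ofNat 1, .negSucc 112, .negSucc 524, .negSucc 2763, .negSucc 3666⟩, ⟨.ofNat 146, .ofNat 0, .ofNat 56, .ofNat 692, .negSucc 521, .negSucc 1285⟩, .ofNat 2528, .ofNat 4270, .ofNat 0, .ofNat 4270, .ofNat 8549, .ofNat 0, .ofNat 128, .negSucc 696, .negSucc 3025, .ofNat 0, .ofNat 369, .ofNat 1508, .ofNat 0, .ofNat 0, .ofNat 2687, .ofNat 2051, .ofNat 0, .ofNat 0, .ofNat 0, .ofNat 0, .ofNat 0, .ofNat 0, .ofNat 6734360638951459759425720212630012038217728, .ofNat 0, .ofNat 0, .ofNat 0, .ofNat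 5533148375835799452941017956781418279337984, .ofNat 0, .ofNat 0, .ofNat 0, .ofNat 0, .ofNat 0⟩)
    (by decide +kernel)
theorem L03100 : Good (Phi V5.P V5.D (-1) (-1)) ⟨5, 26, 4, 7, 3, 6, 2, 2, 5, 0⟩ :=
  leafX_sound T5.ok_mm T5.Ymm.bz_eq (w := 237) (c := ⟨⟨.ofNat 3398, .ofNat 398, .negSucc 219, .negSucc 656, .negSucc 1529, .negSucc 633⟩, ⟨.negSucc 1730, .negSucc 248, .ofNat 59, .ofNat 400, .ofNat 770, .ofNat 308⟩, ⟨.negSucc 2097, .negSucc 312, .ofNat 214, .ofNat 1037, .ofNat 725, .ofNat 274⟩, ⟨.ofNat 5381, .ofNat 590, .negSucc 443, .negSucc 485, .negSucc 2772, .negSucc 1343⟩, ⟨.ofNat 331, .ofNat 225, .negSucc 247, .ofNat 964, .negSucc 871, .negSucc 715⟩, .ofNat 1213, .ofNat 1689, .ofNat 0, .ofNat 1689, .ofNat 3390, .ofNat 0, .ofNat 128, .negSucc 383, .negSucc 893, .ofNat 0, .ofNat 215, .ofNat 453, .ofNat 0, .ofNat 0, .ofNat 782, .ofNat 1034, .ofNat 0, .ofNat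 0, .ofNat 0, .ofNat 0, .ofNat 0, .ofNat 0, .ofNat 0, .ofNat 0, .ofNat 0, .ofNat 0, .ofNat 0, .ofNat 0, .ofNat 0, .ofNat 0, .ofNat 0, .ofNat 0⟩)
    (by decide +kernel)
theorem L03101 : Good (Phi V5.P V5.D (-1) (-1)) ⟨5, 26, 4, 7, 3, 6, 3, 4, 5, 1⟩ :=
  leafX_sound T5.ok_mm T5.Ymm.bz_eq (w := 241) (c := ⟨⟨.ofNat 2834, .ofNat 543, .negSucc 295, .negSucc 596, .negSucc 717, .negSucc 1478⟩, ⟨.negSucc 1479, .negSucc 344, .ofNat 132, .ofNat 355, .ofNat 382, .ofNat 750⟩, ⟨.negSucc 1868, .negSucc 392, .ofNat 298, .ofNat 923, .ofNat 339, .ofNat 798⟩, ⟨.ofNat 4098, .ofNat 679, .negSucc 279, .negSucc 391, .negSucc 1249, .negSucc 2788⟩, ⟨.negSucc 463, .negSucc 77, .ofNat 340, .ofNat 946, .negSucc 309, .negSucc 1039⟩, .ofNat 1217, .ofNat 1697, .ofNat 0, .ofNat 1697, .ofNat 3403, .ofNat 0, .ofNat 128, .negSucc 444, .negSucc 1240, .ofNat 0, .ofNat 248, .ofNat 631, .ofNat 0,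 .ofNat 0, .ofNat 1031, .ofNat 1066, .ofNat 0, .ofNat 0, .ofNat 0, .ofNat 0, .ofNat 0, .ofNat 0, .ofNat 0, .ofNat 0, .ofNat 0, .ofNat 0, .ofNat 0, .ofNat 0, .ofNat 0, .ofNat 0, .ofNat 0, .ofNat 0⟩)
    (by decide +kernel)
theorem L03102 : Good (Phi V5.P V5.D (-1) (-1)) ⟨5, 26, 4, 7, 3, 6, 3, 5, 5, 1⟩ :=
  leafX_sound T5.ok_mm T5.Ymm.bz_eq (w := 241) (c := ⟨⟨.ofNat 1820, .ofNat 309, .negSucc 34, .negSucc 369, .negSucc 1054, .negSucc 1417⟩, ⟨.negSucc 966, .negSucc 212, .ofNat 43, .ofNat 222, .ofNat 543, .ofNat 728⟩, ⟨.negSucc 1245, .negSucc 234, .ofNat 74, .ofNat 647, .ofNat 609, .ofNat 803⟩, ⟨.ofNat 2535, .ofNat 516, .negSucc 94, .negSucc 284, .negSucc 1870, .negSucc 2592⟩, ⟨.negSucc 488, .ofNat 206, .negSucc 48, .ofNat 510, .negSucc 511, .negSucc 839⟩, .ofNat 1316, .ofNat 1874, .ofNat 0, .ofNat 1874, .ofNat 3717, .ofNat 0, .ofNat 128, .negSucc 368, .negSucc 1127,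 .ofNat 0, .ofNat 205, .ofNat 577, .ofNat 0, .ofNat 0, .ofNat 902, .ofNat 677, .ofNat 0, .ofNat 0, .ofNat 0, .ofNat 0, .ofNat 0, .ofNat 0, .ofNat 0, .ofNat 0, .ofNat 0, .ofNat 0, .ofNat 0, .ofNat 0, .ofNat 0, .ofNat 0, .ofNat 0, .ofNat 0⟩)
    (by decide +kernel)
theorem L03103 : Good (Phi V5.P V5.D (-1) (-1)) ⟨5, 27, 4, 7, 3, 6, 3, 4, 4, 0⟩ :=
  leafX_sound T5.ok_mm T5.Ymm.bz_eq (w := 236) (c := ⟨⟨.ofNat 3746, .ofNat 644, .negSucc 134, .negSucc 846, .negSucc 627, .negSucc 1521⟩, ⟨.negSucc 1991, .negSucc 384, .ofNat 4, .ofNat 522, .ofNat 336, .ofNat 770⟩, ⟨.negSucc 2353, .negSucc 389, .ofNat 142, .ofNat 1192, .ofNat 253, .ofNat 665⟩, ⟨.ofNat 5760, .ofNat 820, .negSucc 124, .negSucc 573, .negSucc 1110, .negSucc 3341⟩, ⟨.ofNat 336, .negSucc 20, .ofNat 114, .ofNat 1224, .negSucc 313, .negSucc 1883⟩, .ofNat 960, .ofNat 1144, .ofNat 0, .ofNat 1144, .ofNat 2171, .ofNat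 0, .ofNat 128, .negSucc 379, .negSucc 1474, .ofNat 0, .ofNat 233, .ofNat 783, .ofNat 0, .ofNat 0, .ofNat 1220, .ofNat 547, .ofNat 0, .ofNat 0, .ofNat 21760469288728796106192606688963704389632, .ofNat 0, .ofNat 0, .ofNat 0, .ofNat 2721413089488235672955671444737005142933504, .ofNat 0, .ofNat 0, .ofNat 0, .ofNat 1989724769207883785906376815204212909539328, .ofNat 0, .ofNat 0, .ofNat 0, .ofNat 1984886833961326271186220557115357501849600, .ofNat 0⟩)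
    (by decide +kernel)
theorem L03104 : Good (Phi V5.P V5.D (-1) (-1)) ⟨5, 27, 4, 7, 3, 6, 3, 5, 4, 0⟩ :=
  leafX_sound T5.ok_mm T5.Ymm.bz_eq (w := 236) (c := ⟨⟨.ofNat 3306, .ofNat 288, .negSucc 28, .negSucc 604, .negSucc 1061, .negSucc 2327⟩, ⟨.negSucc 1802, .negSucc 218, .ofNat 0, .ofNat 363, .ofNat 574, .ofNat 1233⟩, ⟨.negSucc 2185, .negSucc 191, .ofNat 67, .ofNat 894, .ofNat 574, .ofNat 1306⟩, ⟨.ofNat 5006, .ofNat 557, .ofNat 8, .negSucc 492, .negSucc 1887, .negSucc 4318⟩, ⟨.ofNat 87, .ofNat 381, .ofNat 147, .ofNat 715, .negSucc 533, .negSucc 1496⟩, .ofNat 960, .ofNat 1144, .ofNat 0, .ofNat 1144, .ofNat 2171, .ofNat 0, .ofNat 128, .negSucc 327, .negSucc 1224, .ofNat 0, .ofNat 202, .ofNat 646, .ofNat 0, .ofNat 0, .ofNat 970, .ofNat 655, .ofNat 0, .ofNat 0, .ofNat 18818145087429535856802724419262650253312, .ofNat 0, .ofNat 0, .ofNat 0, .ofNat 3001998730836487378790954451121697225441280,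 .ofNat 0, .ofNat 0, .ofNat 0, .ofNat 1408681738427213230626087664563310343225344, .ofNat 0, .ofNat 0, .ofNat 0, .ofNat 3116367575344915813576094391162592179519488, .ofNat 0⟩)
    (by decide +kernel)
theorem L03105 : Good (Phi V5.P V5.D (-1) (-1)) ⟨3, 7, 4, 7, 3, 6, 2, 2, 4, 0⟩ :=
  out_sound (S := T5.ds_mm) T5.ok_mm (w := 47) (j := 3) (by decide +kernel)
theorem L03106 : Good (Phi V5.P V5.D (-1) (-1)) ⟨4, 12, 4, 7, 4, 12, 2, 3, 4, 0⟩ :=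
  leafX_sound T5.ok_mm T5.Ymm.bz_eq (w := 247) (c := ⟨⟨.ofNat 1426, .ofNat 0, .negSucc 990, .negSucc 22, .negSucc 1816, .negSucc 1911⟩, ⟨.negSucc 728, .ofNat 0, .ofNat 475, .ofNat 12, .ofNat 899, .ofNat 938⟩, ⟨.negSucc 934, .ofNat 0, .ofNat 167, .ofNat 103, .ofNat 1128, .ofNat 1150⟩, ⟨.ofNat 1855, .negSucc 0, .negSucc 353, .ofNat 5, .negSucc 2939, .negSucc 3217⟩, ⟨.negSucc 661, .ofNat 0, .ofNat 156, .ofNat 72, .negSucc 278, .negSucc 539⟩, .ofNat 2600, .ofNat 4409, .ofNat 0, .ofNat 4409, .ofNat 8816, .ofNat 0, .ofNat 128, .negSucc 538, .negSucc 3179, .ofNat 0, .ofNat 289, .ofNat 1580, .ofNat 0, .ofNat 0, .ofNat 2838, .ofNat 2286, .ofNat 0, .ofNat 0, .ofNat 748312515365681735700717487327612492352323584, .ofNat 0, .ofNat 0, .ofNat 21128298785380349845280591162509668851931055915008, .ofNat 130424104611302056058473299193857517222027591680, .ofNat 0, .ofNat 0, .ofNat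 0, .ofNat 176425592878492409504169547686810142889755017216, .ofNat 0, .ofNat 0, .ofNat 176064838062406750886335098796973474376439889395712, .ofNat 25974909313991944368327793446039647751950565376, .ofNat 0⟩)
    (by decide +kernel)
theorem L03107 : Good (Phi V5.P V5.D (-1) (-1)) ⟨5, 26, 4, 7, 4, 12, 3, 6, 4, 0⟩ :=
  leafX_sound T5.ok_mm T5.Ymm.bz_eq (w := 251) (c := ⟨⟨.ofNat 1683, .ofNat 456, .negSucc 156, .ofNat 79, .negSucc 1202, .negSucc 2746⟩, ⟨.negSucc 901, .negSucc 255, .ofNat 106, .negSucc 42, .ofNat 633, .ofNat 1404⟩, ⟨.negSucc 1168, .negSucc 388, .ofNat 198, .ofNat 71, .ofNat 788, .ofNat 1774⟩, ⟨.ofNat 2412, .ofNat 557, .negSucc 200, .ofNat 166, .negSucc 2017, .negSucc 4673⟩, ⟨.negSucc 292, .negSucc 177, .ofNat 85, .ofNat 88, .negSucc 383, .negSucc 994⟩, .ofNat 1198, .ofNat 1657, .ofNat 0, .ofNat 1657, .ofNat 3320, .ofNat 0, .ofNat 128, .negSucc 404,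 .negSucc 1457, .ofNat 0, .ofNat 232, .ofNat 740, .ofNat 0, .ofNat 0, .ofNat 1242, .ofNat 578, .ofNat 0, .ofNat 0, .ofNat 0, .ofNat 0, .ofNat 0, .ofNat 0, .ofNat 0, .ofNat 0, .ofNat 0, .ofNat 0, .ofNat 0, .ofNat 0, .ofNat 0, .ofNat 0, .ofNat 0, .ofNat 0⟩)
    (by decide +kernel)
theorem L03108 : Good (Phi V5.P V5.D (-1) (-1)) ⟨5, 26, 4, 7, 4, 12, 3, 7, 4, 0⟩ :=
  leafX_sound T5.ok_mm T5.Ymm.bz_eq (w := 253) (c := ⟨⟨.negSucc 466, .ofNat 95, .ofNat 231, .ofNat 56, .negSucc 362, .negSucc 1071⟩, ⟨.ofNat 193, .negSucc 78, .negSucc 46, .negSucc 30, .ofNat 191, .ofNat 550⟩, ⟨.ofNat 477, .negSucc 127, .negSucc 131, .negSucc 7, .ofNat 110, .ofNat 439⟩, ⟨.negSucc 1212, .ofNat 136, .ofNat 395, .ofNat 9, .negSucc 551, .negSucc 1761⟩, ⟨.negSucc 952, .negSucc 67, .ofNat 158, .negSucc 147, .negSucc 13, .negSucc 273⟩, .ofNat 1751, .ofNat 2651, .ofNat 0, .ofNat 2651, .ofNat 5133,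 .ofNat 0, .ofNat 128, .negSucc 469, .negSucc 1970, .ofNat 0, .ofNat 268, .ofNat 1017, .ofNat 0, .ofNat 0, .ofNat 1736, .ofNat 732, .ofNat 0, .ofNat 0, .ofNat 0, .ofNat 0, .ofNat 0, .ofNat 0, .ofNat 29917842070092835580520770894210526525421256704, .ofNat 0, .ofNat 0, .ofNat 0, .ofNat 0, .ofNat 0, .ofNat 0, .ofNat 0, .ofNat 0, .ofNat 0⟩)
    (by decide +kernel)
theorem L03109 : Good (Phi V5.P V5.D (-1) (-1)) ⟨6, 54, 5, 14, 4, 12, 2, 3, 4, 0⟩ :=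
  out_sound (S := T5.ds_mm) T5.ok_mm (w := 67) (j := 3) (by decide +kernel)
theorem L03110 : Good (Phi V5.P V5.D (-1) (-1)) ⟨6, 54, 5, 15, 4, 12, 3, 6, 4, 0⟩ :=
  leafX_sound T5.ok_mm T5.Ymm.bz_eq (w := 258) (c := ⟨⟨.ofNat 2267, .negSucc 155, .ofNat 132, .negSucc 68, .negSucc 1609, .negSucc 2898⟩, ⟨.negSucc 1263, .ofNat 57, .negSucc 69, .ofNat 44, .ofNat 875, .ofNat 1563⟩, ⟨.negSucc 1625, .ofNat 171, .negSucc 89, .ofNat 194, .ofNat 1101, .ofNat 1874⟩, ⟨.ofNat 3162, .negSucc 305, .ofNat 209, .negSucc 14, .negSucc 2573, .negSucc 4862⟩, ⟨.negSucc 387, .negSucc 94, .ofNat 59, .ofNat 153, .negSucc 343, .negSucc 1019⟩, .ofNat 1238, .ofNat 1652, .ofNat 0, .ofNat 1652, .ofNat 3119, .ofNat 0, .ofNat 128, .negSucc 447, .negSucc 1888, .ofNat 0, .ofNat 268, .ofNat 1012, .ofNat 0, .ofNat 0, .ofNat 1568, .ofNat 778, .ofNat 0, .ofNat 0, .ofNat 215942549634676276979435797099747045271404544,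 .ofNat 0, .ofNat 0, .ofNat 0, .ofNat 98861796548315761520226101434635715597536591872, .ofNat 0, .ofNat 0, .ofNat 0, .ofNat 0, .ofNat 0, .ofNat 0, .ofNat 0, .ofNat 129664081666819662223928274819259313366300098560, .ofNat 0⟩)
    (by decide +kernel)
theorem L03111 : Good (Phi V5.P V5.D (-1) (-1)) ⟨6, 54, 5, 15, 4, 12, 3, 7, 4, 0⟩ :=
  leafX_sound T5.ok_mm T5.Ymm.bz_eq (w := 260) (c := ⟨⟨.negSucc 247, .negSucc 20, .negSucc 36, .ofNat 149, .negSucc 227, .negSucc 1290⟩, ⟨.ofNat 77, .negSucc 5, .ofNat 56, .negSucc 82, .ofNat 122, .ofNat 689⟩, ⟨.ofNat 296, .ofNat 5, .ofNat 51, .negSucc 80, .negSucc 26, .ofNat 601⟩, ⟨.negSucc 829, .negSucc 28, .negSucc 70, .ofNat 194, .negSucc 406, .negSucc 2175⟩, ⟨.negSucc 852, .negSucc 13, .negSucc 0, .negSucc 45, .negSucc 124, .negSucc 474⟩, .ofNat 1661, .ofNat 2340, .ofNat 0, .ofNat 2340, .ofNat 4260, .ofNat 0, .ofNat 128, .negSucc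 408, .negSucc 2286, .ofNat 0, .ofNat 249, .ofNat 1234, .ofNat 0, .ofNat 0, .ofNat 1945, .ofNat 1563, .ofNat 0, .ofNat 0, .ofNat 0, .ofNat 0, .ofNat 0, .ofNat 0, .ofNat 113996584988314837253800761651232008235854594048, .ofNat 0, .ofNat 0, .ofNat 0, .ofNat 58131372937233613213573438095059992267861262336, .ofNat 0, .ofNat 0, .ofNat 0, .ofNat 142119807926391592020167487568674513936292249600, .ofNat 0⟩)
    (by decide +kernel)
theorem L03112 : Good (Phi V5.P V5.D (-1) (-1)) ⟨6, 55, 4, 7, 4, 12, 2, 3, 4, 0⟩ :=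
  out_sound (S := T5.ds_mm) T5.ok_mm (w := 65) (j := 3) (by decide +kernel)
theorem L03113 : Good (Phi V5.P V5.D (-1) (-1)) ⟨4, 12, 4, 7, 4, 13, 3, 6, 4, 0⟩ :=
  leafX_sound T5.ok_mm T5.Ymm.bz_eq (w := 251) (c := ⟨⟨.ofNat 1371, .ofNat 0, .negSucc 147, .negSucc 199, .negSucc 1107, .negSucc 1782⟩, ⟨.negSucc 689, .ofNat 0, .ofNat 96, .ofNat 101, .ofNat 541, .ofNat 862⟩, ⟨.negSucc 654, .ofNat 0, .ofNat 1, .ofNat 246, .ofNat 626, .ofNat 867⟩, ⟨.ofNat 2016, .ofNat 0, .negSucc 67, .negSucc 283, .negSucc 1923, .negSucc 3243⟩, ⟨.negSucc 193, .ofNat 0, .ofNat 15, .ofNat 49, .negSucc 429, .negSucc 983⟩, .ofNat 2353, .ofNat 3935, .ofNat 0, .ofNat 3935, .ofNat 7901, .ofNat 0, .ofNat 128, .negSucc 558, .negSucc 2849, .ofNat 0, .ofNat 294, .ofNat 1408, .ofNat 0, .ofNat 0, .ofNat 2356, .ofNat 6023, .ofNat 0, .ofNat 0, .ofNat 0, .ofNat 0, .ofNat 0, .ofNat 0, .ofNat 3341470374806438374245740731609325339680310296576,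 .ofNat 0, .ofNat 0, .ofNat 0, .ofNat 2463642112259878464735275224695303215550207885312, .ofNat 0, .ofNat 0, .ofNat 0, .ofNat 207268613162918952866193964109060655238472531968, .ofNat 0⟩)
    (by decide +kernel)
theorem L03114 : Good (Phi V5.P V5.D (-1) (-1)) ⟨4, 12, 4, 7, 4, 13, 3, 7, 4, 0⟩ :=
  leafX_sound T5.ok_mm T5.Ymm.bz_eq (w := 251) (c := ⟨⟨.negSucc 423, .ofNat 0, .negSucc 93, .ofNat 44, .negSucc 216, .negSucc 612⟩, ⟨.ofNat 187, .ofNat 0, .ofNat 113, .negSucc 22, .ofNat 105, .ofNat 295⟩, ⟨.ofNat 527, .ofNat 0, .ofNat 83, .ofNat 2, .negSucc 69, .ofNat 30⟩, ⟨.negSucc 1084, .negSucc 0, .negSucc 33, .ofNat 47, .negSucc 393, .negSucc 1129⟩, ⟨.negSucc 859, .negSucc 0, .ofNat 16, .negSucc 36, .negSucc 114, .negSucc 369⟩, .ofNat 2601, .ofNat 4412, .ofNat 0, .ofNat 4412, .ofNat 8822, .ofNat 0, .ofNat 128, .negSucc 463, .negSucc 3063, .ofNat 0, .ofNat 244, .ofNat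 1511, .ofNat 0, .ofNat 0, .ofNat 2574, .ofNat 4397, .ofNat 0, .ofNat 0, .ofNat 0, .ofNat 0, .ofNat 0, .ofNat 247670747134040617500538938233828456628315016396800, .ofNat 699430566193697130681591419454210163605017460736, .ofNat 0, .ofNat 0, .ofNat 55718890932128301619347117404544768955161375670272, .ofNat 610861271388349427145660111373218372030182719488, .ofNat 0, .ofNat 0, .ofNat 0, .ofNat 0, .ofNat 0⟩)
    (by decide +kernel)
theorem L03115 : Good (Phi V5.P V5.D (-1) (-1)) ⟨6, 52, 4, 7, 4, 13, 3, 6, 4, 0⟩ :=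
  leafX_sound T5.ok_mm T5.Ymm.bz_eq (w := 257) (c := ⟨⟨.ofNat 1315, .negSucc 172, .ofNat 414, .negSucc 76, .negSucc 1027, .negSucc 1687⟩, ⟨.negSucc 674, .ofNat 66, .negSucc 168, .ofNat 42, .ofNat 511, .ofNat 833⟩, ⟨.negSucc 614, .ofNat 135, .negSucc 269, .ofNat 171, .ofNat 542, .ofNat 793⟩, ⟨.ofNat 1900, .negSucc 248, .ofNat 615, .ofNat 3, .negSucc 1826, .negSucc 3108⟩, ⟨.negSucc 229, .ofNat 36, .ofNat 42, .ofNat 238, .negSucc 500, .negSucc 1037⟩, .ofNat 1777, .ofNat 2765, .ofNat 0, .ofNat 2765, .ofNat 5496, .ofNat 0, .ofNat 128, .negSucc 396, .negSucc 1934, .ofNat 0, .ofNat 214, .ofNat 969, .ofNat 0, .ofNat 0, .ofNat 1570, .ofNat 1404, .ofNat 0, .ofNat 0, .ofNat 0, .ofNat 0, .ofNat 0, .ofNat 0, .ofNat 37795722860999424294767370155411002489093226496, .ofNat 0, .ofNat 0, .ofNat 0, .ofNat 24924310436261856774153840219915464559600599040, .ofNat 0, .ofNat 0, .ofNat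 0, .ofNat 0, .ofNat 0⟩)
    (by decide +kernel)
theorem L03116 : Good (Phi V5.P V5.D (-1) (-1)) ⟨6, 53, 4, 7, 4, 13, 3, 6, 5, 0⟩ :=
  leafX_sound T5.ok_mm T5.Ymm.bz_eq (w := 258) (c := ⟨⟨.ofNat 1787, .ofNat 191, .negSucc 162, .negSucc 438, .negSucc 1446, .negSucc 904⟩, ⟨.negSucc 943, .negSucc 111, .ofNat 85, .ofNat 232, .ofNat 748, .ofNat 467⟩, ⟨.negSucc 1001, .negSucc 171, .ofNat 201, .ofNat 475, .ofNat 865, .ofNat 443⟩, ⟨.ofNat 2647, .ofNat 294, .negSucc 224, .negSucc 546, .negSucc 2554, .negSucc 1689⟩, ⟨.negSucc 104, .ofNat 44, .ofNat 70, .ofNat 211, .negSucc 701, .negSucc 618⟩, .ofNat 1242, .ofNat 1708, .ofNat 0, .ofNat 1708, .ofNat 3337, .ofNat 0, .ofNat 128, .negSucc 349, .negSucc 870, .ofNat 0, .ofNat 197, .ofNat 448, .ofNat 0, .ofNat 0, .ofNat 698, .ofNat 1260, .ofNat 0, .ofNat 0, .ofNat 0, .ofNat 0, .ofNat 0, .ofNat 0, .ofNat 105764401989402908194607827470638453953512079360,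 .ofNat 0, .ofNat 0, .ofNat 0, .ofNat 0, .ofNat 0, .ofNat 0, .ofNat 0, .ofNat 290828304812909048000631319556018504068577099776, .ofNat 0⟩)
    (by decide +kernel)
theorem L03117 : Good (Phi V5.P V5.D (-1) (-1)) ⟨6, 53, 4, 7, 4, 13, 3, 6, 5, 1⟩ :=
  leafX_sound T5.ok_mm T5.Ymm.bz_eq (w := 259) (c := ⟨⟨.ofNat 438, .ofNat 54, .ofNat 16, .negSucc 110, .negSucc 1044, .negSucc 1095⟩, ⟨.negSucc 283, .negSucc 40, .ofNat 55, .ofNat 56, .ofNat 539, .ofNat 559⟩, ⟨.negSucc 177, .negSucc 52, .ofNat 49, .ofNat 161, .ofNat 569, .ofNat 558⟩, ⟨.ofNat 289, .ofNat 48, .ofNat 42, .negSucc 131, .negSucc 1797, .negSucc 1929⟩, ⟨.negSucc 720, .negSucc 60, .ofNat 89, .ofNat 65, .negSucc 425, .negSucc 535⟩, .ofNat 1210, .ofNat 1649, .ofNat 0, .ofNat 1649, .ofNat 3228, .ofNat 0, .ofNat 128, .negSucc 277, .negSucc 1180, .ofNat 0, .ofNat 156, .ofNat 603, .ofNat 0, .ofNat 0, .ofNat 890, .ofNat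 1588, .ofNat 0, .ofNat 0, .ofNat 0, .ofNat 0, .ofNat 0, .ofNat 0, .ofNat 0, .ofNat 0, .ofNat 0, .ofNat 0, .ofNat 0, .ofNat 0, .ofNat 0, .ofNat 0, .ofNat 197010195199431713597793944406415777146324647936, .ofNat 0⟩)
    (by decide +kernel)
theorem L03118 : Good (Phi V5.P V5.D (-1) (-1)) ⟨5, 26, 4, 7, 5, 26, 4, 14, 4, 0⟩ :=
  leafX_sound T5.ok_mm T5.Ymm.bz_eq (w := 269) (c := ⟨⟨.negSucc 276, .negSucc 70, .ofNat 133, .ofNat 56, .negSucc 293, .negSucc 1052⟩, ⟨.ofNat 102, .ofNat 7, .ofNat 4, .negSucc 26, .ofNat 150, .ofNat 529⟩, ⟨.ofNat 402, .ofNat 18, .negSucc 46, .negSucc 23, .ofNat 120, .ofNat 354⟩, ⟨.negSucc 778, .negSucc 141, .ofNat 194, .ofNat 43, .negSucc 538, .negSucc 1933⟩, ⟨.negSucc 682, .negSucc 113, .ofNat 54, .negSucc 79, .negSucc 182, .negSucc 641⟩, .ofNat 1316, .ofNat 1874, .ofNat 0, .ofNat 1874, .ofNat 3717, .ofNat 0, .ofNat 128, .negSucc 390, .negSucc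 1594, .ofNat 0, .ofNat 217, .ofNat 808, .ofNat 0, .ofNat 0, .ofNat 1282, .ofNat 1320, .ofNat 0, .ofNat 0, .ofNat 0, .ofNat 0, .ofNat 0, .ofNat 0, .ofNat 0, .ofNat 0, .ofNat 0, .ofNat 0, .ofNat 0, .ofNat 0, .ofNat 0, .ofNat 0, .ofNat 0, .ofNat 0⟩)
    (by decide +kernel)
theorem L03119 : Good (Phi V5.P V5.D (-1) (-1)) ⟨5, 26, 4, 7, 5, 27, 4, 14, 4, 0⟩ :=
  leafX_sound T5.ok_mm T5.Ymm.bz_eq (w := 270) (c := ⟨⟨.negSucc 454, .negSucc 200, .ofNat 198, .ofNat 29, .negSucc 174, .negSucc 646⟩, ⟨.ofNat 198, .ofNat 66, .negSucc 25, .negSucc 16, .ofNat 87, .ofNat 321⟩, ⟨.ofNat 586, .ofNat 98, .negSucc 80, .negSucc 11, .ofNat 15, .ofNat 22⟩, ⟨.negSucc 1101, .negSucc 343, .ofNat 298, .ofNat 51, .negSucc 321, .negSucc 1291⟩, ⟨.negSucc 797, .negSucc 114, .ofNat 65, .ofNat 12, .negSucc 106, .negSucc 588⟩, .ofNat 1316, .ofNat 1874, .ofNat 0, .ofNat 1874, .ofNat 3717, .ofNat 0,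 .ofNat 128, .negSucc 480, .negSucc 1875, .ofNat 0, .ofNat 263, .ofNat 945, .ofNat 0, .ofNat 0, .ofNat 1450, .ofNat 1696, .ofNat 0, .ofNat 0, .ofNat 112888125903262320462659349369641395239343607513088, .ofNat 0, .ofNat 0, .ofNat 0, .ofNat 0, .ofNat 0, .ofNat 0, .ofNat 0, .ofNat 0, .ofNat 0, .ofNat 0, .ofNat 0, .ofNat 0, .ofNat 0⟩)
    (by decide +kernel)
theorem L03120 : Good (Phi V5.P V5.D (-1) (-1)) ⟨5, 26, 4, 7, 4, 13, 4, 15, 4, 0⟩ :=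
  leafX_sound T5.ok_mm T5.Ymm.bz_eq (w := 255) (c := ⟨⟨.negSucc 898, .negSucc 29, .ofNat 43, .ofNat 77, .ofNat 103, .negSucc 225⟩, ⟨.ofNat 421, .negSucc 18, .ofNat 54, .negSucc 41, .negSucc 52, .ofNat 110⟩, ⟨.ofNat 800, .negSucc 25, .ofNat 18, .negSucc 48, .negSucc 202, .negSucc 264⟩, ⟨.negSucc 1932, .negSucc 109, .ofNat 106, .ofNat 113, .ofNat 208, .negSucc 426⟩, ⟨.negSucc 1095, .negSucc 176, .ofNat 149, .negSucc 6, .ofNat 101, .negSucc 152⟩, .ofNat 1524, .ofNat 2250, .ofNat 0, .ofNat 2250, .ofNat 4419, .ofNat 0, .ofNat 128, .negSucc 376, .negSucc 1519, .ofNat 0, .ofNat 209, .ofNat 769, .ofNat 0, .ofNat 0, .ofNat 1256, .ofNat 1185, .ofNat 0, .ofNat 0, .ofNat 5729497108344109789524415727115601011491733504, .ofNat 0, .ofNat 0, .ofNat 0, .ofNat 0, .ofNat 0, .ofNat 0, .ofNat 3607485760789585695352453172590670507321314194227200, .ofNat 0, .ofNat 0, .ofNat 0, .ofNat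 0, .ofNat 0, .ofNat 0⟩)
    (by decide +kernel)
theorem L03121 : Good (Phi V5.P V5.D (-1) (-1)) ⟨6, 54, 4, 7, 4, 13, 3, 6, 4, 0⟩ :=
  leafX_sound T5.ok_mm T5.Ymm.bz_eq (w := 255) (c := ⟨⟨.ofNat 1752, .ofNat 188, .negSucc 150, .negSucc 313, .negSucc 1275, .negSucc 1971⟩, ⟨.negSucc 1007, .negSucc 128, .ofNat 135, .ofNat 175, .ofNat 680, .ofNat 1038⟩, ⟨.negSucc 946, .negSucc 198, .ofNat 198, .ofNat 339, .ofNat 712, .ofNat 973⟩, ⟨.ofNat 2626, .ofNat 223, .negSucc 270, .negSucc 442, .negSucc 2189, .negSucc 3550⟩, ⟨.ofNat 18, .negSucc 92, .negSucc 34, .ofNat 37, .negSucc 547, .negSucc 1147⟩, .ofNat 1512, .ofNat 2087, .ofNat 0, .ofNat 2087, .ofNat 3837, .ofNat 0, .ofNat 128, .negSucc 311, .negSucc 1559, .ofNat 0, .ofNat 183, .ofNat 821, .ofNat 0, .ofNat 0, .ofNat 1203, .ofNat 1417, .ofNat 0, .ofNat 0, .ofNat 133369583166081411573380817144037931267129344, .ofNat 0, .ofNat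 0, .ofNat 0, .ofNat 71117721253842589688127831267195017727999737856, .ofNat 0, .ofNat 0, .ofNat 0, .ofNat 21005282280436884674894179465948548347272888320, .ofNat 0, .ofNat 0, .ofNat 0, .ofNat 56657899623694739078660171685427014207910445056, .ofNat 0⟩)
    (by decide +kernel)
theorem L03122 : Good (Phi V5.P V5.D (-1) (-1)) ⟨6, 54, 4, 7, 4, 13, 4, 14, 4, 0⟩ :=
  leafX_sound T5.ok_mm T5.Ymm.bz_eq (w := 260) (c := ⟨⟨.negSucc 846, .negSucc 180, .ofNat 399, .ofNat 100, .negSucc 178, .negSucc 785⟩, ⟨.ofNat 358, .ofNat 81, .negSucc 133, .negSucc 55, .ofNat 94, .ofNat 409⟩, ⟨.ofNat 825, .ofNat 118, .negSucc 245, .negSucc 49, .ofNat 17, .ofNat 110⟩, ⟨.negSucc 1760, .negSucc 317, .ofNat 646, .ofNat 138, .negSucc 329, .negSucc 1510⟩, ⟨.negSucc 975, .negSucc 111, .ofNat 168, .negSucc 16, .negSucc 115, .negSucc 619⟩, .ofNat 1300, .ofNat 1732, .ofNat 0, .ofNat 1732, .ofNat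 3231, .ofNat 0, .ofNat 128, .negSucc 414, .negSucc 2576, .ofNat 0, .ofNat 245, .ofNat 1346, .ofNat 0, .ofNat 0, .ofNat 2002, .ofNat 2182, .ofNat 0, .ofNat 0, .ofNat 1324734162214944738728409122174114962950062080, .ofNat 0, .ofNat 0, .ofNat 0, .ofNat 484405960167251361241224020056206411766532407296, .ofNat 0, .ofNat 0, .ofNat 0, .ofNat 0, .ofNat 0, .ofNat 0, .ofNat 0, .ofNat 1206837082763686139954640085933510343631508078592, .ofNat 0⟩)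
    (by decide +kernel)
theorem L03123 : Good (Phi V5.P V5.D (-1) (-1)) ⟨6, 54, 4, 7, 4, 13, 4, 15, 4, 0⟩ :=
  leafX_sound T5.ok_mm T5.Ymm.bz_eq (w := 260) (c := ⟨⟨.negSucc 1148, .negSucc 136, .ofNat 234, .ofNat 93, .ofNat 192, .negSucc 103⟩, ⟨.ofNat 518, .ofNat 51, .negSucc 43, .negSucc 51, .negSucc 103, .ofNat 48⟩, ⟨.ofNat 935, .ofNat 56, .negSucc 104, .negSucc 50, .negSucc 275, .negSucc 366⟩, ⟨.negSucc 2260, .negSucc 235, .ofNat 294, .ofNat 130, .ofNat 329, .negSucc 264⟩, ⟨.negSucc 1068, .negSucc 81, .negSucc 24, .negSucc 15, .ofNat 80, .negSucc 197⟩, .ofNat 1445, .ofNat 1975, .ofNat 0, .ofNat 1975, .ofNat 3646, .ofNat 0, .ofNat 128, .negSucc 473, .negSucc 2194, .ofNat 0, .ofNat 282, .ofNat 1145, .ofNat 0, .ofNat 0, .ofNat 1753, .ofNat 1718, .ofNat 0, .ofNat 0, .ofNat 1040457944356878113084727588820003426412789760, .ofNat 0, .ofNat 0, .ofNat 78490973056595851241012391199016664976277077850324992,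 .ofNat 409345580206154536560949544486041355912856207360, .ofNat 0, .ofNat 0, .ofNat 0, .ofNat 0, .ofNat 0, .ofNat 0, .ofNat 0, .ofNat 0, .ofNat 0⟩)
    (by decide +kernel)
theorem L03124 : Good (Phi V5.P V5.D (-1) (-1)) ⟨6, 55, 4, 7, 4, 13, 2, 3, 4, 0⟩ :=
  out_sound (S := T5.ds_mm) T5.ok_mm (w := 65) (j := 3) (by decide +kernel)
theorem L03125 : Good (Phi V5.P V5.D (-1) (-1)) ⟨3, 7, 4, 7, 3, 6, 2, 3, 4, 0⟩ :=
  out_sound (S := T5.ds_mm) T5.ok_mm (w := 47) (j := 3) (by decide +kernel)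
theorem L03126 : Good (Phi V5.P V5.D (-1) (-1)) ⟨4, 12, 4, 7, 3, 6, 2, 2, 5, 2⟩ :=
  leafX_sound T5.ok_mm T5.Ymm.bz_eq (w := 238) (c := ⟨⟨.ofNat 62, .negSucc 0, .negSucc 587, .ofNat 592, .negSucc 966, .negSucc 1831⟩, ⟨.negSucc 64, .ofNat 0, .ofNat 348, .negSucc 292, .ofNat 481, .ofNat 903⟩, ⟨.ofNat 7, .ofNat 0, .ofNat 24, .negSucc 264, .ofNat 494, .ofNat 1068⟩, ⟨.negSucc 533, .negSucc 0, .negSucc 248, .ofNat 969, .negSucc 1519, .negSucc 3012⟩, ⟨.negSucc 1240, .negSucc 0, .ofNat 101, .ofNat 110, .negSucc 58, .negSucc 377⟩, .ofNat 2352, .ofNat 3934, .ofNat 0, .ofNat 3934, .ofNat 7899, .ofNat 0, .ofNat 128, .negSucc 476, .negSucc 3017, .ofNat 0, .ofNat 253, .ofNat 1504, .ofNat 0, .ofNat 0, .ofNat 2512, .ofNat 3147, .ofNat 0, .ofNat 0, .ofNat 0, .ofNat 0, .ofNat 0, .ofNat 0, .ofNat 208554090127312221176637432535989325320421376, .ofNat 0, .ofNat 0, .ofNat 0, .ofNat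 235078416621248196764431411993578571573493760, .ofNat 0, .ofNat 0, .ofNat 0, .ofNat 0, .ofNat 0⟩)
    (by decide +kernel)
theorem L03127 : Good (Phi V5.P V5.D (-1) (-1)) ⟨4, 12, 4, 7, 3, 6, 2, 2, 5, 3⟩ :=
  leafX_sound T5.ok_mm T5.Ymm.bz_eq (w := 239) (c := ⟨⟨.negSucc 2853, .negSucc 0, .negSucc 156, .ofNat 1183, .ofNat 370, .negSucc 563⟩, ⟨.ofNat 1383, .ofNat 1, .ofNat 233, .negSucc 598, .negSucc 181, .ofNat 282⟩, ⟨.ofNat 1849, .ofNat 1, .ofNat 500, .negSucc 775, .negSucc 390, .ofNat 203⟩, ⟨.negSucc 5154, .negSucc 1, .negSucc 46, .ofNat 1689, .ofNat 601, .negSucc 866⟩, ⟨.negSucc 1494, .negSucc 0, .ofNat 31, .negSucc 266, .ofNat 62, .ofNat 2⟩, .ofNat 2600, .ofNat 4408, .ofNat 0, .ofNat 4408, .ofNat 8816, .ofNat 0, .ofNat 128, .negSucc 984, .negSucc 4632, .ofNat 0, .ofNat 525, .ofNat 2319, .ofNat 0, .ofNat 0, .ofNat 4114, .ofNat 4297, .ofNat 0, .ofNat 0, .ofNat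 145825885595789232004988812035966759862272, .ofNat 0, .ofNat 0, .ofNat 0, .ofNat 205317517427372579441900905118683778397503488, .ofNat 0, .ofNat 0, .ofNat 0, .ofNat 253293490703894304814729579786557266029707264, .ofNat 0, .ofNat 0, .ofNat 0, .ofNat 215288315143023522995085158782728378601439232, .ofNat 0⟩)
    (by decide +kernel)
theorem L03128 : Good (Phi V5.P V5.D (-1) (-1)) ⟨4, 12, 4, 7, 3, 6, 2, 3, 4, 1⟩ :=
  leafX_sound T5.ok_mm T5.Ymm.bz_eq (w := 231) (c := ⟨⟨.negSucc 1777, .negSucc 0, .negSucc 322, .ofNat 829, .ofNat 550, .negSucc 1070⟩, ⟨.ofNat 849, .ofNat 0, .ofNat 260, .negSucc 415, .negSucc 262, .ofNat 530⟩, ⟨.ofNat 1180, .ofNat 0, .ofNat 146, .negSucc 544, .negSucc 627, .ofNat 333⟩, ⟨.negSucc 3421, .negSucc 1, .negSucc 132, .ofNat 1254, .ofNat 961, .negSucc 1765⟩, ⟨.negSucc 1347, .negSucc 0, .ofNat 54, .negSucc 50, .ofNat 236, .negSucc 222⟩, .ofNat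 2355, .ofNat 3938, .ofNat 0, .ofNat 3938, .ofNat 7908, .ofNat 0, .ofNat 128, .negSucc 730, .negSucc 1677, .ofNat 0, .ofNat 388, .ofNat 831, .ofNat 0, .ofNat 0, .ofNat 1421, .ofNat 1399, .ofNat 0, .ofNat 0, .ofNat 4808128330111001161999386956281344425984, .ofNat 0, .ofNat 0, .ofNat 8443148032548846630912575683443619172070719488, .ofNat 1077475100129173320909176496817151426953216, .ofNat 0, .ofNat 0, .ofNat 29942943405674063691330682451720935323958509568, .ofNat 5624073915404659672147660779581965321895936, .ofNat 0, .ofNat 0, .ofNat 11311397851738173713979396952408119625262301184, .ofNat 3032789087021263664276077345438831353004032, .ofNat 0⟩)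
    (by decide +kernel)
theorem L03129 : Good (Phi V5.P V5.D (-1) (-1)) ⟨5, 26, 4, 7, 4, 12, 2, 2, 5, 2⟩ :=
  leafX_sound T5.ok_mm T5.Ymm.bz_eq (w := 252) (c := ⟨⟨.ofNat 365, .negSucc 619, .ofNat 577, .ofNat 530, .negSucc 1331, .negSucc 2145⟩, ⟨.negSucc 269, .ofNat 282, .negSucc 185, .negSucc 267, .ofNat 704, .ofNat 1106⟩, ⟨.negSucc 264, .ofNat 412, .negSucc 382, .negSucc 324, .ofNat 815, .ofNat 1343⟩, ⟨.ofNat 17, .negSucc 906, .ofNat 796, .ofNat 795, .negSucc 2116, .negSucc 3561⟩, ⟨.negSucc 977, .negSucc 52, .negSucc 41, .negSucc 36, .negSucc 190, .negSucc 616⟩, .ofNat 1316, .ofNat 1874, .ofNat 0, .ofNat 1874, .ofNat 3717, .ofNat 0, .ofNat 128, .negSucc 460, .negSucc 1564, .ofNat 0, .ofNat 259, .ofNat 809, .ofNat 0, .ofNat 0, .ofNat 1258, .ofNat 1136, .ofNat 0, .ofNat 0, .ofNat 0, .ofNat 0, .ofNat 0, .ofNat 0, .ofNat 0, .ofNat 0, .ofNat 0, .ofNat 0, .ofNat 0,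 .ofNat 0, .ofNat 0, .ofNat 0, .ofNat 0, .ofNat 0⟩)
    (by decide +kernel)
theorem L03130 : Good (Phi V5.P V5.D (-1) (-1)) ⟨5, 26, 4, 7, 4, 13, 2, 2, 5, 2⟩ :=
  leafX_sound T5.ok_mm T5.Ymm.bz_eq (w := 252) (c := ⟨⟨.ofNat 537, .negSucc 289, .ofNat 265, .ofNat 240, .negSucc 759, .negSucc 1984⟩, ⟨.negSucc 331, .ofNat 104, .negSucc 55, .negSucc 120, .ofNat 398, .ofNat 1019⟩, ⟨.negSucc 204, .ofNat 155, .negSucc 109, .negSucc 60, .ofNat 301, .ofNat 1102⟩, ⟨.ofNat 519, .negSucc 692, .ofNat 585, .ofNat 399, .negSucc 1401, .negSucc 3483⟩, ⟨.negSucc 534, .negSucc 561, .ofNat 458, .ofNat 62, .negSucc 456, .negSucc 959⟩, .ofNat 1316, .ofNat 1874, .ofNat 0, .ofNat 1874, .ofNat 3717, .ofNat 0, .ofNat 128, .negSucc 300, .negSucc 1592, .ofNat 0, .ofNat 166, .ofNat 813, .ofNat 0, .ofNat 0, .ofNat 1207, .ofNat 1048, .ofNat 0, .ofNat 0, .ofNat 0, .ofNat 0, .ofNat 0, .ofNat 0, .ofNat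 0, .ofNat 0, .ofNat 0, .ofNat 0, .ofNat 0, .ofNat 0, .ofNat 0, .ofNat 0, .ofNat 0, .ofNat 0⟩)
    (by decide +kernel)
theorem L03131 : Good (Phi V5.P V5.D (-1) (-1)) ⟨6, 54, 5, 14, 3, 6, 2, 2, 6, 4⟩ :=
  out_sound (S := T5.ds_mm) T5.ok_mm (w := 67) (j := 3) (by decide +kernel)
theorem L03132 : Good (Phi V5.P V5.D (-1) (-1)) ⟨6, 54, 5, 15, 3, 6, 2, 2, 6, 4⟩ :=
  leafX_sound T5.ok_mm T5.Ymm.bz_eq (w := 249) (c := ⟨⟨.ofNat 689, .ofNat 154, .ofNat 255, .ofNat 234, .negSucc 1732, .negSucc 1363⟩, ⟨.negSucc 456, .negSucc 115, .negSucc 87, .negSucc 121, .ofNat 942, .ofNat 736⟩, ⟨.negSucc 356, .negSucc 191, .negSucc 168, .ofNat 34, .ofNat 935, .ofNat 836⟩, ⟨.ofNat 491, .ofNat 59, .ofNat 364, .ofNat 558, .negSucc 2792, .negSucc 2239⟩, ⟨.negSucc 963, .negSucc 327, .ofNat 2, .ofNat 345, .negSucc 385, .negSucc 393⟩, .ofNat 1238, .ofNat 1651, .ofNat 0, .ofNat 1651, .ofNat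 3116, .ofNat 0, .ofNat 128, .negSucc 249, .negSucc 1385, .ofNat 0, .ofNat 147, .ofNat 745, .ofNat 0, .ofNat 0, .ofNat 1057, .ofNat 1434, .ofNat 0, .ofNat 0, .ofNat 0, .ofNat 0, .ofNat 0, .ofNat 0, .ofNat 391453731329707743729122383446008640774864896, .ofNat 0, .ofNat 0, .ofNat 0, .ofNat 57115811237765333852849493641552143325331456, .ofNat 0, .ofNat 0, .ofNat 0, .ofNat 393294202498106226024634312656138942212472832, .ofNat 0⟩)
    (by decide +kernel)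
theorem L03133 : Good (Phi V5.P V5.D (-1) (-1)) ⟨6, 54, 4, 7, 3, 6, 2, 2, 6, 5⟩ :=
  leafX_sound T5.ok_mm T5.Ymm.bz_eq (w := 248) (c := ⟨⟨.negSucc 2135, .negSucc 42, .ofNat 614, .ofNat 1225, .negSucc 719, .negSucc 1034⟩, ⟨.ofNat 1029, .ofNat 7, .negSucc 228, .negSucc 673, .ofNat 388, .ofNat 556⟩, ⟨.ofNat 1580, .ofNat 4, .negSucc 494, .negSucc 761, .ofNat 293, .ofNat 565⟩, ⟨.negSucc 3898, .negSucc 50, .ofNat 899, .ofNat 1841, .negSucc 1197, .negSucc 1681⟩, ⟨.negSucc 1399, .negSucc 30, .ofNat 66, .ofNat 48, .negSucc 223, .negSucc 270⟩, .ofNat 1713, .ofNat 2460, .ofNat 0, .ofNat 2460, .ofNat 4515, .ofNat 0, .ofNat 128, .negSucc 352, .negSucc 2101, .ofNat 0, .ofNat 207, .ofNat 1147, .ofNat 0, .ofNat 0, .ofNat 1622, .ofNat 1024, .ofNat 0, .ofNat 0, .ofNat 1524832256671401493781737436517243245559808, .ofNat 0, .ofNat 0, .ofNat 0, .ofNat 200764035787278338998062947289241258584702976,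 .ofNat 0, .ofNat 0, .ofNat 0, .ofNat 0, .ofNat 0, .ofNat 0, .ofNat 0, .ofNat 137838101036866762252995439986656114154405888, .ofNat 0⟩)
    (by decide +kernel)
theorem L03134 : Good (Phi V5.P V5.D (-1) (-1)) ⟨6, 55, 4, 7, 3, 6, 2, 2, 5, 2⟩ :=
  out_sound (S := T5.ds_mm) T5.ok_mm (w := 65) (j := 3) (by decide +kernel)
theorem L03135 : Good (Phi V5.P V5.D (-1) (-1)) ⟨5, 26, 4, 7, 3, 6, 3, 6, 5, 2⟩ :=
  leafX_sound T5.ok_mm T5.Ymm.bz_eq (w := 242) (c := ⟨⟨.negSucc 2081, .negSucc 410, .ofNat 277, .ofNat 1194, .ofNat 40, .negSucc 586⟩, ⟨.ofNat 1005, .ofNat 184, .negSucc 21, .negSucc 626, .negSucc 13, .ofNat 302⟩, ⟨.ofNat 1437, .ofNat 253, .negSucc 166, .negSucc 855, .negSucc 138, .ofNat 187⟩, ⟨.negSucc 3900, .negSucc 712, .ofNat 468, .ofNat 1856, .ofNat 88, .negSucc 1001⟩, ⟨.negSucc 1416, .negSucc 302, .ofNat 176, .ofNat 99, .ofNat 66, .negSucc 195⟩, .ofNat 1316, .ofNat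 1874, .ofNat 0, .ofNat 1874, .ofNat 3717, .ofNat 0, .ofNat 128, .negSucc 425, .negSucc 1589, .ofNat 0, .ofNat 237, .ofNat 810, .ofNat 0, .ofNat 0, .ofNat 1223, .ofNat 795, .ofNat 0, .ofNat 0, .ofNat 0, .ofNat 0, .ofNat 0, .ofNat 0, .ofNat 0, .ofNat 0, .ofNat 0, .ofNat 0, .ofNat 0, .ofNat 0, .ofNat 0, .ofNat 0, .ofNat 0, .ofNat 0⟩)
    (by decide +kernel)
theorem L03136 : Good (Phi V5.P V5.D (-1) (-1)) ⟨5, 26, 4, 7, 3, 6, 3, 7, 5, 2⟩ :=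
  leafX_sound T5.ok_mm T5.Ymm.bz_eq (w := 242) (c := ⟨⟨.negSucc 2257, .negSucc 182, .ofNat 306, .ofNat 1004, .ofNat 818, .negSucc 101⟩, ⟨.ofNat 1104, .ofNat 60, .negSucc 48, .negSucc 523, .negSucc 416, .ofNat 53⟩, ⟨.ofNat 1460, .ofNat 60, .negSucc 175, .negSucc 732, .negSucc 727, .negSucc 137⟩, ⟨.negSucc 4269, .negSucc 288, .ofNat 442, .ofNat 1548, .ofNat 1638, .negSucc 57⟩, ⟨.negSucc 1596, .negSucc 110, .ofNat 29, .ofNat 33, .ofNat 747, .ofNat 204⟩, .ofNat 1218, .ofNat 1696, .ofNat 0, .ofNat 1696, .ofNat 3393, .ofNat 0, .ofNat 128, .negSucc 481, .negSucc 1634, .ofNat 0, .ofNat 270, .ofNat 817, .ofNat 0, .ofNat 0, .ofNat 1289, .ofNat 712, .ofNat 0, .ofNat 0, .ofNat 0, .ofNat 0, .ofNat 0, .ofNat 815464323638670720516645783386765791223265361920, .ofNat 14368095206777272525658438531434683689861120, .ofNat 0, .ofNat 0, .ofNat 0, .ofNat 0, .ofNat 0, .ofNat 0, .ofNat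 1337441316795983504776016342633807963691646189568, .ofNat 6057370879421701758550932013294483092275200, .ofNat 0⟩)
    (by decide +kernel)
theorem L03137 : Good (Phi V5.P V5.D (-1) (-1)) ⟨6, 54, 4, 7, 3, 6, 3, 6, 5, 2⟩ :=
  leafX_sound T5.ok_mm T5.Ymm.bz_eq (w := 247) (c := ⟨⟨.negSucc 2660, .negSucc 421, .ofNat 225, .ofNat 1590, .ofNat 184, .negSucc 730⟩, ⟨.ofNat 1296, .ofNat 214, .ofNat 3, .negSucc 878, .negSucc 98, .ofNat 396⟩, ⟨.ofNat 1820, .ofNat 268, .negSucc 119, .negSucc 1136, .negSucc 252, .ofNat 277⟩, ⟨.negSucc 4709, .negSucc 642, .ofNat 290, .ofNat 2351, .ofNat 267, .negSucc 1199⟩, ⟨.negSucc 1458, .negSucc 105, .ofNat 11, .negSucc 2, .negSucc 3, .negSucc 212⟩, .ofNat 1512, .ofNat 2087, .ofNat 0, .ofNat 2087, .ofNat 3837, .ofNat 0, .ofNat 128, .negSucc 308, .negSucc 2384, .ofNat 0, .ofNat 185, .ofNat 1264, .ofNat 0, .ofNat 0, .ofNat 1794, .ofNat 1154,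 .ofNat 0, .ofNat 0, .ofNat 206568631555008919853364156168361958440960, .ofNat 0, .ofNat 0, .ofNat 0, .ofNat 68669876576519084312364226996622411660525568, .ofNat 0, .ofNat 0, .ofNat 0, .ofNat 25699817201918552423956898207825833932881920, .ofNat 0, .ofNat 0, .ofNat 0, .ofNat 64233013470839635189899353525448370479431680, .ofNat 0⟩)
    (by decide +kernel)
theorem L03138 : Good (Phi V5.P V5.D (-1) (-1)) ⟨6, 54, 4, 7, 3, 6, 3, 7, 5, 2⟩ :=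
  leafX_sound T5.ok_mm T5.Ymm.bz_eq (w := 247) (c := ⟨⟨.negSucc 2600, .ofNat 124, .ofNat 22, .ofNat 1201, .ofNat 1307, .negSucc 15⟩, ⟨.ofNat 1277, .negSucc 86, .ofNat 93, .negSucc 660, .negSucc 693, .ofNat 14⟩, ⟨.ofNat 1632, .negSucc 150, .ofNat 44, .negSucc 866, .negSucc 1076, .negSucc 191⟩, ⟨.negSucc 4763, .ofNat 129, .ofNat 32, .ofNat 1837, .ofNat 2293, .ofNat 43⟩, ⟨.negSucc 1698, .negSucc 137, .ofNat 68, .ofNat 101, .ofNat 644, .ofNat 121⟩, .ofNat 1703, .ofNat 2440, .ofNat 0, .ofNat 2440, .ofNat 4480, .ofNat 0, .ofNat 128, .negSucc 287, .negSucc 1477, .ofNat 0, .ofNat 169, .ofNat 793, .ofNat 0, .ofNat 0, .ofNat 1153, .ofNat 608, .ofNat 0, .ofNat 0, .ofNat 0, .ofNat 0, .ofNat 0, .ofNat 65954447991831250674529776307421248581058313584640, .ofNat 68967366855313228809094316131504025807880192, .ofNat 0, .ofNat 0, .ofNat 0, .ofNat 0, .ofNat 0, .ofNat 0, .ofNat 50394400346170370043691603054293478736258714828800,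 .ofNat 33566984520361419290929846615623413396406272, .ofNat 0⟩)
    (by decide +kernel)
theorem L03139 : Good (Phi V5.P V5.D (-1) (-1)) ⟨6, 55, 4, 7, 3, 6, 2, 3, 5, 2⟩ :=
  out_sound (S := T5.ds_mm) T5.ok_mm (w := 65) (j := 3) (by decide +kernel)
theorem L03140 : Good (Phi V5.P V5.D (-1) (-1)) ⟨5, 26, 4, 7, 3, 6, 2, 2, 5, 3⟩ :=
  leafX_sound T5.ok_mm T5.Ymm.bz_eq (w := 239) (c := ⟨⟨.negSucc 3228, .negSucc 490, .ofNat 330, .ofNat 1408, .ofNat 522, .negSucc 383⟩, ⟨.ofNat 1593, .ofNat 225, .negSucc 19, .negSucc 747, .negSucc 268, .ofNat 203⟩, ⟨.ofNat 2141, .ofNat 284, .negSucc 208, .negSucc 967, .negSucc 484, .ofNat 79⟩, ⟨.negSucc 5824, .negSucc 659, .ofNat 346, .ofNat 2148, .ofNat 831, .negSucc 475⟩, ⟨.negSucc 1758, .negSucc 35, .negSucc 196, .ofNat 68, .ofNat 98, .ofNat 206⟩, .ofNat 1746, .ofNat 2642, .ofNat 0, .ofNat 2642, .ofNat 5115, .ofNat 0, .ofNat 128, .negSucc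 537, .negSucc 1301, .ofNat 0, .ofNat 304, .ofNat 680, .ofNat 0, .ofNat 0, .ofNat 1127, .ofNat 640, .ofNat 0, .ofNat 0, .ofNat 20568173247599259462004738703481794199552, .ofNat 0, .ofNat 0, .ofNat 0, .ofNat 5292904444342067671466362797443016621555712, .ofNat 0, .ofNat 0, .ofNat 0, .ofNat 0, .ofNat 0, .ofNat 0, .ofNat 0, .ofNat 0, .ofNat 0⟩)
    (by decide +kernel)
theorem L03141 : Good (Phi V5.P V5.D (-1) (-1)) ⟨5, 26, 4, 7, 3, 6, 2, 3, 5, 3⟩ :=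
  leafX_sound T5.ok_mm T5.Ymm.bz_eq (w := 237) (c := ⟨⟨.negSucc 3027, .negSucc 486, .ofNat 424, .ofNat 1349, .ofNat 1272, .ofNat 63⟩, ⟨.ofNat 1489, .ofNat 227, .negSucc 86, .negSucc 711, .negSucc 645, .negSucc 23⟩, ⟨.ofNat 1883, .ofNat 294, .negSucc 280, .negSucc 945, .negSucc 1100, .negSucc 239⟩, ⟨.negSucc 5484, .negSucc 685, .ofNat 622, .ofNat 2037, .ofNat 2402, .ofNat 145⟩, ⟨.negSucc 1663, .negSucc 79, .ofNat 55, .negSucc 13, .ofNat 923, .ofNat 90⟩, .ofNat 1231, .ofNat 1719, .ofNat 0, .ofNat 1719, .ofNat 3437, .ofNat 0, .ofNat 128, .negSucc 298, .negSucc 1041, .ofNat 0, .ofNat 168, .ofNat 527, .ofNat 0, .ofNat 0, .ofNat 873, .ofNat 246, .ofNat 0, .ofNat 0, .ofNat 0, .ofNat 0, .ofNat 0, .ofNat 0, .ofNat 0, .ofNat 0, .ofNat 0, .ofNat 107158728140541491314028703111433079896902991872, .ofNat 0, .ofNat 0, .ofNat 0, .ofNat 0, .ofNat 0, .ofNat 0⟩)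
    (by decide +kernel)
theorem L03142 : Good (Phi V5.P V5.D (-1) (-1)) ⟨6, 54, 4, 7, 3, 6, 2, 2, 5, 3⟩ :=
  leafX_sound T5.ok_mm T5.Ymm.bz_eq (w := 240) (c := ⟨⟨.negSucc 3769, .negSucc 240, .ofNat 248, .ofNat 1513, .ofNat 664, .negSucc 417⟩, ⟨.ofNat 1874, .ofNat 121, .ofNat 20, .negSucc 851, .negSucc 353, .ofNat 230⟩, ⟨.ofNat 2433, .ofNat 189, .negSucc 133, .negSucc 1019, .negSucc 581, .ofNat 104⟩, ⟨.negSucc 6464, .negSucc 450, .ofNat 428, .ofNat 2129, .ofNat 895, .negSucc 638⟩, ⟨.negSucc 1670, .negSucc 157, .ofNat 127, .negSucc 216, .negSucc 38, .ofNat 1⟩, .ofNat 628, .ofNat 632, .ofNat 0, .ofNat 632, .ofNat 1333, .ofNat 0, .ofNat 128, .negSucc 172, .negSucc 1151, .ofNat 0, .ofNat 107, .ofNat 581, .ofNat 0, .ofNat 0, .ofNat 852, .ofNat 357, .ofNat 0, .ofNat 0, .ofNat 3580423839107165303342967715575814422528, .ofNat 0, .ofNat 0, .ofNat 0, .ofNat 0, .ofNat 0,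 .ofNat 0, .ofNat 0, .ofNat 331959961116824428850563229001294366638080, .ofNat 0, .ofNat 0, .ofNat 0, .ofNat 625157451093146545356192139432855758438400, .ofNat 0⟩)
    (by decide +kernel)
theorem L03143 : Good (Phi V5.P V5.D (-1) (-1)) ⟨6, 54, 5, 14, 3, 6, 2, 3, 5, 3⟩ :=
  out_sound (S := T5.ds_mm) T5.ok_mm (w := 67) (j := 3) (by decide +kernel)
theorem L03144 : Good (Phi V5.P V5.D (-1) (-1)) ⟨6, 54, 5, 15, 3, 6, 2, 3, 6, 6⟩ :=
  leafX_sound T5.ok_mm T5.Ymm.bz_eq (w := 251) (c := ⟨⟨.negSucc 3476, .negSucc 131, .ofNat 80, .ofNat 1694, .ofNat 1622, .negSucc 18⟩, ⟨.ofNat 1795, .ofNat 57, .ofNat 28, .negSucc 938, .negSucc 863, .ofNat 12⟩, ⟨.ofNat 2158, .ofNat 67, .negSucc 37, .negSucc 1191, .negSucc 1331, .negSucc 78⟩, ⟨.negSucc 6061, .negSucc 115, .ofNat 38, .ofNat 2453, .ofNat 2816, .ofNat 32⟩, ⟨.negSucc 1663, .ofNat 63, .negSucc 102, .negSucc 103, .ofNat 750, .ofNat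 110⟩, .ofNat 1709, .ofNat 2452, .ofNat 0, .ofNat 2452, .ofNat 4504, .ofNat 0, .ofNat 128, .negSucc 205, .negSucc 1699, .ofNat 0, .ofNat 121, .ofNat 916, .ofNat 0, .ofNat 0, .ofNat 1341, .ofNat 247, .ofNat 0, .ofNat 0, .ofNat 416080817367342126501320293712692087095296, .ofNat 0, .ofNat 0, .ofNat 0, .ofNat 191057726778879968537341799873274316907872256, .ofNat 0, .ofNat 0, .ofNat 57867656268884788033789607773431735132022338748416, .ofNat 58885196844391314250002101318671797304950784, .ofNat 0, .ofNat 0, .ofNat 0, .ofNat 0, .ofNat 0⟩)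
    (by decide +kernel)
theorem L03145 : Good (Phi V5.P V5.D (-1) (-1)) ⟨6, 54, 5, 15, 3, 6, 2, 3, 6, 7⟩ :=
  leafX_sound T5.ok_mm T5.Ymm.bz_eq (w := 250) (c := ⟨⟨.negSucc 3327, .negSucc 29, .ofNat 33, .ofNat 1520, .ofNat 1541, .ofNat 130⟩, ⟨.ofNat 1718, .ofNat 8, .ofNat 43, .negSucc 841, .negSucc 810, .negSucc 63⟩, ⟨.ofNat 1926, .negSucc 12, .negSucc 13, .negSucc 1035, .negSucc 1247, .negSucc 162⟩, ⟨.negSucc 5781, .negSucc 23, .negSucc 4, .ofNat 2157, .ofNat 2691, .ofNat 263⟩, ⟨.negSucc 1567, .negSucc 41, .negSucc 55, .negSucc 162, .ofNat 755, .ofNat 133⟩, .ofNat 2148, .ofNat 3201, .ofNat 0, .ofNat 3201, .ofNat 5795, .ofNat 0, .ofNat 128, .negSucc 229, .negSucc 1022, .ofNat 0, .ofNat 135, .ofNat 556, .ofNat 0, .ofNat 0, .ofNat 866, .ofNat 582, .ofNat 0, .ofNat 0, .ofNat 0, .ofNat 0, .ofNat 0, .ofNat 1027871742446736478479875354856768719951048726282240, .ofNat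 520758380715842737947196538328930365816700928, .ofNat 0, .ofNat 0, .ofNat 300659749866404073771899393779114238927842641444864, .ofNat 66432818205350869694634258371680630636281856, .ofNat 0, .ofNat 0, .ofNat 0, .ofNat 0, .ofNat 0⟩)
    (by decide +kernel)
theorem L03146 : Good (Phi V5.P V5.D (-1) (-1)) ⟨6, 55, 4, 7, 3, 6, 1, 1, 5, 3⟩ :=
  out_sound (S := T5.ds_mm) T5.ok_mm (w := 65) (j := 3) (by decide +kernel)
theorem L03147 : Good (Phi V5.P V5.D (-1) (-1)) ⟨3, 7, 4, 7, 3, 6, 1, 1, 4, 1⟩ :=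
  out_sound (S := T5.ds_mm) T5.ok_mm (w := 47) (j := 3) (by decide +kernel)
theorem L03148 : Good (Phi V5.P V5.D (-1) (-1)) ⟨2, 2, 4, 7, 3, 7, 1, 1, 3, 0⟩ :=
  out_sound (S := T5.ds_mm) T5.ok_mm (w := 41) (j := 3) (by decide +kernel)
theorem L03149 : Good (Phi V5.P V5.D (-1) (-1)) ⟨4, 12, 4, 7, 3, 7, 2, 2, 4, 0⟩ :=
  leafX_sound T5.ok_mm T5.Ymm.bz_eq (w := 231) (c := ⟨⟨.ofNat 2552, .ofNat 0, .ofNat 630, .negSucc 1151, .negSucc 1166, .negSucc 1766⟩, ⟨.negSucc 1224, .ofNat 0, .negSucc 355, .ofNat 572, .ofNat 549, .ofNat 829⟩, ⟨.negSucc 737, .ofNat 0, .negSucc 1242, .ofNat 948, .ofNat 366, .ofNat 596⟩, ⟨.ofNat 4789, .ofNat 0, .ofNat 186, .negSucc 1862, .negSucc 2386, .negSucc 3614⟩, ⟨.ofNat 1694, .ofNat 0, .negSucc 107, .negSucc 172, .negSucc 1173, .negSucc 1783⟩, .ofNat 2602, .ofNat 4414, .ofNat 0, .ofNat 4414, .ofNat 8825, .ofNat 0, .ofNat 128, .negSucc 558, .negSucc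 1335, .ofNat 0, .ofNat 287, .ofNat 651, .ofNat 0, .ofNat 0, .ofNat 1090, .ofNat 3067, .ofNat 0, .ofNat 0, .ofNat 0, .ofNat 0, .ofNat 0, .ofNat 0, .ofNat 6521300233184601361163847720627410114183168, .ofNat 0, .ofNat 0, .ofNat 0, .ofNat 12763929334055439005096449979777758674288640, .ofNat 0, .ofNat 0, .ofNat 0, .ofNat 18264721003400822652881835579088692001636352, .ofNat 0⟩)
    (by decide +kernel)
theorem L03150 : Good (Phi V5.P V5.D (-1) (-1)) ⟨5, 26, 4, 7, 3, 7, 2, 2, 5, 0⟩ :=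
  leafX_sound T5.ok_mm T5.Ymm.bz_eq (w := 237) (c := ⟨⟨.ofNat 2749, .ofNat 127, .negSucc 8, .negSucc 1266, .negSucc 1521, .negSucc 790⟩, ⟨.negSucc 1347, .negSucc 51, .negSucc 55, .ofNat 656, .ofNat 726, .ofNat 384⟩, ⟨.negSucc 887, .negSucc 60, .ofNat 84, .ofNat 1147, .ofNat 512, .ofNat 247⟩, ⟨.ofNat 5317, .ofNat 109, .ofNat 168, .negSucc 2039, .negSucc 3254, .negSucc 1752⟩, ⟨.ofNat 2170, .negSucc 73, .ofNat 306, .negSucc 237, .negSucc 1793, .negSucc 1061⟩, .ofNat 1221, .ofNat 1707, .ofNat 0, .ofNat 1707, .ofNat 3430, .ofNat 0, .ofNat 128, .negSucc 532, .negSucc 933, .ofNat 0, .ofNat 282, .ofNat 457, .ofNat 0, .ofNat 0, .ofNat 727, .ofNat 569, .ofNat 0, .ofNat 0, .ofNat 0, .ofNat 0, .ofNat 0, .ofNat 0, .ofNat 0, .ofNat 0, .ofNat 0, .ofNat 0, .ofNat 0, .ofNat 0, .ofNat 0, .ofNat 0, .ofNat 0, .ofNat 0⟩)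
    (by decide +kernel)
theorem L03151 : Good (Phi V5.P V5.D (-1) (-1)) ⟨5, 26, 5, 14, 3, 7, 2, 2, 5, 1⟩ :=
  leafX_sound T5.ok_mm T5.Ymm.bz_eq (w := 240) (c := ⟨⟨.ofNat 1577, .negSucc 16, .ofNat 54, .negSucc 1064, .negSucc 1089, .negSucc 931⟩, ⟨.negSucc 778, .negSucc 13, .negSucc 13, .ofNat 551, .ofNat 517, .ofNat 439⟩, ⟨.negSucc 317, .ofNat 0, .ofNat 1, .ofNat 871, .ofNat 302, .ofNat 269⟩, ⟨.ofNat 2877, .negSucc 71, .ofNat 85, .negSucc 1708, .negSucc 2281, .negSucc 1957⟩, ⟨.ofNat 926, .negSucc 70, .ofNat 17, .negSucc 184, .negSucc 1207, .negSucc 1052⟩, .ofNat 1430, .ofNat 2083, .ofNat 0, .ofNat 2083, .ofNat 4127, .ofNat 0, .ofNat 128, .negSucc 240, .negSucc 958, .ofNat 0, .ofNat 128, .ofNat 472, .ofNat 0, .ofNat 0, .ofNat 719, .ofNat 978, .ofNat 0, .ofNat 0, .ofNat 48513480732817464235260718966476170592256, .ofNat 0, .ofNat 0, .ofNat 0, .ofNat 0, .ofNat 0,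 .ofNat 0, .ofNat 0, .ofNat 3642876947934035581145108561315102778720256, .ofNat 0, .ofNat 0, .ofNat 0, .ofNat 0, .ofNat 0⟩)
    (by decide +kernel)
theorem L03152 : Good (Phi V5.P V5.D (-1) (-1)) ⟨5, 26, 5, 15, 3, 7, 2, 2, 5, 1⟩ :=
  leafX_sound T5.ok_mm T5.Ymm.bz_eq (w := 241) (c := ⟨⟨.ofNat 1920, .negSucc 151, .ofNat 89, .negSucc 1266, .negSucc 1243, .negSucc 998⟩, ⟨.negSucc 978, .ofNat 57, .negSucc 31, .ofNat 666, .ofNat 620, .ofNat 504⟩, ⟨.negSucc 500, .ofNat 113, .negSucc 6, .ofNat 978, .ofNat 354, .ofNat 340⟩, ⟨.ofNat 3377, .negSucc 234, .ofNat 145, .negSucc 2048, .negSucc 2541, .negSucc 1962⟩, ⟨.ofNat 915, .negSucc 6, .ofNat 37, .negSucc 276, .negSucc 1258, .negSucc 858⟩, .ofNat 2294, .ofNat 3575, .ofNat 0, .ofNat 3575, .ofNat 6688, .ofNat 0, .ofNat 128, .negSucc 306, .negSucc 774, .ofNat 0, .ofNat 168, .ofNat 402, .ofNat 0, .ofNat 0, .ofNat 576, .ofNat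 1178, .ofNat 0, .ofNat 0, .ofNat 0, .ofNat 0, .ofNat 0, .ofNat 0, .ofNat 43439404274536052506334849867235467326390272, .ofNat 0, .ofNat 0, .ofNat 0, .ofNat 0, .ofNat 0, .ofNat 0, .ofNat 0, .ofNat 0, .ofNat 0⟩)
    (by decide +kernel)
theorem L03153 : Good (Phi V5.P V5.D (-1) (-1)) ⟨5, 27, 4, 7, 3, 7, 2, 2, 5, 0⟩ :=
  leafX_sound T5.ok_mm T5.Ymm.bz_eq (w := 237) (c := ⟨⟨.ofNat 3096, .ofNat 1071, .negSucc 284, .negSucc 1316, .negSucc 1562, .negSucc 788⟩, ⟨.negSucc 1564, .negSucc 517, .ofNat 92, .ofNat 720, .ofNat 785, .ofNat 394⟩, ⟨.negSucc 1019, .negSucc 347, .ofNat 155, .ofNat 1184, .ofNat 509, .ofNat 240⟩, ⟨.ofNat 5701, .ofNat 1788, .negSucc 322, .negSucc 2050, .negSucc 3280, .negSucc 1663⟩, ⟨.ofNat 2054, .ofNat 527, .ofNat 111, .negSucc 176, .negSucc 1744, .negSucc 890⟩, .ofNat 1707, .ofNat 2447, .ofNat 0, .ofNat 2447, .ofNat 4490, .ofNat 0, .ofNat 128, .negSucc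 391, .negSucc 648, .ofNat 0, .ofNat 219, .ofNat 343, .ofNat 0, .ofNat 0, .ofNat 493, .ofNat 932, .ofNat 0, .ofNat 0, .ofNat 19009119342071318916383374244613099356160, .ofNat 0, .ofNat 0, .ofNat 0, .ofNat 24770576145265318028463099056876484873420800, .ofNat 0, .ofNat 0, .ofNat 0, .ofNat 4306816552228738852529154367643061439168512, .ofNat 0, .ofNat 0, .ofNat 0, .ofNat 5027315161002818361106400938275224409866240, .ofNat 0⟩)
    (by decide +kernel)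
theorem L03154 : Good (Phi V5.P V5.D (-1) (-1)) ⟨5, 27, 4, 7, 3, 7, 2, 2, 5, 1⟩ :=
  leafX_sound T5.ok_mm T5.Ymm.bz_eq (w := 237) (c := ⟨⟨.ofNat 1849, .ofNat 210, .ofNat 214, .negSucc 1327, .negSucc 1389, .negSucc 1147⟩, ⟨.negSucc 1017, .negSucc 151, .negSucc 65, .ofNat 721, .ofNat 712, .ofNat 588⟩, ⟨.negSucc 559, .negSucc 251, .ofNat 49, .ofNat 1047, .ofNat 435, .ofNat 403⟩, ⟨.ofNat 3213, .ofNat 173, .ofNat 556, .negSucc 2159, .negSucc 2868, .negSucc 2327⟩, ⟨.ofNat 818, .negSucc 234, .ofNat 462, .negSucc 343, .negSucc 1445, .negSucc 1129⟩, .ofNat 1184, .ofNat 1505, .ofNat 0, .ofNat 1505, .ofNat 2776, .ofNat 0, .ofNat 128, .negSucc 242, .negSucc 771, .ofNat 0, .ofNat 137, .ofNat 391, .ofNat 0, .ofNat 0, .ofNat 529, .ofNat 1106, .ofNat 0, .ofNat 0, .ofNat 50980836333618451177406411493316136796160, .ofNat 0, .ofNat 0, .ofNat 0, .ofNat 8649652505013320039840135787776765908221952,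 .ofNat 0, .ofNat 0, .ofNat 0, .ofNat 4181626026864408095171130063847664383950848, .ofNat 0, .ofNat 0, .ofNat 0, .ofNat 6419020292340790720532969183256955949416448, .ofNat 0⟩)
    (by decide +kernel)
theorem L03155 : Good (Phi V5.P V5.D (-1) (-1)) ⟨3, 7, 4, 7, 3, 7, 2, 2, 4, 0⟩ :=
  out_sound (S := T5.ds_mm) T5.ok_mm (w := 47) (j := 3) (by decide +kernel)
theorem L03156 : Good (Phi V5.P V5.D (-1) (-1)) ⟨4, 12, 4, 7, 3, 7, 2, 2, 5, 2⟩ :=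
  leafX_sound T5.ok_mm T5.Ymm.bz_eq (w := 237) (c := ⟨⟨.negSucc 335, .ofNat 0, .ofNat 501, .negSucc 337, .negSucc 73, .negSucc 728⟩, ⟨.ofNat 148, .ofNat 0, .negSucc 201, .ofNat 173, .ofNat 25, .ofNat 345⟩, ⟨.ofNat 574, .ofNat 0, .negSucc 251, .ofNat 329, .negSucc 222, .ofNat 172⟩, ⟨.negSucc 864, .negSucc 0, .ofNat 114, .negSucc 458, .negSucc 322, .negSucc 1439⟩, ⟨.negSucc 701, .negSucc 0, .negSucc 62, .ofNat 130, .negSucc 415, .negSucc 636⟩, .ofNat 2602, .ofNat 4412, .ofNat 0, .ofNat 4412, .ofNat 8823, .ofNat 0, .ofNat 128, .negSucc 766, .negSucc 2241, .ofNat 0, .ofNat 397, .ofNat 1096, .ofNat 0, .ofNat 0, .ofNat 1802, .ofNat 3540, .ofNat 0, .ofNat 0, .ofNat 637541121636767999908474940399921743790080, .ofNat 0, .ofNat 0, .ofNat 0, .ofNat 89784444538014693242738605477669546202497024, .ofNat 0, .ofNat 0, .ofNat 0, .ofNat 36036653762056409793879381826623837277519872,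 .ofNat 0, .ofNat 0, .ofNat 0, .ofNat 12989146117364309447993964957826652351496192, .ofNat 0⟩)
    (by decide +kernel)
theorem L03157 : Good (Phi V5.P V5.D (-1) (-1)) ⟨5, 26, 4, 7, 4, 14, 3, 4, 5, 2⟩ :=
  leafX_sound T5.ok_mm T5.Ymm.bz_eq (w := 255) (c := ⟨⟨.ofNat 253, .negSucc 177, .ofNat 283, .negSucc 241, .negSucc 173, .negSucc 1608⟩, ⟨.negSucc 165, .ofNat 45, .negSucc 77, .ofNat 142, .ofNat 78, .ofNat 818⟩, ⟨.ofNat 152, .ofNat 103, .negSucc 110, .ofNat 259, .negSucc 11, .ofNat 746⟩, ⟨.ofNat 175, .negSucc 341, .ofNat 509, .negSucc 400, .negSucc 343, .negSucc 3040⟩, ⟨.negSucc 390, .negSucc 199, .ofNat 238, .negSucc 69, .negSucc 143, .negSucc 1163⟩, .ofNat 1220, .ofNat 1701, .ofNat 0, .ofNat 1701, .ofNat 3408, .ofNat 0, .ofNat 128, .negSucc 363, .negSucc 1216, .ofNat 0, .ofNat 198, .ofNat 605, .ofNat 0, .ofNat 0, .ofNat 916, .ofNat 2368, .ofNat 0, .ofNat 0, .ofNat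 0, .ofNat 0, .ofNat 0, .ofNat 0, .ofNat 0, .ofNat 0, .ofNat 0, .ofNat 0, .ofNat 0, .ofNat 0, .ofNat 0, .ofNat 0, .ofNat 0, .ofNat 0⟩)
    (by decide +kernel)
theorem L03158 : Good (Phi V5.P V5.D (-1) (-1)) ⟨5, 26, 4, 7, 4, 14, 3, 5, 5, 2⟩ :=
  leafX_sound T5.ok_mm T5.Ymm.bz_eq (w := 257) (c := ⟨⟨.negSucc 374, .negSucc 183, .ofNat 160, .ofNat 28, .negSucc 219, .negSucc 873⟩, ⟨.ofNat 151, .ofNat 56, .ofNat 1, .negSucc 9, .ofNat 109, .ofNat 435⟩, ⟨.ofNat 438, .ofNat 101, .negSucc 54, .ofNat 59, .negSucc 0, .ofNat 316⟩, ⟨.negSucc 1108, .negSucc 374, .ofNat 445, .ofNat 221, .negSucc 439, .negSucc 1721⟩, ⟨.negSucc 1025, .negSucc 247, .ofNat 481, .ofNat 346, .negSucc 207, .negSucc 780⟩, .ofNat 1711, .ofNat 2582, .ofNat 0, .ofNat 2582, .ofNat 5014, .ofNat 0, .ofNat 128, .negSucc 373, .negSucc 1365, .ofNat 0, .ofNat 203, .ofNat 693, .ofNat 0, .ofNat 0, .ofNat 1025, .ofNat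 2007, .ofNat 0, .ofNat 0, .ofNat 11099367272884525568030192705302767501217628160, .ofNat 0, .ofNat 0, .ofNat 0, .ofNat 1757839455495511802954624871442390459827865255936, .ofNat 0, .ofNat 0, .ofNat 0, .ofNat 0, .ofNat 0, .ofNat 0, .ofNat 0, .ofNat 0, .ofNat 0⟩)
    (by decide +kernel)
theorem L03159 : Good (Phi V5.P V5.D (-1) (-1)) ⟨5, 26, 4, 7, 4, 15, 3, 4, 5, 2⟩ :=
  leafX_sound T5.ok_mm T5.Ymm.bz_eq (w := 256) (c := ⟨⟨.negSucc 491, .negSucc 182, .ofNat 95, .negSucc 363, .ofNat 54, .negSucc 732⟩, ⟨.ofNat 224, .ofNat 60, .ofNat 34, .ofNat 189, .negSucc 36, .ofNat 354⟩, ⟨.ofNat 748, .ofNat 99, .ofNat 15, .ofNat 259, .negSucc 160, .ofNat 166⟩, ⟨.negSucc 985, .negSucc 351, .ofNat 243, .negSucc 637, .negSucc 16, .negSucc 1545⟩, ⟨.negSucc 451, .negSucc 215, .ofNat 253, .negSucc 161, .negSucc 183, .negSucc 835⟩, .ofNat 1496, .ofNat 2194, .ofNat 0, .ofNat 2194, .ofNat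 4308, .ofNat 0, .ofNat 128, .negSucc 541, .negSucc 1201, .ofNat 0, .ofNat 292, .ofNat 592, .ofNat 0, .ofNat 0, .ofNat 928, .ofNat 2500, .ofNat 0, .ofNat 0, .ofNat 0, .ofNat 0, .ofNat 0, .ofNat 0, .ofNat 2191319983230336200108008436400283211287624679424, .ofNat 0, .ofNat 0, .ofNat 0, .ofNat 0, .ofNat 0, .ofNat 0, .ofNat 0, .ofNat 0, .ofNat 0⟩)
    (by decide +kernel)
theorem L03160 : Good (Phi V5.P V5.D (-1) (-1)) ⟨5, 26, 4, 7, 4, 15, 3, 5, 5, 2⟩ :=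
  leafX_sound T5.ok_mm T5.Ymm.bz_eq (w := 257) (c := ⟨⟨.negSucc 877, .negSucc 123, .ofNat 186, .negSucc 136, .ofNat 104, .negSucc 328⟩, ⟨.ofNat 406, .ofNat 27, .negSucc 7, .ofNat 71, .negSucc 56, .ofNat 160⟩, ⟨.ofNat 827, .ofNat 50, .negSucc 35, .ofNat 131, .negSucc 202, .negSucc 23⟩, ⟨.negSucc 1828, .negSucc 222, .ofNat 314, .negSucc 243, .ofNat 103, .negSucc 725⟩, ⟨.negSucc 959, .negSucc 123, .ofNat 138, .negSucc 66, .negSucc 94, .negSucc 433⟩, .ofNat 1526, .ofNat 2250, .ofNat 0, .ofNat 2250, .ofNat 4412, .ofNat 0, .ofNat 128, .negSucc 627, .negSucc 1712, .ofNat 0, .ofNat 336, .ofNat 848, .ofNat 0, .ofNat 0, .ofNat 1292, .ofNat 3559, .ofNat 0, .ofNat 0, .ofNat 0, .ofNat 0, .ofNat 0, .ofNat 0, .ofNat 1299328180892323019758027748896922367007247040512, .ofNat 0, .ofNat 0, .ofNat 0, .ofNat 0, .ofNat 0, .ofNat 0, .ofNat 0, .ofNat 0, .ofNat 0⟩)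
    (by decide +kernel)
theorem L03161 : Good (Phi V5.P V5.D (-1) (-1)) ⟨6, 54, 4, 7, 4, 14, 3, 4, 5, 2⟩ :=
  leafX_sound T5.ok_mm T5.Ymm.bz_eq (w := 260) (c := ⟨⟨.ofNat 371, .ofNat 381, .negSucc 47, .negSucc 328, .negSucc 160, .negSucc 1752⟩, ⟨.negSucc 296, .negSucc 241, .ofNat 115, .ofNat 192, .ofNat 81, .ofNat 915⟩, ⟨.ofNat 88, .negSucc 241, .ofNat 93, .ofNat 325, .negSucc 28, .ofNat 803⟩, ⟨.ofNat 364, .ofNat 634, .negSucc 148, .negSucc 427, .negSucc 395, .negSucc 3202⟩, ⟨.negSucc 378, .ofNat 119, .negSucc 82, .ofNat 108, .negSucc 284, .negSucc 1107⟩, .ofNat 1512, .ofNat 2087, .ofNat 0, .ofNat 2087, .ofNat 3837, .ofNat 0, .ofNat 128, .negSucc 285, .negSucc 1401, .ofNat 0, .ofNat 165, .ofNat 730, .ofNat 0, .ofNat 0, .ofNat 1021, .ofNat 2818, .ofNat 0, .ofNat 0, .ofNat 0, .ofNat 0, .ofNat 0, .ofNat 0, .ofNat 1666741146680721669199817937697008626867017613312,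 .ofNat 0, .ofNat 0, .ofNat 0, .ofNat 280126638406866642607646958996206047219649871872, .ofNat 0, .ofNat 0, .ofNat 0, .ofNat 930425069023022602057950392904043360969293824000, .ofNat 0⟩)
    (by decide +kernel)
theorem L03162 : Good (Phi V5.P V5.D (-1) (-1)) ⟨6, 54, 4, 7, 4, 14, 3, 5, 5, 2⟩ :=
  leafX_sound T5.ok_mm T5.Ymm.bz_eq (w := 261) (c := ⟨⟨.negSucc 832, .ofNat 92, .ofNat 211, .ofNat 70, .negSucc 164, .negSucc 789⟩, ⟨.ofNat 330, .negSucc 71, .negSucc 15, .negSucc 32, .ofNat 84, .ofNat 413⟩, ⟨.ofNat 710, .negSucc 67, .negSucc 71, .ofNat 30, .negSucc 40, .ofNat 249⟩, ⟨.negSucc 1816, .ofNat 150, .ofNat 368, .ofNat 145, .negSucc 382, .negSucc 1504⟩, ⟨.negSucc 1120, .negSucc 0, .ofNat 178, .ofNat 79, .negSucc 246, .negSucc 605⟩, .ofNat 1512, .ofNat 2087, .ofNat 0, .ofNat 2087, .ofNat 3837, .ofNat 0, .ofNat 128, .negSucc 365, .negSucc 2039, .ofNat 0, .ofNat 210,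 .ofNat 1059, .ofNat 0, .ofNat 0, .ofNat 1442, .ofNat 2238, .ofNat 0, .ofNat 0, .ofNat 7185619761700672951290873625139114462815453184, .ofNat 0, .ofNat 0, .ofNat 0, .ofNat 1240072026693219974616374474471218023551649972224, .ofNat 0, .ofNat 0, .ofNat 0, .ofNat 618570330869557003082043864682362277362946539520, .ofNat 0, .ofNat 0, .ofNat 0, .ofNat 0, .ofNat 0⟩)
    (by decide +kernel)
theorem L03163 : Good (Phi V5.P V5.D (-1) (-1)) ⟨6, 55, 4, 7, 4, 14, 2, 2, 5, 2⟩ :=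
  out_sound (S := T5.ds_mm) T5.ok_mm (w := 65) (j := 3) (by decide +kernel)
theorem L03164 : Good (Phi V5.P V5.D (-1) (-1)) ⟨5, 27, 5, 14, 4, 15, 2, 2, 5, 2⟩ :=
  out_sound (S := T5.ds_mm) T5.ok_mm (w := 61) (j := 3) (by decide +kernel)

end Crest.Agent.R097C5.N5mm
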