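import Crest.Agent.R097.KP7
import Crest.Agent.R097.T5Ymm

/-!
# Row 97, box cover in dimension n = 5 (generated)
-/

set_option autoImplicit false
set_option Elab.async false
set_option maxHeartbeats 0
set_option maxRecDepth 100000

open Crest.Agent.R097 Crest.Agent.R097.KA


namespace Crest.Agent.R097C5.N5mm

theorem L03165 : Good (Phi V5.P V5.D (-1) (-1)) ⟨5, 27, 5, 15, 4, 15, 3, 4, 5, 2⟩ :=
  leafX_sound T5.ok_mm T5.Ymm.bz_eq (w := 259) (c := ⟨⟨.negSucc 462, .negSucc 264, .ofNat 81, .negSucc 369, .ofNat 59, .negSucc 865⟩, ⟨.ofNat 213, .ofNat 91, .negSucc 5, .ofNat 200, .negSucc 40, .ofNat 441⟩, ⟨.ofNat 775, .ofNat 121, .negSucc 2, .ofNat 284, .negSucc 180, .ofNat 213⟩, ⟨.negSucc 1045, .negSucc 402, .ofNat 122, .negSucc 520, .ofNat 44, .negSucc 1718⟩, ⟨.negSucc 661, .negSucc 120, .ofNat 40, .ofNat 47, .negSucc 81, .negSucc 794⟩, .ofNat 2089, .ofNat 3100, .ofNat 0, .ofNat 3100, .ofNat 5620, .ofNat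 0, .ofNat 128, .negSucc 332, .negSucc 982, .ofNat 0, .ofNat 188, .ofNat 515, .ofNat 0, .ofNat 0, .ofNat 724, .ofNat 3031, .ofNat 0, .ofNat 0, .ofNat 16548421307577872083923713458722842956330434560, .ofNat 0, .ofNat 0, .ofNat 0, .ofNat 25815979574654563409671425481149083569917377118208, .ofNat 0, .ofNat 0, .ofNat 0, .ofNat 6610856823558084321730942752776620473895218053120, .ofNat 0, .ofNat 0, .ofNat 0, .ofNat 1824313218724118095183460763058905295253881749504, .ofNat 0⟩)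
    (by decide +kernel)
theorem L03166 : Good (Phi V5.P V5.D (-1) (-1)) ⟨6, 54, 5, 15, 4, 15, 3, 5, 5, 2⟩ :=
  leafX_sound T5.ok_mm T5.Ymm.bz_eq (w := 265) (c := ⟨⟨.negSucc 963, .negSucc 142, .ofNat 23, .negSucc 122, .ofNat 101, .negSucc 224⟩, ⟨.ofNat 456, .ofNat 54, .ofNat 33, .ofNat 65, .negSucc 60, .ofNat 112⟩, ⟨.ofNat 895, .ofNat 61, .ofNat 19, .ofNat 130, .negSucc 215, .negSucc 84⟩, ⟨.negSucc 2023, .negSucc 242, .ofNat 47, .negSucc 226, .ofNat 82, .negSucc 484⟩, ⟨.negSucc 1100, .negSucc 86, .ofNat 61, .negSucc 79, .negSucc 120, .negSucc 274⟩, .ofNat 1886, .ofNat 2753, .ofNat 0, .ofNat 2753, .ofNat 5019, .ofNat 0, .ofNat 128, .negSucc 627, .negSucc 1809, .ofNat 0, .ofNat 351, .ofNat 948, .ofNat 0, .ofNat 0, .ofNat 1297, .ofNat 4746, .ofNat 0, .ofNat 0, .ofNat 10718558741859091091667239371542050427268759552, .ofNat 0, .ofNat 0, .ofNat 0, .ofNat 5778800729054473421720724710666526194284762234880,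 .ofNat 0, .ofNat 0, .ofNat 0, .ofNat 1135524318123070977085241754839848393157170429952, .ofNat 0, .ofNat 0, .ofNat 0, .ofNat 0, .ofNat 0⟩)
    (by decide +kernel)
theorem L03167 : Good (Phi V5.P V5.D (-1) (-1)) ⟨6, 55, 5, 15, 4, 15, 3, 5, 5, 2⟩ :=
  out_sound (S := T5.ds_mm) T5.ok_mm (w := 67) (j := 3) (by decide +kernel)
theorem L03168 : Good (Phi V5.P V5.D (-1) (-1)) ⟨4, 12, 4, 7, 3, 7, 2, 2, 5, 3⟩ :=
  leafX_sound T5.ok_mm T5.Ymm.bz_eq (w := 238) (c := ⟨⟨.negSucc 1961, .negSucc 0, .negSucc 947, .ofNat 409, .ofNat 666, .negSucc 124⟩, ⟨.ofNat 933, .ofNat 0, .ofNat 531, .negSucc 195, .negSucc 328, .ofNat 60⟩, ⟨.ofNat 1313, .ofNat 1, .ofNat 243, .negSucc 146, .negSucc 607, .negSucc 111⟩, ⟨.negSucc 3863, .negSucc 1, .negSucc 302, .ofNat 768, .ofNat 1083, .negSucc 236⟩, ⟨.negSucc 1655, .negSucc 0, .ofNat 140, .ofNat 271, .ofNat 115, .negSucc 82⟩, .ofNat 2599, .ofNat 4407, .ofNat 0, .ofNat 4407, .ofNat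 8814, .ofNat 0, .ofNat 128, .negSucc 1279, .negSucc 2123, .ofNat 0, .ofNat 673, .ofNat 1041, .ofNat 0, .ofNat 0, .ofNat 1966, .ofNat 6292, .ofNat 0, .ofNat 0, .ofNat 2896203664264367112122090076086282062135296, .ofNat 0, .ofNat 0, .ofNat 0, .ofNat 451038550017913684986395236636617923786440704, .ofNat 0, .ofNat 0, .ofNat 0, .ofNat 1403314357515429111403758929691853072067723264, .ofNat 0, .ofNat 0, .ofNat 0, .ofNat 225046315168748421603296509267306034256412672, .ofNat 0⟩)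
    (by decide +kernel)
theorem L03169 : Good (Phi V5.P V5.D (-1) (-1)) ⟨4, 13, 4, 7, 3, 7, 3, 4, 5, 3⟩ :=
  leafX_sound T5.ok_mm T5.Ymm.bz_eq (w := 237) (c := ⟨⟨.negSucc 2117, .negSucc 284, .ofNat 107, .ofNat 572, .ofNat 416, .negSucc 125⟩, ⟨.ofNat 1021, .ofNat 91, .ofNat 58, .negSucc 291, .negSucc 220, .ofNat 63⟩, ⟨.ofNat 1390, .ofNat 149, .negSucc 22, .negSucc 218, .negSucc 348, .negSucc 118⟩, ⟨.negSucc 4110, .negSucc 618, .ofNat 230, .ofNat 1078, .ofNat 670, .negSucc 258⟩, ⟨.negSucc 1738, .negSucc 600, .ofNat 223, .ofNat 431, .ofNat 102, .negSucc 99⟩, .ofNat 1101, .ofNat 1429, .ofNat 0, .ofNat 1429, .ofNat 2774, .ofNat 0, .ofNat 128, .negSucc 508, .negSucc 866, .ofNat 0, .ofNat 295, .ofNat 440, .ofNat 0, .ofNat 0, .ofNat 732, .ofNat 2316, .ofNat 0, .ofNat 0, .ofNat 1304170905908644101864423089861478630555648, .ofNat 0, .ofNat 0, .ofNat 0, .ofNat 169717968057340001490931037178003262206377984,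 .ofNat 0, .ofNat 0, .ofNat 0, .ofNat 149498631988166579807515886841720574195007488, .ofNat 0, .ofNat 0, .ofNat 0, .ofNat 103980269938486979290342834746708154174668800, .ofNat 0⟩)
    (by decide +kernel)
theorem L03170 : Good (Phi V5.P V5.D (-1) (-1)) ⟨4, 13, 4, 7, 3, 7, 3, 5, 5, 3⟩ :=
  leafX_sound T5.ok_mm T5.Ymm.bz_eq (w := 237) (c := ⟨⟨.negSucc 1913, .negSucc 99, .ofNat 97, .ofNat 652, .ofNat 413, .negSucc 1⟩, ⟨.ofNat 919, .negSucc 42, .ofNat 63, .negSucc 329, .negSucc 214, .ofNat 6⟩, ⟨.ofNat 1152, .ofNat 13, .negSucc 15, .negSucc 241, .negSucc 335, .negSucc 177⟩, ⟨.negSucc 3860, .negSucc 187, .ofNat 159, .ofNat 1235, .ofNat 753, .negSucc 4⟩, ⟨.negSucc 1855, .negSucc 211, .ofNat 108, .ofNat 486, .ofNat 260, .ofNat 6⟩, .ofNat 1101, .ofNat 1429, .ofNat 0, .ofNat 1429, .ofNat 2774, .ofNat 0, .ofNat 128, .negSucc 607, .negSucc 855, .ofNat 0, .ofNat 348, .ofNat 432, .ofNat 0, .ofNat 0, .ofNat 706,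 .ofNat 2331, .ofNat 0, .ofNat 0, .ofNat 1025769996307895016268818617413858897166336, .ofNat 0, .ofNat 0, .ofNat 0, .ofNat 109745512871444612994791433559140885396979712, .ofNat 0, .ofNat 0, .ofNat 0, .ofNat 0, .ofNat 0, .ofNat 0, .ofNat 0, .ofNat 418819719612977775373849764010488984244322304, .ofNat 0⟩)
    (by decide +kernel)
theorem L03171 : Good (Phi V5.P V5.D (-1) (-1)) ⟨3, 7, 4, 7, 3, 7, 2, 2, 4, 1⟩ :=
  out_sound (S := T5.ds_mm) T5.ok_mm (w := 47) (j := 3) (by decide +kernel)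
theorem L03172 : Good (Phi V5.P V5.D (-1) (-1)) ⟨4, 12, 4, 7, 3, 7, 3, 6, 4, 0⟩ :=
  leafX_sound T5.ok_mm T5.Ymm.bz_eq (w := 237) (c := ⟨⟨.ofNat 570, .ofNat 0, .negSucc 541, .negSucc 613, .negSucc 521, .negSucc 940⟩, ⟨.negSucc 282, .ofNat 0, .ofNat 277, .ofNat 301, .ofNat 244, .ofNat 442⟩, ⟨.ofNat 174, .ofNat 0, .ofNat 583, .ofNat 516, .ofNat 78, .ofNat 136⟩, ⟨.ofNat 879, .negSucc 0, .negSucc 205, .negSucc 1030, .negSucc 1108, .negSucc 1924⟩, ⟨.ofNat 12, .ofNat 0, .ofNat 86, .negSucc 174, .negSucc 605, .negSucc 944⟩, .ofNat 2531, .ofNat 4278, .ofNat 0, .ofNat 4278, .ofNat 8563, .ofNat 0, .ofNat 128, .negSucc 734, .negSucc 2862, .ofNat 0, .ofNat 376, .ofNat 1398, .ofNat 0, .ofNat 0, .ofNat 2217, .ofNat 4049, .ofNat 0, .ofNat 0, .ofNat 505579314995031985789843354942648602329088, .ofNat 0, .ofNat 0, .ofNat 0, .ofNat 98211146108753072617978733322155758813446144, .ofNat 0, .ofNat 0, .ofNat 0, .ofNat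 94713260494483816892513876357768546051162112, .ofNat 0, .ofNat 0, .ofNat 0, .ofNat 188800625817319255826538976749345725736812544, .ofNat 0⟩)
    (by decide +kernel)
theorem L03173 : Good (Phi V5.P V5.D (-1) (-1)) ⟨4, 12, 4, 7, 3, 7, 3, 7, 4, 0⟩ :=
  leafX_sound T5.ok_mm T5.Ymm.bz_eq (w := 236) (c := ⟨⟨.negSucc 777, .ofNat 0, .ofNat 41, .negSucc 6, .ofNat 138, .negSucc 104⟩, ⟨.ofNat 360, .ofNat 0, .ofNat 29, .ofNat 4, .negSucc 68, .ofNat 47⟩, ⟨.ofNat 842, .ofNat 0, .ofNat 58, .ofNat 31, .negSucc 364, .negSucc 339⟩, ⟨.negSucc 1701, .negSucc 0, .ofNat 5, .negSucc 12, .ofNat 219, .negSucc 254⟩, ⟨.negSucc 1002, .negSucc 0, .negSucc 6, .negSucc 1, .ofNat 13, .negSucc 184⟩, .ofNat 2530, .ofNat 4276, .ofNat 0, .ofNat 4276, .ofNat 8559, .ofNat 0, .ofNat 128, .negSucc 499, .negSucc 1783, .ofNat 0, .ofNat 256, .ofNat 869, .ofNat 0, .ofNat 0, .ofNat 1415, .ofNat 2241, .ofNat 0, .ofNat 0, .ofNat 57078241841804842288154012050786755805184,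 .ofNat 0, .ofNat 0, .ofNat 51125239435294056726386711146113060085736407040, .ofNat 6453776174492560606679070014587569233199104, .ofNat 0, .ofNat 0, .ofNat 58380869739856349678385185001551872544059949056, .ofNat 38616055314615186687490517302563658952343552, .ofNat 0, .ofNat 0, .ofNat 0, .ofNat 27096163625098683217778845492268359391117312, .ofNat 0⟩)
    (by decide +kernel)
theorem L03174 : Good (Phi V5.P V5.D (-1) (-1)) ⟨5, 26, 4, 7, 4, 14, 3, 6, 5, 0⟩ :=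
  leafX_sound T5.ok_mm T5.Ymm.bz_eq (w := 255) (c := ⟨⟨.ofNat 840, .negSucc 47, .ofNat 94, .negSucc 359, .negSucc 945, .negSucc 670⟩, ⟨.negSucc 436, .ofNat 6, .negSucc 23, .ofNat 190, .ofNat 468, .ofNat 329⟩, ⟨.negSucc 34, .ofNat 15, .negSucc 13, .ofNat 331, .ofNat 389, .ofNat 199⟩, ⟨.ofNat 1402, .negSucc 114, .ofNat 204, .negSucc 584, .negSucc 1897, .negSucc 1364⟩, ⟨.ofNat 227, .negSucc 70, .ofNat 147, .negSucc 76, .negSucc 881, .negSucc 660⟩, .ofNat 1186, .ofNat 1637, .ofNat 0, .ofNat 1637, .ofNat 3287, .ofNat 0, .ofNat 128, .negSucc 416, .negSucc 1365, .ofNat 0, .ofNat 222, .ofNat 672, .ofNat 0, .ofNat 0, .ofNat 1008, .ofNat 1405, .ofNat 0, .ofNat 0, .ofNat 14539813143239473436528666639396281988998496256, .ofNat 0, .ofNat 0, .ofNat 0, .ofNat 0, .ofNat 0, .ofNat 0, .ofNat 0, .ofNat 0, .ofNat 0, .ofNat 0, .ofNat 0, .ofNat 0, .ofNat 0⟩)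
    (by decide +kernel)
theorem L03175 : Good (Phi V5.P V5.D (-1) (-1)) ⟨5, 26, 4, 7, 4, 14, 3, 6, 5, 1⟩ :=
  leafX_sound T5.ok_mm T5.Ymm.bz_eq (w := 257) (c := ⟨⟨.negSucc 279, .negSucc 240, .ofNat 283, .negSucc 70, .negSucc 386, .negSucc 348⟩, ⟨.ofNat 107, .ofNat 82, .negSucc 71, .ofNat 38, .ofNat 193, .ofNat 172⟩, ⟨.ofNat 463, .ofNat 122, .negSucc 112, .ofNat 107, .ofNat 48, .ofNat 10⟩, ⟨.negSucc 650, .negSucc 474, .ofNat 512, .negSucc 176, .negSucc 851, .negSucc 808⟩, ⟨.negSucc 437, .negSucc 255, .ofNat 236, .negSucc 136, .negSucc 507, .negSucc 539⟩, .ofNat 1713, .ofNat 2588, .ofNat 0, .ofNat 2588, .ofNat 5034, .ofNat 0, .ofNat 128, .negSucc 420, .negSucc 1424, .ofNat 0, .ofNat 226, .ofNat 718, .ofNat 0, .ofNat 0, .ofNat 1048, .ofNat 1595, .ofNat 0, .ofNat 0, .ofNat 9915500026858901617774899204845378355467386880, .ofNat 0, .ofNat 0, .ofNat 0, .ofNat 1632857598021799589980876954633028038238761123840,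 .ofNat 0, .ofNat 0, .ofNat 0, .ofNat 0, .ofNat 0, .ofNat 0, .ofNat 0, .ofNat 0, .ofNat 0⟩)
    (by decide +kernel)
theorem L03176 : Good (Phi V5.P V5.D (-1) (-1)) ⟨5, 27, 5, 14, 4, 14, 3, 6, 4, 0⟩ :=
  out_sound (S := T5.ds_mm) T5.ok_mm (w := 61) (j := 3) (by decide +kernel)
theorem L03177 : Good (Phi V5.P V5.D (-1) (-1)) ⟨5, 27, 5, 15, 4, 14, 3, 6, 5, 0⟩ :=
  leafX_sound T5.ok_mm T5.Ymm.bz_eq (w := 258) (c := ⟨⟨.ofNat 1225, .negSucc 125, .ofNat 54, .negSucc 509, .negSucc 1146, .negSucc 884⟩, ⟨.negSucc 668, .ofNat 45, .negSucc 16, .ofNat 278, .ofNat 597, .ofNat 456⟩, ⟨.negSucc 308, .ofNat 98, .negSucc 6, .ofNat 450, .ofNat 501, .ofNat 364⟩, ⟨.ofNat 2014, .negSucc 223, .ofNat 105, .negSucc 796, .negSucc 2251, .negSucc 1716⟩, ⟨.ofNat 343, .negSucc 64, .ofNat 63, .negSucc 79, .negSucc 985, .negSucc 733⟩, .ofNat 1237, .ofNat 1650, .ofNat 0, .ofNat 1650, .ofNat 3115, .ofNat 0, .ofNat 128, .negSucc 242,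 .negSucc 1162, .ofNat 0, .ofNat 135, .ofNat 606, .ofNat 0, .ofNat 0, .ofNat 830, .ofNat 1971, .ofNat 0, .ofNat 0, .ofNat 18975789274467967902829865178866136637629267968, .ofNat 0, .ofNat 0, .ofNat 0, .ofNat 2354192752509658347792800968164419580961537130496, .ofNat 0, .ofNat 0, .ofNat 0, .ofNat 3479247768924034405172316856123497813941040447488, .ofNat 0, .ofNat 0, .ofNat 0, .ofNat 5926170171162017323312973738683564246295648403456, .ofNat 0⟩)
    (by decide +kernel)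
theorem L03178 : Good (Phi V5.P V5.D (-1) (-1)) ⟨5, 27, 5, 15, 4, 14, 3, 6, 5, 1⟩ :=
  leafX_sound T5.ok_mm T5.Ymm.bz_eq (w := 260) (c := ⟨⟨.negSucc 181, .negSucc 2, .negSucc 57, .negSucc 133, .negSucc 523, .negSucc 454⟩, ⟨.ofNat 49, .negSucc 36, .ofNat 65, .ofNat 73, .ofNat 270, .ofNat 232⟩, ⟨.ofNat 425, .negSucc 33, .ofNat 61, .ofNat 139, .ofNat 117, .ofNat 63⟩, ⟨.negSucc 690, .ofNat 4, .negSucc 92, .negSucc 193, .negSucc 988, .negSucc 884⟩, ⟨.negSucc 778, .negSucc 15, .ofNat 16, .ofNat 6, .negSucc 387, .negSucc 385⟩, .ofNat 2123, .ofNat 3155, .ofNat 0, .ofNat 3155, .ofNat 5707, .ofNat 0, .ofNat 128, .negSucc 210, .negSucc 1509, .ofNat 0, .ofNat 119, .ofNat 806, .ofNat 0, .ofNat 0, .ofNat 1071, .ofNat 2212, .ofNat 0, .ofNat 0, .ofNat 36147832364852759825033258346316988447390171136, .ofNat 0, .ofNat 0, .ofNat 0, .ofNat 30376688830424091992691261589414306729404697411584, .ofNat 0, .ofNat 0, .ofNat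 0, .ofNat 847771423910460010722774203895225160502257647616, .ofNat 0, .ofNat 0, .ofNat 0, .ofNat 2682595594560714097571595539804764235750279479296, .ofNat 0⟩)
    (by decide +kernel)
theorem L03179 : Good (Phi V5.P V5.D (-1) (-1)) ⟨4, 13, 4, 7, 4, 14, 4, 14, 5, 0⟩ :=
  leafX_sound T5.ok_mm T5.Ymm.bz_eq (w := 256) (c := ⟨⟨.negSucc 472, .negSucc 235, .ofNat 71, .negSucc 57, .negSucc 183, .negSucc 314⟩, ⟨.ofNat 209, .ofNat 53, .ofNat 33, .ofNat 30, .ofNat 89, .ofNat 153⟩, ⟨.ofNat 643, .ofNat 75, .ofNat 6, .ofNat 57, .negSucc 9, .negSucc 21⟩, ⟨.negSucc 1101, .negSucc 415, .ofNat 116, .negSucc 121, .negSucc 385, .negSucc 679⟩, ⟨.negSucc 748, .negSucc 183, .ofNat 79, .negSucc 64, .negSucc 199, .negSucc 383⟩, .ofNat 1101, .ofNat 1429, .ofNat 0, .ofNat 1429, .ofNat 2774, .ofNat 0, .ofNat 128, .negSucc 364, .negSucc 1903, .ofNat 0, .ofNat 203, .ofNat 958, .ofNat 0, .ofNat 0, .ofNat 1384, .ofNat 2213, .ofNat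 0, .ofNat 0, .ofNat 556601195013427789270095358064034951276231917568, .ofNat 0, .ofNat 0, .ofNat 0, .ofNat 34928011960056747263024031001353890732710538772480, .ofNat 0, .ofNat 0, .ofNat 0, .ofNat 45548858120411844570197207179350471434062736130048, .ofNat 0, .ofNat 0, .ofNat 0, .ofNat 176065305887879170479809214428066077986569406382080, .ofNat 0⟩)
    (by decide +kernel)
theorem L03180 : Good (Phi V5.P V5.D (-1) (-1)) ⟨4, 13, 4, 7, 4, 14, 4, 14, 5, 1⟩ :=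
  leafX_sound T5.ok_mm T5.Ymm.bz_eq (w := 256) (c := ⟨⟨.negSucc 1021, .negSucc 260, .ofNat 155, .ofNat 121, .ofNat 65, .ofNat 3⟩, ⟨.ofNat 478, .ofNat 54, .ofNat 4, .negSucc 62, .negSucc 33, .negSucc 5⟩, ⟨.ofNat 776, .ofNat 82, .negSucc 43, .negSucc 57, .negSucc 156, .negSucc 205⟩, ⟨.negSucc 2215, .negSucc 499, .ofNat 253, .ofNat 213, .ofNat 115, .negSucc 0⟩, ⟨.negSucc 1290, .negSucc 288, .ofNat 113, .ofNat 58, .ofNat 37, .negSucc 0⟩, .ofNat 1101, .ofNat 1429, .ofNat 0, .ofNat 1429, .ofNat 2774, .ofNat 0, .ofNat 128, .negSucc 396, .negSucc 1608, .ofNat 0, .ofNat 220, .ofNat 805, .ofNat 0, .ofNat 0, .ofNat 1126, .ofNat 2750, .ofNat 0, .ofNat 0, .ofNat 628777172021016635385111514126471737407218647040, .ofNat 0, .ofNat 0, .ofNat 0, .ofNat 18688235186547598174436244052465263665635624222720, .ofNat 0, .ofNat 0, .ofNat 0, .ofNat 66889688171021362208201995638177694166725597069312, .ofNat 0, .ofNat 0, .ofNat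 0, .ofNat 176342080475670606239526737525835996655873473642496, .ofNat 0⟩)
    (by decide +kernel)
theorem L03181 : Good (Phi V5.P V5.D (-1) (-1)) ⟨4, 13, 4, 7, 4, 14, 4, 15, 4, 0⟩ :=
  leafX_sound T5.ok_mm T5.Ymm.bz_eq (w := 250) (c := ⟨⟨.negSucc 927, .negSucc 20, .ofNat 23, .ofNat 91, .ofNat 129, .ofNat 38⟩, ⟨.ofNat 434, .negSucc 58, .ofNat 60, .negSucc 46, .negSucc 65, .negSucc 22⟩, ⟨.ofNat 819, .negSucc 77, .ofNat 38, .negSucc 46, .negSucc 224, .negSucc 430⟩, ⟨.negSucc 1995, .negSucc 217, .ofNat 51, .ofNat 128, .ofNat 255, .ofNat 70⟩, ⟨.negSucc 1140, .negSucc 411, .ofNat 95, .negSucc 18, .ofNat 116, .ofNat 29⟩, .ofNat 1453, .ofNat 2032, .ofNat 0, .ofNat 2032, .ofNat 3831, .ofNat 0, .ofNat 128, .negSucc 330, .negSucc 951, .ofNat 0, .ofNat 185, .ofNat 486, .ofNat 0, .ofNat 0, .ofNat 719, .ofNat 1212, .ofNat 0, .ofNat 0, .ofNat 12791831505666928980857432482303709245259907072, .ofNat 0, .ofNat 0,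 .ofNat 489406845348399049944922411684879687066065999757312, .ofNat 1313417997732713719741042719601737671370789093376, .ofNat 0, .ofNat 0, .ofNat 0, .ofNat 2058567067371817666485864331445959903852290375680, .ofNat 0, .ofNat 0, .ofNat 0, .ofNat 1711549124012263041544931470285989237827741679616, .ofNat 0⟩)
    (by decide +kernel)
theorem L03182 : Good (Phi V5.P V5.D (-1) (-1)) ⟨5, 26, 4, 7, 4, 15, 3, 6, 5, 0⟩ :=
  leafX_sound T5.ok_mm T5.Ymm.bz_eq (w := 256) (c := ⟨⟨.ofNat 334, .negSucc 121, .ofNat 161, .negSucc 428, .negSucc 580, .negSucc 599⟩, ⟨.negSucc 176, .ofNat 33, .negSucc 35, .ofNat 213, .ofNat 281, .ofNat 295⟩, ⟨.ofNat 433, .ofNat 58, .negSucc 31, .ofNat 297, .ofNat 82, .ofNat 112⟩, ⟨.ofNat 610, .negSucc 177, .ofNat 289, .negSucc 837, .negSucc 1339, .negSucc 1270⟩, ⟨.ofNat 191, .negSucc 15, .ofNat 134, .negSucc 358, .negSucc 869, .negSucc 690⟩, .ofNat 1219, .ofNat 1700, .ofNat 0, .ofNat 1700,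 .ofNat 3411, .ofNat 0, .ofNat 128, .negSucc 573, .negSucc 1421, .ofNat 0, .ofNat 298, .ofNat 690, .ofNat 0, .ofNat 0, .ofNat 1004, .ofNat 2008, .ofNat 0, .ofNat 0, .ofNat 0, .ofNat 0, .ofNat 0, .ofNat 0, .ofNat 1551636468775123176744740355058006974987017125888, .ofNat 0, .ofNat 0, .ofNat 0, .ofNat 0, .ofNat 0, .ofNat 0, .ofNat 0, .ofNat 0, .ofNat 0⟩)
    (by decide +kernel)
theorem L03183 : Good (Phi V5.P V5.D (-1) (-1)) ⟨5, 26, 4, 7, 4, 15, 3, 7, 5, 0⟩ :=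
  leafX_sound T5.ok_mm T5.Ymm.bz_eq (w := 257) (c := ⟨⟨.negSucc 798, .negSucc 85, .ofNat 97, .negSucc 46, .ofNat 140, .negSucc 134⟩, ⟨.ofNat 370, .ofNat 6, .ofNat 28, .ofNat 22, .negSucc 73, .ofNat 64⟩, ⟨.ofNat 876, .ofNat 13, .negSucc 3, .ofNat 25, .negSucc 379, .negSucc 130⟩, ⟨.negSucc 1775, .negSucc 135, .ofNat 175, .negSucc 108, .ofNat 209, .negSucc 285⟩, ⟨.negSucc 1088, .negSucc 51, .ofNat 127, .negSucc 71, .negSucc 1, .negSucc 156⟩, .ofNat 1704, .ofNat 2566, .ofNat 0, .ofNat 2566, .ofNat 4977, .ofNat 0, .ofNat 128, .negSucc 511, .negSucc 1331, .ofNat 0, .ofNat 270, .ofNat 664, .ofNat 0, .ofNat 0, .ofNat 995, .ofNat 1606, .ofNat 0, .ofNat 0, .ofNat 0, .ofNat 0, .ofNat 0, .ofNat 0, .ofNat 656757366989460962835021020819028945290691346432, .ofNat 0, .ofNat 0, .ofNat 0, .ofNat 0, .ofNat 0, .ofNat 0, .ofNat 0, .ofNat 0, .ofNat 0⟩)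
    (by decide +kernel)
theorem L03184 : Good (Phi V5.P V5.D (-1) (-1)) ⟨5, 26, 4, 7, 4, 15, 3, 6, 5, 1⟩ :=
  leafX_sound T5.ok_mm T5.Ymm.bz_eq (w := 256) (c := ⟨⟨.negSucc 519, .negSucc 155, .ofNat 180, .negSucc 280, .negSucc 183, .negSucc 201⟩, ⟨.ofNat 230, .ofNat 45, .negSucc 18, .ofNat 143, .ofNat 86, .ofNat 99⟩, ⟨.ofNat 703, .ofNat 50, .negSucc 32, .ofNat 186, .negSucc 116, .negSucc 86⟩, ⟨.negSucc 1127, .negSucc 179, .ofNat 244, .negSucc 581, .negSucc 532, .negSucc 486⟩, ⟨.negSucc 658, .ofNat 64, .ofNat 16, .negSucc 296, .negSucc 480, .negSucc 340⟩, .ofNat 1739, .ofNat 2626, .ofNat 0, .ofNat 2626, .ofNat 5077, .ofNat 0, .ofNat 128, .negSucc 364, .negSucc 1147, .ofNat 0, .ofNat 193, .ofNat 573, .ofNat 0, .ofNat 0, .ofNat 824, .ofNat 1808, .ofNat 0, .ofNat 0, .ofNat 0, .ofNat 0, .ofNat 0, .ofNat 0, .ofNat 1739330546602389215482338133702529521042656854016, .ofNat 0, .ofNat 0, .ofNat 0, .ofNat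 0, .ofNat 0, .ofNat 0, .ofNat 0, .ofNat 0, .ofNat 0⟩)
    (by decide +kernel)
theorem L03185 : Good (Phi V5.P V5.D (-1) (-1)) ⟨5, 26, 4, 7, 4, 15, 3, 7, 5, 1⟩ :=
  leafX_sound T5.ok_mm T5.Ymm.bz_eq (w := 256) (c := ⟨⟨.negSucc 1118, .ofNat 55, .negSucc 30, .ofNat 32, .ofNat 435, .ofNat 214⟩, ⟨.ofNat 519, .negSucc 59, .ofNat 82, .negSucc 10, .negSucc 208, .negSucc 102⟩, ⟨.ofNat 826, .negSucc 68, .ofNat 65, .negSucc 4, .negSucc 499, .negSucc 281⟩, ⟨.negSucc 2492, .ofNat 126, .negSucc 129, .ofNat 104, .ofNat 919, .ofNat 474⟩, ⟨.negSucc 1536, .ofNat 40, .negSucc 90, .ofNat 107, .ofNat 504, .ofNat 290⟩, .ofNat 1730, .ofNat 2619, .ofNat 0, .ofNat 2619, .ofNat 5090, .ofNat 0, .ofNat 128, .negSucc 527, .negSucc 895, .ofNat 0, .ofNat 278, .ofNat 443, .ofNat 0, .ofNat 0, .ofNat 664, .ofNat 870, .ofNat 0, .ofNat 0, .ofNat 0, .ofNat 0, .ofNat 0, .ofNat 11179739336309562016530282512596992906173069356171264,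 .ofNat 1290182291857442120758088538090888493188713021440, .ofNat 0, .ofNat 0, .ofNat 0, .ofNat 0, .ofNat 0, .ofNat 0, .ofNat 0, .ofNat 0, .ofNat 0⟩)
    (by decide +kernel)
theorem L03186 : Good (Phi V5.P V5.D (-1) (-1)) ⟨5, 27, 5, 14, 4, 15, 2, 3, 4, 0⟩ :=
  out_sound (S := T5.ds_mm) T5.ok_mm (w := 61) (j := 3) (by decide +kernel)
theorem L03187 : Good (Phi V5.P V5.D (-1) (-1)) ⟨5, 27, 5, 15, 4, 15, 3, 6, 4, 0⟩ :=
  leafX_sound T5.ok_mm T5.Ymm.bz_eq (w := 255) (c := ⟨⟨.negSucc 259, .negSucc 684, .ofNat 219, .negSucc 296, .negSucc 329, .negSucc 590⟩, ⟨.ofNat 105, .ofNat 320, .negSucc 77, .ofNat 152, .ofNat 162, .ofNat 294⟩, ⟨.ofNat 807, .ofNat 349, .negSucc 82, .ofNat 201, .negSucc 73, .negSucc 122⟩, ⟨.negSucc 604, .negSucc 1029, .ofNat 402, .negSucc 592, .negSucc 750, .negSucc 1249⟩, ⟨.negSucc 412, .negSucc 122, .ofNat 175, .negSucc 276, .negSucc 473, .negSucc 681⟩, .ofNat 2009, .ofNat 2967, .ofNat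 0, .ofNat 2967, .ofNat 5393, .ofNat 0, .ofNat 128, .negSucc 383, .negSucc 1647, .ofNat 0, .ofNat 212, .ofNat 866, .ofNat 0, .ofNat 0, .ofNat 1143, .ofNat 1522, .ofNat 0, .ofNat 0, .ofNat 378699910225474856219181345201824327306051584, .ofNat 0, .ofNat 0, .ofNat 0, .ofNat 938403356131284376498540709791256194813381312512, .ofNat 0, .ofNat 0, .ofNat 0, .ofNat 315267670311146610816749589519210355070152474624, .ofNat 0, .ofNat 0, .ofNat 0, .ofNat 156013500940377911729017253605327048171581341696, .ofNat 0⟩)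
    (by decide +kernel)
theorem L03188 : Good (Phi V5.P V5.D (-1) (-1)) ⟨5, 27, 5, 15, 4, 15, 3, 7, 5, 0⟩ :=
  leafX_sound T5.ok_mm T5.Ymm.bz_eq (w := 260) (c := ⟨⟨.negSucc 923, .negSucc 137, .ofNat 45, .negSucc 15, .ofNat 244, .negSucc 127⟩, ⟨.ofNat 437, .ofNat 35, .ofNat 14, .ofNat 7, .negSucc 132, .ofNat 63⟩, ⟨.ofNat 948, .ofNat 48, .ofNat 1, .ofNat 7, .negSucc 451, .negSucc 144⟩, ⟨.negSucc 1948, .negSucc 190, .ofNat 42, .negSucc 52, .ofNat 365, .negSucc 293⟩, ⟨.negSucc 1074, .negSucc 26, .negSucc 4, .negSucc 53, .ofNat 8, .negSucc 188⟩, .ofNat 2139, .ofNat 3189, .ofNat 0, .ofNat 3189, .ofNat 5777, .ofNat 0, .ofNat 128, .negSucc 329, .negSucc 1443, .ofNat 0, .ofNat 182, .ofNat 759, .ofNat 0, .ofNat 0, .ofNat 1034, .ofNat 1118, .ofNat 0, .ofNat 0, .ofNat 5438688395985573221595270129448595706653704192, .ofNat 0, .ofNat 0, .ofNat 35155740397740128514906457077592053925300527721086976, .ofNat 22078900358746765601481690652138758083403011063808,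 .ofNat 0, .ofNat 0, .ofNat 0, .ofNat 0, .ofNat 0, .ofNat 0, .ofNat 0, .ofNat 0, .ofNat 0⟩)
    (by decide +kernel)
theorem L03189 : Good (Phi V5.P V5.D (-1) (-1)) ⟨5, 27, 5, 15, 4, 15, 3, 7, 5, 1⟩ :=
  leafX_sound T5.ok_mm T5.Ymm.bz_eq (w := 258) (c := ⟨⟨.negSucc 1166, .ofNat 152, .negSucc 17, .ofNat 43, .ofNat 501, .ofNat 274⟩, ⟨.ofNat 557, .negSucc 101, .ofNat 42, .negSucc 17, .negSucc 256, .negSucc 140⟩, ⟨.ofNat 840, .negSucc 70, .ofNat 26, .ofNat 0, .negSucc 546, .negSucc 309⟩, ⟨.negSucc 2454, .ofNat 182, .negSucc 73, .ofNat 107, .ofNat 929, .ofNat 464⟩, ⟨.negSucc 1343, .negSucc 76, .negSucc 55, .ofNat 82, .ofNat 346, .ofNat 112⟩, .ofNat 2102, .ofNat 3126, .ofNat 0, .ofNat 3126, .ofNat 5669, .ofNat 0, .ofNat 128, .negSucc 265, .negSucc 500, .ofNat 0, .ofNat 147, .ofNat 262, .ofNat 0, .ofNat 0, .ofNat 353, .ofNat 1555, .ofNat 0, .ofNat 0, .ofNat 14111480227037546344105520822867387865521717248,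 .ofNat 0, .ofNat 0, .ofNat 122836173824040369686009378154477945273607050242293760, .ofNat 18414645327906397153833798865890135555807037620224, .ofNat 0, .ofNat 0, .ofNat 57651916090173933705923955567417192613422480700211200, .ofNat 794283416181718073835948441541775716111693643776, .ofNat 0, .ofNat 0, .ofNat 0, .ofNat 818473307661297668937551713074406555337386622976, .ofNat 0⟩)
    (by decide +kernel)
theorem L03190 : Good (Phi V5.P V5.D (-1) (-1)) ⟨4, 12, 4, 7, 3, 7, 2, 3, 4, 1⟩ :=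
  leafX_sound T5.ok_mm T5.Ymm.bz_eq (w := 231) (c := ⟨⟨.negSucc 1362, .negSucc 0, .negSucc 237, .ofNat 458, .ofNat 540, .negSucc 57⟩, ⟨.ofNat 638, .ofNat 0, .ofNat 174, .negSucc 220, .negSucc 253, .ofNat 29⟩, ⟨.ofNat 937, .ofNat 0, .negSucc 104, .negSucc 171, .negSucc 675, .negSucc 325⟩, ⟨.negSucc 2840, .negSucc 0, .negSucc 91, .ofNat 853, .ofNat 1082, .negSucc 104⟩, ⟨.negSucc 1469, .negSucc 0, .ofNat 33, .ofNat 289, .ofNat 498, .negSucc 26⟩, .ofNat 2529, .ofNat 4273, .ofNat 0, .ofNat 4273, .ofNat 8554, .ofNat 0, .ofNat 128, .negSucc 942, .negSucc 1019, .ofNat 0, .ofNat 489, .ofNat 497, .ofNat 0, .ofNat 0, .ofNat 901, .ofNat 1188, .ofNat 0, .ofNat 0, .ofNat 10722362163658600092409706372402593660928, .ofNat 0, .ofNat 0, .ofNat 10069431506102983723558259569410023213945061376, .ofNat 175666260250817832925869460747586918940672, .ofNat 0, .ofNat 0, .ofNat 46267120420909615472163512821026665355615928320,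 .ofNat 3245507358875522623519883883931339298177024, .ofNat 0, .ofNat 0, .ofNat 0, .ofNat 1413842204183669340143139005408072047788032, .ofNat 0⟩)
    (by decide +kernel)
theorem L03191 : Good (Phi V5.P V5.D (-1) (-1)) ⟨5, 26, 4, 7, 3, 7, 3, 6, 5, 2⟩ :=
  leafX_sound T5.ok_mm T5.Ymm.bz_eq (w := 241) (c := ⟨⟨.negSucc 1210, .negSucc 29, .ofNat 118, .ofNat 241, .ofNat 250, .negSucc 21⟩, ⟨.ofNat 569, .negSucc 26, .ofNat 28, .negSucc 116, .negSucc 124, .ofNat 9⟩, ⟨.ofNat 833, .negSucc 13, .negSucc 18, .negSucc 25, .negSucc 313, .negSucc 179⟩, ⟨.negSucc 2584, .negSucc 96, .ofNat 202, .ofNat 544, .ofNat 468, .negSucc 101⟩, ⟨.negSucc 1457, .negSucc 148, .ofNat 132, .ofNat 345, .ofNat 191, .negSucc 117⟩, .ofNat 1239, .ofNat 1734, .ofNat 0, .ofNat 1734, .ofNat 3465, .ofNat 0, .ofNat 128, .negSucc 447, .negSucc 1314, .ofNat 0, .ofNat 239, .ofNat 645, .ofNat 0, .ofNat 0, .ofNat 960, .ofNat 1544, .ofNat 0, .ofNat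 0, .ofNat 0, .ofNat 0, .ofNat 0, .ofNat 0, .ofNat 30633679951835862733544492000938576163373056, .ofNat 0, .ofNat 0, .ofNat 0, .ofNat 0, .ofNat 0, .ofNat 0, .ofNat 0, .ofNat 0, .ofNat 0⟩)
    (by decide +kernel)
theorem L03192 : Good (Phi V5.P V5.D (-1) (-1)) ⟨5, 27, 4, 7, 3, 7, 3, 6, 5, 2⟩ :=
  leafX_sound T5.ok_mm T5.Ymm.bz_eq (w := 241) (c := ⟨⟨.negSucc 1508, .ofNat 100, .ofNat 203, .ofNat 278, .ofNat 387, .ofNat 45⟩, ⟨.ofNat 687, .negSucc 92, .negSucc 18, .negSucc 137, .negSucc 202, .negSucc 25⟩, ⟨.ofNat 982, .negSucc 86, .negSucc 81, .negSucc 32, .negSucc 394, .negSucc 219⟩, ⟨.negSucc 3034, .ofNat 40, .ofNat 271, .ofNat 563, .ofNat 697, .ofNat 23⟩, ⟨.negSucc 1529, .negSucc 210, .ofNat 27, .ofNat 278, .ofNat 237, .negSucc 56⟩, .ofNat 1238, .ofNat 1652, .ofNat 0, .ofNat 1652, .ofNat 3118, .ofNat 0, .ofNat 128, .negSucc 481, .negSucc 1185, .ofNat 0, .ofNat 269, .ofNat 611, .ofNat 0, .ofNat 0,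 .ofNat 813, .ofNat 1639, .ofNat 0, .ofNat 0, .ofNat 284001329316709329724462888066792302837760, .ofNat 0, .ofNat 0, .ofNat 0, .ofNat 111465125458289622531133777161409841961369600, .ofNat 0, .ofNat 0, .ofNat 0, .ofNat 12262512349248490146446000113151412757594112, .ofNat 0, .ofNat 0, .ofNat 0, .ofNat 91434692966968433338832054577987450755350528, .ofNat 0⟩)
    (by decide +kernel)
theorem L03193 : Good (Phi V5.P V5.D (-1) (-1)) ⟨4, 13, 4, 7, 3, 7, 3, 7, 5, 2⟩ :=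
  leafX_sound T5.ok_mm T5.Ymm.bz_eq (w := 236) (c := ⟨⟨.negSucc 1288, .ofNat 290, .ofNat 0, .ofNat 430, .ofNat 539, .ofNat 233⟩, ⟨.ofNat 607, .negSucc 207, .ofNat 62, .negSucc 205, .negSucc 259, .negSucc 112⟩, ⟨.ofNat 694, .negSucc 231, .ofNat 46, .negSucc 128, .negSucc 522, .negSucc 271⟩, ⟨.negSucc 2793, .ofNat 507, .negSucc 22, .ofNat 912, .ofNat 1146, .ofNat 501⟩, ⟨.negSucc 1616, .ofNat 56, .ofNat 21, .ofNat 501, .ofNat 639, .ofNat 287⟩, .ofNat 1453, .ofNat 2032, .ofNat 0, .ofNat 2032, .ofNat 3831, .ofNat 0, .ofNat 128, .negSucc 439, .negSucc 631, .ofNat 0, .ofNat 243, .ofNat 319, .ofNat 0, .ofNat 0, .ofNat 463, .ofNat 149, .ofNat 0, .ofNat 0, .ofNat 713672248924884936201601497415811038445568, .ofNat 0, .ofNat 0, .ofNat 0, .ofNat 147290457294160204470392088437009688704319488, .ofNat 0, .ofNat 0, .ofNat 0, .ofNat 0, .ofNat 0, .ofNat 0, .ofNat 0, .ofNat 108172446682164598159381284813599864115953664,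 .ofNat 0⟩)
    (by decide +kernel)
theorem L03194 : Good (Phi V5.P V5.D (-1) (-1)) ⟨4, 13, 4, 7, 3, 7, 2, 3, 5, 3⟩ :=
  leafX_sound T5.ok_mm T5.Ymm.bz_eq (w := 232) (c := ⟨⟨.negSucc 1610, .ofNat 199, .ofNat 49, .ofNat 621, .ofNat 969, .ofNat 108⟩, ⟨.ofNat 766, .negSucc 187, .ofNat 61, .negSucc 305, .negSucc 473, .negSucc 51⟩, ⟨.ofNat 834, .negSucc 170, .ofNat 24, .negSucc 187, .negSucc 793, .negSucc 194⟩, ⟨.negSucc 3414, .ofNat 325, .ofNat 92, .ofNat 1239, .ofNat 2146, .ofNat 261⟩, ⟨.negSucc 1852, .negSucc 74, .ofNat 114, .ofNat 557, .ofNat 1296, .ofNat 182⟩, .ofNat 1101, .ofNat 1429, .ofNat 0, .ofNat 1429, .ofNat 2774, .ofNat 0, .ofNat 128, .negSucc 504, .negSucc 606, .ofNat 0, .ofNat 284, .ofNat 302, .ofNat 0, .ofNat 0, .ofNat 509, .ofNat 296, .ofNat 0, .ofNat 0, .ofNat 0, .ofNat 0, .ofNat 0, .ofNat 35021780112619875805072772227224064860350316544, .ofNat 4775156102507873842045577863147260106244096,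 .ofNat 0, .ofNat 0, .ofNat 81046034997655174055946011804024126538266968064, .ofNat 7333420996710728598817663430690381162872832, .ofNat 0, .ofNat 0, .ofNat 0, .ofNat 9861717259212438806409674114327321180635136, .ofNat 0⟩)
    (by decide +kernel)
theorem L03195 : Good (Phi V5.P V5.D (-1) (-1)) ⟨3, 7, 4, 7, 3, 7, 2, 3, 3, 0⟩ :=
  out_sound (S := T5.ds_mm) T5.ok_mm (w := 47) (j := 3) (by decide +kernel)
theorem L03196 : Good (Phi V5.P V5.D (-1) (-1)) ⟨2, 2, 3, 3, 2, 3, 1, 1, 3, 1⟩ :=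
  out_sound (S := T5.ds_mm) T5.ok_mm (w := 39) (j := 3) (by decide +kernel)
theorem L03197 : Good (Phi V5.P V5.D (-1) (-1)) ⟨4, 12, 3, 3, 3, 6, 2, 2, 4, 2⟩ :=
  leafX_sound T5.ok_mm T5.Ymm.bz_eq (w := 225) (c := ⟨⟨.negSucc 3146, .negSucc 462, .ofNat 287, .ofNat 904, .ofNat 661, .ofNat 646⟩, ⟨.ofNat 1384, .ofNat 211, .ofNat 143, .negSucc 437, .negSucc 300, .negSucc 295⟩, ⟨.ofNat 1982, .ofNat 251, .negSucc 194, .negSucc 654, .negSucc 633, .negSucc 660⟩, ⟨.negSucc 5770, .negSucc 570, .ofNat 399, .ofNat 1292, .ofNat 1160, .ofNat 1181⟩, ⟨.negSucc 1431, .negSucc 182, .ofNat 132, .negSucc 274, .ofNat 261, .ofNat 387⟩, .ofNat 1081, .ofNat 1564, .ofNat 0, .ofNat 1564, .ofNat 3512, .ofNat 0, .ofNat 128, .negSucc 456, .negSucc 464, .ofNat 0, .ofNat 251, .ofNat 218, .ofNat 0, .ofNat 0, .ofNat 626, .ofNat 1023, .ofNat 0, .ofNat 0, .ofNat 693846602048080434157857753736694202368, .ofNat 0, .ofNat 0, .ofNat 0,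 .ofNat 4050425151694037524319989241347953393664, .ofNat 0, .ofNat 0, .ofNat 0, .ofNat 352322928023201344462172041991059950010368, .ofNat 0, .ofNat 0, .ofNat 0, .ofNat 72655016946878465896786525690971434254336, .ofNat 0⟩)
    (by decide +kernel)
theorem L03198 : Good (Phi V5.P V5.D (-1) (-1)) ⟨4, 13, 3, 3, 3, 6, 2, 2, 4, 2⟩ :=
  leafX_sound T5.ok_mm T5.Ymm.bz_eq (w := 224) (c := ⟨⟨.negSucc 3748, .negSucc 424, .ofNat 189, .ofNat 1112, .ofNat 688, .ofNat 725⟩, ⟨.ofNat 1718, .ofNat 217, .ofNat 178, .negSucc 605, .negSucc 333, .negSucc 360⟩, ⟨.ofNat 2331, .ofNat 260, .negSucc 145, .negSucc 772, .negSucc 648, .negSucc 743⟩, ⟨.negSucc 6485, .negSucc 592, .ofNat 260, .ofNat 1562, .ofNat 1110, .ofNat 1270⟩, ⟨.negSucc 1608, .negSucc 325, .ofNat 122, .negSucc 183, .ofNat 127, .ofNat 379⟩, .ofNat 1103, .ofNat 1479, .ofNat 0, .ofNat 1479, .ofNat 2984, .ofNat 0, .ofNat 128, .negSucc 357, .negSucc 315, .ofNat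 0, .ofNat 216, .ofNat 164, .ofNat 0, .ofNat 0, .ofNat 414, .ofNat 388, .ofNat 0, .ofNat 0, .ofNat 1294233073815106890399838312764872327168, .ofNat 0, .ofNat 0, .ofNat 0, .ofNat 85328512959792818351998456015941831491584, .ofNat 0, .ofNat 0, .ofNat 0, .ofNat 248286041546355822639364353847134663999488, .ofNat 0, .ofNat 0, .ofNat 0, .ofNat 107220066822082024023342205975294816288768, .ofNat 0⟩)
    (by decide +kernel)
theorem L03199 : Good (Phi V5.P V5.D (-1) (-1)) ⟨3, 6, 3, 3, 3, 6, 2, 2, 4, 3⟩ :=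
  leafX_sound T5.ok_mm T5.Ymm.bz_eq (w := 219) (c := ⟨⟨.negSucc 2645, .ofNat 30, .negSucc 172, .ofNat 648, .ofNat 379, .ofNat 491⟩, ⟨.ofNat 1194, .negSucc 67, .ofNat 355, .negSucc 340, .negSucc 174, .negSucc 243⟩, ⟨.ofNat 1464, .negSucc 54, .negSucc 0, .negSucc 513, .negSucc 652, .negSucc 618⟩, ⟨.negSucc 4863, .ofNat 283, .negSucc 251, .ofNat 945, .ofNat 914, .ofNat 982⟩, ⟨.negSucc 1320, .negSucc 88, .ofNat 50, .negSucc 85, .ofNat 653, .ofNat 468⟩, .ofNat 631, .ofNat 672, .ofNat 0, .ofNat 672, .ofNat 1551, .ofNat 0, .ofNat 128, .negSucc 491, .negSucc 153, .ofNat 0, .ofNat 341, .ofNat 71, .ofNat 0, .ofNat 0, .ofNat 565, .ofNat 520, .ofNat 0, .ofNat 0, .ofNat 3747683534970748671876832137903603712000, .ofNat 0, .ofNat 0, .ofNat 5449327705821134900146075930200582242959360, .ofNat 202226834815455181081304623623568527196160, .ofNat 0, .ofNat 0, .ofNat 172325773787086038464972459683439504986734592, .ofNat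 816507135865152658022624486451075579117568, .ofNat 0, .ofNat 0, .ofNat 97683659953870775170902467372687061797568512, .ofNat 334181327624407982858323079256892216705024, .ofNat 0⟩)
    (by decide +kernel)
theorem L03200 : Good (Phi V5.P V5.D (-1) (-1)) ⟨3, 7, 3, 3, 3, 6, 2, 2, 3, 1⟩ :=
  out_sound (S := T5.ds_mm) T5.ok_mm (w := 45) (j := 3) (by decide +kernel)
theorem L03201 : Good (Phi V5.P V5.D (-1) (-1)) ⟨3, 6, 3, 3, 3, 6, 2, 3, 5, 4⟩ :=
  leafX_sound T5.ok_mm T5.Ymm.bz_eq (w := 224) (c := ⟨⟨.negSucc 2631, .negSucc 293, .ofNat 108, .ofNat 999, .ofNat 954, .ofNat 201⟩, ⟨.ofNat 1181, .ofNat 116, .ofNat 160, .negSucc 511, .negSucc 442, .negSucc 79⟩, ⟨.ofNat 1508, .negSucc 17, .negSucc 39, .negSucc 704, .negSucc 891, .negSucc 293⟩, ⟨.negSucc 4860, .negSucc 327, .ofNat 115, .ofNat 1527, .ofNat 2075, .ofNat 491⟩, ⟨.negSucc 1302, .negSucc 467, .ofNat 77, .negSucc 28, .ofNat 1205, .ofNat 325⟩, .ofNat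 640, .ofNat 687, .ofNat 0, .ofNat 687, .ofNat 1579, .ofNat 0, .ofNat 128, .negSucc 302, .negSucc 454, .ofNat 0, .ofNat 179, .ofNat 208, .ofNat 0, .ofNat 0, .ofNat 464, .ofNat 136, .ofNat 0, .ofNat 0, .ofNat 34673090438420620784852451866641847812096, .ofNat 0, .ofNat 0, .ofNat 0, .ofNat 4875339164572355742795182890558338969370624, .ofNat 0, .ofNat 0, .ofNat 72693938663183950500830380207817793386577920, .ofNat 1836783107795219296862496867076212638351360, .ofNat 0, .ofNat 0, .ofNat 23870322834371386239016078650177540367319040, .ofNat 3791158198118728271915445137502332732309504, .ofNat 0⟩)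
    (by decide +kernel)
theorem L03202 : Good (Phi V5.P V5.D (-1) (-1)) ⟨3, 6, 3, 3, 3, 6, 2, 3, 5, 5⟩ :=
  leafX_sound T5.ok_mm T5.Ymm.bz_eq (w := 224) (c := ⟨⟨.negSucc 2251, .negSucc 128, .negSucc 30, .ofNat 746, .ofNat 711, .ofNat 153⟩, ⟨.ofNat 1005, .ofNat 43, .ofNat 211, .negSucc 371, .negSucc 297, .negSucc 67⟩, ⟨.ofNat 1132, .negSucc 161, .ofNat 4, .negSucc 529, .negSucc 814, .negSucc 302⟩, ⟨.negSucc 4179, .ofNat 84, .negSucc 134, .ofNat 1134, .ofNat 1794, .ofNat 430⟩, ⟨.negSucc 1139, .negSucc 74, .negSucc 74, .negSucc 49, .ofNat 1401, .ofNat 405⟩, .ofNat 632, .ofNat 674, .ofNat 0, .ofNat 674, .ofNat 1558, .ofNat 0, .ofNat 128, .negSucc 310, .negSucc 159, .ofNat 0, .ofNat 193, .ofNat 73, .ofNat 0, .ofNat 0, .ofNat 263, .ofNat 269, .ofNat 0, .ofNat 0, .ofNat 0, .ofNat 0, .ofNat 0, .ofNat 269723424400193769282405108096579150070939648, .ofNat 2444112632608941692246093688523356553347072, .ofNat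 0, .ofNat 0, .ofNat 637588115737870796666886449693884682271195136, .ofNat 8476583693849773090350627285418526650662912, .ofNat 0, .ofNat 0, .ofNat 31092762472390658567037112076842686629281792, .ofNat 3493274652113663894064228112503627162058752, .ofNat 0⟩)
    (by decide +kernel)
theorem L03203 : Good (Phi V5.P V5.D (-1) (-1)) ⟨3, 6, 3, 3, 3, 6, 3, 6, 5, 6⟩ :=
  leafX_sound T5.ok_mm T5.Ymm.bz_eq (w := 228) (c := ⟨⟨.negSucc 1988, .negSucc 40, .negSucc 52, .ofNat 509, .ofNat 212, .ofNat 51⟩, ⟨.ofNat 847, .ofNat 103, .ofNat 166, .negSucc 248, .negSucc 67, .negSucc 3⟩, ⟨.ofNat 810, .negSucc 215, .negSucc 13, .negSucc 440, .negSucc 399, .negSucc 329⟩, ⟨.negSucc 3646, .ofNat 216, .negSucc 118, .ofNat 864, .ofNat 713, .ofNat 321⟩, ⟨.negSucc 811, .negSucc 197, .ofNat 2, .ofNat 169, .ofNat 776, .ofNat 476⟩, .ofNat 628, .ofNat 667, .ofNat 0, .ofNat 667, .ofNat 1551, .ofNat 0, .ofNat 128, .negSucc 382, .negSucc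 87, .ofNat 0, .ofNat 251, .ofNat 35, .ofNat 0, .ofNat 0, .ofNat 346, .ofNat 648, .ofNat 0, .ofNat 0, .ofNat 0, .ofNat 0, .ofNat 0, .ofNat 0, .ofNat 108162618644581942332787618195962988635095040, .ofNat 0, .ofNat 0, .ofNat 6496425186493881758293956460728391730299142144, .ofNat 180990781252315832120678413919504966206095360, .ofNat 0, .ofNat 0, .ofNat 2193294368715458210938744778744393885783425024, .ofNat 44942899590405090008975073758945050198278144, .ofNat 0⟩)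
    (by decide +kernel)
theorem L03204 : Good (Phi V5.P V5.D (-1) (-1)) ⟨3, 6, 3, 3, 3, 6, 3, 6, 5, 7⟩ :=
  leafX_sound T5.ok_mm T5.Ymm.bz_eq (w := 227) (c := ⟨⟨.negSucc 1775, .negSucc 130, .negSucc 80, .ofNat 332, .ofNat 99, .negSucc 4⟩, ⟨.ofNat 732, .ofNat 213, .ofNat 155, .negSucc 148, .negSucc 7, .ofNat 28⟩, ⟨.ofNat 589, .negSucc 297, .negSucc 57, .negSucc 530, .negSucc 505, .negSucc 443⟩, ⟨.negSucc 3167, .ofNat 140, .negSucc 96, .ofNat 676, .ofNat 556, .ofNat 227⟩, ⟨.negSucc 448, .negSucc 148, .ofNat 88, .ofNat 331, .ofNat 811, .ofNat 456⟩, .ofNat 628, .ofNat 668, .ofNat 0, .ofNat 668, .ofNat 1555, .ofNat 0, .ofNat 128, .negSucc 319, .negSucc 35, .ofNat 0, .ofNat 218, .ofNat 6, .ofNat 0, .ofNat 0, .ofNat 428, .ofNat 432, .ofNat 0, .ofNat 0, .ofNat 0, .ofNat 0, .ofNat 0, .ofNat 0, .ofNat 120169999548360190879899553292490075828912128, .ofNat 0, .ofNat 0, .ofNat 11995774239000463938730748929919197794585804800,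 .ofNat 166821833507181352071799089534695068982575104, .ofNat 0, .ofNat 0, .ofNat 11020677885151776007636600259077701033070166016, .ofNat 86734190981725377631945403938338349783187456, .ofNat 0⟩)
    (by decide +kernel)
theorem L03205 : Good (Phi V5.P V5.D (-1) (-1)) ⟨3, 6, 3, 3, 3, 6, 3, 7, 4, 3⟩ :=
  leafX_sound T5.ok_mm T5.Ymm.bz_eq (w := 223) (c := ⟨⟨.negSucc 1720, .negSucc 25, .negSucc 61, .ofNat 382, .ofNat 301, .ofNat 106⟩, ⟨.ofNat 729, .ofNat 158, .ofNat 143, .negSucc 184, .negSucc 94, .ofNat 1⟩, ⟨.ofNat 394, .negSucc 206, .negSucc 24, .negSucc 475, .negSucc 512, .negSucc 700⟩, ⟨.negSucc 2850, .ofNat 294, .negSucc 132, .ofNat 636, .ofNat 939, .ofNat 696⟩, ⟨.ofNat 14, .negSucc 136, .negSucc 60, .ofNat 87, .ofNat 900, .ofNat 1012⟩, .ofNat 345, .ofNat 222, .ofNat 0, .ofNat 222, .ofNat 647, .ofNat 0, .ofNat 128, .negSucc 152, .negSucc 75, .ofNat 0, .ofNat 116, .ofNat 26, .ofNat 0, .ofNat 0, .ofNat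 131, .ofNat 1699, .ofNat 0, .ofNat 0, .ofNat 0, .ofNat 0, .ofNat 0, .ofNat 745209002811957087516531770505023880416985088, .ofNat 1105968037921169394509891792529267925975040, .ofNat 0, .ofNat 0, .ofNat 3160408971208236396800325643788939166467751936, .ofNat 912373401865256216803035973730670288568320, .ofNat 0, .ofNat 0, .ofNat 640325023074693517230335090404707648948666368, .ofNat 0, .ofNat 0⟩)
    (by decide +kernel)
theorem L03206 : Good (Phi V5.P V5.D (-1) (-1)) ⟨3, 7, 3, 3, 3, 6, 2, 3, 3, 1⟩ :=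
  out_sound (S := T5.ds_mm) T5.ok_mm (w := 45) (j := 3) (by decide +kernel)
theorem L03207 : Good (Phi V5.P V5.D (-1) (-1)) ⟨4, 12, 3, 3, 3, 7, 2, 2, 4, 2⟩ :=
  leafX_sound T5.ok_mm T5.Ymm.bz_eq (w := 223) (c := ⟨⟨.negSucc 2207, .negSucc 8, .ofNat 22, .ofNat 584, .ofNat 613, .ofNat 245⟩, ⟨.ofNat 956, .negSucc 29, .ofNat 194, .negSucc 259, .negSucc 271, .negSucc 96⟩, ⟨.ofNat 1258, .negSucc 4, .ofNat 26, .negSucc 269, .negSucc 558, .negSucc 393⟩, ⟨.negSucc 4454, .ofNat 59, .negSucc 7, .ofNat 1106, .ofNat 1184, .ofNat 616⟩, ⟨.negSucc 1925, .negSucc 95, .ofNat 95, .ofNat 390, .ofNat 452, .ofNat 488⟩, .ofNat 616, .ofNat 667, .ofNat 0, .ofNat 667, .ofNat 1658, .ofNat 0, .ofNat 128, .negSucc 304, .negSucc 214, .ofNat 0, .ofNat 188, .ofNat 89, .ofNat 0, .ofNat 0, .ofNat 354, .ofNat 936, .ofNat 0, .ofNat 0, .ofNat 115539320298062738370056730862484979712, .ofNat 0, .ofNat 0, .ofNat 0, .ofNat 13067505108385586814913480459461599428608,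 .ofNat 0, .ofNat 0, .ofNat 0, .ofNat 30214239939276489157334203392886445178880, .ofNat 0, .ofNat 0, .ofNat 0, .ofNat 45951848080516931047203409394351015460864, .ofNat 0⟩)
    (by decide +kernel)
theorem L03208 : Good (Phi V5.P V5.D (-1) (-1)) ⟨4, 12, 3, 3, 3, 7, 2, 3, 5, 4⟩ :=
  leafX_sound T5.ok_mm T5.Ymm.bz_eq (w := 228) (c := ⟨⟨.negSucc 1667, .ofNat 199, .negSucc 72, .ofNat 632, .ofNat 722, .ofNat 53⟩, ⟨.ofNat 731, .negSucc 135, .ofNat 181, .negSucc 280, .negSucc 285, .negSucc 10⟩, ⟨.ofNat 715, .negSucc 138, .ofNat 107, .negSucc 191, .negSucc 604, .negSucc 152⟩, ⟨.negSucc 3431, .ofNat 367, .negSucc 102, .ofNat 1220, .ofNat 1756, .ofNat 243⟩, ⟨.negSucc 1634, .negSucc 39, .ofNat 180, .ofNat 483, .ofNat 1328, .ofNat 340⟩, .ofNat 1061, .ofNat 1521, .ofNat 0, .ofNat 1521, .ofNat 3415, .ofNat 0, .ofNat 128, .negSucc 398, .negSucc 304, .ofNat 0, .ofNat 211, .ofNat 133, .ofNat 0, .ofNat 0, .ofNat 467,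 .ofNat 252, .ofNat 0, .ofNat 0, .ofNat 0, .ofNat 0, .ofNat 0, .ofNat 0, .ofNat 0, .ofNat 0, .ofNat 0, .ofNat 8668790385006409952935745715242162439176847360, .ofNat 5016576054978003339009510916251335880867840, .ofNat 0, .ofNat 0, .ofNat 0, .ofNat 0, .ofNat 0⟩)
    (by decide +kernel)
theorem L03209 : Good (Phi V5.P V5.D (-1) (-1)) ⟨4, 12, 3, 3, 3, 7, 2, 3, 5, 5⟩ :=
  leafX_sound T5.ok_mm T5.Ymm.bz_eq (w := 228) (c := ⟨⟨.negSucc 1541, .ofNat 148, .negSucc 54, .ofNat 593, .ofNat 573, .negSucc 12⟩, ⟨.ofNat 660, .negSucc 83, .ofNat 135, .negSucc 252, .negSucc 201, .ofNat 26⟩, ⟨.ofNat 496, .negSucc 98, .ofNat 22, .negSucc 122, .negSucc 546, .negSucc 166⟩, ⟨.negSucc 3046, .ofNat 290, .negSucc 32, .ofNat 1140, .ofNat 1528, .ofNat 174⟩, ⟨.negSucc 1195, .negSucc 83, .ofNat 188, .ofNat 451, .ofNat 1362, .ofNat 418⟩, .ofNat 1068, .ofNat 1536, .ofNat 0, .ofNat 1536, .ofNat 3449, .ofNat 0, .ofNat 128, .negSucc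 534, .negSucc 111, .ofNat 0, .ofNat 297, .ofNat 46, .ofNat 0, .ofNat 0, .ofNat 357, .ofNat 254, .ofNat 0, .ofNat 0, .ofNat 0, .ofNat 0, .ofNat 0, .ofNat 0, .ofNat 0, .ofNat 0, .ofNat 0, .ofNat 26117257091323598876844202060945522734791655424, .ofNat 6571202363057511009516744212155891567296512, .ofNat 0, .ofNat 0, .ofNat 9151849659582464900930748946003991873382776832, .ofNat 758421002193510914377281255195184887496704, .ofNat 0⟩)
    (by decide +kernel)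
theorem L03210 : Good (Phi V5.P V5.D (-1) (-1)) ⟨4, 13, 3, 3, 3, 7, 2, 2, 4, 2⟩ :=
  leafX_sound T5.ok_mm T5.Ymm.bz_eq (w := 223) (c := ⟨⟨.negSucc 2254, .ofNat 2, .ofNat 59, .ofNat 633, .ofNat 647, .ofNat 243⟩, ⟨.ofNat 970, .negSucc 57, .ofNat 180, .negSucc 309, .negSucc 317, .negSucc 106⟩, ⟨.ofNat 1262, .negSucc 0, .negSucc 1, .negSucc 240, .negSucc 590, .negSucc 420⟩, ⟨.negSucc 4488, .ofNat 35, .ofNat 74, .ofNat 1228, .ofNat 1221, .ofNat 622⟩, ⟨.negSucc 2101, .negSucc 159, .ofNat 144, .ofNat 504, .ofNat 451, .ofNat 481⟩, .ofNat 645, .ofNat 685, .ofNat 0, .ofNat 685, .ofNat 1520, .ofNat 0, .ofNat 128, .negSucc 280, .negSucc 197, .ofNat 0, .ofNat 182, .ofNat 89, .ofNat 0, .ofNat 0, .ofNat 312, .ofNat 579, .ofNat 0, .ofNat 0, .ofNat 173338792673940054245993087632861560832, .ofNat 0, .ofNat 0, .ofNat 0, .ofNat 24216066067508078015921376769016248401920, .ofNat 0, .ofNat 0, .ofNat 0, .ofNat 9927129944193931867465110187740590243840,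 .ofNat 0, .ofNat 0, .ofNat 0, .ofNat 78650945152275878869363753483814614073344, .ofNat 0⟩)
    (by decide +kernel)
theorem L03211 : Good (Phi V5.P V5.D (-1) (-1)) ⟨5, 26, 3, 3, 3, 7, 3, 6, 4, 2⟩ :=
  leafX_sound T5.ok_mm T5.Ymm.bz_eq (w := 230) (c := ⟨⟨.negSucc 1463, .ofNat 134, .negSucc 78, .ofNat 648, .ofNat 349, .negSucc 11⟩, ⟨.ofNat 626, .negSucc 93, .ofNat 182, .negSucc 320, .negSucc 160, .ofNat 33⟩, ⟨.ofNat 581, .negSucc 41, .ofNat 47, .negSucc 177, .negSucc 305, .negSucc 315⟩, ⟨.negSucc 3067, .ofNat 206, .negSucc 103, .ofNat 1255, .ofNat 822, .ofNat 346⟩, ⟨.negSucc 1660, .negSucc 51, .ofNat 139, .ofNat 508, .ofNat 558, .ofNat 694⟩, .ofNat 856, .ofNat 1051, .ofNat 0, .ofNat 1051, .ofNat 2220, .ofNat 0, .ofNat 128, .negSucc 312, .negSucc 109, .ofNat 0, .ofNat 188, .ofNat 48, .ofNat 0, .ofNat 0, .ofNat 259, .ofNat 259, .ofNat 0, .ofNat 0, .ofNat 0, .ofNat 0, .ofNat 0, .ofNat 0, .ofNat 0, .ofNat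 0, .ofNat 0, .ofNat 23673092150995150614074785401363060468916158464, .ofNat 0, .ofNat 0, .ofNat 0, .ofNat 0, .ofNat 0, .ofNat 0⟩)
    (by decide +kernel)
theorem L03212 : Good (Phi V5.P V5.D (-1) (-1)) ⟨5, 26, 3, 3, 3, 7, 3, 7, 4, 2⟩ :=
  leafX_sound T5.ok_mm T5.Ymm.bz_eq (w := 231) (c := ⟨⟨.negSucc 1060, .ofNat 194, .negSucc 84, .ofNat 746, .ofNat 425, .negSucc 172⟩, ⟨.ofNat 459, .negSucc 103, .ofNat 114, .negSucc 350, .negSucc 180, .ofNat 128⟩, ⟨.ofNat 208, .negSucc 96, .ofNat 63, .negSucc 110, .negSucc 389, .negSucc 200⟩, ⟨.negSucc 2183, .ofNat 324, .negSucc 146, .ofNat 1505, .ofNat 1151, .ofNat 190⟩, ⟨.negSucc 1120, .ofNat 9, .ofNat 23, .ofNat 729, .ofNat 966, .ofNat 854⟩, .ofNat 860, .ofNat 1055, .ofNat 0, .ofNat 1055, .ofNat 2216, .ofNat 0, .ofNat 128, .negSucc 624, .negSucc 308, .ofNat 0, .ofNat 354, .ofNat 141, .ofNat 0, .ofNat 0, .ofNat 428, .ofNat 773, .ofNat 0, .ofNat 0, .ofNat 0, .ofNat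 0, .ofNat 0, .ofNat 85632263270049721748086704409077285785304039424, .ofNat 516776013434569178298105887150023945224192, .ofNat 0, .ofNat 0, .ofNat 371572768451703195511577416278406756762124288000, .ofNat 0, .ofNat 0, .ofNat 0, .ofNat 127080826831191190833348748734944070680998576128, .ofNat 119276155686012303384795076292531875479552, .ofNat 0⟩)
    (by decide +kernel)
theorem L03213 : Good (Phi V5.P V5.D (-1) (-1)) ⟨5, 27, 3, 3, 3, 7, 3, 6, 4, 2⟩ :=
  leafX_sound T5.ok_mm T5.Ymm.bz_eq (w := 230) (c := ⟨⟨.negSucc 1373, .ofNat 178, .negSucc 84, .ofNat 761, .ofNat 391, .negSucc 71⟩, ⟨.ofNat 533, .negSucc 136, .ofNat 216, .negSucc 394, .negSucc 189, .ofNat 67⟩, ⟨.ofNat 497, .negSucc 145, .ofNat 93, .negSucc 184, .negSucc 311, .negSucc 302⟩, ⟨.negSucc 2921, .ofNat 231, .negSucc 172, .ofNat 1479, .ofNat 926, .ofNat 278⟩, ⟨.negSucc 1696, .negSucc 106, .ofNat 33, .ofNat 616, .ofNat 619, .ofNat 688⟩, .ofNat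 935, .ofNat 1144, .ofNat 0, .ofNat 1144, .ofNat 2239, .ofNat 0, .ofNat 128, .negSucc 353, .negSucc 147, .ofNat 0, .ofNat 217, .ofNat 70, .ofNat 0, .ofNat 0, .ofNat 304, .ofNat 71, .ofNat 0, .ofNat 0, .ofNat 754178217162612334201924170881402142720, .ofNat 0, .ofNat 0, .ofNat 0, .ofNat 203748246590720872612530735624487146881024, .ofNat 0, .ofNat 0, .ofNat 45846986427916717151649326579486153239454285824, .ofNat 466513858151450577919508969587588047306752, .ofNat 0, .ofNat 0, .ofNat 0, .ofNat 0, .ofNat 0⟩)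
    (by decide +kernel)
theorem L03214 : Good (Phi V5.P V5.D (-1) (-1)) ⟨5, 27, 3, 3, 3, 7, 3, 7, 4, 2⟩ :=
  leafX_sound T5.ok_mm T5.Ymm.bz_eq (w := 232) (c := ⟨⟨.negSucc 950, .ofNat 217, .negSucc 56, .ofNat 877, .ofNat 559, .negSucc 227⟩, ⟨.ofNat 409, .negSucc 135, .ofNat 105, .negSucc 447, .negSucc 272, .ofNat 160⟩, ⟨.ofNat 71, .negSucc 74, .ofNat 93, .negSucc 95, .negSucc 429, .negSucc 200⟩, ⟨.negSucc 1983, .ofNat 300, .negSucc 106, .ofNat 1716, .ofNat 1203, .ofNat 64⟩, ⟨.negSucc 1083, .negSucc 60, .ofNat 4, .ofNat 759, .ofNat 693, .ofNat 734⟩, .ofNat 1679, .ofNat 2402, .ofNat 0, .ofNat 2402, .ofNat 4419, .ofNat 0, .ofNat 128, .negSucc 462, .negSucc 310, .ofNat 0, .ofNat 270, .ofNat 160, .ofNat 0, .ofNat 0, .ofNat 445, .ofNat 370, .ofNat 0, .ofNat 0, .ofNat 0, .ofNat 0, .ofNat 0, .ofNat 91721691572890396121300705109033062273036320768, .ofNat 1637297829016051759863113942118638775435264, .ofNat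 0, .ofNat 0, .ofNat 253018735281651591686382224091952149500350431232, .ofNat 1819635674983587929585999575562206828298240, .ofNat 0, .ofNat 0, .ofNat 0, .ofNat 0, .ofNat 0⟩)
    (by decide +kernel)
theorem L03215 : Good (Phi V5.P V5.D (-1) (-1)) ⟨3, 7, 3, 3, 3, 7, 1, 1, 4, 2⟩ :=
  out_sound (S := T5.ds_mm) T5.ok_mm (w := 45) (j := 3) (by decide +kernel)
theorem L03216 : Good (Phi V5.P V5.D (-1) (-1)) ⟨3, 6, 3, 3, 3, 7, 2, 2, 5, 6⟩ :=
  leafX_sound T5.ok_mm T5.Ymm.bz_eq (w := 223) (c := ⟨⟨.negSucc 1885, .ofNat 17, .negSucc 9, .ofNat 546, .ofNat 386, .ofNat 88⟩, ⟨.ofNat 851, .negSucc 119, .ofNat 214, .negSucc 264, .negSucc 157, .negSucc 26⟩, ⟨.ofNat 856, .negSucc 76, .ofNat 4, .negSucc 214, .negSucc 573, .negSucc 223⟩, ⟨.negSucc 3807, .ofNat 220, .ofNat 1, .ofNat 1108, .ofNat 950, .ofNat 302⟩, ⟨.negSucc 1641, .negSucc 93, .ofNat 176, .ofNat 545, .ofNat 726, .ofNat 346⟩, .ofNat 629, .ofNat 669, .ofNat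 0, .ofNat 669, .ofNat 1554, .ofNat 0, .ofNat 128, .negSucc 232, .negSucc 45, .ofNat 0, .ofNat 168, .ofNat 13, .ofNat 0, .ofNat 0, .ofNat 273, .ofNat 442, .ofNat 0, .ofNat 0, .ofNat 0, .ofNat 0, .ofNat 0, .ofNat 0, .ofNat 6359959485534872426915983953149063151484928, .ofNat 0, .ofNat 0, .ofNat 327305040056862397277343468286935075081158656, .ofNat 5494011152957007897523834404639924778172416, .ofNat 0, .ofNat 0, .ofNat 271268756410736823615144975843126478322532352, .ofNat 1288838557080162900981214194627066380419072, .ofNat 0⟩)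
    (by decide +kernel)
theorem L03217 : Good (Phi V5.P V5.D (-1) (-1)) ⟨3, 6, 3, 3, 3, 7, 3, 4, 5, 7⟩ :=
  leafX_sound T5.ok_mm T5.Ymm.bz_eq (w := 228) (c := ⟨⟨.negSucc 1674, .ofNat 9, .negSucc 29, .ofNat 409, .ofNat 110, .ofNat 2⟩, ⟨.ofNat 720, .negSucc 26, .ofNat 182, .negSucc 176, .negSucc 35, .ofNat 15⟩, ⟨.ofNat 704, .negSucc 150, .negSucc 43, .negSucc 250, .negSucc 333, .negSucc 324⟩, ⟨.negSucc 3430, .ofNat 284, .negSucc 32, .ofNat 978, .ofNat 399, .ofNat 257⟩, ⟨.negSucc 1425, .negSucc 83, .ofNat 144, .ofNat 692, .ofNat 456, .ofNat 492⟩, .ofNat 631, .ofNat 674, .ofNat 0, .ofNat 674, .ofNat 1570, .ofNat 0, .ofNat 128, .negSucc 382, .negSucc 13, .ofNat 0, .ofNat 297, .negSucc 19, .ofNat 0, .ofNat 0, .ofNat 732, .ofNat 1312, .ofNat 0, .ofNat 0, .ofNat 0, .ofNat 0, .ofNat 0, .ofNat 956318553045031823503518157749882378887626752, .ofNat 137635911104927729682854218587013527636017152, .ofNat 0, .ofNat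 0, .ofNat 6682797495749503342751437039923573744849649664, .ofNat 544685309455149278029022607636741513990373376, .ofNat 0, .ofNat 0, .ofNat 14648817524573184916226913190208180726450356224, .ofNat 383514599716530185907607196441412117364473856, .ofNat 0⟩)
    (by decide +kernel)
theorem L03218 : Good (Phi V5.P V5.D (-1) (-1)) ⟨3, 6, 3, 3, 3, 7, 3, 5, 5, 7⟩ :=
  leafX_sound T5.ok_mm T5.Ymm.bz_eq (w := 227) (c := ⟨⟨.negSucc 1542, .ofNat 52, .negSucc 87, .ofNat 421, .ofNat 75, .negSucc 71⟩, ⟨.ofNat 646, .ofNat 28, .ofNat 172, .negSucc 179, .negSucc 9, .ofNat 61⟩, ⟨.ofNat 444, .negSucc 288, .negSucc 46, .negSucc 179, .negSucc 374, .negSucc 428⟩, ⟨.negSucc 2992, .ofNat 335, .negSucc 91, .ofNat 966, .ofNat 434, .ofNat 185⟩, ⟨.negSucc 945, .negSucc 89, .ofNat 147, .ofNat 652, .ofNat 633, .ofNat 551⟩, .ofNat 661, .ofNat 736, .ofNat 0, .ofNat 736, .ofNat 1700, .ofNat 0, .ofNat 128, .negSucc 288, .ofNat 77,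 .ofNat 0, .ofNat 211, .negSucc 62, .ofNat 0, .ofNat 0, .ofNat 489, .ofNat 276, .ofNat 0, .ofNat 0, .ofNat 0, .ofNat 0, .ofNat 0, .ofNat 0, .ofNat 91668886356765384293202753399344618012672000, .ofNat 0, .ofNat 0, .ofNat 5495201077818675383198027585280872185090539520, .ofNat 241898941262231113182682844853380806374064128, .ofNat 0, .ofNat 0, .ofNat 13082289092886168149837598047582567258654769152, .ofNat 77427678153232310406504266621668287441797120, .ofNat 0⟩)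
    (by decide +kernel)
theorem L03219 : Good (Phi V5.P V5.D (-1) (-1)) ⟨3, 6, 3, 3, 3, 7, 3, 6, 4, 3⟩ :=
  leafX_sound T5.ok_mm T5.Ymm.bz_eq (w := 222) (c := ⟨⟨.negSucc 1480, .ofNat 252, .negSucc 132, .ofNat 555, .ofNat 109, .negSucc 183⟩, ⟨.ofNat 640, .negSucc 104, .ofNat 184, .negSucc 253, .negSucc 13, .ofNat 143⟩, ⟨.ofNat 332, .negSucc 190, .negSucc 26, .negSucc 91, .negSucc 380, .negSucc 626⟩, ⟨.negSucc 2789, .ofNat 535, .negSucc 173, .ofNat 1126, .ofNat 555, .ofNat 341⟩, ⟨.negSucc 798, .negSucc 154, .ofNat 89, .ofNat 557, .ofNat 743, .ofNat 1217⟩, .ofNat 632, .ofNat 678, .ofNat 0, .ofNat 678, .ofNat 1584, .ofNat 0, .ofNat 128, .negSucc 401, .negSucc 22, .ofNat 0, .ofNat 270, .negSucc 6, .ofNat 0, .ofNat 0, .ofNat 409, .ofNat 127, .ofNat 0, .ofNat 8445465417198552184054083120074213004673024, .ofNat 31723012511337584579337756686065581686784, .ofNat 0, .ofNat 0, .ofNat 186711081923288677480799751346827339549900800,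 .ofNat 1106748891773760076615346403168477608148992, .ofNat 0, .ofNat 0, .ofNat 1333340849428987651046659112801564356409032704, .ofNat 4214592385475770697258062317474323936313344, .ofNat 0, .ofNat 0, .ofNat 1410990696034691184056359573159977320135524352, .ofNat 212308730632718152179427119753312602161152, .ofNat 0⟩)
    (by decide +kernel)
theorem L03220 : Good (Phi V5.P V5.D (-1) (-1)) ⟨3, 6, 3, 3, 3, 7, 3, 7, 4, 3⟩ :=
  out_sound (S := T5.ds_mm) T5.ok_mm (w := 34) (j := 2) (by decide +kernel)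
theorem L03221 : Good (Phi V5.P V5.D (-1) (-1)) ⟨3, 7, 3, 3, 3, 7, 1, 1, 4, 3⟩ :=
  out_sound (S := T5.ds_mm) T5.ok_mm (w := 45) (j := 3) (by decide +kernel)
theorem L03222 : Good (Phi V5.P V5.D (-1) (-1)) ⟨3, 4, 2, 1, 1, 1, 2, 2, 4, 4⟩ :=
  out_sound (S := T5.ds_mm) T5.ok_mm (w := 43) (j := 3) (by decide +kernel)
theorem L03223 : Good (Phi V5.P V5.D (-1) (-1)) ⟨3, 5, 2, 1, 2, 2, 2, 2, 4, 4⟩ :=
  leafX_sound T5.ok_mm T5.Ymm.bz_eq (w := 202) (c := ⟨⟨.negSucc 2118, .negSucc 345, .ofNat 158, .ofNat 332, .ofNat 325, .ofNat 327⟩, ⟨.ofNat 577, .ofNat 264, .ofNat 281, .negSucc 116, .negSucc 99, .negSucc 104⟩, ⟨.ofNat 1731, .ofNat 123, .negSucc 93, .negSucc 942, .negSucc 638, .negSucc 334⟩, ⟨.negSucc 4205, .negSucc 76, .ofNat 149, .ofNat 490, .ofNat 728, .ofNat 617⟩, ⟨.negSucc 561, .ofNat 74, .negSucc 157, .negSucc 236, .ofNat 518, .ofNat 169⟩, .ofNat 534, .ofNat 540, .ofNat 0, .ofNat 540, .ofNat 1845,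 .ofNat 0, .ofNat 128, .negSucc 174, .negSucc 72, .ofNat 0, .ofNat 115, .ofNat 23, .ofNat 0, .ofNat 0, .ofNat 551, .ofNat 806, .ofNat 0, .ofNat 0, .ofNat 0, .ofNat 0, .ofNat 0, .ofNat 0, .ofNat 4930675584660826100055884410304593920, .ofNat 0, .ofNat 0, .ofNat 2867078438338090880655138109857548206080, .ofNat 8486626597194302500711633916815998976, .ofNat 0, .ofNat 0, .ofNat 5687413907857132790857116479002846953472, .ofNat 4798063472172553911477526952652308480, .ofNat 0⟩)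
    (by decide +kernel)
theorem L03224 : Good (Phi V5.P V5.D (-1) (-1)) ⟨3, 5, 2, 1, 2, 3, 2, 2, 5, 8⟩ :=
  leafX_sound T5.ok_mm T5.Ymm.bz_eq (w := 206) (c := ⟨⟨.negSucc 1876, .negSucc 41, .negSucc 93, .ofNat 630, .ofNat 240, .ofNat 93⟩, ⟨.ofNat 531, .ofNat 95, .ofNat 335, .negSucc 201, .negSucc 59, .negSucc 24⟩, ⟨.ofNat 1006, .negSucc 182, .negSucc 75, .negSucc 722, .negSucc 615, .negSucc 241⟩, ⟨.negSucc 3808, .ofNat 202, .negSucc 94, .ofNat 1263, .ofNat 708, .ofNat 246⟩, ⟨.negSucc 966, .negSucc 147, .ofNat 312, .ofNat 524, .ofNat 855, .ofNat 253⟩, .ofNat 534, .ofNat 540, .ofNat 0, .ofNat 540, .ofNat 1837, .ofNat 0, .ofNat 128, .negSucc 173, .negSucc 15, .ofNat 0, .ofNat 126, .negSucc 0, .ofNat 0, .ofNat 0, .ofNat 514, .ofNat 308, .ofNat 0, .ofNat 0, .ofNat 1279290914962253394563735234671542272, .ofNat 0, .ofNat 0, .ofNat 13169433577094810787811112555220614250496, .ofNat 23966111663857611051972138672087629824,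 .ofNat 0, .ofNat 0, .ofNat 35790405032806319597347087412496743530496, .ofNat 61662417780724019759516300762006159360, .ofNat 0, .ofNat 0, .ofNat 63382914392387879404267498978823131627520, .ofNat 310489673106258223095855467288407834624, .ofNat 0⟩)
    (by decide +kernel)
theorem L03225 : Good (Phi V5.P V5.D (-1) (-1)) ⟨3, 5, 2, 1, 2, 3, 2, 2, 5, 9⟩ :=
  leafX_sound T5.ok_mm T5.Ymm.bz_eq (w := 205) (c := ⟨⟨.negSucc 1694, .negSucc 118, .negSucc 74, .ofNat 531, .ofNat 152, .ofNat 89⟩, ⟨.ofNat 467, .ofNat 134, .ofNat 313, .negSucc 169, .negSucc 25, .negSucc 24⟩, ⟨.ofNat 815, .negSucc 148, .negSucc 220, .negSucc 991, .negSucc 787, .negSucc 263⟩, ⟨.negSucc 3427, .ofNat 131, .negSucc 146, .ofNat 1022, .ofNat 547, .ofNat 215⟩, ⟨.negSucc 683, .negSucc 72, .ofNat 106, .ofNat 310, .ofNat 811, .ofNat 173⟩, .ofNat 533, .ofNat 539, .ofNat 0, .ofNat 539, .ofNat 1839, .ofNat 0, .ofNat 128, .negSucc 143, .ofNat 0,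 .ofNat 0, .ofNat 103, .negSucc 4, .ofNat 0, .ofNat 0, .ofNat 531, .ofNat 310, .ofNat 0, .ofNat 706412239182789842593695011690015358976, .ofNat 16045860857800418173365609974093316096, .ofNat 0, .ofNat 0, .ofNat 26603890343311190157470337035661767344128, .ofNat 0, .ofNat 0, .ofNat 0, .ofNat 54609088026732985155759155326678676275200, .ofNat 107928150206993422662394655742137204736, .ofNat 0, .ofNat 0, .ofNat 107390650866251761288270567860507366129664, .ofNat 496770757109988964842122635359679414272, .ofNat 0⟩)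
    (by decide +kernel)
theorem L03226 : Good (Phi V5.P V5.D (-1) (-1)) ⟨3, 4, 2, 1, 1, 1, 2, 3, 4, 4⟩ :=
  out_sound (S := T5.ds_mm) T5.ok_mm (w := 43) (j := 3) (by decide +kernel)
theorem L03227 : Good (Phi V5.P V5.D (-1) (-1)) ⟨3, 5, 2, 1, 2, 2, 2, 3, 4, 4⟩ :=
  leafX_sound T5.ok_mm T5.Ymm.bz_eq (w := 200) (c := ⟨⟨.negSucc 1775, .negSucc 151, .negSucc 86, .ofNat 176, .ofNat 505, .ofNat 195⟩, ⟨.ofNat 461, .ofNat 214, .ofNat 252, .negSucc 51, .negSucc 137, .negSucc 57⟩, ⟨.ofNat 1362, .negSucc 151, .negSucc 96, .negSucc 1027, .negSucc 892, .negSucc 402⟩, ⟨.negSucc 3484, .ofNat 174, .negSucc 101, .ofNat 401, .ofNat 1249, .ofNat 425⟩, ⟨.negSucc 285, .ofNat 6, .ofNat 58, .ofNat 303, .ofNat 1125, .ofNat 272⟩, .ofNat 529, .ofNat 529, .ofNat 0, .ofNat 529, .ofNat 1816, .ofNat 0, .ofNat 161, .negSucc 127, .negSucc 54, .ofNat 0, .ofNat 84, .ofNat 15, .ofNat 0, .ofNat 0, .ofNat 412, .ofNat 112, .ofNat 0,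 .ofNat 18119393179911081039255444509895426048, .ofNat 163164822264221949295894132489715712, .ofNat 0, .ofNat 0, .ofNat 2436053933007833551068925943224291295232, .ofNat 0, .ofNat 0, .ofNat 0, .ofNat 3072863611988832955703822922169746194432, .ofNat 1605526791389664790177674585148751872, .ofNat 0, .ofNat 0, .ofNat 4772033152183027231589588151731289587712, .ofNat 4650960010440731170698739426258845696, .ofNat 0⟩)
    (by decide +kernel)
theorem L03228 : Good (Phi V5.P V5.D (-1) (-1)) ⟨3, 5, 2, 1, 2, 3, 2, 3, 4, 4⟩ :=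
  leafX_sound T5.ok_mm T5.Ymm.bz_eq (w := 201) (c := ⟨⟨.negSucc 1547, .negSucc 138, .negSucc 103, .ofNat 423, .ofNat 228, .ofNat 118⟩, ⟨.ofNat 397, .ofNat 198, .ofNat 266, .negSucc 118, .negSucc 20, .negSucc 15⟩, ⟨.ofNat 429, .negSucc 217, .negSucc 136, .negSucc 1063, .negSucc 860, .negSucc 684⟩, ⟨.negSucc 2995, .ofNat 170, .negSucc 146, .ofNat 904, .ofNat 915, .ofNat 428⟩, ⟨.negSucc 17, .negSucc 34, .ofNat 52, .ofNat 547, .ofNat 1506, .ofNat 643⟩, .ofNat 328, .ofNat 166, .ofNat 0, .ofNat 166, .ofNat 727, .ofNat 0, .ofNat 198, .negSucc 124, .negSucc 26, .ofNat 0, .ofNat 128, .ofNat 0, .ofNat 0, .ofNat 0, .ofNat 310, .ofNat 846, .ofNat 0, .ofNat 873273525332346127037482358051650404352, .ofNat 0, .ofNat 0, .ofNat 0, .ofNat 15086656186250503665979939386327004348416, .ofNat 0, .ofNat 0, .ofNat 0, .ofNat 28448393180520613151833696637292659081216, .ofNat 2043687519955779914574616966750797824, .ofNat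 0, .ofNat 0, .ofNat 25116150660432695923173922677987106357248, .ofNat 1648376717241532804146223893746548736, .ofNat 0⟩)
    (by decide +kernel)
theorem L03229 : Good (Phi V5.P V5.D (-1) (-1)) ⟨3, 4, 2, 1, 1, 1, 1, 1, 4, 5⟩ :=
  out_sound (S := T5.ds_mm) T5.ok_mm (w := 43) (j := 3) (by decide +kernel)
theorem L03230 : Good (Phi V5.P V5.D (-1) (-1)) ⟨3, 5, 2, 1, 3, 4, 2, 2, 4, 5⟩ :=
  leafX_sound T5.ok_mm T5.Ymm.bz_eq (w := 216) (c := ⟨⟨.negSucc 1833, .negSucc 219, .ofNat 46, .ofNat 101, .ofNat 250, .ofNat 228⟩, ⟨.ofNat 498, .ofNat 203, .ofNat 265, .negSucc 35, .negSucc 70, .negSucc 72⟩, ⟨.ofNat 1588, .ofNat 12, .negSucc 223, .negSucc 577, .negSucc 746, .negSucc 281⟩, ⟨.negSucc 3629, .ofNat 45, .ofNat 31, .ofNat 166, .ofNat 600, .ofNat 439⟩, ⟨.negSucc 436, .negSucc 2, .negSucc 16, .negSucc 21, .ofNat 497, .ofNat 136⟩, .ofNat 534, .ofNat 541, .ofNat 0, .ofNat 541, .ofNat 1845, .ofNat 0, .ofNat 147,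 .negSucc 127, .negSucc 46, .ofNat 0, .ofNat 87, .ofNat 13, .ofNat 0, .ofNat 0, .ofNat 750, .ofNat 838, .ofNat 0, .ofNat 0, .ofNat 0, .ofNat 0, .ofNat 0, .ofNat 0, .ofNat 0, .ofNat 0, .ofNat 0, .ofNat 11234691267187338431729666896375688212774912, .ofNat 86039446009238810865995680279456919846912, .ofNat 0, .ofNat 0, .ofNat 54353631135155830611400457670180323698147328, .ofNat 165400887352814690784368992544960265846784, .ofNat 0⟩)
    (by decide +kernel)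
theorem L03231 : Good (Phi V5.P V5.D (-1) (-1)) ⟨3, 5, 2, 1, 3, 5, 3, 4, 4, 5⟩ :=
  leafX_sound T5.ok_mm T5.Ymm.bz_eq (w := 220) (c := ⟨⟨.negSucc 1690, .negSucc 216, .negSucc 23, .ofNat 142, .ofNat 91, .ofNat 185⟩, ⟨.ofNat 458, .ofNat 186, .ofNat 291, .negSucc 44, .negSucc 22, .negSucc 56⟩, ⟨.ofNat 1307, .negSucc 201, .negSucc 251, .negSucc 709, .negSucc 424, .negSucc 515⟩, ⟨.negSucc 3407, .ofNat 19, .negSucc 82, .ofNat 265, .ofNat 268, .ofNat 407⟩, ⟨.negSucc 581, .negSucc 0, .ofNat 12, .ofNat 65, .ofNat 323, .ofNat 262⟩, .ofNat 535, .ofNat 545, .ofNat 0, .ofNat 545, .ofNat 1876, .ofNat 0, .ofNat 128, .negSucc 165, .negSucc 6, .ofNat 0, .ofNat 115, .negSucc 1, .ofNat 0, .ofNat 0, .ofNat 845, .ofNat 1502, .ofNat 0, .ofNat 0, .ofNat 0, .ofNat 0, .ofNat 0, .ofNat 41431634516783563579293835561659565338525696, .ofNat 1947453943726099201152456619382838787047424, .ofNat 0, .ofNat 0, .ofNat 112960590343133275172115981211128900966416384,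 .ofNat 1562209395369559201438951833731475257163776, .ofNat 0, .ofNat 0, .ofNat 462788518972365950747803129068551321715474432, .ofNat 13410224102202380228484481862725731331604480, .ofNat 0⟩)
    (by decide +kernel)
theorem L03232 : Good (Phi V5.P V5.D (-1) (-1)) ⟨3, 5, 2, 1, 3, 5, 3, 5, 4, 5⟩ :=
  leafX_sound T5.ok_mm T5.Ymm.bz_eq (w := 219) (c := ⟨⟨.negSucc 1591, .negSucc 180, .negSucc 50, .ofNat 82, .ofNat 94, .ofNat 138⟩, ⟨.ofNat 414, .ofNat 202, .ofNat 262, .negSucc 23, .negSucc 20, .negSucc 38⟩, ⟨.ofNat 901, .negSucc 194, .negSucc 212, .negSucc 766, .negSucc 467, .negSucc 586⟩, ⟨.negSucc 3148, .ofNat 102, .negSucc 66, .ofNat 189, .ofNat 300, .ofNat 319⟩, ⟨.negSucc 269, .negSucc 1, .ofNat 54, .ofNat 149, .ofNat 409, .ofNat 249⟩, .ofNat 867, .ofNat 1376, .ofNat 0, .ofNat 1376, .ofNat 4232, .ofNat 0, .ofNat 128, .negSucc 202, .ofNat 1, .ofNat 0, .ofNat 105, .negSucc 2, .ofNat 0, .ofNat 0, .ofNat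 661, .ofNat 686, .ofNat 0, .ofNat 0, .ofNat 147822982592323263549134954077811013320704, .ofNat 0, .ofNat 0, .ofNat 56000088759525127284689440244586684451127296, .ofNat 0, .ofNat 0, .ofNat 0, .ofNat 175686809025602734299814199386950707422691328, .ofNat 700644887329217067106237940045040354066432, .ofNat 0, .ofNat 0, .ofNat 465714062814923873267166802893884349361422336, .ofNat 6453067401916432812776894479037190664880128, .ofNat 0⟩)
    (by decide +kernel)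
theorem L03233 : Good (Phi V5.P V5.D (-1) (-1)) ⟨3, 5, 2, 1, 3, 6, 2, 2, 4, 5⟩ :=
  leafX_sound T5.ok_mm T5.Ymm.bz_eq (w := 216) (c := ⟨⟨.negSucc 1557, .negSucc 161, .negSucc 61, .ofNat 192, .ofNat 100, .ofNat 135⟩, ⟨.ofNat 417, .ofNat 163, .ofNat 305, .negSucc 60, .negSucc 11, .negSucc 34⟩, ⟨.ofNat 665, .negSucc 245, .negSucc 210, .negSucc 667, .negSucc 958, .negSucc 659⟩, ⟨.negSucc 3157, .ofNat 97, .negSucc 126, .ofNat 390, .ofNat 456, .ofNat 359⟩, ⟨.negSucc 553, .negSucc 3, .ofNat 79, .ofNat 169, .ofNat 797, .ofNat 369⟩, .ofNat 537, .ofNat 549, .ofNat 0, .ofNat 549, .ofNat 1889, .ofNat 0, .ofNat 128, .negSucc 179, .ofNat 19, .ofNat 0, .ofNat 127, .negSucc 12, .ofNat 0, .ofNat 0, .ofNat 873, .ofNat 1027, .ofNat 0, .ofNat 1989679196986263894626527974908454380765184, .ofNat 34552827139826592486222335308752108912640, .ofNat 0, .ofNat 0, .ofNat 44547504548405115339274920022802284142395392, .ofNat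 111421899679670961497821241498952924135424, .ofNat 0, .ofNat 0, .ofNat 115045038156973552153996113418638185721757696, .ofNat 149712874661866640833976963215212312264704, .ofNat 0, .ofNat 0, .ofNat 310353122117415992576870346799962467401203712, .ofNat 1101763659992121455642560180238546198593536, .ofNat 0⟩)
    (by decide +kernel)
theorem L03234 : Good (Phi V5.P V5.D (-1) (-1)) ⟨3, 5, 2, 1, 3, 7, 2, 2, 4, 5⟩ :=
  out_sound (S := T5.ds_mm) T5.ok_mm (w := 32) (j := 2) (by decide +kernel)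
theorem L03235 : Good (Phi V5.P V5.D (-1) (-1)) ⟨3, 5, 3, 2, 2, 2, 3, 6, 4, 5⟩ :=
  leafX_sound T5.ok_mm T5.Ymm.bz_eq (w := 207) (c := ⟨⟨.negSucc 1532, .negSucc 176, .negSucc 5, .ofNat 76, .ofNat 188, .ofNat 146⟩, ⟨.ofNat 387, .ofNat 222, .ofNat 102, .negSucc 12, .negSucc 49, .negSucc 43⟩, ⟨.ofNat 1008, .negSucc 172, .negSucc 29, .negSucc 1222, .negSucc 421, .negSucc 344⟩, ⟨.negSucc 2979, .ofNat 135, .negSucc 3, .ofNat 259, .ofNat 481, .ofNat 313⟩, ⟨.negSucc 56, .ofNat 67, .negSucc 11, .ofNat 369, .ofNat 461, .ofNat 182⟩, .ofNat 535, .ofNat 543, .ofNat 0, .ofNat 543, .ofNat 1857, .ofNat 0, .ofNat 144, .negSucc 127, .negSucc 38, .ofNat 0, .ofNat 87, .ofNat 6, .ofNat 0, .ofNat 0, .ofNat 820, .ofNat 248, .ofNat 0, .ofNat 6299630099810127335711859034828709036032, .ofNat 4510774980588419062966460012017221632, .ofNat 0, .ofNat 0, .ofNat 163863850509120051471256241796913226055680, .ofNat 0, .ofNat 0,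 .ofNat 0, .ofNat 257183511950575631202910747071477148811264, .ofNat 56441671875609910253525708281200246784, .ofNat 0, .ofNat 0, .ofNat 981529156002566091379091339718947640442880, .ofNat 0, .ofNat 0⟩)
    (by decide +kernel)
theorem L03236 : Good (Phi V5.P V5.D (-1) (-1)) ⟨3, 5, 3, 3, 2, 2, 3, 6, 4, 5⟩ :=
  out_sound (S := T5.ds_mm) T5.ok_mm (w := 45) (j := 3) (by decide +kernel)
theorem L03237 : Good (Phi V5.P V5.D (-1) (-1)) ⟨3, 5, 2, 1, 2, 2, 3, 7, 4, 5⟩ :=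
  out_sound (S := T5.ds_mm) T5.ok_mm (w := 32) (j := 2) (by decide +kernel)
theorem L03238 : Good (Phi V5.P V5.D (-1) (-1)) ⟨3, 5, 2, 1, 2, 3, 2, 3, 4, 5⟩ :=
  out_sound (S := T5.ds_mm) T5.ok_mm (w := 30) (j := 2) (by decide +kernel)
theorem L03239 : Good (Phi V5.P V5.D (-1) (-1)) ⟨3, 6, 2, 1, 2, 2, 2, 2, 4, 4⟩ :=
  leafX_sound T5.ok_mm T5.Ymm.bz_eq (w := 201) (c := ⟨⟨.negSucc 2549, .negSucc 338, .ofNat 68, .ofNat 433, .ofNat 348, .ofNat 419⟩, ⟨.ofNat 919, .ofNat 282, .ofNat 348, .negSucc 225, .negSucc 134, .negSucc 190⟩, ⟨.ofNat 2092, .negSucc 51, .negSucc 81, .negSucc 1187, .negSucc 733, .negSucc 450⟩, ⟨.negSucc 4367, .negSucc 73, .ofNat 62, .ofNat 536, .ofNat 754, .ofNat 696⟩, ⟨.negSucc 527, .ofNat 90, .negSucc 87, .negSucc 257, .ofNat 488, .ofNat 155⟩, .ofNat 570, .ofNat 561, .ofNat 0, .ofNat 561, .ofNat 1384, .ofNat 0, .ofNat 128, .negSucc 240, .negSucc 91, .ofNat 0, .ofNat 180, .ofNat 41,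 .ofNat 0, .ofNat 0, .ofNat 510, .ofNat 192, .ofNat 0, .ofNat 0, .ofNat 76718601828018897052757934875869184, .ofNat 0, .ofNat 0, .ofNat 0, .ofNat 7928906883275807559752225271037558784, .ofNat 0, .ofNat 0, .ofNat 3882153899970843919158676880573132177408, .ofNat 14595288560337293668821382520664752128, .ofNat 0, .ofNat 0, .ofNat 4951293978618431887762671920097433485312, .ofNat 2409037265677275959030722578020827136, .ofNat 0⟩)
    (by decide +kernel)
theorem L03240 : Good (Phi V5.P V5.D (-1) (-1)) ⟨4, 12, 3, 2, 3, 6, 2, 2, 5, 8⟩ :=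
  leafX_sound T5.ok_mm T5.Ymm.bz_eq (w := 226) (c := ⟨⟨.negSucc 1992, .negSucc 56, .negSucc 23, .ofNat 348, .ofNat 226, .ofNat 126⟩, ⟨.ofNat 659, .ofNat 69, .ofNat 166, .negSucc 141, .negSucc 41, .negSucc 34⟩, ⟨.ofNat 955, .negSucc 58, .negSucc 48, .negSucc 516, .negSucc 776, .negSucc 286⟩, ⟨.negSucc 3681, .ofNat 59, .negSucc 58, .ofNat 612, .ofNat 728, .ofNat 299⟩, ⟨.negSucc 1016, .negSucc 52, .ofNat 49, .ofNat 119, .ofNat 893, .ofNat 241⟩, .ofNat 540, .ofNat 523, .ofNat 0, .ofNat 523, .ofNat 1478, .ofNat 0, .ofNat 132, .negSucc 127, .negSucc 20, .ofNat 0, .ofNat 98, .ofNat 5, .ofNat 0, .ofNat 0, .ofNat 331, .ofNat 249, .ofNat 0, .ofNat 0, .ofNat 0, .ofNat 0, .ofNat 0, .ofNat 0, .ofNat 0, .ofNat 0, .ofNat 0, .ofNat 7604605881124004142109355700354690731592384512, .ofNat 175215608197778900065905556984215474536448, .ofNat 0, .ofNat 0, .ofNat 13133657908500838375280117017694145801273475072, .ofNat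 10564394204589076655741440268349942530048, .ofNat 0⟩)
    (by decide +kernel)
theorem L03241 : Good (Phi V5.P V5.D (-1) (-1)) ⟨4, 12, 3, 2, 3, 7, 2, 2, 5, 8⟩ :=
  leafX_sound T5.ok_mm T5.Ymm.bz_eq (w := 226) (c := ⟨⟨.negSucc 1569, .negSucc 18, .negSucc 32, .ofNat 331, .ofNat 130, .ofNat 24⟩, ⟨.ofNat 498, .ofNat 34, .ofNat 157, .negSucc 98, .ofNat 3, .ofNat 14⟩, ⟨.ofNat 514, .negSucc 101, .negSucc 74, .negSucc 331, .negSucc 815, .negSucc 367⟩, ⟨.negSucc 3012, .ofNat 108, .negSucc 35, .ofNat 766, .ofNat 640, .ofNat 203⟩, ⟨.negSucc 1066, .negSucc 41, .ofNat 152, .ofNat 568, .ofNat 1022, .ofNat 379⟩, .ofNat 542, .ofNat 526, .ofNat 0, .ofNat 526, .ofNat 1462, .ofNat 0, .ofNat 128, .negSucc 156, .ofNat 14, .ofNat 0, .ofNat 135, .negSucc 17, .ofNat 0, .ofNat 0, .ofNat 374, .ofNat 233, .ofNat 0, .ofNat 0, .ofNat 0, .ofNat 0, .ofNat 0, .ofNat 0, .ofNat 0, .ofNat 0, .ofNat 0, .ofNat 20027801845820679065882751400357269806516273152,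 .ofNat 1942336435281604832123644711434463561646080, .ofNat 0, .ofNat 0, .ofNat 31725194194807569471284533683847104148734476288, .ofNat 0, .ofNat 0⟩)
    (by decide +kernel)
theorem L03242 : Good (Phi V5.P V5.D (-1) (-1)) ⟨4, 12, 3, 2, 3, 6, 2, 2, 5, 9⟩ :=
  leafX_sound T5.ok_mm T5.Ymm.bz_eq (w := 226) (c := ⟨⟨.negSucc 1808, .negSucc 83, .negSucc 29, .ofNat 279, .ofNat 118, .ofNat 64⟩, ⟨.ofNat 601, .ofNat 80, .ofNat 162, .negSucc 106, .negSucc 0, .negSucc 13⟩, ⟨.ofNat 790, .negSucc 111, .negSucc 103, .negSucc 615, .negSucc 982, .negSucc 382⟩, ⟨.negSucc 3329, .ofNat 37, .negSucc 48, .ofNat 545, .ofNat 592, .ofNat 208⟩, ⟨.negSucc 859, .negSucc 25, .ofNat 78, .ofNat 234, .ofNat 941, .ofNat 243⟩, .ofNat 551, .ofNat 544, .ofNat 0, .ofNat 544, .ofNat 1498, .ofNat 0, .ofNat 140, .negSucc 127, .ofNat 6, .ofNat 0, .ofNat 100, .negSucc 9, .ofNat 0, .ofNat 0, .ofNat 463, .ofNat 197, .ofNat 0, .ofNat 264172633697484006114040873138293846327689216,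 .ofNat 2601934984074566227370264857458929303552, .ofNat 0, .ofNat 0, .ofNat 0, .ofNat 0, .ofNat 0, .ofNat 0, .ofNat 15763313907297491861478890290003600860893937664, .ofNat 1018429376110247325416048972214767601057792, .ofNat 0, .ofNat 0, .ofNat 40003604119729689520514999633077942638042152960, .ofNat 0, .ofNat 0⟩)
    (by decide +kernel)
theorem L03243 : Good (Phi V5.P V5.D (-1) (-1)) ⟨4, 12, 3, 2, 3, 7, 2, 2, 5, 9⟩ :=
  leafX_sound T5.ok_mm T5.Ymm.bz_eq (w := 227) (c := ⟨⟨.negSucc 1500, .negSucc 46, .negSucc 55, .ofNat 269, .ofNat 16, .negSucc 10⟩, ⟨.ofNat 490, .ofNat 57, .ofNat 164, .negSucc 80, .ofNat 62, .ofNat 27⟩, ⟨.ofNat 238, .negSucc 115, .negSucc 133, .negSucc 553, .negSucc 1081, .negSucc 489⟩, ⟨.negSucc 2763, .ofNat 74, .negSucc 52, .ofNat 658, .ofNat 525, .ofNat 153⟩, ⟨.negSucc 704, .negSucc 32, .ofNat 160, .ofNat 540, .ofNat 1162, .ofNat 402⟩, .ofNat 328, .ofNat 183, .ofNat 0, .ofNat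 183, .ofNat 649, .ofNat 0, .ofNat 166, .negSucc 99, .ofNat 22, .ofNat 0, .ofNat 128, .negSucc 28, .ofNat 0, .ofNat 0, .ofNat 375, .ofNat 763, .ofNat 0, .ofNat 1637334636070212803889637198944772927273304064, .ofNat 68246924242990117578788224158757698928640, .ofNat 0, .ofNat 0, .ofNat 32860388537660785969309403903034419985407541248, .ofNat 0, .ofNat 0, .ofNat 0, .ofNat 58325494037250545787024707047698926847962120192, .ofNat 576136121129195920421897537017386717151232, .ofNat 0, .ofNat 0, .ofNat 97696781172767467808652641430266358681932136448, .ofNat 0, .ofNat 0⟩)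
    (by decide +kernel)
theorem L03244 : Good (Phi V5.P V5.D (-1) (-1)) ⟨4, 12, 3, 3, 3, 6, 2, 2, 5, 8⟩ :=
  leafX_sound T5.ok_mm T5.Ymm.bz_eq (w := 228) (c := ⟨⟨.negSucc 1999, .negSucc 64, .negSucc 23, .ofNat 361, .ofNat 213, .ofNat 84⟩, ⟨.ofNat 842, .ofNat 64, .ofNat 173, .negSucc 159, .negSucc 61, .negSucc 28⟩, ⟨.ofNat 935, .negSucc 80, .negSucc 126, .negSucc 515, .negSucc 816, .negSucc 324⟩, ⟨.negSucc 3750, .ofNat 81, .negSucc 45, .ofNat 648, .ofNat 726, .ofNat 257⟩, ⟨.negSucc 1018, .negSucc 1, .ofNat 55, .ofNat 179, .ofNat 841, .ofNat 267⟩, .ofNat 1046, .ofNat 1495, .ofNat 0, .ofNat 1495, .ofNat 3383, .ofNat 0, .ofNat 128, .negSucc 365, .negSucc 29, .ofNat 0, .ofNat 224, .ofNat 8, .ofNat 0, .ofNat 0, .ofNat 695, .ofNat 618, .ofNat 0, .ofNat 0, .ofNat 0, .ofNat 0, .ofNat 0, .ofNat 0, .ofNat 0, .ofNat 0, .ofNat 0, .ofNat 43906795529026633472584386614798610013905485824, .ofNat 1755529886339096967121154946591096077025280,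 .ofNat 0, .ofNat 0, .ofNat 67007511998833270609334853766303386855668711424, .ofNat 9427799684341493600451098315185141403615232, .ofNat 0⟩)
    (by decide +kernel)
theorem L03245 : Good (Phi V5.P V5.D (-1) (-1)) ⟨4, 12, 3, 3, 3, 6, 3, 4, 5, 9⟩ :=
  leafX_sound T5.ok_mm T5.Ymm.bz_eq (w := 232) (c := ⟨⟨.negSucc 1823, .negSucc 56, .negSucc 68, .ofNat 255, .ofNat 25, .ofNat 44⟩, ⟨.ofNat 766, .ofNat 70, .ofNat 178, .negSucc 107, .ofNat 7, .negSucc 10⟩, ⟨.ofNat 728, .negSucc 71, .negSucc 184, .negSucc 680, .negSucc 543, .negSucc 431⟩, ⟨.negSucc 3383, .ofNat 69, .negSucc 89, .ofNat 540, .ofNat 276, .ofNat 196⟩, ⟨.negSucc 828, .negSucc 35, .ofNat 91, .ofNat 303, .ofNat 504, .ofNat 273⟩, .ofNat 607, .ofNat 648, .ofNat 0, .ofNat 648, .ofNat 1615, .ofNat 0, .ofNat 128, .negSucc 273, .ofNat 27, .ofNat 0, .ofNat 204, .negSucc 26, .ofNat 0, .ofNat 0, .ofNat 841, .ofNat 1318, .ofNat 0, .ofNat 0, .ofNat 0, .ofNat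 0, .ofNat 0, .ofNat 45142020996273263712668696865971684583615234048, .ofNat 6519566104575937788077559289601170975227904, .ofNat 0, .ofNat 0, .ofNat 229481631058007209028873885333751328855319117824, .ofNat 103589079852298664034952721653756703377719296, .ofNat 0, .ofNat 0, .ofNat 593226768967065463552186642932972779835853111296, .ofNat 298997776043245496748999913175254384240492544, .ofNat 0⟩)
    (by decide +kernel)
theorem L03246 : Good (Phi V5.P V5.D (-1) (-1)) ⟨4, 12, 3, 3, 3, 6, 3, 5, 5, 9⟩ :=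
  leafX_sound T5.ok_mm T5.Ymm.bz_eq (w := 232) (c := ⟨⟨.negSucc 1739, .negSucc 91, .negSucc 68, .ofNat 142, .ofNat 14, .ofNat 11⟩, ⟨.ofNat 727, .ofNat 110, .ofNat 166, .negSucc 49, .ofNat 18, .ofNat 8⟩, ⟨.ofNat 283, .negSucc 127, .negSucc 163, .negSucc 855, .negSucc 595, .negSucc 530⟩, ⟨.negSucc 3064, .ofNat 69, .negSucc 84, .ofNat 398, .ofNat 279, .ofNat 160⟩, ⟨.negSucc 380, .ofNat 22, .ofNat 67, .ofNat 378, .ofNat 551, .ofNat 307⟩, .ofNat 1067, .ofNat 1537, .ofNat 0, .ofNat 1537, .ofNat 3461, .ofNat 0, .ofNat 128, .negSucc 320, .ofNat 40, .ofNat 0, .ofNat 196, .negSucc 27, .ofNat 0, .ofNat 0, .ofNat 969, .ofNat 1043, .ofNat 0, .ofNat 13344874674918282526756800107211329049819348992, .ofNat 0, .ofNat 0, .ofNat 0, .ofNat 121416176293161836523334345343882375229708697600, .ofNat 12954438176379036340435515142982853300584448, .ofNat 0, .ofNat 0, .ofNat 595193220753745051812896336575372743301065080832,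 .ofNat 76626295789969061815081078109142688735428608, .ofNat 0, .ofNat 0, .ofNat 1492925835003916212402453996257302415414453600256, .ofNat 0, .ofNat 0⟩)
    (by decide +kernel)
theorem L03247 : Good (Phi V5.P V5.D (-1) (-1)) ⟨4, 12, 3, 3, 3, 7, 2, 2, 5, 8⟩ :=
  leafX_sound T5.ok_mm T5.Ymm.bz_eq (w := 227) (c := ⟨⟨.negSucc 1603, .negSucc 8, .negSucc 82, .ofNat 333, .ofNat 115, .ofNat 7⟩, ⟨.ofNat 669, .ofNat 39, .ofNat 175, .negSucc 130, .negSucc 20, .ofNat 10⟩, ⟨.ofNat 474, .negSucc 118, .negSucc 105, .negSucc 333, .negSucc 841, .negSucc 408⟩, ⟨.negSucc 3062, .ofNat 96, .negSucc 24, .ofNat 845, .ofNat 640, .ofNat 199⟩, ⟨.negSucc 927, .negSucc 80, .ofNat 268, .ofNat 690, .ofNat 990, .ofNat 403⟩, .ofNat 609, .ofNat 652, .ofNat 0, .ofNat 652, .ofNat 1630, .ofNat 0, .ofNat 128, .negSucc 316, .ofNat 57, .ofNat 0, .ofNat 254, .negSucc 54, .ofNat 0, .ofNat 0, .ofNat 822, .ofNat 573, .ofNat 0, .ofNat 293249362595100880220471986723707958650208256,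 .ofNat 438949837003250787334590457367195434352640, .ofNat 0, .ofNat 0, .ofNat 12145955687792478960521095731303371532792758272, .ofNat 575617279583378245640262587557774106820608, .ofNat 0, .ofNat 0, .ofNat 81448471426715732961764619773145847373588594688, .ofNat 6792735601826693694442568231624713944694784, .ofNat 0, .ofNat 0, .ofNat 166932147681732024303578722940755294177042890752, .ofNat 18575155689580879033727483337881618065915904, .ofNat 0⟩)
    (by decide +kernel)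
theorem L03248 : Good (Phi V5.P V5.D (-1) (-1)) ⟨4, 12, 3, 3, 3, 7, 2, 2, 5, 9⟩ :=
  leafX_sound T5.ok_mm T5.Ymm.bz_eq (w := 227) (c := ⟨⟨.negSucc 1543, .negSucc 51, .negSucc 71, .ofNat 256, .negSucc 55, .negSucc 38⟩, ⟨.ofNat 649, .ofNat 62, .ofNat 174, .negSucc 90, .ofNat 75, .ofNat 37⟩, ⟨.ofNat 134, .negSucc 127, .negSucc 166, .negSucc 598, .negSucc 1204, .negSucc 565⟩, ⟨.negSucc 2815, .ofNat 68, .negSucc 37, .ofNat 720, .ofNat 514, .ofNat 154⟩, ⟨.negSucc 572, .negSucc 30, .ofNat 203, .ofNat 687, .ofNat 1284, .ofNat 461⟩, .ofNat 340, .ofNat 211, .ofNat 0, .ofNat 211, .ofNat 666, .ofNat 0, .ofNat 128, .negSucc 133, .ofNat 36, .ofNat 0, .ofNat 159, .negSucc 44, .ofNat 0, .ofNat 0, .ofNat 457, .ofNat 695, .ofNat 0, .ofNat 3335172398611660856514966467254012679110524928, .ofNat 0, .ofNat 0, .ofNat 0, .ofNat 25583403901929876617547699111463592157320839168, .ofNat 611299294535195199295445489821838211022848,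 .ofNat 0, .ofNat 0, .ofNat 86548520333969795683151055047064530035733954560, .ofNat 0, .ofNat 0, .ofNat 0, .ofNat 154972557937896140487367500041569288711934312448, .ofNat 929603999930186097455881877481271309893632, .ofNat 0⟩)
    (by decide +kernel)
theorem L03249 : Good (Phi V5.P V5.D (-1) (-1)) ⟨4, 13, 2, 1, 3, 6, 3, 4, 5, 8⟩ :=
  leafX_sound T5.ok_mm T5.Ymm.bz_eq (w := 229) (c := ⟨⟨.negSucc 1973, .negSucc 79, .negSucc 113, .ofNat 376, .ofNat 50, .ofNat 85⟩, ⟨.ofNat 702, .ofNat 59, .ofNat 399, .negSucc 188, .negSucc 4, .negSucc 31⟩, ⟨.ofNat 1123, .negSucc 19, .negSucc 327, .negSucc 576, .negSucc 474, .negSucc 382⟩, ⟨.negSucc 3627, .ofNat 39, .negSucc 152, .ofNat 692, .ofNat 332, .ofNat 307⟩, ⟨.negSucc 1250, .negSucc 47, .ofNat 186, .ofNat 236, .ofNat 484, .ofNat 334⟩, .ofNat 647, .ofNat 685, .ofNat 0, .ofNat 685, .ofNat 1504, .ofNat 0, .ofNat 128, .negSucc 498, .negSucc 66, .ofNat 0, .ofNat 376,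 .ofNat 17, .ofNat 0, .ofNat 0, .ofNat 1079, .ofNat 767, .ofNat 0, .ofNat 0, .ofNat 0, .ofNat 0, .ofNat 0, .ofNat 2301508753821926813760555682647253985995522048, .ofNat 51604407398887154578372199031346013751214080, .ofNat 0, .ofNat 0, .ofNat 0, .ofNat 0, .ofNat 0, .ofNat 0, .ofNat 0, .ofNat 0, .ofNat 0⟩)
    (by decide +kernel)
theorem L03250 : Good (Phi V5.P V5.D (-1) (-1)) ⟨4, 13, 2, 1, 3, 6, 3, 5, 5, 8⟩ :=
  leafX_sound T5.ok_mm T5.Ymm.bz_eq (w := 228) (c := ⟨⟨.negSucc 1773, .negSucc 94, .negSucc 167, .ofNat 252, .ofNat 12, .ofNat 7⟩, ⟨.ofNat 649, .ofNat 114, .ofNat 361, .negSucc 112, .ofNat 28, .ofNat 15⟩, ⟨.ofNat 704, .negSucc 187, .negSucc 203, .negSucc 692, .negSucc 570, .negSucc 510⟩, ⟨.negSucc 3176, .ofNat 47, .negSucc 173, .ofNat 590, .ofNat 357, .ofNat 225⟩, ⟨.negSucc 937, .negSucc 59, .ofNat 295, .ofNat 388, .ofNat 643, .ofNat 400⟩, .ofNat 929, .ofNat 1115, .ofNat 0, .ofNat 1115, .ofNat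 2267, .ofNat 0, .ofNat 128, .negSucc 259, .ofNat 36, .ofNat 0, .ofNat 202, .negSucc 35, .ofNat 0, .ofNat 0, .ofNat 591, .ofNat 295, .ofNat 0, .ofNat 0, .ofNat 0, .ofNat 0, .ofNat 0, .ofNat 1449666691694387551406639566939262780685942784, .ofNat 22275000969856608396766710344278881473658880, .ofNat 0, .ofNat 0, .ofNat 12431333202899794616076645569841520314576535552, .ofNat 48580722371864894027659017317183530792386560, .ofNat 0, .ofNat 0, .ofNat 34292202927107523879047603717726313539459612672, .ofNat 18365023565563960842178848205548383513870336, .ofNat 0⟩)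
    (by decide +kernel)
theorem L03251 : Good (Phi V5.P V5.D (-1) (-1)) ⟨4, 13, 2, 1, 3, 7, 3, 4, 5, 8⟩ :=
  leafX_sound T5.ok_mm T5.Ymm.bz_eq (w := 228) (c := ⟨⟨.negSucc 1584, .negSucc 65, .negSucc 60, .ofNat 372, .ofNat 8, .negSucc 24⟩, ⟨.ofNat 544, .ofNat 82, .ofNat 291, .negSucc 144, .ofNat 32, .ofNat 47⟩, ⟨.ofNat 440, .negSucc 203, .negSucc 71, .negSucc 332, .negSucc 517, .negSucc 503⟩, ⟨.negSucc 2997, .ofNat 83, .ofNat 8, .ofNat 945, .ofNat 317, .ofNat 184⟩, ⟨.negSucc 1202, .ofNat 16, .ofNat 342, .ofNat 762, .ofNat 582, .ofNat 435⟩, .ofNat 744, .ofNat 806, .ofNat 0, .ofNat 806, .ofNat 1713, .ofNat 0, .ofNat 128, .negSucc 257, .ofNat 107, .ofNat 0, .ofNat 235, .negSucc 97, .ofNat 0, .ofNat 0, .ofNat 775, .ofNat 534, .ofNat 0, .ofNat 0, .ofNat 0, .ofNat 0, .ofNat 0, .ofNat 1198484874542977502629069359395946942550769664, .ofNat 13853483497522565909095152580283710381752320, .ofNat 0, .ofNat 0,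 .ofNat 15494479902805842587376206943647308386708488192, .ofNat 81637277532678841403104269217231262038622208, .ofNat 0, .ofNat 0, .ofNat 69909982364492666272162861436325345560579014656, .ofNat 49513721976850764220901314246989657428459520, .ofNat 0⟩)
    (by decide +kernel)
theorem L03252 : Good (Phi V5.P V5.D (-1) (-1)) ⟨4, 13, 2, 1, 3, 7, 3, 5, 5, 8⟩ :=
  leafX_sound T5.ok_mm T5.Ymm.bz_eq (w := 228) (c := ⟨⟨.negSucc 1402, .negSucc 59, .negSucc 228, .ofNat 277, .negSucc 111, .negSucc 170⟩, ⟨.ofNat 496, .ofNat 92, .ofNat 364, .negSucc 104, .ofNat 102, .ofNat 127⟩, ⟨.ofNat 163, .negSucc 188, .negSucc 282, .negSucc 574, .negSucc 664, .negSucc 729⟩, ⟨.negSucc 2556, .ofNat 92, .negSucc 117, .ofNat 879, .ofNat 308, .ofNat 132⟩, ⟨.negSucc 792, .negSucc 12, .ofNat 502, .ofNat 878, .ofNat 906, .ofNat 734⟩, .ofNat 643, .ofNat 678, .ofNat 0, .ofNat 678, .ofNat 1492, .ofNat 0, .ofNat 128, .negSucc 170, .ofNat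 62, .ofNat 0, .ofNat 134, .negSucc 54, .ofNat 0, .ofNat 0, .ofNat 497, .ofNat 435, .ofNat 0, .ofNat 951681507592767766619093297856313643109449728, .ofNat 0, .ofNat 0, .ofNat 0, .ofNat 6539923029945635097606938715041494864448454656, .ofNat 2986347899676916881950032682778229886418944, .ofNat 0, .ofNat 0, .ofNat 24148881474085792230682865456150859013674762240, .ofNat 18564298487000152295778779053958905880117248, .ofNat 0, .ofNat 0, .ofNat 59886787218761727121555656054436192775879786496, .ofNat 0, .ofNat 0⟩)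
    (by decide +kernel)
theorem L03253 : Good (Phi V5.P V5.D (-1) (-1)) ⟨4, 13, 3, 2, 2, 3, 3, 4, 5, 9⟩ :=
  leafX_sound T5.ok_mm T5.Ymm.bz_eq (w := 217) (c := ⟨⟨.negSucc 1864, .ofNat 6, .negSucc 66, .ofNat 588, .ofNat 51, .ofNat 62⟩, ⟨.ofNat 662, .ofNat 58, .ofNat 186, .negSucc 233, .ofNat 10, .negSucc 11⟩, ⟨.ofNat 806, .ofNat 115, .negSucc 198, .negSucc 1324, .negSucc 531, .negSucc 414⟩, ⟨.negSucc 3280, .ofNat 214, .negSucc 76, .ofNat 1155, .ofNat 292, .ofNat 203⟩, ⟨.negSucc 919, .ofNat 100, .ofNat 113, .ofNat 542, .ofNat 458, .ofNat 232⟩, .ofNat 844, .ofNat 1048, .ofNat 0, .ofNat 1048, .ofNat 2348, .ofNat 0, .ofNat 128, .negSucc 235, .ofNat 21, .ofNat 0, .ofNat 173, .negSucc 18, .ofNat 0, .ofNat 0, .ofNat 660, .ofNat 438, .ofNat 0, .ofNat 683885620270855233178044804704800092454912, .ofNat 25156257240719628411331508086683729920, .ofNat 0, .ofNat 0, .ofNat 15218258423102594025353367318447260000321536,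 .ofNat 4194280274288400429955038183425006632960, .ofNat 0, .ofNat 0, .ofNat 47943446786918578843708813205070047812255744, .ofNat 9220382155748197704349418841487232204800, .ofNat 0, .ofNat 0, .ofNat 90574468633126106259740201526839872417955840, .ofNat 1655688751464003485936535088973324746752, .ofNat 0⟩)
    (by decide +kernel)
theorem L03254 : Good (Phi V5.P V5.D (-1) (-1)) ⟨4, 13, 3, 2, 2, 3, 3, 5, 5, 9⟩ :=
  leafX_sound T5.ok_mm T5.Ymm.bz_eq (w := 217) (c := ⟨⟨.negSucc 1761, .negSucc 133, .negSucc 59, .ofNat 310, .negSucc 12, .negSucc 4⟩, ⟨.ofNat 664, .ofNat 138, .ofNat 160, .negSucc 83, .ofNat 55, .ofNat 29⟩, ⟨.ofNat 309, .negSucc 227, .negSucc 127, .negSucc 1749, .negSucc 665, .negSucc 562⟩, ⟨.negSucc 2931, .ofNat 22, .negSucc 51, .ofNat 779, .ofNat 262, .ofNat 144⟩, ⟨.negSucc 477, .ofNat 55, .ofNat 107, .ofNat 669, .ofNat 614, .ofNat 332⟩, .ofNat 1023, .ofNat 1383, .ofNat 0, .ofNat 1383, .ofNat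 3010, .ofNat 0, .ofNat 128, .negSucc 223, .ofNat 32, .ofNat 0, .ofNat 153, .negSucc 25, .ofNat 0, .ofNat 0, .ofNat 708, .ofNat 468, .ofNat 0, .ofNat 2853052114916813885140479213435379060310016, .ofNat 191690656094988070350485826530174828544, .ofNat 0, .ofNat 0, .ofNat 26756961730127056531838259739959804026683392, .ofNat 10845629388289292734145168625163416109056, .ofNat 0, .ofNat 0, .ofNat 83453167758465435330926555522363606909845504, .ofNat 8625863343107150644390268001801291694080, .ofNat 0, .ofNat 0, .ofNat 173681265738900307010209164914115956409630720, .ofNat 5683982740458167606369383702064449716224, .ofNat 0⟩)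
    (by decide +kernel)
theorem L03255 : Good (Phi V5.P V5.D (-1) (-1)) ⟨4, 13, 3, 3, 3, 6, 3, 4, 5, 9⟩ :=
  leafX_sound T5.ok_mm T5.Ymm.bz_eq (w := 231) (c := ⟨⟨.negSucc 1850, .negSucc 119, .negSucc 49, .ofNat 227, .negSucc 5, .negSucc 0⟩, ⟨.ofNat 816, .ofNat 113, .ofNat 175, .negSucc 98, .ofNat 27, .ofNat 16⟩, ⟨.ofNat 782, .negSucc 201, .negSucc 148, .negSucc 798, .negSucc 627, .negSucc 584⟩, ⟨.negSucc 3328, .ofNat 44, .negSucc 64, .ofNat 558, .ofNat 277, .ofNat 175⟩, ⟨.negSucc 945, .ofNat 47, .ofNat 83, .ofNat 415, .ofNat 542, .ofNat 332⟩, .ofNat 647, .ofNat 686, .ofNat 0, .ofNat 686, .ofNat 1512, .ofNat 0, .ofNat 128, .negSucc 279, .ofNat 45, .ofNat 0, .ofNat 217, .negSucc 41, .ofNat 0, .ofNat 0, .ofNat 863, .ofNat 575, .ofNat 0, .ofNat 0, .ofNat 0, .ofNat 0, .ofNat 0, .ofNat 0, .ofNat 0, .ofNat 0, .ofNat 0, .ofNat 202156651975310736651280862215696363649522204672, .ofNat 135685581197577391328809391865082923670568960,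 .ofNat 0, .ofNat 0, .ofNat 544269399349636663030448588509927563952759242752, .ofNat 234351837722790277258485366656195132766814208, .ofNat 0⟩)
    (by decide +kernel)
theorem L03256 : Good (Phi V5.P V5.D (-1) (-1)) ⟨4, 13, 3, 3, 3, 6, 3, 5, 5, 9⟩ :=
  leafX_sound T5.ok_mm T5.Ymm.bz_eq (w := 230) (c := ⟨⟨.negSucc 1802, .negSucc 125, .negSucc 75, .ofNat 83, .negSucc 70, .negSucc 41⟩, ⟨.ofNat 817, .ofNat 142, .ofNat 173, .negSucc 16, .ofNat 74, .ofNat 42⟩, ⟨.ofNat 222, .negSucc 201, .negSucc 163, .negSucc 1022, .negSucc 772, .negSucc 687⟩, ⟨.negSucc 3009, .ofNat 36, .negSucc 78, .ofNat 436, .ofNat 303, .ofNat 166⟩, ⟨.negSucc 452, .ofNat 30, .ofNat 95, .ofNat 592, .ofNat 776, .ofNat 434⟩, .ofNat 348, .ofNat 229, .ofNat 0, .ofNat 229, .ofNat 636, .ofNat 0, .ofNat 128, .negSucc 169, .ofNat 46, .ofNat 0, .ofNat 169, .negSucc 57, .ofNat 0, .ofNat 0, .ofNat 677, .ofNat 370, .ofNat 0, .ofNat 11242954822600922600536871126528182948309499904,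 .ofNat 0, .ofNat 0, .ofNat 0, .ofNat 60729175445191315817194226964589686055988363264, .ofNat 0, .ofNat 0, .ofNat 0, .ofNat 244477930660207534510110047206977565560062083072, .ofNat 43154867074953175573406615796608241437245440, .ofNat 0, .ofNat 0, .ofNat 685104490176109426706215335791218981333968617472, .ofNat 0, .ofNat 0⟩)
    (by decide +kernel)
theorem L03257 : Good (Phi V5.P V5.D (-1) (-1)) ⟨4, 13, 3, 3, 3, 7, 3, 4, 5, 9⟩ :=
  leafX_sound T5.ok_mm T5.Ymm.bz_eq (w := 232) (c := ⟨⟨.negSucc 1568, .negSucc 82, .negSucc 80, .ofNat 225, .negSucc 108, .negSucc 109⟩, ⟨.ofNat 692, .ofNat 98, .ofNat 179, .negSucc 76, .ofNat 95, .ofNat 87⟩, ⟨.ofNat 71, .negSucc 189, .negSucc 184, .negSucc 736, .negSucc 780, .negSucc 761⟩, ⟨.negSucc 2748, .ofNat 72, .negSucc 37, .ofNat 802, .ofNat 241, .ofNat 152⟩, ⟨.negSucc 653, .ofNat 15, .ofNat 218, .ofNat 881, .ofNat 752, .ofNat 586⟩, .ofNat 651, .ofNat 691, .ofNat 0,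 .ofNat 691, .ofNat 1512, .ofNat 0, .ofNat 128, .negSucc 265, .ofNat 92, .ofNat 0, .ofNat 220, .negSucc 77, .ofNat 0, .ofNat 0, .ofNat 845, .ofNat 1591, .ofNat 0, .ofNat 25209100533886362613190983953105891819507417088, .ofNat 0, .ofNat 0, .ofNat 0, .ofNat 168771538359261114106174268270850820455991869440, .ofNat 54965685954519364236332112801099378826674176, .ofNat 0, .ofNat 0, .ofNat 920704101711370640468976221959366080046320058368, .ofNat 76989649655076237466369480372259235458711552, .ofNat 0, .ofNat 0, .ofNat 1965534884788059779072531180452179052474855849984, .ofNat 224549657317349089357784452132174462747410432, .ofNat 0⟩)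
    (by decide +kernel)
theorem L03258 : Good (Phi V5.P V5.D (-1) (-1)) ⟨4, 13, 3, 3, 3, 7, 3, 5, 5, 9⟩ :=
  out_sound (S := T5.ds_mm) T5.ok_mm (w := 36) (j := 2) (by decide +kernel)
theorem L03259 : Good (Phi V5.P V5.D (-1) (-1)) ⟨3, 6, 2, 1, 3, 4, 3, 6, 4, 4⟩ :=
  leafX_sound T5.ok_mm T5.Ymm.bz_eq (w := 219) (c := ⟨⟨.negSucc 1984, .negSucc 218, .negSucc 2, .ofNat 70, .ofNat 274, .ofNat 241⟩, ⟨.ofNat 711, .ofNat 272, .ofNat 243, .negSucc 31, .negSucc 98, .negSucc 92⟩, ⟨.ofNat 1324, .negSucc 29, .negSucc 114, .negSucc 599, .negSucc 506, .negSucc 487⟩, ⟨.negSucc 3383, .ofNat 74, .ofNat 18, .ofNat 161, .ofNat 654, .ofNat 487⟩, ⟨.negSucc 206, .negSucc 39, .ofNat 17, .ofNat 106, .ofNat 505, .ofNat 247⟩, .ofNat 570, .ofNat 561, .ofNat 0, .ofNat 561, .ofNat 1384, .ofNat 0, .ofNat 129, .negSucc 127, .negSucc 51, .ofNat 0, .ofNat 96, .ofNat 20, .ofNat 0, .ofNat 0, .ofNat 337, .ofNat 294, .ofNat 0, .ofNat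 0, .ofNat 0, .ofNat 0, .ofNat 0, .ofNat 0, .ofNat 0, .ofNat 0, .ofNat 0, .ofNat 23245432090199076459707901101311190712188928, .ofNat 1302242600502795878544409166507242055270400, .ofNat 0, .ofNat 0, .ofNat 41600686405324848987404189570654243672555520, .ofNat 1336763368298191320007363394916675361964032, .ofNat 0⟩)
    (by decide +kernel)
theorem L03260 : Good (Phi V5.P V5.D (-1) (-1)) ⟨3, 6, 2, 1, 3, 5, 3, 6, 4, 4⟩ :=
  leafX_sound T5.ok_mm T5.Ymm.bz_eq (w := 218) (c := ⟨⟨.negSucc 1873, .negSucc 167, .negSucc 80, .ofNat 141, .ofNat 192, .ofNat 195⟩, ⟨.ofNat 660, .ofNat 258, .ofNat 269, .negSucc 53, .negSucc 54, .negSucc 63⟩, ⟨.ofNat 819, .negSucc 106, .negSucc 203, .negSucc 645, .negSucc 514, .negSucc 672⟩, ⟨.negSucc 3210, .ofNat 145, .negSucc 100, .ofNat 316, .ofNat 621, .ofNat 518⟩, ⟨.negSucc 212, .negSucc 10, .ofNat 14, .ofNat 194, .ofNat 685, .ofNat 442⟩, .ofNat 335, .ofNat 200, .ofNat 0, .ofNat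 200, .ofNat 639, .ofNat 0, .ofNat 128, .negSucc 128, .negSucc 42, .ofNat 0, .ofNat 125, .ofNat 6, .ofNat 0, .ofNat 0, .ofNat 361, .ofNat 192, .ofNat 0, .ofNat 0, .ofNat 0, .ofNat 0, .ofNat 0, .ofNat 23274755360112571806743565102991769836978176, .ofNat 53989185452161877194952477080798334287872, .ofNat 0, .ofNat 0, .ofNat 72452728082220137096974632440092646726172672, .ofNat 667312128621098470687056548451652651188224, .ofNat 0, .ofNat 0, .ofNat 119046913862667876333049152042965478221545472, .ofNat 0, .ofNat 0⟩)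
    (by decide +kernel)
theorem L03261 : Good (Phi V5.P V5.D (-1) (-1)) ⟨3, 6, 2, 1, 2, 2, 3, 7, 4, 4⟩ :=
  leafX_sound T5.ok_mm T5.Ymm.bz_eq (w := 205) (c := ⟨⟨.negSucc 1642, .negSucc 159, .negSucc 21, .ofNat 28, .ofNat 486, .ofNat 194⟩, ⟨.ofNat 600, .ofNat 285, .ofNat 173, .ofNat 22, .negSucc 162, .negSucc 67⟩, ⟨.ofNat 735, .negSucc 82, .negSucc 42, .negSucc 953, .negSucc 588, .negSucc 338⟩, ⟨.negSucc 2632, .ofNat 196, .ofNat 1, .ofNat 240, .ofNat 1129, .ofNat 432⟩, ⟨.ofNat 298, .ofNat 53, .negSucc 46, .ofNat 437, .ofNat 803, .ofNat 284⟩, .ofNat 335, .ofNat 199, .ofNat 0, .ofNat 199, .ofNat 641, .ofNat 0, .ofNat 131, .negSucc 125, .negSucc 117, .ofNat 0, .ofNat 128, .ofNat 36, .ofNat 0, .ofNat 0, .ofNat 452, .ofNat 552, .ofNat 0, .ofNat 0, .ofNat 0, .ofNat 0, .ofNat 0, .ofNat 16808945584334382230969799942385302503424, .ofNat 0, .ofNat 0, .ofNat 0, .ofNat 50914596365689174488130580845327787491328,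 .ofNat 56295061629847863213823223903276761088, .ofNat 0, .ofNat 0, .ofNat 68521527918053479155822582061608483160064, .ofNat 0, .ofNat 0⟩)
    (by decide +kernel)
theorem L03262 : Good (Phi V5.P V5.D (-1) (-1)) ⟨3, 6, 2, 1, 2, 3, 2, 3, 4, 4⟩ :=
  leafX_sound T5.ok_mm T5.Ymm.bz_eq (w := 201) (c := ⟨⟨.negSucc 1662, .negSucc 168, .negSucc 153, .ofNat 283, .ofNat 41, .ofNat 17⟩, ⟨.ofNat 578, .ofNat 248, .ofNat 304, .negSucc 69, .ofNat 89, .ofNat 39⟩, ⟨.ofNat 268, .negSucc 258, .negSucc 222, .negSucc 1524, .negSucc 1226, .negSucc 970⟩, ⟨.negSucc 2815, .ofNat 142, .negSucc 179, .ofNat 864, .ofNat 823, .ofNat 416⟩, ⟨.negSucc 80, .negSucc 15, .ofNat 88, .ofNat 814, .ofNat 1627, .ofNat 819⟩, .ofNat 334, .ofNat 197, .ofNat 0, .ofNat 197, .ofNat 646, .ofNat 0, .ofNat 128, .negSucc 282, .negSucc 32, .ofNat 0, .ofNat 269, .negSucc 8, .ofNat 0, .ofNat 0, .ofNat 498, .ofNat 599, .ofNat 0, .ofNat 2418168347544932522317858000951899586560,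 .ofNat 0, .ofNat 0, .ofNat 0, .ofNat 9922735974990366910809796442843089207296, .ofNat 706531573819416945555066752356843520, .ofNat 0, .ofNat 0, .ofNat 65818199865923639375540134631402970808320, .ofNat 0, .ofNat 0, .ofNat 0, .ofNat 60094695369528881496177804875875322167296, .ofNat 0, .ofNat 0⟩)
    (by decide +kernel)

end Crest.Agent.R097C5.N5mm
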