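import Crest.Agent.R097.KP7
import Crest.Agent.R097.T5Ymm

/-!
# Row 97, box cover in dimension n = 5 (generated)
-/

set_option autoImplicit false
set_option Elab.async false
set_option maxHeartbeats 0
set_option maxRecDepth 100000

open Crest.Agent.R097 Crest.Agent.R097.KA


namespace Crest.Agent.R097C5.N5mm

theorem L03263 : Good (Phi V5.P V5.D (-1) (-1)) ⟨4, 12, 2, 1, 3, 4, 2, 2, 4, 5⟩ :=
  leafX_sound T5.ok_mm T5.Ymm.bz_eq (w := 219) (c := ⟨⟨.negSucc 2078, .negSucc 109, .negSucc 1, .ofNat 117, .ofNat 261, .ofNat 243⟩, ⟨.ofNat 728, .ofNat 116, .ofNat 284, .negSucc 50, .negSucc 88, .negSucc 95⟩, ⟨.ofNat 1676, .ofNat 24, .negSucc 172, .negSucc 667, .negSucc 844, .negSucc 328⟩, ⟨.negSucc 3601, .ofNat 36, .negSucc 47, .ofNat 169, .ofNat 639, .ofNat 444⟩, ⟨.negSucc 408, .negSucc 14, .negSucc 8, .negSucc 44, .ofNat 523, .ofNat 121⟩, .ofNat 340, .ofNat 209, .ofNat 0, .ofNat 209, .ofNat 696, .ofNat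 0, .ofNat 168, .negSucc 124, .negSucc 57, .ofNat 0, .ofNat 128, .ofNat 14, .ofNat 0, .ofNat 0, .ofNat 812, .ofNat 458, .ofNat 0, .ofNat 0, .ofNat 0, .ofNat 0, .ofNat 0, .ofNat 0, .ofNat 0, .ofNat 0, .ofNat 0, .ofNat 227758737495349234258043131712406489007128576, .ofNat 20638974231677659375464648072446114529280, .ofNat 0, .ofNat 0, .ofNat 1025779506427509700623463213622324971404525568, .ofNat 156382966014696238933847271179729128914944, .ofNat 0⟩)
    (by decide +kernel)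
theorem L03264 : Good (Phi V5.P V5.D (-1) (-1)) ⟨4, 12, 2, 1, 3, 5, 3, 4, 4, 5⟩ :=
  leafX_sound T5.ok_mm T5.Ymm.bz_eq (w := 223) (c := ⟨⟨.negSucc 1924, .negSucc 116, .negSucc 22, .ofNat 167, .ofNat 103, .ofNat 191⟩, ⟨.ofNat 657, .ofNat 107, .ofNat 295, .negSucc 61, .negSucc 25, .negSucc 66⟩, ⟨.ofNat 1235, .negSucc 133, .negSucc 214, .negSucc 814, .negSucc 469, .negSucc 653⟩, ⟨.negSucc 3406, .ofNat 22, .negSucc 83, .ofNat 288, .ofNat 303, .ofNat 414⟩, ⟨.negSucc 576, .ofNat 25, .negSucc 7, .ofNat 63, .ofNat 327, .ofNat 263⟩, .ofNat 329, .ofNat 184, .ofNat 0, .ofNat 184, .ofNat 651, .ofNat 0, .ofNat 128, .negSucc 127, .ofNat 1, .ofNat 0, .ofNat 146, .negSucc 13, .ofNat 0, .ofNat 0, .ofNat 780, .ofNat 636, .ofNat 0, .ofNat 0, .ofNat 0, .ofNat 0, .ofNat 0, .ofNat 473819309280010953283439219721399113376333824, .ofNat 87710412062269663974171881479618416345088, .ofNat 0, .ofNat 0, .ofNat 1541887369594750913285939689986766484652687360,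 .ofNat 788983387302765824264487597596020008026112, .ofNat 0, .ofNat 0, .ofNat 6486156892998766056095294492273275178175168512, .ofNat 2854358983345933422569000533564461498236928, .ofNat 0⟩)
    (by decide +kernel)
theorem L03265 : Good (Phi V5.P V5.D (-1) (-1)) ⟨4, 12, 2, 1, 3, 5, 3, 5, 4, 5⟩ :=
  leafX_sound T5.ok_mm T5.Ymm.bz_eq (w := 223) (c := ⟨⟨.negSucc 1770, .negSucc 103, .negSucc 65, .ofNat 74, .ofNat 95, .ofNat 130⟩, ⟨.ofNat 609, .ofNat 121, .ofNat 281, .negSucc 16, .negSucc 13, .negSucc 35⟩, ⟨.ofNat 841, .negSucc 122, .negSucc 289, .negSucc 961, .negSucc 549, .negSucc 797⟩, ⟨.negSucc 3074, .ofNat 46, .negSucc 93, .ofNat 217, .ofNat 345, .ofNat 352⟩, ⟨.negSucc 324, .ofNat 13, .ofNat 45, .ofNat 225, .ofNat 461, .ofNat 339⟩, .ofNat 553, .ofNat 549, .ofNat 0, .ofNat 549, .ofNat 1508, .ofNat 0, .ofNat 128, .negSucc 174, .ofNat 11, .ofNat 0, .ofNat 131, .negSucc 12, .ofNat 0, .ofNat 0, .ofNat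 689, .ofNat 387, .ofNat 0, .ofNat 102193329691598885488974414274846956730712064, .ofNat 4927573298796190348581702067359083134976, .ofNat 0, .ofNat 0, .ofNat 1084623963079622128982229999553079657094971392, .ofNat 0, .ofNat 0, .ofNat 0, .ofNat 2767376446011253575068674322690360640215711744, .ofNat 883454779464253034812246063782791269580800, .ofNat 0, .ofNat 0, .ofNat 8740714774034003937870106143560437321365979136, .ofNat 0, .ofNat 0⟩)
    (by decide +kernel)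
theorem L03266 : Good (Phi V5.P V5.D (-1) (-1)) ⟨4, 13, 2, 1, 3, 4, 2, 2, 4, 5⟩ :=
  leafX_sound T5.ok_mm T5.Ymm.bz_eq (w := 220) (c := ⟨⟨.negSucc 2226, .negSucc 161, .ofNat 52, .ofNat 107, .ofNat 236, .ofNat 258⟩, ⟨.ofNat 877, .ofNat 137, .ofNat 277, .negSucc 57, .negSucc 94, .negSucc 126⟩, ⟨.ofNat 1867, .negSucc 91, .negSucc 105, .negSucc 862, .negSucc 1011, .negSucc 493⟩, ⟨.negSucc 3639, .negSucc 9, .ofNat 29, .ofNat 157, .ofNat 650, .ofNat 470⟩, ⟨.negSucc 484, .ofNat 31, .negSucc 1, .negSucc 4, .ofNat 571, .ofNat 155⟩, .ofNat 635, .ofNat 665, .ofNat 0, .ofNat 665, .ofNat 1477, .ofNat 0, .ofNat 128, .negSucc 280, .negSucc 66, .ofNat 0, .ofNat 213, .ofNat 27, .ofNat 0, .ofNat 0, .ofNat 1127, .ofNat 584, .ofNat 0, .ofNat 0, .ofNat 0, .ofNat 0, .ofNat 0, .ofNat 0, .ofNat 61099829318289282458504419239090997690368, .ofNat 0, .ofNat 0, .ofNat 658667009806453540751307709136883165362651136, .ofNat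 279503884218633374827022375961113583943680, .ofNat 0, .ofNat 0, .ofNat 2045769841471868496106340325262914136618041344, .ofNat 272131357825820709542920289415859416334336, .ofNat 0⟩)
    (by decide +kernel)
theorem L03267 : Good (Phi V5.P V5.D (-1) (-1)) ⟨4, 13, 3, 2, 3, 5, 3, 4, 4, 5⟩ :=
  leafX_sound T5.ok_mm T5.Ymm.bz_eq (w := 227) (c := ⟨⟨.negSucc 2021, .negSucc 28, .ofNat 9, .ofNat 139, .ofNat 67, .ofNat 168⟩, ⟨.ofNat 761, .ofNat 63, .ofNat 138, .negSucc 56, .negSucc 4, .negSucc 56⟩, ⟨.ofNat 1334, .ofNat 137, .negSucc 209, .negSucc 935, .negSucc 570, .negSucc 759⟩, ⟨.negSucc 3387, .ofNat 105, .negSucc 10, .ofNat 269, .ofNat 276, .ofNat 404⟩, ⟨.negSucc 604, .negSucc 82, .negSucc 17, .ofNat 117, .ofNat 369, .ofNat 310⟩, .ofNat 848, .ofNat 1055, .ofNat 0, .ofNat 1055, .ofNat 2360, .ofNat 0, .ofNat 128, .negSucc 374, .ofNat 17, .ofNat 0, .ofNat 266, .negSucc 18, .ofNat 0, .ofNat 0, .ofNat 1554,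 .ofNat 1423, .ofNat 0, .ofNat 0, .ofNat 0, .ofNat 0, .ofNat 0, .ofNat 9096482559667557573526312838790913363065962496, .ofNat 11705341752461394048076473688010609831968768, .ofNat 0, .ofNat 0, .ofNat 49366121792560730711393125552507579863637426176, .ofNat 27741428539822006762666842179312892193538048, .ofNat 0, .ofNat 0, .ofNat 205827285545904724507173052903130282820978606080, .ofNat 5255909111848282097476305242442657779679232, .ofNat 0⟩)
    (by decide +kernel)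
theorem L03268 : Good (Phi V5.P V5.D (-1) (-1)) ⟨4, 13, 3, 2, 3, 5, 3, 5, 4, 5⟩ :=
  leafX_sound T5.ok_mm T5.Ymm.bz_eq (w := 226) (c := ⟨⟨.negSucc 1857, .negSucc 154, .negSucc 40, .ofNat 61, .ofNat 71, .ofNat 121⟩, ⟨.ofNat 720, .ofNat 152, .ofNat 147, .negSucc 10, .ofNat 2, .negSucc 28⟩, ⟨.ofNat 822, .negSucc 282, .negSucc 189, .negSucc 1035, .negSucc 635, .negSucc 871⟩, ⟨.negSucc 3020, .negSucc 3, .negSucc 47, .ofNat 200, .ofNat 317, .ofNat 352⟩, ⟨.negSucc 335, .ofNat 44, .ofNat 40, .ofNat 229, .ofNat 451, .ofNat 357⟩, .ofNat 1143, .ofNat 1610, .ofNat 0, .ofNat 1610, .ofNat 3461, .ofNat 0, .ofNat 128, .negSucc 190, .ofNat 16, .ofNat 0, .ofNat 129, .negSucc 13, .ofNat 0, .ofNat 0, .ofNat 671, .ofNat 432, .ofNat 0, .ofNat 660190546849455158796398390943536649145942016, .ofNat 30844024434386004302739377348655466938368, .ofNat 0, .ofNat 0, .ofNat 0, .ofNat 21886887126346741142360689111880977833000960,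 .ofNat 0, .ofNat 0, .ofNat 23201751596742113859590455175874347418035159040, .ofNat 10938895979831038591380621934028838318112768, .ofNat 0, .ofNat 0, .ofNat 63978151224894899932810569205839967167893733376, .ofNat 1646942961023028721107889499653311383470080, .ofNat 0⟩)
    (by decide +kernel)
theorem L03269 : Good (Phi V5.P V5.D (-1) (-1)) ⟨4, 13, 3, 3, 3, 5, 3, 4, 5, 10⟩ :=
  leafX_sound T5.ok_mm T5.Ymm.bz_eq (w := 232) (c := ⟨⟨.negSucc 1992, .negSucc 100, .negSucc 34, .ofNat 107, .ofNat 48, .ofNat 82⟩, ⟨.ofNat 899, .ofNat 109, .ofNat 172, .negSucc 51, .negSucc 9, .negSucc 35⟩, ⟨.ofNat 1202, .negSucc 84, .negSucc 159, .negSucc 1023, .negSucc 612, .negSucc 437⟩, ⟨.negSucc 3406, .ofNat 55, .negSucc 54, .ofNat 249, .ofNat 285, .ofNat 218⟩, ⟨.negSucc 676, .ofNat 13, .ofNat 46, .ofNat 163, .ofNat 398, .ofNat 179⟩, .ofNat 644, .ofNat 680, .ofNat 0, .ofNat 680, .ofNat 1497, .ofNat 0, .ofNat 128, .negSucc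 344, .ofNat 8, .ofNat 0, .ofNat 262, .negSucc 18, .ofNat 0, .ofNat 0, .ofNat 1339, .ofNat 1490, .ofNat 0, .ofNat 0, .ofNat 0, .ofNat 0, .ofNat 0, .ofNat 36145146101328441423110832342496238752162119680, .ofNat 88747080185937022171337816665658408252211200, .ofNat 0, .ofNat 0, .ofNat 302325361555793319508970371508541603407776972800, .ofNat 472523833532167061125921397026125310421106688, .ofNat 0, .ofNat 0, .ofNat 1085436225539884007985080761553373819650789343232, .ofNat 245509739600011549824285051246168835033661440, .ofNat 0⟩)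
    (by decide +kernel)
theorem L03270 : Good (Phi V5.P V5.D (-1) (-1)) ⟨4, 13, 3, 3, 3, 5, 3, 4, 5, 11⟩ :=
  leafX_sound T5.ok_mm T5.Ymm.bz_eq (w := 232) (c := ⟨⟨.negSucc 1851, .negSucc 161, .negSucc 5, .ofNat 15, .ofNat 2, .ofNat 32⟩, ⟨.ofNat 836, .ofNat 152, .ofNat 140, .ofNat 5, .ofNat 17, .negSucc 7⟩, ⟨.ofNat 1050, .negSucc 301, .negSucc 104, .negSucc 1401, .negSucc 800, .negSucc 596⟩, ⟨.negSucc 3114, .negSucc 4, .negSucc 27, .ofNat 146, .ofNat 222, .ofNat 140⟩, ⟨.negSucc 520, .ofNat 63, .ofNat 3, .ofNat 234, .ofNat 415, .ofNat 178⟩, .ofNat 648, .ofNat 689, .ofNat 0, .ofNat 689, .ofNat 1520, .ofNat 0, .ofNat 128, .negSucc 303, .ofNat 62, .ofNat 0, .ofNat 233, .negSucc 44, .ofNat 0, .ofNat 0, .ofNat 1180, .ofNat 908, .ofNat 0, .ofNat 6571400523536030608855845864420775592370110464, .ofNat 2522709548505831212608158858683256399724544, .ofNat 0, .ofNat 0, .ofNat 0, .ofNat 107977805274078869850927347469457755406860288,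 .ofNat 0, .ofNat 0, .ofNat 399607628469116111890145431672686502651786952704, .ofNat 505832949049689497153860369287147769353469952, .ofNat 0, .ofNat 0, .ofNat 1332098682945823511301473038534531627524802215936, .ofNat 154644561080665705392584689676132361542041600, .ofNat 0⟩)
    (by decide +kernel)
theorem L03271 : Good (Phi V5.P V5.D (-1) (-1)) ⟨4, 13, 3, 3, 3, 5, 3, 5, 5, 10⟩ :=
  leafX_sound T5.ok_mm T5.Ymm.bz_eq (w := 230) (c := ⟨⟨.negSucc 1881, .negSucc 157, .negSucc 9, .negSucc 4, .ofNat 51, .ofNat 40⟩, ⟨.ofNat 862, .ofNat 165, .ofNat 131, .ofNat 19, .negSucc 3, .negSucc 9⟩, ⟨.ofNat 693, .negSucc 269, .negSucc 65, .negSucc 1219, .negSucc 669, .negSucc 538⟩, ⟨.negSucc 3070, .ofNat 6, .negSucc 22, .ofNat 164, .ofNat 352, .ofNat 172⟩, ⟨.negSucc 338, .ofNat 58, .ofNat 7, .ofNat 329, .ofNat 521, .ofNat 219⟩, .ofNat 347, .ofNat 227, .ofNat 0, .ofNat 227, .ofNat 635, .ofNat 0, .ofNat 128, .negSucc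 157, .ofNat 23, .ofNat 0, .ofNat 159, .negSucc 36, .ofNat 0, .ofNat 0, .ofNat 794, .ofNat 347, .ofNat 0, .ofNat 5642992926234304823925002414113507322584104960, .ofNat 1722426283814031140668134125159383539122176, .ofNat 0, .ofNat 0, .ofNat 49120439335533174913562897835954405056494698496, .ofNat 2547627176335914781126103981168793999114240, .ofNat 0, .ofNat 0, .ofNat 180837141853449148672759161782722432557348028416, .ofNat 44309765024422168360064682768384236030263296, .ofNat 0, .ofNat 0, .ofNat 570946479397730914038435208002074813881988939776, .ofNat 195117516059656582307375666075545261672759296, .ofNat 0⟩)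
    (by decide +kernel)
theorem L03272 : Good (Phi V5.P V5.D (-1) (-1)) ⟨4, 13, 3, 3, 3, 5, 3, 5, 5, 11⟩ :=
  leafX_sound T5.ok_mm T5.Ymm.bz_eq (w := 232) (c := ⟨⟨.negSucc 1776, .negSucc 150, .negSucc 45, .negSucc 151, .negSucc 46, .negSucc 25⟩, ⟨.ofNat 821, .ofNat 176, .ofNat 137, .ofNat 101, .ofNat 53, .ofNat 25⟩, ⟨.ofNat 431, .negSucc 290, .negSucc 204, .negSucc 1805, .negSucc 1045, .negSucc 786⟩, ⟨.negSucc 2846, .ofNat 26, .negSucc 51, .ofNat 27, .ofNat 253, .ofNat 105⟩, ⟨.negSucc 187, .ofNat 60, .ofNat 39, .ofNat 483, .ofNat 614, .ofNat 270⟩, .ofNat 348, .ofNat 229, .ofNat 0, .ofNat 229, .ofNat 635, .ofNat 0, .ofNat 128, .negSucc 244, .ofNat 66, .ofNat 0, .ofNat 251, .negSucc 66, .ofNat 0, .ofNat 0, .ofNat 1110, .ofNat 999, .ofNat 0, .ofNat 39630662417912739317908478900118557902531198976, .ofNat 0, .ofNat 0, .ofNat 0, .ofNat 194814277339965864888579999609439198567433502720, .ofNat 15014260138397492597115610093610120249344000,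 .ofNat 0, .ofNat 0, .ofNat 1066226217694447447170716921692210316875459985408, .ofNat 0, .ofNat 0, .ofNat 0, .ofNat 2582193678984245559849284739904826637269304606720, .ofNat 232431073538762817512691644668817521801953280, .ofNat 0⟩)
    (by decide +kernel)
theorem L03273 : Good (Phi V5.P V5.D (-1) (-1)) ⟨3, 6, 2, 1, 3, 4, 3, 6, 4, 5⟩ :=
  leafX_sound T5.ok_mm T5.Ymm.bz_eq (w := 219) (c := ⟨⟨.negSucc 1698, .negSucc 215, .negSucc 23, .ofNat 12, .ofNat 194, .ofNat 134⟩, ⟨.ofNat 605, .ofNat 281, .ofNat 214, .ofNat 11, .negSucc 64, .negSucc 48⟩, ⟨.ofNat 1023, .negSucc 262, .negSucc 85, .negSucc 883, .negSucc 536, .negSucc 562⟩, ⟨.negSucc 2859, .ofNat 98, .ofNat 2, .ofNat 127, .ofNat 551, .ofNat 320⟩, ⟨.negSucc 38, .ofNat 41, .ofNat 18, .ofNat 230, .ofNat 526, .ofNat 236⟩, .ofNat 335, .ofNat 200, .ofNat 0, .ofNat 200, .ofNat 645, .ofNat 0, .ofNat 143, .negSucc 119, .negSucc 24, .ofNat 0, .ofNat 128, .negSucc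 6, .ofNat 0, .ofNat 0, .ofNat 592, .ofNat 387, .ofNat 0, .ofNat 0, .ofNat 0, .ofNat 0, .ofNat 0, .ofNat 55102276565988203425868295853515580672835584, .ofNat 194855604182760978787476897270164963196928, .ofNat 0, .ofNat 0, .ofNat 130206595544697205196335262332626761873883136, .ofNat 1063450314250222510496813413725573776146432, .ofNat 0, .ofNat 0, .ofNat 363919779717375438271496412594927493112135680, .ofNat 0, .ofNat 0⟩)
    (by decide +kernel)
theorem L03274 : Good (Phi V5.P V5.D (-1) (-1)) ⟨3, 6, 2, 1, 3, 5, 3, 6, 4, 5⟩ :=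
  leafX_sound T5.ok_mm T5.Ymm.bz_eq (w := 221) (c := ⟨⟨.negSucc 1660, .negSucc 210, .negSucc 77, .ofNat 1, .ofNat 65, .ofNat 1⟩, ⟨.ofNat 593, .ofNat 299, .ofNat 239, .ofNat 0, .ofNat 12, .ofNat 0⟩, ⟨.ofNat 250, .negSucc 304, .negSucc 218, .ofNat 0, .negSucc 692, .ofNat 0⟩, ⟨.negSucc 2707, .ofNat 128, .negSucc 75, .ofNat 1, .ofNat 434, .ofNat 1⟩, ⟨.ofNat 174, .ofNat 66, .ofNat 27, .ofNat 0, .ofNat 704, .ofNat 0⟩, .ofNat 163, .ofNat 40, .ofNat 0, .ofNat 40, .ofNat 225, .ofNat 0, .ofNat 128, .negSucc 94, .negSucc 25, .ofNat 0, .ofNat 176, .negSucc 36, .ofNat 0, .ofNat 0, .ofNat 494, .ofNat 4464, .ofNat 0, .ofNat 0, .ofNat 0, .ofNat 0, .ofNat 0, .ofNat 522390278479263186992087519024515513537527808, .ofNat 687643128385887941444462697586384479191040, .ofNat 0, .ofNat 0, .ofNat 1351973036184834129160974933849885241841287168, .ofNat 0, .ofNat 0, .ofNat 0, .ofNat 3546291838892946074149017608475876244875902976,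 .ofNat 1983393034856565397324770450886199540187136, .ofNat 0⟩)
    (by decide +kernel)
theorem L03275 : Good (Phi V5.P V5.D (-1) (-1)) ⟨3, 6, 2, 1, 2, 2, 3, 7, 4, 5⟩ :=
  out_sound (S := T5.ds_mm) T5.ok_mm (w := 32) (j := 2) (by decide +kernel)
theorem L03276 : Good (Phi V5.P V5.D (-1) (-1)) ⟨3, 6, 2, 1, 3, 6, 3, 4, 5, 10⟩ :=
  leafX_sound T5.ok_mm T5.Ymm.bz_eq (w := 224) (c := ⟨⟨.negSucc 1698, .negSucc 188, .negSucc 98, .ofNat 171, .negSucc 12, .ofNat 45⟩, ⟨.ofNat 566, .ofNat 201, .ofNat 331, .negSucc 63, .ofNat 33, .negSucc 8⟩, ⟨.ofNat 552, .negSucc 272, .negSucc 359, .negSucc 919, .negSucc 688, .negSucc 498⟩, ⟨.negSucc 3072, .ofNat 87, .negSucc 137, .ofNat 422, .ofNat 236, .ofNat 180⟩, ⟨.negSucc 629, .ofNat 5, .ofNat 139, .ofNat 329, .ofNat 503, .ofNat 246⟩, .ofNat 336, .ofNat 203, .ofNat 0, .ofNat 203, .ofNat 642, .ofNat 0, .ofNat 128, .negSucc 216, .ofNat 48, .ofNat 0, .ofNat 244, .negSucc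 51, .ofNat 0, .ofNat 0, .ofNat 958, .ofNat 1064, .ofNat 0, .ofNat 109482428602445561418350217018971257957253120, .ofNat 0, .ofNat 0, .ofNat 0, .ofNat 863793416174492076760364854453971090522767360, .ofNat 14765226165980060461665611199180069916377088, .ofNat 0, .ofNat 0, .ofNat 5145071701381493121787905336330115264142114816, .ofNat 63641442078743260812463510479890202973175808, .ofNat 0, .ofNat 0, .ofNat 11971059637860003338288246285050872704490536960, .ofNat 0, .ofNat 0⟩)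
    (by decide +kernel)
theorem L03277 : Good (Phi V5.P V5.D (-1) (-1)) ⟨3, 6, 2, 1, 3, 6, 3, 4, 5, 11⟩ :=
  leafX_sound T5.ok_mm T5.Ymm.bz_eq (w := 229) (c := ⟨⟨.negSucc 1641, .negSucc 215, .negSucc 114, .ofNat 1, .negSucc 63, .ofNat 1⟩, ⟨.ofNat 551, .ofNat 224, .ofNat 334, .ofNat 0, .ofNat 63, .ofNat 0⟩, ⟨.ofNat 143, .negSucc 357, .negSucc 486, .ofNat 0, .negSucc 831, .ofNat 0⟩, ⟨.negSucc 2880, .ofNat 66, .negSucc 144, .ofNat 1, .ofNat 132, .ofNat 1⟩, ⟨.negSucc 382, .ofNat 34, .ofNat 140, .ofNat 0, .ofNat 462, .ofNat 0⟩, .ofNat 335, .ofNat 199, .ofNat 0, .ofNat 199, .ofNat 644, .ofNat 0, .ofNat 128, .negSucc 324, .ofNat 98, .ofNat 0, .ofNat 373, .negSucc 86, .ofNat 0, .ofNat 0, .ofNat 1596, .ofNat 25860, .ofNat 0, .ofNat 1528471248982315595602368890009567982235156480, .ofNat 0, .ofNat 0, .ofNat 0, .ofNat 23428933277651701040293371246798855046858539008, .ofNat 31246288140683307719010994518830757451923456,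 .ofNat 0, .ofNat 0, .ofNat 113576471099895375180139153079773282859904663552, .ofNat 1653476138135538930662880103308655560117714944, .ofNat 0, .ofNat 0, .ofNat 415144800059311528730911666949501534497247592448, .ofNat 886603654844142803043660725762683764220100608, .ofNat 0⟩)
    (by decide +kernel)
theorem L03278 : Good (Phi V5.P V5.D (-1) (-1)) ⟨3, 6, 2, 1, 3, 6, 3, 5, 4, 5⟩ :=
  out_sound (S := T5.ds_mm) T5.ok_mm (w := 34) (j := 2) (by decide +kernel)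
theorem L03279 : Good (Phi V5.P V5.D (-1) (-1)) ⟨3, 6, 2, 1, 3, 7, 2, 2, 4, 5⟩ :=
  out_sound (S := T5.ds_mm) T5.ok_mm (w := 32) (j := 2) (by decide +kernel)
theorem L03280 : Good (Phi V5.P V5.D (-1) (-1)) ⟨3, 6, 2, 1, 2, 3, 2, 3, 4, 5⟩ :=
  out_sound (S := T5.ds_mm) T5.ok_mm (w := 30) (j := 2) (by decide +kernel)
theorem L03281 : Good (Phi V5.P V5.D (-1) (-1)) ⟨3, 7, 2, 1, 1, 1, 1, 1, 3, 2⟩ :=
  out_sound (S := T5.ds_mm) T5.ok_mm (w := 43) (j := 3) (by decide +kernel)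
theorem L03282 : Good (Phi V5.P V5.D (-1) (-1)) ⟨3, 4, 2, 1, 2, 2, 2, 2, 3, 3⟩ :=
  out_sound (S := T5.ds_mm) T5.ok_mm (w := 43) (j := 3) (by decide +kernel)
theorem L03283 : Good (Phi V5.P V5.D (-1) (-1)) ⟨3, 5, 3, 2, 3, 4, 3, 4, 4, 6⟩ :=
  leafX_sound T5.ok_mm T5.Ymm.bz_eq (w := 224) (c := ⟨⟨.negSucc 1591, .negSucc 209, .negSucc 3, .ofNat 80, .ofNat 89, .ofNat 153⟩, ⟨.ofNat 421, .ofNat 200, .ofNat 123, .negSucc 25, .negSucc 23, .negSucc 47⟩, ⟨.ofNat 1588, .negSucc 230, .negSucc 74, .negSucc 759, .negSucc 430, .negSucc 371⟩, ⟨.negSucc 3161, .ofNat 45, .negSucc 14, .ofNat 150, .ofNat 228, .ofNat 304⟩, ⟨.negSucc 357, .ofNat 37, .negSucc 0, .ofNat 43, .ofNat 218, .ofNat 125⟩, .ofNat 532, .ofNat 535, .ofNat 0, .ofNat 535, .ofNat 1840, .ofNat 0, .ofNat 128, .negSucc 170, .ofNat 3, .ofNat 0, .ofNat 121, .negSucc 8, .ofNat 0, .ofNat 0, .ofNat 1563, .ofNat 3527, .ofNat 10196226844475322929984693247426856435354435584,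 .ofNat 0, .ofNat 610326051294316248963601397031594627170304, .ofNat 0, .ofNat 0, .ofNat 544601718120885444370923433819936348973301760, .ofNat 3065057163909759455647192475567420264677376, .ofNat 0, .ofNat 0, .ofNat 1414464037270178510662732520604338570678763520, .ofNat 704398121708566226123931526766882090647552, .ofNat 0, .ofNat 0, .ofNat 11485434550402539436375402319495614006382559232, .ofNat 108057540686676579370461125269222177843970048, .ofNat 0⟩)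
    (by decide +kernel)
theorem L03284 : Good (Phi V5.P V5.D (-1) (-1)) ⟨3, 5, 3, 2, 3, 4, 3, 5, 4, 6⟩ :=
  leafX_sound T5.ok_mm T5.Ymm.bz_eq (w := 222) (c := ⟨⟨.negSucc 1486, .negSucc 193, .ofNat 2, .ofNat 37, .ofNat 94, .ofNat 118⟩, ⟨.ofNat 379, .ofNat 212, .ofNat 108, .negSucc 9, .negSucc 22, .negSucc 35⟩, ⟨.ofNat 1247, .negSucc 294, .ofNat 37, .negSucc 878, .negSucc 494, .negSucc 440⟩, ⟨.negSucc 2927, .ofNat 79, .ofNat 0, .ofNat 115, .ofNat 269, .ofNat 254⟩, ⟨.negSucc 186, .ofNat 52, .negSucc 10, .ofNat 143, .ofNat 310, .ofNat 147⟩, .ofNat 534, .ofNat 541, .ofNat 0, .ofNat 541, .ofNat 1854, .ofNat 0, .ofNat 287, .negSucc 127, .ofNat 6, .ofNat 0, .ofNat 90, .negSucc 10, .ofNat 0, .ofNat 0, .ofNat 1194, .ofNat 696, .ofNat 0, .ofNat 0, .ofNat 0, .ofNat 0, .ofNat 0, .ofNat 0, .ofNat 0, .ofNat 0, .ofNat 0, .ofNat 1335374073724820429611811872030935655206879232, .ofNat 4450284934194367880478355183346306965831680,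 .ofNat 0, .ofNat 0, .ofNat 9617125506563028027004736078947162759618363392, .ofNat 0, .ofNat 0⟩)
    (by decide +kernel)
theorem L03285 : Good (Phi V5.P V5.D (-1) (-1)) ⟨3, 5, 3, 3, 3, 4, 2, 2, 4, 6⟩ :=
  out_sound (S := T5.ds_mm) T5.ok_mm (w := 45) (j := 3) (by decide +kernel)
theorem L03286 : Good (Phi V5.P V5.D (-1) (-1)) ⟨3, 5, 2, 1, 3, 5, 2, 2, 4, 6⟩ :=
  leafX_sound T5.ok_mm T5.Ymm.bz_eq (w := 216) (c := ⟨⟨.negSucc 1513, .negSucc 188, .negSucc 21, .ofNat 81, .ofNat 116, .ofNat 129⟩, ⟨.ofNat 397, .ofNat 189, .ofNat 258, .negSucc 25, .negSucc 22, .negSucc 37⟩, ⟨.ofNat 864, .negSucc 217, .negSucc 212, .negSucc 913, .negSucc 1058, .negSucc 595⟩, ⟨.negSucc 3017, .ofNat 69, .negSucc 65, .ofNat 172, .ofNat 401, .ofNat 294⟩, ⟨.negSucc 342, .ofNat 16, .ofNat 15, .ofNat 99, .ofNat 595, .ofNat 216⟩, .ofNat 328, .ofNat 164, .ofNat 0, .ofNat 164, .ofNat 731, .ofNat 0, .ofNat 164, .negSucc 102, .ofNat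 31, .ofNat 0, .ofNat 128, .negSucc 26, .ofNat 0, .ofNat 0, .ofNat 1250, .ofNat 1415, .ofNat 0, .ofNat 2683012111985727888478006674224038417530880, .ofNat 43804830797222249541889290997366765125632, .ofNat 0, .ofNat 0, .ofNat 85236103065416602151493494605505725198237696, .ofNat 169332784266892343503547532375246552170496, .ofNat 0, .ofNat 0, .ofNat 130633771605746382234103220427063474828345344, .ofNat 218117902366822663883044603327524850630656, .ofNat 0, .ofNat 0, .ofNat 630697907998267852662697919124996500867776512, .ofNat 2002604646127571414675987325797707959762944, .ofNat 0⟩)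
    (by decide +kernel)
theorem L03287 : Good (Phi V5.P V5.D (-1) (-1)) ⟨3, 5, 2, 1, 3, 4, 3, 4, 5, 14⟩ :=
  leafX_sound T5.ok_mm T5.Ymm.bz_eq (w := 227) (c := ⟨⟨.negSucc 1409, .negSucc 201, .negSucc 27, .ofNat 12, .ofNat 53, .ofNat 39⟩, ⟨.ofNat 353, .ofNat 206, .ofNat 229, .ofNat 4, .negSucc 6, .negSucc 9⟩, ⟨.ofNat 1605, .negSucc 379, .negSucc 233, .negSucc 1282, .negSucc 669, .negSucc 357⟩, ⟨.negSucc 2835, .ofNat 61, .negSucc 47, .ofNat 81, .ofNat 183, .ofNat 99⟩, ⟨.negSucc 322, .ofNat 65, .ofNat 11, .ofNat 172, .ofNat 267, .ofNat 92⟩, .ofNat 532, .ofNat 536, .ofNat 0, .ofNat 536, .ofNat 1818, .ofNat 0, .ofNat 128, .negSucc 154, .ofNat 49, .ofNat 0, .ofNat 112, .negSucc 28, .ofNat 0, .ofNat 0, .ofNat 1530, .ofNat 4650, .ofNat 24942620937961450016084593998670289376307576832, .ofNat 0, .ofNat 24086318429874071751713618194043825167532032, .ofNat 0, .ofNat 0, .ofNat 975952872085401283441272415940033066970382336,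 .ofNat 104466751516473762433246328524616088141430784, .ofNat 0, .ofNat 178428745525764561515443446717527347628387336192, .ofNat 4133492907164313422188212704878713949254582272, .ofNat 121625686948417461939108955151622718154080256, .ofNat 0, .ofNat 983154896406723699085796406884284137437757702144, .ofNat 25080711517951168674542030879097148236697174016, .ofNat 1079648192723629780736365322359901328813064192, .ofNat 0⟩)
    (by decide +kernel)
theorem L03288 : Good (Phi V5.P V5.D (-1) (-1)) ⟨3, 5, 2, 1, 3, 4, 3, 5, 5, 14⟩ :=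
  leafX_sound T5.ok_mm T5.Ymm.bz_eq (w := 227) (c := ⟨⟨.negSucc 1356, .negSucc 196, .negSucc 27, .negSucc 23, .ofNat 52, .ofNat 32⟩, ⟨.ofNat 342, .ofNat 210, .ofNat 215, .ofNat 15, .negSucc 8, .negSucc 7⟩, ⟨.ofNat 988, .negSucc 443, .negSucc 132, .negSucc 1358, .negSucc 694, .negSucc 379⟩, ⟨.negSucc 2658, .ofNat 75, .negSucc 33, .ofNat 49, .ofNat 202, .ofNat 90⟩, ⟨.negSucc 74, .ofNat 82, .ofNat 10, .ofNat 263, .ofNat 332, .ofNat 100⟩, .ofNat 328, .ofNat 165, .ofNat 0, .ofNat 165, .ofNat 728, .ofNat 0, .ofNat 275, .negSucc 100, .ofNat 71, .ofNat 0, .ofNat 128, .negSucc 69, .ofNat 0, .ofNat 0, .ofNat 2232, .ofNat 7229, .ofNat 0, .ofNat 256520098897761994959314733372757228621135872, .ofNat 0, .ofNat 0, .ofNat 0, .ofNat 13362945819438065851199562830824633372663349248, .ofNat 0, .ofNat 0, .ofNat 0, .ofNat 10221928083580231700617845100654241543234781184, .ofNat 235419540441088917111332184269401304514691072,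 .ofNat 0, .ofNat 0, .ofNat 93048444818971206615703148194073563969976532992, .ofNat 2324525837851483269855073718503860045875249152, .ofNat 0⟩)
    (by decide +kernel)
theorem L03289 : Good (Phi V5.P V5.D (-1) (-1)) ⟨3, 5, 2, 1, 4, 8, 4, 8, 5, 15⟩ :=
  out_sound (S := T5.ds_mm) T5.ok_mm (w := 32) (j := 1) (by decide +kernel)
theorem L03290 : Good (Phi V5.P V5.D (-1) (-1)) ⟨3, 5, 2, 1, 5, 16, 4, 9, 6, 30⟩ :=
  out_sound (S := T5.ds_mm) T5.ok_mm (w := 36) (j := 1) (by decide +kernel)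
theorem L03291 : Good (Phi V5.P V5.D (-1) (-1)) ⟨3, 5, 2, 1, 5, 17, 4, 9, 6, 30⟩ :=
  out_sound (S := T5.ds_mm) T5.ok_mm (w := 44) (j := 2) (by decide +kernel)
theorem L03292 : Good (Phi V5.P V5.D (-1) (-1)) ⟨3, 5, 2, 1, 4, 8, 4, 9, 6, 31⟩ :=
  out_sound (S := T5.ds_mm) T5.ok_mm (w := 34) (j := 1) (by decide +kernel)
theorem L03293 : Good (Phi V5.P V5.D (-1) (-1)) ⟨3, 5, 2, 1, 4, 8, 3, 5, 5, 15⟩ :=
  out_sound (S := T5.ds_mm) T5.ok_mm (w := 38) (j := 2) (by decide +kernel)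
theorem L03294 : Good (Phi V5.P V5.D (-1) (-1)) ⟨3, 5, 2, 1, 4, 9, 2, 2, 5, 15⟩ :=
  out_sound (S := T5.ds_mm) T5.ok_mm (w := 36) (j := 2) (by decide +kernel)
theorem L03295 : Good (Phi V5.P V5.D (-1) (-1)) ⟨3, 5, 2, 1, 3, 5, 2, 2, 4, 7⟩ :=
  out_sound (S := T5.ds_mm) T5.ok_mm (w := 32) (j := 2) (by decide +kernel)
theorem L03296 : Good (Phi V5.P V5.D (-1) (-1)) ⟨2, 2, 2, 1, 2, 2, 2, 3, 3, 3⟩ :=
  leafX_sound T5.ok_mm T5.Ymm.bz_eq (w := 193) (c := ⟨⟨.negSucc 1213, .negSucc 345, .negSucc 32, .negSucc 9, .ofNat 243, .ofNat 193⟩, ⟨.ofNat 125, .ofNat 438, .ofNat 199, .ofNat 28, .negSucc 49, .negSucc 44⟩, ⟨.ofNat 980, .negSucc 492, .negSucc 44, .negSucc 1634, .negSucc 1005, .negSucc 894⟩, ⟨.negSucc 2789, .ofNat 258, .negSucc 28, .ofNat 182, .ofNat 728, .ofNat 468⟩, ⟨.ofNat 32, .ofNat 151, .negSucc 10, .ofNat 550, .ofNat 898, .ofNat 387⟩, .ofNat 166, .ofNat 30, .ofNat 0, .ofNat 30, .ofNat 239, .ofNat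 0, .ofNat 285, .negSucc 43, .negSucc 25, .ofNat 0, .ofNat 128, .negSucc 46, .ofNat 0, .ofNat 0, .ofNat 740, .ofNat 903, .ofNat 0, .ofNat 17648711626446793514485965953471348736, .ofNat 31200238629227451689166567215464448, .ofNat 0, .ofNat 0, .ofNat 404177612130201372428391328765790126080, .ofNat 0, .ofNat 0, .ofNat 0, .ofNat 277502908249698207240640140782528888832, .ofNat 746428612467532447423451879899660288, .ofNat 0, .ofNat 0, .ofNat 1062976096197439406469119745997378945024, .ofNat 823734025460273103194105565660839936, .ofNat 0⟩)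
    (by decide +kernel)
theorem L03297 : Good (Phi V5.P V5.D (-1) (-1)) ⟨4, 12, 2, 1, 3, 4, 3, 4, 5, 12⟩ :=
  leafX_sound T5.ok_mm T5.Ymm.bz_eq (w := 230) (c := ⟨⟨.negSucc 1824, .negSucc 112, .ofNat 16, .ofNat 94, .ofNat 88, .ofNat 98⟩, ⟨.ofNat 630, .ofNat 113, .ofNat 259, .negSucc 35, .negSucc 25, .negSucc 33⟩, ⟨.ofNat 1463, .negSucc 116, .negSucc 54, .negSucc 886, .negSucc 526, .negSucc 205⟩, ⟨.negSucc 3144, .ofNat 24, .negSucc 12, .ofNat 161, .ofNat 239, .ofNat 179⟩, ⟨.negSucc 312, .ofNat 17, .negSucc 26, .ofNat 23, .ofNat 233, .ofNat 59⟩, .ofNat 551, .ofNat 543, .ofNat 0, .ofNat 543, .ofNat 1493, .ofNat 0, .ofNat 128, .negSucc 134, .negSucc 4, .ofNat 0, .ofNat 105, .negSucc 4, .ofNat 0, .ofNat 0, .ofNat 1023, .ofNat 2365, .ofNat 0, .ofNat 0, .ofNat 0, .ofNat 0, .ofNat 0, .ofNat 0, .ofNat 0, .ofNat 0, .ofNat 0, .ofNat 11966825001421763195869828104832602779060011008, .ofNat 23199271503460660305866333872361116362866688,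 .ofNat 0, .ofNat 0, .ofNat 76111093516850712496621840804480777525642919936, .ofNat 206691048144745921065878139834311114483564544, .ofNat 0⟩)
    (by decide +kernel)
theorem L03298 : Good (Phi V5.P V5.D (-1) (-1)) ⟨4, 12, 2, 1, 3, 4, 3, 4, 5, 13⟩ :=
  leafX_sound T5.ok_mm T5.Ymm.bz_eq (w := 230) (c := ⟨⟨.negSucc 1700, .negSucc 97, .negSucc 29, .ofNat 53, .ofNat 71, .ofNat 63⟩, ⟨.ofNat 592, .ofNat 109, .ofNat 264, .negSucc 20, .negSucc 19, .negSucc 26⟩, ⟨.ofNat 1444, .negSucc 54, .negSucc 319, .negSucc 1178, .negSucc 611, .negSucc 313⟩, ⟨.negSucc 2938, .ofNat 39, .negSucc 55, .ofNat 123, .ofNat 214, .ofNat 132⟩, ⟨.negSucc 286, .ofNat 12, .ofNat 26, .ofNat 80, .ofNat 230, .ofNat 70⟩, .ofNat 545, .ofNat 532, .ofNat 0, .ofNat 532, .ofNat 1473, .ofNat 0, .ofNat 128, .negSucc 194, .ofNat 32, .ofNat 0, .ofNat 155, .negSucc 26, .ofNat 0, .ofNat 0, .ofNat 1768, .ofNat 2827, .ofNat 180469905266313042113056082675985882900124925952,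 .ofNat 0, .ofNat 3247872934372608741494701319991831195287552, .ofNat 0, .ofNat 0, .ofNat 12854192205125398847894315709303026208364036096, .ofNat 66116605793964969763307320548385241608224768, .ofNat 0, .ofNat 0, .ofNat 48535423428758602812985582077120009390696431616, .ofNat 58369913344147229694547828938983974513934336, .ofNat 0, .ofNat 0, .ofNat 298342658100003572241907647090459884742821019648, .ofNat 449260580100067334547100700455542832398073856, .ofNat 0⟩)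
    (by decide +kernel)
theorem L03299 : Good (Phi V5.P V5.D (-1) (-1)) ⟨4, 12, 2, 1, 3, 4, 3, 5, 5, 12⟩ :=
  leafX_sound T5.ok_mm T5.Ymm.bz_eq (w := 228) (c := ⟨⟨.negSucc 1666, .negSucc 113, .negSucc 33, .ofNat 8, .ofNat 95, .ofNat 64⟩, ⟨.ofNat 582, .ofNat 128, .ofNat 241, .ofNat 7, .negSucc 23, .negSucc 22⟩, ⟨.ofNat 1216, .negSucc 174, .negSucc 229, .negSucc 1210, .negSucc 625, .negSucc 315⟩, ⟨.negSucc 2853, .ofNat 34, .negSucc 40, .ofNat 104, .ofNat 298, .ofNat 145⟩, ⟨.negSucc 183, .ofNat 28, .ofNat 23, .ofNat 199, .ofNat 342, .ofNat 101⟩, .ofNat 549, .ofNat 541, .ofNat 0, .ofNat 541, .ofNat 1494, .ofNat 0, .ofNat 129, .negSucc 127, .ofNat 12, .ofNat 0, .ofNat 99, .negSucc 16, .ofNat 0, .ofNat 0, .ofNat 1094, .ofNat 498, .ofNat 0, .ofNat 0, .ofNat 0, .ofNat 0, .ofNat 0, .ofNat 0, .ofNat 0, .ofNat 0, .ofNat 0, .ofNat 17328820068384408264003611981400167390390517760, .ofNat 21155131272239262818836588543390246647103488,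 .ofNat 0, .ofNat 0, .ofNat 117486986004608704890425446582852800360080211968, .ofNat 0, .ofNat 0⟩)
    (by decide +kernel)
theorem L03300 : Good (Phi V5.P V5.D (-1) (-1)) ⟨4, 12, 2, 1, 3, 4, 3, 5, 5, 13⟩ :=
  leafX_sound T5.ok_mm T5.Ymm.bz_eq (w := 228) (c := ⟨⟨.negSucc 1587, .negSucc 106, .negSucc 34, .negSucc 43, .ofNat 46, .ofNat 32⟩, ⟨.ofNat 558, .ofNat 130, .ofNat 221, .ofNat 31, .negSucc 4, .negSucc 7⟩, ⟨.ofNat 995, .negSucc 206, .negSucc 171, .negSucc 1553, .negSucc 823, .negSucc 452⟩, ⟨.negSucc 2691, .ofNat 44, .negSucc 41, .ofNat 50, .ofNat 236, .ofNat 101⟩, ⟨.negSucc 102, .ofNat 40, .ofNat 13, .ofNat 264, .ofNat 369, .ofNat 110⟩, .ofNat 550, .ofNat 545, .ofNat 0, .ofNat 545, .ofNat 1514, .ofNat 0, .ofNat 180, .negSucc 127, .ofNat 43, .ofNat 0, .ofNat 99, .negSucc 32, .ofNat 0, .ofNat 0, .ofNat 1359, .ofNat 711, .ofNat 0, .ofNat 1416147625226972880116368245066101296134619136, .ofNat 287103728443161581998208179243816019034112,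 .ofNat 0, .ofNat 0, .ofNat 0, .ofNat 0, .ofNat 0, .ofNat 0, .ofNat 33674040748680630153202963045272005320837693440, .ofNat 36785380512938458574110797738981033389326336, .ofNat 0, .ofNat 0, .ofNat 249487399679845018266280975435581537764520230912, .ofNat 0, .ofNat 0⟩)
    (by decide +kernel)
theorem L03301 : Good (Phi V5.P V5.D (-1) (-1)) ⟨4, 13, 2, 1, 3, 4, 3, 4, 5, 12⟩ :=
  leafX_sound T5.ok_mm T5.Ymm.bz_eq (w := 229) (c := ⟨⟨.negSucc 1934, .negSucc 110, .ofNat 8, .ofNat 56, .ofNat 79, .ofNat 106⟩, ⟨.ofNat 754, .ofNat 124, .ofNat 264, .negSucc 24, .negSucc 29, .negSucc 51⟩, ⟨.ofNat 1458, .negSucc 96, .negSucc 75, .negSucc 1187, .negSucc 600, .negSucc 232⟩, ⟨.negSucc 3116, .ofNat 28, .negSucc 23, .ofNat 126, .ofNat 258, .ofNat 179⟩, ⟨.negSucc 311, .negSucc 12, .negSucc 5, .ofNat 78, .ofNat 266, .ofNat 38⟩, .ofNat 649, .ofNat 688, .ofNat 0, .ofNat 688, .ofNat 1506, .ofNat 0, .ofNat 128, .negSucc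 521, .ofNat 21, .ofNat 0, .ofNat 400, .negSucc 32, .ofNat 0, .ofNat 0, .ofNat 2889, .ofNat 915, .ofNat 0, .ofNat 0, .ofNat 0, .ofNat 0, .ofNat 0, .ofNat 2779583695721200924661937201400646865824776192, .ofNat 97050095646829884598873850942879142189727744, .ofNat 0, .ofNat 0, .ofNat 0, .ofNat 0, .ofNat 0, .ofNat 0, .ofNat 0, .ofNat 0, .ofNat 0⟩)
    (by decide +kernel)
theorem L03302 : Good (Phi V5.P V5.D (-1) (-1)) ⟨4, 13, 2, 1, 4, 8, 3, 4, 5, 13⟩ :=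
  leafX_sound T5.ok_mm T5.Ymm.bz_eq (w := 245) (c := ⟨⟨.negSucc 1752, .negSucc 101, .negSucc 66, .ofNat 2, .ofNat 60, .ofNat 55⟩, ⟨.ofNat 688, .ofNat 129, .ofNat 271, .ofNat 1, .negSucc 20, .negSucc 25⟩, ⟨.ofNat 1707, .negSucc 91, .negSucc 500, .negSucc 754, .negSucc 688, .negSucc 432⟩, ⟨.negSucc 2880, .ofNat 38, .negSucc 69, .ofNat 43, .ofNat 229, .ofNat 128⟩, ⟨.negSucc 361, .ofNat 0, .ofNat 82, .ofNat 83, .ofNat 270, .ofNat 87⟩, .ofNat 347, .ofNat 227, .ofNat 0, .ofNat 227, .ofNat 635, .ofNat 0, .ofNat 128, .negSucc 175, .ofNat 64, .ofNat 0, .ofNat 190, .negSucc 76, .ofNat 0, .ofNat 0, .ofNat 2471, .ofNat 4070, .ofNat 1594353987216512468164321787370682071690539444469760, .ofNat 0, .ofNat 126103882217040837283961780678367659024279666688, .ofNat 0, .ofNat 0, .ofNat 0, .ofNat 847851326508936385442413337223962172624941875200, .ofNat 0, .ofNat 0, .ofNat 81546630743095638207885158705574870406696737439744,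 .ofNat 2274650469115575361337156594936816287945049767936, .ofNat 0, .ofNat 0, .ofNat 0, .ofNat 0, .ofNat 0⟩)
    (by decide +kernel)
theorem L03303 : Good (Phi V5.P V5.D (-1) (-1)) ⟨4, 13, 2, 1, 4, 9, 3, 4, 5, 13⟩ :=
  leafX_sound T5.ok_mm T5.Ymm.bz_eq (w := 244) (c := ⟨⟨.negSucc 1688, .negSucc 112, .negSucc 68, .negSucc 67, .negSucc 39, .ofNat 1⟩, ⟨.ofNat 650, .ofNat 134, .ofNat 279, .ofNat 42, .ofNat 38, .ofNat 5⟩, ⟨.ofNat 1401, .negSucc 98, .negSucc 633, .negSucc 1181, .negSucc 1202, .negSucc 804⟩, ⟨.negSucc 2773, .ofNat 48, .negSucc 98, .negSucc 13, .ofNat 149, .ofNat 88⟩, ⟨.negSucc 342, .ofNat 28, .ofNat 52, .ofNat 161, .ofNat 395, .ofNat 164⟩, .ofNat 652, .ofNat 694, .ofNat 0, .ofNat 694, .ofNat 1522, .ofNat 0, .ofNat 128, .negSucc 271, .ofNat 137, .ofNat 0, .ofNat 210, .negSucc 91, .ofNat 0, .ofNat 0, .ofNat 2283, .ofNat 2688, .ofNat 0, .ofNat 0, .ofNat 0, .ofNat 0, .ofNat 0, .ofNat 59570534512748524590651076010758409273199221014528,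 .ofNat 2117489478848890131447528844992319825278664704000, .ofNat 0, .ofNat 0, .ofNat 423006814016729881388531023827241470417217561559040, .ofNat 3947730738048702938706894687230111355293329784832, .ofNat 0, .ofNat 0, .ofNat 2847492460966522314898471072037996500555911007305728, .ofNat 4869345778577964066177807451656140197337914933248, .ofNat 0⟩)
    (by decide +kernel)
theorem L03304 : Good (Phi V5.P V5.D (-1) (-1)) ⟨4, 13, 2, 1, 4, 8, 3, 5, 4, 6⟩ :=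
  leafX_sound T5.ok_mm T5.Ymm.bz_eq (w := 238) (c := ⟨⟨.negSucc 1691, .negSucc 122, .negSucc 78, .negSucc 37, .ofNat 51, .ofNat 56⟩, ⟨.ofNat 677, .ofNat 154, .ofNat 252, .ofNat 27, .negSucc 8, .negSucc 17⟩, ⟨.ofNat 1596, .negSucc 134, .negSucc 570, .negSucc 853, .negSucc 791, .negSucc 1086⟩, ⟨.negSucc 2776, .ofNat 38, .negSucc 59, .ofNat 33, .ofNat 285, .ofNat 235⟩, ⟨.negSucc 276, .ofNat 36, .ofNat 93, .ofNat 162, .ofNat 394, .ofNat 274⟩, .ofNat 929, .ofNat 1115, .ofNat 0, .ofNat 1115, .ofNat 2267, .ofNat 0, .ofNat 128, .negSucc 269, .ofNat 91, .ofNat 0, .ofNat 218, .negSucc 73, .ofNat 0, .ofNat 0, .ofNat 1833, .ofNat 1078, .ofNat 0, .ofNat 0, .ofNat 0, .ofNat 0, .ofNat 0, .ofNat 3548160006501641075841350943225509437030858227712, .ofNat 51374741535139586643297883300445539402910793728, .ofNat 0, .ofNat 0, .ofNat 21587237311029257118576557206780564067057395564544, .ofNat 94064338531337002581372928917575676231006814208,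 .ofNat 0, .ofNat 0, .ofNat 192706023130047579105614139138131107704492137644032, .ofNat 100220651545563679394626897376783066832264232960, .ofNat 0⟩)
    (by decide +kernel)
theorem L03305 : Good (Phi V5.P V5.D (-1) (-1)) ⟨4, 13, 2, 1, 4, 9, 3, 5, 4, 6⟩ :=
  leafX_sound T5.ok_mm T5.Ymm.bz_eq (w := 238) (c := ⟨⟨.negSucc 1683, .negSucc 124, .negSucc 85, .negSucc 84, .negSucc 33, .negSucc 25⟩, ⟨.ofNat 672, .ofNat 161, .ofNat 257, .ofNat 56, .ofNat 45, .ofNat 34⟩, ⟨.ofNat 859, .negSucc 236, .negSucc 422, .negSucc 1023, .negSucc 1112, .negSucc 1525⟩, ⟨.negSucc 2706, .ofNat 46, .negSucc 79, .negSucc 6, .ofNat 231, .ofNat 186⟩, ⟨.negSucc 170, .ofNat 49, .ofNat 72, .ofNat 216, .ofNat 525, .ofNat 407⟩, .ofNat 744, .ofNat 806, .ofNat 0, .ofNat 806, .ofNat 1713, .ofNat 0, .ofNat 128, .negSucc 196, .ofNat 141, .ofNat 0, .ofNat 163, .negSucc 96, .ofNat 0, .ofNat 0, .ofNat 1120, .ofNat 702, .ofNat 0, .ofNat 1528278699087486483491518397965105174232638160896,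 .ofNat 0, .ofNat 0, .ofNat 0, .ofNat 4867225862078997636313671494097586003415119429632, .ofNat 17021140003340019895771139299959456136779792384, .ofNat 0, .ofNat 0, .ofNat 23382979822465729242255742024872714434183155417088, .ofNat 10037705287754246906382791904164879556308631552, .ofNat 0, .ofNat 0, .ofNat 138346090991964136281047833380279431174474344431616, .ofNat 10209710755214486631529171275410936339575603200, .ofNat 0⟩)
    (by decide +kernel)
theorem L03306 : Good (Phi V5.P V5.D (-1) (-1)) ⟨3, 6, 2, 1, 4, 10, 3, 4, 4, 6⟩ :=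
  leafX_sound T5.ok_mm T5.Ymm.bz_eq (w := 234) (c := ⟨⟨.negSucc 1674, .negSucc 216, .negSucc 70, .ofNat 5, .ofNat 6, .ofNat 66⟩, ⟨.ofNat 567, .ofNat 235, .ofNat 299, .ofNat 5, .ofNat 16, .negSucc 15⟩, ⟨.ofNat 857, .negSucc 265, .negSucc 474, .negSucc 724, .negSucc 814, .negSucc 1176⟩, ⟨.negSucc 2939, .ofNat 61, .negSucc 100, .ofNat 60, .ofNat 196, .ofNat 265⟩, ⟨.negSucc 367, .ofNat 32, .ofNat 57, .ofNat 99, .ofNat 371, .ofNat 314⟩, .ofNat 335, .ofNat 199, .ofNat 0, .ofNat 199, .ofNat 644, .ofNat 0, .ofNat 128, .negSucc 124, .ofNat 53, .ofNat 0, .ofNat 142, .negSucc 45, .ofNat 0, .ofNat 0, .ofNat 1172, .ofNat 1300, .ofNat 0, .ofNat 68929474589127649030819991306343385494053715968, .ofNat 0, .ofNat 0, .ofNat 0, .ofNat 640546429277822920144930046476100145852824158208, .ofNat 13077744821488599446170958030926716874728144896, .ofNat 0, .ofNat 0, .ofNat 1704323337558837445697449590145105830574687256576,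 .ofNat 27087064188909520164782063690271435450342178816, .ofNat 0, .ofNat 0, .ofNat 9225369361410877064372377056754366026523497988096, .ofNat 0, .ofNat 0⟩)
    (by decide +kernel)
theorem L03307 : Good (Phi V5.P V5.D (-1) (-1)) ⟨3, 6, 2, 1, 4, 11, 3, 4, 4, 6⟩ :=
  leafX_sound T5.ok_mm T5.Ymm.bz_eq (w := 237) (c := ⟨⟨.negSucc 1644, .negSucc 237, .negSucc 93, .ofNat 1, .negSucc 82, .ofNat 1⟩, ⟨.ofNat 556, .ofNat 248, .ofNat 313, .ofNat 0, .ofNat 75, .ofNat 0⟩, ⟨.ofNat 236, .negSucc 434, .negSucc 507, .ofNat 0, .negSucc 985, .ofNat 0⟩, ⟨.negSucc 2851, .ofNat 46, .negSucc 127, .ofNat 1, .ofNat 113, .ofNat 1⟩, ⟨.negSucc 294, .ofNat 53, .ofNat 94, .ofNat 0, .ofNat 486, .ofNat 0⟩, .ofNat 163, .ofNat 41, .ofNat 0, .ofNat 41, .ofNat 225, .ofNat 0, .ofNat 128, .negSucc 98, .ofNat 85, .ofNat 0, .ofNat 212, .negSucc 103, .ofNat 0, .ofNat 0, .ofNat 1149, .ofNat 19687, .ofNat 0, .ofNat 0, .ofNat 0, .ofNat 0,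 .ofNat 0, .ofNat 7015133044998509546523163698837483053402957021184, .ofNat 14373359033891276396931738348019402026338222080, .ofNat 0, .ofNat 0, .ofNat 18350976863019563612973299925714786836092668608512, .ofNat 49998177447060303406884173748177546018730016768, .ofNat 0, .ofNat 0, .ofNat 111329112018492868054994210019773040357967944220672, .ofNat 117582786735667332909859327848713645435715059712, .ofNat 0⟩)
    (by decide +kernel)
theorem L03308 : Good (Phi V5.P V5.D (-1) (-1)) ⟨3, 6, 2, 1, 3, 5, 3, 5, 4, 6⟩ :=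
  out_sound (S := T5.ds_mm) T5.ok_mm (w := 34) (j := 2) (by decide +kernel)
theorem L03309 : Good (Phi V5.P V5.D (-1) (-1)) ⟨3, 6, 2, 1, 4, 8, 3, 4, 5, 14⟩ :=
  leafX_sound T5.ok_mm T5.Ymm.bz_eq (w := 241) (c := ⟨⟨.negSucc 1501, .negSucc 233, .negSucc 56, .negSucc 84, .negSucc 46, .ofNat 34⟩, ⟨.ofNat 493, .ofNat 278, .ofNat 241, .ofNat 55, .ofNat 47, .negSucc 16⟩, ⟨.ofNat 2076, .negSucc 490, .negSucc 436, .negSucc 1352, .negSucc 1398, .negSucc 546⟩, ⟨.negSucc 2726, .ofNat 83, .negSucc 66, .negSucc 24, .ofNat 143, .ofNat 101⟩, ⟨.negSucc 395, .ofNat 128, .ofNat 8, .ofNat 175, .ofNat 407, .ofNat 98⟩, .ofNat 584, .ofNat 594, .ofNat 0, .ofNat 594, .ofNat 1476, .ofNat 0, .ofNat 128, .negSucc 317, .ofNat 155, .ofNat 0, .ofNat 249, .negSucc 105, .ofNat 0, .ofNat 0, .ofNat 3253, .ofNat 6182, .ofNat 212748105315742173201298719725344622262404201316352, .ofNat 619048048307847692372175068141882103065399525376,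 .ofNat 121557361172535272420646102497647380104529051648, .ofNat 0, .ofNat 563126269966800183086605147779786771444916220329984, .ofNat 2780997472518770948286722913366306856461561495552, .ofNat 4723402560141828907716847214990438085209314295808, .ofNat 0, .ofNat 1912831801309042706107637081496397436925769343303680, .ofNat 43437454511654542428984226586436422841404732997632, .ofNat 25698368754701843014247221366754395381647026421760, .ofNat 0, .ofNat 12848722204995928936171686400132751462200496739057664, .ofNat 382189227055434654289992137300487350297323353669632, .ofNat 15608342072775981690982567627384178445036174704640, .ofNat 0⟩)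
    (by decide +kernel)
theorem L03310 : Good (Phi V5.P V5.D (-1) (-1)) ⟨3, 6, 2, 1, 5, 18, 3, 4, 6, 28⟩ :=
  leafX_sound T5.ok_mm T5.Ymm.bz_eq (w := 261) (c := ⟨⟨.negSucc 1563, .negSucc 249, .negSucc 76, .negSucc 26, .negSucc 33, .negSucc 11⟩, ⟨.ofNat 533, .ofNat 273, .ofNat 269, .ofNat 15, .ofNat 32, .ofNat 14⟩, ⟨.ofNat 888, .negSucc 625, .negSucc 595, .negSucc 588, .negSucc 1207, .negSucc 530⟩, ⟨.negSucc 2711, .ofNat 46, .negSucc 86, .negSucc 7, .ofNat 131, .ofNat 35⟩, ⟨.negSucc 230, .ofNat 95, .ofNat 64, .ofNat 80, .ofNat 389, .ofNat 91⟩, .ofNat 335, .ofNat 200, .ofNat 0, .ofNat 200, .ofNat 647, .ofNat 0, .ofNat 128, .negSucc 189, .ofNat 169, .ofNat 0, .ofNat 220, .negSucc 129, .ofNat 0, .ofNat 0, .ofNat 2922, .ofNat 9041, .ofNat 8152558204642608473902365117577520424714476190854807552, .ofNat 55365041037082329129893936868854682542508030837129216, .ofNat 46440502995212316012622450862348421060417062975832064,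 .ofNat 0, .ofNat 0, .ofNat 398518856080632733755721532579114781307779399454556160, .ofNat 234133970717563177303089412366309377178546398870634496, .ofNat 0, .ofNat 0, .ofNat 2386363322369202072762862835148870372349658359436148736, .ofNat 0, .ofNat 0, .ofNat 0, .ofNat 15274425862810769291758921757412261253245153856517570560, .ofNat 0, .ofNat 0⟩)
    (by decide +kernel)
theorem L03311 : Good (Phi V5.P V5.D (-1) (-1)) ⟨3, 6, 2, 1, 5, 19, 3, 4, 6, 28⟩ :=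
  out_sound (S := T5.ds_mm) T5.ok_mm (w := 42) (j := 2) (by decide +kernel)
theorem L03312 : Good (Phi V5.P V5.D (-1) (-1)) ⟨3, 6, 2, 1, 6, 36, 5, 16, 6, 29⟩ :=
  out_sound (S := T5.ds_mm) T5.ok_mm (w := 39) (j := 1) (by decide +kernel)
theorem L03313 : Good (Phi V5.P V5.D (-1) (-1)) ⟨3, 6, 2, 1, 6, 36, 5, 17, 6, 29⟩ :=
  out_sound (S := T5.ds_mm) T5.ok_mm (w := 48) (j := 2) (by decide +kernel)
theorem L03314 : Good (Phi V5.P V5.D (-1) (-1)) ⟨3, 6, 2, 1, 6, 37, 4, 8, 6, 29⟩ :=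
  out_sound (S := T5.ds_mm) T5.ok_mm (w := 46) (j := 2) (by decide +kernel)
theorem L03315 : Good (Phi V5.P V5.D (-1) (-1)) ⟨3, 6, 2, 1, 5, 18, 4, 9, 6, 29⟩ :=
  out_sound (S := T5.ds_mm) T5.ok_mm (w := 44) (j := 2) (by decide +kernel)
theorem L03316 : Good (Phi V5.P V5.D (-1) (-1)) ⟨3, 6, 2, 1, 5, 19, 3, 4, 6, 29⟩ :=
  out_sound (S := T5.ds_mm) T5.ok_mm (w := 42) (j := 2) (by decide +kernel)
theorem L03317 : Good (Phi V5.P V5.D (-1) (-1)) ⟨3, 6, 2, 1, 4, 8, 3, 5, 5, 14⟩ :=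
  leafX_sound T5.ok_mm T5.Ymm.bz_eq (w := 240) (c := ⟨⟨.negSucc 1533, .negSucc 251, .negSucc 48, .negSucc 81, .negSucc 16, .negSucc 7⟩, ⟨.ofNat 535, .ofNat 300, .ofNat 224, .ofNat 53, .ofNat 29, .ofNat 12⟩, ⟨.ofNat 750, .negSucc 737, .negSucc 267, .negSucc 1287, .negSucc 1234, .negSucc 845⟩, ⟨.negSucc 2580, .ofNat 66, .negSucc 42, .negSucc 8, .ofNat 204, .ofNat 72⟩, ⟨.negSucc 25, .ofNat 139, .ofNat 27, .ofNat 216, .ofNat 450, .ofNat 166⟩, .ofNat 336, .ofNat 202, .ofNat 0, .ofNat 202, .ofNat 639, .ofNat 0, .ofNat 128, .negSucc 119, .ofNat 123, .ofNat 0, .ofNat 138, .negSucc 113, .ofNat 0, .ofNat 0, .ofNat 2391, .ofNat 2356, .ofNat 25747399490459681951099459746064967690492697378816, .ofNat 1290557507771658522258400967483976053958398443520, .ofNat 75926892215409879479539606951574093728613138432, .ofNat 0, .ofNat 0, .ofNat 11565302002187417266374329656059813582317278986240, .ofNat 507535259595519405245065252752729574687067078656,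 .ofNat 0, .ofNat 0, .ofNat 29365209004197557790862445900424311357188232708096, .ofNat 290564745952796148400803653049568347269518852096, .ofNat 0, .ofNat 0, .ofNat 278310370039931590805185697065013177359251651166208, .ofNat 0, .ofNat 0⟩)
    (by decide +kernel)
theorem L03318 : Good (Phi V5.P V5.D (-1) (-1)) ⟨3, 6, 2, 1, 4, 9, 3, 5, 5, 14⟩ :=
  out_sound (S := T5.ds_mm) T5.ok_mm (w := 38) (j := 2) (by decide +kernel)
theorem L03319 : Good (Phi V5.P V5.D (-1) (-1)) ⟨3, 6, 2, 1, 4, 8, 4, 8, 5, 15⟩ :=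
  out_sound (S := T5.ds_mm) T5.ok_mm (w := 32) (j := 1) (by decide +kernel)
theorem L03320 : Good (Phi V5.P V5.D (-1) (-1)) ⟨3, 6, 2, 1, 5, 16, 4, 9, 6, 30⟩ :=
  out_sound (S := T5.ds_mm) T5.ok_mm (w := 36) (j := 1) (by decide +kernel)
theorem L03321 : Good (Phi V5.P V5.D (-1) (-1)) ⟨3, 6, 2, 1, 5, 17, 4, 9, 6, 30⟩ :=
  out_sound (S := T5.ds_mm) T5.ok_mm (w := 44) (j := 2) (by decide +kernel)
theorem L03322 : Good (Phi V5.P V5.D (-1) (-1)) ⟨3, 6, 2, 1, 4, 8, 4, 9, 6, 31⟩ :=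
  out_sound (S := T5.ds_mm) T5.ok_mm (w := 34) (j := 1) (by decide +kernel)
theorem L03323 : Good (Phi V5.P V5.D (-1) (-1)) ⟨3, 6, 2, 1, 4, 8, 3, 5, 5, 15⟩ :=
  out_sound (S := T5.ds_mm) T5.ok_mm (w := 38) (j := 2) (by decide +kernel)
theorem L03324 : Good (Phi V5.P V5.D (-1) (-1)) ⟨3, 6, 2, 1, 4, 9, 2, 2, 5, 15⟩ :=
  out_sound (S := T5.ds_mm) T5.ok_mm (w := 36) (j := 2) (by decide +kernel)
theorem L03325 : Good (Phi V5.P V5.D (-1) (-1)) ⟨3, 6, 2, 1, 3, 5, 2, 2, 4, 7⟩ :=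
  out_sound (S := T5.ds_mm) T5.ok_mm (w := 32) (j := 2) (by decide +kernel)
theorem L03326 : Good (Phi V5.P V5.D (-1) (-1)) ⟨3, 6, 2, 1, 2, 2, 2, 3, 3, 3⟩ :=
  leafX_sound T5.ok_mm T5.Ymm.bz_eq (w := 197) (c := ⟨⟨.negSucc 1549, .negSucc 204, .negSucc 42, .negSucc 148, .ofNat 182, .ofNat 132⟩, ⟨.ofNat 554, .ofNat 286, .ofNat 203, .ofNat 128, .negSucc 9, .negSucc 35⟩, ⟨.ofNat 557, .negSucc 374, .negSucc 89, .negSucc 2567, .negSucc 1381, .negSucc 1300⟩, ⟨.negSucc 2530, .ofNat 134, .negSucc 31, .ofNat 128, .ofNat 753, .ofNat 427⟩, ⟨.ofNat 173, .ofNat 97, .negSucc 4, .ofNat 675, .ofNat 964, .ofNat 443⟩, .ofNat 336, .ofNat 202, .ofNat 0, .ofNat 202, .ofNat 644, .ofNat 0, .ofNat 128, .negSucc 128, .ofNat 2, .ofNat 0, .ofNat 142, .negSucc 27, .ofNat 0, .ofNat 0, .ofNat 870, .ofNat 696, .ofNat 0, .ofNat 600107761672378027025178039310230749184, .ofNat 10575164505263019102618596575019008, .ofNat 0, .ofNat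 0, .ofNat 3361874160620145857265295736653498810368, .ofNat 0, .ofNat 0, .ofNat 0, .ofNat 7838054954023640357351581659536155475968, .ofNat 112729553521960977884305029733548032, .ofNat 0, .ofNat 0, .ofNat 24661821240668462791749766525873247223808, .ofNat 1316648784993691358197202968117248, .ofNat 0⟩)
    (by decide +kernel)
theorem L03327 : Good (Phi V5.P V5.D (-1) (-1)) ⟨3, 7, 2, 1, 2, 2, 1, 1, 3, 3⟩ :=
  out_sound (S := T5.ds_mm) T5.ok_mm (w := 43) (j := 3) (by decide +kernel)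
theorem L03328 : Good (Phi V5.P V5.D (-1) (-1)) ⟨1, 1, 2, 1, 2, 3, 1, 1, 3, 3⟩ :=
  out_sound (S := T5.ds_mm) T5.ok_mm (w := 26) (j := 2) (by decide +kernel)
theorem L03329 : Good (Phi V5.P V5.D (-1) (-1)) ⟨1, 1, 2, 1, 4, 8, 3, 4, 4, 8⟩ :=
  out_sound (S := T5.ds_mm) T5.ok_mm (w := 29) (j := 1) (by decide +kernel)
theorem L03330 : Good (Phi V5.P V5.D (-1) (-1)) ⟨1, 1, 2, 1, 4, 8, 3, 5, 4, 8⟩ :=
  out_sound (S := T5.ds_mm) T5.ok_mm (w := 36) (j := 2) (by decide +kernel)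
theorem L03331 : Good (Phi V5.P V5.D (-1) (-1)) ⟨1, 1, 2, 1, 4, 8, 2, 2, 4, 9⟩ :=
  out_sound (S := T5.ds_mm) T5.ok_mm (w := 28) (j := 1) (by decide +kernel)
theorem L03332 : Good (Phi V5.P V5.D (-1) (-1)) ⟨1, 1, 2, 1, 4, 9, 2, 2, 3, 4⟩ :=
  out_sound (S := T5.ds_mm) T5.ok_mm (w := 32) (j := 2) (by decide +kernel)
theorem L03333 : Good (Phi V5.P V5.D (-1) (-1)) ⟨1, 1, 2, 1, 3, 4, 2, 3, 3, 4⟩ :=
  out_sound (S := T5.ds_mm) T5.ok_mm (w := 30) (j := 2) (by decide +kernel)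
theorem L03334 : Good (Phi V5.P V5.D (-1) (-1)) ⟨1, 1, 2, 1, 3, 4, 1, 1, 3, 5⟩ :=
  out_sound (S := T5.ds_mm) T5.ok_mm (w := 28) (j := 2) (by decide +kernel)
theorem L03335 : Good (Phi V5.P V5.D (-1) (-1)) ⟨1, 1, 2, 1, 3, 5, 1, 1, 2, 2⟩ :=
  out_sound (S := T5.ds_mm) T5.ok_mm (w := 26) (j := 2) (by decide +kernel)
theorem L03336 : Good (Phi V5.P V5.D (-1) (-1)) ⟨1, 1, 2, 1, 2, 2, 1, 1, 2, 3⟩ :=
  out_sound (S := T5.ds_mm) T5.ok_mm (w := 24) (j := 2) (by decide +kernel)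
theorem L03337 : Good (Phi V5.P V5.D (-1) (-1)) ⟨1, 1, 2, 1, 2, 3, 1, 1, 1, 1⟩ :=
  out_sound (S := T5.ds_mm) T5.ok_mm (w := 22) (j := 2) (by decide +kernel)
theorem L03338 : Good (Phi V5.P V5.D (-1) (-1)) ⟨2, 2, 2, 2, 2, 0, 2, 0, 3, 0⟩ :=
  out_sound (S := T5.ds_mm) T5.ok_mm (w := 37) (j := 3) (by decide +kernel)
theorem L03339 : Good (Phi V5.P V5.D (-1) (-1)) ⟨4, 12, 2, 2, 2, 0, 2, 0, 3, 0⟩ :=
  out_sound (S := T5.ds_mm) T5.ok_mm (w := 49) (j := 3) (by decide +kernel)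
theorem L03340 : Good (Phi V5.P V5.D (-1) (-1)) ⟨4, 13, 3, 4, 2, 0, 3, 0, 6, 0⟩ :=
  leafX_sound T5.ok_mm T5.Ymm.bz_eq (w := 224) (c := ⟨⟨.ofNat 2079, .negSucc 111, .ofNat 467, .ofNat 628, .ofNat 875, .negSucc 1336⟩, ⟨.negSucc 1121, .ofNat 5, .negSucc 409, .negSucc 399, .negSucc 526, .ofNat 786⟩, ⟨.negSucc 2055, .ofNat 22, .negSucc 378, .negSucc 452, .negSucc 930, .ofNat 1261⟩, ⟨.ofNat 3149, .negSucc 137, .ofNat 483, .ofNat 301, .ofNat 1297, .negSucc 2004⟩, ⟨.negSucc 29, .ofNat 238, .negSucc 159, .negSucc 1039, .ofNat 44, .negSucc 82⟩, .ofNat 747, .ofNat 827, .ofNat 0, .ofNat 827, .ofNat 1629, .ofNat 0, .ofNat 128, .negSucc 412, .negSucc 999, .ofNat 0, .ofNat 314, .ofNat 550, .ofNat 0, .ofNat 0, .ofNat 1399, .ofNat 7325, .ofNat 0, .ofNat 0, .ofNat 8090398096040203070140157809256074051584, .ofNat 0, .ofNat 0, .ofNat 0, .ofNat 168469101408493985060163630003708642721792, .ofNat 0, .ofNat 0, .ofNat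 0, .ofNat 264286853889456576980837305250076233302016, .ofNat 0, .ofNat 0, .ofNat 0, .ofNat 0, .ofNat 0⟩)
    (by decide +kernel)
theorem L03341 : Good (Phi V5.P V5.D (-1) (-1)) ⟨4, 13, 3, 4, 2, 0, 3, 1, 6, 0⟩ :=
  leafX_sound T5.ok_mm T5.Ymm.bz_eq (w := 225) (c := ⟨⟨.ofNat 3112, .ofNat 425, .ofNat 413, .ofNat 464, .ofNat 647, .negSucc 2332⟩, ⟨.negSucc 1651, .negSucc 414, .negSucc 397, .negSucc 305, .negSucc 376, .ofNat 1381⟩, ⟨.negSucc 3155, .negSucc 519, .negSucc 323, .negSucc 257, .negSucc 706, .ofNat 2248⟩, ⟨.ofNat 4860, .ofNat 236, .ofNat 581, .ofNat 105, .ofNat 1001, .negSucc 3446⟩, ⟨.ofNat 74, .negSucc 90, .ofNat 10, .negSucc 940, .ofNat 84, .negSucc 23⟩, .ofNat 748, .ofNat 829, .ofNat 0, .ofNat 829, .ofNat 1631, .ofNat 0, .ofNat 128, .negSucc 374, .negSucc 1474, .ofNat 0, .ofNat 285, .ofNat 812, .ofNat 0, .ofNat 0, .ofNat 1812, .ofNat 2583, .ofNat 0, .ofNat 0, .ofNat 0, .ofNat 0, .ofNat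 0, .ofNat 0, .ofNat 193967149534911950150099507328551835664384, .ofNat 0, .ofNat 0, .ofNat 0, .ofNat 607224066894652755907786500968610812395520, .ofNat 0, .ofNat 0, .ofNat 0, .ofNat 0, .ofNat 0⟩)
    (by decide +kernel)
theorem L03342 : Good (Phi V5.P V5.D (-1) (-1)) ⟨4, 13, 3, 4, 2, 0, 2, 0, 6, 1⟩ :=
  leafX_sound T5.ok_mm T5.Ymm.bz_eq (w := 221) (c := ⟨⟨.ofNat 619, .ofNat 268, .ofNat 9, .ofNat 592, .ofNat 247, .negSucc 1211⟩, ⟨.negSucc 273, .negSucc 280, .ofNat 14, .negSucc 376, .negSucc 144, .ofNat 708⟩, ⟨.negSucc 625, .negSucc 179, .negSucc 61, .negSucc 664, .negSucc 401, .ofNat 1199⟩, ⟨.ofNat 998, .ofNat 179, .ofNat 70, .ofNat 435, .ofNat 427, .negSucc 1756⟩, ⟨.negSucc 98, .ofNat 4, .ofNat 30, .negSucc 705, .ofNat 128, .ofNat 17⟩, .ofNat 1564, .ofNat 2148, .ofNat 0, .ofNat 2148, .ofNat 3825, .ofNat 0, .ofNat 128, .negSucc 462, .negSucc 849, .ofNat 0, .ofNat 314, .ofNat 492, .ofNat 0, .ofNat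 0, .ofNat 1201, .ofNat 3407, .ofNat 0, .ofNat 0, .ofNat 0, .ofNat 0, .ofNat 0, .ofNat 0, .ofNat 40114608613546323387562537866755055812608, .ofNat 0, .ofNat 0, .ofNat 0, .ofNat 105711926451421009742420405547644789719040, .ofNat 0, .ofNat 0, .ofNat 0, .ofNat 0, .ofNat 0⟩)
    (by decide +kernel)
theorem L03343 : Good (Phi V5.P V5.D (-1) (-1)) ⟨4, 13, 3, 5, 2, 0, 2, 0, 5, 0⟩ :=
  out_sound (S := T5.ds_mm) T5.ok_mm (w := 51) (j := 3) (by decide +kernel)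
theorem L03344 : Good (Phi V5.P V5.D (-1) (-1)) ⟨4, 13, 2, 2, 2, 0, 2, 0, 5, 1⟩ :=
  leafX_sound T5.ok_mm T5.Ymm.bz_eq (w := 211) (c := ⟨⟨.negSucc 173, .negSucc 241, .ofNat 308, .ofNat 579, .negSucc 498, .negSucc 1923⟩, ⟨.ofNat 41, .ofNat 205, .negSucc 97, .negSucc 376, .ofNat 304, .ofNat 1133⟩, ⟨.ofNat 342, .ofNat 130, .negSucc 112, .negSucc 812, .ofNat 316, .ofNat 1899⟩, ⟨.negSucc 344, .negSucc 181, .ofNat 106, .ofNat 364, .negSucc 645, .negSucc 2757⟩, ⟨.ofNat 21, .negSucc 20, .negSucc 268, .negSucc 785, .ofNat 128, .ofNat 82⟩, .ofNat 750, .ofNat 832, .ofNat 0, .ofNat 832, .ofNat 1634, .ofNat 0, .ofNat 128, .negSucc 486, .negSucc 769, .ofNat 0, .ofNat 370, .ofNat 427, .ofNat 0, .ofNat 0, .ofNat 1175, .ofNat 3056, .ofNat 0, .ofNat 0, .ofNat 0, .ofNat 0, .ofNat 0, .ofNat 0, .ofNat 158219767439196326200167562303034621952, .ofNat 0, .ofNat 0, .ofNat 0, .ofNat 722006902042784099637686105146040254464,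 .ofNat 0, .ofNat 0, .ofNat 0, .ofNat 0, .ofNat 0⟩)
    (by decide +kernel)
theorem L03345 : Good (Phi V5.P V5.D (-1) (-1)) ⟨4, 13, 2, 2, 2, 0, 2, 0, 4, 1⟩ :=
  leafX_sound T5.ok_mm T5.Ymm.bz_eq (w := 207) (c := ⟨⟨.negSucc 1797, .negSucc 200, .negSucc 312, .negSucc 212, .negSucc 390, .negSucc 1215⟩, ⟨.ofNat 925, .ofNat 190, .ofNat 610, .ofNat 110, .ofNat 233, .ofNat 717⟩, ⟨.ofNat 1957, .ofNat 307, .ofNat 146, .negSucc 243, .ofNat 193, .ofNat 1330⟩, ⟨.negSucc 2855, .negSucc 33, .negSucc 473, .negSucc 495, .negSucc 510, .negSucc 1733⟩, ⟨.negSucc 17, .negSucc 54, .negSucc 106, .negSucc 309, .ofNat 126, .ofNat 65⟩, .ofNat 757, .ofNat 840, .ofNat 0, .ofNat 840, .ofNat 1636, .ofNat 0, .ofNat 128, .negSucc 432, .negSucc 626, .ofNat 0, .ofNat 331, .ofNat 352, .ofNat 0, .ofNat 0, .ofNat 1174, .ofNat 4190, .ofNat 0, .ofNat 0, .ofNat 0, .ofNat 0, .ofNat 123144489067636853095992516204659654787072, .ofNat 0,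 .ofNat 13127975522216260819686588561592680448, .ofNat 0, .ofNat 0, .ofNat 0, .ofNat 20340574388548530729286581115840102400, .ofNat 0, .ofNat 0, .ofNat 0, .ofNat 0, .ofNat 0⟩)
    (by decide +kernel)
theorem L03346 : Good (Phi V5.P V5.D (-1) (-1)) ⟨5, 28, 2, 2, 2, 0, 5, 0, 5, 0⟩ :=
  leafX_sound T5.ok_mm T5.Ymm.bz_eq (w := 229) (c := ⟨⟨.ofNat 2123, .ofNat 190, .ofNat 380, .ofNat 854, .ofNat 202, .negSucc 2992⟩, ⟨.negSucc 1126, .negSucc 22, .negSucc 752, .negSucc 567, .negSucc 134, .ofNat 1944⟩, ⟨.negSucc 2054, .negSucc 13, .negSucc 671, .negSucc 686, .negSucc 185, .ofNat 2890⟩, ⟨.ofNat 3081, .ofNat 32, .ofNat 642, .ofNat 482, .ofNat 284, .negSucc 4227⟩, ⟨.ofNat 78, .negSucc 91, .ofNat 41, .negSucc 1123, .negSucc 8, .ofNat 68⟩, .ofNat 381, .ofNat 281, .ofNat 0, .ofNat 281, .ofNat 617, .ofNat 0, .ofNat 128, .negSucc 245, .negSucc 434, .ofNat 0, .ofNat 253, .ofNat 236, .ofNat 0, .ofNat 0, .ofNat 570,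 .ofNat 19941, .ofNat 0, .ofNat 0, .ofNat 10238159862619485883469624502877639671808, .ofNat 546973069343851697699128255760038348191392858112, .ofNat 0, .ofNat 0, .ofNat 54318426170922979843754110280037543444480, .ofNat 0, .ofNat 0, .ofNat 0, .ofNat 506023033336482729895690092537609692643328, .ofNat 0, .ofNat 2097039732538137965769285697365591520354238464, .ofNat 0, .ofNat 254058892271508860663046767945844961312768, .ofNat 0⟩)
    (by decide +kernel)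
theorem L03347 : Good (Phi V5.P V5.D (-1) (-1)) ⟨5, 28, 2, 2, 2, 0, 5, 1, 5, 0⟩ :=
  leafX_sound T5.ok_mm T5.Ymm.bz_eq (w := 228) (c := ⟨⟨.ofNat 2577, .ofNat 386, .ofNat 31, .ofNat 797, .ofNat 221, .negSucc 3222⟩, ⟨.negSucc 1956, .negSucc 765, .ofNat 798, .negSucc 517, .negSucc 150, .ofNat 2108⟩, ⟨.negSucc 3026, .negSucc 943, .ofNat 1062, .negSucc 583, .negSucc 219, .ofNat 3108⟩, ⟨.ofNat 4047, .ofNat 733, .negSucc 695, .ofNat 408, .ofNat 316, .negSucc 4576⟩, ⟨.ofNat 148, .ofNat 117, .negSucc 233, .negSucc 1136, .ofNat 12, .ofNat 54⟩, .ofNat 381, .ofNat 281, .ofNat 0, .ofNat 281, .ofNat 617, .ofNat 0, .ofNat 128, .negSucc 186, .negSucc 432, .ofNat 0, .ofNat 192, .ofNat 235, .ofNat 0, .ofNat 0, .ofNat 547, .ofNat 6331, .ofNat 0, .ofNat 0, .ofNat 0, .ofNat 0, .ofNat 0, .ofNat 0, .ofNat 206850811767675986732216500905786262683648, .ofNat 2164463961772392460062475654876520006446122795008, .ofNat 0,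 .ofNat 0, .ofNat 0, .ofNat 0, .ofNat 0, .ofNat 0, .ofNat 258403016758562629925681157440336625139712, .ofNat 7639226700477853690794712844863124506166563962880⟩)
    (by decide +kernel)
theorem L03348 : Good (Phi V5.P V5.D (-1) (-1)) ⟨5, 28, 2, 2, 2, 0, 4, 1, 5, 0⟩ :=
  leafX_sound T5.ok_mm T5.Ymm.bz_eq (w := 225) (c := ⟨⟨.ofNat 3135, .ofNat 372, .negSucc 320, .ofNat 864, .ofNat 449, .negSucc 3633⟩, ⟨.negSucc 1711, .negSucc 133, .negSucc 417, .negSucc 583, .negSucc 295, .ofNat 2343⟩, ⟨.negSucc 3085, .negSucc 181, .ofNat 17, .negSucc 641, .negSucc 421, .ofNat 3428⟩, ⟨.ofNat 4521, .ofNat 391, .negSucc 434, .ofNat 523, .ofNat 633, .negSucc 5142⟩, ⟨.negSucc 105, .negSucc 101, .ofNat 344, .negSucc 1065, .ofNat 4, .ofNat 53⟩, .ofNat 884, .ofNat 999, .ofNat 0, .ofNat 999, .ofNat 1762, .ofNat 0, .ofNat 128, .negSucc 481, .negSucc 891, .ofNat 0, .ofNat 369, .ofNat 543, .ofNat 0, .ofNat 0, .ofNat 1174, .ofNat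 4739, .ofNat 0, .ofNat 0, .ofNat 0, .ofNat 0, .ofNat 0, .ofNat 0, .ofNat 35014542223399159079307335407534832877568, .ofNat 258073803123082119074333677371447058547808927744, .ofNat 0, .ofNat 0, .ofNat 0, .ofNat 0, .ofNat 0, .ofNat 0, .ofNat 0, .ofNat 0⟩)
    (by decide +kernel)
theorem L03349 : Good (Phi V5.P V5.D (-1) (-1)) ⟨5, 29, 2, 2, 2, 0, 3, 0, 5, 0⟩ :=
  out_sound (S := T5.ds_mm) T5.ok_mm (w := 17) (j := 4) (by decide +kernel)
theorem L03350 : Good (Phi V5.P V5.D (-1) (-1)) ⟨5, 28, 2, 2, 2, 0, 3, 1, 5, 0⟩ :=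
  leafX_sound T5.ok_mm T5.Ymm.bz_eq (w := 223) (c := ⟨⟨.ofNat 4594, .ofNat 893, .negSucc 784, .ofNat 270, .ofNat 860, .negSucc 5082⟩, ⟨.negSucc 2635, .negSucc 481, .negSucc 224, .negSucc 163, .negSucc 561, .ofNat 3317⟩, ⟨.negSucc 4306, .negSucc 618, .ofNat 99, .negSucc 122, .negSucc 981, .ofNat 4926⟩, ⟨.ofNat 6319, .ofNat 809, .negSucc 472, .negSucc 233, .ofNat 1427, .negSucc 7390⟩, ⟨.negSucc 156, .negSucc 128, .ofNat 411, .negSucc 960, .ofNat 301, .negSucc 259⟩, .ofNat 1424, .ofNat 1809, .ofNat 0, .ofNat 1809, .ofNat 3010, .ofNat 0, .ofNat 128, .negSucc 547, .negSucc 1980, .ofNat 0, .ofNat 395, .ofNat 1243, .ofNat 0, .ofNat 0, .ofNat 2441, .ofNat 793, .ofNat 0, .ofNat 0, .ofNat 0, .ofNat 0, .ofNat 0, .ofNat 0, .ofNat 2566427066386598053810730806049438171136, .ofNat 0, .ofNat 0, .ofNat 0, .ofNat 1194333537591933429750876303534241873920, .ofNat 787118868750793644341837017444423331847241465856,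 .ofNat 0, .ofNat 0, .ofNat 0, .ofNat 0⟩)
    (by decide +kernel)
theorem L03351 : Good (Phi V5.P V5.D (-1) (-1)) ⟨5, 29, 2, 2, 2, 0, 3, 1, 5, 0⟩ :=
  out_sound (S := T5.ds_mm) T5.ok_mm (w := 17) (j := 4) (by decide +kernel)
theorem L03352 : Good (Phi V5.P V5.D (-1) (-1)) ⟨4, 15, 2, 2, 2, 0, 2, 0, 5, 0⟩ :=
  out_sound (S := T5.ds_mm) T5.ok_mm (w := 49) (j := 3) (by decide +kernel)
theorem L03353 : Good (Phi V5.P V5.D (-1) (-1)) ⟨5, 28, 2, 2, 2, 0, 2, 0, 5, 1⟩ :=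
  leafX_sound T5.ok_mm T5.Ymm.bz_eq (w := 215) (c := ⟨⟨.negSucc 140, .ofNat 44, .negSucc 465, .ofNat 497, .negSucc 473, .negSucc 1833⟩, ⟨.negSucc 147, .negSucc 187, .ofNat 829, .negSucc 324, .ofNat 313, .ofNat 1192⟩, ⟨.ofNat 375, .ofNat 31, .ofNat 215, .negSucc 823, .ofNat 299, .ofNat 1839⟩, ⟨.negSucc 394, .negSucc 99, .negSucc 177, .ofNat 242, .negSucc 587, .negSucc 2620⟩, ⟨.ofNat 22, .ofNat 95, .negSucc 65, .negSucc 740, .ofNat 126, .ofNat 4⟩, .ofNat 820, .ofNat 889, .ofNat 0, .ofNat 889, .ofNat 1567, .ofNat 0, .ofNat 128, .negSucc 478, .negSucc 888, .ofNat 0, .ofNat 384, .ofNat 546, .ofNat 0, .ofNat 0, .ofNat 1252, .ofNat 2550, .ofNat 0, .ofNat 0, .ofNat 0, .ofNat 0, .ofNat 0, .ofNat 0, .ofNat 48830363523814624413971578242901999616, .ofNat 0, .ofNat 0, .ofNat 0, .ofNat 69791263301102975960772090846360109056, .ofNat 0, .ofNat 0, .ofNat 0, .ofNat 0, .ofNat 0⟩)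
    (by decide +kernel)
theorem L03354 : Good (Phi V5.P V5.D (-1) (-1)) ⟨5, 29, 2, 2, 2, 0, 2, 0, 5, 1⟩ :=
  out_sound (S := T5.ds_mm) T5.ok_mm (w := 17) (j := 4) (by decide +kernel)
theorem L03355 : Good (Phi V5.P V5.D (-1) (-1)) ⟨4, 15, 2, 2, 2, 0, 2, 0, 5, 1⟩ :=
  out_sound (S := T5.ds_mm) T5.ok_mm (w := 49) (j := 3) (by decide +kernel)
theorem L03356 : Good (Phi V5.P V5.D (-1) (-1)) ⟨3, 7, 2, 2, 2, 0, 2, 0, 4, 1⟩ :=
  leafX_sound T5.ok_mm T5.Ymm.bz_eq (w := 203) (c := ⟨⟨.negSucc 1654, .ofNat 1308, .negSucc 1218, .negSucc 276, .negSucc 400, .negSucc 1116⟩, ⟨.ofNat 785, .negSucc 902, .ofNat 1329, .ofNat 178, .ofNat 260, .ofNat 720⟩, ⟨.ofNat 1942, .negSucc 1273, .ofNat 1028, .negSucc 219, .ofNat 243, .ofNat 1220⟩, ⟨.negSucc 2667, .ofNat 982, .negSucc 1035, .negSucc 576, .negSucc 556, .negSucc 1537⟩, ⟨.negSucc 116, .negSucc 723, .ofNat 244, .negSucc 275, .ofNat 25, .ofNat 83⟩, .ofNat 881, .ofNat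 994, .ofNat 0, .ofNat 994, .ofNat 1756, .ofNat 0, .ofNat 128, .negSucc 490, .negSucc 806, .ofNat 0, .ofNat 378, .ofNat 495, .ofNat 0, .ofNat 0, .ofNat 1445, .ofNat 2470, .ofNat 0, .ofNat 0, .ofNat 1217646479691194452851879423869190144, .ofNat 0, .ofNat 0, .ofNat 0, .ofNat 33758561920668639890716086158751694848, .ofNat 15776923390671912784909869960391452228845568, .ofNat 0, .ofNat 0, .ofNat 63428831477566232908939514597852839936, .ofNat 65292790781038290177547156608249594889895936, .ofNat 0, .ofNat 0, .ofNat 28627081747443606116408249665250656256, .ofNat 0⟩)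
    (by decide +kernel)
theorem L03357 : Good (Phi V5.P V5.D (-1) (-1)) ⟨2, 2, 2, 2, 2, 0, 2, 1, 3, 0⟩ :=
  out_sound (S := T5.ds_mm) T5.ok_mm (w := 37) (j := 3) (by decide +kernel)
theorem L03358 : Good (Phi V5.P V5.D (-1) (-1)) ⟨4, 12, 3, 4, 2, 0, 2, 1, 4, 0⟩ :=
  out_sound (S := T5.ds_mm) T5.ok_mm (w := 51) (j := 3) (by decide +kernel)
theorem L03359 : Good (Phi V5.P V5.D (-1) (-1)) ⟨4, 13, 3, 4, 2, 0, 2, 1, 5, 0⟩ :=
  leafX_sound T5.ok_mm T5.Ymm.bz_eq (w := 218) (c := ⟨⟨.ofNat 4275, .negSucc 14, .ofNat 796, .ofNat 307, .negSucc 1727, .negSucc 5110⟩, ⟨.negSucc 2389, .negSucc 114, .negSucc 604, .negSucc 179, .ofNat 1023, .ofNat 3014⟩, ⟨.negSucc 4444, .ofNat 259, .negSucc 1071, .negSucc 188, .ofNat 1592, .ofNat 4964⟩, ⟨.ofNat 6543, .negSucc 217, .ofNat 1247, .ofNat 2, .negSucc 2331, .negSucc 8011⟩, ⟨.ofNat 167, .ofNat 171, .ofNat 168, .negSucc 785, .ofNat 298, .negSucc 992⟩, .ofNat 1563, .ofNat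 2148, .ofNat 0, .ofNat 2148, .ofNat 3831, .ofNat 0, .ofNat 128, .negSucc 498, .negSucc 1986, .ofNat 0, .ofNat 338, .ofNat 1149, .ofNat 0, .ofNat 0, .ofNat 2344, .ofNat 535, .ofNat 0, .ofNat 0, .ofNat 10691343600291481574860082043896725504, .ofNat 0, .ofNat 0, .ofNat 0, .ofNat 497114215660356992467599990082976612352, .ofNat 0, .ofNat 0, .ofNat 0, .ofNat 3100547000595821147499251119038350229504, .ofNat 0, .ofNat 0, .ofNat 0, .ofNat 0, .ofNat 0⟩)
    (by decide +kernel)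
theorem L03360 : Good (Phi V5.P V5.D (-1) (-1)) ⟨4, 13, 3, 4, 2, 0, 2, 1, 5, 1⟩ :=
  leafX_sound T5.ok_mm T5.Ymm.bz_eq (w := 217) (c := ⟨⟨.negSucc 696, .ofNat 403, .negSucc 668, .ofNat 143, .negSucc 1248, .negSucc 1847⟩, ⟨.ofNat 302, .negSucc 160, .ofNat 534, .negSucc 88, .ofNat 730, .ofNat 1078⟩, ⟨.ofNat 699, .negSucc 389, .ofNat 610, .negSucc 513, .ofNat 1162, .ofNat 1854⟩, ⟨.negSucc 857, .ofNat 329, .negSucc 764, .negSucc 9, .negSucc 1834, .negSucc 2734⟩, ⟨.ofNat 598, .negSucc 830, .ofNat 332, .negSucc 407, .negSucc 2, .negSucc 85⟩, .ofNat 1536, .ofNat 2113, .ofNat 0, .ofNat 2113, .ofNat 3792, .ofNat 0, .ofNat 128, .negSucc 446, .negSucc 1186, .ofNat 0, .ofNat 302, .ofNat 684, .ofNat 0, .ofNat 0, .ofNat 1580, .ofNat 1434, .ofNat 0, .ofNat 0, .ofNat 0, .ofNat 0, .ofNat 0, .ofNat 0, .ofNat 1289620112608834196970434041800535572480, .ofNat 0, .ofNat 0, .ofNat 0, .ofNat 3561048523461651945688663650703207563264,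 .ofNat 0, .ofNat 0, .ofNat 0, .ofNat 859250589403527562865895208192950927360, .ofNat 0⟩)
    (by decide +kernel)
theorem L03361 : Good (Phi V5.P V5.D (-1) (-1)) ⟨5, 28, 4, 8, 2, 0, 2, 1, 4, 0⟩ :=
  out_sound (S := T5.ds_mm) T5.ok_mm (w := 59) (j := 3) (by decide +kernel)
theorem L03362 : Good (Phi V5.P V5.D (-1) (-1)) ⟨6, 56, 4, 9, 2, 0, 2, 1, 5, 0⟩ :=
  leafX_sound T5.ok_mm T5.Ymm.bz_eq (w := 233) (c := ⟨⟨.ofNat 6042, .negSucc 92, .ofNat 108, .ofNat 207, .negSucc 1373, .negSucc 7429⟩, ⟨.negSucc 3743, .ofNat 10, .negSucc 162, .negSucc 140, .ofNat 875, .ofNat 4713⟩, ⟨.negSucc 6034, .ofNat 164, .negSucc 192, .ofNat 15, .ofNat 1137, .ofNat 7170⟩, ⟨.ofNat 8798, .negSucc 264, .negSucc 48, .negSucc 347, .negSucc 1719, .negSucc 10382⟩, ⟨.ofNat 204, .negSucc 118, .negSucc 253, .negSucc 1011, .ofNat 368, .ofNat 354⟩, .ofNat 2917, .ofNat 4095, .ofNat 0, .ofNat 4095, .ofNat 6562, .ofNat 0, .ofNat 128, .negSucc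 723, .negSucc 3846, .ofNat 0, .ofNat 509, .ofNat 2418, .ofNat 0, .ofNat 0, .ofNat 4348, .ofNat 764, .ofNat 0, .ofNat 0, .ofNat 0, .ofNat 0, .ofNat 0, .ofNat 0, .ofNat 2278062388080759869535830802507765907456, .ofNat 0, .ofNat 0, .ofNat 0, .ofNat 1300556970767283895695038779520284884992, .ofNat 0, .ofNat 0, .ofNat 0, .ofNat 0, .ofNat 0⟩)
    (by decide +kernel)
theorem L03363 : Good (Phi V5.P V5.D (-1) (-1)) ⟨6, 56, 4, 9, 2, 0, 2, 1, 5, 1⟩ :=
  leafX_sound T5.ok_mm T5.Ymm.bz_eq (w := 230) (c := ⟨⟨.negSucc 319, .negSucc 337, .negSucc 434, .ofNat 213, .negSucc 1337, .negSucc 1936⟩, ⟨.ofNat 153, .ofNat 261, .ofNat 325, .negSucc 137, .ofNat 848, .ofNat 1222⟩, ⟨.ofNat 373, .ofNat 322, .ofNat 390, .negSucc 631, .ofNat 1258, .ofNat 1932⟩, ⟨.negSucc 691, .negSucc 401, .negSucc 512, .ofNat 155, .negSucc 1874, .negSucc 2586⟩, ⟨.negSucc 390, .negSucc 27, .ofNat 233, .negSucc 244, .ofNat 77, .ofNat 277⟩, .ofNat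 2057, .ofNat 2811, .ofNat 0, .ofNat 2811, .ofNat 4628, .ofNat 0, .ofNat 128, .negSucc 993, .negSucc 2247, .ofNat 0, .ofNat 687, .ofNat 1403, .ofNat 0, .ofNat 0, .ofNat 2948, .ofNat 4792, .ofNat 0, .ofNat 0, .ofNat 0, .ofNat 0, .ofNat 0, .ofNat 0, .ofNat 1831665459963152895481921940560485023744, .ofNat 0, .ofNat 0, .ofNat 0, .ofNat 8901255271974521924001600679169702756352, .ofNat 0, .ofNat 0, .ofNat 0, .ofNat 4729600356416187510715217276397011599360, .ofNat 0⟩)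
    (by decide +kernel)
theorem L03364 : Good (Phi V5.P V5.D (-1) (-1)) ⟨6, 57, 4, 9, 2, 0, 2, 1, 4, 0⟩ :=
  out_sound (S := T5.ds_mm) T5.ok_mm (w := 65) (j := 3) (by decide +kernel)
theorem L03365 : Good (Phi V5.P V5.D (-1) (-1)) ⟨5, 29, 3, 4, 2, 0, 2, 1, 4, 0⟩ :=
  out_sound (S := T5.ds_mm) T5.ok_mm (w := 57) (j := 3) (by decide +kernel)
theorem L03366 : Good (Phi V5.P V5.D (-1) (-1)) ⟨4, 15, 3, 4, 2, 0, 2, 1, 4, 0⟩ :=
  out_sound (S := T5.ds_mm) T5.ok_mm (w := 51) (j := 3) (by decide +kernel)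
theorem L03367 : Good (Phi V5.P V5.D (-1) (-1)) ⟨2, 3, 3, 4, 2, 0, 2, 1, 4, 1⟩ :=
  leafX_sound T5.ok_mm T5.Ymm.bz_eq (w := 200) (c := ⟨⟨.negSucc 2007, .negSucc 1868, .negSucc 51, .negSucc 434, .negSucc 130, .negSucc 423⟩, ⟨.ofNat 868, .ofNat 1593, .ofNat 263, .ofNat 264, .ofNat 83, .ofNat 256⟩, ⟨.ofNat 2158, .ofNat 1537, .ofNat 93, .negSucc 4, .ofNat 59, .ofNat 518⟩, ⟨.negSucc 3554, .negSucc 1311, .negSucc 35, .negSucc 658, .negSucc 203, .negSucc 605⟩, ⟨.negSucc 167, .ofNat 289, .negSucc 1, .negSucc 50, .ofNat 42, .ofNat 59⟩, .ofNat 368, .ofNat 264, .ofNat 0, .ofNat 264, .ofNat 645, .ofNat 0, .ofNat 136, .negSucc 123, .negSucc 389, .ofNat 0, .ofNat 128, .ofNat 195, .ofNat 0, .ofNat 0, .ofNat 613, .ofNat 328, .ofNat 0, .ofNat 0, .ofNat 654908653842236560922276135608254464, .ofNat 0, .ofNat 0, .ofNat 0, .ofNat 0, .ofNat 0, .ofNat 0, .ofNat 0, .ofNat 7624014871354007004349433964291686400, .ofNat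 5798142076850090766713368824669543117881344, .ofNat 0, .ofNat 0, .ofNat 15556121759339584416439274737332387840, .ofNat 0⟩)
    (by decide +kernel)
theorem L03368 : Good (Phi V5.P V5.D (-1) (-1)) ⟨3, 6, 3, 5, 2, 0, 2, 1, 3, 0⟩ :=
  out_sound (S := T5.ds_mm) T5.ok_mm (w := 45) (j := 3) (by decide +kernel)
theorem L03369 : Good (Phi V5.P V5.D (-1) (-1)) ⟨5, 28, 3, 5, 2, 0, 3, 2, 5, 0⟩ :=
  leafX_sound T5.ok_mm T5.Ymm.bz_eq (w := 228) (c := ⟨⟨.ofNat 6185, .ofNat 372, .negSucc 636, .ofNat 640, .ofNat 177, .negSucc 7879⟩, ⟨.negSucc 4005, .negSucc 311, .ofNat 232, .negSucc 444, .negSucc 103, .ofNat 5185⟩, ⟨.negSucc 6173, .negSucc 1254, .ofNat 1916, .negSucc 246, .negSucc 349, .ofNat 7737⟩, ⟨.ofNat 8940, .ofNat 238, .negSucc 750, .ofNat 77, .ofNat 461, .negSucc 11269⟩, ⟨.ofNat 231, .negSucc 210, .ofNat 306, .negSucc 1237, .ofNat 276, .negSucc 206⟩, .ofNat 2473, .ofNat 3376, .ofNat 0, .ofNat 3376, .ofNat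 5362, .ofNat 0, .ofNat 128, .negSucc 706, .negSucc 2735, .ofNat 0, .ofNat 493, .ofNat 1764, .ofNat 0, .ofNat 0, .ofNat 3148, .ofNat 734, .ofNat 0, .ofNat 0, .ofNat 101960526433263413018615974871324164096, .ofNat 55635145157271658841361650834025601186463219712, .ofNat 0, .ofNat 0, .ofNat 7941116692862088865622431296735502401536, .ofNat 3068660934920000633796002053428742647228290564096, .ofNat 0, .ofNat 0, .ofNat 11794060023943160804722636623278747156480, .ofNat 5558470382342194363746458522138268131256214487040, .ofNat 0, .ofNat 0, .ofNat 26027336277201684141410807543215819849728, .ofNat 29586200391794003101391387049284105168187161575424⟩)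
    (by decide +kernel)
theorem L03370 : Good (Phi V5.P V5.D (-1) (-1)) ⟨5, 28, 4, 10, 2, 0, 3, 3, 6, 0⟩ :=
  leafX_sound T5.ok_mm T5.Ymm.bz_eq (w := 237) (c := ⟨⟨.ofNat 7041, .ofNat 300, .ofNat 1085, .ofNat 745, .negSucc 1631, .negSucc 6960⟩, ⟨.negSucc 4546, .negSucc 320, .negSucc 823, .negSucc 491, .ofNat 1072, .ofNat 4603⟩, ⟨.negSucc 7177, .ofNat 7, .negSucc 1284, .negSucc 564, .ofNat 1469, .ofNat 6791⟩, ⟨.ofNat 9910, .ofNat 458, .ofNat 1593, .ofNat 767, .negSucc 2145, .negSucc 10285⟩, ⟨.negSucc 141, .ofNat 198, .ofNat 200, .negSucc 455, .ofNat 241, .negSucc 667⟩, .ofNat 2570, .ofNat 3504, .ofNat 0, .ofNat 3504, .ofNat 5521, .ofNat 0, .ofNat 128, .negSucc 527, .negSucc 3855, .ofNat 0, .ofNat 369, .ofNat 2504, .ofNat 0, .ofNat 0, .ofNat 4094, .ofNat 632, .ofNat 0, .ofNat 0, .ofNat 0, .ofNat 0, .ofNat 0, .ofNat 0, .ofNat 3132977333325416884802684827433193862856704, .ofNat 0, .ofNat 0, .ofNat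 0, .ofNat 1519660238655301528781393351627586345631744, .ofNat 156383487041522413232496890880914883455084069388288, .ofNat 0, .ofNat 0, .ofNat 4883491304298684658640131971273536147816448, .ofNat 7518104322474673512487162783001283558624019794100224⟩)
    (by decide +kernel)
theorem L03371 : Good (Phi V5.P V5.D (-1) (-1)) ⟨6, 56, 4, 11, 2, 0, 3, 3, 6, 0⟩ :=
  out_sound (S := T5.ds_mm) T5.ok_mm (w := 65) (j := 3) (by decide +kernel)
theorem L03372 : Good (Phi V5.P V5.D (-1) (-1)) ⟨7, 114, 5, 22, 2, 0, 3, 3, 6, 0⟩ :=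
  out_sound (S := T5.ds_mm) T5.ok_mm (w := 73) (j := 3) (by decide +kernel)
theorem L03373 : Good (Phi V5.P V5.D (-1) (-1)) ⟨7, 115, 5, 22, 2, 0, 3, 3, 6, 0⟩ :=
  out_sound (S := T5.ds_mm) T5.ok_mm (w := 21) (j := 4) (by decide +kernel)
theorem L03374 : Good (Phi V5.P V5.D (-1) (-1)) ⟨6, 57, 5, 23, 2, 0, 3, 3, 6, 0⟩ :=
  out_sound (S := T5.ds_mm) T5.ok_mm (w := 67) (j := 3) (by decide +kernel)
theorem L03375 : Good (Phi V5.P V5.D (-1) (-1)) ⟨5, 28, 3, 5, 2, 0, 3, 3, 6, 1⟩ :=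
  leafX_sound T5.ok_mm T5.Ymm.bz_eq (w := 233) (c := ⟨⟨.ofNat 644, .ofNat 224, .negSucc 563, .ofNat 1332, .negSucc 1708, .negSucc 2646⟩, ⟨.negSucc 423, .negSucc 202, .ofNat 472, .negSucc 877, .ofNat 1127, .ofNat 1742⟩, ⟨.negSucc 813, .ofNat 313, .negSucc 93, .negSucc 1581, .ofNat 1644, .ofNat 2598⟩, ⟨.ofNat 1014, .ofNat 26, .negSucc 517, .ofNat 1569, .negSucc 2421, .negSucc 3745⟩, ⟨.ofNat 129, .negSucc 233, .ofNat 161, .negSucc 474, .negSucc 12, .negSucc 29⟩, .ofNat 2483, .ofNat 3391, .ofNat 0, .ofNat 3391, .ofNat 5379, .ofNat 0, .ofNat 128, .negSucc 684, .negSucc 2282, .ofNat 0, .ofNat 477, .ofNat 1474, .ofNat 0, .ofNat 0, .ofNat 2577, .ofNat 1646, .ofNat 0, .ofNat 0, .ofNat 0, .ofNat 0, .ofNat 0, .ofNat 0, .ofNat 25367009116439027381233999822823329103872, .ofNat 125385658865563189679659394041825292138539315625984, .ofNat 0, .ofNat 0, .ofNat 966395507843572478813242434506242071199744, .ofNat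 138649357508175488323815377851151008963071773245440, .ofNat 0, .ofNat 0, .ofNat 829414701126163121835879838410158253277184, .ofNat 441760838012658743440485394861991664722037939634176⟩)
    (by decide +kernel)
theorem L03376 : Good (Phi V5.P V5.D (-1) (-1)) ⟨5, 29, 3, 5, 2, 0, 2, 1, 5, 0⟩ :=
  out_sound (S := T5.ds_mm) T5.ok_mm (w := 17) (j := 4) (by decide +kernel)
theorem L03377 : Good (Phi V5.P V5.D (-1) (-1)) ⟨4, 15, 3, 5, 2, 0, 2, 1, 5, 0⟩ :=
  out_sound (S := T5.ds_mm) T5.ok_mm (w := 51) (j := 3) (by decide +kernel)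
theorem L03378 : Good (Phi V5.P V5.D (-1) (-1)) ⟨3, 7, 3, 5, 2, 0, 2, 1, 5, 1⟩ :=
  leafX_sound T5.ok_mm T5.Ymm.bz_eq (w := 210) (c := ⟨⟨.negSucc 722, .ofNat 365, .negSucc 222, .ofNat 184, .negSucc 1486, .negSucc 2053⟩, ⟨.ofNat 360, .ofNat 1091, .negSucc 24, .negSucc 122, .ofNat 984, .ofNat 1354⟩, ⟨.ofNat 701, .ofNat 182, .ofNat 82, .negSucc 627, .ofNat 1410, .ofNat 2062⟩, ⟨.negSucc 1131, .negSucc 347, .ofNat 84, .ofNat 127, .negSucc 2026, .negSucc 2753⟩, ⟨.negSucc 200, .ofNat 236, .negSucc 29, .negSucc 314, .ofNat 242, .ofNat 190⟩, .ofNat 753, .ofNat 724, .ofNat 0, .ofNat 724, .ofNat 1158, .ofNat 0, .ofNat 128, .negSucc 301, .negSucc 1189, .ofNat 0, .ofNat 279, .ofNat 810, .ofNat 0, .ofNat 0, .ofNat 1395, .ofNat 547, .ofNat 0, .ofNat 0, .ofNat 0, .ofNat 0, .ofNat 0, .ofNat 0, .ofNat 926560973853040621077159435586280357888, .ofNat 401712768182310588515074588545102078999003136, .ofNat 0, .ofNat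 0, .ofNat 799569431934983476327831310384240787456, .ofNat 194438277129166193538944572925096520453193728, .ofNat 0, .ofNat 0, .ofNat 308434625444111734379974874208481050624, .ofNat 7549534331055891009677442480672983382392569856⟩)
    (by decide +kernel)
theorem L03379 : Good (Phi V5.P V5.D (-1) (-1)) ⟨3, 7, 3, 5, 2, 0, 2, 1, 4, 1⟩ :=
  leafX_sound T5.ok_mm T5.Ymm.bz_eq (w := 206) (c := ⟨⟨.negSucc 3117, .ofNat 681, .negSucc 499, .negSucc 581, .negSucc 172, .negSucc 285⟩, ⟨.ofNat 1976, .negSucc 295, .ofNat 595, .ofNat 383, .ofNat 117, .ofNat 189⟩, ⟨.ofNat 3121, .negSucc 12, .ofNat 303, .ofNat 87, .ofNat 93, .ofNat 390⟩, ⟨.negSucc 4386, .ofNat 373, .negSucc 320, .negSucc 815, .negSucc 250, .negSucc 396⟩, ⟨.ofNat 10, .negSucc 160, .ofNat 77, .ofNat 1, .ofNat 17, .ofNat 12⟩, .ofNat 911, .ofNat 1032, .ofNat 0, .ofNat 1032, .ofNat 1790, .ofNat 0, .ofNat 128, .negSucc 486, .negSucc 943, .ofNat 0, .ofNat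 376, .ofNat 586, .ofNat 0, .ofNat 0, .ofNat 1512, .ofNat 1398, .ofNat 0, .ofNat 0, .ofNat 564149796390548802929336747714150400, .ofNat 3894670774746064745836373528411630578171904, .ofNat 0, .ofNat 0, .ofNat 52991229351074760977832949590848962560, .ofNat 93827548278239246952756798072696562190909440, .ofNat 0, .ofNat 0, .ofNat 203803407679205947491790264260341268480, .ofNat 540637833917309739480687173915566728057716736, .ofNat 0, .ofNat 0, .ofNat 28587171924284055607874879102426021888, .ofNat 234887571170939284697769149128474035404931072⟩)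
    (by decide +kernel)
theorem L03380 : Good (Phi V5.P V5.D (-1) (-1)) ⟨2, 2, 2, 2, 3, 2, 2, 0, 3, 0⟩ :=
  out_sound (S := T5.ds_mm) T5.ok_mm (w := 37) (j := 3) (by decide +kernel)
theorem L03381 : Good (Phi V5.P V5.D (-1) (-1)) ⟨4, 12, 2, 2, 3, 2, 2, 0, 4, 0⟩ :=
  out_sound (S := T5.ds_mm) T5.ok_mm (w := 49) (j := 3) (by decide +kernel)
theorem L03382 : Good (Phi V5.P V5.D (-1) (-1)) ⟨4, 13, 2, 2, 3, 2, 4, 0, 4, 0⟩ :=
  leafX_sound T5.ok_mm T5.Ymm.bz_eq (w := 229) (c := ⟨⟨.ofNat 2492, .ofNat 476, .ofNat 120, .ofNat 828, .ofNat 296, .negSucc 4664⟩, ⟨.negSucc 1343, .negSucc 515, .negSucc 52, .negSucc 495, .negSucc 162, .ofNat 2733⟩, ⟨.negSucc 2247, .negSucc 50, .negSucc 879, .negSucc 231, .negSucc 362, .ofNat 3697⟩, ⟨.ofNat 3277, .ofNat 278, .ofNat 145, .ofNat 660, .ofNat 484, .negSucc 6738⟩, ⟨.negSucc 1022, .negSucc 214, .ofNat 143, .negSucc 964, .ofNat 87, .ofNat 330⟩, .ofNat 368, .ofNat 264,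 .ofNat 0, .ofNat 264, .ofNat 644, .ofNat 0, .ofNat 128, .negSucc 194, .negSucc 361, .ofNat 0, .ofNat 171, .ofNat 191, .ofNat 0, .ofNat 0, .ofNat 475, .ofNat 4863, .ofNat 0, .ofNat 0, .ofNat 392621696563510103214815503029358347419648, .ofNat 0, .ofNat 285428147965589753370778348896405703506926764032, .ofNat 0, .ofNat 7735956791848193089054789916863978503405568, .ofNat 0, .ofNat 0, .ofNat 0, .ofNat 14316996518583684599447081722690253877149696, .ofNat 0, .ofNat 0, .ofNat 0, .ofNat 0, .ofNat 0⟩)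
    (by decide +kernel)
theorem L03383 : Good (Phi V5.P V5.D (-1) (-1)) ⟨4, 13, 2, 2, 3, 2, 4, 1, 4, 0⟩ :=
  leafX_sound T5.ok_mm T5.Ymm.bz_eq (w := 229) (c := ⟨⟨.ofNat 2521, .ofNat 1270, .negSucc 412, .ofNat 723, .ofNat 172, .negSucc 5369⟩, ⟨.negSucc 1355, .negSucc 980, .ofNat 255, .negSucc 423, .negSucc 111, .ofNat 3209⟩, ⟨.negSucc 2358, .negSucc 875, .ofNat 33, .negSucc 274, .negSucc 260, .ofNat 4467⟩, ⟨.ofNat 3128, .ofNat 1861, .negSucc 1092, .ofNat 536, .ofNat 327, .negSucc 7642⟩, ⟨.negSucc 1240, .ofNat 283, .negSucc 429, .negSucc 893, .ofNat 98, .ofNat 441⟩, .ofNat 368, .ofNat 263, .ofNat 0, .ofNat 263, .ofNat 643, .ofNat 0, .ofNat 128, .negSucc 216, .negSucc 480, .ofNat 0, .ofNat 196, .ofNat 251, .ofNat 0, .ofNat 0, .ofNat 598, .ofNat 2442, .ofNat 0, .ofNat 0, .ofNat 0, .ofNat 0, .ofNat 0, .ofNat 0, .ofNat 14099907396804958930109421699379305514008576, .ofNat 0, .ofNat 0, .ofNat 0, .ofNat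 21952830189302086615593210147844021913911296, .ofNat 0, .ofNat 0, .ofNat 0, .ofNat 7323433067264798521092706294226255786016768, .ofNat 0⟩)
    (by decide +kernel)
theorem L03384 : Good (Phi V5.P V5.D (-1) (-1)) ⟨4, 13, 2, 2, 3, 2, 3, 1, 4, 0⟩ :=
  leafX_sound T5.ok_mm T5.Ymm.bz_eq (w := 226) (c := ⟨⟨.ofNat 3752, .negSucc 264, .ofNat 1863, .ofNat 883, .ofNat 294, .negSucc 6361⟩, ⟨.negSucc 2132, .ofNat 7, .negSucc 1172, .negSucc 560, .negSucc 214, .ofNat 3812⟩, ⟨.negSucc 3381, .ofNat 107, .negSucc 1454, .negSucc 390, .negSucc 403, .ofNat 5204⟩, ⟨.ofNat 4995, .negSucc 353, .ofNat 2157, .ofNat 736, .ofNat 571, .negSucc 9149⟩, ⟨.negSucc 1160, .ofNat 470, .negSucc 822, .negSucc 871, .ofNat 316, .ofNat 199⟩, .ofNat 751, .ofNat 832, .ofNat 0, .ofNat 832, .ofNat 1631, .ofNat 0, .ofNat 128, .negSucc 333, .negSucc 842, .ofNat 0, .ofNat 241, .ofNat 477, .ofNat 0, .ofNat 0, .ofNat 1062, .ofNat 1153, .ofNat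 0, .ofNat 0, .ofNat 0, .ofNat 0, .ofNat 0, .ofNat 0, .ofNat 0, .ofNat 0, .ofNat 0, .ofNat 0, .ofNat 1773752673092577352867968408044780161859584, .ofNat 0, .ofNat 0, .ofNat 0, .ofNat 0, .ofNat 0⟩)
    (by decide +kernel)
theorem L03385 : Good (Phi V5.P V5.D (-1) (-1)) ⟨5, 28, 2, 2, 3, 2, 5, 0, 4, 0⟩ :=
  leafX_sound T5.ok_mm T5.Ymm.bz_eq (w := 238) (c := ⟨⟨.ofNat 2971, .ofNat 381, .ofNat 286, .ofNat 1070, .ofNat 182, .negSucc 5331⟩, ⟨.negSucc 1778, .negSucc 180, .negSucc 526, .negSucc 695, .negSucc 128, .ofNat 3482⟩, ⟨.negSucc 2375, .negSucc 206, .negSucc 597, .negSucc 473, .negSucc 250, .ofNat 4206⟩, ⟨.ofNat 3575, .ofNat 425, .ofNat 183, .ofNat 817, .ofNat 271, .negSucc 7226⟩, ⟨.negSucc 1265, .negSucc 93, .ofNat 126, .negSucc 1087, .ofNat 44, .ofNat 508⟩, .ofNat 820, .ofNat 889, .ofNat 0, .ofNat 889, .ofNat 1567, .ofNat 0, .ofNat 128, .negSucc 375, .negSucc 367, .ofNat 0, .ofNat 283, .ofNat 231,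 .ofNat 0, .ofNat 0, .ofNat 510, .ofNat 16362, .ofNat 0, .ofNat 0, .ofNat 1395112289462061393641886399506378706124800, .ofNat 0, .ofNat 0, .ofNat 0, .ofNat 188552901559089916885671508430205757215997952, .ofNat 0, .ofNat 0, .ofNat 0, .ofNat 162018995878458305916309188209294049993031680, .ofNat 11603432895465165001010416139330548611883017407823872, .ofNat 0, .ofNat 0, .ofNat 52748863717176957066277098921265602664333312, .ofNat 12107028681950994963278640526066700427143888924311552⟩)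
    (by decide +kernel)
theorem L03386 : Good (Phi V5.P V5.D (-1) (-1)) ⟨5, 28, 2, 2, 3, 2, 5, 1, 4, 0⟩ :=
  leafX_sound T5.ok_mm T5.Ymm.bz_eq (w := 237) (c := ⟨⟨.ofNat 3196, .ofNat 577, .ofNat 145, .ofNat 1205, .ofNat 130, .negSucc 5531⟩, ⟨.negSucc 1552, .ofNat 55, .negSucc 1328, .negSucc 812, .negSucc 87, .ofNat 3629⟩, ⟨.negSucc 3015, .negSucc 478, .ofNat 285, .negSucc 529, .negSucc 95, .ofNat 4327⟩, ⟨.ofNat 4071, .ofNat 776, .negSucc 359, .ofNat 1025, .ofNat 171, .negSucc 7494⟩, ⟨.negSucc 1154, .negSucc 41, .negSucc 90, .negSucc 1029, .negSucc 13, .ofNat 578⟩, .ofNat 388, .ofNat 294, .ofNat 0, .ofNat 294, .ofNat 645, .ofNat 0, .ofNat 128, .negSucc 214, .negSucc 278, .ofNat 0, .ofNat 190, .ofNat 160, .ofNat 0, .ofNat 0, .ofNat 348, .ofNat 3787, .ofNat 0, .ofNat 0, .ofNat 0, .ofNat 0, .ofNat 0, .ofNat 0, .ofNat 34320125941694178650757535771284464325361664, .ofNat 0, .ofNat 0, .ofNat 0, .ofNat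 110929513244430927914223439794123418242121728, .ofNat 809452908421037485306857640196402049300636981264384, .ofNat 0, .ofNat 0, .ofNat 0, .ofNat 0⟩)
    (by decide +kernel)
theorem L03387 : Good (Phi V5.P V5.D (-1) (-1)) ⟨5, 28, 2, 2, 3, 2, 4, 1, 4, 0⟩ :=
  leafX_sound T5.ok_mm T5.Ymm.bz_eq (w := 234) (c := ⟨⟨.ofNat 3008, .negSucc 347, .ofNat 1962, .ofNat 938, .ofNat 109, .negSucc 6104⟩, ⟨.negSucc 1915, .ofNat 110, .negSucc 1304, .negSucc 585, .negSucc 77, .ofNat 3969⟩, ⟨.negSucc 4255, .negSucc 1803, .ofNat 2530, .negSucc 424, .negSucc 220, .ofNat 4916⟩, ⟨.ofNat 4026, .negSucc 178, .ofNat 1572, .ofNat 739, .ofNat 227, .negSucc 8307⟩, ⟨.negSucc 957, .ofNat 243, .negSucc 609, .negSucc 976, .ofNat 113, .ofNat 572⟩, .ofNat 820, .ofNat 889, .ofNat 0, .ofNat 889, .ofNat 1567, .ofNat 0, .ofNat 128, .negSucc 397, .negSucc 736, .ofNat 0, .ofNat 301, .ofNat 461, .ofNat 0, .ofNat 0, .ofNat 925, .ofNat 1666,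 .ofNat 0, .ofNat 0, .ofNat 324393542759043430414284560626776088248320, .ofNat 0, .ofNat 0, .ofNat 0, .ofNat 6221756748511853693876221653571766579101696, .ofNat 0, .ofNat 0, .ofNat 0, .ofNat 26147649800884809610678860163348422174179328, .ofNat 1146860585827359244127762487468957815423827770867712, .ofNat 0, .ofNat 0, .ofNat 0, .ofNat 0⟩)
    (by decide +kernel)
theorem L03388 : Good (Phi V5.P V5.D (-1) (-1)) ⟨5, 29, 2, 2, 3, 2, 3, 0, 4, 0⟩ :=
  out_sound (S := T5.ds_mm) T5.ok_mm (w := 17) (j := 4) (by decide +kernel)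
theorem L03389 : Good (Phi V5.P V5.D (-1) (-1)) ⟨4, 14, 2, 2, 3, 2, 3, 1, 4, 0⟩ :=
  leafX_sound T5.ok_mm T5.Ymm.bz_eq (w := 227) (c := ⟨⟨.ofNat 5099, .ofNat 3201, .negSucc 1735, .ofNat 1090, .ofNat 77, .negSucc 7273⟩, ⟨.negSucc 3475, .negSucc 2866, .ofNat 1600, .negSucc 721, .negSucc 40, .ofNat 4744⟩, ⟨.negSucc 3881, .negSucc 807, .negSucc 356, .negSucc 672, .negSucc 220, .ofNat 6157⟩, ⟨.ofNat 6197, .ofNat 3121, .negSucc 1530, .ofNat 932, .ofNat 255, .negSucc 9980⟩, ⟨.negSucc 1396, .negSucc 786, .ofNat 735, .negSucc 948, .ofNat 212, .ofNat 523⟩, .ofNat 876, .ofNat 988, .ofNat 0, .ofNat 988, .ofNat 1750, .ofNat 0, .ofNat 128, .negSucc 471, .negSucc 1061, .ofNat 0, .ofNat 347, .ofNat 656, .ofNat 0, .ofNat 0, .ofNat 1257, .ofNat 997, .ofNat 0, .ofNat 0, .ofNat 90583755241971232828425952343031174660096, .ofNat 648101050042302077120824964811880233232853106688, .ofNat 0, .ofNat 0, .ofNat 1417405826215632500316364739405095196688384,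 .ofNat 7528372901959939669117079039681348854702111981568, .ofNat 0, .ofNat 0, .ofNat 4893139500351533335139563262898506689413120, .ofNat 39777818621749391354445294215576416107223691821056, .ofNat 0, .ofNat 0, .ofNat 0, .ofNat 84019039558898937573954566020957598869400919736320⟩)
    (by decide +kernel)
theorem L03390 : Good (Phi V5.P V5.D (-1) (-1)) ⟨4, 15, 2, 2, 3, 2, 2, 0, 4, 0⟩ :=
  out_sound (S := T5.ds_mm) T5.ok_mm (w := 49) (j := 3) (by decide +kernel)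
theorem L03391 : Good (Phi V5.P V5.D (-1) (-1)) ⟨3, 6, 2, 2, 3, 2, 2, 0, 4, 1⟩ :=
  leafX_sound T5.ok_mm T5.Ymm.bz_eq (w := 217) (c := ⟨⟨.ofNat 453, .negSucc 2607, .ofNat 1216, .ofNat 82, .negSucc 478, .negSucc 1976⟩, ⟨.negSucc 428, .ofNat 1589, .negSucc 296, .negSucc 43, .ofNat 306, .ofNat 1161⟩, ⟨.negSucc 202, .ofNat 2018, .negSucc 1016, .negSucc 469, .ofNat 337, .ofNat 1924⟩, ⟨.negSucc 624, .negSucc 2778, .ofNat 1404, .negSucc 163, .negSucc 504, .negSucc 2620⟩, ⟨.negSucc 1440, .ofNat 868, .negSucc 365, .negSucc 530, .ofNat 308, .ofNat 497⟩, .ofNat 745, .ofNat 823, .ofNat 0, .ofNat 823, .ofNat 1619, .ofNat 0, .ofNat 128, .negSucc 460, .negSucc 523, .ofNat 0, .ofNat 335, .ofNat 301, .ofNat 0, .ofNat 0, .ofNat 862, .ofNat 2030, .ofNat 0, .ofNat 0, .ofNat 25113073716612264158855350046701777846272, .ofNat 0, .ofNat 11740987669785845348469621964343720726757376, .ofNat 0, .ofNat 567170795529724671174025541748766344740864,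 .ofNat 0, .ofNat 0, .ofNat 0, .ofNat 804801619734380601640058593655424802619392, .ofNat 0, .ofNat 0, .ofNat 0, .ofNat 840497024443415959603898591480581390860288, .ofNat 0⟩)
    (by decide +kernel)
theorem L03392 : Good (Phi V5.P V5.D (-1) (-1)) ⟨3, 7, 2, 2, 3, 2, 2, 0, 4, 1⟩ :=
  leafX_sound T5.ok_mm T5.Ymm.bz_eq (w := 217) (c := ⟨⟨.negSucc 1987, .negSucc 2204, .ofNat 1074, .ofNat 263, .negSucc 596, .negSucc 2323⟩, ⟨.ofNat 1193, .ofNat 2398, .negSucc 665, .negSucc 179, .ofNat 390, .ofNat 1512⟩, ⟨.ofNat 1352, .ofNat 98, .ofNat 26, .negSucc 650, .ofNat 426, .ofNat 2204⟩, ⟨.negSucc 3000, .negSucc 1124, .ofNat 512, .ofNat 23, .negSucc 623, .negSucc 2831⟩, ⟨.negSucc 646, .ofNat 363, .negSucc 546, .negSucc 525, .ofNat 377, .ofNat 713⟩, .ofNat 885, .ofNat 1000, .ofNat 0, .ofNat 1000, .ofNat 1762, .ofNat 0, .ofNat 128, .negSucc 543, .negSucc 748, .ofNat 0, .ofNat 402, .ofNat 472, .ofNat 0, .ofNat 0, .ofNat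 1163, .ofNat 1643, .ofNat 86241853438610362202547016288383488512491520, .ofNat 0, .ofNat 21614978365947270016387159264314108411904, .ofNat 11832494277527071869786467637270943638589800448, .ofNat 0, .ofNat 0, .ofNat 400968128495201964671723017733909482831872, .ofNat 221418356737164305570728142368237926693682020352, .ofNat 0, .ofNat 0, .ofNat 1868624070671891162492064255286504648081408, .ofNat 1321030142525500795602395792902982550158101708800, .ofNat 0, .ofNat 0, .ofNat 778012880112305690611959772180510360469504, .ofNat 0⟩)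
    (by decide +kernel)
theorem L03393 : Good (Phi V5.P V5.D (-1) (-1)) ⟨2, 2, 2, 2, 3, 2, 2, 1, 3, 0⟩ :=
  out_sound (S := T5.ds_mm) T5.ok_mm (w := 37) (j := 3) (by decide +kernel)
theorem L03394 : Good (Phi V5.P V5.D (-1) (-1)) ⟨4, 12, 2, 2, 3, 2, 2, 1, 4, 0⟩ :=
  out_sound (S := T5.ds_mm) T5.ok_mm (w := 49) (j := 3) (by decide +kernel)
theorem L03395 : Good (Phi V5.P V5.D (-1) (-1)) ⟨4, 13, 2, 2, 3, 2, 2, 1, 4, 0⟩ :=
  leafX_sound T5.ok_mm T5.Ymm.bz_eq (w := 222) (c := ⟨⟨.ofNat 3880, .ofNat 424, .ofNat 846, .ofNat 1100, .negSucc 1376, .negSucc 7096⟩, ⟨.negSucc 2265, .negSucc 314, .negSucc 691, .negSucc 674, .ofNat 881, .ofNat 4192⟩, ⟨.negSucc 3417, .negSucc 836, .negSucc 96, .negSucc 783, .ofNat 990, .ofNat 6185⟩, ⟨.ofNat 5035, .ofNat 1133, .negSucc 46, .ofNat 1226, .negSucc 1885, .negSucc 10194⟩, ⟨.negSucc 1228, .ofNat 1047, .negSucc 1718, .negSucc 617, .ofNat 111, .ofNat 283⟩, .ofNat 1088,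 .ofNat 1374, .ofNat 0, .ofNat 1374, .ofNat 2546, .ofNat 0, .ofNat 128, .negSucc 330, .negSucc 1069, .ofNat 0, .ofNat 227, .ofNat 613, .ofNat 0, .ofNat 0, .ofNat 1235, .ofNat 376, .ofNat 0, .ofNat 0, .ofNat 700110986018269066067505143914740842496, .ofNat 0, .ofNat 0, .ofNat 0, .ofNat 80467083915720002004117135795134243274752, .ofNat 0, .ofNat 0, .ofNat 0, .ofNat 131696394526318352764006087080413040214016, .ofNat 0, .ofNat 0, .ofNat 0, .ofNat 164663470635685043955177492925254142525440, .ofNat 0⟩)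
    (by decide +kernel)
theorem L03396 : Good (Phi V5.P V5.D (-1) (-1)) ⟨5, 28, 4, 8, 3, 2, 2, 1, 4, 0⟩ :=
  out_sound (S := T5.ds_mm) T5.ok_mm (w := 59) (j := 3) (by decide +kernel)
theorem L03397 : Good (Phi V5.P V5.D (-1) (-1)) ⟨6, 56, 4, 9, 3, 2, 2, 1, 4, 0⟩ :=
  leafX_sound T5.ok_mm T5.Ymm.bz_eq (w := 238) (c := ⟨⟨.ofNat 5835, .ofNat 814, .negSucc 910, .ofNat 639, .negSucc 1209, .negSucc 8227⟩, ⟨.negSucc 3649, .negSucc 501, .ofNat 489, .negSucc 409, .ofNat 782, .ofNat 5230⟩, ⟨.negSucc 5233, .negSucc 283, .ofNat 486, .negSucc 281, .ofNat 810, .ofNat 7271⟩, ⟨.ofNat 7981, .ofNat 1081, .negSucc 1666, .ofNat 504, .negSucc 1548, .negSucc 11326⟩, ⟨.negSucc 872, .negSucc 254, .negSucc 190, .negSucc 607, .ofNat 268, .ofNat 745⟩, .ofNat 1333, .ofNat 1692, .ofNat 0, .ofNat 1692, .ofNat 2880, .ofNat 0, .ofNat 128, .negSucc 746, .negSucc 2494, .ofNat 0, .ofNat 524, .ofNat 1545, .ofNat 0, .ofNat 0, .ofNat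 2815, .ofNat 1191, .ofNat 0, .ofNat 0, .ofNat 0, .ofNat 0, .ofNat 0, .ofNat 0, .ofNat 557740293446577645769509382157391263432704, .ofNat 0, .ofNat 0, .ofNat 0, .ofNat 339610715092975767027183645801499911520256, .ofNat 0, .ofNat 0, .ofNat 0, .ofNat 2557221453202607207147738713715060112359424, .ofNat 0⟩)
    (by decide +kernel)
theorem L03398 : Good (Phi V5.P V5.D (-1) (-1)) ⟨6, 57, 4, 9, 3, 2, 2, 1, 4, 0⟩ :=
  out_sound (S := T5.ds_mm) T5.ok_mm (w := 65) (j := 3) (by decide +kernel)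
theorem L03399 : Good (Phi V5.P V5.D (-1) (-1)) ⟨5, 28, 4, 10, 3, 2, 3, 2, 5, 0⟩ :=
  leafX_sound T5.ok_mm T5.Ymm.bz_eq (w := 246) (c := ⟨⟨.ofNat 5969, .negSucc 41, .ofNat 925, .ofNat 416, .negSucc 2, .negSucc 5507⟩, ⟨.negSucc 3724, .negSucc 618, .negSucc 432, .negSucc 263, .ofNat 2, .ofNat 3616⟩, ⟨.negSucc 5619, .ofNat 265, .negSucc 934, .ofNat 230, .negSucc 215, .ofNat 4545⟩, ⟨.ofNat 7755, .ofNat 19, .ofNat 1113, .negSucc 33, .ofNat 162, .negSucc 7504⟩, ⟨.negSucc 1173, .ofNat 280, .negSucc 80, .negSucc 933, .ofNat 262, .ofNat 442⟩, .ofNat 2570, .ofNat 3504, .ofNat 0, .ofNat 3504, .ofNat 5521, .ofNat 0, .ofNat 128, .negSucc 529, .negSucc 3122, .ofNat 0, .ofNat 366, .ofNat 2036, .ofNat 0, .ofNat 0, .ofNat 3307, .ofNat 954, .ofNat 0, .ofNat 0, .ofNat 9214840822204785764231557434796762277609472, .ofNat 0, .ofNat 0, .ofNat 0, .ofNat 1921770394648280935524334702454557020398813184, .ofNat 0, .ofNat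 0, .ofNat 0, .ofNat 1232524848470148812894708268889983056768663552, .ofNat 0, .ofNat 0, .ofNat 0, .ofNat 0, .ofNat 0⟩)
    (by decide +kernel)
theorem L03400 : Good (Phi V5.P V5.D (-1) (-1)) ⟨5, 28, 4, 10, 3, 2, 3, 3, 5, 0⟩ :=
  leafX_sound T5.ok_mm T5.Ymm.bz_eq (w := 246) (c := ⟨⟨.ofNat 6971, .negSucc 729, .ofNat 1053, .ofNat 476, .negSucc 1495, .negSucc 7290⟩, ⟨.negSucc 4495, .ofNat 336, .negSucc 766, .negSucc 327, .ofNat 975, .ofNat 4802⟩, ⟨.negSucc 6585, .ofNat 206, .negSucc 647, .negSucc 52, .ofNat 1205, .ofNat 6443⟩, ⟨.ofNat 9192, .negSucc 666, .ofNat 1213, .ofNat 76, .negSucc 1959, .negSucc 9979⟩, ⟨.negSucc 1113, .ofNat 677, .negSucc 251, .negSucc 851, .ofNat 229, .ofNat 467⟩, .ofNat 2570, .ofNat 3504, .ofNat 0, .ofNat 3504, .ofNat 5521, .ofNat 0, .ofNat 128, .negSucc 587, .negSucc 3080, .ofNat 0, .ofNat 407, .ofNat 2007, .ofNat 0, .ofNat 0, .ofNat 3164, .ofNat 1255, .ofNat 0, .ofNat 0,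 .ofNat 0, .ofNat 0, .ofNat 0, .ofNat 0, .ofNat 1495720342237850089390555134495496436797407232, .ofNat 216477113561650699348002026763246076560175866081968128, .ofNat 0, .ofNat 0, .ofNat 1603942624412456775002402823000833574437912576, .ofNat 0, .ofNat 0, .ofNat 0, .ofNat 2524452862288246006092631710270220346568212480, .ofNat 2727365336118969142167648323639462443459244222750654464⟩)
    (by decide +kernel)
theorem L03401 : Good (Phi V5.P V5.D (-1) (-1)) ⟨6, 56, 4, 11, 3, 2, 2, 1, 5, 0⟩ :=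
  out_sound (S := T5.ds_mm) T5.ok_mm (w := 65) (j := 3) (by decide +kernel)
theorem L03402 : Good (Phi V5.P V5.D (-1) (-1)) ⟨7, 114, 5, 22, 3, 2, 2, 1, 5, 0⟩ :=
  out_sound (S := T5.ds_mm) T5.ok_mm (w := 73) (j := 3) (by decide +kernel)
theorem L03403 : Good (Phi V5.P V5.D (-1) (-1)) ⟨7, 115, 5, 22, 3, 2, 2, 1, 5, 0⟩ :=
  out_sound (S := T5.ds_mm) T5.ok_mm (w := 21) (j := 4) (by decide +kernel)
theorem L03404 : Good (Phi V5.P V5.D (-1) (-1)) ⟨6, 57, 5, 23, 3, 2, 2, 1, 5, 0⟩ :=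
  out_sound (S := T5.ds_mm) T5.ok_mm (w := 67) (j := 3) (by decide +kernel)
theorem L03405 : Good (Phi V5.P V5.D (-1) (-1)) ⟨5, 28, 3, 5, 3, 2, 2, 1, 5, 1⟩ :=
  leafX_sound T5.ok_mm T5.Ymm.bz_eq (w := 237) (c := ⟨⟨.negSucc 42, .ofNat 1123, .negSucc 1900, .ofNat 935, .negSucc 1673, .negSucc 2677⟩, ⟨.ofNat 99, .negSucc 1214, .ofNat 1943, .negSucc 609, .ofNat 1106, .ofNat 1750⟩, ⟨.negSucc 511, .ofNat 253, .ofNat 233, .negSucc 1072, .ofNat 1495, .ofNat 2473⟩, ⟨.negSucc 287, .ofNat 423, .negSucc 1248, .ofNat 925, .negSucc 2160, .negSucc 3459⟩, ⟨.negSucc 623, .negSucc 422, .ofNat 620, .negSucc 610, .ofNat 301, .ofNat 484⟩, .ofNat 2460, .ofNat 3359, .ofNat 0, .ofNat 3359, .ofNat 5340, .ofNat 0, .ofNat 128, .negSucc 786, .negSucc 1820, .ofNat 0, .ofNat 541, .ofNat 1179, .ofNat 0, .ofNat 0, .ofNat 2104, .ofNat 790, .ofNat 0, .ofNat 0, .ofNat 303482634057238208725659741834902650224640, .ofNat 0, .ofNat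 0, .ofNat 0, .ofNat 18995382675441111104896355850648283793850368, .ofNat 3677916177993110278650123076584751543021040232824832, .ofNat 0, .ofNat 0, .ofNat 38556010529971271048471380247827122313232384, .ofNat 8308958649488402133363638161523031395557321310470144, .ofNat 0, .ofNat 0, .ofNat 0, .ofNat 0⟩)
    (by decide +kernel)
theorem L03406 : Good (Phi V5.P V5.D (-1) (-1)) ⟨5, 29, 2, 2, 3, 2, 2, 1, 4, 0⟩ :=
  out_sound (S := T5.ds_mm) T5.ok_mm (w := 17) (j := 4) (by decide +kernel)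
theorem L03407 : Good (Phi V5.P V5.D (-1) (-1)) ⟨4, 15, 2, 2, 3, 2, 2, 1, 4, 0⟩ :=
  out_sound (S := T5.ds_mm) T5.ok_mm (w := 49) (j := 3) (by decide +kernel)
theorem L03408 : Good (Phi V5.P V5.D (-1) (-1)) ⟨2, 3, 2, 2, 3, 2, 2, 1, 4, 1⟩ :=
  leafX_sound T5.ok_mm T5.Ymm.bz_eq (w := 212) (c := ⟨⟨.negSucc 1564, .negSucc 2733, .ofNat 136, .negSucc 274, .negSucc 295, .negSucc 966⟩, ⟨.ofNat 589, .ofNat 2098, .ofNat 411, .ofNat 165, .ofNat 182, .ofNat 598⟩, ⟨.ofNat 1258, .ofNat 2272, .negSucc 130, .negSucc 122, .ofNat 293, .ofNat 1067⟩, ⟨.negSucc 2588, .negSucc 3694, .ofNat 557, .negSucc 514, .negSucc 431, .negSucc 1311⟩, ⟨.negSucc 531, .ofNat 583, .negSucc 109, .negSucc 182, .ofNat 115, .ofNat 234⟩, .ofNat 373, .ofNat 271, .ofNat 0, .ofNat 271, .ofNat 644, .ofNat 0, .ofNat 128, .negSucc 251, .negSucc 594, .ofNat 0, .ofNat 235, .ofNat 322, .ofNat 0, .ofNat 0, .ofNat 786, .ofNat 446, .ofNat 0, .ofNat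 0, .ofNat 14258449165963027927539590539360761544704, .ofNat 893453636549576758065483907826125466452885504, .ofNat 0, .ofNat 0, .ofNat 74982791420849937915565588149583803842560, .ofNat 0, .ofNat 0, .ofNat 0, .ofNat 172751241036681791616186462430178339454976, .ofNat 35730020748586509819441963708184017799886143488, .ofNat 0, .ofNat 0, .ofNat 232314841195807108128112466596792130076672, .ofNat 42675183080509100322446111733591180261841698816⟩)
    (by decide +kernel)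
theorem L03409 : Good (Phi V5.P V5.D (-1) (-1)) ⟨2, 2, 2, 2, 3, 3, 1, 0, 3, 0⟩ :=
  out_sound (S := T5.ds_mm) T5.ok_mm (w := 37) (j := 3) (by decide +kernel)
theorem L03410 : Good (Phi V5.P V5.D (-1) (-1)) ⟨4, 12, 2, 2, 3, 3, 2, 0, 4, 0⟩ :=
  out_sound (S := T5.ds_mm) T5.ok_mm (w := 49) (j := 3) (by decide +kernel)
theorem L03411 : Good (Phi V5.P V5.D (-1) (-1)) ⟨4, 13, 3, 4, 3, 3, 3, 0, 4, 0⟩ :=
  leafX_sound T5.ok_mm T5.Ymm.bz_eq (w := 229) (c := ⟨⟨.ofNat 2940, .ofNat 1097, .ofNat 435, .ofNat 2044, .ofNat 107, .negSucc 5208⟩, ⟨.negSucc 1596, .negSucc 888, .negSucc 309, .negSucc 1248, .negSucc 1, .ofNat 3052⟩, ⟨.negSucc 2032, .negSucc 524, .negSucc 262, .negSucc 386, .negSucc 437, .ofNat 2838⟩, ⟨.ofNat 3444, .ofNat 1080, .ofNat 306, .ofNat 2130, .ofNat 490, .negSucc 7403⟩, ⟨.negSucc 1920, .negSucc 540, .negSucc 45, .negSucc 1428, .ofNat 514, .ofNat 459⟩, .ofNat 750, .ofNat 831, .ofNat 0, .ofNat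 831, .ofNat 1631, .ofNat 0, .ofNat 128, .negSucc 597, .negSucc 482, .ofNat 0, .ofNat 400, .ofNat 279, .ofNat 0, .ofNat 0, .ofNat 637, .ofNat 3217, .ofNat 0, .ofNat 0, .ofNat 13755960971690275651920481725813834645504, .ofNat 0, .ofNat 216116935333838796260056130353200363494067666944, .ofNat 0, .ofNat 2874719564129817079830127608031720417263616, .ofNat 0, .ofNat 0, .ofNat 0, .ofNat 0, .ofNat 0, .ofNat 0, .ofNat 0, .ofNat 0, .ofNat 0⟩)
    (by decide +kernel)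
theorem L03412 : Good (Phi V5.P V5.D (-1) (-1)) ⟨4, 13, 3, 4, 3, 3, 3, 1, 4, 0⟩ :=
  leafX_sound T5.ok_mm T5.Ymm.bz_eq (w := 228) (c := ⟨⟨.ofNat 3366, .ofNat 1778, .negSucc 121, .ofNat 1516, .negSucc 197, .negSucc 5880⟩, ⟨.negSucc 1741, .negSucc 1439, .ofNat 91, .negSucc 940, .ofNat 132, .ofNat 3476⟩, ⟨.negSucc 2749, .negSucc 737, .negSucc 332, .negSucc 454, .negSucc 201, .ofNat 3930⟩, ⟨.ofNat 4361, .ofNat 1755, .negSucc 163, .ofNat 1583, .ofNat 33, .negSucc 8436⟩, ⟨.negSucc 1525, .negSucc 922, .ofNat 342, .negSucc 1034, .ofNat 563, .ofNat 490⟩, .ofNat 367, .ofNat 262, .ofNat 0, .ofNat 262, .ofNat 642, .ofNat 0, .ofNat 128, .negSucc 226, .negSucc 460, .ofNat 0, .ofNat 182, .ofNat 246, .ofNat 0, .ofNat 0, .ofNat 467, .ofNat 925, .ofNat 0, .ofNat 0, .ofNat 0, .ofNat 0, .ofNat 0, .ofNat 0, .ofNat 227216006599455679912304777936233643900928, .ofNat 0, .ofNat 0, .ofNat 0, .ofNat 4492988507720504286132094732335479781326848,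 .ofNat 0, .ofNat 0, .ofNat 0, .ofNat 0, .ofNat 0⟩)
    (by decide +kernel)
theorem L03413 : Good (Phi V5.P V5.D (-1) (-1)) ⟨4, 13, 3, 5, 3, 3, 2, 0, 4, 0⟩ :=
  out_sound (S := T5.ds_mm) T5.ok_mm (w := 51) (j := 3) (by decide +kernel)
theorem L03414 : Good (Phi V5.P V5.D (-1) (-1)) ⟨5, 28, 2, 2, 3, 3, 4, 0, 4, 0⟩ :=
  leafX_sound T5.ok_mm T5.Ymm.bz_eq (w := 233) (c := ⟨⟨.ofNat 4023, .ofNat 569, .ofNat 671, .ofNat 2365, .ofNat 237, .negSucc 5801⟩, ⟨.negSucc 2363, .negSucc 320, .negSucc 947, .negSucc 1553, .negSucc 158, .ofNat 3779⟩, ⟨.negSucc 2873, .negSucc 644, .ofNat 298, .negSucc 670, .negSucc 413, .ofNat 3318⟩, ⟨.ofNat 4653, .ofNat 707, .ofNat 106, .ofNat 2281, .ofNat 456, .negSucc 7935⟩, ⟨.negSucc 2410, .negSucc 203, .ofNat 79, .negSucc 1720, .ofNat 226, .ofNat 622⟩, .ofNat 387, .ofNat 292, .ofNat 0, .ofNat 292, .ofNat 644, .ofNat 0, .ofNat 128, .negSucc 383, .negSucc 355, .ofNat 0, .ofNat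 292, .ofNat 212, .ofNat 0, .ofNat 0, .ofNat 390, .ofNat 3432, .ofNat 0, .ofNat 0, .ofNat 72474244004613001434885831644089916850176, .ofNat 0, .ofNat 0, .ofNat 0, .ofNat 793533071775967682354443200293233517133824, .ofNat 0, .ofNat 0, .ofNat 0, .ofNat 2719417322303450527732497845891452995895296, .ofNat 1249881788965670331376677972504638986962360726454272, .ofNat 0, .ofNat 0, .ofNat 1362269567606373323071271490840576636485632, .ofNat 0⟩)
    (by decide +kernel)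
theorem L03415 : Good (Phi V5.P V5.D (-1) (-1)) ⟨5, 28, 2, 2, 3, 3, 4, 1, 4, 0⟩ :=
  leafX_sound T5.ok_mm T5.Ymm.bz_eq (w := 233) (c := ⟨⟨.ofNat 4377, .ofNat 843, .ofNat 402, .ofNat 2302, .ofNat 165, .negSucc 5936⟩, ⟨.negSucc 2985, .negSucc 1003, .ofNat 237, .negSucc 1493, .negSucc 116, .ofNat 3857⟩, ⟨.negSucc 4027, .negSucc 1991, .ofNat 2335, .negSucc 598, .negSucc 333, .ofNat 3568⟩, ⟨.ofNat 5572, .ofNat 1306, .negSucc 947, .ofNat 2289, .ofNat 326, .negSucc 8190⟩, ⟨.negSucc 2301, .negSucc 437, .ofNat 429, .negSucc 1586, .ofNat 210, .ofNat 511⟩, .ofNat 387, .ofNat 293, .ofNat 0, .ofNat 293, .ofNat 645, .ofNat 0, .ofNat 128, .negSucc 417, .negSucc 521, .ofNat 0, .ofNat 324, .ofNat 308, .ofNat 0, .ofNat 0, .ofNat 535, .ofNat 1458, .ofNat 0, .ofNat 0, .ofNat 161743907217715000151345683658887783251968, .ofNat 44990393814274786763482041634138058325115029946368, .ofNat 0, .ofNat 0, .ofNat 1985005772602319911448087480456160051462144,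 .ofNat 188022648615019991230645897291740100357730183675904, .ofNat 0, .ofNat 0, .ofNat 3341868290873671392786035228527443279085568, .ofNat 0, .ofNat 0, .ofNat 0, .ofNat 7041368258111072811633419020650604383961088, .ofNat 540094794380837983152954810358718447847334790299648⟩)
    (by decide +kernel)
theorem L03416 : Good (Phi V5.P V5.D (-1) (-1)) ⟨5, 28, 3, 4, 3, 3, 3, 1, 4, 0⟩ :=
  leafX_sound T5.ok_mm T5.Ymm.bz_eq (w := 236) (c := ⟨⟨.ofNat 2854, .negSucc 1149, .ofNat 2886, .ofNat 1638, .negSucc 239, .negSucc 6388⟩, ⟨.negSucc 1621, .ofNat 701, .negSucc 2057, .negSucc 1046, .ofNat 158, .ofNat 4049⟩, ⟨.negSucc 1749, .ofNat 1055, .negSucc 2535, .negSucc 429, .negSucc 198, .ofNat 4104⟩, ⟨.ofNat 3850, .negSucc 889, .ofNat 2742, .ofNat 1653, .ofNat 16, .negSucc 8791⟩, ⟨.negSucc 1083, .ofNat 1059, .negSucc 1358, .negSucc 1075, .ofNat 574, .ofNat 511⟩, .ofNat 2059, .ofNat 2815, .ofNat 0, .ofNat 2815, .ofNat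 4635, .ofNat 0, .ofNat 128, .negSucc 769, .negSucc 1725, .ofNat 0, .ofNat 511, .ofNat 1090, .ofNat 0, .ofNat 0, .ofNat 1911, .ofNat 1909, .ofNat 0, .ofNat 0, .ofNat 139763941353654126122487907026098355961856, .ofNat 0, .ofNat 0, .ofNat 0, .ofNat 28043058619012375807044385364996317889167360, .ofNat 0, .ofNat 0, .ofNat 0, .ofNat 10994318715817366778171427631952592474472448, .ofNat 0, .ofNat 0, .ofNat 0, .ofNat 6724745326201394014477300494813028478353408, .ofNat 0⟩)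
    (by decide +kernel)
theorem L03417 : Good (Phi V5.P V5.D (-1) (-1)) ⟨6, 56, 4, 10, 3, 3, 3, 1, 4, 0⟩ :=
  leafX_sound T5.ok_mm T5.Ymm.bz_eq (w := 244) (c := ⟨⟨.ofNat 6037, .negSucc 1873, .ofNat 3121, .ofNat 1737, .negSucc 152, .negSucc 6448⟩, ⟨.negSucc 3872, .ofNat 1170, .negSucc 2178, .negSucc 1142, .ofNat 107, .ofNat 4214⟩, ⟨.negSucc 4153, .ofNat 732, .negSucc 1568, .negSucc 386, .negSucc 426, .ofNat 4215⟩, ⟨.ofNat 6729, .negSucc 1610, .ofNat 2841, .ofNat 1761, .ofNat 165, .negSucc 8818⟩, ⟨.negSucc 2744, .ofNat 1226, .negSucc 1561, .negSucc 1044, .ofNat 607, .ofNat 442⟩, .ofNat 2366, .ofNat 3231, .ofNat 0, .ofNat 3231, .ofNat 5171, .ofNat 0, .ofNat 128, .negSucc 1141, .negSucc 2106, .ofNat 0, .ofNat 768, .ofNat 1363, .ofNat 0, .ofNat 0, .ofNat 2280, .ofNat 3225, .ofNat 0, .ofNat 0, .ofNat 394219160832761653382296533448488459960320, .ofNat 0, .ofNat 0, .ofNat 0, .ofNat 0, .ofNat 0, .ofNat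 0, .ofNat 0, .ofNat 44827738144052836108361425726121591940579328, .ofNat 0, .ofNat 0, .ofNat 0, .ofNat 24035316666468483781562468197889898167926784, .ofNat 0⟩)
    (by decide +kernel)
theorem L03418 : Good (Phi V5.P V5.D (-1) (-1)) ⟨6, 57, 4, 10, 3, 3, 3, 1, 5, 0⟩ :=
  leafX_sound T5.ok_mm T5.Ymm.bz_eq (w := 245) (c := ⟨⟨.ofNat 5609, .ofNat 520, .ofNat 440, .ofNat 1374, .ofNat 144, .negSucc 2912⟩, ⟨.negSucc 3838, .negSucc 764, .negSucc 57, .negSucc 913, .negSucc 94, .ofNat 1944⟩, ⟨.negSucc 3966, .negSucc 182, .negSucc 580, .negSucc 102, .negSucc 676, .ofNat 1752⟩, ⟨.ofNat 6374, .ofNat 394, .ofNat 690, .ofNat 1241, .ofNat 523, .negSucc 4185⟩, ⟨.negSucc 2260, .negSucc 9, .negSucc 99, .negSucc 994, .ofNat 536, .negSucc 64⟩, .ofNat 395, .ofNat 303, .ofNat 0, .ofNat 303, .ofNat 647, .ofNat 0, .ofNat 128, .negSucc 476, .negSucc 1755, .ofNat 0, .ofNat 382, .ofNat 1033, .ofNat 0, .ofNat 0, .ofNat 1617,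 .ofNat 2039, .ofNat 0, .ofNat 0, .ofNat 1484410673169216970069561262202338049785856, .ofNat 0, .ofNat 0, .ofNat 0, .ofNat 28542259477386350769116670054274138986512384, .ofNat 100491291346902064196051341172916107095892585925836800, .ofNat 0, .ofNat 0, .ofNat 30505838325079437922171959592929420428443648, .ofNat 0, .ofNat 0, .ofNat 0, .ofNat 0, .ofNat 0⟩)
    (by decide +kernel)

end Crest.Agent.R097C5.N5mm
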