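import Crest.Agent.R097.KP7
import Crest.Agent.R097.T5Ymm

/-!
# Row 97, box cover in dimension n = 5 (generated)
-/

set_option autoImplicit false
set_option Elab.async false
set_option maxHeartbeats 0
set_option maxRecDepth 100000

open Crest.Agent.R097 Crest.Agent.R097.KA


namespace Crest.Agent.R097C5.N5mm

theorem L03419 : Good (Phi V5.P V5.D (-1) (-1)) ⟨6, 57, 4, 10, 3, 3, 3, 1, 5, 1⟩ :=
  leafX_sound T5.ok_mm T5.Ymm.bz_eq (w := 251) (c := ⟨⟨.ofNat 1963, .ofNat 45, .ofNat 677, .ofNat 2391, .negSucc 463, .negSucc 3957⟩, ⟨.negSucc 1548, .negSucc 510, .ofNat 26, .negSucc 1600, .ofNat 313, .ofNat 2643⟩, ⟨.negSucc 1971, .negSucc 331, .ofNat 117, .negSucc 1395, .ofNat 90, .ofNat 2765⟩, ⟨.ofNat 1765, .ofNat 290, .ofNat 312, .ofNat 2436, .negSucc 298, .negSucc 5110⟩, ⟨.negSucc 1907, .negSucc 187, .negSucc 180, .negSucc 1372, .ofNat 531, .ofNat 671⟩, .ofNat 2708, .ofNat 3694, .ofNat 0,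 .ofNat 3694, .ofNat 5774, .ofNat 0, .ofNat 128, .negSucc 3078, .negSucc 3317, .ofNat 0, .ofNat 2098, .ofNat 2191, .ofNat 0, .ofNat 0, .ofNat 3526, .ofNat 1554, .ofNat 0, .ofNat 0, .ofNat 0, .ofNat 0, .ofNat 0, .ofNat 0, .ofNat 1252978472011753410138449400022909039392325632, .ofNat 6361979521613637797088677752457206391874289903763193856, .ofNat 0, .ofNat 0, .ofNat 0, .ofNat 0, .ofNat 0, .ofNat 0, .ofNat 0, .ofNat 0⟩)
    (by decide +kernel)
theorem L03420 : Good (Phi V5.P V5.D (-1) (-1)) ⟨6, 56, 4, 11, 3, 3, 3, 1, 4, 0⟩ :=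
  out_sound (S := T5.ds_mm) T5.ok_mm (w := 65) (j := 3) (by decide +kernel)
theorem L03421 : Good (Phi V5.P V5.D (-1) (-1)) ⟨7, 114, 5, 22, 3, 3, 3, 1, 4, 0⟩ :=
  out_sound (S := T5.ds_mm) T5.ok_mm (w := 73) (j := 3) (by decide +kernel)
theorem L03422 : Good (Phi V5.P V5.D (-1) (-1)) ⟨7, 115, 5, 22, 3, 3, 3, 1, 4, 0⟩ :=
  out_sound (S := T5.ds_mm) T5.ok_mm (w := 21) (j := 4) (by decide +kernel)
theorem L03423 : Good (Phi V5.P V5.D (-1) (-1)) ⟨6, 57, 5, 23, 3, 3, 3, 1, 4, 0⟩ :=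
  out_sound (S := T5.ds_mm) T5.ok_mm (w := 67) (j := 3) (by decide +kernel)
theorem L03424 : Good (Phi V5.P V5.D (-1) (-1)) ⟨5, 29, 2, 2, 3, 3, 2, 0, 4, 0⟩ :=
  out_sound (S := T5.ds_mm) T5.ok_mm (w := 17) (j := 4) (by decide +kernel)
theorem L03425 : Good (Phi V5.P V5.D (-1) (-1)) ⟨4, 15, 2, 2, 3, 3, 2, 0, 4, 0⟩ :=
  out_sound (S := T5.ds_mm) T5.ok_mm (w := 49) (j := 3) (by decide +kernel)
theorem L03426 : Good (Phi V5.P V5.D (-1) (-1)) ⟨4, 12, 2, 2, 3, 3, 2, 1, 4, 0⟩ :=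
  out_sound (S := T5.ds_mm) T5.ok_mm (w := 49) (j := 3) (by decide +kernel)
theorem L03427 : Good (Phi V5.P V5.D (-1) (-1)) ⟨4, 13, 2, 2, 3, 3, 2, 1, 5, 0⟩ :=
  leafX_sound T5.ok_mm T5.Ymm.bz_eq (w := 227) (c := ⟨⟨.ofNat 3571, .ofNat 2126, .negSucc 177, .ofNat 938, .negSucc 1302, .negSucc 3258⟩, ⟨.negSucc 1883, .negSucc 1554, .negSucc 236, .negSucc 543, .ofNat 808, .ofNat 1905⟩, ⟨.negSucc 2712, .negSucc 2136, .ofNat 859, .negSucc 328, .ofNat 481, .ofNat 2382⟩, ⟨.ofNat 4786, .ofNat 2380, .negSucc 781, .ofNat 1105, .negSucc 1521, .negSucc 4784⟩, ⟨.negSucc 1282, .negSucc 665, .ofNat 42, .negSucc 540, .ofNat 665, .ofNat 50⟩, .ofNat 753, .ofNat 835, .ofNat 0, .ofNat 835, .ofNat 1636, .ofNat 0, .ofNat 128, .negSucc 316, .negSucc 1307, .ofNat 0, .ofNat 221, .ofNat 738, .ofNat 0, .ofNat 0, .ofNat 1353, .ofNat 612, .ofNat 0, .ofNat 0, .ofNat 96279144793081325770331932633164159123456, .ofNat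 0, .ofNat 0, .ofNat 0, .ofNat 0, .ofNat 0, .ofNat 0, .ofNat 0, .ofNat 3958567163463513158076129690447726350696448, .ofNat 0, .ofNat 0, .ofNat 0, .ofNat 0, .ofNat 0⟩)
    (by decide +kernel)
theorem L03428 : Good (Phi V5.P V5.D (-1) (-1)) ⟨4, 13, 2, 2, 3, 3, 2, 1, 5, 1⟩ :=
  leafX_sound T5.ok_mm T5.Ymm.bz_eq (w := 225) (c := ⟨⟨.ofNat 595, .ofNat 1058, .negSucc 867, .ofNat 1541, .negSucc 1504, .negSucc 3038⟩, ⟨.negSucc 167, .negSucc 1022, .ofNat 1076, .negSucc 947, .ofNat 894, .ofNat 1790⟩, ⟨.negSucc 412, .negSucc 1228, .ofNat 889, .negSucc 1277, .ofNat 1090, .ofNat 2373⟩, ⟨.ofNat 293, .ofNat 1049, .negSucc 839, .ofNat 1847, .negSucc 1785, .negSucc 4224⟩, ⟨.negSucc 1472, .negSucc 197, .ofNat 311, .negSucc 667, .ofNat 736, .ofNat 443⟩, .ofNat 753, .ofNat 832, .ofNat 0, .ofNat 832, .ofNat 1621, .ofNat 0, .ofNat 128, .negSucc 294, .negSucc 573, .ofNat 0, .ofNat 207, .ofNat 328, .ofNat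 0, .ofNat 0, .ofNat 615, .ofNat 406, .ofNat 0, .ofNat 0, .ofNat 0, .ofNat 0, .ofNat 0, .ofNat 0, .ofNat 0, .ofNat 0, .ofNat 0, .ofNat 0, .ofNat 1743951270984288644713206677754524771287040, .ofNat 0, .ofNat 0, .ofNat 0, .ofNat 583935216317309353286081781748889154486272, .ofNat 0⟩)
    (by decide +kernel)
theorem L03429 : Good (Phi V5.P V5.D (-1) (-1)) ⟨6, 56, 4, 8, 3, 3, 2, 1, 5, 0⟩ :=
  out_sound (S := T5.ds_mm) T5.ok_mm (w := 65) (j := 3) (by decide +kernel)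
theorem L03430 : Good (Phi V5.P V5.D (-1) (-1)) ⟨6, 56, 4, 9, 3, 3, 2, 1, 5, 0⟩ :=
  leafX_sound T5.ok_mm T5.Ymm.bz_eq (w := 243) (c := ⟨⟨.ofNat 5946, .ofNat 156, .ofNat 18, .ofNat 907, .negSucc 1192, .negSucc 3577⟩, ⟨.negSucc 3736, .negSucc 233, .negSucc 47, .negSucc 582, .ofNat 774, .ofNat 2279⟩, ⟨.negSucc 4953, .negSucc 66, .ofNat 143, .negSucc 89, .ofNat 205, .ofNat 2629⟩, ⟨.ofNat 7575, .ofNat 287, .negSucc 313, .ofNat 896, .negSucc 1225, .negSucc 5225⟩, ⟨.negSucc 1753, .ofNat 122, .negSucc 206, .negSucc 636, .ofNat 799, .negSucc 47⟩, .ofNat 774, .ofNat 830, .ofNat 0, .ofNat 830, .ofNat 1513, .ofNat 0, .ofNat 128, .negSucc 731, .negSucc 4391, .ofNat 0, .ofNat 539, .ofNat 2661, .ofNat 0, .ofNat 0, .ofNat 4285, .ofNat 2078, .ofNat 0, .ofNat 0, .ofNat 0, .ofNat 0, .ofNat 0, .ofNat 0, .ofNat 4480011266561453722582903709895368523120640, .ofNat 0, .ofNat 0, .ofNat 0, .ofNat 0, .ofNat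 0, .ofNat 0, .ofNat 0, .ofNat 0, .ofNat 0⟩)
    (by decide +kernel)
theorem L03431 : Good (Phi V5.P V5.D (-1) (-1)) ⟨6, 57, 3, 4, 3, 3, 2, 1, 5, 0⟩ :=
  out_sound (S := T5.ds_mm) T5.ok_mm (w := 63) (j := 3) (by decide +kernel)
theorem L03432 : Good (Phi V5.P V5.D (-1) (-1)) ⟨5, 28, 3, 4, 3, 3, 2, 1, 5, 1⟩ :=
  leafX_sound T5.ok_mm T5.Ymm.bz_eq (w := 237) (c := ⟨⟨.ofNat 1636, .ofNat 390, .negSucc 5, .ofNat 1947, .negSucc 1820, .negSucc 3588⟩, ⟨.negSucc 1174, .negSucc 348, .ofNat 145, .negSucc 1247, .ofNat 1169, .ofNat 2281⟩, ⟨.negSucc 1569, .negSucc 303, .ofNat 70, .negSucc 1472, .ofNat 1287, .ofNat 2799⟩, ⟨.ofNat 1391, .ofNat 319, .negSucc 50, .ofNat 2175, .negSucc 2106, .negSucc 4732⟩, ⟨.negSucc 1552, .negSucc 232, .negSucc 23, .negSucc 939, .ofNat 775, .ofNat 615⟩, .ofNat 2049, .ofNat 2797, .ofNat 0, .ofNat 2797, .ofNat 4605, .ofNat 0, .ofNat 128, .negSucc 1230, .negSucc 1786, .ofNat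 0, .ofNat 823, .ofNat 1126, .ofNat 0, .ofNat 0, .ofNat 1874, .ofNat 1586, .ofNat 0, .ofNat 0, .ofNat 0, .ofNat 0, .ofNat 0, .ofNat 0, .ofNat 38761111555677026173979816630248077141213184, .ofNat 0, .ofNat 0, .ofNat 0, .ofNat 0, .ofNat 0, .ofNat 0, .ofNat 0, .ofNat 6003937076274630477719172613768448185466880, .ofNat 0⟩)
    (by decide +kernel)
theorem L03433 : Good (Phi V5.P V5.D (-1) (-1)) ⟨6, 56, 4, 10, 3, 3, 2, 1, 6, 0⟩ :=
  leafX_sound T5.ok_mm T5.Ymm.bz_eq (w := 255) (c := ⟨⟨.ofNat 6200, .ofNat 397, .ofNat 403, .ofNat 351, .negSucc 1024, .negSucc 1695⟩, ⟨.negSucc 3942, .negSucc 380, .negSucc 346, .negSucc 232, .ofNat 672, .ofNat 1103⟩, ⟨.negSucc 5149, .negSucc 204, .negSucc 275, .ofNat 429, .negSucc 45, .ofNat 1272⟩, ⟨.ofNat 7590, .ofNat 408, .ofNat 412, .ofNat 17, .negSucc 605, .negSucc 2263⟩, ⟨.negSucc 1961, .negSucc 92, .negSucc 9, .negSucc 724, .ofNat 1298, .ofNat 189⟩, .ofNat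 7249, .ofNat 10680, .ofNat 0, .ofNat 10680, .ofNat 16555, .ofNat 0, .ofNat 128, .negSucc 1114, .negSucc 5158, .ofNat 0, .ofNat 740, .ofNat 3355, .ofNat 0, .ofNat 0, .ofNat 5227, .ofNat 4038, .ofNat 0, .ofNat 0, .ofNat 0, .ofNat 0, .ofNat 0, .ofNat 0, .ofNat 3037651409309887372117826185032124269152174080, .ofNat 0, .ofNat 0, .ofNat 0, .ofNat 385466174011043714933075183689225606300434432, .ofNat 0, .ofNat 0, .ofNat 0, .ofNat 0, .ofNat 0⟩)
    (by decide +kernel)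
theorem L03434 : Good (Phi V5.P V5.D (-1) (-1)) ⟨6, 56, 4, 10, 3, 3, 2, 1, 6, 1⟩ :=
  leafX_sound T5.ok_mm T5.Ymm.bz_eq (w := 251) (c := ⟨⟨.ofNat 3846, .ofNat 295, .ofNat 399, .ofNat 1668, .negSucc 1744, .negSucc 1876⟩, ⟨.negSucc 2385, .negSucc 423, .negSucc 141, .negSucc 1091, .ofNat 1150, .ofNat 1232⟩, ⟨.negSucc 2995, .negSucc 712, .ofNat 283, .negSucc 808, .ofNat 738, .ofNat 1329⟩, ⟨.ofNat 4342, .ofNat 237, .ofNat 506, .ofNat 1845, .negSucc 1898, .negSucc 2596⟩, ⟨.negSucc 1938, .ofNat 129, .negSucc 212, .negSucc 789, .ofNat 880, .ofNat 84⟩, .ofNat 2357, .ofNat 3220, .ofNat 0, .ofNat 3220, .ofNat 5157, .ofNat 0, .ofNat 128, .negSucc 1085, .negSucc 4146, .ofNat 0, .ofNat 735, .ofNat 2671, .ofNat 0, .ofNat 0, .ofNat 4179, .ofNat 2923, .ofNat 0, .ofNat 0, .ofNat 0, .ofNat 0, .ofNat 0, .ofNat 0, .ofNat 2391600013387551717014678257188303353558335488, .ofNat 0, .ofNat 0, .ofNat 0, .ofNat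 989279745566599598917974449025847675825684480, .ofNat 0, .ofNat 0, .ofNat 0, .ofNat 0, .ofNat 0⟩)
    (by decide +kernel)
theorem L03435 : Good (Phi V5.P V5.D (-1) (-1)) ⟨7, 114, 5, 20, 3, 3, 3, 2, 5, 0⟩ :=
  leafX_sound T5.ok_mm T5.Ymm.bz_eq (w := 266) (c := ⟨⟨.ofNat 6842, .negSucc 2, .negSucc 175, .ofNat 502, .negSucc 372, .negSucc 3474⟩, ⟨.negSucc 4137, .ofNat 2, .negSucc 279, .negSucc 333, .ofNat 250, .ofNat 2298⟩, ⟨.negSucc 4612, .ofNat 2, .negSucc 732, .ofNat 291, .negSucc 225, .ofNat 2413⟩, ⟨.ofNat 7948, .negSucc 2, .ofNat 37, .ofNat 363, .negSucc 226, .negSucc 4709⟩, ⟨.negSucc 2089, .ofNat 1, .negSucc 12, .negSucc 518, .ofNat 454, .ofNat 266⟩, .ofNat 6369, .ofNat 9221, .ofNat 0, .ofNat 9221, .ofNat 14136, .ofNat 0, .ofNat 128, .negSucc 6675, .negSucc 33783, .ofNat 0, .ofNat 4481, .ofNat 22283, .ofNat 0, .ofNat 0, .ofNat 34188, .ofNat 42205, .ofNat 0, .ofNat 0, .ofNat 0, .ofNat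 0, .ofNat 0, .ofNat 0, .ofNat 2577283616736530360579841296261457504075190894592, .ofNat 0, .ofNat 0, .ofNat 0, .ofNat 4213979081766660675333495166495245616389831000064, .ofNat 0, .ofNat 0, .ofNat 0, .ofNat 40014915803533916051857912721584169201839374336, .ofNat 0⟩)
    (by decide +kernel)
theorem L03436 : Good (Phi V5.P V5.D (-1) (-1)) ⟨7, 114, 6, 42, 3, 3, 3, 2, 5, 0⟩ :=
  leafX_sound T5.ok_mm T5.Ymm.bz_eq (w := 266) (c := ⟨⟨.ofNat 6900, .negSucc 492, .ofNat 310, .ofNat 426, .negSucc 505, .negSucc 3522⟩, ⟨.negSucc 4576, .ofNat 270, .negSucc 226, .negSucc 285, .ofNat 340, .ofNat 2347⟩, ⟨.negSucc 5606, .ofNat 170, .negSucc 68, .ofNat 334, .negSucc 44, .ofNat 2485⟩, ⟨.ofNat 8180, .negSucc 148, .ofNat 86, .ofNat 364, .negSucc 323, .negSucc 4705⟩, ⟨.negSucc 2318, .ofNat 86, .negSucc 23, .negSucc 341, .ofNat 575, .ofNat 345⟩, .ofNat 7207, .ofNat 10431, .ofNat 0, .ofNat 10431, .ofNat 15876,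 .ofNat 0, .ofNat 128, .negSucc 2321, .negSucc 10895, .ofNat 0, .ofNat 1564, .ofNat 7232, .ofNat 0, .ofNat 0, .ofNat 11003, .ofNat 11713, .ofNat 0, .ofNat 0, .ofNat 0, .ofNat 0, .ofNat 0, .ofNat 0, .ofNat 14764379164231273325846890833341805538446409728, .ofNat 1443743059135364618772026254612368098546094941953748631552, .ofNat 0, .ofNat 0, .ofNat 43444291101824632555156277544824175204423958528, .ofNat 0, .ofNat 0, .ofNat 0, .ofNat 0, .ofNat 0⟩)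
    (by decide +kernel)
theorem L03437 : Good (Phi V5.P V5.D (-1) (-1)) ⟨8, 228, 6, 43, 3, 3, 3, 2, 5, 0⟩ :=
  out_sound (S := T5.ds_mm) T5.ok_mm (w := 81) (j := 3) (by decide +kernel)
theorem L03438 : Good (Phi V5.P V5.D (-1) (-1)) ⟨8, 229, 6, 43, 3, 3, 3, 2, 5, 0⟩ :=
  out_sound (S := T5.ds_mm) T5.ok_mm (w := 23) (j := 4) (by decide +kernel)
theorem L03439 : Good (Phi V5.P V5.D (-1) (-1)) ⟨7, 114, 4, 10, 3, 3, 3, 3, 5, 0⟩ :=
  leafX_sound T5.ok_mm T5.Ymm.bz_eq (w := 252) (c := ⟨⟨.ofNat 6915, .negSucc 72, .negSucc 46, .ofNat 70, .negSucc 1059, .negSucc 4459⟩, ⟨.negSucc 4460, .ofNat 82, .negSucc 226, .negSucc 47, .ofNat 711, .ofNat 2978⟩, ⟨.negSucc 6184, .ofNat 27, .ofNat 345, .ofNat 473, .ofNat 493, .ofNat 3455⟩, ⟨.ofNat 8589, .negSucc 189, .negSucc 117, .negSucc 100, .negSucc 1230, .negSucc 6175⟩, ⟨.negSucc 1755, .negSucc 24, .ofNat 6, .negSucc 313, .ofNat 395, .ofNat 160⟩, .ofNat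 895, .ofNat 996, .ofNat 0, .ofNat 996, .ofNat 1710, .ofNat 0, .ofNat 128, .negSucc 818, .negSucc 5931, .ofNat 0, .ofNat 606, .ofNat 3760, .ofNat 0, .ofNat 0, .ofNat 5632, .ofNat 2291, .ofNat 0, .ofNat 0, .ofNat 0, .ofNat 0, .ofNat 0, .ofNat 0, .ofNat 50444247031401848835384545075845762996240384, .ofNat 6766089226789185801709217015340170739695398224824107008, .ofNat 0, .ofNat 0, .ofNat 90292121346645230500709198326926506029219840, .ofNat 0, .ofNat 0, .ofNat 0, .ofNat 0, .ofNat 0⟩)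
    (by decide +kernel)
theorem L03440 : Good (Phi V5.P V5.D (-1) (-1)) ⟨7, 115, 4, 10, 3, 3, 2, 1, 5, 0⟩ :=
  out_sound (S := T5.ds_mm) T5.ok_mm (w := 21) (j := 4) (by decide +kernel)
theorem L03441 : Good (Phi V5.P V5.D (-1) (-1)) ⟨5, 28, 4, 10, 3, 3, 2, 1, 5, 1⟩ :=
  leafX_sound T5.ok_mm T5.Ymm.bz_eq (w := 237) (c := ⟨⟨.ofNat 1754, .ofNat 182, .ofNat 403, .ofNat 2067, .negSucc 2114, .negSucc 3741⟩, ⟨.negSucc 1156, .negSucc 180, .negSucc 198, .negSucc 1357, .ofNat 1393, .ofNat 2466⟩, ⟨.negSucc 1857, .ofNat 1004, .negSucc 880, .negSucc 1441, .ofNat 1440, .ofNat 2901⟩, ⟨.ofNat 1543, .negSucc 128, .ofNat 622, .ofNat 2285, .negSucc 2411, .negSucc 4923⟩, ⟨.negSucc 1586, .negSucc 105, .negSucc 117, .negSucc 973, .ofNat 905, .ofNat 583⟩, .ofNat 905, .ofNat 1025, .ofNat 0, .ofNat 1025, .ofNat 1785, .ofNat 0, .ofNat 128, .negSucc 676, .negSucc 1230, .ofNat 0, .ofNat 488, .ofNat 774, .ofNat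 0, .ofNat 0, .ofNat 1238, .ofNat 1637, .ofNat 0, .ofNat 0, .ofNat 0, .ofNat 0, .ofNat 0, .ofNat 0, .ofNat 26164499671426024959271565611073311873171456, .ofNat 0, .ofNat 0, .ofNat 0, .ofNat 123129129613382233418414442222902160169893888, .ofNat 0, .ofNat 0, .ofNat 0, .ofNat 56766819767636808767538539701433005208764416, .ofNat 46137134490554047031313991185175583186943970237218816⟩)
    (by decide +kernel)
theorem L03442 : Good (Phi V5.P V5.D (-1) (-1)) ⟨6, 56, 4, 11, 3, 3, 2, 1, 4, 0⟩ :=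
  out_sound (S := T5.ds_mm) T5.ok_mm (w := 65) (j := 3) (by decide +kernel)
theorem L03443 : Good (Phi V5.P V5.D (-1) (-1)) ⟨7, 114, 5, 22, 3, 3, 2, 1, 4, 0⟩ :=
  out_sound (S := T5.ds_mm) T5.ok_mm (w := 73) (j := 3) (by decide +kernel)
theorem L03444 : Good (Phi V5.P V5.D (-1) (-1)) ⟨7, 115, 5, 22, 3, 3, 2, 1, 4, 0⟩ :=
  out_sound (S := T5.ds_mm) T5.ok_mm (w := 21) (j := 4) (by decide +kernel)
theorem L03445 : Good (Phi V5.P V5.D (-1) (-1)) ⟨6, 57, 5, 23, 3, 3, 2, 1, 4, 0⟩ :=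
  out_sound (S := T5.ds_mm) T5.ok_mm (w := 67) (j := 3) (by decide +kernel)
theorem L03446 : Good (Phi V5.P V5.D (-1) (-1)) ⟨5, 29, 2, 2, 3, 3, 2, 1, 4, 0⟩ :=
  out_sound (S := T5.ds_mm) T5.ok_mm (w := 17) (j := 4) (by decide +kernel)
theorem L03447 : Good (Phi V5.P V5.D (-1) (-1)) ⟨4, 15, 2, 2, 3, 3, 2, 1, 4, 0⟩ :=
  out_sound (S := T5.ds_mm) T5.ok_mm (w := 49) (j := 3) (by decide +kernel)
theorem L03448 : Good (Phi V5.P V5.D (-1) (-1)) ⟨4, 12, 2, 2, 3, 3, 1, 0, 4, 1⟩ :=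
  out_sound (S := T5.ds_mm) T5.ok_mm (w := 49) (j := 3) (by decide +kernel)
theorem L03449 : Good (Phi V5.P V5.D (-1) (-1)) ⟨4, 13, 2, 2, 3, 3, 2, 0, 4, 1⟩ :=
  leafX_sound T5.ok_mm T5.Ymm.bz_eq (w := 220) (c := ⟨⟨.negSucc 764, .negSucc 260, .ofNat 95, .ofNat 86, .negSucc 357, .negSucc 2919⟩, ⟨.ofNat 260, .ofNat 284, .ofNat 224, .negSucc 78, .ofNat 227, .ofNat 1742⟩, ⟨.ofNat 413, .ofNat 357, .negSucc 411, .negSucc 442, .ofNat 260, .ofNat 2382⟩, ⟨.negSucc 2110, .negSucc 304, .ofNat 117, .negSucc 282, .negSucc 230, .negSucc 3782⟩, ⟨.negSucc 1526, .negSucc 449, .ofNat 572, .negSucc 647, .ofNat 547, .ofNat 1075⟩, .ofNat 405, .ofNat 332, .ofNat 0, .ofNat 332, .ofNat 779, .ofNat 0, .ofNat 128, .negSucc 360, .negSucc 373, .ofNat 0, .ofNat 264, .ofNat 209, .ofNat 0, .ofNat 0, .ofNat 479, .ofNat 1058, .ofNat 865517949374507683826064332962180400947396608, .ofNat 0, .ofNat 242315311693994257433260158678063906816,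 .ofNat 0, .ofNat 0, .ofNat 0, .ofNat 12502288787054888444996762826841377472512, .ofNat 0, .ofNat 1480433060542685679800864486173408124066594816, .ofNat 0, .ofNat 20064961861174571141339968739351220715520, .ofNat 0, .ofNat 0, .ofNat 0, .ofNat 27147578681662598836747772420788148240384, .ofNat 0⟩)
    (by decide +kernel)
theorem L03450 : Good (Phi V5.P V5.D (-1) (-1)) ⟨4, 13, 2, 2, 3, 3, 2, 1, 4, 1⟩ :=
  leafX_sound T5.ok_mm T5.Ymm.bz_eq (w := 219) (c := ⟨⟨.negSucc 1677, .negSucc 1090, .ofNat 567, .ofNat 23, .negSucc 196, .negSucc 1691⟩, ⟨.ofNat 779, .ofNat 749, .ofNat 201, .negSucc 28, .ofNat 124, .ofNat 1017⟩, ⟨.ofNat 948, .ofNat 851, .negSucc 449, .negSucc 330, .ofNat 307, .ofNat 1649⟩, ⟨.negSucc 3087, .negSucc 1086, .ofNat 573, .negSucc 211, .negSucc 219, .negSucc 2327⟩, ⟨.negSucc 819, .ofNat 93, .negSucc 145, .negSucc 395, .ofNat 255, .ofNat 476⟩, .ofNat 365, .ofNat 259, .ofNat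 0, .ofNat 259, .ofNat 641, .ofNat 0, .ofNat 128, .negSucc 243, .negSucc 503, .ofNat 0, .ofNat 207, .ofNat 270, .ofNat 0, .ofNat 0, .ofNat 568, .ofNat 399, .ofNat 0, .ofNat 0, .ofNat 0, .ofNat 0, .ofNat 0, .ofNat 0, .ofNat 11914904978508746531672258480682968285184, .ofNat 0, .ofNat 0, .ofNat 0, .ofNat 13418926480280302180656294738990416789504, .ofNat 0, .ofNat 0, .ofNat 0, .ofNat 30460351229020409854635696677924290691072, .ofNat 0⟩)
    (by decide +kernel)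
theorem L03451 : Good (Phi V5.P V5.D (-1) (-1)) ⟨6, 56, 4, 8, 3, 3, 2, 0, 4, 1⟩ :=
  out_sound (S := T5.ds_mm) T5.ok_mm (w := 65) (j := 3) (by decide +kernel)
theorem L03452 : Good (Phi V5.P V5.D (-1) (-1)) ⟨6, 56, 4, 9, 3, 3, 2, 0, 4, 1⟩ :=
  leafX_sound T5.ok_mm T5.Ymm.bz_eq (w := 239) (c := ⟨⟨.negSucc 921, .negSucc 103, .ofNat 275, .ofNat 214, .negSucc 372, .negSucc 3546⟩, ⟨.ofNat 446, .ofNat 51, .negSucc 28, .negSucc 150, .ofNat 244, .ofNat 2267⟩, ⟨.ofNat 672, .ofNat 127, .negSucc 273, .negSucc 530, .ofNat 306, .ofNat 2755⟩, ⟨.negSucc 2464, .negSucc 6, .ofNat 237, .negSucc 94, .negSucc 250, .negSucc 4142⟩, ⟨.negSucc 1849, .ofNat 162, .negSucc 216, .negSucc 608, .ofNat 450, .ofNat 1470⟩, .ofNat 2070, .ofNat 2829, .ofNat 0, .ofNat 2829, .ofNat 4653, .ofNat 0, .ofNat 128, .negSucc 1445, .negSucc 1121, .ofNat 0, .ofNat 962, .ofNat 715, .ofNat 0, .ofNat 0, .ofNat 1538, .ofNat 4070,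 .ofNat 51678974800351039200690509618797544440680230682624, .ofNat 0, .ofNat 0, .ofNat 0, .ofNat 0, .ofNat 0, .ofNat 784466280571507965711987484933969340792832, .ofNat 0, .ofNat 0, .ofNat 0, .ofNat 0, .ofNat 0, .ofNat 265638838897667607796777777557730787135772161998848, .ofNat 0, .ofNat 1503906179837393488303596341753569181958144, .ofNat 0⟩)
    (by decide +kernel)
theorem L03453 : Good (Phi V5.P V5.D (-1) (-1)) ⟨6, 56, 3, 4, 3, 3, 2, 1, 4, 1⟩ :=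
  leafX_sound T5.ok_mm T5.Ymm.bz_eq (w := 232) (c := ⟨⟨.negSucc 2387, .ofNat 127, .negSucc 29, .negSucc 244, .negSucc 386, .negSucc 1699⟩, ⟨.ofNat 1248, .negSucc 61, .ofNat 287, .ofNat 150, .ofNat 256, .ofNat 1085⟩, ⟨.ofNat 1836, .negSucc 61, .negSucc 339, .negSucc 166, .ofNat 468, .ofNat 1651⟩, ⟨.negSucc 3797, .ofNat 233, .negSucc 111, .negSucc 517, .negSucc 425, .negSucc 2187⟩, ⟨.negSucc 713, .negSucc 99, .negSucc 40, .negSucc 295, .ofNat 257, .ofNat 448⟩, .ofNat 706, .ofNat 723, .ofNat 0, .ofNat 723, .ofNat 1349, .ofNat 0, .ofNat 128, .negSucc 628, .negSucc 902, .ofNat 0, .ofNat 474, .ofNat 552, .ofNat 0, .ofNat 0, .ofNat 1048, .ofNat 1082, .ofNat 0, .ofNat 0, .ofNat 0, .ofNat 0, .ofNat 0, .ofNat 0, .ofNat 6892856366391483641872315882160672210944, .ofNat 0, .ofNat 0, .ofNat 0, .ofNat 0, .ofNat 0, .ofNat 0, .ofNat 0, .ofNat 9358395274051984696497518201716531527680, .ofNat 0⟩)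
    (by decide +kernel)
theorem L03454 : Good (Phi V5.P V5.D (-1) (-1)) ⟨6, 57, 3, 4, 3, 3, 1, 0, 4, 1⟩ :=
  out_sound (S := T5.ds_mm) T5.ok_mm (w := 63) (j := 3) (by decide +kernel)
theorem L03455 : Good (Phi V5.P V5.D (-1) (-1)) ⟨5, 28, 4, 10, 3, 3, 3, 0, 4, 1⟩ :=
  leafX_sound T5.ok_mm T5.Ymm.bz_eq (w := 236) (c := ⟨⟨.negSucc 883, .ofNat 1436, .negSucc 1082, .ofNat 129, .negSucc 323, .negSucc 3396⟩, ⟨.ofNat 556, .negSucc 1052, .ofNat 893, .negSucc 89, .ofNat 204, .ofNat 2241⟩, ⟨.ofNat 416, .negSucc 29, .ofNat 149, .negSucc 464, .ofNat 168, .ofNat 2678⟩, ⟨.negSucc 2385, .ofNat 1385, .negSucc 1105, .negSucc 302, .negSucc 124, .negSucc 4055⟩, ⟨.negSucc 1811, .negSucc 932, .ofNat 595, .negSucc 765, .ofNat 559, .ofNat 1219⟩, .ofNat 906, .ofNat 1027, .ofNat 0, .ofNat 1027, .ofNat 1786, .ofNat 0, .ofNat 128, .negSucc 1066, .negSucc 713, .ofNat 0, .ofNat 756, .ofNat 462, .ofNat 0, .ofNat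 0, .ofNat 974, .ofNat 5392, .ofNat 54513988660067849849960439785439044016813216104448, .ofNat 0, .ofNat 566164020016140954249812467117819896528896, .ofNat 0, .ofNat 0, .ofNat 0, .ofNat 9722867567446673612427870423737240754585600, .ofNat 0, .ofNat 0, .ofNat 0, .ofNat 29318820208914009514878978426404967616086016, .ofNat 0, .ofNat 22299126388560444320358273470446744602462111399936, .ofNat 0, .ofNat 39066352708258339734932678122104188693381120, .ofNat 0⟩)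
    (by decide +kernel)
theorem L03456 : Good (Phi V5.P V5.D (-1) (-1)) ⟨5, 28, 4, 10, 3, 3, 3, 1, 4, 1⟩ :=
  leafX_sound T5.ok_mm T5.Ymm.bz_eq (w := 240) (c := ⟨⟨.negSucc 316, .negSucc 3609, .ofNat 1975, .ofNat 113, .negSucc 284, .negSucc 3421⟩, ⟨.ofNat 128, .ofNat 2430, .negSucc 1182, .negSucc 75, .ofNat 196, .ofNat 2254⟩, ⟨.ofNat 526, .ofNat 603, .negSucc 294, .negSucc 491, .ofNat 280, .ofNat 2774⟩, ⟨.negSucc 2072, .negSucc 2186, .ofNat 1255, .negSucc 301, .negSucc 220, .negSucc 4012⟩, ⟨.negSucc 1799, .ofNat 1394, .negSucc 726, .negSucc 724, .ofNat 302, .ofNat 1242⟩, .ofNat 2476, .ofNat 3380, .ofNat 0, .ofNat 3380, .ofNat 5365, .ofNat 0, .ofNat 128, .negSucc 1731, .negSucc 1232, .ofNat 0, .ofNat 1175, .ofNat 806, .ofNat 0, .ofNat 0, .ofNat 1574, .ofNat 3146, .ofNat 0, .ofNat 0, .ofNat 1215314529028918148499467336891886100021248, .ofNat 0, .ofNat 0, .ofNat 0, .ofNat 78648063842091210513369948409132964854628352,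 .ofNat 0, .ofNat 0, .ofNat 0, .ofNat 149978694766673648120923029343927853073301504, .ofNat 0, .ofNat 0, .ofNat 0, .ofNat 38375475002065880025149378979659636765884416, .ofNat 21425434004940417846269458784912956924718125781352448⟩)
    (by decide +kernel)
theorem L03457 : Good (Phi V5.P V5.D (-1) (-1)) ⟨6, 56, 4, 10, 3, 3, 2, 1, 4, 1⟩ :=
  leafX_sound T5.ok_mm T5.Ymm.bz_eq (w := 240) (c := ⟨⟨.negSucc 2636, .ofNat 805, .negSucc 962, .ofNat 11, .negSucc 452, .negSucc 2144⟩, ⟨.ofNat 1661, .negSucc 512, .ofNat 783, .negSucc 8, .ofNat 297, .ofNat 1405⟩, ⟨.ofNat 1754, .negSucc 650, .ofNat 800, .negSucc 404, .ofNat 508, .ofNat 1977⟩, ⟨.negSucc 4124, .ofNat 818, .negSucc 1006, .negSucc 252, .negSucc 415, .negSucc 2670⟩, ⟨.negSucc 579, .negSucc 510, .ofNat 419, .negSucc 429, .ofNat 363, .ofNat 568⟩, .ofNat 2370, .ofNat 3237, .ofNat 0, .ofNat 3237, .ofNat 5179, .ofNat 0, .ofNat 128, .negSucc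 2109, .negSucc 2341, .ofNat 0, .ofNat 1431, .ofNat 1516, .ofNat 0, .ofNat 0, .ofNat 2843, .ofNat 2132, .ofNat 0, .ofNat 0, .ofNat 7316388924321270775538535822285189677056, .ofNat 0, .ofNat 0, .ofNat 0, .ofNat 788436455777645915227803039460614643646464, .ofNat 0, .ofNat 0, .ofNat 0, .ofNat 0, .ofNat 0, .ofNat 0, .ofNat 0, .ofNat 1148000080569689823303492264893115376074752, .ofNat 0⟩)
    (by decide +kernel)
theorem L03458 : Good (Phi V5.P V5.D (-1) (-1)) ⟨6, 57, 4, 10, 3, 3, 2, 1, 4, 1⟩ :=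
  leafX_sound T5.ok_mm T5.Ymm.bz_eq (w := 239) (c := ⟨⟨.negSucc 2259, .ofNat 921, .negSucc 427, .negSucc 61, .negSucc 390, .negSucc 2034⟩, ⟨.ofNat 1432, .negSucc 538, .ofNat 383, .ofNat 41, .ofNat 265, .ofNat 1356⟩, ⟨.ofNat 1690, .negSucc 180, .negSucc 214, .negSucc 329, .ofNat 474, .ofNat 1913⟩, ⟨.negSucc 4047, .ofNat 580, .ofNat 80, .negSucc 363, .negSucc 400, .negSucc 2428⟩, ⟨.negSucc 855, .negSucc 277, .ofNat 45, .negSucc 417, .ofNat 246, .ofNat 684⟩, .ofNat 2055, .ofNat 2676, .ofNat 0, .ofNat 2676, .ofNat 4181, .ofNat 0, .ofNat 128, .negSucc 1495, .negSucc 2045, .ofNat 0, .ofNat 1055, .ofNat 1364, .ofNat 0, .ofNat 0, .ofNat 2327, .ofNat 2289, .ofNat 0, .ofNat 0, .ofNat 0, .ofNat 0, .ofNat 0, .ofNat 0, .ofNat 508380397136858912526348670024612977836032, .ofNat 0, .ofNat 0, .ofNat 0, .ofNat 2607066119690400438920819589562279290470400, .ofNat 0, .ofNat 0, .ofNat 0, .ofNat 528216501061436068316943373570338906439680,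 .ofNat 0⟩)
    (by decide +kernel)
theorem L03459 : Good (Phi V5.P V5.D (-1) (-1)) ⟨6, 56, 4, 11, 3, 3, 1, 0, 4, 1⟩ :=
  out_sound (S := T5.ds_mm) T5.ok_mm (w := 65) (j := 3) (by decide +kernel)
theorem L03460 : Good (Phi V5.P V5.D (-1) (-1)) ⟨7, 114, 5, 22, 3, 3, 1, 0, 4, 1⟩ :=
  out_sound (S := T5.ds_mm) T5.ok_mm (w := 73) (j := 3) (by decide +kernel)
theorem L03461 : Good (Phi V5.P V5.D (-1) (-1)) ⟨7, 115, 5, 22, 3, 3, 1, 0, 4, 1⟩ :=
  out_sound (S := T5.ds_mm) T5.ok_mm (w := 21) (j := 4) (by decide +kernel)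
theorem L03462 : Good (Phi V5.P V5.D (-1) (-1)) ⟨6, 57, 5, 23, 3, 3, 1, 0, 4, 1⟩ :=
  out_sound (S := T5.ds_mm) T5.ok_mm (w := 67) (j := 3) (by decide +kernel)
theorem L03463 : Good (Phi V5.P V5.D (-1) (-1)) ⟨5, 29, 2, 2, 3, 3, 1, 0, 4, 1⟩ :=
  out_sound (S := T5.ds_mm) T5.ok_mm (w := 17) (j := 4) (by decide +kernel)
theorem L03464 : Good (Phi V5.P V5.D (-1) (-1)) ⟨4, 15, 2, 2, 3, 3, 1, 0, 4, 1⟩ :=
  out_sound (S := T5.ds_mm) T5.ok_mm (w := 49) (j := 3) (by decide +kernel)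
theorem L03465 : Good (Phi V5.P V5.D (-1) (-1)) ⟨2, 2, 2, 3, 1, 0, 1, 0, 3, 0⟩ :=
  out_sound (S := T5.ds_mm) T5.ok_mm (w := 37) (j := 3) (by decide +kernel)
theorem L03466 : Good (Phi V5.P V5.D (-1) (-1)) ⟨3, 6, 2, 3, 1, 0, 1, 0, 3, 0⟩ :=
  out_sound (S := T5.ds_mm) T5.ok_mm (w := 43) (j := 3) (by decide +kernel)
theorem L03467 : Good (Phi V5.P V5.D (-1) (-1)) ⟨5, 28, 3, 6, 1, 0, 1, 0, 3, 0⟩ :=
  out_sound (S := T5.ds_mm) T5.ok_mm (w := 57) (j := 3) (by decide +kernel)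
theorem L03468 : Good (Phi V5.P V5.D (-1) (-1)) ⟨5, 29, 3, 6, 1, 0, 1, 0, 3, 0⟩ :=
  out_sound (S := T5.ds_mm) T5.ok_mm (w := 17) (j := 4) (by decide +kernel)
theorem L03469 : Good (Phi V5.P V5.D (-1) (-1)) ⟨4, 14, 3, 7, 1, 0, 1, 0, 3, 0⟩ :=
  out_sound (S := T5.ds_mm) T5.ok_mm (w := 51) (j := 3) (by decide +kernel)
theorem L03470 : Good (Phi V5.P V5.D (-1) (-1)) ⟨4, 15, 2, 3, 1, 0, 1, 0, 3, 0⟩ :=
  out_sound (S := T5.ds_mm) T5.ok_mm (w := 15) (j := 4) (by decide +kernel)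
theorem L03471 : Good (Phi V5.P V5.D (-1) (-1)) ⟨2, 2, 1, 1, 1, 0, 1, 0, 3, 1⟩ :=
  out_sound (S := T5.ds_mm) T5.ok_mm (w := 35) (j := 3) (by decide +kernel)
theorem L03472 : Good (Phi V5.P V5.D (-1) (-1)) ⟨4, 12, 2, 2, 1, 0, 1, 0, 3, 1⟩ :=
  out_sound (S := T5.ds_mm) T5.ok_mm (w := 49) (j := 3) (by decide +kernel)
theorem L03473 : Good (Phi V5.P V5.D (-1) (-1)) ⟨4, 13, 3, 4, 2, 0, 1, 0, 3, 1⟩ :=
  leafX_sound T5.ok_mm T5.Ymm.bz_eq (w := 202) (c := ⟨⟨.negSucc 3400, .negSucc 306, .negSucc 5, .negSucc 218, .ofNat 335, .ofNat 601⟩, ⟨.ofNat 1815, .ofNat 345, .ofNat 174, .ofNat 131, .negSucc 199, .negSucc 356⟩, ⟨.ofNat 3592, .ofNat 466, .negSucc 129, .negSucc 95, .negSucc 692, .negSucc 338⟩, ⟨.negSucc 5213, .negSucc 116, .negSucc 11, .negSucc 363, .ofNat 494, .ofNat 880⟩, ⟨.ofNat 34, .negSucc 107, .ofNat 70, .negSucc 76, .ofNat 22, .ofNat 12⟩, .ofNat 1107, .ofNat 1402, .ofNat 0, .ofNat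 1402, .ofNat 2587, .ofNat 0, .ofNat 128, .negSucc 517, .negSucc 343, .ofNat 0, .ofNat 367, .ofNat 198, .ofNat 0, .ofNat 0, .ofNat 1022, .ofNat 2932, .ofNat 0, .ofNat 0, .ofNat 0, .ofNat 0, .ofNat 0, .ofNat 0, .ofNat 91434629070838424924573200835149824, .ofNat 0, .ofNat 0, .ofNat 0, .ofNat 0, .ofNat 0, .ofNat 0, .ofNat 0, .ofNat 0, .ofNat 0⟩)
    (by decide +kernel)
theorem L03474 : Good (Phi V5.P V5.D (-1) (-1)) ⟨4, 13, 3, 4, 2, 1, 2, 0, 3, 1⟩ :=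
  leafX_sound T5.ok_mm T5.Ymm.bz_eq (w := 206) (c := ⟨⟨.negSucc 3827, .negSucc 179, .negSucc 77, .negSucc 255, .negSucc 58, .ofNat 942⟩, ⟨.ofNat 2066, .ofNat 214, .ofNat 300, .ofNat 136, .ofNat 43, .negSucc 553⟩, ⟨.ofNat 3399, .ofNat 317, .negSucc 100, .negSucc 578, .ofNat 8, .negSucc 306⟩, ⟨.negSucc 6057, .ofNat 126, .negSucc 187, .negSucc 629, .ofNat 74, .ofNat 1394⟩, ⟨.negSucc 375, .ofNat 65, .negSucc 112, .negSucc 420, .ofNat 277, .ofNat 45⟩, .ofNat 1110, .ofNat 1411, .ofNat 0, .ofNat 1411, .ofNat 2610, .ofNat 0, .ofNat 128, .negSucc 649, .negSucc 350, .ofNat 0, .ofNat 444, .ofNat 209, .ofNat 0, .ofNat 0, .ofNat 961, .ofNat 4626, .ofNat 240438717569113410353590212085466737410048, .ofNat 0, .ofNat 15276007168834846039767061631074304, .ofNat 0, .ofNat 0, .ofNat 0, .ofNat 823211145285815106114160542317805568, .ofNat 0, .ofNat 0, .ofNat 0, .ofNat 2947369440440926499091965582312996864,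 .ofNat 0, .ofNat 6789375136773279369706166344371819281121280, .ofNat 0, .ofNat 268941371488247573492603423498960896, .ofNat 0⟩)
    (by decide +kernel)
theorem L03475 : Good (Phi V5.P V5.D (-1) (-1)) ⟨4, 13, 3, 4, 2, 1, 2, 1, 3, 1⟩ :=
  leafX_sound T5.ok_mm T5.Ymm.bz_eq (w := 205) (c := ⟨⟨.negSucc 3827, .negSucc 607, .ofNat 163, .negSucc 175, .ofNat 275, .ofNat 1093⟩, ⟨.ofNat 2082, .ofNat 440, .ofNat 166, .ofNat 94, .negSucc 159, .negSucc 633⟩, ⟨.ofNat 3413, .ofNat 686, .negSucc 334, .negSucc 564, .negSucc 401, .negSucc 617⟩, ⟨.negSucc 5888, .negSucc 541, .ofNat 197, .negSucc 518, .ofNat 441, .ofNat 1615⟩, ⟨.negSucc 88, .ofNat 89, .negSucc 94, .negSucc 422, .ofNat 53, .negSucc 23⟩, .ofNat 378, .ofNat 285, .ofNat 0, .ofNat 285, .ofNat 704, .ofNat 0, .ofNat 128, .negSucc 218, .negSucc 242, .ofNat 0, .ofNat 193, .ofNat 132, .ofNat 0, .ofNat 0, .ofNat 504, .ofNat 1048, .ofNat 0, .ofNat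 0, .ofNat 2541930228300300438083449397444608, .ofNat 0, .ofNat 0, .ofNat 0, .ofNat 41255663596269379541596565007237120, .ofNat 0, .ofNat 0, .ofNat 0, .ofNat 32550453002554112885791906368323584, .ofNat 0, .ofNat 0, .ofNat 0, .ofNat 140584590311792548272540747472830464, .ofNat 0⟩)
    (by decide +kernel)
theorem L03476 : Good (Phi V5.P V5.D (-1) (-1)) ⟨4, 13, 3, 5, 1, 0, 1, 0, 3, 1⟩ :=
  out_sound (S := T5.ds_mm) T5.ok_mm (w := 51) (j := 3) (by decide +kernel)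
theorem L03477 : Good (Phi V5.P V5.D (-1) (-1)) ⟨3, 6, 2, 3, 1, 0, 1, 0, 3, 1⟩ :=
  out_sound (S := T5.ds_mm) T5.ok_mm (w := 43) (j := 3) (by decide +kernel)
theorem L03478 : Good (Phi V5.P V5.D (-1) (-1)) ⟨5, 28, 2, 2, 2, 0, 2, 0, 4, 2⟩ :=
  leafX_sound T5.ok_mm T5.Ymm.bz_eq (w := 213) (c := ⟨⟨.negSucc 3235, .negSucc 204, .negSucc 151, .negSucc 402, .negSucc 151, .ofNat 153⟩, ⟨.ofNat 1792, .ofNat 160, .ofNat 645, .ofNat 259, .ofNat 101, .negSucc 99⟩, ⟨.ofNat 3633, .ofNat 308, .negSucc 137, .negSucc 15, .negSucc 44, .ofNat 32⟩, ⟨.negSucc 4686, .negSucc 172, .negSucc 89, .negSucc 617, .negSucc 198, .ofNat 205⟩, ⟨.negSucc 0, .negSucc 37, .ofNat 28, .negSucc 72, .ofNat 21, .negSucc 17⟩, .ofNat 2294, .ofNat 3133, .ofNat 0, .ofNat 3133, .ofNat 5044, .ofNat 0, .ofNat 128, .negSucc 957, .negSucc 568, .ofNat 0, .ofNat 665, .ofNat 365, .ofNat 0, .ofNat 0, .ofNat 1431, .ofNat 1600, .ofNat 0,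 .ofNat 0, .ofNat 0, .ofNat 0, .ofNat 0, .ofNat 0, .ofNat 28199040147818588370693559252030586880, .ofNat 0, .ofNat 0, .ofNat 0, .ofNat 0, .ofNat 0, .ofNat 0, .ofNat 0, .ofNat 0, .ofNat 0⟩)
    (by decide +kernel)
theorem L03479 : Good (Phi V5.P V5.D (-1) (-1)) ⟨5, 28, 2, 2, 2, 1, 2, 0, 4, 2⟩ :=
  leafX_sound T5.ok_mm T5.Ymm.bz_eq (w := 212) (c := ⟨⟨.negSucc 3590, .negSucc 78, .negSucc 299, .negSucc 609, .negSucc 234, .ofNat 251⟩, ⟨.ofNat 1999, .ofNat 118, .ofNat 753, .ofNat 394, .ofNat 153, .negSucc 161⟩, ⟨.ofNat 3321, .ofNat 49, .ofNat 177, .negSucc 464, .ofNat 162, .ofNat 113⟩, ⟨.negSucc 5389, .ofNat 26, .negSucc 314, .negSucc 1176, .negSucc 165, .ofNat 433⟩, ⟨.negSucc 386, .negSucc 77, .ofNat 167, .negSucc 472, .ofNat 262, .ofNat 118⟩, .ofNat 894, .ofNat 1010, .ofNat 0, .ofNat 1010, .ofNat 1771, .ofNat 0, .ofNat 128, .negSucc 513, .negSucc 400, .ofNat 0, .ofNat 378, .ofNat 258,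 .ofNat 0, .ofNat 0, .ofNat 792, .ofNat 4595, .ofNat 6923605381161336008597325560655936409829376, .ofNat 0, .ofNat 39723424067029024067938359414095872, .ofNat 8096873116512847666509479614782158669873152, .ofNat 0, .ofNat 0, .ofNat 1563530997638184594910187254523625472, .ofNat 0, .ofNat 0, .ofNat 0, .ofNat 322099595602429339297627887848390656, .ofNat 1166152404185488887633159219444890766801895424, .ofNat 19722393498601782282306767810287795995410432, .ofNat 0, .ofNat 5782596557853152475593878824625897472, .ofNat 0⟩)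
    (by decide +kernel)
theorem L03480 : Good (Phi V5.P V5.D (-1) (-1)) ⟨5, 28, 2, 2, 1, 0, 2, 1, 4, 2⟩ :=
  leafX_sound T5.ok_mm T5.Ymm.bz_eq (w := 197) (c := ⟨⟨.negSucc 4016, .negSucc 499, .ofNat 587, .negSucc 787, .ofNat 224, .ofNat 510⟩, ⟨.ofNat 2302, .ofNat 372, .ofNat 162, .ofNat 509, .negSucc 146, .negSucc 339⟩, ⟨.ofNat 4340, .ofNat 612, .negSucc 1056, .negSucc 529, .negSucc 299, .negSucc 301⟩, ⟨.negSucc 5555, .negSucc 379, .ofNat 493, .negSucc 1427, .ofNat 333, .ofNat 726⟩, ⟨.ofNat 211, .ofNat 99, .negSucc 264, .negSucc 475, .ofNat 12, .negSucc 7⟩, .ofNat 880, .ofNat 993, .ofNat 0, .ofNat 993, .ofNat 1755, .ofNat 0, .ofNat 128, .negSucc 669, .negSucc 461, .ofNat 0, .ofNat 503, .ofNat 289, .ofNat 0, .ofNat 0, .ofNat 917, .ofNat 1079, .ofNat 0, .ofNat 0, .ofNat 1899130125880677449083545190400, .ofNat 0, .ofNat 0, .ofNat 0, .ofNat 122485144183508349768242789613568, .ofNat 0,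 .ofNat 0, .ofNat 0, .ofNat 0, .ofNat 0, .ofNat 0, .ofNat 0, .ofNat 151561983251824720661300979433472, .ofNat 0⟩)
    (by decide +kernel)
theorem L03481 : Good (Phi V5.P V5.D (-1) (-1)) ⟨5, 29, 2, 2, 1, 0, 1, 0, 4, 2⟩ :=
  out_sound (S := T5.ds_mm) T5.ok_mm (w := 17) (j := 4) (by decide +kernel)
theorem L03482 : Good (Phi V5.P V5.D (-1) (-1)) ⟨5, 28, 3, 6, 1, 0, 1, 0, 4, 2⟩ :=
  out_sound (S := T5.ds_mm) T5.ok_mm (w := 57) (j := 3) (by decide +kernel)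
theorem L03483 : Good (Phi V5.P V5.D (-1) (-1)) ⟨5, 29, 3, 6, 1, 0, 1, 0, 4, 2⟩ :=
  out_sound (S := T5.ds_mm) T5.ok_mm (w := 17) (j := 4) (by decide +kernel)
theorem L03484 : Good (Phi V5.P V5.D (-1) (-1)) ⟨4, 14, 3, 7, 1, 0, 1, 0, 4, 2⟩ :=
  out_sound (S := T5.ds_mm) T5.ok_mm (w := 51) (j := 3) (by decide +kernel)
theorem L03485 : Good (Phi V5.P V5.D (-1) (-1)) ⟨4, 14, 2, 2, 1, 0, 2, 0, 4, 3⟩ :=
  leafX_sound T5.ok_mm T5.Ymm.bz_eq (w := 194) (c := ⟨⟨.negSucc 3522, .negSucc 64, .negSucc 259, .negSucc 484, .ofNat 167, .ofNat 551⟩, ⟨.ofNat 2022, .ofNat 215, .ofNat 592, .ofNat 309, .negSucc 105, .negSucc 354⟩, ⟨.ofNat 4007, .ofNat 695, .negSucc 396, .negSucc 686, .negSucc 115, .negSucc 336⟩, ⟨.negSucc 5242, .ofNat 49, .negSucc 100, .negSucc 1037, .ofNat 410, .ofNat 749⟩, ⟨.negSucc 150, .ofNat 82, .ofNat 25, .negSucc 539, .ofNat 262, .negSucc 61⟩, .ofNat 885, .ofNat 1000, .ofNat 0, .ofNat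 1000, .ofNat 1761, .ofNat 0, .ofNat 128, .negSucc 386, .negSucc 294, .ofNat 0, .ofNat 294, .ofNat 187, .ofNat 0, .ofNat 0, .ofNat 966, .ofNat 3937, .ofNat 66026048780318569364720811172754882560, .ofNat 0, .ofNat 15286713262790099750431850758144, .ofNat 0, .ofNat 0, .ofNat 0, .ofNat 405679706696031875881755366916096, .ofNat 0, .ofNat 0, .ofNat 0, .ofNat 321809634571586152023662289485824, .ofNat 14875313160297258212305320518230002892800, .ofNat 0, .ofNat 0, .ofNat 0, .ofNat 0⟩)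
    (by decide +kernel)
theorem L03486 : Good (Phi V5.P V5.D (-1) (-1)) ⟨4, 14, 2, 2, 1, 0, 2, 1, 4, 3⟩ :=
  leafX_sound T5.ok_mm T5.Ymm.bz_eq (w := 194) (c := ⟨⟨.negSucc 3466, .negSucc 223, .negSucc 89, .negSucc 449, .ofNat 269, .ofNat 550⟩, ⟨.ofNat 2020, .ofNat 342, .ofNat 419, .ofNat 285, .negSucc 170, .negSucc 355⟩, ⟨.ofNat 3751, .ofNat 293, .ofNat 91, .negSucc 723, .negSucc 430, .negSucc 370⟩, ⟨.negSucc 4972, .ofNat 51, .negSucc 55, .negSucc 951, .ofNat 425, .ofNat 781⟩, ⟨.negSucc 22, .ofNat 50, .ofNat 138, .negSucc 482, .ofNat 66, .negSucc 8⟩, .ofNat 883, .ofNat 997, .ofNat 0, .ofNat 997, .ofNat 1758, .ofNat 0, .ofNat 128, .negSucc 480, .negSucc 362, .ofNat 0, .ofNat 365, .ofNat 229, .ofNat 0, .ofNat 0, .ofNat 1070, .ofNat 2300, .ofNat 0, .ofNat 0, .ofNat 0, .ofNat 0, .ofNat 0, .ofNat 0, .ofNat 967055519831010131190423752802304, .ofNat 695636549101590568584043218298919190528,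 .ofNat 0, .ofNat 0, .ofNat 643479270404770929592458901716992, .ofNat 24479328254440216513480066276675127607296, .ofNat 0, .ofNat 0, .ofNat 0, .ofNat 0⟩)
    (by decide +kernel)
theorem L03487 : Good (Phi V5.P V5.D (-1) (-1)) ⟨5, 28, 3, 6, 1, 0, 1, 0, 4, 3⟩ :=
  out_sound (S := T5.ds_mm) T5.ok_mm (w := 57) (j := 3) (by decide +kernel)
theorem L03488 : Good (Phi V5.P V5.D (-1) (-1)) ⟨5, 29, 3, 6, 1, 0, 1, 0, 4, 3⟩ :=
  out_sound (S := T5.ds_mm) T5.ok_mm (w := 17) (j := 4) (by decide +kernel)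
theorem L03489 : Good (Phi V5.P V5.D (-1) (-1)) ⟨4, 14, 3, 7, 1, 0, 1, 0, 4, 3⟩ :=
  out_sound (S := T5.ds_mm) T5.ok_mm (w := 51) (j := 3) (by decide +kernel)
theorem L03490 : Good (Phi V5.P V5.D (-1) (-1)) ⟨4, 15, 1, 1, 1, 0, 1, 0, 3, 1⟩ :=
  out_sound (S := T5.ds_mm) T5.ok_mm (w := 15) (j := 4) (by decide +kernel)
theorem L03491 : Good (Phi V5.P V5.D (-1) (-1)) ⟨2, 2, 1, 1, 1, 0, 1, 0, 2, 1⟩ :=
  out_sound (S := T5.ds_mm) T5.ok_mm (w := 35) (j := 3) (by decide +kernel)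
theorem L03492 : Good (Phi V5.P V5.D (-1) (-1)) ⟨3, 6, 2, 2, 1, 0, 2, 0, 4, 4⟩ :=
  leafX_sound T5.ok_mm T5.Ymm.bz_eq (w := 190) (c := ⟨⟨.negSucc 2470, .negSucc 664, .ofNat 114, .negSucc 326, .ofNat 91, .ofNat 595⟩, ⟨.ofNat 1158, .ofNat 618, .ofNat 349, .ofNat 182, .negSucc 35, .negSucc 343⟩, ⟨.ofNat 3089, .ofNat 817, .negSucc 461, .negSucc 717, .negSucc 296, .negSucc 368⟩, ⟨.negSucc 4279, .negSucc 267, .ofNat 49, .negSucc 797, .ofNat 269, .ofNat 833⟩, ⟨.negSucc 227, .ofNat 148, .negSucc 169, .negSucc 545, .ofNat 230, .negSucc 84⟩, .ofNat 367, .ofNat 262, .ofNat 0, .ofNat 262, .ofNat 644, .ofNat 0, .ofNat 128, .negSucc 136, .negSucc 354, .ofNat 0, .ofNat 135, .ofNat 203, .ofNat 0, .ofNat 0, .ofNat 1326, .ofNat 3860, .ofNat 5560877600304153152055860097137508352, .ofNat 0, .ofNat 8875449132766476409746829082624, .ofNat 0, .ofNat 19897735978545881750646734245437898752, .ofNat 0, .ofNat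 0, .ofNat 0, .ofNat 60012150239396109164455509791025922048, .ofNat 0, .ofNat 594973738465686833042904533958656, .ofNat 0, .ofNat 0, .ofNat 0, .ofNat 0, .ofNat 0⟩)
    (by decide +kernel)
theorem L03493 : Good (Phi V5.P V5.D (-1) (-1)) ⟨3, 6, 2, 2, 1, 0, 2, 0, 4, 5⟩ :=
  out_sound (S := T5.ds_mm) T5.ok_mm (w := 22) (j := 1) (by decide +kernel)
theorem L03494 : Good (Phi V5.P V5.D (-1) (-1)) ⟨3, 6, 2, 2, 2, 0, 2, 1, 4, 4⟩ :=
  leafX_sound T5.ok_mm T5.Ymm.bz_eq (w := 205) (c := ⟨⟨.negSucc 2532, .negSucc 482, .ofNat 39, .negSucc 90, .ofNat 199, .ofNat 295⟩, ⟨.ofNat 1259, .ofNat 469, .ofNat 323, .ofNat 50, .negSucc 113, .negSucc 170⟩, ⟨.ofNat 2683, .ofNat 618, .negSucc 95, .negSucc 26, .negSucc 451, .negSucc 210⟩, ⟨.negSucc 4190, .negSucc 140, .ofNat 47, .negSucc 190, .ofNat 302, .ofNat 423⟩, ⟨.ofNat 7, .negSucc 9, .negSucc 3, .negSucc 96, .ofNat 20, .negSucc 15⟩, .ofNat 752, .ofNat 834,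 .ofNat 0, .ofNat 834, .ofNat 1633, .ofNat 0, .ofNat 128, .negSucc 420, .negSucc 143, .ofNat 0, .ofNat 324, .ofNat 81, .ofNat 0, .ofNat 0, .ofNat 701, .ofNat 12374, .ofNat 0, .ofNat 0, .ofNat 0, .ofNat 0, .ofNat 0, .ofNat 0, .ofNat 17819081199182597568028123855503491072, .ofNat 0, .ofNat 0, .ofNat 0, .ofNat 92890054964979315646774535748442914816, .ofNat 0, .ofNat 0, .ofNat 0, .ofNat 40828306575924456683686696573286219776, .ofNat 0⟩)
    (by decide +kernel)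
theorem L03495 : Good (Phi V5.P V5.D (-1) (-1)) ⟨3, 6, 2, 2, 2, 1, 2, 1, 4, 4⟩ :=
  leafX_sound T5.ok_mm T5.Ymm.bz_eq (w := 204) (c := ⟨⟨.negSucc 2656, .negSucc 633, .ofNat 138, .ofNat 45, .ofNat 258, .ofNat 440⟩, ⟨.ofNat 1320, .ofNat 557, .ofNat 315, .negSucc 36, .negSucc 146, .negSucc 255⟩, ⟨.ofNat 2769, .ofNat 650, .negSucc 259, .negSucc 705, .negSucc 520, .negSucc 301⟩, ⟨.negSucc 4476, .negSucc 306, .ofNat 139, .negSucc 152, .ofNat 419, .ofNat 633⟩, ⟨.negSucc 120, .ofNat 23, .negSucc 32, .negSucc 367, .ofNat 63, .negSucc 22⟩, .ofNat 366, .ofNat 260, .ofNat 0, .ofNat 260, .ofNat 642, .ofNat 0, .ofNat 128, .negSucc 133, .negSucc 116, .ofNat 0, .ofNat 131, .ofNat 66, .ofNat 0, .ofNat 0, .ofNat 455, .ofNat 4149, .ofNat 16837947585220032934402377561655035822080, .ofNat 0, .ofNat 172576939504065862232325505148780544, .ofNat 0, .ofNat 0, .ofNat 0, .ofNat 3459955877319992898972902120811921408,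 .ofNat 0, .ofNat 0, .ofNat 0, .ofNat 15021514029795329660185560838978928640, .ofNat 0, .ofNat 0, .ofNat 0, .ofNat 5737293768934610579233294691948560384, .ofNat 0⟩)
    (by decide +kernel)
theorem L03496 : Good (Phi V5.P V5.D (-1) (-1)) ⟨3, 6, 2, 2, 1, 0, 3, 2, 6, 20⟩ :=
  leafX_sound T5.ok_mm T5.Ymm.bz_eq (w := 206) (c := ⟨⟨.negSucc 2374, .negSucc 608, .ofNat 158, .ofNat 205, .ofNat 136, .ofNat 94⟩, ⟨.ofNat 1191, .ofNat 519, .ofNat 268, .negSucc 134, .negSucc 79, .negSucc 53⟩, ⟨.ofNat 3157, .ofNat 804, .negSucc 424, .negSucc 1478, .negSucc 307, .negSucc 56⟩, ⟨.negSucc 3906, .negSucc 282, .ofNat 127, .negSucc 69, .ofNat 234, .ofNat 142⟩, ⟨.ofNat 55, .ofNat 94, .negSucc 72, .negSucc 633, .ofNat 67, .ofNat 6⟩, .ofNat 421, .ofNat 369, .ofNat 0, .ofNat 369, .ofNat 906, .ofNat 0, .ofNat 128, .negSucc 414, .negSucc 261, .ofNat 0, .ofNat 339, .ofNat 137, .ofNat 0, .ofNat 0, .ofNat 1509, .ofNat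 24777, .ofNat 23659406549611863251735369671040990969856, .ofNat 0, .ofNat 1766788982966294181906828144286892032, .ofNat 0, .ofNat 69589002622547265025878440571948232605696, .ofNat 0, .ofNat 6697310196153632907354190173135962112, .ofNat 0, .ofNat 0, .ofNat 0, .ofNat 0, .ofNat 0, .ofNat 1134741647635851214835042420754937173508096, .ofNat 0, .ofNat 64316871384716389076956333966522056704, .ofNat 0⟩)
    (by decide +kernel)
theorem L03497 : Good (Phi V5.P V5.D (-1) (-1)) ⟨3, 6, 2, 2, 1, 0, 3, 2, 6, 21⟩ :=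
  leafX_sound T5.ok_mm T5.Ymm.bz_eq (w := 207) (c := ⟨⟨.negSucc 2660, .negSucc 418, .ofNat 68, .ofNat 463, .ofNat 135, .ofNat 95⟩, ⟨.ofNat 1383, .ofNat 380, .ofNat 321, .negSucc 289, .negSucc 76, .negSucc 54⟩, ⟨.ofNat 4013, .ofNat 355, .negSucc 209, .negSucc 2073, .negSucc 329, .negSucc 65⟩, ⟨.negSucc 4167, .negSucc 105, .ofNat 33, .ofNat 223, .ofNat 236, .ofNat 144⟩, ⟨.ofNat 266, .ofNat 20, .negSucc 33, .negSucc 792, .ofNat 61, .ofNat 10⟩, .ofNat 366, .ofNat 260, .ofNat 0, .ofNat 260, .ofNat 641, .ofNat 0, .ofNat 128, .negSucc 301, .negSucc 216, .ofNat 0, .ofNat 297, .ofNat 126, .ofNat 0, .ofNat 0, .ofNat 1291, .ofNat 34999, .ofNat 47295821196747689212557050817907653607424, .ofNat 0, .ofNat 2141520593386054659548126290307448832, .ofNat 0, .ofNat 82221614360380240375006865465784448057344, .ofNat 0, .ofNat 0, .ofNat 0, .ofNat 630644650687968986342659565964125328637952, .ofNat 0, .ofNat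 0, .ofNat 0, .ofNat 1603077105246711439902344631683988936720384, .ofNat 0, .ofNat 68452987251707494834496947220541079552, .ofNat 0⟩)
    (by decide +kernel)
theorem L03498 : Good (Phi V5.P V5.D (-1) (-1)) ⟨3, 6, 2, 2, 1, 0, 3, 2, 5, 11⟩ :=
  leafX_sound T5.ok_mm T5.Ymm.bz_eq (w := 204) (c := ⟨⟨.negSucc 2739, .negSucc 343, .ofNat 45, .ofNat 599, .ofNat 117, .ofNat 183⟩, ⟨.ofNat 1460, .ofNat 316, .ofNat 329, .negSucc 379, .negSucc 67, .negSucc 106⟩, ⟨.ofNat 4347, .ofNat 220, .negSucc 180, .negSucc 2403, .negSucc 297, .negSucc 152⟩, ⟨.negSucc 4230, .negSucc 58, .ofNat 14, .ofNat 408, .ofNat 228, .ofNat 280⟩, ⟨.ofNat 303, .ofNat 0, .negSucc 26, .negSucc 818, .ofNat 75, .ofNat 26⟩, .ofNat 164, .ofNat 52, .ofNat 0, .ofNat 52, .ofNat 220, .ofNat 0, .ofNat 128, .negSucc 90, .negSucc 113, .ofNat 0, .ofNat 161, .ofNat 61, .ofNat 0, .ofNat 0, .ofNat 592, .ofNat 78915, .ofNat 18327209537492982152486850836063569575936,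 .ofNat 0, .ofNat 0, .ofNat 0, .ofNat 12640913020084268203630334108885474869248, .ofNat 0, .ofNat 0, .ofNat 0, .ofNat 45446974983210990800030680213727521800192, .ofNat 0, .ofNat 365864974579054258336096706556329984, .ofNat 0, .ofNat 92070733820813798463848635891040408043520, .ofNat 0, .ofNat 542946110409120390481261669283528704, .ofNat 0⟩)
    (by decide +kernel)
theorem L03499 : Good (Phi V5.P V5.D (-1) (-1)) ⟨4, 12, 2, 2, 1, 0, 3, 3, 4, 5⟩ :=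
  out_sound (S := T5.ds_mm) T5.ok_mm (w := 49) (j := 3) (by decide +kernel)
theorem L03500 : Good (Phi V5.P V5.D (-1) (-1)) ⟨4, 13, 2, 2, 2, 0, 3, 3, 5, 10⟩ :=
  leafX_sound T5.ok_mm T5.Ymm.bz_eq (w := 220) (c := ⟨⟨.negSucc 2418, .negSucc 220, .ofNat 7, .negSucc 19, .ofNat 107, .ofNat 118⟩, ⟨.ofNat 1289, .ofNat 231, .ofNat 307, .ofNat 9, .negSucc 62, .negSucc 67⟩, ⟨.ofNat 2603, .ofNat 277, .negSucc 52, .negSucc 61, .negSucc 266, .negSucc 81⟩, ⟨.negSucc 3735, .negSucc 49, .ofNat 2, .negSucc 94, .ofNat 160, .ofNat 171⟩, ⟨.negSucc 7, .ofNat 4, .ofNat 9, .negSucc 110, .ofNat 8, .negSucc 1⟩, .ofNat 752, .ofNat 834, .ofNat 0, .ofNat 834, .ofNat 1635, .ofNat 0, .ofNat 128, .negSucc 303, .negSucc 197, .ofNat 0, .ofNat 234, .ofNat 111, .ofNat 0, .ofNat 0, .ofNat 1206, .ofNat 48640, .ofNat 243813661317727873113607062697142382443364352, .ofNat 0, .ofNat 32312112415461821294106409394350587904,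 .ofNat 0, .ofNat 0, .ofNat 0, .ofNat 13740230371626157438736093559720970813440, .ofNat 0, .ofNat 0, .ofNat 0, .ofNat 10174625098328139658069392572893605396480, .ofNat 0, .ofNat 0, .ofNat 0, .ofNat 0, .ofNat 0⟩)
    (by decide +kernel)
theorem L03501 : Good (Phi V5.P V5.D (-1) (-1)) ⟨4, 13, 2, 2, 2, 0, 3, 3, 5, 11⟩ :=
  leafX_sound T5.ok_mm T5.Ymm.bz_eq (w := 223) (c := ⟨⟨.negSucc 2343, .negSucc 190, .negSucc 7, .ofNat 21, .ofNat 110, .ofNat 123⟩, ⟨.ofNat 1254, .ofNat 203, .ofNat 307, .negSucc 14, .negSucc 65, .negSucc 71⟩, ⟨.ofNat 2565, .ofNat 245, .negSucc 103, .negSucc 84, .negSucc 254, .negSucc 99⟩, ⟨.negSucc 3609, .negSucc 26, .negSucc 18, .negSucc 34, .ofNat 163, .ofNat 171⟩, ⟨.negSucc 5, .ofNat 10, .negSucc 11, .negSucc 110, .ofNat 2, .negSucc 11⟩, .ofNat 1558, .ofNat 2138, .ofNat 0, .ofNat 2138, .ofNat 3813, .ofNat 0, .ofNat 128, .negSucc 474, .negSucc 392, .ofNat 0, .ofNat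 323, .ofNat 229, .ofNat 0, .ofNat 0, .ofNat 2656, .ofNat 253759, .ofNat 2537395333346262959163691339522900213685551104, .ofNat 0, .ofNat 2032559514675010706805009030667682447360, .ofNat 0, .ofNat 1646643536047207636977083931308548300921110528, .ofNat 0, .ofNat 44155735587969163154840359726241762246656, .ofNat 0, .ofNat 4538098132313314143311286268553125118517182464, .ofNat 0, .ofNat 101404728584677875319748573443321610895360, .ofNat 0, .ofNat 0, .ofNat 0, .ofNat 43543724066682988846648772935657610805248, .ofNat 0⟩)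
    (by decide +kernel)
theorem L03502 : Good (Phi V5.P V5.D (-1) (-1)) ⟨4, 13, 2, 2, 2, 1, 4, 6, 5, 10⟩ :=
  leafX_sound T5.ok_mm T5.Ymm.bz_eq (w := 224) (c := ⟨⟨.negSucc 2514, .negSucc 247, .ofNat 97, .ofNat 147, .ofNat 73, .ofNat 183⟩, ⟨.ofNat 1348, .ofNat 230, .ofNat 285, .negSucc 93, .negSucc 42, .negSucc 105⟩, ⟨.ofNat 2685, .ofNat 277, .negSucc 283, .negSucc 838, .negSucc 163, .negSucc 124⟩, ⟨.negSucc 3936, .negSucc 76, .ofNat 61, .ofNat 29, .ofNat 118, .ofNat 271⟩, ⟨.negSucc 128, .ofNat 39, .negSucc 70, .negSucc 314, .ofNat 20, .ofNat 0⟩, .ofNat 366, .ofNat 260, .ofNat 0, .ofNat 260, .ofNat 641, .ofNat 0, .ofNat 128, .negSucc 186, .negSucc 191, .ofNat 0, .ofNat 187, .ofNat 107, .ofNat 0, .ofNat 0, .ofNat 1029, .ofNat 41486, .ofNat 2375671988339496231963754073528928622342045696, .ofNat 0, .ofNat 0, .ofNat 0, .ofNat 0, .ofNat 0, .ofNat 27289192708900330472299623259260837691392,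 .ofNat 0, .ofNat 0, .ofNat 0, .ofNat 114038529962606194315669505971589839060992, .ofNat 0, .ofNat 0, .ofNat 0, .ofNat 150908851375259067129133210582878947115008, .ofNat 0⟩)
    (by decide +kernel)
theorem L03503 : Good (Phi V5.P V5.D (-1) (-1)) ⟨4, 13, 2, 2, 2, 1, 4, 7, 5, 10⟩ :=
  leafX_sound T5.ok_mm T5.Ymm.bz_eq (w := 224) (c := ⟨⟨.negSucc 2480, .negSucc 152, .negSucc 28, .ofNat 157, .ofNat 73, .ofNat 170⟩, ⟨.ofNat 1332, .ofNat 173, .ofNat 343, .negSucc 98, .negSucc 42, .negSucc 100⟩, ⟨.ofNat 2621, .ofNat 27, .ofNat 73, .negSucc 844, .negSucc 147, .negSucc 119⟩, ⟨.negSucc 3871, .ofNat 24, .negSucc 74, .ofNat 66, .ofNat 123, .ofNat 252⟩, ⟨.negSucc 122, .ofNat 7, .negSucc 23, .negSucc 273, .ofNat 28, .ofNat 4⟩, .ofNat 759, .ofNat 843, .ofNat 0, .ofNat 843, .ofNat 1639, .ofNat 0, .ofNat 128, .negSucc 297, .negSucc 287, .ofNat 0, .ofNat 224, .ofNat 167, .ofNat 0, .ofNat 0, .ofNat 1654,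 .ofNat 33802, .ofNat 0, .ofNat 0, .ofNat 0, .ofNat 0, .ofNat 0, .ofNat 0, .ofNat 311080714536420700999924830029974461218816, .ofNat 0, .ofNat 0, .ofNat 0, .ofNat 233182121580374170424612830383824154132480, .ofNat 0, .ofNat 0, .ofNat 0, .ofNat 1255972176386932651643861111393096273231872, .ofNat 0⟩)
    (by decide +kernel)
theorem L03504 : Good (Phi V5.P V5.D (-1) (-1)) ⟨4, 13, 2, 2, 2, 1, 4, 6, 6, 22⟩ :=
  leafX_sound T5.ok_mm T5.Ymm.bz_eq (w := 230) (c := ⟨⟨.negSucc 2384, .negSucc 190, .ofNat 46, .ofNat 195, .ofNat 59, .ofNat 86⟩, ⟨.ofNat 1281, .ofNat 182, .ofNat 307, .negSucc 119, .negSucc 32, .negSucc 50⟩, ⟨.ofNat 2683, .ofNat 152, .negSucc 131, .negSucc 953, .negSucc 144, .negSucc 64⟩, ⟨.negSucc 3736, .negSucc 39, .ofNat 25, .ofNat 114, .ofNat 112, .ofNat 130⟩, ⟨.negSucc 139, .ofNat 6, .negSucc 21, .negSucc 294, .ofNat 41, .ofNat 8⟩, .ofNat 366, .ofNat 261, .ofNat 0, .ofNat 261,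 .ofNat 643, .ofNat 0, .ofNat 128, .negSucc 205, .negSucc 204, .ofNat 0, .ofNat 205, .ofNat 114, .ofNat 0, .ofNat 0, .ofNat 1361, .ofNat 94855, .ofNat 72939238768196498664721820768366783507105579008, .ofNat 0, .ofNat 689797224808658340061912966682125474463744, .ofNat 0, .ofNat 30804902590159446249927200029491605010248630272, .ofNat 0, .ofNat 1318943154617984259420789322324711164608512, .ofNat 0, .ofNat 0, .ofNat 0, .ofNat 0, .ofNat 0, .ofNat 220621465949816219499239752873916244436667334656, .ofNat 0, .ofNat 15258230236454360719084431866152968676966400, .ofNat 0⟩)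
    (by decide +kernel)
theorem L03505 : Good (Phi V5.P V5.D (-1) (-1)) ⟨4, 13, 2, 2, 2, 1, 4, 6, 6, 23⟩ :=
  leafX_sound T5.ok_mm T5.Ymm.bz_eq (w := 230) (c := ⟨⟨.negSucc 2408, .negSucc 151, .ofNat 33, .ofNat 287, .ofNat 67, .ofNat 75⟩, ⟨.ofNat 1309, .ofNat 147, .ofNat 306, .negSucc 177, .negSucc 37, .negSucc 43⟩, ⟨.ofNat 3019, .ofNat 52, .negSucc 105, .negSucc 1301, .negSucc 190, .negSucc 68⟩, ⟨.negSucc 3738, .negSucc 7, .ofNat 2, .ofNat 236, .ofNat 122, .ofNat 120⟩, ⟨.negSucc 116, .negSucc 4, .negSucc 16, .negSucc 307, .ofNat 43, .ofNat 16⟩, .ofNat 366, .ofNat 261, .ofNat 0, .ofNat 261, .ofNat 642, .ofNat 0, .ofNat 128, .negSucc 262, .negSucc 149, .ofNat 0, .ofNat 262, .ofNat 82, .ofNat 0, .ofNat 0, .ofNat 1278, .ofNat 97592, .ofNat 87447754424642298524615477879799989994273112064, .ofNat 0, .ofNat 183979412608663092336626862920613138268160, .ofNat 0, .ofNat 51526518360237450416716165413629985548140544000,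 .ofNat 0, .ofNat 0, .ofNat 0, .ofNat 0, .ofNat 0, .ofNat 3555242126400280311734349613715385181274112, .ofNat 0, .ofNat 746554058081121720420457166533544080027894677504, .ofNat 0, .ofNat 13594554782388972494175718393289651846643712, .ofNat 0⟩)
    (by decide +kernel)
theorem L03506 : Good (Phi V5.P V5.D (-1) (-1)) ⟨4, 13, 2, 2, 2, 1, 4, 7, 6, 22⟩ :=
  leafX_sound T5.ok_mm T5.Ymm.bz_eq (w := 230) (c := ⟨⟨.negSucc 2311, .negSucc 186, .ofNat 34, .ofNat 183, .ofNat 75, .ofNat 72⟩, ⟨.ofNat 1242, .ofNat 182, .ofNat 302, .negSucc 113, .negSucc 43, .negSucc 40⟩, ⟨.ofNat 2484, .ofNat 150, .negSucc 88, .negSucc 888, .negSucc 177, .negSucc 44⟩, ⟨.negSucc 3621, .negSucc 37, .ofNat 25, .ofNat 122, .ofNat 122, .ofNat 109⟩, ⟨.negSucc 128, .ofNat 0, .negSucc 2, .negSucc 242, .ofNat 25, .ofNat 5⟩, .ofNat 756, .ofNat 838, .ofNat 0, .ofNat 838, .ofNat 1635, .ofNat 0, .ofNat 128, .negSucc 367, .negSucc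 366, .ofNat 0, .ofNat 278, .ofNat 211, .ofNat 0, .ofNat 0, .ofNat 2557, .ofNat 84008, .ofNat 47230626720132976950931524166689499396658167808, .ofNat 0, .ofNat 153746760220067124441359956358555544584192, .ofNat 0, .ofNat 0, .ofNat 0, .ofNat 5379973464755440442934876419352719075049472, .ofNat 0, .ofNat 0, .ofNat 0, .ofNat 4004053847702158380067735170620382460772352, .ofNat 0, .ofNat 0, .ofNat 0, .ofNat 43483500874230334644564337138790223077965824, .ofNat 0⟩)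
    (by decide +kernel)
theorem L03507 : Good (Phi V5.P V5.D (-1) (-1)) ⟨4, 13, 2, 2, 2, 1, 4, 7, 6, 23⟩ :=
  leafX_sound T5.ok_mm T5.Ymm.bz_eq (w := 230) (c := ⟨⟨.negSucc 2235, .negSucc 193, .ofNat 59, .ofNat 192, .ofNat 68, .ofNat 67⟩, ⟨.ofNat 1197, .ofNat 186, .ofNat 272, .negSucc 116, .negSucc 38, .negSucc 38⟩, ⟨.ofNat 2402, .ofNat 224, .negSucc 201, .negSucc 917, .negSucc 169, .negSucc 41⟩, ⟨.negSucc 3521, .negSucc 45, .ofNat 45, .ofNat 154, .ofNat 121, .ofNat 103⟩, ⟨.negSucc 149, .ofNat 9, .negSucc 14, .negSucc 217, .ofNat 36, .ofNat 7⟩, .ofNat 366, .ofNat 260, .ofNat 0, .ofNat 260, .ofNat 643, .ofNat 0, .ofNat 128, .negSucc 157, .negSucc 204, .ofNat 0, .ofNat 159, .ofNat 108, .ofNat 0, .ofNat 0, .ofNat 1567, .ofNat 63497, .ofNat 55921589486738441609097611003271193961173090304, .ofNat 0, .ofNat 278131069844663870258008618221842080989184, .ofNat 0, .ofNat 0, .ofNat 0, .ofNat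 622026467242060636102828219088854602219520, .ofNat 0, .ofNat 0, .ofNat 0, .ofNat 4714220773673784170735246568816033956626432, .ofNat 0, .ofNat 0, .ofNat 0, .ofNat 4717498158433110859991462561542878936432640, .ofNat 0⟩)
    (by decide +kernel)
theorem L03508 : Good (Phi V5.P V5.D (-1) (-1)) ⟨3, 6, 2, 3, 1, 0, 1, 0, 3, 2⟩ :=
  out_sound (S := T5.ds_mm) T5.ok_mm (w := 43) (j := 3) (by decide +kernel)
theorem L03509 : Good (Phi V5.P V5.D (-1) (-1)) ⟨3, 6, 1, 1, 2, 0, 1, 0, 3, 3⟩ :=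
  out_sound (S := T5.ds_mm) T5.ok_mm (w := 21) (j := 1) (by decide +kernel)
theorem L03510 : Good (Phi V5.P V5.D (-1) (-1)) ⟨3, 6, 1, 1, 2, 1, 2, 0, 4, 6⟩ :=
  out_sound (S := T5.ds_mm) T5.ok_mm (w := 24) (j := 1) (by decide +kernel)
theorem L03511 : Good (Phi V5.P V5.D (-1) (-1)) ⟨3, 6, 1, 1, 2, 1, 3, 2, 4, 6⟩ :=
  out_sound (S := T5.ds_mm) T5.ok_mm (w := 25) (j := 1) (by decide +kernel)
theorem L03512 : Good (Phi V5.P V5.D (-1) (-1)) ⟨3, 6, 1, 1, 2, 1, 3, 3, 5, 12⟩ :=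
  leafX_sound T5.ok_mm T5.Ymm.bz_eq (w := 214) (c := ⟨⟨.negSucc 2148, .negSucc 280, .ofNat 40, .ofNat 239, .ofNat 124, .ofNat 121⟩, ⟨.ofNat 1091, .ofNat 293, .ofNat 568, .negSucc 146, .negSucc 70, .negSucc 66⟩, ⟨.ofNat 2871, .negSucc 23, .ofNat 41, .negSucc 1159, .negSucc 368, .negSucc 171⟩, ⟨.negSucc 3619, .ofNat 14, .negSucc 14, .ofNat 225, .ofNat 238, .ofNat 205⟩, ⟨.negSucc 198, .negSucc 2, .negSucc 29, .negSucc 208, .ofNat 99, .ofNat 44⟩, .ofNat 745, .ofNat 824, .ofNat 0, .ofNat 824, .ofNat 1627, .ofNat 0, .ofNat 128, .negSucc 572, .negSucc 249, .ofNat 0, .ofNat 432, .ofNat 138, .ofNat 0, .ofNat 0, .ofNat 2929, .ofNat 79889, .ofNat 12637609710430432677873645965828199284736000, .ofNat 0, .ofNat 1649654010426849412509374529026853437440, .ofNat 0, .ofNat 6499230570879404041125404227195641616400384, .ofNat 0, .ofNat 24799653139405778875650183953105643634688, .ofNat 0, .ofNat 0, .ofNat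 0, .ofNat 32728516799942521443113744081071334490112, .ofNat 0, .ofNat 0, .ofNat 0, .ofNat 226720968014813700945607462110214951534592, .ofNat 0⟩)
    (by decide +kernel)
theorem L03513 : Good (Phi V5.P V5.D (-1) (-1)) ⟨3, 6, 1, 1, 2, 1, 3, 3, 5, 13⟩ :=
  leafX_sound T5.ok_mm T5.Ymm.bz_eq (w := 219) (c := ⟨⟨.negSucc 1787, .negSucc 245, .ofNat 28, .negSucc 0, .ofNat 91, .ofNat 1⟩, ⟨.ofNat 889, .ofNat 257, .ofNat 539, .ofNat 1, .negSucc 48, .negSucc 0⟩, ⟨.ofNat 1573, .negSucc 71, .negSucc 298, .ofNat 1, .negSucc 396, .negSucc 0⟩, ⟨.negSucc 3185, .ofNat 31, .negSucc 26, .negSucc 1, .ofNat 222, .ofNat 2⟩, ⟨.negSucc 401, .ofNat 2, .negSucc 16, .ofNat 0, .ofNat 141, .ofNat 0⟩, .ofNat 164, .ofNat 52, .ofNat 0, .ofNat 52, .ofNat 219, .ofNat 0, .ofNat 219, .negSucc 67, .negSucc 71, .ofNat 0, .ofNat 128, .negSucc 2, .ofNat 0, .ofNat 0, .ofNat 1363, .ofNat 2997808, .ofNat 664986702808123173802844378016407775610929152,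 .ofNat 0, .ofNat 11798611645731756143784281696171123015680, .ofNat 0, .ofNat 129665741892622173086724797785869656227053568, .ofNat 0, .ofNat 2661437875410657231345918366979840802816, .ofNat 0, .ofNat 51475229085359942746639571091370706244468736, .ofNat 0, .ofNat 2510319484075272127554964980351195152384, .ofNat 0, .ofNat 748388477021465921858748823337609021911728128, .ofNat 0, .ofNat 12770396155528637446982644198146895249408, .ofNat 0⟩)
    (by decide +kernel)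
theorem L03514 : Good (Phi V5.P V5.D (-1) (-1)) ⟨3, 6, 1, 1, 2, 1, 1, 0, 4, 7⟩ :=
  out_sound (S := T5.ds_mm) T5.ok_mm (w := 23) (j := 1) (by decide +kernel)
theorem L03515 : Good (Phi V5.P V5.D (-1) (-1)) ⟨5, 28, 2, 2, 1, 0, 3, 0, 4, 4⟩ :=
  out_sound (S := T5.ds_mm) T5.ok_mm (w := 23) (j := 1) (by decide +kernel)
theorem L03516 : Good (Phi V5.P V5.D (-1) (-1)) ⟨5, 28, 2, 2, 1, 0, 3, 1, 4, 4⟩ :=
  leafX_sound T5.ok_mm T5.Ymm.bz_eq (w := 203) (c := ⟨⟨.negSucc 3170, .negSucc 179, .ofNat 76, .negSucc 277, .ofNat 69, .ofNat 715⟩, ⟨.ofNat 1823, .ofNat 193, .ofNat 332, .ofNat 176, .negSucc 42, .negSucc 465⟩, ⟨.ofNat 4132, .ofNat 268, .negSucc 384, .negSucc 1083, .negSucc 206, .negSucc 476⟩, ⟨.negSucc 4407, .negSucc 52, .ofNat 17, .negSucc 828, .ofNat 138, .ofNat 944⟩, ⟨.ofNat 209, .ofNat 99, .negSucc 161, .negSucc 679, .ofNat 64, .negSucc 105⟩, .ofNat 388, .ofNat 293, .ofNat 0, .ofNat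 293, .ofNat 645, .ofNat 0, .ofNat 128, .negSucc 256, .negSucc 622, .ofNat 0, .ofNat 244, .ofNat 395, .ofNat 0, .ofNat 0, .ofNat 2181, .ofNat 6349, .ofNat 23850426313444984601722817506792934735872, .ofNat 0, .ofNat 16934748918523753253700179591168, .ofNat 0, .ofNat 191855947151225057529160439523501878018048, .ofNat 0, .ofNat 300165032311509283601372367814656, .ofNat 0, .ofNat 500537818225857235398242579868267480875008, .ofNat 0, .ofNat 1359054822376811155914975422185472, .ofNat 313081172338684175077743112693704608972800, .ofNat 0, .ofNat 0, .ofNat 0, .ofNat 0⟩)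
    (by decide +kernel)
theorem L03517 : Good (Phi V5.P V5.D (-1) (-1)) ⟨5, 28, 2, 2, 1, 0, 2, 0, 4, 5⟩ :=
  out_sound (S := T5.ds_mm) T5.ok_mm (w := 22) (j := 1) (by decide +kernel)
theorem L03518 : Good (Phi V5.P V5.D (-1) (-1)) ⟨6, 56, 4, 8, 1, 0, 2, 1, 3, 2⟩ :=
  out_sound (S := T5.ds_mm) T5.ok_mm (w := 65) (j := 3) (by decide +kernel)
theorem L03519 : Good (Phi V5.P V5.D (-1) (-1)) ⟨6, 56, 4, 9, 2, 0, 2, 1, 4, 4⟩ :=
  leafX_sound T5.ok_mm T5.Ymm.bz_eq (w := 223) (c := ⟨⟨.negSucc 3043, .negSucc 98, .ofNat 26, .negSucc 106, .ofNat 210, .ofNat 325⟩, ⟨.ofNat 1852, .ofNat 92, .ofNat 67, .ofNat 67, .negSucc 132, .negSucc 206⟩, ⟨.ofNat 3289, .ofNat 99, .negSucc 17, .negSucc 40, .negSucc 461, .negSucc 227⟩, ⟨.negSucc 4348, .negSucc 49, .ofNat 24, .negSucc 213, .ofNat 307, .ofNat 455⟩, ⟨.ofNat 13, .ofNat 22, .negSucc 11, .negSucc 94, .ofNat 7, .negSucc 15⟩, .ofNat 382, .ofNat 286, .ofNat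 0, .ofNat 286, .ofNat 643, .ofNat 0, .ofNat 128, .negSucc 145, .negSucc 112, .ofNat 0, .ofNat 149, .ofNat 63, .ofNat 0, .ofNat 0, .ofNat 491, .ofNat 10287, .ofNat 0, .ofNat 0, .ofNat 0, .ofNat 0, .ofNat 0, .ofNat 0, .ofNat 509329405940944301156859948627394560, .ofNat 0, .ofNat 0, .ofNat 0, .ofNat 3827124767677091165053513248584761344, .ofNat 0, .ofNat 0, .ofNat 0, .ofNat 8638170899081532670810560590921072640, .ofNat 0⟩)
    (by decide +kernel)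
theorem L03520 : Good (Phi V5.P V5.D (-1) (-1)) ⟨6, 56, 4, 9, 2, 1, 2, 1, 4, 4⟩ :=
  leafX_sound T5.ok_mm T5.Ymm.bz_eq (w := 224) (c := ⟨⟨.negSucc 3323, .negSucc 83, .ofNat 50, .ofNat 64, .ofNat 275, .ofNat 484⟩, ⟨.ofNat 2018, .ofNat 75, .ofNat 67, .negSucc 45, .negSucc 173, .negSucc 306⟩, ⟨.ofNat 3433, .ofNat 42, .negSucc 69, .negSucc 790, .negSucc 536, .negSucc 331⟩, ⟨.negSucc 4824, .negSucc 71, .ofNat 79, .negSucc 156, .ofNat 427, .ofNat 684⟩, ⟨.negSucc 118, .negSucc 45, .ofNat 29, .negSucc 386, .ofNat 55, .negSucc 10⟩, .ofNat 849, .ofNat 954, .ofNat 0, .ofNat 954, .ofNat 1720, .ofNat 0, .ofNat 128, .negSucc 392, .negSucc 260, .ofNat 0, .ofNat 297, .ofNat 164, .ofNat 0, .ofNat 0, .ofNat 1044, .ofNat 14366, .ofNat 15020804546472852357219216246646240175628222464, .ofNat 0, .ofNat 701774140378304078120371769323814912, .ofNat 0, .ofNat 0, .ofNat 0, .ofNat 37297447535916713810228458702057242624,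 .ofNat 0, .ofNat 0, .ofNat 0, .ofNat 13646405414721156621045365001102032896, .ofNat 0, .ofNat 0, .ofNat 0, .ofNat 0, .ofNat 0⟩)
    (by decide +kernel)
theorem L03521 : Good (Phi V5.P V5.D (-1) (-1)) ⟨6, 56, 4, 9, 1, 0, 3, 2, 5, 10⟩ :=
  leafX_sound T5.ok_mm T5.Ymm.bz_eq (w := 222) (c := ⟨⟨.negSucc 2975, .negSucc 77, .ofNat 33, .ofNat 236, .ofNat 134, .ofNat 218⟩, ⟨.ofNat 1808, .ofNat 69, .ofNat 69, .negSucc 158, .negSucc 82, .negSucc 137⟩, ⟨.ofNat 3957, .ofNat 104, .negSucc 92, .negSucc 1590, .negSucc 308, .negSucc 158⟩, ⟨.negSucc 4177, .negSucc 34, .ofNat 18, .negSucc 20, .ofNat 228, .ofNat 280⟩, ⟨.ofNat 119, .ofNat 17, .negSucc 33, .negSucc 566, .ofNat 61, .negSucc 46⟩, .ofNat 2917, .ofNat 4095, .ofNat 0, .ofNat 4095, .ofNat 6562, .ofNat 0, .ofNat 128, .negSucc 1160, .negSucc 881, .ofNat 0, .ofNat 816, .ofNat 566, .ofNat 0, .ofNat 0, .ofNat 5261, .ofNat 88556, .ofNat 3578699275613007101766722868125944339136249856,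 .ofNat 0, .ofNat 90637416381744208920182321217273856, .ofNat 0, .ofNat 0, .ofNat 0, .ofNat 12259470872612973341987720055366877184, .ofNat 0, .ofNat 47218124431443727169178161357749110593732739072, .ofNat 0, .ofNat 2276728243000582167246589772548800512, .ofNat 0, .ofNat 501782578063499798482261310655668394388432617472, .ofNat 0, .ofNat 27908596549965769435911551723027562496, .ofNat 0⟩)
    (by decide +kernel)
theorem L03522 : Good (Phi V5.P V5.D (-1) (-1)) ⟨6, 56, 4, 9, 1, 0, 3, 2, 5, 11⟩ :=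
  leafX_sound T5.ok_mm T5.Ymm.bz_eq (w := 222) (c := ⟨⟨.negSucc 3118, .negSucc 47, .ofNat 15, .ofNat 642, .ofNat 119, .ofNat 191⟩, ⟨.ofNat 1903, .ofNat 44, .ofNat 80, .negSucc 417, .negSucc 73, .negSucc 119⟩, ⟨.ofNat 4660, .ofNat 35, .negSucc 49, .negSucc 2539, .negSucc 301, .negSucc 167⟩, ⟨.negSucc 4291, .negSucc 8, .ofNat 5, .ofNat 411, .ofNat 229, .ofNat 283⟩, ⟨.ofNat 320, .ofNat 0, .negSucc 5, .negSucc 841, .ofNat 73, .ofNat 26⟩, .ofNat 165, .ofNat 57, .ofNat 0, .ofNat 57, .ofNat 217, .ofNat 0, .ofNat 128, .negSucc 76, .negSucc 148, .ofNat 0, .ofNat 128, .ofNat 84, .ofNat 0, .ofNat 0, .ofNat 760, .ofNat 70023, .ofNat 4497397864311125899126343209102436378104299520, .ofNat 0, .ofNat 0, .ofNat 0, .ofNat 2440106599155251121392084812753663995072741376, .ofNat 0, .ofNat 0, .ofNat 0, .ofNat 7568047912167141896186979882042233859510108160, .ofNat 0, .ofNat 31622055218296603798990072534007808,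 .ofNat 0, .ofNat 27813666832831356090787168099605992009656958976, .ofNat 0, .ofNat 0, .ofNat 0⟩)
    (by decide +kernel)
theorem L03523 : Good (Phi V5.P V5.D (-1) (-1)) ⟨6, 56, 4, 9, 2, 0, 3, 3, 5, 10⟩ :=
  leafX_sound T5.ok_mm T5.Ymm.bz_eq (w := 235) (c := ⟨⟨.negSucc 2633, .negSucc 36, .negSucc 16, .negSucc 15, .ofNat 107, .ofNat 125⟩, ⟨.ofNat 1599, .ofNat 49, .ofNat 88, .ofNat 8, .negSucc 66, .negSucc 78⟩, ⟨.ofNat 2865, .ofNat 54, .negSucc 31, .negSucc 56, .negSucc 238, .negSucc 85⟩, ⟨.negSucc 3770, .ofNat 6, .negSucc 21, .negSucc 78, .ofNat 150, .ofNat 169⟩, ⟨.ofNat 2, .negSucc 12, .ofNat 6, .negSucc 89, .negSucc 2, .negSucc 13⟩, .ofNat 3994, .ofNat 5822, .ofNat 0, .ofNat 5822, .ofNat 9326, .ofNat 0, .ofNat 128, .negSucc 847, .negSucc 443, .ofNat 0, .ofNat 569, .ofNat 281, .ofNat 0, .ofNat 0, .ofNat 2686, .ofNat 99259, .ofNat 8182592143102650130069581875268598546279067287552, .ofNat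 0, .ofNat 203792332992100158083442819926186786816, .ofNat 0, .ofNat 0, .ofNat 0, .ofNat 449638731864427394950701449939879425212416, .ofNat 0, .ofNat 0, .ofNat 0, .ofNat 114671120499413427808085838600792071733248, .ofNat 0, .ofNat 0, .ofNat 0, .ofNat 0, .ofNat 0⟩)
    (by decide +kernel)
theorem L03524 : Good (Phi V5.P V5.D (-1) (-1)) ⟨6, 56, 4, 9, 2, 0, 3, 3, 5, 11⟩ :=
  leafX_sound T5.ok_mm T5.Ymm.bz_eq (w := 237) (c := ⟨⟨.negSucc 2546, .negSucc 50, .negSucc 2, .ofNat 25, .ofNat 118, .ofNat 130⟩, ⟨.ofNat 1546, .ofNat 56, .ofNat 77, .negSucc 16, .negSucc 73, .negSucc 82⟩, ⟨.ofNat 2789, .ofNat 101, .negSucc 36, .negSucc 91, .negSucc 243, .negSucc 109⟩, ⟨.negSucc 3650, .negSucc 5, .negSucc 7, .negSucc 35, .ofNat 175, .ofNat 181⟩, ⟨.negSucc 6, .ofNat 5, .negSucc 1, .negSucc 111, .ofNat 11, .negSucc 7⟩, .ofNat 846, .ofNat 951, .ofNat 0, .ofNat 951, .ofNat 1718, .ofNat 0, .ofNat 128, .negSucc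 329, .negSucc 279, .ofNat 0, .ofNat 255, .ofNat 169, .ofNat 0, .ofNat 0, .ofNat 1813, .ofNat 260943, .ofNat 44853101294291933527411148014470998931959984422912, .ofNat 0, .ofNat 0, .ofNat 0, .ofNat 21247620882293774337949106416634759935650904932352, .ofNat 0, .ofNat 18496476864843568657195217407920054468608, .ofNat 0, .ofNat 72197490771804139451335789977951119774770855411712, .ofNat 0, .ofNat 78922111490057022983889371554691061645312, .ofNat 0, .ofNat 65388016167182982321325193861240910336967825162240, .ofNat 0, .ofNat 33018582288774981840711343796550830653440, .ofNat 0⟩)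
    (by decide +kernel)
theorem L03525 : Good (Phi V5.P V5.D (-1) (-1)) ⟨6, 56, 5, 18, 2, 1, 3, 3, 4, 5⟩ :=
  out_sound (S := T5.ds_mm) T5.ok_mm (w := 67) (j := 3) (by decide +kernel)
theorem L03526 : Good (Phi V5.P V5.D (-1) (-1)) ⟨6, 56, 5, 19, 2, 1, 3, 3, 5, 10⟩ :=
  leafX_sound T5.ok_mm T5.Ymm.bz_eq (w := 238) (c := ⟨⟨.negSucc 2747, .negSucc 58, .ofNat 12, .ofNat 183, .ofNat 157, .ofNat 178⟩, ⟨.ofNat 1707, .ofNat 58, .ofNat 35, .negSucc 119, .negSucc 99, .negSucc 112⟩, ⟨.ofNat 2907, .ofNat 79, .negSucc 45, .negSucc 921, .negSucc 330, .negSucc 120⟩, ⟨.negSucc 4001, .negSucc 8, .ofNat 8, .ofNat 67, .ofNat 242, .ofNat 250⟩, ⟨.negSucc 110, .ofNat 11, .negSucc 5, .negSucc 304, .ofNat 29, .negSucc 4⟩, .ofNat 2057, .ofNat 2811, .ofNat 0, .ofNat 2811, .ofNat 4629, .ofNat 0, .ofNat 128, .negSucc 726, .negSucc 642, .ofNat 0, .ofNat 499, .ofNat 408, .ofNat 0, .ofNat 0, .ofNat 3649, .ofNat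 93911, .ofNat 91345389286292892415297523221259544840402641092608, .ofNat 0, .ofNat 917560522253154112640810695561932963840, .ofNat 0, .ofNat 0, .ofNat 0, .ofNat 268003656580012705791658548417762454142976, .ofNat 0, .ofNat 0, .ofNat 0, .ofNat 338607701659918994882659755573839019376640, .ofNat 0, .ofNat 0, .ofNat 0, .ofNat 538895538473791807585624541145412193484800, .ofNat 0⟩)
    (by decide +kernel)
theorem L03527 : Good (Phi V5.P V5.D (-1) (-1)) ⟨6, 56, 5, 19, 3, 2, 3, 3, 6, 22⟩ :=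
  leafX_sound T5.ok_mm T5.Ymm.bz_eq (w := 260) (c := ⟨⟨.negSucc 2552, .negSucc 42, .negSucc 0, .ofNat 70, .ofNat 142, .ofNat 76⟩, ⟨.ofNat 1585, .ofNat 48, .ofNat 40, .negSucc 45, .negSucc 88, .negSucc 47⟩, ⟨.ofNat 2718, .ofNat 19, .ofNat 8, .negSucc 360, .negSucc 307, .negSucc 46⟩, ⟨.negSucc 3741, .negSucc 1, .negSucc 2, .ofNat 33, .ofNat 222, .ofNat 107⟩, ⟨.negSucc 138, .negSucc 3, .ofNat 2, .negSucc 106, .ofNat 32, .negSucc 0⟩, .ofNat 1800, .ofNat 2386, .ofNat 0, .ofNat 2386, .ofNat 3924, .ofNat 0, .ofNat 128, .negSucc 498, .negSucc 424, .ofNat 0, .ofNat 354, .ofNat 271, .ofNat 0, .ofNat 0, .ofNat 2739, .ofNat 454859, .ofNat 21447444055181847429182135634695956739119967224178147328, .ofNat 0, .ofNat 0, .ofNat 0, .ofNat 10387679442732839811145956823641663983174067283728269312, .ofNat 0, .ofNat 125823743925047221336773305222112429048422465536, .ofNat 0, .ofNat 20561898694152778500108906308511027975109892669622452224,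 .ofNat 0, .ofNat 23807112950844193483124860986423225525232205824, .ofNat 0, .ofNat 0, .ofNat 0, .ofNat 417343016132382134628164979494198473062355042304, .ofNat 0⟩)
    (by decide +kernel)
theorem L03528 : Good (Phi V5.P V5.D (-1) (-1)) ⟨6, 56, 5, 19, 3, 3, 3, 3, 6, 22⟩ :=
  leafX_sound T5.ok_mm T5.Ymm.bz_eq (w := 259) (c := ⟨⟨.negSucc 2495, .negSucc 43, .ofNat 6, .ofNat 143, .ofNat 150, .ofNat 84⟩, ⟨.ofNat 1547, .ofNat 43, .ofNat 38, .negSucc 92, .negSucc 92, .negSucc 52⟩, ⟨.ofNat 2407, .ofNat 26, .negSucc 17, .negSucc 620, .negSucc 354, .negSucc 56⟩, ⟨.negSucc 3728, .negSucc 4, .ofNat 2, .ofNat 102, .ofNat 236, .ofNat 114⟩, ⟨.negSucc 249, .ofNat 0, .negSucc 3, .negSucc 160, .ofNat 37, .negSucc 7⟩, .ofNat 4455, .ofNat 6464, .ofNat 0, .ofNat 6464, .ofNat 10208, .ofNat 0, .ofNat 128, .negSucc 498, .negSucc 344, .ofNat 0, .ofNat 340, .ofNat 222, .ofNat 0, .ofNat 0, .ofNat 2489, .ofNat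 283911, .ofNat 14892920650780450107389805571157213703844720641386217472, .ofNat 0, .ofNat 1458856473029155243862971887718063043155853312, .ofNat 0, .ofNat 0, .ofNat 0, .ofNat 618820449500986903679919946464642641507702013952, .ofNat 0, .ofNat 0, .ofNat 0, .ofNat 98424914172083896110092195289006709253913706496, .ofNat 0, .ofNat 0, .ofNat 0, .ofNat 302008853745186561100336992887570276481113260032, .ofNat 0⟩)
    (by decide +kernel)
theorem L03529 : Good (Phi V5.P V5.D (-1) (-1)) ⟨6, 56, 5, 19, 2, 1, 3, 3, 6, 23⟩ :=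
  leafX_sound T5.ok_mm T5.Ymm.bz_eq (w := 245) (c := ⟨⟨.negSucc 2501, .negSucc 9, .negSucc 9, .ofNat 236, .ofNat 132, .ofNat 75⟩, ⟨.ofNat 1553, .ofNat 23, .ofNat 45, .negSucc 152, .negSucc 81, .negSucc 46⟩, ⟨.ofNat 2802, .negSucc 125, .ofNat 53, .negSucc 1084, .negSucc 314, .negSucc 52⟩, ⟨.negSucc 3689, .ofNat 27, .negSucc 10, .ofNat 184, .ofNat 238, .ofNat 107⟩, ⟨.negSucc 173, .negSucc 22, .ofNat 9, .negSucc 239, .ofNat 80, .ofNat 1⟩, .ofNat 1800, .ofNat 2386, .ofNat 0, .ofNat 2386, .ofNat 3924, .ofNat 0, .ofNat 128, .negSucc 754, .negSucc 995, .ofNat 0, .ofNat 534, .ofNat 635, .ofNat 0, .ofNat 0, .ofNat 7608, .ofNat 199526, .ofNat 3362733682972841255992196841490313005486660456022016, .ofNat 0, .ofNat 157933042002151105780731047172838418022400, .ofNat 0, .ofNat 1869142209663047474772630791616863755768844922126336, .ofNat 0, .ofNat 6693927399087628788287596384557951015190528, .ofNat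 0, .ofNat 997161236961493495409748872818038870012538239582208, .ofNat 0, .ofNat 6908524675844006350726988181761126488342528, .ofNat 0, .ofNat 0, .ofNat 0, .ofNat 0, .ofNat 0⟩)
    (by decide +kernel)
theorem L03530 : Good (Phi V5.P V5.D (-1) (-1)) ⟨6, 57, 3, 4, 1, 0, 2, 1, 3, 2⟩ :=
  out_sound (S := T5.ds_mm) T5.ok_mm (w := 63) (j := 3) (by decide +kernel)
theorem L03531 : Good (Phi V5.P V5.D (-1) (-1)) ⟨5, 28, 4, 10, 2, 0, 2, 1, 4, 4⟩ :=
  leafX_sound T5.ok_mm T5.Ymm.bz_eq (w := 220) (c := ⟨⟨.negSucc 3039, .negSucc 105, .negSucc 30, .negSucc 104, .ofNat 218, .ofNat 331⟩, ⟨.ofNat 1960, .ofNat 38, .ofNat 153, .ofNat 69, .negSucc 142, .negSucc 217⟩, ⟨.ofNat 3262, .ofNat 206, .negSucc 18, .negSucc 45, .negSucc 455, .negSucc 238⟩, ⟨.negSucc 4333, .negSucc 46, .negSucc 17, .negSucc 210, .ofNat 314, .ofNat 456⟩, ⟨.ofNat 3, .ofNat 24, .negSucc 6, .negSucc 96, .ofNat 11, .negSucc 16⟩, .ofNat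 902, .ofNat 1021, .ofNat 0, .ofNat 1021, .ofNat 1781, .ofNat 0, .ofNat 128, .negSucc 570, .negSucc 264, .ofNat 0, .ofNat 442, .ofNat 166, .ofNat 0, .ofNat 0, .ofNat 1206, .ofNat 14647, .ofNat 0, .ofNat 0, .ofNat 0, .ofNat 0, .ofNat 0, .ofNat 0, .ofNat 162625410831732172142254652964449812480, .ofNat 0, .ofNat 0, .ofNat 0, .ofNat 340621504021318722131615823433708863488, .ofNat 0, .ofNat 0, .ofNat 0, .ofNat 0, .ofNat 0⟩)
    (by decide +kernel)
theorem L03532 : Good (Phi V5.P V5.D (-1) (-1)) ⟨5, 28, 4, 10, 3, 2, 2, 1, 4, 4⟩ :=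
  leafX_sound T5.ok_mm T5.Ymm.bz_eq (w := 235) (c := ⟨⟨.negSucc 3244, .negSucc 224, .ofNat 59, .negSucc 8, .ofNat 287, .ofNat 445⟩, ⟨.ofNat 2069, .ofNat 215, .ofNat 47, .ofNat 5, .negSucc 186, .negSucc 291⟩, ⟨.ofNat 3339, .ofNat 65, .ofNat 9, .negSucc 307, .negSucc 534, .negSucc 286⟩, ⟨.negSucc 4703, .negSucc 78, .ofNat 22, .negSucc 111, .ofNat 413, .ofNat 600⟩, ⟨.negSucc 77, .ofNat 40, .negSucc 34, .negSucc 150, .ofNat 14, .negSucc 41⟩, .ofNat 2570, .ofNat 3504, .ofNat 0, .ofNat 3504, .ofNat 5521, .ofNat 0, .ofNat 128, .negSucc 903, .negSucc 329, .ofNat 0, .ofNat 629, .ofNat 218, .ofNat 0, .ofNat 0, .ofNat 1319, .ofNat 33693, .ofNat 7305754873283796754460805520281949096222658658304, .ofNat 0, .ofNat 9975901471500014321503563644107208261632, .ofNat 21566479346724340650657161208585603258743089266688, .ofNat 0, .ofNat 0, .ofNat 8262022707374496452058889865410767430352896, .ofNat 0,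 .ofNat 0, .ofNat 0, .ofNat 15521495452719343807898000234666799415689216, .ofNat 0, .ofNat 0, .ofNat 0, .ofNat 4349539616775279789770615427097695967248384, .ofNat 0⟩)
    (by decide +kernel)
theorem L03533 : Good (Phi V5.P V5.D (-1) (-1)) ⟨5, 28, 4, 10, 3, 3, 2, 1, 4, 4⟩ :=
  leafX_sound T5.ok_mm T5.Ymm.bz_eq (w := 234) (c := ⟨⟨.negSucc 3334, .negSucc 149, .ofNat 17, .ofNat 88, .ofNat 330, .ofNat 529⟩, ⟨.ofNat 2138, .ofNat 105, .ofNat 111, .negSucc 57, .negSucc 214, .negSucc 346⟩, ⟨.ofNat 3097, .ofNat 32, .ofNat 15, .negSucc 515, .negSucc 569, .negSucc 355⟩, ⟨.negSucc 4938, .negSucc 51, .negSucc 2, .negSucc 42, .ofNat 516, .ofNat 739⟩, ⟨.negSucc 267, .ofNat 17, .negSucc 22, .negSucc 253, .ofNat 76, .negSucc 12⟩, .ofNat 921, .ofNat 1045, .ofNat 0, .ofNat 1045, .ofNat 1801, .ofNat 0, .ofNat 128, .negSucc 442, .negSucc 262, .ofNat 0, .ofNat 333, .ofNat 172, .ofNat 0, .ofNat 0, .ofNat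 980, .ofNat 18544, .ofNat 5673146994637866269147871108869838050432533921792, .ofNat 0, .ofNat 6800802346767257270903351412315188625408, .ofNat 0, .ofNat 0, .ofNat 0, .ofNat 1784337260115128155170192390928152588713984, .ofNat 0, .ofNat 0, .ofNat 0, .ofNat 1171077917011463453475983862896914174312448, .ofNat 2429871243515162136240826981389528391584610688958464, .ofNat 0, .ofNat 0, .ofNat 469624773414531654299157354837464705925120, .ofNat 2577704454039175797151397253961594415832356618240⟩)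
    (by decide +kernel)
theorem L03534 : Good (Phi V5.P V5.D (-1) (-1)) ⟨5, 28, 4, 10, 2, 0, 3, 2, 4, 5⟩ :=
  leafX_sound T5.ok_mm T5.Ymm.bz_eq (w := 229) (c := ⟨⟨.negSucc 2749, .negSucc 96, .negSucc 11, .negSucc 48, .ofNat 97, .ofNat 1⟩, ⟨.ofNat 1752, .ofNat 113, .ofNat 95, .ofNat 31, .negSucc 63, .negSucc 0⟩, ⟨.ofNat 3320, .ofNat 87, .ofNat 6, .negSucc 320, .negSucc 216, .negSucc 1⟩, ⟨.negSucc 3915, .negSucc 29, .ofNat 1, .negSucc 181, .ofNat 163, .ofNat 2⟩, ⟨.ofNat 55, .ofNat 12, .negSucc 3, .negSucc 180, .ofNat 8, .ofNat 0⟩, .ofNat 166, .ofNat 59, .ofNat 0, .ofNat 59, .ofNat 216, .ofNat 0, .ofNat 151, .negSucc 69, .negSucc 288, .ofNat 0, .ofNat 128, .ofNat 148, .ofNat 0, .ofNat 0, .ofNat 1037, .ofNat 551697, .ofNat 829840354187055550835809979240019290015395741696, .ofNat 0, .ofNat 3806603542369828771815974009384730624, .ofNat 0, .ofNat 639438355496437799262248360779762893769588867072,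 .ofNat 0, .ofNat 164795185641589604441344844061527244800, .ofNat 0, .ofNat 311813091015513486250975670801712470694362611712, .ofNat 0, .ofNat 0, .ofNat 0, .ofNat 3099208057227420897383160248078881194855375044608, .ofNat 0, .ofNat 194958017905602000086682958824766177280, .ofNat 0⟩)
    (by decide +kernel)
theorem L03535 : Good (Phi V5.P V5.D (-1) (-1)) ⟨5, 28, 4, 10, 2, 0, 3, 3, 5, 10⟩ :=
  leafX_sound T5.ok_mm T5.Ymm.bz_eq (w := 232) (c := ⟨⟨.negSucc 2653, .negSucc 88, .negSucc 8, .negSucc 21, .ofNat 111, .ofNat 129⟩, ⟨.ofNat 1689, .ofNat 116, .ofNat 81, .ofNat 14, .negSucc 71, .negSucc 84⟩, ⟨.ofNat 2892, .ofNat 13, .ofNat 25, .negSucc 70, .negSucc 248, .negSucc 81⟩, ⟨.negSucc 3791, .negSucc 1, .negSucc 12, .negSucc 94, .ofNat 155, .ofNat 177⟩, ⟨.ofNat 7, .negSucc 2, .negSucc 4, .negSucc 96, .negSucc 1, .negSucc 6⟩, .ofNat 2433, .ofNat 3323, .ofNat 0, .ofNat 3323, .ofNat 5293, .ofNat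 0, .ofNat 128, .negSucc 993, .negSucc 434, .ofNat 0, .ofNat 693, .ofNat 281, .ofNat 0, .ofNat 0, .ofNat 2539, .ofNat 119631, .ofNat 627809435319444660837301483251555048081248485376, .ofNat 0, .ofNat 0, .ofNat 2094272753243480648570189723590323976263887224832, .ofNat 0, .ofNat 0, .ofNat 551753945601545388207009425256411167719424, .ofNat 0, .ofNat 0, .ofNat 0, .ofNat 0, .ofNat 0, .ofNat 0, .ofNat 0, .ofNat 460323952267938759412853005714770997805056, .ofNat 0⟩)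
    (by decide +kernel)
theorem L03536 : Good (Phi V5.P V5.D (-1) (-1)) ⟨5, 28, 4, 10, 2, 0, 3, 3, 5, 11⟩ :=
  leafX_sound T5.ok_mm T5.Ymm.bz_eq (w := 232) (c := ⟨⟨.negSucc 2543, .negSucc 105, .ofNat 3, .ofNat 24, .ofNat 112, .ofNat 136⟩, ⟨.ofNat 1621, .ofNat 117, .ofNat 73, .negSucc 16, .negSucc 72, .negSucc 88⟩, ⟨.ofNat 2767, .ofNat 21, .ofNat 49, .negSucc 76, .negSucc 230, .negSucc 115⟩, ⟨.negSucc 3648, .negSucc 22, .ofNat 4, .negSucc 37, .ofNat 167, .ofNat 186⟩, ⟨.negSucc 12, .ofNat 6, .ofNat 0, .negSucc 108, .ofNat 13, .negSucc 8⟩, .ofNat 391, .ofNat 298, .ofNat 0, .ofNat 298, .ofNat 646, .ofNat 0, .ofNat 128, .negSucc 132, .negSucc 182, .ofNat 0, .ofNat 134, .ofNat 103, .ofNat 0, .ofNat 0, .ofNat 1076, .ofNat 121062, .ofNat 1342564000195238194033786101658756874908857270272, .ofNat 0, .ofNat 521826167283668984277467307851439407104, .ofNat 0, .ofNat 655184298036236955377570934457741107400458371072,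 .ofNat 0, .ofNat 11503575066813520319902528086129711775744, .ofNat 0, .ofNat 845176978279412001204493528042323035215714320384, .ofNat 0, .ofNat 28881777563408705362589983130298460667904, .ofNat 0, .ofNat 1008557918215207008684202211656962465713872699392, .ofNat 0, .ofNat 60507499580838181195821263534066491195392, .ofNat 0⟩)
    (by decide +kernel)
theorem L03537 : Good (Phi V5.P V5.D (-1) (-1)) ⟨5, 28, 4, 10, 2, 1, 3, 2, 5, 10⟩ :=
  leafX_sound T5.ok_mm T5.Ymm.bz_eq (w := 232) (c := ⟨⟨.negSucc 2897, .negSucc 84, .negSucc 2, .ofNat 171, .ofNat 160, .ofNat 207⟩, ⟨.ofNat 1853, .ofNat 89, .ofNat 95, .negSucc 114, .negSucc 105, .negSucc 134⟩, ⟨.ofNat 3225, .ofNat 44, .negSucc 12, .negSucc 927, .negSucc 347, .negSucc 137⟩, ⟨.negSucc 4178, .negSucc 1, .negSucc 40, .ofNat 43, .ofNat 208, .ofNat 243⟩, ⟨.negSucc 65, .negSucc 38, .negSucc 27, .negSucc 299, .negSucc 18, .negSucc 73⟩, .ofNat 5738,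 .ofNat 8322, .ofNat 0, .ofNat 8322, .ofNat 12870, .ofNat 0, .ofNat 128, .negSucc 1193, .negSucc 768, .ofNat 0, .ofNat 805, .ofNat 506, .ofNat 0, .ofNat 0, .ofNat 4264, .ofNat 126813, .ofNat 1407779624904641524196181503839544111765250899968, .ofNat 0, .ofNat 6374561446457039427008402479552447643648, .ofNat 0, .ofNat 1584268450881240597686729827943319789004742721536, .ofNat 0, .ofNat 1674000479767755928665812720924030989762560, .ofNat 283081824426655348909981713183872082844988483829760, .ofNat 0, .ofNat 0, .ofNat 0, .ofNat 0, .ofNat 0, .ofNat 0, .ofNat 0, .ofNat 0⟩)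
    (by decide +kernel)
theorem L03538 : Good (Phi V5.P V5.D (-1) (-1)) ⟨5, 28, 4, 10, 2, 1, 3, 2, 5, 11⟩ :=
  leafX_sound T5.ok_mm T5.Ymm.bz_eq (w := 233) (c := ⟨⟨.negSucc 2829, .negSucc 71, .ofNat 3, .ofNat 348, .ofNat 135, .ofNat 189⟩, ⟨.ofNat 1813, .ofNat 76, .ofNat 86, .negSucc 231, .negSucc 88, .negSucc 123⟩, ⟨.ofNat 3469, .ofNat 30, .negSucc 34, .negSucc 1360, .negSucc 338, .negSucc 153⟩, ⟨.negSucc 4097, .negSucc 16, .ofNat 5, .ofNat 213, .ofNat 238, .ofNat 284⟩, ⟨.negSucc 86, .ofNat 5, .negSucc 9, .negSucc 432, .ofNat 62, .ofNat 28⟩, .ofNat 166, .ofNat 59, .ofNat 0, .ofNat 59, .ofNat 216, .ofNat 0, .ofNat 147, .negSucc 78, .negSucc 90, .ofNat 0, .ofNat 128, .ofNat 52, .ofNat 0, .ofNat 0, .ofNat 460, .ofNat 193981, .ofNat 3307156326091075355790121342010781098464570769408, .ofNat 0, .ofNat 5854073445319068206120792199920028221440, .ofNat 0, .ofNat 1161803221343355435414489094243888006890533158912,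 .ofNat 0, .ofNat 0, .ofNat 0, .ofNat 1594516042195970042090379285430485273007026601984, .ofNat 0, .ofNat 2366642965069627313480562462688708395008, .ofNat 0, .ofNat 4171694309165261306878367666805817884632699371520, .ofNat 0, .ofNat 6483900350917354026225973502793910059008, .ofNat 0⟩)
    (by decide +kernel)
theorem L03539 : Good (Phi V5.P V5.D (-1) (-1)) ⟨5, 28, 4, 10, 2, 1, 4, 6, 5, 10⟩ :=
  leafX_sound T5.ok_mm T5.Ymm.bz_eq (w := 234) (c := ⟨⟨.negSucc 2736, .negSucc 132, .ofNat 33, .ofNat 184, .ofNat 65, .ofNat 200⟩, ⟨.ofNat 1750, .ofNat 112, .ofNat 73, .negSucc 122, .negSucc 42, .negSucc 130⟩, ⟨.ofNat 2883, .ofNat 110, .negSucc 66, .negSucc 942, .negSucc 137, .negSucc 148⟩, ⟨.negSucc 3982, .negSucc 67, .ofNat 38, .ofNat 37, .ofNat 111, .ofNat 283⟩, ⟨.negSucc 112, .negSucc 2, .negSucc 5, .negSucc 334, .ofNat 30, .ofNat 2⟩, .ofNat 391, .ofNat 298, .ofNat 0, .ofNat 298, .ofNat 646,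 .ofNat 0, .ofNat 128, .negSucc 189, .negSucc 200, .ofNat 0, .ofNat 184, .ofNat 123, .ofNat 0, .ofNat 0, .ofNat 1036, .ofNat 46485, .ofNat 3096648350567286643918388403733645957109381070848, .ofNat 0, .ofNat 10637258390985737616667900742553584009216, .ofNat 0, .ofNat 0, .ofNat 0, .ofNat 586441907776998297555520492506348483772416, .ofNat 0, .ofNat 0, .ofNat 0, .ofNat 404387563447735535222608141395056786407424, .ofNat 324521611431607419341407206283052042928108983025664, .ofNat 0, .ofNat 0, .ofNat 716871306844091834195436539575239698284544, .ofNat 0⟩)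
    (by decide +kernel)
theorem L03540 : Good (Phi V5.P V5.D (-1) (-1)) ⟨5, 28, 4, 10, 2, 1, 4, 7, 5, 10⟩ :=
  leafX_sound T5.ok_mm T5.Ymm.bz_eq (w := 233) (c := ⟨⟨.negSucc 2642, .negSucc 155, .ofNat 28, .ofNat 179, .ofNat 73, .ofNat 180⟩, ⟨.ofNat 1683, .ofNat 155, .ofNat 60, .negSucc 119, .negSucc 47, .negSucc 117⟩, ⟨.ofNat 2681, .ofNat 147, .negSucc 39, .negSucc 907, .negSucc 151, .negSucc 128⟩, ⟨.negSucc 3854, .negSucc 81, .ofNat 34, .ofNat 62, .ofNat 116, .ofNat 253⟩, ⟨.negSucc 117, .ofNat 24, .negSucc 2, .negSucc 288, .ofNat 20, .ofNat 0⟩, .ofNat 390, .ofNat 297, .ofNat 0, .ofNat 297, .ofNat 646, .ofNat 0, .ofNat 128, .negSucc 199, .negSucc 252, .ofNat 0, .ofNat 194, .ofNat 151, .ofNat 0, .ofNat 0, .ofNat 1287, .ofNat 24708, .ofNat 0, .ofNat 0, .ofNat 0, .ofNat 0, .ofNat 0, .ofNat 0, .ofNat 195652853280589953513415364822057193832448, .ofNat 0, .ofNat 0, .ofNat 0, .ofNat 617254167745300474725258680315791376646144,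 .ofNat 583733910567926504591242308563771611586246832291840, .ofNat 0, .ofNat 0, .ofNat 0, .ofNat 0⟩)
    (by decide +kernel)
theorem L03541 : Good (Phi V5.P V5.D (-1) (-1)) ⟨5, 28, 4, 10, 3, 2, 3, 3, 6, 22⟩ :=
  leafX_sound T5.ok_mm T5.Ymm.bz_eq (w := 250) (c := ⟨⟨.negSucc 2568, .negSucc 52, .negSucc 19, .ofNat 76, .ofNat 147, .ofNat 78⟩, ⟨.ofNat 1641, .ofNat 67, .ofNat 96, .negSucc 49, .negSucc 95, .negSucc 50⟩, ⟨.ofNat 2750, .negSucc 11, .ofNat 40, .negSucc 373, .negSucc 312, .negSucc 51⟩, ⟨.negSucc 3760, .ofNat 17, .negSucc 14, .ofNat 37, .ofNat 231, .ofNat 109⟩, ⟨.negSucc 141, .negSucc 9, .ofNat 7, .negSucc 104, .ofNat 37, .negSucc 0⟩, .ofNat 390, .ofNat 297, .ofNat 0, .ofNat 297, .ofNat 646, .ofNat 0, .ofNat 155, .negSucc 127, .negSucc 159, .ofNat 0, .ofNat 126, .ofNat 94, .ofNat 0, .ofNat 0, .ofNat 935, .ofNat 96645, .ofNat 37436945438409693274568724540817286474157851559329792,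 .ofNat 0, .ofNat 1204293986625483502404538347408474842438041600, .ofNat 0, .ofNat 18301786141847359693429047354521652520977648045785088, .ofNat 0, .ofNat 6484352306590974475778619378302707303356301312, .ofNat 0, .ofNat 6911191784820244631687218744160010841698481035280384, .ofNat 0, .ofNat 27645558063359468043104701260464487312803233792, .ofNat 0, .ofNat 0, .ofNat 0, .ofNat 54596526974388361918100491544703296166944571392, .ofNat 0⟩)
    (by decide +kernel)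
theorem L03542 : Good (Phi V5.P V5.D (-1) (-1)) ⟨5, 28, 4, 10, 3, 3, 3, 3, 6, 22⟩ :=
  leafX_sound T5.ok_mm T5.Ymm.bz_eq (w := 251) (c := ⟨⟨.negSucc 2495, .negSucc 81, .ofNat 6, .ofNat 149, .ofNat 149, .ofNat 85⟩, ⟨.ofNat 1589, .ofNat 97, .ofNat 73, .negSucc 98, .negSucc 97, .negSucc 55⟩, ⟨.ofNat 2393, .ofNat 69, .negSucc 47, .negSucc 634, .negSucc 345, .negSucc 62⟩, ⟨.negSucc 3745, .ofNat 8, .negSucc 3, .ofNat 96, .ofNat 251, .ofNat 125⟩, ⟨.negSucc 273, .ofNat 4, .negSucc 1, .negSucc 173, .ofNat 64, .ofNat 8⟩, .ofNat 905, .ofNat 1025, .ofNat 0, .ofNat 1025, .ofNat 1785, .ofNat 0, .ofNat 128, .negSucc 321, .negSucc 189, .ofNat 0, .ofNat 245, .ofNat 121, .ofNat 0, .ofNat 0, .ofNat 1353, .ofNat 125618, .ofNat 52530633577115122862015601606429969759254971905212416, .ofNat 0, .ofNat 900887063438608766696788747151968473008046080, .ofNat 0, .ofNat 0, .ofNat 0, .ofNat 81086287546230955880964762296536275411699499008,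 .ofNat 0, .ofNat 0, .ofNat 0, .ofNat 137211736461119530826603289179557900258759409664, .ofNat 0, .ofNat 0, .ofNat 0, .ofNat 9584834624580928364105610538808287370944708608, .ofNat 118269941008680006790643475866260663336719339254615900160⟩)
    (by decide +kernel)
theorem L03543 : Good (Phi V5.P V5.D (-1) (-1)) ⟨5, 28, 4, 10, 2, 1, 3, 3, 6, 23⟩ :=
  leafX_sound T5.ok_mm T5.Ymm.bz_eq (w := 237) (c := ⟨⟨.negSucc 2481, .negSucc 106, .ofNat 12, .ofNat 226, .ofNat 132, .ofNat 71⟩, ⟨.ofNat 1585, .ofNat 101, .ofNat 71, .negSucc 149, .negSucc 85, .negSucc 45⟩, ⟨.ofNat 2706, .ofNat 173, .negSucc 59, .negSucc 1031, .negSucc 307, .negSucc 40⟩, ⟨.negSucc 3661, .negSucc 24, .ofNat 5, .ofNat 170, .ofNat 230, .ofNat 99⟩, ⟨.negSucc 179, .ofNat 17, .negSucc 6, .negSucc 226, .ofNat 72, .negSucc 2⟩, .ofNat 2570, .ofNat 3504, .ofNat 0, .ofNat 3504, .ofNat 5521, .ofNat 0, .ofNat 128, .negSucc 1026, .negSucc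 1154, .ofNat 0, .ofNat 715, .ofNat 759, .ofNat 0, .ofNat 0, .ofNat 8748, .ofNat 143317, .ofNat 18626893238158344510966867315089981575238923583488, .ofNat 0, .ofNat 40731684201623056649180639041126704087040, .ofNat 0, .ofNat 11679785792565364560895398601012263032563699810304, .ofNat 0, .ofNat 22420669341483930415209567445595752847376384, .ofNat 3898360926978531634960329255622666613838092114591744, .ofNat 0, .ofNat 0, .ofNat 0, .ofNat 0, .ofNat 0, .ofNat 0, .ofNat 0, .ofNat 0⟩)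
    (by decide +kernel)
theorem L03544 : Good (Phi V5.P V5.D (-1) (-1)) ⟨6, 56, 4, 11, 1, 0, 2, 1, 3, 2⟩ :=
  out_sound (S := T5.ds_mm) T5.ok_mm (w := 65) (j := 3) (by decide +kernel)
theorem L03545 : Good (Phi V5.P V5.D (-1) (-1)) ⟨7, 114, 5, 22, 1, 0, 2, 1, 3, 2⟩ :=
  out_sound (S := T5.ds_mm) T5.ok_mm (w := 73) (j := 3) (by decide +kernel)
theorem L03546 : Good (Phi V5.P V5.D (-1) (-1)) ⟨7, 115, 5, 22, 1, 0, 2, 1, 3, 2⟩ :=
  out_sound (S := T5.ds_mm) T5.ok_mm (w := 21) (j := 4) (by decide +kernel)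
theorem L03547 : Good (Phi V5.P V5.D (-1) (-1)) ⟨6, 57, 5, 23, 1, 0, 2, 1, 3, 2⟩ :=
  out_sound (S := T5.ds_mm) T5.ok_mm (w := 67) (j := 3) (by decide +kernel)
theorem L03548 : Good (Phi V5.P V5.D (-1) (-1)) ⟨5, 29, 2, 2, 1, 0, 1, 0, 3, 2⟩ :=
  out_sound (S := T5.ds_mm) T5.ok_mm (w := 17) (j := 4) (by decide +kernel)
theorem L03549 : Good (Phi V5.P V5.D (-1) (-1)) ⟨4, 14, 2, 2, 1, 0, 2, 0, 4, 6⟩ :=
  out_sound (S := T5.ds_mm) T5.ok_mm (w := 22) (j := 1) (by decide +kernel)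
theorem L03550 : Good (Phi V5.P V5.D (-1) (-1)) ⟨4, 14, 2, 2, 2, 0, 2, 1, 4, 6⟩ :=
  out_sound (S := T5.ds_mm) T5.ok_mm (w := 24) (j := 1) (by decide +kernel)
theorem L03551 : Good (Phi V5.P V5.D (-1) (-1)) ⟨4, 14, 2, 2, 2, 1, 3, 2, 4, 6⟩ :=
  out_sound (S := T5.ds_mm) T5.ok_mm (w := 25) (j := 1) (by decide +kernel)
theorem L03552 : Good (Phi V5.P V5.D (-1) (-1)) ⟨4, 14, 2, 2, 2, 1, 4, 6, 5, 12⟩ :=
  leafX_sound T5.ok_mm T5.Ymm.bz_eq (w := 228) (c := ⟨⟨.negSucc 2488, .negSucc 121, .ofNat 9, .ofNat 309, .ofNat 59, .ofNat 142⟩, ⟨.ofNat 1439, .ofNat 141, .ofNat 301, .negSucc 205, .negSucc 38, .negSucc 91⟩, ⟨.ofNat 3221, .negSucc 50, .negSucc 65, .negSucc 1560, .negSucc 182, .negSucc 168⟩, ⟨.negSucc 3647, .ofNat 1, .negSucc 5, .ofNat 263, .ofNat 120, .ofNat 227⟩, ⟨.negSucc 141, .negSucc 11, .negSucc 8, .negSucc 280, .ofNat 52, .ofNat 40⟩, .ofNat 166, .ofNat 58, .ofNat 0, .ofNat 58, .ofNat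 216, .ofNat 0, .ofNat 128, .negSucc 102, .negSucc 116, .ofNat 0, .ofNat 175, .ofNat 52, .ofNat 0, .ofNat 0, .ofNat 960, .ofNat 547087, .ofNat 109730918058641625408440243417690048529594056704, .ofNat 0, .ofNat 0, .ofNat 0, .ofNat 10171534195254828687066950916991485073371955200, .ofNat 0, .ofNat 6229516500557158820501706739072593035264, .ofNat 0, .ofNat 15645595459904986292437518220409936850347622400, .ofNat 0, .ofNat 16654851540225372421302184070987760271360, .ofNat 0, .ofNat 135838824790917907242407660286661697814313041920, .ofNat 0, .ofNat 326937127804860649201170269146253809942528, .ofNat 139632419989960611324768423481170697669503352832⟩)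
    (by decide +kernel)
theorem L03553 : Good (Phi V5.P V5.D (-1) (-1)) ⟨4, 14, 2, 2, 2, 1, 4, 7, 5, 12⟩ :=
  leafX_sound T5.ok_mm T5.Ymm.bz_eq (w := 226) (c := ⟨⟨.negSucc 2383, .negSucc 104, .negSucc 15, .ofNat 275, .ofNat 65, .ofNat 121⟩, ⟨.ofNat 1375, .ofNat 135, .ofNat 296, .negSucc 176, .negSucc 40, .negSucc 80⟩, ⟨.ofNat 2823, .ofNat 97, .negSucc 139, .negSucc 1292, .negSucc 162, .negSucc 254⟩, ⟨.negSucc 3505, .ofNat 18, .negSucc 16, .ofNat 248, .ofNat 126, .ofNat 202⟩, ⟨.negSucc 153, .negSucc 26, .ofNat 10, .negSucc 221, .ofNat 51, .ofNat 51⟩, .ofNat 884, .ofNat 998, .ofNat 0, .ofNat 998, .ofNat 1759, .ofNat 0, .ofNat 128, .negSucc 545, .negSucc 237, .ofNat 0, .ofNat 417, .ofNat 144, .ofNat 0, .ofNat 0, .ofNat 2904, .ofNat 97929, .ofNat 17879979092529354766333777370490800654329577472, .ofNat 0, .ofNat 36201109926342626064439798944581533302784, .ofNat 104239344730119003965928372653907029144878710784,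 .ofNat 5046954608851358212594800809127604136013987840, .ofNat 0, .ofNat 444374103291109447429663089431646258069504, .ofNat 2327629397007858373508673382091867703298200961024, .ofNat 0, .ofNat 0, .ofNat 1228186731138053080686575060708356056416256, .ofNat 14514842460612104485661261310904892217788135899136, .ofNat 0, .ofNat 0, .ofNat 0, .ofNat 0⟩)
    (by decide +kernel)
theorem L03554 : Good (Phi V5.P V5.D (-1) (-1)) ⟨4, 14, 2, 2, 2, 1, 3, 3, 5, 13⟩ :=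
  leafX_sound T5.ok_mm T5.Ymm.bz_eq (w := 224) (c := ⟨⟨.negSucc 2025, .negSucc 121, .ofNat 8, .negSucc 0, .ofNat 86, .ofNat 1⟩, ⟨.ofNat 1150, .ofNat 135, .ofNat 271, .ofNat 1, .negSucc 53, .negSucc 0⟩, ⟨.ofNat 1476, .negSucc 81, .negSucc 127, .ofNat 1, .negSucc 380, .negSucc 0⟩, ⟨.negSucc 3155, .ofNat 8, .negSucc 7, .negSucc 1, .ofNat 220, .ofNat 2⟩, ⟨.negSucc 404, .negSucc 3, .negSucc 0, .ofNat 0, .ofNat 144, .ofNat 0⟩, .ofNat 166, .ofNat 58, .ofNat 0, .ofNat 58, .ofNat 217, .ofNat 0, .ofNat 141, .negSucc 72, .negSucc 16, .ofNat 0, .ofNat 128, .negSucc 2, .ofNat 0, .ofNat 0, .ofNat 380, .ofNat 821815, .ofNat 26078775209977919754961299854597743458295742464, .ofNat 0, .ofNat 0, .ofNat 0, .ofNat 2840004627489320756617951007070440591445721088, .ofNat 0, .ofNat 415236038975278809898759961066931748864, .ofNat 0, .ofNat 1919201017748346799008135606185794898176770048, .ofNat 0, .ofNat 0,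 .ofNat 0, .ofNat 7812260584663723681219294634779275082917216256, .ofNat 0, .ofNat 1968011951491129637776999812177395187712, .ofNat 13574561682615098811180616290728488584460894208⟩)
    (by decide +kernel)
theorem L03555 : Good (Phi V5.P V5.D (-1) (-1)) ⟨4, 14, 2, 2, 1, 0, 1, 0, 4, 7⟩ :=
  out_sound (S := T5.ds_mm) T5.ok_mm (w := 21) (j := 1) (by decide +kernel)
theorem L03556 : Good (Phi V5.P V5.D (-1) (-1)) ⟨5, 28, 3, 6, 1, 0, 1, 0, 2, 1⟩ :=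
  out_sound (S := T5.ds_mm) T5.ok_mm (w := 57) (j := 3) (by decide +kernel)
theorem L03557 : Good (Phi V5.P V5.D (-1) (-1)) ⟨5, 29, 3, 6, 1, 0, 1, 0, 2, 1⟩ :=
  out_sound (S := T5.ds_mm) T5.ok_mm (w := 17) (j := 4) (by decide +kernel)
theorem L03558 : Good (Phi V5.P V5.D (-1) (-1)) ⟨4, 14, 3, 7, 1, 0, 1, 0, 2, 1⟩ :=
  out_sound (S := T5.ds_mm) T5.ok_mm (w := 51) (j := 3) (by decide +kernel)
theorem L03559 : Good (Phi V5.P V5.D (-1) (-1)) ⟨4, 15, 1, 1, 1, 0, 1, 0, 2, 1⟩ :=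
  out_sound (S := T5.ds_mm) T5.ok_mm (w := 15) (j := 4) (by decide +kernel)
theorem L03560 : Good (Phi V5.P V5.D (-1) (-1)) ⟨1, 1, 1, 1, 1, 0, 1, 0, 1, 1⟩ :=
  out_sound (S := T5.ds_mm) T5.ok_mm (w := 15) (j := 1) (by decide +kernel)
theorem L03561 : Good (Phi V5.P V5.D (-1) (-1)) ⟨2, 2, 3, 4, 2, 0, 2, 2, 4, 0⟩ :=
  out_sound (S := T5.ds_mm) T5.ok_mm (w := 39) (j := 3) (by decide +kernel)
theorem L03562 : Good (Phi V5.P V5.D (-1) (-1)) ⟨4, 12, 3, 4, 2, 0, 2, 2, 5, 0⟩ :=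
  out_sound (S := T5.ds_mm) T5.ok_mm (w := 51) (j := 3) (by decide +kernel)
theorem L03563 : Good (Phi V5.P V5.D (-1) (-1)) ⟨4, 13, 3, 4, 2, 0, 2, 2, 6, 0⟩ :=
  leafX_sound T5.ok_mm T5.Ymm.bz_eq (w := 223) (c := ⟨⟨.ofNat 2293, .negSucc 769, .ofNat 412, .ofNat 883, .negSucc 4201, .negSucc 2168⟩, ⟨.negSucc 1540, .ofNat 643, .negSucc 263, .negSucc 549, .ofNat 2553, .ofNat 1289⟩, ⟨.negSucc 2317, .ofNat 726, .negSucc 411, .negSucc 1130, .ofNat 4101, .ofNat 2136⟩, ⟨.ofNat 3762, .negSucc 958, .negSucc 36, .ofNat 1554, .negSucc 7116, .negSucc 3213⟩, ⟨.ofNat 1141, .negSucc 242, .negSucc 952, .ofNat 509, .negSucc 1776, .negSucc 145⟩, .ofNat 1577, .ofNat 2173, .ofNat 0, .ofNat 2173, .ofNat 3874, .ofNat 0, .ofNat 128, .negSucc 406, .negSucc 1893, .ofNat 0, .ofNat 276, .ofNat 1094, .ofNat 0, .ofNat 0, .ofNat 2098, .ofNat 260, .ofNat 0, .ofNat 0, .ofNat 0, .ofNat 0, .ofNat 0, .ofNat 0, .ofNat 32203817795564131914804446437430035218432,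 .ofNat 0, .ofNat 0, .ofNat 0, .ofNat 0, .ofNat 0, .ofNat 0, .ofNat 0, .ofNat 125702855391811037947743657016221092544512, .ofNat 0⟩)
    (by decide +kernel)
theorem L03564 : Good (Phi V5.P V5.D (-1) (-1)) ⟨4, 13, 3, 4, 2, 0, 2, 2, 6, 1⟩ :=
  leafX_sound T5.ok_mm T5.Ymm.bz_eq (w := 220) (c := ⟨⟨.negSucc 518, .negSucc 1636, .ofNat 335, .ofNat 680, .negSucc 2006, .negSucc 725⟩, ⟨.ofNat 204, .ofNat 1036, .negSucc 27, .negSucc 402, .ofNat 1180, .ofNat 402⟩, ⟨.ofNat 481, .ofNat 1596, .negSucc 338, .negSucc 1082, .ofNat 1981, .ofNat 728⟩, ⟨.negSucc 910, .negSucc 2056, .ofNat 407, .ofNat 797, .negSucc 3033, .negSucc 980⟩, ⟨.negSucc 27, .ofNat 203, .negSucc 181, .negSucc 378, .negSucc 97, .ofNat 189⟩, .ofNat 746, .ofNat 825, .ofNat 0, .ofNat 825, .ofNat 1628, .ofNat 0, .ofNat 128, .negSucc 282, .negSucc 1272, .ofNat 0, .ofNat 217, .ofNat 697, .ofNat 0, .ofNat 0, .ofNat 1473, .ofNat 665, .ofNat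 0, .ofNat 0, .ofNat 0, .ofNat 0, .ofNat 0, .ofNat 0, .ofNat 0, .ofNat 0, .ofNat 0, .ofNat 0, .ofNat 28331112114856597896904838805175910006784, .ofNat 0, .ofNat 0, .ofNat 0, .ofNat 0, .ofNat 0⟩)
    (by decide +kernel)
theorem L03565 : Good (Phi V5.P V5.D (-1) (-1)) ⟨3, 6, 3, 4, 2, 0, 2, 2, 5, 1⟩ :=
  leafX_sound T5.ok_mm T5.Ymm.bz_eq (w := 213) (c := ⟨⟨.negSucc 704, .negSucc 2527, .ofNat 253, .negSucc 331, .negSucc 544, .negSucc 249⟩, ⟨.ofNat 26, .ofNat 1845, .ofNat 46, .ofNat 201, .ofNat 325, .ofNat 148⟩, ⟨.ofNat 717, .ofNat 2428, .negSucc 248, .negSucc 120, .ofNat 536, .ofNat 275⟩, ⟨.negSucc 1992, .negSucc 2498, .ofNat 113, .negSucc 566, .negSucc 814, .negSucc 244⟩, ⟨.negSucc 206, .ofNat 343, .negSucc 317, .negSucc 177, .negSucc 31, .ofNat 214⟩, .ofNat 1559, .ofNat 2140, .ofNat 0, .ofNat 2140, .ofNat 3813, .ofNat 0, .ofNat 128, .negSucc 429, .negSucc 1414, .ofNat 0, .ofNat 292,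 .ofNat 819, .ofNat 0, .ofNat 0, .ofNat 1853, .ofNat 574, .ofNat 0, .ofNat 0, .ofNat 0, .ofNat 0, .ofNat 0, .ofNat 0, .ofNat 2109083785544957015954677206589202497536, .ofNat 0, .ofNat 0, .ofNat 0, .ofNat 2611837452691937134517503789600348307456, .ofNat 0, .ofNat 0, .ofNat 0, .ofNat 0, .ofNat 0⟩)
    (by decide +kernel)
theorem L03566 : Good (Phi V5.P V5.D (-1) (-1)) ⟨6, 56, 4, 8, 2, 0, 2, 2, 5, 0⟩ :=
  out_sound (S := T5.ds_mm) T5.ok_mm (w := 65) (j := 3) (by decide +kernel)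
theorem L03567 : Good (Phi V5.P V5.D (-1) (-1)) ⟨6, 56, 4, 9, 2, 0, 2, 2, 6, 0⟩ :=
  leafX_sound T5.ok_mm T5.Ymm.bz_eq (w := 237) (c := ⟨⟨.ofNat 1388, .negSucc 1048, .ofNat 918, .ofNat 1932, .negSucc 5868, .negSucc 2461⟩, ⟨.negSucc 956, .ofNat 677, .negSucc 509, .negSucc 1225, .ofNat 3735, .ofNat 1566⟩, ⟨.negSucc 1498, .ofNat 818, .negSucc 771, .negSucc 2155, .ofNat 5723, .ofNat 2405⟩, ⟨.ofNat 2031, .negSucc 1118, .ofNat 1199, .ofNat 2473, .negSucc 8432, .negSucc 3478⟩, ⟨.ofNat 32, .ofNat 331, .negSucc 52, .negSucc 453, .negSucc 42, .ofNat 36⟩, .ofNat 2071, .ofNat 2833, .ofNat 0, .ofNat 2833, .ofNat 4665, .ofNat 0, .ofNat 128, .negSucc 625, .negSucc 4365, .ofNat 0, .ofNat 432, .ofNat 2720, .ofNat 0, .ofNat 0, .ofNat 4695, .ofNat 718, .ofNat 0, .ofNat 0, .ofNat 0, .ofNat 0, .ofNat 0, .ofNat 0, .ofNat 61110467933895602485680523015517812817920, .ofNat 0, .ofNat 0, .ofNat 0, .ofNat 49077350913534403216210613626591279841280,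 .ofNat 0, .ofNat 0, .ofNat 0, .ofNat 290958163706242751299738972952390411485184, .ofNat 0⟩)
    (by decide +kernel)
theorem L03568 : Good (Phi V5.P V5.D (-1) (-1)) ⟨6, 56, 4, 9, 2, 0, 2, 2, 6, 1⟩ :=
  leafX_sound T5.ok_mm T5.Ymm.bz_eq (w := 237) (c := ⟨⟨.negSucc 1564, .negSucc 612, .negSucc 212, .ofNat 665, .negSucc 2360, .negSucc 479⟩, ⟨.ofNat 903, .ofNat 393, .ofNat 246, .negSucc 424, .ofNat 1497, .ofNat 296⟩, ⟨.ofNat 1485, .ofNat 563, .ofNat 236, .negSucc 1100, .ofNat 2339, .ofNat 489⟩, ⟨.negSucc 2198, .negSucc 566, .negSucc 403, .ofNat 843, .negSucc 3486, .negSucc 610⟩, ⟨.ofNat 54, .ofNat 350, .negSucc 132, .negSucc 177, .negSucc 158, .ofNat 122⟩, .ofNat 2039, .ofNat 2784, .ofNat 0, .ofNat 2784, .ofNat 4591, .ofNat 0, .ofNat 128, .negSucc 1050, .negSucc 4299, .ofNat 0, .ofNat 727, .ofNat 2677, .ofNat 0, .ofNat 0, .ofNat 4933, .ofNat 1779, .ofNat 0, .ofNat 0, .ofNat 0, .ofNat 0,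 .ofNat 0, .ofNat 0, .ofNat 59893017759433693844202910870741217968128, .ofNat 0, .ofNat 0, .ofNat 0, .ofNat 0, .ofNat 0, .ofNat 0, .ofNat 0, .ofNat 0, .ofNat 0⟩)
    (by decide +kernel)
theorem L03569 : Good (Phi V5.P V5.D (-1) (-1)) ⟨6, 57, 3, 4, 2, 0, 2, 2, 5, 0⟩ :=
  out_sound (S := T5.ds_mm) T5.ok_mm (w := 63) (j := 3) (by decide +kernel)
theorem L03570 : Good (Phi V5.P V5.D (-1) (-1)) ⟨6, 56, 4, 8, 2, 0, 2, 2, 5, 1⟩ :=
  out_sound (S := T5.ds_mm) T5.ok_mm (w := 65) (j := 3) (by decide +kernel)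
theorem L03571 : Good (Phi V5.P V5.D (-1) (-1)) ⟨6, 56, 4, 9, 2, 0, 2, 2, 5, 1⟩ :=
  leafX_sound T5.ok_mm T5.Ymm.bz_eq (w := 229) (c := ⟨⟨.negSucc 3211, .negSucc 1028, .ofNat 442, .negSucc 168, .negSucc 647, .negSucc 259⟩, ⟨.ofNat 1933, .ofNat 693, .negSucc 168, .ofNat 106, .ofNat 414, .ofNat 164⟩, ⟨.ofNat 3140, .ofNat 1075, .negSucc 464, .negSucc 311, .ofNat 644, .ofNat 295⟩, ⟨.negSucc 4465, .negSucc 1174, .ofNat 435, .negSucc 274, .negSucc 978, .negSucc 336⟩, ⟨.ofNat 215, .ofNat 345, .negSucc 337, .negSucc 67, .negSucc 47, .ofNat 58⟩, .ofNat 1326, .ofNat 1682, .ofNat 0, .ofNat 1682, .ofNat 2865, .ofNat 0, .ofNat 128, .negSucc 785, .negSucc 2606, .ofNat 0, .ofNat 565, .ofNat 1600, .ofNat 0, .ofNat 0, .ofNat 3323, .ofNat 2794, .ofNat 0, .ofNat 0, .ofNat 0, .ofNat 0, .ofNat 0, .ofNat 0, .ofNat 274395222900098446557565881913628950528, .ofNat 0, .ofNat 0, .ofNat 0, .ofNat 403886212993550853094170488249807536128,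 .ofNat 0, .ofNat 0, .ofNat 0, .ofNat 12481638659761774485844525624094250500096, .ofNat 0⟩)
    (by decide +kernel)
theorem L03572 : Good (Phi V5.P V5.D (-1) (-1)) ⟨6, 57, 3, 4, 2, 0, 2, 2, 5, 1⟩ :=
  out_sound (S := T5.ds_mm) T5.ok_mm (w := 63) (j := 3) (by decide +kernel)
theorem L03573 : Good (Phi V5.P V5.D (-1) (-1)) ⟨5, 29, 3, 4, 2, 0, 2, 2, 4, 0⟩ :=
  out_sound (S := T5.ds_mm) T5.ok_mm (w := 57) (j := 3) (by decide +kernel)
theorem L03574 : Good (Phi V5.P V5.D (-1) (-1)) ⟨4, 15, 3, 4, 2, 0, 2, 2, 4, 0⟩ :=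
  out_sound (S := T5.ds_mm) T5.ok_mm (w := 51) (j := 3) (by decide +kernel)
theorem L03575 : Good (Phi V5.P V5.D (-1) (-1)) ⟨2, 2, 3, 4, 2, 0, 2, 2, 4, 1⟩ :=
  out_sound (S := T5.ds_mm) T5.ok_mm (w := 39) (j := 3) (by decide +kernel)
theorem L03576 : Good (Phi V5.P V5.D (-1) (-1)) ⟨3, 6, 3, 4, 2, 0, 2, 2, 4, 1⟩ :=
  leafX_sound T5.ok_mm T5.Ymm.bz_eq (w := 207) (c := ⟨⟨.negSucc 2485, .negSucc 1227, .negSucc 1, .negSucc 423, .ofNat 327, .ofNat 256⟩, ⟨.ofNat 1199, .ofNat 920, .ofNat 246, .ofNat 245, .negSucc 189, .negSucc 147⟩, ⟨.ofNat 2632, .ofNat 979, .ofNat 74, .negSucc 3, .negSucc 381, .negSucc 201⟩, ⟨.negSucc 4534, .negSucc 768, .negSucc 57, .negSucc 618, .ofNat 461, .ofNat 436⟩, ⟨.negSucc 575, .ofNat 653, .negSucc 154, .negSucc 7, .negSucc 19, .ofNat 115⟩, .ofNat 1540, .ofNat 2114, .ofNat 0, .ofNat 2114, .ofNat 3786, .ofNat 0, .ofNat 128, .negSucc 494, .negSucc 856, .ofNat 0, .ofNat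 335, .ofNat 495, .ofNat 0, .ofNat 0, .ofNat 1408, .ofNat 1344, .ofNat 0, .ofNat 0, .ofNat 0, .ofNat 0, .ofNat 0, .ofNat 0, .ofNat 114282881319213516414514562354802327552, .ofNat 0, .ofNat 0, .ofNat 0, .ofNat 96831823524472696154902491936954777600, .ofNat 0, .ofNat 0, .ofNat 0, .ofNat 0, .ofNat 0⟩)
    (by decide +kernel)
theorem L03577 : Good (Phi V5.P V5.D (-1) (-1)) ⟨3, 7, 3, 4, 2, 0, 2, 2, 4, 1⟩ :=
  leafX_sound T5.ok_mm T5.Ymm.bz_eq (w := 207) (c := ⟨⟨.negSucc 3737, .negSucc 1459, .ofNat 47, .negSucc 539, .ofNat 266, .ofNat 357⟩, ⟨.ofNat 2162, .ofNat 1234, .ofNat 185, .ofNat 342, .negSucc 167, .negSucc 224⟩, ⟨.ofNat 3566, .ofNat 937, .ofNat 121, .ofNat 108, .negSucc 324, .negSucc 317⟩, ⟨.negSucc 5285, .negSucc 1047, .ofNat 4, .negSucc 763, .ofNat 356, .ofNat 525⟩, ⟨.ofNat 51, .ofNat 251, .negSucc 37, .ofNat 19, .negSucc 26, .ofNat 17⟩, .ofNat 845, .ofNat 950, .ofNat 0, .ofNat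 950, .ofNat 1718, .ofNat 0, .ofNat 128, .negSucc 372, .negSucc 832, .ofNat 0, .ofNat 288, .ofNat 498, .ofNat 0, .ofNat 0, .ofNat 1305, .ofNat 2200, .ofNat 0, .ofNat 0, .ofNat 903353602091462532790416465125703680, .ofNat 0, .ofNat 0, .ofNat 0, .ofNat 71575201768061909782475391949405683712, .ofNat 0, .ofNat 0, .ofNat 0, .ofNat 99967653429105179585315469783545675776, .ofNat 92538978640078244541474546674921730463498240, .ofNat 0, .ofNat 0, .ofNat 440772253903282666973385725878936272896, .ofNat 0⟩)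
    (by decide +kernel)
theorem L03578 : Good (Phi V5.P V5.D (-1) (-1)) ⟨2, 2, 3, 4, 2, 0, 2, 2, 3, 1⟩ :=
  out_sound (S := T5.ds_mm) T5.ok_mm (w := 39) (j := 3) (by decide +kernel)

end Crest.Agent.R097C5.N5mm
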