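import Crest.Agent.R097.KP7
import Crest.Agent.R097.T5Ymm

/-!
# Row 97, box cover in dimension n = 5 (generated)
-/

set_option autoImplicit false
set_option Elab.async false
set_option maxHeartbeats 0
set_option maxRecDepth 100000

open Crest.Agent.R097 Crest.Agent.R097.KA


namespace Crest.Agent.R097C5.N5mm

theorem L03579 : Good (Phi V5.P V5.D (-1) (-1)) ⟨2, 3, 3, 4, 2, 0, 2, 2, 3, 1⟩ :=
  leafX_sound T5.ok_mm T5.Ymm.bz_eq (w := 196) (c := ⟨⟨.negSucc 2915, .negSucc 1142, .negSucc 29, .negSucc 186, .ofNat 339, .ofNat 722⟩, ⟨.ofNat 1525, .ofNat 914, .ofNat 250, .ofNat 111, .negSucc 197, .negSucc 430⟩, ⟨.ofNat 2990, .ofNat 784, .ofNat 99, .negSucc 64, .negSucc 486, .negSucc 602⟩, ⟨.negSucc 4650, .negSucc 816, .ofNat 38, .negSucc 299, .ofNat 515, .ofNat 1038⟩, ⟨.ofNat 6, .ofNat 35, .ofNat 9, .negSucc 39, .ofNat 14, .negSucc 31⟩, .ofNat 368, .ofNat 264, .ofNat 0, .ofNat 264, .ofNat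 644, .ofNat 0, .ofNat 128, .negSucc 126, .negSucc 141, .ofNat 0, .ofNat 131, .ofNat 71, .ofNat 0, .ofNat 0, .ofNat 335, .ofNat 465, .ofNat 0, .ofNat 0, .ofNat 20738434237824528378794118056247296, .ofNat 5144163018891878339264965867524551868416, .ofNat 0, .ofNat 0, .ofNat 128342533903463911081443979861950464, .ofNat 0, .ofNat 0, .ofNat 0, .ofNat 469290821877325611131091407450669056, .ofNat 275734884835380877808284105296637849501696, .ofNat 0, .ofNat 0, .ofNat 285835917453690062039135268439588864, .ofNat 86871892291867710499661649355688248344576⟩)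
    (by decide +kernel)
theorem L03580 : Good (Phi V5.P V5.D (-1) (-1)) ⟨2, 2, 4, 10, 2, 0, 2, 2, 3, 0⟩ :=
  out_sound (S := T5.ds_mm) T5.ok_mm (w := 41) (j := 3) (by decide +kernel)
theorem L03581 : Good (Phi V5.P V5.D (-1) (-1)) ⟨3, 6, 4, 10, 3, 0, 3, 4, 3, 0⟩ :=
  out_sound (S := T5.ds_mm) T5.ok_mm (w := 47) (j := 3) (by decide +kernel)
theorem L03582 : Good (Phi V5.P V5.D (-1) (-1)) ⟨6, 56, 4, 10, 3, 0, 3, 4, 5, 0⟩ :=
  leafX_sound T5.ok_mm T5.Ymm.bz_eq (w := 253) (c := ⟨⟨.ofNat 2807, .negSucc 253, .negSucc 1066, .ofNat 128, .negSucc 2230, .negSucc 5041⟩, ⟨.negSucc 1737, .negSucc 37, .ofNat 880, .negSucc 101, .ofNat 1475, .ofNat 3273⟩, ⟨.negSucc 2978, .ofNat 391, .ofNat 904, .negSucc 283, .ofNat 2221, .ofNat 5050⟩, ⟨.ofNat 3864, .ofNat 135, .negSucc 230, .ofNat 584, .negSucc 4043, .negSucc 7371⟩, ⟨.negSucc 452, .ofNat 1299, .ofNat 1319, .ofNat 635, .negSucc 1318, .negSucc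 323⟩, .ofNat 3610, .ofNat 5130, .ofNat 0, .ofNat 5130, .ofNat 8081, .ofNat 0, .ofNat 128, .negSucc 953, .negSucc 6763, .ofNat 0, .ofNat 651, .ofNat 4354, .ofNat 0, .ofNat 0, .ofNat 7535, .ofNat 763, .ofNat 0, .ofNat 0, .ofNat 4301957273865937945167622459936512917110784, .ofNat 0, .ofNat 0, .ofNat 0, .ofNat 459388615737135170426960041568112803131162624, .ofNat 0, .ofNat 0, .ofNat 0, .ofNat 218934683109880886312448896188629308812558336, .ofNat 0, .ofNat 0, .ofNat 0, .ofNat 0, .ofNat 0⟩)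
    (by decide +kernel)
theorem L03583 : Good (Phi V5.P V5.D (-1) (-1)) ⟨6, 57, 5, 20, 3, 0, 3, 4, 5, 0⟩ :=
  leafX_sound T5.ok_mm T5.Ymm.bz_eq (w := 258) (c := ⟨⟨.ofNat 3298, .ofNat 0, .negSucc 565, .negSucc 817, .negSucc 2354, .negSucc 4771⟩, ⟨.negSucc 2002, .ofNat 0, .ofNat 192, .ofNat 542, .ofNat 1561, .ofNat 3157⟩, ⟨.negSucc 2887, .negSucc 0, .ofNat 41, .ofNat 640, .ofNat 2351, .ofNat 4787⟩, ⟨.ofNat 3976, .ofNat 1, .negSucc 48, .negSucc 1231, .negSucc 3432, .negSucc 6656⟩, ⟨.ofNat 71, .ofNat 0, .ofNat 23, .negSucc 116, .negSucc 147, .ofNat 93⟩, .ofNat 4011, .ofNat 5543, .ofNat 0, .ofNat 5543, .ofNat 8409, .ofNat 0, .ofNat 128, .negSucc 1328, .negSucc 11342, .ofNat 0, .ofNat 960, .ofNat 7489, .ofNat 0, .ofNat 0, .ofNat 12489, .ofNat 3505, .ofNat 0, .ofNat 0, .ofNat 0, .ofNat 0, .ofNat 0, .ofNat 0, .ofNat 341786504475329976683967469223008622680324702208, .ofNat 0, .ofNat 0,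 .ofNat 0, .ofNat 160543164831416074921466675615766017770879188992, .ofNat 0, .ofNat 0, .ofNat 0, .ofNat 739863686615704986498837441299330360061598892032, .ofNat 0⟩)
    (by decide +kernel)
theorem L03584 : Good (Phi V5.P V5.D (-1) (-1)) ⟨6, 57, 5, 21, 3, 0, 3, 4, 5, 0⟩ :=
  leafX_sound T5.ok_mm T5.Ymm.bz_eq (w := 257) (c := ⟨⟨.ofNat 2826, .negSucc 171, .negSucc 755, .negSucc 682, .negSucc 2417, .negSucc 4742⟩, ⟨.negSucc 1880, .ofNat 264, .ofNat 411, .ofNat 461, .ofNat 1616, .ofNat 3154⟩, ⟨.negSucc 2936, .ofNat 303, .ofNat 673, .ofNat 510, .ofNat 2415, .ofNat 4762⟩, ⟨.ofNat 3511, .negSucc 74, .negSucc 364, .negSucc 1156, .negSucc 3336, .negSucc 6089⟩, ⟨.negSucc 762, .ofNat 433, .ofNat 1013, .negSucc 344, .ofNat 174, .ofNat 898⟩, .ofNat 5676, .ofNat 8010, .ofNat 0, .ofNat 8010, .ofNat 12050, .ofNat 0, .ofNat 128, .negSucc 953, .negSucc 7313, .ofNat 0, .ofNat 664, .ofNat 4904, .ofNat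 0, .ofNat 0, .ofNat 8037, .ofNat 1417, .ofNat 0, .ofNat 0, .ofNat 0, .ofNat 0, .ofNat 0, .ofNat 0, .ofNat 1779222142685591577157107662614371134523572224, .ofNat 0, .ofNat 0, .ofNat 0, .ofNat 1962689883775946997048031235184580270401519616, .ofNat 20786348040781831124730356152734436814568729812135837696, .ofNat 0, .ofNat 0, .ofNat 698954077286437331406397461066714142627332096, .ofNat 479621279480836440027913440836464793890560337427906428928⟩)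
    (by decide +kernel)
theorem L03585 : Good (Phi V5.P V5.D (-1) (-1)) ⟨5, 29, 4, 10, 3, 0, 3, 4, 5, 0⟩ :=
  out_sound (S := T5.ds_mm) T5.ok_mm (w := 59) (j := 3) (by decide +kernel)
theorem L03586 : Good (Phi V5.P V5.D (-1) (-1)) ⟨4, 15, 4, 10, 3, 0, 3, 4, 5, 0⟩ :=
  out_sound (S := T5.ds_mm) T5.ok_mm (w := 53) (j := 3) (by decide +kernel)
theorem L03587 : Good (Phi V5.P V5.D (-1) (-1)) ⟨3, 7, 4, 10, 3, 0, 3, 4, 5, 1⟩ :=
  leafX_sound T5.ok_mm T5.Ymm.bz_eq (w := 233) (c := ⟨⟨.negSucc 2893, .negSucc 304, .negSucc 304, .negSucc 419, .negSucc 434, .negSucc 356⟩, ⟨.ofNat 1821, .ofNat 700, .ofNat 284, .ofNat 273, .ofNat 282, .ofNat 233⟩, ⟨.ofNat 2816, .ofNat 145, .ofNat 322, .ofNat 223, .ofNat 425, .ofNat 387⟩, ⟨.negSucc 4180, .negSucc 176, .negSucc 349, .negSucc 556, .negSucc 578, .negSucc 470⟩, ⟨.negSucc 100, .ofNat 268, .negSucc 23, .ofNat 60, .ofNat 66, .ofNat 51⟩, .ofNat 1553,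 .ofNat 1747, .ofNat 0, .ofNat 1747, .ofNat 2519, .ofNat 0, .ofNat 128, .negSucc 283, .negSucc 1119, .ofNat 0, .ofNat 251, .ofNat 781, .ofNat 0, .ofNat 0, .ofNat 1363, .ofNat 1756, .ofNat 0, .ofNat 0, .ofNat 0, .ofNat 0, .ofNat 0, .ofNat 0, .ofNat 676060424976551049780457786779673242688815104, .ofNat 3349801635919304895519334386531615303752022465970176, .ofNat 0, .ofNat 0, .ofNat 1536931491914560015086337162545819701110374400, .ofNat 0, .ofNat 0, .ofNat 0, .ofNat 2304371017325365871848420785328149093104484352, .ofNat 19094222801445756941323742858796679493288435776487424⟩)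
    (by decide +kernel)
theorem L03588 : Good (Phi V5.P V5.D (-1) (-1)) ⟨3, 7, 4, 10, 3, 0, 3, 4, 4, 1⟩ :=
  leafX_sound T5.ok_mm T5.Ymm.bz_eq (w := 228) (c := ⟨⟨.negSucc 3701, .ofNat 17, .negSucc 161, .negSucc 318, .ofNat 70, .ofNat 323⟩, ⟨.ofNat 2353, .ofNat 362, .ofNat 205, .ofNat 210, .negSucc 43, .negSucc 213⟩, ⟨.ofNat 3632, .negSucc 12, .ofNat 163, .ofNat 153, .negSucc 92, .negSucc 274⟩, ⟨.negSucc 5246, .ofNat 50, .negSucc 134, .negSucc 425, .ofNat 85, .ofNat 460⟩, ⟨.ofNat 9, .negSucc 29, .ofNat 1, .ofNat 44, .negSucc 9, .ofNat 6⟩, .ofNat 908, .ofNat 1029, .ofNat 0, .ofNat 1029, .ofNat 1787, .ofNat 0, .ofNat 128, .negSucc 458, .negSucc 1002, .ofNat 0, .ofNat 356, .ofNat 618, .ofNat 0, .ofNat 0, .ofNat 1583, .ofNat 3225, .ofNat 0, .ofNat 0, .ofNat 0, .ofNat 0, .ofNat 0, .ofNat 0, .ofNat 42880791721621492706778426947583832974426112, .ofNat 348974310724541367373828168508841833990307270623232,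 .ofNat 0, .ofNat 0, .ofNat 22855236087295672244317256849195022747172864, .ofNat 1274469319122477959673872678226502940813755806646272, .ofNat 0, .ofNat 0, .ofNat 40841517371184141151018402446536513035436032, .ofNat 1273634589066213876480101475674374398752065467711488⟩)
    (by decide +kernel)
theorem L03589 : Good (Phi V5.P V5.D (-1) (-1)) ⟨3, 6, 4, 10, 3, 0, 3, 5, 5, 0⟩ :=
  out_sound (S := T5.ds_mm) T5.ok_mm (w := 47) (j := 3) (by decide +kernel)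
theorem L03590 : Good (Phi V5.P V5.D (-1) (-1)) ⟨6, 56, 4, 10, 3, 0, 3, 5, 5, 0⟩ :=
  leafX_sound T5.ok_mm T5.Ymm.bz_eq (w := 254) (c := ⟨⟨.negSucc 2819, .negSucc 730, .ofNat 231, .negSucc 647, .negSucc 1167, .ofNat 7⟩, ⟨.ofNat 1759, .ofNat 554, .negSucc 68, .ofNat 415, .ofNat 769, .negSucc 5⟩, ⟨.ofNat 2741, .ofNat 671, .negSucc 165, .ofNat 437, .ofNat 1173, .ofNat 7⟩, ⟨.negSucc 4239, .negSucc 484, .ofNat 219, .negSucc 599, .negSucc 2201, .ofNat 188⟩, ⟨.negSucc 211, .ofNat 480, .ofNat 72, .ofNat 487, .negSucc 819, .ofNat 282⟩, .ofNat 5263, .ofNat 7644, .ofNat 0, .ofNat 7644, .ofNat 11912, .ofNat 0, .ofNat 128, .negSucc 1026, .negSucc 8103, .ofNat 0, .ofNat 693, .ofNat 5247, .ofNat 0, .ofNat 0, .ofNat 9096, .ofNat 630, .ofNat 0, .ofNat 0, .ofNat 0, .ofNat 0, .ofNat 0, .ofNat 0, .ofNat 885234281186401008556305285674075932512485376, .ofNat 0, .ofNat 0, .ofNat 0, .ofNat 0, .ofNat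 0, .ofNat 0, .ofNat 0, .ofNat 0, .ofNat 0⟩)
    (by decide +kernel)
theorem L03591 : Good (Phi V5.P V5.D (-1) (-1)) ⟨8, 228, 4, 10, 3, 0, 3, 5, 5, 0⟩ :=
  leafX_sound T5.ok_mm T5.Ymm.bz_eq (w := 261) (c := ⟨⟨.negSucc 4092, .negSucc 171, .ofNat 81, .negSucc 369, .negSucc 1105, .ofNat 484⟩, ⟨.ofNat 2680, .ofNat 152, .negSucc 20, .ofNat 245, .ofNat 752, .negSucc 321⟩, ⟨.ofNat 3943, .ofNat 149, .ofNat 16, .ofNat 142, .ofNat 1109, .negSucc 463⟩, ⟨.negSucc 5428, .negSucc 198, .negSucc 49, .negSucc 454, .negSucc 1990, .ofNat 703⟩, ⟨.ofNat 335, .negSucc 50, .negSucc 15, .ofNat 88, .negSucc 580, .ofNat 43⟩, .ofNat 2415, .ofNat 3255, .ofNat 0, .ofNat 3255, .ofNat 5118, .ofNat 0, .ofNat 128, .negSucc 1152, .negSucc 10100, .ofNat 0, .ofNat 816, .ofNat 6572, .ofNat 0, .ofNat 0, .ofNat 11225, .ofNat 643, .ofNat 0, .ofNat 0, .ofNat 0, .ofNat 0, .ofNat 0, .ofNat 0, .ofNat 49198973905219001761537449445543724571426816,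 .ofNat 0, .ofNat 0, .ofNat 0, .ofNat 0, .ofNat 0, .ofNat 0, .ofNat 0, .ofNat 0, .ofNat 0⟩)
    (by decide +kernel)
theorem L03592 : Good (Phi V5.P V5.D (-1) (-1)) ⟨8, 229, 4, 10, 3, 0, 3, 5, 5, 0⟩ :=
  out_sound (S := T5.ds_mm) T5.ok_mm (w := 23) (j := 4) (by decide +kernel)
theorem L03593 : Good (Phi V5.P V5.D (-1) (-1)) ⟨7, 115, 4, 10, 3, 0, 3, 5, 5, 0⟩ :=
  out_sound (S := T5.ds_mm) T5.ok_mm (w := 21) (j := 4) (by decide +kernel)
theorem L03594 : Good (Phi V5.P V5.D (-1) (-1)) ⟨5, 29, 4, 10, 3, 0, 3, 5, 5, 0⟩ :=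
  out_sound (S := T5.ds_mm) T5.ok_mm (w := 59) (j := 3) (by decide +kernel)
theorem L03595 : Good (Phi V5.P V5.D (-1) (-1)) ⟨4, 15, 4, 10, 3, 0, 3, 5, 5, 0⟩ :=
  out_sound (S := T5.ds_mm) T5.ok_mm (w := 53) (j := 3) (by decide +kernel)
theorem L03596 : Good (Phi V5.P V5.D (-1) (-1)) ⟨3, 6, 4, 10, 3, 0, 3, 5, 5, 1⟩ :=
  out_sound (S := T5.ds_mm) T5.ok_mm (w := 47) (j := 3) (by decide +kernel)
theorem L03597 : Good (Phi V5.P V5.D (-1) (-1)) ⟨3, 7, 4, 10, 3, 0, 3, 5, 5, 1⟩ :=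
  leafX_sound T5.ok_mm T5.Ymm.bz_eq (w := 234) (c := ⟨⟨.negSucc 3864, .negSucc 33, .negSucc 343, .negSucc 372, .negSucc 163, .ofNat 318⟩, ⟨.ofNat 2472, .ofNat 61, .ofNat 390, .ofNat 246, .ofNat 109, .negSucc 210⟩, ⟨.ofNat 3781, .ofNat 74, .ofNat 333, .ofNat 164, .ofNat 153, .negSucc 302⟩, ⟨.negSucc 5483, .negSucc 73, .negSucc 385, .negSucc 500, .negSucc 259, .ofNat 485⟩, ⟨.negSucc 0, .ofNat 8, .negSucc 25, .ofNat 38, .negSucc 27, .ofNat 53⟩, .ofNat 907, .ofNat 1027, .ofNat 0, .ofNat 1027, .ofNat 1785, .ofNat 0, .ofNat 128, .negSucc 416, .negSucc 2164, .ofNat 0, .ofNat 324, .ofNat 1330, .ofNat 0, .ofNat 0, .ofNat 2715, .ofNat 1460, .ofNat 0, .ofNat 0, .ofNat 9561300055480426948848492300151661690617856, .ofNat 443393209186759003110103625617041813886508864634880, .ofNat 0, .ofNat 0, .ofNat 547327274833266342230533604717860951812997120, .ofNat 5582116727529566728184711289589338107004964174823424,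 .ofNat 0, .ofNat 0, .ofNat 1652805206464962967489526875396677020734717952, .ofNat 28810787803009728711028734651535588023390497841086464, .ofNat 0, .ofNat 0, .ofNat 1242264850649183587768863496704535618241167360, .ofNat 89124911380660994859619516243189604227562217207234560⟩)
    (by decide +kernel)
theorem L03598 : Good (Phi V5.P V5.D (-1) (-1)) ⟨2, 3, 4, 10, 3, 0, 3, 5, 4, 1⟩ :=
  leafX_sound T5.ok_mm T5.Ymm.bz_eq (w := 222) (c := ⟨⟨.negSucc 3889, .ofNat 84, .negSucc 169, .negSucc 252, .ofNat 156, .ofNat 550⟩, ⟨.ofNat 2396, .ofNat 143, .ofNat 249, .ofNat 166, .negSucc 102, .negSucc 364⟩, ⟨.ofNat 3780, .negSucc 24, .ofNat 163, .ofNat 80, .negSucc 196, .negSucc 519⟩, ⟨.negSucc 5529, .ofNat 134, .negSucc 135, .negSucc 348, .ofNat 209, .ofNat 796⟩, ⟨.ofNat 17, .negSucc 31, .ofNat 6, .ofNat 29, .negSucc 8, .ofNat 13⟩, .ofNat 392, .ofNat 299, .ofNat 0, .ofNat 299, .ofNat 646, .ofNat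 0, .ofNat 128, .negSucc 208, .negSucc 624, .ofNat 0, .ofNat 212, .ofNat 340, .ofNat 0, .ofNat 0, .ofNat 918, .ofNat 667, .ofNat 0, .ofNat 0, .ofNat 345136481201614070577093888454859107074048, .ofNat 634985718371421075775163187771061941479927709696, .ofNat 0, .ofNat 0, .ofNat 2598962463740801825755747459588723186860032, .ofNat 235739228247937412437184716008754184898555674624, .ofNat 0, .ofNat 0, .ofNat 27064951242468184251723946693674632159952896, .ofNat 31749462900985286123921358260983876597171166904320, .ofNat 0, .ofNat 0, .ofNat 32349165801332812230926931459024489948381184, .ofNat 42360463299859774057405877287726875329654536798208⟩)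
    (by decide +kernel)
theorem L03599 : Good (Phi V5.P V5.D (-1) (-1)) ⟨3, 6, 4, 10, 3, 1, 2, 2, 3, 0⟩ :=
  out_sound (S := T5.ds_mm) T5.ok_mm (w := 47) (j := 3) (by decide +kernel)
theorem L03600 : Good (Phi V5.P V5.D (-1) (-1)) ⟨5, 28, 4, 10, 3, 1, 3, 4, 6, 0⟩ :=
  leafX_sound T5.ok_mm T5.Ymm.bz_eq (w := 251) (c := ⟨⟨.ofNat 5037, .negSucc 634, .ofNat 623, .ofNat 820, .negSucc 3861, .negSucc 5121⟩, ⟨.negSucc 3395, .ofNat 857, .negSucc 673, .negSucc 571, .ofNat 2558, .ofNat 3359⟩, ⟨.negSucc 4885, .negSucc 673, .ofNat 132, .negSucc 835, .ofNat 3703, .ofNat 4980⟩, ⟨.ofNat 7062, .negSucc 564, .negSucc 57, .ofNat 1358, .negSucc 5727, .negSucc 7144⟩, ⟨.ofNat 17, .negSucc 157, .negSucc 1033, .ofNat 377, .negSucc 367, .ofNat 123⟩, .ofNat 2424, .ofNat 3310, .ofNat 0, .ofNat 3310, .ofNat 5275, .ofNat 0, .ofNat 128, .negSucc 478, .negSucc 4067, .ofNat 0, .ofNat 333, .ofNat 2616, .ofNat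 0, .ofNat 0, .ofNat 4236, .ofNat 351, .ofNat 0, .ofNat 0, .ofNat 1151406368331346829480068234646580904647983104, .ofNat 323451210936232666545590030791348573393897560519737344, .ofNat 0, .ofNat 0, .ofNat 34500847322326089217285156062379581034809262080, .ofNat 0, .ofNat 0, .ofNat 0, .ofNat 38134852457973319655324308271231552427980226560, .ofNat 14518031371881811735295339948728750425954693401507004416, .ofNat 0, .ofNat 0, .ofNat 21956221707500365733557500188713769935168339968, .ofNat 124249059029612826708251916611406076620559041956040146944⟩)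
    (by decide +kernel)
theorem L03601 : Good (Phi V5.P V5.D (-1) (-1)) ⟨5, 28, 4, 10, 3, 1, 3, 5, 6, 0⟩ :=
  leafX_sound T5.ok_mm T5.Ymm.bz_eq (w := 251) (c := ⟨⟨.negSucc 1636, .negSucc 847, .negSucc 395, .ofNat 1257, .negSucc 2687, .negSucc 1026⟩, ⟨.ofNat 876, .ofNat 1169, .ofNat 66, .negSucc 834, .ofNat 1788, .ofNat 676⟩, ⟨.ofNat 1383, .ofNat 732, .ofNat 421, .negSucc 1469, .ofNat 2649, .ofNat 1024⟩, ⟨.negSucc 2427, .negSucc 1184, .negSucc 473, .ofNat 2129, .negSucc 4120, .negSucc 1381⟩, ⟨.negSucc 136, .ofNat 69, .negSucc 60, .ofNat 532, .negSucc 480, .ofNat 94⟩, .ofNat 2480, .ofNat 3387, .ofNat 0, .ofNat 3387, .ofNat 5376, .ofNat 0, .ofNat 128, .negSucc 478, .negSucc 4052, .ofNat 0, .ofNat 333, .ofNat 2615, .ofNat 0, .ofNat 0, .ofNat 4267, .ofNat 519, .ofNat 0, .ofNat 0, .ofNat 0, .ofNat 0, .ofNat 0, .ofNat 0, .ofNat 51328778820235039944539473452848310797008371712, .ofNat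 0, .ofNat 0, .ofNat 0, .ofNat 18012970952418366795572145830498237786351468544, .ofNat 12482689002408097637782003356630866499432995779474620416, .ofNat 0, .ofNat 0, .ofNat 44294229604962041243108254557017075834417053696, .ofNat 109282625825923361303541434069411980415541665250402107392⟩)
    (by decide +kernel)
theorem L03602 : Good (Phi V5.P V5.D (-1) (-1)) ⟨5, 28, 4, 10, 3, 1, 2, 2, 6, 1⟩ :=
  leafX_sound T5.ok_mm T5.Ymm.bz_eq (w := 247) (c := ⟨⟨.negSucc 1717, .ofNat 380, .negSucc 612, .ofNat 865, .negSucc 2840, .negSucc 811⟩, ⟨.ofNat 1091, .negSucc 381, .ofNat 622, .negSucc 566, .ofNat 1874, .ofNat 534⟩, ⟨.ofNat 1387, .negSucc 129, .ofNat 456, .negSucc 1081, .ofNat 2789, .ofNat 810⟩, ⟨.negSucc 2038, .ofNat 156, .negSucc 865, .ofNat 987, .negSucc 4211, .negSucc 1191⟩, ⟨.ofNat 576, .negSucc 250, .negSucc 346, .negSucc 353, .negSucc 308, .negSucc 82⟩, .ofNat 2463, .ofNat 3363,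 .ofNat 0, .ofNat 3363, .ofNat 5345, .ofNat 0, .ofNat 128, .negSucc 696, .negSucc 3930, .ofNat 0, .ofNat 485, .ofNat 2536, .ofNat 0, .ofNat 0, .ofNat 4356, .ofNat 880, .ofNat 0, .ofNat 0, .ofNat 0, .ofNat 0, .ofNat 0, .ofNat 0, .ofNat 2168755016841453865979233044539993936269148160, .ofNat 766900294666938950270439870179344324771815352189321216, .ofNat 0, .ofNat 0, .ofNat 3227043523572928594696831885824219826140217344, .ofNat 0, .ofNat 0, .ofNat 0, .ofNat 0, .ofNat 0⟩)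
    (by decide +kernel)
theorem L03603 : Good (Phi V5.P V5.D (-1) (-1)) ⟨5, 29, 4, 10, 3, 1, 2, 2, 5, 0⟩ :=
  out_sound (S := T5.ds_mm) T5.ok_mm (w := 59) (j := 3) (by decide +kernel)
theorem L03604 : Good (Phi V5.P V5.D (-1) (-1)) ⟨4, 15, 4, 10, 3, 1, 2, 2, 5, 0⟩ :=
  out_sound (S := T5.ds_mm) T5.ok_mm (w := 53) (j := 3) (by decide +kernel)
theorem L03605 : Good (Phi V5.P V5.D (-1) (-1)) ⟨3, 7, 4, 10, 3, 1, 2, 2, 5, 1⟩ :=
  leafX_sound T5.ok_mm T5.Ymm.bz_eq (w := 229) (c := ⟨⟨.negSucc 3382, .negSucc 179, .negSucc 316, .negSucc 70, .negSucc 712, .negSucc 125⟩, ⟨.ofNat 2159, .ofNat 126, .ofNat 375, .ofNat 45, .ofNat 467, .ofNat 82⟩, ⟨.ofNat 3098, .negSucc 123, .ofNat 338, .negSucc 214, .ofNat 718, .ofNat 156⟩, ⟨.negSucc 4845, .ofNat 73, .negSucc 386, .negSucc 149, .negSucc 971, .negSucc 132⟩, ⟨.negSucc 56, .negSucc 121, .ofNat 5, .negSucc 79, .ofNat 117, .ofNat 60⟩, .ofNat 1113,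 .ofNat 1178, .ofNat 0, .ofNat 1178, .ofNat 1764, .ofNat 0, .ofNat 128, .negSucc 298, .negSucc 1396, .ofNat 0, .ofNat 266, .ofNat 975, .ofNat 0, .ofNat 0, .ofNat 1598, .ofNat 729, .ofNat 0, .ofNat 0, .ofNat 309873796554811184075137435159274656366592, .ofNat 18865053101265439938237522479027453045383406551040, .ofNat 0, .ofNat 0, .ofNat 12409271416417073578279943305290874710130688, .ofNat 42522952697972480424522454887183352988752276357120, .ofNat 0, .ofNat 0, .ofNat 53865656962395739341464856677986112037191680, .ofNat 0, .ofNat 0, .ofNat 0, .ofNat 45178326996401293818767598570084996850122752, .ofNat 846508554645734018309949630929576703163339775148032⟩)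
    (by decide +kernel)
theorem L03606 : Good (Phi V5.P V5.D (-1) (-1)) ⟨3, 7, 4, 10, 3, 1, 2, 2, 4, 1⟩ :=
  leafX_sound T5.ok_mm T5.Ymm.bz_eq (w := 224) (c := ⟨⟨.negSucc 4175, .ofNat 388, .negSucc 262, .negSucc 277, .ofNat 308, .ofNat 482⟩, ⟨.ofNat 2665, .ofNat 75, .ofNat 284, .ofNat 184, .negSucc 203, .negSucc 317⟩, ⟨.ofNat 3892, .ofNat 36, .ofNat 191, .ofNat 8, .negSucc 345, .negSucc 408⟩, ⟨.negSucc 5887, .ofNat 96, .negSucc 185, .negSucc 397, .ofNat 438, .ofNat 688⟩, ⟨.ofNat 24, .negSucc 117, .ofNat 39, .negSucc 10, .ofNat 15, .ofNat 14⟩, .ofNat 1553, .ofNat 1747, .ofNat 0, .ofNat 1747, .ofNat 2519, .ofNat 0, .ofNat 128, .negSucc 343, .negSucc 1073, .ofNat 0, .ofNat 301, .ofNat 760, .ofNat 0, .ofNat 0, .ofNat 1515, .ofNat 826, .ofNat 0, .ofNat 0, .ofNat 7875941028808429863699154943627000545280, .ofNat 595900297074214886461184655385338084284860203008, .ofNat 0, .ofNat 0, .ofNat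 1006139993984910664868668038501143815389184, .ofNat 6375505787645854047564272747527952050565087756288, .ofNat 0, .ofNat 0, .ofNat 3023009931561862756081094804867612204335104, .ofNat 0, .ofNat 0, .ofNat 0, .ofNat 468409812736854923257298450130754223472640, .ofNat 52178282782468882033091550552361251653937734352896⟩)
    (by decide +kernel)
theorem L03607 : Good (Phi V5.P V5.D (-1) (-1)) ⟨2, 2, 4, 11, 2, 0, 2, 2, 3, 0⟩ :=
  out_sound (S := T5.ds_mm) T5.ok_mm (w := 41) (j := 3) (by decide +kernel)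
theorem L03608 : Good (Phi V5.P V5.D (-1) (-1)) ⟨3, 6, 4, 11, 2, 0, 2, 2, 3, 0⟩ :=
  out_sound (S := T5.ds_mm) T5.ok_mm (w := 47) (j := 3) (by decide +kernel)
theorem L03609 : Good (Phi V5.P V5.D (-1) (-1)) ⟨6, 56, 4, 11, 2, 0, 2, 2, 3, 0⟩ :=
  out_sound (S := T5.ds_mm) T5.ok_mm (w := 65) (j := 3) (by decide +kernel)
theorem L03610 : Good (Phi V5.P V5.D (-1) (-1)) ⟨7, 114, 5, 22, 2, 0, 2, 2, 3, 0⟩ :=
  out_sound (S := T5.ds_mm) T5.ok_mm (w := 73) (j := 3) (by decide +kernel)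
theorem L03611 : Good (Phi V5.P V5.D (-1) (-1)) ⟨7, 115, 5, 22, 2, 0, 2, 2, 3, 0⟩ :=
  out_sound (S := T5.ds_mm) T5.ok_mm (w := 21) (j := 4) (by decide +kernel)
theorem L03612 : Good (Phi V5.P V5.D (-1) (-1)) ⟨6, 57, 5, 23, 2, 0, 2, 2, 3, 0⟩ :=
  out_sound (S := T5.ds_mm) T5.ok_mm (w := 67) (j := 3) (by decide +kernel)
theorem L03613 : Good (Phi V5.P V5.D (-1) (-1)) ⟨5, 29, 4, 11, 2, 0, 2, 2, 3, 0⟩ :=
  out_sound (S := T5.ds_mm) T5.ok_mm (w := 17) (j := 4) (by decide +kernel)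
theorem L03614 : Good (Phi V5.P V5.D (-1) (-1)) ⟨4, 15, 4, 11, 2, 0, 2, 2, 3, 0⟩ :=
  out_sound (S := T5.ds_mm) T5.ok_mm (w := 53) (j := 3) (by decide +kernel)
theorem L03615 : Good (Phi V5.P V5.D (-1) (-1)) ⟨2, 2, 3, 5, 2, 0, 2, 2, 3, 1⟩ :=
  out_sound (S := T5.ds_mm) T5.ok_mm (w := 39) (j := 3) (by decide +kernel)
theorem L03616 : Good (Phi V5.P V5.D (-1) (-1)) ⟨3, 6, 3, 5, 2, 0, 2, 2, 3, 1⟩ :=
  out_sound (S := T5.ds_mm) T5.ok_mm (w := 45) (j := 3) (by decide +kernel)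
theorem L03617 : Good (Phi V5.P V5.D (-1) (-1)) ⟨3, 7, 3, 5, 2, 0, 2, 2, 3, 1⟩ :=
  leafX_sound T5.ok_mm T5.Ymm.bz_eq (w := 202) (c := ⟨⟨.negSucc 3695, .ofNat 659, .negSucc 333, .negSucc 232, .ofNat 372, .ofNat 884⟩, ⟨.ofNat 2382, .negSucc 452, .ofNat 483, .ofNat 155, .negSucc 247, .negSucc 584⟩, ⟨.ofNat 3583, .ofNat 307, .ofNat 24, .negSucc 79, .negSucc 498, .negSucc 712⟩, ⟨.negSucc 5165, .ofNat 114, .negSucc 100, .negSucc 355, .ofNat 528, .ofNat 1218⟩, ⟨.ofNat 54, .negSucc 67, .negSucc 17, .negSucc 39, .ofNat 4, .negSucc 42⟩, .ofNat 919, .ofNat 1042, .ofNat 0, .ofNat 1042, .ofNat 1800, .ofNat 0, .ofNat 128, .negSucc 531, .negSucc 327, .ofNat 0, .ofNat 411, .ofNat 205, .ofNat 0, .ofNat 0, .ofNat 826, .ofNat 1688, .ofNat 0, .ofNat 0, .ofNat 37842617800481625730792955723120640, .ofNat 99346114306321639702147361947296978698240, .ofNat 0, .ofNat 0, .ofNat 2497989150887572867859529911953784832,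 .ofNat 1672927910775681274401341416348499327320064, .ofNat 0, .ofNat 0, .ofNat 10063740878204327136258256970719428608, .ofNat 33927538667767562173537372782240477663461376, .ofNat 0, .ofNat 0, .ofNat 2194155212001718730805681266150604800, .ofNat 8845458040830467252908631573041458324701184⟩)
    (by decide +kernel)
theorem L03618 : Good (Phi V5.P V5.D (-1) (-1)) ⟨2, 2, 2, 3, 2, 0, 2, 2, 2, 0⟩ :=
  out_sound (S := T5.ds_mm) T5.ok_mm (w := 37) (j := 3) (by decide +kernel)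
theorem L03619 : Good (Phi V5.P V5.D (-1) (-1)) ⟨3, 6, 2, 3, 2, 0, 2, 2, 2, 0⟩ :=
  out_sound (S := T5.ds_mm) T5.ok_mm (w := 43) (j := 3) (by decide +kernel)
theorem L03620 : Good (Phi V5.P V5.D (-1) (-1)) ⟨5, 28, 3, 6, 2, 0, 2, 2, 2, 0⟩ :=
  out_sound (S := T5.ds_mm) T5.ok_mm (w := 57) (j := 3) (by decide +kernel)
theorem L03621 : Good (Phi V5.P V5.D (-1) (-1)) ⟨5, 29, 3, 6, 2, 0, 2, 2, 2, 0⟩ :=
  out_sound (S := T5.ds_mm) T5.ok_mm (w := 17) (j := 4) (by decide +kernel)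
theorem L03622 : Good (Phi V5.P V5.D (-1) (-1)) ⟨4, 14, 3, 7, 2, 0, 2, 2, 2, 0⟩ :=
  out_sound (S := T5.ds_mm) T5.ok_mm (w := 51) (j := 3) (by decide +kernel)
theorem L03623 : Good (Phi V5.P V5.D (-1) (-1)) ⟨4, 15, 2, 3, 2, 0, 2, 2, 2, 0⟩ :=
  out_sound (S := T5.ds_mm) T5.ok_mm (w := 15) (j := 4) (by decide +kernel)
theorem L03624 : Good (Phi V5.P V5.D (-1) (-1)) ⟨2, 2, 3, 4, 2, 0, 2, 3, 3, 0⟩ :=
  out_sound (S := T5.ds_mm) T5.ok_mm (w := 39) (j := 3) (by decide +kernel)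
theorem L03625 : Good (Phi V5.P V5.D (-1) (-1)) ⟨4, 12, 3, 4, 2, 0, 3, 6, 4, 0⟩ :=
  out_sound (S := T5.ds_mm) T5.ok_mm (w := 51) (j := 3) (by decide +kernel)
theorem L03626 : Good (Phi V5.P V5.D (-1) (-1)) ⟨4, 13, 3, 4, 2, 0, 3, 6, 5, 0⟩ :=
  leafX_sound T5.ok_mm T5.Ymm.bz_eq (w := 222) (c := ⟨⟨.negSucc 2873, .negSucc 929, .negSucc 623, .ofNat 401, .negSucc 293, .negSucc 36⟩, ⟨.ofNat 1553, .ofNat 608, .ofNat 657, .negSucc 245, .ofNat 168, .ofNat 14⟩, ⟨.ofNat 2849, .ofNat 819, .ofNat 664, .negSucc 817, .ofNat 292, .ofNat 34⟩, ⟨.negSucc 4531, .negSucc 1182, .negSucc 777, .ofNat 555, .negSucc 553, .ofNat 241⟩, ⟨.negSucc 188, .negSucc 215, .ofNat 164, .negSucc 82, .negSucc 209, .ofNat 556⟩, .ofNat 1560, .ofNat 2142, .ofNat 0, .ofNat 2142, .ofNat 3816, .ofNat 0, .ofNat 128, .negSucc 388, .negSucc 1988, .ofNat 0, .ofNat 265, .ofNat 1149, .ofNat 0, .ofNat 0, .ofNat 2301, .ofNat 1001,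 .ofNat 0, .ofNat 0, .ofNat 0, .ofNat 0, .ofNat 0, .ofNat 0, .ofNat 5857512992027150183604831460855314907136, .ofNat 0, .ofNat 0, .ofNat 0, .ofNat 14916434278126372519228717903005878321152, .ofNat 0, .ofNat 0, .ofNat 0, .ofNat 54931890153907302304968695328561558454272, .ofNat 0⟩)
    (by decide +kernel)
theorem L03627 : Good (Phi V5.P V5.D (-1) (-1)) ⟨4, 13, 3, 4, 2, 0, 3, 6, 5, 1⟩ :=
  leafX_sound T5.ok_mm T5.Ymm.bz_eq (w := 222) (c := ⟨⟨.negSucc 2995, .negSucc 942, .negSucc 108, .negSucc 165, .ofNat 232, .ofNat 206⟩, ⟨.ofNat 1586, .ofNat 673, .ofNat 309, .ofNat 94, .negSucc 137, .negSucc 119⟩, ⟨.ofNat 2942, .ofNat 904, .ofNat 109, .negSucc 265, .negSucc 250, .negSucc 209⟩, ⟨.negSucc 4692, .negSucc 982, .negSucc 173, .negSucc 281, .ofNat 302, .ofNat 367⟩, ⟨.negSucc 84, .ofNat 63, .negSucc 55, .negSucc 79, .negSucc 59, .ofNat 128⟩, .ofNat 1550, .ofNat 2132, .ofNat 0, .ofNat 2132,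 .ofNat 3817, .ofNat 0, .ofNat 128, .negSucc 485, .negSucc 1558, .ofNat 0, .ofNat 330, .ofNat 898, .ofNat 0, .ofNat 0, .ofNat 1998, .ofNat 3503, .ofNat 0, .ofNat 0, .ofNat 0, .ofNat 0, .ofNat 0, .ofNat 0, .ofNat 14650363500191737493803845058848484229120, .ofNat 0, .ofNat 0, .ofNat 0, .ofNat 27569737324684650938741001300245972254720, .ofNat 0, .ofNat 0, .ofNat 0, .ofNat 14267748272907388147273778286065914740736, .ofNat 0⟩)
    (by decide +kernel)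
theorem L03628 : Good (Phi V5.P V5.D (-1) (-1)) ⟨5, 28, 3, 4, 2, 0, 3, 6, 4, 0⟩ :=
  leafX_sound T5.ok_mm T5.Ymm.bz_eq (w := 222) (c := ⟨⟨.negSucc 5250, .negSucc 744, .ofNat 302, .negSucc 146, .ofNat 57, .ofNat 1285⟩, ⟨.ofNat 3057, .ofNat 565, .ofNat 93, .ofNat 89, .negSucc 31, .negSucc 812⟩, ⟨.ofNat 5192, .ofNat 737, .negSucc 333, .negSucc 318, .negSucc 60, .negSucc 1271⟩, ⟨.negSucc 7263, .negSucc 733, .ofNat 126, .negSucc 166, .negSucc 20, .ofNat 1859⟩, ⟨.ofNat 265, .negSucc 51, .negSucc 295, .ofNat 52, .negSucc 153, .ofNat 42⟩, .ofNat 1694, .ofNat 2164, .ofNat 0, .ofNat 2164, .ofNat 3509, .ofNat 0, .ofNat 128, .negSucc 452, .negSucc 2488, .ofNat 0, .ofNat 352, .ofNat 1546, .ofNat 0, .ofNat 0, .ofNat 2933, .ofNat 896, .ofNat 0, .ofNat 0, .ofNat 0, .ofNat 0, .ofNat 0, .ofNat 0, .ofNat 142860659825196799301040855106229108736, .ofNat 0, .ofNat 0, .ofNat 0, .ofNat 124667266024189106281987338923094835200,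 .ofNat 0, .ofNat 0, .ofNat 0, .ofNat 633940654274896464763724968821235122176, .ofNat 0⟩)
    (by decide +kernel)
theorem L03629 : Good (Phi V5.P V5.D (-1) (-1)) ⟨5, 29, 3, 4, 2, 0, 3, 6, 4, 0⟩ :=
  out_sound (S := T5.ds_mm) T5.ok_mm (w := 57) (j := 3) (by decide +kernel)
theorem L03630 : Good (Phi V5.P V5.D (-1) (-1)) ⟨4, 15, 3, 4, 2, 0, 3, 6, 4, 0⟩ :=
  out_sound (S := T5.ds_mm) T5.ok_mm (w := 51) (j := 3) (by decide +kernel)
theorem L03631 : Good (Phi V5.P V5.D (-1) (-1)) ⟨2, 3, 3, 4, 2, 0, 3, 6, 4, 1⟩ :=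
  leafX_sound T5.ok_mm T5.Ymm.bz_eq (w := 205) (c := ⟨⟨.negSucc 2352, .negSucc 2733, .ofNat 23, .negSucc 318, .ofNat 373, .ofNat 544⟩, ⟨.ofNat 1064, .ofNat 2172, .ofNat 197, .ofNat 197, .negSucc 224, .negSucc 328⟩, ⟨.ofNat 2574, .ofNat 1936, .ofNat 76, .negSucc 92, .negSucc 425, .negSucc 532⟩, ⟨.negSucc 4200, .negSucc 2196, .negSucc 20, .negSucc 472, .ofNat 541, .ofNat 816⟩, ⟨.negSucc 324, .ofNat 807, .negSucc 112, .negSucc 25, .negSucc 9, .ofNat 56⟩, .ofNat 732, .ofNat 776, .ofNat 0, .ofNat 776, .ofNat 1462, .ofNat 0, .ofNat 128, .negSucc 272, .negSucc 644, .ofNat 0, .ofNat 222, .ofNat 372, .ofNat 0, .ofNat 0, .ofNat 961, .ofNat 258, .ofNat 0, .ofNat 0, .ofNat 18818459058033230767349129526617571328, .ofNat 3140486312945012086896612133426850288369664, .ofNat 0, .ofNat 0, .ofNat 496585417350394234418617375091641548800, .ofNat 0, .ofNat 0, .ofNat 0, .ofNat 799339147703204786564803012235049828352,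 .ofNat 143755617258426961203810210113692294958809088, .ofNat 0, .ofNat 0, .ofNat 485549159239053680129363060468763066368, .ofNat 336967384111669509179964372306269609591308288⟩)
    (by decide +kernel)
theorem L03632 : Good (Phi V5.P V5.D (-1) (-1)) ⟨4, 12, 3, 4, 2, 0, 3, 7, 3, 0⟩ :=
  out_sound (S := T5.ds_mm) T5.ok_mm (w := 51) (j := 3) (by decide +kernel)
theorem L03633 : Good (Phi V5.P V5.D (-1) (-1)) ⟨4, 13, 3, 4, 2, 0, 4, 14, 3, 0⟩ :=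
  leafX_sound T5.ok_mm T5.Ymm.bz_eq (w := 215) (c := ⟨⟨.negSucc 3130, .negSucc 1331, .ofNat 383, .ofNat 81, .ofNat 389, .ofNat 1228⟩, ⟨.ofNat 1675, .ofNat 915, .negSucc 27, .negSucc 54, .negSucc 220, .negSucc 725⟩, ⟨.ofNat 3050, .ofNat 1332, .negSucc 394, .negSucc 496, .negSucc 425, .negSucc 1296⟩, ⟨.negSucc 5064, .negSucc 1373, .ofNat 278, .ofNat 88, .ofNat 529, .ofNat 2094⟩, ⟨.negSucc 480, .ofNat 494, .negSucc 520, .negSucc 71, .negSucc 77, .ofNat 564⟩, .ofNat 1576, .ofNat 2172, .ofNat 0, .ofNat 2172, .ofNat 3875, .ofNat 0, .ofNat 128, .negSucc 480, .negSucc 1539, .ofNat 0, .ofNat 326, .ofNat 890, .ofNat 0, .ofNat 0, .ofNat 2017, .ofNat 211, .ofNat 0, .ofNat 0, .ofNat 5108965867128665831815269398750429184, .ofNat 0, .ofNat 0, .ofNat 0, .ofNat 152675687898794851482733512591755182080, .ofNat 0, .ofNat 0, .ofNat 0, .ofNat 312551340993507786196057004101106401280, .ofNat 0, .ofNat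 0, .ofNat 0, .ofNat 0, .ofNat 0⟩)
    (by decide +kernel)
theorem L03634 : Good (Phi V5.P V5.D (-1) (-1)) ⟨4, 13, 3, 4, 2, 0, 4, 15, 5, 0⟩ :=
  leafX_sound T5.ok_mm T5.Ymm.bz_eq (w := 226) (c := ⟨⟨.negSucc 3472, .negSucc 798, .negSucc 404, .ofNat 1156, .ofNat 2112, .ofNat 604⟩, ⟨.ofNat 1966, .ofNat 539, .ofNat 391, .negSucc 697, .negSucc 1251, .negSucc 385⟩, ⟨.ofNat 3384, .ofNat 821, .ofNat 359, .negSucc 1582, .negSucc 2155, .negSucc 650⟩, ⟨.negSucc 5702, .negSucc 1080, .negSucc 445, .ofNat 1968, .ofNat 3220, .ofNat 1194⟩, ⟨.negSucc 832, .negSucc 253, .ofNat 256, .ofNat 474, .ofNat 235, .ofNat 604⟩, .ofNat 1564, .ofNat 2154, .ofNat 0, .ofNat 2154, .ofNat 3851, .ofNat 0, .ofNat 128, .negSucc 312, .negSucc 2071, .ofNat 0, .ofNat 213, .ofNat 1192, .ofNat 0, .ofNat 0, .ofNat 2297, .ofNat 434, .ofNat 0, .ofNat 0, .ofNat 0, .ofNat 0, .ofNat 0, .ofNat 0, .ofNat 162730515607069708886258029429911613079552,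 .ofNat 0, .ofNat 0, .ofNat 0, .ofNat 169153355350225033071698603156816007266304, .ofNat 0, .ofNat 0, .ofNat 0, .ofNat 568502915996774037311077934422810830045184, .ofNat 0⟩)
    (by decide +kernel)
theorem L03635 : Good (Phi V5.P V5.D (-1) (-1)) ⟨4, 13, 3, 4, 2, 0, 4, 15, 5, 1⟩ :=
  leafX_sound T5.ok_mm T5.Ymm.bz_eq (w := 224) (c := ⟨⟨.negSucc 2971, .negSucc 481, .negSucc 162, .ofNat 707, .ofNat 2034, .ofNat 259⟩, ⟨.ofNat 1688, .ofNat 320, .ofNat 232, .negSucc 431, .negSucc 1219, .negSucc 156⟩, ⟨.ofNat 2836, .ofNat 514, .ofNat 121, .negSucc 1124, .negSucc 2089, .negSucc 292⟩, ⟨.negSucc 4478, .negSucc 992, .ofNat 105, .ofNat 1026, .ofNat 3163, .ofNat 503⟩, ⟨.ofNat 42, .negSucc 678, .ofNat 476, .negSucc 104, .ofNat 232, .ofNat 196⟩, .ofNat 748, .ofNat 828, .ofNat 0, .ofNat 828, .ofNat 1633, .ofNat 0, .ofNat 128, .negSucc 312, .negSucc 2120, .ofNat 0, .ofNat 240, .ofNat 1160, .ofNat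 0, .ofNat 0, .ofNat 2417, .ofNat 321, .ofNat 0, .ofNat 0, .ofNat 0, .ofNat 0, .ofNat 0, .ofNat 0, .ofNat 0, .ofNat 0, .ofNat 0, .ofNat 15381490999243407688371832308527807764365312, .ofNat 198850157482518122365795429783900111503360, .ofNat 0, .ofNat 0, .ofNat 0, .ofNat 0, .ofNat 0⟩)
    (by decide +kernel)
theorem L03636 : Good (Phi V5.P V5.D (-1) (-1)) ⟨4, 13, 3, 4, 2, 0, 4, 15, 4, 1⟩ :=
  leafX_sound T5.ok_mm T5.Ymm.bz_eq (w := 220) (c := ⟨⟨.negSucc 2677, .negSucc 192, .negSucc 184, .ofNat 632, .ofNat 1678, .ofNat 229⟩, ⟨.ofNat 1448, .ofNat 227, .ofNat 183, .negSucc 363, .negSucc 988, .negSucc 120⟩, ⟨.ofNat 2507, .ofNat 180, .ofNat 174, .negSucc 1012, .negSucc 1745, .negSucc 263⟩, ⟨.negSucc 4107, .negSucc 208, .negSucc 232, .ofNat 937, .ofNat 2500, .ofNat 473⟩, ⟨.negSucc 23, .negSucc 309, .ofNat 140, .negSucc 7, .ofNat 76, .ofNat 226⟩, .ofNat 1572, .ofNat 2163, .ofNat 0, .ofNat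 2163, .ofNat 3858, .ofNat 0, .ofNat 128, .negSucc 368, .negSucc 1255, .ofNat 0, .ofNat 250, .ofNat 726, .ofNat 0, .ofNat 0, .ofNat 1608, .ofNat 318, .ofNat 0, .ofNat 0, .ofNat 0, .ofNat 0, .ofNat 0, .ofNat 0, .ofNat 3636676096133396166078075780794077413376, .ofNat 0, .ofNat 0, .ofNat 7928453261645306444133218728433673236905984, .ofNat 2299278176867969840623071863208207712256, .ofNat 0, .ofNat 0, .ofNat 0, .ofNat 0, .ofNat 0⟩)
    (by decide +kernel)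
theorem L03637 : Good (Phi V5.P V5.D (-1) (-1)) ⟨5, 28, 4, 8, 2, 0, 3, 7, 4, 0⟩ :=
  out_sound (S := T5.ds_mm) T5.ok_mm (w := 59) (j := 3) (by decide +kernel)
theorem L03638 : Good (Phi V5.P V5.D (-1) (-1)) ⟨6, 56, 4, 9, 2, 0, 4, 14, 4, 0⟩ :=
  leafX_sound T5.ok_mm T5.Ymm.bz_eq (w := 236) (c := ⟨⟨.negSucc 5103, .negSucc 332, .negSucc 29, .ofNat 211, .ofNat 566, .ofNat 1507⟩, ⟨.ofNat 3121, .ofNat 254, .ofNat 142, .negSucc 135, .negSucc 357, .negSucc 950⟩, ⟨.ofNat 4999, .ofNat 304, .ofNat 54, .negSucc 640, .negSucc 584, .negSucc 1551⟩, ⟨.negSucc 7297, .negSucc 369, .negSucc 77, .ofNat 268, .ofNat 767, .ofNat 2172⟩, ⟨.negSucc 0, .negSucc 26, .negSucc 31, .negSucc 57, .negSucc 61, .ofNat 41⟩, .ofNat 3212, .ofNat 4548, .ofNat 0, .ofNat 4548, .ofNat 7261, .ofNat 0, .ofNat 128, .negSucc 804, .negSucc 4531, .ofNat 0, .ofNat 567, .ofNat 2847, .ofNat 0, .ofNat 0, .ofNat 5242, .ofNat 612,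 .ofNat 0, .ofNat 0, .ofNat 0, .ofNat 0, .ofNat 0, .ofNat 0, .ofNat 13558048047342086654931853043674233438208, .ofNat 0, .ofNat 0, .ofNat 0, .ofNat 2339766578175297379346559433630594105344, .ofNat 0, .ofNat 0, .ofNat 0, .ofNat 0, .ofNat 0⟩)
    (by decide +kernel)
theorem L03639 : Good (Phi V5.P V5.D (-1) (-1)) ⟨6, 56, 4, 9, 2, 0, 4, 15, 5, 0⟩ :=
  leafX_sound T5.ok_mm T5.Ymm.bz_eq (w := 241) (c := ⟨⟨.negSucc 6984, .negSucc 1943, .ofNat 2256, .ofNat 1540, .ofNat 2713, .ofNat 1176⟩, ⟨.ofNat 4327, .ofNat 1208, .negSucc 1301, .negSucc 983, .negSucc 1721, .negSucc 739⟩, ⟨.ofNat 6822, .ofNat 1831, .negSucc 2134, .negSucc 1976, .negSucc 2769, .negSucc 1214⟩, ⟨.negSucc 9742, .negSucc 2080, .ofNat 2695, .ofNat 2122, .ofNat 3867, .ofNat 1661⟩, ⟨.ofNat 208, .ofNat 752, .negSucc 551, .negSucc 130, .negSucc 7, .negSucc 17⟩, .ofNat 2917, .ofNat 4095, .ofNat 0, .ofNat 4095, .ofNat 6562, .ofNat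 0, .ofNat 128, .negSucc 498, .negSucc 4726, .ofNat 0, .ofNat 352, .ofNat 2965, .ofNat 0, .ofNat 0, .ofNat 5099, .ofNat 327, .ofNat 0, .ofNat 0, .ofNat 4748805462664614722094023065689212846080, .ofNat 0, .ofNat 0, .ofNat 0, .ofNat 309712496371651073288171079641909738602496, .ofNat 0, .ofNat 0, .ofNat 0, .ofNat 214854440639335057646916213094128440836096, .ofNat 0, .ofNat 0, .ofNat 0, .ofNat 0, .ofNat 0⟩)
    (by decide +kernel)
theorem L03640 : Good (Phi V5.P V5.D (-1) (-1)) ⟨6, 56, 4, 9, 2, 0, 4, 15, 5, 1⟩ :=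
  leafX_sound T5.ok_mm T5.Ymm.bz_eq (w := 241) (c := ⟨⟨.negSucc 4283, .negSucc 1209, .ofNat 528, .ofNat 809, .ofNat 2628, .ofNat 611⟩, ⟨.ofNat 2625, .ofNat 713, .negSucc 203, .negSucc 519, .negSucc 1670, .negSucc 385⟩, ⟨.ofNat 4171, .ofNat 1215, .negSucc 552, .negSucc 1244, .negSucc 2684, .negSucc 636⟩, ⟨.negSucc 6118, .negSucc 1107, .ofNat 457, .ofNat 1201, .ofNat 3793, .ofNat 843⟩, ⟨.ofNat 40, .ofNat 956, .negSucc 502, .ofNat 57, .ofNat 47, .negSucc 47⟩, .ofNat 2365, .ofNat 3247, .ofNat 0, .ofNat 3247, .ofNat 5255, .ofNat 0, .ofNat 128, .negSucc 645, .negSucc 4893, .ofNat 0, .ofNat 458, .ofNat 3066, .ofNat 0, .ofNat 0, .ofNat 5512, .ofNat 552, .ofNat 0, .ofNat 0, .ofNat 0, .ofNat 0, .ofNat 0, .ofNat 36746173531102522878755613413139404145211473920, .ofNat 292489913373075924177908650705176330502144, .ofNat 0, .ofNat 0, .ofNat 0, .ofNat 131602009496895276215113900909103625011200,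 .ofNat 0, .ofNat 0, .ofNat 0, .ofNat 0, .ofNat 0⟩)
    (by decide +kernel)
theorem L03641 : Good (Phi V5.P V5.D (-1) (-1)) ⟨6, 57, 4, 9, 2, 0, 3, 7, 4, 0⟩ :=
  out_sound (S := T5.ds_mm) T5.ok_mm (w := 65) (j := 3) (by decide +kernel)
theorem L03642 : Good (Phi V5.P V5.D (-1) (-1)) ⟨5, 28, 3, 4, 2, 0, 4, 14, 4, 1⟩ :=
  leafX_sound T5.ok_mm T5.Ymm.bz_eq (w := 226) (c := ⟨⟨.negSucc 4120, .negSucc 766, .ofNat 722, .negSucc 67, .ofNat 445, .ofNat 685⟩, ⟨.ofNat 2462, .ofNat 578, .negSucc 307, .ofNat 43, .negSucc 282, .negSucc 431⟩, ⟨.ofNat 3845, .ofNat 628, .negSucc 545, .negSucc 346, .negSucc 493, .negSucc 709⟩, ⟨.negSucc 5657, .negSucc 602, .ofNat 705, .negSucc 126, .ofNat 663, .ofNat 998⟩, ⟨.ofNat 146, .ofNat 311, .negSucc 228, .negSucc 38, .ofNat 35, .ofNat 35⟩, .ofNat 2060, .ofNat 2816, .ofNat 0, .ofNat 2816, .ofNat 4636, .ofNat 0, .ofNat 128, .negSucc 889, .negSucc 2025, .ofNat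 0, .ofNat 616, .ofNat 1264, .ofNat 0, .ofNat 0, .ofNat 2763, .ofNat 1993, .ofNat 0, .ofNat 0, .ofNat 0, .ofNat 0, .ofNat 0, .ofNat 0, .ofNat 17016881405396897337834175989915720876032, .ofNat 0, .ofNat 0, .ofNat 0, .ofNat 14214525318470493979282837157264589062144, .ofNat 0, .ofNat 0, .ofNat 0, .ofNat 0, .ofNat 0⟩)
    (by decide +kernel)
theorem L03643 : Good (Phi V5.P V5.D (-1) (-1)) ⟨5, 28, 4, 8, 2, 0, 4, 15, 5, 2⟩ :=
  out_sound (S := T5.ds_mm) T5.ok_mm (w := 59) (j := 3) (by decide +kernel)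
theorem L03644 : Good (Phi V5.P V5.D (-1) (-1)) ⟨6, 56, 4, 9, 2, 0, 4, 15, 5, 2⟩ :=
  leafX_sound T5.ok_mm T5.Ymm.bz_eq (w := 238) (c := ⟨⟨.negSucc 3197, .ofNat 119, .negSucc 370, .ofNat 711, .ofNat 2207, .ofNat 355⟩, ⟨.ofNat 1991, .negSucc 39, .ofNat 269, .negSucc 453, .negSucc 1400, .negSucc 221⟩, ⟨.ofNat 3046, .negSucc 117, .ofNat 355, .negSucc 1129, .negSucc 2274, .negSucc 374⟩, ⟨.negSucc 4830, .ofNat 18, .negSucc 271, .ofNat 1027, .ofNat 3229, .ofNat 541⟩, ⟨.negSucc 338, .negSucc 234, .ofNat 346, .negSucc 15, .ofNat 62, .ofNat 65⟩, .ofNat 1563, .ofNat 2021, .ofNat 0, .ofNat 2021, .ofNat 3362, .ofNat 0, .ofNat 128, .negSucc 593, .negSucc 3436, .ofNat 0, .ofNat 433, .ofNat 2131, .ofNat 0, .ofNat 0, .ofNat 4069, .ofNat 962, .ofNat 0, .ofNat 0, .ofNat 0, .ofNat 0, .ofNat 0, .ofNat 114348477613804715695082382408740864656609902592, .ofNat 98032276816384644530189371538299865268224,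 .ofNat 0, .ofNat 0, .ofNat 0, .ofNat 237894806081082747293639603638721325301760, .ofNat 0, .ofNat 0, .ofNat 0, .ofNat 0, .ofNat 0⟩)
    (by decide +kernel)
theorem L03645 : Good (Phi V5.P V5.D (-1) (-1)) ⟨6, 57, 4, 9, 2, 0, 4, 15, 5, 2⟩ :=
  out_sound (S := T5.ds_mm) T5.ok_mm (w := 65) (j := 3) (by decide +kernel)
theorem L03646 : Good (Phi V5.P V5.D (-1) (-1)) ⟨5, 28, 3, 4, 2, 0, 4, 15, 5, 3⟩ :=
  leafX_sound T5.ok_mm T5.Ymm.bz_eq (w := 230) (c := ⟨⟨.negSucc 2496, .ofNat 322, .negSucc 590, .ofNat 632, .ofNat 1844, .ofNat 185⟩, ⟨.ofNat 1500, .negSucc 153, .ofNat 454, .negSucc 400, .negSucc 1166, .negSucc 111⟩, ⟨.ofNat 2355, .negSucc 281, .ofNat 515, .negSucc 1016, .negSucc 1917, .negSucc 196⟩, ⟨.negSucc 3788, .ofNat 352, .negSucc 613, .ofNat 919, .ofNat 2646, .ofNat 275⟩, ⟨.negSucc 225, .negSucc 182, .ofNat 225, .ofNat 23, .ofNat 14, .ofNat 17⟩, .ofNat 1715, .ofNat 2195, .ofNat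 0, .ofNat 2195, .ofNat 3556, .ofNat 0, .ofNat 128, .negSucc 535, .negSucc 2073, .ofNat 0, .ofNat 416, .ofNat 1291, .ofNat 0, .ofNat 0, .ofNat 2616, .ofNat 324, .ofNat 0, .ofNat 0, .ofNat 0, .ofNat 0, .ofNat 0, .ofNat 275967983272934304915281712188923884500680704, .ofNat 162410133729444284131808060344030738776064, .ofNat 0, .ofNat 0, .ofNat 0, .ofNat 143665840494083241729933670040653784940544, .ofNat 0, .ofNat 0, .ofNat 0, .ofNat 0, .ofNat 0⟩)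
    (by decide +kernel)
theorem L03647 : Good (Phi V5.P V5.D (-1) (-1)) ⟨5, 29, 3, 4, 2, 0, 3, 7, 3, 0⟩ :=
  out_sound (S := T5.ds_mm) T5.ok_mm (w := 57) (j := 3) (by decide +kernel)
theorem L03648 : Good (Phi V5.P V5.D (-1) (-1)) ⟨4, 15, 3, 4, 2, 0, 3, 7, 3, 0⟩ :=
  out_sound (S := T5.ds_mm) T5.ok_mm (w := 51) (j := 3) (by decide +kernel)
theorem L03649 : Good (Phi V5.P V5.D (-1) (-1)) ⟨2, 2, 3, 5, 3, 0, 3, 6, 4, 0⟩ :=
  out_sound (S := T5.ds_mm) T5.ok_mm (w := 39) (j := 3) (by decide +kernel)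
theorem L03650 : Good (Phi V5.P V5.D (-1) (-1)) ⟨3, 6, 3, 5, 3, 0, 3, 6, 4, 0⟩ :=
  out_sound (S := T5.ds_mm) T5.ok_mm (w := 45) (j := 3) (by decide +kernel)
theorem L03651 : Good (Phi V5.P V5.D (-1) (-1)) ⟨5, 28, 4, 10, 3, 0, 3, 6, 5, 0⟩ :=
  leafX_sound T5.ok_mm T5.Ymm.bz_eq (w := 246) (c := ⟨⟨.negSucc 5932, .ofNat 208, .negSucc 1098, .negSucc 115, .negSucc 330, .ofNat 1999⟩, ⟨.ofNat 3873, .negSucc 374, .ofNat 1081, .ofNat 70, .ofNat 224, .negSucc 1327⟩, ⟨.ofNat 5790, .ofNat 55, .ofNat 958, .negSucc 119, .ofNat 322, .negSucc 1996⟩, ⟨.negSucc 8417, .negSucc 16, .negSucc 1375, .negSucc 113, .negSucc 563, .ofNat 3078⟩, ⟨.negSucc 38, .negSucc 287, .negSucc 56, .ofNat 70, .negSucc 142, .ofNat 393⟩, .ofNat 2461, .ofNat 3362, .ofNat 0, .ofNat 3362, .ofNat 5344, .ofNat 0, .ofNat 128, .negSucc 538, .negSucc 3525, .ofNat 0, .ofNat 376, .ofNat 2268, .ofNat 0, .ofNat 0, .ofNat 3962, .ofNat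 759, .ofNat 0, .ofNat 0, .ofNat 0, .ofNat 0, .ofNat 0, .ofNat 0, .ofNat 1287286740588740968700816619908204825768099840, .ofNat 0, .ofNat 0, .ofNat 0, .ofNat 1185530051806453588773543790164798423278026752, .ofNat 511583880199767668839545153923781706338102032300244992, .ofNat 0, .ofNat 0, .ofNat 2728106290323392694204479125602326911435931648, .ofNat 2404137731446665971635771344843044507677986750709366784⟩)
    (by decide +kernel)
theorem L03652 : Good (Phi V5.P V5.D (-1) (-1)) ⟨5, 28, 4, 10, 3, 0, 3, 6, 5, 1⟩ :=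
  leafX_sound T5.ok_mm T5.Ymm.bz_eq (w := 246) (c := ⟨⟨.negSucc 4258, .negSucc 256, .negSucc 232, .negSucc 264, .ofNat 185, .ofNat 665⟩, ⟨.ofNat 2732, .ofNat 178, .ofNat 319, .ofNat 174, .negSucc 121, .negSucc 440⟩, ⟨.ofNat 4174, .ofNat 284, .ofNat 215, .ofNat 49, .negSucc 220, .negSucc 669⟩, ⟨.negSucc 6102, .negSucc 210, .negSucc 301, .negSucc 367, .ofNat 239, .ofNat 1007⟩, ⟨.negSucc 33, .ofNat 6, .negSucc 13, .ofNat 5, .negSucc 34, .ofNat 111⟩, .ofNat 2455, .ofNat 3353, .ofNat 0, .ofNat 3353, .ofNat 5332, .ofNat 0, .ofNat 128, .negSucc 701, .negSucc 2910, .ofNat 0, .ofNat 490, .ofNat 1873, .ofNat 0, .ofNat 0, .ofNat 3678, .ofNat 5090, .ofNat 0, .ofNat 0, .ofNat 0, .ofNat 0, .ofNat 0, .ofNat 0, .ofNat 1671762215654939592296046519120004453855395840, .ofNat 175982015048172530475132881020280250775193635252076544, .ofNat 0, .ofNat 0, .ofNat 1663708276868014938642401159124135318013345792,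 .ofNat 1039423092110225945248927662914620715534865805682409472, .ofNat 0, .ofNat 0, .ofNat 2362669039983050307053751824806132178839666688, .ofNat 0⟩)
    (by decide +kernel)
theorem L03653 : Good (Phi V5.P V5.D (-1) (-1)) ⟨6, 56, 4, 11, 3, 0, 3, 6, 4, 0⟩ :=
  out_sound (S := T5.ds_mm) T5.ok_mm (w := 65) (j := 3) (by decide +kernel)
theorem L03654 : Good (Phi V5.P V5.D (-1) (-1)) ⟨7, 114, 5, 22, 3, 0, 3, 6, 4, 0⟩ :=
  out_sound (S := T5.ds_mm) T5.ok_mm (w := 73) (j := 3) (by decide +kernel)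
theorem L03655 : Good (Phi V5.P V5.D (-1) (-1)) ⟨7, 115, 5, 22, 3, 0, 3, 6, 4, 0⟩ :=
  out_sound (S := T5.ds_mm) T5.ok_mm (w := 21) (j := 4) (by decide +kernel)
theorem L03656 : Good (Phi V5.P V5.D (-1) (-1)) ⟨6, 57, 5, 23, 3, 0, 3, 6, 4, 0⟩ :=
  out_sound (S := T5.ds_mm) T5.ok_mm (w := 67) (j := 3) (by decide +kernel)
theorem L03657 : Good (Phi V5.P V5.D (-1) (-1)) ⟨5, 29, 3, 5, 3, 0, 3, 6, 4, 0⟩ :=
  out_sound (S := T5.ds_mm) T5.ok_mm (w := 17) (j := 4) (by decide +kernel)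
theorem L03658 : Good (Phi V5.P V5.D (-1) (-1)) ⟨4, 15, 3, 5, 3, 0, 3, 6, 4, 0⟩ :=
  out_sound (S := T5.ds_mm) T5.ok_mm (w := 51) (j := 3) (by decide +kernel)
theorem L03659 : Good (Phi V5.P V5.D (-1) (-1)) ⟨2, 2, 3, 5, 3, 0, 3, 6, 4, 1⟩ :=
  out_sound (S := T5.ds_mm) T5.ok_mm (w := 39) (j := 3) (by decide +kernel)
theorem L03660 : Good (Phi V5.P V5.D (-1) (-1)) ⟨2, 3, 3, 5, 3, 0, 3, 6, 4, 1⟩ :=
  leafX_sound T5.ok_mm T5.Ymm.bz_eq (w := 219) (c := ⟨⟨.negSucc 3830, .negSucc 20, .negSucc 370, .negSucc 133, .ofNat 318, .ofNat 667⟩, ⟨.ofNat 2469, .ofNat 1, .ofNat 535, .ofNat 91, .negSucc 210, .negSucc 438⟩, ⟨.ofNat 3674, .ofNat 146, .ofNat 352, .negSucc 56, .negSucc 376, .negSucc 671⟩, ⟨.negSucc 5492, .ofNat 79, .negSucc 373, .negSucc 191, .ofNat 441, .ofNat 966⟩, ⟨.ofNat 14, .negSucc 27, .negSucc 9, .ofNat 11, .negSucc 10, .ofNat 22⟩, .ofNat 417, .ofNat 344, .ofNat 0, .ofNat 344,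 .ofNat 739, .ofNat 0, .ofNat 128, .negSucc 256, .negSucc 751, .ofNat 0, .ofNat 240, .ofNat 407, .ofNat 0, .ofNat 0, .ofNat 1060, .ofNat 469, .ofNat 0, .ofNat 0, .ofNat 197819108229580272767151937775968387596288, .ofNat 29053911486423871605239331576812574007506239488, .ofNat 0, .ofNat 0, .ofNat 1228566899078960202198726125839881320005632, .ofNat 164139517742935769955824229033749794033122672640, .ofNat 0, .ofNat 0, .ofNat 15282597837891795969361867028421961242902528, .ofNat 5250253853757597254627731756733014337630874107904, .ofNat 0, .ofNat 0, .ofNat 14652280774017661545459394997844499910098944, .ofNat 6790699199397336854883453542262123227498252599296⟩)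
    (by decide +kernel)
theorem L03661 : Good (Phi V5.P V5.D (-1) (-1)) ⟨2, 2, 3, 5, 3, 0, 4, 14, 3, 0⟩ :=
  out_sound (S := T5.ds_mm) T5.ok_mm (w := 39) (j := 3) (by decide +kernel)
theorem L03662 : Good (Phi V5.P V5.D (-1) (-1)) ⟨3, 6, 4, 10, 3, 0, 4, 14, 4, 0⟩ :=
  out_sound (S := T5.ds_mm) T5.ok_mm (w := 47) (j := 3) (by decide +kernel)
theorem L03663 : Good (Phi V5.P V5.D (-1) (-1)) ⟨5, 28, 4, 10, 3, 0, 4, 14, 4, 0⟩ :=
  leafX_sound T5.ok_mm T5.Ymm.bz_eq (w := 246) (c := ⟨⟨.negSucc 5899, .negSucc 458, .negSucc 317, .negSucc 0, .ofNat 367, .ofNat 2646⟩, ⟨.ofNat 3791, .ofNat 367, .ofNat 388, .ofNat 5, .negSucc 242, .negSucc 1754⟩, ⟨.ofNat 5839, .ofNat 357, .ofNat 370, .negSucc 231, .negSucc 395, .negSucc 2678⟩, ⟨.negSucc 8536, .negSucc 448, .negSucc 742, .negSucc 93, .ofNat 564, .ofNat 4129⟩, ⟨.negSucc 151, .negSucc 62, .negSucc 424, .negSucc 174, .ofNat 58, .ofNat 588⟩, .ofNat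 2570, .ofNat 3504, .ofNat 0, .ofNat 3504, .ofNat 5521, .ofNat 0, .ofNat 128, .negSucc 710, .negSucc 4285, .ofNat 0, .ofNat 498, .ofNat 2780, .ofNat 0, .ofNat 0, .ofNat 4958, .ofNat 620, .ofNat 0, .ofNat 0, .ofNat 0, .ofNat 0, .ofNat 0, .ofNat 0, .ofNat 386291463623540865178788601264079877718409216, .ofNat 0, .ofNat 0, .ofNat 0, .ofNat 387506588412643505620274137322815741235298304, .ofNat 0, .ofNat 0, .ofNat 0, .ofNat 893221834160397934537058657649631363747282944, .ofNat 1317923593818447440726386736572054964278742834091130880⟩)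
    (by decide +kernel)
theorem L03664 : Good (Phi V5.P V5.D (-1) (-1)) ⟨5, 29, 4, 10, 3, 0, 4, 14, 4, 0⟩ :=
  out_sound (S := T5.ds_mm) T5.ok_mm (w := 59) (j := 3) (by decide +kernel)
theorem L03665 : Good (Phi V5.P V5.D (-1) (-1)) ⟨4, 15, 4, 10, 3, 0, 4, 14, 4, 0⟩ :=
  out_sound (S := T5.ds_mm) T5.ok_mm (w := 53) (j := 3) (by decide +kernel)
theorem L03666 : Good (Phi V5.P V5.D (-1) (-1)) ⟨2, 3, 4, 10, 3, 0, 4, 14, 4, 1⟩ :=
  leafX_sound T5.ok_mm T5.Ymm.bz_eq (w := 226) (c := ⟨⟨.negSucc 3572, .negSucc 40, .negSucc 211, .ofNat 41, .ofNat 351, .ofNat 721⟩, ⟨.ofNat 2244, .ofNat 133, .ofNat 263, .negSucc 26, .negSucc 231, .negSucc 476⟩, ⟨.ofNat 3454, .ofNat 23, .ofNat 208, .negSucc 236, .negSucc 402, .negSucc 756⟩, ⟨.negSucc 5178, .ofNat 105, .negSucc 244, .ofNat 60, .ofNat 510, .ofNat 1058⟩, ⟨.negSucc 5, .negSucc 26, .negSucc 12, .ofNat 3, .ofNat 5, .ofNat 36⟩, .ofNat 402, .ofNat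 319, .ofNat 0, .ofNat 319, .ofNat 701, .ofNat 0, .ofNat 128, .negSucc 185, .negSucc 806, .ofNat 0, .ofNat 180, .ofNat 428, .ofNat 0, .ofNat 0, .ofNat 1039, .ofNat 287, .ofNat 0, .ofNat 0, .ofNat 3639525143195709486022680148815219351617536, .ofNat 3583883202301667900597179592457701424783236792320, .ofNat 0, .ofNat 0, .ofNat 27129454578839941705179442587528442429833216, .ofNat 14557757905050192313254506642422646940526115291136, .ofNat 0, .ofNat 0, .ofNat 164112603604754854959498564700553505432141824, .ofNat 218100754862036107445685323994876330484103911571456, .ofNat 0, .ofNat 0, .ofNat 212560256901114492248166170621090617070977024, .ofNat 559764009870156370614016031403620497512289733181440⟩)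
    (by decide +kernel)
theorem L03667 : Good (Phi V5.P V5.D (-1) (-1)) ⟨3, 6, 4, 11, 3, 0, 4, 14, 3, 0⟩ :=
  out_sound (S := T5.ds_mm) T5.ok_mm (w := 47) (j := 3) (by decide +kernel)
theorem L03668 : Good (Phi V5.P V5.D (-1) (-1)) ⟨6, 56, 4, 11, 3, 0, 4, 14, 3, 0⟩ :=
  out_sound (S := T5.ds_mm) T5.ok_mm (w := 65) (j := 3) (by decide +kernel)
theorem L03669 : Good (Phi V5.P V5.D (-1) (-1)) ⟨7, 114, 5, 22, 3, 0, 4, 14, 3, 0⟩ :=
  out_sound (S := T5.ds_mm) T5.ok_mm (w := 73) (j := 3) (by decide +kernel)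
theorem L03670 : Good (Phi V5.P V5.D (-1) (-1)) ⟨7, 115, 5, 22, 3, 0, 4, 14, 3, 0⟩ :=
  out_sound (S := T5.ds_mm) T5.ok_mm (w := 21) (j := 4) (by decide +kernel)
theorem L03671 : Good (Phi V5.P V5.D (-1) (-1)) ⟨6, 57, 5, 23, 3, 0, 4, 14, 3, 0⟩ :=
  out_sound (S := T5.ds_mm) T5.ok_mm (w := 67) (j := 3) (by decide +kernel)
theorem L03672 : Good (Phi V5.P V5.D (-1) (-1)) ⟨5, 29, 4, 11, 3, 0, 4, 14, 3, 0⟩ :=
  out_sound (S := T5.ds_mm) T5.ok_mm (w := 17) (j := 4) (by decide +kernel)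
theorem L03673 : Good (Phi V5.P V5.D (-1) (-1)) ⟨4, 15, 4, 11, 3, 0, 4, 14, 3, 0⟩ :=
  out_sound (S := T5.ds_mm) T5.ok_mm (w := 53) (j := 3) (by decide +kernel)
theorem L03674 : Good (Phi V5.P V5.D (-1) (-1)) ⟨2, 2, 3, 5, 3, 0, 4, 15, 3, 0⟩ :=
  out_sound (S := T5.ds_mm) T5.ok_mm (w := 39) (j := 3) (by decide +kernel)
theorem L03675 : Good (Phi V5.P V5.D (-1) (-1)) ⟨3, 6, 3, 5, 3, 0, 4, 15, 4, 0⟩ :=
  out_sound (S := T5.ds_mm) T5.ok_mm (w := 45) (j := 3) (by decide +kernel)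
theorem L03676 : Good (Phi V5.P V5.D (-1) (-1)) ⟨5, 28, 4, 10, 3, 0, 5, 30, 4, 0⟩ :=
  leafX_sound T5.ok_mm T5.Ymm.bz_eq (w := 250) (c := ⟨⟨.negSucc 5631, .negSucc 651, .negSucc 313, .ofNat 493, .ofNat 348, .ofNat 2750⟩, ⟨.ofNat 3627, .ofNat 468, .ofNat 380, .negSucc 327, .negSucc 221, .negSucc 1822⟩, ⟨.ofNat 5545, .ofNat 613, .ofNat 333, .negSucc 740, .negSucc 365, .negSucc 2804⟩, ⟨.negSucc 8186, .negSucc 741, .negSucc 609, .ofNat 713, .ofNat 413, .ofNat 4322⟩, ⟨.negSucc 236, .negSucc 6, .negSucc 269, .ofNat 10, .negSucc 126, .ofNat 667⟩, .ofNat 2451, .ofNat 3347, .ofNat 0, .ofNat 3347, .ofNat 5324, .ofNat 0, .ofNat 128, .negSucc 582, .negSucc 4530, .ofNat 0, .ofNat 407, .ofNat 2913, .ofNat 0, .ofNat 0, .ofNat 5065, .ofNat 232, .ofNat 0, .ofNat 0, .ofNat 64947912107265278518842350934714011617329152, .ofNat 0, .ofNat 0, .ofNat 0, .ofNat 8079460498045687596312278820248565219200073728,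 .ofNat 1383132090083917936698976994292105757590235130135314432, .ofNat 0, .ofNat 0, .ofNat 4679578859914075508157970810983003209416572928, .ofNat 33803189739699267246625494738058720043302756659757056, .ofNat 0, .ofNat 0, .ofNat 8437336733787633924638334043726397680761438208, .ofNat 21182003383034089806028886135161820419529722599653244928⟩)
    (by decide +kernel)
theorem L03677 : Good (Phi V5.P V5.D (-1) (-1)) ⟨6, 56, 4, 10, 3, 0, 5, 31, 5, 0⟩ :=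
  leafX_sound T5.ok_mm T5.Ymm.bz_eq (w := 260) (c := ⟨⟨.negSucc 5506, .negSucc 431, .negSucc 681, .ofNat 1218, .ofNat 1427, .ofNat 1952⟩, ⟨.ofNat 3552, .ofNat 306, .ofNat 580, .negSucc 807, .negSucc 931, .negSucc 1277⟩, ⟨.ofNat 5398, .ofNat 447, .ofNat 664, .negSucc 1480, .negSucc 1447, .negSucc 1986⟩, ⟨.negSucc 8055, .negSucc 673, .negSucc 928, .ofNat 2020, .ofNat 1984, .ofNat 2978⟩, ⟨.negSucc 346, .negSucc 180, .negSucc 11, .ofNat 437, .negSucc 53, .ofNat 363⟩, .ofNat 3620, .ofNat 5143, .ofNat 0, .ofNat 5143, .ofNat 8098, .ofNat 0, .ofNat 128, .negSucc 466, .negSucc 5720, .ofNat 0, .ofNat 319, .ofNat 3683, .ofNat 0, .ofNat 0, .ofNat 6087, .ofNat 2166, .ofNat 0, .ofNat 0, .ofNat 0, .ofNat 0, .ofNat 0, .ofNat 0, .ofNat 132382709883707311218959144447822463371036327936, .ofNat 0, .ofNat 0, .ofNat 0, .ofNat 64334114135673630936635861583190444269887291392, .ofNat 0, .ofNat 0, .ofNat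 0, .ofNat 139659710776685838142739268652490273869778649088, .ofNat 0⟩)
    (by decide +kernel)
theorem L03678 : Good (Phi V5.P V5.D (-1) (-1)) ⟨6, 57, 4, 10, 3, 0, 5, 31, 5, 0⟩ :=
  leafX_sound T5.ok_mm T5.Ymm.bz_eq (w := 261) (c := ⟨⟨.negSucc 6316, .negSucc 653, .negSucc 565, .ofNat 1578, .ofNat 1644, .ofNat 2256⟩, ⟨.ofNat 4059, .ofNat 330, .ofNat 646, .negSucc 1057, .negSucc 1098, .negSucc 1502⟩, ⟨.ofNat 6218, .ofNat 654, .ofNat 559, .negSucc 1843, .negSucc 1666, .negSucc 2289⟩, ⟨.negSucc 9058, .negSucc 656, .negSucc 618, .ofNat 2233, .ofNat 2358, .ofNat 3128⟩, ⟨.negSucc 228, .ofNat 232, .ofNat 220, .ofNat 5, .ofNat 74, .negSucc 65⟩, .ofNat 3726, .ofNat 5131, .ofNat 0, .ofNat 5131, .ofNat 7802, .ofNat 0, .ofNat 128, .negSucc 606, .negSucc 7327, .ofNat 0, .ofNat 432, .ofNat 4867, .ofNat 0, .ofNat 0, .ofNat 7713, .ofNat 483, .ofNat 0, .ofNat 0, .ofNat 0, .ofNat 0, .ofNat 0, .ofNat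 2213597976217398268644640486249099338582013276848128, .ofNat 277420584151804850613345120538650807511763910656, .ofNat 0, .ofNat 0, .ofNat 0, .ofNat 0, .ofNat 0, .ofNat 0, .ofNat 0, .ofNat 0, .ofNat 6272073656344722437609280333096493472142348576914581487616⟩)
    (by decide +kernel)
theorem L03679 : Good (Phi V5.P V5.D (-1) (-1)) ⟨5, 28, 4, 10, 3, 0, 5, 31, 5, 1⟩ :=
  leafX_sound T5.ok_mm T5.Ymm.bz_eq (w := 254) (c := ⟨⟨.negSucc 3804, .ofNat 2, .negSucc 437, .ofNat 948, .ofNat 1547, .ofNat 726⟩, ⟨.ofNat 2383, .ofNat 435, .ofNat 130, .negSucc 631, .negSucc 1020, .negSucc 488⟩, ⟨.ofNat 3658, .ofNat 37, .ofNat 413, .negSucc 1197, .negSucc 1578, .negSucc 760⟩, ⟨.negSucc 5656, .ofNat 120, .negSucc 485, .ofNat 1404, .ofNat 2277, .ofNat 1158⟩, ⟨.negSucc 333, .negSucc 160, .ofNat 311, .ofNat 88, .ofNat 134, .ofNat 217⟩, .ofNat 2447, .ofNat 3341, .ofNat 0, .ofNat 3341, .ofNat 5315, .ofNat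 0, .ofNat 128, .negSucc 498, .negSucc 4138, .ofNat 0, .ofNat 349, .ofNat 2661, .ofNat 0, .ofNat 0, .ofNat 4572, .ofNat 743, .ofNat 0, .ofNat 0, .ofNat 0, .ofNat 0, .ofNat 0, .ofNat 0, .ofNat 262590443337411220846509734895756003204371841024, .ofNat 33909249891685242561546121038779110138576827862491332608, .ofNat 0, .ofNat 0, .ofNat 182844242587006660999007918430208152578243428352, .ofNat 43619135838961613291659335434867001977080319972843978752, .ofNat 0, .ofNat 6410278258607460142486860566329541802789230744698880, .ofNat 0, .ofNat 671488691372667493418391342529887048468098698127274409984⟩)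
    (by decide +kernel)
theorem L03680 : Good (Phi V5.P V5.D (-1) (-1)) ⟨6, 56, 4, 11, 3, 0, 4, 15, 4, 0⟩ :=
  out_sound (S := T5.ds_mm) T5.ok_mm (w := 65) (j := 3) (by decide +kernel)
theorem L03681 : Good (Phi V5.P V5.D (-1) (-1)) ⟨7, 114, 5, 22, 3, 0, 4, 15, 4, 0⟩ :=
  out_sound (S := T5.ds_mm) T5.ok_mm (w := 73) (j := 3) (by decide +kernel)
theorem L03682 : Good (Phi V5.P V5.D (-1) (-1)) ⟨7, 115, 5, 22, 3, 0, 4, 15, 4, 0⟩ :=
  out_sound (S := T5.ds_mm) T5.ok_mm (w := 21) (j := 4) (by decide +kernel)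
theorem L03683 : Good (Phi V5.P V5.D (-1) (-1)) ⟨6, 57, 5, 23, 3, 0, 4, 15, 4, 0⟩ :=
  out_sound (S := T5.ds_mm) T5.ok_mm (w := 67) (j := 3) (by decide +kernel)
theorem L03684 : Good (Phi V5.P V5.D (-1) (-1)) ⟨5, 29, 3, 5, 3, 0, 4, 15, 4, 0⟩ :=
  out_sound (S := T5.ds_mm) T5.ok_mm (w := 17) (j := 4) (by decide +kernel)
theorem L03685 : Good (Phi V5.P V5.D (-1) (-1)) ⟨4, 15, 3, 5, 3, 0, 4, 15, 4, 0⟩ :=
  out_sound (S := T5.ds_mm) T5.ok_mm (w := 51) (j := 3) (by decide +kernel)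
theorem L03686 : Good (Phi V5.P V5.D (-1) (-1)) ⟨3, 6, 3, 5, 3, 0, 4, 15, 4, 1⟩ :=
  out_sound (S := T5.ds_mm) T5.ok_mm (w := 45) (j := 3) (by decide +kernel)
theorem L03687 : Good (Phi V5.P V5.D (-1) (-1)) ⟨5, 28, 3, 5, 3, 0, 4, 15, 4, 1⟩ :=
  leafX_sound T5.ok_mm T5.Ymm.bz_eq (w := 238) (c := ⟨⟨.negSucc 3068, .negSucc 1109, .ofNat 945, .ofNat 498, .ofNat 1468, .ofNat 507⟩, ⟨.ofNat 1981, .ofNat 730, .negSucc 439, .negSucc 328, .negSucc 963, .negSucc 330⟩, ⟨.ofNat 2988, .ofNat 743, .negSucc 542, .negSucc 705, .negSucc 1538, .negSucc 568⟩, ⟨.negSucc 4587, .negSucc 1026, .ofNat 815, .ofNat 746, .ofNat 2193, .ofNat 795⟩, ⟨.negSucc 218, .ofNat 477, .negSucc 495, .ofNat 5, .ofNat 78, .ofNat 98⟩, .ofNat 1061, .ofNat 1258, .ofNat 0, .ofNat 1258, .ofNat 2122, .ofNat 0, .ofNat 128, .negSucc 499, .negSucc 2548, .ofNat 0, .ofNat 375, .ofNat 1604, .ofNat 0, .ofNat 0, .ofNat 3092, .ofNat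 294, .ofNat 0, .ofNat 0, .ofNat 0, .ofNat 0, .ofNat 0, .ofNat 0, .ofNat 9350682447153834794896789556235487145885696, .ofNat 825844031149719068964510017431536561977335901847552, .ofNat 0, .ofNat 0, .ofNat 41034818952173603505724112518959553358856192, .ofNat 7031796463254665247593019950433823303404282519224320, .ofNat 0, .ofNat 13732139453697274912074312102673306015384591138816, .ofNat 19786952896243286155503472288758367357239296, .ofNat 54792893614983081845471622859901091143151836765093888⟩)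
    (by decide +kernel)
theorem L03688 : Good (Phi V5.P V5.D (-1) (-1)) ⟨5, 29, 3, 5, 3, 0, 4, 15, 4, 1⟩ :=
  out_sound (S := T5.ds_mm) T5.ok_mm (w := 17) (j := 4) (by decide +kernel)
theorem L03689 : Good (Phi V5.P V5.D (-1) (-1)) ⟨4, 15, 3, 5, 3, 0, 4, 15, 4, 1⟩ :=
  out_sound (S := T5.ds_mm) T5.ok_mm (w := 51) (j := 3) (by decide +kernel)
theorem L03690 : Good (Phi V5.P V5.D (-1) (-1)) ⟨2, 2, 3, 5, 3, 1, 3, 6, 4, 0⟩ :=
  out_sound (S := T5.ds_mm) T5.ok_mm (w := 39) (j := 3) (by decide +kernel)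
theorem L03691 : Good (Phi V5.P V5.D (-1) (-1)) ⟨3, 6, 3, 5, 3, 1, 3, 6, 4, 0⟩ :=
  out_sound (S := T5.ds_mm) T5.ok_mm (w := 45) (j := 3) (by decide +kernel)
theorem L03692 : Good (Phi V5.P V5.D (-1) (-1)) ⟨6, 56, 4, 10, 3, 1, 3, 6, 5, 0⟩ :=
  leafX_sound T5.ok_mm T5.Ymm.bz_eq (w := 254) (c := ⟨⟨.negSucc 5506, .ofNat 607, .negSucc 1331, .ofNat 600, .negSucc 65, .ofNat 622⟩, ⟨.ofNat 3533, .negSucc 384, .ofNat 1057, .negSucc 398, .ofNat 44, .negSucc 401⟩, ⟨.ofNat 5162, .negSucc 568, .ofNat 1258, .negSucc 819, .ofNat 76, .negSucc 622⟩, ⟨.negSucc 7526, .ofNat 232, .negSucc 1435, .ofNat 1264, .negSucc 315, .ofNat 713⟩, ⟨.ofNat 378, .negSucc 757, .ofNat 213, .ofNat 630, .negSucc 341, .negSucc 267⟩, .ofNat 5208, .ofNat 7566, .ofNat 0, .ofNat 7566, .ofNat 11800, .ofNat 0, .ofNat 128, .negSucc 1009, .negSucc 7548, .ofNat 0, .ofNat 681, .ofNat 4887, .ofNat 0, .ofNat 0, .ofNat 8280, .ofNat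 2196, .ofNat 0, .ofNat 0, .ofNat 0, .ofNat 0, .ofNat 0, .ofNat 0, .ofNat 1166019795011025245266527257237902009896534016, .ofNat 0, .ofNat 0, .ofNat 0, .ofNat 1417915034225893141916194282987393103345745920, .ofNat 0, .ofNat 0, .ofNat 0, .ofNat 0, .ofNat 0⟩)
    (by decide +kernel)
theorem L03693 : Good (Phi V5.P V5.D (-1) (-1)) ⟨7, 114, 4, 10, 3, 1, 3, 6, 6, 0⟩ :=
  leafX_sound T5.ok_mm T5.Ymm.bz_eq (w := 262) (c := ⟨⟨.negSucc 6169, .negSucc 737, .negSucc 201, .ofNat 1189, .negSucc 441, .ofNat 1004⟩, ⟨.ofNat 4057, .ofNat 574, .ofNat 197, .negSucc 796, .ofNat 296, .negSucc 674⟩, ⟨.ofNat 5825, .ofNat 737, .ofNat 183, .negSucc 1400, .ofNat 469, .negSucc 997⟩, ⟨.negSucc 8764, .negSucc 1100, .negSucc 166, .ofNat 1640, .negSucc 683, .ofNat 1517⟩, ⟨.ofNat 14, .negSucc 47, .negSucc 124, .negSucc 63, .negSucc 78, .ofNat 158⟩, .ofNat 2280, .ofNat 3037, .ofNat 0, .ofNat 3037, .ofNat 4765,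 .ofNat 0, .ofNat 128, .negSucc 725, .negSucc 10523, .ofNat 0, .ofNat 519, .ofNat 6875, .ofNat 0, .ofNat 0, .ofNat 11148, .ofNat 1288, .ofNat 0, .ofNat 0, .ofNat 0, .ofNat 0, .ofNat 0, .ofNat 0, .ofNat 6867358296466007203752650219202884599493427200, .ofNat 0, .ofNat 0, .ofNat 0, .ofNat 0, .ofNat 0, .ofNat 0, .ofNat 0, .ofNat 0, .ofNat 0⟩)
    (by decide +kernel)
theorem L03694 : Good (Phi V5.P V5.D (-1) (-1)) ⟨7, 115, 4, 10, 3, 1, 3, 6, 6, 0⟩ :=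
  out_sound (S := T5.ds_mm) T5.ok_mm (w := 21) (j := 4) (by decide +kernel)
theorem L03695 : Good (Phi V5.P V5.D (-1) (-1)) ⟨7, 114, 4, 10, 3, 1, 3, 6, 6, 1⟩ :=
  leafX_sound T5.ok_mm T5.Ymm.bz_eq (w := 257) (c := ⟨⟨.negSucc 5181, .negSucc 253, .negSucc 172, .ofNat 312, .negSucc 59, .ofNat 407⟩, ⟨.ofNat 3465, .ofNat 297, .ofNat 47, .negSucc 209, .ofNat 40, .negSucc 271⟩, ⟨.ofNat 4912, .ofNat 292, .ofNat 58, .negSucc 548, .ofNat 64, .negSucc 402⟩, ⟨.negSucc 7542, .negSucc 538, .ofNat 269, .ofNat 402, .negSucc 124, .ofNat 600⟩, ⟨.ofNat 60, .ofNat 50, .negSucc 101, .negSucc 75, .negSucc 56, .ofNat 45⟩, .ofNat 895, .ofNat 996, .ofNat 0, .ofNat 996, .ofNat 1710, .ofNat 0, .ofNat 128, .negSucc 589, .negSucc 5929, .ofNat 0, .ofNat 464, .ofNat 3708, .ofNat 0, .ofNat 0, .ofNat 6450, .ofNat 1833, .ofNat 0, .ofNat 0, .ofNat 0, .ofNat 0, .ofNat 0, .ofNat 0, .ofNat 2550647238232201212848622372641589482464739328,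 .ofNat 0, .ofNat 0, .ofNat 0, .ofNat 0, .ofNat 0, .ofNat 0, .ofNat 0, .ofNat 0, .ofNat 0⟩)
    (by decide +kernel)
theorem L03696 : Good (Phi V5.P V5.D (-1) (-1)) ⟨7, 115, 4, 10, 3, 1, 3, 6, 6, 1⟩ :=
  out_sound (S := T5.ds_mm) T5.ok_mm (w := 21) (j := 4) (by decide +kernel)
theorem L03697 : Good (Phi V5.P V5.D (-1) (-1)) ⟨5, 28, 4, 10, 3, 1, 3, 6, 5, 1⟩ :=
  leafX_sound T5.ok_mm T5.Ymm.bz_eq (w := 243) (c := ⟨⟨.negSucc 4426, .negSucc 303, .negSucc 278, .negSucc 97, .ofNat 229, .ofNat 507⟩, ⟨.ofNat 2826, .ofNat 257, .ofNat 328, .ofNat 64, .negSucc 146, .negSucc 332⟩, ⟨.ofNat 4100, .ofNat 364, .ofNat 231, .negSucc 142, .negSucc 241, .negSucc 499⟩, ⟨.negSucc 6269, .negSucc 459, .negSucc 254, .negSucc 159, .ofNat 268, .ofNat 758⟩, ⟨.ofNat 10, .ofNat 38, .negSucc 19, .negSucc 45, .negSucc 74, .ofNat 66⟩, .ofNat 906, .ofNat 1026, .ofNat 0, .ofNat 1026, .ofNat 1787, .ofNat 0, .ofNat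 128, .negSucc 591, .negSucc 3632, .ofNat 0, .ofNat 456, .ofNat 2242, .ofNat 0, .ofNat 0, .ofNat 4271, .ofNat 1616, .ofNat 0, .ofNat 0, .ofNat 0, .ofNat 0, .ofNat 0, .ofNat 0, .ofNat 195308118315761382749048877643527977995075584, .ofNat 76493711527170995396994588879298174391908317830053888, .ofNat 0, .ofNat 0, .ofNat 0, .ofNat 0, .ofNat 0, .ofNat 0, .ofNat 0, .ofNat 0⟩)
    (by decide +kernel)
theorem L03698 : Good (Phi V5.P V5.D (-1) (-1)) ⟨6, 56, 4, 11, 3, 1, 3, 6, 4, 0⟩ :=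
  out_sound (S := T5.ds_mm) T5.ok_mm (w := 65) (j := 3) (by decide +kernel)
theorem L03699 : Good (Phi V5.P V5.D (-1) (-1)) ⟨7, 114, 5, 22, 3, 1, 3, 6, 4, 0⟩ :=
  out_sound (S := T5.ds_mm) T5.ok_mm (w := 73) (j := 3) (by decide +kernel)
theorem L03700 : Good (Phi V5.P V5.D (-1) (-1)) ⟨7, 115, 5, 22, 3, 1, 3, 6, 4, 0⟩ :=
  out_sound (S := T5.ds_mm) T5.ok_mm (w := 21) (j := 4) (by decide +kernel)
theorem L03701 : Good (Phi V5.P V5.D (-1) (-1)) ⟨6, 57, 5, 23, 3, 1, 3, 6, 4, 0⟩ :=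
  out_sound (S := T5.ds_mm) T5.ok_mm (w := 67) (j := 3) (by decide +kernel)
theorem L03702 : Good (Phi V5.P V5.D (-1) (-1)) ⟨5, 29, 3, 5, 3, 1, 3, 6, 4, 0⟩ :=
  out_sound (S := T5.ds_mm) T5.ok_mm (w := 17) (j := 4) (by decide +kernel)
theorem L03703 : Good (Phi V5.P V5.D (-1) (-1)) ⟨4, 15, 3, 5, 3, 1, 3, 6, 4, 0⟩ :=
  out_sound (S := T5.ds_mm) T5.ok_mm (w := 51) (j := 3) (by decide +kernel)
theorem L03704 : Good (Phi V5.P V5.D (-1) (-1)) ⟨2, 2, 3, 5, 3, 1, 3, 6, 4, 1⟩ :=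
  out_sound (S := T5.ds_mm) T5.ok_mm (w := 39) (j := 3) (by decide +kernel)
theorem L03705 : Good (Phi V5.P V5.D (-1) (-1)) ⟨3, 6, 3, 5, 3, 1, 3, 6, 4, 1⟩ :=
  out_sound (S := T5.ds_mm) T5.ok_mm (w := 45) (j := 3) (by decide +kernel)
theorem L03706 : Good (Phi V5.P V5.D (-1) (-1)) ⟨3, 7, 3, 5, 3, 1, 3, 6, 4, 1⟩ :=
  leafX_sound T5.ok_mm T5.Ymm.bz_eq (w := 228) (c := ⟨⟨.negSucc 4065, .negSucc 69, .negSucc 494, .negSucc 232, .ofNat 430, .ofNat 786⟩, ⟨.ofNat 2606, .ofNat 166, .ofNat 601, .ofNat 154, .negSucc 282, .negSucc 518⟩, ⟨.ofNat 3778, .ofNat 144, .ofNat 437, .negSucc 14, .negSucc 477, .negSucc 761⟩, ⟨.negSucc 5776, .negSucc 82, .negSucc 473, .negSucc 315, .ofNat 595, .ofNat 1131⟩, ⟨.negSucc 2, .negSucc 23, .ofNat 23, .ofNat 15, .negSucc 14, .ofNat 39⟩, .ofNat 2456, .ofNat 3352, .ofNat 0, .ofNat 3352, .ofNat 5327, .ofNat 0, .ofNat 128, .negSucc 618, .negSucc 1370, .ofNat 0,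 .ofNat 431, .ofNat 886, .ofNat 0, .ofNat 0, .ofNat 1962, .ofNat 1014, .ofNat 0, .ofNat 0, .ofNat 224894000591328291142839919063781924143104, .ofNat 1114962345159075321561660993117696849768892858368, .ofNat 0, .ofNat 0, .ofNat 74299158382466689568446886975050908803530752, .ofNat 147544338244480829525084072809725128993955809067008, .ofNat 0, .ofNat 0, .ofNat 45087189993722909539477909662769179074232320, .ofNat 170636374775674456127238107442377992369942197960704, .ofNat 0, .ofNat 0, .ofNat 20648912823824558141865504350397802355884032, .ofNat 190104891691635202124296660724406073615467107319808⟩)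
    (by decide +kernel)
theorem L03707 : Good (Phi V5.P V5.D (-1) (-1)) ⟨2, 2, 3, 5, 3, 1, 4, 14, 3, 0⟩ :=
  out_sound (S := T5.ds_mm) T5.ok_mm (w := 39) (j := 3) (by decide +kernel)
theorem L03708 : Good (Phi V5.P V5.D (-1) (-1)) ⟨3, 6, 3, 5, 3, 1, 4, 14, 4, 0⟩ :=
  out_sound (S := T5.ds_mm) T5.ok_mm (w := 45) (j := 3) (by decide +kernel)
theorem L03709 : Good (Phi V5.P V5.D (-1) (-1)) ⟨5, 28, 4, 10, 4, 2, 4, 14, 4, 0⟩ :=
  leafX_sound T5.ok_mm T5.Ymm.bz_eq (w := 259) (c := ⟨⟨.negSucc 5366, .negSucc 570, .negSucc 293, .ofNat 31, .ofNat 593, .ofNat 1876⟩, ⟨.ofNat 3474, .ofNat 334, .ofNat 401, .negSucc 26, .negSucc 390, .negSucc 1240⟩, ⟨.ofNat 5076, .ofNat 435, .ofNat 358, .negSucc 141, .negSucc 620, .negSucc 1901⟩, ⟨.negSucc 7890, .negSucc 551, .negSucc 454, .ofNat 150, .ofNat 772, .ofNat 2906⟩, ⟨.negSucc 372, .ofNat 148, .negSucc 100, .ofNat 142, .negSucc 99, .ofNat 405⟩, .ofNat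 2570, .ofNat 3504, .ofNat 0, .ofNat 3504, .ofNat 5521, .ofNat 0, .ofNat 128, .negSucc 451, .negSucc 3022, .ofNat 0, .ofNat 316, .ofNat 1963, .ofNat 0, .ofNat 0, .ofNat 3407, .ofNat 660, .ofNat 0, .ofNat 0, .ofNat 0, .ofNat 0, .ofNat 0, .ofNat 0, .ofNat 7330824255501061992843490395162961388440645533696, .ofNat 0, .ofNat 0, .ofNat 0, .ofNat 3921677856140059957428474946151235335381590212608, .ofNat 351511021425285184372563840300264940956348298068804763648, .ofNat 0, .ofNat 0, .ofNat 10914258283642828019221189190402741254081988263936, .ofNat 12063503074338321879666328836034983535098586716174890827776⟩)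
    (by decide +kernel)
theorem L03710 : Good (Phi V5.P V5.D (-1) (-1)) ⟨5, 28, 4, 10, 4, 3, 4, 14, 4, 0⟩ :=
  leafX_sound T5.ok_mm T5.Ymm.bz_eq (w := 259) (c := ⟨⟨.negSucc 4873, .negSucc 826, .negSucc 105, .ofNat 136, .ofNat 663, .ofNat 1239⟩, ⟨.ofNat 3058, .ofNat 926, .ofNat 36, .negSucc 98, .negSucc 434, .negSucc 819⟩, ⟨.ofNat 4507, .ofNat 537, .ofNat 261, .negSucc 220, .negSucc 675, .negSucc 1284⟩, ⟨.negSucc 7233, .negSucc 823, .negSucc 278, .ofNat 272, .ofNat 930, .ofNat 2010⟩, ⟨.negSucc 418, .ofNat 213, .negSucc 187, .ofNat 99, .negSucc 6, .ofNat 414⟩, .ofNat 2441, .ofNat 3333, .ofNat 0, .ofNat 3333, .ofNat 5306, .ofNat 0, .ofNat 128, .negSucc 505, .negSucc 3716, .ofNat 0, .ofNat 352, .ofNat 2392, .ofNat 0, .ofNat 0, .ofNat 4138, .ofNat 779, .ofNat 0, .ofNat 0, .ofNat 0, .ofNat 0, .ofNat 0, .ofNat 0, .ofNat 7453990252671718014388857078453524137415733673984, .ofNat 1812678927814203998258449245167501154591733957649571512320,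 .ofNat 0, .ofNat 0, .ofNat 4025336956199547624837341672414883872774174015488, .ofNat 0, .ofNat 0, .ofNat 0, .ofNat 12568947981876485485612163447340031940815249997824, .ofNat 17379371594614752552916641615652627960075310927805853728768⟩)
    (by decide +kernel)
theorem L03711 : Good (Phi V5.P V5.D (-1) (-1)) ⟨6, 56, 4, 11, 3, 1, 4, 14, 4, 0⟩ :=
  out_sound (S := T5.ds_mm) T5.ok_mm (w := 65) (j := 3) (by decide +kernel)
theorem L03712 : Good (Phi V5.P V5.D (-1) (-1)) ⟨7, 114, 5, 22, 3, 1, 4, 14, 4, 0⟩ :=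
  out_sound (S := T5.ds_mm) T5.ok_mm (w := 73) (j := 3) (by decide +kernel)
theorem L03713 : Good (Phi V5.P V5.D (-1) (-1)) ⟨7, 115, 5, 22, 3, 1, 4, 14, 4, 0⟩ :=
  out_sound (S := T5.ds_mm) T5.ok_mm (w := 21) (j := 4) (by decide +kernel)
theorem L03714 : Good (Phi V5.P V5.D (-1) (-1)) ⟨6, 57, 5, 23, 3, 1, 4, 14, 4, 0⟩ :=
  out_sound (S := T5.ds_mm) T5.ok_mm (w := 67) (j := 3) (by decide +kernel)
theorem L03715 : Good (Phi V5.P V5.D (-1) (-1)) ⟨5, 29, 3, 5, 3, 1, 4, 14, 4, 0⟩ :=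
  out_sound (S := T5.ds_mm) T5.ok_mm (w := 17) (j := 4) (by decide +kernel)
theorem L03716 : Good (Phi V5.P V5.D (-1) (-1)) ⟨4, 15, 3, 5, 3, 1, 4, 14, 4, 0⟩ :=
  out_sound (S := T5.ds_mm) T5.ok_mm (w := 51) (j := 3) (by decide +kernel)
theorem L03717 : Good (Phi V5.P V5.D (-1) (-1)) ⟨3, 6, 3, 5, 3, 1, 4, 14, 4, 1⟩ :=
  out_sound (S := T5.ds_mm) T5.ok_mm (w := 45) (j := 3) (by decide +kernel)
theorem L03718 : Good (Phi V5.P V5.D (-1) (-1)) ⟨3, 7, 3, 5, 3, 1, 4, 14, 4, 1⟩ :=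
  leafX_sound T5.ok_mm T5.Ymm.bz_eq (w := 228) (c := ⟨⟨.negSucc 3675, .negSucc 224, .negSucc 473, .negSucc 147, .ofNat 582, .ofNat 841⟩, ⟨.ofNat 2370, .ofNat 66, .ofNat 599, .ofNat 100, .negSucc 384, .negSucc 555⟩, ⟨.ofNat 3343, .ofNat 140, .ofNat 469, .negSucc 70, .negSucc 630, .negSucc 850⟩, ⟨.negSucc 5243, .negSucc 195, .negSucc 517, .negSucc 210, .ofNat 817, .ofNat 1238⟩, ⟨.negSucc 29, .ofNat 22, .ofNat 3, .negSucc 4, .negSucc 8, .ofNat 78⟩, .ofNat 916, .ofNat 1038, .ofNat 0, .ofNat 1038, .ofNat 1797, .ofNat 0, .ofNat 128, .negSucc 275, .negSucc 955, .ofNat 0, .ofNat 212, .ofNat 595, .ofNat 0, .ofNat 0, .ofNat 1239, .ofNat 793, .ofNat 0, .ofNat 0, .ofNat 1636998196727982194890751547879043226402816, .ofNat 10748858782806014931486974208796817033969023320064, .ofNat 0, .ofNat 0, .ofNat 196354141911529278531127302733960750483636224, .ofNat 136669091048901012331575076878990267823008671334400,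 .ofNat 0, .ofNat 0, .ofNat 173015351605289103251694346869894858386964480, .ofNat 634962515962988894923429251994973559421156695474176, .ofNat 0, .ofNat 0, .ofNat 255376948023016401930700291262218437987926016, .ofNat 881613484547552478495331649460815222579323643887616⟩)
    (by decide +kernel)
theorem L03719 : Good (Phi V5.P V5.D (-1) (-1)) ⟨2, 2, 4, 10, 3, 1, 4, 15, 3, 0⟩ :=
  out_sound (S := T5.ds_mm) T5.ok_mm (w := 41) (j := 3) (by decide +kernel)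
theorem L03720 : Good (Phi V5.P V5.D (-1) (-1)) ⟨3, 6, 4, 10, 3, 1, 4, 15, 3, 0⟩ :=
  out_sound (S := T5.ds_mm) T5.ok_mm (w := 47) (j := 3) (by decide +kernel)
theorem L03721 : Good (Phi V5.P V5.D (-1) (-1)) ⟨5, 28, 4, 10, 3, 1, 5, 30, 5, 0⟩ :=
  leafX_sound T5.ok_mm T5.Ymm.bz_eq (w := 255) (c := ⟨⟨.negSucc 4705, .negSucc 86, .negSucc 885, .ofNat 1090, .ofNat 1007, .ofNat 627⟩, ⟨.ofNat 3050, .negSucc 36, .ofNat 788, .negSucc 713, .negSucc 659, .negSucc 409⟩, ⟨.ofNat 4322, .ofNat 298, .ofNat 749, .negSucc 1260, .negSucc 1023, .negSucc 671⟩, ⟨.negSucc 6836, .negSucc 130, .negSucc 1150, .ofNat 1438, .ofNat 1468, .ofNat 998⟩, ⟨.negSucc 204, .negSucc 97, .ofNat 40, .negSucc 191, .ofNat 62, .ofNat 179⟩, .ofNat 2478, .ofNat 3383, .ofNat 0, .ofNat 3383, .ofNat 5371, .ofNat 0, .ofNat 128, .negSucc 434, .negSucc 4505, .ofNat 0, .ofNat 303, .ofNat 2904, .ofNat 0, .ofNat 0, .ofNat 4814,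 .ofNat 741, .ofNat 0, .ofNat 0, .ofNat 0, .ofNat 0, .ofNat 0, .ofNat 0, .ofNat 314282154849168637084501983348425181649621221376, .ofNat 52952763248318980919373442104168276846637122820581097472, .ofNat 0, .ofNat 0, .ofNat 171929947971390261499267071853713403500124176384, .ofNat 15054826531063824346641827158020475278273900671466995712, .ofNat 0, .ofNat 0, .ofNat 491268761475574794879585734877517178294725771264, .ofNat 709377735533992565459160061882300857584693889911131996160⟩)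
    (by decide +kernel)
theorem L03722 : Good (Phi V5.P V5.D (-1) (-1)) ⟨5, 28, 4, 10, 3, 1, 5, 30, 5, 1⟩ :=
  leafX_sound T5.ok_mm T5.Ymm.bz_eq (w := 254) (c := ⟨⟨.negSucc 3669, .negSucc 407, .negSucc 244, .ofNat 174, .ofNat 868, .ofNat 574⟩, ⟨.ofNat 2348, .ofNat 342, .ofNat 250, .negSucc 118, .negSucc 571, .negSucc 377⟩, ⟨.ofNat 3304, .ofNat 412, .ofNat 230, .negSucc 377, .negSucc 892, .negSucc 597⟩, ⟨.negSucc 5366, .negSucc 407, .negSucc 335, .ofNat 282, .ofNat 1230, .ofNat 870⟩, ⟨.negSucc 207, .ofNat 87, .negSucc 20, .ofNat 50, .ofNat 7, .ofNat 98⟩, .ofNat 2427, .ofNat 3313, .ofNat 0, .ofNat 3313, .ofNat 5277, .ofNat 0, .ofNat 128, .negSucc 608, .negSucc 4040, .ofNat 0, .ofNat 424, .ofNat 2599, .ofNat 0, .ofNat 0, .ofNat 4510, .ofNat 2975, .ofNat 0, .ofNat 0, .ofNat 0, .ofNat 0, .ofNat 0, .ofNat 0, .ofNat 161674114599857940791149603889421577496125505536, .ofNat 44115967285321580660360137299937466262786279877348687872,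 .ofNat 0, .ofNat 0, .ofNat 0, .ofNat 0, .ofNat 0, .ofNat 0, .ofNat 226758254560909965195297585869473181861165400064, .ofNat 0⟩)
    (by decide +kernel)
theorem L03723 : Good (Phi V5.P V5.D (-1) (-1)) ⟨5, 28, 4, 10, 3, 1, 5, 30, 4, 1⟩ :=
  leafX_sound T5.ok_mm T5.Ymm.bz_eq (w := 248) (c := ⟨⟨.negSucc 3156, .negSucc 20, .negSucc 183, .ofNat 93, .ofNat 710, .ofNat 721⟩, ⟨.ofNat 2007, .ofNat 148, .ofNat 150, .negSucc 61, .negSucc 467, .negSucc 474⟩, ⟨.ofNat 2759, .ofNat 69, .ofNat 149, .negSucc 301, .negSucc 741, .negSucc 742⟩, ⟨.negSucc 4540, .ofNat 0, .negSucc 212, .ofNat 132, .ofNat 1005, .ofNat 1107⟩, ⟨.negSucc 75, .negSucc 65, .ofNat 28, .ofNat 2, .ofNat 3, .ofNat 143⟩, .ofNat 2499, .ofNat 3410, .ofNat 0, .ofNat 3410, .ofNat 5403, .ofNat 0, .ofNat 128, .negSucc 662, .negSucc 2459, .ofNat 0, .ofNat 462, .ofNat 1591, .ofNat 0, .ofNat 0, .ofNat 2966, .ofNat 2811, .ofNat 0, .ofNat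 0, .ofNat 0, .ofNat 0, .ofNat 0, .ofNat 0, .ofNat 8941375292619459324979922151899444085654552576, .ofNat 1949368172521885880015848977549877197475259291950645248, .ofNat 0, .ofNat 0, .ofNat 0, .ofNat 0, .ofNat 0, .ofNat 0, .ofNat 0, .ofNat 0⟩)
    (by decide +kernel)
theorem L03724 : Good (Phi V5.P V5.D (-1) (-1)) ⟨5, 29, 4, 10, 3, 1, 5, 30, 3, 0⟩ :=
  out_sound (S := T5.ds_mm) T5.ok_mm (w := 59) (j := 3) (by decide +kernel)
theorem L03725 : Good (Phi V5.P V5.D (-1) (-1)) ⟨6, 56, 4, 10, 3, 1, 5, 31, 4, 0⟩ :=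
  leafX_sound T5.ok_mm T5.Ymm.bz_eq (w := 256) (c := ⟨⟨.negSucc 3493, .negSucc 121, .negSucc 269, .ofNat 861, .ofNat 2829, .ofNat 833⟩, ⟨.ofNat 2245, .ofNat 140, .ofNat 132, .negSucc 567, .negSucc 1844, .negSucc 551⟩, ⟨.ofNat 3134, .ofNat 152, .ofNat 227, .negSucc 1048, .negSucc 2873, .negSucc 909⟩, ⟨.negSucc 5905, .ofNat 264, .ofNat 40, .ofNat 1742, .ofNat 4076, .ofNat 1448⟩, ⟨.negSucc 1416, .ofNat 544, .ofNat 743, .ofNat 792, .ofNat 128, .ofNat 422⟩, .ofNat 5097, .ofNat 7403, .ofNat 0, .ofNat 7403, .ofNat 11562, .ofNat 0, .ofNat 128, .negSucc 574, .negSucc 5691, .ofNat 0, .ofNat 388, .ofNat 3679, .ofNat 0, .ofNat 0, .ofNat 6068, .ofNat 909, .ofNat 0, .ofNat 0, .ofNat 0, .ofNat 0, .ofNat 0, .ofNat 0, .ofNat 5391802841325001293624347659011387887257124864, .ofNat 0, .ofNat 0, .ofNat 0, .ofNat 2685073773345539284506968819369633051637186560, .ofNat 0, .ofNat 0, .ofNat 0, .ofNat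 0, .ofNat 0⟩)
    (by decide +kernel)
theorem L03726 : Good (Phi V5.P V5.D (-1) (-1)) ⟨6, 57, 4, 10, 3, 1, 5, 31, 4, 0⟩ :=
  leafX_sound T5.ok_mm T5.Ymm.bz_eq (w := 256) (c := ⟨⟨.negSucc 4200, .ofNat 37, .negSucc 151, .ofNat 1011, .ofNat 3275, .ofNat 1305⟩, ⟨.ofNat 2708, .negSucc 160, .ofNat 284, .negSucc 684, .negSucc 2180, .negSucc 868⟩, ⟨.ofNat 3906, .ofNat 43, .ofNat 39, .negSucc 1197, .negSucc 3324, .negSucc 1376⟩, ⟨.negSucc 6202, .ofNat 153, .negSucc 108, .ofNat 1470, .ofNat 4542, .ofNat 1969⟩, ⟨.negSucc 446, .ofNat 54, .ofNat 209, .ofNat 18, .negSucc 95, .ofNat 209⟩, .ofNat 3726, .ofNat 5131, .ofNat 0, .ofNat 5131, .ofNat 7802, .ofNat 0, .ofNat 128, .negSucc 806, .negSucc 7690, .ofNat 0, .ofNat 574, .ofNat 5114, .ofNat 0, .ofNat 0, .ofNat 8066, .ofNat 318, .ofNat 0, .ofNat 0, .ofNat 68977658528010236678734563669183314297618432, .ofNat 0, .ofNat 0, .ofNat 196034510082675660013376053372328666041012742782976,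 .ofNat 7048727697486009863453634396897076107366367232, .ofNat 0, .ofNat 0, .ofNat 0, .ofNat 0, .ofNat 0, .ofNat 0, .ofNat 0, .ofNat 0, .ofNat 336388351300394575354178988537923617137008555079738851328⟩)
    (by decide +kernel)
theorem L03727 : Good (Phi V5.P V5.D (-1) (-1)) ⟨5, 29, 4, 10, 3, 1, 5, 31, 4, 0⟩ :=
  out_sound (S := T5.ds_mm) T5.ok_mm (w := 59) (j := 3) (by decide +kernel)
theorem L03728 : Good (Phi V5.P V5.D (-1) (-1)) ⟨5, 28, 4, 10, 3, 1, 5, 31, 4, 1⟩ :=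
  leafX_sound T5.ok_mm T5.Ymm.bz_eq (w := 252) (c := ⟨⟨.negSucc 2290, .negSucc 204, .negSucc 127, .ofNat 563, .ofNat 2224, .ofNat 251⟩, ⟨.ofNat 1465, .ofNat 226, .ofNat 59, .negSucc 360, .negSucc 1455, .negSucc 164⟩, ⟨.ofNat 1868, .ofNat 182, .ofNat 127, .negSucc 748, .negSucc 2257, .negSucc 270⟩, ⟨.negSucc 3185, .negSucc 18, .ofNat 66, .ofNat 480, .ofNat 2938, .ofNat 393⟩, ⟨.ofNat 105, .ofNat 290, .ofNat 417, .negSucc 497, .negSucc 296, .ofNat 70⟩, .ofNat 6378, .ofNat 9233, .ofNat 0, .ofNat 9233, .ofNat 14155, .ofNat 0, .ofNat 128, .negSucc 711, .negSucc 3761, .ofNat 0, .ofNat 483, .ofNat 2476, .ofNat 0, .ofNat 0, .ofNat 4249, .ofNat 487, .ofNat 0, .ofNat 0, .ofNat 0, .ofNat 0, .ofNat 0, .ofNat 0, .ofNat 17313515260727254235273777612882705595555119104, .ofNat 0, .ofNat 0, .ofNat 0, .ofNat 7382214548361236680539967542941134470112083968, .ofNat 0, .ofNat 0, .ofNat 816882086756680765480963590947296168124055872864256,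 .ofNat 5418020414942958196585815169552246794904141824, .ofNat 17235704502163108735342508889671758761571975382983245824⟩)
    (by decide +kernel)
theorem L03729 : Good (Phi V5.P V5.D (-1) (-1)) ⟨5, 29, 4, 10, 3, 1, 5, 31, 4, 1⟩ :=
  out_sound (S := T5.ds_mm) T5.ok_mm (w := 59) (j := 3) (by decide +kernel)
theorem L03730 : Good (Phi V5.P V5.D (-1) (-1)) ⟨4, 15, 4, 10, 3, 1, 4, 15, 3, 0⟩ :=
  out_sound (S := T5.ds_mm) T5.ok_mm (w := 53) (j := 3) (by decide +kernel)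
theorem L03731 : Good (Phi V5.P V5.D (-1) (-1)) ⟨2, 2, 4, 11, 3, 1, 4, 15, 3, 0⟩ :=
  out_sound (S := T5.ds_mm) T5.ok_mm (w := 41) (j := 3) (by decide +kernel)
theorem L03732 : Good (Phi V5.P V5.D (-1) (-1)) ⟨3, 6, 4, 11, 3, 1, 4, 15, 3, 0⟩ :=
  out_sound (S := T5.ds_mm) T5.ok_mm (w := 47) (j := 3) (by decide +kernel)
theorem L03733 : Good (Phi V5.P V5.D (-1) (-1)) ⟨6, 56, 4, 11, 3, 1, 4, 15, 3, 0⟩ :=
  out_sound (S := T5.ds_mm) T5.ok_mm (w := 65) (j := 3) (by decide +kernel)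
theorem L03734 : Good (Phi V5.P V5.D (-1) (-1)) ⟨7, 114, 5, 22, 3, 1, 4, 15, 3, 0⟩ :=
  out_sound (S := T5.ds_mm) T5.ok_mm (w := 73) (j := 3) (by decide +kernel)
theorem L03735 : Good (Phi V5.P V5.D (-1) (-1)) ⟨7, 115, 5, 22, 3, 1, 4, 15, 3, 0⟩ :=
  out_sound (S := T5.ds_mm) T5.ok_mm (w := 21) (j := 4) (by decide +kernel)
theorem L03736 : Good (Phi V5.P V5.D (-1) (-1)) ⟨6, 57, 5, 23, 3, 1, 4, 15, 3, 0⟩ :=
  out_sound (S := T5.ds_mm) T5.ok_mm (w := 67) (j := 3) (by decide +kernel)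
theorem L03737 : Good (Phi V5.P V5.D (-1) (-1)) ⟨5, 29, 4, 11, 3, 1, 4, 15, 3, 0⟩ :=
  out_sound (S := T5.ds_mm) T5.ok_mm (w := 17) (j := 4) (by decide +kernel)
theorem L03738 : Good (Phi V5.P V5.D (-1) (-1)) ⟨4, 15, 4, 11, 3, 1, 4, 15, 3, 0⟩ :=
  out_sound (S := T5.ds_mm) T5.ok_mm (w := 53) (j := 3) (by decide +kernel)
theorem L03739 : Good (Phi V5.P V5.D (-1) (-1)) ⟨2, 2, 2, 2, 2, 0, 2, 3, 3, 1⟩ :=
  out_sound (S := T5.ds_mm) T5.ok_mm (w := 37) (j := 3) (by decide +kernel)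
theorem L03740 : Good (Phi V5.P V5.D (-1) (-1)) ⟨4, 12, 2, 2, 2, 0, 2, 3, 3, 1⟩ :=
  out_sound (S := T5.ds_mm) T5.ok_mm (w := 49) (j := 3) (by decide +kernel)
theorem L03741 : Good (Phi V5.P V5.D (-1) (-1)) ⟨4, 13, 2, 2, 2, 0, 3, 6, 3, 1⟩ :=
  leafX_sound T5.ok_mm T5.Ymm.bz_eq (w := 207) (c := ⟨⟨.negSucc 3033, .ofNat 41, .negSucc 544, .negSucc 18, .ofNat 260, .ofNat 684⟩, ⟨.ofNat 1649, .ofNat 67, .ofNat 679, .ofNat 13, .negSucc 153, .negSucc 403⟩, ⟨.ofNat 2854, .ofNat 149, .ofNat 231, .negSucc 308, .negSucc 384, .negSucc 682⟩, ⟨.negSucc 4658, .ofNat 330, .negSucc 646, .negSucc 61, .ofNat 410, .ofNat 1008⟩, ⟨.negSucc 95, .ofNat 86, .ofNat 119, .negSucc 55, .ofNat 51, .ofNat 30⟩, .ofNat 1591, .ofNat 2186, .ofNat 0, .ofNat 2186, .ofNat 3876, .ofNat 0, .ofNat 128, .negSucc 526, .negSucc 347, .ofNat 0, .ofNat 359, .ofNat 203, .ofNat 0, .ofNat 0, .ofNat 817, .ofNat 1983, .ofNat 0,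 .ofNat 0, .ofNat 0, .ofNat 0, .ofNat 0, .ofNat 0, .ofNat 11007401269710371873942665916051357696, .ofNat 0, .ofNat 0, .ofNat 0, .ofNat 20354204434520234678469420709079678976, .ofNat 0, .ofNat 0, .ofNat 0, .ofNat 3655609368724356477755828990877106176, .ofNat 0⟩)
    (by decide +kernel)
theorem L03742 : Good (Phi V5.P V5.D (-1) (-1)) ⟨4, 13, 2, 2, 2, 0, 3, 7, 3, 1⟩ :=
  leafX_sound T5.ok_mm T5.Ymm.bz_eq (w := 207) (c := ⟨⟨.negSucc 2739, .ofNat 1, .negSucc 405, .ofNat 305, .ofNat 899, .ofNat 474⟩, ⟨.ofNat 1495, .ofNat 75, .ofNat 534, .negSucc 171, .negSucc 527, .negSucc 276⟩, ⟨.ofNat 2504, .ofNat 76, .ofNat 262, .negSucc 601, .negSucc 1046, .negSucc 523⟩, ⟨.negSucc 4263, .ofNat 231, .negSucc 592, .ofNat 525, .ofNat 1375, .ofNat 786⟩, ⟨.negSucc 194, .ofNat 71, .negSucc 112, .ofNat 136, .ofNat 92, .ofNat 182⟩, .ofNat 1552, .ofNat 2133, .ofNat 0, .ofNat 2133, .ofNat 3813, .ofNat 0,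 .ofNat 128, .negSucc 539, .negSucc 742, .ofNat 0, .ofNat 366, .ofNat 429, .ofNat 0, .ofNat 0, .ofNat 1372, .ofNat 141, .ofNat 0, .ofNat 0, .ofNat 29501415065425760995654530718760960, .ofNat 0, .ofNat 0, .ofNat 0, .ofNat 4368215591267093054430201974198632448, .ofNat 0, .ofNat 0, .ofNat 132876069651509501475808704940384609894400, .ofNat 2635514261318890385177905792884408320, .ofNat 0, .ofNat 0, .ofNat 0, .ofNat 0, .ofNat 0⟩)
    (by decide +kernel)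
theorem L03743 : Good (Phi V5.P V5.D (-1) (-1)) ⟨5, 28, 2, 2, 2, 0, 3, 6, 3, 1⟩ :=
  leafX_sound T5.ok_mm T5.Ymm.bz_eq (w := 211) (c := ⟨⟨.negSucc 2867, .ofNat 229, .negSucc 942, .negSucc 130, .ofNat 334, .ofNat 815⟩, ⟨.ofNat 1653, .negSucc 85, .ofNat 958, .ofNat 87, .negSucc 216, .negSucc 533⟩, ⟨.ofNat 3123, .ofNat 140, .ofNat 39, .negSucc 224, .negSucc 423, .negSucc 779⟩, ⟨.negSucc 4446, .ofNat 62, .negSucc 437, .negSucc 216, .ofNat 493, .ofNat 1145⟩, ⟨.negSucc 57, .negSucc 138, .ofNat 239, .negSucc 45, .ofNat 22, .negSucc 7⟩, .ofNat 1780, .ofNat 2312, .ofNat 0, .ofNat 2312, .ofNat 3725, .ofNat 0, .ofNat 128, .negSucc 554, .negSucc 493, .ofNat 0, .ofNat 404, .ofNat 316, .ofNat 0, .ofNat 0, .ofNat 1100, .ofNat 1184, .ofNat 0, .ofNat 0, .ofNat 0, .ofNat 0, .ofNat 0, .ofNat 0, .ofNat 3552767639088742535948568187853864960, .ofNat 0, .ofNat 0, .ofNat 0, .ofNat 7930537157964956600130432536884019200,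 .ofNat 0, .ofNat 0, .ofNat 0, .ofNat 985392458845554638856577357854015488, .ofNat 0⟩)
    (by decide +kernel)
theorem L03744 : Good (Phi V5.P V5.D (-1) (-1)) ⟨5, 28, 3, 4, 2, 0, 3, 7, 3, 1⟩ :=
  leafX_sound T5.ok_mm T5.Ymm.bz_eq (w := 212) (c := ⟨⟨.negSucc 3615, .negSucc 1011, .ofNat 863, .ofNat 352, .ofNat 953, .ofNat 444⟩, ⟨.ofNat 2175, .ofNat 701, .negSucc 426, .negSucc 221, .negSucc 608, .negSucc 278⟩, ⟨.ofNat 3321, .ofNat 931, .negSucc 755, .negSucc 648, .negSucc 1108, .negSucc 504⟩, ⟨.negSucc 5312, .negSucc 1295, .ofNat 1318, .ofNat 562, .ofNat 1516, .ofNat 642⟩, ⟨.negSucc 149, .ofNat 84, .ofNat 64, .ofNat 105, .ofNat 163, .ofNat 35⟩, .ofNat 682, .ofNat 676, .ofNat 0, .ofNat 676, .ofNat 1249, .ofNat 0, .ofNat 128, .negSucc 293, .negSucc 560, .ofNat 0, .ofNat 256, .ofNat 332, .ofNat 0, .ofNat 0, .ofNat 969, .ofNat 168, .ofNat 0, .ofNat 0, .ofNat 197979581672982698336474333823631360,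 .ofNat 0, .ofNat 0, .ofNat 3058268306137045288392359387501953325989888, .ofNat 977814268041913014383722594725527552, .ofNat 0, .ofNat 0, .ofNat 6507922737463675229682112746970297646710784, .ofNat 1114735724230828918814805157063163904, .ofNat 0, .ofNat 0, .ofNat 0, .ofNat 0, .ofNat 0⟩)
    (by decide +kernel)
theorem L03745 : Good (Phi V5.P V5.D (-1) (-1)) ⟨5, 28, 3, 5, 2, 0, 3, 7, 3, 1⟩ :=
  leafX_sound T5.ok_mm T5.Ymm.bz_eq (w := 217) (c := ⟨⟨.negSucc 3008, .ofNat 254, .negSucc 563, .ofNat 412, .ofNat 881, .ofNat 502⟩, ⟨.ofNat 1936, .negSucc 158, .ofNat 542, .negSucc 265, .negSucc 580, .negSucc 324⟩, ⟨.ofNat 2691, .ofNat 218, .ofNat 33, .negSucc 692, .negSucc 1039, .negSucc 554⟩, ⟨.negSucc 4267, .ofNat 143, .negSucc 196, .ofNat 586, .ofNat 1434, .ofNat 661⟩, ⟨.negSucc 99, .ofNat 144, .ofNat 187, .ofNat 6, .ofNat 273, .negSucc 67⟩, .ofNat 2419, .ofNat 3304, .ofNat 0, .ofNat 3304,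 .ofNat 5268, .ofNat 0, .ofNat 128, .negSucc 1164, .negSucc 1483, .ofNat 0, .ofNat 811, .ofNat 953, .ofNat 0, .ofNat 0, .ofNat 2732, .ofNat 408, .ofNat 0, .ofNat 0, .ofNat 148214107766598011848345769520136192, .ofNat 36372278632245436262998733384033069153910784, .ofNat 0, .ofNat 0, .ofNat 17927080397447502566182968559400910848, .ofNat 0, .ofNat 0, .ofNat 62738059906596775906918424047979489004617728, .ofNat 12921463893138337806257534155104452608, .ofNat 5771949776634707178346149554019480964559798272, .ofNat 0, .ofNat 0, .ofNat 0, .ofNat 0⟩)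
    (by decide +kernel)
theorem L03746 : Good (Phi V5.P V5.D (-1) (-1)) ⟨5, 29, 2, 2, 2, 0, 2, 3, 3, 1⟩ :=
  out_sound (S := T5.ds_mm) T5.ok_mm (w := 17) (j := 4) (by decide +kernel)
theorem L03747 : Good (Phi V5.P V5.D (-1) (-1)) ⟨4, 15, 2, 2, 2, 0, 2, 3, 3, 1⟩ :=
  out_sound (S := T5.ds_mm) T5.ok_mm (w := 49) (j := 3) (by decide +kernel)
theorem L03748 : Good (Phi V5.P V5.D (-1) (-1)) ⟨2, 2, 2, 3, 2, 0, 2, 3, 2, 0⟩ :=
  out_sound (S := T5.ds_mm) T5.ok_mm (w := 37) (j := 3) (by decide +kernel)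
theorem L03749 : Good (Phi V5.P V5.D (-1) (-1)) ⟨3, 6, 2, 3, 2, 0, 2, 3, 2, 0⟩ :=
  out_sound (S := T5.ds_mm) T5.ok_mm (w := 43) (j := 3) (by decide +kernel)
theorem L03750 : Good (Phi V5.P V5.D (-1) (-1)) ⟨5, 28, 3, 6, 2, 0, 2, 3, 2, 0⟩ :=
  out_sound (S := T5.ds_mm) T5.ok_mm (w := 57) (j := 3) (by decide +kernel)
theorem L03751 : Good (Phi V5.P V5.D (-1) (-1)) ⟨5, 29, 3, 6, 2, 0, 2, 3, 2, 0⟩ :=
  out_sound (S := T5.ds_mm) T5.ok_mm (w := 17) (j := 4) (by decide +kernel)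
theorem L03752 : Good (Phi V5.P V5.D (-1) (-1)) ⟨4, 14, 3, 7, 2, 0, 2, 3, 2, 0⟩ :=
  out_sound (S := T5.ds_mm) T5.ok_mm (w := 51) (j := 3) (by decide +kernel)
theorem L03753 : Good (Phi V5.P V5.D (-1) (-1)) ⟨4, 15, 2, 3, 2, 0, 2, 3, 2, 0⟩ :=
  out_sound (S := T5.ds_mm) T5.ok_mm (w := 15) (j := 4) (by decide +kernel)
theorem L03754 : Good (Phi V5.P V5.D (-1) (-1)) ⟨2, 2, 2, 2, 2, 1, 2, 2, 4, 0⟩ :=
  out_sound (S := T5.ds_mm) T5.ok_mm (w := 37) (j := 3) (by decide +kernel)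
theorem L03755 : Good (Phi V5.P V5.D (-1) (-1)) ⟨4, 12, 2, 2, 2, 1, 2, 2, 4, 0⟩ :=
  out_sound (S := T5.ds_mm) T5.ok_mm (w := 49) (j := 3) (by decide +kernel)
theorem L03756 : Good (Phi V5.P V5.D (-1) (-1)) ⟨5, 26, 3, 4, 2, 1, 2, 2, 5, 0⟩ :=
  leafX_sound T5.ok_mm T5.Ymm.bz_eq (w := 225) (c := ⟨⟨.ofNat 2267, .negSucc 496, .ofNat 500, .ofNat 2198, .negSucc 2691, .negSucc 3145⟩, ⟨.negSucc 1255, .ofNat 253, .negSucc 227, .negSucc 1234, .ofNat 1499, .ofNat 1746⟩, ⟨.negSucc 2170, .ofNat 252, .negSucc 1020, .negSucc 1843, .ofNat 2276, .ofNat 2800⟩, ⟨.ofNat 2772, .negSucc 445, .ofNat 322, .ofNat 2805, .negSucc 3843, .negSucc 4503⟩, ⟨.negSucc 870, .ofNat 281, .negSucc 195, .negSucc 868, .ofNat 313, .ofNat 330⟩, .ofNat 3120, .ofNat 4959, .ofNat 0, .ofNat 4959, .ofNat 8978, .ofNat 0, .ofNat 128, .negSucc 856, .negSucc 2565, .ofNat 0, .ofNat 526, .ofNat 1430, .ofNat 0, .ofNat 0, .ofNat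 2822, .ofNat 907, .ofNat 0, .ofNat 0, .ofNat 9988893982224845940263874395996422144, .ofNat 0, .ofNat 0, .ofNat 0, .ofNat 649463682107864261657119343236589027328, .ofNat 0, .ofNat 0, .ofNat 0, .ofNat 1047847334126210667505318194275602661376, .ofNat 0, .ofNat 0, .ofNat 0, .ofNat 0, .ofNat 0⟩)
    (by decide +kernel)
theorem L03757 : Good (Phi V5.P V5.D (-1) (-1)) ⟨5, 27, 3, 4, 2, 1, 2, 2, 5, 0⟩ :=
  leafX_sound T5.ok_mm T5.Ymm.bz_eq (w := 220) (c := ⟨⟨.ofNat 2180, .negSucc 1205, .ofNat 2102, .ofNat 2481, .negSucc 3046, .negSucc 3643⟩, ⟨.negSucc 1304, .ofNat 806, .negSucc 1414, .negSucc 1544, .ofNat 1860, .ofNat 2177⟩, ⟨.negSucc 2288, .ofNat 1170, .negSucc 1895, .negSucc 2106, .ofNat 2589, .ofNat 3270⟩, ⟨.ofNat 2938, .negSucc 1734, .ofNat 2727, .ofNat 3221, .negSucc 4396, .negSucc 5234⟩, ⟨.negSucc 490, .negSucc 208, .ofNat 2, .negSucc 631, .ofNat 136, .ofNat 62⟩, .ofNat 749, .ofNat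 827, .ofNat 0, .ofNat 827, .ofNat 1620, .ofNat 0, .ofNat 128, .negSucc 337, .negSucc 1435, .ofNat 0, .ofNat 249, .ofNat 801, .ofNat 0, .ofNat 0, .ofNat 1496, .ofNat 342, .ofNat 0, .ofNat 0, .ofNat 6886660167977300632952901725472161792, .ofNat 0, .ofNat 0, .ofNat 0, .ofNat 0, .ofNat 0, .ofNat 0, .ofNat 0, .ofNat 0, .ofNat 0, .ofNat 0, .ofNat 0, .ofNat 444937545729905506564265653614782971904, .ofNat 0⟩)
    (by decide +kernel)
theorem L03758 : Good (Phi V5.P V5.D (-1) (-1)) ⟨4, 13, 3, 4, 2, 1, 2, 2, 5, 1⟩ :=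
  leafX_sound T5.ok_mm T5.Ymm.bz_eq (w := 215) (c := ⟨⟨.negSucc 1268, .negSucc 1123, .ofNat 211, .ofNat 1579, .negSucc 1108, .negSucc 1271⟩, ⟨.ofNat 564, .ofNat 812, .ofNat 32, .negSucc 960, .ofNat 671, .ofNat 760⟩, ⟨.ofNat 793, .ofNat 1119, .negSucc 266, .negSucc 1750, .ofNat 1089, .ofNat 1186⟩, ⟨.negSucc 2061, .negSucc 1620, .ofNat 573, .ofNat 1914, .negSucc 1593, .negSucc 1836⟩, ⟨.ofNat 111, .negSucc 886, .ofNat 784, .negSucc 666, .ofNat 129, .ofNat 93⟩, .ofNat 751, .ofNat 830, .ofNat 0, .ofNat 830, .ofNat 1623, .ofNat 0, .ofNat 128, .negSucc 343, .negSucc 826, .ofNat 0, .ofNat 251, .ofNat 465, .ofNat 0, .ofNat 0, .ofNat 920, .ofNat 427, .ofNat 0, .ofNat 0, .ofNat 0, .ofNat 0, .ofNat 0, .ofNat 0, .ofNat 252956903465696596662609432580427087872, .ofNat 0, .ofNat 0, .ofNat 0, .ofNat 877256730980001196885931191308075925504, .ofNat 0, .ofNat 0, .ofNat 0, .ofNat 0, .ofNat 0⟩)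
    (by decide +kernel)
theorem L03759 : Good (Phi V5.P V5.D (-1) (-1)) ⟨4, 13, 3, 5, 2, 1, 2, 2, 4, 0⟩ :=
  out_sound (S := T5.ds_mm) T5.ok_mm (w := 51) (j := 3) (by decide +kernel)
theorem L03760 : Good (Phi V5.P V5.D (-1) (-1)) ⟨5, 28, 3, 4, 2, 1, 2, 2, 5, 0⟩ :=
  leafX_sound T5.ok_mm T5.Ymm.bz_eq (w := 222) (c := ⟨⟨.ofNat 3244, .ofNat 1869, .negSucc 524, .ofNat 2607, .negSucc 3785, .negSucc 4213⟩, ⟨.negSucc 2125, .negSucc 1299, .ofNat 413, .negSucc 1669, .ofNat 2408, .ofNat 2684⟩, ⟨.negSucc 2030, .negSucc 199, .negSucc 1051, .negSucc 2189, .ofNat 3241, .ofNat 3823⟩, ⟨.ofNat 3802, .ofNat 1951, .negSucc 294, .ofNat 3186, .negSucc 5143, .negSucc 5751⟩, ⟨.negSucc 907, .negSucc 459, .ofNat 202, .negSucc 854, .ofNat 413, .ofNat 382⟩, .ofNat 1637, .ofNat 2079, .ofNat 0, .ofNat 2079, .ofNat 3381, .ofNat 0, .ofNat 128, .negSucc 462, .negSucc 2271, .ofNat 0, .ofNat 348, .ofNat 1423,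 .ofNat 0, .ofNat 0, .ofNat 2319, .ofNat 529, .ofNat 0, .ofNat 0, .ofNat 5585373811144323227845669525326397440, .ofNat 0, .ofNat 0, .ofNat 0, .ofNat 416277871167235260112653684679936835584, .ofNat 0, .ofNat 0, .ofNat 0, .ofNat 852776170132313470429819312745083830272, .ofNat 0, .ofNat 0, .ofNat 0, .ofNat 1507360630497470914276316526983056982016, .ofNat 0⟩)
    (by decide +kernel)
theorem L03761 : Good (Phi V5.P V5.D (-1) (-1)) ⟨5, 28, 4, 10, 3, 2, 3, 4, 5, 0⟩ :=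
  leafX_sound T5.ok_mm T5.Ymm.bz_eq (w := 245) (c := ⟨⟨.ofNat 4115, .ofNat 1324, .negSucc 333, .ofNat 1830, .negSucc 2421, .negSucc 6505⟩, ⟨.negSucc 2661, .negSucc 997, .ofNat 230, .negSucc 1233, .ofNat 1598, .ofNat 4285⟩, ⟨.negSucc 4878, .ofNat 1879, .negSucc 1314, .negSucc 1567, .ofNat 2134, .ofNat 5940⟩, ⟨.ofNat 5884, .ofNat 742, .negSucc 178, .ofNat 2155, .negSucc 3449, .negSucc 9109⟩, ⟨.negSucc 182, .negSucc 566, .negSucc 72, .negSucc 596, .negSucc 20, .ofNat 62⟩, .ofNat 2570, .ofNat 3504, .ofNat 0, .ofNat 3504, .ofNat 5521, .ofNat 0, .ofNat 128, .negSucc 529, .negSucc 2408, .ofNat 0, .ofNat 367, .ofNat 1569, .ofNat 0, .ofNat 0, .ofNat 2471, .ofNat 450, .ofNat 0, .ofNat 0, .ofNat 16822227242378159412166127066943524496736256, .ofNat 0, .ofNat 0, .ofNat 0, .ofNat 1315787798967042691780459492402207894120955904, .ofNat 0, .ofNat 0, .ofNat 0, .ofNat 1394618088871904405401565550679809372704473088,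 .ofNat 0, .ofNat 0, .ofNat 0, .ofNat 1689422823661022486136383038086371086300086272, .ofNat 1390961857616016478872366568977521144582106066228084736⟩)
    (by decide +kernel)
theorem L03762 : Good (Phi V5.P V5.D (-1) (-1)) ⟨5, 28, 4, 10, 3, 3, 3, 4, 5, 0⟩ :=
  leafX_sound T5.ok_mm T5.Ymm.bz_eq (w := 246) (c := ⟨⟨.ofNat 4460, .ofNat 926, .ofNat 240, .ofNat 1107, .negSucc 1818, .negSucc 4573⟩, ⟨.negSucc 2971, .negSucc 277, .negSucc 445, .negSucc 718, .ofNat 1194, .ofNat 2999⟩, ⟨.negSucc 3824, .negSucc 2368, .ofNat 588, .negSucc 706, .ofNat 1361, .ofNat 3835⟩, ⟨.ofNat 5472, .ofNat 1331, .ofNat 227, .ofNat 1303, .negSucc 2308, .negSucc 6316⟩, ⟨.negSucc 1202, .negSucc 506, .ofNat 346, .negSucc 406, .ofNat 388, .ofNat 219⟩, .ofNat 2570, .ofNat 3504, .ofNat 0, .ofNat 3504, .ofNat 5521, .ofNat 0, .ofNat 128, .negSucc 633, .negSucc 2975, .ofNat 0, .ofNat 435, .ofNat 1940, .ofNat 0, .ofNat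 0, .ofNat 2942, .ofNat 1223, .ofNat 0, .ofNat 0, .ofNat 0, .ofNat 0, .ofNat 0, .ofNat 0, .ofNat 1585656409613919470566928736471692232450113536, .ofNat 197207676007574678298900733547588282088441339382333440, .ofNat 0, .ofNat 0, .ofNat 2276076308063582217830919135836913738381787136, .ofNat 250240084877858838038566789600113627691467709551214592, .ofNat 0, .ofNat 0, .ofNat 0, .ofNat 0⟩)
    (by decide +kernel)
theorem L03763 : Good (Phi V5.P V5.D (-1) (-1)) ⟨6, 56, 4, 11, 2, 1, 3, 4, 5, 0⟩ :=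
  out_sound (S := T5.ds_mm) T5.ok_mm (w := 65) (j := 3) (by decide +kernel)
theorem L03764 : Good (Phi V5.P V5.D (-1) (-1)) ⟨7, 114, 5, 22, 2, 1, 3, 4, 5, 0⟩ :=
  out_sound (S := T5.ds_mm) T5.ok_mm (w := 73) (j := 3) (by decide +kernel)
theorem L03765 : Good (Phi V5.P V5.D (-1) (-1)) ⟨7, 115, 5, 22, 2, 1, 3, 4, 5, 0⟩ :=
  out_sound (S := T5.ds_mm) T5.ok_mm (w := 21) (j := 4) (by decide +kernel)
theorem L03766 : Good (Phi V5.P V5.D (-1) (-1)) ⟨6, 57, 5, 23, 2, 1, 3, 4, 5, 0⟩ :=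
  out_sound (S := T5.ds_mm) T5.ok_mm (w := 67) (j := 3) (by decide +kernel)
theorem L03767 : Good (Phi V5.P V5.D (-1) (-1)) ⟨5, 28, 4, 10, 2, 1, 3, 5, 6, 0⟩ :=
  leafX_sound T5.ok_mm T5.Ymm.bz_eq (w := 237) (c := ⟨⟨.ofNat 453, .ofNat 422, .negSucc 10, .ofNat 3854, .negSucc 2434, .negSucc 2496⟩, ⟨.negSucc 133, .negSucc 970, .ofNat 382, .negSucc 2555, .ofNat 1600, .ofNat 1637⟩, ⟨.negSucc 663, .negSucc 882, .ofNat 263, .negSucc 3420, .ofNat 2164, .ofNat 2289⟩, ⟨.ofNat 183, .ofNat 366, .negSucc 29, .ofNat 5168, .negSucc 3335, .negSucc 3278⟩, ⟨.negSucc 799, .negSucc 51, .negSucc 77, .negSucc 408, .ofNat 167, .ofNat 366⟩, .ofNat 2570, .ofNat 3504, .ofNat 0, .ofNat 3504, .ofNat 5521, .ofNat 0, .ofNat 128, .negSucc 568, .negSucc 3448, .ofNat 0, .ofNat 394, .ofNat 2244, .ofNat 0, .ofNat 0, .ofNat 3491, .ofNat 485, .ofNat 0, .ofNat 0, .ofNat 12521623181780314558634870640828934520832, .ofNat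 0, .ofNat 0, .ofNat 0, .ofNat 2291257470660946304274152821904126666342400, .ofNat 509238169495974025432444189248103128455186464374784, .ofNat 0, .ofNat 0, .ofNat 0, .ofNat 0, .ofNat 0, .ofNat 0, .ofNat 2907754533680879927516562417153058904473600, .ofNat 4349192472346050289597885528498164558720829461889024⟩)
    (by decide +kernel)
theorem L03768 : Good (Phi V5.P V5.D (-1) (-1)) ⟨5, 28, 4, 10, 2, 1, 3, 5, 6, 1⟩ :=
  leafX_sound T5.ok_mm T5.Ymm.bz_eq (w := 235) (c := ⟨⟨.negSucc 2134, .negSucc 39, .negSucc 103, .ofNat 3544, .negSucc 1512, .negSucc 1357⟩, ⟨.ofNat 1423, .negSucc 240, .ofNat 320, .negSucc 2331, .ofNat 992, .ofNat 899⟩, ⟨.ofNat 1675, .negSucc 267, .ofNat 246, .negSucc 3454, .ofNat 1473, .ofNat 1270⟩, ⟨.negSucc 3343, .negSucc 39, .negSucc 161, .ofNat 4497, .negSucc 1928, .negSucc 1742⟩, ⟨.negSucc 473, .negSucc 13, .negSucc 79, .negSucc 779, .ofNat 321, .ofNat 259⟩, .ofNat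 2449, .ofNat 3343, .ofNat 0, .ofNat 3343, .ofNat 5316, .ofNat 0, .ofNat 128, .negSucc 430, .negSucc 1795, .ofNat 0, .ofNat 297, .ofNat 1160, .ofNat 0, .ofNat 0, .ofNat 1876, .ofNat 680, .ofNat 0, .ofNat 0, .ofNat 0, .ofNat 0, .ofNat 0, .ofNat 0, .ofNat 1626913373840516203549244239034891898978304, .ofNat 0, .ofNat 0, .ofNat 0, .ofNat 351114752593043629944773373662622166024192, .ofNat 547631509273429898624687813559723300290997516238848, .ofNat 0, .ofNat 0, .ofNat 1786382117977044968340351201076972416401408, .ofNat 1527862419846473799100233520512434803609184971522048⟩)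
    (by decide +kernel)
theorem L03769 : Good (Phi V5.P V5.D (-1) (-1)) ⟨6, 56, 4, 11, 2, 1, 3, 5, 5, 0⟩ :=
  out_sound (S := T5.ds_mm) T5.ok_mm (w := 65) (j := 3) (by decide +kernel)
theorem L03770 : Good (Phi V5.P V5.D (-1) (-1)) ⟨7, 114, 5, 22, 2, 1, 3, 5, 5, 0⟩ :=
  out_sound (S := T5.ds_mm) T5.ok_mm (w := 73) (j := 3) (by decide +kernel)
theorem L03771 : Good (Phi V5.P V5.D (-1) (-1)) ⟨7, 115, 5, 22, 2, 1, 3, 5, 5, 0⟩ :=
  out_sound (S := T5.ds_mm) T5.ok_mm (w := 21) (j := 4) (by decide +kernel)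
theorem L03772 : Good (Phi V5.P V5.D (-1) (-1)) ⟨6, 57, 5, 23, 2, 1, 3, 5, 5, 0⟩ :=
  out_sound (S := T5.ds_mm) T5.ok_mm (w := 67) (j := 3) (by decide +kernel)
theorem L03773 : Good (Phi V5.P V5.D (-1) (-1)) ⟨5, 28, 3, 4, 2, 1, 2, 2, 5, 1⟩ :=
  leafX_sound T5.ok_mm T5.Ymm.bz_eq (w := 220) (c := ⟨⟨.negSucc 683, .ofNat 1779, .negSucc 1685, .ofNat 1403, .negSucc 1309, .negSucc 1408⟩, ⟨.ofNat 211, .negSucc 1106, .ofNat 1301, .negSucc 902, .ofNat 838, .ofNat 898⟩, ⟨.ofNat 737, .negSucc 1053, .ofNat 962, .negSucc 1652, .ofNat 1294, .ofNat 1327⟩, ⟨.negSucc 1721, .ofNat 2035, .negSucc 1721, .ofNat 1570, .negSucc 1799, .negSucc 1849⟩, ⟨.negSucc 774, .negSucc 502, .ofNat 552, .negSucc 684, .ofNat 163, .ofNat 245⟩, .ofNat 1144, .ofNat 1348, .ofNat 0, .ofNat 1348, .ofNat 2275, .ofNat 0, .ofNat 128, .negSucc 462, .negSucc 1285, .ofNat 0, .ofNat 353, .ofNat 802, .ofNat 0, .ofNat 0, .ofNat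 1395, .ofNat 689, .ofNat 0, .ofNat 0, .ofNat 0, .ofNat 0, .ofNat 0, .ofNat 0, .ofNat 372480992302203164903625067453738909696, .ofNat 0, .ofNat 0, .ofNat 0, .ofNat 406458689545147482240030227972547936256, .ofNat 0, .ofNat 0, .ofNat 0, .ofNat 309416570407474774687863095390279565312, .ofNat 0⟩)
    (by decide +kernel)
theorem L03774 : Good (Phi V5.P V5.D (-1) (-1)) ⟨5, 28, 3, 5, 2, 1, 2, 2, 5, 1⟩ :=
  leafX_sound T5.ok_mm T5.Ymm.bz_eq (w := 221) (c := ⟨⟨.negSucc 1719, .negSucc 625, .ofNat 199, .ofNat 2086, .negSucc 1631, .negSucc 1891⟩, ⟨.ofNat 1082, .ofNat 423, .ofNat 119, .negSucc 1374, .ofNat 1075, .ofNat 1240⟩, ⟨.ofNat 1371, .ofNat 203, .ofNat 195, .negSucc 2209, .ofNat 1538, .ofNat 1725⟩, ⟨.negSucc 2814, .negSucc 444, .ofNat 33, .ofNat 2450, .negSucc 2237, .negSucc 2397⟩, ⟨.negSucc 478, .ofNat 36, .ofNat 124, .negSucc 778, .ofNat 160, .ofNat 463⟩, .ofNat 1485, .ofNat 1889,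 .ofNat 0, .ofNat 1889, .ofNat 3103, .ofNat 0, .ofNat 128, .negSucc 644, .negSucc 1621, .ofNat 0, .ofNat 455, .ofNat 1036, .ofNat 0, .ofNat 0, .ofNat 1739, .ofNat 854, .ofNat 0, .ofNat 0, .ofNat 0, .ofNat 0, .ofNat 0, .ofNat 0, .ofNat 198071550430387687818906141613554139136, .ofNat 65114046408691959510342205933028019939900915712, .ofNat 0, .ofNat 0, .ofNat 125456196816599530232106234165726281728, .ofNat 343635221433855084132790891755234492784847093760, .ofNat 0, .ofNat 0, .ofNat 1078122372467318529375241191218101616640, .ofNat 287218003846633629819825716490105759170042003456⟩)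
    (by decide +kernel)
theorem L03775 : Good (Phi V5.P V5.D (-1) (-1)) ⟨5, 29, 2, 2, 2, 1, 2, 2, 4, 0⟩ :=
  out_sound (S := T5.ds_mm) T5.ok_mm (w := 17) (j := 4) (by decide +kernel)
theorem L03776 : Good (Phi V5.P V5.D (-1) (-1)) ⟨4, 15, 2, 2, 2, 1, 2, 2, 4, 0⟩ :=
  out_sound (S := T5.ds_mm) T5.ok_mm (w := 49) (j := 3) (by decide +kernel)
theorem L03777 : Good (Phi V5.P V5.D (-1) (-1)) ⟨2, 2, 2, 2, 2, 1, 2, 2, 4, 1⟩ :=
  out_sound (S := T5.ds_mm) T5.ok_mm (w := 37) (j := 3) (by decide +kernel)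
theorem L03778 : Good (Phi V5.P V5.D (-1) (-1)) ⟨3, 6, 2, 2, 2, 1, 2, 2, 4, 1⟩ :=
  leafX_sound T5.ok_mm T5.Ymm.bz_eq (w := 202) (c := ⟨⟨.negSucc 1625, .negSucc 2345, .ofNat 573, .negSucc 265, .ofNat 234, .negSucc 286⟩, ⟨.ofNat 652, .ofNat 1610, .ofNat 196, .ofNat 146, .negSucc 138, .ofNat 177⟩, ⟨.ofNat 1248, .ofNat 2109, .negSucc 513, .negSucc 317, .negSucc 128, .ofNat 316⟩, ⟨.negSucc 3019, .negSucc 2639, .ofNat 712, .negSucc 700, .ofNat 339, .negSucc 368⟩, ⟨.negSucc 433, .ofNat 539, .negSucc 443, .negSucc 564, .ofNat 41, .ofNat 173⟩, .ofNat 752, .ofNat 833, .ofNat 0, .ofNat 833, .ofNat 1632, .ofNat 0, .ofNat 128, .negSucc 338, .negSucc 778, .ofNat 0, .ofNat 245, .ofNat 442, .ofNat 0, .ofNat 0, .ofNat 1008, .ofNat 345, .ofNat 0, .ofNat 0, .ofNat 300220793366430586379015921921425408, .ofNat 0, .ofNat 0, .ofNat 0, .ofNat 5632537444740122745175299510048391168, .ofNat 0, .ofNat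 0, .ofNat 0, .ofNat 10254988549727647057703523465652338688, .ofNat 0, .ofNat 0, .ofNat 0, .ofNat 0, .ofNat 0⟩)
    (by decide +kernel)
theorem L03779 : Good (Phi V5.P V5.D (-1) (-1)) ⟨5, 28, 2, 2, 3, 2, 2, 2, 5, 2⟩ :=
  leafX_sound T5.ok_mm T5.Ymm.bz_eq (w := 231) (c := ⟨⟨.negSucc 3926, .negSucc 622, .ofNat 31, .negSucc 22, .negSucc 46, .negSucc 57⟩, ⟨.ofNat 2252, .ofNat 502, .ofNat 460, .ofNat 15, .ofNat 32, .ofNat 39⟩, ⟨.ofNat 3317, .ofNat 527, .ofNat 39, .negSucc 292, .ofNat 128, .ofNat 85⟩, ⟨.negSucc 5658, .negSucc 617, .ofNat 40, .negSucc 152, .negSucc 56, .negSucc 14⟩, ⟨.negSucc 31, .ofNat 123, .negSucc 82, .negSucc 197, .ofNat 36, .ofNat 104⟩, .ofNat 885, .ofNat 1000, .ofNat 0, .ofNat 1000, .ofNat 1762, .ofNat 0, .ofNat 128, .negSucc 404, .negSucc 1524, .ofNat 0, .ofNat 304, .ofNat 943, .ofNat 0, .ofNat 0, .ofNat 1896, .ofNat 2295, .ofNat 0, .ofNat 0, .ofNat 0, .ofNat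 0, .ofNat 0, .ofNat 0, .ofNat 258848079888737189398973759564764017590272, .ofNat 0, .ofNat 0, .ofNat 0, .ofNat 212777465011368091953937851799380764393472, .ofNat 140729300561997643070501907412437101014100436058112, .ofNat 0, .ofNat 0, .ofNat 2037440128672242514976506697767593063743488, .ofNat 0⟩)
    (by decide +kernel)
theorem L03780 : Good (Phi V5.P V5.D (-1) (-1)) ⟨6, 56, 4, 8, 3, 3, 2, 2, 5, 2⟩ :=
  out_sound (S := T5.ds_mm) T5.ok_mm (w := 65) (j := 3) (by decide +kernel)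
theorem L03781 : Good (Phi V5.P V5.D (-1) (-1)) ⟨6, 56, 4, 9, 3, 3, 2, 2, 5, 2⟩ :=
  leafX_sound T5.ok_mm T5.Ymm.bz_eq (w := 241) (c := ⟨⟨.negSucc 3369, .ofNat 134, .negSucc 225, .ofNat 121, .negSucc 251, .negSucc 582⟩, ⟨.ofNat 2007, .negSucc 52, .ofNat 281, .negSucc 80, .ofNat 164, .ofNat 372⟩, ⟨.ofNat 2512, .negSucc 103, .ofNat 164, .negSucc 348, .ofNat 393, .ofNat 540⟩, ⟨.negSucc 4961, .ofNat 280, .negSucc 361, .negSucc 76, .negSucc 341, .negSucc 734⟩, ⟨.negSucc 280, .negSucc 46, .negSucc 14, .negSucc 387, .ofNat 74, .ofNat 166⟩, .ofNat 774, .ofNat 830, .ofNat 0, .ofNat 830, .ofNat 1513, .ofNat 0, .ofNat 128, .negSucc 545, .negSucc 1814, .ofNat 0, .ofNat 409, .ofNat 1102, .ofNat 0, .ofNat 0, .ofNat 1990, .ofNat 1597, .ofNat 0, .ofNat 0, .ofNat 0, .ofNat 0, .ofNat 0, .ofNat 0, .ofNat 683870334534269489114888148978604642926592, .ofNat 0, .ofNat 0, .ofNat 0, .ofNat 0, .ofNat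 0, .ofNat 0, .ofNat 0, .ofNat 6814013499474945553780677886332636846096384, .ofNat 0⟩)
    (by decide +kernel)
theorem L03782 : Good (Phi V5.P V5.D (-1) (-1)) ⟨6, 57, 3, 4, 3, 3, 2, 2, 5, 2⟩ :=
  out_sound (S := T5.ds_mm) T5.ok_mm (w := 63) (j := 3) (by decide +kernel)
theorem L03783 : Good (Phi V5.P V5.D (-1) (-1)) ⟨5, 28, 3, 5, 3, 3, 2, 2, 5, 2⟩ :=
  leafX_sound T5.ok_mm T5.Ymm.bz_eq (w := 236) (c := ⟨⟨.negSucc 3603, .negSucc 43, .negSucc 681, .ofNat 148, .negSucc 224, .negSucc 520⟩, ⟨.ofNat 2310, .negSucc 42, .ofNat 880, .negSucc 98, .ofNat 152, .ofNat 345⟩, ⟨.ofNat 2671, .ofNat 89, .ofNat 530, .negSucc 376, .ofNat 386, .ofNat 485⟩, ⟨.negSucc 5293, .ofNat 220, .negSucc 1125, .negSucc 53, .negSucc 343, .negSucc 656⟩, ⟨.negSucc 162, .negSucc 213, .ofNat 149, .negSucc 407, .ofNat 6, .ofNat 140⟩, .ofNat 1061, .ofNat 1258, .ofNat 0, .ofNat 1258, .ofNat 2122, .ofNat 0, .ofNat 128,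 .negSucc 849, .negSucc 2674, .ofNat 0, .ofNat 608, .ofNat 1708, .ofNat 0, .ofNat 0, .ofNat 2881, .ofNat 1160, .ofNat 0, .ofNat 0, .ofNat 0, .ofNat 0, .ofNat 0, .ofNat 0, .ofNat 3202529847727975689793743707355132960178176, .ofNat 424063386629546943026656840122535382773214063099904, .ofNat 0, .ofNat 0, .ofNat 3982041057202501265700379578797404572352512, .ofNat 0, .ofNat 0, .ofNat 0, .ofNat 0, .ofNat 0⟩)
    (by decide +kernel)

end Crest.Agent.R097C5.N5mm
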