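import Crest.Agent.R097.KP7
import Crest.Agent.R097.T5Ymm

/-!
# Row 97, box cover in dimension n = 5 (generated)
-/

set_option autoImplicit false
set_option Elab.async false
set_option maxHeartbeats 0
set_option maxRecDepth 100000

open Crest.Agent.R097 Crest.Agent.R097.KA


namespace Crest.Agent.R097C5.N5mm

theorem L03784 : Good (Phi V5.P V5.D (-1) (-1)) ⟨5, 28, 2, 2, 2, 1, 2, 2, 5, 3⟩ :=
  leafX_sound T5.ok_mm T5.Ymm.bz_eq (w := 217) (c := ⟨⟨.negSucc 4194, .negSucc 406, .ofNat 16, .negSucc 505, .ofNat 411, .ofNat 238⟩, ⟨.ofNat 2415, .ofNat 352, .ofNat 498, .ofNat 328, .negSucc 267, .negSucc 155⟩, ⟨.ofNat 3559, .ofNat 226, .ofNat 221, .negSucc 167, .negSucc 321, .negSucc 211⟩, ⟨.negSucc 5911, .negSucc 302, .negSucc 130, .negSucc 998, .ofNat 594, .ofNat 371⟩, ⟨.ofNat 79, .ofNat 38, .negSucc 81, .negSucc 434, .ofNat 8, .ofNat 65⟩, .ofNat 888, .ofNat 1004, .ofNat 0, .ofNat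 1004, .ofNat 1765, .ofNat 0, .ofNat 128, .negSucc 666, .negSucc 1190, .ofNat 0, .ofNat 494, .ofNat 741, .ofNat 0, .ofNat 0, .ofNat 1570, .ofNat 1418, .ofNat 0, .ofNat 0, .ofNat 1687847804803932533385429392790913024, .ofNat 0, .ofNat 0, .ofNat 0, .ofNat 70746987177570547527570430489761153024, .ofNat 0, .ofNat 0, .ofNat 0, .ofNat 0, .ofNat 0, .ofNat 0, .ofNat 0, .ofNat 151524809380240390575199119005899030528, .ofNat 0⟩)
    (by decide +kernel)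
theorem L03785 : Good (Phi V5.P V5.D (-1) (-1)) ⟨5, 29, 2, 2, 2, 1, 2, 2, 4, 1⟩ :=
  out_sound (S := T5.ds_mm) T5.ok_mm (w := 17) (j := 4) (by decide +kernel)
theorem L03786 : Good (Phi V5.P V5.D (-1) (-1)) ⟨4, 15, 2, 2, 2, 1, 2, 2, 4, 1⟩ :=
  out_sound (S := T5.ds_mm) T5.ok_mm (w := 49) (j := 3) (by decide +kernel)
theorem L03787 : Good (Phi V5.P V5.D (-1) (-1)) ⟨2, 2, 2, 2, 2, 1, 2, 2, 3, 1⟩ :=
  out_sound (S := T5.ds_mm) T5.ok_mm (w := 37) (j := 3) (by decide +kernel)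
theorem L03788 : Good (Phi V5.P V5.D (-1) (-1)) ⟨3, 6, 2, 2, 2, 1, 2, 2, 3, 1⟩ :=
  leafX_sound T5.ok_mm T5.Ymm.bz_eq (w := 198) (c := ⟨⟨.negSucc 3607, .negSucc 451, .negSucc 78, .negSucc 160, .ofNat 530, .ofNat 1165⟩, ⟨.ofNat 1809, .ofNat 541, .ofNat 471, .ofNat 90, .negSucc 316, .negSucc 695⟩, ⟨.ofNat 2932, .ofNat 893, .negSucc 341, .negSucc 537, .negSucc 596, .negSucc 985⟩, ⟨.negSucc 5814, .negSucc 39, .negSucc 141, .negSucc 487, .ofNat 815, .ofNat 1711⟩, ⟨.negSucc 72, .ofNat 55, .negSucc 74, .negSucc 409, .ofNat 72, .ofNat 33⟩, .ofNat 761, .ofNat 844, .ofNat 0, .ofNat 844, .ofNat 1637, .ofNat 0, .ofNat 128, .negSucc 402, .negSucc 405, .ofNat 0, .ofNat 296, .ofNat 234, .ofNat 0, .ofNat 0, .ofNat 880, .ofNat 578, .ofNat 0, .ofNat 0, .ofNat 2522370697127747353686364750086144, .ofNat 0, .ofNat 0, .ofNat 0, .ofNat 376880702323659565524298138931691520, .ofNat 0, .ofNat 0, .ofNat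 0, .ofNat 67956376839521769308289864979972096, .ofNat 0, .ofNat 0, .ofNat 0, .ofNat 0, .ofNat 0⟩)
    (by decide +kernel)
theorem L03789 : Good (Phi V5.P V5.D (-1) (-1)) ⟨5, 28, 2, 2, 2, 1, 2, 2, 4, 2⟩ :=
  leafX_sound T5.ok_mm T5.Ymm.bz_eq (w := 212) (c := ⟨⟨.negSucc 4183, .negSucc 321, .ofNat 62, .negSucc 382, .ofNat 576, .ofNat 771⟩, ⟨.ofNat 2359, .ofNat 206, .ofNat 619, .ofNat 248, .negSucc 376, .negSucc 503⟩, ⟨.ofNat 3835, .ofNat 296, .negSucc 250, .negSucc 374, .negSucc 565, .negSucc 638⟩, ⟨.negSucc 5906, .negSucc 237, .negSucc 5, .negSucc 818, .ofNat 836, .ofNat 1093⟩, ⟨.ofNat 95, .ofNat 16, .negSucc 79, .negSucc 423, .ofNat 22, .negSucc 1⟩, .ofNat 877, .ofNat 990, .ofNat 0, .ofNat 990, .ofNat 1752, .ofNat 0, .ofNat 128, .negSucc 677, .negSucc 640, .ofNat 0, .ofNat 502, .ofNat 399, .ofNat 0, .ofNat 0, .ofNat 1062, .ofNat 1307, .ofNat 0, .ofNat 0, .ofNat 44050628347024511049130427878998016,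 .ofNat 0, .ofNat 0, .ofNat 0, .ofNat 3358153178405066819777704119930716160, .ofNat 12189456251532691009527818607586010764148736, .ofNat 0, .ofNat 0, .ofNat 3127494897941840020325610083095412736, .ofNat 0, .ofNat 0, .ofNat 0, .ofNat 2072084839423291196672101193179201536, .ofNat 0⟩)
    (by decide +kernel)
theorem L03790 : Good (Phi V5.P V5.D (-1) (-1)) ⟨5, 28, 2, 2, 2, 1, 2, 2, 4, 3⟩ :=
  leafX_sound T5.ok_mm T5.Ymm.bz_eq (w := 212) (c := ⟨⟨.negSucc 3435, .negSucc 64, .negSucc 200, .negSucc 88, .ofNat 527, .ofNat 597⟩, ⟨.ofNat 1951, .ofNat 61, .ofNat 630, .ofNat 52, .negSucc 344, .negSucc 387⟩, ⟨.ofNat 3212, .ofNat 83, .ofNat 69, .negSucc 643, .negSucc 662, .negSucc 475⟩, ⟨.negSucc 4984, .ofNat 11, .negSucc 142, .negSucc 370, .ofNat 805, .ofNat 828⟩, ⟨.negSucc 27, .ofNat 3, .ofNat 22, .negSucc 375, .ofNat 86, .negSucc 30⟩, .ofNat 887, .ofNat 1002, .ofNat 0, .ofNat 1002, .ofNat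 1764, .ofNat 0, .ofNat 128, .negSucc 406, .negSucc 303, .ofNat 0, .ofNat 305, .ofNat 190, .ofNat 0, .ofNat 0, .ofNat 747, .ofNat 2322, .ofNat 0, .ofNat 0, .ofNat 0, .ofNat 0, .ofNat 0, .ofNat 0, .ofNat 2616394367150691276826012457684172800, .ofNat 0, .ofNat 0, .ofNat 0, .ofNat 4124893259097349191531396527948824576, .ofNat 232183747506661710883354987037141927001587712, .ofNat 0, .ofNat 0, .ofNat 3635682439135030154834362126567473152, .ofNat 474490148041574041156537423069375273818390528⟩)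
    (by decide +kernel)
theorem L03791 : Good (Phi V5.P V5.D (-1) (-1)) ⟨5, 29, 2, 2, 2, 1, 2, 2, 3, 1⟩ :=
  out_sound (S := T5.ds_mm) T5.ok_mm (w := 17) (j := 4) (by decide +kernel)
theorem L03792 : Good (Phi V5.P V5.D (-1) (-1)) ⟨4, 15, 2, 2, 2, 1, 2, 2, 3, 1⟩ :=
  out_sound (S := T5.ds_mm) T5.ok_mm (w := 49) (j := 3) (by decide +kernel)
theorem L03793 : Good (Phi V5.P V5.D (-1) (-1)) ⟨2, 2, 2, 3, 2, 1, 2, 2, 2, 0⟩ :=
  out_sound (S := T5.ds_mm) T5.ok_mm (w := 37) (j := 3) (by decide +kernel)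
theorem L03794 : Good (Phi V5.P V5.D (-1) (-1)) ⟨3, 6, 2, 3, 2, 1, 2, 2, 2, 0⟩ :=
  out_sound (S := T5.ds_mm) T5.ok_mm (w := 43) (j := 3) (by decide +kernel)
theorem L03795 : Good (Phi V5.P V5.D (-1) (-1)) ⟨5, 28, 3, 6, 2, 1, 2, 2, 2, 0⟩ :=
  out_sound (S := T5.ds_mm) T5.ok_mm (w := 57) (j := 3) (by decide +kernel)
theorem L03796 : Good (Phi V5.P V5.D (-1) (-1)) ⟨5, 29, 3, 6, 2, 1, 2, 2, 2, 0⟩ :=
  out_sound (S := T5.ds_mm) T5.ok_mm (w := 17) (j := 4) (by decide +kernel)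
theorem L03797 : Good (Phi V5.P V5.D (-1) (-1)) ⟨4, 14, 3, 7, 2, 1, 2, 2, 2, 0⟩ :=
  out_sound (S := T5.ds_mm) T5.ok_mm (w := 51) (j := 3) (by decide +kernel)
theorem L03798 : Good (Phi V5.P V5.D (-1) (-1)) ⟨4, 15, 2, 3, 2, 1, 2, 2, 2, 0⟩ :=
  out_sound (S := T5.ds_mm) T5.ok_mm (w := 15) (j := 4) (by decide +kernel)
theorem L03799 : Good (Phi V5.P V5.D (-1) (-1)) ⟨2, 2, 4, 8, 2, 1, 2, 3, 3, 0⟩ :=
  out_sound (S := T5.ds_mm) T5.ok_mm (w := 41) (j := 3) (by decide +kernel)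
theorem L03800 : Good (Phi V5.P V5.D (-1) (-1)) ⟨4, 12, 4, 8, 2, 1, 2, 3, 3, 0⟩ :=
  out_sound (S := T5.ds_mm) T5.ok_mm (w := 53) (j := 3) (by decide +kernel)
theorem L03801 : Good (Phi V5.P V5.D (-1) (-1)) ⟨4, 13, 4, 8, 2, 1, 3, 6, 4, 0⟩ :=
  leafX_sound T5.ok_mm T5.Ymm.bz_eq (w := 219) (c := ⟨⟨.ofNat 375, .negSucc 3809, .ofNat 1050, .ofNat 1073, .negSucc 217, .negSucc 2359⟩, ⟨.negSucc 295, .ofNat 2210, .negSucc 480, .negSucc 630, .ofNat 129, .ofNat 1365⟩, ⟨.negSucc 592, .ofNat 3502, .negSucc 970, .negSucc 1211, .ofNat 203, .ofNat 2124⟩, ⟨.negSucc 28, .negSucc 5278, .ofNat 1496, .ofNat 1412, .negSucc 151, .negSucc 3249⟩, ⟨.negSucc 778, .ofNat 140, .negSucc 101, .negSucc 319, .ofNat 349, .ofNat 450⟩, .ofNat 1507, .ofNat 2075, .ofNat 0, .ofNat 2075, .ofNat 3755, .ofNat 0, .ofNat 128, .negSucc 370, .negSucc 1472, .ofNat 0, .ofNat 246, .ofNat 843, .ofNat 0, .ofNat 0, .ofNat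 1653, .ofNat 418, .ofNat 0, .ofNat 0, .ofNat 7386502895958905136931473274179682304, .ofNat 0, .ofNat 0, .ofNat 0, .ofNat 1500645417871420750548411899190838296576, .ofNat 0, .ofNat 0, .ofNat 0, .ofNat 1470824562744951415666646639035241463808, .ofNat 0, .ofNat 0, .ofNat 0, .ofNat 0, .ofNat 0⟩)
    (by decide +kernel)
theorem L03802 : Good (Phi V5.P V5.D (-1) (-1)) ⟨6, 52, 4, 8, 2, 1, 3, 7, 4, 0⟩ :=
  out_sound (S := T5.ds_mm) T5.ok_mm (w := 65) (j := 3) (by decide +kernel)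
theorem L03803 : Good (Phi V5.P V5.D (-1) (-1)) ⟨6, 53, 5, 16, 2, 1, 3, 7, 4, 0⟩ :=
  leafX_sound T5.ok_mm T5.Ymm.bz_eq (w := 229) (c := ⟨⟨.negSucc 1895, .negSucc 845, .ofNat 298, .ofNat 486, .ofNat 2367, .negSucc 888⟩, ⟨.ofNat 1034, .ofNat 473, .negSucc 136, .negSucc 281, .negSucc 1318, .ofNat 501⟩, ⟨.ofNat 1511, .ofNat 762, .negSucc 243, .negSucc 548, .negSucc 2417, .ofNat 701⟩, ⟨.negSucc 3282, .negSucc 1087, .ofNat 503, .ofNat 511, .ofNat 3708, .negSucc 1149⟩, ⟨.negSucc 625, .ofNat 169, .ofNat 74, .negSucc 427, .ofNat 176, .ofNat 321⟩, .ofNat 720, .ofNat 803, .ofNat 0, .ofNat 803, .ofNat 1665, .ofNat 0, .ofNat 128, .negSucc 255, .negSucc 2274, .ofNat 0, .ofNat 189, .ofNat 1190, .ofNat 0, .ofNat 0, .ofNat 2469, .ofNat 329, .ofNat 0, .ofNat 0, .ofNat 0, .ofNat 0, .ofNat 0, .ofNat 0, .ofNat 0, .ofNat 0, .ofNat 0, .ofNat 0, .ofNat 0, .ofNat 0, .ofNat 0, .ofNat 0, .ofNat 0,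 .ofNat 0⟩)
    (by decide +kernel)
theorem L03804 : Good (Phi V5.P V5.D (-1) (-1)) ⟨6, 53, 5, 17, 2, 1, 3, 7, 4, 0⟩ :=
  out_sound (S := T5.ds_mm) T5.ok_mm (w := 67) (j := 3) (by decide +kernel)
theorem L03805 : Good (Phi V5.P V5.D (-1) (-1)) ⟨5, 27, 4, 8, 2, 1, 4, 14, 4, 0⟩ :=
  leafX_sound T5.ok_mm T5.Ymm.bz_eq (w := 226) (c := ⟨⟨.negSucc 2308, .negSucc 908, .ofNat 393, .ofNat 862, .ofNat 577, .negSucc 1262⟩, ⟨.ofNat 1267, .ofNat 528, .negSucc 116, .negSucc 510, .negSucc 336, .ofNat 742⟩, ⟨.ofNat 1907, .ofNat 843, .negSucc 365, .negSucc 949, .negSucc 570, .ofNat 1035⟩, ⟨.negSucc 3548, .negSucc 1148, .ofNat 479, .ofNat 984, .ofNat 809, .negSucc 1805⟩, ⟨.negSucc 237, .ofNat 119, .negSucc 144, .negSucc 534, .negSucc 43, .ofNat 157⟩, .ofNat 1059, .ofNat 1333, .ofNat 0, .ofNat 1333, .ofNat 2499, .ofNat 0, .ofNat 128, .negSucc 298, .negSucc 1543, .ofNat 0, .ofNat 209, .ofNat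 868, .ofNat 0, .ofNat 0, .ofNat 1712, .ofNat 812, .ofNat 0, .ofNat 0, .ofNat 0, .ofNat 0, .ofNat 0, .ofNat 0, .ofNat 10279017362672087058005919744423314325504, .ofNat 0, .ofNat 0, .ofNat 0, .ofNat 0, .ofNat 0, .ofNat 0, .ofNat 0, .ofNat 18302553732902595237427852186352900636672, .ofNat 0⟩)
    (by decide +kernel)
theorem L03806 : Good (Phi V5.P V5.D (-1) (-1)) ⟨5, 27, 4, 8, 2, 1, 4, 15, 4, 0⟩ :=
  leafX_sound T5.ok_mm T5.Ymm.bz_eq (w := 229) (c := ⟨⟨.negSucc 2069, .ofNat 303, .negSucc 99, .ofNat 625, .ofNat 2099, .negSucc 773⟩, ⟨.ofNat 1154, .negSucc 172, .ofNat 112, .negSucc 368, .negSucc 1206, .ofNat 454⟩, ⟨.ofNat 1595, .negSucc 233, .ofNat 72, .negSucc 664, .negSucc 2161, .ofNat 582⟩, ⟨.negSucc 3392, .ofNat 462, .negSucc 60, .ofNat 894, .ofNat 3164, .negSucc 1162⟩, ⟨.negSucc 626, .negSucc 40, .ofNat 167, .negSucc 19, .ofNat 190, .negSucc 71⟩, .ofNat 2570, .ofNat 3792,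 .ofNat 0, .ofNat 3792, .ofNat 6545, .ofNat 0, .ofNat 128, .negSucc 292, .negSucc 1777, .ofNat 0, .ofNat 195, .ofNat 1036, .ofNat 0, .ofNat 0, .ofNat 1937, .ofNat 431, .ofNat 0, .ofNat 0, .ofNat 0, .ofNat 0, .ofNat 0, .ofNat 0, .ofNat 3698968946444426340261339006277861244928, .ofNat 0, .ofNat 0, .ofNat 0, .ofNat 284609113902214240354374431965559390208, .ofNat 0, .ofNat 0, .ofNat 2150584190513119046462030895144612312096178176, .ofNat 13089387198428493428181931379102937251840, .ofNat 0⟩)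
    (by decide +kernel)
theorem L03807 : Good (Phi V5.P V5.D (-1) (-1)) ⟨4, 13, 4, 8, 2, 1, 3, 6, 4, 1⟩ :=
  leafX_sound T5.ok_mm T5.Ymm.bz_eq (w := 219) (c := ⟨⟨.negSucc 3262, .negSucc 506, .negSucc 126, .negSucc 192, .ofNat 490, .ofNat 227⟩, ⟨.ofNat 1738, .ofNat 418, .ofNat 194, .ofNat 97, .negSucc 283, .negSucc 123⟩, ⟨.ofNat 2750, .ofNat 600, .ofNat 51, .negSucc 224, .negSucc 484, .negSucc 295⟩, ⟨.negSucc 4885, .negSucc 680, .negSucc 102, .negSucc 513, .ofNat 698, .ofNat 354⟩, ⟨.ofNat 260, .negSucc 534, .ofNat 159, .negSucc 409, .negSucc 38, .ofNat 53⟩, .ofNat 1476, .ofNat 2027, .ofNat 0, .ofNat 2027, .ofNat 3682, .ofNat 0, .ofNat 128, .negSucc 659, .negSucc 1370, .ofNat 0, .ofNat 436, .ofNat 786, .ofNat 0, .ofNat 0, .ofNat 1762, .ofNat 308, .ofNat 0, .ofNat 0, .ofNat 12104723041813452418325709976200282112, .ofNat 0, .ofNat 0, .ofNat 0, .ofNat 1305673579359036495727298707319383130112,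 .ofNat 0, .ofNat 0, .ofNat 0, .ofNat 0, .ofNat 0, .ofNat 0, .ofNat 0, .ofNat 0, .ofNat 0⟩)
    (by decide +kernel)
theorem L03808 : Good (Phi V5.P V5.D (-1) (-1)) ⟨5, 26, 4, 8, 2, 1, 3, 7, 4, 1⟩ :=
  leafX_sound T5.ok_mm T5.Ymm.bz_eq (w := 227) (c := ⟨⟨.negSucc 3225, .ofNat 6, .ofNat 356, .negSucc 148, .ofNat 2392, .ofNat 314⟩, ⟨.ofNat 1740, .ofNat 38, .negSucc 136, .ofNat 77, .negSucc 1324, .negSucc 167⟩, ⟨.ofNat 2768, .negSucc 98, .negSucc 408, .negSucc 126, .negSucc 2408, .negSucc 378⟩, ⟨.negSucc 5022, .ofNat 200, .ofNat 500, .negSucc 359, .ofNat 3539, .ofNat 510⟩, ⟨.negSucc 254, .ofNat 196, .ofNat 3, .negSucc 248, .negSucc 45, .ofNat 85⟩, .ofNat 3045, .ofNat 4817, .ofNat 0, .ofNat 4817, .ofNat 8710, .ofNat 0, .ofNat 128, .negSucc 699, .negSucc 2779, .ofNat 0, .ofNat 432, .ofNat 1548, .ofNat 0, .ofNat 0, .ofNat 3294, .ofNat 428, .ofNat 0, .ofNat 0, .ofNat 0, .ofNat 0,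 .ofNat 0, .ofNat 0, .ofNat 141634094790926296366406291835062321152, .ofNat 0, .ofNat 0, .ofNat 0, .ofNat 1080922864939116514601503573864991424512, .ofNat 0, .ofNat 0, .ofNat 0, .ofNat 0, .ofNat 0⟩)
    (by decide +kernel)
theorem L03809 : Good (Phi V5.P V5.D (-1) (-1)) ⟨5, 27, 4, 8, 2, 1, 3, 7, 4, 1⟩ :=
  leafX_sound T5.ok_mm T5.Ymm.bz_eq (w := 223) (c := ⟨⟨.negSucc 3336, .negSucc 509, .ofNat 119, .negSucc 110, .ofNat 2401, .ofNat 465⟩, ⟨.ofNat 1872, .ofNat 327, .ofNat 20, .ofNat 51, .negSucc 1393, .negSucc 263⟩, ⟨.ofNat 2799, .ofNat 430, .negSucc 84, .negSucc 163, .negSucc 2423, .negSucc 544⟩, ⟨.negSucc 5103, .negSucc 732, .ofNat 276, .negSucc 250, .ofNat 3669, .ofNat 819⟩, ⟨.negSucc 303, .negSucc 202, .ofNat 187, .negSucc 123, .ofNat 189, .ofNat 291⟩, .ofNat 1485, .ofNat 2035, .ofNat 0, .ofNat 2035, .ofNat 3681, .ofNat 0, .ofNat 128, .negSucc 370, .negSucc 1560, .ofNat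 0, .ofNat 247, .ofNat 894, .ofNat 0, .ofNat 0, .ofNat 1838, .ofNat 165, .ofNat 0, .ofNat 0, .ofNat 0, .ofNat 0, .ofNat 0, .ofNat 0, .ofNat 435911548536015312050776444431719464960, .ofNat 0, .ofNat 0, .ofNat 0, .ofNat 187155069300393693444553212372403093504, .ofNat 0, .ofNat 0, .ofNat 0, .ofNat 0, .ofNat 0⟩)
    (by decide +kernel)
theorem L03810 : Good (Phi V5.P V5.D (-1) (-1)) ⟨3, 7, 4, 8, 2, 1, 2, 3, 3, 0⟩ :=
  out_sound (S := T5.ds_mm) T5.ok_mm (w := 47) (j := 3) (by decide +kernel)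
theorem L03811 : Good (Phi V5.P V5.D (-1) (-1)) ⟨2, 2, 4, 9, 2, 1, 2, 3, 3, 0⟩ :=
  out_sound (S := T5.ds_mm) T5.ok_mm (w := 41) (j := 3) (by decide +kernel)
theorem L03812 : Good (Phi V5.P V5.D (-1) (-1)) ⟨4, 12, 4, 9, 2, 1, 2, 3, 4, 0⟩ :=
  out_sound (S := T5.ds_mm) T5.ok_mm (w := 53) (j := 3) (by decide +kernel)
theorem L03813 : Good (Phi V5.P V5.D (-1) (-1)) ⟨5, 26, 4, 9, 2, 1, 2, 3, 4, 0⟩ :=
  out_sound (S := T5.ds_mm) T5.ok_mm (w := 59) (j := 3) (by decide +kernel)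
theorem L03814 : Good (Phi V5.P V5.D (-1) (-1)) ⟨5, 27, 4, 9, 2, 1, 3, 6, 4, 0⟩ :=
  leafX_sound T5.ok_mm T5.Ymm.bz_eq (w := 228) (c := ⟨⟨.negSucc 1810, .negSucc 430, .ofNat 38, .ofNat 1033, .ofNat 68, .negSucc 1972⟩, ⟨.ofNat 1032, .ofNat 311, .ofNat 70, .negSucc 643, .negSucc 37, .ofNat 1212⟩, ⟨.ofNat 1601, .ofNat 84, .ofNat 172, .negSucc 1159, .negSucc 39, .ofNat 1752⟩, ⟨.negSucc 2969, .negSucc 595, .ofNat 77, .ofNat 1518, .ofNat 18, .negSucc 2666⟩, ⟨.negSucc 333, .negSucc 294, .ofNat 104, .ofNat 37, .negSucc 120, .ofNat 297⟩, .ofNat 3044, .ofNat 4473, .ofNat 0, .ofNat 4473, .ofNat 7466, .ofNat 0, .ofNat 128, .negSucc 699, .negSucc 3325, .ofNat 0, .ofNat 459, .ofNat 2022, .ofNat 0, .ofNat 0, .ofNat 3682, .ofNat 866, .ofNat 0, .ofNat 0, .ofNat 0, .ofNat 0, .ofNat 0, .ofNat 0, .ofNat 1451296955416223681023862457375010062336, .ofNat 0, .ofNat 0, .ofNat 0, .ofNat 287636999416017234946956480117951430656,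 .ofNat 0, .ofNat 0, .ofNat 0, .ofNat 0, .ofNat 0⟩)
    (by decide +kernel)
theorem L03815 : Good (Phi V5.P V5.D (-1) (-1)) ⟨6, 54, 4, 9, 2, 1, 3, 7, 4, 0⟩ :=
  out_sound (S := T5.ds_mm) T5.ok_mm (w := 65) (j := 3) (by decide +kernel)
theorem L03816 : Good (Phi V5.P V5.D (-1) (-1)) ⟨6, 55, 4, 9, 2, 1, 4, 14, 4, 0⟩ :=
  leafX_sound T5.ok_mm T5.Ymm.bz_eq (w := 235) (c := ⟨⟨.negSucc 2670, .negSucc 191, .negSucc 92, .ofNat 1111, .ofNat 713, .negSucc 1216⟩, ⟨.ofNat 1588, .ofNat 112, .ofNat 181, .negSucc 691, .negSucc 435, .ofNat 757⟩, ⟨.ofNat 2213, .ofNat 222, .ofNat 87, .negSucc 1162, .negSucc 686, .ofNat 980⟩, ⟨.negSucc 4128, .negSucc 76, .negSucc 174, .ofNat 1575, .ofNat 937, .negSucc 1859⟩, ⟨.negSucc 394, .ofNat 266, .negSucc 123, .negSucc 35, .negSucc 146, .negSucc 176⟩, .ofNat 3024, .ofNat 4432, .ofNat 0, .ofNat 4432, .ofNat 7385, .ofNat 0, .ofNat 128, .negSucc 630, .negSucc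 2942, .ofNat 0, .ofNat 416, .ofNat 1790, .ofNat 0, .ofNat 0, .ofNat 3253, .ofNat 1388, .ofNat 0, .ofNat 0, .ofNat 0, .ofNat 0, .ofNat 0, .ofNat 0, .ofNat 4992221859315700635280868170349387186176, .ofNat 0, .ofNat 0, .ofNat 0, .ofNat 12028695596806785943336388842996308639744, .ofNat 0, .ofNat 0, .ofNat 0, .ofNat 0, .ofNat 0⟩)
    (by decide +kernel)
theorem L03817 : Good (Phi V5.P V5.D (-1) (-1)) ⟨6, 55, 4, 9, 2, 1, 4, 15, 4, 0⟩ :=
  leafX_sound T5.ok_mm T5.Ymm.bz_eq (w := 233) (c := ⟨⟨.negSucc 2250, .ofNat 73, .negSucc 388, .ofNat 813, .ofNat 2435, .negSucc 685⟩, ⟨.ofNat 1359, .negSucc 67, .ofNat 305, .negSucc 502, .negSucc 1483, .ofNat 426⟩, ⟨.ofNat 1826, .negSucc 176, .ofNat 485, .negSucc 845, .negSucc 2498, .ofNat 468⟩, ⟨.negSucc 3620, .ofNat 148, .negSucc 578, .ofNat 965, .ofNat 3678, .negSucc 748⟩, ⟨.negSucc 607, .ofNat 7, .ofNat 34, .negSucc 333, .ofNat 273, .ofNat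 400⟩, .ofNat 1801, .ofNat 2474, .ofNat 0, .ofNat 2474, .ofNat 4230, .ofNat 0, .ofNat 128, .negSucc 334, .negSucc 2586, .ofNat 0, .ofNat 228, .ofNat 1555, .ofNat 0, .ofNat 0, .ofNat 2781, .ofNat 839, .ofNat 0, .ofNat 0, .ofNat 0, .ofNat 0, .ofNat 0, .ofNat 0, .ofNat 0, .ofNat 0, .ofNat 0, .ofNat 0, .ofNat 2280154114612313558006212924300140216320, .ofNat 0, .ofNat 0, .ofNat 69488608628378810522360693902863170291651051520, .ofNat 4051378999201034576532116682364141174784, .ofNat 0⟩)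
    (by decide +kernel)
theorem L03818 : Good (Phi V5.P V5.D (-1) (-1)) ⟨4, 12, 4, 9, 2, 1, 2, 3, 4, 1⟩ :=
  out_sound (S := T5.ds_mm) T5.ok_mm (w := 53) (j := 3) (by decide +kernel)
theorem L03819 : Good (Phi V5.P V5.D (-1) (-1)) ⟨4, 13, 4, 9, 2, 1, 3, 6, 4, 1⟩ :=
  leafX_sound T5.ok_mm T5.Ymm.bz_eq (w := 219) (c := ⟨⟨.negSucc 2547, .negSucc 1532, .ofNat 251, .negSucc 247, .ofNat 420, .ofNat 331⟩, ⟨.ofNat 1405, .ofNat 1060, .negSucc 28, .ofNat 142, .negSucc 253, .negSucc 196⟩, ⟨.ofNat 2168, .ofNat 1384, .negSucc 234, .negSucc 218, .negSucc 395, .negSucc 370⟩, ⟨.negSucc 4021, .negSucc 1837, .ofNat 327, .negSucc 604, .ofNat 590, .ofNat 529⟩, ⟨.negSucc 112, .ofNat 113, .negSucc 84, .negSucc 419, .negSucc 26, .ofNat 114⟩, .ofNat 1206, .ofNat 1531, .ofNat 0, .ofNat 1531, .ofNat 2716, .ofNat 0, .ofNat 128, .negSucc 660, .negSucc 1757, .ofNat 0, .ofNat 457, .ofNat 1048, .ofNat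 0, .ofNat 0, .ofNat 2205, .ofNat 1055, .ofNat 0, .ofNat 0, .ofNat 0, .ofNat 0, .ofNat 0, .ofNat 0, .ofNat 823775470587801164378267371558221643776, .ofNat 0, .ofNat 0, .ofNat 0, .ofNat 820645324863122425428481352625979129856, .ofNat 0, .ofNat 0, .ofNat 0, .ofNat 0, .ofNat 0⟩)
    (by decide +kernel)
theorem L03820 : Good (Phi V5.P V5.D (-1) (-1)) ⟨5, 26, 4, 9, 2, 1, 3, 7, 4, 1⟩ :=
  out_sound (S := T5.ds_mm) T5.ok_mm (w := 59) (j := 3) (by decide +kernel)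
theorem L03821 : Good (Phi V5.P V5.D (-1) (-1)) ⟨5, 27, 4, 9, 2, 1, 4, 14, 4, 1⟩ :=
  leafX_sound T5.ok_mm T5.Ymm.bz_eq (w := 229) (c := ⟨⟨.negSucc 3031, .negSucc 710, .ofNat 224, .negSucc 87, .ofNat 676, .ofNat 562⟩, ⟨.ofNat 1783, .ofNat 480, .negSucc 27, .ofNat 45, .negSucc 411, .negSucc 338⟩, ⟨.ofNat 2534, .ofNat 670, .negSucc 220, .negSucc 258, .negSucc 681, .negSucc 647⟩, ⟨.negSucc 4620, .negSucc 775, .ofNat 222, .negSucc 330, .ofNat 999, .ofNat 910⟩, ⟨.negSucc 183, .ofNat 136, .negSucc 145, .negSucc 342, .ofNat 32, .ofNat 174⟩, .ofNat 1777, .ofNat 2441, .ofNat 0, .ofNat 2441, .ofNat 4188, .ofNat 0, .ofNat 128, .negSucc 811, .negSucc 1960, .ofNat 0, .ofNat 546, .ofNat 1181, .ofNat 0, .ofNat 0, .ofNat 2377, .ofNat 3351, .ofNat 0, .ofNat 0, .ofNat 0, .ofNat 0, .ofNat 0, .ofNat 0, .ofNat 13805194883059915302602264353781395226624, .ofNat 0, .ofNat 0, .ofNat 0, .ofNat 0,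 .ofNat 0, .ofNat 0, .ofNat 0, .ofNat 0, .ofNat 0⟩)
    (by decide +kernel)
theorem L03822 : Good (Phi V5.P V5.D (-1) (-1)) ⟨5, 27, 4, 9, 2, 1, 4, 15, 4, 1⟩ :=
  leafX_sound T5.ok_mm T5.Ymm.bz_eq (w := 230) (c := ⟨⟨.negSucc 2517, .negSucc 338, .negSucc 47, .negSucc 54, .ofNat 2691, .ofNat 407⟩, ⟨.ofNat 1502, .ofNat 228, .ofNat 74, .ofNat 30, .negSucc 1644, .negSucc 240⟩, ⟨.ofNat 1872, .ofNat 385, .negSucc 12, .negSucc 176, .negSucc 2653, .negSucc 470⟩, ⟨.negSucc 3952, .negSucc 357, .negSucc 78, .negSucc 139, .ofNat 4075, .ofNat 751⟩, ⟨.negSucc 475, .ofNat 181, .negSucc 49, .negSucc 104, .ofNat 271, .ofNat 288⟩, .ofNat 1808, .ofNat 2485, .ofNat 0, .ofNat 2485, .ofNat 4247, .ofNat 0, .ofNat 128, .negSucc 733, .negSucc 3019, .ofNat 0, .ofNat 493, .ofNat 1819, .ofNat 0, .ofNat 0, .ofNat 3346, .ofNat 242, .ofNat 0, .ofNat 0, .ofNat 0, .ofNat 0, .ofNat 0, .ofNat 433144564899615525638526019496998902559670272,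 .ofNat 5677334633283581879078494387863533125632, .ofNat 0, .ofNat 0, .ofNat 0, .ofNat 0, .ofNat 0, .ofNat 0, .ofNat 0, .ofNat 0, .ofNat 0⟩)
    (by decide +kernel)
theorem L03823 : Good (Phi V5.P V5.D (-1) (-1)) ⟨5, 28, 4, 9, 2, 1, 3, 6, 4, 0⟩ :=
  leafX_sound T5.ok_mm T5.Ymm.bz_eq (w := 224) (c := ⟨⟨.negSucc 2019, .negSucc 1470, .ofNat 120, .ofNat 1667, .negSucc 84, .negSucc 2639⟩, ⟨.ofNat 1170, .ofNat 938, .ofNat 49, .negSucc 1069, .ofNat 59, .ofNat 1682⟩, ⟨.ofNat 1592, .ofNat 1274, .negSucc 49, .negSucc 1751, .ofNat 76, .ofNat 2367⟩, ⟨.negSucc 3027, .negSucc 1473, .negSucc 10, .ofNat 2122, .negSucc 146, .negSucc 3613⟩, ⟨.negSucc 181, .ofNat 674, .negSucc 333, .negSucc 478, .ofNat 9, .ofNat 313⟩, .ofNat 1383, .ofNat 1711, .ofNat 0, .ofNat 1711, .ofNat 2820, .ofNat 0, .ofNat 128, .negSucc 516, .negSucc 2495, .ofNat 0, .ofNat 385, .ofNat 1573, .ofNat 0, .ofNat 0, .ofNat 2666,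 .ofNat 680, .ofNat 0, .ofNat 0, .ofNat 0, .ofNat 0, .ofNat 0, .ofNat 0, .ofNat 836658772242878130375901046945378992128, .ofNat 0, .ofNat 0, .ofNat 0, .ofNat 182312447384576962404422708693791932416, .ofNat 0, .ofNat 0, .ofNat 0, .ofNat 1240330260057128902107241757376052723712, .ofNat 0⟩)
    (by decide +kernel)
theorem L03824 : Good (Phi V5.P V5.D (-1) (-1)) ⟨5, 28, 4, 9, 2, 1, 4, 14, 4, 0⟩ :=
  leafX_sound T5.ok_mm T5.Ymm.bz_eq (w := 229) (c := ⟨⟨.negSucc 2646, .ofNat 1569, .negSucc 764, .ofNat 1076, .ofNat 580, .negSucc 1021⟩, ⟨.ofNat 1551, .negSucc 1036, .ofNat 631, .negSucc 697, .negSucc 362, .ofNat 667⟩, ⟨.ofNat 2324, .negSucc 1090, .ofNat 569, .negSucc 1167, .negSucc 588, .ofNat 798⟩, ⟨.negSucc 3947, .ofNat 2259, .negSucc 1058, .ofNat 1340, .ofNat 791, .negSucc 1487⟩, ⟨.negSucc 153, .ofNat 54, .negSucc 104, .negSucc 371, .negSucc 52, .ofNat 30⟩, .ofNat 1383, .ofNat 1711,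 .ofNat 0, .ofNat 1711, .ofNat 2820, .ofNat 0, .ofNat 128, .negSucc 584, .negSucc 3492, .ofNat 0, .ofNat 438, .ofNat 2195, .ofNat 0, .ofNat 0, .ofNat 3721, .ofNat 935, .ofNat 0, .ofNat 0, .ofNat 0, .ofNat 0, .ofNat 0, .ofNat 0, .ofNat 11502144512336132661082989143840467714048, .ofNat 0, .ofNat 0, .ofNat 0, .ofNat 29867830659249879828012778815215387017216, .ofNat 0, .ofNat 0, .ofNat 0, .ofNat 39700744829867271352432766000128753401856, .ofNat 0⟩)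
    (by decide +kernel)
theorem L03825 : Good (Phi V5.P V5.D (-1) (-1)) ⟨5, 28, 4, 9, 2, 1, 4, 15, 4, 0⟩ :=
  leafX_sound T5.ok_mm T5.Ymm.bz_eq (w := 230) (c := ⟨⟨.negSucc 2348, .negSucc 33, .negSucc 285, .ofNat 1223, .ofNat 3172, .negSucc 971⟩, ⟨.ofNat 1447, .ofNat 42, .ofNat 218, .negSucc 779, .negSucc 2006, .ofNat 619⟩, ⟨.ofNat 1842, .negSucc 185, .ofNat 344, .negSucc 1224, .negSucc 3229, .ofNat 764⟩, ⟨.negSucc 3567, .negSucc 77, .negSucc 481, .ofNat 1475, .ofNat 4493, .negSucc 1136⟩, ⟨.negSucc 412, .negSucc 304, .negSucc 2, .negSucc 423, .negSucc 42, .ofNat 397⟩, .ofNat 2373, .ofNat 3189, .ofNat 0, .ofNat 3189, .ofNat 5052, .ofNat 0, .ofNat 128, .negSucc 409, .negSucc 3113, .ofNat 0, .ofNat 301, .ofNat 1976, .ofNat 0, .ofNat 0, .ofNat 3288, .ofNat 464, .ofNat 0, .ofNat 0, .ofNat 0, .ofNat 0, .ofNat 0, .ofNat 742994498721385418924524289223397072472899584, .ofNat 29162996150076525302843215041151042060288,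 .ofNat 0, .ofNat 0, .ofNat 0, .ofNat 6845792196836730813911472305869468729344, .ofNat 0, .ofNat 0, .ofNat 0, .ofNat 28142003115078994925770725128169959981056, .ofNat 0⟩)
    (by decide +kernel)
theorem L03826 : Good (Phi V5.P V5.D (-1) (-1)) ⟨5, 28, 4, 9, 2, 1, 3, 6, 4, 1⟩ :=
  leafX_sound T5.ok_mm T5.Ymm.bz_eq (w := 224) (c := ⟨⟨.negSucc 4234, .negSucc 993, .ofNat 361, .negSucc 252, .ofNat 414, .ofNat 435⟩, ⟨.ofNat 2571, .ofNat 706, .negSucc 105, .ofNat 154, .negSucc 261, .negSucc 271⟩, ⟨.ofNat 3740, .ofNat 999, .negSucc 386, .negSucc 230, .negSucc 381, .negSucc 483⟩, ⟨.negSucc 5900, .negSucc 962, .ofNat 286, .negSucc 656, .ofNat 577, .ofNat 674⟩, ⟨.ofNat 232, .ofNat 381, .negSucc 331, .negSucc 479, .negSucc 19, .ofNat 107⟩, .ofNat 1383, .ofNat 1711, .ofNat 0, .ofNat 1711, .ofNat 2820, .ofNat 0, .ofNat 128, .negSucc 623, .negSucc 1777, .ofNat 0, .ofNat 461, .ofNat 1127,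 .ofNat 0, .ofNat 0, .ofNat 2171, .ofNat 1661, .ofNat 0, .ofNat 0, .ofNat 0, .ofNat 0, .ofNat 0, .ofNat 0, .ofNat 684047316818657377909810164685877542912, .ofNat 0, .ofNat 0, .ofNat 0, .ofNat 370033223820368491186843789206596091904, .ofNat 0, .ofNat 0, .ofNat 0, .ofNat 412395518175919076613683628187980922880, .ofNat 0⟩)
    (by decide +kernel)
theorem L03827 : Good (Phi V5.P V5.D (-1) (-1)) ⟨6, 56, 4, 9, 2, 1, 4, 14, 4, 1⟩ :=
  leafX_sound T5.ok_mm T5.Ymm.bz_eq (w := 232) (c := ⟨⟨.negSucc 3684, .negSucc 142, .negSucc 92, .ofNat 7, .ofNat 794, .ofNat 698⟩, ⟨.ofNat 2243, .ofNat 116, .ofNat 164, .negSucc 11, .negSucc 505, .negSucc 437⟩, ⟨.ofNat 3132, .ofNat 143, .ofNat 93, .negSucc 345, .negSucc 774, .negSucc 773⟩, ⟨.negSucc 5368, .negSucc 185, .negSucc 55, .negSucc 251, .ofNat 1162, .ofNat 1084⟩, ⟨.negSucc 105, .negSucc 62, .ofNat 70, .negSucc 422, .ofNat 30, .ofNat 146⟩, .ofNat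 1322, .ofNat 1677, .ofNat 0, .ofNat 1677, .ofNat 2858, .ofNat 0, .ofNat 128, .negSucc 682, .negSucc 2353, .ofNat 0, .ofNat 481, .ofNat 1449, .ofNat 0, .ofNat 0, .ofNat 2735, .ofNat 3316, .ofNat 0, .ofNat 0, .ofNat 0, .ofNat 0, .ofNat 0, .ofNat 0, .ofNat 4630305349604960275064236722747334459392, .ofNat 0, .ofNat 0, .ofNat 0, .ofNat 4216064567142479900538894888746595909632, .ofNat 0, .ofNat 0, .ofNat 0, .ofNat 4151370620576954671385419001220078501888, .ofNat 0⟩)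
    (by decide +kernel)
theorem L03828 : Good (Phi V5.P V5.D (-1) (-1)) ⟨6, 56, 4, 9, 2, 1, 4, 15, 4, 1⟩ :=
  leafX_sound T5.ok_mm T5.Ymm.bz_eq (w := 236) (c := ⟨⟨.negSucc 2826, .negSucc 3, .negSucc 140, .ofNat 164, .ofNat 2880, .ofNat 309⟩, ⟨.ofNat 1739, .ofNat 11, .ofNat 142, .negSucc 104, .negSucc 1818, .negSucc 190⟩, ⟨.ofNat 2264, .ofNat 60, .ofNat 34, .negSucc 378, .negSucc 2846, .negSucc 367⟩, ⟨.negSucc 4139, .negSucc 22, .negSucc 207, .ofNat 196, .ofNat 4104, .ofNat 565⟩, ⟨.negSucc 135, .negSucc 43, .negSucc 57, .negSucc 55, .negSucc 9, .ofNat 206⟩, .ofNat 3212, .ofNat 4548, .ofNat 0, .ofNat 4548, .ofNat 7261, .ofNat 0, .ofNat 128, .negSucc 786, .negSucc 3581, .ofNat 0, .ofNat 546, .ofNat 2255, .ofNat 0, .ofNat 0, .ofNat 3896, .ofNat 145, .ofNat 0, .ofNat 0, .ofNat 16744906501347741080300518228338147328, .ofNat 0, .ofNat 0, .ofNat 17665250421112608073003192077673266569126346752,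 .ofNat 10667192289176346714120743342691292545024, .ofNat 0, .ofNat 0, .ofNat 0, .ofNat 0, .ofNat 0, .ofNat 0, .ofNat 0, .ofNat 0, .ofNat 0⟩)
    (by decide +kernel)
theorem L03829 : Good (Phi V5.P V5.D (-1) (-1)) ⟨6, 57, 4, 9, 2, 1, 3, 7, 4, 1⟩ :=
  out_sound (S := T5.ds_mm) T5.ok_mm (w := 65) (j := 3) (by decide +kernel)
theorem L03830 : Good (Phi V5.P V5.D (-1) (-1)) ⟨5, 29, 4, 9, 2, 1, 2, 3, 3, 0⟩ :=
  out_sound (S := T5.ds_mm) T5.ok_mm (w := 59) (j := 3) (by decide +kernel)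
theorem L03831 : Good (Phi V5.P V5.D (-1) (-1)) ⟨4, 15, 4, 9, 2, 1, 2, 3, 3, 0⟩ :=
  out_sound (S := T5.ds_mm) T5.ok_mm (w := 53) (j := 3) (by decide +kernel)
theorem L03832 : Good (Phi V5.P V5.D (-1) (-1)) ⟨2, 2, 3, 4, 2, 1, 2, 3, 3, 1⟩ :=
  out_sound (S := T5.ds_mm) T5.ok_mm (w := 39) (j := 3) (by decide +kernel)
theorem L03833 : Good (Phi V5.P V5.D (-1) (-1)) ⟨4, 12, 3, 4, 2, 1, 2, 3, 3, 1⟩ :=
  out_sound (S := T5.ds_mm) T5.ok_mm (w := 51) (j := 3) (by decide +kernel)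
theorem L03834 : Good (Phi V5.P V5.D (-1) (-1)) ⟨4, 13, 3, 4, 2, 1, 2, 3, 4, 2⟩ :=
  leafX_sound T5.ok_mm T5.Ymm.bz_eq (w := 211) (c := ⟨⟨.negSucc 3037, .negSucc 514, .ofNat 62, .negSucc 169, .ofNat 1548, .ofNat 487⟩, ⟨.ofNat 1652, .ofNat 360, .ofNat 190, .ofNat 93, .negSucc 901, .negSucc 281⟩, ⟨.ofNat 2655, .ofNat 397, .negSucc 36, .negSucc 368, .negSucc 1665, .negSucc 502⟩, ⟨.negSucc 4769, .negSucc 357, .ofNat 106, .negSucc 363, .ofNat 2494, .ofNat 738⟩, ⟨.negSucc 190, .ofNat 177, .ofNat 1, .negSucc 193, .ofNat 396, .ofNat 46⟩, .ofNat 1545, .ofNat 2131, .ofNat 0, .ofNat 2131, .ofNat 3831, .ofNat 0, .ofNat 128, .negSucc 452, .negSucc 765, .ofNat 0, .ofNat 298, .ofNat 443, .ofNat 0, .ofNat 0, .ofNat 1184, .ofNat 147, .ofNat 0, .ofNat 0, .ofNat 160768476313841097803120796556591104, .ofNat 0, .ofNat 0, .ofNat 0, .ofNat 16668551089258158226310403497691971584, .ofNat 0, .ofNat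 0, .ofNat 547747740528403144728819557702837444018176, .ofNat 16029156550046693820451712885195800576, .ofNat 0, .ofNat 0, .ofNat 0, .ofNat 0, .ofNat 0⟩)
    (by decide +kernel)
theorem L03835 : Good (Phi V5.P V5.D (-1) (-1)) ⟨4, 13, 3, 4, 2, 1, 2, 3, 4, 3⟩ :=
  leafX_sound T5.ok_mm T5.Ymm.bz_eq (w := 209) (c := ⟨⟨.negSucc 2685, .negSucc 258, .ofNat 62, .ofNat 107, .ofNat 1200, .ofNat 405⟩, ⟨.ofNat 1455, .ofNat 231, .ofNat 115, .negSucc 52, .negSucc 696, .negSucc 230⟩, ⟨.ofNat 2321, .ofNat 244, .negSucc 113, .negSucc 693, .negSucc 1383, .negSucc 414⟩, ⟨.negSucc 4216, .negSucc 7, .ofNat 15, .ofNat 71, .ofNat 2069, .ofNat 610⟩, ⟨.negSucc 175, .ofNat 188, .negSucc 125, .negSucc 123, .ofNat 513, .ofNat 39⟩, .ofNat 752, .ofNat 832, .ofNat 0, .ofNat 832, .ofNat 1626, .ofNat 0, .ofNat 128, .negSucc 440, .negSucc 437, .ofNat 0, .ofNat 326, .ofNat 244, .ofNat 0, .ofNat 0, .ofNat 985,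 .ofNat 221, .ofNat 0, .ofNat 0, .ofNat 0, .ofNat 0, .ofNat 0, .ofNat 344466750079177496647131077883638145089536, .ofNat 4040384838441493074079701510979059712, .ofNat 0, .ofNat 0, .ofNat 0, .ofNat 0, .ofNat 0, .ofNat 0, .ofNat 0, .ofNat 0, .ofNat 0⟩)
    (by decide +kernel)
theorem L03836 : Good (Phi V5.P V5.D (-1) (-1)) ⟨4, 14, 3, 4, 2, 1, 2, 3, 4, 2⟩ :=
  leafX_sound T5.ok_mm T5.Ymm.bz_eq (w := 209) (c := ⟨⟨.negSucc 3112, .ofNat 321, .negSucc 639, .negSucc 100, .ofNat 1631, .ofNat 682⟩, ⟨.ofNat 1831, .negSucc 32, .ofNat 547, .ofNat 61, .negSucc 1032, .negSucc 428⟩, ⟨.ofNat 2795, .negSucc 115, .ofNat 449, .negSucc 450, .negSucc 1770, .negSucc 660⟩, ⟨.negSucc 4696, .ofNat 265, .negSucc 646, .negSucc 327, .ofNat 2624, .ofNat 1000⟩, ⟨.negSucc 259, .negSucc 486, .ofNat 290, .negSucc 260, .ofNat 328, .ofNat 46⟩, .ofNat 640, .ofNat 596, .ofNat 0, .ofNat 596, .ofNat 1078, .ofNat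 0, .ofNat 128, .negSucc 181, .negSucc 546, .ofNat 0, .ofNat 160, .ofNat 338, .ofNat 0, .ofNat 0, .ofNat 773, .ofNat 119, .ofNat 0, .ofNat 0, .ofNat 618114237473406497643066431694176256, .ofNat 0, .ofNat 0, .ofNat 174189059835272431713211628235512233328640, .ofNat 3847871108565127717990273218152235008, .ofNat 0, .ofNat 0, .ofNat 74037710248740609080349087387992752914432, .ofNat 4429761241901810242326567121363927040, .ofNat 0, .ofNat 0, .ofNat 704546365943039014801546738747764541227008, .ofNat 4658422946982421765299663146493935616, .ofNat 73005399331768057245632852729637567861882880⟩)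
    (by decide +kernel)
theorem L03837 : Good (Phi V5.P V5.D (-1) (-1)) ⟨5, 28, 3, 4, 2, 1, 2, 3, 4, 3⟩ :=
  leafX_sound T5.ok_mm T5.Ymm.bz_eq (w := 213) (c := ⟨⟨.negSucc 2677, .ofNat 233, .negSucc 359, .ofNat 131, .ofNat 1323, .ofNat 437⟩, ⟨.ofNat 1552, .negSucc 112, .ofNat 381, .negSucc 83, .negSucc 833, .negSucc 275⟩, ⟨.ofNat 2275, .negSucc 331, .ofNat 362, .negSucc 753, .negSucc 1503, .negSucc 426⟩, ⟨.negSucc 4018, .ofNat 273, .negSucc 329, .ofNat 94, .ofNat 2227, .ofNat 636⟩, ⟨.negSucc 205, .negSucc 157, .ofNat 181, .negSucc 138, .ofNat 496, .ofNat 25⟩, .ofNat 682, .ofNat 676, .ofNat 0, .ofNat 676, .ofNat 1249, .ofNat 0, .ofNat 128, .negSucc 256, .negSucc 335, .ofNat 0, .ofNat 213, .ofNat 200, .ofNat 0, .ofNat 0, .ofNat 697, .ofNat 370, .ofNat 0, .ofNat 0, .ofNat 0, .ofNat 0, .ofNat 0, .ofNat 5846917676200168860300222524947914607820800, .ofNat 2556030410851124306799385243709079552,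 .ofNat 0, .ofNat 0, .ofNat 6329466642499051401270763594623795926663168, .ofNat 3195032994754304434511568670585520128, .ofNat 0, .ofNat 0, .ofNat 0, .ofNat 0, .ofNat 0⟩)
    (by decide +kernel)
theorem L03838 : Good (Phi V5.P V5.D (-1) (-1)) ⟨5, 29, 3, 4, 2, 1, 2, 3, 4, 3⟩ :=
  out_sound (S := T5.ds_mm) T5.ok_mm (w := 57) (j := 3) (by decide +kernel)
theorem L03839 : Good (Phi V5.P V5.D (-1) (-1)) ⟨4, 15, 3, 4, 2, 1, 2, 3, 3, 1⟩ :=
  out_sound (S := T5.ds_mm) T5.ok_mm (w := 51) (j := 3) (by decide +kernel)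
theorem L03840 : Good (Phi V5.P V5.D (-1) (-1)) ⟨2, 2, 3, 5, 2, 1, 3, 6, 3, 0⟩ :=
  out_sound (S := T5.ds_mm) T5.ok_mm (w := 39) (j := 3) (by decide +kernel)
theorem L03841 : Good (Phi V5.P V5.D (-1) (-1)) ⟨3, 6, 3, 5, 2, 1, 3, 6, 3, 0⟩ :=
  out_sound (S := T5.ds_mm) T5.ok_mm (w := 45) (j := 3) (by decide +kernel)
theorem L03842 : Good (Phi V5.P V5.D (-1) (-1)) ⟨5, 28, 4, 10, 2, 1, 3, 6, 5, 0⟩ :=
  leafX_sound T5.ok_mm T5.Ymm.bz_eq (w := 232) (c := ⟨⟨.negSucc 1776, .negSucc 1314, .ofNat 500, .ofNat 3056, .negSucc 485, .negSucc 2367⟩, ⟨.ofNat 1146, .ofNat 719, .negSucc 152, .negSucc 2029, .ofNat 344, .ofNat 1566⟩, ⟨.ofNat 1566, .ofNat 157, .ofNat 129, .negSucc 3018, .ofNat 467, .ofNat 2241⟩, ⟨.negSucc 2671, .negSucc 1216, .ofNat 222, .ofNat 4330, .negSucc 1313, .negSucc 3309⟩, ⟨.negSucc 39, .ofNat 322, .negSucc 493, .ofNat 34, .negSucc 945, .ofNat 12⟩, .ofNat 2449, .ofNat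 3343, .ofNat 0, .ofNat 3343, .ofNat 5317, .ofNat 0, .ofNat 128, .negSucc 631, .negSucc 3688, .ofNat 0, .ofNat 436, .ofNat 2378, .ofNat 0, .ofNat 0, .ofNat 3864, .ofNat 555, .ofNat 0, .ofNat 0, .ofNat 286356444432879141696857257136982327296, .ofNat 0, .ofNat 0, .ofNat 0, .ofNat 49931289997540308390751133102352740909056, .ofNat 23853214911952404835470244250653881234777584959488, .ofNat 0, .ofNat 0, .ofNat 33739139562505638243350836410398439112704, .ofNat 0, .ofNat 0, .ofNat 0, .ofNat 106961722647080852064560210774566992084992, .ofNat 144338822865045662740242616304488130692233411166208⟩)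
    (by decide +kernel)
theorem L03843 : Good (Phi V5.P V5.D (-1) (-1)) ⟨5, 28, 4, 10, 2, 1, 3, 6, 5, 1⟩ :=
  leafX_sound T5.ok_mm T5.Ymm.bz_eq (w := 231) (c := ⟨⟨.negSucc 3793, .negSucc 700, .ofNat 5, .ofNat 922, .ofNat 110, .negSucc 458⟩, ⟨.ofNat 2423, .ofNat 509, .ofNat 130, .negSucc 610, .negSucc 71, .ofNat 300⟩, ⟨.ofNat 3311, .ofNat 451, .ofNat 108, .negSucc 1171, .negSucc 65, .ofNat 377⟩, ⟨.negSucc 5608, .negSucc 581, .negSucc 129, .ofNat 900, .ofNat 181, .negSucc 462⟩, ⟨.negSucc 237, .ofNat 98, .negSucc 68, .negSucc 646, .ofNat 50, .ofNat 315⟩, .ofNat 2570, .ofNat 3504, .ofNat 0, .ofNat 3504, .ofNat 5521, .ofNat 0, .ofNat 128, .negSucc 677, .negSucc 2723, .ofNat 0, .ofNat 469, .ofNat 1774, .ofNat 0, .ofNat 0, .ofNat 2980, .ofNat 1680, .ofNat 0, .ofNat 0, .ofNat 0, .ofNat 0, .ofNat 0, .ofNat 0, .ofNat 84227882139687406238367712165060304437248, .ofNat 0, .ofNat 0, .ofNat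 0, .ofNat 31220440175191485945335402861370904936448, .ofNat 35810924766336072917605773114558115666344020017152, .ofNat 0, .ofNat 0, .ofNat 15518710908339166186065811883140310892544, .ofNat 49631475337749311876922515016628824847558692044800⟩)
    (by decide +kernel)
theorem L03844 : Good (Phi V5.P V5.D (-1) (-1)) ⟨6, 56, 4, 11, 2, 1, 3, 6, 4, 0⟩ :=
  out_sound (S := T5.ds_mm) T5.ok_mm (w := 65) (j := 3) (by decide +kernel)
theorem L03845 : Good (Phi V5.P V5.D (-1) (-1)) ⟨7, 114, 5, 22, 2, 1, 3, 6, 4, 0⟩ :=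
  out_sound (S := T5.ds_mm) T5.ok_mm (w := 73) (j := 3) (by decide +kernel)
theorem L03846 : Good (Phi V5.P V5.D (-1) (-1)) ⟨7, 115, 5, 22, 2, 1, 3, 6, 4, 0⟩ :=
  out_sound (S := T5.ds_mm) T5.ok_mm (w := 21) (j := 4) (by decide +kernel)
theorem L03847 : Good (Phi V5.P V5.D (-1) (-1)) ⟨6, 57, 5, 23, 2, 1, 3, 6, 4, 0⟩ :=
  out_sound (S := T5.ds_mm) T5.ok_mm (w := 67) (j := 3) (by decide +kernel)
theorem L03848 : Good (Phi V5.P V5.D (-1) (-1)) ⟨5, 28, 4, 10, 2, 1, 3, 6, 4, 1⟩ :=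
  leafX_sound T5.ok_mm T5.Ymm.bz_eq (w := 222) (c := ⟨⟨.negSucc 3927, .negSucc 1292, .ofNat 446, .negSucc 206, .ofNat 477, .ofNat 569⟩, ⟨.ofNat 2483, .ofNat 999, .negSucc 208, .ofNat 128, .negSucc 313, .negSucc 368⟩, ⟨.ofNat 3587, .ofNat 584, .negSucc 115, .negSucc 293, .negSucc 452, .negSucc 620⟩, ⟨.negSucc 5680, .negSucc 1423, .ofNat 524, .negSucc 549, .ofNat 674, .ofNat 844⟩, ⟨.negSucc 154, .ofNat 549, .negSucc 289, .negSucc 431, .ofNat 9, .ofNat 125⟩, .ofNat 921, .ofNat 1045, .ofNat 0, .ofNat 1045, .ofNat 1801, .ofNat 0, .ofNat 128, .negSucc 572, .negSucc 1874, .ofNat 0, .ofNat 429, .ofNat 1178, .ofNat 0, .ofNat 0, .ofNat 2232, .ofNat 523, .ofNat 0, .ofNat 0, .ofNat 11133798086673121313002226040413618176, .ofNat 0, .ofNat 0, .ofNat 0, .ofNat 418619209880354390732941132861167108096, .ofNat 4912736393197494379858408801291024939020713984, .ofNat 0, .ofNat 0, .ofNat 675108883364928412934877392363577147392,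 .ofNat 0, .ofNat 0, .ofNat 0, .ofNat 693506875160879018913033688644596006912, .ofNat 0⟩)
    (by decide +kernel)
theorem L03849 : Good (Phi V5.P V5.D (-1) (-1)) ⟨6, 56, 4, 11, 2, 1, 3, 6, 4, 1⟩ :=
  out_sound (S := T5.ds_mm) T5.ok_mm (w := 65) (j := 3) (by decide +kernel)
theorem L03850 : Good (Phi V5.P V5.D (-1) (-1)) ⟨7, 114, 5, 22, 2, 1, 3, 6, 4, 1⟩ :=
  out_sound (S := T5.ds_mm) T5.ok_mm (w := 73) (j := 3) (by decide +kernel)
theorem L03851 : Good (Phi V5.P V5.D (-1) (-1)) ⟨7, 115, 5, 22, 2, 1, 3, 6, 4, 1⟩ :=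
  out_sound (S := T5.ds_mm) T5.ok_mm (w := 21) (j := 4) (by decide +kernel)
theorem L03852 : Good (Phi V5.P V5.D (-1) (-1)) ⟨6, 57, 5, 23, 2, 1, 3, 6, 4, 1⟩ :=
  out_sound (S := T5.ds_mm) T5.ok_mm (w := 67) (j := 3) (by decide +kernel)
theorem L03853 : Good (Phi V5.P V5.D (-1) (-1)) ⟨5, 29, 3, 5, 2, 1, 3, 6, 3, 0⟩ :=
  out_sound (S := T5.ds_mm) T5.ok_mm (w := 17) (j := 4) (by decide +kernel)
theorem L03854 : Good (Phi V5.P V5.D (-1) (-1)) ⟨4, 15, 3, 5, 2, 1, 3, 6, 3, 0⟩ :=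
  out_sound (S := T5.ds_mm) T5.ok_mm (w := 51) (j := 3) (by decide +kernel)
theorem L03855 : Good (Phi V5.P V5.D (-1) (-1)) ⟨2, 2, 3, 5, 2, 1, 3, 7, 3, 0⟩ :=
  out_sound (S := T5.ds_mm) T5.ok_mm (w := 39) (j := 3) (by decide +kernel)
theorem L03856 : Good (Phi V5.P V5.D (-1) (-1)) ⟨3, 6, 3, 5, 2, 1, 3, 7, 3, 0⟩ :=
  out_sound (S := T5.ds_mm) T5.ok_mm (w := 45) (j := 3) (by decide +kernel)
theorem L03857 : Good (Phi V5.P V5.D (-1) (-1)) ⟨6, 56, 4, 10, 2, 1, 4, 14, 4, 0⟩ :=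
  leafX_sound T5.ok_mm T5.Ymm.bz_eq (w := 239) (c := ⟨⟨.negSucc 3228, .negSucc 361, .negSucc 90, .ofNat 1627, .ofNat 610, .negSucc 977⟩, ⟨.ofNat 2053, .ofNat 270, .ofNat 163, .negSucc 1060, .negSucc 394, .ofNat 637⟩, ⟨.ofNat 2625, .ofNat 692, .negSucc 318, .negSucc 1686, .negSucc 586, .ofNat 766⟩, ⟨.negSucc 4470, .negSucc 822, .negSucc 719, .ofNat 1601, .ofNat 787, .negSucc 826⟩, ⟨.ofNat 290, .negSucc 764, .negSucc 710, .negSucc 1096, .negSucc 108, .ofNat 885⟩, .ofNat 5264, .ofNat 7641, .ofNat 0, .ofNat 7641, .ofNat 11897, .ofNat 0, .ofNat 128, .negSucc 967, .negSucc 5687, .ofNat 0, .ofNat 651, .ofNat 3689, .ofNat 0, .ofNat 0, .ofNat 6101, .ofNat 980, .ofNat 0, .ofNat 0, .ofNat 0, .ofNat 0, .ofNat 0, .ofNat 0, .ofNat 0, .ofNat 0, .ofNat 0, .ofNat 0, .ofNat 36970698117065757317274207140959506923520, .ofNat 0, .ofNat 0, .ofNat 0, .ofNat 0, .ofNat 0⟩)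
    (by decide +kernel)
theorem L03858 : Good (Phi V5.P V5.D (-1) (-1)) ⟨7, 114, 4, 10, 2, 1, 4, 14, 4, 0⟩ :=
  leafX_sound T5.ok_mm T5.Ymm.bz_eq (w := 239) (c := ⟨⟨.negSucc 3619, .negSucc 69, .negSucc 78, .ofNat 1389, .ofNat 890, .negSucc 938⟩, ⟨.ofNat 2342, .ofNat 49, .ofNat 168, .negSucc 943, .negSucc 591, .ofNat 636⟩, ⟨.ofNat 3234, .ofNat 155, .negSucc 87, .negSucc 1453, .negSucc 870, .ofNat 726⟩, ⟨.negSucc 5602, .negSucc 142, .ofNat 274, .ofNat 1978, .ofNat 1179, .negSucc 1295⟩, ⟨.negSucc 450, .ofNat 134, .ofNat 4, .negSucc 76, .negSucc 94, .ofNat 95⟩, .ofNat 1563, .ofNat 1990, .ofNat 0, .ofNat 1990, .ofNat 3219, .ofNat 0, .ofNat 128, .negSucc 635, .negSucc 5600, .ofNat 0, .ofNat 457, .ofNat 3603, .ofNat 0, .ofNat 0, .ofNat 5913, .ofNat 441, .ofNat 0, .ofNat 0, .ofNat 0, .ofNat 0, .ofNat 0, .ofNat 0, .ofNat 618426670435714874287297319439742009344, .ofNat 279681072568678656610708394646631996695774542954496,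 .ofNat 0, .ofNat 0, .ofNat 1062934672299838320724347043048358674432, .ofNat 0, .ofNat 0, .ofNat 0, .ofNat 0, .ofNat 0⟩)
    (by decide +kernel)
theorem L03859 : Good (Phi V5.P V5.D (-1) (-1)) ⟨7, 115, 4, 10, 2, 1, 4, 14, 4, 0⟩ :=
  out_sound (S := T5.ds_mm) T5.ok_mm (w := 21) (j := 4) (by decide +kernel)
theorem L03860 : Good (Phi V5.P V5.D (-1) (-1)) ⟨6, 56, 4, 11, 2, 1, 4, 14, 4, 0⟩ :=
  out_sound (S := T5.ds_mm) T5.ok_mm (w := 65) (j := 3) (by decide +kernel)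
theorem L03861 : Good (Phi V5.P V5.D (-1) (-1)) ⟨7, 114, 5, 22, 2, 1, 4, 14, 4, 0⟩ :=
  out_sound (S := T5.ds_mm) T5.ok_mm (w := 73) (j := 3) (by decide +kernel)
theorem L03862 : Good (Phi V5.P V5.D (-1) (-1)) ⟨7, 115, 5, 22, 2, 1, 4, 14, 4, 0⟩ :=
  out_sound (S := T5.ds_mm) T5.ok_mm (w := 21) (j := 4) (by decide +kernel)
theorem L03863 : Good (Phi V5.P V5.D (-1) (-1)) ⟨6, 57, 5, 23, 2, 1, 4, 14, 4, 0⟩ :=
  out_sound (S := T5.ds_mm) T5.ok_mm (w := 67) (j := 3) (by decide +kernel)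
theorem L03864 : Good (Phi V5.P V5.D (-1) (-1)) ⟨5, 29, 3, 5, 2, 1, 4, 14, 4, 0⟩ :=
  out_sound (S := T5.ds_mm) T5.ok_mm (w := 17) (j := 4) (by decide +kernel)
theorem L03865 : Good (Phi V5.P V5.D (-1) (-1)) ⟨5, 28, 3, 5, 2, 1, 4, 14, 4, 1⟩ :=
  leafX_sound T5.ok_mm T5.Ymm.bz_eq (w := 229) (c := ⟨⟨.negSucc 3802, .negSucc 526, .ofNat 199, .ofNat 129, .ofNat 729, .ofNat 789⟩, ⟨.ofNat 2462, .ofNat 268, .ofNat 239, .negSucc 91, .negSucc 478, .negSucc 517⟩, ⟨.ofNat 3356, .ofNat 141, .ofNat 190, .negSucc 472, .negSucc 715, .negSucc 912⟩, ⟨.negSucc 5580, .negSucc 380, .ofNat 4, .ofNat 2, .ofNat 1007, .ofNat 1252⟩, ⟨.negSucc 175, .ofNat 77, .negSucc 170, .negSucc 287, .negSucc 39, .ofNat 235⟩, .ofNat 4888, .ofNat 7002, .ofNat 0, .ofNat 7002, .ofNat 10793, .ofNat 0, .ofNat 128, .negSucc 838, .negSucc 2480, .ofNat 0, .ofNat 564, .ofNat 1635, .ofNat 0, .ofNat 0, .ofNat 2862, .ofNat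 498, .ofNat 0, .ofNat 0, .ofNat 74211038588103708939237828390188744704, .ofNat 0, .ofNat 0, .ofNat 0, .ofNat 23102230781127547784896999547075660087296, .ofNat 1928324809554050683269988650524042924625668079616, .ofNat 0, .ofNat 0, .ofNat 0, .ofNat 0, .ofNat 0, .ofNat 0, .ofNat 16537250046914256082428482556695538565120, .ofNat 4091978334969425699303387632523587880708235853824⟩)
    (by decide +kernel)
theorem L03866 : Good (Phi V5.P V5.D (-1) (-1)) ⟨5, 29, 3, 5, 2, 1, 4, 14, 4, 1⟩ :=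
  out_sound (S := T5.ds_mm) T5.ok_mm (w := 17) (j := 4) (by decide +kernel)
theorem L03867 : Good (Phi V5.P V5.D (-1) (-1)) ⟨5, 28, 4, 10, 2, 1, 5, 30, 5, 0⟩ :=
  leafX_sound T5.ok_mm T5.Ymm.bz_eq (w := 239) (c := ⟨⟨.negSucc 2867, .ofNat 19, .negSucc 342, .ofNat 2415, .ofNat 940, .negSucc 952⟩, ⟨.ofNat 1914, .negSucc 224, .ofNat 417, .negSucc 1599, .negSucc 630, .ofNat 627⟩, ⟨.ofNat 2351, .ofNat 51, .ofNat 308, .negSucc 2382, .negSucc 969, .ofNat 828⟩, ⟨.negSucc 4434, .ofNat 1, .negSucc 516, .ofNat 3299, .ofNat 1376, .negSucc 1186⟩, ⟨.negSucc 596, .negSucc 38, .negSucc 98, .negSucc 157, .ofNat 97, .ofNat 249⟩, .ofNat 2570, .ofNat 3504, .ofNat 0, .ofNat 3504, .ofNat 5521, .ofNat 0, .ofNat 128, .negSucc 367, .negSucc 2913, .ofNat 0, .ofNat 256, .ofNat 1892, .ofNat 0, .ofNat 0, .ofNat 3085, .ofNat 1150, .ofNat 0, .ofNat 0, .ofNat 0, .ofNat 0, .ofNat 0, .ofNat 0, .ofNat 15930147723935247229747723953329267758071808,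 .ofNat 2085775816068611986117571103174467030681390212448256, .ofNat 0, .ofNat 0, .ofNat 9747465985139287571152930556599538336923648, .ofNat 0, .ofNat 0, .ofNat 0, .ofNat 15197337301294211107584244758435989393768448, .ofNat 18015594415733262999784906699580189413434391003136000⟩)
    (by decide +kernel)
theorem L03868 : Good (Phi V5.P V5.D (-1) (-1)) ⟨5, 28, 4, 10, 2, 1, 5, 31, 5, 0⟩ :=
  leafX_sound T5.ok_mm T5.Ymm.bz_eq (w := 241) (c := ⟨⟨.negSucc 1873, .ofNat 330, .ofNat 233, .ofNat 1399, .ofNat 2001, .negSucc 303⟩, ⟨.ofNat 1318, .negSucc 565, .ofNat 37, .negSucc 924, .negSucc 1325, .ofNat 196⟩, ⟨.ofNat 1346, .negSucc 304, .negSucc 246, .negSucc 1367, .negSucc 2106, .ofNat 214⟩, ⟨.negSucc 3288, .ofNat 806, .ofNat 331, .ofNat 1823, .ofNat 3190, .negSucc 304⟩, ⟨.negSucc 899, .negSucc 9, .ofNat 321, .negSucc 199, .ofNat 565, .ofNat 173⟩, .ofNat 2570, .ofNat 3504, .ofNat 0,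 .ofNat 3504, .ofNat 5521, .ofNat 0, .ofNat 128, .negSucc 379, .negSucc 5089, .ofNat 0, .ofNat 265, .ofNat 3303, .ofNat 0, .ofNat 0, .ofNat 5376, .ofNat 533, .ofNat 0, .ofNat 0, .ofNat 52057644990493787868937605188917766651904, .ofNat 0, .ofNat 0, .ofNat 0, .ofNat 11734368878770289609846715942907531078139904, .ofNat 0, .ofNat 0, .ofNat 0, .ofNat 3518434595790222888230615776242340196253696, .ofNat 1466558340854354082270245095470751018592556688605184, .ofNat 0, .ofNat 358758812755629352788765823768059668833394229248, .ofNat 8048333488283619892658721648198769168089088, .ofNat 48908760662661915029077223946432041616199165071589376⟩)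
    (by decide +kernel)
theorem L03869 : Good (Phi V5.P V5.D (-1) (-1)) ⟨6, 56, 4, 11, 2, 1, 4, 15, 5, 0⟩ :=
  out_sound (S := T5.ds_mm) T5.ok_mm (w := 65) (j := 3) (by decide +kernel)
theorem L03870 : Good (Phi V5.P V5.D (-1) (-1)) ⟨7, 114, 5, 22, 2, 1, 4, 15, 5, 0⟩ :=
  out_sound (S := T5.ds_mm) T5.ok_mm (w := 73) (j := 3) (by decide +kernel)
theorem L03871 : Good (Phi V5.P V5.D (-1) (-1)) ⟨7, 115, 5, 22, 2, 1, 4, 15, 5, 0⟩ :=
  out_sound (S := T5.ds_mm) T5.ok_mm (w := 21) (j := 4) (by decide +kernel)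
theorem L03872 : Good (Phi V5.P V5.D (-1) (-1)) ⟨6, 57, 5, 23, 2, 1, 4, 15, 5, 0⟩ :=
  out_sound (S := T5.ds_mm) T5.ok_mm (w := 67) (j := 3) (by decide +kernel)
theorem L03873 : Good (Phi V5.P V5.D (-1) (-1)) ⟨6, 56, 4, 10, 2, 1, 4, 15, 5, 1⟩ :=
  leafX_sound T5.ok_mm T5.Ymm.bz_eq (w := 241) (c := ⟨⟨.negSucc 3157, .negSucc 687, .ofNat 726, .ofNat 1133, .ofNat 3732, .negSucc 259⟩, ⟨.ofNat 2064, .ofNat 419, .negSucc 414, .negSucc 731, .negSucc 2442, .ofNat 161⟩, ⟨.ofNat 2757, .ofNat 267, .negSucc 280, .negSucc 1184, .negSucc 3769, .ofNat 170⟩, ⟨.negSucc 5130, .negSucc 645, .ofNat 1234, .ofNat 1489, .ofNat 5584, .negSucc 210⟩, ⟨.negSucc 980, .ofNat 449, .ofNat 304, .negSucc 155, .ofNat 446, .ofNat 242⟩, .ofNat 2355, .ofNat 3218, .ofNat 0, .ofNat 3218, .ofNat 5160, .ofNat 0, .ofNat 128, .negSucc 610, .negSucc 6450, .ofNat 0, .ofNat 421, .ofNat 4121, .ofNat 0, .ofNat 0, .ofNat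 6788, .ofNat 495, .ofNat 0, .ofNat 0, .ofNat 0, .ofNat 0, .ofNat 0, .ofNat 0, .ofNat 126407561304565393132752907645196487884800, .ofNat 0, .ofNat 0, .ofNat 0, .ofNat 74243103864066375016559109595741007380480, .ofNat 0, .ofNat 0, .ofNat 0, .ofNat 0, .ofNat 0⟩)
    (by decide +kernel)
theorem L03874 : Good (Phi V5.P V5.D (-1) (-1)) ⟨8, 228, 4, 10, 2, 1, 4, 15, 5, 1⟩ :=
  leafX_sound T5.ok_mm T5.Ymm.bz_eq (w := 250) (c := ⟨⟨.negSucc 3558, .ofNat 299, .negSucc 290, .ofNat 1167, .ofNat 4086, .negSucc 148⟩, ⟨.ofNat 2481, .negSucc 141, .negSucc 24, .negSucc 777, .negSucc 2738, .ofNat 103⟩, ⟨.ofNat 3270, .negSucc 158, .negSucc 303, .negSucc 1241, .negSucc 4127, .ofNat 82⟩, ⟨.negSucc 5526, .ofNat 418, .negSucc 25, .ofNat 1404, .ofNat 6106, .negSucc 120⟩, ⟨.negSucc 520, .ofNat 123, .ofNat 55, .negSucc 352, .ofNat 494, .ofNat 131⟩, .ofNat 2415, .ofNat 3255, .ofNat 0, .ofNat 3255, .ofNat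 5118, .ofNat 0, .ofNat 128, .negSucc 670, .negSucc 7870, .ofNat 0, .ofNat 471, .ofNat 5127, .ofNat 0, .ofNat 0, .ofNat 8237, .ofNat 598, .ofNat 0, .ofNat 0, .ofNat 0, .ofNat 0, .ofNat 0, .ofNat 0, .ofNat 26728943235403252743011669159290096058368, .ofNat 0, .ofNat 0, .ofNat 0, .ofNat 0, .ofNat 0, .ofNat 0, .ofNat 0, .ofNat 0, .ofNat 0⟩)
    (by decide +kernel)
theorem L03875 : Good (Phi V5.P V5.D (-1) (-1)) ⟨8, 229, 4, 10, 2, 1, 4, 15, 5, 1⟩ :=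
  out_sound (S := T5.ds_mm) T5.ok_mm (w := 23) (j := 4) (by decide +kernel)
theorem L03876 : Good (Phi V5.P V5.D (-1) (-1)) ⟨7, 115, 4, 10, 2, 1, 4, 15, 5, 1⟩ :=
  out_sound (S := T5.ds_mm) T5.ok_mm (w := 21) (j := 4) (by decide +kernel)
theorem L03877 : Good (Phi V5.P V5.D (-1) (-1)) ⟨6, 56, 4, 11, 2, 1, 4, 15, 5, 1⟩ :=
  out_sound (S := T5.ds_mm) T5.ok_mm (w := 65) (j := 3) (by decide +kernel)
theorem L03878 : Good (Phi V5.P V5.D (-1) (-1)) ⟨7, 114, 5, 22, 2, 1, 4, 15, 5, 1⟩ :=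
  out_sound (S := T5.ds_mm) T5.ok_mm (w := 73) (j := 3) (by decide +kernel)
theorem L03879 : Good (Phi V5.P V5.D (-1) (-1)) ⟨7, 115, 5, 22, 2, 1, 4, 15, 5, 1⟩ :=
  out_sound (S := T5.ds_mm) T5.ok_mm (w := 21) (j := 4) (by decide +kernel)
theorem L03880 : Good (Phi V5.P V5.D (-1) (-1)) ⟨6, 57, 5, 23, 2, 1, 4, 15, 5, 1⟩ :=
  out_sound (S := T5.ds_mm) T5.ok_mm (w := 67) (j := 3) (by decide +kernel)
theorem L03881 : Good (Phi V5.P V5.D (-1) (-1)) ⟨5, 29, 3, 5, 2, 1, 4, 15, 4, 0⟩ :=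
  out_sound (S := T5.ds_mm) T5.ok_mm (w := 17) (j := 4) (by decide +kernel)
theorem L03882 : Good (Phi V5.P V5.D (-1) (-1)) ⟨6, 56, 4, 10, 2, 1, 4, 15, 5, 2⟩ :=
  leafX_sound T5.ok_mm T5.Ymm.bz_eq (w := 244) (c := ⟨⟨.negSucc 3099, .negSucc 352, .negSucc 185, .ofNat 364, .ofNat 3557, .ofNat 318⟩, ⟨.ofNat 2017, .ofNat 210, .ofNat 188, .negSucc 244, .negSucc 2316, .negSucc 205⟩, ⟨.ofNat 2481, .ofNat 338, .ofNat 174, .negSucc 578, .negSucc 3533, .negSucc 350⟩, ⟨.negSucc 4724, .ofNat 10, .negSucc 18, .ofNat 703, .ofNat 4845, .ofNat 156⟩, ⟨.negSucc 491, .ofNat 705, .ofNat 406, .ofNat 301, .negSucc 290, .negSucc 437⟩, .ofNat 5276, .ofNat 7657, .ofNat 0, .ofNat 7657, .ofNat 11919, .ofNat 0, .ofNat 128, .negSucc 911, .negSucc 5656, .ofNat 0, .ofNat 613, .ofNat 3669, .ofNat 0, .ofNat 0, .ofNat 6040, .ofNat 738, .ofNat 0, .ofNat 0, .ofNat 0, .ofNat 0, .ofNat 0, .ofNat 315473986430192375547661377345134395807605194752,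 .ofNat 282205081491368044716614221362519722688512, .ofNat 0, .ofNat 0, .ofNat 0, .ofNat 616331914509419592597767323047459955933184, .ofNat 0, .ofNat 0, .ofNat 0, .ofNat 0, .ofNat 0⟩)
    (by decide +kernel)
theorem L03883 : Good (Phi V5.P V5.D (-1) (-1)) ⟨6, 57, 4, 10, 2, 1, 5, 30, 5, 2⟩ :=
  leafX_sound T5.ok_mm T5.Ymm.bz_eq (w := 246) (c := ⟨⟨.negSucc 3423, .negSucc 265, .ofNat 139, .ofNat 676, .ofNat 1056, .ofNat 265⟩, ⟨.ofNat 2301, .ofNat 332, .negSucc 152, .negSucc 453, .negSucc 704, .negSucc 172⟩, ⟨.ofNat 2585, .negSucc 155, .ofNat 302, .negSucc 873, .negSucc 1044, .negSucc 339⟩, ⟨.negSucc 4800, .negSucc 138, .negSucc 11, .ofNat 729, .ofNat 1524, .ofNat 436⟩, ⟨.negSucc 108, .ofNat 11, .negSucc 46, .negSucc 340, .ofNat 58, .ofNat 102⟩, .ofNat 2684, .ofNat 3661, .ofNat 0, .ofNat 3661, .ofNat 5729, .ofNat 0, .ofNat 128, .negSucc 1356, .negSucc 5980, .ofNat 0, .ofNat 941,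 .ofNat 3910, .ofNat 0, .ofNat 0, .ofNat 6425, .ofNat 1194, .ofNat 0, .ofNat 0, .ofNat 0, .ofNat 0, .ofNat 0, .ofNat 0, .ofNat 8461873670347278805698423891874927614099456, .ofNat 32429099090622729852423888922842498452862123898830848, .ofNat 0, .ofNat 0, .ofNat 7473881692281586591941936066402903065100288, .ofNat 0, .ofNat 0, .ofNat 0, .ofNat 0, .ofNat 0⟩)
    (by decide +kernel)
theorem L03884 : Good (Phi V5.P V5.D (-1) (-1)) ⟨6, 57, 4, 10, 2, 1, 5, 31, 5, 2⟩ :=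
  leafX_sound T5.ok_mm T5.Ymm.bz_eq (w := 246) (c := ⟨⟨.negSucc 2001, .negSucc 168, .negSucc 34, .ofNat 552, .ofNat 3472, .negSucc 241⟩, ⟨.ofNat 1391, .ofNat 224, .negSucc 89, .negSucc 362, .negSucc 2322, .ofNat 160⟩, ⟨.ofNat 1155, .negSucc 28, .ofNat 296, .negSucc 636, .negSucc 3402, .ofNat 212⟩, ⟨.negSucc 2956, .negSucc 54, .negSucc 133, .ofNat 554, .ofNat 5087, .negSucc 221⟩, ⟨.negSucc 337, .ofNat 68, .ofNat 104, .negSucc 303, .ofNat 288, .ofNat 171⟩, .ofNat 2692, .ofNat 3672, .ofNat 0, .ofNat 3672, .ofNat 5744, .ofNat 0, .ofNat 128, .negSucc 767, .negSucc 7215, .ofNat 0, .ofNat 533, .ofNat 4715, .ofNat 0, .ofNat 0, .ofNat 7482, .ofNat 198, .ofNat 0, .ofNat 6667970038539430349069063319298377178205388800, .ofNat 30957693334180674481301737567820502269952, .ofNat 447980762212282020260265377244522324131377435377664, .ofNat 0, .ofNat 0, .ofNat 5258133089236930194750361462141104892674048,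 .ofNat 23743549719562986985661613911962398018862922822844416, .ofNat 0, .ofNat 0, .ofNat 11078940493672231557025116805466341641289728, .ofNat 23924179500246722630819441844216906344569062268338176, .ofNat 0, .ofNat 0, .ofNat 0, .ofNat 1243839301867812873922825005672834013790794935466721280⟩)
    (by decide +kernel)
theorem L03885 : Good (Phi V5.P V5.D (-1) (-1)) ⟨6, 56, 4, 11, 2, 1, 4, 15, 5, 2⟩ :=
  out_sound (S := T5.ds_mm) T5.ok_mm (w := 65) (j := 3) (by decide +kernel)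
theorem L03886 : Good (Phi V5.P V5.D (-1) (-1)) ⟨7, 114, 5, 22, 2, 1, 4, 15, 5, 2⟩ :=
  out_sound (S := T5.ds_mm) T5.ok_mm (w := 73) (j := 3) (by decide +kernel)
theorem L03887 : Good (Phi V5.P V5.D (-1) (-1)) ⟨7, 115, 5, 22, 2, 1, 4, 15, 5, 2⟩ :=
  out_sound (S := T5.ds_mm) T5.ok_mm (w := 21) (j := 4) (by decide +kernel)
theorem L03888 : Good (Phi V5.P V5.D (-1) (-1)) ⟨6, 57, 5, 23, 2, 1, 4, 15, 5, 2⟩ :=
  out_sound (S := T5.ds_mm) T5.ok_mm (w := 67) (j := 3) (by decide +kernel)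
theorem L03889 : Good (Phi V5.P V5.D (-1) (-1)) ⟨5, 28, 4, 10, 2, 1, 4, 15, 5, 3⟩ :=
  leafX_sound T5.ok_mm T5.Ymm.bz_eq (w := 236) (c := ⟨⟨.negSucc 2290, .negSucc 1943, .ofNat 927, .ofNat 144, .ofNat 2732, .ofNat 116⟩, ⟨.ofNat 1458, .ofNat 1408, .negSucc 626, .negSucc 99, .negSucc 1793, .negSucc 79⟩, ⟨.ofNat 1795, .ofNat 1231, .negSucc 551, .negSucc 432, .negSucc 2688, .negSucc 125⟩, ⟨.negSucc 3734, .negSucc 1587, .ofNat 872, .ofNat 220, .ofNat 4037, .ofNat 344⟩, ⟨.negSucc 592, .ofNat 977, .negSucc 286, .ofNat 45, .ofNat 248, .ofNat 308⟩, .ofNat 2570, .ofNat 3504, .ofNat 0, .ofNat 3504, .ofNat 5521, .ofNat 0, .ofNat 128, .negSucc 627, .negSucc 3050, .ofNat 0, .ofNat 434, .ofNat 1983, .ofNat 0, .ofNat 0, .ofNat 3351, .ofNat 378, .ofNat 0, .ofNat 0, .ofNat 0, .ofNat 0, .ofNat 0, .ofNat 2583671795659826787651314820938186413947486208, .ofNat 666354609319532401912936850169465254445056,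 .ofNat 0, .ofNat 0, .ofNat 0, .ofNat 681482528654255360754090073712945092624384, .ofNat 0, .ofNat 0, .ofNat 235526751150485044642277439672586709462591471616, .ofNat 0, .ofNat 1566791663750699258833738253234755350049183305302016⟩)
    (by decide +kernel)
theorem L03890 : Good (Phi V5.P V5.D (-1) (-1)) ⟨6, 56, 4, 11, 2, 1, 4, 15, 5, 3⟩ :=
  out_sound (S := T5.ds_mm) T5.ok_mm (w := 65) (j := 3) (by decide +kernel)
theorem L03891 : Good (Phi V5.P V5.D (-1) (-1)) ⟨7, 114, 5, 22, 2, 1, 4, 15, 5, 3⟩ :=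
  out_sound (S := T5.ds_mm) T5.ok_mm (w := 73) (j := 3) (by decide +kernel)
theorem L03892 : Good (Phi V5.P V5.D (-1) (-1)) ⟨7, 115, 5, 22, 2, 1, 4, 15, 5, 3⟩ :=
  out_sound (S := T5.ds_mm) T5.ok_mm (w := 21) (j := 4) (by decide +kernel)
theorem L03893 : Good (Phi V5.P V5.D (-1) (-1)) ⟨6, 57, 5, 23, 2, 1, 4, 15, 5, 3⟩ :=
  out_sound (S := T5.ds_mm) T5.ok_mm (w := 67) (j := 3) (by decide +kernel)
theorem L03894 : Good (Phi V5.P V5.D (-1) (-1)) ⟨5, 29, 3, 5, 2, 1, 4, 15, 4, 1⟩ :=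
  out_sound (S := T5.ds_mm) T5.ok_mm (w := 17) (j := 4) (by decide +kernel)
theorem L03895 : Good (Phi V5.P V5.D (-1) (-1)) ⟨4, 15, 3, 5, 2, 1, 3, 7, 3, 0⟩ :=
  out_sound (S := T5.ds_mm) T5.ok_mm (w := 51) (j := 3) (by decide +kernel)
theorem L03896 : Good (Phi V5.P V5.D (-1) (-1)) ⟨2, 2, 3, 5, 2, 1, 2, 3, 3, 1⟩ :=
  out_sound (S := T5.ds_mm) T5.ok_mm (w := 39) (j := 3) (by decide +kernel)
theorem L03897 : Good (Phi V5.P V5.D (-1) (-1)) ⟨3, 6, 3, 5, 2, 1, 2, 3, 3, 1⟩ :=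
  out_sound (S := T5.ds_mm) T5.ok_mm (w := 45) (j := 3) (by decide +kernel)
theorem L03898 : Good (Phi V5.P V5.D (-1) (-1)) ⟨5, 28, 4, 10, 2, 1, 3, 6, 4, 2⟩ :=
  leafX_sound T5.ok_mm T5.Ymm.bz_eq (w := 224) (c := ⟨⟨.negSucc 3641, .negSucc 265, .ofNat 53, .negSucc 155, .ofNat 639, .ofNat 785⟩, ⟨.ofNat 2318, .ofNat 260, .ofNat 56, .ofNat 102, .negSucc 416, .negSucc 510⟩, ⟨.ofNat 3203, .ofNat 112, .ofNat 3, .negSucc 459, .negSucc 677, .negSucc 761⟩, ⟨.negSucc 5179, .negSucc 143, .negSucc 51, .negSucc 454, .ofNat 953, .ofNat 1142⟩, ⟨.ofNat 72, .negSucc 30, .negSucc 117, .negSucc 360, .ofNat 77, .ofNat 50⟩, .ofNat 2415, .ofNat 3298, .ofNat 0, .ofNat 3298, .ofNat 5259, .ofNat 0, .ofNat 128, .negSucc 968, .negSucc 1042, .ofNat 0, .ofNat 666, .ofNat 673, .ofNat 0, .ofNat 0, .ofNat 1637, .ofNat 3485, .ofNat 0, .ofNat 0, .ofNat 0, .ofNat 0, .ofNat 0, .ofNat 0, .ofNat 2033942994387809992568731508628990722048,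 .ofNat 961646669340541668040795256284175818761667870720, .ofNat 0, .ofNat 0, .ofNat 0, .ofNat 0, .ofNat 0, .ofNat 0, .ofNat 1421124160589275283649576973510423609344, .ofNat 0⟩)
    (by decide +kernel)
theorem L03899 : Good (Phi V5.P V5.D (-1) (-1)) ⟨5, 28, 4, 10, 2, 1, 3, 7, 4, 2⟩ :=
  leafX_sound T5.ok_mm T5.Ymm.bz_eq (w := 226) (c := ⟨⟨.negSucc 3193, .ofNat 351, .negSucc 273, .ofNat 149, .ofNat 1775, .ofNat 577⟩, ⟨.ofNat 2029, .negSucc 68, .ofNat 181, .negSucc 96, .negSucc 1163, .negSucc 379⟩, ⟨.ofNat 2561, .ofNat 15, .ofNat 34, .negSucc 634, .negSucc 1809, .negSucc 588⟩, ⟨.negSucc 4559, .ofNat 291, .negSucc 219, .ofNat 146, .ofNat 2730, .ofNat 963⟩, ⟨.negSucc 83, .negSucc 147, .ofNat 71, .negSucc 92, .ofNat 327, .ofNat 234⟩, .ofNat 2445, .ofNat 3339, .ofNat 0, .ofNat 3339, .ofNat 5313, .ofNat 0, .ofNat 128, .negSucc 935, .negSucc 2098, .ofNat 0, .ofNat 644, .ofNat 1353,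 .ofNat 0, .ofNat 0, .ofNat 2979, .ofNat 272, .ofNat 0, .ofNat 0, .ofNat 9177048881843035744040244678976602112, .ofNat 0, .ofNat 0, .ofNat 294706830065909162300248516881324541223108608, .ofNat 1754947587633131585161066966752985874432, .ofNat 0, .ofNat 0, .ofNat 1630606816295271526497958752246692833384202240, .ofNat 312165257921654446654213708795040759808, .ofNat 1130719923068886407024486254876249182660261314560, .ofNat 0, .ofNat 0, .ofNat 0, .ofNat 0⟩)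
    (by decide +kernel)
theorem L03900 : Good (Phi V5.P V5.D (-1) (-1)) ⟨6, 56, 4, 11, 2, 1, 2, 3, 4, 2⟩ :=
  out_sound (S := T5.ds_mm) T5.ok_mm (w := 65) (j := 3) (by decide +kernel)
theorem L03901 : Good (Phi V5.P V5.D (-1) (-1)) ⟨7, 114, 5, 22, 2, 1, 2, 3, 4, 2⟩ :=
  out_sound (S := T5.ds_mm) T5.ok_mm (w := 73) (j := 3) (by decide +kernel)
theorem L03902 : Good (Phi V5.P V5.D (-1) (-1)) ⟨7, 115, 5, 22, 2, 1, 2, 3, 4, 2⟩ :=
  out_sound (S := T5.ds_mm) T5.ok_mm (w := 21) (j := 4) (by decide +kernel)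
theorem L03903 : Good (Phi V5.P V5.D (-1) (-1)) ⟨6, 57, 5, 23, 2, 1, 2, 3, 4, 2⟩ :=
  out_sound (S := T5.ds_mm) T5.ok_mm (w := 67) (j := 3) (by decide +kernel)
theorem L03904 : Good (Phi V5.P V5.D (-1) (-1)) ⟨5, 28, 3, 5, 2, 1, 2, 3, 4, 3⟩ :=
  leafX_sound T5.ok_mm T5.Ymm.bz_eq (w := 217) (c := ⟨⟨.negSucc 3017, .negSucc 108, .ofNat 104, .ofNat 205, .ofNat 1384, .ofNat 425⟩, ⟨.ofNat 1961, .ofNat 8, .ofNat 196, .negSucc 137, .negSucc 906, .negSucc 279⟩, ⟨.ofNat 2617, .ofNat 98, .negSucc 142, .negSucc 852, .negSucc 1575, .negSucc 404⟩, ⟨.negSucc 4356, .ofNat 11, .ofNat 133, .ofNat 163, .ofNat 2220, .ofNat 648⟩, ⟨.negSucc 86, .ofNat 80, .negSucc 33, .negSucc 181, .ofNat 401, .ofNat 83⟩, .ofNat 2466, .ofNat 3368, .ofNat 0, .ofNat 3368, .ofNat 5350, .ofNat 0, .ofNat 128, .negSucc 1106, .negSucc 989, .ofNat 0, .ofNat 764, .ofNat 640, .ofNat 0, .ofNat 0, .ofNat 2181, .ofNat 477,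 .ofNat 0, .ofNat 0, .ofNat 0, .ofNat 0, .ofNat 0, .ofNat 5665269670632123063506722566410871500701696, .ofNat 43005477807684376191934178143183568896, .ofNat 0, .ofNat 0, .ofNat 0, .ofNat 0, .ofNat 0, .ofNat 0, .ofNat 0, .ofNat 0, .ofNat 0⟩)
    (by decide +kernel)
theorem L03905 : Good (Phi V5.P V5.D (-1) (-1)) ⟨5, 29, 3, 5, 2, 1, 2, 3, 3, 1⟩ :=
  out_sound (S := T5.ds_mm) T5.ok_mm (w := 17) (j := 4) (by decide +kernel)
theorem L03906 : Good (Phi V5.P V5.D (-1) (-1)) ⟨4, 15, 3, 5, 2, 1, 2, 3, 3, 1⟩ :=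
  out_sound (S := T5.ds_mm) T5.ok_mm (w := 51) (j := 3) (by decide +kernel)
theorem L03907 : Good (Phi V5.P V5.D (-1) (-1)) ⟨2, 2, 2, 3, 2, 1, 2, 3, 2, 0⟩ :=
  out_sound (S := T5.ds_mm) T5.ok_mm (w := 37) (j := 3) (by decide +kernel)
theorem L03908 : Good (Phi V5.P V5.D (-1) (-1)) ⟨3, 6, 2, 3, 2, 1, 2, 3, 2, 0⟩ :=
  out_sound (S := T5.ds_mm) T5.ok_mm (w := 43) (j := 3) (by decide +kernel)
theorem L03909 : Good (Phi V5.P V5.D (-1) (-1)) ⟨5, 28, 3, 6, 2, 1, 2, 3, 2, 0⟩ :=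
  out_sound (S := T5.ds_mm) T5.ok_mm (w := 57) (j := 3) (by decide +kernel)
theorem L03910 : Good (Phi V5.P V5.D (-1) (-1)) ⟨5, 29, 3, 6, 2, 1, 2, 3, 2, 0⟩ :=
  out_sound (S := T5.ds_mm) T5.ok_mm (w := 17) (j := 4) (by decide +kernel)
theorem L03911 : Good (Phi V5.P V5.D (-1) (-1)) ⟨4, 14, 3, 7, 2, 1, 2, 3, 2, 0⟩ :=
  out_sound (S := T5.ds_mm) T5.ok_mm (w := 51) (j := 3) (by decide +kernel)
theorem L03912 : Good (Phi V5.P V5.D (-1) (-1)) ⟨4, 15, 2, 3, 2, 1, 2, 3, 2, 0⟩ :=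
  out_sound (S := T5.ds_mm) T5.ok_mm (w := 15) (j := 4) (by decide +kernel)
theorem L03913 : Good (Phi V5.P V5.D (-1) (-1)) ⟨2, 2, 2, 2, 1, 0, 1, 1, 2, 1⟩ :=
  out_sound (S := T5.ds_mm) T5.ok_mm (w := 37) (j := 3) (by decide +kernel)
theorem L03914 : Good (Phi V5.P V5.D (-1) (-1)) ⟨4, 12, 2, 2, 1, 0, 2, 2, 3, 2⟩ :=
  out_sound (S := T5.ds_mm) T5.ok_mm (w := 49) (j := 3) (by decide +kernel)
theorem L03915 : Good (Phi V5.P V5.D (-1) (-1)) ⟨4, 13, 3, 4, 2, 0, 2, 2, 4, 4⟩ :=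
  leafX_sound T5.ok_mm T5.Ymm.bz_eq (w := 211) (c := ⟨⟨.negSucc 2569, .negSucc 244, .ofNat 9, .negSucc 63, .ofNat 272, .ofNat 283⟩, ⟨.ofNat 1376, .ofNat 241, .ofNat 158, .ofNat 37, .negSucc 156, .negSucc 164⟩, ⟨.ofNat 2655, .ofNat 143, .ofNat 58, .negSucc 100, .negSucc 513, .negSucc 206⟩, ⟨.negSucc 3951, .negSucc 98, .ofNat 23, .negSucc 138, .ofNat 417, .ofNat 410⟩, ⟨.ofNat 1, .negSucc 8, .ofNat 12, .negSucc 80, .ofNat 25, .negSucc 5⟩, .ofNat 378, .ofNat 285, .ofNat 0, .ofNat 285, .ofNat 704, .ofNat 0, .ofNat 150, .negSucc 127, .negSucc 104, .ofNat 0, .ofNat 126, .ofNat 52, .ofNat 0, .ofNat 0, .ofNat 415, .ofNat 3434, .ofNat 0, .ofNat 0, .ofNat 0, .ofNat 0, .ofNat 0, .ofNat 0, .ofNat 3991921995062858969429462517169520640, .ofNat 0, .ofNat 0, .ofNat 0, .ofNat 10105213561378222003191698016624967680, .ofNat 0, .ofNat 0, .ofNat 0, .ofNat 11146013859014318715033923002117914624,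 .ofNat 0⟩)
    (by decide +kernel)
theorem L03916 : Good (Phi V5.P V5.D (-1) (-1)) ⟨4, 13, 3, 4, 2, 0, 2, 2, 5, 10⟩ :=
  leafX_sound T5.ok_mm T5.Ymm.bz_eq (w := 217) (c := ⟨⟨.negSucc 2350, .negSucc 201, .negSucc 0, .ofNat 27, .ofNat 256, .ofNat 121⟩, ⟨.ofNat 1256, .ofNat 212, .ofNat 152, .negSucc 17, .negSucc 149, .negSucc 70⟩, ⟨.ofNat 2442, .ofNat 198, .negSucc 12, .negSucc 122, .negSucc 546, .negSucc 108⟩, ⟨.negSucc 3622, .negSucc 43, .ofNat 5, .negSucc 19, .ofNat 380, .ofNat 177⟩, ⟨.negSucc 7, .ofNat 4, .ofNat 6, .negSucc 100, .ofNat 13, .ofNat 3⟩, .ofNat 1101, .ofNat 1391, .ofNat 0, .ofNat 1391, .ofNat 2565, .ofNat 0, .ofNat 128, .negSucc 292, .negSucc 122, .ofNat 0, .ofNat 208, .ofNat 70, .ofNat 0, .ofNat 0, .ofNat 676, .ofNat 8936, .ofNat 0, .ofNat 0, .ofNat 0, .ofNat 0, .ofNat 0, .ofNat 0, .ofNat 0, .ofNat 0, .ofNat 0, .ofNat 0, .ofNat 1815557432436777779003340693924852269056,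 .ofNat 0, .ofNat 0, .ofNat 0, .ofNat 0, .ofNat 0⟩)
    (by decide +kernel)
theorem L03917 : Good (Phi V5.P V5.D (-1) (-1)) ⟨4, 13, 3, 4, 2, 0, 2, 2, 5, 11⟩ :=
  leafX_sound T5.ok_mm T5.Ymm.bz_eq (w := 217) (c := ⟨⟨.negSucc 2242, .negSucc 224, .ofNat 18, .ofNat 70, .ofNat 219, .ofNat 108⟩, ⟨.ofNat 1202, .ofNat 213, .ofNat 141, .negSucc 43, .negSucc 127, .negSucc 63⟩, ⟨.ofNat 2382, .ofNat 141, .ofNat 19, .negSucc 139, .negSucc 555, .negSucc 68⟩, ⟨.negSucc 3458, .negSucc 93, .ofNat 31, .ofNat 45, .ofNat 338, .ofNat 157⟩, ⟨.negSucc 7, .negSucc 6, .ofNat 8, .negSucc 98, .ofNat 29, .negSucc 2⟩, .ofNat 367, .ofNat 262, .ofNat 0, .ofNat 262, .ofNat 644, .ofNat 0, .ofNat 197, .negSucc 121, .negSucc 77, .ofNat 0, .ofNat 128, .ofNat 38, .ofNat 0, .ofNat 0, .ofNat 447, .ofNat 8483, .ofNat 60714554630313903902216196038073614346485760, .ofNat 0, .ofNat 0, .ofNat 0, .ofNat 0, .ofNat 0,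 .ofNat 766392228883821913878300016240492544000, .ofNat 0, .ofNat 0, .ofNat 0, .ofNat 449506873795308755068191383216770252800, .ofNat 0, .ofNat 0, .ofNat 0, .ofNat 146413182801423612120161945688494571520, .ofNat 0⟩)
    (by decide +kernel)
theorem L03918 : Good (Phi V5.P V5.D (-1) (-1)) ⟨4, 13, 3, 4, 2, 1, 2, 2, 4, 4⟩ :=
  leafX_sound T5.ok_mm T5.Ymm.bz_eq (w := 211) (c := ⟨⟨.negSucc 2712, .negSucc 247, .ofNat 30, .ofNat 85, .ofNat 425, .ofNat 378⟩, ⟨.ofNat 1443, .ofNat 267, .ofNat 140, .negSucc 54, .negSucc 248, .negSucc 223⟩, ⟨.ofNat 2557, .ofNat 378, .negSucc 179, .negSucc 736, .negSucc 712, .negSucc 306⟩, ⟨.negSucc 4223, .negSucc 69, .ofNat 18, .negSucc 23, .ofNat 691, .ofNat 545⟩, ⟨.negSucc 78, .negSucc 15, .negSucc 6, .negSucc 249, .ofNat 121, .negSucc 11⟩, .ofNat 751, .ofNat 833, .ofNat 0, .ofNat 833, .ofNat 1637, .ofNat 0, .ofNat 128, .negSucc 193, .negSucc 203, .ofNat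 0, .ofNat 144, .ofNat 116, .ofNat 0, .ofNat 0, .ofNat 831, .ofNat 2631, .ofNat 0, .ofNat 0, .ofNat 0, .ofNat 0, .ofNat 0, .ofNat 0, .ofNat 0, .ofNat 0, .ofNat 0, .ofNat 0, .ofNat 23327171263394443189485478339604905984, .ofNat 0, .ofNat 0, .ofNat 0, .ofNat 0, .ofNat 0⟩)
    (by decide +kernel)
theorem L03919 : Good (Phi V5.P V5.D (-1) (-1)) ⟨4, 13, 3, 4, 3, 2, 2, 2, 4, 5⟩ :=
  leafX_sound T5.ok_mm T5.Ymm.bz_eq (w := 226) (c := ⟨⟨.negSucc 2375, .negSucc 169, .ofNat 0, .ofNat 69, .ofNat 331, .ofNat 276⟩, ⟨.ofNat 1280, .ofNat 175, .ofNat 156, .negSucc 42, .negSucc 190, .negSucc 162⟩, ⟨.ofNat 2338, .ofNat 172, .negSucc 19, .negSucc 330, .negSucc 654, .negSucc 194⟩, ⟨.negSucc 3715, .negSucc 12, .negSucc 0, .ofNat 52, .ofNat 556, .ofNat 401⟩, ⟨.negSucc 126, .ofNat 5, .ofNat 2, .negSucc 79, .ofNat 122, .ofNat 0⟩, .ofNat 755, .ofNat 837, .ofNat 0, .ofNat 837, .ofNat 1636, .ofNat 0,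 .ofNat 128, .negSucc 240, .negSucc 111, .ofNat 0, .ofNat 183, .ofNat 63, .ofNat 0, .ofNat 0, .ofNat 679, .ofNat 7510, .ofNat 26085218493149337608852165357644158147089137664, .ofNat 0, .ofNat 17805595353957397881685098049034229121024, .ofNat 0, .ofNat 0, .ofNat 0, .ofNat 355573402336897504628057765906484339671040, .ofNat 0, .ofNat 0, .ofNat 0, .ofNat 0, .ofNat 0, .ofNat 0, .ofNat 0, .ofNat 26093086173231160335028099330396481650688, .ofNat 0⟩)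
    (by decide +kernel)
theorem L03920 : Good (Phi V5.P V5.D (-1) (-1)) ⟨4, 13, 3, 4, 3, 3, 2, 2, 4, 5⟩ :=
  leafX_sound T5.ok_mm T5.Ymm.bz_eq (w := 225) (c := ⟨⟨.negSucc 2340, .negSucc 158, .ofNat 13, .ofNat 120, .ofNat 352, .ofNat 303⟩, ⟨.ofNat 1261, .ofNat 161, .ofNat 147, .negSucc 73, .negSucc 196, .negSucc 176⟩, ⟨.ofNat 2109, .ofNat 140, .negSucc 88, .negSucc 611, .negSucc 764, .negSucc 261⟩, ⟨.negSucc 3720, .negSucc 23, .ofNat 18, .ofNat 115, .ofNat 677, .ofNat 466⟩, ⟨.negSucc 244, .negSucc 10, .ofNat 5, .negSucc 101, .ofNat 279, .ofNat 41⟩, .ofNat 750, .ofNat 831, .ofNat 0, .ofNat 831, .ofNat 1633, .ofNat 0, .ofNat 128, .negSucc 338, .negSucc 117, .ofNat 0, .ofNat 254, .ofNat 65, .ofNat 0, .ofNat 0, .ofNat 910, .ofNat 3047, .ofNat 0, .ofNat 0, .ofNat 0, .ofNat 0, .ofNat 0, .ofNat 0, .ofNat 0, .ofNat 0, .ofNat 0, .ofNat 0, .ofNat 0, .ofNat 0, .ofNat 0, .ofNat 0, .ofNat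 532222175395258833540161537184962954919936, .ofNat 0⟩)
    (by decide +kernel)
theorem L03921 : Good (Phi V5.P V5.D (-1) (-1)) ⟨4, 13, 3, 5, 1, 0, 2, 2, 3, 2⟩ :=
  out_sound (S := T5.ds_mm) T5.ok_mm (w := 51) (j := 3) (by decide +kernel)
theorem L03922 : Good (Phi V5.P V5.D (-1) (-1)) ⟨5, 28, 2, 2, 2, 0, 2, 2, 4, 4⟩ :=
  leafX_sound T5.ok_mm T5.Ymm.bz_eq (w := 212) (c := ⟨⟨.negSucc 3057, .negSucc 388, .ofNat 586, .negSucc 52, .ofNat 282, .ofNat 298⟩, ⟨.ofNat 1806, .ofNat 327, .negSucc 97, .ofNat 33, .negSucc 181, .negSucc 193⟩, ⟨.ofNat 2869, .ofNat 123, .negSucc 19, .negSucc 100, .negSucc 532, .negSucc 236⟩, ⟨.negSucc 4194, .negSucc 194, .ofNat 380, .negSucc 122, .ofNat 410, .ofNat 415⟩, ⟨.ofNat 50, .ofNat 81, .negSucc 133, .negSucc 72, .ofNat 20, .negSucc 7⟩, .ofNat 883, .ofNat 997, .ofNat 0, .ofNat 997, .ofNat 1759, .ofNat 0, .ofNat 128, .negSucc 444, .negSucc 239, .ofNat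 0, .ofNat 345, .ofNat 147, .ofNat 0, .ofNat 0, .ofNat 969, .ofNat 3462, .ofNat 0, .ofNat 0, .ofNat 54617993169135398245444573024223232, .ofNat 0, .ofNat 0, .ofNat 0, .ofNat 4859736412579785261290771726209122304, .ofNat 0, .ofNat 0, .ofNat 0, .ofNat 19829403855197939397392133131237064704, .ofNat 913207223023930211023006807678286699926913024, .ofNat 0, .ofNat 0, .ofNat 0, .ofNat 0⟩)
    (by decide +kernel)
theorem L03923 : Good (Phi V5.P V5.D (-1) (-1)) ⟨5, 28, 2, 2, 2, 1, 2, 2, 4, 4⟩ :=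
  leafX_sound T5.ok_mm T5.Ymm.bz_eq (w := 213) (c := ⟨⟨.negSucc 3084, .negSucc 180, .ofNat 167, .ofNat 148, .ofNat 478, .ofNat 445⟩, ⟨.ofNat 1841, .ofNat 208, .ofNat 134, .negSucc 98, .negSucc 308, .negSucc 290⟩, ⟨.ofNat 2948, .ofNat 81, .negSucc 63, .negSucc 892, .negSucc 734, .negSucc 372⟩, ⟨.negSucc 4390, .negSucc 35, .ofNat 61, .ofNat 31, .ofNat 739, .ofNat 615⟩, ⟨.negSucc 75, .ofNat 43, .negSucc 32, .negSucc 274, .ofNat 101, .negSucc 14⟩, .ofNat 2305, .ofNat 3148, .ofNat 0, .ofNat 3148, .ofNat 5064, .ofNat 0, .ofNat 128, .negSucc 714, .negSucc 526, .ofNat 0, .ofNat 493, .ofNat 338, .ofNat 0, .ofNat 0, .ofNat 2023, .ofNat 1596, .ofNat 0, .ofNat 0, .ofNat 35906913144266228657710397241950208, .ofNat 0, .ofNat 0, .ofNat 0, .ofNat 25864379990299243222560227775406407680, .ofNat 0, .ofNat 0, .ofNat 0, .ofNat 0, .ofNat 0, .ofNat 0, .ofNat 0, .ofNat 0, .ofNat 0⟩)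
    (by decide +kernel)
theorem L03924 : Good (Phi V5.P V5.D (-1) (-1)) ⟨5, 28, 4, 8, 1, 0, 2, 2, 4, 5⟩ :=
  out_sound (S := T5.ds_mm) T5.ok_mm (w := 59) (j := 3) (by decide +kernel)
theorem L03925 : Good (Phi V5.P V5.D (-1) (-1)) ⟨6, 56, 4, 9, 1, 0, 2, 2, 5, 10⟩ :=
  leafX_sound T5.ok_mm T5.Ymm.bz_eq (w := 217) (c := ⟨⟨.negSucc 2598, .negSucc 158, .ofNat 84, .ofNat 139, .ofNat 267, .ofNat 106⟩, ⟨.ofNat 1578, .ofNat 125, .ofNat 23, .negSucc 91, .negSucc 167, .negSucc 66⟩, ⟨.ofNat 2749, .ofNat 325, .negSucc 179, .negSucc 697, .negSucc 622, .negSucc 66⟩, ⟨.negSucc 3677, .negSucc 115, .ofNat 59, .ofNat 38, .ofNat 376, .ofNat 140⟩, ⟨.ofNat 57, .ofNat 53, .negSucc 72, .negSucc 251, .negSucc 4, .negSucc 15⟩, .ofNat 3958, .ofNat 5763, .ofNat 0, .ofNat 5763, .ofNat 9231, .ofNat 0, .ofNat 128, .negSucc 1340, .negSucc 960, .ofNat 0, .ofNat 899, .ofNat 608, .ofNat 0, .ofNat 0, .ofNat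 5294, .ofNat 6866, .ofNat 0, .ofNat 0, .ofNat 2668574122009188735776664288493568, .ofNat 0, .ofNat 0, .ofNat 0, .ofNat 583912830000033953041318487231823872, .ofNat 0, .ofNat 0, .ofNat 0, .ofNat 1372196443810190985487984906295312384, .ofNat 0, .ofNat 0, .ofNat 0, .ofNat 0, .ofNat 0⟩)
    (by decide +kernel)
theorem L03926 : Good (Phi V5.P V5.D (-1) (-1)) ⟨6, 56, 4, 9, 2, 0, 2, 2, 5, 11⟩ :=
  leafX_sound T5.ok_mm T5.Ymm.bz_eq (w := 230) (c := ⟨⟨.negSucc 2440, .negSucc 28, .negSucc 26, .ofNat 73, .ofNat 235, .ofNat 111⟩, ⟨.ofNat 1482, .ofNat 42, .ofNat 89, .negSucc 46, .negSucc 147, .negSucc 69⟩, ⟨.ofNat 2570, .ofNat 135, .negSucc 59, .negSucc 140, .negSucc 550, .negSucc 75⟩, ⟨.negSucc 3504, .ofNat 16, .negSucc 33, .ofNat 43, .ofNat 343, .ofNat 159⟩, ⟨.negSucc 11, .negSucc 0, .ofNat 7, .negSucc 95, .ofNat 14, .ofNat 1⟩, .ofNat 3212, .ofNat 4548, .ofNat 0, .ofNat 4548, .ofNat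 7261, .ofNat 0, .ofNat 128, .negSucc 874, .negSucc 315, .ofNat 0, .ofNat 617, .ofNat 199, .ofNat 0, .ofNat 0, .ofNat 1973, .ofNat 28642, .ofNat 430674693438354535338579789654941377761076314112, .ofNat 0, .ofNat 7546922048925323756073553295122104320, .ofNat 0, .ofNat 0, .ofNat 0, .ofNat 5420632370516266747074938281457107337216, .ofNat 0, .ofNat 0, .ofNat 0, .ofNat 13630052217709372416557918778434563080192, .ofNat 0, .ofNat 0, .ofNat 0, .ofNat 3536851166691541632649324723545361612800, .ofNat 0⟩)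
    (by decide +kernel)
theorem L03927 : Good (Phi V5.P V5.D (-1) (-1)) ⟨6, 56, 4, 9, 2, 1, 2, 2, 5, 11⟩ :=
  leafX_sound T5.ok_mm T5.Ymm.bz_eq (w := 228) (c := ⟨⟨.negSucc 2395, .negSucc 19, .negSucc 41, .ofNat 224, .ofNat 348, .ofNat 131⟩, ⟨.ofNat 1451, .ofNat 34, .ofNat 99, .negSucc 143, .negSucc 217, .negSucc 81⟩, ⟨.ofNat 2272, .negSucc 182, .ofNat 326, .negSucc 1029, .negSucc 777, .negSucc 94⟩, ⟨.negSucc 3469, .ofNat 89, .negSucc 133, .ofNat 220, .ofNat 614, .ofNat 181⟩, ⟨.negSucc 59, .ofNat 106, .negSucc 122, .negSucc 154, .ofNat 189, .negSucc 7⟩, .ofNat 774, .ofNat 830, .ofNat 0, .ofNat 830, .ofNat 1513, .ofNat 0, .ofNat 128, .negSucc 620, .negSucc 332, .ofNat 0, .ofNat 493, .ofNat 197, .ofNat 0, .ofNat 0, .ofNat 2452, .ofNat 6889, .ofNat 137279857186892732270032543009382909614881767424, .ofNat 0, .ofNat 18392834016632214984127472997356273664, .ofNat 0, .ofNat 0, .ofNat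 0, .ofNat 0, .ofNat 0, .ofNat 0, .ofNat 0, .ofNat 3179361501563778312074984984931247063040, .ofNat 0, .ofNat 0, .ofNat 0, .ofNat 0, .ofNat 0⟩)
    (by decide +kernel)
theorem L03928 : Good (Phi V5.P V5.D (-1) (-1)) ⟨6, 57, 4, 9, 1, 0, 2, 2, 4, 5⟩ :=
  out_sound (S := T5.ds_mm) T5.ok_mm (w := 65) (j := 3) (by decide +kernel)
theorem L03929 : Good (Phi V5.P V5.D (-1) (-1)) ⟨6, 56, 4, 10, 2, 0, 3, 4, 5, 10⟩ :=
  leafX_sound T5.ok_mm T5.Ymm.bz_eq (w := 235) (c := ⟨⟨.negSucc 2550, .negSucc 67, .ofNat 8, .ofNat 28, .ofNat 114, .ofNat 126⟩, ⟨.ofNat 1624, .ofNat 70, .ofNat 68, .negSucc 18, .negSucc 74, .negSucc 80⟩, ⟨.ofNat 2655, .ofNat 26, .ofNat 38, .negSucc 123, .negSucc 267, .negSucc 114⟩, ⟨.negSucc 3656, .negSucc 20, .ofNat 4, .negSucc 22, .ofNat 165, .ofNat 173⟩, ⟨.negSucc 6, .ofNat 18, .negSucc 11, .negSucc 96, .ofNat 4, .negSucc 6⟩, .ofNat 1442, .ofNat 1834, .ofNat 0, .ofNat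 1834, .ofNat 3040, .ofNat 0, .ofNat 128, .negSucc 605, .negSucc 295, .ofNat 0, .ofNat 438, .ofNat 187, .ofNat 0, .ofNat 0, .ofNat 1618, .ofNat 59148, .ofNat 0, .ofNat 0, .ofNat 0, .ofNat 0, .ofNat 0, .ofNat 0, .ofNat 0, .ofNat 0, .ofNat 0, .ofNat 0, .ofNat 104671934398550612420878322509488664346624, .ofNat 0, .ofNat 0, .ofNat 0, .ofNat 38072622484011298503947908339244612976640, .ofNat 0⟩)
    (by decide +kernel)
theorem L03930 : Good (Phi V5.P V5.D (-1) (-1)) ⟨6, 56, 4, 10, 2, 0, 3, 4, 5, 11⟩ :=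
  leafX_sound T5.ok_mm T5.Ymm.bz_eq (w := 236) (c := ⟨⟨.negSucc 2449, .negSucc 49, .negSucc 0, .ofNat 69, .ofNat 112, .ofNat 107⟩, ⟨.ofNat 1562, .ofNat 53, .ofNat 75, .negSucc 45, .negSucc 72, .negSucc 69⟩, ⟨.ofNat 2505, .ofNat 96, .negSucc 29, .negSucc 102, .negSucc 249, .negSucc 99⟩, ⟨.negSucc 3507, .negSucc 6, .ofNat 4, .ofNat 32, .ofNat 160, .ofNat 142⟩, ⟨.negSucc 1, .ofNat 8, .ofNat 6, .negSucc 100, .ofNat 1, .negSucc 14⟩, .ofNat 3507, .ofNat 5018, .ofNat 0, .ofNat 5018, .ofNat 7972, .ofNat 0, .ofNat 128, .negSucc 1154, .negSucc 578, .ofNat 0, .ofNat 775, .ofNat 372, .ofNat 0, .ofNat 0, .ofNat 3770, .ofNat 137265, .ofNat 17148807532804177058966685888516785408225329545216, .ofNat 0, .ofNat 708841481982306233462495184610782085120, .ofNat 0, .ofNat 0, .ofNat 0, .ofNat 322332350997620734118404377545606105661440, .ofNat 0, .ofNat 0, .ofNat 0, .ofNat 348770838329119031885499892817492772388864,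 .ofNat 0, .ofNat 0, .ofNat 0, .ofNat 0, .ofNat 0⟩)
    (by decide +kernel)
theorem L03931 : Good (Phi V5.P V5.D (-1) (-1)) ⟨6, 56, 4, 10, 2, 1, 3, 4, 4, 5⟩ :=
  leafX_sound T5.ok_mm T5.Ymm.bz_eq (w := 233) (c := ⟨⟨.negSucc 2582, .negSucc 31, .negSucc 15, .ofNat 219, .ofNat 157, .ofNat 300⟩, ⟨.ofNat 1649, .ofNat 38, .ofNat 89, .negSucc 143, .negSucc 100, .negSucc 194⟩, ⟨.ofNat 2531, .ofNat 69, .negSucc 23, .negSucc 992, .negSucc 310, .negSucc 196⟩, ⟨.negSucc 3711, .negSucc 9, .negSucc 14, .ofNat 193, .ofNat 180, .ofNat 351⟩, ⟨.negSucc 39, .negSucc 14, .negSucc 7, .negSucc 176, .negSucc 60, .negSucc 109⟩, .ofNat 9793, .ofNat 14545, .ofNat 0, .ofNat 14545, .ofNat 22426, .ofNat 0, .ofNat 128, .negSucc 1415, .negSucc 1065, .ofNat 0, .ofNat 944, .ofNat 695, .ofNat 0, .ofNat 0, .ofNat 6776, .ofNat 34244, .ofNat 538348513294755727736318836307316897395257638912, .ofNat 0, .ofNat 9382242550611619288237937083008679936,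 .ofNat 0, .ofNat 0, .ofNat 0, .ofNat 47888381678378525181211278297926662619136, .ofNat 0, .ofNat 0, .ofNat 0, .ofNat 0, .ofNat 0, .ofNat 0, .ofNat 0, .ofNat 0, .ofNat 0⟩)
    (by decide +kernel)
theorem L03932 : Good (Phi V5.P V5.D (-1) (-1)) ⟨7, 114, 4, 10, 2, 0, 3, 4, 5, 10⟩ :=
  leafX_sound T5.ok_mm T5.Ymm.bz_eq (w := 237) (c := ⟨⟨.negSucc 2546, .ofNat 36, .negSucc 132, .ofNat 28, .ofNat 125, .ofNat 125⟩, ⟨.ofNat 1658, .negSucc 1, .ofNat 143, .negSucc 18, .negSucc 82, .negSucc 82⟩, ⟨.ofNat 2734, .ofNat 70, .negSucc 92, .negSucc 119, .negSucc 259, .negSucc 98⟩, ⟨.negSucc 3659, .ofNat 11, .negSucc 32, .negSucc 24, .ofNat 180, .ofNat 173⟩, ⟨.negSucc 8, .negSucc 5, .ofNat 17, .negSucc 94, .ofNat 7, .negSucc 3⟩, .ofNat 895, .ofNat 996, .ofNat 0, .ofNat 996, .ofNat 1710, .ofNat 0, .ofNat 128, .negSucc 388, .negSucc 324, .ofNat 0, .ofNat 308, .ofNat 205, .ofNat 0, .ofNat 0, .ofNat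 1728, .ofNat 21734, .ofNat 0, .ofNat 0, .ofNat 0, .ofNat 0, .ofNat 0, .ofNat 0, .ofNat 27446979394211319840963400516332523880448, .ofNat 0, .ofNat 0, .ofNat 0, .ofNat 45718666796550952046833941183680672169984, .ofNat 1363723198521394381460606798186388490163505550327808, .ofNat 0, .ofNat 0, .ofNat 0, .ofNat 0⟩)
    (by decide +kernel)
theorem L03933 : Good (Phi V5.P V5.D (-1) (-1)) ⟨7, 114, 4, 10, 2, 0, 3, 4, 5, 11⟩ :=
  leafX_sound T5.ok_mm T5.Ymm.bz_eq (w := 239) (c := ⟨⟨.negSucc 2486, .negSucc 1, .negSucc 44, .ofNat 83, .ofNat 114, .ofNat 108⟩, ⟨.ofNat 1614, .ofNat 16, .ofNat 94, .negSucc 54, .negSucc 75, .negSucc 71⟩, ⟨.ofNat 2588, .ofNat 35, .ofNat 11, .negSucc 142, .negSucc 253, .negSucc 83⟩, ⟨.negSucc 3525, .ofNat 5, .negSucc 14, .ofNat 51, .ofNat 166, .ofNat 149⟩, ⟨.negSucc 7, .negSucc 1, .ofNat 7, .negSucc 97, .ofNat 9, .negSucc 4⟩, .ofNat 935, .ofNat 1062, .ofNat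 0, .ofNat 1062, .ofNat 1819, .ofNat 0, .ofNat 128, .negSucc 416, .negSucc 303, .ofNat 0, .ofNat 324, .ofNat 191, .ofNat 0, .ofNat 0, .ofNat 1931, .ofNat 52371, .ofNat 105521008642560802410459197165338060033013355380736, .ofNat 0, .ofNat 44370163818034544878874470010406830080, .ofNat 18799977742122718967183632311506814624671599689728, .ofNat 0, .ofNat 0, .ofNat 9457936910274675467647833472623964061696, .ofNat 0, .ofNat 0, .ofNat 0, .ofNat 30062303278626953984436242255208131854336, .ofNat 2353735677004787437505443017799834653727417664798720, .ofNat 0, .ofNat 0, .ofNat 0, .ofNat 0⟩)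
    (by decide +kernel)
theorem L03934 : Good (Phi V5.P V5.D (-1) (-1)) ⟨7, 114, 4, 10, 2, 1, 3, 4, 4, 5⟩ :=
  leafX_sound T5.ok_mm T5.Ymm.bz_eq (w := 231) (c := ⟨⟨.negSucc 2638, .negSucc 20, .negSucc 4, .ofNat 238, .ofNat 172, .ofNat 314⟩, ⟨.ofNat 1705, .ofNat 20, .ofNat 87, .negSucc 158, .negSucc 114, .negSucc 209⟩, ⟨.ofNat 2687, .ofNat 3, .negSucc 24, .negSucc 1083, .negSucc 343, .negSucc 272⟩, ⟨.negSucc 3796, .ofNat 9, .negSucc 16, .ofNat 189, .ofNat 296, .ofNat 461⟩, ⟨.negSucc 129, .ofNat 22, .negSucc 24, .negSucc 211, .ofNat 83, .ofNat 32⟩, .ofNat 395, .ofNat 304, .ofNat 0, .ofNat 304, .ofNat 647, .ofNat 0, .ofNat 128, .negSucc 252, .negSucc 223, .ofNat 0, .ofNat 245, .ofNat 128, .ofNat 0, .ofNat 0, .ofNat 1349, .ofNat 9005, .ofNat 2317881756152451763776832939333524972076319899648, .ofNat 0, .ofNat 262189677392368394070161980326412288, .ofNat 71760869466917441777902770549421612641665679360,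 .ofNat 0, .ofNat 0, .ofNat 0, .ofNat 0, .ofNat 0, .ofNat 0, .ofNat 91616534292780935078646016623339634688, .ofNat 0, .ofNat 0, .ofNat 0, .ofNat 0, .ofNat 0⟩)
    (by decide +kernel)
theorem L03935 : Good (Phi V5.P V5.D (-1) (-1)) ⟨7, 115, 4, 10, 1, 0, 3, 4, 4, 5⟩ :=
  out_sound (S := T5.ds_mm) T5.ok_mm (w := 21) (j := 4) (by decide +kernel)
theorem L03936 : Good (Phi V5.P V5.D (-1) (-1)) ⟨5, 28, 4, 10, 2, 0, 3, 5, 4, 5⟩ :=
  leafX_sound T5.ok_mm T5.Ymm.bz_eq (w := 227) (c := ⟨⟨.negSucc 2457, .negSucc 129, .ofNat 6, .ofNat 146, .ofNat 123, .ofNat 194⟩, ⟨.ofNat 1568, .ofNat 128, .ofNat 67, .negSucc 95, .negSucc 79, .negSucc 126⟩, ⟨.ofNat 2417, .negSucc 50, .ofNat 119, .negSucc 201, .negSucc 270, .negSucc 194⟩, ⟨.negSucc 3500, .negSucc 17, .negSucc 13, .ofNat 153, .ofNat 163, .ofNat 231⟩, ⟨.ofNat 38, .ofNat 6, .ofNat 0, .negSucc 78, .negSucc 14, .negSucc 60⟩, .ofNat 5761, .ofNat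 8357, .ofNat 0, .ofNat 8357, .ofNat 12922, .ofNat 0, .ofNat 128, .negSucc 1174, .negSucc 621, .ofNat 0, .ofNat 795, .ofNat 406, .ofNat 0, .ofNat 0, .ofNat 3441, .ofNat 32246, .ofNat 0, .ofNat 0, .ofNat 0, .ofNat 0, .ofNat 0, .ofNat 0, .ofNat 36048614645983223866949734699837421518848, .ofNat 253608174791903968700373197654927925726205181952, .ofNat 0, .ofNat 0, .ofNat 20884952010895607825988855057229876822016, .ofNat 6423701246920387758336880837098000174030373519360, .ofNat 0, .ofNat 0, .ofNat 0, .ofNat 0⟩)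
    (by decide +kernel)
theorem L03937 : Good (Phi V5.P V5.D (-1) (-1)) ⟨5, 28, 4, 10, 2, 1, 3, 5, 4, 5⟩ :=
  leafX_sound T5.ok_mm T5.Ymm.bz_eq (w := 223) (c := ⟨⟨.negSucc 2318, .negSucc 447, .ofNat 223, .ofNat 226, .ofNat 193, .ofNat 256⟩, ⟨.ofNat 1466, .ofNat 386, .negSucc 109, .negSucc 147, .negSucc 123, .negSucc 165⟩, ⟨.ofNat 2406, .negSucc 352, .ofNat 315, .negSucc 1217, .negSucc 448, .negSucc 289⟩, ⟨.negSucc 3474, .negSucc 201, .ofNat 91, .ofNat 305, .ofNat 401, .ofNat 402⟩, ⟨.negSucc 195, .ofNat 254, .negSucc 206, .negSucc 16, .ofNat 200, .ofNat 64⟩, .ofNat 908, .ofNat 1029, .ofNat 0, .ofNat 1029, .ofNat 1789, .ofNat 0, .ofNat 128, .negSucc 1384, .negSucc 572, .ofNat 0, .ofNat 1056, .ofNat 345, .ofNat 0, .ofNat 0, .ofNat 4184, .ofNat 5353, .ofNat 0, .ofNat 0, .ofNat 0, .ofNat 0, .ofNat 0, .ofNat 0, .ofNat 1172357115422456335737916527341310312448, .ofNat 0, .ofNat 0,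 .ofNat 0, .ofNat 17012861465227931117147134024787993559040, .ofNat 0, .ofNat 0, .ofNat 0, .ofNat 0, .ofNat 0⟩)
    (by decide +kernel)
theorem L03938 : Good (Phi V5.P V5.D (-1) (-1)) ⟨6, 56, 4, 11, 1, 0, 2, 2, 4, 5⟩ :=
  out_sound (S := T5.ds_mm) T5.ok_mm (w := 65) (j := 3) (by decide +kernel)
theorem L03939 : Good (Phi V5.P V5.D (-1) (-1)) ⟨7, 114, 5, 22, 1, 0, 2, 2, 4, 5⟩ :=
  out_sound (S := T5.ds_mm) T5.ok_mm (w := 73) (j := 3) (by decide +kernel)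
theorem L03940 : Good (Phi V5.P V5.D (-1) (-1)) ⟨7, 115, 5, 22, 1, 0, 2, 2, 4, 5⟩ :=
  out_sound (S := T5.ds_mm) T5.ok_mm (w := 21) (j := 4) (by decide +kernel)
theorem L03941 : Good (Phi V5.P V5.D (-1) (-1)) ⟨6, 57, 5, 23, 1, 0, 2, 2, 4, 5⟩ :=
  out_sound (S := T5.ds_mm) T5.ok_mm (w := 67) (j := 3) (by decide +kernel)
theorem L03942 : Good (Phi V5.P V5.D (-1) (-1)) ⟨5, 29, 2, 2, 1, 0, 2, 2, 3, 2⟩ :=
  out_sound (S := T5.ds_mm) T5.ok_mm (w := 17) (j := 4) (by decide +kernel)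
theorem L03943 : Good (Phi V5.P V5.D (-1) (-1)) ⟨4, 15, 2, 2, 1, 0, 2, 2, 3, 2⟩ :=
  out_sound (S := T5.ds_mm) T5.ok_mm (w := 49) (j := 3) (by decide +kernel)
theorem L03944 : Good (Phi V5.P V5.D (-1) (-1)) ⟨3, 6, 2, 2, 1, 0, 2, 3, 3, 2⟩ :=
  leafX_sound T5.ok_mm T5.Ymm.bz_eq (w := 183) (c := ⟨⟨.negSucc 2371, .negSucc 81, .negSucc 242, .ofNat 499, .ofNat 396, .ofNat 298⟩, ⟨.ofNat 1166, .ofNat 265, .ofNat 363, .negSucc 292, .negSucc 229, .negSucc 175⟩, ⟨.ofNat 2426, .ofNat 48, .negSucc 76, .negSucc 1336, .negSucc 778, .negSucc 396⟩, ⟨.negSucc 3952, .ofNat 439, .negSucc 507, .ofNat 785, .ofNat 649, .ofNat 453⟩, ⟨.negSucc 287, .ofNat 340, .negSucc 362, .ofNat 108, .ofNat 110, .ofNat 36⟩, .ofNat 1100, .ofNat 1393, .ofNat 0, .ofNat 1393, .ofNat 2577, .ofNat 0, .ofNat 128, .negSucc 437, .negSucc 213, .ofNat 0, .ofNat 308, .ofNat 119, .ofNat 0, .ofNat 0, .ofNat 942, .ofNat 329,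 .ofNat 0, .ofNat 0, .ofNat 945674343792608555078231523328, .ofNat 0, .ofNat 0, .ofNat 141153966443471175239405019072561152, .ofNat 30613422239940917368284258500608, .ofNat 0, .ofNat 0, .ofNat 588643188739854103353073636749606912, .ofNat 37735577264273558306766020673536, .ofNat 0, .ofNat 0, .ofNat 586126815193482376027648699544895488, .ofNat 55333020081660169744919639883776, .ofNat 0⟩)
    (by decide +kernel)
theorem L03945 : Good (Phi V5.P V5.D (-1) (-1)) ⟨5, 28, 2, 2, 1, 0, 2, 3, 3, 2⟩ :=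
  leafX_sound T5.ok_mm T5.Ymm.bz_eq (w := 191) (c := ⟨⟨.negSucc 2558, .negSucc 32, .negSucc 164, .ofNat 525, .ofNat 404, .ofNat 426⟩, ⟨.ofNat 1529, .ofNat 89, .ofNat 305, .negSucc 338, .negSucc 259, .negSucc 276⟩, ⟨.ofNat 2767, .ofNat 256, .negSucc 320, .negSucc 1419, .negSucc 803, .negSucc 593⟩, ⟨.negSucc 3755, .negSucc 28, .negSucc 108, .ofNat 820, .ofNat 687, .ofNat 636⟩, ⟨.negSucc 97, .negSucc 77, .ofNat 48, .ofNat 136, .ofNat 174, .ofNat 56⟩, .ofNat 820, .ofNat 889, .ofNat 0, .ofNat 889, .ofNat 1567, .ofNat 0, .ofNat 128, .negSucc 356, .negSucc 219, .ofNat 0, .ofNat 285, .ofNat 132, .ofNat 0, .ofNat 0, .ofNat 816, .ofNat 332, .ofNat 0, .ofNat 0, .ofNat 40155201089125236342700113920, .ofNat 0, .ofNat 0, .ofNat 27180700797537938711457794535590985728, .ofNat 1005148067781906413906225528832, .ofNat 0, .ofNat 0, .ofNat 110547505151380615607679285628898377728, .ofNat 1251329657187980530101916794880,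 .ofNat 0, .ofNat 0, .ofNat 118447557290938079672005829777820745728, .ofNat 848446509300412522800686825472, .ofNat 104690294645686605829795790130748850176⟩)
    (by decide +kernel)
theorem L03946 : Good (Phi V5.P V5.D (-1) (-1)) ⟨5, 29, 2, 2, 1, 0, 2, 3, 3, 2⟩ :=
  out_sound (S := T5.ds_mm) T5.ok_mm (w := 17) (j := 4) (by decide +kernel)
theorem L03947 : Good (Phi V5.P V5.D (-1) (-1)) ⟨4, 15, 2, 2, 1, 0, 2, 3, 3, 2⟩ :=
  out_sound (S := T5.ds_mm) T5.ok_mm (w := 49) (j := 3) (by decide +kernel)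
theorem L03948 : Good (Phi V5.P V5.D (-1) (-1)) ⟨3, 6, 2, 2, 2, 0, 3, 4, 4, 6⟩ :=
  leafX_sound T5.ok_mm T5.Ymm.bz_eq (w := 212) (c := ⟨⟨.negSucc 2014, .negSucc 369, .ofNat 23, .ofNat 130, .ofNat 114, .ofNat 180⟩, ⟨.ofNat 987, .ofNat 384, .ofNat 260, .negSucc 78, .negSucc 66, .negSucc 102⟩, ⟨.ofNat 2145, .ofNat 337, .ofNat 25, .negSucc 156, .negSucc 292, .negSucc 167⟩, ⟨.negSucc 3346, .negSucc 85, .ofNat 31, .ofNat 135, .ofNat 173, .ofNat 267⟩, ⟨.negSucc 32, .ofNat 23, .negSucc 13, .negSucc 90, .ofNat 10, .ofNat 3⟩, .ofNat 752, .ofNat 831, .ofNat 0, .ofNat 831, .ofNat 1623, .ofNat 0, .ofNat 128, .negSucc 262, .negSucc 131, .ofNat 0, .ofNat 203, .ofNat 73, .ofNat 0, .ofNat 0, .ofNat 990, .ofNat 78331, .ofNat 10547411319835779644553422896539137426325504, .ofNat 0, .ofNat 100267461244380953941847126140690366464, .ofNat 0, .ofNat 7384326043851769748051430242855495820902400, .ofNat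 0, .ofNat 977316442379475113057028239550683545600, .ofNat 0, .ofNat 11699573120589942560370494814322999435460608, .ofNat 0, .ofNat 2924002065964672218575115661532018507776, .ofNat 0, .ofNat 5789897550347439627837518173351779923656704, .ofNat 0, .ofNat 1278704420475591450995700488554061758464, .ofNat 0⟩)
    (by decide +kernel)
theorem L03949 : Good (Phi V5.P V5.D (-1) (-1)) ⟨3, 6, 2, 2, 2, 0, 3, 5, 4, 6⟩ :=
  leafX_sound T5.ok_mm T5.Ymm.bz_eq (w := 210) (c := ⟨⟨.negSucc 1968, .negSucc 308, .negSucc 13, .ofNat 189, .ofNat 88, .ofNat 147⟩, ⟨.ofNat 958, .ofNat 352, .ofNat 262, .negSucc 110, .negSucc 49, .negSucc 85⟩, ⟨.ofNat 1922, .ofNat 302, .ofNat 53, .negSucc 225, .negSucc 277, .negSucc 187⟩, ⟨.negSucc 3277, .negSucc 9, .negSucc 24, .ofNat 248, .ofNat 143, .ofNat 223⟩, ⟨.negSucc 29, .negSucc 1, .ofNat 1, .negSucc 47, .ofNat 21, .ofNat 18⟩, .ofNat 743, .ofNat 822, .ofNat 0,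 .ofNat 822, .ofNat 1624, .ofNat 0, .ofNat 128, .negSucc 264, .negSucc 77, .ofNat 0, .ofNat 204, .ofNat 42, .ofNat 0, .ofNat 0, .ofNat 569, .ofNat 18908, .ofNat 2329998211924373269044806979511270214991872, .ofNat 0, .ofNat 29737073777007935035621655070533222400, .ofNat 0, .ofNat 0, .ofNat 0, .ofNat 489391817881080584195479320526336294912, .ofNat 0, .ofNat 0, .ofNat 0, .ofNat 1565580521903371985884760634316417925120, .ofNat 0, .ofNat 124209408775205122273702377241530318454784, .ofNat 0, .ofNat 369856461708929827945416516448433471488, .ofNat 0⟩)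
    (by decide +kernel)
theorem L03950 : Good (Phi V5.P V5.D (-1) (-1)) ⟨3, 6, 2, 2, 2, 0, 2, 2, 4, 7⟩ :=
  leafX_sound T5.ok_mm T5.Ymm.bz_eq (w := 209) (c := ⟨⟨.negSucc 2079, .negSucc 248, .negSucc 13, .ofNat 261, .ofNat 267, .ofNat 123⟩, ⟨.ofNat 1042, .ofNat 298, .ofNat 236, .negSucc 153, .negSucc 150, .negSucc 74⟩, ⟨.ofNat 2456, .ofNat 130, .ofNat 133, .negSucc 446, .negSucc 683, .negSucc 145⟩, ⟨.negSucc 3512, .ofNat 23, .negSucc 20, .ofNat 418, .ofNat 485, .ofNat 187⟩, ⟨.negSucc 243, .ofNat 6, .negSucc 7, .ofNat 63, .ofNat 167, .ofNat 14⟩, .ofNat 367, .ofNat 261, .ofNat 0, .ofNat 261, .ofNat 644, .ofNat 0, .ofNat 128, .negSucc 212, .negSucc 107, .ofNat 0, .ofNat 223, .ofNat 43, .ofNat 0, .ofNat 0, .ofNat 929, .ofNat 118887, .ofNat 4185120306991305400140933457306039282040832, .ofNat 0, .ofNat 0, .ofNat 0, .ofNat 2098969947958192784692249215814134480764928, .ofNat 0, .ofNat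 16876150574296852217707471283666550784, .ofNat 0, .ofNat 5276979704265766838121066969003863142563840, .ofNat 0, .ofNat 44346004452265175030391854111133794304, .ofNat 0, .ofNat 2291225506143712514542442076497642721902592, .ofNat 0, .ofNat 39993610306517226110316004063840305152, .ofNat 0⟩)
    (by decide +kernel)
theorem L03951 : Good (Phi V5.P V5.D (-1) (-1)) ⟨3, 7, 2, 2, 2, 0, 2, 2, 5, 12⟩ :=
  leafX_sound T5.ok_mm T5.Ymm.bz_eq (w := 211) (c := ⟨⟨.negSucc 2393, .negSucc 403, .ofNat 24, .ofNat 141, .ofNat 211, .ofNat 91⟩, ⟨.ofNat 1394, .ofNat 459, .ofNat 245, .negSucc 91, .negSucc 136, .negSucc 57⟩, ⟨.ofNat 2451, .ofNat 299, .ofNat 71, .negSucc 161, .negSucc 555, .negSucc 85⟩, ⟨.negSucc 3421, .negSucc 50, .negSucc 3, .ofNat 141, .ofNat 321, .ofNat 125⟩, ⟨.negSucc 14, .ofNat 23, .negSucc 10, .negSucc 89, .ofNat 36, .negSucc 6⟩, .ofNat 977, .ofNat 993, .ofNat 0, .ofNat 993,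 .ofNat 1518, .ofNat 0, .ofNat 128, .negSucc 225, .negSucc 104, .ofNat 0, .ofNat 212, .ofNat 71, .ofNat 0, .ofNat 0, .ofNat 721, .ofNat 14564, .ofNat 1706525699233171751908486601287733744762880, .ofNat 0, .ofNat 28366011447542015943417780409481560064, .ofNat 68485827083667967689592989923715103464620032, .ofNat 0, .ofNat 0, .ofNat 2419861461763668177331398017337247399936, .ofNat 0, .ofNat 0, .ofNat 0, .ofNat 752886245114672816366212184578042363904, .ofNat 1347192669727668296384952004064933904363028480, .ofNat 0, .ofNat 0, .ofNat 0, .ofNat 761922864590165045778826661578132873946333184⟩)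
    (by decide +kernel)
theorem L03952 : Good (Phi V5.P V5.D (-1) (-1)) ⟨3, 7, 2, 2, 2, 0, 2, 2, 5, 13⟩ :=
  leafX_sound T5.ok_mm T5.Ymm.bz_eq (w := 212) (c := ⟨⟨.negSucc 2275, .negSucc 73, .negSucc 163, .ofNat 247, .ofNat 214, .ofNat 61⟩, ⟨.ofNat 1325, .ofNat 203, .ofNat 357, .negSucc 159, .negSucc 136, .negSucc 40⟩, ⟨.ofNat 2385, .ofNat 129, .ofNat 162, .negSucc 222, .negSucc 584, .negSucc 76⟩, ⟨.negSucc 3352, .ofNat 9, .negSucc 78, .ofNat 317, .ofNat 342, .ofNat 87⟩, ⟨.negSucc 54, .negSucc 21, .negSucc 0, .negSucc 51, .ofNat 60, .ofNat 2⟩, .ofNat 647, .ofNat 578, .ofNat 0, .ofNat 578, .ofNat 962, .ofNat 0, .ofNat 128, .negSucc 190, .negSucc 91, .ofNat 0, .ofNat 190, .ofNat 59, .ofNat 0, .ofNat 0, .ofNat 730, .ofNat 20346, .ofNat 3564441967355723181020585581471013300862976, .ofNat 0, .ofNat 5509198299808870367782728557408550912, .ofNat 266762323582510882890313260713735931203420160,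 .ofNat 3028141569346429919373987064795637619884032, .ofNat 0, .ofNat 1801791637111077937505759134875505393664, .ofNat 418131687935677279823472150030933826656534528, .ofNat 2480566518671330930342609455987158815866880, .ofNat 0, .ofNat 2232952942050197891196109981245996269568, .ofNat 1759533297795096550224216106915842520516657152, .ofNat 1683892818960067247801804223269913451560960, .ofNat 0, .ofNat 1574157689706517484213781596184086839296, .ofNat 0⟩)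
    (by decide +kernel)
theorem L03953 : Good (Phi V5.P V5.D (-1) (-1)) ⟨3, 7, 2, 2, 2, 0, 2, 2, 4, 7⟩ :=
  leafX_sound T5.ok_mm T5.Ymm.bz_eq (w := 209) (c := ⟨⟨.negSucc 2328, .negSucc 142, .negSucc 73, .ofNat 285, .ofNat 271, .ofNat 128⟩, ⟨.ofNat 1371, .ofNat 238, .ofNat 278, .negSucc 185, .negSucc 172, .negSucc 83⟩, ⟨.ofNat 2586, .ofNat 75, .ofNat 158, .negSucc 482, .negSucc 661, .negSucc 146⟩, ⟨.negSucc 3502, .ofNat 29, .negSucc 21, .ofNat 439, .ofNat 481, .ofNat 196⟩, ⟨.negSucc 223, .negSucc 12, .ofNat 3, .ofNat 57, .ofNat 152, .ofNat 17⟩, .ofNat 388, .ofNat 294, .ofNat 0, .ofNat 294, .ofNat 645, .ofNat 0, .ofNat 128, .negSucc 248, .negSucc 123, .ofNat 0, .ofNat 253, .ofNat 56, .ofNat 0, .ofNat 0, .ofNat 1062, .ofNat 122994, .ofNat 5107044968931858489168612983059778105245696, .ofNat 0, .ofNat 29191282813693912761859005589005271040, .ofNat 0, .ofNat 2136691376462325739517272691981601854193664,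 .ofNat 0, .ofNat 24588148621454963862818545375368970240, .ofNat 2136194905881253815132144893010794021650432, .ofNat 2399480600686741422927790208345830712147968, .ofNat 0, .ofNat 37550650722922711516349794397141860352, .ofNat 145848982721725388344866027812096131595239424, .ofNat 5735804082952139178628434636018729560834048, .ofNat 0, .ofNat 4679453257509537524472419800013864960, .ofNat 0⟩)
    (by decide +kernel)
theorem L03954 : Good (Phi V5.P V5.D (-1) (-1)) ⟨3, 6, 2, 2, 3, 2, 2, 2, 5, 12⟩ :=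
  leafX_sound T5.ok_mm T5.Ymm.bz_eq (w := 225) (c := ⟨⟨.negSucc 2000, .negSucc 265, .negSucc 22, .ofNat 89, .ofNat 310, .ofNat 102⟩, ⟨.ofNat 1011, .ofNat 278, .ofNat 302, .negSucc 51, .negSucc 175, .negSucc 59⟩, ⟨.ofNat 2198, .ofNat 103, .ofNat 110, .negSucc 365, .negSucc 730, .negSucc 70⟩, ⟨.negSucc 3378, .ofNat 28, .negSucc 33, .ofNat 108, .ofNat 556, .ofNat 148⟩, ⟨.negSucc 165, .ofNat 10, .negSucc 2, .negSucc 37, .ofNat 175, .negSucc 0⟩, .ofNat 365, .ofNat 259, .ofNat 0, .ofNat 259, .ofNat 643, .ofNat 0, .ofNat 186, .negSucc 123, .negSucc 97, .ofNat 0, .ofNat 128, .ofNat 44, .ofNat 0, .ofNat 0, .ofNat 796, .ofNat 12536, .ofNat 6727400818591202715711735826937512990901010432, .ofNat 0, .ofNat 684455258374386429535541133084925615931392, .ofNat 0, .ofNat 0, .ofNat 0, .ofNat 0, .ofNat 0, .ofNat 0, .ofNat 0, .ofNat 18019900511005028516051316422704938409263104, .ofNat 0, .ofNat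 0, .ofNat 0, .ofNat 28558390631251093026258921172742395106689024, .ofNat 0⟩)
    (by decide +kernel)
theorem L03955 : Good (Phi V5.P V5.D (-1) (-1)) ⟨3, 6, 2, 2, 3, 2, 2, 2, 5, 13⟩ :=
  leafX_sound T5.ok_mm T5.Ymm.bz_eq (w := 226) (c := ⟨⟨.negSucc 1934, .negSucc 224, .negSucc 14, .ofNat 105, .ofNat 291, .ofNat 77⟩, ⟨.ofNat 947, .ofNat 289, .ofNat 241, .negSucc 58, .negSucc 159, .negSucc 44⟩, ⟨.ofNat 2357, .negSucc 65, .ofNat 187, .negSucc 475, .negSucc 803, .negSucc 79⟩, ⟨.negSucc 3258, .ofNat 47, .negSucc 38, .ofNat 160, .ofNat 526, .ofNat 119⟩, ⟨.negSucc 177, .negSucc 10, .negSucc 33, .ofNat 15, .ofNat 182, .ofNat 15⟩, .ofNat 2042, .ofNat 2938, .ofNat 0, .ofNat 2938, .ofNat 5147, .ofNat 0, .ofNat 128, .negSucc 505, .negSucc 130, .ofNat 0, .ofNat 335, .ofNat 73, .ofNat 0, .ofNat 0, .ofNat 1775, .ofNat 29663, .ofNat 22790498213685129754985987852434971634123669504, .ofNat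 0, .ofNat 5615517276601385624982359375390529871151104, .ofNat 0, .ofNat 3948806219397397071198399598342999021235208192, .ofNat 0, .ofNat 275464096131450680507329908490616616354054144, .ofNat 0, .ofNat 0, .ofNat 0, .ofNat 0, .ofNat 0, .ofNat 0, .ofNat 0, .ofNat 70402820024034713243155449011780833899446272, .ofNat 0⟩)
    (by decide +kernel)
theorem L03956 : Good (Phi V5.P V5.D (-1) (-1)) ⟨3, 7, 2, 2, 3, 2, 2, 2, 6, 24⟩ :=
  leafX_sound T5.ok_mm T5.Ymm.bz_eq (w := 230) (c := ⟨⟨.negSucc 2250, .negSucc 168, .negSucc 87, .ofNat 104, .ofNat 327, .ofNat 53⟩, ⟨.ofNat 1310, .ofNat 328, .ofNat 298, .negSucc 66, .negSucc 209, .negSucc 34⟩, ⟨.ofNat 2294, .ofNat 37, .ofNat 142, .negSucc 422, .negSucc 717, .negSucc 26⟩, ⟨.negSucc 3346, .ofNat 22, .negSucc 39, .ofNat 114, .ofNat 561, .ofNat 72⟩, ⟨.negSucc 148, .negSucc 26, .ofNat 17, .negSucc 52, .ofNat 152, .negSucc 4⟩, .ofNat 884, .ofNat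 999, .ofNat 0, .ofNat 999, .ofNat 1760, .ofNat 0, .ofNat 128, .negSucc 228, .negSucc 180, .ofNat 0, .ofNat 176, .ofNat 109, .ofNat 0, .ofNat 0, .ofNat 1502, .ofNat 12515, .ofNat 50360482505618395222700897595679913143022125056, .ofNat 0, .ofNat 2418963709508941203438110275476293502894080, .ofNat 16787852212216552840316935595088600683623225491456, .ofNat 0, .ofNat 0, .ofNat 1238035704729968198555166105445916829827465216, .ofNat 0, .ofNat 0, .ofNat 0, .ofNat 1395284138748868196773883554940537051600125952, .ofNat 857296472920227834095534723650510891259546528907264, .ofNat 0, .ofNat 0, .ofNat 0, .ofNat 0⟩)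
    (by decide +kernel)
theorem L03957 : Good (Phi V5.P V5.D (-1) (-1)) ⟨3, 7, 2, 2, 3, 2, 2, 2, 6, 25⟩ :=
  leafX_sound T5.ok_mm T5.Ymm.bz_eq (w := 230) (c := ⟨⟨.negSucc 2217, .negSucc 196, .negSucc 44, .ofNat 112, .ofNat 314, .ofNat 52⟩, ⟨.ofNat 1295, .ofNat 338, .ofNat 258, .negSucc 72, .negSucc 201, .negSucc 33⟩, ⟨.ofNat 2330, .ofNat 134, .ofNat 28, .negSucc 442, .negSucc 724, .negSucc 49⟩, ⟨.negSucc 3297, .ofNat 24, .negSucc 13, .ofNat 136, .ofNat 562, .ofNat 70⟩, ⟨.negSucc 162, .negSucc 0, .negSucc 3, .negSucc 34, .ofNat 183, .negSucc 5⟩, .ofNat 977, .ofNat 993, .ofNat 0, .ofNat 993, .ofNat 1518, .ofNat 0, .ofNat 128, .negSucc 207, .negSucc 91, .ofNat 0, .ofNat 192, .ofNat 61, .ofNat 0, .ofNat 0, .ofNat 833, .ofNat 20027, .ofNat 107938642087244211751890236010313251658003382272, .ofNat 0, .ofNat 34713018995418480017755390594875142103367680, .ofNat 26750083627074634936643887188155539242526804279296,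 .ofNat 27985746146020208364203001128421027337096658944, .ofNat 0, .ofNat 1871463671681872021733827747715771312321331200, .ofNat 0, .ofNat 0, .ofNat 0, .ofNat 739020442390932984302226967433579866928185344, .ofNat 187395977447876826205944598418365266440246108618752, .ofNat 0, .ofNat 0, .ofNat 0, .ofNat 1135142375306684038948681061093459321068027411169280⟩)
    (by decide +kernel)
theorem L03958 : Good (Phi V5.P V5.D (-1) (-1)) ⟨3, 7, 2, 2, 3, 2, 2, 2, 5, 13⟩ :=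
  leafX_sound T5.ok_mm T5.Ymm.bz_eq (w := 225) (c := ⟨⟨.negSucc 2165, .negSucc 163, .negSucc 49, .ofNat 119, .ofNat 307, .ofNat 81⟩, ⟨.ofNat 1243, .ofNat 168, .ofNat 315, .negSucc 76, .negSucc 196, .negSucc 53⟩, ⟨.ofNat 2314, .negSucc 17, .ofNat 161, .negSucc 517, .negSucc 824, .negSucc 60⟩, ⟨.negSucc 3281, .ofNat 23, .ofNat 8, .ofNat 188, .ofNat 597, .ofNat 114⟩, ⟨.negSucc 240, .ofNat 22, .ofNat 3, .ofNat 31, .ofNat 255, .negSucc 1⟩, .ofNat 1272, .ofNat 1372, .ofNat 0, .ofNat 1372, .ofNat 2020, .ofNat 0, .ofNat 128, .negSucc 364, .negSucc 177, .ofNat 0, .ofNat 333, .ofNat 114, .ofNat 0, .ofNat 0, .ofNat 2118, .ofNat 13880, .ofNat 12229555685097275569326612921158362570170564608, .ofNat 0, .ofNat 1390273045187520408642692750460428595757056, .ofNat 1613105808495964480511505149015963150371474374656, .ofNat 5955633103627452263460109554540730340947787776, .ofNat 0, .ofNat 67912086617113605252720734366743928424628224,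 .ofNat 1423858881969629312336585999100912252245281603584, .ofNat 0, .ofNat 0, .ofNat 79356722990141370208212344941641340211429376, .ofNat 0, .ofNat 0, .ofNat 0, .ofNat 0, .ofNat 0⟩)
    (by decide +kernel)
theorem L03959 : Good (Phi V5.P V5.D (-1) (-1)) ⟨3, 6, 2, 2, 3, 2, 2, 2, 5, 14⟩ :=
  leafX_sound T5.ok_mm T5.Ymm.bz_eq (w := 227) (c := ⟨⟨.negSucc 1840, .negSucc 210, .negSucc 6, .ofNat 97, .ofNat 259, .ofNat 57⟩, ⟨.ofNat 907, .ofNat 269, .ofNat 215, .negSucc 54, .negSucc 142, .negSucc 32⟩, ⟨.ofNat 2507, .negSucc 70, .ofNat 152, .negSucc 623, .negSucc 962, .negSucc 147⟩, ⟨.negSucc 3115, .ofNat 46, .ofNat 13, .ofNat 192, .ofNat 476, .ofNat 131⟩, ⟨.negSucc 205, .negSucc 19, .ofNat 21, .ofNat 90, .ofNat 191, .ofNat 76⟩, .ofNat 1565, .ofNat 2146, .ofNat 0, .ofNat 2146, .ofNat 3815, .ofNat 0, .ofNat 128, .negSucc 473, .negSucc 150, .ofNat 0, .ofNat 322, .ofNat 76, .ofNat 0,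 .ofNat 0, .ofNat 3247, .ofNat 65161, .ofNat 62583205241698832598478671516944525720826150912, .ofNat 0, .ofNat 27243632236082019622369732090552430062731264, .ofNat 0, .ofNat 30926064706465937242693024301337204483428450304, .ofNat 0, .ofNat 153301120905484145518704928130987082851024896, .ofNat 0, .ofNat 52162794587610760851269467499013572097547960320, .ofNat 0, .ofNat 184369270289306851517654212321202199184015360, .ofNat 0, .ofNat 0, .ofNat 0, .ofNat 143596423242203256667376559554326927291449344, .ofNat 0⟩)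
    (by decide +kernel)
theorem L03960 : Good (Phi V5.P V5.D (-1) (-1)) ⟨3, 6, 2, 2, 3, 2, 2, 2, 5, 15⟩ :=
  out_sound (S := T5.ds_mm) T5.ok_mm (w := 28) (j := 1) (by decide +kernel)
theorem L03961 : Good (Phi V5.P V5.D (-1) (-1)) ⟨4, 14, 2, 2, 3, 2, 2, 2, 5, 14⟩ :=
  leafX_sound T5.ok_mm T5.Ymm.bz_eq (w := 230) (c := ⟨⟨.negSucc 1988, .ofNat 91, .negSucc 217, .ofNat 105, .ofNat 275, .ofNat 54⟩, ⟨.ofNat 1164, .ofNat 17, .ofNat 345, .negSucc 67, .negSucc 175, .negSucc 34⟩, ⟨.ofNat 2494, .ofNat 383, .negSucc 274, .negSucc 687, .negSucc 802, .negSucc 196⟩, ⟨.negSucc 3124, .ofNat 93, .negSucc 65, .ofNat 214, .ofNat 554, .ofNat 121⟩, ⟨.negSucc 323, .negSucc 82, .ofNat 85, .ofNat 104, .ofNat 262, .ofNat 69⟩, .ofNat 881, .ofNat 995, .ofNat 0, .ofNat 995, .ofNat 1757, .ofNat 0, .ofNat 128, .negSucc 578, .negSucc 138, .ofNat 0, .ofNat 446, .ofNat 60, .ofNat 0, .ofNat 0, .ofNat 3629,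 .ofNat 32630, .ofNat 572665901016222649946976885667254685173488287744, .ofNat 0, .ofNat 2142100263012236046225065629733327736930304, .ofNat 28522307837163541081300499764379641129636095590400, .ofNat 94157913442202900847694399427534133603761913856, .ofNat 0, .ofNat 33299970168688120591882462529204496162095104, .ofNat 7246681120588665220132325883630914121070234566656, .ofNat 0, .ofNat 0, .ofNat 156680194304657330412979778595646347596005376, .ofNat 0, .ofNat 0, .ofNat 0, .ofNat 0, .ofNat 0⟩)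
    (by decide +kernel)
theorem L03962 : Good (Phi V5.P V5.D (-1) (-1)) ⟨4, 14, 2, 2, 3, 2, 2, 2, 5, 15⟩ :=
  out_sound (S := T5.ds_mm) T5.ok_mm (w := 28) (j := 1) (by decide +kernel)
theorem L03963 : Good (Phi V5.P V5.D (-1) (-1)) ⟨4, 15, 2, 2, 3, 2, 2, 2, 4, 7⟩ :=
  out_sound (S := T5.ds_mm) T5.ok_mm (w := 49) (j := 3) (by decide +kernel)
theorem L03964 : Good (Phi V5.P V5.D (-1) (-1)) ⟨4, 12, 2, 2, 3, 3, 2, 2, 3, 3⟩ :=
  out_sound (S := T5.ds_mm) T5.ok_mm (w := 49) (j := 3) (by decide +kernel)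
theorem L03965 : Good (Phi V5.P V5.D (-1) (-1)) ⟨4, 13, 3, 4, 3, 3, 3, 4, 5, 12⟩ :=
  leafX_sound T5.ok_mm T5.Ymm.bz_eq (w := 237) (c := ⟨⟨.negSucc 2046, .negSucc 138, .ofNat 10, .ofNat 118, .ofNat 132, .ofNat 118⟩, ⟨.ofNat 1099, .ofNat 142, .ofNat 137, .negSucc 69, .negSucc 72, .negSucc 69⟩, ⟨.ofNat 1991, .negSucc 31, .ofNat 2, .negSucc 700, .negSucc 426, .negSucc 120⟩, ⟨.negSucc 3267, .ofNat 11, .negSucc 7, .ofNat 139, .ofNat 268, .ofNat 178⟩, ⟨.negSucc 231, .ofNat 22, .negSucc 25, .negSucc 56, .ofNat 132, .ofNat 15⟩, .ofNat 1565, .ofNat 2158, .ofNat 0, .ofNat 2158, .ofNat 3859, .ofNat 0, .ofNat 128, .negSucc 686, .negSucc 146, .ofNat 0, .ofNat 461, .ofNat 82, .ofNat 0, .ofNat 0, .ofNat 2352, .ofNat 32652, .ofNat 19742144305811662435310680967874465999619037855744, .ofNat 0, .ofNat 6506168290190600838398039485887060818001920, .ofNat 0, .ofNat 0, .ofNat 0, .ofNat 2660180866241250254416252589376989553584242688,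 .ofNat 0, .ofNat 0, .ofNat 0, .ofNat 0, .ofNat 0, .ofNat 0, .ofNat 0, .ofNat 6766240001178292745399176684357030261584560128, .ofNat 0⟩)
    (by decide +kernel)

end Crest.Agent.R097C5.N5mm
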