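import Crest.Agent.R097.KP7
import Crest.Agent.R097.T5Ymm

/-!
# Row 97, box cover in dimension n = 5 (generated)
-/

set_option autoImplicit false
set_option Elab.async false
set_option maxHeartbeats 0
set_option maxRecDepth 100000

open Crest.Agent.R097 Crest.Agent.R097.KA


namespace Crest.Agent.R097C5.N5mm

theorem L03966 : Good (Phi V5.P V5.D (-1) (-1)) ⟨4, 13, 3, 4, 3, 3, 3, 4, 5, 13⟩ :=
  leafX_sound T5.ok_mm T5.Ymm.bz_eq (w := 237) (c := ⟨⟨.negSucc 1934, .negSucc 69, .negSucc 30, .ofNat 76, .ofNat 113, .ofNat 81⟩, ⟨.ofNat 1033, .ofNat 109, .ofNat 141, .negSucc 43, .negSucc 60, .negSucc 46⟩, ⟨.ofNat 1896, .ofNat 248, .negSucc 239, .negSucc 990, .negSucc 451, .negSucc 240⟩, ⟨.negSucc 3120, .ofNat 59, .negSucc 24, .ofNat 142, .ofNat 268, .ofNat 144⟩, ⟨.negSucc 263, .negSucc 53, .ofNat 44, .ofNat 54, .ofNat 180, .ofNat 45⟩, .ofNat 751, .ofNat 830, .ofNat 0, .ofNat 830, .ofNat 1625, .ofNat 0, .ofNat 128, .negSucc 551, .negSucc 87, .ofNat 0, .ofNat 421, .ofNat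 26, .ofNat 0, .ofNat 0, .ofNat 4142, .ofNat 40198, .ofNat 34077234705023223289793533246397488037745326555136, .ofNat 0, .ofNat 48115277245949912688329695827050022253363200, .ofNat 0, .ofNat 5538669237756754402964077956964694656821007220736, .ofNat 0, .ofNat 1045739524374699770078662059506588820350959616, .ofNat 0, .ofNat 0, .ofNat 0, .ofNat 6463637074525410662394222023127175281621598208, .ofNat 0, .ofNat 0, .ofNat 0, .ofNat 0, .ofNat 0⟩)
    (by decide +kernel)
theorem L03967 : Good (Phi V5.P V5.D (-1) (-1)) ⟨4, 13, 3, 4, 3, 3, 3, 5, 4, 6⟩ :=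
  leafX_sound T5.ok_mm T5.Ymm.bz_eq (w := 229) (c := ⟨⟨.negSucc 1906, .negSucc 61, .negSucc 42, .ofNat 48, .ofNat 119, .ofNat 169⟩, ⟨.ofNat 1018, .ofNat 114, .ofNat 135, .negSucc 25, .negSucc 63, .negSucc 98⟩, ⟨.ofNat 1621, .ofNat 175, .negSucc 234, .negSucc 1105, .negSucc 497, .negSucc 342⟩, ⟨.negSucc 3021, .ofNat 88, .negSucc 40, .ofNat 153, .ofNat 332, .ofNat 284⟩, ⟨.negSucc 155, .negSucc 36, .ofNat 40, .ofNat 141, .ofNat 274, .ofNat 68⟩, .ofNat 752, .ofNat 834, .ofNat 0, .ofNat 834, .ofNat 1635, .ofNat 0, .ofNat 128, .negSucc 577, .negSucc 72, .ofNat 0, .ofNat 438, .ofNat 11, .ofNat 0, .ofNat 0, .ofNat 3802, .ofNat 2790, .ofNat 195572654208375118556855496096488163052848414720, .ofNat 0, .ofNat 608095660302247682376353839451585403420672, .ofNat 0, .ofNat 0, .ofNat 3638129038789785802373148121467087548380610560, .ofNat 9239310152734724992342198565253643400904704, .ofNat 0, .ofNat 0, .ofNat 110668901315439038416211531983754194381453656064, .ofNat 27696923152624293137823327744176862072406016,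 .ofNat 0, .ofNat 0, .ofNat 1094102804914073326754485831710081675654718291968, .ofNat 0, .ofNat 0⟩)
    (by decide +kernel)
theorem L03968 : Good (Phi V5.P V5.D (-1) (-1)) ⟨4, 13, 3, 5, 3, 3, 2, 2, 4, 6⟩ :=
  out_sound (S := T5.ds_mm) T5.ok_mm (w := 51) (j := 3) (by decide +kernel)
theorem L03969 : Good (Phi V5.P V5.D (-1) (-1)) ⟨4, 13, 2, 2, 3, 3, 3, 4, 5, 14⟩ :=
  leafX_sound T5.ok_mm T5.Ymm.bz_eq (w := 234) (c := ⟨⟨.negSucc 1628, .negSucc 41, .negSucc 127, .negSucc 89, .negSucc 21, .negSucc 1⟩, ⟨.ofNat 843, .ofNat 105, .ofNat 287, .ofNat 60, .ofNat 24, .ofNat 4⟩, ⟨.ofNat 3205, .ofNat 293, .negSucc 876, .negSucc 2114, .negSucc 1246, .negSucc 820⟩, ⟨.negSucc 2841, .ofNat 70, .negSucc 60, .ofNat 47, .ofNat 184, .ofNat 97⟩, ⟨.negSucc 562, .negSucc 47, .ofNat 133, .ofNat 292, .ofNat 370, .ofNat 169⟩, .ofNat 752, .ofNat 833, .ofNat 0, .ofNat 833, .ofNat 1631, .ofNat 0, .ofNat 128, .negSucc 486, .ofNat 207, .ofNat 0, .ofNat 371, .negSucc 166, .ofNat 0, .ofNat 0,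 .ofNat 5818, .ofNat 27223, .ofNat 3811892893516908942987471237949523367123329482752, .ofNat 0, .ofNat 23593428351936864971253924443393122658942976, .ofNat 0, .ofNat 9439110923439008448934576542664515119032108580864, .ofNat 0, .ofNat 249168551188621533538891814287868479106187264, .ofNat 0, .ofNat 36162700750636413453063407252007128475880573108224, .ofNat 0, .ofNat 0, .ofNat 0, .ofNat 276746094543827576523422393773764653265951104434176, .ofNat 0, .ofNat 3202712297768705844100352152078683218838028288, .ofNat 0⟩)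
    (by decide +kernel)
theorem L03970 : Good (Phi V5.P V5.D (-1) (-1)) ⟨4, 13, 2, 2, 3, 3, 3, 4, 5, 15⟩ :=
  out_sound (S := T5.ds_mm) T5.ok_mm (w := 29) (j := 1) (by decide +kernel)
theorem L03971 : Good (Phi V5.P V5.D (-1) (-1)) ⟨4, 13, 3, 4, 4, 6, 3, 5, 5, 14⟩ :=
  leafX_sound T5.ok_mm T5.Ymm.bz_eq (w := 250) (c := ⟨⟨.negSucc 1619, .negSucc 164, .ofNat 10, .negSucc 40, .ofNat 49, .ofNat 41⟩, ⟨.ofNat 842, .ofNat 191, .ofNat 82, .ofNat 30, .negSucc 18, .negSucc 22⟩, ⟨.ofNat 2120, .negSucc 564, .ofNat 126, .negSucc 1027, .negSucc 923, .negSucc 355⟩, ⟨.negSucc 2684, .ofNat 32, .ofNat 15, .ofNat 55, .ofNat 271, .ofNat 99⟩, ⟨.negSucc 277, .ofNat 118, .negSucc 4, .ofNat 185, .ofNat 329, .ofNat 71⟩, .ofNat 1550, .ofNat 2131, .ofNat 0, .ofNat 2131, .ofNat 3815, .ofNat 0, .ofNat 128, .negSucc 823, .ofNat 157, .ofNat 0, .ofNat 558, .negSucc 129, .ofNat 0, .ofNat 0, .ofNat 7442, .ofNat 13814, .ofNat 61354120552281746915628136263700089607576379092631552, .ofNat 0, .ofNat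 328037473658975484028996817170706393823461769216, .ofNat 0, .ofNat 50682415732590192942580220549549240204742010125418496, .ofNat 0, .ofNat 60458360306185942593386673425771479590393280987136, .ofNat 0, .ofNat 0, .ofNat 0, .ofNat 0, .ofNat 0, .ofNat 0, .ofNat 0, .ofNat 0, .ofNat 0⟩)
    (by decide +kernel)
theorem L03972 : Good (Phi V5.P V5.D (-1) (-1)) ⟨4, 13, 3, 4, 4, 6, 3, 5, 5, 15⟩ :=
  leafX_sound T5.ok_mm T5.Ymm.bz_eq (w := 251) (c := ⟨⟨.negSucc 1481, .negSucc 129, .negSucc 28, .negSucc 144, .negSucc 11, .negSucc 45⟩, ⟨.ofNat 749, .ofNat 184, .ofNat 94, .ofNat 97, .ofNat 24, .ofNat 32⟩, ⟨.ofNat 2312, .negSucc 418, .negSucc 157, .negSucc 1762, .negSucc 1109, .negSucc 1062⟩, ⟨.negSucc 2422, .ofNat 59, .ofNat 7, .negSucc 35, .ofNat 130, .ofNat 72⟩, ⟨.negSucc 152, .ofNat 75, .ofNat 58, .ofNat 280, .ofNat 243, .ofNat 229⟩, .ofNat 1575, .ofNat 2169, .ofNat 0, .ofNat 2169, .ofNat 3872, .ofNat 0, .ofNat 128, .negSucc 771, .ofNat 564, .ofNat 0, .ofNat 523, .negSucc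 389, .ofNat 0, .ofNat 0, .ofNat 9801, .ofNat 39621, .ofNat 234142016185981280981617545107483239564757624604852224, .ofNat 880194967423728300957396535285675168701132237176832, .ofNat 0, .ofNat 0, .ofNat 341732970608501901525584945421316289597727089824366592, .ofNat 0, .ofNat 59601409606852219598467295970289503998002170167296, .ofNat 0, .ofNat 1370314441439749627733163601340270185604056758993551360, .ofNat 0, .ofNat 14780150336789340597135333810257940398527876169728, .ofNat 0, .ofNat 13245476722016975712724396996004039285092090187333238784, .ofNat 336645583503060258922203561409010410404394363047116800, .ofNat 1417331729779344174605964194184881870861252901732352, .ofNat 0⟩)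
    (by decide +kernel)
theorem L03973 : Good (Phi V5.P V5.D (-1) (-1)) ⟨4, 13, 3, 5, 4, 6, 3, 5, 4, 7⟩ :=
  out_sound (S := T5.ds_mm) T5.ok_mm (w := 51) (j := 3) (by decide +kernel)
theorem L03974 : Good (Phi V5.P V5.D (-1) (-1)) ⟨4, 13, 3, 4, 5, 14, 4, 10, 5, 14⟩ :=
  leafX_sound T5.ok_mm T5.Ymm.bz_eq (w := 268) (c := ⟨⟨.negSucc 1693, .negSucc 4, .negSucc 111, .negSucc 21, .ofNat 27, .negSucc 33⟩, ⟨.ofNat 894, .ofNat 89, .ofNat 165, .ofNat 15, .negSucc 11, .ofNat 23⟩, ⟨.ofNat 930, .ofNat 497, .negSucc 742, .negSucc 518, .negSucc 421, .negSucc 960⟩, ⟨.negSucc 2655, .ofNat 121, .negSucc 60, .ofNat 19, .ofNat 136, .ofNat 71⟩, ⟨.negSucc 70, .negSucc 81, .ofNat 132, .ofNat 92, .ofNat 164, .ofNat 197⟩, .ofNat 747, .ofNat 829, .ofNat 0, .ofNat 829, .ofNat 1637, .ofNat 0, .ofNat 128, .negSucc 631, .ofNat 364, .ofNat 0, .ofNat 481, .negSucc 289, .ofNat 0, .ofNat 0, .ofNat 8326, .ofNat 17631, .ofNat 2742151378033125726281971710559913558089663387704657707008, .ofNat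 0, .ofNat 119176675906875186733596667823190489063201276854009856, .ofNat 0, .ofNat 0, .ofNat 0, .ofNat 4837092453028901841156855847853579719460099529300246528, .ofNat 0, .ofNat 0, .ofNat 0, .ofNat 0, .ofNat 0, .ofNat 0, .ofNat 0, .ofNat 0, .ofNat 0⟩)
    (by decide +kernel)
theorem L03975 : Good (Phi V5.P V5.D (-1) (-1)) ⟨4, 13, 3, 4, 6, 30, 4, 10, 5, 14⟩ :=
  leafX_sound T5.ok_mm T5.Ymm.bz_eq (w := 283) (c := ⟨⟨.negSucc 1624, .negSucc 104, .negSucc 78, .negSucc 33, .negSucc 30, .negSucc 79⟩, ⟨.ofNat 850, .ofNat 152, .ofNat 145, .ofNat 21, .ofNat 24, .ofNat 54⟩, ⟨.ofNat 1069, .negSucc 215, .negSucc 496, .negSucc 431, .negSucc 795, .negSucc 1368⟩, ⟨.negSucc 2574, .ofNat 40, .negSucc 24, .negSucc 4, .ofNat 105, .ofNat 42⟩, ⟨.negSucc 99, .ofNat 22, .ofNat 108, .ofNat 72, .ofNat 257, .ofNat 265⟩, .ofNat 749, .ofNat 829, .ofNat 0, .ofNat 829, .ofNat 1630, .ofNat 0, .ofNat 128, .negSucc 494, .ofNat 405, .ofNat 0, .ofNat 378, .negSucc 302, .ofNat 0, .ofNat 0, .ofNat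 6826, .ofNat 29072, .ofNat 17824725026738001924188268243277522705023514621008789689597952, .ofNat 0, .ofNat 2872507536212471375320886643736954410650458596209823055872, .ofNat 0, .ofNat 0, .ofNat 0, .ofNat 83896310699911711383384150007441053321776478082424895438848, .ofNat 0, .ofNat 0, .ofNat 553635198486384579714614541054302786070978637548734153490432, .ofNat 85284636080915660172593146435908910760772689164294900678656, .ofNat 0, .ofNat 0, .ofNat 14684258363326405679794591992488472348923890511896835866492928, .ofNat 208876652454426223909283770033378646955298266910504519729152, .ofNat 0⟩)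
    (by decide +kernel)
theorem L03976 : Good (Phi V5.P V5.D (-1) (-1)) ⟨4, 13, 3, 4, 6, 31, 4, 10, 5, 14⟩ :=
  leafX_sound T5.ok_mm T5.Ymm.bz_eq (w := 282) (c := ⟨⟨.negSucc 1611, .negSucc 138, .negSucc 69, .negSucc 49, .negSucc 83, .negSucc 102⟩, ⟨.ofNat 839, .ofNat 179, .ofNat 139, .ofNat 32, .ofNat 59, .ofNat 67⟩, ⟨.ofNat 944, .negSucc 414, .negSucc 463, .negSucc 516, .negSucc 1134, .negSucc 1565⟩, ⟨.negSucc 2560, .ofNat 36, .negSucc 28, .negSucc 18, .ofNat 76, .ofNat 27⟩, ⟨.negSucc 87, .ofNat 69, .ofNat 88, .ofNat 94, .ofNat 328, .ofNat 299⟩, .ofNat 748, .ofNat 827, .ofNat 0, .ofNat 827, .ofNat 1624, .ofNat 0, .ofNat 128, .negSucc 485, .ofNat 388, .ofNat 0, .ofNat 372, .negSucc 281, .ofNat 0, .ofNat 0, .ofNat 5640, .ofNat 16458, .ofNat 8375562414268429790599162223277799888606888572606150392938496, .ofNat 18873363677199898287973588236933585618175128020862000693248, .ofNat 3322175789423330582474530360278314254275416361237355692032, .ofNat 0, .ofNat 0, .ofNat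 96573542184377406767029249438276204227327830625195300749312, .ofNat 44586116694909663564218282174096770105310342382261117124608, .ofNat 0, .ofNat 0, .ofNat 991947423061249101269908661396706714962173463470408158150656, .ofNat 0, .ofNat 0, .ofNat 0, .ofNat 12431587129742655795549245597033429006026139812708850207817728, .ofNat 286951758970412437528239941475074310701843513864328711241728, .ofNat 0⟩)
    (by decide +kernel)
theorem L03977 : Good (Phi V5.P V5.D (-1) (-1)) ⟨4, 13, 3, 4, 5, 14, 4, 11, 5, 14⟩ :=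
  leafX_sound T5.ok_mm T5.Ymm.bz_eq (w := 268) (c := ⟨⟨.negSucc 1528, .negSucc 209, .ofNat 15, .negSucc 107, .negSucc 31, .negSucc 49⟩, ⟨.ofNat 786, .ofNat 238, .ofNat 68, .ofNat 69, .ofNat 26, .ofNat 35⟩, ⟨.ofNat 1483, .negSucc 970, .ofNat 176, .negSucc 1126, .negSucc 804, .negSucc 1086⟩, ⟨.negSucc 2455, .ofNat 9, .ofNat 20, .negSucc 17, .ofNat 129, .ofNat 62⟩, ⟨.negSucc 109, .ofNat 186, .negSucc 24, .ofNat 233, .ofNat 291, .ofNat 228⟩, .ofNat 757, .ofNat 841, .ofNat 0, .ofNat 841, .ofNat 1641, .ofNat 0, .ofNat 128, .negSucc 543, .ofNat 320, .ofNat 0, .ofNat 415, .negSucc 245, .ofNat 0, .ofNat 0, .ofNat 5309, .ofNat 14439, .ofNat 1464485654539552866649428879515956246981344854013466640384, .ofNat 0, .ofNat 719186834680903783115857531625044749653705582153039872, .ofNat 0, .ofNat 0, .ofNat 17144926624010440043404387325266747539233877716981776384, .ofNat 2474116143793717767928568596288047630889746794874404864, .ofNat 0, .ofNat 0, .ofNat 189598722266504317229104134537717798010550616058966835200,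 .ofNat 10228289440777498050041779692235977623214632728577179648, .ofNat 0, .ofNat 0, .ofNat 2206728544904204574736786695097010436165690832166607388672, .ofNat 45152979919537713358299792489521117789980122972443115520, .ofNat 0⟩)
    (by decide +kernel)
theorem L03978 : Good (Phi V5.P V5.D (-1) (-1)) ⟨4, 13, 3, 4, 5, 15, 4, 11, 5, 14⟩ :=
  leafX_sound T5.ok_mm T5.Ymm.bz_eq (w := 267) (c := ⟨⟨.negSucc 1602, .negSucc 146, .negSucc 69, .negSucc 108, .negSucc 44, .negSucc 111⟩, ⟨.ofNat 833, .ofNat 196, .ofNat 127, .ofNat 70, .ofNat 35, .ofNat 75⟩, ⟨.ofNat 568, .negSucc 457, .negSucc 448, .negSucc 1043, .negSucc 874, .negSucc 1541⟩, ⟨.negSucc 2441, .ofNat 35, .negSucc 22, .negSucc 41, .ofNat 102, .ofNat 13⟩, ⟨.ofNat 105, .ofNat 84, .ofNat 87, .ofNat 187, .ofNat 277, .ofNat 279⟩, .ofNat 874, .ofNat 1066, .ofNat 0, .ofNat 1066, .ofNat 2094, .ofNat 0, .ofNat 128, .negSucc 485, .ofNat 485, .ofNat 0, .ofNat 338, .negSucc 317, .ofNat 0, .ofNat 0, .ofNat 4770, .ofNat 11877,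 .ofNat 0, .ofNat 0, .ofNat 0, .ofNat 0, .ofNat 0, .ofNat 13475583774749931039172531364678505988021876797275635712, .ofNat 3776679860689920737566769254345521135122359212660752384, .ofNat 0, .ofNat 0, .ofNat 341367507701498491073680046424573584910946476677398528000, .ofNat 2338175037993205730690122829639865698747816880910630912, .ofNat 0, .ofNat 0, .ofNat 3386104144714266645960736135001671533134494874928869801984, .ofNat 38889146692694256232736301647520018263517633834028892160, .ofNat 0⟩)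
    (by decide +kernel)
theorem L03979 : Good (Phi V5.P V5.D (-1) (-1)) ⟨4, 13, 3, 5, 4, 7, 3, 5, 5, 14⟩ :=
  out_sound (S := T5.ds_mm) T5.ok_mm (w := 51) (j := 3) (by decide +kernel)
theorem L03980 : Good (Phi V5.P V5.D (-1) (-1)) ⟨4, 13, 2, 2, 4, 7, 5, 20, 6, 30⟩ :=
  out_sound (S := T5.ds_mm) T5.ok_mm (w := 35) (j := 1) (by decide +kernel)
theorem L03981 : Good (Phi V5.P V5.D (-1) (-1)) ⟨4, 13, 2, 2, 5, 14, 6, 42, 7, 60⟩ :=
  out_sound (S := T5.ds_mm) T5.ok_mm (w := 40) (j := 1) (by decide +kernel)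
theorem L03982 : Good (Phi V5.P V5.D (-1) (-1)) ⟨4, 13, 2, 2, 6, 28, 6, 43, 7, 60⟩ :=
  out_sound (S := T5.ds_mm) T5.ok_mm (w := 42) (j := 1) (by decide +kernel)
theorem L03983 : Good (Phi V5.P V5.D (-1) (-1)) ⟨4, 13, 2, 2, 6, 29, 7, 86, 8, 120⟩ :=
  out_sound (S := T5.ds_mm) T5.ok_mm (w := 45) (j := 1) (by decide +kernel)
theorem L03984 : Good (Phi V5.P V5.D (-1) (-1)) ⟨4, 13, 2, 2, 7, 58, 7, 87, 8, 120⟩ :=
  out_sound (S := T5.ds_mm) T5.ok_mm (w := 47) (j := 1) (by decide +kernel)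
theorem L03985 : Good (Phi V5.P V5.D (-1) (-1)) ⟨4, 13, 2, 2, 7, 59, 8, 174, 9, 240⟩ :=
  out_sound (S := T5.ds_mm) T5.ok_mm (w := 50) (j := 1) (by decide +kernel)
theorem L03986 : Good (Phi V5.P V5.D (-1) (-1)) ⟨4, 13, 2, 2, 8, 118, 8, 175, 9, 240⟩ :=
  out_sound (S := T5.ds_mm) T5.ok_mm (w := 52) (j := 1) (by decide +kernel)
theorem L03987 : Good (Phi V5.P V5.D (-1) (-1)) ⟨4, 13, 2, 2, 9, 238, 9, 350, 10, 480⟩ :=
  out_sound (S := T5.ds_mm) T5.ok_mm (w := 57) (j := 1) (by decide +kernel)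
theorem L03988 : Good (Phi V5.P V5.D (-1) (-1)) ⟨4, 13, 2, 2, 9, 238, 9, 351, 10, 480⟩ :=
  out_sound (S := T5.ds_mm) T5.ok_mm (w := 70) (j := 2) (by decide +kernel)
theorem L03989 : Good (Phi V5.P V5.D (-1) (-1)) ⟨4, 13, 2, 2, 9, 238, 8, 175, 10, 481⟩ :=
  out_sound (S := T5.ds_mm) T5.ok_mm (w := 56) (j := 1) (by decide +kernel)
theorem L03990 : Good (Phi V5.P V5.D (-1) (-1)) ⟨4, 13, 2, 2, 9, 239, 8, 175, 9, 240⟩ :=
  out_sound (S := T5.ds_mm) T5.ok_mm (w := 66) (j := 2) (by decide +kernel)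
theorem L03991 : Good (Phi V5.P V5.D (-1) (-1)) ⟨4, 13, 2, 2, 7, 59, 7, 87, 9, 241⟩ :=
  out_sound (S := T5.ds_mm) T5.ok_mm (w := 49) (j := 1) (by decide +kernel)
theorem L03992 : Good (Phi V5.P V5.D (-1) (-1)) ⟨4, 13, 2, 2, 6, 29, 6, 43, 8, 121⟩ :=
  out_sound (S := T5.ds_mm) T5.ok_mm (w := 44) (j := 1) (by decide +kernel)
theorem L03993 : Good (Phi V5.P V5.D (-1) (-1)) ⟨4, 13, 2, 2, 5, 14, 5, 21, 7, 61⟩ :=
  out_sound (S := T5.ds_mm) T5.ok_mm (w := 39) (j := 1) (by decide +kernel)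
theorem L03994 : Good (Phi V5.P V5.D (-1) (-1)) ⟨4, 13, 2, 2, 6, 30, 6, 42, 7, 60⟩ :=
  out_sound (S := T5.ds_mm) T5.ok_mm (w := 42) (j := 1) (by decide +kernel)
theorem L03995 : Good (Phi V5.P V5.D (-1) (-1)) ⟨4, 13, 2, 2, 7, 60, 8, 172, 9, 240⟩ :=
  out_sound (S := T5.ds_mm) T5.ok_mm (w := 50) (j := 1) (by decide +kernel)
theorem L03996 : Good (Phi V5.P V5.D (-1) (-1)) ⟨4, 13, 2, 2, 8, 120, 8, 173, 9, 240⟩ :=
  out_sound (S := T5.ds_mm) T5.ok_mm (w := 52) (j := 1) (by decide +kernel)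
theorem L03997 : Good (Phi V5.P V5.D (-1) (-1)) ⟨4, 13, 2, 2, 8, 121, 8, 173, 9, 240⟩ :=
  out_sound (S := T5.ds_mm) T5.ok_mm (w := 64) (j := 2) (by decide +kernel)
theorem L03998 : Good (Phi V5.P V5.D (-1) (-1)) ⟨4, 13, 2, 2, 7, 60, 7, 86, 9, 241⟩ :=
  out_sound (S := T5.ds_mm) T5.ok_mm (w := 49) (j := 1) (by decide +kernel)
theorem L03999 : Good (Phi V5.P V5.D (-1) (-1)) ⟨4, 13, 2, 2, 7, 60, 7, 86, 8, 121⟩ :=
  out_sound (S := T5.ds_mm) T5.ok_mm (w := 47) (j := 1) (by decide +kernel)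
theorem L04000 : Good (Phi V5.P V5.D (-1) (-1)) ⟨4, 13, 2, 2, 7, 60, 7, 87, 7, 60⟩ :=
  out_sound (S := T5.ds_mm) T5.ok_mm (w := 56) (j := 2) (by decide +kernel)
theorem L04001 : Good (Phi V5.P V5.D (-1) (-1)) ⟨4, 13, 2, 2, 7, 61, 6, 43, 7, 60⟩ :=
  out_sound (S := T5.ds_mm) T5.ok_mm (w := 54) (j := 2) (by decide +kernel)
theorem L04002 : Good (Phi V5.P V5.D (-1) (-1)) ⟨4, 13, 2, 2, 6, 30, 5, 21, 7, 61⟩ :=
  out_sound (S := T5.ds_mm) T5.ok_mm (w := 41) (j := 1) (by decide +kernel)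
theorem L04003 : Good (Phi V5.P V5.D (-1) (-1)) ⟨4, 13, 2, 2, 6, 31, 5, 21, 6, 30⟩ :=
  out_sound (S := T5.ds_mm) T5.ok_mm (w := 48) (j := 2) (by decide +kernel)
theorem L04004 : Good (Phi V5.P V5.D (-1) (-1)) ⟨4, 13, 2, 2, 4, 7, 4, 10, 6, 31⟩ :=
  out_sound (S := T5.ds_mm) T5.ok_mm (w := 34) (j := 1) (by decide +kernel)
theorem L04005 : Good (Phi V5.P V5.D (-1) (-1)) ⟨4, 13, 3, 4, 5, 14, 4, 11, 7, 60⟩ :=
  leafX_sound T5.ok_mm T5.Ymm.bz_eq (w := 278) (c := ⟨⟨.negSucc 1524, .negSucc 151, .negSucc 93, .negSucc 202, .negSucc 126, .negSucc 36⟩, ⟨.ofNat 782, .ofNat 205, .ofNat 136, .ofNat 135, .ofNat 92, .ofNat 23⟩, ⟨.ofNat 793, .negSucc 592, .negSucc 652, .negSucc 1807, .negSucc 1384, .negSucc 479⟩, ⟨.negSucc 2376, .ofNat 45, .negSucc 33, .negSucc 59, .ofNat 86, .ofNat 4⟩, ⟨.ofNat 19, .ofNat 117, .ofNat 115, .ofNat 393, .ofNat 461, .ofNat 97⟩, .ofNat 368, .ofNat 263, .ofNat 0, .ofNat 263, .ofNat 643, .ofNat 0, .ofNat 128, .negSucc 232, .ofNat 357, .ofNat 0, .ofNat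 240, .negSucc 343, .ofNat 0, .ofNat 0, .ofNat 4984, .ofNat 23560, .ofNat 255829769772323195472696875751787057126337268387589690228736, .ofNat 699012602711272774112276270449972370966451937971930136576, .ofNat 753073568153421489372533835910896376386643647139124609024, .ofNat 0, .ofNat 247559307242540808880505744553011660241333756647770324729856, .ofNat 3689980317130663322858964577885519538253555846060449988608, .ofNat 753325310809237480966963564060944148567958543347155468288, .ofNat 0, .ofNat 913233520953930170478214395076585978061862457743819361222656, .ofNat 12750446083310940851961142266852095373407286599448788992000, .ofNat 1928942297975320276088426848165253036954129657148146188288, .ofNat 0, .ofNat 11881480726374275275179607234267143909803249074912930622865408, .ofNat 221397668896865541472240153831755741240683032231482033700864, .ofNat 0, .ofNat 0⟩)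
    (by decide +kernel)
theorem L04006 : Good (Phi V5.P V5.D (-1) (-1)) ⟨4, 13, 3, 5, 5, 14, 4, 11, 7, 60⟩ :=
  out_sound (S := T5.ds_mm) T5.ok_mm (w := 51) (j := 3) (by decide +kernel)
theorem L04007 : Good (Phi V5.P V5.D (-1) (-1)) ⟨4, 13, 2, 2, 5, 14, 6, 44, 7, 61⟩ :=
  out_sound (S := T5.ds_mm) T5.ok_mm (w := 40) (j := 1) (by decide +kernel)
theorem L04008 : Good (Phi V5.P V5.D (-1) (-1)) ⟨4, 13, 2, 2, 6, 28, 6, 45, 7, 61⟩ :=
  out_sound (S := T5.ds_mm) T5.ok_mm (w := 42) (j := 1) (by decide +kernel)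
theorem L04009 : Good (Phi V5.P V5.D (-1) (-1)) ⟨4, 13, 2, 2, 6, 29, 6, 45, 7, 61⟩ :=
  out_sound (S := T5.ds_mm) T5.ok_mm (w := 52) (j := 2) (by decide +kernel)
theorem L04010 : Good (Phi V5.P V5.D (-1) (-1)) ⟨4, 13, 2, 2, 5, 14, 5, 23, 7, 61⟩ :=
  out_sound (S := T5.ds_mm) T5.ok_mm (w := 48) (j := 2) (by decide +kernel)
theorem L04011 : Good (Phi V5.P V5.D (-1) (-1)) ⟨4, 13, 2, 2, 5, 15, 4, 11, 6, 30⟩ :=
  out_sound (S := T5.ds_mm) T5.ok_mm (w := 44) (j := 2) (by decide +kernel)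
theorem L04012 : Good (Phi V5.P V5.D (-1) (-1)) ⟨4, 13, 2, 2, 5, 14, 5, 22, 6, 31⟩ :=
  out_sound (S := T5.ds_mm) T5.ok_mm (w := 37) (j := 1) (by decide +kernel)
theorem L04013 : Good (Phi V5.P V5.D (-1) (-1)) ⟨4, 13, 2, 2, 5, 14, 5, 23, 6, 31⟩ :=
  out_sound (S := T5.ds_mm) T5.ok_mm (w := 46) (j := 2) (by decide +kernel)
theorem L04014 : Good (Phi V5.P V5.D (-1) (-1)) ⟨4, 13, 2, 2, 5, 15, 4, 11, 6, 31⟩ :=
  out_sound (S := T5.ds_mm) T5.ok_mm (w := 44) (j := 2) (by decide +kernel)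
theorem L04015 : Good (Phi V5.P V5.D (-1) (-1)) ⟨4, 14, 2, 2, 3, 3, 3, 4, 5, 12⟩ :=
  leafX_sound T5.ok_mm T5.Ymm.bz_eq (w := 233) (c := ⟨⟨.negSucc 2181, .negSucc 111, .negSucc 2, .ofNat 127, .ofNat 134, .ofNat 122⟩, ⟨.ofNat 1245, .ofNat 124, .ofNat 294, .negSucc 81, .negSucc 84, .negSucc 78⟩, ⟨.ofNat 2068, .ofNat 84, .negSucc 164, .negSucc 795, .negSucc 424, .negSucc 138⟩, ⟨.negSucc 3265, .ofNat 20, .negSucc 9, .ofNat 147, .ofNat 281, .ofNat 182⟩, ⟨.negSucc 227, .negSucc 4, .negSucc 8, .negSucc 49, .ofNat 141, .ofNat 16⟩, .ofNat 885, .ofNat 999, .ofNat 0, .ofNat 999, .ofNat 1761, .ofNat 0, .ofNat 128, .negSucc 1308, .negSucc 312, .ofNat 0, .ofNat 1000, .ofNat 179, .ofNat 0, .ofNat 0, .ofNat 4907, .ofNat 15567, .ofNat 1236801425477284206420986161799256841266179080192, .ofNat 0, .ofNat 1619924204632726255972797561131856304275456, .ofNat 72256753462901947815469281672685646077869493846016, .ofNat 0, .ofNat 0, .ofNat 312352166717906350942071697787578978068856832,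 .ofNat 723594941286954649293181062109564553767112142749696, .ofNat 0, .ofNat 0, .ofNat 0, .ofNat 0, .ofNat 0, .ofNat 0, .ofNat 0, .ofNat 0⟩)
    (by decide +kernel)
theorem L04016 : Good (Phi V5.P V5.D (-1) (-1)) ⟨4, 14, 2, 2, 3, 3, 3, 4, 5, 13⟩ :=
  leafX_sound T5.ok_mm T5.Ymm.bz_eq (w := 232) (c := ⟨⟨.negSucc 1899, .ofNat 120, .negSucc 244, .ofNat 44, .ofNat 78, .ofNat 88⟩, ⟨.ofNat 1093, .ofNat 3, .ofNat 388, .negSucc 28, .negSucc 49, .negSucc 56⟩, ⟨.ofNat 2450, .ofNat 355, .negSucc 449, .negSucc 1294, .negSucc 732, .negSucc 201⟩, ⟨.negSucc 3041, .ofNat 120, .negSucc 95, .ofNat 135, .ofNat 263, .ofNat 147⟩, ⟨.negSucc 441, .negSucc 185, .ofNat 214, .ofNat 123, .ofNat 248, .ofNat 33⟩, .ofNat 373, .ofNat 265, .ofNat 0, .ofNat 265, .ofNat 570, .ofNat 0, .ofNat 128, .negSucc 257, .negSucc 73, .ofNat 0, .ofNat 276, .ofNat 16, .ofNat 0, .ofNat 0, .ofNat 2081, .ofNat 10351, .ofNat 1188250216614538972932298115934294604791546904576, .ofNat 0, .ofNat 5471123428466539526945125918438618463993856,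 .ofNat 70870022460783810522809994814280238470844636987392, .ofNat 0, .ofNat 0, .ofNat 120663359511436269068668069102528675132211200, .ofNat 513866873395566460398447185135091003949107136954368, .ofNat 1489235153241417567903814487480639880177590992896, .ofNat 0, .ofNat 267259164549345450868957586326748921235243008, .ofNat 2495336285792029663104811158941175795655408621715456, .ofNat 0, .ofNat 0, .ofNat 0, .ofNat 0⟩)
    (by decide +kernel)
theorem L04017 : Good (Phi V5.P V5.D (-1) (-1)) ⟨5, 28, 2, 2, 3, 3, 3, 5, 5, 12⟩ :=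
  leafX_sound T5.ok_mm T5.Ymm.bz_eq (w := 234) (c := ⟨⟨.negSucc 2162, .negSucc 283, .ofNat 437, .ofNat 56, .ofNat 123, .ofNat 87⟩, ⟨.ofNat 1255, .ofNat 213, .negSucc 28, .negSucc 36, .negSucc 78, .negSucc 56⟩, ⟨.ofNat 1513, .negSucc 429, .ofNat 652, .negSucc 1083, .negSucc 621, .negSucc 227⟩, ⟨.negSucc 3061, .negSucc 59, .ofNat 183, .ofNat 157, .ofNat 366, .ofNat 163⟩, ⟨.negSucc 101, .ofNat 228, .negSucc 324, .ofNat 129, .ofNat 305, .ofNat 69⟩, .ofNat 388, .ofNat 294, .ofNat 0, .ofNat 294, .ofNat 645, .ofNat 0, .ofNat 128, .negSucc 328, .negSucc 85, .ofNat 0, .ofNat 321, .ofNat 14, .ofNat 0, .ofNat 0, .ofNat 1890, .ofNat 2475, .ofNat 0, .ofNat 0, .ofNat 0, .ofNat 0, .ofNat 0, .ofNat 54642137627307489032470972344154924800221904896, .ofNat 17530401985436930998127271763009963420549120, .ofNat 0, .ofNat 0, .ofNat 0, .ofNat 111591092991250531131512507001205954371911680, .ofNat 0, .ofNat 0, .ofNat 0, .ofNat 0, .ofNat 0⟩)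
    (by decide +kernel)
theorem L04018 : Good (Phi V5.P V5.D (-1) (-1)) ⟨5, 29, 2, 2, 3, 3, 3, 5, 5, 12⟩ :=
  out_sound (S := T5.ds_mm) T5.ok_mm (w := 17) (j := 4) (by decide +kernel)
theorem L04019 : Good (Phi V5.P V5.D (-1) (-1)) ⟨4, 14, 2, 2, 4, 6, 3, 5, 5, 13⟩ :=
  leafX_sound T5.ok_mm T5.Ymm.bz_eq (w := 247) (c := ⟨⟨.negSucc 1917, .negSucc 134, .ofNat 17, .ofNat 33, .ofNat 113, .ofNat 85⟩, ⟨.ofNat 1113, .ofNat 171, .ofNat 202, .negSucc 21, .negSucc 71, .negSucc 54⟩, ⟨.ofNat 1484, .negSucc 92, .ofNat 59, .negSucc 539, .negSucc 620, .negSucc 130⟩, ⟨.negSucc 2822, .ofNat 9, .ofNat 19, .ofNat 91, .ofNat 328, .ofNat 133⟩, ⟨.negSucc 120, .ofNat 17, .negSucc 4, .ofNat 67, .ofNat 260, .ofNat 20⟩, .ofNat 885, .ofNat 999, .ofNat 0, .ofNat 999, .ofNat 1762, .ofNat 0, .ofNat 128, .negSucc 778, .negSucc 92, .ofNat 0, .ofNat 598, .ofNat 25, .ofNat 0, .ofNat 0, .ofNat 4727, .ofNat 19012, .ofNat 8514369875301859182320997247562169823674319169912832, .ofNat 0, .ofNat 118037383097363427910749177846563329587357417472,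 .ofNat 1576713790294561897808138034856264075740821525958230016, .ofNat 0, .ofNat 0, .ofNat 6856011259358573341451143258522448532503173005312, .ofNat 0, .ofNat 0, .ofNat 0, .ofNat 4879005432587196000960742356946740312686070857728, .ofNat 0, .ofNat 0, .ofNat 0, .ofNat 0, .ofNat 0⟩)
    (by decide +kernel)
theorem L04020 : Good (Phi V5.P V5.D (-1) (-1)) ⟨4, 14, 2, 2, 4, 7, 4, 10, 5, 13⟩ :=
  leafX_sound T5.ok_mm T5.Ymm.bz_eq (w := 249) (c := ⟨⟨.negSucc 1934, .negSucc 440, .ofNat 287, .negSucc 63, .ofNat 0, .ofNat 44⟩, ⟨.ofNat 1112, .ofNat 334, .ofNat 61, .ofNat 42, .ofNat 0, .negSucc 27⟩, ⟨.ofNat 1222, .negSucc 803, .ofNat 292, .negSucc 1119, .negSucc 590, .negSucc 469⟩, ⟨.negSucc 2774, .negSucc 109, .ofNat 136, .ofNat 31, .ofNat 142, .ofNat 128⟩, ⟨.negSucc 113, .ofNat 281, .negSucc 170, .ofNat 192, .ofNat 221, .ofNat 107⟩, .ofNat 388, .ofNat 294, .ofNat 0, .ofNat 294, .ofNat 645, .ofNat 0, .ofNat 128, .negSucc 276, .ofNat 59, .ofNat 0, .ofNat 274, .negSucc 100,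 .ofNat 0, .ofNat 0, .ofNat 3073, .ofNat 4385, .ofNat 0, .ofNat 0, .ofNat 0, .ofNat 0, .ofNat 0, .ofNat 149208015866608046618077890535042708304584354299904, .ofNat 26218675642669580286411941451625873579994314178560, .ofNat 17411732020924146396020389922692191200197977883786870784, .ofNat 0, .ofNat 204461599520468797536127583334066554000262243024896, .ofNat 44104605386944934228245790368175024866600853438464, .ofNat 242582916784460935164442284635133509753591631512587993088, .ofNat 0, .ofNat 11779378721861116580765242719304473162603147988828160, .ofNat 186885780572000330940474303377456797595127299178496, .ofNat 1900081546358435941021356983960993284637345506265816629248⟩)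
    (by decide +kernel)
theorem L04021 : Good (Phi V5.P V5.D (-1) (-1)) ⟨5, 28, 2, 2, 4, 7, 4, 11, 5, 13⟩ :=
  leafX_sound T5.ok_mm T5.Ymm.bz_eq (w := 252) (c := ⟨⟨.negSucc 1564, .ofNat 111, .negSucc 442, .negSucc 135, .negSucc 4, .negSucc 15⟩, ⟨.ofNat 913, .negSucc 9, .ofNat 440, .ofNat 90, .ofNat 5, .ofNat 10⟩, ⟨.ofNat 1698, .ofNat 347, .negSucc 1389, .negSucc 1474, .negSucc 625, .negSucc 776⟩, ⟨.negSucc 2465, .ofNat 117, .negSucc 214, .ofNat 8, .ofNat 166, .ofNat 95⟩, ⟨.negSucc 248, .negSucc 118, .ofNat 388, .ofNat 328, .ofNat 273, .ofNat 192⟩, .ofNat 381, .ofNat 281, .ofNat 0, .ofNat 281, .ofNat 617, .ofNat 0, .ofNat 128, .negSucc 291, .ofNat 171, .ofNat 0, .ofNat 296, .negSucc 202, .ofNat 0, .ofNat 0, .ofNat 3346, .ofNat 1501, .ofNat 0, .ofNat 0, .ofNat 0, .ofNat 0, .ofNat 0, .ofNat 1334197042610120957785008019497689605907438192558080, .ofNat 4743340713850185826041173968736934764419659857920, .ofNat 0, .ofNat 0, .ofNat 3670309909450734502539120221525882310996718933508096,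 .ofNat 10386074262710969965051013498529032991290419052544, .ofNat 2692306770339464812851039222338955857337073332335847407616, .ofNat 0, .ofNat 356168043013788256397906371359664708710953985836580864, .ofNat 0, .ofNat 2734835004211978430079960116641375713562445056282573406208⟩)
    (by decide +kernel)
theorem L04022 : Good (Phi V5.P V5.D (-1) (-1)) ⟨5, 29, 2, 2, 4, 7, 4, 11, 5, 13⟩ :=
  out_sound (S := T5.ds_mm) T5.ok_mm (w := 17) (j := 4) (by decide +kernel)
theorem L04023 : Good (Phi V5.P V5.D (-1) (-1)) ⟨4, 15, 2, 2, 3, 3, 2, 2, 4, 6⟩ :=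
  out_sound (S := T5.ds_mm) T5.ok_mm (w := 49) (j := 3) (by decide +kernel)
theorem L04024 : Good (Phi V5.P V5.D (-1) (-1)) ⟨3, 7, 2, 2, 3, 3, 4, 8, 5, 14⟩ :=
  out_sound (S := T5.ds_mm) T5.ok_mm (w := 30) (j := 1) (by decide +kernel)
theorem L04025 : Good (Phi V5.P V5.D (-1) (-1)) ⟨3, 7, 2, 2, 4, 6, 4, 9, 5, 14⟩ :=
  leafX_sound T5.ok_mm T5.Ymm.bz_eq (w := 254) (c := ⟨⟨.negSucc 1823, .negSucc 140, .negSucc 54, .ofNat 12, .ofNat 40, .ofNat 1⟩, ⟨.ofNat 1049, .ofNat 235, .ofNat 257, .negSucc 7, .negSucc 24, .negSucc 0⟩, ⟨.ofNat 1816, .negSucc 117, .negSucc 136, .negSucc 657, .negSucc 274, .negSucc 0⟩, ⟨.negSucc 2783, .ofNat 46, .ofNat 1, .ofNat 63, .ofNat 125, .ofNat 1⟩, ⟨.negSucc 215, .ofNat 1, .ofNat 16, .ofNat 69, .ofNat 100, .ofNat 0⟩, .ofNat 387, .ofNat 292, .ofNat 0, .ofNat 292, .ofNat 645, .ofNat 0, .ofNat 128, .negSucc 276, .negSucc 2, .ofNat 0, .ofNat 276, .negSucc 24, .ofNat 0, .ofNat 0, .ofNat 1517, .ofNat 2913437, .ofNat 1140345505881466921338567362016654595724843563058462720,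 .ofNat 0, .ofNat 650508043199608200791245793729424237276251222441984, .ofNat 0, .ofNat 56843072941330812186198910729659343276465107714965504, .ofNat 0, .ofNat 171462630867437534305674397455013247914111194365952, .ofNat 32202684249393795400770656949234280474462370045819355136, .ofNat 128719475628981783840987455978072955588166916639817728, .ofNat 0, .ofNat 640802449298268554728709759378169581281539153461248, .ofNat 316988525754593787628644419936569419244543010031882207232, .ofNat 365179638979516443190569602426615513897680016412508160, .ofNat 0, .ofNat 414246051483080838831839998963661249952169886482432, .ofNat 431645283172018265654804288296128867567156523634371067904⟩)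
    (by decide +kernel)
theorem L04026 : Good (Phi V5.P V5.D (-1) (-1)) ⟨5, 28, 2, 2, 4, 7, 4, 9, 6, 28⟩ :=
  leafX_sound T5.ok_mm T5.Ymm.bz_eq (w := 260) (c := ⟨⟨.negSucc 1522, .ofNat 173, .negSucc 554, .negSucc 67, .negSucc 27, .negSucc 20⟩, ⟨.ofNat 868, .negSucc 60, .ofNat 545, .ofNat 45, .ofNat 20, .ofNat 14⟩, ⟨.ofNat 2309, .ofNat 433, .negSucc 1429, .negSucc 1247, .negSucc 780, .negSucc 544⟩, ⟨.negSucc 2572, .ofNat 143, .negSucc 296, .ofNat 23, .ofNat 106, .ofNat 39⟩, ⟨.negSucc 512, .negSucc 213, .ofNat 543, .ofNat 187, .ofNat 224, .ofNat 109⟩, .ofNat 381, .ofNat 281, .ofNat 0, .ofNat 281, .ofNat 617, .ofNat 0, .ofNat 128, .negSucc 255, .ofNat 102, .ofNat 0, .ofNat 262, .negSucc 128, .ofNat 0, .ofNat 0, .ofNat 3534, .ofNat 19869, .ofNat 10839177979256137939759442380226568153815063717656657920, .ofNat 0, .ofNat 82659426272129837425900725109482846070625076772864, .ofNat 6918651509850441027692684697793814418781764745882211713024, .ofNat 6602171231162501352000970106537986137639464944751607808,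 .ofNat 0, .ofNat 387932340931632791016689601447088811996386684829696, .ofNat 0, .ofNat 30010807473847325519004450586174234496905346959005450240, .ofNat 0, .ofNat 905587177555508434829515963618689571522426599112704, .ofNat 73543993894793604311736753861744380552244469042434545811456, .ofNat 0, .ofNat 0, .ofNat 0, .ofNat 0⟩)
    (by decide +kernel)
theorem L04027 : Good (Phi V5.P V5.D (-1) (-1)) ⟨5, 29, 2, 2, 4, 7, 4, 9, 6, 28⟩ :=
  out_sound (S := T5.ds_mm) T5.ok_mm (w := 17) (j := 4) (by decide +kernel)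
theorem L04028 : Good (Phi V5.P V5.D (-1) (-1)) ⟨4, 14, 2, 2, 4, 7, 4, 9, 6, 29⟩ :=
  leafX_sound T5.ok_mm T5.Ymm.bz_eq (w := 261) (c := ⟨⟨.negSucc 1364, .negSucc 259, .negSucc 127, .negSucc 355, .negSucc 125, .negSucc 225⟩, ⟨.ofNat 770, .ofNat 279, .ofNat 266, .ofNat 232, .ofNat 80, .ofNat 154⟩, ⟨.ofNat 3510, .negSucc 1140, .negSucc 1023, .negSucc 3079, .negSucc 1065, .negSucc 2139⟩, ⟨.negSucc 2421, .negSucc 35, .negSucc 35, .negSucc 149, .ofNat 34, .negSucc 57⟩, ⟨.negSucc 767, .ofNat 194, .ofNat 151, .ofNat 590, .ofNat 389, .ofNat 369⟩, .ofNat 387, .ofNat 293, .ofNat 0, .ofNat 293, .ofNat 645, .ofNat 0, .ofNat 128, .negSucc 351, .ofNat 585, .ofNat 0, .ofNat 352, .negSucc 518, .ofNat 0, .ofNat 0, .ofNat 7217, .ofNat 319977, .ofNat 13376648862038955391202987863135177622090421730113748992, .ofNat 0, .ofNat 2466047125336332118290250372621433073866994264047616, .ofNat 32131161940064218962315454272349733760254101072145660510208, .ofNat 6593781559779635345009182789659935253959142903111483392,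 .ofNat 0, .ofNat 1634265169396487670482514082503770257875927635591168, .ofNat 4677036661592186438719115972453753668680499318897780981760, .ofNat 38365283614492922866132715473291044820737196545315700736, .ofNat 0, .ofNat 0, .ofNat 86849734160078065809982121658705767754217182531620261855232, .ofNat 237642058967039446121909129870050003104419896001323597824, .ofNat 0, .ofNat 39547102651243973663952344107443981141429808158212096, .ofNat 325495539924035406723415160437288898348187890180174890663936⟩)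
    (by decide +kernel)
theorem L04029 : Good (Phi V5.P V5.D (-1) (-1)) ⟨4, 15, 2, 2, 4, 7, 4, 9, 5, 14⟩ :=
  out_sound (S := T5.ds_mm) T5.ok_mm (w := 49) (j := 3) (by decide +kernel)
theorem L04030 : Good (Phi V5.P V5.D (-1) (-1)) ⟨3, 7, 2, 2, 3, 3, 3, 4, 5, 15⟩ :=
  out_sound (S := T5.ds_mm) T5.ok_mm (w := 29) (j := 1) (by decide +kernel)
theorem L04031 : Good (Phi V5.P V5.D (-1) (-1)) ⟨4, 14, 2, 2, 4, 6, 4, 10, 6, 28⟩ :=
  leafX_sound T5.ok_mm T5.Ymm.bz_eq (w := 257) (c := ⟨⟨.negSucc 1759, .negSucc 7, .negSucc 116, .ofNat 4, .ofNat 47, .ofNat 23⟩, ⟨.ofNat 1024, .ofNat 102, .ofNat 258, .negSucc 1, .negSucc 27, .negSucc 14⟩, ⟨.ofNat 1612, .ofNat 163, .negSucc 285, .negSucc 741, .negSucc 303, .negSucc 193⟩, ⟨.negSucc 2665, .ofNat 60, .negSucc 27, .ofNat 78, .ofNat 148, .ofNat 57⟩, ⟨.negSucc 153, .negSucc 34, .ofNat 41, .ofNat 111, .ofNat 129, .ofNat 37⟩, .ofNat 887, .ofNat 1003, .ofNat 0, .ofNat 1003, .ofNat 1764, .ofNat 0, .ofNat 128, .negSucc 877, .ofNat 49,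 .ofNat 0, .ofNat 675, .negSucc 81, .ofNat 0, .ofNat 0, .ofNat 6977, .ofNat 28398, .ofNat 1020269685171040578055230680291828561815326012871802880, .ofNat 0, .ofNat 176854759537529500254488443054721255852461298548736, .ofNat 1321502114569329574264112986436067056759226437870997733376, .ofNat 303843287293569263415295921467775462402868833639464960, .ofNat 0, .ofNat 4560839857961102372761450377114756123457109964619776, .ofNat 1428307339860226517373630168505899180070565437012873052160, .ofNat 0, .ofNat 0, .ofNat 0, .ofNat 0, .ofNat 0, .ofNat 0, .ofNat 0, .ofNat 0⟩)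
    (by decide +kernel)
theorem L04032 : Good (Phi V5.P V5.D (-1) (-1)) ⟨4, 14, 2, 2, 4, 6, 4, 10, 6, 29⟩ :=
  leafX_sound T5.ok_mm T5.Ymm.bz_eq (w := 260) (c := ⟨⟨.negSucc 1686, .negSucc 111, .negSucc 40, .negSucc 56, .ofNat 15, .negSucc 11⟩, ⟨.ofNat 976, .ofNat 160, .ofNat 213, .ofNat 39, .negSucc 7, .ofNat 8⟩, ⟨.ofNat 1944, .negSucc 221, .negSucc 210, .negSucc 1188, .negSucc 487, .negSucc 453⟩, ⟨.negSucc 2576, .ofNat 29, .ofNat 5, .ofNat 48, .ofNat 122, .ofNat 47⟩, ⟨.negSucc 217, .ofNat 28, .ofNat 39, .ofNat 198, .ofNat 159, .ofNat 99⟩, .ofNat 884, .ofNat 999, .ofNat 0, .ofNat 999, .ofNat 1761, .ofNat 0, .ofNat 128, .negSucc 578, .ofNat 266, .ofNat 0, .ofNat 446, .negSucc 226, .ofNat 0, .ofNat 0, .ofNat 7041, .ofNat 274185, .ofNat 11794981862697801786614949181367979990298817398434693120, .ofNat 0, .ofNat 2183889987687490411456744807093387445230737985372160, .ofNat 29602853078586181888534579538370282989052583857174632988672, .ofNat 5563212664405463558277346344657190193130920177232248832,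 .ofNat 0, .ofNat 4294134708817432147933724745464124786818855229980672, .ofNat 0, .ofNat 19787759802087635643725058126342381948592048219539636224, .ofNat 0, .ofNat 8235651399507217311763321388720186999251614497243136, .ofNat 89835736455998726635360375510644143305850396134771901071360, .ofNat 0, .ofNat 0, .ofNat 0, .ofNat 1099607996495647733339678447773764271784974621125681799495680⟩)
    (by decide +kernel)
theorem L04033 : Good (Phi V5.P V5.D (-1) (-1)) ⟨5, 28, 2, 2, 5, 12, 4, 11, 5, 14⟩ :=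
  leafX_sound T5.ok_mm T5.Ymm.bz_eq (w := 268) (c := ⟨⟨.negSucc 1762, .negSucc 117, .ofNat 82, .negSucc 13, .ofNat 27, .ofNat 34⟩, ⟨.ofNat 1027, .ofNat 114, .ofNat 140, .ofNat 10, .negSucc 16, .negSucc 21⟩, ⟨.ofNat 1350, .negSucc 231, .ofNat 35, .negSucc 485, .negSucc 488, .negSucc 366⟩, ⟨.negSucc 2537, .ofNat 9, .ofNat 24, .ofNat 49, .ofNat 155, .ofNat 100⟩, ⟨.negSucc 67, .ofNat 42, .ofNat 4, .ofNat 107, .ofNat 177, .ofNat 79⟩, .ofNat 2346, .ofNat 3203, .ofNat 0, .ofNat 3203, .ofNat 5135, .ofNat 0, .ofNat 128, .negSucc 911, .ofNat 133, .ofNat 0, .ofNat 634, .negSucc 104, .ofNat 0, .ofNat 0, .ofNat 5941, .ofNat 12179, .ofNat 3684790231146016035418118166491622943322638367486396858368, .ofNat 0, .ofNat 22240495615357673377552114254334163035338488007360512, .ofNat 2383057246384369351157627884476529124676232286456812538953728, .ofNat 0, .ofNat 0, .ofNat 2272079518025921090318858053785596374881289295563325440, .ofNat 0, .ofNat 0, .ofNat 0, .ofNat 0, .ofNat 0, .ofNat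 0, .ofNat 0, .ofNat 0, .ofNat 0⟩)
    (by decide +kernel)
theorem L04034 : Good (Phi V5.P V5.D (-1) (-1)) ⟨5, 28, 2, 2, 5, 13, 4, 11, 6, 28⟩ :=
  leafX_sound T5.ok_mm T5.Ymm.bz_eq (w := 274) (c := ⟨⟨.negSucc 1669, .ofNat 15, .negSucc 166, .negSucc 31, .ofNat 13, .ofNat 14⟩, ⟨.ofNat 975, .ofNat 40, .ofNat 277, .ofNat 22, .negSucc 5, .negSucc 8⟩, ⟨.ofNat 1126, .ofNat 108, .negSucc 466, .negSucc 594, .negSucc 549, .negSucc 225⟩, ⟨.negSucc 2455, .ofNat 51, .negSucc 69, .ofNat 29, .ofNat 161, .ofNat 53⟩, ⟨.negSucc 32, .negSucc 52, .ofNat 111, .ofNat 120, .ofNat 226, .ofNat 50⟩, .ofNat 883, .ofNat 998, .ofNat 0, .ofNat 998, .ofNat 1762, .ofNat 0, .ofNat 128, .negSucc 891, .ofNat 323, .ofNat 0, .ofNat 685, .negSucc 287, .ofNat 0, .ofNat 0, .ofNat 9074, .ofNat 14447, .ofNat 0, .ofNat 0, .ofNat 0, .ofNat 0, .ofNat 0, .ofNat 0, .ofNat 23374135416032206397101857755868215688403313749145944064, .ofNat 0, .ofNat 0, .ofNat 0, .ofNat 0, .ofNat 0, .ofNat 0, .ofNat 0, .ofNat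 0, .ofNat 0⟩)
    (by decide +kernel)
theorem L04035 : Good (Phi V5.P V5.D (-1) (-1)) ⟨6, 56, 2, 2, 5, 13, 4, 11, 6, 29⟩ :=
  leafX_sound T5.ok_mm T5.Ymm.bz_eq (w := 278) (c := ⟨⟨.negSucc 1660, .negSucc 46, .negSucc 61, .negSucc 68, .negSucc 19, .negSucc 8⟩, ⟨.ofNat 975, .ofNat 58, .ofNat 196, .ofNat 45, .ofNat 15, .ofNat 7⟩, ⟨.ofNat 1091, .negSucc 222, .negSucc 233, .negSucc 883, .negSucc 774, .negSucc 423⟩, ⟨.negSucc 2420, .ofNat 8, .negSucc 10, .ofNat 19, .ofNat 150, .ofNat 39⟩, ⟨.negSucc 31, .ofNat 48, .ofNat 44, .ofNat 188, .ofNat 282, .ofNat 83⟩, .ofNat 385, .ofNat 289, .ofNat 0, .ofNat 289, .ofNat 642, .ofNat 0, .ofNat 128, .negSucc 250, .ofNat 242, .ofNat 0, .ofNat 253, .negSucc 277, .ofNat 0, .ofNat 0, .ofNat 4910, .ofNat 23198, .ofNat 847294828876255854852340637015750567037639701909930793500672, .ofNat 0, .ofNat 284859479225883483579547783376996769340131023857385472, .ofNat 0, .ofNat 0, .ofNat 0, .ofNat 928931570099005898369313935126499528825295536534847488,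 .ofNat 0, .ofNat 0, .ofNat 6301418160384989767945789441875768917000072580134068027392, .ofNat 507883724032969072311617963616362632556634408340160512, .ofNat 0, .ofNat 0, .ofNat 317650473320953917550537927046213696461487959105446397083648, .ofNat 43588073316293772586474968639046848920046523966094835712, .ofNat 0⟩)
    (by decide +kernel)
theorem L04036 : Good (Phi V5.P V5.D (-1) (-1)) ⟨6, 57, 3, 4, 5, 13, 4, 11, 6, 29⟩ :=
  out_sound (S := T5.ds_mm) T5.ok_mm (w := 63) (j := 3) (by decide +kernel)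
theorem L04037 : Good (Phi V5.P V5.D (-1) (-1)) ⟨6, 57, 3, 5, 5, 13, 4, 11, 6, 29⟩ :=
  leafX_sound T5.ok_mm T5.Ymm.bz_eq (w := 281) (c := ⟨⟨.negSucc 1712, .ofNat 11, .negSucc 94, .negSucc 73, .negSucc 8, .negSucc 29⟩, ⟨.ofNat 1131, .ofNat 49, .ofNat 77, .ofNat 49, .ofNat 6, .ofNat 20⟩, ⟨.ofNat 833, .negSucc 19, .negSucc 124, .negSucc 927, .negSucc 696, .negSucc 585⟩, ⟨.negSucc 2416, .ofNat 28, .negSucc 20, .ofNat 20, .ofNat 161, .ofNat 33⟩, ⟨.ofNat 1, .negSucc 13, .ofNat 77, .ofNat 199, .ofNat 269, .ofNat 118⟩, .ofNat 402, .ofNat 313, .ofNat 0, .ofNat 313, .ofNat 651, .ofNat 0, .ofNat 128, .negSucc 295, .ofNat 322, .ofNat 0, .ofNat 293, .negSucc 349, .ofNat 0, .ofNat 0, .ofNat 5617, .ofNat 28438, .ofNat 8457364323818095395131010018863162392465581145713811971375104, .ofNat 0, .ofNat 1401397790064088784038226828677613031394037200444194816, .ofNat 9292493871878184340149124200937355479312001157738608521247719424, .ofNat 0, .ofNat 0, .ofNat 3498523714314909342938539206988724499325467958691495936,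 .ofNat 26802558664250292643878035286807771162213559010997509125836898304, .ofNat 0, .ofNat 62304924901527828113970436802219086095787824782514541559808, .ofNat 1731234275633728806760390126143126759492315481844482048, .ofNat 117479699098451836126354135188775779339200132627720850073035210752, .ofNat 0, .ofNat 3652521655033797721001732837787350138232270628688383442944000, .ofNat 189496938588807415875801396913253737994069368075284643840, .ofNat 1210549764609357096108383591180514522217161847147387733558085812224⟩)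
    (by decide +kernel)
theorem L04038 : Good (Phi V5.P V5.D (-1) (-1)) ⟨5, 29, 2, 2, 4, 6, 4, 11, 5, 14⟩ :=
  out_sound (S := T5.ds_mm) T5.ok_mm (w := 17) (j := 4) (by decide +kernel)
theorem L04039 : Good (Phi V5.P V5.D (-1) (-1)) ⟨4, 15, 2, 2, 4, 6, 3, 5, 5, 14⟩ :=
  out_sound (S := T5.ds_mm) T5.ok_mm (w := 49) (j := 3) (by decide +kernel)
theorem L04040 : Good (Phi V5.P V5.D (-1) (-1)) ⟨4, 14, 2, 2, 4, 6, 4, 10, 5, 15⟩ :=
  out_sound (S := T5.ds_mm) T5.ok_mm (w := 32) (j := 1) (by decide +kernel)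
theorem L04041 : Good (Phi V5.P V5.D (-1) (-1)) ⟨5, 28, 2, 2, 5, 12, 5, 22, 6, 30⟩ :=
  out_sound (S := T5.ds_mm) T5.ok_mm (w := 37) (j := 1) (by decide +kernel)
theorem L04042 : Good (Phi V5.P V5.D (-1) (-1)) ⟨5, 28, 3, 4, 5, 12, 5, 23, 6, 30⟩ :=
  leafX_sound T5.ok_mm T5.Ymm.bz_eq (w := 287) (c := ⟨⟨.negSucc 1616, .negSucc 69, .negSucc 17, .negSucc 60, .negSucc 11, .negSucc 17⟩, ⟨.ofNat 949, .ofNat 96, .ofNat 87, .ofNat 41, .ofNat 10, .ofNat 12⟩, ⟨.ofNat 1180, .negSucc 223, .negSucc 70, .negSucc 833, .negSucc 406, .negSucc 442⟩, ⟨.negSucc 2333, .ofNat 24, .ofNat 3, .ofNat 28, .ofNat 69, .ofNat 38⟩, ⟨.ofNat 2, .ofNat 44, .ofNat 14, .ofNat 182, .ofNat 136, .ofNat 100⟩, .ofNat 850, .ofNat 956, .ofNat 0, .ofNat 956, .ofNat 1724, .ofNat 0, .ofNat 128, .negSucc 701, .ofNat 482, .ofNat 0, .ofNat 540, .negSucc 404, .ofNat 0, .ofNat 0, .ofNat 9742, .ofNat 1092050, .ofNat 192840745297299635060316566744518499498956264959348527297724416, .ofNat 0, .ofNat 1408226538700169431215724820117717095571361599606252109824,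 .ofNat 0, .ofNat 36215082387868001698966515943052788656273752487174086768721920, .ofNat 0, .ofNat 1908112566817323268723455765091030731691060855331021127680, .ofNat 0, .ofNat 232648531543411024126664797544423382499511879546242848924893184, .ofNat 0, .ofNat 0, .ofNat 0, .ofNat 0, .ofNat 0, .ofNat 77482635615363321522892239613760277025523029066367606194176, .ofNat 0⟩)
    (by decide +kernel)
theorem L04043 : Good (Phi V5.P V5.D (-1) (-1)) ⟨5, 28, 3, 5, 5, 12, 5, 23, 7, 60⟩ :=
  leafX_sound T5.ok_mm T5.Ymm.bz_eq (w := 291) (c := ⟨⟨.negSucc 1621, .negSucc 95, .ofNat 8, .negSucc 73, .negSucc 8, .negSucc 18⟩, ⟨.ofNat 1030, .ofNat 110, .ofNat 76, .ofNat 49, .ofNat 6, .ofNat 13⟩, ⟨.ofNat 1173, .negSucc 268, .negSucc 42, .negSucc 933, .negSucc 373, .negSucc 306⟩, ⟨.negSucc 2338, .ofNat 7, .ofNat 20, .ofNat 29, .ofNat 81, .ofNat 15⟩, ⟨.negSucc 15, .ofNat 82, .negSucc 27, .ofNat 204, .ofNat 143, .ofNat 65⟩, .ofNat 391, .ofNat 298, .ofNat 0, .ofNat 298, .ofNat 646, .ofNat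 0, .ofNat 128, .negSucc 252, .ofNat 283, .ofNat 0, .ofNat 254, .negSucc 334, .ofNat 0, .ofNat 0, .ofNat 5651, .ofNat 478758, .ofNat 741076050143477094441936689075030450806368340026597510330974208, .ofNat 0, .ofNat 46107998575948867204641989940749556782497844712626471305216, .ofNat 17329767288637353681371730789693435631595034857325297158641934139392, .ofNat 48120003781286286572939393818817969373791831173157760236781568, .ofNat 0, .ofNat 5717614860394809573113589681954124784877097343926103179264, .ofNat 0, .ofNat 366862646348012003374258077616403051954287172134439657574236160, .ofNat 0, .ofNat 52261314700866347939022178183185276026520013232065782743040, .ofNat 3690673329667143048920940216420587060830225396128039495214615756800, .ofNat 0, .ofNat 0, .ofNat 0, .ofNat 0⟩)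
    (by decide +kernel)
theorem L04044 : Good (Phi V5.P V5.D (-1) (-1)) ⟨5, 28, 3, 5, 5, 12, 5, 23, 7, 61⟩ :=
  out_sound (S := T5.ds_mm) T5.ok_mm (w := 39) (j := 1) (by decide +kernel)
theorem L04045 : Good (Phi V5.P V5.D (-1) (-1)) ⟨5, 29, 2, 2, 5, 12, 4, 11, 6, 30⟩ :=
  out_sound (S := T5.ds_mm) T5.ok_mm (w := 17) (j := 4) (by decide +kernel)
theorem L04046 : Good (Phi V5.P V5.D (-1) (-1)) ⟨4, 14, 3, 4, 5, 13, 4, 11, 7, 60⟩ :=
  leafX_sound T5.ok_mm T5.Ymm.bz_eq (w := 280) (c := ⟨⟨.negSucc 1575, .negSucc 106, .negSucc 81, .negSucc 145, .negSucc 50, .negSucc 36⟩, ⟨.ofNat 927, .ofNat 189, .ofNat 122, .ofNat 96, .ofNat 37, .ofNat 24⟩, ⟨.ofNat 1375, .negSucc 282, .negSucc 528, .negSucc 1464, .negSucc 961, .negSucc 468⟩, ⟨.negSucc 2357, .ofNat 68, .negSucc 14, .negSucc 12, .ofNat 140, .ofNat 9⟩, ⟨.negSucc 115, .ofNat 41, .ofNat 110, .ofNat 313, .ofNat 342, .ofNat 99⟩, .ofNat 845, .ofNat 950, .ofNat 0, .ofNat 950, .ofNat 1717, .ofNat 0, .ofNat 128, .negSucc 866,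 .ofNat 1047, .ofNat 0, .ofNat 668, .negSucc 810, .ofNat 0, .ofNat 0, .ofNat 14451, .ofNat 96774, .ofNat 982636909779601925820597041268571406372227732211312864788480, .ofNat 0, .ofNat 418783737607787667566976419100481801444524793185779580928, .ofNat 0, .ofNat 474600136867585814810876443664992344499578149257293754007552, .ofNat 0, .ofNat 13012869357074523911789499387270453426002369100748723060736, .ofNat 0, .ofNat 3853591441499480381529474051805720019721850372736149104885760, .ofNat 0, .ofNat 113384437480627110092377837039922119827468540837231205548032, .ofNat 0, .ofNat 0, .ofNat 445546715364391365632475090304688034733824336319234709651456, .ofNat 140697781294542943846714336443825439019088410480312817025024, .ofNat 0⟩)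
    (by decide +kernel)
theorem L04047 : Good (Phi V5.P V5.D (-1) (-1)) ⟨5, 28, 3, 5, 5, 13, 5, 22, 7, 60⟩ :=
  leafX_sound T5.ok_mm T5.Ymm.bz_eq (w := 292) (c := ⟨⟨.negSucc 1532, .negSucc 67, .negSucc 116, .negSucc 225, .negSucc 71, .negSucc 87⟩, ⟨.ofNat 966, .ofNat 106, .ofNat 148, .ofNat 150, .ofNat 48, .ofNat 59⟩, ⟨.ofNat 1759, .negSucc 462, .negSucc 578, .negSucc 2042, .negSucc 765, .negSucc 894⟩, ⟨.negSucc 2303, .ofNat 15, .negSucc 9, .negSucc 49, .ofNat 37, .negSucc 4⟩, ⟨.negSucc 160, .ofNat 77, .ofNat 116, .ofNat 410, .ofNat 214, .ofNat 179⟩, .ofNat 1061, .ofNat 1258, .ofNat 0, .ofNat 1258, .ofNat 2122, .ofNat 0, .ofNat 128, .negSucc 627, .ofNat 661, .ofNat 0, .ofNat 469, .negSucc 498, .ofNat 0, .ofNat 0, .ofNat 9884, .ofNat 1375650, .ofNat 2032894105742879257929796289925193799986470673512921400296341504, .ofNat 0, .ofNat 130246267413328006702256677554776911090126855341309618552832, .ofNat 45422311260267008188746669695881427213134351266260600574254507884544,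 .ofNat 389698870097350043532690098782383906898436977003187627836309504, .ofNat 0, .ofNat 62792608990802325372383010894812069358052035780517424005120, .ofNat 5036639189588759496730677937542348518060892875355462704549542756352, .ofNat 2449710545942574703240352938011142768299387338559363814225084416, .ofNat 0, .ofNat 141461040516275795453723026988877783384997602647055978725376, .ofNat 51819920926000300605314373323377807038028315742187324132555306827776, .ofNat 14421947276554081429873917442192030541534471781823076151437819904, .ofNat 0, .ofNat 1773216676029660554297827107606674243418980790201833740042240, .ofNat 710141307821372879199053374292649411890541615465534911563596470157312⟩)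
    (by decide +kernel)
theorem L04048 : Good (Phi V5.P V5.D (-1) (-1)) ⟨6, 56, 4, 10, 5, 13, 5, 23, 7, 60⟩ :=
  leafX_sound T5.ok_mm T5.Ymm.bz_eq (w := 296) (c := ⟨⟨.negSucc 1660, .negSucc 21, .negSucc 60, .negSucc 179, .negSucc 39, .negSucc 40⟩, ⟨.ofNat 1051, .ofNat 47, .ofNat 71, .ofNat 119, .ofNat 27, .ofNat 27⟩, ⟨.ofNat 570, .negSucc 121, .negSucc 316, .negSucc 1718, .negSucc 590, .negSucc 496⟩, ⟨.negSucc 2306, .ofNat 23, .negSucc 16, .negSucc 15, .ofNat 71, .ofNat 10⟩, ⟨.ofNat 121, .ofNat 10, .ofNat 76, .ofNat 368, .ofNat 198, .ofNat 105⟩, .ofNat 892, .ofNat 1009, .ofNat 0, .ofNat 1009, .ofNat 1772, .ofNat 0, .ofNat 128, .negSucc 733, .ofNat 918, .ofNat 0, .ofNat 566, .negSucc 712, .ofNat 0, .ofNat 0, .ofNat 12154, .ofNat 190383, .ofNat 29170333188099682101679805075080417401409432760243935242411311104, .ofNat 0, .ofNat 44371927416749984038554501148447053743681578155804760997888, .ofNat 0, .ofNat 0, .ofNat 8590788634840388434698433741511978801749094347353664872513536,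 .ofNat 73042788627118951402802732939416975148573070330861251985408, .ofNat 0, .ofNat 0, .ofNat 232584868988545081366735444446485108165125179823611666187157504, .ofNat 36485415369604597131856565116149011209582139685422141276160, .ofNat 0, .ofNat 0, .ofNat 6719991279245993210510155766525143541434884949610759410864357376, .ofNat 1609035144712604150318338295202437370841838494489937690230784, .ofNat 0⟩)
    (by decide +kernel)
theorem L04049 : Good (Phi V5.P V5.D (-1) (-1)) ⟨6, 57, 4, 10, 5, 13, 5, 23, 7, 60⟩ :=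
  leafX_sound T5.ok_mm T5.Ymm.bz_eq (w := 297) (c := ⟨⟨.negSucc 1682, .negSucc 62, .negSucc 28, .negSucc 210, .negSucc 39, .negSucc 53⟩, ⟨.ofNat 1095, .ofNat 71, .ofNat 55, .ofNat 142, .ofNat 27, .ofNat 36⟩, ⟨.ofNat 519, .negSucc 276, .negSucc 236, .negSucc 1942, .negSucc 575, .negSucc 600⟩, ⟨.negSucc 2272, .negSucc 0, .ofNat 0, .negSucc 35, .ofNat 56, .ofNat 13⟩, ⟨.ofNat 154, .ofNat 48, .ofNat 41, .ofNat 391, .ofNat 169, .ofNat 132⟩, .ofNat 3726, .ofNat 5131, .ofNat 0, .ofNat 5131, .ofNat 7802, .ofNat 0, .ofNat 128, .negSucc 1587, .ofNat 1743, .ofNat 0, .ofNat 1128, .negSucc 1238, .ofNat 0, .ofNat 0, .ofNat 20877, .ofNat 279551, .ofNat 52060497420859858929327936631154211812019906510287672344229969920, .ofNat 30358466400864399909835886779497284153615963837671921502126080, .ofNat 29886086322467052229183428876263092747697753655063110221824, .ofNat 390908178730607666501370153078283485447648222055276976371720309964800, .ofNat 0, .ofNat 144330645891270145827454218396079093678306879060901698719449088,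 .ofNat 282089371514621567875995946687912129691206623731338501423104, .ofNat 0, .ofNat 0, .ofNat 434837216338399612390021793934629217805312870061596112987357184, .ofNat 0, .ofNat 15041762790802146171860117486042750556776233614750841381511927189995520, .ofNat 0, .ofNat 19658751831554805537885656230478970331782391313297393555907543040, .ofNat 564325804268982161112731571885859803275394624400999007125504, .ofNat 39041158378732681717126428714231479280765400893755527864006289381130240⟩)
    (by decide +kernel)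
theorem L04050 : Good (Phi V5.P V5.D (-1) (-1)) ⟨6, 56, 4, 11, 5, 13, 5, 23, 7, 60⟩ :=
  out_sound (S := T5.ds_mm) T5.ok_mm (w := 65) (j := 3) (by decide +kernel)
theorem L04051 : Good (Phi V5.P V5.D (-1) (-1)) ⟨7, 114, 5, 22, 5, 13, 5, 23, 7, 60⟩ :=
  out_sound (S := T5.ds_mm) T5.ok_mm (w := 73) (j := 3) (by decide +kernel)
theorem L04052 : Good (Phi V5.P V5.D (-1) (-1)) ⟨7, 115, 5, 22, 5, 13, 5, 23, 7, 60⟩ :=
  out_sound (S := T5.ds_mm) T5.ok_mm (w := 21) (j := 4) (by decide +kernel)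
theorem L04053 : Good (Phi V5.P V5.D (-1) (-1)) ⟨6, 57, 5, 23, 5, 13, 5, 23, 7, 60⟩ :=
  out_sound (S := T5.ds_mm) T5.ok_mm (w := 67) (j := 3) (by decide +kernel)
theorem L04054 : Good (Phi V5.P V5.D (-1) (-1)) ⟨5, 29, 3, 5, 5, 13, 4, 11, 7, 60⟩ :=
  out_sound (S := T5.ds_mm) T5.ok_mm (w := 17) (j := 4) (by decide +kernel)
theorem L04055 : Good (Phi V5.P V5.D (-1) (-1)) ⟨4, 14, 2, 2, 5, 13, 5, 22, 7, 61⟩ :=
  out_sound (S := T5.ds_mm) T5.ok_mm (w := 39) (j := 1) (by decide +kernel)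
theorem L04056 : Good (Phi V5.P V5.D (-1) (-1)) ⟨4, 14, 2, 2, 5, 13, 6, 46, 7, 61⟩ :=
  out_sound (S := T5.ds_mm) T5.ok_mm (w := 40) (j := 1) (by decide +kernel)
theorem L04057 : Good (Phi V5.P V5.D (-1) (-1)) ⟨4, 14, 2, 2, 6, 26, 7, 94, 8, 122⟩ :=
  out_sound (S := T5.ds_mm) T5.ok_mm (w := 45) (j := 1) (by decide +kernel)
theorem L04058 : Good (Phi V5.P V5.D (-1) (-1)) ⟨4, 14, 2, 2, 7, 52, 7, 95, 9, 244⟩ :=
  out_sound (S := T5.ds_mm) T5.ok_mm (w := 49) (j := 1) (by decide +kernel)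
theorem L04059 : Good (Phi V5.P V5.D (-1) (-1)) ⟨4, 14, 2, 2, 7, 53, 8, 190, 9, 244⟩ :=
  out_sound (S := T5.ds_mm) T5.ok_mm (w := 50) (j := 1) (by decide +kernel)
theorem L04060 : Good (Phi V5.P V5.D (-1) (-1)) ⟨4, 14, 2, 2, 8, 106, 9, 382, 10, 488⟩ :=
  out_sound (S := T5.ds_mm) T5.ok_mm (w := 55) (j := 1) (by decide +kernel)
theorem L04061 : Good (Phi V5.P V5.D (-1) (-1)) ⟨4, 14, 2, 2, 9, 212, 9, 383, 11, 976⟩ :=
  out_sound (S := T5.ds_mm) T5.ok_mm (w := 59) (j := 1) (by decide +kernel)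
theorem L04062 : Good (Phi V5.P V5.D (-1) (-1)) ⟨4, 14, 2, 2, 10, 426, 9, 383, 11, 976⟩ :=
  out_sound (S := T5.ds_mm) T5.ok_mm (w := 61) (j := 1) (by decide +kernel)
theorem L04063 : Good (Phi V5.P V5.D (-1) (-1)) ⟨4, 14, 2, 2, 10, 427, 9, 383, 11, 976⟩ :=
  out_sound (S := T5.ds_mm) T5.ok_mm (w := 74) (j := 2) (by decide +kernel)
theorem L04064 : Good (Phi V5.P V5.D (-1) (-1)) ⟨4, 14, 2, 2, 8, 106, 9, 383, 11, 977⟩ :=
  out_sound (S := T5.ds_mm) T5.ok_mm (w := 57) (j := 1) (by decide +kernel)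
theorem L04065 : Good (Phi V5.P V5.D (-1) (-1)) ⟨4, 14, 2, 2, 8, 107, 8, 191, 10, 488⟩ :=
  out_sound (S := T5.ds_mm) T5.ok_mm (w := 66) (j := 2) (by decide +kernel)
theorem L04066 : Good (Phi V5.P V5.D (-1) (-1)) ⟨4, 14, 2, 2, 8, 106, 8, 191, 10, 489⟩ :=
  out_sound (S := T5.ds_mm) T5.ok_mm (w := 54) (j := 1) (by decide +kernel)
theorem L04067 : Good (Phi V5.P V5.D (-1) (-1)) ⟨4, 14, 2, 2, 8, 107, 8, 191, 10, 489⟩ :=
  out_sound (S := T5.ds_mm) T5.ok_mm (w := 66) (j := 2) (by decide +kernel)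
theorem L04068 : Good (Phi V5.P V5.D (-1) (-1)) ⟨4, 14, 2, 2, 6, 26, 7, 95, 9, 245⟩ :=
  out_sound (S := T5.ds_mm) T5.ok_mm (w := 47) (j := 1) (by decide +kernel)
theorem L04069 : Good (Phi V5.P V5.D (-1) (-1)) ⟨4, 14, 2, 2, 6, 26, 6, 47, 8, 123⟩ :=
  out_sound (S := T5.ds_mm) T5.ok_mm (w := 44) (j := 1) (by decide +kernel)
theorem L04070 : Good (Phi V5.P V5.D (-1) (-1)) ⟨4, 14, 2, 2, 7, 54, 8, 188, 9, 244⟩ :=
  out_sound (S := T5.ds_mm) T5.ok_mm (w := 50) (j := 1) (by decide +kernel)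
theorem L04071 : Good (Phi V5.P V5.D (-1) (-1)) ⟨4, 14, 2, 2, 8, 108, 8, 189, 9, 244⟩ :=
  out_sound (S := T5.ds_mm) T5.ok_mm (w := 52) (j := 1) (by decide +kernel)
theorem L04072 : Good (Phi V5.P V5.D (-1) (-1)) ⟨4, 14, 2, 2, 8, 109, 8, 189, 9, 244⟩ :=
  out_sound (S := T5.ds_mm) T5.ok_mm (w := 64) (j := 2) (by decide +kernel)
theorem L04073 : Good (Phi V5.P V5.D (-1) (-1)) ⟨4, 14, 2, 2, 7, 54, 7, 94, 9, 245⟩ :=
  out_sound (S := T5.ds_mm) T5.ok_mm (w := 49) (j := 1) (by decide +kernel)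
theorem L04074 : Good (Phi V5.P V5.D (-1) (-1)) ⟨4, 14, 2, 2, 7, 54, 7, 94, 8, 123⟩ :=
  out_sound (S := T5.ds_mm) T5.ok_mm (w := 47) (j := 1) (by decide +kernel)
theorem L04075 : Good (Phi V5.P V5.D (-1) (-1)) ⟨4, 14, 2, 2, 7, 54, 7, 95, 7, 61⟩ :=
  out_sound (S := T5.ds_mm) T5.ok_mm (w := 56) (j := 2) (by decide +kernel)
theorem L04076 : Good (Phi V5.P V5.D (-1) (-1)) ⟨4, 14, 2, 2, 7, 55, 6, 47, 7, 61⟩ :=
  out_sound (S := T5.ds_mm) T5.ok_mm (w := 54) (j := 2) (by decide +kernel)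
theorem L04077 : Good (Phi V5.P V5.D (-1) (-1)) ⟨4, 14, 2, 2, 4, 6, 4, 11, 6, 31⟩ :=
  out_sound (S := T5.ds_mm) T5.ok_mm (w := 34) (j := 1) (by decide +kernel)
theorem L04078 : Good (Phi V5.P V5.D (-1) (-1)) ⟨4, 15, 2, 2, 4, 6, 3, 5, 5, 15⟩ :=
  out_sound (S := T5.ds_mm) T5.ok_mm (w := 49) (j := 3) (by decide +kernel)
theorem L04079 : Good (Phi V5.P V5.D (-1) (-1)) ⟨4, 14, 2, 2, 5, 14, 4, 10, 6, 28⟩ :=
  leafX_sound T5.ok_mm T5.Ymm.bz_eq (w := 270) (c := ⟨⟨.negSucc 1852, .negSucc 388, .ofNat 218, .negSucc 42, .ofNat 0, .ofNat 12⟩, ⟨.ofNat 1072, .ofNat 322, .ofNat 75, .ofNat 29, .ofNat 1, .negSucc 6⟩, ⟨.ofNat 979, .negSucc 763, .ofNat 73, .negSucc 684, .negSucc 605, .negSucc 301⟩, ⟨.negSucc 2618, .negSucc 54, .ofNat 75, .ofNat 13, .ofNat 136, .ofNat 51⟩, ⟨.negSucc 70, .ofNat 150, .negSucc 29, .ofNat 111, .ofNat 210, .ofNat 51⟩, .ofNat 885, .ofNat 999, .ofNat 0, .ofNat 999, .ofNat 1761, .ofNat 0, .ofNat 128, .negSucc 833, .ofNat 396, .ofNat 0, .ofNat 642, .negSucc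 326, .ofNat 0, .ofNat 0, .ofNat 9510, .ofNat 18982, .ofNat 2498125919832997159355480574084720336711460396689128423424, .ofNat 0, .ofNat 2688224406968958593065768805131464573004249362933481472, .ofNat 29941396053102083065341933942609879085261585114082943703187456, .ofNat 0, .ofNat 0, .ofNat 82957677430633314535871851012299049730418197350947225600, .ofNat 163034067216477491140646347439946502263369207087555759826796544, .ofNat 0, .ofNat 0, .ofNat 82440817473733286803648512275738525036173139527174455296, .ofNat 0, .ofNat 0, .ofNat 0, .ofNat 0, .ofNat 0⟩)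
    (by decide +kernel)
theorem L04080 : Good (Phi V5.P V5.D (-1) (-1)) ⟨4, 14, 3, 4, 5, 14, 4, 10, 6, 29⟩ :=
  leafX_sound T5.ok_mm T5.Ymm.bz_eq (w := 275) (c := ⟨⟨.negSucc 1775, .negSucc 485, .ofNat 161, .negSucc 138, .negSucc 84, .negSucc 53⟩, ⟨.ofNat 1036, .ofNat 405, .negSucc 13, .ofNat 92, .ofNat 59, .ofNat 36⟩, ⟨.ofNat 1063, .negSucc 1516, .ofNat 520, .negSucc 1396, .negSucc 1191, .negSucc 798⟩, ⟨.negSucc 2593, .negSucc 188, .ofNat 122, .negSucc 26, .ofNat 99, .ofNat 22⟩, ⟨.negSucc 81, .ofNat 393, .negSucc 165, .ofNat 276, .ofNat 350, .ofNat 159⟩, .ofNat 845, .ofNat 950, .ofNat 0, .ofNat 950, .ofNat 1716, .ofNat 0, .ofNat 128, .negSucc 655, .ofNat 779, .ofNat 0, .ofNat 505, .negSucc 596, .ofNat 0, .ofNat 0, .ofNat 12006, .ofNat 82189, .ofNat 102256582502716078327762347459335317193146610612386576465920, .ofNat 0, .ofNat 14177789597948072760195065279542007298360345566124179456, .ofNat 0, .ofNat 14961885371209629912380386022386507603216896077710973992960,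 .ofNat 0, .ofNat 387625970246972644744445815074676868948403645103864807424, .ofNat 0, .ofNat 502519005117725761436468428123551618087550190047857368629248, .ofNat 0, .ofNat 2663880240127578005473471140491005198310450374681592594432, .ofNat 0, .ofNat 0, .ofNat 0, .ofNat 0, .ofNat 0⟩)
    (by decide +kernel)
theorem L04081 : Good (Phi V5.P V5.D (-1) (-1)) ⟨4, 14, 3, 5, 5, 14, 5, 20, 6, 29⟩ :=
  leafX_sound T5.ok_mm T5.Ymm.bz_eq (w := 282) (c := ⟨⟨.negSucc 1693, .negSucc 195, .negSucc 17, .negSucc 84, .negSucc 26, .negSucc 80⟩, ⟨.ofNat 1075, .ofNat 216, .ofNat 109, .ofNat 56, .ofNat 19, .ofNat 54⟩, ⟨.ofNat 1109, .negSucc 442, .negSucc 319, .negSucc 993, .negSucc 483, .negSucc 983⟩, ⟨.negSucc 2503, .negSucc 36, .ofNat 21, .negSucc 7, .ofNat 53, .ofNat 12⟩, ⟨.negSucc 118, .ofNat 145, .ofNat 9, .ofNat 173, .ofNat 140, .ofNat 188⟩, .ofNat 391, .ofNat 298, .ofNat 0, .ofNat 298, .ofNat 646, .ofNat 0, .ofNat 128, .negSucc 271, .ofNat 327, .ofNat 0, .ofNat 271, .negSucc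 323, .ofNat 0, .ofNat 0, .ofNat 5410, .ofNat 472024, .ofNat 4881352783056036580985178743311711413042180442062467945725952, .ofNat 0, .ofNat 920090511219698942851977919946356753468644268472788844544, .ofNat 86078308619296292159648975942669332344082362900940774414200340480, .ofNat 543546479585749995220184520029289000194915278011321144049664, .ofNat 0, .ofNat 1898151222287679664370358402630485925838229948473934872576, .ofNat 31198243498342081066395313556991191418371799142486029461820014592, .ofNat 3611577938720390856385097492279104459017644380437660894756864, .ofNat 0, .ofNat 2692661234620020010798250397964242518852306056557877002240, .ofNat 84189120143615683129232912462613913868655022743899229890656862208, .ofNat 29903095778768743457060261460398998603691652073379995551006720, .ofNat 0, .ofNat 17217360106632863276387949361372214666013316851073416167424, .ofNat 1019319793916090411481101743514321576622025913351677989192630009856⟩)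
    (by decide +kernel)
theorem L04082 : Good (Phi V5.P V5.D (-1) (-1)) ⟨5, 28, 4, 10, 5, 14, 5, 21, 6, 29⟩ :=
  leafX_sound T5.ok_mm T5.Ymm.bz_eq (w := 285) (c := ⟨⟨.negSucc 1649, .negSucc 318, .ofNat 103, .negSucc 133, .negSucc 11, .negSucc 120⟩, ⟨.ofNat 1048, .ofNat 252, .negSucc 18, .ofNat 88, .ofNat 8, .ofNat 80⟩, ⟨.ofNat 955, .negSucc 984, .ofNat 194, .negSucc 1345, .negSucc 366, .negSucc 1328⟩, ⟨.negSucc 2423, .negSucc 136, .ofNat 79, .negSucc 22, .ofNat 68, .negSucc 2⟩, ⟨.negSucc 108, .ofNat 377, .negSucc 140, .ofNat 268, .ofNat 138, .ofNat 269⟩, .ofNat 393, .ofNat 301, .ofNat 0, .ofNat 301, .ofNat 646, .ofNat 0, .ofNat 128, .negSucc 280, .ofNat 395, .ofNat 0, .ofNat 280, .negSucc 386, .ofNat 0, .ofNat 0, .ofNat 5872, .ofNat 39909, .ofNat 53034771494012439641270861651447948779369181684962608275259392, .ofNat 14629960156279696881410668384050786020005318209603094183936, .ofNat 112560421444548485285745094729966144961233378763517984768, .ofNat 149902780980122869195348756179900512478551903934489929806944141312,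 .ofNat 0, .ofNat 56104993214190906613290047316429061142584835904932675584000, .ofNat 1618270114577359760396892674894782387015503268948255703040, .ofNat 0, .ofNat 50243254620837084711444139956362590872478236698056681284698112, .ofNat 0, .ofNat 3495183384207794843340622913013401185435796611505049305088, .ofNat 0, .ofNat 97789671222868030937050593202962422167071129821111937595867136, .ofNat 7773970440542266727308284008029142055124477850387554815180800, .ofNat 9251432670985199008940390588014806299019167333622241820672, .ofNat 18537807896351381720752645409171296228104965079712134995184080388096⟩)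
    (by decide +kernel)
theorem L04083 : Good (Phi V5.P V5.D (-1) (-1)) ⟨6, 56, 4, 11, 5, 14, 5, 21, 6, 29⟩ :=
  out_sound (S := T5.ds_mm) T5.ok_mm (w := 65) (j := 3) (by decide +kernel)
theorem L04084 : Good (Phi V5.P V5.D (-1) (-1)) ⟨7, 114, 5, 22, 5, 14, 5, 21, 6, 29⟩ :=
  out_sound (S := T5.ds_mm) T5.ok_mm (w := 73) (j := 3) (by decide +kernel)
theorem L04085 : Good (Phi V5.P V5.D (-1) (-1)) ⟨7, 115, 5, 22, 5, 14, 5, 21, 6, 29⟩ :=
  out_sound (S := T5.ds_mm) T5.ok_mm (w := 21) (j := 4) (by decide +kernel)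
theorem L04086 : Good (Phi V5.P V5.D (-1) (-1)) ⟨6, 57, 5, 23, 5, 14, 5, 21, 6, 29⟩ :=
  out_sound (S := T5.ds_mm) T5.ok_mm (w := 67) (j := 3) (by decide +kernel)
theorem L04087 : Good (Phi V5.P V5.D (-1) (-1)) ⟨5, 29, 3, 5, 5, 14, 5, 21, 6, 29⟩ :=
  out_sound (S := T5.ds_mm) T5.ok_mm (w := 17) (j := 4) (by decide +kernel)
theorem L04088 : Good (Phi V5.P V5.D (-1) (-1)) ⟨4, 15, 2, 2, 5, 14, 4, 10, 5, 14⟩ :=
  out_sound (S := T5.ds_mm) T5.ok_mm (w := 49) (j := 3) (by decide +kernel)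
theorem L04089 : Good (Phi V5.P V5.D (-1) (-1)) ⟨5, 28, 2, 2, 5, 15, 5, 20, 6, 28⟩ :=
  leafX_sound T5.ok_mm T5.Ymm.bz_eq (w := 279) (c := ⟨⟨.negSucc 1645, .ofNat 17, .negSucc 263, .negSucc 138, .negSucc 42, .negSucc 37⟩, ⟨.ofNat 949, .ofNat 38, .ofNat 360, .ofNat 91, .ofNat 29, .ofNat 26⟩, ⟨.ofNat 962, .negSucc 134, .negSucc 609, .negSucc 1298, .negSucc 557, .negSucc 691⟩, ⟨.negSucc 2516, .ofNat 48, .negSucc 94, .negSucc 35, .ofNat 49, .ofNat 30⟩, ⟨.negSucc 127, .negSucc 17, .ofNat 159, .ofNat 251, .ofNat 174, .ofNat 133⟩, .ofNat 820, .ofNat 889, .ofNat 0, .ofNat 889, .ofNat 1567, .ofNat 0, .ofNat 128, .negSucc 544, .ofNat 600, .ofNat 0, .ofNat 436, .negSucc 471, .ofNat 0, .ofNat 0, .ofNat 9001, .ofNat 29650, .ofNat 410908217439132222150876554299078517751349631666316847874048, .ofNat 0, .ofNat 18193607257481376773341121971303050413921628125600415744, .ofNat 3259502922698903796116347059820004664999695727275571107009134592, .ofNat 0, .ofNat 0, .ofNat 231534534686961328621917732145683793659053566748514058240,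 .ofNat 0, .ofNat 0, .ofNat 0, .ofNat 585566951597541933759194567765301165297950579801295159296, .ofNat 91356763917461819570837254886150887017037214675143314340363370496, .ofNat 0, .ofNat 257983758906426997329614391447942691501821446877708382371840, .ofNat 4806077305254866851173614616706993860491077788294824591360, .ofNat 1515264828191651475408339148066992847316736199748033986986099343360⟩)
    (by decide +kernel)
theorem L04090 : Good (Phi V5.P V5.D (-1) (-1)) ⟨5, 28, 2, 2, 5, 15, 5, 21, 6, 28⟩ :=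
  leafX_sound T5.ok_mm T5.Ymm.bz_eq (w := 277) (c := ⟨⟨.negSucc 1745, .negSucc 215, .ofNat 63, .negSucc 195, .negSucc 60, .negSucc 64⟩, ⟨.ofNat 1026, .ofNat 205, .ofNat 117, .ofNat 130, .ofNat 41, .ofNat 43⟩, ⟨.ofNat 657, .negSucc 914, .negSucc 103, .negSucc 1639, .negSucc 669, .negSucc 876⟩, ⟨.negSucc 2502, .negSucc 50, .ofNat 62, .negSucc 64, .ofNat 47, .ofNat 19⟩, ⟨.ofNat 22, .ofNat 219, .negSucc 92, .ofNat 338, .ofNat 214, .ofNat 183⟩, .ofNat 381, .ofNat 281, .ofNat 0, .ofNat 281, .ofNat 617, .ofNat 0, .ofNat 128, .negSucc 284, .ofNat 419, .ofNat 0, .ofNat 292, .negSucc 399, .ofNat 0, .ofNat 0, .ofNat 5218, .ofNat 9012, .ofNat 0, .ofNat 0, .ofNat 0, .ofNat 0, .ofNat 0, .ofNat 757570465893216150881501534438065706861962313775487909888, .ofNat 71727274766945549656193163485936640909025333852279668736, .ofNat 831005632217953408547975319894927321495465414773940303251374080, .ofNat 0, .ofNat 325305156803008764170644326847750129498928471635111444480, .ofNat 112305694873559208542111400389856621794506927039588597760,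 .ofNat 45144807271735432829660626020827551150350466709087062570615963648, .ofNat 0, .ofNat 115081062276751133606091204536870675674937772314363019919360, .ofNat 1191113772161464321272244371663866583653282593204959444992, .ofNat 419820141156993355701415172709370277018579883207410668993423343616⟩)
    (by decide +kernel)
theorem L04091 : Good (Phi V5.P V5.D (-1) (-1)) ⟨5, 29, 2, 2, 5, 15, 4, 10, 6, 28⟩ :=
  out_sound (S := T5.ds_mm) T5.ok_mm (w := 17) (j := 4) (by decide +kernel)
theorem L04092 : Good (Phi V5.P V5.D (-1) (-1)) ⟨4, 14, 4, 8, 5, 15, 4, 10, 6, 29⟩ :=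
  out_sound (S := T5.ds_mm) T5.ok_mm (w := 53) (j := 3) (by decide +kernel)
theorem L04093 : Good (Phi V5.P V5.D (-1) (-1)) ⟨5, 28, 4, 9, 5, 15, 5, 20, 6, 29⟩ :=
  leafX_sound T5.ok_mm T5.Ymm.bz_eq (w := 286) (c := ⟨⟨.negSucc 1666, .negSucc 14, .negSucc 75, .negSucc 214, .negSucc 64, .negSucc 157⟩, ⟨.ofNat 1014, .ofNat 69, .ofNat 91, .ofNat 140, .ofNat 44, .ofNat 104⟩, ⟨.ofNat 904, .ofNat 94, .negSucc 485, .negSucc 1888, .negSucc 728, .negSucc 1620⟩, ⟨.negSucc 2467, .ofNat 63, .negSucc 31, .negSucc 81, .ofNat 35, .negSucc 34⟩, ⟨.negSucc 110, .negSucc 30, .ofNat 102, .ofNat 358, .ofNat 204, .ofNat 303⟩, .ofNat 848, .ofNat 954, .ofNat 0, .ofNat 954, .ofNat 1721, .ofNat 0, .ofNat 128, .negSucc 748, .ofNat 1228, .ofNat 0, .ofNat 576, .negSucc 898, .ofNat 0, .ofNat 0, .ofNat 14660, .ofNat 91014, .ofNat 108158084303847417804421763698067748512996380055071800485216256, .ofNat 0, .ofNat 275032052854776335629788552726539451036269061934275362816, .ofNat 0, .ofNat 95995888137549375629972297665131178072145857945860281695469568,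 .ofNat 38264773817015293787689524331070026643959736316889126666240, .ofNat 3910310873051712897484579576945687424222577136430775009280, .ofNat 0, .ofNat 982709371931732245329740669306748216921291238511811166581293056, .ofNat 1586457159570028353561717398315961201276838738608235902664704, .ofNat 36889575390649708279412674969562825044017193198822562463744, .ofNat 0, .ofNat 12725425327356545047143792742812665670680707286894203816149778432, .ofNat 68791287811641206072107307989005172872779899701515636583694336, .ofNat 37288481820129979501635020179324604736390104544789842100224, .ofNat 0⟩)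
    (by decide +kernel)
theorem L04094 : Good (Phi V5.P V5.D (-1) (-1)) ⟨5, 28, 4, 9, 5, 15, 5, 21, 6, 29⟩ :=
  leafX_sound T5.ok_mm T5.Ymm.bz_eq (w := 285) (c := ⟨⟨.negSucc 1760, .negSucc 189, .negSucc 10, .negSucc 236, .negSucc 71, .negSucc 134⟩, ⟨.ofNat 1079, .ofNat 190, .ofNat 44, .ofNat 155, .ofNat 49, .ofNat 89⟩, ⟨.ofNat 23, .negSucc 890, .negSucc 153, .negSucc 2015, .negSucc 772, .negSucc 1436⟩, ⟨.negSucc 2455, .negSucc 43, .ofNat 9, .negSucc 88, .ofNat 38, .negSucc 17⟩, ⟨.ofNat 122, .ofNat 170, .ofNat 23, .ofNat 396, .ofNat 224, .ofNat 280⟩, .ofNat 846, .ofNat 950, .ofNat 0, .ofNat 950, .ofNat 1715, .ofNat 0, .ofNat 128, .negSucc 850, .ofNat 1096, .ofNat 0, .ofNat 656, .negSucc 803, .ofNat 0, .ofNat 0, .ofNat 12314, .ofNat 47667, .ofNat 54273592046565225381511056421786918064931869339505093637046272, .ofNat 78631037280231612947047791283844341092046958996227172073472, .ofNat 77000192296195953782038615439211884824030799035101085696, .ofNat 0, .ofNat 0,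 .ofNat 310766484962405368492038989631941021164220558902740417249280, .ofNat 4338863251583970299336519907200081850373573425842429624320, .ofNat 0, .ofNat 0, .ofNat 4329488456586388037982970819668490223151708891495016207220736, .ofNat 13737934228374123475380238544861824090874407612100632379392, .ofNat 0, .ofNat 0, .ofNat 65809554393560009856035907617274771716380976071407008921681920, .ofNat 39419223046544325215168648168935088749339874477882736640000, .ofNat 0⟩)
    (by decide +kernel)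
theorem L04095 : Good (Phi V5.P V5.D (-1) (-1)) ⟨5, 29, 4, 9, 5, 15, 4, 10, 6, 29⟩ :=
  out_sound (S := T5.ds_mm) T5.ok_mm (w := 59) (j := 3) (by decide +kernel)
theorem L04096 : Good (Phi V5.P V5.D (-1) (-1)) ⟨4, 14, 4, 10, 6, 30, 5, 20, 6, 29⟩ :=
  leafX_sound T5.ok_mm T5.Ymm.bz_eq (w := 296) (c := ⟨⟨.negSucc 1734, .ofNat 25, .negSucc 122, .negSucc 114, .negSucc 58, .negSucc 187⟩, ⟨.ofNat 1100, .ofNat 81, .ofNat 128, .ofNat 77, .ofNat 40, .ofNat 125⟩, ⟨.ofNat 557, .negSucc 88, .negSucc 632, .negSucc 1004, .negSucc 694, .negSucc 1821⟩, ⟨.negSucc 2492, .ofNat 18, .negSucc 19, .negSucc 38, .ofNat 40, .negSucc 36⟩, ⟨.negSucc 30, .ofNat 6, .ofNat 116, .ofNat 186, .ofNat 186, .ofNat 347⟩, .ofNat 908, .ofNat 1029, .ofNat 0, .ofNat 1029, .ofNat 1789, .ofNat 0, .ofNat 128, .negSucc 872, .ofNat 1613, .ofNat 0, .ofNat 673, .negSucc 1201, .ofNat 0, .ofNat 0, .ofNat 19676, .ofNat 94050, .ofNat 33246853261533367402704643215852951387320439515175227784156938240, .ofNat 0,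 .ofNat 4957898892324224943886930490423730138657094076659179429298176, .ofNat 0, .ofNat 21237623687059974524163012914192963450436977443071589622745137152, .ofNat 0, .ofNat 197208298770645715937548559887946417484121275668723848890548224, .ofNat 11840190007889469393583809627054769827939604811116677123135571140542464, .ofNat 418847750637345126049452991778689687577327788156262346744662065152, .ofNat 0, .ofNat 768195862807233670062188222200955587314121180452587005856972800, .ofNat 0, .ofNat 0, .ofNat 0, .ofNat 0, .ofNat 0⟩)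
    (by decide +kernel)
theorem L04097 : Good (Phi V5.P V5.D (-1) (-1)) ⟨5, 28, 4, 10, 6, 31, 5, 20, 7, 58⟩ :=
  leafX_sound T5.ok_mm T5.Ymm.bz_eq (w := 304) (c := ⟨⟨.negSucc 1732, .negSucc 242, .negSucc 12, .negSucc 171, .negSucc 113, .negSucc 128⟩, ⟨.ofNat 1097, .ofNat 222, .ofNat 51, .ofNat 113, .ofNat 76, .ofNat 85⟩, ⟨.ofNat 146, .negSucc 849, .negSucc 402, .negSucc 1375, .negSucc 1048, .negSucc 1192⟩, ⟨.negSucc 2476, .negSucc 97, .ofNat 23, .negSucc 72, .ofNat 14, .negSucc 38⟩, ⟨.negSucc 19, .ofNat 355, .negSucc 35, .ofNat 269, .ofNat 274, .ofNat 222⟩, .ofNat 393, .ofNat 301, .ofNat 0, .ofNat 301, .ofNat 646, .ofNat 0, .ofNat 128, .negSucc 267, .ofNat 769, .ofNat 0, .ofNat 267, .negSucc 676, .ofNat 0, .ofNat 0, .ofNat 8295, .ofNat 39587, .ofNat 1221271969754439043620552660973049391715644374290072332482262335488, .ofNat 0, .ofNat 15183727128977292754857701561854351558885434073657662953750528, .ofNat 41425598653556332777746394450770305639920933604732222362215340551700480,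 .ofNat 0, .ofNat 0, .ofNat 0, .ofNat 0, .ofNat 0, .ofNat 2591222556015078694358493445690245633908502753062250681018089472, .ofNat 811409259548773224797437030392889567715401863424966390483779584, .ofNat 0, .ofNat 0, .ofNat 710267091387014185239378876497962330214312145034304479989847818240, .ofNat 90598522277854832458939262924177033643472298858150488593202675712, .ofNat 0⟩)
    (by decide +kernel)
theorem L04098 : Good (Phi V5.P V5.D (-1) (-1)) ⟨5, 29, 4, 10, 6, 31, 5, 20, 7, 58⟩ :=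
  out_sound (S := T5.ds_mm) T5.ok_mm (w := 59) (j := 3) (by decide +kernel)
theorem L04099 : Good (Phi V5.P V5.D (-1) (-1)) ⟨4, 14, 4, 10, 6, 31, 5, 20, 7, 59⟩ :=
  leafX_sound T5.ok_mm T5.Ymm.bz_eq (w := 302) (c := ⟨⟨.negSucc 1730, .ofNat 2, .negSucc 221, .negSucc 308, .negSucc 256, .negSucc 214⟩, ⟨.ofNat 1095, .ofNat 116, .ofNat 192, .ofNat 205, .ofNat 171, .ofNat 143⟩, ⟨.ofNat 30, .negSucc 204, .negSucc 1357, .negSucc 2325, .negSucc 1982, .negSucc 1876⟩, ⟨.negSucc 2469, .ofNat 71, .negSucc 78, .negSucc 136, .negSucc 44, .negSucc 74⟩, ⟨.negSucc 11, .negSucc 98, .ofNat 280, .ofNat 476, .ofNat 523, .ofNat 343⟩, .ofNat 392, .ofNat 299, .ofNat 0, .ofNat 299, .ofNat 646, .ofNat 0, .ofNat 128, .negSucc 400, .ofNat 1121, .ofNat 0, .ofNat 401, .negSucc 973, .ofNat 0, .ofNat 0, .ofNat 11255, .ofNat 104380, .ofNat 256945774176920615779410838668687951706190572649263581868748439552, .ofNat 198529217782210417799475445906193686733482647638069124098162688, .ofNat 44742157816381438173956157604645544538166120405569220158423040,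 .ofNat 17478149592465653595441880455644663709402258541816774357158299405647872, .ofNat 180172225835327235079564241868013092942875072235995164309605842944, .ofNat 665525437644917667389196972460841597436465463109826537414721536, .ofNat 785411844672847557723835763622783781707464694860022926519828480, .ofNat 27924776303092596515690465270617298800789939723336837811759597584646144, .ofNat 1444156753182192021314195128980774427707400213526322146490793852928, .ofNat 2225249750680388795395294588795671164585349691457910847632834560, .ofNat 6078491960417866152591194087710963585672638586699550333761224704, .ofNat 1261964147446085409909507867794435786322967880918307387075760299905646592, .ofNat 20653948522597961071779379496001337768448796927641724641075875807232, .ofNat 140286914973950758736602036775646244317667703037329133495889428480, .ofNat 21769113191468688069967097236055305497772184504310938324655144960, .ofNat 0⟩)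
    (by decide +kernel)
theorem L04100 : Good (Phi V5.P V5.D (-1) (-1)) ⟨4, 14, 4, 10, 6, 30, 5, 21, 7, 58⟩ :=
  leafX_sound T5.ok_mm T5.Ymm.bz_eq (w := 301) (c := ⟨⟨.negSucc 1773, .negSucc 22, .negSucc 120, .negSucc 165, .negSucc 129, .negSucc 77⟩, ⟨.ofNat 1124, .ofNat 137, .ofNat 120, .ofNat 110, .ofNat 87, .ofNat 52⟩, ⟨.negSucc 35, .negSucc 180, .negSucc 676, .negSucc 1343, .negSucc 1178, .negSucc 803⟩, ⟨.negSucc 2462, .ofNat 20, .negSucc 5, .negSucc 54, .ofNat 19, .negSucc 3⟩, ⟨.ofNat 107, .ofNat 30, .ofNat 153, .ofNat 269, .ofNat 304, .ofNat 161⟩, .ofNat 1729, .ofNat 2154, .ofNat 0, .ofNat 2154, .ofNat 3337, .ofNat 0, .ofNat 128, .negSucc 713, .ofNat 1046, .ofNat 0, .ofNat 543, .negSucc 777, .ofNat 0, .ofNat 0, .ofNat 10753, .ofNat 89453, .ofNat 171750640417243962612661574348638356682272007809761501622057304064, .ofNat 0, .ofNat 31300832666398157998570929533215959886589360509604850456068096, .ofNat 0, .ofNat 0, .ofNat 1097613931760871226988196718385693597957450811659248094775607296,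 .ofNat 11371367787138887133601463913937961764971929786603483178482008064, .ofNat 0, .ofNat 0, .ofNat 0, .ofNat 19626051245424653756462084384685971697686641249739418219254382592, .ofNat 2518733143985983153894091713904918327060069345195182458205786695257817088, .ofNat 0, .ofNat 79942064802897554600564978994199078577867501145342478823171555328, .ofNat 49204041771715700921586443808224584288015651213845030508339134464, .ofNat 10723348815671833533017868536894670589528539624012324651557887225391742976⟩)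
    (by decide +kernel)
theorem L04101 : Good (Phi V5.P V5.D (-1) (-1)) ⟨4, 14, 4, 10, 6, 30, 6, 42, 7, 59⟩ :=
  leafX_sound T5.ok_mm T5.Ymm.bz_eq (w := 306) (c := ⟨⟨.negSucc 1808, .negSucc 55, .negSucc 154, .negSucc 205, .negSucc 70, .negSucc 131⟩, ⟨.ofNat 1146, .ofNat 174, .ofNat 140, .ofNat 136, .ofNat 47, .ofNat 87⟩, ⟨.negSucc 505, .negSucc 295, .negSucc 984, .negSucc 1667, .negSucc 640, .negSucc 1225⟩, ⟨.negSucc 2460, .ofNat 9, .negSucc 9, .negSucc 67, .ofNat 7, .negSucc 24⟩, ⟨.ofNat 191, .ofNat 60, .ofNat 210, .ofNat 337, .ofNat 164, .ofNat 244⟩, .ofNat 3366, .ofNat 4503, .ofNat 0, .ofNat 4503, .ofNat 6728, .ofNat 0, .ofNat 128, .negSucc 686, .ofNat 1207, .ofNat 0, .ofNat 508, .negSucc 874, .ofNat 0, .ofNat 0, .ofNat 11654, .ofNat 188531, .ofNat 3649027895708817374863604610084926837791890968000435567323902902272, .ofNat 0, .ofNat 540011027062016743867065890087354608217882210927381298756452352, .ofNat 430487747182303606369055812661367389286978285933253328991078366415159296,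 .ofNat 1828493710835179667149093481083729557229391464273711722137179389952, .ofNat 4478777524255427711117735688283193744314891422409420241060757504, .ofNat 337793440941321361374297602192473254125387735900507533949645357056, .ofNat 0, .ofNat 17596745003087871780703830562890580226895829511721475087464805695488, .ofNat 8518999218871976711539779594701447934757744319979261511990247424, .ofNat 421243356811227575859597577675787761899055499805076095735739449344, .ofNat 25662361854578019848110357506515153829803320491203093859548509576787656704, .ofNat 118843323997101088241545265742144663006873973113117218822921448849408, .ofNat 491501198020531230925167879791091896035530754137909784748933251072, .ofNat 1122411827990377243600558649716586069788121688932351727283535347712, .ofNat 177288519407163502893112323994709938062090961257453717612034587278249558016⟩)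
    (by decide +kernel)
theorem L04102 : Good (Phi V5.P V5.D (-1) (-1)) ⟨4, 14, 4, 10, 6, 30, 6, 43, 7, 59⟩ :=
  leafX_sound T5.ok_mm T5.Ymm.bz_eq (w := 306) (c := ⟨⟨.negSucc 1822, .negSucc 150, .negSucc 153, .negSucc 275, .negSucc 106, .negSucc 174⟩, ⟨.ofNat 1154, .ofNat 240, .ofNat 139, .ofNat 184, .ofNat 72, .ofNat 116⟩, ⟨.negSucc 800, .negSucc 454, .negSucc 1119, .negSucc 2159, .negSucc 908, .negSucc 1550⟩, ⟨.negSucc 2417, .ofNat 1, .negSucc 41, .negSucc 108, .negSucc 7, .negSucc 51⟩, ⟨.ofNat 309, .ofNat 97, .ofNat 199, .ofNat 419, .ofNat 216, .ofNat 292⟩, .ofNat 907, .ofNat 1027, .ofNat 0, .ofNat 1027, .ofNat 1786, .ofNat 0, .ofNat 128, .negSucc 621, .ofNat 1639, .ofNat 0, .ofNat 480, .negSucc 1211, .ofNat 0, .ofNat 0, .ofNat 17002, .ofNat 87343, .ofNat 1542425995488778748026028769785002347487888123202228719169245806592, .ofNat 1325658746832892759675013668167103231220024515602703723748392960, .ofNat 1654438725659269854954017956265007141786237335916010365530406912,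 .ofNat 149797619376951920396774384219230289217625717951011969507271456453558272, .ofNat 0, .ofNat 4651100744898412236803051927604951445088885042504806342053593088, .ofNat 80440738984360398148670053311183410345521888914745785844987068416, .ofNat 0, .ofNat 0, .ofNat 50436158245369082937989648701103664436786337657296132247952293888, .ofNat 378704682873666450447116000340977924821352030012083013581696663552, .ofNat 10781985789580310932403608760967623364641578149476640461831999719078887424, .ofNat 0, .ofNat 1103383658131188371870446573683352876935031306319950876216269996032, .ofNat 1615967301293501009490381479659793631388434082480496993053391716352, .ofNat 0⟩)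
    (by decide +kernel)
theorem L04103 : Good (Phi V5.P V5.D (-1) (-1)) ⟨4, 14, 4, 10, 6, 31, 5, 21, 6, 29⟩ :=
  leafX_sound T5.ok_mm T5.Ymm.bz_eq (w := 295) (c := ⟨⟨.negSucc 1858, .negSucc 306, .negSucc 79, .negSucc 193, .negSucc 127, .negSucc 278⟩, ⟨.ofNat 1186, .ofNat 281, .ofNat 107, .ofNat 128, .ofNat 83, .ofNat 184⟩, ⟨.negSucc 972, .negSucc 823, .negSucc 750, .negSucc 1497, .negSucc 1094, .negSucc 2511⟩, ⟨.negSucc 2454, .negSucc 279, .ofNat 43, .negSucc 78, .ofNat 16, .negSucc 80⟩, ⟨.ofNat 219, .ofNat 733, .ofNat 1, .ofNat 314, .ofNat 330, .ofNat 498⟩, .ofNat 385, .ofNat 283, .ofNat 0, .ofNat 283, .ofNat 596, .ofNat 0, .ofNat 128, .negSucc 388, .ofNat 796, .ofNat 0, .ofNat 407, .negSucc 713, .ofNat 0, .ofNat 0, .ofNat 6647, .ofNat 23778, .ofNat 4745381366767034460997373462698920410751344705071780774799212544, .ofNat 24665771074846473597071690867046017844427418111627431166083072, .ofNat 1580614177042972576006748772593457139113736638919475225165824, .ofNat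 104027689738334749237267119120285796001340690086503086269155468378112, .ofNat 0, .ofNat 74128892168520003726344151249030199876655123802407442034196480, .ofNat 16788175581896695764404288824412361994234186057896836028432384, .ofNat 0, .ofNat 0, .ofNat 256892189601424234081285624821583282484047051062152626689802240, .ofNat 153336710274756292677612690627517993017464896374398938255458304, .ofNat 0, .ofNat 0, .ofNat 7440623281902733192266916190587399181350830229969481087330549760, .ofNat 325157328522951767796835275381235994446320158195305916949069824, .ofNat 68266237025616271214475999853337027763863853501414205517134936267554816⟩)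
    (by decide +kernel)
theorem L04104 : Good (Phi V5.P V5.D (-1) (-1)) ⟨6, 56, 4, 11, 5, 15, 4, 10, 6, 29⟩ :=
  out_sound (S := T5.ds_mm) T5.ok_mm (w := 65) (j := 3) (by decide +kernel)
theorem L04105 : Good (Phi V5.P V5.D (-1) (-1)) ⟨7, 114, 5, 22, 5, 15, 4, 10, 6, 29⟩ :=
  out_sound (S := T5.ds_mm) T5.ok_mm (w := 73) (j := 3) (by decide +kernel)
theorem L04106 : Good (Phi V5.P V5.D (-1) (-1)) ⟨7, 115, 5, 22, 5, 15, 4, 10, 6, 29⟩ :=
  out_sound (S := T5.ds_mm) T5.ok_mm (w := 21) (j := 4) (by decide +kernel)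
theorem L04107 : Good (Phi V5.P V5.D (-1) (-1)) ⟨6, 57, 5, 23, 5, 15, 4, 10, 6, 29⟩ :=
  out_sound (S := T5.ds_mm) T5.ok_mm (w := 67) (j := 3) (by decide +kernel)
theorem L04108 : Good (Phi V5.P V5.D (-1) (-1)) ⟨5, 29, 4, 11, 5, 15, 4, 10, 6, 29⟩ :=
  out_sound (S := T5.ds_mm) T5.ok_mm (w := 17) (j := 4) (by decide +kernel)
theorem L04109 : Good (Phi V5.P V5.D (-1) (-1)) ⟨4, 15, 2, 2, 5, 15, 4, 10, 5, 14⟩ :=
  out_sound (S := T5.ds_mm) T5.ok_mm (w := 49) (j := 3) (by decide +kernel)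
theorem L04110 : Good (Phi V5.P V5.D (-1) (-1)) ⟨4, 14, 2, 2, 5, 14, 4, 11, 6, 28⟩ :=
  leafX_sound T5.ok_mm T5.Ymm.bz_eq (w := 269) (c := ⟨⟨.negSucc 1619, .ofNat 1, .negSucc 234, .negSucc 106, .negSucc 41, .negSucc 25⟩, ⟨.ofNat 948, .ofNat 119, .ofNat 306, .ofNat 71, .ofNat 29, .ofNat 17⟩, ⟨.ofNat 1039, .negSucc 187, .negSucc 754, .negSucc 1077, .negSucc 875, .negSucc 548⟩, ⟨.negSucc 2396, .ofNat 126, .negSucc 106, .negSucc 9, .ofNat 145, .ofNat 39⟩, ⟨.negSucc 41, .negSucc 49, .ofNat 201, .ofNat 221, .ofNat 315, .ofNat 114⟩, .ofNat 888, .ofNat 1004, .ofNat 0, .ofNat 1004, .ofNat 1766, .ofNat 0, .ofNat 128, .negSucc 524, .ofNat 496, .ofNat 0, .ofNat 404, .negSucc 387, .ofNat 0, .ofNat 0, .ofNat 7294, .ofNat 7215, .ofNat 0, .ofNat 0, .ofNat 0, .ofNat 0, .ofNat 0, .ofNat 0, .ofNat 37941521265683729598443500311312539093916816584139079680, .ofNat 178062720410051879365862166157730924768413463282730237710827520, .ofNat 0, .ofNat 11204594834311958059087431212693459302118746283696979968,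 .ofNat 33233413865681094367740208863620223555215757334907191296, .ofNat 1761275067630482934320316793202341942354462919557680856425299968, .ofNat 0, .ofNat 3163356700858046285662906965468296251248615693058192703488, .ofNat 384795254741328206044170333073477252883951450645050949632, .ofNat 4497165883798795325138063995716952495774709492683176848484466688⟩)
    (by decide +kernel)
theorem L04111 : Good (Phi V5.P V5.D (-1) (-1)) ⟨5, 28, 4, 8, 5, 14, 4, 11, 6, 29⟩ :=
  out_sound (S := T5.ds_mm) T5.ok_mm (w := 59) (j := 3) (by decide +kernel)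
theorem L04112 : Good (Phi V5.P V5.D (-1) (-1)) ⟨5, 28, 4, 9, 5, 14, 4, 11, 6, 29⟩ :=
  leafX_sound T5.ok_mm T5.Ymm.bz_eq (w := 281) (c := ⟨⟨.negSucc 1739, .negSucc 221, .ofNat 41, .negSucc 152, .negSucc 37, .negSucc 75⟩, ⟨.ofNat 1068, .ofNat 206, .ofNat 9, .ofNat 100, .ofNat 28, .ofNat 50⟩, ⟨.ofNat 279, .negSucc 1093, .ofNat 206, .negSucc 1459, .negSucc 844, .negSucc 964⟩, ⟨.negSucc 2423, .negSucc 36, .ofNat 36, .negSucc 22, .ofNat 142, .ofNat 19⟩, ⟨.ofNat 117, .ofNat 255, .negSucc 44, .ofNat 309, .ofNat 314, .ofNat 202⟩, .ofNat 1383, .ofNat 1711, .ofNat 0, .ofNat 1711, .ofNat 2820, .ofNat 0, .ofNat 128, .negSucc 915, .ofNat 912, .ofNat 0, .ofNat 695, .negSucc 678, .ofNat 0, .ofNat 0, .ofNat 10185, .ofNat 39948, .ofNat 4386996144113416199616546701826445002065273749558095918399488, .ofNat 0, .ofNat 5243693698619785093829306706973366356529785863940341760, .ofNat 0, .ofNat 0, .ofNat 107971994461914184341165368321974884339788627661461406089216, .ofNat 457788561050119341668893226985699544535867178182267371520,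 .ofNat 0, .ofNat 0, .ofNat 706993317609668414944739038208045395036611793081069922680832, .ofNat 928801149547473942805518260502339920423663809796650303488, .ofNat 0, .ofNat 0, .ofNat 10012903644893550648053904600000280595927779358428101347377152, .ofNat 6455518170837827662425486155144673257148055097795665723392, .ofNat 0⟩)
    (by decide +kernel)
theorem L04113 : Good (Phi V5.P V5.D (-1) (-1)) ⟨5, 29, 3, 4, 5, 14, 4, 11, 6, 29⟩ :=
  out_sound (S := T5.ds_mm) T5.ok_mm (w := 57) (j := 3) (by decide +kernel)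
theorem L04114 : Good (Phi V5.P V5.D (-1) (-1)) ⟨5, 28, 4, 10, 6, 28, 5, 22, 6, 29⟩ :=
  leafX_sound T5.ok_mm T5.Ymm.bz_eq (w := 300) (c := ⟨⟨.negSucc 1634, .negSucc 269, .ofNat 47, .negSucc 110, .negSucc 61, .negSucc 92⟩, ⟨.ofNat 1037, .ofNat 224, .ofNat 14, .ofNat 73, .ofNat 42, .ofNat 62⟩, ⟨.ofNat 815, .negSucc 800, .negSucc 136, .negSucc 993, .negSucc 735, .negSucc 1090⟩, ⟨.negSucc 2360, .negSucc 93, .ofNat 48, .negSucc 22, .ofNat 56, .ofNat 14⟩, ⟨.negSucc 1, .ofNat 223, .negSucc 13, .ofNat 205, .ofNat 218, .ofNat 223⟩, .ofNat 904, .ofNat 1024, .ofNat 0, .ofNat 1024, .ofNat 1784, .ofNat 0, .ofNat 128, .negSucc 961, .ofNat 1171, .ofNat 0, .ofNat 742, .negSucc 896, .ofNat 0, .ofNat 0, .ofNat 15352, .ofNat 70122, .ofNat 319752645778454699148324690702101246931857938206886349868560809984, .ofNat 0, .ofNat 1218176396250792943923039136290587844908554744433911909056512, .ofNat 2250884082096670239133638200419343163266680165815934489130898886230016, .ofNat 0, .ofNat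 552893148679378387523991594776828824238778263575854419019825152, .ofNat 119919444841796025246829973496358828760275497506652690487181312, .ofNat 0, .ofNat 0, .ofNat 0, .ofNat 0, .ofNat 0, .ofNat 0, .ofNat 0, .ofNat 0, .ofNat 0⟩)
    (by decide +kernel)
theorem L04115 : Good (Phi V5.P V5.D (-1) (-1)) ⟨5, 28, 4, 10, 6, 28, 5, 23, 6, 29⟩ :=
  leafX_sound T5.ok_mm T5.Ymm.bz_eq (w := 299) (c := ⟨⟨.negSucc 1705, .negSucc 83, .negSucc 69, .negSucc 123, .negSucc 62, .negSucc 127⟩, ⟨.ofNat 1081, .ofNat 116, .ofNat 83, .ofNat 82, .ofNat 43, .ofNat 85⟩, ⟨.ofNat 179, .negSucc 310, .negSucc 502, .negSucc 1057, .negSucc 722, .negSucc 1332⟩, ⟨.negSucc 2315, .ofNat 12, .negSucc 9, .negSucc 27, .ofNat 61, .negSucc 0⟩, ⟨.ofNat 202, .ofNat 81, .ofNat 86, .ofNat 224, .ofNat 231, .ofNat 273⟩, .ofNat 391, .ofNat 298, .ofNat 0, .ofNat 298, .ofNat 646, .ofNat 0, .ofNat 128, .negSucc 370, .ofNat 573, .ofNat 0, .ofNat 370, .negSucc 558, .ofNat 0, .ofNat 0, .ofNat 7184, .ofNat 34377, .ofNat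 0, .ofNat 0, .ofNat 0, .ofNat 0, .ofNat 0, .ofNat 807557743264855772532219329061440931478678261514299348730511360, .ofNat 9692836322648604071212445237348910765979840393832646523748352, .ofNat 0, .ofNat 0, .ofNat 6560739181451976149448074961473685586650831589462642869586100224, .ofNat 84902204930591285140721532263183971953064461711199210055925760, .ofNat 0, .ofNat 0, .ofNat 103782249432660209156846270927450808938225490410530205016365465600, .ofNat 2058171211077628144576500191169185036231677376898892594073829376, .ofNat 0⟩)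
    (by decide +kernel)
theorem L04116 : Good (Phi V5.P V5.D (-1) (-1)) ⟨5, 29, 4, 10, 6, 28, 4, 11, 6, 29⟩ :=
  out_sound (S := T5.ds_mm) T5.ok_mm (w := 59) (j := 3) (by decide +kernel)
theorem L04117 : Good (Phi V5.P V5.D (-1) (-1)) ⟨5, 28, 4, 10, 6, 29, 4, 11, 7, 58⟩ :=
  leafX_sound T5.ok_mm T5.Ymm.bz_eq (w := 299) (c := ⟨⟨.negSucc 1722, .negSucc 132, .negSucc 39, .negSucc 143, .negSucc 188, .negSucc 66⟩, ⟨.ofNat 1093, .ofNat 142, .ofNat 69, .ofNat 96, .ofNat 127, .ofNat 44⟩, ⟨.ofNat 128, .negSucc 525, .negSucc 340, .negSucc 1200, .negSucc 1865, .negSucc 689⟩, ⟨.negSucc 2373, .negSucc 26, .ofNat 4, .negSucc 43, .ofNat 77, .negSucc 2⟩, ⟨.ofNat 153, .ofNat 119, .ofNat 51, .ofNat 241, .ofNat 520, .ofNat 140⟩, .ofNat 903, .ofNat 1022, .ofNat 0, .ofNat 1022, .ofNat 1783, .ofNat 0, .ofNat 128, .negSucc 648, .ofNat 1233, .ofNat 0, .ofNat 500, .negSucc 929, .ofNat 0, .ofNat 0, .ofNat 14424, .ofNat 19941, .ofNat 0, .ofNat 0, .ofNat 0, .ofNat 0, .ofNat 0, .ofNat 2343193845910951035171259510487400197489591598261609382738395136,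 .ofNat 46926545428936607301671515816507396977144523432346752787677184, .ofNat 0, .ofNat 0, .ofNat 24675025872922824563225928450019356053148484487059627097781698560, .ofNat 465821433785338063643488331326542442171282090410336216107974656, .ofNat 0, .ofNat 0, .ofNat 531420788430830979146722650114544238102227496681931711407378661376, .ofNat 9268079202441102063731331857450018628368142374939850079305990144, .ofNat 0⟩)
    (by decide +kernel)
theorem L04118 : Good (Phi V5.P V5.D (-1) (-1)) ⟨6, 56, 4, 10, 6, 29, 5, 22, 7, 59⟩ :=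
  leafX_sound T5.ok_mm T5.Ymm.bz_eq (w := 311) (c := ⟨⟨.negSucc 1759, .negSucc 89, .negSucc 40, .negSucc 167, .negSucc 105, .negSucc 93⟩, ⟨.ofNat 1114, .ofNat 95, .ofNat 59, .ofNat 111, .ofNat 71, .ofNat 63⟩, ⟨.negSucc 295, .negSucc 475, .negSucc 322, .negSucc 1402, .negSucc 1040, .negSucc 932⟩, ⟨.negSucc 2366, .negSucc 12, .negSucc 0, .negSucc 60, .ofNat 25, .negSucc 17⟩, ⟨.ofNat 253, .ofNat 88, .ofNat 60, .ofNat 270, .ofNat 269, .ofNat 177⟩, .ofNat 2337, .ofNat 3194, .ofNat 0, .ofNat 3194, .ofNat 5127, .ofNat 0, .ofNat 128, .negSucc 1548, .ofNat 2460, .ofNat 0, .ofNat 1076, .negSucc 1687, .ofNat 0, .ofNat 0, .ofNat 26873, .ofNat 301133, .ofNat 132151728949858249947066526451977677077462980557893326004911786164224, .ofNat 0, .ofNat 493023410655757044955963006285240719235981129544143262973952000, .ofNat 0, .ofNat 0, .ofNat 602795738002778724747556354200726507613091791254167638434170011648, .ofNat 7036553188441065742816330392541577535843752305827776474447347712,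 .ofNat 0, .ofNat 0, .ofNat 13320171615498578687536724871351321526179911595522483137815680909312, .ofNat 26302901520081424226446477686910618799499437309313368160494157824, .ofNat 0, .ofNat 0, .ofNat 218740751600632092702583287906753587225223163980254774190377162244096, .ofNat 198026384751414511719203618624001352602695157239402160059653816320, .ofNat 0⟩)
    (by decide +kernel)
theorem L04119 : Good (Phi V5.P V5.D (-1) (-1)) ⟨6, 57, 4, 10, 6, 29, 5, 22, 7, 59⟩ :=
  leafX_sound T5.ok_mm T5.Ymm.bz_eq (w := 310) (c := ⟨⟨.negSucc 1780, .negSucc 94, .negSucc 92, .negSucc 215, .negSucc 143, .negSucc 132⟩, ⟨.ofNat 1164, .ofNat 103, .ofNat 92, .ofNat 144, .ofNat 97, .ofNat 89⟩, ⟨.negSucc 349, .negSucc 610, .negSucc 574, .negSucc 1737, .negSucc 1302, .negSucc 1232⟩, ⟨.negSucc 2357, .negSucc 18, .negSucc 20, .negSucc 75, .ofNat 10, .negSucc 26⟩, ⟨.ofNat 257, .ofNat 109, .ofNat 104, .ofNat 341, .ofNat 320, .ofNat 241⟩, .ofNat 3726, .ofNat 5131, .ofNat 0, .ofNat 5131, .ofNat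 7802, .ofNat 0, .ofNat 128, .negSucc 1598, .ofNat 2141, .ofNat 0, .ofNat 1135, .negSucc 1503, .ofNat 0, .ofNat 0, .ofNat 20471, .ofNat 170321, .ofNat 66830341674094985139026319777449960525932603894184031265661684547584, .ofNat 0, .ofNat 206559770209236296194182661198374624676404939830049423533015040, .ofNat 2855602506289801220233888985112371660840716759337736147234063859438321664, .ofNat 0, .ofNat 715287386731952779039824954275755789143732388583748365912838766592, .ofNat 4343732311520802290478391417057504987685480868057447527266385920, .ofNat 0, .ofNat 0, .ofNat 4357654562549743939842901312867274931029421405949910507230278451200, .ofNat 4507990693750361170098717819099758761820077771331728215984046080, .ofNat 315927243729275176259808042475368377449362179830075967706772044678099369984, .ofNat 0, .ofNat 113317977422978877872175190048226454880489689492396667206555372879872, .ofNat 11029284300997504567995384813014170632491282504331813145207111680, .ofNat 703526481104694226036759814894481831257968832121937518202956862782376509440⟩)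
    (by decide +kernel)
theorem L04120 : Good (Phi V5.P V5.D (-1) (-1)) ⟨5, 28, 4, 10, 6, 29, 5, 23, 7, 59⟩ :=
  out_sound (S := T5.ds_mm) T5.ok_mm (w := 50) (j := 2) (by decide +kernel)
theorem L04121 : Good (Phi V5.P V5.D (-1) (-1)) ⟨5, 29, 4, 10, 6, 29, 4, 11, 6, 29⟩ :=
  out_sound (S := T5.ds_mm) T5.ok_mm (w := 59) (j := 3) (by decide +kernel)
theorem L04122 : Good (Phi V5.P V5.D (-1) (-1)) ⟨6, 56, 4, 11, 5, 14, 4, 11, 6, 29⟩ :=
  out_sound (S := T5.ds_mm) T5.ok_mm (w := 65) (j := 3) (by decide +kernel)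
theorem L04123 : Good (Phi V5.P V5.D (-1) (-1)) ⟨7, 114, 5, 22, 5, 14, 4, 11, 6, 29⟩ :=
  out_sound (S := T5.ds_mm) T5.ok_mm (w := 73) (j := 3) (by decide +kernel)
theorem L04124 : Good (Phi V5.P V5.D (-1) (-1)) ⟨7, 115, 5, 22, 5, 14, 4, 11, 6, 29⟩ :=
  out_sound (S := T5.ds_mm) T5.ok_mm (w := 21) (j := 4) (by decide +kernel)
theorem L04125 : Good (Phi V5.P V5.D (-1) (-1)) ⟨6, 57, 5, 23, 5, 14, 4, 11, 6, 29⟩ :=
  out_sound (S := T5.ds_mm) T5.ok_mm (w := 67) (j := 3) (by decide +kernel)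
theorem L04126 : Good (Phi V5.P V5.D (-1) (-1)) ⟨5, 29, 4, 11, 5, 14, 4, 11, 6, 29⟩ :=
  out_sound (S := T5.ds_mm) T5.ok_mm (w := 17) (j := 4) (by decide +kernel)
theorem L04127 : Good (Phi V5.P V5.D (-1) (-1)) ⟨4, 14, 2, 2, 5, 15, 4, 11, 6, 28⟩ :=
  leafX_sound T5.ok_mm T5.Ymm.bz_eq (w := 268) (c := ⟨⟨.negSucc 1810, .negSucc 497, .ofNat 158, .negSucc 212, .negSucc 158, .negSucc 107⟩, ⟨.ofNat 1063, .ofNat 426, .ofNat 75, .ofNat 141, .ofNat 106, .ofNat 71⟩, ⟨.ofNat 202, .negSucc 1454, .negSucc 248, .negSucc 1689, .negSucc 1531, .negSucc 1126⟩, ⟨.negSucc 2489, .negSucc 186, .ofNat 174, .negSucc 63, .ofNat 91, .ofNat 2⟩, ⟨.ofNat 267, .ofNat 662, .negSucc 331, .ofNat 373, .ofNat 495, .ofNat 246⟩, .ofNat 373, .ofNat 265, .ofNat 0, .ofNat 265, .ofNat 570, .ofNat 0, .ofNat 128, .negSucc 238, .ofNat 363, .ofNat 0, .ofNat 256, .negSucc 347, .ofNat 0, .ofNat 0, .ofNat 3209, .ofNat 3234, .ofNat 0, .ofNat 7291001811432627209038921391779257409386579945613950976, .ofNat 669944000209883286626437944667992777252297842410651648,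 .ofNat 0, .ofNat 0, .ofNat 13506409094961648198222057014151323345669657044174503936, .ofNat 3789242379268480300957461265942068136335532011066228736, .ofNat 0, .ofNat 0, .ofNat 81493967162643923577636490553105335614732530240995721216, .ofNat 17480262054144992255264048499947940158387874315112546304, .ofNat 0, .ofNat 0, .ofNat 1217292116995143398729288535793961398853153194625896284160, .ofNat 78579371859088884720067890671062806375074658666141450240, .ofNat 555950294197330899136443527803102004562246630767307364526718976⟩)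
    (by decide +kernel)
theorem L04128 : Good (Phi V5.P V5.D (-1) (-1)) ⟨4, 14, 2, 2, 5, 15, 4, 11, 6, 29⟩ :=
  leafX_sound T5.ok_mm T5.Ymm.bz_eq (w := 270) (c := ⟨⟨.negSucc 1647, .negSucc 113, .negSucc 444, .negSucc 257, .negSucc 162, .negSucc 185⟩, ⟨.ofNat 983, .ofNat 227, .ofNat 410, .ofNat 163, .ofNat 102, .ofNat 120⟩, ⟨.negSucc 75, .negSucc 1247, .negSucc 1817, .negSucc 1938, .negSucc 1459, .negSucc 1744⟩, ⟨.negSucc 2391, .ofNat 77, .negSucc 102, .negSucc 28, .ofNat 122, .negSucc 1⟩, ⟨.ofNat 85, .ofNat 218, .ofNat 537, .ofNat 510, .ofNat 550, .ofNat 383⟩, .ofNat 749, .ofNat 759, .ofNat 0, .ofNat 759, .ofNat 1313, .ofNat 0, .ofNat 128, .negSucc 687, .ofNat 844, .ofNat 0, .ofNat 592, .negSucc 669, .ofNat 0, .ofNat 0, .ofNat 6144, .ofNat 9005, .ofNat 0, .ofNat 30940367503196692617161037500315404895670933638822756352, .ofNat 1700100861425248959608465786946197012478799949093404672, .ofNat 18030325022638331128823523061609733872025009402452829947297792, .ofNat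 0, .ofNat 82372563351264035388083506534037746344036259246146322432, .ofNat 27765398417368367723437431652987456607225179033017778176, .ofNat 0, .ofNat 0, .ofNat 1000892754422438978138863914366357467083494345547041472512, .ofNat 0, .ofNat 0, .ofNat 0, .ofNat 6801013120436072096419639637628654457729299984895170314240, .ofNat 347558550988397464976778149067789062332541947124494893056, .ofNat 3074177450119271525264783575521802902162227826729072148810301440⟩)
    (by decide +kernel)
theorem L04129 : Good (Phi V5.P V5.D (-1) (-1)) ⟨4, 15, 2, 2, 4, 7, 4, 11, 5, 14⟩ :=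
  out_sound (S := T5.ds_mm) T5.ok_mm (w := 49) (j := 3) (by decide +kernel)
theorem L04130 : Good (Phi V5.P V5.D (-1) (-1)) ⟨3, 7, 2, 2, 5, 14, 5, 20, 6, 30⟩ :=
  out_sound (S := T5.ds_mm) T5.ok_mm (w := 37) (j := 1) (by decide +kernel)
theorem L04131 : Good (Phi V5.P V5.D (-1) (-1)) ⟨3, 7, 2, 2, 5, 14, 6, 42, 7, 60⟩ :=
  out_sound (S := T5.ds_mm) T5.ok_mm (w := 40) (j := 1) (by decide +kernel)
theorem L04132 : Good (Phi V5.P V5.D (-1) (-1)) ⟨3, 7, 2, 2, 6, 28, 6, 43, 7, 60⟩ :=
  out_sound (S := T5.ds_mm) T5.ok_mm (w := 42) (j := 1) (by decide +kernel)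
theorem L04133 : Good (Phi V5.P V5.D (-1) (-1)) ⟨3, 7, 2, 2, 6, 29, 7, 86, 8, 120⟩ :=
  out_sound (S := T5.ds_mm) T5.ok_mm (w := 45) (j := 1) (by decide +kernel)
theorem L04134 : Good (Phi V5.P V5.D (-1) (-1)) ⟨3, 7, 2, 2, 7, 58, 7, 87, 8, 120⟩ :=
  out_sound (S := T5.ds_mm) T5.ok_mm (w := 47) (j := 1) (by decide +kernel)
theorem L04135 : Good (Phi V5.P V5.D (-1) (-1)) ⟨3, 7, 2, 2, 7, 59, 8, 174, 9, 240⟩ :=
  out_sound (S := T5.ds_mm) T5.ok_mm (w := 50) (j := 1) (by decide +kernel)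
theorem L04136 : Good (Phi V5.P V5.D (-1) (-1)) ⟨3, 7, 2, 2, 8, 118, 8, 175, 9, 240⟩ :=
  out_sound (S := T5.ds_mm) T5.ok_mm (w := 52) (j := 1) (by decide +kernel)
theorem L04137 : Good (Phi V5.P V5.D (-1) (-1)) ⟨3, 7, 2, 2, 9, 238, 9, 350, 10, 480⟩ :=
  out_sound (S := T5.ds_mm) T5.ok_mm (w := 57) (j := 1) (by decide +kernel)
theorem L04138 : Good (Phi V5.P V5.D (-1) (-1)) ⟨3, 7, 2, 2, 9, 238, 9, 351, 10, 480⟩ :=
  out_sound (S := T5.ds_mm) T5.ok_mm (w := 70) (j := 2) (by decide +kernel)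
theorem L04139 : Good (Phi V5.P V5.D (-1) (-1)) ⟨3, 7, 2, 2, 9, 238, 8, 175, 10, 481⟩ :=
  out_sound (S := T5.ds_mm) T5.ok_mm (w := 56) (j := 1) (by decide +kernel)
theorem L04140 : Good (Phi V5.P V5.D (-1) (-1)) ⟨3, 7, 2, 2, 9, 239, 8, 175, 9, 240⟩ :=
  out_sound (S := T5.ds_mm) T5.ok_mm (w := 66) (j := 2) (by decide +kernel)
theorem L04141 : Good (Phi V5.P V5.D (-1) (-1)) ⟨3, 7, 2, 2, 7, 59, 7, 87, 9, 241⟩ :=
  out_sound (S := T5.ds_mm) T5.ok_mm (w := 49) (j := 1) (by decide +kernel)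
theorem L04142 : Good (Phi V5.P V5.D (-1) (-1)) ⟨3, 7, 2, 2, 6, 29, 6, 43, 8, 121⟩ :=
  out_sound (S := T5.ds_mm) T5.ok_mm (w := 44) (j := 1) (by decide +kernel)
theorem L04143 : Good (Phi V5.P V5.D (-1) (-1)) ⟨3, 7, 2, 2, 5, 14, 5, 21, 7, 61⟩ :=
  out_sound (S := T5.ds_mm) T5.ok_mm (w := 39) (j := 1) (by decide +kernel)
theorem L04144 : Good (Phi V5.P V5.D (-1) (-1)) ⟨3, 7, 2, 2, 5, 14, 4, 10, 6, 31⟩ :=
  out_sound (S := T5.ds_mm) T5.ok_mm (w := 36) (j := 1) (by decide +kernel)
theorem L04145 : Good (Phi V5.P V5.D (-1) (-1)) ⟨4, 14, 3, 4, 5, 14, 5, 22, 7, 60⟩ :=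
  leafX_sound T5.ok_mm T5.Ymm.bz_eq (w := 283) (c := ⟨⟨.negSucc 1635, .negSucc 200, .negSucc 107, .negSucc 266, .negSucc 79, .negSucc 77⟩, ⟨.ofNat 969, .ofNat 263, .ofNat 137, .ofNat 175, .ofNat 54, .ofNat 51⟩, ⟨.ofNat 602, .negSucc 784, .negSucc 835, .negSucc 2329, .negSucc 837, .negSucc 807⟩, ⟨.negSucc 2338, .ofNat 16, .negSucc 17, .negSucc 77, .ofNat 44, .negSucc 8⟩, ⟨.ofNat 64, .ofNat 156, .ofNat 154, .ofNat 480, .ofNat 251, .ofNat 160⟩, .ofNat 844, .ofNat 949, .ofNat 0, .ofNat 949, .ofNat 1716, .ofNat 0, .ofNat 128, .negSucc 349, .ofNat 789, .ofNat 0, .ofNat 270, .negSucc 590, .ofNat 0, .ofNat 0, .ofNat 9430, .ofNat 33559, .ofNat 3562023037683645181200136339444640854794154575983807922438144, .ofNat 4271391354940198643734033305097005731559948260860437200896, .ofNat 261099771451109174282514225805794474114057191647598346240, .ofNat 0, .ofNat 0, .ofNat 6379367778546193028459214796593010735280306112412547809280, .ofNat 56461574124837060317385308646185160721270717579769782730752,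 .ofNat 0, .ofNat 10680396399358069178084936495989046343547329508767324088303616, .ofNat 75387193687783099262124373449356411356707690286932375371776, .ofNat 193721704109850421913175635083186626821358499486880749322240, .ofNat 0, .ofNat 0, .ofNat 1206777628306805897931176246158960437279736168707001694552064, .ofNat 845600511590443389406002324748921666306659127325050605142016, .ofNat 0⟩)
    (by decide +kernel)
theorem L04146 : Good (Phi V5.P V5.D (-1) (-1)) ⟨4, 14, 3, 4, 5, 14, 5, 23, 7, 60⟩ :=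
  leafX_sound T5.ok_mm T5.Ymm.bz_eq (w := 284) (c := ⟨⟨.negSucc 1707, .negSucc 183, .negSucc 116, .negSucc 265, .negSucc 76, .negSucc 74⟩, ⟨.ofNat 1019, .ofNat 252, .ofNat 141, .ofNat 174, .ofNat 51, .ofNat 49⟩, ⟨.negSucc 247, .negSucc 806, .negSucc 825, .negSucc 2298, .negSucc 816, .negSucc 767⟩, ⟨.negSucc 2287, .ofNat 32, .negSucc 27, .negSucc 66, .ofNat 50, .negSucc 6⟩, ⟨.ofNat 318, .ofNat 173, .ofNat 146, .ofNat 503, .ofNat 262, .ofNat 157⟩, .ofNat 382, .ofNat 285, .ofNat 0, .ofNat 285, .ofNat 643, .ofNat 0, .ofNat 128, .negSucc 175, .ofNat 481, .ofNat 0, .ofNat 178, .negSucc 461, .ofNat 0, .ofNat 0, .ofNat 6033, .ofNat 75578, .ofNat 5840075289993098750967011000365425793854793305585100710215680, .ofNat 8933468503299705984383919964394053030006556651657013231616, .ofNat 2018699796673931018431520423932976507107954372824210079744, .ofNat 0, .ofNat 0, .ofNat 41394744752776864713503028658924256986106019659174964625408, .ofNat 11251475699070864477775006766197878845031192750069227978752,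 .ofNat 0, .ofNat 0, .ofNat 138111140889650717375145223906500538143865444599389688430592, .ofNat 110302929490615445025244543161171113239422312716791904731136, .ofNat 0, .ofNat 0, .ofNat 2462372670200659922897609663853195263165346203737464093278208, .ofNat 587349255625064993419298779117044957020917131440688134619136, .ofNat 0⟩)
    (by decide +kernel)
theorem L04147 : Good (Phi V5.P V5.D (-1) (-1)) ⟨5, 28, 4, 10, 6, 28, 5, 22, 7, 60⟩ :=
  leafX_sound T5.ok_mm T5.Ymm.bz_eq (w := 307) (c := ⟨⟨.negSucc 1689, .negSucc 75, .negSucc 96, .negSucc 185, .negSucc 124, .negSucc 111⟩, ⟨.ofNat 1067, .ofNat 117, .ofNat 98, .ofNat 125, .ofNat 86, .ofNat 75⟩, ⟨.ofNat 180, .negSucc 364, .negSucc 660, .negSucc 1546, .negSucc 1149, .negSucc 1104⟩, ⟨.negSucc 2243, .ofNat 2, .negSucc 12, .negSucc 111, .negSucc 61, .negSucc 33⟩, ⟨.ofNat 292, .ofNat 63, .ofNat 123, .ofNat 222, .ofNat 164, .ofNat 189⟩, .ofNat 5650, .ofNat 8195, .ofNat 0, .ofNat 8195, .ofNat 12688, .ofNat 0, .ofNat 128,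 .negSucc 764, .ofNat 1176, .ofNat 0, .ofNat 517, .negSucc 791, .ofNat 0, .ofNat 0, .ofNat 12874, .ofNat 287519, .ofNat 13207095499988781016469931915006974378900164872881881678125083918336, .ofNat 7609166724947692068712766640811113454221415976755727405508722688, .ofNat 119910117471000583976197991108930636350477731799418046074847232, .ofNat 342561599142930389388477854263493399562950294637672897175431686725304320, .ofNat 7062007059059794940251569143838660291242073232223837645248923697152, .ofNat 0, .ofNat 44272056791308917393688106844372381274482526653445250171008974848, .ofNat 2790831071086361237466393914178612084222171949095781321790017484441518080, .ofNat 42492852246940195506674061787474365385002250146901154847132846391296, .ofNat 104129985516547645790600544788518185733470842381553500078462730240, .ofNat 17628037586847205747673523659151158977651878879015248711829684224, .ofNat 7792001114280726336449237352217369602304128331589518259203274693754748928, .ofNat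 436349370437990085498193068465338449701918145343061954549233573953536, .ofNat 2978019400090986526528015521729965812448691584475703927684957470720, .ofNat 170217419179205899891726184739015984254817612461663350184174682112, .ofNat 0⟩)
    (by decide +kernel)

end Crest.Agent.R097C5.N5mm
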