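import Crest.Agent.R097.KP7
import Crest.Agent.R097.T5Ymm

/-!
# Row 97, box cover in dimension n = 5 (generated)
-/

set_option autoImplicit false
set_option Elab.async false
set_option maxHeartbeats 0
set_option maxRecDepth 100000

open Crest.Agent.R097 Crest.Agent.R097.KA


namespace Crest.Agent.R097C5.N5mm

theorem L04148 : Good (Phi V5.P V5.D (-1) (-1)) ⟨5, 28, 4, 10, 6, 28, 5, 23, 7, 60⟩ :=
  leafX_sound T5.ok_mm T5.Ymm.bz_eq (w := 306) (c := ⟨⟨.negSucc 1812, .negSucc 79, .negSucc 93, .negSucc 189, .negSucc 133, .negSucc 106⟩, ⟨.ofNat 1151, .ofNat 123, .ofNat 94, .ofNat 127, .ofNat 90, .ofNat 71⟩, ⟨.negSucc 968, .negSucc 404, .negSucc 638, .negSucc 1556, .negSucc 1205, .negSucc 1015⟩, ⟨.negSucc 2311, .ofNat 14, .negSucc 16, .negSucc 51, .ofNat 34, .negSucc 13⟩, ⟨.ofNat 447, .ofNat 69, .ofNat 122, .ofNat 327, .ofNat 333, .ofNat 206⟩, .ofNat 908, .ofNat 1028, .ofNat 0, .ofNat 1028, .ofNat 1788, .ofNat 0, .ofNat 128, .negSucc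 438, .ofNat 1312, .ofNat 0, .ofNat 339, .negSucc 993, .ofNat 0, .ofNat 0, .ofNat 14838, .ofNat 167075, .ofNat 7001765805103323022202648585235953015891178638044917553058694561792, .ofNat 10637138575034276824160960094432549758853337356900021140793065472, .ofNat 143893677481709053779386316247810157945159198477757632842039296, .ofNat 276516333716752380122742568178518646208961483953990760973830936734990336, .ofNat 0, .ofNat 45094173926282689319739123309075385533962247722059224754964922368, .ofNat 1752161003331437425389984087738421811373730866196543583786369024, .ofNat 0, .ofNat 0, .ofNat 301260603107990408942420941959020257618452635326535172368596205568, .ofNat 1542748998248246572843233007567709092152604330273819887914713088, .ofNat 0, .ofNat 0, .ofNat 6610002441144291580364430458076068601570155490421731314854598279168, .ofNat 0, .ofNat 0⟩)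
    (by decide +kernel)
theorem L04149 : Good (Phi V5.P V5.D (-1) (-1)) ⟨5, 29, 4, 10, 6, 28, 4, 11, 7, 60⟩ :=
  out_sound (S := T5.ds_mm) T5.ok_mm (w := 59) (j := 3) (by decide +kernel)
theorem L04150 : Good (Phi V5.P V5.D (-1) (-1)) ⟨4, 14, 4, 10, 6, 29, 6, 44, 8, 120⟩ :=
  leafX_sound T5.ok_mm T5.Ymm.bz_eq (w := 311) (c := ⟨⟨.negSucc 1847, .negSucc 49, .negSucc 177, .negSucc 260, .negSucc 87, .negSucc 71⟩, ⟨.ofNat 1174, .ofNat 169, .ofNat 153, .ofNat 173, .ofNat 58, .ofNat 48⟩, ⟨.negSucc 1154, .negSucc 270, .negSucc 1182, .negSucc 2051, .negSucc 734, .negSucc 652⟩, ⟨.negSucc 2388, .ofNat 36, .negSucc 41, .negSucc 82, .ofNat 10, .negSucc 14⟩, ⟨.ofNat 382, .ofNat 1, .ofNat 229, .ofNat 456, .ofNat 223, .ofNat 136⟩, .ofNat 391, .ofNat 298, .ofNat 0, .ofNat 298, .ofNat 646, .ofNat 0, .ofNat 128, .negSucc 206, .ofNat 704, .ofNat 0, .ofNat 207, .negSucc 643, .ofNat 0, .ofNat 0, .ofNat 7652, .ofNat 128003, .ofNat 26182890357029487831611950914199204128737449342075636066786301968384,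 .ofNat 15504242770069564529641554392001280567919461086579884223746801664, .ofNat 1798274663661735830628185139205481437190297677313668321879523328, .ofNat 2723986000488531669934830940662991038741393748937847123065640692085686272, .ofNat 16582212786118299271372809304916053522682310549458291561091412525056, .ofNat 43939894594318006026998832213560242866726969127390130194910019584, .ofNat 90530715515113734866515429082913532620200332378252839156136804352, .ofNat 27131407613235080497893704017374507711528783783211648847632830027429576704, .ofNat 117769285640513926351139010453781673945469345409538145415009616789504, .ofNat 224614070479466769313895035500477800463776333474070709695236014080, .ofNat 1665810898358598684086142949735434964020566141524573201424753623040, .ofNat 138390732518387479501956277630725491598302104451105630599785011821655621632, .ofNat 1043010948860659191971349205616072157061545956573244189297826420752384, .ofNat 2885342303923933507021315318677242402449183101359905334240477184000,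 .ofNat 12668622960791274485369500506116114240163781782352455299518267654144, .ofNat 0⟩)
    (by decide +kernel)
theorem L04151 : Good (Phi V5.P V5.D (-1) (-1)) ⟨4, 14, 4, 10, 6, 29, 6, 45, 8, 120⟩ :=
  leafX_sound T5.ok_mm T5.Ymm.bz_eq (w := 313) (c := ⟨⟨.negSucc 1935, .negSucc 112, .negSucc 151, .ofNat 1, .negSucc 22, .ofNat 1⟩, ⟨.ofNat 1229, .ofNat 231, .ofNat 131, .negSucc 0, .ofNat 17, .negSucc 0⟩, ⟨.negSucc 1927, .negSucc 404, .negSucc 1082, .ofNat 1, .negSucc 93, .ofNat 1⟩, ⟨.negSucc 2377, .ofNat 6, .negSucc 30, .ofNat 1, .negSucc 3, .ofNat 1⟩, ⟨.ofNat 592, .ofNat 155, .ofNat 179, .ofNat 0, .ofNat 93, .ofNat 0⟩, .ofNat 391, .ofNat 298, .ofNat 0, .ofNat 298, .ofNat 646, .ofNat 0, .ofNat 128, .negSucc 181, .ofNat 575, .ofNat 0, .ofNat 182, .negSucc 528, .ofNat 0, .ofNat 0, .ofNat 6271, .ofNat 431208, .ofNat 0, .ofNat 264820099159684258120488268306993509214475603288753008584394014720, .ofNat 305021762743584833360408213034298071408021661903002038052279287808,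 .ofNat 0, .ofNat 0, .ofNat 121221039670907637777705118782779603236545235500550690799592931328, .ofNat 802968862654024553802523277319190032238164606107869088647598833664, .ofNat 0, .ofNat 0, .ofNat 366905411515510812963729998988827270072565706322605551237591990272, .ofNat 2755123656480402120504543737002979610436749954009206907514652721152, .ofNat 228648352568802695441819884084437111974064507602453489408834675778565177344, .ofNat 0, .ofNat 12594719945015534740695596376948323913509275264351324133787739095040, .ofNat 29961242023326873367946550272752253041201724414270413687142649692160, .ofNat 1887237337316114259887519717939212843912141517097407408036998716568754978816⟩)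
    (by decide +kernel)
theorem L04152 : Good (Phi V5.P V5.D (-1) (-1)) ⟨4, 14, 4, 10, 6, 29, 7, 88, 8, 121⟩ :=
  out_sound (S := T5.ds_mm) T5.ok_mm (w := 45) (j := 1) (by decide +kernel)
theorem L04153 : Good (Phi V5.P V5.D (-1) (-1)) ⟨4, 14, 4, 10, 7, 58, 7, 89, 8, 121⟩ :=
  out_sound (S := T5.ds_mm) T5.ok_mm (w := 47) (j := 1) (by decide +kernel)
theorem L04154 : Good (Phi V5.P V5.D (-1) (-1)) ⟨4, 14, 4, 10, 7, 59, 7, 89, 8, 121⟩ :=
  out_sound (S := T5.ds_mm) T5.ok_mm (w := 58) (j := 2) (by decide +kernel)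
theorem L04155 : Good (Phi V5.P V5.D (-1) (-1)) ⟨4, 14, 4, 10, 6, 29, 6, 45, 8, 121⟩ :=
  out_sound (S := T5.ds_mm) T5.ok_mm (w := 54) (j := 2) (by decide +kernel)
theorem L04156 : Good (Phi V5.P V5.D (-1) (-1)) ⟨4, 14, 4, 10, 6, 29, 5, 23, 7, 60⟩ :=
  out_sound (S := T5.ds_mm) T5.ok_mm (w := 50) (j := 2) (by decide +kernel)
theorem L04157 : Good (Phi V5.P V5.D (-1) (-1)) ⟨6, 56, 4, 11, 5, 14, 4, 11, 7, 60⟩ :=
  out_sound (S := T5.ds_mm) T5.ok_mm (w := 65) (j := 3) (by decide +kernel)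
theorem L04158 : Good (Phi V5.P V5.D (-1) (-1)) ⟨7, 114, 5, 22, 5, 14, 4, 11, 7, 60⟩ :=
  out_sound (S := T5.ds_mm) T5.ok_mm (w := 73) (j := 3) (by decide +kernel)
theorem L04159 : Good (Phi V5.P V5.D (-1) (-1)) ⟨7, 115, 5, 22, 5, 14, 4, 11, 7, 60⟩ :=
  out_sound (S := T5.ds_mm) T5.ok_mm (w := 21) (j := 4) (by decide +kernel)
theorem L04160 : Good (Phi V5.P V5.D (-1) (-1)) ⟨6, 57, 5, 23, 5, 14, 4, 11, 7, 60⟩ :=
  out_sound (S := T5.ds_mm) T5.ok_mm (w := 67) (j := 3) (by decide +kernel)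
theorem L04161 : Good (Phi V5.P V5.D (-1) (-1)) ⟨5, 29, 4, 11, 5, 14, 4, 11, 7, 60⟩ :=
  out_sound (S := T5.ds_mm) T5.ok_mm (w := 17) (j := 4) (by decide +kernel)
theorem L04162 : Good (Phi V5.P V5.D (-1) (-1)) ⟨4, 15, 2, 2, 5, 14, 4, 11, 7, 60⟩ :=
  out_sound (S := T5.ds_mm) T5.ok_mm (w := 49) (j := 3) (by decide +kernel)
theorem L04163 : Good (Phi V5.P V5.D (-1) (-1)) ⟨3, 7, 2, 2, 5, 14, 6, 44, 7, 61⟩ :=
  out_sound (S := T5.ds_mm) T5.ok_mm (w := 40) (j := 1) (by decide +kernel)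
theorem L04164 : Good (Phi V5.P V5.D (-1) (-1)) ⟨3, 7, 2, 2, 6, 28, 6, 45, 7, 61⟩ :=
  out_sound (S := T5.ds_mm) T5.ok_mm (w := 42) (j := 1) (by decide +kernel)
theorem L04165 : Good (Phi V5.P V5.D (-1) (-1)) ⟨3, 7, 2, 2, 6, 29, 6, 45, 7, 61⟩ :=
  out_sound (S := T5.ds_mm) T5.ok_mm (w := 52) (j := 2) (by decide +kernel)
theorem L04166 : Good (Phi V5.P V5.D (-1) (-1)) ⟨3, 7, 2, 2, 5, 14, 5, 23, 7, 61⟩ :=
  out_sound (S := T5.ds_mm) T5.ok_mm (w := 48) (j := 2) (by decide +kernel)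
theorem L04167 : Good (Phi V5.P V5.D (-1) (-1)) ⟨3, 7, 2, 2, 5, 14, 5, 22, 6, 31⟩ :=
  out_sound (S := T5.ds_mm) T5.ok_mm (w := 37) (j := 1) (by decide +kernel)
theorem L04168 : Good (Phi V5.P V5.D (-1) (-1)) ⟨3, 7, 2, 2, 5, 14, 5, 23, 6, 31⟩ :=
  out_sound (S := T5.ds_mm) T5.ok_mm (w := 46) (j := 2) (by decide +kernel)
theorem L04169 : Good (Phi V5.P V5.D (-1) (-1)) ⟨3, 7, 2, 2, 5, 15, 5, 20, 6, 30⟩ :=
  out_sound (S := T5.ds_mm) T5.ok_mm (w := 37) (j := 1) (by decide +kernel)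
theorem L04170 : Good (Phi V5.P V5.D (-1) (-1)) ⟨3, 7, 2, 2, 6, 30, 6, 42, 7, 60⟩ :=
  out_sound (S := T5.ds_mm) T5.ok_mm (w := 42) (j := 1) (by decide +kernel)
theorem L04171 : Good (Phi V5.P V5.D (-1) (-1)) ⟨3, 7, 2, 2, 7, 60, 8, 172, 9, 240⟩ :=
  out_sound (S := T5.ds_mm) T5.ok_mm (w := 50) (j := 1) (by decide +kernel)
theorem L04172 : Good (Phi V5.P V5.D (-1) (-1)) ⟨3, 7, 2, 2, 8, 120, 8, 173, 9, 240⟩ :=
  out_sound (S := T5.ds_mm) T5.ok_mm (w := 52) (j := 1) (by decide +kernel)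
theorem L04173 : Good (Phi V5.P V5.D (-1) (-1)) ⟨3, 7, 2, 2, 8, 121, 8, 173, 9, 240⟩ :=
  out_sound (S := T5.ds_mm) T5.ok_mm (w := 64) (j := 2) (by decide +kernel)
theorem L04174 : Good (Phi V5.P V5.D (-1) (-1)) ⟨3, 7, 2, 2, 7, 60, 7, 86, 9, 241⟩ :=
  out_sound (S := T5.ds_mm) T5.ok_mm (w := 49) (j := 1) (by decide +kernel)
theorem L04175 : Good (Phi V5.P V5.D (-1) (-1)) ⟨3, 7, 2, 2, 7, 60, 7, 86, 8, 121⟩ :=
  out_sound (S := T5.ds_mm) T5.ok_mm (w := 47) (j := 1) (by decide +kernel)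
theorem L04176 : Good (Phi V5.P V5.D (-1) (-1)) ⟨3, 7, 2, 2, 7, 60, 7, 87, 7, 60⟩ :=
  out_sound (S := T5.ds_mm) T5.ok_mm (w := 56) (j := 2) (by decide +kernel)
theorem L04177 : Good (Phi V5.P V5.D (-1) (-1)) ⟨3, 7, 2, 2, 7, 61, 6, 43, 7, 60⟩ :=
  out_sound (S := T5.ds_mm) T5.ok_mm (w := 54) (j := 2) (by decide +kernel)
theorem L04178 : Good (Phi V5.P V5.D (-1) (-1)) ⟨3, 7, 2, 2, 6, 30, 5, 21, 7, 61⟩ :=
  out_sound (S := T5.ds_mm) T5.ok_mm (w := 41) (j := 1) (by decide +kernel)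
theorem L04179 : Good (Phi V5.P V5.D (-1) (-1)) ⟨3, 7, 2, 2, 6, 31, 5, 21, 6, 30⟩ :=
  out_sound (S := T5.ds_mm) T5.ok_mm (w := 48) (j := 2) (by decide +kernel)
theorem L04180 : Good (Phi V5.P V5.D (-1) (-1)) ⟨3, 7, 2, 2, 5, 15, 4, 10, 6, 31⟩ :=
  out_sound (S := T5.ds_mm) T5.ok_mm (w := 36) (j := 1) (by decide +kernel)
theorem L04181 : Good (Phi V5.P V5.D (-1) (-1)) ⟨3, 7, 2, 2, 5, 15, 4, 11, 5, 15⟩ :=
  out_sound (S := T5.ds_mm) T5.ok_mm (w := 42) (j := 2) (by decide +kernel)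
theorem L04182 : Good (Phi V5.P V5.D (-1) (-1)) ⟨4, 12, 2, 2, 1, 0, 3, 6, 3, 3⟩ :=
  out_sound (S := T5.ds_mm) T5.ok_mm (w := 49) (j := 3) (by decide +kernel)
theorem L04183 : Good (Phi V5.P V5.D (-1) (-1)) ⟨4, 13, 3, 4, 2, 0, 3, 6, 4, 6⟩ :=
  leafX_sound T5.ok_mm T5.Ymm.bz_eq (w := 217) (c := ⟨⟨.negSucc 2074, .negSucc 135, .negSucc 20, .ofNat 339, .ofNat 91, .ofNat 102⟩, ⟨.ofNat 1109, .ofNat 164, .ofNat 130, .negSucc 195, .negSucc 50, .negSucc 59⟩, ⟨.ofNat 1859, .ofNat 78, .ofNat 71, .negSucc 349, .negSucc 301, .negSucc 126⟩, ⟨.negSucc 3210, .ofNat 21, .negSucc 45, .ofNat 498, .ofNat 166, .ofNat 160⟩, ⟨.negSucc 40, .ofNat 10, .negSucc 23, .ofNat 8, .ofNat 56, .ofNat 24⟩, .ofNat 1530, .ofNat 2104, .ofNat 0, .ofNat 2104, .ofNat 3782, .ofNat 0, .ofNat 128, .negSucc 407, .negSucc 182, .ofNat 0, .ofNat 277, .ofNat 103, .ofNat 0, .ofNat 0, .ofNat 1174, .ofNat 11016, .ofNat 0, .ofNat 0, .ofNat 0, .ofNat 0, .ofNat 0, .ofNat 0, .ofNat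 2020716163988069921366345441050944864256, .ofNat 0, .ofNat 0, .ofNat 0, .ofNat 3499609538717548029093833862244256972800, .ofNat 0, .ofNat 0, .ofNat 0, .ofNat 0, .ofNat 0⟩)
    (by decide +kernel)
theorem L04184 : Good (Phi V5.P V5.D (-1) (-1)) ⟨4, 13, 3, 4, 2, 0, 3, 6, 4, 7⟩ :=
  leafX_sound T5.ok_mm T5.Ymm.bz_eq (w := 217) (c := ⟨⟨.negSucc 2002, .negSucc 149, .ofNat 9, .ofNat 374, .ofNat 96, .ofNat 92⟩, ⟨.ofNat 1069, .ofNat 182, .ofNat 95, .negSucc 220, .negSucc 57, .negSucc 47⟩, ⟨.ofNat 1813, .ofNat 46, .ofNat 54, .negSucc 409, .negSucc 315, .negSucc 187⟩, ⟨.negSucc 3151, .ofNat 40, .negSucc 11, .ofNat 584, .ofNat 184, .ofNat 185⟩, ⟨.negSucc 135, .ofNat 100, .negSucc 40, .ofNat 66, .ofNat 78, .ofNat 84⟩, .ofNat 746, .ofNat 826, .ofNat 0, .ofNat 826, .ofNat 1625, .ofNat 0, .ofNat 128, .negSucc 248, .negSucc 78, .ofNat 0, .ofNat 192, .ofNat 40, .ofNat 0, .ofNat 0, .ofNat 595, .ofNat 17741, .ofNat 608821856100437861614047938640466455694409728,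 .ofNat 0, .ofNat 0, .ofNat 0, .ofNat 216641196146739884533956723819409901596180480, .ofNat 0, .ofNat 414656880155942617400136413529998622720, .ofNat 0, .ofNat 95432304085593307706688725973855179047436288, .ofNat 0, .ofNat 1936108610161707171424559993714588516352, .ofNat 0, .ofNat 139039871790942088721291897957156348615458816, .ofNat 0, .ofNat 182616240676318178774018691905951367168, .ofNat 0⟩)
    (by decide +kernel)
theorem L04185 : Good (Phi V5.P V5.D (-1) (-1)) ⟨4, 13, 3, 4, 3, 2, 3, 6, 4, 6⟩ :=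
  leafX_sound T5.ok_mm T5.Ymm.bz_eq (w := 230) (c := ⟨⟨.negSucc 1816, .negSucc 94, .negSucc 17, .ofNat 93, .ofNat 187, .ofNat 123⟩, ⟨.ofNat 972, .ofNat 134, .ofNat 107, .negSucc 50, .negSucc 101, .negSucc 72⟩, ⟨.ofNat 1619, .ofNat 124, .negSucc 59, .negSucc 587, .negSucc 444, .negSucc 216⟩, ⟨.negSucc 2843, .ofNat 63, .negSucc 19, .ofNat 233, .ofNat 415, .ofNat 198⟩, ⟨.negSucc 90, .ofNat 37, .negSucc 15, .ofNat 166, .ofNat 247, .ofNat 32⟩, .ofNat 1557, .ofNat 2140, .ofNat 0, .ofNat 2140, .ofNat 3822, .ofNat 0, .ofNat 128, .negSucc 672, .negSucc 166, .ofNat 0, .ofNat 456, .ofNat 87, .ofNat 0, .ofNat 0, .ofNat 2277, .ofNat 9628, .ofNat 0, .ofNat 0, .ofNat 0, .ofNat 0, .ofNat 0, .ofNat 3387320657650207860084388169408012337362763776, .ofNat 51976508011191881952179274109856739215015936, .ofNat 0, .ofNat 0, .ofNat 0, .ofNat 0, .ofNat 0, .ofNat 0, .ofNat 0, .ofNat 0, .ofNat 0⟩)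
    (by decide +kernel)
theorem L04186 : Good (Phi V5.P V5.D (-1) (-1)) ⟨4, 13, 3, 4, 3, 3, 3, 6, 4, 6⟩ :=
  leafX_sound T5.ok_mm T5.Ymm.bz_eq (w := 227) (c := ⟨⟨.negSucc 1734, .negSucc 24, .negSucc 68, .negSucc 5, .ofNat 166, .ofNat 100⟩, ⟨.ofNat 915, .ofNat 113, .ofNat 125, .ofNat 11, .negSucc 86, .negSucc 54⟩, ⟨.ofNat 1270, .ofNat 60, .negSucc 175, .negSucc 1182, .negSucc 524, .negSucc 517⟩, ⟨.negSucc 2680, .ofNat 125, .negSucc 38, .ofNat 161, .ofNat 461, .ofNat 232⟩, ⟨.negSucc 3, .negSucc 41, .ofNat 72, .ofNat 290, .ofNat 370, .ofNat 150⟩, .ofNat 874, .ofNat 1066, .ofNat 0, .ofNat 1066, .ofNat 2094, .ofNat 0, .ofNat 128, .negSucc 422, .ofNat 56, .ofNat 0, .ofNat 292, .negSucc 49, .ofNat 0, .ofNat 0, .ofNat 1787, .ofNat 1054, .ofNat 0, .ofNat 0, .ofNat 0, .ofNat 0, .ofNat 0, .ofNat 0, .ofNat 0, .ofNat 0, .ofNat 0, .ofNat 73104861411060327035939688827555572414796529664, .ofNat 10887815106367407478955555272569419556978688,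 .ofNat 0, .ofNat 0, .ofNat 369788198899432424707731031173929027782074957824, .ofNat 0, .ofNat 0⟩)
    (by decide +kernel)
theorem L04187 : Good (Phi V5.P V5.D (-1) (-1)) ⟨4, 13, 3, 4, 3, 2, 3, 6, 5, 14⟩ :=
  leafX_sound T5.ok_mm T5.Ymm.bz_eq (w := 235) (c := ⟨⟨.negSucc 1676, .negSucc 112, .ofNat 1, .ofNat 95, .ofNat 140, .ofNat 51⟩, ⟨.ofNat 891, .ofNat 144, .ofNat 93, .negSucc 50, .negSucc 74, .negSucc 28⟩, ⟨.ofNat 1620, .negSucc 203, .ofNat 150, .negSucc 703, .negSucc 501, .negSucc 52⟩, ⟨.negSucc 2632, .ofNat 54, .negSucc 8, .ofNat 258, .ofNat 362, .ofNat 62⟩, ⟨.negSucc 67, .ofNat 45, .negSucc 22, .ofNat 203, .ofNat 268, .negSucc 17⟩, .ofNat 874, .ofNat 1066, .ofNat 0, .ofNat 1066, .ofNat 2094, .ofNat 0, .ofNat 128, .negSucc 277, .negSucc 56, .ofNat 0, .ofNat 194, .ofNat 18, .ofNat 0, .ofNat 0, .ofNat 1607, .ofNat 9196, .ofNat 9982804783847973690176620678127905429822810095616, .ofNat 0, .ofNat 23332668030112615244372251682713280714899456,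 .ofNat 0, .ofNat 0, .ofNat 0, .ofNat 0, .ofNat 0, .ofNat 0, .ofNat 310356070097791159554545537841857568052061667328, .ofNat 411461448005643228724775894651501586709217280, .ofNat 0, .ofNat 0, .ofNat 1566689212608598273230810234361936391421407789056, .ofNat 409257519364640407381952030072252040264810496, .ofNat 0⟩)
    (by decide +kernel)
theorem L04188 : Good (Phi V5.P V5.D (-1) (-1)) ⟨4, 13, 3, 4, 3, 2, 3, 6, 5, 15⟩ :=
  leafX_sound T5.ok_mm T5.Ymm.bz_eq (w := 236) (c := ⟨⟨.negSucc 1640, .negSucc 75, .negSucc 11, .ofNat 63, .ofNat 145, .ofNat 7⟩, ⟨.ofNat 865, .ofNat 131, .ofNat 87, .negSucc 28, .negSucc 74, .negSucc 3⟩, ⟨.ofNat 1464, .ofNat 12, .ofNat 83, .negSucc 932, .negSucc 424, .negSucc 271⟩, ⟨.negSucc 2586, .ofNat 77, .negSucc 7, .ofNat 262, .ofNat 357, .ofNat 67⟩, ⟨.negSucc 87, .ofNat 8, .negSucc 7, .ofNat 292, .ofNat 250, .ofNat 102⟩, .ofNat 1557, .ofNat 2145, .ofNat 0, .ofNat 2145, .ofNat 3842, .ofNat 0, .ofNat 128,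 .negSucc 502, .negSucc 49, .ofNat 0, .ofNat 341, .ofNat 6, .ofNat 0, .ofNat 0, .ofNat 3498, .ofNat 17128, .ofNat 23811250054302946272116737747491290431184860872704, .ofNat 65838134401728328837558487330359958418434818048, .ofNat 280209147147134221965444155065770225168285696, .ofNat 0, .ofNat 0, .ofNat 296203361206631428097834338950825124298332569600, .ofNat 1646501341892743139318649701805335803718533120, .ofNat 0, .ofNat 72245446221918014377601784131038012540987805532160, .ofNat 1762972749850694332055685183486724948738636251136, .ofNat 1497348777269529212383287156913706932335804416, .ofNat 0, .ofNat 315643083904955081347883699408023168559769291063296, .ofNat 10146488585212399520790946137305649898063988260864, .ofNat 0, .ofNat 0⟩)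
    (by decide +kernel)
theorem L04189 : Good (Phi V5.P V5.D (-1) (-1)) ⟨4, 13, 3, 4, 4, 6, 3, 6, 5, 14⟩ :=
  leafX_sound T5.ok_mm T5.Ymm.bz_eq (w := 248) (c := ⟨⟨.negSucc 1526, .negSucc 142, .negSucc 10, .negSucc 70, .ofNat 47, .ofNat 8⟩, ⟨.ofNat 797, .ofNat 182, .ofNat 87, .ofNat 48, .negSucc 14, .negSucc 1⟩, ⟨.ofNat 1447, .negSucc 506, .ofNat 28, .negSucc 1157, .negSucc 994, .negSucc 502⟩, ⟨.negSucc 2403, .ofNat 58, .negSucc 2, .ofNat 66, .ofNat 355, .ofNat 81⟩, ⟨.negSucc 22, .ofNat 107, .ofNat 3, .ofNat 281, .ofNat 471, .ofNat 114⟩, .ofNat 741, .ofNat 818, .ofNat 0, .ofNat 818, .ofNat 1617, .ofNat 0, .ofNat 128, .negSucc 369, .ofNat 85, .ofNat 0, .ofNat 283, .negSucc 79, .ofNat 0, .ofNat 0, .ofNat 2384, .ofNat 4953, .ofNat 0, .ofNat 0, .ofNat 0, .ofNat 0, .ofNat 0, .ofNat 0, .ofNat 3768571054691714255227545038999585811271983824896, .ofNat 0, .ofNat 0, .ofNat 5475638686814488482809049004315420632601615312879616, .ofNat 9349578408085890391780059458670235180713446998016,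 .ofNat 0, .ofNat 0, .ofNat 25251857451964199627367489336478817996932926201135104, .ofNat 21714572414379855048025469755400977942399229624320, .ofNat 0⟩)
    (by decide +kernel)
theorem L04190 : Good (Phi V5.P V5.D (-1) (-1)) ⟨5, 26, 3, 4, 4, 6, 3, 6, 6, 30⟩ :=
  leafX_sound T5.ok_mm T5.Ymm.bz_eq (w := 258) (c := ⟨⟨.negSucc 1505, .negSucc 88, .negSucc 14, .negSucc 71, .ofNat 59, .negSucc 1⟩, ⟨.ofNat 787, .ofNat 102, .ofNat 83, .ofNat 48, .negSucc 19, .ofNat 3⟩, ⟨.ofNat 1084, .negSucc 388, .negSucc 47, .negSucc 1217, .negSucc 871, .negSucc 270⟩, ⟨.negSucc 2277, .negSucc 2, .ofNat 11, .ofNat 41, .ofNat 279, .ofNat 39⟩, ⟨.ofNat 103, .ofNat 60, .ofNat 24, .ofNat 269, .ofNat 349, .ofNat 76⟩, .ofNat 1454, .ofNat 2055, .ofNat 0, .ofNat 2055, .ofNat 3877, .ofNat 0, .ofNat 128, .negSucc 324, .ofNat 181, .ofNat 0, .ofNat 213, .negSucc 126, .ofNat 0, .ofNat 0, .ofNat 4110, .ofNat 10983, .ofNat 3752004034741254479346471608193156893366004882201378816,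 .ofNat 0, .ofNat 10394196913305437599782370933156102605482357686272, .ofNat 0, .ofNat 0, .ofNat 160153348891513346573847740024316520814640206889091072, .ofNat 42273805080040391660221481569831772948174716534784, .ofNat 0, .ofNat 0, .ofNat 1175571387166788452541069870137707845792975335666483200, .ofNat 360842528108521914029195247680853883421668063313920, .ofNat 0, .ofNat 0, .ofNat 7362933823088200717658984388300605974125081712834641920, .ofNat 1920142809904182486202338937578769590558924174524416, .ofNat 0⟩)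
    (by decide +kernel)
theorem L04191 : Good (Phi V5.P V5.D (-1) (-1)) ⟨5, 27, 3, 4, 4, 6, 4, 12, 6, 30⟩ :=
  leafX_sound T5.ok_mm T5.Ymm.bz_eq (w := 263) (c := ⟨⟨.negSucc 1573, .negSucc 56, .negSucc 27, .negSucc 116, .ofNat 9, .negSucc 10⟩, ⟨.ofNat 875, .ofNat 87, .ofNat 89, .ofNat 79, .ofNat 1, .ofNat 9⟩, ⟨.ofNat 868, .negSucc 174, .negSucc 74, .negSucc 1599, .negSucc 584, .negSucc 375⟩, ⟨.negSucc 2282, .ofNat 45, .negSucc 20, .ofNat 37, .ofNat 142, .ofNat 45⟩, ⟨.ofNat 125, .ofNat 47, .ofNat 4, .ofNat 340, .ofNat 214, .ofNat 99⟩, .ofNat 1568, .ofNat 2145, .ofNat 0, .ofNat 2145, .ofNat 3800, .ofNat 0, .ofNat 128, .negSucc 546, .ofNat 347, .ofNat 0, .ofNat 373, .negSucc 249, .ofNat 0, .ofNat 0, .ofNat 6827, .ofNat 22138, .ofNat 117362891418347069118283702038184916138912380278626320384, .ofNat 224886891602326049741955738467834715056126409075326976, .ofNat 586035727115243167582864326872657195894504486338560, .ofNat 0, .ofNat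 0, .ofNat 1012459722788585600287620380950520909845175233385857024, .ofNat 6681905202845724288056896540006568833755371408457728, .ofNat 0, .ofNat 0, .ofNat 11691313872674887676625454026460577751732369546090119168, .ofNat 4531175843157792045331090341331285749265033557180416, .ofNat 0, .ofNat 0, .ofNat 120146740343871730469883462072685424901194274309773721600, .ofNat 0, .ofNat 0⟩)
    (by decide +kernel)
theorem L04192 : Good (Phi V5.P V5.D (-1) (-1)) ⟨5, 27, 3, 4, 4, 6, 4, 13, 6, 30⟩ :=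
  out_sound (S := T5.ds_mm) T5.ok_mm (w := 42) (j := 2) (by decide +kernel)
theorem L04193 : Good (Phi V5.P V5.D (-1) (-1)) ⟨4, 13, 3, 4, 5, 12, 5, 24, 6, 31⟩ :=
  out_sound (S := T5.ds_mm) T5.ok_mm (w := 37) (j := 1) (by decide +kernel)
theorem L04194 : Good (Phi V5.P V5.D (-1) (-1)) ⟨4, 13, 3, 4, 6, 24, 7, 100, 8, 124⟩ :=
  out_sound (S := T5.ds_mm) T5.ok_mm (w := 45) (j := 1) (by decide +kernel)
theorem L04195 : Good (Phi V5.P V5.D (-1) (-1)) ⟨4, 13, 3, 4, 7, 48, 7, 101, 9, 248⟩ :=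
  out_sound (S := T5.ds_mm) T5.ok_mm (w := 49) (j := 1) (by decide +kernel)
theorem L04196 : Good (Phi V5.P V5.D (-1) (-1)) ⟨4, 13, 3, 4, 7, 49, 7, 101, 9, 248⟩ :=
  out_sound (S := T5.ds_mm) T5.ok_mm (w := 60) (j := 2) (by decide +kernel)
theorem L04197 : Good (Phi V5.P V5.D (-1) (-1)) ⟨4, 13, 3, 4, 6, 24, 7, 101, 9, 249⟩ :=
  out_sound (S := T5.ds_mm) T5.ok_mm (w := 47) (j := 1) (by decide +kernel)
theorem L04198 : Good (Phi V5.P V5.D (-1) (-1)) ⟨4, 13, 3, 4, 6, 24, 6, 50, 8, 125⟩ :=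
  out_sound (S := T5.ds_mm) T5.ok_mm (w := 44) (j := 1) (by decide +kernel)
theorem L04199 : Good (Phi V5.P V5.D (-1) (-1)) ⟨4, 13, 3, 4, 6, 24, 6, 51, 7, 62⟩ :=
  out_sound (S := T5.ds_mm) T5.ok_mm (w := 52) (j := 2) (by decide +kernel)
theorem L04200 : Good (Phi V5.P V5.D (-1) (-1)) ⟨4, 13, 3, 4, 6, 24, 5, 25, 7, 63⟩ :=
  out_sound (S := T5.ds_mm) T5.ok_mm (w := 41) (j := 1) (by decide +kernel)
theorem L04201 : Good (Phi V5.P V5.D (-1) (-1)) ⟨4, 13, 3, 4, 6, 25, 5, 25, 6, 31⟩ :=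
  out_sound (S := T5.ds_mm) T5.ok_mm (w := 48) (j := 2) (by decide +kernel)
theorem L04202 : Good (Phi V5.P V5.D (-1) (-1)) ⟨4, 13, 3, 4, 6, 26, 6, 48, 6, 31⟩ :=
  out_sound (S := T5.ds_mm) T5.ok_mm (w := 40) (j := 1) (by decide +kernel)
theorem L04203 : Good (Phi V5.P V5.D (-1) (-1)) ⟨4, 13, 3, 4, 6, 26, 6, 49, 6, 31⟩ :=
  out_sound (S := T5.ds_mm) T5.ok_mm (w := 50) (j := 2) (by decide +kernel)
theorem L04204 : Good (Phi V5.P V5.D (-1) (-1)) ⟨4, 13, 3, 4, 6, 27, 5, 24, 6, 31⟩ :=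
  out_sound (S := T5.ds_mm) T5.ok_mm (w := 48) (j := 2) (by decide +kernel)
theorem L04205 : Good (Phi V5.P V5.D (-1) (-1)) ⟨4, 13, 3, 4, 5, 13, 5, 25, 6, 31⟩ :=
  out_sound (S := T5.ds_mm) T5.ok_mm (w := 46) (j := 2) (by decide +kernel)
theorem L04206 : Good (Phi V5.P V5.D (-1) (-1)) ⟨4, 13, 3, 4, 4, 6, 4, 13, 6, 31⟩ :=
  out_sound (S := T5.ds_mm) T5.ok_mm (w := 42) (j := 2) (by decide +kernel)
theorem L04207 : Good (Phi V5.P V5.D (-1) (-1)) ⟨4, 13, 3, 4, 4, 7, 3, 6, 4, 7⟩ :=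
  leafX_sound T5.ok_mm T5.Ymm.bz_eq (w := 243) (c := ⟨⟨.negSucc 1597, .negSucc 103, .negSucc 47, .negSucc 138, .negSucc 20, .negSucc 80⟩, ⟨.ofNat 839, .ofNat 169, .ofNat 105, .ofNat 91, .ofNat 26, .ofNat 57⟩, ⟨.ofNat 308, .negSucc 248, .negSucc 216, .negSucc 1484, .negSucc 1251, .negSucc 1682⟩, ⟨.negSucc 2338, .ofNat 66, .negSucc 15, .ofNat 18, .ofNat 310, .ofNat 129⟩, ⟨.ofNat 247, .ofNat 54, .ofNat 40, .ofNat 370, .ofNat 571, .ofNat 411⟩, .ofNat 367, .ofNat 261, .ofNat 0, .ofNat 261, .ofNat 642, .ofNat 0, .ofNat 138, .negSucc 124, .ofNat 109, .ofNat 0, .ofNat 128, .negSucc 128, .ofNat 0, .ofNat 0, .ofNat 2160, .ofNat 4654, .ofNat 0, .ofNat 60329470136365887547220777621430090532335780888576, .ofNat 0, .ofNat 0, .ofNat 0, .ofNat 473326695512904312208405733977863194380955845394432, .ofNat 0, .ofNat 0, .ofNat 0, .ofNat 989965411023850356400226090962967742865208791531520, .ofNat 16989690695240045881166023276272253211523416064,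 .ofNat 0, .ofNat 0, .ofNat 9349275872206282609296471862657225200831101260529664, .ofNat 0, .ofNat 0⟩)
    (by decide +kernel)
theorem L04208 : Good (Phi V5.P V5.D (-1) (-1)) ⟨4, 13, 3, 5, 1, 0, 3, 6, 3, 3⟩ :=
  out_sound (S := T5.ds_mm) T5.ok_mm (w := 51) (j := 3) (by decide +kernel)
theorem L04209 : Good (Phi V5.P V5.D (-1) (-1)) ⟨4, 14, 2, 2, 2, 0, 3, 6, 4, 6⟩ :=
  leafX_sound T5.ok_mm T5.Ymm.bz_eq (w := 213) (c := ⟨⟨.negSucc 2146, .ofNat 105, .negSucc 261, .ofNat 349, .ofNat 98, .ofNat 122⟩, ⟨.ofNat 1277, .ofNat 82, .ofNat 336, .negSucc 225, .negSucc 62, .negSucc 77⟩, ⟨.ofNat 1980, .ofNat 70, .ofNat 67, .negSucc 346, .negSucc 295, .negSucc 145⟩, ⟨.negSucc 3196, .ofNat 130, .negSucc 116, .ofNat 500, .ofNat 165, .ofNat 183⟩, ⟨.negSucc 68, .negSucc 70, .ofNat 84, .ofNat 8, .ofNat 44, .ofNat 16⟩, .ofNat 2262, .ofNat 3088, .ofNat 0, .ofNat 3088, .ofNat 4983, .ofNat 0, .ofNat 128, .negSucc 834, .negSucc 279, .ofNat 0, .ofNat 581,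 .ofNat 176, .ofNat 0, .ofNat 0, .ofNat 1790, .ofNat 1168, .ofNat 0, .ofNat 0, .ofNat 8897797329900754287949821134996766720, .ofNat 0, .ofNat 0, .ofNat 0, .ofNat 2037814886702852231972258189103012511744, .ofNat 1446671403998793096692637567423072570273955840, .ofNat 0, .ofNat 0, .ofNat 0, .ofNat 0, .ofNat 0, .ofNat 0, .ofNat 0, .ofNat 0⟩)
    (by decide +kernel)
theorem L04210 : Good (Phi V5.P V5.D (-1) (-1)) ⟨4, 14, 2, 2, 2, 0, 3, 6, 4, 7⟩ :=
  leafX_sound T5.ok_mm T5.Ymm.bz_eq (w := 215) (c := ⟨⟨.negSucc 2177, .negSucc 89, .negSucc 17, .ofNat 416, .ofNat 99, .ofNat 117⟩, ⟨.ofNat 1277, .ofNat 118, .ofNat 243, .negSucc 270, .negSucc 65, .negSucc 67⟩, ⟨.ofNat 1870, .ofNat 4, .ofNat 179, .negSucc 429, .negSucc 314, .negSucc 221⟩, ⟨.negSucc 3185, .ofNat 66, .negSucc 17, .ofNat 655, .ofNat 188, .ofNat 226⟩, ⟨.negSucc 98, .ofNat 22, .negSucc 18, .ofNat 105, .ofNat 80, .ofNat 86⟩, .ofNat 883, .ofNat 997, .ofNat 0, .ofNat 997, .ofNat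 1759, .ofNat 0, .ofNat 128, .negSucc 417, .negSucc 104, .ofNat 0, .ofNat 324, .ofNat 60, .ofNat 0, .ofNat 0, .ofNat 809, .ofNat 18354, .ofNat 86883755031320337061927966841389257754411008, .ofNat 0, .ofNat 18523893704776260078593887803784822784, .ofNat 620878723333678796535486222269667303565033472, .ofNat 19898904855418214840026593486094897776689152, .ofNat 0, .ofNat 370477952165207952822465421115610103808, .ofNat 0, .ofNat 0, .ofNat 0, .ofNat 57278694484917759133039437511363919872, .ofNat 18958734723581668444349117218434900678267633664, .ofNat 34131361712027757449665982023923613959192576, .ofNat 0, .ofNat 76355860272156736829904074850210676736, .ofNat 832983174714032614759706371243455838928502784⟩)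
    (by decide +kernel)
theorem L04211 : Good (Phi V5.P V5.D (-1) (-1)) ⟨4, 15, 2, 2, 2, 0, 3, 6, 3, 3⟩ :=
  out_sound (S := T5.ds_mm) T5.ok_mm (w := 49) (j := 3) (by decide +kernel)
theorem L04212 : Good (Phi V5.P V5.D (-1) (-1)) ⟨4, 14, 2, 2, 3, 2, 3, 6, 4, 6⟩ :=
  leafX_sound T5.ok_mm T5.Ymm.bz_eq (w := 226) (c := ⟨⟨.negSucc 1956, .negSucc 139, .ofNat 41, .ofNat 111, .ofNat 192, .ofNat 132⟩, ⟨.ofNat 1121, .ofNat 102, .ofNat 238, .negSucc 70, .negSucc 121, .negSucc 84⟩, ⟨.ofNat 1621, .negSucc 135, .ofNat 200, .negSucc 604, .negSucc 440, .negSucc 184⟩, ⟨.negSucc 2828, .ofNat 43, .ofNat 23, .ofNat 255, .ofNat 439, .ofNat 207⟩, ⟨.negSucc 54, .ofNat 26, .negSucc 16, .ofNat 153, .ofNat 259, .ofNat 29⟩, .ofNat 881, .ofNat 995, .ofNat 0, .ofNat 995, .ofNat 1758, .ofNat 0, .ofNat 128, .negSucc 362, .negSucc 102, .ofNat 0, .ofNat 279, .ofNat 52, .ofNat 0, .ofNat 0, .ofNat 1339, .ofNat 5208, .ofNat 0, .ofNat 0, .ofNat 0, .ofNat 0,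 .ofNat 0, .ofNat 0, .ofNat 8849641457787954093336394681509138527158272, .ofNat 1123944363239480555951884514967064365682011406336, .ofNat 0, .ofNat 0, .ofNat 4884413089641559870027580662604972706234368, .ofNat 0, .ofNat 0, .ofNat 10950464794465850739145869015115791562704945152, .ofNat 3492242209138470671738084456740866177892352, .ofNat 49112488408996108144648361691688382463568976543744⟩)
    (by decide +kernel)
theorem L04213 : Good (Phi V5.P V5.D (-1) (-1)) ⟨5, 28, 2, 2, 3, 2, 3, 6, 5, 14⟩ :=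
  leafX_sound T5.ok_mm T5.Ymm.bz_eq (w := 236) (c := ⟨⟨.negSucc 1789, .negSucc 39, .negSucc 16, .ofNat 109, .ofNat 146, .ofNat 39⟩, ⟨.ofNat 1058, .ofNat 80, .ofNat 168, .negSucc 70, .negSucc 91, .negSucc 23⟩, ⟨.ofNat 1553, .ofNat 61, .ofNat 29, .negSucc 696, .negSucc 482, .negSucc 147⟩, ⟨.negSucc 2592, .ofNat 23, .negSucc 11, .ofNat 264, .ofNat 375, .ofNat 75⟩, ⟨.negSucc 29, .negSucc 9, .negSucc 18, .ofNat 171, .ofNat 262, .ofNat 34⟩, .ofNat 881, .ofNat 995, .ofNat 0, .ofNat 995, .ofNat 1757, .ofNat 0, .ofNat 128, .negSucc 449, .negSucc 99, .ofNat 0, .ofNat 347, .ofNat 33, .ofNat 0, .ofNat 0, .ofNat 2858, .ofNat 11625, .ofNat 25575207164219740090753794515114690243517004906496, .ofNat 0, .ofNat 2267184670781632184838410794677068885917696, .ofNat 888726189677399603174290386454191530962463913672704, .ofNat 0, .ofNat 0, .ofNat 65718965206566210617201556823396219659223040, .ofNat 0, .ofNat 0, .ofNat 1694449197637403014225559431451039140510831738880,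 .ofNat 43652135000991540876720658181959139524083712, .ofNat 5622303128881946877164346847590717498581591437344768, .ofNat 0, .ofNat 9007880976112672936346584903241486355535172206592, .ofNat 94931657907173106639385398296719111732854784, .ofNat 63814830052878656902408738547623141664461944413749248⟩)
    (by decide +kernel)
theorem L04214 : Good (Phi V5.P V5.D (-1) (-1)) ⟨5, 28, 3, 4, 4, 4, 3, 6, 5, 15⟩ :=
  leafX_sound T5.ok_mm T5.Ymm.bz_eq (w := 257) (c := ⟨⟨.negSucc 1736, .negSucc 40, .negSucc 15, .ofNat 52, .ofNat 158, .ofNat 12⟩, ⟨.ofNat 1025, .ofNat 71, .ofNat 85, .negSucc 30, .negSucc 95, .negSucc 6⟩, ⟨.ofNat 1441, .ofNat 2, .ofNat 55, .negSucc 388, .negSucc 415, .negSucc 186⟩, ⟨.negSucc 2547, .ofNat 22, .ofNat 0, .ofNat 165, .ofNat 363, .ofNat 78⟩, ⟨.negSucc 73, .negSucc 11, .ofNat 11, .ofNat 144, .ofNat 221, .ofNat 95⟩, .ofNat 2062, .ofNat 2820, .ofNat 0, .ofNat 2820, .ofNat 4646, .ofNat 0, .ofNat 128, .negSucc 715, .negSucc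 65, .ofNat 0, .ofNat 496, .ofNat 25, .ofNat 0, .ofNat 0, .ofNat 3181, .ofNat 134931, .ofNat 12510592701991355299893756411652784195239877532073328640, .ofNat 0, .ofNat 0, .ofNat 0, .ofNat 2157848450788733246422438116392317697723043499697242112, .ofNat 0, .ofNat 53587129368283201814246160320782888744540163801088, .ofNat 0, .ofNat 0, .ofNat 61661252793953048010677426874786043915190926051377152, .ofNat 11479310160974577763416743419906491405935218524160, .ofNat 0, .ofNat 0, .ofNat 83112689977009819977634438080044913371479701494693888, .ofNat 15712836996604475744986046825818639711155976667136, .ofNat 0⟩)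
    (by decide +kernel)
theorem L04215 : Good (Phi V5.P V5.D (-1) (-1)) ⟨5, 28, 3, 5, 4, 4, 3, 6, 6, 30⟩ :=
  leafX_sound T5.ok_mm T5.Ymm.bz_eq (w := 262) (c := ⟨⟨.negSucc 1754, .negSucc 25, .negSucc 24, .ofNat 53, .ofNat 152, .ofNat 10⟩, ⟨.ofNat 1114, .ofNat 67, .ofNat 86, .negSucc 32, .negSucc 95, .negSucc 5⟩, ⟨.ofNat 1505, .ofNat 67, .ofNat 34, .negSucc 403, .negSucc 453, .negSucc 71⟩, ⟨.negSucc 2457, .ofNat 29, .ofNat 10, .ofNat 141, .ofNat 255, .ofNat 57⟩, ⟨.ofNat 73, .ofNat 1, .ofNat 10, .ofNat 104, .ofNat 68, .ofNat 66⟩, .ofNat 5645, .ofNat 8189, .ofNat 0, .ofNat 8189, .ofNat 12679, .ofNat 0, .ofNat 128, .negSucc 842, .negSucc 99, .ofNat 0, .ofNat 570, .ofNat 56, .ofNat 0, .ofNat 0, .ofNat 4970, .ofNat 154446, .ofNat 98648175299225467963786316092871934822047127598675263488, .ofNat 0, .ofNat 243087068935135706833386982691633235811792970579968, .ofNat 85903618078657251988495584723591776709851394620816114057216, .ofNat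 17460984823597597302551052642995050960534272307447726080, .ofNat 0, .ofNat 5465681101003368249370250176255894788721338623197184, .ofNat 0, .ofNat 0, .ofNat 0, .ofNat 0, .ofNat 0, .ofNat 0, .ofNat 0, .ofNat 0, .ofNat 0⟩)
    (by decide +kernel)
theorem L04216 : Good (Phi V5.P V5.D (-1) (-1)) ⟨5, 28, 3, 5, 4, 4, 3, 6, 6, 31⟩ :=
  leafX_sound T5.ok_mm T5.Ymm.bz_eq (w := 263) (c := ⟨⟨.negSucc 1721, .negSucc 53, .negSucc 3, .ofNat 40, .ofNat 144, .ofNat 9⟩, ⟨.ofNat 1095, .ofNat 84, .ofNat 70, .negSucc 25, .negSucc 91, .negSucc 4⟩, ⟨.ofNat 1479, .negSucc 39, .ofNat 84, .negSucc 474, .negSucc 411, .negSucc 91⟩, ⟨.negSucc 2570, .ofNat 26, .negSucc 1, .ofNat 184, .ofNat 417, .ofNat 36⟩, ⟨.negSucc 160, .ofNat 24, .negSucc 24, .ofNat 195, .ofNat 330, .ofNat 36⟩, .ofNat 390, .ofNat 297, .ofNat 0, .ofNat 297, .ofNat 646, .ofNat 0, .ofNat 128, .negSucc 187, .negSucc 29, .ofNat 0, .ofNat 191, .negSucc 40, .ofNat 0, .ofNat 0, .ofNat 1573,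 .ofNat 285814, .ofNat 246701727970970692028565993192926124397126074259392692224, .ofNat 780432902587409776486455334913938035759855068891840512, .ofNat 267630541727683122242502048841874284457112241176576, .ofNat 75076977930524382516415561395369625283553193247909194235904, .ofNat 32997269496155619545286107866508403501886210438909132800, .ofNat 0, .ofNat 63155145505010987749351208631234199677294933442560, .ofNat 9439312845870606798775150429937649668422095649083123302400, .ofNat 36245657478943965861640056886230990452179068396144427008, .ofNat 0, .ofNat 75660350043949968207263688424806811339978761568256, .ofNat 7396955980619231182303998783317102032417257060464160931840, .ofNat 104105639593375527371332586224700220331131171451648868352, .ofNat 1275533179345434880758553084324930074053031519066259456, .ofNat 62836896240062749074267121119520816348256194789376, .ofNat 0⟩)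
    (by decide +kernel)
theorem L04217 : Good (Phi V5.P V5.D (-1) (-1)) ⟨5, 28, 3, 4, 4, 5, 3, 6, 5, 15⟩ :=
  leafX_sound T5.ok_mm T5.Ymm.bz_eq (w := 254) (c := ⟨⟨.negSucc 1669, .negSucc 16, .ofNat 0, .negSucc 8, .ofNat 110, .ofNat 5⟩, ⟨.ofNat 987, .ofNat 62, .ofNat 70, .ofNat 9, .negSucc 63, .negSucc 1⟩, ⟨.ofNat 1114, .ofNat 79, .ofNat 177, .negSucc 806, .negSucc 603, .negSucc 385⟩, ⟨.negSucc 2395, .ofNat 46, .ofNat 16, .ofNat 112, .ofNat 340, .ofNat 105⟩, ⟨.ofNat 18, .negSucc 30, .negSucc 4, .ofNat 201, .ofNat 294, .ofNat 152⟩, .ofNat 2032, .ofNat 2773, .ofNat 0, .ofNat 2773, .ofNat 4573, .ofNat 0, .ofNat 128, .negSucc 663, .ofNat 179, .ofNat 0, .ofNat 460, .negSucc 144, .ofNat 0, .ofNat 0, .ofNat 6216, .ofNat 21030, .ofNat 2096077444986611548794328731021565808772379382005104640, .ofNat 6543783875018649187658718095545251087872574143594496, .ofNat 0, .ofNat 0, .ofNat 0, .ofNat 24244705565847323280476548510200865453873362420891648,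 .ofNat 21038872574780982911582305712887503878596033773568, .ofNat 0, .ofNat 11495889802426443497988355916531352452379186275190571008, .ofNat 224003156328327229140359957733185675457313767063289856, .ofNat 36088962661091903017852834808874177264643207069696, .ofNat 0, .ofNat 0, .ofNat 1125591182190103110070512894753119842564035017646800896, .ofNat 194895010388216895804162826549137691900787526991872, .ofNat 0⟩)
    (by decide +kernel)
theorem L04218 : Good (Phi V5.P V5.D (-1) (-1)) ⟨6, 56, 3, 5, 5, 10, 3, 6, 6, 30⟩ :=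
  leafX_sound T5.ok_mm T5.Ymm.bz_eq (w := 279) (c := ⟨⟨.negSucc 1670, .negSucc 28, .negSucc 4, .ofNat 1, .ofNat 126, .ofNat 0⟩, ⟨.ofNat 1061, .ofNat 44, .ofNat 72, .ofNat 0, .negSucc 78, .ofNat 0⟩, ⟨.ofNat 1292, .negSucc 27, .ofNat 20, .negSucc 376, .negSucc 578, .negSucc 181⟩, ⟨.negSucc 2405, .ofNat 13, .ofNat 2, .ofNat 71, .ofNat 389, .ofNat 38⟩, ⟨.negSucc 13, .ofNat 8, .negSucc 1, .ofNat 108, .ofNat 327, .ofNat 58⟩, .ofNat 1151, .ofNat 1417, .ofNat 0, .ofNat 1417, .ofNat 2412, .ofNat 0, .ofNat 128, .negSucc 284, .ofNat 26, .ofNat 0, .ofNat 205, .negSucc 30, .ofNat 0, .ofNat 0, .ofNat 2081, .ofNat 70697, .ofNat 2948346723029676177078806796761084774790944821558011393736704, .ofNat 0, .ofNat 227485718470287956263328135684940945863187637041364992, .ofNat 0, .ofNat 0, .ofNat 5417490348386128433863495929356067208263349865622752198656, .ofNat 456002032367481158183248418647051701531048905896099840, .ofNat 0, .ofNat 0, .ofNat 7035331272652279381246058268546447962481431534889030647808,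 .ofNat 398006754468168067089089185449293240607397942837379072, .ofNat 0, .ofNat 0, .ofNat 0, .ofNat 0, .ofNat 0⟩)
    (by decide +kernel)
theorem L04219 : Good (Phi V5.P V5.D (-1) (-1)) ⟨6, 57, 3, 5, 5, 10, 3, 6, 6, 30⟩ :=
  leafX_sound T5.ok_mm T5.Ymm.bz_eq (w := 278) (c := ⟨⟨.negSucc 1700, .negSucc 36, .ofNat 10, .ofNat 1, .ofNat 121, .ofNat 1⟩, ⟨.ofNat 1109, .ofNat 52, .ofNat 58, .ofNat 0, .negSucc 78, .negSucc 0⟩, ⟨.ofNat 1286, .negSucc 19, .negSucc 2, .negSucc 381, .negSucc 596, .negSucc 178⟩, ⟨.negSucc 2387, .ofNat 4, .ofNat 2, .ofNat 71, .ofNat 370, .ofNat 48⟩, ⟨.ofNat 3, .negSucc 3, .negSucc 1, .ofNat 106, .ofNat 304, .ofNat 68⟩, .ofNat 1568, .ofNat 1995, .ofNat 0, .ofNat 1995, .ofNat 3225, .ofNat 0, .ofNat 128, .negSucc 255, .ofNat 40, .ofNat 0, .ofNat 186, .negSucc 39, .ofNat 0, .ofNat 0, .ofNat 2084, .ofNat 51451, .ofNat 2212728888074428006956941343753414577301415385874471501955072, .ofNat 0, .ofNat 236281720186599359775055407301865602066861500714188800,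 .ofNat 1181408075335998924925475387202802918291887402024979075963027456, .ofNat 0, .ofNat 0, .ofNat 0, .ofNat 0, .ofNat 0, .ofNat 1319368049895647880024039297685795461823094132939765579776, .ofNat 674517158322575150446938312777459505258782988271878144, .ofNat 219935883871245392594621820671267323731067607873200878742667264, .ofNat 0, .ofNat 60536999273280120582178276640800739868430344114709211381760, .ofNat 0, .ofNat 13827056452210193091095851626716501260254858191545073137111531520⟩)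
    (by decide +kernel)
theorem L04220 : Good (Phi V5.P V5.D (-1) (-1)) ⟨5, 28, 3, 5, 5, 10, 4, 12, 6, 31⟩ :=
  out_sound (S := T5.ds_mm) T5.ok_mm (w := 36) (j := 1) (by decide +kernel)
theorem L04221 : Good (Phi V5.P V5.D (-1) (-1)) ⟨5, 28, 4, 10, 5, 10, 5, 26, 8, 124⟩ :=
  leafX_sound T5.ok_mm T5.Ymm.bz_eq (w := 299) (c := ⟨⟨.negSucc 1614, .ofNat 2, .negSucc 35, .negSucc 11, .ofNat 34, .ofNat 0⟩, ⟨.ofNat 1026, .ofNat 53, .ofNat 54, .ofNat 9, .negSucc 21, .ofNat 0⟩, ⟨.ofNat 780, .ofNat 80, .negSucc 73, .negSucc 443, .negSucc 72, .negSucc 45⟩, ⟨.negSucc 2188, .ofNat 38, .negSucc 2, .ofNat 76, .ofNat 108, .ofNat 8⟩, ⟨.ofNat 187, .negSucc 34, .ofNat 29, .ofNat 144, .ofNat 93, .ofNat 13⟩, .ofNat 390, .ofNat 297, .ofNat 0, .ofNat 297, .ofNat 646, .ofNat 0, .ofNat 128, .negSucc 176, .ofNat 74, .ofNat 0, .ofNat 179, .negSucc 162, .ofNat 0, .ofNat 0, .ofNat 3240, .ofNat 633082, .ofNat 82708533143153717165597778158854975013320721066220707030889398272,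 .ofNat 94281811355574815069588602708980616790883700137352510052499456, .ofNat 58842404809571661975108362587695450902360545789439937347584, .ofNat 0, .ofNat 982569711793826906126371083952221027519226894265780168848048128, .ofNat 0, .ofNat 1085706072924764251727940898531423797531590061926552646451200, .ofNat 0, .ofNat 3253021766934391151957500284952790885326180870901220590007353344, .ofNat 7953188832458245311355451578223962818685186467387573941567488, .ofNat 3341855962359719060433733946661413506474158315608983308599296, .ofNat 1172564828117560580942433357647164729243894806613929432255196555116544, .ofNat 0, .ofNat 129473331994331488497846267736371458874153104388135956030423040, .ofNat 11930116134734076623761824658773035096554347638399338920542208, .ofNat 0⟩)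
    (by decide +kernel)
theorem L04222 : Good (Phi V5.P V5.D (-1) (-1)) ⟨6, 56, 4, 11, 5, 10, 5, 26, 8, 124⟩ :=
  out_sound (S := T5.ds_mm) T5.ok_mm (w := 65) (j := 3) (by decide +kernel)
theorem L04223 : Good (Phi V5.P V5.D (-1) (-1)) ⟨7, 114, 5, 22, 5, 10, 5, 26, 8, 124⟩ :=
  out_sound (S := T5.ds_mm) T5.ok_mm (w := 73) (j := 3) (by decide +kernel)
theorem L04224 : Good (Phi V5.P V5.D (-1) (-1)) ⟨7, 115, 5, 22, 5, 10, 5, 26, 8, 124⟩ :=
  out_sound (S := T5.ds_mm) T5.ok_mm (w := 21) (j := 4) (by decide +kernel)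
theorem L04225 : Good (Phi V5.P V5.D (-1) (-1)) ⟨6, 57, 5, 23, 5, 10, 5, 26, 8, 124⟩ :=
  out_sound (S := T5.ds_mm) T5.ok_mm (w := 67) (j := 3) (by decide +kernel)
theorem L04226 : Good (Phi V5.P V5.D (-1) (-1)) ⟨5, 28, 3, 5, 5, 10, 5, 27, 8, 124⟩ :=
  leafX_sound T5.ok_mm T5.Ymm.bz_eq (w := 295) (c := ⟨⟨.negSucc 1574, .negSucc 40, .negSucc 19, .negSucc 6, .ofNat 28, .ofNat 0⟩, ⟨.ofNat 1001, .ofNat 79, .ofNat 76, .ofNat 6, .negSucc 17, .ofNat 0⟩, ⟨.ofNat 704, .negSucc 18, .ofNat 11, .negSucc 419, .negSucc 149, .negSucc 39⟩, ⟨.negSucc 2075, .ofNat 23, .ofNat 8, .ofNat 76, .ofNat 101, .ofNat 8⟩, ⟨.ofNat 280, .ofNat 5, .ofNat 3, .ofNat 132, .ofNat 95, .ofNat 12⟩, .ofNat 903, .ofNat 1022, .ofNat 0, .ofNat 1022, .ofNat 1783, .ofNat 0, .ofNat 128, .negSucc 291, .ofNat 64, .ofNat 0, .ofNat 226, .negSucc 77, .ofNat 0, .ofNat 0, .ofNat 2780, .ofNat 419772, .ofNat 5602050805274032260885264367212673904914777145968500587500666880, .ofNat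 4919849158902220138891700251366444583306753178447760785932288, .ofNat 1534652784492665067001848165396252819479458503534404605837312, .ofNat 550664156640779829165010832002910110028596136243465447906977955971072, .ofNat 0, .ofNat 1045830616384713572699355121152602559547937417377953309786112, .ofNat 696535395233768994644002435527484434459725839233137005035520, .ofNat 0, .ofNat 0, .ofNat 9086268917684129242385663924480324607614433826160700037267456, .ofNat 687136920634254115699958645742369632731663096352125556359168, .ofNat 115984223907256174276097000641666818520694445098837048434357736308736, .ofNat 911592353793071128182201750235212854196268197538514350844674048, .ofNat 46489612445146307002009395271143412164464976063169752138252288, .ofNat 7427813651221168630670137432343701823335781782008920834834432, .ofNat 1703363640109139696246528803856094309866024250112230359207024567255040⟩)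
    (by decide +kernel)
theorem L04227 : Good (Phi V5.P V5.D (-1) (-1)) ⟨5, 28, 3, 5, 5, 10, 6, 52, 8, 125⟩ :=
  out_sound (S := T5.ds_mm) T5.ok_mm (w := 42) (j := 1) (by decide +kernel)
theorem L04228 : Good (Phi V5.P V5.D (-1) (-1)) ⟨5, 28, 3, 5, 6, 20, 6, 53, 8, 125⟩ :=
  out_sound (S := T5.ds_mm) T5.ok_mm (w := 44) (j := 1) (by decide +kernel)
theorem L04229 : Good (Phi V5.P V5.D (-1) (-1)) ⟨5, 28, 3, 5, 6, 21, 7, 106, 8, 125⟩ :=
  out_sound (S := T5.ds_mm) T5.ok_mm (w := 45) (j := 1) (by decide +kernel)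
theorem L04230 : Good (Phi V5.P V5.D (-1) (-1)) ⟨5, 28, 3, 5, 7, 42, 7, 107, 9, 250⟩ :=
  out_sound (S := T5.ds_mm) T5.ok_mm (w := 49) (j := 1) (by decide +kernel)
theorem L04231 : Good (Phi V5.P V5.D (-1) (-1)) ⟨5, 28, 3, 5, 7, 43, 7, 107, 9, 250⟩ :=
  out_sound (S := T5.ds_mm) T5.ok_mm (w := 60) (j := 2) (by decide +kernel)
theorem L04232 : Good (Phi V5.P V5.D (-1) (-1)) ⟨5, 28, 3, 5, 6, 21, 7, 107, 9, 251⟩ :=
  out_sound (S := T5.ds_mm) T5.ok_mm (w := 47) (j := 1) (by decide +kernel)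
theorem L04233 : Good (Phi V5.P V5.D (-1) (-1)) ⟨5, 28, 3, 5, 7, 40, 7, 108, 9, 250⟩ :=
  out_sound (S := T5.ds_mm) T5.ok_mm (w := 49) (j := 1) (by decide +kernel)
theorem L04234 : Good (Phi V5.P V5.D (-1) (-1)) ⟨5, 28, 3, 5, 7, 41, 8, 216, 9, 250⟩ :=
  out_sound (S := T5.ds_mm) T5.ok_mm (w := 50) (j := 1) (by decide +kernel)
theorem L04235 : Good (Phi V5.P V5.D (-1) (-1)) ⟨5, 28, 3, 5, 8, 82, 8, 217, 10, 500⟩ :=
  out_sound (S := T5.ds_mm) T5.ok_mm (w := 54) (j := 1) (by decide +kernel)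
theorem L04236 : Good (Phi V5.P V5.D (-1) (-1)) ⟨5, 28, 3, 5, 9, 166, 8, 217, 10, 500⟩ :=
  out_sound (S := T5.ds_mm) T5.ok_mm (w := 56) (j := 1) (by decide +kernel)
theorem L04237 : Good (Phi V5.P V5.D (-1) (-1)) ⟨5, 28, 3, 5, 9, 167, 8, 217, 10, 500⟩ :=
  out_sound (S := T5.ds_mm) T5.ok_mm (w := 68) (j := 2) (by decide +kernel)
theorem L04238 : Good (Phi V5.P V5.D (-1) (-1)) ⟨5, 28, 3, 5, 7, 41, 8, 217, 10, 501⟩ :=
  out_sound (S := T5.ds_mm) T5.ok_mm (w := 52) (j := 1) (by decide +kernel)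
theorem L04239 : Good (Phi V5.P V5.D (-1) (-1)) ⟨5, 28, 3, 5, 6, 20, 7, 108, 9, 251⟩ :=
  out_sound (S := T5.ds_mm) T5.ok_mm (w := 47) (j := 1) (by decide +kernel)
theorem L04240 : Good (Phi V5.P V5.D (-1) (-1)) ⟨5, 28, 3, 5, 7, 40, 8, 218, 9, 250⟩ :=
  out_sound (S := T5.ds_mm) T5.ok_mm (w := 50) (j := 1) (by decide +kernel)
theorem L04241 : Good (Phi V5.P V5.D (-1) (-1)) ⟨5, 28, 3, 5, 8, 80, 9, 438, 10, 500⟩ :=
  out_sound (S := T5.ds_mm) T5.ok_mm (w := 55) (j := 1) (by decide +kernel)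
theorem L04242 : Good (Phi V5.P V5.D (-1) (-1)) ⟨5, 28, 3, 5, 9, 160, 10, 878, 11, 1000⟩ :=
  out_sound (S := T5.ds_mm) T5.ok_mm (w := 60) (j := 1) (by decide +kernel)
theorem L04243 : Good (Phi V5.P V5.D (-1) (-1)) ⟨5, 28, 3, 5, 10, 320, 10, 879, 12, 2000⟩ :=
  out_sound (S := T5.ds_mm) T5.ok_mm (w := 64) (j := 1) (by decide +kernel)
theorem L04244 : Good (Phi V5.P V5.D (-1) (-1)) ⟨5, 28, 3, 5, 10, 321, 11, 1758, 12, 2000⟩ :=
  out_sound (S := T5.ds_mm) T5.ok_mm (w := 65) (j := 1) (by decide +kernel)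
theorem L04245 : Good (Phi V5.P V5.D (-1) (-1)) ⟨5, 28, 3, 5, 10, 321, 11, 1759, 12, 2000⟩ :=
  out_sound (S := T5.ds_mm) T5.ok_mm (w := 80) (j := 2) (by decide +kernel)
theorem L04246 : Good (Phi V5.P V5.D (-1) (-1)) ⟨5, 28, 3, 5, 9, 160, 10, 879, 12, 2001⟩ :=
  out_sound (S := T5.ds_mm) T5.ok_mm (w := 62) (j := 1) (by decide +kernel)
theorem L04247 : Good (Phi V5.P V5.D (-1) (-1)) ⟨5, 28, 3, 5, 10, 322, 10, 878, 12, 2000⟩ :=
  out_sound (S := T5.ds_mm) T5.ok_mm (w := 64) (j := 1) (by decide +kernel)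
theorem L04248 : Good (Phi V5.P V5.D (-1) (-1)) ⟨5, 28, 3, 5, 10, 323, 10, 878, 12, 2000⟩ :=
  out_sound (S := T5.ds_mm) T5.ok_mm (w := 78) (j := 2) (by decide +kernel)
theorem L04249 : Good (Phi V5.P V5.D (-1) (-1)) ⟨5, 28, 3, 5, 9, 161, 10, 878, 12, 2001⟩ :=
  out_sound (S := T5.ds_mm) T5.ok_mm (w := 62) (j := 1) (by decide +kernel)
theorem L04250 : Good (Phi V5.P V5.D (-1) (-1)) ⟨5, 28, 3, 5, 9, 161, 10, 879, 11, 1000⟩ :=
  out_sound (S := T5.ds_mm) T5.ok_mm (w := 74) (j := 2) (by decide +kernel)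
theorem L04251 : Good (Phi V5.P V5.D (-1) (-1)) ⟨5, 28, 3, 5, 8, 80, 9, 439, 11, 1001⟩ :=
  out_sound (S := T5.ds_mm) T5.ok_mm (w := 57) (j := 1) (by decide +kernel)
theorem L04252 : Good (Phi V5.P V5.D (-1) (-1)) ⟨5, 28, 3, 5, 9, 162, 10, 876, 11, 1000⟩ :=
  out_sound (S := T5.ds_mm) T5.ok_mm (w := 60) (j := 1) (by decide +kernel)
theorem L04253 : Good (Phi V5.P V5.D (-1) (-1)) ⟨5, 28, 3, 5, 9, 162, 10, 877, 11, 1000⟩ :=
  out_sound (S := T5.ds_mm) T5.ok_mm (w := 74) (j := 2) (by decide +kernel)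
theorem L04254 : Good (Phi V5.P V5.D (-1) (-1)) ⟨5, 28, 3, 5, 9, 162, 9, 438, 11, 1001⟩ :=
  out_sound (S := T5.ds_mm) T5.ok_mm (w := 59) (j := 1) (by decide +kernel)
theorem L04255 : Good (Phi V5.P V5.D (-1) (-1)) ⟨5, 28, 3, 5, 9, 163, 9, 438, 10, 500⟩ :=
  out_sound (S := T5.ds_mm) T5.ok_mm (w := 70) (j := 2) (by decide +kernel)
theorem L04256 : Good (Phi V5.P V5.D (-1) (-1)) ⟨5, 28, 3, 5, 8, 81, 9, 439, 10, 500⟩ :=
  out_sound (S := T5.ds_mm) T5.ok_mm (w := 68) (j := 2) (by decide +kernel)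
theorem L04257 : Good (Phi V5.P V5.D (-1) (-1)) ⟨5, 28, 3, 5, 8, 80, 8, 219, 10, 501⟩ :=
  out_sound (S := T5.ds_mm) T5.ok_mm (w := 54) (j := 1) (by decide +kernel)
theorem L04258 : Good (Phi V5.P V5.D (-1) (-1)) ⟨5, 28, 3, 5, 8, 81, 8, 219, 10, 501⟩ :=
  out_sound (S := T5.ds_mm) T5.ok_mm (w := 66) (j := 2) (by decide +kernel)
theorem L04259 : Good (Phi V5.P V5.D (-1) (-1)) ⟨5, 28, 3, 5, 9, 164, 9, 436, 10, 500⟩ :=
  out_sound (S := T5.ds_mm) T5.ok_mm (w := 57) (j := 1) (by decide +kernel)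
theorem L04260 : Good (Phi V5.P V5.D (-1) (-1)) ⟨5, 28, 3, 5, 9, 164, 9, 437, 10, 500⟩ :=
  out_sound (S := T5.ds_mm) T5.ok_mm (w := 70) (j := 2) (by decide +kernel)
theorem L04261 : Good (Phi V5.P V5.D (-1) (-1)) ⟨5, 28, 3, 5, 9, 164, 8, 218, 10, 501⟩ :=
  out_sound (S := T5.ds_mm) T5.ok_mm (w := 56) (j := 1) (by decide +kernel)
theorem L04262 : Good (Phi V5.P V5.D (-1) (-1)) ⟨5, 28, 3, 5, 9, 165, 8, 218, 9, 250⟩ :=
  out_sound (S := T5.ds_mm) T5.ok_mm (w := 66) (j := 2) (by decide +kernel)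
theorem L04263 : Good (Phi V5.P V5.D (-1) (-1)) ⟨5, 28, 3, 5, 8, 82, 8, 219, 9, 250⟩ :=
  out_sound (S := T5.ds_mm) T5.ok_mm (w := 64) (j := 2) (by decide +kernel)
theorem L04264 : Good (Phi V5.P V5.D (-1) (-1)) ⟨5, 28, 3, 5, 8, 83, 7, 109, 9, 250⟩ :=
  out_sound (S := T5.ds_mm) T5.ok_mm (w := 62) (j := 2) (by decide +kernel)
theorem L04265 : Good (Phi V5.P V5.D (-1) (-1)) ⟨5, 28, 3, 5, 7, 40, 7, 109, 9, 251⟩ :=
  out_sound (S := T5.ds_mm) T5.ok_mm (w := 49) (j := 1) (by decide +kernel)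
theorem L04266 : Good (Phi V5.P V5.D (-1) (-1)) ⟨5, 28, 3, 5, 7, 41, 7, 109, 9, 251⟩ :=
  out_sound (S := T5.ds_mm) T5.ok_mm (w := 60) (j := 2) (by decide +kernel)
theorem L04267 : Good (Phi V5.P V5.D (-1) (-1)) ⟨5, 28, 3, 5, 10, 320, 11, 1760, 12, 2000⟩ :=
  out_sound (S := T5.ds_mm) T5.ok_mm (w := 65) (j := 1) (by decide +kernel)
theorem L04268 : Good (Phi V5.P V5.D (-1) (-1)) ⟨5, 28, 3, 5, 10, 320, 11, 1761, 12, 2000⟩ :=
  out_sound (S := T5.ds_mm) T5.ok_mm (w := 80) (j := 2) (by decide +kernel)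
theorem L04269 : Good (Phi V5.P V5.D (-1) (-1)) ⟨5, 28, 3, 5, 10, 320, 10, 880, 12, 2001⟩ :=
  out_sound (S := T5.ds_mm) T5.ok_mm (w := 64) (j := 1) (by decide +kernel)
theorem L04270 : Good (Phi V5.P V5.D (-1) (-1)) ⟨5, 28, 3, 5, 10, 320, 10, 880, 11, 1001⟩ :=
  out_sound (S := T5.ds_mm) T5.ok_mm (w := 62) (j := 1) (by decide +kernel)
theorem L04271 : Good (Phi V5.P V5.D (-1) (-1)) ⟨5, 28, 3, 5, 10, 320, 10, 880, 10, 501⟩ :=
  out_sound (S := T5.ds_mm) T5.ok_mm (w := 60) (j := 1) (by decide +kernel)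
theorem L04272 : Good (Phi V5.P V5.D (-1) (-1)) ⟨5, 28, 3, 5, 10, 321, 10, 880, 9, 250⟩ :=
  out_sound (S := T5.ds_mm) T5.ok_mm (w := 72) (j := 2) (by decide +kernel)
theorem L04273 : Good (Phi V5.P V5.D (-1) (-1)) ⟨5, 28, 3, 5, 9, 160, 10, 881, 9, 250⟩ :=
  out_sound (S := T5.ds_mm) T5.ok_mm (w := 70) (j := 2) (by decide +kernel)
theorem L04274 : Good (Phi V5.P V5.D (-1) (-1)) ⟨5, 28, 3, 5, 9, 160, 9, 440, 9, 251⟩ :=
  out_sound (S := T5.ds_mm) T5.ok_mm (w := 55) (j := 1) (by decide +kernel)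
theorem L04275 : Good (Phi V5.P V5.D (-1) (-1)) ⟨5, 28, 3, 5, 9, 161, 9, 440, 8, 125⟩ :=
  out_sound (S := T5.ds_mm) T5.ok_mm (w := 66) (j := 2) (by decide +kernel)
theorem L04276 : Good (Phi V5.P V5.D (-1) (-1)) ⟨5, 28, 3, 5, 8, 80, 9, 441, 8, 125⟩ :=
  out_sound (S := T5.ds_mm) T5.ok_mm (w := 64) (j := 2) (by decide +kernel)
theorem L04277 : Good (Phi V5.P V5.D (-1) (-1)) ⟨5, 28, 3, 5, 8, 81, 8, 220, 8, 125⟩ :=
  out_sound (S := T5.ds_mm) T5.ok_mm (w := 62) (j := 2) (by decide +kernel)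
theorem L04278 : Good (Phi V5.P V5.D (-1) (-1)) ⟨5, 28, 3, 5, 7, 40, 8, 221, 8, 125⟩ :=
  out_sound (S := T5.ds_mm) T5.ok_mm (w := 60) (j := 2) (by decide +kernel)
theorem L04279 : Good (Phi V5.P V5.D (-1) (-1)) ⟨5, 28, 3, 5, 7, 40, 7, 111, 8, 125⟩ :=
  out_sound (S := T5.ds_mm) T5.ok_mm (w := 58) (j := 2) (by decide +kernel)
theorem L04280 : Good (Phi V5.P V5.D (-1) (-1)) ⟨5, 28, 3, 5, 7, 41, 6, 55, 8, 125⟩ :=
  out_sound (S := T5.ds_mm) T5.ok_mm (w := 56) (j := 2) (by decide +kernel)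
theorem L04281 : Good (Phi V5.P V5.D (-1) (-1)) ⟨5, 28, 3, 5, 8, 84, 8, 216, 8, 125⟩ :=
  out_sound (S := T5.ds_mm) T5.ok_mm (w := 50) (j := 1) (by decide +kernel)
theorem L04282 : Good (Phi V5.P V5.D (-1) (-1)) ⟨5, 28, 3, 5, 8, 84, 8, 217, 8, 125⟩ :=
  out_sound (S := T5.ds_mm) T5.ok_mm (w := 62) (j := 2) (by decide +kernel)
theorem L04283 : Good (Phi V5.P V5.D (-1) (-1)) ⟨5, 28, 3, 5, 8, 85, 7, 108, 8, 125⟩ :=
  out_sound (S := T5.ds_mm) T5.ok_mm (w := 60) (j := 2) (by decide +kernel)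
theorem L04284 : Good (Phi V5.P V5.D (-1) (-1)) ⟨5, 28, 3, 5, 7, 42, 7, 109, 8, 125⟩ :=
  out_sound (S := T5.ds_mm) T5.ok_mm (w := 58) (j := 2) (by decide +kernel)
theorem L04285 : Good (Phi V5.P V5.D (-1) (-1)) ⟨5, 28, 3, 5, 7, 43, 6, 54, 8, 125⟩ :=
  out_sound (S := T5.ds_mm) T5.ok_mm (w := 56) (j := 2) (by decide +kernel)
theorem L04286 : Good (Phi V5.P V5.D (-1) (-1)) ⟨5, 28, 3, 5, 6, 21, 6, 55, 8, 125⟩ :=
  out_sound (S := T5.ds_mm) T5.ok_mm (w := 54) (j := 2) (by decide +kernel)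
theorem L04287 : Good (Phi V5.P V5.D (-1) (-1)) ⟨5, 28, 3, 5, 5, 10, 5, 26, 7, 63⟩ :=
  out_sound (S := T5.ds_mm) T5.ok_mm (w := 39) (j := 1) (by decide +kernel)
theorem L04288 : Good (Phi V5.P V5.D (-1) (-1)) ⟨5, 28, 3, 5, 6, 20, 6, 54, 7, 63⟩ :=
  out_sound (S := T5.ds_mm) T5.ok_mm (w := 42) (j := 1) (by decide +kernel)
theorem L04289 : Good (Phi V5.P V5.D (-1) (-1)) ⟨5, 28, 3, 5, 6, 20, 6, 55, 7, 63⟩ :=
  out_sound (S := T5.ds_mm) T5.ok_mm (w := 52) (j := 2) (by decide +kernel)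
theorem L04290 : Good (Phi V5.P V5.D (-1) (-1)) ⟨5, 28, 3, 5, 6, 21, 5, 27, 7, 63⟩ :=
  out_sound (S := T5.ds_mm) T5.ok_mm (w := 50) (j := 2) (by decide +kernel)
theorem L04291 : Good (Phi V5.P V5.D (-1) (-1)) ⟨5, 28, 3, 5, 5, 11, 4, 12, 7, 60⟩ :=
  leafX_sound T5.ok_mm T5.Ymm.bz_eq (w := 285) (c := ⟨⟨.negSucc 1632, .negSucc 67, .ofNat 0, .negSucc 29, .ofNat 26, .ofNat 2⟩, ⟨.ofNat 1036, .ofNat 99, .ofNat 68, .ofNat 20, .negSucc 15, .negSucc 0⟩, ⟨.ofNat 1162, .negSucc 98, .negSucc 11, .negSucc 599, .negSucc 500, .negSucc 103⟩, ⟨.negSucc 2324, .ofNat 11, .ofNat 23, .ofNat 57, .ofNat 182, .ofNat 21⟩, ⟨.ofNat 32, .ofNat 24, .ofNat 8, .ofNat 150, .ofNat 219, .ofNat 27⟩, .ofNat 2493, .ofNat 3404, .ofNat 0, .ofNat 3404, .ofNat 5397, .ofNat 0, .ofNat 128, .negSucc 596, .ofNat 228, .ofNat 0, .ofNat 417, .negSucc 171, .ofNat 0, .ofNat 0, .ofNat 6137, .ofNat 206468, .ofNat 35856768364140501567815342665844284307473170046367968962543616,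 .ofNat 0, .ofNat 1294686184432629068954131019291781116693025202672014196736, .ofNat 472634243727628826897893105370892591686283947170711816766404689920, .ofNat 5656918173899632853874810295122955905290610604149447902363648, .ofNat 0, .ofNat 11339962873711239916821371641990635104186475667173391990784, .ofNat 0, .ofNat 18370123883746712054895498328383009649242043309197304260460544, .ofNat 0, .ofNat 7658891614119589343515729137816764180413254261188541284352, .ofNat 0, .ofNat 0, .ofNat 0, .ofNat 0, .ofNat 0⟩)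
    (by decide +kernel)
theorem L04292 : Good (Phi V5.P V5.D (-1) (-1)) ⟨5, 28, 3, 5, 5, 11, 5, 24, 7, 61⟩ :=
  leafX_sound T5.ok_mm T5.Ymm.bz_eq (w := 295) (c := ⟨⟨.negSucc 1663, .negSucc 53, .negSucc 29, .negSucc 0, .ofNat 13, .ofNat 1⟩, ⟨.ofNat 1058, .ofNat 87, .ofNat 91, .ofNat 1, .negSucc 7, .negSucc 0⟩, ⟨.ofNat 250, .negSucc 129, .negSucc 108, .ofNat 0, .negSucc 48, .ofNat 0⟩, ⟨.negSucc 2215, .ofNat 24, .ofNat 5, .negSucc 0, .ofNat 54, .ofNat 1⟩, ⟨.ofNat 232, .ofNat 30, .ofNat 18, .ofNat 0, .ofNat 84, .ofNat 0⟩, .ofNat 166, .ofNat 59, .ofNat 0, .ofNat 59, .ofNat 216, .ofNat 0, .ofNat 140, .negSucc 68, .ofNat 17, .ofNat 0, .ofNat 128, .negSucc 71, .ofNat 0, .ofNat 0, .ofNat 633, .ofNat 12432723, .ofNat 24903327547454793215117309749985575174520739083706691902844698624, .ofNat 0, .ofNat 580584619071330263450485873496533348330340616000533973434368, .ofNat 443943803833016030114946974577015586644518270770376912390692886544384,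 .ofNat 59168335631401290488231128763045361151192511151898036176683008, .ofNat 0, .ofNat 570223331240860996029730827452782291178983289595289927680, .ofNat 0, .ofNat 194396424397595961989955222330672854989884680273647715313778688, .ofNat 0, .ofNat 0, .ofNat 255214867921451379963524779128222827517280427819965654212202725376, .ofNat 1067129299376904495543286453682941800751036996218614539228282880, .ofNat 0, .ofNat 11721158065444627340537945130107676558256753353123946299392, .ofNat 310140901935682306712075307446234241055571063436062092921705332736⟩)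
    (by decide +kernel)
theorem L04293 : Good (Phi V5.P V5.D (-1) (-1)) ⟨5, 28, 4, 10, 5, 11, 5, 25, 7, 61⟩ :=
  leafX_sound T5.ok_mm T5.Ymm.bz_eq (w := 294) (c := ⟨⟨.negSucc 1604, .negSucc 118, .ofNat 23, .negSucc 40, .ofNat 20, .negSucc 9⟩, ⟨.ofNat 1019, .ofNat 130, .ofNat 19, .ofNat 28, .negSucc 11, .ofNat 7⟩, ⟨.ofNat 851, .negSucc 311, .ofNat 72, .negSucc 680, .negSucc 188, .negSucc 196⟩, ⟨.negSucc 2202, .negSucc 9, .ofNat 28, .ofNat 47, .ofNat 86, .ofNat 21⟩, ⟨.ofNat 170, .ofNat 43, .ofNat 7, .ofNat 161, .ofNat 90, .ofNat 52⟩, .ofNat 2439, .ofNat 3330, .ofNat 0, .ofNat 3330, .ofNat 5301, .ofNat 0, .ofNat 128, .negSucc 1142, .ofNat 702, .ofNat 0, .ofNat 797, .negSucc 517, .ofNat 0, .ofNat 0, .ofNat 14912, .ofNat 762898, .ofNat 9758957713671798138912817394405509680991598595446159682991816704, .ofNat 6381749420196720379736669525148118078746323140847989552054272, .ofNat 39860536532902827243757107449962803666254775142377471344640,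 .ofNat 46913417485963847211309828023817359553499363470646965406510008500224, .ofNat 684427672418983243947750421345014661275428363371872772436262912, .ofNat 3451877035926921141620070886406900251159702313765278425546752, .ofNat 847624093831971277032041738174911971232867705686987764662272, .ofNat 0, .ofNat 0, .ofNat 4440817921336714267807691752497885858543499627055104674234368, .ofNat 1558881413868753591404571192805225939500616324233118621892608, .ofNat 0, .ofNat 0, .ofNat 0, .ofNat 0, .ofNat 0⟩)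
    (by decide +kernel)
theorem L04294 : Good (Phi V5.P V5.D (-1) (-1)) ⟨6, 56, 4, 11, 5, 11, 5, 25, 7, 61⟩ :=
  out_sound (S := T5.ds_mm) T5.ok_mm (w := 65) (j := 3) (by decide +kernel)
theorem L04295 : Good (Phi V5.P V5.D (-1) (-1)) ⟨7, 114, 5, 22, 5, 11, 5, 25, 7, 61⟩ :=
  out_sound (S := T5.ds_mm) T5.ok_mm (w := 73) (j := 3) (by decide +kernel)
theorem L04296 : Good (Phi V5.P V5.D (-1) (-1)) ⟨7, 115, 5, 22, 5, 11, 5, 25, 7, 61⟩ :=
  out_sound (S := T5.ds_mm) T5.ok_mm (w := 21) (j := 4) (by decide +kernel)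
theorem L04297 : Good (Phi V5.P V5.D (-1) (-1)) ⟨6, 57, 5, 23, 5, 11, 5, 25, 7, 61⟩ :=
  out_sound (S := T5.ds_mm) T5.ok_mm (w := 67) (j := 3) (by decide +kernel)
theorem L04298 : Good (Phi V5.P V5.D (-1) (-1)) ⟨5, 28, 3, 5, 5, 11, 4, 13, 7, 60⟩ :=
  leafX_sound T5.ok_mm T5.Ymm.bz_eq (w := 283) (c := ⟨⟨.negSucc 1590, .negSucc 114, .ofNat 53, .negSucc 32, .ofNat 47, .negSucc 0⟩, ⟨.ofNat 1012, .ofNat 120, .ofNat 41, .ofNat 23, .negSucc 28, .ofNat 1⟩, ⟨.ofNat 706, .negSucc 238, .ofNat 156, .negSucc 601, .negSucc 366, .negSucc 108⟩, ⟨.negSucc 2134, .ofNat 2, .ofNat 35, .ofNat 62, .ofNat 203, .ofNat 17⟩, ⟨.ofNat 242, .ofNat 56, .negSucc 34, .ofNat 165, .ofNat 211, .ofNat 27⟩, .ofNat 903, .ofNat 1023, .ofNat 0, .ofNat 1023, .ofNat 1784, .ofNat 0, .ofNat 128, .negSucc 220, .ofNat 117, .ofNat 0, .ofNat 171, .negSucc 111, .ofNat 0, .ofNat 0, .ofNat 3023, .ofNat 33024, .ofNat 0, .ofNat 0, .ofNat 0, .ofNat 0, .ofNat 0, .ofNat 0, .ofNat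 988489404817417802356247753993337672416299467017776267264, .ofNat 0, .ofNat 0, .ofNat 79116837710654552258238339882771959817732558849902653734912, .ofNat 1449121909297476020076898695117470296813224678366239522816, .ofNat 0, .ofNat 0, .ofNat 867705209405035453928674947228490646014615905129651545047040, .ofNat 13950201049084099014925747733140258919203278277277749608448, .ofNat 0⟩)
    (by decide +kernel)
theorem L04299 : Good (Phi V5.P V5.D (-1) (-1)) ⟨5, 28, 4, 10, 5, 11, 5, 26, 7, 61⟩ :=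
  leafX_sound T5.ok_mm T5.Ymm.bz_eq (w := 291) (c := ⟨⟨.negSucc 1603, .negSucc 34, .negSucc 20, .negSucc 40, .ofNat 17, .negSucc 3⟩, ⟨.ofNat 1019, .ofNat 77, .ofNat 46, .ofNat 28, .negSucc 10, .ofNat 3⟩, ⟨.ofNat 593, .negSucc 41, .negSucc 58, .negSucc 671, .negSucc 221, .negSucc 138⟩, ⟨.negSucc 2124, .ofNat 28, .ofNat 3, .ofNat 63, .ofNat 105, .ofNat 16⟩, ⟨.ofNat 268, .ofNat 11, .ofNat 14, .ofNat 185, .ofNat 124, .ofNat 34⟩, .ofNat 391, .ofNat 297, .ofNat 0, .ofNat 297, .ofNat 646, .ofNat 0, .ofNat 128, .negSucc 188, .ofNat 136, .ofNat 0, .ofNat 190, .negSucc 214, .ofNat 0, .ofNat 0, .ofNat 3758, .ofNat 104842, .ofNat 1210385906588989529595603308691447476266835712101855479667359744, .ofNat 616961057161350400608761721580803409168622340218035783073792, .ofNat 8682465696475484700220918327582011850097770659172988223488, .ofNat 15170555880388443469944076145483114215305042150263600650085499666432, .ofNat 0, .ofNat 1113333339636677376431835329669472565984747387319203766730752,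 .ofNat 5623342601695338993332897164560361992300137754558973607936, .ofNat 0, .ofNat 0, .ofNat 4628729946287575104877812591809754939858763650714916528062464, .ofNat 29219295010280603704639689966117141735698884314731873566720, .ofNat 0, .ofNat 0, .ofNat 58455406495213215392897830271177737983648240562558519467835392, .ofNat 0, .ofNat 80149324225518768266474509311863442449315987408008817715991002742784⟩)
    (by decide +kernel)
theorem L04300 : Good (Phi V5.P V5.D (-1) (-1)) ⟨6, 56, 4, 11, 5, 11, 5, 26, 7, 61⟩ :=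
  out_sound (S := T5.ds_mm) T5.ok_mm (w := 65) (j := 3) (by decide +kernel)
theorem L04301 : Good (Phi V5.P V5.D (-1) (-1)) ⟨7, 114, 5, 22, 5, 11, 5, 26, 7, 61⟩ :=
  out_sound (S := T5.ds_mm) T5.ok_mm (w := 73) (j := 3) (by decide +kernel)
theorem L04302 : Good (Phi V5.P V5.D (-1) (-1)) ⟨7, 115, 5, 22, 5, 11, 5, 26, 7, 61⟩ :=
  out_sound (S := T5.ds_mm) T5.ok_mm (w := 21) (j := 4) (by decide +kernel)
theorem L04303 : Good (Phi V5.P V5.D (-1) (-1)) ⟨6, 57, 5, 23, 5, 11, 5, 26, 7, 61⟩ :=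
  out_sound (S := T5.ds_mm) T5.ok_mm (w := 67) (j := 3) (by decide +kernel)
theorem L04304 : Good (Phi V5.P V5.D (-1) (-1)) ⟨5, 28, 3, 5, 5, 11, 5, 27, 7, 61⟩ :=
  out_sound (S := T5.ds_mm) T5.ok_mm (w := 48) (j := 2) (by decide +kernel)
theorem L04305 : Good (Phi V5.P V5.D (-1) (-1)) ⟨5, 28, 3, 5, 5, 11, 5, 24, 6, 31⟩ :=
  out_sound (S := T5.ds_mm) T5.ok_mm (w := 37) (j := 1) (by decide +kernel)
theorem L04306 : Good (Phi V5.P V5.D (-1) (-1)) ⟨5, 28, 3, 5, 5, 11, 6, 50, 7, 62⟩ :=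
  out_sound (S := T5.ds_mm) T5.ok_mm (w := 40) (j := 1) (by decide +kernel)
theorem L04307 : Good (Phi V5.P V5.D (-1) (-1)) ⟨5, 28, 3, 5, 6, 22, 6, 51, 8, 124⟩ :=
  out_sound (S := T5.ds_mm) T5.ok_mm (w := 44) (j := 1) (by decide +kernel)
theorem L04308 : Good (Phi V5.P V5.D (-1) (-1)) ⟨5, 28, 3, 5, 6, 23, 7, 102, 8, 124⟩ :=
  out_sound (S := T5.ds_mm) T5.ok_mm (w := 45) (j := 1) (by decide +kernel)
theorem L04309 : Good (Phi V5.P V5.D (-1) (-1)) ⟨5, 28, 3, 5, 7, 46, 8, 206, 9, 248⟩ :=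
  out_sound (S := T5.ds_mm) T5.ok_mm (w := 50) (j := 1) (by decide +kernel)
theorem L04310 : Good (Phi V5.P V5.D (-1) (-1)) ⟨5, 28, 3, 5, 8, 92, 8, 207, 10, 496⟩ :=
  out_sound (S := T5.ds_mm) T5.ok_mm (w := 54) (j := 1) (by decide +kernel)
theorem L04311 : Good (Phi V5.P V5.D (-1) (-1)) ⟨5, 28, 3, 5, 8, 93, 8, 207, 10, 496⟩ :=
  out_sound (S := T5.ds_mm) T5.ok_mm (w := 66) (j := 2) (by decide +kernel)
theorem L04312 : Good (Phi V5.P V5.D (-1) (-1)) ⟨5, 28, 3, 5, 7, 46, 8, 207, 10, 497⟩ :=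
  out_sound (S := T5.ds_mm) T5.ok_mm (w := 52) (j := 1) (by decide +kernel)
theorem L04313 : Good (Phi V5.P V5.D (-1) (-1)) ⟨5, 28, 3, 5, 7, 47, 7, 103, 9, 248⟩ :=
  out_sound (S := T5.ds_mm) T5.ok_mm (w := 60) (j := 2) (by decide +kernel)
theorem L04314 : Good (Phi V5.P V5.D (-1) (-1)) ⟨5, 28, 3, 5, 6, 23, 7, 103, 9, 249⟩ :=
  out_sound (S := T5.ds_mm) T5.ok_mm (w := 47) (j := 1) (by decide +kernel)
theorem L04315 : Good (Phi V5.P V5.D (-1) (-1)) ⟨5, 28, 3, 5, 5, 11, 6, 51, 8, 125⟩ :=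
  out_sound (S := T5.ds_mm) T5.ok_mm (w := 42) (j := 1) (by decide +kernel)
theorem L04316 : Good (Phi V5.P V5.D (-1) (-1)) ⟨5, 28, 3, 5, 5, 11, 5, 25, 7, 63⟩ :=
  out_sound (S := T5.ds_mm) T5.ok_mm (w := 39) (j := 1) (by decide +kernel)
theorem L04317 : Good (Phi V5.P V5.D (-1) (-1)) ⟨5, 28, 4, 10, 5, 11, 5, 26, 8, 124⟩ :=
  leafX_sound T5.ok_mm T5.Ymm.bz_eq (w := 297) (c := ⟨⟨.negSucc 1611, .negSucc 34, .negSucc 19, .negSucc 35, .ofNat 24, .negSucc 5⟩, ⟨.ofNat 1026, .ofNat 76, .ofNat 45, .ofNat 23, .negSucc 16, .ofNat 5⟩, ⟨.ofNat 392, .negSucc 74, .negSucc 28, .negSucc 564, .negSucc 84, .negSucc 108⟩, ⟨.negSucc 2109, .ofNat 35, .ofNat 0, .ofNat 66, .ofNat 103, .ofNat 9⟩, ⟨.ofNat 300, .ofNat 29, .ofNat 1, .ofNat 190, .ofNat 119, .ofNat 23⟩, .ofNat 166, .ofNat 59, .ofNat 0, .ofNat 59, .ofNat 216, .ofNat 0, .ofNat 207, .negSucc 67, .ofNat 21, .ofNat 0, .ofNat 128, .negSucc 200, .ofNat 0, .ofNat 0, .ofNat 1659, .ofNat 144121,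 .ofNat 18768448902124882787161969882543675892147120218937407443889553408, .ofNat 22668315812944335072692521761598456307483546588809990733037568, .ofNat 314591223026057210035136628845607175442070316727129614581760, .ofNat 0, .ofNat 13673934587495852848723967874188158772694379129211668763621982208, .ofNat 52004168248672903985743073841886623098897632760546855825178624, .ofNat 399319540154282361794179047114904024407900887612792248467456, .ofNat 0, .ofNat 10760493164925067190021716200606489651171807069784572560828006400, .ofNat 39702546516324139160944994226723836683052000201799304094941184, .ofNat 92450020743722627141326814601081831758234947385022335680512, .ofNat 0, .ofNat 151353754234732410408296990674875755329202524756117237085356687360, .ofNat 587483005561621855111092773350464390198136911080039417500401664, .ofNat 3479476521303509134512478981150644590808130641233987992813568, .ofNat 587279799026117491450829092553840436726776132006879301913803793367040⟩)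
    (by decide +kernel)
theorem L04318 : Good (Phi V5.P V5.D (-1) (-1)) ⟨6, 56, 4, 11, 5, 11, 5, 26, 8, 124⟩ :=
  out_sound (S := T5.ds_mm) T5.ok_mm (w := 65) (j := 3) (by decide +kernel)
theorem L04319 : Good (Phi V5.P V5.D (-1) (-1)) ⟨7, 114, 5, 22, 5, 11, 5, 26, 8, 124⟩ :=
  out_sound (S := T5.ds_mm) T5.ok_mm (w := 73) (j := 3) (by decide +kernel)
theorem L04320 : Good (Phi V5.P V5.D (-1) (-1)) ⟨7, 115, 5, 22, 5, 11, 5, 26, 8, 124⟩ :=
  out_sound (S := T5.ds_mm) T5.ok_mm (w := 21) (j := 4) (by decide +kernel)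
theorem L04321 : Good (Phi V5.P V5.D (-1) (-1)) ⟨6, 57, 5, 23, 5, 11, 5, 26, 8, 124⟩ :=
  out_sound (S := T5.ds_mm) T5.ok_mm (w := 67) (j := 3) (by decide +kernel)
theorem L04322 : Good (Phi V5.P V5.D (-1) (-1)) ⟨5, 28, 3, 5, 6, 22, 6, 52, 8, 125⟩ :=
  out_sound (S := T5.ds_mm) T5.ok_mm (w := 44) (j := 1) (by decide +kernel)
theorem L04323 : Good (Phi V5.P V5.D (-1) (-1)) ⟨5, 28, 3, 5, 6, 22, 6, 53, 8, 125⟩ :=
  out_sound (S := T5.ds_mm) T5.ok_mm (w := 54) (j := 2) (by decide +kernel)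
theorem L04324 : Good (Phi V5.P V5.D (-1) (-1)) ⟨5, 28, 3, 5, 6, 23, 5, 26, 8, 125⟩ :=
  out_sound (S := T5.ds_mm) T5.ok_mm (w := 52) (j := 2) (by decide +kernel)
theorem L04325 : Good (Phi V5.P V5.D (-1) (-1)) ⟨5, 28, 3, 5, 5, 11, 5, 27, 7, 62⟩ :=
  out_sound (S := T5.ds_mm) T5.ok_mm (w := 48) (j := 2) (by decide +kernel)
theorem L04326 : Good (Phi V5.P V5.D (-1) (-1)) ⟨5, 28, 3, 5, 5, 11, 6, 52, 7, 63⟩ :=
  out_sound (S := T5.ds_mm) T5.ok_mm (w := 40) (j := 1) (by decide +kernel)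
theorem L04327 : Good (Phi V5.P V5.D (-1) (-1)) ⟨5, 28, 3, 5, 5, 11, 6, 53, 7, 63⟩ :=
  out_sound (S := T5.ds_mm) T5.ok_mm (w := 50) (j := 2) (by decide +kernel)
theorem L04328 : Good (Phi V5.P V5.D (-1) (-1)) ⟨5, 28, 3, 5, 5, 11, 5, 27, 7, 63⟩ :=
  out_sound (S := T5.ds_mm) T5.ok_mm (w := 48) (j := 2) (by decide +kernel)
theorem L04329 : Good (Phi V5.P V5.D (-1) (-1)) ⟨5, 29, 2, 2, 3, 2, 3, 6, 4, 7⟩ :=
  out_sound (S := T5.ds_mm) T5.ok_mm (w := 17) (j := 4) (by decide +kernel)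
theorem L04330 : Good (Phi V5.P V5.D (-1) (-1)) ⟨4, 14, 2, 2, 4, 6, 3, 6, 4, 6⟩ :=
  leafX_sound T5.ok_mm T5.Ymm.bz_eq (w := 239) (c := ⟨⟨.negSucc 1592, .ofNat 345, .negSucc 510, .negSucc 18, .ofNat 150, .ofNat 96⟩, ⟨.ofNat 929, .negSucc 134, .ofNat 499, .ofNat 14, .negSucc 94, .negSucc 62⟩, ⟨.ofNat 1661, .ofNat 938, .negSucc 973, .negSucc 709, .negSucc 584, .negSucc 497⟩, ⟨.negSucc 2478, .ofNat 294, .negSucc 280, .ofNat 91, .ofNat 480, .ofNat 224⟩, ⟨.negSucc 138, .negSucc 312, .ofNat 299, .ofNat 190, .ofNat 417, .ofNat 138⟩, .ofNat 883, .ofNat 997, .ofNat 0, .ofNat 997, .ofNat 1758, .ofNat 0, .ofNat 128, .negSucc 440, .ofNat 4, .ofNat 0, .ofNat 338, .negSucc 22, .ofNat 0, .ofNat 0, .ofNat 1895, .ofNat 1991, .ofNat 0, .ofNat 0, .ofNat 0, .ofNat 0, .ofNat 0, .ofNat 0, .ofNat 56816692616851768293963511776084152621585137664, .ofNat 0, .ofNat 0, .ofNat 22679674930764904671502929109631053725559836114944, .ofNat 176096972571983095250900245616059336720511926272,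 .ofNat 1779463737649986320773944315753698541409740636899246080, .ofNat 0, .ofNat 164434165342426222597885864916071428226842370244608, .ofNat 228908914152112202351317307062542895662457946112, .ofNat 1327331561328195782640032000679663838699603342196211712⟩)
    (by decide +kernel)
theorem L04331 : Good (Phi V5.P V5.D (-1) (-1)) ⟨4, 14, 2, 2, 4, 7, 3, 6, 4, 6⟩ :=
  leafX_sound T5.ok_mm T5.Ymm.bz_eq (w := 239) (c := ⟨⟨.negSucc 1679, .negSucc 10, .negSucc 179, .negSucc 81, .ofNat 100, .ofNat 4⟩, ⟨.ofNat 996, .ofNat 132, .ofNat 254, .ofNat 54, .negSucc 60, .negSucc 1⟩, ⟨.ofNat 1093, .negSucc 61, .negSucc 429, .negSucc 956, .negSucc 721, .negSucc 1083⟩, ⟨.negSucc 2490, .ofNat 90, .negSucc 32, .ofNat 62, .ofNat 468, .ofNat 217⟩, ⟨.negSucc 57, .negSucc 49, .ofNat 182, .ofNat 278, .ofNat 512, .ofNat 335⟩, .ofNat 749, .ofNat 759, .ofNat 0, .ofNat 759, .ofNat 1313, .ofNat 0, .ofNat 128, .negSucc 557, .ofNat 265, .ofNat 0, .ofNat 474, .negSucc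 232, .ofNat 0, .ofNat 0, .ofNat 2666, .ofNat 1324, .ofNat 0, .ofNat 1211302028876903128694184521976704581693010345984, .ofNat 0, .ofNat 31114758832033112280768730733368947145267167931400192, .ofNat 0, .ofNat 9700445389506504165227061153927532488836228579328, .ofNat 43631838063110870852751523326328353591645962240, .ofNat 0, .ofNat 0, .ofNat 67840345654248130781939189283940587432264194850816, .ofNat 66664421727244895977362119561294289161416605696, .ofNat 2611984662024119504625117272494652234925274328954044416, .ofNat 0, .ofNat 631729493354805771034904807677550395137044298858496, .ofNat 166114957111022690905186912163880926584516902912, .ofNat 0⟩)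
    (by decide +kernel)
theorem L04332 : Good (Phi V5.P V5.D (-1) (-1)) ⟨5, 28, 2, 2, 5, 12, 3, 6, 5, 14⟩ :=
  leafX_sound T5.ok_mm T5.Ymm.bz_eq (w := 263) (c := ⟨⟨.negSucc 1537, .ofNat 70, .negSucc 334, .negSucc 42, .ofNat 60, .ofNat 16⟩, ⟨.ofNat 921, .ofNat 28, .ofNat 316, .ofNat 29, .negSucc 36, .negSucc 9⟩, ⟨.ofNat 1234, .ofNat 39, .negSucc 522, .negSucc 683, .negSucc 920, .negSucc 423⟩, ⟨.negSucc 2338, .ofNat 53, .negSucc 47, .ofNat 39, .ofNat 379, .ofNat 86⟩, ⟨.ofNat 25, .negSucc 3, .ofNat 120, .ofNat 152, .ofNat 450, .ofNat 97⟩, .ofNat 880, .ofNat 994, .ofNat 0, .ofNat 994, .ofNat 1759, .ofNat 0, .ofNat 128, .negSucc 319, .ofNat 96, .ofNat 0, .ofNat 246, .negSucc 89, .ofNat 0, .ofNat 0, .ofNat 2668, .ofNat 4341, .ofNat 150094345477707448867735809449450611353859083969952219136, .ofNat 0, .ofNat 634347943062409113845691929191675257692273124573184, .ofNat 28847824829281860995768440733004459544740935773225964535808, .ofNat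 0, .ofNat 5122822436553803516690524260623759644199823123347931136, .ofNat 15121012026776803055273220615763665036000459887738880, .ofNat 0, .ofNat 0, .ofNat 27335915618015212466498547113605461260955147561164865536, .ofNat 19354549400137734227223582912398879285757795203284992, .ofNat 658760922699904712554943262519302585231660289313765391859712, .ofNat 0, .ofNat 235467180833587383439082958769652622438414322310538330112, .ofNat 0, .ofNat 0⟩)
    (by decide +kernel)
theorem L04333 : Good (Phi V5.P V5.D (-1) (-1)) ⟨5, 28, 2, 2, 5, 13, 3, 6, 5, 14⟩ :=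
  leafX_sound T5.ok_mm T5.Ymm.bz_eq (w := 263) (c := ⟨⟨.negSucc 1740, .negSucc 165, .ofNat 169, .negSucc 90, .ofNat 26, .negSucc 40⟩, ⟨.ofNat 1032, .ofNat 162, .ofNat 38, .ofNat 60, .negSucc 11, .ofNat 28⟩, ⟨.ofNat 533, .negSucc 454, .ofNat 384, .negSucc 966, .negSucc 1022, .negSucc 900⟩, ⟨.negSucc 2343, .negSucc 7, .ofNat 82, .ofNat 20, .ofNat 337, .ofNat 75⟩, ⟨.ofNat 186, .ofNat 109, .negSucc 104, .ofNat 230, .ofNat 475, .ofNat 208⟩, .ofNat 881, .ofNat 995, .ofNat 0, .ofNat 995, .ofNat 1758, .ofNat 0, .ofNat 128, .negSucc 456, .ofNat 297, .ofNat 0, .ofNat 352, .negSucc 242, .ofNat 0, .ofNat 0, .ofNat 4913, .ofNat 4682, .ofNat 0, .ofNat 0, .ofNat 0, .ofNat 0, .ofNat 0, .ofNat 12398291371916877596830799789530803627851431411686834176, .ofNat 10807363355695618714400803102808325640964306171330560, .ofNat 0, .ofNat 0, .ofNat 110040114236153970700206141309062276757269716299985977344, .ofNat 25464711476843326264021274623165598929469870159429632,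 .ofNat 0, .ofNat 0, .ofNat 1004469334495560549573573253055987551026478290212413767680, .ofNat 0, .ofNat 0⟩)
    (by decide +kernel)
theorem L04334 : Good (Phi V5.P V5.D (-1) (-1)) ⟨5, 29, 2, 2, 4, 6, 3, 6, 5, 14⟩ :=
  out_sound (S := T5.ds_mm) T5.ok_mm (w := 17) (j := 4) (by decide +kernel)
theorem L04335 : Good (Phi V5.P V5.D (-1) (-1)) ⟨5, 28, 3, 4, 5, 12, 4, 12, 6, 30⟩ :=
  leafX_sound T5.ok_mm T5.Ymm.bz_eq (w := 279) (c := ⟨⟨.negSucc 1594, .negSucc 36, .negSucc 65, .negSucc 60, .ofNat 22, .negSucc 29⟩, ⟨.ofNat 945, .ofNat 82, .ofNat 108, .ofNat 41, .negSucc 10, .ofNat 20⟩, ⟨.ofNat 941, .negSucc 59, .negSucc 324, .negSucc 840, .negSucc 499, .negSucc 509⟩, ⟨.negSucc 2254, .ofNat 40, .negSucc 16, .ofNat 36, .ofNat 182, .ofNat 29⟩, ⟨.ofNat 89, .ofNat 1, .ofNat 77, .ofNat 196, .ofNat 237, .ofNat 113⟩, .ofNat 848, .ofNat 953, .ofNat 0, .ofNat 953, .ofNat 1720, .ofNat 0, .ofNat 128, .negSucc 742, .ofNat 561, .ofNat 0, .ofNat 573,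 .negSucc 470, .ofNat 0, .ofNat 0, .ofNat 10267, .ofNat 81475, .ofNat 1610126494054653747472082774283579916255288924914083489120256, .ofNat 0, .ofNat 17164847597435755471254624079982118143656858441400451072, .ofNat 0, .ofNat 0, .ofNat 1019296192651014849252976685524031520097655557843895451648, .ofNat 101368834478772162631623963376278789962433567772351922176, .ofNat 0, .ofNat 0, .ofNat 82098326544970124254644817789428208174537353049475486056448, .ofNat 303314151593531173462895566568389178365882537085430136832, .ofNat 0, .ofNat 0, .ofNat 574873172789221996793663670979941061008936098002246475710464, .ofNat 4114285101512542558800347400826150634784824946476584009728, .ofNat 0⟩)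
    (by decide +kernel)
theorem L04336 : Good (Phi V5.P V5.D (-1) (-1)) ⟨5, 28, 4, 10, 5, 12, 5, 24, 7, 60⟩ :=
  leafX_sound T5.ok_mm T5.Ymm.bz_eq (w := 293) (c := ⟨⟨.negSucc 1647, .ofNat 1, .negSucc 61, .negSucc 86, .ofNat 6, .negSucc 20⟩, ⟨.ofNat 1045, .ofNat 57, .ofNat 74, .ofNat 59, .negSucc 3, .ofNat 14⟩, ⟨.ofNat 780, .negSucc 44, .negSucc 228, .negSucc 1040, .negSucc 270, .negSucc 317⟩, ⟨.negSucc 2267, .ofNat 31, .ofNat 2, .ofNat 28, .ofNat 86, .ofNat 17⟩, ⟨.ofNat 132, .ofNat 8, .ofNat 56, .ofNat 227, .ofNat 118, .ofNat 69⟩, .ofNat 2455, .ofNat 3353, .ofNat 0, .ofNat 3353, .ofNat 5332, .ofNat 0, .ofNat 128, .negSucc 1108, .ofNat 1061, .ofNat 0, .ofNat 773, .negSucc 759, .ofNat 0, .ofNat 0, .ofNat 18133, .ofNat 249092, .ofNat 2368300600948017229635068303294343749691624879257416500483457024, .ofNat 0, .ofNat 19915304664490925376712871711765148478880011758704781164544, .ofNat 36663403211372434594594934877332316502085829926231229333368440094720,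 .ofNat 0, .ofNat 0, .ofNat 980243456710470062714029633102261927003327841227282090819584, .ofNat 0, .ofNat 0, .ofNat 7340315828475790089026604696180571877540669424475891107364864, .ofNat 953815308938228098384950859569254813154109487105422582087680, .ofNat 1195504311561439302126896116657950211542180243203560117805686651355136, .ofNat 0, .ofNat 0, .ofNat 0, .ofNat 0⟩)
    (by decide +kernel)
theorem L04337 : Good (Phi V5.P V5.D (-1) (-1)) ⟨6, 56, 4, 11, 5, 12, 5, 24, 7, 60⟩ :=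
  out_sound (S := T5.ds_mm) T5.ok_mm (w := 65) (j := 3) (by decide +kernel)
theorem L04338 : Good (Phi V5.P V5.D (-1) (-1)) ⟨7, 114, 5, 22, 5, 12, 5, 24, 7, 60⟩ :=
  out_sound (S := T5.ds_mm) T5.ok_mm (w := 73) (j := 3) (by decide +kernel)
theorem L04339 : Good (Phi V5.P V5.D (-1) (-1)) ⟨7, 115, 5, 22, 5, 12, 5, 24, 7, 60⟩ :=
  out_sound (S := T5.ds_mm) T5.ok_mm (w := 21) (j := 4) (by decide +kernel)
theorem L04340 : Good (Phi V5.P V5.D (-1) (-1)) ⟨6, 57, 5, 23, 5, 12, 5, 24, 7, 60⟩ :=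
  out_sound (S := T5.ds_mm) T5.ok_mm (w := 67) (j := 3) (by decide +kernel)
theorem L04341 : Good (Phi V5.P V5.D (-1) (-1)) ⟨5, 28, 3, 5, 5, 12, 5, 25, 7, 60⟩ :=
  leafX_sound T5.ok_mm T5.Ymm.bz_eq (w := 289) (c := ⟨⟨.negSucc 1639, .negSucc 24, .negSucc 78, .negSucc 92, .negSucc 3, .negSucc 16⟩, ⟨.ofNat 1040, .ofNat 79, .ofNat 111, .ofNat 62, .ofNat 3, .ofNat 12⟩, ⟨.ofNat 473, .negSucc 149, .negSucc 227, .negSucc 1052, .negSucc 344, .negSucc 270⟩, ⟨.negSucc 2178, .ofNat 24, .ofNat 10, .ofNat 35, .ofNat 91, .ofNat 16⟩, ⟨.ofNat 255, .ofNat 30, .ofNat 51, .ofNat 251, .ofNat 146, .ofNat 60⟩, .ofNat 907, .ofNat 1027, .ofNat 0, .ofNat 1027, .ofNat 1787, .ofNat 0, .ofNat 128, .negSucc 562, .ofNat 402, .ofNat 0, .ofNat 435, .negSucc 335, .ofNat 0, .ofNat 0, .ofNat 6836, .ofNat 125184, .ofNat 0, .ofNat 0, .ofNat 5932013697930650615455698139289781664709140243932793274368, .ofNat 4496747481890317034444940690303920185694416827008045336995198664704,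 .ofNat 0, .ofNat 292139769729058959202765690935826520090982670694139908063232, .ofNat 43527045943883709581048316214787647965890681986463427461120, .ofNat 9784403729891127070449389649674456326431818394949720653899640078336, .ofNat 0, .ofNat 3298997389997611051970686515190706504479820602220840835088384, .ofNat 50399442761405467883287503967559046855436617085014463479808, .ofNat 14936293485581160180445572903771643387586015487454203170740953415680, .ofNat 0, .ofNat 30842590029335746311764840414018470600544673956853653755133952, .ofNat 697444132789585530905388991554047922359398875626654715084800, .ofNat 51107043975866691631943972557235089379488399781019162209934525857792⟩)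
    (by decide +kernel)
theorem L04342 : Good (Phi V5.P V5.D (-1) (-1)) ⟨5, 28, 4, 10, 5, 12, 5, 24, 8, 122⟩ :=
  leafX_sound T5.ok_mm T5.Ymm.bz_eq (w := 297) (c := ⟨⟨.negSucc 1686, .ofNat 79, .negSucc 106, .negSucc 105, .ofNat 19, .negSucc 11⟩, ⟨.ofNat 1072, .ofNat 6, .ofNat 103, .ofNat 70, .negSucc 12, .ofNat 8⟩, ⟨.ofNat 350, .ofNat 254, .negSucc 415, .negSucc 1154, .negSucc 132, .negSucc 170⟩, ⟨.negSucc 2263, .ofNat 71, .negSucc 22, .ofNat 26, .ofNat 93, .ofNat 9⟩, ⟨.ofNat 212, .negSucc 83, .ofNat 104, .ofNat 269, .ofNat 107, .ofNat 40⟩, .ofNat 905, .ofNat 1025, .ofNat 0, .ofNat 1025, .ofNat 1785, .ofNat 0, .ofNat 128, .negSucc 463, .ofNat 648, .ofNat 0, .ofNat 359, .negSucc 524, .ofNat 0, .ofNat 0, .ofNat 9725, .ofNat 196771, .ofNat 19809475971297770002029385844134076740925065365033600974191591424, .ofNat 12568823928890174981638894110996972319547735337099812082286592, .ofNat 392072378807254725090263547421838576403788097429307400388608,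 .ofNat 433858028224138359996011940974354904285866836804675653027008138444800, .ofNat 889207629392120688414469056283951933825251551472078935088431104, .ofNat 0, .ofNat 2984544037626571713458508152409086602514448787269151566594048, .ofNat 0, .ofNat 17684895010288253049255100796815622167239036537964992978961301504, .ofNat 62164215643684074971160069543987365456347588186501766990266368, .ofNat 13457232482319516167223390463672368624818409064994418414583808, .ofNat 3909737872796308684641910640264659023434733542969757150307726477230080, .ofNat 0, .ofNat 0, .ofNat 0, .ofNat 0⟩)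
    (by decide +kernel)
theorem L04343 : Good (Phi V5.P V5.D (-1) (-1)) ⟨6, 56, 4, 11, 5, 12, 5, 24, 8, 122⟩ :=
  out_sound (S := T5.ds_mm) T5.ok_mm (w := 65) (j := 3) (by decide +kernel)
theorem L04344 : Good (Phi V5.P V5.D (-1) (-1)) ⟨7, 114, 5, 22, 5, 12, 5, 24, 8, 122⟩ :=
  out_sound (S := T5.ds_mm) T5.ok_mm (w := 73) (j := 3) (by decide +kernel)
theorem L04345 : Good (Phi V5.P V5.D (-1) (-1)) ⟨7, 115, 5, 22, 5, 12, 5, 24, 8, 122⟩ :=
  out_sound (S := T5.ds_mm) T5.ok_mm (w := 21) (j := 4) (by decide +kernel)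
theorem L04346 : Good (Phi V5.P V5.D (-1) (-1)) ⟨6, 57, 5, 23, 5, 12, 5, 24, 8, 122⟩ :=
  out_sound (S := T5.ds_mm) T5.ok_mm (w := 67) (j := 3) (by decide +kernel)
theorem L04347 : Good (Phi V5.P V5.D (-1) (-1)) ⟨5, 28, 3, 5, 5, 12, 6, 48, 8, 123⟩ :=
  out_sound (S := T5.ds_mm) T5.ok_mm (w := 42) (j := 1) (by decide +kernel)
theorem L04348 : Good (Phi V5.P V5.D (-1) (-1)) ⟨5, 28, 3, 5, 6, 24, 6, 49, 8, 123⟩ :=
  out_sound (S := T5.ds_mm) T5.ok_mm (w := 44) (j := 1) (by decide +kernel)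
theorem L04349 : Good (Phi V5.P V5.D (-1) (-1)) ⟨5, 28, 3, 5, 7, 50, 7, 98, 9, 246⟩ :=
  out_sound (S := T5.ds_mm) T5.ok_mm (w := 49) (j := 1) (by decide +kernel)
theorem L04350 : Good (Phi V5.P V5.D (-1) (-1)) ⟨5, 28, 3, 5, 8, 102, 7, 98, 9, 246⟩ :=
  out_sound (S := T5.ds_mm) T5.ok_mm (w := 51) (j := 1) (by decide +kernel)
theorem L04351 : Good (Phi V5.P V5.D (-1) (-1)) ⟨5, 28, 3, 5, 8, 103, 7, 98, 9, 246⟩ :=
  out_sound (S := T5.ds_mm) T5.ok_mm (w := 62) (j := 2) (by decide +kernel)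
theorem L04352 : Good (Phi V5.P V5.D (-1) (-1)) ⟨5, 28, 3, 5, 6, 25, 7, 98, 9, 247⟩ :=
  out_sound (S := T5.ds_mm) T5.ok_mm (w := 47) (j := 1) (by decide +kernel)
theorem L04353 : Good (Phi V5.P V5.D (-1) (-1)) ⟨5, 28, 3, 5, 8, 100, 8, 198, 10, 492⟩ :=
  out_sound (S := T5.ds_mm) T5.ok_mm (w := 54) (j := 1) (by decide +kernel)
theorem L04354 : Good (Phi V5.P V5.D (-1) (-1)) ⟨5, 28, 3, 5, 8, 101, 8, 198, 10, 492⟩ :=
  out_sound (S := T5.ds_mm) T5.ok_mm (w := 66) (j := 2) (by decide +kernel)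
theorem L04355 : Good (Phi V5.P V5.D (-1) (-1)) ⟨5, 28, 3, 5, 7, 50, 8, 198, 10, 493⟩ :=
  out_sound (S := T5.ds_mm) T5.ok_mm (w := 52) (j := 1) (by decide +kernel)
theorem L04356 : Good (Phi V5.P V5.D (-1) (-1)) ⟨5, 28, 3, 5, 9, 200, 9, 398, 10, 492⟩ :=
  out_sound (S := T5.ds_mm) T5.ok_mm (w := 57) (j := 1) (by decide +kernel)
theorem L04357 : Good (Phi V5.P V5.D (-1) (-1)) ⟨5, 28, 3, 5, 9, 200, 9, 399, 10, 492⟩ :=
  out_sound (S := T5.ds_mm) T5.ok_mm (w := 70) (j := 2) (by decide +kernel)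
theorem L04358 : Good (Phi V5.P V5.D (-1) (-1)) ⟨5, 28, 3, 5, 9, 200, 8, 199, 10, 493⟩ :=
  out_sound (S := T5.ds_mm) T5.ok_mm (w := 56) (j := 1) (by decide +kernel)
theorem L04359 : Good (Phi V5.P V5.D (-1) (-1)) ⟨5, 28, 3, 5, 9, 201, 8, 199, 9, 246⟩ :=
  out_sound (S := T5.ds_mm) T5.ok_mm (w := 66) (j := 2) (by decide +kernel)
theorem L04360 : Good (Phi V5.P V5.D (-1) (-1)) ⟨5, 28, 3, 5, 8, 101, 8, 199, 9, 246⟩ :=
  out_sound (S := T5.ds_mm) T5.ok_mm (w := 64) (j := 2) (by decide +kernel)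
theorem L04361 : Good (Phi V5.P V5.D (-1) (-1)) ⟨5, 28, 3, 5, 7, 50, 7, 99, 9, 247⟩ :=
  out_sound (S := T5.ds_mm) T5.ok_mm (w := 49) (j := 1) (by decide +kernel)
theorem L04362 : Good (Phi V5.P V5.D (-1) (-1)) ⟨5, 28, 3, 5, 7, 51, 7, 99, 8, 123⟩ :=
  out_sound (S := T5.ds_mm) T5.ok_mm (w := 58) (j := 2) (by decide +kernel)
theorem L04363 : Good (Phi V5.P V5.D (-1) (-1)) ⟨5, 28, 4, 10, 5, 12, 5, 25, 7, 61⟩ :=
  leafX_sound T5.ok_mm T5.Ymm.bz_eq (w := 293) (c := ⟨⟨.negSucc 1642, .negSucc 44, .negSucc 32, .negSucc 111, .negSucc 11, .negSucc 16⟩, ⟨.ofNat 1043, .ofNat 88, .ofNat 53, .ofNat 75, .ofNat 9, .ofNat 11⟩, ⟨.ofNat 277, .negSucc 152, .negSucc 148, .negSucc 1202, .negSucc 397, .negSucc 259⟩, ⟨.negSucc 2159, .ofNat 23, .ofNat 5, .ofNat 27, .ofNat 88, .ofNat 14⟩, ⟨.ofNat 302, .ofNat 26, .ofNat 34, .ofNat 282, .ofNat 159, .ofNat 59⟩, .ofNat 903, .ofNat 1022, .ofNat 0, .ofNat 1022, .ofNat 1782, .ofNat 0, .ofNat 128, .negSucc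 996, .ofNat 672, .ofNat 0, .ofNat 771, .negSucc 554, .ofNat 0, .ofNat 0, .ofNat 10714, .ofNat 279506, .ofNat 3543411013388197920377054805721282991520820499507473037672841216, .ofNat 2613159524846704732620650621535474003181126851187686896566272, .ofNat 20550891579263673261510428929585524308920728576608211828736, .ofNat 11892130255586649588432633024099387443313550761527441223353190318080, .ofNat 0, .ofNat 5428819405307187136254661546135436128659927719748426463707136, .ofNat 179924747555933502052415156764997148099636998349357234257920, .ofNat 0, .ofNat 0, .ofNat 108055544061541335337437536136251219695894472945024250947829760, .ofNat 279494776798099255792775795450235856254045451615995332395008, .ofNat 0, .ofNat 0, .ofNat 732666466591610805018105266301436438824006236644106918055378944, .ofNat 369247700358091624600797181294198113149092500011014179258368, .ofNat 0⟩)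
    (by decide +kernel)
theorem L04364 : Good (Phi V5.P V5.D (-1) (-1)) ⟨6, 56, 4, 11, 5, 12, 5, 25, 7, 61⟩ :=
  out_sound (S := T5.ds_mm) T5.ok_mm (w := 65) (j := 3) (by decide +kernel)
theorem L04365 : Good (Phi V5.P V5.D (-1) (-1)) ⟨7, 114, 5, 22, 5, 12, 5, 25, 7, 61⟩ :=
  out_sound (S := T5.ds_mm) T5.ok_mm (w := 73) (j := 3) (by decide +kernel)
theorem L04366 : Good (Phi V5.P V5.D (-1) (-1)) ⟨7, 115, 5, 22, 5, 12, 5, 25, 7, 61⟩ :=
  out_sound (S := T5.ds_mm) T5.ok_mm (w := 21) (j := 4) (by decide +kernel)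
theorem L04367 : Good (Phi V5.P V5.D (-1) (-1)) ⟨6, 57, 5, 23, 5, 12, 5, 25, 7, 61⟩ :=
  out_sound (S := T5.ds_mm) T5.ok_mm (w := 67) (j := 3) (by decide +kernel)
theorem L04368 : Good (Phi V5.P V5.D (-1) (-1)) ⟨5, 28, 2, 2, 5, 12, 4, 13, 6, 30⟩ :=
  out_sound (S := T5.ds_mm) T5.ok_mm (w := 44) (j := 2) (by decide +kernel)
theorem L04369 : Good (Phi V5.P V5.D (-1) (-1)) ⟨5, 29, 2, 2, 5, 12, 3, 6, 6, 30⟩ :=
  out_sound (S := T5.ds_mm) T5.ok_mm (w := 17) (j := 4) (by decide +kernel)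
theorem L04370 : Good (Phi V5.P V5.D (-1) (-1)) ⟨4, 14, 3, 4, 6, 26, 5, 24, 6, 30⟩ :=
  leafX_sound T5.ok_mm T5.Ymm.bz_eq (w := 294) (c := ⟨⟨.negSucc 1663, .negSucc 151, .negSucc 41, .negSucc 70, .negSucc 26, .negSucc 55⟩, ⟨.ofNat 990, .ofNat 217, .ofNat 94, .ofNat 47, .ofNat 20, .ofNat 37⟩, ⟨.ofNat 178, .negSucc 424, .negSucc 303, .negSucc 709, .negSucc 501, .negSucc 754⟩, ⟨.negSucc 2236, .ofNat 31, .ofNat 6, .negSucc 0, .ofNat 76, .ofNat 22⟩, ⟨.ofNat 274, .ofNat 81, .ofNat 60, .ofNat 157, .ofNat 179, .ofNat 163⟩, .ofNat 848, .ofNat 953, .ofNat 0, .ofNat 953, .ofNat 1722, .ofNat 0, .ofNat 128, .negSucc 409, .ofNat 533, .ofNat 0, .ofNat 316, .negSucc 419, .ofNat 0, .ofNat 0, .ofNat 7639, .ofNat 143265, .ofNat 6972225878775985159602200212280844180253929923024542269286907904, .ofNat 4446020789495569267882992185485729076219329950313220170317824, .ofNat 1984521810433875875818137986834498142071167424484511110397952, .ofNat 0, .ofNat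 0, .ofNat 13954845307151419258343897328151884725149345908484552070791168, .ofNat 30605116254014870441683908648630354650814683379133502541791232, .ofNat 0, .ofNat 0, .ofNat 100372009957152621072872499165600594700180179227132176621371392, .ofNat 180124161147313762825572960073742453187089846073432360639004672, .ofNat 0, .ofNat 0, .ofNat 1279750292318852337324194536324605337076936652243874433193738240, .ofNat 395847296377803717236847214158161124578836830587741707870142464, .ofNat 0⟩)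
    (by decide +kernel)
theorem L04371 : Good (Phi V5.P V5.D (-1) (-1)) ⟨4, 14, 4, 10, 6, 26, 5, 24, 7, 60⟩ :=
  leafX_sound T5.ok_mm T5.Ymm.bz_eq (w := 301) (c := ⟨⟨.negSucc 1701, .negSucc 62, .negSucc 64, .negSucc 94, .negSucc 28, .negSucc 43⟩, ⟨.ofNat 1081, .ofNat 155, .ofNat 78, .ofNat 64, .ofNat 21, .ofNat 29⟩, ⟨.negSucc 44, .negSucc 169, .negSucc 383, .negSucc 896, .negSucc 512, .negSucc 509⟩, ⟨.negSucc 2224, .ofNat 20, .ofNat 7, .negSucc 11, .ofNat 62, .ofNat 7⟩, ⟨.ofNat 324, .ofNat 18, .ofNat 82, .ofNat 185, .ofNat 158, .ofNat 104⟩, .ofNat 2446, .ofNat 3340, .ofNat 0, .ofNat 3340, .ofNat 5312, .ofNat 0, .ofNat 128, .negSucc 611, .ofNat 854, .ofNat 0, .ofNat 426, .negSucc 598, .ofNat 0, .ofNat 0, .ofNat 10983, .ofNat 110193, .ofNat 249941031182296822952708085974978727223809072964649622287916466176, .ofNat 0, .ofNat 28858947371704608708384943083756637714560092890930241295351808, .ofNat 5142282420125158104784853823985749456569361787277654921863255447044096,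 .ofNat 0, .ofNat 0, .ofNat 13963141029874140769615039470636376454139850077938492726656892928, .ofNat 914419839951897797338063790825933543043082002165088517985881917164093440, .ofNat 0, .ofNat 7489420320416273400415092285505479980770331825390605304999182336, .ofNat 19049855989062234444948294345257662249603709264089436914737741824, .ofNat 1354388862330874085520179953318641342228144815220213677157076897491845120, .ofNat 0, .ofNat 110759714490063151333754061802487848293864229646505318332254650368, .ofNat 63154470599768369725440905540795829168683575549408564738099511296, .ofNat 0⟩)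
    (by decide +kernel)
theorem L04372 : Good (Phi V5.P V5.D (-1) (-1)) ⟨6, 56, 4, 11, 6, 26, 5, 24, 7, 60⟩ :=
  out_sound (S := T5.ds_mm) T5.ok_mm (w := 65) (j := 3) (by decide +kernel)
theorem L04373 : Good (Phi V5.P V5.D (-1) (-1)) ⟨7, 114, 5, 22, 6, 26, 5, 24, 7, 60⟩ :=
  out_sound (S := T5.ds_mm) T5.ok_mm (w := 73) (j := 3) (by decide +kernel)
theorem L04374 : Good (Phi V5.P V5.D (-1) (-1)) ⟨7, 115, 5, 22, 6, 26, 5, 24, 7, 60⟩ :=
  out_sound (S := T5.ds_mm) T5.ok_mm (w := 21) (j := 4) (by decide +kernel)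
theorem L04375 : Good (Phi V5.P V5.D (-1) (-1)) ⟨6, 57, 5, 23, 6, 26, 5, 24, 7, 60⟩ :=
  out_sound (S := T5.ds_mm) T5.ok_mm (w := 67) (j := 3) (by decide +kernel)
theorem L04376 : Good (Phi V5.P V5.D (-1) (-1)) ⟨5, 29, 4, 11, 6, 26, 5, 24, 7, 60⟩ :=
  out_sound (S := T5.ds_mm) T5.ok_mm (w := 17) (j := 4) (by decide +kernel)
theorem L04377 : Good (Phi V5.P V5.D (-1) (-1)) ⟨4, 14, 4, 10, 6, 26, 6, 48, 8, 122⟩ :=
  leafX_sound T5.ok_mm T5.Ymm.bz_eq (w := 312) (c := ⟨⟨.negSucc 1740, .negSucc 25, .negSucc 84, .negSucc 107, .negSucc 22, .negSucc 34⟩, ⟨.ofNat 1107, .ofNat 134, .ofNat 90, .ofNat 72, .ofNat 15, .ofNat 24⟩, ⟨.negSucc 517, .negSucc 156, .negSucc 468, .negSucc 924, .negSucc 267, .negSucc 357⟩, ⟨.negSucc 2220, .ofNat 23, .ofNat 3, .negSucc 1, .ofNat 40, .ofNat 3⟩, ⟨.ofNat 402, .ofNat 26, .ofNat 92, .ofNat 233, .ofNat 118, .ofNat 75⟩, .ofNat 391, .ofNat 298, .ofNat 0, .ofNat 298, .ofNat 646, .ofNat 0, .ofNat 128, .negSucc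 155, .ofNat 267, .ofNat 0, .ofNat 156, .negSucc 275, .ofNat 0, .ofNat 0, .ofNat 3616, .ofNat 258362, .ofNat 52667290081336586175024776502562245799719414128434304325393278042112, .ofNat 18060108816087644541794477872115647086654367492326424125095542784, .ofNat 164467664820577789420394454413683389812989378492894809945089769472, .ofNat 350464810453525765116345221718151928328792853950637569301415219238535168, .ofNat 10354649266087744184692714199208674712670350632430483867716714233856, .ofNat 31674446168978246487438623297886693835610116991675761171586088960, .ofNat 0, .ofNat 10922415177614909902753314563353440897769646285085974476778339004940550144, .ofNat 15628915914135251358814965549893666219506866181278214229996074958848, .ofNat 48493845125254246048032443603636310674768786809377052014292238336, .ofNat 1333893046506342441454556281985237420805936804947612309226908549120, .ofNat 127477490670859527131650094385085024903806377889646578299142795089795874816,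 .ofNat 185278988997482189853184563553252907095690885711352271449809592778752, .ofNat 901738768794156823314630972432040979452694518146916753052268494848, .ofNat 7631569742534082806159358003583024359201090901434262133781959802880, .ofNat 141354296901745163344531877119412593994226750446856320197933615113817817088⟩)
    (by decide +kernel)
theorem L04378 : Good (Phi V5.P V5.D (-1) (-1)) ⟨6, 56, 4, 11, 6, 26, 6, 48, 8, 122⟩ :=
  out_sound (S := T5.ds_mm) T5.ok_mm (w := 65) (j := 3) (by decide +kernel)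
theorem L04379 : Good (Phi V5.P V5.D (-1) (-1)) ⟨7, 114, 5, 22, 6, 26, 6, 48, 8, 122⟩ :=
  out_sound (S := T5.ds_mm) T5.ok_mm (w := 73) (j := 3) (by decide +kernel)
theorem L04380 : Good (Phi V5.P V5.D (-1) (-1)) ⟨7, 115, 5, 22, 6, 26, 6, 48, 8, 122⟩ :=
  out_sound (S := T5.ds_mm) T5.ok_mm (w := 21) (j := 4) (by decide +kernel)
theorem L04381 : Good (Phi V5.P V5.D (-1) (-1)) ⟨6, 57, 5, 23, 6, 26, 6, 48, 8, 122⟩ :=
  out_sound (S := T5.ds_mm) T5.ok_mm (w := 67) (j := 3) (by decide +kernel)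
theorem L04382 : Good (Phi V5.P V5.D (-1) (-1)) ⟨5, 29, 4, 11, 6, 26, 6, 48, 8, 122⟩ :=
  out_sound (S := T5.ds_mm) T5.ok_mm (w := 17) (j := 4) (by decide +kernel)
theorem L04383 : Good (Phi V5.P V5.D (-1) (-1)) ⟨4, 14, 3, 5, 6, 26, 7, 96, 8, 123⟩ :=
  out_sound (S := T5.ds_mm) T5.ok_mm (w := 45) (j := 1) (by decide +kernel)
theorem L04384 : Good (Phi V5.P V5.D (-1) (-1)) ⟨4, 14, 3, 5, 6, 26, 7, 97, 8, 123⟩ :=
  out_sound (S := T5.ds_mm) T5.ok_mm (w := 56) (j := 2) (by decide +kernel)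
theorem L04385 : Good (Phi V5.P V5.D (-1) (-1)) ⟨4, 14, 3, 5, 6, 26, 6, 49, 7, 61⟩ :=
  out_sound (S := T5.ds_mm) T5.ok_mm (w := 52) (j := 2) (by decide +kernel)
theorem L04386 : Good (Phi V5.P V5.D (-1) (-1)) ⟨4, 14, 2, 2, 6, 26, 5, 25, 6, 30⟩ :=
  out_sound (S := T5.ds_mm) T5.ok_mm (w := 48) (j := 2) (by decide +kernel)
theorem L04387 : Good (Phi V5.P V5.D (-1) (-1)) ⟨4, 14, 2, 2, 6, 27, 4, 12, 6, 30⟩ :=
  out_sound (S := T5.ds_mm) T5.ok_mm (w := 46) (j := 2) (by decide +kernel)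
theorem L04388 : Good (Phi V5.P V5.D (-1) (-1)) ⟨4, 14, 2, 2, 5, 13, 4, 13, 6, 30⟩ :=
  out_sound (S := T5.ds_mm) T5.ok_mm (w := 44) (j := 2) (by decide +kernel)
theorem L04389 : Good (Phi V5.P V5.D (-1) (-1)) ⟨4, 14, 2, 2, 5, 12, 5, 24, 6, 31⟩ :=
  out_sound (S := T5.ds_mm) T5.ok_mm (w := 37) (j := 1) (by decide +kernel)
theorem L04390 : Good (Phi V5.P V5.D (-1) (-1)) ⟨4, 14, 2, 2, 6, 24, 7, 100, 8, 124⟩ :=
  out_sound (S := T5.ds_mm) T5.ok_mm (w := 45) (j := 1) (by decide +kernel)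
theorem L04391 : Good (Phi V5.P V5.D (-1) (-1)) ⟨4, 14, 2, 2, 7, 48, 7, 101, 9, 248⟩ :=
  out_sound (S := T5.ds_mm) T5.ok_mm (w := 49) (j := 1) (by decide +kernel)
theorem L04392 : Good (Phi V5.P V5.D (-1) (-1)) ⟨4, 14, 2, 2, 7, 49, 7, 101, 9, 248⟩ :=
  out_sound (S := T5.ds_mm) T5.ok_mm (w := 60) (j := 2) (by decide +kernel)
theorem L04393 : Good (Phi V5.P V5.D (-1) (-1)) ⟨4, 14, 2, 2, 6, 24, 7, 101, 9, 249⟩ :=
  out_sound (S := T5.ds_mm) T5.ok_mm (w := 47) (j := 1) (by decide +kernel)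
theorem L04394 : Good (Phi V5.P V5.D (-1) (-1)) ⟨4, 14, 2, 2, 6, 24, 6, 50, 8, 125⟩ :=
  out_sound (S := T5.ds_mm) T5.ok_mm (w := 44) (j := 1) (by decide +kernel)
theorem L04395 : Good (Phi V5.P V5.D (-1) (-1)) ⟨4, 14, 2, 2, 6, 24, 6, 51, 7, 62⟩ :=
  out_sound (S := T5.ds_mm) T5.ok_mm (w := 52) (j := 2) (by decide +kernel)
theorem L04396 : Good (Phi V5.P V5.D (-1) (-1)) ⟨4, 14, 2, 2, 6, 24, 5, 25, 7, 63⟩ :=
  out_sound (S := T5.ds_mm) T5.ok_mm (w := 41) (j := 1) (by decide +kernel)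
theorem L04397 : Good (Phi V5.P V5.D (-1) (-1)) ⟨4, 14, 2, 2, 6, 25, 5, 25, 6, 31⟩ :=
  out_sound (S := T5.ds_mm) T5.ok_mm (w := 48) (j := 2) (by decide +kernel)
theorem L04398 : Good (Phi V5.P V5.D (-1) (-1)) ⟨4, 14, 2, 2, 6, 26, 6, 48, 6, 31⟩ :=
  out_sound (S := T5.ds_mm) T5.ok_mm (w := 40) (j := 1) (by decide +kernel)
theorem L04399 : Good (Phi V5.P V5.D (-1) (-1)) ⟨4, 14, 2, 2, 6, 26, 6, 49, 6, 31⟩ :=
  out_sound (S := T5.ds_mm) T5.ok_mm (w := 50) (j := 2) (by decide +kernel)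
theorem L04400 : Good (Phi V5.P V5.D (-1) (-1)) ⟨4, 14, 2, 2, 6, 27, 5, 24, 6, 31⟩ :=
  out_sound (S := T5.ds_mm) T5.ok_mm (w := 48) (j := 2) (by decide +kernel)
theorem L04401 : Good (Phi V5.P V5.D (-1) (-1)) ⟨4, 14, 2, 2, 5, 13, 5, 25, 6, 31⟩ :=
  out_sound (S := T5.ds_mm) T5.ok_mm (w := 46) (j := 2) (by decide +kernel)
theorem L04402 : Good (Phi V5.P V5.D (-1) (-1)) ⟨4, 14, 2, 2, 4, 6, 4, 13, 6, 31⟩ :=
  out_sound (S := T5.ds_mm) T5.ok_mm (w := 42) (j := 2) (by decide +kernel)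
theorem L04403 : Good (Phi V5.P V5.D (-1) (-1)) ⟨4, 14, 2, 2, 4, 7, 3, 6, 4, 7⟩ :=
  leafX_sound T5.ok_mm T5.Ymm.bz_eq (w := 240) (c := ⟨⟨.negSucc 1703, .negSucc 179, .negSucc 61, .negSucc 236, .negSucc 75, .negSucc 186⟩, ⟨.ofNat 1013, .ofNat 237, .ofNat 179, .ofNat 157, .ofNat 55, .ofNat 124⟩, ⟨.ofNat 105, .negSucc 600, .negSucc 381, .negSucc 2014, .negSucc 1460, .negSucc 2367⟩, ⟨.negSucc 2284, .ofNat 27, .ofNat 9, .negSucc 7, .ofNat 295, .ofNat 104⟩, ⟨.ofNat 297, .ofNat 142, .ofNat 46, .ofNat 512, .ofNat 650, .ofNat 579⟩, .ofNat 387, .ofNat 292, .ofNat 0, .ofNat 292, .ofNat 644, .ofNat 0, .ofNat 128, .negSucc 222, .ofNat 200, .ofNat 0, .ofNat 222, .negSucc 215, .ofNat 0, .ofNat 0, .ofNat 3085, .ofNat 3809, .ofNat 0, .ofNat 15261165820746764106999310998792758256115562577920, .ofNat 0, .ofNat 0, .ofNat 0, .ofNat 71256816439488977538843049900268777313806170718208, .ofNat 10118925295343759051729996839476390577592860672, .ofNat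 0, .ofNat 0, .ofNat 282985174512582579455146213646748926347317178531840, .ofNat 0, .ofNat 268503672319587401171151737877796792652308499088277504, .ofNat 0, .ofNat 2437620498830619742785714993305255311286822355599360, .ofNat 269643339858588558955910018604319119644089647104, .ofNat 2826961131681512187536358713892229362855709357612466176⟩)
    (by decide +kernel)
theorem L04404 : Good (Phi V5.P V5.D (-1) (-1)) ⟨4, 15, 2, 2, 2, 1, 3, 6, 3, 3⟩ :=
  out_sound (S := T5.ds_mm) T5.ok_mm (w := 49) (j := 3) (by decide +kernel)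
theorem L04405 : Good (Phi V5.P V5.D (-1) (-1)) ⟨4, 12, 2, 2, 1, 0, 3, 7, 3, 3⟩ :=
  out_sound (S := T5.ds_mm) T5.ok_mm (w := 49) (j := 3) (by decide +kernel)
theorem L04406 : Good (Phi V5.P V5.D (-1) (-1)) ⟨4, 13, 3, 4, 2, 0, 3, 7, 4, 6⟩ :=
  leafX_sound T5.ok_mm T5.Ymm.bz_eq (w := 215) (c := ⟨⟨.negSucc 2033, .negSucc 215, .ofNat 51, .ofNat 605, .ofNat 109, .ofNat 43⟩, ⟨.ofNat 1102, .ofNat 193, .ofNat 84, .negSucc 347, .negSucc 62, .negSucc 26⟩, ⟨.ofNat 1663, .ofNat 87, .ofNat 38, .negSucc 607, .negSucc 314, .negSucc 73⟩, ⟨.negSucc 3221, .negSucc 44, .ofNat 98, .ofNat 1017, .ofNat 197, .ofNat 79⟩, ⟨.negSucc 208, .ofNat 169, .ofNat 13, .ofNat 233, .ofNat 72, .ofNat 37⟩, .ofNat 1586, .ofNat 2186, .ofNat 0, .ofNat 2186, .ofNat 3893, .ofNat 0, .ofNat 128, .negSucc 442, .negSucc 143, .ofNat 0, .ofNat 301, .ofNat 81, .ofNat 0, .ofNat 0, .ofNat 677, .ofNat 3057, .ofNat 0, .ofNat 0, .ofNat 0, .ofNat 0, .ofNat 0, .ofNat 10087921045440134160148681307889493505736704,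 .ofNat 1656274549941934974531200480678206504960, .ofNat 0, .ofNat 0, .ofNat 0, .ofNat 619717931786610628523692317118031724544, .ofNat 0, .ofNat 0, .ofNat 0, .ofNat 188164994821444812129742854995511869440, .ofNat 0⟩)
    (by decide +kernel)
theorem L04407 : Good (Phi V5.P V5.D (-1) (-1)) ⟨4, 13, 3, 4, 2, 0, 3, 7, 4, 7⟩ :=
  leafX_sound T5.ok_mm T5.Ymm.bz_eq (w := 216) (c := ⟨⟨.negSucc 2141, .ofNat 11, .negSucc 72, .ofNat 639, .ofNat 71, .ofNat 13⟩, ⟨.ofNat 1155, .ofNat 77, .ofNat 138, .negSucc 363, .negSucc 38, .negSucc 8⟩, ⟨.ofNat 1646, .ofNat 142, .negSucc 17, .negSucc 719, .negSucc 291, .negSucc 81⟩, ⟨.negSucc 3303, .ofNat 98, .negSucc 27, .ofNat 1100, .ofNat 202, .ofNat 45⟩, ⟨.negSucc 52, .negSucc 192, .ofNat 119, .ofNat 292, .ofNat 181, .ofNat 43⟩, .ofNat 1554, .ofNat 2145, .ofNat 0, .ofNat 2145, .ofNat 3851, .ofNat 0, .ofNat 128, .negSucc 480, .negSucc 123, .ofNat 0, .ofNat 326, .ofNat 68, .ofNat 0, .ofNat 0, .ofNat 723,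 .ofNat 4536, .ofNat 148098971847500008702248035907640177375313920, .ofNat 0, .ofNat 72868443107026950405628411731672825856, .ofNat 0, .ofNat 0, .ofNat 9790249312826878299845771506581075191136256, .ofNat 2402070125137493846165168656128472514560, .ofNat 0, .ofNat 0, .ofNat 0, .ofNat 4764603012249270023328927119079691517952, .ofNat 0, .ofNat 199472055337261669623142969014615084680347648, .ofNat 2421587108093283772604419608444087578918912, .ofNat 365612422483091530789013153898886594560, .ofNat 0⟩)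
    (by decide +kernel)
theorem L04408 : Good (Phi V5.P V5.D (-1) (-1)) ⟨4, 13, 3, 4, 2, 1, 3, 7, 4, 6⟩ :=
  leafX_sound T5.ok_mm T5.Ymm.bz_eq (w := 212) (c := ⟨⟨.negSucc 1586, .negSucc 85, .negSucc 17, .ofNat 228, .ofNat 301, .ofNat 59⟩, ⟨.ofNat 840, .ofNat 145, .ofNat 82, .negSucc 121, .negSucc 168, .negSucc 35⟩, ⟨.ofNat 1132, .ofNat 47, .ofNat 37, .negSucc 979, .negSucc 436, .negSucc 126⟩, ⟨.negSucc 2383, .ofNat 44, .negSucc 3, .ofNat 661, .ofNat 654, .ofNat 113⟩, ⟨.ofNat 120, .negSucc 8, .ofNat 5, .ofNat 566, .ofNat 367, .ofNat 45⟩, .ofNat 752, .ofNat 835, .ofNat 0, .ofNat 835, .ofNat 1640, .ofNat 0, .ofNat 128, .negSucc 213, .negSucc 48, .ofNat 0, .ofNat 163, .ofNat 20, .ofNat 0, .ofNat 0, .ofNat 526, .ofNat 466, .ofNat 0, .ofNat 0, .ofNat 0, .ofNat 0, .ofNat 0, .ofNat 0, .ofNat 0, .ofNat 0, .ofNat 0, .ofNat 7367599706257053627685108222124941413187584, .ofNat 0, .ofNat 0, .ofNat 0, .ofNat 11551211452801106808714004352222829064749056,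 .ofNat 12413402971759986822908924216054120448, .ofNat 0⟩)
    (by decide +kernel)
theorem L04409 : Good (Phi V5.P V5.D (-1) (-1)) ⟨4, 13, 3, 4, 2, 1, 3, 7, 4, 7⟩ :=
  leafX_sound T5.ok_mm T5.Ymm.bz_eq (w := 214) (c := ⟨⟨.negSucc 1522, .negSucc 73, .negSucc 20, .ofNat 246, .ofNat 185, .ofNat 30⟩, ⟨.ofNat 805, .ofNat 134, .ofNat 85, .negSucc 128, .negSucc 99, .negSucc 15⟩, ⟨.ofNat 1126, .negSucc 143, .ofNat 163, .negSucc 1316, .negSucc 396, .negSucc 198⟩, ⟨.negSucc 2277, .ofNat 94, .negSucc 30, .ofNat 726, .ofNat 433, .ofNat 76⟩, ⟨.ofNat 143, .ofNat 39, .negSucc 28, .ofNat 630, .ofNat 284, .ofNat 56⟩, .ofNat 754, .ofNat 838, .ofNat 0, .ofNat 838, .ofNat 1642, .ofNat 0, .ofNat 128, .negSucc 212, .negSucc 52, .ofNat 0, .ofNat 164, .ofNat 15, .ofNat 0, .ofNat 0, .ofNat 993, .ofNat 2008, .ofNat 67155076679833608005237506125692237869219840, .ofNat 301346488172587116095571262621599735480320, .ofNat 39762541330543436650315583000007409664,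 .ofNat 0, .ofNat 0, .ofNat 6509374114364751634996887756500406401761280, .ofNat 91421783838503728676846398580849639424, .ofNat 0, .ofNat 0, .ofNat 24216358698673118860552781826945376365576192, .ofNat 476971962443352461736736060463604826112, .ofNat 0, .ofNat 0, .ofNat 60914068046966114825993477704354673117364224, .ofNat 121973305198155909667141871837357539328, .ofNat 0⟩)
    (by decide +kernel)
theorem L04410 : Good (Phi V5.P V5.D (-1) (-1)) ⟨4, 13, 3, 5, 1, 0, 3, 7, 3, 3⟩ :=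
  out_sound (S := T5.ds_mm) T5.ok_mm (w := 51) (j := 3) (by decide +kernel)
theorem L04411 : Good (Phi V5.P V5.D (-1) (-1)) ⟨4, 14, 2, 2, 2, 0, 3, 7, 4, 6⟩ :=
  leafX_sound T5.ok_mm T5.Ymm.bz_eq (w := 213) (c := ⟨⟨.negSucc 2260, .negSucc 300, .ofNat 147, .ofNat 621, .ofNat 86, .ofNat 15⟩, ⟨.ofNat 1377, .ofNat 373, .ofNat 22, .negSucc 403, .negSucc 56, .negSucc 10⟩, ⟨.ofNat 1726, .ofNat 44, .ofNat 140, .negSucc 615, .negSucc 292, .negSucc 57⟩, ⟨.negSucc 3210, .ofNat 29, .ofNat 134, .ofNat 952, .ofNat 159, .negSucc 28⟩, ⟨.negSucc 54, .ofNat 169, .ofNat 112, .ofNat 115, .ofNat 59, .negSucc 75⟩, .ofNat 2291, .ofNat 3130, .ofNat 0, .ofNat 3130, .ofNat 5040, .ofNat 0, .ofNat 128, .negSucc 738, .negSucc 235, .ofNat 0, .ofNat 515, .ofNat 148, .ofNat 0, .ofNat 0, .ofNat 1069, .ofNat 514, .ofNat 0, .ofNat 0, .ofNat 2044428513277792411388350540896272384, .ofNat 0, .ofNat 0, .ofNat 0, .ofNat 1107396278228159451941106901303859085312, .ofNat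 812768933110407430712648134992589471971540992, .ofNat 0, .ofNat 0, .ofNat 705758913268107146079442339605063401472, .ofNat 0, .ofNat 0, .ofNat 0, .ofNat 0, .ofNat 0⟩)
    (by decide +kernel)
theorem L04412 : Good (Phi V5.P V5.D (-1) (-1)) ⟨5, 28, 2, 2, 3, 0, 3, 7, 4, 7⟩ :=
  leafX_sound T5.ok_mm T5.Ymm.bz_eq (w := 231) (c := ⟨⟨.negSucc 2521, .negSucc 364, .ofNat 712, .ofNat 453, .negSucc 164, .ofNat 74⟩, ⟨.ofNat 1479, .ofNat 268, .negSucc 192, .negSucc 294, .ofNat 108, .negSucc 50⟩, ⟨.ofNat 1890, .ofNat 191, .negSucc 332, .negSucc 401, .negSucc 30, .negSucc 104⟩, ⟨.negSucc 3448, .negSucc 180, .ofNat 550, .ofNat 676, .negSucc 214, .ofNat 112⟩, ⟨.ofNat 42, .ofNat 124, .negSucc 213, .ofNat 48, .ofNat 35, .ofNat 21⟩, .ofNat 820, .ofNat 889, .ofNat 0, .ofNat 889, .ofNat 1567, .ofNat 0, .ofNat 128, .negSucc 293, .negSucc 125, .ofNat 0, .ofNat 238, .ofNat 74, .ofNat 0, .ofNat 0, .ofNat 571, .ofNat 3938, .ofNat 1091549032552449415173081090224352847698673532928,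 .ofNat 0, .ofNat 46903002008489548416490222514481892687872, .ofNat 0, .ofNat 0, .ofNat 21854180741777426602812242997407421679632646144, .ofNat 1051255294213952926818114244647795673792512, .ofNat 0, .ofNat 0, .ofNat 53585497913900119517473767849699134025276325888, .ofNat 2283467401033553243583223046367736624054272, .ofNat 0, .ofNat 678020091222262190231803840959477909259919818752, .ofNat 0, .ofNat 1263522492802132985266233694154636147032064, .ofNat 0⟩)
    (by decide +kernel)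
theorem L04413 : Good (Phi V5.P V5.D (-1) (-1)) ⟨5, 28, 2, 2, 3, 1, 3, 7, 4, 7⟩ :=
  leafX_sound T5.ok_mm T5.Ymm.bz_eq (w := 231) (c := ⟨⟨.negSucc 1844, .negSucc 85, .ofNat 36, .ofNat 250, .ofNat 132, .ofNat 19⟩, ⟨.ofNat 1115, .ofNat 126, .ofNat 82, .negSucc 159, .negSucc 82, .negSucc 10⟩, ⟨.ofNat 1289, .negSucc 42, .ofNat 344, .negSucc 379, .negSucc 330, .negSucc 91⟩, ⟨.negSucc 2624, .negSucc 12, .negSucc 23, .ofNat 497, .ofNat 305, .ofNat 40⟩, ⟨.ofNat 19, .ofNat 3, .negSucc 90, .ofNat 221, .ofNat 182, .ofNat 22⟩, .ofNat 883, .ofNat 998, .ofNat 0, .ofNat 998, .ofNat 1761, .ofNat 0, .ofNat 128, .negSucc 323, .negSucc 77, .ofNat 0, .ofNat 252, .ofNat 42, .ofNat 0, .ofNat 0, .ofNat 596, .ofNat 8265, .ofNat 2497044961495741022766955395390620173792110968832, .ofNat 1334785632489819757927779318396579141826641920, .ofNat 138799081120262594952809577099375822241792, .ofNat 19160179873084735320019539261195779209933348667392, .ofNat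 0, .ofNat 78705425195259562117478663665415823509933785088, .ofNat 1760197216069385052610519125542831690612736, .ofNat 0, .ofNat 0, .ofNat 99637863266233450816228236070689733203009208320, .ofNat 1748678754031449120281068319164783810052096, .ofNat 155015425715430067266377087929933904194769552146432, .ofNat 0, .ofNat 33873370993687097627564566034107624932841095168, .ofNat 518535037941698524273130301930691448799232, .ofNat 71843896778086309947456802473887398932515251027968⟩)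
    (by decide +kernel)
theorem L04414 : Good (Phi V5.P V5.D (-1) (-1)) ⟨5, 29, 2, 2, 2, 0, 3, 7, 4, 7⟩ :=
  out_sound (S := T5.ds_mm) T5.ok_mm (w := 17) (j := 4) (by decide +kernel)
theorem L04415 : Good (Phi V5.P V5.D (-1) (-1)) ⟨4, 15, 2, 2, 2, 0, 3, 7, 3, 3⟩ :=
  out_sound (S := T5.ds_mm) T5.ok_mm (w := 49) (j := 3) (by decide +kernel)
theorem L04416 : Good (Phi V5.P V5.D (-1) (-1)) ⟨4, 14, 2, 2, 3, 2, 3, 7, 4, 6⟩ :=
  leafX_sound T5.ok_mm T5.Ymm.bz_eq (w := 226) (c := ⟨⟨.negSucc 1713, .negSucc 201, .ofNat 75, .ofNat 122, .ofNat 305, .ofNat 55⟩, ⟨.ofNat 1044, .ofNat 274, .ofNat 36, .negSucc 76, .negSucc 195, .negSucc 35⟩, ⟨.ofNat 1172, .negSucc 89, .ofNat 184, .negSucc 574, .negSucc 456, .negSucc 136⟩, ⟨.negSucc 2375, .negSucc 33, .ofNat 74, .ofNat 368, .ofNat 670, .ofNat 104⟩, ⟨.ofNat 123, .ofNat 43, .negSucc 33, .ofNat 304, .ofNat 368, .ofNat 40⟩, .ofNat 877, .ofNat 990, .ofNat 0, .ofNat 990, .ofNat 1752, .ofNat 0, .ofNat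 128, .negSucc 418, .negSucc 100, .ofNat 0, .ofNat 323, .ofNat 49, .ofNat 0, .ofNat 0, .ofNat 1102, .ofNat 3364, .ofNat 0, .ofNat 0, .ofNat 0, .ofNat 0, .ofNat 0, .ofNat 4452432993614568522199102880036787351283826688, .ofNat 3946178431412883847243786858406684359917568, .ofNat 0, .ofNat 0, .ofNat 10538663106231371727397023365196101167569960960, .ofNat 4590829958071470638576485322301157870141440, .ofNat 0, .ofNat 0, .ofNat 16812441892273533144615460829276635946087874560, .ofNat 0, .ofNat 67118091421970366650431075836353790852050326650880⟩)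
    (by decide +kernel)
theorem L04417 : Good (Phi V5.P V5.D (-1) (-1)) ⟨4, 14, 2, 2, 3, 2, 4, 14, 5, 14⟩ :=
  leafX_sound T5.ok_mm T5.Ymm.bz_eq (w := 236) (c := ⟨⟨.negSucc 1605, .negSucc 79, .negSucc 31, .ofNat 119, .ofNat 108, .ofNat 22⟩, ⟨.ofNat 942, .ofNat 126, .ofNat 185, .negSucc 74, .negSucc 67, .negSucc 13⟩, ⟨.ofNat 1073, .ofNat 23, .ofNat 114, .negSucc 661, .negSucc 208, .negSucc 91⟩, ⟨.negSucc 2221, .ofNat 52, .negSucc 9, .ofNat 378, .ofNat 264, .ofNat 48⟩, ⟨.ofNat 152, .negSucc 13, .ofNat 3, .ofNat 326, .ofNat 173, .ofNat 25⟩, .ofNat 891, .ofNat 1007, .ofNat 0, .ofNat 1007, .ofNat 1768, .ofNat 0, .ofNat 128, .negSucc 484, .negSucc 78, .ofNat 0, .ofNat 375, .ofNat 28, .ofNat 0, .ofNat 0, .ofNat 1599, .ofNat 11510, .ofNat 0, .ofNat 0, .ofNat 0, .ofNat 0, .ofNat 0, .ofNat 165552922294525565001220710875179926105320587264, .ofNat 3544488690792922682847874218481035534657388544, .ofNat 0, .ofNat 0, .ofNat 1157790378597811580151470330682099804223743983616,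 .ofNat 2389419224516056025496933527406448515401908224, .ofNat 0, .ofNat 0, .ofNat 2053570808237614564167788456567896441260943081472, .ofNat 780606204655241234693393582885744583714537472, .ofNat 93581317309452701152649988964826588706290455327801344⟩)
    (by decide +kernel)
theorem L04418 : Good (Phi V5.P V5.D (-1) (-1)) ⟨4, 14, 2, 2, 3, 2, 4, 14, 6, 30⟩ :=
  leafX_sound T5.ok_mm T5.Ymm.bz_eq (w := 241) (c := ⟨⟨.negSucc 1595, .negSucc 112, .ofNat 2, .ofNat 116, .ofNat 88, .ofNat 8⟩, ⟨.ofNat 936, .ofNat 147, .ofNat 160, .negSucc 72, .negSucc 54, .negSucc 4⟩, ⟨.ofNat 980, .ofNat 8, .ofNat 140, .negSucc 744, .negSucc 209, .negSucc 46⟩, ⟨.negSucc 2181, .ofNat 30, .ofNat 16, .ofNat 388, .ofNat 229, .ofNat 19⟩, ⟨.ofNat 180, .negSucc 1, .negSucc 6, .ofNat 344, .ofNat 163, .ofNat 11⟩, .ofNat 889, .ofNat 1005, .ofNat 0, .ofNat 1005, .ofNat 1766, .ofNat 0, .ofNat 128, .negSucc 226, .negSucc 52, .ofNat 0, .ofNat 176, .ofNat 11, .ofNat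 0, .ofNat 0, .ofNat 1646, .ofNat 12894, .ofNat 0, .ofNat 0, .ofNat 0, .ofNat 0, .ofNat 0, .ofNat 1350737655734951256163990715472195349802496557056, .ofNat 98066346208792937677983991291170564992229441536, .ofNat 0, .ofNat 0, .ofNat 4045667794297180510785097700264169046192160768000, .ofNat 40283152505697226480047022492403292408731664384, .ofNat 304155524606412537530673208779035961161451048437547008, .ofNat 0, .ofNat 16494673942019913298145235349289111527058571264000, .ofNat 54888147272061595542875613249629740847564062720, .ofNat 3057400754530008206926545223286483410326538102882959360⟩)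
    (by decide +kernel)
theorem L04419 : Good (Phi V5.P V5.D (-1) (-1)) ⟨4, 14, 2, 2, 4, 4, 4, 14, 7, 62⟩ :=
  leafX_sound T5.ok_mm T5.Ymm.bz_eq (w := 263) (c := ⟨⟨.negSucc 1577, .negSucc 89, .negSucc 16, .ofNat 55, .ofNat 78, .ofNat 3⟩, ⟨.ofNat 940, .ofNat 164, .ofNat 135, .negSucc 33, .negSucc 48, .negSucc 1⟩, ⟨.ofNat 938, .ofNat 23, .ofNat 141, .negSucc 402, .negSucc 216, .negSucc 30⟩, ⟨.negSucc 2161, .ofNat 34, .ofNat 15, .ofNat 196, .ofNat 215, .ofNat 11⟩, ⟨.ofNat 194, .negSucc 0, .negSucc 16, .ofNat 183, .ofNat 162, .ofNat 10⟩, .ofNat 882, .ofNat 996, .ofNat 0, .ofNat 996, .ofNat 1758, .ofNat 0, .ofNat 128, .negSucc 276, .negSucc 42, .ofNat 0, .ofNat 215, .ofNat 3, .ofNat 0, .ofNat 0, .ofNat 1630, .ofNat 104623, .ofNat 40921339891358826350796924487733856751294189304872435712, .ofNat 89314728974524815101522931191296847939105510301630464, .ofNat 50388311669281881930537730159310743295832883938197504, .ofNat 526248797512814091698563980475775295724065105941747524960256,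 .ofNat 0, .ofNat 91348312765248955504647650543303267884525599288459264, .ofNat 136388217027235964940516250212042953862027950004633600, .ofNat 0, .ofNat 0, .ofNat 147063842679188070356122190749015446083818020193435648, .ofNat 45773281321551568980786207033756661257938184435662848, .ofNat 211270896327844405803443914761065181985956334277988955717632, .ofNat 7140774199150145960985160063325465174888060622588608512, .ofNat 564629718350227745435528155585109728489781598439342080, .ofNat 132018399275921079036561259376615862042746706141904896, .ofNat 2169784866192549280656814890043036351347042128375630398488576⟩)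
    (by decide +kernel)
theorem L04420 : Good (Phi V5.P V5.D (-1) (-1)) ⟨4, 14, 2, 2, 4, 4, 4, 14, 7, 63⟩ :=
  leafX_sound T5.ok_mm T5.Ymm.bz_eq (w := 262) (c := ⟨⟨.negSucc 1561, .negSucc 74, .negSucc 37, .ofNat 63, .ofNat 67, .ofNat 3⟩, ⟨.ofNat 929, .ofNat 148, .ofNat 154, .negSucc 40, .negSucc 43, .negSucc 0⟩, ⟨.ofNat 846, .ofNat 39, .ofNat 141, .negSucc 279, .negSucc 115, .negSucc 39⟩, ⟨.negSucc 2105, .ofNat 54, .negSucc 16, .ofNat 179, .ofNat 156, .ofNat 19⟩, ⟨.ofNat 244, .ofNat 5, .negSucc 28, .ofNat 141, .ofNat 101, .ofNat 19⟩, .ofNat 387, .ofNat 292, .ofNat 0, .ofNat 292, .ofNat 645, .ofNat 0, .ofNat 128, .negSucc 131, .negSucc 27, .ofNat 0, .ofNat 134, .negSucc 5, .ofNat 0, .ofNat 0, .ofNat 539, .ofNat 48945, .ofNat 31412983290481239533143328215385014785978439160712658944, .ofNat 102122609769380732204686623480142677744870675751895040, .ofNat 23648472850103070416988751867982801765628675941728256, .ofNat 288014765577455087728081903441925138960170950274530903326720,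 .ofNat 0, .ofNat 28625114610210015762177789274277122008738440555790336, .ofNat 6275071576818116591349657108530749985658821230460928, .ofNat 0, .ofNat 27794760592154825395876521855029763804942576741557207040, .ofNat 205575504186495350626798140716419856951599242969874432, .ofNat 4221444444564756068500354390530226122813345303101440, .ofNat 0, .ofNat 79028281216295734964272409164191673415167024772931387392, .ofNat 545240195785917472221633321197249840078245607516405760, .ofNat 21676212949199390768490870114823953756992910206697472, .ofNat 67953699056996524698876558344818479368162606838405262213120⟩)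
    (by decide +kernel)
theorem L04421 : Good (Phi V5.P V5.D (-1) (-1)) ⟨4, 14, 2, 2, 4, 5, 4, 14, 6, 31⟩ :=
  out_sound (S := T5.ds_mm) T5.ok_mm (w := 42) (j := 2) (by decide +kernel)
theorem L04422 : Good (Phi V5.P V5.D (-1) (-1)) ⟨4, 14, 2, 2, 3, 2, 4, 15, 4, 7⟩ :=
  out_sound (S := T5.ds_mm) T5.ok_mm (w := 36) (j := 2) (by decide +kernel)
theorem L04423 : Good (Phi V5.P V5.D (-1) (-1)) ⟨4, 14, 2, 2, 3, 3, 3, 7, 3, 3⟩ :=
  leafX_sound T5.ok_mm T5.Ymm.bz_eq (w := 220) (c := ⟨⟨.negSucc 1570, .negSucc 71, .negSucc 46, .ofNat 6, .ofNat 266, .ofNat 116⟩, ⟨.ofNat 942, .ofNat 162, .ofNat 143, .negSucc 1, .negSucc 169, .negSucc 73⟩, ⟨.ofNat 651, .negSucc 42, .ofNat 48, .negSucc 831, .negSucc 411, .negSucc 565⟩, ⟨.negSucc 2027, .ofNat 82, .negSucc 6, .ofNat 276, .ofNat 744, .ofNat 338⟩, ⟨.ofNat 404, .ofNat 30, .negSucc 20, .ofNat 392, .ofNat 539, .ofNat 254⟩, .ofNat 166, .ofNat 58, .ofNat 0, .ofNat 58, .ofNat 216, .ofNat 0, .ofNat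 517, .negSucc 71, .negSucc 225, .ofNat 0, .ofNat 128, .negSucc 105, .ofNat 0, .ofNat 0, .ofNat 1846, .ofNat 2826, .ofNat 0, .ofNat 128077620301750577821158782465306111919521792, .ofNat 4661887894705490240721280571119220293632, .ofNat 0, .ofNat 0, .ofNat 4071220666343966139761710524479536692925038592, .ofNat 0, .ofNat 0, .ofNat 0, .ofNat 2093272567277976655069565567891892135281033216, .ofNat 5837841287816789649719655954339277570048, .ofNat 0, .ofNat 0, .ofNat 20620433296163045130044674231858101339052572672, .ofNat 0, .ofNat 0⟩)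
    (by decide +kernel)
theorem L04424 : Good (Phi V5.P V5.D (-1) (-1)) ⟨4, 15, 2, 2, 2, 1, 3, 7, 3, 3⟩ :=
  out_sound (S := T5.ds_mm) T5.ok_mm (w := 49) (j := 3) (by decide +kernel)
theorem L04425 : Good (Phi V5.P V5.D (-1) (-1)) ⟨2, 2, 2, 3, 1, 0, 1, 1, 2, 1⟩ :=
  out_sound (S := T5.ds_mm) T5.ok_mm (w := 37) (j := 3) (by decide +kernel)
theorem L04426 : Good (Phi V5.P V5.D (-1) (-1)) ⟨3, 6, 2, 3, 1, 0, 1, 1, 2, 1⟩ :=
  out_sound (S := T5.ds_mm) T5.ok_mm (w := 43) (j := 3) (by decide +kernel)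
theorem L04427 : Good (Phi V5.P V5.D (-1) (-1)) ⟨5, 28, 3, 6, 1, 0, 1, 1, 2, 1⟩ :=
  out_sound (S := T5.ds_mm) T5.ok_mm (w := 57) (j := 3) (by decide +kernel)
theorem L04428 : Good (Phi V5.P V5.D (-1) (-1)) ⟨5, 29, 3, 6, 1, 0, 1, 1, 2, 1⟩ :=
  out_sound (S := T5.ds_mm) T5.ok_mm (w := 17) (j := 4) (by decide +kernel)
theorem L04429 : Good (Phi V5.P V5.D (-1) (-1)) ⟨4, 14, 3, 7, 1, 0, 1, 1, 2, 1⟩ :=
  out_sound (S := T5.ds_mm) T5.ok_mm (w := 51) (j := 3) (by decide +kernel)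
theorem L04430 : Good (Phi V5.P V5.D (-1) (-1)) ⟨4, 15, 2, 3, 1, 0, 1, 1, 2, 1⟩ :=
  out_sound (S := T5.ds_mm) T5.ok_mm (w := 15) (j := 4) (by decide +kernel)
theorem L04431 : Good (Phi V5.P V5.D (-1) (-1)) ⟨1, 1, 1, 1, 1, 0, 1, 1, 1, 1⟩ :=
  leafX_sound T5.ok_mm T5.Ymm.bz_eq (w := 166) (c := ⟨⟨.negSucc 1410, .negSucc 1381, .negSucc 202, .ofNat 1, .negSucc 0, .ofNat 1⟩, ⟨.ofNat 165, .ofNat 1659, .ofNat 728, .negSucc 0, .ofNat 1, .negSucc 0⟩, ⟨.ofNat 938, .ofNat 1057, .ofNat 294, .negSucc 0, .ofNat 1, .negSucc 0⟩, ⟨.negSucc 3069, .negSucc 638, .negSucc 85, .ofNat 2, .negSucc 1, .ofNat 2⟩, ⟨.ofNat 9, .negSucc 12, .ofNat 2, .ofNat 0, .ofNat 0, .ofNat 0⟩, .ofNat 165, .ofNat 56, .ofNat 0, .ofNat 56, .ofNat 217, .ofNat 0, .ofNat 141, .negSucc 62, .negSucc 149, .ofNat 0, .ofNat 128, .ofNat 50, .ofNat 0, .ofNat 0, .ofNat 309, .ofNat 1628, .ofNat 81600367759070177952320716800000000, .ofNat 3138410746851268682633728910950400, .ofNat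 0, .ofNat 357775642633487861267239534592, .ofNat 559928618072526950442341113004032, .ofNat 27176963408265025835448181719040, .ofNat 0, .ofNat 675175424068371390314779246592, .ofNat 137625974541048954037443045097472, .ofNat 6637374823823471452023865475072, .ofNat 271041139381689096542879744, .ofNat 0, .ofNat 590186953417781584394683393507328, .ofNat 28622940569153771663301961318400, .ofNat 264492632616332500798537728, .ofNat 0⟩)
    (by decide +kernel)
theorem L04432 : Good (Phi V5.P V5.D (-1) (-1)) ⟨2, 2, 3, 4, 2, 2, 2, 0, 3, 0⟩ :=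
  out_sound (S := T5.ds_mm) T5.ok_mm (w := 39) (j := 3) (by decide +kernel)
theorem L04433 : Good (Phi V5.P V5.D (-1) (-1)) ⟨4, 12, 4, 8, 2, 2, 4, 0, 3, 0⟩ :=
  out_sound (S := T5.ds_mm) T5.ok_mm (w := 53) (j := 3) (by decide +kernel)
theorem L04434 : Good (Phi V5.P V5.D (-1) (-1)) ⟨5, 26, 4, 8, 3, 4, 4, 0, 4, 0⟩ :=
  leafX_sound T5.ok_mm T5.Ymm.bz_eq (w := 243) (c := ⟨⟨.ofNat 3210, .ofNat 2250, .ofNat 525, .ofNat 3122, .negSucc 358, .negSucc 4863⟩, ⟨.negSucc 1531, .negSucc 1620, .negSucc 275, .negSucc 1781, .ofNat 217, .ofNat 2689⟩, ⟨.negSucc 300, .negSucc 1700, .negSucc 130, .negSucc 331, .negSucc 415, .ofNat 1415⟩, ⟨.ofNat 3801, .ofNat 2384, .ofNat 359, .ofNat 3579, .negSucc 208, .negSucc 7349⟩, ⟨.negSucc 2456, .negSucc 1055, .negSucc 459, .negSucc 1983, .ofNat 618, .negSucc 141⟩, .ofNat 1453, .ofNat 2050, .ofNat 0, .ofNat 2050, .ofNat 3865, .ofNat 0, .ofNat 128, .negSucc 2469, .negSucc 1488, .ofNat 0, .ofNat 1455, .ofNat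 846, .ofNat 0, .ofNat 0, .ofNat 2019, .ofNat 16714, .ofNat 0, .ofNat 0, .ofNat 10179824043000506799716150248596929932951552, .ofNat 0, .ofNat 0, .ofNat 0, .ofNat 200016262478235050471894141461544057914261504, .ofNat 0, .ofNat 0, .ofNat 0, .ofNat 0, .ofNat 0, .ofNat 0, .ofNat 0, .ofNat 1030657148048056207005715262418713527709597696, .ofNat 0⟩)
    (by decide +kernel)
theorem L04435 : Good (Phi V5.P V5.D (-1) (-1)) ⟨5, 26, 4, 8, 3, 5, 4, 0, 4, 0⟩ :=
  leafX_sound T5.ok_mm T5.Ymm.bz_eq (w := 242) (c := ⟨⟨.ofNat 5346, .ofNat 3135, .negSucc 2611, .negSucc 691, .negSucc 1227, .negSucc 1785⟩, ⟨.negSucc 2725, .negSucc 2139, .ofNat 1530, .ofNat 396, .ofNat 720, .ofNat 902⟩, ⟨.negSucc 448, .negSucc 1311, .ofNat 979, .ofNat 718, .negSucc 351, .negSucc 281⟩, ⟨.ofNat 6552, .ofNat 3265, .negSucc 2902, .negSucc 667, .negSucc 1010, .negSucc 4453⟩, ⟨.negSucc 3403, .negSucc 1703, .ofNat 2041, .ofNat 439, .ofNat 1549, .negSucc 3039⟩, .ofNat 1038,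 .ofNat 1339, .ofNat 0, .ofNat 1339, .ofNat 2617, .ofNat 0, .ofNat 128, .negSucc 2673, .negSucc 1378, .ofNat 0, .ofNat 1561, .ofNat 786, .ofNat 0, .ofNat 0, .ofNat 1681, .ofNat 12239, .ofNat 352108551522740655141289376633619687761793901395968, .ofNat 0, .ofNat 1536043832397190705515247053497325882179584, .ofNat 0, .ofNat 288597064424078464594603630152223610349057124335616, .ofNat 0, .ofNat 57940300317509725774443627270073864576565248, .ofNat 0, .ofNat 16473035906872056301639102641199926584825957645811712, .ofNat 0, .ofNat 497598492981483039390837968177928927900073984, .ofNat 0, .ofNat 0, .ofNat 0, .ofNat 278857992365993966520246876381536258151677952, .ofNat 0⟩)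
    (by decide +kernel)
theorem L04436 : Good (Phi V5.P V5.D (-1) (-1)) ⟨5, 26, 4, 8, 3, 4, 4, 0, 4, 1⟩ :=
  leafX_sound T5.ok_mm T5.Ymm.bz_eq (w := 244) (c := ⟨⟨.negSucc 407, .ofNat 373, .ofNat 503, .negSucc 6, .negSucc 51, .negSucc 4417⟩, ⟨.ofNat 181, .negSucc 261, .negSucc 135, .negSucc 15, .ofNat 37, .ofNat 2506⟩, ⟨.ofNat 24, .negSucc 61, .negSucc 253, .negSucc 93, .negSucc 6, .ofNat 2767⟩, ⟨.negSucc 2250, .ofNat 492, .ofNat 509, .negSucc 375, .ofNat 30, .negSucc 5375⟩, ⟨.negSucc 2886, .negSucc 206, .negSucc 297, .negSucc 674, .ofNat 191, .ofNat 2211⟩, .ofNat 2275, .ofNat 3481, .ofNat 0, .ofNat 3481, .ofNat 6382, .ofNat 0, .ofNat 128, .negSucc 2210, .negSucc 978, .ofNat 0, .ofNat 1301, .ofNat 560, .ofNat 0, .ofNat 0, .ofNat 1317, .ofNat 12463, .ofNat 1188809589418491654398620999526184972321306414415872, .ofNat 0, .ofNat 0, .ofNat 0, .ofNat 0, .ofNat 0, .ofNat 296283632526053271028143829877323628567068672, .ofNat 0, .ofNat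 0, .ofNat 0, .ofNat 0, .ofNat 0, .ofNat 4433478166324156544843882638965721315238462221189120, .ofNat 0, .ofNat 1033290944638001173109174285907253587563511808, .ofNat 0⟩)
    (by decide +kernel)
theorem L04437 : Good (Phi V5.P V5.D (-1) (-1)) ⟨5, 26, 4, 8, 3, 5, 4, 0, 5, 2⟩ :=
  leafX_sound T5.ok_mm T5.Ymm.bz_eq (w := 250) (c := ⟨⟨.ofNat 2540, .ofNat 1195, .negSucc 1677, .ofNat 823, .negSucc 401, .negSucc 6867⟩, ⟨.negSucc 1373, .negSucc 893, .ofNat 1130, .negSucc 478, .ofNat 248, .ofNat 3902⟩, ⟨.negSucc 589, .negSucc 725, .ofNat 921, .ofNat 119, .negSucc 92, .ofNat 2991⟩, ⟨.ofNat 1006, .ofNat 1101, .negSucc 1963, .ofNat 714, .negSucc 28, .negSucc 8337⟩, ⟨.negSucc 5386, .negSucc 832, .ofNat 984, .negSucc 934, .ofNat 1038, .ofNat 3419⟩, .ofNat 2850, .ofNat 4480, .ofNat 0, .ofNat 4480, .ofNat 8127, .ofNat 0, .ofNat 128, .negSucc 2491, .negSucc 1363, .ofNat 0, .ofNat 1446, .ofNat 782, .ofNat 0, .ofNat 0, .ofNat 1222, .ofNat 17696,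 .ofNat 9422654823242892360091740450170607362864984417632256, .ofNat 0, .ofNat 148555890075692614694633504642998252836225024, .ofNat 0, .ofNat 2633154877099315396976837203175108843573517280608256, .ofNat 0, .ofNat 16944570927195913945631953446931719419391377408, .ofNat 0, .ofNat 227095654350218595532874478180844113570166959864020992, .ofNat 0, .ofNat 19051804853947718720928477284967986951056523264, .ofNat 0, .ofNat 16048277198704444759845784036947120666968454707806208, .ofNat 0, .ofNat 34541808359725141369797262299059364049073471488, .ofNat 0⟩)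
    (by decide +kernel)

end Crest.Agent.R097C5.N5mm
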