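import Crest.Agent.R097.KP7
import Crest.Agent.R097.T5Ymm

/-!
# Row 97, box cover in dimension n = 5 (generated)
-/

set_option autoImplicit false
set_option Elab.async false
set_option maxHeartbeats 0
set_option maxRecDepth 100000

open Crest.Agent.R097 Crest.Agent.R097.KA


namespace Crest.Agent.R097C5.N5mm

theorem L04438 : Good (Phi V5.P V5.D (-1) (-1)) ⟨5, 26, 4, 8, 3, 5, 4, 0, 5, 3⟩ :=
  leafX_sound T5.ok_mm T5.Ymm.bz_eq (w := 249) (c := ⟨⟨.negSucc 1676, .negSucc 1561, .ofNat 398, .negSucc 1007, .ofNat 89, .negSucc 1883⟩, ⟨.ofNat 792, .ofNat 931, .negSucc 36, .ofNat 579, .negSucc 45, .ofNat 1080⟩, ⟨.ofNat 749, .ofNat 877, .negSucc 194, .ofNat 999, .negSucc 55, .ofNat 1232⟩, ⟨.negSucc 4537, .negSucc 1528, .ofNat 380, .negSucc 1100, .ofNat 115, .negSucc 2001⟩, ⟨.negSucc 3203, .ofNat 919, .negSucc 232, .ofNat 729, .negSucc 46, .ofNat 1477⟩, .ofNat 2254, .ofNat 3445, .ofNat 0, .ofNat 3445,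 .ofNat 6320, .ofNat 0, .ofNat 128, .negSucc 1922, .negSucc 1329, .ofNat 0, .ofNat 1131, .ofNat 767, .ofNat 0, .ofNat 0, .ofNat 1462, .ofNat 21467, .ofNat 5724462817368408223694515430061374793187107413164032, .ofNat 0, .ofNat 70019640071574890548672605722391338509402112, .ofNat 0, .ofNat 10193777559239977677497921761072362948374976406749184, .ofNat 0, .ofNat 10309176331622536582213111741188828548808310784, .ofNat 0, .ofNat 0, .ofNat 0, .ofNat 0, .ofNat 0, .ofNat 0, .ofNat 0, .ofNat 4005717680626519453939793113520950828333006848, .ofNat 0⟩)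
    (by decide +kernel)
theorem L04439 : Good (Phi V5.P V5.D (-1) (-1)) ⟨5, 27, 4, 8, 3, 4, 4, 0, 4, 0⟩ :=
  leafX_sound T5.ok_mm T5.Ymm.bz_eq (w := 241) (c := ⟨⟨.ofNat 5219, .ofNat 816, .ofNat 656, .ofNat 3189, .negSucc 271, .negSucc 4738⟩, ⟨.negSucc 3001, .negSucc 897, .negSucc 311, .negSucc 1899, .ofNat 164, .ofNat 2716⟩, ⟨.negSucc 1853, .negSucc 601, .negSucc 218, .negSucc 226, .negSucc 457, .ofNat 1340⟩, ⟨.ofNat 5845, .ofNat 691, .ofNat 661, .ofNat 3783, .negSucc 127, .negSucc 7213⟩, ⟨.negSucc 3487, .negSucc 106, .negSucc 364, .negSucc 1676, .ofNat 505, .negSucc 349⟩, .ofNat 733, .ofNat 805, .ofNat 0, .ofNat 805, .ofNat 1602, .ofNat 0, .ofNat 128, .negSucc 1540, .negSucc 712, .ofNat 0, .ofNat 960, .ofNat 418, .ofNat 0, .ofNat 0, .ofNat 885, .ofNat 4736, .ofNat 0, .ofNat 0, .ofNat 2270911882512547208705893106701334862626816, .ofNat 0, .ofNat 0, .ofNat 0, .ofNat 71146763637297661898100177121495305854910464,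 .ofNat 0, .ofNat 0, .ofNat 0, .ofNat 618429026169849150284845852569772492949815296, .ofNat 0, .ofNat 0, .ofNat 0, .ofNat 111063026366623860043136563389340114390876160, .ofNat 0⟩)
    (by decide +kernel)
theorem L04440 : Good (Phi V5.P V5.D (-1) (-1)) ⟨5, 27, 4, 8, 3, 5, 4, 0, 5, 0⟩ :=
  leafX_sound T5.ok_mm T5.Ymm.bz_eq (w := 248) (c := ⟨⟨.ofNat 8389, .ofNat 1894, .negSucc 538, .negSucc 1836, .negSucc 1756, .ofNat 1089⟩, ⟨.negSucc 4858, .negSucc 1488, .ofNat 277, .ofNat 1115, .ofNat 1078, .negSucc 700⟩, ⟨.negSucc 1594, .negSucc 729, .ofNat 307, .ofNat 1148, .negSucc 420, .negSucc 773⟩, ⟨.ofNat 9448, .ofNat 1829, .negSucc 626, .negSucc 2019, .negSucc 1559, .ofNat 488⟩, ⟨.negSucc 5371, .negSucc 960, .ofNat 683, .ofNat 1050, .ofNat 1769, .negSucc 1902⟩, .ofNat 1504, .ofNat 2058, .ofNat 0, .ofNat 2058, .ofNat 3700, .ofNat 0, .ofNat 128, .negSucc 2324, .negSucc 671, .ofNat 0, .ofNat 1411, .ofNat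 401, .ofNat 0, .ofNat 0, .ofNat 976, .ofNat 10645, .ofNat 0, .ofNat 0, .ofNat 0, .ofNat 0, .ofNat 413153275893728644766540989268995308848433124605952, .ofNat 0, .ofNat 6928938370739027586994397288247346412799393792, .ofNat 0, .ofNat 0, .ofNat 0, .ofNat 51713196558833292752567913159933306048394297344, .ofNat 0, .ofNat 0, .ofNat 0, .ofNat 7198218985452666875760721056714900424322187264, .ofNat 0⟩)
    (by decide +kernel)
theorem L04441 : Good (Phi V5.P V5.D (-1) (-1)) ⟨5, 27, 4, 8, 3, 5, 4, 0, 5, 1⟩ :=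
  leafX_sound T5.ok_mm T5.Ymm.bz_eq (w := 247) (c := ⟨⟨.ofNat 8053, .ofNat 6901, .negSucc 2816, .ofNat 495, .negSucc 2061, .negSucc 2801⟩, ⟨.negSucc 4750, .negSucc 4547, .ofNat 1718, .negSucc 278, .ofNat 1272, .ofNat 1604⟩, ⟨.negSucc 2069, .negSucc 2612, .ofNat 1138, .ofNat 288, .negSucc 13, .ofNat 494⟩, ⟨.ofNat 8152, .ofNat 6920, .negSucc 2435, .ofNat 3, .negSucc 2166, .negSucc 3794⟩, ⟨.negSucc 6745, .negSucc 4867, .ofNat 3473, .negSucc 1465, .ofNat 1404, .ofNat 659⟩, .ofNat 1476, .ofNat 2014, .ofNat 0, .ofNat 2014, .ofNat 3632, .ofNat 0, .ofNat 128, .negSucc 1667, .negSucc 846, .ofNat 0, .ofNat 1007, .ofNat 506, .ofNat 0, .ofNat 0, .ofNat 785, .ofNat 4791, .ofNat 1415610006527008467099224546371449885162062059929600, .ofNat 0, .ofNat 210068158511716912917377075381212552221425664, .ofNat 0, .ofNat 0, .ofNat 0, .ofNat 9396125525675654231711731907654999341375946752, .ofNat 0, .ofNat 56800414330968863311164280629224090555344713194405888,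 .ofNat 0, .ofNat 32392747449310319674140475767168396497057218560, .ofNat 0, .ofNat 2558608537476754492142566149724609598301202330681344, .ofNat 0, .ofNat 11714855326941003210262477357440182049541455872, .ofNat 0⟩)
    (by decide +kernel)
theorem L04442 : Good (Phi V5.P V5.D (-1) (-1)) ⟨5, 27, 4, 8, 3, 4, 4, 0, 4, 1⟩ :=
  leafX_sound T5.ok_mm T5.Ymm.bz_eq (w := 241) (c := ⟨⟨.ofNat 947, .negSucc 808, .ofNat 81, .negSucc 266, .negSucc 96, .negSucc 5138⟩, ⟨.negSucc 716, .ofNat 419, .ofNat 103, .ofNat 160, .ofNat 49, .ofNat 3063⟩, ⟨.negSucc 410, .ofNat 293, .negSucc 42, .ofNat 49, .negSucc 35, .ofNat 3095⟩, ⟨.negSucc 748, .negSucc 800, .ofNat 113, .negSucc 868, .ofNat 370, .negSucc 6388⟩, ⟨.negSucc 3764, .ofNat 398, .ofNat 273, .negSucc 983, .ofNat 998, .ofNat 2009⟩, .ofNat 1482, .ofNat 2030, .ofNat 0, .ofNat 2030, .ofNat 3673, .ofNat 0, .ofNat 128, .negSucc 1306, .negSucc 611, .ofNat 0, .ofNat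 806, .ofNat 366, .ofNat 0, .ofNat 0, .ofNat 759, .ofNat 4547, .ofNat 372856178414983468206713736499402734643271109181440, .ofNat 0, .ofNat 1737673389921577704345119665110596402020352, .ofNat 0, .ofNat 0, .ofNat 0, .ofNat 296409050590040459146240451559442509631324160, .ofNat 0, .ofNat 3357810145708751950235243782801723172570247951548416, .ofNat 0, .ofNat 466222739989477955573070991765029255873822720, .ofNat 0, .ofNat 373243096164508884783963872502771390991426253750272, .ofNat 0, .ofNat 163730618308531337912420529370606732799115264, .ofNat 0⟩)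
    (by decide +kernel)
theorem L04443 : Good (Phi V5.P V5.D (-1) (-1)) ⟨5, 27, 4, 8, 3, 5, 4, 0, 6, 4⟩ :=
  leafX_sound T5.ok_mm T5.Ymm.bz_eq (w := 252) (c := ⟨⟨.ofNat 3684, .ofNat 3296, .negSucc 21, .ofNat 2040, .negSucc 1060, .negSucc 4126⟩, ⟨.negSucc 2255, .negSucc 2356, .ofNat 150, .negSucc 1225, .ofNat 652, .ofNat 2457⟩, ⟨.negSucc 1055, .negSucc 1579, .ofNat 202, .negSucc 441, .negSucc 41, .ofNat 1600⟩, ⟨.ofNat 2233, .ofNat 3401, .negSucc 8, .ofNat 1964, .negSucc 776, .negSucc 5424⟩, ⟨.negSucc 5846, .negSucc 1869, .ofNat 421, .negSucc 1806, .ofNat 1349, .ofNat 1010⟩, .ofNat 1498, .ofNat 2060, .ofNat 0, .ofNat 2060, .ofNat 3728, .ofNat 0, .ofNat 128, .negSucc 1579, .negSucc 1259, .ofNat 0, .ofNat 954, .ofNat 751, .ofNat 0, .ofNat 0, .ofNat 987, .ofNat 5559, .ofNat 20673051797638676659918512981602936945695916778586112, .ofNat 0, .ofNat 5257880035310339584844528085497187473450598400, .ofNat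 0, .ofNat 44253897013506337403373109820923820920903584941342720, .ofNat 0, .ofNat 220139535485842199037325507388386310729160982528, .ofNat 0, .ofNat 549260402811802568124617915371017169029709100188958720, .ofNat 0, .ofNat 942430504048457288962957402218184240452702568448, .ofNat 0, .ofNat 0, .ofNat 0, .ofNat 687759260842519490901325389983138927892081147904, .ofNat 0⟩)
    (by decide +kernel)
theorem L04444 : Good (Phi V5.P V5.D (-1) (-1)) ⟨5, 27, 4, 8, 3, 5, 4, 0, 6, 5⟩ :=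
  leafX_sound T5.ok_mm T5.Ymm.bz_eq (w := 250) (c := ⟨⟨.ofNat 294, .ofNat 1243, .negSucc 237, .ofNat 260, .ofNat 27, .negSucc 3844⟩, ⟨.negSucc 351, .negSucc 876, .ofNat 297, .negSucc 161, .ofNat 10, .ofNat 2295⟩, ⟨.ofNat 8, .negSucc 762, .ofNat 256, .ofNat 393, .negSucc 112, .ofNat 1824⟩, ⟨.negSucc 1994, .ofNat 1190, .negSucc 335, .ofNat 106, .ofNat 258, .negSucc 4457⟩, ⟨.negSucc 4375, .negSucc 1288, .ofNat 402, .negSucc 485, .ofNat 352, .ofNat 2189⟩, .ofNat 739, .ofNat 815, .ofNat 0, .ofNat 815, .ofNat 1613, .ofNat 0, .ofNat 128, .negSucc 1454, .negSucc 1801, .ofNat 0, .ofNat 904, .ofNat 1086, .ofNat 0, .ofNat 0, .ofNat 1419, .ofNat 4355, .ofNat 18048027020712888018037329357762533695799841301463040, .ofNat 0, .ofNat 840679429239383997070183406358464263004094464, .ofNat 0, .ofNat 26092461219587907918888899041124243415866173164617728, .ofNat 0, .ofNat 43802623783120355084553024394935903953296031744,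 .ofNat 0, .ofNat 0, .ofNat 0, .ofNat 495615084800779269596194300467244216862862475264, .ofNat 0, .ofNat 0, .ofNat 0, .ofNat 387147479274834212559778359673857848725286682624, .ofNat 0⟩)
    (by decide +kernel)
theorem L04445 : Good (Phi V5.P V5.D (-1) (-1)) ⟨5, 27, 4, 8, 3, 5, 5, 0, 5, 3⟩ :=
  leafX_sound T5.ok_mm T5.Ymm.bz_eq (w := 251) (c := ⟨⟨.negSucc 2888, .negSucc 1026, .ofNat 213, .negSucc 977, .negSucc 407, .negSucc 2008⟩, ⟨.ofNat 1466, .ofNat 642, .ofNat 86, .ofNat 597, .ofNat 231, .ofNat 1243⟩, ⟨.ofNat 1384, .ofNat 580, .negSucc 208, .ofNat 1085, .ofNat 174, .ofNat 1373⟩, ⟨.negSucc 5948, .negSucc 625, .ofNat 5, .negSucc 898, .negSucc 416, .negSucc 1877⟩, ⟨.negSucc 2832, .ofNat 1233, .negSucc 570, .ofNat 910, .ofNat 332, .ofNat 1794⟩, .ofNat 1491, .ofNat 2039, .ofNat 0, .ofNat 2039, .ofNat 3675, .ofNat 0, .ofNat 128, .negSucc 867, .negSucc 901, .ofNat 0, .ofNat 536, .ofNat 547, .ofNat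 0, .ofNat 0, .ofNat 869, .ofNat 39879, .ofNat 143878650911064253683939178489139823247048204164792320, .ofNat 0, .ofNat 0, .ofNat 0, .ofNat 15834359420395686335643845174979271502608469560655872, .ofNat 0, .ofNat 64866559667136751487410181425267333838795702272, .ofNat 0, .ofNat 134456473914760135711727120215698440759176660802076672, .ofNat 0, .ofNat 184438694099258848718509220302128933687340826624, .ofNat 0, .ofNat 213717771544310822275068272314216893584229730860662784, .ofNat 0, .ofNat 150425671449070001476077113385399878682119503872, .ofNat 0⟩)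
    (by decide +kernel)
theorem L04446 : Good (Phi V5.P V5.D (-1) (-1)) ⟨5, 27, 4, 8, 3, 5, 5, 1, 5, 3⟩ :=
  leafX_sound T5.ok_mm T5.Ymm.bz_eq (w := 249) (c := ⟨⟨.negSucc 3157, .negSucc 1528, .ofNat 336, .negSucc 942, .ofNat 137, .negSucc 1915⟩, ⟨.ofNat 1633, .ofNat 957, .ofNat 0, .ofNat 567, .negSucc 83, .ofNat 1157⟩, ⟨.ofNat 1557, .ofNat 935, .negSucc 300, .ofNat 994, .negSucc 66, .ofNat 1293⟩, ⟨.negSucc 6036, .negSucc 1617, .ofNat 391, .negSucc 900, .ofNat 133, .negSucc 2001⟩, ⟨.negSucc 2335, .ofNat 682, .negSucc 159, .ofNat 833, .negSucc 128, .ofNat 1498⟩, .ofNat 731, .ofNat 802, .ofNat 0, .ofNat 802, .ofNat 1595, .ofNat 0, .ofNat 128, .negSucc 834, .negSucc 824, .ofNat 0, .ofNat 531, .ofNat 502, .ofNat 0, .ofNat 0, .ofNat 793, .ofNat 9497, .ofNat 0, .ofNat 0, .ofNat 0, .ofNat 0, .ofNat 0, .ofNat 0, .ofNat 36361546692312867143503665144617659722960470016, .ofNat 0, .ofNat 0, .ofNat 0,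 .ofNat 44318527379310676133341180240983523499983241216, .ofNat 0, .ofNat 0, .ofNat 0, .ofNat 56257753483049319492266268243302008202320674816, .ofNat 0⟩)
    (by decide +kernel)
theorem L04447 : Good (Phi V5.P V5.D (-1) (-1)) ⟨3, 7, 4, 8, 2, 2, 4, 0, 3, 0⟩ :=
  out_sound (S := T5.ds_mm) T5.ok_mm (w := 47) (j := 3) (by decide +kernel)
theorem L04448 : Good (Phi V5.P V5.D (-1) (-1)) ⟨4, 12, 4, 8, 2, 2, 4, 1, 3, 0⟩ :=
  out_sound (S := T5.ds_mm) T5.ok_mm (w := 53) (j := 3) (by decide +kernel)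
theorem L04449 : Good (Phi V5.P V5.D (-1) (-1)) ⟨5, 26, 4, 8, 2, 2, 4, 1, 4, 0⟩ :=
  leafX_sound T5.ok_mm T5.Ymm.bz_eq (w := 229) (c := ⟨⟨.ofNat 6700, .negSucc 1002, .negSucc 4385, .ofNat 2029, .negSucc 137, .negSucc 3626⟩, ⟨.negSucc 3565, .ofNat 292, .ofNat 2549, .negSucc 1140, .ofNat 89, .ofNat 1976⟩, ⟨.negSucc 3032, .ofNat 391, .ofNat 2477, .ofNat 501, .negSucc 361, .ofNat 1085⟩, ⟨.ofNat 7935, .negSucc 1345, .negSucc 4592, .ofNat 2701, .ofNat 67, .negSucc 6089⟩, ⟨.negSucc 4344, .ofNat 939, .ofNat 3564, .negSucc 618, .ofNat 515, .negSucc 1223⟩, .ofNat 1456, .ofNat 2056, .ofNat 0, .ofNat 2056, .ofNat 3875, .ofNat 0, .ofNat 128, .negSucc 2338, .negSucc 2175, .ofNat 0, .ofNat 1376, .ofNat 1232, .ofNat 0, .ofNat 0, .ofNat 2657, .ofNat 6053, .ofNat 0, .ofNat 0, .ofNat 4277948042477611093776352233088358547456, .ofNat 0, .ofNat 0, .ofNat 0, .ofNat 12983404200535060610272638501164463161344, .ofNat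 0, .ofNat 0, .ofNat 0, .ofNat 113537296414957865275074805535700701675520, .ofNat 0, .ofNat 0, .ofNat 0, .ofNat 65350984529546639053802462641836496257024, .ofNat 0⟩)
    (by decide +kernel)
theorem L04450 : Good (Phi V5.P V5.D (-1) (-1)) ⟨5, 27, 4, 8, 3, 4, 4, 1, 4, 0⟩ :=
  leafX_sound T5.ok_mm T5.Ymm.bz_eq (w := 242) (c := ⟨⟨.ofNat 5363, .ofNat 2856, .negSucc 1325, .ofNat 2004, .negSucc 539, .negSucc 3915⟩, ⟨.negSucc 3093, .negSucc 2030, .ofNat 821, .negSucc 1196, .ofNat 335, .ofNat 2254⟩, ⟨.negSucc 2518, .negSucc 1447, .ofNat 704, .ofNat 27, .negSucc 198, .ofNat 1202⟩, ⟨.ofNat 6061, .ofNat 3545, .negSucc 1669, .ofNat 2414, .negSucc 429, .negSucc 6196⟩, ⟨.negSucc 3462, .negSucc 183, .ofNat 541, .negSucc 947, .ofNat 622, .negSucc 824⟩, .ofNat 1481, .ofNat 2023, .ofNat 0, .ofNat 2023, .ofNat 3649, .ofNat 0, .ofNat 128, .negSucc 1220, .negSucc 1371, .ofNat 0, .ofNat 751, .ofNat 811, .ofNat 0,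 .ofNat 0, .ofNat 1583, .ofNat 3884, .ofNat 0, .ofNat 0, .ofNat 3930801608964569539274370553585366300884992, .ofNat 0, .ofNat 0, .ofNat 0, .ofNat 281022361238625129460033883685133610330882048, .ofNat 0, .ofNat 0, .ofNat 0, .ofNat 470461742042767857806289627800150025240051712, .ofNat 0, .ofNat 0, .ofNat 0, .ofNat 0, .ofNat 0⟩)
    (by decide +kernel)
theorem L04451 : Good (Phi V5.P V5.D (-1) (-1)) ⟨5, 27, 4, 8, 3, 5, 4, 1, 4, 0⟩ :=
  leafX_sound T5.ok_mm T5.Ymm.bz_eq (w := 242) (c := ⟨⟨.ofNat 7320, .ofNat 1970, .negSucc 600, .negSucc 1515, .negSucc 1056, .negSucc 1040⟩, ⟨.negSucc 4224, .negSucc 1528, .ofNat 368, .ofNat 922, .ofNat 648, .ofNat 503⟩, ⟨.negSucc 2320, .negSucc 996, .ofNat 395, .ofNat 1150, .negSucc 145, .negSucc 334⟩, ⟨.ofNat 8779, .ofNat 1899, .negSucc 834, .negSucc 1283, .negSucc 1000, .negSucc 3394⟩, ⟨.negSucc 3716, .negSucc 1104, .ofNat 347, .ofNat 1492, .ofNat 918, .negSucc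 3157⟩, .ofNat 1475, .ofNat 2018, .ofNat 0, .ofNat 2018, .ofNat 3652, .ofNat 0, .ofNat 128, .negSucc 2096, .negSucc 1216, .ofNat 0, .ofNat 1269, .ofNat 719, .ofNat 0, .ofNat 0, .ofNat 1359, .ofNat 2644, .ofNat 0, .ofNat 0, .ofNat 3114630784492520677176110700850083302211584, .ofNat 0, .ofNat 0, .ofNat 0, .ofNat 202655599877195993119146950041857451446239232, .ofNat 0, .ofNat 0, .ofNat 0, .ofNat 0, .ofNat 0, .ofNat 0, .ofNat 0, .ofNat 251351950923515789558152308573314524320366592, .ofNat 0⟩)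
    (by decide +kernel)
theorem L04452 : Good (Phi V5.P V5.D (-1) (-1)) ⟨4, 13, 4, 8, 3, 4, 4, 1, 4, 1⟩ :=
  leafX_sound T5.ok_mm T5.Ymm.bz_eq (w := 236) (c := ⟨⟨.ofNat 570, .negSucc 283, .negSucc 101, .negSucc 301, .negSucc 15, .negSucc 4784⟩, ⟨.negSucc 453, .ofNat 121, .ofNat 236, .ofNat 180, .negSucc 11, .ofNat 2801⟩, ⟨.negSucc 482, .ofNat 382, .negSucc 59, .ofNat 28, .ofNat 19, .ofNat 3027⟩, ⟨.negSucc 1332, .ofNat 190, .negSucc 264, .negSucc 715, .ofNat 181, .negSucc 5680⟩, ⟨.negSucc 3660, .ofNat 722, .negSucc 182, .negSucc 580, .ofNat 448, .ofNat 2492⟩, .ofNat 1499, .ofNat 2075, .ofNat 0, .ofNat 2075, .ofNat 3786, .ofNat 0, .ofNat 128, .negSucc 931, .negSucc 603, .ofNat 0, .ofNat 572, .ofNat 356, .ofNat 0, .ofNat 0, .ofNat 735, .ofNat 1574, .ofNat 0, .ofNat 0, .ofNat 0, .ofNat 0, .ofNat 0, .ofNat 0, .ofNat 422878651113332617044022327903440101026299904, .ofNat 0, .ofNat 0, .ofNat 0, .ofNat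 954990585886904620355005145307229914333708288, .ofNat 0, .ofNat 0, .ofNat 0, .ofNat 233034714507577957641434215501101957663162368, .ofNat 0⟩)
    (by decide +kernel)
theorem L04453 : Good (Phi V5.P V5.D (-1) (-1)) ⟨4, 13, 4, 8, 3, 5, 4, 1, 5, 2⟩ :=
  leafX_sound T5.ok_mm T5.Ymm.bz_eq (w := 241) (c := ⟨⟨.ofNat 2028, .ofNat 3566, .negSucc 440, .ofNat 940, .negSucc 73, .negSucc 7369⟩, ⟨.negSucc 1166, .negSucc 2467, .ofNat 363, .negSucc 547, .ofNat 51, .ofNat 4407⟩, ⟨.negSucc 689, .negSucc 1949, .ofNat 314, .negSucc 43, .negSucc 146, .ofNat 3488⟩, ⟨.ofNat 604, .ofNat 4069, .negSucc 618, .ofNat 915, .ofNat 199, .negSucc 9130⟩, ⟨.negSucc 4275, .negSucc 2006, .ofNat 463, .negSucc 827, .ofNat 574, .ofNat 2883⟩, .ofNat 731, .ofNat 804, .ofNat 0, .ofNat 804, .ofNat 1603, .ofNat 0, .ofNat 128, .negSucc 820, .negSucc 861, .ofNat 0, .ofNat 507, .ofNat 508, .ofNat 0, .ofNat 0, .ofNat 675, .ofNat 2466,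 .ofNat 0, .ofNat 0, .ofNat 0, .ofNat 0, .ofNat 0, .ofNat 0, .ofNat 0, .ofNat 0, .ofNat 0, .ofNat 0, .ofNat 13249427264291679101079950561175418267225817088, .ofNat 0, .ofNat 0, .ofNat 0, .ofNat 11884953755471450208663023052490142458232963072, .ofNat 0⟩)
    (by decide +kernel)
theorem L04454 : Good (Phi V5.P V5.D (-1) (-1)) ⟨4, 13, 4, 8, 3, 5, 4, 1, 5, 3⟩ :=
  leafX_sound T5.ok_mm T5.Ymm.bz_eq (w := 240) (c := ⟨⟨.negSucc 2078, .negSucc 2698, .ofNat 322, .negSucc 775, .ofNat 210, .negSucc 1592⟩, ⟨.ofNat 974, .ofNat 1674, .ofNat 21, .ofNat 461, .negSucc 124, .ofNat 941⟩, ⟨.ofNat 1006, .ofNat 1429, .negSucc 179, .ofNat 793, .negSucc 69, .ofNat 1132⟩, ⟨.negSucc 4713, .negSucc 3088, .ofNat 442, .negSucc 849, .ofNat 257, .negSucc 1695⟩, ⟨.negSucc 2455, .ofNat 766, .negSucc 61, .ofNat 512, .negSucc 97, .ofNat 1223⟩, .ofNat 734, .ofNat 811, .ofNat 0, .ofNat 811, .ofNat 1625, .ofNat 0, .ofNat 128,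 .negSucc 415, .negSucc 510, .ofNat 0, .ofNat 263, .ofNat 304, .ofNat 0, .ofNat 0, .ofNat 493, .ofNat 2829, .ofNat 0, .ofNat 0, .ofNat 0, .ofNat 0, .ofNat 0, .ofNat 0, .ofNat 0, .ofNat 0, .ofNat 0, .ofNat 0, .ofNat 2629970836582818611383254069903211293870915584, .ofNat 0, .ofNat 0, .ofNat 0, .ofNat 3719996494680122167526408831887587814620004352, .ofNat 0⟩)
    (by decide +kernel)
theorem L04455 : Good (Phi V5.P V5.D (-1) (-1)) ⟨3, 7, 4, 8, 2, 2, 4, 1, 3, 0⟩ :=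
  out_sound (S := T5.ds_mm) T5.ok_mm (w := 47) (j := 3) (by decide +kernel)
theorem L04456 : Good (Phi V5.P V5.D (-1) (-1)) ⟨4, 12, 4, 9, 2, 2, 4, 0, 4, 0⟩ :=
  out_sound (S := T5.ds_mm) T5.ok_mm (w := 53) (j := 3) (by decide +kernel)
theorem L04457 : Good (Phi V5.P V5.D (-1) (-1)) ⟨5, 26, 4, 9, 2, 2, 4, 0, 4, 0⟩ :=
  out_sound (S := T5.ds_mm) T5.ok_mm (w := 59) (j := 3) (by decide +kernel)
theorem L04458 : Good (Phi V5.P V5.D (-1) (-1)) ⟨5, 27, 4, 9, 3, 4, 4, 0, 5, 0⟩ :=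
  leafX_sound T5.ok_mm T5.Ymm.bz_eq (w := 251) (c := ⟨⟨.ofNat 2702, .ofNat 5407, .negSucc 1658, .ofNat 3031, .negSucc 949, .negSucc 1150⟩, ⟨.negSucc 1368, .negSucc 3760, .ofNat 1029, .negSucc 1872, .ofNat 605, .ofNat 679⟩, ⟨.negSucc 1212, .negSucc 1691, .ofNat 452, .ofNat 221, .negSucc 428, .ofNat 6⟩, ⟨.ofNat 3175, .ofNat 5278, .negSucc 1539, .ofNat 3658, .negSucc 709, .negSucc 2286⟩, ⟨.negSucc 2051, .negSucc 3072, .ofNat 1496, .negSucc 1175, .ofNat 1089, .negSucc 1062⟩, .ofNat 3064, .ofNat 4496, .ofNat 0, .ofNat 4496, .ofNat 7488, .ofNat 0, .ofNat 128, .negSucc 3248, .negSucc 1027, .ofNat 0, .ofNat 2040, .ofNat 636, .ofNat 0, .ofNat 0, .ofNat 1352, .ofNat 10573, .ofNat 0, .ofNat 0, .ofNat 1229010315022436320896462830160382570067394560, .ofNat 0, .ofNat 0, .ofNat 0, .ofNat 15326908591657927655544227257180432663079550976, .ofNat 0, .ofNat 0, .ofNat 0, .ofNat 0, .ofNat 0, .ofNat 0, .ofNat 0,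 .ofNat 36308358377723059001641571573752347990970859520, .ofNat 0⟩)
    (by decide +kernel)
theorem L04459 : Good (Phi V5.P V5.D (-1) (-1)) ⟨5, 27, 4, 9, 3, 4, 4, 0, 5, 1⟩ :=
  leafX_sound T5.ok_mm T5.Ymm.bz_eq (w := 248) (c := ⟨⟨.ofNat 1271, .ofNat 3810, .negSucc 868, .ofNat 5489, .negSucc 487, .negSucc 4070⟩, ⟨.negSucc 619, .negSucc 2631, .ofNat 549, .negSucc 3431, .ofNat 334, .ofNat 2506⟩, ⟨.negSucc 506, .negSucc 1684, .ofNat 571, .negSucc 1383, .negSucc 211, .ofNat 1427⟩, ⟨.ofNat 647, .ofNat 3800, .negSucc 898, .ofNat 6007, .negSucc 269, .negSucc 5459⟩, ⟨.negSucc 2255, .negSucc 2579, .ofNat 1076, .negSucc 3126, .ofNat 728, .ofNat 675⟩, .ofNat 1780, .ofNat 2438, .ofNat 0, .ofNat 2438, .ofNat 4170, .ofNat 0, .ofNat 128, .negSucc 1870, .negSucc 796, .ofNat 0, .ofNat 1180, .ofNat 494, .ofNat 0, .ofNat 0, .ofNat 843, .ofNat 10352, .ofNat 0, .ofNat 0, .ofNat 483889498807943471667771311203637907555352576,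 .ofNat 0, .ofNat 6347958274653173117885187512671546193464301092601856, .ofNat 0, .ofNat 6095759618554174847018730082356834417650958336, .ofNat 0, .ofNat 0, .ofNat 0, .ofNat 16641752398048657585955920670781623178895556608, .ofNat 0, .ofNat 0, .ofNat 0, .ofNat 30647962539914696960248558183255130042970144768, .ofNat 0⟩)
    (by decide +kernel)
theorem L04460 : Good (Phi V5.P V5.D (-1) (-1)) ⟨5, 27, 4, 9, 3, 5, 5, 0, 4, 0⟩ :=
  leafX_sound T5.ok_mm T5.Ymm.bz_eq (w := 245) (c := ⟨⟨.ofNat 6763, .ofNat 2738, .ofNat 221, .negSucc 973, .negSucc 1159, .ofNat 596⟩, ⟨.negSucc 3809, .negSucc 2204, .negSucc 104, .ofNat 604, .ofNat 733, .negSucc 458⟩, ⟨.negSucc 1009, .negSucc 886, .ofNat 5, .ofNat 1129, .negSucc 130, .negSucc 1419⟩, ⟨.ofNat 7762, .ofNat 3279, .negSucc 100, .negSucc 843, .negSucc 1190, .negSucc 2158⟩, ⟨.negSucc 3675, .negSucc 1087, .ofNat 259, .ofNat 374, .ofNat 868, .negSucc 4500⟩, .ofNat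 896, .ofNat 1069, .ofNat 0, .ofNat 1069, .ofNat 2006, .ofNat 0, .ofNat 128, .negSucc 2213, .negSucc 967, .ofNat 0, .ofNat 1350, .ofNat 589, .ofNat 0, .ofNat 0, .ofNat 1128, .ofNat 7193, .ofNat 2739453236871943982253662267300038018297867033116672, .ofNat 0, .ofNat 148021398333372248324022052650775615157305344, .ofNat 0, .ofNat 2462301738229605305890317209892684190550316424364032, .ofNat 0, .ofNat 48041748569205880995691478223846754907848704, .ofNat 0, .ofNat 111785100414102805642964107158781783104117426828083200, .ofNat 0, .ofNat 11075729681147260031750940045000245849731629056, .ofNat 0, .ofNat 0, .ofNat 0, .ofNat 11641580975497809934893904800716513362850086912, .ofNat 0⟩)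
    (by decide +kernel)
theorem L04461 : Good (Phi V5.P V5.D (-1) (-1)) ⟨5, 27, 4, 9, 3, 5, 5, 1, 4, 0⟩ :=
  leafX_sound T5.ok_mm T5.Ymm.bz_eq (w := 248) (c := ⟨⟨.ofNat 3183, .ofNat 7690, .negSucc 3981, .negSucc 1799, .negSucc 594, .ofNat 636⟩, ⟨.negSucc 1591, .negSucc 5260, .ofNat 2512, .ofNat 1121, .ofNat 381, .negSucc 480⟩, ⟨.negSucc 375, .negSucc 2630, .ofNat 1408, .ofNat 1313, .negSucc 178, .negSucc 1231⟩, ⟨.ofNat 4272, .ofNat 7949, .negSucc 4243, .negSucc 1712, .negSucc 578, .negSucc 1824⟩, ⟨.negSucc 1353, .negSucc 4207, .ofNat 2669, .ofNat 1288, .ofNat 459, .negSucc 4367⟩, .ofNat 1758, .ofNat 2412, .ofNat 0, .ofNat 2412, .ofNat 4146, .ofNat 0, .ofNat 128, .negSucc 3359, .negSucc 1767, .ofNat 0, .ofNat 2096, .ofNat 1092, .ofNat 0, .ofNat 0, .ofNat 1954, .ofNat 10918, .ofNat 0, .ofNat 0, .ofNat 171907209312473758991210569445351235839328256, .ofNat 0, .ofNat 0, .ofNat 0, .ofNat 4653762736339643420006660439191545572128456704,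 .ofNat 0, .ofNat 0, .ofNat 0, .ofNat 29225337103810512048281135491912174364140765184, .ofNat 0, .ofNat 0, .ofNat 0, .ofNat 32837314293382321796194492871944237556273512448, .ofNat 0⟩)
    (by decide +kernel)
theorem L04462 : Good (Phi V5.P V5.D (-1) (-1)) ⟨5, 28, 4, 9, 3, 4, 4, 0, 5, 0⟩ :=
  leafX_sound T5.ok_mm T5.Ymm.bz_eq (w := 246) (c := ⟨⟨.ofNat 5733, .negSucc 2152, .ofNat 1712, .ofNat 2615, .negSucc 916, .negSucc 241⟩, ⟨.negSucc 3628, .ofNat 920, .negSucc 1089, .negSucc 1669, .ofNat 595, .ofNat 130⟩, ⟨.negSucc 2512, .negSucc 382, .negSucc 166, .ofNat 476, .negSucc 390, .negSucc 289⟩, ⟨.ofNat 6133, .negSucc 2505, .ofNat 1741, .ofNat 3099, .negSucc 807, .negSucc 1214⟩, ⟨.negSucc 3523, .ofNat 1198, .negSucc 793, .negSucc 1148, .ofNat 911, .negSucc 1402⟩, .ofNat 742, .ofNat 770, .ofNat 0, .ofNat 770, .ofNat 1389, .ofNat 0, .ofNat 128, .negSucc 1929, .negSucc 860, .ofNat 0, .ofNat 1299, .ofNat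 554, .ofNat 0, .ofNat 0, .ofNat 952, .ofNat 7149, .ofNat 0, .ofNat 0, .ofNat 303081899300712997366669738948170616577982464, .ofNat 0, .ofNat 0, .ofNat 0, .ofNat 4668062675924809634492855277434109924384702464, .ofNat 0, .ofNat 127870194302273198151659034530140801928412039013728256, .ofNat 0, .ofNat 75332833655899804575723214185321726560408961024, .ofNat 0, .ofNat 0, .ofNat 0, .ofNat 3614497775065662965102906007764887703631429632, .ofNat 0⟩)
    (by decide +kernel)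
theorem L04463 : Good (Phi V5.P V5.D (-1) (-1)) ⟨5, 28, 4, 9, 3, 5, 4, 0, 5, 0⟩ :=
  leafX_sound T5.ok_mm T5.Ymm.bz_eq (w := 250) (c := ⟨⟨.ofNat 10125, .ofNat 140, .negSucc 291, .negSucc 2990, .negSucc 2213, .ofNat 2329⟩, ⟨.negSucc 6398, .negSucc 527, .ofNat 144, .ofNat 1923, .ofNat 1426, .negSucc 1516⟩, ⟨.negSucc 2104, .negSucc 589, .ofNat 313, .ofNat 1761, .negSucc 485, .negSucc 1221⟩, ⟨.ofNat 11239, .negSucc 278, .negSucc 417, .negSucc 2913, .negSucc 2189, .ofNat 1372⟩, ⟨.negSucc 5457, .negSucc 42, .ofNat 363, .ofNat 2119, .ofNat 1576, .negSucc 3088⟩, .ofNat 2048, .ofNat 2798, .ofNat 0, .ofNat 2798, .ofNat 4609, .ofNat 0, .ofNat 128, .negSucc 4297, .negSucc 956, .ofNat 0, .ofNat 2764, .ofNat 613, .ofNat 0, .ofNat 0, .ofNat 1355, .ofNat 6147, .ofNat 0, .ofNat 0, .ofNat 427711246102508737334352234403561053861445632, .ofNat 0, .ofNat 0, .ofNat 0, .ofNat 25267602947355949214111640856445901699620536320,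 .ofNat 0, .ofNat 0, .ofNat 0, .ofNat 79995765723066597389880005938180232968671330304, .ofNat 0, .ofNat 0, .ofNat 0, .ofNat 4936571266274669134347546788315697293371113472, .ofNat 0⟩)
    (by decide +kernel)
theorem L04464 : Good (Phi V5.P V5.D (-1) (-1)) ⟨5, 28, 4, 9, 3, 4, 4, 0, 5, 1⟩ :=
  leafX_sound T5.ok_mm T5.Ymm.bz_eq (w := 249) (c := ⟨⟨.ofNat 4266, .ofNat 1721, .ofNat 357, .ofNat 6229, .negSucc 1174, .negSucc 4052⟩, ⟨.negSucc 2762, .negSucc 1537, .negSucc 167, .negSucc 3998, .ofNat 775, .ofNat 2583⟩, ⟨.negSucc 1456, .ofNat 392, .negSucc 508, .negSucc 1626, .negSucc 137, .ofNat 1271⟩, ⟨.ofNat 3542, .ofNat 1583, .ofNat 534, .ofNat 6719, .negSucc 1090, .negSucc 5461⟩, ⟨.negSucc 4204, .negSucc 398, .ofNat 154, .negSucc 3437, .ofNat 930, .ofNat 485⟩, .ofNat 2042, .ofNat 2790, .ofNat 0, .ofNat 2790, .ofNat 4600, .ofNat 0, .ofNat 128, .negSucc 2325, .negSucc 1248, .ofNat 0, .ofNat 1504, .ofNat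 796, .ofNat 0, .ofNat 0, .ofNat 1283, .ofNat 7574, .ofNat 1844230483794934710966739895074937593526946080227328, .ofNat 0, .ofNat 366241644848961393079772337253364579837149184, .ofNat 0, .ofNat 0, .ofNat 0, .ofNat 33175683318226234489426312769612134507052269568, .ofNat 0, .ofNat 0, .ofNat 0, .ofNat 98273870432259520416933367342318180383349276672, .ofNat 0, .ofNat 0, .ofNat 0, .ofNat 51613144493075881042183074843890972158035230720, .ofNat 0⟩)
    (by decide +kernel)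
theorem L04465 : Good (Phi V5.P V5.D (-1) (-1)) ⟨6, 56, 4, 9, 4, 10, 4, 0, 5, 1⟩ :=
  leafX_sound T5.ok_mm T5.Ymm.bz_eq (w := 268) (c := ⟨⟨.ofNat 14331, .ofNat 6411, .negSucc 5051, .ofNat 2036, .negSucc 3511, .negSucc 1952⟩, ⟨.negSucc 9193, .negSucc 4430, .ofNat 3316, .negSucc 1300, .ofNat 2263, .ofNat 1220⟩, ⟨.negSucc 4063, .negSucc 2136, .ofNat 1831, .negSucc 237, .ofNat 175, .negSucc 81⟩, ⟨.ofNat 14354, .ofNat 6341, .negSucc 5107, .ofNat 2054, .negSucc 3376, .negSucc 3324⟩, ⟨.negSucc 9609, .negSucc 3366, .ofNat 3049, .negSucc 1413, .ofNat 2583, .negSucc 864⟩, .ofNat 2365, .ofNat 3247, .ofNat 0, .ofNat 3247, .ofNat 5255, .ofNat 0, .ofNat 128, .negSucc 3366, .negSucc 2289, .ofNat 0, .ofNat 2180, .ofNat 1477, .ofNat 0, .ofNat 0, .ofNat 1659, .ofNat 9606, .ofNat 90151075290993390957827321323622642790081692970883481600, .ofNat 0, .ofNat 1494179087594704476123385837303574889663576408064, .ofNat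 0, .ofNat 0, .ofNat 0, .ofNat 96819631887627895593604544895282115305125303025664, .ofNat 0, .ofNat 0, .ofNat 0, .ofNat 1612567840856747298454798301358998644934939689091072, .ofNat 0, .ofNat 0, .ofNat 0, .ofNat 506536514725299489199045715486877148600232231043072, .ofNat 0⟩)
    (by decide +kernel)
theorem L04466 : Good (Phi V5.P V5.D (-1) (-1)) ⟨6, 56, 4, 9, 4, 11, 4, 0, 5, 1⟩ :=
  leafX_sound T5.ok_mm T5.Ymm.bz_eq (w := 267) (c := ⟨⟨.ofNat 14224, .ofNat 2379, .negSucc 2122, .negSucc 3142, .negSucc 4045, .ofNat 830⟩, ⟨.negSucc 9108, .negSucc 1841, .ofNat 1423, .ofNat 2010, .ofNat 2612, .negSucc 573⟩, ⟨.negSucc 3479, .negSucc 871, .ofNat 825, .ofNat 1384, .ofNat 295, .negSucc 1116⟩, ⟨.ofNat 14535, .ofNat 2588, .negSucc 2543, .negSucc 3421, .negSucc 3706, .negSucc 686⟩, ⟨.negSucc 9603, .negSucc 781, .ofNat 1149, .ofNat 1683, .ofNat 3330, .negSucc 2866⟩, .ofNat 1563, .ofNat 2021, .ofNat 0, .ofNat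 2021, .ofNat 3362, .ofNat 0, .ofNat 128, .negSucc 3456, .negSucc 2809, .ofNat 0, .ofNat 2241, .ofNat 1811, .ofNat 0, .ofNat 0, .ofNat 2117, .ofNat 12904, .ofNat 221001002815425266600653784675425444801832942958400241664, .ofNat 0, .ofNat 2602804026942789442547487767621368888382120263680, .ofNat 0, .ofNat 265728275175421101436321072652757505778487501161309929472, .ofNat 0, .ofNat 61484909353023880642572490541431771849125414305792, .ofNat 0, .ofNat 23521323803480507131923084185924295945042507061440595099648, .ofNat 0, .ofNat 922090953135568986805964612138115632509543071612928, .ofNat 0, .ofNat 2913895222065637751951456487502845027396211051323413495808, .ofNat 0, .ofNat 832147824830749070685298187473258079585422083620864, .ofNat 0⟩)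
    (by decide +kernel)
theorem L04467 : Good (Phi V5.P V5.D (-1) (-1)) ⟨6, 57, 4, 9, 3, 5, 4, 0, 5, 1⟩ :=
  out_sound (S := T5.ds_mm) T5.ok_mm (w := 65) (j := 3) (by decide +kernel)
theorem L04468 : Good (Phi V5.P V5.D (-1) (-1)) ⟨5, 29, 4, 9, 2, 2, 4, 0, 4, 0⟩ :=
  out_sound (S := T5.ds_mm) T5.ok_mm (w := 59) (j := 3) (by decide +kernel)
theorem L04469 : Good (Phi V5.P V5.D (-1) (-1)) ⟨4, 15, 4, 9, 2, 2, 4, 0, 4, 0⟩ :=
  out_sound (S := T5.ds_mm) T5.ok_mm (w := 53) (j := 3) (by decide +kernel)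
theorem L04470 : Good (Phi V5.P V5.D (-1) (-1)) ⟨4, 12, 4, 9, 2, 2, 4, 1, 4, 0⟩ :=
  out_sound (S := T5.ds_mm) T5.ok_mm (w := 53) (j := 3) (by decide +kernel)
theorem L04471 : Good (Phi V5.P V5.D (-1) (-1)) ⟨5, 26, 4, 9, 2, 2, 4, 1, 5, 0⟩ :=
  out_sound (S := T5.ds_mm) T5.ok_mm (w := 59) (j := 3) (by decide +kernel)
theorem L04472 : Good (Phi V5.P V5.D (-1) (-1)) ⟨5, 27, 4, 9, 2, 2, 4, 1, 5, 0⟩ :=
  leafX_sound T5.ok_mm T5.Ymm.bz_eq (w := 230) (c := ⟨⟨.ofNat 4876, .ofNat 2851, .negSucc 1125, .negSucc 337, .negSucc 711, .ofNat 96⟩, ⟨.negSucc 2795, .negSucc 2059, .ofNat 650, .ofNat 249, .ofNat 455, .negSucc 102⟩, ⟨.negSucc 2480, .negSucc 1132, .ofNat 507, .ofNat 1949, .negSucc 245, .negSucc 333⟩, ⟨.ofNat 5418, .ofNat 3041, .negSucc 1338, .ofNat 557, .negSucc 560, .negSucc 920⟩, ⟨.negSucc 2849, .negSucc 1669, .ofNat 893, .ofNat 1277, .ofNat 887, .negSucc 1665⟩, .ofNat 374, .ofNat 274, .ofNat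 0, .ofNat 274, .ofNat 644, .ofNat 0, .ofNat 128, .negSucc 889, .negSucc 814, .ofNat 0, .ofNat 588, .ofNat 462, .ofNat 0, .ofNat 0, .ofNat 801, .ofNat 1928, .ofNat 0, .ofNat 0, .ofNat 3798245898202237968226642943276117655552, .ofNat 0, .ofNat 0, .ofNat 0, .ofNat 19050426916725744893227093677218398732288, .ofNat 0, .ofNat 0, .ofNat 0, .ofNat 0, .ofNat 0, .ofNat 0, .ofNat 0, .ofNat 0, .ofNat 0⟩)
    (by decide +kernel)
theorem L04473 : Good (Phi V5.P V5.D (-1) (-1)) ⟨4, 13, 4, 9, 2, 2, 4, 1, 5, 1⟩ :=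
  leafX_sound T5.ok_mm T5.Ymm.bz_eq (w := 229) (c := ⟨⟨.negSucc 4545, .ofNat 11559, .negSucc 2617, .ofNat 3414, .negSucc 366, .negSucc 3270⟩, ⟨.ofNat 3488, .negSucc 7977, .ofNat 1664, .negSucc 2091, .ofNat 238, .ofNat 1992⟩, ⟨.ofNat 2324, .negSucc 5865, .ofNat 1380, .negSucc 42, .negSucc 338, .ofNat 1072⟩, ⟨.negSucc 5336, .ofNat 12174, .negSucc 2803, .ofNat 4127, .negSucc 130, .negSucc 4694⟩, ⟨.ofNat 1056, .negSucc 6649, .ofNat 2132, .negSucc 1225, .ofNat 825, .negSucc 129⟩, .ofNat 796, .ofNat 889, .ofNat 0, .ofNat 889, .ofNat 1674, .ofNat 0, .ofNat 128, .negSucc 1518, .negSucc 1662, .ofNat 0, .ofNat 969, .ofNat 1010, .ofNat 0, .ofNat 0, .ofNat 1573, .ofNat 2715, .ofNat 0, .ofNat 0, .ofNat 45165279845048145667099516286732693667840, .ofNat 0, .ofNat 0, .ofNat 0, .ofNat 365316125868553244473146720741419418386432, .ofNat 0, .ofNat 0, .ofNat 0, .ofNat 3087057811138103972524774381143554328100864,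 .ofNat 0, .ofNat 0, .ofNat 0, .ofNat 2301211416321113175515764522030304784809984, .ofNat 0⟩)
    (by decide +kernel)
theorem L04474 : Good (Phi V5.P V5.D (-1) (-1)) ⟨6, 56, 4, 9, 3, 4, 4, 1, 5, 0⟩ :=
  leafX_sound T5.ok_mm T5.Ymm.bz_eq (w := 256) (c := ⟨⟨.ofNat 6261, .ofNat 391, .ofNat 461, .ofNat 1666, .negSucc 571, .negSucc 993⟩, ⟨.negSucc 3941, .negSucc 427, .negSucc 327, .negSucc 1057, .ofNat 372, .ofNat 613⟩, ⟨.negSucc 3234, .negSucc 458, .ofNat 179, .ofNat 407, .negSucc 356, .ofNat 68⟩, ⟨.ofNat 6774, .ofNat 455, .ofNat 490, .ofNat 1858, .negSucc 286, .negSucc 1763⟩, ⟨.negSucc 3638, .ofNat 213, .negSucc 83, .negSucc 829, .ofNat 844, .negSucc 548⟩, .ofNat 3962, .ofNat 5772, .ofNat 0, .ofNat 5772, .ofNat 9249, .ofNat 0, .ofNat 128, .negSucc 3446, .negSucc 3161, .ofNat 0, .ofNat 2228, .ofNat 2016, .ofNat 0, .ofNat 0, .ofNat 3643, .ofNat 9193, .ofNat 0, .ofNat 0, .ofNat 50454534063645798666351812977785535255805952,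 .ofNat 0, .ofNat 0, .ofNat 0, .ofNat 16419366751235180187554362998772804141782663168, .ofNat 0, .ofNat 0, .ofNat 0, .ofNat 19435153452058280980607868390197304704230227968, .ofNat 0, .ofNat 0, .ofNat 0, .ofNat 0, .ofNat 0⟩)
    (by decide +kernel)
theorem L04475 : Good (Phi V5.P V5.D (-1) (-1)) ⟨6, 56, 4, 9, 3, 5, 4, 1, 5, 0⟩ :=
  leafX_sound T5.ok_mm T5.Ymm.bz_eq (w := 254) (c := ⟨⟨.ofNat 8062, .ofNat 999, .negSucc 372, .negSucc 2363, .negSucc 1222, .ofNat 1257⟩, ⟨.negSucc 5092, .negSucc 817, .ofNat 206, .ofNat 1528, .ofNat 795, .negSucc 826⟩, ⟨.negSucc 2724, .negSucc 451, .ofNat 369, .ofNat 1693, .negSucc 235, .negSucc 842⟩, ⟨.ofNat 9016, .ofNat 963, .negSucc 417, .negSucc 2062, .negSucc 1062, .ofNat 408⟩, ⟨.negSucc 4052, .negSucc 305, .ofNat 226, .ofNat 2054, .ofNat 1074, .negSucc 2191⟩, .ofNat 2058, .ofNat 2811, .ofNat 0, .ofNat 2811, .ofNat 4628, .ofNat 0, .ofNat 128, .negSucc 3205, .negSucc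 1097, .ofNat 0, .ofNat 2067, .ofNat 699, .ofNat 0, .ofNat 0, .ofNat 1375, .ofNat 15707, .ofNat 0, .ofNat 0, .ofNat 0, .ofNat 0, .ofNat 0, .ofNat 0, .ofNat 8354426267306048291851301515318514455043637248, .ofNat 0, .ofNat 0, .ofNat 0, .ofNat 14103580709215344072205339700730426281705865216, .ofNat 0, .ofNat 0, .ofNat 0, .ofNat 18946568144548880601475500510892680396633276416, .ofNat 0⟩)
    (by decide +kernel)
theorem L04476 : Good (Phi V5.P V5.D (-1) (-1)) ⟨6, 57, 4, 9, 2, 2, 4, 1, 5, 0⟩ :=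
  out_sound (S := T5.ds_mm) T5.ok_mm (w := 65) (j := 3) (by decide +kernel)
theorem L04477 : Good (Phi V5.P V5.D (-1) (-1)) ⟨6, 56, 4, 9, 2, 2, 4, 1, 5, 1⟩ :=
  leafX_sound T5.ok_mm T5.Ymm.bz_eq (w := 237) (c := ⟨⟨.ofNat 6164, .ofNat 2594, .negSucc 507, .ofNat 2909, .negSucc 1838, .negSucc 3218⟩, ⟨.negSucc 3981, .negSucc 1871, .ofNat 384, .negSucc 1824, .ofNat 1187, .ofNat 2020⟩, ⟨.negSucc 3167, .negSucc 1397, .ofNat 449, .ofNat 221, .ofNat 302, .ofNat 1060⟩, ⟨.ofNat 6018, .ofNat 2994, .negSucc 887, .ofNat 3670, .negSucc 1630, .negSucc 4563⟩, ⟨.negSucc 4974, .negSucc 1080, .ofNat 429, .negSucc 801, .ofNat 1590, .negSucc 162⟩, .ofNat 845, .ofNat 949, .ofNat 0, .ofNat 949, .ofNat 1716, .ofNat 0, .ofNat 128, .negSucc 1613, .negSucc 1951, .ofNat 0, .ofNat 1050, .ofNat 1224, .ofNat 0, .ofNat 0, .ofNat 1719, .ofNat 2875, .ofNat 0, .ofNat 0, .ofNat 4656131974076440467250801517289105522688, .ofNat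 0, .ofNat 0, .ofNat 0, .ofNat 130989771037550294386210020337376345194496, .ofNat 0, .ofNat 0, .ofNat 0, .ofNat 554843594652942035991275261489088072515584, .ofNat 0, .ofNat 0, .ofNat 0, .ofNat 194557511791638974760089297472490341138432, .ofNat 0⟩)
    (by decide +kernel)
theorem L04478 : Good (Phi V5.P V5.D (-1) (-1)) ⟨6, 57, 4, 9, 2, 2, 4, 1, 5, 1⟩ :=
  out_sound (S := T5.ds_mm) T5.ok_mm (w := 65) (j := 3) (by decide +kernel)
theorem L04479 : Good (Phi V5.P V5.D (-1) (-1)) ⟨5, 29, 4, 9, 2, 2, 4, 1, 4, 0⟩ :=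
  out_sound (S := T5.ds_mm) T5.ok_mm (w := 59) (j := 3) (by decide +kernel)
theorem L04480 : Good (Phi V5.P V5.D (-1) (-1)) ⟨4, 15, 4, 9, 2, 2, 4, 1, 4, 0⟩ :=
  out_sound (S := T5.ds_mm) T5.ok_mm (w := 53) (j := 3) (by decide +kernel)
theorem L04481 : Good (Phi V5.P V5.D (-1) (-1)) ⟨4, 12, 4, 9, 2, 2, 4, 0, 5, 2⟩ :=
  out_sound (S := T5.ds_mm) T5.ok_mm (w := 53) (j := 3) (by decide +kernel)
theorem L04482 : Good (Phi V5.P V5.D (-1) (-1)) ⟨5, 26, 4, 9, 2, 2, 4, 0, 5, 2⟩ :=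
  out_sound (S := T5.ds_mm) T5.ok_mm (w := 59) (j := 3) (by decide +kernel)
theorem L04483 : Good (Phi V5.P V5.D (-1) (-1)) ⟨5, 27, 4, 9, 3, 4, 4, 0, 5, 2⟩ :=
  leafX_sound T5.ok_mm T5.Ymm.bz_eq (w := 249) (c := ⟨⟨.ofNat 218, .ofNat 896, .negSucc 47, .ofNat 1619, .negSucc 201, .negSucc 4267⟩, ⟨.negSucc 128, .negSucc 694, .ofNat 181, .negSucc 1020, .ofNat 128, .ofNat 2646⟩, ⟨.negSucc 61, .negSucc 466, .ofNat 54, .negSucc 676, .negSucc 19, .ofNat 2197⟩, ⟨.negSucc 1318, .ofNat 746, .negSucc 63, .ofNat 1332, .negSucc 33, .negSucc 5181⟩, ⟨.negSucc 2716, .negSucc 936, .ofNat 218, .negSucc 1662, .ofNat 424, .ofNat 1649⟩, .ofNat 1777, .ofNat 2439, .ofNat 0, .ofNat 2439, .ofNat 4181, .ofNat 0, .ofNat 128, .negSucc 2724, .negSucc 1419, .ofNat 0, .ofNat 1726, .ofNat 881, .ofNat 0, .ofNat 0, .ofNat 1544, .ofNat 5391, .ofNat 4119700721757124191987251216557894214644486698434560, .ofNat 0, .ofNat 374949279566607224356183794770798470632570880,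 .ofNat 0, .ofNat 0, .ofNat 0, .ofNat 8740403392105628135144989377523244911451701248, .ofNat 0, .ofNat 0, .ofNat 0, .ofNat 0, .ofNat 0, .ofNat 0, .ofNat 0, .ofNat 0, .ofNat 0⟩)
    (by decide +kernel)
theorem L04484 : Good (Phi V5.P V5.D (-1) (-1)) ⟨6, 54, 4, 9, 3, 5, 4, 0, 5, 2⟩ :=
  out_sound (S := T5.ds_mm) T5.ok_mm (w := 65) (j := 3) (by decide +kernel)
theorem L04485 : Good (Phi V5.P V5.D (-1) (-1)) ⟨6, 55, 4, 9, 3, 5, 4, 0, 6, 4⟩ :=
  leafX_sound T5.ok_mm T5.Ymm.bz_eq (w := 257) (c := ⟨⟨.ofNat 5752, .ofNat 4170, .negSucc 4040, .ofNat 2277, .negSucc 2251, .negSucc 4877⟩, ⟨.negSucc 3559, .negSucc 2786, .ofNat 2629, .negSucc 1423, .ofNat 1414, .ofNat 2997⟩, ⟨.negSucc 1741, .negSucc 1814, .ofNat 1794, .negSucc 446, .ofNat 326, .ofNat 1838⟩, ⟨.ofNat 3984, .ofNat 4491, .negSucc 4514, .ofNat 2207, .negSucc 1775, .negSucc 5865⟩, ⟨.negSucc 7395, .negSucc 2275, .ofNat 2598, .negSucc 1765, .ofNat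 2445, .ofNat 2001⟩, .ofNat 1786, .ofNat 2457, .ofNat 0, .ofNat 2457, .ofNat 4219, .ofNat 0, .ofNat 128, .negSucc 1793, .negSucc 1682, .ofNat 0, .ofNat 1121, .ofNat 1043, .ofNat 0, .ofNat 0, .ofNat 1229, .ofNat 7916, .ofNat 484883797328394909461211990349904118804355514953105408, .ofNat 0, .ofNat 998712368462849323682737433835013841065345024, .ofNat 0, .ofNat 0, .ofNat 0, .ofNat 117658290335008411693823839791003914552590991360, .ofNat 0, .ofNat 13057474128069628355817596490517377798197201422606401536, .ofNat 0, .ofNat 178835660765876965017215676983117475118724415488, .ofNat 0, .ofNat 2848946618233667209848076568694413008166260015408087040, .ofNat 0, .ofNat 114966342318483060233044818994258996848192651264, .ofNat 0⟩)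
    (by decide +kernel)
theorem L04486 : Good (Phi V5.P V5.D (-1) (-1)) ⟨6, 55, 4, 9, 3, 5, 4, 0, 6, 5⟩ :=
  leafX_sound T5.ok_mm T5.Ymm.bz_eq (w := 257) (c := ⟨⟨.ofNat 969, .negSucc 197, .ofNat 641, .ofNat 476, .ofNat 288, .negSucc 4940⟩, ⟨.negSucc 696, .ofNat 29, .negSucc 195, .negSucc 300, .negSucc 169, .ofNat 3085⟩, ⟨.negSucc 239, .ofNat 29, .negSucc 233, .ofNat 337, .negSucc 270, .ofNat 2269⟩, ⟨.negSucc 1425, .negSucc 215, .ofNat 499, .ofNat 311, .ofNat 473, .negSucc 5476⟩, ⟨.negSucc 4669, .ofNat 138, .negSucc 544, .negSucc 625, .ofNat 88, .ofNat 2694⟩, .ofNat 1784, .ofNat 2445, .ofNat 0, .ofNat 2445, .ofNat 4180, .ofNat 0, .ofNat 128, .negSucc 1295, .negSucc 2117, .ofNat 0, .ofNat 817, .ofNat 1322, .ofNat 0, .ofNat 0, .ofNat 1568, .ofNat 7801, .ofNat 559607176897993605045510364598779787592845857128448000, .ofNat 0, .ofNat 0, .ofNat 0, .ofNat 0, .ofNat 0, .ofNat 0, .ofNat 0, .ofNat 6407873142799907768188990446572992797088550430684741632,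 .ofNat 0, .ofNat 133929803970137336475206684416047693761295155200, .ofNat 0, .ofNat 0, .ofNat 0, .ofNat 0, .ofNat 0⟩)
    (by decide +kernel)
theorem L04487 : Good (Phi V5.P V5.D (-1) (-1)) ⟨4, 12, 4, 9, 2, 2, 4, 0, 5, 3⟩ :=
  out_sound (S := T5.ds_mm) T5.ok_mm (w := 53) (j := 3) (by decide +kernel)
theorem L04488 : Good (Phi V5.P V5.D (-1) (-1)) ⟨5, 26, 4, 9, 2, 2, 4, 0, 5, 3⟩ :=
  out_sound (S := T5.ds_mm) T5.ok_mm (w := 59) (j := 3) (by decide +kernel)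
theorem L04489 : Good (Phi V5.P V5.D (-1) (-1)) ⟨5, 27, 4, 9, 3, 4, 4, 0, 5, 3⟩ :=
  leafX_sound T5.ok_mm T5.Ymm.bz_eq (w := 246) (c := ⟨⟨.negSucc 1887, .negSucc 1041, .ofNat 532, .negSucc 1108, .ofNat 18, .negSucc 1685⟩, ⟨.ofNat 1055, .ofNat 632, .negSucc 124, .ofNat 674, .ofNat 1, .ofNat 1048⟩, ⟨.ofNat 1038, .ofNat 576, .negSucc 292, .ofNat 356, .ofNat 55, .ofNat 1220⟩, ⟨.negSucc 4294, .negSucc 1001, .ofNat 509, .negSucc 1601, .ofNat 111, .negSucc 1840⟩, ⟨.negSucc 2356, .ofNat 561, .negSucc 385, .negSucc 1, .ofNat 66, .ofNat 1038⟩, .ofNat 796, .ofNat 889, .ofNat 0, .ofNat 889, .ofNat 1673, .ofNat 0, .ofNat 128, .negSucc 1414, .negSucc 736, .ofNat 0, .ofNat 935, .ofNat 460, .ofNat 0, .ofNat 0, .ofNat 917, .ofNat 31816, .ofNat 21686324609470735592967524882230456930081217412333568, .ofNat 0, .ofNat 0, .ofNat 0, .ofNat 0, .ofNat 0, .ofNat 5195251954812647213006511926190092446110580736, .ofNat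 0, .ofNat 0, .ofNat 0, .ofNat 0, .ofNat 0, .ofNat 13439180957031336970442947835759357482281635709714432, .ofNat 0, .ofNat 8743339628585298853615328830169992102930284544, .ofNat 0⟩)
    (by decide +kernel)
theorem L04490 : Good (Phi V5.P V5.D (-1) (-1)) ⟨5, 27, 4, 9, 3, 5, 4, 0, 5, 3⟩ :=
  leafX_sound T5.ok_mm T5.Ymm.bz_eq (w := 246) (c := ⟨⟨.negSucc 2553, .negSucc 1788, .ofNat 482, .negSucc 963, .ofNat 173, .negSucc 2051⟩, ⟨.ofNat 1400, .ofNat 1171, .negSucc 92, .ofNat 611, .negSucc 113, .ofNat 1286⟩, ⟨.ofNat 1155, .ofNat 982, .negSucc 344, .ofNat 945, .negSucc 58, .ofNat 1364⟩, ⟨.negSucc 5672, .negSucc 1618, .ofNat 400, .negSucc 832, .ofNat 201, .negSucc 2019⟩, ⟨.negSucc 2973, .ofNat 1173, .negSucc 473, .ofNat 924, .negSucc 82, .ofNat 1610⟩, .ofNat 1206, .ofNat 1529, .ofNat 0, .ofNat 1529, .ofNat 2710, .ofNat 0, .ofNat 128, .negSucc 1073, .negSucc 1069, .ofNat 0, .ofNat 690, .ofNat 673,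 .ofNat 0, .ofNat 0, .ofNat 989, .ofNat 17339, .ofNat 4429132495181775801877419136689489719058221701791744, .ofNat 0, .ofNat 69252361366036273004892899617116502731259904, .ofNat 0, .ofNat 0, .ofNat 0, .ofNat 6190644693389096826457053142062310763136024576, .ofNat 0, .ofNat 15759247435546897948732326373336651331404620565053440, .ofNat 0, .ofNat 6402026007816671652297937500061381081924894720, .ofNat 0, .ofNat 9630368807040431995984386480048575032672853864480768, .ofNat 0, .ofNat 12031248625282846308588281183427535310610759680, .ofNat 0⟩)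
    (by decide +kernel)
theorem L04491 : Good (Phi V5.P V5.D (-1) (-1)) ⟨6, 56, 4, 9, 3, 4, 4, 0, 5, 2⟩ :=
  leafX_sound T5.ok_mm T5.Ymm.bz_eq (w := 252) (c := ⟨⟨.ofNat 1125, .negSucc 220, .ofNat 150, .ofNat 2554, .ofNat 208, .negSucc 5058⟩, ⟨.negSucc 831, .ofNat 33, .ofNat 29, .negSucc 1652, .negSucc 125, .ofNat 3223⟩, ⟨.negSucc 379, .negSucc 69, .negSucc 41, .negSucc 1033, .negSucc 266, .ofNat 2456⟩, ⟨.negSucc 588, .negSucc 195, .ofNat 24, .ofNat 2359, .ofNat 500, .negSucc 5947⟩, ⟨.negSucc 3802, .ofNat 178, .ofNat 21, .negSucc 2050, .ofNat 358, .ofNat 2162⟩, .ofNat 1563, .ofNat 2021, .ofNat 0, .ofNat 2021, .ofNat 3362, .ofNat 0, .ofNat 128, .negSucc 2943, .negSucc 1667, .ofNat 0, .ofNat 1939, .ofNat 1077, .ofNat 0, .ofNat 0, .ofNat 1587, .ofNat 6702, .ofNat 80023239593250864825748091699436634279241775025487872, .ofNat 0, .ofNat 184221452810818257140920805299918172399337472, .ofNat 0, .ofNat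 2078222893396895762183024846397901103078880380452864, .ofNat 0, .ofNat 3514524186181431648522188753983001293408436224, .ofNat 0, .ofNat 0, .ofNat 0, .ofNat 0, .ofNat 0, .ofNat 799282916825192772863458948060069906284936871664418816, .ofNat 0, .ofNat 17137241309149013232552729678477115062336094208, .ofNat 0⟩)
    (by decide +kernel)
theorem L04492 : Good (Phi V5.P V5.D (-1) (-1)) ⟨6, 57, 4, 9, 3, 4, 4, 0, 5, 2⟩ :=
  out_sound (S := T5.ds_mm) T5.ok_mm (w := 65) (j := 3) (by decide +kernel)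
theorem L04493 : Good (Phi V5.P V5.D (-1) (-1)) ⟨7, 112, 4, 9, 3, 5, 5, 0, 5, 2⟩ :=
  leafX_sound T5.ok_mm T5.Ymm.bz_eq (w := 261) (c := ⟨⟨.ofNat 7975, .ofNat 557, .ofNat 1182, .ofNat 1494, .negSucc 1352, .negSucc 12428⟩, ⟨.negSucc 5254, .negSucc 449, .negSucc 582, .negSucc 973, .ofNat 862, .ofNat 7969⟩, ⟨.negSucc 2943, .negSucc 351, .negSucc 102, .negSucc 31, .ofNat 279, .ofNat 4827⟩, ⟨.ofNat 6101, .ofNat 471, .ofNat 1349, .ofNat 1132, .negSucc 1065, .negSucc 13939⟩, ⟨.negSucc 8700, .negSucc 438, .negSucc 177, .negSucc 1572, .ofNat 1419, .ofNat 5968⟩, .ofNat 2055, .ofNat 2806, .ofNat 0, .ofNat 2806, .ofNat 4620, .ofNat 0, .ofNat 128, .negSucc 2432, .negSucc 2780, .ofNat 0, .ofNat 1570, .ofNat 1786, .ofNat 0, .ofNat 0, .ofNat 1826, .ofNat 17186, .ofNat 20816698275194948789973213752144032472944705038740094976, .ofNat 0, .ofNat 643897270402562415954236830246320856161583104, .ofNat 0, .ofNat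 0, .ofNat 0, .ofNat 3893791286180960074253761323850039954925158400, .ofNat 0, .ofNat 456468360728704319837708656257412011316195957628599271424, .ofNat 0, .ofNat 136064534769282830054981476725118849830814220288, .ofNat 0, .ofNat 161220147031883811489862936534075401690802976593069211648, .ofNat 0, .ofNat 117959928974239826387598692255850927429766873088, .ofNat 0⟩)
    (by decide +kernel)
theorem L04494 : Good (Phi V5.P V5.D (-1) (-1)) ⟨7, 112, 4, 9, 3, 5, 5, 1, 5, 2⟩ :=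
  leafX_sound T5.ok_mm T5.Ymm.bz_eq (w := 263) (c := ⟨⟨.ofNat 7765, .ofNat 805, .negSucc 802, .ofNat 1596, .negSucc 642, .negSucc 10918⟩, ⟨.negSucc 5090, .negSucc 611, .ofNat 652, .negSucc 1034, .ofNat 414, .ofNat 7000⟩, ⟨.negSucc 3450, .negSucc 660, .ofNat 1094, .negSucc 246, .ofNat 119, .ofNat 4611⟩, ⟨.ofNat 6330, .ofNat 976, .negSucc 991, .ofNat 1407, .negSucc 333, .negSucc 12650⟩, ⟨.negSucc 7758, .negSucc 121, .ofNat 482, .negSucc 1372, .ofNat 961, .ofNat 4558⟩, .ofNat 2684, .ofNat 3778, .ofNat 0, .ofNat 3778, .ofNat 6141, .ofNat 0, .ofNat 128, .negSucc 2477, .negSucc 3350, .ofNat 0, .ofNat 1596, .ofNat 2147, .ofNat 0, .ofNat 0, .ofNat 2087, .ofNat 16463, .ofNat 0, .ofNat 0, .ofNat 0, .ofNat 0, .ofNat 0, .ofNat 0, .ofNat 15988385389727718956230659443377906109548331008, .ofNat 0, .ofNat 0, .ofNat 0, .ofNat 64394029336232347981122826161500989015342448640, .ofNat 0, .ofNat 0, .ofNat 0, .ofNat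 125365775913733795095934559722949460204516802560, .ofNat 0⟩)
    (by decide +kernel)
theorem L04495 : Good (Phi V5.P V5.D (-1) (-1)) ⟨7, 113, 4, 9, 3, 5, 4, 0, 5, 2⟩ :=
  out_sound (S := T5.ds_mm) T5.ok_mm (w := 71) (j := 3) (by decide +kernel)
theorem L04496 : Good (Phi V5.P V5.D (-1) (-1)) ⟨6, 57, 4, 9, 3, 5, 4, 0, 5, 2⟩ :=
  out_sound (S := T5.ds_mm) T5.ok_mm (w := 65) (j := 3) (by decide +kernel)
theorem L04497 : Good (Phi V5.P V5.D (-1) (-1)) ⟨5, 29, 4, 9, 2, 2, 4, 0, 5, 2⟩ :=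
  out_sound (S := T5.ds_mm) T5.ok_mm (w := 59) (j := 3) (by decide +kernel)
theorem L04498 : Good (Phi V5.P V5.D (-1) (-1)) ⟨4, 15, 4, 9, 2, 2, 4, 0, 5, 2⟩ :=
  out_sound (S := T5.ds_mm) T5.ok_mm (w := 53) (j := 3) (by decide +kernel)
theorem L04499 : Good (Phi V5.P V5.D (-1) (-1)) ⟨5, 28, 4, 9, 3, 4, 4, 0, 5, 3⟩ :=
  leafX_sound T5.ok_mm T5.Ymm.bz_eq (w := 247) (c := ⟨⟨.negSucc 2817, .negSucc 1245, .ofNat 428, .negSucc 1342, .ofNat 50, .negSucc 1807⟩, ⟨.ofNat 1618, .ofNat 846, .negSucc 102, .ofNat 851, .negSucc 34, .ofNat 1161⟩, ⟨.ofNat 1532, .ofNat 691, .negSucc 257, .ofNat 474, .ofNat 75, .ofNat 1277⟩, ⟨.negSucc 5169, .negSucc 970, .ofNat 261, .negSucc 1808, .ofNat 112, .negSucc 1841⟩, ⟨.negSucc 1881, .ofNat 875, .negSucc 441, .ofNat 180, .ofNat 63, .ofNat 1193⟩, .ofNat 1383, .ofNat 1711, .ofNat 0, .ofNat 1711, .ofNat 2820, .ofNat 0, .ofNat 128, .negSucc 1623, .negSucc 1076, .ofNat 0,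 .ofNat 1109, .ofNat 715, .ofNat 0, .ofNat 0, .ofNat 1195, .ofNat 36623, .ofNat 23672229420332153414340838728826723252240283907129344, .ofNat 0, .ofNat 2218907872689869407350734413882324041240412160, .ofNat 0, .ofNat 0, .ofNat 0, .ofNat 5210254937103985587541920185019179161507332096, .ofNat 0, .ofNat 0, .ofNat 0, .ofNat 22636074472766232867554252881355764285841604608, .ofNat 0, .ofNat 20336805863355530876500929988027952675482283183964160, .ofNat 0, .ofNat 24406703045097288090167321868417602971733327872, .ofNat 0⟩)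
    (by decide +kernel)
theorem L04500 : Good (Phi V5.P V5.D (-1) (-1)) ⟨6, 56, 4, 9, 3, 5, 4, 0, 5, 3⟩ :=
  leafX_sound T5.ok_mm T5.Ymm.bz_eq (w := 252) (c := ⟨⟨.negSucc 4602, .negSucc 1061, .ofNat 248, .negSucc 886, .ofNat 466, .negSucc 1976⟩, ⟨.ofNat 2723, .ofNat 749, .ofNat 26, .ofNat 574, .negSucc 298, .ofNat 1273⟩, ⟨.ofNat 2280, .ofNat 629, .negSucc 315, .ofNat 899, .negSucc 144, .ofNat 1311⟩, ⟨.negSucc 7426, .negSucc 850, .ofNat 87, .negSucc 709, .ofNat 345, .negSucc 1902⟩, ⟨.negSucc 1363, .ofNat 756, .negSucc 353, .ofNat 897, .negSucc 529, .ofNat 1502⟩, .ofNat 2041, .ofNat 2790, .ofNat 0, .ofNat 2790, .ofNat 4604, .ofNat 0, .ofNat 128, .negSucc 1694, .negSucc 1933, .ofNat 0, .ofNat 1104, .ofNat 1246, .ofNat 0, .ofNat 0, .ofNat 1684, .ofNat 21750, .ofNat 86255456582544029716548035947895741449781206753214464, .ofNat 0, .ofNat 47427608567477353443115633406415314781995008, .ofNat 0, .ofNat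 179582129242875781129153114512961948541839552886603776, .ofNat 0, .ofNat 7659540941076905095186004633738172018959843328, .ofNat 0, .ofNat 0, .ofNat 0, .ofNat 22663781668718772032363837127154703114765860864, .ofNat 0, .ofNat 0, .ofNat 0, .ofNat 6744334567876863464101829450708120634291912704, .ofNat 0⟩)
    (by decide +kernel)
theorem L04501 : Good (Phi V5.P V5.D (-1) (-1)) ⟨6, 57, 4, 9, 3, 5, 4, 0, 5, 3⟩ :=
  out_sound (S := T5.ds_mm) T5.ok_mm (w := 65) (j := 3) (by decide +kernel)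
theorem L04502 : Good (Phi V5.P V5.D (-1) (-1)) ⟨5, 29, 4, 9, 2, 2, 4, 0, 5, 3⟩ :=
  out_sound (S := T5.ds_mm) T5.ok_mm (w := 59) (j := 3) (by decide +kernel)
theorem L04503 : Good (Phi V5.P V5.D (-1) (-1)) ⟨4, 15, 4, 9, 2, 2, 4, 0, 5, 3⟩ :=
  out_sound (S := T5.ds_mm) T5.ok_mm (w := 53) (j := 3) (by decide +kernel)
theorem L04504 : Good (Phi V5.P V5.D (-1) (-1)) ⟨4, 12, 4, 9, 2, 2, 4, 1, 4, 1⟩ :=
  out_sound (S := T5.ds_mm) T5.ok_mm (w := 53) (j := 3) (by decide +kernel)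
theorem L04505 : Good (Phi V5.P V5.D (-1) (-1)) ⟨5, 26, 4, 9, 2, 2, 4, 1, 4, 1⟩ :=
  out_sound (S := T5.ds_mm) T5.ok_mm (w := 59) (j := 3) (by decide +kernel)
theorem L04506 : Good (Phi V5.P V5.D (-1) (-1)) ⟨6, 54, 4, 9, 2, 2, 4, 1, 4, 1⟩ :=
  out_sound (S := T5.ds_mm) T5.ok_mm (w := 65) (j := 3) (by decide +kernel)
theorem L04507 : Good (Phi V5.P V5.D (-1) (-1)) ⟨6, 55, 4, 9, 2, 2, 4, 1, 5, 2⟩ :=
  leafX_sound T5.ok_mm T5.Ymm.bz_eq (w := 236) (c := ⟨⟨.ofNat 1333, .negSucc 328, .ofNat 1367, .ofNat 2350, .negSucc 189, .negSucc 5083⟩, ⟨.negSucc 879, .ofNat 148, .negSucc 756, .negSucc 1488, .ofNat 133, .ofNat 3147⟩, ⟨.negSucc 604, .negSucc 157, .negSucc 303, .negSucc 670, .negSucc 117, .ofNat 2573⟩, ⟨.negSucc 16, .negSucc 641, .ofNat 1799, .ofNat 2332, .ofNat 24, .negSucc 6455⟩, ⟨.negSucc 3286, .negSucc 554, .ofNat 326, .negSucc 1729, .ofNat 437, .ofNat 1666⟩, .ofNat 1210, .ofNat 1537, .ofNat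 0, .ofNat 1537, .ofNat 2722, .ofNat 0, .ofNat 128, .negSucc 1484, .negSucc 1156, .ofNat 0, .ofNat 946, .ofNat 714, .ofNat 0, .ofNat 0, .ofNat 1062, .ofNat 3373, .ofNat 0, .ofNat 0, .ofNat 0, .ofNat 0, .ofNat 0, .ofNat 0, .ofNat 107409093657659866276530903566798718763008, .ofNat 0, .ofNat 0, .ofNat 0, .ofNat 340528965616554516051339679554859815665664, .ofNat 0, .ofNat 0, .ofNat 0, .ofNat 193179078151052679141277054467690159144960, .ofNat 0⟩)
    (by decide +kernel)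
theorem L04508 : Good (Phi V5.P V5.D (-1) (-1)) ⟨6, 55, 4, 9, 2, 2, 4, 1, 5, 3⟩ :=
  leafX_sound T5.ok_mm T5.Ymm.bz_eq (w := 235) (c := ⟨⟨.negSucc 2345, .negSucc 1211, .ofNat 941, .negSucc 1914, .ofNat 202, .negSucc 1677⟩, ⟨.ofNat 1319, .ofNat 771, .negSucc 381, .ofNat 1179, .negSucc 119, .ofNat 1047⟩, ⟨.ofNat 1248, .ofNat 609, .negSucc 576, .ofNat 1250, .negSucc 20, .ofNat 1125⟩, ⟨.negSucc 4825, .negSucc 1357, .ofNat 1045, .negSucc 2314, .ofNat 325, .negSucc 1788⟩, ⟨.negSucc 2269, .ofNat 503, .negSucc 538, .ofNat 682, .negSucc 4, .ofNat 1150⟩, .ofNat 798, .ofNat 892, .ofNat 0, .ofNat 892, .ofNat 1677, .ofNat 0, .ofNat 128, .negSucc 1398, .negSucc 1245, .ofNat 0, .ofNat 921, .ofNat 774, .ofNat 0, .ofNat 0, .ofNat 1323, .ofNat 2758, .ofNat 0, .ofNat 0, .ofNat 0, .ofNat 0, .ofNat 0, .ofNat 0, .ofNat 99892143382897973685866032145148952969216, .ofNat 0, .ofNat 0, .ofNat 0, .ofNat 0, .ofNat 0,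 .ofNat 0, .ofNat 0, .ofNat 0, .ofNat 0⟩)
    (by decide +kernel)
theorem L04509 : Good (Phi V5.P V5.D (-1) (-1)) ⟨6, 56, 4, 9, 3, 4, 4, 1, 4, 1⟩ :=
  leafX_sound T5.ok_mm T5.Ymm.bz_eq (w := 244) (c := ⟨⟨.ofNat 933, .negSucc 116, .negSucc 258, .negSucc 762, .ofNat 317, .negSucc 5589⟩, ⟨.negSucc 790, .ofNat 3, .ofNat 375, .ofNat 470, .negSucc 203, .ofNat 3586⟩, ⟨.negSucc 528, .ofNat 302, .negSucc 124, .ofNat 239, .negSucc 151, .ofNat 3606⟩, ⟨.negSucc 706, .ofNat 15, .negSucc 299, .negSucc 1147, .ofNat 567, .negSucc 6691⟩, ⟨.negSucc 3580, .negSucc 132, .ofNat 386, .negSucc 161, .ofNat 175, .ofNat 2465⟩, .ofNat 774, .ofNat 830, .ofNat 0, .ofNat 830, .ofNat 1513, .ofNat 0, .ofNat 128, .negSucc 1269, .negSucc 1133, .ofNat 0, .ofNat 861, .ofNat 725, .ofNat 0, .ofNat 0, .ofNat 1086, .ofNat 2007, .ofNat 0, .ofNat 0, .ofNat 0, .ofNat 0, .ofNat 0, .ofNat 0, .ofNat 14979607245149675605220746108314988276875264,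 .ofNat 0, .ofNat 0, .ofNat 0, .ofNat 0, .ofNat 0, .ofNat 0, .ofNat 0, .ofNat 37488229239686632428625810646212088170545152, .ofNat 0⟩)
    (by decide +kernel)
theorem L04510 : Good (Phi V5.P V5.D (-1) (-1)) ⟨6, 57, 4, 9, 3, 4, 4, 1, 4, 1⟩ :=
  out_sound (S := T5.ds_mm) T5.ok_mm (w := 65) (j := 3) (by decide +kernel)
theorem L04511 : Good (Phi V5.P V5.D (-1) (-1)) ⟨6, 56, 4, 9, 3, 5, 4, 1, 5, 2⟩ :=
  leafX_sound T5.ok_mm T5.Ymm.bz_eq (w := 254) (c := ⟨⟨.ofNat 6114, .ofNat 1599, .negSucc 571, .ofNat 819, .negSucc 1283, .negSucc 8957⟩, ⟨.negSucc 4067, .negSucc 1192, .ofNat 549, .negSucc 534, .ofNat 840, .ofNat 5728⟩, ⟨.negSucc 2769, .negSucc 903, .ofNat 375, .ofNat 51, .ofNat 399, .ofNat 4202⟩, ⟨.ofNat 4567, .ofNat 1986, .negSucc 559, .ofNat 921, .negSucc 900, .negSucc 10602⟩, ⟨.negSucc 6762, .negSucc 280, .ofNat 555, .negSucc 359, .ofNat 1468, .ofNat 3441⟩, .ofNat 2071, .ofNat 2830, .ofNat 0,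 .ofNat 2830, .ofNat 4651, .ofNat 0, .ofNat 128, .negSucc 2407, .negSucc 3388, .ofNat 0, .ofNat 1557, .ofNat 2168, .ofNat 0, .ofNat 0, .ofNat 2462, .ofNat 5103, .ofNat 0, .ofNat 0, .ofNat 71287753160474551556408870804615319827513344, .ofNat 0, .ofNat 0, .ofNat 0, .ofNat 4442932260691584810813435059642595692825804800, .ofNat 0, .ofNat 0, .ofNat 0, .ofNat 6907451766981399102526200581769236331494375424, .ofNat 0, .ofNat 0, .ofNat 0, .ofNat 10501371827143413645505948099246052987616886784, .ofNat 0⟩)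
    (by decide +kernel)
theorem L04512 : Good (Phi V5.P V5.D (-1) (-1)) ⟨6, 56, 4, 9, 3, 5, 4, 1, 5, 3⟩ :=
  leafX_sound T5.ok_mm T5.Ymm.bz_eq (w := 253) (c := ⟨⟨.negSucc 3490, .negSucc 215, .negSucc 610, .negSucc 928, .ofNat 351, .negSucc 2033⟩, ⟨.ofNat 2004, .ofNat 185, .ofNat 589, .ofNat 597, .negSucc 223, .ofNat 1313⟩, ⟨.ofNat 1982, .ofNat 375, .negSucc 55, .ofNat 846, .negSucc 147, .ofNat 1320⟩, ⟨.negSucc 6399, .negSucc 206, .negSucc 663, .negSucc 753, .ofNat 351, .negSucc 2072⟩, ⟨.negSucc 2217, .negSucc 40, .ofNat 323, .ofNat 903, .negSucc 228, .ofNat 1348⟩, .ofNat 2039, .ofNat 2783, .ofNat 0, .ofNat 2783, .ofNat 4587, .ofNat 0, .ofNat 128, .negSucc 2063, .negSucc 2748, .ofNat 0, .ofNat 1344, .ofNat 1765, .ofNat 0, .ofNat 0, .ofNat 2284, .ofNat 6935, .ofNat 0, .ofNat 0, .ofNat 34149092792013374460310563299396182169616384, .ofNat 0, .ofNat 0, .ofNat 0, .ofNat 13002774664375258013406737746571019976550907904,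 .ofNat 0, .ofNat 0, .ofNat 0, .ofNat 5470537634312627776715287455237741361571561472, .ofNat 0, .ofNat 0, .ofNat 0, .ofNat 5830775354963853623661608923937308117043249152, .ofNat 0⟩)
    (by decide +kernel)
theorem L04513 : Good (Phi V5.P V5.D (-1) (-1)) ⟨6, 57, 4, 9, 3, 5, 4, 1, 4, 1⟩ :=
  out_sound (S := T5.ds_mm) T5.ok_mm (w := 65) (j := 3) (by decide +kernel)
theorem L04514 : Good (Phi V5.P V5.D (-1) (-1)) ⟨5, 29, 4, 9, 2, 2, 4, 1, 4, 1⟩ :=
  out_sound (S := T5.ds_mm) T5.ok_mm (w := 59) (j := 3) (by decide +kernel)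
theorem L04515 : Good (Phi V5.P V5.D (-1) (-1)) ⟨4, 15, 4, 9, 2, 2, 4, 1, 4, 1⟩ :=
  out_sound (S := T5.ds_mm) T5.ok_mm (w := 53) (j := 3) (by decide +kernel)
theorem L04516 : Good (Phi V5.P V5.D (-1) (-1)) ⟨4, 12, 3, 4, 2, 2, 3, 1, 3, 0⟩ :=
  out_sound (S := T5.ds_mm) T5.ok_mm (w := 51) (j := 3) (by decide +kernel)
theorem L04517 : Good (Phi V5.P V5.D (-1) (-1)) ⟨4, 13, 3, 4, 2, 2, 3, 1, 5, 0⟩ :=
  leafX_sound T5.ok_mm T5.Ymm.bz_eq (w := 219) (c := ⟨⟨.ofNat 5265, .ofNat 2095, .negSucc 628, .negSucc 715, .negSucc 1137, .negSucc 1016⟩, ⟨.negSucc 2798, .negSucc 1714, .ofNat 265, .ofNat 489, .ofNat 703, .ofNat 547⟩, ⟨.negSucc 2817, .negSucc 1202, .ofNat 380, .ofNat 1720, .negSucc 148, .ofNat 236⟩, ⟨.ofNat 6145, .ofNat 2110, .negSucc 806, .ofNat 202, .negSucc 909, .negSucc 2017⟩, ⟨.negSucc 3440, .negSucc 512, .ofNat 489, .ofNat 1710, .ofNat 1305, .negSucc 840⟩, .ofNat 378, .ofNat 285, .ofNat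 0, .ofNat 285, .ofNat 704, .ofNat 0, .ofNat 128, .negSucc 425, .negSucc 558, .ofNat 0, .ofNat 274, .ofNat 294, .ofNat 0, .ofNat 0, .ofNat 528, .ofNat 609, .ofNat 0, .ofNat 0, .ofNat 127694858141870000101945405020898852864, .ofNat 0, .ofNat 0, .ofNat 0, .ofNat 1125553791559748989512116160368608280576, .ofNat 0, .ofNat 0, .ofNat 0, .ofNat 4026615969037748593946698694922598350848, .ofNat 0, .ofNat 0, .ofNat 0, .ofNat 0, .ofNat 0⟩)
    (by decide +kernel)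
theorem L04518 : Good (Phi V5.P V5.D (-1) (-1)) ⟨4, 13, 3, 4, 2, 2, 3, 1, 5, 1⟩ :=
  leafX_sound T5.ok_mm T5.Ymm.bz_eq (w := 220) (c := ⟨⟨.ofNat 2293, .ofNat 3240, .negSucc 748, .ofNat 2343, .negSucc 1700, .negSucc 2678⟩, ⟨.negSucc 1069, .negSucc 2447, .ofNat 466, .negSucc 1363, .ofNat 1051, .ofNat 1571⟩, ⟨.negSucc 1431, .negSucc 1733, .ofNat 428, .negSucc 280, .ofNat 366, .ofNat 1259⟩, ⟨.ofNat 1854, .ofNat 3396, .negSucc 685, .ofNat 3488, .negSucc 1341, .negSucc 4138⟩, ⟨.negSucc 3328, .negSucc 1605, .ofNat 1403, .ofNat 140, .ofNat 1967, .negSucc 494⟩, .ofNat 1113, .ofNat 1410, .ofNat 0, .ofNat 1410, .ofNat 2591, .ofNat 0, .ofNat 128, .negSucc 619, .negSucc 860, .ofNat 0, .ofNat 387, .ofNat 508, .ofNat 0, .ofNat 0, .ofNat 814, .ofNat 1230, .ofNat 0, .ofNat 0, .ofNat 0, .ofNat 0, .ofNat 0, .ofNat 0, .ofNat 10208011918000339814454745739499067670528, .ofNat 0, .ofNat 0, .ofNat 0, .ofNat 18366527176478476480695813523364533764096,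 .ofNat 0, .ofNat 0, .ofNat 0, .ofNat 15728770351641562295037589109083805319168, .ofNat 0⟩)
    (by decide +kernel)
theorem L04519 : Good (Phi V5.P V5.D (-1) (-1)) ⟨5, 26, 3, 4, 2, 2, 3, 1, 4, 1⟩ :=
  leafX_sound T5.ok_mm T5.Ymm.bz_eq (w := 219) (c := ⟨⟨.ofNat 2097, .negSucc 1453, .ofNat 633, .negSucc 349, .ofNat 135, .negSucc 5397⟩, ⟨.negSucc 1234, .ofNat 779, .negSucc 72, .ofNat 177, .negSucc 65, .ofNat 3062⟩, ⟨.negSucc 1533, .ofNat 979, .negSucc 1071, .ofNat 344, .negSucc 41, .ofNat 3468⟩, ⟨.ofNat 1032, .negSucc 1545, .ofNat 595, .negSucc 711, .ofNat 337, .negSucc 7045⟩, ⟨.negSucc 3660, .ofNat 846, .negSucc 339, .negSucc 381, .ofNat 255, .ofNat 2047⟩, .ofNat 1040, .ofNat 1342, .ofNat 0, .ofNat 1342, .ofNat 2620, .ofNat 0, .ofNat 128, .negSucc 987, .negSucc 933, .ofNat 0, .ofNat 597, .ofNat 527, .ofNat 0, .ofNat 0, .ofNat 967, .ofNat 1328, .ofNat 0, .ofNat 0, .ofNat 0, .ofNat 0, .ofNat 0,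 .ofNat 0, .ofNat 173627202868738601072379958508159762432, .ofNat 0, .ofNat 0, .ofNat 0, .ofNat 0, .ofNat 0, .ofNat 0, .ofNat 0, .ofNat 189763867924176309571539719794355863552, .ofNat 0⟩)
    (by decide +kernel)
theorem L04520 : Good (Phi V5.P V5.D (-1) (-1)) ⟨5, 27, 3, 4, 2, 2, 3, 1, 5, 2⟩ :=
  leafX_sound T5.ok_mm T5.Ymm.bz_eq (w := 225) (c := ⟨⟨.ofNat 947, .ofNat 404, .negSucc 540, .ofNat 2519, .negSucc 139, .negSucc 4377⟩, ⟨.negSucc 686, .negSucc 356, .ofNat 530, .negSucc 1518, .ofNat 87, .ofNat 2639⟩, ⟨.negSucc 607, .negSucc 124, .ofNat 76, .negSucc 1110, .negSucc 73, .ofNat 2553⟩, ⟨.negSucc 339, .ofNat 95, .negSucc 110, .ofNat 3013, .ofNat 188, .negSucc 5951⟩, ⟨.negSucc 3079, .negSucc 994, .ofNat 1704, .negSucc 1070, .ofNat 722, .ofNat 735⟩, .ofNat 1578, .ofNat 2162, .ofNat 0, .ofNat 2162, .ofNat 3830, .ofNat 0, .ofNat 128, .negSucc 840, .negSucc 874, .ofNat 0, .ofNat 523, .ofNat 524,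 .ofNat 0, .ofNat 0, .ofNat 801, .ofNat 989, .ofNat 0, .ofNat 0, .ofNat 0, .ofNat 0, .ofNat 0, .ofNat 0, .ofNat 1081955875229300536372436100584067563520, .ofNat 0, .ofNat 0, .ofNat 0, .ofNat 0, .ofNat 0, .ofNat 0, .ofNat 0, .ofNat 4157602356879373806618077713352194260992, .ofNat 0⟩)
    (by decide +kernel)
theorem L04521 : Good (Phi V5.P V5.D (-1) (-1)) ⟨5, 27, 3, 4, 2, 2, 3, 1, 5, 3⟩ :=
  leafX_sound T5.ok_mm T5.Ymm.bz_eq (w := 224) (c := ⟨⟨.negSucc 2388, .negSucc 1213, .ofNat 979, .negSucc 1405, .ofNat 55, .negSucc 1766⟩, ⟨.ofNat 1189, .ofNat 765, .negSucc 202, .ofNat 831, .negSucc 44, .ofNat 1074⟩, ⟨.ofNat 1450, .ofNat 870, .negSucc 847, .ofNat 781, .ofNat 51, .ofNat 1185⟩, ⟨.negSucc 4504, .negSucc 1175, .ofNat 931, .negSucc 2057, .ofNat 116, .negSucc 2171⟩, ⟨.negSucc 1603, .ofNat 1155, .negSucc 1362, .negSucc 131, .ofNat 24, .ofNat 816⟩, .ofNat 795, .ofNat 902, .ofNat 0, .ofNat 902, .ofNat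 1735, .ofNat 0, .ofNat 128, .negSucc 820, .negSucc 1034, .ofNat 0, .ofNat 527, .ofNat 618, .ofNat 0, .ofNat 0, .ofNat 988, .ofNat 1246, .ofNat 0, .ofNat 0, .ofNat 0, .ofNat 0, .ofNat 0, .ofNat 0, .ofNat 1473989212945947496142432502158022672384, .ofNat 0, .ofNat 0, .ofNat 0, .ofNat 0, .ofNat 0, .ofNat 0, .ofNat 0, .ofNat 3268889149877925129645852075397761466368, .ofNat 0⟩)
    (by decide +kernel)
theorem L04522 : Good (Phi V5.P V5.D (-1) (-1)) ⟨6, 56, 3, 4, 2, 2, 3, 1, 5, 0⟩ :=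
  leafX_sound T5.ok_mm T5.Ymm.bz_eq (w := 229) (c := ⟨⟨.ofNat 7362, .ofNat 168, .negSucc 94, .negSucc 1576, .negSucc 1104, .negSucc 520⟩, ⟨.negSucc 4574, .negSucc 235, .negSucc 61, .ofNat 1038, .ofNat 720, .ofNat 306⟩, ⟨.negSucc 4595, .negSucc 326, .ofNat 718, .ofNat 2435, .negSucc 259, .negSucc 37⟩, ⟨.ofNat 8265, .ofNat 177, .negSucc 321, .negSucc 775, .negSucc 820, .negSucc 1474⟩, ⟨.negSucc 3802, .ofNat 178, .negSucc 1, .ofNat 2153, .ofNat 1190, .negSucc 1122⟩, .ofNat 706, .ofNat 723, .ofNat 0, .ofNat 723, .ofNat 1349, .ofNat 0, .ofNat 128, .negSucc 968, .negSucc 1067, .ofNat 0, .ofNat 655, .ofNat 656, .ofNat 0, .ofNat 0, .ofNat 1079, .ofNat 2332, .ofNat 0, .ofNat 0, .ofNat 88400396350576135539948943387603763200, .ofNat 0, .ofNat 0, .ofNat 0, .ofNat 264875921518039986403183029330473123840, .ofNat 0, .ofNat 0, .ofNat 0, .ofNat 6160213161473102368359523989605784223744, .ofNat 0, .ofNat 0,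 .ofNat 0, .ofNat 4325121894371547353457893500916405895168, .ofNat 0⟩)
    (by decide +kernel)
theorem L04523 : Good (Phi V5.P V5.D (-1) (-1)) ⟨6, 57, 3, 4, 2, 2, 3, 1, 5, 0⟩ :=
  out_sound (S := T5.ds_mm) T5.ok_mm (w := 63) (j := 3) (by decide +kernel)
theorem L04524 : Good (Phi V5.P V5.D (-1) (-1)) ⟨6, 56, 4, 8, 2, 2, 3, 1, 5, 1⟩ :=
  out_sound (S := T5.ds_mm) T5.ok_mm (w := 65) (j := 3) (by decide +kernel)
theorem L04525 : Good (Phi V5.P V5.D (-1) (-1)) ⟨6, 56, 4, 9, 2, 2, 3, 1, 5, 1⟩ :=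
  leafX_sound T5.ok_mm T5.Ymm.bz_eq (w := 232) (c := ⟨⟨.ofNat 5167, .negSucc 93, .ofNat 261, .ofNat 1789, .negSucc 2060, .negSucc 2542⟩, ⟨.negSucc 3368, .negSucc 157, .negSucc 64, .negSucc 1110, .ofNat 1334, .ofNat 1596⟩, ⟨.negSucc 3068, .ofNat 247, .negSucc 178, .ofNat 244, .ofNat 581, .ofNat 1112⟩, ⟨.ofNat 4920, .negSucc 27, .ofNat 122, .ofNat 2864, .negSucc 1698, .negSucc 3847⟩, ⟨.negSucc 4227, .ofNat 308, .ofNat 7, .ofNat 345, .ofNat 2007, .negSucc 426⟩, .ofNat 774, .ofNat 830, .ofNat 0, .ofNat 830, .ofNat 1513, .ofNat 0, .ofNat 128, .negSucc 812, .negSucc 1547, .ofNat 0, .ofNat 538, .ofNat 963, .ofNat 0, .ofNat 0, .ofNat 1250, .ofNat 1826, .ofNat 0, .ofNat 0, .ofNat 96855204490412296391531557512416329728, .ofNat 0, .ofNat 0, .ofNat 0, .ofNat 4703893874639538224169880058211145351168, .ofNat 0, .ofNat 0, .ofNat 0, .ofNat 4756263543939976474230066481390214447104, .ofNat 0, .ofNat 0, .ofNat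 0, .ofNat 4815203087977177386046318987181442465792, .ofNat 0⟩)
    (by decide +kernel)
theorem L04526 : Good (Phi V5.P V5.D (-1) (-1)) ⟨6, 57, 3, 4, 2, 2, 3, 1, 5, 1⟩ :=
  out_sound (S := T5.ds_mm) T5.ok_mm (w := 63) (j := 3) (by decide +kernel)
theorem L04527 : Good (Phi V5.P V5.D (-1) (-1)) ⟨6, 56, 4, 8, 2, 2, 3, 1, 4, 1⟩ :=
  out_sound (S := T5.ds_mm) T5.ok_mm (w := 65) (j := 3) (by decide +kernel)
theorem L04528 : Good (Phi V5.P V5.D (-1) (-1)) ⟨6, 56, 4, 9, 3, 4, 3, 1, 4, 1⟩ :=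
  leafX_sound T5.ok_mm T5.Ymm.bz_eq (w := 240) (c := ⟨⟨.ofNat 142, .negSucc 1044, .ofNat 720, .negSucc 655, .negSucc 306, .negSucc 5196⟩, ⟨.negSucc 254, .ofNat 668, .negSucc 300, .ofNat 403, .ofNat 194, .ofNat 3328⟩, ⟨.negSucc 398, .ofNat 556, .negSucc 377, .ofNat 219, .ofNat 266, .ofNat 3618⟩, ⟨.negSucc 1167, .negSucc 998, .ofNat 543, .negSucc 1034, .negSucc 136, .negSucc 6361⟩, ⟨.negSucc 2164, .ofNat 918, .negSucc 1016, .negSucc 226, .ofNat 480, .ofNat 1984⟩, .ofNat 774, .ofNat 830, .ofNat 0, .ofNat 830, .ofNat 1513, .ofNat 0, .ofNat 128, .negSucc 1067, .negSucc 1260, .ofNat 0, .ofNat 732, .ofNat 795, .ofNat 0, .ofNat 0, .ofNat 1169, .ofNat 1227, .ofNat 0, .ofNat 0, .ofNat 45647383361391054600402163486112545243136, .ofNat 0, .ofNat 0, .ofNat 0, .ofNat 321802449603112046257761261676104033239040, .ofNat 0, .ofNat 0, .ofNat 0, .ofNat 11879245071056660616129011552687030687236096, .ofNat 0,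 .ofNat 0, .ofNat 0, .ofNat 2177370481383882775708277171427360632733696, .ofNat 0⟩)
    (by decide +kernel)
theorem L04529 : Good (Phi V5.P V5.D (-1) (-1)) ⟨6, 56, 4, 9, 3, 5, 3, 1, 4, 1⟩ :=
  leafX_sound T5.ok_mm T5.Ymm.bz_eq (w := 240) (c := ⟨⟨.ofNat 1872, .negSucc 962, .ofNat 1164, .negSucc 270, .ofNat 555, .negSucc 8890⟩, ⟨.negSucc 1370, .ofNat 644, .negSucc 604, .ofNat 169, .negSucc 353, .ofNat 5699⟩, ⟨.negSucc 1269, .ofNat 178, .negSucc 354, .ofNat 354, .negSucc 335, .ofNat 5166⟩, ⟨.ofNat 507, .negSucc 647, .ofNat 1137, .negSucc 245, .ofNat 724, .negSucc 10760⟩, ⟨.negSucc 3501, .ofNat 1065, .negSucc 794, .ofNat 117, .negSucc 118, .ofNat 3290⟩, .ofNat 847, .ofNat 952, .ofNat 0, .ofNat 952, .ofNat 1720, .ofNat 0, .ofNat 128, .negSucc 814, .negSucc 1102, .ofNat 0, .ofNat 537, .ofNat 691, .ofNat 0, .ofNat 0, .ofNat 872, .ofNat 917, .ofNat 0, .ofNat 0, .ofNat 17280957488803212254708288448153016860672,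 .ofNat 0, .ofNat 0, .ofNat 0, .ofNat 209439330797755068589897869460144318840832, .ofNat 0, .ofNat 0, .ofNat 0, .ofNat 1632510063658429116192587400748331538841600, .ofNat 0, .ofNat 0, .ofNat 0, .ofNat 5230284459342100859750294838135956344668160, .ofNat 0⟩)
    (by decide +kernel)
theorem L04530 : Good (Phi V5.P V5.D (-1) (-1)) ⟨6, 57, 3, 4, 2, 2, 3, 1, 4, 1⟩ :=
  out_sound (S := T5.ds_mm) T5.ok_mm (w := 63) (j := 3) (by decide +kernel)
theorem L04531 : Good (Phi V5.P V5.D (-1) (-1)) ⟨5, 29, 3, 4, 2, 2, 3, 1, 3, 0⟩ :=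
  out_sound (S := T5.ds_mm) T5.ok_mm (w := 57) (j := 3) (by decide +kernel)
theorem L04532 : Good (Phi V5.P V5.D (-1) (-1)) ⟨4, 15, 3, 4, 2, 2, 3, 1, 3, 0⟩ :=
  out_sound (S := T5.ds_mm) T5.ok_mm (w := 51) (j := 3) (by decide +kernel)
theorem L04533 : Good (Phi V5.P V5.D (-1) (-1)) ⟨2, 2, 3, 4, 2, 2, 2, 0, 4, 2⟩ :=
  out_sound (S := T5.ds_mm) T5.ok_mm (w := 39) (j := 3) (by decide +kernel)
theorem L04534 : Good (Phi V5.P V5.D (-1) (-1)) ⟨4, 12, 3, 4, 3, 4, 2, 0, 4, 2⟩ :=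
  out_sound (S := T5.ds_mm) T5.ok_mm (w := 51) (j := 3) (by decide +kernel)
theorem L04535 : Good (Phi V5.P V5.D (-1) (-1)) ⟨4, 13, 3, 4, 3, 4, 3, 0, 4, 2⟩ :=
  leafX_sound T5.ok_mm T5.Ymm.bz_eq (w := 229) (c := ⟨⟨.negSucc 3801, .negSucc 693, .ofNat 23, .negSucc 554, .negSucc 219, .ofNat 558⟩, ⟨.ofNat 2019, .ofNat 488, .ofNat 350, .ofNat 321, .ofNat 133, .negSucc 323⟩, ⟨.ofNat 2363, .ofNat 593, .negSucc 194, .ofNat 64, .ofNat 223, .ofNat 69⟩, ⟨.negSucc 6436, .negSucc 615, .ofNat 13, .negSucc 923, .negSucc 157, .ofNat 958⟩, ⟨.negSucc 1002, .negSucc 61, .ofNat 35, .negSucc 175, .ofNat 269, .ofNat 269⟩, .ofNat 874, .ofNat 1066, .ofNat 0, .ofNat 1066, .ofNat 2094, .ofNat 0, .ofNat 128, .negSucc 800, .negSucc 375, .ofNat 0, .ofNat 508, .ofNat 223, .ofNat 0, .ofNat 0, .ofNat 717, .ofNat 10631, .ofNat 309223097162758340801604838274385103317664530432, .ofNat 0, .ofNat 0, .ofNat 0, .ofNat 0, .ofNat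 0, .ofNat 7770245559691773545755894480300561303339008, .ofNat 0, .ofNat 0, .ofNat 0, .ofNat 0, .ofNat 0, .ofNat 847368126383993062173007429337903702681011093504, .ofNat 0, .ofNat 7446789360101666641729545176034915752345600, .ofNat 0⟩)
    (by decide +kernel)
theorem L04536 : Good (Phi V5.P V5.D (-1) (-1)) ⟨4, 13, 3, 4, 3, 4, 3, 1, 4, 2⟩ :=
  leafX_sound T5.ok_mm T5.Ymm.bz_eq (w := 228) (c := ⟨⟨.negSucc 4032, .negSucc 1179, .ofNat 373, .negSucc 312, .ofNat 136, .ofNat 715⟩, ⟨.ofNat 2160, .ofNat 779, .ofNat 139, .ofNat 177, .negSucc 79, .negSucc 424⟩, ⟨.ofNat 2676, .ofNat 918, .negSucc 394, .negSucc 98, .negSucc 66, .negSucc 225⟩, ⟨.negSucc 6576, .negSucc 1175, .ofNat 439, .negSucc 658, .ofNat 214, .ofNat 1092⟩, ⟨.negSucc 767, .ofNat 309, .negSucc 179, .negSucc 246, .ofNat 37, .ofNat 71⟩, .ofNat 378, .ofNat 285, .ofNat 0, .ofNat 285, .ofNat 704, .ofNat 0, .ofNat 128, .negSucc 453, .negSucc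 425, .ofNat 0, .ofNat 340, .ofNat 246, .ofNat 0, .ofNat 0, .ofNat 615, .ofNat 2673, .ofNat 0, .ofNat 0, .ofNat 0, .ofNat 0, .ofNat 0, .ofNat 0, .ofNat 2147680102683422171946891289836152766332928, .ofNat 0, .ofNat 0, .ofNat 0, .ofNat 0, .ofNat 0, .ofNat 0, .ofNat 0, .ofNat 2397365430305047171803520919662652341354496, .ofNat 0⟩)
    (by decide +kernel)
theorem L04537 : Good (Phi V5.P V5.D (-1) (-1)) ⟨5, 28, 3, 4, 3, 4, 3, 0, 4, 2⟩ :=
  leafX_sound T5.ok_mm T5.Ymm.bz_eq (w := 235) (c := ⟨⟨.negSucc 4914, .negSucc 683, .ofNat 298, .negSucc 528, .negSucc 231, .ofNat 860⟩, ⟨.ofNat 2779, .ofNat 504, .ofNat 155, .ofNat 332, .ofNat 150, .negSucc 542⟩, ⟨.ofNat 3438, .ofNat 813, .negSucc 672, .ofNat 1, .ofNat 310, .negSucc 155⟩, ⟨.negSucc 7425, .negSucc 572, .ofNat 225, .negSucc 839, .negSucc 164, .ofNat 1246⟩, ⟨.negSucc 767, .ofNat 180, .negSucc 152, .negSucc 108, .ofNat 268, .ofNat 26⟩, .ofNat 1318,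 .ofNat 1672, .ofNat 0, .ofNat 1672, .ofNat 2855, .ofNat 0, .ofNat 128, .negSucc 1488, .negSucc 842, .ofNat 0, .ofNat 1005, .ofNat 543, .ofNat 0, .ofNat 0, .ofNat 1407, .ofNat 19850, .ofNat 8661801160892444194979791187480289888269341032448, .ofNat 0, .ofNat 25908740383022736450609610517871132147712, .ofNat 0, .ofNat 0, .ofNat 0, .ofNat 5979434042758747800880737231311340233031680, .ofNat 0, .ofNat 71498746139109451452814185124917527690503295860736, .ofNat 0, .ofNat 43979302749531053131067692878949441008041984, .ofNat 0, .ofNat 69971153959917879809973000120124948080643807379456, .ofNat 0, .ofNat 22261744730726504446873432106744250714030080, .ofNat 0⟩)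
    (by decide +kernel)
theorem L04538 : Good (Phi V5.P V5.D (-1) (-1)) ⟨5, 28, 3, 4, 3, 4, 3, 1, 4, 2⟩ :=
  leafX_sound T5.ok_mm T5.Ymm.bz_eq (w := 234) (c := ⟨⟨.negSucc 4805, .ofNat 255, .negSucc 398, .negSucc 382, .ofNat 90, .ofNat 988⟩, ⟨.ofNat 2740, .negSucc 74, .ofNat 568, .ofNat 238, .negSucc 55, .negSucc 625⟩, ⟨.ofNat 3385, .negSucc 111, .ofNat 65, .negSucc 87, .negSucc 13, .negSucc 404⟩, ⟨.negSucc 7361, .ofNat 304, .negSucc 354, .negSucc 676, .ofNat 155, .ofNat 1374⟩, ⟨.negSucc 722, .negSucc 362, .ofNat 271, .negSucc 183, .ofNat 45, .negSucc 52⟩, .ofNat 1144, .ofNat 1348, .ofNat 0, .ofNat 1348, .ofNat 2275, .ofNat 0, .ofNat 128, .negSucc 750, .negSucc 841, .ofNat 0, .ofNat 538, .ofNat 554, .ofNat 0, .ofNat 0, .ofNat 1187, .ofNat 5408, .ofNat 0, .ofNat 0, .ofNat 24347701702946440841818101001134886879232, .ofNat 0, .ofNat 0, .ofNat 0, .ofNat 7264422921161845097292123369936445029482496,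 .ofNat 0, .ofNat 0, .ofNat 0, .ofNat 28596930928642915402463923248545399320870912, .ofNat 0, .ofNat 0, .ofNat 0, .ofNat 4570354557851865770680366900000228206706688, .ofNat 0⟩)
    (by decide +kernel)
theorem L04539 : Good (Phi V5.P V5.D (-1) (-1)) ⟨5, 29, 3, 4, 3, 4, 2, 0, 4, 2⟩ :=
  out_sound (S := T5.ds_mm) T5.ok_mm (w := 57) (j := 3) (by decide +kernel)
theorem L04540 : Good (Phi V5.P V5.D (-1) (-1)) ⟨4, 15, 3, 4, 3, 4, 2, 0, 4, 2⟩ :=
  out_sound (S := T5.ds_mm) T5.ok_mm (w := 51) (j := 3) (by decide +kernel)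
theorem L04541 : Good (Phi V5.P V5.D (-1) (-1)) ⟨4, 12, 3, 4, 3, 5, 2, 0, 5, 4⟩ :=
  out_sound (S := T5.ds_mm) T5.ok_mm (w := 51) (j := 3) (by decide +kernel)
theorem L04542 : Good (Phi V5.P V5.D (-1) (-1)) ⟨6, 52, 3, 4, 3, 5, 2, 0, 5, 4⟩ :=
  out_sound (S := T5.ds_mm) T5.ok_mm (w := 63) (j := 3) (by decide +kernel)
theorem L04543 : Good (Phi V5.P V5.D (-1) (-1)) ⟨6, 53, 3, 4, 3, 5, 5, 0, 5, 4⟩ :=
  leafX_sound T5.ok_mm T5.Ymm.bz_eq (w := 256) (c := ⟨⟨.negSucc 4768, .negSucc 724, .ofNat 895, .negSucc 361, .ofNat 120, .ofNat 461⟩, ⟨.ofNat 2551, .ofNat 468, .negSucc 151, .ofNat 226, .negSucc 71, .negSucc 256⟩, ⟨.ofNat 2360, .ofNat 452, .negSucc 791, .ofNat 1034, .negSucc 84, .negSucc 31⟩, ⟨.negSucc 7958, .negSucc 674, .ofNat 963, .negSucc 35, .ofNat 97, .ofNat 663⟩, ⟨.negSucc 1302, .ofNat 465, .negSucc 659, .ofNat 921, .negSucc 153, .negSucc 36⟩, .ofNat 719, .ofNat 801, .ofNat 0, .ofNat 801,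 .ofNat 1660, .ofNat 0, .ofNat 128, .negSucc 758, .negSucc 505, .ofNat 0, .ofNat 486, .ofNat 303, .ofNat 0, .ofNat 0, .ofNat 607, .ofNat 611515, .ofNat 2152678470858018998339046988431098526432277703346356224, .ofNat 0, .ofNat 380432222758297278797701131383506410093412352, .ofNat 0, .ofNat 2777366299972905175153695484748145653710138088076869632, .ofNat 0, .ofNat 8077897252835873954509510243950409203876626432, .ofNat 0, .ofNat 11473571130762734663406142563200802763351485096080179200, .ofNat 0, .ofNat 3054704285727180624843477393035068521995829248, .ofNat 0, .ofNat 3723723046060582984587795319833974836847176439184752640, .ofNat 0, .ofNat 14630311416900956018367896016895272778352033792, .ofNat 0⟩)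
    (by decide +kernel)
theorem L04544 : Good (Phi V5.P V5.D (-1) (-1)) ⟨6, 53, 3, 4, 3, 5, 5, 1, 5, 4⟩ :=
  leafX_sound T5.ok_mm T5.Ymm.bz_eq (w := 253) (c := ⟨⟨.negSucc 4715, .negSucc 486, .ofNat 447, .negSucc 338, .ofNat 77, .ofNat 413⟩, ⟨.ofNat 2539, .ofNat 316, .ofNat 107, .ofNat 200, .negSucc 43, .negSucc 227⟩, ⟨.ofNat 2690, .ofNat 309, .negSucc 428, .ofNat 545, .negSucc 52, .negSucc 3⟩, ⟨.negSucc 7708, .negSucc 464, .ofNat 432, .negSucc 261, .ofNat 79, .ofNat 612⟩, ⟨.negSucc 1009, .ofNat 217, .negSucc 252, .ofNat 448, .negSucc 64, .negSucc 8⟩, .ofNat 1457, .ofNat 2059, .ofNat 0, .ofNat 2059, .ofNat 3887, .ofNat 0, .ofNat 128, .negSucc 1163, .negSucc 1148, .ofNat 0, .ofNat 705, .ofNat 669, .ofNat 0, .ofNat 0, .ofNat 1708, .ofNat 82316, .ofNat 111775562208369229082109651146136807610754949550440448, .ofNat 0, .ofNat 42518222886285600370833110064174632443838464, .ofNat 0, .ofNat 300453940845562786178186219518670813462777177091080192,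 .ofNat 0, .ofNat 13842243514190766964145483184424152705120862208, .ofNat 0, .ofNat 0, .ofNat 0, .ofNat 8756309541864230449357406802416995989349990400, .ofNat 0, .ofNat 0, .ofNat 0, .ofNat 0, .ofNat 0⟩)
    (by decide +kernel)
theorem L04545 : Good (Phi V5.P V5.D (-1) (-1)) ⟨6, 53, 3, 4, 3, 5, 4, 1, 5, 4⟩ :=
  leafX_sound T5.ok_mm T5.Ymm.bz_eq (w := 250) (c := ⟨⟨.negSucc 4759, .negSucc 348, .ofNat 4, .negSucc 184, .ofNat 95, .ofNat 379⟩, ⟨.ofNat 2569, .ofNat 234, .ofNat 354, .ofNat 107, .negSucc 53, .negSucc 207⟩, ⟨.ofNat 2783, .ofNat 248, .negSucc 431, .ofNat 326, .negSucc 65, .negSucc 24⟩, ⟨.negSucc 7683, .negSucc 381, .negSucc 58, .negSucc 155, .ofNat 98, .ofNat 596⟩, ⟨.negSucc 855, .ofNat 11, .negSucc 49, .ofNat 221, .negSucc 78, .ofNat 60⟩, .ofNat 2275, .ofNat 3480, .ofNat 0, .ofNat 3480, .ofNat 6376, .ofNat 0, .ofNat 128, .negSucc 1802, .negSucc 1880, .ofNat 0, .ofNat 1074, .ofNat 1085,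 .ofNat 0, .ofNat 0, .ofNat 2604, .ofNat 24035, .ofNat 0, .ofNat 0, .ofNat 0, .ofNat 0, .ofNat 0, .ofNat 0, .ofNat 801245810782060769991475873040448610191278080, .ofNat 0, .ofNat 0, .ofNat 0, .ofNat 0, .ofNat 0, .ofNat 0, .ofNat 0, .ofNat 0, .ofNat 0⟩)
    (by decide +kernel)
theorem L04546 : Good (Phi V5.P V5.D (-1) (-1)) ⟨6, 53, 3, 4, 3, 5, 3, 1, 5, 4⟩ :=
  leafX_sound T5.ok_mm T5.Ymm.bz_eq (w := 247) (c := ⟨⟨.negSucc 4761, .negSucc 424, .negSucc 91, .negSucc 5, .ofNat 241, .ofNat 385⟩, ⟨.ofNat 2579, .ofNat 268, .ofNat 423, .negSucc 0, .negSucc 137, .negSucc 210⟩, ⟨.ofNat 2966, .ofNat 208, .ofNat 177, .ofNat 35, .negSucc 193, .negSucc 87⟩, ⟨.negSucc 7645, .negSucc 444, .negSucc 114, .negSucc 71, .ofNat 266, .ofNat 579⟩, ⟨.negSucc 781, .ofNat 105, .ofNat 101, .negSucc 118, .negSucc 166, .ofNat 13⟩, .ofNat 3174, .ofNat 5046, .ofNat 0, .ofNat 5046, .ofNat 9119, .ofNat 0, .ofNat 128, .negSucc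 1522, .negSucc 1798, .ofNat 0, .ofNat 903, .ofNat 1028, .ofNat 0, .ofNat 0, .ofNat 2226, .ofNat 7292, .ofNat 0, .ofNat 0, .ofNat 0, .ofNat 0, .ofNat 0, .ofNat 0, .ofNat 8301009546940824622676178090982005117288448, .ofNat 0, .ofNat 0, .ofNat 0, .ofNat 0, .ofNat 0, .ofNat 0, .ofNat 0, .ofNat 0, .ofNat 0⟩)
    (by decide +kernel)
theorem L04547 : Good (Phi V5.P V5.D (-1) (-1)) ⟨5, 27, 3, 4, 3, 5, 5, 0, 6, 8⟩ :=
  leafX_sound T5.ok_mm T5.Ymm.bz_eq (w := 256) (c := ⟨⟨.negSucc 5845, .negSucc 1752, .ofNat 1062, .ofNat 3, .ofNat 106, .ofNat 463⟩, ⟨.ofNat 3229, .ofNat 1184, .negSucc 258, .ofNat 17, .negSucc 76, .negSucc 280⟩, ⟨.ofNat 3010, .ofNat 1090, .negSucc 970, .ofNat 838, .negSucc 76, .negSucc 129⟩, ⟨.negSucc 9086, .negSucc 1598, .ofNat 1129, .ofNat 478, .ofNat 42, .ofNat 595⟩, ⟨.negSucc 698, .ofNat 1124, .negSucc 811, .ofNat 825, .negSucc 179, .negSucc 123⟩, .ofNat 795, .ofNat 902, .ofNat 0,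 .ofNat 902, .ofNat 1735, .ofNat 0, .ofNat 128, .negSucc 849, .negSucc 506, .ofNat 0, .ofNat 555, .ofNat 319, .ofNat 0, .ofNat 0, .ofNat 633, .ofNat 362687, .ofNat 689315505469717375334978104844894919293093520800219136, .ofNat 0, .ofNat 0, .ofNat 0, .ofNat 1015384084575862020487803794849801261901251752004419584, .ofNat 0, .ofNat 576670075875310587744082854613529449135259779072, .ofNat 0, .ofNat 4397529487588774915363558613039779541396046537560162304, .ofNat 0, .ofNat 1309088775396221728474999280497788838774864609280, .ofNat 0, .ofNat 335852242197181548952546682645465112545817879415619584, .ofNat 0, .ofNat 1190248474386030479970848397091805410697609740288, .ofNat 0⟩)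
    (by decide +kernel)
theorem L04548 : Good (Phi V5.P V5.D (-1) (-1)) ⟨5, 27, 3, 4, 3, 5, 5, 1, 6, 8⟩ :=
  leafX_sound T5.ok_mm T5.Ymm.bz_eq (w := 253) (c := ⟨⟨.negSucc 5033, .negSucc 866, .ofNat 115, .negSucc 689, .negSucc 14, .ofNat 279⟩, ⟨.ofNat 2739, .ofNat 614, .ofNat 327, .ofNat 433, .ofNat 7, .negSucc 163⟩, ⟨.ofNat 2891, .ofNat 602, .negSucc 364, .ofNat 720, .ofNat 22, .ofNat 2⟩, ⟨.negSucc 8038, .negSucc 656, .negSucc 20, .negSucc 552, .negSucc 56, .ofNat 453⟩, ⟨.negSucc 942, .ofNat 615, .negSucc 394, .ofNat 771, .negSucc 63, .ofNat 84⟩, .ofNat 758, .ofNat 839, .ofNat 0, .ofNat 839, .ofNat 1629, .ofNat 0, .ofNat 128, .negSucc 722, .negSucc 613, .ofNat 0, .ofNat 476, .ofNat 383, .ofNat 0, .ofNat 0, .ofNat 732, .ofNat 33619, .ofNat 0, .ofNat 0, .ofNat 0, .ofNat 0, .ofNat 24839343806272924988504764522128706524583355844919296, .ofNat 0, .ofNat 248374808799909478450246078111234875004886712320,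 .ofNat 0, .ofNat 40365858091064801071377896595098952903730263083712512, .ofNat 0, .ofNat 1341445444189668941089561406058036412102593216512, .ofNat 0, .ofNat 0, .ofNat 0, .ofNat 1856355037915892528081424896783455675499174428672, .ofNat 0⟩)
    (by decide +kernel)
theorem L04549 : Good (Phi V5.P V5.D (-1) (-1)) ⟨5, 27, 3, 4, 3, 5, 4, 1, 6, 8⟩ :=
  leafX_sound T5.ok_mm T5.Ymm.bz_eq (w := 248) (c := ⟨⟨.negSucc 5223, .negSucc 1018, .ofNat 387, .negSucc 380, .ofNat 168, .ofNat 228⟩, ⟨.ofNat 2866, .ofNat 694, .ofNat 163, .ofNat 232, .negSucc 107, .negSucc 130⟩, ⟨.ofNat 3081, .ofNat 605, .negSucc 380, .ofNat 458, .negSucc 68, .negSucc 34⟩, ⟨.negSucc 8316, .negSucc 920, .ofNat 403, .negSucc 241, .ofNat 164, .ofNat 444⟩, ⟨.negSucc 979, .ofNat 459, .negSucc 216, .ofNat 554, .negSucc 122, .ofNat 199⟩, .ofNat 1559, .ofNat 2140, .ofNat 0, .ofNat 2140, .ofNat 3814, .ofNat 0, .ofNat 128, .negSucc 786, .negSucc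 552, .ofNat 0, .ofNat 495, .ofNat 336, .ofNat 0, .ofNat 0, .ofNat 645, .ofNat 10294, .ofNat 0, .ofNat 0, .ofNat 0, .ofNat 0, .ofNat 0, .ofNat 0, .ofNat 56036603914384446520061679920221079330627780608, .ofNat 0, .ofNat 0, .ofNat 0, .ofNat 72977856889056374385635066597616914011955134464, .ofNat 0, .ofNat 0, .ofNat 0, .ofNat 125352215876580777515848801171147072124171059200, .ofNat 0⟩)
    (by decide +kernel)
theorem L04550 : Good (Phi V5.P V5.D (-1) (-1)) ⟨5, 27, 3, 4, 3, 5, 5, 0, 6, 9⟩ :=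
  out_sound (S := T5.ds_mm) T5.ok_mm (w := 33) (j := 1) (by decide +kernel)
theorem L04551 : Good (Phi V5.P V5.D (-1) (-1)) ⟨5, 27, 3, 4, 3, 5, 5, 1, 6, 9⟩ :=
  leafX_sound T5.ok_mm T5.Ymm.bz_eq (w := 254) (c := ⟨⟨.negSucc 5119, .negSucc 915, .ofNat 410, .negSucc 290, .ofNat 54, .ofNat 462⟩, ⟨.ofNat 2818, .ofNat 628, .ofNat 134, .ofNat 181, .negSucc 36, .negSucc 279⟩, ⟨.ofNat 3120, .ofNat 646, .negSucc 539, .ofNat 421, .negSucc 13, .negSucc 162⟩, ⟨.negSucc 7997, .negSucc 786, .ofNat 366, .negSucc 170, .ofNat 38, .ofNat 593⟩, ⟨.negSucc 712, .ofNat 514, .negSucc 396, .ofNat 453, .negSucc 59, .negSucc 126⟩, .ofNat 752, .ofNat 831, .ofNat 0, .ofNat 831, .ofNat 1621, .ofNat 0, .ofNat 128, .negSucc 634, .negSucc 444, .ofNat 0, .ofNat 426, .ofNat 278, .ofNat 0, .ofNat 0, .ofNat 643, .ofNat 67998, .ofNat 37815418652734191051831704326837777564819515278098432, .ofNat 0, .ofNat 8536440259165721904462257141819241837163970560,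 .ofNat 0, .ofNat 72229215767249938856968453453440117371777005278724096, .ofNat 0, .ofNat 670437267817329627996186975758475375712535576576, .ofNat 0, .ofNat 124115708623415164229652078712986917901949842954911744, .ofNat 0, .ofNat 1171141776743054738564991920261021120331641782272, .ofNat 0, .ofNat 0, .ofNat 0, .ofNat 1476086645417506592689030333680393009004625788928, .ofNat 0⟩)
    (by decide +kernel)
theorem L04552 : Good (Phi V5.P V5.D (-1) (-1)) ⟨5, 27, 3, 4, 3, 5, 4, 1, 6, 9⟩ :=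
  leafX_sound T5.ok_mm T5.Ymm.bz_eq (w := 249) (c := ⟨⟨.negSucc 5077, .negSucc 739, .ofNat 253, .negSucc 173, .ofNat 55, .ofNat 379⟩, ⟨.ofNat 2787, .ofNat 519, .ofNat 225, .ofNat 110, .negSucc 33, .negSucc 221⟩, ⟨.ofNat 3152, .ofNat 459, .negSucc 279, .ofNat 260, .negSucc 36, .negSucc 154⟩, ⟨.negSucc 7950, .negSucc 636, .ofNat 287, .negSucc 81, .ofNat 32, .ofNat 460⟩, ⟨.negSucc 707, .ofNat 294, .negSucc 84, .ofNat 298, .negSucc 80, .negSucc 167⟩, .ofNat 1582, .ofNat 2170, .ofNat 0, .ofNat 2170, .ofNat 3849, .ofNat 0, .ofNat 128, .negSucc 943, .negSucc 686, .ofNat 0, .ofNat 601, .ofNat 421, .ofNat 0, .ofNat 0, .ofNat 946, .ofNat 25125, .ofNat 0, .ofNat 0, .ofNat 0, .ofNat 0, .ofNat 0, .ofNat 0, .ofNat 168674848428008579308891163758331906123584503808, .ofNat 0, .ofNat 0, .ofNat 0, .ofNat 139870195235095864749186054256012718342590693376, .ofNat 0, .ofNat 0, .ofNat 0, .ofNat 184416825913428548416368418750105552345987284992,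 .ofNat 0⟩)
    (by decide +kernel)
theorem L04553 : Good (Phi V5.P V5.D (-1) (-1)) ⟨5, 27, 3, 4, 3, 5, 3, 1, 5, 4⟩ :=
  leafX_sound T5.ok_mm T5.Ymm.bz_eq (w := 239) (c := ⟨⟨.negSucc 5383, .negSucc 969, .ofNat 562, .ofNat 73, .ofNat 257, .ofNat 603⟩, ⟨.ofNat 2971, .ofNat 645, .ofNat 51, .negSucc 44, .negSucc 155, .negSucc 354⟩, ⟨.ofNat 3314, .ofNat 728, .negSucc 612, .ofNat 11, .negSucc 197, .negSucc 248⟩, ⟨.negSucc 8293, .negSucc 942, .ofNat 527, .ofNat 19, .ofNat 236, .ofNat 860⟩, ⟨.negSucc 534, .ofNat 408, .negSucc 506, .negSucc 147, .negSucc 249, .negSucc 36⟩, .ofNat 751, .ofNat 830, .ofNat 0, .ofNat 830, .ofNat 1622, .ofNat 0, .ofNat 128, .negSucc 811, .negSucc 760, .ofNat 0, .ofNat 538, .ofNat 459, .ofNat 0, .ofNat 0, .ofNat 877, .ofNat 5211, .ofNat 0, .ofNat 0, .ofNat 0, .ofNat 0, .ofNat 0, .ofNat 0, .ofNat 63330045550196599356313699786812638327996416, .ofNat 0, .ofNat 0, .ofNat 0,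 .ofNat 151389610135334452837933464734013337072828416, .ofNat 0, .ofNat 0, .ofNat 0, .ofNat 131380263611531630844028920420789935845408768, .ofNat 0⟩)
    (by decide +kernel)
theorem L04554 : Good (Phi V5.P V5.D (-1) (-1)) ⟨4, 12, 3, 4, 3, 5, 2, 0, 5, 5⟩ :=
  out_sound (S := T5.ds_mm) T5.ok_mm (w := 51) (j := 3) (by decide +kernel)
theorem L04555 : Good (Phi V5.P V5.D (-1) (-1)) ⟨4, 13, 3, 4, 3, 5, 5, 0, 5, 5⟩ :=
  out_sound (S := T5.ds_mm) T5.ok_mm (w := 31) (j := 1) (by decide +kernel)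
theorem L04556 : Good (Phi V5.P V5.D (-1) (-1)) ⟨4, 13, 3, 4, 3, 5, 5, 1, 5, 5⟩ :=
  leafX_sound T5.ok_mm T5.Ymm.bz_eq (w := 244) (c := ⟨⟨.negSucc 4047, .negSucc 1741, .ofNat 566, .ofNat 47, .ofNat 57, .ofNat 1007⟩, ⟨.ofNat 2125, .ofNat 1176, .ofNat 15, .negSucc 22, .negSucc 38, .negSucc 607⟩, ⟨.ofNat 2600, .ofNat 1106, .negSucc 549, .ofNat 199, .negSucc 44, .negSucc 473⟩, ⟨.negSucc 6867, .negSucc 1620, .ofNat 591, .ofNat 176, .ofNat 38, .ofNat 1225⟩, ⟨.negSucc 1067, .ofNat 794, .negSucc 364, .ofNat 203, .negSucc 92, .negSucc 401⟩, .ofNat 755, .ofNat 836, .ofNat 0, .ofNat 836, .ofNat 1627, .ofNat 0, .ofNat 128, .negSucc 529, .negSucc 264, .ofNat 0, .ofNat 365, .ofNat 167, .ofNat 0, .ofNat 0, .ofNat 454, .ofNat 37518, .ofNat 137407582370269547885740290472312419741850713194496, .ofNat 0, .ofNat 3204166929952064593657025743573331004637577216, .ofNat 0, .ofNat 0, .ofNat 0, .ofNat 0, .ofNat 0,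 .ofNat 0, .ofNat 0, .ofNat 74290247891608747158018547335544656656953507840, .ofNat 0, .ofNat 1906814250760839864166591273246143784847238812925952, .ofNat 0, .ofNat 83571837524136853134095763384236418772416593920, .ofNat 0⟩)
    (by decide +kernel)
theorem L04557 : Good (Phi V5.P V5.D (-1) (-1)) ⟨4, 13, 3, 4, 3, 5, 4, 1, 5, 5⟩ :=
  leafX_sound T5.ok_mm T5.Ymm.bz_eq (w := 240) (c := ⟨⟨.negSucc 4297, .negSucc 1209, .ofNat 322, .ofNat 197, .ofNat 43, .ofNat 820⟩, ⟨.ofNat 2277, .ofNat 851, .ofNat 151, .negSucc 117, .negSucc 25, .negSucc 489⟩, ⟨.ofNat 2810, .ofNat 785, .negSucc 358, .negSucc 50, .negSucc 79, .negSucc 379⟩, ⟨.negSucc 7106, .negSucc 1061, .ofNat 305, .ofNat 240, .ofNat 39, .ofNat 1064⟩, ⟨.negSucc 845, .ofNat 376, .negSucc 191, .negSucc 47, .negSucc 41, .negSucc 226⟩, .ofNat 744, .ofNat 822, .ofNat 0, .ofNat 822, .ofNat 1623, .ofNat 0, .ofNat 128, .negSucc 755, .negSucc 512, .ofNat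 0, .ofNat 516, .ofNat 318, .ofNat 0, .ofNat 0, .ofNat 901, .ofNat 22246, .ofNat 0, .ofNat 0, .ofNat 129580380081024811658469392834238831237529600, .ofNat 0, .ofNat 0, .ofNat 0, .ofNat 5577407260365140229468232437630024554945445888, .ofNat 0, .ofNat 0, .ofNat 0, .ofNat 6485125313347704493196708609115640426993287168, .ofNat 0, .ofNat 0, .ofNat 0, .ofNat 4701472071716966591641416700262915526677757952, .ofNat 0⟩)
    (by decide +kernel)
theorem L04558 : Good (Phi V5.P V5.D (-1) (-1)) ⟨4, 13, 3, 4, 3, 5, 3, 1, 5, 5⟩ :=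
  leafX_sound T5.ok_mm T5.Ymm.bz_eq (w := 235) (c := ⟨⟨.negSucc 4386, .negSucc 1053, .ofNat 341, .ofNat 302, .ofNat 190, .ofNat 767⟩, ⟨.ofNat 2355, .ofNat 720, .ofNat 138, .negSucc 183, .negSucc 112, .negSucc 449⟩, ⟨.ofNat 2841, .ofNat 823, .negSucc 430, .negSucc 251, .negSucc 210, .negSucc 423⟩, ⟨.negSucc 7151, .negSucc 957, .ofNat 338, .ofNat 289, .ofNat 218, .ofNat 1038⟩, ⟨.negSucc 785, .ofNat 313, .negSucc 217, .negSucc 241, .negSucc 107, .negSucc 142⟩, .ofNat 745, .ofNat 824, .ofNat 0, .ofNat 824, .ofNat 1625, .ofNat 0, .ofNat 128, .negSucc 597, .negSucc 356, .ofNat 0, .ofNat 407, .ofNat 217, .ofNat 0, .ofNat 0, .ofNat 566, .ofNat 9741, .ofNat 0, .ofNat 0, .ofNat 0, .ofNat 0, .ofNat 0, .ofNat 0, .ofNat 150851938731505449203482226058791785416622080, .ofNat 0, .ofNat 0, .ofNat 0, .ofNat 228531388657628894918462222614298506005839872, .ofNat 0, .ofNat 0, .ofNat 0, .ofNat 236216234605366105095939065526840099694706688,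 .ofNat 0⟩)
    (by decide +kernel)
theorem L04559 : Good (Phi V5.P V5.D (-1) (-1)) ⟨6, 56, 4, 8, 4, 10, 3, 0, 5, 4⟩ :=
  out_sound (S := T5.ds_mm) T5.ok_mm (w := 65) (j := 3) (by decide +kernel)
theorem L04560 : Good (Phi V5.P V5.D (-1) (-1)) ⟨6, 56, 4, 9, 4, 10, 4, 0, 5, 4⟩ :=
  leafX_sound T5.ok_mm T5.Ymm.bz_eq (w := 269) (c := ⟨⟨.negSucc 5948, .negSucc 413, .negSucc 84, .negSucc 466, .ofNat 198, .ofNat 753⟩, ⟨.ofNat 3589, .ofNat 314, .ofNat 246, .ofNat 301, .negSucc 123, .negSucc 477⟩, ⟨.ofNat 3355, .ofNat 294, .negSucc 88, .ofNat 287, .negSucc 13, .negSucc 139⟩, ⟨.negSucc 8734, .negSucc 348, .negSucc 144, .negSucc 428, .ofNat 115, .ofNat 996⟩, ⟨.negSucc 348, .ofNat 133, .negSucc 4, .ofNat 375, .negSucc 279, .negSucc 117⟩, .ofNat 3988, .ofNat 5809, .ofNat 0, .ofNat 5809, .ofNat 9302, .ofNat 0, .ofNat 128, .negSucc 2239, .negSucc 1668, .ofNat 0, .ofNat 1459, .ofNat 1077, .ofNat 0, .ofNat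 0, .ofNat 2102, .ofNat 136692, .ofNat 2625812226714245055879089837999744925639011358527507660800, .ofNat 0, .ofNat 7514118647812925772470532916657370176425058893824, .ofNat 0, .ofNat 770581215487368197583741713839832086707358509141118156800, .ofNat 0, .ofNat 363157059465050160871661898955878722812350757339136, .ofNat 0, .ofNat 0, .ofNat 0, .ofNat 1823306057909609012903555662857168473551801828769792, .ofNat 0, .ofNat 0, .ofNat 0, .ofNat 253560449966858972548290028416789681307698247761920, .ofNat 0⟩)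
    (by decide +kernel)
theorem L04561 : Good (Phi V5.P V5.D (-1) (-1)) ⟨6, 56, 4, 9, 4, 10, 4, 1, 5, 4⟩ :=
  leafX_sound T5.ok_mm T5.Ymm.bz_eq (w := 268) (c := ⟨⟨.negSucc 6210, .negSucc 870, .ofNat 442, .negSucc 353, .ofNat 77, .ofNat 773⟩, ⟨.ofNat 3756, .ofNat 602, .negSucc 85, .ofNat 229, .negSucc 49, .negSucc 490⟩, ⟨.ofNat 3602, .ofNat 483, .negSucc 303, .ofNat 200, .ofNat 11, .negSucc 214⟩, ⟨.negSucc 9072, .negSucc 800, .ofNat 432, .negSucc 386, .ofNat 69, .ofNat 999⟩, ⟨.negSucc 314, .ofNat 441, .negSucc 264, .ofNat 185, .negSucc 67, .negSucc 158⟩, .ofNat 2053, .ofNat 2805, .ofNat 0, .ofNat 2805, .ofNat 4623, .ofNat 0, .ofNat 128, .negSucc 2825, .negSucc 2011, .ofNat 0, .ofNat 1858, .ofNat 1297, .ofNat 0, .ofNat 0, .ofNat 2383, .ofNat 37032, .ofNat 0, .ofNat 0, .ofNat 0, .ofNat 0, .ofNat 0, .ofNat 0, .ofNat 253248450749386385852338430858371684789733981945856, .ofNat 0, .ofNat 0, .ofNat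 0, .ofNat 0, .ofNat 0, .ofNat 0, .ofNat 0, .ofNat 236216913449360078080901857062324351194561171685376, .ofNat 0⟩)
    (by decide +kernel)
theorem L04562 : Good (Phi V5.P V5.D (-1) (-1)) ⟨6, 57, 3, 4, 4, 10, 3, 0, 5, 4⟩ :=
  out_sound (S := T5.ds_mm) T5.ok_mm (w := 63) (j := 3) (by decide +kernel)

end Crest.Agent.R097C5.N5mm
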