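import Crest.Agent.R097.KP7
import Crest.Agent.R097.T5Ymm

/-!
# Row 97, box cover in dimension n = 5 (generated)
-/

set_option autoImplicit false
set_option Elab.async false
set_option maxHeartbeats 0
set_option maxRecDepth 100000

open Crest.Agent.R097 Crest.Agent.R097.KA


namespace Crest.Agent.R097C5.N5mm

theorem L04563 : Good (Phi V5.P V5.D (-1) (-1)) ⟨6, 56, 3, 4, 4, 11, 5, 0, 5, 4⟩ :=
  leafX_sound T5.ok_mm T5.Ymm.bz_eq (w := 271) (c := ⟨⟨.negSucc 7975, .negSucc 1061, .ofNat 1296, .ofNat 229, .ofNat 62, .ofNat 1384⟩, ⟨.ofNat 4716, .ofNat 763, .negSucc 465, .negSucc 140, .negSucc 44, .negSucc 887⟩, ⟨.ofNat 4693, .ofNat 583, .negSucc 1021, .ofNat 270, .negSucc 68, .negSucc 452⟩, ⟨.negSucc 10718, .negSucc 859, .ofNat 1157, .ofNat 514, .ofNat 35, .ofNat 1519⟩, ⟨.ofNat 1074, .ofNat 694, .negSucc 1016, .ofNat 294, .negSucc 104, .negSucc 686⟩, .ofNat 1251, .ofNat 1538, .ofNat 0, .ofNat 1538, .ofNat 2620, .ofNat 0, .ofNat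 128, .negSucc 1332, .negSucc 891, .ofNat 0, .ofNat 920, .ofNat 596, .ofNat 0, .ofNat 0, .ofNat 1030, .ofNat 933567, .ofNat 12802756646505141738550345730280463641626351509494315352064, .ofNat 0, .ofNat 0, .ofNat 0, .ofNat 2325778462402244845552765337181915821537671889480358821888, .ofNat 0, .ofNat 166352634913311413528359469487370543285146117734400, .ofNat 0, .ofNat 13736544513093918474917706201977777223400798050202037518336, .ofNat 0, .ofNat 536031669238076605395763863582109180993072810426368, .ofNat 0, .ofNat 17863586839485468847703415504501372440164251251043360309248, .ofNat 0, .ofNat 1301060136472926903189464647327670415532944324034560, .ofNat 0⟩)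
    (by decide +kernel)
theorem L04564 : Good (Phi V5.P V5.D (-1) (-1)) ⟨6, 56, 3, 4, 4, 11, 5, 1, 5, 4⟩ :=
  leafX_sound T5.ok_mm T5.Ymm.bz_eq (w := 267) (c := ⟨⟨.negSucc 7760, .negSucc 842, .ofNat 1169, .ofNat 232, .ofNat 120, .ofNat 1298⟩, ⟨.ofNat 4595, .ofNat 615, .negSucc 405, .negSucc 146, .negSucc 78, .negSucc 828⟩, ⟨.ofNat 4698, .ofNat 537, .negSucc 1024, .ofNat 110, .negSucc 46, .negSucc 490⟩, ⟨.negSucc 10483, .negSucc 701, .ofNat 1048, .ofNat 398, .ofNat 63, .ofNat 1497⟩, ⟨.ofNat 894, .ofNat 513, .negSucc 882, .ofNat 123, .negSucc 173, .negSucc 546⟩, .ofNat 706, .ofNat 723, .ofNat 0, .ofNat 723, .ofNat 1349, .ofNat 0, .ofNat 128, .negSucc 1009, .negSucc 1177, .ofNat 0, .ofNat 720, .ofNat 791, .ofNat 0, .ofNat 0, .ofNat 1283, .ofNat 65644, .ofNat 296625863039660661475779684638645182253976888342088777728, .ofNat 0, .ofNat 6769107839009474765990376352934718901754697613312, .ofNat 0, .ofNat 0, .ofNat 0, .ofNat 177498425397149090603288377693069776419450402111488,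 .ofNat 0, .ofNat 0, .ofNat 0, .ofNat 322828822381104504793034264552832364509007576039424, .ofNat 0, .ofNat 2206803621181441979846460666879502310353986175952576577536, .ofNat 0, .ofNat 505894369787153276723369407490918447864112180363264, .ofNat 0⟩)
    (by decide +kernel)
theorem L04565 : Good (Phi V5.P V5.D (-1) (-1)) ⟨6, 56, 3, 4, 4, 11, 4, 1, 5, 4⟩ :=
  leafX_sound T5.ok_mm T5.Ymm.bz_eq (w := 263) (c := ⟨⟨.negSucc 7116, .negSucc 588, .ofNat 587, .ofNat 294, .ofNat 198, .ofNat 1140⟩, ⟨.ofNat 4136, .ofNat 421, .ofNat 25, .negSucc 186, .negSucc 129, .negSucc 726⟩, ⟨.ofNat 4372, .ofNat 367, .negSucc 616, .negSucc 3, .negSucc 103, .negSucc 486⟩, ⟨.negSucc 9947, .negSucc 509, .ofNat 549, .ofNat 398, .ofNat 114, .ofNat 1384⟩, ⟨.ofNat 313, .ofNat 260, .negSucc 380, .negSucc 30, .negSucc 267, .negSucc 377⟩, .ofNat 1251, .ofNat 1538, .ofNat 0, .ofNat 1538, .ofNat 2620, .ofNat 0, .ofNat 128, .negSucc 1294, .negSucc 1592, .ofNat 0,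 .ofNat 889, .ofNat 1046, .ofNat 0, .ofNat 0, .ofNat 1694, .ofNat 37474, .ofNat 0, .ofNat 0, .ofNat 0, .ofNat 0, .ofNat 0, .ofNat 0, .ofNat 16503600882815213154839270867033265286101675802624, .ofNat 0, .ofNat 0, .ofNat 0, .ofNat 123257222318122690952008707486216867299072273285120, .ofNat 0, .ofNat 0, .ofNat 0, .ofNat 89195050920454040340964026831697435502290520768512, .ofNat 0⟩)
    (by decide +kernel)
theorem L04566 : Good (Phi V5.P V5.D (-1) (-1)) ⟨6, 57, 3, 4, 4, 11, 3, 0, 5, 4⟩ :=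
  out_sound (S := T5.ds_mm) T5.ok_mm (w := 63) (j := 3) (by decide +kernel)
theorem L04567 : Good (Phi V5.P V5.D (-1) (-1)) ⟨6, 56, 3, 4, 3, 5, 5, 0, 6, 10⟩ :=
  out_sound (S := T5.ds_mm) T5.ok_mm (w := 33) (j := 1) (by decide +kernel)
theorem L04568 : Good (Phi V5.P V5.D (-1) (-1)) ⟨6, 56, 3, 4, 3, 5, 5, 1, 6, 10⟩ :=
  leafX_sound T5.ok_mm T5.Ymm.bz_eq (w := 260) (c := ⟨⟨.negSucc 6047, .negSucc 569, .ofNat 633, .ofNat 190, .ofNat 176, .ofNat 507⟩, ⟨.ofNat 3495, .ofNat 404, .negSucc 46, .negSucc 118, .negSucc 114, .negSucc 322⟩, ⟨.ofNat 3787, .ofNat 242, .negSucc 432, .ofNat 51, .negSucc 126, .negSucc 220⟩, ⟨.negSucc 8677, .negSucc 507, .ofNat 582, .ofNat 323, .ofNat 161, .ofNat 624⟩, ⟨.negSucc 213, .ofNat 209, .negSucc 292, .ofNat 89, .negSucc 140, .negSucc 151⟩, .ofNat 2058, .ofNat 2813, .ofNat 0, .ofNat 2813, .ofNat 4633, .ofNat 0, .ofNat 128, .negSucc 1729, .negSucc 598, .ofNat 0, .ofNat 1151, .ofNat 389, .ofNat 0, .ofNat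 0, .ofNat 943, .ofNat 177660, .ofNat 1480734141913503890921908225858323417215611798990880768, .ofNat 0, .ofNat 0, .ofNat 0, .ofNat 3944260151478264569506902811916532348118485216683622400, .ofNat 0, .ofNat 1643772322019430849377250255683334252619404148736, .ofNat 0, .ofNat 0, .ofNat 0, .ofNat 2524745622144150003028180924912966587762134220800, .ofNat 0, .ofNat 6291841504455579330319159363423249428674399857320919040, .ofNat 0, .ofNat 1021894261778052454335466224441746195152648536064, .ofNat 0⟩)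
    (by decide +kernel)
theorem L04569 : Good (Phi V5.P V5.D (-1) (-1)) ⟨6, 56, 3, 4, 3, 5, 4, 0, 6, 11⟩ :=
  leafX_sound T5.ok_mm T5.Ymm.bz_eq (w := 256) (c := ⟨⟨.negSucc 5558, .negSucc 252, .ofNat 275, .ofNat 651, .ofNat 104, .ofNat 517⟩, ⟨.ofNat 3193, .ofNat 189, .ofNat 169, .negSucc 413, .negSucc 64, .negSucc 329⟩, ⟨.ofNat 3696, .ofNat 153, .negSucc 368, .negSucc 135, .negSucc 166, .negSucc 265⟩, ⟨.negSucc 8128, .negSucc 186, .ofNat 236, .ofNat 831, .ofNat 75, .ofNat 591⟩, ⟨.negSucc 341, .ofNat 91, .negSucc 166, .negSucc 150, .negSucc 118, .negSucc 231⟩, .ofNat 848, .ofNat 954, .ofNat 0, .ofNat 954, .ofNat 1720, .ofNat 0, .ofNat 128, .negSucc 793, .negSucc 225, .ofNat 0, .ofNat 571, .ofNat 151, .ofNat 0, .ofNat 0, .ofNat 419, .ofNat 340134, .ofNat 568196786393160018575099011885927230896962680194596864, .ofNat 0, .ofNat 0, .ofNat 0, .ofNat 1803172385071264930402861205342065487562897275314241536, .ofNat 0, .ofNat 8315581751482393799266870978570875603913801728,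 .ofNat 0, .ofNat 10184115161987379116354555344526093636786468868895801344, .ofNat 0, .ofNat 22052761860345414489681358995575276583138623488, .ofNat 0, .ofNat 736112342703791997071759908845061468723134430453956608, .ofNat 0, .ofNat 17514556198217423784801182778622256940664750080, .ofNat 0⟩)
    (by decide +kernel)
theorem L04570 : Good (Phi V5.P V5.D (-1) (-1)) ⟨6, 57, 3, 4, 3, 5, 4, 0, 5, 5⟩ :=
  out_sound (S := T5.ds_mm) T5.ok_mm (w := 63) (j := 3) (by decide +kernel)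
theorem L04571 : Good (Phi V5.P V5.D (-1) (-1)) ⟨5, 28, 3, 4, 3, 5, 4, 1, 5, 5⟩ :=
  leafX_sound T5.ok_mm T5.Ymm.bz_eq (w := 245) (c := ⟨⟨.negSucc 5618, .negSucc 315, .ofNat 130, .ofNat 337, .ofNat 118, .ofNat 990⟩, ⟨.ofNat 3226, .ofNat 266, .ofNat 270, .negSucc 215, .negSucc 76, .negSucc 631⟩, ⟨.ofNat 3758, .ofNat 261, .negSucc 317, .negSucc 193, .negSucc 125, .negSucc 479⟩, ⟨.negSucc 8212, .negSucc 181, .ofNat 69, .ofNat 383, .ofNat 96, .ofNat 1215⟩, ⟨.negSucc 350, .ofNat 21, .negSucc 91, .negSucc 147, .negSucc 113, .negSucc 307⟩, .ofNat 2063, .ofNat 2820, .ofNat 0, .ofNat 2820, .ofNat 4642, .ofNat 0, .ofNat 128, .negSucc 1689, .negSucc 1067, .ofNat 0, .ofNat 1127, .ofNat 693, .ofNat 0, .ofNat 0, .ofNat 1796, .ofNat 38944, .ofNat 0, .ofNat 0, .ofNat 14272423655926548775037355911110487191846912, .ofNat 0, .ofNat 0, .ofNat 0, .ofNat 12689585419814282489307158482299024048597762048, .ofNat 0, .ofNat 0, .ofNat 0, .ofNat 35589156659656049545982473804514980830403100672,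 .ofNat 0, .ofNat 0, .ofNat 0, .ofNat 6887496074713356542572492340313077122328428544, .ofNat 0⟩)
    (by decide +kernel)
theorem L04572 : Good (Phi V5.P V5.D (-1) (-1)) ⟨5, 29, 3, 4, 3, 5, 3, 0, 4, 2⟩ :=
  out_sound (S := T5.ds_mm) T5.ok_mm (w := 57) (j := 3) (by decide +kernel)
theorem L04573 : Good (Phi V5.P V5.D (-1) (-1)) ⟨6, 56, 3, 4, 3, 5, 3, 1, 5, 4⟩ :=
  leafX_sound T5.ok_mm T5.Ymm.bz_eq (w := 244) (c := ⟨⟨.negSucc 6453, .negSucc 425, .ofNat 219, .ofNat 248, .ofNat 334, .ofNat 945⟩, ⟨.ofNat 3716, .ofNat 306, .ofNat 256, .negSucc 159, .negSucc 214, .negSucc 598⟩, ⟨.ofNat 3862, .ofNat 217, .negSucc 60, .negSucc 187, .negSucc 189, .negSucc 477⟩, ⟨.negSucc 9304, .negSucc 378, .ofNat 187, .ofNat 191, .ofNat 298, .ofNat 1214⟩, ⟨.negSucc 151, .ofNat 140, .negSucc 147, .negSucc 254, .negSucc 283, .negSucc 205⟩, .ofNat 1251, .ofNat 1538, .ofNat 0, .ofNat 1538, .ofNat 2620, .ofNat 0, .ofNat 128, .negSucc 982, .negSucc 1421,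 .ofNat 0, .ofNat 670, .ofNat 917, .ofNat 0, .ofNat 0, .ofNat 1457, .ofNat 10691, .ofNat 0, .ofNat 0, .ofNat 0, .ofNat 0, .ofNat 0, .ofNat 0, .ofNat 33192288951949155463575603831111191984340992, .ofNat 0, .ofNat 0, .ofNat 0, .ofNat 235534777765801479956380841967894970876559360, .ofNat 0, .ofNat 0, .ofNat 0, .ofNat 182885783734758769358258439486011112010285056, .ofNat 0⟩)
    (by decide +kernel)
theorem L04574 : Good (Phi V5.P V5.D (-1) (-1)) ⟨6, 57, 3, 4, 3, 5, 3, 1, 5, 4⟩ :=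
  out_sound (S := T5.ds_mm) T5.ok_mm (w := 63) (j := 3) (by decide +kernel)
theorem L04575 : Good (Phi V5.P V5.D (-1) (-1)) ⟨5, 28, 3, 4, 3, 5, 3, 1, 5, 5⟩ :=
  leafX_sound T5.ok_mm T5.Ymm.bz_eq (w := 241) (c := ⟨⟨.negSucc 5838, .negSucc 695, .ofNat 474, .ofNat 471, .ofNat 262, .ofNat 975⟩, ⟨.ofNat 3396, .ofNat 525, .ofNat 13, .negSucc 302, .negSucc 166, .negSucc 619⟩, ⟨.ofNat 3854, .ofNat 402, .negSucc 427, .negSucc 400, .negSucc 230, .negSucc 550⟩, ⟨.negSucc 8365, .negSucc 515, .ofNat 314, .ofNat 449, .ofNat 296, .ofNat 1232⟩, ⟨.negSucc 264, .ofNat 186, .negSucc 269, .negSucc 350, .negSucc 120, .negSucc 251⟩, .ofNat 2053, .ofNat 2806, .ofNat 0, .ofNat 2806, .ofNat 4623, .ofNat 0, .ofNat 128, .negSucc 1772, .negSucc 1116, .ofNat 0, .ofNat 1179, .ofNat 718, .ofNat 0, .ofNat 0, .ofNat 1678, .ofNat 14487, .ofNat 0, .ofNat 0, .ofNat 1391305939959725805310936246655695491956736, .ofNat 0, .ofNat 0, .ofNat 0, .ofNat 798340455539879155993805381805924418525855744,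 .ofNat 0, .ofNat 0, .ofNat 0, .ofNat 0, .ofNat 0, .ofNat 0, .ofNat 0, .ofNat 371939659163802704133227379871681503981207552, .ofNat 0⟩)
    (by decide +kernel)
theorem L04576 : Good (Phi V5.P V5.D (-1) (-1)) ⟨5, 29, 3, 4, 3, 5, 3, 1, 4, 2⟩ :=
  out_sound (S := T5.ds_mm) T5.ok_mm (w := 57) (j := 3) (by decide +kernel)
theorem L04577 : Good (Phi V5.P V5.D (-1) (-1)) ⟨4, 15, 3, 4, 3, 5, 2, 0, 4, 2⟩ :=
  out_sound (S := T5.ds_mm) T5.ok_mm (w := 51) (j := 3) (by decide +kernel)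
theorem L04578 : Good (Phi V5.P V5.D (-1) (-1)) ⟨2, 2, 3, 4, 2, 2, 2, 0, 4, 3⟩ :=
  out_sound (S := T5.ds_mm) T5.ok_mm (w := 39) (j := 3) (by decide +kernel)
theorem L04579 : Good (Phi V5.P V5.D (-1) (-1)) ⟨4, 12, 3, 4, 2, 2, 2, 0, 4, 3⟩ :=
  out_sound (S := T5.ds_mm) T5.ok_mm (w := 51) (j := 3) (by decide +kernel)
theorem L04580 : Good (Phi V5.P V5.D (-1) (-1)) ⟨4, 13, 3, 4, 3, 4, 2, 0, 4, 3⟩ :=
  leafX_sound T5.ok_mm T5.Ymm.bz_eq (w := 225) (c := ⟨⟨.negSucc 3997, .negSucc 325, .negSucc 51, .ofNat 68, .ofNat 166, .ofNat 883⟩, ⟨.ofNat 2192, .ofNat 222, .ofNat 355, .negSucc 41, .negSucc 97, .negSucc 517⟩, ⟨.ofNat 3189, .ofNat 268, .negSucc 83, .negSucc 398, .negSucc 332, .negSucc 454⟩, ⟨.negSucc 6412, .negSucc 144, .negSucc 106, .negSucc 116, .ofNat 296, .ofNat 1281⟩, ⟨.negSucc 610, .ofNat 50, .negSucc 35, .negSucc 358, .ofNat 109, .negSucc 37⟩, .ofNat 365, .ofNat 259, .ofNat 0, .ofNat 259, .ofNat 643, .ofNat 0, .ofNat 128,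 .negSucc 274, .negSucc 162, .ofNat 0, .ofNat 238, .ofNat 101, .ofNat 0, .ofNat 0, .ofNat 407, .ofNat 6187, .ofNat 9036302111797281367398815824123282579410386944, .ofNat 0, .ofNat 7251152235993568160166042232449679753216, .ofNat 0, .ofNat 0, .ofNat 0, .ofNat 46555154795664846881197159751757355548672, .ofNat 0, .ofNat 0, .ofNat 0, .ofNat 177623252921239853036921242986749041311744, .ofNat 0, .ofNat 31734946811518649299195635011460838908718219264, .ofNat 0, .ofNat 193400132710349345430951214167983617212416, .ofNat 0⟩)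
    (by decide +kernel)
theorem L04581 : Good (Phi V5.P V5.D (-1) (-1)) ⟨4, 13, 3, 4, 3, 5, 4, 0, 4, 3⟩ :=
  leafX_sound T5.ok_mm T5.Ymm.bz_eq (w := 241) (c := ⟨⟨.negSucc 3583, .negSucc 668, .ofNat 204, .negSucc 1, .ofNat 11, .ofNat 2⟩, ⟨.ofNat 1877, .ofNat 466, .ofNat 207, .ofNat 1, .ofNat 21, .negSucc 0⟩, ⟨.ofNat 2726, .ofNat 541, .negSucc 378, .ofNat 1, .negSucc 128, .negSucc 0⟩, ⟨.negSucc 6152, .negSucc 462, .ofNat 164, .negSucc 2, .ofNat 33, .ofNat 3⟩, ⟨.negSucc 1058, .ofNat 241, .negSucc 142, .negSucc 0, .negSucc 36, .ofNat 1⟩, .ofNat 366, .ofNat 260, .ofNat 0, .ofNat 260, .ofNat 643, .ofNat 0, .ofNat 128, .negSucc 180, .negSucc 152, .ofNat 0, .ofNat 156, .ofNat 104, .ofNat 0, .ofNat 0, .ofNat 311, .ofNat 4037353, .ofNat 706282599983600636564356971573231354251717348687872, .ofNat 0, .ofNat 0, .ofNat 0, .ofNat 474253514999903877892152545966677114366568536473600, .ofNat 0, .ofNat 0, .ofNat 0, .ofNat 552858933477809574611973657110229893560296089321472,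 .ofNat 0, .ofNat 35227313813705025443271938053424383036227584, .ofNat 0, .ofNat 478754942106464222246205438001655165407729408802816, .ofNat 0, .ofNat 30670878001993740429076648478788594041880576, .ofNat 0⟩)
    (by decide +kernel)
theorem L04582 : Good (Phi V5.P V5.D (-1) (-1)) ⟨4, 13, 3, 4, 3, 5, 4, 1, 4, 3⟩ :=
  leafX_sound T5.ok_mm T5.Ymm.bz_eq (w := 235) (c := ⟨⟨.negSucc 4128, .negSucc 284, .ofNat 14, .ofNat 404, .ofNat 60, .ofNat 1136⟩, ⟨.ofNat 2252, .ofNat 208, .ofNat 308, .negSucc 243, .negSucc 30, .negSucc 669⟩, ⟨.ofNat 2926, .ofNat 282, .negSucc 215, .negSucc 321, .negSucc 151, .negSucc 626⟩, ⟨.negSucc 6718, .negSucc 93, .negSucc 66, .ofNat 417, .ofNat 89, .ofNat 1553⟩, ⟨.negSucc 809, .ofNat 38, .negSucc 91, .negSucc 282, .ofNat 1, .negSucc 191⟩, .ofNat 755, .ofNat 839, .ofNat 0, .ofNat 839, .ofNat 1642, .ofNat 0, .ofNat 128, .negSucc 473, .negSucc 193, .ofNat 0, .ofNat 339, .ofNat 122, .ofNat 0, .ofNat 0, .ofNat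 542, .ofNat 33841, .ofNat 1619149405410131210240390952407442471008532955136, .ofNat 0, .ofNat 3857886002191174183721390997161429516156928, .ofNat 0, .ofNat 0, .ofNat 0, .ofNat 19800861245144067454456476043799036952576000, .ofNat 0, .ofNat 1267811176584446966530688403446336936483886202880, .ofNat 0, .ofNat 382624654924537595408012147635348328989851648, .ofNat 0, .ofNat 6471464643601728468796933772504401530036959576064, .ofNat 0, .ofNat 107293122071216031909680659136747635461849088, .ofNat 0⟩)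
    (by decide +kernel)
theorem L04583 : Good (Phi V5.P V5.D (-1) (-1)) ⟨4, 13, 3, 4, 3, 5, 3, 1, 4, 3⟩ :=
  leafX_sound T5.ok_mm T5.Ymm.bz_eq (w := 230) (c := ⟨⟨.negSucc 4026, .negSucc 351, .ofNat 71, .ofNat 461, .ofNat 172, .ofNat 1042⟩, ⟨.ofNat 2191, .ofNat 253, .ofNat 245, .negSucc 272, .negSucc 96, .negSucc 606⟩, ⟨.ofNat 2830, .ofNat 311, .negSucc 213, .negSucc 482, .negSucc 303, .negSucc 640⟩, ⟨.negSucc 6590, .negSucc 168, .negSucc 19, .ofNat 462, .ofNat 249, .ofNat 1484⟩, ⟨.negSucc 816, .ofNat 35, .negSucc 85, .negSucc 369, .negSucc 12, .negSucc 85⟩, .ofNat 742, .ofNat 821, .ofNat 0, .ofNat 821, .ofNat 1628, .ofNat 0, .ofNat 128, .negSucc 472, .negSucc 270, .ofNat 0, .ofNat 336, .ofNat 166, .ofNat 0, .ofNat 0, .ofNat 713, .ofNat 9193, .ofNat 0, .ofNat 0, .ofNat 0, .ofNat 0, .ofNat 0, .ofNat 0, .ofNat 1460017423496628868051750851302028463833088, .ofNat 0, .ofNat 0, .ofNat 0, .ofNat 2374848936380147206040715573917414080905216,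 .ofNat 0, .ofNat 0, .ofNat 0, .ofNat 0, .ofNat 0⟩)
    (by decide +kernel)
theorem L04584 : Good (Phi V5.P V5.D (-1) (-1)) ⟨5, 28, 3, 4, 3, 4, 3, 0, 4, 3⟩ :=
  leafX_sound T5.ok_mm T5.Ymm.bz_eq (w := 236) (c := ⟨⟨.negSucc 4392, .negSucc 403, .ofNat 164, .negSucc 135, .ofNat 24, .ofNat 1152⟩, ⟨.ofNat 2496, .ofNat 314, .ofNat 195, .ofNat 83, .negSucc 14, .negSucc 728⟩, ⟨.ofNat 3441, .ofNat 295, .negSucc 229, .negSucc 270, .negSucc 88, .negSucc 504⟩, ⟨.negSucc 6548, .negSucc 269, .ofNat 78, .negSucc 353, .ofNat 82, .ofNat 1509⟩, ⟨.negSucc 516, .ofNat 107, .negSucc 113, .negSucc 257, .ofNat 73, .negSucc 208⟩, .ofNat 2051, .ofNat 2804, .ofNat 0, .ofNat 2804, .ofNat 4624, .ofNat 0, .ofNat 128, .negSucc 1306, .negSucc 442, .ofNat 0, .ofNat 876, .ofNat 286, .ofNat 0, .ofNat 0, .ofNat 1021, .ofNat 72201, .ofNat 18397089718336207180946514137338045537301775253504, .ofNat 0, .ofNat 439992813377228263007041812915365676580864, .ofNat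 0, .ofNat 33753135645735105578123577630076057877667563700224, .ofNat 0, .ofNat 28689065272610230175528204536191368504016896, .ofNat 0, .ofNat 0, .ofNat 0, .ofNat 0, .ofNat 0, .ofNat 269487897369139603643858912689830374860000682049536, .ofNat 0, .ofNat 8749788049889724914335695423288384608534528, .ofNat 0⟩)
    (by decide +kernel)
theorem L04585 : Good (Phi V5.P V5.D (-1) (-1)) ⟨5, 28, 3, 4, 3, 4, 3, 1, 4, 3⟩ :=
  leafX_sound T5.ok_mm T5.Ymm.bz_eq (w := 235) (c := ⟨⟨.negSucc 4541, .negSucc 374, .ofNat 267, .ofNat 86, .ofNat 88, .ofNat 983⟩, ⟨.ofNat 2614, .ofNat 286, .ofNat 105, .negSucc 59, .negSucc 53, .negSucc 621⟩, ⟨.ofNat 3512, .ofNat 272, .negSucc 269, .negSucc 463, .negSucc 148, .negSucc 552⟩, ⟨.negSucc 6669, .negSucc 250, .ofNat 194, .negSucc 111, .ofNat 162, .ofNat 1355⟩, ⟨.negSucc 371, .ofNat 108, .negSucc 169, .negSucc 364, .ofNat 55, .negSucc 79⟩, .ofNat 845, .ofNat 950, .ofNat 0, .ofNat 950, .ofNat 1718, .ofNat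 0, .ofNat 128, .negSucc 566, .negSucc 248, .ofNat 0, .ofNat 410, .ofNat 161, .ofNat 0, .ofNat 0, .ofNat 628, .ofNat 18867, .ofNat 0, .ofNat 0, .ofNat 0, .ofNat 0, .ofNat 0, .ofNat 0, .ofNat 2357985629690772087187069853458081393934336, .ofNat 0, .ofNat 0, .ofNat 0, .ofNat 6669098397779074274999571043777320667054080, .ofNat 0, .ofNat 6192798554238256533928069942269078902823897268224, .ofNat 0, .ofNat 5419241559233162453438617037566823553302528, .ofNat 0⟩)
    (by decide +kernel)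
theorem L04586 : Good (Phi V5.P V5.D (-1) (-1)) ⟨5, 29, 3, 4, 3, 4, 2, 0, 4, 3⟩ :=
  out_sound (S := T5.ds_mm) T5.ok_mm (w := 57) (j := 3) (by decide +kernel)
theorem L04587 : Good (Phi V5.P V5.D (-1) (-1)) ⟨6, 56, 3, 4, 3, 5, 4, 0, 5, 6⟩ :=
  leafX_sound T5.ok_mm T5.Ymm.bz_eq (w := 255) (c := ⟨⟨.negSucc 4252, .negSucc 167, .ofNat 202, .negSucc 1, .ofNat 12, .ofNat 2⟩, ⟨.ofNat 2377, .ofNat 124, .ofNat 201, .ofNat 1, .negSucc 6, .negSucc 0⟩, ⟨.ofNat 3216, .ofNat 124, .negSucc 362, .ofNat 2, .negSucc 91, .negSucc 1⟩, ⟨.negSucc 6591, .negSucc 107, .ofNat 148, .negSucc 2, .ofNat 22, .ofNat 3⟩, ⟨.negSucc 828, .ofNat 56, .negSucc 137, .ofNat 0, .negSucc 30, .ofNat 0⟩, .ofNat 382, .ofNat 285, .ofNat 0, .ofNat 285, .ofNat 643, .ofNat 0, .ofNat 128, .negSucc 198, .negSucc 160, .ofNat 0, .ofNat 174, .ofNat 115, .ofNat 0, .ofNat 0, .ofNat 317, .ofNat 5917723, .ofNat 1046111120974003740022999674924659016315094339084615680, .ofNat 0,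 .ofNat 0, .ofNat 0, .ofNat 1175296800187428993640206716142974244146698180366434304, .ofNat 0, .ofNat 46339458550886651689078923203391182187003904, .ofNat 0, .ofNat 1443730120726993504348189649629376001638036561880678400, .ofNat 0, .ofNat 193995542105244390324417117750343347925417984, .ofNat 0, .ofNat 1133492384313862309930296788136971506364038602247110656, .ofNat 0, .ofNat 191177904798295747848851872546186046409277440, .ofNat 0⟩)
    (by decide +kernel)
theorem L04588 : Good (Phi V5.P V5.D (-1) (-1)) ⟨6, 56, 3, 4, 3, 5, 4, 1, 5, 6⟩ :=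
  leafX_sound T5.ok_mm T5.Ymm.bz_eq (w := 249) (c := ⟨⟨.negSucc 4793, .negSucc 165, .ofNat 262, .ofNat 490, .ofNat 79, .ofNat 731⟩, ⟨.ofNat 2725, .ofNat 119, .ofNat 163, .negSucc 314, .negSucc 50, .negSucc 465⟩, ⟨.ofNat 3343, .ofNat 88, .negSucc 241, .negSucc 377, .negSucc 175, .negSucc 382⟩, ⟨.negSucc 7148, .negSucc 98, .ofNat 202, .ofNat 481, .ofNat 64, .ofNat 937⟩, ⟨.negSucc 563, .ofNat 56, .negSucc 152, .negSucc 337, .negSucc 76, .negSucc 161⟩, .ofNat 2049, .ofNat 2800, .ofNat 0, .ofNat 2800, .ofNat 4615, .ofNat 0, .ofNat 128, .negSucc 1125, .negSucc 443, .ofNat 0, .ofNat 759, .ofNat 289, .ofNat 0, .ofNat 0, .ofNat 1033, .ofNat 70159, .ofNat 3466823792390388012659170496657723801503540201914368, .ofNat 0, .ofNat 56922345651102445771956961807564690142789632, .ofNat 0, .ofNat 5290846428935199114232736386412734217623441741185024, .ofNat 0, .ofNat 6231504892073549840032706384823068369883234304, .ofNat 0, .ofNat 0, .ofNat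 0, .ofNat 1479293486636378153110126937820043192848875520, .ofNat 0, .ofNat 71265393936704975923854128781696113864623947329306624, .ofNat 0, .ofNat 913811777086705557223129407555268358952714240, .ofNat 0⟩)
    (by decide +kernel)
theorem L04589 : Good (Phi V5.P V5.D (-1) (-1)) ⟨6, 57, 3, 4, 3, 5, 3, 0, 5, 6⟩ :=
  out_sound (S := T5.ds_mm) T5.ok_mm (w := 63) (j := 3) (by decide +kernel)
theorem L04590 : Good (Phi V5.P V5.D (-1) (-1)) ⟨5, 28, 3, 4, 3, 5, 3, 1, 5, 6⟩ :=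
  leafX_sound T5.ok_mm T5.Ymm.bz_eq (w := 241) (c := ⟨⟨.negSucc 4459, .negSucc 160, .negSucc 40, .ofNat 538, .ofNat 203, .ofNat 694⟩, ⟨.ofNat 2530, .ofNat 132, .ofNat 335, .negSucc 345, .negSucc 127, .negSucc 440⟩, ⟨.ofNat 3254, .ofNat 268, .negSucc 266, .negSucc 509, .negSucc 293, .negSucc 412⟩, ⟨.negSucc 6809, .negSucc 64, .negSucc 107, .ofNat 505, .ofNat 259, .ofNat 910⟩, ⟨.negSucc 759, .negSucc 23, .ofNat 16, .negSucc 411, .negSucc 49, .negSucc 123⟩, .ofNat 2047, .ofNat 2798, .ofNat 0, .ofNat 2798, .ofNat 4614, .ofNat 0, .ofNat 128, .negSucc 1556, .negSucc 609, .ofNat 0, .ofNat 1047, .ofNat 393, .ofNat 0, .ofNat 0, .ofNat 1306, .ofNat 24296, .ofNat 0, .ofNat 0, .ofNat 0, .ofNat 0, .ofNat 0, .ofNat 0, .ofNat 1078471283166713800606738183954721576593653760, .ofNat 0, .ofNat 0, .ofNat 0, .ofNat 856197459892367531637598131890094669115162624, .ofNat 0, .ofNat 0, .ofNat 0, .ofNat 119030339507202337231735688610113117189308416,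 .ofNat 0⟩)
    (by decide +kernel)
theorem L04591 : Good (Phi V5.P V5.D (-1) (-1)) ⟨5, 28, 4, 8, 3, 5, 2, 0, 5, 7⟩ :=
  out_sound (S := T5.ds_mm) T5.ok_mm (w := 59) (j := 3) (by decide +kernel)
theorem L04592 : Good (Phi V5.P V5.D (-1) (-1)) ⟨5, 28, 4, 9, 3, 5, 3, 0, 5, 7⟩ :=
  leafX_sound T5.ok_mm T5.Ymm.bz_eq (w := 245) (c := ⟨⟨.negSucc 3917, .negSucc 102, .ofNat 24, .ofNat 519, .ofNat 98, .ofNat 511⟩, ⟨.ofNat 2346, .ofNat 62, .ofNat 141, .negSucc 334, .negSucc 65, .negSucc 324⟩, ⟨.ofNat 3083, .ofNat 77, .negSucc 96, .negSucc 458, .negSucc 387, .negSucc 305⟩, ⟨.negSucc 6126, .negSucc 0, .negSucc 1, .ofNat 507, .ofNat 121, .ofNat 688⟩, ⟨.negSucc 872, .ofNat 11, .negSucc 18, .negSucc 365, .negSucc 13, .negSucc 62⟩, .ofNat 2053, .ofNat 2804, .ofNat 0, .ofNat 2804, .ofNat 4617, .ofNat 0, .ofNat 128, .negSucc 1024, .negSucc 198, .ofNat 0, .ofNat 699, .ofNat 130, .ofNat 0, .ofNat 0, .ofNat 633, .ofNat 165795, .ofNat 2064960376081100584020745660515837855936609075068928,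 .ofNat 0, .ofNat 51257500198252931979551052336721374750965760, .ofNat 0, .ofNat 0, .ofNat 0, .ofNat 2189882308684847498328437986354171751702724608, .ofNat 0, .ofNat 0, .ofNat 0, .ofNat 2031146023756130683437536861579721270697656320, .ofNat 0, .ofNat 7343678487398416604276775491405810414612898518138880, .ofNat 0, .ofNat 769124464870549534246002777446981650148753408, .ofNat 0⟩)
    (by decide +kernel)
theorem L04593 : Good (Phi V5.P V5.D (-1) (-1)) ⟨5, 28, 4, 9, 3, 5, 3, 1, 5, 7⟩ :=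
  leafX_sound T5.ok_mm T5.Ymm.bz_eq (w := 243) (c := ⟨⟨.negSucc 3762, .ofNat 55, .negSucc 56, .ofNat 525, .ofNat 172, .ofNat 500⟩, ⟨.ofNat 2248, .negSucc 40, .ofNat 187, .negSucc 337, .negSucc 107, .negSucc 315⟩, ⟨.ofNat 2686, .negSucc 61, .ofNat 5, .negSucc 555, .negSucc 338, .negSucc 320⟩, ⟨.negSucc 5960, .ofNat 108, .negSucc 65, .ofNat 503, .ofNat 250, .ofNat 698⟩, ⟨.negSucc 935, .negSucc 127, .ofNat 53, .negSucc 386, .ofNat 8, .negSucc 23⟩, .ofNat 845, .ofNat 950, .ofNat 0, .ofNat 950, .ofNat 1716, .ofNat 0, .ofNat 128, .negSucc 617, .negSucc 222, .ofNat 0, .ofNat 454, .ofNat 146, .ofNat 0, .ofNat 0, .ofNat 658, .ofNat 28369, .ofNat 0, .ofNat 0, .ofNat 0, .ofNat 0, .ofNat 0, .ofNat 0, .ofNat 413369602168109012732096592398782529152221184, .ofNat 0, .ofNat 0, .ofNat 0, .ofNat 2990880017166306660407024279393187875413557248, .ofNat 0, .ofNat 0, .ofNat 0, .ofNat 1163542785091010827052260634323078652752822272, .ofNat 0⟩)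
    (by decide +kernel)
theorem L04594 : Good (Phi V5.P V5.D (-1) (-1)) ⟨5, 29, 3, 4, 3, 5, 2, 0, 4, 3⟩ :=
  out_sound (S := T5.ds_mm) T5.ok_mm (w := 57) (j := 3) (by decide +kernel)
theorem L04595 : Good (Phi V5.P V5.D (-1) (-1)) ⟨4, 15, 3, 4, 2, 2, 2, 0, 4, 3⟩ :=
  out_sound (S := T5.ds_mm) T5.ok_mm (w := 51) (j := 3) (by decide +kernel)
theorem L04596 : Good (Phi V5.P V5.D (-1) (-1)) ⟨2, 2, 3, 5, 2, 2, 3, 0, 4, 0⟩ :=
  out_sound (S := T5.ds_mm) T5.ok_mm (w := 39) (j := 3) (by decide +kernel)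
theorem L04597 : Good (Phi V5.P V5.D (-1) (-1)) ⟨3, 6, 4, 10, 3, 4, 4, 0, 4, 0⟩ :=
  out_sound (S := T5.ds_mm) T5.ok_mm (w := 47) (j := 3) (by decide +kernel)
theorem L04598 : Good (Phi V5.P V5.D (-1) (-1)) ⟨6, 56, 4, 10, 3, 4, 4, 0, 5, 0⟩ :=
  leafX_sound T5.ok_mm T5.Ymm.bz_eq (w := 253) (c := ⟨⟨.ofNat 4989, .ofNat 3699, .negSucc 2492, .ofNat 3464, .negSucc 1011, .negSucc 688⟩, ⟨.negSucc 3043, .negSucc 2784, .ofNat 1772, .negSucc 2273, .ofNat 671, .ofNat 441⟩, ⟨.negSucc 2434, .negSucc 289, .negSucc 142, .ofNat 265, .negSucc 476, .negSucc 214⟩, ⟨.ofNat 5437, .ofNat 3269, .negSucc 1926, .ofNat 4014, .negSucc 822, .negSucc 1790⟩, ⟨.negSucc 3337, .negSucc 1387, .ofNat 1393, .negSucc 1405, .ofNat 961, .negSucc 1329⟩, .ofNat 1452, .ofNat 1847, .ofNat 0, .ofNat 1847, .ofNat 3057, .ofNat 0, .ofNat 128, .negSucc 3899, .negSucc 1241, .ofNat 0, .ofNat 2577, .ofNat 806, .ofNat 0, .ofNat 0, .ofNat 1495, .ofNat 18287, .ofNat 0, .ofNat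 0, .ofNat 273704544023973484369678172509953875148537856, .ofNat 0, .ofNat 28188311899687398118213471346939235762401569132249088, .ofNat 0, .ofNat 3076311966863910866762628270314058453138538496, .ofNat 0, .ofNat 0, .ofNat 0, .ofNat 40509305251361388368487854924980762780192735232, .ofNat 0, .ofNat 0, .ofNat 0, .ofNat 13810197590163329614496866766417273250151137280, .ofNat 0⟩)
    (by decide +kernel)
theorem L04599 : Good (Phi V5.P V5.D (-1) (-1)) ⟨6, 57, 4, 10, 3, 4, 4, 0, 5, 0⟩ :=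
  leafX_sound T5.ok_mm T5.Ymm.bz_eq (w := 251) (c := ⟨⟨.ofNat 6985, .negSucc 309, .ofNat 452, .ofNat 3045, .negSucc 941, .negSucc 144⟩, ⟨.negSucc 4622, .negSucc 17, .negSucc 322, .negSucc 2031, .ofNat 634, .ofNat 90⟩, ⟨.negSucc 3044, .negSucc 570, .ofNat 411, .ofNat 425, .negSucc 376, .negSucc 402⟩, ⟨.ofNat 7269, .negSucc 260, .ofNat 278, .ofNat 3561, .negSucc 799, .negSucc 1075⟩, ⟨.negSucc 4046, .ofNat 351, .ofNat 3, .negSucc 1314, .ofNat 870, .negSucc 1404⟩, .ofNat 870, .ofNat 952, .ofNat 0, .ofNat 952, .ofNat 1626, .ofNat 0, .ofNat 128, .negSucc 3075, .negSucc 989, .ofNat 0, .ofNat 2098, .ofNat 656, .ofNat 0, .ofNat 0, .ofNat 1058, .ofNat 8361, .ofNat 0, .ofNat 0, .ofNat 220659442403270901418682631428770778797047808, .ofNat 0, .ofNat 0, .ofNat 0, .ofNat 728352984493581149036727697910750422637740032, .ofNat 5682426103585596306835590035064776892192449583715975168, .ofNat 0, .ofNat 0, .ofNat 25418178360031339758651296878623418172577939456,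 .ofNat 0, .ofNat 0, .ofNat 0, .ofNat 0, .ofNat 0⟩)
    (by decide +kernel)
theorem L04600 : Good (Phi V5.P V5.D (-1) (-1)) ⟨5, 28, 4, 10, 3, 4, 5, 0, 5, 1⟩ :=
  leafX_sound T5.ok_mm T5.Ymm.bz_eq (w := 253) (c := ⟨⟨.ofNat 4719, .ofNat 72, .ofNat 1558, .ofNat 7158, .negSucc 567, .negSucc 4507⟩, ⟨.negSucc 3109, .ofNat 237, .negSucc 1386, .negSucc 4715, .ofNat 380, .ofNat 2947⟩, ⟨.negSucc 1479, .negSucc 1660, .ofNat 189, .negSucc 1700, .negSucc 84, .ofNat 1299⟩, ⟨.ofNat 3844, .ofNat 824, .ofNat 1032, .ofNat 7706, .negSucc 665, .negSucc 5654⟩, ⟨.negSucc 4156, .negSucc 510, .negSucc 244, .negSucc 3694, .ofNat 236, .ofNat 1094⟩, .ofNat 2570, .ofNat 3504, .ofNat 0, .ofNat 3504, .ofNat 5521, .ofNat 0, .ofNat 128, .negSucc 2387, .negSucc 1188, .ofNat 0, .ofNat 1588, .ofNat 786, .ofNat 0, .ofNat 0, .ofNat 1074, .ofNat 13300, .ofNat 0, .ofNat 0, .ofNat 11609615486649466956610858511017954931350962176, .ofNat 0, .ofNat 18548135910863458888076029646003418625594016462274560,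 .ofNat 0, .ofNat 467213587755816183408399464148084820777780641792, .ofNat 19664369942101019068730041146898204883620168078576320512, .ofNat 741514397707475134853843973100309039264760099420241920, .ofNat 0, .ofNat 545833255993196081429820030123761924104863612928, .ofNat 828904967759072285901235123112451573596685971045748834304, .ofNat 0, .ofNat 0, .ofNat 312857753853403019108674449043314751158878208000, .ofNat 143089592027142946927594704258133209529842289738222927872⟩)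
    (by decide +kernel)
theorem L04601 : Good (Phi V5.P V5.D (-1) (-1)) ⟨5, 28, 4, 10, 3, 4, 5, 1, 5, 1⟩ :=
  leafX_sound T5.ok_mm T5.Ymm.bz_eq (w := 253) (c := ⟨⟨.ofNat 3354, .ofNat 5533, .negSucc 2204, .ofNat 6186, .negSucc 908, .negSucc 3785⟩, ⟨.negSucc 1830, .negSucc 5125, .ofNat 2078, .negSucc 4100, .ofNat 621, .ofNat 2513⟩, ⟨.negSucc 2505, .ofNat 2037, .negSucc 1357, .negSucc 1686, .ofNat 162, .ofNat 1130⟩, ⟨.ofNat 3230, .ofNat 3116, .negSucc 1006, .ofNat 6785, .negSucc 860, .negSucc 5053⟩, ⟨.negSucc 3608, .negSucc 2064, .ofNat 1027, .negSucc 2926, .ofNat 636, .ofNat 361⟩, .ofNat 2570, .ofNat 3504, .ofNat 0, .ofNat 3504, .ofNat 5521, .ofNat 0, .ofNat 128, .negSucc 1708, .negSucc 1636, .ofNat 0, .ofNat 1138, .ofNat 1081, .ofNat 0, .ofNat 0, .ofNat 1457, .ofNat 4506, .ofNat 0, .ofNat 0, .ofNat 11935257116776123259103741398658363498520641536, .ofNat 0, .ofNat 0, .ofNat 0, .ofNat 439844201310822215189400714734664532787105628160,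 .ofNat 52799745209632757733107645236671236322657647514508853248, .ofNat 0, .ofNat 0, .ofNat 366882210011025226800938194254376170766959902720, .ofNat 0, .ofNat 0, .ofNat 0, .ofNat 449462667816183006712410682980965361328697901056, .ofNat 0⟩)
    (by decide +kernel)
theorem L04602 : Good (Phi V5.P V5.D (-1) (-1)) ⟨5, 29, 4, 10, 3, 4, 4, 0, 4, 0⟩ :=
  out_sound (S := T5.ds_mm) T5.ok_mm (w := 59) (j := 3) (by decide +kernel)
theorem L04603 : Good (Phi V5.P V5.D (-1) (-1)) ⟨4, 15, 4, 10, 3, 4, 4, 0, 4, 0⟩ :=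
  out_sound (S := T5.ds_mm) T5.ok_mm (w := 53) (j := 3) (by decide +kernel)
theorem L04604 : Good (Phi V5.P V5.D (-1) (-1)) ⟨3, 6, 4, 10, 3, 5, 4, 0, 4, 0⟩ :=
  out_sound (S := T5.ds_mm) T5.ok_mm (w := 47) (j := 3) (by decide +kernel)
theorem L04605 : Good (Phi V5.P V5.D (-1) (-1)) ⟨5, 28, 4, 10, 3, 5, 4, 0, 5, 0⟩ :=
  leafX_sound T5.ok_mm T5.Ymm.bz_eq (w := 247) (c := ⟨⟨.ofNat 9579, .ofNat 2115, .negSucc 562, .negSucc 3070, .negSucc 2425, .ofNat 2464⟩, ⟨.negSucc 6140, .negSucc 1702, .ofNat 245, .ofNat 2019, .ofNat 1600, .negSucc 1621⟩, ⟨.negSucc 1813, .negSucc 948, .ofNat 394, .ofNat 1926, .negSucc 413, .negSucc 1222⟩, ⟨.ofNat 10377, .ofNat 2293, .negSucc 769, .negSucc 2940, .negSucc 2355, .ofNat 1599⟩, ⟨.negSucc 5010, .negSucc 1453, .ofNat 1010, .ofNat 2121, .ofNat 1831, .negSucc 2984⟩, .ofNat 902, .ofNat 1021, .ofNat 0, .ofNat 1021, .ofNat 1781, .ofNat 0, .ofNat 128, .negSucc 3999, .negSucc 897, .ofNat 0, .ofNat 2624,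 .ofNat 587, .ofNat 0, .ofNat 0, .ofNat 1217, .ofNat 7354, .ofNat 0, .ofNat 0, .ofNat 381020328211354331678332068672063185056956416, .ofNat 0, .ofNat 0, .ofNat 0, .ofNat 4280460503740136160093768868362602519810015232, .ofNat 737226340719722548628726856320956751151936298089971712, .ofNat 286554290531571152631269593915092195274699598731411456, .ofNat 0, .ofNat 43594819965683301459571079654186832131122003968, .ofNat 0, .ofNat 0, .ofNat 0, .ofNat 5088705190202635379307182109567543030801498112, .ofNat 0⟩)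
    (by decide +kernel)
theorem L04606 : Good (Phi V5.P V5.D (-1) (-1)) ⟨5, 29, 4, 10, 3, 5, 4, 0, 5, 0⟩ :=
  out_sound (S := T5.ds_mm) T5.ok_mm (w := 59) (j := 3) (by decide +kernel)
theorem L04607 : Good (Phi V5.P V5.D (-1) (-1)) ⟨6, 56, 4, 10, 3, 5, 4, 0, 6, 2⟩ :=
  leafX_sound T5.ok_mm T5.Ymm.bz_eq (w := 263) (c := ⟨⟨.ofNat 13055, .ofNat 605, .ofNat 1338, .negSucc 2698, .negSucc 4098, .ofNat 466⟩, ⟨.negSucc 8358, .negSucc 694, .negSucc 877, .ofNat 1774, .ofNat 2698, .negSucc 317⟩, ⟨.negSucc 3388, .negSucc 372, .negSucc 115, .ofNat 1817, .ofNat 178, .negSucc 540⟩, ⟨.ofNat 12971, .ofNat 1090, .ofNat 1695, .negSucc 3368, .negSucc 4411, .ofNat 445⟩, ⟨.negSucc 8880, .ofNat 969, .negSucc 54, .ofNat 635, .ofNat 2094, .negSucc 319⟩, .ofNat 5174, .ofNat 7517, .ofNat 0, .ofNat 7517, .ofNat 11731, .ofNat 0, .ofNat 128, .negSucc 6008, .negSucc 2444, .ofNat 0, .ofNat 3931, .ofNat 1598, .ofNat 0, .ofNat 0, .ofNat 2211, .ofNat 15519,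 .ofNat 0, .ofNat 0, .ofNat 9534499200438154706138569461799854682885062656, .ofNat 0, .ofNat 69269524806922411042075357219108811380235541124481024, .ofNat 0, .ofNat 608834506688202491768661342338069073520003907584, .ofNat 0, .ofNat 119210694439916499765208182232706564991251441931645878272, .ofNat 0, .ofNat 1921268744614905815457459401005295101526830743552, .ofNat 0, .ofNat 10097606437908005908938273698130340947994641521008705536, .ofNat 0, .ofNat 828580920073312781199222918082261457374755684352, .ofNat 0⟩)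
    (by decide +kernel)
theorem L04608 : Good (Phi V5.P V5.D (-1) (-1)) ⟨6, 56, 4, 10, 3, 5, 4, 0, 6, 3⟩ :=
  leafX_sound T5.ok_mm T5.Ymm.bz_eq (w := 260) (c := ⟨⟨.ofNat 10377, .ofNat 6417, .negSucc 2431, .negSucc 1149, .negSucc 4545, .negSucc 1738⟩, ⟨.negSucc 6619, .negSucc 4509, .ofNat 1613, .ofNat 762, .ofNat 3001, .ofNat 1128⟩, ⟨.negSucc 3203, .negSucc 1860, .ofNat 516, .ofNat 1247, .ofNat 588, .ofNat 295⟩, ⟨.ofNat 9847, .ofNat 6675, .negSucc 2331, .negSucc 1877, .negSucc 4592, .negSucc 2463⟩, ⟨.negSucc 7859, .negSucc 3182, .ofNat 2139, .negSucc 507, .ofNat 2829, .ofNat 12⟩, .ofNat 2376, .ofNat 3246, .ofNat 0, .ofNat 3246, .ofNat 5192, .ofNat 0, .ofNat 128, .negSucc 4464, .negSucc 3700, .ofNat 0, .ofNat 2925, .ofNat 2419, .ofNat 0, .ofNat 0, .ofNat 2560, .ofNat 8816, .ofNat 309065673121451207188092200243434646620343464418607104, .ofNat 0, .ofNat 3185143390577346089616731900539239432944877568, .ofNat 0, .ofNat 0, .ofNat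 0, .ofNat 182203781763229162991242592259270399475989872640, .ofNat 0, .ofNat 72856720865719790963311243344889361333171315506849775616, .ofNat 0, .ofNat 647569573460475696206287823100004144736748175360, .ofNat 0, .ofNat 20713250410676417234904174750616948625372911211200380928, .ofNat 0, .ofNat 884037585592131460940452493647605694743894294528, .ofNat 0⟩)
    (by decide +kernel)
theorem L04609 : Good (Phi V5.P V5.D (-1) (-1)) ⟨7, 114, 4, 10, 4, 10, 5, 0, 6, 2⟩ :=
  leafX_sound T5.ok_mm T5.Ymm.bz_eq (w := 280) (c := ⟨⟨.ofNat 13860, .ofNat 1663, .ofNat 220, .ofNat 827, .negSucc 3418, .ofNat 1601⟩, ⟨.negSucc 9664, .negSucc 1718, .ofNat 758, .negSucc 551, .ofNat 2285, .negSucc 1070⟩, ⟨.negSucc 3294, .negSucc 276, .negSucc 552, .ofNat 435, .ofNat 251, .negSucc 964⟩, ⟨.ofNat 15360, .ofNat 3015, .negSucc 2846, .ofNat 996, .negSucc 3510, .ofNat 985⟩, ⟨.negSucc 9502, .negSucc 1378, .ofNat 1643, .negSucc 351, .ofNat 2029, .negSucc 1937⟩,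 .ofNat 936, .ofNat 1063, .ofNat 0, .ofNat 1063, .ofNat 1820, .ofNat 0, .ofNat 128, .negSucc 5576, .negSucc 3219, .ofNat 0, .ofNat 3675, .ofNat 2122, .ofNat 0, .ofNat 0, .ofNat 2436, .ofNat 15322, .ofNat 0, .ofNat 0, .ofNat 947221039973447742683474981590592712776836219666432, .ofNat 0, .ofNat 0, .ofNat 0, .ofNat 9765826931441467591308305593510884987816446802264064, .ofNat 170778262297265586000926202596991499076775962070644610998206464, .ofNat 0, .ofNat 0, .ofNat 0, .ofNat 0, .ofNat 0, .ofNat 0, .ofNat 63055319377485734886700622069994397885920017586847744, .ofNat 0⟩)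
    (by decide +kernel)
theorem L04610 : Good (Phi V5.P V5.D (-1) (-1)) ⟨7, 114, 4, 10, 4, 10, 5, 1, 6, 2⟩ :=
  leafX_sound T5.ok_mm T5.Ymm.bz_eq (w := 280) (c := ⟨⟨.ofNat 11415, .ofNat 594, .ofNat 367, .ofNat 39, .negSucc 2159, .ofNat 924⟩, ⟨.negSucc 7589, .negSucc 560, .negSucc 225, .negSucc 25, .ofNat 1443, .negSucc 618⟩, ⟨.negSucc 3535, .negSucc 138, .negSucc 189, .ofNat 551, .ofNat 182, .negSucc 663⟩, ⟨.ofNat 11302, .ofNat 518, .ofNat 371, .ofNat 194, .negSucc 2120, .ofNat 327⟩, ⟨.negSucc 7208, .negSucc 115, .negSucc 135, .ofNat 183, .ofNat 1378, .negSucc 1457⟩, .ofNat 895, .ofNat 996, .ofNat 0, .ofNat 996, .ofNat 1710, .ofNat 0, .ofNat 128, .negSucc 4612, .negSucc 3048, .ofNat 0, .ofNat 3058, .ofNat 2009, .ofNat 0, .ofNat 0, .ofNat 2303, .ofNat 34541, .ofNat 0, .ofNat 0, .ofNat 0, .ofNat 0, .ofNat 0, .ofNat 0, .ofNat 1309005444751326261090003786127261482305110683942912, .ofNat 0, .ofNat 0, .ofNat 0, .ofNat 103642564609498985535546224885136809275789722779648000,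 .ofNat 0, .ofNat 0, .ofNat 0, .ofNat 155086768405036474815296195925040723207281443940073472, .ofNat 12799632214900027484120016702990460152274048339024902875475083264⟩)
    (by decide +kernel)
theorem L04611 : Good (Phi V5.P V5.D (-1) (-1)) ⟨7, 114, 4, 10, 4, 10, 5, 0, 6, 3⟩ :=
  leafX_sound T5.ok_mm T5.Ymm.bz_eq (w := 280) (c := ⟨⟨.ofNat 14904, .ofNat 1911, .ofNat 415, .ofNat 3740, .negSucc 4604, .negSucc 1078⟩, ⟨.negSucc 9694, .negSucc 1267, .negSucc 686, .negSucc 2497, .ofNat 3075, .ofNat 715⟩, ⟨.negSucc 4652, .negSucc 856, .ofNat 326, .negSucc 648, .ofNat 884, .negSucc 86⟩, ⟨.ofNat 13201, .ofNat 943, .ofNat 2349, .ofNat 4002, .negSucc 4652, .negSucc 2000⟩, ⟨.negSucc 9784, .negSucc 239, .negSucc 1194, .negSucc 2047, .ofNat 2822, .negSucc 731⟩, .ofNat 935, .ofNat 1061, .ofNat 0, .ofNat 1061, .ofNat 1818, .ofNat 0, .ofNat 128, .negSucc 4219, .negSucc 4940, .ofNat 0, .ofNat 2784, .ofNat 3254, .ofNat 0, .ofNat 0, .ofNat 2873,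 .ofNat 18349, .ofNat 379697002277404859755653505490654833849910838926210622291968, .ofNat 0, .ofNat 1167536460864103135105173699103934702303315882934272, .ofNat 0, .ofNat 0, .ofNat 0, .ofNat 5092689342385648362997883857392024494325206360260608, .ofNat 1573597219689016766300322554824372106317253127954216275100565504, .ofNat 30230627794847256770769019941389397393826200583645578557128704, .ofNat 0, .ofNat 99112388998923832038194742455192954859603383854039040, .ofNat 21093051254448549087031556450927954400701671879992469072103079936, .ofNat 24576662678524417775770256121488329814226322652943025222713344, .ofNat 0, .ofNat 136936742090892591356753299832413957763908666960904192, .ofNat 12152093027824970770187911012295853020679254178444525324067667968⟩)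
    (by decide +kernel)
theorem L04612 : Good (Phi V5.P V5.D (-1) (-1)) ⟨7, 114, 4, 10, 4, 10, 5, 1, 6, 3⟩ :=
  leafX_sound T5.ok_mm T5.Ymm.bz_eq (w := 284) (c := ⟨⟨.ofNat 11193, .ofNat 1942, .ofNat 444, .ofNat 2194, .negSucc 2745, .negSucc 1266⟩, ⟨.negSucc 7404, .negSucc 1428, .negSucc 352, .negSucc 1461, .ofNat 1835, .ofNat 839⟩, ⟨.negSucc 3652, .negSucc 489, .negSucc 511, .negSucc 307, .ofNat 504, .ofNat 133⟩, ⟨.ofNat 10398, .ofNat 1977, .ofNat 426, .ofNat 2379, .negSucc 2690, .negSucc 2013⟩, ⟨.negSucc 8188, .negSucc 762, .negSucc 61, .negSucc 1070, .ofNat 1753, .negSucc 362⟩, .ofNat 2692, .ofNat 3672, .ofNat 0, .ofNat 3672, .ofNat 5744, .ofNat 0, .ofNat 128, .negSucc 6923, .negSucc 9191, .ofNat 0, .ofNat 4609, .ofNat 6106, .ofNat 0, .ofNat 0, .ofNat 6219, .ofNat 11172, .ofNat 0, .ofNat 0, .ofNat 957789635811708960753495839489876182816294271188992, .ofNat 0, .ofNat 0, .ofNat 0, .ofNat 10592082583444031703138981733888600363614112814465024,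 .ofNat 4022936914014067003986242132780697341789020941147627207864090624, .ofNat 0, .ofNat 0, .ofNat 0, .ofNat 0, .ofNat 0, .ofNat 0, .ofNat 245140389012000032511288419716840443458952709810421760, .ofNat 0⟩)
    (by decide +kernel)
theorem L04613 : Good (Phi V5.P V5.D (-1) (-1)) ⟨7, 115, 4, 10, 4, 10, 4, 0, 5, 1⟩ :=
  out_sound (S := T5.ds_mm) T5.ok_mm (w := 21) (j := 4) (by decide +kernel)
theorem L04614 : Good (Phi V5.P V5.D (-1) (-1)) ⟨7, 114, 5, 20, 4, 11, 4, 0, 5, 1⟩ :=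
  leafX_sound T5.ok_mm T5.Ymm.bz_eq (w := 281) (c := ⟨⟨.ofNat 14770, .negSucc 5, .negSucc 409, .negSucc 3978, .negSucc 5011, .ofNat 3014⟩, ⟨.negSucc 9876, .ofNat 4, .ofNat 357, .ofNat 2631, .ofNat 3317, .negSucc 2012⟩, ⟨.negSucc 2911, .ofNat 1, .negSucc 273, .ofNat 1714, .ofNat 376, .negSucc 1951⟩, ⟨.ofNat 13627, .negSucc 4, .negSucc 0, .negSucc 3886, .negSucc 3930, .ofNat 1584⟩, ⟨.negSucc 9926, .ofNat 4, .ofNat 8, .ofNat 2570, .ofNat 4701, .negSucc 4014⟩, .ofNat 5158, .ofNat 7310, .ofNat 0, .ofNat 7310, .ofNat 11135, .ofNat 0, .ofNat 128, .negSucc 10585, .negSucc 8327, .ofNat 0, .ofNat 7089, .ofNat 5570, .ofNat 0, .ofNat 0, .ofNat 6098, .ofNat 49942, .ofNat 0, .ofNat 0, .ofNat 0, .ofNat 0, .ofNat 0, .ofNat 0, .ofNat 24172712637833674287070256146949227806428964962959360, .ofNat 0, .ofNat 24323559095155994390836060747966465855679219559763966882217984, .ofNat 0, .ofNat 292827477965076074486727634750053187383901020248604672,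 .ofNat 0, .ofNat 0, .ofNat 0, .ofNat 297472462864968521389696610041730550109029746027266048, .ofNat 0⟩)
    (by decide +kernel)
theorem L04615 : Good (Phi V5.P V5.D (-1) (-1)) ⟨7, 114, 5, 21, 4, 11, 4, 0, 5, 1⟩ :=
  leafX_sound T5.ok_mm T5.Ymm.bz_eq (w := 278) (c := ⟨⟨.ofNat 14279, .ofNat 1140, .negSucc 39, .negSucc 3825, .negSucc 5241, .ofNat 3171⟩, ⟨.negSucc 9495, .negSucc 1110, .ofNat 227, .ofNat 2549, .ofNat 3509, .negSucc 2123⟩, ⟨.negSucc 3228, .negSucc 346, .ofNat 199, .ofNat 1736, .ofNat 470, .negSucc 1990⟩, ⟨.ofNat 14176, .ofNat 1120, .ofNat 92, .negSucc 4007, .negSucc 5016, .ofNat 1671⟩, ⟨.negSucc 8972, .negSucc 356, .ofNat 245, .ofNat 2063, .ofNat 3614, .negSucc 4143⟩, .ofNat 2693, .ofNat 3673, .ofNat 0, .ofNat 3673, .ofNat 5746, .ofNat 0, .ofNat 128, .negSucc 7156, .negSucc 4385, .ofNat 0, .ofNat 4765, .ofNat 2917, .ofNat 0, .ofNat 0, .ofNat 3413, .ofNat 13314, .ofNat 0, .ofNat 0, .ofNat 6611959216467581093094962915834594008058159955968,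 .ofNat 0, .ofNat 0, .ofNat 0, .ofNat 81450909286568612414819242046629407325420360040448, .ofNat 66231256076556685212789465559496942994635551526905182058184704, .ofNat 12110149152112326031894791913206405296168961143059690612064256, .ofNat 0, .ofNat 530519420180760977754204450412329767432535523983360, .ofNat 701936014482653265649956452297519726675162918455539228016115712, .ofNat 1064521571212239066083579244568548276141190734548697113165824, .ofNat 0, .ofNat 1006054269763809704091397725605085920057555335249920, .ofNat 410954854650154278503976049153379684432926401904434390184755200⟩)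
    (by decide +kernel)
theorem L04616 : Good (Phi V5.P V5.D (-1) (-1)) ⟨7, 115, 4, 10, 4, 11, 4, 0, 5, 1⟩ :=
  out_sound (S := T5.ds_mm) T5.ok_mm (w := 21) (j := 4) (by decide +kernel)
theorem L04617 : Good (Phi V5.P V5.D (-1) (-1)) ⟨5, 29, 4, 10, 3, 5, 4, 0, 5, 1⟩ :=
  out_sound (S := T5.ds_mm) T5.ok_mm (w := 59) (j := 3) (by decide +kernel)
theorem L04618 : Good (Phi V5.P V5.D (-1) (-1)) ⟨4, 15, 4, 10, 3, 5, 4, 0, 4, 0⟩ :=
  out_sound (S := T5.ds_mm) T5.ok_mm (w := 53) (j := 3) (by decide +kernel)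
theorem L04619 : Good (Phi V5.P V5.D (-1) (-1)) ⟨3, 6, 4, 11, 2, 2, 4, 0, 4, 0⟩ :=
  out_sound (S := T5.ds_mm) T5.ok_mm (w := 47) (j := 3) (by decide +kernel)
theorem L04620 : Good (Phi V5.P V5.D (-1) (-1)) ⟨6, 56, 4, 11, 2, 2, 4, 0, 4, 0⟩ :=
  out_sound (S := T5.ds_mm) T5.ok_mm (w := 65) (j := 3) (by decide +kernel)
theorem L04621 : Good (Phi V5.P V5.D (-1) (-1)) ⟨7, 114, 5, 22, 2, 2, 4, 0, 4, 0⟩ :=
  out_sound (S := T5.ds_mm) T5.ok_mm (w := 73) (j := 3) (by decide +kernel)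
theorem L04622 : Good (Phi V5.P V5.D (-1) (-1)) ⟨7, 115, 5, 22, 2, 2, 4, 0, 4, 0⟩ :=
  out_sound (S := T5.ds_mm) T5.ok_mm (w := 21) (j := 4) (by decide +kernel)
theorem L04623 : Good (Phi V5.P V5.D (-1) (-1)) ⟨6, 57, 5, 23, 2, 2, 4, 0, 4, 0⟩ :=
  out_sound (S := T5.ds_mm) T5.ok_mm (w := 67) (j := 3) (by decide +kernel)
theorem L04624 : Good (Phi V5.P V5.D (-1) (-1)) ⟨5, 29, 4, 11, 2, 2, 4, 0, 4, 0⟩ :=
  out_sound (S := T5.ds_mm) T5.ok_mm (w := 17) (j := 4) (by decide +kernel)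
theorem L04625 : Good (Phi V5.P V5.D (-1) (-1)) ⟨4, 15, 4, 11, 2, 2, 4, 0, 4, 0⟩ :=
  out_sound (S := T5.ds_mm) T5.ok_mm (w := 53) (j := 3) (by decide +kernel)
theorem L04626 : Good (Phi V5.P V5.D (-1) (-1)) ⟨3, 6, 3, 5, 2, 2, 4, 1, 4, 0⟩ :=
  out_sound (S := T5.ds_mm) T5.ok_mm (w := 45) (j := 3) (by decide +kernel)
theorem L04627 : Good (Phi V5.P V5.D (-1) (-1)) ⟨5, 28, 4, 10, 3, 4, 4, 1, 5, 0⟩ :=
  leafX_sound T5.ok_mm T5.Ymm.bz_eq (w := 250) (c := ⟨⟨.ofNat 5831, .ofNat 4582, .negSucc 1787, .ofNat 1421, .negSucc 735, .negSucc 513⟩, ⟨.negSucc 3696, .negSucc 3321, .ofNat 1104, .negSucc 924, .ofNat 493, .ofNat 326⟩, ⟨.negSucc 3127, .negSucc 742, .ofNat 85, .ofNat 541, .negSucc 281, .negSucc 121⟩, ⟨.ofNat 6899, .ofNat 2974, .negSucc 985, .ofNat 1333, .negSucc 633, .negSucc 1212⟩, ⟨.negSucc 2954, .negSucc 1870, .ofNat 1032, .negSucc 1107, .ofNat 604, .negSucc 717⟩, .ofNat 2570, .ofNat 3504, .ofNat 0, .ofNat 3504, .ofNat 5521,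 .ofNat 0, .ofNat 128, .negSucc 2363, .negSucc 2104, .ofNat 0, .ofNat 1578, .ofNat 1386, .ofNat 0, .ofNat 0, .ofNat 2264, .ofNat 9361, .ofNat 0, .ofNat 0, .ofNat 409042136200024843402478332269405158441484288, .ofNat 449231275115685187498778995158333685204099014550618112, .ofNat 0, .ofNat 0, .ofNat 30458783925302148385745184835931975886680621056, .ofNat 542733118895780091304640463534297256521416743065747456, .ofNat 0, .ofNat 0, .ofNat 68928865831450134948199007114254604774800359424, .ofNat 0, .ofNat 0, .ofNat 0, .ofNat 34626876275387113471681224827327741992533753856, .ofNat 0⟩)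
    (by decide +kernel)
theorem L04628 : Good (Phi V5.P V5.D (-1) (-1)) ⟨6, 56, 4, 11, 3, 4, 4, 1, 5, 0⟩ :=
  out_sound (S := T5.ds_mm) T5.ok_mm (w := 65) (j := 3) (by decide +kernel)
theorem L04629 : Good (Phi V5.P V5.D (-1) (-1)) ⟨7, 114, 5, 22, 3, 4, 4, 1, 5, 0⟩ :=
  out_sound (S := T5.ds_mm) T5.ok_mm (w := 73) (j := 3) (by decide +kernel)
theorem L04630 : Good (Phi V5.P V5.D (-1) (-1)) ⟨7, 115, 5, 22, 3, 4, 4, 1, 5, 0⟩ :=
  out_sound (S := T5.ds_mm) T5.ok_mm (w := 21) (j := 4) (by decide +kernel)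
theorem L04631 : Good (Phi V5.P V5.D (-1) (-1)) ⟨6, 57, 5, 23, 3, 4, 4, 1, 5, 0⟩ :=
  out_sound (S := T5.ds_mm) T5.ok_mm (w := 67) (j := 3) (by decide +kernel)
theorem L04632 : Good (Phi V5.P V5.D (-1) (-1)) ⟨5, 28, 3, 5, 3, 5, 4, 1, 5, 0⟩ :=
  leafX_sound T5.ok_mm T5.Ymm.bz_eq (w := 246) (c := ⟨⟨.ofNat 7810, .ofNat 1571, .negSucc 1069, .negSucc 2721, .negSucc 1289, .ofNat 1556⟩, ⟨.negSucc 4957, .negSucc 1498, .ofNat 719, .ofNat 1799, .ofNat 861, .negSucc 1032⟩, ⟨.negSucc 2702, .ofNat 394, .negSucc 549, .ofNat 1926, .negSucc 242, .negSucc 939⟩, ⟨.ofNat 8805, .ofNat 788, .negSucc 450, .negSucc 2350, .negSucc 1139, .ofNat 778⟩, ⟨.negSucc 3994, .negSucc 190, .ofNat 518, .ofNat 2265, .ofNat 1031, .negSucc 2151⟩, .ofNat 2437, .ofNat 3329, .ofNat 0, .ofNat 3329, .ofNat 5301, .ofNat 0, .ofNat 128, .negSucc 2650, .negSucc 965, .ofNat 0, .ofNat 1747, .ofNat 632, .ofNat 0, .ofNat 0, .ofNat 1212, .ofNat 4311, .ofNat 0, .ofNat 0, .ofNat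 93545146133357208728150552450782119478689792, .ofNat 19708633125585875577957392520964074238500125622140928, .ofNat 0, .ofNat 0, .ofNat 3263784358786700332665098288839576381770694656, .ofNat 645754143040905670842574993639340540326484975372206080, .ofNat 0, .ofNat 0, .ofNat 0, .ofNat 0, .ofNat 0, .ofNat 0, .ofNat 5475492627264376207019273288296092368478666752, .ofNat 513855034919563351264771420804984623251349195236311040⟩)
    (by decide +kernel)
theorem L04633 : Good (Phi V5.P V5.D (-1) (-1)) ⟨5, 28, 3, 5, 3, 4, 4, 1, 5, 1⟩ :=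
  leafX_sound T5.ok_mm T5.Ymm.bz_eq (w := 244) (c := ⟨⟨.ofNat 4122, .ofNat 449, .ofNat 2723, .ofNat 4893, .negSucc 835, .negSucc 3548⟩, ⟨.negSucc 2616, .negSucc 419, .negSucc 2059, .negSucc 3233, .ofNat 562, .ofNat 2327⟩, ⟨.negSucc 1997, .negSucc 268, .negSucc 1122, .negSucc 1506, .negSucc 139, .ofNat 1389⟩, ⟨.ofNat 3559, .ofNat 601, .ofNat 2667, .ofNat 5308, .negSucc 687, .negSucc 4844⟩, ⟨.negSucc 3783, .ofNat 445, .negSucc 1021, .negSucc 2447, .ofNat 753, .ofNat 257⟩, .ofNat 1484, .ofNat 1887, .ofNat 0, .ofNat 1887, .ofNat 3101, .ofNat 0, .ofNat 128, .negSucc 1384, .negSucc 1279, .ofNat 0, .ofNat 924, .ofNat 833, .ofNat 0, .ofNat 0, .ofNat 1174, .ofNat 4826, .ofNat 0, .ofNat 0, .ofNat 82500158394953659221301779472248427847352320, .ofNat 33540213475766941324960146890262702073322114450980864, .ofNat 0, .ofNat 0, .ofNat 1329999344160971500736962945666728869207474176, .ofNat 201611812115035623470981575733166445159666411406098432,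 .ofNat 0, .ofNat 0, .ofNat 6933315148692226675245167199926657049799163904, .ofNat 2686760194689986774499403906095652073496657604412178432, .ofNat 0, .ofNat 0, .ofNat 5362322332817686611081748391987584117304721408, .ofNat 1289174259976358125776274798199316123102263394361671680⟩)
    (by decide +kernel)
theorem L04634 : Good (Phi V5.P V5.D (-1) (-1)) ⟨5, 28, 3, 5, 3, 5, 4, 1, 5, 1⟩ :=
  leafX_sound T5.ok_mm T5.Ymm.bz_eq (w := 244) (c := ⟨⟨.ofNat 8983, .ofNat 3360, .negSucc 1613, .negSucc 2450, .negSucc 2109, .negSucc 444⟩, ⟨.negSucc 5697, .negSucc 2836, .ofNat 1248, .ofNat 1618, .ofNat 1393, .ofNat 284⟩, ⟨.negSucc 3455, .negSucc 678, .ofNat 54, .ofNat 1805, .ofNat 166, .negSucc 306⟩, ⟨.ofNat 8689, .ofNat 4696, .negSucc 3174, .negSucc 2145, .negSucc 1872, .negSucc 1862⟩, ⟨.negSucc 5874, .negSucc 2122, .ofNat 2319, .ofNat 1870, .ofNat 1760, .negSucc 1820⟩, .ofNat 905, .ofNat 1025, .ofNat 0, .ofNat 1025, .ofNat 1785, .ofNat 0,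 .ofNat 128, .negSucc 1746, .negSucc 2727, .ofNat 0, .ofNat 1146, .ofNat 1757, .ofNat 0, .ofNat 0, .ofNat 2197, .ofNat 2499, .ofNat 0, .ofNat 0, .ofNat 153379364775478827510240653629152835307307008, .ofNat 30384270233936040737148650295385461736868190873452544, .ofNat 0, .ofNat 0, .ofNat 260797031783615613654327509199859732789067776, .ofNat 111177260737645168031008655332409452097739030502834176, .ofNat 0, .ofNat 0, .ofNat 2230794520868177737164363651321690307526918144, .ofNat 2453819161765839841310707755752896057303331827492061184, .ofNat 0, .ofNat 0, .ofNat 10352188401537860659242279171839667296708591616, .ofNat 3377854840911368532385423851439747322797456365145030656⟩)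
    (by decide +kernel)
theorem L04635 : Good (Phi V5.P V5.D (-1) (-1)) ⟨5, 29, 3, 5, 2, 2, 4, 1, 4, 0⟩ :=
  out_sound (S := T5.ds_mm) T5.ok_mm (w := 17) (j := 4) (by decide +kernel)
theorem L04636 : Good (Phi V5.P V5.D (-1) (-1)) ⟨4, 15, 3, 5, 2, 2, 4, 1, 4, 0⟩ :=
  out_sound (S := T5.ds_mm) T5.ok_mm (w := 51) (j := 3) (by decide +kernel)
theorem L04637 : Good (Phi V5.P V5.D (-1) (-1)) ⟨2, 2, 3, 5, 2, 2, 3, 0, 4, 1⟩ :=
  out_sound (S := T5.ds_mm) T5.ok_mm (w := 39) (j := 3) (by decide +kernel)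
theorem L04638 : Good (Phi V5.P V5.D (-1) (-1)) ⟨3, 6, 4, 10, 2, 2, 3, 0, 5, 2⟩ :=
  out_sound (S := T5.ds_mm) T5.ok_mm (w := 47) (j := 3) (by decide +kernel)
theorem L04639 : Good (Phi V5.P V5.D (-1) (-1)) ⟨5, 28, 4, 10, 3, 4, 4, 0, 6, 4⟩ :=
  leafX_sound T5.ok_mm T5.Ymm.bz_eq (w := 251) (c := ⟨⟨.ofNat 1021, .negSucc 803, .ofNat 917, .ofNat 4329, .negSucc 118, .negSucc 2805⟩, ⟨.negSucc 632, .ofNat 338, .negSucc 502, .negSucc 2853, .ofNat 68, .ofNat 1841⟩, ⟨.negSucc 158, .negSucc 890, .ofNat 242, .negSucc 1594, .negSucc 208, .ofNat 1330⟩, ⟨.negSucc 713, .negSucc 1264, .ofNat 1087, .ofNat 4262, .ofNat 183, .negSucc 3431⟩, ⟨.negSucc 3725, .ofNat 1055, .negSucc 747, .negSucc 2983, .ofNat 659, .ofNat 960⟩, .ofNat 906, .ofNat 1026, .ofNat 0, .ofNat 1026, .ofNat 1786, .ofNat 0, .ofNat 128, .negSucc 2243, .negSucc 1184, .ofNat 0, .ofNat 1504, .ofNat 772, .ofNat 0, .ofNat 0, .ofNat 1059, .ofNat 6438, .ofNat 34165514027322823467421858604021202621071581106929664,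 .ofNat 0, .ofNat 6966568553410629604576668138302709114542751744, .ofNat 0, .ofNat 2832588310087920046060986582894593949243938653077504, .ofNat 0, .ofNat 171035848643520954180342208475091830286952955904, .ofNat 32165188527595287278325988692019783815313623541801287680, .ofNat 857392068152074752998233748495669952491720507679309824, .ofNat 0, .ofNat 288581666121377274947843617651105550289676009472, .ofNat 1409887692255434035407729708742399209798034248997311348736, .ofNat 0, .ofNat 0, .ofNat 329511469094018793226493975374261041474169733120, .ofNat 245089130215367785208818788024699116661135951771910275072⟩)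
    (by decide +kernel)
theorem L04640 : Good (Phi V5.P V5.D (-1) (-1)) ⟨5, 28, 4, 10, 3, 4, 4, 0, 6, 5⟩ :=
  leafX_sound T5.ok_mm T5.Ymm.bz_eq (w := 251) (c := ⟨⟨.negSucc 1511, .ofNat 2210, .negSucc 746, .ofNat 864, .negSucc 51, .negSucc 2348⟩, ⟨.ofNat 988, .negSucc 1655, .ofNat 693, .negSucc 580, .ofNat 38, .ofNat 1548⟩, ⟨.ofNat 368, .ofNat 782, .negSucc 604, .negSucc 430, .negSucc 22, .ofNat 1260⟩, ⟨.negSucc 3727, .ofNat 2340, .negSucc 858, .ofNat 453, .ofNat 151, .negSucc 2745⟩, ⟨.negSucc 2489, .negSucc 1348, .ofNat 499, .negSucc 1186, .ofNat 313, .ofNat 1051⟩, .ofNat 906, .ofNat 1026, .ofNat 0, .ofNat 1026, .ofNat 1786, .ofNat 0, .ofNat 128, .negSucc 2335, .negSucc 1693, .ofNat 0, .ofNat 1574, .ofNat 1108, .ofNat 0, .ofNat 0, .ofNat 1567, .ofNat 6567, .ofNat 44015020247966141808428463421501887871543654158958592, .ofNat 0, .ofNat 13541703798711053623700628298529225556430422016, .ofNat 0, .ofNat 11153664180882946205553096099434501311467538561892352,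 .ofNat 0, .ofNat 131076844588258993427841777621000160456183119872, .ofNat 26874791739465653810565743108612878343783579952405807104, .ofNat 1329622355302391497601731993020766260403409418750787584, .ofNat 0, .ofNat 357750202598909431108394651593914982776191320064, .ofNat 0, .ofNat 0, .ofNat 0, .ofNat 477616192192549391289266035958826213449362571264, .ofNat 762717471497389969997044530539034092426327110907305394176⟩)
    (by decide +kernel)
theorem L04641 : Good (Phi V5.P V5.D (-1) (-1)) ⟨5, 29, 4, 10, 3, 4, 4, 0, 5, 2⟩ :=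
  out_sound (S := T5.ds_mm) T5.ok_mm (w := 59) (j := 3) (by decide +kernel)
theorem L04642 : Good (Phi V5.P V5.D (-1) (-1)) ⟨6, 56, 4, 10, 4, 10, 4, 0, 6, 4⟩ :=
  leafX_sound T5.ok_mm T5.Ymm.bz_eq (w := 272) (c := ⟨⟨.ofNat 8919, .ofNat 200, .ofNat 2099, .ofNat 4587, .negSucc 2998, .negSucc 6487⟩, ⟨.negSucc 5781, .negSucc 217, .negSucc 1476, .negSucc 3008, .ofNat 1957, .ofNat 4252⟩, ⟨.negSucc 2271, .negSucc 1423, .ofNat 560, .negSucc 1474, .ofNat 489, .ofNat 2350⟩, ⟨.ofNat 7193, .ofNat 430, .ofNat 1785, .ofNat 4714, .negSucc 2821, .negSucc 7592⟩, ⟨.negSucc 8525, .ofNat 131, .negSucc 971, .negSucc 2778, .ofNat 2319, .ofNat 2488⟩, .ofNat 1452, .ofNat 1848, .ofNat 0, .ofNat 1848, .ofNat 3057, .ofNat 0, .ofNat 128, .negSucc 3444, .negSucc 3533, .ofNat 0, .ofNat 2258, .ofNat 2306, .ofNat 0, .ofNat 0, .ofNat 2183, .ofNat 9098, .ofNat 2061745787745550381360549926518114297264678225327163441152, .ofNat 0, .ofNat 274603004379729583428337291399928561981931397316608,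 .ofNat 0, .ofNat 0, .ofNat 0, .ofNat 3895001998841754120586939756744812659921850151731200, .ofNat 0, .ofNat 163271567537068682369927622470962475372107562789194904371200, .ofNat 0, .ofNat 20173040638435021559456424615790064284160890851295232, .ofNat 0, .ofNat 59750172910978173917323080994732604587719325984906754916352, .ofNat 0, .ofNat 11738726710490945078982605539541890792034664900984832, .ofNat 0⟩)
    (by decide +kernel)
theorem L04643 : Good (Phi V5.P V5.D (-1) (-1)) ⟨6, 56, 4, 10, 4, 11, 4, 0, 6, 4⟩ :=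
  leafX_sound T5.ok_mm T5.Ymm.bz_eq (w := 274) (c := ⟨⟨.ofNat 12494, .ofNat 3973, .negSucc 1146, .negSucc 2675, .negSucc 5295, .negSucc 5758⟩, ⟨.negSucc 7976, .negSucc 3036, .ofNat 1010, .ofNat 1753, .ofNat 3493, .ofNat 3746⟩, ⟨.negSucc 4180, .negSucc 823, .negSucc 293, .ofNat 1358, .ofNat 1254, .ofNat 1944⟩, ⟨.ofNat 10871, .ofNat 3981, .negSucc 1236, .negSucc 3159, .negSucc 5044, .negSucc 6584⟩, ⟨.negSucc 10840, .negSucc 2093, .ofNat 955, .ofNat 919, .ofNat 3743, .ofNat 2493⟩, .ofNat 2353, .ofNat 3215, .ofNat 0, .ofNat 3215, .ofNat 5153, .ofNat 0, .ofNat 128, .negSucc 4037, .negSucc 4099, .ofNat 0, .ofNat 2648, .ofNat 2681, .ofNat 0, .ofNat 0, .ofNat 2473, .ofNat 6994, .ofNat 1601697406678768285481021390938464007522881178469457199104, .ofNat 0, .ofNat 163138539444152340627420746266147940290623197675520, .ofNat 0, .ofNat 0, .ofNat 0, .ofNat 3815200226840740249469824638178545823150001207902208, .ofNat 0, .ofNat 0, .ofNat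 0, .ofNat 0, .ofNat 0, .ofNat 78274592790258761064424079543478390843232677998915936583680, .ofNat 0, .ofNat 14828369141418346495210797433165129833575250313347072, .ofNat 0⟩)
    (by decide +kernel)
theorem L04644 : Good (Phi V5.P V5.D (-1) (-1)) ⟨6, 56, 4, 10, 3, 5, 4, 0, 6, 5⟩ :=
  leafX_sound T5.ok_mm T5.Ymm.bz_eq (w := 259) (c := ⟨⟨.ofNat 2243, .ofNat 1589, .negSucc 1053, .ofNat 884, .negSucc 658, .negSucc 6995⟩, ⟨.negSucc 1493, .negSucc 1104, .ofNat 831, .negSucc 582, .ofNat 433, .ofNat 4593⟩, ⟨.negSucc 803, .negSucc 460, .ofNat 208, .ofNat 172, .ofNat 58, .ofNat 3079⟩, ⟨.negSucc 436, .ofNat 1562, .negSucc 1016, .ofNat 683, .negSucc 259, .negSucc 7489⟩, ⟨.negSucc 5653, .negSucc 949, .ofNat 838, .negSucc 881, .ofNat 1037, .ofNat 3709⟩, .ofNat 2355, .ofNat 3217, .ofNat 0, .ofNat 3217, .ofNat 5156, .ofNat 0, .ofNat 128, .negSucc 2896, .negSucc 3460, .ofNat 0, .ofNat 1906, .ofNat 2266, .ofNat 0, .ofNat 0, .ofNat 2261, .ofNat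 12826, .ofNat 918898750077443619123504963073623526860784879995453440, .ofNat 0, .ofNat 1963009212917067793863282608357518017187282944, .ofNat 0, .ofNat 12451027025398187592848858726129260165925137933139968, .ofNat 0, .ofNat 132784786435835679572186620357034437139249496064, .ofNat 0, .ofNat 33608905744433723777450260971158419820077998762669113344, .ofNat 0, .ofNat 350358612851729244247552708108475572742260785152, .ofNat 0, .ofNat 12469208695161167431994737036280531601066442045771481088, .ofNat 0, .ofNat 1281767242618568356599262696586918795376743940096, .ofNat 0⟩)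
    (by decide +kernel)
theorem L04645 : Good (Phi V5.P V5.D (-1) (-1)) ⟨7, 114, 4, 10, 4, 10, 5, 0, 6, 4⟩ :=
  leafX_sound T5.ok_mm T5.Ymm.bz_eq (w := 285) (c := ⟨⟨.ofNat 11464, .ofNat 2258, .ofNat 31, .ofNat 6832, .negSucc 3254, .negSucc 7540⟩, ⟨.negSucc 7777, .negSucc 1752, .ofNat 265, .negSucc 4559, .ofNat 2182, .ofNat 5028⟩, ⟨.negSucc 2695, .ofNat 109, .negSucc 2030, .negSucc 2174, .ofNat 795, .ofNat 2560⟩, ⟨.ofNat 9592, .ofNat 1631, .ofNat 390, .ofNat 6999, .negSucc 3096, .negSucc 8616⟩, ⟨.negSucc 9408, .negSucc 1463, .negSucc 367, .negSucc 3884, .ofNat 2224, .ofNat 2956⟩, .ofNat 4681, .ofNat 6608, .ofNat 0, .ofNat 6608, .ofNat 10090, .ofNat 0, .ofNat 128, .negSucc 5849, .negSucc 6449, .ofNat 0, .ofNat 3921, .ofNat 4321, .ofNat 0, .ofNat 0, .ofNat 3370, .ofNat 15618, .ofNat 603038122225949234668697344889447984142144999345002515529728, .ofNat 0, .ofNat 1136648195014589724131205352571863869320679055687680, .ofNat 0,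 .ofNat 261483704787032171410980011198041983541594211597629452713984, .ofNat 0, .ofNat 33426402315145357304285400069394930255759741022109696, .ofNat 0, .ofNat 0, .ofNat 0, .ofNat 0, .ofNat 0, .ofNat 25151427362780709530893074154319645437998050454540741041455104, .ofNat 0, .ofNat 162235829268806527438699873145167645113703052626362368, .ofNat 25837043641308006145863984134025031106557908784001257869777305600⟩)
    (by decide +kernel)
theorem L04646 : Good (Phi V5.P V5.D (-1) (-1)) ⟨7, 114, 4, 10, 4, 11, 5, 0, 6, 4⟩ :=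
  leafX_sound T5.ok_mm T5.Ymm.bz_eq (w := 283) (c := ⟨⟨.ofNat 18945, .ofNat 1445, .ofNat 935, .negSucc 5178, .negSucc 5069, .negSucc 6669⟩, ⟨.negSucc 12554, .negSucc 1032, .negSucc 763, .ofNat 3453, .ofNat 3398, .ofNat 4449⟩, ⟨.negSucc 6174, .negSucc 646, .ofNat 85, .ofNat 2287, .ofNat 1292, .ofNat 2087⟩, ⟨.ofNat 17093, .ofNat 1374, .ofNat 983, .negSucc 5626, .negSucc 4762, .negSucc 7809⟩, ⟨.negSucc 14406, .negSucc 524, .negSucc 469, .ofNat 2443, .ofNat 3538, .ofNat 2385⟩, .ofNat 2703, .ofNat 3686, .ofNat 0, .ofNat 3686, .ofNat 5764, .ofNat 0, .ofNat 128, .negSucc 4149, .negSucc 6306, .ofNat 0, .ofNat 2770, .ofNat 4205, .ofNat 0, .ofNat 0, .ofNat 3448, .ofNat 23272, .ofNat 813563249366956252033280951400971147001065769793358804287488, .ofNat 0, .ofNat 1026679745027931500461065066016289223707780196597760, .ofNat 0, .ofNat 46342154112095906244433689372805107450745733365621596356608, .ofNat 0, .ofNat 19024648516019042696191248976691140311710018463334400,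 .ofNat 2857164932298354774721891270089770484148179302032671711701237760, .ofNat 24961448267204060453342915949464051139347696291376480535969792, .ofNat 0, .ofNat 87201582896431639768548464978509198670203508754481152, .ofNat 26582481659484800264137294282040949420610741361385316385516683264, .ofNat 33557612465925268160163001632961127858128059434033770546593792, .ofNat 0, .ofNat 156917224675483405227959128712594665905540889193742336, .ofNat 19819237495788678156059242086678743158932593854694089692366766080⟩)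
    (by decide +kernel)
theorem L04647 : Good (Phi V5.P V5.D (-1) (-1)) ⟨7, 114, 4, 10, 3, 5, 5, 1, 6, 4⟩ :=
  leafX_sound T5.ok_mm T5.Ymm.bz_eq (w := 265) (c := ⟨⟨.ofNat 11351, .ofNat 712, .negSucc 352, .ofNat 42, .negSucc 2937, .negSucc 5483⟩, ⟨.negSucc 7416, .negSucc 432, .negSucc 47, .negSucc 31, .ofNat 1964, .ofNat 3659⟩, ⟨.negSucc 4489, .negSucc 399, .ofNat 436, .ofNat 731, .ofNat 862, .ofNat 2036⟩, ⟨.ofNat 8706, .negSucc 220, .ofNat 1861, .negSucc 95, .negSucc 2748, .negSucc 6590⟩, ⟨.negSucc 8867, .ofNat 438, .negSucc 875, .negSucc 256, .ofNat 2132, .ofNat 1880⟩, .ofNat 937, .ofNat 1065, .ofNat 0, .ofNat 1065, .ofNat 1821, .ofNat 0, .ofNat 128, .negSucc 2891, .negSucc 4388, .ofNat 0, .ofNat 1925, .ofNat 2898, .ofNat 0, .ofNat 0, .ofNat 2538, .ofNat 6490, .ofNat 0, .ofNat 0, .ofNat 41238968532424870403903863150050347431183253504, .ofNat 0, .ofNat 0, .ofNat 0, .ofNat 161500163996672013022124950651106489496495980544,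 .ofNat 53338728722450573077612536351931564567234683590176298500096, .ofNat 0, .ofNat 0, .ofNat 2218580160596955866707355816937372226489891684352, .ofNat 0, .ofNat 0, .ofNat 0, .ofNat 4184010716595141656390346228171821773727337545728, .ofNat 245411012158641967838624654934014700196012869956463228878848⟩)
    (by decide +kernel)
theorem L04648 : Good (Phi V5.P V5.D (-1) (-1)) ⟨7, 114, 4, 10, 4, 10, 4, 0, 6, 5⟩ :=
  leafX_sound T5.ok_mm T5.Ymm.bz_eq (w := 280) (c := ⟨⟨.ofNat 2432, .ofNat 1459, .ofNat 498, .ofNat 1449, .negSucc 46, .negSucc 7589⟩, ⟨.negSucc 1676, .negSucc 981, .negSucc 252, .negSucc 974, .ofNat 32, .ofNat 5069⟩, ⟨.negSucc 555, .negSucc 408, .negSucc 564, .negSucc 398, .negSucc 162, .ofNat 3261⟩, ⟨.negSucc 173, .ofNat 1422, .ofNat 435, .ofNat 1364, .ofNat 181, .negSucc 8066⟩, ⟨.negSucc 5518, .negSucc 891, .negSucc 243, .negSucc 1000, .ofNat 390, .ofNat 3918⟩, .ofNat 2687, .ofNat 3665, .ofNat 0, .ofNat 3665, .ofNat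 5736, .ofNat 0, .ofNat 128, .negSucc 6720, .negSucc 7387, .ofNat 0, .ofNat 4490, .ofNat 4920, .ofNat 0, .ofNat 0, .ofNat 4731, .ofNat 14166, .ofNat 85694106068667674976733554830423923216768175854513914118144, .ofNat 0, .ofNat 22089226142908560370358099739483137924488040022016, .ofNat 0, .ofNat 0, .ofNat 0, .ofNat 966927832869045539797364032462756424340469559853056, .ofNat 248845897419102593470722748492990463512361011979350381888012288, .ofNat 0, .ofNat 0, .ofNat 19593054621564515339217392541572781816641775231565824, .ofNat 0, .ofNat 4099120191674655104721446086672458107245739177149020113993728, .ofNat 0, .ofNat 11581597293199237600314909554452582084226575044182016, .ofNat 2372790773004945512591157361825578837780156586931388429757317120⟩)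
    (by decide +kernel)
theorem L04649 : Good (Phi V5.P V5.D (-1) (-1)) ⟨7, 114, 4, 10, 4, 11, 4, 0, 6, 5⟩ :=
  leafX_sound T5.ok_mm T5.Ymm.bz_eq (w := 281) (c := ⟨⟨.ofNat 5872, .ofNat 342, .negSucc 6, .negSucc 468, .negSucc 904, .negSucc 9078⟩, ⟨.negSucc 3943, .negSucc 247, .ofNat 28, .ofNat 310, .ofNat 620, .ofNat 6056⟩, ⟨.negSucc 1743, .ofNat 28, .negSucc 258, .ofNat 602, .ofNat 71, .ofNat 3818⟩, ⟨.ofNat 2956, .ofNat 469, .ofNat 63, .negSucc 587, .negSucc 814, .negSucc 9184⟩, ⟨.negSucc 8032, .ofNat 153, .ofNat 183, .ofNat 115, .ofNat 684, .ofNat 5356⟩, .ofNat 4509, .ofNat 6388, .ofNat 0, .ofNat 6388, .ofNat 9815, .ofNat 0, .ofNat 128, .negSucc 4807, .negSucc 6084, .ofNat 0, .ofNat 3215, .ofNat 4061, .ofNat 0, .ofNat 0, .ofNat 3623, .ofNat 11598, .ofNat 52695551031472182833453308052722656007232736618533747687424, .ofNat 0, .ofNat 18135711155810516033911822869202552581929882877952, .ofNat 0, .ofNat 0, .ofNat 0, .ofNat 1907073458060804221354071590745976156482361941295104,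 .ofNat 362508286755843283440855573955332070566801462431663007771656192, .ofNat 3989008836801886220965084620740688415594412765543490121629696, .ofNat 0, .ofNat 3722853084087681420971368573292570488565671443562496, .ofNat 1689348752095821184440817016995739385036864607845586694926499840, .ofNat 1943530189274101863761226868712246849424356139497027157360640, .ofNat 0, .ofNat 7868370060165697599014857832980716683963964913090560, .ofNat 1353938444216877126569406224883332957800533994697093568046039040⟩)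
    (by decide +kernel)
theorem L04650 : Good (Phi V5.P V5.D (-1) (-1)) ⟨7, 115, 4, 10, 3, 5, 4, 0, 5, 2⟩ :=
  out_sound (S := T5.ds_mm) T5.ok_mm (w := 21) (j := 4) (by decide +kernel)
theorem L04651 : Good (Phi V5.P V5.D (-1) (-1)) ⟨5, 29, 4, 10, 3, 5, 4, 0, 5, 2⟩ :=
  out_sound (S := T5.ds_mm) T5.ok_mm (w := 59) (j := 3) (by decide +kernel)
theorem L04652 : Good (Phi V5.P V5.D (-1) (-1)) ⟨4, 15, 4, 10, 2, 2, 4, 0, 5, 2⟩ :=
  out_sound (S := T5.ds_mm) T5.ok_mm (w := 53) (j := 3) (by decide +kernel)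
theorem L04653 : Good (Phi V5.P V5.D (-1) (-1)) ⟨5, 28, 4, 10, 3, 4, 4, 1, 5, 2⟩ :=
  leafX_sound T5.ok_mm T5.Ymm.bz_eq (w := 246) (c := ⟨⟨.ofNat 1271, .negSucc 131, .ofNat 1068, .ofNat 2167, .negSucc 406, .negSucc 5329⟩, ⟨.negSucc 1018, .ofNat 746, .negSucc 1014, .negSucc 1440, .ofNat 263, .ofNat 3534⟩, ⟨.negSucc 570, .negSucc 573, .negSucc 160, .negSucc 993, .ofNat 60, .ofNat 2865⟩, ⟨.negSucc 260, .ofNat 131, .ofNat 1030, .ofNat 1930, .negSucc 290, .negSucc 6458⟩, ⟨.negSucc 3222, .negSucc 63, .negSucc 180, .negSucc 1786, .ofNat 511, .ofNat 1839⟩, .ofNat 907, .ofNat 1027, .ofNat 0, .ofNat 1027, .ofNat 1787, .ofNat 0, .ofNat 128, .negSucc 1821, .negSucc 1286, .ofNat 0, .ofNat 1231, .ofNat 835, .ofNat 0, .ofNat 0, .ofNat 1142, .ofNat 2110, .ofNat 0, .ofNat 0, .ofNat 174659365324078543780362320248644744123514880, .ofNat 0, .ofNat 0, .ofNat 0, .ofNat 6049946993356080046016621581334390418247254016, .ofNat 0, .ofNat 0, .ofNat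 0, .ofNat 14982650199096847662447172810147719357044621312, .ofNat 0, .ofNat 0, .ofNat 0, .ofNat 12932386377991803178936832235494315994168426496, .ofNat 4543634560547543303876139643795819715165414299438940160⟩)
    (by decide +kernel)
theorem L04654 : Good (Phi V5.P V5.D (-1) (-1)) ⟨5, 28, 4, 10, 3, 5, 4, 1, 5, 2⟩ :=
  leafX_sound T5.ok_mm T5.Ymm.bz_eq (w := 249) (c := ⟨⟨.ofNat 7213, .ofNat 1478, .negSucc 586, .ofNat 802, .negSucc 1291, .negSucc 10210⟩, ⟨.negSucc 4651, .negSucc 1448, .ofNat 629, .negSucc 524, .ofNat 839, .ofNat 6712⟩, ⟨.negSucc 3150, .negSucc 609, .ofNat 137, .ofNat 129, .ofNat 384, .ofNat 4706⟩, ⟨.ofNat 5888, .ofNat 1492, .negSucc 649, .ofNat 616, .negSucc 1025, .negSucc 11770⟩, ⟨.negSucc 6691, .negSucc 1061, .ofNat 730, .negSucc 784, .ofNat 1262, .ofNat 4080⟩, .ofNat 2570, .ofNat 3504, .ofNat 0, .ofNat 3504, .ofNat 5521, .ofNat 0, .ofNat 128, .negSucc 1529, .negSucc 2376, .ofNat 0, .ofNat 1016, .ofNat 1570,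 .ofNat 0, .ofNat 0, .ofNat 1529, .ofNat 3202, .ofNat 0, .ofNat 0, .ofNat 267691525256079223129627137551045357159317504, .ofNat 0, .ofNat 0, .ofNat 0, .ofNat 25348375160225558194679117783498145583903801344, .ofNat 1234702376843044170703719140409436662365228596193132544, .ofNat 0, .ofNat 0, .ofNat 31714469274028287519296213090190719786596433920, .ofNat 13188847383080437904603109654348900106095289240620367872, .ofNat 0, .ofNat 0, .ofNat 27796863295769006398180019313738169687323181056, .ofNat 14046652069173257595611263784959413913617335258080870400⟩)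
    (by decide +kernel)
theorem L04655 : Good (Phi V5.P V5.D (-1) (-1)) ⟨5, 29, 4, 10, 2, 2, 4, 1, 5, 2⟩ :=
  out_sound (S := T5.ds_mm) T5.ok_mm (w := 59) (j := 3) (by decide +kernel)
theorem L04656 : Good (Phi V5.P V5.D (-1) (-1)) ⟨4, 15, 4, 10, 2, 2, 4, 1, 5, 2⟩ :=
  out_sound (S := T5.ds_mm) T5.ok_mm (w := 53) (j := 3) (by decide +kernel)
theorem L04657 : Good (Phi V5.P V5.D (-1) (-1)) ⟨3, 6, 4, 10, 2, 2, 3, 0, 5, 3⟩ :=
  out_sound (S := T5.ds_mm) T5.ok_mm (w := 47) (j := 3) (by decide +kernel)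
theorem L04658 : Good (Phi V5.P V5.D (-1) (-1)) ⟨5, 28, 4, 10, 3, 4, 3, 0, 5, 3⟩ :=
  leafX_sound T5.ok_mm T5.Ymm.bz_eq (w := 245) (c := ⟨⟨.negSucc 2321, .negSucc 1436, .ofNat 409, .negSucc 1552, .negSucc 166, .negSucc 1612⟩, ⟨.ofNat 1416, .ofNat 1056, .negSucc 117, .ofNat 1020, .ofNat 105, .ofNat 1058⟩, ⟨.ofNat 1327, .ofNat 322, .ofNat 10, .ofNat 560, .ofNat 298, .ofNat 1205⟩, ⟨.negSucc 4978, .negSucc 919, .ofNat 146, .negSucc 2053, .ofNat 22, .negSucc 1550⟩, ⟨.negSucc 2356, .ofNat 699, .negSucc 247, .ofNat 196, .ofNat 396, .ofNat 1143⟩, .ofNat 2570, .ofNat 3504, .ofNat 0, .ofNat 3504, .ofNat 5521, .ofNat 0, .ofNat 128, .negSucc 1948, .negSucc 1624, .ofNat 0, .ofNat 1308, .ofNat 1077, .ofNat 0, .ofNat 0, .ofNat 1740, .ofNat 15238, .ofNat 787305688452018818663976538991726139401795989929984, .ofNat 0, .ofNat 10341996720055859065975996636942162907365376, .ofNat 0, .ofNat 0, .ofNat 0, .ofNat 2035845435113940809180094735412162650909442048,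 .ofNat 60533837707940137222568505014126958710226450280087552, .ofNat 0, .ofNat 0, .ofNat 1351357338315887355201634256879602380390268928, .ofNat 1443368805152992408794591841588902660204888993944305664, .ofNat 0, .ofNat 0, .ofNat 2208267445414867941841932546112844102646104064, .ofNat 469099373865094838503287155635727901329315647054675968⟩)
    (by decide +kernel)
theorem L04659 : Good (Phi V5.P V5.D (-1) (-1)) ⟨5, 28, 4, 10, 3, 5, 4, 0, 6, 6⟩ :=
  leafX_sound T5.ok_mm T5.Ymm.bz_eq (w := 254) (c := ⟨⟨.negSucc 3520, .negSucc 799, .negSucc 557, .negSucc 1257, .ofNat 723, .negSucc 2706⟩, ⟨.ofNat 2191, .ofNat 603, .ofNat 574, .ofNat 830, .negSucc 475, .ofNat 1785⟩, ⟨.ofNat 1767, .negSucc 93, .ofNat 450, .ofNat 1047, .negSucc 245, .ofNat 1429⟩, ⟨.negSucc 6539, .negSucc 598, .negSucc 641, .negSucc 1176, .ofNat 688, .negSucc 2663⟩, ⟨.negSucc 2209, .ofNat 323, .ofNat 290, .ofNat 902, .negSucc 522, .ofNat 1770⟩, .ofNat 2430, .ofNat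 3320, .ofNat 0, .ofNat 3320, .ofNat 5289, .ofNat 0, .ofNat 128, .negSucc 1792, .negSucc 2010, .ofNat 0, .ofNat 1189, .ofNat 1326, .ofNat 0, .ofNat 0, .ofNat 1490, .ofNat 11012, .ofNat 32789576036520074497660075217937742843375792221585408, .ofNat 0, .ofNat 4020286715477331424783392788157595344181395456, .ofNat 0, .ofNat 101981740521244435354769331338816010208791868167159808, .ofNat 0, .ofNat 612453543241174108732714978756196451322066632704, .ofNat 162447989519800201441403833521210315928992347030328180736, .ofNat 375923540492440791996734344088447566317134104141758464, .ofNat 0, .ofNat 214035040377189316163240677154996197116793061376, .ofNat 809702623117265306329336952833903072372282409674717790208, .ofNat 202991460700306264884906884143516313499711984753442816, .ofNat 0, .ofNat 757404330595311564423982283967165477666808659968, .ofNat 469923747881422600814079773060572544728723327053958479872⟩)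
    (by decide +kernel)
theorem L04660 : Good (Phi V5.P V5.D (-1) (-1)) ⟨5, 28, 4, 10, 3, 5, 4, 1, 6, 6⟩ :=
  leafX_sound T5.ok_mm T5.Ymm.bz_eq (w := 254) (c := ⟨⟨.negSucc 3140, .negSucc 836, .ofNat 18, .negSucc 750, .ofNat 556, .negSucc 2524⟩, ⟨.ofNat 1940, .ofNat 639, .ofNat 180, .ofNat 495, .negSucc 368, .ofNat 1667⟩, ⟨.ofNat 1662, .ofNat 113, .ofNat 116, .ofNat 736, .negSucc 208, .ofNat 1388⟩, ⟨.negSucc 6026, .negSucc 647, .negSucc 107, .negSucc 793, .ofNat 567, .negSucc 2582⟩, ⟨.negSucc 2262, .ofNat 356, .negSucc 137, .ofNat 390, .negSucc 330, .ofNat 1502⟩, .ofNat 2460, .ofNat 3358, .ofNat 0, .ofNat 3358, .ofNat 5335, .ofNat 0, .ofNat 128, .negSucc 1423, .negSucc 2393, .ofNat 0, .ofNat 946, .ofNat 1577, .ofNat 0, .ofNat 0, .ofNat 1816, .ofNat 9819, .ofNat 0, .ofNat 0, .ofNat 0, .ofNat 0, .ofNat 0, .ofNat 0, .ofNat 610530831337310871942142166493249600270091943936, .ofNat 36834944385979060958214112843010884678822054668848332800,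 .ofNat 0, .ofNat 0, .ofNat 282577629711756436818779602363589254467303768064, .ofNat 624076978929229129357896512442184822047912071726553366528, .ofNat 0, .ofNat 0, .ofNat 1009580341131709563041778653417373417420099682304, .ofNat 736574046665584709899208358445165143029248728982668443648⟩)
    (by decide +kernel)
theorem L04661 : Good (Phi V5.P V5.D (-1) (-1)) ⟨5, 28, 4, 10, 3, 5, 5, 0, 6, 7⟩ :=
  leafX_sound T5.ok_mm T5.Ymm.bz_eq (w := 259) (c := ⟨⟨.negSucc 7405, .negSucc 295, .negSucc 490, .negSucc 1172, .ofNat 1628, .negSucc 252⟩, ⟨.ofNat 4742, .ofNat 212, .ofNat 604, .ofNat 781, .negSucc 1068, .ofNat 169⟩, ⟨.ofNat 3399, .ofNat 563, .negSucc 80, .ofNat 1035, .negSucc 524, .ofNat 207⟩, ⟨.negSucc 10479, .negSucc 414, .negSucc 505, .negSucc 741, .ofNat 1690, .negSucc 41⟩, ⟨.negSucc 52, .ofNat 184, .negSucc 169, .ofNat 1405, .negSucc 837, .ofNat 492⟩, .ofNat 2460, .ofNat 3361, .ofNat 0, .ofNat 3361, .ofNat 5344, .ofNat 0, .ofNat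 128, .negSucc 2560, .negSucc 2231, .ofNat 0, .ofNat 1709, .ofNat 1480, .ofNat 0, .ofNat 0, .ofNat 1912, .ofNat 33255, .ofNat 962631436473155141077559532488454578676817673127460864, .ofNat 0, .ofNat 228375956512883752983622823947374825124768251904, .ofNat 0, .ofNat 1988114722953130739341209997468613455178595345719361536, .ofNat 0, .ofNat 11730730146792255650518835035435149826184852799488, .ofNat 3913959196496114362456860559870530095831712934164965621760, .ofNat 8080400097718117607504480028984054049787159597660766208, .ofNat 0, .ofNat 18193005457206254441063238409075318658811803205632, .ofNat 0, .ofNat 0, .ofNat 0, .ofNat 15258744634398221394981061920375462599386212597760, .ofNat 0⟩)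
    (by decide +kernel)
theorem L04662 : Good (Phi V5.P V5.D (-1) (-1)) ⟨5, 28, 4, 10, 3, 5, 5, 1, 6, 7⟩ :=
  leafX_sound T5.ok_mm T5.Ymm.bz_eq (w := 258) (c := ⟨⟨.negSucc 6032, .negSucc 351, .negSucc 598, .negSucc 1035, .ofNat 275, .negSucc 41⟩, ⟨.ofNat 3823, .ofNat 368, .ofNat 598, .ofNat 686, .negSucc 181, .ofNat 29⟩, ⟨.ofNat 3094, .ofNat 207, .ofNat 206, .ofNat 855, .negSucc 66, .ofNat 200⟩, ⟨.negSucc 9057, .negSucc 209, .negSucc 656, .negSucc 785, .ofNat 217, .ofNat 127⟩, ⟨.negSucc 650, .ofNat 60, .ofNat 193, .ofNat 1036, .negSucc 261, .ofNat 295⟩, .ofNat 2427, .ofNat 3315, .ofNat 0, .ofNat 3315, .ofNat 5282, .ofNat 0, .ofNat 128, .negSucc 2182, .negSucc 1709, .ofNat 0, .ofNat 1455, .ofNat 1130, .ofNat 0, .ofNat 0, .ofNat 1533, .ofNat 26583, .ofNat 0, .ofNat 0, .ofNat 0, .ofNat 0, .ofNat 0, .ofNat 0, .ofNat 12056680095026354291098472319345200158011272724480, .ofNat 3983919932576158733808438591887635979170425601866537631744,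 .ofNat 0, .ofNat 0, .ofNat 18040772678163274874645421912333724387420453994496, .ofNat 0, .ofNat 0, .ofNat 0, .ofNat 19701591730066271465504140399734402538280872574976, .ofNat 10629274809706371083460913144691373891567643103365888475136⟩)
    (by decide +kernel)
theorem L04663 : Good (Phi V5.P V5.D (-1) (-1)) ⟨5, 28, 4, 10, 3, 5, 4, 1, 6, 7⟩ :=
  leafX_sound T5.ok_mm T5.Ymm.bz_eq (w := 251) (c := ⟨⟨.negSucc 5941, .negSucc 382, .negSucc 480, .negSucc 474, .ofNat 594, .negSucc 464⟩, ⟨.ofNat 3773, .ofNat 357, .ofNat 528, .ofNat 314, .negSucc 391, .ofNat 307⟩, ⟨.ofNat 3043, .ofNat 741, .negSucc 100, .ofNat 487, .negSucc 182, .ofNat 354⟩, ⟨.negSucc 8871, .negSucc 520, .negSucc 357, .negSucc 405, .ofNat 569, .negSucc 380⟩, ⟨.negSucc 746, .ofNat 465, .negSucc 6, .ofNat 390, .negSucc 415, .ofNat 436⟩, .ofNat 912, .ofNat 1033, .ofNat 0, .ofNat 1033, .ofNat 1792, .ofNat 0, .ofNat 128, .negSucc 998, .negSucc 1075, .ofNat 0, .ofNat 681,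 .ofNat 711, .ofNat 0, .ofNat 0, .ofNat 896, .ofNat 9716, .ofNat 0, .ofNat 0, .ofNat 0, .ofNat 0, .ofNat 0, .ofNat 0, .ofNat 36831691241401379147278861630758320351377096704, .ofNat 56799002210317640418575511709763059763044907184417669120, .ofNat 0, .ofNat 0, .ofNat 705711868439926526534620915467217507114949804032, .ofNat 203139238919137862856181613529826380992211190958362984448, .ofNat 0, .ofNat 0, .ofNat 389541228272649812525770156863807945092867555328, .ofNat 0⟩)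
    (by decide +kernel)
theorem L04664 : Good (Phi V5.P V5.D (-1) (-1)) ⟨5, 29, 4, 10, 2, 2, 3, 0, 5, 3⟩ :=
  out_sound (S := T5.ds_mm) T5.ok_mm (w := 59) (j := 3) (by decide +kernel)
theorem L04665 : Good (Phi V5.P V5.D (-1) (-1)) ⟨4, 15, 4, 10, 2, 2, 3, 0, 5, 3⟩ :=
  out_sound (S := T5.ds_mm) T5.ok_mm (w := 53) (j := 3) (by decide +kernel)
theorem L04666 : Good (Phi V5.P V5.D (-1) (-1)) ⟨3, 6, 4, 11, 2, 2, 3, 0, 4, 1⟩ :=
  out_sound (S := T5.ds_mm) T5.ok_mm (w := 47) (j := 3) (by decide +kernel)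
theorem L04667 : Good (Phi V5.P V5.D (-1) (-1)) ⟨6, 56, 4, 11, 2, 2, 3, 0, 4, 1⟩ :=
  out_sound (S := T5.ds_mm) T5.ok_mm (w := 65) (j := 3) (by decide +kernel)
theorem L04668 : Good (Phi V5.P V5.D (-1) (-1)) ⟨7, 114, 5, 22, 2, 2, 3, 0, 4, 1⟩ :=
  out_sound (S := T5.ds_mm) T5.ok_mm (w := 73) (j := 3) (by decide +kernel)
theorem L04669 : Good (Phi V5.P V5.D (-1) (-1)) ⟨7, 115, 5, 22, 2, 2, 3, 0, 4, 1⟩ :=
  out_sound (S := T5.ds_mm) T5.ok_mm (w := 21) (j := 4) (by decide +kernel)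
theorem L04670 : Good (Phi V5.P V5.D (-1) (-1)) ⟨6, 57, 5, 23, 2, 2, 3, 0, 4, 1⟩ :=
  out_sound (S := T5.ds_mm) T5.ok_mm (w := 67) (j := 3) (by decide +kernel)
theorem L04671 : Good (Phi V5.P V5.D (-1) (-1)) ⟨5, 29, 4, 11, 2, 2, 3, 0, 4, 1⟩ :=
  out_sound (S := T5.ds_mm) T5.ok_mm (w := 17) (j := 4) (by decide +kernel)
theorem L04672 : Good (Phi V5.P V5.D (-1) (-1)) ⟨4, 15, 4, 11, 2, 2, 3, 0, 4, 1⟩ :=
  out_sound (S := T5.ds_mm) T5.ok_mm (w := 53) (j := 3) (by decide +kernel)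
theorem L04673 : Good (Phi V5.P V5.D (-1) (-1)) ⟨2, 2, 3, 5, 2, 2, 3, 1, 3, 0⟩ :=
  out_sound (S := T5.ds_mm) T5.ok_mm (w := 39) (j := 3) (by decide +kernel)
theorem L04674 : Good (Phi V5.P V5.D (-1) (-1)) ⟨3, 6, 3, 5, 2, 2, 3, 1, 3, 0⟩ :=
  out_sound (S := T5.ds_mm) T5.ok_mm (w := 45) (j := 3) (by decide +kernel)
theorem L04675 : Good (Phi V5.P V5.D (-1) (-1)) ⟨5, 28, 4, 10, 2, 2, 3, 1, 5, 0⟩ :=
  leafX_sound T5.ok_mm T5.Ymm.bz_eq (w := 228) (c := ⟨⟨.ofNat 7440, .ofNat 1168, .negSucc 424, .negSucc 2130, .negSucc 1153, .negSucc 3⟩, ⟨.negSucc 4738, .negSucc 1170, .ofNat 286, .ofNat 1419, .ofNat 767, .negSucc 5⟩, ⟨.negSucc 4117, .negSucc 683, .ofNat 244, .ofNat 2809, .negSucc 241, .negSucc 215⟩, ⟨.ofNat 8116, .ofNat 1116, .negSucc 479, .negSucc 1404, .negSucc 872, .negSucc 840⟩, ⟨.negSucc 3839, .negSucc 522, .ofNat 447, .ofNat 2350, .ofNat 1171, .negSucc 1221⟩, .ofNat 907, .ofNat 1027, .ofNat 0, .ofNat 1027, .ofNat 1787, .ofNat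 0, .ofNat 128, .negSucc 1145, .negSucc 1183, .ofNat 0, .ofNat 772, .ofNat 752, .ofNat 0, .ofNat 0, .ofNat 1230, .ofNat 2454, .ofNat 0, .ofNat 0, .ofNat 266482789090230324155834939960559927296, .ofNat 580430653769385726237907716545168801312708493312, .ofNat 0, .ofNat 0, .ofNat 2902103916546535569425387769017824968704, .ofNat 0, .ofNat 0, .ofNat 0, .ofNat 18625927384172784125176311265764422189056, .ofNat 0, .ofNat 0, .ofNat 0, .ofNat 0, .ofNat 0⟩)
    (by decide +kernel)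
theorem L04676 : Good (Phi V5.P V5.D (-1) (-1)) ⟨6, 56, 4, 11, 2, 2, 3, 1, 5, 0⟩ :=
  out_sound (S := T5.ds_mm) T5.ok_mm (w := 65) (j := 3) (by decide +kernel)
theorem L04677 : Good (Phi V5.P V5.D (-1) (-1)) ⟨7, 114, 5, 22, 2, 2, 3, 1, 5, 0⟩ :=
  out_sound (S := T5.ds_mm) T5.ok_mm (w := 73) (j := 3) (by decide +kernel)
theorem L04678 : Good (Phi V5.P V5.D (-1) (-1)) ⟨7, 115, 5, 22, 2, 2, 3, 1, 5, 0⟩ :=
  out_sound (S := T5.ds_mm) T5.ok_mm (w := 21) (j := 4) (by decide +kernel)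
theorem L04679 : Good (Phi V5.P V5.D (-1) (-1)) ⟨6, 57, 5, 23, 2, 2, 3, 1, 5, 0⟩ :=
  out_sound (S := T5.ds_mm) T5.ok_mm (w := 67) (j := 3) (by decide +kernel)
theorem L04680 : Good (Phi V5.P V5.D (-1) (-1)) ⟨6, 56, 4, 10, 2, 2, 3, 1, 5, 1⟩ :=
  leafX_sound T5.ok_mm T5.Ymm.bz_eq (w := 232) (c := ⟨⟨.ofNat 6250, .negSucc 654, .ofNat 284, .ofNat 1179, .negSucc 1751, .negSucc 2228⟩, ⟨.negSucc 3970, .ofNat 207, .negSucc 105, .negSucc 754, .ofNat 1160, .ofNat 1442⟩, ⟨.negSucc 3658, .ofNat 151, .ofNat 336, .ofNat 767, .ofNat 341, .ofNat 894⟩, ⟨.ofNat 5893, .negSucc 715, .ofNat 284, .ofNat 2294, .negSucc 1391, .negSucc 3515⟩, ⟨.negSucc 4823, .ofNat 742, .negSucc 207, .ofNat 870, .ofNat 1731, .negSucc 614⟩, .ofNat 982, .ofNat 1154, .ofNat 0, .ofNat 1154, .ofNat 2009, .ofNat 0, .ofNat 128, .negSucc 1076, .negSucc 2052, .ofNat 0, .ofNat 708, .ofNat 1298, .ofNat 0, .ofNat 0, .ofNat 1687, .ofNat 1864, .ofNat 0, .ofNat 0, .ofNat 0, .ofNat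 0, .ofNat 0, .ofNat 0, .ofNat 6202088511493373119753614050211747856384, .ofNat 0, .ofNat 0, .ofNat 0, .ofNat 27141028189764027359233416685030473728000, .ofNat 0, .ofNat 0, .ofNat 0, .ofNat 47994724440780975577823294390205495115776, .ofNat 0⟩)
    (by decide +kernel)
theorem L04681 : Good (Phi V5.P V5.D (-1) (-1)) ⟨7, 114, 5, 20, 2, 2, 3, 1, 5, 1⟩ :=
  leafX_sound T5.ok_mm T5.Ymm.bz_eq (w := 240) (c := ⟨⟨.ofNat 5548, .negSucc 1, .ofNat 751, .ofNat 587, .negSucc 1433, .negSucc 2854⟩, ⟨.negSucc 7679, .ofNat 2, .ofNat 3493, .negSucc 368, .ofNat 961, .ofNat 1869⟩, ⟨.negSucc 3976, .ofNat 1, .ofNat 228, .ofNat 1233, .ofNat 94, .ofNat 1191⟩, ⟨.ofNat 7824, .negSucc 2, .negSucc 1956, .ofNat 1696, .negSucc 1063, .negSucc 4067⟩, ⟨.negSucc 5767, .ofNat 2, .ofNat 1229, .ofNat 1179, .ofNat 1536, .negSucc 208⟩, .ofNat 844, .ofNat 920, .ofNat 0, .ofNat 920, .ofNat 1596, .ofNat 0, .ofNat 128, .negSucc 1088, .negSucc 2390, .ofNat 0, .ofNat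 738, .ofNat 1543, .ofNat 0, .ofNat 0, .ofNat 1863, .ofNat 2386, .ofNat 0, .ofNat 0, .ofNat 4669090000696496030965330228727768940544, .ofNat 0, .ofNat 0, .ofNat 0, .ofNat 5804469624694031058350944229217458102206464, .ofNat 0, .ofNat 0, .ofNat 0, .ofNat 7236665124714998489659778898533622757720064, .ofNat 0, .ofNat 0, .ofNat 0, .ofNat 6439010650721628334489036127596206050246656, .ofNat 0⟩)
    (by decide +kernel)
theorem L04682 : Good (Phi V5.P V5.D (-1) (-1)) ⟨7, 114, 5, 21, 2, 2, 3, 1, 5, 1⟩ :=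
  leafX_sound T5.ok_mm T5.Ymm.bz_eq (w := 240) (c := ⟨⟨.ofNat 6120, .ofNat 1672, .negSucc 212, .ofNat 1038, .negSucc 2313, .negSucc 2835⟩, ⟨.negSucc 4073, .negSucc 1299, .ofNat 259, .negSucc 676, .ofNat 1547, .ofNat 1873⟩, ⟨.negSucc 3598, .negSucc 991, .ofNat 239, .ofNat 896, .ofNat 575, .ofNat 1224⟩, ⟨.ofNat 5648, .ofNat 1902, .negSucc 468, .ofNat 2183, .negSucc 1913, .negSucc 4077⟩, ⟨.negSucc 4489, .negSucc 917, .ofNat 292, .ofNat 1026, .ofNat 2020, .negSucc 242⟩, .ofNat 936, .ofNat 1063, .ofNat 0, .ofNat 1063, .ofNat 1820, .ofNat 0, .ofNat 128, .negSucc 1218, .negSucc 2382, .ofNat 0, .ofNat 822, .ofNat 1536, .ofNat 0, .ofNat 0, .ofNat 2014, .ofNat 1952, .ofNat 0, .ofNat 0, .ofNat 75995088487152081500071866797364609024, .ofNat 231820668987627851892710609533562384723815413317632, .ofNat 0, .ofNat 0, .ofNat 4853700959032972407366903778250128883712, .ofNat 941759946002635028315296758466375011303644570058752, .ofNat 0, .ofNat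 0, .ofNat 5910142821740594008427814599094083518464, .ofNat 0, .ofNat 0, .ofNat 0, .ofNat 0, .ofNat 0⟩)
    (by decide +kernel)
theorem L04683 : Good (Phi V5.P V5.D (-1) (-1)) ⟨7, 115, 4, 10, 2, 2, 3, 1, 5, 1⟩ :=
  out_sound (S := T5.ds_mm) T5.ok_mm (w := 21) (j := 4) (by decide +kernel)
theorem L04684 : Good (Phi V5.P V5.D (-1) (-1)) ⟨6, 56, 4, 11, 2, 2, 3, 1, 5, 1⟩ :=
  out_sound (S := T5.ds_mm) T5.ok_mm (w := 65) (j := 3) (by decide +kernel)
theorem L04685 : Good (Phi V5.P V5.D (-1) (-1)) ⟨7, 114, 5, 22, 2, 2, 3, 1, 5, 1⟩ :=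
  out_sound (S := T5.ds_mm) T5.ok_mm (w := 73) (j := 3) (by decide +kernel)
theorem L04686 : Good (Phi V5.P V5.D (-1) (-1)) ⟨7, 115, 5, 22, 2, 2, 3, 1, 5, 1⟩ :=
  out_sound (S := T5.ds_mm) T5.ok_mm (w := 21) (j := 4) (by decide +kernel)
theorem L04687 : Good (Phi V5.P V5.D (-1) (-1)) ⟨6, 57, 5, 23, 2, 2, 3, 1, 5, 1⟩ :=
  out_sound (S := T5.ds_mm) T5.ok_mm (w := 67) (j := 3) (by decide +kernel)
theorem L04688 : Good (Phi V5.P V5.D (-1) (-1)) ⟨5, 29, 3, 5, 2, 2, 3, 1, 4, 0⟩ :=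
  out_sound (S := T5.ds_mm) T5.ok_mm (w := 17) (j := 4) (by decide +kernel)
theorem L04689 : Good (Phi V5.P V5.D (-1) (-1)) ⟨4, 15, 3, 5, 2, 2, 3, 1, 4, 0⟩ :=
  out_sound (S := T5.ds_mm) T5.ok_mm (w := 51) (j := 3) (by decide +kernel)
theorem L04690 : Good (Phi V5.P V5.D (-1) (-1)) ⟨5, 28, 3, 5, 2, 2, 3, 1, 5, 2⟩ :=
  leafX_sound T5.ok_mm T5.Ymm.bz_eq (w := 224) (c := ⟨⟨.ofNat 1622, .negSucc 340, .ofNat 965, .ofNat 3374, .negSucc 831, .negSucc 5253⟩, ⟨.negSucc 1159, .ofNat 561, .negSucc 1038, .negSucc 2234, .ofNat 571, .ofNat 3472⟩, ⟨.negSucc 1147, .ofNat 690, .negSucc 1105, .negSucc 1455, .ofNat 270, .ofNat 3044⟩, ⟨.ofNat 314, .negSucc 271, .ofNat 987, .ofNat 3686, .negSucc 366, .negSucc 6876⟩, ⟨.negSucc 3261, .ofNat 218, .ofNat 18, .negSucc 1632, .ofNat 1293, .ofNat 1146⟩, .ofNat 904, .ofNat 1024, .ofNat 0, .ofNat 1024, .ofNat 1785, .ofNat 0, .ofNat 128, .negSucc 788, .negSucc 993, .ofNat 0, .ofNat 531, .ofNat 636, .ofNat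 0, .ofNat 0, .ofNat 801, .ofNat 690, .ofNat 0, .ofNat 0, .ofNat 121437362916501453909526316532310736896, .ofNat 19828083633410632053473570828027908149466890240, .ofNat 0, .ofNat 0, .ofNat 984008773653461689033591374396128231424, .ofNat 0, .ofNat 0, .ofNat 0, .ofNat 1335912662731958865469724521317288378368, .ofNat 2378711698601222613431634389477314042937393283072, .ofNat 0, .ofNat 0, .ofNat 5478386919461691178859692150409832431616, .ofNat 1787701434418311276868350007661288471718793314304⟩)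
    (by decide +kernel)
theorem L04691 : Good (Phi V5.P V5.D (-1) (-1)) ⟨5, 28, 4, 10, 3, 4, 3, 1, 5, 3⟩ :=
  leafX_sound T5.ok_mm T5.Ymm.bz_eq (w := 242) (c := ⟨⟨.negSucc 2846, .negSucc 590, .negSucc 0, .negSucc 1122, .negSucc 231, .negSucc 1598⟩, ⟨.ofNat 1761, .ofNat 503, .ofNat 142, .ofNat 732, .ofNat 155, .ofNat 1053⟩, ⟨.ofNat 1694, .ofNat 105, .ofNat 148, .ofNat 407, .ofNat 312, .ofNat 1232⟩, ⟨.negSucc 5058, .negSucc 546, .negSucc 1, .negSucc 1571, .negSucc 150, .negSucc 1828⟩, ⟨.negSucc 1573, .ofNat 293, .negSucc 70, .ofNat 22, .ofNat 256, .ofNat 764⟩, .ofNat 921, .ofNat 1045, .ofNat 0, .ofNat 1045, .ofNat 1801, .ofNat 0, .ofNat 128, .negSucc 1458, .negSucc 1973, .ofNat 0, .ofNat 1008, .ofNat 1286, .ofNat 0, .ofNat 0, .ofNat 1922, .ofNat 1936, .ofNat 0, .ofNat 0, .ofNat 0, .ofNat 0, .ofNat 0, .ofNat 0, .ofNat 271093902948526834490846213883972329901391872, .ofNat 0, .ofNat 0, .ofNat 0, .ofNat 0, .ofNat 0, .ofNat 0,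 .ofNat 0, .ofNat 0, .ofNat 0⟩)
    (by decide +kernel)
theorem L04692 : Good (Phi V5.P V5.D (-1) (-1)) ⟨5, 28, 4, 10, 3, 5, 3, 1, 5, 3⟩ :=
  leafX_sound T5.ok_mm T5.Ymm.bz_eq (w := 245) (c := ⟨⟨.negSucc 4067, .negSucc 444, .negSucc 98, .ofNat 296, .ofNat 833, .negSucc 2543⟩, ⟨.ofNat 2587, .ofNat 231, .ofNat 340, .negSucc 196, .negSucc 550, .ofNat 1679⟩, ⟨.ofNat 2171, .ofNat 425, .negSucc 42, .negSucc 33, .negSucc 356, .ofNat 1595⟩, ⟨.negSucc 7005, .negSucc 374, .negSucc 137, .ofNat 314, .ofNat 911, .negSucc 2510⟩, ⟨.negSucc 1864, .ofNat 194, .negSucc 83, .negSucc 162, .negSucc 389, .ofNat 1702⟩, .ofNat 2570, .ofNat 3504, .ofNat 0, .ofNat 3504, .ofNat 5521, .ofNat 0, .ofNat 128, .negSucc 1250, .negSucc 2006, .ofNat 0, .ofNat 836, .ofNat 1325, .ofNat 0, .ofNat 0, .ofNat 1567, .ofNat 3805, .ofNat 0, .ofNat 0, .ofNat 0, .ofNat 0, .ofNat 0, .ofNat 0, .ofNat 1197526203526474127565950098787506854639435776, .ofNat 0, .ofNat 0, .ofNat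 0, .ofNat 824084726908366116449579552584368407911071744, .ofNat 0, .ofNat 0, .ofNat 0, .ofNat 1082999928431261567660821087045489737991192576, .ofNat 747504929393802049677588118106747910796077195233067008⟩)
    (by decide +kernel)
theorem L04693 : Good (Phi V5.P V5.D (-1) (-1)) ⟨6, 56, 4, 11, 2, 2, 3, 1, 5, 3⟩ :=
  out_sound (S := T5.ds_mm) T5.ok_mm (w := 65) (j := 3) (by decide +kernel)
theorem L04694 : Good (Phi V5.P V5.D (-1) (-1)) ⟨7, 114, 5, 22, 2, 2, 3, 1, 5, 3⟩ :=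
  out_sound (S := T5.ds_mm) T5.ok_mm (w := 73) (j := 3) (by decide +kernel)
theorem L04695 : Good (Phi V5.P V5.D (-1) (-1)) ⟨7, 115, 5, 22, 2, 2, 3, 1, 5, 3⟩ :=
  out_sound (S := T5.ds_mm) T5.ok_mm (w := 21) (j := 4) (by decide +kernel)
theorem L04696 : Good (Phi V5.P V5.D (-1) (-1)) ⟨6, 57, 5, 23, 2, 2, 3, 1, 5, 3⟩ :=
  out_sound (S := T5.ds_mm) T5.ok_mm (w := 67) (j := 3) (by decide +kernel)
theorem L04697 : Good (Phi V5.P V5.D (-1) (-1)) ⟨5, 29, 3, 5, 2, 2, 3, 1, 4, 1⟩ :=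
  out_sound (S := T5.ds_mm) T5.ok_mm (w := 17) (j := 4) (by decide +kernel)
theorem L04698 : Good (Phi V5.P V5.D (-1) (-1)) ⟨4, 15, 3, 5, 2, 2, 3, 1, 4, 1⟩ :=
  out_sound (S := T5.ds_mm) T5.ok_mm (w := 51) (j := 3) (by decide +kernel)
theorem L04699 : Good (Phi V5.P V5.D (-1) (-1)) ⟨2, 2, 4, 10, 3, 4, 3, 0, 3, 1⟩ :=
  out_sound (S := T5.ds_mm) T5.ok_mm (w := 41) (j := 3) (by decide +kernel)
theorem L04700 : Good (Phi V5.P V5.D (-1) (-1)) ⟨3, 6, 4, 10, 3, 4, 3, 0, 3, 1⟩ :=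
  out_sound (S := T5.ds_mm) T5.ok_mm (w := 47) (j := 3) (by decide +kernel)
theorem L04701 : Good (Phi V5.P V5.D (-1) (-1)) ⟨4, 14, 4, 10, 3, 4, 4, 0, 4, 2⟩ :=
  leafX_sound T5.ok_mm T5.Ymm.bz_eq (w := 237) (c := ⟨⟨.negSucc 4366, .negSucc 500, .negSucc 364, .negSucc 1290, .ofNat 93, .ofNat 260⟩, ⟨.ofNat 2766, .ofNat 389, .ofNat 454, .ofNat 853, .negSucc 62, .negSucc 164⟩, ⟨.ofNat 2696, .ofNat 246, .ofNat 206, .ofNat 387, .ofNat 32, .ofNat 421⟩, ⟨.negSucc 6914, .negSucc 323, .negSucc 357, .negSucc 1662, .ofNat 134, .ofNat 633⟩, ⟨.negSucc 1057, .ofNat 203, .ofNat 153, .ofNat 259, .ofNat 21, .ofNat 379⟩, .ofNat 909, .ofNat 1030, .ofNat 0, .ofNat 1030, .ofNat 1789, .ofNat 0, .ofNat 128, .negSucc 1451, .negSucc 974, .ofNat 0, .ofNat 1010, .ofNat 648, .ofNat 0, .ofNat 0, .ofNat 1333, .ofNat 12208, .ofNat 63286952547887558542890366173908837954203693350912, .ofNat 0, .ofNat 6620408147021573648480203852983806870945792, .ofNat 0,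 .ofNat 187341411595854541980145975855029273820747624611840, .ofNat 0, .ofNat 434594375345414680529931299284815307754962944, .ofNat 9800654798647602167682238413018584590485639705657344, .ofNat 737425260427006238090621611036023758150221728579584, .ofNat 0, .ofNat 670409045405752090744719081527399617067483136, .ofNat 0, .ofNat 121451464794137017906786478287856009381584142598144, .ofNat 0, .ofNat 470029348140706713271491767200041088550174720, .ofNat 0⟩)
    (by decide +kernel)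
theorem L04702 : Good (Phi V5.P V5.D (-1) (-1)) ⟨4, 14, 4, 10, 3, 4, 4, 1, 4, 2⟩ :=
  leafX_sound T5.ok_mm T5.Ymm.bz_eq (w := 237) (c := ⟨⟨.negSucc 4982, .ofNat 491, .negSucc 439, .negSucc 619, .negSucc 78, .ofNat 900⟩, ⟨.ofNat 3168, .negSucc 155, .ofNat 457, .ofNat 408, .ofNat 53, .negSucc 588⟩, ⟨.ofNat 3140, .ofNat 85, .ofNat 128, .ofNat 29, .ofNat 117, .negSucc 150⟩, ⟨.negSucc 7494, .ofNat 443, .negSucc 394, .negSucc 944, .negSucc 46, .ofNat 1291⟩, ⟨.negSucc 677, .negSucc 294, .ofNat 165, .negSucc 69, .ofNat 92, .ofNat 29⟩, .ofNat 906, .ofNat 1026, .ofNat 0, .ofNat 1026, .ofNat 1785, .ofNat 0, .ofNat 128, .negSucc 1038, .negSucc 684, .ofNat 0, .ofNat 732, .ofNat 454, .ofNat 0, .ofNat 0, .ofNat 1068, .ofNat 13022, .ofNat 13868814284386689960364720224537520034478655799296, .ofNat 0, .ofNat 16908859021374550866142386238002398134009856, .ofNat 0, .ofNat 0, .ofNat 0, .ofNat 494065337541519728067388064914678440764899328, .ofNat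 27886475671957844300719085993975815949386075019935744, .ofNat 0, .ofNat 0, .ofNat 664989326953417102436449216301008592813686784, .ofNat 177737665222943979434391858717307434927778953905045504, .ofNat 0, .ofNat 0, .ofNat 299471751879326821814470273668680255587483648, .ofNat 48073155628678304287809530641400157404125583827271680⟩)
    (by decide +kernel)
theorem L04703 : Good (Phi V5.P V5.D (-1) (-1)) ⟨4, 15, 4, 10, 3, 4, 3, 0, 4, 2⟩ :=
  out_sound (S := T5.ds_mm) T5.ok_mm (w := 53) (j := 3) (by decide +kernel)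
theorem L04704 : Good (Phi V5.P V5.D (-1) (-1)) ⟨3, 7, 4, 10, 3, 4, 3, 0, 4, 3⟩ :=
  leafX_sound T5.ok_mm T5.Ymm.bz_eq (w := 231) (c := ⟨⟨.negSucc 4358, .negSucc 120, .negSucc 102, .negSucc 135, .ofNat 37, .ofNat 1277⟩, ⟨.ofNat 2782, .ofNat 233, .ofNat 231, .ofNat 88, .negSucc 25, .negSucc 841⟩, ⟨.ofNat 3292, .ofNat 83, .ofNat 16, .negSucc 287, .negSucc 77, .negSucc 601⟩, ⟨.negSucc 6587, .negSucc 17, .negSucc 71, .negSucc 362, .ofNat 102, .ofNat 1662⟩, ⟨.negSucc 613, .ofNat 6, .ofNat 0, .negSucc 256, .ofNat 83, .negSucc 204⟩, .ofNat 913, .ofNat 1035, .ofNat 0, .ofNat 1035, .ofNat 1794, .ofNat 0, .ofNat 128, .negSucc 793, .negSucc 379, .ofNat 0, .ofNat 574, .ofNat 255, .ofNat 0, .ofNat 0, .ofNat 841, .ofNat 42073, .ofNat 430566985510989607453712783900527465507151937536, .ofNat 0, .ofNat 3248531745157324197813385688522459787034624, .ofNat 0, .ofNat 2058947020521688245847856202717029597742010204160, .ofNat 0, .ofNat 88414094336120562834751088974916192240140288,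 .ofNat 423574807852798039235481042276953912396768056705024, .ofNat 0, .ofNat 0, .ofNat 50555881723126529265878621371271682669412352, .ofNat 2711245972574667250183978732404735090399512381882368, .ofNat 4692821606700960677253807980547682487371699322880, .ofNat 0, .ofNat 72548100193270464324879074365845642598678528, .ofNat 1376788811641573401927463457306765118510916331110400⟩)
    (by decide +kernel)
theorem L04705 : Good (Phi V5.P V5.D (-1) (-1)) ⟨2, 2, 4, 10, 3, 5, 3, 0, 4, 2⟩ :=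
  out_sound (S := T5.ds_mm) T5.ok_mm (w := 41) (j := 3) (by decide +kernel)
theorem L04706 : Good (Phi V5.P V5.D (-1) (-1)) ⟨3, 6, 4, 10, 3, 5, 3, 0, 4, 2⟩ :=
  out_sound (S := T5.ds_mm) T5.ok_mm (w := 47) (j := 3) (by decide +kernel)
theorem L04707 : Good (Phi V5.P V5.D (-1) (-1)) ⟨6, 56, 4, 10, 3, 5, 5, 0, 5, 4⟩ :=
  leafX_sound T5.ok_mm T5.Ymm.bz_eq (w := 259) (c := ⟨⟨.negSucc 7464, .negSucc 870, .ofNat 357, .ofNat 844, .ofNat 198, .ofNat 1549⟩, ⟨.ofNat 4758, .ofNat 652, .negSucc 42, .negSucc 544, .negSucc 133, .negSucc 1018⟩, ⟨.ofNat 3667, .ofNat 413, .negSucc 298, .ofNat 335, .negSucc 77, .negSucc 527⟩, ⟨.negSucc 10556, .negSucc 687, .ofNat 334, .ofNat 1392, .ofNat 119, .ofNat 1696⟩, ⟨.ofNat 189, .ofNat 555, .negSucc 299, .ofNat 319, .negSucc 243, .negSucc 737⟩, .ofNat 1452, .ofNat 1847, .ofNat 0, .ofNat 1847, .ofNat 3055, .ofNat 0, .ofNat 128, .negSucc 1693, .negSucc 1575, .ofNat 0, .ofNat 1149, .ofNat 1051, .ofNat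 0, .ofNat 0, .ofNat 1560, .ofNat 653510, .ofNat 25927086142747987641785769078839566409317940562315182080, .ofNat 0, .ofNat 4077218726031269769036559322825527467167449088, .ofNat 0, .ofNat 34876483224826772431823044662419239645571547966690295808, .ofNat 0, .ofNat 53669668822230628348541684872855162096627744768, .ofNat 0, .ofNat 377681621149498785204187654130426511678664329194998071296, .ofNat 0, .ofNat 96599313584852431371381050623086963190317187072, .ofNat 0, .ofNat 147164480801106811462381684461950218911446747558101123072, .ofNat 0, .ofNat 301161320769214614300876237670830988745605382144, .ofNat 0⟩)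
    (by decide +kernel)
theorem L04708 : Good (Phi V5.P V5.D (-1) (-1)) ⟨6, 56, 4, 10, 3, 5, 5, 1, 5, 4⟩ :=
  leafX_sound T5.ok_mm T5.Ymm.bz_eq (w := 255) (c := ⟨⟨.negSucc 5776, .negSucc 1519, .ofNat 1260, .negSucc 150, .ofNat 141, .ofNat 1037⟩, ⟨.ofNat 3672, .ofNat 1039, .negSucc 617, .ofNat 103, .negSucc 91, .negSucc 673⟩, ⟨.ofNat 3322, .ofNat 605, .negSucc 542, .ofNat 293, .negSucc 54, .negSucc 334⟩, ⟨.negSucc 8631, .negSucc 1444, .ofNat 1232, .ofNat 3, .ofNat 87, .ofNat 1250⟩, ⟨.negSucc 561, .ofNat 838, .negSucc 820, .ofNat 396, .negSucc 176, .negSucc 338⟩, .ofNat 891, .ofNat 1007, .ofNat 0, .ofNat 1007, .ofNat 1769, .ofNat 0, .ofNat 128, .negSucc 1118, .negSucc 756, .ofNat 0, .ofNat 777, .ofNat 506, .ofNat 0, .ofNat 0, .ofNat 912, .ofNat 33662, .ofNat 237102358744378220358588592909003722611058655719587840, .ofNat 0, .ofNat 1424109953211534659758435398932599324702408704, .ofNat 0, .ofNat 1379241498575365288016396839661151755636109030321029120,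 .ofNat 0, .ofNat 70068634992004108097715595305521797782541697024, .ofNat 0, .ofNat 8827774290045509685459564673433645265554502541268484096, .ofNat 0, .ofNat 110009754242047486942028797502695569648070426624, .ofNat 0, .ofNat 0, .ofNat 0, .ofNat 59621862648910700542263709749206643001710870528, .ofNat 0⟩)
    (by decide +kernel)
theorem L04709 : Good (Phi V5.P V5.D (-1) (-1)) ⟨6, 56, 4, 10, 3, 5, 4, 1, 5, 4⟩ :=
  leafX_sound T5.ok_mm T5.Ymm.bz_eq (w := 254) (c := ⟨⟨.negSucc 6368, .ofNat 159, .negSucc 739, .negSucc 84, .ofNat 56, .ofNat 995⟩, ⟨.ofNat 4059, .negSucc 52, .ofNat 680, .ofNat 59, .negSucc 37, .negSucc 647⟩, ⟨.ofNat 3577, .ofNat 13, .ofNat 199, .ofNat 169, .ofNat 10, .negSucc 346⟩, ⟨.negSucc 9156, .ofNat 125, .negSucc 723, .negSucc 37, .negSucc 22, .ofNat 1230⟩, ⟨.negSucc 155, .negSucc 199, .ofNat 298, .ofNat 141, .negSucc 161, .negSucc 269⟩, .ofNat 2391, .ofNat 3267, .ofNat 0, .ofNat 3267, .ofNat 5220, .ofNat 0,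 .ofNat 128, .negSucc 2635, .negSucc 2015, .ofNat 0, .ofNat 1766, .ofNat 1329, .ofNat 0, .ofNat 0, .ofNat 2316, .ofNat 41887, .ofNat 0, .ofNat 0, .ofNat 47604335654999761753261914481448896323125248, .ofNat 0, .ofNat 0, .ofNat 0, .ofNat 8937925365824684870476376181608600735060066304, .ofNat 0, .ofNat 0, .ofNat 0, .ofNat 38371688601951092791683144907312214153541713920, .ofNat 0, .ofNat 0, .ofNat 0, .ofNat 62161339285728920965667631097152405397632450560, .ofNat 0⟩)
    (by decide +kernel)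
theorem L04710 : Good (Phi V5.P V5.D (-1) (-1)) ⟨7, 114, 4, 10, 4, 10, 4, 0, 6, 8⟩ :=
  leafX_sound T5.ok_mm T5.Ymm.bz_eq (w := 282) (c := ⟨⟨.negSucc 6643, .negSucc 230, .negSucc 66, .negSucc 688, .ofNat 355, .ofNat 448⟩, ⟨.ofNat 4332, .ofNat 221, .ofNat 171, .ofNat 461, .negSucc 237, .negSucc 297⟩, ⟨.ofNat 3507, .ofNat 104, .ofNat 53, .ofNat 371, .negSucc 21, .negSucc 85⟩, ⟨.negSucc 9468, .negSucc 173, .negSucc 82, .negSucc 656, .ofNat 384, .ofNat 520⟩, ⟨.negSucc 205, .ofNat 84, .ofNat 38, .ofNat 461, .negSucc 160, .negSucc 160⟩, .ofNat 7276, .ofNat 10529, .ofNat 0, .ofNat 10529, .ofNat 16016, .ofNat 0, .ofNat 128, .negSucc 6136, .negSucc 4897, .ofNat 0, .ofNat 4116, .ofNat 3275, .ofNat 0, .ofNat 0, .ofNat 5193, .ofNat 30944, .ofNat 74741198714539362226985857609982735636610295056310216949760, .ofNat 0, .ofNat 26181777583891450738449037257155182608374965469184, .ofNat 0, .ofNat 92547539749398440229363559806848707258125812763725150552064,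 .ofNat 0, .ofNat 9739209956249274456735139992901830120932256669237248, .ofNat 580065028093894778314158051155523656559706042703841454024818688, .ofNat 0, .ofNat 0, .ofNat 0, .ofNat 0, .ofNat 0, .ofNat 0, .ofNat 0, .ofNat 0⟩)
    (by decide +kernel)

end Crest.Agent.R097C5.N5mm
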