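import Crest.Agent.R097.KP7
import Crest.Agent.R097.T5Ymm

/-!
# Row 97, box cover in dimension n = 5 (generated)
-/

set_option autoImplicit false
set_option Elab.async false
set_option maxHeartbeats 0
set_option maxRecDepth 100000

open Crest.Agent.R097 Crest.Agent.R097.KA


namespace Crest.Agent.R097C5.N5mm

theorem L04711 : Good (Phi V5.P V5.D (-1) (-1)) ⟨7, 114, 4, 10, 4, 11, 4, 0, 6, 8⟩ :=
  leafX_sound T5.ok_mm T5.Ymm.bz_eq (w := 279) (c := ⟨⟨.negSucc 7732, .negSucc 313, .ofNat 178, .ofNat 396, .ofNat 335, .ofNat 790⟩, ⟨.ofNat 5045, .ofNat 264, .ofNat 36, .negSucc 262, .negSucc 224, .negSucc 526⟩, ⟨.ofNat 3996, .negSucc 61, .ofNat 281, .ofNat 23, .negSucc 89, .negSucc 286⟩, ⟨.negSucc 10249, .negSucc 167, .negSucc 19, .ofNat 582, .ofNat 178, .ofNat 885⟩, ⟨.ofNat 732, .ofNat 83, .negSucc 0, .ofNat 40, .negSucc 441, .negSucc 333⟩, .ofNat 2691, .ofNat 3670, .ofNat 0, .ofNat 3670,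 .ofNat 5742, .ofNat 0, .ofNat 128, .negSucc 4514, .negSucc 3562, .ofNat 0, .ofNat 3061, .ofNat 2393, .ofNat 0, .ofNat 0, .ofNat 3696, .ofNat 129318, .ofNat 161527887379068007562615199123208698333422387031731905495040, .ofNat 0, .ofNat 104714457088878912971454572002361953476852565671936, .ofNat 0, .ofNat 7239806563167964221858583614272998629672643344495397568512, .ofNat 0, .ofNat 1105274496395449785647702450716055661169333304819712, .ofNat 204759290557836677252350581906173059752817502150822374852788224, .ofNat 0, .ofNat 0, .ofNat 0, .ofNat 0, .ofNat 0, .ofNat 0, .ofNat 16173275791016194466706026507073983283972611197894656, .ofNat 0⟩)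
    (by decide +kernel)
theorem L04712 : Good (Phi V5.P V5.D (-1) (-1)) ⟨7, 115, 4, 10, 3, 5, 4, 0, 6, 8⟩ :=
  out_sound (S := T5.ds_mm) T5.ok_mm (w := 21) (j := 4) (by decide +kernel)
theorem L04713 : Good (Phi V5.P V5.D (-1) (-1)) ⟨7, 114, 4, 10, 3, 5, 4, 1, 6, 8⟩ :=
  leafX_sound T5.ok_mm T5.Ymm.bz_eq (w := 260) (c := ⟨⟨.negSucc 6562, .negSucc 210, .negSucc 93, .negSucc 233, .ofNat 132, .ofNat 505⟩, ⟨.ofNat 4244, .ofNat 174, .ofNat 255, .ofNat 159, .negSucc 88, .negSucc 334⟩, ⟨.ofNat 3728, .ofNat 98, .negSucc 54, .ofNat 266, .negSucc 11, .negSucc 154⟩, ⟨.negSucc 9339, .negSucc 172, .negSucc 168, .negSucc 107, .ofNat 44, .ofNat 634⟩, ⟨.negSucc 223, .ofNat 7, .ofNat 72, .ofNat 339, .negSucc 223, .negSucc 107⟩, .ofNat 895, .ofNat 996, .ofNat 0, .ofNat 996, .ofNat 1710, .ofNat 0, .ofNat 128, .negSucc 1022, .negSucc 991, .ofNat 0, .ofNat 716, .ofNat 670, .ofNat 0, .ofNat 0, .ofNat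 937, .ofNat 20149, .ofNat 0, .ofNat 0, .ofNat 0, .ofNat 0, .ofNat 0, .ofNat 0, .ofNat 0, .ofNat 0, .ofNat 0, .ofNat 0, .ofNat 40432621289958529978333216753852318091355095040, .ofNat 0, .ofNat 0, .ofNat 0, .ofNat 81576458492952675388796953014915527925190098944, .ofNat 1487148040839463111938844322855041772805184615875633741824⟩)
    (by decide +kernel)
theorem L04714 : Good (Phi V5.P V5.D (-1) (-1)) ⟨7, 115, 4, 10, 3, 5, 4, 1, 6, 8⟩ :=
  out_sound (S := T5.ds_mm) T5.ok_mm (w := 21) (j := 4) (by decide +kernel)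
theorem L04715 : Good (Phi V5.P V5.D (-1) (-1)) ⟨7, 114, 4, 10, 3, 5, 5, 0, 7, 18⟩ :=
  out_sound (S := T5.ds_mm) T5.ok_mm (w := 35) (j := 1) (by decide +kernel)
theorem L04716 : Good (Phi V5.P V5.D (-1) (-1)) ⟨7, 114, 4, 10, 3, 5, 5, 1, 7, 18⟩ :=
  leafX_sound T5.ok_mm T5.Ymm.bz_eq (w := 270) (c := ⟨⟨.negSucc 6034, .negSucc 129, .negSucc 243, .negSucc 145, .negSucc 2, .ofNat 327⟩, ⟨.ofNat 3938, .ofNat 157, .ofNat 267, .ofNat 100, .ofNat 2, .negSucc 217⟩, ⟨.ofNat 3684, .ofNat 171, .negSucc 212, .ofNat 235, .negSucc 16, .negSucc 122⟩, ⟨.negSucc 8743, .negSucc 138, .negSucc 159, .ofNat 68, .negSucc 81, .ofNat 372⟩, ⟨.negSucc 276, .ofNat 55, .ofNat 68, .ofNat 412, .negSucc 121, .negSucc 128⟩, .ofNat 895, .ofNat 996, .ofNat 0, .ofNat 996, .ofNat 1710, .ofNat 0, .ofNat 128, .negSucc 994, .negSucc 494, .ofNat 0, .ofNat 705, .ofNat 340, .ofNat 0, .ofNat 0, .ofNat 572, .ofNat 82430, .ofNat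 0, .ofNat 0, .ofNat 0, .ofNat 0, .ofNat 602069912080798095177679271662295223312636718709032878080, .ofNat 0, .ofNat 19008418831612941949510000910165884713923730472960, .ofNat 0, .ofNat 0, .ofNat 0, .ofNat 41276047562635432242546694235800195103767507501056, .ofNat 0, .ofNat 0, .ofNat 0, .ofNat 18244281967219114959162871093726184361084957229056, .ofNat 729303295738103256540304595230755448872280225000027097923584⟩)
    (by decide +kernel)
theorem L04717 : Good (Phi V5.P V5.D (-1) (-1)) ⟨7, 114, 4, 10, 3, 5, 5, 0, 7, 19⟩ :=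
  out_sound (S := T5.ds_mm) T5.ok_mm (w := 35) (j := 1) (by decide +kernel)
theorem L04718 : Good (Phi V5.P V5.D (-1) (-1)) ⟨7, 114, 4, 10, 3, 5, 5, 1, 7, 19⟩ :=
  leafX_sound T5.ok_mm T5.Ymm.bz_eq (w := 277) (c := ⟨⟨.negSucc 6191, .negSucc 83, .ofNat 237, .ofNat 84, .ofNat 42, .ofNat 386⟩, ⟨.ofNat 4005, .ofNat 81, .ofNat 27, .negSucc 54, .negSucc 28, .negSucc 257⟩, ⟨.ofNat 3533, .negSucc 76, .ofNat 104, .ofNat 83, .negSucc 46, .negSucc 149⟩, ⟨.negSucc 8751, .ofNat 85, .ofNat 54, .ofNat 224, .ofNat 11, .ofNat 451⟩, ⟨.negSucc 280, .ofNat 10, .negSucc 5, .ofNat 163, .negSucc 72, .negSucc 134⟩, .ofNat 7158, .ofNat 10360, .ofNat 0, .ofNat 10360, .ofNat 15775, .ofNat 0, .ofNat 128, .negSucc 6828, .negSucc 2125, .ofNat 0, .ofNat 4589, .ofNat 1422, .ofNat 0, .ofNat 0, .ofNat 2840, .ofNat 99329, .ofNat 739978580602827467954957126278301908816659017793676509184, .ofNat 0, .ofNat 847048749995359309245750657246573388303815409664,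 .ofNat 0, .ofNat 3214023041352616832545436943365599023096967351455316967424, .ofNat 0, .ofNat 221346457038087485018062432694047531179566528724992, .ofNat 24503881159091384757016883884138762538982551930537174695411712, .ofNat 0, .ofNat 0, .ofNat 0, .ofNat 0, .ofNat 16133681240241126044885005094546004960783845578718756995072, .ofNat 0, .ofNat 203756883807781177155146862747935399305823238750208, .ofNat 0⟩)
    (by decide +kernel)
theorem L04719 : Good (Phi V5.P V5.D (-1) (-1)) ⟨7, 114, 4, 10, 3, 5, 4, 1, 6, 9⟩ :=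
  leafX_sound T5.ok_mm T5.Ymm.bz_eq (w := 263) (c := ⟨⟨.negSucc 6212, .negSucc 245, .negSucc 28, .ofNat 101, .ofNat 106, .ofNat 636⟩, ⟨.ofNat 4021, .ofNat 194, .ofNat 198, .negSucc 65, .negSucc 70, .negSucc 423⟩, ⟨.ofNat 3642, .ofNat 74, .ofNat 49, .negSucc 2, .negSucc 38, .negSucc 276⟩, ⟨.negSucc 8883, .negSucc 186, .negSucc 83, .ofNat 193, .ofNat 58, .ofNat 741⟩, ⟨.negSucc 278, .ofNat 84, .ofNat 39, .ofNat 83, .negSucc 135, .negSucc 227⟩, .ofNat 2280, .ofNat 3037, .ofNat 0, .ofNat 3037, .ofNat 4765, .ofNat 0, .ofNat 128, .negSucc 2340, .negSucc 1895, .ofNat 0, .ofNat 1605, .ofNat 1279, .ofNat 0, .ofNat 0, .ofNat 2211, .ofNat 81263, .ofNat 0, .ofNat 0, .ofNat 0, .ofNat 0, .ofNat 0, .ofNat 0, .ofNat 39669419401102877570700757317651833392656809984, .ofNat 1720740970378366130988096895842823173143606009253911855104, .ofNat 0, .ofNat 0, .ofNat 0, .ofNat 0, .ofNat 0, .ofNat 0, .ofNat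 722368197903481547750594517824070861405296787456, .ofNat 18466436422784651115375671147572775237644715144070666649600⟩)
    (by decide +kernel)
theorem L04720 : Good (Phi V5.P V5.D (-1) (-1)) ⟨7, 115, 4, 10, 3, 5, 3, 0, 6, 9⟩ :=
  out_sound (S := T5.ds_mm) T5.ok_mm (w := 21) (j := 4) (by decide +kernel)
theorem L04721 : Good (Phi V5.P V5.D (-1) (-1)) ⟨6, 56, 4, 10, 3, 5, 5, 0, 5, 5⟩ :=
  out_sound (S := T5.ds_mm) T5.ok_mm (w := 31) (j := 1) (by decide +kernel)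
theorem L04722 : Good (Phi V5.P V5.D (-1) (-1)) ⟨6, 56, 4, 10, 3, 5, 5, 1, 5, 5⟩ :=
  leafX_sound T5.ok_mm T5.Ymm.bz_eq (w := 258) (c := ⟨⟨.negSucc 5245, .negSucc 744, .ofNat 611, .ofNat 238, .negSucc 21, .ofNat 1263⟩, ⟨.ofNat 3344, .ofNat 519, .negSucc 216, .negSucc 152, .ofNat 12, .negSucc 825⟩, ⟨.ofNat 3398, .ofNat 94, .negSucc 75, .ofNat 3, .negSucc 41, .negSucc 579⟩, ⟨.negSucc 7941, .negSucc 570, .ofNat 480, .ofNat 375, .negSucc 60, .ofNat 1425⟩, ⟨.negSucc 584, .ofNat 344, .negSucc 327, .ofNat 62, .negSucc 50, .negSucc 552⟩, .ofNat 2347, .ofNat 3208, .ofNat 0, .ofNat 3208, .ofNat 5146, .ofNat 0, .ofNat 128, .negSucc 1833, .negSucc 793, .ofNat 0, .ofNat 1238, .ofNat 526, .ofNat 0, .ofNat 0, .ofNat 1281, .ofNat 254181, .ofNat 2058565799717319490783410525740851810912040633084411904, .ofNat 0, .ofNat 10094001288102533806626081070668594584301338624, .ofNat 0, .ofNat 3393867263558556913073856175267221018678850451341836288,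 .ofNat 0, .ofNat 284968179708062166064405572036109897715456933888, .ofNat 0, .ofNat 41638843453213827852219333369544363905651727334555779072, .ofNat 0, .ofNat 2334127165599031921946236161365326417932580814848, .ofNat 0, .ofNat 28553986403623987539872774044299887559419119120991387648, .ofNat 0, .ofNat 341408050714244755644907742571634079158421684224, .ofNat 0⟩)
    (by decide +kernel)
theorem L04723 : Good (Phi V5.P V5.D (-1) (-1)) ⟨6, 56, 4, 10, 3, 5, 4, 1, 5, 5⟩ :=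
  leafX_sound T5.ok_mm T5.Ymm.bz_eq (w := 253) (c := ⟨⟨.negSucc 5562, .negSucc 112, .negSucc 77, .ofNat 406, .ofNat 110, .ofNat 1033⟩, ⟨.ofNat 3555, .ofNat 103, .ofNat 230, .negSucc 266, .negSucc 71, .negSucc 675⟩, ⟨.ofNat 3491, .ofNat 86, .negSucc 92, .negSucc 238, .negSucc 101, .negSucc 509⟩, ⟨.negSucc 8186, .negSucc 78, .negSucc 115, .ofNat 455, .ofNat 108, .ofNat 1223⟩, ⟨.negSucc 379, .negSucc 46, .ofNat 4, .negSucc 174, .negSucc 71, .negSucc 358⟩, .ofNat 2371, .ofNat 3240, .ofNat 0, .ofNat 3240, .ofNat 5186, .ofNat 0, .ofNat 128, .negSucc 2047, .negSucc 902, .ofNat 0, .ofNat 1384, .ofNat 597, .ofNat 0, .ofNat 0, .ofNat 1491, .ofNat 63679, .ofNat 0, .ofNat 0, .ofNat 208744574763614359443494081909771319902208000, .ofNat 0, .ofNat 0, .ofNat 0, .ofNat 0, .ofNat 0, .ofNat 0, .ofNat 0, .ofNat 0, .ofNat 0, .ofNat 0, .ofNat 0, .ofNat 26613984405039247391075473847587379463587889152,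 .ofNat 0⟩)
    (by decide +kernel)
theorem L04724 : Good (Phi V5.P V5.D (-1) (-1)) ⟨7, 114, 4, 10, 3, 5, 5, 0, 5, 5⟩ :=
  out_sound (S := T5.ds_mm) T5.ok_mm (w := 31) (j := 1) (by decide +kernel)
theorem L04725 : Good (Phi V5.P V5.D (-1) (-1)) ⟨7, 114, 4, 10, 3, 5, 5, 1, 5, 5⟩ :=
  leafX_sound T5.ok_mm T5.Ymm.bz_eq (w := 259) (c := ⟨⟨.negSucc 5902, .negSucc 132, .ofNat 79, .ofNat 391, .ofNat 87, .ofNat 1232⟩, ⟨.ofNat 3770, .ofNat 66, .ofNat 217, .negSucc 259, .negSucc 57, .negSucc 821⟩, ⟨.ofNat 3516, .negSucc 9, .ofNat 33, .negSucc 79, .negSucc 63, .negSucc 591⟩, ⟨.negSucc 8464, .negSucc 76, .ofNat 20, .ofNat 548, .ofNat 59, .ofNat 1351⟩, ⟨.negSucc 318, .ofNat 33, .negSucc 19, .ofNat 23, .negSucc 103, .negSucc 564⟩, .ofNat 391, .ofNat 296, .ofNat 0, .ofNat 296, .ofNat 633, .ofNat 0, .ofNat 128, .negSucc 335, .negSucc 178, .ofNat 0, .ofNat 272, .ofNat 131, .ofNat 0, .ofNat 0, .ofNat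 271, .ofNat 46356, .ofNat 5496150262605480576865743743015503402543158465780514816, .ofNat 0, .ofNat 294619571770967147285956845070349450788995072, .ofNat 0, .ofNat 0, .ofNat 0, .ofNat 0, .ofNat 0, .ofNat 0, .ofNat 0, .ofNat 0, .ofNat 0, .ofNat 5153126454673989108785044454210065953816767650701770752, .ofNat 0, .ofNat 4046632617210607514429042882254158574106181632, .ofNat 77525338834110394427389165174956458445650697636653563904⟩)
    (by decide +kernel)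
theorem L04726 : Good (Phi V5.P V5.D (-1) (-1)) ⟨7, 114, 4, 10, 3, 5, 4, 1, 5, 5⟩ :=
  leafX_sound T5.ok_mm T5.Ymm.bz_eq (w := 256) (c := ⟨⟨.negSucc 5782, .negSucc 148, .ofNat 37, .ofNat 442, .ofNat 96, .ofNat 1113⟩, ⟨.ofNat 3727, .ofNat 105, .ofNat 174, .negSucc 294, .negSucc 63, .negSucc 742⟩, ⟨.ofNat 3584, .ofNat 54, .negSucc 29, .negSucc 264, .negSucc 98, .negSucc 554⟩, ⟨.negSucc 8329, .negSucc 101, .negSucc 18, .ofNat 485, .ofNat 63, .ofNat 1305⟩, ⟨.negSucc 351, .ofNat 38, .negSucc 19, .negSucc 197, .negSucc 105, .negSucc 384⟩, .ofNat 895, .ofNat 996, .ofNat 0, .ofNat 996, .ofNat 1710, .ofNat 0, .ofNat 128, .negSucc 828, .negSucc 567, .ofNat 0, .ofNat 600, .ofNat 389, .ofNat 0, .ofNat 0, .ofNat 871, .ofNat 41269, .ofNat 0, .ofNat 0, .ofNat 0, .ofNat 0, .ofNat 0, .ofNat 0, .ofNat 464755619390421587039196423301990924031098880, .ofNat 90467173101097267611471218767669134934583849399246389248,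 .ofNat 0, .ofNat 0, .ofNat 724258484371454971246550162939602692172939264, .ofNat 0, .ofNat 0, .ofNat 0, .ofNat 1159148559428928074639734192031504711324532736, .ofNat 0⟩)
    (by decide +kernel)
theorem L04727 : Good (Phi V5.P V5.D (-1) (-1)) ⟨7, 115, 4, 10, 3, 5, 3, 0, 5, 5⟩ :=
  out_sound (S := T5.ds_mm) T5.ok_mm (w := 21) (j := 4) (by decide +kernel)
theorem L04728 : Good (Phi V5.P V5.D (-1) (-1)) ⟨5, 29, 4, 10, 3, 5, 3, 0, 4, 2⟩ :=
  out_sound (S := T5.ds_mm) T5.ok_mm (w := 59) (j := 3) (by decide +kernel)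
theorem L04729 : Good (Phi V5.P V5.D (-1) (-1)) ⟨4, 15, 4, 10, 3, 5, 3, 0, 4, 2⟩ :=
  out_sound (S := T5.ds_mm) T5.ok_mm (w := 53) (j := 3) (by decide +kernel)
theorem L04730 : Good (Phi V5.P V5.D (-1) (-1)) ⟨2, 2, 4, 10, 3, 5, 3, 0, 4, 3⟩ :=
  out_sound (S := T5.ds_mm) T5.ok_mm (w := 41) (j := 3) (by decide +kernel)
theorem L04731 : Good (Phi V5.P V5.D (-1) (-1)) ⟨3, 6, 4, 10, 3, 5, 3, 0, 4, 3⟩ :=
  out_sound (S := T5.ds_mm) T5.ok_mm (w := 47) (j := 3) (by decide +kernel)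
theorem L04732 : Good (Phi V5.P V5.D (-1) (-1)) ⟨5, 28, 4, 10, 3, 5, 4, 0, 5, 6⟩ :=
  leafX_sound T5.ok_mm T5.Ymm.bz_eq (w := 254) (c := ⟨⟨.negSucc 4067, .negSucc 256, .ofNat 57, .negSucc 1, .ofNat 10, .ofNat 2⟩, ⟨.ofNat 2589, .ofNat 196, .ofNat 131, .ofNat 1, .negSucc 5, .negSucc 0⟩, ⟨.ofNat 2852, .ofNat 170, .negSucc 140, .ofNat 1, .negSucc 72, .negSucc 0⟩, ⟨.negSucc 6450, .negSucc 118, .ofNat 21, .negSucc 2, .ofNat 7, .ofNat 3⟩, ⟨.negSucc 975, .ofNat 68, .negSucc 44, .ofNat 0, .negSucc 11, .ofNat 0⟩, .ofNat 906, .ofNat 1026, .ofNat 0, .ofNat 1026, .ofNat 1787, .ofNat 0, .ofNat 128, .negSucc 338, .negSucc 229, .ofNat 0, .ofNat 251, .ofNat 158, .ofNat 0, .ofNat 0, .ofNat 484, .ofNat 6461326, .ofNat 658483566322954073926371358414557172833470601425321984, .ofNat 0, .ofNat 0, .ofNat 0, .ofNat 615261759812197770900020540370892856969881214794072064, .ofNat 0, .ofNat 3774710872940400481709966524505769664430735360,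 .ofNat 0, .ofNat 1344454148886265721595415474862628783311883789538426880, .ofNat 0, .ofNat 6954081454598916779554278800702233577156247552, .ofNat 1055908438856972541951512599128347052183831214062305280, .ofNat 901335798918327452670817432355218188833740707130769408, .ofNat 0, .ofNat 5009711783452108777208117396832951321650790400, .ofNat 0⟩)
    (by decide +kernel)
theorem L04733 : Good (Phi V5.P V5.D (-1) (-1)) ⟨5, 28, 4, 10, 3, 5, 4, 1, 5, 6⟩ :=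
  leafX_sound T5.ok_mm T5.Ymm.bz_eq (w := 249) (c := ⟨⟨.negSucc 4593, .negSucc 135, .negSucc 33, .ofNat 525, .ofNat 66, .ofNat 755⟩, ⟨.ofNat 2938, .ofNat 123, .ofNat 182, .negSucc 346, .negSucc 43, .negSucc 497⟩, ⟨.ofNat 3133, .ofNat 128, .negSucc 91, .negSucc 409, .negSucc 165, .negSucc 410⟩, ⟨.negSucc 6995, .negSucc 22, .negSucc 68, .ofNat 511, .ofNat 56, .ofNat 934⟩, ⟨.negSucc 692, .negSucc 0, .negSucc 2, .negSucc 347, .negSucc 55, .negSucc 191⟩, .ofNat 2442, .ofNat 3336, .ofNat 0, .ofNat 3336, .ofNat 5311, .ofNat 0, .ofNat 128, .negSucc 1476, .negSucc 418, .ofNat 0, .ofNat 1010, .ofNat 278, .ofNat 0, .ofNat 0, .ofNat 974, .ofNat 89993, .ofNat 2877110006423245150150074454890682438438542295171072, .ofNat 0, .ofNat 224622036458348608601767706934077585222533120, .ofNat 285299130133094122704383703968809189096365258935631872, .ofNat 7083048312734551088313901242800432361741760134643712,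 .ofNat 0, .ofNat 47083104783009559850753999101732278019316252672, .ofNat 0, .ofNat 164741994319976370820350502430407823659149374200479744, .ofNat 0, .ofNat 60064669315396867072713768209239774636963528704, .ofNat 0, .ofNat 50808322404974342229328048595567244298844338464489472, .ofNat 0, .ofNat 22422901621034793237935305292859463812985651200, .ofNat 0⟩)
    (by decide +kernel)
theorem L04734 : Good (Phi V5.P V5.D (-1) (-1)) ⟨5, 28, 4, 10, 3, 5, 3, 0, 5, 7⟩ :=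
  leafX_sound T5.ok_mm T5.Ymm.bz_eq (w := 244) (c := ⟨⟨.negSucc 3869, .negSucc 334, .ofNat 129, .ofNat 521, .ofNat 113, .ofNat 533⟩, ⟨.ofNat 2460, .ofNat 311, .ofNat 21, .negSucc 342, .negSucc 78, .negSucc 350⟩, ⟨.ofNat 3027, .ofNat 16, .negSucc 51, .negSucc 477, .negSucc 399, .negSucc 308⟩, ⟨.negSucc 6102, .negSucc 144, .ofNat 37, .ofNat 493, .ofNat 119, .ofNat 718⟩, ⟨.negSucc 871, .ofNat 46, .negSucc 48, .negSucc 364, .negSucc 43, .negSucc 50⟩, .ofNat 903, .ofNat 1022, .ofNat 0, .ofNat 1022, .ofNat 1782, .ofNat 0, .ofNat 128, .negSucc 573, .negSucc 112, .ofNat 0, .ofNat 429, .ofNat 77, .ofNat 0, .ofNat 0, .ofNat 358, .ofNat 68478, .ofNat 1002781642347685620332522013601416764614624222904320, .ofNat 0, .ofNat 7546706945945164658607878285355292154658816, .ofNat 0, .ofNat 86178244465434228686337391833237503740663096672256, .ofNat 0, .ofNat 386704148622710385112429129052512785879007232,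 .ofNat 0, .ofNat 4781371057266194693872188912357161407190595035725824, .ofNat 0, .ofNat 891928859579594950830386998401285444499144704, .ofNat 0, .ofNat 1581353151069822716024357343968089206295013426724864, .ofNat 0, .ofNat 347765559825748628984080273353301312334200832, .ofNat 46022766283930207067825924152608961911334905699106816⟩)
    (by decide +kernel)
theorem L04735 : Good (Phi V5.P V5.D (-1) (-1)) ⟨5, 29, 4, 10, 3, 5, 3, 0, 4, 3⟩ :=
  out_sound (S := T5.ds_mm) T5.ok_mm (w := 59) (j := 3) (by decide +kernel)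
theorem L04736 : Good (Phi V5.P V5.D (-1) (-1)) ⟨4, 15, 4, 10, 3, 5, 3, 0, 4, 3⟩ :=
  out_sound (S := T5.ds_mm) T5.ok_mm (w := 53) (j := 3) (by decide +kernel)
theorem L04737 : Good (Phi V5.P V5.D (-1) (-1)) ⟨2, 2, 4, 11, 2, 2, 3, 0, 3, 1⟩ :=
  out_sound (S := T5.ds_mm) T5.ok_mm (w := 41) (j := 3) (by decide +kernel)
theorem L04738 : Good (Phi V5.P V5.D (-1) (-1)) ⟨3, 6, 4, 11, 2, 2, 3, 0, 3, 1⟩ :=
  out_sound (S := T5.ds_mm) T5.ok_mm (w := 47) (j := 3) (by decide +kernel)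
theorem L04739 : Good (Phi V5.P V5.D (-1) (-1)) ⟨6, 56, 4, 11, 2, 2, 3, 0, 3, 1⟩ :=
  out_sound (S := T5.ds_mm) T5.ok_mm (w := 65) (j := 3) (by decide +kernel)
theorem L04740 : Good (Phi V5.P V5.D (-1) (-1)) ⟨7, 114, 5, 22, 2, 2, 3, 0, 3, 1⟩ :=
  out_sound (S := T5.ds_mm) T5.ok_mm (w := 73) (j := 3) (by decide +kernel)
theorem L04741 : Good (Phi V5.P V5.D (-1) (-1)) ⟨7, 115, 5, 22, 2, 2, 3, 0, 3, 1⟩ :=
  out_sound (S := T5.ds_mm) T5.ok_mm (w := 21) (j := 4) (by decide +kernel)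
theorem L04742 : Good (Phi V5.P V5.D (-1) (-1)) ⟨6, 57, 5, 23, 2, 2, 3, 0, 3, 1⟩ :=
  out_sound (S := T5.ds_mm) T5.ok_mm (w := 67) (j := 3) (by decide +kernel)
theorem L04743 : Good (Phi V5.P V5.D (-1) (-1)) ⟨5, 29, 4, 11, 2, 2, 3, 0, 3, 1⟩ :=
  out_sound (S := T5.ds_mm) T5.ok_mm (w := 17) (j := 4) (by decide +kernel)
theorem L04744 : Good (Phi V5.P V5.D (-1) (-1)) ⟨4, 15, 4, 11, 2, 2, 3, 0, 3, 1⟩ :=
  out_sound (S := T5.ds_mm) T5.ok_mm (w := 53) (j := 3) (by decide +kernel)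
theorem L04745 : Good (Phi V5.P V5.D (-1) (-1)) ⟨2, 2, 3, 5, 2, 2, 3, 1, 3, 1⟩ :=
  out_sound (S := T5.ds_mm) T5.ok_mm (w := 39) (j := 3) (by decide +kernel)
theorem L04746 : Good (Phi V5.P V5.D (-1) (-1)) ⟨3, 6, 3, 5, 2, 2, 3, 1, 3, 1⟩ :=
  out_sound (S := T5.ds_mm) T5.ok_mm (w := 45) (j := 3) (by decide +kernel)
theorem L04747 : Good (Phi V5.P V5.D (-1) (-1)) ⟨6, 56, 4, 10, 2, 2, 3, 1, 5, 4⟩ :=
  leafX_sound T5.ok_mm T5.Ymm.bz_eq (w := 235) (c := ⟨⟨.negSucc 5103, .negSucc 686, .ofNat 421, .negSucc 604, .ofNat 269, .ofNat 589⟩, ⟨.ofNat 3243, .ofNat 483, .negSucc 74, .ofNat 394, .negSucc 174, .negSucc 380⟩, ⟨.ofNat 3207, .ofNat 608, .negSucc 451, .ofNat 29, .negSucc 111, .negSucc 256⟩, ⟨.negSucc 7765, .negSucc 547, .ofNat 333, .negSucc 995, .ofNat 208, .ofNat 884⟩, ⟨.negSucc 618, .ofNat 304, .negSucc 208, .negSucc 241, .negSucc 273, .ofNat 75⟩, .ofNat 2348, .ofNat 3208, .ofNat 0,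 .ofNat 3208, .ofNat 5143, .ofNat 0, .ofNat 128, .negSucc 2296, .negSucc 2147, .ofNat 0, .ofNat 1537, .ofNat 1403, .ofNat 0, .ofNat 0, .ofNat 2610, .ofNat 12223, .ofNat 0, .ofNat 0, .ofNat 0, .ofNat 0, .ofNat 0, .ofNat 0, .ofNat 44941108133559343461441190894005567619072, .ofNat 0, .ofNat 0, .ofNat 0, .ofNat 128673162590287969750362471964546200240128, .ofNat 0, .ofNat 0, .ofNat 0, .ofNat 39581022481637148390933578943523324952576, .ofNat 0⟩)
    (by decide +kernel)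
theorem L04748 : Good (Phi V5.P V5.D (-1) (-1)) ⟨6, 56, 4, 10, 2, 2, 3, 1, 5, 5⟩ :=
  leafX_sound T5.ok_mm T5.Ymm.bz_eq (w := 232) (c := ⟨⟨.negSucc 4922, .negSucc 380, .ofNat 138, .ofNat 128, .ofNat 158, .ofNat 796⟩, ⟨.ofNat 3139, .ofNat 274, .ofNat 82, .negSucc 85, .negSucc 100, .negSucc 516⟩, ⟨.ofNat 3566, .negSucc 25, .ofNat 218, .negSucc 604, .negSucc 137, .negSucc 441⟩, ⟨.negSucc 7314, .negSucc 395, .ofNat 183, .negSucc 226, .ofNat 210, .ofNat 1055⟩, ⟨.negSucc 389, .ofNat 13, .ofNat 38, .negSucc 633, .negSucc 20, .negSucc 132⟩, .ofNat 891, .ofNat 1008, .ofNat 0, .ofNat 1008, .ofNat 1770, .ofNat 0, .ofNat 128, .negSucc 833, .negSucc 675, .ofNat 0, .ofNat 591, .ofNat 442, .ofNat 0, .ofNat 0, .ofNat 1042, .ofNat 6205, .ofNat 0, .ofNat 0, .ofNat 106889053975021594208967391675125071872, .ofNat 0, .ofNat 0, .ofNat 0, .ofNat 11499037947957950663842106439839690784768, .ofNat 0, .ofNat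 0, .ofNat 0, .ofNat 7034077104703678298881011975890524962816, .ofNat 0, .ofNat 0, .ofNat 0, .ofNat 10512400467804600347635943915332036460544, .ofNat 0⟩)
    (by decide +kernel)
theorem L04749 : Good (Phi V5.P V5.D (-1) (-1)) ⟨7, 114, 4, 10, 3, 4, 3, 1, 5, 4⟩ :=
  leafX_sound T5.ok_mm T5.Ymm.bz_eq (w := 255) (c := ⟨⟨.negSucc 4964, .ofNat 38, .negSucc 174, .negSucc 826, .ofNat 106, .ofNat 334⟩, ⟨.ofNat 3191, .negSucc 3, .ofNat 296, .ofNat 551, .negSucc 69, .negSucc 222⟩, ⟨.ofNat 3318, .ofNat 81, .negSucc 48, .ofNat 159, .ofNat 50, .negSucc 64⟩, ⟨.negSucc 7424, .negSucc 40, .negSucc 68, .negSucc 1206, .ofNat 167, .ofNat 509⟩, ⟨.negSucc 523, .negSucc 96, .negSucc 13, .negSucc 66, .ofNat 26, .ofNat 55⟩, .ofNat 2714, .ofNat 3702, .ofNat 0, .ofNat 3702, .ofNat 5783, .ofNat 0, .ofNat 128, .negSucc 3507, .negSucc 4280, .ofNat 0, .ofNat 2384, .ofNat 2850, .ofNat 0, .ofNat 0, .ofNat 5447, .ofNat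 17303, .ofNat 0, .ofNat 0, .ofNat 0, .ofNat 0, .ofNat 0, .ofNat 0, .ofNat 162788829758064568853627782467888025819938816, .ofNat 6941861022782377813139615631000724269060445659914567680, .ofNat 0, .ofNat 0, .ofNat 0, .ofNat 0, .ofNat 0, .ofNat 0, .ofNat 0, .ofNat 0⟩)
    (by decide +kernel)
theorem L04750 : Good (Phi V5.P V5.D (-1) (-1)) ⟨7, 114, 4, 10, 3, 5, 3, 1, 5, 4⟩ :=
  leafX_sound T5.ok_mm T5.Ymm.bz_eq (w := 250) (c := ⟨⟨.negSucc 6796, .negSucc 300, .ofNat 252, .ofNat 292, .ofNat 376, .ofNat 1056⟩, ⟨.ofNat 4447, .ofNat 266, .negSucc 63, .negSucc 194, .negSucc 250, .negSucc 701⟩, ⟨.ofNat 4173, .ofNat 239, .negSucc 397, .negSucc 217, .negSucc 158, .negSucc 545⟩, ⟨.negSucc 9685, .negSucc 386, .ofNat 399, .ofNat 228, .ofNat 310, .ofNat 1309⟩, ⟨.ofNat 5, .ofNat 153, .negSucc 355, .negSucc 264, .negSucc 339, .negSucc 230⟩, .ofNat 895, .ofNat 996, .ofNat 0, .ofNat 996, .ofNat 1710,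 .ofNat 0, .ofNat 128, .negSucc 903, .negSucc 1385, .ofNat 0, .ofNat 634, .ofNat 922, .ofNat 0, .ofNat 0, .ofNat 1356, .ofNat 6676, .ofNat 0, .ofNat 0, .ofNat 0, .ofNat 0, .ofNat 0, .ofNat 0, .ofNat 36648297765675551567029967399236489434890240, .ofNat 1334836454358384162714027641000944491033127801577275392, .ofNat 0, .ofNat 0, .ofNat 45603523443648260082787610034623855433089024, .ofNat 0, .ofNat 0, .ofNat 0, .ofNat 0, .ofNat 0⟩)
    (by decide +kernel)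
theorem L04751 : Good (Phi V5.P V5.D (-1) (-1)) ⟨7, 115, 4, 10, 2, 2, 3, 1, 5, 4⟩ :=
  out_sound (S := T5.ds_mm) T5.ok_mm (w := 21) (j := 4) (by decide +kernel)
theorem L04752 : Good (Phi V5.P V5.D (-1) (-1)) ⟨6, 57, 4, 10, 2, 2, 3, 1, 5, 5⟩ :=
  leafX_sound T5.ok_mm T5.Ymm.bz_eq (w := 236) (c := ⟨⟨.negSucc 5166, .ofNat 184, .negSucc 212, .ofNat 223, .ofNat 177, .ofNat 797⟩, ⟨.ofNat 3328, .negSucc 103, .ofNat 322, .negSucc 148, .negSucc 117, .negSucc 531⟩, ⟨.ofNat 3737, .ofNat 9, .negSucc 105, .negSucc 688, .negSucc 166, .negSucc 430⟩, ⟨.negSucc 7624, .ofNat 33, .negSucc 25, .negSucc 120, .ofNat 210, .ofNat 1035⟩, ⟨.negSucc 315, .negSucc 66, .negSucc 36, .negSucc 651, .negSucc 56, .negSucc 128⟩, .ofNat 2682, .ofNat 3658, .ofNat 0, .ofNat 3658, .ofNat 5727, .ofNat 0, .ofNat 128, .negSucc 2464, .negSucc 1420, .ofNat 0, .ofNat 1682, .ofNat 947, .ofNat 0, .ofNat 0, .ofNat 2248, .ofNat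 19859, .ofNat 0, .ofNat 0, .ofNat 89635479371256224822312508077165772800, .ofNat 0, .ofNat 0, .ofNat 0, .ofNat 30494184324521919701267713353539204939776, .ofNat 301428898073171327938453858351159316742525832658944, .ofNat 0, .ofNat 0, .ofNat 192095919132023070785091283796397823885312, .ofNat 3420912871903319722110485338372920793854444740542464, .ofNat 0, .ofNat 0, .ofNat 30598375681546669812411403495364037181440, .ofNat 0⟩)
    (by decide +kernel)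
theorem L04753 : Good (Phi V5.P V5.D (-1) (-1)) ⟨6, 56, 4, 10, 2, 2, 3, 1, 4, 3⟩ :=
  leafX_sound T5.ok_mm T5.Ymm.bz_eq (w := 229) (c := ⟨⟨.negSucc 4571, .negSucc 3, .negSucc 124, .ofNat 598, .ofNat 179, .ofNat 1098⟩, ⟨.ofNat 2924, .ofNat 22, .ofNat 226, .negSucc 394, .negSucc 116, .negSucc 714⟩, ⟨.ofNat 3474, .negSucc 41, .ofNat 80, .negSucc 1071, .negSucc 249, .negSucc 642⟩, ⟨.negSucc 6782, .ofNat 7, .negSucc 140, .ofNat 336, .ofNat 265, .ofNat 1477⟩, ⟨.negSucc 416, .negSucc 83, .ofNat 45, .negSucc 773, .ofNat 18, .negSucc 115⟩, .ofNat 2356, .ofNat 3219, .ofNat 0, .ofNat 3219, .ofNat 5160, .ofNat 0, .ofNat 128, .negSucc 1514, .negSucc 708, .ofNat 0, .ofNat 1032, .ofNat 466, .ofNat 0, .ofNat 0, .ofNat 1779, .ofNat 25105, .ofNat 0, .ofNat 0, .ofNat 0, .ofNat 0, .ofNat 0, .ofNat 0, .ofNat 192897666677141910465159931559252328448, .ofNat 0, .ofNat 0, .ofNat 0, .ofNat 2932884776030221500943803991087569174528,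 .ofNat 0, .ofNat 0, .ofNat 0, .ofNat 3616924742954991453811702165517801357312, .ofNat 0⟩)
    (by decide +kernel)
theorem L04754 : Good (Phi V5.P V5.D (-1) (-1)) ⟨6, 57, 4, 10, 2, 2, 3, 1, 4, 3⟩ :=
  leafX_sound T5.ok_mm T5.Ymm.bz_eq (w := 229) (c := ⟨⟨.negSucc 4672, .negSucc 271, .ofNat 111, .ofNat 618, .ofNat 176, .ofNat 1086⟩, ⟨.ofNat 3012, .ofNat 180, .ofNat 88, .negSucc 412, .negSucc 116, .negSucc 723⟩, ⟨.ofNat 3399, .negSucc 61, .ofNat 145, .negSucc 1076, .negSucc 247, .negSucc 676⟩, ⟨.negSucc 6752, .negSucc 105, .negSucc 55, .ofNat 336, .ofNat 246, .ofNat 1444⟩, ⟨.negSucc 441, .ofNat 27, .negSucc 3, .negSucc 795, .negSucc 1, .negSucc 119⟩, .ofNat 2055, .ofNat 2676, .ofNat 0, .ofNat 2676, .ofNat 4181, .ofNat 0, .ofNat 128, .negSucc 1570, .negSucc 674, .ofNat 0, .ofNat 1114, .ofNat 459, .ofNat 0, .ofNat 0, .ofNat 1550, .ofNat 18920, .ofNat 23134958708384521866670708990586213500079570944,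 .ofNat 0, .ofNat 5588009525984484854784673928452243456, .ofNat 0, .ofNat 0, .ofNat 0, .ofNat 1211625338722268862983385141293514489856, .ofNat 1439678391750071315078116225156291515712339443712, .ofNat 0, .ofNat 0, .ofNat 2313680185987674994426957966979511615488, .ofNat 0, .ofNat 0, .ofNat 0, .ofNat 1550247041456351836238532903015582531584, .ofNat 0⟩)
    (by decide +kernel)
theorem L04755 : Good (Phi V5.P V5.D (-1) (-1)) ⟨5, 29, 4, 10, 2, 2, 3, 1, 3, 1⟩ :=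
  out_sound (S := T5.ds_mm) T5.ok_mm (w := 59) (j := 3) (by decide +kernel)
theorem L04756 : Good (Phi V5.P V5.D (-1) (-1)) ⟨4, 15, 4, 10, 2, 2, 3, 1, 3, 1⟩ :=
  out_sound (S := T5.ds_mm) T5.ok_mm (w := 53) (j := 3) (by decide +kernel)
theorem L04757 : Good (Phi V5.P V5.D (-1) (-1)) ⟨6, 56, 4, 11, 2, 2, 3, 1, 3, 1⟩ :=
  out_sound (S := T5.ds_mm) T5.ok_mm (w := 65) (j := 3) (by decide +kernel)
theorem L04758 : Good (Phi V5.P V5.D (-1) (-1)) ⟨7, 114, 5, 22, 2, 2, 3, 1, 3, 1⟩ :=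
  out_sound (S := T5.ds_mm) T5.ok_mm (w := 73) (j := 3) (by decide +kernel)
theorem L04759 : Good (Phi V5.P V5.D (-1) (-1)) ⟨7, 115, 5, 22, 2, 2, 3, 1, 3, 1⟩ :=
  out_sound (S := T5.ds_mm) T5.ok_mm (w := 21) (j := 4) (by decide +kernel)
theorem L04760 : Good (Phi V5.P V5.D (-1) (-1)) ⟨6, 57, 5, 23, 2, 2, 3, 1, 3, 1⟩ :=
  out_sound (S := T5.ds_mm) T5.ok_mm (w := 67) (j := 3) (by decide +kernel)
theorem L04761 : Good (Phi V5.P V5.D (-1) (-1)) ⟨5, 29, 4, 11, 2, 2, 3, 1, 3, 1⟩ :=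
  out_sound (S := T5.ds_mm) T5.ok_mm (w := 17) (j := 4) (by decide +kernel)
theorem L04762 : Good (Phi V5.P V5.D (-1) (-1)) ⟨4, 15, 4, 11, 2, 2, 3, 1, 3, 1⟩ :=
  out_sound (S := T5.ds_mm) T5.ok_mm (w := 53) (j := 3) (by decide +kernel)
theorem L04763 : Good (Phi V5.P V5.D (-1) (-1)) ⟨2, 2, 2, 3, 2, 2, 2, 0, 2, 0⟩ :=
  out_sound (S := T5.ds_mm) T5.ok_mm (w := 37) (j := 3) (by decide +kernel)
theorem L04764 : Good (Phi V5.P V5.D (-1) (-1)) ⟨3, 6, 2, 3, 2, 2, 2, 0, 2, 0⟩ :=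
  out_sound (S := T5.ds_mm) T5.ok_mm (w := 43) (j := 3) (by decide +kernel)
theorem L04765 : Good (Phi V5.P V5.D (-1) (-1)) ⟨5, 28, 3, 6, 2, 2, 2, 0, 2, 0⟩ :=
  out_sound (S := T5.ds_mm) T5.ok_mm (w := 57) (j := 3) (by decide +kernel)
theorem L04766 : Good (Phi V5.P V5.D (-1) (-1)) ⟨5, 29, 3, 6, 2, 2, 2, 0, 2, 0⟩ :=
  out_sound (S := T5.ds_mm) T5.ok_mm (w := 17) (j := 4) (by decide +kernel)
theorem L04767 : Good (Phi V5.P V5.D (-1) (-1)) ⟨4, 14, 3, 7, 2, 2, 2, 0, 2, 0⟩ :=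
  out_sound (S := T5.ds_mm) T5.ok_mm (w := 51) (j := 3) (by decide +kernel)
theorem L04768 : Good (Phi V5.P V5.D (-1) (-1)) ⟨4, 15, 2, 3, 2, 2, 2, 0, 2, 0⟩ :=
  out_sound (S := T5.ds_mm) T5.ok_mm (w := 15) (j := 4) (by decide +kernel)
theorem L04769 : Good (Phi V5.P V5.D (-1) (-1)) ⟨2, 2, 1, 1, 2, 2, 2, 1, 3, 0⟩ :=
  out_sound (S := T5.ds_mm) T5.ok_mm (w := 35) (j := 3) (by decide +kernel)
theorem L04770 : Good (Phi V5.P V5.D (-1) (-1)) ⟨4, 12, 2, 2, 2, 2, 2, 1, 4, 0⟩ :=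
  out_sound (S := T5.ds_mm) T5.ok_mm (w := 49) (j := 3) (by decide +kernel)
theorem L04771 : Good (Phi V5.P V5.D (-1) (-1)) ⟨4, 13, 3, 4, 3, 4, 2, 1, 5, 0⟩ :=
  leafX_sound T5.ok_mm T5.Ymm.bz_eq (w := 232) (c := ⟨⟨.ofNat 4593, .ofNat 1617, .negSucc 88, .negSucc 4, .negSucc 1591, .negSucc 1311⟩, ⟨.negSucc 2473, .negSucc 1240, .negSucc 153, .ofNat 12, .ofNat 964, .ofNat 744⟩, ⟨.negSucc 2995, .negSucc 1281, .ofNat 125, .ofNat 528, .ofNat 131, .ofNat 840⟩, ⟨.ofNat 5878, .ofNat 1736, .negSucc 339, .ofNat 84, .negSucc 1690, .negSucc 2153⟩, ⟨.negSucc 2128, .negSucc 213, .negSucc 54, .ofNat 122, .ofNat 1059, .negSucc 336⟩, .ofNat 1556, .ofNat 2140, .ofNat 0, .ofNat 2140, .ofNat 3826, .ofNat 0, .ofNat 128, .negSucc 529, .negSucc 1534, .ofNat 0, .ofNat 335, .ofNat 897, .ofNat 0, .ofNat 0, .ofNat 1585, .ofNat 1034, .ofNat 0, .ofNat 0, .ofNat 0, .ofNat 0, .ofNat 0, .ofNat 0, .ofNat 12376939508848584977953269487675526208290816,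 .ofNat 0, .ofNat 0, .ofNat 0, .ofNat 13408987568956095559890356261089067342495744, .ofNat 0, .ofNat 0, .ofNat 0, .ofNat 0, .ofNat 0⟩)
    (by decide +kernel)
theorem L04772 : Good (Phi V5.P V5.D (-1) (-1)) ⟨4, 13, 3, 4, 3, 5, 2, 1, 5, 0⟩ :=
  leafX_sound T5.ok_mm T5.Ymm.bz_eq (w := 232) (c := ⟨⟨.ofNat 4594, .ofNat 1178, .negSucc 402, .negSucc 963, .negSucc 1121, .negSucc 237⟩, ⟨.negSucc 2486, .negSucc 984, .ofNat 81, .ofNat 617, .ofNat 682, .ofNat 115⟩, ⟨.negSucc 2735, .negSucc 645, .ofNat 251, .ofNat 1239, .negSucc 95, .ofNat 2⟩, ⟨.ofNat 6095, .ofNat 1075, .negSucc 473, .negSucc 632, .negSucc 1247, .negSucc 799⟩, ⟨.negSucc 1727, .negSucc 45, .ofNat 149, .ofNat 1233, .ofNat 617, .negSucc 775⟩, .ofNat 2059, .ofNat 2972, .ofNat 0, .ofNat 2972, .ofNat 5215, .ofNat 0, .ofNat 128, .negSucc 477, .negSucc 1275, .ofNat 0, .ofNat 294, .ofNat 748, .ofNat 0, .ofNat 0, .ofNat 1333, .ofNat 1058,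 .ofNat 0, .ofNat 0, .ofNat 0, .ofNat 0, .ofNat 0, .ofNat 0, .ofNat 12694972261851740847464524049689914627850240, .ofNat 0, .ofNat 0, .ofNat 0, .ofNat 3349466664716675654327890156644435163611136, .ofNat 0, .ofNat 0, .ofNat 0, .ofNat 0, .ofNat 0⟩)
    (by decide +kernel)
theorem L04773 : Good (Phi V5.P V5.D (-1) (-1)) ⟨4, 13, 3, 4, 2, 2, 2, 1, 5, 1⟩ :=
  leafX_sound T5.ok_mm T5.Ymm.bz_eq (w := 216) (c := ⟨⟨.ofNat 1410, .ofNat 3519, .negSucc 1517, .ofNat 1677, .negSucc 1919, .negSucc 2142⟩, ⟨.negSucc 591, .negSucc 2492, .ofNat 911, .negSucc 977, .ofNat 1158, .ofNat 1236⟩, ⟨.negSucc 939, .negSucc 2770, .ofNat 1353, .negSucc 312, .ofNat 807, .ofNat 1284⟩, ⟨.ofNat 1052, .ofNat 4121, .negSucc 1961, .ofNat 3033, .negSucc 2057, .negSucc 3518⟩, ⟨.negSucc 2214, .negSucc 1051, .ofNat 659, .ofNat 851, .ofNat 1280, .negSucc 619⟩, .ofNat 874, .ofNat 1066, .ofNat 0, .ofNat 1066, .ofNat 2094, .ofNat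 0, .ofNat 128, .negSucc 346, .negSucc 947, .ofNat 0, .ofNat 212, .ofNat 528, .ofNat 0, .ofNat 0, .ofNat 867, .ofNat 429, .ofNat 0, .ofNat 0, .ofNat 3683646806942860710218025328229482496, .ofNat 0, .ofNat 0, .ofNat 0, .ofNat 419321393906954463898627852492282527744, .ofNat 0, .ofNat 0, .ofNat 0, .ofNat 438435695712264743723971348773243715584, .ofNat 0, .ofNat 0, .ofNat 0, .ofNat 557226139667826890026202476828627566592, .ofNat 0⟩)
    (by decide +kernel)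
theorem L04774 : Good (Phi V5.P V5.D (-1) (-1)) ⟨4, 13, 3, 5, 2, 2, 2, 1, 4, 0⟩ :=
  out_sound (S := T5.ds_mm) T5.ok_mm (w := 51) (j := 3) (by decide +kernel)
theorem L04775 : Good (Phi V5.P V5.D (-1) (-1)) ⟨6, 56, 4, 8, 2, 2, 3, 2, 5, 0⟩ :=
  out_sound (S := T5.ds_mm) T5.ok_mm (w := 65) (j := 3) (by decide +kernel)
theorem L04776 : Good (Phi V5.P V5.D (-1) (-1)) ⟨6, 56, 4, 9, 2, 2, 3, 2, 5, 0⟩ :=
  leafX_sound T5.ok_mm T5.Ymm.bz_eq (w := 232) (c := ⟨⟨.ofNat 6838, .ofNat 749, .negSucc 584, .negSucc 1906, .negSucc 772, .negSucc 680⟩, ⟨.negSucc 4273, .negSucc 557, .ofNat 277, .ofNat 1243, .ofNat 499, .ofNat 416⟩, ⟨.negSucc 4728, .negSucc 587, .ofNat 507, .ofNat 2500, .negSucc 30, .ofNat 223⟩, ⟨.ofNat 8128, .ofNat 1162, .negSucc 1123, .negSucc 1115, .negSucc 712, .negSucc 1535⟩, ⟨.negSucc 2759, .ofNat 262, .negSucc 232, .ofNat 2435, .ofNat 657, .negSucc 849⟩, .ofNat 774, .ofNat 830,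 .ofNat 0, .ofNat 830, .ofNat 1513, .ofNat 0, .ofNat 128, .negSucc 611, .negSucc 1670, .ofNat 0, .ofNat 419, .ofNat 1019, .ofNat 0, .ofNat 0, .ofNat 1618, .ofNat 1127, .ofNat 0, .ofNat 0, .ofNat 47827889790489738068424981348997922816, .ofNat 0, .ofNat 0, .ofNat 0, .ofNat 1106117624273406376833444954001664638976, .ofNat 0, .ofNat 0, .ofNat 0, .ofNat 0, .ofNat 0, .ofNat 0, .ofNat 0, .ofNat 0, .ofNat 0⟩)
    (by decide +kernel)
theorem L04777 : Good (Phi V5.P V5.D (-1) (-1)) ⟨6, 56, 4, 8, 2, 2, 3, 3, 5, 0⟩ :=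
  out_sound (S := T5.ds_mm) T5.ok_mm (w := 65) (j := 3) (by decide +kernel)
theorem L04778 : Good (Phi V5.P V5.D (-1) (-1)) ⟨6, 56, 4, 9, 3, 4, 3, 3, 5, 0⟩ :=
  leafX_sound T5.ok_mm T5.Ymm.bz_eq (w := 247) (c := ⟨⟨.ofNat 6731, .ofNat 1750, .negSucc 1592, .negSucc 359, .negSucc 1020, .negSucc 1689⟩, ⟨.negSucc 4230, .negSucc 1223, .ofNat 973, .ofNat 232, .ofNat 651, .ofNat 1064⟩, ⟨.negSucc 5267, .negSucc 1307, .ofNat 1215, .ofNat 766, .ofNat 396, .ofNat 1147⟩, ⟨.ofNat 8241, .ofNat 2130, .negSucc 2041, .negSucc 168, .negSucc 1176, .negSucc 2725⟩, ⟨.negSucc 2279, .negSucc 452, .ofNat 512, .ofNat 495, .ofNat 447, .negSucc 473⟩, .ofNat 774, .ofNat 830, .ofNat 0, .ofNat 830, .ofNat 1513, .ofNat 0, .ofNat 128, .negSucc 793, .negSucc 3483, .ofNat 0, .ofNat 566, .ofNat 2106, .ofNat 0, .ofNat 0, .ofNat 3281, .ofNat 3374, .ofNat 0, .ofNat 0, .ofNat 0, .ofNat 0, .ofNat 0, .ofNat 0, .ofNat 83001723985385787535895079935346282925654016,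 .ofNat 0, .ofNat 0, .ofNat 0, .ofNat 261135194402483463454896924221394529349009408, .ofNat 0, .ofNat 0, .ofNat 0, .ofNat 2116539370453030388812552914746774126474559488, .ofNat 0⟩)
    (by decide +kernel)
theorem L04779 : Good (Phi V5.P V5.D (-1) (-1)) ⟨6, 56, 4, 9, 3, 5, 3, 3, 5, 0⟩ :=
  leafX_sound T5.ok_mm T5.Ymm.bz_eq (w := 248) (c := ⟨⟨.ofNat 5069, .ofNat 227, .negSucc 319, .negSucc 1140, .negSucc 535, .negSucc 273⟩, ⟨.negSucc 3158, .negSucc 218, .ofNat 139, .ofNat 743, .ofNat 343, .ofNat 163⟩, ⟨.negSucc 3539, .negSucc 206, .ofNat 315, .ofNat 1430, .ofNat 18, .ofNat 61⟩, ⟨.ofNat 6364, .ofNat 266, .negSucc 397, .negSucc 645, .negSucc 635, .negSucc 921⟩, ⟨.negSucc 1411, .ofNat 123, .ofNat 93, .ofNat 1519, .ofNat 211, .negSucc 832⟩, .ofNat 1327, .ofNat 1684, .ofNat 0, .ofNat 1684, .ofNat 2870, .ofNat 0, .ofNat 128, .negSucc 741, .negSucc 2782, .ofNat 0, .ofNat 486, .ofNat 1714,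 .ofNat 0, .ofNat 0, .ofNat 2705, .ofNat 6944, .ofNat 0, .ofNat 0, .ofNat 0, .ofNat 0, .ofNat 0, .ofNat 0, .ofNat 192804621924160257906069762610671481297829888, .ofNat 0, .ofNat 0, .ofNat 0, .ofNat 78532939120773507391177510290814254165524480, .ofNat 0, .ofNat 0, .ofNat 0, .ofNat 131274746457841932577943427250095043632955392, .ofNat 0⟩)
    (by decide +kernel)
theorem L04780 : Good (Phi V5.P V5.D (-1) (-1)) ⟨6, 57, 3, 4, 2, 2, 2, 1, 5, 0⟩ :=
  out_sound (S := T5.ds_mm) T5.ok_mm (w := 63) (j := 3) (by decide +kernel)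
theorem L04781 : Good (Phi V5.P V5.D (-1) (-1)) ⟨5, 28, 4, 10, 2, 2, 2, 1, 6, 0⟩ :=
  leafX_sound T5.ok_mm T5.Ymm.bz_eq (w := 229) (c := ⟨⟨.ofNat 6654, .ofNat 908, .negSucc 149, .negSucc 2686, .negSucc 1290, .negSucc 118⟩, ⟨.negSucc 4245, .negSucc 904, .ofNat 84, .ofNat 1774, .ofNat 852, .ofNat 77⟩, ⟨.negSucc 4587, .negSucc 638, .ofNat 145, .ofNat 3124, .negSucc 141, .ofNat 24⟩, ⟨.ofNat 7739, .ofNat 776, .negSucc 243, .negSucc 2139, .negSucc 1269, .negSucc 486⟩, ⟨.negSucc 2603, .negSucc 796, .ofNat 273, .ofNat 2463, .ofNat 851, .negSucc 450⟩, .ofNat 908, .ofNat 1029, .ofNat 0, .ofNat 1029, .ofNat 1789, .ofNat 0, .ofNat 128, .negSucc 529, .negSucc 1266, .ofNat 0, .ofNat 366, .ofNat 791, .ofNat 0, .ofNat 0, .ofNat 1259, .ofNat 1381, .ofNat 0, .ofNat 0, .ofNat 641244266414075689579147888730793050112, .ofNat 858699829401957021050663119725687113136916660224, .ofNat 0, .ofNat 0, .ofNat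 21755155902181010880549787445046127099904, .ofNat 0, .ofNat 0, .ofNat 0, .ofNat 10436038891525670426317928704048443162624, .ofNat 0, .ofNat 0, .ofNat 0, .ofNat 0, .ofNat 0⟩)
    (by decide +kernel)
theorem L04782 : Good (Phi V5.P V5.D (-1) (-1)) ⟨5, 28, 4, 10, 3, 4, 2, 1, 6, 1⟩ :=
  leafX_sound T5.ok_mm T5.Ymm.bz_eq (w := 247) (c := ⟨⟨.ofNat 5490, .ofNat 842, .ofNat 37, .ofNat 310, .negSucc 2206, .negSucc 796⟩, ⟨.negSucc 3496, .negSucc 813, .negSucc 53, .negSucc 197, .ofNat 1452, .ofNat 516⟩, ⟨.negSucc 3887, .negSucc 373, .negSucc 157, .ofNat 324, .ofNat 697, .ofNat 505⟩, ⟨.ofNat 6145, .ofNat 568, .ofNat 137, .ofNat 549, .negSucc 2219, .negSucc 1230⟩, ⟨.negSucc 2707, .negSucc 291, .ofNat 130, .ofNat 152, .ofNat 1368, .negSucc 144⟩, .ofNat 2570, .ofNat 3504, .ofNat 0, .ofNat 3504, .ofNat 5521, .ofNat 0, .ofNat 128, .negSucc 1049, .negSucc 3097, .ofNat 0, .ofNat 709, .ofNat 2025, .ofNat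 0, .ofNat 0, .ofNat 2928, .ofNat 2876, .ofNat 0, .ofNat 0, .ofNat 0, .ofNat 0, .ofNat 0, .ofNat 0, .ofNat 2710514913745165512185909686466399979190616064, .ofNat 128384982990066291919216591045188274495573300164427776, .ofNat 0, .ofNat 0, .ofNat 0, .ofNat 0, .ofNat 0, .ofNat 0, .ofNat 0, .ofNat 0⟩)
    (by decide +kernel)
theorem L04783 : Good (Phi V5.P V5.D (-1) (-1)) ⟨5, 28, 4, 10, 3, 5, 2, 1, 6, 1⟩ :=
  leafX_sound T5.ok_mm T5.Ymm.bz_eq (w := 243) (c := ⟨⟨.ofNat 5684, .negSucc 294, .ofNat 208, .negSucc 1239, .negSucc 1416, .negSucc 39⟩, ⟨.negSucc 3669, .ofNat 140, .negSucc 265, .ofNat 820, .ofNat 930, .ofNat 26⟩, ⟨.negSucc 3285, .negSucc 418, .ofNat 236, .ofNat 1485, .ofNat 98, .negSucc 54⟩, ⟨.ofNat 6512, .negSucc 389, .ofNat 204, .negSucc 628, .negSucc 1442, .negSucc 386⟩, ⟨.negSucc 2467, .ofNat 357, .negSucc 36, .ofNat 1688, .ofNat 875, .negSucc 497⟩, .ofNat 903, .ofNat 1023,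 .ofNat 0, .ofNat 1023, .ofNat 1783, .ofNat 0, .ofNat 128, .negSucc 756, .negSucc 1916, .ofNat 0, .ofNat 506, .ofNat 1188, .ofNat 0, .ofNat 0, .ofNat 1752, .ofNat 2099, .ofNat 0, .ofNat 0, .ofNat 0, .ofNat 0, .ofNat 0, .ofNat 0, .ofNat 420981858615429851200217345132025342425300992, .ofNat 0, .ofNat 0, .ofNat 0, .ofNat 2292019415794206015161300399824105018388119552, .ofNat 582169464314913059320953645240635407943782976731480064, .ofNat 0, .ofNat 0, .ofNat 0, .ofNat 0⟩)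
    (by decide +kernel)
theorem L04784 : Good (Phi V5.P V5.D (-1) (-1)) ⟨6, 56, 4, 11, 2, 2, 2, 1, 5, 0⟩ :=
  out_sound (S := T5.ds_mm) T5.ok_mm (w := 65) (j := 3) (by decide +kernel)
theorem L04785 : Good (Phi V5.P V5.D (-1) (-1)) ⟨7, 114, 5, 22, 2, 2, 2, 1, 5, 0⟩ :=
  out_sound (S := T5.ds_mm) T5.ok_mm (w := 73) (j := 3) (by decide +kernel)
theorem L04786 : Good (Phi V5.P V5.D (-1) (-1)) ⟨7, 115, 5, 22, 2, 2, 2, 1, 5, 0⟩ :=
  out_sound (S := T5.ds_mm) T5.ok_mm (w := 21) (j := 4) (by decide +kernel)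
theorem L04787 : Good (Phi V5.P V5.D (-1) (-1)) ⟨6, 57, 5, 23, 2, 2, 2, 1, 5, 0⟩ :=
  out_sound (S := T5.ds_mm) T5.ok_mm (w := 67) (j := 3) (by decide +kernel)
theorem L04788 : Good (Phi V5.P V5.D (-1) (-1)) ⟨6, 56, 4, 8, 2, 2, 2, 1, 5, 1⟩ :=
  out_sound (S := T5.ds_mm) T5.ok_mm (w := 65) (j := 3) (by decide +kernel)
theorem L04789 : Good (Phi V5.P V5.D (-1) (-1)) ⟨7, 112, 4, 9, 2, 2, 2, 1, 5, 1⟩ :=
  leafX_sound T5.ok_mm T5.Ymm.bz_eq (w := 235) (c := ⟨⟨.ofNat 3095, .ofNat 655, .ofNat 50, .ofNat 2185, .negSucc 1706, .negSucc 2117⟩, ⟨.negSucc 1951, .negSucc 458, .negSucc 50, .negSucc 1381, .ofNat 1097, .ofNat 1327⟩, ⟨.negSucc 2372, .negSucc 605, .ofNat 267, .negSucc 553, .ofNat 569, .ofNat 1156⟩, ⟨.ofNat 2914, .ofNat 694, .negSucc 54, .ofNat 3579, .negSucc 1706, .negSucc 3330⟩, ⟨.negSucc 2528, .negSucc 322, .negSucc 44, .ofNat 710, .ofNat 1179, .negSucc 489⟩, .ofNat 1678, .ofNat 2218,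 .ofNat 0, .ofNat 2218, .ofNat 3708, .ofNat 0, .ofNat 128, .negSucc 928, .negSucc 3066, .ofNat 0, .ofNat 610, .ofNat 1914, .ofNat 0, .ofNat 0, .ofNat 2706, .ofNat 1459, .ofNat 0, .ofNat 0, .ofNat 0, .ofNat 0, .ofNat 0, .ofNat 0, .ofNat 191044772843871917875436220297613672448, .ofNat 0, .ofNat 0, .ofNat 0, .ofNat 154985553938337108252754998986784374784, .ofNat 0, .ofNat 0, .ofNat 0, .ofNat 0, .ofNat 0⟩)
    (by decide +kernel)
theorem L04790 : Good (Phi V5.P V5.D (-1) (-1)) ⟨7, 113, 4, 9, 2, 2, 2, 1, 5, 1⟩ :=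
  out_sound (S := T5.ds_mm) T5.ok_mm (w := 71) (j := 3) (by decide +kernel)
theorem L04791 : Good (Phi V5.P V5.D (-1) (-1)) ⟨6, 57, 3, 4, 2, 2, 2, 1, 5, 1⟩ :=
  out_sound (S := T5.ds_mm) T5.ok_mm (w := 63) (j := 3) (by decide +kernel)
theorem L04792 : Good (Phi V5.P V5.D (-1) (-1)) ⟨5, 28, 4, 10, 3, 4, 3, 2, 5, 1⟩ :=
  leafX_sound T5.ok_mm T5.Ymm.bz_eq (w := 242) (c := ⟨⟨.ofNat 3795, .negSucc 598, .ofNat 1118, .ofNat 2256, .negSucc 1073, .negSucc 3398⟩, ⟨.negSucc 2591, .ofNat 963, .negSucc 1142, .negSucc 1488, .ofNat 701, .ofNat 2232⟩, ⟨.negSucc 3221, .ofNat 3024, .negSucc 2287, .negSucc 1104, .ofNat 366, .ofNat 2104⟩, ⟨.ofNat 3873, .negSucc 1479, .ofNat 1620, .ofNat 2810, .negSucc 998, .negSucc 4710⟩, ⟨.negSucc 2736, .ofNat 589, .negSucc 437, .negSucc 609, .ofNat 815, .ofNat 172⟩, .ofNat 907, .ofNat 1027, .ofNat 0, .ofNat 1027, .ofNat 1787, .ofNat 0, .ofNat 128, .negSucc 790, .negSucc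 2203, .ofNat 0, .ofNat 545, .ofNat 1393, .ofNat 0, .ofNat 0, .ofNat 1929, .ofNat 1038, .ofNat 0, .ofNat 0, .ofNat 9394425289193056291755062179836159972081664, .ofNat 0, .ofNat 0, .ofNat 0, .ofNat 524459947130953536375906784192726936361893888, .ofNat 22906225675625660618632737046196361112342521840664576, .ofNat 0, .ofNat 0, .ofNat 455438581027450836789747189298824804080549888, .ofNat 0, .ofNat 0, .ofNat 0, .ofNat 1431444746019636772765493835502566821605670912, .ofNat 0⟩)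
    (by decide +kernel)
theorem L04793 : Good (Phi V5.P V5.D (-1) (-1)) ⟨5, 28, 4, 10, 3, 5, 3, 2, 5, 1⟩ :=
  leafX_sound T5.ok_mm T5.Ymm.bz_eq (w := 249) (c := ⟨⟨.ofNat 5375, .ofNat 1189, .negSucc 754, .negSucc 1001, .negSucc 975, .negSucc 1153⟩, ⟨.negSucc 3425, .negSucc 1067, .ofNat 512, .ofNat 668, .ofNat 646, .ofNat 742⟩, ⟨.negSucc 3269, .negSucc 694, .ofNat 546, .ofNat 1253, .ofNat 155, .ofNat 490⟩, ⟨.ofNat 5990, .ofNat 503, .negSucc 664, .negSucc 779, .negSucc 730, .negSucc 1511⟩, ⟨.negSucc 2763, .negSucc 671, .ofNat 293, .ofNat 940, .ofNat 983, .ofNat 161⟩, .ofNat 6378, .ofNat 9233, .ofNat 0, .ofNat 9233, .ofNat 14155, .ofNat 0, .ofNat 128, .negSucc 1058, .negSucc 3421, .ofNat 0, .ofNat 704, .ofNat 2257, .ofNat 0, .ofNat 0, .ofNat 2942, .ofNat 972, .ofNat 0, .ofNat 0, .ofNat 6727961070299257861071636413787505539678208, .ofNat 0, .ofNat 0, .ofNat 0, .ofNat 2343202642267359609596774348997999615641911296,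 .ofNat 0, .ofNat 0, .ofNat 0, .ofNat 1529621952231651650603562156184536590835515392, .ofNat 0, .ofNat 0, .ofNat 0, .ofNat 0, .ofNat 0⟩)
    (by decide +kernel)
theorem L04794 : Good (Phi V5.P V5.D (-1) (-1)) ⟨6, 56, 4, 10, 3, 4, 3, 3, 5, 1⟩ :=
  leafX_sound T5.ok_mm T5.Ymm.bz_eq (w := 252) (c := ⟨⟨.ofNat 2952, .negSucc 21, .ofNat 397, .ofNat 1737, .negSucc 1202, .negSucc 3468⟩, ⟨.negSucc 1981, .ofNat 164, .negSucc 501, .negSucc 1131, .ofNat 781, .ofNat 2250⟩, ⟨.negSucc 2190, .negSucc 571, .ofNat 322, .negSucc 924, .ofNat 693, .ofNat 2407⟩, ⟨.ofNat 2664, .ofNat 290, .ofNat 206, .ofNat 2182, .negSucc 1277, .negSucc 4401⟩, ⟨.negSucc 2235, .ofNat 193, .ofNat 13, .negSucc 418, .ofNat 663, .ofNat 756⟩, .ofNat 5158, .ofNat 7492, .ofNat 0, .ofNat 7492, .ofNat 11692, .ofNat 0, .ofNat 128, .negSucc 921, .negSucc 2631, .ofNat 0, .ofNat 610, .ofNat 1709, .ofNat 0, .ofNat 0, .ofNat 2444, .ofNat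 2538, .ofNat 0, .ofNat 0, .ofNat 0, .ofNat 0, .ofNat 0, .ofNat 0, .ofNat 2416876118589025330865076298415243136476381184, .ofNat 0, .ofNat 0, .ofNat 0, .ofNat 1193521810630473048774402048434531584469630976, .ofNat 0, .ofNat 0, .ofNat 0, .ofNat 0, .ofNat 0⟩)
    (by decide +kernel)
theorem L04795 : Good (Phi V5.P V5.D (-1) (-1)) ⟨6, 56, 4, 10, 3, 5, 3, 3, 5, 1⟩ :=
  leafX_sound T5.ok_mm T5.Ymm.bz_eq (w := 252) (c := ⟨⟨.ofNat 4124, .negSucc 205, .ofNat 475, .ofNat 294, .negSucc 1018, .negSucc 1678⟩, ⟨.negSucc 2652, .ofNat 89, .negSucc 366, .negSucc 179, .ofNat 664, .ofNat 1082⟩, ⟨.negSucc 2939, .ofNat 165, .negSucc 308, .ofNat 329, .ofNat 445, .ofNat 1022⟩, ⟨.ofNat 4430, .negSucc 98, .ofNat 551, .ofNat 926, .negSucc 1008, .negSucc 2594⟩, ⟨.negSucc 2293, .ofNat 530, .negSucc 229, .ofNat 753, .ofNat 669, .negSucc 337⟩, .ofNat 3640, .ofNat 5173, .ofNat 0, .ofNat 5173, .ofNat 8140, .ofNat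 0, .ofNat 128, .negSucc 932, .negSucc 5419, .ofNat 0, .ofNat 614, .ofNat 3501, .ofNat 0, .ofNat 0, .ofNat 4695, .ofNat 3774, .ofNat 0, .ofNat 0, .ofNat 0, .ofNat 0, .ofNat 0, .ofNat 0, .ofNat 1085660952709395723922557911719571734596157440, .ofNat 0, .ofNat 0, .ofNat 0, .ofNat 1006804194548173720520231535662484551404355584, .ofNat 0, .ofNat 0, .ofNat 0, .ofNat 0, .ofNat 0⟩)
    (by decide +kernel)
theorem L04796 : Good (Phi V5.P V5.D (-1) (-1)) ⟨7, 114, 5, 20, 2, 2, 3, 3, 6, 2⟩ :=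
  leafX_sound T5.ok_mm T5.Ymm.bz_eq (w := 263) (c := ⟨⟨.ofNat 3468, .negSucc 1, .ofNat 16, .ofNat 896, .negSucc 1115, .negSucc 722⟩, ⟨.negSucc 2414, .ofNat 1, .ofNat 101, .negSucc 586, .ofNat 740, .ofNat 477⟩, ⟨.negSucc 3004, .ofNat 1, .ofNat 40, .ofNat 408, .ofNat 535, .ofNat 409⟩, ⟨.ofNat 3996, .negSucc 1, .ofNat 4, .ofNat 942, .negSucc 1067, .negSucc 777⟩, ⟨.negSucc 1366, .ofNat 1, .negSucc 1, .negSucc 454, .ofNat 742, .ofNat 358⟩, .ofNat 28782, .ofNat 42975, .ofNat 0, .ofNat 42975, .ofNat 64981, .ofNat 0, .ofNat 128, .negSucc 7181, .negSucc 47162, .ofNat 0, .ofNat 4777, .ofNat 31225, .ofNat 0, .ofNat 0, .ofNat 43245, .ofNat 46372, .ofNat 0, .ofNat 0, .ofNat 0, .ofNat 0, .ofNat 0, .ofNat 0, .ofNat 12096158573354594312360228057115050920177041408, .ofNat 0, .ofNat 0, .ofNat 0, .ofNat 2583883999868599309297197649448007148536594432, .ofNat 0, .ofNat 0, .ofNat 0, .ofNat 0, .ofNat 0⟩)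
    (by decide +kernel)
theorem L04797 : Good (Phi V5.P V5.D (-1) (-1)) ⟨7, 114, 5, 21, 2, 2, 3, 3, 6, 2⟩ :=
  leafX_sound T5.ok_mm T5.Ymm.bz_eq (w := 250) (c := ⟨⟨.ofNat 3943, .negSucc 83, .negSucc 374, .ofNat 262, .negSucc 944, .negSucc 790⟩, ⟨.negSucc 2614, .ofNat 175, .ofNat 63, .negSucc 170, .ofNat 628, .ofNat 523⟩, ⟨.negSucc 3337, .ofNat 371, .ofNat 4, .ofNat 946, .ofNat 379, .ofNat 454⟩, ⟨.ofNat 3780, .negSucc 214, .negSucc 272, .ofNat 1562, .negSucc 1030, .negSucc 1256⟩, ⟨.negSucc 2621, .ofNat 134, .ofNat 167, .ofNat 1758, .ofNat 441, .negSucc 230⟩, .ofNat 2688, .ofNat 3667, .ofNat 0, .ofNat 3667, .ofNat 5738, .ofNat 0, .ofNat 128, .negSucc 973, .negSucc 7539, .ofNat 0, .ofNat 656, .ofNat 4946, .ofNat 0, .ofNat 0, .ofNat 6800, .ofNat 1461, .ofNat 0, .ofNat 0, .ofNat 9243211659327576391137386863428445929472, .ofNat 0, .ofNat 0, .ofNat 0, .ofNat 1983717967135885521739239832188794341163008,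 .ofNat 115349191284030757742770301846621434089353641421963264, .ofNat 0, .ofNat 0, .ofNat 380285225917555738991215358139933625679872, .ofNat 563097796069218126422772528258459871165045609800400896, .ofNat 0, .ofNat 0, .ofNat 0, .ofNat 0⟩)
    (by decide +kernel)
theorem L04798 : Good (Phi V5.P V5.D (-1) (-1)) ⟨7, 114, 4, 10, 2, 2, 3, 3, 6, 3⟩ :=
  leafX_sound T5.ok_mm T5.Ymm.bz_eq (w := 240) (c := ⟨⟨.ofNat 1795, .negSucc 613, .negSucc 488, .ofNat 2840, .negSucc 1199, .negSucc 1141⟩, ⟨.negSucc 1100, .ofNat 460, .ofNat 144, .negSucc 1892, .ofNat 804, .ofNat 759⟩, ⟨.negSucc 1645, .ofNat 682, .ofNat 195, .negSucc 1166, .ofNat 663, .ofNat 657⟩, ⟨.ofNat 954, .negSucc 677, .negSucc 477, .ofNat 4482, .negSucc 1302, .negSucc 1809⟩, ⟨.negSucc 2298, .ofNat 351, .ofNat 219, .ofNat 703, .ofNat 584, .negSucc 308⟩, .ofNat 936, .ofNat 1064, .ofNat 0, .ofNat 1064, .ofNat 1820, .ofNat 0, .ofNat 128,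 .negSucc 384, .negSucc 1767, .ofNat 0, .ofNat 265, .ofNat 1117, .ofNat 0, .ofNat 0, .ofNat 1471, .ofNat 1196, .ofNat 0, .ofNat 0, .ofNat 0, .ofNat 0, .ofNat 0, .ofNat 0, .ofNat 64886860650401020671896045356903892516864, .ofNat 2518599510872499799453203136397345057510601749692416, .ofNat 0, .ofNat 0, .ofNat 0, .ofNat 0, .ofNat 0, .ofNat 0, .ofNat 76909377056230996418450998674417493475328, .ofNat 0⟩)
    (by decide +kernel)
theorem L04799 : Good (Phi V5.P V5.D (-1) (-1)) ⟨7, 115, 4, 10, 2, 2, 3, 3, 5, 1⟩ :=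
  out_sound (S := T5.ds_mm) T5.ok_mm (w := 21) (j := 4) (by decide +kernel)
theorem L04800 : Good (Phi V5.P V5.D (-1) (-1)) ⟨6, 56, 4, 11, 2, 2, 2, 1, 5, 1⟩ :=
  out_sound (S := T5.ds_mm) T5.ok_mm (w := 65) (j := 3) (by decide +kernel)
theorem L04801 : Good (Phi V5.P V5.D (-1) (-1)) ⟨7, 114, 5, 22, 2, 2, 2, 1, 5, 1⟩ :=
  out_sound (S := T5.ds_mm) T5.ok_mm (w := 73) (j := 3) (by decide +kernel)
theorem L04802 : Good (Phi V5.P V5.D (-1) (-1)) ⟨7, 115, 5, 22, 2, 2, 2, 1, 5, 1⟩ :=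
  out_sound (S := T5.ds_mm) T5.ok_mm (w := 21) (j := 4) (by decide +kernel)
theorem L04803 : Good (Phi V5.P V5.D (-1) (-1)) ⟨6, 57, 5, 23, 2, 2, 2, 1, 5, 1⟩ :=
  out_sound (S := T5.ds_mm) T5.ok_mm (w := 67) (j := 3) (by decide +kernel)
theorem L04804 : Good (Phi V5.P V5.D (-1) (-1)) ⟨5, 29, 2, 2, 2, 2, 2, 1, 4, 0⟩ :=
  out_sound (S := T5.ds_mm) T5.ok_mm (w := 17) (j := 4) (by decide +kernel)
theorem L04805 : Good (Phi V5.P V5.D (-1) (-1)) ⟨4, 15, 2, 2, 2, 2, 2, 1, 4, 0⟩ :=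
  out_sound (S := T5.ds_mm) T5.ok_mm (w := 49) (j := 3) (by decide +kernel)
theorem L04806 : Good (Phi V5.P V5.D (-1) (-1)) ⟨4, 12, 2, 2, 3, 4, 2, 1, 4, 1⟩ :=
  out_sound (S := T5.ds_mm) T5.ok_mm (w := 49) (j := 3) (by decide +kernel)
theorem L04807 : Good (Phi V5.P V5.D (-1) (-1)) ⟨4, 13, 3, 4, 3, 4, 2, 1, 4, 1⟩ :=
  leafX_sound T5.ok_mm T5.Ymm.bz_eq (w := 224) (c := ⟨⟨.negSucc 575, .negSucc 1154, .ofNat 335, .negSucc 75, .negSucc 211, .negSucc 3203⟩, ⟨.ofNat 81, .ofNat 830, .ofNat 34, .ofNat 41, .ofNat 132, .ofNat 1936⟩, ⟨.ofNat 134, .ofNat 618, .negSucc 106, .negSucc 135, .ofNat 338, .ofNat 2497⟩, ⟨.negSucc 1393, .negSucc 2162, .ofNat 866, .negSucc 374, .negSucc 91, .negSucc 4336⟩, ⟨.negSucc 529, .negSucc 1702, .ofNat 931, .negSucc 528, .ofNat 474, .ofNat 754⟩, .ofNat 759, .ofNat 842, .ofNat 0, .ofNat 842, .ofNat 1637, .ofNat 0, .ofNat 128, .negSucc 492, .negSucc 895, .ofNat 0,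 .ofNat 328, .ofNat 521, .ofNat 0, .ofNat 0, .ofNat 917, .ofNat 324, .ofNat 0, .ofNat 0, .ofNat 3466977123072485290304238569666518188032, .ofNat 0, .ofNat 0, .ofNat 0, .ofNat 0, .ofNat 0, .ofNat 0, .ofNat 0, .ofNat 93525162840278965160840412153779549372416, .ofNat 0, .ofNat 0, .ofNat 0, .ofNat 0, .ofNat 0⟩)
    (by decide +kernel)
theorem L04808 : Good (Phi V5.P V5.D (-1) (-1)) ⟨4, 13, 3, 5, 3, 4, 2, 1, 4, 1⟩ :=
  out_sound (S := T5.ds_mm) T5.ok_mm (w := 51) (j := 3) (by decide +kernel)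
theorem L04809 : Good (Phi V5.P V5.D (-1) (-1)) ⟨5, 28, 3, 4, 3, 4, 2, 1, 5, 2⟩ :=
  leafX_sound T5.ok_mm T5.Ymm.bz_eq (w := 235) (c := ⟨⟨.ofNat 2414, .ofNat 2188, .negSucc 2697, .ofNat 1335, .negSucc 1385, .negSucc 3899⟩, ⟨.negSucc 1727, .negSucc 1383, .ofNat 1902, .negSucc 854, .ofNat 889, .ofNat 2479⟩, ⟨.negSucc 796, .negSucc 578, .ofNat 563, .negSucc 1040, .ofNat 997, .ofNat 2772⟩, ⟨.ofNat 1568, .ofNat 2376, .negSucc 3085, .ofNat 1372, .negSucc 1449, .negSucc 4969⟩, ⟨.negSucc 3059, .negSucc 1104, .ofNat 1257, .negSucc 852, .ofNat 868, .ofNat 987⟩, .ofNat 1144, .ofNat 1348, .ofNat 0, .ofNat 1348, .ofNat 2275, .ofNat 0, .ofNat 128, .negSucc 828, .negSucc 1324, .ofNat 0, .ofNat 583, .ofNat 841, .ofNat 0, .ofNat 0, .ofNat 1194, .ofNat 1012, .ofNat 0, .ofNat 0, .ofNat 0, .ofNat 0, .ofNat 0, .ofNat 0, .ofNat 4197641712053497728788419563930736094347264, .ofNat 0, .ofNat 0, .ofNat 0,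 .ofNat 22269582652802599378579150005619184457744384, .ofNat 0, .ofNat 0, .ofNat 0, .ofNat 34274670969520150183045755728449848809095168, .ofNat 0⟩)
    (by decide +kernel)
theorem L04810 : Good (Phi V5.P V5.D (-1) (-1)) ⟨5, 28, 3, 5, 3, 4, 2, 1, 5, 2⟩ :=
  leafX_sound T5.ok_mm T5.Ymm.bz_eq (w := 234) (c := ⟨⟨.negSucc 21, .ofNat 46, .ofNat 21, .ofNat 1545, .negSucc 1391, .negSucc 3754⟩, ⟨.ofNat 67, .negSucc 472, .ofNat 681, .negSucc 1027, .ofNat 918, .ofNat 2468⟩, ⟨.negSucc 259, .negSucc 24, .negSucc 70, .negSucc 1174, .ofNat 1064, .ofNat 2743⟩, ⟨.negSucc 1309, .ofNat 65, .ofNat 135, .ofNat 1727, .negSucc 1460, .negSucc 4826⟩, ⟨.negSucc 2089, .ofNat 327, .negSucc 181, .negSucc 705, .ofNat 815, .ofNat 809⟩, .ofNat 908, .ofNat 1028, .ofNat 0, .ofNat 1028, .ofNat 1788, .ofNat 0, .ofNat 128, .negSucc 814, .negSucc 1255, .ofNat 0, .ofNat 565, .ofNat 795, .ofNat 0, .ofNat 0, .ofNat 1128,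 .ofNat 865, .ofNat 0, .ofNat 0, .ofNat 0, .ofNat 0, .ofNat 0, .ofNat 0, .ofNat 4840549944771545393697001318577362645811200, .ofNat 981809771105637462245726438117132686664907098161152, .ofNat 0, .ofNat 0, .ofNat 5583851421641820260001468961459908007428096, .ofNat 6055326209598864427694760553874192100123587687481344, .ofNat 0, .ofNat 0, .ofNat 4434764803323425723881069162810979429384192, .ofNat 2360307487666230499471976170808733716825746259836928⟩)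
    (by decide +kernel)
theorem L04811 : Good (Phi V5.P V5.D (-1) (-1)) ⟨5, 28, 2, 2, 3, 4, 2, 1, 5, 3⟩ :=
  leafX_sound T5.ok_mm T5.Ymm.bz_eq (w := 231) (c := ⟨⟨.negSucc 3424, .negSucc 600, .negSucc 561, .negSucc 548, .negSucc 20, .negSucc 949⟩, ⟨.ofNat 1706, .ofNat 328, .ofNat 1333, .ofNat 355, .ofNat 13, .ofNat 621⟩, ⟨.ofNat 1964, .ofNat 252, .ofNat 779, .ofNat 119, .ofNat 298, .ofNat 783⟩, ⟨.negSucc 5428, .negSucc 563, .negSucc 849, .negSucc 988, .ofNat 64, .negSucc 1124⟩, ⟨.negSucc 1044, .negSucc 23, .ofNat 413, .negSucc 376, .ofNat 144, .ofNat 416⟩, .ofNat 820, .ofNat 889, .ofNat 0, .ofNat 889, .ofNat 1567, .ofNat 0, .ofNat 128, .negSucc 540, .negSucc 1140, .ofNat 0, .ofNat 384, .ofNat 725, .ofNat 0, .ofNat 0, .ofNat 1101, .ofNat 1130, .ofNat 0, .ofNat 0, .ofNat 26722303187396586129203464197973351596032, .ofNat 0, .ofNat 0, .ofNat 0, .ofNat 693278188231139855975577328732168559525888,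 .ofNat 0, .ofNat 0, .ofNat 0, .ofNat 408557265222446308451689234374732785123328, .ofNat 177498637172390567399722521819451773491544454070272, .ofNat 0, .ofNat 0, .ofNat 2913304922854714443333965132929157329584128, .ofNat 252055757619879414305630206513873548222039448354816⟩)
    (by decide +kernel)
theorem L04812 : Good (Phi V5.P V5.D (-1) (-1)) ⟨5, 29, 2, 2, 3, 4, 2, 1, 4, 1⟩ :=
  out_sound (S := T5.ds_mm) T5.ok_mm (w := 17) (j := 4) (by decide +kernel)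
theorem L04813 : Good (Phi V5.P V5.D (-1) (-1)) ⟨4, 15, 2, 2, 3, 4, 2, 1, 4, 1⟩ :=
  out_sound (S := T5.ds_mm) T5.ok_mm (w := 49) (j := 3) (by decide +kernel)
theorem L04814 : Good (Phi V5.P V5.D (-1) (-1)) ⟨4, 12, 2, 2, 3, 5, 2, 1, 4, 1⟩ :=
  out_sound (S := T5.ds_mm) T5.ok_mm (w := 49) (j := 3) (by decide +kernel)
theorem L04815 : Good (Phi V5.P V5.D (-1) (-1)) ⟨4, 13, 3, 4, 3, 5, 2, 1, 5, 2⟩ :=
  leafX_sound T5.ok_mm T5.Ymm.bz_eq (w := 230) (c := ⟨⟨.ofNat 1370, .ofNat 490, .ofNat 21, .ofNat 1061, .negSucc 1092, .negSucc 4211⟩, ⟨.negSucc 942, .negSucc 221, .ofNat 14, .negSucc 639, .ofNat 680, .ofNat 2493⟩, ⟨.negSucc 996, .negSucc 501, .ofNat 117, .negSucc 505, .ofNat 658, .ofNat 2809⟩, ⟨.ofNat 624, .ofNat 433, .ofNat 257, .ofNat 1688, .negSucc 1100, .negSucc 6092⟩, ⟨.negSucc 2197, .negSucc 910, .ofNat 886, .ofNat 227, .ofNat 828, .ofNat 120⟩, .ofNat 1108, .ofNat 1403, .ofNat 0,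 .ofNat 1403, .ofNat 2585, .ofNat 0, .ofNat 128, .negSucc 449, .negSucc 858, .ofNat 0, .ofNat 280, .ofNat 498, .ofNat 0, .ofNat 0, .ofNat 711, .ofNat 760, .ofNat 0, .ofNat 0, .ofNat 0, .ofNat 0, .ofNat 0, .ofNat 0, .ofNat 7630585549579935782644332412819444500267008, .ofNat 0, .ofNat 0, .ofNat 0, .ofNat 11009257983627448259455843128905680107339776, .ofNat 0, .ofNat 0, .ofNat 0, .ofNat 7977569406556993697969437059670982808043520, .ofNat 0⟩)
    (by decide +kernel)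
theorem L04816 : Good (Phi V5.P V5.D (-1) (-1)) ⟨4, 13, 3, 4, 3, 5, 2, 1, 5, 3⟩ :=
  leafX_sound T5.ok_mm T5.Ymm.bz_eq (w := 231) (c := ⟨⟨.negSucc 2574, .negSucc 1634, .ofNat 453, .ofNat 313, .ofNat 321, .negSucc 1569⟩, ⟨.ofNat 1365, .ofNat 912, .ofNat 167, .negSucc 201, .negSucc 179, .ofNat 924⟩, ⟨.ofNat 1615, .ofNat 962, .negSucc 278, .negSucc 301, .negSucc 104, .ofNat 1058⟩, ⟨.negSucc 5014, .negSucc 1704, .ofNat 471, .ofNat 174, .ofNat 562, .negSucc 2016⟩, ⟨.negSucc 1876, .ofNat 824, .negSucc 441, .negSucc 506, .ofNat 174, .ofNat 498⟩, .ofNat 1524, .ofNat 2089, .ofNat 0, .ofNat 2089, .ofNat 3745, .ofNat 0, .ofNat 128, .negSucc 664, .negSucc 1252, .ofNat 0, .ofNat 412, .ofNat 736, .ofNat 0, .ofNat 0, .ofNat 1125, .ofNat 802, .ofNat 0, .ofNat 0, .ofNat 0, .ofNat 0, .ofNat 0, .ofNat 0, .ofNat 11003103149861615093877173535854122017751040, .ofNat 0, .ofNat 0, .ofNat 0, .ofNat 0, .ofNat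 0, .ofNat 0, .ofNat 0, .ofNat 18808324964740315205216383396666413338853376, .ofNat 0⟩)
    (by decide +kernel)
theorem L04817 : Good (Phi V5.P V5.D (-1) (-1)) ⟨4, 13, 3, 5, 3, 5, 2, 1, 4, 1⟩ :=
  out_sound (S := T5.ds_mm) T5.ok_mm (w := 51) (j := 3) (by decide +kernel)
theorem L04818 : Good (Phi V5.P V5.D (-1) (-1)) ⟨6, 56, 3, 4, 3, 5, 2, 1, 5, 2⟩ :=
  leafX_sound T5.ok_mm T5.Ymm.bz_eq (w := 241) (c := ⟨⟨.ofNat 3665, .ofNat 1112, .negSucc 1752, .ofNat 1500, .negSucc 1692, .negSucc 4773⟩, ⟨.negSucc 2424, .negSucc 739, .ofNat 1190, .negSucc 955, .ofNat 1090, .ofNat 3035⟩, ⟨.negSucc 1916, .negSucc 341, .ofNat 407, .negSucc 721, .ofNat 931, .ofNat 3119⟩, ⟨.ofNat 3275, .ofNat 1322, .negSucc 2166, .ofNat 2052, .negSucc 1767, .negSucc 6519⟩, ⟨.negSucc 3155, .negSucc 262, .ofNat 557, .negSucc 138, .ofNat 1017, .ofNat 473⟩, .ofNat 2047, .ofNat 2797, .ofNat 0, .ofNat 2797, .ofNat 4610, .ofNat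 0, .ofNat 128, .negSucc 1089, .negSucc 1643, .ofNat 0, .ofNat 706, .ofNat 1033, .ofNat 0, .ofNat 0, .ofNat 1324, .ofNat 972, .ofNat 0, .ofNat 0, .ofNat 0, .ofNat 0, .ofNat 0, .ofNat 0, .ofNat 7957909184947133517451034869528941564002304, .ofNat 0, .ofNat 0, .ofNat 0, .ofNat 2126851722418593758281407062097800638496768, .ofNat 0, .ofNat 0, .ofNat 0, .ofNat 1593446457433239794809905787101094799736832, .ofNat 0⟩)
    (by decide +kernel)
theorem L04819 : Good (Phi V5.P V5.D (-1) (-1)) ⟨6, 56, 3, 4, 3, 5, 2, 1, 5, 3⟩ :=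
  leafX_sound T5.ok_mm T5.Ymm.bz_eq (w := 238) (c := ⟨⟨.negSucc 4776, .negSucc 622, .ofNat 962, .ofNat 447, .ofNat 581, .negSucc 1741⟩, ⟨.ofNat 2657, .ofNat 395, .negSucc 220, .negSucc 302, .negSucc 365, .ofNat 1114⟩, ⟨.ofNat 3079, .ofNat 509, .negSucc 812, .negSucc 359, .negSucc 263, .ofNat 1170⟩, ⟨.negSucc 7526, .negSucc 730, .ofNat 1381, .ofNat 374, .ofNat 694, .negSucc 2313⟩, ⟨.negSucc 782, .ofNat 263, .negSucc 409, .negSucc 486, .negSucc 182, .ofNat 364⟩, .ofNat 706, .ofNat 723, .ofNat 0, .ofNat 723, .ofNat 1349, .ofNat 0, .ofNat 128, .negSucc 495, .negSucc 1451, .ofNat 0, .ofNat 338, .ofNat 881, .ofNat 0, .ofNat 0, .ofNat 1146, .ofNat 1010, .ofNat 0, .ofNat 0, .ofNat 12544287171904931002423176936332415991808, .ofNat 0, .ofNat 0, .ofNat 0, .ofNat 75678619492287593685406790331864870551552, .ofNat 0, .ofNat 0, .ofNat 0, .ofNat 173148925021175999938759635390511997517824, .ofNat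 0, .ofNat 0, .ofNat 0, .ofNat 866231594367770819399522461854691349233664, .ofNat 0⟩)
    (by decide +kernel)
theorem L04820 : Good (Phi V5.P V5.D (-1) (-1)) ⟨6, 57, 3, 4, 3, 5, 2, 1, 4, 1⟩ :=
  out_sound (S := T5.ds_mm) T5.ok_mm (w := 63) (j := 3) (by decide +kernel)
theorem L04821 : Good (Phi V5.P V5.D (-1) (-1)) ⟨5, 28, 3, 5, 3, 5, 2, 1, 5, 2⟩ :=
  leafX_sound T5.ok_mm T5.Ymm.bz_eq (w := 236) (c := ⟨⟨.ofNat 2669, .ofNat 423, .ofNat 154, .ofNat 1043, .negSucc 1904, .negSucc 5117⟩, ⟨.negSucc 1808, .negSucc 109, .negSucc 227, .negSucc 691, .ofNat 1254, .ofNat 3357⟩, ⟨.negSucc 1775, .negSucc 568, .ofNat 188, .negSucc 455, .ofNat 1141, .ofNat 3343⟩, ⟨.ofNat 1701, .ofNat 959, .negSucc 14, .ofNat 1715, .negSucc 1767, .negSucc 7038⟩, ⟨.negSucc 3147, .ofNat 162, .ofNat 324, .ofNat 380, .ofNat 1419, .ofNat 333⟩, .ofNat 1481, .ofNat 1884, .ofNat 0, .ofNat 1884, .ofNat 3097, .ofNat 0, .ofNat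 128, .negSucc 848, .negSucc 1779, .ofNat 0, .ofNat 564, .ofNat 1139, .ofNat 0, .ofNat 0, .ofNat 1398, .ofNat 786, .ofNat 0, .ofNat 0, .ofNat 56333225420756770986252213244256034226176, .ofNat 14635405792584616542567290304977277080005720932352, .ofNat 0, .ofNat 0, .ofNat 4678537514410082189652593680804567190601728, .ofNat 681479787395683938328873007652450412871118223310848, .ofNat 0, .ofNat 0, .ofNat 4502663859333805027752635710276647759380480, .ofNat 4668694575040867506017775091293260925397043907657728, .ofNat 0, .ofNat 0, .ofNat 6039018438528533280510448059610926692696064, .ofNat 5495925150490744089089209758676249628259861565276160⟩)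
    (by decide +kernel)
theorem L04822 : Good (Phi V5.P V5.D (-1) (-1)) ⟨5, 28, 3, 5, 3, 5, 2, 1, 5, 3⟩ :=
  leafX_sound T5.ok_mm T5.Ymm.bz_eq (w := 235) (c := ⟨⟨.negSucc 4027, .negSucc 306, .negSucc 272, .ofNat 546, .ofNat 663, .negSucc 1810⟩, ⟨.ofNat 2539, .ofNat 274, .ofNat 529, .negSucc 368, .negSucc 430, .ofNat 1195⟩, ⟨.ofNat 2398, .ofNat 481, .negSucc 160, .negSucc 506, .negSucc 293, .ofNat 1208⟩, ⟨.negSucc 6295, .negSucc 567, .negSucc 72, .ofNat 406, .ofNat 755, .negSucc 2404⟩, ⟨.negSucc 962, .ofNat 8, .negSucc 75, .negSucc 640, .negSucc 254, .ofNat 335⟩, .ofNat 1061, .ofNat 1258, .ofNat 0, .ofNat 1258, .ofNat 2122, .ofNat 0, .ofNat 128, .negSucc 812, .negSucc 1774, .ofNat 0, .ofNat 547, .ofNat 1138, .ofNat 0, .ofNat 0, .ofNat 1382, .ofNat 782, .ofNat 0, .ofNat 0, .ofNat 73229835620232494370561191321424824893440, .ofNat 8510005994203484158156444411927889097384636973056, .ofNat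 0, .ofNat 0, .ofNat 5870713635375938652189021133746020544413696, .ofNat 0, .ofNat 0, .ofNat 0, .ofNat 0, .ofNat 0, .ofNat 0, .ofNat 0, .ofNat 5129280702273322077644390426210544729980928, .ofNat 5682287243722716474814793284774726664620554252713984⟩)
    (by decide +kernel)
theorem L04823 : Good (Phi V5.P V5.D (-1) (-1)) ⟨5, 29, 2, 2, 3, 5, 2, 1, 4, 1⟩ :=
  out_sound (S := T5.ds_mm) T5.ok_mm (w := 17) (j := 4) (by decide +kernel)
theorem L04824 : Good (Phi V5.P V5.D (-1) (-1)) ⟨4, 15, 2, 2, 3, 5, 2, 1, 4, 1⟩ :=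
  out_sound (S := T5.ds_mm) T5.ok_mm (w := 49) (j := 3) (by decide +kernel)
theorem L04825 : Good (Phi V5.P V5.D (-1) (-1)) ⟨3, 6, 2, 3, 2, 2, 2, 1, 3, 0⟩ :=
  out_sound (S := T5.ds_mm) T5.ok_mm (w := 43) (j := 3) (by decide +kernel)
theorem L04826 : Good (Phi V5.P V5.D (-1) (-1)) ⟨5, 28, 3, 6, 2, 2, 2, 1, 3, 0⟩ :=
  out_sound (S := T5.ds_mm) T5.ok_mm (w := 57) (j := 3) (by decide +kernel)
theorem L04827 : Good (Phi V5.P V5.D (-1) (-1)) ⟨5, 29, 3, 6, 2, 2, 2, 1, 3, 0⟩ :=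
  out_sound (S := T5.ds_mm) T5.ok_mm (w := 17) (j := 4) (by decide +kernel)
theorem L04828 : Good (Phi V5.P V5.D (-1) (-1)) ⟨4, 14, 3, 7, 2, 2, 2, 1, 3, 0⟩ :=
  out_sound (S := T5.ds_mm) T5.ok_mm (w := 51) (j := 3) (by decide +kernel)
theorem L04829 : Good (Phi V5.P V5.D (-1) (-1)) ⟨4, 15, 2, 3, 2, 2, 2, 1, 3, 0⟩ :=
  out_sound (S := T5.ds_mm) T5.ok_mm (w := 15) (j := 4) (by decide +kernel)
theorem L04830 : Good (Phi V5.P V5.D (-1) (-1)) ⟨2, 2, 1, 1, 2, 2, 2, 1, 4, 2⟩ :=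
  out_sound (S := T5.ds_mm) T5.ok_mm (w := 35) (j := 3) (by decide +kernel)
theorem L04831 : Good (Phi V5.P V5.D (-1) (-1)) ⟨4, 12, 1, 1, 2, 2, 2, 1, 4, 2⟩ :=
  out_sound (S := T5.ds_mm) T5.ok_mm (w := 47) (j := 3) (by decide +kernel)
theorem L04832 : Good (Phi V5.P V5.D (-1) (-1)) ⟨4, 13, 3, 4, 3, 4, 2, 1, 4, 2⟩ :=
  leafX_sound T5.ok_mm T5.Ymm.bz_eq (w := 225) (c := ⟨⟨.negSucc 4377, .negSucc 891, .ofNat 247, .negSucc 135, .ofNat 463, .ofNat 916⟩, ⟨.ofNat 2374, .ofNat 628, .ofNat 167, .ofNat 63, .negSucc 271, .negSucc 540⟩, ⟨.ofNat 3074, .ofNat 805, .negSucc 371, .negSucc 242, .negSucc 327, .negSucc 590⟩, ⟨.negSucc 6965, .negSucc 822, .ofNat 274, .negSucc 403, .ofNat 689, .ofNat 1320⟩, ⟨.negSucc 511, .ofNat 147, .negSucc 109, .negSucc 337, .ofNat 32, .negSucc 14⟩, .ofNat 1089, .ofNat 1376, .ofNat 0, .ofNat 1376, .ofNat 2551, .ofNat 0, .ofNat 128, .negSucc 600, .negSucc 1006, .ofNat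 0, .ofNat 393, .ofNat 594, .ofNat 0, .ofNat 0, .ofNat 1466, .ofNat 849, .ofNat 0, .ofNat 0, .ofNat 1611675343330037977522869914637489405952, .ofNat 0, .ofNat 0, .ofNat 0, .ofNat 342720169645439326918663259904014773387264, .ofNat 0, .ofNat 0, .ofNat 0, .ofNat 108685534088679694285170503768165360599040, .ofNat 0, .ofNat 0, .ofNat 0, .ofNat 0, .ofNat 0⟩)
    (by decide +kernel)
theorem L04833 : Good (Phi V5.P V5.D (-1) (-1)) ⟨4, 13, 3, 4, 3, 5, 2, 1, 4, 2⟩ :=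
  leafX_sound T5.ok_mm T5.Ymm.bz_eq (w := 226) (c := ⟨⟨.negSucc 5061, .negSucc 900, .ofNat 248, .ofNat 518, .ofNat 686, .ofNat 1398⟩, ⟨.ofNat 2788, .ofNat 589, .ofNat 214, .negSucc 323, .negSucc 408, .negSucc 824⟩, ⟨.ofNat 3423, .ofNat 537, .negSucc 231, .negSucc 524, .negSucc 563, .negSucc 1005⟩, ⟨.negSucc 7993, .negSucc 932, .ofNat 266, .ofNat 436, .ofNat 930, .ofNat 1967⟩, ⟨.negSucc 570, .negSucc 72, .negSucc 56, .negSucc 522, .negSucc 104, .negSucc 92⟩, .ofNat 1567, .ofNat 2157, .ofNat 0, .ofNat 2157, .ofNat 3853, .ofNat 0, .ofNat 128, .negSucc 800, .negSucc 730, .ofNat 0, .ofNat 507, .ofNat 434, .ofNat 0, .ofNat 0, .ofNat 960, .ofNat 1947, .ofNat 0, .ofNat 0, .ofNat 1016214601280124299968091127592647655424, .ofNat 0, .ofNat 0, .ofNat 0, .ofNat 655039967621070579152641579059584880869376, .ofNat 0, .ofNat 0, .ofNat 0, .ofNat 960068969907709425200781926147346636210176, .ofNat 0,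 .ofNat 0, .ofNat 0, .ofNat 641466218454859786654856678095489423376384, .ofNat 0⟩)
    (by decide +kernel)
theorem L04834 : Good (Phi V5.P V5.D (-1) (-1)) ⟨4, 13, 3, 5, 2, 2, 2, 1, 4, 2⟩ :=
  out_sound (S := T5.ds_mm) T5.ok_mm (w := 51) (j := 3) (by decide +kernel)
theorem L04835 : Good (Phi V5.P V5.D (-1) (-1)) ⟨4, 13, 2, 3, 2, 2, 2, 1, 4, 2⟩ :=
  out_sound (S := T5.ds_mm) T5.ok_mm (w := 49) (j := 3) (by decide +kernel)
theorem L04836 : Good (Phi V5.P V5.D (-1) (-1)) ⟨6, 56, 4, 8, 2, 2, 2, 1, 5, 4⟩ :=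
  out_sound (S := T5.ds_mm) T5.ok_mm (w := 65) (j := 3) (by decide +kernel)
theorem L04837 : Good (Phi V5.P V5.D (-1) (-1)) ⟨6, 56, 4, 9, 3, 4, 2, 1, 5, 4⟩ :=
  leafX_sound T5.ok_mm T5.Ymm.bz_eq (w := 245) (c := ⟨⟨.negSucc 4770, .ofNat 10, .negSucc 211, .negSucc 410, .ofNat 452, .ofNat 245⟩, ⟨.ofNat 2872, .ofNat 30, .ofNat 301, .ofNat 256, .negSucc 288, .negSucc 153⟩, ⟨.ofNat 3282, .negSucc 35, .ofNat 178, .negSucc 57, .negSucc 207, .negSucc 113⟩, ⟨.negSucc 7121, .ofNat 65, .negSucc 291, .negSucc 782, .ofNat 634, .ofNat 414⟩, ⟨.negSucc 468, .negSucc 111, .ofNat 37, .negSucc 308, .negSucc 16, .ofNat 99⟩, .ofNat 2066, .ofNat 2823, .ofNat 0, .ofNat 2823, .ofNat 4645, .ofNat 0, .ofNat 128, .negSucc 2236, .negSucc 2381, .ofNat 0, .ofNat 1483, .ofNat 1513, .ofNat 0, .ofNat 0, .ofNat 2956, .ofNat 8169, .ofNat 0, .ofNat 0, .ofNat 0, .ofNat 0, .ofNat 0, .ofNat 0, .ofNat 30356269315907987749661034603752944492871680,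 .ofNat 0, .ofNat 0, .ofNat 0, .ofNat 0, .ofNat 0, .ofNat 0, .ofNat 0, .ofNat 78021545981808183613239620472295646614781952, .ofNat 0⟩)
    (by decide +kernel)
theorem L04838 : Good (Phi V5.P V5.D (-1) (-1)) ⟨6, 56, 4, 9, 3, 5, 2, 1, 5, 4⟩ :=
  leafX_sound T5.ok_mm T5.Ymm.bz_eq (w := 245) (c := ⟨⟨.negSucc 6078, .negSucc 197, .ofNat 42, .ofNat 557, .ofNat 948, .ofNat 748⟩, ⟨.ofNat 3678, .ofNat 144, .ofNat 169, .negSucc 360, .negSucc 604, .negSucc 471⟩, ⟨.ofNat 3935, .ofNat 182, .negSucc 83, .negSucc 535, .negSucc 599, .negSucc 517⟩, ⟨.negSucc 8972, .negSucc 223, .ofNat 69, .ofNat 405, .ofNat 1110, .ofNat 1028⟩, ⟨.negSucc 478, .negSucc 109, .ofNat 80, .negSucc 620, .negSucc 383, .negSucc 59⟩, .ofNat 2067, .ofNat 2827, .ofNat 0, .ofNat 2827, .ofNat 4656, .ofNat 0, .ofNat 128, .negSucc 1973, .negSucc 2075, .ofNat 0, .ofNat 1295, .ofNat 1315, .ofNat 0, .ofNat 0, .ofNat 2131, .ofNat 7596,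 .ofNat 0, .ofNat 0, .ofNat 0, .ofNat 0, .ofNat 0, .ofNat 0, .ofNat 37731331281015796254974341441896824791105536, .ofNat 0, .ofNat 0, .ofNat 0, .ofNat 42885573534555856798367216021383681138491392, .ofNat 0, .ofNat 0, .ofNat 0, .ofNat 25832477886400920608517135888211846855917568, .ofNat 0⟩)
    (by decide +kernel)
theorem L04839 : Good (Phi V5.P V5.D (-1) (-1)) ⟨6, 57, 3, 4, 2, 2, 2, 1, 5, 4⟩ :=
  out_sound (S := T5.ds_mm) T5.ok_mm (w := 63) (j := 3) (by decide +kernel)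
theorem L04840 : Good (Phi V5.P V5.D (-1) (-1)) ⟨5, 28, 4, 10, 3, 4, 2, 1, 5, 4⟩ :=
  leafX_sound T5.ok_mm T5.Ymm.bz_eq (w := 241) (c := ⟨⟨.negSucc 5270, .ofNat 78, .negSucc 220, .negSucc 378, .ofNat 591, .ofNat 479⟩, ⟨.ofNat 3371, .negSucc 0, .ofNat 328, .ofNat 246, .negSucc 390, .negSucc 316⟩, ⟨.ofNat 3638, .ofNat 252, .negSucc 62, .negSucc 115, .negSucc 315, .negSucc 317⟩, ⟨.negSucc 7686, .ofNat 61, .negSucc 232, .negSucc 731, .ofNat 784, .ofNat 679⟩, ⟨.negSucc 297, .negSucc 164, .negSucc 15, .negSucc 300, .negSucc 73, .ofNat 7⟩, .ofNat 2465, .ofNat 3367, .ofNat 0, .ofNat 3367, .ofNat 5350, .ofNat 0, .ofNat 128, .negSucc 1464, .negSucc 1903, .ofNat 0, .ofNat 988, .ofNat 1243, .ofNat 0, .ofNat 0, .ofNat 2296, .ofNat 6095, .ofNat 0, .ofNat 0, .ofNat 0, .ofNat 0, .ofNat 0, .ofNat 0, .ofNat 125983920730537490923695618532012869009014784, .ofNat 0, .ofNat 0, .ofNat 0, .ofNat 251421335352133994718368264858323245607157760,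 .ofNat 225891929341733619010024119596318126140466683789180928, .ofNat 0, .ofNat 0, .ofNat 209132207422736094733660294583463424313786368, .ofNat 0⟩)
    (by decide +kernel)
theorem L04841 : Good (Phi V5.P V5.D (-1) (-1)) ⟨5, 28, 4, 10, 3, 5, 2, 1, 5, 4⟩ :=
  leafX_sound T5.ok_mm T5.Ymm.bz_eq (w := 238) (c := ⟨⟨.negSucc 6007, .negSucc 621, .ofNat 71, .ofNat 563, .ofNat 907, .ofNat 854⟩, ⟨.ofNat 3833, .ofNat 517, .ofNat 114, .negSucc 372, .negSucc 597, .negSucc 558⟩, ⟨.ofNat 3788, .ofNat 718, .negSucc 229, .negSucc 575, .negSucc 566, .negSucc 596⟩, ⟨.negSucc 8898, .negSucc 627, .ofNat 97, .ofNat 415, .ofNat 1050, .ofNat 1154⟩, ⟨.negSucc 567, .ofNat 312, .negSucc 129, .negSucc 578, .negSucc 371, .negSucc 65⟩, .ofNat 908, .ofNat 1028, .ofNat 0, .ofNat 1028, .ofNat 1789, .ofNat 0, .ofNat 128, .negSucc 665, .negSucc 1548, .ofNat 0, .ofNat 458, .ofNat 988, .ofNat 0, .ofNat 0, .ofNat 1505,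 .ofNat 1619, .ofNat 0, .ofNat 0, .ofNat 114054579830417114403968835450374742605824, .ofNat 0, .ofNat 0, .ofNat 0, .ofNat 16296305965085598958810755262606288802021376, .ofNat 0, .ofNat 0, .ofNat 0, .ofNat 29032757660940768529116406258402201773801472, .ofNat 27035378079959930331980875691786332635877930501668864, .ofNat 0, .ofNat 0, .ofNat 0, .ofNat 0⟩)
    (by decide +kernel)
theorem L04842 : Good (Phi V5.P V5.D (-1) (-1)) ⟨6, 56, 4, 11, 2, 2, 2, 1, 5, 4⟩ :=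
  out_sound (S := T5.ds_mm) T5.ok_mm (w := 65) (j := 3) (by decide +kernel)
theorem L04843 : Good (Phi V5.P V5.D (-1) (-1)) ⟨7, 114, 5, 22, 2, 2, 2, 1, 5, 4⟩ :=
  out_sound (S := T5.ds_mm) T5.ok_mm (w := 73) (j := 3) (by decide +kernel)
theorem L04844 : Good (Phi V5.P V5.D (-1) (-1)) ⟨7, 115, 5, 22, 2, 2, 2, 1, 5, 4⟩ :=
  out_sound (S := T5.ds_mm) T5.ok_mm (w := 21) (j := 4) (by decide +kernel)
theorem L04845 : Good (Phi V5.P V5.D (-1) (-1)) ⟨6, 57, 5, 23, 2, 2, 2, 1, 5, 4⟩ :=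
  out_sound (S := T5.ds_mm) T5.ok_mm (w := 67) (j := 3) (by decide +kernel)
theorem L04846 : Good (Phi V5.P V5.D (-1) (-1)) ⟨6, 56, 3, 4, 2, 2, 2, 1, 5, 5⟩ :=
  leafX_sound T5.ok_mm T5.Ymm.bz_eq (w := 225) (c := ⟨⟨.negSucc 5439, .negSucc 347, .ofNat 449, .ofNat 468, .ofNat 686, .ofNat 743⟩, ⟨.ofNat 3141, .ofNat 236, .ofNat 44, .negSucc 310, .negSucc 437, .negSucc 469⟩, ⟨.ofNat 4043, .ofNat 183, .negSucc 403, .negSucc 966, .negSucc 597, .negSucc 512⟩, ⟨.negSucc 7825, .negSucc 337, .ofNat 440, .ofNat 124, .ofNat 915, .ofNat 1020⟩, ⟨.negSucc 203, .ofNat 43, .negSucc 140, .negSucc 868, .negSucc 102, .negSucc 60⟩, .ofNat 1332, .ofNat 1692, .ofNat 0, .ofNat 1692, .ofNat 2880, .ofNat 0, .ofNat 128, .negSucc 999, .negSucc 886, .ofNat 0, .ofNat 677, .ofNat 560, .ofNat 0, .ofNat 0, .ofNat 1278, .ofNat 4453, .ofNat 0, .ofNat 0, .ofNat 690075783026656570412582882626240512, .ofNat 0, .ofNat 0,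 .ofNat 0, .ofNat 435755225984478587562372115994167476224, .ofNat 0, .ofNat 0, .ofNat 0, .ofNat 133988468976249008774501031135848431616, .ofNat 0, .ofNat 0, .ofNat 0, .ofNat 154303327048572059396147510968642961408, .ofNat 0⟩)
    (by decide +kernel)
theorem L04847 : Good (Phi V5.P V5.D (-1) (-1)) ⟨6, 57, 3, 4, 2, 2, 2, 1, 5, 5⟩ :=
  out_sound (S := T5.ds_mm) T5.ok_mm (w := 63) (j := 3) (by decide +kernel)
theorem L04848 : Good (Phi V5.P V5.D (-1) (-1)) ⟨5, 28, 3, 5, 2, 2, 2, 1, 5, 5⟩ :=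
  leafX_sound T5.ok_mm T5.Ymm.bz_eq (w := 221) (c := ⟨⟨.negSucc 5025, .negSucc 436, .ofNat 386, .ofNat 465, .ofNat 644, .ofNat 722⟩, ⟨.ofNat 3212, .ofNat 372, .ofNat 29, .negSucc 310, .negSucc 426, .negSucc 478⟩, ⟨.ofNat 3717, .ofNat 54, .negSucc 100, .negSucc 981, .negSucc 569, .negSucc 502⟩, ⟨.negSucc 7425, .negSucc 216, .ofNat 212, .ofNat 69, .ofNat 843, .ofNat 1006⟩, ⟨.negSucc 311, .negSucc 44, .negSucc 27, .negSucc 897, .negSucc 107, .negSucc 24⟩, .ofNat 912, .ofNat 1034, .ofNat 0, .ofNat 1034, .ofNat 1793, .ofNat 0, .ofNat 128, .negSucc 804, .negSucc 877, .ofNat 0, .ofNat 572, .ofNat 565, .ofNat 0, .ofNat 0, .ofNat 1221, .ofNat 3027, .ofNat 0, .ofNat 0, .ofNat 3969810970676600758151847846707462144, .ofNat 499841587110550380757978450301760349075931136, .ofNat 0, .ofNat 0, .ofNat 393363940403993480761277935040015106048, .ofNat 0, .ofNat 0, .ofNat 0, .ofNat 755410570398307460184208759756165218304,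 .ofNat 502007625583376177501612877588231530359759568896, .ofNat 0, .ofNat 0, .ofNat 1438338937843033924406892794899146473472, .ofNat 0⟩)
    (by decide +kernel)
theorem L04849 : Good (Phi V5.P V5.D (-1) (-1)) ⟨5, 29, 2, 2, 2, 2, 2, 1, 4, 2⟩ :=
  out_sound (S := T5.ds_mm) T5.ok_mm (w := 17) (j := 4) (by decide +kernel)
theorem L04850 : Good (Phi V5.P V5.D (-1) (-1)) ⟨5, 28, 3, 6, 2, 2, 2, 1, 4, 2⟩ :=
  out_sound (S := T5.ds_mm) T5.ok_mm (w := 57) (j := 3) (by decide +kernel)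
theorem L04851 : Good (Phi V5.P V5.D (-1) (-1)) ⟨5, 29, 3, 6, 2, 2, 2, 1, 4, 2⟩ :=
  out_sound (S := T5.ds_mm) T5.ok_mm (w := 17) (j := 4) (by decide +kernel)
theorem L04852 : Good (Phi V5.P V5.D (-1) (-1)) ⟨4, 14, 3, 7, 2, 2, 2, 1, 4, 2⟩ :=
  out_sound (S := T5.ds_mm) T5.ok_mm (w := 51) (j := 3) (by decide +kernel)
theorem L04853 : Good (Phi V5.P V5.D (-1) (-1)) ⟨4, 15, 1, 1, 2, 2, 2, 1, 4, 2⟩ :=
  out_sound (S := T5.ds_mm) T5.ok_mm (w := 15) (j := 4) (by decide +kernel)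
theorem L04854 : Good (Phi V5.P V5.D (-1) (-1)) ⟨2, 2, 1, 1, 2, 2, 2, 1, 4, 3⟩ :=
  out_sound (S := T5.ds_mm) T5.ok_mm (w := 35) (j := 3) (by decide +kernel)
theorem L04855 : Good (Phi V5.P V5.D (-1) (-1)) ⟨3, 6, 1, 1, 2, 2, 2, 1, 4, 3⟩ :=
  leafX_sound T5.ok_mm T5.Ymm.bz_eq (w := 201) (c := ⟨⟨.negSucc 3157, .negSucc 1286, .ofNat 579, .ofNat 565, .ofNat 460, .ofNat 994⟩, ⟨.ofNat 1706, .ofNat 770, .ofNat 982, .negSucc 342, .negSucc 266, .negSucc 595⟩, ⟨.ofNat 2545, .ofNat 823, .negSucc 807, .negSucc 1036, .negSucc 555, .negSucc 659⟩, ⟨.negSucc 5505, .negSucc 1149, .ofNat 475, .ofNat 367, .ofNat 728, .ofNat 1448⟩, ⟨.negSucc 591, .ofNat 154, .negSucc 375, .negSucc 782, .ofNat 77, .ofNat 10⟩, .ofNat 759, .ofNat 841, .ofNat 0, .ofNat 841, .ofNat 1634, .ofNat 0, .ofNat 128, .negSucc 482, .negSucc 263, .ofNat 0, .ofNat 341, .ofNat 157, .ofNat 0, .ofNat 0, .ofNat 609, .ofNat 2009, .ofNat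 0, .ofNat 0, .ofNat 276390130521033789366121546926522368, .ofNat 0, .ofNat 0, .ofNat 0, .ofNat 13032305493224948065958683189983576064, .ofNat 0, .ofNat 0, .ofNat 0, .ofNat 19478128140629166588276487479049060352, .ofNat 0, .ofNat 0, .ofNat 0, .ofNat 17490111538629104477306523212100665344, .ofNat 0⟩)
    (by decide +kernel)
theorem L04856 : Good (Phi V5.P V5.D (-1) (-1)) ⟨3, 7, 1, 1, 2, 2, 2, 1, 4, 3⟩ :=
  leafX_sound T5.ok_mm T5.Ymm.bz_eq (w := 200) (c := ⟨⟨.negSucc 4381, .negSucc 488, .ofNat 75, .ofNat 671, .ofNat 502, .ofNat 1001⟩, ⟨.ofNat 2540, .ofNat 486, .ofNat 977, .negSucc 440, .negSucc 323, .negSucc 645⟩, ⟨.ofNat 3377, .ofNat 254, .negSucc 351, .negSucc 1231, .negSucc 583, .negSucc 697⟩, ⟨.negSucc 6563, .negSucc 376, .ofNat 116, .ofNat 414, .ofNat 771, .ofNat 1420⟩, ⟨.negSucc 462, .negSucc 155, .negSucc 57, .negSucc 805, .ofNat 78, .negSucc 23⟩, .ofNat 387, .ofNat 292, .ofNat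 0, .ofNat 292, .ofNat 644, .ofNat 0, .ofNat 128, .negSucc 229, .negSucc 145, .ofNat 0, .ofNat 197, .ofNat 90, .ofNat 0, .ofNat 0, .ofNat 309, .ofNat 1122, .ofNat 0, .ofNat 0, .ofNat 23951449303051889811620477349658624, .ofNat 4661936300745845101117903140865750073344, .ofNat 0, .ofNat 0, .ofNat 513658310981341930436364601191825408, .ofNat 0, .ofNat 0, .ofNat 0, .ofNat 118843110067389334755037481273393152, .ofNat 1547406392423522267851298329028667188969472, .ofNat 0, .ofNat 0, .ofNat 2429966397534667233177063155612778496, .ofNat 565095716795101128000100139098244644864000⟩)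
    (by decide +kernel)
theorem L04857 : Good (Phi V5.P V5.D (-1) (-1)) ⟨2, 2, 3, 4, 2, 3, 2, 0, 3, 0⟩ :=
  out_sound (S := T5.ds_mm) T5.ok_mm (w := 39) (j := 3) (by decide +kernel)
theorem L04858 : Good (Phi V5.P V5.D (-1) (-1)) ⟨4, 12, 3, 4, 2, 3, 4, 0, 4, 0⟩ :=
  out_sound (S := T5.ds_mm) T5.ok_mm (w := 51) (j := 3) (by decide +kernel)
theorem L04859 : Good (Phi V5.P V5.D (-1) (-1)) ⟨4, 13, 3, 4, 3, 6, 4, 0, 5, 0⟩ :=
  leafX_sound T5.ok_mm T5.Ymm.bz_eq (w := 238) (c := ⟨⟨.ofNat 5300, .ofNat 796, .ofNat 210, .negSucc 3467, .negSucc 524, .ofNat 543⟩, ⟨.negSucc 2810, .negSucc 991, .negSucc 114, .ofNat 2098, .ofNat 346, .negSucc 396⟩, ⟨.negSucc 279, .negSucc 629, .ofNat 667, .ofNat 2211, .negSucc 461, .negSucc 664⟩, ⟨.ofNat 6394, .ofNat 92, .ofNat 693, .negSucc 3565, .ofNat 183, .negSucc 585⟩, ⟨.negSucc 3436, .negSucc 475, .ofNat 800, .ofNat 2634, .ofNat 1592, .negSucc 2238⟩, .ofNat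 759, .ofNat 845, .ofNat 0, .ofNat 845, .ofNat 1648, .ofNat 0, .ofNat 128, .negSucc 839, .negSucc 423, .ofNat 0, .ofNat 527, .ofNat 240, .ofNat 0, .ofNat 0, .ofNat 595, .ofNat 4685, .ofNat 0, .ofNat 0, .ofNat 0, .ofNat 0, .ofNat 0, .ofNat 0, .ofNat 483010605301233623802617680159527543274209280, .ofNat 0, .ofNat 184587164245422600890949057343526077220202292969472, .ofNat 0, .ofNat 6073496562680851270630501578397890966055813120, .ofNat 0, .ofNat 0, .ofNat 0, .ofNat 385830250847427861414617641772165794367537152, .ofNat 0⟩)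
    (by decide +kernel)
theorem L04860 : Good (Phi V5.P V5.D (-1) (-1)) ⟨4, 13, 3, 4, 3, 6, 4, 0, 5, 1⟩ :=
  leafX_sound T5.ok_mm T5.Ymm.bz_eq (w := 238) (c := ⟨⟨.ofNat 5839, .ofNat 3141, .negSucc 837, .negSucc 5154, .negSucc 884, .negSucc 1728⟩, ⟨.negSucc 3305, .negSucc 2304, .ofNat 542, .ofNat 3139, .ofNat 579, .ofNat 952⟩, ⟨.negSucc 825, .negSucc 1811, .ofNat 1133, .ofNat 3084, .negSucc 279, .ofNat 210⟩, ⟨.ofNat 5749, .ofNat 2996, .negSucc 803, .negSucc 5445, .negSucc 242, .negSucc 3486⟩, ⟨.negSucc 5641, .negSucc 1790, .ofNat 1189, .ofNat 3567, .ofNat 1712, .negSucc 1414⟩, .ofNat 747, .ofNat 826, .ofNat 0, .ofNat 826, .ofNat 1627, .ofNat 0, .ofNat 128, .negSucc 834, .negSucc 595, .ofNat 0, .ofNat 526, .ofNat 344, .ofNat 0, .ofNat 0, .ofNat 605, .ofNat 2257, .ofNat 4953256101009332273158178785039141736095986745344, .ofNat 0, .ofNat 75000716803893274660375999765259002151174144,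 .ofNat 0, .ofNat 0, .ofNat 0, .ofNat 223978505530997389354937591680902607228895232, .ofNat 0, .ofNat 130822565406823298389776378061550801856624918003712, .ofNat 0, .ofNat 6741391030518964553527431176587545919094784000, .ofNat 0, .ofNat 0, .ofNat 0, .ofNat 2891806028376590330291459182169932340695924736, .ofNat 0⟩)
    (by decide +kernel)
theorem L04861 : Good (Phi V5.P V5.D (-1) (-1)) ⟨4, 13, 3, 4, 4, 14, 4, 0, 4, 0⟩ :=
  leafX_sound T5.ok_mm T5.Ymm.bz_eq (w := 248) (c := ⟨⟨.ofNat 3162, .negSucc 991, .ofNat 1606, .negSucc 878, .ofNat 214, .negSucc 2827⟩, ⟨.negSucc 1703, .ofNat 239, .negSucc 784, .ofNat 494, .negSucc 81, .ofNat 1608⟩, ⟨.ofNat 989, .ofNat 707, .negSucc 318, .ofNat 847, .negSucc 768, .ofNat 749⟩, ⟨.ofNat 3828, .negSucc 1332, .ofNat 2133, .negSucc 1321, .ofNat 1471, .negSucc 6110⟩, ⟨.negSucc 1760, .ofNat 585, .negSucc 117, .negSucc 23, .ofNat 1932, .negSucc 3288⟩, .ofNat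 1110, .ofNat 1411, .ofNat 0, .ofNat 1411, .ofNat 2611, .ofNat 0, .ofNat 128, .negSucc 933, .negSucc 714, .ofNat 0, .ofNat 586, .ofNat 387, .ofNat 0, .ofNat 0, .ofNat 836, .ofNat 7819, .ofNat 0, .ofNat 0, .ofNat 0, .ofNat 0, .ofNat 0, .ofNat 0, .ofNat 1683069268381454292454786643479720752424310276096, .ofNat 0, .ofNat 0, .ofNat 0, .ofNat 1250369558858332012745457880222663559669709012992, .ofNat 0, .ofNat 0, .ofNat 0, .ofNat 2439677660953460589519279917943389215579489435648, .ofNat 0⟩)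
    (by decide +kernel)
theorem L04862 : Good (Phi V5.P V5.D (-1) (-1)) ⟨4, 13, 3, 4, 4, 15, 5, 0, 4, 0⟩ :=
  leafX_sound T5.ok_mm T5.Ymm.bz_eq (w := 251) (c := ⟨⟨.ofNat 1398, .ofNat 1139, .ofNat 908, .ofNat 1447, .ofNat 45, .negSucc 3874⟩, ⟨.negSucc 658, .negSucc 1081, .negSucc 341, .negSucc 931, .ofNat 29, .ofNat 2229⟩, ⟨.ofNat 1734, .ofNat 407, .negSucc 74, .negSucc 421, .negSucc 463, .ofNat 1273⟩, ⟨.ofNat 1730, .ofNat 907, .ofNat 446, .ofNat 863, .ofNat 954, .negSucc 7180⟩, ⟨.negSucc 855, .negSucc 1173, .negSucc 847, .negSucc 2033, .ofNat 1444, .negSucc 2543⟩, .ofNat 1104, .ofNat 1398, .ofNat 0, .ofNat 1398, .ofNat 2580, .ofNat 0, .ofNat 128, .negSucc 1116, .negSucc 618, .ofNat 0, .ofNat 714, .ofNat 318, .ofNat 0, .ofNat 0, .ofNat 680, .ofNat 5459, .ofNat 0, .ofNat 0, .ofNat 1083558755274645234481565915963029653974092349440, .ofNat 0, .ofNat 0, .ofNat 0, .ofNat 3201528451634985015295105852048763405000184430592,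 .ofNat 0, .ofNat 0, .ofNat 0, .ofNat 43894236410967281746131009349072811591496619786240, .ofNat 0, .ofNat 0, .ofNat 0, .ofNat 55102830004150705814844615572889824002146448703488, .ofNat 0⟩)
    (by decide +kernel)
theorem L04863 : Good (Phi V5.P V5.D (-1) (-1)) ⟨4, 13, 3, 4, 4, 15, 5, 1, 4, 0⟩ :=
  leafX_sound T5.ok_mm T5.Ymm.bz_eq (w := 251) (c := ⟨⟨.ofNat 2198, .negSucc 351, .ofNat 1938, .ofNat 988, .ofNat 68, .negSucc 3393⟩, ⟨.negSucc 1150, .negSucc 51, .negSucc 1093, .negSucc 615, .negSucc 41, .ofNat 1943⟩, ⟨.ofNat 1284, .ofNat 545, .negSucc 315, .negSucc 246, .negSucc 232, .ofNat 1002⟩, ⟨.ofNat 3309, .negSucc 730, .ofNat 1943, .ofNat 539, .ofNat 795, .negSucc 6779⟩, ⟨.negSucc 249, .negSucc 55, .negSucc 1137, .negSucc 1486, .ofNat 1206, .negSucc 3025⟩, .ofNat 1107, .ofNat 1401, .ofNat 0, .ofNat 1401, .ofNat 2580, .ofNat 0, .ofNat 128, .negSucc 1083, .negSucc 929, .ofNat 0, .ofNat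 683, .ofNat 480, .ofNat 0, .ofNat 0, .ofNat 974, .ofNat 4546, .ofNat 0, .ofNat 0, .ofNat 377361486707842631052740139200947724567604887552, .ofNat 0, .ofNat 0, .ofNat 0, .ofNat 13629132305330038175746197045899512996100755685376, .ofNat 0, .ofNat 0, .ofNat 0, .ofNat 81788338027865868808439212694507773142203143028736, .ofNat 0, .ofNat 0, .ofNat 0, .ofNat 145114813481386704796192779402625870458508562923520, .ofNat 0⟩)
    (by decide +kernel)
theorem L04864 : Good (Phi V5.P V5.D (-1) (-1)) ⟨5, 28, 4, 8, 2, 3, 4, 0, 5, 0⟩ :=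
  out_sound (S := T5.ds_mm) T5.ok_mm (w := 59) (j := 3) (by decide +kernel)
theorem L04865 : Good (Phi V5.P V5.D (-1) (-1)) ⟨6, 56, 4, 9, 3, 6, 4, 0, 5, 0⟩ :=
  leafX_sound T5.ok_mm T5.Ymm.bz_eq (w := 254) (c := ⟨⟨.ofNat 6006, .negSucc 388, .ofNat 463, .negSucc 3467, .negSucc 690, .ofNat 859⟩, ⟨.negSucc 3824, .ofNat 65, .negSucc 260, .ofNat 2229, .ofNat 457, .negSucc 577⟩, ⟨.negSucc 655, .negSucc 329, .ofNat 591, .ofNat 2267, .negSucc 571, .negSucc 796⟩, ⟨.ofNat 6520, .negSucc 420, .ofNat 534, .negSucc 3165, .ofNat 94, .negSucc 124⟩, ⟨.negSucc 3350, .ofNat 513, .negSucc 163, .ofNat 2805, .ofNat 1708, .negSucc 2102⟩, .ofNat 3984, .ofNat 5797, .ofNat 0, .ofNat 5797, .ofNat 9274, .ofNat 0, .ofNat 128, .negSucc 2272, .negSucc 692, .ofNat 0, .ofNat 1466, .ofNat 439, .ofNat 0, .ofNat 0, .ofNat 1064, .ofNat 15674, .ofNat 0, .ofNat 0, .ofNat 0, .ofNat 0, .ofNat 0, .ofNat 0, .ofNat 11423571581488627352530650690812606225416454144,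 .ofNat 0, .ofNat 3042065167828923562301646251872175367051013544795439104, .ofNat 0, .ofNat 24437261476410699706027373392949471935048187904, .ofNat 0, .ofNat 0, .ofNat 0, .ofNat 1782920702729667502769412023549610108657860608, .ofNat 0⟩)
    (by decide +kernel)
theorem L04866 : Good (Phi V5.P V5.D (-1) (-1)) ⟨6, 56, 4, 9, 3, 7, 4, 0, 5, 0⟩ :=
  leafX_sound T5.ok_mm T5.Ymm.bz_eq (w := 253) (c := ⟨⟨.ofNat 2253, .ofNat 683, .ofNat 126, .ofNat 1437, .ofNat 17, .ofNat 64⟩, ⟨.negSucc 1401, .negSucc 514, .negSucc 96, .negSucc 962, .ofNat 32, .negSucc 70⟩, ⟨.ofNat 1924, .negSucc 32, .ofNat 46, .ofNat 198, .negSucc 751, .negSucc 124⟩, ⟨.ofNat 2980, .ofNat 496, .negSucc 220, .negSucc 264, .ofNat 2079, .negSucc 1376⟩, ⟨.negSucc 482, .negSucc 513, .negSucc 543, .negSucc 3648, .ofNat 3220, .negSucc 2305⟩, .ofNat 3212, .ofNat 4548, .ofNat 0, .ofNat 4548, .ofNat 7261, .ofNat 0, .ofNat 128, .negSucc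 1984, .negSucc 782, .ofNat 0, .ofNat 1300, .ofNat 467, .ofNat 0, .ofNat 0, .ofNat 920, .ofNat 9079, .ofNat 0, .ofNat 0, .ofNat 0, .ofNat 0, .ofNat 0, .ofNat 0, .ofNat 8106080491545145738653147236979051754252402688, .ofNat 0, .ofNat 0, .ofNat 0, .ofNat 3743733897550477054407052661781258839319904256, .ofNat 0, .ofNat 0, .ofNat 0, .ofNat 315891849702543152372838817181763147334156288, .ofNat 0⟩)
    (by decide +kernel)
theorem L04867 : Good (Phi V5.P V5.D (-1) (-1)) ⟨6, 57, 4, 9, 2, 3, 4, 0, 5, 0⟩ :=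
  out_sound (S := T5.ds_mm) T5.ok_mm (w := 65) (j := 3) (by decide +kernel)
theorem L04868 : Good (Phi V5.P V5.D (-1) (-1)) ⟨6, 56, 4, 8, 3, 6, 4, 0, 5, 1⟩ :=
  out_sound (S := T5.ds_mm) T5.ok_mm (w := 65) (j := 3) (by decide +kernel)
theorem L04869 : Good (Phi V5.P V5.D (-1) (-1)) ⟨6, 56, 4, 9, 3, 6, 4, 0, 5, 1⟩ :=
  leafX_sound T5.ok_mm T5.Ymm.bz_eq (w := 253) (c := ⟨⟨.ofNat 9708, .ofNat 1160, .negSucc 1813, .negSucc 5510, .negSucc 1183, .negSucc 1245⟩, ⟨.negSucc 6274, .negSucc 943, .ofNat 1262, .ofNat 3528, .ofNat 781, .ofNat 771⟩, ⟨.negSucc 2343, .negSucc 642, .ofNat 988, .ofNat 3258, .negSucc 241, .negSucc 77⟩, ⟨.ofNat 9381, .ofNat 1249, .negSucc 1920, .negSucc 5560, .negSucc 357, .negSucc 3128⟩, ⟨.negSucc 7172, .negSucc 54, .ofNat 985, .ofNat 3675, .ofNat 2113, .negSucc 2153⟩, .ofNat 2056, .ofNat 2808, .ofNat 0, .ofNat 2808, .ofNat 4624, .ofNat 0, .ofNat 128, .negSucc 2689,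 .negSucc 1333, .ofNat 0, .ofNat 1740, .ofNat 846, .ofNat 0, .ofNat 0, .ofNat 1378, .ofNat 10648, .ofNat 0, .ofNat 0, .ofNat 0, .ofNat 0, .ofNat 96658688092028998901847622769583448212315235789307904, .ofNat 0, .ofNat 3434250867637029135708968773558391837338632192, .ofNat 0, .ofNat 3260526290375406706140831538183070165872733226375577600, .ofNat 0, .ofNat 39276059234972308887611530665161506778393870336, .ofNat 0, .ofNat 0, .ofNat 0, .ofNat 10115930841834789443933599398226944875187666944, .ofNat 0⟩)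
    (by decide +kernel)
theorem L04870 : Good (Phi V5.P V5.D (-1) (-1)) ⟨6, 57, 3, 4, 3, 6, 4, 0, 5, 1⟩ :=
  out_sound (S := T5.ds_mm) T5.ok_mm (w := 63) (j := 3) (by decide +kernel)
theorem L04871 : Good (Phi V5.P V5.D (-1) (-1)) ⟨5, 28, 4, 8, 3, 7, 4, 0, 5, 1⟩ :=
  out_sound (S := T5.ds_mm) T5.ok_mm (w := 59) (j := 3) (by decide +kernel)
theorem L04872 : Good (Phi V5.P V5.D (-1) (-1)) ⟨6, 56, 5, 18, 3, 7, 4, 0, 5, 1⟩ :=
  out_sound (S := T5.ds_mm) T5.ok_mm (w := 67) (j := 3) (by decide +kernel)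
theorem L04873 : Good (Phi V5.P V5.D (-1) (-1)) ⟨6, 56, 5, 19, 3, 7, 4, 0, 5, 1⟩ :=
  leafX_sound T5.ok_mm T5.Ymm.bz_eq (w := 253) (c := ⟨⟨.ofNat 2867, .ofNat 2497, .negSucc 741, .ofNat 532, .ofNat 98, .negSucc 3086⟩, ⟨.negSucc 1852, .negSucc 1753, .ofNat 542, .negSucc 396, .negSucc 19, .ofNat 1937⟩, ⟨.ofNat 1532, .negSucc 975, .ofNat 402, .ofNat 658, .negSucc 817, .ofNat 1015⟩, ⟨.ofNat 1964, .ofNat 1402, .negSucc 332, .negSucc 1210, .ofNat 2204, .negSucc 5268⟩, ⟨.negSucc 3405, .negSucc 3254, .ofNat 1199, .negSucc 3131, .ofNat 3218, .negSucc 1332⟩, .ofNat 1332, .ofNat 1691, .ofNat 0, .ofNat 1691, .ofNat 2877, .ofNat 0, .ofNat 128, .negSucc 1278, .negSucc 877, .ofNat 0, .ofNat 849, .ofNat 515, .ofNat 0, .ofNat 0, .ofNat 848, .ofNat 5672, .ofNat 0, .ofNat 0, .ofNat 84659702056297499497606184900416566168911872, .ofNat 0, .ofNat 0, .ofNat 0, .ofNat 1672695338614701134554237100637640286860738560,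 .ofNat 0, .ofNat 0, .ofNat 0, .ofNat 3691407619508175953404468506683616151952424960, .ofNat 0, .ofNat 0, .ofNat 0, .ofNat 3128209610701522527894237495447908661248131072, .ofNat 0⟩)
    (by decide +kernel)
theorem L04874 : Good (Phi V5.P V5.D (-1) (-1)) ⟨6, 57, 4, 9, 3, 7, 4, 0, 5, 1⟩ :=
  out_sound (S := T5.ds_mm) T5.ok_mm (w := 65) (j := 3) (by decide +kernel)
theorem L04875 : Good (Phi V5.P V5.D (-1) (-1)) ⟨5, 29, 3, 4, 2, 3, 4, 0, 4, 0⟩ :=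
  out_sound (S := T5.ds_mm) T5.ok_mm (w := 57) (j := 3) (by decide +kernel)
theorem L04876 : Good (Phi V5.P V5.D (-1) (-1)) ⟨4, 15, 3, 4, 2, 3, 4, 0, 4, 0⟩ :=
  out_sound (S := T5.ds_mm) T5.ok_mm (w := 51) (j := 3) (by decide +kernel)
theorem L04877 : Good (Phi V5.P V5.D (-1) (-1)) ⟨4, 12, 3, 4, 2, 3, 4, 0, 5, 2⟩ :=
  out_sound (S := T5.ds_mm) T5.ok_mm (w := 51) (j := 3) (by decide +kernel)
theorem L04878 : Good (Phi V5.P V5.D (-1) (-1)) ⟨5, 26, 3, 4, 2, 3, 5, 0, 5, 2⟩ :=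
  leafX_sound T5.ok_mm T5.Ymm.bz_eq (w := 233) (c := ⟨⟨.negSucc 1069, .ofNat 2630, .ofNat 639, .negSucc 3454, .ofNat 544, .negSucc 3663⟩, ⟨.ofNat 528, .negSucc 1543, .negSucc 3, .ofNat 1968, .negSucc 292, .ofNat 2064⟩, ⟨.ofNat 2054, .negSucc 1581, .negSucc 1505, .ofNat 2574, .negSucc 569, .ofNat 1702⟩, ⟨.negSucc 3211, .ofNat 2598, .ofNat 210, .negSucc 3884, .ofNat 842, .negSucc 4367⟩, ⟨.negSucc 2704, .negSucc 2680, .negSucc 794, .ofNat 2326, .ofNat 48, .ofNat 2051⟩, .ofNat 1456, .ofNat 2056, .ofNat 0, .ofNat 2056, .ofNat 3878, .ofNat 0, .ofNat 128, .negSucc 996, .negSucc 1152, .ofNat 0, .ofNat 610, .ofNat 640, .ofNat 0, .ofNat 0, .ofNat 1200, .ofNat 10563, .ofNat 742087004308105459232111925645472270824463400960, .ofNat 0, .ofNat 37872229539160379832212330938846939185152, .ofNat 0, .ofNat 0, .ofNat 0, .ofNat 710331244114586220111739481689920964132864, .ofNat 0, .ofNat 6060819032576604235871567969689167619830952493056,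 .ofNat 0, .ofNat 1760113285876417192913474538749124556095488, .ofNat 0, .ofNat 4410687601096846347296751803242308381031878623232, .ofNat 0, .ofNat 3655665364164617586017719682328545313423360, .ofNat 0⟩)
    (by decide +kernel)
theorem L04879 : Good (Phi V5.P V5.D (-1) (-1)) ⟨5, 26, 3, 4, 2, 3, 5, 1, 5, 2⟩ :=
  leafX_sound T5.ok_mm T5.Ymm.bz_eq (w := 232) (c := ⟨⟨.ofNat 2049, .negSucc 647, .ofNat 590, .negSucc 3058, .ofNat 538, .negSucc 3860⟩, ⟨.negSucc 1210, .ofNat 328, .negSucc 23, .ofNat 1728, .negSucc 298, .ofNat 2149⟩, ⟨.negSucc 790, .ofNat 1161, .negSucc 874, .ofNat 2438, .negSucc 520, .ofNat 1856⟩, ⟨.ofNat 591, .negSucc 977, .ofNat 189, .negSucc 3435, .ofNat 760, .negSucc 4910⟩, ⟨.negSucc 4337, .negSucc 274, .negSucc 1088, .ofNat 2139, .negSucc 83, .ofNat 1674⟩, .ofNat 1040, .ofNat 1342, .ofNat 0, .ofNat 1342, .ofNat 2623, .ofNat 0, .ofNat 128, .negSucc 655, .negSucc 797, .ofNat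 0, .ofNat 406, .ofNat 440, .ofNat 0, .ofNat 0, .ofNat 790, .ofNat 5017, .ofNat 0, .ofNat 0, .ofNat 0, .ofNat 0, .ofNat 0, .ofNat 0, .ofNat 272072011240839566759442767408133365039104, .ofNat 0, .ofNat 0, .ofNat 0, .ofNat 87397086143385711583369641298218209771520, .ofNat 0, .ofNat 0, .ofNat 0, .ofNat 801685555450131006324191100904421300633600, .ofNat 0⟩)
    (by decide +kernel)
theorem L04880 : Good (Phi V5.P V5.D (-1) (-1)) ⟨5, 27, 4, 8, 3, 6, 4, 0, 6, 4⟩ :=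
  leafX_sound T5.ok_mm T5.Ymm.bz_eq (w := 251) (c := ⟨⟨.ofNat 5133, .ofNat 2197, .negSucc 912, .negSucc 5411, .ofNat 83, .negSucc 3258⟩, ⟨.negSucc 3214, .negSucc 1585, .ofNat 705, .ofNat 3270, .negSucc 14, .ofNat 1934⟩, ⟨.negSucc 1406, .negSucc 1040, .ofNat 538, .ofNat 3627, .negSucc 574, .ofNat 1500⟩, ⟨.ofNat 3281, .ofNat 2159, .negSucc 985, .negSucc 5805, .ofNat 709, .negSucc 4046⟩, ⟨.negSucc 7549, .negSucc 1657, .ofNat 846, .ofNat 3593, .ofNat 1094, .ofNat 1387⟩, .ofNat 739, .ofNat 814, .ofNat 0, .ofNat 814, .ofNat 1610, .ofNat 0, .ofNat 128, .negSucc 1137, .negSucc 1073, .ofNat 0, .ofNat 725, .ofNat 640, .ofNat 0, .ofNat 0, .ofNat 886, .ofNat 2677, .ofNat 4735823450349541481702716858001116119726466703294464, .ofNat 0, .ofNat 2290041709953398878621114149742431782108659712, .ofNat 0, .ofNat 18425592087779635690542633341683200818035017501376512, .ofNat 0, .ofNat 24187896662431029320085008562984964110661189632,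 .ofNat 0, .ofNat 0, .ofNat 0, .ofNat 305525365072287190434790696523255745726514200576, .ofNat 0, .ofNat 0, .ofNat 0, .ofNat 144171086775777232645994148767650074314693148672, .ofNat 0⟩)
    (by decide +kernel)
theorem L04881 : Good (Phi V5.P V5.D (-1) (-1)) ⟨5, 27, 4, 8, 3, 6, 4, 0, 6, 5⟩ :=
  leafX_sound T5.ok_mm T5.Ymm.bz_eq (w := 250) (c := ⟨⟨.negSucc 418, .negSucc 1002, .ofNat 936, .negSucc 2497, .ofNat 893, .negSucc 2820⟩, ⟨.ofNat 42, .ofNat 513, .negSucc 384, .ofNat 1505, .negSucc 513, .ofNat 1682⟩, ⟨.ofNat 950, .ofNat 524, .negSucc 467, .ofNat 2469, .negSucc 794, .ofNat 1491⟩, ⟨.negSucc 2978, .negSucc 1188, .ofNat 968, .negSucc 2535, .ofNat 1153, .negSucc 3203⟩, ⟨.negSucc 4185, .ofNat 116, .negSucc 394, .ofNat 1950, .negSucc 288, .ofNat 1795⟩, .ofNat 733, .ofNat 806, .ofNat 0, .ofNat 806, .ofNat 1601, .ofNat 0, .ofNat 128, .negSucc 783, .negSucc 770, .ofNat 0, .ofNat 511, .ofNat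 464, .ofNat 0, .ofNat 0, .ofNat 659, .ofNat 4404, .ofNat 8679952298048717678268731826166232043361126525698048, .ofNat 0, .ofNat 317494890432424054601274750007793000873197568, .ofNat 0, .ofNat 23040253844176356171771580092614605850176515066560512, .ofNat 0, .ofNat 38054419204307238559073100485103299744092913664, .ofNat 0, .ofNat 0, .ofNat 0, .ofNat 156394916093001086467924313719501539101611393024, .ofNat 0, .ofNat 28601332210861482925668470764522158398058012751167488, .ofNat 0, .ofNat 130997729397364301278248091597150589556413693952, .ofNat 0⟩)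
    (by decide +kernel)
theorem L04882 : Good (Phi V5.P V5.D (-1) (-1)) ⟨5, 27, 4, 8, 3, 7, 4, 0, 5, 2⟩ :=
  leafX_sound T5.ok_mm T5.Ymm.bz_eq (w := 245) (c := ⟨⟨.negSucc 2095, .negSucc 522, .ofNat 531, .ofNat 60, .ofNat 725, .negSucc 3072⟩, ⟨.ofNat 1052, .ofNat 221, .negSucc 111, .negSucc 54, .negSucc 405, .ofNat 1817⟩, ⟨.ofNat 3259, .ofNat 325, .negSucc 56, .negSucc 267, .negSucc 794, .ofNat 1403⟩, ⟨.negSucc 4563, .negSucc 364, .ofNat 209, .negSucc 368, .ofNat 1378, .negSucc 3849⟩, ⟨.negSucc 2567, .ofNat 588, .negSucc 906, .negSucc 760, .ofNat 550, .ofNat 1098⟩, .ofNat 1514, .ofNat 2072, .ofNat 0, .ofNat 2072, .ofNat 3718, .ofNat 0, .ofNat 128, .negSucc 625, .negSucc 691, .ofNat 0, .ofNat 404, .ofNat 390, .ofNat 0, .ofNat 0, .ofNat 728, .ofNat 3515, .ofNat 0, .ofNat 0, .ofNat 0, .ofNat 0, .ofNat 0, .ofNat 0, .ofNat 1245721076620382063193621071644456787166363648, .ofNat 0, .ofNat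 0, .ofNat 0, .ofNat 3063028979476672678078039738684047471316828160, .ofNat 0, .ofNat 0, .ofNat 0, .ofNat 2293279956618691930833069149620570891615207424, .ofNat 0⟩)
    (by decide +kernel)
theorem L04883 : Good (Phi V5.P V5.D (-1) (-1)) ⟨6, 54, 4, 9, 2, 3, 4, 0, 5, 2⟩ :=
  out_sound (S := T5.ds_mm) T5.ok_mm (w := 65) (j := 3) (by decide +kernel)
theorem L04884 : Good (Phi V5.P V5.D (-1) (-1)) ⟨6, 55, 4, 9, 3, 6, 4, 0, 6, 4⟩ :=
  leafX_sound T5.ok_mm T5.Ymm.bz_eq (w := 259) (c := ⟨⟨.ofNat 5634, .ofNat 1268, .negSucc 630, .negSucc 5779, .negSucc 217, .negSucc 2899⟩, ⟨.negSucc 3562, .negSucc 926, .ofNat 509, .ofNat 3603, .ofNat 169, .ofNat 1790⟩, ⟨.negSucc 1379, .negSucc 657, .ofNat 529, .ofNat 3706, .negSucc 458, .ofNat 1185⟩, ⟨.ofNat 4142, .ofNat 1083, .negSucc 693, .negSucc 6490, .ofNat 261, .negSucc 3834⟩, ⟨.negSucc 6617, .negSucc 1086, .ofNat 650, .ofNat 2984, .ofNat 932, .ofNat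 537⟩, .ofNat 3035, .ofNat 4460, .ofNat 0, .ofNat 4460, .ofNat 7449, .ofNat 0, .ofNat 128, .negSucc 1985, .negSucc 1528, .ofNat 0, .ofNat 1251, .ofNat 946, .ofNat 0, .ofNat 0, .ofNat 1291, .ofNat 5485, .ofNat 167563425293139936052434795112140804851553395305086976, .ofNat 0, .ofNat 513483054466523706209049163493434566861914112, .ofNat 0, .ofNat 972468049821853138411742478857163405691670255452028928, .ofNat 0, .ofNat 85300689875025129465447068969157334249106309120, .ofNat 0, .ofNat 0, .ofNat 0, .ofNat 0, .ofNat 0, .ofNat 0, .ofNat 0, .ofNat 296327249539608105673026603169587455931296251904, .ofNat 0⟩)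
    (by decide +kernel)

end Crest.Agent.R097C5.N5mm
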