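import Crest.Agent.R097.KP7
import Crest.Agent.R097.T5Ymm

/-!
# Row 97, box cover in dimension n = 5 (generated)
-/

set_option autoImplicit false
set_option Elab.async false
set_option maxHeartbeats 0
set_option maxRecDepth 100000

open Crest.Agent.R097 Crest.Agent.R097.KA


namespace Crest.Agent.R097C5.N5mm

theorem L04885 : Good (Phi V5.P V5.D (-1) (-1)) ⟨6, 55, 4, 9, 3, 6, 4, 0, 6, 5⟩ :=
  leafX_sound T5.ok_mm T5.Ymm.bz_eq (w := 256) (c := ⟨⟨.ofNat 95, .ofNat 168, .ofNat 447, .negSucc 2419, .ofNat 547, .negSucc 3431⟩, ⟨.negSucc 149, .negSucc 227, .ofNat 10, .ofNat 1521, .negSucc 338, .ofNat 2130⟩, ⟨.ofNat 800, .negSucc 99, .negSucc 98, .ofNat 2404, .negSucc 661, .ofNat 1706⟩, ⟨.negSucc 2637, .ofNat 297, .ofNat 409, .negSucc 2293, .ofNat 777, .negSucc 3806⟩, ⟨.negSucc 4644, .ofNat 198, .negSucc 455, .ofNat 1994, .negSucc 12, .ofNat 1947⟩, .ofNat 1768, .ofNat 2430, .ofNat 0, .ofNat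 2430, .ofNat 4178, .ofNat 0, .ofNat 128, .negSucc 1232, .negSucc 1519, .ofNat 0, .ofNat 788, .ofNat 945, .ofNat 0, .ofNat 0, .ofNat 1273, .ofNat 10595, .ofNat 316889343231535099809107031395109823024599334194774016, .ofNat 0, .ofNat 706072281229915545598242846035113709714538496, .ofNat 0, .ofNat 1150161569150610132274760105021160455348229810788761600, .ofNat 0, .ofNat 87815838147389310752193180803429355159019323392, .ofNat 0, .ofNat 3850713943141343067955909757377089276634652086328360960, .ofNat 0, .ofNat 117018655251089538701507903724941607037829120000, .ofNat 0, .ofNat 0, .ofNat 0, .ofNat 264763909506873486590159219795711830341317558272, .ofNat 0⟩)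
    (by decide +kernel)
theorem L04886 : Good (Phi V5.P V5.D (-1) (-1)) ⟨6, 55, 4, 9, 3, 7, 4, 0, 5, 2⟩ :=
  leafX_sound T5.ok_mm T5.Ymm.bz_eq (w := 250) (c := ⟨⟨.negSucc 1311, .ofNat 301, .negSucc 123, .negSucc 233, .ofNat 730, .negSucc 3827⟩, ⟨.ofNat 711, .negSucc 268, .ofNat 338, .ofNat 114, .negSucc 415, .ofNat 2351⟩, ⟨.ofNat 3033, .negSucc 152, .ofNat 342, .ofNat 291, .negSucc 923, .ofNat 1720⟩, ⟨.negSucc 3498, .ofNat 186, .negSucc 485, .negSucc 1399, .ofNat 1525, .negSucc 4892⟩, ⟨.negSucc 2571, .negSucc 459, .negSucc 439, .negSucc 1772, .ofNat 752, .ofNat 1017⟩, .ofNat 1777, .ofNat 2437, .ofNat 0, .ofNat 2437, .ofNat 4176, .ofNat 0, .ofNat 128, .negSucc 764, .negSucc 1142, .ofNat 0, .ofNat 503, .ofNat 676, .ofNat 0, .ofNat 0, .ofNat 1174, .ofNat 5320, .ofNat 0, .ofNat 0, .ofNat 0, .ofNat 0, .ofNat 0, .ofNat 0, .ofNat 0, .ofNat 0, .ofNat 0, .ofNat 0, .ofNat 1134320748438526971331679782254783191886856192,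 .ofNat 0, .ofNat 0, .ofNat 0, .ofNat 0, .ofNat 0⟩)
    (by decide +kernel)
theorem L04887 : Good (Phi V5.P V5.D (-1) (-1)) ⟨5, 28, 4, 8, 2, 3, 4, 0, 5, 2⟩ :=
  out_sound (S := T5.ds_mm) T5.ok_mm (w := 59) (j := 3) (by decide +kernel)
theorem L04888 : Good (Phi V5.P V5.D (-1) (-1)) ⟨6, 56, 4, 9, 3, 6, 4, 0, 6, 4⟩ :=
  leafX_sound T5.ok_mm T5.Ymm.bz_eq (w := 257) (c := ⟨⟨.ofNat 9148, .ofNat 3498, .negSucc 3338, .negSucc 6458, .negSucc 473, .negSucc 3344⟩, ⟨.negSucc 6026, .negSucc 2445, .ofNat 2322, .ofNat 4146, .ofNat 326, .ofNat 2127⟩, ⟨.negSucc 2641, .negSucc 1143, .ofNat 1188, .ofNat 3950, .negSucc 400, .ofNat 1305⟩, ⟨.ofNat 6731, .ofNat 3255, .negSucc 3155, .negSucc 6509, .ofNat 423, .negSucc 4157⟩, ⟨.negSucc 10249, .negSucc 2490, .ofNat 2738, .ofNat 4281, .ofNat 1796, .ofNat 1005⟩, .ofNat 1563, .ofNat 2021, .ofNat 0, .ofNat 2021, .ofNat 3362, .ofNat 0, .ofNat 128, .negSucc 2233,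 .negSucc 1943, .ofNat 0, .ofNat 1483, .ofNat 1255, .ofNat 0, .ofNat 0, .ofNat 1495, .ofNat 8351, .ofNat 0, .ofNat 0, .ofNat 4616544563389533356684191422926578802237636608, .ofNat 0, .ofNat 0, .ofNat 0, .ofNat 66988310088842839341599940121497501832734310400, .ofNat 0, .ofNat 0, .ofNat 0, .ofNat 341714635320460982297271390745093515098701430784, .ofNat 0, .ofNat 0, .ofNat 0, .ofNat 385481815491253206425392943387236189381440045056, .ofNat 0⟩)
    (by decide +kernel)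
theorem L04889 : Good (Phi V5.P V5.D (-1) (-1)) ⟨6, 56, 4, 9, 3, 6, 4, 0, 6, 5⟩ :=
  leafX_sound T5.ok_mm T5.Ymm.bz_eq (w := 255) (c := ⟨⟨.ofNat 735, .ofNat 626, .negSucc 666, .negSucc 2461, .ofNat 777, .negSucc 3352⟩, ⟨.negSucc 658, .negSucc 443, .ofNat 600, .ofNat 1589, .negSucc 500, .ofNat 2149⟩, ⟨.ofNat 321, .negSucc 441, .ofNat 570, .ofNat 2409, .negSucc 702, .ofNat 1615⟩, ⟨.negSucc 2079, .ofNat 760, .negSucc 801, .negSucc 2275, .ofNat 1161, .negSucc 3651⟩, ⟨.negSucc 5267, .negSucc 385, .ofNat 555, .ofNat 2002, .ofNat 126, .ofNat 1886⟩, .ofNat 1323, .ofNat 1678, .ofNat 0, .ofNat 1678, .ofNat 2862, .ofNat 0, .ofNat 128, .negSucc 1343, .negSucc 1582, .ofNat 0, .ofNat 891, .ofNat 1016, .ofNat 0, .ofNat 0, .ofNat 1280, .ofNat 7329, .ofNat 234943175346676878395816339568134363230013231235858432, .ofNat 0, .ofNat 881259622370378742274551501162382414078541824, .ofNat 0, .ofNat 0, .ofNat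 0, .ofNat 104557796320836201998450158229948344662463873024, .ofNat 0, .ofNat 5204982103447000180932127640933165124955395636162723840, .ofNat 0, .ofNat 202398705565057648116139987446079338033935548416, .ofNat 0, .ofNat 0, .ofNat 0, .ofNat 92768387059086482795008405035533960491470684160, .ofNat 0⟩)
    (by decide +kernel)
theorem L04890 : Good (Phi V5.P V5.D (-1) (-1)) ⟨6, 56, 4, 9, 3, 7, 4, 0, 5, 2⟩ :=
  leafX_sound T5.ok_mm T5.Ymm.bz_eq (w := 251) (c := ⟨⟨.negSucc 1224, .ofNat 91, .ofNat 599, .negSucc 681, .ofNat 808, .negSucc 4184⟩, ⟨.ofNat 563, .negSucc 125, .negSucc 163, .ofNat 394, .negSucc 485, .ofNat 2669⟩, ⟨.ofNat 3068, .ofNat 129, .negSucc 360, .ofNat 974, .negSucc 1035, .ofNat 1934⟩, ⟨.negSucc 3369, .negSucc 112, .ofNat 263, .negSucc 2590, .ofNat 1824, .negSucc 5197⟩, ⟨.negSucc 2652, .negSucc 479, .negSucc 775, .negSucc 2551, .ofNat 1053, .ofNat 1216⟩, .ofNat 2050, .ofNat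 2802, .ofNat 0, .ofNat 2802, .ofNat 4619, .ofNat 0, .ofNat 128, .negSucc 966, .negSucc 1134, .ofNat 0, .ofNat 647, .ofNat 697, .ofNat 0, .ofNat 0, .ofNat 1115, .ofNat 5613, .ofNat 0, .ofNat 0, .ofNat 30243776852482971348875874281304514889777152, .ofNat 0, .ofNat 0, .ofNat 0, .ofNat 2042893165196001813902478775258838876695822336, .ofNat 0, .ofNat 0, .ofNat 0, .ofNat 2474266826084446182177996431983075641100599296, .ofNat 0, .ofNat 0, .ofNat 0, .ofNat 0, .ofNat 0⟩)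
    (by decide +kernel)
theorem L04891 : Good (Phi V5.P V5.D (-1) (-1)) ⟨6, 57, 4, 9, 2, 3, 4, 0, 5, 2⟩ :=
  out_sound (S := T5.ds_mm) T5.ok_mm (w := 65) (j := 3) (by decide +kernel)
theorem L04892 : Good (Phi V5.P V5.D (-1) (-1)) ⟨5, 29, 3, 4, 2, 3, 4, 0, 5, 2⟩ :=
  out_sound (S := T5.ds_mm) T5.ok_mm (w := 57) (j := 3) (by decide +kernel)
theorem L04893 : Good (Phi V5.P V5.D (-1) (-1)) ⟨4, 15, 3, 4, 2, 3, 4, 0, 5, 2⟩ :=
  out_sound (S := T5.ds_mm) T5.ok_mm (w := 51) (j := 3) (by decide +kernel)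
theorem L04894 : Good (Phi V5.P V5.D (-1) (-1)) ⟨4, 12, 3, 4, 3, 6, 4, 0, 5, 3⟩ :=
  out_sound (S := T5.ds_mm) T5.ok_mm (w := 51) (j := 3) (by decide +kernel)
theorem L04895 : Good (Phi V5.P V5.D (-1) (-1)) ⟨6, 52, 3, 4, 3, 6, 4, 0, 5, 3⟩ :=
  out_sound (S := T5.ds_mm) T5.ok_mm (w := 63) (j := 3) (by decide +kernel)
theorem L04896 : Good (Phi V5.P V5.D (-1) (-1)) ⟨6, 53, 4, 8, 3, 6, 5, 0, 5, 3⟩ :=
  leafX_sound T5.ok_mm T5.Ymm.bz_eq (w := 254) (c := ⟨⟨.negSucc 4093, .negSucc 932, .negSucc 294, .ofNat 204, .ofNat 510, .negSucc 1090⟩, ⟨.ofNat 2184, .ofNat 574, .ofNat 358, .negSucc 104, .negSucc 296, .ofNat 639⟩, ⟨.ofNat 2702, .ofNat 656, .ofNat 20, .ofNat 1110, .negSucc 449, .ofNat 728⟩, ⟨.negSucc 6992, .negSucc 961, .negSucc 178, .ofNat 443, .ofNat 514, .negSucc 960⟩, ⟨.negSucc 1540, .ofNat 647, .ofNat 333, .ofNat 304, .negSucc 469, .ofNat 1317⟩, .ofNat 809, .ofNat 969, .ofNat 0,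 .ofNat 969, .ofNat 1976, .ofNat 0, .ofNat 128, .negSucc 883, .negSucc 850, .ofNat 0, .ofNat 562, .ofNat 497, .ofNat 0, .ofNat 0, .ofNat 994, .ofNat 23275, .ofNat 668643415323854914567341338453422472595514605625671680, .ofNat 0, .ofNat 0, .ofNat 0, .ofNat 968223082955606425465700557462965675593021386460758016, .ofNat 0, .ofNat 3106369150999140647821026773023594876457975808, .ofNat 0, .ofNat 0, .ofNat 0, .ofNat 0, .ofNat 0, .ofNat 0, .ofNat 0, .ofNat 27328169485347361615601511578700057430408036352, .ofNat 0⟩)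
    (by decide +kernel)
theorem L04897 : Good (Phi V5.P V5.D (-1) (-1)) ⟨6, 53, 4, 8, 3, 6, 5, 1, 5, 3⟩ :=
  leafX_sound T5.ok_mm T5.Ymm.bz_eq (w := 254) (c := ⟨⟨.negSucc 3879, .negSucc 690, .ofNat 281, .ofNat 173, .ofNat 311, .negSucc 1082⟩, ⟨.ofNat 2066, .ofNat 426, .ofNat 33, .negSucc 86, .negSucc 183, .ofNat 631⟩, ⟨.ofNat 2502, .ofNat 536, .negSucc 151, .ofNat 936, .negSucc 328, .ofNat 710⟩, ⟨.negSucc 6841, .negSucc 576, .ofNat 297, .ofNat 392, .ofNat 281, .negSucc 1036⟩, ⟨.negSucc 1724, .ofNat 502, .negSucc 90, .ofNat 294, .negSucc 332, .ofNat 1166⟩, .ofNat 717, .ofNat 798, .ofNat 0, .ofNat 798, .ofNat 1657, .ofNat 0, .ofNat 128, .negSucc 681, .negSucc 830, .ofNat 0, .ofNat 446, .ofNat 486, .ofNat 0, .ofNat 0, .ofNat 893, .ofNat 16471, .ofNat 0, .ofNat 0, .ofNat 0, .ofNat 0, .ofNat 0, .ofNat 0, .ofNat 9379375512076242749590275955504779724121440256, .ofNat 0, .ofNat 0, .ofNat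 0, .ofNat 0, .ofNat 0, .ofNat 0, .ofNat 0, .ofNat 8380114236925182422293617619724175644754444288, .ofNat 0⟩)
    (by decide +kernel)
theorem L04898 : Good (Phi V5.P V5.D (-1) (-1)) ⟨6, 53, 4, 9, 3, 6, 4, 0, 5, 3⟩ :=
  out_sound (S := T5.ds_mm) T5.ok_mm (w := 65) (j := 3) (by decide +kernel)
theorem L04899 : Good (Phi V5.P V5.D (-1) (-1)) ⟨6, 54, 3, 4, 3, 6, 5, 0, 5, 3⟩ :=
  leafX_sound T5.ok_mm T5.Ymm.bz_eq (w := 251) (c := ⟨⟨.negSucc 4984, .negSucc 650, .ofNat 1558, .ofNat 259, .ofNat 67, .negSucc 1040⟩, ⟨.ofNat 2729, .ofNat 435, .negSucc 573, .negSucc 138, .negSucc 44, .ofNat 632⟩, ⟨.ofNat 3258, .ofNat 460, .negSucc 1308, .ofNat 1167, .negSucc 152, .ofNat 720⟩, ⟨.negSucc 7913, .negSucc 608, .ofNat 1595, .ofNat 542, .ofNat 13, .negSucc 814⟩, ⟨.negSucc 1001, .ofNat 419, .negSucc 1239, .ofNat 346, .negSucc 133, .ofNat 1389⟩, .ofNat 832, .ofNat 978, .ofNat 0, .ofNat 978, .ofNat 1902,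 .ofNat 0, .ofNat 128, .negSucc 885, .negSucc 899, .ofNat 0, .ofNat 584, .ofNat 550, .ofNat 0, .ofNat 0, .ofNat 984, .ofNat 21851, .ofNat 73324421970774630932427412550250207869654814506876928, .ofNat 0, .ofNat 133656101637350660282544538298011331646717952, .ofNat 0, .ofNat 49409976240577586585882760558302351395069305485787136, .ofNat 0, .ofNat 998541756543159511254265530142235501701103616, .ofNat 0, .ofNat 0, .ofNat 0, .ofNat 0, .ofNat 0, .ofNat 0, .ofNat 0, .ofNat 0, .ofNat 0⟩)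
    (by decide +kernel)
theorem L04900 : Good (Phi V5.P V5.D (-1) (-1)) ⟨6, 54, 3, 4, 3, 6, 5, 1, 5, 3⟩ :=
  leafX_sound T5.ok_mm T5.Ymm.bz_eq (w := 251) (c := ⟨⟨.negSucc 4977, .negSucc 716, .ofNat 1603, .ofNat 649, .ofNat 185, .negSucc 914⟩, ⟨.ofNat 2725, .ofNat 469, .negSucc 598, .negSucc 371, .negSucc 114, .ofNat 556⟩, ⟨.ofNat 3216, .ofNat 489, .negSucc 1238, .ofNat 725, .negSucc 224, .ofNat 604⟩, ⟨.negSucc 7880, .negSucc 712, .ofNat 1661, .ofNat 904, .ofNat 132, .negSucc 791⟩, ⟨.negSucc 925, .ofNat 428, .negSucc 1326, .negSucc 39, .negSucc 258, .ofNat 1078⟩, .ofNat 832, .ofNat 978, .ofNat 0, .ofNat 978, .ofNat 1902, .ofNat 0, .ofNat 128, .negSucc 845, .negSucc 1051, .ofNat 0, .ofNat 552, .ofNat 637, .ofNat 0, .ofNat 0, .ofNat 1102, .ofNat 11760, .ofNat 0, .ofNat 0, .ofNat 0, .ofNat 0, .ofNat 0, .ofNat 0, .ofNat 1864463530700996709876815238211689936534372352, .ofNat 0, .ofNat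 0, .ofNat 0, .ofNat 0, .ofNat 0, .ofNat 0, .ofNat 0, .ofNat 0, .ofNat 0⟩)
    (by decide +kernel)
theorem L04901 : Good (Phi V5.P V5.D (-1) (-1)) ⟨6, 55, 3, 4, 3, 6, 5, 0, 5, 3⟩ :=
  leafX_sound T5.ok_mm T5.Ymm.bz_eq (w := 251) (c := ⟨⟨.negSucc 5800, .negSucc 894, .ofNat 1761, .ofNat 778, .negSucc 34, .negSucc 1079⟩, ⟨.ofNat 3274, .ofNat 600, .negSucc 729, .negSucc 474, .ofNat 15, .ofNat 685⟩, ⟨.ofNat 3739, .ofNat 667, .negSucc 1416, .ofNat 904, .negSucc 62, .ofNat 713⟩, ⟨.negSucc 8746, .negSucc 841, .ofNat 1823, .ofNat 1076, .negSucc 62, .negSucc 797⟩, ⟨.negSucc 499, .ofNat 805, .negSucc 1642, .ofNat 7, .negSucc 9, .ofNat 1452⟩, .ofNat 762, .ofNat 835, .ofNat 0, .ofNat 835, .ofNat 1590, .ofNat 0, .ofNat 128, .negSucc 710, .negSucc 905, .ofNat 0, .ofNat 492, .ofNat 582, .ofNat 0, .ofNat 0, .ofNat 866, .ofNat 22853, .ofNat 77103459664031552594953347521038625758477883904360448, .ofNat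 0, .ofNat 114365656485050225404618684336314857912532992, .ofNat 0, .ofNat 0, .ofNat 0, .ofNat 1537911101406846230914856838840746363215413248, .ofNat 0, .ofNat 205377587225228752148349185361533411651810682753515520, .ofNat 0, .ofNat 5518133681207866819833062344934878477069320192, .ofNat 0, .ofNat 79777477924786943029710056366299371416162655589629952, .ofNat 0, .ofNat 8214234360436920414917482445575725290574839808, .ofNat 0⟩)
    (by decide +kernel)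
theorem L04902 : Good (Phi V5.P V5.D (-1) (-1)) ⟨6, 55, 3, 4, 3, 6, 5, 1, 5, 3⟩ :=
  leafX_sound T5.ok_mm T5.Ymm.bz_eq (w := 251) (c := ⟨⟨.negSucc 5720, .negSucc 794, .ofNat 1782, .ofNat 808, .ofNat 183, .negSucc 1132⟩, ⟨.ofNat 3221, .ofNat 531, .negSucc 742, .negSucc 491, .negSucc 113, .ofNat 712⟩, ⟨.ofNat 3627, .ofNat 503, .negSucc 1253, .ofNat 663, .negSucc 182, .ofNat 756⟩, ⟨.negSucc 8593, .negSucc 775, .ofNat 1806, .ofNat 1065, .ofNat 96, .negSucc 959⟩, ⟨.negSucc 549, .ofNat 467, .negSucc 1311, .negSucc 108, .negSucc 291, .ofNat 1309⟩, .ofNat 785, .ofNat 873, .ofNat 0, .ofNat 873, .ofNat 1652, .ofNat 0, .ofNat 128, .negSucc 854, .negSucc 994, .ofNat 0, .ofNat 589, .ofNat 627, .ofNat 0, .ofNat 0, .ofNat 1001, .ofNat 8516, .ofNat 0, .ofNat 0, .ofNat 0, .ofNat 0, .ofNat 0, .ofNat 0, .ofNat 1208584318859052341675693275419279706734723072, .ofNat 0, .ofNat 0, .ofNat 0, .ofNat 4676057730186712749875676863089324946410700800,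 .ofNat 0, .ofNat 0, .ofNat 0, .ofNat 7910200264738646616442195791085132872434057216, .ofNat 0⟩)
    (by decide +kernel)
theorem L04903 : Good (Phi V5.P V5.D (-1) (-1)) ⟨6, 56, 4, 8, 3, 6, 4, 0, 5, 3⟩ :=
  out_sound (S := T5.ds_mm) T5.ok_mm (w := 65) (j := 3) (by decide +kernel)
theorem L04904 : Good (Phi V5.P V5.D (-1) (-1)) ⟨6, 56, 4, 9, 3, 6, 5, 0, 5, 3⟩ :=
  leafX_sound T5.ok_mm T5.Ymm.bz_eq (w := 254) (c := ⟨⟨.negSucc 6302, .negSucc 483, .ofNat 485, .ofNat 1316, .ofNat 333, .negSucc 924⟩, ⟨.ofNat 3822, .ofNat 345, .negSucc 112, .negSucc 839, .negSucc 218, .ofNat 601⟩, ⟨.ofNat 3994, .ofNat 481, .negSucc 519, .ofNat 671, .negSucc 342, .ofNat 574⟩, ⟨.negSucc 9128, .negSucc 405, .ofNat 487, .ofNat 1539, .ofNat 265, .negSucc 576⟩, ⟨.ofNat 19, .ofNat 764, .negSucc 798, .negSucc 483, .negSucc 392, .ofNat 1407⟩, .ofNat 774, .ofNat 830, .ofNat 0, .ofNat 830, .ofNat 1513, .ofNat 0, .ofNat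 128, .negSucc 762, .negSucc 1142, .ofNat 0, .ofNat 547, .ofNat 767, .ofNat 0, .ofNat 0, .ofNat 1005, .ofNat 23875, .ofNat 619782968033011309441570714801700315565343469866057728, .ofNat 0, .ofNat 582275869948918508941579065840585080366432256, .ofNat 0, .ofNat 0, .ofNat 0, .ofNat 9099658150959350841992761947969274722283159552, .ofNat 0, .ofNat 1320930307255406127172431438443185401700425348075749376, .ofNat 0, .ofNat 59067006789613079113308047852268712323211853824, .ofNat 0, .ofNat 0, .ofNat 0, .ofNat 29781730555567625653382274105089926692910137344, .ofNat 0⟩)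
    (by decide +kernel)
theorem L04905 : Good (Phi V5.P V5.D (-1) (-1)) ⟨6, 56, 4, 9, 3, 6, 5, 1, 5, 3⟩ :=
  leafX_sound T5.ok_mm T5.Ymm.bz_eq (w := 257) (c := ⟨⟨.negSucc 6521, .negSucc 2144, .ofNat 2219, .ofNat 1116, .ofNat 320, .negSucc 1370⟩, ⟨.ofNat 3968, .ofNat 1405, .negSucc 1230, .negSucc 712, .negSucc 207, .ofNat 882⟩, ⟨.ofNat 4107, .ofNat 1406, .negSucc 1549, .ofNat 549, .negSucc 253, .ofNat 824⟩, ⟨.negSucc 9386, .negSucc 1891, .ofNat 2002, .ofNat 1418, .ofNat 227, .negSucc 883⟩, ⟨.negSucc 223, .ofNat 1524, .negSucc 1658, .negSucc 251, .negSucc 376, .ofNat 1728⟩, .ofNat 2365, .ofNat 3247, .ofNat 0, .ofNat 3247, .ofNat 5255, .ofNat 0, .ofNat 128, .negSucc 1319, .negSucc 1785, .ofNat 0, .ofNat 890, .ofNat 1168, .ofNat 0, .ofNat 0, .ofNat 1593, .ofNat 21030, .ofNat 0, .ofNat 0, .ofNat 0, .ofNat 0, .ofNat 0, .ofNat 0, .ofNat 85628563558073818569088751348137314188374573056, .ofNat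 0, .ofNat 0, .ofNat 0, .ofNat 126283893293544611326342283876605667452611723264, .ofNat 0, .ofNat 0, .ofNat 0, .ofNat 293664921201828727434643027427636449801207283712, .ofNat 0⟩)
    (by decide +kernel)
theorem L04906 : Good (Phi V5.P V5.D (-1) (-1)) ⟨6, 57, 3, 4, 3, 6, 4, 0, 5, 3⟩ :=
  out_sound (S := T5.ds_mm) T5.ok_mm (w := 63) (j := 3) (by decide +kernel)
theorem L04907 : Good (Phi V5.P V5.D (-1) (-1)) ⟨5, 29, 3, 4, 3, 6, 4, 0, 5, 3⟩ :=
  out_sound (S := T5.ds_mm) T5.ok_mm (w := 57) (j := 3) (by decide +kernel)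
theorem L04908 : Good (Phi V5.P V5.D (-1) (-1)) ⟨4, 15, 3, 4, 3, 6, 4, 0, 5, 3⟩ :=
  out_sound (S := T5.ds_mm) T5.ok_mm (w := 51) (j := 3) (by decide +kernel)
theorem L04909 : Good (Phi V5.P V5.D (-1) (-1)) ⟨4, 12, 3, 4, 3, 7, 4, 0, 5, 3⟩ :=
  out_sound (S := T5.ds_mm) T5.ok_mm (w := 51) (j := 3) (by decide +kernel)
theorem L04910 : Good (Phi V5.P V5.D (-1) (-1)) ⟨5, 26, 3, 4, 3, 7, 4, 0, 5, 3⟩ :=
  leafX_sound T5.ok_mm T5.Ymm.bz_eq (w := 246) (c := ⟨⟨.negSucc 4819, .negSucc 509, .negSucc 191, .ofNat 1085, .ofNat 364, .ofNat 117⟩, ⟨.ofNat 2586, .ofNat 341, .ofNat 453, .negSucc 620, .negSucc 205, .negSucc 46⟩, ⟨.ofNat 5010, .negSucc 77, .ofNat 693, .negSucc 1211, .negSucc 563, .negSucc 164⟩, ⟨.negSucc 7876, .negSucc 441, .negSucc 277, .ofNat 1238, .ofNat 464, .ofNat 491⟩, ⟨.negSucc 856, .ofNat 153, .ofNat 75, .negSucc 681, .negSucc 141, .ofNat 572⟩, .ofNat 3136, .ofNat 4978, .ofNat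 0, .ofNat 4978, .ofNat 8996, .ofNat 0, .ofNat 128, .negSucc 1084, .negSucc 1367, .ofNat 0, .ofNat 671, .ofNat 749, .ofNat 0, .ofNat 0, .ofNat 1908, .ofNat 9284, .ofNat 0, .ofNat 0, .ofNat 32841220586767070864278388747630755331440640, .ofNat 0, .ofNat 49336631454358844234192435019325158842389965570048, .ofNat 0, .ofNat 860421112344631626213426348090873029597331456, .ofNat 0, .ofNat 0, .ofNat 0, .ofNat 0, .ofNat 0, .ofNat 0, .ofNat 0, .ofNat 24510050491820397019256707105990496935575814144, .ofNat 0⟩)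
    (by decide +kernel)
theorem L04911 : Good (Phi V5.P V5.D (-1) (-1)) ⟨5, 27, 3, 4, 3, 7, 4, 0, 5, 3⟩ :=
  leafX_sound T5.ok_mm T5.Ymm.bz_eq (w := 243) (c := ⟨⟨.negSucc 5477, .negSucc 535, .ofNat 551, .ofNat 970, .ofNat 473, .ofNat 237⟩, ⟨.ofNat 3052, .ofNat 359, .ofNat 35, .negSucc 620, .negSucc 279, .negSucc 127⟩, ⟨.ofNat 4937, .ofNat 81, .ofNat 339, .negSucc 536, .negSucc 742, .negSucc 314⟩, ⟨.negSucc 8115, .negSucc 498, .ofNat 177, .ofNat 201, .ofNat 608, .ofNat 573⟩, ⟨.negSucc 93, .ofNat 70, .negSucc 877, .negSucc 1995, .negSucc 134, .ofNat 383⟩, .ofNat 2498, .ofNat 3660, .ofNat 0, .ofNat 3660, .ofNat 6289, .ofNat 0, .ofNat 128, .negSucc 586, .negSucc 795, .ofNat 0, .ofNat 384, .ofNat 464, .ofNat 0, .ofNat 0, .ofNat 1037, .ofNat 2454, .ofNat 8536982680812243619735506528223379043649786478592, .ofNat 0, .ofNat 20466234521510126754755582904530274409775104, .ofNat 0, .ofNat 0,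 .ofNat 0, .ofNat 1956208827880649954617457148367628631764107264, .ofNat 0, .ofNat 0, .ofNat 0, .ofNat 1845496788399982152638395912845608986796359680, .ofNat 0, .ofNat 0, .ofNat 0, .ofNat 0, .ofNat 0⟩)
    (by decide +kernel)
theorem L04912 : Good (Phi V5.P V5.D (-1) (-1)) ⟨4, 14, 3, 4, 3, 7, 4, 0, 5, 3⟩ :=
  leafX_sound T5.ok_mm T5.Ymm.bz_eq (w := 239) (c := ⟨⟨.negSucc 5497, .negSucc 167, .ofNat 163, .ofNat 716, .ofNat 478, .ofNat 164⟩, ⟨.ofNat 3103, .ofNat 177, .ofNat 288, .negSucc 494, .negSucc 296, .negSucc 86⟩, ⟨.ofNat 4779, .ofNat 291, .ofNat 288, .ofNat 127, .negSucc 873, .negSucc 259⟩, ⟨.negSucc 7545, .negSucc 407, .negSucc 762, .negSucc 1072, .ofNat 880, .ofNat 726⟩, ⟨.ofNat 430, .negSucc 678, .negSucc 1508, .negSucc 3291, .ofNat 305, .ofNat 791⟩, .ofNat 2054, .ofNat 2808, .ofNat 0, .ofNat 2808, .ofNat 4625, .ofNat 0, .ofNat 128, .negSucc 687, .negSucc 631, .ofNat 0, .ofNat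 474, .ofNat 386, .ofNat 0, .ofNat 0, .ofNat 822, .ofNat 5856, .ofNat 1561624103746986114689516884774216755204293918720, .ofNat 0, .ofNat 77254330382877677232852664754802673141678080, .ofNat 0, .ofNat 0, .ofNat 0, .ofNat 7535652451760169109510080519922595913179070464, .ofNat 0, .ofNat 0, .ofNat 0, .ofNat 5442717042392267214859255099854765182410555392, .ofNat 0, .ofNat 0, .ofNat 0, .ofNat 4262248121191008759171335915737271251339575296, .ofNat 0⟩)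
    (by decide +kernel)
theorem L04913 : Good (Phi V5.P V5.D (-1) (-1)) ⟨4, 15, 3, 4, 3, 7, 4, 0, 5, 3⟩ :=
  out_sound (S := T5.ds_mm) T5.ok_mm (w := 51) (j := 3) (by decide +kernel)
theorem L04914 : Good (Phi V5.P V5.D (-1) (-1)) ⟨4, 12, 3, 4, 2, 3, 4, 1, 4, 0⟩ :=
  out_sound (S := T5.ds_mm) T5.ok_mm (w := 51) (j := 3) (by decide +kernel)
theorem L04915 : Good (Phi V5.P V5.D (-1) (-1)) ⟨5, 26, 3, 4, 2, 3, 4, 1, 4, 0⟩ :=
  leafX_sound T5.ok_mm T5.Ymm.bz_eq (w := 226) (c := ⟨⟨.ofNat 5793, .negSucc 318, .negSucc 1319, .negSucc 3561, .ofNat 167, .negSucc 2685⟩, ⟨.negSucc 3092, .negSucc 12, .ofNat 882, .ofNat 2014, .negSucc 54, .ofNat 1429⟩, ⟨.negSucc 1390, .negSucc 150, .ofNat 1507, .ofNat 2835, .negSucc 330, .ofNat 875⟩, ⟨.ofNat 7387, .negSucc 364, .negSucc 1225, .negSucc 4185, .ofNat 900, .negSucc 5336⟩, ⟨.negSucc 2643, .ofNat 556, .ofNat 1469, .ofNat 2057, .ofNat 1190, .negSucc 2355⟩,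 .ofNat 2292, .ofNat 3511, .ofNat 0, .ofNat 3511, .ofNat 6435, .ofNat 0, .ofNat 128, .negSucc 1402, .negSucc 1248, .ofNat 0, .ofNat 816, .ofNat 680, .ofNat 0, .ofNat 0, .ofNat 1457, .ofNat 3417, .ofNat 0, .ofNat 0, .ofNat 25683679435412364911293744271065088000, .ofNat 0, .ofNat 0, .ofNat 0, .ofNat 2372695057609162107768940287516724953088, .ofNat 0, .ofNat 0, .ofNat 0, .ofNat 3243355391615932493583388862124897861632, .ofNat 0, .ofNat 0, .ofNat 0, .ofNat 1586544547564058425707803816039131643904, .ofNat 0⟩)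
    (by decide +kernel)
theorem L04916 : Good (Phi V5.P V5.D (-1) (-1)) ⟨5, 27, 3, 4, 3, 6, 4, 1, 4, 0⟩ :=
  leafX_sound T5.ok_mm T5.Ymm.bz_eq (w := 237) (c := ⟨⟨.ofNat 5469, .ofNat 884, .negSucc 788, .negSucc 3502, .negSucc 146, .negSucc 592⟩, ⟨.negSucc 3162, .negSucc 715, .ofNat 419, .ofNat 2128, .ofNat 111, .ofNat 248⟩, ⟨.negSucc 1236, .negSucc 556, .ofNat 956, .ofNat 2440, .negSucc 390, .negSucc 584⟩, ⟨.ofNat 6836, .ofNat 1300, .negSucc 1099, .negSucc 3614, .ofNat 456, .negSucc 3206⟩, ⟨.negSucc 2414, .ofNat 382, .ofNat 519, .ofNat 2667, .ofNat 1078, .negSucc 3823⟩, .ofNat 746, .ofNat 823, .ofNat 0, .ofNat 823, .ofNat 1616, .ofNat 0, .ofNat 128, .negSucc 920, .negSucc 745, .ofNat 0, .ofNat 572, .ofNat 422, .ofNat 0, .ofNat 0, .ofNat 840, .ofNat 2486, .ofNat 0, .ofNat 0, .ofNat 0, .ofNat 0, .ofNat 0, .ofNat 0, .ofNat 5428819187281396420786127814208878133903360, .ofNat 0, .ofNat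 0, .ofNat 0, .ofNat 90881213267794249453490730421931490479702016, .ofNat 0, .ofNat 0, .ofNat 0, .ofNat 18129893632319222964153011363303366015844352, .ofNat 0⟩)
    (by decide +kernel)
theorem L04917 : Good (Phi V5.P V5.D (-1) (-1)) ⟨5, 27, 3, 4, 3, 7, 4, 1, 4, 0⟩ :=
  leafX_sound T5.ok_mm T5.Ymm.bz_eq (w := 237) (c := ⟨⟨.ofNat 2636, .ofNat 212, .ofNat 830, .ofNat 130, .ofNat 52, .negSucc 2892⟩, ⟨.negSucc 1477, .negSucc 366, .negSucc 331, .negSucc 142, .negSucc 15, .ofNat 1664⟩, ⟨.ofNat 665, .ofNat 455, .negSucc 418, .ofNat 600, .negSucc 409, .ofNat 764⟩, ⟨.ofNat 3757, .ofNat 425, .ofNat 700, .ofNat 191, .ofNat 1212, .negSucc 5966⟩, ⟨.negSucc 329, .ofNat 623, .negSucc 1075, .ofNat 93, .ofNat 1902, .negSucc 2925⟩, .ofNat 1580, .ofNat 2166, .ofNat 0, .ofNat 2166, .ofNat 3837, .ofNat 0, .ofNat 128, .negSucc 862, .negSucc 884, .ofNat 0, .ofNat 530, .ofNat 488, .ofNat 0, .ofNat 0, .ofNat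 913, .ofNat 1728, .ofNat 0, .ofNat 0, .ofNat 0, .ofNat 0, .ofNat 0, .ofNat 0, .ofNat 26976492977460806710119029212468560042917888, .ofNat 0, .ofNat 0, .ofNat 0, .ofNat 34247613526603746579940058845908921541984256, .ofNat 0, .ofNat 0, .ofNat 0, .ofNat 126751251932793496683850062894870841366937600, .ofNat 0⟩)
    (by decide +kernel)
theorem L04918 : Good (Phi V5.P V5.D (-1) (-1)) ⟨5, 28, 4, 8, 2, 3, 4, 1, 4, 0⟩ :=
  out_sound (S := T5.ds_mm) T5.ok_mm (w := 59) (j := 3) (by decide +kernel)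
theorem L04919 : Good (Phi V5.P V5.D (-1) (-1)) ⟨5, 28, 4, 9, 3, 6, 4, 1, 4, 0⟩ :=
  leafX_sound T5.ok_mm T5.Ymm.bz_eq (w := 241) (c := ⟨⟨.ofNat 6369, .ofNat 2175, .negSucc 1123, .negSucc 2934, .negSucc 722, .negSucc 39⟩, ⟨.negSucc 4060, .negSucc 1603, .ofNat 736, .ofNat 1893, .ofNat 472, .negSucc 14⟩, ⟨.negSucc 1549, .negSucc 1076, .ofNat 827, .ofNat 2222, .negSucc 155, .negSucc 851⟩, ⟨.ofNat 7672, .ofNat 2490, .negSucc 1023, .negSucc 2720, .negSucc 171, .negSucc 2711⟩, ⟨.negSucc 2420, .negSucc 414, .ofNat 849, .ofNat 2490, .ofNat 1364, .negSucc 4043⟩, .ofNat 847, .ofNat 953, .ofNat 0, .ofNat 953, .ofNat 1720, .ofNat 0, .ofNat 128, .negSucc 1221, .negSucc 904, .ofNat 0, .ofNat 787, .ofNat 548, .ofNat 0, .ofNat 0, .ofNat 1000, .ofNat 2818, .ofNat 0, .ofNat 0, .ofNat 2168435953142778770455371999111668731740160, .ofNat 0, .ofNat 0, .ofNat 0, .ofNat 28860792344654757835026514901323160643174400,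 .ofNat 0, .ofNat 0, .ofNat 0, .ofNat 130648609943854569446277716374861688839602176, .ofNat 0, .ofNat 0, .ofNat 0, .ofNat 64781835596330445044642217043025923040870400, .ofNat 0⟩)
    (by decide +kernel)
theorem L04920 : Good (Phi V5.P V5.D (-1) (-1)) ⟨5, 28, 4, 9, 3, 7, 4, 1, 4, 0⟩ :=
  leafX_sound T5.ok_mm T5.Ymm.bz_eq (w := 243) (c := ⟨⟨.ofNat 2334, .negSucc 915, .ofNat 1230, .ofNat 1034, .ofNat 153, .negSucc 2438⟩, ⟨.negSucc 1393, .ofNat 537, .negSucc 847, .negSucc 685, .negSucc 73, .ofNat 1484⟩, ⟨.ofNat 977, .ofNat 166, .negSucc 90, .ofNat 368, .negSucc 528, .ofNat 502⟩, ⟨.ofNat 3629, .negSucc 658, .ofNat 1568, .ofNat 431, .ofNat 1480, .negSucc 5300⟩, ⟨.ofNat 292, .ofNat 862, .negSucc 27, .negSucc 1670, .ofNat 1990, .negSucc 2881⟩, .ofNat 2256, .ofNat 3014, .ofNat 0, .ofNat 3014, .ofNat 4788, .ofNat 0, .ofNat 128, .negSucc 1366, .negSucc 1315, .ofNat 0, .ofNat 904, .ofNat 789,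 .ofNat 0, .ofNat 0, .ofNat 1292, .ofNat 3419, .ofNat 0, .ofNat 0, .ofNat 2646963165222378325359980405602583371055104, .ofNat 0, .ofNat 0, .ofNat 0, .ofNat 210286368181985428869268058368043158004039680, .ofNat 0, .ofNat 0, .ofNat 0, .ofNat 701714423123778492308430602634242374777176064, .ofNat 0, .ofNat 0, .ofNat 0, .ofNat 0, .ofNat 0⟩)
    (by decide +kernel)
theorem L04921 : Good (Phi V5.P V5.D (-1) (-1)) ⟨5, 29, 3, 4, 2, 3, 4, 1, 4, 0⟩ :=
  out_sound (S := T5.ds_mm) T5.ok_mm (w := 57) (j := 3) (by decide +kernel)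
theorem L04922 : Good (Phi V5.P V5.D (-1) (-1)) ⟨4, 15, 3, 4, 2, 3, 4, 1, 4, 0⟩ :=
  out_sound (S := T5.ds_mm) T5.ok_mm (w := 51) (j := 3) (by decide +kernel)
theorem L04923 : Good (Phi V5.P V5.D (-1) (-1)) ⟨4, 12, 3, 4, 2, 3, 4, 1, 5, 2⟩ :=
  out_sound (S := T5.ds_mm) T5.ok_mm (w := 51) (j := 3) (by decide +kernel)
theorem L04924 : Good (Phi V5.P V5.D (-1) (-1)) ⟨4, 13, 3, 4, 3, 6, 4, 1, 5, 2⟩ :=
  leafX_sound T5.ok_mm T5.Ymm.bz_eq (w := 239) (c := ⟨⟨.ofNat 3508, .negSucc 570, .ofNat 1359, .negSucc 2823, .ofNat 359, .negSucc 5478⟩, ⟨.negSucc 2123, .negSucc 30, .negSucc 469, .ofNat 1773, .negSucc 219, .ofNat 3341⟩, ⟨.negSucc 1201, .ofNat 270, .negSucc 540, .ofNat 2335, .negSucc 470, .ofNat 2732⟩, ⟨.ofNat 2159, .negSucc 255, .ofNat 1161, .negSucc 2880, .ofNat 682, .negSucc 7297⟩, ⟨.negSucc 5319, .ofNat 1549, .negSucc 1323, .ofNat 1999, .ofNat 325, .ofNat 1023⟩, .ofNat 1097, .ofNat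 1390, .ofNat 0, .ofNat 1390, .ofNat 2577, .ofNat 0, .ofNat 128, .negSucc 958, .negSucc 890, .ofNat 0, .ofNat 599, .ofNat 526, .ofNat 0, .ofNat 0, .ofNat 764, .ofNat 1691, .ofNat 0, .ofNat 0, .ofNat 15556905734424423247359159095028385469956096, .ofNat 0, .ofNat 0, .ofNat 0, .ofNat 1459548640923883177837514768676442283612045312, .ofNat 0, .ofNat 0, .ofNat 0, .ofNat 0, .ofNat 0, .ofNat 0, .ofNat 0, .ofNat 6809832609696933327402272080069321668677337088, .ofNat 0⟩)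
    (by decide +kernel)
theorem L04925 : Good (Phi V5.P V5.D (-1) (-1)) ⟨4, 13, 3, 4, 3, 7, 4, 1, 5, 2⟩ :=
  leafX_sound T5.ok_mm T5.Ymm.bz_eq (w := 238) (c := ⟨⟨.negSucc 579, .negSucc 564, .ofNat 673, .negSucc 640, .ofNat 460, .negSucc 3192⟩, ⟨.ofNat 224, .ofNat 238, .negSucc 75, .ofNat 358, .negSucc 261, .ofNat 1900⟩, ⟨.ofNat 1888, .ofNat 240, .ofNat 72, .ofNat 440, .negSucc 518, .ofNat 1486⟩, ⟨.negSucc 2104, .negSucc 511, .ofNat 529, .negSucc 1331, .ofNat 954, .negSucc 4558⟩, ⟨.negSucc 1860, .ofNat 72, .negSucc 478, .negSucc 662, .ofNat 490, .ofNat 100⟩, .ofNat 2040, .ofNat 2922, .ofNat 0, .ofNat 2922, .ofNat 5095, .ofNat 0, .ofNat 128, .negSucc 632, .negSucc 664, .ofNat 0, .ofNat 398, .ofNat 383, .ofNat 0, .ofNat 0, .ofNat 637, .ofNat 1289, .ofNat 0, .ofNat 0, .ofNat 0, .ofNat 0, .ofNat 0, .ofNat 0, .ofNat 2780423418842861277797114907742351004878766080, .ofNat 0, .ofNat 0, .ofNat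 0, .ofNat 0, .ofNat 0, .ofNat 0, .ofNat 0, .ofNat 8069573263862795994499776056888349501245358080, .ofNat 0⟩)
    (by decide +kernel)
theorem L04926 : Good (Phi V5.P V5.D (-1) (-1)) ⟨5, 28, 3, 4, 2, 3, 4, 1, 5, 2⟩ :=
  leafX_sound T5.ok_mm T5.Ymm.bz_eq (w := 230) (c := ⟨⟨.ofNat 1311, .negSucc 741, .ofNat 2226, .negSucc 4147, .ofNat 516, .negSucc 4481⟩, ⟨.negSucc 1192, .ofNat 260, .negSucc 1029, .ofNat 2617, .negSucc 309, .ofNat 2829⟩, ⟨.negSucc 107, .ofNat 409, .negSucc 733, .ofNat 3588, .negSucc 672, .ofNat 2039⟩, ⟨.ofNat 270, .negSucc 391, .ofNat 2265, .negSucc 5424, .ofNat 1050, .negSucc 6380⟩, ⟨.negSucc 2734, .ofNat 1294, .negSucc 1233, .ofNat 809, .ofNat 466, .ofNat 6⟩, .ofNat 2056, .ofNat 2811, .ofNat 0, .ofNat 2811, .ofNat 4633, .ofNat 0, .ofNat 128, .negSucc 827, .negSucc 1125, .ofNat 0, .ofNat 541, .ofNat 701, .ofNat 0, .ofNat 0, .ofNat 961, .ofNat 2039, .ofNat 0, .ofNat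 0, .ofNat 235329466251039612677065405551358246912, .ofNat 0, .ofNat 0, .ofNat 0, .ofNat 108779750317431931792978529288101772132352, .ofNat 0, .ofNat 0, .ofNat 0, .ofNat 213438684045734946256905219327844646125568, .ofNat 0, .ofNat 0, .ofNat 0, .ofNat 260563377627279447301824352008805422202880, .ofNat 0⟩)
    (by decide +kernel)
theorem L04927 : Good (Phi V5.P V5.D (-1) (-1)) ⟨5, 29, 3, 4, 2, 3, 4, 1, 5, 2⟩ :=
  out_sound (S := T5.ds_mm) T5.ok_mm (w := 57) (j := 3) (by decide +kernel)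
theorem L04928 : Good (Phi V5.P V5.D (-1) (-1)) ⟨4, 15, 3, 4, 2, 3, 4, 1, 5, 2⟩ :=
  out_sound (S := T5.ds_mm) T5.ok_mm (w := 51) (j := 3) (by decide +kernel)
theorem L04929 : Good (Phi V5.P V5.D (-1) (-1)) ⟨4, 12, 3, 4, 2, 3, 4, 1, 5, 3⟩ :=
  out_sound (S := T5.ds_mm) T5.ok_mm (w := 51) (j := 3) (by decide +kernel)
theorem L04930 : Good (Phi V5.P V5.D (-1) (-1)) ⟨5, 26, 3, 4, 2, 3, 4, 1, 5, 3⟩ :=
  leafX_sound T5.ok_mm T5.Ymm.bz_eq (w := 229) (c := ⟨⟨.negSucc 3717, .negSucc 1032, .negSucc 215, .ofNat 1080, .ofNat 400, .negSucc 514⟩, ⟨.ofNat 1994, .ofNat 612, .ofNat 392, .negSucc 624, .negSucc 231, .ofNat 298⟩, ⟨.ofNat 2683, .ofNat 713, .ofNat 112, .negSucc 32, .negSucc 437, .ofNat 250⟩, ⟨.negSucc 6487, .negSucc 1164, .negSucc 428, .ofNat 1373, .ofNat 457, .negSucc 480⟩, ⟨.negSucc 1330, .ofNat 262, .negSucc 55, .negSucc 423, .negSucc 266, .ofNat 553⟩, .ofNat 1453, .ofNat 2052, .ofNat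 0, .ofNat 2052, .ofNat 3873, .ofNat 0, .ofNat 128, .negSucc 656, .negSucc 1005, .ofNat 0, .ofNat 404, .ofNat 564, .ofNat 0, .ofNat 0, .ofNat 1121, .ofNat 5149, .ofNat 0, .ofNat 0, .ofNat 0, .ofNat 0, .ofNat 0, .ofNat 0, .ofNat 26720729000064534116794905413466227474432, .ofNat 0, .ofNat 0, .ofNat 0, .ofNat 99061072617398036089526470241624432574464, .ofNat 0, .ofNat 0, .ofNat 0, .ofNat 47546672351403476006072832692107589189632, .ofNat 0⟩)
    (by decide +kernel)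
theorem L04931 : Good (Phi V5.P V5.D (-1) (-1)) ⟨5, 27, 3, 4, 3, 6, 4, 1, 5, 3⟩ :=
  leafX_sound T5.ok_mm T5.Ymm.bz_eq (w := 242) (c := ⟨⟨.negSucc 4667, .negSucc 990, .ofNat 1060, .ofNat 894, .ofNat 549, .negSucc 1306⟩, ⟨.ofNat 2552, .ofNat 661, .negSucc 296, .negSucc 539, .negSucc 334, .ofNat 806⟩, ⟨.ofNat 3127, .ofNat 670, .negSucc 863, .ofNat 259, .negSucc 547, .ofNat 798⟩, ⟨.negSucc 7557, .negSucc 983, .ofNat 1194, .ofNat 1229, .ofNat 476, .negSucc 1367⟩, ⟨.negSucc 1214, .ofNat 411, .negSucc 418, .negSucc 9, .negSucc 606, .ofNat 975⟩, .ofNat 1100, .ofNat 1387, .ofNat 0, .ofNat 1387, .ofNat 2554, .ofNat 0, .ofNat 128, .negSucc 585, .negSucc 912, .ofNat 0, .ofNat 380, .ofNat 553, .ofNat 0, .ofNat 0, .ofNat 899, .ofNat 3317, .ofNat 0, .ofNat 0, .ofNat 0, .ofNat 0, .ofNat 0, .ofNat 0, .ofNat 452102495182934704196644507469819466049650688, .ofNat 0, .ofNat 0, .ofNat 0, .ofNat 522029130284580903953264493315036561415340032,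 .ofNat 0, .ofNat 0, .ofNat 0, .ofNat 1127440664145421559866275882283674260509556736, .ofNat 0⟩)
    (by decide +kernel)
theorem L04932 : Good (Phi V5.P V5.D (-1) (-1)) ⟨5, 27, 3, 4, 3, 7, 4, 1, 5, 3⟩ :=
  leafX_sound T5.ok_mm T5.Ymm.bz_eq (w := 243) (c := ⟨⟨.negSucc 4465, .negSucc 812, .ofNat 729, .ofNat 589, .ofNat 421, .negSucc 72⟩, ⟨.ofNat 2445, .ofNat 489, .negSucc 48, .negSucc 368, .negSucc 251, .ofNat 60⟩, ⟨.ofNat 3839, .ofNat 516, .negSucc 228, .negSucc 344, .negSucc 529, .negSucc 65⟩, ⟨.negSucc 7102, .negSucc 977, .ofNat 476, .ofNat 353, .ofNat 454, .ofNat 232⟩, ⟨.negSucc 900, .ofNat 7, .negSucc 829, .negSucc 836, .negSucc 272, .ofNat 600⟩, .ofNat 2027, .ofNat 2905, .ofNat 0, .ofNat 2905, .ofNat 5079, .ofNat 0, .ofNat 128, .negSucc 672, .negSucc 764, .ofNat 0, .ofNat 435, .ofNat 440, .ofNat 0, .ofNat 0, .ofNat 905, .ofNat 4622, .ofNat 0, .ofNat 0, .ofNat 0, .ofNat 0, .ofNat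 0, .ofNat 0, .ofNat 1595645552251774342524479247932174337327497216, .ofNat 0, .ofNat 0, .ofNat 0, .ofNat 861035787375231792109270239395888253487808512, .ofNat 0, .ofNat 0, .ofNat 0, .ofNat 2784057701902013233793361883989973153666301952, .ofNat 0⟩)
    (by decide +kernel)
theorem L04933 : Good (Phi V5.P V5.D (-1) (-1)) ⟨5, 28, 4, 8, 2, 3, 4, 1, 5, 3⟩ :=
  out_sound (S := T5.ds_mm) T5.ok_mm (w := 59) (j := 3) (by decide +kernel)
theorem L04934 : Good (Phi V5.P V5.D (-1) (-1)) ⟨6, 56, 5, 18, 2, 3, 4, 1, 5, 3⟩ :=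
  out_sound (S := T5.ds_mm) T5.ok_mm (w := 67) (j := 3) (by decide +kernel)
theorem L04935 : Good (Phi V5.P V5.D (-1) (-1)) ⟨6, 56, 5, 19, 2, 3, 4, 1, 5, 3⟩ :=
  leafX_sound T5.ok_mm T5.Ymm.bz_eq (w := 240) (c := ⟨⟨.negSucc 5278, .negSucc 1273, .ofNat 804, .ofNat 1435, .ofNat 482, .negSucc 760⟩, ⟨.ofNat 3269, .ofNat 800, .negSucc 398, .negSucc 929, .negSucc 312, .ofNat 485⟩, ⟨.ofNat 3404, .ofNat 803, .negSucc 537, .ofNat 614, .negSucc 466, .ofNat 435⟩, ⟨.negSucc 8008, .negSucc 1852, .ofNat 908, .ofNat 821, .ofNat 598, .negSucc 549⟩, ⟨.negSucc 793, .negSucc 280, .negSucc 296, .negSucc 1899, .negSucc 153, .ofNat 912⟩, .ofNat 2061, .ofNat 2818, .ofNat 0, .ofNat 2818, .ofNat 4642, .ofNat 0, .ofNat 128, .negSucc 819, .negSucc 1019, .ofNat 0, .ofNat 546, .ofNat 645, .ofNat 0, .ofNat 0, .ofNat 1032, .ofNat 4449, .ofNat 0, .ofNat 0, .ofNat 3466581882663222142444759995043851272192, .ofNat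 0, .ofNat 0, .ofNat 0, .ofNat 264652457079247301086958479066205203202048, .ofNat 0, .ofNat 0, .ofNat 0, .ofNat 331724409925200931669051354162822234767360, .ofNat 0, .ofNat 0, .ofNat 0, .ofNat 246446213077681264367915548834956226592768, .ofNat 0⟩)
    (by decide +kernel)
theorem L04936 : Good (Phi V5.P V5.D (-1) (-1)) ⟨6, 57, 4, 9, 2, 3, 4, 1, 5, 3⟩ :=
  out_sound (S := T5.ds_mm) T5.ok_mm (w := 65) (j := 3) (by decide +kernel)
theorem L04937 : Good (Phi V5.P V5.D (-1) (-1)) ⟨5, 29, 3, 4, 2, 3, 4, 1, 5, 3⟩ :=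
  out_sound (S := T5.ds_mm) T5.ok_mm (w := 57) (j := 3) (by decide +kernel)
theorem L04938 : Good (Phi V5.P V5.D (-1) (-1)) ⟨4, 15, 3, 4, 2, 3, 4, 1, 5, 3⟩ :=
  out_sound (S := T5.ds_mm) T5.ok_mm (w := 51) (j := 3) (by decide +kernel)
theorem L04939 : Good (Phi V5.P V5.D (-1) (-1)) ⟨4, 12, 3, 4, 2, 3, 4, 2, 4, 0⟩ :=
  out_sound (S := T5.ds_mm) T5.ok_mm (w := 51) (j := 3) (by decide +kernel)
theorem L04940 : Good (Phi V5.P V5.D (-1) (-1)) ⟨4, 13, 4, 8, 2, 3, 4, 2, 4, 0⟩ :=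
  leafX_sound T5.ok_mm T5.Ymm.bz_eq (w := 223) (c := ⟨⟨.ofNat 4774, .ofNat 89, .ofNat 272, .negSucc 2867, .negSucc 267, .negSucc 1398⟩, ⟨.negSucc 2648, .negSucc 196, .negSucc 217, .ofNat 1706, .ofNat 173, .ofNat 743⟩, ⟨.negSucc 1669, .ofNat 248, .negSucc 28, .ofNat 2810, .negSucc 145, .ofNat 89⟩, ⟨.ofNat 6570, .ofNat 339, .ofNat 160, .negSucc 2792, .ofNat 212, .negSucc 3902⟩, ⟨.negSucc 1166, .ofNat 823, .negSucc 381, .ofNat 2483, .ofNat 1051, .negSucc 3103⟩, .ofNat 1474, .ofNat 2016, .ofNat 0, .ofNat 2016, .ofNat 3649, .ofNat 0, .ofNat 128, .negSucc 729, .negSucc 678, .ofNat 0, .ofNat 440, .ofNat 379, .ofNat 0, .ofNat 0, .ofNat 710, .ofNat 1201, .ofNat 0, .ofNat 0, .ofNat 0, .ofNat 0, .ofNat 0, .ofNat 0, .ofNat 5686945001592588135573554016075210817536, .ofNat 0, .ofNat 0, .ofNat 0, .ofNat 9561004993644956996321139347627695931392, .ofNat 0, .ofNat 0, .ofNat 0, .ofNat 6439974390914805358567771653039424798720,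 .ofNat 0⟩)
    (by decide +kernel)
theorem L04941 : Good (Phi V5.P V5.D (-1) (-1)) ⟨4, 13, 4, 9, 2, 3, 4, 2, 4, 0⟩ :=
  leafX_sound T5.ok_mm T5.Ymm.bz_eq (w := 225) (c := ⟨⟨.ofNat 2978, .ofNat 1838, .negSucc 238, .negSucc 1567, .negSucc 349, .negSucc 1209⟩, ⟨.negSucc 1684, .negSucc 1257, .ofNat 74, .ofNat 978, .ofNat 233, .ofNat 699⟩, ⟨.negSucc 919, .negSucc 440, .ofNat 239, .ofNat 2415, .negSucc 121, .negSucc 29⟩, ⟨.ofNat 4677, .ofNat 1558, .ofNat 16, .negSucc 1013, .ofNat 346, .negSucc 3308⟩, ⟨.negSucc 208, .negSucc 879, .ofNat 449, .ofNat 2045, .ofNat 1429, .negSucc 2491⟩, .ofNat 2480, .ofNat 3561, .ofNat 0, .ofNat 3561, .ofNat 5984, .ofNat 0, .ofNat 128, .negSucc 1252, .negSucc 1132, .ofNat 0, .ofNat 779, .ofNat 676, .ofNat 0, .ofNat 0, .ofNat 1188, .ofNat 1686, .ofNat 0, .ofNat 0, .ofNat 128675580086239791041157852971980029952, .ofNat 0, .ofNat 0, .ofNat 0, .ofNat 31465194111179613650466939644026732675072,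 .ofNat 0, .ofNat 0, .ofNat 0, .ofNat 0, .ofNat 0, .ofNat 0, .ofNat 0, .ofNat 123397284384029328206321972744935320846336, .ofNat 0⟩)
    (by decide +kernel)
theorem L04942 : Good (Phi V5.P V5.D (-1) (-1)) ⟨5, 28, 3, 4, 2, 3, 4, 2, 5, 0⟩ :=
  leafX_sound T5.ok_mm T5.Ymm.bz_eq (w := 230) (c := ⟨⟨.ofNat 4236, .ofNat 1021, .negSucc 397, .negSucc 729, .negSucc 177, .ofNat 167⟩, ⟨.negSucc 2448, .negSucc 772, .ofNat 22, .ofNat 454, .ofNat 123, .negSucc 115⟩, ⟨.negSucc 1573, .negSucc 441, .ofNat 800, .ofNat 2155, .negSucc 304, .negSucc 276⟩, ⟨.ofNat 5584, .ofNat 131, .negSucc 195, .ofNat 15, .ofNat 364, .negSucc 354⟩, ⟨.negSucc 344, .negSucc 1524, .ofNat 126, .ofNat 1632, .ofNat 959, .negSucc 957⟩, .ofNat 2049, .ofNat 2802, .ofNat 0, .ofNat 2802, .ofNat 4621, .ofNat 0, .ofNat 128, .negSucc 1134, .negSucc 757, .ofNat 0, .ofNat 723, .ofNat 463, .ofNat 0, .ofNat 0, .ofNat 864, .ofNat 1514, .ofNat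 0, .ofNat 0, .ofNat 623830314516468105575784518547018874880, .ofNat 0, .ofNat 0, .ofNat 0, .ofNat 291987721869950275240810201645216373407744, .ofNat 0, .ofNat 0, .ofNat 0, .ofNat 187631768127463692947940448965482535452672, .ofNat 0, .ofNat 0, .ofNat 0, .ofNat 80183738568069800815403372431234677342208, .ofNat 0⟩)
    (by decide +kernel)
theorem L04943 : Good (Phi V5.P V5.D (-1) (-1)) ⟨5, 28, 4, 8, 2, 3, 4, 2, 5, 1⟩ :=
  out_sound (S := T5.ds_mm) T5.ok_mm (w := 59) (j := 3) (by decide +kernel)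
theorem L04944 : Good (Phi V5.P V5.D (-1) (-1)) ⟨6, 56, 4, 9, 2, 3, 4, 2, 5, 1⟩ :=
  leafX_sound T5.ok_mm T5.Ymm.bz_eq (w := 239) (c := ⟨⟨.ofNat 4415, .ofNat 639, .ofNat 103, .negSucc 1647, .negSucc 222, .negSucc 1575⟩, ⟨.negSucc 2765, .negSucc 463, .negSucc 106, .ofNat 1048, .ofNat 159, .ofNat 991⟩, ⟨.negSucc 1558, .negSucc 237, .ofNat 197, .ofNat 2530, .negSucc 233, .ofNat 370⟩, ⟨.ofNat 4956, .ofNat 968, .ofNat 394, .negSucc 969, .ofNat 461, .negSucc 3340⟩, ⟨.negSucc 2169, .ofNat 244, .ofNat 384, .ofNat 2164, .ofNat 1227, .negSucc 1672⟩, .ofNat 2905, .ofNat 4132, .ofNat 0, .ofNat 4132, .ofNat 6699, .ofNat 0, .ofNat 128, .negSucc 1525, .negSucc 1493, .ofNat 0, .ofNat 974, .ofNat 924, .ofNat 0, .ofNat 0, .ofNat 1339, .ofNat 1859, .ofNat 0, .ofNat 0, .ofNat 0, .ofNat 0, .ofNat 0, .ofNat 0, .ofNat 374373150348677900502322646820624596467712, .ofNat 0, .ofNat 0, .ofNat 0, .ofNat 0, .ofNat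 0, .ofNat 0, .ofNat 0, .ofNat 0, .ofNat 0⟩)
    (by decide +kernel)
theorem L04945 : Good (Phi V5.P V5.D (-1) (-1)) ⟨6, 57, 4, 9, 2, 3, 4, 2, 5, 1⟩ :=
  out_sound (S := T5.ds_mm) T5.ok_mm (w := 65) (j := 3) (by decide +kernel)
theorem L04946 : Good (Phi V5.P V5.D (-1) (-1)) ⟨5, 29, 3, 4, 2, 3, 4, 2, 4, 0⟩ :=
  out_sound (S := T5.ds_mm) T5.ok_mm (w := 57) (j := 3) (by decide +kernel)
theorem L04947 : Good (Phi V5.P V5.D (-1) (-1)) ⟨4, 15, 3, 4, 2, 3, 4, 2, 4, 0⟩ :=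
  out_sound (S := T5.ds_mm) T5.ok_mm (w := 51) (j := 3) (by decide +kernel)
theorem L04948 : Good (Phi V5.P V5.D (-1) (-1)) ⟨4, 12, 3, 4, 2, 3, 4, 3, 4, 0⟩ :=
  out_sound (S := T5.ds_mm) T5.ok_mm (w := 51) (j := 3) (by decide +kernel)
theorem L04949 : Good (Phi V5.P V5.D (-1) (-1)) ⟨4, 13, 4, 8, 2, 3, 4, 3, 4, 0⟩ :=
  leafX_sound T5.ok_mm T5.Ymm.bz_eq (w := 223) (c := ⟨⟨.ofNat 4320, .ofNat 457, .ofNat 72, .negSucc 2518, .negSucc 137, .negSucc 1629⟩, ⟨.negSucc 2403, .negSucc 318, .negSucc 142, .ofNat 1511, .ofNat 89, .ofNat 883⟩, ⟨.negSucc 1706, .negSucc 67, .ofNat 109, .ofNat 2691, .negSucc 157, .ofNat 277⟩, ⟨.ofNat 6516, .ofNat 130, .ofNat 198, .negSucc 1957, .ofNat 158, .negSucc 4098⟩, ⟨.ofNat 46, .negSucc 674, .ofNat 218, .ofNat 3041, .ofNat 642, .negSucc 2933⟩, .ofNat 1923, .ofNat 2782, .ofNat 0, .ofNat 2782, .ofNat 4976, .ofNat 0, .ofNat 128, .negSucc 591, .negSucc 568, .ofNat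 0, .ofNat 351, .ofNat 318, .ofNat 0, .ofNat 0, .ofNat 576, .ofNat 1116, .ofNat 0, .ofNat 0, .ofNat 0, .ofNat 0, .ofNat 0, .ofNat 0, .ofNat 16929097880707460732121052753491142901760, .ofNat 0, .ofNat 0, .ofNat 0, .ofNat 13330015251358899910411066413978333741056, .ofNat 0, .ofNat 0, .ofNat 0, .ofNat 5912105939468796203726939305706669473792, .ofNat 0⟩)
    (by decide +kernel)
theorem L04950 : Good (Phi V5.P V5.D (-1) (-1)) ⟨4, 13, 4, 9, 2, 3, 4, 3, 4, 0⟩ :=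
  leafX_sound T5.ok_mm T5.Ymm.bz_eq (w := 226) (c := ⟨⟨.ofNat 2915, .ofNat 1665, .negSucc 200, .negSucc 1835, .negSucc 59, .negSucc 1214⟩, ⟨.negSucc 1718, .negSucc 1033, .ofNat 9, .ofNat 1154, .ofNat 39, .ofNat 688⟩, ⟨.negSucc 1067, .negSucc 509, .ofNat 247, .ofNat 2509, .negSucc 226, .ofNat 2⟩, ⟨.ofNat 4995, .ofNat 1338, .ofNat 481, .negSucc 1050, .ofNat 239, .negSucc 3203⟩, ⟨.ofNat 482, .negSucc 789, .ofNat 1074, .ofNat 2606, .ofNat 511, .negSucc 2347⟩, .ofNat 3096, .ofNat 4550, .ofNat 0, .ofNat 4550, .ofNat 7582, .ofNat 0, .ofNat 128, .negSucc 1276, .negSucc 1185, .ofNat 0, .ofNat 790, .ofNat 710, .ofNat 0, .ofNat 0, .ofNat 1184, .ofNat 1426, .ofNat 0, .ofNat 0, .ofNat 157387046300839323503593051464442839040, .ofNat 0, .ofNat 0, .ofNat 0, .ofNat 39162570322838928909001500975316051427328, .ofNat 0, .ofNat 0, .ofNat 0, .ofNat 0, .ofNat 0, .ofNat 0, .ofNat 0, .ofNat 148006762377568651641811111001071233794048,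 .ofNat 0⟩)
    (by decide +kernel)
theorem L04951 : Good (Phi V5.P V5.D (-1) (-1)) ⟨5, 28, 4, 8, 2, 3, 4, 3, 4, 0⟩ :=
  out_sound (S := T5.ds_mm) T5.ok_mm (w := 59) (j := 3) (by decide +kernel)
theorem L04952 : Good (Phi V5.P V5.D (-1) (-1)) ⟨6, 56, 4, 9, 2, 3, 4, 3, 4, 0⟩ :=
  leafX_sound T5.ok_mm T5.Ymm.bz_eq (w := 232) (c := ⟨⟨.ofNat 3486, .negSucc 39, .ofNat 697, .negSucc 713, .negSucc 415, .negSucc 560⟩, ⟨.negSucc 2058, .ofNat 64, .negSucc 625, .ofNat 467, .ofNat 272, .ofNat 336⟩, ⟨.negSucc 1235, .negSucc 68, .ofNat 2, .ofNat 2117, .negSucc 48, .negSucc 335⟩, ⟨.ofNat 4970, .ofNat 249, .ofNat 982, .ofNat 784, .ofNat 55, .negSucc 2556⟩, ⟨.negSucc 71, .ofNat 499, .ofNat 38, .ofNat 2833, .ofNat 1021, .negSucc 2731⟩, .ofNat 2365, .ofNat 3247, .ofNat 0, .ofNat 3247, .ofNat 5255, .ofNat 0, .ofNat 128, .negSucc 1190, .negSucc 1227, .ofNat 0, .ofNat 761, .ofNat 754, .ofNat 0, .ofNat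 0, .ofNat 1218, .ofNat 1170, .ofNat 0, .ofNat 0, .ofNat 21927157482111869277139755668707737600, .ofNat 0, .ofNat 0, .ofNat 0, .ofNat 7535562625559431417547513701688569495552, .ofNat 0, .ofNat 0, .ofNat 0, .ofNat 0, .ofNat 0, .ofNat 0, .ofNat 0, .ofNat 0, .ofNat 0⟩)
    (by decide +kernel)
theorem L04953 : Good (Phi V5.P V5.D (-1) (-1)) ⟨6, 57, 4, 9, 2, 3, 4, 3, 4, 0⟩ :=
  out_sound (S := T5.ds_mm) T5.ok_mm (w := 65) (j := 3) (by decide +kernel)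
theorem L04954 : Good (Phi V5.P V5.D (-1) (-1)) ⟨5, 29, 3, 4, 2, 3, 4, 3, 4, 0⟩ :=
  out_sound (S := T5.ds_mm) T5.ok_mm (w := 57) (j := 3) (by decide +kernel)
theorem L04955 : Good (Phi V5.P V5.D (-1) (-1)) ⟨4, 15, 3, 4, 2, 3, 4, 3, 4, 0⟩ :=
  out_sound (S := T5.ds_mm) T5.ok_mm (w := 51) (j := 3) (by decide +kernel)
theorem L04956 : Good (Phi V5.P V5.D (-1) (-1)) ⟨4, 12, 3, 4, 2, 3, 3, 1, 5, 2⟩ :=
  out_sound (S := T5.ds_mm) T5.ok_mm (w := 51) (j := 3) (by decide +kernel)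
theorem L04957 : Good (Phi V5.P V5.D (-1) (-1)) ⟨4, 13, 4, 8, 2, 3, 3, 1, 5, 2⟩ :=
  leafX_sound T5.ok_mm T5.Ymm.bz_eq (w := 222) (c := ⟨⟨.ofNat 1780, .ofNat 230, .ofNat 57, .negSucc 2696, .ofNat 580, .negSucc 3276⟩, ⟨.negSucc 1124, .negSucc 229, .ofNat 100, .ofNat 1603, .negSucc 306, .ofNat 1875⟩, ⟨.negSucc 553, .ofNat 44, .ofNat 172, .ofNat 2264, .negSucc 678, .ofNat 1565⟩, ⟨.ofNat 1597, .negSucc 314, .ofNat 88, .negSucc 3405, .ofNat 1153, .negSucc 5063⟩, ⟨.negSucc 1541, .negSucc 1455, .ofNat 110, .ofNat 956, .ofNat 498, .negSucc 452⟩, .ofNat 1064, .ofNat 1345, .ofNat 0, .ofNat 1345, .ofNat 2527, .ofNat 0, .ofNat 128, .negSucc 333, .negSucc 750, .ofNat 0, .ofNat 206, .ofNat 417, .ofNat 0, .ofNat 0, .ofNat 636, .ofNat 616, .ofNat 0, .ofNat 0, .ofNat 93321616351315743234550352387684433920, .ofNat 0, .ofNat 0, .ofNat 0, .ofNat 0, .ofNat 0, .ofNat 0, .ofNat 0, .ofNat 10738193887617909499566818447032540200960,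 .ofNat 0, .ofNat 0, .ofNat 0, .ofNat 14653606894339953232297871460228757716992, .ofNat 0⟩)
    (by decide +kernel)
theorem L04958 : Good (Phi V5.P V5.D (-1) (-1)) ⟨4, 13, 4, 9, 2, 3, 3, 1, 5, 2⟩ :=
  leafX_sound T5.ok_mm T5.Ymm.bz_eq (w := 226) (c := ⟨⟨.ofNat 1918, .ofNat 447, .negSucc 274, .negSucc 2847, .ofNat 685, .negSucc 3516⟩, ⟨.negSucc 980, .negSucc 578, .ofNat 331, .ofNat 1748, .negSucc 392, .ofNat 2111⟩, ⟨.negSucc 302, .negSucc 433, .ofNat 463, .ofNat 2601, .negSucc 733, .ofNat 1600⟩, ⟨.ofNat 1815, .negSucc 147, .negSucc 167, .negSucc 3448, .ofNat 1558, .negSucc 5590⟩, ⟨.negSucc 1454, .negSucc 1479, .ofNat 534, .ofNat 1099, .ofNat 947, .negSucc 842⟩, .ofNat 2477, .ofNat 3557, .ofNat 0, .ofNat 3557, .ofNat 5978, .ofNat 0, .ofNat 128, .negSucc 734, .negSucc 1445, .ofNat 0, .ofNat 460, .ofNat 871, .ofNat 0, .ofNat 0, .ofNat 1187, .ofNat 1413, .ofNat 0, .ofNat 0, .ofNat 465191623881764963169872563302727417856,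 .ofNat 0, .ofNat 0, .ofNat 0, .ofNat 24510832362956707415128796520393478242304, .ofNat 0, .ofNat 0, .ofNat 0, .ofNat 173838806033656302980158875448414237097984, .ofNat 0, .ofNat 0, .ofNat 0, .ofNat 363365349454340075444647166077812745437184, .ofNat 0⟩)
    (by decide +kernel)
theorem L04959 : Good (Phi V5.P V5.D (-1) (-1)) ⟨5, 28, 4, 8, 2, 3, 3, 1, 5, 2⟩ :=
  out_sound (S := T5.ds_mm) T5.ok_mm (w := 59) (j := 3) (by decide +kernel)
theorem L04960 : Good (Phi V5.P V5.D (-1) (-1)) ⟨6, 56, 4, 9, 2, 3, 3, 1, 5, 2⟩ :=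
  leafX_sound T5.ok_mm T5.Ymm.bz_eq (w := 233) (c := ⟨⟨.ofNat 3295, .ofNat 987, .negSucc 869, .negSucc 3256, .ofNat 694, .negSucc 4038⟩, ⟨.negSucc 2246, .negSucc 793, .ofNat 777, .ofNat 2070, .negSucc 429, .ofNat 2524⟩, ⟨.negSucc 1306, .negSucc 648, .ofNat 762, .ofNat 2979, .negSucc 819, .ofNat 1871⟩, ⟨.ofNat 2475, .ofNat 585, .negSucc 219, .negSucc 3828, .ofNat 1532, .negSucc 6446⟩, ⟨.negSucc 3500, .negSucc 1132, .ofNat 1567, .ofNat 1272, .ofNat 860, .negSucc 1102⟩, .ofNat 2365, .ofNat 3247, .ofNat 0, .ofNat 3247, .ofNat 5255, .ofNat 0, .ofNat 128, .negSucc 615, .negSucc 1205, .ofNat 0, .ofNat 401, .ofNat 753, .ofNat 0, .ofNat 0, .ofNat 983, .ofNat 883, .ofNat 0, .ofNat 0, .ofNat 181939108631843317170440459118905917440, .ofNat 0, .ofNat 0, .ofNat 0, .ofNat 16408877686762876552575904846306737127424, .ofNat 0, .ofNat 0, .ofNat 0, .ofNat 962750447518337577437713916028172369920, .ofNat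 0, .ofNat 0, .ofNat 0, .ofNat 14463327821327460518463309119949893533696, .ofNat 0⟩)
    (by decide +kernel)
theorem L04961 : Good (Phi V5.P V5.D (-1) (-1)) ⟨6, 57, 4, 9, 2, 3, 3, 1, 5, 2⟩ :=
  out_sound (S := T5.ds_mm) T5.ok_mm (w := 65) (j := 3) (by decide +kernel)
theorem L04962 : Good (Phi V5.P V5.D (-1) (-1)) ⟨5, 29, 3, 4, 2, 3, 3, 1, 5, 2⟩ :=
  out_sound (S := T5.ds_mm) T5.ok_mm (w := 57) (j := 3) (by decide +kernel)
theorem L04963 : Good (Phi V5.P V5.D (-1) (-1)) ⟨4, 15, 3, 4, 2, 3, 3, 1, 5, 2⟩ :=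
  out_sound (S := T5.ds_mm) T5.ok_mm (w := 51) (j := 3) (by decide +kernel)
theorem L04964 : Good (Phi V5.P V5.D (-1) (-1)) ⟨4, 12, 3, 4, 2, 3, 3, 1, 5, 3⟩ :=
  out_sound (S := T5.ds_mm) T5.ok_mm (w := 51) (j := 3) (by decide +kernel)
theorem L04965 : Good (Phi V5.P V5.D (-1) (-1)) ⟨6, 52, 4, 8, 2, 3, 3, 1, 5, 3⟩ :=
  out_sound (S := T5.ds_mm) T5.ok_mm (w := 65) (j := 3) (by decide +kernel)
theorem L04966 : Good (Phi V5.P V5.D (-1) (-1)) ⟨6, 53, 4, 8, 2, 3, 3, 1, 5, 3⟩ :=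
  leafX_sound T5.ok_mm T5.Ymm.bz_eq (w := 234) (c := ⟨⟨.negSucc 4119, .negSucc 233, .ofNat 616, .ofNat 1185, .ofNat 725, .negSucc 600⟩, ⟨.ofNat 2230, .ofNat 136, .negSucc 136, .negSucc 660, .negSucc 408, .ofNat 337⟩, ⟨.ofNat 2940, .ofNat 78, .negSucc 149, .negSucc 250, .negSucc 706, .ofNat 275⟩, ⟨.negSucc 6856, .negSucc 172, .ofNat 665, .ofNat 1570, .ofNat 901, .negSucc 894⟩, ⟨.negSucc 1169, .ofNat 118, .negSucc 240, .negSucc 327, .negSucc 325, .ofNat 45⟩, .ofNat 2184, .ofNat 3366, .ofNat 0, .ofNat 3366, .ofNat 6238, .ofNat 0, .ofNat 128, .negSucc 773, .negSucc 1307, .ofNat 0, .ofNat 451, .ofNat 729, .ofNat 0, .ofNat 0, .ofNat 1358, .ofNat 3385, .ofNat 0, .ofNat 0, .ofNat 0, .ofNat 0, .ofNat 0, .ofNat 0, .ofNat 547752294682987349884826396092740403200, .ofNat 0, .ofNat 0, .ofNat 0, .ofNat 0, .ofNat 0, .ofNat 0, .ofNat 0, .ofNat 0, .ofNat 0⟩)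
    (by decide +kernel)
theorem L04967 : Good (Phi V5.P V5.D (-1) (-1)) ⟨5, 26, 4, 9, 2, 3, 3, 1, 5, 3⟩ :=
  out_sound (S := T5.ds_mm) T5.ok_mm (w := 59) (j := 3) (by decide +kernel)
theorem L04968 : Good (Phi V5.P V5.D (-1) (-1)) ⟨5, 27, 3, 4, 3, 6, 3, 1, 5, 3⟩ :=
  leafX_sound T5.ok_mm T5.Ymm.bz_eq (w := 239) (c := ⟨⟨.negSucc 4052, .negSucc 690, .ofNat 609, .ofNat 972, .ofNat 863, .negSucc 1428⟩, ⟨.ofNat 2201, .ofNat 465, .negSucc 50, .negSucc 581, .negSucc 520, .ofNat 864⟩, ⟨.ofNat 2677, .ofNat 430, .negSucc 412, .negSucc 70, .negSucc 749, .ofNat 794⟩, ⟨.negSucc 6720, .negSucc 985, .ofNat 887, .ofNat 1268, .ofNat 976, .negSucc 1785⟩, ⟨.negSucc 1291, .negSucc 468, .ofNat 367, .negSucc 218, .negSucc 470, .ofNat 519⟩, .ofNat 1614, .ofNat 2221, .ofNat 0, .ofNat 2221, .ofNat 3926, .ofNat 0, .ofNat 128, .negSucc 507, .negSucc 1094, .ofNat 0, .ofNat 319, .ofNat 655, .ofNat 0, .ofNat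 0, .ofNat 997, .ofNat 1935, .ofNat 0, .ofNat 0, .ofNat 0, .ofNat 0, .ofNat 0, .ofNat 0, .ofNat 12066098676482452565239678864680018998460416, .ofNat 0, .ofNat 0, .ofNat 0, .ofNat 27189661108926121658650552699995603117015040, .ofNat 0, .ofNat 0, .ofNat 0, .ofNat 73561484539135633161132096013644083645906944, .ofNat 0⟩)
    (by decide +kernel)
theorem L04969 : Good (Phi V5.P V5.D (-1) (-1)) ⟨5, 27, 3, 4, 3, 7, 3, 1, 5, 3⟩ :=
  leafX_sound T5.ok_mm T5.Ymm.bz_eq (w := 239) (c := ⟨⟨.negSucc 3770, .negSucc 461, .ofNat 526, .ofNat 234, .ofNat 779, .negSucc 318⟩, ⟨.ofNat 2051, .ofNat 251, .ofNat 45, .negSucc 142, .negSucc 459, .ofNat 192⟩, ⟨.ofNat 3122, .ofNat 347, .negSucc 280, .negSucc 26, .negSucc 866, .ofNat 69⟩, ⟨.negSucc 6425, .negSucc 412, .ofNat 298, .ofNat 285, .ofNat 986, .negSucc 301⟩, ⟨.negSucc 1532, .ofNat 181, .negSucc 600, .negSucc 66, .negSucc 246, .ofNat 287⟩, .ofNat 2463,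 .ofNat 3619, .ofNat 0, .ofNat 3619, .ofNat 6251, .ofNat 0, .ofNat 128, .negSucc 586, .negSucc 684, .ofNat 0, .ofNat 369, .ofNat 397, .ofNat 0, .ofNat 0, .ofNat 728, .ofNat 1486, .ofNat 0, .ofNat 0, .ofNat 403520926831602982580982893949393217519616, .ofNat 0, .ofNat 0, .ofNat 0, .ofNat 68593820254697443708940960936921018755186688, .ofNat 0, .ofNat 0, .ofNat 0, .ofNat 212941520154752009396992835502910490244284416, .ofNat 0, .ofNat 0, .ofNat 0, .ofNat 179474572394805140875280332208908669571563520, .ofNat 0⟩)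
    (by decide +kernel)
theorem L04970 : Good (Phi V5.P V5.D (-1) (-1)) ⟨5, 28, 4, 8, 2, 3, 3, 1, 5, 3⟩ :=
  out_sound (S := T5.ds_mm) T5.ok_mm (w := 59) (j := 3) (by decide +kernel)
theorem L04971 : Good (Phi V5.P V5.D (-1) (-1)) ⟨6, 56, 4, 9, 2, 3, 3, 1, 6, 6⟩ :=
  leafX_sound T5.ok_mm T5.Ymm.bz_eq (w := 238) (c := ⟨⟨.negSucc 3883, .negSucc 704, .ofNat 606, .ofNat 118, .ofNat 978, .negSucc 925⟩, ⟨.ofNat 2297, .ofNat 443, .negSucc 201, .negSucc 78, .negSucc 623, .ofNat 577⟩, ⟨.ofNat 2434, .ofNat 208, .negSucc 19, .ofNat 937, .negSucc 910, .ofNat 442⟩, ⟨.negSucc 6341, .negSucc 1210, .ofNat 556, .negSucc 440, .ofNat 1472, .negSucc 1083⟩, ⟨.negSucc 1387, .negSucc 482, .negSucc 296, .negSucc 940, .ofNat 118, .ofNat 377⟩, .ofNat 2053, .ofNat 2803, .ofNat 0, .ofNat 2803, .ofNat 4616, .ofNat 0, .ofNat 128, .negSucc 691, .negSucc 1430, .ofNat 0, .ofNat 452, .ofNat 895, .ofNat 0, .ofNat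 0, .ofNat 1229, .ofNat 2758, .ofNat 0, .ofNat 0, .ofNat 0, .ofNat 0, .ofNat 0, .ofNat 0, .ofNat 219035250576070345153398537026794816536576, .ofNat 0, .ofNat 0, .ofNat 0, .ofNat 205340407159443838695126973214016944472064, .ofNat 0, .ofNat 0, .ofNat 0, .ofNat 227061941147047501925322784147789811023872, .ofNat 0⟩)
    (by decide +kernel)
theorem L04972 : Good (Phi V5.P V5.D (-1) (-1)) ⟨6, 56, 4, 9, 2, 3, 3, 1, 6, 7⟩ :=
  leafX_sound T5.ok_mm T5.Ymm.bz_eq (w := 238) (c := ⟨⟨.negSucc 5778, .negSucc 213, .ofNat 353, .ofNat 1883, .ofNat 711, .ofNat 49⟩, ⟨.ofNat 3478, .ofNat 129, .negSucc 15, .negSucc 1193, .negSucc 459, .negSucc 31⟩, ⟨.ofNat 3755, .ofNat 196, .negSucc 257, .negSucc 248, .negSucc 721, .negSucc 79⟩, ⟨.negSucc 8692, .negSucc 299, .ofNat 356, .ofNat 1855, .ofNat 820, .ofNat 175⟩, ⟨.negSucc 714, .negSucc 129, .negSucc 181, .negSucc 1302, .negSucc 320, .ofNat 184⟩, .ofNat 2059,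 .ofNat 2813, .ofNat 0, .ofNat 2813, .ofNat 4633, .ofNat 0, .ofNat 128, .negSucc 752, .negSucc 1150, .ofNat 0, .ofNat 497, .ofNat 719, .ofNat 0, .ofNat 0, .ofNat 1117, .ofNat 3970, .ofNat 0, .ofNat 0, .ofNat 0, .ofNat 0, .ofNat 0, .ofNat 0, .ofNat 165006408134183853151855069721702315327488, .ofNat 0, .ofNat 0, .ofNat 0, .ofNat 981170058895426987686238088523743898894336, .ofNat 0, .ofNat 0, .ofNat 0, .ofNat 190114135555028591088175467365753618956288, .ofNat 0⟩)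
    (by decide +kernel)
theorem L04973 : Good (Phi V5.P V5.D (-1) (-1)) ⟨6, 57, 4, 9, 2, 3, 3, 1, 5, 3⟩ :=
  out_sound (S := T5.ds_mm) T5.ok_mm (w := 65) (j := 3) (by decide +kernel)
theorem L04974 : Good (Phi V5.P V5.D (-1) (-1)) ⟨5, 29, 3, 4, 2, 3, 3, 1, 5, 3⟩ :=
  out_sound (S := T5.ds_mm) T5.ok_mm (w := 57) (j := 3) (by decide +kernel)
theorem L04975 : Good (Phi V5.P V5.D (-1) (-1)) ⟨4, 15, 3, 4, 2, 3, 3, 1, 5, 3⟩ :=
  out_sound (S := T5.ds_mm) T5.ok_mm (w := 51) (j := 3) (by decide +kernel)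
theorem L04976 : Good (Phi V5.P V5.D (-1) (-1)) ⟨2, 2, 3, 4, 2, 3, 3, 0, 4, 2⟩ :=
  out_sound (S := T5.ds_mm) T5.ok_mm (w := 39) (j := 3) (by decide +kernel)
theorem L04977 : Good (Phi V5.P V5.D (-1) (-1)) ⟨4, 12, 3, 4, 2, 3, 3, 0, 4, 2⟩ :=
  out_sound (S := T5.ds_mm) T5.ok_mm (w := 51) (j := 3) (by decide +kernel)
theorem L04978 : Good (Phi V5.P V5.D (-1) (-1)) ⟨5, 26, 3, 4, 2, 3, 5, 0, 5, 4⟩ :=
  leafX_sound T5.ok_mm T5.Ymm.bz_eq (w := 233) (c := ⟨⟨.negSucc 5557, .negSucc 273, .ofNat 269, .ofNat 1922, .ofNat 105, .ofNat 779⟩, ⟨.ofNat 3031, .ofNat 215, .ofNat 183, .negSucc 1131, .negSucc 58, .negSucc 435⟩, ⟨.ofNat 4486, .negSucc 256, .ofNat 311, .negSucc 549, .negSucc 177, .negSucc 463⟩, ⟨.negSucc 8451, .negSucc 152, .ofNat 215, .ofNat 2367, .ofNat 87, .ofNat 1068⟩, ⟨.ofNat 125, .ofNat 21, .negSucc 226, .negSucc 926, .negSucc 113, .negSucc 180⟩, .ofNat 1036, .ofNat 1335, .ofNat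 0, .ofNat 1335, .ofNat 2610, .ofNat 0, .ofNat 128, .negSucc 532, .negSucc 509, .ofNat 0, .ofNat 367, .ofNat 280, .ofNat 0, .ofNat 0, .ofNat 939, .ofNat 25208, .ofNat 1270799675083540216121052068185606519340941705216, .ofNat 0, .ofNat 41574166587310621489159128106606071382016, .ofNat 0, .ofNat 0, .ofNat 0, .ofNat 341738580362556741704965395270051047669760, .ofNat 0, .ofNat 1139078262625666957943423812440534341576929837056, .ofNat 0, .ofNat 2580066863731540561467824238217810520571904, .ofNat 0, .ofNat 5839675063828982371899017303849589170274385788928, .ofNat 0, .ofNat 1474909389895583192730873220321482146578432, .ofNat 0⟩)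
    (by decide +kernel)
theorem L04979 : Good (Phi V5.P V5.D (-1) (-1)) ⟨5, 26, 3, 4, 2, 3, 5, 1, 5, 4⟩ :=
  leafX_sound T5.ok_mm T5.Ymm.bz_eq (w := 233) (c := ⟨⟨.negSucc 5183, .negSucc 493, .ofNat 318, .ofNat 1841, .ofNat 114, .ofNat 773⟩, ⟨.ofNat 2821, .ofNat 326, .ofNat 184, .negSucc 1063, .negSucc 68, .negSucc 435⟩, ⟨.ofNat 3709, .ofNat 380, .negSucc 28, .negSucc 549, .negSucc 211, .negSucc 534⟩, ⟨.negSucc 8050, .negSucc 459, .ofNat 299, .ofNat 2364, .ofNat 88, .ofNat 1049⟩, ⟨.negSucc 116, .ofNat 16, .negSucc 104, .negSucc 708, .negSucc 155, .negSucc 195⟩, .ofNat 1454, .ofNat 2053, .ofNat 0, .ofNat 2053, .ofNat 3873, .ofNat 0, .ofNat 128, .negSucc 725, .negSucc 593, .ofNat 0, .ofNat 467, .ofNat 333, .ofNat 0, .ofNat 0, .ofNat 987, .ofNat 18050, .ofNat 203733618676955904048941699326579344005369167872, .ofNat 0, .ofNat 23334637738511099855788907286343616299008, .ofNat 0, .ofNat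 0, .ofNat 0, .ofNat 170314659255560965681072893814359199842304, .ofNat 0, .ofNat 0, .ofNat 0, .ofNat 0, .ofNat 0, .ofNat 0, .ofNat 0, .ofNat 2506661005192034869172950157319716772773888, .ofNat 0⟩)
    (by decide +kernel)
theorem L04980 : Good (Phi V5.P V5.D (-1) (-1)) ⟨5, 27, 3, 4, 3, 6, 5, 0, 5, 4⟩ :=
  leafX_sound T5.ok_mm T5.Ymm.bz_eq (w := 249) (c := ⟨⟨.negSucc 6192, .negSucc 859, .ofNat 874, .ofNat 1065, .ofNat 99, .ofNat 1066⟩, ⟨.ofNat 3470, .ofNat 627, .negSucc 208, .negSucc 622, .negSucc 58, .negSucc 642⟩, ⟨.ofNat 4210, .ofNat 642, .negSucc 850, .ofNat 370, .negSucc 196, .negSucc 679⟩, ⟨.negSucc 8966, .negSucc 664, .ofNat 880, .ofNat 1405, .ofNat 78, .ofNat 1204⟩, ⟨.ofNat 313, .ofNat 588, .negSucc 699, .negSucc 255, .negSucc 76, .negSucc 602⟩, .ofNat 795, .ofNat 902, .ofNat 0, .ofNat 902, .ofNat 1735, .ofNat 0, .ofNat 128, .negSucc 799, .negSucc 536, .ofNat 0, .ofNat 565,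 .ofNat 341, .ofNat 0, .ofNat 0, .ofNat 795, .ofNat 78202, .ofNat 15735131818616055168032607468510849633036002559787008, .ofNat 0, .ofNat 1966961582437144948246682380131595696021176320, .ofNat 0, .ofNat 192987044912388701629013580120848856919210612228096, .ofNat 0, .ofNat 10523785284198693069437717730067194842965868544, .ofNat 0, .ofNat 38802085026269271476939054416697394747352922282000384, .ofNat 0, .ofNat 104659903627622258381585895492784924009223421952, .ofNat 0, .ofNat 36815310608302311265727565982361954442640849536811008, .ofNat 0, .ofNat 60971235947422265862035234747108301545798631424, .ofNat 0⟩)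
    (by decide +kernel)
theorem L04981 : Good (Phi V5.P V5.D (-1) (-1)) ⟨5, 27, 3, 4, 3, 6, 5, 1, 5, 4⟩ :=
  leafX_sound T5.ok_mm T5.Ymm.bz_eq (w := 248) (c := ⟨⟨.negSucc 6085, .negSucc 690, .ofNat 607, .ofNat 1145, .ofNat 104, .ofNat 1060⟩, ⟨.ofNat 3423, .ofNat 487, .negSucc 0, .negSucc 689, .negSucc 66, .negSucc 649⟩, ⟨.ofNat 4106, .ofNat 543, .negSucc 747, .ofNat 112, .negSucc 173, .negSucc 594⟩, ⟨.negSucc 8864, .negSucc 529, .ofNat 602, .ofNat 1459, .ofNat 39, .ofNat 1216⟩, ⟨.ofNat 214, .ofNat 461, .negSucc 556, .negSucc 332, .negSucc 198, .negSucc 550⟩, .ofNat 747, .ofNat 824, .ofNat 0, .ofNat 824, .ofNat 1615, .ofNat 0, .ofNat 128, .negSucc 778, .negSucc 443, .ofNat 0, .ofNat 556, .ofNat 277, .ofNat 0, .ofNat 0, .ofNat 641, .ofNat 24047, .ofNat 1219380345879262434669197070809548891824100497948672, .ofNat 0, .ofNat 450803959484744656001834501039796445461348352, .ofNat 0, .ofNat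 0, .ofNat 0, .ofNat 4079183532228415201963146976684199819295588352, .ofNat 0, .ofNat 0, .ofNat 0, .ofNat 54287591155671806891268348444984880683817107456, .ofNat 0, .ofNat 0, .ofNat 0, .ofNat 30851937288687289731233153378131325112752799744, .ofNat 0⟩)
    (by decide +kernel)
theorem L04982 : Good (Phi V5.P V5.D (-1) (-1)) ⟨5, 27, 3, 4, 3, 7, 4, 0, 5, 4⟩ :=
  leafX_sound T5.ok_mm T5.Ymm.bz_eq (w := 243) (c := ⟨⟨.negSucc 5025, .negSucc 292, .ofNat 334, .ofNat 1018, .ofNat 234, .ofNat 909⟩, ⟨.ofNat 2801, .ofNat 182, .ofNat 166, .negSucc 617, .negSucc 132, .negSucc 536⟩, ⟨.ofNat 4524, .ofNat 370, .negSucc 238, .negSucc 640, .negSucc 565, .negSucc 695⟩, ⟨.negSucc 7385, .negSucc 497, .ofNat 347, .ofNat 754, .ofNat 409, .ofNat 1049⟩, ⟨.ofNat 14, .negSucc 379, .negSucc 216, .negSucc 1195, .ofNat 92, .negSucc 438⟩, .ofNat 2452, .ofNat 3600, .ofNat 0, .ofNat 3600, .ofNat 6222, .ofNat 0, .ofNat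 128, .negSucc 729, .negSucc 540, .ofNat 0, .ofNat 490, .ofNat 313, .ofNat 0, .ofNat 0, .ofNat 998, .ofNat 5864, .ofNat 0, .ofNat 0, .ofNat 0, .ofNat 0, .ofNat 0, .ofNat 0, .ofNat 2862774719666247106921222824785946365336223744, .ofNat 0, .ofNat 0, .ofNat 0, .ofNat 3711010239369830258092791187959589722262601728, .ofNat 0, .ofNat 0, .ofNat 0, .ofNat 0, .ofNat 0⟩)
    (by decide +kernel)
theorem L04983 : Good (Phi V5.P V5.D (-1) (-1)) ⟨4, 13, 3, 4, 3, 6, 5, 0, 5, 5⟩ :=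
  leafX_sound T5.ok_mm T5.Ymm.bz_eq (w := 246) (c := ⟨⟨.negSucc 4749, .negSucc 708, .ofNat 421, .ofNat 1068, .ofNat 38, .ofNat 862⟩, ⟨.ofNat 2619, .ofNat 514, .ofNat 41, .negSucc 644, .negSucc 34, .negSucc 515⟩, ⟨.ofNat 3543, .ofNat 582, .negSucc 441, .negSucc 44, .negSucc 184, .negSucc 694⟩, ⟨.negSucc 7344, .negSucc 488, .ofNat 414, .ofNat 1279, .negSucc 0, .ofNat 987⟩, ⟨.negSucc 281, .ofNat 335, .negSucc 281, .negSucc 460, .negSucc 84, .negSucc 497⟩, .ofNat 366, .ofNat 260, .ofNat 0, .ofNat 260, .ofNat 643, .ofNat 0, .ofNat 128, .negSucc 249, .negSucc 183, .ofNat 0, .ofNat 242, .ofNat 116, .ofNat 0, .ofNat 0, .ofNat 360, .ofNat 212052, .ofNat 2500336617376344202602611920900217527222962172723200, .ofNat 0, .ofNat 4508022487246987872034135217604536954924302336, .ofNat 0, .ofNat 763254753579024136299942359117702203827091989856256, .ofNat 0, .ofNat 12293610917614702754307031433479179438231912448,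 .ofNat 0, .ofNat 3208160653965856637836722600477237840517727789252608, .ofNat 0, .ofNat 44955276046422852300175086394228922983750041600, .ofNat 0, .ofNat 2399458739245624662366015528242114143751257683132416, .ofNat 0, .ofNat 42684892718959085437726065494185283212374179840, .ofNat 0⟩)
    (by decide +kernel)
theorem L04984 : Good (Phi V5.P V5.D (-1) (-1)) ⟨4, 13, 3, 4, 3, 6, 5, 1, 5, 5⟩ :=
  leafX_sound T5.ok_mm T5.Ymm.bz_eq (w := 243) (c := ⟨⟨.negSucc 4574, .negSucc 704, .ofNat 365, .ofNat 940, .ofNat 69, .ofNat 859⟩, ⟨.ofNat 2484, .ofNat 517, .ofNat 86, .negSucc 555, .negSucc 39, .negSucc 515⟩, ⟨.ofNat 3301, .ofNat 550, .negSucc 416, .negSucc 91, .negSucc 203, .negSucc 531⟩, ⟨.negSucc 7280, .negSucc 506, .ofNat 359, .ofNat 1234, .ofNat 43, .ofNat 1020⟩, ⟨.negSucc 562, .ofNat 289, .negSucc 217, .negSucc 250, .negSucc 111, .negSucc 439⟩, .ofNat 367, .ofNat 261, .ofNat 0, .ofNat 261,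 .ofNat 642, .ofNat 0, .ofNat 128, .negSucc 272, .negSucc 158, .ofNat 0, .ofNat 251, .ofNat 105, .ofNat 0, .ofNat 0, .ofNat 305, .ofNat 22837, .ofNat 66921809468732054784608468982254569433131879759872, .ofNat 0, .ofNat 966847518808608324062223977235496246389506048, .ofNat 0, .ofNat 0, .ofNat 0, .ofNat 5429572639646063266752582755068425002844946432, .ofNat 0, .ofNat 152280308910188980724178994991046483475284472365056, .ofNat 0, .ofNat 16448626017079311931959628866225015561568387072, .ofNat 0, .ofNat 17799326473358920177455326534217961551879932477440, .ofNat 0, .ofNat 19726584881698666332929843692020142755792551936, .ofNat 0⟩)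
    (by decide +kernel)
theorem L04985 : Good (Phi V5.P V5.D (-1) (-1)) ⟨4, 13, 3, 4, 3, 7, 4, 0, 5, 5⟩ :=
  leafX_sound T5.ok_mm T5.Ymm.bz_eq (w := 239) (c := ⟨⟨.negSucc 3722, .negSucc 481, .ofNat 321, .ofNat 806, .ofNat 184, .ofNat 673⟩, ⟨.ofNat 2038, .ofNat 287, .ofNat 109, .negSucc 470, .negSucc 96, .negSucc 393⟩, ⟨.ofNat 3298, .ofNat 851, .negSucc 326, .negSucc 548, .negSucc 500, .negSucc 615⟩, ⟨.negSucc 5951, .negSucc 516, .ofNat 160, .ofNat 1045, .ofNat 205, .ofNat 936⟩, ⟨.negSucc 563, .negSucc 155, .negSucc 404, .negSucc 191, .negSucc 128, .negSucc 82⟩, .ofNat 1556, .ofNat 2141, .ofNat 0, .ofNat 2141, .ofNat 3830, .ofNat 0, .ofNat 128, .negSucc 600, .negSucc 430, .ofNat 0, .ofNat 429, .ofNat 236, .ofNat 0, .ofNat 0, .ofNat 1181, .ofNat 23933, .ofNat 0, .ofNat 0, .ofNat 0, .ofNat 0, .ofNat 0, .ofNat 0, .ofNat 4927246120143398967501339871210344656446423040, .ofNat 0, .ofNat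 26031971231077576211985516787537698357724741369856, .ofNat 0, .ofNat 11812984084672183190706585935882844271389179904, .ofNat 0, .ofNat 0, .ofNat 0, .ofNat 32548310248462561582876542359094725840063168512, .ofNat 0⟩)
    (by decide +kernel)
theorem L04986 : Good (Phi V5.P V5.D (-1) (-1)) ⟨4, 13, 3, 4, 4, 12, 4, 1, 4, 2⟩ :=
  leafX_sound T5.ok_mm T5.Ymm.bz_eq (w := 248) (c := ⟨⟨.negSucc 5473, .negSucc 669, .ofNat 187, .ofNat 495, .ofNat 148, .ofNat 1853⟩, ⟨.ofNat 3017, .ofNat 470, .ofNat 273, .negSucc 301, .negSucc 98, .negSucc 1105⟩, ⟨.ofNat 3613, .ofNat 593, .negSucc 399, .negSucc 63, .negSucc 259, .negSucc 1069⟩, ⟨.negSucc 8423, .negSucc 491, .ofNat 190, .ofNat 656, .ofNat 82, .ofNat 2266⟩, ⟨.negSucc 322, .ofNat 322, .negSucc 240, .negSucc 87, .negSucc 226, .negSucc 757⟩, .ofNat 756, .ofNat 838, .ofNat 0, .ofNat 838, .ofNat 1635, .ofNat 0, .ofNat 128, .negSucc 658, .negSucc 404,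 .ofNat 0, .ofNat 462, .ofNat 253, .ofNat 0, .ofNat 0, .ofNat 623, .ofNat 7293, .ofNat 0, .ofNat 0, .ofNat 19742422020743567797918946870657792095979307008, .ofNat 0, .ofNat 0, .ofNat 0, .ofNat 193207885545427180721831466316190836959454691328, .ofNat 0, .ofNat 0, .ofNat 0, .ofNat 4525621233183628823188332244687815519691482333184, .ofNat 0, .ofNat 0, .ofNat 0, .ofNat 2382458118006636485581097729224730268198894567424, .ofNat 0⟩)
    (by decide +kernel)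
theorem L04987 : Good (Phi V5.P V5.D (-1) (-1)) ⟨4, 13, 3, 4, 4, 13, 4, 1, 4, 2⟩ :=
  leafX_sound T5.ok_mm T5.Ymm.bz_eq (w := 248) (c := ⟨⟨.negSucc 4835, .negSucc 796, .ofNat 467, .ofNat 528, .ofNat 197, .ofNat 1622⟩, ⟨.ofNat 2649, .ofNat 548, .ofNat 46, .negSucc 316, .negSucc 120, .negSucc 956⟩, ⟨.ofNat 3678, .ofNat 575, .negSucc 472, .negSucc 75, .negSucc 397, .negSucc 1150⟩, ⟨.negSucc 7623, .negSucc 634, .ofNat 428, .ofNat 699, .ofNat 145, .ofNat 2041⟩, ⟨.negSucc 552, .ofNat 374, .negSucc 426, .negSucc 122, .negSucc 257, .negSucc 572⟩, .ofNat 874, .ofNat 1066, .ofNat 0, .ofNat 1066, .ofNat 2094, .ofNat 0, .ofNat 128, .negSucc 588, .negSucc 318, .ofNat 0, .ofNat 400, .ofNat 187, .ofNat 0, .ofNat 0, .ofNat 559, .ofNat 8265, .ofNat 0, .ofNat 0, .ofNat 22492246603695879656187745217259614569769205760, .ofNat 0, .ofNat 0, .ofNat 0, .ofNat 990350642102743444483673616558418921620221460480,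 .ofNat 0, .ofNat 0, .ofNat 0, .ofNat 3600154996147695239808269085283826112275610075136, .ofNat 0, .ofNat 0, .ofNat 0, .ofNat 1757367637944677100667958653108619867377801101312, .ofNat 0⟩)
    (by decide +kernel)
theorem L04988 : Good (Phi V5.P V5.D (-1) (-1)) ⟨4, 13, 3, 4, 3, 7, 4, 1, 4, 2⟩ :=
  leafX_sound T5.ok_mm T5.Ymm.bz_eq (w := 232) (c := ⟨⟨.negSucc 4426, .negSucc 153, .ofNat 102, .ofNat 814, .ofNat 206, .ofNat 1388⟩, ⟨.ofNat 2469, .ofNat 59, .ofNat 286, .negSucc 475, .negSucc 126, .negSucc 818⟩, ⟨.ofNat 3722, .ofNat 131, .ofNat 105, .negSucc 468, .negSucc 430, .negSucc 1181⟩, ⟨.negSucc 7099, .negSucc 103, .negSucc 138, .ofNat 1084, .ofNat 249, .ofNat 2100⟩, ⟨.negSucc 744, .negSucc 277, .negSucc 375, .negSucc 177, .negSucc 92, .ofNat 106⟩, .ofNat 874, .ofNat 1066, .ofNat 0, .ofNat 1066, .ofNat 2094, .ofNat 0, .ofNat 128, .negSucc 451, .negSucc 361, .ofNat 0, .ofNat 327, .ofNat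 188, .ofNat 0, .ofNat 0, .ofNat 754, .ofNat 2684, .ofNat 0, .ofNat 0, .ofNat 847635960173057943732486544914967785635840, .ofNat 0, .ofNat 0, .ofNat 0, .ofNat 12968784511258984904532681694371959608967168, .ofNat 0, .ofNat 0, .ofNat 0, .ofNat 70609248531501916048542572381099522351169536, .ofNat 0, .ofNat 0, .ofNat 0, .ofNat 0, .ofNat 0⟩)
    (by decide +kernel)
theorem L04989 : Good (Phi V5.P V5.D (-1) (-1)) ⟨6, 56, 4, 8, 3, 6, 3, 0, 5, 4⟩ :=
  out_sound (S := T5.ds_mm) T5.ok_mm (w := 65) (j := 3) (by decide +kernel)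
theorem L04990 : Good (Phi V5.P V5.D (-1) (-1)) ⟨6, 56, 4, 9, 3, 6, 5, 0, 6, 8⟩ :=
  leafX_sound T5.ok_mm T5.Ymm.bz_eq (w := 262) (c := ⟨⟨.negSucc 7244, .negSucc 468, .ofNat 519, .ofNat 1641, .ofNat 262, .ofNat 555⟩, ⟨.ofNat 4470, .ofNat 369, .negSucc 179, .negSucc 1050, .negSucc 178, .negSucc 355⟩, ⟨.ofNat 4713, .ofNat 318, .negSucc 491, .ofNat 200, .negSucc 293, .negSucc 316⟩, ⟨.negSucc 9617, .negSucc 267, .ofNat 440, .ofNat 1845, .ofNat 153, .ofNat 633⟩, ⟨.ofNat 1140, .ofNat 365, .negSucc 432, .negSucc 777, .negSucc 326, .negSucc 250⟩, .ofNat 1563, .ofNat 2021, .ofNat 0, .ofNat 2021, .ofNat 3362, .ofNat 0, .ofNat 128, .negSucc 841, .negSucc 606, .ofNat 0, .ofNat 589, .ofNat 403, .ofNat 0, .ofNat 0, .ofNat 742, .ofNat 198590, .ofNat 36889130810477917273459778929752993150075362468440309760, .ofNat 0, .ofNat 0, .ofNat 0, .ofNat 6652600883643548093513279938783082753736354001303109632,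 .ofNat 0, .ofNat 1968170462102049248863194710754002968094892359680, .ofNat 0, .ofNat 68235159008271099851086713661209827330025309075406848000, .ofNat 0, .ofNat 10593885641412296176682859365287126356974194655232, .ofNat 0, .ofNat 37802253842714326012773130098825337870998775437197312000, .ofNat 0, .ofNat 3153444715818465484851078559052616044165629739008, .ofNat 0⟩)
    (by decide +kernel)
theorem L04991 : Good (Phi V5.P V5.D (-1) (-1)) ⟨6, 56, 4, 9, 3, 6, 5, 1, 6, 8⟩ :=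
  leafX_sound T5.ok_mm T5.Ymm.bz_eq (w := 261) (c := ⟨⟨.negSucc 6998, .negSucc 559, .ofNat 583, .ofNat 1653, .ofNat 174, .ofNat 526⟩, ⟨.ofNat 4295, .ofNat 422, .negSucc 211, .negSucc 1055, .negSucc 114, .negSucc 336⟩, ⟨.ofNat 4421, .ofNat 313, .negSucc 428, .ofNat 18, .negSucc 193, .negSucc 280⟩, ⟨.negSucc 9552, .negSucc 436, .ofNat 551, .ofNat 1908, .ofNat 53, .ofNat 632⟩, ⟨.ofNat 727, .ofNat 331, .negSucc 414, .negSucc 715, .negSucc 315, .negSucc 192⟩, .ofNat 774, .ofNat 830, .ofNat 0, .ofNat 830, .ofNat 1513, .ofNat 0, .ofNat 128, .negSucc 901, .negSucc 504, .ofNat 0, .ofNat 664, .ofNat 339, .ofNat 0, .ofNat 0, .ofNat 579, .ofNat 43447, .ofNat 0, .ofNat 0, .ofNat 0, .ofNat 0, .ofNat 0, .ofNat 0, .ofNat 129299169448341432412581080104341672949098479616, .ofNat 0, .ofNat 0, .ofNat 0, .ofNat 1439711163981950227812250349461993941852250701824, .ofNat 0, .ofNat 0, .ofNat 0, .ofNat 1512453278744558459597863811493502176401744199680,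 .ofNat 0⟩)
    (by decide +kernel)
theorem L04992 : Good (Phi V5.P V5.D (-1) (-1)) ⟨6, 56, 4, 9, 3, 6, 4, 1, 6, 8⟩ :=
  leafX_sound T5.ok_mm T5.Ymm.bz_eq (w := 256) (c := ⟨⟨.negSucc 6643, .negSucc 450, .ofNat 432, .ofNat 1666, .ofNat 336, .ofNat 405⟩, ⟨.ofNat 4056, .ofNat 329, .negSucc 98, .negSucc 1063, .negSucc 219, .negSucc 257⟩, ⟨.ofNat 4281, .ofNat 316, .negSucc 392, .negSucc 285, .negSucc 363, .negSucc 229⟩, ⟨.negSucc 9318, .negSucc 377, .ofNat 404, .ofNat 1935, .ofNat 172, .ofNat 528⟩, ⟨.ofNat 298, .ofNat 238, .negSucc 327, .negSucc 701, .negSucc 492, .negSucc 80⟩, .ofNat 774, .ofNat 830, .ofNat 0, .ofNat 830, .ofNat 1513, .ofNat 0, .ofNat 128, .negSucc 894, .negSucc 891, .ofNat 0, .ofNat 650, .ofNat 587, .ofNat 0, .ofNat 0, .ofNat 968, .ofNat 26065, .ofNat 0, .ofNat 0, .ofNat 0, .ofNat 0, .ofNat 0, .ofNat 0, .ofNat 44240849314085100997806220971094200905002647552, .ofNat 0,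 .ofNat 0, .ofNat 0, .ofNat 681247911847927726966668962009859023444451000320, .ofNat 0, .ofNat 0, .ofNat 0, .ofNat 98304169744116663970502826724871182120095055872, .ofNat 0⟩)
    (by decide +kernel)
theorem L04993 : Good (Phi V5.P V5.D (-1) (-1)) ⟨6, 56, 4, 9, 3, 6, 5, 0, 6, 9⟩ :=
  leafX_sound T5.ok_mm T5.Ymm.bz_eq (w := 262) (c := ⟨⟨.negSucc 6298, .negSucc 272, .ofNat 310, .ofNat 1418, .ofNat 151, .ofNat 563⟩, ⟨.ofNat 3850, .ofNat 199, .negSucc 25, .negSucc 907, .negSucc 98, .negSucc 360⟩, ⟨.ofNat 4357, .ofNat 220, .negSucc 354, .ofNat 109, .negSucc 302, .negSucc 380⟩, ⟨.negSucc 8605, .negSucc 190, .ofNat 291, .ofNat 1571, .ofNat 65, .ofNat 610⟩, ⟨.ofNat 631, .ofNat 145, .negSucc 238, .negSucc 710, .negSucc 231, .negSucc 307⟩, .ofNat 1563, .ofNat 2021, .ofNat 0, .ofNat 2021, .ofNat 3362, .ofNat 0, .ofNat 128, .negSucc 811, .negSucc 335, .ofNat 0, .ofNat 576, .ofNat 224, .ofNat 0,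 .ofNat 0, .ofNat 507, .ofNat 271583, .ofNat 48002954252440985337465074011869761478133257135691137024, .ofNat 0, .ofNat 0, .ofNat 0, .ofNat 0, .ofNat 0, .ofNat 819903761732396569146312692209188736384039387136, .ofNat 0, .ofNat 100888761035193433389379900792887969417963456371359744000, .ofNat 0, .ofNat 8776727172578929779746348233299303178606947074048, .ofNat 0, .ofNat 35738541724633626343516073684170680146785385580173721600, .ofNat 0, .ofNat 947882808308164397140549336299396839726305509376, .ofNat 0⟩)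
    (by decide +kernel)
theorem L04994 : Good (Phi V5.P V5.D (-1) (-1)) ⟨6, 56, 4, 9, 3, 6, 5, 1, 6, 9⟩ :=
  leafX_sound T5.ok_mm T5.Ymm.bz_eq (w := 260) (c := ⟨⟨.negSucc 6161, .negSucc 437, .ofNat 370, .ofNat 1424, .ofNat 146, .ofNat 572⟩, ⟨.ofNat 3758, .ofNat 322, .negSucc 65, .negSucc 909, .negSucc 97, .negSucc 367⟩, ⟨.ofNat 4032, .ofNat 83, .negSucc 206, .negSucc 60, .negSucc 193, .negSucc 321⟩, ⟨.negSucc 8660, .negSucc 350, .ofNat 368, .ofNat 1690, .ofNat 66, .ofNat 626⟩, ⟨.ofNat 255, .ofNat 247, .negSucc 254, .negSucc 537, .negSucc 223, .negSucc 310⟩, .ofNat 774, .ofNat 830, .ofNat 0, .ofNat 830, .ofNat 1513, .ofNat 0, .ofNat 128, .negSucc 591, .negSucc 322, .ofNat 0, .ofNat 447, .ofNat 218, .ofNat 0, .ofNat 0, .ofNat 454, .ofNat 44502, .ofNat 0, .ofNat 0, .ofNat 0, .ofNat 0, .ofNat 0, .ofNat 0, .ofNat 260594764794273515876633343825623785272732811264, .ofNat 0, .ofNat 19514646336773412560292916120363822738737715855914696704,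 .ofNat 0, .ofNat 611782373894891750309792339012392322699842551808, .ofNat 0, .ofNat 0, .ofNat 0, .ofNat 1827200622235033076750585725624221519427586228224, .ofNat 0⟩)
    (by decide +kernel)
theorem L04995 : Good (Phi V5.P V5.D (-1) (-1)) ⟨6, 56, 4, 9, 3, 6, 4, 1, 6, 9⟩ :=
  leafX_sound T5.ok_mm T5.Ymm.bz_eq (w := 255) (c := ⟨⟨.negSucc 6013, .negSucc 297, .ofNat 301, .ofNat 1503, .ofNat 244, .ofNat 498⟩, ⟨.ofNat 3673, .ofNat 235, .negSucc 35, .negSucc 961, .negSucc 161, .negSucc 317⟩, ⟨.ofNat 4100, .ofNat 361, .negSucc 492, .negSucc 291, .negSucc 322, .negSucc 319⟩, ⟨.negSucc 8615, .negSucc 247, .ofNat 307, .ofNat 1783, .ofNat 118, .ofNat 603⟩, ⟨.negSucc 36, .ofNat 118, .negSucc 158, .negSucc 577, .negSucc 359, .negSucc 195⟩, .ofNat 373, .ofNat 270, .ofNat 0, .ofNat 270, .ofNat 613, .ofNat 0, .ofNat 128, .negSucc 462, .negSucc 435, .ofNat 0, .ofNat 397, .ofNat 298, .ofNat 0, .ofNat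 0, .ofNat 517, .ofNat 16926, .ofNat 0, .ofNat 0, .ofNat 0, .ofNat 0, .ofNat 0, .ofNat 0, .ofNat 26784582760975053018753720772206645947440037888, .ofNat 0, .ofNat 0, .ofNat 0, .ofNat 133219039874242077546201508463386270439332380672, .ofNat 0, .ofNat 0, .ofNat 0, .ofNat 26395740743692711813442638446874527484216344576, .ofNat 0⟩)
    (by decide +kernel)
theorem L04996 : Good (Phi V5.P V5.D (-1) (-1)) ⟨6, 56, 4, 8, 3, 6, 3, 0, 5, 5⟩ :=
  out_sound (S := T5.ds_mm) T5.ok_mm (w := 65) (j := 3) (by decide +kernel)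
theorem L04997 : Good (Phi V5.P V5.D (-1) (-1)) ⟨6, 56, 4, 9, 3, 6, 4, 0, 5, 5⟩ :=
  leafX_sound T5.ok_mm T5.Ymm.bz_eq (w := 251) (c := ⟨⟨.negSucc 5316, .negSucc 102, .ofNat 102, .ofNat 1103, .ofNat 210, .ofNat 892⟩, ⟨.ofNat 3239, .ofNat 87, .ofNat 89, .negSucc 703, .negSucc 143, .negSucc 572⟩, ⟨.ofNat 3901, .ofNat 146, .negSucc 248, .negSucc 105, .negSucc 395, .negSucc 549⟩, ⟨.negSucc 7695, .ofNat 3, .ofNat 52, .ofNat 1359, .ofNat 117, .ofNat 1002⟩, ⟨.negSucc 162, .ofNat 83, .negSucc 100, .negSucc 342, .negSucc 290, .negSucc 442⟩, .ofNat 849, .ofNat 955, .ofNat 0, .ofNat 955, .ofNat 1723, .ofNat 0, .ofNat 128, .negSucc 615, .negSucc 215, .ofNat 0, .ofNat 464, .ofNat 143, .ofNat 0, .ofNat 0, .ofNat 437, .ofNat 53492, .ofNat 49360549288452332360109208642463553570824751323021312, .ofNat 0, .ofNat 58789732129781200352836791413562026858905600, .ofNat 0, .ofNat 47580275908029446075280203414796013653847154953814016,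 .ofNat 0, .ofNat 437012501873626349848600277785765374934908928, .ofNat 0, .ofNat 0, .ofNat 0, .ofNat 15200413415304297768538723716736005951780290560, .ofNat 0, .ofNat 163571881687197292810193027321122372885045575763886080, .ofNat 0, .ofNat 537638644610432953950904061128233326093533184, .ofNat 0⟩)
    (by decide +kernel)
theorem L04998 : Good (Phi V5.P V5.D (-1) (-1)) ⟨6, 56, 4, 9, 3, 6, 4, 1, 5, 5⟩ :=
  leafX_sound T5.ok_mm T5.Ymm.bz_eq (w := 251) (c := ⟨⟨.negSucc 5084, .negSucc 66, .ofNat 63, .ofNat 1148, .ofNat 148, .ofNat 870⟩, ⟨.ofNat 3076, .ofNat 57, .ofNat 122, .negSucc 730, .negSucc 96, .negSucc 554⟩, ⟨.ofNat 3442, .ofNat 13, .negSucc 44, .negSucc 272, .negSucc 295, .negSucc 557⟩, ⟨.negSucc 7620, .negSucc 3, .ofNat 65, .ofNat 1426, .ofNat 86, .ofNat 1031⟩, ⟨.negSucc 572, .negSucc 11, .ofNat 17, .negSucc 342, .negSucc 198, .negSucc 350⟩, .ofNat 774, .ofNat 830, .ofNat 0, .ofNat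 830, .ofNat 1513, .ofNat 0, .ofNat 128, .negSucc 611, .negSucc 358, .ofNat 0, .ofNat 471, .ofNat 240, .ofNat 0, .ofNat 0, .ofNat 635, .ofNat 24453, .ofNat 0, .ofNat 0, .ofNat 0, .ofNat 0, .ofNat 0, .ofNat 0, .ofNat 1280598116092018400069711455994862983469596672, .ofNat 0, .ofNat 0, .ofNat 0, .ofNat 14287077945212908109916292486141664756454391808, .ofNat 0, .ofNat 0, .ofNat 0, .ofNat 3905635101942004002391748838248620555059068928, .ofNat 0⟩)
    (by decide +kernel)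
theorem L04999 : Good (Phi V5.P V5.D (-1) (-1)) ⟨6, 56, 4, 8, 3, 7, 3, 0, 4, 2⟩ :=
  out_sound (S := T5.ds_mm) T5.ok_mm (w := 65) (j := 3) (by decide +kernel)
theorem L05000 : Good (Phi V5.P V5.D (-1) (-1)) ⟨6, 56, 4, 9, 3, 7, 3, 0, 4, 2⟩ :=
  leafX_sound T5.ok_mm T5.Ymm.bz_eq (w := 242) (c := ⟨⟨.negSucc 4835, .negSucc 31, .ofNat 87, .ofNat 758, .ofNat 429, .ofNat 1495⟩, ⟨.ofNat 2926, .ofNat 36, .ofNat 86, .negSucc 490, .negSucc 271, .negSucc 937⟩, ⟨.ofNat 4386, .ofNat 198, .ofNat 40, .negSucc 18, .negSucc 1073, .negSucc 1315⟩, ⟨.negSucc 7346, .negSucc 76, .negSucc 143, .ofNat 502, .ofNat 606, .ofNat 2329⟩, ⟨.negSucc 708, .negSucc 130, .negSucc 398, .negSucc 919, .negSucc 5, .ofNat 313⟩, .ofNat 3940, .ofNat 5736, .ofNat 0, .ofNat 5736, .ofNat 9191, .ofNat 0, .ofNat 128, .negSucc 618, .negSucc 423, .ofNat 0, .ofNat 422, .ofNat 262, .ofNat 0, .ofNat 0, .ofNat 895, .ofNat 5693, .ofNat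 0, .ofNat 0, .ofNat 0, .ofNat 0, .ofNat 0, .ofNat 0, .ofNat 14897583843594655129289930725391798542270464, .ofNat 0, .ofNat 0, .ofNat 0, .ofNat 5761897777513201227273369669891946771906560, .ofNat 0, .ofNat 0, .ofNat 0, .ofNat 0, .ofNat 0⟩)
    (by decide +kernel)
theorem L05001 : Good (Phi V5.P V5.D (-1) (-1)) ⟨6, 57, 3, 4, 2, 3, 3, 0, 4, 2⟩ :=
  out_sound (S := T5.ds_mm) T5.ok_mm (w := 63) (j := 3) (by decide +kernel)
theorem L05002 : Good (Phi V5.P V5.D (-1) (-1)) ⟨5, 29, 3, 4, 2, 3, 3, 0, 4, 2⟩ :=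
  out_sound (S := T5.ds_mm) T5.ok_mm (w := 57) (j := 3) (by decide +kernel)
theorem L05003 : Good (Phi V5.P V5.D (-1) (-1)) ⟨4, 15, 3, 4, 2, 3, 3, 0, 4, 2⟩ :=
  out_sound (S := T5.ds_mm) T5.ok_mm (w := 51) (j := 3) (by decide +kernel)
theorem L05004 : Good (Phi V5.P V5.D (-1) (-1)) ⟨2, 2, 3, 4, 2, 3, 3, 1, 4, 2⟩ :=
  out_sound (S := T5.ds_mm) T5.ok_mm (w := 39) (j := 3) (by decide +kernel)
theorem L05005 : Good (Phi V5.P V5.D (-1) (-1)) ⟨4, 12, 3, 4, 2, 3, 3, 1, 4, 2⟩ :=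
  out_sound (S := T5.ds_mm) T5.ok_mm (w := 51) (j := 3) (by decide +kernel)
theorem L05006 : Good (Phi V5.P V5.D (-1) (-1)) ⟨4, 13, 3, 4, 3, 6, 3, 1, 5, 4⟩ :=
  leafX_sound T5.ok_mm T5.Ymm.bz_eq (w := 235) (c := ⟨⟨.negSucc 4971, .negSucc 1068, .ofNat 499, .ofNat 1279, .ofNat 488, .ofNat 615⟩, ⟨.ofNat 2732, .ofNat 668, .ofNat 84, .negSucc 759, .negSucc 294, .negSucc 358⟩, ⟨.ofNat 3341, .ofNat 660, .negSucc 394, .negSucc 501, .negSucc 553, .negSucc 411⟩, ⟨.negSucc 8016, .negSucc 858, .ofNat 406, .ofNat 1619, .ofNat 422, .ofNat 861⟩, ⟨.negSucc 879, .ofNat 595, .negSucc 491, .negSucc 399, .negSucc 503, .negSucc 56⟩, .ofNat 1570, .ofNat 2159, .ofNat 0, .ofNat 2159, .ofNat 3850, .ofNat 0, .ofNat 128, .negSucc 940, .negSucc 671, .ofNat 0, .ofNat 603, .ofNat 403, .ofNat 0, .ofNat 0, .ofNat 821, .ofNat 3771, .ofNat 0, .ofNat 0, .ofNat 2117500755604066010906252170654066904399872, .ofNat 0,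 .ofNat 0, .ofNat 0, .ofNat 389893524377473020112453012335754491644084224, .ofNat 0, .ofNat 0, .ofNat 0, .ofNat 0, .ofNat 0, .ofNat 0, .ofNat 0, .ofNat 461336153681560963872503662085535981335740416, .ofNat 0⟩)
    (by decide +kernel)
theorem L05007 : Good (Phi V5.P V5.D (-1) (-1)) ⟨4, 13, 3, 4, 3, 7, 3, 1, 5, 4⟩ :=
  leafX_sound T5.ok_mm T5.Ymm.bz_eq (w := 234) (c := ⟨⟨.negSucc 3892, .negSucc 590, .ofNat 379, .ofNat 776, .ofNat 544, .ofNat 588⟩, ⟨.ofNat 2128, .ofNat 344, .ofNat 92, .negSucc 449, .negSucc 324, .negSucc 333⟩, ⟨.ofNat 3093, .ofNat 377, .negSucc 130, .negSucc 376, .negSucc 751, .negSucc 495⟩, ⟨.negSucc 6608, .negSucc 523, .ofNat 281, .ofNat 1122, .ofNat 619, .ofNat 941⟩, ⟨.negSucc 1263, .ofNat 92, .negSucc 320, .negSucc 11, .negSucc 302, .ofNat 141⟩, .ofNat 1541, .ofNat 2117, .ofNat 0, .ofNat 2117, .ofNat 3789, .ofNat 0, .ofNat 128, .negSucc 555, .negSucc 501, .ofNat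 0, .ofNat 368, .ofNat 284, .ofNat 0, .ofNat 0, .ofNat 733, .ofNat 3591, .ofNat 0, .ofNat 0, .ofNat 487992790284299654057973501530885754716160, .ofNat 0, .ofNat 0, .ofNat 0, .ofNat 174739252402369416887577420517074318997323776, .ofNat 0, .ofNat 0, .ofNat 0, .ofNat 0, .ofNat 0, .ofNat 0, .ofNat 0, .ofNat 1166262167967715794806764446390974200552620032, .ofNat 0⟩)
    (by decide +kernel)
theorem L05008 : Good (Phi V5.P V5.D (-1) (-1)) ⟨4, 13, 3, 4, 2, 3, 3, 1, 5, 5⟩ :=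
  leafX_sound T5.ok_mm T5.Ymm.bz_eq (w := 220) (c := ⟨⟨.negSucc 4578, .ofNat 82, .negSucc 61, .ofNat 1816, .ofNat 336, .ofNat 600⟩, ⟨.ofNat 2559, .negSucc 59, .ofNat 351, .negSucc 1066, .negSucc 202, .negSucc 355⟩, ⟨.ofNat 3101, .ofNat 22, .negSucc 39, .negSucc 809, .negSucc 514, .negSucc 425⟩, ⟨.negSucc 7391, .ofNat 161, .negSucc 14, .ofNat 2685, .ofNat 367, .ofNat 856⟩, ⟨.negSucc 944, .negSucc 326, .ofNat 212, .ofNat 75, .negSucc 211, .negSucc 42⟩, .ofNat 1099, .ofNat 1391, .ofNat 0, .ofNat 1391, .ofNat 2575, .ofNat 0, .ofNat 128, .negSucc 652, .negSucc 330, .ofNat 0, .ofNat 454, .ofNat 192, .ofNat 0, .ofNat 0, .ofNat 653, .ofNat 4236, .ofNat 0, .ofNat 0, .ofNat 144155644664212631487259152050626232320, .ofNat 0, .ofNat 0, .ofNat 0, .ofNat 7061640978850598481737136023310381875200, .ofNat 0, .ofNat 0, .ofNat 0, .ofNat 29298222935559529158891039835533760004096, .ofNat 0, .ofNat 0,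 .ofNat 0, .ofNat 24225591906815128828709071819626048913408, .ofNat 0⟩)
    (by decide +kernel)
theorem L05009 : Good (Phi V5.P V5.D (-1) (-1)) ⟨5, 28, 4, 8, 2, 3, 3, 1, 5, 4⟩ :=
  out_sound (S := T5.ds_mm) T5.ok_mm (w := 59) (j := 3) (by decide +kernel)
theorem L05010 : Good (Phi V5.P V5.D (-1) (-1)) ⟨6, 56, 4, 9, 3, 6, 3, 1, 5, 4⟩ :=
  leafX_sound T5.ok_mm T5.Ymm.bz_eq (w := 248) (c := ⟨⟨.negSucc 6226, .negSucc 388, .ofNat 450, .ofNat 1616, .ofNat 568, .ofNat 702⟩, ⟨.ofNat 3792, .ofNat 284, .negSucc 122, .negSucc 1027, .negSucc 369, .negSucc 440⟩, ⟨.ofNat 4109, .ofNat 413, .negSucc 532, .negSucc 610, .negSucc 547, .negSucc 466⟩, ⟨.negSucc 9027, .negSucc 274, .ofNat 359, .ofNat 1898, .ofNat 455, .ofNat 961⟩, ⟨.negSucc 265, .ofNat 210, .negSucc 330, .negSucc 644, .negSucc 562, .negSucc 65⟩, .ofNat 2365, .ofNat 3247, .ofNat 0, .ofNat 3247, .ofNat 5255, .ofNat 0, .ofNat 128, .negSucc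 1387, .negSucc 1231, .ofNat 0, .ofNat 938, .ofNat 795, .ofNat 0, .ofNat 0, .ofNat 1353, .ofNat 10646, .ofNat 0, .ofNat 0, .ofNat 0, .ofNat 0, .ofNat 0, .ofNat 0, .ofNat 317781580561838742855985937196932935320600576, .ofNat 0, .ofNat 0, .ofNat 0, .ofNat 513453479385708332860063391966577720544985088, .ofNat 0, .ofNat 0, .ofNat 0, .ofNat 243848884997694894867457627248177420924092416, .ofNat 0⟩)
    (by decide +kernel)
theorem L05011 : Good (Phi V5.P V5.D (-1) (-1)) ⟨6, 56, 4, 9, 3, 7, 3, 1, 5, 4⟩ :=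
  leafX_sound T5.ok_mm T5.Ymm.bz_eq (w := 248) (c := ⟨⟨.negSucc 4379, .negSucc 89, .ofNat 120, .ofNat 768, .ofNat 572, .ofNat 712⟩, ⟨.ofNat 2622, .ofNat 52, .ofNat 83, .negSucc 488, .negSucc 363, .negSucc 444⟩, ⟨.ofNat 3268, .negSucc 39, .ofNat 130, .negSucc 80, .negSucc 807, .negSucc 583⟩, ⟨.negSucc 7016, .negSucc 42, .negSucc 63, .ofNat 779, .ofNat 773, .ofNat 1144⟩, ⟨.negSucc 1266, .ofNat 19, .negSucc 281, .negSucc 492, .negSucc 67, .ofNat 209⟩, .ofNat 3892, .ofNat 5663, .ofNat 0, .ofNat 5663, .ofNat 9081, .ofNat 0, .ofNat 128, .negSucc 794, .negSucc 777, .ofNat 0, .ofNat 527, .ofNat 485, .ofNat 0, .ofNat 0, .ofNat 1092, .ofNat 7220, .ofNat 0, .ofNat 0, .ofNat 0, .ofNat 0, .ofNat 0, .ofNat 0, .ofNat 543163106952512168288250347077412367384969216, .ofNat 0, .ofNat 0, .ofNat 0, .ofNat 88841325727420879357446750234062835435962368, .ofNat 0, .ofNat 0, .ofNat 0, .ofNat 146271931912224977414767085596815459776200704,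 .ofNat 0⟩)
    (by decide +kernel)
theorem L05012 : Good (Phi V5.P V5.D (-1) (-1)) ⟨6, 57, 4, 9, 2, 3, 3, 1, 5, 4⟩ :=
  out_sound (S := T5.ds_mm) T5.ok_mm (w := 65) (j := 3) (by decide +kernel)
theorem L05013 : Good (Phi V5.P V5.D (-1) (-1)) ⟨6, 56, 4, 8, 2, 3, 3, 1, 5, 5⟩ :=
  out_sound (S := T5.ds_mm) T5.ok_mm (w := 65) (j := 3) (by decide +kernel)
theorem L05014 : Good (Phi V5.P V5.D (-1) (-1)) ⟨6, 56, 4, 9, 2, 3, 3, 1, 5, 5⟩ :=
  leafX_sound T5.ok_mm T5.Ymm.bz_eq (w := 231) (c := ⟨⟨.negSucc 4921, .negSucc 262, .ofNat 411, .ofNat 1984, .ofNat 336, .ofNat 581⟩, ⟨.ofNat 2978, .ofNat 179, .negSucc 106, .negSucc 1254, .negSucc 220, .negSucc 368⟩, ⟨.ofNat 3339, .ofNat 233, .negSucc 389, .negSucc 659, .negSucc 511, .negSucc 461⟩, ⟨.negSucc 7577, .negSucc 182, .ofNat 334, .ofNat 2781, .ofNat 352, .ofNat 863⟩, ⟨.negSucc 881, .ofNat 205, .negSucc 315, .negSucc 118, .negSucc 215, .ofNat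 34⟩, .ofNat 847, .ofNat 952, .ofNat 0, .ofNat 952, .ofNat 1718, .ofNat 0, .ofNat 128, .negSucc 516, .negSucc 372, .ofNat 0, .ofNat 389, .ofNat 226, .ofNat 0, .ofNat 0, .ofNat 686, .ofNat 3497, .ofNat 0, .ofNat 0, .ofNat 12132986415936599264911441315844063232, .ofNat 0, .ofNat 0, .ofNat 0, .ofNat 2349755842881259395010904816586248421376, .ofNat 0, .ofNat 0, .ofNat 0, .ofNat 1839913103936334927256070866021541478400, .ofNat 0, .ofNat 0, .ofNat 0, .ofNat 14270729099973271456611498583198277828608, .ofNat 0⟩)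
    (by decide +kernel)
theorem L05015 : Good (Phi V5.P V5.D (-1) (-1)) ⟨6, 57, 3, 4, 2, 3, 3, 1, 5, 5⟩ :=
  out_sound (S := T5.ds_mm) T5.ok_mm (w := 63) (j := 3) (by decide +kernel)
theorem L05016 : Good (Phi V5.P V5.D (-1) (-1)) ⟨5, 29, 3, 4, 2, 3, 3, 1, 4, 2⟩ :=
  out_sound (S := T5.ds_mm) T5.ok_mm (w := 57) (j := 3) (by decide +kernel)
theorem L05017 : Good (Phi V5.P V5.D (-1) (-1)) ⟨4, 15, 3, 4, 2, 3, 3, 1, 4, 2⟩ :=
  out_sound (S := T5.ds_mm) T5.ok_mm (w := 51) (j := 3) (by decide +kernel)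
theorem L05018 : Good (Phi V5.P V5.D (-1) (-1)) ⟨2, 2, 3, 4, 2, 3, 2, 0, 4, 3⟩ :=
  out_sound (S := T5.ds_mm) T5.ok_mm (w := 39) (j := 3) (by decide +kernel)
theorem L05019 : Good (Phi V5.P V5.D (-1) (-1)) ⟨4, 12, 3, 4, 2, 3, 2, 0, 4, 3⟩ :=
  out_sound (S := T5.ds_mm) T5.ok_mm (w := 51) (j := 3) (by decide +kernel)
theorem L05020 : Good (Phi V5.P V5.D (-1) (-1)) ⟨4, 13, 3, 4, 3, 6, 3, 0, 4, 3⟩ :=
  leafX_sound T5.ok_mm T5.Ymm.bz_eq (w := 229) (c := ⟨⟨.negSucc 3802, .negSucc 289, .ofNat 127, .ofNat 730, .ofNat 254, .ofNat 941⟩, ⟨.ofNat 2114, .ofNat 149, .ofNat 228, .negSucc 431, .negSucc 157, .negSucc 559⟩, ⟨.ofNat 3061, .ofNat 298, .negSucc 284, .negSucc 279, .negSucc 640, .negSucc 681⟩, ⟨.negSucc 6335, .negSucc 148, .ofNat 71, .ofNat 980, .ofNat 285, .ofNat 1309⟩, ⟨.negSucc 1038, .ofNat 43, .negSucc 65, .negSucc 160, .negSucc 135, .negSucc 158⟩, .ofNat 366, .ofNat 260, .ofNat 0,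 .ofNat 260, .ofNat 642, .ofNat 0, .ofNat 128, .negSucc 210, .negSucc 103, .ofNat 0, .ofNat 213, .ofNat 67, .ofNat 0, .ofNat 0, .ofNat 349, .ofNat 10172, .ofNat 34067338796746962567447716462655375325165256704, .ofNat 0, .ofNat 90239549182223695463392582543183460696064, .ofNat 0, .ofNat 0, .ofNat 0, .ofNat 403311468488685472638627147243301128634368, .ofNat 0, .ofNat 197095012629720941008044924481440535855461564416, .ofNat 0, .ofNat 3250078751251710499527877087346540519882752, .ofNat 0, .ofNat 558212917835686314338249618887503510909633953792, .ofNat 0, .ofNat 2634711460778624418349573987575146213277696, .ofNat 0⟩)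
    (by decide +kernel)
theorem L05021 : Good (Phi V5.P V5.D (-1) (-1)) ⟨4, 13, 3, 4, 3, 6, 3, 1, 4, 3⟩ :=
  leafX_sound T5.ok_mm T5.Ymm.bz_eq (w := 228) (c := ⟨⟨.negSucc 3502, .negSucc 305, .ofNat 147, .ofNat 725, .ofNat 214, .ofNat 850⟩, ⟨.ofNat 1928, .ofNat 154, .ofNat 217, .negSucc 425, .negSucc 124, .negSucc 491⟩, ⟨.ofNat 2541, .ofNat 123, .negSucc 166, .negSucc 401, .negSucc 457, .negSucc 652⟩, ⟨.negSucc 6020, .negSucc 193, .ofNat 102, .ofNat 987, .ofNat 285, .ofNat 1280⟩, ⟨.negSucc 1293, .ofNat 121, .negSucc 118, .negSucc 152, .negSucc 54, .ofNat 1⟩, .ofNat 364, .ofNat 258, .ofNat 0, .ofNat 258, .ofNat 642, .ofNat 0, .ofNat 128, .negSucc 214, .negSucc 97, .ofNat 0, .ofNat 209, .ofNat 59, .ofNat 0, .ofNat 0, .ofNat 290, .ofNat 4228, .ofNat 0, .ofNat 0, .ofNat 0, .ofNat 0, .ofNat 0, .ofNat 0, .ofNat 710928713940864342127451795924740265213952, .ofNat 0, .ofNat 0, .ofNat 0, .ofNat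 2331349889994541118457216081564363923652608, .ofNat 0, .ofNat 0, .ofNat 0, .ofNat 2191455214842548860357962312865524882604032, .ofNat 0⟩)
    (by decide +kernel)
theorem L05022 : Good (Phi V5.P V5.D (-1) (-1)) ⟨4, 13, 3, 4, 3, 7, 2, 0, 4, 3⟩ :=
  leafX_sound T5.ok_mm T5.Ymm.bz_eq (w := 224) (c := ⟨⟨.negSucc 3037, .negSucc 55, .ofNat 69, .ofNat 565, .ofNat 479, .ofNat 643⟩, ⟨.ofNat 1658, .ofNat 29, .ofNat 203, .negSucc 318, .negSucc 284, .negSucc 369⟩, ⟨.ofNat 2773, .ofNat 177, .negSucc 47, .negSucc 293, .negSucc 1234, .negSucc 646⟩, ⟨.negSucc 5375, .ofNat 97, .negSucc 3, .ofNat 1179, .ofNat 668, .ofNat 1009⟩, ⟨.negSucc 1380, .negSucc 24, .negSucc 75, .ofNat 603, .negSucc 60, .ofNat 105⟩, .ofNat 874, .ofNat 1066, .ofNat 0, .ofNat 1066, .ofNat 2094, .ofNat 0, .ofNat 128, .negSucc 450, .negSucc 186, .ofNat 0, .ofNat 351, .ofNat 87, .ofNat 0, .ofNat 0, .ofNat 890, .ofNat 4232, .ofNat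 0, .ofNat 0, .ofNat 0, .ofNat 0, .ofNat 0, .ofNat 0, .ofNat 208359658555014911897281611692999681507328, .ofNat 0, .ofNat 0, .ofNat 0, .ofNat 0, .ofNat 0, .ofNat 64829500131067951874345678597968952109163347968, .ofNat 0, .ofNat 3371563657477543051775797402089548937166848, .ofNat 0⟩)
    (by decide +kernel)
theorem L05023 : Good (Phi V5.P V5.D (-1) (-1)) ⟨6, 56, 3, 4, 3, 6, 3, 0, 4, 3⟩ :=
  leafX_sound T5.ok_mm T5.Ymm.bz_eq (w := 238) (c := ⟨⟨.negSucc 4169, .negSucc 158, .ofNat 253, .ofNat 764, .ofNat 192, .ofNat 954⟩, ⟨.ofNat 2363, .ofNat 97, .ofNat 133, .negSucc 484, .negSucc 126, .negSucc 604⟩, ⟨.ofNat 3289, .ofNat 4, .negSucc 210, .negSucc 253, .negSucc 633, .negSucc 667⟩, ⟨.negSucc 6543, .negSucc 133, .ofNat 219, .ofNat 1016, .ofNat 208, .ofNat 1289⟩, ⟨.negSucc 1038, .ofNat 28, .negSucc 69, .negSucc 121, .negSucc 101, .negSucc 134⟩, .ofNat 846, .ofNat 951, .ofNat 0, .ofNat 951,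 .ofNat 1718, .ofNat 0, .ofNat 128, .negSucc 572, .negSucc 160, .ofNat 0, .ofNat 450, .ofNat 105, .ofNat 0, .ofNat 0, .ofNat 575, .ofNat 16848, .ofNat 14419583050329384388445948744896465603276885196800, .ofNat 0, .ofNat 25923905280775399676541436402036757233664, .ofNat 0, .ofNat 0, .ofNat 0, .ofNat 546346558002200604472153384201595975106560, .ofNat 0, .ofNat 0, .ofNat 0, .ofNat 0, .ofNat 0, .ofNat 174061836302548903271474596216509599083582860558336, .ofNat 0, .ofNat 998672942705002588405523300105934814052352, .ofNat 0⟩)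
    (by decide +kernel)

end Crest.Agent.R097C5.N5mm
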