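import Crest.Agent.R097.KP7
import Crest.Agent.R097.T5Ymm

/-!
# Row 97, box cover in dimension n = 5 (generated)
-/

set_option autoImplicit false
set_option Elab.async false
set_option maxHeartbeats 0
set_option maxRecDepth 100000

open Crest.Agent.R097 Crest.Agent.R097.KA


namespace Crest.Agent.R097C5.N5mm

theorem L05024 : Good (Phi V5.P V5.D (-1) (-1)) ⟨6, 56, 3, 4, 3, 6, 3, 1, 4, 3⟩ :=
  leafX_sound T5.ok_mm T5.Ymm.bz_eq (w := 237) (c := ⟨⟨.negSucc 3558, .negSucc 49, .negSucc 156, .ofNat 770, .ofNat 213, .ofNat 851⟩, ⟨.ofNat 2005, .ofNat 37, .ofNat 356, .negSucc 490, .negSucc 136, .negSucc 539⟩, ⟨.ofNat 2560, .negSucc 52, .negSucc 33, .negSucc 401, .negSucc 451, .negSucc 651⟩, ⟨.negSucc 5963, .negSucc 19, .negSucc 195, .ofNat 1037, .ofNat 287, .ofNat 1253⟩, ⟨.negSucc 1454, .ofNat 1, .ofNat 139, .negSucc 103, .negSucc 28, .ofNat 50⟩, .ofNat 706, .ofNat 723, .ofNat 0, .ofNat 723, .ofNat 1349,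 .ofNat 0, .ofNat 128, .negSucc 432, .negSucc 168, .ofNat 0, .ofNat 357, .ofNat 109, .ofNat 0, .ofNat 0, .ofNat 487, .ofNat 5411, .ofNat 0, .ofNat 0, .ofNat 0, .ofNat 0, .ofNat 0, .ofNat 0, .ofNat 1184955431113817030693265421779526127452160, .ofNat 0, .ofNat 0, .ofNat 0, .ofNat 0, .ofNat 0, .ofNat 0, .ofNat 0, .ofNat 530903247384485500389457502920633959317504, .ofNat 0⟩)
    (by decide +kernel)
theorem L05025 : Good (Phi V5.P V5.D (-1) (-1)) ⟨6, 57, 3, 4, 3, 6, 2, 0, 4, 3⟩ :=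
  out_sound (S := T5.ds_mm) T5.ok_mm (w := 63) (j := 3) (by decide +kernel)
theorem L05026 : Good (Phi V5.P V5.D (-1) (-1)) ⟨5, 29, 3, 4, 3, 6, 2, 0, 4, 3⟩ :=
  out_sound (S := T5.ds_mm) T5.ok_mm (w := 57) (j := 3) (by decide +kernel)
theorem L05027 : Good (Phi V5.P V5.D (-1) (-1)) ⟨5, 28, 4, 8, 3, 7, 2, 0, 4, 3⟩ :=
  out_sound (S := T5.ds_mm) T5.ok_mm (w := 59) (j := 3) (by decide +kernel)
theorem L05028 : Good (Phi V5.P V5.D (-1) (-1)) ⟨6, 56, 4, 9, 3, 7, 2, 0, 4, 3⟩ :=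
  leafX_sound T5.ok_mm T5.Ymm.bz_eq (w := 236) (c := ⟨⟨.negSucc 3027, .ofNat 40, .negSucc 33, .ofNat 615, .ofNat 484, .ofNat 628⟩, ⟨.ofNat 1798, .negSucc 34, .ofNat 146, .negSucc 381, .negSucc 306, .negSucc 394⟩, ⟨.ofNat 2885, .ofNat 5, .ofNat 23, .negSucc 74, .negSucc 1340, .negSucc 675⟩, ⟨.negSucc 5260, .ofNat 111, .negSucc 87, .ofNat 1135, .ofNat 738, .ofNat 1028⟩, ⟨.negSucc 1511, .ofNat 8, .negSucc 2, .ofNat 409, .ofNat 68, .ofNat 208⟩, .ofNat 1563, .ofNat 2021, .ofNat 0, .ofNat 2021, .ofNat 3362, .ofNat 0, .ofNat 128, .negSucc 542, .negSucc 255, .ofNat 0, .ofNat 428, .ofNat 140, .ofNat 0, .ofNat 0, .ofNat 1237, .ofNat 5798, .ofNat 0, .ofNat 0, .ofNat 0, .ofNat 0, .ofNat 0, .ofNat 0, .ofNat 234976654431642021066381717834251058020352, .ofNat 0, .ofNat 0, .ofNat 0, .ofNat 261383044399609664333952841699273790717952, .ofNat 0, .ofNat 0, .ofNat 0, .ofNat 0, .ofNat 0⟩)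
    (by decide +kernel)
theorem L05029 : Good (Phi V5.P V5.D (-1) (-1)) ⟨6, 57, 4, 9, 3, 7, 2, 0, 4, 3⟩ :=
  out_sound (S := T5.ds_mm) T5.ok_mm (w := 65) (j := 3) (by decide +kernel)
theorem L05030 : Good (Phi V5.P V5.D (-1) (-1)) ⟨5, 29, 3, 4, 3, 7, 2, 0, 4, 3⟩ :=
  out_sound (S := T5.ds_mm) T5.ok_mm (w := 57) (j := 3) (by decide +kernel)
theorem L05031 : Good (Phi V5.P V5.D (-1) (-1)) ⟨4, 15, 3, 4, 2, 3, 2, 0, 4, 3⟩ :=
  out_sound (S := T5.ds_mm) T5.ok_mm (w := 51) (j := 3) (by decide +kernel)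
theorem L05032 : Good (Phi V5.P V5.D (-1) (-1)) ⟨2, 2, 3, 5, 2, 3, 3, 0, 4, 0⟩ :=
  out_sound (S := T5.ds_mm) T5.ok_mm (w := 39) (j := 3) (by decide +kernel)
theorem L05033 : Good (Phi V5.P V5.D (-1) (-1)) ⟨3, 6, 3, 5, 3, 6, 3, 0, 4, 0⟩ :=
  out_sound (S := T5.ds_mm) T5.ok_mm (w := 45) (j := 3) (by decide +kernel)
theorem L05034 : Good (Phi V5.P V5.D (-1) (-1)) ⟨5, 28, 3, 5, 3, 6, 3, 0, 5, 0⟩ :=
  leafX_sound T5.ok_mm T5.Ymm.bz_eq (w := 239) (c := ⟨⟨.ofNat 5559, .ofNat 1836, .negSucc 1667, .negSucc 2784, .negSucc 1118, .ofNat 935⟩, ⟨.negSucc 3568, .negSucc 1404, .ofNat 1010, .ofNat 1839, .ofNat 744, .negSucc 614⟩, ⟨.negSucc 454, .ofNat 867, .negSucc 509, .ofNat 2202, .negSucc 927, .negSucc 805⟩, ⟨.ofNat 6000, .ofNat 2507, .negSucc 1981, .negSucc 2345, .ofNat 101, .negSucc 138⟩, ⟨.negSucc 2802, .negSucc 721, .ofNat 1786, .ofNat 2453, .ofNat 2578, .negSucc 2247⟩, .ofNat 905, .ofNat 1024, .ofNat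 0, .ofNat 1024, .ofNat 1784, .ofNat 0, .ofNat 128, .negSucc 1392, .negSucc 499, .ofNat 0, .ofNat 912, .ofNat 309, .ofNat 0, .ofNat 0, .ofNat 650, .ofNat 2640, .ofNat 0, .ofNat 0, .ofNat 0, .ofNat 0, .ofNat 5918358726061429008044080580901252311295323013120, .ofNat 0, .ofNat 49215704912524151773844285688557705189392384, .ofNat 1444397700203229232521715152925697936944538786463744, .ofNat 0, .ofNat 0, .ofNat 86041058238169263032811253103973412619943936, .ofNat 0, .ofNat 0, .ofNat 0, .ofNat 49207630570609317656014741431790775631347712, .ofNat 14145461043049644679144449355536594083521619006849024⟩)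
    (by decide +kernel)
theorem L05035 : Good (Phi V5.P V5.D (-1) (-1)) ⟨5, 29, 3, 5, 3, 6, 3, 0, 5, 0⟩ :=
  out_sound (S := T5.ds_mm) T5.ok_mm (w := 17) (j := 4) (by decide +kernel)
theorem L05036 : Good (Phi V5.P V5.D (-1) (-1)) ⟨5, 28, 4, 10, 3, 6, 3, 0, 6, 2⟩ :=
  leafX_sound T5.ok_mm T5.Ymm.bz_eq (w := 247) (c := ⟨⟨.ofNat 7072, .ofNat 3693, .negSucc 1091, .negSucc 4548, .negSucc 1773, .negSucc 97⟩, ⟨.negSucc 4516, .negSucc 2839, .ofNat 780, .ofNat 2986, .ofNat 1189, .ofNat 55⟩, ⟨.negSucc 1501, .ofNat 736, .negSucc 437, .ofNat 2857, .negSucc 698, .negSucc 327⟩, ⟨.ofNat 6338, .ofNat 4425, .negSucc 1172, .negSucc 4383, .negSucc 251, .negSucc 913⟩, ⟨.negSucc 5805, .negSucc 1072, .ofNat 887, .ofNat 3178, .ofNat 3464, .negSucc 1149⟩, .ofNat 901, .ofNat 1020, .ofNat 0, .ofNat 1020, .ofNat 1780, .ofNat 0, .ofNat 128, .negSucc 1470, .negSucc 656, .ofNat 0, .ofNat 966, .ofNat 413, .ofNat 0, .ofNat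 0, .ofNat 662, .ofNat 2271, .ofNat 207865423138337380536715985929055015997411904454656, .ofNat 0, .ofNat 171901363265200433975138692838422820381786112, .ofNat 0, .ofNat 0, .ofNat 0, .ofNat 4099784083144416084336166091292834571223040000, .ofNat 0, .ofNat 10351887822062753393943668850199122945580379890778112, .ofNat 0, .ofNat 6998350385454097191452178089016179753417179136, .ofNat 0, .ofNat 859149068619795963622425707560222809313158262423552, .ofNat 0, .ofNat 15692251521171321274098356244575378809980715008, .ofNat 1019161056954333973836826311094228115169572215448403968⟩)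
    (by decide +kernel)
theorem L05037 : Good (Phi V5.P V5.D (-1) (-1)) ⟨6, 56, 4, 11, 3, 6, 3, 0, 6, 2⟩ :=
  out_sound (S := T5.ds_mm) T5.ok_mm (w := 65) (j := 3) (by decide +kernel)
theorem L05038 : Good (Phi V5.P V5.D (-1) (-1)) ⟨7, 114, 5, 22, 3, 6, 3, 0, 6, 2⟩ :=
  out_sound (S := T5.ds_mm) T5.ok_mm (w := 73) (j := 3) (by decide +kernel)
theorem L05039 : Good (Phi V5.P V5.D (-1) (-1)) ⟨7, 115, 5, 22, 3, 6, 3, 0, 6, 2⟩ :=
  out_sound (S := T5.ds_mm) T5.ok_mm (w := 21) (j := 4) (by decide +kernel)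
theorem L05040 : Good (Phi V5.P V5.D (-1) (-1)) ⟨6, 57, 5, 23, 3, 6, 3, 0, 6, 2⟩ :=
  out_sound (S := T5.ds_mm) T5.ok_mm (w := 67) (j := 3) (by decide +kernel)
theorem L05041 : Good (Phi V5.P V5.D (-1) (-1)) ⟨5, 28, 3, 5, 3, 6, 4, 0, 6, 3⟩ :=
  leafX_sound T5.ok_mm T5.Ymm.bz_eq (w := 250) (c := ⟨⟨.ofNat 9337, .ofNat 291, .ofNat 1145, .negSucc 6613, .negSucc 1272, .negSucc 1452⟩, ⟨.negSucc 6108, .negSucc 338, .negSucc 854, .ofNat 4351, .ofNat 870, .ofNat 975⟩, ⟨.negSucc 2106, .negSucc 507, .ofNat 738, .ofNat 3685, .negSucc 282, .ofNat 229⟩, ⟨.ofNat 7908, .ofNat 507, .ofNat 897, .negSucc 6575, .negSucc 307, .negSucc 2383⟩, ⟨.negSucc 8246, .ofNat 158, .negSucc 82, .ofNat 4295, .ofNat 2279, .negSucc 577⟩, .ofNat 1479, .ofNat 1882, .ofNat 0, .ofNat 1882, .ofNat 3096, .ofNat 0, .ofNat 128, .negSucc 2183, .negSucc 1379, .ofNat 0, .ofNat 1450, .ofNat 896, .ofNat 0, .ofNat 0, .ofNat 1229, .ofNat 5496,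 .ofNat 1506070967197738260127670589371190878163202920677376, .ofNat 0, .ofNat 2971418838721456677866104864297312962610200576, .ofNat 169480955460353788588048298085097504038836831931858944, .ofNat 0, .ofNat 0, .ofNat 40152183349765517238613283624145537352350040064, .ofNat 8225048571339894664190518053494334732440074111776980992, .ofNat 118447476579800251407427663440138462535719060143865856, .ofNat 0, .ofNat 240893424601698507694413507095191789164235325440, .ofNat 82520976796575421085433601231747147678831041191218249728, .ofNat 10356287740938400904858952452424061408465266354946048, .ofNat 0, .ofNat 192161615084368890760748218453047812209644666880, .ofNat 29509577115045125459648773338605617008030578149188173824⟩)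
    (by decide +kernel)
theorem L05042 : Good (Phi V5.P V5.D (-1) (-1)) ⟨5, 28, 3, 5, 3, 6, 4, 1, 6, 3⟩ :=
  leafX_sound T5.ok_mm T5.Ymm.bz_eq (w := 252) (c := ⟨⟨.ofNat 6533, .negSucc 171, .ofNat 1067, .negSucc 3997, .negSucc 422, .negSucc 1089⟩, ⟨.negSucc 4135, .negSucc 531, .negSucc 194, .ofNat 2639, .ofNat 284, .ofNat 717⟩, ⟨.negSucc 1882, .negSucc 457, .ofNat 539, .ofNat 2774, .negSucc 298, .ofNat 269⟩, ⟨.ofNat 5822, .negSucc 290, .ofNat 1220, .negSucc 3072, .ofNat 163, .negSucc 2129⟩, ⟨.negSucc 5450, .ofNat 601, .negSucc 493, .ofNat 3909, .ofNat 1155, .negSucc 903⟩, .ofNat 4888, .ofNat 7002, .ofNat 0, .ofNat 7002, .ofNat 10793, .ofNat 0, .ofNat 128, .negSucc 1320, .negSucc 961, .ofNat 0, .ofNat 876, .ofNat 635, .ofNat 0, .ofNat 0, .ofNat 887, .ofNat 3609, .ofNat 0, .ofNat 0, .ofNat 1890460171978584721893457395934600106182967296, .ofNat 0, .ofNat 0, .ofNat 0, .ofNat 484276652537508247672556343288786285366513500160,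 .ofNat 24933142684308108700217360441543978212324617290680107008, .ofNat 0, .ofNat 0, .ofNat 120083266042069209364996186826303693777277026304, .ofNat 44999085103326017049348603122666183853570183403952668672, .ofNat 0, .ofNat 0, .ofNat 76405428027060717894852990125127124886155689984, .ofNat 16807952031590173963733346193271897840349067234351513600⟩)
    (by decide +kernel)
theorem L05043 : Good (Phi V5.P V5.D (-1) (-1)) ⟨5, 29, 3, 5, 3, 6, 3, 0, 5, 1⟩ :=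
  out_sound (S := T5.ds_mm) T5.ok_mm (w := 17) (j := 4) (by decide +kernel)
theorem L05044 : Good (Phi V5.P V5.D (-1) (-1)) ⟨4, 15, 3, 5, 3, 6, 3, 0, 4, 0⟩ :=
  out_sound (S := T5.ds_mm) T5.ok_mm (w := 51) (j := 3) (by decide +kernel)
theorem L05045 : Good (Phi V5.P V5.D (-1) (-1)) ⟨3, 6, 3, 5, 3, 7, 3, 0, 4, 0⟩ :=
  out_sound (S := T5.ds_mm) T5.ok_mm (w := 45) (j := 3) (by decide +kernel)
theorem L05046 : Good (Phi V5.P V5.D (-1) (-1)) ⟨5, 28, 4, 10, 4, 14, 3, 0, 4, 0⟩ :=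
  leafX_sound T5.ok_mm T5.Ymm.bz_eq (w := 255) (c := ⟨⟨.ofNat 3422, .ofNat 0, .ofNat 733, .negSucc 231, .ofNat 234, .negSucc 2672⟩, ⟨.negSucc 2156, .negSucc 268, .negSucc 398, .ofNat 142, .negSucc 137, .ofNat 1716⟩, ⟨.ofNat 1739, .negSucc 296, .ofNat 205, .ofNat 650, .negSucc 1439, .ofNat 453⟩, ⟨.ofNat 3973, .ofNat 146, .ofNat 444, .negSucc 247, .ofNat 2503, .negSucc 5456⟩, ⟨.negSucc 1337, .ofNat 115, .negSucc 694, .ofNat 135, .ofNat 3289, .negSucc 2553⟩, .ofNat 3848, .ofNat 5461, .ofNat 0, .ofNat 5461, .ofNat 8533, .ofNat 0, .ofNat 128, .negSucc 1790, .negSucc 1717, .ofNat 0, .ofNat 1182, .ofNat 1101, .ofNat 0, .ofNat 0, .ofNat 1870, .ofNat 4261, .ofNat 0, .ofNat 0, .ofNat 0, .ofNat 0, .ofNat 0, .ofNat 0, .ofNat 567754826504896470643237301176397348435065307136, .ofNat 13593460786914208651753685598990737283305191022618738688, .ofNat 0, .ofNat 0, .ofNat 300180478667504094984068258922031570203290107904,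 .ofNat 868701417000790311451101330416191848804734027881984819200, .ofNat 0, .ofNat 0, .ofNat 0, .ofNat 0⟩)
    (by decide +kernel)
theorem L05047 : Good (Phi V5.P V5.D (-1) (-1)) ⟨6, 56, 4, 11, 4, 14, 3, 0, 4, 0⟩ :=
  out_sound (S := T5.ds_mm) T5.ok_mm (w := 65) (j := 3) (by decide +kernel)
theorem L05048 : Good (Phi V5.P V5.D (-1) (-1)) ⟨7, 114, 5, 22, 4, 14, 3, 0, 4, 0⟩ :=
  out_sound (S := T5.ds_mm) T5.ok_mm (w := 73) (j := 3) (by decide +kernel)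
theorem L05049 : Good (Phi V5.P V5.D (-1) (-1)) ⟨7, 115, 5, 22, 4, 14, 3, 0, 4, 0⟩ :=
  out_sound (S := T5.ds_mm) T5.ok_mm (w := 21) (j := 4) (by decide +kernel)
theorem L05050 : Good (Phi V5.P V5.D (-1) (-1)) ⟨6, 57, 5, 23, 4, 14, 3, 0, 4, 0⟩ :=
  out_sound (S := T5.ds_mm) T5.ok_mm (w := 67) (j := 3) (by decide +kernel)
theorem L05051 : Good (Phi V5.P V5.D (-1) (-1)) ⟨5, 29, 3, 5, 4, 14, 3, 0, 4, 0⟩ :=
  out_sound (S := T5.ds_mm) T5.ok_mm (w := 17) (j := 4) (by decide +kernel)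
theorem L05052 : Good (Phi V5.P V5.D (-1) (-1)) ⟨4, 15, 3, 5, 4, 14, 3, 0, 4, 0⟩ :=
  out_sound (S := T5.ds_mm) T5.ok_mm (w := 51) (j := 3) (by decide +kernel)
theorem L05053 : Good (Phi V5.P V5.D (-1) (-1)) ⟨6, 56, 4, 10, 4, 15, 4, 0, 5, 0⟩ :=
  leafX_sound T5.ok_mm T5.Ymm.bz_eq (w := 268) (c := ⟨⟨.ofNat 2757, .negSucc 46, .ofNat 1279, .ofNat 2025, .negSucc 110, .ofNat 390⟩, ⟨.negSucc 1747, .negSucc 39, .negSucc 896, .negSucc 1346, .ofNat 101, .negSucc 268⟩, ⟨.ofNat 2492, .negSucc 400, .ofNat 309, .negSucc 362, .negSucc 770, .negSucc 134⟩, ⟨.ofNat 2258, .negSucc 54, .ofNat 1537, .ofNat 190, .ofNat 2654, .negSucc 684⟩, ⟨.negSucc 2767, .ofNat 331, .negSucc 343, .negSucc 4107, .ofNat 4324, .negSucc 1890⟩, .ofNat 3507, .ofNat 5018, .ofNat 0, .ofNat 5018, .ofNat 7972, .ofNat 0, .ofNat 128, .negSucc 1844, .negSucc 968, .ofNat 0, .ofNat 1203, .ofNat 606, .ofNat 0, .ofNat 0, .ofNat 971, .ofNat 7437,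 .ofNat 0, .ofNat 0, .ofNat 724576486339265311411613551812311105020444540928, .ofNat 0, .ofNat 0, .ofNat 0, .ofNat 124218769686180505616048430076403066341497092702208, .ofNat 0, .ofNat 0, .ofNat 0, .ofNat 0, .ofNat 0, .ofNat 0, .ofNat 0, .ofNat 74888503819197530655085542443916719952049828003840, .ofNat 0⟩)
    (by decide +kernel)
theorem L05054 : Good (Phi V5.P V5.D (-1) (-1)) ⟨6, 57, 4, 10, 4, 15, 4, 0, 5, 0⟩ :=
  leafX_sound T5.ok_mm T5.Ymm.bz_eq (w := 267) (c := ⟨⟨.ofNat 3013, .ofNat 254, .ofNat 538, .ofNat 2140, .negSucc 71, .ofNat 785⟩, ⟨.negSucc 1946, .negSucc 202, .negSucc 457, .negSucc 1430, .ofNat 52, .negSucc 522⟩, ⟨.ofNat 2339, .negSucc 163, .ofNat 44, .negSucc 439, .negSucc 801, .negSucc 327⟩, ⟨.ofNat 2510, .ofNat 279, .ofNat 279, .ofNat 364, .ofNat 3017, .negSucc 387⟩, ⟨.negSucc 2899, .negSucc 200, .negSucc 172, .negSucc 3957, .ofNat 4676, .negSucc 2237⟩, .ofNat 3726, .ofNat 5131,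 .ofNat 0, .ofNat 5131, .ofNat 7802, .ofNat 0, .ofNat 128, .negSucc 1556, .negSucc 1027, .ofNat 0, .ofNat 1061, .ofNat 656, .ofNat 0, .ofNat 0, .ofNat 1045, .ofNat 11279, .ofNat 0, .ofNat 0, .ofNat 1953088904170615020096144648041017209461978169344, .ofNat 38985882606531366186076191744131426078260905951021823426560, .ofNat 0, .ofNat 0, .ofNat 179209974816499863572292197132106848766847344443392, .ofNat 626362958239031237937384565100277193144136260765818812366848, .ofNat 0, .ofNat 0, .ofNat 74652225475617477488798033565132539363163012857856, .ofNat 0, .ofNat 0, .ofNat 0, .ofNat 83098017014943150234315230859261197842315722358784, .ofNat 1245468837420019080462252353364162694862748916965712337043456⟩)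
    (by decide +kernel)
theorem L05055 : Good (Phi V5.P V5.D (-1) (-1)) ⟨6, 56, 4, 11, 4, 15, 4, 0, 5, 0⟩ :=
  out_sound (S := T5.ds_mm) T5.ok_mm (w := 65) (j := 3) (by decide +kernel)
theorem L05056 : Good (Phi V5.P V5.D (-1) (-1)) ⟨7, 114, 5, 22, 4, 15, 4, 0, 5, 0⟩ :=
  out_sound (S := T5.ds_mm) T5.ok_mm (w := 73) (j := 3) (by decide +kernel)
theorem L05057 : Good (Phi V5.P V5.D (-1) (-1)) ⟨7, 115, 5, 22, 4, 15, 4, 0, 5, 0⟩ :=
  out_sound (S := T5.ds_mm) T5.ok_mm (w := 21) (j := 4) (by decide +kernel)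
theorem L05058 : Good (Phi V5.P V5.D (-1) (-1)) ⟨6, 57, 5, 23, 4, 15, 4, 0, 5, 0⟩ :=
  out_sound (S := T5.ds_mm) T5.ok_mm (w := 67) (j := 3) (by decide +kernel)
theorem L05059 : Good (Phi V5.P V5.D (-1) (-1)) ⟨5, 29, 3, 5, 4, 15, 4, 0, 5, 0⟩ :=
  out_sound (S := T5.ds_mm) T5.ok_mm (w := 17) (j := 4) (by decide +kernel)
theorem L05060 : Good (Phi V5.P V5.D (-1) (-1)) ⟨4, 15, 3, 5, 4, 15, 4, 0, 5, 0⟩ :=
  out_sound (S := T5.ds_mm) T5.ok_mm (w := 51) (j := 3) (by decide +kernel)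
theorem L05061 : Good (Phi V5.P V5.D (-1) (-1)) ⟨6, 56, 6, 40, 4, 15, 4, 0, 5, 1⟩ :=
  leafX_sound T5.ok_mm T5.Ymm.bz_eq (w := 273) (c := ⟨⟨.ofNat 3421, .negSucc 858, .ofNat 571, .ofNat 2097, .ofNat 162, .negSucc 3994⟩, ⟨.negSucc 2199, .ofNat 468, .negSucc 355, .negSucc 1385, .negSucc 74, .ofNat 2561⟩, ⟨.ofNat 2038, .ofNat 350, .negSucc 152, .negSucc 432, .negSucc 896, .ofNat 1289⟩, ⟨.ofNat 1265, .negSucc 745, .ofNat 722, .ofNat 872, .ofNat 3025, .negSucc 6364⟩, ⟨.negSucc 5638, .ofNat 781, .negSucc 51, .negSucc 3254, .ofNat 4341, .negSucc 1071⟩, .ofNat 2359, .ofNat 3249, .ofNat 0, .ofNat 3249, .ofNat 5250, .ofNat 0, .ofNat 128, .negSucc 2033, .negSucc 1199, .ofNat 0, .ofNat 1346, .ofNat 735, .ofNat 0, .ofNat 0, .ofNat 1063, .ofNat 10368, .ofNat 0, .ofNat 0, .ofNat 5905872626402819133630415900729789990143019450368, .ofNat 0, .ofNat 0, .ofNat 0, .ofNat 428720740921526581844589536636314608547833319522304,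 .ofNat 0, .ofNat 0, .ofNat 0, .ofNat 1132599236897291591375520792135938501957402782334976, .ofNat 0, .ofNat 0, .ofNat 0, .ofNat 0, .ofNat 0⟩)
    (by decide +kernel)
theorem L05062 : Good (Phi V5.P V5.D (-1) (-1)) ⟨6, 56, 6, 41, 4, 15, 4, 0, 5, 1⟩ :=
  leafX_sound T5.ok_mm T5.Ymm.bz_eq (w := 276) (c := ⟨⟨.ofNat 3303, .negSucc 17, .ofNat 448, .ofNat 2244, .ofNat 308, .negSucc 4154⟩, ⟨.negSucc 1984, .negSucc 255, .negSucc 237, .negSucc 1496, .negSucc 180, .ofNat 2710⟩, ⟨.ofNat 2326, .negSucc 192, .negSucc 32, .negSucc 459, .negSucc 995, .ofNat 1328⟩, ⟨.ofNat 1050, .ofNat 1, .ofNat 652, .ofNat 1037, .ofNat 3334, .negSucc 6492⟩, ⟨.negSucc 5666, .ofNat 192, .ofNat 94, .negSucc 3245, .ofNat 4440, .negSucc 969⟩, .ofNat 5779, .ofNat 8385, .ofNat 0, .ofNat 8385, .ofNat 12965, .ofNat 0, .ofNat 128, .negSucc 2855, .negSucc 2102, .ofNat 0, .ofNat 1899, .ofNat 1352, .ofNat 0, .ofNat 0, .ofNat 1868, .ofNat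 23258, .ofNat 0, .ofNat 0, .ofNat 6303379680103787509541568501303740951254251077632, .ofNat 0, .ofNat 0, .ofNat 0, .ofNat 1188312828349421845957211900613996539048882094473216, .ofNat 0, .ofNat 0, .ofNat 0, .ofNat 4077463336886606757299703970694948874288347666710528, .ofNat 0, .ofNat 0, .ofNat 0, .ofNat 389398925993478511861090688405852330227134181146624, .ofNat 0⟩)
    (by decide +kernel)
theorem L05063 : Good (Phi V5.P V5.D (-1) (-1)) ⟨6, 56, 5, 21, 4, 15, 4, 0, 5, 1⟩ :=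
  leafX_sound T5.ok_mm T5.Ymm.bz_eq (w := 274) (c := ⟨⟨.ofNat 3546, .ofNat 2, .ofNat 451, .ofNat 2495, .ofNat 500, .negSucc 4210⟩, ⟨.negSucc 2362, .negSucc 0, .negSucc 114, .negSucc 1662, .negSucc 313, .ofNat 2771⟩, ⟨.ofNat 2238, .ofNat 1, .negSucc 313, .negSucc 596, .negSucc 1150, .ofNat 1361⟩, ⟨.ofNat 1350, .ofNat 0, .ofNat 271, .ofNat 951, .ofNat 3706, .negSucc 6404⟩, ⟨.negSucc 5500, .negSucc 2, .ofNat 13, .negSucc 3862, .ofNat 4539, .negSucc 739⟩, .ofNat 6483, .ofNat 9391, .ofNat 0, .ofNat 9391, .ofNat 14393, .ofNat 0, .ofNat 128, .negSucc 3723, .negSucc 2402, .ofNat 0, .ofNat 2488, .ofNat 1561, .ofNat 0, .ofNat 0, .ofNat 2119, .ofNat 34151, .ofNat 0, .ofNat 0, .ofNat 45072153549047454953202900624390413024202936287232, .ofNat 0, .ofNat 0, .ofNat 0, .ofNat 3539387434111619445102816325696897099331894031417344, .ofNat 0, .ofNat 0, .ofNat 0, .ofNat 495238454613390192224800692913365308799108377477120,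 .ofNat 0, .ofNat 0, .ofNat 0, .ofNat 2709723344502190371025248836106195584999527603503104, .ofNat 0⟩)
    (by decide +kernel)
theorem L05064 : Good (Phi V5.P V5.D (-1) (-1)) ⟨7, 114, 5, 20, 4, 15, 4, 0, 5, 1⟩ :=
  leafX_sound T5.ok_mm T5.Ymm.bz_eq (w := 285) (c := ⟨⟨.ofNat 3609, .negSucc 1, .ofNat 8, .ofNat 2393, .ofNat 247, .negSucc 3802⟩, ⟨.negSucc 2547, .ofNat 1, .ofNat 136, .negSucc 1597, .negSucc 143, .ofNat 2508⟩, ⟨.ofNat 2213, .negSucc 0, .negSucc 25, .negSucc 525, .negSucc 1026, .ofNat 1174⟩, ⟨.ofNat 1816, .negSucc 0, .ofNat 2, .ofNat 2145, .ofNat 498, .negSucc 3974⟩, ⟨.negSucc 4933, .ofNat 2, .negSucc 3, .negSucc 1832, .ofNat 248, .ofNat 2029⟩, .ofNat 26840, .ofNat 40050, .ofNat 0, .ofNat 40050, .ofNat 60574, .ofNat 0, .ofNat 128, .negSucc 7756, .negSucc 6457, .ofNat 0, .ofNat 5164, .ofNat 4252, .ofNat 0, .ofNat 0, .ofNat 5638, .ofNat 110166, .ofNat 0, .ofNat 0, .ofNat 0, .ofNat 0, .ofNat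 0, .ofNat 0, .ofNat 295839781955638530238519310988380650338741890848915456, .ofNat 0, .ofNat 0, .ofNat 0, .ofNat 204627794141718436242646952450107941756020795365130240, .ofNat 0, .ofNat 2091522134397862229108059099983769261506400138005118720147456, .ofNat 0, .ofNat 45481541868759723326753390644679261147866722432188416, .ofNat 0⟩)
    (by decide +kernel)
theorem L05065 : Good (Phi V5.P V5.D (-1) (-1)) ⟨7, 114, 6, 42, 5, 30, 4, 0, 5, 1⟩ :=
  leafX_sound T5.ok_mm T5.Ymm.bz_eq (w := 300) (c := ⟨⟨.ofNat 3402, .ofNat 116, .ofNat 644, .ofNat 994, .ofNat 539, .negSucc 4033⟩, ⟨.negSucc 2274, .negSucc 234, .negSucc 355, .negSucc 668, .negSucc 338, .ofNat 2677⟩, ⟨.ofNat 2305, .negSucc 114, .negSucc 176, .negSucc 171, .negSucc 1196, .ofNat 1321⟩, ⟨.ofNat 2176, .ofNat 221, .ofNat 523, .ofNat 854, .ofNat 1209, .negSucc 4757⟩, ⟨.negSucc 3931, .negSucc 152, .negSucc 360, .negSucc 798, .ofNat 688, .ofNat 1311⟩,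 .ofNat 19370, .ofNat 28640, .ofNat 0, .ofNat 28640, .ofNat 43144, .ofNat 0, .ofNat 128, .negSucc 5625, .negSucc 5664, .ofNat 0, .ofNat 3763, .ofNat 3757, .ofNat 0, .ofNat 0, .ofNat 5035, .ofNat 17813, .ofNat 0, .ofNat 0, .ofNat 0, .ofNat 0, .ofNat 0, .ofNat 0, .ofNat 130611977522352440139143314808670598987291644786999558144, .ofNat 8369021731001372221031060198937853477996979651028537320457589751808, .ofNat 0, .ofNat 0, .ofNat 0, .ofNat 0, .ofNat 0, .ofNat 0, .ofNat 0, .ofNat 0⟩)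
    (by decide +kernel)
theorem L05066 : Good (Phi V5.P V5.D (-1) (-1)) ⟨8, 228, 6, 42, 5, 31, 4, 0, 6, 2⟩ :=
  leafX_sound T5.ok_mm T5.Ymm.bz_eq (w := 304) (c := ⟨⟨.ofNat 4757, .ofNat 438, .ofNat 180, .ofNat 1637, .ofNat 66, .negSucc 1214⟩, ⟨.negSucc 3169, .negSucc 445, .ofNat 12, .negSucc 1101, .negSucc 27, .ofNat 803⟩, ⟨.ofNat 2018, .ofNat 321, .negSucc 535, .negSucc 338, .negSucc 1028, .ofNat 252⟩, ⟨.ofNat 1794, .ofNat 618, .ofNat 361, .ofNat 432, .ofNat 3736, .negSucc 2094⟩, ⟨.negSucc 7399, .ofNat 18, .ofNat 288, .negSucc 2811, .ofNat 5490, .negSucc 587⟩, .ofNat 7146, .ofNat 10342, .ofNat 0, .ofNat 10342, .ofNat 15749, .ofNat 0, .ofNat 128, .negSucc 2429, .negSucc 2305, .ofNat 0, .ofNat 1630, .ofNat 1507, .ofNat 0, .ofNat 0, .ofNat 1965, .ofNat 50984, .ofNat 0, .ofNat 0, .ofNat 0, .ofNat 0, .ofNat 0, .ofNat 0, .ofNat 847461528643144240644502360247153513417367188273882988544, .ofNat 0, .ofNat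 0, .ofNat 0, .ofNat 487132245240776293998985739096940416428448474469758926848, .ofNat 0, .ofNat 0, .ofNat 0, .ofNat 0, .ofNat 0⟩)
    (by decide +kernel)
theorem L05067 : Good (Phi V5.P V5.D (-1) (-1)) ⟨8, 228, 6, 42, 5, 31, 4, 0, 6, 3⟩ :=
  leafX_sound T5.ok_mm T5.Ymm.bz_eq (w := 304) (c := ⟨⟨.ofNat 3301, .ofNat 67, .ofNat 346, .ofNat 1497, .ofNat 596, .negSucc 3614⟩, ⟨.negSucc 2208, .negSucc 71, .negSucc 203, .negSucc 1005, .negSucc 387, .ofNat 2402⟩, ⟨.ofNat 2381, .negSucc 303, .ofNat 222, .negSucc 428, .negSucc 1227, .ofNat 1331⟩, ⟨.negSucc 781, .ofNat 302, .ofNat 321, .ofNat 359, .ofNat 4140, .negSucc 5175⟩, ⟨.negSucc 8201, .ofNat 140, .ofNat 72, .negSucc 2612, .ofNat 4974, .negSucc 160⟩, .ofNat 7205, .ofNat 10428, .ofNat 0, .ofNat 10428, .ofNat 15871, .ofNat 0, .ofNat 128, .negSucc 3012, .negSucc 2852, .ofNat 0, .ofNat 2029, .ofNat 1870, .ofNat 0, .ofNat 0, .ofNat 2293, .ofNat 56420, .ofNat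 0, .ofNat 0, .ofNat 6996490381482210407632974479368788509944945366420946944, .ofNat 0, .ofNat 0, .ofNat 0, .ofNat 390269769101976063202347071692257754518076158609593466880, .ofNat 0, .ofNat 0, .ofNat 0, .ofNat 1145449107367278592872817083856552358249202697327389704192, .ofNat 0, .ofNat 0, .ofNat 0, .ofNat 213929292764151715889958487923251521338760154415517138944, .ofNat 0⟩)
    (by decide +kernel)
theorem L05068 : Good (Phi V5.P V5.D (-1) (-1)) ⟨8, 229, 6, 42, 5, 31, 4, 0, 5, 1⟩ :=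
  out_sound (S := T5.ds_mm) T5.ok_mm (w := 23) (j := 4) (by decide +kernel)
theorem L05069 : Good (Phi V5.P V5.D (-1) (-1)) ⟨8, 228, 6, 43, 4, 15, 4, 0, 5, 1⟩ :=
  out_sound (S := T5.ds_mm) T5.ok_mm (w := 81) (j := 3) (by decide +kernel)
theorem L05070 : Good (Phi V5.P V5.D (-1) (-1)) ⟨8, 229, 6, 43, 4, 15, 4, 0, 5, 1⟩ :=
  out_sound (S := T5.ds_mm) T5.ok_mm (w := 23) (j := 4) (by decide +kernel)
theorem L05071 : Good (Phi V5.P V5.D (-1) (-1)) ⟨7, 115, 4, 10, 4, 15, 4, 0, 5, 1⟩ :=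
  out_sound (S := T5.ds_mm) T5.ok_mm (w := 21) (j := 4) (by decide +kernel)
theorem L05072 : Good (Phi V5.P V5.D (-1) (-1)) ⟨6, 56, 4, 11, 4, 15, 4, 0, 5, 1⟩ :=
  out_sound (S := T5.ds_mm) T5.ok_mm (w := 65) (j := 3) (by decide +kernel)
theorem L05073 : Good (Phi V5.P V5.D (-1) (-1)) ⟨7, 114, 5, 22, 4, 15, 4, 0, 5, 1⟩ :=
  out_sound (S := T5.ds_mm) T5.ok_mm (w := 73) (j := 3) (by decide +kernel)
theorem L05074 : Good (Phi V5.P V5.D (-1) (-1)) ⟨7, 115, 5, 22, 4, 15, 4, 0, 5, 1⟩ :=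
  out_sound (S := T5.ds_mm) T5.ok_mm (w := 21) (j := 4) (by decide +kernel)
theorem L05075 : Good (Phi V5.P V5.D (-1) (-1)) ⟨6, 57, 5, 23, 4, 15, 4, 0, 5, 1⟩ :=
  out_sound (S := T5.ds_mm) T5.ok_mm (w := 67) (j := 3) (by decide +kernel)
theorem L05076 : Good (Phi V5.P V5.D (-1) (-1)) ⟨5, 29, 3, 5, 4, 15, 4, 0, 5, 1⟩ :=
  out_sound (S := T5.ds_mm) T5.ok_mm (w := 17) (j := 4) (by decide +kernel)
theorem L05077 : Good (Phi V5.P V5.D (-1) (-1)) ⟨4, 15, 3, 5, 4, 15, 4, 0, 5, 1⟩ :=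
  out_sound (S := T5.ds_mm) T5.ok_mm (w := 51) (j := 3) (by decide +kernel)
theorem L05078 : Good (Phi V5.P V5.D (-1) (-1)) ⟨6, 56, 4, 10, 4, 15, 4, 1, 5, 0⟩ :=
  leafX_sound T5.ok_mm T5.Ymm.bz_eq (w := 269) (c := ⟨⟨.ofNat 2328, .ofNat 916, .ofNat 501, .ofNat 1712, .ofNat 155, .ofNat 282⟩, ⟨.negSucc 1466, .negSucc 614, .negSucc 466, .negSucc 1130, .negSucc 80, .negSucc 196⟩, ⟨.ofNat 1700, .negSucc 267, .negSucc 6, .negSucc 244, .negSucc 604, .negSucc 225⟩, ⟨.ofNat 3411, .ofNat 1080, .ofNat 938, .ofNat 1160, .ofNat 1523, .negSucc 93⟩, ⟨.negSucc 50, .ofNat 71, .ofNat 102, .negSucc 1919, .ofNat 2011, .negSucc 752⟩, .ofNat 5341, .ofNat 7759, .ofNat 0, .ofNat 7759, .ofNat 12077, .ofNat 0, .ofNat 128, .negSucc 2005, .negSucc 1404, .ofNat 0, .ofNat 1314, .ofNat 892, .ofNat 0, .ofNat 0, .ofNat 1373, .ofNat 8159, .ofNat 0, .ofNat 0, .ofNat 3169784639766474154272920758687907768349140975616, .ofNat 0, .ofNat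 0, .ofNat 0, .ofNat 293094052077912941322426501349454130325491189547008, .ofNat 0, .ofNat 0, .ofNat 0, .ofNat 0, .ofNat 0, .ofNat 0, .ofNat 0, .ofNat 162958684949528774043864635672988859831473808605184, .ofNat 0⟩)
    (by decide +kernel)
theorem L05079 : Good (Phi V5.P V5.D (-1) (-1)) ⟨6, 56, 5, 20, 4, 15, 4, 1, 5, 1⟩ :=
  leafX_sound T5.ok_mm T5.Ymm.bz_eq (w := 273) (c := ⟨⟨.ofNat 3232, .negSucc 296, .ofNat 790, .ofNat 1697, .ofNat 156, .negSucc 3157⟩, ⟨.negSucc 2081, .ofNat 185, .negSucc 553, .negSucc 1126, .negSucc 89, .ofNat 2049⟩, ⟨.ofNat 1512, .negSucc 430, .ofNat 114, .negSucc 280, .negSucc 643, .ofNat 932⟩, ⟨.ofNat 3406, .ofNat 16, .ofNat 1033, .ofNat 1499, .ofNat 2111, .negSucc 6167⟩, ⟨.negSucc 1756, .ofNat 477, .ofNat 103, .negSucc 1374, .ofNat 2904, .negSucc 2625⟩, .ofNat 5270, .ofNat 7654, .ofNat 0, .ofNat 7654, .ofNat 11925, .ofNat 0, .ofNat 128, .negSucc 2064, .negSucc 2442, .ofNat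 0, .ofNat 1356, .ofNat 1557, .ofNat 0, .ofNat 0, .ofNat 1997, .ofNat 7336, .ofNat 0, .ofNat 0, .ofNat 0, .ofNat 0, .ofNat 0, .ofNat 0, .ofNat 1008944077078003725989590235069925150191683907878912, .ofNat 0, .ofNat 0, .ofNat 0, .ofNat 0, .ofNat 0, .ofNat 0, .ofNat 0, .ofNat 0, .ofNat 0⟩)
    (by decide +kernel)
theorem L05080 : Good (Phi V5.P V5.D (-1) (-1)) ⟨6, 56, 5, 21, 4, 15, 4, 1, 5, 1⟩ :=
  leafX_sound T5.ok_mm T5.Ymm.bz_eq (w := 280) (c := ⟨⟨.ofNat 3798, .ofNat 2, .ofNat 17, .ofNat 2022, .ofNat 304, .negSucc 3360⟩, ⟨.negSucc 2514, .negSucc 0, .negSucc 12, .negSucc 1343, .negSucc 187, .ofNat 2209⟩, ⟨.ofNat 1184, .ofNat 1, .negSucc 46, .negSucc 440, .negSucc 732, .ofNat 1026⟩, ⟨.ofNat 4286, .ofNat 2, .ofNat 1, .ofNat 1847, .ofNat 1426, .negSucc 4742⟩, ⟨.negSucc 1589, .negSucc 0, .negSucc 1, .negSucc 1495, .ofNat 1514, .negSucc 49⟩, .ofNat 14677, .ofNat 21731, .ofNat 0, .ofNat 21731, .ofNat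 32981, .ofNat 0, .ofNat 128, .negSucc 6803, .negSucc 9286, .ofNat 0, .ofNat 4519, .ofNat 6101, .ofNat 0, .ofNat 0, .ofNat 7366, .ofNat 42832, .ofNat 0, .ofNat 0, .ofNat 49992664460949264897520612887268704047119567159296, .ofNat 0, .ofNat 0, .ofNat 0, .ofNat 4946081363757893928784014586359732335687045818089472, .ofNat 0, .ofNat 0, .ofNat 0, .ofNat 11613506285055269604726422662876606922744817069850624, .ofNat 0, .ofNat 0, .ofNat 0, .ofNat 15487162809238427635220225686338751210252589200310272, .ofNat 0⟩)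
    (by decide +kernel)
theorem L05081 : Good (Phi V5.P V5.D (-1) (-1)) ⟨7, 114, 4, 10, 5, 30, 4, 1, 5, 0⟩ :=
  leafX_sound T5.ok_mm T5.Ymm.bz_eq (w := 289) (c := ⟨⟨.ofNat 3229, .ofNat 521, .ofNat 154, .ofNat 1054, .ofNat 87, .ofNat 364⟩, ⟨.negSucc 2125, .negSucc 420, .negSucc 112, .negSucc 705, .negSucc 50, .negSucc 246⟩, ⟨.ofNat 1649, .negSucc 24, .negSucc 137, .negSucc 230, .negSucc 625, .negSucc 316⟩, ⟨.ofNat 4634, .ofNat 711, .ofNat 348, .ofNat 1242, .ofNat 1401, .negSucc 184⟩, ⟨.ofNat 213, .ofNat 120, .ofNat 45, .negSucc 357, .ofNat 1926, .negSucc 1047⟩, .ofNat 7180, .ofNat 10391, .ofNat 0, .ofNat 10391, .ofNat 15818, .ofNat 0, .ofNat 128, .negSucc 3429, .negSucc 2185, .ofNat 0, .ofNat 2281, .ofNat 1429, .ofNat 0, .ofNat 0, .ofNat 2167, .ofNat 5755, .ofNat 0, .ofNat 0, .ofNat 0, .ofNat 0, .ofNat 0, .ofNat 0, .ofNat 4220747418960431177825355158880564517177731858892324864, .ofNat 0, .ofNat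 0, .ofNat 0, .ofNat 0, .ofNat 0, .ofNat 0, .ofNat 0, .ofNat 0, .ofNat 0⟩)
    (by decide +kernel)
theorem L05082 : Good (Phi V5.P V5.D (-1) (-1)) ⟨7, 114, 4, 10, 5, 31, 4, 1, 5, 0⟩ :=
  leafX_sound T5.ok_mm T5.Ymm.bz_eq (w := 284) (c := ⟨⟨.ofNat 4198, .ofNat 738, .ofNat 183, .ofNat 759, .negSucc 81, .ofNat 873⟩, ⟨.negSucc 2725, .negSucc 545, .negSucc 216, .negSucc 510, .ofNat 59, .negSucc 582⟩, ⟨.ofNat 1507, .ofNat 23, .negSucc 370, .negSucc 38, .negSucc 537, .negSucc 458⟩, ⟨.ofNat 5248, .ofNat 1083, .ofNat 519, .negSucc 187, .ofNat 1883, .ofNat 581⟩, ⟨.negSucc 881, .ofNat 279, .ofNat 181, .negSucc 1885, .ofNat 2998, .negSucc 961⟩, .ofNat 2280, .ofNat 3037, .ofNat 0, .ofNat 3037, .ofNat 4765, .ofNat 0, .ofNat 128, .negSucc 1343, .negSucc 1737, .ofNat 0, .ofNat 898, .ofNat 1079, .ofNat 0, .ofNat 0, .ofNat 1503, .ofNat 11958, .ofNat 0, .ofNat 0, .ofNat 26197243939762308143058081126044690801495191909826560,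 .ofNat 3553797469207214781758263182111824851273384866045609262314422272, .ofNat 0, .ofNat 0, .ofNat 398933477399066005739814686930787782959377140827553792, .ofNat 21536518379498667794212450881535130624896577887989070601394323456, .ofNat 0, .ofNat 0, .ofNat 659653852089484971019520318262617159102184670107795456, .ofNat 55313107811497695315379188388749161694403139664415599522454962176, .ofNat 0, .ofNat 0, .ofNat 818111696489923045443158307330046078317906365656334336, .ofNat 239044901913357386708198812494082219039147059498754771535928492032⟩)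
    (by decide +kernel)
theorem L05083 : Good (Phi V5.P V5.D (-1) (-1)) ⟨7, 114, 5, 20, 4, 15, 4, 1, 5, 1⟩ :=
  leafX_sound T5.ok_mm T5.Ymm.bz_eq (w := 286) (c := ⟨⟨.ofNat 3743, .negSucc 1, .negSucc 26, .ofNat 1959, .ofNat 387, .negSucc 3380⟩, ⟨.negSucc 2303, .ofNat 1, .negSucc 156, .negSucc 1302, .negSucc 243, .ofNat 2224⟩, ⟨.ofNat 1190, .negSucc 0, .ofNat 31, .negSucc 407, .negSucc 764, .ofNat 1022⟩, ⟨.ofNat 3994, .negSucc 1, .ofNat 3, .ofNat 1806, .ofNat 928, .negSucc 3963⟩, ⟨.negSucc 1847, .ofNat 1, .negSucc 1, .negSucc 1410, .ofNat 582, .ofNat 1152⟩, .ofNat 21720, .ofNat 32339, .ofNat 0, .ofNat 32339, .ofNat 48960, .ofNat 0, .ofNat 128, .negSucc 11520, .negSucc 14785, .ofNat 0, .ofNat 7651, .ofNat 9731, .ofNat 0, .ofNat 0, .ofNat 12040, .ofNat 85304, .ofNat 0, .ofNat 0, .ofNat 0, .ofNat 0, .ofNat 0, .ofNat 0, .ofNat 490700011097514089042107072874205165273527965108404224, .ofNat 0, .ofNat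 0, .ofNat 0, .ofNat 17993950824103066950799292190289284981205972400734208, .ofNat 0, .ofNat 0, .ofNat 0, .ofNat 0, .ofNat 0⟩)
    (by decide +kernel)
theorem L05084 : Good (Phi V5.P V5.D (-1) (-1)) ⟨8, 228, 6, 42, 4, 15, 4, 1, 5, 1⟩ :=
  leafX_sound T5.ok_mm T5.Ymm.bz_eq (w := 290) (c := ⟨⟨.ofNat 3770, .ofNat 492, .ofNat 430, .ofNat 2020, .ofNat 297, .negSucc 3548⟩, ⟨.negSucc 2492, .negSucc 288, .negSucc 361, .negSucc 1351, .negSucc 185, .ofNat 2347⟩, ⟨.ofNat 1214, .negSucc 291, .negSucc 11, .negSucc 419, .negSucc 741, .ofNat 1071⟩, ⟨.ofNat 3900, .ofNat 708, .ofNat 643, .ofNat 2090, .ofNat 1435, .negSucc 4690⟩, ⟨.negSucc 2117, .ofNat 78, .ofNat 72, .negSucc 1099, .ofNat 1540, .ofNat 404⟩, .ofNat 18462, .ofNat 27304, .ofNat 0, .ofNat 27304, .ofNat 41178, .ofNat 0, .ofNat 128, .negSucc 4396, .negSucc 6703, .ofNat 0, .ofNat 2934, .ofNat 4438, .ofNat 0, .ofNat 0, .ofNat 5259, .ofNat 17889, .ofNat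 0, .ofNat 0, .ofNat 0, .ofNat 0, .ofNat 0, .ofNat 0, .ofNat 3731541431773279127360381776424794413268817550508032, .ofNat 0, .ofNat 0, .ofNat 0, .ofNat 0, .ofNat 0, .ofNat 0, .ofNat 0, .ofNat 0, .ofNat 0⟩)
    (by decide +kernel)
theorem L05085 : Good (Phi V5.P V5.D (-1) (-1)) ⟨8, 229, 6, 42, 4, 15, 4, 1, 5, 1⟩ :=
  out_sound (S := T5.ds_mm) T5.ok_mm (w := 23) (j := 4) (by decide +kernel)
theorem L05086 : Good (Phi V5.P V5.D (-1) (-1)) ⟨8, 228, 6, 43, 4, 15, 4, 1, 5, 1⟩ :=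
  out_sound (S := T5.ds_mm) T5.ok_mm (w := 81) (j := 3) (by decide +kernel)
theorem L05087 : Good (Phi V5.P V5.D (-1) (-1)) ⟨8, 229, 6, 43, 4, 15, 4, 1, 5, 1⟩ :=
  out_sound (S := T5.ds_mm) T5.ok_mm (w := 23) (j := 4) (by decide +kernel)
theorem L05088 : Good (Phi V5.P V5.D (-1) (-1)) ⟨7, 115, 4, 10, 4, 15, 4, 1, 4, 0⟩ :=
  out_sound (S := T5.ds_mm) T5.ok_mm (w := 21) (j := 4) (by decide +kernel)
theorem L05089 : Good (Phi V5.P V5.D (-1) (-1)) ⟨6, 56, 4, 11, 4, 15, 4, 1, 4, 0⟩ :=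
  out_sound (S := T5.ds_mm) T5.ok_mm (w := 65) (j := 3) (by decide +kernel)
theorem L05090 : Good (Phi V5.P V5.D (-1) (-1)) ⟨7, 114, 5, 22, 4, 15, 4, 1, 4, 0⟩ :=
  out_sound (S := T5.ds_mm) T5.ok_mm (w := 73) (j := 3) (by decide +kernel)
theorem L05091 : Good (Phi V5.P V5.D (-1) (-1)) ⟨7, 115, 5, 22, 4, 15, 4, 1, 4, 0⟩ :=
  out_sound (S := T5.ds_mm) T5.ok_mm (w := 21) (j := 4) (by decide +kernel)
theorem L05092 : Good (Phi V5.P V5.D (-1) (-1)) ⟨6, 57, 5, 23, 4, 15, 4, 1, 4, 0⟩ :=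
  out_sound (S := T5.ds_mm) T5.ok_mm (w := 67) (j := 3) (by decide +kernel)
theorem L05093 : Good (Phi V5.P V5.D (-1) (-1)) ⟨5, 29, 3, 5, 4, 15, 4, 1, 4, 0⟩ :=
  out_sound (S := T5.ds_mm) T5.ok_mm (w := 17) (j := 4) (by decide +kernel)
theorem L05094 : Good (Phi V5.P V5.D (-1) (-1)) ⟨4, 15, 3, 5, 4, 15, 4, 1, 4, 0⟩ :=
  out_sound (S := T5.ds_mm) T5.ok_mm (w := 51) (j := 3) (by decide +kernel)
theorem L05095 : Good (Phi V5.P V5.D (-1) (-1)) ⟨2, 2, 3, 5, 2, 3, 3, 1, 4, 0⟩ :=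
  out_sound (S := T5.ds_mm) T5.ok_mm (w := 39) (j := 3) (by decide +kernel)
theorem L05096 : Good (Phi V5.P V5.D (-1) (-1)) ⟨3, 6, 3, 5, 2, 3, 3, 1, 4, 0⟩ :=
  out_sound (S := T5.ds_mm) T5.ok_mm (w := 45) (j := 3) (by decide +kernel)
theorem L05097 : Good (Phi V5.P V5.D (-1) (-1)) ⟨4, 14, 3, 5, 3, 6, 3, 1, 4, 0⟩ :=
  leafX_sound T5.ok_mm T5.Ymm.bz_eq (w := 229) (c := ⟨⟨.ofNat 4842, .ofNat 627, .negSucc 410, .negSucc 1812, .negSucc 639, .negSucc 250⟩, ⟨.negSucc 3110, .negSucc 630, .ofNat 132, .ofNat 1191, .ofNat 425, .ofNat 158⟩, ⟨.negSucc 1346, .ofNat 413, .ofNat 179, .ofNat 1838, .negSucc 337, .negSucc 585⟩, ⟨.ofNat 6325, .ofNat 1315, .negSucc 525, .negSucc 1029, .negSucc 27, .negSucc 2533⟩, ⟨.negSucc 874, .negSucc 380, .ofNat 988, .ofNat 2480, .ofNat 1261, .negSucc 3135⟩, .ofNat 925, .ofNat 1019, .ofNat 0, .ofNat 1019, .ofNat 1690, .ofNat 0, .ofNat 128, .negSucc 632, .negSucc 715, .ofNat 0,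 .ofNat 421, .ofNat 458, .ofNat 0, .ofNat 0, .ofNat 676, .ofNat 1147, .ofNat 0, .ofNat 0, .ofNat 62769376163741726875770982969140729348096, .ofNat 1016756918966578603200433491814172069190795526144, .ofNat 0, .ofNat 0, .ofNat 1932776545011865642307986493621548653477888, .ofNat 13802581887803466971954112799400351324085115944960, .ofNat 0, .ofNat 0, .ofNat 8040464754834012680834732663423356314320896, .ofNat 303188721693040635707694217361801522816212006862848, .ofNat 0, .ofNat 0, .ofNat 1617125565126840909011525990047298367782912, .ofNat 125230137286857076333720822465118312457267708952576⟩)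
    (by decide +kernel)
theorem L05098 : Good (Phi V5.P V5.D (-1) (-1)) ⟨4, 15, 3, 5, 3, 6, 3, 1, 4, 0⟩ :=
  out_sound (S := T5.ds_mm) T5.ok_mm (w := 51) (j := 3) (by decide +kernel)
theorem L05099 : Good (Phi V5.P V5.D (-1) (-1)) ⟨6, 56, 5, 20, 3, 7, 3, 1, 5, 0⟩ :=
  leafX_sound T5.ok_mm T5.Ymm.bz_eq (w := 256) (c := ⟨⟨.ofNat 2560, .negSucc 71, .ofNat 377, .ofNat 1778, .negSucc 93, .ofNat 145⟩, ⟨.negSucc 1621, .ofNat 72, .negSucc 347, .negSucc 1166, .ofNat 79, .negSucc 98⟩, ⟨.ofNat 691, .ofNat 227, .negSucc 161, .ofNat 145, .negSucc 684, .negSucc 323⟩, ⟨.ofNat 4527, .ofNat 43, .ofNat 446, .ofNat 2592, .ofNat 994, .negSucc 200⟩, ⟨.ofNat 1386, .ofNat 205, .negSucc 104, .ofNat 136, .ofNat 1730, .negSucc 627⟩, .ofNat 7624, .ofNat 11229, .ofNat 0, .ofNat 11229, .ofNat 17357, .ofNat 0, .ofNat 128, .negSucc 2563, .negSucc 1462, .ofNat 0, .ofNat 1672, .ofNat 942, .ofNat 0, .ofNat 0, .ofNat 1461, .ofNat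 4593, .ofNat 0, .ofNat 0, .ofNat 0, .ofNat 0, .ofNat 0, .ofNat 0, .ofNat 3646765184797314607187067461598831686902087680, .ofNat 0, .ofNat 0, .ofNat 0, .ofNat 0, .ofNat 0, .ofNat 0, .ofNat 0, .ofNat 401025142422552565534599636740592138809507840, .ofNat 0⟩)
    (by decide +kernel)
theorem L05100 : Good (Phi V5.P V5.D (-1) (-1)) ⟨6, 56, 5, 20, 3, 7, 3, 1, 5, 1⟩ :=
  leafX_sound T5.ok_mm T5.Ymm.bz_eq (w := 255) (c := ⟨⟨.ofNat 2450, .ofNat 1138, .ofNat 17, .ofNat 1023, .negSucc 70, .negSucc 2075⟩, ⟨.negSucc 1561, .negSucc 740, .negSucc 78, .negSucc 673, .ofNat 63, .ofNat 1344⟩, ⟨.ofNat 455, .negSucc 313, .negSucc 17, .ofNat 434, .negSucc 625, .ofNat 563⟩, ⟨.ofNat 3550, .ofNat 1134, .ofNat 742, .ofNat 2108, .ofNat 1540, .negSucc 4501⟩, ⟨.negSucc 53, .negSucc 374, .ofNat 939, .ofNat 1023, .ofNat 2521, .negSucc 2397⟩, .ofNat 5152, .ofNat 7483, .ofNat 0, .ofNat 7483, .ofNat 11678, .ofNat 0, .ofNat 128,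 .negSucc 1961, .negSucc 2573, .ofNat 0, .ofNat 1276, .ofNat 1643, .ofNat 0, .ofNat 0, .ofNat 2070, .ofNat 3140, .ofNat 0, .ofNat 0, .ofNat 0, .ofNat 0, .ofNat 0, .ofNat 0, .ofNat 1965821697530428634324641779501357381671976960, .ofNat 0, .ofNat 0, .ofNat 0, .ofNat 0, .ofNat 0, .ofNat 0, .ofNat 0, .ofNat 0, .ofNat 0⟩)
    (by decide +kernel)
theorem L05101 : Good (Phi V5.P V5.D (-1) (-1)) ⟨6, 56, 6, 42, 3, 7, 3, 1, 4, 0⟩ :=
  leafX_sound T5.ok_mm T5.Ymm.bz_eq (w := 262) (c := ⟨⟨.ofNat 3091, .ofNat 2, .negSucc 302, .ofNat 1960, .negSucc 84, .negSucc 1313⟩, ⟨.negSucc 2037, .negSucc 0, .ofNat 183, .negSucc 1296, .ofNat 64, .ofNat 858⟩, ⟨.ofNat 699, .ofNat 0, .negSucc 80, .ofNat 37, .negSucc 652, .negSucc 124⟩, ⟨.ofNat 5358, .ofNat 3, .negSucc 123, .ofNat 2001, .ofNat 61, .negSucc 1463⟩, ⟨.ofNat 1536, .ofNat 1, .ofNat 80, .negSucc 1119, .ofNat 273, .ofNat 560⟩, .ofNat 29470, .ofNat 44013, .ofNat 0,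 .ofNat 44013, .ofNat 66544, .ofNat 0, .ofNat 128, .negSucc 10879, .negSucc 10904, .ofNat 0, .ofNat 7207, .ofNat 7188, .ofNat 0, .ofNat 0, .ofNat 9592, .ofNat 24674, .ofNat 0, .ofNat 0, .ofNat 20552646357062938139438832940822787176529920, .ofNat 0, .ofNat 0, .ofNat 0, .ofNat 3472205943408623470427813763681683503373615104, .ofNat 0, .ofNat 0, .ofNat 0, .ofNat 31682741635742128798601433850710744977140350976, .ofNat 0, .ofNat 0, .ofNat 0, .ofNat 11692471802490576836490368955509583845494095872, .ofNat 0⟩)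
    (by decide +kernel)
theorem L05102 : Good (Phi V5.P V5.D (-1) (-1)) ⟨6, 56, 6, 43, 3, 7, 3, 1, 4, 0⟩ :=
  out_sound (S := T5.ds_mm) T5.ok_mm (w := 69) (j := 3) (by decide +kernel)
theorem L05103 : Good (Phi V5.P V5.D (-1) (-1)) ⟨7, 114, 5, 20, 3, 7, 3, 1, 5, 0⟩ :=
  leafX_sound T5.ok_mm T5.Ymm.bz_eq (w := 267) (c := ⟨⟨.ofNat 2621, .negSucc 1, .ofNat 64, .ofNat 2227, .negSucc 82, .ofNat 171⟩, ⟨.negSucc 1831, .ofNat 1, .ofNat 62, .negSucc 1473, .ofNat 64, .negSucc 116⟩, ⟨.ofNat 862, .ofNat 0, .negSucc 5, .negSucc 20, .negSucc 728, .negSucc 346⟩, ⟨.ofNat 5570, .negSucc 2, .ofNat 4, .ofNat 2220, .ofNat 35, .ofNat 162⟩, ⟨.ofNat 2705, .negSucc 0, .ofNat 0, .negSucc 1355, .ofNat 241, .negSucc 125⟩, .ofNat 26839, .ofNat 40050, .ofNat 0, .ofNat 40050, .ofNat 60574, .ofNat 0, .ofNat 128, .negSucc 7512, .negSucc 5674, .ofNat 0, .ofNat 4974, .ofNat 3737, .ofNat 0, .ofNat 0, .ofNat 5570, .ofNat 44234,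 .ofNat 0, .ofNat 0, .ofNat 0, .ofNat 0, .ofNat 0, .ofNat 0, .ofNat 3368749433370240719117783501242912253114673266688, .ofNat 0, .ofNat 0, .ofNat 0, .ofNat 16195811627698749289716712654399533962886119424, .ofNat 0, .ofNat 0, .ofNat 0, .ofNat 26410341624520153798246950119146673961630171136, .ofNat 0⟩)
    (by decide +kernel)
theorem L05104 : Good (Phi V5.P V5.D (-1) (-1)) ⟨7, 114, 6, 42, 3, 7, 3, 1, 5, 0⟩ :=
  leafX_sound T5.ok_mm T5.Ymm.bz_eq (w := 263) (c := ⟨⟨.ofNat 2579, .ofNat 541, .negSucc 59, .ofNat 2430, .negSucc 124, .ofNat 225⟩, ⟨.negSucc 1683, .negSucc 376, .negSucc 5, .negSucc 1627, .ofNat 89, .negSucc 155⟩, ⟨.ofNat 901, .ofNat 131, .negSucc 113, .negSucc 109, .negSucc 708, .negSucc 360⟩, ⟨.ofNat 4292, .ofNat 448, .ofNat 566, .ofNat 3748, .ofNat 1101, .ofNat 80⟩, ⟨.ofNat 1025, .ofNat 244, .ofNat 600, .ofNat 501, .ofNat 1918, .negSucc 363⟩, .ofNat 7207, .ofNat 10429, .ofNat 0, .ofNat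 10429, .ofNat 15873, .ofNat 0, .ofNat 128, .negSucc 3079, .negSucc 2496, .ofNat 0, .ofNat 2042, .ofNat 1636, .ofNat 0, .ofNat 0, .ofNat 2323, .ofNat 10205, .ofNat 0, .ofNat 0, .ofNat 0, .ofNat 0, .ofNat 0, .ofNat 0, .ofNat 2685036605028379765284602920877256056493834240, .ofNat 0, .ofNat 0, .ofNat 0, .ofNat 0, .ofNat 0, .ofNat 0, .ofNat 0, .ofNat 2486394350532087143579996693217151455856689152, .ofNat 7626714264088933599206745994009011087917074344415743442944⟩)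
    (by decide +kernel)
theorem L05105 : Good (Phi V5.P V5.D (-1) (-1)) ⟨8, 228, 6, 43, 3, 7, 3, 1, 5, 0⟩ :=
  out_sound (S := T5.ds_mm) T5.ok_mm (w := 81) (j := 3) (by decide +kernel)
theorem L05106 : Good (Phi V5.P V5.D (-1) (-1)) ⟨8, 229, 6, 43, 3, 7, 3, 1, 5, 0⟩ :=
  out_sound (S := T5.ds_mm) T5.ok_mm (w := 23) (j := 4) (by decide +kernel)
theorem L05107 : Good (Phi V5.P V5.D (-1) (-1)) ⟨7, 115, 4, 10, 3, 7, 3, 1, 5, 0⟩ :=
  out_sound (S := T5.ds_mm) T5.ok_mm (w := 21) (j := 4) (by decide +kernel)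
theorem L05108 : Good (Phi V5.P V5.D (-1) (-1)) ⟨7, 114, 5, 20, 3, 7, 3, 1, 5, 1⟩ :=
  leafX_sound T5.ok_mm T5.Ymm.bz_eq (w := 268) (c := ⟨⟨.ofNat 2953, .negSucc 1, .ofNat 44, .ofNat 1964, .ofNat 114, .negSucc 1855⟩, ⟨.negSucc 2083, .ofNat 1, .ofNat 103, .negSucc 1298, .negSucc 64, .ofNat 1220⟩, ⟨.ofNat 417, .ofNat 0, .negSucc 17, .ofNat 21, .negSucc 717, .ofNat 455⟩, ⟨.ofNat 4836, .negSucc 1, .ofNat 4, .ofNat 1992, .ofNat 272, .negSucc 2040⟩, ⟨.ofNat 938, .ofNat 0, .ofNat 0, .negSucc 1142, .ofNat 181, .ofNat 837⟩, .ofNat 26832, .ofNat 40038, .ofNat 0, .ofNat 40038, .ofNat 60556, .ofNat 0, .ofNat 128, .negSucc 10742, .negSucc 12407, .ofNat 0, .ofNat 7117, .ofNat 8179, .ofNat 0, .ofNat 0, .ofNat 10078, .ofNat 43354, .ofNat 0, .ofNat 0, .ofNat 0, .ofNat 0, .ofNat 0, .ofNat 0, .ofNat 3279094681338656715864689370526471502764896681984, .ofNat 0, .ofNat 0, .ofNat 0, .ofNat 47887694548881352119669740593723544424840953856,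 .ofNat 0, .ofNat 0, .ofNat 0, .ofNat 15402850382057024651988355132981019384125325312, .ofNat 0⟩)
    (by decide +kernel)
theorem L05109 : Good (Phi V5.P V5.D (-1) (-1)) ⟨7, 114, 6, 42, 3, 7, 3, 1, 5, 1⟩ :=
  leafX_sound T5.ok_mm T5.Ymm.bz_eq (w := 268) (c := ⟨⟨.ofNat 2771, .ofNat 728, .ofNat 14, .ofNat 2261, .ofNat 266, .negSucc 1893⟩, ⟨.negSucc 1826, .negSucc 464, .negSucc 60, .negSucc 1505, .negSucc 166, .ofNat 1248⟩, ⟨.ofNat 540, .ofNat 242, .negSucc 267, .negSucc 106, .negSucc 816, .ofNat 445⟩, ⟨.ofNat 4937, .ofNat 271, .ofNat 396, .ofNat 2977, .ofNat 560, .negSucc 1918⟩, ⟨.ofNat 1569, .negSucc 57, .negSucc 5, .negSucc 259, .ofNat 292, .ofNat 1087⟩, .ofNat 20515, .ofNat 30199, .ofNat 0, .ofNat 30199, .ofNat 45245, .ofNat 0, .ofNat 128, .negSucc 3361, .negSucc 5041, .ofNat 0, .ofNat 2247, .ofNat 3350, .ofNat 0, .ofNat 0, .ofNat 3927, .ofNat 9551, .ofNat 0, .ofNat 0, .ofNat 6252983585381274292690396407750175538282496,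 .ofNat 22581456030784179604215775411860466024903748092088549376, .ofNat 0, .ofNat 0, .ofNat 58176107311633410824471567871931448453398265856, .ofNat 0, .ofNat 0, .ofNat 0, .ofNat 6077543056470883465345332371737013439793463296, .ofNat 296541228253054266411240274813309006253572603423878021120, .ofNat 0, .ofNat 0, .ofNat 13044517708640338299548681748427792338739265536, .ofNat 13973635424126979326639015597890869401023759955752090861568⟩)
    (by decide +kernel)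
theorem L05110 : Good (Phi V5.P V5.D (-1) (-1)) ⟨8, 228, 6, 43, 3, 7, 3, 1, 5, 1⟩ :=
  out_sound (S := T5.ds_mm) T5.ok_mm (w := 81) (j := 3) (by decide +kernel)
theorem L05111 : Good (Phi V5.P V5.D (-1) (-1)) ⟨8, 229, 6, 43, 3, 7, 3, 1, 5, 1⟩ :=
  out_sound (S := T5.ds_mm) T5.ok_mm (w := 23) (j := 4) (by decide +kernel)
theorem L05112 : Good (Phi V5.P V5.D (-1) (-1)) ⟨7, 115, 4, 10, 3, 7, 3, 1, 5, 1⟩ :=
  out_sound (S := T5.ds_mm) T5.ok_mm (w := 21) (j := 4) (by decide +kernel)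
theorem L05113 : Good (Phi V5.P V5.D (-1) (-1)) ⟨6, 56, 4, 11, 3, 7, 3, 1, 4, 0⟩ :=
  out_sound (S := T5.ds_mm) T5.ok_mm (w := 65) (j := 3) (by decide +kernel)
theorem L05114 : Good (Phi V5.P V5.D (-1) (-1)) ⟨7, 114, 5, 22, 3, 7, 3, 1, 4, 0⟩ :=
  out_sound (S := T5.ds_mm) T5.ok_mm (w := 73) (j := 3) (by decide +kernel)
theorem L05115 : Good (Phi V5.P V5.D (-1) (-1)) ⟨7, 115, 5, 22, 3, 7, 3, 1, 4, 0⟩ :=
  out_sound (S := T5.ds_mm) T5.ok_mm (w := 21) (j := 4) (by decide +kernel)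
theorem L05116 : Good (Phi V5.P V5.D (-1) (-1)) ⟨6, 57, 5, 23, 3, 7, 3, 1, 4, 0⟩ :=
  out_sound (S := T5.ds_mm) T5.ok_mm (w := 67) (j := 3) (by decide +kernel)
theorem L05117 : Good (Phi V5.P V5.D (-1) (-1)) ⟨5, 29, 3, 5, 3, 7, 3, 1, 4, 0⟩ :=
  out_sound (S := T5.ds_mm) T5.ok_mm (w := 17) (j := 4) (by decide +kernel)
theorem L05118 : Good (Phi V5.P V5.D (-1) (-1)) ⟨4, 15, 3, 5, 3, 7, 3, 1, 4, 0⟩ :=
  out_sound (S := T5.ds_mm) T5.ok_mm (w := 51) (j := 3) (by decide +kernel)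
theorem L05119 : Good (Phi V5.P V5.D (-1) (-1)) ⟨2, 2, 3, 5, 2, 3, 3, 0, 4, 1⟩ :=
  out_sound (S := T5.ds_mm) T5.ok_mm (w := 39) (j := 3) (by decide +kernel)
theorem L05120 : Good (Phi V5.P V5.D (-1) (-1)) ⟨3, 6, 4, 10, 2, 3, 4, 0, 5, 2⟩ :=
  out_sound (S := T5.ds_mm) T5.ok_mm (w := 47) (j := 3) (by decide +kernel)
theorem L05121 : Good (Phi V5.P V5.D (-1) (-1)) ⟨6, 56, 4, 10, 3, 6, 4, 0, 6, 4⟩ :=
  leafX_sound T5.ok_mm T5.Ymm.bz_eq (w := 259) (c := ⟨⟨.ofNat 6059, .ofNat 1135, .negSucc 191, .negSucc 5828, .negSucc 17, .negSucc 3312⟩, ⟨.negSucc 3942, .negSucc 887, .ofNat 269, .ofNat 3826, .ofNat 29, .ofNat 2169⟩, ⟨.negSucc 1682, .ofNat 1, .negSucc 232, .ofNat 3702, .negSucc 554, .ofNat 1305⟩, ⟨.ofNat 3695, .ofNat 1148, .negSucc 277, .negSucc 5680, .ofNat 811, .negSucc 4163⟩, ⟨.negSucc 7659, .negSucc 540, .ofNat 189, .ofNat 3936, .ofNat 1305, .ofNat 793⟩, .ofNat 2360, .ofNat 3225, .ofNat 0, .ofNat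 3225, .ofNat 5165, .ofNat 0, .ofNat 128, .negSucc 2905, .negSucc 2365, .ofNat 0, .ofNat 1924, .ofNat 1542, .ofNat 0, .ofNat 0, .ofNat 1915, .ofNat 11576, .ofNat 0, .ofNat 0, .ofNat 0, .ofNat 0, .ofNat 0, .ofNat 0, .ofNat 75716505230618011776758697257127186673749196800, .ofNat 0, .ofNat 32827699339806386068570783988522241727055169033768796160, .ofNat 0, .ofNat 371259903767587329468863609477139381474318876672, .ofNat 0, .ofNat 7593395914623232171506802656533243051704064849683152896, .ofNat 0, .ofNat 515619920956218062756213618787609520272610164736, .ofNat 0⟩)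
    (by decide +kernel)
theorem L05122 : Good (Phi V5.P V5.D (-1) (-1)) ⟨6, 57, 4, 10, 3, 6, 4, 0, 6, 4⟩ :=
  leafX_sound T5.ok_mm T5.Ymm.bz_eq (w := 258) (c := ⟨⟨.ofNat 7533, .negSucc 110, .ofNat 375, .negSucc 6471, .negSucc 270, .negSucc 3276⟩, ⟨.negSucc 5091, .negSucc 93, .negSucc 117, .ofNat 4318, .ofNat 182, .ofNat 2180⟩, ⟨.negSucc 2087, .negSucc 156, .ofNat 290, .ofNat 3878, .negSucc 501, .ofNat 1189⟩, ⟨.ofNat 5114, .negSucc 47, .ofNat 349, .negSucc 6309, .ofNat 681, .negSucc 4228⟩, ⟨.negSucc 8496, .ofNat 313, .ofNat 8, .ofNat 4199, .ofNat 1675, .ofNat 629⟩, .ofNat 1567, .ofNat 1994, .ofNat 0, .ofNat 1994, .ofNat 3224, .ofNat 0, .ofNat 128, .negSucc 3026, .negSucc 2375, .ofNat 0, .ofNat 2044, .ofNat 1572, .ofNat 0, .ofNat 0, .ofNat 1864, .ofNat 8364, .ofNat 0, .ofNat 0, .ofNat 5395297300263974423901301103757908004013342720, .ofNat 0, .ofNat 449796123997110718655873601039881157778074234228047872,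 .ofNat 0, .ofNat 26604411886343160708518121919413609441433485312, .ofNat 1091237265272237897644231478600899149915007303301967380480, .ofNat 29760882469794926805868418344237565513281426318698741760, .ofNat 0, .ofNat 551000333949298062136062224857024891131183235072, .ofNat 6591812239094031331513887476626650925523427332841401221120, .ofNat 5285327870063713123697786540123834528608986021043896320, .ofNat 0, .ofNat 500252644862291128240146160575784289145527992320, .ofNat 2806657112462480981954950774553923428073587961811131432960⟩)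
    (by decide +kernel)
theorem L05123 : Good (Phi V5.P V5.D (-1) (-1)) ⟨5, 28, 4, 10, 4, 12, 4, 0, 6, 5⟩ :=
  leafX_sound T5.ok_mm T5.Ymm.bz_eq (w := 265) (c := ⟨⟨.ofNat 1622, .negSucc 813, .ofNat 395, .negSucc 1241, .ofNat 712, .negSucc 5122⟩, ⟨.negSucc 1113, .ofNat 477, .negSucc 112, .ofNat 816, .negSucc 469, .ofNat 3365⟩, ⟨.ofNat 195, .ofNat 61, .negSucc 7, .ofNat 1105, .negSucc 587, .ofNat 2340⟩, ⟨.negSucc 1310, .negSucc 836, .ofNat 361, .negSucc 1098, .ofNat 1057, .negSucc 5323⟩, ⟨.negSucc 5619, .ofNat 538, .negSucc 200, .ofNat 1017, .ofNat 90, .ofNat 2994⟩, .ofNat 1474, .ofNat 1874, .ofNat 0, .ofNat 1874, .ofNat 3086, .ofNat 0, .ofNat 128, .negSucc 1307, .negSucc 1325, .ofNat 0, .ofNat 877, .ofNat 875, .ofNat 0, .ofNat 0, .ofNat 955, .ofNat 4043, .ofNat 52479917832268191801432419078545828140689542753885880320, .ofNat 0, .ofNat 31370034752914645908874981825921496473795324542976, .ofNat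 0, .ofNat 49613405357935737374135623316407276162775372073592160256, .ofNat 0, .ofNat 1131487314949656810763752090493907090314621098131456, .ofNat 0, .ofNat 1013564345029337731618923749782707184736581126440414609408, .ofNat 0, .ofNat 2379245325504096459880875757408766773350377986195456, .ofNat 4439639293452362885586455012648021859388735609749672552300544, .ofNat 380488345924149168236227427780430200344900615416414470144, .ofNat 0, .ofNat 5743113671135815643333843540448802270101444499603456, .ofNat 2049412067620606465661358336426688427573763209132399812149248⟩)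
    (by decide +kernel)
theorem L05124 : Good (Phi V5.P V5.D (-1) (-1)) ⟨5, 28, 4, 10, 4, 13, 4, 0, 6, 5⟩ :=
  leafX_sound T5.ok_mm T5.Ymm.bz_eq (w := 265) (c := ⟨⟨.negSucc 1192, .negSucc 223, .ofNat 430, .negSucc 1203, .ofNat 949, .negSucc 3003⟩, ⟨.ofNat 759, .negSucc 24, .negSucc 59, .ofNat 793, .negSucc 628, .ofNat 1978⟩, ⟨.ofNat 1976, .ofNat 523, .negSucc 387, .ofNat 1268, .negSucc 901, .ofNat 1410⟩, ⟨.negSucc 3923, .negSucc 501, .ofNat 612, .negSucc 1162, .ofNat 1349, .negSucc 3274⟩, ⟨.negSucc 3593, .ofNat 190, .negSucc 190, .ofNat 846, .ofNat 34, .ofNat 1517⟩, .ofNat 903, .ofNat 1022, .ofNat 0, .ofNat 1022, .ofNat 1783, .ofNat 0, .ofNat 128, .negSucc 789, .negSucc 877, .ofNat 0, .ofNat 549, .ofNat 572, .ofNat 0, .ofNat 0, .ofNat 744, .ofNat 12812, .ofNat 0, .ofNat 0, .ofNat 0, .ofNat 0, .ofNat 0, .ofNat 0, .ofNat 352861829044985308468142525279817799765036837634048, .ofNat 960649500134261649474015381463941673585666004806394842185728,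 .ofNat 159347315501118876356212972709051148277518682784501071872, .ofNat 0, .ofNat 1835431981809820872070957231417400655295743566807040, .ofNat 0, .ofNat 39374624030637951197843520517193091559390106349469696000, .ofNat 0, .ofNat 3634387606283508272274275399914237512298568899100672, .ofNat 0⟩)
    (by decide +kernel)
theorem L05125 : Good (Phi V5.P V5.D (-1) (-1)) ⟨7, 112, 5, 20, 3, 7, 4, 0, 5, 2⟩ :=
  leafX_sound T5.ok_mm T5.Ymm.bz_eq (w := 264) (c := ⟨⟨.negSucc 1076, .ofNat 468, .negSucc 908, .ofNat 43, .ofNat 595, .negSucc 4674⟩, ⟨.ofNat 696, .negSucc 350, .ofNat 716, .negSucc 68, .negSucc 364, .ofNat 3018⟩, ⟨.ofNat 3271, .negSucc 443, .ofNat 585, .ofNat 714, .negSucc 1021, .ofNat 2157⟩, ⟨.negSucc 3976, .ofNat 471, .negSucc 875, .negSucc 1782, .ofNat 1435, .negSucc 5114⟩, ⟨.negSucc 3863, .negSucc 229, .ofNat 504, .negSucc 2887, .ofNat 932, .ofNat 2361⟩, .ofNat 7678, .ofNat 11447, .ofNat 0,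 .ofNat 11447, .ofNat 17913, .ofNat 0, .ofNat 128, .negSucc 2546, .negSucc 2400, .ofNat 0, .ofNat 1676, .ofNat 1530, .ofNat 0, .ofNat 0, .ofNat 2323, .ofNat 26349, .ofNat 0, .ofNat 0, .ofNat 0, .ofNat 0, .ofNat 0, .ofNat 0, .ofNat 68626775020174488876726273029541638382255341568, .ofNat 0, .ofNat 0, .ofNat 0, .ofNat 0, .ofNat 0, .ofNat 0, .ofNat 0, .ofNat 35835205580563590633686163134765545953268072448, .ofNat 0⟩)
    (by decide +kernel)
theorem L05126 : Good (Phi V5.P V5.D (-1) (-1)) ⟨7, 113, 5, 20, 3, 7, 5, 0, 5, 2⟩ :=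
  leafX_sound T5.ok_mm T5.Ymm.bz_eq (w := 263) (c := ⟨⟨.negSucc 630, .negSucc 853, .ofNat 972, .negSucc 262, .ofNat 487, .negSucc 4685⟩, ⟨.ofNat 332, .ofNat 440, .negSucc 417, .ofNat 122, .negSucc 304, .ofNat 3073⟩, ⟨.ofNat 2869, .ofNat 475, .negSucc 324, .ofNat 1044, .negSucc 691, .ofNat 2019⟩, ⟨.negSucc 2980, .negSucc 1216, .ofNat 727, .negSucc 3414, .ofNat 1329, .negSucc 5276⟩, ⟨.negSucc 3263, .negSucc 134, .negSucc 764, .negSucc 4641, .ofNat 982, .ofNat 2052⟩, .ofNat 2334, .ofNat 3179, .ofNat 0, .ofNat 3179, .ofNat 5086, .ofNat 0, .ofNat 128, .negSucc 1364, .negSucc 1249, .ofNat 0, .ofNat 932, .ofNat 790, .ofNat 0, .ofNat 0, .ofNat 1233, .ofNat 22694, .ofNat 0, .ofNat 0, .ofNat 0, .ofNat 0, .ofNat 130579985479870897507217417117008194663910598244873273344, .ofNat 0, .ofNat 69777010208851002696741860486698428185899433984, .ofNat 0, .ofNat 0, .ofNat 0, .ofNat 174905348103954906016515130189595316614277890048,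 .ofNat 0, .ofNat 0, .ofNat 0, .ofNat 24287162965277172995048120566431630051229302784, .ofNat 0⟩)
    (by decide +kernel)
theorem L05127 : Good (Phi V5.P V5.D (-1) (-1)) ⟨7, 113, 5, 20, 3, 7, 5, 1, 5, 2⟩ :=
  leafX_sound T5.ok_mm T5.Ymm.bz_eq (w := 266) (c := ⟨⟨.ofNat 116, .ofNat 990, .negSucc 868, .negSucc 509, .ofNat 314, .negSucc 4920⟩, ⟨.negSucc 137, .negSucc 686, .ofNat 680, .ofNat 306, .negSucc 196, .ofNat 3220⟩, ⟨.ofNat 2070, .negSucc 319, .ofNat 356, .ofNat 1122, .negSucc 463, .ofNat 2291⟩, ⟨.negSucc 1585, .ofNat 832, .negSucc 1040, .negSucc 2985, .ofNat 834, .negSucc 5947⟩, ⟨.negSucc 2683, .negSucc 740, .ofNat 219, .negSucc 3520, .ofNat 607, .ofNat 1535⟩, .ofNat 5360, .ofNat 7781, .ofNat 0, .ofNat 7781, .ofNat 12102, .ofNat 0, .ofNat 128, .negSucc 2139, .negSucc 1463, .ofNat 0, .ofNat 1424, .ofNat 944, .ofNat 0, .ofNat 0, .ofNat 1360, .ofNat 14436, .ofNat 0, .ofNat 0, .ofNat 0, .ofNat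 0, .ofNat 0, .ofNat 0, .ofNat 131429915502754976924132384950775350029801488384, .ofNat 0, .ofNat 0, .ofNat 0, .ofNat 0, .ofNat 0, .ofNat 0, .ofNat 0, .ofNat 589301068449482240384214876645360504320032768, .ofNat 0⟩)
    (by decide +kernel)
theorem L05128 : Good (Phi V5.P V5.D (-1) (-1)) ⟨6, 56, 5, 21, 3, 7, 4, 0, 5, 2⟩ :=
  leafX_sound T5.ok_mm T5.Ymm.bz_eq (w := 265) (c := ⟨⟨.negSucc 224, .negSucc 0, .ofNat 627, .negSucc 509, .ofNat 962, .negSucc 5072⟩, ⟨.ofNat 136, .ofNat 1, .negSucc 306, .ofNat 317, .negSucc 626, .ofNat 3360⟩, ⟨.ofNat 2752, .ofNat 2, .ofNat 167, .ofNat 1260, .negSucc 1262, .ofNat 2305⟩, ⟨.negSucc 3889, .negSucc 2, .ofNat 139, .negSucc 853, .ofNat 1231, .negSucc 5182⟩, ⟨.negSucc 5392, .negSucc 1, .negSucc 80, .negSucc 230, .negSucc 172, .ofNat 2912⟩, .ofNat 23201, .ofNat 34569, .ofNat 0, .ofNat 34569, .ofNat 52320, .ofNat 0, .ofNat 128, .negSucc 4248, .negSucc 3979, .ofNat 0,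 .ofNat 2833, .ofNat 2628, .ofNat 0, .ofNat 0, .ofNat 3714, .ofNat 59105, .ofNat 0, .ofNat 0, .ofNat 1184402752696313438542079486138842997453750272, .ofNat 0, .ofNat 0, .ofNat 0, .ofNat 298516951814652056478116084695022756434840387584, .ofNat 0, .ofNat 0, .ofNat 0, .ofNat 256020330226538992440658058888608199995209809920, .ofNat 0, .ofNat 0, .ofNat 0, .ofNat 310202877084026647374224672050803831842820587520, .ofNat 0⟩)
    (by decide +kernel)
theorem L05129 : Good (Phi V5.P V5.D (-1) (-1)) ⟨7, 114, 5, 20, 3, 7, 4, 0, 5, 2⟩ :=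
  leafX_sound T5.ok_mm T5.Ymm.bz_eq (w := 269) (c := ⟨⟨.negSucc 157, .ofNat 1, .ofNat 127, .negSucc 712, .ofNat 656, .negSucc 4969⟩, ⟨.negSucc 120, .negSucc 0, .ofNat 126, .ofNat 453, .negSucc 425, .ofNat 3296⟩, ⟨.ofNat 2610, .negSucc 1, .ofNat 38, .ofNat 1370, .negSucc 1099, .ofNat 2243⟩, ⟨.negSucc 3918, .ofNat 3, .negSucc 1, .negSucc 1018, .ofNat 859, .negSucc 4938⟩, ⟨.negSucc 5829, .ofNat 2, .negSucc 2, .negSucc 41, .negSucc 86, .ofNat 3047⟩, .ofNat 26829, .ofNat 40034, .ofNat 0, .ofNat 40034, .ofNat 60550, .ofNat 0, .ofNat 128, .negSucc 4429, .negSucc 4614, .ofNat 0, .ofNat 2956, .ofNat 3046, .ofNat 0, .ofNat 0, .ofNat 4363, .ofNat 62086, .ofNat 0, .ofNat 0, .ofNat 159004453029115619270713845442796791235870720, .ofNat 0, .ofNat 0, .ofNat 0, .ofNat 11094896043185410105524432007554505515846235848704, .ofNat 0, .ofNat 0, .ofNat 0, .ofNat 4109016517589988456812703788027197639504661839872, .ofNat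 0, .ofNat 127742708635236888084706368621592397542584723540379959296, .ofNat 0, .ofNat 173810676501436790794675709409498853130341711872, .ofNat 0⟩)
    (by decide +kernel)
theorem L05130 : Good (Phi V5.P V5.D (-1) (-1)) ⟨7, 114, 5, 21, 4, 14, 4, 0, 5, 2⟩ :=
  leafX_sound T5.ok_mm T5.Ymm.bz_eq (w := 281) (c := ⟨⟨.ofNat 78, .ofNat 239, .negSucc 41, .negSucc 1016, .ofNat 809, .negSucc 4687⟩, ⟨.negSucc 71, .negSucc 214, .ofNat 158, .ofNat 672, .negSucc 532, .ofNat 3116⟩, ⟨.ofNat 2523, .ofNat 113, .negSucc 161, .ofNat 1187, .negSucc 1168, .ofNat 2071⟩, ⟨.negSucc 2791, .ofNat 107, .ofNat 84, .negSucc 1143, .ofNat 810, .negSucc 4524⟩, ⟨.negSucc 4352, .negSucc 64, .negSucc 40, .ofNat 419, .negSucc 477, .ofNat 3057⟩, .ofNat 18265, .ofNat 27014, .ofNat 0, .ofNat 27014, .ofNat 40753, .ofNat 0, .ofNat 128, .negSucc 2880, .negSucc 3438, .ofNat 0, .ofNat 1928, .ofNat 2285, .ofNat 0, .ofNat 0, .ofNat 3242, .ofNat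 27903, .ofNat 0, .ofNat 0, .ofNat 0, .ofNat 0, .ofNat 0, .ofNat 0, .ofNat 1571504623941553933472970886429678338870593208713216, .ofNat 364103126529768973561387094253593414374839062316786308861657088, .ofNat 0, .ofNat 0, .ofNat 0, .ofNat 0, .ofNat 0, .ofNat 0, .ofNat 0, .ofNat 0⟩)
    (by decide +kernel)
theorem L05131 : Good (Phi V5.P V5.D (-1) (-1)) ⟨7, 114, 6, 42, 4, 15, 5, 0, 6, 4⟩ :=
  leafX_sound T5.ok_mm T5.Ymm.bz_eq (w := 286) (c := ⟨⟨.negSucc 451, .ofNat 178, .ofNat 253, .ofNat 743, .ofNat 357, .negSucc 3756⟩, ⟨.ofNat 272, .negSucc 139, .negSucc 114, .negSucc 503, .negSucc 238, .ofNat 2512⟩, ⟨.ofNat 3553, .ofNat 88, .negSucc 95, .ofNat 57, .negSucc 631, .ofNat 1623⟩, ⟨.negSucc 4324, .ofNat 148, .ofNat 0, .negSucc 1963, .ofNat 1835, .negSucc 4868⟩, ⟨.negSucc 5576, .negSucc 171, .negSucc 437, .negSucc 4522, .ofNat 1998, .ofNat 610⟩, .ofNat 2692, .ofNat 3672, .ofNat 0, .ofNat 3672, .ofNat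 5744, .ofNat 0, .ofNat 128, .negSucc 1637, .negSucc 1621, .ofNat 0, .ofNat 1130, .ofNat 1033, .ofNat 0, .ofNat 0, .ofNat 1475, .ofNat 50374, .ofNat 0, .ofNat 0, .ofNat 693787033735983153783951975311414173408823823302656, .ofNat 1144429400252927086867087061703817242217856822777395570622332928, .ofNat 0, .ofNat 0, .ofNat 195273082286489410853628171858370017999319603724943360, .ofNat 87655669796729143765598824351611023868126917203748471040850788352, .ofNat 0, .ofNat 0, .ofNat 216450411118014077092722478853022986735734327405969408, .ofNat 0, .ofNat 0, .ofNat 0, .ofNat 0, .ofNat 0⟩)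
    (by decide +kernel)
theorem L05132 : Good (Phi V5.P V5.D (-1) (-1)) ⟨7, 114, 6, 42, 4, 15, 5, 1, 6, 4⟩ :=
  leafX_sound T5.ok_mm T5.Ymm.bz_eq (w := 291) (c := ⟨⟨.ofNat 46, .negSucc 64, .ofNat 239, .ofNat 350, .ofNat 456, .negSucc 3701⟩, ⟨.negSucc 53, .negSucc 143, .negSucc 25, .negSucc 245, .negSucc 300, .ofNat 2471⟩, ⟨.ofNat 2801, .ofNat 1, .ofNat 16, .ofNat 276, .negSucc 612, .ofNat 1640⟩, ⟨.negSucc 2719, .negSucc 42, .ofNat 63, .negSucc 1492, .ofNat 1497, .negSucc 5105⟩, ⟨.negSucc 4210, .negSucc 90, .negSucc 241, .negSucc 2990, .ofNat 1290, .ofNat 126⟩, .ofNat 7269, .ofNat 10519, .ofNat 0, .ofNat 10519, .ofNat 16002, .ofNat 0, .ofNat 128, .negSucc 3027, .negSucc 4425, .ofNat 0, .ofNat 2041, .ofNat 2908, .ofNat 0, .ofNat 0, .ofNat 3689, .ofNat 31981, .ofNat 0, .ofNat 0, .ofNat 0, .ofNat 0, .ofNat 0, .ofNat 0, .ofNat 1535502713505854707197901820061490467495076541375709184, .ofNat 156690724673742716916699857989002104841337973504154331619065331712,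 .ofNat 0, .ofNat 0, .ofNat 728724111797512311406084291259251546018004524830031872, .ofNat 0, .ofNat 0, .ofNat 0, .ofNat 0, .ofNat 0⟩)
    (by decide +kernel)
theorem L05133 : Good (Phi V5.P V5.D (-1) (-1)) ⟨7, 114, 6, 42, 4, 15, 4, 0, 6, 5⟩ :=
  leafX_sound T5.ok_mm T5.Ymm.bz_eq (w := 286) (c := ⟨⟨.negSucc 3751, .negSucc 104, .negSucc 33, .negSucc 157, .ofNat 688, .negSucc 1389⟩, ⟨.ofNat 2462, .ofNat 177, .ofNat 28, .ofNat 96, .negSucc 451, .ofNat 931⟩, ⟨.ofNat 4954, .ofNat 162, .ofNat 74, .ofNat 573, .negSucc 1191, .ofNat 625⟩, ⟨.negSucc 8117, .negSucc 155, .negSucc 246, .negSucc 2712, .ofNat 2101, .negSucc 1793⟩, ⟨.negSucc 4301, .negSucc 81, .negSucc 226, .negSucc 3741, .ofNat 1713, .ofNat 237⟩, .ofNat 7221, .ofNat 10450, .ofNat 0, .ofNat 10450, .ofNat 15903, .ofNat 0, .ofNat 128, .negSucc 1862, .negSucc 2364, .ofNat 0, .ofNat 1262, .ofNat 1552, .ofNat 0, .ofNat 0, .ofNat 2315, .ofNat 22507,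 .ofNat 0, .ofNat 0, .ofNat 175387486588753966128406572541848071368502516121600, .ofNat 158668315994179477206912764977456414807814871959484243057311744, .ofNat 0, .ofNat 0, .ofNat 65219058187260860225427066916429570325899836001353728, .ofNat 5223914832762954954089575235315824451284771724897357162732322816, .ofNat 0, .ofNat 0, .ofNat 0, .ofNat 0, .ofNat 0, .ofNat 0, .ofNat 0, .ofNat 0⟩)
    (by decide +kernel)
theorem L05134 : Good (Phi V5.P V5.D (-1) (-1)) ⟨8, 228, 6, 43, 4, 15, 4, 0, 5, 2⟩ :=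
  out_sound (S := T5.ds_mm) T5.ok_mm (w := 81) (j := 3) (by decide +kernel)
theorem L05135 : Good (Phi V5.P V5.D (-1) (-1)) ⟨8, 229, 6, 43, 4, 15, 4, 0, 5, 2⟩ :=
  out_sound (S := T5.ds_mm) T5.ok_mm (w := 23) (j := 4) (by decide +kernel)
theorem L05136 : Good (Phi V5.P V5.D (-1) (-1)) ⟨7, 115, 4, 10, 3, 7, 4, 0, 5, 2⟩ :=
  out_sound (S := T5.ds_mm) T5.ok_mm (w := 21) (j := 4) (by decide +kernel)
theorem L05137 : Good (Phi V5.P V5.D (-1) (-1)) ⟨5, 29, 4, 10, 2, 3, 4, 0, 5, 2⟩ :=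
  out_sound (S := T5.ds_mm) T5.ok_mm (w := 59) (j := 3) (by decide +kernel)
theorem L05138 : Good (Phi V5.P V5.D (-1) (-1)) ⟨4, 15, 4, 10, 2, 3, 4, 0, 5, 2⟩ :=
  out_sound (S := T5.ds_mm) T5.ok_mm (w := 53) (j := 3) (by decide +kernel)
theorem L05139 : Good (Phi V5.P V5.D (-1) (-1)) ⟨3, 6, 4, 10, 2, 3, 4, 0, 5, 3⟩ :=
  out_sound (S := T5.ds_mm) T5.ok_mm (w := 47) (j := 3) (by decide +kernel)
theorem L05140 : Good (Phi V5.P V5.D (-1) (-1)) ⟨7, 112, 5, 20, 3, 6, 4, 0, 6, 6⟩ :=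
  leafX_sound T5.ok_mm T5.Ymm.bz_eq (w := 269) (c := ⟨⟨.negSucc 5393, .negSucc 47, .negSucc 256, .ofNat 918, .ofNat 796, .negSucc 1334⟩, ⟨.ofNat 3432, .ofNat 51, .ofNat 256, .negSucc 591, .negSucc 518, .ofNat 868⟩, ⟨.ofNat 3369, .ofNat 2, .ofNat 587, .ofNat 825, .negSucc 682, .ofNat 731⟩, ⟨.negSucc 8235, .negSucc 0, .negSucc 261, .ofNat 1082, .ofNat 691, .negSucc 1186⟩, ⟨.negSucc 821, .ofNat 26, .ofNat 158, .negSucc 343, .negSucc 691, .ofNat 1116⟩, .ofNat 4583, .ofNat 6678, .ofNat 0, .ofNat 6678, .ofNat 10555, .ofNat 0, .ofNat 128, .negSucc 3481, .negSucc 4772, .ofNat 0, .ofNat 2292, .ofNat 3100, .ofNat 0, .ofNat 0, .ofNat 4388, .ofNat 59370, .ofNat 162485554151347387927444621586624989437031114243951296512, .ofNat 0, .ofNat 2744290462824494275371613639555366475918213120, .ofNat 0, .ofNat 930379701302252277053882489077789727247162197013430272, .ofNat 0, .ofNat 372176405296972708685150068671141044831926616064,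 .ofNat 0, .ofNat 783046245177111114169997516729369351579114798632291794944, .ofNat 0, .ofNat 1015792559483092341234531177002842391836522184704, .ofNat 0, .ofNat 0, .ofNat 0, .ofNat 1435309268448217652839662578636436128690880905216, .ofNat 0⟩)
    (by decide +kernel)
theorem L05141 : Good (Phi V5.P V5.D (-1) (-1)) ⟨7, 112, 5, 20, 3, 6, 4, 0, 6, 7⟩ :=
  leafX_sound T5.ok_mm T5.Ymm.bz_eq (w := 271) (c := ⟨⟨.negSucc 6636, .negSucc 581, .ofNat 252, .ofNat 1723, .ofNat 626, .ofNat 32⟩, ⟨.ofNat 4233, .ofNat 407, .negSucc 73, .negSucc 1113, .negSucc 410, .negSucc 17⟩, ⟨.ofNat 4120, .ofNat 388, .negSucc 439, .ofNat 207, .negSucc 635, .ofNat 9⟩, ⟨.negSucc 9250, .negSucc 482, .ofNat 202, .ofNat 1860, .ofNat 452, .ofNat 123⟩, ⟨.ofNat 466, .ofNat 318, .negSucc 114, .negSucc 913, .negSucc 682, .ofNat 124⟩, .ofNat 7683, .ofNat 11460, .ofNat 0, .ofNat 11460, .ofNat 17940, .ofNat 0, .ofNat 128, .negSucc 4839,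 .negSucc 5155, .ofNat 0, .ofNat 3181, .ofNat 3350, .ofNat 0, .ofNat 0, .ofNat 5533, .ofNat 116136, .ofNat 229009583146602077477804475726834467502883908957239246848, .ofNat 0, .ofNat 2783041920621545924610001501103912233820225536, .ofNat 0, .ofNat 589052492176046297922048892070252894718144872030683529216, .ofNat 0, .ofNat 3948681804880047512694291519557772252323346644992, .ofNat 0, .ofNat 9594570336047638575498575726066380017728106439468247941120, .ofNat 0, .ofNat 6695934138002464243353584529912381057112188387328, .ofNat 0, .ofNat 0, .ofNat 0, .ofNat 0, .ofNat 0⟩)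
    (by decide +kernel)
theorem L05142 : Good (Phi V5.P V5.D (-1) (-1)) ⟨7, 112, 5, 20, 3, 7, 4, 0, 5, 3⟩ :=
  leafX_sound T5.ok_mm T5.Ymm.bz_eq (w := 264) (c := ⟨⟨.negSucc 5357, .ofNat 108, .ofNat 383, .ofNat 579, .ofNat 440, .ofNat 138⟩, ⟨.ofNat 3423, .negSucc 69, .negSucc 155, .negSucc 406, .negSucc 278, .negSucc 77⟩, ⟨.ofNat 4897, .ofNat 83, .negSucc 162, .ofNat 369, .negSucc 867, .negSucc 236⟩, ⟨.negSucc 8504, .ofNat 195, .ofNat 357, .negSucc 502, .ofNat 669, .ofNat 346⟩, ⟨.negSucc 1314, .negSucc 27, .negSucc 165, .negSucc 2075, .ofNat 71, .ofNat 241⟩, .ofNat 9585, .ofNat 14392, .ofNat 0, .ofNat 14392, .ofNat 22462, .ofNat 0, .ofNat 128, .negSucc 1682, .negSucc 1432, .ofNat 0, .ofNat 1118, .ofNat 914, .ofNat 0, .ofNat 0, .ofNat 1857, .ofNat 30600, .ofNat 0, .ofNat 0, .ofNat 0, .ofNat 0, .ofNat 0, .ofNat 0, .ofNat 130276074718340031725296897112906955602828197888, .ofNat 0, .ofNat 0, .ofNat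 0, .ofNat 17307988027573720766376867319001562237622026240, .ofNat 0, .ofNat 0, .ofNat 0, .ofNat 12616766383894146310923531789346152543072288768, .ofNat 0⟩)
    (by decide +kernel)
theorem L05143 : Good (Phi V5.P V5.D (-1) (-1)) ⟨7, 113, 5, 20, 3, 6, 4, 0, 6, 6⟩ :=
  leafX_sound T5.ok_mm T5.Ymm.bz_eq (w := 262) (c := ⟨⟨.negSucc 5479, .negSucc 342, .ofNat 436, .ofNat 902, .ofNat 802, .negSucc 1324⟩, ⟨.ofNat 3510, .ofNat 227, .negSucc 179, .negSucc 587, .negSucc 529, .ofNat 870⟩, ⟨.ofNat 3416, .ofNat 195, .negSucc 256, .ofNat 774, .negSucc 677, .ofNat 714⟩, ⟨.negSucc 8213, .negSucc 330, .ofNat 449, .ofNat 1054, .ofNat 641, .negSucc 1188⟩, ⟨.negSucc 696, .ofNat 182, .negSucc 275, .negSucc 344, .negSucc 797, .ofNat 1140⟩, .ofNat 891, .ofNat 1006, .ofNat 0, .ofNat 1006, .ofNat 1762, .ofNat 0, .ofNat 128, .negSucc 1011, .negSucc 1163, .ofNat 0, .ofNat 709, .ofNat 776, .ofNat 0, .ofNat 0, .ofNat 989,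 .ofNat 14989, .ofNat 41514203306720015130323439542343874520638763763849232384, .ofNat 0, .ofNat 539720596870916522942232763147239149080150016, .ofNat 0, .ofNat 74604871123045821225684238215107629816424949861652103168, .ofNat 0, .ofNat 21653003164073127287404776459810056387596124160, .ofNat 0, .ofNat 251354063530434233972918500201843533155116384735224397824, .ofNat 0, .ofNat 124694039414776344157730872160330513520359636992, .ofNat 0, .ofNat 0, .ofNat 0, .ofNat 0, .ofNat 0⟩)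
    (by decide +kernel)
theorem L05144 : Good (Phi V5.P V5.D (-1) (-1)) ⟨7, 113, 5, 20, 3, 6, 4, 0, 6, 7⟩ :=
  leafX_sound T5.ok_mm T5.Ymm.bz_eq (w := 266) (c := ⟨⟨.negSucc 7342, .negSucc 325, .ofNat 313, .ofNat 1922, .ofNat 570, .ofNat 127⟩, ⟨.ofNat 4734, .ofNat 257, .negSucc 125, .negSucc 1262, .negSucc 380, .negSucc 81⟩, ⟨.ofNat 4461, .ofNat 196, .negSucc 249, .ofNat 159, .negSucc 523, .negSucc 4⟩, ⟨.negSucc 9855, .negSucc 219, .ofNat 249, .ofNat 2083, .ofNat 293, .ofNat 309⟩, ⟨.ofNat 857, .ofNat 195, .negSucc 240, .negSucc 964, .negSucc 793, .ofNat 207⟩, .ofNat 2394, .ofNat 3268, .ofNat 0, .ofNat 3268, .ofNat 5216, .ofNat 0, .ofNat 128, .negSucc 2307, .negSucc 2339, .ofNat 0, .ofNat 1562, .ofNat 1549, .ofNat 0, .ofNat 0, .ofNat 2391, .ofNat 64276, .ofNat 113963322948795273386553334901040735333187005890691072000, .ofNat 0, .ofNat 1757024431995443934608687491850728077902479360, .ofNat 0, .ofNat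 34205984461950650021554996582329836317751209632980795392, .ofNat 0, .ofNat 185451958427178570664328249690674700650635329536, .ofNat 0, .ofNat 3085493257551860927271442266787484800015251995443807125504, .ofNat 0, .ofNat 841449193423621593466090948979678023746410512384, .ofNat 0, .ofNat 0, .ofNat 0, .ofNat 0, .ofNat 0⟩)
    (by decide +kernel)
theorem L05145 : Good (Phi V5.P V5.D (-1) (-1)) ⟨7, 113, 5, 20, 3, 7, 4, 0, 5, 3⟩ :=
  leafX_sound T5.ok_mm T5.Ymm.bz_eq (w := 263) (c := ⟨⟨.negSucc 5294, .negSucc 764, .ofNat 800, .ofNat 428, .ofNat 436, .ofNat 205⟩, ⟨.ofNat 3385, .ofNat 504, .negSucc 417, .negSucc 306, .negSucc 281, .negSucc 124⟩, ⟨.ofNat 4927, .ofNat 358, .negSucc 248, .ofNat 687, .negSucc 908, .negSucc 290⟩, ⟨.negSucc 8407, .negSucc 650, .ofNat 556, .negSucc 1002, .ofNat 905, .ofNat 295⟩, ⟨.negSucc 1445, .ofNat 320, .negSucc 533, .negSucc 2469, .ofNat 440, .ofNat 17⟩, .ofNat 9997, .ofNat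 14839, .ofNat 0, .ofNat 14839, .ofNat 22850, .ofNat 0, .ofNat 128, .negSucc 1558, .negSucc 1319, .ofNat 0, .ofNat 1043, .ofNat 856, .ofNat 0, .ofNat 0, .ofNat 1670, .ofNat 8220, .ofNat 0, .ofNat 0, .ofNat 0, .ofNat 0, .ofNat 0, .ofNat 0, .ofNat 31827645716315418823084229823091327220569866240, .ofNat 0, .ofNat 0, .ofNat 0, .ofNat 0, .ofNat 0, .ofNat 0, .ofNat 0, .ofNat 0, .ofNat 0⟩)
    (by decide +kernel)
theorem L05146 : Good (Phi V5.P V5.D (-1) (-1)) ⟨6, 56, 5, 21, 3, 6, 4, 0, 6, 6⟩ :=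
  leafX_sound T5.ok_mm T5.Ymm.bz_eq (w := 271) (c := ⟨⟨.negSucc 5621, .negSucc 2, .ofNat 398, .ofNat 1004, .ofNat 1253, .negSucc 1621⟩, ⟨.ofNat 3716, .ofNat 2, .negSucc 172, .negSucc 663, .negSucc 833, .ofNat 1077⟩, ⟨.ofNat 3402, .ofNat 2, .ofNat 610, .ofNat 743, .negSucc 836, .ofNat 836⟩, ⟨.negSucc 8328, .negSucc 3, .ofNat 99, .ofNat 981, .ofNat 1212, .negSucc 1517⟩, ⟨.negSucc 650, .ofNat 0, .negSucc 63, .negSucc 646, .negSucc 828, .ofNat 1153⟩, .ofNat 14660, .ofNat 21706, .ofNat 0, .ofNat 21706, .ofNat 32943, .ofNat 0, .ofNat 128, .negSucc 10619, .negSucc 12380, .ofNat 0, .ofNat 7079, .ofNat 8224, .ofNat 0, .ofNat 0, .ofNat 10750, .ofNat 68000, .ofNat 11859736378909108093816582082141812286525113608104312832, .ofNat 0, .ofNat 110737460732973828734350899621542343361098153984, .ofNat 0, .ofNat 0, .ofNat 0, .ofNat 20275768613989925816531147683162892919442157600768, .ofNat 0, .ofNat 0, .ofNat 0,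 .ofNat 0, .ofNat 0, .ofNat 0, .ofNat 0, .ofNat 0, .ofNat 0⟩)
    (by decide +kernel)
theorem L05147 : Good (Phi V5.P V5.D (-1) (-1)) ⟨6, 56, 5, 21, 3, 6, 4, 0, 6, 7⟩ :=
  leafX_sound T5.ok_mm T5.Ymm.bz_eq (w := 262) (c := ⟨⟨.negSucc 7321, .negSucc 2, .ofNat 199, .ofNat 2023, .ofNat 630, .negSucc 18⟩, ⟨.ofNat 4848, .ofNat 2, .negSucc 46, .negSucc 1340, .negSucc 422, .ofNat 13⟩, ⟨.ofNat 4345, .ofNat 2, .ofNat 425, .ofNat 93, .negSucc 527, .ofNat 75⟩, ⟨.negSucc 9764, .negSucc 3, .ofNat 146, .ofNat 2169, .ofNat 348, .ofNat 152⟩, ⟨.ofNat 811, .ofNat 0, .negSucc 119, .negSucc 1026, .negSucc 824, .ofNat 277⟩, .ofNat 2586, .ofNat 3529, .ofNat 0, .ofNat 3529, .ofNat 5558, .ofNat 0, .ofNat 128, .negSucc 2861, .negSucc 2433, .ofNat 0, .ofNat 1947, .ofNat 1625, .ofNat 0, .ofNat 0, .ofNat 2434, .ofNat 83287, .ofNat 9465691566174803707775740362077227528925054668418056192, .ofNat 0, .ofNat 61750483608041351894272704871525539243205066752,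 .ofNat 0, .ofNat 17150063740626398438423230914249019968447897117340467200, .ofNat 0, .ofNat 1496621287716607919851379147244109360722010439680, .ofNat 0, .ofNat 302353569346587394262288102727875989234918135340520701952, .ofNat 0, .ofNat 5889196778344691369377855413014810060218483867648, .ofNat 0, .ofNat 0, .ofNat 0, .ofNat 12969231107138510085259411587246922284321585758208, .ofNat 0⟩)
    (by decide +kernel)
theorem L05148 : Good (Phi V5.P V5.D (-1) (-1)) ⟨6, 56, 5, 21, 3, 7, 4, 0, 5, 3⟩ :=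
  leafX_sound T5.ok_mm T5.Ymm.bz_eq (w := 264) (c := ⟨⟨.negSucc 5046, .negSucc 2, .negSucc 740, .ofNat 241, .ofNat 438, .ofNat 72⟩, ⟨.ofNat 3334, .ofNat 2, .ofNat 619, .negSucc 175, .negSucc 289, .negSucc 43⟩, ⟨.ofNat 4842, .ofNat 2, .negSucc 47, .ofNat 926, .negSucc 898, .negSucc 204⟩, ⟨.negSucc 8446, .negSucc 3, .negSucc 145, .negSucc 239, .ofNat 451, .ofNat 121⟩, ⟨.negSucc 2023, .negSucc 0, .ofNat 90, .negSucc 873, .negSucc 248, .ofNat 32⟩, .ofNat 23256, .ofNat 34653, .ofNat 0, .ofNat 34653, .ofNat 52445, .ofNat 0, .ofNat 128, .negSucc 3471, .negSucc 2647, .ofNat 0, .ofNat 2324, .ofNat 1748, .ofNat 0, .ofNat 0, .ofNat 3273, .ofNat 66423, .ofNat 0, .ofNat 0, .ofNat 266055016479599404750570748157075009923186688, .ofNat 0, .ofNat 0, .ofNat 0, .ofNat 0, .ofNat 0, .ofNat 0, .ofNat 0, .ofNat 934484977678239947704333656637454182504386789376, .ofNat 0, .ofNat 0, .ofNat 0, .ofNat 537074830126731426945912168537345692697672810496,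 .ofNat 0⟩)
    (by decide +kernel)
theorem L05149 : Good (Phi V5.P V5.D (-1) (-1)) ⟨7, 114, 4, 10, 3, 6, 4, 0, 6, 6⟩ :=
  leafX_sound T5.ok_mm T5.Ymm.bz_eq (w := 259) (c := ⟨⟨.negSucc 5538, .ofNat 70, .ofNat 4, .ofNat 1251, .ofNat 831, .negSucc 1535⟩, ⟨.ofNat 3493, .negSucc 109, .ofNat 341, .negSucc 830, .negSucc 558, .ofNat 1027⟩, ⟨.ofNat 3656, .ofNat 204, .negSucc 567, .ofNat 628, .negSucc 627, .ofNat 809⟩, ⟨.negSucc 8035, .ofNat 395, .negSucc 523, .ofNat 1421, .ofNat 702, .negSucc 1405⟩, ⟨.negSucc 1059, .negSucc 163, .ofNat 488, .negSucc 480, .negSucc 762, .ofNat 1240⟩, .ofNat 938, .ofNat 1065, .ofNat 0, .ofNat 1065, .ofNat 1821, .ofNat 0, .ofNat 128, .negSucc 1073, .negSucc 1108, .ofNat 0, .ofNat 757, .ofNat 747, .ofNat 0, .ofNat 0, .ofNat 934, .ofNat 10020, .ofNat 3489688076560069461786189787512327539266023036121251840, .ofNat 0, .ofNat 428569251886190425290094958286087525951864832, .ofNat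 0, .ofNat 7821684466647826398997479365114883353765050082238922752, .ofNat 0, .ofNat 3805466058144629535236508386746380719444983808, .ofNat 823064612882252158996595793624699706406883094729236414464, .ofNat 38589208764889908735191582455190880553974300535534125056, .ofNat 0, .ofNat 49988237430926387961944711781539908371617939456, .ofNat 3080630338722299974473850275748326106695942374230849486848, .ofNat 0, .ofNat 0, .ofNat 21843550444398404405249798528324163743996968960, .ofNat 0⟩)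
    (by decide +kernel)
theorem L05150 : Good (Phi V5.P V5.D (-1) (-1)) ⟨7, 115, 4, 10, 3, 6, 4, 0, 6, 6⟩ :=
  out_sound (S := T5.ds_mm) T5.ok_mm (w := 21) (j := 4) (by decide +kernel)
theorem L05151 : Good (Phi V5.P V5.D (-1) (-1)) ⟨6, 57, 4, 10, 3, 6, 4, 0, 6, 7⟩ :=
  leafX_sound T5.ok_mm T5.Ymm.bz_eq (w := 259) (c := ⟨⟨.negSucc 7482, .negSucc 198, .ofNat 349, .ofNat 2091, .ofNat 596, .negSucc 99⟩, ⟨.ofNat 4862, .ofNat 167, .negSucc 33, .negSucc 1394, .negSucc 399, .ofNat 67⟩, ⟨.ofNat 4345, .negSucc 208, .ofNat 57, .ofNat 48, .negSucc 533, .ofNat 94⟩, ⟨.negSucc 9809, .ofNat 60, .ofNat 130, .ofNat 2224, .ofNat 318, .ofNat 69⟩, ⟨.ofNat 860, .negSucc 74, .negSucc 126, .negSucc 1071, .negSucc 785, .ofNat 317⟩, .ofNat 2703, .ofNat 3687, .ofNat 0, .ofNat 3687, .ofNat 5764, .ofNat 0, .ofNat 128, .negSucc 2327, .negSucc 2510, .ofNat 0, .ofNat 1592, .ofNat 1684, .ofNat 0, .ofNat 0, .ofNat 2545, .ofNat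 26880, .ofNat 385363821123761372282931269789943323572679982794670080, .ofNat 0, .ofNat 3709677150278255398551366253051629043038814208, .ofNat 0, .ofNat 2394921473872188317594912043747564505078724502392668160, .ofNat 0, .ofNat 142123259335836349835573993210591523103026708480, .ofNat 1409721042169142447774117930427885456187803530575652847616, .ofNat 14443221474637322592473486511105785448891515508961050624, .ofNat 0, .ofNat 225962608988366804451966811233538438459687960576, .ofNat 7383127149490570101020968550766479927433178379186446794752, .ofNat 13353015874559406136355795197944707719271262730198188032, .ofNat 0, .ofNat 613133128407755245942706228811417852976585244672, .ofNat 0⟩)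
    (by decide +kernel)
theorem L05152 : Good (Phi V5.P V5.D (-1) (-1)) ⟨7, 114, 5, 20, 3, 7, 4, 0, 5, 3⟩ :=
  leafX_sound T5.ok_mm T5.Ymm.bz_eq (w := 268) (c := ⟨⟨.negSucc 5191, .ofNat 2, .ofNat 145, .ofNat 222, .ofNat 526, .ofNat 48⟩, ⟨.ofNat 3283, .negSucc 1, .ofNat 49, .negSucc 161, .negSucc 346, .negSucc 26⟩, ⟨.ofNat 4820, .negSucc 1, .ofNat 8, .ofNat 973, .negSucc 941, .negSucc 215⟩, ⟨.negSucc 8320, .ofNat 4, .negSucc 2, .ofNat 40, .ofNat 559, .ofNat 30⟩, ⟨.negSucc 1858, .ofNat 1, .negSucc 0, .negSucc 422, .negSucc 263, .negSucc 49⟩, .ofNat 26840, .ofNat 40051, .ofNat 0, .ofNat 40051, .ofNat 60576, .ofNat 0, .ofNat 128, .negSucc 3330, .negSucc 2458, .ofNat 0, .ofNat 2230, .ofNat 1623, .ofNat 0, .ofNat 0, .ofNat 3099, .ofNat 83336, .ofNat 0, .ofNat 0, .ofNat 0, .ofNat 0, .ofNat 0, .ofNat 0, .ofNat 9928786624249349041611878999678955689978246463488, .ofNat 0, .ofNat 0, .ofNat 0, .ofNat 77838563203614698862170350460506758210159378432,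 .ofNat 0, .ofNat 0, .ofNat 0, .ofNat 3622570353301745475630812035968960877459027263488, .ofNat 0⟩)
    (by decide +kernel)
theorem L05153 : Good (Phi V5.P V5.D (-1) (-1)) ⟨7, 114, 5, 21, 3, 7, 4, 0, 5, 3⟩ :=
  leafX_sound T5.ok_mm T5.Ymm.bz_eq (w := 262) (c := ⟨⟨.negSucc 4930, .ofNat 364, .negSucc 377, .ofNat 59, .ofNat 398, .negSucc 14⟩, ⟨.ofNat 3259, .negSucc 98, .ofNat 216, .negSucc 45, .negSucc 266, .ofNat 13⟩, ⟨.ofNat 4786, .negSucc 458, .ofNat 582, .ofNat 1106, .negSucc 925, .negSucc 165⟩, ⟨.negSucc 8218, .ofNat 22, .negSucc 123, .negSucc 2769, .ofNat 1125, .ofNat 610⟩, ⟨.negSucc 1943, .negSucc 127, .negSucc 56, .negSucc 4273, .ofNat 850, .ofNat 955⟩, .ofNat 7320, .ofNat 10592, .ofNat 0, .ofNat 10592, .ofNat 16105, .ofNat 0, .ofNat 128, .negSucc 1211, .negSucc 1215, .ofNat 0, .ofNat 825, .ofNat 802, .ofNat 0, .ofNat 0, .ofNat 1531, .ofNat 13747, .ofNat 0, .ofNat 0, .ofNat 184533848958327882761720493641754313368797184,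 .ofNat 77536137409332048590585588068322031040330160392753905664, .ofNat 0, .ofNat 0, .ofNat 27084645603200535810935913382676042508583043072, .ofNat 0, .ofNat 0, .ofNat 0, .ofNat 0, .ofNat 0, .ofNat 0, .ofNat 0, .ofNat 12419259441926418002503477857332974774934044672, .ofNat 5244576509651031787543409923056375155261226092164594794496⟩)
    (by decide +kernel)
theorem L05154 : Good (Phi V5.P V5.D (-1) (-1)) ⟨7, 115, 4, 10, 3, 7, 4, 0, 5, 3⟩ :=
  out_sound (S := T5.ds_mm) T5.ok_mm (w := 21) (j := 4) (by decide +kernel)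
theorem L05155 : Good (Phi V5.P V5.D (-1) (-1)) ⟨5, 29, 4, 10, 2, 3, 4, 0, 5, 3⟩ :=
  out_sound (S := T5.ds_mm) T5.ok_mm (w := 59) (j := 3) (by decide +kernel)
theorem L05156 : Good (Phi V5.P V5.D (-1) (-1)) ⟨4, 15, 4, 10, 2, 3, 4, 0, 5, 3⟩ :=
  out_sound (S := T5.ds_mm) T5.ok_mm (w := 53) (j := 3) (by decide +kernel)
theorem L05157 : Good (Phi V5.P V5.D (-1) (-1)) ⟨3, 6, 4, 10, 2, 3, 4, 1, 5, 2⟩ :=
  out_sound (S := T5.ds_mm) T5.ok_mm (w := 47) (j := 3) (by decide +kernel)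
theorem L05158 : Good (Phi V5.P V5.D (-1) (-1)) ⟨6, 56, 4, 10, 3, 6, 4, 1, 5, 2⟩ :=
  leafX_sound T5.ok_mm T5.Ymm.bz_eq (w := 253) (c := ⟨⟨.ofNat 4285, .ofNat 842, .negSucc 270, .negSucc 3011, .ofNat 98, .negSucc 6154⟩, ⟨.negSucc 2779, .negSucc 655, .ofNat 317, .ofNat 1982, .negSucc 67, .ofNat 4008⟩, ⟨.negSucc 1169, .negSucc 789, .ofNat 579, .ofNat 2435, .negSucc 370, .ofNat 2858⟩, ⟨.ofNat 2597, .ofNat 1039, .negSucc 201, .negSucc 2799, .ofNat 692, .negSucc 7770⟩, ⟨.negSucc 5316, .negSucc 512, .ofNat 869, .ofNat 2253, .ofNat 882, .ofNat 1495⟩, .ofNat 2349, .ofNat 3210, .ofNat 0, .ofNat 3210, .ofNat 5147, .ofNat 0, .ofNat 128, .negSucc 2078, .negSucc 2340, .ofNat 0, .ofNat 1372, .ofNat 1517, .ofNat 0, .ofNat 0, .ofNat 1876, .ofNat 8106, .ofNat 0, .ofNat 0, .ofNat 0, .ofNat 0, .ofNat 0, .ofNat 0, .ofNat 2613367521842222521844044755787291748779163648, .ofNat 0, .ofNat 0, .ofNat 0, .ofNat 17440039410595815245036791805835577002595188736,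 .ofNat 0, .ofNat 0, .ofNat 0, .ofNat 4786557516708132825425358665828693821741858816, .ofNat 0⟩)
    (by decide +kernel)
theorem L05159 : Good (Phi V5.P V5.D (-1) (-1)) ⟨6, 56, 5, 20, 3, 7, 4, 1, 5, 2⟩ :=
  leafX_sound T5.ok_mm T5.Ymm.bz_eq (w := 259) (c := ⟨⟨.ofNat 311, .ofNat 127, .ofNat 196, .negSucc 919, .ofNat 594, .negSucc 4517⟩, ⟨.negSucc 191, .negSucc 206, .negSucc 0, .ofNat 573, .negSucc 369, .ofNat 2939⟩, ⟨.ofNat 1746, .negSucc 263, .ofNat 148, .ofNat 1242, .negSucc 762, .ofNat 2029⟩, ⟨.negSucc 1007, .ofNat 21, .ofNat 89, .negSucc 2067, .ofNat 1250, .negSucc 6405⟩, ⟨.negSucc 2235, .negSucc 177, .negSucc 281, .negSucc 1207, .ofNat 635, .negSucc 65⟩, .ofNat 7245, .ofNat 10673, .ofNat 0, .ofNat 10673, .ofNat 16544, .ofNat 0, .ofNat 128, .negSucc 1571, .negSucc 1785, .ofNat 0, .ofNat 1036, .ofNat 1151, .ofNat 0, .ofNat 0, .ofNat 1534, .ofNat 7319, .ofNat 0, .ofNat 0, .ofNat 0, .ofNat 0,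 .ofNat 0, .ofNat 0, .ofNat 49544470048457071435709178167769346746353713152, .ofNat 0, .ofNat 0, .ofNat 0, .ofNat 19873501036143746604035361918235882189144195072, .ofNat 0, .ofNat 0, .ofNat 0, .ofNat 6895776605615571686464727463109400224937803776, .ofNat 0⟩)
    (by decide +kernel)
theorem L05160 : Good (Phi V5.P V5.D (-1) (-1)) ⟨6, 56, 5, 21, 3, 7, 4, 1, 5, 2⟩ :=
  leafX_sound T5.ok_mm T5.Ymm.bz_eq (w := 267) (c := ⟨⟨.ofNat 893, .negSucc 0, .negSucc 342, .negSucc 874, .ofNat 770, .negSucc 5108⟩, ⟨.negSucc 597, .ofNat 1, .ofNat 291, .ofNat 569, .negSucc 503, .ofNat 3379⟩, ⟨.ofNat 1513, .ofNat 1, .negSucc 262, .ofNat 1302, .negSucc 890, .ofNat 2281⟩, ⟨.negSucc 1991, .negSucc 1, .negSucc 54, .negSucc 891, .ofNat 843, .negSucc 5041⟩, ⟨.negSucc 4831, .negSucc 1, .ofNat 38, .ofNat 456, .negSucc 351, .ofNat 3153⟩, .ofNat 31371, .ofNat 46875, .ofNat 0, .ofNat 46875, .ofNat 70856, .ofNat 0, .ofNat 128,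 .negSucc 6106, .negSucc 7355, .ofNat 0, .ofNat 4062, .ofNat 4858, .ofNat 0, .ofNat 0, .ofNat 6173, .ofNat 32236, .ofNat 0, .ofNat 0, .ofNat 2332647477301861434814546266926158831058681856, .ofNat 0, .ofNat 0, .ofNat 0, .ofNat 143466658592169729552203487251325133298664996864, .ofNat 0, .ofNat 0, .ofNat 0, .ofNat 777638001495069275023594003891035804263126138880, .ofNat 0, .ofNat 0, .ofNat 0, .ofNat 1571629302720207763836174381305125662966769778688, .ofNat 0⟩)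
    (by decide +kernel)
theorem L05161 : Good (Phi V5.P V5.D (-1) (-1)) ⟨7, 114, 4, 10, 3, 6, 4, 1, 5, 2⟩ :=
  leafX_sound T5.ok_mm T5.Ymm.bz_eq (w := 256) (c := ⟨⟨.ofNat 4909, .negSucc 625, .ofNat 649, .negSucc 2975, .ofNat 67, .negSucc 6573⟩, ⟨.negSucc 3308, .ofNat 385, .negSucc 364, .ofNat 1990, .negSucc 39, .ofNat 4364⟩, ⟨.negSucc 2176, .negSucc 301, .ofNat 953, .ofNat 2403, .negSucc 342, .ofNat 2955⟩, ⟨.ofNat 3819, .negSucc 351, .negSucc 8, .negSucc 2785, .ofNat 687, .negSucc 8324⟩, ⟨.negSucc 5487, .ofNat 271, .ofNat 118, .ofNat 2075, .ofNat 901, .ofNat 1514⟩, .ofNat 1566, .ofNat 1993, .ofNat 0, .ofNat 1993, .ofNat 3222, .ofNat 0, .ofNat 128, .negSucc 1724, .negSucc 2044, .ofNat 0, .ofNat 1159, .ofNat 1343, .ofNat 0, .ofNat 0, .ofNat 1579, .ofNat 5227, .ofNat 0, .ofNat 0, .ofNat 0, .ofNat 0, .ofNat 0, .ofNat 0, .ofNat 106444352568779589175979580054686078255235072, .ofNat 63782118774525024386488845063175783827399277317921439744,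 .ofNat 0, .ofNat 0, .ofNat 3657586435378488199345550847719186606764064768, .ofNat 534470179305352440507602575197250235901906172167382368256, .ofNat 0, .ofNat 0, .ofNat 2094053980555435624139374011834010630434586624, .ofNat 0⟩)
    (by decide +kernel)
theorem L05162 : Good (Phi V5.P V5.D (-1) (-1)) ⟨7, 114, 5, 20, 3, 7, 4, 1, 5, 2⟩ :=
  leafX_sound T5.ok_mm T5.Ymm.bz_eq (w := 270) (c := ⟨⟨.ofNat 1071, .ofNat 1, .negSucc 88, .negSucc 987, .ofNat 722, .negSucc 5134⟩, ⟨.negSucc 543, .negSucc 0, .negSucc 108, .ofNat 637, .negSucc 470, .ofNat 3392⟩, ⟨.ofNat 1481, .negSucc 0, .negSucc 39, .ofNat 1370, .negSucc 853, .ofNat 2334⟩, ⟨.negSucc 1597, .ofNat 2, .negSucc 3, .negSucc 1063, .ofNat 934, .negSucc 5524⟩, ⟨.negSucc 4465, .ofNat 2, .negSucc 0, .ofNat 448, .negSucc 113, .ofNat 2519⟩, .ofNat 21710, .ofNat 32324, .ofNat 0, .ofNat 32324, .ofNat 48937, .ofNat 0, .ofNat 128, .negSucc 6975, .negSucc 7926,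 .ofNat 0, .ofNat 4643, .ofNat 5228, .ofNat 0, .ofNat 0, .ofNat 6692, .ofNat 59611, .ofNat 0, .ofNat 0, .ofNat 0, .ofNat 0, .ofNat 0, .ofNat 0, .ofNat 28336898054039071064510069722817959023111521173504, .ofNat 0, .ofNat 0, .ofNat 0, .ofNat 441385524373631993305056827561958723510866018304, .ofNat 0, .ofNat 0, .ofNat 0, .ofNat 2143879116685239689799170978624304303768260837376, .ofNat 0⟩)
    (by decide +kernel)
theorem L05163 : Good (Phi V5.P V5.D (-1) (-1)) ⟨7, 114, 5, 21, 3, 7, 4, 1, 5, 2⟩ :=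
  leafX_sound T5.ok_mm T5.Ymm.bz_eq (w := 264) (c := ⟨⟨.ofNat 1150, .ofNat 254, .negSucc 299, .negSucc 1384, .ofNat 525, .negSucc 4916⟩, ⟨.negSucc 786, .negSucc 294, .ofNat 391, .ofNat 916, .negSucc 351, .ofNat 3289⟩, ⟨.ofNat 1314, .ofNat 353, .negSucc 186, .ofNat 1645, .negSucc 764, .ofNat 2225⟩, ⟨.ofNat 360, .ofNat 98, .negSucc 75, .negSucc 3913, .ofNat 1675, .negSucc 7452⟩, ⟨.negSucc 1894, .ofNat 63, .ofNat 124, .negSucc 2974, .ofNat 1417, .negSucc 826⟩, .ofNat 7170, .ofNat 10377, .ofNat 0, .ofNat 10377, .ofNat 15798, .ofNat 0, .ofNat 128, .negSucc 1875, .negSucc 3437, .ofNat 0, .ofNat 1257, .ofNat 2265, .ofNat 0, .ofNat 0, .ofNat 2895, .ofNat 5083, .ofNat 0, .ofNat 0, .ofNat 183344235489817763883941311366994863484567552, .ofNat 56203270290956529848702402511005067110451616743486914560, .ofNat 0, .ofNat 0, .ofNat 17236424518152379091977132640860119565575651328, .ofNat 0, .ofNat 0, .ofNat 0,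 .ofNat 14527186595804106001308648210363137956119576576, .ofNat 4829249767518033357207540875030336066541970946955535187968, .ofNat 0, .ofNat 0, .ofNat 15971509599736125633214849983213220187256913920, .ofNat 13183549439533074437647203446167228131547251116946034262016⟩)
    (by decide +kernel)
theorem L05164 : Good (Phi V5.P V5.D (-1) (-1)) ⟨7, 115, 4, 10, 2, 3, 4, 1, 5, 2⟩ :=
  out_sound (S := T5.ds_mm) T5.ok_mm (w := 21) (j := 4) (by decide +kernel)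
theorem L05165 : Good (Phi V5.P V5.D (-1) (-1)) ⟨5, 29, 4, 10, 2, 3, 4, 1, 5, 2⟩ :=
  out_sound (S := T5.ds_mm) T5.ok_mm (w := 59) (j := 3) (by decide +kernel)
theorem L05166 : Good (Phi V5.P V5.D (-1) (-1)) ⟨4, 15, 4, 10, 2, 3, 4, 1, 5, 2⟩ :=
  out_sound (S := T5.ds_mm) T5.ok_mm (w := 53) (j := 3) (by decide +kernel)
theorem L05167 : Good (Phi V5.P V5.D (-1) (-1)) ⟨3, 6, 4, 10, 2, 3, 4, 1, 5, 3⟩ :=
  out_sound (S := T5.ds_mm) T5.ok_mm (w := 47) (j := 3) (by decide +kernel)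

end Crest.Agent.R097C5.N5mm
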