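import Crest.Agent.R097.KP7
import Crest.Agent.R097.T5Ymm

/-!
# Row 97, box cover in dimension n = 5 (generated)
-/

set_option autoImplicit false
set_option Elab.async false
set_option maxHeartbeats 0
set_option maxRecDepth 100000

open Crest.Agent.R097 Crest.Agent.R097.KA


namespace Crest.Agent.R097C5.N5mm

theorem L05168 : Good (Phi V5.P V5.D (-1) (-1)) ⟨6, 56, 4, 10, 3, 6, 4, 1, 5, 3⟩ :=
  leafX_sound T5.ok_mm T5.Ymm.bz_eq (w := 249) (c := ⟨⟨.negSucc 4689, .negSucc 405, .ofNat 199, .ofNat 1277, .ofNat 693, .negSucc 1662⟩, ⟨.ofNat 2995, .ofNat 259, .ofNat 85, .negSucc 829, .negSucc 454, .ofNat 1089⟩, ⟨.ofNat 2690, .ofNat 804, .negSucc 836, .ofNat 183, .negSucc 517, .ofNat 881⟩, ⟨.negSucc 7495, .negSucc 438, .ofNat 254, .ofNat 1535, .ofNat 670, .negSucc 1680⟩, ⟨.negSucc 1336, .ofNat 181, .negSucc 180, .negSucc 412, .negSucc 464, .ofNat 1137⟩, .ofNat 892, .ofNat 1009, .ofNat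 0, .ofNat 1009, .ofNat 1771, .ofNat 0, .ofNat 128, .negSucc 933, .negSucc 1230, .ofNat 0, .ofNat 650, .ofNat 802, .ofNat 0, .ofNat 0, .ofNat 1116, .ofNat 3532, .ofNat 0, .ofNat 0, .ofNat 11276417029209704230175790673269355353997312, .ofNat 0, .ofNat 0, .ofNat 0, .ofNat 176269560789637998514769428565760861141991424, .ofNat 0, .ofNat 0, .ofNat 0, .ofNat 0, .ofNat 0, .ofNat 0, .ofNat 0, .ofNat 0, .ofNat 0⟩)
    (by decide +kernel)
theorem L05169 : Good (Phi V5.P V5.D (-1) (-1)) ⟨6, 56, 4, 10, 3, 7, 4, 1, 5, 3⟩ :=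
  leafX_sound T5.ok_mm T5.Ymm.bz_eq (w := 255) (c := ⟨⟨.negSucc 3971, .negSucc 737, .ofNat 714, .ofNat 116, .ofNat 465, .negSucc 215⟩, ⟨.ofNat 2524, .ofNat 479, .negSucc 256, .negSucc 87, .negSucc 302, .ofNat 145⟩, ⟨.ofNat 3569, .ofNat 514, .negSucc 270, .ofNat 659, .negSucc 689, .negSucc 45⟩, ⟨.negSucc 6360, .negSucc 905, .ofNat 17, .negSucc 1289, .ofNat 539, .ofNat 12⟩, ⟨.negSucc 852, .negSucc 410, .negSucc 871, .negSucc 2241, .negSucc 184, .ofNat 493⟩, .ofNat 7403, .ofNat 10909, .ofNat 0, .ofNat 10909, .ofNat 16894, .ofNat 0, .ofNat 128, .negSucc 1377, .negSucc 1339, .ofNat 0, .ofNat 918, .ofNat 865, .ofNat 0, .ofNat 0, .ofNat 1498, .ofNat 6015, .ofNat 0, .ofNat 0, .ofNat 139353106443120436238722171142411007379374080, .ofNat 0, .ofNat 0, .ofNat 0, .ofNat 23215559025448177567049223376281177959568506880, .ofNat 0, .ofNat 0, .ofNat 0, .ofNat 0, .ofNat 0, .ofNat 0, .ofNat 0, .ofNat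 7962465633784573333303198635430133179399274496, .ofNat 0⟩)
    (by decide +kernel)
theorem L05170 : Good (Phi V5.P V5.D (-1) (-1)) ⟨7, 114, 5, 20, 2, 3, 4, 1, 5, 3⟩ :=
  leafX_sound T5.ok_mm T5.Ymm.bz_eq (w := 256) (c := ⟨⟨.negSucc 5033, .ofNat 2, .ofNat 45, .ofNat 1224, .ofNat 483, .negSucc 668⟩, ⟨.ofNat 3245, .negSucc 0, .ofNat 51, .negSucc 817, .negSucc 320, .ofNat 445⟩, ⟨.ofNat 3151, .negSucc 1, .ofNat 5, .ofNat 1085, .negSucc 525, .ofNat 322⟩, ⟨.negSucc 7875, .ofNat 4, .negSucc 4, .ofNat 1126, .ofNat 481, .negSucc 654⟩, ⟨.negSucc 1307, .ofNat 1, .ofNat 0, .negSucc 883, .negSucc 293, .ofNat 412⟩, .ofNat 26833, .ofNat 40039, .ofNat 0, .ofNat 40039, .ofNat 60559, .ofNat 0, .ofNat 128, .negSucc 5913, .negSucc 5821, .ofNat 0, .ofNat 3943, .ofNat 3858, .ofNat 0, .ofNat 0, .ofNat 5848, .ofNat 38307, .ofNat 0, .ofNat 0, .ofNat 0, .ofNat 0, .ofNat 0, .ofNat 0, .ofNat 578939626684995256396889195677558345081815040,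 .ofNat 0, .ofNat 0, .ofNat 0, .ofNat 25955446098654793898639833526906487885004800, .ofNat 0, .ofNat 0, .ofNat 0, .ofNat 175152003281563737187940112463836230312787968, .ofNat 0⟩)
    (by decide +kernel)
theorem L05171 : Good (Phi V5.P V5.D (-1) (-1)) ⟨7, 114, 6, 42, 3, 6, 4, 1, 5, 3⟩ :=
  leafX_sound T5.ok_mm T5.Ymm.bz_eq (w := 265) (c := ⟨⟨.negSucc 4796, .ofNat 416, .negSucc 307, .ofNat 1565, .ofNat 389, .negSucc 1721⟩, ⟨.ofNat 3163, .negSucc 288, .ofNat 266, .negSucc 1036, .negSucc 260, .ofNat 1151⟩, ⟨.ofNat 2956, .negSucc 205, .ofNat 111, .ofNat 35, .negSucc 349, .ofNat 977⟩, ⟨.negSucc 7509, .ofNat 202, .negSucc 302, .ofNat 1767, .ofNat 298, .negSucc 1661⟩, ⟨.negSucc 1192, .negSucc 265, .negSucc 0, .negSucc 626, .negSucc 384, .ofNat 1204⟩, .ofNat 2692, .ofNat 3672, .ofNat 0, .ofNat 3672, .ofNat 5745, .ofNat 0, .ofNat 128, .negSucc 3072, .negSucc 3609, .ofNat 0, .ofNat 2084, .ofNat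 2404, .ofNat 0, .ofNat 0, .ofNat 3292, .ofNat 7480, .ofNat 0, .ofNat 0, .ofNat 160922391077441278214696750778988541698375680, .ofNat 0, .ofNat 0, .ofNat 0, .ofNat 14941531596111942100016876013427475932529033216, .ofNat 14365236606203777243594089337910975861809879591457266860032, .ofNat 0, .ofNat 0, .ofNat 0, .ofNat 0, .ofNat 0, .ofNat 0, .ofNat 0, .ofNat 0⟩)
    (by decide +kernel)
theorem L05172 : Good (Phi V5.P V5.D (-1) (-1)) ⟨7, 114, 6, 42, 3, 7, 4, 1, 5, 3⟩ :=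
  leafX_sound T5.ok_mm T5.Ymm.bz_eq (w := 265) (c := ⟨⟨.negSucc 4251, .ofNat 7, .negSucc 52, .negSucc 81, .ofNat 361, .negSucc 118⟩, ⟨.ofNat 2806, .negSucc 56, .ofNat 120, .ofNat 64, .negSucc 246, .ofNat 74⟩, ⟨.ofNat 3799, .ofNat 131, .negSucc 11, .ofNat 965, .negSucc 631, .negSucc 86⟩, ⟨.negSucc 7031, .negSucc 121, .negSucc 287, .negSucc 2571, .ofNat 766, .ofNat 599⟩, ⟨.negSucc 1609, .negSucc 175, .negSucc 324, .negSucc 3653, .ofNat 381, .ofNat 1154⟩, .ofNat 4524, .ofNat 6410, .ofNat 0, .ofNat 6410, .ofNat 9847, .ofNat 0, .ofNat 128, .negSucc 1878, .negSucc 2404, .ofNat 0, .ofNat 1279, .ofNat 1572, .ofNat 0, .ofNat 0, .ofNat 2627, .ofNat 15080, .ofNat 0, .ofNat 0, .ofNat 0, .ofNat 0, .ofNat 0, .ofNat 0, .ofNat 33638188282270192204487320008611645787257962496, .ofNat 0, .ofNat 0, .ofNat 0, .ofNat 0, .ofNat 0, .ofNat 0, .ofNat 0, .ofNat 0, .ofNat 0⟩)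
    (by decide +kernel)
theorem L05173 : Good (Phi V5.P V5.D (-1) (-1)) ⟨8, 228, 6, 43, 2, 3, 4, 1, 5, 3⟩ :=
  out_sound (S := T5.ds_mm) T5.ok_mm (w := 81) (j := 3) (by decide +kernel)
theorem L05174 : Good (Phi V5.P V5.D (-1) (-1)) ⟨8, 229, 6, 43, 2, 3, 4, 1, 5, 3⟩ :=
  out_sound (S := T5.ds_mm) T5.ok_mm (w := 23) (j := 4) (by decide +kernel)
theorem L05175 : Good (Phi V5.P V5.D (-1) (-1)) ⟨7, 115, 4, 10, 2, 3, 4, 1, 5, 3⟩ :=
  out_sound (S := T5.ds_mm) T5.ok_mm (w := 21) (j := 4) (by decide +kernel)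
theorem L05176 : Good (Phi V5.P V5.D (-1) (-1)) ⟨5, 29, 4, 10, 2, 3, 4, 1, 5, 3⟩ :=
  out_sound (S := T5.ds_mm) T5.ok_mm (w := 59) (j := 3) (by decide +kernel)
theorem L05177 : Good (Phi V5.P V5.D (-1) (-1)) ⟨4, 15, 4, 10, 2, 3, 4, 1, 5, 3⟩ :=
  out_sound (S := T5.ds_mm) T5.ok_mm (w := 53) (j := 3) (by decide +kernel)
theorem L05178 : Good (Phi V5.P V5.D (-1) (-1)) ⟨3, 6, 4, 11, 2, 3, 3, 0, 4, 1⟩ :=
  out_sound (S := T5.ds_mm) T5.ok_mm (w := 47) (j := 3) (by decide +kernel)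
theorem L05179 : Good (Phi V5.P V5.D (-1) (-1)) ⟨6, 56, 4, 11, 2, 3, 3, 0, 4, 1⟩ :=
  out_sound (S := T5.ds_mm) T5.ok_mm (w := 65) (j := 3) (by decide +kernel)
theorem L05180 : Good (Phi V5.P V5.D (-1) (-1)) ⟨7, 114, 5, 22, 2, 3, 3, 0, 4, 1⟩ :=
  out_sound (S := T5.ds_mm) T5.ok_mm (w := 73) (j := 3) (by decide +kernel)
theorem L05181 : Good (Phi V5.P V5.D (-1) (-1)) ⟨7, 115, 5, 22, 2, 3, 3, 0, 4, 1⟩ :=
  out_sound (S := T5.ds_mm) T5.ok_mm (w := 21) (j := 4) (by decide +kernel)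
theorem L05182 : Good (Phi V5.P V5.D (-1) (-1)) ⟨6, 57, 5, 23, 2, 3, 3, 0, 4, 1⟩ :=
  out_sound (S := T5.ds_mm) T5.ok_mm (w := 67) (j := 3) (by decide +kernel)
theorem L05183 : Good (Phi V5.P V5.D (-1) (-1)) ⟨5, 29, 4, 11, 2, 3, 3, 0, 4, 1⟩ :=
  out_sound (S := T5.ds_mm) T5.ok_mm (w := 17) (j := 4) (by decide +kernel)
theorem L05184 : Good (Phi V5.P V5.D (-1) (-1)) ⟨4, 15, 4, 11, 2, 3, 3, 0, 4, 1⟩ :=
  out_sound (S := T5.ds_mm) T5.ok_mm (w := 53) (j := 3) (by decide +kernel)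
theorem L05185 : Good (Phi V5.P V5.D (-1) (-1)) ⟨2, 2, 3, 5, 2, 3, 3, 1, 5, 2⟩ :=
  out_sound (S := T5.ds_mm) T5.ok_mm (w := 39) (j := 3) (by decide +kernel)
theorem L05186 : Good (Phi V5.P V5.D (-1) (-1)) ⟨3, 6, 3, 5, 2, 3, 3, 1, 5, 2⟩ :=
  out_sound (S := T5.ds_mm) T5.ok_mm (w := 45) (j := 3) (by decide +kernel)
theorem L05187 : Good (Phi V5.P V5.D (-1) (-1)) ⟨6, 56, 5, 20, 2, 3, 4, 2, 5, 2⟩ :=
  leafX_sound T5.ok_mm T5.Ymm.bz_eq (w := 244) (c := ⟨⟨.ofNat 3692, .ofNat 31, .ofNat 208, .negSucc 3827, .ofNat 141, .negSucc 4742⟩, ⟨.negSucc 2467, .ofNat 62, .negSucc 162, .ofNat 2491, .negSucc 82, .ofNat 3081⟩, ⟨.negSucc 1432, .ofNat 111, .negSucc 81, .ofNat 3447, .negSucc 302, .ofNat 2265⟩, ⟨.ofNat 2955, .ofNat 198, .negSucc 32, .negSucc 4339, .ofNat 811, .negSucc 6863⟩, ⟨.negSucc 3364, .negSucc 19, .negSucc 300, .ofNat 1612, .ofNat 948, .negSucc 262⟩, .ofNat 5248, .ofNat 7623, .ofNat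 0, .ofNat 7623, .ofNat 11880, .ofNat 0, .ofNat 128, .negSucc 1057, .negSucc 2223, .ofNat 0, .ofNat 695, .ofNat 1439, .ofNat 0, .ofNat 0, .ofNat 1770, .ofNat 2387, .ofNat 0, .ofNat 0, .ofNat 4425400951851814922886118062423158030336, .ofNat 0, .ofNat 0, .ofNat 0, .ofNat 1152997849462667773673503778073125972869120, .ofNat 0, .ofNat 0, .ofNat 0, .ofNat 0, .ofNat 0, .ofNat 0, .ofNat 0, .ofNat 0, .ofNat 0⟩)
    (by decide +kernel)
theorem L05188 : Good (Phi V5.P V5.D (-1) (-1)) ⟨6, 56, 5, 21, 2, 3, 4, 2, 5, 2⟩ :=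
  leafX_sound T5.ok_mm T5.Ymm.bz_eq (w := 253) (c := ⟨⟨.ofNat 3762, .ofNat 0, .ofNat 57, .negSucc 3329, .ofNat 178, .negSucc 5045⟩, ⟨.negSucc 2495, .ofNat 0, .ofNat 7, .ofNat 2203, .negSucc 114, .ofNat 3333⟩, ⟨.negSucc 1298, .ofNat 1, .negSucc 266, .ofNat 3329, .negSucc 383, .ofNat 2291⟩, ⟨.ofNat 2188, .negSucc 0, .negSucc 39, .negSucc 3292, .ofNat 235, .negSucc 5094⟩, ⟨.negSucc 4629, .negSucc 0, .ofNat 25, .ofNat 2052, .negSucc 18, .ofNat 2950⟩, .ofNat 28944, .ofNat 43219, .ofNat 0, .ofNat 43219, .ofNat 65349, .ofNat 0, .ofNat 128, .negSucc 4320, .negSucc 8621, .ofNat 0, .ofNat 2869, .ofNat 5700, .ofNat 0, .ofNat 0, .ofNat 6683, .ofNat 17074, .ofNat 0, .ofNat 0, .ofNat 13077185235883457402815260054820002725888, .ofNat 0, .ofNat 0, .ofNat 0, .ofNat 2048106471387809858676080986832921593643008, .ofNat 0, .ofNat 0, .ofNat 0, .ofNat 37526886690913038745353898596451663080325120, .ofNat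 0, .ofNat 0, .ofNat 0, .ofNat 56935514626990646874866891350205915434319872, .ofNat 0⟩)
    (by decide +kernel)
theorem L05189 : Good (Phi V5.P V5.D (-1) (-1)) ⟨7, 114, 5, 20, 3, 6, 4, 2, 5, 2⟩ :=
  leafX_sound T5.ok_mm T5.Ymm.bz_eq (w := 266) (c := ⟨⟨.ofNat 3778, .ofNat 0, .ofNat 430, .negSucc 2296, .ofNat 253, .negSucc 5292⟩, ⟨.negSucc 3869, .ofNat 0, .ofNat 1076, .ofNat 1531, .negSucc 163, .ofNat 3493⟩, ⟨.negSucc 1601, .ofNat 0, .ofNat 2, .ofNat 1971, .negSucc 344, .ofNat 2532⟩, ⟨.ofNat 3392, .ofNat 0, .negSucc 26, .negSucc 2030, .ofNat 599, .negSucc 7095⟩, ⟨.negSucc 3874, .ofNat 1, .ofNat 19, .ofNat 1811, .ofNat 370, .ofNat 522⟩, .ofNat 6370, .ofNat 9222, .ofNat 0, .ofNat 9222, .ofNat 14138, .ofNat 0, .ofNat 128, .negSucc 4900, .negSucc 6970, .ofNat 0, .ofNat 3255, .ofNat 4600, .ofNat 0, .ofNat 0, .ofNat 5499, .ofNat 32479, .ofNat 0, .ofNat 0, .ofNat 0, .ofNat 0, .ofNat 0, .ofNat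 0, .ofNat 34992314594601204875163650011792923745203536265216, .ofNat 0, .ofNat 0, .ofNat 0, .ofNat 11537848704238834615981891150987195723794490589184, .ofNat 0, .ofNat 0, .ofNat 0, .ofNat 5898085041657221363342156274160650671638097952768, .ofNat 0⟩)
    (by decide +kernel)
theorem L05190 : Good (Phi V5.P V5.D (-1) (-1)) ⟨7, 114, 5, 21, 3, 6, 4, 2, 5, 2⟩ :=
  leafX_sound T5.ok_mm T5.Ymm.bz_eq (w := 261) (c := ⟨⟨.ofNat 4000, .negSucc 84, .ofNat 718, .negSucc 1972, .negSucc 87, .negSucc 5410⟩, ⟨.negSucc 2666, .ofNat 191, .negSucc 617, .ofNat 1319, .ofNat 62, .ofNat 3595⟩, ⟨.negSucc 1523, .negSucc 202, .ofNat 1, .ofNat 1809, .negSucc 164, .ofNat 2600⟩, ⟨.ofNat 3306, .ofNat 41, .ofNat 488, .negSucc 1645, .ofNat 351, .negSucc 7506⟩, ⟨.negSucc 3496, .negSucc 111, .negSucc 333, .ofNat 1679, .ofNat 717, .ofNat 156⟩, .ofNat 2691, .ofNat 3670, .ofNat 0, .ofNat 3670, .ofNat 5742, .ofNat 0,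 .ofNat 128, .negSucc 1761, .negSucc 2877, .ofNat 0, .ofNat 1176, .ofNat 1895, .ofNat 0, .ofNat 0, .ofNat 2200, .ofNat 6759, .ofNat 0, .ofNat 0, .ofNat 0, .ofNat 0, .ofNat 0, .ofNat 0, .ofNat 15827569918104454925573184012793480205603700736, .ofNat 399067124556825451212010177272488236084771389699258318848, .ofNat 0, .ofNat 0, .ofNat 25892484076426770506106505784730268940585926656, .ofNat 0, .ofNat 0, .ofNat 0, .ofNat 0, .ofNat 0⟩)
    (by decide +kernel)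
theorem L05191 : Good (Phi V5.P V5.D (-1) (-1)) ⟨7, 114, 4, 10, 4, 14, 4, 2, 5, 2⟩ :=
  leafX_sound T5.ok_mm T5.Ymm.bz_eq (w := 274) (c := ⟨⟨.ofNat 1293, .ofNat 240, .ofNat 146, .negSucc 690, .ofNat 645, .negSucc 4571⟩, ⟨.negSucc 1081, .negSucc 319, .ofNat 322, .ofNat 460, .negSucc 427, .ofNat 3040⟩, ⟨.ofNat 893, .ofNat 5, .negSucc 241, .ofNat 751, .negSucc 637, .ofNat 2047⟩, ⟨.ofNat 818, .ofNat 294, .ofNat 129, .negSucc 794, .ofNat 1340, .negSucc 6939⟩, ⟨.negSucc 1531, .negSucc 80, .negSucc 30, .ofNat 258, .ofNat 656, .negSucc 801⟩, .ofNat 7223, .ofNat 10453, .ofNat 0, .ofNat 10453, .ofNat 15907, .ofNat 0, .ofNat 128, .negSucc 1266, .negSucc 2068, .ofNat 0, .ofNat 845, .ofNat 1365, .ofNat 0, .ofNat 0, .ofNat 1658, .ofNat 2200, .ofNat 0, .ofNat 0, .ofNat 248887074063801980930359986733384657578848419840, .ofNat 0, .ofNat 0, .ofNat 0, .ofNat 235483531542933263507292946464138575517834916397056,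 .ofNat 0, .ofNat 0, .ofNat 0, .ofNat 0, .ofNat 0, .ofNat 0, .ofNat 0, .ofNat 0, .ofNat 0⟩)
    (by decide +kernel)
theorem L05192 : Good (Phi V5.P V5.D (-1) (-1)) ⟨7, 114, 5, 20, 4, 15, 4, 2, 5, 2⟩ :=
  leafX_sound T5.ok_mm T5.Ymm.bz_eq (w := 286) (c := ⟨⟨.ofNat 1453, .ofNat 1, .negSucc 84, .negSucc 817, .ofNat 660, .negSucc 5328⟩, ⟨.negSucc 835, .ofNat 0, .negSucc 70, .ofNat 533, .negSucc 431, .ofNat 3515⟩, ⟨.ofNat 1245, .negSucc 0, .negSucc 18, .ofNat 788, .negSucc 693, .ofNat 2392⟩, ⟨.negSucc 382, .ofNat 2, .ofNat 2, .negSucc 813, .ofNat 834, .negSucc 5596⟩, ⟨.negSucc 3435, .ofNat 1, .negSucc 2, .ofNat 478, .negSucc 139, .ofNat 2802⟩, .ofNat 26840, .ofNat 40050, .ofNat 0, .ofNat 40050, .ofNat 60575, .ofNat 0, .ofNat 128, .negSucc 6565, .negSucc 10685, .ofNat 0, .ofNat 4361, .ofNat 7041, .ofNat 0, .ofNat 0, .ofNat 7928, .ofNat 43841, .ofNat 0, .ofNat 0, .ofNat 0, .ofNat 0, .ofNat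 0, .ofNat 0, .ofNat 532022573401564783305434925276909072121354898246729728, .ofNat 0, .ofNat 0, .ofNat 0, .ofNat 2531910186160266855065372588983465650947253140979712, .ofNat 0, .ofNat 0, .ofNat 0, .ofNat 61348590435701048204300361131171932640035954912919552, .ofNat 0⟩)
    (by decide +kernel)
theorem L05193 : Good (Phi V5.P V5.D (-1) (-1)) ⟨7, 114, 5, 21, 4, 15, 4, 2, 5, 2⟩ :=
  leafX_sound T5.ok_mm T5.Ymm.bz_eq (w := 280) (c := ⟨⟨.ofNat 1587, .negSucc 374, .ofNat 273, .negSucc 910, .ofNat 613, .negSucc 5469⟩, ⟨.negSucc 1069, .ofNat 212, .negSucc 109, .ofNat 596, .negSucc 412, .ofNat 3659⟩, ⟨.ofNat 1111, .ofNat 15, .ofNat 177, .ofNat 861, .negSucc 680, .ofNat 2454⟩, ⟨.ofNat 1565, .negSucc 33, .ofNat 320, .negSucc 1868, .ofNat 1908, .negSucc 9897⟩, ⟨.negSucc 1012, .ofNat 454, .ofNat 237, .negSucc 907, .ofNat 1569, .negSucc 3290⟩, .ofNat 8455, .ofNat 12236, .ofNat 0, .ofNat 12236,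 .ofNat 18480, .ofNat 0, .ofNat 128, .negSucc 2520, .negSucc 6254, .ofNat 0, .ofNat 1691, .ofNat 4143, .ofNat 0, .ofNat 0, .ofNat 4376, .ofNat 5403, .ofNat 0, .ofNat 0, .ofNat 1877020937880028203100670777470865192004265967616, .ofNat 1488538807706199829620716274441576181527621249187631232712704, .ofNat 0, .ofNat 0, .ofNat 446226593176456736442461143609182057595112767094784, .ofNat 0, .ofNat 0, .ofNat 0, .ofNat 178623145974389769232989663380453993382393581404160, .ofNat 260537134281071681226048843769500870567029703907431009799372800, .ofNat 0, .ofNat 0, .ofNat 1465687374745428237200240173952311856200392399388672, .ofNat 678683397985836301167655328813550848103148414624759750403817472⟩)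
    (by decide +kernel)
theorem L05194 : Good (Phi V5.P V5.D (-1) (-1)) ⟨7, 115, 4, 10, 2, 3, 4, 2, 5, 2⟩ :=
  out_sound (S := T5.ds_mm) T5.ok_mm (w := 21) (j := 4) (by decide +kernel)
theorem L05195 : Good (Phi V5.P V5.D (-1) (-1)) ⟨5, 29, 4, 10, 2, 3, 4, 2, 5, 2⟩ :=
  out_sound (S := T5.ds_mm) T5.ok_mm (w := 59) (j := 3) (by decide +kernel)
theorem L05196 : Good (Phi V5.P V5.D (-1) (-1)) ⟨6, 56, 6, 40, 2, 3, 4, 3, 5, 2⟩ :=
  leafX_sound T5.ok_mm T5.Ymm.bz_eq (w := 246) (c := ⟨⟨.ofNat 2804, .ofNat 1000, .negSucc 113, .negSucc 2965, .ofNat 103, .negSucc 4236⟩, ⟨.negSucc 1789, .negSucc 737, .ofNat 115, .ofNat 1923, .negSucc 66, .ofNat 2722⟩, ⟨.negSucc 1040, .negSucc 569, .ofNat 116, .ofNat 2849, .negSucc 263, .ofNat 1977⟩, ⟨.ofNat 3175, .ofNat 1016, .negSucc 11, .negSucc 3508, .ofNat 224, .negSucc 7189⟩, ⟨.negSucc 1298, .negSucc 492, .ofNat 207, .ofNat 1070, .ofNat 127, .negSucc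 1830⟩, .ofNat 3446, .ofNat 4901, .ofNat 0, .ofNat 4901, .ofNat 7770, .ofNat 0, .ofNat 128, .negSucc 963, .negSucc 2067, .ofNat 0, .ofNat 627, .ofNat 1317, .ofNat 0, .ofNat 0, .ofNat 1584, .ofNat 2967, .ofNat 0, .ofNat 0, .ofNat 0, .ofNat 0, .ofNat 0, .ofNat 0, .ofNat 1140463925241603916060977165194660767858688, .ofNat 0, .ofNat 0, .ofNat 0, .ofNat 449375557137899610843373483802151813644288, .ofNat 0, .ofNat 0, .ofNat 0, .ofNat 1406281828420937039823239821269001949937664, .ofNat 0⟩)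
    (by decide +kernel)
theorem L05197 : Good (Phi V5.P V5.D (-1) (-1)) ⟨6, 56, 6, 41, 2, 3, 4, 3, 5, 2⟩ :=
  leafX_sound T5.ok_mm T5.Ymm.bz_eq (w := 250) (c := ⟨⟨.ofNat 3490, .negSucc 75, .ofNat 28, .negSucc 2760, .ofNat 63, .negSucc 4493⟩, ⟨.negSucc 2346, .ofNat 112, .negSucc 19, .ofNat 1817, .negSucc 39, .ofNat 2933⟩, ⟨.negSucc 1625, .ofNat 376, .negSucc 84, .ofNat 2817, .negSucc 264, .ofNat 2078⟩, ⟨.ofNat 4015, .negSucc 139, .negSucc 478, .negSucc 3335, .ofNat 232, .negSucc 7092⟩, ⟨.negSucc 1321, .negSucc 131, .negSucc 743, .ofNat 830, .ofNat 229, .negSucc 1159⟩, .ofNat 8291, .ofNat 12199, .ofNat 0, .ofNat 12199, .ofNat 18758, .ofNat 0, .ofNat 128, .negSucc 1865, .negSucc 3357, .ofNat 0, .ofNat 1228, .ofNat 2188, .ofNat 0, .ofNat 0, .ofNat 2544, .ofNat 4845, .ofNat 0, .ofNat 0, .ofNat 0, .ofNat 0, .ofNat 0, .ofNat 0, .ofNat 8250328766215864055448802903276443179941888, .ofNat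 0, .ofNat 0, .ofNat 0, .ofNat 0, .ofNat 0, .ofNat 0, .ofNat 0, .ofNat 2148082334306132771431943779750387363348480, .ofNat 0⟩)
    (by decide +kernel)
theorem L05198 : Good (Phi V5.P V5.D (-1) (-1)) ⟨6, 56, 5, 21, 2, 3, 4, 3, 5, 2⟩ :=
  leafX_sound T5.ok_mm T5.Ymm.bz_eq (w := 254) (c := ⟨⟨.ofNat 3500, .ofNat 0, .negSucc 306, .negSucc 2830, .ofNat 525, .negSucc 4722⟩, ⟨.negSucc 2320, .ofNat 0, .ofNat 180, .ofNat 1875, .negSucc 341, .ofNat 3117⟩, ⟨.negSucc 1399, .ofNat 0, .negSucc 134, .ofNat 2927, .negSucc 472, .ofNat 2176⟩, ⟨.ofNat 2053, .negSucc 0, .negSucc 103, .negSucc 2857, .ofNat 700, .negSucc 4989⟩, ⟨.negSucc 4283, .negSucc 0, .ofNat 54, .ofNat 1665, .negSucc 62, .ofNat 2456⟩, .ofNat 28899, .ofNat 43152, .ofNat 0, .ofNat 43152, .ofNat 65247, .ofNat 0, .ofNat 128, .negSucc 6294, .negSucc 12160, .ofNat 0, .ofNat 4176, .ofNat 8038, .ofNat 0, .ofNat 0, .ofNat 9206, .ofNat 17854,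 .ofNat 0, .ofNat 0, .ofNat 193379408499475414868073314636070639370240, .ofNat 0, .ofNat 0, .ofNat 0, .ofNat 9747940198088014182646058501792046413512704, .ofNat 0, .ofNat 0, .ofNat 0, .ofNat 86431015797455097809714396096740851451953152, .ofNat 0, .ofNat 0, .ofNat 0, .ofNat 128745164960661599339890425777095858188189696, .ofNat 0⟩)
    (by decide +kernel)
theorem L05199 : Good (Phi V5.P V5.D (-1) (-1)) ⟨7, 114, 5, 20, 2, 3, 4, 3, 5, 2⟩ :=
  leafX_sound T5.ok_mm T5.Ymm.bz_eq (w := 257) (c := ⟨⟨.ofNat 3368, .ofNat 0, .ofNat 324, .negSucc 3081, .ofNat 116, .negSucc 4481⟩, ⟨.negSucc 2826, .ofNat 0, .ofNat 382, .ofNat 2041, .negSucc 74, .ofNat 2954⟩, ⟨.negSucc 1509, .ofNat 0, .ofNat 32, .ofNat 2982, .negSucc 280, .ofNat 2096⟩, ⟨.ofNat 2574, .ofNat 1, .ofNat 0, .negSucc 3234, .negSucc 156, .negSucc 4913⟩, ⟨.negSucc 3924, .ofNat 1, .ofNat 0, .ofNat 1640, .negSucc 464, .ofNat 2051⟩, .ofNat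 21702, .ofNat 32312, .ofNat 0, .ofNat 32312, .ofNat 48920, .ofNat 0, .ofNat 128, .negSucc 4193, .negSucc 10685, .ofNat 0, .ofNat 2783, .ofNat 7063, .ofNat 0, .ofNat 0, .ofNat 8213, .ofNat 9221, .ofNat 0, .ofNat 0, .ofNat 2971984230618142243385603338686337246035968, .ofNat 0, .ofNat 0, .ofNat 0, .ofNat 1403844369209506993433674607320224688118956032, .ofNat 0, .ofNat 0, .ofNat 0, .ofNat 51451416666937791157807442602894366326390784, .ofNat 0, .ofNat 0, .ofNat 0, .ofNat 0, .ofNat 0⟩)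
    (by decide +kernel)
theorem L05200 : Good (Phi V5.P V5.D (-1) (-1)) ⟨8, 228, 6, 42, 2, 3, 4, 3, 5, 2⟩ :=
  leafX_sound T5.ok_mm T5.Ymm.bz_eq (w := 262) (c := ⟨⟨.ofNat 3781, .negSucc 421, .ofNat 326, .negSucc 2763, .ofNat 163, .negSucc 4997⟩, ⟨.negSucc 2528, .ofNat 164, .negSucc 61, .ofNat 1842, .negSucc 111, .ofNat 3321⟩, ⟨.negSucc 1541, .negSucc 100, .ofNat 236, .ofNat 2878, .negSucc 317, .ofNat 2309⟩, ⟨.ofNat 4085, .negSucc 1004, .negSucc 710, .negSucc 3312, .ofNat 860, .negSucc 7293⟩, ⟨.negSucc 1830, .negSucc 1155, .negSucc 1143, .ofNat 824, .ofNat 952, .negSucc 445⟩, .ofNat 18744, .ofNat 27720, .ofNat 0, .ofNat 27720, .ofNat 41793, .ofNat 0, .ofNat 128, .negSucc 3110, .negSucc 5926, .ofNat 0, .ofNat 2074, .ofNat 3936, .ofNat 0, .ofNat 0, .ofNat 4407, .ofNat 3728, .ofNat 0, .ofNat 0, .ofNat 44945398356068914790974299907089475043328, .ofNat 0, .ofNat 0, .ofNat 0, .ofNat 19579575643369831640805328840613613243727872,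 .ofNat 0, .ofNat 0, .ofNat 0, .ofNat 0, .ofNat 0, .ofNat 0, .ofNat 0, .ofNat 3961054429300892036532201713954642332745728, .ofNat 0⟩)
    (by decide +kernel)
theorem L05201 : Good (Phi V5.P V5.D (-1) (-1)) ⟨8, 229, 6, 42, 2, 3, 4, 3, 5, 2⟩ :=
  out_sound (S := T5.ds_mm) T5.ok_mm (w := 23) (j := 4) (by decide +kernel)
theorem L05202 : Good (Phi V5.P V5.D (-1) (-1)) ⟨8, 228, 6, 43, 2, 3, 4, 3, 5, 2⟩ :=
  out_sound (S := T5.ds_mm) T5.ok_mm (w := 81) (j := 3) (by decide +kernel)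
theorem L05203 : Good (Phi V5.P V5.D (-1) (-1)) ⟨8, 229, 6, 43, 2, 3, 4, 3, 5, 2⟩ :=
  out_sound (S := T5.ds_mm) T5.ok_mm (w := 23) (j := 4) (by decide +kernel)
theorem L05204 : Good (Phi V5.P V5.D (-1) (-1)) ⟨7, 115, 4, 10, 2, 3, 4, 3, 5, 2⟩ :=
  out_sound (S := T5.ds_mm) T5.ok_mm (w := 21) (j := 4) (by decide +kernel)
theorem L05205 : Good (Phi V5.P V5.D (-1) (-1)) ⟨5, 29, 4, 10, 2, 3, 4, 3, 5, 2⟩ :=
  out_sound (S := T5.ds_mm) T5.ok_mm (w := 59) (j := 3) (by decide +kernel)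
theorem L05206 : Good (Phi V5.P V5.D (-1) (-1)) ⟨4, 15, 4, 10, 2, 3, 3, 1, 5, 2⟩ :=
  out_sound (S := T5.ds_mm) T5.ok_mm (w := 53) (j := 3) (by decide +kernel)
theorem L05207 : Good (Phi V5.P V5.D (-1) (-1)) ⟨6, 56, 4, 11, 2, 3, 3, 1, 5, 2⟩ :=
  out_sound (S := T5.ds_mm) T5.ok_mm (w := 65) (j := 3) (by decide +kernel)
theorem L05208 : Good (Phi V5.P V5.D (-1) (-1)) ⟨7, 114, 5, 22, 2, 3, 3, 1, 5, 2⟩ :=
  out_sound (S := T5.ds_mm) T5.ok_mm (w := 73) (j := 3) (by decide +kernel)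
theorem L05209 : Good (Phi V5.P V5.D (-1) (-1)) ⟨7, 115, 5, 22, 2, 3, 3, 1, 5, 2⟩ :=
  out_sound (S := T5.ds_mm) T5.ok_mm (w := 21) (j := 4) (by decide +kernel)
theorem L05210 : Good (Phi V5.P V5.D (-1) (-1)) ⟨6, 57, 5, 23, 2, 3, 3, 1, 5, 2⟩ :=
  out_sound (S := T5.ds_mm) T5.ok_mm (w := 67) (j := 3) (by decide +kernel)
theorem L05211 : Good (Phi V5.P V5.D (-1) (-1)) ⟨5, 29, 4, 11, 2, 3, 3, 1, 5, 2⟩ :=
  out_sound (S := T5.ds_mm) T5.ok_mm (w := 17) (j := 4) (by decide +kernel)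
theorem L05212 : Good (Phi V5.P V5.D (-1) (-1)) ⟨4, 15, 4, 11, 2, 3, 3, 1, 5, 2⟩ :=
  out_sound (S := T5.ds_mm) T5.ok_mm (w := 53) (j := 3) (by decide +kernel)
theorem L05213 : Good (Phi V5.P V5.D (-1) (-1)) ⟨2, 2, 3, 5, 2, 3, 3, 1, 5, 3⟩ :=
  out_sound (S := T5.ds_mm) T5.ok_mm (w := 39) (j := 3) (by decide +kernel)
theorem L05214 : Good (Phi V5.P V5.D (-1) (-1)) ⟨3, 6, 3, 5, 2, 3, 3, 1, 5, 3⟩ :=
  out_sound (S := T5.ds_mm) T5.ok_mm (w := 45) (j := 3) (by decide +kernel)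
theorem L05215 : Good (Phi V5.P V5.D (-1) (-1)) ⟨5, 28, 3, 5, 3, 6, 3, 1, 6, 6⟩ :=
  leafX_sound T5.ok_mm T5.Ymm.bz_eq (w := 243) (c := ⟨⟨.negSucc 3400, .negSucc 499, .ofNat 847, .ofNat 651, .ofNat 913, .negSucc 1587⟩, ⟨.ofNat 2122, .ofNat 486, .negSucc 394, .negSucc 424, .negSucc 598, .ofNat 1044⟩, ⟨.ofNat 2179, .ofNat 573, .negSucc 870, .ofNat 218, .negSucc 748, .ofNat 852⟩, ⟨.negSucc 5838, .negSucc 1268, .ofNat 1733, .ofNat 936, .ofNat 1167, .negSucc 2047⟩, ⟨.negSucc 1817, .ofNat 168, .negSucc 431, .ofNat 18, .negSucc 188, .ofNat 358⟩, .ofNat 903, .ofNat 1022, .ofNat 0, .ofNat 1022, .ofNat 1782, .ofNat 0, .ofNat 128, .negSucc 545, .negSucc 1149, .ofNat 0, .ofNat 367, .ofNat 728, .ofNat 0, .ofNat 0, .ofNat 889, .ofNat 2116, .ofNat 0, .ofNat 0, .ofNat 0, .ofNat 0, .ofNat 0, .ofNat 0, .ofNat 1884345266979406782144737716439515802374242304, .ofNat 0, .ofNat 0, .ofNat 0, .ofNat 3922456273223136666160929985358399575571824640,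 .ofNat 580461328381219952961223677522065725029169793725366272, .ofNat 0, .ofNat 0, .ofNat 2057422178897433648011427055935590504192802816, .ofNat 753047001716212126051858151914970900940181792129810432⟩)
    (by decide +kernel)
theorem L05216 : Good (Phi V5.P V5.D (-1) (-1)) ⟨5, 28, 3, 5, 3, 6, 3, 1, 6, 7⟩ :=
  leafX_sound T5.ok_mm T5.Ymm.bz_eq (w := 244) (c := ⟨⟨.negSucc 5680, .negSucc 123, .ofNat 3, .ofNat 1686, .ofNat 790, .negSucc 378⟩, ⟨.ofNat 3662, .ofNat 0, .ofNat 515, .negSucc 1110, .negSucc 523, .ofNat 253⟩, ⟨.ofNat 3346, .ofNat 954, .negSucc 1113, .negSucc 479, .negSucc 631, .ofNat 215⟩, ⟨.negSucc 8495, .negSucc 451, .ofNat 360, .ofNat 1975, .ofNat 728, .negSucc 383⟩, ⟨.negSucc 810, .ofNat 63, .negSucc 244, .negSucc 616, .negSucc 594, .ofNat 261⟩, .ofNat 903, .ofNat 1023, .ofNat 0, .ofNat 1023, .ofNat 1782, .ofNat 0, .ofNat 128, .negSucc 951, .negSucc 1372, .ofNat 0, .ofNat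 652, .ofNat 879, .ofNat 0, .ofNat 0, .ofNat 1176, .ofNat 2136, .ofNat 0, .ofNat 0, .ofNat 19951396302442578115481943076962178137325568, .ofNat 0, .ofNat 0, .ofNat 0, .ofNat 1199256363482297536287811390545662612240072704, .ofNat 0, .ofNat 0, .ofNat 0, .ofNat 7083436367131451317112973394751119629328842752, .ofNat 1386333551645558516384128920469707342412423439350497280, .ofNat 0, .ofNat 0, .ofNat 0, .ofNat 0⟩)
    (by decide +kernel)
theorem L05217 : Good (Phi V5.P V5.D (-1) (-1)) ⟨6, 56, 4, 10, 3, 7, 3, 1, 6, 6⟩ :=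
  leafX_sound T5.ok_mm T5.Ymm.bz_eq (w := 257) (c := ⟨⟨.negSucc 3057, .negSucc 759, .ofNat 623, .negSucc 583, .ofNat 927, .negSucc 516⟩, ⟨.ofNat 1960, .ofNat 442, .negSucc 168, .ofNat 372, .negSucc 602, .ofNat 334⟩, ⟨.ofNat 2878, .ofNat 194, .ofNat 46, .ofNat 899, .negSucc 1036, .ofNat 176⟩, ⟨.negSucc 5527, .negSucc 791, .ofNat 75, .negSucc 1825, .ofNat 1460, .negSucc 550⟩, ⟨.negSucc 1574, .negSucc 160, .negSucc 586, .negSucc 1541, .ofNat 230, .ofNat 273⟩, .ofNat 7281, .ofNat 10726, .ofNat 0, .ofNat 10726, .ofNat 16621, .ofNat 0, .ofNat 128, .negSucc 1012, .negSucc 1970, .ofNat 0, .ofNat 667, .ofNat 1271, .ofNat 0, .ofNat 0, .ofNat 1751, .ofNat 3599, .ofNat 0, .ofNat 0, .ofNat 201804668656397398524564909781547625440346112, .ofNat 0, .ofNat 0, .ofNat 0, .ofNat 38432200182914687668073828649799121935286665216, .ofNat 0, .ofNat 0, .ofNat 0, .ofNat 9254692066492036131331662316081467063349018624,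 .ofNat 0, .ofNat 0, .ofNat 0, .ofNat 40877652019938014707524524064322075357110861824, .ofNat 0⟩)
    (by decide +kernel)
theorem L05218 : Good (Phi V5.P V5.D (-1) (-1)) ⟨7, 114, 5, 20, 3, 7, 3, 1, 6, 6⟩ :=
  leafX_sound T5.ok_mm T5.Ymm.bz_eq (w := 271) (c := ⟨⟨.negSucc 3517, .ofNat 2, .ofNat 89, .negSucc 811, .ofNat 917, .negSucc 440⟩, ⟨.ofNat 2197, .negSucc 0, .ofNat 66, .ofNat 528, .negSucc 603, .ofNat 292⟩, ⟨.ofNat 2975, .negSucc 1, .ofNat 30, .ofNat 1145, .negSucc 1063, .ofNat 157⟩, ⟨.negSucc 6640, .ofNat 3, .negSucc 2, .negSucc 1214, .ofNat 1139, .negSucc 412⟩, ⟨.negSucc 2745, .ofNat 1, .negSucc 0, .negSucc 121, .negSucc 220, .ofNat 311⟩, .ofNat 21696, .ofNat 32303, .ofNat 0, .ofNat 32303, .ofNat 48906, .ofNat 0, .ofNat 128, .negSucc 4426, .negSucc 7018, .ofNat 0, .ofNat 2945, .ofNat 4630, .ofNat 0, .ofNat 0, .ofNat 6160, .ofNat 52536, .ofNat 0, .ofNat 0, .ofNat 0, .ofNat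 0, .ofNat 0, .ofNat 0, .ofNat 12576902010914106552259011733211769265802593697792, .ofNat 0, .ofNat 0, .ofNat 0, .ofNat 2024441634561835140498967916009238025365564162048, .ofNat 0, .ofNat 0, .ofNat 0, .ofNat 242511299184167485058171677841001820451959209984, .ofNat 0⟩)
    (by decide +kernel)
theorem L05219 : Good (Phi V5.P V5.D (-1) (-1)) ⟨7, 114, 5, 21, 3, 7, 3, 1, 6, 6⟩ :=
  leafX_sound T5.ok_mm T5.Ymm.bz_eq (w := 266) (c := ⟨⟨.negSucc 3336, .negSucc 469, .ofNat 397, .negSucc 735, .ofNat 880, .negSucc 546⟩, ⟨.ofNat 2192, .ofNat 263, .negSucc 108, .ofNat 501, .negSucc 583, .ofNat 360⟩, ⟨.ofNat 2952, .ofNat 28, .ofNat 103, .ofNat 1052, .negSucc 999, .ofNat 183⟩, ⟨.negSucc 5398, .negSucc 496, .negSucc 318, .negSucc 2633, .ofNat 1078, .negSucc 545⟩, ⟨.negSucc 1096, .negSucc 482, .negSucc 515, .negSucc 2380, .negSucc 230, .ofNat 330⟩, .ofNat 7347, .ofNat 10630, .ofNat 0, .ofNat 10630,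 .ofNat 16159, .ofNat 0, .ofNat 128, .negSucc 2543, .negSucc 4893, .ofNat 0, .ofNat 1704, .ofNat 3229, .ofNat 0, .ofNat 0, .ofNat 4188, .ofNat 8331, .ofNat 0, .ofNat 0, .ofNat 212487416613733408967610902599168603386281984, .ofNat 139255128315239170282524404957871752299057513230489354240, .ofNat 0, .ofNat 0, .ofNat 55310166029186532381481151600393011873965932544, .ofNat 6124661814003533574969333548980961309694638512713198731264, .ofNat 0, .ofNat 0, .ofNat 36827628335654052183641887404627546581541847040, .ofNat 0, .ofNat 0, .ofNat 0, .ofNat 77358131400673709030946809179837609366981181440, .ofNat 73427610286264795835733073293929795274720268389357251985408⟩)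
    (by decide +kernel)
theorem L05220 : Good (Phi V5.P V5.D (-1) (-1)) ⟨7, 115, 4, 10, 3, 7, 3, 1, 6, 6⟩ :=
  out_sound (S := T5.ds_mm) T5.ok_mm (w := 21) (j := 4) (by decide +kernel)
theorem L05221 : Good (Phi V5.P V5.D (-1) (-1)) ⟨6, 56, 4, 10, 3, 7, 3, 1, 6, 7⟩ :=
  leafX_sound T5.ok_mm T5.Ymm.bz_eq (w := 256) (c := ⟨⟨.negSucc 4230, .negSucc 158, .negSucc 31, .ofNat 247, .ofNat 776, .ofNat 210⟩, ⟨.ofNat 2704, .ofNat 86, .ofNat 223, .negSucc 162, .negSucc 505, .negSucc 136⟩, ⟨.ofNat 3477, .negSucc 175, .ofNat 443, .ofNat 395, .negSucc 958, .negSucc 191⟩, ⟨.negSucc 6911, .negSucc 286, .negSucc 307, .negSucc 721, .ofNat 1138, .ofNat 536⟩, ⟨.negSucc 1382, .negSucc 196, .negSucc 299, .negSucc 1636, .ofNat 60, .ofNat 369⟩, .ofNat 5105, .ofNat 7415, .ofNat 0, .ofNat 7415, .ofNat 11581, .ofNat 0, .ofNat 128, .negSucc 1131, .negSucc 1772, .ofNat 0, .ofNat 750, .ofNat 1136, .ofNat 0,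 .ofNat 0, .ofNat 1845, .ofNat 10199, .ofNat 0, .ofNat 0, .ofNat 0, .ofNat 0, .ofNat 0, .ofNat 0, .ofNat 26095098329690356762905561614236216749979598848, .ofNat 0, .ofNat 0, .ofNat 0, .ofNat 24229387339821906068479691326773345397015314432, .ofNat 0, .ofNat 0, .ofNat 0, .ofNat 36819767707470706339708186039456187326104862720, .ofNat 0⟩)
    (by decide +kernel)
theorem L05222 : Good (Phi V5.P V5.D (-1) (-1)) ⟨7, 114, 4, 10, 4, 14, 3, 1, 6, 7⟩ :=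
  leafX_sound T5.ok_mm T5.Ymm.bz_eq (w := 272) (c := ⟨⟨.negSucc 4179, .ofNat 136, .negSucc 182, .ofNat 317, .ofNat 787, .negSucc 19⟩, ⟨.ofNat 2665, .negSucc 95, .ofNat 314, .negSucc 210, .negSucc 525, .ofNat 14⟩, ⟨.ofNat 3983, .ofNat 489, .negSucc 1171, .ofNat 123, .negSucc 928, .negSucc 68⟩, ⟨.negSucc 7040, .ofNat 10, .ofNat 50, .ofNat 236, .ofNat 962, .ofNat 65⟩, ⟨.negSucc 1533, .negSucc 81, .ofNat 6, .negSucc 308, .negSucc 214, .ofNat 147⟩, .ofNat 2698, .ofNat 3681, .ofNat 0, .ofNat 3681, .ofNat 5756, .ofNat 0, .ofNat 128, .negSucc 1565, .negSucc 2246, .ofNat 0, .ofNat 1064, .ofNat 1464, .ofNat 0, .ofNat 0, .ofNat 2257, .ofNat 8768, .ofNat 0, .ofNat 0, .ofNat 0, .ofNat 0, .ofNat 0, .ofNat 0, .ofNat 49744764709243818477515225436511236459764822048768, .ofNat 0, .ofNat 0, .ofNat 0, .ofNat 328068695263599701801322789462294861156562459688960, .ofNat 0, .ofNat 0, .ofNat 0, .ofNat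 205017363606228122653175097319607650585702400262144, .ofNat 0⟩)
    (by decide +kernel)
theorem L05223 : Good (Phi V5.P V5.D (-1) (-1)) ⟨7, 115, 4, 10, 4, 14, 3, 1, 6, 7⟩ :=
  out_sound (S := T5.ds_mm) T5.ok_mm (w := 21) (j := 4) (by decide +kernel)
theorem L05224 : Good (Phi V5.P V5.D (-1) (-1)) ⟨7, 114, 4, 10, 4, 15, 3, 1, 6, 7⟩ :=
  leafX_sound T5.ok_mm T5.Ymm.bz_eq (w := 269) (c := ⟨⟨.negSucc 4100, .negSucc 71, .negSucc 25, .negSucc 240, .ofNat 714, .ofNat 360⟩, ⟨.ofNat 2680, .ofNat 117, .ofNat 70, .ofNat 164, .negSucc 479, .negSucc 238⟩, ⟨.ofNat 3347, .negSucc 139, .ofNat 590, .ofNat 510, .negSucc 1026, .negSucc 277⟩, ⟨.negSucc 7045, .negSucc 99, .negSucc 387, .negSucc 1378, .ofNat 1344, .ofNat 737⟩, ⟨.negSucc 2113, .negSucc 148, .negSucc 189, .negSucc 1545, .ofNat 498, .ofNat 356⟩, .ofNat 1565, .ofNat 1992, .ofNat 0, .ofNat 1992, .ofNat 3221, .ofNat 0, .ofNat 128, .negSucc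 702, .negSucc 1359, .ofNat 0, .ofNat 487, .ofNat 835, .ofNat 0, .ofNat 0, .ofNat 1359, .ofNat 4263, .ofNat 0, .ofNat 0, .ofNat 903666199446259841930976315835126247339050663936, .ofNat 123259583531243478986716933964414799125785388323362020786176, .ofNat 0, .ofNat 0, .ofNat 12068368789353458911099714208958627762385176231936, .ofNat 0, .ofNat 0, .ofNat 0, .ofNat 53004758864910621580179308087631651495380711899136, .ofNat 1604063121225507113227489708913952424196201354342066722701312, .ofNat 0, .ofNat 0, .ofNat 134363398320642422511608177900588456507967010766848, .ofNat 13544266039929971105069451182552929674059885290141079232839680⟩)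
    (by decide +kernel)
theorem L05225 : Good (Phi V5.P V5.D (-1) (-1)) ⟨7, 115, 4, 10, 4, 15, 3, 1, 6, 7⟩ :=
  out_sound (S := T5.ds_mm) T5.ok_mm (w := 21) (j := 4) (by decide +kernel)
theorem L05226 : Good (Phi V5.P V5.D (-1) (-1)) ⟨6, 56, 4, 11, 3, 7, 3, 1, 5, 3⟩ :=
  out_sound (S := T5.ds_mm) T5.ok_mm (w := 65) (j := 3) (by decide +kernel)
theorem L05227 : Good (Phi V5.P V5.D (-1) (-1)) ⟨7, 114, 5, 22, 3, 7, 3, 1, 5, 3⟩ :=
  out_sound (S := T5.ds_mm) T5.ok_mm (w := 73) (j := 3) (by decide +kernel)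
theorem L05228 : Good (Phi V5.P V5.D (-1) (-1)) ⟨7, 115, 5, 22, 3, 7, 3, 1, 5, 3⟩ :=
  out_sound (S := T5.ds_mm) T5.ok_mm (w := 21) (j := 4) (by decide +kernel)
theorem L05229 : Good (Phi V5.P V5.D (-1) (-1)) ⟨6, 57, 5, 23, 3, 7, 3, 1, 5, 3⟩ :=
  out_sound (S := T5.ds_mm) T5.ok_mm (w := 67) (j := 3) (by decide +kernel)
theorem L05230 : Good (Phi V5.P V5.D (-1) (-1)) ⟨5, 29, 3, 5, 2, 3, 3, 1, 5, 3⟩ :=
  out_sound (S := T5.ds_mm) T5.ok_mm (w := 17) (j := 4) (by decide +kernel)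
theorem L05231 : Good (Phi V5.P V5.D (-1) (-1)) ⟨4, 15, 3, 5, 2, 3, 3, 1, 5, 3⟩ :=
  out_sound (S := T5.ds_mm) T5.ok_mm (w := 51) (j := 3) (by decide +kernel)
theorem L05232 : Good (Phi V5.P V5.D (-1) (-1)) ⟨2, 2, 3, 5, 3, 6, 3, 0, 4, 2⟩ :=
  out_sound (S := T5.ds_mm) T5.ok_mm (w := 39) (j := 3) (by decide +kernel)
theorem L05233 : Good (Phi V5.P V5.D (-1) (-1)) ⟨3, 6, 3, 5, 3, 6, 3, 0, 4, 2⟩ :=
  out_sound (S := T5.ds_mm) T5.ok_mm (w := 45) (j := 3) (by decide +kernel)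
theorem L05234 : Good (Phi V5.P V5.D (-1) (-1)) ⟨6, 56, 4, 10, 3, 6, 5, 0, 6, 8⟩ :=
  leafX_sound T5.ok_mm T5.Ymm.bz_eq (w := 262) (c := ⟨⟨.negSucc 6851, .negSucc 207, .ofNat 148, .ofNat 1786, .ofNat 157, .ofNat 574⟩, ⟨.ofNat 4400, .ofNat 161, .ofNat 115, .negSucc 1169, .negSucc 108, .negSucc 372⟩, ⟨.ofNat 4436, .ofNat 79, .negSucc 190, .ofNat 127, .negSucc 360, .negSucc 295⟩, ⟨.negSucc 9292, .negSucc 94, .ofNat 194, .ofNat 1968, .ofNat 47, .ofNat 657⟩, ⟨.ofNat 747, .ofNat 108, .negSucc 72, .negSucc 847, .negSucc 251, .negSucc 248⟩, .ofNat 2333, .ofNat 3188, .ofNat 0, .ofNat 3188, .ofNat 5119, .ofNat 0, .ofNat 128, .negSucc 1637, .negSucc 822, .ofNat 0, .ofNat 1118, .ofNat 544, .ofNat 0, .ofNat 0, .ofNat 1058, .ofNat 171174, .ofNat 30623379694392145930363573112328155652976007235504177152, .ofNat 0, .ofNat 14050388135592114748565535551440195543640309760, .ofNat 0, .ofNat 32446276866439850308622503908181629078520210001758257152,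 .ofNat 0, .ofNat 2454213286763186970999679245772637252059926626304, .ofNat 0, .ofNat 306119760157367214636302751232303596234196148395333124096, .ofNat 0, .ofNat 9056869954587743424751569761799247760163455631360, .ofNat 0, .ofNat 67964707683465285468313556519106027846455407624505524224, .ofNat 0, .ofNat 6962602033189048782030231649888277239533408354304, .ofNat 0⟩)
    (by decide +kernel)
theorem L05235 : Good (Phi V5.P V5.D (-1) (-1)) ⟨6, 56, 4, 10, 3, 6, 5, 1, 6, 8⟩ :=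
  leafX_sound T5.ok_mm T5.Ymm.bz_eq (w := 261) (c := ⟨⟨.negSucc 6550, .negSucc 380, .ofNat 336, .ofNat 1765, .ofNat 178, .ofNat 508⟩, ⟨.ofNat 4205, .ofNat 260, .ofNat 4, .negSucc 1153, .negSucc 118, .negSucc 332⟩, ⟨.ofNat 4219, .negSucc 101, .ofNat 67, .negSucc 42, .negSucc 204, .negSucc 264⟩, ⟨.negSucc 9102, .negSucc 253, .ofNat 311, .ofNat 1956, .ofNat 45, .ofNat 592⟩, ⟨.ofNat 406, .ofNat 211, .negSucc 244, .negSucc 826, .negSucc 320, .negSucc 196⟩, .ofNat 2346, .ofNat 3206, .ofNat 0, .ofNat 3206, .ofNat 5141, .ofNat 0, .ofNat 128, .negSucc 1654, .negSucc 830, .ofNat 0, .ofNat 1127, .ofNat 548, .ofNat 0, .ofNat 0, .ofNat 1038, .ofNat 42551, .ofNat 0, .ofNat 0, .ofNat 0, .ofNat 0, .ofNat 0, .ofNat 0, .ofNat 3482846385154763972547521625270797931357499555840, .ofNat 0, .ofNat 0, .ofNat 0, .ofNat 0, .ofNat 0, .ofNat 0, .ofNat 0, .ofNat 9686240257139581859640788095841923317926622920704,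 .ofNat 0⟩)
    (by decide +kernel)
theorem L05236 : Good (Phi V5.P V5.D (-1) (-1)) ⟨6, 56, 4, 10, 3, 6, 4, 1, 6, 8⟩ :=
  leafX_sound T5.ok_mm T5.Ymm.bz_eq (w := 256) (c := ⟨⟨.negSucc 6499, .negSucc 34, .negSucc 65, .ofNat 1821, .ofNat 343, .ofNat 413⟩, ⟨.ofNat 4196, .negSucc 5, .ofNat 294, .negSucc 1194, .negSucc 228, .negSucc 272⟩, ⟨.ofNat 3989, .ofNat 157, .negSucc 222, .negSucc 324, .negSucc 363, .negSucc 211⟩, ⟨.negSucc 9155, .negSucc 28, .negSucc 12, .ofNat 2066, .ofNat 168, .ofNat 536⟩, ⟨.ofNat 126, .negSucc 30, .ofNat 15, .negSucc 780, .negSucc 492, .negSucc 72⟩, .ofNat 893, .ofNat 1010, .ofNat 0, .ofNat 1010, .ofNat 1771, .ofNat 0, .ofNat 128, .negSucc 1221, .negSucc 1059, .ofNat 0, .ofNat 875, .ofNat 700, .ofNat 0, .ofNat 0, .ofNat 1210, .ofNat 24510, .ofNat 0, .ofNat 0, .ofNat 0, .ofNat 0, .ofNat 0, .ofNat 0, .ofNat 81440847054519436931939481425963527051386290176, .ofNat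 0, .ofNat 0, .ofNat 0, .ofNat 798064354435231144065282228180602032368121806848, .ofNat 0, .ofNat 0, .ofNat 0, .ofNat 65901570030981640582106528418147750033573806080, .ofNat 0⟩)
    (by decide +kernel)
theorem L05237 : Good (Phi V5.P V5.D (-1) (-1)) ⟨7, 114, 5, 20, 3, 6, 4, 0, 6, 8⟩ :=
  leafX_sound T5.ok_mm T5.Ymm.bz_eq (w := 271) (c := ⟨⟨.negSucc 7009, .ofNat 3, .negSucc 34, .ofNat 1929, .ofNat 370, .ofNat 508⟩, ⟨.ofNat 4623, .negSucc 1, .ofNat 41, .negSucc 1278, .negSucc 248, .negSucc 336⟩, ⟨.ofNat 4445, .negSucc 1, .negSucc 69, .negSucc 81, .negSucc 431, .negSucc 239⟩, ⟨.negSucc 9401, .ofNat 4, .negSucc 4, .ofNat 2084, .ofNat 202, .ofNat 589⟩, ⟨.ofNat 755, .ofNat 0, .ofNat 1, .negSucc 947, .negSucc 482, .negSucc 189⟩, .ofNat 6370, .ofNat 9221, .ofNat 0, .ofNat 9221, .ofNat 14137, .ofNat 0, .ofNat 128, .negSucc 7138, .negSucc 5207, .ofNat 0, .ofNat 4806, .ofNat 3468, .ofNat 0,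 .ofNat 0, .ofNat 6448, .ofNat 325746, .ofNat 541566685812116822105241724105062991579046584883710263296, .ofNat 0, .ofNat 7832374132314661140872503688133062665536253460480, .ofNat 0, .ofNat 761742133369364166690309139010807985200707048053118337024, .ofNat 0, .ofNat 183619689702644528185456405845614414058931280150528, .ofNat 0, .ofNat 61733814124106399733595791962936663046743975196515775807488, .ofNat 0, .ofNat 724929284798603842672146883599824611229400192516096, .ofNat 0, .ofNat 38736694997483177283816408901969995657107625204381336469504, .ofNat 0, .ofNat 780301532655403913467216768147963920876855483170816, .ofNat 0⟩)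
    (by decide +kernel)
theorem L05238 : Good (Phi V5.P V5.D (-1) (-1)) ⟨7, 114, 5, 20, 3, 6, 4, 1, 6, 8⟩ :=
  leafX_sound T5.ok_mm T5.Ymm.bz_eq (w := 272) (c := ⟨⟨.negSucc 6514, .ofNat 3, .negSucc 97, .ofNat 1924, .ofNat 349, .ofNat 409⟩, ⟨.ofNat 4314, .negSucc 1, .ofNat 61, .negSucc 1274, .negSucc 233, .negSucc 270⟩, ⟨.ofNat 4241, .negSucc 1, .negSucc 182, .negSucc 356, .negSucc 334, .negSucc 223⟩, ⟨.negSucc 9207, .ofNat 4, .negSucc 5, .ofNat 2108, .ofNat 199, .ofNat 515⟩, ⟨.ofNat 130, .ofNat 0, .ofNat 1, .negSucc 901, .negSucc 441, .negSucc 90⟩, .ofNat 6370, .ofNat 9221, .ofNat 0, .ofNat 9221, .ofNat 14137, .ofNat 0, .ofNat 128, .negSucc 7742, .negSucc 5635, .ofNat 0, .ofNat 5199, .ofNat 3745, .ofNat 0, .ofNat 0, .ofNat 6344, .ofNat 286312, .ofNat 0, .ofNat 0, .ofNat 0, .ofNat 0, .ofNat 0, .ofNat 0, .ofNat 544977309264882444109639813192686427824689520836608, .ofNat 0, .ofNat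 0, .ofNat 0, .ofNat 1041433113544818450507319746284398502055914732781568, .ofNat 0, .ofNat 0, .ofNat 0, .ofNat 398584476582340837313325859053609714263230481694720, .ofNat 0⟩)
    (by decide +kernel)
theorem L05239 : Good (Phi V5.P V5.D (-1) (-1)) ⟨7, 114, 5, 21, 3, 6, 4, 0, 6, 8⟩ :=
  leafX_sound T5.ok_mm T5.Ymm.bz_eq (w := 271) (c := ⟨⟨.negSucc 7025, .negSucc 47, .ofNat 101, .ofNat 1941, .ofNat 332, .ofNat 509⟩, ⟨.ofNat 4656, .ofNat 61, .ofNat 18, .negSucc 1293, .negSucc 224, .negSucc 339⟩, ⟨.ofNat 4385, .negSucc 234, .ofNat 127, .negSucc 118, .negSucc 410, .negSucc 245⟩, ⟨.negSucc 9336, .ofNat 61, .ofNat 61, .ofNat 2007, .ofNat 179, .ofNat 539⟩, ⟨.ofNat 803, .negSucc 14, .negSucc 16, .negSucc 1068, .negSucc 427, .negSucc 261⟩, .ofNat 8455, .ofNat 12236, .ofNat 0, .ofNat 12236, .ofNat 18480, .ofNat 0, .ofNat 128, .negSucc 3774, .negSucc 3385, .ofNat 0, .ofNat 2557, .ofNat 2278,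 .ofNat 0, .ofNat 0, .ofNat 4220, .ofNat 169415, .ofNat 250626882894800711066337291510690527207099342539748016128, .ofNat 0, .ofNat 6860284163608939666446390791881944500975697920, .ofNat 0, .ofNat 0, .ofNat 0, .ofNat 1143201783880562211147538374960571394566607863808, .ofNat 256144432066834775209336484827021953066646290255556636573696, .ofNat 12278978404677376568263307996340988700339548184887137665024, .ofNat 0, .ofNat 1047353368959482372906042959439816603972384325632, .ofNat 1208012889818054343839764254257197642216396759295253899378688, .ofNat 9061390544329252661547905988174879385224823785787901345792, .ofNat 0, .ofNat 9020846858585300998585222758774339678953816457216, .ofNat 1409074539680286508404997982083035190670684003066332376465408⟩)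
    (by decide +kernel)
theorem L05240 : Good (Phi V5.P V5.D (-1) (-1)) ⟨7, 114, 5, 21, 3, 6, 4, 1, 6, 8⟩ :=
  leafX_sound T5.ok_mm T5.Ymm.bz_eq (w := 263) (c := ⟨⟨.negSucc 6631, .negSucc 54, .ofNat 39, .ofNat 1947, .ofNat 341, .ofNat 421⟩, ⟨.ofNat 4395, .ofNat 139, .negSucc 22, .negSucc 1298, .negSucc 229, .negSucc 279⟩, ⟨.ofNat 4074, .negSucc 302, .ofNat 282, .negSucc 382, .negSucc 337, .negSucc 237⟩, ⟨.negSucc 9238, .ofNat 32, .negSucc 18, .ofNat 2164, .ofNat 150, .ofNat 550⟩, ⟨.ofNat 129, .negSucc 24, .ofNat 2, .negSucc 857, .negSucc 499, .negSucc 63⟩, .ofNat 938, .ofNat 1065, .ofNat 0, .ofNat 1065, .ofNat 1821, .ofNat 0, .ofNat 128, .negSucc 1329, .negSucc 1115, .ofNat 0, .ofNat 961, .ofNat 750, .ofNat 0, .ofNat 0, .ofNat 1257, .ofNat 15531, .ofNat 0, .ofNat 0, .ofNat 0, .ofNat 0, .ofNat 0, .ofNat 0, .ofNat 62551427606246224172641035083948225232826793984, .ofNat 17300407046894852271271285497526032723577250392946556010496,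 .ofNat 0, .ofNat 0, .ofNat 0, .ofNat 0, .ofNat 0, .ofNat 0, .ofNat 525658043413507651004689959411974339945266413568, .ofNat 0⟩)
    (by decide +kernel)
theorem L05241 : Good (Phi V5.P V5.D (-1) (-1)) ⟨7, 115, 4, 10, 3, 6, 3, 0, 6, 8⟩ :=
  out_sound (S := T5.ds_mm) T5.ok_mm (w := 21) (j := 4) (by decide +kernel)
theorem L05242 : Good (Phi V5.P V5.D (-1) (-1)) ⟨6, 56, 4, 11, 3, 6, 3, 0, 6, 8⟩ :=
  out_sound (S := T5.ds_mm) T5.ok_mm (w := 65) (j := 3) (by decide +kernel)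
theorem L05243 : Good (Phi V5.P V5.D (-1) (-1)) ⟨7, 114, 5, 22, 3, 6, 3, 0, 6, 8⟩ :=
  out_sound (S := T5.ds_mm) T5.ok_mm (w := 73) (j := 3) (by decide +kernel)
theorem L05244 : Good (Phi V5.P V5.D (-1) (-1)) ⟨7, 115, 5, 22, 3, 6, 3, 0, 6, 8⟩ :=
  out_sound (S := T5.ds_mm) T5.ok_mm (w := 21) (j := 4) (by decide +kernel)
theorem L05245 : Good (Phi V5.P V5.D (-1) (-1)) ⟨6, 57, 5, 23, 3, 6, 3, 0, 6, 8⟩ :=
  out_sound (S := T5.ds_mm) T5.ok_mm (w := 67) (j := 3) (by decide +kernel)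
theorem L05246 : Good (Phi V5.P V5.D (-1) (-1)) ⟨5, 28, 4, 10, 3, 6, 5, 0, 6, 9⟩ :=
  leafX_sound T5.ok_mm T5.Ymm.bz_eq (w := 255) (c := ⟨⟨.negSucc 6163, .negSucc 228, .ofNat 144, .ofNat 1535, .ofNat 173, .ofNat 557⟩, ⟨.ofNat 3971, .ofNat 135, .ofNat 117, .negSucc 1009, .negSucc 111, .negSucc 364⟩, ⟨.ofNat 4062, .ofNat 75, .negSucc 153, .ofNat 119, .negSucc 284, .negSucc 368⟩, ⟨.negSucc 8476, .negSucc 229, .ofNat 229, .ofNat 1701, .ofNat 103, .ofNat 597⟩, ⟨.ofNat 445, .ofNat 166, .negSucc 158, .negSucc 744, .negSucc 234, .negSucc 301⟩, .ofNat 391, .ofNat 298, .ofNat 0, .ofNat 298, .ofNat 646, .ofNat 0, .ofNat 128, .negSucc 247, .negSucc 134, .ofNat 0, .ofNat 227, .ofNat 96, .ofNat 0, .ofNat 0, .ofNat 198, .ofNat 33986, .ofNat 361259743787567014296153162271192121675876009907322880, .ofNat 0, .ofNat 37521729617487187801591497498864713135126740992, .ofNat 0, .ofNat 0, .ofNat 0, .ofNat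 0, .ofNat 0, .ofNat 342053176378669575062434879005772038925535767884201984, .ofNat 0, .ofNat 428706898603031075988334403688147224686405615616, .ofNat 0, .ofNat 377901011634357169716996028047590955478470165230780416, .ofNat 0, .ofNat 495387099076916555847487230458230420661344403456, .ofNat 13385197917115364238940735213490151742882207351858790400⟩)
    (by decide +kernel)
theorem L05247 : Good (Phi V5.P V5.D (-1) (-1)) ⟨5, 28, 4, 10, 3, 6, 5, 1, 6, 9⟩ :=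
  leafX_sound T5.ok_mm T5.Ymm.bz_eq (w := 256) (c := ⟨⟨.negSucc 5993, .negSucc 172, .ofNat 40, .ofNat 1557, .ofNat 123, .ofNat 587⟩, ⟨.ofNat 3832, .ofNat 227, .ofNat 121, .negSucc 1024, .negSucc 82, .negSucc 387⟩, ⟨.ofNat 3881, .ofNat 36, .negSucc 104, .negSucc 105, .negSucc 186, .negSucc 314⟩, ⟨.negSucc 8464, .ofNat 12, .ofNat 30, .ofNat 1788, .ofNat 23, .ofNat 627⟩, ⟨.ofNat 131, .ofNat 36, .negSucc 25, .negSucc 619, .negSucc 230, .negSucc 309⟩, .ofNat 1495, .ofNat 1902, .ofNat 0, .ofNat 1902, .ofNat 3118, .ofNat 0, .ofNat 128, .negSucc 977, .negSucc 433, .ofNat 0, .ofNat 691, .ofNat 291, .ofNat 0, .ofNat 0, .ofNat 642, .ofNat 33594, .ofNat 106133875758016054940525643218262697185770771669057536, .ofNat 0, .ofNat 55961047475405925794648273821679574066959220736, .ofNat 0, .ofNat 0, .ofNat 0, .ofNat 2569356194273499058440227773563778318342434062336, .ofNat 0, .ofNat 6031397000810277982734332064142043934134200816940089344,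 .ofNat 0, .ofNat 6048357898276168538388520956140532810947862986752, .ofNat 0, .ofNat 0, .ofNat 0, .ofNat 6057649396969768993970416785972003390901773664256, .ofNat 1468077833903301315617138989160724891179305756774205751296⟩)
    (by decide +kernel)
theorem L05248 : Good (Phi V5.P V5.D (-1) (-1)) ⟨5, 28, 4, 10, 3, 6, 4, 1, 6, 9⟩ :=
  leafX_sound T5.ok_mm T5.Ymm.bz_eq (w := 251) (c := ⟨⟨.negSucc 5837, .negSucc 335, .ofNat 145, .ofNat 1603, .ofNat 262, .ofNat 497⟩, ⟨.ofNat 3689, .ofNat 513, .negSucc 48, .negSucc 1054, .negSucc 176, .negSucc 326⟩, ⟨.ofNat 3728, .ofNat 363, .negSucc 279, .negSucc 322, .negSucc 326, .negSucc 305⟩, ⟨.negSucc 8451, .negSucc 62, .ofNat 66, .ofNat 1850, .ofNat 123, .ofNat 590⟩, ⟨.negSucc 119, .negSucc 34, .negSucc 7, .negSucc 627, .negSucc 375, .negSucc 178⟩, .ofNat 907, .ofNat 1027, .ofNat 0, .ofNat 1027, .ofNat 1786, .ofNat 0, .ofNat 128, .negSucc 829,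 .negSucc 732, .ofNat 0, .ofNat 609, .ofNat 490, .ofNat 0, .ofNat 0, .ofNat 1022, .ofNat 9456, .ofNat 0, .ofNat 0, .ofNat 1939559665387254064325820325624463911710359552, .ofNat 0, .ofNat 0, .ofNat 0, .ofNat 181947937838440521738601431266298169902105624576, .ofNat 57105830436742026875489595578180761461801397136067133440, .ofNat 0, .ofNat 0, .ofNat 0, .ofNat 0, .ofNat 0, .ofNat 0, .ofNat 0, .ofNat 0⟩)
    (by decide +kernel)
theorem L05249 : Good (Phi V5.P V5.D (-1) (-1)) ⟨6, 56, 4, 11, 3, 6, 3, 0, 6, 9⟩ :=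
  out_sound (S := T5.ds_mm) T5.ok_mm (w := 65) (j := 3) (by decide +kernel)
theorem L05250 : Good (Phi V5.P V5.D (-1) (-1)) ⟨7, 114, 5, 22, 3, 6, 3, 0, 6, 9⟩ :=
  out_sound (S := T5.ds_mm) T5.ok_mm (w := 73) (j := 3) (by decide +kernel)
theorem L05251 : Good (Phi V5.P V5.D (-1) (-1)) ⟨7, 115, 5, 22, 3, 6, 3, 0, 6, 9⟩ :=
  out_sound (S := T5.ds_mm) T5.ok_mm (w := 21) (j := 4) (by decide +kernel)
theorem L05252 : Good (Phi V5.P V5.D (-1) (-1)) ⟨6, 57, 5, 23, 3, 6, 3, 0, 6, 9⟩ :=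
  out_sound (S := T5.ds_mm) T5.ok_mm (w := 67) (j := 3) (by decide +kernel)
theorem L05253 : Good (Phi V5.P V5.D (-1) (-1)) ⟨5, 29, 3, 5, 3, 6, 3, 0, 5, 4⟩ :=
  out_sound (S := T5.ds_mm) T5.ok_mm (w := 17) (j := 4) (by decide +kernel)
theorem L05254 : Good (Phi V5.P V5.D (-1) (-1)) ⟨6, 56, 4, 10, 3, 6, 4, 0, 5, 5⟩ :=
  leafX_sound T5.ok_mm T5.Ymm.bz_eq (w := 251) (c := ⟨⟨.negSucc 5377, .ofNat 155, .negSucc 239, .ofNat 1209, .ofNat 158, .ofNat 948⟩, ⟨.ofNat 3486, .negSucc 152, .ofNat 392, .negSucc 794, .negSucc 107, .negSucc 623⟩, ⟨.ofNat 3709, .ofNat 144, .negSucc 245, .negSucc 133, .negSucc 410, .negSucc 565⟩, ⟨.negSucc 7749, .ofNat 151, .negSucc 190, .ofNat 1468, .ofNat 58, .ofNat 1051⟩, ⟨.negSucc 217, .negSucc 68, .ofNat 72, .negSucc 361, .negSucc 248, .negSucc 457⟩, .ofNat 894, .ofNat 1011, .ofNat 0, .ofNat 1011, .ofNat 1773, .ofNat 0, .ofNat 128, .negSucc 865, .negSucc 255,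 .ofNat 0, .ofNat 659, .ofNat 172, .ofNat 0, .ofNat 0, .ofNat 517, .ofNat 52345, .ofNat 47987775778663548184642704096923728515529887117737984, .ofNat 0, .ofNat 86405723103795231351874775899538664965799936, .ofNat 0, .ofNat 141922007058986975555896261220411628627661504380928000, .ofNat 0, .ofNat 2348152140284034808512168495031512357530501120, .ofNat 0, .ofNat 0, .ofNat 0, .ofNat 26653876479070239433578571546843775761995792384, .ofNat 0, .ofNat 305863305910519454562890610917335212039728387506307072, .ofNat 0, .ofNat 328866716306440072967346410803617417721282560, .ofNat 0⟩)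
    (by decide +kernel)
theorem L05255 : Good (Phi V5.P V5.D (-1) (-1)) ⟨6, 57, 4, 10, 3, 6, 4, 0, 5, 5⟩ :=
  leafX_sound T5.ok_mm T5.Ymm.bz_eq (w := 251) (c := ⟨⟨.negSucc 5392, .negSucc 8, .ofNat 46, .ofNat 1237, .ofNat 170, .ofNat 959⟩, ⟨.ofNat 3485, .ofNat 26, .ofNat 139, .negSucc 823, .negSucc 112, .negSucc 639⟩, ⟨.ofNat 3791, .negSucc 6, .negSucc 77, .negSucc 140, .negSucc 430, .negSucc 547⟩, ⟨.negSucc 7746, .ofNat 38, .ofNat 31, .ofNat 1487, .ofNat 97, .ofNat 1045⟩, ⟨.negSucc 238, .negSucc 30, .negSucc 50, .negSucc 379, .negSucc 214, .negSucc 471⟩, .ofNat 870, .ofNat 952, .ofNat 0, .ofNat 952, .ofNat 1626, .ofNat 0, .ofNat 128, .negSucc 633, .negSucc 231, .ofNat 0, .ofNat 502, .ofNat 164, .ofNat 0, .ofNat 0, .ofNat 456, .ofNat 39789, .ofNat 35244848891147967692539951730310565155242075167391744, .ofNat 0, .ofNat 60483177519454464205432127919712916618608640, .ofNat 216541974656033556681459899383187945077502410548576256,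 .ofNat 0, .ofNat 0, .ofNat 468387955153276016889779466347090683554168832, .ofNat 0, .ofNat 0, .ofNat 0, .ofNat 703545901637070035926255911689410244564221952, .ofNat 114197910557623054089826523262440951516571228922416463872, .ofNat 79637710935496461666971020664273142171145471436783616, .ofNat 0, .ofNat 1832932030795208925554454767549830864039837696, .ofNat 3100768144189234673842362822992111510114954738195759104⟩)
    (by decide +kernel)
theorem L05256 : Good (Phi V5.P V5.D (-1) (-1)) ⟨5, 28, 4, 10, 3, 6, 4, 1, 5, 5⟩ :=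
  leafX_sound T5.ok_mm T5.Ymm.bz_eq (w := 245) (c := ⟨⟨.negSucc 5013, .negSucc 387, .ofNat 178, .ofNat 1220, .ofNat 149, .ofNat 885⟩, ⟨.ofNat 3165, .ofNat 494, .negSucc 60, .negSucc 801, .negSucc 99, .negSucc 584⟩, ⟨.ofNat 3382, .ofNat 240, .negSucc 224, .negSucc 279, .negSucc 331, .negSucc 529⟩, ⟨.negSucc 7593, .negSucc 51, .ofNat 13, .ofNat 1500, .ofNat 81, .ofNat 1060⟩, ⟨.negSucc 586, .ofNat 207, .negSucc 168, .negSucc 366, .negSucc 213, .negSucc 325⟩, .ofNat 391, .ofNat 298, .ofNat 0, .ofNat 298, .ofNat 646, .ofNat 0, .ofNat 128, .negSucc 340, .negSucc 180, .ofNat 0, .ofNat 309, .ofNat 125, .ofNat 0, .ofNat 0, .ofNat 310, .ofNat 6053, .ofNat 0, .ofNat 0, .ofNat 15035940357557559118122519098363502040973312, .ofNat 0, .ofNat 0, .ofNat 0, .ofNat 976462458098828296249265392275133454851506176, .ofNat 0, .ofNat 0, .ofNat 0, .ofNat 0, .ofNat 0, .ofNat 0, .ofNat 0, .ofNat 1504347999008764837663683725192983431161577472,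 .ofNat 259191972021035812925276907014050943565624915515146240⟩)
    (by decide +kernel)
theorem L05257 : Good (Phi V5.P V5.D (-1) (-1)) ⟨6, 56, 4, 11, 3, 6, 3, 0, 5, 5⟩ :=
  out_sound (S := T5.ds_mm) T5.ok_mm (w := 65) (j := 3) (by decide +kernel)
theorem L05258 : Good (Phi V5.P V5.D (-1) (-1)) ⟨7, 114, 5, 22, 3, 6, 3, 0, 5, 5⟩ :=
  out_sound (S := T5.ds_mm) T5.ok_mm (w := 73) (j := 3) (by decide +kernel)
theorem L05259 : Good (Phi V5.P V5.D (-1) (-1)) ⟨7, 115, 5, 22, 3, 6, 3, 0, 5, 5⟩ :=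
  out_sound (S := T5.ds_mm) T5.ok_mm (w := 21) (j := 4) (by decide +kernel)
theorem L05260 : Good (Phi V5.P V5.D (-1) (-1)) ⟨6, 57, 5, 23, 3, 6, 3, 0, 5, 5⟩ :=
  out_sound (S := T5.ds_mm) T5.ok_mm (w := 67) (j := 3) (by decide +kernel)
theorem L05261 : Good (Phi V5.P V5.D (-1) (-1)) ⟨5, 29, 3, 5, 3, 6, 3, 0, 5, 5⟩ :=
  out_sound (S := T5.ds_mm) T5.ok_mm (w := 17) (j := 4) (by decide +kernel)
theorem L05262 : Good (Phi V5.P V5.D (-1) (-1)) ⟨4, 15, 3, 5, 3, 6, 3, 0, 4, 2⟩ :=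
  out_sound (S := T5.ds_mm) T5.ok_mm (w := 51) (j := 3) (by decide +kernel)
theorem L05263 : Good (Phi V5.P V5.D (-1) (-1)) ⟨2, 2, 3, 5, 3, 6, 3, 1, 4, 2⟩ :=
  out_sound (S := T5.ds_mm) T5.ok_mm (w := 39) (j := 3) (by decide +kernel)
theorem L05264 : Good (Phi V5.P V5.D (-1) (-1)) ⟨3, 6, 3, 5, 3, 6, 3, 1, 4, 2⟩ :=
  out_sound (S := T5.ds_mm) T5.ok_mm (w := 45) (j := 3) (by decide +kernel)
theorem L05265 : Good (Phi V5.P V5.D (-1) (-1)) ⟨5, 28, 3, 5, 3, 6, 3, 1, 5, 4⟩ :=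
  leafX_sound T5.ok_mm T5.Ymm.bz_eq (w := 243) (c := ⟨⟨.negSucc 5942, .negSucc 147, .ofNat 98, .ofNat 1670, .ofNat 510, .ofNat 726⟩, ⟨.ofNat 3816, .ofNat 107, .ofNat 315, .negSucc 1093, .negSucc 337, .negSucc 472⟩, ⟨.ofNat 3764, .ofNat 158, .negSucc 223, .negSucc 659, .negSucc 534, .negSucc 474⟩, ⟨.negSucc 8759, .negSucc 21, .ofNat 23, .ofNat 1891, .ofNat 383, .ofNat 930⟩, ⟨.negSucc 462, .negSucc 31, .negSucc 49, .negSucc 706, .negSucc 513, .negSucc 143⟩, .ofNat 3797, .ofNat 5390, .ofNat 0, .ofNat 5390, .ofNat 8435, .ofNat 0, .ofNat 128, .negSucc 1736, .negSucc 1133, .ofNat 0, .ofNat 1164, .ofNat 744, .ofNat 0, .ofNat 0, .ofNat 1314, .ofNat 4439, .ofNat 0, .ofNat 0, .ofNat 1515334028260778483644411344284567256170496, .ofNat 138656695258453885033769347656807031457570829107200, .ofNat 0, .ofNat 0, .ofNat 500180026236100912328357274364948789675950080, .ofNat 78245426885895081431950188557555624181979813741854720,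 .ofNat 0, .ofNat 0, .ofNat 475352143554359009015304090560531828614103040, .ofNat 294498158042418360855512984780192125796346963144212480, .ofNat 0, .ofNat 0, .ofNat 237427442241992880019587542669090946262499328, .ofNat 131352838672308209412940350122886777558946741269561344⟩)
    (by decide +kernel)
theorem L05266 : Good (Phi V5.P V5.D (-1) (-1)) ⟨5, 28, 3, 5, 3, 6, 3, 1, 5, 5⟩ :=
  leafX_sound T5.ok_mm T5.Ymm.bz_eq (w := 237) (c := ⟨⟨.negSucc 4816, .negSucc 277, .ofNat 214, .ofNat 1229, .ofNat 385, .ofNat 768⟩, ⟨.ofNat 3141, .negSucc 15, .ofNat 425, .negSucc 811, .negSucc 257, .negSucc 508⟩, ⟨.ofNat 3239, .negSucc 307, .ofNat 186, .negSucc 470, .negSucc 499, .negSucc 506⟩, ⟨.negSucc 7474, .negSucc 159, .ofNat 131, .ofNat 1545, .ofNat 333, .ofNat 1015⟩, ⟨.negSucc 919, .ofNat 186, .negSucc 244, .negSucc 337, .negSucc 325, .negSucc 149⟩, .ofNat 407, .ofNat 323, .ofNat 0, .ofNat 323,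 .ofNat 679, .ofNat 0, .ofNat 128, .negSucc 434, .negSucc 303, .ofNat 0, .ofNat 370, .ofNat 200, .ofNat 0, .ofNat 0, .ofNat 456, .ofNat 2162, .ofNat 0, .ofNat 0, .ofNat 549867046080161484754285504342627788521472, .ofNat 0, .ofNat 0, .ofNat 0, .ofNat 29922213398159004463477455197268801893695488, .ofNat 0, .ofNat 0, .ofNat 0, .ofNat 0, .ofNat 0, .ofNat 0, .ofNat 0, .ofNat 67339673439718928899450903450867388796370944, .ofNat 10412355793536948861088669726802120803167324933718016⟩)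
    (by decide +kernel)
theorem L05267 : Good (Phi V5.P V5.D (-1) (-1)) ⟨5, 29, 3, 5, 3, 6, 3, 1, 4, 2⟩ :=
  out_sound (S := T5.ds_mm) T5.ok_mm (w := 17) (j := 4) (by decide +kernel)
theorem L05268 : Good (Phi V5.P V5.D (-1) (-1)) ⟨4, 15, 3, 5, 3, 6, 3, 1, 4, 2⟩ :=
  out_sound (S := T5.ds_mm) T5.ok_mm (w := 51) (j := 3) (by decide +kernel)
theorem L05269 : Good (Phi V5.P V5.D (-1) (-1)) ⟨2, 2, 3, 5, 3, 7, 2, 0, 4, 2⟩ :=
  out_sound (S := T5.ds_mm) T5.ok_mm (w := 39) (j := 3) (by decide +kernel)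
theorem L05270 : Good (Phi V5.P V5.D (-1) (-1)) ⟨3, 6, 3, 5, 3, 7, 2, 0, 4, 2⟩ :=
  out_sound (S := T5.ds_mm) T5.ok_mm (w := 45) (j := 3) (by decide +kernel)
theorem L05271 : Good (Phi V5.P V5.D (-1) (-1)) ⟨6, 56, 4, 10, 4, 14, 2, 0, 5, 4⟩ :=
  leafX_sound T5.ok_mm T5.Ymm.bz_eq (w := 255) (c := ⟨⟨.negSucc 4882, .negSucc 223, .ofNat 241, .ofNat 558, .ofNat 1128, .ofNat 781⟩, ⟨.ofNat 3142, .ofNat 130, .ofNat 27, .negSucc 364, .negSucc 745, .negSucc 506⟩, ⟨.ofNat 4500, .negSucc 74, .ofNat 120, .negSucc 84, .negSucc 1906, .negSucc 613⟩, ⟨.negSucc 7495, .negSucc 207, .ofNat 201, .ofNat 596, .ofNat 1151, .ofNat 1138⟩, ⟨.negSucc 859, .ofNat 106, .negSucc 209, .negSucc 297, .negSucc 704, .ofNat 68⟩, .ofNat 896, .ofNat 1014, .ofNat 0, .ofNat 1014, .ofNat 1774, .ofNat 0, .ofNat 128, .negSucc 464, .negSucc 530, .ofNat 0, .ofNat 351, .ofNat 326, .ofNat 0, .ofNat 0, .ofNat 787, .ofNat 2971,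 .ofNat 0, .ofNat 0, .ofNat 348782444819453896215754157168857537652457472, .ofNat 0, .ofNat 0, .ofNat 0, .ofNat 26148979211070502847251063214101022966594666496, .ofNat 0, .ofNat 452957059563687284651371588118928340970308604088287232, .ofNat 0, .ofNat 95429582740589158273491139961140964657995972608, .ofNat 0, .ofNat 0, .ofNat 0, .ofNat 0, .ofNat 0⟩)
    (by decide +kernel)
theorem L05272 : Good (Phi V5.P V5.D (-1) (-1)) ⟨6, 56, 4, 10, 4, 15, 2, 0, 5, 4⟩ :=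
  leafX_sound T5.ok_mm T5.Ymm.bz_eq (w := 259) (c := ⟨⟨.negSucc 4525, .ofNat 238, .negSucc 277, .ofNat 287, .ofNat 1040, .ofNat 844⟩, ⟨.ofNat 2916, .negSucc 202, .ofNat 392, .negSucc 191, .negSucc 678, .negSucc 543⟩, ⟨.ofNat 4582, .negSucc 145, .ofNat 390, .ofNat 99, .negSucc 2065, .negSucc 698⟩, ⟨.negSucc 7635, .ofNat 6, .negSucc 322, .negSucc 286, .ofNat 2025, .ofNat 1463⟩, ⟨.negSucc 1954, .negSucc 390, .negSucc 36, .negSucc 1053, .ofNat 850, .ofNat 425⟩, .ofNat 5263, .ofNat 7641, .ofNat 0, .ofNat 7641, .ofNat 11902, .ofNat 0, .ofNat 128, .negSucc 1021, .negSucc 951, .ofNat 0, .ofNat 693, .ofNat 603, .ofNat 0, .ofNat 0, .ofNat 1563, .ofNat 4886, .ofNat 0, .ofNat 0, .ofNat 1211330490498323860205356138475740496993976320, .ofNat 0, .ofNat 0, .ofNat 0, .ofNat 818207391409685025807337559206293811341031374848, .ofNat 0, .ofNat 0, .ofNat 0, .ofNat 172468311226804460742609689107444028517027676160,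 .ofNat 0, .ofNat 0, .ofNat 0, .ofNat 705525414463401304423351547130455469123633676288, .ofNat 0⟩)
    (by decide +kernel)
theorem L05273 : Good (Phi V5.P V5.D (-1) (-1)) ⟨6, 56, 4, 10, 3, 7, 3, 0, 5, 5⟩ :=
  leafX_sound T5.ok_mm T5.Ymm.bz_eq (w := 250) (c := ⟨⟨.negSucc 3852, .negSucc 187, .ofNat 263, .ofNat 772, .ofNat 392, .ofNat 637⟩, ⟨.ofNat 2477, .ofNat 90, .ofNat 11, .negSucc 506, .negSucc 252, .negSucc 411⟩, ⟨.ofNat 3466, .ofNat 602, .negSucc 583, .ofNat 90, .negSucc 1056, .negSucc 584⟩, ⟨.negSucc 6189, .negSucc 192, .ofNat 59, .ofNat 518, .ofNat 706, .ofNat 877⟩, ⟨.negSucc 1035, .negSucc 116, .negSucc 249, .negSucc 878, .ofNat 234, .negSucc 27⟩, .ofNat 7369, .ofNat 10855, .ofNat 0, .ofNat 10855, .ofNat 16807, .ofNat 0, .ofNat 128, .negSucc 1039, .negSucc 503, .ofNat 0, .ofNat 708, .ofNat 322, .ofNat 0, .ofNat 0, .ofNat 1281, .ofNat 10698, .ofNat 0, .ofNat 0, .ofNat 0, .ofNat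 0, .ofNat 0, .ofNat 0, .ofNat 1718954481058922252866095093490013304422137856, .ofNat 0, .ofNat 0, .ofNat 0, .ofNat 291666681431381391829023280931790105260064768, .ofNat 0, .ofNat 0, .ofNat 0, .ofNat 626312933062075687362445157478945106193022976, .ofNat 0⟩)
    (by decide +kernel)
theorem L05274 : Good (Phi V5.P V5.D (-1) (-1)) ⟨6, 56, 4, 10, 3, 7, 3, 1, 5, 5⟩ :=
  leafX_sound T5.ok_mm T5.Ymm.bz_eq (w := 251) (c := ⟨⟨.negSucc 3441, .negSucc 100, .ofNat 148, .ofNat 772, .ofNat 395, .ofNat 560⟩, ⟨.ofNat 2206, .ofNat 50, .ofNat 45, .negSucc 500, .negSucc 257, .negSucc 362⟩, ⟨.ofNat 2688, .negSucc 19, .ofNat 96, .negSucc 25, .negSucc 682, .negSucc 488⟩, ⟨.negSucc 5747, .negSucc 55, .ofNat 69, .ofNat 974, .ofNat 489, .ofNat 880⟩, ⟨.negSucc 1290, .negSucc 2, .negSucc 83, .negSucc 174, .negSucc 103, .ofNat 135⟩, .ofNat 5211, .ofNat 7569, .ofNat 0, .ofNat 7569, .ofNat 11802, .ofNat 0, .ofNat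 128, .negSucc 1715, .negSucc 990, .ofNat 0, .ofNat 1166, .ofNat 631, .ofNat 0, .ofNat 0, .ofNat 2193, .ofNat 15102, .ofNat 0, .ofNat 0, .ofNat 0, .ofNat 0, .ofNat 0, .ofNat 0, .ofNat 1322578840965022170237944571010013119668813824, .ofNat 0, .ofNat 0, .ofNat 0, .ofNat 0, .ofNat 0, .ofNat 0, .ofNat 0, .ofNat 0, .ofNat 0⟩)
    (by decide +kernel)
theorem L05275 : Good (Phi V5.P V5.D (-1) (-1)) ⟨7, 114, 5, 20, 3, 7, 2, 0, 5, 4⟩ :=
  leafX_sound T5.ok_mm T5.Ymm.bz_eq (w := 260) (c := ⟨⟨.negSucc 4816, .ofNat 2, .negSucc 5, .ofNat 756, .ofNat 1074, .ofNat 799⟩, ⟨.ofNat 3154, .negSucc 0, .ofNat 30, .negSucc 502, .negSucc 710, .negSucc 525⟩, ⟨.ofNat 4429, .negSucc 1, .negSucc 55, .ofNat 145, .negSucc 1889, .negSucc 686⟩, ⟨.negSucc 7281, .ofNat 3, .negSucc 3, .ofNat 706, .ofNat 1104, .ofNat 842⟩, ⟨.negSucc 774, .ofNat 1, .ofNat 0, .negSucc 536, .negSucc 603, .negSucc 415⟩, .ofNat 21700,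 .ofNat 32309, .ofNat 0, .ofNat 32309, .ofNat 48914, .ofNat 0, .ofNat 128, .negSucc 3430, .negSucc 3734, .ofNat 0, .ofNat 2299, .ofNat 2462, .ofNat 0, .ofNat 0, .ofNat 5912, .ofNat 23249, .ofNat 0, .ofNat 0, .ofNat 488300077284321648994261521817277076340736, .ofNat 0, .ofNat 0, .ofNat 0, .ofNat 38812138791487915266637115184530260035008200704, .ofNat 0, .ofNat 0, .ofNat 0, .ofNat 229183856028605780898593478278065811533856768, .ofNat 0, .ofNat 0, .ofNat 0, .ofNat 75413770794937120586175655980546170420199424, .ofNat 0⟩)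
    (by decide +kernel)
theorem L05276 : Good (Phi V5.P V5.D (-1) (-1)) ⟨7, 114, 6, 42, 3, 7, 3, 0, 5, 4⟩ :=
  leafX_sound T5.ok_mm T5.Ymm.bz_eq (w := 261) (c := ⟨⟨.negSucc 4994, .negSucc 288, .ofNat 145, .ofNat 737, .ofNat 539, .ofNat 964⟩, ⟨.ofNat 3312, .ofNat 233, .negSucc 71, .negSucc 493, .negSucc 364, .negSucc 644⟩, ⟨.ofNat 4598, .negSucc 667, .ofNat 419, .ofNat 486, .negSucc 1337, .negSucc 761⟩, ⟨.negSucc 8164, .negSucc 82, .negSucc 51, .negSucc 738, .ofNat 1582, .ofNat 1569⟩, ⟨.negSucc 1733, .negSucc 7, .negSucc 125, .negSucc 2654, .ofNat 1231, .ofNat 328⟩, .ofNat 7227, .ofNat 10458, .ofNat 0, .ofNat 10458, .ofNat 15914, .ofNat 0, .ofNat 128, .negSucc 1378, .negSucc 1310, .ofNat 0, .ofNat 943, .ofNat 861, .ofNat 0, .ofNat 0, .ofNat 2298, .ofNat 12715, .ofNat 0, .ofNat 0, .ofNat 14970031536441074238633546302619283330433024, .ofNat 0, .ofNat 0, .ofNat 0, .ofNat 2288146154650030080163362355075029868426035200,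 .ofNat 0, .ofNat 0, .ofNat 0, .ofNat 5974883689552474613565642036992845109079834624, .ofNat 1039313686685389225203567383165565251509584935003197800448, .ofNat 0, .ofNat 0, .ofNat 3656183161875276806217165547750550954942922752, .ofNat 0⟩)
    (by decide +kernel)
theorem L05277 : Good (Phi V5.P V5.D (-1) (-1)) ⟨7, 114, 6, 42, 3, 7, 3, 1, 5, 4⟩ :=
  leafX_sound T5.ok_mm T5.Ymm.bz_eq (w := 266) (c := ⟨⟨.negSucc 4285, .negSucc 61, .ofNat 59, .ofNat 687, .ofNat 519, .ofNat 769⟩, ⟨.ofNat 2832, .ofNat 31, .ofNat 6, .negSucc 458, .negSucc 346, .negSucc 508⟩, ⟨.ofNat 3358, .ofNat 136, .negSucc 93, .ofNat 186, .negSucc 814, .negSucc 626⟩, ⟨.negSucc 6914, .ofNat 38, .ofNat 73, .ofNat 470, .ofNat 642, .ofNat 882⟩, ⟨.negSucc 1361, .ofNat 35, .ofNat 59, .negSucc 735, .negSucc 124, .negSucc 283⟩, .ofNat 17424, .ofNat 25594, .ofNat 0, .ofNat 25594, .ofNat 38383, .ofNat 0, .ofNat 128, .negSucc 2594,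 .negSucc 2467, .ofNat 0, .ofNat 1756, .ofNat 1642, .ofNat 0, .ofNat 0, .ofNat 3416, .ofNat 21424, .ofNat 0, .ofNat 0, .ofNat 0, .ofNat 0, .ofNat 0, .ofNat 0, .ofNat 23217621245173030359818126794231953711580577792, .ofNat 0, .ofNat 0, .ofNat 0, .ofNat 0, .ofNat 0, .ofNat 0, .ofNat 0, .ofNat 1069774112282427397085588226433850606218117120, .ofNat 0⟩)
    (by decide +kernel)
theorem L05278 : Good (Phi V5.P V5.D (-1) (-1)) ⟨8, 228, 6, 43, 3, 7, 2, 0, 5, 4⟩ :=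
  out_sound (S := T5.ds_mm) T5.ok_mm (w := 81) (j := 3) (by decide +kernel)
theorem L05279 : Good (Phi V5.P V5.D (-1) (-1)) ⟨8, 229, 6, 43, 3, 7, 2, 0, 5, 4⟩ :=
  out_sound (S := T5.ds_mm) T5.ok_mm (w := 23) (j := 4) (by decide +kernel)
theorem L05280 : Good (Phi V5.P V5.D (-1) (-1)) ⟨7, 114, 4, 10, 3, 7, 3, 0, 5, 5⟩ :=
  leafX_sound T5.ok_mm T5.Ymm.bz_eq (w := 250) (c := ⟨⟨.negSucc 3998, .negSucc 4, .ofNat 93, .ofNat 757, .ofNat 409, .ofNat 683⟩, ⟨.ofNat 2563, .negSucc 7, .ofNat 109, .negSucc 502, .negSucc 278, .negSucc 457⟩, ⟨.ofNat 3790, .ofNat 4, .ofNat 23, .ofNat 259, .negSucc 1132, .negSucc 628⟩, ⟨.negSucc 6787, .negSucc 8, .negSucc 8, .ofNat 272, .ofNat 1131, .ofNat 1250⟩, ⟨.negSucc 1829, .negSucc 81, .negSucc 64, .negSucc 1182, .ofNat 826, .ofNat 435⟩, .ofNat 2693, .ofNat 3674, .ofNat 0, .ofNat 3674, .ofNat 5746, .ofNat 0, .ofNat 128, .negSucc 599, .negSucc 533, .ofNat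 0, .ofNat 434, .ofNat 335, .ofNat 0, .ofNat 0, .ofNat 1383, .ofNat 12023, .ofNat 0, .ofNat 0, .ofNat 0, .ofNat 0, .ofNat 0, .ofNat 0, .ofNat 44384292883448885450732313792761759512133632, .ofNat 0, .ofNat 0, .ofNat 0, .ofNat 17487880026270248571350237203596075513937920, .ofNat 0, .ofNat 0, .ofNat 0, .ofNat 307629526798418591784981120564857787658534912, .ofNat 40050432047798159845127991849151256427315059825890557952⟩)
    (by decide +kernel)
theorem L05281 : Good (Phi V5.P V5.D (-1) (-1)) ⟨7, 114, 4, 10, 3, 7, 3, 1, 5, 5⟩ :=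
  leafX_sound T5.ok_mm T5.Ymm.bz_eq (w := 254) (c := ⟨⟨.negSucc 3386, .ofNat 109, .negSucc 201, .ofNat 766, .ofNat 414, .ofNat 571⟩, ⟨.ofNat 2148, .negSucc 95, .ofNat 313, .negSucc 507, .negSucc 276, .negSucc 379⟩, ⟨.ofNat 2710, .ofNat 134, .negSucc 54, .ofNat 92, .negSucc 727, .negSucc 529⟩, ⟨.negSucc 5792, .negSucc 153, .negSucc 90, .ofNat 874, .ofNat 629, .ofNat 975⟩, ⟨.negSucc 1361, .negSucc 280, .negSucc 107, .negSucc 296, .ofNat 71, .ofNat 263⟩, .ofNat 4681, .ofNat 6608, .ofNat 0, .ofNat 6608, .ofNat 10090, .ofNat 0, .ofNat 128, .negSucc 1520, .negSucc 1210, .ofNat 0, .ofNat 1063, .ofNat 788, .ofNat 0, .ofNat 0, .ofNat 2620, .ofNat 16030, .ofNat 0, .ofNat 0, .ofNat 0, .ofNat 0, .ofNat 0, .ofNat 0, .ofNat 291574379638152584002584269963967505375428608, .ofNat 0, .ofNat 0, .ofNat 0, .ofNat 511617314447411402209211477616445433711689728, .ofNat 126920592346609483583983702438993337823431365155732062208,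 .ofNat 0, .ofNat 0, .ofNat 0, .ofNat 0⟩)
    (by decide +kernel)
theorem L05282 : Good (Phi V5.P V5.D (-1) (-1)) ⟨7, 115, 4, 10, 3, 7, 2, 0, 4, 2⟩ :=
  out_sound (S := T5.ds_mm) T5.ok_mm (w := 21) (j := 4) (by decide +kernel)
theorem L05283 : Good (Phi V5.P V5.D (-1) (-1)) ⟨6, 56, 4, 11, 3, 7, 2, 0, 4, 2⟩ :=
  out_sound (S := T5.ds_mm) T5.ok_mm (w := 65) (j := 3) (by decide +kernel)
theorem L05284 : Good (Phi V5.P V5.D (-1) (-1)) ⟨7, 114, 5, 22, 3, 7, 2, 0, 4, 2⟩ :=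
  out_sound (S := T5.ds_mm) T5.ok_mm (w := 73) (j := 3) (by decide +kernel)
theorem L05285 : Good (Phi V5.P V5.D (-1) (-1)) ⟨7, 115, 5, 22, 3, 7, 2, 0, 4, 2⟩ :=
  out_sound (S := T5.ds_mm) T5.ok_mm (w := 21) (j := 4) (by decide +kernel)
theorem L05286 : Good (Phi V5.P V5.D (-1) (-1)) ⟨6, 57, 5, 23, 3, 7, 2, 0, 4, 2⟩ :=
  out_sound (S := T5.ds_mm) T5.ok_mm (w := 67) (j := 3) (by decide +kernel)
theorem L05287 : Good (Phi V5.P V5.D (-1) (-1)) ⟨5, 29, 3, 5, 3, 7, 2, 0, 4, 2⟩ :=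
  out_sound (S := T5.ds_mm) T5.ok_mm (w := 17) (j := 4) (by decide +kernel)
theorem L05288 : Good (Phi V5.P V5.D (-1) (-1)) ⟨4, 15, 3, 5, 3, 7, 2, 0, 4, 2⟩ :=
  out_sound (S := T5.ds_mm) T5.ok_mm (w := 51) (j := 3) (by decide +kernel)
theorem L05289 : Good (Phi V5.P V5.D (-1) (-1)) ⟨2, 2, 3, 5, 2, 3, 2, 0, 4, 3⟩ :=
  out_sound (S := T5.ds_mm) T5.ok_mm (w := 39) (j := 3) (by decide +kernel)
theorem L05290 : Good (Phi V5.P V5.D (-1) (-1)) ⟨3, 6, 3, 5, 2, 3, 2, 0, 4, 3⟩ :=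
  out_sound (S := T5.ds_mm) T5.ok_mm (w := 45) (j := 3) (by decide +kernel)
theorem L05291 : Good (Phi V5.P V5.D (-1) (-1)) ⟨5, 28, 4, 10, 4, 12, 3, 0, 4, 3⟩ :=
  leafX_sound T5.ok_mm T5.Ymm.bz_eq (w := 251) (c := ⟨⟨.negSucc 4047, .negSucc 292, .ofNat 115, .ofNat 389, .ofNat 251, .ofNat 1088⟩, ⟨.ofNat 2604, .ofNat 147, .ofNat 98, .negSucc 255, .negSucc 164, .negSucc 713⟩, ⟨.ofNat 3055, .ofNat 50, .negSucc 83, .negSucc 158, .negSucc 535, .negSucc 723⟩, ⟨.negSucc 6442, .negSucc 175, .ofNat 53, .ofNat 479, .ofNat 252, .ofNat 1422⟩, ⟨.negSucc 1037, .ofNat 108, .negSucc 84, .negSucc 109, .negSucc 150, .negSucc 181⟩, .ofNat 904, .ofNat 1024, .ofNat 0, .ofNat 1024, .ofNat 1784, .ofNat 0, .ofNat 128, .negSucc 671, .negSucc 165, .ofNat 0, .ofNat 515, .ofNat 113, .ofNat 0, .ofNat 0, .ofNat 508, .ofNat 21526, .ofNat 43994393102959584731964379681826995373512175921397760, .ofNat 0, .ofNat 674181105787502571997060103636567627694866432,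 .ofNat 0, .ofNat 325343698148159998571168522066194714807932825794248704, .ofNat 0, .ofNat 155421245037921961711146285743683422866592759808, .ofNat 0, .ofNat 0, .ofNat 0, .ofNat 0, .ofNat 0, .ofNat 449398197725975523324519649017012098238525870203469824, .ofNat 0, .ofNat 149189420449816998901798140339908280879067168768, .ofNat 0⟩)
    (by decide +kernel)
theorem L05292 : Good (Phi V5.P V5.D (-1) (-1)) ⟨5, 28, 4, 10, 4, 12, 3, 1, 4, 3⟩ :=
  leafX_sound T5.ok_mm T5.Ymm.bz_eq (w := 252) (c := ⟨⟨.negSucc 3730, .negSucc 410, .ofNat 193, .ofNat 391, .ofNat 227, .ofNat 982⟩, ⟨.ofNat 2382, .ofNat 295, .negSucc 1, .negSucc 257, .negSucc 147, .negSucc 642⟩, ⟨.ofNat 2549, .negSucc 1, .negSucc 47, .negSucc 233, .negSucc 414, .negSucc 715⟩, ⟨.negSucc 6132, .negSucc 198, .ofNat 46, .ofNat 487, .ofNat 254, .ofNat 1338⟩, ⟨.negSucc 1190, .ofNat 69, .negSucc 107, .negSucc 98, .negSucc 108, .negSucc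 73⟩, .ofNat 2454, .ofNat 3351, .ofNat 0, .ofNat 3351, .ofNat 5328, .ofNat 0, .ofNat 128, .negSucc 1116, .negSucc 358, .ofNat 0, .ofNat 773, .ofNat 237, .ofNat 0, .ofNat 0, .ofNat 1038, .ofNat 18626, .ofNat 0, .ofNat 0, .ofNat 0, .ofNat 0, .ofNat 0, .ofNat 0, .ofNat 797305399543720248352683675267404110848115867648, .ofNat 0, .ofNat 0, .ofNat 0, .ofNat 1565264538997807622738177807564550498619024736256, .ofNat 0, .ofNat 0, .ofNat 0, .ofNat 575396992626428396563972188645894953705312092160, .ofNat 0⟩)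
    (by decide +kernel)
theorem L05293 : Good (Phi V5.P V5.D (-1) (-1)) ⟨6, 56, 4, 11, 4, 12, 2, 0, 4, 3⟩ :=
  out_sound (S := T5.ds_mm) T5.ok_mm (w := 65) (j := 3) (by decide +kernel)
theorem L05294 : Good (Phi V5.P V5.D (-1) (-1)) ⟨7, 114, 5, 22, 4, 12, 2, 0, 4, 3⟩ :=
  out_sound (S := T5.ds_mm) T5.ok_mm (w := 73) (j := 3) (by decide +kernel)
theorem L05295 : Good (Phi V5.P V5.D (-1) (-1)) ⟨7, 115, 5, 22, 4, 12, 2, 0, 4, 3⟩ :=
  out_sound (S := T5.ds_mm) T5.ok_mm (w := 21) (j := 4) (by decide +kernel)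
theorem L05296 : Good (Phi V5.P V5.D (-1) (-1)) ⟨6, 57, 5, 23, 4, 12, 2, 0, 4, 3⟩ :=
  out_sound (S := T5.ds_mm) T5.ok_mm (w := 67) (j := 3) (by decide +kernel)
theorem L05297 : Good (Phi V5.P V5.D (-1) (-1)) ⟨5, 28, 3, 5, 4, 13, 2, 0, 4, 3⟩ :=
  leafX_sound T5.ok_mm T5.Ymm.bz_eq (w := 241) (c := ⟨⟨.negSucc 3466, .negSucc 97, .ofNat 41, .ofNat 394, .ofNat 410, .ofNat 793⟩, ⟨.ofNat 2208, .ofNat 160, .ofNat 117, .negSucc 261, .negSucc 271, .negSucc 525⟩, ⟨.ofNat 2858, .negSucc 197, .ofNat 160, .negSucc 130, .negSucc 1020, .negSucc 657⟩, ⟨.negSucc 5847, .negSucc 30, .negSucc 9, .ofNat 578, .ofNat 531, .ofNat 1170⟩, ⟨.negSucc 1390, .negSucc 18, .ofNat 57, .ofNat 22, .negSucc 88, .ofNat 68⟩, .ofNat 391, .ofNat 298, .ofNat 0, .ofNat 298, .ofNat 646, .ofNat 0, .ofNat 128, .negSucc 310, .negSucc 91, .ofNat 0, .ofNat 322, .ofNat 57, .ofNat 0, .ofNat 0, .ofNat 344, .ofNat 2342, .ofNat 0,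 .ofNat 0, .ofNat 19179538424448978854959115022405888462815232, .ofNat 1804441404731065167627633514203891616670206937530368, .ofNat 0, .ofNat 0, .ofNat 0, .ofNat 0, .ofNat 0, .ofNat 0, .ofNat 0, .ofNat 0, .ofNat 884521299546075389346609224994179309408938335666176, .ofNat 0, .ofNat 784229858654359279068361677853614871804903424, .ofNat 56413826491219813348787399416985216359583145487499264⟩)
    (by decide +kernel)
theorem L05298 : Good (Phi V5.P V5.D (-1) (-1)) ⟨5, 29, 3, 5, 3, 6, 2, 0, 4, 3⟩ :=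
  out_sound (S := T5.ds_mm) T5.ok_mm (w := 17) (j := 4) (by decide +kernel)
theorem L05299 : Good (Phi V5.P V5.D (-1) (-1)) ⟨4, 15, 3, 5, 3, 6, 2, 0, 4, 3⟩ :=
  out_sound (S := T5.ds_mm) T5.ok_mm (w := 51) (j := 3) (by decide +kernel)
theorem L05300 : Good (Phi V5.P V5.D (-1) (-1)) ⟨5, 28, 3, 5, 3, 7, 2, 0, 4, 3⟩ :=
  leafX_sound T5.ok_mm T5.Ymm.bz_eq (w := 229) (c := ⟨⟨.negSucc 3111, .ofNat 268, .negSucc 229, .ofNat 653, .ofNat 476, .ofNat 624⟩, ⟨.ofNat 2005, .negSucc 240, .ofNat 446, .negSucc 421, .negSucc 313, .negSucc 406⟩, ⟨.ofNat 3035, .negSucc 698, .ofNat 860, .ofNat 35, .negSucc 1364, .negSucc 715⟩, ⟨.negSucc 5293, .ofNat 73, .negSucc 214, .ofNat 1094, .ofNat 773, .ofNat 1037⟩, ⟨.negSucc 1403, .negSucc 280, .negSucc 75, .ofNat 266, .ofNat 143, .ofNat 237⟩, .ofNat 1483, .ofNat 1886, .ofNat 0, .ofNat 1886, .ofNat 3099, .ofNat 0, .ofNat 128, .negSucc 478, .negSucc 216, .ofNat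 0, .ofNat 374, .ofNat 118, .ofNat 0, .ofNat 0, .ofNat 1137, .ofNat 3363, .ofNat 0, .ofNat 0, .ofNat 4911569687684418352458912751863652679680, .ofNat 312937963394882031488463350541596460863241322496, .ofNat 0, .ofNat 0, .ofNat 65321562849220755162632916514102596075520, .ofNat 15774561496279225108929678929704347660609512275968, .ofNat 0, .ofNat 0, .ofNat 284341667460256678230019928529165107593216, .ofNat 86148135156550488418737357622189645068029820665856, .ofNat 0, .ofNat 0, .ofNat 698706984804345840708897000662150143803392, .ofNat 397898727798404855535646800031267029766185571844096⟩)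
    (by decide +kernel)
theorem L05301 : Good (Phi V5.P V5.D (-1) (-1)) ⟨5, 29, 3, 5, 3, 7, 2, 0, 4, 3⟩ :=
  out_sound (S := T5.ds_mm) T5.ok_mm (w := 17) (j := 4) (by decide +kernel)
theorem L05302 : Good (Phi V5.P V5.D (-1) (-1)) ⟨4, 15, 3, 5, 3, 7, 2, 0, 4, 3⟩ :=
  out_sound (S := T5.ds_mm) T5.ok_mm (w := 51) (j := 3) (by decide +kernel)
theorem L05303 : Good (Phi V5.P V5.D (-1) (-1)) ⟨2, 2, 2, 3, 2, 3, 2, 0, 2, 0⟩ :=
  out_sound (S := T5.ds_mm) T5.ok_mm (w := 37) (j := 3) (by decide +kernel)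
theorem L05304 : Good (Phi V5.P V5.D (-1) (-1)) ⟨3, 6, 2, 3, 2, 3, 2, 0, 2, 0⟩ :=
  out_sound (S := T5.ds_mm) T5.ok_mm (w := 43) (j := 3) (by decide +kernel)
theorem L05305 : Good (Phi V5.P V5.D (-1) (-1)) ⟨5, 28, 3, 6, 2, 3, 2, 0, 2, 0⟩ :=
  out_sound (S := T5.ds_mm) T5.ok_mm (w := 57) (j := 3) (by decide +kernel)
theorem L05306 : Good (Phi V5.P V5.D (-1) (-1)) ⟨5, 29, 3, 6, 2, 3, 2, 0, 2, 0⟩ :=
  out_sound (S := T5.ds_mm) T5.ok_mm (w := 17) (j := 4) (by decide +kernel)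
theorem L05307 : Good (Phi V5.P V5.D (-1) (-1)) ⟨4, 14, 3, 7, 2, 3, 2, 0, 2, 0⟩ :=
  out_sound (S := T5.ds_mm) T5.ok_mm (w := 51) (j := 3) (by decide +kernel)
theorem L05308 : Good (Phi V5.P V5.D (-1) (-1)) ⟨4, 15, 2, 3, 2, 3, 2, 0, 2, 0⟩ :=
  out_sound (S := T5.ds_mm) T5.ok_mm (w := 15) (j := 4) (by decide +kernel)
theorem L05309 : Good (Phi V5.P V5.D (-1) (-1)) ⟨2, 2, 3, 4, 2, 3, 2, 1, 3, 0⟩ :=
  out_sound (S := T5.ds_mm) T5.ok_mm (w := 39) (j := 3) (by decide +kernel)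
theorem L05310 : Good (Phi V5.P V5.D (-1) (-1)) ⟨4, 12, 4, 8, 3, 6, 2, 1, 4, 0⟩ :=
  out_sound (S := T5.ds_mm) T5.ok_mm (w := 53) (j := 3) (by decide +kernel)
theorem L05311 : Good (Phi V5.P V5.D (-1) (-1)) ⟨4, 13, 4, 8, 3, 6, 2, 1, 4, 0⟩ :=
  leafX_sound T5.ok_mm T5.Ymm.bz_eq (w := 228) (c := ⟨⟨.ofNat 3945, .ofNat 310, .ofNat 31, .negSucc 1126, .negSucc 602, .negSucc 927⟩, ⟨.negSucc 2157, .negSucc 297, .negSucc 91, .ofNat 701, .ofNat 360, .ofNat 475⟩, ⟨.negSucc 1682, .negSucc 469, .ofNat 155, .ofNat 1406, .negSucc 172, .ofNat 149⟩, ⟨.ofNat 6098, .negSucc 51, .ofNat 256, .negSucc 591, .negSucc 683, .negSucc 2750⟩, ⟨.ofNat 162, .negSucc 381, .ofNat 345, .ofNat 1817, .ofNat 378, .negSucc 2324⟩, .ofNat 1063, .ofNat 1346, .ofNat 0, .ofNat 1346, .ofNat 2535, .ofNat 0, .ofNat 128, .negSucc 516, .negSucc 1183, .ofNat 0, .ofNat 308, .ofNat 652, .ofNat 0, .ofNat 0, .ofNat 1076, .ofNat 500,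 .ofNat 0, .ofNat 0, .ofNat 6259769997351376452637364442541877886976, .ofNat 0, .ofNat 0, .ofNat 0, .ofNat 398210799331589023676205572984032504840192, .ofNat 0, .ofNat 0, .ofNat 0, .ofNat 416502477896845496991081850155428036476928, .ofNat 0, .ofNat 0, .ofNat 0, .ofNat 0, .ofNat 0⟩)
    (by decide +kernel)
theorem L05312 : Good (Phi V5.P V5.D (-1) (-1)) ⟨4, 12, 4, 8, 3, 6, 2, 1, 4, 1⟩ :=
  out_sound (S := T5.ds_mm) T5.ok_mm (w := 53) (j := 3) (by decide +kernel)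
theorem L05313 : Good (Phi V5.P V5.D (-1) (-1)) ⟨4, 13, 4, 8, 3, 6, 2, 1, 5, 2⟩ :=
  leafX_sound T5.ok_mm T5.Ymm.bz_eq (w := 232) (c := ⟨⟨.ofNat 1993, .negSucc 254, .ofNat 347, .negSucc 561, .negSucc 138, .negSucc 3302⟩, ⟨.negSucc 1115, .negSucc 30, .negSucc 117, .ofNat 346, .ofNat 91, .ofNat 1859⟩, ⟨.negSucc 982, .ofNat 107, .negSucc 156, .ofNat 719, .negSucc 196, .ofNat 1876⟩, ⟨.ofNat 1965, .negSucc 304, .ofNat 490, .negSucc 454, .ofNat 149, .negSucc 5512⟩, ⟨.negSucc 1775, .ofNat 276, .negSucc 5, .ofNat 584, .ofNat 666, .negSucc 1138⟩, .ofNat 1053, .ofNat 1331, .ofNat 0, .ofNat 1331, .ofNat 2514, .ofNat 0, .ofNat 128, .negSucc 316, .negSucc 1212, .ofNat 0, .ofNat 190, .ofNat 673, .ofNat 0, .ofNat 0, .ofNat 942, .ofNat 701, .ofNat 0, .ofNat 0, .ofNat 0, .ofNat 0, .ofNat 0, .ofNat 0, .ofNat 12829274415190570128933229272199532428394496, .ofNat 0, .ofNat 0, .ofNat 0, .ofNat 10974819112941635019651054778847419089027072,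 .ofNat 0, .ofNat 0, .ofNat 0, .ofNat 27989594413811100457388715705249282075394048, .ofNat 0⟩)
    (by decide +kernel)
theorem L05314 : Good (Phi V5.P V5.D (-1) (-1)) ⟨5, 26, 4, 8, 3, 6, 2, 1, 5, 3⟩ :=
  leafX_sound T5.ok_mm T5.Ymm.bz_eq (w := 240) (c := ⟨⟨.negSucc 3616, .ofNat 384, .ofNat 210, .ofNat 1052, .ofNat 898, .negSucc 1375⟩, ⟨.ofNat 1986, .negSucc 248, .ofNat 58, .negSucc 586, .negSucc 500, .ofNat 758⟩, ⟨.ofNat 2586, .negSucc 431, .negSucc 95, .negSucc 513, .negSucc 786, .ofNat 763⟩, ⟨.negSucc 5911, .ofNat 399, .ofNat 173, .ofNat 1468, .ofNat 1151, .negSucc 2199⟩, ⟨.negSucc 722, .negSucc 564, .negSucc 153, .negSucc 177, .negSucc 320, .negSucc 262⟩, .ofNat 2809, .ofNat 4562, .ofNat 0, .ofNat 4562, .ofNat 8537, .ofNat 0, .ofNat 128, .negSucc 449, .negSucc 1477, .ofNat 0, .ofNat 251, .ofNat 808, .ofNat 0, .ofNat 0, .ofNat 1309, .ofNat 1245, .ofNat 0, .ofNat 0, .ofNat 102107967944846922864793856127378487508992,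 .ofNat 0, .ofNat 0, .ofNat 0, .ofNat 0, .ofNat 0, .ofNat 0, .ofNat 0, .ofNat 5507499678365703206929593682010752449249280, .ofNat 0, .ofNat 0, .ofNat 0, .ofNat 0, .ofNat 0⟩)
    (by decide +kernel)
theorem L05315 : Good (Phi V5.P V5.D (-1) (-1)) ⟨5, 27, 4, 8, 3, 6, 2, 1, 5, 3⟩ :=
  leafX_sound T5.ok_mm T5.Ymm.bz_eq (w := 236) (c := ⟨⟨.negSucc 3523, .negSucc 776, .ofNat 388, .ofNat 1221, .ofNat 843, .negSucc 1271⟩, ⟨.ofNat 1918, .ofNat 408, .negSucc 49, .negSucc 719, .negSucc 494, .ofNat 746⟩, ⟨.ofNat 2373, .ofNat 513, .negSucc 256, .negSucc 608, .negSucc 755, .ofNat 661⟩, ⟨.negSucc 6029, .negSucc 1103, .ofNat 572, .ofNat 1714, .ofNat 1118, .negSucc 1925⟩, ⟨.negSucc 1532, .negSucc 80, .ofNat 50, .negSucc 126, .negSucc 160, .negSucc 39⟩, .ofNat 738, .ofNat 811, .ofNat 0, .ofNat 811, .ofNat 1602, .ofNat 0, .ofNat 128, .negSucc 295, .negSucc 949, .ofNat 0, .ofNat 185, .ofNat 525, .ofNat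 0, .ofNat 0, .ofNat 755, .ofNat 700, .ofNat 0, .ofNat 0, .ofNat 53979938329488893068906605852061104865280, .ofNat 0, .ofNat 0, .ofNat 0, .ofNat 0, .ofNat 0, .ofNat 0, .ofNat 0, .ofNat 0, .ofNat 0, .ofNat 0, .ofNat 0, .ofNat 3861516001605580107761673649112971636375552, .ofNat 0⟩)
    (by decide +kernel)
theorem L05316 : Good (Phi V5.P V5.D (-1) (-1)) ⟨3, 7, 4, 8, 3, 6, 2, 1, 3, 0⟩ :=
  out_sound (S := T5.ds_mm) T5.ok_mm (w := 47) (j := 3) (by decide +kernel)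
theorem L05317 : Good (Phi V5.P V5.D (-1) (-1)) ⟨4, 12, 4, 8, 3, 7, 3, 2, 3, 0⟩ :=
  out_sound (S := T5.ds_mm) T5.ok_mm (w := 53) (j := 3) (by decide +kernel)
theorem L05318 : Good (Phi V5.P V5.D (-1) (-1)) ⟨4, 13, 4, 8, 3, 7, 3, 2, 4, 0⟩ :=
  leafX_sound T5.ok_mm T5.Ymm.bz_eq (w := 233) (c := ⟨⟨.ofNat 2280, .ofNat 1358, .negSucc 80, .negSucc 802, .negSucc 23, .negSucc 1805⟩, ⟨.negSucc 1300, .negSucc 605, .negSucc 86, .ofNat 466, .ofNat 40, .ofNat 970⟩, ⟨.negSucc 203, .negSucc 413, .ofNat 118, .ofNat 1054, .negSucc 274, .ofNat 398⟩, ⟨.ofNat 4632, .ofNat 2194, .ofNat 26, .negSucc 544, .negSucc 149, .negSucc 4417⟩, ⟨.ofNat 2071, .ofNat 647, .ofNat 153, .ofNat 1121, .negSucc 211, .negSucc 3057⟩, .ofNat 2286, .ofNat 3384, .ofNat 0, .ofNat 3384, .ofNat 5978, .ofNat 0, .ofNat 128, .negSucc 687, .negSucc 652, .ofNat 0, .ofNat 402, .ofNat 362, .ofNat 0, .ofNat 0, .ofNat 581, .ofNat 599,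 .ofNat 0, .ofNat 0, .ofNat 0, .ofNat 0, .ofNat 0, .ofNat 0, .ofNat 16451513185224993966684870549929634983575552, .ofNat 0, .ofNat 0, .ofNat 0, .ofNat 0, .ofNat 0, .ofNat 0, .ofNat 0, .ofNat 0, .ofNat 0⟩)
    (by decide +kernel)
theorem L05319 : Good (Phi V5.P V5.D (-1) (-1)) ⟨4, 13, 4, 8, 3, 7, 3, 2, 5, 2⟩ :=
  leafX_sound T5.ok_mm T5.Ymm.bz_eq (w := 237) (c := ⟨⟨.ofNat 725, .negSucc 637, .ofNat 336, .negSucc 1057, .ofNat 466, .negSucc 2414⟩, ⟨.negSucc 463, .ofNat 373, .negSucc 137, .ofNat 614, .negSucc 274, .ofNat 1361⟩, ⟨.ofNat 319, .ofNat 368, .negSucc 53, .ofNat 837, .negSucc 466, .ofNat 1099⟩, ⟨.ofNat 996, .negSucc 1032, .ofNat 640, .negSucc 1671, .ofNat 911, .negSucc 4574⟩, ⟨.negSucc 14, .negSucc 357, .ofNat 317, .negSucc 200, .ofNat 404, .negSucc 1805⟩, .ofNat 1475, .ofNat 2031, .ofNat 0, .ofNat 2031, .ofNat 3706, .ofNat 0, .ofNat 128, .negSucc 525, .negSucc 862, .ofNat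 0, .ofNat 310, .ofNat 468, .ofNat 0, .ofNat 0, .ofNat 679, .ofNat 1344, .ofNat 0, .ofNat 0, .ofNat 0, .ofNat 0, .ofNat 0, .ofNat 0, .ofNat 356681335438806178508748744418081345367965696, .ofNat 0, .ofNat 0, .ofNat 0, .ofNat 415401606883625879383282039860283467869716480, .ofNat 0, .ofNat 0, .ofNat 0, .ofNat 282064531077590172558911607128959453503684608, .ofNat 0⟩)
    (by decide +kernel)
theorem L05320 : Good (Phi V5.P V5.D (-1) (-1)) ⟨4, 13, 4, 8, 3, 7, 3, 2, 5, 3⟩ :=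
  leafX_sound T5.ok_mm T5.Ymm.bz_eq (w := 237) (c := ⟨⟨.negSucc 2430, .negSucc 997, .ofNat 338, .ofNat 292, .ofNat 642, .negSucc 455⟩, ⟨.ofNat 1305, .ofNat 527, .negSucc 38, .negSucc 161, .negSucc 373, .ofNat 262⟩, ⟨.ofNat 1883, .ofNat 706, .negSucc 158, .negSucc 34, .negSucc 608, .ofNat 92⟩, ⟨.negSucc 4255, .negSucc 1782, .ofNat 480, .ofNat 316, .ofNat 971, .negSucc 759⟩, ⟨.negSucc 971, .negSucc 986, .ofNat 79, .negSucc 164, .ofNat 52, .negSucc 135⟩, .ofNat 1479, .ofNat 2029, .ofNat 0, .ofNat 2029, .ofNat 3679, .ofNat 0, .ofNat 128, .negSucc 454, .negSucc 933, .ofNat 0, .ofNat 279, .ofNat 516, .ofNat 0, .ofNat 0, .ofNat 875, .ofNat 2102, .ofNat 0, .ofNat 0, .ofNat 0, .ofNat 0, .ofNat 0, .ofNat 0, .ofNat 107412128599422291734846355130547069995974656, .ofNat 0, .ofNat 0, .ofNat 0, .ofNat 201579079425456689000129356203663903040733184, .ofNat 0, .ofNat 0, .ofNat 0, .ofNat 0, .ofNat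 0⟩)
    (by decide +kernel)
theorem L05321 : Good (Phi V5.P V5.D (-1) (-1)) ⟨3, 7, 4, 8, 3, 7, 3, 2, 3, 0⟩ :=
  out_sound (S := T5.ds_mm) T5.ok_mm (w := 47) (j := 3) (by decide +kernel)
theorem L05322 : Good (Phi V5.P V5.D (-1) (-1)) ⟨4, 12, 4, 8, 3, 7, 3, 3, 4, 0⟩ :=
  out_sound (S := T5.ds_mm) T5.ok_mm (w := 53) (j := 3) (by decide +kernel)
theorem L05323 : Good (Phi V5.P V5.D (-1) (-1)) ⟨4, 13, 4, 8, 3, 7, 3, 3, 4, 0⟩ :=
  leafX_sound T5.ok_mm T5.Ymm.bz_eq (w := 233) (c := ⟨⟨.ofNat 2777, .ofNat 566, .negSucc 48, .negSucc 907, .negSucc 315, .negSucc 1786⟩, ⟨.negSucc 1536, .negSucc 244, .negSucc 76, .ofNat 540, .ofNat 172, .ofNat 967⟩, ⟨.negSucc 622, .negSucc 311, .ofNat 128, .ofNat 1124, .negSucc 44, .ofNat 507⟩, ⟨.ofNat 5155, .ofNat 1145, .ofNat 67, .negSucc 912, .negSucc 652, .negSucc 3773⟩, ⟨.ofNat 1779, .ofNat 739, .ofNat 164, .ofNat 738, .negSucc 330, .negSucc 2008⟩, .ofNat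 2312, .ofNat 3439, .ofNat 0, .ofNat 3439, .ofNat 6095, .ofNat 0, .ofNat 128, .negSucc 618, .negSucc 815, .ofNat 0, .ofNat 356, .ofNat 451, .ofNat 0, .ofNat 0, .ofNat 655, .ofNat 492, .ofNat 0, .ofNat 0, .ofNat 35025964686079668643792258752369599184896, .ofNat 0, .ofNat 0, .ofNat 0, .ofNat 13408407382556984081604514421235024842981376, .ofNat 0, .ofNat 0, .ofNat 0, .ofNat 0, .ofNat 0, .ofNat 0, .ofNat 0, .ofNat 10675084677191196669292280361640609458421760, .ofNat 0⟩)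
    (by decide +kernel)
theorem L05324 : Good (Phi V5.P V5.D (-1) (-1)) ⟨3, 7, 4, 8, 3, 7, 3, 3, 4, 0⟩ :=
  out_sound (S := T5.ds_mm) T5.ok_mm (w := 47) (j := 3) (by decide +kernel)
theorem L05325 : Good (Phi V5.P V5.D (-1) (-1)) ⟨3, 6, 4, 8, 3, 7, 3, 3, 5, 2⟩ :=
  leafX_sound T5.ok_mm T5.Ymm.bz_eq (w := 234) (c := ⟨⟨.ofNat 772, .negSucc 375, .ofNat 133, .negSucc 870, .ofNat 118, .negSucc 1806⟩, ⟨.negSucc 388, .ofNat 94, .negSucc 14, .ofNat 511, .negSucc 72, .ofNat 1001⟩, ⟨.negSucc 77, .ofNat 411, .negSucc 5, .ofNat 780, .negSucc 202, .ofNat 741⟩, ⟨.ofNat 959, .negSucc 219, .ofNat 231, .negSucc 1465, .ofNat 125, .negSucc 3595⟩, ⟨.negSucc 130, .ofNat 337, .ofNat 110, .negSucc 316, .negSucc 83, .negSucc 1629⟩, .ofNat 1482, .ofNat 2040, .ofNat 0, .ofNat 2040, .ofNat 3713, .ofNat 0, .ofNat 128, .negSucc 477, .negSucc 1160, .ofNat 0, .ofNat 277, .ofNat 627, .ofNat 0, .ofNat 0, .ofNat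 836, .ofNat 835, .ofNat 0, .ofNat 0, .ofNat 1535841041822906661246305874163285285142528, .ofNat 0, .ofNat 0, .ofNat 0, .ofNat 885088984567063677177410250028410274022686720, .ofNat 0, .ofNat 0, .ofNat 0, .ofNat 874846651902011244941502652860097284896980992, .ofNat 0, .ofNat 0, .ofNat 0, .ofNat 0, .ofNat 0⟩)
    (by decide +kernel)
theorem L05326 : Good (Phi V5.P V5.D (-1) (-1)) ⟨4, 12, 4, 8, 3, 7, 3, 3, 5, 3⟩ :=
  out_sound (S := T5.ds_mm) T5.ok_mm (w := 53) (j := 3) (by decide +kernel)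
theorem L05327 : Good (Phi V5.P V5.D (-1) (-1)) ⟨4, 13, 4, 8, 3, 7, 3, 3, 6, 6⟩ :=
  leafX_sound T5.ok_mm T5.Ymm.bz_eq (w := 243) (c := ⟨⟨.negSucc 1660, .negSucc 975, .ofNat 351, .ofNat 110, .ofNat 461, .negSucc 357⟩, ⟨.ofNat 903, .ofNat 469, .negSucc 66, .negSucc 55, .negSucc 261, .ofNat 198⟩, ⟨.ofNat 1290, .ofNat 575, .negSucc 159, .ofNat 91, .negSucc 421, .ofNat 99⟩, ⟨.negSucc 3332, .negSucc 1479, .ofNat 535, .ofNat 238, .ofNat 704, .negSucc 668⟩, ⟨.negSucc 1404, .negSucc 372, .ofNat 130, .ofNat 139, .ofNat 47, .negSucc 245⟩, .ofNat 1460, .ofNat 2003, .ofNat 0, .ofNat 2003, .ofNat 3650, .ofNat 0, .ofNat 128, .negSucc 455, .negSucc 1351, .ofNat 0, .ofNat 270, .ofNat 738, .ofNat 0, .ofNat 0, .ofNat 1085, .ofNat 3121, .ofNat 0, .ofNat 0, .ofNat 0, .ofNat 0, .ofNat 0, .ofNat 0, .ofNat 8091456950963060453422233618482569964125421568, .ofNat 0, .ofNat 0, .ofNat 0, .ofNat 6902670860122956975591655143601553289611575296,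 .ofNat 0, .ofNat 0, .ofNat 0, .ofNat 0, .ofNat 0⟩)
    (by decide +kernel)
theorem L05328 : Good (Phi V5.P V5.D (-1) (-1)) ⟨4, 13, 4, 8, 3, 7, 3, 3, 6, 7⟩ :=
  leafX_sound T5.ok_mm T5.Ymm.bz_eq (w := 243) (c := ⟨⟨.negSucc 2538, .negSucc 522, .ofNat 118, .ofNat 634, .ofNat 549, .negSucc 53⟩, ⟨.ofNat 1388, .ofNat 232, .ofNat 68, .negSucc 357, .negSucc 316, .ofNat 31⟩, ⟨.ofNat 1722, .ofNat 297, .negSucc 32, .negSucc 220, .negSucc 476, .negSucc 63⟩, ⟨.negSucc 4825, .negSucc 710, .ofNat 144, .ofNat 1090, .ofNat 838, .negSucc 101⟩, ⟨.negSucc 1754, .negSucc 203, .ofNat 46, .ofNat 279, .ofNat 61, .negSucc 34⟩, .ofNat 1484, .ofNat 2047, .ofNat 0, .ofNat 2047, .ofNat 3733, .ofNat 0, .ofNat 128, .negSucc 582, .negSucc 971, .ofNat 0, .ofNat 350, .ofNat 533, .ofNat 0, .ofNat 0, .ofNat 880, .ofNat 4617, .ofNat 0, .ofNat 0, .ofNat 0, .ofNat 0, .ofNat 0, .ofNat 0, .ofNat 8571364394218515975756155206131362535590330368,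 .ofNat 0, .ofNat 0, .ofNat 0, .ofNat 17061049799490188427572366283850581490733678592, .ofNat 0, .ofNat 0, .ofNat 0, .ofNat 20945568718759754030517560561265649668721737728, .ofNat 0⟩)
    (by decide +kernel)
theorem L05329 : Good (Phi V5.P V5.D (-1) (-1)) ⟨3, 7, 4, 8, 3, 7, 3, 3, 4, 1⟩ :=
  out_sound (S := T5.ds_mm) T5.ok_mm (w := 47) (j := 3) (by decide +kernel)
theorem L05330 : Good (Phi V5.P V5.D (-1) (-1)) ⟨3, 6, 4, 9, 3, 6, 2, 1, 4, 0⟩ :=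
  leafX_sound T5.ok_mm T5.Ymm.bz_eq (w := 225) (c := ⟨⟨.ofNat 3721, .ofNat 314, .ofNat 4, .negSucc 1208, .negSucc 391, .negSucc 773⟩, ⟨.negSucc 2035, .negSucc 406, .negSucc 89, .ofNat 772, .ofNat 243, .ofNat 430⟩, ⟨.negSucc 1065, .negSucc 776, .ofNat 169, .ofNat 1480, .negSucc 312, .ofNat 3⟩, ⟨.ofNat 5585, .ofNat 286, .ofNat 281, .negSucc 557, .negSucc 372, .negSucc 2505⟩, ⟨.negSucc 317, .ofNat 407, .ofNat 449, .ofNat 1949, .ofNat 317, .negSucc 2244⟩, .ofNat 1786, .ofNat 2453, .ofNat 0, .ofNat 2453, .ofNat 4204, .ofNat 0, .ofNat 128, .negSucc 788, .negSucc 1197, .ofNat 0, .ofNat 487, .ofNat 712, .ofNat 0, .ofNat 0, .ofNat 1083, .ofNat 1081, .ofNat 0, .ofNat 0, .ofNat 0, .ofNat 0, .ofNat 0, .ofNat 0, .ofNat 1025701087832851788700680319021983815696384, .ofNat 0, .ofNat 0, .ofNat 0, .ofNat 1173989869299625615812473926923515137622016, .ofNat 0, .ofNat 0, .ofNat 0, .ofNat 4823637177692205749132808981498279023869952,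 .ofNat 0⟩)
    (by decide +kernel)
theorem L05331 : Good (Phi V5.P V5.D (-1) (-1)) ⟨4, 12, 4, 9, 3, 6, 2, 1, 4, 1⟩ :=
  out_sound (S := T5.ds_mm) T5.ok_mm (w := 53) (j := 3) (by decide +kernel)
theorem L05332 : Good (Phi V5.P V5.D (-1) (-1)) ⟨4, 13, 4, 9, 3, 6, 2, 1, 5, 2⟩ :=
  leafX_sound T5.ok_mm T5.Ymm.bz_eq (w := 235) (c := ⟨⟨.ofNat 2901, .negSucc 200, .negSucc 8, .negSucc 985, .negSucc 342, .negSucc 3789⟩, ⟨.negSucc 1733, .ofNat 36, .ofNat 38, .ofNat 619, .ofNat 224, .ofNat 2273⟩, ⟨.negSucc 973, .negSucc 557, .ofNat 255, .ofNat 1124, .negSucc 144, .ofNat 2109⟩, ⟨.ofNat 2862, .negSucc 258, .ofNat 252, .negSucc 628, .negSucc 170, .negSucc 6001⟩, ⟨.negSucc 2220, .ofNat 84, .ofNat 544, .ofNat 1285, .ofNat 537, .negSucc 869⟩, .ofNat 1766, .ofNat 2422, .ofNat 0, .ofNat 2422, .ofNat 4156, .ofNat 0, .ofNat 128, .negSucc 696, .negSucc 1842, .ofNat 0, .ofNat 432, .ofNat 1098, .ofNat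 0, .ofNat 0, .ofNat 1410, .ofNat 1747, .ofNat 0, .ofNat 0, .ofNat 0, .ofNat 0, .ofNat 0, .ofNat 0, .ofNat 36450895483867237381013676403716882190827520, .ofNat 0, .ofNat 0, .ofNat 0, .ofNat 94598261551527474194815125125584492399951872, .ofNat 0, .ofNat 0, .ofNat 0, .ofNat 17953128979887964597973499788533308403482624, .ofNat 0⟩)
    (by decide +kernel)
theorem L05333 : Good (Phi V5.P V5.D (-1) (-1)) ⟨5, 26, 4, 9, 3, 6, 2, 1, 5, 3⟩ :=
  out_sound (S := T5.ds_mm) T5.ok_mm (w := 59) (j := 3) (by decide +kernel)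
theorem L05334 : Good (Phi V5.P V5.D (-1) (-1)) ⟨5, 27, 4, 9, 3, 6, 2, 1, 6, 6⟩ :=
  leafX_sound T5.ok_mm T5.Ymm.bz_eq (w := 247) (c := ⟨⟨.negSucc 2242, .negSucc 934, .ofNat 445, .ofNat 863, .ofNat 656, .negSucc 1307⟩, ⟨.ofNat 1313, .ofNat 548, .negSucc 125, .negSucc 525, .negSucc 397, .ofNat 790⟩, ⟨.ofNat 1515, .ofNat 631, .negSucc 316, .negSucc 318, .negSucc 628, .ofNat 728⟩, ⟨.negSucc 4579, .negSucc 849, .ofNat 471, .ofNat 1106, .ofNat 977, .negSucc 1900⟩, ⟨.negSucc 2059, .ofNat 601, .negSucc 160, .negSucc 228, .ofNat 59, .negSucc 23⟩, .ofNat 3036, .ofNat 4456, .ofNat 0, .ofNat 4456, .ofNat 7433, .ofNat 0, .ofNat 128, .negSucc 770, .negSucc 2440, .ofNat 0, .ofNat 482, .ofNat 1485, .ofNat 0, .ofNat 0, .ofNat 1953, .ofNat 1778, .ofNat 0, .ofNat 0, .ofNat 0, .ofNat 0, .ofNat 0, .ofNat 0, .ofNat 799352458627364313304969967776474644216807424, .ofNat 0, .ofNat 0, .ofNat 0, .ofNat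 0, .ofNat 0, .ofNat 0, .ofNat 0, .ofNat 0, .ofNat 0⟩)
    (by decide +kernel)
theorem L05335 : Good (Phi V5.P V5.D (-1) (-1)) ⟨5, 27, 4, 9, 3, 6, 2, 1, 6, 7⟩ :=
  leafX_sound T5.ok_mm T5.Ymm.bz_eq (w := 242) (c := ⟨⟨.negSucc 4474, .negSucc 549, .ofNat 259, .ofNat 1621, .ofNat 971, .negSucc 293⟩, ⟨.ofNat 2659, .ofNat 332, .ofNat 21, .negSucc 998, .negSucc 598, .ofNat 181⟩, ⟨.ofNat 3006, .ofNat 201, .negSucc 112, .negSucc 898, .negSucc 808, .ofNat 104⟩, ⟨.negSucc 7390, .negSucc 654, .ofNat 303, .ofNat 2113, .ofNat 1201, .negSucc 391⟩, ⟨.negSucc 1375, .ofNat 8, .negSucc 45, .negSucc 380, .negSucc 316, .ofNat 67⟩, .ofNat 797, .ofNat 890, .ofNat 0, .ofNat 890, .ofNat 1674, .ofNat 0, .ofNat 128, .negSucc 397, .negSucc 870, .ofNat 0, .ofNat 256, .ofNat 505, .ofNat 0, .ofNat 0, .ofNat 710, .ofNat 1423, .ofNat 0, .ofNat 0, .ofNat 0, .ofNat 0, .ofNat 0, .ofNat 0, .ofNat 133735498235378867060678937963383003382022144,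 .ofNat 0, .ofNat 0, .ofNat 0, .ofNat 0, .ofNat 0, .ofNat 0, .ofNat 0, .ofNat 80885247053031998737008903381626402405089280, .ofNat 0⟩)
    (by decide +kernel)
theorem L05336 : Good (Phi V5.P V5.D (-1) (-1)) ⟨4, 14, 5, 18, 3, 6, 2, 1, 3, 0⟩ :=
  out_sound (S := T5.ds_mm) T5.ok_mm (w := 55) (j := 3) (by decide +kernel)

end Crest.Agent.R097C5.N5mm
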