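import Crest.Agent.R097.KP7
import Crest.Agent.R097.T5Ymm

/-!
# Row 97, box cover in dimension n = 5 (generated)
-/

set_option autoImplicit false
set_option Elab.async false
set_option maxHeartbeats 0
set_option maxRecDepth 100000

open Crest.Agent.R097 Crest.Agent.R097.KA


namespace Crest.Agent.R097C5.N5mm

theorem L05337 : Good (Phi V5.P V5.D (-1) (-1)) ⟨6, 56, 5, 19, 3, 6, 2, 1, 4, 0⟩ :=
  leafX_sound T5.ok_mm T5.Ymm.bz_eq (w := 245) (c := ⟨⟨.ofNat 3981, .ofNat 80, .negSucc 95, .negSucc 973, .negSucc 530, .negSucc 641⟩, ⟨.negSucc 2486, .negSucc 45, .ofNat 2, .ofNat 646, .ofNat 342, .ofNat 381⟩, ⟨.negSucc 1723, .ofNat 107, .ofNat 53, .ofNat 1438, .negSucc 293, .negSucc 79⟩, ⟨.ofNat 5781, .ofNat 99, .ofNat 5, .negSucc 168, .negSucc 626, .negSucc 2274⟩, ⟨.ofNat 146, .ofNat 80, .ofNat 213, .ofNat 1922, .ofNat 204, .negSucc 2139⟩, .ofNat 3943, .ofNat 5739, .ofNat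 0, .ofNat 5739, .ofNat 9192, .ofNat 0, .ofNat 128, .negSucc 1740, .negSucc 2415, .ofNat 0, .ofNat 1112, .ofNat 1519, .ofNat 0, .ofNat 0, .ofNat 2285, .ofNat 2042, .ofNat 0, .ofNat 0, .ofNat 0, .ofNat 0, .ofNat 0, .ofNat 0, .ofNat 7210048555891477663677854830309979075903488, .ofNat 0, .ofNat 0, .ofNat 0, .ofNat 0, .ofNat 0, .ofNat 0, .ofNat 0, .ofNat 0, .ofNat 0⟩)
    (by decide +kernel)
theorem L05338 : Good (Phi V5.P V5.D (-1) (-1)) ⟨6, 56, 5, 19, 3, 6, 2, 1, 5, 2⟩ :=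
  leafX_sound T5.ok_mm T5.Ymm.bz_eq (w := 247) (c := ⟨⟨.ofNat 2449, .negSucc 1447, .ofNat 947, .negSucc 703, .negSucc 465, .negSucc 3701⟩, ⟨.negSucc 1559, .ofNat 941, .negSucc 614, .ofNat 443, .ofNat 308, .ofNat 2330⟩, ⟨.negSucc 1138, .ofNat 972, .negSucc 566, .ofNat 833, .negSucc 85, .ofNat 2054⟩, ⟨.ofNat 2438, .negSucc 1499, .ofNat 991, .negSucc 233, .negSucc 240, .negSucc 6053⟩, ⟨.negSucc 1662, .ofNat 916, .negSucc 527, .ofNat 1171, .ofNat 664, .negSucc 1223⟩, .ofNat 2051, .ofNat 2803, .ofNat 0, .ofNat 2803, .ofNat 4620, .ofNat 0, .ofNat 128, .negSucc 475, .negSucc 2338, .ofNat 0, .ofNat 303, .ofNat 1448, .ofNat 0, .ofNat 0, .ofNat 1750, .ofNat 1215, .ofNat 0, .ofNat 0, .ofNat 0, .ofNat 0, .ofNat 0, .ofNat 0, .ofNat 14384397193881573338231067872710816824295424, .ofNat 0, .ofNat 0, .ofNat 0, .ofNat 16815564903386309455511035526419096417599488, .ofNat 0, .ofNat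 0, .ofNat 0, .ofNat 0, .ofNat 0⟩)
    (by decide +kernel)
theorem L05339 : Good (Phi V5.P V5.D (-1) (-1)) ⟨6, 56, 5, 19, 3, 6, 2, 1, 6, 6⟩ :=
  leafX_sound T5.ok_mm T5.Ymm.bz_eq (w := 253) (c := ⟨⟨.negSucc 2885, .ofNat 2, .negSucc 42, .ofNat 916, .ofNat 620, .negSucc 1278⟩, ⟨.ofNat 1761, .negSucc 20, .ofNat 104, .negSucc 581, .negSucc 390, .ofNat 808⟩, ⟨.ofNat 1934, .negSucc 99, .ofNat 94, .negSucc 355, .negSucc 598, .ofNat 698⟩, ⟨.negSucc 5184, .negSucc 64, .negSucc 37, .ofNat 1362, .ofNat 832, .negSucc 1925⟩, ⟨.negSucc 1707, .negSucc 185, .ofNat 86, .ofNat 85, .negSucc 71, .negSucc 151⟩, .ofNat 2052, .ofNat 2803, .ofNat 0, .ofNat 2803, .ofNat 4617, .ofNat 0, .ofNat 128, .negSucc 724, .negSucc 2726, .ofNat 0, .ofNat 465, .ofNat 1696, .ofNat 0, .ofNat 0, .ofNat 2071, .ofNat 2874, .ofNat 0, .ofNat 0, .ofNat 0, .ofNat 0, .ofNat 0, .ofNat 0, .ofNat 3018458336203710175693819744105612865141997568,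 .ofNat 0, .ofNat 0, .ofNat 0, .ofNat 0, .ofNat 0, .ofNat 0, .ofNat 0, .ofNat 1580723243665859575156820130659614265278726144, .ofNat 0⟩)
    (by decide +kernel)
theorem L05340 : Good (Phi V5.P V5.D (-1) (-1)) ⟨6, 56, 5, 19, 3, 6, 2, 1, 6, 7⟩ :=
  leafX_sound T5.ok_mm T5.Ymm.bz_eq (w := 253) (c := ⟨⟨.negSucc 4909, .negSucc 495, .ofNat 272, .ofNat 1653, .ofNat 971, .negSucc 388⟩, ⟨.ofNat 3035, .ofNat 305, .negSucc 78, .negSucc 1054, .negSucc 618, .ofNat 246⟩, ⟨.ofNat 3163, .ofNat 365, .negSucc 205, .negSucc 898, .negSucc 805, .ofNat 175⟩, ⟨.negSucc 7909, .negSucc 559, .ofNat 332, .ofNat 2136, .ofNat 1196, .negSucc 520⟩, ⟨.negSucc 1435, .ofNat 88, .negSucc 37, .negSucc 346, .negSucc 289, .ofNat 58⟩, .ofNat 2068, .ofNat 2826, .ofNat 0, .ofNat 2826, .ofNat 4648, .ofNat 0, .ofNat 128, .negSucc 853, .negSucc 2670, .ofNat 0, .ofNat 553, .ofNat 1672, .ofNat 0, .ofNat 0, .ofNat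 2210, .ofNat 1982, .ofNat 0, .ofNat 0, .ofNat 3342053568581100754416497180183413714321408, .ofNat 0, .ofNat 0, .ofNat 0, .ofNat 1761072687152762559517490228704528823985635328, .ofNat 0, .ofNat 0, .ofNat 0, .ofNat 0, .ofNat 0, .ofNat 0, .ofNat 0, .ofNat 0, .ofNat 0⟩)
    (by decide +kernel)
theorem L05341 : Good (Phi V5.P V5.D (-1) (-1)) ⟨6, 57, 5, 19, 3, 6, 2, 1, 3, 0⟩ :=
  out_sound (S := T5.ds_mm) T5.ok_mm (w := 67) (j := 3) (by decide +kernel)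
theorem L05342 : Good (Phi V5.P V5.D (-1) (-1)) ⟨5, 29, 5, 19, 3, 6, 2, 1, 3, 0⟩ :=
  out_sound (S := T5.ds_mm) T5.ok_mm (w := 61) (j := 3) (by decide +kernel)
theorem L05343 : Good (Phi V5.P V5.D (-1) (-1)) ⟨4, 15, 4, 9, 3, 6, 2, 1, 3, 0⟩ :=
  out_sound (S := T5.ds_mm) T5.ok_mm (w := 53) (j := 3) (by decide +kernel)
theorem L05344 : Good (Phi V5.P V5.D (-1) (-1)) ⟨4, 12, 4, 9, 3, 7, 2, 1, 4, 0⟩ :=
  out_sound (S := T5.ds_mm) T5.ok_mm (w := 53) (j := 3) (by decide +kernel)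
theorem L05345 : Good (Phi V5.P V5.D (-1) (-1)) ⟨5, 26, 4, 9, 3, 7, 2, 1, 4, 0⟩ :=
  out_sound (S := T5.ds_mm) T5.ok_mm (w := 59) (j := 3) (by decide +kernel)
theorem L05346 : Good (Phi V5.P V5.D (-1) (-1)) ⟨5, 27, 4, 9, 3, 7, 2, 1, 5, 0⟩ :=
  leafX_sound T5.ok_mm T5.Ymm.bz_eq (w := 241) (c := ⟨⟨.ofNat 2120, .ofNat 1391, .negSucc 393, .ofNat 32, .negSucc 506, .negSucc 573⟩, ⟨.negSucc 1269, .negSucc 751, .ofNat 47, .negSucc 5, .ofNat 311, .ofNat 334⟩, ⟨.ofNat 135, .negSucc 624, .ofNat 259, .ofNat 786, .negSucc 390, .ofNat 58⟩, ⟨.ofNat 4478, .ofNat 1959, .ofNat 264, .ofNat 566, .negSucc 857, .negSucc 1406⟩, ⟨.ofNat 2198, .ofNat 110, .ofNat 1195, .ofNat 872, .negSucc 194, .negSucc 943⟩, .ofNat 3058, .ofNat 4491, .ofNat 0, .ofNat 4491, .ofNat 7486, .ofNat 0, .ofNat 128, .negSucc 1350, .negSucc 1623, .ofNat 0, .ofNat 820, .ofNat 959, .ofNat 0, .ofNat 0, .ofNat 1386,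 .ofNat 2347, .ofNat 0, .ofNat 0, .ofNat 0, .ofNat 0, .ofNat 0, .ofNat 0, .ofNat 29232270369899143562279603492315768673009664, .ofNat 0, .ofNat 0, .ofNat 0, .ofNat 211164169122020599745749400030501211566243840, .ofNat 0, .ofNat 0, .ofNat 0, .ofNat 251178065926893261581610686488419921928650752, .ofNat 0⟩)
    (by decide +kernel)
theorem L05347 : Good (Phi V5.P V5.D (-1) (-1)) ⟨5, 27, 4, 9, 3, 7, 2, 1, 5, 1⟩ :=
  leafX_sound T5.ok_mm T5.Ymm.bz_eq (w := 241) (c := ⟨⟨.ofNat 2734, .ofNat 317, .ofNat 342, .negSucc 710, .negSucc 614, .negSucc 1498⟩, ⟨.negSucc 1648, .negSucc 154, .negSucc 306, .ofNat 448, .ofNat 384, .ofNat 886⟩, ⟨.negSucc 355, .negSucc 185, .negSucc 40, .ofNat 1010, .negSucc 206, .ofNat 482⟩, ⟨.ofNat 4875, .ofNat 765, .ofNat 748, .negSucc 778, .negSucc 991, .negSucc 3437⟩, ⟨.ofNat 1426, .ofNat 626, .ofNat 337, .ofNat 423, .negSucc 156, .negSucc 2092⟩, .ofNat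 3065, .ofNat 4502, .ofNat 0, .ofNat 4502, .ofNat 7506, .ofNat 0, .ofNat 128, .negSucc 1133, .negSucc 1464, .ofNat 0, .ofNat 689, .ofNat 866, .ofNat 0, .ofNat 0, .ofNat 1109, .ofNat 880, .ofNat 0, .ofNat 0, .ofNat 0, .ofNat 0, .ofNat 0, .ofNat 0, .ofNat 56915409715000418918135538551891656756428800, .ofNat 0, .ofNat 0, .ofNat 0, .ofNat 0, .ofNat 0, .ofNat 0, .ofNat 0, .ofNat 108303160424723700793279574938669862243794944, .ofNat 0⟩)
    (by decide +kernel)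
theorem L05348 : Good (Phi V5.P V5.D (-1) (-1)) ⟨6, 56, 5, 18, 3, 7, 2, 1, 4, 0⟩ :=
  out_sound (S := T5.ds_mm) T5.ok_mm (w := 67) (j := 3) (by decide +kernel)
theorem L05349 : Good (Phi V5.P V5.D (-1) (-1)) ⟨6, 56, 5, 19, 3, 7, 2, 1, 4, 0⟩ :=
  leafX_sound T5.ok_mm T5.Ymm.bz_eq (w := 245) (c := ⟨⟨.ofNat 3122, .ofNat 184, .ofNat 226, .ofNat 475, .negSucc 468, .negSucc 1657⟩, ⟨.negSucc 1912, .negSucc 126, .negSucc 192, .negSucc 285, .ofNat 302, .ofNat 1022⟩, ⟨.negSucc 250, .negSucc 86, .negSucc 39, .ofNat 560, .negSucc 355, .ofNat 302⟩, ⟨.ofNat 6212, .ofNat 509, .ofNat 514, .ofNat 1325, .negSucc 1029, .negSucc 3906⟩, ⟨.ofNat 2768, .ofNat 440, .ofNat 263, .ofNat 1048, .negSucc 560, .negSucc 2429⟩, .ofNat 5067, .ofNat 7488, .ofNat 0, .ofNat 7488, .ofNat 11917, .ofNat 0, .ofNat 128, .negSucc 1526, .negSucc 2071, .ofNat 0, .ofNat 964, .ofNat 1289, .ofNat 0, .ofNat 0,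 .ofNat 1630, .ofNat 1051, .ofNat 0, .ofNat 0, .ofNat 7303633923848873180530873531294845763584, .ofNat 0, .ofNat 0, .ofNat 0, .ofNat 8840819430114963722826652957561825091649536, .ofNat 0, .ofNat 0, .ofNat 0, .ofNat 0, .ofNat 0, .ofNat 0, .ofNat 0, .ofNat 0, .ofNat 0⟩)
    (by decide +kernel)
theorem L05350 : Good (Phi V5.P V5.D (-1) (-1)) ⟨6, 57, 4, 9, 3, 7, 2, 1, 4, 0⟩ :=
  out_sound (S := T5.ds_mm) T5.ok_mm (w := 65) (j := 3) (by decide +kernel)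
theorem L05351 : Good (Phi V5.P V5.D (-1) (-1)) ⟨5, 29, 4, 9, 3, 7, 2, 1, 4, 0⟩ :=
  out_sound (S := T5.ds_mm) T5.ok_mm (w := 59) (j := 3) (by decide +kernel)
theorem L05352 : Good (Phi V5.P V5.D (-1) (-1)) ⟨4, 15, 4, 9, 3, 7, 2, 1, 4, 0⟩ :=
  out_sound (S := T5.ds_mm) T5.ok_mm (w := 53) (j := 3) (by decide +kernel)
theorem L05353 : Good (Phi V5.P V5.D (-1) (-1)) ⟨4, 12, 4, 9, 3, 7, 2, 1, 5, 2⟩ :=
  out_sound (S := T5.ds_mm) T5.ok_mm (w := 53) (j := 3) (by decide +kernel)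
theorem L05354 : Good (Phi V5.P V5.D (-1) (-1)) ⟨5, 26, 4, 9, 3, 7, 2, 1, 5, 2⟩ :=
  out_sound (S := T5.ds_mm) T5.ok_mm (w := 59) (j := 3) (by decide +kernel)
theorem L05355 : Good (Phi V5.P V5.D (-1) (-1)) ⟨6, 54, 4, 9, 3, 7, 2, 1, 5, 2⟩ :=
  out_sound (S := T5.ds_mm) T5.ok_mm (w := 65) (j := 3) (by decide +kernel)
theorem L05356 : Good (Phi V5.P V5.D (-1) (-1)) ⟨6, 55, 4, 9, 3, 7, 2, 1, 5, 2⟩ :=
  leafX_sound T5.ok_mm T5.Ymm.bz_eq (w := 245) (c := ⟨⟨.ofNat 546, .negSucc 114, .ofNat 597, .negSucc 1081, .ofNat 660, .negSucc 2466⟩, ⟨.negSucc 344, .ofNat 50, .negSucc 298, .ofNat 659, .negSucc 391, .ofNat 1471⟩, ⟨.ofNat 565, .ofNat 55, .negSucc 216, .ofNat 956, .negSucc 792, .ofNat 1046⟩, ⟨.ofNat 789, .negSucc 155, .ofNat 1162, .negSucc 1527, .ofNat 1118, .negSucc 4884⟩, ⟨.ofNat 31, .negSucc 54, .ofNat 599, .ofNat 43, .ofNat 282, .negSucc 2208⟩, .ofNat 3696, .ofNat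 5507, .ofNat 0, .ofNat 5507, .ofNat 9110, .ofNat 0, .ofNat 128, .negSucc 842, .negSucc 1439, .ofNat 0, .ofNat 519, .ofNat 860, .ofNat 0, .ofNat 0, .ofNat 1060, .ofNat 1447, .ofNat 0, .ofNat 0, .ofNat 0, .ofNat 0, .ofNat 0, .ofNat 0, .ofNat 16656337356384460210154098449577638965018624, .ofNat 0, .ofNat 0, .ofNat 0, .ofNat 19302192147009728749563639000461771370659840, .ofNat 0, .ofNat 0, .ofNat 0, .ofNat 27217052687544086175166384298233670920044544, .ofNat 0⟩)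
    (by decide +kernel)
theorem L05357 : Good (Phi V5.P V5.D (-1) (-1)) ⟨5, 28, 4, 9, 3, 7, 2, 1, 5, 2⟩ :=
  leafX_sound T5.ok_mm T5.Ymm.bz_eq (w := 240) (c := ⟨⟨.ofNat 739, .ofNat 134, .ofNat 360, .negSucc 831, .ofNat 505, .negSucc 2891⟩, ⟨.negSucc 523, .negSucc 154, .negSucc 150, .ofNat 535, .negSucc 310, .ofNat 1800⟩, ⟨.ofNat 488, .negSucc 132, .negSucc 125, .ofNat 901, .negSucc 733, .ofNat 1224⟩, ⟨.ofNat 1279, .ofNat 194, .ofNat 466, .negSucc 1332, .ofNat 873, .negSucc 5377⟩, ⟨.ofNat 320, .negSucc 53, .negSucc 21, .negSucc 226, .ofNat 253, .negSucc 1993⟩, .ofNat 2417, .ofNat 3255, .ofNat 0, .ofNat 3255, .ofNat 5151, .ofNat 0, .ofNat 128, .negSucc 612, .negSucc 1511, .ofNat 0, .ofNat 392, .ofNat 914, .ofNat 0, .ofNat 0, .ofNat 1020, .ofNat 1246, .ofNat 0, .ofNat 0, .ofNat 166935699144712006921369803770164586479616, .ofNat 0, .ofNat 0, .ofNat 0, .ofNat 33934479241320850444691328450908834089664512,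 .ofNat 0, .ofNat 0, .ofNat 0, .ofNat 8579589978154398878767763833718541849198592, .ofNat 0, .ofNat 0, .ofNat 0, .ofNat 28908421550776302650540917945840607015469056, .ofNat 0⟩)
    (by decide +kernel)
theorem L05358 : Good (Phi V5.P V5.D (-1) (-1)) ⟨5, 29, 4, 9, 3, 7, 2, 1, 5, 2⟩ :=
  out_sound (S := T5.ds_mm) T5.ok_mm (w := 59) (j := 3) (by decide +kernel)
theorem L05359 : Good (Phi V5.P V5.D (-1) (-1)) ⟨4, 15, 4, 9, 3, 7, 2, 1, 5, 2⟩ :=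
  out_sound (S := T5.ds_mm) T5.ok_mm (w := 53) (j := 3) (by decide +kernel)
theorem L05360 : Good (Phi V5.P V5.D (-1) (-1)) ⟨4, 12, 4, 9, 3, 7, 2, 1, 5, 3⟩ :=
  out_sound (S := T5.ds_mm) T5.ok_mm (w := 53) (j := 3) (by decide +kernel)
theorem L05361 : Good (Phi V5.P V5.D (-1) (-1)) ⟨5, 26, 4, 9, 3, 7, 2, 1, 5, 3⟩ :=
  out_sound (S := T5.ds_mm) T5.ok_mm (w := 59) (j := 3) (by decide +kernel)
theorem L05362 : Good (Phi V5.P V5.D (-1) (-1)) ⟨5, 27, 4, 9, 4, 14, 2, 1, 5, 3⟩ :=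
  leafX_sound T5.ok_mm T5.Ymm.bz_eq (w := 255) (c := ⟨⟨.negSucc 2626, .negSucc 378, .ofNat 267, .ofNat 299, .ofNat 1125, .negSucc 672⟩, ⟨.ofNat 1556, .ofNat 199, .negSucc 16, .negSucc 179, .negSucc 686, .ofNat 405⟩, ⟨.ofNat 2115, .ofNat 189, .negSucc 100, .negSucc 64, .negSucc 1045, .ofNat 188⟩, ⟨.negSucc 4924, .negSucc 307, .ofNat 205, .ofNat 427, .ofNat 1520, .negSucc 967⟩, ⟨.negSucc 1723, .ofNat 179, .negSucc 175, .negSucc 4, .negSucc 155, .negSucc 0⟩, .ofNat 4310, .ofNat 6488, .ofNat 0, .ofNat 6488, .ofNat 10677, .ofNat 0, .ofNat 128, .negSucc 490, .negSucc 1071, .ofNat 0, .ofNat 307, .ofNat 650, .ofNat 0, .ofNat 0, .ofNat 928, .ofNat 1844, .ofNat 0, .ofNat 0, .ofNat 821762549103802748854469225808671808004554752, .ofNat 0, .ofNat 0, .ofNat 0, .ofNat 1421521265927799500453291092410387476806956482560, .ofNat 0, .ofNat 0, .ofNat 0, .ofNat 487794623638412276952094431392005087444621852672,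 .ofNat 0, .ofNat 0, .ofNat 0, .ofNat 0, .ofNat 0⟩)
    (by decide +kernel)
theorem L05363 : Good (Phi V5.P V5.D (-1) (-1)) ⟨5, 27, 4, 9, 4, 15, 2, 1, 5, 3⟩ :=
  leafX_sound T5.ok_mm T5.Ymm.bz_eq (w := 254) (c := ⟨⟨.negSucc 2517, .negSucc 643, .ofNat 336, .negSucc 2, .ofNat 1306, .negSucc 155⟩, ⟨.ofNat 1504, .ofNat 337, .negSucc 57, .negSucc 0, .negSucc 790, .ofNat 93⟩, ⟨.ofNat 2128, .ofNat 394, .negSucc 125, .ofNat 109, .negSucc 1164, .negSucc 111⟩, ⟨.negSucc 4792, .negSucc 739, .ofNat 387, .negSucc 115, .ofNat 2030, .negSucc 287⟩, ⟨.negSucc 1788, .ofNat 124, .negSucc 49, .negSucc 178, .ofNat 246, .negSucc 98⟩, .ofNat 3042, .ofNat 4457, .ofNat 0, .ofNat 4457, .ofNat 7420, .ofNat 0, .ofNat 128, .negSucc 703, .negSucc 1283, .ofNat 0, .ofNat 438, .ofNat 759, .ofNat 0, .ofNat 0, .ofNat 1124, .ofNat 2494, .ofNat 0, .ofNat 0, .ofNat 1066880582284754999172547487542098487905615872,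 .ofNat 0, .ofNat 0, .ofNat 0, .ofNat 0, .ofNat 0, .ofNat 0, .ofNat 0, .ofNat 876066356954360587547485218175355782766415314944, .ofNat 0, .ofNat 0, .ofNat 0, .ofNat 2826415634540479698086029732019694856543766839296, .ofNat 0⟩)
    (by decide +kernel)
theorem L05364 : Good (Phi V5.P V5.D (-1) (-1)) ⟨6, 56, 5, 18, 3, 7, 2, 1, 5, 3⟩ :=
  out_sound (S := T5.ds_mm) T5.ok_mm (w := 67) (j := 3) (by decide +kernel)
theorem L05365 : Good (Phi V5.P V5.D (-1) (-1)) ⟨6, 56, 5, 19, 3, 7, 2, 1, 6, 6⟩ :=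
  leafX_sound T5.ok_mm T5.Ymm.bz_eq (w := 255) (c := ⟨⟨.negSucc 2629, .negSucc 198, .negSucc 72, .negSucc 163, .ofNat 1350, .negSucc 508⟩, ⟨.ofNat 1604, .ofNat 96, .ofNat 120, .ofNat 103, .negSucc 850, .ofNat 317⟩, ⟨.ofNat 2124, .ofNat 134, .ofNat 86, .ofNat 379, .negSucc 1214, .ofNat 168⟩, ⟨.negSucc 4615, .negSucc 336, .negSucc 464, .negSucc 544, .ofNat 2024, .negSucc 683⟩, ⟨.negSucc 1380, .negSucc 149, .negSucc 524, .negSucc 486, .ofNat 166, .ofNat 60⟩, .ofNat 5963, .ofNat 8886, .ofNat 0, .ofNat 8886, .ofNat 14103, .ofNat 0, .ofNat 128, .negSucc 614, .negSucc 1954, .ofNat 0, .ofNat 393, .ofNat 1223, .ofNat 0, .ofNat 0, .ofNat 1534, .ofNat 2351, .ofNat 0, .ofNat 0, .ofNat 0, .ofNat 0, .ofNat 0, .ofNat 0, .ofNat 8949334328826706734507079456494460165488115712, .ofNat 0, .ofNat 0, .ofNat 0, .ofNat 636639774670703314931181433969593353798418432, .ofNat 0, .ofNat 0,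 .ofNat 0, .ofNat 0, .ofNat 0⟩)
    (by decide +kernel)
theorem L05366 : Good (Phi V5.P V5.D (-1) (-1)) ⟨6, 56, 5, 19, 3, 7, 2, 1, 6, 7⟩ :=
  leafX_sound T5.ok_mm T5.Ymm.bz_eq (w := 254) (c := ⟨⟨.negSucc 3523, .ofNat 189, .negSucc 89, .ofNat 458, .ofNat 1299, .ofNat 34⟩, ⟨.ofNat 2160, .negSucc 140, .ofNat 138, .negSucc 290, .negSucc 820, .negSucc 19⟩, ⟨.ofNat 2526, .negSucc 217, .ofNat 150, .ofNat 13, .negSucc 1197, .negSucc 107⟩, ⟨.negSucc 6183, .ofNat 280, .negSucc 203, .ofNat 585, .ofNat 1913, .ofNat 68⟩, ⟨.negSucc 1834, .negSucc 40, .negSucc 86, .negSucc 107, .ofNat 99, .ofNat 34⟩, .ofNat 3917, .ofNat 5706, .ofNat 0, .ofNat 5706, .ofNat 9153, .ofNat 0, .ofNat 128, .negSucc 846, .negSucc 1774, .ofNat 0, .ofNat 545, .ofNat 1103, .ofNat 0, .ofNat 0, .ofNat 1596, .ofNat 3943, .ofNat 0, .ofNat 0, .ofNat 1533908722183396911998636654440915935428608, .ofNat 0, .ofNat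 0, .ofNat 0, .ofNat 6058329766772657596038377002811787488977223680, .ofNat 0, .ofNat 0, .ofNat 0, .ofNat 0, .ofNat 0, .ofNat 0, .ofNat 0, .ofNat 0, .ofNat 0⟩)
    (by decide +kernel)
theorem L05367 : Good (Phi V5.P V5.D (-1) (-1)) ⟨6, 57, 4, 9, 3, 7, 2, 1, 5, 3⟩ :=
  out_sound (S := T5.ds_mm) T5.ok_mm (w := 65) (j := 3) (by decide +kernel)
theorem L05368 : Good (Phi V5.P V5.D (-1) (-1)) ⟨5, 29, 4, 9, 3, 7, 2, 1, 5, 3⟩ :=
  out_sound (S := T5.ds_mm) T5.ok_mm (w := 59) (j := 3) (by decide +kernel)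
theorem L05369 : Good (Phi V5.P V5.D (-1) (-1)) ⟨4, 15, 4, 9, 3, 7, 2, 1, 5, 3⟩ :=
  out_sound (S := T5.ds_mm) T5.ok_mm (w := 53) (j := 3) (by decide +kernel)
theorem L05370 : Good (Phi V5.P V5.D (-1) (-1)) ⟨2, 2, 3, 4, 2, 3, 2, 1, 4, 2⟩ :=
  out_sound (S := T5.ds_mm) T5.ok_mm (w := 39) (j := 3) (by decide +kernel)
theorem L05371 : Good (Phi V5.P V5.D (-1) (-1)) ⟨4, 12, 3, 4, 2, 3, 2, 1, 4, 2⟩ :=
  out_sound (S := T5.ds_mm) T5.ok_mm (w := 51) (j := 3) (by decide +kernel)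
theorem L05372 : Good (Phi V5.P V5.D (-1) (-1)) ⟨4, 13, 3, 4, 3, 6, 2, 1, 5, 4⟩ :=
  leafX_sound T5.ok_mm T5.Ymm.bz_eq (w := 230) (c := ⟨⟨.negSucc 4523, .negSucc 872, .ofNat 364, .ofNat 1396, .ofNat 922, .ofNat 455⟩, ⟨.ofNat 2521, .ofNat 455, .ofNat 189, .negSucc 824, .negSucc 547, .negSucc 261⟩, ⟨.ofNat 2812, .ofNat 798, .negSucc 479, .negSucc 825, .negSucc 826, .negSucc 353⟩, ⟨.negSucc 7495, .negSucc 968, .ofNat 394, .ofNat 1795, .ofNat 1158, .ofNat 722⟩, ⟨.negSucc 1246, .ofNat 134, .negSucc 211, .negSucc 422, .negSucc 329, .ofNat 111⟩, .ofNat 1085, .ofNat 1371, .ofNat 0, .ofNat 1371, .ofNat 2550, .ofNat 0, .ofNat 128, .negSucc 541, .negSucc 609, .ofNat 0, .ofNat 346, .ofNat 353, .ofNat 0, .ofNat 0, .ofNat 656, .ofNat 1620, .ofNat 0, .ofNat 0, .ofNat 79827814470086599870091991103259205959680, .ofNat 0, .ofNat 0, .ofNat 0, .ofNat 5209972116212977567256937037416430957494272,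 .ofNat 0, .ofNat 0, .ofNat 0, .ofNat 44025933704413642994578961643167254277259264, .ofNat 0, .ofNat 0, .ofNat 0, .ofNat 10243117622922573506305510895127329509474304, .ofNat 0⟩)
    (by decide +kernel)
theorem L05373 : Good (Phi V5.P V5.D (-1) (-1)) ⟨5, 26, 3, 4, 3, 7, 2, 1, 5, 4⟩ :=
  leafX_sound T5.ok_mm T5.Ymm.bz_eq (w := 237) (c := ⟨⟨.negSucc 3236, .negSucc 141, .ofNat 13, .ofNat 712, .ofNat 985, .ofNat 262⟩, ⟨.ofNat 1763, .ofNat 50, .ofNat 275, .negSucc 384, .negSucc 550, .negSucc 139⟩, ⟨.ofNat 2282, .ofNat 69, .ofNat 73, .negSucc 325, .negSucc 965, .negSucc 289⟩, ⟨.negSucc 5861, .negSucc 113, .negSucc 63, .ofNat 1234, .ofNat 1368, .ofNat 488⟩, ⟨.negSucc 1724, .ofNat 9, .ofNat 30, .ofNat 314, .negSucc 180, .ofNat 179⟩, .ofNat 3108, .ofNat 4931, .ofNat 0, .ofNat 4931, .ofNat 8917, .ofNat 0, .ofNat 128, .negSucc 861, .negSucc 873, .ofNat 0, .ofNat 514, .ofNat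 477, .ofNat 0, .ofNat 0, .ofNat 1142, .ofNat 5855, .ofNat 0, .ofNat 0, .ofNat 9482097582820978426013579837061925437440, .ofNat 0, .ofNat 0, .ofNat 0, .ofNat 3751955124634771479872845376967324066643968, .ofNat 0, .ofNat 0, .ofNat 0, .ofNat 14292075896174982208181452068133753998802944, .ofNat 0, .ofNat 0, .ofNat 0, .ofNat 12664031725492974562552810959846219941150720, .ofNat 0⟩)
    (by decide +kernel)
theorem L05374 : Good (Phi V5.P V5.D (-1) (-1)) ⟨5, 27, 3, 4, 3, 7, 2, 1, 5, 4⟩ :=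
  leafX_sound T5.ok_mm T5.Ymm.bz_eq (w := 234) (c := ⟨⟨.negSucc 3511, .negSucc 212, .ofNat 302, .ofNat 766, .ofNat 1012, .ofNat 385⟩, ⟨.ofNat 1924, .ofNat 84, .ofNat 131, .negSucc 438, .negSucc 601, .negSucc 224⟩, ⟨.ofNat 2423, .ofNat 108, .negSucc 103, .negSucc 283, .negSucc 1001, .negSucc 372⟩, ⟨.negSucc 6122, .negSucc 272, .ofNat 328, .ofNat 1287, .ofNat 1385, .ofNat 649⟩, ⟨.negSucc 1695, .negSucc 88, .negSucc 43, .ofNat 297, .negSucc 152, .ofNat 176⟩, .ofNat 1825, .ofNat 2572, .ofNat 0, .ofNat 2572, .ofNat 4509, .ofNat 0, .ofNat 128, .negSucc 535, .negSucc 594, .ofNat 0, .ofNat 337, .ofNat 341, .ofNat 0, .ofNat 0, .ofNat 724, .ofNat 1897, .ofNat 0, .ofNat 0, .ofNat 3692403549490290338597114387885511933952, .ofNat 0, .ofNat 0, .ofNat 0, .ofNat 4424712636580825705592777597171587493134336, .ofNat 0, .ofNat 0, .ofNat 0, .ofNat 13053569953302486117691843536662225357897728,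 .ofNat 0, .ofNat 0, .ofNat 0, .ofNat 0, .ofNat 0⟩)
    (by decide +kernel)
theorem L05375 : Good (Phi V5.P V5.D (-1) (-1)) ⟨4, 13, 3, 4, 3, 6, 2, 1, 5, 5⟩ :=
  leafX_sound T5.ok_mm T5.Ymm.bz_eq (w := 230) (c := ⟨⟨.negSucc 4078, .negSucc 403, .ofNat 167, .ofNat 1169, .ofNat 760, .ofNat 580⟩, ⟨.ofNat 2245, .ofNat 256, .ofNat 203, .negSucc 701, .negSucc 458, .negSucc 339⟩, ⟨.ofNat 2656, .ofNat 218, .negSucc 174, .negSucc 721, .negSucc 804, .negSucc 459⟩, ⟨.negSucc 6824, .negSucc 364, .ofNat 157, .ofNat 1504, .ofNat 1008, .ofNat 872⟩, ⟨.negSucc 1145, .negSucc 164, .ofNat 46, .negSucc 340, .negSucc 166, .ofNat 39⟩, .ofNat 755, .ofNat 836, .ofNat 0, .ofNat 836, .ofNat 1630, .ofNat 0, .ofNat 128, .negSucc 459, .negSucc 330, .ofNat 0, .ofNat 316, .ofNat 192, .ofNat 0, .ofNat 0, .ofNat 477, .ofNat 2667, .ofNat 0, .ofNat 0, .ofNat 0, .ofNat 0, .ofNat 0, .ofNat 0, .ofNat 3522749661411387521248646150655709458464768,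 .ofNat 0, .ofNat 0, .ofNat 0, .ofNat 17458709619036601981102877410251630721368064, .ofNat 0, .ofNat 0, .ofNat 0, .ofNat 9512659453414781608341779941904179768852480, .ofNat 0⟩)
    (by decide +kernel)
theorem L05376 : Good (Phi V5.P V5.D (-1) (-1)) ⟨4, 13, 3, 4, 3, 7, 2, 1, 5, 5⟩ :=
  leafX_sound T5.ok_mm T5.Ymm.bz_eq (w := 229) (c := ⟨⟨.negSucc 2831, .negSucc 256, .ofNat 209, .ofNat 709, .ofNat 733, .ofNat 317⟩, ⟨.ofNat 1577, .ofNat 66, .ofNat 150, .negSucc 400, .negSucc 433, .negSucc 185⟩, ⟨.ofNat 1840, .ofNat 264, .negSucc 143, .negSucc 291, .negSucc 857, .negSucc 310⟩, ⟨.negSucc 5290, .negSucc 140, .ofNat 177, .ofNat 1357, .ofNat 1045, .ofNat 592⟩, ⟨.negSucc 1816, .ofNat 157, .negSucc 97, .ofNat 537, .negSucc 63, .ofNat 225⟩, .ofNat 749, .ofNat 829, .ofNat 0, .ofNat 829, .ofNat 1631, .ofNat 0, .ofNat 128, .negSucc 363, .negSucc 309, .ofNat 0, .ofNat 265, .ofNat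 159, .ofNat 0, .ofNat 0, .ofNat 592, .ofNat 2072, .ofNat 0, .ofNat 0, .ofNat 0, .ofNat 0, .ofNat 0, .ofNat 0, .ofNat 1843683910603383356041696950397838724956160, .ofNat 0, .ofNat 0, .ofNat 0, .ofNat 3278030483023514221118984818773360042311680, .ofNat 0, .ofNat 0, .ofNat 0, .ofNat 4123029527504296591248122801997643849400320, .ofNat 0⟩)
    (by decide +kernel)
theorem L05377 : Good (Phi V5.P V5.D (-1) (-1)) ⟨5, 28, 4, 8, 2, 3, 2, 1, 5, 4⟩ :=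
  out_sound (S := T5.ds_mm) T5.ok_mm (w := 59) (j := 3) (by decide +kernel)
theorem L05378 : Good (Phi V5.P V5.D (-1) (-1)) ⟨6, 56, 4, 9, 3, 6, 2, 1, 5, 4⟩ :=
  leafX_sound T5.ok_mm T5.Ymm.bz_eq (w := 244) (c := ⟨⟨.negSucc 5328, .negSucc 182, .ofNat 151, .ofNat 1600, .ofNat 980, .ofNat 498⟩, ⟨.ofNat 3206, .ofNat 115, .ofNat 88, .negSucc 1017, .negSucc 625, .negSucc 309⟩, ⟨.ofNat 3529, .ofNat 229, .negSucc 276, .negSucc 915, .negSucc 857, .negSucc 424⟩, ⟨.negSucc 8354, .negSucc 134, .ofNat 118, .ofNat 2013, .ofNat 1180, .ofNat 783⟩, ⟨.negSucc 1212, .ofNat 67, .negSucc 83, .negSucc 429, .negSucc 343, .ofNat 115⟩, .ofNat 2037, .ofNat 2782, .ofNat 0, .ofNat 2782, .ofNat 4591, .ofNat 0, .ofNat 128, .negSucc 1307, .negSucc 1717, .ofNat 0, .ofNat 855, .ofNat 1078, .ofNat 0, .ofNat 0, .ofNat 1747, .ofNat 3062, .ofNat 0, .ofNat 0, .ofNat 25487024638897926713688466939998157930496,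 .ofNat 0, .ofNat 0, .ofNat 0, .ofNat 6713334732383871616077332294233763128279040, .ofNat 0, .ofNat 0, .ofNat 0, .ofNat 18947925805587088523419367795549770986029056, .ofNat 0, .ofNat 0, .ofNat 0, .ofNat 0, .ofNat 0⟩)
    (by decide +kernel)
theorem L05379 : Good (Phi V5.P V5.D (-1) (-1)) ⟨6, 56, 4, 9, 3, 7, 2, 1, 5, 4⟩ :=
  leafX_sound T5.ok_mm T5.Ymm.bz_eq (w := 243) (c := ⟨⟨.negSucc 3704, .negSucc 152, .ofNat 258, .ofNat 805, .ofNat 1044, .ofNat 376⟩, ⟨.ofNat 2218, .ofNat 91, .negSucc 38, .negSucc 502, .negSucc 663, .negSucc 230⟩, ⟨.ofNat 2539, .ofNat 116, .negSucc 148, .negSucc 181, .negSucc 1033, .negSucc 369⟩, ⟨.negSucc 6413, .negSucc 102, .ofNat 242, .ofNat 1301, .ofNat 1520, .ofNat 672⟩, ⟨.negSucc 1856, .ofNat 80, .negSucc 82, .ofNat 246, .ofNat 48, .ofNat 218⟩, .ofNat 2365, .ofNat 3247, .ofNat 0, .ofNat 3247, .ofNat 5255, .ofNat 0, .ofNat 128, .negSucc 670,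 .negSucc 814, .ofNat 0, .ofNat 447, .ofNat 498, .ofNat 0, .ofNat 0, .ofNat 959, .ofNat 4138, .ofNat 0, .ofNat 0, .ofNat 12356818191328035583649693583405083525120, .ofNat 0, .ofNat 0, .ofNat 0, .ofNat 12055366697843419735966250428293849947308032, .ofNat 0, .ofNat 0, .ofNat 0, .ofNat 4075068282055835688557501308152989425336320, .ofNat 0, .ofNat 0, .ofNat 0, .ofNat 1648741209330951352785127241808654125498368, .ofNat 0⟩)
    (by decide +kernel)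
theorem L05380 : Good (Phi V5.P V5.D (-1) (-1)) ⟨6, 57, 4, 9, 2, 3, 2, 1, 5, 4⟩ :=
  out_sound (S := T5.ds_mm) T5.ok_mm (w := 65) (j := 3) (by decide +kernel)
theorem L05381 : Good (Phi V5.P V5.D (-1) (-1)) ⟨6, 56, 4, 8, 2, 3, 2, 1, 5, 5⟩ :=
  out_sound (S := T5.ds_mm) T5.ok_mm (w := 65) (j := 3) (by decide +kernel)
theorem L05382 : Good (Phi V5.P V5.D (-1) (-1)) ⟨6, 56, 4, 9, 2, 3, 2, 1, 5, 5⟩ :=
  leafX_sound T5.ok_mm T5.Ymm.bz_eq (w := 228) (c := ⟨⟨.negSucc 4125, .ofNat 55, .negSucc 71, .ofNat 1996, .ofNat 766, .ofNat 409⟩, ⟨.ofNat 2476, .negSucc 51, .ofNat 193, .negSucc 1258, .negSucc 488, .negSucc 254⟩, ⟨.ofNat 2615, .ofNat 36, .negSucc 84, .negSucc 914, .negSucc 810, .negSucc 336⟩, ⟨.negSucc 6971, .ofNat 31, .negSucc 19, .ofNat 2994, .ofNat 1070, .ofNat 721⟩, ⟨.negSucc 1715, .negSucc 109, .ofNat 151, .ofNat 224, .negSucc 40, .ofNat 216⟩, .ofNat 2051, .ofNat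 2801, .ofNat 0, .ofNat 2801, .ofNat 4612, .ofNat 0, .ofNat 128, .negSucc 713, .negSucc 592, .ofNat 0, .ofNat 479, .ofNat 365, .ofNat 0, .ofNat 0, .ofNat 990, .ofNat 2531, .ofNat 0, .ofNat 0, .ofNat 792119704731348178011449483014963200, .ofNat 0, .ofNat 0, .ofNat 0, .ofNat 148738286917720468793502843484491481088, .ofNat 0, .ofNat 0, .ofNat 0, .ofNat 1326868833680909356287123428832754794496, .ofNat 0, .ofNat 0, .ofNat 0, .ofNat 0, .ofNat 0⟩)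
    (by decide +kernel)
theorem L05383 : Good (Phi V5.P V5.D (-1) (-1)) ⟨6, 57, 3, 4, 2, 3, 2, 1, 5, 5⟩ :=
  out_sound (S := T5.ds_mm) T5.ok_mm (w := 63) (j := 3) (by decide +kernel)
theorem L05384 : Good (Phi V5.P V5.D (-1) (-1)) ⟨5, 29, 3, 4, 2, 3, 2, 1, 4, 2⟩ :=
  out_sound (S := T5.ds_mm) T5.ok_mm (w := 57) (j := 3) (by decide +kernel)
theorem L05385 : Good (Phi V5.P V5.D (-1) (-1)) ⟨4, 15, 3, 4, 2, 3, 2, 1, 4, 2⟩ :=
  out_sound (S := T5.ds_mm) T5.ok_mm (w := 51) (j := 3) (by decide +kernel)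
theorem L05386 : Good (Phi V5.P V5.D (-1) (-1)) ⟨2, 2, 3, 4, 2, 3, 2, 1, 4, 3⟩ :=
  out_sound (S := T5.ds_mm) T5.ok_mm (w := 39) (j := 3) (by decide +kernel)
theorem L05387 : Good (Phi V5.P V5.D (-1) (-1)) ⟨4, 12, 3, 4, 2, 3, 2, 1, 4, 3⟩ :=
  out_sound (S := T5.ds_mm) T5.ok_mm (w := 51) (j := 3) (by decide +kernel)
theorem L05388 : Good (Phi V5.P V5.D (-1) (-1)) ⟨4, 13, 3, 4, 3, 6, 2, 1, 4, 3⟩ :=
  leafX_sound T5.ok_mm T5.Ymm.bz_eq (w := 225) (c := ⟨⟨.negSucc 3354, .negSucc 10, .negSucc 42, .ofNat 738, .ofNat 426, .ofNat 722⟩, ⟨.ofNat 1817, .ofNat 33, .ofNat 276, .negSucc 440, .negSucc 236, .negSucc 416⟩, ⟨.ofNat 2083, .ofNat 92, .negSucc 127, .negSucc 496, .negSucc 699, .negSucc 608⟩, ⟨.negSucc 5848, .ofNat 164, .negSucc 169, .ofNat 1011, .ofNat 704, .ofNat 1195⟩, ⟨.negSucc 1324, .negSucc 119, .negSucc 33, .negSucc 122, .ofNat 100, .ofNat 217⟩, .ofNat 746, .ofNat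 824, .ofNat 0, .ofNat 824, .ofNat 1621, .ofNat 0, .ofNat 128, .negSucc 441, .negSucc 129, .ofNat 0, .ofNat 324, .ofNat 74, .ofNat 0, .ofNat 0, .ofNat 405, .ofNat 2538, .ofNat 0, .ofNat 0, .ofNat 0, .ofNat 0, .ofNat 0, .ofNat 0, .ofNat 188854240765057286352469733072995778297856, .ofNat 0, .ofNat 0, .ofNat 0, .ofNat 0, .ofNat 0, .ofNat 0, .ofNat 0, .ofNat 187052503172798490460110607152278046507008, .ofNat 0⟩)
    (by decide +kernel)
theorem L05389 : Good (Phi V5.P V5.D (-1) (-1)) ⟨4, 13, 3, 4, 3, 7, 2, 1, 4, 3⟩ :=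
  leafX_sound T5.ok_mm T5.Ymm.bz_eq (w := 225) (c := ⟨⟨.negSucc 2531, .ofNat 186, .negSucc 102, .ofNat 592, .ofNat 412, .ofNat 398⟩, ⟨.ofNat 1419, .negSucc 194, .ofNat 307, .negSucc 332, .negSucc 243, .negSucc 225⟩, ⟨.ofNat 1514, .ofNat 55, .negSucc 24, .negSucc 199, .negSucc 720, .negSucc 522⟩, ⟨.negSucc 4758, .ofNat 321, .negSucc 65, .ofNat 1231, .ofNat 727, .ofNat 831⟩, ⟨.negSucc 1689, .negSucc 141, .ofNat 261, .ofNat 633, .ofNat 217, .ofNat 430⟩, .ofNat 1558, .ofNat 2146, .ofNat 0, .ofNat 2146, .ofNat 3839, .ofNat 0, .ofNat 128, .negSucc 730, .negSucc 124, .ofNat 0, .ofNat 511, .ofNat 60, .ofNat 0, .ofNat 0, .ofNat 775, .ofNat 1580, .ofNat 0, .ofNat 0, .ofNat 1081902143331974242687792521749595160576, .ofNat 0, .ofNat 0, .ofNat 0, .ofNat 505294414814895623604641724365077399732224, .ofNat 0, .ofNat 0, .ofNat 0, .ofNat 0, .ofNat 0, .ofNat 0, .ofNat 0, .ofNat 26929631906897431345242426533869074251776,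 .ofNat 0⟩)
    (by decide +kernel)
theorem L05390 : Good (Phi V5.P V5.D (-1) (-1)) ⟨5, 28, 3, 4, 2, 3, 3, 2, 4, 3⟩ :=
  leafX_sound T5.ok_mm T5.Ymm.bz_eq (w := 219) (c := ⟨⟨.negSucc 3483, .negSucc 249, .ofNat 174, .ofNat 1432, .ofNat 241, .ofNat 647⟩, ⟨.ofNat 1929, .ofNat 117, .ofNat 177, .negSucc 897, .negSucc 152, .negSucc 406⟩, ⟨.ofNat 2130, .ofNat 133, .negSucc 148, .negSucc 648, .negSucc 403, .negSucc 579⟩, ⟨.negSucc 5862, .negSucc 256, .ofNat 179, .ofNat 2265, .ofNat 334, .ofNat 1066⟩, ⟨.negSucc 1555, .negSucc 73, .ofNat 86, .ofNat 350, .negSucc 18, .ofNat 221⟩, .ofNat 1637, .ofNat 2079, .ofNat 0, .ofNat 2079, .ofNat 3381, .ofNat 0, .ofNat 128, .negSucc 515, .negSucc 218, .ofNat 0, .ofNat 403, .ofNat 135, .ofNat 0, .ofNat 0, .ofNat 753, .ofNat 2013, .ofNat 0, .ofNat 0, .ofNat 0, .ofNat 0, .ofNat 0, .ofNat 0, .ofNat 118302994093076217127753548926883463168,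 .ofNat 0, .ofNat 0, .ofNat 0, .ofNat 23983684598236640816948904504378523648, .ofNat 0, .ofNat 0, .ofNat 0, .ofNat 230484087764929288319082918065597317120, .ofNat 0⟩)
    (by decide +kernel)
theorem L05391 : Good (Phi V5.P V5.D (-1) (-1)) ⟨5, 28, 3, 4, 2, 3, 3, 3, 4, 3⟩ :=
  leafX_sound T5.ok_mm T5.Ymm.bz_eq (w := 219) (c := ⟨⟨.negSucc 3163, .negSucc 204, .ofNat 142, .ofNat 1451, .ofNat 228, .ofNat 477⟩, ⟨.ofNat 1761, .ofNat 105, .ofNat 156, .negSucc 911, .negSucc 143, .negSucc 296⟩, ⟨.ofNat 1433, .negSucc 44, .ofNat 222, .negSucc 697, .negSucc 341, .negSucc 568⟩, ⟨.negSucc 5540, .negSucc 54, .ofNat 232, .ofNat 2322, .ofNat 364, .ofNat 908⟩, ⟨.negSucc 1834, .ofNat 105, .ofNat 318, .ofNat 398, .ofNat 59, .ofNat 355⟩, .ofNat 1694, .ofNat 2164, .ofNat 0, .ofNat 2164, .ofNat 3509, .ofNat 0, .ofNat 128, .negSucc 660, .negSucc 231, .ofNat 0, .ofNat 504, .ofNat 138, .ofNat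 0, .ofNat 0, .ofNat 881, .ofNat 949, .ofNat 0, .ofNat 0, .ofNat 2063339323123444111456393113953632256, .ofNat 0, .ofNat 0, .ofNat 0, .ofNat 100629740991614257415036563666078007296, .ofNat 0, .ofNat 0, .ofNat 0, .ofNat 64738409586579947392989401030208782336, .ofNat 0, .ofNat 0, .ofNat 0, .ofNat 0, .ofNat 0⟩)
    (by decide +kernel)
theorem L05392 : Good (Phi V5.P V5.D (-1) (-1)) ⟨5, 29, 3, 4, 2, 3, 2, 1, 4, 3⟩ :=
  out_sound (S := T5.ds_mm) T5.ok_mm (w := 57) (j := 3) (by decide +kernel)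
theorem L05393 : Good (Phi V5.P V5.D (-1) (-1)) ⟨4, 15, 3, 4, 2, 3, 2, 1, 4, 3⟩ :=
  out_sound (S := T5.ds_mm) T5.ok_mm (w := 51) (j := 3) (by decide +kernel)
theorem L05394 : Good (Phi V5.P V5.D (-1) (-1)) ⟨2, 2, 4, 10, 2, 3, 2, 1, 3, 0⟩ :=
  out_sound (S := T5.ds_mm) T5.ok_mm (w := 41) (j := 3) (by decide +kernel)
theorem L05395 : Good (Phi V5.P V5.D (-1) (-1)) ⟨3, 6, 4, 10, 3, 6, 2, 1, 4, 0⟩ :=
  out_sound (S := T5.ds_mm) T5.ok_mm (w := 47) (j := 3) (by decide +kernel)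
theorem L05396 : Good (Phi V5.P V5.D (-1) (-1)) ⟨4, 14, 4, 10, 3, 6, 2, 1, 4, 0⟩ :=
  leafX_sound T5.ok_mm T5.Ymm.bz_eq (w := 229) (c := ⟨⟨.ofNat 3781, .ofNat 610, .negSucc 199, .negSucc 913, .negSucc 566, .negSucc 260⟩, ⟨.negSucc 2434, .negSucc 361, .negSucc 5, .ofNat 607, .ofNat 372, .ofNat 165⟩, ⟨.negSucc 1594, .ofNat 416, .negSucc 10, .ofNat 1367, .negSucc 307, .negSucc 287⟩, ⟨.ofNat 5536, .ofNat 260, .negSucc 75, .ofNat 142, .negSucc 647, .negSucc 1684⟩, ⟨.ofNat 155, .negSucc 11, .ofNat 151, .ofNat 2174, .ofNat 233, .negSucc 1950⟩, .ofNat 1729, .ofNat 2154, .ofNat 0, .ofNat 2154, .ofNat 3337, .ofNat 0, .ofNat 128, .negSucc 831, .negSucc 1211, .ofNat 0, .ofNat 562, .ofNat 793, .ofNat 0, .ofNat 0, .ofNat 1055, .ofNat 633, .ofNat 0, .ofNat 0, .ofNat 9676733534144974076425301534056502001664, .ofNat 422243697388077009744243217214738661291912593408, .ofNat 0, .ofNat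 0, .ofNat 1641140221992987010306366918362610968559616, .ofNat 0, .ofNat 0, .ofNat 0, .ofNat 0, .ofNat 175075977571340271178395878721793240921722975158272, .ofNat 0, .ofNat 0, .ofNat 495702296542942434819106971851427200106496, .ofNat 88255229255954167257300656288619971609714099224576⟩)
    (by decide +kernel)
theorem L05397 : Good (Phi V5.P V5.D (-1) (-1)) ⟨4, 15, 4, 10, 3, 6, 2, 1, 4, 0⟩ :=
  out_sound (S := T5.ds_mm) T5.ok_mm (w := 53) (j := 3) (by decide +kernel)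
theorem L05398 : Good (Phi V5.P V5.D (-1) (-1)) ⟨3, 6, 4, 10, 3, 6, 2, 1, 4, 1⟩ :=
  out_sound (S := T5.ds_mm) T5.ok_mm (w := 47) (j := 3) (by decide +kernel)
theorem L05399 : Good (Phi V5.P V5.D (-1) (-1)) ⟨6, 56, 4, 10, 3, 6, 2, 1, 5, 2⟩ :=
  leafX_sound T5.ok_mm T5.Ymm.bz_eq (w := 244) (c := ⟨⟨.ofNat 2259, .ofNat 655, .negSucc 323, .negSucc 717, .negSucc 322, .negSucc 3578⟩, ⟨.negSucc 1458, .negSucc 478, .ofNat 278, .ofNat 477, .ofNat 216, .ofNat 2309⟩, ⟨.negSucc 844, .negSucc 758, .ofNat 647, .ofNat 938, .negSucc 187, .ofNat 1898⟩, ⟨.ofNat 2263, .ofNat 802, .negSucc 336, .negSucc 219, .negSucc 138, .negSucc 5912⟩, ⟨.negSucc 1412, .negSucc 193, .ofNat 252, .ofNat 1187, .ofNat 483, .negSucc 1313⟩, .ofNat 2354, .ofNat 3216, .ofNat 0, .ofNat 3216, .ofNat 5153, .ofNat 0, .ofNat 128, .negSucc 631, .negSucc 2036, .ofNat 0, .ofNat 411, .ofNat 1296, .ofNat 0, .ofNat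 0, .ofNat 1497, .ofNat 1269, .ofNat 0, .ofNat 0, .ofNat 46543778777087800316066784105541083856896, .ofNat 0, .ofNat 0, .ofNat 0, .ofNat 0, .ofNat 0, .ofNat 0, .ofNat 0, .ofNat 11264443965018680831105416661981760172589056, .ofNat 0, .ofNat 0, .ofNat 0, .ofNat 7098463665585196834693511659752893460774912, .ofNat 0⟩)
    (by decide +kernel)
theorem L05400 : Good (Phi V5.P V5.D (-1) (-1)) ⟨6, 56, 4, 10, 3, 6, 2, 1, 6, 6⟩ :=
  leafX_sound T5.ok_mm T5.Ymm.bz_eq (w := 253) (c := ⟨⟨.negSucc 2668, .negSucc 290, .ofNat 232, .ofNat 840, .ofNat 506, .negSucc 1390⟩, ⟨.ofNat 1670, .ofNat 238, .negSucc 53, .negSucc 547, .negSucc 326, .ofNat 901⟩, ⟨.ofNat 1934, .negSucc 72, .ofNat 152, .negSucc 308, .negSucc 514, .ofNat 787⟩, ⟨.negSucc 4968, .negSucc 231, .ofNat 56, .ofNat 1231, .ofNat 657, .negSucc 2020⟩, ⟨.negSucc 1731, .ofNat 45, .negSucc 187, .ofNat 69, .negSucc 82, .negSucc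 85⟩, .ofNat 5109, .ofNat 7422, .ofNat 0, .ofNat 7422, .ofNat 11592, .ofNat 0, .ofNat 128, .negSucc 1105, .negSucc 3598, .ofNat 0, .ofNat 724, .ofNat 2327, .ofNat 0, .ofNat 0, .ofNat 2750, .ofNat 3188, .ofNat 0, .ofNat 0, .ofNat 0, .ofNat 0, .ofNat 0, .ofNat 0, .ofNat 1687639055271620851221008478616172820015611904, .ofNat 0, .ofNat 0, .ofNat 0, .ofNat 519271548590486757037442977739182735106244608, .ofNat 0, .ofNat 0, .ofNat 0, .ofNat 0, .ofNat 0⟩)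
    (by decide +kernel)
theorem L05401 : Good (Phi V5.P V5.D (-1) (-1)) ⟨6, 56, 4, 10, 3, 6, 2, 1, 6, 7⟩ :=
  leafX_sound T5.ok_mm T5.Ymm.bz_eq (w := 250) (c := ⟨⟨.negSucc 4846, .negSucc 297, .ofNat 233, .ofNat 1736, .ofNat 994, .negSucc 322⟩, ⟨.ofNat 3106, .ofNat 181, .ofNat 42, .negSucc 1130, .negSucc 647, .ofNat 208⟩, ⟨.ofNat 3258, .negSucc 201, .ofNat 284, .negSucc 924, .negSucc 793, .ofNat 115⟩, ⟨.negSucc 7806, .negSucc 254, .ofNat 142, .ofNat 2183, .ofNat 1149, .negSucc 438⟩, ⟨.negSucc 1376, .ofNat 81, .negSucc 145, .negSucc 420, .negSucc 390, .ofNat 37⟩, .ofNat 2345, .ofNat 3204, .ofNat 0, .ofNat 3204, .ofNat 5141, .ofNat 0, .ofNat 128, .negSucc 819, .negSucc 2417, .ofNat 0, .ofNat 539, .ofNat 1548, .ofNat 0, .ofNat 0, .ofNat 1949, .ofNat 3761, .ofNat 0, .ofNat 0, .ofNat 0, .ofNat 0, .ofNat 0, .ofNat 0, .ofNat 384345373316791678428545099738119455681544192,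 .ofNat 0, .ofNat 0, .ofNat 0, .ofNat 1120781663466359790113999171645126746711261184, .ofNat 0, .ofNat 0, .ofNat 0, .ofNat 717587231138727492783568061691159323277787136, .ofNat 0⟩)
    (by decide +kernel)
theorem L05402 : Good (Phi V5.P V5.D (-1) (-1)) ⟨7, 114, 4, 10, 3, 6, 2, 1, 5, 2⟩ :=
  leafX_sound T5.ok_mm T5.Ymm.bz_eq (w := 249) (c := ⟨⟨.ofNat 2924, .ofNat 49, .ofNat 68, .negSucc 811, .negSucc 476, .negSucc 3827⟩, ⟨.negSucc 1883, .ofNat 36, .negSucc 159, .ofNat 531, .ofNat 316, .ofNat 2544⟩, ⟨.negSucc 1428, .negSucc 76, .ofNat 137, .ofNat 948, .negSucc 111, .ofNat 2076⟩, ⟨.ofNat 3043, .ofNat 132, .ofNat 68, .negSucc 204, .negSucc 302, .negSucc 6321⟩, ⟨.negSucc 1629, .ofNat 84, .ofNat 64, .ofNat 1361, .ofNat 552, .negSucc 1425⟩, .ofNat 2280, .ofNat 3037, .ofNat 0, .ofNat 3037, .ofNat 4765, .ofNat 0, .ofNat 128, .negSucc 705, .negSucc 2949, .ofNat 0, .ofNat 468,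 .ofNat 1915, .ofNat 0, .ofNat 0, .ofNat 2109, .ofNat 1343, .ofNat 0, .ofNat 0, .ofNat 20928615165527221782526472447953828052992, .ofNat 0, .ofNat 0, .ofNat 0, .ofNat 4352630072225492489639933928537911478714368, .ofNat 28257286442658262329468255799265782435221438390599680, .ofNat 0, .ofNat 0, .ofNat 5047514328524671590121700240813954030370816, .ofNat 788958833145818018778740268577358305264146950433800192, .ofNat 0, .ofNat 0, .ofNat 0, .ofNat 0⟩)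
    (by decide +kernel)
theorem L05403 : Good (Phi V5.P V5.D (-1) (-1)) ⟨7, 115, 4, 10, 3, 6, 2, 1, 5, 2⟩ :=
  out_sound (S := T5.ds_mm) T5.ok_mm (w := 21) (j := 4) (by decide +kernel)
theorem L05404 : Good (Phi V5.P V5.D (-1) (-1)) ⟨6, 57, 4, 10, 3, 6, 2, 1, 6, 6⟩ :=
  leafX_sound T5.ok_mm T5.Ymm.bz_eq (w := 249) (c := ⟨⟨.negSucc 2909, .ofNat 223, .ofNat 271, .ofNat 901, .ofNat 591, .negSucc 1563⟩, ⟨.ofNat 1874, .negSucc 113, .negSucc 81, .negSucc 604, .negSucc 390, .ofNat 1038⟩, ⟨.ofNat 1972, .negSucc 141, .negSucc 169, .negSucc 317, .negSucc 577, .ofNat 850⟩, ⟨.negSucc 5222, .ofNat 258, .ofNat 318, .ofNat 1355, .ofNat 818, .negSucc 2297⟩, ⟨.negSucc 1707, .negSucc 82, .negSucc 95, .ofNat 118, .negSucc 1, .negSucc 150⟩, .ofNat 1566, .ofNat 1993, .ofNat 0, .ofNat 1993, .ofNat 3223, .ofNat 0, .ofNat 128, .negSucc 726, .negSucc 2345, .ofNat 0, .ofNat 482, .ofNat 1505,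 .ofNat 0, .ofNat 0, .ofNat 1676, .ofNat 2528, .ofNat 0, .ofNat 0, .ofNat 0, .ofNat 0, .ofNat 0, .ofNat 0, .ofNat 184623748978382915193909647034458167662608384, .ofNat 59196894435147504703390697412337600992096898082930688, .ofNat 0, .ofNat 0, .ofNat 0, .ofNat 5559811437834785091061268486482948219353660925090463744, .ofNat 0, .ofNat 0, .ofNat 58970464420425082660768629298454220242944000, .ofNat 12456768425604888814621452072494313531888551654649233408⟩)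
    (by decide +kernel)
theorem L05405 : Good (Phi V5.P V5.D (-1) (-1)) ⟨7, 114, 4, 10, 3, 6, 2, 1, 6, 7⟩ :=
  leafX_sound T5.ok_mm T5.Ymm.bz_eq (w := 250) (c := ⟨⟨.negSucc 5077, .negSucc 65, .ofNat 210, .ofNat 1760, .ofNat 922, .negSucc 372⟩, ⟨.ofNat 3265, .ofNat 34, .ofNat 55, .negSucc 1176, .negSucc 614, .ofNat 249⟩, ⟨.ofNat 2972, .negSucc 209, .ofNat 406, .negSucc 968, .negSucc 747, .ofNat 140⟩, ⟨.negSucc 7958, .ofNat 102, .negSucc 93, .ofNat 2312, .ofNat 1114, .negSucc 503⟩, ⟨.negSucc 1547, .ofNat 6, .ofNat 2, .negSucc 253, .negSucc 251, .ofNat 35⟩, .ofNat 938, .ofNat 1065, .ofNat 0, .ofNat 1065, .ofNat 1821, .ofNat 0, .ofNat 128, .negSucc 511, .negSucc 1288, .ofNat 0, .ofNat 342, .ofNat 805, .ofNat 0, .ofNat 0, .ofNat 952, .ofNat 1656, .ofNat 0, .ofNat 0, .ofNat 314773751626633449222299475175651984539648, .ofNat 0, .ofNat 0, .ofNat 0, .ofNat 24675130553762839657446035007041011437273088,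 .ofNat 0, .ofNat 0, .ofNat 0, .ofNat 42519640040474128438647862043268173791232000, .ofNat 0, .ofNat 0, .ofNat 0, .ofNat 114596966590779039200915126539144629147664384, .ofNat 6687716501421188680358160358270402970750486916890624000⟩)
    (by decide +kernel)
theorem L05406 : Good (Phi V5.P V5.D (-1) (-1)) ⟨7, 115, 4, 10, 3, 6, 2, 1, 6, 7⟩ :=
  out_sound (S := T5.ds_mm) T5.ok_mm (w := 21) (j := 4) (by decide +kernel)
theorem L05407 : Good (Phi V5.P V5.D (-1) (-1)) ⟨5, 29, 4, 10, 3, 6, 2, 1, 4, 1⟩ :=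
  out_sound (S := T5.ds_mm) T5.ok_mm (w := 59) (j := 3) (by decide +kernel)
theorem L05408 : Good (Phi V5.P V5.D (-1) (-1)) ⟨4, 15, 4, 10, 3, 6, 2, 1, 4, 1⟩ :=
  out_sound (S := T5.ds_mm) T5.ok_mm (w := 53) (j := 3) (by decide +kernel)
theorem L05409 : Good (Phi V5.P V5.D (-1) (-1)) ⟨3, 6, 4, 10, 3, 7, 2, 1, 3, 0⟩ :=
  out_sound (S := T5.ds_mm) T5.ok_mm (w := 47) (j := 3) (by decide +kernel)
theorem L05410 : Good (Phi V5.P V5.D (-1) (-1)) ⟨6, 56, 5, 20, 4, 14, 2, 1, 4, 0⟩ :=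
  leafX_sound T5.ok_mm T5.Ymm.bz_eq (w := 260) (c := ⟨⟨.ofNat 3118, .negSucc 154, .ofNat 201, .ofNat 357, .negSucc 172, .negSucc 1225⟩, ⟨.negSucc 1982, .ofNat 100, .negSucc 196, .negSucc 222, .ofNat 116, .ofNat 784⟩, ⟨.negSucc 311, .ofNat 223, .negSucc 122, .ofNat 256, .negSucc 527, .ofNat 148⟩, ⟨.ofNat 6050, .negSucc 114, .ofNat 468, .ofNat 1142, .negSucc 311, .negSucc 3261⟩, ⟨.ofNat 2524, .ofNat 134, .ofNat 292, .ofNat 988, .negSucc 100, .negSucc 2341⟩, .ofNat 5277, .ofNat 7664, .ofNat 0, .ofNat 7664, .ofNat 11939, .ofNat 0, .ofNat 128, .negSucc 1642, .negSucc 3035, .ofNat 0, .ofNat 1062, .ofNat 1945, .ofNat 0, .ofNat 0, .ofNat 2461, .ofNat 3269, .ofNat 0, .ofNat 0, .ofNat 0, .ofNat 0, .ofNat 0, .ofNat 0, .ofNat 110265199905537873111853492866352108615533330432, .ofNat 0, .ofNat 0, .ofNat 0, .ofNat 0, .ofNat 0, .ofNat 0, .ofNat 0, .ofNat 0, .ofNat 0⟩)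
    (by decide +kernel)
theorem L05411 : Good (Phi V5.P V5.D (-1) (-1)) ⟨6, 56, 5, 21, 4, 14, 2, 1, 4, 0⟩ :=
  leafX_sound T5.ok_mm T5.Ymm.bz_eq (w := 267) (c := ⟨⟨.ofNat 3087, .ofNat 2, .ofNat 657, .ofNat 567, .negSucc 214, .negSucc 1100⟩, ⟨.negSucc 2031, .negSucc 0, .negSucc 546, .negSucc 368, .ofNat 144, .ofNat 717⟩, ⟨.negSucc 159, .ofNat 0, .ofNat 230, .ofNat 165, .negSucc 541, .ofNat 83⟩, ⟨.ofNat 6069, .ofNat 3, .ofNat 223, .ofNat 1018, .negSucc 448, .negSucc 2307⟩, ⟨.ofNat 2597, .ofNat 1, .negSucc 115, .ofNat 345, .negSucc 223, .negSucc 1152⟩, .ofNat 14675, .ofNat 21728, .ofNat 0, .ofNat 21728, .ofNat 32977, .ofNat 0, .ofNat 128, .negSucc 7091, .negSucc 11388, .ofNat 0, .ofNat 4682, .ofNat 7494, .ofNat 0, .ofNat 0, .ofNat 9203, .ofNat 14248, .ofNat 0, .ofNat 0, .ofNat 4243762357098832803381546981393426573783203840, .ofNat 0, .ofNat 0, .ofNat 0, .ofNat 1793460618348258958027608430912407458553985499136,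 .ofNat 0, .ofNat 0, .ofNat 0, .ofNat 7210852536941675676338374392564332577957026463744, .ofNat 0, .ofNat 0, .ofNat 0, .ofNat 3804092715947075441512633885767902049413328011264, .ofNat 0⟩)
    (by decide +kernel)
theorem L05412 : Good (Phi V5.P V5.D (-1) (-1)) ⟨7, 114, 5, 20, 4, 14, 2, 1, 4, 0⟩ :=
  leafX_sound T5.ok_mm T5.Ymm.bz_eq (w := 271) (c := ⟨⟨.ofNat 3087, .negSucc 0, .ofNat 6, .ofNat 533, .negSucc 86, .negSucc 1120⟩, ⟨.negSucc 1936, .ofNat 1, .negSucc 97, .negSucc 344, .ofNat 58, .ofNat 728⟩, ⟨.negSucc 159, .ofNat 0, .ofNat 29, .ofNat 164, .negSucc 626, .ofNat 63⟩, ⟨.ofNat 5959, .negSucc 2, .ofNat 5, .ofNat 859, .ofNat 77, .negSucc 2259⟩, ⟨.ofNat 2439, .negSucc 0, .ofNat 1, .ofNat 174, .ofNat 300, .negSucc 1039⟩, .ofNat 14066, .ofNat 20812, .ofNat 0, .ofNat 20812, .ofNat 31596, .ofNat 0, .ofNat 128, .negSucc 10728, .negSucc 13121, .ofNat 0, .ofNat 7082, .ofNat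 8631, .ofNat 0, .ofNat 0, .ofNat 10736, .ofNat 22199, .ofNat 0, .ofNat 0, .ofNat 0, .ofNat 0, .ofNat 0, .ofNat 0, .ofNat 13082681930812576068582982426994753575254591799296, .ofNat 0, .ofNat 0, .ofNat 0, .ofNat 0, .ofNat 0, .ofNat 0, .ofNat 0, .ofNat 1493138748091141960640283645756219228689069506560, .ofNat 0⟩)
    (by decide +kernel)
theorem L05413 : Good (Phi V5.P V5.D (-1) (-1)) ⟨7, 114, 5, 21, 4, 14, 2, 1, 4, 0⟩ :=
  leafX_sound T5.ok_mm T5.Ymm.bz_eq (w := 267) (c := ⟨⟨.ofNat 3094, .ofNat 127, .negSucc 5, .ofNat 615, .negSucc 297, .negSucc 1026⟩, ⟨.negSucc 2040, .negSucc 120, .negSucc 30, .negSucc 404, .ofNat 197, .ofNat 680⟩, ⟨.negSucc 94, .negSucc 567, .ofNat 535, .ofNat 102, .negSucc 516, .ofNat 1⟩, ⟨.ofNat 6125, .ofNat 271, .ofNat 131, .ofNat 1465, .negSucc 345, .negSucc 2745⟩, ⟨.ofNat 2668, .ofNat 148, .ofNat 189, .ofNat 909, .ofNat 108, .negSucc 1944⟩,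 .ofNat 8455, .ofNat 12236, .ofNat 0, .ofNat 12236, .ofNat 18480, .ofNat 0, .ofNat 128, .negSucc 2876, .negSucc 5533, .ofNat 0, .ofNat 1914, .ofNat 3667, .ofNat 0, .ofNat 0, .ofNat 4214, .ofNat 4499, .ofNat 0, .ofNat 0, .ofNat 571952382467354965881279655469185014811328512, .ofNat 133267815929906234722915608210986205173897974145118896128, .ofNat 0, .ofNat 0, .ofNat 206387380254948363140973404069980202263845535744, .ofNat 0, .ofNat 0, .ofNat 0, .ofNat 192512219092769018505852913328835645735981547520, .ofNat 45655198471181948116478591042764525841513359218665737682944, .ofNat 0, .ofNat 0, .ofNat 133475406232322195622725890688279413180982099968, .ofNat 58804681343730664111629340243796751236205899561909050408960⟩)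
    (by decide +kernel)
theorem L05414 : Good (Phi V5.P V5.D (-1) (-1)) ⟨7, 115, 4, 10, 4, 14, 2, 1, 4, 0⟩ :=
  out_sound (S := T5.ds_mm) T5.ok_mm (w := 21) (j := 4) (by decide +kernel)
theorem L05415 : Good (Phi V5.P V5.D (-1) (-1)) ⟨5, 29, 4, 10, 4, 14, 2, 1, 4, 0⟩ :=
  out_sound (S := T5.ds_mm) T5.ok_mm (w := 59) (j := 3) (by decide +kernel)
theorem L05416 : Good (Phi V5.P V5.D (-1) (-1)) ⟨6, 56, 6, 40, 4, 15, 2, 1, 4, 0⟩ :=
  leafX_sound T5.ok_mm T5.Ymm.bz_eq (w := 265) (c := ⟨⟨.ofNat 3727, .ofNat 476, .negSucc 25, .ofNat 637, .negSucc 742, .negSucc 2060⟩, ⟨.negSucc 2389, .negSucc 253, .negSucc 37, .negSucc 395, .ofNat 488, .ofNat 1311⟩, ⟨.negSucc 2, .negSucc 296, .ofNat 63, .ofNat 122, .negSucc 309, .ofNat 449⟩, ⟨.ofNat 8100, .ofNat 505, .ofNat 309, .ofNat 633, .negSucc 1199, .negSucc 4807⟩, ⟨.ofNat 4272, .negSucc 106, .ofNat 475, .negSucc 394, .negSucc 214,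 .negSucc 2905⟩, .ofNat 4793, .ofNat 6970, .ofNat 0, .ofNat 6970, .ofNat 10953, .ofNat 0, .ofNat 128, .negSucc 2806, .negSucc 5533, .ofNat 0, .ofNat 1793, .ofNat 3486, .ofNat 0, .ofNat 0, .ofNat 3753, .ofNat 3026, .ofNat 0, .ofNat 0, .ofNat 0, .ofNat 0, .ofNat 0, .ofNat 0, .ofNat 161084614567196459698369105270302732585621520384, .ofNat 0, .ofNat 0, .ofNat 0, .ofNat 0, .ofNat 0, .ofNat 0, .ofNat 0, .ofNat 0, .ofNat 0⟩)
    (by decide +kernel)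
theorem L05417 : Good (Phi V5.P V5.D (-1) (-1)) ⟨7, 112, 6, 41, 4, 15, 2, 1, 4, 0⟩ :=
  out_sound (S := T5.ds_mm) T5.ok_mm (w := 75) (j := 3) (by decide +kernel)
theorem L05418 : Good (Phi V5.P V5.D (-1) (-1)) ⟨7, 113, 6, 41, 4, 15, 2, 1, 4, 0⟩ :=
  leafX_sound T5.ok_mm T5.Ymm.bz_eq (w := 270) (c := ⟨⟨.ofNat 3537, .ofNat 633, .negSucc 49, .ofNat 757, .negSucc 819, .negSucc 1295⟩, ⟨.negSucc 2305, .negSucc 383, .negSucc 31, .negSucc 490, .ofNat 548, .ofNat 853⟩, ⟨.negSucc 25, .negSucc 36, .negSucc 73, .ofNat 106, .negSucc 302, .ofNat 83⟩, ⟨.ofNat 8068, .ofNat 617, .ofNat 265, .ofNat 1104, .negSucc 1477, .negSucc 3697⟩, ⟨.ofNat 4569, .negSucc 196, .ofNat 372, .ofNat 72, .negSucc 469, .negSucc 2821⟩, .ofNat 5777, .ofNat 8379, .ofNat 0, .ofNat 8379, .ofNat 12951, .ofNat 0, .ofNat 128, .negSucc 2824, .negSucc 6767, .ofNat 0, .ofNat 1834, .ofNat 4349, .ofNat 0, .ofNat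 0, .ofNat 4444, .ofNat 3536, .ofNat 0, .ofNat 0, .ofNat 0, .ofNat 0, .ofNat 0, .ofNat 0, .ofNat 86998826841352093891749424357364413449814147072, .ofNat 0, .ofNat 0, .ofNat 0, .ofNat 182898700095300593055095466454885574887482589184, .ofNat 0, .ofNat 0, .ofNat 0, .ofNat 115550540715480296719952486216252336534787719168, .ofNat 0⟩)
    (by decide +kernel)
theorem L05419 : Good (Phi V5.P V5.D (-1) (-1)) ⟨6, 57, 5, 20, 4, 15, 2, 1, 4, 0⟩ :=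
  leafX_sound T5.ok_mm T5.Ymm.bz_eq (w := 271) (c := ⟨⟨.ofNat 3980, .negSucc 1, .negSucc 28, .ofNat 1313, .negSucc 778, .negSucc 1477⟩, ⟨.negSucc 2534, .ofNat 1, .negSucc 63, .negSucc 864, .ofNat 516, .ofNat 969⟩, ⟨.negSucc 83, .ofNat 0, .ofNat 20, .negSucc 180, .negSucc 319, .ofNat 185⟩, ⟨.ofNat 7373, .negSucc 2, .ofNat 5, .ofNat 1283, .negSucc 873, .negSucc 1654⟩, ⟨.ofNat 2761, .negSucc 0, .ofNat 0, .negSucc 827, .ofNat 331, .ofNat 613⟩, .ofNat 26860, .ofNat 40080, .ofNat 0, .ofNat 40080, .ofNat 60620, .ofNat 0, .ofNat 128, .negSucc 11079, .negSucc 23794, .ofNat 0, .ofNat 7318, .ofNat 15662, .ofNat 0, .ofNat 0, .ofNat 15856, .ofNat 24240, .ofNat 0, .ofNat 0, .ofNat 621052611848406964723031989410756325023940608, .ofNat 0, .ofNat 0, .ofNat 0, .ofNat 256108318364103859046466054022078104371339234115584, .ofNat 0, .ofNat 0, .ofNat 0, .ofNat 2662469546582197142417803379627490605889430224896,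 .ofNat 0, .ofNat 0, .ofNat 0, .ofNat 3798817369513541202468867007142845972248692523008, .ofNat 0⟩)
    (by decide +kernel)
theorem L05420 : Good (Phi V5.P V5.D (-1) (-1)) ⟨5, 29, 5, 20, 4, 15, 2, 1, 4, 0⟩ :=
  out_sound (S := T5.ds_mm) T5.ok_mm (w := 61) (j := 3) (by decide +kernel)
theorem L05421 : Good (Phi V5.P V5.D (-1) (-1)) ⟨6, 56, 6, 42, 4, 15, 2, 1, 5, 0⟩ :=
  leafX_sound T5.ok_mm T5.Ymm.bz_eq (w := 276) (c := ⟨⟨.ofNat 3989, .ofNat 2, .ofNat 580, .ofNat 750, .negSucc 724, .negSucc 303⟩, ⟨.negSucc 2628, .negSucc 0, .negSucc 470, .negSucc 488, .ofNat 483, .ofNat 201⟩, ⟨.negSucc 73, .ofNat 0, .ofNat 90, .ofNat 99, .negSucc 438, .negSucc 47⟩, ⟨.ofNat 8858, .ofNat 4, .ofNat 364, .ofNat 309, .negSucc 1348, .negSucc 788⟩, ⟨.ofNat 4891, .ofNat 2, .negSucc 220, .negSucc 1113, .negSucc 490, .negSucc 549⟩, .ofNat 14668, .ofNat 21717, .ofNat 0, .ofNat 21717, .ofNat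 32961, .ofNat 0, .ofNat 128, .negSucc 7730, .negSucc 14010, .ofNat 0, .ofNat 5096, .ofNat 9199, .ofNat 0, .ofNat 0, .ofNat 9918, .ofNat 15622, .ofNat 0, .ofNat 0, .ofNat 0, .ofNat 0, .ofNat 0, .ofNat 0, .ofNat 68370869670602404818793963426345937304144056418304, .ofNat 0, .ofNat 0, .ofNat 0, .ofNat 856530012294219934523849154522819024219056556212224, .ofNat 0, .ofNat 0, .ofNat 0, .ofNat 0, .ofNat 0⟩)
    (by decide +kernel)
theorem L05422 : Good (Phi V5.P V5.D (-1) (-1)) ⟨7, 114, 6, 42, 4, 15, 2, 1, 5, 0⟩ :=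
  leafX_sound T5.ok_mm T5.Ymm.bz_eq (w := 277) (c := ⟨⟨.ofNat 3680, .ofNat 171, .ofNat 398, .ofNat 999, .negSucc 450, .negSucc 26⟩, ⟨.negSucc 2423, .negSucc 21, .negSucc 371, .negSucc 657, .ofNat 305, .ofNat 18⟩, ⟨.ofNat 95, .negSucc 158, .negSucc 111, .negSucc 11, .negSucc 599, .negSucc 175⟩, ⟨.ofNat 7974, .ofNat 375, .ofNat 770, .ofNat 1098, .negSucc 732, .negSucc 61⟩, ⟨.ofNat 4205, .ofNat 193, .ofNat 312, .negSucc 436, .negSucc 138, .negSucc 29⟩, .ofNat 12201, .ofNat 17813, .ofNat 0, .ofNat 17813, .ofNat 26788, .ofNat 0, .ofNat 128, .negSucc 3818, .negSucc 7790, .ofNat 0, .ofNat 2538, .ofNat 5152, .ofNat 0, .ofNat 0, .ofNat 5375, .ofNat 5988, .ofNat 0, .ofNat 0, .ofNat 39891075952362234612136131964969870557192388608, .ofNat 67132972067451052776324169549577753251285030790219599708160, .ofNat 0, .ofNat 0, .ofNat 29280890784351868033930200581883485959196604628992,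 .ofNat 0, .ofNat 0, .ofNat 0, .ofNat 0, .ofNat 0, .ofNat 0, .ofNat 0, .ofNat 0, .ofNat 0⟩)
    (by decide +kernel)
theorem L05423 : Good (Phi V5.P V5.D (-1) (-1)) ⟨7, 115, 6, 42, 4, 15, 2, 1, 5, 0⟩ :=
  out_sound (S := T5.ds_mm) T5.ok_mm (w := 75) (j := 3) (by decide +kernel)
theorem L05424 : Good (Phi V5.P V5.D (-1) (-1)) ⟨6, 56, 6, 43, 4, 15, 2, 1, 5, 0⟩ :=
  out_sound (S := T5.ds_mm) T5.ok_mm (w := 69) (j := 3) (by decide +kernel)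
theorem L05425 : Good (Phi V5.P V5.D (-1) (-1)) ⟨8, 228, 6, 43, 4, 15, 2, 1, 5, 0⟩ :=
  out_sound (S := T5.ds_mm) T5.ok_mm (w := 81) (j := 3) (by decide +kernel)
theorem L05426 : Good (Phi V5.P V5.D (-1) (-1)) ⟨8, 229, 6, 43, 4, 15, 2, 1, 5, 0⟩ :=
  out_sound (S := T5.ds_mm) T5.ok_mm (w := 23) (j := 4) (by decide +kernel)
theorem L05427 : Good (Phi V5.P V5.D (-1) (-1)) ⟨7, 115, 6, 43, 4, 15, 2, 1, 5, 0⟩ :=
  out_sound (S := T5.ds_mm) T5.ok_mm (w := 21) (j := 4) (by decide +kernel)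
theorem L05428 : Good (Phi V5.P V5.D (-1) (-1)) ⟨6, 56, 6, 42, 4, 15, 2, 1, 5, 1⟩ :=
  leafX_sound T5.ok_mm T5.Ymm.bz_eq (w := 273) (c := ⟨⟨.ofNat 3877, .ofNat 2, .negSucc 131, .ofNat 1206, .negSucc 920, .negSucc 1803⟩, ⟨.negSucc 2571, .negSucc 0, .ofNat 40, .negSucc 772, .ofNat 625, .ofNat 1187⟩, ⟨.negSucc 257, .ofNat 0, .ofNat 150, .negSucc 176, .negSucc 215, .ofNat 546⟩, ⟨.ofNat 8478, .ofNat 3, .negSucc 178, .ofNat 1235, .negSucc 1995, .negSucc 3834⟩, ⟨.ofNat 4537, .ofNat 1, .negSucc 38, .negSucc 655, .negSucc 1032, .negSucc 1958⟩, .ofNat 6481, .ofNat 9389, .ofNat 0, .ofNat 9389, .ofNat 14390, .ofNat 0, .ofNat 128, .negSucc 3807, .negSucc 12331, .ofNat 0, .ofNat 2495, .ofNat 8009, .ofNat 0, .ofNat 0, .ofNat 7503, .ofNat 10394, .ofNat 0, .ofNat 0, .ofNat 0, .ofNat 0, .ofNat 0, .ofNat 0, .ofNat 83684305271894706394699983545867826644813342572544, .ofNat 0, .ofNat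 0, .ofNat 0, .ofNat 73030182944348641794995126145303925248132890230784, .ofNat 0, .ofNat 0, .ofNat 0, .ofNat 616423718516318242319407792276835570985701140856832, .ofNat 0⟩)
    (by decide +kernel)
theorem L05429 : Good (Phi V5.P V5.D (-1) (-1)) ⟨6, 57, 6, 42, 5, 30, 2, 1, 5, 1⟩ :=
  leafX_sound T5.ok_mm T5.Ymm.bz_eq (w := 286) (c := ⟨⟨.ofNat 3906, .ofNat 186, .ofNat 416, .ofNat 724, .negSucc 650, .negSucc 1884⟩, ⟨.negSucc 2571, .negSucc 83, .negSucc 331, .negSucc 480, .ofNat 436, .ofNat 1242⟩, ⟨.negSucc 319, .ofNat 114, .negSucc 185, .negSucc 104, .negSucc 344, .ofNat 595⟩, ⟨.ofNat 7260, .ofNat 235, .ofNat 889, .ofNat 1393, .negSucc 794, .negSucc 3280⟩, ⟨.ofNat 2684, .ofNat 110, .ofNat 411, .ofNat 574, .ofNat 177, .negSucc 978⟩, .ofNat 9172, .ofNat 13156, .ofNat 0, .ofNat 13156, .ofNat 19633, .ofNat 0, .ofNat 128, .negSucc 2953, .negSucc 8190, .ofNat 0, .ofNat 1969,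 .ofNat 5410, .ofNat 0, .ofNat 0, .ofNat 5070, .ofNat 6953, .ofNat 0, .ofNat 0, .ofNat 954855454559381155511305791962505639301465029738496, .ofNat 0, .ofNat 0, .ofNat 0, .ofNat 228258812604149420039178532698079617732890815325274112, .ofNat 8869748945686374228148239293869896065622473724863253912903221248, .ofNat 0, .ofNat 0, .ofNat 0, .ofNat 0, .ofNat 0, .ofNat 0, .ofNat 426717816949105769581164154884687683940102411011489792, .ofNat 0⟩)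
    (by decide +kernel)
theorem L05430 : Good (Phi V5.P V5.D (-1) (-1)) ⟨6, 57, 6, 42, 5, 31, 2, 1, 5, 1⟩ :=
  leafX_sound T5.ok_mm T5.Ymm.bz_eq (w := 286) (c := ⟨⟨.ofNat 5034, .ofNat 221, .ofNat 757, .ofNat 423, .negSucc 1649, .negSucc 2277⟩, ⟨.negSucc 3327, .negSucc 122, .negSucc 559, .negSucc 277, .ofNat 1106, .ofNat 1512⟩, ⟨.negSucc 572, .negSucc 172, .negSucc 292, .ofNat 27, .ofNat 99, .ofNat 709⟩, ⟨.ofNat 9881, .ofNat 402, .ofNat 1511, .ofNat 458, .negSucc 2722, .negSucc 4572⟩, ⟨.ofNat 4229, .ofNat 182, .ofNat 659, .negSucc 189, .negSucc 606, .negSucc 2079⟩, .ofNat 8520, .ofNat 12195, .ofNat 0, .ofNat 12195, .ofNat 18216, .ofNat 0, .ofNat 128, .negSucc 2458, .negSucc 7015, .ofNat 0, .ofNat 1638, .ofNat 4622, .ofNat 0, .ofNat 0, .ofNat 3947, .ofNat 3993, .ofNat 0, .ofNat 0, .ofNat 626413174584555231347629181283528654204840257257472, .ofNat 75398869226707409098265854930739884820060065421384664848793600,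 .ofNat 0, .ofNat 0, .ofNat 118326146047335649243394154983963414731182884247306240, .ofNat 12510006480245180979410453674555040877534465491146574554877394944, .ofNat 0, .ofNat 0, .ofNat 0, .ofNat 0, .ofNat 0, .ofNat 0, .ofNat 113028672014124725448905565892143888996109116487237632, .ofNat 18355015132083118352748032428413418887705266050808903563151933440⟩)
    (by decide +kernel)
theorem L05431 : Good (Phi V5.P V5.D (-1) (-1)) ⟨6, 56, 6, 43, 4, 15, 2, 1, 5, 1⟩ :=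
  out_sound (S := T5.ds_mm) T5.ok_mm (w := 69) (j := 3) (by decide +kernel)
theorem L05432 : Good (Phi V5.P V5.D (-1) (-1)) ⟨8, 228, 6, 43, 4, 15, 2, 1, 5, 1⟩ :=
  out_sound (S := T5.ds_mm) T5.ok_mm (w := 81) (j := 3) (by decide +kernel)
theorem L05433 : Good (Phi V5.P V5.D (-1) (-1)) ⟨8, 229, 6, 43, 4, 15, 2, 1, 5, 1⟩ :=
  out_sound (S := T5.ds_mm) T5.ok_mm (w := 23) (j := 4) (by decide +kernel)
theorem L05434 : Good (Phi V5.P V5.D (-1) (-1)) ⟨7, 115, 6, 43, 4, 15, 2, 1, 5, 1⟩ :=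
  out_sound (S := T5.ds_mm) T5.ok_mm (w := 21) (j := 4) (by decide +kernel)
theorem L05435 : Good (Phi V5.P V5.D (-1) (-1)) ⟨5, 29, 5, 21, 4, 15, 2, 1, 4, 0⟩ :=
  out_sound (S := T5.ds_mm) T5.ok_mm (w := 61) (j := 3) (by decide +kernel)
theorem L05436 : Good (Phi V5.P V5.D (-1) (-1)) ⟨4, 15, 4, 10, 3, 7, 2, 1, 4, 0⟩ :=
  out_sound (S := T5.ds_mm) T5.ok_mm (w := 53) (j := 3) (by decide +kernel)
theorem L05437 : Good (Phi V5.P V5.D (-1) (-1)) ⟨6, 56, 6, 40, 4, 14, 2, 1, 5, 2⟩ :=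
  leafX_sound T5.ok_mm T5.Ymm.bz_eq (w := 268) (c := ⟨⟨.ofNat 1419, .negSucc 223, .ofNat 18, .negSucc 374, .ofNat 447, .negSucc 3154⟩, ⟨.negSucc 905, .ofNat 123, .ofNat 2, .ofNat 243, .negSucc 282, .ofNat 2013⟩, ⟨.ofNat 128, .ofNat 92, .ofNat 48, .ofNat 437, .negSucc 672, .ofNat 1443⟩, ⟨.ofNat 1974, .negSucc 304, .ofNat 60, .negSucc 294, .ofNat 890, .negSucc 5699⟩, ⟨.negSucc 35, .negSucc 29, .ofNat 69, .ofNat 366, .ofNat 405, .negSucc 1913⟩, .ofNat 4762, .ofNat 6924, .ofNat 0, .ofNat 6924, .ofNat 10887, .ofNat 0, .ofNat 128, .negSucc 1791, .negSucc 3524, .ofNat 0, .ofNat 1154, .ofNat 2239, .ofNat 0, .ofNat 0, .ofNat 2473, .ofNat 4459, .ofNat 0, .ofNat 0, .ofNat 0, .ofNat 0, .ofNat 0, .ofNat 0, .ofNat 2807987702161032751865753827543986299818353885184, .ofNat 0, .ofNat 0, .ofNat 0, .ofNat 0, .ofNat 0, .ofNat 0, .ofNat 0, .ofNat 0, .ofNat 0⟩)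
    (by decide +kernel)
theorem L05438 : Good (Phi V5.P V5.D (-1) (-1)) ⟨6, 56, 6, 40, 4, 15, 2, 1, 5, 2⟩ :=
  leafX_sound T5.ok_mm T5.Ymm.bz_eq (w := 268) (c := ⟨⟨.ofNat 832, .ofNat 181, .ofNat 217, .negSucc 779, .ofNat 720, .negSucc 3411⟩, ⟨.negSucc 532, .negSucc 127, .negSucc 134, .ofNat 499, .negSucc 450, .ofNat 2183⟩, ⟨.ofNat 930, .negSucc 335, .ofNat 1, .ofNat 646, .negSucc 904, .ofNat 1408⟩, ⟨.ofNat 1807, .ofNat 72, .ofNat 607, .negSucc 1704, .ofNat 1287, .negSucc 6748⟩, ⟨.ofNat 942, .negSucc 249, .ofNat 449, .negSucc 912, .ofNat 437, .negSucc 2965⟩, .ofNat 4839, .ofNat 7033, .ofNat 0, .ofNat 7033, .ofNat 11037, .ofNat 0, .ofNat 128, .negSucc 1409, .negSucc 3629, .ofNat 0, .ofNat 907, .ofNat 2295, .ofNat 0, .ofNat 0, .ofNat 2328, .ofNat 3527, .ofNat 0, .ofNat 0, .ofNat 0, .ofNat 0, .ofNat 0, .ofNat 0, .ofNat 2887254553252613803319871742843523929968958504960,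 .ofNat 0, .ofNat 0, .ofNat 0, .ofNat 1933267983713871434121462791422297317420908412928, .ofNat 0, .ofNat 0, .ofNat 0, .ofNat 4668729420757923778387062458855229715567509241856, .ofNat 0⟩)
    (by decide +kernel)
theorem L05439 : Good (Phi V5.P V5.D (-1) (-1)) ⟨7, 112, 6, 41, 3, 7, 2, 1, 5, 2⟩ :=
  out_sound (S := T5.ds_mm) T5.ok_mm (w := 75) (j := 3) (by decide +kernel)
theorem L05440 : Good (Phi V5.P V5.D (-1) (-1)) ⟨7, 113, 7, 82, 3, 7, 2, 1, 5, 2⟩ :=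
  leafX_sound T5.ok_mm T5.Ymm.bz_eq (w := 265) (c := ⟨⟨.ofNat 1633, .negSucc 46, .negSucc 37, .negSucc 1115, .ofNat 595, .negSucc 3539⟩, ⟨.negSucc 1052, .ofNat 0, .ofNat 36, .ofNat 730, .negSucc 383, .ofNat 2296⟩, ⟨.ofNat 102, .ofNat 91, .negSucc 19, .ofNat 1112, .negSucc 845, .ofNat 1577⟩, ⟨.ofNat 2264, .negSucc 24, .negSucc 56, .negSucc 1717, .ofNat 969, .negSucc 5801⟩, ⟨.negSucc 45, .ofNat 52, .negSucc 1, .negSucc 220, .ofNat 203, .negSucc 1257⟩, .ofNat 10602, .ofNat 15733, .ofNat 0, .ofNat 15733, .ofNat 24170, .ofNat 0, .ofNat 128, .negSucc 3162, .negSucc 5919, .ofNat 0, .ofNat 2067, .ofNat 3839, .ofNat 0, .ofNat 0, .ofNat 3966, .ofNat 4037, .ofNat 0, .ofNat 0, .ofNat 1375397060303072076495455095465652103675904, .ofNat 0, .ofNat 0, .ofNat 0, .ofNat 1223462860415566245313371241068847477095923712, .ofNat 0, .ofNat 0, .ofNat 0, .ofNat 0, .ofNat 0, .ofNat 0, .ofNat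 0, .ofNat 0, .ofNat 0⟩)
    (by decide +kernel)
theorem L05441 : Good (Phi V5.P V5.D (-1) (-1)) ⟨7, 113, 7, 83, 3, 7, 2, 1, 5, 2⟩ :=
  leafX_sound T5.ok_mm T5.Ymm.bz_eq (w := 266) (c := ⟨⟨.ofNat 1812, .negSucc 142, .ofNat 19, .negSucc 1000, .ofNat 364, .negSucc 3451⟩, ⟨.negSucc 1176, .ofNat 74, .negSucc 4, .ofNat 660, .negSucc 235, .ofNat 2257⟩, ⟨.ofNat 1, .ofNat 52, .ofNat 6, .ofNat 1058, .negSucc 666, .ofNat 1544⟩, ⟨.ofNat 2241, .negSucc 142, .negSucc 98, .negSucc 1423, .ofNat 498, .negSucc 4776⟩, ⟨.negSucc 398, .ofNat 0, .negSucc 159, .negSucc 23, .negSucc 14, .ofNat 94⟩, .ofNat 12843, .ofNat 19029, .ofNat 0, .ofNat 19029, .ofNat 29005, .ofNat 0, .ofNat 128, .negSucc 3064, .negSucc 6556, .ofNat 0, .ofNat 2017, .ofNat 4291, .ofNat 0, .ofNat 0, .ofNat 4351, .ofNat 5877, .ofNat 0, .ofNat 0, .ofNat 0, .ofNat 0, .ofNat 0, .ofNat 0, .ofNat 647196629378348904848701737792180797300539392,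 .ofNat 0, .ofNat 0, .ofNat 0, .ofNat 0, .ofNat 0, .ofNat 0, .ofNat 0, .ofNat 0, .ofNat 0⟩)
    (by decide +kernel)
theorem L05442 : Good (Phi V5.P V5.D (-1) (-1)) ⟨6, 57, 5, 20, 3, 7, 2, 1, 5, 2⟩ :=
  leafX_sound T5.ok_mm T5.Ymm.bz_eq (w := 261) (c := ⟨⟨.ofNat 1921, .ofNat 0, .ofNat 2, .negSucc 1055, .ofNat 417, .negSucc 3859⟩, ⟨.negSucc 1268, .ofNat 0, .ofNat 1, .ofNat 696, .negSucc 273, .ofNat 2542⟩, ⟨.ofNat 14, .negSucc 0, .negSucc 11, .ofNat 1087, .negSucc 765, .ofNat 1742⟩, ⟨.ofNat 1511, .ofNat 0, .negSucc 0, .negSucc 1155, .ofNat 410, .negSucc 4100⟩, ⟨.negSucc 1779, .ofNat 0, .ofNat 0, .ofNat 491, .negSucc 256, .ofNat 1955⟩, .ofNat 26818, .ofNat 40017, .ofNat 0, .ofNat 40017, .ofNat 60525, .ofNat 0, .ofNat 128, .negSucc 8966, .negSucc 18802, .ofNat 0, .ofNat 5934, .ofNat 12393, .ofNat 0, .ofNat 0, .ofNat 12563, .ofNat 22879, .ofNat 0, .ofNat 0, .ofNat 0, .ofNat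 0, .ofNat 0, .ofNat 0, .ofNat 350967984592035925628230247632552026176260931584, .ofNat 0, .ofNat 0, .ofNat 0, .ofNat 97580116322638930014217254714431122707973144576, .ofNat 0, .ofNat 0, .ofNat 0, .ofNat 128939392673480362214860043496456597964603785216, .ofNat 0⟩)
    (by decide +kernel)
theorem L05443 : Good (Phi V5.P V5.D (-1) (-1)) ⟨5, 29, 5, 20, 3, 7, 2, 1, 5, 2⟩ :=
  out_sound (S := T5.ds_mm) T5.ok_mm (w := 61) (j := 3) (by decide +kernel)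
theorem L05444 : Good (Phi V5.P V5.D (-1) (-1)) ⟨4, 15, 5, 20, 3, 7, 2, 1, 5, 2⟩ :=
  out_sound (S := T5.ds_mm) T5.ok_mm (w := 55) (j := 3) (by decide +kernel)
theorem L05445 : Good (Phi V5.P V5.D (-1) (-1)) ⟨6, 56, 5, 21, 3, 7, 2, 1, 5, 2⟩ :=
  leafX_sound T5.ok_mm T5.Ymm.bz_eq (w := 260) (c := ⟨⟨.ofNat 1762, .ofNat 0, .ofNat 156, .negSucc 1061, .ofNat 377, .negSucc 3493⟩, ⟨.negSucc 1161, .ofNat 0, .negSucc 93, .ofNat 701, .negSucc 245, .ofNat 2299⟩, ⟨.ofNat 41, .ofNat 1, .ofNat 126, .ofNat 1104, .negSucc 678, .ofNat 1544⟩, ⟨.ofNat 1500, .ofNat 0, .ofNat 38, .negSucc 1133, .ofNat 397, .negSucc 3801⟩, ⟨.negSucc 1456, .ofNat 0, .negSucc 19, .ofNat 533, .negSucc 190, .ofNat 1632⟩, .ofNat 23201, .ofNat 34570, .ofNat 0, .ofNat 34570, .ofNat 52321, .ofNat 0, .ofNat 128, .negSucc 9970, .negSucc 16419, .ofNat 0, .ofNat 6598, .ofNat 10825, .ofNat 0, .ofNat 0, .ofNat 10931,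 .ofNat 10208, .ofNat 0, .ofNat 0, .ofNat 5208522632963861999677632406903478082863104, .ofNat 0, .ofNat 0, .ofNat 0, .ofNat 622221786804802602724695693386255493152899072, .ofNat 0, .ofNat 0, .ofNat 0, .ofNat 6314816454909782877954507651740003912145436672, .ofNat 0, .ofNat 0, .ofNat 0, .ofNat 18930366528819847545062165709749195859839418368, .ofNat 0⟩)
    (by decide +kernel)
theorem L05446 : Good (Phi V5.P V5.D (-1) (-1)) ⟨8, 228, 6, 42, 4, 14, 2, 1, 5, 2⟩ :=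
  leafX_sound T5.ok_mm T5.Ymm.bz_eq (w := 278) (c := ⟨⟨.ofNat 1677, .ofNat 31, .ofNat 71, .negSucc 172, .ofNat 367, .negSucc 3720⟩, ⟨.negSucc 1114, .negSucc 29, .negSucc 40, .ofNat 111, .negSucc 238, .ofNat 2475⟩, ⟨.ofNat 37, .ofNat 95, .negSucc 104, .ofNat 367, .negSucc 651, .ofNat 1707⟩, ⟨.ofNat 2352, .ofNat 175, .ofNat 189, .ofNat 329, .ofNat 566, .negSucc 6495⟩, ⟨.ofNat 4, .ofNat 180, .ofNat 152, .ofNat 849, .ofNat 84, .negSucc 1929⟩, .ofNat 7301, .ofNat 10564, .ofNat 0, .ofNat 10564, .ofNat 16066, .ofNat 0, .ofNat 128, .negSucc 2475, .negSucc 4494, .ofNat 0, .ofNat 1641, .ofNat 2960, .ofNat 0, .ofNat 0, .ofNat 3011, .ofNat 8913, .ofNat 0, .ofNat 0, .ofNat 0, .ofNat 0, .ofNat 0, .ofNat 0, .ofNat 6977209361023494414879876005603485611011413639168, .ofNat 0, .ofNat 0, .ofNat 0, .ofNat 0, .ofNat 0, .ofNat 0, .ofNat 0, .ofNat 0, .ofNat 0⟩)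
    (by decide +kernel)
theorem L05447 : Good (Phi V5.P V5.D (-1) (-1)) ⟨8, 228, 6, 42, 4, 15, 2, 1, 6, 4⟩ :=
  leafX_sound T5.ok_mm T5.Ymm.bz_eq (w := 286) (c := ⟨⟨.ofNat 1891, .ofNat 234, .ofNat 174, .negSucc 410, .ofNat 5, .negSucc 2380⟩, ⟨.negSucc 1258, .negSucc 227, .negSucc 48, .ofNat 276, .ofNat 6, .ofNat 1578⟩, ⟨.ofNat 332, .negSucc 294, .ofNat 131, .ofNat 518, .negSucc 542, .ofNat 1019⟩, ⟨.ofNat 3631, .ofNat 459, .ofNat 325, .negSucc 810, .negSucc 409, .negSucc 4048⟩, ⟨.ofNat 1460, .ofNat 158, .ofNat 159, .negSucc 343, .negSucc 610, .negSucc 1072⟩, .ofNat 12024, .ofNat 17643, .ofNat 0, .ofNat 17643, .ofNat 26676, .ofNat 0, .ofNat 128, .negSucc 2503, .negSucc 9106, .ofNat 0, .ofNat 1661, .ofNat 6011, .ofNat 0, .ofNat 0, .ofNat 5326, .ofNat 3005, .ofNat 0, .ofNat 0, .ofNat 447053241112494461956588913912781117710382661632, .ofNat 0, .ofNat 0, .ofNat 0, .ofNat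 145997811375399484919032662456449449183570231820288, .ofNat 0, .ofNat 0, .ofNat 0, .ofNat 0, .ofNat 0, .ofNat 0, .ofNat 0, .ofNat 941643718538075604777608204732118831027521513848832, .ofNat 1177230146083253436111754226926018388933303847421374941204840448⟩)
    (by decide +kernel)
theorem L05448 : Good (Phi V5.P V5.D (-1) (-1)) ⟨8, 228, 6, 42, 4, 15, 2, 1, 6, 5⟩ :=
  leafX_sound T5.ok_mm T5.Ymm.bz_eq (w := 288) (c := ⟨⟨.negSucc 670, .ofNat 19, .ofNat 196, .negSucc 1403, .ofNat 1140, .negSucc 1743⟩, ⟨.ofNat 436, .negSucc 19, .negSucc 95, .ofNat 931, .negSucc 755, .ofNat 1157⟩, ⟨.ofNat 1513, .ofNat 189, .negSucc 280, .ofNat 969, .negSucc 1179, .ofNat 756⟩, ⟨.negSucc 1688, .negSucc 29, .ofNat 50, .negSucc 2536, .ofNat 1684, .negSucc 2636⟩, ⟨.negSucc 1118, .negSucc 189, .negSucc 209, .negSucc 859, .ofNat 136, .negSucc 299⟩, .ofNat 18663, .ofNat 27599, .ofNat 0, .ofNat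 27599, .ofNat 41611, .ofNat 0, .ofNat 128, .negSucc 2398, .negSucc 8877, .ofNat 0, .ofNat 1595, .ofNat 5878, .ofNat 0, .ofNat 0, .ofNat 5545, .ofNat 6633, .ofNat 0, .ofNat 0, .ofNat 0, .ofNat 0, .ofNat 0, .ofNat 0, .ofNat 209358715000414033441141255904011118048637538533376, .ofNat 0, .ofNat 0, .ofNat 0, .ofNat 319002397111384086059815345782923635198691165339648, .ofNat 0, .ofNat 0, .ofNat 0, .ofNat 0, .ofNat 0⟩)
    (by decide +kernel)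
theorem L05449 : Good (Phi V5.P V5.D (-1) (-1)) ⟨8, 229, 6, 42, 3, 7, 2, 1, 5, 2⟩ :=
  out_sound (S := T5.ds_mm) T5.ok_mm (w := 23) (j := 4) (by decide +kernel)
theorem L05450 : Good (Phi V5.P V5.D (-1) (-1)) ⟨8, 228, 6, 43, 3, 7, 2, 1, 5, 2⟩ :=
  out_sound (S := T5.ds_mm) T5.ok_mm (w := 81) (j := 3) (by decide +kernel)
theorem L05451 : Good (Phi V5.P V5.D (-1) (-1)) ⟨8, 229, 6, 43, 3, 7, 2, 1, 5, 2⟩ :=
  out_sound (S := T5.ds_mm) T5.ok_mm (w := 23) (j := 4) (by decide +kernel)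
theorem L05452 : Good (Phi V5.P V5.D (-1) (-1)) ⟨7, 115, 5, 21, 3, 7, 2, 1, 5, 2⟩ :=
  out_sound (S := T5.ds_mm) T5.ok_mm (w := 21) (j := 4) (by decide +kernel)
theorem L05453 : Good (Phi V5.P V5.D (-1) (-1)) ⟨5, 29, 5, 21, 3, 7, 2, 1, 5, 2⟩ :=
  out_sound (S := T5.ds_mm) T5.ok_mm (w := 61) (j := 3) (by decide +kernel)
theorem L05454 : Good (Phi V5.P V5.D (-1) (-1)) ⟨4, 15, 5, 21, 3, 7, 2, 1, 5, 2⟩ :=
  out_sound (S := T5.ds_mm) T5.ok_mm (w := 55) (j := 3) (by decide +kernel)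
theorem L05455 : Good (Phi V5.P V5.D (-1) (-1)) ⟨6, 56, 5, 20, 4, 14, 2, 1, 6, 6⟩ :=
  leafX_sound T5.ok_mm T5.Ymm.bz_eq (w := 269) (c := ⟨⟨.negSucc 2255, .negSucc 261, .ofNat 80, .ofNat 30, .ofNat 982, .negSucc 747⟩, ⟨.ofNat 1445, .ofNat 135, .ofNat 25, .negSucc 19, .negSucc 637, .ofNat 484⟩, ⟨.ofNat 1922, .ofNat 143, .negSucc 21, .ofNat 134, .negSucc 966, .ofNat 297⟩, ⟨.negSucc 4258, .negSucc 205, .ofNat 37, .ofNat 48, .ofNat 1449, .negSucc 1308⟩, ⟨.negSucc 1594, .ofNat 140, .negSucc 55, .ofNat 11, .ofNat 101, .negSucc 393⟩, .ofNat 5153, .ofNat 7486, .ofNat 0, .ofNat 7486, .ofNat 11685, .ofNat 0, .ofNat 128, .negSucc 863, .negSucc 2500, .ofNat 0, .ofNat 562, .ofNat 1605, .ofNat 0, .ofNat 0, .ofNat 1872, .ofNat 9361, .ofNat 0, .ofNat 0, .ofNat 0, .ofNat 0, .ofNat 0, .ofNat 0, .ofNat 23373383631516696461231717800817542461690539409408, .ofNat 0, .ofNat 0, .ofNat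 0, .ofNat 39340518036220917150130725103380981275630659174400, .ofNat 0, .ofNat 0, .ofNat 0, .ofNat 4550233963509394539813103397235831798455521509376, .ofNat 0⟩)
    (by decide +kernel)
theorem L05456 : Good (Phi V5.P V5.D (-1) (-1)) ⟨6, 56, 5, 20, 4, 15, 2, 1, 6, 6⟩ :=
  leafX_sound T5.ok_mm T5.Ymm.bz_eq (w := 271) (c := ⟨⟨.negSucc 2672, .negSucc 93, .negSucc 12, .negSucc 305, .ofNat 1342, .negSucc 330⟩, ⟨.ofNat 1717, .ofNat 22, .ofNat 89, .ofNat 196, .negSucc 867, .ofNat 212⟩, ⟨.ofNat 2294, .ofNat 147, .ofNat 1, .ofNat 338, .negSucc 1230, .ofNat 57⟩, ⟨.negSucc 4827, .negSucc 119, .negSucc 92, .negSucc 801, .ofNat 2061, .negSucc 527⟩, ⟨.negSucc 1582, .negSucc 56, .negSucc 65, .negSucc 566, .ofNat 261, .negSucc 96⟩, .ofNat 7257, .ofNat 10692, .ofNat 0, .ofNat 10692, .ofNat 16571, .ofNat 0, .ofNat 128, .negSucc 1374, .negSucc 2985, .ofNat 0, .ofNat 896, .ofNat 1916,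 .ofNat 0, .ofNat 0, .ofNat 2223, .ofNat 3889, .ofNat 0, .ofNat 0, .ofNat 0, .ofNat 0, .ofNat 0, .ofNat 0, .ofNat 106214118348132815195936426300098972787097796083712, .ofNat 0, .ofNat 0, .ofNat 0, .ofNat 19780819097905046977387230999385209921224786837504, .ofNat 0, .ofNat 0, .ofNat 0, .ofNat 0, .ofNat 0⟩)
    (by decide +kernel)
theorem L05457 : Good (Phi V5.P V5.D (-1) (-1)) ⟨6, 56, 5, 21, 3, 7, 2, 1, 6, 6⟩ :=
  leafX_sound T5.ok_mm T5.Ymm.bz_eq (w := 265) (c := ⟨⟨.negSucc 2578, .negSucc 0, .negSucc 88, .negSucc 408, .ofNat 1354, .negSucc 537⟩, ⟨.ofNat 1701, .ofNat 1, .ofNat 138, .ofNat 268, .negSucc 893, .ofNat 354⟩, ⟨.ofNat 2160, .ofNat 1, .ofNat 204, .ofNat 591, .negSucc 1263, .ofNat 178⟩, ⟨.negSucc 5023, .negSucc 1, .negSucc 23, .negSucc 578, .ofNat 1545, .negSucc 494⟩, ⟨.negSucc 2107, .negSucc 0, .ofNat 10, .negSucc 4, .negSucc 528, .ofNat 382⟩, .ofNat 23050,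 .ofNat 34342, .ofNat 0, .ofNat 34342, .ofNat 51977, .ofNat 0, .ofNat 128, .negSucc 5420, .negSucc 14552, .ofNat 0, .ofNat 3592, .ofNat 9599, .ofNat 0, .ofNat 0, .ofNat 10764, .ofNat 18531, .ofNat 0, .ofNat 0, .ofNat 31244668932643530242767839087045170782273536, .ofNat 0, .ofNat 0, .ofNat 0, .ofNat 29541376383647171703993541907920544846502166528, .ofNat 0, .ofNat 0, .ofNat 0, .ofNat 90989093358946061858602321160697260829881401344, .ofNat 0, .ofNat 0, .ofNat 0, .ofNat 230066944156401688211985011155688852003653419008, .ofNat 0⟩)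
    (by decide +kernel)
theorem L05458 : Good (Phi V5.P V5.D (-1) (-1)) ⟨7, 114, 5, 20, 3, 7, 2, 1, 6, 6⟩ :=
  leafX_sound T5.ok_mm T5.Ymm.bz_eq (w := 269) (c := ⟨⟨.negSucc 2647, .ofNat 1, .ofNat 2, .negSucc 561, .ofNat 1316, .negSucc 461⟩, ⟨.ofNat 1728, .negSucc 0, .ofNat 17, .ofNat 368, .negSucc 867, .ofNat 304⟩, ⟨.ofNat 2154, .negSucc 0, .ofNat 62, .ofNat 672, .negSucc 1242, .ofNat 135⟩, ⟨.negSucc 5203, .ofNat 3, .negSucc 3, .negSucc 818, .ofNat 1587, .negSucc 396⟩, ⟨.negSucc 2241, .ofNat 1, .negSucc 0, .negSucc 45, .negSucc 385, .ofNat 370⟩, .ofNat 21698, .ofNat 32306, .ofNat 0, .ofNat 32306, .ofNat 48910, .ofNat 0, .ofNat 128, .negSucc 4476, .negSucc 15696, .ofNat 0, .ofNat 2966, .ofNat 10346, .ofNat 0, .ofNat 0, .ofNat 11507, .ofNat 30755, .ofNat 0, .ofNat 0, .ofNat 23912730020006510990622764948756374002597888, .ofNat 0, .ofNat 0, .ofNat 0, .ofNat 3107809359882918353644116432765136543789009076224,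 .ofNat 0, .ofNat 0, .ofNat 0, .ofNat 284064360540374928104522495191485717577079980032, .ofNat 0, .ofNat 0, .ofNat 0, .ofNat 9908640371117787238301177684744905122318909440, .ofNat 0⟩)
    (by decide +kernel)
theorem L05459 : Good (Phi V5.P V5.D (-1) (-1)) ⟨7, 114, 6, 42, 4, 14, 2, 1, 6, 6⟩ :=
  leafX_sound T5.ok_mm T5.Ymm.bz_eq (w := 280) (c := ⟨⟨.negSucc 2499, .ofNat 4, .ofNat 87, .ofNat 87, .ofNat 1108, .negSucc 827⟩, ⟨.ofNat 1649, .negSucc 15, .negSucc 20, .negSucc 58, .negSucc 736, .ofNat 550⟩, ⟨.ofNat 2083, .negSucc 12, .negSucc 36, .ofNat 110, .negSucc 1048, .ofNat 340⟩, ⟨.negSucc 4660, .ofNat 67, .ofNat 133, .ofNat 177, .ofNat 1539, .negSucc 1218⟩, ⟨.negSucc 1730, .ofNat 30, .ofNat 50, .ofNat 82, .negSucc 18, .negSucc 90⟩, .ofNat 7300, .ofNat 10562, .ofNat 0, .ofNat 10562, .ofNat 16063, .ofNat 0, .ofNat 128, .negSucc 2014, .negSucc 6020, .ofNat 0, .ofNat 1341,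 .ofNat 3972, .ofNat 0, .ofNat 0, .ofNat 4511, .ofNat 10926, .ofNat 0, .ofNat 0, .ofNat 0, .ofNat 0, .ofNat 0, .ofNat 0, .ofNat 25343523934726131912559188944066695689074877923328, .ofNat 0, .ofNat 0, .ofNat 0, .ofNat 0, .ofNat 0, .ofNat 0, .ofNat 0, .ofNat 0, .ofNat 0⟩)
    (by decide +kernel)
theorem L05460 : Good (Phi V5.P V5.D (-1) (-1)) ⟨7, 114, 6, 42, 4, 15, 2, 1, 6, 6⟩ :=
  leafX_sound T5.ok_mm T5.Ymm.bz_eq (w := 283) (c := ⟨⟨.negSucc 2833, .negSucc 66, .ofNat 1, .negSucc 584, .ofNat 1556, .negSucc 258⟩, ⟨.ofNat 1870, .ofNat 53, .ofNat 26, .ofNat 386, .negSucc 1031, .ofNat 171⟩, ⟨.ofNat 2492, .ofNat 187, .negSucc 46, .ofNat 531, .negSucc 1407, .ofNat 8⟩, ⟨.negSucc 5158, .negSucc 52, .negSucc 81, .negSucc 880, .ofNat 1967, .negSucc 332⟩, ⟨.negSucc 1777, .negSucc 32, .negSucc 71, .negSucc 96, .negSucc 311, .ofNat 41⟩, .ofNat 19124, .ofNat 28277, .ofNat 0, .ofNat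 28277, .ofNat 42607, .ofNat 0, .ofNat 128, .negSucc 2136, .negSucc 6974, .ofNat 0, .ofNat 1424, .ofNat 4622, .ofNat 0, .ofNat 0, .ofNat 4906, .ofNat 6676, .ofNat 0, .ofNat 0, .ofNat 280224883804707528900839283162458322792121106432, .ofNat 0, .ofNat 0, .ofNat 0, .ofNat 1143930541225791690080106055578123506777623531356160, .ofNat 0, .ofNat 0, .ofNat 0, .ofNat 181318013487946124572317189064148621915599914663936, .ofNat 242319969229412324088991513280080932083837422439092637287841792, .ofNat 0, .ofNat 0, .ofNat 0, .ofNat 0⟩)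
    (by decide +kernel)
theorem L05461 : Good (Phi V5.P V5.D (-1) (-1)) ⟨8, 228, 6, 43, 3, 7, 2, 1, 6, 6⟩ :=
  out_sound (S := T5.ds_mm) T5.ok_mm (w := 81) (j := 3) (by decide +kernel)
theorem L05462 : Good (Phi V5.P V5.D (-1) (-1)) ⟨8, 229, 6, 43, 3, 7, 2, 1, 6, 6⟩ :=
  out_sound (S := T5.ds_mm) T5.ok_mm (w := 23) (j := 4) (by decide +kernel)
theorem L05463 : Good (Phi V5.P V5.D (-1) (-1)) ⟨7, 115, 4, 10, 3, 7, 2, 1, 6, 6⟩ :=
  out_sound (S := T5.ds_mm) T5.ok_mm (w := 21) (j := 4) (by decide +kernel)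
theorem L05464 : Good (Phi V5.P V5.D (-1) (-1)) ⟨7, 112, 5, 20, 3, 7, 2, 1, 6, 7⟩ :=
  leafX_sound T5.ok_mm T5.Ymm.bz_eq (w := 262) (c := ⟨⟨.negSucc 3182, .negSucc 454, .ofNat 540, .ofNat 437, .ofNat 1369, .ofNat 69⟩, ⟨.ofNat 2036, .ofNat 274, .negSucc 256, .negSucc 281, .negSucc 876, .negSucc 42⟩, ⟨.ofNat 2348, .ofNat 289, .negSucc 214, .ofNat 59, .negSucc 1277, .negSucc 138⟩, ⟨.negSucc 5782, .negSucc 401, .ofNat 488, .ofNat 429, .ofNat 1742, .ofNat 117⟩, ⟨.negSucc 1853, .ofNat 244, .negSucc 239, .negSucc 293, .negSucc 308, .ofNat 31⟩, .ofNat 9451, .ofNat 14185, .ofNat 0, .ofNat 14185, .ofNat 22142, .ofNat 0, .ofNat 128, .negSucc 1376, .negSucc 2792, .ofNat 0, .ofNat 892, .ofNat 1778, .ofNat 0, .ofNat 0, .ofNat 2480, .ofNat 12095, .ofNat 0, .ofNat 0, .ofNat 0, .ofNat 0, .ofNat 0, .ofNat 0, .ofNat 0, .ofNat 0, .ofNat 0, .ofNat 0, .ofNat 5330722526387882525746466311632596468586512384,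 .ofNat 0, .ofNat 0, .ofNat 0, .ofNat 14049012949953759317909112305533245712488202240, .ofNat 0⟩)
    (by decide +kernel)
theorem L05465 : Good (Phi V5.P V5.D (-1) (-1)) ⟨7, 113, 5, 20, 3, 7, 2, 1, 6, 7⟩ :=
  leafX_sound T5.ok_mm T5.Ymm.bz_eq (w := 260) (c := ⟨⟨.negSucc 3583, .negSucc 11, .ofNat 48, .ofNat 428, .ofNat 1347, .ofNat 45⟩, ⟨.ofNat 2285, .negSucc 21, .ofNat 68, .negSucc 277, .negSucc 879, .negSucc 28⟩, ⟨.ofNat 2577, .negSucc 126, .ofNat 144, .ofNat 97, .negSucc 1253, .negSucc 128⟩, ⟨.negSucc 6477, .negSucc 24, .ofNat 38, .ofNat 453, .ofNat 2188, .ofNat 225⟩, ⟨.negSucc 2178, .negSucc 55, .ofNat 8, .negSucc 227, .ofNat 438, .ofNat 249⟩, .ofNat 5094, .ofNat 7375, .ofNat 0, .ofNat 7375, .ofNat 11480, .ofNat 0, .ofNat 128, .negSucc 1082, .negSucc 2841, .ofNat 0, .ofNat 710, .ofNat 1824, .ofNat 0, .ofNat 0, .ofNat 2433, .ofNat 4442, .ofNat 0, .ofNat 0, .ofNat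 4540999090738798359620572590587304977891328, .ofNat 0, .ofNat 0, .ofNat 0, .ofNat 3223758505211571249752547018459666238601691136, .ofNat 0, .ofNat 0, .ofNat 0, .ofNat 457710174728327610465085193470890670404141056, .ofNat 0, .ofNat 0, .ofNat 0, .ofNat 0, .ofNat 0⟩)
    (by decide +kernel)
theorem L05466 : Good (Phi V5.P V5.D (-1) (-1)) ⟨6, 56, 5, 21, 3, 7, 2, 1, 6, 7⟩ :=
  leafX_sound T5.ok_mm T5.Ymm.bz_eq (w := 265) (c := ⟨⟨.negSucc 3665, .negSucc 0, .ofNat 17, .ofNat 396, .ofNat 1404, .ofNat 121⟩, ⟨.ofNat 2417, .ofNat 1, .ofNat 68, .negSucc 262, .negSucc 927, .negSucc 79⟩, ⟨.ofNat 2672, .ofNat 1, .ofNat 176, .ofNat 135, .negSucc 1317, .negSucc 164⟩, ⟨.negSucc 6099, .negSucc 2, .negSucc 4, .ofNat 339, .ofNat 1452, .ofNat 128⟩, ⟨.negSucc 1448, .negSucc 0, .ofNat 4, .negSucc 314, .negSucc 769, .negSucc 55⟩, .ofNat 29108, .ofNat 43468, .ofNat 0, .ofNat 43468, .ofNat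 65723, .ofNat 0, .ofNat 128, .negSucc 4662, .negSucc 14034, .ofNat 0, .ofNat 3094, .ofNat 9262, .ofNat 0, .ofNat 0, .ofNat 11953, .ofNat 23904, .ofNat 0, .ofNat 0, .ofNat 45387178244186023889355396974232920324571136, .ofNat 0, .ofNat 0, .ofNat 0, .ofNat 25919076826879225350743076275082005397054160896, .ofNat 0, .ofNat 0, .ofNat 0, .ofNat 162260726760581915047779699355308979104360955904, .ofNat 0, .ofNat 0, .ofNat 0, .ofNat 0, .ofNat 0⟩)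
    (by decide +kernel)
theorem L05467 : Good (Phi V5.P V5.D (-1) (-1)) ⟨7, 114, 5, 20, 3, 7, 2, 1, 6, 7⟩ :=
  leafX_sound T5.ok_mm T5.Ymm.bz_eq (w := 266) (c := ⟨⟨.negSucc 3642, .ofNat 1, .ofNat 39, .ofNat 439, .ofNat 1326, .ofNat 56⟩, ⟨.ofNat 2341, .negSucc 0, .ofNat 35, .negSucc 289, .negSucc 875, .negSucc 36⟩, ⟨.ofNat 2429, .negSucc 0, .ofNat 197, .ofNat 101, .negSucc 1246, .negSucc 117⟩, ⟨.negSucc 6202, .ofNat 3, .negSucc 3, .ofNat 299, .ofNat 1728, .ofNat 90⟩, ⟨.negSucc 1727, .ofNat 1, .negSucc 0, .negSucc 476, .negSucc 198, .ofNat 17⟩, .ofNat 14067, .ofNat 20812, .ofNat 0, .ofNat 20812, .ofNat 31597, .ofNat 0, .ofNat 128, .negSucc 3349, .negSucc 7712, .ofNat 0, .ofNat 2222, .ofNat 5074, .ofNat 0, .ofNat 0, .ofNat 6559, .ofNat 25434, .ofNat 0, .ofNat 0, .ofNat 3971296428627422734916624430750080945881088, .ofNat 0, .ofNat 0, .ofNat 0, .ofNat 796697309221072185498132465009803690065117839360,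 .ofNat 0, .ofNat 0, .ofNat 0, .ofNat 570461320247927420987413861311296156874399809536, .ofNat 0, .ofNat 0, .ofNat 0, .ofNat 360389066823234579853781492874674234921314156544, .ofNat 0⟩)
    (by decide +kernel)
theorem L05468 : Good (Phi V5.P V5.D (-1) (-1)) ⟨8, 228, 7, 84, 3, 7, 2, 1, 6, 7⟩ :=
  leafX_sound T5.ok_mm T5.Ymm.bz_eq (w := 275) (c := ⟨⟨.negSucc 3611, .ofNat 35, .negSucc 62, .ofNat 319, .ofNat 1352, .ofNat 174⟩, ⟨.ofNat 2385, .negSucc 25, .ofNat 62, .negSucc 211, .negSucc 897, .negSucc 115⟩, ⟨.ofNat 2637, .negSucc 143, .ofNat 119, .ofNat 190, .negSucc 1275, .negSucc 198⟩, ⟨.negSucc 6359, .negSucc 53, .negSucc 195, .ofNat 62, .ofNat 2019, .ofNat 355⟩, ⟨.negSucc 1938, .negSucc 100, .negSucc 186, .negSucc 578, .ofNat 185, .ofNat 167⟩, .ofNat 13090, .ofNat 19238, .ofNat 0, .ofNat 19238, .ofNat 29069, .ofNat 0, .ofNat 128, .negSucc 2662, .negSucc 7158, .ofNat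 0, .ofNat 1775, .ofNat 4731, .ofNat 0, .ofNat 0, .ofNat 6024, .ofNat 19278, .ofNat 0, .ofNat 0, .ofNat 0, .ofNat 0, .ofNat 0, .ofNat 0, .ofNat 32710987960532552305962460785947762145076707328, .ofNat 0, .ofNat 0, .ofNat 0, .ofNat 44513245767387515785452316445957823434680434688, .ofNat 0, .ofNat 0, .ofNat 0, .ofNat 0, .ofNat 0⟩)
    (by decide +kernel)
theorem L05469 : Good (Phi V5.P V5.D (-1) (-1)) ⟨8, 228, 7, 85, 4, 14, 2, 1, 6, 7⟩ :=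
  leafX_sound T5.ok_mm T5.Ymm.bz_eq (w := 295) (c := ⟨⟨.negSucc 3430, .negSucc 18, .negSucc 9, .ofNat 430, .ofNat 1140, .negSucc 122⟩, ⟨.ofNat 2288, .ofNat 7, .ofNat 26, .negSucc 286, .negSucc 761, .ofNat 82⟩, ⟨.ofNat 2504, .negSucc 37, .ofNat 42, .negSucc 85, .negSucc 1071, .negSucc 38⟩, ⟨.negSucc 5671, .negSucc 8, .negSucc 15, .ofNat 422, .ofNat 1081, .negSucc 122⟩, ⟨.negSucc 1285, .ofNat 3, .ofNat 7, .negSucc 262, .negSucc 761, .ofNat 73⟩, .ofNat 50389, .ofNat 74928, .ofNat 0, .ofNat 74928, .ofNat 112216, .ofNat 0, .ofNat 128, .negSucc 5361, .negSucc 12022, .ofNat 0, .ofNat 3587, .ofNat 8030, .ofNat 0, .ofNat 0, .ofNat 10012, .ofNat 46291, .ofNat 0, .ofNat 0, .ofNat 0, .ofNat 0, .ofNat 0, .ofNat 0, .ofNat 2590354274152303700269709354432200485445418002415616, .ofNat 0, .ofNat 0, .ofNat 0, .ofNat 0, .ofNat 0, .ofNat 0, .ofNat 0, .ofNat 0, .ofNat 0⟩)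
    (by decide +kernel)
theorem L05470 : Good (Phi V5.P V5.D (-1) (-1)) ⟨8, 228, 7, 85, 4, 15, 2, 1, 6, 7⟩ :=
  leafX_sound T5.ok_mm T5.Ymm.bz_eq (w := 292) (c := ⟨⟨.negSucc 3381, .ofNat 5, .negSucc 37, .negSucc 58, .ofNat 1524, .ofNat 206⟩, ⟨.ofNat 2259, .negSucc 17, .ofNat 50, .ofNat 39, .negSucc 1015, .negSucc 136⟩, ⟨.ofNat 2639, .ofNat 93, .negSucc 30, .ofNat 284, .negSucc 1413, .negSucc 218⟩, ⟨.negSucc 5960, .negSucc 1, .ofNat 1, .negSucc 289, .ofNat 1933, .ofNat 276⟩, ⟨.negSucc 1855, .ofNat 30, .ofNat 59, .negSucc 305, .negSucc 291, .negSucc 17⟩, .ofNat 22570, .ofNat 33353, .ofNat 0, .ofNat 33353, .ofNat 50079, .ofNat 0, .ofNat 128, .negSucc 5388, .negSucc 12009, .ofNat 0, .ofNat 3605, .ofNat 7992, .ofNat 0, .ofNat 0, .ofNat 10165, .ofNat 34096, .ofNat 0, .ofNat 0, .ofNat 0, .ofNat 0, .ofNat 0, .ofNat 0, .ofNat 252433382889188010691784007481273139766269761814528,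 .ofNat 0, .ofNat 0, .ofNat 0, .ofNat 1296811067352598044491115419826292976688453493194752, .ofNat 0, .ofNat 0, .ofNat 0, .ofNat 0, .ofNat 0⟩)
    (by decide +kernel)
theorem L05471 : Good (Phi V5.P V5.D (-1) (-1)) ⟨8, 229, 6, 42, 3, 7, 2, 1, 6, 7⟩ :=
  out_sound (S := T5.ds_mm) T5.ok_mm (w := 23) (j := 4) (by decide +kernel)
theorem L05472 : Good (Phi V5.P V5.D (-1) (-1)) ⟨8, 228, 6, 43, 3, 7, 2, 1, 6, 7⟩ :=
  out_sound (S := T5.ds_mm) T5.ok_mm (w := 81) (j := 3) (by decide +kernel)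
theorem L05473 : Good (Phi V5.P V5.D (-1) (-1)) ⟨8, 229, 6, 43, 3, 7, 2, 1, 6, 7⟩ :=
  out_sound (S := T5.ds_mm) T5.ok_mm (w := 23) (j := 4) (by decide +kernel)
theorem L05474 : Good (Phi V5.P V5.D (-1) (-1)) ⟨7, 115, 4, 10, 3, 7, 2, 1, 6, 7⟩ :=
  out_sound (S := T5.ds_mm) T5.ok_mm (w := 21) (j := 4) (by decide +kernel)
theorem L05475 : Good (Phi V5.P V5.D (-1) (-1)) ⟨5, 29, 4, 10, 3, 7, 2, 1, 5, 3⟩ :=
  out_sound (S := T5.ds_mm) T5.ok_mm (w := 59) (j := 3) (by decide +kernel)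
theorem L05476 : Good (Phi V5.P V5.D (-1) (-1)) ⟨4, 15, 4, 10, 3, 7, 2, 1, 5, 3⟩ :=
  out_sound (S := T5.ds_mm) T5.ok_mm (w := 53) (j := 3) (by decide +kernel)
theorem L05477 : Good (Phi V5.P V5.D (-1) (-1)) ⟨2, 2, 4, 10, 2, 3, 2, 1, 4, 2⟩ :=
  out_sound (S := T5.ds_mm) T5.ok_mm (w := 41) (j := 3) (by decide +kernel)
theorem L05478 : Good (Phi V5.P V5.D (-1) (-1)) ⟨3, 6, 4, 10, 2, 3, 2, 1, 4, 2⟩ :=
  out_sound (S := T5.ds_mm) T5.ok_mm (w := 47) (j := 3) (by decide +kernel)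
theorem L05479 : Good (Phi V5.P V5.D (-1) (-1)) ⟨6, 56, 4, 10, 3, 6, 2, 1, 5, 4⟩ :=
  leafX_sound T5.ok_mm T5.Ymm.bz_eq (w := 244) (c := ⟨⟨.negSucc 5268, .negSucc 241, .ofNat 256, .ofNat 1686, .ofNat 1028, .ofNat 541⟩, ⟨.ofNat 3388, .ofNat 136, .ofNat 32, .negSucc 1099, .negSucc 670, .negSucc 352⟩, ⟨.ofNat 3328, .ofNat 154, .negSucc 185, .negSucc 946, .negSucc 846, .negSucc 472⟩, ⟨.negSucc 8290, .negSucc 242, .ofNat 218, .ofNat 2104, .ofNat 1211, .ofNat 807⟩, ⟨.negSucc 1234, .ofNat 58, .negSucc 173, .negSucc 435, .negSucc 373, .ofNat 69⟩, .ofNat 2340, .ofNat 3197, .ofNat 0, .ofNat 3197, .ofNat 5130, .ofNat 0, .ofNat 128, .negSucc 1125, .negSucc 1340, .ofNat 0, .ofNat 748, .ofNat 861, .ofNat 0, .ofNat 0, .ofNat 1342, .ofNat 7358, .ofNat 0, .ofNat 0, .ofNat 0, .ofNat 0, .ofNat 0, .ofNat 0, .ofNat 20579230983890305739343769810630376060616704, .ofNat 0, .ofNat 0, .ofNat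 0, .ofNat 0, .ofNat 0, .ofNat 0, .ofNat 0, .ofNat 46705446180666723517057199057419308034424832, .ofNat 0⟩)
    (by decide +kernel)

end Crest.Agent.R097C5.N5mm
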