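import Crest.Agent.R097.KP7
import Crest.Agent.R097.T5Ymm

/-!
# Row 97, box cover in dimension n = 5 (generated)
-/

set_option autoImplicit false
set_option Elab.async false
set_option maxHeartbeats 0
set_option maxRecDepth 100000

open Crest.Agent.R097 Crest.Agent.R097.KA


namespace Crest.Agent.R097C5.N5mm

theorem L05480 : Good (Phi V5.P V5.D (-1) (-1)) ⟨6, 56, 4, 10, 3, 7, 2, 1, 5, 4⟩ :=
  leafX_sound T5.ok_mm T5.Ymm.bz_eq (w := 246) (c := ⟨⟨.negSucc 3645, .ofNat 181, .negSucc 158, .ofNat 823, .ofNat 1054, .ofNat 431⟩, ⟨.ofNat 2325, .negSucc 109, .ofNat 219, .negSucc 530, .negSucc 684, .negSucc 278⟩, ⟨.ofNat 2612, .negSucc 327, .ofNat 352, .negSucc 120, .negSucc 1076, .negSucc 407⟩, ⟨.negSucc 6213, .ofNat 125, .negSucc 215, .ofNat 1206, .ofNat 1501, .ofNat 673⟩, ⟨.negSucc 1655, .negSucc 150, .negSucc 40, .ofNat 66, .ofNat 18, .ofNat 108⟩, .ofNat 5170, .ofNat 7510, .ofNat 0, .ofNat 7510, .ofNat 11716, .ofNat 0,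 .ofNat 128, .negSucc 1123, .negSucc 1408, .ofNat 0, .ofNat 743, .ofNat 902, .ofNat 0, .ofNat 0, .ofNat 1704, .ofNat 5316, .ofNat 0, .ofNat 0, .ofNat 77368544347926759447645994225414747193344, .ofNat 0, .ofNat 0, .ofNat 0, .ofNat 55620581042468057110467112082785072924590080, .ofNat 0, .ofNat 0, .ofNat 0, .ofNat 20054262736318224803452716746768936926707712, .ofNat 0, .ofNat 0, .ofNat 0, .ofNat 28363345859705603897342571459536634442153984, .ofNat 0⟩)
    (by decide +kernel)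
theorem L05481 : Good (Phi V5.P V5.D (-1) (-1)) ⟨7, 114, 5, 20, 3, 6, 2, 1, 5, 4⟩ :=
  leafX_sound T5.ok_mm T5.Ymm.bz_eq (w := 255) (c := ⟨⟨.negSucc 5446, .ofNat 2, .ofNat 47, .ofNat 1694, .ofNat 1015, .ofNat 565⟩, ⟨.ofNat 3503, .negSucc 0, .ofNat 64, .negSucc 1121, .negSucc 672, .negSucc 371⟩, ⟨.ofNat 3376, .negSucc 0, .ofNat 21, .negSucc 948, .negSucc 860, .negSucc 464⟩, ⟨.negSucc 8388, .ofNat 3, .negSucc 1, .ofNat 2050, .ofNat 1167, .ofNat 814⟩, ⟨.negSucc 1208, .ofNat 1, .ofNat 1, .negSucc 498, .negSucc 391, .ofNat 32⟩, .ofNat 4948, .ofNat 6999, .ofNat 0, .ofNat 6999, .ofNat 10670, .ofNat 0, .ofNat 128, .negSucc 2356, .negSucc 3038, .ofNat 0, .ofNat 1596, .ofNat 2009, .ofNat 0, .ofNat 0, .ofNat 2888, .ofNat 24567, .ofNat 0, .ofNat 0, .ofNat 0, .ofNat 0, .ofNat 0, .ofNat 0, .ofNat 2418656104070839266358631574264240041673883648, .ofNat 0, .ofNat 0, .ofNat 0, .ofNat 10520624479893354316550827084033414579783467008, .ofNat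 0, .ofNat 0, .ofNat 0, .ofNat 10061011333911746736675081370928434823802388480, .ofNat 0⟩)
    (by decide +kernel)
theorem L05482 : Good (Phi V5.P V5.D (-1) (-1)) ⟨7, 114, 5, 21, 3, 6, 2, 1, 5, 4⟩ :=
  leafX_sound T5.ok_mm T5.Ymm.bz_eq (w := 252) (c := ⟨⟨.negSucc 5424, .negSucc 309, .ofNat 317, .ofNat 1722, .ofNat 994, .ofNat 569⟩, ⟨.ofNat 3589, .ofNat 171, .negSucc 80, .negSucc 1147, .negSucc 663, .negSucc 376⟩, ⟨.ofNat 3395, .negSucc 169, .ofNat 167, .negSucc 967, .negSucc 834, .negSucc 461⟩, ⟨.negSucc 8465, .negSucc 130, .ofNat 97, .ofNat 2134, .ofNat 1172, .ofNat 853⟩, ⟨.negSucc 1275, .ofNat 35, .negSucc 102, .negSucc 428, .negSucc 338, .ofNat 85⟩, .ofNat 2851, .ofNat 3892, .ofNat 0, .ofNat 3892, .ofNat 6040, .ofNat 0, .ofNat 128, .negSucc 1384, .negSucc 1698, .ofNat 0, .ofNat 936, .ofNat 1123, .ofNat 0, .ofNat 0, .ofNat 1599, .ofNat 6044, .ofNat 0, .ofNat 0, .ofNat 180799072614127417741389387439745844379648, .ofNat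 0, .ofNat 0, .ofNat 0, .ofNat 45977914937405014399360093525834801344413696, .ofNat 0, .ofNat 0, .ofNat 0, .ofNat 113643308038366392764107682724167068948627456, .ofNat 0, .ofNat 0, .ofNat 0, .ofNat 97493268186990248657972781895362411646418944, .ofNat 26981411015884034469641220494134233899127654883052748800⟩)
    (by decide +kernel)
theorem L05483 : Good (Phi V5.P V5.D (-1) (-1)) ⟨7, 114, 5, 20, 3, 7, 2, 1, 5, 4⟩ :=
  leafX_sound T5.ok_mm T5.Ymm.bz_eq (w := 262) (c := ⟨⟨.negSucc 3723, .ofNat 1, .ofNat 43, .ofNat 862, .ofNat 1049, .ofNat 548⟩, ⟨.ofNat 2360, .negSucc 0, .ofNat 65, .negSucc 567, .negSucc 692, .negSucc 359⟩, ⟨.ofNat 2602, .negSucc 0, .negSucc 25, .negSucc 137, .negSucc 1088, .negSucc 492⟩, ⟨.negSucc 5906, .ofNat 2, .negSucc 1, .ofNat 826, .ofNat 1155, .ofNat 618⟩, ⟨.negSucc 1124, .ofNat 1, .negSucc 0, .negSucc 567, .negSucc 471, .negSucc 221⟩, .ofNat 21693, .ofNat 32298, .ofNat 0, .ofNat 32298, .ofNat 48898,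 .ofNat 0, .ofNat 128, .negSucc 5215, .negSucc 7551, .ofNat 0, .ofNat 3469, .ofNat 4980, .ofNat 0, .ofNat 0, .ofNat 8762, .ofNat 44692, .ofNat 0, .ofNat 0, .ofNat 0, .ofNat 0, .ofNat 0, .ofNat 0, .ofNat 48629365709996441119624860900144028219735015424, .ofNat 0, .ofNat 0, .ofNat 0, .ofNat 211437462940564692559875744272712826437500928, .ofNat 0, .ofNat 0, .ofNat 0, .ofNat 18673901316074452131778454939239102054280462336, .ofNat 0⟩)
    (by decide +kernel)
theorem L05484 : Good (Phi V5.P V5.D (-1) (-1)) ⟨7, 114, 6, 42, 3, 7, 2, 1, 5, 4⟩ :=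
  leafX_sound T5.ok_mm T5.Ymm.bz_eq (w := 261) (c := ⟨⟨.negSucc 3610, .ofNat 63, .ofNat 10, .ofNat 839, .ofNat 1076, .ofNat 430⟩, ⟨.ofNat 2384, .negSucc 54, .ofNat 30, .negSucc 554, .negSucc 714, .negSucc 283⟩, ⟨.ofNat 2507, .negSucc 32, .ofNat 5, .negSucc 93, .negSucc 1105, .negSucc 406⟩, ⟨.negSucc 6022, .ofNat 49, .ofNat 70, .ofNat 939, .ofNat 1359, .ofNat 555⟩, ⟨.negSucc 1451, .ofNat 17, .ofNat 46, .negSucc 343, .negSucc 217, .negSucc 64⟩, .ofNat 12201, .ofNat 17813, .ofNat 0, .ofNat 17813, .ofNat 26788, .ofNat 0, .ofNat 128, .negSucc 2790, .negSucc 3844, .ofNat 0, .ofNat 1877, .ofNat 2553, .ofNat 0, .ofNat 0, .ofNat 4362, .ofNat 15345, .ofNat 0, .ofNat 0, .ofNat 0, .ofNat 0, .ofNat 0, .ofNat 0, .ofNat 650712521724139505645458856659230213592317952, .ofNat 0, .ofNat 0, .ofNat 0, .ofNat 0, .ofNat 0, .ofNat 0, .ofNat 0, .ofNat 0, .ofNat 844289481771501009451807592529391142335571122005552922624⟩)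
    (by decide +kernel)
theorem L05485 : Good (Phi V5.P V5.D (-1) (-1)) ⟨8, 228, 6, 43, 3, 7, 2, 1, 5, 4⟩ :=
  out_sound (S := T5.ds_mm) T5.ok_mm (w := 81) (j := 3) (by decide +kernel)
theorem L05486 : Good (Phi V5.P V5.D (-1) (-1)) ⟨8, 229, 6, 43, 3, 7, 2, 1, 5, 4⟩ :=
  out_sound (S := T5.ds_mm) T5.ok_mm (w := 23) (j := 4) (by decide +kernel)
theorem L05487 : Good (Phi V5.P V5.D (-1) (-1)) ⟨7, 115, 4, 10, 2, 3, 2, 1, 5, 4⟩ :=
  out_sound (S := T5.ds_mm) T5.ok_mm (w := 21) (j := 4) (by decide +kernel)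
theorem L05488 : Good (Phi V5.P V5.D (-1) (-1)) ⟨5, 28, 4, 10, 3, 6, 2, 1, 5, 5⟩ :=
  leafX_sound T5.ok_mm T5.Ymm.bz_eq (w := 238) (c := ⟨⟨.negSucc 4585, .ofNat 310, .negSucc 142, .ofNat 1283, .ofNat 784, .ofNat 653⟩, ⟨.ofNat 2992, .negSucc 435, .ofNat 388, .negSucc 840, .negSucc 516, .negSucc 424⟩, ⟨.ofNat 2781, .negSucc 79, .negSucc 0, .negSucc 709, .negSucc 802, .negSucc 484⟩, ⟨.negSucc 7241, .ofNat 156, .negSucc 58, .ofNat 1603, .ofNat 981, .ofNat 947⟩, ⟨.negSucc 1224, .negSucc 31, .negSucc 66, .negSucc 334, .negSucc 206, .ofNat 31⟩, .ofNat 921, .ofNat 1045, .ofNat 0, .ofNat 1045, .ofNat 1801, .ofNat 0, .ofNat 128, .negSucc 759, .negSucc 461, .ofNat 0, .ofNat 539, .ofNat 294, .ofNat 0, .ofNat 0, .ofNat 616, .ofNat 3015, .ofNat 0, .ofNat 0, .ofNat 145189895238453120104626991570469905235968, .ofNat 0, .ofNat 0, .ofNat 0, .ofNat 18811629680994785464069211250633900222840832, .ofNat 0, .ofNat 0, .ofNat 0, .ofNat 46219382849412433173419178081915914204217344,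 .ofNat 0, .ofNat 0, .ofNat 0, .ofNat 10586891731038657499226236896724503886823424, .ofNat 11415441019575487922718794040609905423165958221987840⟩)
    (by decide +kernel)
theorem L05489 : Good (Phi V5.P V5.D (-1) (-1)) ⟨5, 28, 4, 10, 3, 7, 2, 1, 5, 5⟩ :=
  leafX_sound T5.ok_mm T5.Ymm.bz_eq (w := 237) (c := ⟨⟨.negSucc 2934, .negSucc 58, .ofNat 21, .ofNat 785, .ofNat 733, .ofNat 339⟩, ⟨.ofNat 1899, .negSucc 41, .ofNat 134, .negSucc 511, .negSucc 483, .negSucc 221⟩, ⟨.ofNat 1869, .ofNat 376, .negSucc 172, .negSucc 94, .negSucc 906, .negSucc 346⟩, ⟨.negSucc 5318, .negSucc 52, .negSucc 27, .ofNat 1388, .ofNat 1086, .ofNat 642⟩, ⟨.negSucc 1774, .negSucc 81, .negSucc 9, .ofNat 427, .ofNat 78, .ofNat 256⟩, .ofNat 1491, .ofNat 1898, .ofNat 0, .ofNat 1898, .ofNat 3114, .ofNat 0, .ofNat 128, .negSucc 663, .negSucc 594, .ofNat 0, .ofNat 467, .ofNat 360, .ofNat 0, .ofNat 0, .ofNat 1134, .ofNat 3684, .ofNat 0, .ofNat 0, .ofNat 64387628590818648769219128771751190724608,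 .ofNat 0, .ofNat 0, .ofNat 0, .ofNat 9918012260374345974514996229984224607731712, .ofNat 0, .ofNat 0, .ofNat 0, .ofNat 40096437582199885972774019789576318308319232, .ofNat 14489809600252362397885630310195840200879902616977408, .ofNat 0, .ofNat 0, .ofNat 0, .ofNat 0⟩)
    (by decide +kernel)
theorem L05490 : Good (Phi V5.P V5.D (-1) (-1)) ⟨5, 29, 4, 10, 2, 3, 2, 1, 4, 2⟩ :=
  out_sound (S := T5.ds_mm) T5.ok_mm (w := 59) (j := 3) (by decide +kernel)
theorem L05491 : Good (Phi V5.P V5.D (-1) (-1)) ⟨4, 15, 4, 10, 2, 3, 2, 1, 4, 2⟩ :=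
  out_sound (S := T5.ds_mm) T5.ok_mm (w := 53) (j := 3) (by decide +kernel)
theorem L05492 : Good (Phi V5.P V5.D (-1) (-1)) ⟨2, 2, 4, 10, 2, 3, 2, 1, 4, 3⟩ :=
  out_sound (S := T5.ds_mm) T5.ok_mm (w := 41) (j := 3) (by decide +kernel)
theorem L05493 : Good (Phi V5.P V5.D (-1) (-1)) ⟨3, 6, 4, 10, 2, 3, 2, 1, 4, 3⟩ :=
  out_sound (S := T5.ds_mm) T5.ok_mm (w := 47) (j := 3) (by decide +kernel)
theorem L05494 : Good (Phi V5.P V5.D (-1) (-1)) ⟨5, 28, 4, 10, 3, 6, 2, 1, 5, 6⟩ :=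
  leafX_sound T5.ok_mm T5.Ymm.bz_eq (w := 238) (c := ⟨⟨.negSucc 3506, .negSucc 327, .ofNat 143, .ofNat 946, .ofNat 562, .ofNat 435⟩, ⟨.ofNat 2229, .ofNat 304, .negSucc 10, .negSucc 623, .negSucc 372, .negSucc 287⟩, ⟨.ofNat 2158, .negSucc 33, .negSucc 8, .negSucc 549, .negSucc 747, .negSucc 359⟩, ⟨.negSucc 5953, .negSucc 185, .ofNat 81, .ofNat 1242, .ofNat 806, .ofNat 688⟩, ⟨.negSucc 1436, .ofNat 38, .ofNat 4, .negSucc 138, .ofNat 12, .ofNat 107⟩, .ofNat 906, .ofNat 1027, .ofNat 0, .ofNat 1027, .ofNat 1787, .ofNat 0, .ofNat 128, .negSucc 703, .negSucc 294, .ofNat 0, .ofNat 517, .ofNat 186, .ofNat 0, .ofNat 0, .ofNat 642, .ofNat 4895, .ofNat 0, .ofNat 0, .ofNat 0, .ofNat 0, .ofNat 0, .ofNat 0, .ofNat 11811916317710569075863292150642156486262784, .ofNat 0, .ofNat 0, .ofNat 0, .ofNat 94565318754595841167602516798212680412299264, .ofNat 0, .ofNat 0, .ofNat 0, .ofNat 22586797716487231748681535731104315890204672, .ofNat 0⟩)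
    (by decide +kernel)
theorem L05495 : Good (Phi V5.P V5.D (-1) (-1)) ⟨5, 28, 4, 10, 3, 7, 2, 1, 5, 6⟩ :=
  leafX_sound T5.ok_mm T5.Ymm.bz_eq (w := 238) (c := ⟨⟨.negSucc 2512, .ofNat 141, .negSucc 54, .ofNat 688, .ofNat 514, .ofNat 219⟩, ⟨.ofNat 1633, .negSucc 228, .ofNat 206, .negSucc 444, .negSucc 336, .negSucc 141⟩, ⟨.ofNat 1518, .ofNat 70, .negSucc 52, .negSucc 74, .negSucc 795, .negSucc 285⟩, ⟨.negSucc 4618, .ofNat 141, .negSucc 6, .ofNat 1369, .ofNat 803, .ofNat 448⟩, ⟨.negSucc 1648, .negSucc 51, .ofNat 83, .ofNat 612, .ofNat 118, .ofNat 215⟩, .ofNat 2570, .ofNat 3504, .ofNat 0, .ofNat 3504, .ofNat 5521, .ofNat 0, .ofNat 128, .negSucc 754, .negSucc 201, .ofNat 0, .ofNat 530, .ofNat 124, .ofNat 0, .ofNat 0, .ofNat 743, .ofNat 5326, .ofNat 0, .ofNat 0, .ofNat 0, .ofNat 0, .ofNat 0, .ofNat 0, .ofNat 78141658837898388312662955087478444403982336, .ofNat 0, .ofNat 0, .ofNat 0, .ofNat 108749660718325293540475286343311521518452736,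 .ofNat 0, .ofNat 0, .ofNat 0, .ofNat 2492170948341267842792179781144120890753024, .ofNat 22237618198116464233716297556248587943646335527288832⟩)
    (by decide +kernel)
theorem L05496 : Good (Phi V5.P V5.D (-1) (-1)) ⟨5, 29, 4, 10, 2, 3, 2, 1, 5, 6⟩ :=
  out_sound (S := T5.ds_mm) T5.ok_mm (w := 59) (j := 3) (by decide +kernel)
theorem L05497 : Good (Phi V5.P V5.D (-1) (-1)) ⟨6, 56, 4, 10, 2, 3, 2, 1, 5, 7⟩ :=
  leafX_sound T5.ok_mm T5.Ymm.bz_eq (w := 232) (c := ⟨⟨.negSucc 3018, .ofNat 237, .negSucc 214, .ofNat 1305, .ofNat 374, .ofNat 229⟩, ⟨.ofNat 1919, .negSucc 145, .ofNat 240, .negSucc 836, .negSucc 237, .negSucc 146⟩, ⟨.ofNat 1771, .negSucc 221, .ofNat 158, .negSucc 641, .negSucc 787, .negSucc 260⟩, ⟨.negSucc 5110, .ofNat 243, .negSucc 192, .ofNat 1973, .ofNat 604, .ofNat 384⟩, ⟨.negSucc 1283, .negSucc 145, .ofNat 145, .ofNat 201, .ofNat 114, .ofNat 90⟩, .ofNat 5173, .ofNat 7517, .ofNat 0, .ofNat 7517, .ofNat 11733,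 .ofNat 0, .ofNat 128, .negSucc 1542, .negSucc 301, .ofNat 0, .ofNat 1046, .ofNat 189, .ofNat 0, .ofNat 0, .ofNat 1874, .ofNat 2995, .ofNat 0, .ofNat 0, .ofNat 6880612545375798583562276571629748224, .ofNat 0, .ofNat 0, .ofNat 0, .ofNat 5497154143361863062727174301734645268480, .ofNat 0, .ofNat 0, .ofNat 0, .ofNat 0, .ofNat 0, .ofNat 0, .ofNat 0, .ofNat 5658819671298258275262059717321782460416, .ofNat 0⟩)
    (by decide +kernel)
theorem L05498 : Good (Phi V5.P V5.D (-1) (-1)) ⟨7, 114, 4, 10, 2, 3, 2, 1, 5, 7⟩ :=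
  leafX_sound T5.ok_mm T5.Ymm.bz_eq (w := 231) (c := ⟨⟨.negSucc 3062, .negSucc 158, .ofNat 285, .ofNat 1304, .ofNat 352, .ofNat 261⟩, ⟨.ofNat 1922, .ofNat 57, .ofNat 16, .negSucc 862, .negSucc 235, .negSucc 175⟩, ⟨.ofNat 1420, .negSucc 208, .ofNat 425, .negSucc 610, .negSucc 746, .negSucc 280⟩, ⟨.negSucc 5130, .negSucc 85, .ofNat 27, .ofNat 2214, .ofNat 652, .ofNat 489⟩, ⟨.negSucc 1514, .negSucc 56, .negSucc 13, .ofNat 573, .ofNat 231, .ofNat 173⟩, .ofNat 1564, .ofNat 1991, .ofNat 0, .ofNat 1991, .ofNat 3220, .ofNat 0, .ofNat 128, .negSucc 610, .negSucc 124, .ofNat 0, .ofNat 450, .ofNat 72, .ofNat 0, .ofNat 0, .ofNat 805, .ofNat 1408, .ofNat 0, .ofNat 0, .ofNat 4753426041019471874253498716453339136, .ofNat 0, .ofNat 0, .ofNat 0, .ofNat 299297101406995283773814049703811088384, .ofNat 16636081268931967381216724885220387269483878678528, .ofNat 0, .ofNat 0, .ofNat 0, .ofNat 0, .ofNat 0, .ofNat 0, .ofNat 161851848076104869809051135773383852032,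 .ofNat 0⟩)
    (by decide +kernel)
theorem L05499 : Good (Phi V5.P V5.D (-1) (-1)) ⟨7, 115, 4, 10, 2, 3, 2, 1, 5, 7⟩ :=
  out_sound (S := T5.ds_mm) T5.ok_mm (w := 21) (j := 4) (by decide +kernel)
theorem L05500 : Good (Phi V5.P V5.D (-1) (-1)) ⟨5, 29, 4, 10, 2, 3, 2, 1, 5, 7⟩ :=
  out_sound (S := T5.ds_mm) T5.ok_mm (w := 59) (j := 3) (by decide +kernel)
theorem L05501 : Good (Phi V5.P V5.D (-1) (-1)) ⟨4, 15, 4, 10, 2, 3, 2, 1, 4, 3⟩ :=
  out_sound (S := T5.ds_mm) T5.ok_mm (w := 53) (j := 3) (by decide +kernel)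
theorem L05502 : Good (Phi V5.P V5.D (-1) (-1)) ⟨2, 2, 4, 11, 2, 3, 2, 1, 2, 0⟩ :=
  out_sound (S := T5.ds_mm) T5.ok_mm (w := 41) (j := 3) (by decide +kernel)
theorem L05503 : Good (Phi V5.P V5.D (-1) (-1)) ⟨3, 6, 4, 11, 2, 3, 2, 1, 2, 0⟩ :=
  out_sound (S := T5.ds_mm) T5.ok_mm (w := 47) (j := 3) (by decide +kernel)
theorem L05504 : Good (Phi V5.P V5.D (-1) (-1)) ⟨6, 56, 4, 11, 2, 3, 2, 1, 2, 0⟩ :=
  out_sound (S := T5.ds_mm) T5.ok_mm (w := 65) (j := 3) (by decide +kernel)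
theorem L05505 : Good (Phi V5.P V5.D (-1) (-1)) ⟨7, 114, 5, 22, 2, 3, 2, 1, 2, 0⟩ :=
  out_sound (S := T5.ds_mm) T5.ok_mm (w := 73) (j := 3) (by decide +kernel)
theorem L05506 : Good (Phi V5.P V5.D (-1) (-1)) ⟨7, 115, 5, 22, 2, 3, 2, 1, 2, 0⟩ :=
  out_sound (S := T5.ds_mm) T5.ok_mm (w := 21) (j := 4) (by decide +kernel)
theorem L05507 : Good (Phi V5.P V5.D (-1) (-1)) ⟨6, 57, 5, 23, 2, 3, 2, 1, 2, 0⟩ :=
  out_sound (S := T5.ds_mm) T5.ok_mm (w := 67) (j := 3) (by decide +kernel)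
theorem L05508 : Good (Phi V5.P V5.D (-1) (-1)) ⟨5, 29, 4, 11, 2, 3, 2, 1, 2, 0⟩ :=
  out_sound (S := T5.ds_mm) T5.ok_mm (w := 17) (j := 4) (by decide +kernel)
theorem L05509 : Good (Phi V5.P V5.D (-1) (-1)) ⟨4, 15, 4, 11, 2, 3, 2, 1, 2, 0⟩ :=
  out_sound (S := T5.ds_mm) T5.ok_mm (w := 53) (j := 3) (by decide +kernel)
theorem L05510 : Good (Phi V5.P V5.D (-1) (-1)) ⟨2, 2, 2, 3, 2, 3, 2, 1, 2, 0⟩ :=
  out_sound (S := T5.ds_mm) T5.ok_mm (w := 37) (j := 3) (by decide +kernel)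
theorem L05511 : Good (Phi V5.P V5.D (-1) (-1)) ⟨3, 6, 2, 3, 2, 3, 2, 1, 2, 0⟩ :=
  out_sound (S := T5.ds_mm) T5.ok_mm (w := 43) (j := 3) (by decide +kernel)
theorem L05512 : Good (Phi V5.P V5.D (-1) (-1)) ⟨5, 28, 3, 6, 2, 3, 2, 1, 2, 0⟩ :=
  out_sound (S := T5.ds_mm) T5.ok_mm (w := 57) (j := 3) (by decide +kernel)
theorem L05513 : Good (Phi V5.P V5.D (-1) (-1)) ⟨5, 29, 3, 6, 2, 3, 2, 1, 2, 0⟩ :=
  out_sound (S := T5.ds_mm) T5.ok_mm (w := 17) (j := 4) (by decide +kernel)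
theorem L05514 : Good (Phi V5.P V5.D (-1) (-1)) ⟨4, 14, 3, 7, 2, 3, 2, 1, 2, 0⟩ :=
  out_sound (S := T5.ds_mm) T5.ok_mm (w := 51) (j := 3) (by decide +kernel)
theorem L05515 : Good (Phi V5.P V5.D (-1) (-1)) ⟨4, 15, 2, 3, 2, 3, 2, 1, 2, 0⟩ :=
  out_sound (S := T5.ds_mm) T5.ok_mm (w := 15) (j := 4) (by decide +kernel)
theorem L05516 : Good (Phi V5.P V5.D (-1) (-1)) ⟨2, 2, 1, 1, 2, 2, 2, 0, 2, 1⟩ :=
  out_sound (S := T5.ds_mm) T5.ok_mm (w := 35) (j := 3) (by decide +kernel)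
theorem L05517 : Good (Phi V5.P V5.D (-1) (-1)) ⟨3, 6, 2, 2, 2, 2, 2, 0, 5, 8⟩ :=
  leafX_sound T5.ok_mm T5.Ymm.bz_eq (w := 210) (c := ⟨⟨.negSucc 3324, .negSucc 293, .negSucc 26, .ofNat 639, .ofNat 284, .ofNat 325⟩, ⟨.ofNat 1787, .ofNat 236, .ofNat 504, .negSucc 390, .negSucc 163, .negSucc 188⟩, ⟨.ofNat 3113, .ofNat 308, .negSucc 309, .negSucc 1133, .negSucc 708, .negSucc 216⟩, ⟨.negSucc 5592, .ofNat 23, .negSucc 154, .ofNat 529, .ofNat 451, .ofNat 489⟩, ⟨.negSucc 532, .negSucc 90, .negSucc 14, .negSucc 688, .ofNat 62, .ofNat 20⟩, .ofNat 753, .ofNat 834, .ofNat 0, .ofNat 834, .ofNat 1634, .ofNat 0, .ofNat 128, .negSucc 379, .negSucc 108, .ofNat 0, .ofNat 279, .ofNat 67, .ofNat 0, .ofNat 0, .ofNat 449, .ofNat 11059, .ofNat 358991492311510407727433786864782387707904, .ofNat 0, .ofNat 43211612084745988511306718977787428864, .ofNat 0, .ofNat 811825536304878706775200075844563633176576, .ofNat 0, .ofNat 949560140725874463827256644383138643968,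 .ofNat 0, .ofNat 2711046688598196759157971266179254257188864, .ofNat 0, .ofNat 2147845389666621028309829142243528671232, .ofNat 0, .ofNat 2247519763078221755029857597308209205346304, .ofNat 0, .ofNat 683274575970572010882971304217068699648, .ofNat 0⟩)
    (by decide +kernel)
theorem L05518 : Good (Phi V5.P V5.D (-1) (-1)) ⟨3, 6, 2, 2, 2, 2, 2, 0, 5, 9⟩ :=
  leafX_sound T5.ok_mm T5.Ymm.bz_eq (w := 210) (c := ⟨⟨.negSucc 2900, .negSucc 361, .ofNat 43, .ofNat 636, .ofNat 237, .ofNat 244⟩, ⟨.ofNat 1553, .ofNat 277, .ofNat 421, .negSucc 390, .negSucc 141, .negSucc 142⟩, ⟨.ofNat 3086, .ofNat 301, .negSucc 367, .negSucc 1229, .negSucc 837, .negSucc 196⟩, ⟨.negSucc 5044, .negSucc 21, .negSucc 87, .ofNat 567, .ofNat 411, .ofNat 391⟩, ⟨.negSucc 694, .ofNat 2, .negSucc 39, .negSucc 609, .ofNat 137, .ofNat 64⟩, .ofNat 421, .ofNat 369, .ofNat 0, .ofNat 369, .ofNat 906, .ofNat 0, .ofNat 128, .negSucc 184, .negSucc 41, .ofNat 0, .ofNat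 145, .ofNat 25, .ofNat 0, .ofNat 0, .ofNat 280, .ofNat 12367, .ofNat 723724911364505065335805306720037592104960, .ofNat 0, .ofNat 33295624869489322599156457786971258880, .ofNat 0, .ofNat 707554389589913987345766039928892439920640, .ofNat 0, .ofNat 315352085048765105291939203809764442112, .ofNat 0, .ofNat 853577445581929691005800606357241513115648, .ofNat 0, .ofNat 287301176956727919681707454097755471872, .ofNat 0, .ofNat 1155197977348982213053294002887269334122496, .ofNat 0, .ofNat 330578353674852598823215726165372174336, .ofNat 0⟩)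
    (by decide +kernel)
theorem L05519 : Good (Phi V5.P V5.D (-1) (-1)) ⟨3, 6, 2, 3, 2, 2, 2, 0, 4, 4⟩ :=
  out_sound (S := T5.ds_mm) T5.ok_mm (w := 43) (j := 3) (by decide +kernel)
theorem L05520 : Good (Phi V5.P V5.D (-1) (-1)) ⟨6, 56, 3, 4, 2, 2, 2, 0, 5, 8⟩ :=
  leafX_sound T5.ok_mm T5.Ymm.bz_eq (w := 226) (c := ⟨⟨.negSucc 3842, .negSucc 179, .ofNat 294, .ofNat 663, .ofNat 241, .ofNat 340⟩, ⟨.ofNat 2182, .ofNat 113, .ofNat 81, .negSucc 428, .negSucc 149, .negSucc 214⟩, ⟨.ofNat 3482, .ofNat 45, .negSucc 153, .negSucc 1204, .negSucc 720, .negSucc 232⟩, ⟨.negSucc 5740, .negSucc 142, .ofNat 257, .ofNat 485, .ofNat 379, .ofNat 490⟩, ⟨.negSucc 502, .ofNat 56, .negSucc 127, .negSucc 723, .ofNat 61, .ofNat 8⟩, .ofNat 1918, .ofNat 2555, .ofNat 0, .ofNat 2555, .ofNat 4193, .ofNat 0, .ofNat 128, .negSucc 772, .negSucc 206, .ofNat 0, .ofNat 556, .ofNat 138, .ofNat 0, .ofNat 0, .ofNat 845, .ofNat 26231, .ofNat 30159179978273022901628801750728155797622095872,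 .ofNat 0, .ofNat 2646773676027915543111678638923186176, .ofNat 0, .ofNat 28522519371428942214888299063062230291741409280, .ofNat 0, .ofNat 1008125391599113977667931157377650262016, .ofNat 0, .ofNat 0, .ofNat 0, .ofNat 2156564949227644494669875346212086874112, .ofNat 0, .ofNat 279731038267588259051553564844527658567538311168, .ofNat 0, .ofNat 467534236580023503042852374845981720576, .ofNat 0⟩)
    (by decide +kernel)
theorem L05521 : Good (Phi V5.P V5.D (-1) (-1)) ⟨6, 56, 3, 4, 2, 2, 2, 0, 5, 9⟩ :=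
  leafX_sound T5.ok_mm T5.Ymm.bz_eq (w := 227) (c := ⟨⟨.negSucc 3170, .ofNat 3, .negSucc 110, .ofNat 656, .ofNat 246, .ofNat 247⟩, ⟨.ofNat 1784, .ofNat 1, .ofNat 306, .negSucc 423, .negSucc 154, .negSucc 154⟩, ⟨.ofNat 3323, .ofNat 19, .negSucc 101, .negSucc 1287, .negSucc 799, .negSucc 203⟩, ⟨.negSucc 4936, .ofNat 6, .negSucc 157, .ofNat 546, .ofNat 403, .ofNat 376⟩, ⟨.negSucc 680, .negSucc 76, .ofNat 45, .negSucc 611, .ofNat 86, .ofNat 37⟩, .ofNat 2968, .ofNat 4225, .ofNat 0, .ofNat 4225, .ofNat 6834, .ofNat 0, .ofNat 128, .negSucc 1023, .negSucc 173, .ofNat 0, .ofNat 690, .ofNat 112, .ofNat 0, .ofNat 0, .ofNat 1050, .ofNat 42772, .ofNat 76381598793617545225401020177015162499529441280, .ofNat 0, .ofNat 11489508475159937431617359367389577216, .ofNat 0, .ofNat 80377483033887008711922477978476444177477402624, .ofNat 0, .ofNat 3403964806254440182470091276808194359296, .ofNat 0, .ofNat 0, .ofNat 0, .ofNat 1457660335911356555923080468542739447808,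 .ofNat 0, .ofNat 546633328881252378815415152131832239781794807808, .ofNat 0, .ofNat 462528355151323371670812913994370646016, .ofNat 0⟩)
    (by decide +kernel)
theorem L05522 : Good (Phi V5.P V5.D (-1) (-1)) ⟨6, 57, 3, 4, 2, 2, 2, 0, 4, 4⟩ :=
  out_sound (S := T5.ds_mm) T5.ok_mm (w := 63) (j := 3) (by decide +kernel)
theorem L05523 : Good (Phi V5.P V5.D (-1) (-1)) ⟨5, 28, 3, 5, 2, 2, 3, 0, 4, 4⟩ :=
  leafX_sound T5.ok_mm T5.Ymm.bz_eq (w := 223) (c := ⟨⟨.negSucc 4055, .negSucc 103, .ofNat 48, .ofNat 1173, .ofNat 112, .ofNat 760⟩, ⟨.ofNat 2609, .ofNat 44, .ofNat 264, .negSucc 774, .negSucc 66, .negSucc 495⟩, ⟨.ofNat 3143, .ofNat 10, .negSucc 125, .negSucc 928, .negSucc 364, .negSucc 528⟩, ⟨.negSucc 6224, .negSucc 46, .negSucc 7, .ofNat 1250, .ofNat 177, .ofNat 1107⟩, ⟨.negSucc 719, .negSucc 11, .negSucc 24, .negSucc 604, .ofNat 23, .ofNat 51⟩, .ofNat 391, .ofNat 298, .ofNat 0, .ofNat 298, .ofNat 646, .ofNat 0, .ofNat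 128, .negSucc 221, .negSucc 72, .ofNat 0, .ofNat 213, .ofNat 52, .ofNat 0, .ofNat 0, .ofNat 313, .ofNat 102570, .ofNat 14437757244263077285277756689241271043297902592, .ofNat 0, .ofNat 0, .ofNat 3624058070212254190725099678300114365712433152, .ofNat 38197534969033403720540938796162489371479506944, .ofNat 0, .ofNat 33012673484178661989427368417302675456, .ofNat 244534695806636463235514789283636439278419968, .ofNat 50212441880137225923167508721165195055250538496, .ofNat 0, .ofNat 6871023258219371785178603834677657600, .ofNat 0, .ofNat 16007915058784278062278279210087126454744645632, .ofNat 0, .ofNat 0, .ofNat 0⟩)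
    (by decide +kernel)
theorem L05524 : Good (Phi V5.P V5.D (-1) (-1)) ⟨5, 28, 3, 5, 2, 2, 3, 1, 5, 8⟩ :=
  leafX_sound T5.ok_mm T5.Ymm.bz_eq (w := 226) (c := ⟨⟨.negSucc 3455, .negSucc 298, .ofNat 215, .ofNat 689, .ofNat 132, .ofNat 360⟩, ⟨.ofNat 2209, .ofNat 220, .ofNat 100, .negSucc 454, .negSucc 85, .negSucc 235⟩, ⟨.ofNat 3017, .negSucc 162, .ofNat 118, .negSucc 1215, .negSucc 355, .negSucc 220⟩, ⟨.negSucc 5350, .negSucc 112, .ofNat 31, .ofNat 502, .ofNat 216, .ofNat 516⟩, ⟨.negSucc 600, .ofNat 14, .negSucc 60, .negSucc 711, .ofNat 47, .ofNat 15⟩, .ofNat 1481, .ofNat 1884, .ofNat 0, .ofNat 1884, .ofNat 3098, .ofNat 0, .ofNat 128, .negSucc 959, .negSucc 224, .ofNat 0, .ofNat 681, .ofNat 149, .ofNat 0, .ofNat 0, .ofNat 882, .ofNat 24789, .ofNat 14847752040793036276983017399706511331158917120, .ofNat 0, .ofNat 730408295546888372435542079599372402688, .ofNat 64689504473434732863502848166170375310505148416, .ofNat 0,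 .ofNat 0, .ofNat 20342001039386883578161153599236911136768, .ofNat 3070951590962385203446459381177183752815607021568, .ofNat 0, .ofNat 0, .ofNat 56572745436975046182414143074300613099520, .ofNat 0, .ofNat 25194694936423767869829025459535030546381930496, .ofNat 0, .ofNat 54188448736201742831141000351243877482496, .ofNat 0⟩)
    (by decide +kernel)
theorem L05525 : Good (Phi V5.P V5.D (-1) (-1)) ⟨5, 28, 3, 5, 2, 2, 3, 1, 5, 9⟩ :=
  leafX_sound T5.ok_mm T5.Ymm.bz_eq (w := 227) (c := ⟨⟨.negSucc 3132, .negSucc 131, .ofNat 80, .ofNat 670, .ofNat 116, .ofNat 267⟩, ⟨.ofNat 2002, .ofNat 106, .ofNat 169, .negSucc 441, .negSucc 74, .negSucc 174⟩, ⟨.ofNat 2826, .ofNat 21, .negSucc 97, .negSucc 1310, .negSucc 386, .negSucc 205⟩, ⟨.negSucc 4862, .negSucc 7, .negSucc 0, .ofNat 508, .ofNat 191, .ofNat 403⟩, ⟨.negSucc 598, .ofNat 1, .ofNat 5, .negSucc 663, .ofNat 42, .ofNat 41⟩, .ofNat 2449, .ofNat 3344, .ofNat 0, .ofNat 3344, .ofNat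 5318, .ofNat 0, .ofNat 128, .negSucc 768, .negSucc 142, .ofNat 0, .ofNat 533, .ofNat 95, .ofNat 0, .ofNat 0, .ofNat 812, .ofNat 40240, .ofNat 39950409036378619842915052267801128193467875328, .ofNat 0, .ofNat 1536638093779834152928749566502759301120, .ofNat 0, .ofNat 0, .ofNat 0, .ofNat 63424710743581455809176403702190916501504, .ofNat 0, .ofNat 0, .ofNat 0, .ofNat 0, .ofNat 0, .ofNat 0, .ofNat 0, .ofNat 21021555201001643163523630662800348545024, .ofNat 855010857425429354689310927116046216507282161664⟩)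
    (by decide +kernel)
theorem L05526 : Good (Phi V5.P V5.D (-1) (-1)) ⟨5, 29, 2, 2, 2, 2, 2, 0, 4, 4⟩ :=
  out_sound (S := T5.ds_mm) T5.ok_mm (w := 17) (j := 4) (by decide +kernel)
theorem L05527 : Good (Phi V5.P V5.D (-1) (-1)) ⟨5, 28, 3, 6, 2, 2, 2, 0, 4, 4⟩ :=
  out_sound (S := T5.ds_mm) T5.ok_mm (w := 57) (j := 3) (by decide +kernel)
theorem L05528 : Good (Phi V5.P V5.D (-1) (-1)) ⟨5, 29, 3, 6, 2, 2, 2, 0, 4, 4⟩ :=
  out_sound (S := T5.ds_mm) T5.ok_mm (w := 17) (j := 4) (by decide +kernel)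
theorem L05529 : Good (Phi V5.P V5.D (-1) (-1)) ⟨4, 14, 3, 7, 2, 2, 2, 0, 4, 4⟩ :=
  out_sound (S := T5.ds_mm) T5.ok_mm (w := 51) (j := 3) (by decide +kernel)
theorem L05530 : Good (Phi V5.P V5.D (-1) (-1)) ⟨4, 15, 1, 1, 2, 2, 2, 0, 4, 4⟩ :=
  out_sound (S := T5.ds_mm) T5.ok_mm (w := 15) (j := 4) (by decide +kernel)
theorem L05531 : Good (Phi V5.P V5.D (-1) (-1)) ⟨3, 6, 1, 1, 2, 2, 2, 0, 5, 10⟩ :=
  leafX_sound T5.ok_mm T5.Ymm.bz_eq (w := 208) (c := ⟨⟨.negSucc 2699, .negSucc 256, .ofNat 73, .ofNat 647, .ofNat 171, .ofNat 175⟩, ⟨.ofNat 1475, .ofNat 156, .ofNat 802, .negSucc 391, .negSucc 86, .negSucc 100⟩, ⟨.ofNat 3247, .negSucc 2, .negSucc 489, .negSucc 1324, .negSucc 887, .negSucc 215⟩, ⟨.negSucc 4743, .negSucc 11, .negSucc 112, .ofNat 695, .ofNat 389, .ofNat 311⟩, ⟨.negSucc 817, .negSucc 43, .negSucc 10, .negSucc 416, .ofNat 225, .ofNat 94⟩, .ofNat 749, .ofNat 829, .ofNat 0, .ofNat 829, .ofNat 1629, .ofNat 0, .ofNat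 128, .negSucc 311, .negSucc 44, .ofNat 0, .ofNat 240, .ofNat 27, .ofNat 0, .ofNat 0, .ofNat 583, .ofNat 26464, .ofNat 302281585716232446578316979193955794026496, .ofNat 0, .ofNat 27391612587191151646488621898780377088, .ofNat 0, .ofNat 635327786908878516152389108991474918227968, .ofNat 0, .ofNat 349740203993572310875659813263742337024, .ofNat 0, .ofNat 961255335695145423382793573734642498928640, .ofNat 0, .ofNat 477879201353127914470841015090368479232, .ofNat 0, .ofNat 376575127651017832053290056022968783339520, .ofNat 0, .ofNat 712194689202363252409803208249913114624, .ofNat 0⟩)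
    (by decide +kernel)
theorem L05532 : Good (Phi V5.P V5.D (-1) (-1)) ⟨3, 7, 1, 1, 2, 2, 2, 0, 5, 10⟩ :=
  leafX_sound T5.ok_mm T5.Ymm.bz_eq (w := 208) (c := ⟨⟨.negSucc 2902, .negSucc 76, .negSucc 146, .ofNat 653, .ofNat 150, .ofNat 178⟩, ⟨.ofNat 1660, .ofNat 98, .ofNat 881, .negSucc 430, .negSucc 95, .negSucc 114⟩, ⟨.ofNat 3350, .negSucc 127, .negSucc 432, .negSucc 1430, .negSucc 928, .negSucc 238⟩, ⟨.negSucc 4763, .ofNat 10, .negSucc 83, .ofNat 687, .ofNat 384, .ofNat 310⟩, ⟨.negSucc 960, .negSucc 23, .ofNat 84, .negSucc 355, .ofNat 254, .ofNat 89⟩, .ofNat 887, .ofNat 1002, .ofNat 0, .ofNat 1002, .ofNat 1764, .ofNat 0, .ofNat 128, .negSucc 336, .negSucc 63, .ofNat 0, .ofNat 261, .ofNat 42, .ofNat 0, .ofNat 0, .ofNat 965, .ofNat 25725, .ofNat 316979403113143006927985827802874873118720, .ofNat 0, .ofNat 61987706618045204785833916066191900672, .ofNat 21192545180071000385654657274376537335922688, .ofNat 703052711076634037308950852419484100067328,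 .ofNat 0, .ofNat 606956906856109960486142694454017916928, .ofNat 128085383822553125603966040992893359714467840, .ofNat 1322824039144949477330911227781732229971968, .ofNat 0, .ofNat 691144576566185187403326502604604702720, .ofNat 208575262903219173450525598573640663426924544, .ofNat 1071319031207695413351537885028877927972864, .ofNat 0, .ofNat 693882278000674291871350917992376434688, .ofNat 475351203433195580055512548107468587776606208⟩)
    (by decide +kernel)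
theorem L05533 : Good (Phi V5.P V5.D (-1) (-1)) ⟨2, 3, 1, 1, 2, 2, 2, 0, 5, 11⟩ :=
  leafX_sound T5.ok_mm T5.Ymm.bz_eq (w := 204) (c := ⟨⟨.negSucc 2458, .negSucc 351, .negSucc 76, .ofNat 566, .ofNat 121, .ofNat 77⟩, ⟨.ofNat 1343, .ofNat 235, .ofNat 800, .negSucc 342, .negSucc 63, .negSucc 47⟩, ⟨.ofNat 3069, .negSucc 16, .negSucc 844, .negSucc 1366, .negSucc 840, .negSucc 460⟩, ⟨.negSucc 4298, .ofNat 48, .negSucc 208, .ofNat 680, .ofNat 245, .ofNat 227⟩, ⟨.negSucc 794, .negSucc 165, .ofNat 123, .negSucc 234, .ofNat 162, .ofNat 184⟩, .ofNat 453, .ofNat 404, .ofNat 0, .ofNat 404, .ofNat 830, .ofNat 0, .ofNat 128, .negSucc 308, .negSucc 62, .ofNat 0, .ofNat 267, .ofNat 48, .ofNat 0, .ofNat 0, .ofNat 1224, .ofNat 29956, .ofNat 37818080802040136194522756412716672352256, .ofNat 0, .ofNat 199312846908262012918555712444604350464, .ofNat 4008622065607430754940009475567469528612864, .ofNat 53110936927878756955842641538805680570368,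 .ofNat 0, .ofNat 349440448618055570667479291770949337088, .ofNat 8447658874205418584800383826243395208085504, .ofNat 79101503751260349053742662756858175946752, .ofNat 0, .ofNat 1305798447035788746200813321401617350656, .ofNat 59437673834617995673568862078453342334353408, .ofNat 56547063687992538258167035023518425153536, .ofNat 0, .ofNat 853777291173741303554847057267088424960, .ofNat 66176756096222255631849704554780813642694656⟩)
    (by decide +kernel)
theorem L05534 : Good (Phi V5.P V5.D (-1) (-1)) ⟨2, 3, 1, 1, 2, 2, 2, 0, 3, 3⟩ :=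
  leafX_sound T5.ok_mm T5.Ymm.bz_eq (w := 197) (c := ⟨⟨.negSucc 1601, .negSucc 342, .negSucc 186, .negSucc 0, .negSucc 88, .ofNat 1⟩, ⟨.ofNat 786, .ofNat 214, .ofNat 835, .ofNat 1, .ofNat 114, .negSucc 0⟩, ⟨.ofNat 1324, .negSucc 371, .negSucc 1182, .ofNat 0, .negSucc 727, .ofNat 0⟩, ⟨.negSucc 3241, .ofNat 46, .negSucc 246, .negSucc 1, .ofNat 98, .ofNat 2⟩, ⟨.negSucc 1169, .negSucc 79, .ofNat 231, .ofNat 0, .ofNat 444, .ofNat 0⟩, .ofNat 165, .ofNat 54, .ofNat 0, .ofNat 54, .ofNat 218, .ofNat 0, .ofNat 128, .negSucc 153, .ofNat 75, .ofNat 0, .ofNat 305, .negSucc 86, .ofNat 0, .ofNat 0, .ofNat 1189, .ofNat 320548, .ofNat 15985523813365754919184205985150922653696, .ofNat 0, .ofNat 0, .ofNat 11430242334897945671766600296802426028032, .ofNat 2341122570090584314219670843334640795648, .ofNat 0, .ofNat 12977604425821456026809121265156096, .ofNat 0, .ofNat 3975688039240637433659627940400769007616, .ofNat 0, .ofNat 1249163593827290964324101574566608896,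 .ofNat 33529900419828443866080852411979569037312, .ofNat 29361537738723094072839376893846862430208, .ofNat 0, .ofNat 2189773373557980252474666953937518592, .ofNat 82487523017469453140116710592251221245952⟩)
    (by decide +kernel)
theorem L05535 : Good (Phi V5.P V5.D (-1) (-1)) ⟨2, 2, 1, 1, 2, 3, 2, 0, 2, 1⟩ :=
  out_sound (S := T5.ds_mm) T5.ok_mm (w := 35) (j := 3) (by decide +kernel)
theorem L05536 : Good (Phi V5.P V5.D (-1) (-1)) ⟨4, 12, 2, 2, 2, 3, 2, 0, 4, 4⟩ :=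
  out_sound (S := T5.ds_mm) T5.ok_mm (w := 49) (j := 3) (by decide +kernel)
theorem L05537 : Good (Phi V5.P V5.D (-1) (-1)) ⟨4, 13, 2, 2, 2, 3, 2, 0, 4, 4⟩ :=
  leafX_sound T5.ok_mm T5.Ymm.bz_eq (w := 207) (c := ⟨⟨.negSucc 2810, .ofNat 52, .negSucc 56, .ofNat 938, .ofNat 259, .ofNat 420⟩, ⟨.ofNat 1552, .negSucc 66, .ofNat 493, .negSucc 534, .negSucc 149, .negSucc 238⟩, ⟨.ofNat 2357, .ofNat 143, .negSucc 425, .negSucc 691, .negSucc 994, .negSucc 447⟩, ⟨.negSucc 5033, .ofNat 189, .negSucc 110, .ofNat 1581, .ofNat 467, .ofNat 730⟩, ⟨.negSucc 1394, .negSucc 116, .ofNat 221, .ofNat 365, .ofNat 148, .ofNat 189⟩, .ofNat 1087, .ofNat 1373, .ofNat 0, .ofNat 1373, .ofNat 2544, .ofNat 0, .ofNat 128, .negSucc 366, .negSucc 58, .ofNat 0, .ofNat 282, .ofNat 27, .ofNat 0, .ofNat 0, .ofNat 967, .ofNat 1911, .ofNat 75578262444817583864406898617213041770496, .ofNat 0, .ofNat 145838268678464143409441015664214016, .ofNat 0, .ofNat 0, .ofNat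 0, .ofNat 7363324624112294478927884240027648000, .ofNat 0, .ofNat 0, .ofNat 63271116810293490515087278831961464897536, .ofNat 11516205297131915564270184404109754368, .ofNat 0, .ofNat 0, .ofNat 100440580469539742210732344457959311409152, .ofNat 19338804707392133361412338524413231104, .ofNat 0⟩)
    (by decide +kernel)
theorem L05538 : Good (Phi V5.P V5.D (-1) (-1)) ⟨5, 28, 2, 2, 3, 6, 2, 0, 4, 4⟩ :=
  leafX_sound T5.ok_mm T5.Ymm.bz_eq (w := 226) (c := ⟨⟨.negSucc 2793, .negSucc 17, .negSucc 42, .ofNat 516, .ofNat 243, .ofNat 434⟩, ⟨.ofNat 1456, .negSucc 99, .ofNat 727, .negSucc 335, .negSucc 155, .negSucc 283⟩, ⟨.ofNat 2433, .negSucc 1, .negSucc 211, .negSucc 364, .negSucc 967, .negSucc 501⟩, ⟨.negSucc 4945, .ofNat 9, .negSucc 49, .ofNat 774, .ofNat 455, .ofNat 785⟩, ⟨.negSucc 1543, .negSucc 22, .ofNat 92, .ofNat 71, .ofNat 170, .ofNat 261⟩, .ofNat 883, .ofNat 997, .ofNat 0, .ofNat 997, .ofNat 1759, .ofNat 0, .ofNat 128,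 .negSucc 409, .negSucc 64, .ofNat 0, .ofNat 331, .ofNat 39, .ofNat 0, .ofNat 0, .ofNat 703, .ofNat 6162, .ofNat 21569269233921628889949019966468647385233883136, .ofNat 0, .ofNat 640099046972062629008567222051757096960, .ofNat 0, .ofNat 0, .ofNat 0, .ofNat 78861612084684501807684951760213037285376, .ofNat 0, .ofNat 0, .ofNat 0, .ofNat 82174328012665938119249451179881143468032, .ofNat 0, .ofNat 0, .ofNat 0, .ofNat 44214484997647432972128532104674023571456, .ofNat 2430227782449914840486362802868715246525473619968⟩)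
    (by decide +kernel)
theorem L05539 : Good (Phi V5.P V5.D (-1) (-1)) ⟨5, 28, 2, 2, 3, 7, 2, 0, 4, 4⟩ :=
  leafX_sound T5.ok_mm T5.Ymm.bz_eq (w := 224) (c := ⟨⟨.negSucc 2127, .ofNat 76, .negSucc 222, .ofNat 486, .ofNat 224, .ofNat 276⟩, ⟨.ofNat 1162, .negSucc 62, .ofNat 537, .negSucc 311, .negSucc 147, .negSucc 176⟩, ⟨.ofNat 2286, .ofNat 90, .negSucc 350, .negSucc 81, .negSucc 1197, .negSucc 623⟩, ⟨.negSucc 4172, .ofNat 128, .negSucc 77, .ofNat 1156, .ofNat 555, .ofNat 643⟩, ⟨.negSucc 1753, .ofNat 32, .ofNat 305, .ofNat 723, .ofNat 360, .ofNat 392⟩, .ofNat 820, .ofNat 889, .ofNat 0, .ofNat 889, .ofNat 1567, .ofNat 0, .ofNat 128, .negSucc 280, .negSucc 22, .ofNat 0, .ofNat 270, .negSucc 25, .ofNat 0, .ofNat 0, .ofNat 1124, .ofNat 1634, .ofNat 0, .ofNat 0, .ofNat 0, .ofNat 0, .ofNat 0, .ofNat 0, .ofNat 19586247482274721273836660431596499763200, .ofNat 0, .ofNat 0, .ofNat 3472550733732869285687159056094558796801638400,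 .ofNat 43102168776119868510442551153395148783616, .ofNat 5215675040982728303352180752634066695205102288896, .ofNat 0, .ofNat 9159180884127339149487227434774945762828615680, .ofNat 100867064388819202534629339406883201482752, .ofNat 11646065430055946997855364745592589416010136682496⟩)
    (by decide +kernel)
theorem L05540 : Good (Phi V5.P V5.D (-1) (-1)) ⟨5, 29, 2, 2, 2, 3, 2, 0, 4, 4⟩ :=
  out_sound (S := T5.ds_mm) T5.ok_mm (w := 17) (j := 4) (by decide +kernel)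
theorem L05541 : Good (Phi V5.P V5.D (-1) (-1)) ⟨4, 15, 2, 2, 2, 3, 2, 0, 4, 4⟩ :=
  out_sound (S := T5.ds_mm) T5.ok_mm (w := 49) (j := 3) (by decide +kernel)
theorem L05542 : Good (Phi V5.P V5.D (-1) (-1)) ⟨3, 6, 2, 3, 2, 3, 2, 0, 4, 4⟩ :=
  out_sound (S := T5.ds_mm) T5.ok_mm (w := 43) (j := 3) (by decide +kernel)
theorem L05543 : Good (Phi V5.P V5.D (-1) (-1)) ⟨5, 28, 3, 6, 2, 3, 2, 0, 4, 4⟩ :=
  out_sound (S := T5.ds_mm) T5.ok_mm (w := 57) (j := 3) (by decide +kernel)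
theorem L05544 : Good (Phi V5.P V5.D (-1) (-1)) ⟨5, 29, 3, 6, 2, 3, 2, 0, 4, 4⟩ :=
  out_sound (S := T5.ds_mm) T5.ok_mm (w := 17) (j := 4) (by decide +kernel)
theorem L05545 : Good (Phi V5.P V5.D (-1) (-1)) ⟨4, 14, 3, 7, 2, 3, 2, 0, 4, 4⟩ :=
  out_sound (S := T5.ds_mm) T5.ok_mm (w := 51) (j := 3) (by decide +kernel)
theorem L05546 : Good (Phi V5.P V5.D (-1) (-1)) ⟨4, 15, 2, 3, 2, 3, 2, 0, 4, 4⟩ :=
  out_sound (S := T5.ds_mm) T5.ok_mm (w := 15) (j := 4) (by decide +kernel)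
theorem L05547 : Good (Phi V5.P V5.D (-1) (-1)) ⟨3, 6, 2, 2, 3, 6, 2, 0, 4, 5⟩ :=
  leafX_sound T5.ok_mm T5.Ymm.bz_eq (w := 217) (c := ⟨⟨.negSucc 2167, .negSucc 54, .negSucc 78, .ofNat 344, .ofNat 156, .ofNat 225⟩, ⟨.ofNat 1209, .negSucc 32, .ofNat 461, .negSucc 196, .negSucc 77, .negSucc 120⟩, ⟨.ofNat 2025, .ofNat 88, .negSucc 420, .negSucc 578, .negSucc 1050, .negSucc 612⟩, ⟨.negSucc 4199, .ofNat 197, .negSucc 165, .ofNat 564, .ofNat 414, .ofNat 495⟩, ⟨.negSucc 1334, .negSucc 58, .ofNat 92, .ofNat 102, .ofNat 325, .ofNat 282⟩, .ofNat 743, .ofNat 821, .ofNat 0, .ofNat 821, .ofNat 1622, .ofNat 0, .ofNat 128, .negSucc 259, .ofNat 14, .ofNat 0, .ofNat 213, .negSucc 16, .ofNat 0, .ofNat 0, .ofNat 1417, .ofNat 3443, .ofNat 120051385101361090567125382983704187393540096, .ofNat 0, .ofNat 4631907699241010323474273917598343102464, .ofNat 0, .ofNat 0, .ofNat 0, .ofNat 0, .ofNat 0, .ofNat 0, .ofNat 41702162981504742803654952888481134111883264,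 .ofNat 520144836639536409246579961394270295818240, .ofNat 0, .ofNat 3290403453691687246393092829196776693005549568, .ofNat 272243525296981179416491165078181255458062336, .ofNat 3011168577976996079153189534260611510173696, .ofNat 0⟩)
    (by decide +kernel)
theorem L05548 : Good (Phi V5.P V5.D (-1) (-1)) ⟨4, 14, 2, 2, 3, 6, 2, 0, 4, 5⟩ :=
  leafX_sound T5.ok_mm T5.Ymm.bz_eq (w := 222) (c := ⟨⟨.negSucc 2122, .negSucc 46, .negSucc 93, .ofNat 318, .ofNat 71, .ofNat 187⟩, ⟨.ofNat 1148, .ofNat 7, .ofNat 463, .negSucc 203, .negSucc 41, .negSucc 117⟩, ⟨.ofNat 2347, .negSucc 30, .negSucc 449, .negSucc 674, .negSucc 1211, .negSucc 788⟩, ⟨.negSucc 3983, .ofNat 9, .negSucc 96, .ofNat 587, .ofNat 351, .ofNat 492⟩, ⟨.negSucc 1510, .ofNat 1, .ofNat 75, .ofNat 217, .ofNat 395, .ofNat 354⟩, .ofNat 2280, .ofNat 2931, .ofNat 0, .ofNat 2931, .ofNat 4458, .ofNat 0, .ofNat 128, .negSucc 500, .ofNat 54, .ofNat 0, .ofNat 409, .negSucc 45,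 .ofNat 0, .ofNat 0, .ofNat 2203, .ofNat 5828, .ofNat 3428751304451531266966953679090467739124367360, .ofNat 0, .ofNat 3414660017944055136775904638201124356096, .ofNat 0, .ofNat 0, .ofNat 0, .ofNat 1173842452762400438954507669397030198837248, .ofNat 0, .ofNat 2487831783481332245729822503612172523890802688, .ofNat 883298676817268013451401352252567616426606592, .ofNat 799263116856264306246221751517489815093248, .ofNat 6863674781523693387716427528817435842519970611200, .ofNat 69719546841108822701967924117316151791153315840, .ofNat 12549347358888378532934360441657950255815065600, .ofNat 353880159740313543610584177712236949667840, .ofNat 3780551168927396376302784714831602680702879924224⟩)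
    (by decide +kernel)
theorem L05549 : Good (Phi V5.P V5.D (-1) (-1)) ⟨4, 15, 2, 2, 3, 6, 2, 0, 4, 5⟩ :=
  out_sound (S := T5.ds_mm) T5.ok_mm (w := 49) (j := 3) (by decide +kernel)
theorem L05550 : Good (Phi V5.P V5.D (-1) (-1)) ⟨3, 6, 2, 3, 3, 6, 2, 0, 4, 5⟩ :=
  out_sound (S := T5.ds_mm) T5.ok_mm (w := 43) (j := 3) (by decide +kernel)
theorem L05551 : Good (Phi V5.P V5.D (-1) (-1)) ⟨5, 28, 3, 6, 3, 6, 2, 0, 4, 5⟩ :=
  out_sound (S := T5.ds_mm) T5.ok_mm (w := 57) (j := 3) (by decide +kernel)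
theorem L05552 : Good (Phi V5.P V5.D (-1) (-1)) ⟨5, 29, 3, 6, 3, 6, 2, 0, 4, 5⟩ :=
  out_sound (S := T5.ds_mm) T5.ok_mm (w := 17) (j := 4) (by decide +kernel)
theorem L05553 : Good (Phi V5.P V5.D (-1) (-1)) ⟨4, 14, 3, 7, 3, 6, 2, 0, 4, 5⟩ :=
  out_sound (S := T5.ds_mm) T5.ok_mm (w := 51) (j := 3) (by decide +kernel)
theorem L05554 : Good (Phi V5.P V5.D (-1) (-1)) ⟨4, 15, 2, 3, 3, 6, 2, 0, 4, 5⟩ :=
  out_sound (S := T5.ds_mm) T5.ok_mm (w := 15) (j := 4) (by decide +kernel)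
theorem L05555 : Good (Phi V5.P V5.D (-1) (-1)) ⟨2, 3, 2, 2, 3, 7, 2, 0, 5, 10⟩ :=
  leafX_sound T5.ok_mm T5.Ymm.bz_eq (w := 217) (c := ⟨⟨.negSucc 1740, .negSucc 147, .negSucc 47, .ofNat 374, .ofNat 70, .ofNat 70⟩, ⟨.ofNat 933, .ofNat 71, .ofNat 373, .negSucc 212, .negSucc 32, .negSucc 32⟩, ⟨.ofNat 1767, .ofNat 136, .negSucc 404, .negSucc 359, .negSucc 1402, .negSucc 460⟩, ⟨.negSucc 3502, .ofNat 88, .ofNat 113, .ofNat 899, .ofNat 416, .ofNat 204⟩, ⟨.negSucc 1400, .ofNat 25, .ofNat 309, .ofNat 604, .ofNat 500, .ofNat 166⟩, .ofNat 780, .ofNat 870, .ofNat 0, .ofNat 870, .ofNat 1661, .ofNat 0, .ofNat 128, .negSucc 294, .ofNat 43, .ofNat 0, .ofNat 263, .negSucc 53, .ofNat 0, .ofNat 0, .ofNat 1504, .ofNat 1291, .ofNat 0, .ofNat 0, .ofNat 0, .ofNat 0, .ofNat 0, .ofNat 22732543785583897653474071151496415959580672, .ofNat 34035149539065863775963003444930041054494720, .ofNat 1922743842473765830784311443248667044477340221440,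 .ofNat 0, .ofNat 57731046803097381429668449683081744191848448, .ofNat 23999217182765432750110532550376488427323392, .ofNat 3013509231523128123729445968382528215814814826496, .ofNat 0, .ofNat 175336888954800564767275110477502847930859520, .ofNat 28088007529611597047596515060863541826289664, .ofNat 1782698818780251075512508487741674428371088441344⟩)
    (by decide +kernel)
theorem L05556 : Good (Phi V5.P V5.D (-1) (-1)) ⟨2, 3, 2, 2, 3, 7, 2, 0, 5, 11⟩ :=
  out_sound (S := T5.ds_mm) T5.ok_mm (w := 34) (j := 2) (by decide +kernel)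
theorem L05557 : Good (Phi V5.P V5.D (-1) (-1)) ⟨3, 6, 2, 3, 3, 7, 2, 0, 4, 5⟩ :=
  out_sound (S := T5.ds_mm) T5.ok_mm (w := 43) (j := 3) (by decide +kernel)
theorem L05558 : Good (Phi V5.P V5.D (-1) (-1)) ⟨5, 28, 3, 6, 3, 7, 2, 0, 4, 5⟩ :=
  out_sound (S := T5.ds_mm) T5.ok_mm (w := 57) (j := 3) (by decide +kernel)
theorem L05559 : Good (Phi V5.P V5.D (-1) (-1)) ⟨5, 29, 3, 6, 3, 7, 2, 0, 4, 5⟩ :=
  out_sound (S := T5.ds_mm) T5.ok_mm (w := 17) (j := 4) (by decide +kernel)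
theorem L05560 : Good (Phi V5.P V5.D (-1) (-1)) ⟨4, 14, 3, 7, 3, 7, 2, 0, 4, 5⟩ :=
  out_sound (S := T5.ds_mm) T5.ok_mm (w := 51) (j := 3) (by decide +kernel)
theorem L05561 : Good (Phi V5.P V5.D (-1) (-1)) ⟨4, 15, 2, 3, 3, 7, 2, 0, 4, 5⟩ :=
  out_sound (S := T5.ds_mm) T5.ok_mm (w := 15) (j := 4) (by decide +kernel)
theorem L05562 : Good (Phi V5.P V5.D (-1) (-1)) ⟨2, 3, 1, 1, 3, 6, 2, 0, 3, 3⟩ :=
  leafX_sound T5.ok_mm T5.Ymm.bz_eq (w := 206) (c := ⟨⟨.negSucc 1540, .negSucc 324, .negSucc 224, .ofNat 87, .negSucc 155, .ofNat 1⟩, ⟨.ofNat 794, .ofNat 206, .ofNat 852, .negSucc 50, .ofNat 111, .negSucc 0⟩, ⟨.ofNat 2393, .negSucc 347, .negSucc 1340, .negSucc 1461, .negSucc 1801, .ofNat 0⟩, ⟨.negSucc 3326, .ofNat 46, .negSucc 235, .ofNat 316, .ofNat 180, .ofNat 2⟩, ⟨.negSucc 1352, .negSucc 69, .ofNat 291, .ofNat 293, .ofNat 618, .ofNat 0⟩, .ofNat 373, .ofNat 271, .ofNat 0, .ofNat 271, .ofNat 642, .ofNat 0, .ofNat 128, .negSucc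 285, .ofNat 119, .ofNat 0, .ofNat 319, .negSucc 97, .ofNat 0, .ofNat 0, .ofNat 1984, .ofNat 6997, .ofNat 397672031447812445931731492083593939779584, .ofNat 15577858635346473835654702182366883872768, .ofNat 754111555010048325623873017017089916928, .ofNat 23696852750742814147929468465173573234851840, .ofNat 2013867934741817902462692914101440789610496, .ofNat 69885780956202814206214234636764640706560, .ofNat 2626044101384848387260507336268247465984, .ofNat 40331261950579633530918916279843666568151040, .ofNat 8229133650441536730662939277952674978332672, .ofNat 530467262059032412945494751225322340876288, .ofNat 11248053437726670460821516513959252852736, .ofNat 988965547266311719312131795062284596486864896, .ofNat 29967051392657020908955827881132904641724416, .ofNat 2702396584927400416460878576893057933770752, .ofNat 72853560521893911143161027520204405473280, .ofNat 2236255082289764666309563764522209096018952192⟩)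
    (by decide +kernel)
theorem L05563 : Good (Phi V5.P V5.D (-1) (-1)) ⟨2, 3, 1, 1, 3, 7, 2, 0, 3, 3⟩ :=
  out_sound (S := T5.ds_mm) T5.ok_mm (w := 30) (j := 2) (by decide +kernel)
theorem L05564 : Good (Phi V5.P V5.D (-1) (-1)) ⟨2, 2, 1, 1, 2, 2, 2, 1, 3, 2⟩ :=
  out_sound (S := T5.ds_mm) T5.ok_mm (w := 35) (j := 3) (by decide +kernel)
theorem L05565 : Good (Phi V5.P V5.D (-1) (-1)) ⟨4, 12, 1, 1, 2, 2, 2, 1, 4, 4⟩ :=
  out_sound (S := T5.ds_mm) T5.ok_mm (w := 47) (j := 3) (by decide +kernel)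
theorem L05566 : Good (Phi V5.P V5.D (-1) (-1)) ⟨4, 13, 2, 2, 2, 2, 3, 2, 4, 4⟩ :=
  leafX_sound T5.ok_mm T5.Ymm.bz_eq (w := 212) (c := ⟨⟨.negSucc 3148, .negSucc 143, .ofNat 38, .ofNat 606, .ofNat 154, .ofNat 546⟩, ⟨.ofNat 1718, .ofNat 124, .ofNat 418, .negSucc 369, .negSucc 87, .negSucc 315⟩, ⟨.ofNat 2617, .ofNat 119, .negSucc 276, .negSucc 1241, .negSucc 328, .negSucc 415⟩, ⟨.negSucc 5114, .ofNat 42, .negSucc 96, .ofNat 530, .ofNat 265, .ofNat 859⟩, ⟨.negSucc 575, .negSucc 13, .negSucc 57, .negSucc 603, .ofNat 68, .ofNat 91⟩, .ofNat 366, .ofNat 261, .ofNat 0, .ofNat 261, .ofNat 642, .ofNat 0, .ofNat 128, .negSucc 160, .negSucc 78, .ofNat 0, .ofNat 153, .ofNat 47, .ofNat 0, .ofNat 0, .ofNat 368, .ofNat 4933, .ofNat 2580099823815920348842690660681110651928576, .ofNat 0, .ofNat 1502510931023936853765325774118715392, .ofNat 0, .ofNat 0, .ofNat 0, .ofNat 61037691951750517020587658591256707072, .ofNat 0, .ofNat 0, .ofNat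 0, .ofNat 50629015961240582149823988040598552576, .ofNat 0, .ofNat 0, .ofNat 0, .ofNat 0, .ofNat 0⟩)
    (by decide +kernel)
theorem L05567 : Good (Phi V5.P V5.D (-1) (-1)) ⟨4, 13, 2, 3, 2, 2, 3, 2, 4, 4⟩ :=
  out_sound (S := T5.ds_mm) T5.ok_mm (w := 49) (j := 3) (by decide +kernel)
theorem L05568 : Good (Phi V5.P V5.D (-1) (-1)) ⟨4, 13, 1, 1, 2, 2, 3, 3, 4, 4⟩ :=
  leafX_sound T5.ok_mm T5.Ymm.bz_eq (w := 209) (c := ⟨⟨.negSucc 2960, .negSucc 147, .ofNat 1, .ofNat 573, .ofNat 164, .ofNat 537⟩, ⟨.ofNat 1610, .ofNat 134, .ofNat 870, .negSucc 348, .negSucc 94, .negSucc 310⟩, ⟨.ofNat 2304, .ofNat 162, .negSucc 696, .negSucc 1267, .negSucc 348, .negSucc 449⟩, ⟨.negSucc 4800, .negSucc 8, .negSucc 25, .ofNat 535, .ofNat 312, .ofNat 837⟩, ⟨.negSucc 512, .negSucc 80, .ofNat 192, .negSucc 534, .ofNat 131, .ofNat 96⟩, .ofNat 746, .ofNat 825, .ofNat 0, .ofNat 825, .ofNat 1630, .ofNat 0, .ofNat 128, .negSucc 457, .negSucc 186, .ofNat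 0, .ofNat 334, .ofNat 108, .ofNat 0, .ofNat 0, .ofNat 857, .ofNat 4356, .ofNat 0, .ofNat 0, .ofNat 0, .ofNat 0, .ofNat 0, .ofNat 0, .ofNat 33523058441303047532777310287485206528, .ofNat 0, .ofNat 0, .ofNat 0, .ofNat 57946107821456287618661062063597551616, .ofNat 0, .ofNat 0, .ofNat 0, .ofNat 31989211603742328387422230095249539072, .ofNat 0⟩)
    (by decide +kernel)
theorem L05569 : Good (Phi V5.P V5.D (-1) (-1)) ⟨5, 28, 3, 4, 2, 2, 2, 1, 5, 8⟩ :=
  leafX_sound T5.ok_mm T5.Ymm.bz_eq (w := 221) (c := ⟨⟨.negSucc 3363, .negSucc 130, .ofNat 37, .ofNat 610, .ofNat 371, .ofNat 323⟩, ⟨.ofNat 1884, .ofNat 79, .ofNat 239, .negSucc 395, .negSucc 232, .negSucc 202⟩, ⟨.ofNat 2824, .ofNat 140, .negSucc 207, .negSucc 1249, .negSucc 659, .negSucc 232⟩, ⟨.negSucc 5100, .negSucc 66, .negSucc 13, .ofNat 420, .ofNat 608, .ofNat 472⟩, ⟨.negSucc 501, .negSucc 6, .negSucc 52, .negSucc 714, .ofNat 128, .ofNat 14⟩, .ofNat 2047, .ofNat 2797,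 .ofNat 0, .ofNat 2797, .ofNat 4610, .ofNat 0, .ofNat 128, .negSucc 962, .negSucc 377, .ofNat 0, .ofNat 653, .ofNat 240, .ofNat 0, .ofNat 0, .ofNat 1405, .ofNat 6735, .ofNat 0, .ofNat 0, .ofNat 0, .ofNat 0, .ofNat 0, .ofNat 0, .ofNat 5943239522717140359604897422144520060928, .ofNat 0, .ofNat 0, .ofNat 0, .ofNat 911751034744185282226878706950604849152, .ofNat 0, .ofNat 0, .ofNat 0, .ofNat 0, .ofNat 0⟩)
    (by decide +kernel)
theorem L05570 : Good (Phi V5.P V5.D (-1) (-1)) ⟨5, 28, 3, 4, 2, 2, 2, 1, 5, 9⟩ :=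
  leafX_sound T5.ok_mm T5.Ymm.bz_eq (w := 221) (c := ⟨⟨.negSucc 3042, .negSucc 161, .ofNat 84, .ofNat 583, .ofNat 308, .ofNat 244⟩, ⟨.ofNat 1708, .ofNat 97, .ofNat 178, .negSucc 375, .negSucc 191, .negSucc 152⟩, ⟨.ofNat 2705, .ofNat 193, .negSucc 263, .negSucc 1394, .negSucc 720, .negSucc 213⟩, ⟨.negSucc 4730, .negSucc 196, .ofNat 108, .ofNat 512, .ofNat 582, .ofNat 385⟩, ⟨.negSucc 682, .negSucc 158, .ofNat 82, .negSucc 505, .ofNat 225, .ofNat 58⟩, .ofNat 1144, .ofNat 1348, .ofNat 0, .ofNat 1348, .ofNat 2275, .ofNat 0, .ofNat 128, .negSucc 1128, .negSucc 332, .ofNat 0, .ofNat 865, .ofNat 216, .ofNat 0, .ofNat 0, .ofNat 1775, .ofNat 7797, .ofNat 847754235350431399436332459457680393516351488, .ofNat 0, .ofNat 4025791683692927011749940506109411328, .ofNat 0, .ofNat 0, .ofNat 0, .ofNat 892911018751570419342418296620682575872, .ofNat 0, .ofNat 0, .ofNat 0, .ofNat 0, .ofNat 0, .ofNat 0, .ofNat 0, .ofNat 4226964690070278805914383597077845245952,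 .ofNat 0⟩)
    (by decide +kernel)
theorem L05571 : Good (Phi V5.P V5.D (-1) (-1)) ⟨5, 28, 3, 5, 2, 2, 2, 1, 5, 8⟩ :=
  leafX_sound T5.ok_mm T5.Ymm.bz_eq (w := 224) (c := ⟨⟨.negSucc 3377, .negSucc 249, .ofNat 283, .ofNat 712, .ofNat 410, .ofNat 342⟩, ⟨.ofNat 2166, .ofNat 166, .ofNat 67, .negSucc 471, .negSucc 267, .negSucc 224⟩, ⟨.ofNat 2719, .negSucc 50, .negSucc 17, .negSucc 1323, .negSucc 679, .negSucc 254⟩, ⟨.negSucc 5205, .negSucc 2, .ofNat 113, .ofNat 564, .ofNat 622, .ofNat 442⟩, ⟨.negSucc 546, .ofNat 43, .negSucc 33, .negSucc 661, .ofNat 71, .negSucc 58⟩, .ofNat 3885, .ofNat 5514, .ofNat 0, .ofNat 5514, .ofNat 8609, .ofNat 0, .ofNat 128, .negSucc 1205, .negSucc 304, .ofNat 0, .ofNat 817, .ofNat 200, .ofNat 0, .ofNat 0, .ofNat 1183, .ofNat 10207, .ofNat 0, .ofNat 0, .ofNat 0, .ofNat 0, .ofNat 0, .ofNat 0, .ofNat 8768220505700947692149725573549683376128, .ofNat 748119044895467642961409881117716215301853413376,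 .ofNat 0, .ofNat 0, .ofNat 9243894223862082819973429534426746847232, .ofNat 214638645509404998901344204840475689253064409088, .ofNat 0, .ofNat 0, .ofNat 856892353362850354385063059983421145088, .ofNat 0⟩)
    (by decide +kernel)
theorem L05572 : Good (Phi V5.P V5.D (-1) (-1)) ⟨5, 28, 3, 5, 2, 2, 2, 1, 5, 9⟩ :=
  leafX_sound T5.ok_mm T5.Ymm.bz_eq (w := 220) (c := ⟨⟨.negSucc 3004, .negSucc 11, .negSucc 86, .ofNat 618, .ofNat 296, .ofNat 266⟩, ⟨.ofNat 1912, .ofNat 68, .ofNat 222, .negSucc 407, .negSucc 193, .negSucc 173⟩, ⟨.ofNat 2486, .ofNat 14, .negSucc 115, .negSucc 1393, .negSucc 709, .negSucc 217⟩, ⟨.negSucc 4675, .ofNat 72, .negSucc 165, .ofNat 526, .ofNat 559, .ofNat 415⟩, ⟨.negSucc 607, .negSucc 34, .ofNat 4, .negSucc 525, .ofNat 215, .ofNat 61⟩, .ofNat 390, .ofNat 297, .ofNat 0, .ofNat 297, .ofNat 646, .ofNat 0, .ofNat 128, .negSucc 546, .negSucc 157, .ofNat 0, .ofNat 512, .ofNat 96, .ofNat 0, .ofNat 0, .ofNat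 898, .ofNat 3219, .ofNat 376900779467838475616592080794359490626453504, .ofNat 0, .ofNat 7820525006931658160216740842931486720, .ofNat 0, .ofNat 0, .ofNat 0, .ofNat 269737909030019034518247411068566503424, .ofNat 33314926671278374365911082718768509437542924288, .ofNat 0, .ofNat 0, .ofNat 0, .ofNat 0, .ofNat 0, .ofNat 0, .ofNat 378897203815366214553768796628214349824, .ofNat 310883458200271265351293325836863434455909400576⟩)
    (by decide +kernel)
theorem L05573 : Good (Phi V5.P V5.D (-1) (-1)) ⟨5, 29, 2, 2, 2, 2, 2, 1, 4, 4⟩ :=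
  out_sound (S := T5.ds_mm) T5.ok_mm (w := 17) (j := 4) (by decide +kernel)
theorem L05574 : Good (Phi V5.P V5.D (-1) (-1)) ⟨5, 28, 3, 6, 2, 2, 2, 1, 4, 4⟩ :=
  out_sound (S := T5.ds_mm) T5.ok_mm (w := 57) (j := 3) (by decide +kernel)
theorem L05575 : Good (Phi V5.P V5.D (-1) (-1)) ⟨5, 29, 3, 6, 2, 2, 2, 1, 4, 4⟩ :=
  out_sound (S := T5.ds_mm) T5.ok_mm (w := 17) (j := 4) (by decide +kernel)
theorem L05576 : Good (Phi V5.P V5.D (-1) (-1)) ⟨4, 14, 3, 7, 2, 2, 2, 1, 4, 4⟩ :=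
  out_sound (S := T5.ds_mm) T5.ok_mm (w := 51) (j := 3) (by decide +kernel)
theorem L05577 : Good (Phi V5.P V5.D (-1) (-1)) ⟨4, 15, 1, 1, 2, 2, 2, 1, 4, 4⟩ :=
  out_sound (S := T5.ds_mm) T5.ok_mm (w := 15) (j := 4) (by decide +kernel)
theorem L05578 : Good (Phi V5.P V5.D (-1) (-1)) ⟨4, 12, 1, 1, 2, 2, 2, 1, 4, 5⟩ :=
  out_sound (S := T5.ds_mm) T5.ok_mm (w := 47) (j := 3) (by decide +kernel)
theorem L05579 : Good (Phi V5.P V5.D (-1) (-1)) ⟨4, 13, 3, 4, 2, 2, 3, 2, 5, 10⟩ :=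
  leafX_sound T5.ok_mm T5.Ymm.bz_eq (w := 221) (c := ⟨⟨.negSucc 2543, .negSucc 165, .ofNat 28, .ofNat 484, .ofNat 127, .ofNat 203⟩, ⟨.ofNat 1376, .ofNat 142, .ofNat 172, .negSucc 293, .negSucc 71, .negSucc 118⟩, ⟨.ofNat 2304, .ofNat 132, .negSucc 165, .negSucc 1437, .negSucc 389, .negSucc 159⟩, ⟨.negSucc 4217, .negSucc 15, .negSucc 7, .ofNat 475, .ofNat 261, .ofNat 317⟩, ⟨.negSucc 582, .negSucc 28, .ofNat 5, .negSucc 391, .ofNat 128, .ofNat 38⟩, .ofNat 747, .ofNat 827, .ofNat 0, .ofNat 827, .ofNat 1627, .ofNat 0, .ofNat 128, .negSucc 407, .negSucc 104, .ofNat 0, .ofNat 307, .ofNat 62, .ofNat 0, .ofNat 0, .ofNat 1003, .ofNat 12194, .ofNat 955304498966537615354963922647833885118824448, .ofNat 0, .ofNat 539671806907904842711750537520013639680, .ofNat 0, .ofNat 0, .ofNat 0, .ofNat 0, .ofNat 0, .ofNat 0, .ofNat 0, .ofNat 19046605715232808100575157089111346511872, .ofNat 0, .ofNat 0, .ofNat 0, .ofNat 31747362274471198628684633636116122042368,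 .ofNat 0⟩)
    (by decide +kernel)
theorem L05580 : Good (Phi V5.P V5.D (-1) (-1)) ⟨4, 13, 3, 4, 2, 2, 3, 2, 5, 11⟩ :=
  leafX_sound T5.ok_mm T5.Ymm.bz_eq (w := 221) (c := ⟨⟨.negSucc 2300, .negSucc 71, .negSucc 29, .ofNat 380, .ofNat 44, .ofNat 149⟩, ⟨.ofNat 1243, .ofNat 75, .ofNat 194, .negSucc 226, .negSucc 21, .negSucc 85⟩, ⟨.ofNat 2421, .ofNat 75, .negSucc 174, .negSucc 1779, .negSucc 578, .negSucc 176⟩, ⟨.negSucc 3888, .ofNat 74, .negSucc 75, .ofNat 452, .ofNat 193, .ofNat 241⟩, ⟨.negSucc 678, .negSucc 35, .ofNat 7, .negSucc 168, .ofNat 228, .ofNat 44⟩, .ofNat 367, .ofNat 261, .ofNat 0, .ofNat 261, .ofNat 642, .ofNat 0, .ofNat 128, .negSucc 318, .negSucc 53, .ofNat 0, .ofNat 327, .ofNat 24, .ofNat 0, .ofNat 0, .ofNat 1548, .ofNat 9799, .ofNat 1176204435221934257520744762425295381037318144, .ofNat 0, .ofNat 1007087881109685064425491148565423063040, .ofNat 0, .ofNat 0, .ofNat 0, .ofNat 4545568896703065620315227001884541714432,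 .ofNat 0, .ofNat 0, .ofNat 0, .ofNat 0, .ofNat 0, .ofNat 0, .ofNat 130884174789137322288811501571281579895947264, .ofNat 214716059835409407143688314423424944439296, .ofNat 0⟩)
    (by decide +kernel)
theorem L05581 : Good (Phi V5.P V5.D (-1) (-1)) ⟨4, 13, 3, 4, 3, 4, 3, 3, 5, 10⟩ :=
  leafX_sound T5.ok_mm T5.Ymm.bz_eq (w := 235) (c := ⟨⟨.negSucc 2397, .negSucc 158, .ofNat 20, .ofNat 197, .ofNat 145, .ofNat 190⟩, ⟨.ofNat 1289, .ofNat 142, .ofNat 171, .negSucc 118, .negSucc 81, .negSucc 107⟩, ⟨.ofNat 1941, .ofNat 86, .negSucc 105, .negSucc 705, .negSucc 382, .negSucc 173⟩, ⟨.negSucc 3947, .negSucc 10, .negSucc 9, .ofNat 176, .ofNat 283, .ofNat 309⟩, ⟨.negSucc 487, .negSucc 6, .negSucc 15, .negSucc 198, .ofNat 122, .ofNat 50⟩, .ofNat 366, .ofNat 260, .ofNat 0, .ofNat 260, .ofNat 643, .ofNat 0, .ofNat 128, .negSucc 273, .negSucc 105, .ofNat 0, .ofNat 265, .ofNat 58, .ofNat 0, .ofNat 0, .ofNat 754, .ofNat 15071, .ofNat 0,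 .ofNat 0, .ofNat 0, .ofNat 0, .ofNat 0, .ofNat 0, .ofNat 0, .ofNat 0, .ofNat 0, .ofNat 0, .ofNat 0, .ofNat 0, .ofNat 0, .ofNat 0, .ofNat 538989438691796966484061934148815670766206976, .ofNat 0⟩)
    (by decide +kernel)
theorem L05582 : Good (Phi V5.P V5.D (-1) (-1)) ⟨4, 13, 3, 4, 3, 4, 3, 3, 5, 11⟩ :=
  leafX_sound T5.ok_mm T5.Ymm.bz_eq (w := 236) (c := ⟨⟨.negSucc 2205, .negSucc 143, .ofNat 21, .ofNat 174, .ofNat 119, .ofNat 153⟩, ⟨.ofNat 1182, .ofNat 136, .ofNat 154, .negSucc 104, .negSucc 65, .negSucc 87⟩, ⟨.ofNat 1777, .ofNat 128, .negSucc 162, .negSucc 789, .negSucc 415, .negSucc 158⟩, ⟨.negSucc 3638, .ofNat 9, .negSucc 14, .ofNat 167, .ofNat 251, .ofNat 249⟩, ⟨.negSucc 448, .negSucc 5, .negSucc 20, .negSucc 149, .ofNat 131, .ofNat 42⟩, .ofNat 1093, .ofNat 1385, .ofNat 0, .ofNat 1385, .ofNat 2574, .ofNat 0, .ofNat 128, .negSucc 645, .negSucc 166, .ofNat 0, .ofNat 450, .ofNat 95, .ofNat 0, .ofNat 0, .ofNat 2216,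 .ofNat 28325, .ofNat 13180364278302954925707731860315135647765067988992, .ofNat 0, .ofNat 34306240024570511521649774130033194027712512, .ofNat 0, .ofNat 0, .ofNat 0, .ofNat 234017405157173292531774244083240626039029760, .ofNat 0, .ofNat 0, .ofNat 0, .ofNat 671190197036232950064077935828578650367721472, .ofNat 0, .ofNat 0, .ofNat 0, .ofNat 2041423220012766849607731570894883618725822464, .ofNat 0⟩)
    (by decide +kernel)
theorem L05583 : Good (Phi V5.P V5.D (-1) (-1)) ⟨4, 13, 3, 4, 3, 5, 3, 3, 4, 5⟩ :=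
  leafX_sound T5.ok_mm T5.Ymm.bz_eq (w := 228) (c := ⟨⟨.negSucc 2156, .negSucc 133, .ofNat 24, .ofNat 174, .ofNat 52, .ofNat 252⟩, ⟨.ofNat 1163, .ofNat 97, .ofNat 164, .negSucc 98, .negSucc 22, .negSucc 137⟩, ⟨.ofNat 1463, .negSucc 164, .negSucc 74, .negSucc 943, .negSucc 546, .negSucc 609⟩, ⟨.negSucc 3760, .ofNat 47, .negSucc 36, .ofNat 266, .ofNat 233, .ofNat 515⟩, ⟨.negSucc 809, .ofNat 71, .negSucc 63, .ofNat 20, .ofNat 271, .ofNat 260⟩, .ofNat 745, .ofNat 826, .ofNat 0, .ofNat 826, .ofNat 1634, .ofNat 0, .ofNat 128, .negSucc 581, .negSucc 16, .ofNat 0, .ofNat 440, .negSucc 1, .ofNat 0, .ofNat 0, .ofNat 2217, .ofNat 2153, .ofNat 0, .ofNat 0, .ofNat 0, .ofNat 0, .ofNat 0, .ofNat 9256065589972321207819065116805931984563994624, .ofNat 3698399745697386277583553026842953525493760, .ofNat 0, .ofNat 0, .ofNat 78607145334275198859562830995988432225166163968, .ofNat 16925630200040444280551315821366223086551040, .ofNat 0,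 .ofNat 0, .ofNat 394539174815270583942074627573301186471842021376, .ofNat 0, .ofNat 0⟩)
    (by decide +kernel)
theorem L05584 : Good (Phi V5.P V5.D (-1) (-1)) ⟨4, 13, 3, 5, 2, 2, 2, 1, 4, 5⟩ :=
  out_sound (S := T5.ds_mm) T5.ok_mm (w := 51) (j := 3) (by decide +kernel)
theorem L05585 : Good (Phi V5.P V5.D (-1) (-1)) ⟨4, 13, 2, 3, 2, 2, 2, 1, 4, 5⟩ :=
  out_sound (S := T5.ds_mm) T5.ok_mm (w := 49) (j := 3) (by decide +kernel)
theorem L05586 : Good (Phi V5.P V5.D (-1) (-1)) ⟨5, 28, 2, 2, 3, 4, 3, 2, 5, 10⟩ :=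
  leafX_sound T5.ok_mm T5.Ymm.bz_eq (w := 238) (c := ⟨⟨.negSucc 2699, .negSucc 62, .ofNat 16, .ofNat 226, .ofNat 126, .ofNat 213⟩, ⟨.ofNat 1550, .ofNat 87, .ofNat 322, .negSucc 148, .negSucc 80, .negSucc 138⟩, ⟨.ofNat 2496, .ofNat 128, .negSucc 427, .negSucc 743, .negSucc 375, .negSucc 177⟩, ⟨.negSucc 4221, .negSucc 29, .ofNat 20, .ofNat 162, .ofNat 242, .ofNat 330⟩, ⟨.negSucc 617, .negSucc 79, .ofNat 111, .negSucc 244, .ofNat 98, .ofNat 44⟩, .ofNat 387, .ofNat 293, .ofNat 0, .ofNat 293, .ofNat 645, .ofNat 0, .ofNat 128, .negSucc 247, .negSucc 127, .ofNat 0, .ofNat 235, .ofNat 81, .ofNat 0, .ofNat 0, .ofNat 872, .ofNat 40253, .ofNat 30032170749910385494549257119562275416677860507648, .ofNat 0, .ofNat 273555707155421727079881249445158217318400, .ofNat 0, .ofNat 0, .ofNat 0, .ofNat 46375980796308267750280078046510951839039488, .ofNat 0, .ofNat 3921554686088329195128251273358987250974756700160, .ofNat 0, .ofNat 46770069622409875253634164259361590643523584,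 .ofNat 11532132353355225931620930564649420956857233110466560, .ofNat 0, .ofNat 0, .ofNat 256341440402613836535320882443607392244465664, .ofNat 0⟩)
    (by decide +kernel)
theorem L05587 : Good (Phi V5.P V5.D (-1) (-1)) ⟨5, 28, 2, 2, 3, 4, 3, 2, 5, 11⟩ :=
  leafX_sound T5.ok_mm T5.Ymm.bz_eq (w := 239) (c := ⟨⟨.negSucc 2425, .negSucc 28, .negSucc 56, .ofNat 195, .ofNat 101, .ofNat 160⟩, ⟨.ofNat 1366, .ofNat 35, .ofNat 396, .negSucc 126, .negSucc 61, .negSucc 103⟩, ⟨.ofNat 2382, .ofNat 36, .negSucc 280, .negSucc 856, .negSucc 443, .negSucc 195⟩, ⟨.negSucc 3854, .ofNat 13, .negSucc 59, .ofNat 164, .ofNat 230, .ofNat 263⟩, ⟨.negSucc 612, .negSucc 37, .ofNat 45, .negSucc 173, .ofNat 131, .ofNat 59⟩, .ofNat 880, .ofNat 993, .ofNat 0, .ofNat 993, .ofNat 1756, .ofNat 0, .ofNat 128, .negSucc 449, .negSucc 111, .ofNat 0, .ofNat 342, .ofNat 71, .ofNat 0, .ofNat 0, .ofNat 1418, .ofNat 76149, .ofNat 87159690338222106670658672659620612553458770247680,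 .ofNat 0, .ofNat 0, .ofNat 0, .ofNat 0, .ofNat 0, .ofNat 180218519345173506438241698511512290117812224, .ofNat 0, .ofNat 177221570390255739234723315064247196096649037348864, .ofNat 0, .ofNat 238267746439760524306835265667519252728381440, .ofNat 0, .ofNat 0, .ofNat 0, .ofNat 0, .ofNat 0⟩)
    (by decide +kernel)
theorem L05588 : Good (Phi V5.P V5.D (-1) (-1)) ⟨5, 28, 2, 2, 3, 4, 3, 3, 5, 10⟩ :=
  leafX_sound T5.ok_mm T5.Ymm.bz_eq (w := 237) (c := ⟨⟨.negSucc 2563, .negSucc 60, .ofNat 26, .ofNat 207, .ofNat 146, .ofNat 199⟩, ⟨.ofNat 1444, .ofNat 58, .ofNat 360, .negSucc 134, .negSucc 93, .negSucc 125⟩, ⟨.ofNat 2040, .ofNat 63, .negSucc 216, .negSucc 771, .negSucc 398, .negSucc 178⟩, ⟨.negSucc 3963, .negSucc 7, .ofNat 3, .ofNat 160, .ofNat 290, .ofNat 312⟩, ⟨.negSucc 499, .negSucc 45, .ofNat 23, .negSucc 207, .ofNat 131, .ofNat 44⟩, .ofNat 388, .ofNat 294, .ofNat 0, .ofNat 294, .ofNat 645, .ofNat 0, .ofNat 128, .negSucc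 554, .negSucc 189, .ofNat 0, .ofNat 524, .ofNat 110, .ofNat 0, .ofNat 0, .ofNat 1402, .ofNat 16858, .ofNat 0, .ofNat 0, .ofNat 0, .ofNat 0, .ofNat 0, .ofNat 0, .ofNat 28377492830911983242954292908901317000298496, .ofNat 1161587649126208889657995010241637222908148309819392, .ofNat 0, .ofNat 0, .ofNat 0, .ofNat 0, .ofNat 0, .ofNat 0, .ofNat 0, .ofNat 0⟩)
    (by decide +kernel)
theorem L05589 : Good (Phi V5.P V5.D (-1) (-1)) ⟨5, 28, 2, 2, 3, 4, 3, 3, 5, 11⟩ :=
  leafX_sound T5.ok_mm T5.Ymm.bz_eq (w := 236) (c := ⟨⟨.negSucc 2330, .negSucc 73, .ofNat 6, .ofNat 169, .ofNat 114, .ofNat 157⟩, ⟨.ofNat 1298, .ofNat 45, .ofNat 385, .negSucc 110, .negSucc 73, .negSucc 102⟩, ⟨.ofNat 1866, .negSucc 129, .ofNat 12, .negSucc 921, .negSucc 450, .negSucc 188⟩, ⟨.negSucc 3629, .negSucc 1, .negSucc 31, .ofNat 159, .ofNat 259, .ofNat 252⟩, ⟨.negSucc 504, .ofNat 2, .ofNat 15, .negSucc 119, .ofNat 155, .ofNat 48⟩, .ofNat 388, .ofNat 294,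 .ofNat 0, .ofNat 294, .ofNat 645, .ofNat 0, .ofNat 128, .negSucc 556, .negSucc 135, .ofNat 0, .ofNat 538, .ofNat 72, .ofNat 0, .ofNat 0, .ofNat 1914, .ofNat 11006, .ofNat 11161105652919439592785023512559544405115136901120, .ofNat 0, .ofNat 344545387864165231742415437730751293947904, .ofNat 0, .ofNat 0, .ofNat 0, .ofNat 29693758529941763076518104037859453875257344, .ofNat 143736842068196236189860940037909018757589597421568, .ofNat 0, .ofNat 0, .ofNat 0, .ofNat 0, .ofNat 0, .ofNat 0, .ofNat 0, .ofNat 0⟩)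
    (by decide +kernel)
theorem L05590 : Good (Phi V5.P V5.D (-1) (-1)) ⟨5, 28, 3, 4, 3, 5, 2, 1, 5, 10⟩ :=
  leafX_sound T5.ok_mm T5.Ymm.bz_eq (w := 235) (c := ⟨⟨.negSucc 2505, .negSucc 244, .ofNat 130, .ofNat 257, .ofNat 125, .ofNat 169⟩, ⟨.ofNat 1392, .ofNat 160, .ofNat 118, .negSucc 164, .negSucc 74, .negSucc 104⟩, ⟨.ofNat 1525, .negSucc 473, .ofNat 242, .negSucc 843, .negSucc 1013, .negSucc 284⟩, ⟨.negSucc 4090, .negSucc 88, .ofNat 69, .ofNat 319, .ofNat 470, .ofNat 317⟩, ⟨.negSucc 875, .ofNat 241, .negSucc 96, .negSucc 71, .ofNat 462, .ofNat 122⟩, .ofNat 847, .ofNat 952, .ofNat 0, .ofNat 952, .ofNat 1720, .ofNat 0, .ofNat 128, .negSucc 941, .negSucc 116, .ofNat 0, .ofNat 720, .ofNat 64, .ofNat 0, .ofNat 0, .ofNat 2697, .ofNat 8275, .ofNat 5635036184279728897646308290496979538983866335232, .ofNat 0, .ofNat 360805569235628060108552866819196852371456, .ofNat 0, .ofNat 0, .ofNat 0, .ofNat 21439800695223387880631561765750434475016192,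 .ofNat 0, .ofNat 0, .ofNat 0, .ofNat 22456721789143295640633296415692384244858880, .ofNat 0, .ofNat 0, .ofNat 0, .ofNat 23798950131848847376276544799969399611064320, .ofNat 0⟩)
    (by decide +kernel)
theorem L05591 : Good (Phi V5.P V5.D (-1) (-1)) ⟨5, 28, 3, 5, 3, 5, 2, 1, 5, 10⟩ :=
  leafX_sound T5.ok_mm T5.Ymm.bz_eq (w := 235) (c := ⟨⟨.negSucc 2412, .negSucc 106, .ofNat 35, .ofNat 267, .ofNat 115, .ofNat 181⟩, ⟨.ofNat 1535, .ofNat 96, .ofNat 155, .negSucc 175, .negSucc 74, .negSucc 118⟩, ⟨.ofNat 1651, .ofNat 6, .negSucc 206, .negSucc 833, .negSucc 1018, .negSucc 266⟩, ⟨.negSucc 4033, .negSucc 58, .ofNat 30, .ofNat 327, .ofNat 470, .ofNat 316⟩, ⟨.negSucc 915, .ofNat 14, .ofNat 6, .negSucc 68, .ofNat 473, .ofNat 93⟩, .ofNat 1061, .ofNat 1258, .ofNat 0, .ofNat 1258, .ofNat 2122, .ofNat 0, .ofNat 128, .negSucc 1244, .negSucc 134, .ofNat 0, .ofNat 925, .ofNat 78, .ofNat 0, .ofNat 0, .ofNat 3338, .ofNat 6820, .ofNat 4668477072256808058877327759515598754575804268544,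 .ofNat 0, .ofNat 448621922266954348577459631059949284491264, .ofNat 0, .ofNat 0, .ofNat 0, .ofNat 3909753369958038862365709340287368079343616, .ofNat 4817623228009329522943184040224723043024155420131328, .ofNat 0, .ofNat 0, .ofNat 50646812600868408491776619331203176993914880, .ofNat 40004328792688914386613476971595423524609509187125248, .ofNat 0, .ofNat 0, .ofNat 63931207719168753026028430656110541685129216, .ofNat 60820298257124101457598781735008292914656757562736640⟩)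
    (by decide +kernel)
theorem L05592 : Good (Phi V5.P V5.D (-1) (-1)) ⟨5, 28, 2, 2, 4, 10, 3, 2, 5, 11⟩ :=
  leafX_sound T5.ok_mm T5.Ymm.bz_eq (w := 251) (c := ⟨⟨.negSucc 2188, .negSucc 14, .negSucc 63, .ofNat 92, .ofNat 54, .ofNat 137⟩, ⟨.ofNat 1195, .negSucc 0, .ofNat 446, .negSucc 59, .negSucc 33, .negSucc 86⟩, ⟨.ofNat 1622, .negSucc 3, .negSucc 271, .negSucc 502, .negSucc 546, .negSucc 280⟩, ⟨.negSucc 3646, .ofNat 27, .negSucc 104, .ofNat 109, .ofNat 201, .ofNat 256⟩, ⟨.negSucc 867, .negSucc 73, .ofNat 103, .negSucc 29, .ofNat 196, .ofNat 96⟩, .ofNat 388, .ofNat 294, .ofNat 0, .ofNat 294, .ofNat 645, .ofNat 0, .ofNat 128, .negSucc 393, .negSucc 39, .ofNat 0, .ofNat 390, .ofNat 16, .ofNat 0, .ofNat 0, .ofNat 1698, .ofNat 34380, .ofNat 140700117175374302119744122137936668350820348378218496, .ofNat 0, .ofNat 23617781683077849358503716431762188033824129024, .ofNat 0, .ofNat 0, .ofNat 0, .ofNat 431498434202541448070065467040402946038115074048,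 .ofNat 43377693775412348246493235295172058559103795404262604800, .ofNat 0, .ofNat 0, .ofNat 1987012937855021662187960560707919025578614718464, .ofNat 0, .ofNat 0, .ofNat 0, .ofNat 2874698063543901077164626908301745911724790251520, .ofNat 861111286086656521386129552743086484257593420919416553472⟩)
    (by decide +kernel)
theorem L05593 : Good (Phi V5.P V5.D (-1) (-1)) ⟨5, 28, 2, 2, 4, 11, 3, 2, 5, 11⟩ :=
  leafX_sound T5.ok_mm T5.Ymm.bz_eq (w := 250) (c := ⟨⟨.negSucc 2076, .negSucc 120, .ofNat 39, .ofNat 76, .negSucc 4, .ofNat 97⟩, ⟨.ofNat 1158, .ofNat 99, .ofNat 299, .negSucc 49, .ofNat 5, .negSucc 62⟩, ⟨.ofNat 1236, .negSucc 281, .negSucc 116, .negSucc 582, .negSucc 705, .negSucc 418⟩, ⟨.negSucc 3529, .negSucc 38, .negSucc 39, .ofNat 151, .ofNat 173, .ofNat 227⟩, ⟨.negSucc 935, .ofNat 57, .negSucc 13, .ofNat 71, .ofNat 281, .ofNat 142⟩, .ofNat 388, .ofNat 294, .ofNat 0, .ofNat 294, .ofNat 645, .ofNat 0, .ofNat 128,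 .negSucc 354, .ofNat 75, .ofNat 0, .ofNat 369, .negSucc 72, .ofNat 0, .ofNat 0, .ofNat 1986, .ofNat 11592, .ofNat 39588764836782969836308772451653659690957794239840256, .ofNat 0, .ofNat 7000920684095761951929512629647180735119884288, .ofNat 0, .ofNat 0, .ofNat 0, .ofNat 275339151208554452436535000213930605141727117312, .ofNat 0, .ofNat 0, .ofNat 0, .ofNat 2583174575313473702206466898605564838773627289600, .ofNat 269115633379504402443907274608714445859346983848578646016, .ofNat 0, .ofNat 19244480042592041776825984056997536084264777089548288, .ofNat 5332222485679433559434629890619782135640664047616, .ofNat 523248769940163059497645885864576937462439969309719527424⟩)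
    (by decide +kernel)
theorem L05594 : Good (Phi V5.P V5.D (-1) (-1)) ⟨5, 28, 2, 2, 4, 10, 3, 3, 5, 11⟩ :=
  leafX_sound T5.ok_mm T5.Ymm.bz_eq (w := 249) (c := ⟨⟨.negSucc 1996, .ofNat 39, .negSucc 267, .ofNat 37, .ofNat 18, .ofNat 98⟩, ⟨.ofNat 1106, .negSucc 9, .ofNat 503, .negSucc 23, .negSucc 9, .negSucc 63⟩, ⟨.ofNat 1352, .ofNat 60, .negSucc 612, .negSucc 649, .negSucc 685, .negSucc 411⟩, ⟨.negSucc 3366, .ofNat 67, .negSucc 221, .ofNat 85, .ofNat 218, .ofNat 223⟩, ⟨.negSucc 793, .negSucc 81, .ofNat 220, .ofNat 53, .ofNat 301, .ofNat 136⟩, .ofNat 389, .ofNat 295, .ofNat 0, .ofNat 295, .ofNat 646, .ofNat 0, .ofNat 128, .negSucc 372, .ofNat 31, .ofNat 0, .ofNat 366, .negSucc 46, .ofNat 0, .ofNat 0, .ofNat 1947, .ofNat 6346, .ofNat 0, .ofNat 0, .ofNat 0, .ofNat 0, .ofNat 0, .ofNat 0, .ofNat 369087224478501692467067313791598520276596293632, .ofNat 11595330530972639173988970599380807157253255277305659392, .ofNat 0, .ofNat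 0, .ofNat 1393856531343950471880393008598679274944813072384, .ofNat 307938772488354222513787054526784893724620074632377008128, .ofNat 0, .ofNat 0, .ofNat 3772936629132935723175796759323700395850990616576, .ofNat 632947758450128268357603099171374080693618119638849159168⟩)
    (by decide +kernel)
theorem L05595 : Good (Phi V5.P V5.D (-1) (-1)) ⟨5, 28, 3, 4, 4, 11, 3, 3, 5, 11⟩ :=
  leafX_sound T5.ok_mm T5.Ymm.bz_eq (w := 252) (c := ⟨⟨.negSucc 1989, .negSucc 92, .ofNat 4, .negSucc 4, .negSucc 77, .ofNat 11⟩, ⟨.ofNat 1101, .ofNat 76, .ofNat 159, .ofNat 6, .ofNat 55, .negSucc 3⟩, ⟨.ofNat 684, .negSucc 276, .ofNat 18, .negSucc 795, .negSucc 961, .negSucc 718⟩, ⟨.negSucc 3325, .negSucc 17, .negSucc 8, .ofNat 115, .ofNat 176, .ofNat 175⟩, ⟨.negSucc 806, .ofNat 9, .ofNat 39, .ofNat 194, .ofNat 454, .ofNat 250⟩, .ofNat 1637, .ofNat 2079, .ofNat 0, .ofNat 2079, .ofNat 3381, .ofNat 0, .ofNat 128, .negSucc 623, .ofNat 280, .ofNat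 0, .ofNat 488, .negSucc 209, .ofNat 0, .ofNat 0, .ofNat 3654, .ofNat 4472, .ofNat 0, .ofNat 0, .ofNat 0, .ofNat 0, .ofNat 0, .ofNat 14507192927950114332454445249663360637923876055023616, .ofNat 2915252942027921208810006704522314918008534859776, .ofNat 0, .ofNat 0, .ofNat 81234841133907623566002582953934546130079331454550016, .ofNat 12673551612841607300931147004588106183720021524480, .ofNat 0, .ofNat 0, .ofNat 799932319798106427486924677203020815661287994948583424, .ofNat 6075741115826285323110241395022112507046737739776, .ofNat 0⟩)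
    (by decide +kernel)
theorem L05596 : Good (Phi V5.P V5.D (-1) (-1)) ⟨5, 28, 4, 10, 4, 11, 3, 3, 5, 11⟩ :=
  leafX_sound T5.ok_mm T5.Ymm.bz_eq (w := 254) (c := ⟨⟨.negSucc 1937, .negSucc 226, .ofNat 36, .negSucc 14, .negSucc 109, .negSucc 2⟩, ⟨.ofNat 1232, .ofNat 159, .ofNat 61, .ofNat 10, .ofNat 74, .ofNat 3⟩, ⟨.ofNat 817, .negSucc 469, .negSucc 6, .negSucc 831, .negSucc 1046, .negSucc 810⟩, ⟨.negSucc 3308, .negSucc 104, .ofNat 27, .ofNat 117, .ofNat 167, .ofNat 155⟩, ⟨.negSucc 829, .ofNat 171, .negSucc 14, .ofNat 219, .ofNat 500, .ofNat 252⟩, .ofNat 391, .ofNat 298, .ofNat 0, .ofNat 298, .ofNat 646, .ofNat 0, .ofNat 128, .negSucc 423, .ofNat 205, .ofNat 0, .ofNat 430, .negSucc 187, .ofNat 0, .ofNat 0, .ofNat 2441, .ofNat 2624, .ofNat 0, .ofNat 5315121626051407123788769944663349541458485289418752, .ofNat 752592698651020675097915954456389257993199288320, .ofNat 0, .ofNat 0, .ofNat 44269842008777891562330641554793863813788783559573504,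 .ofNat 1951086145399185658074303520961730251699840352256, .ofNat 0, .ofNat 0, .ofNat 411839959329940417119518684081479327583265261757661184, .ofNat 31745921364271742721010539841421210821631120769024, .ofNat 0, .ofNat 0, .ofNat 3127046633669252613845471633253312930230294304117489664, .ofNat 85808922338793372412679610175412424314454032777216, .ofNat 0⟩)
    (by decide +kernel)
theorem L05597 : Good (Phi V5.P V5.D (-1) (-1)) ⟨6, 56, 4, 11, 4, 11, 3, 3, 5, 11⟩ :=
  out_sound (S := T5.ds_mm) T5.ok_mm (w := 65) (j := 3) (by decide +kernel)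
theorem L05598 : Good (Phi V5.P V5.D (-1) (-1)) ⟨7, 114, 5, 22, 4, 11, 3, 3, 5, 11⟩ :=
  out_sound (S := T5.ds_mm) T5.ok_mm (w := 73) (j := 3) (by decide +kernel)
theorem L05599 : Good (Phi V5.P V5.D (-1) (-1)) ⟨7, 115, 5, 22, 4, 11, 3, 3, 5, 11⟩ :=
  out_sound (S := T5.ds_mm) T5.ok_mm (w := 21) (j := 4) (by decide +kernel)
theorem L05600 : Good (Phi V5.P V5.D (-1) (-1)) ⟨6, 57, 5, 23, 4, 11, 3, 3, 5, 11⟩ :=
  out_sound (S := T5.ds_mm) T5.ok_mm (w := 67) (j := 3) (by decide +kernel)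
theorem L05601 : Good (Phi V5.P V5.D (-1) (-1)) ⟨5, 29, 2, 2, 2, 2, 2, 1, 4, 5⟩ :=
  out_sound (S := T5.ds_mm) T5.ok_mm (w := 17) (j := 4) (by decide +kernel)
theorem L05602 : Good (Phi V5.P V5.D (-1) (-1)) ⟨5, 28, 3, 6, 2, 2, 2, 1, 4, 5⟩ :=
  out_sound (S := T5.ds_mm) T5.ok_mm (w := 57) (j := 3) (by decide +kernel)
theorem L05603 : Good (Phi V5.P V5.D (-1) (-1)) ⟨5, 29, 3, 6, 2, 2, 2, 1, 4, 5⟩ :=
  out_sound (S := T5.ds_mm) T5.ok_mm (w := 17) (j := 4) (by decide +kernel)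
theorem L05604 : Good (Phi V5.P V5.D (-1) (-1)) ⟨4, 14, 3, 7, 2, 2, 2, 1, 4, 5⟩ :=
  out_sound (S := T5.ds_mm) T5.ok_mm (w := 51) (j := 3) (by decide +kernel)
theorem L05605 : Good (Phi V5.P V5.D (-1) (-1)) ⟨4, 15, 1, 1, 2, 2, 2, 1, 4, 5⟩ :=
  out_sound (S := T5.ds_mm) T5.ok_mm (w := 15) (j := 4) (by decide +kernel)
theorem L05606 : Good (Phi V5.P V5.D (-1) (-1)) ⟨2, 2, 1, 1, 2, 2, 2, 1, 3, 3⟩ :=
  out_sound (S := T5.ds_mm) T5.ok_mm (w := 35) (j := 3) (by decide +kernel)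
theorem L05607 : Good (Phi V5.P V5.D (-1) (-1)) ⟨4, 12, 1, 1, 3, 4, 2, 1, 4, 6⟩ :=
  out_sound (S := T5.ds_mm) T5.ok_mm (w := 47) (j := 3) (by decide +kernel)
theorem L05608 : Good (Phi V5.P V5.D (-1) (-1)) ⟨4, 13, 2, 2, 3, 4, 3, 2, 4, 6⟩ :=
  leafX_sound T5.ok_mm T5.Ymm.bz_eq (w := 231) (c := ⟨⟨.negSucc 2130, .negSucc 121, .ofNat 13, .ofNat 165, .ofNat 77, .ofNat 197⟩, ⟨.ofNat 1143, .ofNat 106, .ofNat 321, .negSucc 94, .negSucc 38, .negSucc 115⟩, ⟨.ofNat 2302, .negSucc 12, .negSucc 308, .negSucc 942, .negSucc 475, .negSucc 666⟩, ⟨.negSucc 3592, .ofNat 8, .negSucc 48, .ofNat 185, .ofNat 197, .ofNat 410⟩, ⟨.negSucc 600, .negSucc 10, .negSucc 7, .negSucc 97, .ofNat 153, .ofNat 206⟩, .ofNat 367, .ofNat 263, .ofNat 0, .ofNat 263, .ofNat 644, .ofNat 0, .ofNat 128, .negSucc 147, .negSucc 26, .ofNat 0, .ofNat 150, .ofNat 10, .ofNat 0, .ofNat 0, .ofNat 1127, .ofNat 165198, .ofNat 2131348805034595447009981800527264331601195040768,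 .ofNat 0, .ofNat 0, .ofNat 0, .ofNat 896250141620384823228071291579474357106035916800, .ofNat 0, .ofNat 3938587872356946860685981689135678913249280, .ofNat 0, .ofNat 1056662344983459302530165179266150752951906336768, .ofNat 0, .ofNat 3678198752631903659895092628901937843011584, .ofNat 0, .ofNat 3969975511934012043184105613280147671851777130496, .ofNat 0, .ofNat 18250773746692851440118502554764038687948800, .ofNat 0⟩)
    (by decide +kernel)
theorem L05609 : Good (Phi V5.P V5.D (-1) (-1)) ⟨4, 13, 2, 2, 3, 4, 3, 3, 5, 12⟩ :=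
  leafX_sound T5.ok_mm T5.Ymm.bz_eq (w := 232) (c := ⟨⟨.negSucc 2001, .negSucc 148, .ofNat 31, .ofNat 106, .ofNat 67, .ofNat 120⟩, ⟨.ofNat 1063, .ofNat 154, .ofNat 261, .negSucc 63, .negSucc 34, .negSucc 68⟩, ⟨.ofNat 1941, .negSucc 125, .negSucc 123, .negSucc 1084, .negSucc 591, .negSucc 198⟩, ⟨.negSucc 3370, .ofNat 15, .negSucc 31, .ofNat 142, .ofNat 218, .ofNat 202⟩, ⟨.negSucc 524, .ofNat 46, .negSucc 47, .negSucc 14, .ofNat 213, .ofNat 46⟩, .ofNat 405, .ofNat 332, .ofNat 0, .ofNat 332, .ofNat 779, .ofNat 0, .ofNat 128, .negSucc 360, .negSucc 36, .ofNat 0, .ofNat 318, .ofNat 8, .ofNat 0, .ofNat 0, .ofNat 1917, .ofNat 10747, .ofNat 920271247176100803465608234563607061100845072384, .ofNat 0, .ofNat 8769801615596313917767752317100055056089088, .ofNat 0, .ofNat 0, .ofNat 0, .ofNat 5628855398547043608360288759999507575341056, .ofNat 0, .ofNat 0, .ofNat 0, .ofNat 49263738430510930476573210125912273651236864, .ofNat 0, .ofNat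 0, .ofNat 0, .ofNat 758558946218481340237079093210261825056145408, .ofNat 0⟩)
    (by decide +kernel)
theorem L05610 : Good (Phi V5.P V5.D (-1) (-1)) ⟨4, 13, 3, 4, 3, 4, 3, 3, 5, 13⟩ :=
  leafX_sound T5.ok_mm T5.Ymm.bz_eq (w := 234) (c := ⟨⟨.negSucc 1795, .negSucc 180, .ofNat 27, .negSucc 2, .ofNat 28, .ofNat 19⟩, ⟨.ofNat 946, .ofNat 171, .ofNat 114, .ofNat 5, .negSucc 10, .negSucc 6⟩, ⟨.ofNat 2256, .negSucc 477, .ofNat 61, .negSucc 1640, .negSucc 724, .negSucc 745⟩, ⟨.negSucc 3112, .negSucc 18, .ofNat 3, .ofNat 71, .ofNat 197, .ofNat 113⟩, ⟨.negSucc 619, .ofNat 80, .negSucc 23, .ofNat 148, .ofNat 282, .ofNat 146⟩, .ofNat 378, .ofNat 285, .ofNat 0, .ofNat 285, .ofNat 704, .ofNat 0, .ofNat 128, .negSucc 279, .ofNat 52, .ofNat 0, .ofNat 270, .negSucc 51, .ofNat 0, .ofNat 0, .ofNat 2564, .ofNat 7086, .ofNat 5977643726975087746036979728049630642108538814464, .ofNat 0, .ofNat 55511742608265331065678937558457566313316352,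 .ofNat 0, .ofNat 0, .ofNat 63595708925959490353796797276701522264676368384, .ofNat 64089271429725008889614274085347864774443008, .ofNat 0, .ofNat 0, .ofNat 316925855714466707469663134713699714685137321984, .ofNat 341779338999428208747788256444526078803836928, .ofNat 0, .ofNat 0, .ofNat 3960964340587173816042197946140506698486852354048, .ofNat 1756070190284650697470514938974905744264003584, .ofNat 0⟩)
    (by decide +kernel)
theorem L05611 : Good (Phi V5.P V5.D (-1) (-1)) ⟨4, 13, 3, 5, 3, 4, 3, 3, 5, 13⟩ :=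
  out_sound (S := T5.ds_mm) T5.ok_mm (w := 51) (j := 3) (by decide +kernel)
theorem L05612 : Good (Phi V5.P V5.D (-1) (-1)) ⟨4, 13, 2, 3, 3, 4, 2, 1, 4, 6⟩ :=
  out_sound (S := T5.ds_mm) T5.ok_mm (w := 49) (j := 3) (by decide +kernel)
theorem L05613 : Good (Phi V5.P V5.D (-1) (-1)) ⟨4, 12, 2, 2, 3, 5, 2, 1, 4, 6⟩ :=
  out_sound (S := T5.ds_mm) T5.ok_mm (w := 49) (j := 3) (by decide +kernel)
theorem L05614 : Good (Phi V5.P V5.D (-1) (-1)) ⟨4, 13, 3, 4, 3, 5, 3, 2, 5, 12⟩ :=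
  leafX_sound T5.ok_mm T5.Ymm.bz_eq (w := 234) (c := ⟨⟨.negSucc 1899, .negSucc 96, .negSucc 24, .ofNat 88, .ofNat 5, .ofNat 63⟩, ⟨.ofNat 1011, .ofNat 87, .ofNat 176, .negSucc 48, .ofNat 4, .negSucc 33⟩, ⟨.ofNat 1624, .ofNat 13, .negSucc 267, .negSucc 1338, .negSucc 709, .negSucc 491⟩, ⟨.negSucc 3372, .ofNat 42, .negSucc 56, .ofNat 176, .ofNat 151, .ofNat 165⟩, ⟨.negSucc 811, .ofNat 9, .ofNat 13, .ofNat 83, .ofNat 249, .ofNat 121⟩, .ofNat 750, .ofNat 831, .ofNat 0, .ofNat 831, .ofNat 1630, .ofNat 0, .ofNat 128, .negSucc 454, .ofNat 149, .ofNat 0, .ofNat 355, .negSucc 102, .ofNat 0, .ofNat 0, .ofNat 3505, .ofNat 7096, .ofNat 4199838535859636617119352606043409198389544353792, .ofNat 7187536501689455102733116032059210513732599808, .ofNat 8902567593652555849914885446223765669150720, .ofNat 0, .ofNat 0, .ofNat 0, .ofNat 0, .ofNat 0, .ofNat 0, .ofNat 665645511256331654302256304699909238002645204992, .ofNat 787013000916683576536095896918070170316963840,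 .ofNat 0, .ofNat 0, .ofNat 7893479223791497287813840089928787168798416306176, .ofNat 0, .ofNat 0⟩)
    (by decide +kernel)
theorem L05615 : Good (Phi V5.P V5.D (-1) (-1)) ⟨4, 13, 3, 4, 4, 10, 3, 3, 5, 12⟩ :=
  leafX_sound T5.ok_mm T5.Ymm.bz_eq (w := 248) (c := ⟨⟨.negSucc 1821, .negSucc 156, .negSucc 18, .ofNat 3, .negSucc 28, .ofNat 49⟩, ⟨.ofNat 968, .ofNat 133, .ofNat 166, .ofNat 0, .ofNat 25, .negSucc 24⟩, ⟨.ofNat 1251, .negSucc 326, .negSucc 167, .negSucc 825, .negSucc 932, .negSucc 569⟩, ⟨.negSucc 3165, .negSucc 16, .negSucc 34, .ofNat 57, .ofNat 156, .ofNat 158⟩, ⟨.negSucc 624, .ofNat 25, .ofNat 38, .ofNat 87, .ofNat 334, .ofNat 149⟩, .ofNat 755, .ofNat 836, .ofNat 0, .ofNat 836, .ofNat 1632, .ofNat 0, .ofNat 128, .negSucc 443, .ofNat 168, .ofNat 0, .ofNat 342, .negSucc 117, .ofNat 0, .ofNat 0, .ofNat 3103, .ofNat 6490, .ofNat 0, .ofNat 0, .ofNat 0, .ofNat 0, .ofNat 0, .ofNat 0, .ofNat 3571269775941193996940306428032471903594090594304,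 .ofNat 0, .ofNat 0, .ofNat 4478834173600843431348306296506262360223666734628864, .ofNat 6879801461013253871704052627526325853780084523008, .ofNat 0, .ofNat 0, .ofNat 38363181535807836981239702989475978409416037425479680, .ofNat 0, .ofNat 0⟩)
    (by decide +kernel)
theorem L05616 : Good (Phi V5.P V5.D (-1) (-1)) ⟨4, 13, 3, 4, 4, 11, 3, 3, 5, 12⟩ :=
  leafX_sound T5.ok_mm T5.Ymm.bz_eq (w := 247) (c := ⟨⟨.negSucc 1772, .negSucc 136, .negSucc 59, .negSucc 35, .negSucc 92, .negSucc 21⟩, ⟨.ofNat 937, .ofNat 124, .ofNat 188, .ofNat 27, .ofNat 66, .ofNat 20⟩, ⟨.ofNat 606, .negSucc 237, .negSucc 342, .negSucc 997, .negSucc 1133, .negSucc 876⟩, ⟨.negSucc 3083, .ofNat 9, .negSucc 70, .ofNat 58, .ofNat 118, .ofNat 113⟩, ⟨.negSucc 611, .ofNat 32, .ofNat 65, .ofNat 181, .ofNat 427, .ofNat 244⟩, .ofNat 740, .ofNat 818, .ofNat 0, .ofNat 818, .ofNat 1623, .ofNat 0, .ofNat 128, .negSucc 312, .ofNat 151, .ofNat 0, .ofNat 244, .negSucc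 102, .ofNat 0, .ofNat 0, .ofNat 2006, .ofNat 4450, .ofNat 0, .ofNat 161676302207369687791610092593983097276092093825024, .ofNat 0, .ofNat 0, .ofNat 0, .ofNat 1218715470042255407876700055335769291368824219631616, .ofNat 1728932477318113372284498388267530983540183269376, .ofNat 0, .ofNat 0, .ofNat 6720173659630167638241362155586845313340121127321600, .ofNat 2362403877484544951464507803917585380651984486400, .ofNat 0, .ofNat 0, .ofNat 32039971458551997050396570185216802709358468690608128, .ofNat 7467154565468436390820241455307012142381024673792, .ofNat 0⟩)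
    (by decide +kernel)
theorem L05617 : Good (Phi V5.P V5.D (-1) (-1)) ⟨4, 13, 3, 5, 3, 5, 2, 1, 5, 12⟩ :=
  out_sound (S := T5.ds_mm) T5.ok_mm (w := 51) (j := 3) (by decide +kernel)
theorem L05618 : Good (Phi V5.P V5.D (-1) (-1)) ⟨4, 13, 3, 4, 3, 5, 3, 2, 5, 13⟩ :=
  leafX_sound T5.ok_mm T5.Ymm.bz_eq (w := 235) (c := ⟨⟨.negSucc 1639, .negSucc 103, .negSucc 74, .negSucc 151, .negSucc 100, .negSucc 23⟩, ⟨.ofNat 853, .ofNat 99, .ofNat 198, .ofNat 101, .ofNat 70, .ofNat 18⟩, ⟨.ofNat 2055, .negSucc 147, .negSucc 453, .negSucc 2420, .negSucc 1157, .negSucc 956⟩, ⟨.negSucc 3050, .ofNat 23, .negSucc 79, .negSucc 7, .ofNat 68, .ofNat 87⟩, ⟨.negSucc 901, .negSucc 6, .ofNat 74, .ofNat 364, .ofNat 373, .ofNat 216⟩, .ofNat 367, .ofNat 262, .ofNat 0, .ofNat 262, .ofNat 645, .ofNat 0, .ofNat 128, .negSucc 252, .ofNat 174, .ofNat 0, .ofNat 269, .negSucc 129, .ofNat 0, .ofNat 0, .ofNat 2345, .ofNat 13651, .ofNat 12575720567848022471016611225273949319663626223616,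 .ofNat 40298663612945473066919178456092515305013641216, .ofNat 95428363296970845754170235169592981437022208, .ofNat 0, .ofNat 35105184023669229641463717589005225638188879446016, .ofNat 393580230402602652370453936381200707488338411520, .ofNat 62803220554893320311635985815874031455305728, .ofNat 0, .ofNat 135459112926075453787048613054031788934291972423680, .ofNat 2005606077695792562852024377968601682649186041856, .ofNat 144026428845750010813119112069521404757803008, .ofNat 0, .ofNat 659006975642296193312271049075344130340650011852800, .ofNat 11177475207916908971871850877521134562158630141952, .ofNat 630194750868085572512494975398603795441123328, .ofNat 0⟩)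
    (by decide +kernel)
theorem L05619 : Good (Phi V5.P V5.D (-1) (-1)) ⟨4, 13, 3, 4, 4, 10, 4, 6, 5, 13⟩ :=
  leafX_sound T5.ok_mm T5.Ymm.bz_eq (w := 253) (c := ⟨⟨.negSucc 1764, .negSucc 113, .negSucc 54, .negSucc 53, .negSucc 27, .negSucc 36⟩, ⟨.ofNat 935, .ofNat 115, .ofNat 178, .ofNat 36, .ofNat 21, .ofNat 26⟩, ⟨.ofNat 801, .negSucc 161, .negSucc 370, .negSucc 1151, .negSucc 556, .negSucc 1064⟩, ⟨.negSucc 2997, .ofNat 16, .negSucc 59, .ofNat 6, .ofNat 62, .ofNat 77⟩, ⟨.negSucc 496, .ofNat 1, .ofNat 55, .ofNat 150, .ofNat 176, .ofNat 222⟩, .ofNat 366, .ofNat 261, .ofNat 0, .ofNat 261, .ofNat 645, .ofNat 0, .ofNat 128, .negSucc 298, .ofNat 227, .ofNat 0, .ofNat 313, .negSucc 173, .ofNat 0, .ofNat 0, .ofNat 3169, .ofNat 13003, .ofNat 314266363027174988555228697716660897746656216907513856, .ofNat 479055979891760647013984351885834115804513022509056, .ofNat 35344614328419838992648116132097773146248086290432, .ofNat 0,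 .ofNat 631536862627656804168824617335091986868458228415463424, .ofNat 6107584003064081056970385819800509506996678548258816, .ofNat 22830911757467338287332521307506179618976370262016, .ofNat 0, .ofNat 2072309911474766209769108181819604224976381431603265536, .ofNat 31074279473968724876836877974588438537965690261864448, .ofNat 0, .ofNat 0, .ofNat 16663320496956577727551993096617913372348425998532870144, .ofNat 260793746232468544248360162377333481714935965386014720, .ofNat 0, .ofNat 0⟩)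
    (by decide +kernel)
theorem L05620 : Good (Phi V5.P V5.D (-1) (-1)) ⟨4, 13, 3, 4, 4, 10, 4, 7, 5, 13⟩ :=
  leafX_sound T5.ok_mm T5.Ymm.bz_eq (w := 253) (c := ⟨⟨.negSucc 1764, .negSucc 115, .negSucc 77, .negSucc 126, .negSucc 67, .negSucc 73⟩, ⟨.ofNat 930, .ofNat 133, .ofNat 181, .ofNat 81, .ofNat 46, .ofNat 50⟩, ⟨.ofNat 401, .negSucc 177, .negSucc 485, .negSucc 1510, .negSucc 779, .negSucc 1288⟩, ⟨.negSucc 2925, .ofNat 33, .negSucc 76, .negSucc 52, .ofNat 40, .ofNat 44⟩, ⟨.negSucc 352, .ofNat 16, .ofNat 73, .ofNat 218, .ofNat 231, .ofNat 250⟩, .ofNat 752, .ofNat 832, .ofNat 0, .ofNat 832, .ofNat 1628, .ofNat 0, .ofNat 128, .negSucc 551, .ofNat 455, .ofNat 0, .ofNat 426, .negSucc 306, .ofNat 0, .ofNat 0, .ofNat 5687, .ofNat 13800, .ofNat 0, .ofNat 1903064190082695071764793026852893587512691697647616, .ofNat 0, .ofNat 0, .ofNat 0, .ofNat 12580718958237640154863978413953598081431482262355968, .ofNat 198200711830407377620610970531986978401103416131584,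 .ofNat 0, .ofNat 0, .ofNat 127522666388566567287896396802485938262294746447740928, .ofNat 240159379985552411984254322432927944014048316620800, .ofNat 0, .ofNat 0, .ofNat 984495269162529482607324412892866587607476750056947712, .ofNat 0, .ofNat 0⟩)
    (by decide +kernel)
theorem L05621 : Good (Phi V5.P V5.D (-1) (-1)) ⟨4, 13, 3, 4, 4, 11, 3, 3, 5, 13⟩ :=
  out_sound (S := T5.ds_mm) T5.ok_mm (w := 38) (j := 2) (by decide +kernel)
theorem L05622 : Good (Phi V5.P V5.D (-1) (-1)) ⟨4, 13, 3, 5, 3, 5, 2, 1, 5, 13⟩ :=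
  out_sound (S := T5.ds_mm) T5.ok_mm (w := 51) (j := 3) (by decide +kernel)
theorem L05623 : Good (Phi V5.P V5.D (-1) (-1)) ⟨3, 6, 2, 3, 3, 5, 2, 1, 4, 6⟩ :=
  out_sound (S := T5.ds_mm) T5.ok_mm (w := 43) (j := 3) (by decide +kernel)
theorem L05624 : Good (Phi V5.P V5.D (-1) (-1)) ⟨4, 14, 2, 2, 3, 4, 2, 1, 6, 24⟩ :=
  leafX_sound T5.ok_mm T5.Ymm.bz_eq (w := 234) (c := ⟨⟨.negSucc 2241, .negSucc 156, .ofNat 42, .ofNat 118, .ofNat 150, .ofNat 72⟩, ⟨.ofNat 1271, .ofNat 143, .ofNat 286, .negSucc 76, .negSucc 92, .negSucc 45⟩, ⟨.ofNat 2409, .negSucc 146, .negSucc 160, .negSucc 1113, .negSucc 1134, .negSucc 83⟩, ⟨.negSucc 3612, .negSucc 14, .ofNat 1, .ofNat 138, .ofNat 464, .ofNat 112⟩, ⟨.negSucc 678, .negSucc 5, .ofNat 2, .negSucc 42, .ofNat 394, .ofNat 16⟩, .ofNat 749, .ofNat 759, .ofNat 0, .ofNat 759, .ofNat 1313, .ofNat 0, .ofNat 128, .negSucc 639, .negSucc 106, .ofNat 0, .ofNat 544, .ofNat 67, .ofNat 0, .ofNat 0, .ofNat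 2480, .ofNat 20235, .ofNat 1763091236346314298272272025748335222386870714368, .ofNat 0, .ofNat 29685740985791532906229224800081874106974208, .ofNat 0, .ofNat 0, .ofNat 0, .ofNat 363809090332945192816111399474181179105607680, .ofNat 940355551129239691587943131194161261829514070065152, .ofNat 0, .ofNat 0, .ofNat 0, .ofNat 0, .ofNat 0, .ofNat 0, .ofNat 1613943693255139054610405202858191002106068992, .ofNat 16540214760845756530464337220082357674993119578292224⟩)
    (by decide +kernel)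
theorem L05625 : Good (Phi V5.P V5.D (-1) (-1)) ⟨4, 14, 2, 2, 3, 4, 2, 1, 6, 25⟩ :=
  leafX_sound T5.ok_mm T5.Ymm.bz_eq (w := 233) (c := ⟨⟨.negSucc 1968, .ofNat 95, .negSucc 230, .ofNat 51, .ofNat 59, .ofNat 59⟩, ⟨.ofNat 1116, .ofNat 10, .ofNat 412, .negSucc 32, .negSucc 33, .negSucc 37⟩, ⟨.ofNat 2921, .ofNat 414, .negSucc 731, .negSucc 1411, .negSucc 1493, .negSucc 102⟩, ⟨.negSucc 3394, .ofNat 116, .negSucc 139, .ofNat 105, .ofNat 412, .ofNat 96⟩, ⟨.negSucc 881, .negSucc 203, .ofNat 218, .ofNat 55, .ofNat 520, .ofNat 19⟩, .ofNat 373, .ofNat 265, .ofNat 0, .ofNat 265, .ofNat 570, .ofNat 0, .ofNat 128, .negSucc 350, .negSucc 41, .ofNat 0, .ofNat 374, .ofNat 16, .ofNat 0, .ofNat 0, .ofNat 1949, .ofNat 10017, .ofNat 960940237130727890868116049836516713125845663744, .ofNat 0, .ofNat 17140388744040714932147247090895679037374464, .ofNat 124752831527618405865677732411612551426905233948672, .ofNat 0, .ofNat 0, .ofNat 237264347488902087500003594155796284485664768,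 .ofNat 948388927518155771829913931581603670076450616115200, .ofNat 1385499738516742656163112638091403670045503520768, .ofNat 0, .ofNat 882325531145244980039576260587359499974606848, .ofNat 5102838111184115828363206386880357253789592179441664, .ofNat 0, .ofNat 0, .ofNat 781276771441049686975636336538491459402203136, .ofNat 11357146266217919719576045540670757038462956757581824⟩)
    (by decide +kernel)
theorem L05626 : Good (Phi V5.P V5.D (-1) (-1)) ⟨4, 14, 2, 2, 3, 4, 3, 2, 5, 13⟩ :=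
  out_sound (S := T5.ds_mm) T5.ok_mm (w := 29) (j := 1) (by decide +kernel)
theorem L05627 : Good (Phi V5.P V5.D (-1) (-1)) ⟨4, 14, 2, 2, 4, 8, 3, 3, 5, 13⟩ :=
  leafX_sound T5.ok_mm T5.Ymm.bz_eq (w := 248) (c := ⟨⟨.negSucc 2095, .negSucc 345, .ofNat 229, .ofNat 26, .ofNat 78, .ofNat 23⟩, ⟨.ofNat 1198, .ofNat 279, .ofNat 121, .negSucc 17, .negSucc 46, .negSucc 12⟩, ⟨.ofNat 1557, .negSucc 594, .ofNat 234, .negSucc 703, .negSucc 525, .negSucc 664⟩, ⟨.negSucc 3204, .negSucc 119, .ofNat 117, .ofNat 50, .ofNat 225, .ofNat 129⟩, ⟨.negSucc 404, .ofNat 159, .negSucc 152, .ofNat 23, .ofNat 188, .ofNat 151⟩, .ofNat 388, .ofNat 294, .ofNat 0, .ofNat 294, .ofNat 645, .ofNat 0, .ofNat 128, .negSucc 319, .ofNat 31, .ofNat 0, .ofNat 317, .negSucc 51, .ofNat 0, .ofNat 0, .ofNat 2733, .ofNat 51998, .ofNat 27438122377136372222600055054749391489227179861999616, .ofNat 0, .ofNat 580247604440895137726070017514956271238279856128, .ofNat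 0, .ofNat 11175029432774485812072669385711009593125699571417088, .ofNat 0, .ofNat 3452302538006639291178537967193488403847115177984, .ofNat 769028848008881016752406314527077477126848975646752768, .ofNat 33034947858078411903811831906927602283727084008243200, .ofNat 0, .ofNat 4083233403678127572484555506238170956812446072832, .ofNat 0, .ofNat 0, .ofNat 0, .ofNat 13764314978635818825773853738395934304657167351808, .ofNat 0⟩)
    (by decide +kernel)
theorem L05628 : Good (Phi V5.P V5.D (-1) (-1)) ⟨5, 28, 3, 4, 4, 9, 3, 3, 6, 26⟩ :=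
  leafX_sound T5.ok_mm T5.Ymm.bz_eq (w := 260) (c := ⟨⟨.negSucc 1709, .negSucc 1, .negSucc 153, .negSucc 92, .negSucc 80, .ofNat 6⟩, ⟨.ofNat 947, .ofNat 31, .ofNat 234, .ofNat 61, .ofNat 56, .negSucc 2⟩, ⟨.ofNat 2252, .ofNat 77, .negSucc 719, .negSucc 1321, .negSucc 1297, .negSucc 402⟩, ⟨.negSucc 2933, .ofNat 51, .negSucc 120, .negSucc 16, .ofNat 140, .ofNat 61⟩, ⟨.negSucc 759, .negSucc 51, .ofNat 150, .ofNat 183, .ofNat 406, .ofNat 83⟩, .ofNat 1144, .ofNat 1348, .ofNat 0, .ofNat 1348, .ofNat 2275, .ofNat 0, .ofNat 128, .negSucc 695, .ofNat 244, .ofNat 0, .ofNat 552, .negSucc 184, .ofNat 0, .ofNat 0, .ofNat 5959, .ofNat 31742, .ofNat 13579168133008818013986794841449027942701268874995695616, .ofNat 0, .ofNat 4828940482336620813745358669694940533438560600064, .ofNat 0, .ofNat 2869686620325965616356161921553419630648220778105929728, .ofNat 0, .ofNat 280451597972706678170910018994192389903966734909440, .ofNat 0, .ofNat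 41277328963556845025202453185335478127594787384997183488, .ofNat 0, .ofNat 2077854094575449498884378498055630466590147971383296, .ofNat 0, .ofNat 0, .ofNat 0, .ofNat 0, .ofNat 0⟩)
    (by decide +kernel)
theorem L05629 : Good (Phi V5.P V5.D (-1) (-1)) ⟨5, 28, 4, 10, 4, 9, 3, 3, 6, 26⟩ :=
  leafX_sound T5.ok_mm T5.Ymm.bz_eq (w := 262) (c := ⟨⟨.negSucc 1869, .ofNat 148, .negSucc 132, .negSucc 112, .negSucc 108, .ofNat 3⟩, ⟨.ofNat 1186, .negSucc 66, .ofNat 155, .ofNat 75, .ofNat 74, .negSucc 1⟩, ⟨.ofNat 1591, .ofNat 366, .negSucc 377, .negSucc 1405, .negSucc 1424, .negSucc 439⟩, ⟨.negSucc 3054, .ofNat 118, .negSucc 74, .negSucc 31, .ofNat 127, .ofNat 57⟩, ⟨.negSucc 623, .negSucc 152, .ofNat 108, .ofNat 206, .ofNat 443, .ofNat 85⟩, .ofNat 393, .ofNat 301, .ofNat 0, .ofNat 301, .ofNat 646, .ofNat 0, .ofNat 128, .negSucc 357, .ofNat 168, .ofNat 0, .ofNat 357, .negSucc 146, .ofNat 0, .ofNat 0, .ofNat 3314, .ofNat 15213, .ofNat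 52439858887436587268341670654128506251873089963455152128, .ofNat 0, .ofNat 18145171820459581011248372754272575059506313035776, .ofNat 0, .ofNat 0, .ofNat 0, .ofNat 162431940180430679819521693864550627434305817673728, .ofNat 0, .ofNat 117327818119366697443689785234108786689471299752468414464, .ofNat 0, .ofNat 455835600205796038290905173501946828331259457961984, .ofNat 862794097678735305016156047542287559243423569464147245531136, .ofNat 0, .ofNat 0, .ofNat 0, .ofNat 0⟩)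
    (by decide +kernel)
theorem L05630 : Good (Phi V5.P V5.D (-1) (-1)) ⟨6, 56, 4, 11, 4, 9, 3, 3, 6, 26⟩ :=
  out_sound (S := T5.ds_mm) T5.ok_mm (w := 65) (j := 3) (by decide +kernel)
theorem L05631 : Good (Phi V5.P V5.D (-1) (-1)) ⟨7, 114, 5, 22, 4, 9, 3, 3, 6, 26⟩ :=
  out_sound (S := T5.ds_mm) T5.ok_mm (w := 73) (j := 3) (by decide +kernel)
theorem L05632 : Good (Phi V5.P V5.D (-1) (-1)) ⟨7, 115, 5, 22, 4, 9, 3, 3, 6, 26⟩ :=
  out_sound (S := T5.ds_mm) T5.ok_mm (w := 21) (j := 4) (by decide +kernel)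
theorem L05633 : Good (Phi V5.P V5.D (-1) (-1)) ⟨6, 57, 5, 23, 4, 9, 3, 3, 6, 26⟩ :=
  out_sound (S := T5.ds_mm) T5.ok_mm (w := 67) (j := 3) (by decide +kernel)
theorem L05634 : Good (Phi V5.P V5.D (-1) (-1)) ⟨5, 28, 2, 2, 4, 9, 4, 6, 6, 27⟩ :=
  leafX_sound T5.ok_mm T5.Ymm.bz_eq (w := 266) (c := ⟨⟨.negSucc 1826, .negSucc 139, .negSucc 76, .negSucc 0, .negSucc 111, .negSucc 94⟩, ⟨.ofNat 1019, .ofNat 125, .ofNat 318, .ofNat 1, .ofNat 79, .ofNat 64⟩, ⟨.ofNat 340, .negSucc 547, .negSucc 514, .negSucc 0, .negSucc 883, .negSucc 984⟩, ⟨.negSucc 2875, .negSucc 20, .negSucc 119, .negSucc 0, .negSucc 1, .negSucc 8⟩, ⟨.negSucc 527, .ofNat 37, .ofNat 169, .ofNat 0, .ofNat 296, .ofNat 198⟩, .ofNat 166, .ofNat 58, .ofNat 0, .ofNat 58, .ofNat 217, .ofNat 0, .ofNat 128, .negSucc 163, .ofNat 204, .ofNat 0, .ofNat 297, .negSucc 212, .ofNat 0, .ofNat 0, .ofNat 1904, .ofNat 1221964, .ofNat 729844611946234182783032120668253022815658569297708449792,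 .ofNat 0, .ofNat 0, .ofNat 0, .ofNat 40179721356642720617728222377216853056714417642709975040, .ofNat 0, .ofNat 87290424921074417773354351960068467749284095197184, .ofNat 0, .ofNat 110497067037289399568830660475825581744714240176209002496, .ofNat 0, .ofNat 0, .ofNat 0, .ofNat 1258526740619626505515633357828535503345110728980933115904, .ofNat 0, .ofNat 3534007342293418857659610962602221412385469975494656, .ofNat 229554519446635726402993803182888627731322197386282405986304⟩)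
    (by decide +kernel)
theorem L05635 : Good (Phi V5.P V5.D (-1) (-1)) ⟨5, 28, 2, 2, 5, 18, 4, 7, 6, 27⟩ :=
  leafX_sound T5.ok_mm T5.Ymm.bz_eq (w := 275) (c := ⟨⟨.negSucc 1657, .negSucc 44, .negSucc 234, .negSucc 118, .negSucc 128, .negSucc 37⟩, ⟨.ofNat 924, .ofNat 69, .ofNat 398, .ofNat 79, .ofNat 87, .ofNat 25⟩, ⟨.ofNat 1652, .negSucc 304, .negSucc 826, .negSucc 1087, .negSucc 1170, .negSucc 704⟩, ⟨.negSucc 2762, .ofNat 29, .negSucc 175, .negSucc 56, .ofNat 19, .ofNat 28⟩, ⟨.negSucc 608, .negSucc 15, .ofNat 266, .ofNat 175, .ofNat 313, .ofNat 127⟩, .ofNat 381, .ofNat 281, .ofNat 0, .ofNat 281, .ofNat 617, .ofNat 0, .ofNat 128, .negSucc 300, .ofNat 279, .ofNat 0, .ofNat 310, .negSucc 237, .ofNat 0, .ofNat 0, .ofNat 4167, .ofNat 58133, .ofNat 120874537227245463439389610642961810666616282431917857439744, .ofNat 0, .ofNat 0, .ofNat 0, .ofNat 54810757057246392898032240057102723507004849668943878553600, .ofNat 0, .ofNat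 7332168367866623556956914179829812726372214218497720320, .ofNat 0, .ofNat 356103404032729700727138815655306287681963464271325506306048, .ofNat 0, .ofNat 22207198951117220865859440818352956091248491420790554624, .ofNat 1148138713741901586775889804123326057353837277952761549585121280, .ofNat 0, .ofNat 5066112247455114786175057780837821262667991144088859574272, .ofNat 94849085465379770714813864412240916089103901391729983488, .ofNat 28339596435121747995281599850005153449866286553528160705040089088⟩)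
    (by decide +kernel)
theorem L05636 : Good (Phi V5.P V5.D (-1) (-1)) ⟨5, 28, 2, 2, 6, 38, 4, 7, 6, 27⟩ :=
  leafX_sound T5.ok_mm T5.Ymm.bz_eq (w := 288) (c := ⟨⟨.negSucc 1876, .negSucc 229, .ofNat 85, .negSucc 66, .negSucc 113, .negSucc 110⟩, ⟨.ofNat 1072, .ofNat 196, .ofNat 181, .ofNat 44, .ofNat 76, .ofNat 74⟩, ⟨.ofNat 388, .negSucc 874, .negSucc 21, .negSucc 573, .negSucc 1070, .negSucc 1141⟩, ⟨.negSucc 2888, .negSucc 97, .ofNat 52, .negSucc 34, .ofNat 25, .negSucc 21⟩, ⟨.negSucc 324, .ofNat 181, .negSucc 84, .ofNat 97, .ofNat 298, .ofNat 210⟩, .ofNat 387, .ofNat 292, .ofNat 0, .ofNat 292, .ofNat 645, .ofNat 0, .ofNat 128, .negSucc 382, .ofNat 588, .ofNat 0, .ofNat 387, .negSucc 470, .ofNat 0, .ofNat 0, .ofNat 6121, .ofNat 29300, .ofNat 187918803379693944140879010932214682199896791790976599972642816, .ofNat 0, .ofNat 33001694250729219623234845878277527626380597629487224455168, .ofNat 3216077980602934409643548741381607035425832124500408882879765938176,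 .ofNat 0, .ofNat 574263605324472387190459518731014370445351329494091371118592, .ofNat 104223260113107856748452361640203952402083170043959116300288, .ofNat 0, .ofNat 0, .ofNat 0, .ofNat 195878405042156208498487954103778766455121647191590768214016, .ofNat 82046965087723330139250196211476822398945138116844079656948375486464, .ofNat 0, .ofNat 142318836575733904726664397715786952593259490351714022232948736, .ofNat 2886604239893788726711742619130185865441196772465897755377664, .ofNat 838181548672103542753338694753655300710166377409549803987449308774400⟩)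
    (by decide +kernel)
theorem L05637 : Good (Phi V5.P V5.D (-1) (-1)) ⟨5, 28, 2, 2, 6, 39, 4, 7, 6, 27⟩ :=
  leafX_sound T5.ok_mm T5.Ymm.bz_eq (w := 289) (c := ⟨⟨.negSucc 1825, .negSucc 138, .negSucc 145, .negSucc 74, .negSucc 154, .negSucc 111⟩, ⟨.ofNat 1037, .ofNat 138, .ofNat 332, .ofNat 50, .ofNat 103, .ofNat 74⟩, ⟨.ofNat 182, .negSucc 658, .negSucc 635, .negSucc 616, .negSucc 1270, .negSucc 1129⟩, ⟨.negSucc 2848, .negSucc 44, .negSucc 81, .negSucc 40, .negSucc 6, .negSucc 26⟩, ⟨.negSucc 325, .ofNat 102, .ofNat 116, .ofNat 102, .ofNat 329, .ofNat 201⟩, .ofNat 1780, .ofNat 2312, .ofNat 0, .ofNat 2312, .ofNat 3725, .ofNat 0, .ofNat 128, .negSucc 786, .ofNat 797, .ofNat 0, .ofNat 575, .negSucc 549, .ofNat 0, .ofNat 0, .ofNat 7335, .ofNat 45031, .ofNat 204242905385663257043059476984337912806386771237268439731011584, .ofNat 778333655900526229142454148273646695054240577022664309211136, .ofNat 12490142535806696271451407707312560918199746769867335794688,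 .ofNat 2693697680297111077113010676030929890219502596540846228953542688768, .ofNat 0, .ofNat 0, .ofNat 813680071853556832551782378081201091035053418164287755517952, .ofNat 0, .ofNat 0, .ofNat 50489229023023546620789084486972083357738275976446931957186560, .ofNat 235410156388541336855541501346924133496382554006278306267136, .ofNat 0, .ofNat 0, .ofNat 523358537302652660918370132373878156734750119388297068877447168, .ofNat 2476756019927383124723437215200983575705248997206710609248256, .ofNat 0⟩)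
    (by decide +kernel)
theorem L05638 : Good (Phi V5.P V5.D (-1) (-1)) ⟨5, 29, 2, 2, 4, 9, 3, 3, 5, 13⟩ :=
  out_sound (S := T5.ds_mm) T5.ok_mm (w := 17) (j := 4) (by decide +kernel)
theorem L05639 : Good (Phi V5.P V5.D (-1) (-1)) ⟨5, 28, 2, 2, 4, 10, 3, 2, 5, 12⟩ :=
  leafX_sound T5.ok_mm T5.Ymm.bz_eq (w := 251) (c := ⟨⟨.negSucc 1809, .ofNat 77, .negSucc 385, .negSucc 4, .negSucc 19, .ofNat 40⟩, ⟨.ofNat 995, .negSucc 24, .ofNat 553, .ofNat 3, .ofNat 14, .negSucc 24⟩, ⟨.ofNat 2119, .ofNat 167, .negSucc 1094, .negSucc 877, .negSucc 834, .negSucc 638⟩, ⟨.negSucc 3272, .ofNat 60, .negSucc 229, .ofNat 50, .ofNat 152, .ofNat 165⟩, ⟨.negSucc 943, .negSucc 41, .ofNat 188, .ofNat 88, .ofNat 282, .ofNat 166⟩, .ofNat 884, .ofNat 999, .ofNat 0, .ofNat 999, .ofNat 1760, .ofNat 0, .ofNat 128, .negSucc 857, .ofNat 254, .ofNat 0, .ofNat 667, .negSucc 185, .ofNat 0, .ofNat 0, .ofNat 6195, .ofNat 16983, .ofNat 89163958360511040209684704339762790188314909491593216,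 .ofNat 0, .ofNat 60281292033962437034476072313756746850580299776, .ofNat 0, .ofNat 127845873447555350069290632664693381695180345847054336, .ofNat 0, .ofNat 1719332822991100805898212024460450255234075197440, .ofNat 0, .ofNat 0, .ofNat 0, .ofNat 8382619213828698484522660689989795770634399121408, .ofNat 0, .ofNat 0, .ofNat 0, .ofNat 0, .ofNat 0⟩)
    (by decide +kernel)
theorem L05640 : Good (Phi V5.P V5.D (-1) (-1)) ⟨5, 28, 3, 4, 4, 11, 3, 2, 5, 12⟩ :=
  leafX_sound T5.ok_mm T5.Ymm.bz_eq (w := 253) (c := ⟨⟨.negSucc 1876, .negSucc 73, .negSucc 32, .ofNat 1, .negSucc 66, .negSucc 3⟩, ⟨.ofNat 1028, .ofNat 62, .ofNat 182, .ofNat 2, .ofNat 48, .ofNat 6⟩, ⟨.ofNat 1256, .negSucc 153, .negSucc 252, .negSucc 877, .negSucc 993, .negSucc 831⟩, ⟨.negSucc 3236, .negSucc 7, .negSucc 43, .ofNat 94, .ofNat 125, .ofNat 134⟩, ⟨.negSucc 908, .ofNat 9, .ofNat 47, .ofNat 148, .ofNat 351, .ofNat 222⟩, .ofNat 1468, .ofNat 1827, .ofNat 0, .ofNat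 1827, .ofNat 3000, .ofNat 0, .ofNat 128, .negSucc 550, .ofNat 369, .ofNat 0, .ofNat 440, .negSucc 262, .ofNat 0, .ofNat 0, .ofNat 4929, .ofNat 11588, .ofNat 401280532448686317357801004501470898435553750790701056, .ofNat 0, .ofNat 19373313407384229577236768449825054253790527488, .ofNat 0, .ofNat 0, .ofNat 5531721854069765815412701379451378937865182052876288, .ofNat 3474570321237957655251262946998110747736519213056, .ofNat 0, .ofNat 0, .ofNat 76344891762485586771627447336968358833204813220544512, .ofNat 12236829832115150270107670351049907238744736399360, .ofNat 0, .ofNat 0, .ofNat 654065375460741442409953664182502010676835084822118400, .ofNat 180611827606049446658882321239291909319941175640064, .ofNat 0⟩)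
    (by decide +kernel)
theorem L05641 : Good (Phi V5.P V5.D (-1) (-1)) ⟨5, 28, 3, 5, 4, 11, 3, 2, 5, 12⟩ :=
  leafX_sound T5.ok_mm T5.Ymm.bz_eq (w := 253) (c := ⟨⟨.negSucc 1911, .negSucc 28, .negSucc 96, .negSucc 15, .negSucc 73, .negSucc 6⟩, ⟨.ofNat 1214, .ofNat 35, .ofNat 225, .ofNat 11, .ofNat 51, .ofNat 6⟩, ⟨.ofNat 1024, .negSucc 123, .negSucc 325, .negSucc 952, .negSucc 1007, .negSucc 853⟩, ⟨.negSucc 3291, .ofNat 4, .negSucc 60, .ofNat 91, .ofNat 134, .ofNat 134⟩, ⟨.negSucc 872, .ofNat 3, .ofNat 75, .ofNat 174, .ofNat 364, .ofNat 220⟩, .ofNat 903, .ofNat 1022, .ofNat 0, .ofNat 1022, .ofNat 1783, .ofNat 0, .ofNat 128, .negSucc 798, .ofNat 359, .ofNat 0, .ofNat 632, .negSucc 257, .ofNat 0, .ofNat 0, .ofNat 4700, .ofNat 16752, .ofNat 406617856609670319549256146115177119038729818751369216, .ofNat 1255384513056751822938168735508966919223454591877120, .ofNat 545933603336485086292459821521425218674062524416, .ofNat 95638915657824375913755278286106714759567507001538772992,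 .ofNat 0, .ofNat 23577063768055775843538020180302759681150675736068096, .ofNat 4987036916425180471386056534207620469360127115264, .ofNat 1232130368356546648404982859258974820211635451762271322112, .ofNat 0, .ofNat 189715217517665096870650527717884196309964418503933952, .ofNat 45842327174438930334495542718963949685610532306944, .ofNat 7814613719081105095229507420845235075014406038756607918080, .ofNat 0, .ofNat 1658791057665345337433173062048362251714958503037632512, .ofNat 138463984175630274623436863619015134862339328704512, .ofNat 13930187083527151738966823984819756010069462443954219778048⟩)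
    (by decide +kernel)
theorem L05642 : Good (Phi V5.P V5.D (-1) (-1)) ⟨5, 28, 3, 4, 4, 10, 3, 3, 5, 12⟩ :=
  leafX_sound T5.ok_mm T5.Ymm.bz_eq (w := 252) (c := ⟨⟨.negSucc 2005, .negSucc 98, .ofNat 38, .negSucc 24, .negSucc 57, .ofNat 37⟩, ⟨.ofNat 1128, .ofNat 89, .ofNat 121, .ofNat 17, .ofNat 42, .negSucc 20⟩, ⟨.ofNat 773, .negSucc 277, .ofNat 150, .negSucc 947, .negSucc 1048, .negSucc 675⟩, ⟨.negSucc 3208, .negSucc 14, .ofNat 9, .ofNat 39, .ofNat 154, .ofNat 149⟩, ⟨.negSucc 578, .ofNat 28, .negSucc 18, .ofNat 120, .ofNat 377, .ofNat 155⟩, .ofNat 849, .ofNat 955, .ofNat 0, .ofNat 955, .ofNat 1723, .ofNat 0, .ofNat 128, .negSucc 790, .ofNat 447, .ofNat 0, .ofNat 613, .negSucc 319, .ofNat 0, .ofNat 0, .ofNat 6460, .ofNat 6687, .ofNat 96032960808744760001371278038125888577965739227480064, .ofNat 0, .ofNat 67220730104921055858911988164447690014897209344, .ofNat 0, .ofNat 0, .ofNat 7581421819883261493233369904912897435254219975163904,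 .ofNat 3326752253122869693206280453326721883233356611584, .ofNat 0, .ofNat 0, .ofNat 164628837112025730954267293911649920500053158848888832, .ofNat 21433337315339401224273203811180720902641190699008, .ofNat 0, .ofNat 0, .ofNat 2299864758880091204824056082154394018434112146263506944, .ofNat 13471948417380470700168698061357646412014040383488, .ofNat 0⟩)
    (by decide +kernel)
theorem L05643 : Good (Phi V5.P V5.D (-1) (-1)) ⟨5, 28, 4, 10, 4, 10, 3, 3, 6, 24⟩ :=
  leafX_sound T5.ok_mm T5.Ymm.bz_eq (w := 261) (c := ⟨⟨.negSucc 2013, .ofNat 279, .negSucc 249, .negSucc 40, .negSucc 81, .ofNat 14⟩, ⟨.ofNat 1281, .negSucc 159, .ofNat 240, .ofNat 27, .ofNat 55, .negSucc 9⟩, ⟨.ofNat 862, .ofNat 456, .negSucc 596, .negSucc 976, .negSucc 1098, .negSucc 351⟩, ⟨.negSucc 3230, .ofNat 134, .negSucc 114, .ofNat 42, .ofNat 156, .ofNat 80⟩, ⟨.negSucc 626, .negSucc 130, .ofNat 145, .ofNat 155, .ofNat 413, .ofNat 90⟩, .ofNat 901, .ofNat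 1020, .ofNat 0, .ofNat 1020, .ofNat 1781, .ofNat 0, .ofNat 128, .negSucc 1093, .ofNat 511, .ofNat 0, .ofNat 847, .negSucc 376, .ofNat 0, .ofNat 0, .ofNat 7425, .ofNat 10023, .ofNat 0, .ofNat 0, .ofNat 22845205703532026957857758306364328481389165936640, .ofNat 0, .ofNat 0, .ofNat 0, .ofNat 532996986012670530161879233839798425596973230850048, .ofNat 98255226911092243223776635243415301305870262657297992908800, .ofNat 0, .ofNat 3922299626398306052855320460493396143902181224521662464, .ofNat 3118430149931519316309974212683385873684433653989376, .ofNat 0, .ofNat 0, .ofNat 0, .ofNat 0, .ofNat 0⟩)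
    (by decide +kernel)

end Crest.Agent.R097C5.N5mm
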