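import Crest.Agent.R097.KP7
import Crest.Agent.R097.T5Ymm

/-!
# Row 97, box cover in dimension n = 5 (generated)
-/

set_option autoImplicit false
set_option Elab.async false
set_option maxHeartbeats 0
set_option maxRecDepth 100000

open Crest.Agent.R097 Crest.Agent.R097.KA


namespace Crest.Agent.R097C5.N5mm

theorem L05644 : Good (Phi V5.P V5.D (-1) (-1)) ⟨5, 28, 4, 10, 4, 10, 3, 3, 6, 25⟩ :=
  leafX_sound T5.ok_mm T5.Ymm.bz_eq (w := 261) (c := ⟨⟨.negSucc 1882, .negSucc 217, .ofNat 50, .negSucc 88, .negSucc 121, .ofNat 3⟩, ⟨.ofNat 1195, .ofNat 165, .ofNat 42, .ofNat 59, .ofNat 82, .negSucc 1⟩, ⟨.ofNat 799, .negSucc 414, .negSucc 18, .negSucc 1246, .negSucc 1338, .negSucc 420⟩, ⟨.negSucc 3091, .negSucc 73, .ofNat 17, .ofNat 2, .ofNat 122, .ofNat 62⟩, ⟨.negSucc 581, .ofNat 84, .negSucc 0, .ofNat 194, .ofNat 445, .ofNat 89⟩, .ofNat 906, .ofNat 1027, .ofNat 0, .ofNat 1027, .ofNat 1787, .ofNat 0, .ofNat 128, .negSucc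 1125, .ofNat 640, .ofNat 0, .ofNat 875, .negSucc 459, .ofNat 0, .ofNat 0, .ofNat 7770, .ofNat 12525, .ofNat 6311220820990465125474526489584461019296577622500179968, .ofNat 0, .ofNat 23827325279408691393909760720778568359753166094336, .ofNat 5613237706082809614719985075521860508331762393430032908288, .ofNat 0, .ofNat 1723320683675890173006082897808377001636031630585888768, .ofNat 481274062748029669638933904522092686775992308465664, .ofNat 0, .ofNat 0, .ofNat 34755580091411057363759995291526354606404769067997069312, .ofNat 8891396544264730573358110015114766258835638777282560, .ofNat 0, .ofNat 0, .ofNat 271976235629169629762807632339606366056054803717255331840, .ofNat 27568594823295823467422252358982870820265198503329792, .ofNat 0⟩)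
    (by decide +kernel)
theorem L05645 : Good (Phi V5.P V5.D (-1) (-1)) ⟨6, 56, 4, 11, 4, 10, 3, 3, 5, 12⟩ :=
  out_sound (S := T5.ds_mm) T5.ok_mm (w := 65) (j := 3) (by decide +kernel)
theorem L05646 : Good (Phi V5.P V5.D (-1) (-1)) ⟨7, 114, 5, 22, 4, 10, 3, 3, 5, 12⟩ :=
  out_sound (S := T5.ds_mm) T5.ok_mm (w := 73) (j := 3) (by decide +kernel)
theorem L05647 : Good (Phi V5.P V5.D (-1) (-1)) ⟨7, 115, 5, 22, 4, 10, 3, 3, 5, 12⟩ :=
  out_sound (S := T5.ds_mm) T5.ok_mm (w := 21) (j := 4) (by decide +kernel)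
theorem L05648 : Good (Phi V5.P V5.D (-1) (-1)) ⟨6, 57, 5, 23, 4, 10, 3, 3, 5, 12⟩ :=
  out_sound (S := T5.ds_mm) T5.ok_mm (w := 67) (j := 3) (by decide +kernel)
theorem L05649 : Good (Phi V5.P V5.D (-1) (-1)) ⟨5, 28, 3, 4, 4, 11, 3, 3, 5, 12⟩ :=
  leafX_sound T5.ok_mm T5.Ymm.bz_eq (w := 252) (c := ⟨⟨.negSucc 1849, .negSucc 71, .negSucc 105, .negSucc 74, .negSucc 148, .negSucc 46⟩, ⟨.ofNat 1025, .ofNat 72, .ofNat 216, .ofNat 50, .ofNat 101, .ofNat 33⟩, ⟨.ofNat 605, .negSucc 122, .negSucc 525, .negSucc 1131, .negSucc 1317, .negSucc 1017⟩, ⟨.negSucc 3047, .ofNat 17, .negSucc 95, .ofNat 46, .ofNat 107, .ofNat 102⟩, ⟨.negSucc 647, .ofNat 36, .ofNat 107, .ofNat 242, .ofNat 505, .ofNat 269⟩, .ofNat 847, .ofNat 953, .ofNat 0, .ofNat 953, .ofNat 1721, .ofNat 0, .ofNat 128, .negSucc 727, .ofNat 383, .ofNat 0, .ofNat 570, .negSucc 271, .ofNat 0, .ofNat 0, .ofNat 4110, .ofNat 7936, .ofNat 0, .ofNat 6163618593078676581497448325739289157135616503185408,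 .ofNat 106021235846107586297066006590688370831776546816, .ofNat 0, .ofNat 0, .ofNat 38171730536754568681744802761384191695009072791158784, .ofNat 3631951235623541592858480799792516771198911119360, .ofNat 0, .ofNat 0, .ofNat 465392372282457049638902898719417591287407986257952768, .ofNat 19331088939095527809171631869904292273534393122816, .ofNat 0, .ofNat 0, .ofNat 2158464604255129869002198216957866660826688369767481344, .ofNat 51869926610662150191361930245858314667425137688576, .ofNat 0⟩)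
    (by decide +kernel)
theorem L05650 : Good (Phi V5.P V5.D (-1) (-1)) ⟨5, 28, 3, 5, 4, 11, 4, 6, 5, 12⟩ :=
  leafX_sound T5.ok_mm T5.Ymm.bz_eq (w := 257) (c := ⟨⟨.negSucc 1927, .negSucc 52, .negSucc 124, .negSucc 119, .negSucc 89, .negSucc 93⟩, ⟨.ofNat 1223, .ofNat 63, .ofNat 228, .ofNat 80, .ofNat 60, .ofNat 63⟩, ⟨.ofNat 205, .negSucc 82, .negSucc 563, .negSucc 1316, .negSucc 714, .negSucc 1240⟩, ⟨.negSucc 3130, .ofNat 14, .negSucc 92, .ofNat 31, .ofNat 47, .ofNat 80⟩, ⟨.negSucc 574, .ofNat 18, .ofNat 110, .ofNat 304, .ofNat 266, .ofNat 323⟩, .ofNat 903, .ofNat 1022, .ofNat 0, .ofNat 1022, .ofNat 1782, .ofNat 0, .ofNat 128, .negSucc 1003, .ofNat 596, .ofNat 0, .ofNat 789, .negSucc 429, .ofNat 0, .ofNat 0, .ofNat 6101, .ofNat 13677, .ofNat 0, .ofNat 44648838083456052509869829524603074784599472313729024, .ofNat 3016293047347262797812165604010318551695545597952, .ofNat 0, .ofNat 0, .ofNat 172593771940510898568004897628311752450106602513498112,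 .ofNat 104503213927373034710831801650094482511426188476416, .ofNat 4647077708243709193456534309665499930643145890818078801920, .ofNat 0, .ofNat 3348238643950567001348212791912213462733369042817515520, .ofNat 296634709859456988162161656652141014587267312779264, .ofNat 0, .ofNat 0, .ofNat 18974115944291175099445556134447097444092758983226425344, .ofNat 1362293879666033920595496796041053400826726955614208, .ofNat 0⟩)
    (by decide +kernel)
theorem L05651 : Good (Phi V5.P V5.D (-1) (-1)) ⟨5, 28, 3, 5, 5, 22, 4, 7, 5, 12⟩ :=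
  leafX_sound T5.ok_mm T5.Ymm.bz_eq (w := 271) (c := ⟨⟨.negSucc 1949, .negSucc 211, .ofNat 12, .negSucc 111, .negSucc 148, .negSucc 177⟩, ⟨.ofNat 1236, .ofNat 180, .ofNat 126, .ofNat 75, .ofNat 100, .ofNat 119⟩, ⟨.negSucc 316, .negSucc 471, .negSucc 238, .negSucc 825, .negSucc 930, .negSucc 1587⟩, ⟨.negSucc 3053, .negSucc 53, .negSucc 21, .negSucc 11, .ofNat 26, .ofNat 32⟩, ⟨.negSucc 370, .ofNat 109, .ofNat 60, .ofNat 220, .ofNat 356, .ofNat 426⟩, .ofNat 910, .ofNat 1031, .ofNat 0, .ofNat 1031, .ofNat 1790, .ofNat 0, .ofNat 128, .negSucc 813, .ofNat 659, .ofNat 0, .ofNat 635, .negSucc 477, .ofNat 0, .ofNat 0, .ofNat 5890, .ofNat 14736, .ofNat 0, .ofNat 369312991329690657465966608703143159390011669974578364416, .ofNat 47227486622367370560025824515268042615045826197585920, .ofNat 0, .ofNat 0, .ofNat 1259729796047802031625152544651860408001440144944416161792, .ofNat 1582197151525231105668082774493884652085919377375887360,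 .ofNat 164419259940146867657448730785507713809390253131624975318384640, .ofNat 0, .ofNat 16868912721491921352835333129091257846616704135347434422272, .ofNat 11730346036895237301404698796769152916086326731105894400, .ofNat 0, .ofNat 0, .ofNat 111727174535149641343579168521599295727743520570748040118272, .ofNat 20056055731124351480865612611835589114578658682025803776, .ofNat 543385316381965489080737247656260697298193845241490040525160448⟩)
    (by decide +kernel)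
theorem L05652 : Good (Phi V5.P V5.D (-1) (-1)) ⟨5, 28, 3, 5, 5, 23, 4, 7, 5, 12⟩ :=
  out_sound (S := T5.ds_mm) T5.ok_mm (w := 42) (j := 2) (by decide +kernel)
theorem L05653 : Good (Phi V5.P V5.D (-1) (-1)) ⟨5, 29, 2, 2, 3, 5, 2, 1, 5, 12⟩ :=
  out_sound (S := T5.ds_mm) T5.ok_mm (w := 17) (j := 4) (by decide +kernel)
theorem L05654 : Good (Phi V5.P V5.D (-1) (-1)) ⟨4, 14, 2, 2, 4, 10, 4, 4, 5, 13⟩ :=
  out_sound (S := T5.ds_mm) T5.ok_mm (w := 32) (j := 1) (by decide +kernel)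
theorem L05655 : Good (Phi V5.P V5.D (-1) (-1)) ⟨4, 14, 2, 2, 5, 22, 4, 4, 5, 13⟩ :=
  out_sound (S := T5.ds_mm) T5.ok_mm (w := 34) (j := 1) (by decide +kernel)
theorem L05656 : Good (Phi V5.P V5.D (-1) (-1)) ⟨4, 14, 2, 2, 5, 23, 4, 4, 5, 13⟩ :=
  out_sound (S := T5.ds_mm) T5.ok_mm (w := 42) (j := 2) (by decide +kernel)
theorem L05657 : Good (Phi V5.P V5.D (-1) (-1)) ⟨4, 14, 2, 2, 4, 10, 4, 5, 5, 13⟩ :=
  leafX_sound T5.ok_mm T5.Ymm.bz_eq (w := 253) (c := ⟨⟨.negSucc 1705, .negSucc 214, .negSucc 103, .negSucc 164, .negSucc 90, .negSucc 121⟩, ⟨.ofNat 935, .ofNat 200, .ofNat 353, .ofNat 110, .ofNat 60, .ofNat 81⟩, ⟨.ofNat 1798, .negSucc 649, .negSucc 680, .negSucc 1668, .negSucc 788, .negSucc 1479⟩, ⟨.negSucc 2971, .negSucc 59, .negSucc 97, .negSucc 45, .ofNat 21, .ofNat 33⟩, ⟨.negSucc 842, .ofNat 88, .ofNat 118, .ofNat 291, .ofNat 236, .ofNat 318⟩, .ofNat 388, .ofNat 294, .ofNat 0, .ofNat 294, .ofNat 645, .ofNat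 0, .ofNat 128, .negSucc 313, .ofNat 278, .ofNat 0, .ofNat 324, .negSucc 218, .ofNat 0, .ofNat 0, .ofNat 3086, .ofNat 82491, .ofNat 275429788098890586691298083085698336384914561574109184, .ofNat 0, .ofNat 7148402869575219666874985344341412800808066482176, .ofNat 0, .ofNat 267684276783393610629748879316645966853143456573816832, .ofNat 415163791600202927735226681441438374464494376058880, .ofNat 13305668580826368872648660398436422975175977336832, .ofNat 0, .ofNat 1335213220637127561009021944174829667776887345790320640, .ofNat 2603902667549225876336880394994370548906691844374528, .ofNat 64146120066466884153617226064789464137504435208192, .ofNat 1160048235771987922428995698617539875396999789614685224960, .ofNat 7004573100691556229638614904185730246912370635100389376, .ofNat 32094038537576189141431332145461265966246888634056704, .ofNat 527098147040667424913604154551014647602411080777728, .ofNat 5547495477410356148128148695849541817803897508355352035328⟩)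
    (by decide +kernel)
theorem L05658 : Good (Phi V5.P V5.D (-1) (-1)) ⟨4, 14, 2, 2, 4, 11, 4, 5, 5, 13⟩ :=
  leafX_sound T5.ok_mm T5.Ymm.bz_eq (w := 252) (c := ⟨⟨.negSucc 1841, .negSucc 212, .negSucc 132, .ofNat 1, .negSucc 107, .ofNat 1⟩, ⟨.ofNat 1017, .ofNat 185, .ofNat 388, .negSucc 0, .ofNat 75, .negSucc 0⟩, ⟨.ofNat 228, .negSucc 681, .negSucc 764, .ofNat 0, .negSucc 849, .ofNat 0⟩, ⟨.negSucc 2996, .negSucc 66, .negSucc 100, .ofNat 2, .negSucc 6, .ofNat 2⟩, ⟨.negSucc 556, .ofNat 100, .ofNat 138, .ofNat 0, .ofNat 220, .ofNat 0⟩, .ofNat 887, .ofNat 1002, .ofNat 0, .ofNat 1002, .ofNat 1763, .ofNat 0, .ofNat 128, .negSucc 581, .ofNat 280, .ofNat 0, .ofNat 459, .negSucc 196, .ofNat 0, .ofNat 0, .ofNat 2967, .ofNat 85591, .ofNat 271857023132678235267086441104518586284032568756011008, .ofNat 1210622297038961019486350750642762507232275052101632, .ofNat 10115287013444450710738200509146963174809298534400, .ofNat 0,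 .ofNat 136995005076337728608915761796504339338881140348944384, .ofNat 3586945349615078666473359515973163146917726348378112, .ofNat 96293380318688181073656469950049275401326473248768, .ofNat 0, .ofNat 2315952920296568030800332779923144921893299704224022528, .ofNat 30553078772513866183514254340280645404397959670398976, .ofNat 157781798861439017389920145930251061517679578841088, .ofNat 5337808255976357622797806857309262254588826975498424811520, .ofNat 6958410828638637097912094674189610785819616241522835456, .ofNat 186077873275071453381736062569499345129201538779054080, .ofNat 279337194913020648812131697554594448964376510595072, .ofNat 1479594464871548206996008386808551712770128595414234955776⟩)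
    (by decide +kernel)
theorem L05659 : Good (Phi V5.P V5.D (-1) (-1)) ⟨5, 28, 3, 4, 4, 10, 4, 6, 6, 26⟩ :=
  leafX_sound T5.ok_mm T5.Ymm.bz_eq (w := 264) (c := ⟨⟨.negSucc 1815, .negSucc 102, .negSucc 56, .negSucc 148, .negSucc 74, .negSucc 41⟩, ⟨.ofNat 1014, .ofNat 97, .ofNat 174, .ofNat 98, .ofNat 51, .ofNat 28⟩, ⟨.ofNat 923, .negSucc 314, .negSucc 359, .negSucc 1600, .negSucc 764, .negSucc 671⟩, ⟨.negSucc 2955, .negSucc 21, .negSucc 51, .negSucc 48, .ofNat 39, .ofNat 26⟩, ⟨.negSucc 572, .ofNat 41, .ofNat 61, .ofNat 258, .ofNat 231, .ofNat 135⟩, .ofNat 847, .ofNat 953, .ofNat 0, .ofNat 953, .ofNat 1720, .ofNat 0, .ofNat 128, .negSucc 898, .ofNat 630, .ofNat 0, .ofNat 700, .negSucc 438, .ofNat 0, .ofNat 0, .ofNat 7424, .ofNat 35717, .ofNat 97491465976575214158964780725969372574315440474599456768, .ofNat 0, .ofNat 125961782428663480881413100821620526687957775548416, .ofNat 0, .ofNat 0, .ofNat 547870930446863464647308307079449506807657131489099776,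 .ofNat 4153131221116742992359561482433927307733814158032896, .ofNat 0, .ofNat 0, .ofNat 11667553491998835481406055041776421739830596560247324672, .ofNat 16880197853551932574566237474430696885239628894830592, .ofNat 0, .ofNat 0, .ofNat 120455436398111985636434452856617343144820974162915885056, .ofNat 18546415469241102045318132509667133581898527738429440, .ofNat 0⟩)
    (by decide +kernel)
theorem L05660 : Good (Phi V5.P V5.D (-1) (-1)) ⟨5, 28, 3, 4, 4, 10, 4, 7, 6, 26⟩ :=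
  leafX_sound T5.ok_mm T5.Ymm.bz_eq (w := 262) (c := ⟨⟨.negSucc 1911, .negSucc 136, .negSucc 17, .negSucc 184, .negSucc 103, .negSucc 53⟩, ⟨.ofNat 1085, .ofNat 127, .ofNat 139, .ofNat 121, .ofNat 70, .ofNat 36⟩, ⟨.ofNat 64, .negSucc 448, .negSucc 195, .negSucc 1733, .negSucc 937, .negSucc 732⟩, ⟨.negSucc 2933, .negSucc 36, .negSucc 22, .negSucc 76, .ofNat 27, .ofNat 18⟩, ⟨.negSucc 339, .ofNat 63, .ofNat 42, .ofNat 298, .ofNat 279, .ofNat 151⟩, .ofNat 848, .ofNat 953, .ofNat 0, .ofNat 953, .ofNat 1720, .ofNat 0, .ofNat 128, .negSucc 537, .ofNat 546, .ofNat 0, .ofNat 417, .negSucc 381, .ofNat 0, .ofNat 0, .ofNat 5892, .ofNat 13931, .ofNat 0, .ofNat 158818415250287167355842571667132678904105233454989312, .ofNat 98885812718953035789469270317487680163518521278464, .ofNat 0, .ofNat 0, .ofNat 1445614065957651954872543319360567772874476635411185664, .ofNat 739764199750429374418288610492087240432420082679808, .ofNat 0,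 .ofNat 0, .ofNat 13770260284728988604997833910888255802827575332916166656, .ofNat 6908617143370132255989220637682957142456522908893184, .ofNat 0, .ofNat 0, .ofNat 114126960715365213521712329158882231212697525183171264512, .ofNat 17928771066466627864960107783287899711587029891416064, .ofNat 0⟩)
    (by decide +kernel)
theorem L05661 : Good (Phi V5.P V5.D (-1) (-1)) ⟨5, 28, 4, 10, 5, 20, 4, 6, 6, 26⟩ :=
  leafX_sound T5.ok_mm T5.Ymm.bz_eq (w := 282) (c := ⟨⟨.negSucc 1821, .negSucc 240, .ofNat 51, .negSucc 93, .negSucc 90, .negSucc 53⟩, ⟨.ofNat 1155, .ofNat 182, .ofNat 39, .ofNat 62, .ofNat 61, .ofNat 36⟩, ⟨.ofNat 713, .negSucc 520, .negSucc 48, .negSucc 891, .negSucc 849, .negSucc 739⟩, ⟨.negSucc 2982, .negSucc 83, .ofNat 15, .negSucc 37, .ofNat 29, .ofNat 20⟩, ⟨.negSucc 536, .ofNat 86, .ofNat 7, .ofNat 142, .ofNat 241, .ofNat 145⟩, .ofNat 1481, .ofNat 1885, .ofNat 0, .ofNat 1885, .ofNat 3100, .ofNat 0, .ofNat 128,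 .negSucc 998, .ofNat 973, .ofNat 0, .ofNat 726, .negSucc 668, .ofNat 0, .ofNat 0, .ofNat 11127, .ofNat 95502, .ofNat 9580204684124345101439386311768141534206587631643138161901568, .ofNat 0, .ofNat 7263595560121630280889742778309702239903673842279645184, .ofNat 0, .ofNat 0, .ofNat 0, .ofNat 590353058309812897068115845718697650411237561486098300928, .ofNat 0, .ofNat 0, .ofNat 96791742390366589131690457935299800069614645423236897046528, .ofNat 1664561749080260126719206751348437878075392449919970181120, .ofNat 0, .ofNat 0, .ofNat 0, .ofNat 0, .ofNat 0⟩)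
    (by decide +kernel)
theorem L05662 : Good (Phi V5.P V5.D (-1) (-1)) ⟨5, 28, 4, 10, 5, 21, 4, 6, 6, 26⟩ :=
  leafX_sound T5.ok_mm T5.Ymm.bz_eq (w := 282) (c := ⟨⟨.negSucc 1943, .negSucc 14, .negSucc 90, .negSucc 86, .negSucc 113, .negSucc 61⟩, ⟨.ofNat 1236, .ofNat 35, .ofNat 134, .ofNat 58, .ofNat 76, .ofNat 41⟩, ⟨.negSucc 194, .negSucc 36, .negSucc 392, .negSucc 853, .negSucc 934, .negSucc 779⟩, ⟨.negSucc 3028, .ofNat 18, .negSucc 52, .negSucc 28, .ofNat 17, .ofNat 13⟩, ⟨.negSucc 396, .ofNat 2, .ofNat 69, .ofNat 142, .ofNat 270, .ofNat 152⟩, .ofNat 1477, .ofNat 1879, .ofNat 0, .ofNat 1879, .ofNat 3092, .ofNat 0, .ofNat 128, .negSucc 1168, .ofNat 916, .ofNat 0, .ofNat 852, .negSucc 627, .ofNat 0, .ofNat 0, .ofNat 9406, .ofNat 106263, .ofNat 0, .ofNat 0, .ofNat 0, .ofNat 0, .ofNat 0, .ofNat 103956615594098814782958837589048930256610901461919221153792, .ofNat 707202580374261032011756407160448807218218960817896816640,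 .ofNat 0, .ofNat 0, .ofNat 2812951376364806586470582094894571338251739033849234150391808, .ofNat 2382801815763658250617981257000166163284004316214082928640, .ofNat 0, .ofNat 0, .ofNat 17382483557455534758573318646958023931951958170819871887065088, .ofNat 1218556082186779719918250560950408912585281537373366124544, .ofNat 154664466420990948201847305094694655278790430455894741936697769984⟩)
    (by decide +kernel)
theorem L05663 : Good (Phi V5.P V5.D (-1) (-1)) ⟨6, 56, 4, 11, 4, 10, 4, 6, 6, 26⟩ :=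
  out_sound (S := T5.ds_mm) T5.ok_mm (w := 65) (j := 3) (by decide +kernel)
theorem L05664 : Good (Phi V5.P V5.D (-1) (-1)) ⟨7, 114, 5, 22, 4, 10, 4, 6, 6, 26⟩ :=
  out_sound (S := T5.ds_mm) T5.ok_mm (w := 73) (j := 3) (by decide +kernel)
theorem L05665 : Good (Phi V5.P V5.D (-1) (-1)) ⟨7, 115, 5, 22, 4, 10, 4, 6, 6, 26⟩ :=
  out_sound (S := T5.ds_mm) T5.ok_mm (w := 21) (j := 4) (by decide +kernel)
theorem L05666 : Good (Phi V5.P V5.D (-1) (-1)) ⟨6, 57, 5, 23, 4, 10, 4, 6, 6, 26⟩ :=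
  out_sound (S := T5.ds_mm) T5.ok_mm (w := 67) (j := 3) (by decide +kernel)
theorem L05667 : Good (Phi V5.P V5.D (-1) (-1)) ⟨5, 28, 3, 5, 5, 20, 4, 7, 6, 26⟩ :=
  leafX_sound T5.ok_mm T5.Ymm.bz_eq (w := 277) (c := ⟨⟨.negSucc 1909, .negSucc 48, .negSucc 176, .negSucc 136, .negSucc 138, .negSucc 88⟩, ⟨.ofNat 1211, .ofNat 70, .ofNat 247, .ofNat 92, .ofNat 93, .ofNat 60⟩, ⟨.ofNat 51, .negSucc 315, .negSucc 658, .negSucc 1104, .negSucc 1096, .negSucc 937⟩, ⟨.negSucc 2942, .negSucc 7, .negSucc 89, .negSucc 62, .ofNat 14, .negSucc 1⟩, ⟨.negSucc 337, .ofNat 44, .ofNat 123, .ofNat 199, .ofNat 319, .ofNat 188⟩, .ofNat 903, .ofNat 1022, .ofNat 0, .ofNat 1022, .ofNat 1783, .ofNat 0, .ofNat 128, .negSucc 1014, .ofNat 1272, .ofNat 0, .ofNat 788, .negSucc 902, .ofNat 0, .ofNat 0, .ofNat 12688, .ofNat 18253, .ofNat 0, .ofNat 1563125914120940632880233278199961864480080854209158709248, .ofNat 3191149985164106344828400426972256584172126166585442304,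 .ofNat 0, .ofNat 0, .ofNat 5344512690041749052046300120099974464494906106025806397440, .ofNat 68608432696972405909025235537852669181956469505640103936, .ofNat 4699231056231190420202416449478326350109285707951521845041168384, .ofNat 0, .ofNat 141698484152736439039710269510198850208610185748181898231808, .ofNat 1043072536400919250536813622271450129531157997684214726656, .ofNat 0, .ofNat 0, .ofNat 1935428331779834048464691682477272166286375049859197030105088, .ofNat 8519347762945075499247498244912446166764511675225491898368, .ofNat 0⟩)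
    (by decide +kernel)
theorem L05668 : Good (Phi V5.P V5.D (-1) (-1)) ⟨5, 28, 3, 5, 5, 21, 4, 7, 6, 26⟩ :=
  leafX_sound T5.ok_mm T5.Ymm.bz_eq (w := 278) (c := ⟨⟨.negSucc 2016, .negSucc 128, .negSucc 106, .negSucc 180, .negSucc 193, .negSucc 131⟩, ⟨.ofNat 1282, .ofNat 121, .ofNat 207, .ofNat 121, .ofNat 130, .ofNat 88⟩, ⟨.negSucc 970, .negSucc 468, .negSucc 509, .negSucc 1215, .negSucc 1275, .negSucc 1093⟩, ⟨.negSucc 2989, .negSucc 39, .negSucc 61, .negSucc 81, .negSucc 19, .negSucc 27⟩, ⟨.negSucc 158, .ofNat 76, .ofNat 109, .ofNat 268, .ofNat 386, .ofNat 245⟩, .ofNat 391, .ofNat 298, .ofNat 0, .ofNat 298, .ofNat 646, .ofNat 0, .ofNat 128, .negSucc 213, .ofNat 321, .ofNat 0, .ofNat 217, .negSucc 257, .ofNat 0, .ofNat 0, .ofNat 2922, .ofNat 34919, .ofNat 0, .ofNat 6155324043898078285108731781722686473205757702649709330432, .ofNat 0, .ofNat 517460522979702314586332003174754701830631438841808934683017216, .ofNat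 0, .ofNat 20409492528491523714291061778246784869886592649761640153088, .ofNat 4642316115200367105489519442787611578218385400909529088, .ofNat 0, .ofNat 0, .ofNat 82125489643454172091232754549156316406939094285297859428352, .ofNat 41699813230834447562980965337401416617090456984607522816, .ofNat 0, .ofNat 0, .ofNat 739291792981668040453758981303327379545031028460799785959424, .ofNat 382258070975689054240425936525520474306802545876122206208, .ofNat 49014740088151288995117881721442483582282282088538091377144102912⟩)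
    (by decide +kernel)
theorem L05669 : Good (Phi V5.P V5.D (-1) (-1)) ⟨5, 28, 2, 2, 5, 20, 4, 6, 6, 27⟩ :=
  leafX_sound T5.ok_mm T5.Ymm.bz_eq (w := 277) (c := ⟨⟨.negSucc 1709, .negSucc 99, .negSucc 213, .negSucc 170, .negSucc 167, .negSucc 117⟩, ⟨.ofNat 941, .ofNat 95, .ofNat 418, .ofNat 114, .ofNat 114, .ofNat 79⟩, ⟨.ofNat 836, .negSucc 552, .negSucc 760, .negSucc 1321, .negSucc 1254, .negSucc 1141⟩, ⟨.negSucc 2845, .negSucc 31, .negSucc 115, .negSucc 94, .negSucc 31, .negSucc 26⟩, ⟨.negSucc 538, .ofNat 74, .ofNat 150, .ofNat 220, .ofNat 307, .ofNat 210⟩, .ofNat 887, .ofNat 1002, .ofNat 0, .ofNat 1002, .ofNat 1763, .ofNat 0, .ofNat 128, .negSucc 764, .ofNat 913, .ofNat 0, .ofNat 596, .negSucc 640, .ofNat 0, .ofNat 0, .ofNat 9285, .ofNat 150501, .ofNat 259521862348187708304938473847396446929763671915017885712384, .ofNat 0, .ofNat 2250342493771271872740748459203341824000151930307346432, .ofNat 0, .ofNat 275692230536299551100321181783379819698488055326354020761600,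 .ofNat 1396365105778376687352854943096904760541328824573328621568, .ofNat 17437300281679012243381363215220256996413302650620084224, .ofNat 0, .ofNat 4607639905634995331002054846424230190062819782866399257427968, .ofNat 39254947744386682532183416644982676918797288637244710584320, .ofNat 86721372065659680862353016869226961090417965295491612672, .ofNat 0, .ofNat 19815161430557846743094225602696066848608028303277320906473472, .ofNat 277723523465355527986481498270355610566284555264320927170560, .ofNat 250373997347915634014413937811484714323724439449329729536, .ofNat 0⟩)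
    (by decide +kernel)
theorem L05670 : Good (Phi V5.P V5.D (-1) (-1)) ⟨5, 28, 2, 2, 5, 20, 4, 7, 6, 27⟩ :=
  leafX_sound T5.ok_mm T5.Ymm.bz_eq (w := 275) (c := ⟨⟨.negSucc 1875, .negSucc 125, .negSucc 188, .negSucc 195, .negSucc 182, .negSucc 133⟩, ⟨.ofNat 1055, .ofNat 115, .ofNat 397, .ofNat 131, .ofNat 122, .ofNat 89⟩, ⟨.negSucc 362, .negSucc 635, .negSucc 748, .negSucc 1445, .negSucc 1377, .negSucc 1221⟩, ⟨.negSucc 2859, .negSucc 29, .negSucc 140, .negSucc 104, .negSucc 23, .negSucc 36⟩, ⟨.negSucc 276, .ofNat 53, .ofNat 227, .ofNat 264, .ofNat 363, .ofNat 235⟩, .ofNat 388, .ofNat 294, .ofNat 0, .ofNat 294, .ofNat 645, .ofNat 0, .ofNat 128, .negSucc 591, .ofNat 611, .ofNat 0, .ofNat 602, .negSucc 481, .ofNat 0, .ofNat 0, .ofNat 5964, .ofNat 29744, .ofNat 0, .ofNat 409970435831316663648285342886054145886458677945054527488, .ofNat 0, .ofNat 0, .ofNat 0, .ofNat 1663246205818826359036758457910757792612343664063331434496,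 .ofNat 4133737943712328117671497447501823094931051295499354112, .ofNat 0, .ofNat 0, .ofNat 20796552463556346796563644069339769223696088926580096630784, .ofNat 0, .ofNat 0, .ofNat 0, .ofNat 137029382195559530310560657433196643717982597967535241428992, .ofNat 0, .ofNat 0⟩)
    (by decide +kernel)
theorem L05671 : Good (Phi V5.P V5.D (-1) (-1)) ⟨5, 28, 2, 2, 7, 84, 6, 24, 8, 108⟩ :=
  out_sound (S := T5.ds_mm) T5.ok_mm (w := 46) (j := 1) (by decide +kernel)
theorem L05672 : Good (Phi V5.P V5.D (-1) (-1)) ⟨5, 28, 2, 2, 7, 84, 6, 25, 8, 108⟩ :=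
  out_sound (S := T5.ds_mm) T5.ok_mm (w := 56) (j := 2) (by decide +kernel)
theorem L05673 : Good (Phi V5.P V5.D (-1) (-1)) ⟨5, 28, 2, 2, 7, 84, 5, 12, 8, 109⟩ :=
  out_sound (S := T5.ds_mm) T5.ok_mm (w := 54) (j := 2) (by decide +kernel)
theorem L05674 : Good (Phi V5.P V5.D (-1) (-1)) ⟨5, 28, 2, 2, 7, 85, 5, 12, 7, 54⟩ :=
  out_sound (S := T5.ds_mm) T5.ok_mm (w := 52) (j := 2) (by decide +kernel)
theorem L05675 : Good (Phi V5.P V5.D (-1) (-1)) ⟨5, 28, 2, 2, 6, 42, 5, 13, 7, 54⟩ :=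
  out_sound (S := T5.ds_mm) T5.ok_mm (w := 50) (j := 2) (by decide +kernel)
theorem L05676 : Good (Phi V5.P V5.D (-1) (-1)) ⟨5, 28, 2, 2, 6, 42, 4, 6, 7, 55⟩ :=
  out_sound (S := T5.ds_mm) T5.ok_mm (w := 48) (j := 2) (by decide +kernel)
theorem L05677 : Good (Phi V5.P V5.D (-1) (-1)) ⟨5, 28, 2, 2, 6, 43, 4, 6, 6, 27⟩ :=
  out_sound (S := T5.ds_mm) T5.ok_mm (w := 46) (j := 2) (by decide +kernel)
theorem L05678 : Good (Phi V5.P V5.D (-1) (-1)) ⟨5, 28, 2, 2, 5, 21, 4, 7, 6, 27⟩ :=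
  out_sound (S := T5.ds_mm) T5.ok_mm (w := 44) (j := 2) (by decide +kernel)
theorem L05679 : Good (Phi V5.P V5.D (-1) (-1)) ⟨5, 29, 2, 2, 4, 10, 3, 3, 5, 13⟩ :=
  out_sound (S := T5.ds_mm) T5.ok_mm (w := 17) (j := 4) (by decide +kernel)
theorem L05680 : Good (Phi V5.P V5.D (-1) (-1)) ⟨4, 14, 2, 2, 4, 11, 3, 3, 5, 13⟩ :=
  out_sound (S := T5.ds_mm) T5.ok_mm (w := 38) (j := 2) (by decide +kernel)
theorem L05681 : Good (Phi V5.P V5.D (-1) (-1)) ⟨5, 28, 3, 6, 2, 2, 2, 1, 4, 6⟩ :=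
  out_sound (S := T5.ds_mm) T5.ok_mm (w := 57) (j := 3) (by decide +kernel)
theorem L05682 : Good (Phi V5.P V5.D (-1) (-1)) ⟨5, 29, 3, 6, 2, 2, 2, 1, 4, 6⟩ :=
  out_sound (S := T5.ds_mm) T5.ok_mm (w := 17) (j := 4) (by decide +kernel)
theorem L05683 : Good (Phi V5.P V5.D (-1) (-1)) ⟨4, 14, 3, 7, 2, 2, 2, 1, 4, 6⟩ :=
  out_sound (S := T5.ds_mm) T5.ok_mm (w := 51) (j := 3) (by decide +kernel)
theorem L05684 : Good (Phi V5.P V5.D (-1) (-1)) ⟨4, 15, 1, 1, 2, 2, 2, 1, 4, 6⟩ :=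
  out_sound (S := T5.ds_mm) T5.ok_mm (w := 15) (j := 4) (by decide +kernel)
theorem L05685 : Good (Phi V5.P V5.D (-1) (-1)) ⟨2, 3, 1, 1, 3, 4, 3, 2, 4, 7⟩ :=
  out_sound (S := T5.ds_mm) T5.ok_mm (w := 27) (j := 1) (by decide +kernel)
theorem L05686 : Good (Phi V5.P V5.D (-1) (-1)) ⟨2, 3, 1, 1, 4, 8, 3, 3, 5, 14⟩ :=
  out_sound (S := T5.ds_mm) T5.ok_mm (w := 31) (j := 1) (by decide +kernel)
theorem L05687 : Good (Phi V5.P V5.D (-1) (-1)) ⟨2, 3, 1, 1, 4, 9, 4, 6, 5, 14⟩ :=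
  out_sound (S := T5.ds_mm) T5.ok_mm (w := 32) (j := 1) (by decide +kernel)
theorem L05688 : Good (Phi V5.P V5.D (-1) (-1)) ⟨2, 3, 2, 2, 5, 18, 4, 7, 6, 28⟩ :=
  leafX_sound T5.ok_mm T5.Ymm.bz_eq (w := 266) (c := ⟨⟨.negSucc 1512, .negSucc 485, .negSucc 373, .negSucc 0, .negSucc 162, .ofNat 1⟩, ⟨.ofNat 653, .ofNat 615, .ofNat 490, .ofNat 1, .ofNat 140, .negSucc 0⟩, ⟨.ofNat 369, .negSucc 933, .negSucc 2367, .negSucc 0, .negSucc 752, .ofNat 1⟩, ⟨.negSucc 2720, .ofNat 11, .negSucc 213, .negSucc 0, .negSucc 65, .ofNat 1⟩, ⟨.negSucc 383, .ofNat 150, .ofNat 366, .ofNat 0, .ofNat 308, .ofNat 0⟩, .ofNat 376, .ofNat 275, .ofNat 0, .ofNat 275, .ofNat 643, .ofNat 0, .ofNat 128, .negSucc 568, .ofNat 735, .ofNat 0, .ofNat 583, .negSucc 573, .ofNat 0, .ofNat 0, .ofNat 7612, .ofNat 322316, .ofNat 182677729853640341152863914278061505946336321887218434048, .ofNat 0, .ofNat 69161749086906216177533178137257600456511534946190360576,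 .ofNat 9402391714870363736799375839801687342374774597486922472357888, .ofNat 25955679975553838940414981401348152048905531194718814208, .ofNat 0, .ofNat 36868373365737895330782701325346185089961964860065447936, .ofNat 0, .ofNat 322078995410847209852212659572880576390174024238760984576, .ofNat 159345500727352866732940499380797939073405271964385280, .ofNat 712127416212374338648681276332125042343007380096893845504, .ofNat 79832071497191322383772023671187314243583598789467704813158400, .ofNat 3547824879236866068937578261858574691588780518410096214016, .ofNat 15106573820276182747606861423916978679593001211897315328, .ofNat 977073977716591354575479908283046395039799252365053263872, .ofNat 138289811602889010557393430505016756068650300298021899526471680⟩)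
    (by decide +kernel)
theorem L05689 : Good (Phi V5.P V5.D (-1) (-1)) ⟨3, 6, 2, 3, 5, 18, 4, 7, 6, 28⟩ :=
  out_sound (S := T5.ds_mm) T5.ok_mm (w := 43) (j := 3) (by decide +kernel)
theorem L05690 : Good (Phi V5.P V5.D (-1) (-1)) ⟨5, 28, 3, 6, 5, 18, 4, 7, 6, 28⟩ :=
  out_sound (S := T5.ds_mm) T5.ok_mm (w := 57) (j := 3) (by decide +kernel)
theorem L05691 : Good (Phi V5.P V5.D (-1) (-1)) ⟨5, 29, 3, 6, 5, 18, 4, 7, 6, 28⟩ :=
  out_sound (S := T5.ds_mm) T5.ok_mm (w := 17) (j := 4) (by decide +kernel)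
theorem L05692 : Good (Phi V5.P V5.D (-1) (-1)) ⟨4, 14, 3, 7, 5, 18, 4, 7, 6, 28⟩ :=
  out_sound (S := T5.ds_mm) T5.ok_mm (w := 51) (j := 3) (by decide +kernel)
theorem L05693 : Good (Phi V5.P V5.D (-1) (-1)) ⟨4, 15, 2, 3, 5, 18, 4, 7, 6, 28⟩ :=
  out_sound (S := T5.ds_mm) T5.ok_mm (w := 15) (j := 4) (by decide +kernel)
theorem L05694 : Good (Phi V5.P V5.D (-1) (-1)) ⟨2, 3, 1, 1, 5, 19, 6, 28, 7, 56⟩ :=
  out_sound (S := T5.ds_mm) T5.ok_mm (w := 40) (j := 1) (by decide +kernel)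
theorem L05695 : Good (Phi V5.P V5.D (-1) (-1)) ⟨2, 3, 1, 1, 6, 38, 6, 29, 7, 56⟩ :=
  out_sound (S := T5.ds_mm) T5.ok_mm (w := 42) (j := 1) (by decide +kernel)
theorem L05696 : Good (Phi V5.P V5.D (-1) (-1)) ⟨2, 3, 1, 1, 6, 39, 6, 29, 7, 56⟩ :=
  out_sound (S := T5.ds_mm) T5.ok_mm (w := 52) (j := 2) (by decide +kernel)
theorem L05697 : Good (Phi V5.P V5.D (-1) (-1)) ⟨2, 3, 1, 1, 5, 19, 5, 14, 7, 57⟩ :=
  out_sound (S := T5.ds_mm) T5.ok_mm (w := 39) (j := 1) (by decide +kernel)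
theorem L05698 : Good (Phi V5.P V5.D (-1) (-1)) ⟨2, 3, 1, 1, 7, 76, 6, 30, 7, 56⟩ :=
  out_sound (S := T5.ds_mm) T5.ok_mm (w := 44) (j := 1) (by decide +kernel)
theorem L05699 : Good (Phi V5.P V5.D (-1) (-1)) ⟨2, 3, 1, 1, 8, 152, 8, 124, 9, 224⟩ :=
  out_sound (S := T5.ds_mm) T5.ok_mm (w := 52) (j := 1) (by decide +kernel)
theorem L05700 : Good (Phi V5.P V5.D (-1) (-1)) ⟨2, 3, 1, 1, 8, 152, 9, 250, 10, 448⟩ :=
  out_sound (S := T5.ds_mm) T5.ok_mm (w := 55) (j := 1) (by decide +kernel)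
theorem L05701 : Good (Phi V5.P V5.D (-1) (-1)) ⟨2, 3, 1, 1, 9, 304, 9, 251, 10, 448⟩ :=
  out_sound (S := T5.ds_mm) T5.ok_mm (w := 57) (j := 1) (by decide +kernel)
theorem L05702 : Good (Phi V5.P V5.D (-1) (-1)) ⟨2, 3, 1, 1, 9, 305, 9, 251, 10, 448⟩ :=
  out_sound (S := T5.ds_mm) T5.ok_mm (w := 70) (j := 2) (by decide +kernel)
theorem L05703 : Good (Phi V5.P V5.D (-1) (-1)) ⟨2, 3, 1, 1, 8, 152, 8, 125, 10, 449⟩ :=
  out_sound (S := T5.ds_mm) T5.ok_mm (w := 54) (j := 1) (by decide +kernel)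
theorem L05704 : Good (Phi V5.P V5.D (-1) (-1)) ⟨2, 3, 1, 1, 8, 152, 7, 62, 9, 225⟩ :=
  out_sound (S := T5.ds_mm) T5.ok_mm (w := 51) (j := 1) (by decide +kernel)
theorem L05705 : Good (Phi V5.P V5.D (-1) (-1)) ⟨2, 3, 1, 1, 10, 608, 9, 252, 10, 448⟩ :=
  out_sound (S := T5.ds_mm) T5.ok_mm (w := 59) (j := 1) (by decide +kernel)
theorem L05706 : Good (Phi V5.P V5.D (-1) (-1)) ⟨2, 3, 1, 1, 11, 1216, 10, 506, 11, 896⟩ :=
  out_sound (S := T5.ds_mm) T5.ok_mm (w := 64) (j := 1) (by decide +kernel)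
theorem L05707 : Good (Phi V5.P V5.D (-1) (-1)) ⟨2, 3, 1, 1, 11, 1216, 10, 507, 11, 896⟩ :=
  out_sound (S := T5.ds_mm) T5.ok_mm (w := 78) (j := 2) (by decide +kernel)
theorem L05708 : Good (Phi V5.P V5.D (-1) (-1)) ⟨2, 3, 1, 1, 11, 1217, 9, 253, 11, 896⟩ :=
  out_sound (S := T5.ds_mm) T5.ok_mm (w := 76) (j := 2) (by decide +kernel)
theorem L05709 : Good (Phi V5.P V5.D (-1) (-1)) ⟨2, 3, 1, 1, 10, 608, 9, 253, 11, 897⟩ :=
  out_sound (S := T5.ds_mm) T5.ok_mm (w := 74) (j := 2) (by decide +kernel)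
theorem L05710 : Good (Phi V5.P V5.D (-1) (-1)) ⟨2, 3, 1, 1, 10, 609, 8, 126, 10, 448⟩ :=
  out_sound (S := T5.ds_mm) T5.ok_mm (w := 70) (j := 2) (by decide +kernel)
theorem L05711 : Good (Phi V5.P V5.D (-1) (-1)) ⟨2, 3, 1, 1, 9, 304, 8, 126, 10, 449⟩ :=
  out_sound (S := T5.ds_mm) T5.ok_mm (w := 56) (j := 1) (by decide +kernel)
theorem L05712 : Good (Phi V5.P V5.D (-1) (-1)) ⟨2, 3, 1, 1, 9, 304, 8, 127, 9, 224⟩ :=
  out_sound (S := T5.ds_mm) T5.ok_mm (w := 66) (j := 2) (by decide +kernel)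
theorem L05713 : Good (Phi V5.P V5.D (-1) (-1)) ⟨2, 3, 1, 1, 9, 305, 7, 63, 9, 224⟩ :=
  out_sound (S := T5.ds_mm) T5.ok_mm (w := 64) (j := 2) (by decide +kernel)
theorem L05714 : Good (Phi V5.P V5.D (-1) (-1)) ⟨2, 3, 1, 1, 8, 152, 7, 63, 9, 225⟩ :=
  out_sound (S := T5.ds_mm) T5.ok_mm (w := 62) (j := 2) (by decide +kernel)
theorem L05715 : Good (Phi V5.P V5.D (-1) (-1)) ⟨2, 3, 1, 1, 8, 153, 6, 31, 8, 112⟩ :=
  out_sound (S := T5.ds_mm) T5.ok_mm (w := 58) (j := 2) (by decide +kernel)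
theorem L05716 : Good (Phi V5.P V5.D (-1) (-1)) ⟨2, 3, 1, 1, 7, 76, 6, 31, 8, 113⟩ :=
  out_sound (S := T5.ds_mm) T5.ok_mm (w := 56) (j := 2) (by decide +kernel)
theorem L05717 : Good (Phi V5.P V5.D (-1) (-1)) ⟨2, 3, 1, 1, 8, 154, 6, 30, 8, 112⟩ :=
  out_sound (S := T5.ds_mm) T5.ok_mm (w := 48) (j := 1) (by decide +kernel)
theorem L05718 : Good (Phi V5.P V5.D (-1) (-1)) ⟨2, 3, 1, 1, 8, 155, 6, 30, 8, 112⟩ :=
  out_sound (S := T5.ds_mm) T5.ok_mm (w := 58) (j := 2) (by decide +kernel)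
theorem L05719 : Good (Phi V5.P V5.D (-1) (-1)) ⟨2, 3, 1, 1, 7, 77, 6, 30, 8, 113⟩ :=
  out_sound (S := T5.ds_mm) T5.ok_mm (w := 46) (j := 1) (by decide +kernel)
theorem L05720 : Good (Phi V5.P V5.D (-1) (-1)) ⟨2, 3, 1, 1, 7, 77, 6, 31, 7, 56⟩ :=
  out_sound (S := T5.ds_mm) T5.ok_mm (w := 54) (j := 2) (by decide +kernel)
theorem L05721 : Good (Phi V5.P V5.D (-1) (-1)) ⟨2, 3, 1, 1, 6, 38, 5, 15, 7, 57⟩ :=
  out_sound (S := T5.ds_mm) T5.ok_mm (w := 50) (j := 2) (by decide +kernel)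
theorem L05722 : Good (Phi V5.P V5.D (-1) (-1)) ⟨2, 3, 1, 1, 6, 39, 5, 15, 6, 28⟩ :=
  out_sound (S := T5.ds_mm) T5.ok_mm (w := 48) (j := 2) (by decide +kernel)
theorem L05723 : Good (Phi V5.P V5.D (-1) (-1)) ⟨2, 3, 1, 1, 4, 9, 4, 7, 6, 29⟩ :=
  out_sound (S := T5.ds_mm) T5.ok_mm (w := 34) (j := 1) (by decide +kernel)
theorem L05724 : Good (Phi V5.P V5.D (-1) (-1)) ⟨2, 3, 1, 1, 3, 4, 3, 3, 5, 15⟩ :=
  out_sound (S := T5.ds_mm) T5.ok_mm (w := 29) (j := 1) (by decide +kernel)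
theorem L05725 : Good (Phi V5.P V5.D (-1) (-1)) ⟨2, 3, 1, 1, 4, 10, 3, 2, 5, 14⟩ :=
  out_sound (S := T5.ds_mm) T5.ok_mm (w := 31) (j := 1) (by decide +kernel)
theorem L05726 : Good (Phi V5.P V5.D (-1) (-1)) ⟨2, 3, 1, 1, 5, 20, 5, 12, 6, 28⟩ :=
  out_sound (S := T5.ds_mm) T5.ok_mm (w := 37) (j := 1) (by decide +kernel)
theorem L05727 : Good (Phi V5.P V5.D (-1) (-1)) ⟨2, 3, 1, 1, 5, 20, 5, 13, 6, 28⟩ :=
  out_sound (S := T5.ds_mm) T5.ok_mm (w := 46) (j := 2) (by decide +kernel)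
theorem L05728 : Good (Phi V5.P V5.D (-1) (-1)) ⟨2, 3, 1, 1, 5, 20, 4, 7, 6, 28⟩ :=
  out_sound (S := T5.ds_mm) T5.ok_mm (w := 44) (j := 2) (by decide +kernel)
theorem L05729 : Good (Phi V5.P V5.D (-1) (-1)) ⟨2, 3, 1, 1, 5, 20, 3, 3, 6, 29⟩ :=
  out_sound (S := T5.ds_mm) T5.ok_mm (w := 42) (j := 2) (by decide +kernel)
theorem L05730 : Good (Phi V5.P V5.D (-1) (-1)) ⟨2, 3, 1, 1, 5, 21, 3, 3, 5, 14⟩ :=
  out_sound (S := T5.ds_mm) T5.ok_mm (w := 40) (j := 2) (by decide +kernel)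
theorem L05731 : Good (Phi V5.P V5.D (-1) (-1)) ⟨2, 3, 1, 1, 4, 10, 2, 1, 5, 15⟩ :=
  out_sound (S := T5.ds_mm) T5.ok_mm (w := 36) (j := 2) (by decide +kernel)
theorem L05732 : Good (Phi V5.P V5.D (-1) (-1)) ⟨2, 3, 1, 1, 4, 11, 2, 1, 4, 7⟩ :=
  out_sound (S := T5.ds_mm) T5.ok_mm (w := 34) (j := 2) (by decide +kernel)
theorem L05733 : Good (Phi V5.P V5.D (-1) (-1)) ⟨2, 2, 1, 1, 2, 3, 2, 1, 3, 2⟩ :=
  out_sound (S := T5.ds_mm) T5.ok_mm (w := 35) (j := 3) (by decide +kernel)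
theorem L05734 : Good (Phi V5.P V5.D (-1) (-1)) ⟨4, 12, 2, 2, 2, 3, 2, 1, 4, 4⟩ :=
  out_sound (S := T5.ds_mm) T5.ok_mm (w := 49) (j := 3) (by decide +kernel)
theorem L05735 : Good (Phi V5.P V5.D (-1) (-1)) ⟨4, 13, 3, 4, 3, 6, 2, 1, 4, 4⟩ :=
  leafX_sound T5.ok_mm T5.Ymm.bz_eq (w := 224) (c := ⟨⟨.negSucc 2467, .negSucc 33, .negSucc 26, .ofNat 478, .ofNat 165, .ofNat 368⟩, ⟨.ofNat 1320, .ofNat 43, .ofNat 202, .negSucc 274, .negSucc 83, .negSucc 203⟩, ⟨.ofNat 1474, .ofNat 89, .negSucc 176, .negSucc 488, .negSucc 834, .negSucc 566⟩, ⟨.negSucc 4435, .negSucc 27, .ofNat 24, .ofNat 746, .ofNat 523, .ofNat 737⟩, ⟨.negSucc 1191, .negSucc 325, .ofNat 248, .ofNat 81, .ofNat 471, .ofNat 332⟩, .ofNat 743, .ofNat 821, .ofNat 0, .ofNat 821, .ofNat 1621, .ofNat 0, .ofNat 128, .negSucc 512, .negSucc 85, .ofNat 0, .ofNat 401, .ofNat 38, .ofNat 0, .ofNat 0, .ofNat 1255, .ofNat 1240, .ofNat 0, .ofNat 0, .ofNat 0, .ofNat 0, .ofNat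 0, .ofNat 562829104711351012418947911957319387948515328, .ofNat 162803937565702293017633822899638995255296, .ofNat 0, .ofNat 0, .ofNat 6680442576458063066552428450486203779116957696, .ofNat 1507978167568994970873992382776617910403072, .ofNat 0, .ofNat 0, .ofNat 17313303391795474462938784413844093831366049792, .ofNat 3684959000544691156194917457573422009679872, .ofNat 0⟩)
    (by decide +kernel)
theorem L05736 : Good (Phi V5.P V5.D (-1) (-1)) ⟨4, 13, 3, 4, 3, 7, 2, 1, 5, 8⟩ :=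
  leafX_sound T5.ok_mm T5.Ymm.bz_eq (w := 228) (c := ⟨⟨.negSucc 2012, .ofNat 193, .negSucc 150, .ofNat 423, .ofNat 166, .ofNat 71⟩, ⟨.ofNat 1076, .negSucc 103, .ofNat 245, .negSucc 216, .negSucc 82, .negSucc 37⟩, ⟨.ofNat 922, .ofNat 345, .negSucc 320, .negSucc 291, .negSucc 891, .negSucc 410⟩, ⟨.negSucc 3653, .negSucc 36, .ofNat 147, .ofNat 1135, .ofNat 601, .ofNat 272⟩, ⟨.negSucc 1084, .negSucc 737, .ofNat 666, .ofNat 893, .ofNat 602, .ofNat 269⟩, .ofNat 751, .ofNat 832, .ofNat 0, .ofNat 832, .ofNat 1633, .ofNat 0, .ofNat 128, .negSucc 368, .ofNat 25, .ofNat 0, .ofNat 317, .negSucc 65, .ofNat 0, .ofNat 0, .ofNat 1190, .ofNat 720, .ofNat 0, .ofNat 0, .ofNat 149359421488715814357066649685072011067392, .ofNat 0, .ofNat 0, .ofNat 0, .ofNat 6684643616003020007555307785515658379264000, .ofNat 0, .ofNat 0, .ofNat 38128793198946785906357386829964625536006225920, .ofNat 7566296839506527548376359828628360589737984, .ofNat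 0, .ofNat 0, .ofNat 182918409299174089654941152409588884132662870016, .ofNat 7903529521100081225874384777922549651603456, .ofNat 0⟩)
    (by decide +kernel)
theorem L05737 : Good (Phi V5.P V5.D (-1) (-1)) ⟨4, 13, 3, 4, 3, 7, 3, 2, 5, 9⟩ :=
  leafX_sound T5.ok_mm T5.Ymm.bz_eq (w := 232) (c := ⟨⟨.negSucc 1736, .negSucc 53, .negSucc 2, .ofNat 330, .ofNat 41, .ofNat 44⟩, ⟨.ofNat 920, .ofNat 47, .ofNat 153, .negSucc 165, .negSucc 16, .negSucc 16⟩, ⟨.ofNat 922, .negSucc 114, .negSucc 77, .negSucc 429, .negSucc 573, .negSucc 442⟩, ⟨.negSucc 3356, .ofNat 52, .ofNat 73, .ofNat 1049, .ofNat 246, .ofNat 235⟩, ⟨.negSucc 1238, .negSucc 22, .ofNat 189, .ofNat 977, .ofNat 313, .ofNat 286⟩, .ofNat 1522, .ofNat 2098, .ofNat 0, .ofNat 2098, .ofNat 3790, .ofNat 0, .ofNat 128, .negSucc 303, .ofNat 38, .ofNat 0, .ofNat 225, .negSucc 34, .ofNat 0, .ofNat 0, .ofNat 740, .ofNat 1647, .ofNat 0, .ofNat 0, .ofNat 0, .ofNat 0, .ofNat 0,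 .ofNat 0, .ofNat 0, .ofNat 0, .ofNat 0, .ofNat 157415758983268071710120295634875004415452905472, .ofNat 350025429919704599625747220033144969685368832, .ofNat 0, .ofNat 0, .ofNat 443698206527425042463509816563740042347275091968, .ofNat 151588114173047068681462454066422711683383296, .ofNat 0⟩)
    (by decide +kernel)
theorem L05738 : Good (Phi V5.P V5.D (-1) (-1)) ⟨4, 13, 3, 4, 3, 7, 3, 3, 5, 9⟩ :=
  leafX_sound T5.ok_mm T5.Ymm.bz_eq (w := 232) (c := ⟨⟨.negSucc 1624, .negSucc 50, .negSucc 68, .ofNat 273, .negSucc 72, .negSucc 61⟩, ⟨.ofNat 849, .ofNat 71, .ofNat 177, .negSucc 134, .ofNat 58, .ofNat 49⟩, ⟨.ofNat 534, .negSucc 106, .negSucc 211, .negSucc 622, .negSucc 742, .negSucc 710⟩, ⟨.negSucc 3091, .ofNat 66, .ofNat 65, .ofNat 1095, .ofNat 246, .ofNat 199⟩, ⟨.negSucc 1040, .negSucc 19, .ofNat 313, .ofNat 1172, .ofNat 595, .ofNat 488⟩, .ofNat 1564, .ofNat 2152, .ofNat 0, .ofNat 2152, .ofNat 3845, .ofNat 0, .ofNat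 128, .negSucc 352, .ofNat 107, .ofNat 0, .ofNat 253, .negSucc 80, .ofNat 0, .ofNat 0, .ofNat 1060, .ofNat 1081, .ofNat 0, .ofNat 7092513639184335996086104316284475434313187328, .ofNat 1080523310162254260060692234288546753544192, .ofNat 0, .ofNat 0, .ofNat 0, .ofNat 718207826502792138753262710988913944777719808, .ofNat 0, .ofNat 0, .ofNat 433390804423743640668144226270816990092010192896, .ofNat 230720823573103770728792083451399630766473216, .ofNat 0, .ofNat 0, .ofNat 1350518568335832879143674456364946480157232726016, .ofNat 106024453281207216324820818071422414645886976, .ofNat 0⟩)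
    (by decide +kernel)
theorem L05739 : Good (Phi V5.P V5.D (-1) (-1)) ⟨4, 13, 3, 5, 2, 3, 2, 1, 4, 4⟩ :=
  out_sound (S := T5.ds_mm) T5.ok_mm (w := 51) (j := 3) (by decide +kernel)
theorem L05740 : Good (Phi V5.P V5.D (-1) (-1)) ⟨6, 56, 3, 4, 3, 6, 2, 1, 4, 4⟩ :=
  leafX_sound T5.ok_mm T5.Ymm.bz_eq (w := 234) (c := ⟨⟨.negSucc 2413, .ofNat 15, .negSucc 143, .ofNat 493, .ofNat 124, .ofNat 347⟩, ⟨.ofNat 1334, .negSucc 9, .ofNat 285, .negSucc 309, .negSucc 73, .negSucc 215⟩, ⟨.ofNat 1671, .ofNat 85, .negSucc 290, .negSucc 469, .negSucc 871, .negSucc 662⟩, ⟨.negSucc 4408, .ofNat 63, .negSucc 108, .ofNat 785, .ofNat 534, .ofNat 736⟩, ⟨.negSucc 1503, .ofNat 40, .ofNat 138, .ofNat 128, .ofNat 561, .ofNat 380⟩, .ofNat 1918, .ofNat 2555, .ofNat 0, .ofNat 2555, .ofNat 4193, .ofNat 0, .ofNat 128, .negSucc 935, .negSucc 150, .ofNat 0, .ofNat 701, .ofNat 80, .ofNat 0, .ofNat 0, .ofNat 2330, .ofNat 2480, .ofNat 0, .ofNat 0,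 .ofNat 0, .ofNat 0, .ofNat 0, .ofNat 0, .ofNat 107111287675394613364552532379382033940480, .ofNat 0, .ofNat 0, .ofNat 5099053113409998374193687202165716248468691877888, .ofNat 477419820793355938290688260458404919640064, .ofNat 0, .ofNat 0, .ofNat 17245799953286882351654328688930886022216149893120, .ofNat 797151244936926065781245580497959522402304, .ofNat 0⟩)
    (by decide +kernel)
theorem L05741 : Good (Phi V5.P V5.D (-1) (-1)) ⟨6, 57, 3, 4, 3, 6, 2, 1, 4, 4⟩ :=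
  out_sound (S := T5.ds_mm) T5.ok_mm (w := 63) (j := 3) (by decide +kernel)
theorem L05742 : Good (Phi V5.P V5.D (-1) (-1)) ⟨5, 28, 3, 5, 3, 6, 2, 1, 5, 8⟩ :=
  leafX_sound T5.ok_mm T5.Ymm.bz_eq (w := 237) (c := ⟨⟨.negSucc 2476, .negSucc 346, .ofNat 295, .ofNat 543, .ofNat 214, .ofNat 199⟩, ⟨.ofNat 1587, .ofNat 184, .ofNat 76, .negSucc 355, .negSucc 140, .negSucc 130⟩, ⟨.ofNat 1518, .negSucc 306, .ofNat 195, .negSucc 507, .negSucc 827, .negSucc 310⟩, ⟨.negSucc 4492, .negSucc 108, .ofNat 66, .ofNat 806, .ofNat 579, .ofNat 430⟩, ⟨.negSucc 1406, .ofNat 83, .negSucc 36, .ofNat 62, .ofNat 421, .ofNat 231⟩, .ofNat 2492, .ofNat 3403, .ofNat 0, .ofNat 3403, .ofNat 5395, .ofNat 0, .ofNat 128, .negSucc 1756, .negSucc 274, .ofNat 0, .ofNat 1230, .ofNat 174, .ofNat 0, .ofNat 0, .ofNat 2380, .ofNat 2675, .ofNat 0, .ofNat 0, .ofNat 641989033280984871090853764469992703655936, .ofNat 0, .ofNat 0, .ofNat 0, .ofNat 58859374006756468030777346219037615783411712,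 .ofNat 5725364113511651171174808230546788579646224470114304, .ofNat 0, .ofNat 0, .ofNat 0, .ofNat 0, .ofNat 0, .ofNat 0, .ofNat 0, .ofNat 0⟩)
    (by decide +kernel)
theorem L05743 : Good (Phi V5.P V5.D (-1) (-1)) ⟨5, 28, 3, 5, 3, 6, 3, 2, 5, 9⟩ :=
  leafX_sound T5.ok_mm T5.Ymm.bz_eq (w := 238) (c := ⟨⟨.negSucc 2308, .ofNat 171, .negSucc 174, .ofNat 378, .ofNat 46, .ofNat 125⟩, ⟨.ofNat 1464, .negSucc 85, .ofNat 280, .negSucc 244, .negSucc 28, .negSucc 79⟩, ⟨.ofNat 1125, .ofNat 351, .negSucc 460, .negSucc 626, .negSucc 501, .negSucc 349⟩, ⟨.negSucc 4076, .ofNat 98, .negSucc 135, .ofNat 710, .ofNat 237, .ofNat 336⟩, ⟨.negSucc 1250, .negSucc 161, .ofNat 49, .ofNat 271, .ofNat 261, .ofNat 242⟩, .ofNat 1061, .ofNat 1258, .ofNat 0, .ofNat 1258, .ofNat 2122, .ofNat 0, .ofNat 128, .negSucc 765, .negSucc 31, .ofNat 0, .ofNat 589, .ofNat 5, .ofNat 0, .ofNat 0, .ofNat 1871, .ofNat 7484, .ofNat 0, .ofNat 0, .ofNat 0, .ofNat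 0, .ofNat 0, .ofNat 0, .ofNat 210727289801421685653781076895483846742507520, .ofNat 22715721534395759492820996337023051754065046290825216, .ofNat 0, .ofNat 0, .ofNat 0, .ofNat 0, .ofNat 0, .ofNat 0, .ofNat 0, .ofNat 0⟩)
    (by decide +kernel)
theorem L05744 : Good (Phi V5.P V5.D (-1) (-1)) ⟨5, 28, 3, 5, 3, 6, 3, 3, 5, 9⟩ :=
  leafX_sound T5.ok_mm T5.Ymm.bz_eq (w := 237) (c := ⟨⟨.negSucc 2088, .negSucc 119, .ofNat 51, .ofNat 265, .negSucc 58, .ofNat 35⟩, ⟨.ofNat 1324, .ofNat 111, .ofNat 103, .negSucc 169, .ofNat 40, .negSucc 21⟩, ⟨.ofNat 869, .negSucc 54, .negSucc 104, .negSucc 841, .negSucc 674, .negSucc 559⟩, ⟨.negSucc 3795, .negSucc 26, .ofNat 99, .ofNat 725, .ofNat 260, .ofNat 281⟩, ⟨.negSucc 1251, .ofNat 87, .ofNat 79, .ofNat 540, .ofNat 522, .ofNat 356⟩, .ofNat 907, .ofNat 1028, .ofNat 0, .ofNat 1028, .ofNat 1788, .ofNat 0, .ofNat 128, .negSucc 887, .ofNat 113, .ofNat 0, .ofNat 699, .negSucc 117, .ofNat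 0, .ofNat 0, .ofNat 2861, .ofNat 2324, .ofNat 0, .ofNat 0, .ofNat 0, .ofNat 0, .ofNat 0, .ofNat 838317726577417667491671544115788831947246010368, .ofNat 47293607476065193555613214374506213708660736, .ofNat 19258576095100681220401765101699691832847022245806080, .ofNat 0, .ofNat 10615390567037686692850329340260332459670611427328, .ofNat 330553278693855189960395863288589570390622208, .ofNat 263055980348246466231987828748284204230686026745511936, .ofNat 0, .ofNat 70618094042673725681580641035626021893609692856320, .ofNat 626941436121612011328335040073970126952595456, .ofNat 814406308357837590819909356844876900032710526977966080⟩)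
    (by decide +kernel)
theorem L05745 : Good (Phi V5.P V5.D (-1) (-1)) ⟨5, 28, 4, 8, 3, 7, 2, 1, 4, 4⟩ :=
  out_sound (S := T5.ds_mm) T5.ok_mm (w := 59) (j := 3) (by decide +kernel)
theorem L05746 : Good (Phi V5.P V5.D (-1) (-1)) ⟨5, 28, 4, 9, 3, 7, 2, 1, 5, 8⟩ :=
  leafX_sound T5.ok_mm T5.Ymm.bz_eq (w := 236) (c := ⟨⟨.negSucc 1902, .negSucc 129, .ofNat 39, .ofNat 437, .ofNat 81, .ofNat 28⟩, ⟨.ofNat 1119, .ofNat 83, .ofNat 56, .negSucc 260, .negSucc 42, .negSucc 12⟩, ⟨.ofNat 1139, .negSucc 156, .negSucc 41, .negSucc 268, .negSucc 1042, .negSucc 476⟩, ⟨.negSucc 3756, .negSucc 50, .ofNat 97, .ofNat 1270, .ofNat 641, .ofNat 360⟩, ⟨.negSucc 1664, .ofNat 82, .ofNat 104, .ofNat 1025, .ofNat 829, .ofNat 507⟩, .ofNat 1929, .ofNat 2524, .ofNat 0, .ofNat 2524, .ofNat 4050, .ofNat 0, .ofNat 128, .negSucc 531, .ofNat 62, .ofNat 0, .ofNat 423, .negSucc 79, .ofNat 0, .ofNat 0, .ofNat 1527, .ofNat 1368, .ofNat 0, .ofNat 0,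 .ofNat 0, .ofNat 0, .ofNat 0, .ofNat 0, .ofNat 15375988429708942208462184346552580679139328, .ofNat 0, .ofNat 0, .ofNat 5953705491825071169374298826911372649970159058944, .ofNat 38798137073639304864199421823348714032332800, .ofNat 0, .ofNat 0, .ofNat 38047980526332279614750349960066966903706454327296, .ofNat 14061536681572823527288811086045877238759424, .ofNat 0⟩)
    (by decide +kernel)
theorem L05747 : Good (Phi V5.P V5.D (-1) (-1)) ⟨6, 56, 4, 9, 3, 7, 3, 2, 5, 9⟩ :=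
  leafX_sound T5.ok_mm T5.Ymm.bz_eq (w := 246) (c := ⟨⟨.negSucc 1756, .ofNat 42, .negSucc 70, .ofNat 371, .ofNat 24, .ofNat 25⟩, ⟨.ofNat 1037, .negSucc 18, .ofNat 116, .negSucc 218, .negSucc 10, .negSucc 10⟩, ⟨.ofNat 907, .ofNat 144, .negSucc 245, .negSucc 385, .negSucc 603, .negSucc 520⟩, ⟨.negSucc 3268, .ofNat 79, .negSucc 28, .ofNat 1118, .ofNat 268, .ofNat 236⟩, ⟨.negSucc 1199, .negSucc 12, .ofNat 121, .ofNat 934, .ofNat 368, .ofNat 319⟩, .ofNat 3931, .ofNat 5720, .ofNat 0, .ofNat 5720, .ofNat 9164, .ofNat 0, .ofNat 128, .negSucc 504, .ofNat 117, .ofNat 0, .ofNat 352, .negSucc 89, .ofNat 0, .ofNat 0, .ofNat 1831, .ofNat 3033, .ofNat 0, .ofNat 0, .ofNat 0, .ofNat 0, .ofNat 0, .ofNat 0, .ofNat 687321385877909439065220093712173824273809408, .ofNat 0, .ofNat 0, .ofNat 1145841761220705683221121281436858251668638943674368, .ofNat 635776198102226849002768172035171927401168896, .ofNat 0, .ofNat 0, .ofNat 4806209302246934772659016141400054114567685314445312,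 .ofNat 490157286180054078412762687143896496232988672, .ofNat 0⟩)
    (by decide +kernel)
theorem L05748 : Good (Phi V5.P V5.D (-1) (-1)) ⟨6, 56, 5, 18, 3, 7, 3, 3, 5, 9⟩ :=
  out_sound (S := T5.ds_mm) T5.ok_mm (w := 67) (j := 3) (by decide +kernel)
theorem L05749 : Good (Phi V5.P V5.D (-1) (-1)) ⟨6, 56, 5, 19, 3, 7, 3, 3, 5, 9⟩ :=
  leafX_sound T5.ok_mm T5.Ymm.bz_eq (w := 249) (c := ⟨⟨.negSucc 1707, .ofNat 35, .negSucc 50, .ofNat 287, .negSucc 125, .negSucc 86⟩, ⟨.ofNat 1046, .negSucc 12, .ofNat 66, .negSucc 162, .ofNat 89, .ofNat 64⟩, ⟨.ofNat 325, .ofNat 97, .negSucc 139, .negSucc 629, .negSucc 842, .negSucc 790⟩, ⟨.negSucc 3010, .ofNat 105, .negSucc 22, .ofNat 1144, .ofNat 264, .ofNat 214⟩, ⟨.negSucc 892, .ofNat 14, .ofNat 83, .ofNat 1164, .ofNat 700, .ofNat 535⟩, .ofNat 2958, .ofNat 4211, .ofNat 0, .ofNat 4211, .ofNat 6817, .ofNat 0, .ofNat 128, .negSucc 575, .ofNat 232, .ofNat 0, .ofNat 404, .negSucc 167,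 .ofNat 0, .ofNat 0, .ofNat 1872, .ofNat 1646, .ofNat 0, .ofNat 220006552185207321895534490208541964203255203364864, .ofNat 12384057928974154193626809253328098332508160, .ofNat 0, .ofNat 0, .ofNat 0, .ofNat 1271235933290381339507792041066469906530172928, .ofNat 0, .ofNat 0, .ofNat 17547712639169669427492928058916202804394378345316352, .ofNat 1256665907610434819253274203747934998680829952, .ofNat 0, .ofNat 0, .ofNat 67030946736866314883569696199315476885869262893219840, .ofNat 870832487208466414989687967590772973173211136, .ofNat 0⟩)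
    (by decide +kernel)
theorem L05750 : Good (Phi V5.P V5.D (-1) (-1)) ⟨6, 57, 4, 9, 3, 7, 2, 1, 5, 9⟩ :=
  out_sound (S := T5.ds_mm) T5.ok_mm (w := 65) (j := 3) (by decide +kernel)
theorem L05751 : Good (Phi V5.P V5.D (-1) (-1)) ⟨5, 28, 4, 10, 3, 7, 3, 2, 5, 8⟩ :=
  leafX_sound T5.ok_mm T5.Ymm.bz_eq (w := 243) (c := ⟨⟨.negSucc 1990, .ofNat 197, .negSucc 121, .ofNat 473, .ofNat 96, .ofNat 84⟩, ⟨.ofNat 1275, .negSucc 143, .ofNat 170, .negSucc 303, .negSucc 63, .negSucc 54⟩, ⟨.ofNat 972, .ofNat 137, .negSucc 141, .negSucc 134, .negSucc 482, .negSucc 364⟩, ⟨.negSucc 3696, .ofNat 168, .negSucc 30, .ofNat 1314, .ofNat 302, .ofNat 314⟩, ⟨.negSucc 1367, .negSucc 62, .ofNat 132, .ofNat 992, .ofNat 251, .ofNat 300⟩, .ofNat 2439, .ofNat 3331, .ofNat 0, .ofNat 3331, .ofNat 5303, .ofNat 0, .ofNat 128, .negSucc 1185, .ofNat 9, .ofNat 0, .ofNat 863, .negSucc 32, .ofNat 0, .ofNat 0, .ofNat 1993, .ofNat 9551, .ofNat 0, .ofNat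 0, .ofNat 0, .ofNat 0, .ofNat 0, .ofNat 0, .ofNat 1334227997381839909366232958759418353843961856, .ofNat 0, .ofNat 0, .ofNat 145439964943265387594369892107752910545240188780544, .ofNat 5083139065966786955771109977989319364966350848, .ofNat 0, .ofNat 0, .ofNat 208976003338307532477443836019547590666001552769024, .ofNat 809475328372350251328749829830988165061541888, .ofNat 64055008364258974787277295484456964697610991343501312⟩)
    (by decide +kernel)
theorem L05752 : Good (Phi V5.P V5.D (-1) (-1)) ⟨5, 28, 4, 10, 3, 7, 3, 3, 5, 8⟩ :=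
  leafX_sound T5.ok_mm T5.Ymm.bz_eq (w := 243) (c := ⟨⟨.negSucc 1780, .ofNat 16, .negSucc 48, .ofNat 434, .negSucc 34, .negSucc 35⟩, ⟨.ofNat 1129, .ofNat 20, .ofNat 91, .negSucc 276, .ofNat 24, .ofNat 22⟩, ⟨.ofNat 620, .ofNat 54, .negSucc 131, .negSucc 272, .negSucc 604, .negSucc 566⟩, ⟨.negSucc 3418, .ofNat 62, .ofNat 51, .ofNat 1370, .ofNat 342, .ofNat 376⟩, ⟨.negSucc 1369, .ofNat 74, .ofNat 130, .ofNat 1164, .ofNat 597, .ofNat 646⟩, .ofNat 2570, .ofNat 3504, .ofNat 0, .ofNat 3504, .ofNat 5521, .ofNat 0, .ofNat 128, .negSucc 976, .ofNat 320, .ofNat 0, .ofNat 706, .negSucc 256, .ofNat 0, .ofNat 0, .ofNat 2994, .ofNat 2074, .ofNat 0, .ofNat 0, .ofNat 0, .ofNat 0, .ofNat 0, .ofNat 0, .ofNat 862525001434319770505355715672511311859679232, .ofNat 0, .ofNat 0, .ofNat 65075261346079141526557175841971306732770541174784, .ofNat 1246421233610219526414851918372697380065640448, .ofNat 710346144214166949657335163635001160638062229935095808,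 .ofNat 0, .ofNat 789870228505734271018251411469864358507322925907968, .ofNat 5425733906144075873197782015100290966751281152, .ofNat 0⟩)
    (by decide +kernel)
theorem L05753 : Good (Phi V5.P V5.D (-1) (-1)) ⟨5, 28, 4, 10, 3, 7, 3, 2, 5, 9⟩ :=
  leafX_sound T5.ok_mm T5.Ymm.bz_eq (w := 244) (c := ⟨⟨.negSucc 1752, .negSucc 85, .ofNat 11, .ofNat 359, .negSucc 25, .negSucc 4⟩, ⟨.ofNat 1103, .ofNat 104, .ofNat 43, .negSucc 225, .ofNat 20, .ofNat 6⟩, ⟨.ofNat 826, .negSucc 53, .negSucc 86, .negSucc 427, .negSucc 704, .negSucc 602⟩, ⟨.negSucc 3230, .ofNat 6, .ofNat 84, .ofNat 1043, .ofNat 235, .ofNat 232⟩, ⟨.negSucc 1120, .ofNat 96, .ofNat 112, .ofNat 827, .ofNat 415, .ofNat 367⟩, .ofNat 5662, .ofNat 8215, .ofNat 0, .ofNat 8215, .ofNat 12718, .ofNat 0, .ofNat 128, .negSucc 627, .ofNat 216, .ofNat 0, .ofNat 435, .negSucc 156, .ofNat 0, .ofNat 0, .ofNat 2768, .ofNat 1600, .ofNat 0, .ofNat 0, .ofNat 0, .ofNat 0, .ofNat 0,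 .ofNat 0, .ofNat 5470305899762105484159018878719314424208818176, .ofNat 0, .ofNat 0, .ofNat 65770410154857667615059489798376705458782613798912, .ofNat 1971912100607749279363067427880109473263517696, .ofNat 0, .ofNat 0, .ofNat 626341016011321200144810716942710205885941173714944, .ofNat 4363636600345751443718570401795474648138252288, .ofNat 0⟩)
    (by decide +kernel)
theorem L05754 : Good (Phi V5.P V5.D (-1) (-1)) ⟨5, 28, 4, 10, 3, 7, 3, 3, 6, 18⟩ :=
  leafX_sound T5.ok_mm T5.Ymm.bz_eq (w := 249) (c := ⟨⟨.negSucc 1779, .ofNat 211, .negSucc 186, .ofNat 301, .negSucc 176, .negSucc 43⟩, ⟨.ofNat 1123, .negSucc 86, .ofNat 170, .negSucc 186, .ofNat 120, .ofNat 30⟩, ⟨.ofNat 153, .ofNat 463, .negSucc 427, .negSucc 619, .negSucc 944, .negSucc 398⟩, ⟨.negSucc 3057, .ofNat 125, .ofNat 45, .ofNat 1192, .ofNat 275, .ofNat 148⟩, ⟨.negSucc 878, .ofNat 51, .ofNat 230, .ofNat 1175, .ofNat 790, .ofNat 318⟩, .ofNat 3866, .ofNat 5488,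 .ofNat 0, .ofNat 5488, .ofNat 8573, .ofNat 0, .ofNat 128, .negSucc 879, .ofNat 413, .ofNat 0, .ofNat 617, .negSucc 297, .ofNat 0, .ofNat 0, .ofNat 3015, .ofNat 2438, .ofNat 0, .ofNat 14732553717408854511037273340999112246917878251520, .ofNat 208619877458255513674083486158222542887714816, .ofNat 0, .ofNat 0, .ofNat 0, .ofNat 83654599891763217555984243207746541926521765888, .ofNat 0, .ofNat 0, .ofNat 2046440164421069158682955460158711543953336400084992, .ofNat 82632879509308665908951161066560570187717804032, .ofNat 31076996971774787352170036639500348965176476653559218176, .ofNat 0, .ofNat 10324757735329038962573787505297737439042100076216320, .ofNat 260129823708389470791145582648356530507885838336, .ofNat 0⟩)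
    (by decide +kernel)
theorem L05755 : Good (Phi V5.P V5.D (-1) (-1)) ⟨5, 28, 4, 10, 3, 7, 3, 3, 6, 19⟩ :=
  leafX_sound T5.ok_mm T5.Ymm.bz_eq (w := 247) (c := ⟨⟨.negSucc 1801, .ofNat 244, .negSucc 230, .ofNat 207, .negSucc 234, .negSucc 68⟩, ⟨.ofNat 1142, .negSucc 130, .ofNat 213, .negSucc 118, .ofNat 162, .ofNat 48⟩, ⟨.negSucc 139, .ofNat 464, .negSucc 503, .negSucc 924, .negSucc 1128, .negSucc 505⟩, ⟨.negSucc 2896, .ofNat 157, .ofNat 8, .ofNat 915, .ofNat 212, .ofNat 93⟩, ⟨.negSucc 582, .negSucc 0, .ofNat 277, .ofNat 980, .ofNat 824, .ofNat 292⟩, .ofNat 2434, .ofNat 3324, .ofNat 0, .ofNat 3324, .ofNat 5293, .ofNat 0, .ofNat 128, .negSucc 665, .ofNat 304, .ofNat 0, .ofNat 480, .negSucc 221, .ofNat 0, .ofNat 0, .ofNat 2184, .ofNat 2604, .ofNat 0, .ofNat 44413533482129715240990749783342816211905084915712, .ofNat 613608591325084436038943471361605287958020096, .ofNat 0, .ofNat 0, .ofNat 261012524207005045937645127743558840374133247705088,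 .ofNat 45315865447976062096204197942706842125067091968, .ofNat 0, .ofNat 0, .ofNat 2674545590979279969354915360414805852616852181614592, .ofNat 30816804652156458896649650942976925973172191232, .ofNat 0, .ofNat 0, .ofNat 8979426390187183673510870593538507849118787141894144, .ofNat 125746459275003858901461210700427719101529456640, .ofNat 0⟩)
    (by decide +kernel)
theorem L05756 : Good (Phi V5.P V5.D (-1) (-1)) ⟨6, 56, 4, 11, 3, 7, 2, 1, 4, 4⟩ :=
  out_sound (S := T5.ds_mm) T5.ok_mm (w := 65) (j := 3) (by decide +kernel)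
theorem L05757 : Good (Phi V5.P V5.D (-1) (-1)) ⟨7, 114, 5, 22, 3, 7, 2, 1, 4, 4⟩ :=
  out_sound (S := T5.ds_mm) T5.ok_mm (w := 73) (j := 3) (by decide +kernel)
theorem L05758 : Good (Phi V5.P V5.D (-1) (-1)) ⟨7, 115, 5, 22, 3, 7, 2, 1, 4, 4⟩ :=
  out_sound (S := T5.ds_mm) T5.ok_mm (w := 21) (j := 4) (by decide +kernel)
theorem L05759 : Good (Phi V5.P V5.D (-1) (-1)) ⟨6, 57, 5, 23, 3, 7, 2, 1, 4, 4⟩ :=
  out_sound (S := T5.ds_mm) T5.ok_mm (w := 67) (j := 3) (by decide +kernel)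
theorem L05760 : Good (Phi V5.P V5.D (-1) (-1)) ⟨5, 29, 2, 2, 2, 3, 2, 1, 4, 4⟩ :=
  out_sound (S := T5.ds_mm) T5.ok_mm (w := 17) (j := 4) (by decide +kernel)
theorem L05761 : Good (Phi V5.P V5.D (-1) (-1)) ⟨4, 15, 2, 2, 2, 3, 2, 1, 4, 4⟩ :=
  out_sound (S := T5.ds_mm) T5.ok_mm (w := 49) (j := 3) (by decide +kernel)
theorem L05762 : Good (Phi V5.P V5.D (-1) (-1)) ⟨4, 12, 2, 2, 3, 6, 2, 1, 4, 5⟩ :=
  out_sound (S := T5.ds_mm) T5.ok_mm (w := 49) (j := 3) (by decide +kernel)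
theorem L05763 : Good (Phi V5.P V5.D (-1) (-1)) ⟨4, 13, 3, 4, 4, 12, 2, 1, 5, 10⟩ :=
  leafX_sound T5.ok_mm T5.Ymm.bz_eq (w := 244) (c := ⟨⟨.negSucc 1885, .negSucc 261, .ofNat 81, .ofNat 150, .ofNat 18, .ofNat 92⟩, ⟨.ofNat 1009, .ofNat 150, .ofNat 140, .negSucc 84, .ofNat 7, .negSucc 46⟩, ⟨.ofNat 1418, .negSucc 514, .ofNat 84, .negSucc 364, .negSucc 1259, .negSucc 419⟩, ⟨.negSucc 3588, .negSucc 56, .ofNat 21, .ofNat 255, .ofNat 393, .ofNat 239⟩, ⟨.negSucc 1197, .ofNat 206, .negSucc 78, .ofNat 59, .ofNat 622, .ofNat 185⟩, .ofNat 1547, .ofNat 2124, .ofNat 0, .ofNat 2124, .ofNat 3798, .ofNat 0, .ofNat 128, .negSucc 867, .ofNat 114, .ofNat 0, .ofNat 600, .negSucc 83, .ofNat 0, .ofNat 0, .ofNat 3150, .ofNat 4828, .ofNat 0, .ofNat 0, .ofNat 0, .ofNat 0, .ofNat 0, .ofNat 74549965407488768215619706138603186479182035025920, .ofNat 1131883960605502662538461079464151534936990416896, .ofNat 0, .ofNat 0, .ofNat 1983275751259184805849778122297088360664033835089920,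 .ofNat 2140497123653674689611712158878303898798030585856, .ofNat 0, .ofNat 0, .ofNat 7596709701081013712346782253214306835822602474225664, .ofNat 5958432734587754671280632734686327081465626492928, .ofNat 0⟩)
    (by decide +kernel)
theorem L05764 : Good (Phi V5.P V5.D (-1) (-1)) ⟨4, 13, 3, 4, 4, 13, 2, 1, 5, 10⟩ :=
  leafX_sound T5.ok_mm T5.Ymm.bz_eq (w := 243) (c := ⟨⟨.negSucc 1815, .negSucc 63, .negSucc 50, .ofNat 148, .negSucc 29, .ofNat 56⟩, ⟨.ofNat 978, .ofNat 24, .ofNat 219, .negSucc 80, .ofNat 36, .negSucc 26⟩, ⟨.ofNat 809, .ofNat 44, .negSucc 291, .negSucc 364, .negSucc 1370, .negSucc 502⟩, ⟨.negSucc 3403, .ofNat 63, .negSucc 45, .ofNat 346, .ofNat 426, .ofNat 215⟩, ⟨.negSucc 1095, .negSucc 26, .ofNat 132, .ofNat 222, .ofNat 784, .ofNat 224⟩, .ofNat 749, .ofNat 830, .ofNat 0, .ofNat 830, .ofNat 1635, .ofNat 0, .ofNat 128, .negSucc 709, .ofNat 125, .ofNat 0, .ofNat 588, .negSucc 105, .ofNat 0, .ofNat 0,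 .ofNat 2247, .ofNat 2598, .ofNat 0, .ofNat 12901293963932218931401986694034980988577808121856, .ofNat 1004901945963962818845415182531405063009599488, .ofNat 0, .ofNat 0, .ofNat 174309005755636241076522164044402297596289690370048, .ofNat 231643756315353925676401885105443968865238253568, .ofNat 0, .ofNat 0, .ofNat 2525635470656921067120461585622996467252409038536704, .ofNat 0, .ofNat 0, .ofNat 0, .ofNat 6006766070223911579978601387865603978502753629503488, .ofNat 21565005478376453711456524429746815692731056128, .ofNat 0⟩)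
    (by decide +kernel)
theorem L05765 : Good (Phi V5.P V5.D (-1) (-1)) ⟨4, 13, 3, 4, 3, 6, 3, 2, 5, 11⟩ :=
  leafX_sound T5.ok_mm T5.Ymm.bz_eq (w := 234) (c := ⟨⟨.negSucc 1808, .negSucc 145, .negSucc 3, .ofNat 188, .negSucc 18, .ofNat 56⟩, ⟨.ofNat 966, .ofNat 91, .ofNat 181, .negSucc 101, .ofNat 21, .negSucc 25⟩, ⟨.ofNat 1082, .negSucc 340, .negSucc 82, .negSucc 1061, .negSucc 767, .negSucc 514⟩, ⟨.negSucc 3331, .negSucc 2, .negSucc 39, .ofNat 421, .ofNat 153, .ofNat 194⟩, ⟨.negSucc 978, .ofNat 55, .ofNat 21, .ofNat 248, .ofNat 307, .ofNat 193⟩, .ofNat 749, .ofNat 829, .ofNat 0, .ofNat 829, .ofNat 1631, .ofNat 0, .ofNat 128, .negSucc 452, .ofNat 142, .ofNat 0, .ofNat 365, .negSucc 102, .ofNat 0, .ofNat 0, .ofNat 2476, .ofNat 5316, .ofNat 0, .ofNat 0, .ofNat 0, .ofNat 0, .ofNat 0, .ofNat 221764047990005710041259583973484641791464439808, .ofNat 35963766986500088921134828618948196987568128, .ofNat 0, .ofNat 0, .ofNat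 1758370355098677439512836603862283988904659910656, .ofNat 235518810933731799507940347838632986159349760, .ofNat 0, .ofNat 0, .ofNat 7093840430595709482055430645635963178426986135552, .ofNat 620907975476994904881600223528039705873481728, .ofNat 0⟩)
    (by decide +kernel)
theorem L05766 : Good (Phi V5.P V5.D (-1) (-1)) ⟨4, 13, 3, 4, 4, 12, 3, 3, 5, 11⟩ :=
  leafX_sound T5.ok_mm T5.Ymm.bz_eq (w := 247) (c := ⟨⟨.negSucc 1763, .negSucc 165, .negSucc 37, .ofNat 26, .negSucc 107, .negSucc 22⟩, ⟨.ofNat 933, .ofNat 133, .ofNat 182, .negSucc 8, .ofNat 76, .ofNat 22⟩, ⟨.ofNat 467, .negSucc 310, .negSucc 220, .negSucc 725, .negSucc 1021, .negSucc 806⟩, ⟨.negSucc 3146, .negSucc 4, .negSucc 43, .ofNat 174, .ofNat 147, .ofNat 147⟩, ⟨.negSucc 748, .ofNat 79, .ofNat 67, .ofNat 233, .ofNat 501, .ofNat 303⟩, .ofNat 752, .ofNat 834, .ofNat 0, .ofNat 834, .ofNat 1641, .ofNat 0, .ofNat 128, .negSucc 391, .ofNat 149, .ofNat 0, .ofNat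 309, .negSucc 107, .ofNat 0, .ofNat 0, .ofNat 1877, .ofNat 3893, .ofNat 0, .ofNat 168981218831420886602807733700551029837078300983296, .ofNat 0, .ofNat 0, .ofNat 0, .ofNat 1186693188878872123029191136854708154739264371818496, .ofNat 1745143102872519656849160854007505939681649885184, .ofNat 0, .ofNat 0, .ofNat 7966845108184622741587781623446781470887995724791808, .ofNat 6349340472226869185587771558627904579227030126592, .ofNat 0, .ofNat 0, .ofNat 28843572125172265571736336815073188248792932158537728, .ofNat 13347366751826265311863056382523693616309395783680, .ofNat 0⟩)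
    (by decide +kernel)
theorem L05767 : Good (Phi V5.P V5.D (-1) (-1)) ⟨4, 13, 3, 4, 4, 13, 3, 3, 5, 11⟩ :=
  out_sound (S := T5.ds_mm) T5.ok_mm (w := 38) (j := 2) (by decide +kernel)
theorem L05768 : Good (Phi V5.P V5.D (-1) (-1)) ⟨4, 13, 3, 5, 3, 6, 2, 1, 4, 5⟩ :=
  out_sound (S := T5.ds_mm) T5.ok_mm (w := 51) (j := 3) (by decide +kernel)
theorem L05769 : Good (Phi V5.P V5.D (-1) (-1)) ⟨4, 14, 2, 2, 3, 6, 3, 2, 5, 10⟩ :=
  leafX_sound T5.ok_mm T5.Ymm.bz_eq (w := 231) (c := ⟨⟨.negSucc 2112, .negSucc 497, .ofNat 257, .ofNat 252, .negSucc 33, .ofNat 52⟩, ⟨.ofNat 1149, .ofNat 290, .ofNat 237, .negSucc 162, .ofNat 23, .negSucc 33⟩, ⟨.ofNat 1151, .negSucc 760, .ofNat 23, .negSucc 891, .negSucc 729, .negSucc 523⟩, ⟨.negSucc 3689, .negSucc 42, .ofNat 54, .ofNat 602, .ofNat 200, .ofNat 221⟩, ⟨.negSucc 1291, .ofNat 266, .ofNat 146, .ofNat 384, .ofNat 376, .ofNat 228⟩, .ofNat 2280, .ofNat 2931, .ofNat 0, .ofNat 2931,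 .ofNat 4458, .ofNat 0, .ofNat 128, .negSucc 531, .ofNat 147, .ofNat 0, .ofNat 427, .negSucc 121, .ofNat 0, .ofNat 0, .ofNat 2454, .ofNat 2318, .ofNat 0, .ofNat 0, .ofNat 3251160660960191851106627284818555278721024, .ofNat 27103782265404251772416857031635739498509129220096, .ofNat 0, .ofNat 7409723894863898147410036313982197230884356096, .ofNat 487534608485587324140369339420035187329728512, .ofNat 0, .ofNat 0, .ofNat 0, .ofNat 251041073744483457523139419794550242282569728, .ofNat 3943591795594452436079069765859986418787507299680256, .ofNat 0, .ofNat 396920219067188593633679742713762904499189448704, .ofNat 703307820823779660825691381193099527338328064, .ofNat 6344266721754969496432816110660146241470267907899392⟩)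
    (by decide +kernel)
theorem L05770 : Good (Phi V5.P V5.D (-1) (-1)) ⟨6, 56, 2, 2, 4, 12, 3, 3, 5, 10⟩ :=
  leafX_sound T5.ok_mm T5.Ymm.bz_eq (w := 251) (c := ⟨⟨.negSucc 1901, .negSucc 50, .negSucc 107, .ofNat 30, .negSucc 112, .negSucc 22⟩, ⟨.ofNat 1050, .ofNat 44, .ofNat 378, .negSucc 15, .ofNat 77, .ofNat 18⟩, ⟨.ofNat 842, .negSucc 100, .negSucc 413, .negSucc 676, .negSucc 901, .negSucc 782⟩, ⟨.negSucc 3369, .ofNat 9, .negSucc 123, .ofNat 243, .ofNat 201, .ofNat 193⟩, ⟨.negSucc 1054, .ofNat 54, .ofNat 117, .ofNat 318, .ofNat 571, .ofNat 362⟩, .ofNat 385, .ofNat 289, .ofNat 0, .ofNat 289, .ofNat 642, .ofNat 0, .ofNat 128, .negSucc 368, .ofNat 170, .ofNat 0, .ofNat 383, .negSucc 177, .ofNat 0, .ofNat 0, .ofNat 1917, .ofNat 1796, .ofNat 0, .ofNat 1078969133008573933548205917686501480520135158530048, .ofNat 9007626089846975361783368938691721269071577088, .ofNat 0, .ofNat 0, .ofNat 0, .ofNat 0, .ofNat 0, .ofNat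 0, .ofNat 51567169792090417498528394269019369481251038104125440, .ofNat 156520242892422545055472634241883003155893977088, .ofNat 0, .ofNat 0, .ofNat 396768338804443212716079021119740470393702938308509696, .ofNat 1292852554668832304170880248853125068331316936704, .ofNat 0⟩)
    (by decide +kernel)
theorem L05771 : Good (Phi V5.P V5.D (-1) (-1)) ⟨6, 57, 2, 2, 4, 12, 3, 3, 5, 10⟩ :=
  leafX_sound T5.ok_mm T5.Ymm.bz_eq (w := 251) (c := ⟨⟨.negSucc 1921, .negSucc 43, .negSucc 144, .ofNat 31, .negSucc 139, .negSucc 18⟩, ⟨.ofNat 1247, .ofNat 103, .ofNat 134, .negSucc 20, .ofNat 93, .ofNat 12⟩, ⟨.ofNat 639, .negSucc 137, .negSucc 231, .negSucc 667, .negSucc 960, .negSucc 775⟩, ⟨.negSucc 3440, .ofNat 25, .negSucc 29, .ofNat 269, .ofNat 208, .ofNat 200⟩, ⟨.negSucc 1034, .ofNat 132, .ofNat 112, .ofNat 351, .ofNat 618, .ofNat 350⟩, .ofNat 395, .ofNat 304, .ofNat 0, .ofNat 304, .ofNat 647, .ofNat 0, .ofNat 128, .negSucc 382,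 .ofNat 180, .ofNat 0, .ofNat 395, .negSucc 186, .ofNat 0, .ofNat 0, .ofNat 1891, .ofNat 1654, .ofNat 0, .ofNat 1070695291896877800078118115325502744996370083479552, .ofNat 8250458196326338847475173289489919045755994112, .ofNat 29717997653431800984614519188354104872724838698111205376, .ofNat 0, .ofNat 4922937973642773869367064061896012945139215351414784, .ofNat 39712724465984942006923443362146263516267413504, .ofNat 82466957895497503584214280592736060524795849931571068928, .ofNat 0, .ofNat 54755763036082155619151504158404336896950065615077376, .ofNat 180162788907754013688237142826127210049118928896, .ofNat 817512719910080421579564601521904289982185558799141568512, .ofNat 0, .ofNat 444801061283377196815486611594097802761216275796459520, .ofNat 665192701128163952017574140217510698596618469376, .ofNat 2655225996806300123852014321953410633651795150918249349120⟩)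
    (by decide +kernel)
theorem L05772 : Good (Phi V5.P V5.D (-1) (-1)) ⟨5, 28, 2, 2, 4, 13, 4, 6, 5, 10⟩ :=
  leafX_sound T5.ok_mm T5.Ymm.bz_eq (w := 252) (c := ⟨⟨.negSucc 1549, .ofNat 146, .negSucc 698, .ofNat 25, .negSucc 97, .negSucc 119⟩, ⟨.ofNat 843, .negSucc 60, .ofNat 719, .negSucc 12, .ofNat 66, .ofNat 82⟩, ⟨.ofNat 853, .ofNat 267, .negSucc 1604, .negSucc 707, .negSucc 549, .negSucc 1010⟩, ⟨.negSucc 3108, .ofNat 109, .negSucc 189, .ofNat 402, .ofNat 107, .ofNat 178⟩, ⟨.negSucc 1040, .ofNat 84, .ofNat 431, .ofNat 557, .ofNat 370, .ofNat 525⟩, .ofNat 882, .ofNat 996, .ofNat 0, .ofNat 996, .ofNat 1758, .ofNat 0, .ofNat 128, .negSucc 345, .ofNat 173, .ofNat 0, .ofNat 283, .negSucc 139, .ofNat 0, .ofNat 0, .ofNat 1472, .ofNat 1919, .ofNat 0, .ofNat 824036383775392179051956620783718813121076264960000, .ofNat 297807007494369405477642777127854499222463184896, .ofNat 0, .ofNat 0, .ofNat 1122255306207455170630110084079609606829663225643008,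 .ofNat 7883441276827527685062559243238905193228673220608, .ofNat 0, .ofNat 0, .ofNat 19470320274285451786565072816332411075120832811368448, .ofNat 18093157352859435461370778082953580773168767827968, .ofNat 0, .ofNat 0, .ofNat 101223467364205031928169720253356334002283656257732608, .ofNat 24833603899354886508571284937600145466662919864320, .ofNat 0⟩)
    (by decide +kernel)
theorem L05773 : Good (Phi V5.P V5.D (-1) (-1)) ⟨5, 28, 2, 2, 4, 13, 4, 7, 6, 20⟩ :=
  leafX_sound T5.ok_mm T5.Ymm.bz_eq (w := 257) (c := ⟨⟨.negSucc 1878, .negSucc 232, .ofNat 18, .negSucc 46, .negSucc 162, .negSucc 110⟩, ⟨.ofNat 1063, .ofNat 193, .ofNat 240, .ofNat 36, .ofNat 110, .ofNat 75⟩, ⟨.negSucc 121, .negSucc 491, .negSucc 184, .negSucc 882, .negSucc 702, .negSucc 659⟩, ⟨.negSucc 3067, .negSucc 1, .ofNat 26, .ofNat 362, .ofNat 88, .ofNat 68⟩, ⟨.negSucc 631, .ofNat 289, .ofNat 126, .ofNat 663, .ofNat 491, .ofNat 348⟩, .ofNat 887, .ofNat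 1003, .ofNat 0, .ofNat 1003, .ofNat 1765, .ofNat 0, .ofNat 128, .negSucc 437, .ofNat 264, .ofNat 0, .ofNat 353, .negSucc 208, .ofNat 0, .ofNat 0, .ofNat 1813, .ofNat 2800, .ofNat 0, .ofNat 15683560180217628764724507221410694450679066822443008, .ofNat 8953732103359287045241023997475982852384375177216, .ofNat 0, .ofNat 0, .ofNat 0, .ofNat 256247539606881861434329309985330787452810218700800, .ofNat 0, .ofNat 0, .ofNat 408669818768396048133196402084759686849283424008536064, .ofNat 466722881084557833222243880166769666089507058876416, .ofNat 0, .ofNat 0, .ofNat 1825050975039041388688285798236535450115813048594726912, .ofNat 938411548396430749684178028810714465015906483306496, .ofNat 0⟩)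
    (by decide +kernel)
theorem L05774 : Good (Phi V5.P V5.D (-1) (-1)) ⟨5, 28, 2, 2, 4, 13, 4, 7, 6, 21⟩ :=
  leafX_sound T5.ok_mm T5.Ymm.bz_eq (w := 259) (c := ⟨⟨.negSucc 1832, .negSucc 76, .negSucc 345, .negSucc 126, .negSucc 195, .negSucc 117⟩, ⟨.ofNat 1024, .ofNat 80, .ofNat 507, .ofNat 90, .ofNat 133, .ofNat 80⟩, ⟨.negSucc 444, .negSucc 221, .negSucc 921, .negSucc 1115, .negSucc 829, .negSucc 689⟩, ⟨.negSucc 2949, .ofNat 15, .negSucc 59, .ofNat 269, .ofNat 63, .ofNat 39⟩, ⟨.negSucc 450, .ofNat 84, .ofNat 547, .ofNat 699, .ofNat 519, .ofNat 329⟩, .ofNat 387, .ofNat 292, .ofNat 0, .ofNat 292, .ofNat 645, .ofNat 0, .ofNat 128, .negSucc 364, .ofNat 261, .ofNat 0, .ofNat 392, .negSucc 259, .ofNat 0, .ofNat 0, .ofNat 1848, .ofNat 11395, .ofNat 0, .ofNat 117022144586789508899444461360443008118499304485683200, .ofNat 0, .ofNat 0, .ofNat 0, .ofNat 204138516793505513442437454240794385385695068916023296, .ofNat 75731878760562840765832939785701802737832325808128,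 .ofNat 0, .ofNat 0, .ofNat 2528994934617013733454540195552125066271929146749747200, .ofNat 0, .ofNat 0, .ofNat 0, .ofNat 8989273971900164987775557695902768702999267489408352256, .ofNat 1331397862078033952163997953234852394645521478713344, .ofNat 245404889766056506942570075777641435254936116073232190144512⟩)
    (by decide +kernel)
theorem L05775 : Good (Phi V5.P V5.D (-1) (-1)) ⟨5, 29, 2, 2, 3, 6, 3, 3, 5, 10⟩ :=
  out_sound (S := T5.ds_mm) T5.ok_mm (w := 17) (j := 4) (by decide +kernel)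
theorem L05776 : Good (Phi V5.P V5.D (-1) (-1)) ⟨5, 28, 2, 2, 4, 12, 3, 2, 5, 11⟩ :=
  leafX_sound T5.ok_mm T5.Ymm.bz_eq (w := 249) (c := ⟨⟨.negSucc 1804, .ofNat 31, .negSucc 295, .ofNat 56, .negSucc 65, .ofNat 21⟩, ⟨.ofNat 972, .negSucc 13, .ofNat 538, .negSucc 34, .ofNat 45, .negSucc 11⟩, ⟨.ofNat 1027, .negSucc 67, .negSucc 585, .negSucc 667, .negSucc 892, .negSucc 664⟩, ⟨.negSucc 3314, .ofNat 33, .negSucc 152, .ofNat 221, .ofNat 159, .ofNat 191⟩, ⟨.negSucc 1093, .negSucc 41, .ofNat 282, .ofNat 215, .ofNat 388, .ofNat 250⟩, .ofNat 820, .ofNat 889, .ofNat 0, .ofNat 889, .ofNat 1567, .ofNat 0, .ofNat 128, .negSucc 653, .ofNat 307, .ofNat 0, .ofNat 552, .negSucc 237, .ofNat 0, .ofNat 0, .ofNat 3408, .ofNat 8577, .ofNat 0, .ofNat 0, .ofNat 0, .ofNat 0, .ofNat 0, .ofNat 745159977903819153815098954375562818600128764444672, .ofNat 1059387620498083460433222293229231254183702691840, .ofNat 0, .ofNat 0, .ofNat 16038098295436019849936559842454760669763488463192064,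 .ofNat 3127637478497393689707445498386999515497818488832, .ofNat 0, .ofNat 0, .ofNat 120183784818584942652659212443673091217842891988664320, .ofNat 3158718070100784057159449072300724281489999527936, .ofNat 0⟩)
    (by decide +kernel)
theorem L05777 : Good (Phi V5.P V5.D (-1) (-1)) ⟨5, 28, 2, 2, 4, 13, 3, 2, 5, 11⟩ :=
  leafX_sound T5.ok_mm T5.Ymm.bz_eq (w := 249) (c := ⟨⟨.negSucc 1722, .negSucc 3, .negSucc 257, .ofNat 59, .negSucc 105, .negSucc 48⟩, ⟨.ofNat 926, .ofNat 8, .ofNat 503, .negSucc 34, .ofNat 72, .ofNat 36⟩, ⟨.ofNat 532, .negSucc 108, .negSucc 685, .negSucc 661, .negSucc 1010, .negSucc 885⟩, ⟨.negSucc 3100, .ofNat 38, .negSucc 108, .ofNat 297, .ofNat 160, .ofNat 161⟩, ⟨.negSucc 917, .ofNat 69, .ofNat 211, .ofNat 325, .ofNat 468, .ofNat 346⟩, .ofNat 884, .ofNat 999, .ofNat 0, .ofNat 999, .ofNat 1761, .ofNat 0, .ofNat 128, .negSucc 429, .ofNat 174, .ofNat 0, .ofNat 357, .negSucc 135, .ofNat 0, .ofNat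 0, .ofNat 2020, .ofNat 8872, .ofNat 0, .ofNat 708294970999373917356673220418365034230054266077184, .ofNat 0, .ofNat 0, .ofNat 0, .ofNat 3343812223311855969173729841604529194008534795157504, .ofNat 770524696199492296780287951681191731245621444608, .ofNat 0, .ofNat 0, .ofNat 30143695073041921551914627778895449870400738092384256, .ofNat 1090333819183707366155689550063742158018864742400, .ofNat 0, .ofNat 0, .ofNat 111077007461459227210995899641116999965560356581933056, .ofNat 1406141769719849940857917007321964720842292068352, .ofNat 0⟩)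
    (by decide +kernel)
theorem L05778 : Good (Phi V5.P V5.D (-1) (-1)) ⟨5, 29, 2, 2, 3, 6, 3, 2, 5, 11⟩ :=
  out_sound (S := T5.ds_mm) T5.ok_mm (w := 17) (j := 4) (by decide +kernel)
theorem L05779 : Good (Phi V5.P V5.D (-1) (-1)) ⟨5, 28, 2, 2, 4, 12, 4, 6, 5, 11⟩ :=
  leafX_sound T5.ok_mm T5.Ymm.bz_eq (w := 253) (c := ⟨⟨.negSucc 1858, .negSucc 126, .negSucc 110, .negSucc 52, .negSucc 98, .negSucc 97⟩, ⟨.ofNat 1030, .ofNat 110, .ofNat 367, .ofNat 37, .ofNat 67, .ofNat 67⟩, ⟨.ofNat 358, .negSucc 334, .negSucc 466, .negSucc 986, .negSucc 639, .negSucc 1095⟩, ⟨.negSucc 3148, .negSucc 15, .negSucc 86, .ofNat 187, .ofNat 66, .ofNat 127⟩, ⟨.negSucc 762, .ofNat 121, .ofNat 122, .ofNat 400, .ofNat 318, .ofNat 406⟩, .ofNat 882, .ofNat 996, .ofNat 0, .ofNat 996, .ofNat 1758, .ofNat 0, .ofNat 128, .negSucc 691, .ofNat 375, .ofNat 0, .ofNat 551, .negSucc 281, .ofNat 0, .ofNat 0, .ofNat 3516, .ofNat 6543, .ofNat 0, .ofNat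 3244401978173156495834417233078996629566644119666688, .ofNat 389925159980692941574040814134971107661609697280, .ofNat 0, .ofNat 0, .ofNat 11288094759128651439967487624557536355399063081844736, .ofNat 18273032909642920279199140513080284654972344205312, .ofNat 0, .ofNat 0, .ofNat 149934728027076051988378638717204292899738504197570560, .ofNat 15744224835835000478600128826134141291514732478464, .ofNat 0, .ofNat 0, .ofNat 778455995639712057554423410371834129485639621869043712, .ofNat 37121780187905815011296065377771435350328233426944, .ofNat 0⟩)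
    (by decide +kernel)
theorem L05780 : Good (Phi V5.P V5.D (-1) (-1)) ⟨5, 29, 2, 2, 4, 12, 4, 6, 5, 11⟩ :=
  out_sound (S := T5.ds_mm) T5.ok_mm (w := 17) (j := 4) (by decide +kernel)
theorem L05781 : Good (Phi V5.P V5.D (-1) (-1)) ⟨4, 14, 2, 2, 4, 12, 4, 7, 6, 22⟩ :=
  leafX_sound T5.ok_mm T5.Ymm.bz_eq (w := 254) (c := ⟨⟨.negSucc 1922, .negSucc 367, .negSucc 76, .negSucc 172, .negSucc 157, .negSucc 98⟩, ⟨.ofNat 1082, .ofNat 318, .ofNat 323, .ofNat 118, .ofNat 106, .ofNat 67⟩, ⟨.negSucc 132, .negSucc 814, .negSucc 499, .negSucc 1324, .negSucc 805, .negSucc 722⟩, ⟨.negSucc 3071, .negSucc 69, .negSucc 59, .ofNat 115, .ofNat 49, .ofNat 37⟩, ⟨.negSucc 543, .ofNat 255, .ofNat 216, .ofNat 547, .ofNat 416, .ofNat 270⟩, .ofNat 879, .ofNat 992, .ofNat 0, .ofNat 992, .ofNat 1753, .ofNat 0, .ofNat 128, .negSucc 754, .ofNat 434, .ofNat 0, .ofNat 595, .negSucc 322, .ofNat 0, .ofNat 0, .ofNat 3519, .ofNat 6696, .ofNat 0, .ofNat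 3884769497343821832062559444116126493176858532642816, .ofNat 78523287626887599672235150895728454989402158923776, .ofNat 0, .ofNat 0, .ofNat 7901418190822918482295877972876725092712020130660352, .ofNat 1559894919547778255090689843332193279546519267049472, .ofNat 0, .ofNat 0, .ofNat 158455742455895106950200218148830476674762522063011840, .ofNat 3243199408501076709163229292845036359270907770830848, .ofNat 36397843909993295299306678547536689050281268101002450436096, .ofNat 0, .ofNat 593098737499317386903886415553655697759098345017573376, .ofNat 9634262253288981355483111523835187843420364445057024, .ofNat 27765965291806057729715471786416433450441652103847291650048⟩)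
    (by decide +kernel)
theorem L05782 : Good (Phi V5.P V5.D (-1) (-1)) ⟨4, 14, 2, 2, 4, 12, 4, 7, 6, 23⟩ :=
  out_sound (S := T5.ds_mm) T5.ok_mm (w := 42) (j := 2) (by decide +kernel)
theorem L05783 : Good (Phi V5.P V5.D (-1) (-1)) ⟨4, 14, 2, 2, 4, 13, 3, 3, 5, 11⟩ :=
  out_sound (S := T5.ds_mm) T5.ok_mm (w := 38) (j := 2) (by decide +kernel)
theorem L05784 : Good (Phi V5.P V5.D (-1) (-1)) ⟨4, 15, 2, 2, 3, 6, 2, 1, 4, 5⟩ :=
  out_sound (S := T5.ds_mm) T5.ok_mm (w := 49) (j := 3) (by decide +kernel)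
theorem L05785 : Good (Phi V5.P V5.D (-1) (-1)) ⟨2, 3, 2, 2, 4, 14, 3, 2, 4, 5⟩ :=
  leafX_sound T5.ok_mm T5.Ymm.bz_eq (w := 230) (c := ⟨⟨.negSucc 1526, .negSucc 411, .negSucc 37, .ofNat 135, .negSucc 43, .ofNat 20⟩, ⟨.ofNat 823, .ofNat 211, .ofNat 365, .negSucc 71, .ofNat 36, .ofNat 9⟩, ⟨.ofNat 811, .negSucc 722, .negSucc 337, .negSucc 347, .negSucc 780, .negSucc 1204⟩, ⟨.negSucc 3114, .ofNat 155, .ofNat 113, .ofNat 462, .ofNat 222, .ofNat 351⟩, ⟨.negSucc 1057, .ofNat 219, .ofNat 380, .ofNat 441, .ofNat 463, .ofNat 536⟩, .ofNat 804, .ofNat 899, .ofNat 0, .ofNat 899, .ofNat 1682, .ofNat 0, .ofNat 128, .negSucc 329, .ofNat 88, .ofNat 0, .ofNat 287, .negSucc 81, .ofNat 0, .ofNat 0, .ofNat 1158, .ofNat 1702, .ofNat 0, .ofNat 5908114498630053099257799359748737898473586688, .ofNat 4233881929508277648591652113917909823110774784, .ofNat 44198190492286398555101785553567520654710548725760, .ofNat 0, .ofNat 37193504663094506356377158723334870266235846656,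 .ofNat 221006848039670037275325465642538003662272200704, .ofNat 8482124730898157692335793787676540833013067532992512, .ofNat 0, .ofNat 232678861435376489791976720339679363617335017472, .ofNat 506860096274013588024517075134025788724244119552, .ofNat 37494742256351076317887016437245992216242881220837376, .ofNat 0, .ofNat 642498885396301515745085779603863313792196673536, .ofNat 299651453763971496609247675194016179300304158720, .ofNat 9031569099230339603373199925552212899768354048311296⟩)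
    (by decide +kernel)
theorem L05786 : Good (Phi V5.P V5.D (-1) (-1)) ⟨2, 3, 2, 2, 4, 14, 3, 3, 4, 5⟩ :=
  leafX_sound T5.ok_mm T5.Ymm.bz_eq (w := 231) (c := ⟨⟨.negSucc 1593, .negSucc 231, .negSucc 234, .ofNat 79, .negSucc 188, .ofNat 1⟩, ⟨.ofNat 819, .ofNat 250, .ofNat 443, .negSucc 42, .ofNat 129, .negSucc 0⟩, ⟨.negSucc 3, .negSucc 334, .negSucc 775, .negSucc 542, .negSucc 1091, .ofNat 1⟩, ⟨.negSucc 2885, .ofNat 147, .ofNat 112, .ofNat 482, .ofNat 227, .ofNat 1⟩, ⟨.negSucc 557, .negSucc 35, .ofNat 668, .ofNat 596, .ofNat 779, .ofNat 0⟩, .ofNat 374, .ofNat 274, .ofNat 0, .ofNat 274, .ofNat 643, .ofNat 0, .ofNat 128, .negSucc 215, .ofNat 141, .ofNat 0, .ofNat 256, .negSucc 167, .ofNat 0, .ofNat 0, .ofNat 1222, .ofNat 2887, .ofNat 0, .ofNat 20110715461918385304745014429593043359168987136, .ofNat 4619426105346016984440884358344642188994936832, .ofNat 0, .ofNat 0, .ofNat 69997490673136583200354506511019503434497785856,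 .ofNat 47322132652232740607923434784894767433116549120, .ofNat 7239502329885845619100003324573523377467428106665984, .ofNat 0, .ofNat 469347482136583794335130086895433536615124828160, .ofNat 208750646715135275576398386293222831375932981248, .ofNat 23459945077745699266812351596485093866381668377427968, .ofNat 0, .ofNat 1862854455531366911336200610045107689205671133184, .ofNat 379908499689896201146227317230244071397654528000, .ofNat 41402881318817166494781090265885142319799657329328128⟩)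
    (by decide +kernel)
theorem L05787 : Good (Phi V5.P V5.D (-1) (-1)) ⟨2, 3, 2, 2, 4, 15, 2, 1, 4, 5⟩ :=
  out_sound (S := T5.ds_mm) T5.ok_mm (w := 34) (j := 2) (by decide +kernel)
theorem L05788 : Good (Phi V5.P V5.D (-1) (-1)) ⟨3, 6, 2, 3, 2, 3, 2, 1, 3, 2⟩ :=
  out_sound (S := T5.ds_mm) T5.ok_mm (w := 43) (j := 3) (by decide +kernel)
theorem L05789 : Good (Phi V5.P V5.D (-1) (-1)) ⟨5, 28, 3, 6, 2, 3, 2, 1, 3, 2⟩ :=
  out_sound (S := T5.ds_mm) T5.ok_mm (w := 57) (j := 3) (by decide +kernel)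
theorem L05790 : Good (Phi V5.P V5.D (-1) (-1)) ⟨5, 29, 3, 6, 2, 3, 2, 1, 3, 2⟩ :=
  out_sound (S := T5.ds_mm) T5.ok_mm (w := 17) (j := 4) (by decide +kernel)
theorem L05791 : Good (Phi V5.P V5.D (-1) (-1)) ⟨4, 14, 3, 7, 2, 3, 2, 1, 3, 2⟩ :=
  out_sound (S := T5.ds_mm) T5.ok_mm (w := 51) (j := 3) (by decide +kernel)
theorem L05792 : Good (Phi V5.P V5.D (-1) (-1)) ⟨4, 15, 2, 3, 2, 3, 2, 1, 3, 2⟩ :=
  out_sound (S := T5.ds_mm) T5.ok_mm (w := 15) (j := 4) (by decide +kernel)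
theorem L05793 : Good (Phi V5.P V5.D (-1) (-1)) ⟨2, 2, 1, 1, 2, 3, 2, 1, 4, 6⟩ :=
  out_sound (S := T5.ds_mm) T5.ok_mm (w := 35) (j := 3) (by decide +kernel)
theorem L05794 : Good (Phi V5.P V5.D (-1) (-1)) ⟨2, 3, 2, 2, 3, 6, 3, 2, 5, 12⟩ :=
  leafX_sound T5.ok_mm T5.Ymm.bz_eq (w := 223) (c := ⟨⟨.negSucc 1639, .negSucc 427, .negSucc 120, .ofNat 59, .negSucc 86, .ofNat 32⟩, ⟨.ofNat 860, .ofNat 291, .ofNat 425, .negSucc 20, .ofNat 61, .negSucc 13⟩, ⟨.ofNat 681, .negSucc 430, .negSucc 770, .negSucc 1494, .negSucc 1051, .negSucc 640⟩, ⟨.negSucc 3144, .ofNat 57, .negSucc 132, .ofNat 295, .ofNat 119, .ofNat 150⟩, ⟨.negSucc 798, .ofNat 45, .ofNat 154, .ofNat 315, .ofNat 376, .ofNat 179⟩, .ofNat 373, .ofNat 272, .ofNat 0, .ofNat 272, .ofNat 643, .ofNat 0, .ofNat 128, .negSucc 473, .ofNat 184, .ofNat 0, .ofNat 525, .negSucc 150, .ofNat 0, .ofNat 0, .ofNat 2571, .ofNat 9830, .ofNat 0, .ofNat 76740444007455859308700960616123012726390784,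 .ofNat 9577355793474505248822948595006907156004864, .ofNat 1174223384192638424517837152533023106934266396672, .ofNat 0, .ofNat 357411731220970809812817087392752031533891584, .ofNat 277573572386981154341994128684299459571482624, .ofNat 6359453766788160751317408440134681784114103713792, .ofNat 0, .ofNat 4258369517162980798118698457850412341240266752, .ofNat 2086364487854437174564221059413761823105613824, .ofNat 164104514523492952310708807890340840964612687921152, .ofNat 0, .ofNat 13050385865990991984116168234828079712438321152, .ofNat 569204147591691292767153034845616676049780736, .ofNat 0⟩)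
    (by decide +kernel)
theorem L05795 : Good (Phi V5.P V5.D (-1) (-1)) ⟨2, 3, 2, 2, 3, 6, 3, 2, 5, 13⟩ :=
  out_sound (S := T5.ds_mm) T5.ok_mm (w := 36) (j := 2) (by decide +kernel)
theorem L05796 : Good (Phi V5.P V5.D (-1) (-1)) ⟨3, 6, 2, 3, 3, 6, 3, 2, 4, 6⟩ :=
  out_sound (S := T5.ds_mm) T5.ok_mm (w := 43) (j := 3) (by decide +kernel)
theorem L05797 : Good (Phi V5.P V5.D (-1) (-1)) ⟨5, 28, 3, 6, 3, 6, 3, 2, 4, 6⟩ :=
  out_sound (S := T5.ds_mm) T5.ok_mm (w := 57) (j := 3) (by decide +kernel)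
theorem L05798 : Good (Phi V5.P V5.D (-1) (-1)) ⟨5, 29, 3, 6, 3, 6, 3, 2, 4, 6⟩ :=
  out_sound (S := T5.ds_mm) T5.ok_mm (w := 17) (j := 4) (by decide +kernel)
theorem L05799 : Good (Phi V5.P V5.D (-1) (-1)) ⟨4, 14, 3, 7, 3, 6, 3, 2, 4, 6⟩ :=
  out_sound (S := T5.ds_mm) T5.ok_mm (w := 51) (j := 3) (by decide +kernel)
theorem L05800 : Good (Phi V5.P V5.D (-1) (-1)) ⟨4, 15, 2, 3, 3, 6, 3, 2, 4, 6⟩ :=
  out_sound (S := T5.ds_mm) T5.ok_mm (w := 15) (j := 4) (by decide +kernel)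
theorem L05801 : Good (Phi V5.P V5.D (-1) (-1)) ⟨2, 3, 1, 1, 3, 6, 3, 3, 4, 6⟩ :=
  out_sound (S := T5.ds_mm) T5.ok_mm (w := 34) (j := 2) (by decide +kernel)
theorem L05802 : Good (Phi V5.P V5.D (-1) (-1)) ⟨2, 3, 1, 1, 3, 7, 2, 1, 4, 6⟩ :=
  out_sound (S := T5.ds_mm) T5.ok_mm (w := 32) (j := 2) (by decide +kernel)
theorem L05803 : Good (Phi V5.P V5.D (-1) (-1)) ⟨1, 1, 1, 1, 2, 3, 2, 1, 4, 7⟩ :=
  out_sound (S := T5.ds_mm) T5.ok_mm (w := 30) (j := 2) (by decide +kernel)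
theorem L05804 : Good (Phi V5.P V5.D (-1) (-1)) ⟨1, 1, 1, 1, 3, 4, 1, 0, 3, 4⟩ :=
  out_sound (S := T5.ds_mm) T5.ok_mm (w := 23) (j := 1) (by decide +kernel)
theorem L05805 : Good (Phi V5.P V5.D (-1) (-1)) ⟨1, 1, 1, 1, 3, 5, 1, 0, 3, 4⟩ :=
  out_sound (S := T5.ds_mm) T5.ok_mm (w := 28) (j := 2) (by decide +kernel)
theorem L05806 : Good (Phi V5.P V5.D (-1) (-1)) ⟨1, 1, 1, 1, 2, 2, 1, 0, 3, 5⟩ :=
  out_sound (S := T5.ds_mm) T5.ok_mm (w := 21) (j := 1) (by decide +kernel)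
theorem L05807 : Good (Phi V5.P V5.D (-1) (-1)) ⟨1, 1, 1, 1, 2, 2, 1, 0, 2, 3⟩ :=
  out_sound (S := T5.ds_mm) T5.ok_mm (w := 19) (j := 1) (by decide +kernel)
theorem L05808 : Good (Phi V5.P V5.D (-1) (-1)) ⟨1, 1, 1, 1, 2, 3, 1, 0, 1, 1⟩ :=
  out_sound (S := T5.ds_mm) T5.ok_mm (w := 22) (j := 2) (by decide +kernel)
theorem L05809 : Good (Phi V5.P V5.D (-1) (-1)) ⟨2, 2, 3, 4, 2, 2, 2, 2, 3, 0⟩ :=
  out_sound (S := T5.ds_mm) T5.ok_mm (w := 39) (j := 3) (by decide +kernel)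
theorem L05810 : Good (Phi V5.P V5.D (-1) (-1)) ⟨4, 12, 3, 4, 3, 4, 2, 2, 4, 0⟩ :=
  out_sound (S := T5.ds_mm) T5.ok_mm (w := 51) (j := 3) (by decide +kernel)
theorem L05811 : Good (Phi V5.P V5.D (-1) (-1)) ⟨4, 13, 3, 4, 3, 4, 2, 2, 4, 0⟩ :=
  leafX_sound T5.ok_mm T5.Ymm.bz_eq (w := 225) (c := ⟨⟨.ofNat 3308, .ofNat 629, .negSucc 36, .ofNat 1038, .negSucc 2256, .negSucc 4830⟩, ⟨.negSucc 1985, .negSucc 413, .ofNat 61, .negSucc 649, .ofNat 1363, .ofNat 2888⟩, ⟨.negSucc 3098, .negSucc 320, .negSucc 32, .negSucc 584, .ofNat 1667, .ofNat 3857⟩, ⟨.ofNat 4316, .ofNat 724, .negSucc 71, .ofNat 1424, .negSucc 3099, .negSucc 7250⟩, ⟨.negSucc 1043, .negSucc 33, .negSucc 39, .negSucc 143, .ofNat 306, .negSucc 382⟩, .ofNat 1106, .ofNat 1400, .ofNat 0, .ofNat 1400, .ofNat 2582, .ofNat 0, .ofNat 128, .negSucc 325, .negSucc 849, .ofNat 0, .ofNat 215, .ofNat 488, .ofNat 0, .ofNat 0, .ofNat 842, .ofNat 541, .ofNat 0, .ofNat 0, .ofNat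 0, .ofNat 0, .ofNat 0, .ofNat 0, .ofNat 143825297774406644318365506059878946308096, .ofNat 0, .ofNat 0, .ofNat 0, .ofNat 403420214987507043394454171317184120225792, .ofNat 0, .ofNat 0, .ofNat 0, .ofNat 0, .ofNat 0⟩)
    (by decide +kernel)
theorem L05812 : Good (Phi V5.P V5.D (-1) (-1)) ⟨5, 28, 3, 4, 3, 4, 2, 2, 4, 0⟩ :=
  leafX_sound T5.ok_mm T5.Ymm.bz_eq (w := 229) (c := ⟨⟨.ofNat 1758, .negSucc 2079, .ofNat 3358, .ofNat 526, .negSucc 2510, .negSucc 5535⟩, ⟨.negSucc 1245, .ofNat 1118, .negSucc 1974, .negSucc 344, .ofNat 1597, .ofNat 3515⟩, ⟨.negSucc 1570, .ofNat 1666, .negSucc 2800, .negSucc 183, .ofNat 1816, .ofNat 4376⟩, ⟨.ofNat 1989, .negSucc 2798, .ofNat 4317, .ofNat 900, .negSucc 3313, .negSucc 7905⟩, ⟨.negSucc 956, .ofNat 598, .negSucc 575, .ofNat 48, .ofNat 425, .ofNat 47⟩, .ofNat 682, .ofNat 676, .ofNat 0, .ofNat 676, .ofNat 1249, .ofNat 0, .ofNat 128, .negSucc 344, .negSucc 1603, .ofNat 0, .ofNat 265,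 .ofNat 957, .ofNat 0, .ofNat 0, .ofNat 1471, .ofNat 647, .ofNat 0, .ofNat 0, .ofNat 3929313010167783238789130341454937325568, .ofNat 0, .ofNat 0, .ofNat 0, .ofNat 115316661959263472875904757388680766685184, .ofNat 0, .ofNat 0, .ofNat 0, .ofNat 527682899255066835579514997309168813080576, .ofNat 0, .ofNat 0, .ofNat 0, .ofNat 456618130163367650560483084222238740709376, .ofNat 0⟩)
    (by decide +kernel)
theorem L05813 : Good (Phi V5.P V5.D (-1) (-1)) ⟨5, 29, 3, 4, 3, 4, 2, 2, 4, 0⟩ :=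
  out_sound (S := T5.ds_mm) T5.ok_mm (w := 57) (j := 3) (by decide +kernel)
theorem L05814 : Good (Phi V5.P V5.D (-1) (-1)) ⟨4, 15, 3, 4, 3, 4, 2, 2, 4, 0⟩ :=
  out_sound (S := T5.ds_mm) T5.ok_mm (w := 51) (j := 3) (by decide +kernel)
theorem L05815 : Good (Phi V5.P V5.D (-1) (-1)) ⟨3, 6, 3, 4, 3, 5, 3, 4, 5, 0⟩ :=
  leafX_sound T5.ok_mm T5.Ymm.bz_eq (w := 231) (c := ⟨⟨.ofNat 2383, .ofNat 1998, .negSucc 340, .negSucc 341, .negSucc 614, .negSucc 704⟩, ⟨.negSucc 1082, .negSucc 1508, .ofNat 40, .ofNat 240, .ofNat 363, .ofNat 400⟩, ⟨.negSucc 1740, .negSucc 1723, .ofNat 380, .ofNat 811, .ofNat 214, .ofNat 417⟩, ⟨.ofNat 3869, .ofNat 1702, .negSucc 361, .ofNat 107, .negSucc 873, .negSucc 1385⟩, ⟨.negSucc 347, .negSucc 921, .ofNat 334, .ofNat 1016, .ofNat 33, .negSucc 636⟩, .ofNat 1546, .ofNat 2125, .ofNat 0, .ofNat 2125, .ofNat 3804, .ofNat 0, .ofNat 128, .negSucc 464, .negSucc 1534, .ofNat 0, .ofNat 290, .ofNat 885,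 .ofNat 0, .ofNat 0, .ofNat 1490, .ofNat 522, .ofNat 0, .ofNat 0, .ofNat 5734944936226126538376005887916265946742784, .ofNat 0, .ofNat 0, .ofNat 0, .ofNat 279999838704062448288044348708223750005325824, .ofNat 0, .ofNat 0, .ofNat 0, .ofNat 121522730646409764597567148568953123982278656, .ofNat 0, .ofNat 0, .ofNat 0, .ofNat 0, .ofNat 0⟩)
    (by decide +kernel)
theorem L05816 : Good (Phi V5.P V5.D (-1) (-1)) ⟨5, 28, 4, 8, 3, 5, 3, 4, 5, 0⟩ :=
  out_sound (S := T5.ds_mm) T5.ok_mm (w := 59) (j := 3) (by decide +kernel)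
theorem L05817 : Good (Phi V5.P V5.D (-1) (-1)) ⟨6, 56, 4, 9, 3, 5, 3, 4, 5, 0⟩ :=
  leafX_sound T5.ok_mm T5.Ymm.bz_eq (w := 250) (c := ⟨⟨.ofNat 4729, .ofNat 755, .negSucc 885, .negSucc 710, .negSucc 603, .negSucc 575⟩, ⟨.negSucc 2953, .negSucc 543, .ofNat 516, .ofNat 462, .ofNat 383, .ofNat 358⟩, ⟨.negSucc 3723, .negSucc 633, .ofNat 790, .ofNat 1136, .ofNat 206, .ofNat 311⟩, ⟨.ofNat 5930, .ofNat 819, .negSucc 983, .negSucc 240, .negSucc 879, .negSucc 1205⟩, ⟨.negSucc 1308, .negSucc 209, .ofNat 420, .ofNat 1203, .negSucc 28, .negSucc 599⟩, .ofNat 2049, .ofNat 2799, .ofNat 0, .ofNat 2799, .ofNat 4613, .ofNat 0, .ofNat 128, .negSucc 765, .negSucc 4772, .ofNat 0, .ofNat 499, .ofNat 2972, .ofNat 0, .ofNat 0, .ofNat 4498, .ofNat 1200, .ofNat 0, .ofNat 0, .ofNat 1617443756303940344549509927393561245908992, .ofNat 0, .ofNat 0, .ofNat 0, .ofNat 226215168380899516404123517355985446035783680, .ofNat 0, .ofNat 0, .ofNat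 0, .ofNat 0, .ofNat 0, .ofNat 0, .ofNat 0, .ofNat 0, .ofNat 0⟩)
    (by decide +kernel)
theorem L05818 : Good (Phi V5.P V5.D (-1) (-1)) ⟨6, 57, 4, 9, 3, 5, 3, 4, 5, 0⟩ :=
  out_sound (S := T5.ds_mm) T5.ok_mm (w := 65) (j := 3) (by decide +kernel)
theorem L05819 : Good (Phi V5.P V5.D (-1) (-1)) ⟨5, 29, 3, 4, 3, 5, 3, 4, 5, 0⟩ :=
  out_sound (S := T5.ds_mm) T5.ok_mm (w := 57) (j := 3) (by decide +kernel)
theorem L05820 : Good (Phi V5.P V5.D (-1) (-1)) ⟨4, 15, 3, 4, 3, 5, 3, 4, 5, 0⟩ :=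
  out_sound (S := T5.ds_mm) T5.ok_mm (w := 51) (j := 3) (by decide +kernel)
theorem L05821 : Good (Phi V5.P V5.D (-1) (-1)) ⟨4, 12, 3, 4, 3, 5, 3, 5, 5, 0⟩ :=
  out_sound (S := T5.ds_mm) T5.ok_mm (w := 51) (j := 3) (by decide +kernel)
theorem L05822 : Good (Phi V5.P V5.D (-1) (-1)) ⟨4, 13, 3, 4, 4, 10, 3, 5, 5, 0⟩ :=
  leafX_sound T5.ok_mm T5.Ymm.bz_eq (w := 247) (c := ⟨⟨.ofNat 2375, .ofNat 1493, .negSucc 389, .ofNat 125, .negSucc 1101, .negSucc 1492⟩, ⟨.negSucc 1284, .negSucc 1077, .ofNat 203, .negSucc 53, .ofNat 659, .ofNat 884⟩, ⟨.negSucc 1970, .negSucc 1448, .ofNat 482, .ofNat 113, .ofNat 755, .ofNat 1148⟩, ⟨.ofNat 3020, .ofNat 2121, .negSucc 679, .ofNat 383, .negSucc 1675, .negSucc 2438⟩, ⟨.negSucc 991, .ofNat 68, .ofNat 102, .ofNat 297, .negSucc 79, .negSucc 418⟩, .ofNat 752, .ofNat 833, .ofNat 0, .ofNat 833, .ofNat 1634, .ofNat 0, .ofNat 128, .negSucc 226, .negSucc 1471, .ofNat 0, .ofNat 152, .ofNat 808,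 .ofNat 0, .ofNat 0, .ofNat 1352, .ofNat 828, .ofNat 0, .ofNat 0, .ofNat 0, .ofNat 0, .ofNat 0, .ofNat 0, .ofNat 1160101157297779279308285779368622705136860397568, .ofNat 0, .ofNat 0, .ofNat 0, .ofNat 2946255449464585643155542248939898189559504044032, .ofNat 0, .ofNat 0, .ofNat 0, .ofNat 0, .ofNat 0⟩)
    (by decide +kernel)
theorem L05823 : Good (Phi V5.P V5.D (-1) (-1)) ⟨4, 13, 3, 4, 4, 11, 3, 5, 5, 0⟩ :=
  leafX_sound T5.ok_mm T5.Ymm.bz_eq (w := 248) (c := ⟨⟨.ofNat 2493, .ofNat 1325, .negSucc 604, .negSucc 129, .negSucc 896, .negSucc 918⟩, ⟨.negSucc 1365, .negSucc 864, .ofNat 218, .ofNat 75, .ofNat 525, .ofNat 547⟩, ⟨.negSucc 1895, .negSucc 1162, .ofNat 623, .ofNat 381, .ofNat 524, .ofNat 620⟩, ⟨.ofNat 3494, .ofNat 1718, .negSucc 825, .ofNat 50, .negSucc 1428, .negSucc 1681⟩, ⟨.negSucc 527, .negSucc 84, .ofNat 272, .ofNat 392, .negSucc 185, .negSucc 567⟩, .ofNat 1108, .ofNat 1401, .ofNat 0, .ofNat 1401, .ofNat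 2576, .ofNat 0, .ofNat 128, .negSucc 293, .negSucc 1357, .ofNat 0, .ofNat 186, .ofNat 768, .ofNat 0, .ofNat 0, .ofNat 1226, .ofNat 516, .ofNat 0, .ofNat 0, .ofNat 29067051513699397318924783773377614998235250688, .ofNat 0, .ofNat 0, .ofNat 0, .ofNat 0, .ofNat 0, .ofNat 0, .ofNat 0, .ofNat 5431168007828168968641531595132967585081882312704, .ofNat 0, .ofNat 0, .ofNat 0, .ofNat 0, .ofNat 0⟩)
    (by decide +kernel)
theorem L05824 : Good (Phi V5.P V5.D (-1) (-1)) ⟨5, 28, 4, 8, 3, 5, 3, 5, 5, 0⟩ :=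
  out_sound (S := T5.ds_mm) T5.ok_mm (w := 59) (j := 3) (by decide +kernel)
theorem L05825 : Good (Phi V5.P V5.D (-1) (-1)) ⟨6, 56, 5, 18, 3, 5, 3, 5, 5, 0⟩ :=
  out_sound (S := T5.ds_mm) T5.ok_mm (w := 67) (j := 3) (by decide +kernel)
theorem L05826 : Good (Phi V5.P V5.D (-1) (-1)) ⟨7, 112, 5, 19, 3, 5, 4, 10, 5, 0⟩ :=
  leafX_sound T5.ok_mm T5.Ymm.bz_eq (w := 263) (c := ⟨⟨.ofNat 3539, .ofNat 337, .negSucc 381, .negSucc 148, .negSucc 410, .negSucc 1086⟩, ⟨.negSucc 2225, .negSucc 226, .ofNat 207, .ofNat 107, .ofNat 260, .ofNat 683⟩, ⟨.negSucc 3017, .negSucc 292, .ofNat 353, .ofNat 669, .ofNat 233, .ofNat 757⟩, ⟨.ofNat 4542, .ofNat 369, .negSucc 519, .ofNat 146, .negSucc 557, .negSucc 1708⟩, ⟨.negSucc 827, .negSucc 101, .ofNat 37, .ofNat 567, .ofNat 43, .negSucc 255⟩, .ofNat 5081, .ofNat 7514, .ofNat 0, .ofNat 7514, .ofNat 11966, .ofNat 0, .ofNat 128, .negSucc 517, .negSucc 4046, .ofNat 0, .ofNat 336, .ofNat 2558,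 .ofNat 0, .ofNat 0, .ofNat 3820, .ofNat 2491, .ofNat 0, .ofNat 0, .ofNat 0, .ofNat 0, .ofNat 0, .ofNat 0, .ofNat 29614889784159279311393434042786081851136016384, .ofNat 0, .ofNat 0, .ofNat 0, .ofNat 0, .ofNat 0, .ofNat 0, .ofNat 0, .ofNat 0, .ofNat 0⟩)
    (by decide +kernel)
theorem L05827 : Good (Phi V5.P V5.D (-1) (-1)) ⟨7, 113, 5, 19, 3, 5, 4, 10, 5, 0⟩ :=
  out_sound (S := T5.ds_mm) T5.ok_mm (w := 73) (j := 3) (by decide +kernel)
theorem L05828 : Good (Phi V5.P V5.D (-1) (-1)) ⟨6, 56, 5, 19, 3, 5, 4, 11, 5, 0⟩ :=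
  leafX_sound T5.ok_mm T5.Ymm.bz_eq (w := 257) (c := ⟨⟨.ofNat 3054, .ofNat 278, .negSucc 78, .negSucc 82, .negSucc 579, .negSucc 1289⟩, ⟨.negSucc 1923, .negSucc 214, .ofNat 27, .ofNat 63, .ofNat 367, .ofNat 811⟩, ⟨.negSucc 2704, .negSucc 232, .ofNat 80, .ofNat 597, .ofNat 383, .ofNat 924⟩, ⟨.ofNat 3753, .ofNat 345, .negSucc 72, .ofNat 366, .negSucc 856, .negSucc 2057⟩, ⟨.negSucc 978, .negSucc 1, .ofNat 93, .ofNat 749, .negSucc 48, .negSucc 346⟩, .ofNat 2063, .ofNat 2819, .ofNat 0, .ofNat 2819, .ofNat 4639, .ofNat 0, .ofNat 128, .negSucc 664, .negSucc 4863, .ofNat 0, .ofNat 436, .ofNat 3023, .ofNat 0, .ofNat 0, .ofNat 4479, .ofNat 1035, .ofNat 0, .ofNat 0, .ofNat 26712508597271936359732021996237257617440768, .ofNat 0, .ofNat 0, .ofNat 0, .ofNat 26290801014587298634155987254711147813071224832, .ofNat 0, .ofNat 0, .ofNat 0, .ofNat 9711022646626207636028000739030937886624055296, .ofNat 0, .ofNat 0, .ofNat 0, .ofNat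 0, .ofNat 0⟩)
    (by decide +kernel)
theorem L05829 : Good (Phi V5.P V5.D (-1) (-1)) ⟨6, 57, 4, 9, 3, 5, 3, 5, 5, 0⟩ :=
  out_sound (S := T5.ds_mm) T5.ok_mm (w := 65) (j := 3) (by decide +kernel)
theorem L05830 : Good (Phi V5.P V5.D (-1) (-1)) ⟨5, 29, 3, 4, 3, 5, 3, 5, 5, 0⟩ :=
  out_sound (S := T5.ds_mm) T5.ok_mm (w := 57) (j := 3) (by decide +kernel)
theorem L05831 : Good (Phi V5.P V5.D (-1) (-1)) ⟨4, 15, 3, 4, 3, 5, 3, 5, 5, 0⟩ :=
  out_sound (S := T5.ds_mm) T5.ok_mm (w := 51) (j := 3) (by decide +kernel)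
theorem L05832 : Good (Phi V5.P V5.D (-1) (-1)) ⟨3, 6, 3, 4, 3, 5, 3, 4, 5, 1⟩ :=
  leafX_sound T5.ok_mm T5.Ymm.bz_eq (w := 231) (c := ⟨⟨.ofNat 1608, .ofNat 1178, .negSucc 38, .ofNat 808, .negSucc 1155, .negSucc 1970⟩, ⟨.negSucc 678, .negSucc 1058, .ofNat 23, .negSucc 468, .ofNat 696, .ofNat 1145⟩, ⟨.negSucc 1401, .negSucc 879, .ofNat 125, .negSucc 178, .ofNat 719, .ofNat 1319⟩, ⟨.ofNat 2168, .ofNat 890, .ofNat 224, .ofNat 1461, .negSucc 1546, .negSucc 3122⟩, ⟨.negSucc 538, .negSucc 1227, .ofNat 795, .ofNat 437, .ofNat 222, .negSucc 406⟩, .ofNat 1589, .ofNat 2187, .ofNat 0, .ofNat 2187, .ofNat 3888, .ofNat 0, .ofNat 128, .negSucc 382, .negSucc 1318, .ofNat 0, .ofNat 238, .ofNat 765, .ofNat 0, .ofNat 0, .ofNat 1164, .ofNat 687, .ofNat 0, .ofNat 0, .ofNat 1272080062488145852228829105230613323972608, .ofNat 0, .ofNat 0, .ofNat 0, .ofNat 185779599185116817742958164650678893588512768, .ofNat 0, .ofNat 0, .ofNat 0,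 .ofNat 328251967370309015455058188629433223814840320, .ofNat 0, .ofNat 0, .ofNat 0, .ofNat 0, .ofNat 0⟩)
    (by decide +kernel)
theorem L05833 : Good (Phi V5.P V5.D (-1) (-1)) ⟨5, 28, 3, 4, 3, 5, 3, 4, 5, 1⟩ :=
  leafX_sound T5.ok_mm T5.Ymm.bz_eq (w := 241) (c := ⟨⟨.ofNat 3166, .ofNat 653, .negSucc 434, .ofNat 666, .negSucc 1023, .negSucc 1884⟩, ⟨.negSucc 1978, .negSucc 545, .ofNat 246, .negSucc 413, .ofNat 647, .ofNat 1187⟩, ⟨.negSucc 2604, .negSucc 577, .ofNat 456, .negSucc 22, .ofNat 582, .ofNat 1219⟩, ⟨.ofNat 3399, .ofNat 674, .negSucc 374, .ofNat 1498, .negSucc 1349, .negSucc 2994⟩, ⟨.negSucc 1714, .ofNat 0, .ofNat 293, .ofNat 847, .ofNat 174, .negSucc 486⟩, .ofNat 1694, .ofNat 2164, .ofNat 0, .ofNat 2164, .ofNat 3509, .ofNat 0, .ofNat 128, .negSucc 431, .negSucc 3298, .ofNat 0, .ofNat 296, .ofNat 2050, .ofNat 0, .ofNat 0, .ofNat 2809, .ofNat 473, .ofNat 0, .ofNat 0, .ofNat 358332133472002099336278204650986686906368,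 .ofNat 0, .ofNat 0, .ofNat 0, .ofNat 427521842421931944711318016836892109800734720, .ofNat 0, .ofNat 0, .ofNat 0, .ofNat 151257659195807493665543786054056823872290816, .ofNat 0, .ofNat 0, .ofNat 0, .ofNat 139997185752145961935275646466298969778552832, .ofNat 0⟩)
    (by decide +kernel)
theorem L05834 : Good (Phi V5.P V5.D (-1) (-1)) ⟨5, 29, 3, 4, 3, 5, 3, 4, 5, 1⟩ :=
  out_sound (S := T5.ds_mm) T5.ok_mm (w := 57) (j := 3) (by decide +kernel)
theorem L05835 : Good (Phi V5.P V5.D (-1) (-1)) ⟨4, 15, 3, 4, 3, 5, 3, 4, 5, 1⟩ :=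
  out_sound (S := T5.ds_mm) T5.ok_mm (w := 51) (j := 3) (by decide +kernel)
theorem L05836 : Good (Phi V5.P V5.D (-1) (-1)) ⟨3, 6, 4, 8, 3, 5, 3, 5, 5, 1⟩ :=
  leafX_sound T5.ok_mm T5.Ymm.bz_eq (w := 234) (c := ⟨⟨.ofNat 1250, .ofNat 113, .negSucc 4, .ofNat 1108, .negSucc 1238, .negSucc 2262⟩, ⟨.negSucc 608, .negSucc 270, .ofNat 29, .negSucc 640, .ofNat 719, .ofNat 1321⟩, ⟨.negSucc 1361, .ofNat 153, .ofNat 25, .negSucc 586, .ofNat 879, .ofNat 1609⟩, ⟨.ofNat 1381, .ofNat 125, .negSucc 62, .ofNat 1752, .negSucc 1874, .negSucc 3644⟩, ⟨.negSucc 953, .ofNat 112, .negSucc 18, .ofNat 215, .negSucc 99, .negSucc 583⟩, .ofNat 1465, .ofNat 2008, .ofNat 0, .ofNat 2008, .ofNat 3648, .ofNat 0, .ofNat 128, .negSucc 326, .negSucc 1258, .ofNat 0, .ofNat 202, .ofNat 713, .ofNat 0, .ofNat 0, .ofNat 1119, .ofNat 517, .ofNat 0, .ofNat 0, .ofNat 0, .ofNat 0, .ofNat 0, .ofNat 0, .ofNat 1062372967156904590813810833493801224506441728,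 .ofNat 0, .ofNat 0, .ofNat 0, .ofNat 1071471949795691865256815016084039247700426752, .ofNat 0, .ofNat 0, .ofNat 0, .ofNat 2495442689660821391391631948279217618778324992, .ofNat 0⟩)
    (by decide +kernel)
theorem L05837 : Good (Phi V5.P V5.D (-1) (-1)) ⟨3, 6, 4, 9, 3, 5, 3, 5, 5, 1⟩ :=
  leafX_sound T5.ok_mm T5.Ymm.bz_eq (w := 235) (c := ⟨⟨.ofNat 736, .ofNat 664, .ofNat 333, .ofNat 1246, .negSucc 1288, .negSucc 2333⟩, ⟨.ofNat 40, .negSucc 974, .negSucc 108, .negSucc 745, .ofNat 790, .ofNat 1422⟩, ⟨.negSucc 601, .negSucc 666, .negSucc 259, .negSucc 673, .ofNat 891, .ofNat 1689⟩, ⟨.ofNat 690, .ofNat 760, .ofNat 419, .ofNat 2043, .negSucc 1985, .negSucc 3690⟩, ⟨.negSucc 1002, .ofNat 78, .negSucc 53, .ofNat 391, .negSucc 200, .negSucc 534⟩, .ofNat 1798, .ofNat 2472, .ofNat 0, .ofNat 2472, .ofNat 4234, .ofNat 0, .ofNat 128, .negSucc 410, .negSucc 1739, .ofNat 0, .ofNat 262, .ofNat 1041, .ofNat 0, .ofNat 0, .ofNat 1526,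 .ofNat 948, .ofNat 0, .ofNat 0, .ofNat 6096366125691868474721706732582301935337472, .ofNat 0, .ofNat 0, .ofNat 0, .ofNat 1587378530319641845024934584669657345506148352, .ofNat 0, .ofNat 0, .ofNat 0, .ofNat 2275850100110759400008621125122291681621704704, .ofNat 0, .ofNat 0, .ofNat 0, .ofNat 428453379413440123618598213867847231721177088, .ofNat 0⟩)
    (by decide +kernel)
theorem L05838 : Good (Phi V5.P V5.D (-1) (-1)) ⟨4, 14, 3, 4, 3, 5, 3, 5, 5, 1⟩ :=
  leafX_sound T5.ok_mm T5.Ymm.bz_eq (w := 234) (c := ⟨⟨.ofNat 2197, .ofNat 1042, .negSucc 636, .ofNat 1166, .negSucc 1421, .negSucc 2410⟩, ⟨.negSucc 1463, .negSucc 878, .ofNat 488, .negSucc 735, .ofNat 897, .ofNat 1516⟩, ⟨.negSucc 2072, .negSucc 1220, .ofNat 756, .negSucc 593, .ofNat 992, .ofNat 1696⟩, ⟨.ofNat 2145, .ofNat 1108, .negSucc 520, .ofNat 1910, .negSucc 2048, .negSucc 3669⟩, ⟨.negSucc 1628, .negSucc 462, .ofNat 691, .ofNat 363, .negSucc 24, .negSucc 361⟩,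 .ofNat 1335, .ofNat 1561, .ofNat 0, .ofNat 1561, .ofNat 2483, .ofNat 0, .ofNat 128, .negSucc 344, .negSucc 1418, .ofNat 0, .ofNat 252, .ofNat 890, .ofNat 0, .ofNat 0, .ofNat 1187, .ofNat 818, .ofNat 0, .ofNat 0, .ofNat 1239556058603314202240805825691535080947712, .ofNat 0, .ofNat 0, .ofNat 0, .ofNat 849068751074317445616579964112956571370127360, .ofNat 0, .ofNat 0, .ofNat 0, .ofNat 83333497316491192204294677341388935601848320, .ofNat 0, .ofNat 0, .ofNat 0, .ofNat 1053789717233574950795530506275451451811561472, .ofNat 0⟩)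
    (by decide +kernel)
theorem L05839 : Good (Phi V5.P V5.D (-1) (-1)) ⟨4, 15, 3, 4, 3, 5, 3, 5, 5, 1⟩ :=
  out_sound (S := T5.ds_mm) T5.ok_mm (w := 51) (j := 3) (by decide +kernel)
theorem L05840 : Good (Phi V5.P V5.D (-1) (-1)) ⟨4, 12, 3, 4, 3, 4, 2, 2, 4, 1⟩ :=
  out_sound (S := T5.ds_mm) T5.ok_mm (w := 51) (j := 3) (by decide +kernel)
theorem L05841 : Good (Phi V5.P V5.D (-1) (-1)) ⟨4, 13, 3, 4, 3, 4, 2, 2, 4, 1⟩ :=
  leafX_sound T5.ok_mm T5.Ymm.bz_eq (w := 226) (c := ⟨⟨.negSucc 2187, .negSucc 976, .ofNat 215, .negSucc 108, .ofNat 73, .negSucc 1436⟩, ⟨.ofNat 1099, .ofNat 628, .ofNat 192, .ofNat 54, .negSucc 33, .ofNat 863⟩, ⟨.ofNat 1432, .ofNat 817, .negSucc 234, .negSucc 132, .ofNat 63, .ofNat 1077⟩, ⟨.negSucc 4017, .negSucc 257, .negSucc 362, .negSucc 376, .negSucc 4, .negSucc 2160⟩, ⟨.negSucc 1084, .ofNat 1647, .negSucc 1297, .negSucc 402, .negSucc 167, .negSucc 118⟩, .ofNat 1548, .ofNat 2125, .ofNat 0,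 .ofNat 2125, .ofNat 3797, .ofNat 0, .ofNat 128, .negSucc 627, .negSucc 1423, .ofNat 0, .ofNat 400, .ofNat 831, .ofNat 0, .ofNat 0, .ofNat 1493, .ofNat 466, .ofNat 0, .ofNat 0, .ofNat 6962758367465172079431294077175920066560, .ofNat 0, .ofNat 0, .ofNat 0, .ofNat 336705661310258585956252637525745355194368, .ofNat 0, .ofNat 0, .ofNat 0, .ofNat 0, .ofNat 0, .ofNat 0, .ofNat 0, .ofNat 0, .ofNat 0⟩)
    (by decide +kernel)
theorem L05842 : Good (Phi V5.P V5.D (-1) (-1)) ⟨5, 28, 3, 4, 3, 4, 2, 2, 5, 2⟩ :=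
  leafX_sound T5.ok_mm T5.Ymm.bz_eq (w := 238) (c := ⟨⟨.negSucc 1581, .ofNat 389, .negSucc 831, .ofNat 692, .negSucc 825, .negSucc 1645⟩, ⟨.ofNat 749, .negSucc 222, .ofNat 786, .negSucc 445, .ofNat 530, .ofNat 1051⟩, ⟨.ofNat 1115, .ofNat 26, .ofNat 358, .negSucc 695, .ofNat 831, .ofNat 1328⟩, ⟨.negSucc 2740, .ofNat 740, .negSucc 1181, .ofNat 607, .negSucc 1073, .negSucc 2291⟩, ⟨.negSucc 877, .negSucc 55, .ofNat 141, .negSucc 593, .ofNat 199, .ofNat 108⟩, .ofNat 2048, .ofNat 2798, .ofNat 0, .ofNat 2798, .ofNat 4610, .ofNat 0, .ofNat 128, .negSucc 1301, .negSucc 3249, .ofNat 0, .ofNat 862, .ofNat 2038, .ofNat 0, .ofNat 0, .ofNat 3167, .ofNat 802, .ofNat 0, .ofNat 0, .ofNat 141884901744201357912201698693566456397824, .ofNat 0, .ofNat 0, .ofNat 0, .ofNat 29222855011811498067019001689498216835317760, .ofNat 0, .ofNat 0, .ofNat 0, .ofNat 10173980109336804170581196850787623739850752, .ofNat 0, .ofNat 0, .ofNat 0, .ofNat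 55297541260228367599541995857789664142295040, .ofNat 0⟩)
    (by decide +kernel)
theorem L05843 : Good (Phi V5.P V5.D (-1) (-1)) ⟨6, 56, 4, 8, 3, 4, 2, 2, 5, 3⟩ :=
  out_sound (S := T5.ds_mm) T5.ok_mm (w := 65) (j := 3) (by decide +kernel)
theorem L05844 : Good (Phi V5.P V5.D (-1) (-1)) ⟨6, 56, 4, 9, 3, 4, 2, 2, 5, 3⟩ :=
  leafX_sound T5.ok_mm T5.Ymm.bz_eq (w := 241) (c := ⟨⟨.negSucc 4808, .negSucc 658, .ofNat 391, .ofNat 19, .ofNat 658, .negSucc 130⟩, ⟨.ofNat 2902, .ofNat 447, .negSucc 86, .negSucc 19, .negSucc 417, .ofNat 85⟩, ⟨.ofNat 3469, .ofNat 506, .negSucc 273, .negSucc 277, .negSucc 395, .ofNat 35⟩, ⟨.negSucc 7071, .negSucc 830, .ofNat 483, .negSucc 323, .ofNat 878, .negSucc 136⟩, ⟨.negSucc 330, .ofNat 50, .negSucc 116, .negSucc 562, .negSucc 69, .ofNat 108⟩, .ofNat 774, .ofNat 830, .ofNat 0, .ofNat 830, .ofNat 1513, .ofNat 0, .ofNat 128, .negSucc 600, .negSucc 2244, .ofNat 0, .ofNat 430, .ofNat 1360,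 .ofNat 0, .ofNat 0, .ofNat 2267, .ofNat 721, .ofNat 0, .ofNat 0, .ofNat 48520088095602212320630639230407151714304, .ofNat 0, .ofNat 0, .ofNat 0, .ofNat 1692528042882200280330314215376056504811520, .ofNat 0, .ofNat 0, .ofNat 0, .ofNat 0, .ofNat 0, .ofNat 0, .ofNat 0, .ofNat 0, .ofNat 0⟩)
    (by decide +kernel)
theorem L05845 : Good (Phi V5.P V5.D (-1) (-1)) ⟨6, 57, 3, 4, 3, 4, 2, 2, 5, 3⟩ :=
  out_sound (S := T5.ds_mm) T5.ok_mm (w := 63) (j := 3) (by decide +kernel)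
theorem L05846 : Good (Phi V5.P V5.D (-1) (-1)) ⟨5, 29, 3, 4, 3, 4, 2, 2, 4, 1⟩ :=
  out_sound (S := T5.ds_mm) T5.ok_mm (w := 57) (j := 3) (by decide +kernel)
theorem L05847 : Good (Phi V5.P V5.D (-1) (-1)) ⟨4, 15, 3, 4, 3, 4, 2, 2, 4, 1⟩ :=
  out_sound (S := T5.ds_mm) T5.ok_mm (w := 51) (j := 3) (by decide +kernel)
theorem L05848 : Good (Phi V5.P V5.D (-1) (-1)) ⟨4, 12, 3, 4, 3, 5, 2, 2, 4, 1⟩ :=
  out_sound (S := T5.ds_mm) T5.ok_mm (w := 51) (j := 3) (by decide +kernel)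
theorem L05849 : Good (Phi V5.P V5.D (-1) (-1)) ⟨5, 26, 3, 4, 3, 5, 2, 2, 5, 2⟩ :=
  leafX_sound T5.ok_mm T5.Ymm.bz_eq (w := 239) (c := ⟨⟨.negSucc 1166, .ofNat 856, .negSucc 1500, .ofNat 774, .negSucc 1346, .negSucc 2391⟩, ⟨.ofNat 622, .negSucc 496, .ofNat 1055, .negSucc 438, .ofNat 754, .ofNat 1327⟩, ⟨.ofNat 498, .negSucc 447, .ofNat 421, .negSucc 601, .ofNat 1019, .ofNat 1736⟩, ⟨.negSucc 2304, .ofNat 1073, .negSucc 1545, .ofNat 961, .negSucc 1876, .negSucc 3542⟩, ⟨.negSucc 990, .negSucc 350, .ofNat 712, .negSucc 356, .ofNat 221, .ofNat 15⟩, .ofNat 3129, .ofNat 4968, .ofNat 0, .ofNat 4968, .ofNat 8983, .ofNat 0, .ofNat 128, .negSucc 1150, .negSucc 2366, .ofNat 0, .ofNat 676, .ofNat 1318, .ofNat 0, .ofNat 0, .ofNat 2136, .ofNat 1765, .ofNat 0, .ofNat 0, .ofNat 0, .ofNat 0, .ofNat 0, .ofNat 0, .ofNat 24044428477608352833850471797665758464442368, .ofNat 0, .ofNat 0, .ofNat 0, .ofNat 105022940096954976364970401495490866347769856,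 .ofNat 0, .ofNat 0, .ofNat 0, .ofNat 34283875175148727710153208577534217422897152, .ofNat 0⟩)
    (by decide +kernel)
theorem L05850 : Good (Phi V5.P V5.D (-1) (-1)) ⟨5, 27, 4, 8, 3, 5, 2, 2, 5, 2⟩ :=
  leafX_sound T5.ok_mm T5.Ymm.bz_eq (w := 238) (c := ⟨⟨.negSucc 380, .negSucc 886, .ofNat 585, .ofNat 1220, .negSucc 1636, .negSucc 2703⟩, ⟨.ofNat 130, .ofNat 472, .negSucc 203, .negSucc 720, .ofNat 951, .ofNat 1556⟩, ⟨.ofNat 159, .ofNat 488, .negSucc 315, .negSucc 954, .ofNat 1190, .ofNat 1891⟩, ⟨.negSucc 1146, .negSucc 1650, .ofNat 967, .ofNat 1497, .negSucc 2358, .negSucc 3969⟩, ⟨.negSucc 975, .negSucc 754, .ofNat 268, .negSucc 505, .ofNat 64, .negSucc 28⟩, .ofNat 2007, .ofNat 2865, .ofNat 0, .ofNat 2865, .ofNat 5010, .ofNat 0, .ofNat 128, .negSucc 412, .negSucc 1035, .ofNat 0, .ofNat 257, .ofNat 603, .ofNat 0, .ofNat 0, .ofNat 893, .ofNat 406, .ofNat 0, .ofNat 0, .ofNat 55781942306716330709049070003519397822464,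 .ofNat 0, .ofNat 0, .ofNat 0, .ofNat 9002688226232100602781844271725979598061568, .ofNat 0, .ofNat 0, .ofNat 0, .ofNat 0, .ofNat 0, .ofNat 0, .ofNat 0, .ofNat 15176700098111428289280015956090031035121664, .ofNat 0⟩)
    (by decide +kernel)
theorem L05851 : Good (Phi V5.P V5.D (-1) (-1)) ⟨5, 27, 4, 9, 3, 5, 2, 2, 5, 2⟩ :=
  leafX_sound T5.ok_mm T5.Ymm.bz_eq (w := 239) (c := ⟨⟨.negSucc 525, .ofNat 37, .ofNat 151, .ofNat 1335, .negSucc 1544, .negSucc 2662⟩, ⟨.ofNat 330, .negSucc 125, .ofNat 62, .negSucc 818, .ofNat 955, .ofNat 1627⟩, ⟨.ofNat 206, .ofNat 108, .negSucc 253, .negSucc 1013, .ofNat 1124, .ofNat 1853⟩, ⟨.negSucc 1331, .ofNat 182, .negSucc 65, .ofNat 1571, .negSucc 2233, .negSucc 4015⟩, ⟨.negSucc 1015, .ofNat 276, .negSucc 499, .negSucc 567, .ofNat 41, .negSucc 285⟩, .ofNat 1801, .ofNat 2473, .ofNat 0, .ofNat 2473, .ofNat 4227, .ofNat 0, .ofNat 128, .negSucc 545, .negSucc 1781, .ofNat 0, .ofNat 347, .ofNat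 1072, .ofNat 0, .ofNat 0, .ofNat 1519, .ofNat 853, .ofNat 0, .ofNat 0, .ofNat 0, .ofNat 0, .ofNat 0, .ofNat 0, .ofNat 0, .ofNat 0, .ofNat 0, .ofNat 0, .ofNat 39355667339044939624957429558662883920838656, .ofNat 0, .ofNat 0, .ofNat 0, .ofNat 0, .ofNat 0⟩)
    (by decide +kernel)
theorem L05852 : Good (Phi V5.P V5.D (-1) (-1)) ⟨4, 13, 3, 4, 3, 5, 2, 2, 5, 3⟩ :=
  leafX_sound T5.ok_mm T5.Ymm.bz_eq (w := 231) (c := ⟨⟨.negSucc 3318, .negSucc 1565, .ofNat 562, .ofNat 421, .ofNat 499, .negSucc 327⟩, ⟨.ofNat 1779, .ofNat 933, .ofNat 32, .negSucc 263, .negSucc 291, .ofNat 196⟩, ⟨.ofNat 2271, .ofNat 1099, .negSucc 408, .negSucc 493, .negSucc 348, .ofNat 83⟩, ⟨.negSucc 5911, .negSucc 1576, .ofNat 410, .ofNat 328, .ofNat 756, .negSucc 340⟩, ⟨.negSucc 1442, .ofNat 646, .negSucc 606, .negSucc 488, .ofNat 66, .ofNat 246⟩, .ofNat 1559, .ofNat 2144, .ofNat 0, .ofNat 2144, .ofNat 3831, .ofNat 0, .ofNat 128, .negSucc 555, .negSucc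 1464, .ofNat 0, .ofNat 345, .ofNat 850, .ofNat 0, .ofNat 0, .ofNat 1331, .ofNat 594, .ofNat 0, .ofNat 0, .ofNat 158750981494055861431128727879466392485888, .ofNat 0, .ofNat 0, .ofNat 0, .ofNat 8165527878772648698280534827947219857965056, .ofNat 0, .ofNat 0, .ofNat 0, .ofNat 0, .ofNat 0, .ofNat 0, .ofNat 0, .ofNat 21646364556194983308033114132885586831212544, .ofNat 0⟩)
    (by decide +kernel)
theorem L05853 : Good (Phi V5.P V5.D (-1) (-1)) ⟨5, 28, 4, 8, 3, 5, 2, 2, 4, 1⟩ :=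
  out_sound (S := T5.ds_mm) T5.ok_mm (w := 59) (j := 3) (by decide +kernel)
theorem L05854 : Good (Phi V5.P V5.D (-1) (-1)) ⟨5, 28, 5, 18, 3, 5, 2, 2, 4, 1⟩ :=
  out_sound (S := T5.ds_mm) T5.ok_mm (w := 61) (j := 3) (by decide +kernel)

end Crest.Agent.R097C5.N5mm
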