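import Crest.Agent.R097.KP7
import Crest.Agent.R097.T5Ymm

/-!
# Row 97, box cover in dimension n = 5 (generated)
-/

set_option autoImplicit false
set_option Elab.async false
set_option maxHeartbeats 0
set_option maxRecDepth 100000

open Crest.Agent.R097 Crest.Agent.R097.KA


namespace Crest.Agent.R097C5.N5mm

theorem L05855 : Good (Phi V5.P V5.D (-1) (-1)) ⟨5, 28, 5, 19, 3, 5, 2, 2, 4, 1⟩ :=
  leafX_sound T5.ok_mm T5.Ymm.bz_eq (w := 239) (c := ⟨⟨.negSucc 1722, .negSucc 962, .negSucc 1, .ofNat 839, .ofNat 247, .negSucc 3191⟩, ⟨.ofNat 1027, .ofNat 623, .ofNat 70, .negSucc 533, .negSucc 145, .ofNat 2014⟩, ⟨.ofNat 1140, .ofNat 990, .negSucc 92, .negSucc 680, .negSucc 176, .ofNat 2076⟩, ⟨.negSucc 2972, .negSucc 823, .negSucc 355, .ofNat 844, .ofNat 298, .negSucc 4506⟩, ⟨.negSucc 873, .ofNat 1017, .negSucc 618, .negSucc 568, .ofNat 28, .ofNat 140⟩, .ofNat 2311, .ofNat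 3102, .ofNat 0, .ofNat 3102, .ofNat 4919, .ofNat 0, .ofNat 128, .negSucc 785, .negSucc 2558, .ofNat 0, .ofNat 529, .ofNat 1637, .ofNat 0, .ofNat 0, .ofNat 2113, .ofNat 899, .ofNat 0, .ofNat 0, .ofNat 15196834254046276035152779203431138066432, .ofNat 0, .ofNat 0, .ofNat 0, .ofNat 6737239169421116904856153735428150531194880, .ofNat 0, .ofNat 0, .ofNat 0, .ofNat 935304922493638559093258763022318033698816, .ofNat 0, .ofNat 0, .ofNat 0, .ofNat 2868681032017916550146872274455009802846208, .ofNat 0⟩)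
    (by decide +kernel)
theorem L05856 : Good (Phi V5.P V5.D (-1) (-1)) ⟨5, 29, 3, 4, 3, 5, 2, 2, 4, 1⟩ :=
  out_sound (S := T5.ds_mm) T5.ok_mm (w := 57) (j := 3) (by decide +kernel)
theorem L05857 : Good (Phi V5.P V5.D (-1) (-1)) ⟨4, 15, 3, 4, 3, 5, 2, 2, 4, 1⟩ :=
  out_sound (S := T5.ds_mm) T5.ok_mm (w := 51) (j := 3) (by decide +kernel)
theorem L05858 : Good (Phi V5.P V5.D (-1) (-1)) ⟨2, 2, 3, 5, 2, 2, 2, 2, 3, 0⟩ :=
  out_sound (S := T5.ds_mm) T5.ok_mm (w := 39) (j := 3) (by decide +kernel)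
theorem L05859 : Good (Phi V5.P V5.D (-1) (-1)) ⟨3, 6, 3, 5, 2, 2, 2, 2, 3, 0⟩ :=
  out_sound (S := T5.ds_mm) T5.ok_mm (w := 45) (j := 3) (by decide +kernel)
theorem L05860 : Good (Phi V5.P V5.D (-1) (-1)) ⟨6, 56, 4, 10, 3, 4, 3, 4, 5, 0⟩ :=
  leafX_sound T5.ok_mm T5.Ymm.bz_eq (w := 254) (c := ⟨⟨.ofNat 4364, .ofNat 1000, .negSucc 261, .negSucc 295, .negSucc 922, .negSucc 2085⟩, ⟨.negSucc 2781, .negSucc 735, .ofNat 131, .ofNat 198, .ofNat 600, .ofNat 1352⟩, ⟨.negSucc 3731, .negSucc 1017, .ofNat 404, .ofNat 697, .ofNat 468, .ofNat 1585⟩, ⟨.ofNat 5095, .ofNat 814, .ofNat 168, .ofNat 22, .negSucc 1121, .negSucc 2349⟩, ⟨.negSucc 2033, .negSucc 147, .ofNat 232, .ofNat 669, .ofNat 267, .ofNat 891⟩, .ofNat 9491, .ofNat 14093, .ofNat 0, .ofNat 14093, .ofNat 21753, .ofNat 0, .ofNat 128, .negSucc 688, .negSucc 4181, .ofNat 0, .ofNat 456, .ofNat 2723, .ofNat 0, .ofNat 0,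 .ofNat 4113, .ofNat 2940, .ofNat 0, .ofNat 0, .ofNat 0, .ofNat 0, .ofNat 0, .ofNat 0, .ofNat 1492720134360694713512903546694963379891601408, .ofNat 0, .ofNat 0, .ofNat 0, .ofNat 154786508911755937774650154875641110491824128, .ofNat 0, .ofNat 0, .ofNat 0, .ofNat 144314740842634023774880480678410514497273856, .ofNat 0⟩)
    (by decide +kernel)
theorem L05861 : Good (Phi V5.P V5.D (-1) (-1)) ⟨6, 56, 4, 10, 4, 10, 3, 4, 5, 0⟩ :=
  leafX_sound T5.ok_mm T5.Ymm.bz_eq (w := 268) (c := ⟨⟨.ofNat 4138, .ofNat 273, .ofNat 17, .negSucc 284, .negSucc 690, .negSucc 836⟩, ⟨.negSucc 2634, .negSucc 250, .negSucc 64, .ofNat 191, .ofNat 450, .ofNat 539⟩, ⟨.negSucc 3179, .negSucc 241, .ofNat 43, .ofNat 495, .ofNat 264, .ofNat 549⟩, ⟨.ofNat 5264, .ofNat 186, .ofNat 39, .negSucc 141, .negSucc 895, .negSucc 1325⟩, ⟨.negSucc 1041, .negSucc 86, .negSucc 0, .ofNat 393, .ofNat 118, .negSucc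 226⟩, .ofNat 7450, .ofNat 10977, .ofNat 0, .ofNat 10977, .ofNat 16991, .ofNat 0, .ofNat 128, .negSucc 647, .negSucc 4707, .ofNat 0, .ofNat 428, .ofNat 3061, .ofNat 0, .ofNat 0, .ofNat 4533, .ofNat 5392, .ofNat 0, .ofNat 0, .ofNat 0, .ofNat 0, .ofNat 0, .ofNat 0, .ofNat 10506077964771573195415807541136849834064486596608, .ofNat 0, .ofNat 0, .ofNat 0, .ofNat 6811453628338602197712683387726600123456725975040, .ofNat 0, .ofNat 0, .ofNat 0, .ofNat 0, .ofNat 0⟩)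
    (by decide +kernel)
theorem L05862 : Good (Phi V5.P V5.D (-1) (-1)) ⟨6, 56, 4, 10, 4, 11, 3, 4, 5, 0⟩ :=
  leafX_sound T5.ok_mm T5.Ymm.bz_eq (w := 267) (c := ⟨⟨.ofNat 3775, .ofNat 55, .negSucc 73, .negSucc 424, .negSucc 499, .negSucc 434⟩, ⟨.negSucc 2404, .negSucc 89, .negSucc 17, .ofNat 280, .ofNat 324, .ofNat 278⟩, ⟨.negSucc 2627, .negSucc 48, .ofNat 113, .ofNat 647, .ofNat 125, .ofNat 209⟩, ⟨.ofNat 5091, .ofNat 23, .negSucc 41, .negSucc 158, .negSucc 748, .negSucc 1007⟩, ⟨.negSucc 474, .ofNat 46, .ofNat 123, .ofNat 674, .negSucc 67, .negSucc 601⟩, .ofNat 5168, .ofNat 7505, .ofNat 0, .ofNat 7505, .ofNat 11708, .ofNat 0, .ofNat 128, .negSucc 736, .negSucc 4965, .ofNat 0, .ofNat 484, .ofNat 3211, .ofNat 0, .ofNat 0, .ofNat 4679, .ofNat 1726, .ofNat 0, .ofNat 0, .ofNat 0, .ofNat 0, .ofNat 0, .ofNat 0, .ofNat 0, .ofNat 0, .ofNat 0, .ofNat 0, .ofNat 2565065451420633133774420395052850548130432679936,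 .ofNat 0, .ofNat 0, .ofNat 0, .ofNat 0, .ofNat 0⟩)
    (by decide +kernel)
theorem L05863 : Good (Phi V5.P V5.D (-1) (-1)) ⟨6, 56, 4, 10, 2, 2, 3, 4, 5, 1⟩ :=
  leafX_sound T5.ok_mm T5.Ymm.bz_eq (w := 235) (c := ⟨⟨.ofNat 1183, .ofNat 431, .negSucc 929, .ofNat 2546, .negSucc 1115, .negSucc 2219⟩, ⟨.negSucc 705, .negSucc 411, .ofNat 696, .negSucc 1659, .ofNat 724, .ofNat 1445⟩, ⟨.negSucc 1275, .negSucc 361, .ofNat 873, .negSucc 1235, .ofNat 713, .ofNat 1482⟩, ⟨.ofNat 909, .ofNat 368, .negSucc 894, .ofNat 3939, .negSucc 1449, .negSucc 3338⟩, ⟨.negSucc 1282, .negSucc 153, .ofNat 529, .ofNat 497, .ofNat 196, .negSucc 313⟩, .ofNat 2371, .ofNat 3238, .ofNat 0, .ofNat 3238, .ofNat 5183, .ofNat 0, .ofNat 128, .negSucc 654, .negSucc 2608, .ofNat 0, .ofNat 437, .ofNat 1673, .ofNat 0, .ofNat 0, .ofNat 2368, .ofNat 1710, .ofNat 0, .ofNat 0, .ofNat 0, .ofNat 0, .ofNat 0,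 .ofNat 0, .ofNat 12048484110088004392047957255514610466816, .ofNat 0, .ofNat 0, .ofNat 0, .ofNat 9111091798413788362804689557695689129984, .ofNat 0, .ofNat 0, .ofNat 0, .ofNat 0, .ofNat 0⟩)
    (by decide +kernel)
theorem L05864 : Good (Phi V5.P V5.D (-1) (-1)) ⟨6, 56, 5, 20, 3, 4, 3, 5, 4, 0⟩ :=
  leafX_sound T5.ok_mm T5.Ymm.bz_eq (w := 247) (c := ⟨⟨.ofNat 2940, .ofNat 495, .negSucc 51, .ofNat 1255, .negSucc 1509, .negSucc 5783⟩, ⟨.negSucc 1868, .negSucc 468, .ofNat 106, .negSucc 807, .ofNat 993, .ofNat 3774⟩, ⟨.negSucc 2815, .negSucc 425, .ofNat 35, .negSucc 878, .ofNat 1189, .ofNat 4809⟩, ⟨.ofNat 3550, .ofNat 519, .negSucc 5, .ofNat 1688, .negSucc 1968, .negSucc 8186⟩, ⟨.negSucc 978, .negSucc 164, .ofNat 89, .negSucc 156, .ofNat 250, .negSucc 30⟩, .ofNat 2384, .ofNat 3257, .ofNat 0, .ofNat 3257, .ofNat 5206, .ofNat 0, .ofNat 128, .negSucc 752, .negSucc 2418,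 .ofNat 0, .ofNat 509, .ofNat 1553, .ofNat 0, .ofNat 0, .ofNat 2344, .ofNat 1532, .ofNat 0, .ofNat 0, .ofNat 0, .ofNat 0, .ofNat 0, .ofNat 0, .ofNat 41155379665488905471523088561378516252229632, .ofNat 0, .ofNat 0, .ofNat 0, .ofNat 0, .ofNat 0, .ofNat 0, .ofNat 0, .ofNat 0, .ofNat 0⟩)
    (by decide +kernel)
theorem L05865 : Good (Phi V5.P V5.D (-1) (-1)) ⟨7, 112, 5, 20, 3, 5, 3, 5, 4, 0⟩ :=
  leafX_sound T5.ok_mm T5.Ymm.bz_eq (w := 250) (c := ⟨⟨.ofNat 3340, .ofNat 216, .negSucc 625, .ofNat 30, .negSucc 1099, .negSucc 3063⟩, ⟨.negSucc 2131, .negSucc 152, .ofNat 371, .negSucc 24, .ofNat 706, .ofNat 1964⟩, ⟨.negSucc 2879, .negSucc 39, .ofNat 333, .ofNat 438, .ofNat 702, .ofNat 2179⟩, ⟨.ofNat 4129, .ofNat 343, .negSucc 888, .ofNat 701, .negSucc 1655, .negSucc 5000⟩, ⟨.negSucc 1025, .ofNat 169, .negSucc 63, .ofNat 928, .negSucc 137, .negSucc 945⟩, .ofNat 1390, .ofNat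 1770, .ofNat 0, .ofNat 1770, .ofNat 2974, .ofNat 0, .ofNat 128, .negSucc 786, .negSucc 3851, .ofNat 0, .ofNat 522, .ofNat 2376, .ofNat 0, .ofNat 0, .ofNat 3384, .ofNat 1367, .ofNat 0, .ofNat 0, .ofNat 0, .ofNat 0, .ofNat 0, .ofNat 0, .ofNat 3448806541074276002866938186579030178791424, .ofNat 0, .ofNat 0, .ofNat 0, .ofNat 885890823262698852788285128307498618454016, .ofNat 0, .ofNat 0, .ofNat 0, .ofNat 0, .ofNat 0⟩)
    (by decide +kernel)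
theorem L05866 : Good (Phi V5.P V5.D (-1) (-1)) ⟨7, 113, 6, 40, 3, 5, 4, 10, 5, 0⟩ :=
  leafX_sound T5.ok_mm T5.Ymm.bz_eq (w := 269) (c := ⟨⟨.ofNat 3589, .ofNat 368, .negSucc 176, .negSucc 258, .negSucc 362, .negSucc 1052⟩, ⟨.negSucc 2318, .negSucc 272, .ofNat 108, .ofNat 175, .ofNat 234, .ofNat 678⟩, ⟨.negSucc 3053, .negSucc 382, .ofNat 200, .ofNat 776, .ofNat 181, .ofNat 733⟩, ⟨.ofNat 4510, .ofNat 298, .negSucc 211, .ofNat 195, .negSucc 524, .negSucc 1742⟩, ⟨.negSucc 898, .negSucc 272, .ofNat 60, .ofNat 865, .negSucc 19, .negSucc 392⟩, .ofNat 4958, .ofNat 7203, .ofNat 0, .ofNat 7203, .ofNat 11276, .ofNat 0, .ofNat 128, .negSucc 965, .negSucc 8821, .ofNat 0, .ofNat 635, .ofNat 5684, .ofNat 0, .ofNat 0, .ofNat 8201, .ofNat 2102, .ofNat 0, .ofNat 0, .ofNat 108364652330897463533871122036259504324083712, .ofNat 0, .ofNat 0, .ofNat 0, .ofNat 17860929562079443791365358219979764401931550720,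 .ofNat 0, .ofNat 0, .ofNat 0, .ofNat 39569732123775100838171201441086334305279410176, .ofNat 0, .ofNat 0, .ofNat 0, .ofNat 0, .ofNat 0⟩)
    (by decide +kernel)
theorem L05867 : Good (Phi V5.P V5.D (-1) (-1)) ⟨7, 113, 6, 41, 3, 5, 4, 10, 5, 0⟩ :=
  leafX_sound T5.ok_mm T5.Ymm.bz_eq (w := 269) (c := ⟨⟨.ofNat 3497, .ofNat 98, .ofNat 36, .negSucc 420, .negSucc 389, .negSucc 928⟩, ⟨.negSucc 2280, .negSucc 76, .negSucc 42, .ofNat 282, .ofNat 255, .ofNat 607⟩, ⟨.negSucc 2936, .negSucc 118, .negSucc 3, .ofNat 921, .ofNat 202, .ofNat 618⟩, ⟨.ofNat 4296, .ofNat 128, .ofNat 119, .negSucc 34, .negSucc 565, .negSucc 1490⟩, ⟨.negSucc 1001, .ofNat 34, .ofNat 115, .ofNat 843, .negSucc 24, .negSucc 278⟩, .ofNat 5874, .ofNat 8520, .ofNat 0, .ofNat 8520, .ofNat 13155, .ofNat 0, .ofNat 128, .negSucc 1159, .negSucc 9520, .ofNat 0, .ofNat 769, .ofNat 6216, .ofNat 0, .ofNat 0, .ofNat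 8843, .ofNat 8992, .ofNat 0, .ofNat 0, .ofNat 0, .ofNat 0, .ofNat 0, .ofNat 0, .ofNat 15413941128562238792485682483422673215518932992, .ofNat 0, .ofNat 0, .ofNat 0, .ofNat 16061757349705712707434069008913528832642777088, .ofNat 0, .ofNat 0, .ofNat 0, .ofNat 0, .ofNat 0⟩)
    (by decide +kernel)
theorem L05868 : Good (Phi V5.P V5.D (-1) (-1)) ⟨7, 113, 5, 20, 3, 5, 4, 11, 5, 0⟩ :=
  leafX_sound T5.ok_mm T5.Ymm.bz_eq (w := 266) (c := ⟨⟨.ofNat 3173, .negSucc 89, .ofNat 34, .negSucc 139, .negSucc 485, .negSucc 1224⟩, ⟨.negSucc 2052, .ofNat 33, .negSucc 37, .ofNat 97, .ofNat 316, .ofNat 794⟩, ⟨.negSucc 2805, .ofNat 132, .negSucc 58, .ofNat 661, .ofNat 298, .ofNat 880⟩, ⟨.ofNat 3600, .ofNat 4, .ofNat 88, .ofNat 168, .negSucc 516, .negSucc 1420⟩, ⟨.negSucc 1382, .ofNat 222, .ofNat 109, .ofNat 559, .ofNat 256, .ofNat 461⟩, .ofNat 9062, .ofNat 13413, .ofNat 0, .ofNat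 13413, .ofNat 20675, .ofNat 0, .ofNat 128, .negSucc 806, .negSucc 5113, .ofNat 0, .ofNat 533, .ofNat 3328, .ofNat 0, .ofNat 0, .ofNat 4757, .ofNat 1841, .ofNat 0, .ofNat 0, .ofNat 0, .ofNat 0, .ofNat 0, .ofNat 0, .ofNat 84790016516429564181297104607199271969166983168, .ofNat 0, .ofNat 0, .ofNat 0, .ofNat 0, .ofNat 0, .ofNat 0, .ofNat 0, .ofNat 0, .ofNat 0⟩)
    (by decide +kernel)
theorem L05869 : Good (Phi V5.P V5.D (-1) (-1)) ⟨7, 113, 5, 20, 3, 5, 3, 5, 5, 1⟩ :=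
  leafX_sound T5.ok_mm T5.Ymm.bz_eq (w := 257) (c := ⟨⟨.ofNat 1852, .negSucc 55, .negSucc 11, .ofNat 1070, .negSucc 1352, .negSucc 2351⟩, ⟨.negSucc 1210, .ofNat 75, .negSucc 42, .negSucc 701, .ofNat 891, .ofNat 1539⟩, ⟨.negSucc 1627, .ofNat 265, .negSucc 181, .negSucc 475, .ofNat 940, .ofNat 1673⟩, ⟨.ofNat 1889, .negSucc 130, .ofNat 110, .ofNat 1858, .negSucc 1979, .negSucc 3624⟩, ⟨.negSucc 1132, .negSucc 58, .ofNat 224, .ofNat 513, .negSucc 106, .negSucc 457⟩, .ofNat 2406, .ofNat 3285, .ofNat 0, .ofNat 3285, .ofNat 5240, .ofNat 0, .ofNat 128, .negSucc 848, .negSucc 3706, .ofNat 0, .ofNat 564, .ofNat 2372, .ofNat 0, .ofNat 0, .ofNat 3198, .ofNat 1920, .ofNat 0, .ofNat 0, .ofNat 0, .ofNat 0, .ofNat 0, .ofNat 0, .ofNat 797944030145629981853396010467319514486800384, .ofNat 0, .ofNat 0, .ofNat 0, .ofNat 0, .ofNat 0, .ofNat 0, .ofNat 0, .ofNat 543238144158133881651916776992949889734279168,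 .ofNat 0⟩)
    (by decide +kernel)
theorem L05870 : Good (Phi V5.P V5.D (-1) (-1)) ⟨7, 112, 5, 21, 2, 2, 3, 5, 5, 0⟩ :=
  out_sound (S := T5.ds_mm) T5.ok_mm (w := 73) (j := 3) (by decide +kernel)
theorem L05871 : Good (Phi V5.P V5.D (-1) (-1)) ⟨7, 113, 5, 21, 3, 4, 4, 10, 5, 0⟩ :=
  leafX_sound T5.ok_mm T5.Ymm.bz_eq (w := 267) (c := ⟨⟨.ofNat 3435, .ofNat 281, .ofNat 208, .ofNat 601, .negSucc 678, .negSucc 2732⟩, ⟨.negSucc 2133, .negSucc 328, .negSucc 133, .negSucc 399, .ofNat 450, .ofNat 1808⟩, ⟨.negSucc 2731, .negSucc 810, .negSucc 329, .negSucc 160, .ofNat 475, .ofNat 2253⟩, ⟨.ofNat 4001, .ofNat 363, .ofNat 170, .ofNat 1073, .negSucc 925, .negSucc 3884⟩, ⟨.negSucc 1220, .negSucc 80, .negSucc 53, .ofNat 334, .ofNat 44, .negSucc 58⟩, .ofNat 4092, .ofNat 5859, .ofNat 0, .ofNat 5859, .ofNat 9167, .ofNat 0, .ofNat 128, .negSucc 1449, .negSucc 16298, .ofNat 0, .ofNat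 963, .ofNat 10604, .ofNat 0, .ofNat 0, .ofNat 15899, .ofNat 6377, .ofNat 0, .ofNat 0, .ofNat 0, .ofNat 0, .ofNat 0, .ofNat 0, .ofNat 131459474029536236564107524645360573994183426048, .ofNat 0, .ofNat 0, .ofNat 0, .ofNat 60641333213290286535313211729157560736294109184, .ofNat 0, .ofNat 0, .ofNat 0, .ofNat 0, .ofNat 0⟩)
    (by decide +kernel)
theorem L05872 : Good (Phi V5.P V5.D (-1) (-1)) ⟨7, 113, 5, 21, 3, 5, 4, 10, 5, 0⟩ :=
  leafX_sound T5.ok_mm T5.Ymm.bz_eq (w := 266) (c := ⟨⟨.ofNat 3307, .ofNat 369, .ofNat 233, .negSucc 585, .negSucc 351, .negSucc 870⟩, ⟨.negSucc 2006, .negSucc 426, .negSucc 170, .ofNat 388, .ofNat 232, .ofNat 575⟩, ⟨.negSucc 2180, .negSucc 924, .negSucc 212, .ofNat 1064, .ofNat 169, .ofNat 570⟩, ⟨.ofNat 4003, .ofNat 484, .ofNat 220, .negSucc 41, .negSucc 545, .negSucc 1521⟩, ⟨.negSucc 926, .negSucc 97, .negSucc 66, .ofNat 1169, .negSucc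 77, .negSucc 445⟩, .ofNat 4092, .ofNat 5859, .ofNat 0, .ofNat 5859, .ofNat 9167, .ofNat 0, .ofNat 128, .negSucc 1604, .negSucc 12984, .ofNat 0, .ofNat 1059, .ofNat 8433, .ofNat 0, .ofNat 0, .ofNat 11976, .ofNat 3835, .ofNat 0, .ofNat 0, .ofNat 305539547939838840010879772080565094333808640, .ofNat 0, .ofNat 0, .ofNat 0, .ofNat 135201467188468587681325107803528055210698080256, .ofNat 0, .ofNat 0, .ofNat 0, .ofNat 71495054815760500714835491746422888527390834688, .ofNat 0, .ofNat 0, .ofNat 0, .ofNat 0, .ofNat 0⟩)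
    (by decide +kernel)
theorem L05873 : Good (Phi V5.P V5.D (-1) (-1)) ⟨7, 113, 5, 21, 3, 4, 4, 11, 5, 0⟩ :=
  leafX_sound T5.ok_mm T5.Ymm.bz_eq (w := 269) (c := ⟨⟨.ofNat 3101, .negSucc 305, .negSucc 172, .ofNat 1250, .negSucc 937, .negSucc 3010⟩, ⟨.negSucc 2072, .ofNat 221, .ofNat 149, .negSucc 827, .ofNat 620, .ofNat 1990⟩, ⟨.negSucc 2979, .ofNat 156, .ofNat 505, .negSucc 815, .ofNat 756, .ofNat 2578⟩, ⟨.ofNat 3322, .negSucc 203, .negSucc 169, .ofNat 1795, .negSucc 1237, .negSucc 4075⟩, ⟨.negSucc 1310, .ofNat 85, .ofNat 71, .ofNat 55, .ofNat 123, .ofNat 232⟩, .ofNat 6505, .ofNat 9426, .ofNat 0, .ofNat 9426, .ofNat 14448, .ofNat 0, .ofNat 128, .negSucc 2934, .negSucc 22169, .ofNat 0, .ofNat 1970, .ofNat 14592, .ofNat 0, .ofNat 0, .ofNat 21835, .ofNat 9746, .ofNat 0, .ofNat 0, .ofNat 0, .ofNat 0, .ofNat 0, .ofNat 0, .ofNat 196009817964229113690583331693870435431633387520,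 .ofNat 0, .ofNat 0, .ofNat 0, .ofNat 152251777525259066770456389441960036989789011968, .ofNat 0, .ofNat 0, .ofNat 0, .ofNat 0, .ofNat 0⟩)
    (by decide +kernel)
theorem L05874 : Good (Phi V5.P V5.D (-1) (-1)) ⟨8, 226, 5, 21, 3, 5, 4, 11, 5, 0⟩ :=
  out_sound (S := T5.ds_mm) T5.ok_mm (w := 79) (j := 3) (by decide +kernel)
theorem L05875 : Good (Phi V5.P V5.D (-1) (-1)) ⟨8, 227, 6, 42, 3, 5, 4, 11, 5, 0⟩ :=
  leafX_sound T5.ok_mm T5.Ymm.bz_eq (w := 268) (c := ⟨⟨.ofNat 3286, .negSucc 26, .ofNat 89, .negSucc 289, .negSucc 483, .negSucc 1228⟩, ⟨.negSucc 2166, .ofNat 11, .negSucc 87, .ofNat 192, .ofNat 320, .ofNat 810⟩, ⟨.negSucc 2781, .negSucc 82, .negSucc 80, .ofNat 785, .ofNat 305, .ofNat 877⟩, ⟨.ofNat 4051, .negSucc 74, .ofNat 179, .ofNat 162, .negSucc 731, .negSucc 1981⟩, ⟨.negSucc 907, .ofNat 1, .negSucc 4, .ofNat 841, .negSucc 74, .negSucc 380⟩, .ofNat 1530,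 .ofNat 1947, .ofNat 0, .ofNat 1947, .ofNat 3171, .ofNat 0, .ofNat 128, .negSucc 640, .negSucc 5081, .ofNat 0, .ofNat 434, .ofNat 3227, .ofNat 0, .ofNat 0, .ofNat 4538, .ofNat 4399, .ofNat 0, .ofNat 0, .ofNat 0, .ofNat 0, .ofNat 0, .ofNat 0, .ofNat 3721499596165426217201700956028833427974258688, .ofNat 0, .ofNat 0, .ofNat 0, .ofNat 34785207025064002371583950169057563058569740288, .ofNat 0, .ofNat 0, .ofNat 0, .ofNat 4180472128352333935777232120889471172169695232, .ofNat 0⟩)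
    (by decide +kernel)
theorem L05876 : Good (Phi V5.P V5.D (-1) (-1)) ⟨8, 227, 6, 43, 3, 5, 4, 11, 5, 0⟩ :=
  out_sound (S := T5.ds_mm) T5.ok_mm (w := 81) (j := 3) (by decide +kernel)
theorem L05877 : Good (Phi V5.P V5.D (-1) (-1)) ⟨6, 56, 5, 21, 2, 2, 3, 5, 5, 1⟩ :=
  leafX_sound T5.ok_mm T5.Ymm.bz_eq (w := 252) (c := ⟨⟨.ofNat 112, .ofNat 0, .negSucc 215, .ofNat 2770, .negSucc 1390, .negSucc 2200⟩, ⟨.negSucc 76, .ofNat 0, .ofNat 121, .negSucc 1830, .ofNat 921, .ofNat 1455⟩, ⟨.negSucc 394, .ofNat 0, .negSucc 733, .negSucc 1687, .ofNat 1017, .ofNat 1558⟩, ⟨.negSucc 53, .ofNat 0, .negSucc 50, .ofNat 2799, .negSucc 1440, .negSucc 2234⟩, ⟨.negSucc 331, .ofNat 0, .ofNat 31, .negSucc 1626, .ofNat 779, .ofNat 1279⟩, .ofNat 29168, .ofNat 43558, .ofNat 0, .ofNat 43558, .ofNat 65859, .ofNat 0, .ofNat 128, .negSucc 5900, .negSucc 23288, .ofNat 0, .ofNat 3926, .ofNat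 15412, .ofNat 0, .ofNat 0, .ofNat 21329, .ofNat 6275, .ofNat 0, .ofNat 0, .ofNat 48489902149046363480011988090684906143744, .ofNat 0, .ofNat 0, .ofNat 0, .ofNat 1969523534434390620300503516280810245193728, .ofNat 0, .ofNat 0, .ofNat 0, .ofNat 28735622836891743440103751154413027406643200, .ofNat 0, .ofNat 0, .ofNat 0, .ofNat 11242050188499801737938065749129843431178240, .ofNat 0⟩)
    (by decide +kernel)
theorem L05878 : Good (Phi V5.P V5.D (-1) (-1)) ⟨7, 114, 4, 10, 3, 4, 4, 8, 6, 0⟩ :=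
  leafX_sound T5.ok_mm T5.Ymm.bz_eq (w := 266) (c := ⟨⟨.ofNat 5436, .ofNat 9, .ofNat 70, .negSucc 702, .negSucc 538, .negSucc 805⟩, ⟨.negSucc 3613, .negSucc 87, .negSucc 31, .ofNat 470, .ofNat 358, .ofNat 536⟩, ⟨.negSucc 4748, .negSucc 33, .ofNat 19, .ofNat 1048, .ofNat 264, .ofNat 606⟩, ⟨.ofNat 6547, .ofNat 36, .ofNat 42, .negSucc 640, .negSucc 629, .negSucc 1251⟩, ⟨.negSucc 1707, .ofNat 101, .ofNat 37, .ofNat 508, .ofNat 189, .negSucc 178⟩, .ofNat 2697, .ofNat 3679, .ofNat 0, .ofNat 3679, .ofNat 5754, .ofNat 0, .ofNat 128, .negSucc 1706, .negSucc 10904, .ofNat 0, .ofNat 1164, .ofNat 7151, .ofNat 0, .ofNat 0, .ofNat 10635, .ofNat 3082, .ofNat 0, .ofNat 0, .ofNat 0, .ofNat 0, .ofNat 0, .ofNat 0, .ofNat 72588252337911220608804430753254141440003407872, .ofNat 1548837669802020909628694856505406871099739266713894518784, .ofNat 0, .ofNat 0, .ofNat 0, .ofNat 0, .ofNat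 0, .ofNat 0, .ofNat 0, .ofNat 0⟩)
    (by decide +kernel)
theorem L05879 : Good (Phi V5.P V5.D (-1) (-1)) ⟨7, 114, 4, 10, 3, 4, 4, 8, 6, 1⟩ :=
  leafX_sound T5.ok_mm T5.Ymm.bz_eq (w := 261) (c := ⟨⟨.ofNat 3638, .ofNat 79, .ofNat 215, .ofNat 745, .negSucc 726, .negSucc 1232⟩, ⟨.negSucc 2526, .negSucc 211, .ofNat 82, .negSucc 496, .ofNat 485, .ofNat 820⟩, ⟨.negSucc 3532, .negSucc 285, .ofNat 335, .negSucc 174, .ofNat 449, .ofNat 931⟩, ⟨.ofNat 4407, .ofNat 410, .negSucc 466, .ofNat 1201, .negSucc 889, .negSucc 1786⟩, ⟨.negSucc 1753, .negSucc 79, .ofNat 208, .ofNat 211, .ofNat 196, .negSucc 77⟩, .ofNat 937, .ofNat 1065, .ofNat 0, .ofNat 1065, .ofNat 1821, .ofNat 0, .ofNat 128, .negSucc 612, .negSucc 6389, .ofNat 0, .ofNat 436, .ofNat 4032, .ofNat 0, .ofNat 0, .ofNat 5863, .ofNat 1106, .ofNat 0, .ofNat 0, .ofNat 554801743874548156167925056983334031900803072, .ofNat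 0, .ofNat 0, .ofNat 0, .ofNat 33416039477965617760288454273396731032081793024, .ofNat 0, .ofNat 0, .ofNat 0, .ofNat 0, .ofNat 0, .ofNat 0, .ofNat 0, .ofNat 0, .ofNat 0⟩)
    (by decide +kernel)
theorem L05880 : Good (Phi V5.P V5.D (-1) (-1)) ⟨7, 114, 4, 10, 3, 5, 4, 8, 6, 0⟩ :=
  leafX_sound T5.ok_mm T5.Ymm.bz_eq (w := 265) (c := ⟨⟨.ofNat 4369, .negSucc 79, .ofNat 63, .negSucc 1130, .negSucc 217, .negSucc 227⟩, ⟨.negSucc 2779, .ofNat 94, .negSucc 270, .ofNat 756, .ofNat 144, .ofNat 151⟩, ⟨.negSucc 3397, .ofNat 36, .ofNat 9, .ofNat 1507, .ofNat 19, .ofNat 119⟩, ⟨.ofNat 5482, .negSucc 89, .ofNat 17, .negSucc 714, .negSucc 301, .negSucc 496⟩, ⟨.negSucc 1052, .ofNat 61, .ofNat 11, .ofNat 1306, .ofNat 8, .negSucc 264⟩, .ofNat 2703, .ofNat 3687, .ofNat 0, .ofNat 3687, .ofNat 5764, .ofNat 0, .ofNat 128, .negSucc 1093, .negSucc 6378, .ofNat 0, .ofNat 736, .ofNat 4173,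 .ofNat 0, .ofNat 0, .ofNat 6173, .ofNat 1644, .ofNat 0, .ofNat 0, .ofNat 656832142456242450427039690689665464730124288, .ofNat 0, .ofNat 0, .ofNat 0, .ofNat 150286149318442610374707792435749046156508790784, .ofNat 0, .ofNat 0, .ofNat 0, .ofNat 0, .ofNat 0, .ofNat 0, .ofNat 0, .ofNat 0, .ofNat 0⟩)
    (by decide +kernel)
theorem L05881 : Good (Phi V5.P V5.D (-1) (-1)) ⟨7, 114, 4, 10, 3, 5, 4, 8, 6, 1⟩ :=
  leafX_sound T5.ok_mm T5.Ymm.bz_eq (w := 260) (c := ⟨⟨.ofNat 3914, .ofNat 69, .ofNat 56, .negSucc 651, .negSucc 310, .negSucc 333⟩, ⟨.negSucc 2598, .negSucc 106, .negSucc 27, .ofNat 435, .ofNat 206, .ofNat 221⟩, ⟨.negSucc 3078, .negSucc 60, .ofNat 3, .ofNat 1105, .ofNat 95, .ofNat 183⟩, ⟨.ofNat 4623, .ofNat 43, .ofNat 92, .negSucc 61, .negSucc 422, .negSucc 656⟩, ⟨.negSucc 1311, .negSucc 0, .ofNat 14, .ofNat 1264, .ofNat 19, .negSucc 281⟩, .ofNat 936, .ofNat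 1063, .ofNat 0, .ofNat 1063, .ofNat 1819, .ofNat 0, .ofNat 128, .negSucc 413, .negSucc 2938, .ofNat 0, .ofNat 282, .ofNat 1828, .ofNat 0, .ofNat 0, .ofNat 2551, .ofNat 5190, .ofNat 0, .ofNat 0, .ofNat 0, .ofNat 0, .ofNat 0, .ofNat 0, .ofNat 18829837884086822040734555792875741336811077632, .ofNat 103417019256547466479935650253541036446528221415007584256, .ofNat 0, .ofNat 0, .ofNat 18284454908293176995187488847276299422875516928, .ofNat 0, .ofNat 0, .ofNat 0, .ofNat 0, .ofNat 0⟩)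
    (by decide +kernel)
theorem L05882 : Good (Phi V5.P V5.D (-1) (-1)) ⟨7, 114, 5, 20, 3, 4, 4, 9, 5, 0⟩ :=
  leafX_sound T5.ok_mm T5.Ymm.bz_eq (w := 275) (c := ⟨⟨.ofNat 4714, .negSucc 1, .negSucc 40, .negSucc 152, .negSucc 562, .negSucc 2398⟩, ⟨.negSucc 2931, .ofNat 1, .negSucc 163, .ofNat 102, .ofNat 373, .ofNat 1583⟩, ⟨.negSucc 4173, .ofNat 1, .negSucc 63, .ofNat 556, .ofNat 328, .ofNat 1897⟩, ⟨.ofNat 5430, .negSucc 1, .ofNat 4, .ofNat 43, .negSucc 708, .negSucc 2861⟩, ⟨.negSucc 1711, .ofNat 1, .negSucc 1, .ofNat 384, .ofNat 127, .ofNat 761⟩, .ofNat 14066, .ofNat 20812, .ofNat 0, .ofNat 20812, .ofNat 31596, .ofNat 0, .ofNat 128, .negSucc 7866, .negSucc 93816, .ofNat 0, .ofNat 5250, .ofNat 62026, .ofNat 0, .ofNat 0, .ofNat 91686, .ofNat 74575, .ofNat 0, .ofNat 0, .ofNat 0, .ofNat 0, .ofNat 0, .ofNat 0, .ofNat 101623607985045761078464499418825457878376984346624,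 .ofNat 0, .ofNat 0, .ofNat 0, .ofNat 50385193127103405562936673401466052036176946135040, .ofNat 0, .ofNat 0, .ofNat 0, .ofNat 0, .ofNat 0⟩)
    (by decide +kernel)
theorem L05883 : Good (Phi V5.P V5.D (-1) (-1)) ⟨7, 114, 6, 42, 3, 4, 4, 9, 5, 0⟩ :=
  leafX_sound T5.ok_mm T5.Ymm.bz_eq (w := 270) (c := ⟨⟨.ofNat 4615, .ofNat 107, .negSucc 128, .ofNat 188, .negSucc 607, .negSucc 2427⟩, ⟨.negSucc 3061, .negSucc 101, .ofNat 70, .negSucc 125, .ofNat 406, .ofNat 1618⟩, ⟨.negSucc 4193, .negSucc 118, .ofNat 134, .ofNat 253, .ofNat 378, .ofNat 1930⟩, ⟨.ofNat 5404, .ofNat 39, .negSucc 75, .ofNat 469, .negSucc 669, .negSucc 3318⟩, ⟨.negSucc 1625, .ofNat 21, .ofNat 112, .ofNat 305, .ofNat 274, .ofNat 122⟩, .ofNat 7323, .ofNat 10596, .ofNat 0, .ofNat 10596, .ofNat 16112, .ofNat 0, .ofNat 128, .negSucc 1099, .negSucc 9180, .ofNat 0, .ofNat 741, .ofNat 6091, .ofNat 0, .ofNat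 0, .ofNat 8934, .ofNat 11098, .ofNat 0, .ofNat 0, .ofNat 0, .ofNat 0, .ofNat 0, .ofNat 0, .ofNat 42846764002402465782961788467813065535910838272, .ofNat 0, .ofNat 0, .ofNat 0, .ofNat 28615985458897286068566598390675590160291201024, .ofNat 0, .ofNat 0, .ofNat 0, .ofNat 402843928266086706521169665629929382829835157504, .ofNat 0⟩)
    (by decide +kernel)
theorem L05884 : Good (Phi V5.P V5.D (-1) (-1)) ⟨8, 228, 6, 43, 3, 4, 4, 9, 5, 0⟩ :=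
  out_sound (S := T5.ds_mm) T5.ok_mm (w := 81) (j := 3) (by decide +kernel)
theorem L05885 : Good (Phi V5.P V5.D (-1) (-1)) ⟨8, 229, 6, 43, 3, 4, 4, 9, 5, 0⟩ :=
  out_sound (S := T5.ds_mm) T5.ok_mm (w := 23) (j := 4) (by decide +kernel)
theorem L05886 : Good (Phi V5.P V5.D (-1) (-1)) ⟨7, 114, 5, 20, 3, 5, 4, 9, 5, 0⟩ :=
  leafX_sound T5.ok_mm T5.Ymm.bz_eq (w := 265) (c := ⟨⟨.ofNat 4064, .negSucc 1, .negSucc 22, .negSucc 815, .negSucc 301, .negSucc 659⟩, ⟨.negSucc 2765, .ofNat 1, .ofNat 92, .ofNat 541, .ofNat 200, .ofNat 434⟩, ⟨.negSucc 3250, .ofNat 1, .negSucc 6, .ofNat 1249, .ofNat 108, .ofNat 388⟩, ⟨.ofNat 5042, .negSucc 1, .negSucc 16, .negSucc 337, .negSucc 444, .negSucc 1276⟩, ⟨.negSucc 991, .ofNat 0, .ofNat 5, .ofNat 1208, .negSucc 29, .negSucc 523⟩, .ofNat 2568, .ofNat 3503, .ofNat 0, .ofNat 3503, .ofNat 5519, .ofNat 0, .ofNat 128, .negSucc 1573, .negSucc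 11622, .ofNat 0, .ofNat 1053, .ofNat 7536, .ofNat 0, .ofNat 0, .ofNat 10753, .ofNat 20483, .ofNat 0, .ofNat 0, .ofNat 0, .ofNat 0, .ofNat 0, .ofNat 0, .ofNat 2276317034637459497990083320119369088522554179584, .ofNat 0, .ofNat 0, .ofNat 0, .ofNat 1248054822461760543748725812824847097647438233600, .ofNat 0, .ofNat 0, .ofNat 0, .ofNat 0, .ofNat 0⟩)
    (by decide +kernel)
theorem L05887 : Good (Phi V5.P V5.D (-1) (-1)) ⟨7, 114, 5, 21, 3, 5, 4, 9, 5, 0⟩ :=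
  leafX_sound T5.ok_mm T5.Ymm.bz_eq (w := 267) (c := ⟨⟨.ofNat 3933, .negSucc 41, .ofNat 31, .negSucc 727, .negSucc 223, .negSucc 614⟩, ⟨.negSucc 2607, .ofNat 32, .negSucc 85, .ofNat 488, .ofNat 149, .ofNat 407⟩, ⟨.negSucc 3179, .ofNat 35, .negSucc 3, .ofNat 1184, .ofNat 46, .ofNat 360⟩, ⟨.ofNat 4887, .negSucc 5, .ofNat 11, .negSucc 400, .negSucc 315, .negSucc 968⟩, ⟨.negSucc 960, .ofNat 62, .ofNat 45, .ofNat 925, .negSucc 2, .negSucc 159⟩, .ofNat 8455, .ofNat 12236, .ofNat 0, .ofNat 12236, .ofNat 18480, .ofNat 0, .ofNat 128, .negSucc 1266, .negSucc 10055, .ofNat 0, .ofNat 852, .ofNat 6705, .ofNat 0, .ofNat 0, .ofNat 9449, .ofNat 6725, .ofNat 0, .ofNat 0, .ofNat 0, .ofNat 0, .ofNat 0, .ofNat 0, .ofNat 108187809239496305063361243447411447700861747200, .ofNat 0, .ofNat 0, .ofNat 0, .ofNat 13002389429158285436385458295824446367119441920, .ofNat 9379777401535272202022995660126616073680095744846735605760,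 .ofNat 0, .ofNat 0, .ofNat 0, .ofNat 0⟩)
    (by decide +kernel)
theorem L05888 : Good (Phi V5.P V5.D (-1) (-1)) ⟨7, 115, 4, 10, 2, 2, 3, 4, 5, 0⟩ :=
  out_sound (S := T5.ds_mm) T5.ok_mm (w := 21) (j := 4) (by decide +kernel)
theorem L05889 : Good (Phi V5.P V5.D (-1) (-1)) ⟨7, 114, 5, 20, 3, 4, 4, 10, 5, 0⟩ :=
  leafX_sound T5.ok_mm T5.Ymm.bz_eq (w := 270) (c := ⟨⟨.ofNat 3754, .negSucc 0, .negSucc 40, .ofNat 817, .negSucc 836, .negSucc 2848⟩, ⟨.negSucc 2183, .ofNat 1, .negSucc 275, .negSucc 539, .ofNat 553, .ofNat 1882⟩, ⟨.negSucc 3555, .ofNat 1, .ofNat 3, .negSucc 348, .ofNat 629, .ofNat 2365⟩, ⟨.ofNat 4289, .negSucc 0, .ofNat 14, .ofNat 1243, .negSucc 1028, .negSucc 3861⟩, ⟨.negSucc 1378, .ofNat 1, .negSucc 4, .ofNat 141, .ofNat 220, .ofNat 211⟩, .ofNat 6369, .ofNat 9220, .ofNat 0, .ofNat 9220, .ofNat 14135, .ofNat 0, .ofNat 128, .negSucc 3317, .negSucc 31944,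 .ofNat 0, .ofNat 2227, .ofNat 21034, .ofNat 0, .ofNat 0, .ofNat 31294, .ofNat 52306, .ofNat 0, .ofNat 0, .ofNat 0, .ofNat 0, .ofNat 0, .ofNat 0, .ofNat 54354130328491393960657393709282209386057223372800, .ofNat 0, .ofNat 0, .ofNat 0, .ofNat 45313119853480867515350063027532088446283442814976, .ofNat 0, .ofNat 0, .ofNat 0, .ofNat 1500353443351857119512219251461264249562872152064, .ofNat 0⟩)
    (by decide +kernel)
theorem L05890 : Good (Phi V5.P V5.D (-1) (-1)) ⟨7, 114, 6, 42, 3, 4, 4, 10, 5, 0⟩ :=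
  leafX_sound T5.ok_mm T5.Ymm.bz_eq (w := 271) (c := ⟨⟨.ofNat 3772, .negSucc 49, .ofNat 134, .ofNat 398, .negSucc 530, .negSucc 2690⟩, ⟨.negSucc 2499, .ofNat 172, .negSucc 189, .negSucc 262, .ofNat 353, .ofNat 1787⟩, ⟨.negSucc 3603, .ofNat 329, .negSucc 262, .ofNat 46, .ofNat 336, .ofNat 2212⟩, ⟨.ofNat 4257, .ofNat 121, .ofNat 294, .ofNat 491, .negSucc 648, .negSucc 3140⟩, ⟨.negSucc 1568, .ofNat 170, .ofNat 267, .negSucc 103, .ofNat 146, .ofNat 933⟩, .ofNat 12201, .ofNat 17813, .ofNat 0, .ofNat 17813, .ofNat 26788, .ofNat 0, .ofNat 128, .negSucc 755, .negSucc 9227, .ofNat 0, .ofNat 511, .ofNat 6160, .ofNat 0, .ofNat 0, .ofNat 9016, .ofNat 2483, .ofNat 0, .ofNat 0, .ofNat 491818644601644029274642989439790883247489024, .ofNat 0, .ofNat 0, .ofNat 0, .ofNat 671097147245334653617608220519218474272732217344, .ofNat 0, .ofNat 0, .ofNat 0, .ofNat 0, .ofNat 0, .ofNat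 0, .ofNat 0, .ofNat 0, .ofNat 0⟩)
    (by decide +kernel)
theorem L05891 : Good (Phi V5.P V5.D (-1) (-1)) ⟨8, 228, 6, 43, 3, 4, 4, 10, 5, 0⟩ :=
  out_sound (S := T5.ds_mm) T5.ok_mm (w := 81) (j := 3) (by decide +kernel)
theorem L05892 : Good (Phi V5.P V5.D (-1) (-1)) ⟨8, 229, 6, 43, 3, 4, 4, 10, 5, 0⟩ :=
  out_sound (S := T5.ds_mm) T5.ok_mm (w := 23) (j := 4) (by decide +kernel)
theorem L05893 : Good (Phi V5.P V5.D (-1) (-1)) ⟨7, 114, 4, 10, 3, 5, 4, 10, 6, 0⟩ :=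
  leafX_sound T5.ok_mm T5.Ymm.bz_eq (w := 265) (c := ⟨⟨.ofNat 3715, .ofNat 100, .ofNat 23, .negSucc 680, .negSucc 296, .negSucc 435⟩, ⟨.negSucc 2437, .negSucc 97, .negSucc 64, .ofNat 455, .ofNat 198, .ofNat 290⟩, ⟨.negSucc 3111, .negSucc 26, .negSucc 108, .ofNat 1169, .ofNat 119, .ofNat 303⟩, ⟨.ofNat 4578, .ofNat 86, .ofNat 72, .negSucc 283, .negSucc 468, .negSucc 740⟩, ⟨.negSucc 933, .ofNat 24, .negSucc 6, .ofNat 1003, .negSucc 79, .negSucc 192⟩, .ofNat 2681, .ofNat 3658, .ofNat 0, .ofNat 3658, .ofNat 5725, .ofNat 0, .ofNat 128, .negSucc 811, .negSucc 7090, .ofNat 0, .ofNat 546, .ofNat 4622, .ofNat 0, .ofNat 0, .ofNat 6595, .ofNat 6145, .ofNat 0, .ofNat 0, .ofNat 0, .ofNat 0, .ofNat 0, .ofNat 0, .ofNat 91967944744508689389303733816321536987097989120, .ofNat 1592388979673330231989237739058661711462928953273470681088, .ofNat 0, .ofNat 0, .ofNat 105561943399329913942868537039141477484077252608,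 .ofNat 7882496085641631524612961649318874560183961098671276163072, .ofNat 0, .ofNat 0, .ofNat 0, .ofNat 0⟩)
    (by decide +kernel)
theorem L05894 : Good (Phi V5.P V5.D (-1) (-1)) ⟨7, 114, 4, 10, 4, 10, 4, 10, 6, 1⟩ :=
  leafX_sound T5.ok_mm T5.Ymm.bz_eq (w := 274) (c := ⟨⟨.ofNat 2911, .ofNat 44, .ofNat 241, .ofNat 155, .negSucc 563, .negSucc 797⟩, ⟨.negSucc 2045, .negSucc 179, .ofNat 70, .negSucc 103, .ofNat 376, .ofNat 531⟩, ⟨.negSucc 2641, .negSucc 144, .ofNat 48, .ofNat 121, .ofNat 363, .ofNat 601⟩, ⟨.ofNat 3638, .ofNat 273, .negSucc 195, .ofNat 455, .negSucc 770, .negSucc 1229⟩, ⟨.negSucc 1128, .negSucc 11, .ofNat 75, .ofNat 346, .ofNat 34, .negSucc 162⟩, .ofNat 895, .ofNat 996, .ofNat 0, .ofNat 996, .ofNat 1710, .ofNat 0, .ofNat 128, .negSucc 299, .negSucc 3570, .ofNat 0, .ofNat 211, .ofNat 2216, .ofNat 0, .ofNat 0, .ofNat 3121, .ofNat 2424, .ofNat 0,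 .ofNat 0, .ofNat 0, .ofNat 0, .ofNat 0, .ofNat 0, .ofNat 528704513674313179811477805609998547902640869605376, .ofNat 7845840735556796409463816680867006346679356808748363189059584, .ofNat 0, .ofNat 0, .ofNat 81270913999350096967401761939433909105452002574336, .ofNat 0, .ofNat 0, .ofNat 0, .ofNat 0, .ofNat 0⟩)
    (by decide +kernel)
theorem L05895 : Good (Phi V5.P V5.D (-1) (-1)) ⟨7, 114, 4, 10, 4, 11, 4, 10, 6, 1⟩ :=
  leafX_sound T5.ok_mm T5.Ymm.bz_eq (w := 276) (c := ⟨⟨.ofNat 2936, .ofNat 13, .ofNat 67, .negSucc 145, .negSucc 412, .negSucc 422⟩, ⟨.negSucc 1985, .negSucc 87, .ofNat 33, .ofNat 98, .ofNat 275, .ofNat 282⟩, ⟨.negSucc 2307, .negSucc 28, .ofNat 22, .ofNat 415, .ofNat 222, .ofNat 270⟩, ⟨.ofNat 3728, .ofNat 52, .negSucc 0, .ofNat 145, .negSucc 618, .negSucc 753⟩, ⟨.negSucc 685, .ofNat 40, .ofNat 22, .ofNat 520, .negSucc 58, .negSucc 238⟩, .ofNat 1567,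 .ofNat 1995, .ofNat 0, .ofNat 1995, .ofNat 3225, .ofNat 0, .ofNat 128, .negSucc 458, .negSucc 4682, .ofNat 0, .ofNat 308, .ofNat 2988, .ofNat 0, .ofNat 0, .ofNat 4003, .ofNat 3989, .ofNat 0, .ofNat 0, .ofNat 0, .ofNat 0, .ofNat 0, .ofNat 0, .ofNat 1549757884267885635852234180449622095373251628761088, .ofNat 0, .ofNat 0, .ofNat 0, .ofNat 421644077740473480000146189831105349265943821287424, .ofNat 58526933344650480499522099669098338112274915475051391196594176, .ofNat 0, .ofNat 0, .ofNat 0, .ofNat 0⟩)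
    (by decide +kernel)
theorem L05896 : Good (Phi V5.P V5.D (-1) (-1)) ⟨7, 114, 4, 10, 3, 4, 4, 11, 5, 0⟩ :=
  leafX_sound T5.ok_mm T5.Ymm.bz_eq (w := 260) (c := ⟨⟨.ofNat 2961, .ofNat 95, .negSucc 183, .ofNat 1343, .negSucc 837, .negSucc 3160⟩, ⟨.negSucc 1867, .negSucc 6, .negSucc 70, .negSucc 896, .ofNat 558, .ofNat 2108⟩, ⟨.negSucc 2824, .ofNat 105, .negSucc 177, .negSucc 884, .ofNat 660, .ofNat 2725⟩, ⟨.ofNat 3263, .ofNat 34, .negSucc 29, .ofNat 1925, .negSucc 1101, .negSucc 4401⟩, ⟨.negSucc 1197, .ofNat 59, .ofNat 38, .ofNat 57, .ofNat 112, .ofNat 48⟩, .ofNat 2692, .ofNat 3673, .ofNat 0, .ofNat 3673, .ofNat 5745, .ofNat 0, .ofNat 128, .negSucc 675, .negSucc 6038, .ofNat 0, .ofNat 463, .ofNat 3951, .ofNat 0, .ofNat 0, .ofNat 5903, .ofNat 1273, .ofNat 0, .ofNat 0, .ofNat 0, .ofNat 0, .ofNat 0, .ofNat 0, .ofNat 5764396276694381719650726833846806332057845760,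 .ofNat 0, .ofNat 0, .ofNat 0, .ofNat 0, .ofNat 0, .ofNat 0, .ofNat 0, .ofNat 0, .ofNat 0⟩)
    (by decide +kernel)
theorem L05897 : Good (Phi V5.P V5.D (-1) (-1)) ⟨7, 114, 4, 10, 4, 10, 4, 11, 5, 0⟩ :=
  leafX_sound T5.ok_mm T5.Ymm.bz_eq (w := 273) (c := ⟨⟨.ofNat 3440, .ofNat 181, .negSucc 133, .ofNat 96, .negSucc 543, .negSucc 1835⟩, ⟨.negSucc 2126, .negSucc 9, .negSucc 223, .negSucc 63, .ofNat 363, .ofNat 1224⟩, ⟨.negSucc 2825, .ofNat 83, .negSucc 330, .ofNat 167, .ofNat 365, .ofNat 1475⟩, ⟨.ofNat 4070, .ofNat 79, .ofNat 149, .ofNat 343, .negSucc 784, .negSucc 2756⟩, ⟨.negSucc 894, .ofNat 48, .negSucc 3, .ofNat 307, .negSucc 30, .negSucc 266⟩, .ofNat 2701, .ofNat 3684, .ofNat 0, .ofNat 3684, .ofNat 5760, .ofNat 0, .ofNat 128, .negSucc 591, .negSucc 5362, .ofNat 0, .ofNat 401, .ofNat 3502, .ofNat 0, .ofNat 0, .ofNat 4999, .ofNat 1074, .ofNat 0, .ofNat 0, .ofNat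 397917901160039247044412684635338773552288497664, .ofNat 0, .ofNat 0, .ofNat 0, .ofNat 97864934872827663174986626420638157550313195700224, .ofNat 0, .ofNat 0, .ofNat 0, .ofNat 0, .ofNat 0, .ofNat 0, .ofNat 0, .ofNat 0, .ofNat 0⟩)
    (by decide +kernel)
theorem L05898 : Good (Phi V5.P V5.D (-1) (-1)) ⟨7, 114, 4, 10, 4, 11, 4, 11, 5, 0⟩ :=
  leafX_sound T5.ok_mm T5.Ymm.bz_eq (w := 271) (c := ⟨⟨.ofNat 3092, .ofNat 100, .negSucc 1, .negSucc 208, .negSucc 451, .negSucc 1045⟩, ⟨.negSucc 2010, .negSucc 71, .negSucc 75, .ofNat 138, .ofNat 301, .ofNat 696⟩, ⟨.negSucc 2402, .negSucc 6, .negSucc 108, .ofNat 457, .ofNat 273, .ofNat 734⟩, ⟨.ofNat 3994, .ofNat 121, .ofNat 36, .ofNat 20, .negSucc 707, .negSucc 1749⟩, ⟨.negSucc 518, .ofNat 53, .ofNat 29, .ofNat 456, .negSucc 104, .negSucc 413⟩, .ofNat 1565, .ofNat 1992, .ofNat 0, .ofNat 1992, .ofNat 3221, .ofNat 0, .ofNat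 128, .negSucc 610, .negSucc 4592, .ofNat 0, .ofNat 411, .ofNat 2926, .ofNat 0, .ofNat 0, .ofNat 3969, .ofNat 2919, .ofNat 0, .ofNat 0, .ofNat 0, .ofNat 0, .ofNat 0, .ofNat 0, .ofNat 34865284488930731230631695469741382345376862830592, .ofNat 0, .ofNat 0, .ofNat 0, .ofNat 13619392567731987504177907920951998926737637376000, .ofNat 5243307209913256787900613150120691122874889855316652411846656, .ofNat 0, .ofNat 0, .ofNat 43173464371988686777763236158217935643677093265408, .ofNat 0⟩)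
    (by decide +kernel)
theorem L05899 : Good (Phi V5.P V5.D (-1) (-1)) ⟨7, 115, 4, 10, 2, 2, 3, 5, 5, 0⟩ :=
  out_sound (S := T5.ds_mm) T5.ok_mm (w := 21) (j := 4) (by decide +kernel)
theorem L05900 : Good (Phi V5.P V5.D (-1) (-1)) ⟨7, 114, 5, 20, 2, 2, 2, 2, 5, 1⟩ :=
  leafX_sound T5.ok_mm T5.Ymm.bz_eq (w := 251) (c := ⟨⟨.ofNat 1722, .ofNat 0, .negSucc 196, .ofNat 2838, .negSucc 2400, .negSucc 2815⟩, ⟨.negSucc 894, .ofNat 0, .negSucc 117, .negSucc 1874, .ofNat 1587, .ofNat 1860⟩, ⟨.negSucc 1228, .ofNat 0, .negSucc 191, .negSucc 1626, .ofNat 1574, .ofNat 2067⟩, ⟨.ofNat 1384, .ofNat 0, .negSucc 4, .ofNat 3045, .negSucc 2573, .negSucc 2929⟩, ⟨.negSucc 1155, .ofNat 0, .ofNat 2, .negSucc 1405, .ofNat 1196, .ofNat 1527⟩, .ofNat 21697, .ofNat 32303, .ofNat 0, .ofNat 32303, .ofNat 48906, .ofNat 0, .ofNat 128, .negSucc 6888, .negSucc 23627, .ofNat 0, .ofNat 4585, .ofNat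 15632, .ofNat 0, .ofNat 0, .ofNat 21608, .ofNat 11150, .ofNat 0, .ofNat 0, .ofNat 203888513464041405102460593274525581312, .ofNat 0, .ofNat 0, .ofNat 0, .ofNat 11745353995085024663944272686979410196168704, .ofNat 0, .ofNat 0, .ofNat 0, .ofNat 0, .ofNat 0, .ofNat 0, .ofNat 0, .ofNat 60832635905873379934436705664028322562048, .ofNat 0⟩)
    (by decide +kernel)
theorem L05901 : Good (Phi V5.P V5.D (-1) (-1)) ⟨7, 114, 6, 42, 2, 2, 3, 4, 5, 1⟩ :=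
  leafX_sound T5.ok_mm T5.Ymm.bz_eq (w := 244) (c := ⟨⟨.ofNat 1643, .negSucc 208, .negSucc 117, .ofNat 2132, .negSucc 962, .negSucc 2315⟩, ⟨.negSucc 1090, .negSucc 235, .ofNat 269, .negSucc 1424, .ofNat 641, .ofNat 1535⟩, ⟨.negSucc 1644, .negSucc 414, .ofNat 429, .negSucc 822, .ofNat 544, .ofNat 1521⟩, ⟨.ofNat 1240, .ofNat 185, .negSucc 343, .ofNat 3676, .negSucc 1270, .negSucc 3446⟩, ⟨.negSucc 1582, .negSucc 57, .ofNat 167, .ofNat 969, .ofNat 124, .negSucc 298⟩, .ofNat 1568, .ofNat 1995, .ofNat 0, .ofNat 1995, .ofNat 3225, .ofNat 0, .ofNat 128, .negSucc 576, .negSucc 3119, .ofNat 0, .ofNat 393, .ofNat 2012, .ofNat 0, .ofNat 0, .ofNat 2752, .ofNat 759, .ofNat 0, .ofNat 0, .ofNat 2455193360560402163354332366763437588480, .ofNat 0, .ofNat 0, .ofNat 0, .ofNat 97898681351008560485306437972057105891328, .ofNat 22542593664877340186412792499089683002064077255081984,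 .ofNat 0, .ofNat 0, .ofNat 2675962893308924004460586014659049422848, .ofNat 25692831808353911152060216799523170854763778757623808, .ofNat 0, .ofNat 0, .ofNat 0, .ofNat 0⟩)
    (by decide +kernel)
theorem L05902 : Good (Phi V5.P V5.D (-1) (-1)) ⟨8, 228, 6, 43, 2, 2, 3, 4, 5, 1⟩ :=
  out_sound (S := T5.ds_mm) T5.ok_mm (w := 81) (j := 3) (by decide +kernel)
theorem L05903 : Good (Phi V5.P V5.D (-1) (-1)) ⟨8, 229, 6, 43, 2, 2, 3, 4, 5, 1⟩ :=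
  out_sound (S := T5.ds_mm) T5.ok_mm (w := 23) (j := 4) (by decide +kernel)
theorem L05904 : Good (Phi V5.P V5.D (-1) (-1)) ⟨8, 228, 6, 42, 2, 2, 3, 5, 5, 1⟩ :=
  leafX_sound T5.ok_mm T5.Ymm.bz_eq (w := 255) (c := ⟨⟨.ofNat 152, .negSucc 66, .ofNat 138, .ofNat 3094, .negSucc 1359, .negSucc 2742⟩, ⟨.negSucc 101, .negSucc 24, .negSucc 22, .negSucc 2060, .ofNat 909, .ofNat 1823⟩, ⟨.negSucc 481, .negSucc 184, .ofNat 182, .negSucc 1948, .ofNat 980, .ofNat 2033⟩, ⟨.negSucc 400, .ofNat 92, .ofNat 170, .ofNat 4333, .negSucc 1920, .negSucc 3887⟩, ⟨.negSucc 940, .ofNat 163, .ofNat 107, .negSucc 1, .negSucc 15, .negSucc 65⟩, .ofNat 7201, .ofNat 10421, .ofNat 0, .ofNat 10421, .ofNat 15861, .ofNat 0, .ofNat 128, .negSucc 2452, .negSucc 7190, .ofNat 0, .ofNat 1644, .ofNat 4760, .ofNat 0, .ofNat 0, .ofNat 6466, .ofNat 2288, .ofNat 0, .ofNat 0, .ofNat 869861473785043854113496040473616187392,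 .ofNat 0, .ofNat 0, .ofNat 0, .ofNat 196025639439789476600343863752973615104000, .ofNat 888007535248882563138424602293384884375526184344092672, .ofNat 0, .ofNat 0, .ofNat 0, .ofNat 0, .ofNat 0, .ofNat 0, .ofNat 0, .ofNat 0⟩)
    (by decide +kernel)
theorem L05905 : Good (Phi V5.P V5.D (-1) (-1)) ⟨8, 229, 6, 42, 2, 2, 3, 5, 5, 1⟩ :=
  out_sound (S := T5.ds_mm) T5.ok_mm (w := 23) (j := 4) (by decide +kernel)
theorem L05906 : Good (Phi V5.P V5.D (-1) (-1)) ⟨8, 228, 6, 43, 2, 2, 3, 5, 5, 1⟩ :=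
  out_sound (S := T5.ds_mm) T5.ok_mm (w := 81) (j := 3) (by decide +kernel)
theorem L05907 : Good (Phi V5.P V5.D (-1) (-1)) ⟨8, 229, 6, 43, 2, 2, 3, 5, 5, 1⟩ :=
  out_sound (S := T5.ds_mm) T5.ok_mm (w := 23) (j := 4) (by decide +kernel)
theorem L05908 : Good (Phi V5.P V5.D (-1) (-1)) ⟨7, 115, 4, 10, 2, 2, 2, 2, 5, 1⟩ :=
  out_sound (S := T5.ds_mm) T5.ok_mm (w := 21) (j := 4) (by decide +kernel)
theorem L05909 : Good (Phi V5.P V5.D (-1) (-1)) ⟨6, 56, 4, 11, 2, 2, 2, 2, 4, 0⟩ :=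
  out_sound (S := T5.ds_mm) T5.ok_mm (w := 65) (j := 3) (by decide +kernel)
theorem L05910 : Good (Phi V5.P V5.D (-1) (-1)) ⟨7, 114, 5, 22, 2, 2, 2, 2, 4, 0⟩ :=
  out_sound (S := T5.ds_mm) T5.ok_mm (w := 73) (j := 3) (by decide +kernel)
theorem L05911 : Good (Phi V5.P V5.D (-1) (-1)) ⟨7, 115, 5, 22, 2, 2, 2, 2, 4, 0⟩ :=
  out_sound (S := T5.ds_mm) T5.ok_mm (w := 21) (j := 4) (by decide +kernel)
theorem L05912 : Good (Phi V5.P V5.D (-1) (-1)) ⟨6, 57, 5, 23, 2, 2, 2, 2, 4, 0⟩ :=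
  out_sound (S := T5.ds_mm) T5.ok_mm (w := 67) (j := 3) (by decide +kernel)
theorem L05913 : Good (Phi V5.P V5.D (-1) (-1)) ⟨6, 56, 5, 20, 2, 2, 2, 2, 5, 2⟩ :=
  leafX_sound T5.ok_mm T5.Ymm.bz_eq (w := 238) (c := ⟨⟨.negSucc 1593, .negSucc 1012, .ofNat 730, .ofNat 2058, .negSucc 1102, .negSucc 2097⟩, ⟨.ofNat 994, .ofNat 676, .negSucc 424, .negSucc 1348, .ofNat 723, .ofNat 1370⟩, ⟨.ofNat 1044, .ofNat 982, .negSucc 680, .negSucc 1727, .ofNat 865, .ofNat 1480⟩, ⟨.negSucc 2876, .negSucc 719, .ofNat 476, .ofNat 2060, .negSucc 1641, .negSucc 2776⟩, ⟨.negSucc 704, .ofNat 493, .negSucc 514, .negSucc 1288, .negSucc 127, .ofNat 289⟩, .ofNat 7332, .ofNat 10802, .ofNat 0, .ofNat 10802, .ofNat 16736, .ofNat 0, .ofNat 128, .negSucc 1397, .negSucc 3485, .ofNat 0, .ofNat 921, .ofNat 2265, .ofNat 0, .ofNat 0, .ofNat 3160, .ofNat 1383, .ofNat 0, .ofNat 0, .ofNat 0, .ofNat 0, .ofNat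 0, .ofNat 0, .ofNat 5485210540447975065252029007751366574080, .ofNat 0, .ofNat 0, .ofNat 0, .ofNat 0, .ofNat 0, .ofNat 0, .ofNat 0, .ofNat 0, .ofNat 0⟩)
    (by decide +kernel)
theorem L05914 : Good (Phi V5.P V5.D (-1) (-1)) ⟨6, 56, 5, 21, 2, 2, 2, 2, 5, 2⟩ :=
  leafX_sound T5.ok_mm T5.Ymm.bz_eq (w := 239) (c := ⟨⟨.negSucc 1893, .negSucc 0, .ofNat 1584, .ofNat 2078, .negSucc 1005, .negSucc 2013⟩, ⟨.ofNat 1232, .ofNat 1, .negSucc 1001, .negSucc 1376, .ofNat 683, .ofNat 1345⟩, ⟨.ofNat 1353, .ofNat 1, .negSucc 35, .negSucc 1753, .ofNat 813, .ofNat 1416⟩, ⟨.negSucc 2410, .negSucc 1, .ofNat 1192, .ofNat 2221, .negSucc 1875, .negSucc 3396⟩, ⟨.ofNat 319, .negSucc 0, .negSucc 556, .negSucc 1057, .negSucc 654, .negSucc 811⟩, .ofNat 4211, .ofNat 5972, .ofNat 0, .ofNat 5972, .ofNat 9241, .ofNat 0, .ofNat 128, .negSucc 2655, .negSucc 6643, .ofNat 0, .ofNat 1776, .ofNat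 4355, .ofNat 0, .ofNat 0, .ofNat 5901, .ofNat 3194, .ofNat 0, .ofNat 0, .ofNat 0, .ofNat 0, .ofNat 0, .ofNat 0, .ofNat 15046125053431794465071631581958864109568, .ofNat 0, .ofNat 0, .ofNat 0, .ofNat 455424385772857934025534094687317323153408, .ofNat 0, .ofNat 0, .ofNat 0, .ofNat 75029537614086841371234476230148551081984, .ofNat 0⟩)
    (by decide +kernel)
theorem L05915 : Good (Phi V5.P V5.D (-1) (-1)) ⟨6, 56, 4, 10, 2, 2, 2, 2, 5, 3⟩ :=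
  leafX_sound T5.ok_mm T5.Ymm.bz_eq (w := 235) (c := ⟨⟨.negSucc 4608, .negSucc 607, .ofNat 423, .ofNat 325, .ofNat 830, .negSucc 74⟩, ⟨.ofNat 2949, .ofNat 402, .negSucc 87, .negSucc 225, .negSucc 540, .ofNat 52⟩, ⟨.ofNat 3468, .ofNat 401, .negSucc 259, .negSucc 785, .negSucc 589, .negSucc 108⟩, ⟨.negSucc 6857, .negSucc 541, .ofNat 283, .negSucc 292, .ofNat 999, .negSucc 141⟩, ⟨.negSucc 391, .ofNat 268, .negSucc 354, .negSucc 1174, .negSucc 263, .negSucc 54⟩, .ofNat 5314, .ofNat 7715, .ofNat 0, .ofNat 7715, .ofNat 12006, .ofNat 0, .ofNat 128, .negSucc 1641, .negSucc 4284, .ofNat 0, .ofNat 1086, .ofNat 2784, .ofNat 0, .ofNat 0, .ofNat 4122, .ofNat 1116, .ofNat 0, .ofNat 0, .ofNat 0, .ofNat 0, .ofNat 0, .ofNat 0, .ofNat 1880067426844127582539277244374628433920, .ofNat 0, .ofNat 0, .ofNat 0, .ofNat 3099984279521279328242315975779646701568, .ofNat 0, .ofNat 0, .ofNat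 0, .ofNat 0, .ofNat 0⟩)
    (by decide +kernel)
theorem L05916 : Good (Phi V5.P V5.D (-1) (-1)) ⟨7, 114, 4, 10, 3, 4, 2, 2, 5, 2⟩ :=
  leafX_sound T5.ok_mm T5.Ymm.bz_eq (w := 246) (c := ⟨⟨.negSucc 2491, .ofNat 269, .negSucc 0, .ofNat 930, .negSucc 759, .negSucc 1883⟩, ⟨.ofNat 1477, .negSucc 242, .ofNat 309, .negSucc 618, .ofNat 515, .ofNat 1256⟩, ⟨.ofNat 1726, .negSucc 42, .negSucc 275, .negSucc 902, .ofNat 789, .ofNat 1530⟩, ⟨.negSucc 3816, .ofNat 373, .negSucc 151, .ofNat 841, .negSucc 1102, .negSucc 2516⟩, ⟨.negSucc 711, .negSucc 165, .ofNat 55, .negSucc 671, .ofNat 48, .ofNat 225⟩, .ofNat 895, .ofNat 996, .ofNat 0, .ofNat 996, .ofNat 1710, .ofNat 0, .ofNat 128, .negSucc 879, .negSucc 2466, .ofNat 0, .ofNat 631, .ofNat 1559, .ofNat 0, .ofNat 0, .ofNat 2264, .ofNat 965, .ofNat 0, .ofNat 0, .ofNat 0, .ofNat 0, .ofNat 0, .ofNat 0, .ofNat 2173067881037565607753940133847396612308992,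 .ofNat 0, .ofNat 0, .ofNat 0, .ofNat 0, .ofNat 0, .ofNat 0, .ofNat 0, .ofNat 1683535480937439514616729235209336823742464, .ofNat 1499116025428259709878315662212981483301524756181811200⟩)
    (by decide +kernel)
theorem L05917 : Good (Phi V5.P V5.D (-1) (-1)) ⟨7, 114, 4, 10, 3, 5, 2, 2, 5, 2⟩ :=
  leafX_sound T5.ok_mm T5.Ymm.bz_eq (w := 250) (c := ⟨⟨.negSucc 575, .ofNat 26, .ofNat 474, .ofNat 1560, .negSucc 1598, .negSucc 3069⟩, ⟨.ofNat 348, .ofNat 24, .negSucc 281, .negSucc 1033, .ofNat 1074, .ofNat 2043⟩, ⟨.negSucc 156, .negSucc 494, .ofNat 591, .negSucc 1176, .ofNat 1153, .ofNat 2162⟩, ⟨.negSucc 1228, .ofNat 86, .ofNat 302, .ofNat 1811, .negSucc 2377, .negSucc 4412⟩, ⟨.negSucc 871, .negSucc 168, .negSucc 126, .negSucc 555, .negSucc 154, .negSucc 140⟩, .ofNat 2280, .ofNat 3037, .ofNat 0, .ofNat 3037, .ofNat 4765, .ofNat 0, .ofNat 128, .negSucc 1204, .negSucc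 4480, .ofNat 0, .ofNat 814, .ofNat 2923, .ofNat 0, .ofNat 0, .ofNat 3627, .ofNat 877, .ofNat 0, .ofNat 0, .ofNat 113950509948823730932163927714705375756288, .ofNat 0, .ofNat 0, .ofNat 0, .ofNat 9481723765058970836270589936052223722127360, .ofNat 0, .ofNat 0, .ofNat 0, .ofNat 9205306629428566449824812548974057543958528, .ofNat 0, .ofNat 0, .ofNat 0, .ofNat 572644409661724616916753837351167420530688, .ofNat 4505663018536719623314689383678443272320859569802706944⟩)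
    (by decide +kernel)
theorem L05918 : Good (Phi V5.P V5.D (-1) (-1)) ⟨7, 115, 4, 10, 2, 2, 2, 2, 5, 2⟩ :=
  out_sound (S := T5.ds_mm) T5.ok_mm (w := 21) (j := 4) (by decide +kernel)
theorem L05919 : Good (Phi V5.P V5.D (-1) (-1)) ⟨7, 114, 4, 10, 3, 4, 2, 2, 5, 3⟩ :=
  leafX_sound T5.ok_mm T5.Ymm.bz_eq (w := 246) (c := ⟨⟨.negSucc 4951, .negSucc 21, .negSucc 2, .negSucc 46, .ofNat 766, .ofNat 16⟩, ⟨.ofNat 3212, .ofNat 44, .ofNat 132, .ofNat 29, .negSucc 510, .negSucc 10⟩, ⟨.ofNat 3608, .negSucc 8, .ofNat 5, .negSucc 239, .negSucc 488, .negSucc 81⟩, ⟨.negSucc 7177, .ofNat 36, .negSucc 51, .negSucc 446, .ofNat 996, .ofNat 60⟩, ⟨.negSucc 378, .negSucc 22, .ofNat 21, .negSucc 579, .negSucc 113, .ofNat 73⟩, .ofNat 895, .ofNat 996, .ofNat 0, .ofNat 996, .ofNat 1710, .ofNat 0, .ofNat 128, .negSucc 854, .negSucc 2764, .ofNat 0, .ofNat 613, .ofNat 1754, .ofNat 0, .ofNat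 0, .ofNat 2730, .ofNat 1579, .ofNat 0, .ofNat 0, .ofNat 0, .ofNat 0, .ofNat 0, .ofNat 0, .ofNat 510513421681951024036554213051497361440768, .ofNat 0, .ofNat 0, .ofNat 0, .ofNat 0, .ofNat 0, .ofNat 0, .ofNat 0, .ofNat 0, .ofNat 0⟩)
    (by decide +kernel)
theorem L05920 : Good (Phi V5.P V5.D (-1) (-1)) ⟨7, 114, 5, 20, 3, 5, 2, 2, 5, 3⟩ :=
  leafX_sound T5.ok_mm T5.Ymm.bz_eq (w := 265) (c := ⟨⟨.negSucc 4449, .ofNat 2, .ofNat 32, .ofNat 866, .ofNat 579, .negSucc 941⟩, ⟨.ofNat 2809, .negSucc 0, .ofNat 110, .negSucc 576, .negSucc 381, .ofNat 623⟩, ⟨.ofNat 3021, .negSucc 0, .negSucc 6, .negSucc 812, .negSucc 382, .ofNat 500⟩, ⟨.negSucc 6912, .ofNat 3, .negSucc 5, .ofNat 928, .ofNat 456, .negSucc 1133⟩, ⟨.negSucc 1070, .ofNat 1, .ofNat 0, .negSucc 437, .negSucc 532, .ofNat 286⟩, .ofNat 14069, .ofNat 20816, .ofNat 0, .ofNat 20816, .ofNat 31603, .ofNat 0, .ofNat 128,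 .negSucc 12765, .negSucc 32308, .ofNat 0, .ofNat 8489, .ofNat 21354, .ofNat 0, .ofNat 0, .ofNat 28084, .ofNat 15134, .ofNat 0, .ofNat 0, .ofNat 0, .ofNat 0, .ofNat 0, .ofNat 0, .ofNat 38282196737128960122570840377856132035867836416, .ofNat 0, .ofNat 0, .ofNat 0, .ofNat 0, .ofNat 0, .ofNat 0, .ofNat 0, .ofNat 0, .ofNat 0⟩)
    (by decide +kernel)
theorem L05921 : Good (Phi V5.P V5.D (-1) (-1)) ⟨7, 114, 6, 42, 3, 5, 2, 2, 5, 3⟩ :=
  leafX_sound T5.ok_mm T5.Ymm.bz_eq (w := 264) (c := ⟨⟨.negSucc 4811, .ofNat 214, .negSucc 108, .ofNat 841, .ofNat 792, .negSucc 473⟩, ⟨.ofNat 3180, .negSucc 195, .ofNat 149, .negSucc 562, .negSucc 524, .ofNat 314⟩, ⟨.ofNat 3309, .negSucc 123, .ofNat 55, .negSucc 799, .negSucc 563, .ofNat 146⟩, ⟨.negSucc 7293, .ofNat 39, .negSucc 80, .ofNat 765, .ofNat 743, .negSucc 565⟩, ⟨.negSucc 803, .negSucc 102, .negSucc 71, .negSucc 620, .negSucc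 542, .ofNat 149⟩, .ofNat 12201, .ofNat 17813, .ofNat 0, .ofNat 17813, .ofNat 26788, .ofNat 0, .ofNat 128, .negSucc 2601, .negSucc 9987, .ofNat 0, .ofNat 1749, .ofNat 6665, .ofNat 0, .ofNat 0, .ofNat 8490, .ofNat 2525, .ofNat 0, .ofNat 0, .ofNat 1799596669727558486385604425112487842545664, .ofNat 0, .ofNat 0, .ofNat 0, .ofNat 2089501159210321845513471199151074772944683008, .ofNat 0, .ofNat 0, .ofNat 0, .ofNat 0, .ofNat 0, .ofNat 0, .ofNat 0, .ofNat 0, .ofNat 0⟩)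
    (by decide +kernel)
theorem L05922 : Good (Phi V5.P V5.D (-1) (-1)) ⟨8, 228, 6, 43, 3, 5, 2, 2, 5, 3⟩ :=
  out_sound (S := T5.ds_mm) T5.ok_mm (w := 81) (j := 3) (by decide +kernel)
theorem L05923 : Good (Phi V5.P V5.D (-1) (-1)) ⟨8, 229, 6, 43, 3, 5, 2, 2, 5, 3⟩ :=
  out_sound (S := T5.ds_mm) T5.ok_mm (w := 23) (j := 4) (by decide +kernel)
theorem L05924 : Good (Phi V5.P V5.D (-1) (-1)) ⟨7, 115, 4, 10, 2, 2, 2, 2, 5, 3⟩ :=
  out_sound (S := T5.ds_mm) T5.ok_mm (w := 21) (j := 4) (by decide +kernel)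
theorem L05925 : Good (Phi V5.P V5.D (-1) (-1)) ⟨6, 56, 4, 11, 2, 2, 2, 2, 4, 1⟩ :=
  out_sound (S := T5.ds_mm) T5.ok_mm (w := 65) (j := 3) (by decide +kernel)
theorem L05926 : Good (Phi V5.P V5.D (-1) (-1)) ⟨7, 114, 5, 22, 2, 2, 2, 2, 4, 1⟩ :=
  out_sound (S := T5.ds_mm) T5.ok_mm (w := 73) (j := 3) (by decide +kernel)
theorem L05927 : Good (Phi V5.P V5.D (-1) (-1)) ⟨7, 115, 5, 22, 2, 2, 2, 2, 4, 1⟩ :=
  out_sound (S := T5.ds_mm) T5.ok_mm (w := 21) (j := 4) (by decide +kernel)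
theorem L05928 : Good (Phi V5.P V5.D (-1) (-1)) ⟨6, 57, 5, 23, 2, 2, 2, 2, 4, 1⟩ :=
  out_sound (S := T5.ds_mm) T5.ok_mm (w := 67) (j := 3) (by decide +kernel)
theorem L05929 : Good (Phi V5.P V5.D (-1) (-1)) ⟨5, 29, 3, 5, 2, 2, 2, 2, 3, 0⟩ :=
  out_sound (S := T5.ds_mm) T5.ok_mm (w := 17) (j := 4) (by decide +kernel)
theorem L05930 : Good (Phi V5.P V5.D (-1) (-1)) ⟨4, 15, 3, 5, 2, 2, 2, 2, 3, 0⟩ :=
  out_sound (S := T5.ds_mm) T5.ok_mm (w := 51) (j := 3) (by decide +kernel)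
theorem L05931 : Good (Phi V5.P V5.D (-1) (-1)) ⟨2, 2, 2, 2, 2, 2, 2, 2, 3, 1⟩ :=
  out_sound (S := T5.ds_mm) T5.ok_mm (w := 37) (j := 3) (by decide +kernel)
theorem L05932 : Good (Phi V5.P V5.D (-1) (-1)) ⟨4, 12, 2, 2, 2, 2, 2, 2, 3, 1⟩ :=
  out_sound (S := T5.ds_mm) T5.ok_mm (w := 49) (j := 3) (by decide +kernel)
theorem L05933 : Good (Phi V5.P V5.D (-1) (-1)) ⟨4, 13, 2, 2, 2, 2, 2, 2, 4, 2⟩ :=
  leafX_sound T5.ok_mm T5.Ymm.bz_eq (w := 208) (c := ⟨⟨.negSucc 4231, .negSucc 1005, .ofNat 805, .ofNat 522, .ofNat 844, .ofNat 1164⟩, ⟨.ofNat 2314, .ofNat 658, .ofNat 143, .negSucc 332, .negSucc 498, .negSucc 680⟩, ⟨.ofNat 3245, .ofNat 625, .negSucc 635, .negSucc 998, .negSucc 717, .negSucc 1007⟩, ⟨.negSucc 6564, .negSucc 1231, .ofNat 859, .ofNat 198, .ofNat 1240, .ofNat 1741⟩, ⟨.negSucc 195, .negSucc 270, .negSucc 326, .negSucc 976, .ofNat 31, .ofNat 87⟩, .ofNat 1542,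 .ofNat 2120, .ofNat 0, .ofNat 2120, .ofNat 3801, .ofNat 0, .ofNat 128, .negSucc 581, .negSucc 569, .ofNat 0, .ofNat 370, .ofNat 332, .ofNat 0, .ofNat 0, .ofNat 757, .ofNat 648, .ofNat 0, .ofNat 0, .ofNat 126689895537816330783415145347416064, .ofNat 0, .ofNat 0, .ofNat 0, .ofNat 16779047966487785761276307148715851776, .ofNat 0, .ofNat 0, .ofNat 0, .ofNat 9024792263144871822159575941478612992, .ofNat 0, .ofNat 0, .ofNat 0, .ofNat 6197356343420547229954368630801039360, .ofNat 0⟩)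
    (by decide +kernel)
theorem L05934 : Good (Phi V5.P V5.D (-1) (-1)) ⟨4, 13, 2, 2, 2, 2, 2, 2, 4, 3⟩ :=
  leafX_sound T5.ok_mm T5.Ymm.bz_eq (w := 208) (c := ⟨⟨.negSucc 3455, .negSucc 321, .ofNat 31, .ofNat 596, .ofNat 666, .ofNat 773⟩, ⟨.ofNat 1876, .ofNat 255, .ofNat 471, .negSucc 366, .negSucc 379, .negSucc 445⟩, ⟨.ofNat 2612, .ofNat 124, .negSucc 112, .negSucc 1166, .negSucc 724, .negSucc 735⟩, ⟨.negSucc 5560, .negSucc 172, .negSucc 1, .ofNat 431, .ofNat 1133, .ofNat 1271⟩, ⟨.negSucc 505, .negSucc 58, .ofNat 172, .negSucc 751, .ofNat 266, .ofNat 267⟩, .ofNat 1550, .ofNat 2136, .ofNat 0, .ofNat 2136, .ofNat 3835, .ofNat 0, .ofNat 128, .negSucc 927, .negSucc 338, .ofNat 0, .ofNat 598, .ofNat 197, .ofNat 0, .ofNat 0, .ofNat 770, .ofNat 1161, .ofNat 0, .ofNat 0, .ofNat 0, .ofNat 0, .ofNat 0, .ofNat 0, .ofNat 24662245102148375709330692860362620928, .ofNat 0,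 .ofNat 0, .ofNat 0, .ofNat 0, .ofNat 0, .ofNat 0, .ofNat 0, .ofNat 15874454693632238119876343208161050624, .ofNat 0⟩)
    (by decide +kernel)
theorem L05935 : Good (Phi V5.P V5.D (-1) (-1)) ⟨5, 28, 4, 8, 2, 2, 2, 2, 4, 2⟩ :=
  out_sound (S := T5.ds_mm) T5.ok_mm (w := 59) (j := 3) (by decide +kernel)
theorem L05936 : Good (Phi V5.P V5.D (-1) (-1)) ⟨5, 28, 4, 9, 2, 2, 2, 2, 4, 2⟩ :=
  leafX_sound T5.ok_mm T5.Ymm.bz_eq (w := 219) (c := ⟨⟨.negSucc 5241, .negSucc 1052, .ofNat 406, .ofNat 472, .ofNat 1020, .ofNat 1248⟩, ⟨.ofNat 3185, .ofNat 716, .negSucc 103, .negSucc 314, .negSucc 646, .negSucc 788⟩, ⟨.ofNat 3931, .ofNat 878, .negSucc 385, .negSucc 1016, .negSucc 809, .negSucc 1093⟩, ⟨.negSucc 7671, .negSucc 1153, .ofNat 475, .negSucc 22, .ofNat 1449, .ofNat 1836⟩, ⟨.negSucc 305, .ofNat 158, .negSucc 95, .negSucc 1091, .negSucc 27, .ofNat 75⟩, .ofNat 1326, .ofNat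 1683, .ofNat 0, .ofNat 1683, .ofNat 2868, .ofNat 0, .ofNat 128, .negSucc 752, .negSucc 885, .ofNat 0, .ofNat 507, .ofNat 550, .ofNat 0, .ofNat 0, .ofNat 1098, .ofNat 2263, .ofNat 0, .ofNat 0, .ofNat 341854098588864438607198622645747712, .ofNat 0, .ofNat 0, .ofNat 0, .ofNat 45887217157085759874286620383958269952, .ofNat 0, .ofNat 0, .ofNat 0, .ofNat 43037862019066364718131495104208175104, .ofNat 0, .ofNat 0, .ofNat 0, .ofNat 98714716254572985559945218050024800256, .ofNat 0⟩)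
    (by decide +kernel)
theorem L05937 : Good (Phi V5.P V5.D (-1) (-1)) ⟨5, 28, 3, 5, 2, 2, 2, 2, 4, 2⟩ :=
  leafX_sound T5.ok_mm T5.Ymm.bz_eq (w := 219) (c := ⟨⟨.negSucc 5273, .ofNat 362, .negSucc 614, .ofNat 606, .ofNat 1078, .ofNat 1285⟩, ⟨.ofNat 3386, .negSucc 209, .ofNat 720, .negSucc 405, .negSucc 703, .negSucc 838⟩, ⟨.ofNat 3842, .ofNat 124, .negSucc 81, .negSucc 1095, .negSucc 885, .negSucc 1181⟩, ⟨.negSucc 7555, .ofNat 143, .negSucc 451, .ofNat 124, .ofNat 1395, .ofNat 1806⟩, ⟨.negSucc 186, .negSucc 316, .ofNat 140, .negSucc 1119, .negSucc 191, .negSucc 5⟩, .ofNat 4888, .ofNat 7002, .ofNat 0, .ofNat 7002, .ofNat 10793, .ofNat 0, .ofNat 128, .negSucc 1043, .negSucc 1118, .ofNat 0, .ofNat 697, .ofNat 738, .ofNat 0, .ofNat 0, .ofNat 1320, .ofNat 1446, .ofNat 0, .ofNat 0, .ofNat 294864569425113330350724551253426176, .ofNat 0, .ofNat 0, .ofNat 0, .ofNat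 138628019458239996474894570540740116480, .ofNat 0, .ofNat 0, .ofNat 0, .ofNat 45838653635593136896047175101312925696, .ofNat 5699400567922728013398974008519165663795740672, .ofNat 0, .ofNat 0, .ofNat 14489750903033455949315109708273549312, .ofNat 7714657550104848467193471346208244193321549824⟩)
    (by decide +kernel)
theorem L05938 : Good (Phi V5.P V5.D (-1) (-1)) ⟨5, 29, 2, 2, 2, 2, 2, 2, 4, 2⟩ :=
  out_sound (S := T5.ds_mm) T5.ok_mm (w := 17) (j := 4) (by decide +kernel)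
theorem L05939 : Good (Phi V5.P V5.D (-1) (-1)) ⟨4, 15, 2, 2, 2, 2, 2, 2, 4, 2⟩ :=
  out_sound (S := T5.ds_mm) T5.ok_mm (w := 49) (j := 3) (by decide +kernel)
theorem L05940 : Good (Phi V5.P V5.D (-1) (-1)) ⟨5, 28, 3, 4, 2, 2, 2, 2, 4, 3⟩ :=
  leafX_sound T5.ok_mm T5.Ymm.bz_eq (w := 218) (c := ⟨⟨.negSucc 4099, .negSucc 368, .ofNat 355, .ofNat 726, .ofNat 616, .ofNat 899⟩, ⟨.ofNat 2362, .ofNat 252, .ofNat 24, .negSucc 469, .negSucc 388, .negSucc 567⟩, ⟨.ofNat 2939, .ofNat 136, .negSucc 213, .negSucc 1321, .negSucc 736, .negSucc 750⟩, ⟨.negSucc 6071, .negSucc 291, .ofNat 336, .ofNat 579, .ofNat 1069, .ofNat 1387⟩, ⟨.negSucc 440, .ofNat 70, .negSucc 129, .negSucc 717, .ofNat 299, .ofNat 163⟩, .ofNat 2055, .ofNat 2809, .ofNat 0, .ofNat 2809, .ofNat 4629, .ofNat 0, .ofNat 128, .negSucc 1810, .negSucc 606, .ofNat 0, .ofNat 1214, .ofNat 380, .ofNat 0, .ofNat 0, .ofNat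 1449, .ofNat 1167, .ofNat 0, .ofNat 0, .ofNat 83153022229127243444259062452060160, .ofNat 0, .ofNat 0, .ofNat 0, .ofNat 54298880643323415188680354981780389888, .ofNat 0, .ofNat 0, .ofNat 0, .ofNat 0, .ofNat 0, .ofNat 0, .ofNat 0, .ofNat 0, .ofNat 0⟩)
    (by decide +kernel)
theorem L05941 : Good (Phi V5.P V5.D (-1) (-1)) ⟨5, 28, 3, 5, 2, 2, 2, 2, 4, 3⟩ :=
  leafX_sound T5.ok_mm T5.Ymm.bz_eq (w := 218) (c := ⟨⟨.negSucc 3845, .ofNat 90, .negSucc 203, .ofNat 734, .ofNat 614, .ofNat 891⟩, ⟨.ofNat 2472, .negSucc 56, .ofNat 399, .negSucc 487, .negSucc 398, .negSucc 586⟩, ⟨.ofNat 2691, .ofNat 345, .negSucc 418, .negSucc 1336, .negSucc 734, .negSucc 755⟩, ⟨.negSucc 5768, .ofNat 34, .negSucc 100, .ofNat 589, .ofNat 1029, .ofNat 1311⟩, ⟨.negSucc 512, .negSucc 86, .ofNat 72, .negSucc 672, .ofNat 242, .ofNat 86⟩, .ofNat 2452, .ofNat 3348, .ofNat 0, .ofNat 3348, .ofNat 5325,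 .ofNat 0, .ofNat 128, .negSucc 1381, .negSucc 517, .ofNat 0, .ofNat 940, .ofNat 335, .ofNat 0, .ofNat 0, .ofNat 1198, .ofNat 2008, .ofNat 0, .ofNat 0, .ofNat 0, .ofNat 0, .ofNat 0, .ofNat 0, .ofNat 67025898776714586539834345218155479040, .ofNat 0, .ofNat 0, .ofNat 0, .ofNat 36818754565633133783975639078970327040, .ofNat 13618786533268791411035039719509688986206470144, .ofNat 0, .ofNat 0, .ofNat 14946285614622566151950982446785232896, .ofNat 0⟩)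
    (by decide +kernel)
theorem L05942 : Good (Phi V5.P V5.D (-1) (-1)) ⟨5, 29, 2, 2, 2, 2, 2, 2, 4, 3⟩ :=
  out_sound (S := T5.ds_mm) T5.ok_mm (w := 17) (j := 4) (by decide +kernel)
theorem L05943 : Good (Phi V5.P V5.D (-1) (-1)) ⟨4, 15, 2, 2, 2, 2, 2, 2, 4, 3⟩ :=
  out_sound (S := T5.ds_mm) T5.ok_mm (w := 49) (j := 3) (by decide +kernel)
theorem L05944 : Good (Phi V5.P V5.D (-1) (-1)) ⟨2, 2, 2, 3, 2, 2, 2, 2, 2, 0⟩ :=
  out_sound (S := T5.ds_mm) T5.ok_mm (w := 37) (j := 3) (by decide +kernel)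
theorem L05945 : Good (Phi V5.P V5.D (-1) (-1)) ⟨3, 6, 2, 3, 2, 2, 2, 2, 2, 0⟩ :=
  out_sound (S := T5.ds_mm) T5.ok_mm (w := 43) (j := 3) (by decide +kernel)
theorem L05946 : Good (Phi V5.P V5.D (-1) (-1)) ⟨5, 28, 3, 6, 2, 2, 2, 2, 2, 0⟩ :=
  out_sound (S := T5.ds_mm) T5.ok_mm (w := 57) (j := 3) (by decide +kernel)
theorem L05947 : Good (Phi V5.P V5.D (-1) (-1)) ⟨5, 29, 3, 6, 2, 2, 2, 2, 2, 0⟩ :=
  out_sound (S := T5.ds_mm) T5.ok_mm (w := 17) (j := 4) (by decide +kernel)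
theorem L05948 : Good (Phi V5.P V5.D (-1) (-1)) ⟨4, 14, 3, 7, 2, 2, 2, 2, 2, 0⟩ :=
  out_sound (S := T5.ds_mm) T5.ok_mm (w := 51) (j := 3) (by decide +kernel)
theorem L05949 : Good (Phi V5.P V5.D (-1) (-1)) ⟨4, 15, 2, 3, 2, 2, 2, 2, 2, 0⟩ :=
  out_sound (S := T5.ds_mm) T5.ok_mm (w := 15) (j := 4) (by decide +kernel)
theorem L05950 : Good (Phi V5.P V5.D (-1) (-1)) ⟨2, 2, 4, 8, 2, 2, 3, 6, 4, 0⟩ :=
  out_sound (S := T5.ds_mm) T5.ok_mm (w := 41) (j := 3) (by decide +kernel)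
theorem L05951 : Good (Phi V5.P V5.D (-1) (-1)) ⟨4, 12, 4, 8, 2, 2, 3, 6, 4, 0⟩ :=
  out_sound (S := T5.ds_mm) T5.ok_mm (w := 53) (j := 3) (by decide +kernel)
theorem L05952 : Good (Phi V5.P V5.D (-1) (-1)) ⟨5, 26, 4, 8, 2, 2, 3, 6, 4, 0⟩ :=
  leafX_sound T5.ok_mm T5.Ymm.bz_eq (w := 225) (c := ⟨⟨.ofNat 870, .negSucc 293, .ofNat 437, .ofNat 1453, .negSucc 967, .negSucc 3079⟩, ⟨.negSucc 447, .ofNat 102, .negSucc 166, .negSucc 812, .ofNat 541, .ofNat 1698⟩, ⟨.negSucc 751, .ofNat 30, .negSucc 48, .negSucc 956, .ofNat 768, .ofNat 2313⟩, ⟨.ofNat 825, .negSucc 289, .ofNat 625, .ofNat 2039, .negSucc 1465, .negSucc 4762⟩, ⟨.negSucc 808, .ofNat 193, .ofNat 87, .negSucc 223, .negSucc 21, .negSucc 300⟩, .ofNat 2270, .ofNat 3469, .ofNat 0, .ofNat 3469, .ofNat 6356, .ofNat 0, .ofNat 128, .negSucc 554, .negSucc 1593, .ofNat 0, .ofNat 334, .ofNat 881, .ofNat 0, .ofNat 0, .ofNat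 1568, .ofNat 1263, .ofNat 0, .ofNat 0, .ofNat 0, .ofNat 0, .ofNat 0, .ofNat 0, .ofNat 348257681011212898706407534121820618752, .ofNat 0, .ofNat 0, .ofNat 0, .ofNat 1721239370085752195149791947432835153920, .ofNat 0, .ofNat 0, .ofNat 0, .ofNat 577177701660856574407806460666184728576, .ofNat 0⟩)
    (by decide +kernel)
theorem L05953 : Good (Phi V5.P V5.D (-1) (-1)) ⟨5, 27, 4, 8, 2, 2, 3, 6, 5, 0⟩ :=
  leafX_sound T5.ok_mm T5.Ymm.bz_eq (w := 228) (c := ⟨⟨.ofNat 936, .ofNat 603, .negSucc 89, .ofNat 1392, .negSucc 1368, .negSucc 1690⟩, ⟨.negSucc 552, .negSucc 407, .ofNat 67, .negSucc 800, .ofNat 793, .ofNat 968⟩, ⟨.negSucc 1168, .negSucc 574, .ofNat 134, .negSucc 659, .ofNat 1060, .ofNat 1332⟩, ⟨.ofNat 858, .ofNat 919, .negSucc 140, .ofNat 2178, .negSucc 2000, .negSucc 2641⟩, ⟨.negSucc 963, .ofNat 172, .ofNat 35, .ofNat 264, .ofNat 9, .negSucc 305⟩, .ofNat 2007,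 .ofNat 2865, .ofNat 0, .ofNat 2865, .ofNat 5010, .ofNat 0, .ofNat 128, .negSucc 304, .negSucc 1215, .ofNat 0, .ofNat 196, .ofNat 705, .ofNat 0, .ofNat 0, .ofNat 1203, .ofNat 509, .ofNat 0, .ofNat 0, .ofNat 49681274166630105279812300915991379968, .ofNat 0, .ofNat 0, .ofNat 0, .ofNat 6282629615931660583242807374107948089344, .ofNat 0, .ofNat 0, .ofNat 0, .ofNat 1261354228490302434492732615703878696960, .ofNat 0, .ofNat 0, .ofNat 0, .ofNat 21104135275527581077303230840542869848064, .ofNat 0⟩)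
    (by decide +kernel)
theorem L05954 : Good (Phi V5.P V5.D (-1) (-1)) ⟨5, 27, 4, 8, 2, 2, 3, 6, 5, 1⟩ :=
  leafX_sound T5.ok_mm T5.Ymm.bz_eq (w := 228) (c := ⟨⟨.negSucc 1162, .negSucc 336, .ofNat 230, .ofNat 2000, .negSucc 1032, .negSucc 1901⟩, ⟨.ofNat 627, .ofNat 189, .negSucc 69, .negSucc 1171, .ofNat 605, .ofNat 1086⟩, ⟨.ofNat 759, .ofNat 264, .negSucc 166, .negSucc 1544, .ofNat 833, .ofNat 1374⟩, ⟨.negSucc 2037, .negSucc 356, .ofNat 176, .ofNat 2677, .negSucc 1432, .negSucc 3021⟩, ⟨.negSucc 602, .ofNat 140, .negSucc 210, .negSucc 409, .ofNat 162, .negSucc 413⟩, .ofNat 2007, .ofNat 2865, .ofNat 0, .ofNat 2865, .ofNat 5010, .ofNat 0, .ofNat 128, .negSucc 355, .negSucc 1157, .ofNat 0, .ofNat 227, .ofNat 672, .ofNat 0, .ofNat 0, .ofNat 1109, .ofNat 547, .ofNat 0, .ofNat 0, .ofNat 0, .ofNat 0, .ofNat 0, .ofNat 0, .ofNat 9842985244907762364496856626867539542016,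 .ofNat 0, .ofNat 0, .ofNat 0, .ofNat 0, .ofNat 0, .ofNat 0, .ofNat 0, .ofNat 16112733314620459889589821540793453641728, .ofNat 0⟩)
    (by decide +kernel)
theorem L05955 : Good (Phi V5.P V5.D (-1) (-1)) ⟨3, 7, 4, 8, 2, 2, 3, 6, 4, 0⟩ :=
  out_sound (S := T5.ds_mm) T5.ok_mm (w := 47) (j := 3) (by decide +kernel)
theorem L05956 : Good (Phi V5.P V5.D (-1) (-1)) ⟨2, 2, 4, 8, 2, 2, 3, 6, 4, 1⟩ :=
  out_sound (S := T5.ds_mm) T5.ok_mm (w := 41) (j := 3) (by decide +kernel)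
theorem L05957 : Good (Phi V5.P V5.D (-1) (-1)) ⟨4, 12, 4, 8, 2, 2, 3, 6, 4, 1⟩ :=
  out_sound (S := T5.ds_mm) T5.ok_mm (w := 53) (j := 3) (by decide +kernel)
theorem L05958 : Good (Phi V5.P V5.D (-1) (-1)) ⟨5, 26, 4, 8, 2, 2, 3, 6, 5, 2⟩ :=
  leafX_sound T5.ok_mm T5.Ymm.bz_eq (w := 232) (c := ⟨⟨.negSucc 2065, .negSucc 946, .ofNat 1005, .ofNat 708, .ofNat 211, .negSucc 872⟩, ⟨.ofNat 1118, .ofNat 527, .negSucc 420, .negSucc 418, .negSucc 114, .ofNat 486⟩, ⟨.ofNat 1587, .ofNat 645, .negSucc 722, .negSucc 754, .negSucc 185, .ofNat 563⟩, ⟨.negSucc 3884, .negSucc 885, .ofNat 1168, .ofNat 507, .ofNat 376, .negSucc 1227⟩, ⟨.negSucc 1081, .ofNat 527, .negSucc 371, .negSucc 995, .ofNat 116, .ofNat 137⟩, .ofNat 2877, .ofNat 4525, .ofNat 0, .ofNat 4525, .ofNat 8201, .ofNat 0, .ofNat 128, .negSucc 813, .negSucc 2363, .ofNat 0, .ofNat 485, .ofNat 1313, .ofNat 0, .ofNat 0,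 .ofNat 2318, .ofNat 1787, .ofNat 0, .ofNat 0, .ofNat 0, .ofNat 0, .ofNat 0, .ofNat 0, .ofNat 16288891010663930404281206922134260023296, .ofNat 0, .ofNat 0, .ofNat 0, .ofNat 17910618569193819858497922636192914866176, .ofNat 0, .ofNat 0, .ofNat 0, .ofNat 7167261048020659226254590875950209040384, .ofNat 0⟩)
    (by decide +kernel)
theorem L05959 : Good (Phi V5.P V5.D (-1) (-1)) ⟨5, 27, 4, 8, 2, 2, 3, 6, 5, 2⟩ :=
  leafX_sound T5.ok_mm T5.Ymm.bz_eq (w := 229) (c := ⟨⟨.negSucc 3080, .negSucc 1042, .ofNat 614, .ofNat 1005, .ofNat 304, .negSucc 946⟩, ⟨.ofNat 1690, .ofNat 559, .negSucc 186, .negSucc 612, .negSucc 171, .ofNat 557⟩, ⟨.ofNat 2334, .ofNat 802, .negSucc 463, .negSucc 1005, .negSucc 270, .ofNat 612⟩, ⟨.negSucc 4731, .negSucc 867, .ofNat 282, .ofNat 991, .ofNat 477, .negSucc 1505⟩, ⟨.negSucc 338, .ofNat 1039, .negSucc 1097, .negSucc 826, .ofNat 102, .negSucc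 193⟩, .ofNat 2007, .ofNat 2865, .ofNat 0, .ofNat 2865, .ofNat 5010, .ofNat 0, .ofNat 128, .negSucc 421, .negSucc 1317, .ofNat 0, .ofNat 268, .ofNat 764, .ofNat 0, .ofNat 0, .ofNat 1253, .ofNat 452, .ofNat 0, .ofNat 0, .ofNat 115842619427351647752447854498612772864, .ofNat 0, .ofNat 0, .ofNat 0, .ofNat 13285237167699806023780157458856307326976, .ofNat 0, .ofNat 0, .ofNat 0, .ofNat 4686600055803112160088914965118291279872, .ofNat 0, .ofNat 0, .ofNat 0, .ofNat 21722468324195192633700784786871177707520, .ofNat 0⟩)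
    (by decide +kernel)
theorem L05960 : Good (Phi V5.P V5.D (-1) (-1)) ⟨4, 13, 4, 8, 2, 2, 3, 6, 5, 3⟩ :=
  leafX_sound T5.ok_mm T5.Ymm.bz_eq (w := 224) (c := ⟨⟨.negSucc 3135, .negSucc 1495, .ofNat 341, .ofNat 401, .ofNat 529, .ofNat 180⟩, ⟨.ofNat 1691, .ofNat 908, .negSucc 47, .negSucc 266, .negSucc 303, .negSucc 98⟩, ⟨.ofNat 2381, .ofNat 1156, .negSucc 274, .negSucc 756, .negSucc 496, .negSucc 322⟩, ⟨.negSucc 5086, .negSucc 1920, .ofNat 441, .negSucc 41, .ofNat 858, .ofNat 406⟩, ⟨.negSucc 510, .negSucc 23, .negSucc 66, .negSucc 1138, .ofNat 160, .ofNat 267⟩, .ofNat 1485, .ofNat 2043, .ofNat 0, .ofNat 2043, .ofNat 3713, .ofNat 0, .ofNat 128, .negSucc 526, .negSucc 1185, .ofNat 0, .ofNat 331, .ofNat 673, .ofNat 0, .ofNat 0, .ofNat 1209, .ofNat 461, .ofNat 0, .ofNat 0, .ofNat 261647561960339632783004025341985423360, .ofNat 0, .ofNat 0, .ofNat 0, .ofNat 23777595146622991499744429416929720008704,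 .ofNat 0, .ofNat 0, .ofNat 0, .ofNat 0, .ofNat 0, .ofNat 0, .ofNat 0, .ofNat 25774240857483409568852765855000716902400, .ofNat 0⟩)
    (by decide +kernel)
theorem L05961 : Good (Phi V5.P V5.D (-1) (-1)) ⟨3, 7, 4, 8, 2, 2, 3, 6, 4, 1⟩ :=
  out_sound (S := T5.ds_mm) T5.ok_mm (w := 47) (j := 3) (by decide +kernel)
theorem L05962 : Good (Phi V5.P V5.D (-1) (-1)) ⟨2, 2, 4, 8, 2, 2, 3, 7, 3, 0⟩ :=
  out_sound (S := T5.ds_mm) T5.ok_mm (w := 41) (j := 3) (by decide +kernel)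
theorem L05963 : Good (Phi V5.P V5.D (-1) (-1)) ⟨4, 12, 4, 8, 2, 2, 3, 7, 4, 0⟩ :=
  out_sound (S := T5.ds_mm) T5.ok_mm (w := 53) (j := 3) (by decide +kernel)
theorem L05964 : Good (Phi V5.P V5.D (-1) (-1)) ⟨5, 26, 4, 8, 2, 2, 3, 7, 4, 0⟩ :=
  leafX_sound T5.ok_mm T5.Ymm.bz_eq (w := 228) (c := ⟨⟨.negSucc 1095, .ofNat 781, .negSucc 45, .ofNat 573, .negSucc 106, .negSucc 1794⟩, ⟨.ofNat 606, .negSucc 458, .ofNat 80, .negSucc 322, .ofNat 64, .ofNat 988⟩, ⟨.ofNat 763, .negSucc 728, .negSucc 115, .negSucc 295, .negSucc 17, .ofNat 1255⟩, ⟨.negSucc 1879, .ofNat 913, .ofNat 11, .ofNat 757, .negSucc 44, .negSucc 2769⟩, ⟨.negSucc 542, .negSucc 357, .ofNat 172, .negSucc 160, .ofNat 213, .negSucc 173⟩, .ofNat 3189, .ofNat 5072, .ofNat 0, .ofNat 5072, .ofNat 9164, .ofNat 0, .ofNat 128, .negSucc 695, .negSucc 3072, .ofNat 0, .ofNat 419, .ofNat 1699, .ofNat 0, .ofNat 0, .ofNat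 3079, .ofNat 749, .ofNat 0, .ofNat 0, .ofNat 7344673952568646569441550619522367488, .ofNat 0, .ofNat 0, .ofNat 0, .ofNat 246702704348528150741575783627519688704, .ofNat 0, .ofNat 0, .ofNat 0, .ofNat 1051907245372344609439835226513042571264, .ofNat 0, .ofNat 0, .ofNat 0, .ofNat 0, .ofNat 0⟩)
    (by decide +kernel)
theorem L05965 : Good (Phi V5.P V5.D (-1) (-1)) ⟨6, 54, 4, 8, 3, 4, 3, 7, 4, 0⟩ :=
  leafX_sound T5.ok_mm T5.Ymm.bz_eq (w := 244) (c := ⟨⟨.negSucc 646, .negSucc 186, .ofNat 133, .ofNat 446, .ofNat 1102, .negSucc 2206⟩, ⟨.ofNat 331, .ofNat 100, .negSucc 10, .negSucc 268, .negSucc 631, .ofNat 1266⟩, ⟨.ofNat 281, .ofNat 204, .negSucc 169, .negSucc 333, .negSucc 1181, .ofNat 1794⟩, ⟨.negSucc 1272, .negSucc 99, .negSucc 0, .ofNat 342, .ofNat 1517, .negSucc 3116⟩, ⟨.negSucc 581, .ofNat 272, .negSucc 296, .negSucc 521, .negSucc 164, .ofNat 217⟩, .ofNat 2503,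 .ofNat 3763, .ofNat 0, .ofNat 3763, .ofNat 6644, .ofNat 0, .ofNat 128, .negSucc 407, .negSucc 2374, .ofNat 0, .ofNat 256, .ofNat 1361, .ofNat 0, .ofNat 0, .ofNat 2468, .ofNat 487, .ofNat 0, .ofNat 0, .ofNat 0, .ofNat 0, .ofNat 0, .ofNat 637267831426929123893542802437316220544524222464, .ofNat 948783502332781525286221370352211679248384, .ofNat 0, .ofNat 0, .ofNat 0, .ofNat 0, .ofNat 0, .ofNat 0, .ofNat 0, .ofNat 0, .ofNat 0⟩)
    (by decide +kernel)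
theorem L05966 : Good (Phi V5.P V5.D (-1) (-1)) ⟨6, 54, 4, 8, 3, 5, 3, 7, 5, 0⟩ :=
  leafX_sound T5.ok_mm T5.Ymm.bz_eq (w := 249) (c := ⟨⟨.ofNat 68, .ofNat 90, .ofNat 134, .ofNat 9, .negSucc 416, .negSucc 819⟩, ⟨.negSucc 77, .negSucc 71, .negSucc 21, .negSucc 5, .ofNat 241, .ofNat 464⟩, ⟨.negSucc 235, .negSucc 91, .negSucc 81, .ofNat 176, .ofNat 237, .ofNat 556⟩, ⟨.negSucc 541, .ofNat 81, .ofNat 246, .ofNat 98, .negSucc 525, .negSucc 1165⟩, ⟨.negSucc 1138, .negSucc 92, .ofNat 138, .ofNat 150, .ofNat 152, .ofNat 66⟩, .ofNat 2481, .ofNat 3731, .ofNat 0, .ofNat 3731, .ofNat 6609, .ofNat 0, .ofNat 128, .negSucc 443, .negSucc 2414, .ofNat 0, .ofNat 274, .ofNat 1367, .ofNat 0, .ofNat 0, .ofNat 2346, .ofNat 783, .ofNat 0, .ofNat 0, .ofNat 0, .ofNat 0, .ofNat 0, .ofNat 0, .ofNat 19085532940088939897035368279201924717215744, .ofNat 0, .ofNat 0, .ofNat 0, .ofNat 129201039382390289736853011207126338594930688,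 .ofNat 0, .ofNat 0, .ofNat 0, .ofNat 0, .ofNat 0⟩)
    (by decide +kernel)
theorem L05967 : Good (Phi V5.P V5.D (-1) (-1)) ⟨6, 54, 5, 16, 3, 5, 3, 7, 5, 1⟩ :=
  leafX_sound T5.ok_mm T5.Ymm.bz_eq (w := 252) (c := ⟨⟨.negSucc 1297, .negSucc 66, .negSucc 4, .ofNat 179, .ofNat 909, .negSucc 1228⟩, ⟨.ofNat 684, .ofNat 28, .ofNat 47, .negSucc 112, .negSucc 507, .ofNat 694⟩, ⟨.ofNat 827, .ofNat 55, .ofNat 21, .negSucc 82, .negSucc 888, .ofNat 862⟩, ⟨.negSucc 2512, .negSucc 148, .ofNat 34, .ofNat 90, .ofNat 1492, .negSucc 1735⟩, ⟨.negSucc 1049, .negSucc 134, .ofNat 101, .negSucc 305, .ofNat 279, .ofNat 118⟩, .ofNat 2522, .ofNat 3789, .ofNat 0, .ofNat 3789, .ofNat 6686, .ofNat 0, .ofNat 128, .negSucc 402, .negSucc 2477, .ofNat 0, .ofNat 248, .ofNat 1400, .ofNat 0, .ofNat 0, .ofNat 2307, .ofNat 404, .ofNat 0, .ofNat 0, .ofNat 0, .ofNat 0, .ofNat 0, .ofNat 87688684357857347644691234207301206041069321453568,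 .ofNat 65940768589699994936057075442989245545840640, .ofNat 0, .ofNat 0, .ofNat 0, .ofNat 104434367077403553146282301672348067104292864, .ofNat 0, .ofNat 0, .ofNat 0, .ofNat 0, .ofNat 0⟩)
    (by decide +kernel)
theorem L05968 : Good (Phi V5.P V5.D (-1) (-1)) ⟨6, 54, 5, 17, 3, 5, 3, 7, 5, 1⟩ :=
  leafX_sound T5.ok_mm T5.Ymm.bz_eq (w := 255) (c := ⟨⟨.negSucc 1025, .negSucc 664, .ofNat 434, .ofNat 360, .ofNat 782, .negSucc 882⟩, ⟨.ofNat 574, .ofNat 366, .negSucc 209, .negSucc 212, .negSucc 445, .ofNat 509⟩, ⟨.ofNat 633, .ofNat 536, .negSucc 346, .negSucc 229, .negSucc 775, .ofNat 554⟩, ⟨.negSucc 2198, .negSucc 941, .ofNat 537, .ofNat 487, .ofNat 1388, .negSucc 1280⟩, ⟨.negSucc 1175, .ofNat 13, .negSucc 127, .negSucc 64, .ofNat 423, .ofNat 20⟩, .ofNat 3306, .ofNat 5072, .ofNat 0, .ofNat 5072, .ofNat 8774, .ofNat 0, .ofNat 128, .negSucc 694, .negSucc 4360, .ofNat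 0, .ofNat 426, .ofNat 2517, .ofNat 0, .ofNat 0, .ofNat 4048, .ofNat 449, .ofNat 0, .ofNat 0, .ofNat 958998503672900369319361924477648096985088, .ofNat 0, .ofNat 0, .ofNat 0, .ofNat 0, .ofNat 0, .ofNat 0, .ofNat 0, .ofNat 609858535822132120937337160882188315323793408, .ofNat 0, .ofNat 0, .ofNat 0, .ofNat 0, .ofNat 0⟩)
    (by decide +kernel)
theorem L05969 : Good (Phi V5.P V5.D (-1) (-1)) ⟨7, 110, 4, 8, 3, 4, 3, 7, 5, 0⟩ :=
  leafX_sound T5.ok_mm T5.Ymm.bz_eq (w := 254) (c := ⟨⟨.negSucc 426, .ofNat 13, .ofNat 51, .ofNat 449, .ofNat 570, .negSucc 1213⟩, ⟨.ofNat 190, .negSucc 16, .ofNat 18, .negSucc 266, .negSucc 331, .ofNat 720⟩, ⟨.negSucc 2, .negSucc 22, .negSucc 7, .negSucc 283, .negSucc 675, .ofNat 1052⟩, ⟨.negSucc 1218, .ofNat 89, .ofNat 143, .ofNat 529, .ofNat 971, .negSucc 1732⟩, ⟨.negSucc 1063, .ofNat 117, .ofNat 177, .negSucc 205, .ofNat 248, .ofNat 50⟩,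 .ofNat 2275, .ofNat 3269, .ofNat 0, .ofNat 3269, .ofNat 5616, .ofNat 0, .ofNat 128, .negSucc 519, .negSucc 4079, .ofNat 0, .ofNat 348, .ofNat 2382, .ofNat 0, .ofNat 0, .ofNat 4261, .ofNat 1417, .ofNat 0, .ofNat 0, .ofNat 0, .ofNat 0, .ofNat 0, .ofNat 0, .ofNat 71488965244507958883188640938783071426052096, .ofNat 0, .ofNat 0, .ofNat 0, .ofNat 0, .ofNat 0, .ofNat 0, .ofNat 0, .ofNat 0, .ofNat 0⟩)
    (by decide +kernel)
theorem L05970 : Good (Phi V5.P V5.D (-1) (-1)) ⟨7, 110, 5, 16, 3, 5, 3, 7, 5, 0⟩ :=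
  out_sound (S := T5.ds_mm) T5.ok_mm (w := 73) (j := 3) (by decide +kernel)
theorem L05971 : Good (Phi V5.P V5.D (-1) (-1)) ⟨7, 110, 5, 17, 3, 5, 3, 7, 5, 0⟩ :=
  leafX_sound T5.ok_mm T5.Ymm.bz_eq (w := 256) (c := ⟨⟨.ofNat 290, .ofNat 60, .ofNat 86, .negSucc 120, .negSucc 338, .negSucc 839⟩, ⟨.negSucc 212, .negSucc 44, .negSucc 24, .ofNat 73, .ofNat 203, .ofNat 495⟩, ⟨.negSucc 461, .negSucc 65, .negSucc 35, .ofNat 312, .ofNat 156, .ofNat 583⟩, ⟨.negSucc 58, .ofNat 10, .ofNat 143, .negSucc 247, .negSucc 479, .negSucc 1296⟩, ⟨.negSucc 833, .negSucc 124, .ofNat 60, .negSucc 114, .ofNat 27, .negSucc 137⟩, .ofNat 1591, .ofNat 2165, .ofNat 0, .ofNat 2165, .ofNat 3798, .ofNat 0, .ofNat 128, .negSucc 498, .negSucc 3611, .ofNat 0, .ofNat 320, .ofNat 2097, .ofNat 0, .ofNat 0, .ofNat 3407, .ofNat 623, .ofNat 0, .ofNat 0, .ofNat 0, .ofNat 0, .ofNat 0, .ofNat 506719142712452151640646469049503327346958721351680,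 .ofNat 75486722479315340364385786766260633285427200, .ofNat 0, .ofNat 0, .ofNat 0, .ofNat 0, .ofNat 0, .ofNat 0, .ofNat 0, .ofNat 0, .ofNat 0⟩)
    (by decide +kernel)
theorem L05972 : Good (Phi V5.P V5.D (-1) (-1)) ⟨7, 111, 4, 8, 2, 2, 3, 7, 5, 0⟩ :=
  out_sound (S := T5.ds_mm) T5.ok_mm (w := 71) (j := 3) (by decide +kernel)
theorem L05973 : Good (Phi V5.P V5.D (-1) (-1)) ⟨7, 110, 5, 16, 3, 4, 3, 7, 5, 1⟩ :=
  out_sound (S := T5.ds_mm) T5.ok_mm (w := 73) (j := 3) (by decide +kernel)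
theorem L05974 : Good (Phi V5.P V5.D (-1) (-1)) ⟨7, 110, 5, 17, 3, 4, 3, 7, 5, 1⟩ :=
  leafX_sound T5.ok_mm T5.Ymm.bz_eq (w := 256) (c := ⟨⟨.negSucc 2532, .negSucc 300, .ofNat 269, .ofNat 471, .ofNat 2348, .negSucc 797⟩, ⟨.ofNat 1454, .ofNat 175, .negSucc 117, .negSucc 287, .negSucc 1387, .ofNat 475⟩, ⟨.ofNat 1879, .ofNat 269, .negSucc 231, .negSucc 394, .negSucc 2268, .ofNat 607⟩, ⟨.negSucc 4151, .negSucc 370, .ofNat 343, .ofNat 534, .ofNat 3554, .negSucc 1086⟩, ⟨.negSucc 798, .ofNat 77, .negSucc 57, .negSucc 242, .ofNat 244, .ofNat 116⟩, .ofNat 2509, .ofNat 3652, .ofNat 0, .ofNat 3652, .ofNat 6226, .ofNat 0, .ofNat 128, .negSucc 277, .negSucc 2856, .ofNat 0, .ofNat 180, .ofNat 1693, .ofNat 0, .ofNat 0, .ofNat 2898, .ofNat 593, .ofNat 0, .ofNat 0, .ofNat 0, .ofNat 0, .ofNat 0, .ofNat 0, .ofNat 138798696557918343646323544999613376208306176, .ofNat 0, .ofNat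 0, .ofNat 0, .ofNat 40411129685901551008401663297410740491649024, .ofNat 0, .ofNat 0, .ofNat 0, .ofNat 0, .ofNat 0⟩)
    (by decide +kernel)
theorem L05975 : Good (Phi V5.P V5.D (-1) (-1)) ⟨7, 111, 4, 8, 3, 4, 3, 7, 5, 1⟩ :=
  out_sound (S := T5.ds_mm) T5.ok_mm (w := 71) (j := 3) (by decide +kernel)
theorem L05976 : Good (Phi V5.P V5.D (-1) (-1)) ⟨7, 110, 4, 8, 3, 5, 3, 7, 5, 1⟩ :=
  leafX_sound T5.ok_mm T5.Ymm.bz_eq (w := 253) (c := ⟨⟨.negSucc 2073, .negSucc 531, .ofNat 847, .ofNat 516, .ofNat 1224, .negSucc 987⟩, ⟨.ofNat 1133, .ofNat 306, .negSucc 418, .negSucc 308, .negSucc 717, .ofNat 582⟩, ⟨.ofNat 1479, .ofNat 427, .negSucc 656, .negSucc 377, .negSucc 1167, .ofNat 633⟩, ⟨.negSucc 3463, .negSucc 728, .ofNat 1086, .ofNat 498, .ofNat 2012, .negSucc 1484⟩, ⟨.negSucc 827, .ofNat 52, .negSucc 157, .negSucc 423, .ofNat 403, .negSucc 85⟩, .ofNat 2319, .ofNat 3342,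 .ofNat 0, .ofNat 3342, .ofNat 5734, .ofNat 0, .ofNat 128, .negSucc 579, .negSucc 3041, .ofNat 0, .ofNat 371, .ofNat 1756, .ofNat 0, .ofNat 0, .ofNat 2773, .ofNat 781, .ofNat 0, .ofNat 0, .ofNat 0, .ofNat 0, .ofNat 0, .ofNat 0, .ofNat 56936533172930345698353361854668868832722944, .ofNat 0, .ofNat 0, .ofNat 0, .ofNat 0, .ofNat 0, .ofNat 0, .ofNat 0, .ofNat 74038324626109664041119973930105166207385600, .ofNat 0⟩)
    (by decide +kernel)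
theorem L05977 : Good (Phi V5.P V5.D (-1) (-1)) ⟨7, 111, 4, 8, 3, 5, 3, 7, 5, 1⟩ :=
  out_sound (S := T5.ds_mm) T5.ok_mm (w := 71) (j := 3) (by decide +kernel)
theorem L05978 : Good (Phi V5.P V5.D (-1) (-1)) ⟨4, 12, 4, 8, 2, 2, 3, 7, 4, 1⟩ :=
  out_sound (S := T5.ds_mm) T5.ok_mm (w := 53) (j := 3) (by decide +kernel)
theorem L05979 : Good (Phi V5.P V5.D (-1) (-1)) ⟨5, 26, 4, 8, 2, 2, 3, 7, 4, 1⟩ :=
  leafX_sound T5.ok_mm T5.Ymm.bz_eq (w := 222) (c := ⟨⟨.negSucc 2756, .negSucc 468, .ofNat 691, .ofNat 487, .ofNat 1781, .ofNat 84⟩, ⟨.ofNat 1492, .ofNat 272, .negSucc 270, .negSucc 294, .negSucc 976, .negSucc 34⟩, ⟨.ofNat 2123, .ofNat 304, .negSucc 518, .negSucc 601, .negSucc 1621, .negSucc 438⟩, ⟨.negSucc 4575, .negSucc 543, .ofNat 1121, .ofNat 206, .ofNat 2934, .ofNat 226⟩, ⟨.negSucc 650, .ofNat 63, .ofNat 147, .negSucc 925, .ofNat 463, .ofNat 231⟩, .ofNat 1037,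 .ofNat 1336, .ofNat 0, .ofNat 1336, .ofNat 2611, .ofNat 0, .ofNat 128, .negSucc 336, .negSucc 1430, .ofNat 0, .ofNat 211, .ofNat 761, .ofNat 0, .ofNat 0, .ofNat 1392, .ofNat 298, .ofNat 0, .ofNat 0, .ofNat 0, .ofNat 0, .ofNat 0, .ofNat 111920708373276784681657574815357517242040320, .ofNat 84340693326807885183402848121851478016, .ofNat 0, .ofNat 0, .ofNat 11259641951351976561751480438166206921310208, .ofNat 243501486888941902422245906284982304768, .ofNat 0, .ofNat 0, .ofNat 0, .ofNat 0, .ofNat 0⟩)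
    (by decide +kernel)
theorem L05980 : Good (Phi V5.P V5.D (-1) (-1)) ⟨6, 54, 4, 8, 2, 2, 3, 7, 5, 2⟩ :=
  leafX_sound T5.ok_mm T5.Ymm.bz_eq (w := 233) (c := ⟨⟨.negSucc 3248, .negSucc 143, .ofNat 396, .ofNat 360, .ofNat 2090, .negSucc 191⟩, ⟨.ofNat 1791, .ofNat 78, .negSucc 113, .negSucc 234, .negSucc 1181, .ofNat 118⟩, ⟨.ofNat 2440, .ofNat 112, .negSucc 372, .negSucc 470, .negSucc 1873, .negSucc 1⟩, ⟨.negSucc 5172, .negSucc 122, .ofNat 540, .ofNat 23, .ofNat 3444, .negSucc 280⟩, ⟨.negSucc 666, .ofNat 97, .negSucc 67, .negSucc 887, .ofNat 631, .ofNat 28⟩, .ofNat 1559, .ofNat 2176, .ofNat 0, .ofNat 2176, .ofNat 3953, .ofNat 0, .ofNat 128, .negSucc 408, .negSucc 1718, .ofNat 0, .ofNat 256, .ofNat 966, .ofNat 0, .ofNat 0, .ofNat 1627, .ofNat 180, .ofNat 0, .ofNat 0, .ofNat 9037165994139859147029755414840344576, .ofNat 0, .ofNat 0, .ofNat 13038639220218163563102941395927202686448959488,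 .ofNat 0, .ofNat 0, .ofNat 0, .ofNat 0, .ofNat 4649399866911292164152671258678864642048, .ofNat 0, .ofNat 0, .ofNat 0, .ofNat 0, .ofNat 0⟩)
    (by decide +kernel)
theorem L05981 : Good (Phi V5.P V5.D (-1) (-1)) ⟨6, 55, 4, 8, 2, 2, 3, 7, 5, 2⟩ :=
  leafX_sound T5.ok_mm T5.Ymm.bz_eq (w := 234) (c := ⟨⟨.negSucc 3596, .negSucc 274, .ofNat 371, .ofNat 553, .ofNat 2486, .negSucc 181⟩, ⟨.ofNat 2015, .ofNat 162, .negSucc 104, .negSucc 356, .negSucc 1464, .ofNat 115⟩, ⟨.ofNat 2695, .ofNat 214, .negSucc 304, .negSucc 635, .negSucc 2208, .negSucc 11⟩, ⟨.negSucc 5650, .negSucc 355, .ofNat 560, .ofNat 241, .ofNat 4009, .negSucc 245⟩, ⟨.negSucc 723, .ofNat 21, .ofNat 60, .negSucc 947, .ofNat 668, .ofNat 31⟩, .ofNat 1956, .ofNat 2721, .ofNat 0, .ofNat 2721, .ofNat 4665, .ofNat 0, .ofNat 128, .negSucc 464, .negSucc 1948, .ofNat 0, .ofNat 307, .ofNat 1133, .ofNat 0, .ofNat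 0, .ofNat 1829, .ofNat 154, .ofNat 0, .ofNat 0, .ofNat 10166975319282968492377988571087241216, .ofNat 0, .ofNat 0, .ofNat 13445925143948670911134768360920843279046541312, .ofNat 5399531025725373156409357974181293064192, .ofNat 0, .ofNat 0, .ofNat 0, .ofNat 0, .ofNat 0, .ofNat 0, .ofNat 0, .ofNat 5182421332605403933506659737355174281216, .ofNat 0⟩)
    (by decide +kernel)
theorem L05982 : Good (Phi V5.P V5.D (-1) (-1)) ⟨5, 27, 4, 8, 2, 2, 3, 7, 5, 3⟩ :=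
  leafX_sound T5.ok_mm T5.Ymm.bz_eq (w := 228) (c := ⟨⟨.negSucc 3371, .negSucc 111, .ofNat 56, .ofNat 402, .ofNat 1922, .ofNat 382⟩, ⟨.ofNat 1869, .ofNat 92, .ofNat 71, .negSucc 268, .negSucc 1091, .negSucc 209⟩, ⟨.ofNat 2435, .negSucc 86, .ofNat 49, .negSucc 660, .negSucc 1715, .negSucc 474⟩, ⟨.negSucc 5293, .negSucc 120, .ofNat 52, .ofNat 110, .ofNat 3229, .ofNat 674⟩, ⟨.negSucc 519, .negSucc 193, .ofNat 1, .negSucc 837, .ofNat 688, .ofNat 198⟩, .ofNat 1482, .ofNat 2026, .ofNat 0, .ofNat 2026, .ofNat 3657, .ofNat 0, .ofNat 128, .negSucc 566, .negSucc 1284, .ofNat 0, .ofNat 358, .ofNat 727, .ofNat 0, .ofNat 0, .ofNat 1257, .ofNat 160, .ofNat 0, .ofNat 0, .ofNat 47277009369400579511608032997362630656, .ofNat 0, .ofNat 0, .ofNat 870333068384690856554451831862184472874057728, .ofNat 8888903103400415028790858022095855550464, .ofNat 0, .ofNat 0, .ofNat 0, .ofNat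 0, .ofNat 0, .ofNat 0, .ofNat 487252905281464487977932638006936851294715904, .ofNat 16473976743739514708940102178281025961984, .ofNat 0⟩)
    (by decide +kernel)
theorem L05983 : Good (Phi V5.P V5.D (-1) (-1)) ⟨3, 7, 4, 8, 2, 2, 3, 7, 3, 0⟩ :=
  out_sound (S := T5.ds_mm) T5.ok_mm (w := 47) (j := 3) (by decide +kernel)
theorem L05984 : Good (Phi V5.P V5.D (-1) (-1)) ⟨2, 2, 4, 9, 2, 2, 2, 3, 3, 0⟩ :=
  out_sound (S := T5.ds_mm) T5.ok_mm (w := 41) (j := 3) (by decide +kernel)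
theorem L05985 : Good (Phi V5.P V5.D (-1) (-1)) ⟨4, 12, 4, 9, 2, 2, 2, 3, 4, 0⟩ :=
  out_sound (S := T5.ds_mm) T5.ok_mm (w := 53) (j := 3) (by decide +kernel)
theorem L05986 : Good (Phi V5.P V5.D (-1) (-1)) ⟨5, 26, 4, 9, 2, 2, 2, 3, 4, 0⟩ :=
  out_sound (S := T5.ds_mm) T5.ok_mm (w := 59) (j := 3) (by decide +kernel)
theorem L05987 : Good (Phi V5.P V5.D (-1) (-1)) ⟨6, 54, 4, 9, 2, 2, 2, 3, 4, 0⟩ :=
  out_sound (S := T5.ds_mm) T5.ok_mm (w := 65) (j := 3) (by decide +kernel)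
theorem L05988 : Good (Phi V5.P V5.D (-1) (-1)) ⟨6, 55, 4, 9, 2, 2, 3, 6, 5, 0⟩ :=
  leafX_sound T5.ok_mm T5.Ymm.bz_eq (w := 236) (c := ⟨⟨.ofNat 1264, .ofNat 157, .negSucc 282, .ofNat 1271, .negSucc 1357, .negSucc 1638⟩, ⟨.negSucc 766, .negSucc 130, .ofNat 174, .negSucc 767, .ofNat 825, .ofNat 994⟩, ⟨.negSucc 1503, .negSucc 31, .ofNat 172, .negSucc 469, .ofNat 1028, .ofNat 1263⟩, ⟨.ofNat 1147, .ofNat 455, .negSucc 445, .ofNat 2053, .negSucc 2031, .negSucc 2366⟩, ⟨.negSucc 1179, .ofNat 466, .negSucc 55, .ofNat 372, .negSucc 111, .negSucc 1⟩, .ofNat 3127, .ofNat 4600, .ofNat 0, .ofNat 4600, .ofNat 7660, .ofNat 0, .ofNat 128, .negSucc 678, .negSucc 2950, .ofNat 0, .ofNat 435, .ofNat 1792, .ofNat 0, .ofNat 0, .ofNat 2906, .ofNat 620, .ofNat 0, .ofNat 0, .ofNat 92436098728503901692018272128315949056, .ofNat 0, .ofNat 0, .ofNat 0, .ofNat 0, .ofNat 0, .ofNat 0, .ofNat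 0, .ofNat 9452922303962182756647727648860239036416, .ofNat 0, .ofNat 0, .ofNat 0, .ofNat 0, .ofNat 0⟩)
    (by decide +kernel)
theorem L05989 : Good (Phi V5.P V5.D (-1) (-1)) ⟨6, 55, 4, 9, 3, 4, 3, 7, 5, 0⟩ :=
  leafX_sound T5.ok_mm T5.Ymm.bz_eq (w := 251) (c := ⟨⟨.negSucc 588, .ofNat 479, .negSucc 337, .ofNat 532, .ofNat 690, .negSucc 1232⟩, ⟨.ofNat 340, .negSucc 326, .ofNat 274, .negSucc 322, .negSucc 413, .ofNat 753⟩, ⟨.ofNat 197, .negSucc 480, .ofNat 354, .negSucc 369, .negSucc 791, .ofNat 1058⟩, ⟨.negSucc 1584, .ofNat 222, .ofNat 111, .ofNat 1104, .ofNat 1300, .negSucc 1824⟩, ⟨.negSucc 1220, .negSucc 777, .ofNat 1039, .ofNat 568, .ofNat 509, .negSucc 90⟩, .ofNat 4757, .ofNat 7234, .ofNat 0, .ofNat 7234, .ofNat 11914, .ofNat 0, .ofNat 128, .negSucc 363, .negSucc 2882, .ofNat 0, .ofNat 231, .ofNat 1766, .ofNat 0, .ofNat 0, .ofNat 3013, .ofNat 749, .ofNat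 0, .ofNat 0, .ofNat 0, .ofNat 0, .ofNat 0, .ofNat 26436706693708418363669794228106403779109812436992, .ofNat 330501068248886490598502503832620761851363328, .ofNat 0, .ofNat 0, .ofNat 0, .ofNat 0, .ofNat 0, .ofNat 0, .ofNat 0, .ofNat 0, .ofNat 0⟩)
    (by decide +kernel)

end Crest.Agent.R097C5.N5mm
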