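import Crest.Agent.R097.KP7
import Crest.Agent.R097.T5Ymm

/-!
# Row 97, box cover in dimension n = 5 (generated)
-/

set_option autoImplicit false
set_option Elab.async false
set_option maxHeartbeats 0
set_option maxRecDepth 100000

open Crest.Agent.R097 Crest.Agent.R097.KA


namespace Crest.Agent.R097C5.N5mm

theorem L05990 : Good (Phi V5.P V5.D (-1) (-1)) ⟨6, 55, 5, 18, 3, 5, 3, 7, 5, 0⟩ :=
  leafX_sound T5.ok_mm T5.Ymm.bz_eq (w := 254) (c := ⟨⟨.ofNat 216, .ofNat 295, .ofNat 36, .negSucc 36, .negSucc 426, .negSucc 818⟩, ⟨.negSucc 147, .negSucc 204, .ofNat 3, .ofNat 20, .ofNat 263, .ofNat 497⟩, ⟨.negSucc 355, .negSucc 288, .ofNat 4, .ofNat 242, .ofNat 233, .ofNat 565⟩, ⟨.negSucc 336, .ofNat 649, .ofNat 44, .negSucc 185, .negSucc 566, .negSucc 1105⟩, ⟨.negSucc 1081, .ofNat 402, .negSucc 6, .negSucc 216, .ofNat 78, .ofNat 111⟩, .ofNat 4482, .ofNat 6776, .ofNat 0, .ofNat 6776, .ofNat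 11163, .ofNat 0, .ofNat 128, .negSucc 474, .negSucc 3044, .ofNat 0, .ofNat 302, .ofNat 1844, .ofNat 0, .ofNat 0, .ofNat 2926, .ofNat 567, .ofNat 0, .ofNat 0, .ofNat 0, .ofNat 0, .ofNat 0, .ofNat 0, .ofNat 815533493422176207661134853843449836912771072, .ofNat 0, .ofNat 0, .ofNat 0, .ofNat 204825070742907764356157225892958177966686208, .ofNat 0, .ofNat 0, .ofNat 0, .ofNat 0, .ofNat 0⟩)
    (by decide +kernel)
theorem L05991 : Good (Phi V5.P V5.D (-1) (-1)) ⟨6, 55, 5, 19, 3, 5, 3, 7, 5, 0⟩ :=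
  leafX_sound T5.ok_mm T5.Ymm.bz_eq (w := 258) (c := ⟨⟨.ofNat 378, .ofNat 135, .ofNat 418, .negSucc 215, .negSucc 136, .negSucc 956⟩, ⟨.negSucc 230, .negSucc 106, .negSucc 237, .ofNat 134, .ofNat 86, .ofNat 593⟩, ⟨.negSucc 527, .negSucc 120, .negSucc 352, .ofNat 426, .negSucc 22, .ofNat 716⟩, ⟨.ofNat 74, .ofNat 91, .ofNat 355, .negSucc 254, .negSucc 202, .negSucc 1358⟩, ⟨.negSucc 762, .negSucc 153, .negSucc 357, .ofNat 85, .negSucc 9, .ofNat 18⟩, .ofNat 6520, .ofNat 9906, .ofNat 0, .ofNat 9906, .ofNat 15949, .ofNat 0, .ofNat 128, .negSucc 1298, .negSucc 8397, .ofNat 0, .ofNat 832, .ofNat 5203, .ofNat 0, .ofNat 0, .ofNat 8081, .ofNat 2372, .ofNat 0, .ofNat 0, .ofNat 0, .ofNat 0, .ofNat 0, .ofNat 0, .ofNat 823907156188051671693928943356789082424344576, .ofNat 0, .ofNat 0, .ofNat 0, .ofNat 2547858040086310646396827325167257615723397120, .ofNat 0, .ofNat 0, .ofNat 0, .ofNat 0, .ofNat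 0⟩)
    (by decide +kernel)
theorem L05992 : Good (Phi V5.P V5.D (-1) (-1)) ⟨6, 55, 4, 9, 2, 2, 3, 6, 5, 1⟩ :=
  leafX_sound T5.ok_mm T5.Ymm.bz_eq (w := 235) (c := ⟨⟨.negSucc 1356, .negSucc 359, .ofNat 716, .ofNat 2207, .negSucc 626, .negSucc 1864⟩, ⟨.ofNat 820, .ofNat 178, .negSucc 362, .negSucc 1356, .ofNat 386, .ofNat 1129⟩, ⟨.ofNat 953, .ofNat 175, .negSucc 456, .negSucc 1659, .ofNat 447, .ofNat 1382⟩, ⟨.negSucc 2274, .negSucc 575, .ofNat 1157, .ofNat 2937, .negSucc 1048, .negSucc 2786⟩, ⟨.negSucc 555, .negSucc 111, .ofNat 283, .negSucc 382, .negSucc 214, .negSucc 156⟩, .ofNat 3135, .ofNat 4605, .ofNat 0, .ofNat 4605, .ofNat 7654, .ofNat 0, .ofNat 128, .negSucc 497, .negSucc 1713, .ofNat 0, .ofNat 318, .ofNat 1042, .ofNat 0, .ofNat 0, .ofNat 1627, .ofNat 586, .ofNat 0, .ofNat 0, .ofNat 0, .ofNat 0, .ofNat 0, .ofNat 0, .ofNat 0, .ofNat 0, .ofNat 0, .ofNat 0, .ofNat 5292746335589641214106082238680564498432,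 .ofNat 0, .ofNat 0, .ofNat 0, .ofNat 10580397933463608709003884374449262166016, .ofNat 0⟩)
    (by decide +kernel)
theorem L05993 : Good (Phi V5.P V5.D (-1) (-1)) ⟨6, 55, 4, 9, 3, 4, 3, 7, 5, 1⟩ :=
  leafX_sound T5.ok_mm T5.Ymm.bz_eq (w := 251) (c := ⟨⟨.negSucc 2365, .negSucc 101, .ofNat 138, .ofNat 560, .ofNat 2277, .negSucc 962⟩, ⟨.ofNat 1421, .ofNat 35, .ofNat 19, .negSucc 349, .negSucc 1380, .ofNat 581⟩, ⟨.ofNat 1745, .ofNat 65, .negSucc 53, .negSucc 478, .negSucc 2211, .ofNat 741⟩, ⟨.negSucc 4155, .ofNat 116, .ofNat 205, .ofNat 886, .ofNat 3522, .negSucc 1431⟩, ⟨.negSucc 1214, .ofNat 397, .ofNat 25, .ofNat 150, .ofNat 390, .negSucc 76⟩, .ofNat 3059, .ofNat 4491, .ofNat 0, .ofNat 4491, .ofNat 7487, .ofNat 0, .ofNat 128, .negSucc 455, .negSucc 3609, .ofNat 0, .ofNat 295, .ofNat 2186, .ofNat 0, .ofNat 0, .ofNat 3655, .ofNat 385, .ofNat 0, .ofNat 0, .ofNat 0, .ofNat 0, .ofNat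 0, .ofNat 0, .ofNat 0, .ofNat 0, .ofNat 0, .ofNat 0, .ofNat 97086649218919911330567615662703257124339712, .ofNat 0, .ofNat 0, .ofNat 0, .ofNat 0, .ofNat 0⟩)
    (by decide +kernel)
theorem L05994 : Good (Phi V5.P V5.D (-1) (-1)) ⟨7, 110, 5, 18, 3, 5, 3, 7, 5, 1⟩ :=
  leafX_sound T5.ok_mm T5.Ymm.bz_eq (w := 259) (c := ⟨⟨.negSucc 1430, .negSucc 110, .ofNat 254, .ofNat 398, .ofNat 1181, .negSucc 859⟩, ⟨.ofNat 837, .ofNat 59, .negSucc 110, .negSucc 242, .negSucc 701, .ofNat 513⟩, ⟨.ofNat 960, .ofNat 101, .negSucc 187, .negSucc 253, .negSucc 1133, .ofNat 527⟩, ⟨.negSucc 2704, .negSucc 136, .ofNat 463, .ofNat 375, .ofNat 1984, .negSucc 1293⟩, ⟨.negSucc 1048, .ofNat 32, .ofNat 181, .negSucc 329, .ofNat 454, .negSucc 79⟩, .ofNat 3904, .ofNat 5925, .ofNat 0, .ofNat 5925, .ofNat 9924, .ofNat 0, .ofNat 128, .negSucc 822, .negSucc 5029, .ofNat 0, .ofNat 512, .ofNat 3019, .ofNat 0, .ofNat 0,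 .ofNat 4598, .ofNat 1626, .ofNat 0, .ofNat 0, .ofNat 0, .ofNat 0, .ofNat 0, .ofNat 12930757875245252629770161459097383874167248544333824, .ofNat 65158645677784184374772372970105875676004352, .ofNat 0, .ofNat 0, .ofNat 0, .ofNat 300349288206933339609798596345719131270545408, .ofNat 0, .ofNat 0, .ofNat 0, .ofNat 0, .ofNat 0⟩)
    (by decide +kernel)
theorem L05995 : Good (Phi V5.P V5.D (-1) (-1)) ⟨7, 111, 5, 18, 3, 5, 3, 7, 5, 1⟩ :=
  leafX_sound T5.ok_mm T5.Ymm.bz_eq (w := 258) (c := ⟨⟨.negSucc 1468, .negSucc 20, .ofNat 119, .ofNat 370, .ofNat 1395, .negSucc 940⟩, ⟨.ofNat 855, .ofNat 3, .negSucc 30, .negSucc 230, .negSucc 847, .ofNat 576⟩, ⟨.ofNat 980, .negSucc 2, .negSucc 85, .negSucc 213, .negSucc 1315, .ofNat 617⟩, ⟨.negSucc 2854, .negSucc 1, .ofNat 249, .ofNat 572, .ofNat 2188, .negSucc 1502⟩, ⟨.negSucc 1223, .ofNat 27, .ofNat 156, .ofNat 71, .ofNat 302, .negSucc 245⟩, .ofNat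 3716, .ofNat 5504, .ofNat 0, .ofNat 5504, .ofNat 9045, .ofNat 0, .ofNat 128, .negSucc 524, .negSucc 3035, .ofNat 0, .ofNat 334, .ofNat 1848, .ofNat 0, .ofNat 0, .ofNat 2745, .ofNat 1123, .ofNat 0, .ofNat 0, .ofNat 0, .ofNat 0, .ofNat 0, .ofNat 0, .ofNat 522503803271863866931510213171564663971774464, .ofNat 0, .ofNat 0, .ofNat 0, .ofNat 0, .ofNat 0, .ofNat 0, .ofNat 0, .ofNat 0, .ofNat 0⟩)
    (by decide +kernel)
theorem L05996 : Good (Phi V5.P V5.D (-1) (-1)) ⟨7, 110, 5, 19, 3, 5, 3, 7, 5, 1⟩ :=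
  out_sound (S := T5.ds_mm) T5.ok_mm (w := 73) (j := 3) (by decide +kernel)
theorem L05997 : Good (Phi V5.P V5.D (-1) (-1)) ⟨7, 111, 5, 19, 3, 5, 3, 7, 5, 1⟩ :=
  leafX_sound T5.ok_mm T5.Ymm.bz_eq (w := 262) (c := ⟨⟨.negSucc 1209, .negSucc 109, .ofNat 274, .ofNat 298, .ofNat 1172, .negSucc 863⟩, ⟨.ofNat 739, .ofNat 56, .negSucc 130, .negSucc 185, .negSucc 721, .ofNat 535⟩, ⟨.ofNat 759, .ofNat 106, .negSucc 252, .negSucc 148, .negSucc 1117, .ofNat 542⟩, ⟨.negSucc 2493, .negSucc 192, .ofNat 404, .ofNat 447, .ofNat 2033, .negSucc 1199⟩, ⟨.negSucc 1210, .negSucc 81, .ofNat 51, .ofNat 37, .ofNat 567, .ofNat 65⟩, .ofNat 6051, .ofNat 9215, .ofNat 0, .ofNat 9215, .ofNat 14930, .ofNat 0, .ofNat 128, .negSucc 1321, .negSucc 7536, .ofNat 0, .ofNat 835, .ofNat 4677, .ofNat 0, .ofNat 0, .ofNat 6844, .ofNat 1742, .ofNat 0, .ofNat 0, .ofNat 0, .ofNat 0, .ofNat 0, .ofNat 17899752423180644965826874676880071681032887725981696,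 .ofNat 486250644401921359251685738864569711014707200, .ofNat 0, .ofNat 0, .ofNat 0, .ofNat 0, .ofNat 0, .ofNat 0, .ofNat 0, .ofNat 0, .ofNat 0⟩)
    (by decide +kernel)
theorem L05998 : Good (Phi V5.P V5.D (-1) (-1)) ⟨6, 56, 5, 18, 2, 2, 3, 6, 4, 0⟩ :=
  out_sound (S := T5.ds_mm) T5.ok_mm (w := 67) (j := 3) (by decide +kernel)
theorem L05999 : Good (Phi V5.P V5.D (-1) (-1)) ⟨6, 56, 5, 19, 3, 4, 3, 6, 4, 0⟩ :=
  leafX_sound T5.ok_mm T5.Ymm.bz_eq (w := 246) (c := ⟨⟨.ofNat 1138, .ofNat 563, .negSucc 145, .ofNat 1327, .negSucc 855, .negSucc 4649⟩, ⟨.negSucc 748, .negSucc 403, .ofNat 132, .negSucc 839, .ofNat 549, .ofNat 2948⟩, ⟨.negSucc 1315, .negSucc 482, .ofNat 116, .negSucc 1103, .ofNat 708, .ofNat 3987⟩, ⟨.ofNat 1057, .ofNat 804, .negSucc 217, .ofNat 1741, .negSucc 1127, .negSucc 6616⟩, ⟨.negSucc 912, .ofNat 38, .negSucc 11, .negSucc 232, .ofNat 161, .ofNat 11⟩, .ofNat 2058, .ofNat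 2810, .ofNat 0, .ofNat 2810, .ofNat 4624, .ofNat 0, .ofNat 128, .negSucc 511, .negSucc 2389, .ofNat 0, .ofNat 343, .ofNat 1491, .ofNat 0, .ofNat 0, .ofNat 2373, .ofNat 1455, .ofNat 0, .ofNat 0, .ofNat 0, .ofNat 0, .ofNat 0, .ofNat 0, .ofNat 21863655615910987500929881136030039417028608, .ofNat 0, .ofNat 0, .ofNat 0, .ofNat 27989756496712095757397181276614273020198912, .ofNat 0, .ofNat 0, .ofNat 0, .ofNat 39379615765221170420795919910222172476407808, .ofNat 0⟩)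
    (by decide +kernel)
theorem L06000 : Good (Phi V5.P V5.D (-1) (-1)) ⟨7, 112, 5, 19, 3, 5, 3, 6, 4, 0⟩ :=
  leafX_sound T5.ok_mm T5.Ymm.bz_eq (w := 252) (c := ⟨⟨.ofNat 2262, .ofNat 36, .ofNat 59, .ofNat 751, .negSucc 1546, .negSucc 3790⟩, ⟨.negSucc 1450, .negSucc 50, .ofNat 0, .negSucc 473, .ofNat 977, .ofNat 2392⟩, ⟨.negSucc 2001, .negSucc 74, .ofNat 7, .negSucc 373, .ofNat 1189, .ofNat 2864⟩, ⟨.ofNat 2818, .ofNat 1, .ofNat 94, .ofNat 1132, .negSucc 2277, .negSucc 5828⟩, ⟨.negSucc 671, .negSucc 70, .ofNat 45, .ofNat 100, .negSucc 109, .negSucc 662⟩, .ofNat 2969, .ofNat 4229, .ofNat 0, .ofNat 4229, .ofNat 6844, .ofNat 0, .ofNat 128, .negSucc 699, .negSucc 2892, .ofNat 0, .ofNat 455, .ofNat 1808, .ofNat 0, .ofNat 0, .ofNat 2585, .ofNat 1498, .ofNat 0, .ofNat 0, .ofNat 0, .ofNat 0, .ofNat 0, .ofNat 0, .ofNat 23939156682418130179216477522655976326430720, .ofNat 0, .ofNat 0, .ofNat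 0, .ofNat 0, .ofNat 0, .ofNat 0, .ofNat 0, .ofNat 0, .ofNat 0⟩)
    (by decide +kernel)
theorem L06001 : Good (Phi V5.P V5.D (-1) (-1)) ⟨7, 113, 5, 19, 3, 5, 3, 6, 4, 0⟩ :=
  out_sound (S := T5.ds_mm) T5.ok_mm (w := 73) (j := 3) (by decide +kernel)
theorem L06002 : Good (Phi V5.P V5.D (-1) (-1)) ⟨6, 56, 4, 9, 3, 4, 3, 7, 4, 0⟩ :=
  leafX_sound T5.ok_mm T5.Ymm.bz_eq (w := 243) (c := ⟨⟨.negSucc 1289, .negSucc 317, .ofNat 891, .ofNat 1026, .ofNat 1373, .negSucc 2657⟩, ⟨.ofNat 793, .ofNat 190, .negSucc 544, .negSucc 651, .negSucc 867, .ofNat 1683⟩, ⟨.ofNat 908, .ofNat 308, .negSucc 886, .negSucc 831, .negSucc 1503, .ofNat 2267⟩, ⟨.negSucc 2207, .negSucc 39, .ofNat 991, .ofNat 1342, .ofNat 2040, .negSucc 3692⟩, ⟨.negSucc 623, .ofNat 645, .negSucc 436, .negSucc 150, .ofNat 165, .ofNat 133⟩, .ofNat 1563, .ofNat 2021, .ofNat 0, .ofNat 2021, .ofNat 3362, .ofNat 0, .ofNat 128, .negSucc 457,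 .negSucc 3158, .ofNat 0, .ofNat 321, .ofNat 1947, .ofNat 0, .ofNat 0, .ofNat 3176, .ofNat 545, .ofNat 0, .ofNat 0, .ofNat 0, .ofNat 0, .ofNat 0, .ofNat 0, .ofNat 6074600065796696658841354216475983620341760, .ofNat 0, .ofNat 0, .ofNat 0, .ofNat 7803464391466252528227276941829137038835712, .ofNat 0, .ofNat 0, .ofNat 0, .ofNat 5132579818660983418690185498067674614202368, .ofNat 0⟩)
    (by decide +kernel)
theorem L06003 : Good (Phi V5.P V5.D (-1) (-1)) ⟨6, 56, 5, 18, 3, 5, 3, 7, 4, 0⟩ :=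
  out_sound (S := T5.ds_mm) T5.ok_mm (w := 67) (j := 3) (by decide +kernel)
theorem L06004 : Good (Phi V5.P V5.D (-1) (-1)) ⟨7, 112, 5, 19, 3, 5, 3, 7, 5, 0⟩ :=
  leafX_sound T5.ok_mm T5.Ymm.bz_eq (w := 259) (c := ⟨⟨.ofNat 614, .ofNat 120, .ofNat 67, .negSucc 228, .negSucc 264, .negSucc 837⟩, ⟨.negSucc 405, .negSucc 87, .negSucc 24, .ofNat 146, .ofNat 168, .ofNat 529⟩, ⟨.negSucc 720, .negSucc 105, .negSucc 53, .ofNat 453, .ofNat 65, .ofNat 581⟩, ⟨.ofNat 348, .ofNat 83, .ofNat 36, .negSucc 418, .negSucc 126, .negSucc 1195⟩, ⟨.negSucc 849, .negSucc 132, .negSucc 65, .negSucc 147, .ofNat 397, .negSucc 9⟩, .ofNat 6262, .ofNat 9335, .ofNat 0, .ofNat 9335, .ofNat 14774, .ofNat 0, .ofNat 128, .negSucc 409, .negSucc 2983, .ofNat 0, .ofNat 266, .ofNat 1887, .ofNat 0, .ofNat 0, .ofNat 2819, .ofNat 891, .ofNat 0, .ofNat 0, .ofNat 0, .ofNat 0, .ofNat 0, .ofNat 0, .ofNat 1275294743443513411682458658933890249232744448,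 .ofNat 0, .ofNat 0, .ofNat 0, .ofNat 14389186996848094282755252085866889350217728, .ofNat 0, .ofNat 0, .ofNat 0, .ofNat 0, .ofNat 0⟩)
    (by decide +kernel)
theorem L06005 : Good (Phi V5.P V5.D (-1) (-1)) ⟨7, 113, 5, 19, 3, 5, 3, 7, 5, 0⟩ :=
  out_sound (S := T5.ds_mm) T5.ok_mm (w := 73) (j := 3) (by decide +kernel)
theorem L06006 : Good (Phi V5.P V5.D (-1) (-1)) ⟨7, 112, 5, 19, 3, 5, 3, 7, 5, 1⟩ :=
  leafX_sound T5.ok_mm T5.Ymm.bz_eq (w := 259) (c := ⟨⟨.negSucc 1360, .ofNat 649, .negSucc 374, .ofNat 475, .ofNat 1493, .negSucc 914⟩, ⟨.ofNat 824, .negSucc 420, .ofNat 272, .negSucc 294, .negSucc 938, .ofNat 579⟩, ⟨.ofNat 874, .negSucc 525, .ofNat 292, .negSucc 259, .negSucc 1403, .ofNat 599⟩, ⟨.negSucc 2462, .ofNat 852, .negSucc 295, .ofNat 238, .ofNat 2309, .negSucc 1384⟩, ⟨.negSucc 839, .negSucc 118, .ofNat 400, .negSucc 691, .ofNat 286, .negSucc 120⟩, .ofNat 3967, .ofNat 5777,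 .ofNat 0, .ofNat 5777, .ofNat 9254, .ofNat 0, .ofNat 128, .negSucc 750, .negSucc 4473, .ofNat 0, .ofNat 488, .ofNat 2804, .ofNat 0, .ofNat 0, .ofNat 4036, .ofNat 673, .ofNat 0, .ofNat 0, .ofNat 0, .ofNat 0, .ofNat 0, .ofNat 6429138449954608259581034644476240070855862402416640, .ofNat 865303946537228400925652791695707111447068672, .ofNat 0, .ofNat 0, .ofNat 0, .ofNat 382202887976384949251303711492308679457243136, .ofNat 0, .ofNat 0, .ofNat 0, .ofNat 0, .ofNat 0⟩)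
    (by decide +kernel)
theorem L06007 : Good (Phi V5.P V5.D (-1) (-1)) ⟨7, 113, 5, 19, 3, 5, 3, 7, 5, 1⟩ :=
  out_sound (S := T5.ds_mm) T5.ok_mm (w := 73) (j := 3) (by decide +kernel)
theorem L06008 : Good (Phi V5.P V5.D (-1) (-1)) ⟨6, 57, 4, 9, 2, 2, 2, 3, 4, 0⟩ :=
  out_sound (S := T5.ds_mm) T5.ok_mm (w := 65) (j := 3) (by decide +kernel)
theorem L06009 : Good (Phi V5.P V5.D (-1) (-1)) ⟨5, 29, 4, 9, 2, 2, 2, 3, 4, 0⟩ :=
  out_sound (S := T5.ds_mm) T5.ok_mm (w := 59) (j := 3) (by decide +kernel)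
theorem L06010 : Good (Phi V5.P V5.D (-1) (-1)) ⟨4, 15, 4, 9, 2, 2, 2, 3, 4, 0⟩ :=
  out_sound (S := T5.ds_mm) T5.ok_mm (w := 53) (j := 3) (by decide +kernel)
theorem L06011 : Good (Phi V5.P V5.D (-1) (-1)) ⟨4, 12, 4, 9, 2, 2, 2, 3, 4, 1⟩ :=
  out_sound (S := T5.ds_mm) T5.ok_mm (w := 53) (j := 3) (by decide +kernel)
theorem L06012 : Good (Phi V5.P V5.D (-1) (-1)) ⟨5, 26, 4, 9, 2, 2, 2, 3, 4, 1⟩ :=
  out_sound (S := T5.ds_mm) T5.ok_mm (w := 59) (j := 3) (by decide +kernel)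
theorem L06013 : Good (Phi V5.P V5.D (-1) (-1)) ⟨6, 54, 4, 9, 2, 2, 2, 3, 4, 1⟩ :=
  out_sound (S := T5.ds_mm) T5.ok_mm (w := 65) (j := 3) (by decide +kernel)
theorem L06014 : Good (Phi V5.P V5.D (-1) (-1)) ⟨6, 55, 4, 9, 2, 2, 3, 6, 5, 2⟩ :=
  leafX_sound T5.ok_mm T5.Ymm.bz_eq (w := 236) (c := ⟨⟨.negSucc 3344, .negSucc 80, .ofNat 11, .ofNat 1135, .ofNat 430, .negSucc 976⟩, ⟨.ofNat 1985, .ofNat 60, .ofNat 124, .negSucc 715, .negSucc 256, .ofNat 598⟩, ⟨.ofNat 2541, .ofNat 118, .negSucc 56, .negSucc 1116, .negSucc 355, .ofNat 600⟩, ⟨.negSucc 5061, .negSucc 166, .negSucc 12, .ofNat 1144, .ofNat 507, .negSucc 1601⟩, ⟨.negSucc 330, .negSucc 236, .ofNat 56, .negSucc 805, .negSucc 177, .negSucc 291⟩, .ofNat 3068, .ofNat 4507, .ofNat 0, .ofNat 4507, .ofNat 7512, .ofNat 0, .ofNat 128, .negSucc 933, .negSucc 2463, .ofNat 0, .ofNat 595, .ofNat 1495, .ofNat 0, .ofNat 0, .ofNat 2351, .ofNat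 1154, .ofNat 0, .ofNat 0, .ofNat 0, .ofNat 0, .ofNat 0, .ofNat 0, .ofNat 7501070721870067597326854850846616715264, .ofNat 0, .ofNat 0, .ofNat 0, .ofNat 0, .ofNat 0, .ofNat 0, .ofNat 0, .ofNat 12474330864204159812431052596990586126336, .ofNat 0⟩)
    (by decide +kernel)
theorem L06015 : Good (Phi V5.P V5.D (-1) (-1)) ⟨6, 55, 4, 9, 2, 2, 3, 7, 5, 2⟩ :=
  leafX_sound T5.ok_mm T5.Ymm.bz_eq (w := 236) (c := ⟨⟨.negSucc 3317, .negSucc 362, .ofNat 429, .ofNat 772, .ofNat 2532, .negSucc 132⟩, ⟨.ofNat 1982, .ofNat 225, .negSucc 165, .negSucc 494, .negSucc 1532, .ofNat 87⟩, ⟨.ofNat 2408, .ofNat 389, .negSucc 399, .negSucc 749, .negSucc 2234, .negSucc 70⟩, ⟨.negSucc 5262, .negSucc 339, .ofNat 460, .ofNat 623, .ofNat 3997, .negSucc 173⟩, ⟨.negSucc 757, .ofNat 221, .negSucc 214, .negSucc 796, .ofNat 576, .ofNat 28⟩, .ofNat 3661, .ofNat 5448, .ofNat 0, .ofNat 5448, .ofNat 9009, .ofNat 0, .ofNat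 128, .negSucc 800, .negSucc 2538, .ofNat 0, .ofNat 511, .ofNat 1539, .ofNat 0, .ofNat 0, .ofNat 2398, .ofNat 205, .ofNat 0, .ofNat 0, .ofNat 20273571370490673400403616252957818880, .ofNat 0, .ofNat 0, .ofNat 19043279161137420660537703791361772102977847296, .ofNat 7096143007809999942111591949276450652160, .ofNat 0, .ofNat 0, .ofNat 0, .ofNat 0, .ofNat 0, .ofNat 0, .ofNat 0, .ofNat 19664204792182569368035503835648370933760, .ofNat 0⟩)
    (by decide +kernel)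
theorem L06016 : Good (Phi V5.P V5.D (-1) (-1)) ⟨6, 55, 4, 9, 2, 2, 2, 3, 5, 3⟩ :=
  leafX_sound T5.ok_mm T5.Ymm.bz_eq (w := 231) (c := ⟨⟨.negSucc 4086, .negSucc 420, .ofNat 294, .ofNat 311, .ofNat 2232, .ofNat 354⟩, ⟨.ofNat 2434, .ofNat 278, .negSucc 48, .negSucc 213, .negSucc 1355, .negSucc 210⟩, ⟨.ofNat 3113, .ofNat 333, .negSucc 293, .negSucc 706, .negSucc 1985, .negSucc 450⟩, ⟨.negSucc 6327, .negSucc 454, .ofNat 368, .negSucc 167, .ofNat 3522, .ofNat 557⟩, ⟨.negSucc 629, .ofNat 93, .negSucc 7, .negSucc 1017, .ofNat 488, .ofNat 86⟩, .ofNat 3028, .ofNat 4434, .ofNat 0, .ofNat 4434, .ofNat 7379, .ofNat 0, .ofNat 128, .negSucc 847, .negSucc 2096, .ofNat 0, .ofNat 541, .ofNat 1272, .ofNat 0, .ofNat 0, .ofNat 2070, .ofNat 243, .ofNat 0, .ofNat 0, .ofNat 3440288627477435580247381209604161536, .ofNat 0, .ofNat 0, .ofNat 4853932479296029531852838781701100262062555136, .ofNat 525548266296992541523778236490216112128,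 .ofNat 0, .ofNat 0, .ofNat 0, .ofNat 0, .ofNat 0, .ofNat 0, .ofNat 0, .ofNat 0, .ofNat 0⟩)
    (by decide +kernel)
theorem L06017 : Good (Phi V5.P V5.D (-1) (-1)) ⟨6, 56, 5, 18, 2, 2, 2, 3, 5, 2⟩ :=
  out_sound (S := T5.ds_mm) T5.ok_mm (w := 67) (j := 3) (by decide +kernel)
theorem L06018 : Good (Phi V5.P V5.D (-1) (-1)) ⟨6, 56, 5, 19, 3, 4, 3, 6, 5, 2⟩ :=
  leafX_sound T5.ok_mm T5.Ymm.bz_eq (w := 255) (c := ⟨⟨.negSucc 3463, .ofNat 185, .negSucc 225, .ofNat 374, .ofNat 382, .negSucc 782⟩, ⟨.ofNat 2139, .negSucc 105, .ofNat 213, .negSucc 245, .negSucc 240, .ofNat 497⟩, ⟨.ofNat 2645, .negSucc 96, .ofNat 144, .negSucc 457, .negSucc 313, .ofNat 533⟩, ⟨.negSucc 5495, .ofNat 217, .negSucc 64, .ofNat 263, .ofNat 502, .negSucc 1017⟩, ⟨.negSucc 863, .negSucc 205, .ofNat 427, .negSucc 424, .negSucc 58, .ofNat 156⟩, .ofNat 4023, .ofNat 5798, .ofNat 0, .ofNat 5798, .ofNat 9183, .ofNat 0, .ofNat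 128, .negSucc 979, .negSucc 3695, .ofNat 0, .ofNat 654, .ofNat 2348, .ofNat 0, .ofNat 0, .ofNat 3686, .ofNat 2744, .ofNat 0, .ofNat 0, .ofNat 0, .ofNat 0, .ofNat 0, .ofNat 0, .ofNat 3984491234467800630357089769780613541533843456, .ofNat 0, .ofNat 0, .ofNat 0, .ofNat 0, .ofNat 0, .ofNat 0, .ofNat 0, .ofNat 1358848740013569802509288213860490139754561536, .ofNat 0⟩)
    (by decide +kernel)
theorem L06019 : Good (Phi V5.P V5.D (-1) (-1)) ⟨6, 56, 5, 19, 3, 4, 3, 7, 5, 2⟩ :=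
  leafX_sound T5.ok_mm T5.Ymm.bz_eq (w := 255) (c := ⟨⟨.negSucc 3529, .negSucc 65, .ofNat 0, .ofNat 296, .ofNat 3062, .negSucc 115⟩, ⟨.ofNat 2190, .ofNat 39, .ofNat 53, .negSucc 192, .negSucc 1933, .ofNat 79⟩, ⟨.ofNat 2677, .ofNat 121, .negSucc 40, .negSucc 332, .negSucc 2845, .negSucc 28⟩, ⟨.negSucc 5532, .ofNat 131, .negSucc 19, .ofNat 248, .ofNat 4693, .negSucc 130⟩, ⟨.negSucc 772, .ofNat 273, .negSucc 19, .negSucc 281, .ofNat 514, .ofNat 61⟩, .ofNat 3952, .ofNat 5757, .ofNat 0, .ofNat 5757, .ofNat 9226, .ofNat 0, .ofNat 128, .negSucc 528, .negSucc 3832, .ofNat 0, .ofNat 348, .ofNat 2411, .ofNat 0, .ofNat 0, .ofNat 3801, .ofNat 900, .ofNat 0, .ofNat 0, .ofNat 0, .ofNat 0, .ofNat 0, .ofNat 1525087861672784137832493322895173901550027863490560, .ofNat 2855828172036625721428683029019948285931028480, .ofNat 0, .ofNat 0, .ofNat 491219635808267585297972132565287842930474178576384,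 .ofNat 449115155031094168304372376408193733496930304, .ofNat 0, .ofNat 0, .ofNat 0, .ofNat 0, .ofNat 0⟩)
    (by decide +kernel)
theorem L06020 : Good (Phi V5.P V5.D (-1) (-1)) ⟨6, 56, 5, 19, 3, 5, 2, 3, 5, 2⟩ :=
  leafX_sound T5.ok_mm T5.Ymm.bz_eq (w := 250) (c := ⟨⟨.negSucc 3210, .ofNat 451, .negSucc 34, .ofNat 1042, .ofNat 2096, .negSucc 1421⟩, ⟨.ofNat 1977, .negSucc 294, .ofNat 90, .negSucc 664, .negSucc 1323, .ofNat 898⟩, ⟨.ofNat 2297, .negSucc 308, .ofNat 12, .negSucc 861, .negSucc 1802, .ofNat 945⟩, ⟨.negSucc 5242, .ofNat 691, .negSucc 90, .ofNat 1211, .ofNat 3139, .negSucc 2151⟩, ⟨.negSucc 1052, .ofNat 33, .negSucc 50, .negSucc 426, .ofNat 255, .negSucc 196⟩, .ofNat 4023, .ofNat 5798, .ofNat 0, .ofNat 5798, .ofNat 9183, .ofNat 0, .ofNat 128, .negSucc 555, .negSucc 3557, .ofNat 0, .ofNat 365, .ofNat 2243, .ofNat 0, .ofNat 0, .ofNat 3056, .ofNat 441, .ofNat 0, .ofNat 0, .ofNat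 92308872672836600255979232230939574665216, .ofNat 0, .ofNat 0, .ofNat 230239914747252161839440289098869760591799819173888, .ofNat 171927665668240912775919619916445308980035584, .ofNat 0, .ofNat 0, .ofNat 0, .ofNat 23247621839784291408965365014162310344736768, .ofNat 0, .ofNat 0, .ofNat 0, .ofNat 46046719372266434496773773657640472846270464, .ofNat 0⟩)
    (by decide +kernel)
theorem L06021 : Good (Phi V5.P V5.D (-1) (-1)) ⟨6, 56, 4, 9, 3, 4, 2, 3, 5, 3⟩ :=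
  leafX_sound T5.ok_mm T5.Ymm.bz_eq (w := 245) (c := ⟨⟨.negSucc 4401, .negSucc 117, .ofNat 20, .ofNat 189, .ofNat 2503, .ofNat 368⟩, ⟨.ofNat 2701, .ofNat 136, .ofNat 70, .negSucc 127, .negSucc 1592, .negSucc 231⟩, ⟨.ofNat 3341, .ofNat 86, .negSucc 19, .negSucc 364, .negSucc 2283, .negSucc 437⟩, ⟨.negSucc 6606, .ofNat 14, .negSucc 69, .negSucc 55, .ofNat 3942, .ofNat 581⟩, ⟨.negSucc 542, .ofNat 116, .negSucc 75, .negSucc 500, .ofNat 551, .ofNat 100⟩, .ofNat 2065, .ofNat 2821, .ofNat 0, .ofNat 2821, .ofNat 4641, .ofNat 0, .ofNat 128, .negSucc 576, .negSucc 2771, .ofNat 0, .ofNat 385, .ofNat 1727, .ofNat 0, .ofNat 0, .ofNat 2865, .ofNat 323, .ofNat 0, .ofNat 0, .ofNat 38455059941026267203871060735958087368704, .ofNat 0, .ofNat 0, .ofNat 24874097778518748409748743470266518244433160306688, .ofNat 8029114207972406710963902222123228645556224, .ofNat 0, .ofNat 0, .ofNat 0, .ofNat 0, .ofNat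 0, .ofNat 0, .ofNat 0, .ofNat 0, .ofNat 0⟩)
    (by decide +kernel)
theorem L06022 : Good (Phi V5.P V5.D (-1) (-1)) ⟨6, 56, 4, 9, 3, 5, 2, 3, 5, 3⟩ :=
  leafX_sound T5.ok_mm T5.Ymm.bz_eq (w := 243) (c := ⟨⟨.negSucc 4652, .negSucc 198, .ofNat 395, .ofNat 557, .ofNat 2580, .ofNat 418⟩, ⟨.ofNat 2813, .ofNat 125, .negSucc 98, .negSucc 366, .negSucc 1636, .negSucc 261⟩, ⟨.ofNat 3257, .ofNat 62, .negSucc 222, .negSucc 645, .negSucc 2149, .negSucc 547⟩, ⟨.negSucc 7429, .negSucc 237, .ofNat 575, .ofNat 406, .ofNat 4145, .ofNat 690⟩, ⟨.negSucc 1254, .negSucc 36, .ofNat 65, .negSucc 620, .ofNat 710, .ofNat 149⟩, .ofNat 1563, .ofNat 2021, .ofNat 0, .ofNat 2021, .ofNat 3362, .ofNat 0, .ofNat 128, .negSucc 499, .negSucc 1937, .ofNat 0, .ofNat 332, .ofNat 1183, .ofNat 0, .ofNat 0, .ofNat 1674, .ofNat 445, .ofNat 0, .ofNat 0, .ofNat 28308702702070072171914280077379053289472, .ofNat 0, .ofNat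 0, .ofNat 24028331462879258586604205114414114160240861642752, .ofNat 5478041586924995527257338397014189775257600, .ofNat 0, .ofNat 0, .ofNat 0, .ofNat 0, .ofNat 0, .ofNat 0, .ofNat 30909380419806869000892560744517135929622004760576, .ofNat 10042855170058668894710685759198028109971456, .ofNat 0⟩)
    (by decide +kernel)
theorem L06023 : Good (Phi V5.P V5.D (-1) (-1)) ⟨6, 57, 4, 9, 2, 2, 2, 3, 4, 1⟩ :=
  out_sound (S := T5.ds_mm) T5.ok_mm (w := 65) (j := 3) (by decide +kernel)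
theorem L06024 : Good (Phi V5.P V5.D (-1) (-1)) ⟨5, 29, 4, 9, 2, 2, 2, 3, 4, 1⟩ :=
  out_sound (S := T5.ds_mm) T5.ok_mm (w := 59) (j := 3) (by decide +kernel)
theorem L06025 : Good (Phi V5.P V5.D (-1) (-1)) ⟨4, 15, 4, 9, 2, 2, 2, 3, 4, 1⟩ :=
  out_sound (S := T5.ds_mm) T5.ok_mm (w := 53) (j := 3) (by decide +kernel)
theorem L06026 : Good (Phi V5.P V5.D (-1) (-1)) ⟨2, 2, 3, 4, 2, 2, 2, 3, 3, 1⟩ :=
  out_sound (S := T5.ds_mm) T5.ok_mm (w := 39) (j := 3) (by decide +kernel)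
theorem L06027 : Good (Phi V5.P V5.D (-1) (-1)) ⟨4, 12, 3, 4, 2, 2, 2, 3, 4, 2⟩ :=
  out_sound (S := T5.ds_mm) T5.ok_mm (w := 51) (j := 3) (by decide +kernel)
theorem L06028 : Good (Phi V5.P V5.D (-1) (-1)) ⟨4, 13, 3, 4, 2, 2, 3, 6, 5, 4⟩ :=
  leafX_sound T5.ok_mm T5.Ymm.bz_eq (w := 219) (c := ⟨⟨.negSucc 3527, .negSucc 426, .negSucc 75, .ofNat 566, .ofNat 730, .ofNat 486⟩, ⟨.ofNat 1909, .ofNat 337, .ofNat 296, .negSucc 361, .negSucc 422, .negSucc 277⟩, ⟨.ofNat 2540, .ofNat 369, .negSucc 54, .negSucc 954, .negSucc 651, .negSucc 549⟩, ⟨.negSucc 5641, .negSucc 328, .negSucc 217, .ofNat 304, .ofNat 1212, .ofNat 836⟩, ⟨.negSucc 405, .negSucc 171, .ofNat 0, .negSucc 900, .ofNat 269, .ofNat 229⟩, .ofNat 1521, .ofNat 2092, .ofNat 0, .ofNat 2092, .ofNat 3768, .ofNat 0, .ofNat 128, .negSucc 335, .negSucc 430, .ofNat 0, .ofNat 212, .ofNat 246, .ofNat 0, .ofNat 0, .ofNat 489, .ofNat 506, .ofNat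 0, .ofNat 0, .ofNat 0, .ofNat 0, .ofNat 0, .ofNat 0, .ofNat 0, .ofNat 0, .ofNat 0, .ofNat 0, .ofNat 10131507463326826601944148462719054381056, .ofNat 0, .ofNat 0, .ofNat 0, .ofNat 0, .ofNat 0⟩)
    (by decide +kernel)
theorem L06029 : Good (Phi V5.P V5.D (-1) (-1)) ⟨4, 13, 3, 4, 2, 2, 3, 7, 5, 4⟩ :=
  leafX_sound T5.ok_mm T5.Ymm.bz_eq (w := 220) (c := ⟨⟨.negSucc 2756, .negSucc 369, .ofNat 289, .ofNat 489, .ofNat 1360, .ofNat 343⟩, ⟨.ofNat 1519, .ofNat 229, .ofNat 30, .negSucc 300, .negSucc 778, .negSucc 189⟩, ⟨.ofNat 1910, .ofNat 66, .negSucc 165, .negSucc 803, .negSucc 1210, .negSucc 420⟩, ⟨.negSucc 4496, .negSucc 249, .ofNat 286, .ofNat 364, .ofNat 2504, .ofNat 684⟩, ⟨.negSucc 548, .ofNat 132, .negSucc 193, .negSucc 602, .ofNat 890, .ofNat 316⟩, .ofNat 1570, .ofNat 2163, .ofNat 0, .ofNat 2163, .ofNat 3865, .ofNat 0, .ofNat 128, .negSucc 539, .negSucc 979, .ofNat 0, .ofNat 340,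 .ofNat 559, .ofNat 0, .ofNat 0, .ofNat 1080, .ofNat 242, .ofNat 0, .ofNat 0, .ofNat 0, .ofNat 0, .ofNat 0, .ofNat 6014432712056809771528689786354413678362624, .ofNat 7095175078012099035756175450181126324224, .ofNat 0, .ofNat 0, .ofNat 10877653946077997188532607428068895394627584, .ofNat 21983909144268020925714294233092354736128, .ofNat 0, .ofNat 0, .ofNat 0, .ofNat 0, .ofNat 0⟩)
    (by decide +kernel)
theorem L06030 : Good (Phi V5.P V5.D (-1) (-1)) ⟨4, 13, 3, 4, 2, 2, 2, 3, 5, 5⟩ :=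
  leafX_sound T5.ok_mm T5.Ymm.bz_eq (w := 214) (c := ⟨⟨.negSucc 3033, .negSucc 472, .ofNat 210, .ofNat 599, .ofNat 1247, .ofNat 446⟩, ⟨.ofNat 1656, .ofNat 309, .ofNat 115, .negSucc 364, .negSucc 711, .negSucc 254⟩, ⟨.ofNat 2171, .ofNat 168, .negSucc 134, .negSucc 1058, .negSucc 1238, .negSucc 457⟩, ⟨.negSucc 4851, .negSucc 528, .ofNat 308, .ofNat 487, .ofNat 2417, .ofNat 800⟩, ⟨.negSucc 386, .negSucc 166, .ofNat 45, .negSucc 676, .ofNat 995, .ofNat 237⟩, .ofNat 745, .ofNat 823, .ofNat 0, .ofNat 823, .ofNat 1624, .ofNat 0, .ofNat 128, .negSucc 443, .negSucc 620, .ofNat 0, .ofNat 300, .ofNat 339, .ofNat 0, .ofNat 0, .ofNat 872, .ofNat 168, .ofNat 0, .ofNat 0, .ofNat 0, .ofNat 0, .ofNat 0, .ofNat 1449872464124155156462176073072578872213504, .ofNat 87721444350099943583666292996704305152, .ofNat 0, .ofNat 0, .ofNat 2888723274703996205418227778108104340668416, .ofNat 87607363208709615673478003269813927936,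 .ofNat 0, .ofNat 0, .ofNat 0, .ofNat 0, .ofNat 0⟩)
    (by decide +kernel)
theorem L06031 : Good (Phi V5.P V5.D (-1) (-1)) ⟨5, 28, 3, 4, 2, 2, 2, 3, 5, 4⟩ :=
  leafX_sound T5.ok_mm T5.Ymm.bz_eq (w := 219) (c := ⟨⟨.negSucc 3722, .negSucc 163, .negSucc 316, .ofNat 645, .ofNat 1956, .ofNat 574⟩, ⟨.ofNat 2109, .ofNat 128, .ofNat 469, .negSucc 424, .negSucc 1235, .negSucc 362⟩, ⟨.ofNat 2419, .negSucc 211, .ofNat 567, .negSucc 1048, .negSucc 1752, .negSucc 589⟩, ⟨.negSucc 5551, .negSucc 66, .negSucc 561, .ofNat 259, .ofNat 3215, .ofNat 934⟩, ⟨.negSucc 517, .negSucc 48, .ofNat 32, .negSucc 1055, .ofNat 655, .ofNat 172⟩, .ofNat 1144, .ofNat 1348, .ofNat 0, .ofNat 1348, .ofNat 2275, .ofNat 0, .ofNat 128, .negSucc 375, .negSucc 887, .ofNat 0, .ofNat 267, .ofNat 539, .ofNat 0, .ofNat 0, .ofNat 938, .ofNat 218, .ofNat 0, .ofNat 0, .ofNat 1066850708595914278017781611536318464, .ofNat 0, .ofNat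 0, .ofNat 32018377080734607674636041411797090478063616, .ofNat 221189474480705187541202696367696248832, .ofNat 0, .ofNat 0, .ofNat 9567507571040635964123392769305024344883200, .ofNat 197303484259601714233462813138987515904, .ofNat 0, .ofNat 0, .ofNat 62575158682984994934624226529130313058091008, .ofNat 208876446638270027997507823434511417344, .ofNat 0⟩)
    (by decide +kernel)
theorem L06032 : Good (Phi V5.P V5.D (-1) (-1)) ⟨5, 28, 3, 4, 2, 2, 2, 3, 5, 5⟩ :=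
  leafX_sound T5.ok_mm T5.Ymm.bz_eq (w := 218) (c := ⟨⟨.negSucc 3117, .ofNat 72, .negSucc 281, .ofNat 645, .ofNat 1547, .ofNat 386⟩, ⟨.ofNat 1772, .negSucc 21, .ofNat 393, .negSucc 420, .negSucc 967, .negSucc 241⟩, ⟨.ofNat 2048, .negSucc 169, .ofNat 253, .negSucc 1103, .negSucc 1464, .negSucc 413⟩, ⟨.negSucc 4926, .ofNat 25, .negSucc 246, .ofNat 475, .ofNat 2825, .ofNat 708⟩, ⟨.negSucc 726, .negSucc 160, .ofNat 241, .negSucc 725, .ofNat 940, .ofNat 241⟩, .ofNat 682, .ofNat 676, .ofNat 0, .ofNat 676, .ofNat 1249, .ofNat 0, .ofNat 128, .negSucc 394, .negSucc 498, .ofNat 0, .ofNat 294, .ofNat 286, .ofNat 0, .ofNat 0, .ofNat 642, .ofNat 226, .ofNat 0, .ofNat 0, .ofNat 0, .ofNat 0, .ofNat 0, .ofNat 26787072819129933526809332504269515202232320, .ofNat 10275175505227561573273854168430280704, .ofNat 0, .ofNat 0, .ofNat 64469559724726713654467242933826743223451648, .ofNat 86317901196388065006510962353551441920,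 .ofNat 0, .ofNat 0, .ofNat 0, .ofNat 0, .ofNat 0⟩)
    (by decide +kernel)
theorem L06033 : Good (Phi V5.P V5.D (-1) (-1)) ⟨5, 29, 3, 4, 2, 2, 2, 3, 4, 2⟩ :=
  out_sound (S := T5.ds_mm) T5.ok_mm (w := 57) (j := 3) (by decide +kernel)
theorem L06034 : Good (Phi V5.P V5.D (-1) (-1)) ⟨4, 15, 3, 4, 2, 2, 2, 3, 4, 2⟩ :=
  out_sound (S := T5.ds_mm) T5.ok_mm (w := 51) (j := 3) (by decide +kernel)
theorem L06035 : Good (Phi V5.P V5.D (-1) (-1)) ⟨4, 12, 3, 4, 2, 2, 2, 3, 4, 3⟩ :=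
  out_sound (S := T5.ds_mm) T5.ok_mm (w := 51) (j := 3) (by decide +kernel)
theorem L06036 : Good (Phi V5.P V5.D (-1) (-1)) ⟨4, 13, 3, 4, 2, 2, 2, 3, 4, 3⟩ :=
  leafX_sound T5.ok_mm T5.Ymm.bz_eq (w := 210) (c := ⟨⟨.negSucc 2794, .ofNat 146, .negSucc 73, .ofNat 371, .ofNat 911, .ofNat 425⟩, ⟨.ofNat 1500, .ofNat 14, .ofNat 183, .negSucc 223, .negSucc 501, .negSucc 236⟩, ⟨.ofNat 1844, .negSucc 32, .negSucc 36, .negSucc 1128, .negSucc 1103, .negSucc 679⟩, ⟨.negSucc 4451, .ofNat 310, .negSucc 120, .ofNat 422, .ofNat 1947, .ofNat 870⟩, ⟨.negSucc 334, .negSucc 236, .negSucc 0, .negSucc 202, .ofNat 1029, .ofNat 427⟩, .ofNat 1097, .ofNat 1388, .ofNat 0, .ofNat 1388, .ofNat 2567, .ofNat 0, .ofNat 128, .negSucc 817, .negSucc 329, .ofNat 0, .ofNat 542, .ofNat 184, .ofNat 0, .ofNat 0, .ofNat 866, .ofNat 279, .ofNat 0, .ofNat 0, .ofNat 0, .ofNat 0, .ofNat 0, .ofNat 272516262893039031683224549878106582679552,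 .ofNat 13158032307153789996339834709579137024, .ofNat 0, .ofNat 0, .ofNat 4004904321735742330077758567756024741101568, .ofNat 41888958869478732987552304771381592064, .ofNat 0, .ofNat 0, .ofNat 1110043928809816208609570053173327760982016, .ofNat 0, .ofNat 0⟩)
    (by decide +kernel)
theorem L06037 : Good (Phi V5.P V5.D (-1) (-1)) ⟨5, 28, 3, 4, 2, 2, 2, 3, 4, 3⟩ :=
  leafX_sound T5.ok_mm T5.Ymm.bz_eq (w := 216) (c := ⟨⟨.negSucc 2865, .negSucc 92, .ofNat 74, .ofNat 384, .ofNat 974, .ofNat 458⟩, ⟨.ofNat 1665, .ofNat 104, .ofNat 104, .negSucc 245, .negSucc 603, .negSucc 282⟩, ⟨.ofNat 1849, .ofNat 23, .negSucc 48, .negSucc 1195, .negSucc 1074, .negSucc 715⟩, ⟨.negSucc 4325, .negSucc 82, .ofNat 10, .ofNat 421, .ofNat 2016, .ofNat 938⟩, ⟨.negSucc 378, .negSucc 106, .negSucc 119, .negSucc 204, .ofNat 980, .ofNat 458⟩, .ofNat 1329, .ofNat 1686, .ofNat 0, .ofNat 1686, .ofNat 2871, .ofNat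 0, .ofNat 128, .negSucc 1406, .negSucc 523, .ofNat 0, .ofNat 959, .ofNat 313, .ofNat 0, .ofNat 0, .ofNat 1382, .ofNat 414, .ofNat 0, .ofNat 0, .ofNat 0, .ofNat 0, .ofNat 0, .ofNat 7470591600405030926080421519301615321874432, .ofNat 13515525735186767443244880407988011008, .ofNat 0, .ofNat 0, .ofNat 181586256717086637174647486204748952330305536, .ofNat 63968412428254178676986772844705742848, .ofNat 0, .ofNat 0, .ofNat 43059416512962270093096590972563578844872704, .ofNat 8300368840416760541299084718277394432, .ofNat 0⟩)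
    (by decide +kernel)
theorem L06038 : Good (Phi V5.P V5.D (-1) (-1)) ⟨5, 29, 3, 4, 2, 2, 2, 3, 4, 3⟩ :=
  out_sound (S := T5.ds_mm) T5.ok_mm (w := 57) (j := 3) (by decide +kernel)
theorem L06039 : Good (Phi V5.P V5.D (-1) (-1)) ⟨4, 15, 3, 4, 2, 2, 2, 3, 4, 3⟩ :=
  out_sound (S := T5.ds_mm) T5.ok_mm (w := 51) (j := 3) (by decide +kernel)
theorem L06040 : Good (Phi V5.P V5.D (-1) (-1)) ⟨2, 2, 3, 5, 2, 2, 3, 6, 3, 0⟩ :=
  out_sound (S := T5.ds_mm) T5.ok_mm (w := 39) (j := 3) (by decide +kernel)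
theorem L06041 : Good (Phi V5.P V5.D (-1) (-1)) ⟨3, 6, 4, 10, 3, 4, 3, 6, 4, 0⟩ :=
  out_sound (S := T5.ds_mm) T5.ok_mm (w := 47) (j := 3) (by decide +kernel)
theorem L06042 : Good (Phi V5.P V5.D (-1) (-1)) ⟨5, 28, 4, 10, 3, 4, 3, 6, 4, 0⟩ :=
  leafX_sound T5.ok_mm T5.Ymm.bz_eq (w := 238) (c := ⟨⟨.ofNat 1066, .ofNat 569, .negSucc 64, .ofNat 1281, .negSucc 899, .negSucc 4800⟩, ⟨.negSucc 690, .negSucc 529, .ofNat 179, .negSucc 831, .ofNat 601, .ofNat 3140⟩, ⟨.negSucc 1418, .ofNat 173, .negSucc 306, .negSucc 1056, .ofNat 769, .ofNat 4101⟩, ⟨.ofNat 971, .ofNat 983, .negSucc 274, .ofNat 1691, .negSucc 1266, .negSucc 6846⟩, ⟨.negSucc 659, .negSucc 443, .ofNat 118, .negSucc 181, .ofNat 14, .negSucc 102⟩, .ofNat 1476, .ofNat 1877, .ofNat 0, .ofNat 1877, .ofNat 3090, .ofNat 0, .ofNat 128, .negSucc 452, .negSucc 2535, .ofNat 0, .ofNat 314, .ofNat 1603, .ofNat 0, .ofNat 0, .ofNat 2466, .ofNat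 461, .ofNat 0, .ofNat 0, .ofNat 138545398824466819374597619085815981277184, .ofNat 0, .ofNat 0, .ofNat 0, .ofNat 0, .ofNat 0, .ofNat 0, .ofNat 0, .ofNat 15139112311108987529038311415593454203305984, .ofNat 7798866895125688333446451680852457159106631332528128, .ofNat 0, .ofNat 0, .ofNat 18698110839354495284064877841828013362118656, .ofNat 27662888967741913831827134675419141188166012184297472⟩)
    (by decide +kernel)
theorem L06043 : Good (Phi V5.P V5.D (-1) (-1)) ⟨5, 29, 4, 10, 3, 4, 3, 6, 4, 0⟩ :=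
  out_sound (S := T5.ds_mm) T5.ok_mm (w := 59) (j := 3) (by decide +kernel)
theorem L06044 : Good (Phi V5.P V5.D (-1) (-1)) ⟨4, 15, 4, 10, 3, 4, 3, 6, 4, 0⟩ :=
  out_sound (S := T5.ds_mm) T5.ok_mm (w := 53) (j := 3) (by decide +kernel)
theorem L06045 : Good (Phi V5.P V5.D (-1) (-1)) ⟨3, 6, 4, 10, 3, 5, 3, 6, 4, 0⟩ :=
  out_sound (S := T5.ds_mm) T5.ok_mm (w := 47) (j := 3) (by decide +kernel)
theorem L06046 : Good (Phi V5.P V5.D (-1) (-1)) ⟨6, 56, 4, 10, 3, 5, 3, 6, 5, 0⟩ :=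
  leafX_sound T5.ok_mm T5.Ymm.bz_eq (w := 250) (c := ⟨⟨.ofNat 2397, .ofNat 195, .ofNat 58, .ofNat 153, .negSucc 1455, .negSucc 1534⟩, ⟨.negSucc 1483, .negSucc 302, .ofNat 124, .negSucc 100, .ofNat 951, .ofNat 1001⟩, ⟨.negSucc 2200, .negSucc 150, .negSucc 18, .ofNat 284, .ofNat 1101, .ofNat 1168⟩, ⟨.ofNat 2981, .ofNat 196, .ofNat 98, .ofNat 483, .negSucc 2226, .negSucc 2391⟩, ⟨.negSucc 742, .ofNat 86, .negSucc 107, .ofNat 404, .negSucc 250, .negSucc 337⟩, .ofNat 2337, .ofNat 3193, .ofNat 0, .ofNat 3193, .ofNat 5125, .ofNat 0, .ofNat 128, .negSucc 630, .negSucc 3355, .ofNat 0, .ofNat 420, .ofNat 2131, .ofNat 0, .ofNat 0, .ofNat 3073, .ofNat 1116, .ofNat 0, .ofNat 0, .ofNat 860330869993939832994000664385188704288768, .ofNat 0, .ofNat 0, .ofNat 0, .ofNat 524868753322759491071412289762390218863804416, .ofNat 0, .ofNat 0, .ofNat 0, .ofNat 245690140942821318263154401628849161510060032,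 .ofNat 0, .ofNat 0, .ofNat 0, .ofNat 637886856066758022813000688402417529449873408, .ofNat 0⟩)
    (by decide +kernel)
theorem L06047 : Good (Phi V5.P V5.D (-1) (-1)) ⟨6, 57, 4, 10, 4, 10, 3, 6, 5, 0⟩ :=
  leafX_sound T5.ok_mm T5.Ymm.bz_eq (w := 265) (c := ⟨⟨.ofNat 2744, .ofNat 188, .ofNat 58, .ofNat 231, .negSucc 1497, .negSucc 2015⟩, ⟨.negSucc 1763, .negSucc 45, .negSucc 156, .negSucc 155, .ofNat 997, .ofNat 1343⟩, ⟨.negSucc 2452, .negSucc 5, .negSucc 179, .negSucc 20, .ofNat 1171, .ofNat 1654⟩, ⟨.ofNat 3236, .ofNat 171, .ofNat 183, .ofNat 434, .negSucc 2127, .negSucc 2973⟩, ⟨.negSucc 873, .ofNat 57, .ofNat 43, .ofNat 158, .negSucc 40, .negSucc 217⟩, .ofNat 3726, .ofNat 5131, .ofNat 0, .ofNat 5131, .ofNat 7802, .ofNat 0, .ofNat 128, .negSucc 584, .negSucc 3940, .ofNat 0, .ofNat 403, .ofNat 2614, .ofNat 0, .ofNat 0, .ofNat 3701, .ofNat 1164, .ofNat 0, .ofNat 0, .ofNat 25134372130052446999698730117116917453049298944,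 .ofNat 0, .ofNat 0, .ofNat 0, .ofNat 26742265645692103092427356575091771823853517406208, .ofNat 0, .ofNat 0, .ofNat 0, .ofNat 0, .ofNat 0, .ofNat 0, .ofNat 0, .ofNat 470038684836930999452730384471494019158338699264, .ofNat 183232091426155369541407838182266321569481392917288690122752⟩)
    (by decide +kernel)
theorem L06048 : Good (Phi V5.P V5.D (-1) (-1)) ⟨6, 57, 4, 10, 4, 11, 3, 6, 5, 0⟩ :=
  leafX_sound T5.ok_mm T5.Ymm.bz_eq (w := 264) (c := ⟨⟨.ofNat 2667, .negSucc 263, .ofNat 250, .negSucc 194, .negSucc 1458, .negSucc 1298⟩, ⟨.negSucc 1756, .ofNat 169, .negSucc 205, .ofNat 130, .ofNat 975, .ofNat 869⟩, ⟨.negSucc 2562, .negSucc 427, .ofNat 530, .ofNat 402, .ofNat 1060, .ofNat 946⟩, ⟨.ofNat 3674, .ofNat 110, .negSucc 106, .negSucc 113, .negSucc 2248, .negSucc 2084⟩, ⟨.negSucc 532, .ofNat 36, .ofNat 124, .ofNat 237, .negSucc 288, .negSucc 377⟩, .ofNat 2055, .ofNat 2676, .ofNat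 0, .ofNat 2676, .ofNat 4181, .ofNat 0, .ofNat 128, .negSucc 878, .negSucc 4459, .ofNat 0, .ofNat 602, .ofNat 2902, .ofNat 0, .ofNat 0, .ofNat 3890, .ofNat 1307, .ofNat 0, .ofNat 0, .ofNat 45855008597261467486145619186386036306435112960, .ofNat 0, .ofNat 0, .ofNat 0, .ofNat 8077816858058664515026458072553303777627099627520, .ofNat 0, .ofNat 0, .ofNat 0, .ofNat 6763690103466513573755343669477045874013709008896, .ofNat 0, .ofNat 0, .ofNat 0, .ofNat 10643193868752524958401841981290776326803975831552, .ofNat 194085950059573868336303233732423877583293234493079051829248⟩)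
    (by decide +kernel)
theorem L06049 : Good (Phi V5.P V5.D (-1) (-1)) ⟨6, 56, 5, 20, 3, 5, 3, 6, 5, 1⟩ :=
  leafX_sound T5.ok_mm T5.Ymm.bz_eq (w := 255) (c := ⟨⟨.ofNat 158, .ofNat 305, .negSucc 167, .ofNat 1119, .negSucc 1246, .negSucc 2245⟩, ⟨.negSucc 54, .negSucc 325, .ofNat 199, .negSucc 736, .ofNat 808, .ofNat 1461⟩, ⟨.negSucc 344, .negSucc 73, .ofNat 59, .negSucc 768, .ofNat 918, .ofNat 1625⟩, ⟨.negSucc 432, .ofNat 334, .negSucc 170, .ofNat 1812, .negSucc 1696, .negSucc 3573⟩, ⟨.negSucc 1052, .negSucc 78, .ofNat 80, .ofNat 361, .ofNat 111, .negSucc 629⟩, .ofNat 5297, .ofNat 7695, .ofNat 0, .ofNat 7695, .ofNat 11985, .ofNat 0, .ofNat 128, .negSucc 818, .negSucc 3192, .ofNat 0, .ofNat 540, .ofNat 2064, .ofNat 0, .ofNat 0, .ofNat 2805, .ofNat 1784, .ofNat 0, .ofNat 0, .ofNat 0, .ofNat 0, .ofNat 0, .ofNat 0, .ofNat 3946289710038308193897258334048360319034589184, .ofNat 0, .ofNat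 0, .ofNat 0, .ofNat 2357850190454256663305322107250502083574497280, .ofNat 0, .ofNat 0, .ofNat 0, .ofNat 842715277994644664210298075398531406922514432, .ofNat 0⟩)
    (by decide +kernel)
theorem L06050 : Good (Phi V5.P V5.D (-1) (-1)) ⟨6, 56, 5, 21, 3, 5, 3, 6, 5, 1⟩ :=
  leafX_sound T5.ok_mm T5.Ymm.bz_eq (w := 263) (c := ⟨⟨.ofNat 312, .ofNat 0, .ofNat 33, .ofNat 1217, .negSucc 1173, .negSucc 2347⟩, ⟨.negSucc 208, .ofNat 0, .ofNat 25, .negSucc 802, .ofNat 776, .ofNat 1549⟩, ⟨.negSucc 434, .ofNat 0, .ofNat 312, .negSucc 793, .ofNat 873, .ofNat 1728⟩, ⟨.negSucc 413, .negSucc 0, .negSucc 17, .ofNat 1459, .negSucc 1534, .negSucc 2872⟩, ⟨.negSucc 1284, .negSucc 0, .negSucc 2, .negSucc 373, .ofNat 173, .ofNat 634⟩, .ofNat 14702, .ofNat 21769, .ofNat 0, .ofNat 21769, .ofNat 33039, .ofNat 0, .ofNat 128, .negSucc 5392, .negSucc 19652, .ofNat 0, .ofNat 3586, .ofNat 12974, .ofNat 0, .ofNat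 0, .ofNat 17180, .ofNat 6153, .ofNat 0, .ofNat 0, .ofNat 0, .ofNat 0, .ofNat 0, .ofNat 0, .ofNat 24717036598683610917310149259367158734947090432, .ofNat 0, .ofNat 0, .ofNat 0, .ofNat 78929758074479352817273100570879274480459317248, .ofNat 0, .ofNat 0, .ofNat 0, .ofNat 77488953952975923413756307531124632277261221888, .ofNat 0⟩)
    (by decide +kernel)
theorem L06051 : Good (Phi V5.P V5.D (-1) (-1)) ⟨7, 114, 5, 20, 3, 5, 3, 6, 5, 1⟩ :=
  leafX_sound T5.ok_mm T5.Ymm.bz_eq (w := 263) (c := ⟨⟨.negSucc 106, .ofNat 0, .ofNat 308, .ofNat 1249, .negSucc 1078, .negSucc 2187⟩, ⟨.negSucc 226, .ofNat 0, .ofNat 90, .negSucc 824, .ofNat 717, .ofNat 1444⟩, ⟨.negSucc 598, .ofNat 0, .ofNat 297, .negSucc 828, .ofNat 773, .ofNat 1576⟩, ⟨.negSucc 226, .ofNat 1, .negSucc 0, .ofNat 1777, .negSucc 1807, .negSucc 3261⟩, ⟨.negSucc 772, .ofNat 1, .ofNat 1, .ofNat 33, .negSucc 429, .negSucc 282⟩, .ofNat 6369,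 .ofNat 9220, .ofNat 0, .ofNat 9220, .ofNat 14135, .ofNat 0, .ofNat 128, .negSucc 3040, .negSucc 10445, .ofNat 0, .ofNat 2026, .ofNat 6856, .ofNat 0, .ofNat 0, .ofNat 9151, .ofNat 14877, .ofNat 0, .ofNat 0, .ofNat 0, .ofNat 0, .ofNat 0, .ofNat 0, .ofNat 1077660712223523710267008050586781877144666505216, .ofNat 0, .ofNat 0, .ofNat 0, .ofNat 766569868721059078646731744526132166612219854848, .ofNat 0, .ofNat 0, .ofNat 0, .ofNat 1411610712838230693935942367168162492541269180416, .ofNat 0⟩)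
    (by decide +kernel)
theorem L06052 : Good (Phi V5.P V5.D (-1) (-1)) ⟨7, 114, 6, 42, 3, 5, 3, 6, 5, 1⟩ :=
  leafX_sound T5.ok_mm T5.Ymm.bz_eq (w := 265) (c := ⟨⟨.ofNat 257, .negSucc 256, .ofNat 187, .ofNat 1212, .negSucc 1019, .negSucc 2292⟩, ⟨.negSucc 177, .ofNat 130, .negSucc 95, .negSucc 806, .ofNat 684, .ofNat 1528⟩, ⟨.negSucc 355, .negSucc 448, .ofNat 203, .negSucc 792, .ofNat 723, .ofNat 1669⟩, ⟨.negSucc 149, .negSucc 7, .ofNat 131, .ofNat 1779, .negSucc 1701, .negSucc 3569⟩, ⟨.negSucc 784, .ofNat 66, .ofNat 63, .ofNat 124, .negSucc 398, .negSucc 527⟩, .ofNat 7182, .ofNat 10394, .ofNat 0, .ofNat 10394, .ofNat 15824, .ofNat 0, .ofNat 128, .negSucc 1851, .negSucc 6529, .ofNat 0, .ofNat 1239, .ofNat 4314, .ofNat 0, .ofNat 0, .ofNat 5626, .ofNat 2274, .ofNat 0, .ofNat 0, .ofNat 9985332071124913626344619031990217799106560, .ofNat 0, .ofNat 0, .ofNat 0, .ofNat 9183825556047169219612478001599429468835807232,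 .ofNat 0, .ofNat 0, .ofNat 0, .ofNat 6332909984179398687385261804088435966889426944, .ofNat 0, .ofNat 0, .ofNat 0, .ofNat 10089244316102228311666967282730413399685988352, .ofNat 7293776232828909293715888203356007604432552246385945083904⟩)
    (by decide +kernel)
theorem L06053 : Good (Phi V5.P V5.D (-1) (-1)) ⟨8, 228, 6, 43, 3, 5, 3, 6, 5, 1⟩ :=
  out_sound (S := T5.ds_mm) T5.ok_mm (w := 81) (j := 3) (by decide +kernel)
theorem L06054 : Good (Phi V5.P V5.D (-1) (-1)) ⟨8, 229, 6, 43, 3, 5, 3, 6, 5, 1⟩ :=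
  out_sound (S := T5.ds_mm) T5.ok_mm (w := 23) (j := 4) (by decide +kernel)
theorem L06055 : Good (Phi V5.P V5.D (-1) (-1)) ⟨7, 115, 4, 10, 3, 5, 3, 6, 5, 1⟩ :=
  out_sound (S := T5.ds_mm) T5.ok_mm (w := 21) (j := 4) (by decide +kernel)
theorem L06056 : Good (Phi V5.P V5.D (-1) (-1)) ⟨5, 29, 4, 10, 3, 5, 3, 6, 4, 0⟩ :=
  out_sound (S := T5.ds_mm) T5.ok_mm (w := 59) (j := 3) (by decide +kernel)
theorem L06057 : Good (Phi V5.P V5.D (-1) (-1)) ⟨4, 15, 4, 10, 3, 5, 3, 6, 4, 0⟩ :=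
  out_sound (S := T5.ds_mm) T5.ok_mm (w := 53) (j := 3) (by decide +kernel)
theorem L06058 : Good (Phi V5.P V5.D (-1) (-1)) ⟨3, 6, 5, 20, 2, 2, 3, 6, 4, 1⟩ :=
  out_sound (S := T5.ds_mm) T5.ok_mm (w := 49) (j := 3) (by decide +kernel)
theorem L06059 : Good (Phi V5.P V5.D (-1) (-1)) ⟨6, 56, 5, 20, 2, 2, 3, 6, 5, 2⟩ :=
  leafX_sound T5.ok_mm T5.Ymm.bz_eq (w := 242) (c := ⟨⟨.negSucc 3329, .negSucc 446, .ofNat 136, .ofNat 1500, .ofNat 508, .negSucc 1010⟩, ⟨.ofNat 2145, .ofNat 257, .negSucc 0, .negSucc 980, .negSucc 330, .ofNat 660⟩, ⟨.ofNat 2722, .ofNat 42, .ofNat 27, .negSucc 1410, .negSucc 440, .ofNat 627⟩, ⟨.negSucc 4894, .negSucc 535, .negSucc 37, .ofNat 1212, .ofNat 700, .negSucc 1500⟩, ⟨.negSucc 282, .ofNat 102, .negSucc 343, .negSucc 1397, .negSucc 9, .negSucc 73⟩, .ofNat 5336, .ofNat 7750, .ofNat 0, .ofNat 7750, .ofNat 12062, .ofNat 0, .ofNat 128, .negSucc 1348, .negSucc 4022,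 .ofNat 0, .ofNat 893, .ofNat 2606, .ofNat 0, .ofNat 0, .ofNat 3757, .ofNat 1550, .ofNat 0, .ofNat 0, .ofNat 0, .ofNat 0, .ofNat 0, .ofNat 0, .ofNat 65779240330587191839510586184980534132736, .ofNat 0, .ofNat 0, .ofNat 0, .ofNat 0, .ofNat 0, .ofNat 0, .ofNat 0, .ofNat 200653437839150136919384256332081420828672, .ofNat 0⟩)
    (by decide +kernel)
theorem L06060 : Good (Phi V5.P V5.D (-1) (-1)) ⟨6, 56, 5, 20, 2, 2, 3, 6, 5, 3⟩ :=
  leafX_sound T5.ok_mm T5.Ymm.bz_eq (w := 241) (c := ⟨⟨.negSucc 4305, .negSucc 392, .ofNat 154, .ofNat 456, .ofNat 909, .ofNat 500⟩, ⟨.ofNat 2756, .ofNat 265, .negSucc 21, .negSucc 309, .negSucc 592, .negSucc 323⟩, ⟨.ofNat 3257, .ofNat 379, .negSucc 177, .negSucc 882, .negSucc 761, .negSucc 586⟩, ⟨.negSucc 6484, .negSucc 338, .ofNat 155, .negSucc 15, .ofNat 1309, .ofNat 595⟩, ⟨.negSucc 515, .ofNat 179, .negSucc 62, .negSucc 1025, .ofNat 48, .negSucc 166⟩,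 .ofNat 5252, .ofNat 7628, .ofNat 0, .ofNat 7628, .ofNat 11887, .ofNat 0, .ofNat 128, .negSucc 1407, .negSucc 2443, .ofNat 0, .ofNat 933, .ofNat 1582, .ofNat 0, .ofNat 0, .ofNat 2447, .ofNat 2738, .ofNat 0, .ofNat 0, .ofNat 0, .ofNat 0, .ofNat 0, .ofNat 0, .ofNat 64932356418190964449401601621840594206720, .ofNat 0, .ofNat 0, .ofNat 0, .ofNat 0, .ofNat 0, .ofNat 0, .ofNat 0, .ofNat 0, .ofNat 0⟩)
    (by decide +kernel)
theorem L06061 : Good (Phi V5.P V5.D (-1) (-1)) ⟨6, 57, 5, 20, 2, 2, 3, 6, 4, 1⟩ :=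
  leafX_sound T5.ok_mm T5.Ymm.bz_eq (w := 247) (c := ⟨⟨.negSucc 3964, .ofNat 2, .negSucc 0, .ofNat 681, .ofNat 718, .negSucc 267⟩, ⟨.ofNat 2601, .negSucc 0, .ofNat 21, .negSucc 455, .negSucc 474, .ofNat 179⟩, ⟨.ofNat 3178, .negSucc 0, .negSucc 7, .negSucc 894, .negSucc 635, .negSucc 236⟩, ⟨.negSucc 6068, .ofNat 3, .negSucc 2, .ofNat 681, .ofNat 757, .negSucc 392⟩, ⟨.negSucc 748, .ofNat 1, .ofNat 0, .negSucc 416, .negSucc 376, .negSucc 22⟩, .ofNat 21702, .ofNat 32311, .ofNat 0, .ofNat 32311, .ofNat 48918, .ofNat 0, .ofNat 128, .negSucc 9320, .negSucc 29100, .ofNat 0, .ofNat 6201, .ofNat 19238, .ofNat 0, .ofNat 0, .ofNat 26714, .ofNat 15021, .ofNat 0, .ofNat 0, .ofNat 0, .ofNat 0, .ofNat 0, .ofNat 0, .ofNat 10988972519300227387855639162136121546113024, .ofNat 0, .ofNat 0, .ofNat 0, .ofNat 4029083646447816993977787882256629967618048, .ofNat 0, .ofNat 0, .ofNat 0, .ofNat 2087463185807954309225230792984043687247872,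 .ofNat 0⟩)
    (by decide +kernel)
theorem L06062 : Good (Phi V5.P V5.D (-1) (-1)) ⟨5, 29, 5, 20, 2, 2, 3, 6, 4, 1⟩ :=
  out_sound (S := T5.ds_mm) T5.ok_mm (w := 61) (j := 3) (by decide +kernel)
theorem L06063 : Good (Phi V5.P V5.D (-1) (-1)) ⟨4, 15, 5, 20, 2, 2, 3, 6, 4, 1⟩ :=
  out_sound (S := T5.ds_mm) T5.ok_mm (w := 55) (j := 3) (by decide +kernel)
theorem L06064 : Good (Phi V5.P V5.D (-1) (-1)) ⟨3, 6, 5, 21, 2, 2, 3, 6, 5, 2⟩ :=
  out_sound (S := T5.ds_mm) T5.ok_mm (w := 49) (j := 3) (by decide +kernel)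
theorem L06065 : Good (Phi V5.P V5.D (-1) (-1)) ⟨6, 56, 5, 21, 2, 2, 3, 6, 5, 2⟩ :=
  leafX_sound T5.ok_mm T5.Ymm.bz_eq (w := 252) (c := ⟨⟨.negSucc 3704, .negSucc 1, .ofNat 411, .ofNat 1302, .ofNat 375, .negSucc 936⟩, ⟨.ofNat 2448, .ofNat 1, .negSucc 194, .negSucc 865, .negSucc 247, .ofNat 620⟩, ⟨.ofNat 2840, .ofNat 1, .ofNat 248, .negSucc 1267, .negSucc 320, .ofNat 567⟩, ⟨.negSucc 5703, .negSucc 2, .ofNat 58, .ofNat 1273, .ofNat 367, .negSucc 968⟩, ⟨.negSucc 769, .negSucc 0, .negSucc 33, .negSucc 827, .negSucc 233, .ofNat 523⟩, .ofNat 29112, .ofNat 43472, .ofNat 0, .ofNat 43472, .ofNat 65730, .ofNat 0, .ofNat 128, .negSucc 6804, .negSucc 21348, .ofNat 0, .ofNat 4528, .ofNat 14124, .ofNat 0, .ofNat 0, .ofNat 19684, .ofNat 8613, .ofNat 0, .ofNat 0, .ofNat 0, .ofNat 0, .ofNat 0, .ofNat 0, .ofNat 735937290101033934296636811052828831252480, .ofNat 0, .ofNat 0, .ofNat 0, .ofNat 36629632229444072715712696420015859073810432,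 .ofNat 0, .ofNat 0, .ofNat 0, .ofNat 10919046187909086315585838844792656776658944, .ofNat 0⟩)
    (by decide +kernel)
theorem L06066 : Good (Phi V5.P V5.D (-1) (-1)) ⟨7, 114, 6, 42, 2, 2, 3, 6, 5, 2⟩ :=
  leafX_sound T5.ok_mm T5.Ymm.bz_eq (w := 250) (c := ⟨⟨.negSucc 3782, .ofNat 76, .negSucc 189, .ofNat 1559, .ofNat 608, .negSucc 897⟩, ⟨.ofNat 2496, .negSucc 10, .ofNat 143, .negSucc 1040, .negSucc 397, .ofNat 606⟩, ⟨.ofNat 2913, .negSucc 53, .ofNat 130, .negSucc 1439, .negSucc 495, .ofNat 532⟩, ⟨.negSucc 5344, .negSucc 58, .negSucc 274, .ofNat 1491, .ofNat 539, .negSucc 1651⟩, ⟨.negSucc 70, .negSucc 109, .negSucc 99, .negSucc 1047, .negSucc 445, .negSucc 557⟩, .ofNat 6011, .ofNat 8592, .ofNat 0, .ofNat 8592, .ofNat 13047, .ofNat 0, .ofNat 128, .negSucc 1845, .negSucc 6350, .ofNat 0, .ofNat 1248, .ofNat 4215, .ofNat 0, .ofNat 0, .ofNat 5805, .ofNat 4079, .ofNat 0, .ofNat 0, .ofNat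 0, .ofNat 0, .ofNat 0, .ofNat 0, .ofNat 492940573386070278023540703854812939157504, .ofNat 0, .ofNat 0, .ofNat 0, .ofNat 52793491484274423680651016673104461037568, .ofNat 69046489764037006216100600144487886127010724987273216, .ofNat 0, .ofNat 0, .ofNat 564660465744215542055850025054046060019712, .ofNat 0⟩)
    (by decide +kernel)
theorem L06067 : Good (Phi V5.P V5.D (-1) (-1)) ⟨8, 228, 6, 43, 2, 2, 3, 6, 5, 2⟩ :=
  out_sound (S := T5.ds_mm) T5.ok_mm (w := 81) (j := 3) (by decide +kernel)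
theorem L06068 : Good (Phi V5.P V5.D (-1) (-1)) ⟨8, 229, 6, 43, 2, 2, 3, 6, 5, 2⟩ :=
  out_sound (S := T5.ds_mm) T5.ok_mm (w := 23) (j := 4) (by decide +kernel)
theorem L06069 : Good (Phi V5.P V5.D (-1) (-1)) ⟨7, 115, 5, 21, 2, 2, 3, 6, 5, 2⟩ :=
  out_sound (S := T5.ds_mm) T5.ok_mm (w := 21) (j := 4) (by decide +kernel)
theorem L06070 : Good (Phi V5.P V5.D (-1) (-1)) ⟨5, 29, 5, 21, 2, 2, 3, 6, 5, 2⟩ :=
  out_sound (S := T5.ds_mm) T5.ok_mm (w := 61) (j := 3) (by decide +kernel)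
theorem L06071 : Good (Phi V5.P V5.D (-1) (-1)) ⟨4, 15, 5, 21, 2, 2, 3, 6, 5, 2⟩ :=
  out_sound (S := T5.ds_mm) T5.ok_mm (w := 55) (j := 3) (by decide +kernel)
theorem L06072 : Good (Phi V5.P V5.D (-1) (-1)) ⟨3, 6, 5, 21, 2, 2, 3, 6, 5, 3⟩ :=
  out_sound (S := T5.ds_mm) T5.ok_mm (w := 49) (j := 3) (by decide +kernel)
theorem L06073 : Good (Phi V5.P V5.D (-1) (-1)) ⟨4, 14, 5, 21, 2, 2, 3, 6, 5, 3⟩ :=
  leafX_sound T5.ok_mm T5.Ymm.bz_eq (w := 231) (c := ⟨⟨.negSucc 4531, .negSucc 164, .ofNat 14, .ofNat 548, .ofNat 985, .ofNat 477⟩, ⟨.ofNat 3060, .negSucc 132, .ofNat 108, .negSucc 369, .negSucc 656, .negSucc 318⟩, ⟨.ofNat 3513, .negSucc 107, .ofNat 28, .negSucc 940, .negSucc 830, .negSucc 582⟩, ⟨.negSucc 6760, .ofNat 18, .ofNat 40, .negSucc 121, .ofNat 1434, .ofNat 746⟩, ⟨.negSucc 496, .negSucc 8, .ofNat 48, .negSucc 1348, .ofNat 74, .ofNat 119⟩, .ofNat 3498, .ofNat 4700, .ofNat 0,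 .ofNat 4700, .ofNat 7015, .ofNat 0, .ofNat 128, .negSucc 971, .negSucc 2040, .ofNat 0, .ofNat 683, .ofNat 1380, .ofNat 0, .ofNat 0, .ofNat 1907, .ofNat 599, .ofNat 0, .ofNat 0, .ofNat 1903800846713357740454260814167280713728, .ofNat 181063352090924122625249607671791118144906461184, .ofNat 0, .ofNat 0, .ofNat 193119145242808539295425031693572283301888, .ofNat 49475789753916448971844819540054894143683688398848, .ofNat 0, .ofNat 0, .ofNat 57405581366480176656091649015453732306944, .ofNat 59477149556518653543580564954158151217461894053888, .ofNat 0, .ofNat 0, .ofNat 104544399559285364138709880067800478777344, .ofNat 75428642543008368771695947477839427022018502983680⟩)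
    (by decide +kernel)
theorem L06074 : Good (Phi V5.P V5.D (-1) (-1)) ⟨4, 15, 5, 21, 2, 2, 3, 6, 5, 3⟩ :=
  out_sound (S := T5.ds_mm) T5.ok_mm (w := 55) (j := 3) (by decide +kernel)
theorem L06075 : Good (Phi V5.P V5.D (-1) (-1)) ⟨3, 6, 4, 11, 2, 2, 3, 6, 3, 0⟩ :=
  out_sound (S := T5.ds_mm) T5.ok_mm (w := 47) (j := 3) (by decide +kernel)
theorem L06076 : Good (Phi V5.P V5.D (-1) (-1)) ⟨6, 56, 4, 11, 2, 2, 3, 6, 3, 0⟩ :=
  out_sound (S := T5.ds_mm) T5.ok_mm (w := 65) (j := 3) (by decide +kernel)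
theorem L06077 : Good (Phi V5.P V5.D (-1) (-1)) ⟨7, 114, 5, 22, 2, 2, 3, 6, 3, 0⟩ :=
  out_sound (S := T5.ds_mm) T5.ok_mm (w := 73) (j := 3) (by decide +kernel)
theorem L06078 : Good (Phi V5.P V5.D (-1) (-1)) ⟨7, 115, 5, 22, 2, 2, 3, 6, 3, 0⟩ :=
  out_sound (S := T5.ds_mm) T5.ok_mm (w := 21) (j := 4) (by decide +kernel)
theorem L06079 : Good (Phi V5.P V5.D (-1) (-1)) ⟨6, 57, 5, 23, 2, 2, 3, 6, 3, 0⟩ :=
  out_sound (S := T5.ds_mm) T5.ok_mm (w := 67) (j := 3) (by decide +kernel)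
theorem L06080 : Good (Phi V5.P V5.D (-1) (-1)) ⟨5, 29, 4, 11, 2, 2, 3, 6, 3, 0⟩ :=
  out_sound (S := T5.ds_mm) T5.ok_mm (w := 17) (j := 4) (by decide +kernel)
theorem L06081 : Good (Phi V5.P V5.D (-1) (-1)) ⟨4, 15, 4, 11, 2, 2, 3, 6, 3, 0⟩ :=
  out_sound (S := T5.ds_mm) T5.ok_mm (w := 53) (j := 3) (by decide +kernel)
theorem L06082 : Good (Phi V5.P V5.D (-1) (-1)) ⟨2, 2, 3, 5, 3, 4, 3, 7, 3, 0⟩ :=
  out_sound (S := T5.ds_mm) T5.ok_mm (w := 39) (j := 3) (by decide +kernel)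
theorem L06083 : Good (Phi V5.P V5.D (-1) (-1)) ⟨3, 6, 3, 5, 3, 4, 3, 7, 3, 0⟩ :=
  out_sound (S := T5.ds_mm) T5.ok_mm (w := 45) (j := 3) (by decide +kernel)
theorem L06084 : Good (Phi V5.P V5.D (-1) (-1)) ⟨5, 28, 4, 10, 4, 8, 3, 7, 4, 0⟩ :=
  leafX_sound T5.ok_mm T5.Ymm.bz_eq (w := 256) (c := ⟨⟨.negSucc 1099, .negSucc 364, .ofNat 322, .ofNat 415, .ofNat 2459, .negSucc 2249⟩, ⟨.ofNat 730, .ofNat 163, .negSucc 139, .negSucc 275, .negSucc 1622, .ofNat 1483⟩, ⟨.ofNat 877, .negSucc 554, .ofNat 198, .negSucc 356, .negSucc 2528, .ofNat 1913⟩, ⟨.negSucc 2520, .negSucc 192, .ofNat 723, .ofNat 648, .ofNat 3884, .negSucc 3106⟩, ⟨.negSucc 1497, .ofNat 576, .ofNat 367, .ofNat 117, .ofNat 629, .ofNat 60⟩, .ofNat 2486, .ofNat 3394, .ofNat 0, .ofNat 3394, .ofNat 5383, .ofNat 0, .ofNat 128, .negSucc 546, .negSucc 4517, .ofNat 0, .ofNat 374, .ofNat 2908, .ofNat 0, .ofNat 0, .ofNat 4592, .ofNat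 446, .ofNat 0, .ofNat 0, .ofNat 3600285742816115786574699101639954310547636224, .ofNat 0, .ofNat 0, .ofNat 0, .ofNat 300557893824996371514938907264077203665575739392, .ofNat 70769697461834079452961246048984819058887804044011634688, .ofNat 0, .ofNat 0, .ofNat 456359951404878860389714723173502087009398685696, .ofNat 19682071330251188543938841443677543065139978545307582464, .ofNat 0, .ofNat 0, .ofNat 793066765407089030943090597170670952231745880064, .ofNat 976896230775207235025675022151945313696534672679244922880⟩)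
    (by decide +kernel)
theorem L06085 : Good (Phi V5.P V5.D (-1) (-1)) ⟨5, 28, 4, 10, 5, 18, 3, 7, 4, 0⟩ :=
  leafX_sound T5.ok_mm T5.Ymm.bz_eq (w := 269) (c := ⟨⟨.negSucc 261, .ofNat 649, .ofNat 91, .negSucc 40, .ofNat 1490, .negSucc 2530⟩, ⟨.ofNat 234, .negSucc 752, .ofNat 137, .ofNat 25, .negSucc 974, .ofNat 1649⟩, ⟨.negSucc 134, .negSucc 182, .negSucc 291, .ofNat 37, .negSucc 1623, .ofNat 2138⟩, ⟨.negSucc 1346, .ofNat 1297, .ofNat 206, .ofNat 10, .ofNat 2423, .negSucc 3313⟩, ⟨.negSucc 1297, .negSucc 379, .ofNat 686, .ofNat 119, .ofNat 489, .ofNat 378⟩, .ofNat 2570, .ofNat 3504, .ofNat 0, .ofNat 3504, .ofNat 5521, .ofNat 0, .ofNat 128, .negSucc 485, .negSucc 3831, .ofNat 0, .ofNat 332, .ofNat 2479, .ofNat 0, .ofNat 0, .ofNat 3806, .ofNat 457, .ofNat 0, .ofNat 0, .ofNat 62534798739252482313822766471018411360546027732992, .ofNat 7358154579073274273011256702714804118436493225635128279040,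 .ofNat 0, .ofNat 2715511338087018920119502073886562641747296814287028224, .ofNat 3898057034571264757778199116758173410486417960730624, .ofNat 0, .ofNat 0, .ofNat 0, .ofNat 5066648641904368246853141949346619802159250040422400, .ofNat 2412150297820542252185134408593490728317076929205941632499712, .ofNat 0, .ofNat 0, .ofNat 7634821839289301029805473019523088920298687601573888, .ofNat 11448524454211401904729671172564830752380129932506824100020224⟩)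
    (by decide +kernel)
theorem L06086 : Good (Phi V5.P V5.D (-1) (-1)) ⟨5, 28, 4, 10, 5, 19, 3, 7, 4, 0⟩ :=
  leafX_sound T5.ok_mm T5.Ymm.bz_eq (w := 269) (c := ⟨⟨.ofNat 110, .ofNat 217, .ofNat 72, .ofNat 183, .ofNat 1151, .negSucc 2480⟩, ⟨.negSucc 69, .negSucc 168, .negSucc 21, .negSucc 120, .negSucc 763, .ofNat 1628⟩, ⟨.negSucc 482, .ofNat 453, .negSucc 402, .negSucc 129, .negSucc 1320, .ofNat 2045⟩, ⟨.negSucc 774, .ofNat 384, .ofNat 376, .ofNat 322, .ofNat 2101, .negSucc 3508⟩, ⟨.negSucc 1451, .ofNat 129, .ofNat 450, .ofNat 120, .ofNat 746, .negSucc 30⟩, .ofNat 2570, .ofNat 3504, .ofNat 0, .ofNat 3504, .ofNat 5521, .ofNat 0, .ofNat 128, .negSucc 605, .negSucc 4209, .ofNat 0, .ofNat 413, .ofNat 2721, .ofNat 0, .ofNat 0, .ofNat 4093, .ofNat 627, .ofNat 0, .ofNat 0, .ofNat 20922792284259340993709478745130520009028128473088, .ofNat 0, .ofNat 0, .ofNat 4561939008376344251503077636795249876962166936239603712,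 .ofNat 6817237246499288553232475115420668391285883800649728, .ofNat 228850292581553502854350712934542517646513371842183631470592, .ofNat 0, .ofNat 0, .ofNat 6264565838684571957323304317100668451333819250769920, .ofNat 3929009224653752801098948608289560777292421149319109518819328, .ofNat 0, .ofNat 0, .ofNat 9715159403092788821070720341556759316447588624891904, .ofNat 12408993606560655620333057448415840093000672169640273683415040⟩)
    (by decide +kernel)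
theorem L06087 : Good (Phi V5.P V5.D (-1) (-1)) ⟨6, 56, 4, 11, 3, 4, 3, 7, 4, 0⟩ :=
  out_sound (S := T5.ds_mm) T5.ok_mm (w := 65) (j := 3) (by decide +kernel)
theorem L06088 : Good (Phi V5.P V5.D (-1) (-1)) ⟨7, 114, 5, 22, 3, 4, 3, 7, 4, 0⟩ :=
  out_sound (S := T5.ds_mm) T5.ok_mm (w := 73) (j := 3) (by decide +kernel)
theorem L06089 : Good (Phi V5.P V5.D (-1) (-1)) ⟨7, 115, 5, 22, 3, 4, 3, 7, 4, 0⟩ :=
  out_sound (S := T5.ds_mm) T5.ok_mm (w := 21) (j := 4) (by decide +kernel)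
theorem L06090 : Good (Phi V5.P V5.D (-1) (-1)) ⟨6, 57, 5, 23, 3, 4, 3, 7, 4, 0⟩ :=
  out_sound (S := T5.ds_mm) T5.ok_mm (w := 67) (j := 3) (by decide +kernel)
theorem L06091 : Good (Phi V5.P V5.D (-1) (-1)) ⟨5, 29, 3, 5, 3, 4, 3, 7, 4, 0⟩ :=
  out_sound (S := T5.ds_mm) T5.ok_mm (w := 17) (j := 4) (by decide +kernel)
theorem L06092 : Good (Phi V5.P V5.D (-1) (-1)) ⟨5, 28, 4, 10, 3, 4, 3, 7, 5, 2⟩ :=
  leafX_sound T5.ok_mm T5.Ymm.bz_eq (w := 245) (c := ⟨⟨.negSucc 3581, .negSucc 351, .ofNat 235, .ofNat 592, .ofNat 3229, .negSucc 194⟩, ⟨.ofNat 2253, .ofNat 516, .negSucc 211, .negSucc 396, .negSucc 2133, .ofNat 129⟩, ⟨.ofNat 2728, .ofNat 260, .negSucc 190, .negSucc 561, .negSucc 2995, .ofNat 9⟩, ⟨.negSucc 5787, .negSucc 454, .ofNat 416, .ofNat 756, .ofNat 5227, .negSucc 155⟩, ⟨.negSucc 1136, .ofNat 220, .negSucc 14, .negSucc 108, .ofNat 1001, .ofNat 200⟩, .ofNat 2464, .ofNat 3365,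 .ofNat 0, .ofNat 3365, .ofNat 5347, .ofNat 0, .ofNat 128, .negSucc 517, .negSucc 2750, .ofNat 0, .ofNat 351, .ofNat 1765, .ofNat 0, .ofNat 0, .ofNat 2672, .ofNat 373, .ofNat 0, .ofNat 0, .ofNat 2846685440002694659416191421521720330158080, .ofNat 0, .ofNat 0, .ofNat 0, .ofNat 1255825097221812288925191083120299520938737664, .ofNat 0, .ofNat 0, .ofNat 0, .ofNat 351991170261355258784881389179496131698098176, .ofNat 271020893514519491194904898848980946885942377862660096, .ofNat 0, .ofNat 18955770236124832867898482558712439197057104740352, .ofNat 530326534796396805957702329177970087410270208, .ofNat 882974748039143271795028058407697534162196455682473984⟩)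
    (by decide +kernel)
theorem L06093 : Good (Phi V5.P V5.D (-1) (-1)) ⟨6, 56, 4, 11, 3, 4, 3, 7, 5, 2⟩ :=
  out_sound (S := T5.ds_mm) T5.ok_mm (w := 65) (j := 3) (by decide +kernel)
theorem L06094 : Good (Phi V5.P V5.D (-1) (-1)) ⟨7, 114, 5, 22, 3, 4, 3, 7, 5, 2⟩ :=
  out_sound (S := T5.ds_mm) T5.ok_mm (w := 73) (j := 3) (by decide +kernel)
theorem L06095 : Good (Phi V5.P V5.D (-1) (-1)) ⟨7, 115, 5, 22, 3, 4, 3, 7, 5, 2⟩ :=
  out_sound (S := T5.ds_mm) T5.ok_mm (w := 21) (j := 4) (by decide +kernel)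
theorem L06096 : Good (Phi V5.P V5.D (-1) (-1)) ⟨6, 57, 5, 23, 3, 4, 3, 7, 5, 2⟩ :=
  out_sound (S := T5.ds_mm) T5.ok_mm (w := 67) (j := 3) (by decide +kernel)
theorem L06097 : Good (Phi V5.P V5.D (-1) (-1)) ⟨5, 28, 3, 5, 3, 4, 3, 7, 5, 3⟩ :=
  leafX_sound T5.ok_mm T5.Ymm.bz_eq (w := 242) (c := ⟨⟨.negSucc 3489, .ofNat 111, .negSucc 65, .ofNat 232, .ofNat 2585, .ofNat 255⟩, ⟨.ofNat 2245, .negSucc 36, .ofNat 227, .negSucc 162, .negSucc 1696, .negSucc 169⟩, ⟨.ofNat 2537, .negSucc 410, .ofNat 426, .negSucc 322, .negSucc 2343, .negSucc 349⟩, ⟨.negSucc 5405, .ofNat 261, .negSucc 138, .ofNat 106, .ofNat 4140, .ofNat 493⟩, ⟨.negSucc 651, .negSucc 115, .ofNat 67, .negSucc 325, .ofNat 732, .ofNat 214⟩, .ofNat 2444, .ofNat 3338, .ofNat 0, .ofNat 3338, .ofNat 5312, .ofNat 0, .ofNat 128, .negSucc 548, .negSucc 2476, .ofNat 0, .ofNat 371, .ofNat 1587, .ofNat 0, .ofNat 0, .ofNat 2491, .ofNat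 384, .ofNat 0, .ofNat 0, .ofNat 0, .ofNat 0, .ofNat 0, .ofNat 0, .ofNat 350647721365711125001758625517382268081930240, .ofNat 0, .ofNat 0, .ofNat 0, .ofNat 36283103257618028165679815944606871854252032, .ofNat 42031635530202515362170451419350305192400591117090816, .ofNat 0, .ofNat 5077766890164861887970941404474621162854050430976, .ofNat 208449265718348979972379989103312638922719232, .ofNat 120205984383211812680001309094872962985671935880331264⟩)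
    (by decide +kernel)
theorem L06098 : Good (Phi V5.P V5.D (-1) (-1)) ⟨5, 29, 3, 5, 3, 4, 3, 7, 4, 1⟩ :=
  out_sound (S := T5.ds_mm) T5.ok_mm (w := 17) (j := 4) (by decide +kernel)
theorem L06099 : Good (Phi V5.P V5.D (-1) (-1)) ⟨4, 15, 3, 5, 3, 4, 3, 7, 3, 0⟩ :=
  out_sound (S := T5.ds_mm) T5.ok_mm (w := 51) (j := 3) (by decide +kernel)
theorem L06100 : Good (Phi V5.P V5.D (-1) (-1)) ⟨2, 2, 3, 5, 3, 5, 3, 7, 3, 0⟩ :=
  out_sound (S := T5.ds_mm) T5.ok_mm (w := 39) (j := 3) (by decide +kernel)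
theorem L06101 : Good (Phi V5.P V5.D (-1) (-1)) ⟨3, 6, 3, 5, 3, 5, 3, 7, 5, 0⟩ :=
  out_sound (S := T5.ds_mm) T5.ok_mm (w := 45) (j := 3) (by decide +kernel)
theorem L06102 : Good (Phi V5.P V5.D (-1) (-1)) ⟨7, 112, 5, 20, 3, 5, 3, 7, 5, 0⟩ :=
  leafX_sound T5.ok_mm T5.Ymm.bz_eq (w := 262) (c := ⟨⟨.ofNat 289, .ofNat 304, .negSucc 94, .negSucc 240, .negSucc 51, .negSucc 802⟩, ⟨.negSucc 181, .negSucc 210, .ofNat 84, .ofNat 156, .ofNat 35, .ofNat 513⟩, ⟨.negSucc 390, .negSucc 316, .ofNat 67, .ofNat 460, .negSucc 105, .ofNat 551⟩, ⟨.negSucc 52, .ofNat 360, .negSucc 176, .negSucc 422, .negSucc 57, .negSucc 1174⟩, ⟨.negSucc 735, .negSucc 101, .negSucc 41, .negSucc 119, .ofNat 29, .negSucc 56⟩, .ofNat 4603, .ofNat 6710, .ofNat 0, .ofNat 6710, .ofNat 10607, .ofNat 0, .ofNat 128, .negSucc 1565, .negSucc 12313, .ofNat 0, .ofNat 1025, .ofNat 7834, .ofNat 0, .ofNat 0, .ofNat 11594, .ofNat 3431,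 .ofNat 0, .ofNat 0, .ofNat 0, .ofNat 0, .ofNat 0, .ofNat 0, .ofNat 715314740146646001987597915906961811770966016, .ofNat 0, .ofNat 0, .ofNat 0, .ofNat 1302016784329519942199391387262266076232155136, .ofNat 0, .ofNat 0, .ofNat 0, .ofNat 0, .ofNat 0⟩)
    (by decide +kernel)
theorem L06103 : Good (Phi V5.P V5.D (-1) (-1)) ⟨7, 113, 5, 20, 3, 5, 3, 7, 5, 0⟩ :=
  leafX_sound T5.ok_mm T5.Ymm.bz_eq (w := 261) (c := ⟨⟨.ofNat 702, .ofNat 539, .negSucc 462, .negSucc 18, .negSucc 166, .negSucc 882⟩, ⟨.negSucc 469, .negSucc 374, .ofNat 330, .ofNat 17, .ofNat 111, .ofNat 573⟩, ⟨.negSucc 803, .negSucc 446, .ofNat 397, .ofNat 291, .negSucc 23, .ofNat 610⟩, ⟨.ofNat 674, .ofNat 624, .negSucc 618, .negSucc 245, .negSucc 341, .negSucc 1324⟩, ⟨.negSucc 508, .negSucc 255, .ofNat 137, .negSucc 329, .negSucc 158, .negSucc 124⟩, .ofNat 5421, .ofNat 7869, .ofNat 0, .ofNat 7869, .ofNat 12225, .ofNat 0,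 .ofNat 128, .negSucc 942, .negSucc 6052, .ofNat 0, .ofNat 625, .ofNat 3919, .ofNat 0, .ofNat 0, .ofNat 5700, .ofNat 1979, .ofNat 0, .ofNat 0, .ofNat 0, .ofNat 0, .ofNat 0, .ofNat 0, .ofNat 382477107177108800966796521150203392633602048, .ofNat 0, .ofNat 0, .ofNat 0, .ofNat 0, .ofNat 0, .ofNat 0, .ofNat 0, .ofNat 0, .ofNat 0⟩)
    (by decide +kernel)
theorem L06104 : Good (Phi V5.P V5.D (-1) (-1)) ⟨6, 56, 5, 21, 3, 5, 3, 7, 5, 0⟩ :=
  leafX_sound T5.ok_mm T5.Ymm.bz_eq (w := 262) (c := ⟨⟨.ofNat 906, .ofNat 0, .negSucc 105, .negSucc 184, .negSucc 157, .negSucc 866⟩, ⟨.negSucc 601, .ofNat 0, .ofNat 62, .ofNat 124, .ofNat 107, .ofNat 571⟩, ⟨.negSucc 974, .ofNat 0, .negSucc 311, .ofNat 449, .negSucc 40, .ofNat 610⟩, ⟨.ofNat 734, .ofNat 0, .negSucc 19, .negSucc 280, .negSucc 343, .negSucc 1148⟩, ⟨.negSucc 814, .ofNat 0, .ofNat 32, .negSucc 29, .negSucc 179, .ofNat 101⟩, .ofNat 10091, .ofNat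 14824, .ofNat 0, .ofNat 14824, .ofNat 22577, .ofNat 0, .ofNat 128, .negSucc 3292, .negSucc 22895, .ofNat 0, .ofNat 2194, .ofNat 15080, .ofNat 0, .ofNat 0, .ofNat 21504, .ofNat 6066, .ofNat 0, .ofNat 0, .ofNat 33294036331195326406749536272385192323186688, .ofNat 0, .ofNat 0, .ofNat 0, .ofNat 9916605242002475926867768066372195280700309504, .ofNat 0, .ofNat 0, .ofNat 0, .ofNat 95693873147477217582274694989986854398488215552, .ofNat 0, .ofNat 0, .ofNat 0, .ofNat 68457123235699038223202304584107653592099323904, .ofNat 0⟩)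
    (by decide +kernel)
theorem L06105 : Good (Phi V5.P V5.D (-1) (-1)) ⟨7, 114, 5, 20, 3, 5, 3, 7, 5, 0⟩ :=
  leafX_sound T5.ok_mm T5.Ymm.bz_eq (w := 271) (c := ⟨⟨.ofNat 582, .ofNat 0, .ofNat 22, .negSucc 102, .ofNat 30, .negSucc 743⟩, ⟨.negSucc 390, .ofNat 0, .negSucc 10, .ofNat 68, .negSucc 18, .ofNat 490⟩, ⟨.negSucc 718, .ofNat 0, .ofNat 15, .ofNat 366, .negSucc 201, .ofNat 486⟩, ⟨.ofNat 140, .ofNat 0, .ofNat 1, .negSucc 128, .ofNat 25, .negSucc 785⟩, ⟨.negSucc 1067, .ofNat 0, .negSucc 0, .ofNat 23, .negSucc 23, .ofNat 384⟩, .ofNat 21692, .ofNat 32297, .ofNat 0, .ofNat 32297, .ofNat 48897, .ofNat 0, .ofNat 128, .negSucc 6586, .negSucc 50765, .ofNat 0, .ofNat 4382, .ofNat 33536, .ofNat 0, .ofNat 0, .ofNat 47626, .ofNat 23759, .ofNat 0, .ofNat 0, .ofNat 0, .ofNat 0, .ofNat 0, .ofNat 0, .ofNat 1110891755077578711538887258496665342717491937280, .ofNat 0, .ofNat 0, .ofNat 0, .ofNat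 55273790807271443755645024015723258966538452992, .ofNat 0, .ofNat 0, .ofNat 6429790443443759673961370749034035251913679185175904256, .ofNat 29250671171636911522255909620447349263352987648, .ofNat 0⟩)
    (by decide +kernel)
theorem L06106 : Good (Phi V5.P V5.D (-1) (-1)) ⟨8, 228, 6, 42, 4, 10, 3, 7, 5, 0⟩ :=
  leafX_sound T5.ok_mm T5.Ymm.bz_eq (w := 285) (c := ⟨⟨.ofNat 896, .ofNat 245, .negSucc 12, .negSucc 86, .ofNat 173, .negSucc 1116⟩, ⟨.negSucc 603, .negSucc 245, .ofNat 97, .ofNat 61, .negSucc 112, .ofNat 746⟩, ⟨.negSucc 1004, .negSucc 123, .negSucc 99, .ofNat 219, .negSucc 354, .ofNat 917⟩, ⟨.ofNat 793, .ofNat 282, .negSucc 17, .negSucc 172, .ofNat 287, .negSucc 1771⟩, ⟨.negSucc 704, .negSucc 92, .ofNat 20, .negSucc 74, .ofNat 71, .negSucc 312⟩, .ofNat 7277, .ofNat 10534, .ofNat 0, .ofNat 10534, .ofNat 16028, .ofNat 0, .ofNat 128, .negSucc 1605, .negSucc 15396, .ofNat 0, .ofNat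 1079, .ofNat 10180, .ofNat 0, .ofNat 0, .ofNat 14887, .ofNat 3165, .ofNat 0, .ofNat 0, .ofNat 0, .ofNat 0, .ofNat 0, .ofNat 0, .ofNat 84825186639007927741743041614876953121163076173824, .ofNat 0, .ofNat 0, .ofNat 0, .ofNat 81182164768078145200229724303213595550749646913536, .ofNat 0, .ofNat 0, .ofNat 0, .ofNat 0, .ofNat 0⟩)
    (by decide +kernel)
theorem L06107 : Good (Phi V5.P V5.D (-1) (-1)) ⟨8, 228, 6, 42, 4, 11, 3, 7, 5, 0⟩ :=
  leafX_sound T5.ok_mm T5.Ymm.bz_eq (w := 288) (c := ⟨⟨.ofNat 806, .ofNat 47, .ofNat 120, .negSucc 277, .negSucc 304, .negSucc 708⟩, ⟨.negSucc 536, .negSucc 29, .negSucc 79, .ofNat 185, .ofNat 202, .ofNat 469⟩, ⟨.negSucc 732, .negSucc 42, .negSucc 100, .ofNat 388, .ofNat 74, .ofNat 451⟩, ⟨.ofNat 226, .ofNat 6, .ofNat 55, .negSucc 267, .negSucc 284, .negSucc 488⟩, ⟨.negSucc 1363, .negSucc 107, .negSucc 132, .ofNat 182, .ofNat 214, .ofNat 758⟩, .ofNat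 18681, .ofNat 27625, .ofNat 0, .ofNat 27625, .ofNat 41647, .ofNat 0, .ofNat 128, .negSucc 1888, .negSucc 15752, .ofNat 0, .ofNat 1262, .ofNat 10465, .ofNat 0, .ofNat 0, .ofNat 14383, .ofNat 8164, .ofNat 0, .ofNat 0, .ofNat 0, .ofNat 0, .ofNat 0, .ofNat 0, .ofNat 388490774786411256619003079350102667947544800133120, .ofNat 0, .ofNat 0, .ofNat 0, .ofNat 0, .ofNat 0, .ofNat 0, .ofNat 0, .ofNat 0, .ofNat 0⟩)
    (by decide +kernel)
theorem L06108 : Good (Phi V5.P V5.D (-1) (-1)) ⟨8, 229, 6, 42, 3, 5, 3, 7, 5, 0⟩ :=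
  out_sound (S := T5.ds_mm) T5.ok_mm (w := 23) (j := 4) (by decide +kernel)
theorem L06109 : Good (Phi V5.P V5.D (-1) (-1)) ⟨8, 228, 6, 43, 3, 5, 3, 7, 5, 0⟩ :=
  out_sound (S := T5.ds_mm) T5.ok_mm (w := 81) (j := 3) (by decide +kernel)
theorem L06110 : Good (Phi V5.P V5.D (-1) (-1)) ⟨8, 229, 6, 43, 3, 5, 3, 7, 5, 0⟩ :=
  out_sound (S := T5.ds_mm) T5.ok_mm (w := 23) (j := 4) (by decide +kernel)
theorem L06111 : Good (Phi V5.P V5.D (-1) (-1)) ⟨7, 115, 4, 10, 3, 5, 3, 7, 5, 0⟩ :=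
  out_sound (S := T5.ds_mm) T5.ok_mm (w := 21) (j := 4) (by decide +kernel)
theorem L06112 : Good (Phi V5.P V5.D (-1) (-1)) ⟨6, 56, 4, 11, 3, 5, 3, 7, 5, 0⟩ :=
  out_sound (S := T5.ds_mm) T5.ok_mm (w := 65) (j := 3) (by decide +kernel)
theorem L06113 : Good (Phi V5.P V5.D (-1) (-1)) ⟨7, 114, 5, 22, 3, 5, 3, 7, 5, 0⟩ :=
  out_sound (S := T5.ds_mm) T5.ok_mm (w := 73) (j := 3) (by decide +kernel)
theorem L06114 : Good (Phi V5.P V5.D (-1) (-1)) ⟨7, 115, 5, 22, 3, 5, 3, 7, 5, 0⟩ :=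
  out_sound (S := T5.ds_mm) T5.ok_mm (w := 21) (j := 4) (by decide +kernel)
theorem L06115 : Good (Phi V5.P V5.D (-1) (-1)) ⟨6, 57, 5, 23, 3, 5, 3, 7, 5, 0⟩ :=
  out_sound (S := T5.ds_mm) T5.ok_mm (w := 67) (j := 3) (by decide +kernel)
theorem L06116 : Good (Phi V5.P V5.D (-1) (-1)) ⟨5, 29, 3, 5, 3, 5, 3, 7, 5, 0⟩ :=
  out_sound (S := T5.ds_mm) T5.ok_mm (w := 17) (j := 4) (by decide +kernel)
theorem L06117 : Good (Phi V5.P V5.D (-1) (-1)) ⟨4, 15, 3, 5, 3, 5, 3, 7, 5, 0⟩ :=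
  out_sound (S := T5.ds_mm) T5.ok_mm (w := 51) (j := 3) (by decide +kernel)
theorem L06118 : Good (Phi V5.P V5.D (-1) (-1)) ⟨3, 6, 3, 5, 3, 5, 3, 7, 5, 1⟩ :=
  out_sound (S := T5.ds_mm) T5.ok_mm (w := 45) (j := 3) (by decide +kernel)
theorem L06119 : Good (Phi V5.P V5.D (-1) (-1)) ⟨5, 28, 5, 20, 3, 5, 4, 14, 5, 1⟩ :=
  leafX_sound T5.ok_mm T5.Ymm.bz_eq (w := 255) (c := ⟨⟨.negSucc 1307, .ofNat 58, .ofNat 257, .ofNat 722, .ofNat 276, .negSucc 1242⟩, ⟨.ofNat 847, .negSucc 132, .negSucc 109, .negSucc 468, .negSucc 175, .ofNat 807⟩, ⟨.ofNat 827, .ofNat 153, .negSucc 266, .negSucc 500, .negSucc 283, .ofNat 825⟩, ⟨.negSucc 2423, .ofNat 62, .ofNat 351, .ofNat 843, .ofNat 344, .negSucc 1747⟩, ⟨.negSucc 916, .ofNat 99, .negSucc 44, .negSucc 264, .negSucc 65, .ofNat 3⟩, .ofNat 5918, .ofNat 8534, .ofNat 0, .ofNat 8534, .ofNat 13101, .ofNat 0, .ofNat 128, .negSucc 721, .negSucc 3366, .ofNat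 0, .ofNat 483, .ofNat 2192, .ofNat 0, .ofNat 0, .ofNat 2992, .ofNat 1316, .ofNat 0, .ofNat 0, .ofNat 0, .ofNat 0, .ofNat 0, .ofNat 0, .ofNat 67531673423532021699300638303430558336696713216, .ofNat 0, .ofNat 0, .ofNat 0, .ofNat 25844561518397607495512101497034875756571787264, .ofNat 50933953987553776591593242285787080029957478853464031232, .ofNat 0, .ofNat 0, .ofNat 28803204596421377670505185798786448963168894976, .ofNat 108150763740058438902128073926830757648733367905848131584⟩)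
    (by decide +kernel)
theorem L06120 : Good (Phi V5.P V5.D (-1) (-1)) ⟨5, 29, 5, 20, 3, 5, 4, 14, 5, 1⟩ :=
  out_sound (S := T5.ds_mm) T5.ok_mm (w := 61) (j := 3) (by decide +kernel)
theorem L06121 : Good (Phi V5.P V5.D (-1) (-1)) ⟨4, 14, 5, 21, 3, 5, 4, 14, 5, 1⟩ :=
  leafX_sound T5.ok_mm T5.Ymm.bz_eq (w := 250) (c := ⟨⟨.negSucc 1182, .negSucc 0, .ofNat 28, .ofNat 753, .ofNat 529, .negSucc 1236⟩, ⟨.ofNat 816, .negSucc 133, .ofNat 25, .negSucc 503, .negSucc 352, .ofNat 823⟩, ⟨.ofNat 740, .ofNat 96, .negSucc 29, .negSucc 512, .negSucc 512, .ofNat 836⟩, ⟨.negSucc 2386, .ofNat 16, .ofNat 41, .ofNat 1043, .ofNat 876, .negSucc 1845⟩, ⟨.negSucc 1087, .negSucc 8, .negSucc 0, .negSucc 14, .ofNat 206, .negSucc 167⟩, .ofNat 3498, .ofNat 4700, .ofNat 0, .ofNat 4700, .ofNat 7015, .ofNat 0, .ofNat 128, .negSucc 806, .negSucc 4031, .ofNat 0, .ofNat 564, .ofNat 2709, .ofNat 0, .ofNat 0, .ofNat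 3514, .ofNat 673, .ofNat 0, .ofNat 0, .ofNat 35307305531583757037929472620836485133762560, .ofNat 1055009398372420038368322840324195995271249545658368, .ofNat 0, .ofNat 0, .ofNat 35016889891754133696256262642121747158913777664, .ofNat 2716221924613689757436404258096838126369866750890082304, .ofNat 0, .ofNat 0, .ofNat 26477319137495601832314893635733228460861030400, .ofNat 6041892964079619175671177773196452971038341907376766976, .ofNat 0, .ofNat 0, .ofNat 46535014221586854392317267523371276423779057664, .ofNat 38806182969701085260057328862050166957688538912832618496⟩)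
    (by decide +kernel)
theorem L06122 : Good (Phi V5.P V5.D (-1) (-1)) ⟨6, 56, 4, 11, 3, 5, 4, 14, 5, 1⟩ :=
  out_sound (S := T5.ds_mm) T5.ok_mm (w := 65) (j := 3) (by decide +kernel)
theorem L06123 : Good (Phi V5.P V5.D (-1) (-1)) ⟨7, 114, 5, 22, 3, 5, 4, 14, 5, 1⟩ :=
  out_sound (S := T5.ds_mm) T5.ok_mm (w := 73) (j := 3) (by decide +kernel)
theorem L06124 : Good (Phi V5.P V5.D (-1) (-1)) ⟨7, 115, 5, 22, 3, 5, 4, 14, 5, 1⟩ :=
  out_sound (S := T5.ds_mm) T5.ok_mm (w := 21) (j := 4) (by decide +kernel)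
theorem L06125 : Good (Phi V5.P V5.D (-1) (-1)) ⟨6, 57, 5, 23, 3, 5, 4, 14, 5, 1⟩ :=
  out_sound (S := T5.ds_mm) T5.ok_mm (w := 67) (j := 3) (by decide +kernel)
theorem L06126 : Good (Phi V5.P V5.D (-1) (-1)) ⟨5, 29, 4, 11, 3, 5, 4, 14, 5, 1⟩ :=
  out_sound (S := T5.ds_mm) T5.ok_mm (w := 17) (j := 4) (by decide +kernel)
theorem L06127 : Good (Phi V5.P V5.D (-1) (-1)) ⟨4, 15, 3, 5, 3, 5, 4, 14, 5, 1⟩ :=
  out_sound (S := T5.ds_mm) T5.ok_mm (w := 51) (j := 3) (by decide +kernel)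
theorem L06128 : Good (Phi V5.P V5.D (-1) (-1)) ⟨5, 28, 5, 20, 3, 5, 4, 15, 5, 1⟩ :=
  leafX_sound T5.ok_mm T5.Ymm.bz_eq (w := 255) (c := ⟨⟨.negSucc 1124, .ofNat 231, .ofNat 191, .ofNat 312, .ofNat 1509, .negSucc 296⟩, ⟨.ofNat 729, .negSucc 192, .negSucc 99, .negSucc 202, .negSucc 977, .ofNat 187⟩, ⟨.ofNat 713, .negSucc 690, .negSucc 4, .negSucc 93, .negSucc 1394, .ofNat 73⟩, ⟨.negSucc 2307, .ofNat 408, .ofNat 306, .ofNat 316, .ofNat 2441, .negSucc 246⟩, ⟨.negSucc 1039, .negSucc 189, .ofNat 155, .negSucc 183, .ofNat 468, .ofNat 266⟩, .ofNat 3968, .ofNat 5601, .ofNat 0, .ofNat 5601, .ofNat 8683, .ofNat 0, .ofNat 128, .negSucc 977, .negSucc 4134, .ofNat 0, .ofNat 656, .ofNat 2674, .ofNat 0, .ofNat 0, .ofNat 3717, .ofNat 647, .ofNat 0, .ofNat 0, .ofNat 151958503789186227614977263458166366606983168, .ofNat 0, .ofNat 0, .ofNat 241046788587448537637428932951124152916364782206976, .ofNat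 21384605464402662644683667464919497023820922880, .ofNat 0, .ofNat 0, .ofNat 0, .ofNat 100906177268660562643369179922634518076594323456, .ofNat 0, .ofNat 0, .ofNat 0, .ofNat 25873055435987875843048124697814446747802402816, .ofNat 181840535747518731172525729436003972241881611787242045440⟩)
    (by decide +kernel)
theorem L06129 : Good (Phi V5.P V5.D (-1) (-1)) ⟨6, 56, 5, 21, 3, 5, 4, 15, 5, 1⟩ :=
  leafX_sound T5.ok_mm T5.Ymm.bz_eq (w := 267) (c := ⟨⟨.negSucc 856, .ofNat 0, .ofNat 65, .ofNat 126, .ofNat 1455, .negSucc 87⟩, ⟨.ofNat 563, .ofNat 0, .negSucc 37, .negSucc 82, .negSucc 958, .ofNat 58⟩, ⟨.ofNat 374, .ofNat 0, .negSucc 74, .ofNat 86, .negSucc 1339, .negSucc 100⟩, ⟨.negSucc 1606, .ofNat 0, .ofNat 35, .ofNat 122, .ofNat 1926, .negSucc 31⟩, ⟨.negSucc 611, .ofNat 0, .negSucc 11, .negSucc 83, .negSucc 175, .ofNat 138⟩, .ofNat 14697, .ofNat 21762, .ofNat 0, .ofNat 21762, .ofNat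 33028, .ofNat 0, .ofNat 128, .negSucc 3656, .negSucc 22157, .ofNat 0, .ofNat 2433, .ofNat 14613, .ofNat 0, .ofNat 0, .ofNat 19888, .ofNat 9666, .ofNat 0, .ofNat 0, .ofNat 0, .ofNat 0, .ofNat 0, .ofNat 35988446229354952011804092050186951552811277668581376, .ofNat 304354483646110770420570712032449682054972440576, .ofNat 0, .ofNat 0, .ofNat 0, .ofNat 834075583507504793179179530107871347589414649856, .ofNat 0, .ofNat 0, .ofNat 0, .ofNat 0, .ofNat 0⟩)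
    (by decide +kernel)
theorem L06130 : Good (Phi V5.P V5.D (-1) (-1)) ⟨6, 57, 5, 21, 3, 5, 4, 15, 5, 1⟩ :=
  leafX_sound T5.ok_mm T5.Ymm.bz_eq (w := 261) (c := ⟨⟨.negSucc 835, .ofNat 26, .ofNat 336, .ofNat 267, .ofNat 1641, .negSucc 236⟩, ⟨.ofNat 553, .ofNat 52, .negSucc 254, .negSucc 176, .negSucc 1090, .ofNat 157⟩, ⟨.ofNat 309, .negSucc 356, .negSucc 103, .ofNat 11, .negSucc 1498, .ofNat 67⟩, ⟨.negSucc 1818, .ofNat 255, .ofNat 470, .ofNat 328, .ofNat 2588, .negSucc 276⟩, ⟨.negSucc 976, .ofNat 79, .ofNat 149, .negSucc 69, .ofNat 426, .ofNat 86⟩, .ofNat 5676, .ofNat 8010, .ofNat 0, .ofNat 8010, .ofNat 12050, .ofNat 0, .ofNat 128, .negSucc 1171, .negSucc 6337, .ofNat 0, .ofNat 798, .ofNat 4228, .ofNat 0, .ofNat 0, .ofNat 5664, .ofNat 1374, .ofNat 0, .ofNat 0, .ofNat 68810339093409759894201200361950204544417792, .ofNat 0, .ofNat 0, .ofNat 0, .ofNat 100194848280442418031332398024082182699424415744,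 .ofNat 0, .ofNat 0, .ofNat 0, .ofNat 70108819227897809547499118620903649433295519744, .ofNat 1236436365157097868256914418753318822137858531654379765760, .ofNat 0, .ofNat 0, .ofNat 38612340375433675398647398095324469667070738432, .ofNat 0⟩)
    (by decide +kernel)
theorem L06131 : Good (Phi V5.P V5.D (-1) (-1)) ⟨6, 56, 4, 11, 3, 5, 4, 15, 5, 1⟩ :=
  out_sound (S := T5.ds_mm) T5.ok_mm (w := 65) (j := 3) (by decide +kernel)
theorem L06132 : Good (Phi V5.P V5.D (-1) (-1)) ⟨7, 114, 5, 22, 3, 5, 4, 15, 5, 1⟩ :=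
  out_sound (S := T5.ds_mm) T5.ok_mm (w := 73) (j := 3) (by decide +kernel)
theorem L06133 : Good (Phi V5.P V5.D (-1) (-1)) ⟨7, 115, 5, 22, 3, 5, 4, 15, 5, 1⟩ :=
  out_sound (S := T5.ds_mm) T5.ok_mm (w := 21) (j := 4) (by decide +kernel)
theorem L06134 : Good (Phi V5.P V5.D (-1) (-1)) ⟨6, 57, 5, 23, 3, 5, 4, 15, 5, 1⟩ :=
  out_sound (S := T5.ds_mm) T5.ok_mm (w := 67) (j := 3) (by decide +kernel)
theorem L06135 : Good (Phi V5.P V5.D (-1) (-1)) ⟨5, 29, 3, 5, 3, 5, 4, 15, 5, 1⟩ :=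
  out_sound (S := T5.ds_mm) T5.ok_mm (w := 17) (j := 4) (by decide +kernel)
theorem L06136 : Good (Phi V5.P V5.D (-1) (-1)) ⟨4, 15, 3, 5, 3, 5, 4, 15, 5, 1⟩ :=
  out_sound (S := T5.ds_mm) T5.ok_mm (w := 51) (j := 3) (by decide +kernel)
theorem L06137 : Good (Phi V5.P V5.D (-1) (-1)) ⟨3, 6, 3, 5, 3, 5, 3, 7, 4, 1⟩ :=
  out_sound (S := T5.ds_mm) T5.ok_mm (w := 45) (j := 3) (by decide +kernel)
theorem L06138 : Good (Phi V5.P V5.D (-1) (-1)) ⟨5, 28, 4, 10, 4, 10, 3, 7, 5, 2⟩ :=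
  leafX_sound T5.ok_mm T5.Ymm.bz_eq (w := 259) (c := ⟨⟨.negSucc 2998, .negSucc 53, .ofNat 332, .ofNat 349, .ofNat 3079, .negSucc 415⟩, ⟨.ofNat 1917, .ofNat 134, .negSucc 190, .negSucc 231, .negSucc 2041, .ofNat 269⟩, ⟨.ofNat 2129, .ofNat 22, .negSucc 250, .negSucc 299, .negSucc 2714, .ofNat 139⟩, ⟨.negSucc 5213, .negSucc 188, .ofNat 677, .ofNat 436, .ofNat 5306, .negSucc 580⟩, ⟨.negSucc 1563, .ofNat 192, .ofNat 92, .negSucc 77, .ofNat 1440, .ofNat 11⟩, .ofNat 2570, .ofNat 3504, .ofNat 0, .ofNat 3504, .ofNat 5521, .ofNat 0, .ofNat 128, .negSucc 432, .negSucc 2994, .ofNat 0, .ofNat 291, .ofNat 1927, .ofNat 0, .ofNat 0, .ofNat 2628, .ofNat 363, .ofNat 0, .ofNat 0, .ofNat 0, .ofNat 0, .ofNat 0, .ofNat 56274537492268976710427328539092991481435043385049088, .ofNat 8590004376083599813261267646209072154977532641280, .ofNat 0, .ofNat 0, .ofNat 8632033545713245365231163080864020975566618798063616,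 .ofNat 2436265994560449317841393866597104034905348636672, .ofNat 2247111902312125629970807836604028047869559979643934605312, .ofNat 0, .ofNat 0, .ofNat 6220830178658186706634914546326539163720755445760, .ofNat 17578130227938595119337199589587927755902452534811446738944⟩)
    (by decide +kernel)
theorem L06139 : Good (Phi V5.P V5.D (-1) (-1)) ⟨5, 28, 4, 10, 4, 10, 3, 7, 5, 3⟩ :=
  leafX_sound T5.ok_mm T5.Ymm.bz_eq (w := 259) (c := ⟨⟨.negSucc 3131, .ofNat 184, .ofNat 168, .ofNat 188, .ofNat 2474, .ofNat 140⟩, ⟨.ofNat 1969, .ofNat 121, .negSucc 155, .negSucc 122, .negSucc 1638, .negSucc 93⟩, ⟨.ofNat 2000, .negSucc 229, .negSucc 94, .negSucc 174, .negSucc 2072, .negSucc 289⟩, ⟨.negSucc 5362, .ofNat 325, .ofNat 266, .ofNat 178, .ofNat 4385, .ofNat 406⟩, ⟨.negSucc 1389, .negSucc 20, .ofNat 83, .negSucc 138, .ofNat 1346, .ofNat 314⟩, .ofNat 2467, .ofNat 3369, .ofNat 0, .ofNat 3369, .ofNat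 5351, .ofNat 0, .ofNat 128, .negSucc 505, .negSucc 2530, .ofNat 0, .ofNat 338, .ofNat 1614, .ofNat 0, .ofNat 0, .ofNat 2255, .ofNat 689, .ofNat 0, .ofNat 0, .ofNat 0, .ofNat 0, .ofNat 0, .ofNat 42191536756050274834154727432604696910607982232862720, .ofNat 10850929033231777427189020660899462529832485650432, .ofNat 0, .ofNat 0, .ofNat 24628901177959011224824521588750407462369922664890368, .ofNat 4658417800355179279142206329758667995409993957376, .ofNat 2538495676558062130144359467818782985585730450967989583872, .ofNat 0, .ofNat 57035698183247803679907240381658187606763591897710592, .ofNat 12484232269988683278493106129866353090084412063744, .ofNat 15484036145534889227660069312639987975992331638105865977856⟩)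
    (by decide +kernel)
theorem L06140 : Good (Phi V5.P V5.D (-1) (-1)) ⟨5, 29, 4, 10, 4, 10, 3, 7, 4, 1⟩ :=
  out_sound (S := T5.ds_mm) T5.ok_mm (w := 59) (j := 3) (by decide +kernel)
theorem L06141 : Good (Phi V5.P V5.D (-1) (-1)) ⟨4, 15, 4, 10, 4, 10, 3, 7, 4, 1⟩ :=
  out_sound (S := T5.ds_mm) T5.ok_mm (w := 53) (j := 3) (by decide +kernel)
theorem L06142 : Good (Phi V5.P V5.D (-1) (-1)) ⟨5, 28, 5, 20, 4, 11, 4, 14, 4, 1⟩ :=
  leafX_sound T5.ok_mm T5.Ymm.bz_eq (w := 264) (c := ⟨⟨.negSucc 2760, .ofNat 60, .ofNat 29, .ofNat 452, .ofNat 1078, .negSucc 35⟩, ⟨.ofNat 1788, .negSucc 168, .ofNat 70, .negSucc 294, .negSucc 700, .ofNat 27⟩, ⟨.ofNat 1881, .ofNat 36, .negSucc 44, .negSucc 381, .negSucc 886, .negSucc 465⟩, ⟨.negSucc 4708, .ofNat 12, .negSucc 55, .ofNat 550, .ofNat 1732, .negSucc 54⟩, ⟨.negSucc 1256, .negSucc 41, .negSucc 171, .negSucc 137, .ofNat 327, .ofNat 4⟩, .ofNat 5918,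 .ofNat 8534, .ofNat 0, .ofNat 8534, .ofNat 13101, .ofNat 0, .ofNat 128, .negSucc 680, .negSucc 3138, .ofNat 0, .ofNat 453, .ofNat 2039, .ofNat 0, .ofNat 0, .ofNat 2546, .ofNat 772, .ofNat 0, .ofNat 0, .ofNat 105307708254304539625961769578135110521922256896, .ofNat 0, .ofNat 0, .ofNat 0, .ofNat 24099085084614505702597200756158750257965168590848, .ofNat 0, .ofNat 0, .ofNat 0, .ofNat 18639214799882454995815729600632470831014510329856, .ofNat 0, .ofNat 0, .ofNat 0, .ofNat 14176493226226775750364355722896746315896812732416, .ofNat 40243434569667982922423073368282867706668553362905375965184⟩)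
    (by decide +kernel)
theorem L06143 : Good (Phi V5.P V5.D (-1) (-1)) ⟨5, 29, 5, 20, 4, 11, 4, 14, 4, 1⟩ :=
  out_sound (S := T5.ds_mm) T5.ok_mm (w := 61) (j := 3) (by decide +kernel)
theorem L06144 : Good (Phi V5.P V5.D (-1) (-1)) ⟨4, 14, 5, 21, 4, 11, 4, 14, 4, 1⟩ :=
  leafX_sound T5.ok_mm T5.Ymm.bz_eq (w := 261) (c := ⟨⟨.negSucc 2635, .negSucc 14, .ofNat 173, .ofNat 468, .ofNat 1069, .negSucc 89⟩, ⟨.ofNat 1766, .negSucc 95, .negSucc 45, .negSucc 308, .negSucc 707, .ofNat 55⟩, ⟨.ofNat 1800, .ofNat 16, .negSucc 127, .negSucc 380, .negSucc 876, .negSucc 438⟩, ⟨.negSucc 4646, .ofNat 17, .ofNat 133, .ofNat 477, .ofNat 1566, .ofNat 240⟩, ⟨.negSucc 1407, .negSucc 20, .negSucc 153, .negSucc 269, .ofNat 100, .ofNat 563⟩, .ofNat 5387, .ofNat 7421, .ofNat 0, .ofNat 7421, .ofNat 10940, .ofNat 0, .ofNat 128, .negSucc 1109, .negSucc 4547, .ofNat 0, .ofNat 769, .ofNat 3062, .ofNat 0, .ofNat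 0, .ofNat 3599, .ofNat 1568, .ofNat 0, .ofNat 0, .ofNat 0, .ofNat 0, .ofNat 0, .ofNat 0, .ofNat 19509439008135285393870567788650858284606801575936, .ofNat 17124242117412150273814487197202211382500753054718673027072, .ofNat 0, .ofNat 0, .ofNat 50807458691334127983242399930663517044396924076032, .ofNat 0, .ofNat 0, .ofNat 0, .ofNat 39072601234341184286557743442626958134944104185856, .ofNat 22877521480746438956083260861431418385060991286235403124736⟩)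
    (by decide +kernel)
theorem L06145 : Good (Phi V5.P V5.D (-1) (-1)) ⟨5, 28, 5, 20, 4, 11, 4, 15, 4, 1⟩ :=
  leafX_sound T5.ok_mm T5.Ymm.bz_eq (w := 264) (c := ⟨⟨.negSucc 1363, .ofNat 180, .ofNat 166, .ofNat 364, .ofNat 1818, .negSucc 499⟩, ⟨.ofNat 872, .negSucc 134, .negSucc 90, .negSucc 235, .negSucc 1173, .ofNat 333⟩, ⟨.ofNat 636, .negSucc 15, .negSucc 149, .negSucc 211, .negSucc 1514, .ofNat 35⟩, ⟨.negSucc 2642, .ofNat 207, .ofNat 359, .ofNat 445, .ofNat 3106, .negSucc 586⟩, ⟨.negSucc 1121, .ofNat 7, .ofNat 178, .negSucc 99, .ofNat 816, .ofNat 186⟩, .ofNat 3968, .ofNat 5601, .ofNat 0, .ofNat 5601, .ofNat 8683, .ofNat 0, .ofNat 128, .negSucc 776, .negSucc 4127, .ofNat 0, .ofNat 516, .ofNat 2659, .ofNat 0, .ofNat 0, .ofNat 3330, .ofNat 1880, .ofNat 0, .ofNat 0, .ofNat 0, .ofNat 0, .ofNat 0, .ofNat 265385075265532299502596387273861312446318612538458112, .ofNat 13341189622820991382657142376779105969910390456320,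 .ofNat 0, .ofNat 0, .ofNat 447955388403226846635837197969142097246540493962084352, .ofNat 13319502000879493714548437480950054985212616507392, .ofNat 0, .ofNat 0, .ofNat 584700876242345336298337140812579241942181190855294976, .ofNat 12254434629990634567098697751630102517528131534848, .ofNat 95203155348093202460782519541955729894197633574525384785920⟩)
    (by decide +kernel)
theorem L06146 : Good (Phi V5.P V5.D (-1) (-1)) ⟨5, 29, 5, 20, 4, 11, 4, 15, 4, 1⟩ :=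
  out_sound (S := T5.ds_mm) T5.ok_mm (w := 61) (j := 3) (by decide +kernel)
theorem L06147 : Good (Phi V5.P V5.D (-1) (-1)) ⟨4, 14, 5, 21, 4, 11, 4, 15, 4, 1⟩ :=
  leafX_sound T5.ok_mm T5.Ymm.bz_eq (w := 261) (c := ⟨⟨.negSucc 880, .ofNat 27, .ofNat 169, .ofNat 420, .ofNat 1731, .negSucc 824⟩, ⟨.ofNat 595, .negSucc 90, .negSucc 85, .negSucc 278, .negSucc 1142, .ofNat 550⟩, ⟨.ofNat 230, .ofNat 131, .negSucc 109, .negSucc 238, .negSucc 1440, .ofNat 298⟩, ⟨.negSucc 1731, .ofNat 15, .ofNat 148, .ofNat 582, .ofNat 2630, .negSucc 1056⟩, ⟨.negSucc 757, .negSucc 12, .negSucc 127, .negSucc 2, .ofNat 303, .ofNat 152⟩, .ofNat 5387, .ofNat 7421, .ofNat 0, .ofNat 7421, .ofNat 10940, .ofNat 0, .ofNat 128, .negSucc 1281, .negSucc 5244, .ofNat 0, .ofNat 888, .ofNat 3519, .ofNat 0, .ofNat 0, .ofNat 4159, .ofNat 1407, .ofNat 0, .ofNat 0, .ofNat 0, .ofNat 0, .ofNat 0, .ofNat 27777698016367961207991066052530815171610653564600320,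 .ofNat 15334126701260571067775512878795379106612259061760, .ofNat 15055071862953141476453729831503889217365904533104541827072, .ofNat 0, .ofNat 42176752584125464510642269580199929117711500608274432, .ofNat 21326241541729824552803368827614842854729536503808, .ofNat 0, .ofNat 0, .ofNat 5933038206208763826668578019389844790866271711264768, .ofNat 25998587593399905492626383393959470831550653792256, .ofNat 30664265302801133422434111823159719567191934197791109152768⟩)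
    (by decide +kernel)
theorem L06148 : Good (Phi V5.P V5.D (-1) (-1)) ⟨4, 15, 4, 10, 4, 11, 3, 7, 4, 1⟩ :=
  out_sound (S := T5.ds_mm) T5.ok_mm (w := 53) (j := 3) (by decide +kernel)
theorem L06149 : Good (Phi V5.P V5.D (-1) (-1)) ⟨6, 56, 4, 11, 3, 5, 3, 7, 4, 1⟩ :=
  out_sound (S := T5.ds_mm) T5.ok_mm (w := 65) (j := 3) (by decide +kernel)
theorem L06150 : Good (Phi V5.P V5.D (-1) (-1)) ⟨7, 114, 5, 22, 3, 5, 3, 7, 4, 1⟩ :=
  out_sound (S := T5.ds_mm) T5.ok_mm (w := 73) (j := 3) (by decide +kernel)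
theorem L06151 : Good (Phi V5.P V5.D (-1) (-1)) ⟨7, 115, 5, 22, 3, 5, 3, 7, 4, 1⟩ :=
  out_sound (S := T5.ds_mm) T5.ok_mm (w := 21) (j := 4) (by decide +kernel)
theorem L06152 : Good (Phi V5.P V5.D (-1) (-1)) ⟨6, 57, 5, 23, 3, 5, 3, 7, 4, 1⟩ :=
  out_sound (S := T5.ds_mm) T5.ok_mm (w := 67) (j := 3) (by decide +kernel)
theorem L06153 : Good (Phi V5.P V5.D (-1) (-1)) ⟨5, 29, 4, 11, 3, 5, 3, 7, 4, 1⟩ :=
  out_sound (S := T5.ds_mm) T5.ok_mm (w := 17) (j := 4) (by decide +kernel)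
theorem L06154 : Good (Phi V5.P V5.D (-1) (-1)) ⟨4, 15, 4, 11, 3, 5, 3, 7, 4, 1⟩ :=
  out_sound (S := T5.ds_mm) T5.ok_mm (w := 53) (j := 3) (by decide +kernel)
theorem L06155 : Good (Phi V5.P V5.D (-1) (-1)) ⟨2, 2, 3, 5, 2, 2, 2, 3, 3, 1⟩ :=
  out_sound (S := T5.ds_mm) T5.ok_mm (w := 39) (j := 3) (by decide +kernel)
theorem L06156 : Good (Phi V5.P V5.D (-1) (-1)) ⟨3, 6, 3, 5, 2, 2, 2, 3, 3, 1⟩ :=
  out_sound (S := T5.ds_mm) T5.ok_mm (w := 45) (j := 3) (by decide +kernel)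
theorem L06157 : Good (Phi V5.P V5.D (-1) (-1)) ⟨6, 56, 4, 10, 2, 2, 2, 3, 5, 4⟩ :=
  leafX_sound T5.ok_mm T5.Ymm.bz_eq (w := 230) (c := ⟨⟨.negSucc 4159, .ofNat 131, .negSucc 241, .ofNat 643, .ofNat 2243, .ofNat 572⟩, ⟨.ofNat 2662, .negSucc 56, .ofNat 260, .negSucc 428, .negSucc 1462, .negSucc 371⟩, ⟨.ofNat 3038, .negSucc 229, .ofNat 273, .negSucc 1012, .negSucc 1973, .negSucc 587⟩, ⟨.negSucc 6275, .ofNat 188, .negSucc 255, .ofNat 296, .ofNat 3690, .ofNat 889⟩, ⟨.negSucc 545, .negSucc 74, .ofNat 128, .negSucc 945, .ofNat 789, .ofNat 125⟩, .ofNat 2372, .ofNat 3240, .ofNat 0, .ofNat 3240, .ofNat 5187, .ofNat 0, .ofNat 128, .negSucc 861, .negSucc 1440, .ofNat 0, .ofNat 576, .ofNat 918, .ofNat 0, .ofNat 0, .ofNat 1561, .ofNat 670, .ofNat 0, .ofNat 0, .ofNat 0, .ofNat 0, .ofNat 0, .ofNat 8269138835082099418855428278014091365699289088, .ofNat 508633036550048944370014076907842174976,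 .ofNat 0, .ofNat 0, .ofNat 14785452785438670440969981224555727445221703680, .ofNat 475536515708014619667543124841320153088, .ofNat 0, .ofNat 0, .ofNat 31535812754499756947648193954423696963045163008, .ofNat 616323875019280360539145101765408456704, .ofNat 0⟩)
    (by decide +kernel)
theorem L06158 : Good (Phi V5.P V5.D (-1) (-1)) ⟨6, 57, 4, 10, 2, 2, 2, 3, 5, 4⟩ :=
  leafX_sound T5.ok_mm T5.Ymm.bz_eq (w := 226) (c := ⟨⟨.negSucc 4056, .ofNat 267, .negSucc 153, .ofNat 752, .ofNat 2093, .ofNat 602⟩, ⟨.ofNat 2585, .negSucc 238, .ofNat 308, .negSucc 504, .negSucc 1403, .negSucc 401⟩, ⟨.ofNat 3215, .ofNat 228, .negSucc 423, .negSucc 1159, .negSucc 1885, .negSucc 635⟩, ⟨.negSucc 6145, .ofNat 87, .negSucc 84, .ofNat 371, .ofNat 3490, .ofNat 988⟩, ⟨.negSucc 495, .negSucc 155, .negSucc 105, .negSucc 1044, .ofNat 749, .ofNat 201⟩, .ofNat 870, .ofNat 952, .ofNat 0, .ofNat 952, .ofNat 1626,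 .ofNat 0, .ofNat 128, .negSucc 395, .negSucc 878, .ofNat 0, .ofNat 283, .ofNat 542, .ofNat 0, .ofNat 0, .ofNat 876, .ofNat 104, .ofNat 0, .ofNat 0, .ofNat 8290475908513118516778728005419663360, .ofNat 0, .ofNat 0, .ofNat 3408770605167973756181256772142619652033347584, .ofNat 19748467116952387114263443936571817984, .ofNat 0, .ofNat 0, .ofNat 1729054879171372372038612818608604016527015936, .ofNat 173310595011589131165661920551466172416, .ofNat 2113111583123444823238453579337044743804489302016, .ofNat 0, .ofNat 0, .ofNat 0, .ofNat 0⟩)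
    (by decide +kernel)
theorem L06159 : Good (Phi V5.P V5.D (-1) (-1)) ⟨5, 28, 4, 10, 2, 2, 2, 3, 5, 5⟩ :=
  leafX_sound T5.ok_mm T5.Ymm.bz_eq (w := 226) (c := ⟨⟨.negSucc 3388, .ofNat 146, .negSucc 48, .ofNat 586, .ofNat 1550, .ofNat 363⟩, ⟨.ofNat 2187, .negSucc 120, .ofNat 154, .negSucc 387, .negSucc 1012, .negSucc 238⟩, ⟨.ofNat 2258, .ofNat 5, .negSucc 109, .negSucc 1077, .negSucc 1461, .negSucc 390⟩, ⟨.negSucc 5215, .ofNat 130, .ofNat 92, .ofNat 399, .ofNat 2822, .ofNat 697⟩, ⟨.negSucc 672, .ofNat 26, .ofNat 107, .negSucc 651, .ofNat 961, .ofNat 288⟩, .ofNat 2431, .ofNat 3319, .ofNat 0, .ofNat 3319, .ofNat 5287, .ofNat 0, .ofNat 128, .negSucc 1262, .negSucc 1408, .ofNat 0, .ofNat 849, .ofNat 901, .ofNat 0, .ofNat 0, .ofNat 1981, .ofNat 405, .ofNat 0, .ofNat 0, .ofNat 0, .ofNat 0, .ofNat 0, .ofNat 456447600599742855447500257678495962546307072, .ofNat 2954700942666234309342024324016571940864,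 .ofNat 0, .ofNat 0, .ofNat 3033057676881673388180490586404877176632508416, .ofNat 1643303825142022920714218949273622413312, .ofNat 818301935341550591733598878772976211335390953472, .ofNat 0, .ofNat 0, .ofNat 0, .ofNat 0⟩)
    (by decide +kernel)
theorem L06160 : Good (Phi V5.P V5.D (-1) (-1)) ⟨6, 56, 4, 11, 2, 2, 2, 3, 4, 2⟩ :=
  out_sound (S := T5.ds_mm) T5.ok_mm (w := 65) (j := 3) (by decide +kernel)
theorem L06161 : Good (Phi V5.P V5.D (-1) (-1)) ⟨7, 114, 5, 22, 2, 2, 2, 3, 4, 2⟩ :=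
  out_sound (S := T5.ds_mm) T5.ok_mm (w := 73) (j := 3) (by decide +kernel)
theorem L06162 : Good (Phi V5.P V5.D (-1) (-1)) ⟨7, 115, 5, 22, 2, 2, 2, 3, 4, 2⟩ :=
  out_sound (S := T5.ds_mm) T5.ok_mm (w := 21) (j := 4) (by decide +kernel)
theorem L06163 : Good (Phi V5.P V5.D (-1) (-1)) ⟨6, 57, 5, 23, 2, 2, 2, 3, 4, 2⟩ :=
  out_sound (S := T5.ds_mm) T5.ok_mm (w := 67) (j := 3) (by decide +kernel)
theorem L06164 : Good (Phi V5.P V5.D (-1) (-1)) ⟨5, 29, 3, 5, 2, 2, 2, 3, 4, 2⟩ :=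
  out_sound (S := T5.ds_mm) T5.ok_mm (w := 17) (j := 4) (by decide +kernel)
theorem L06165 : Good (Phi V5.P V5.D (-1) (-1)) ⟨4, 15, 3, 5, 2, 2, 2, 3, 4, 2⟩ :=
  out_sound (S := T5.ds_mm) T5.ok_mm (w := 51) (j := 3) (by decide +kernel)
theorem L06166 : Good (Phi V5.P V5.D (-1) (-1)) ⟨5, 28, 4, 10, 2, 2, 3, 6, 4, 3⟩ :=
  leafX_sound T5.ok_mm T5.Ymm.bz_eq (w := 219) (c := ⟨⟨.negSucc 2692, .negSucc 216, .ofNat 72, .ofNat 335, .ofNat 353, .ofNat 397⟩, ⟨.ofNat 1703, .ofNat 261, .negSucc 14, .negSucc 222, .negSucc 230, .negSucc 259⟩, ⟨.ofNat 1920, .negSucc 413, .ofNat 191, .negSucc 1220, .negSucc 531, .negSucc 758⟩, ⟨.negSucc 4259, .negSucc 18, .negSucc 23, .ofNat 348, .ofNat 879, .ofNat 915⟩, ⟨.negSucc 685, .ofNat 448, .negSucc 273, .negSucc 204, .ofNat 580, .ofNat 581⟩, .ofNat 393, .ofNat 301, .ofNat 0, .ofNat 301, .ofNat 646, .ofNat 0, .ofNat 128, .negSucc 333, .negSucc 161, .ofNat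 0, .ofNat 271, .ofNat 81, .ofNat 0, .ofNat 0, .ofNat 340, .ofNat 148, .ofNat 0, .ofNat 0, .ofNat 0, .ofNat 0, .ofNat 0, .ofNat 0, .ofNat 0, .ofNat 0, .ofNat 0, .ofNat 281283476738745255696860722598304857026723840, .ofNat 14385691186074746456880163719108100096, .ofNat 83846367611973574627661686464469085176673075200, .ofNat 0, .ofNat 63436208941047533510946960584478537520513024, .ofNat 46657330983523105991846531093799895040, .ofNat 13341997931817555275209706978019766032834494464⟩)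
    (by decide +kernel)
theorem L06167 : Good (Phi V5.P V5.D (-1) (-1)) ⟨5, 28, 4, 10, 2, 2, 3, 7, 4, 3⟩ :=
  leafX_sound T5.ok_mm T5.Ymm.bz_eq (w := 226) (c := ⟨⟨.negSucc 2116, .negSucc 154, .ofNat 92, .ofNat 157, .ofNat 821, .ofNat 253⟩, ⟨.ofNat 1345, .ofNat 157, .negSucc 13, .negSucc 101, .negSucc 528, .negSucc 160⟩, ⟨.ofNat 1058, .ofNat 334, .negSucc 240, .negSucc 1034, .negSucc 875, .negSucc 597⟩, ⟨.negSucc 3087, .negSucc 53, .ofNat 67, .ofNat 161, .ofNat 1587, .ofNat 675⟩, ⟨.negSucc 73, .ofNat 17, .negSucc 58, .negSucc 91, .ofNat 660, .ofNat 491⟩, .ofNat 2438, .ofNat 3330, .ofNat 0, .ofNat 3330, .ofNat 5303, .ofNat 0, .ofNat 128, .negSucc 1890, .negSucc 1206, .ofNat 0, .ofNat 1281, .ofNat 764, .ofNat 0, .ofNat 0, .ofNat 2866, .ofNat 987, .ofNat 0, .ofNat 0, .ofNat 0, .ofNat 0, .ofNat 0, .ofNat 931077643251468836684834243725425121846886400, .ofNat 2654845050087558404725048157137587404800,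 .ofNat 0, .ofNat 0, .ofNat 21370680673836860100701504000449941384753840128, .ofNat 3387618920686280525325556378563933896704, .ofNat 4361478081525752171656055443057744701762289270784, .ofNat 0, .ofNat 0, .ofNat 0, .ofNat 0⟩)
    (by decide +kernel)
theorem L06168 : Good (Phi V5.P V5.D (-1) (-1)) ⟨6, 56, 4, 11, 2, 2, 2, 3, 4, 3⟩ :=
  out_sound (S := T5.ds_mm) T5.ok_mm (w := 65) (j := 3) (by decide +kernel)
theorem L06169 : Good (Phi V5.P V5.D (-1) (-1)) ⟨7, 114, 5, 22, 2, 2, 2, 3, 4, 3⟩ :=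
  out_sound (S := T5.ds_mm) T5.ok_mm (w := 73) (j := 3) (by decide +kernel)
theorem L06170 : Good (Phi V5.P V5.D (-1) (-1)) ⟨7, 115, 5, 22, 2, 2, 2, 3, 4, 3⟩ :=
  out_sound (S := T5.ds_mm) T5.ok_mm (w := 21) (j := 4) (by decide +kernel)
theorem L06171 : Good (Phi V5.P V5.D (-1) (-1)) ⟨6, 57, 5, 23, 2, 2, 2, 3, 4, 3⟩ :=
  out_sound (S := T5.ds_mm) T5.ok_mm (w := 67) (j := 3) (by decide +kernel)
theorem L06172 : Good (Phi V5.P V5.D (-1) (-1)) ⟨5, 29, 3, 5, 2, 2, 2, 3, 4, 3⟩ :=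
  out_sound (S := T5.ds_mm) T5.ok_mm (w := 17) (j := 4) (by decide +kernel)
theorem L06173 : Good (Phi V5.P V5.D (-1) (-1)) ⟨4, 15, 3, 5, 2, 2, 2, 3, 4, 3⟩ :=
  out_sound (S := T5.ds_mm) T5.ok_mm (w := 51) (j := 3) (by decide +kernel)
theorem L06174 : Good (Phi V5.P V5.D (-1) (-1)) ⟨2, 2, 2, 3, 2, 2, 2, 3, 2, 0⟩ :=
  out_sound (S := T5.ds_mm) T5.ok_mm (w := 37) (j := 3) (by decide +kernel)
theorem L06175 : Good (Phi V5.P V5.D (-1) (-1)) ⟨3, 6, 2, 3, 2, 2, 2, 3, 2, 0⟩ :=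
  out_sound (S := T5.ds_mm) T5.ok_mm (w := 43) (j := 3) (by decide +kernel)
theorem L06176 : Good (Phi V5.P V5.D (-1) (-1)) ⟨5, 28, 3, 6, 2, 2, 2, 3, 2, 0⟩ :=
  out_sound (S := T5.ds_mm) T5.ok_mm (w := 57) (j := 3) (by decide +kernel)
theorem L06177 : Good (Phi V5.P V5.D (-1) (-1)) ⟨5, 29, 3, 6, 2, 2, 2, 3, 2, 0⟩ :=
  out_sound (S := T5.ds_mm) T5.ok_mm (w := 17) (j := 4) (by decide +kernel)
theorem L06178 : Good (Phi V5.P V5.D (-1) (-1)) ⟨4, 14, 3, 7, 2, 2, 2, 3, 2, 0⟩ :=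
  out_sound (S := T5.ds_mm) T5.ok_mm (w := 51) (j := 3) (by decide +kernel)
theorem L06179 : Good (Phi V5.P V5.D (-1) (-1)) ⟨4, 15, 2, 3, 2, 2, 2, 3, 2, 0⟩ :=
  out_sound (S := T5.ds_mm) T5.ok_mm (w := 15) (j := 4) (by decide +kernel)
theorem L06180 : Good (Phi V5.P V5.D (-1) (-1)) ⟨2, 2, 3, 4, 3, 6, 2, 2, 3, 0⟩ :=
  out_sound (S := T5.ds_mm) T5.ok_mm (w := 39) (j := 3) (by decide +kernel)
theorem L06181 : Good (Phi V5.P V5.D (-1) (-1)) ⟨4, 12, 4, 8, 3, 6, 2, 2, 3, 0⟩ :=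
  out_sound (S := T5.ds_mm) T5.ok_mm (w := 53) (j := 3) (by decide +kernel)

end Crest.Agent.R097C5.N5mm
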