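import Crest.Agent.R097.KP7
import Crest.Agent.R097.T5Ymm

/-!
# Row 97, box cover in dimension n = 5 (generated)
-/

set_option autoImplicit false
set_option Elab.async false
set_option maxHeartbeats 0
set_option maxRecDepth 100000

open Crest.Agent.R097 Crest.Agent.R097.KA


namespace Crest.Agent.R097C5.N5mm

theorem L06182 : Good (Phi V5.P V5.D (-1) (-1)) ⟨5, 26, 4, 8, 3, 6, 2, 2, 5, 0⟩ :=
  leafX_sound T5.ok_mm T5.Ymm.bz_eq (w := 241) (c := ⟨⟨.ofNat 3020, .ofNat 549, .negSucc 478, .negSucc 779, .negSucc 1396, .negSucc 593⟩, ⟨.negSucc 1616, .negSucc 346, .ofNat 195, .ofNat 462, .ofNat 748, .ofNat 311⟩, ⟨.negSucc 1777, .negSucc 393, .ofNat 432, .ofNat 1162, .ofNat 587, .ofNat 249⟩, ⟨.ofNat 5008, .ofNat 561, .negSucc 459, .negSucc 597, .negSucc 2624, .negSucc 1240⟩, ⟨.ofNat 627, .negSucc 149, .ofNat 335, .ofNat 1025, .negSucc 978, .negSucc 638⟩, .ofNat 2892,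 .ofNat 4556, .ofNat 0, .ofNat 4556, .ofNat 8267, .ofNat 0, .ofNat 128, .negSucc 572, .negSucc 1931, .ofNat 0, .ofNat 329, .ofNat 1062, .ofNat 0, .ofNat 0, .ofNat 1706, .ofNat 1780, .ofNat 0, .ofNat 0, .ofNat 0, .ofNat 0, .ofNat 0, .ofNat 0, .ofNat 10394394639088770756934643665784849580425216, .ofNat 0, .ofNat 0, .ofNat 0, .ofNat 43516942210315571458190462297877080682004480, .ofNat 0, .ofNat 0, .ofNat 0, .ofNat 0, .ofNat 0⟩)
    (by decide +kernel)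
theorem L06183 : Good (Phi V5.P V5.D (-1) (-1)) ⟨5, 26, 4, 8, 3, 6, 2, 2, 5, 1⟩ :=
  leafX_sound T5.ok_mm T5.Ymm.bz_eq (w := 240) (c := ⟨⟨.ofNat 2499, .ofNat 527, .ofNat 254, .negSucc 516, .negSucc 1953, .negSucc 1510⟩, ⟨.negSucc 1344, .negSucc 335, .negSucc 138, .ofNat 303, .ofNat 1062, .ofNat 816⟩, ⟨.negSucc 1344, .negSucc 527, .negSucc 76, .ofNat 756, .ofNat 1042, .ofNat 868⟩, ⟨.ofNat 3879, .ofNat 528, .ofNat 262, .negSucc 375, .negSucc 3315, .negSucc 2648⟩, ⟨.ofNat 171, .negSucc 351, .negSucc 187, .ofNat 700, .negSucc 719, .negSucc 703⟩, .ofNat 2268, .ofNat 3467, .ofNat 0, .ofNat 3467, .ofNat 6354, .ofNat 0, .ofNat 128, .negSucc 474, .negSucc 1847, .ofNat 0, .ofNat 272, .ofNat 1010, .ofNat 0, .ofNat 0, .ofNat 1495, .ofNat 1607, .ofNat 0, .ofNat 0, .ofNat 0, .ofNat 0, .ofNat 0, .ofNat 0, .ofNat 27197693637355483633927811082371382470770688, .ofNat 0, .ofNat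 0, .ofNat 0, .ofNat 32209441151485803773996503328012733381607424, .ofNat 0, .ofNat 0, .ofNat 0, .ofNat 0, .ofNat 0⟩)
    (by decide +kernel)
theorem L06184 : Good (Phi V5.P V5.D (-1) (-1)) ⟨6, 52, 4, 8, 3, 6, 2, 2, 5, 2⟩ :=
  out_sound (S := T5.ds_mm) T5.ok_mm (w := 65) (j := 3) (by decide +kernel)
theorem L06185 : Good (Phi V5.P V5.D (-1) (-1)) ⟨6, 53, 5, 16, 3, 6, 2, 2, 5, 2⟩ :=
  leafX_sound T5.ok_mm T5.Ymm.bz_eq (w := 246) (c := ⟨⟨.ofNat 388, .ofNat 269, .ofNat 43, .ofNat 608, .negSucc 1437, .negSucc 2459⟩, ⟨.negSucc 227, .negSucc 175, .ofNat 20, .negSucc 329, .ofNat 791, .ofNat 1343⟩, ⟨.negSucc 124, .negSucc 255, .negSucc 13, .negSucc 235, .ofNat 787, .ofNat 1458⟩, ⟨.ofNat 49, .ofNat 329, .ofNat 40, .ofNat 1039, .negSucc 2301, .negSucc 4008⟩, ⟨.negSucc 933, .negSucc 160, .negSucc 8, .ofNat 229, .negSucc 272, .negSucc 617⟩, .ofNat 1453, .ofNat 2050, .ofNat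 0, .ofNat 2050, .ofNat 3866, .ofNat 0, .ofNat 128, .negSucc 459, .negSucc 1977, .ofNat 0, .ofNat 265, .ofNat 1066, .ofNat 0, .ofNat 0, .ofNat 1522, .ofNat 1760, .ofNat 0, .ofNat 0, .ofNat 0, .ofNat 0, .ofNat 0, .ofNat 0, .ofNat 10054638364356269147767680874478607873867776, .ofNat 0, .ofNat 0, .ofNat 0, .ofNat 7983870475116865339043549723575899985543168, .ofNat 0, .ofNat 0, .ofNat 0, .ofNat 7076484758219845268688087025429628323889152, .ofNat 0⟩)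
    (by decide +kernel)
theorem L06186 : Good (Phi V5.P V5.D (-1) (-1)) ⟨6, 53, 5, 17, 3, 6, 2, 2, 5, 2⟩ :=
  out_sound (S := T5.ds_mm) T5.ok_mm (w := 67) (j := 3) (by decide +kernel)
theorem L06187 : Good (Phi V5.P V5.D (-1) (-1)) ⟨5, 26, 4, 8, 3, 6, 2, 2, 5, 3⟩ :=
  leafX_sound T5.ok_mm T5.Ymm.bz_eq (w := 242) (c := ⟨⟨.negSucc 3267, .negSucc 26, .ofNat 86, .ofNat 1458, .ofNat 467, .negSucc 474⟩, ⟨.ofNat 1781, .negSucc 11, .ofNat 103, .negSucc 812, .negSucc 255, .ofNat 262⟩, ⟨.ofNat 2156, .negSucc 9, .negSucc 6, .negSucc 963, .negSucc 453, .ofNat 124⟩, ⟨.negSucc 5825, .ofNat 56, .ofNat 74, .ofNat 2048, .ofNat 716, .negSucc 731⟩, ⟨.negSucc 1560, .negSucc 6, .negSucc 1, .negSucc 221, .ofNat 39, .negSucc 43⟩, .ofNat 2898, .ofNat 4562, .ofNat 0, .ofNat 4562, .ofNat 8264, .ofNat 0, .ofNat 128, .negSucc 728, .negSucc 2984, .ofNat 0, .ofNat 422, .ofNat 1650, .ofNat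 0, .ofNat 0, .ofNat 2492, .ofNat 3156, .ofNat 0, .ofNat 0, .ofNat 0, .ofNat 0, .ofNat 0, .ofNat 0, .ofNat 31228578376171545112431018563938772259438592, .ofNat 0, .ofNat 0, .ofNat 0, .ofNat 31860061910730067421176235563541470480695296, .ofNat 0, .ofNat 0, .ofNat 0, .ofNat 30792593452193543965550344157845032586444800, .ofNat 0⟩)
    (by decide +kernel)
theorem L06188 : Good (Phi V5.P V5.D (-1) (-1)) ⟨6, 54, 4, 8, 3, 6, 2, 2, 5, 0⟩ :=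
  leafX_sound T5.ok_mm T5.Ymm.bz_eq (w := 241) (c := ⟨⟨.ofNat 3456, .ofNat 277, .negSucc 287, .negSucc 801, .negSucc 1261, .negSucc 519⟩, ⟨.negSucc 1928, .negSucc 166, .ofNat 79, .ofNat 505, .ofNat 692, .ofNat 270⟩, ⟨.negSucc 2105, .negSucc 197, .ofNat 252, .ofNat 1222, .ofNat 469, .ofNat 184⟩, ⟨.ofNat 5399, .ofNat 346, .negSucc 391, .negSucc 456, .negSucc 2484, .negSucc 1245⟩, ⟨.ofNat 494, .negSucc 28, .ofNat 40, .ofNat 1271, .negSucc 1085, .negSucc 818⟩, .ofNat 1468, .ofNat 2020, .ofNat 0, .ofNat 2020, .ofNat 3687, .ofNat 0, .ofNat 128, .negSucc 414, .negSucc 1012, .ofNat 0, .ofNat 246, .ofNat 563, .ofNat 0, .ofNat 0, .ofNat 886, .ofNat 748, .ofNat 0, .ofNat 0, .ofNat 0, .ofNat 0, .ofNat 0, .ofNat 0, .ofNat 0, .ofNat 0, .ofNat 0, .ofNat 0, .ofNat 6625651772046749787696132801599227954200576, .ofNat 0, .ofNat 0, .ofNat 0, .ofNat 0, .ofNat 0⟩)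
    (by decide +kernel)
theorem L06189 : Good (Phi V5.P V5.D (-1) (-1)) ⟨6, 55, 4, 8, 3, 6, 2, 2, 5, 0⟩ :=
  leafX_sound T5.ok_mm T5.Ymm.bz_eq (w := 242) (c := ⟨⟨.ofNat 3759, .ofNat 382, .negSucc 389, .negSucc 800, .negSucc 1183, .negSucc 483⟩, ⟨.negSucc 2139, .negSucc 274, .ofNat 160, .ofNat 509, .ofNat 679, .ofNat 268⟩, ⟨.negSucc 2319, .negSucc 323, .ofNat 351, .ofNat 1232, .ofNat 408, .ofNat 175⟩, ⟨.ofNat 5749, .ofNat 362, .negSucc 369, .negSucc 456, .negSucc 2313, .negSucc 1227⟩, ⟨.ofNat 456, .negSucc 244, .ofNat 328, .ofNat 1186, .negSucc 979, .negSucc 863⟩, .ofNat 1571, .ofNat 2134, .ofNat 0, .ofNat 2134, .ofNat 3750, .ofNat 0, .ofNat 128, .negSucc 412, .negSucc 1447, .ofNat 0, .ofNat 251, .ofNat 833, .ofNat 0, .ofNat 0, .ofNat 1219, .ofNat 786, .ofNat 0, .ofNat 0, .ofNat 8822473234023197996295533687369367552000, .ofNat 0, .ofNat 0, .ofNat 0, .ofNat 5006037782153251151173456140108055340646400,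 .ofNat 0, .ofNat 0, .ofNat 0, .ofNat 1645204983781507433508921866182259407585280, .ofNat 0, .ofNat 0, .ofNat 0, .ofNat 0, .ofNat 0⟩)
    (by decide +kernel)
theorem L06190 : Good (Phi V5.P V5.D (-1) (-1)) ⟨6, 54, 4, 8, 3, 6, 3, 4, 5, 1⟩ :=
  leafX_sound T5.ok_mm T5.Ymm.bz_eq (w := 245) (c := ⟨⟨.ofNat 3049, .ofNat 195, .negSucc 73, .negSucc 726, .negSucc 703, .negSucc 1282⟩, ⟨.negSucc 1732, .negSucc 130, .ofNat 8, .ofNat 454, .ofNat 400, .ofNat 704⟩, ⟨.negSucc 1960, .negSucc 119, .ofNat 109, .ofNat 1071, .ofNat 306, .ofNat 649⟩, ⟨.ofNat 4293, .ofNat 270, .negSucc 56, .negSucc 400, .negSucc 1180, .negSucc 2482⟩, ⟨.negSucc 401, .ofNat 51, .ofNat 116, .ofNat 1168, .negSucc 251, .negSucc 1022⟩, .ofNat 1468, .ofNat 2022, .ofNat 0, .ofNat 2022, .ofNat 3695, .ofNat 0, .ofNat 128, .negSucc 412, .negSucc 1020, .ofNat 0, .ofNat 244, .ofNat 566, .ofNat 0, .ofNat 0, .ofNat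 820, .ofNat 1026, .ofNat 0, .ofNat 0, .ofNat 0, .ofNat 0, .ofNat 0, .ofNat 0, .ofNat 0, .ofNat 0, .ofNat 0, .ofNat 0, .ofNat 0, .ofNat 0, .ofNat 0, .ofNat 0, .ofNat 44045935227753907178688305209869656047747072, .ofNat 0⟩)
    (by decide +kernel)
theorem L06191 : Good (Phi V5.P V5.D (-1) (-1)) ⟨6, 54, 4, 8, 3, 6, 3, 5, 5, 1⟩ :=
  leafX_sound T5.ok_mm T5.Ymm.bz_eq (w := 246) (c := ⟨⟨.ofNat 2107, .ofNat 103, .ofNat 93, .negSucc 379, .negSucc 1111, .negSucc 1452⟩, ⟨.negSucc 1219, .negSucc 78, .negSucc 40, .ofNat 243, .ofNat 631, .ofNat 809⟩, ⟨.negSucc 1420, .negSucc 25, .negSucc 60, .ofNat 684, .ofNat 631, .ofNat 816⟩, ⟨.ofNat 2922, .ofNat 92, .ofNat 167, .negSucc 198, .negSucc 1930, .negSucc 2610⟩, ⟨.negSucc 360, .negSucc 54, .ofNat 85, .ofNat 624, .negSucc 505, .negSucc 802⟩, .ofNat 1439, .ofNat 1971, .ofNat 0, .ofNat 1971, .ofNat 3603, .ofNat 0, .ofNat 128,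 .negSucc 545, .negSucc 1411, .ofNat 0, .ofNat 322, .ofNat 780, .ofNat 0, .ofNat 0, .ofNat 1096, .ofNat 922, .ofNat 0, .ofNat 0, .ofNat 220557750052595309515721456266415293071360, .ofNat 0, .ofNat 0, .ofNat 0, .ofNat 0, .ofNat 0, .ofNat 0, .ofNat 0, .ofNat 0, .ofNat 0, .ofNat 0, .ofNat 0, .ofNat 88655955422557018758026735066767695514959872, .ofNat 0⟩)
    (by decide +kernel)
theorem L06192 : Good (Phi V5.P V5.D (-1) (-1)) ⟨7, 110, 4, 8, 3, 6, 3, 4, 5, 1⟩ :=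
  leafX_sound T5.ok_mm T5.Ymm.bz_eq (w := 251) (c := ⟨⟨.ofNat 3426, .ofNat 97, .negSucc 316, .negSucc 653, .negSucc 717, .negSucc 1231⟩, ⟨.negSucc 2002, .negSucc 68, .ofNat 142, .ofNat 425, .ofNat 424, .ofNat 709⟩, ⟨.negSucc 2252, .negSucc 56, .ofNat 286, .ofNat 1045, .ofNat 321, .ofNat 641⟩, ⟨.ofNat 4733, .ofNat 139, .negSucc 391, .negSucc 209, .negSucc 1176, .negSucc 2390⟩, ⟨.negSucc 454, .ofNat 42, .ofNat 126, .ofNat 1244, .negSucc 216, .negSucc 992⟩, .ofNat 1569, .ofNat 2132, .ofNat 0, .ofNat 2132, .ofNat 3750, .ofNat 0, .ofNat 128, .negSucc 621, .negSucc 2010, .ofNat 0, .ofNat 378, .ofNat 1158, .ofNat 0, .ofNat 0, .ofNat 1588, .ofNat 970, .ofNat 0, .ofNat 0, .ofNat 0, .ofNat 0, .ofNat 0, .ofNat 0, .ofNat 23279652528075176910196093492194366642454528, .ofNat 0, .ofNat 0, .ofNat 0, .ofNat 0, .ofNat 0, .ofNat 0, .ofNat 0, .ofNat 0, .ofNat 0⟩)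
    (by decide +kernel)
theorem L06193 : Good (Phi V5.P V5.D (-1) (-1)) ⟨7, 110, 5, 16, 3, 6, 3, 5, 5, 1⟩ :=
  out_sound (S := T5.ds_mm) T5.ok_mm (w := 73) (j := 3) (by decide +kernel)
theorem L06194 : Good (Phi V5.P V5.D (-1) (-1)) ⟨7, 110, 5, 17, 3, 6, 3, 5, 5, 1⟩ :=
  leafX_sound T5.ok_mm T5.Ymm.bz_eq (w := 255) (c := ⟨⟨.ofNat 2419, .ofNat 30, .ofNat 3, .negSucc 453, .negSucc 1179, .negSucc 1528⟩, ⟨.negSucc 1438, .negSucc 28, .negSucc 5, .ofNat 289, .ofNat 691, .ofNat 885⟩, ⟨.negSucc 1604, .negSucc 10, .ofNat 7, .ofNat 758, .ofNat 665, .ofNat 859⟩, ⟨.ofNat 3343, .ofNat 60, .negSucc 4, .negSucc 264, .negSucc 1992, .negSucc 2753⟩, ⟨.negSucc 315, .ofNat 50, .negSucc 2, .ofNat 664, .negSucc 461, .negSucc 886⟩, .ofNat 2058, .ofNat 2922, .ofNat 0, .ofNat 2922, .ofNat 5038, .ofNat 0, .ofNat 128, .negSucc 465, .negSucc 1970, .ofNat 0, .ofNat 283, .ofNat 1146, .ofNat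 0, .ofNat 0, .ofNat 1511, .ofNat 1209, .ofNat 0, .ofNat 0, .ofNat 118703594845900119989144672889666095022080, .ofNat 0, .ofNat 0, .ofNat 0, .ofNat 195866341887188877943091262429176585787539456, .ofNat 0, .ofNat 0, .ofNat 0, .ofNat 0, .ofNat 0, .ofNat 0, .ofNat 0, .ofNat 0, .ofNat 0⟩)
    (by decide +kernel)
theorem L06195 : Good (Phi V5.P V5.D (-1) (-1)) ⟨7, 111, 4, 8, 3, 6, 2, 2, 5, 1⟩ :=
  out_sound (S := T5.ds_mm) T5.ok_mm (w := 71) (j := 3) (by decide +kernel)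
theorem L06196 : Good (Phi V5.P V5.D (-1) (-1)) ⟨6, 54, 4, 8, 3, 6, 3, 4, 5, 2⟩ :=
  leafX_sound T5.ok_mm T5.Ymm.bz_eq (w := 247) (c := ⟨⟨.ofNat 642, .ofNat 166, .ofNat 86, .ofNat 404, .negSucc 473, .negSucc 2730⟩, ⟨.negSucc 416, .negSucc 128, .ofNat 46, .negSucc 217, .ofNat 264, .ofNat 1535⟩, ⟨.negSucc 348, .negSucc 157, .ofNat 21, .negSucc 12, .ofNat 200, .ofNat 1574⟩, ⟨.ofNat 400, .ofNat 159, .ofNat 191, .ofNat 849, .negSucc 760, .negSucc 4563⟩, ⟨.negSucc 983, .negSucc 171, .ofNat 192, .ofNat 437, .negSucc 100, .negSucc 932⟩, .ofNat 1559, .ofNat 2176, .ofNat 0, .ofNat 2176, .ofNat 3953, .ofNat 0, .ofNat 128, .negSucc 381, .negSucc 1942, .ofNat 0, .ofNat 226, .ofNat 1088, .ofNat 0, .ofNat 0, .ofNat 1458, .ofNat 1202, .ofNat 0, .ofNat 0, .ofNat 0, .ofNat 0, .ofNat 0, .ofNat 0, .ofNat 4145295059275172034270447018275265857978368, .ofNat 0, .ofNat 0, .ofNat 0,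 .ofNat 154435567880920548753588174921832660534820864, .ofNat 0, .ofNat 0, .ofNat 0, .ofNat 0, .ofNat 0⟩)
    (by decide +kernel)
theorem L06197 : Good (Phi V5.P V5.D (-1) (-1)) ⟨6, 54, 4, 8, 3, 6, 3, 5, 6, 4⟩ :=
  leafX_sound T5.ok_mm T5.Ymm.bz_eq (w := 252) (c := ⟨⟨.negSucc 167, .negSucc 213, .ofNat 506, .ofNat 491, .negSucc 895, .negSucc 1127⟩, ⟨.ofNat 42, .ofNat 93, .negSucc 204, .negSucc 269, .ofNat 508, .ofNat 629⟩, ⟨.ofNat 97, .ofNat 137, .negSucc 318, .negSucc 119, .ofNat 504, .ofNat 641⟩, ⟨.negSucc 853, .negSucc 318, .ofNat 747, .ofNat 909, .negSucc 1527, .negSucc 1907⟩, ⟨.negSucc 1087, .negSucc 16, .ofNat 74, .ofNat 310, .negSucc 348, .negSucc 417⟩, .ofNat 1559, .ofNat 2176, .ofNat 0, .ofNat 2176, .ofNat 3953, .ofNat 0, .ofNat 128, .negSucc 488, .negSucc 1706, .ofNat 0, .ofNat 288, .ofNat 950, .ofNat 0, .ofNat 0, .ofNat 1262, .ofNat 1595, .ofNat 0,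 .ofNat 0, .ofNat 0, .ofNat 0, .ofNat 0, .ofNat 0, .ofNat 0, .ofNat 0, .ofNat 0, .ofNat 0, .ofNat 0, .ofNat 0, .ofNat 0, .ofNat 0, .ofNat 584866827316445003152187905645557722583662592, .ofNat 0⟩)
    (by decide +kernel)
theorem L06198 : Good (Phi V5.P V5.D (-1) (-1)) ⟨6, 54, 4, 8, 3, 6, 3, 5, 6, 5⟩ :=
  leafX_sound T5.ok_mm T5.Ymm.bz_eq (w := 252) (c := ⟨⟨.negSucc 1981, .negSucc 444, .ofNat 631, .ofNat 1170, .negSucc 462, .negSucc 769⟩, ⟨.ofNat 1049, .ofNat 237, .negSucc 232, .negSucc 668, .ofNat 263, .ofNat 430⟩, ⟨.ofNat 1306, .ofNat 273, .negSucc 403, .negSucc 740, .ofNat 244, .ofNat 400⟩, ⟨.negSucc 3749, .negSucc 730, .ofNat 976, .ofNat 1808, .negSucc 744, .negSucc 1286⟩, ⟨.negSucc 1462, .negSucc 203, .ofNat 173, .ofNat 141, .negSucc 97, .negSucc 248⟩, .ofNat 1559, .ofNat 2176, .ofNat 0, .ofNat 2176, .ofNat 3953, .ofNat 0, .ofNat 128, .negSucc 496, .negSucc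 1774, .ofNat 0, .ofNat 294, .ofNat 990, .ofNat 0, .ofNat 0, .ofNat 1310, .ofNat 1643, .ofNat 0, .ofNat 0, .ofNat 0, .ofNat 0, .ofNat 0, .ofNat 0, .ofNat 0, .ofNat 0, .ofNat 0, .ofNat 0, .ofNat 7036867071970231943464754345099928940595642368, .ofNat 0, .ofNat 0, .ofNat 0, .ofNat 0, .ofNat 0⟩)
    (by decide +kernel)
theorem L06199 : Good (Phi V5.P V5.D (-1) (-1)) ⟨7, 110, 4, 8, 3, 6, 2, 2, 6, 4⟩ :=
  leafX_sound T5.ok_mm T5.Ymm.bz_eq (w := 252) (c := ⟨⟨.ofNat 1290, .ofNat 329, .negSucc 347, .ofNat 190, .negSucc 1847, .negSucc 1341⟩, ⟨.negSucc 862, .negSucc 206, .ofNat 295, .negSucc 107, .ofNat 1088, .ofNat 785⟩, ⟨.negSucc 851, .negSucc 256, .ofNat 397, .ofNat 96, .ofNat 977, .ofNat 801⟩, ⟨.ofNat 1229, .ofNat 366, .negSucc 322, .ofNat 601, .negSucc 3029, .negSucc 2220⟩, ⟨.negSucc 1115, .negSucc 180, .ofNat 346, .ofNat 534, .negSucc 577, .negSucc 461⟩, .ofNat 1834,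 .ofNat 2554, .ofNat 0, .ofNat 2554, .ofNat 4445, .ofNat 0, .ofNat 128, .negSucc 354, .negSucc 1875, .ofNat 0, .ofNat 216, .ofNat 1076, .ofNat 0, .ofNat 0, .ofNat 1396, .ofNat 1111, .ofNat 0, .ofNat 0, .ofNat 94934288187843966703011182419902078124032, .ofNat 0, .ofNat 0, .ofNat 0, .ofNat 107342605562763966541065281950721996199297024, .ofNat 0, .ofNat 0, .ofNat 0, .ofNat 0, .ofNat 0, .ofNat 0, .ofNat 0, .ofNat 46031693361914610718253518424579788385550336, .ofNat 0⟩)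
    (by decide +kernel)
theorem L06200 : Good (Phi V5.P V5.D (-1) (-1)) ⟨7, 111, 4, 8, 3, 6, 2, 2, 6, 4⟩ :=
  out_sound (S := T5.ds_mm) T5.ok_mm (w := 71) (j := 3) (by decide +kernel)
theorem L06201 : Good (Phi V5.P V5.D (-1) (-1)) ⟨7, 110, 4, 8, 3, 6, 2, 2, 6, 5⟩ :=
  leafX_sound T5.ok_mm T5.Ymm.bz_eq (w := 252) (c := ⟨⟨.negSucc 1411, .negSucc 85, .ofNat 488, .ofNat 956, .negSucc 1062, .negSucc 1340⟩, ⟨.ofNat 688, .ofNat 39, .negSucc 153, .negSucc 568, .ofNat 628, .ofNat 788⟩, ⟨.ofNat 975, .ofNat 36, .negSucc 283, .negSucc 528, .ofNat 506, .ofNat 785⟩, ⟨.negSucc 2860, .negSucc 186, .ofNat 746, .ofNat 1513, .negSucc 1752, .negSucc 2108⟩, ⟨.negSucc 1377, .negSucc 125, .ofNat 108, .ofNat 185, .negSucc 334, .negSucc 281⟩, .ofNat 1307, .ofNat 1702, .ofNat 0, .ofNat 1702, .ofNat 3047, .ofNat 0, .ofNat 128, .negSucc 425, .negSucc 2454, .ofNat 0, .ofNat 260, .ofNat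 1389, .ofNat 0, .ofNat 0, .ofNat 1784, .ofNat 1362, .ofNat 0, .ofNat 0, .ofNat 221284184076587726157087311573072549511168, .ofNat 0, .ofNat 0, .ofNat 0, .ofNat 39088128290643408417254036329325249536458752, .ofNat 0, .ofNat 0, .ofNat 0, .ofNat 31846763761975869807421753642105718421061632, .ofNat 0, .ofNat 0, .ofNat 0, .ofNat 0, .ofNat 0⟩)
    (by decide +kernel)
theorem L06202 : Good (Phi V5.P V5.D (-1) (-1)) ⟨7, 111, 4, 8, 3, 6, 2, 2, 6, 5⟩ :=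
  out_sound (S := T5.ds_mm) T5.ok_mm (w := 71) (j := 3) (by decide +kernel)
theorem L06203 : Good (Phi V5.P V5.D (-1) (-1)) ⟨5, 27, 4, 8, 3, 6, 2, 2, 5, 3⟩ :=
  leafX_sound T5.ok_mm T5.Ymm.bz_eq (w := 238) (c := ⟨⟨.negSucc 3534, .negSucc 721, .ofNat 508, .ofNat 1673, .ofNat 506, .negSucc 540⟩, ⟨.ofNat 1929, .ofNat 389, .negSucc 140, .negSucc 981, .negSucc 291, .ofNat 315⟩, ⟨.ofNat 2325, .ofNat 455, .negSucc 329, .negSucc 1096, .negSucc 495, .ofNat 141⟩, ⟨.negSucc 6193, .negSucc 1025, .ofNat 729, .ofNat 2462, .ofNat 748, .negSucc 815⟩, ⟨.negSucc 1765, .negSucc 92, .ofNat 57, .ofNat 32, .ofNat 49, .negSucc 39⟩, .ofNat 1502, .ofNat 2056, .ofNat 0, .ofNat 2056, .ofNat 3698, .ofNat 0, .ofNat 128, .negSucc 384, .negSucc 1233, .ofNat 0, .ofNat 232, .ofNat 700, .ofNat 0, .ofNat 0, .ofNat 972, .ofNat 988, .ofNat 0, .ofNat 0, .ofNat 26874416742943341369230239725052038742016,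 .ofNat 0, .ofNat 0, .ofNat 0, .ofNat 0, .ofNat 0, .ofNat 0, .ofNat 0, .ofNat 0, .ofNat 0, .ofNat 0, .ofNat 0, .ofNat 19992225884066953556486959350043311276556288, .ofNat 0⟩)
    (by decide +kernel)
theorem L06204 : Good (Phi V5.P V5.D (-1) (-1)) ⟨3, 7, 4, 8, 3, 6, 2, 2, 3, 0⟩ :=
  out_sound (S := T5.ds_mm) T5.ok_mm (w := 47) (j := 3) (by decide +kernel)
theorem L06205 : Good (Phi V5.P V5.D (-1) (-1)) ⟨4, 12, 4, 9, 4, 12, 2, 2, 4, 0⟩ :=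
  out_sound (S := T5.ds_mm) T5.ok_mm (w := 53) (j := 3) (by decide +kernel)
theorem L06206 : Good (Phi V5.P V5.D (-1) (-1)) ⟨5, 26, 4, 9, 4, 12, 2, 2, 4, 0⟩ :=
  out_sound (S := T5.ds_mm) T5.ok_mm (w := 59) (j := 3) (by decide +kernel)
theorem L06207 : Good (Phi V5.P V5.D (-1) (-1)) ⟨5, 27, 4, 9, 4, 12, 2, 2, 5, 0⟩ :=
  leafX_sound T5.ok_mm T5.Ymm.bz_eq (w := 254) (c := ⟨⟨.ofNat 2915, .ofNat 747, .negSucc 503, .negSucc 321, .negSucc 1194, .negSucc 434⟩, ⟨.negSucc 1720, .negSucc 497, .ofNat 232, .ofNat 207, .ofNat 720, .ofNat 260⟩, ⟨.negSucc 1582, .negSucc 728, .ofNat 543, .ofNat 552, .ofNat 465, .ofNat 174⟩, ⟨.ofNat 4574, .ofNat 926, .negSucc 579, .negSucc 127, .negSucc 2118, .negSucc 1085⟩, ⟨.ofNat 425, .negSucc 50, .ofNat 252, .ofNat 536, .negSucc 632, .negSucc 723⟩, .ofNat 1796, .ofNat 2468, .ofNat 0, .ofNat 2468, .ofNat 4223, .ofNat 0, .ofNat 128, .negSucc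 596, .negSucc 2380, .ofNat 0, .ofNat 373, .ofNat 1416, .ofNat 0, .ofNat 0, .ofNat 2093, .ofNat 1306, .ofNat 0, .ofNat 0, .ofNat 0, .ofNat 0, .ofNat 0, .ofNat 0, .ofNat 0, .ofNat 0, .ofNat 0, .ofNat 0, .ofNat 925647896422610451504210543872850371780706041856, .ofNat 0, .ofNat 0, .ofNat 0, .ofNat 0, .ofNat 0⟩)
    (by decide +kernel)
theorem L06208 : Good (Phi V5.P V5.D (-1) (-1)) ⟨5, 27, 4, 9, 4, 12, 2, 2, 5, 1⟩ :=
  leafX_sound T5.ok_mm T5.Ymm.bz_eq (w := 255) (c := ⟨⟨.ofNat 2697, .ofNat 591, .negSucc 47, .negSucc 167, .negSucc 1893, .negSucc 1311⟩, ⟨.negSucc 1585, .negSucc 454, .ofNat 45, .ofNat 119, .ofNat 1152, .ofNat 791⟩, ⟨.negSucc 1629, .negSucc 488, .ofNat 101, .ofNat 368, .ofNat 1038, .ofNat 775⟩, ⟨.ofNat 3867, .ofNat 678, .negSucc 151, .ofNat 149, .negSucc 3039, .negSucc 2414⟩, ⟨.negSucc 193, .negSucc 94, .negSucc 128, .ofNat 626, .negSucc 499, .negSucc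 840⟩, .ofNat 2480, .ofNat 3557, .ofNat 0, .ofNat 3557, .ofNat 5969, .ofNat 0, .ofNat 128, .negSucc 542, .negSucc 2744, .ofNat 0, .ofNat 337, .ofNat 1650, .ofNat 0, .ofNat 0, .ofNat 2214, .ofNat 833, .ofNat 0, .ofNat 0, .ofNat 575384680122710851084488392128029701286395904, .ofNat 0, .ofNat 0, .ofNat 0, .ofNat 0, .ofNat 0, .ofNat 0, .ofNat 0, .ofNat 435851106183840934710296364047603681467454980096, .ofNat 0, .ofNat 0, .ofNat 0, .ofNat 0, .ofNat 0⟩)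
    (by decide +kernel)
theorem L06209 : Good (Phi V5.P V5.D (-1) (-1)) ⟨6, 56, 5, 18, 4, 12, 2, 2, 4, 0⟩ :=
  out_sound (S := T5.ds_mm) T5.ok_mm (w := 67) (j := 3) (by decide +kernel)
theorem L06210 : Good (Phi V5.P V5.D (-1) (-1)) ⟨6, 56, 5, 19, 4, 12, 2, 2, 5, 0⟩ :=
  leafX_sound T5.ok_mm T5.Ymm.bz_eq (w := 264) (c := ⟨⟨.ofNat 3350, .ofNat 409, .negSucc 185, .negSucc 386, .negSucc 1042, .negSucc 385⟩, ⟨.negSucc 2085, .negSucc 293, .ofNat 87, .ofNat 253, .ofNat 652, .ofNat 235⟩, ⟨.negSucc 1987, .negSucc 367, .ofNat 190, .ofNat 620, .ofNat 335, .ofNat 139⟩, ⟨.ofNat 4998, .ofNat 426, .negSucc 145, .negSucc 151, .negSucc 1891, .negSucc 913⟩, ⟨.ofNat 323, .negSucc 146, .ofNat 184, .ofNat 628, .negSucc 636, .negSucc 564⟩, .ofNat 3976, .ofNat 5786, .ofNat 0, .ofNat 5786, .ofNat 9257, .ofNat 0, .ofNat 128, .negSucc 638, .negSucc 3292, .ofNat 0, .ofNat 410, .ofNat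 2070, .ofNat 0, .ofNat 0, .ofNat 2918, .ofNat 1680, .ofNat 0, .ofNat 0, .ofNat 0, .ofNat 0, .ofNat 0, .ofNat 0, .ofNat 643883066109254798328679019525530664595858915328, .ofNat 0, .ofNat 0, .ofNat 0, .ofNat 541134434104947560746480998433976902664004304896, .ofNat 0, .ofNat 0, .ofNat 0, .ofNat 0, .ofNat 0⟩)
    (by decide +kernel)
theorem L06211 : Good (Phi V5.P V5.D (-1) (-1)) ⟨6, 56, 5, 19, 4, 12, 2, 2, 5, 1⟩ :=
  leafX_sound T5.ok_mm T5.Ymm.bz_eq (w := 265) (c := ⟨⟨.ofNat 3203, .ofNat 258, .negSucc 150, .negSucc 170, .negSucc 1915, .negSucc 1295⟩, ⟨.negSucc 2008, .negSucc 174, .ofNat 72, .ofNat 108, .ofNat 1209, .ofNat 809⟩, ⟨.negSucc 2017, .negSucc 192, .ofNat 160, .ofNat 384, .ofNat 1034, .ofNat 751⟩, ⟨.ofNat 4095, .ofNat 374, .ofNat 23, .ofNat 176, .negSucc 2915, .negSucc 2182⟩, ⟨.negSucc 761, .ofNat 74, .ofNat 393, .ofNat 654, .negSucc 298, .negSucc 531⟩,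 .ofNat 4631, .ofNat 6733, .ofNat 0, .ofNat 6733, .ofNat 10624, .ofNat 0, .ofNat 128, .negSucc 527, .negSucc 3431, .ofNat 0, .ofNat 341, .ofNat 2163, .ofNat 0, .ofNat 0, .ofNat 2729, .ofNat 976, .ofNat 0, .ofNat 0, .ofNat 0, .ofNat 0, .ofNat 0, .ofNat 0, .ofNat 5291655596615575146260942008587145358871734779904, .ofNat 0, .ofNat 0, .ofNat 0, .ofNat 291151784906198846765050082572651060754166841344, .ofNat 0, .ofNat 0, .ofNat 0, .ofNat 0, .ofNat 0⟩)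
    (by decide +kernel)
theorem L06212 : Good (Phi V5.P V5.D (-1) (-1)) ⟨6, 57, 4, 9, 4, 12, 2, 2, 4, 0⟩ :=
  out_sound (S := T5.ds_mm) T5.ok_mm (w := 65) (j := 3) (by decide +kernel)
theorem L06213 : Good (Phi V5.P V5.D (-1) (-1)) ⟨5, 29, 4, 9, 4, 12, 2, 2, 4, 0⟩ :=
  out_sound (S := T5.ds_mm) T5.ok_mm (w := 59) (j := 3) (by decide +kernel)
theorem L06214 : Good (Phi V5.P V5.D (-1) (-1)) ⟨4, 15, 4, 9, 4, 12, 2, 2, 4, 0⟩ :=
  out_sound (S := T5.ds_mm) T5.ok_mm (w := 53) (j := 3) (by decide +kernel)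
theorem L06215 : Good (Phi V5.P V5.D (-1) (-1)) ⟨4, 12, 4, 9, 4, 12, 2, 2, 4, 1⟩ :=
  out_sound (S := T5.ds_mm) T5.ok_mm (w := 53) (j := 3) (by decide +kernel)
theorem L06216 : Good (Phi V5.P V5.D (-1) (-1)) ⟨5, 26, 4, 9, 4, 12, 2, 2, 4, 1⟩ :=
  out_sound (S := T5.ds_mm) T5.ok_mm (w := 59) (j := 3) (by decide +kernel)
theorem L06217 : Good (Phi V5.P V5.D (-1) (-1)) ⟨5, 27, 4, 9, 4, 12, 2, 2, 5, 2⟩ :=
  leafX_sound T5.ok_mm T5.Ymm.bz_eq (w := 253) (c := ⟨⟨.ofNat 947, .ofNat 132, .ofNat 357, .ofNat 596, .negSucc 1930, .negSucc 3121⟩, ⟨.negSucc 587, .negSucc 140, .negSucc 117, .negSucc 360, .ofNat 1185, .ofNat 1896⟩, ⟨.negSucc 609, .negSucc 40, .negSucc 244, .negSucc 337, .ofNat 1159, .ofNat 1964⟩, ⟨.ofNat 705, .ofNat 346, .ofNat 361, .ofNat 919, .negSucc 3025, .negSucc 4931⟩, ⟨.negSucc 1096, .ofNat 262, .negSucc 192, .ofNat 86, .negSucc 386, .negSucc 708⟩, .ofNat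 1792, .ofNat 2457, .ofNat 0, .ofNat 2457, .ofNat 4196, .ofNat 0, .ofNat 128, .negSucc 420, .negSucc 1881, .ofNat 0, .ofNat 262, .ofNat 1121, .ofNat 0, .ofNat 0, .ofNat 1413, .ofNat 1194, .ofNat 0, .ofNat 0, .ofNat 0, .ofNat 0, .ofNat 0, .ofNat 0, .ofNat 0, .ofNat 0, .ofNat 0, .ofNat 0, .ofNat 357686703216890678528765285325507014230095691776, .ofNat 0, .ofNat 0, .ofNat 0, .ofNat 0, .ofNat 0⟩)
    (by decide +kernel)
theorem L06218 : Good (Phi V5.P V5.D (-1) (-1)) ⟨5, 27, 4, 9, 4, 12, 2, 2, 5, 3⟩ :=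
  leafX_sound T5.ok_mm T5.Ymm.bz_eq (w := 255) (c := ⟨⟨.negSucc 3276, .negSucc 626, .ofNat 469, .ofNat 932, .ofNat 556, .negSucc 501⟩, ⟨.ofNat 1949, .ofNat 340, .negSucc 99, .negSucc 572, .negSucc 333, .ofNat 305⟩, ⟨.ofNat 2217, .ofNat 299, .negSucc 247, .negSucc 658, .negSucc 493, .ofNat 128⟩, ⟨.negSucc 5821, .negSucc 677, .ofNat 419, .ofNat 1255, .ofNat 730, .negSucc 732⟩, ⟨.negSucc 1658, .ofNat 168, .negSucc 355, .negSucc 145, .negSucc 93, .negSucc 7⟩, .ofNat 1777, .ofNat 2440, .ofNat 0, .ofNat 2440, .ofNat 4188, .ofNat 0, .ofNat 128, .negSucc 639, .negSucc 3536, .ofNat 0, .ofNat 400, .ofNat 2105, .ofNat 0, .ofNat 0, .ofNat 2778, .ofNat 925, .ofNat 0, .ofNat 0, .ofNat 0, .ofNat 0, .ofNat 0, .ofNat 0, .ofNat 251208106353095476167425039600279510399114543104, .ofNat 0, .ofNat 0, .ofNat 0, .ofNat 709939584221369756887601299000788617014852714496, .ofNat 0, .ofNat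 0, .ofNat 0, .ofNat 0, .ofNat 0⟩)
    (by decide +kernel)
theorem L06219 : Good (Phi V5.P V5.D (-1) (-1)) ⟨6, 56, 4, 9, 4, 12, 2, 2, 5, 2⟩ :=
  leafX_sound T5.ok_mm T5.Ymm.bz_eq (w := 259) (c := ⟨⟨.ofNat 1506, .ofNat 355, .negSucc 459, .ofNat 685, .negSucc 1763, .negSucc 3320⟩, ⟨.negSucc 1053, .negSucc 251, .ofNat 406, .negSucc 440, .ofNat 1121, .ofNat 2091⟩, ⟨.negSucc 889, .negSucc 141, .ofNat 268, .negSucc 397, .ofNat 1017, .ofNat 2033⟩, ⟨.ofNat 1620, .ofNat 574, .negSucc 728, .ofNat 1100, .negSucc 2834, .negSucc 5236⟩, ⟨.negSucc 875, .ofNat 62, .negSucc 22, .ofNat 180, .negSucc 490, .negSucc 810⟩, .ofNat 2055, .ofNat 2808, .ofNat 0, .ofNat 2808, .ofNat 4623, .ofNat 0, .ofNat 128, .negSucc 539, .negSucc 3351, .ofNat 0, .ofNat 345, .ofNat 2068, .ofNat 0, .ofNat 0, .ofNat 2460, .ofNat 998, .ofNat 0, .ofNat 0, .ofNat 977153411930704767610412170232860997064851456,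 .ofNat 0, .ofNat 0, .ofNat 0, .ofNat 412236095909689747126100735935181492182314909696, .ofNat 0, .ofNat 0, .ofNat 0, .ofNat 254682841653651381492580269698344766648918999040, .ofNat 0, .ofNat 0, .ofNat 0, .ofNat 815951494814971487277018085048667356912972464128, .ofNat 0⟩)
    (by decide +kernel)
theorem L06220 : Good (Phi V5.P V5.D (-1) (-1)) ⟨6, 56, 5, 18, 4, 12, 2, 2, 5, 3⟩ :=
  out_sound (S := T5.ds_mm) T5.ok_mm (w := 67) (j := 3) (by decide +kernel)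
theorem L06221 : Good (Phi V5.P V5.D (-1) (-1)) ⟨6, 56, 5, 19, 4, 12, 2, 2, 5, 3⟩ :=
  leafX_sound T5.ok_mm T5.Ymm.bz_eq (w := 265) (c := ⟨⟨.negSucc 3540, .negSucc 605, .ofNat 314, .ofNat 998, .ofNat 485, .negSucc 765⟩, ⟨.ofNat 2167, .ofNat 368, .negSucc 110, .negSucc 633, .negSucc 302, .ofNat 484⟩, ⟨.ofNat 2305, .ofNat 422, .negSucc 219, .negSucc 683, .negSucc 446, .ofNat 296⟩, ⟨.negSucc 5940, .negSucc 767, .ofNat 249, .ofNat 1366, .ofNat 489, .negSucc 1131⟩, ⟨.negSucc 1412, .ofNat 15, .negSucc 257, .negSucc 89, .negSucc 303, .negSucc 62⟩, .ofNat 3906, .ofNat 5688, .ofNat 0, .ofNat 5688, .ofNat 9126, .ofNat 0, .ofNat 128, .negSucc 1079, .negSucc 4430, .ofNat 0, .ofNat 693, .ofNat 2781, .ofNat 0, .ofNat 0, .ofNat 3464, .ofNat 1587, .ofNat 0, .ofNat 0, .ofNat 0, .ofNat 0, .ofNat 0, .ofNat 0, .ofNat 4272975524147679318609399492534341065232609181696, .ofNat 0,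 .ofNat 0, .ofNat 0, .ofNat 0, .ofNat 0, .ofNat 0, .ofNat 0, .ofNat 0, .ofNat 0⟩)
    (by decide +kernel)
theorem L06222 : Good (Phi V5.P V5.D (-1) (-1)) ⟨6, 57, 4, 9, 4, 12, 2, 2, 4, 1⟩ :=
  out_sound (S := T5.ds_mm) T5.ok_mm (w := 65) (j := 3) (by decide +kernel)
theorem L06223 : Good (Phi V5.P V5.D (-1) (-1)) ⟨5, 29, 4, 9, 4, 12, 2, 2, 4, 1⟩ :=
  out_sound (S := T5.ds_mm) T5.ok_mm (w := 59) (j := 3) (by decide +kernel)
theorem L06224 : Good (Phi V5.P V5.D (-1) (-1)) ⟨4, 15, 4, 9, 4, 12, 2, 2, 4, 1⟩ :=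
  out_sound (S := T5.ds_mm) T5.ok_mm (w := 53) (j := 3) (by decide +kernel)
theorem L06225 : Good (Phi V5.P V5.D (-1) (-1)) ⟨4, 12, 5, 18, 4, 13, 2, 2, 4, 0⟩ :=
  out_sound (S := T5.ds_mm) T5.ok_mm (w := 55) (j := 3) (by decide +kernel)
theorem L06226 : Good (Phi V5.P V5.D (-1) (-1)) ⟨5, 26, 5, 18, 4, 13, 2, 2, 4, 0⟩ :=
  out_sound (S := T5.ds_mm) T5.ok_mm (w := 61) (j := 3) (by decide +kernel)
theorem L06227 : Good (Phi V5.P V5.D (-1) (-1)) ⟨6, 54, 5, 18, 4, 13, 2, 2, 4, 0⟩ :=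
  out_sound (S := T5.ds_mm) T5.ok_mm (w := 67) (j := 3) (by decide +kernel)
theorem L06228 : Good (Phi V5.P V5.D (-1) (-1)) ⟨6, 55, 5, 18, 4, 13, 2, 2, 5, 0⟩ :=
  leafX_sound T5.ok_mm T5.Ymm.bz_eq (w := 262) (c := ⟨⟨.ofNat 3062, .ofNat 204, .negSucc 68, .negSucc 351, .negSucc 1230, .negSucc 560⟩, ⟨.negSucc 1815, .negSucc 110, .negSucc 6, .ofNat 219, .ofNat 727, .ofNat 325⟩, ⟨.negSucc 1399, .negSucc 175, .ofNat 119, .ofNat 578, .ofNat 406, .ofNat 201⟩, ⟨.ofNat 5270, .ofNat 154, .negSucc 2, .negSucc 92, .negSucc 2529, .negSucc 1278⟩, ⟨.ofNat 1347, .negSucc 137, .ofNat 127, .ofNat 685, .negSucc 1230, .negSucc 761⟩, .ofNat 2990, .ofNat 4390, .ofNat 0, .ofNat 4390, .ofNat 7342, .ofNat 0, .ofNat 128, .negSucc 475, .negSucc 1767, .ofNat 0, .ofNat 291, .ofNat 1055, .ofNat 0, .ofNat 0, .ofNat 1445, .ofNat 1025, .ofNat 0, .ofNat 0, .ofNat 927378178103079496071615867146790151135428608,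 .ofNat 0, .ofNat 0, .ofNat 0, .ofNat 0, .ofNat 0, .ofNat 0, .ofNat 0, .ofNat 212823452645953111970684340050474015202278899712, .ofNat 0, .ofNat 0, .ofNat 0, .ofNat 0, .ofNat 0⟩)
    (by decide +kernel)
theorem L06229 : Good (Phi V5.P V5.D (-1) (-1)) ⟨6, 55, 5, 18, 4, 13, 2, 2, 5, 1⟩ :=
  leafX_sound T5.ok_mm T5.Ymm.bz_eq (w := 262) (c := ⟨⟨.ofNat 2804, .ofNat 309, .negSucc 157, .negSucc 411, .negSucc 1741, .negSucc 1145⟩, ⟨.negSucc 1687, .negSucc 196, .ofNat 79, .ofNat 263, .ofNat 1044, .ofNat 686⟩, ⟨.negSucc 1399, .negSucc 174, .ofNat 108, .ofNat 513, .ofNat 816, .ofNat 547⟩, ⟨.ofNat 4461, .ofNat 490, .negSucc 317, .negSucc 334, .negSucc 3126, .negSucc 2334⟩, ⟨.ofNat 643, .ofNat 138, .negSucc 149, .ofNat 424, .negSucc 1006, .negSucc 1117⟩, .ofNat 3003, .ofNat 4409, .ofNat 0, .ofNat 4409, .ofNat 7370, .ofNat 0, .ofNat 128, .negSucc 761, .negSucc 2186, .ofNat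 0, .ofNat 467, .ofNat 1306, .ofNat 0, .ofNat 0, .ofNat 1654, .ofNat 1550, .ofNat 0, .ofNat 0, .ofNat 0, .ofNat 0, .ofNat 0, .ofNat 0, .ofNat 402188801328620952387014878127710144697047449600, .ofNat 0, .ofNat 0, .ofNat 0, .ofNat 0, .ofNat 0, .ofNat 0, .ofNat 0, .ofNat 1645603233559217888177255813897389141176914804736, .ofNat 0⟩)
    (by decide +kernel)
theorem L06230 : Good (Phi V5.P V5.D (-1) (-1)) ⟨4, 12, 5, 18, 4, 13, 2, 2, 4, 1⟩ :=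
  out_sound (S := T5.ds_mm) T5.ok_mm (w := 55) (j := 3) (by decide +kernel)
theorem L06231 : Good (Phi V5.P V5.D (-1) (-1)) ⟨5, 26, 5, 18, 4, 13, 2, 2, 4, 1⟩ :=
  out_sound (S := T5.ds_mm) T5.ok_mm (w := 61) (j := 3) (by decide +kernel)
theorem L06232 : Good (Phi V5.P V5.D (-1) (-1)) ⟨5, 27, 5, 18, 4, 13, 2, 2, 5, 2⟩ :=
  leafX_sound T5.ok_mm T5.Ymm.bz_eq (w := 259) (c := ⟨⟨.ofNat 983, .negSucc 315, .ofNat 111, .ofNat 364, .negSucc 1115, .negSucc 2317⟩, ⟨.negSucc 589, .ofNat 140, .negSucc 23, .negSucc 219, .ofNat 671, .ofNat 1388⟩, ⟨.negSucc 340, .ofNat 160, .negSucc 29, .negSucc 118, .ofNat 470, .ofNat 1235⟩, ⟨.ofNat 992, .negSucc 414, .ofNat 144, .ofNat 748, .negSucc 1991, .negSucc 3923⟩, ⟨.negSucc 670, .ofNat 8, .ofNat 16, .ofNat 369, .negSucc 621, .negSucc 957⟩, .ofNat 3009, .ofNat 4417, .ofNat 0, .ofNat 4417, .ofNat 7377, .ofNat 0, .ofNat 128, .negSucc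 779, .negSucc 3037, .ofNat 0, .ofNat 480, .ofNat 1818, .ofNat 0, .ofNat 0, .ofNat 2180, .ofNat 1920, .ofNat 0, .ofNat 0, .ofNat 2133407846362384608470236894084580359840727040, .ofNat 0, .ofNat 0, .ofNat 0, .ofNat 412801234294609711876085868223693221775854796800, .ofNat 0, .ofNat 0, .ofNat 0, .ofNat 0, .ofNat 0, .ofNat 0, .ofNat 0, .ofNat 0, .ofNat 0⟩)
    (by decide +kernel)
theorem L06233 : Good (Phi V5.P V5.D (-1) (-1)) ⟨5, 27, 5, 18, 4, 13, 2, 2, 5, 3⟩ :=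
  leafX_sound T5.ok_mm T5.Ymm.bz_eq (w := 260) (c := ⟨⟨.negSucc 2487, .negSucc 74, .negSucc 54, .ofNat 765, .ofNat 540, .negSucc 632⟩, ⟨.ofNat 1479, .ofNat 0, .ofNat 107, .negSucc 462, .negSucc 325, .ofNat 379⟩, ⟨.ofNat 1670, .negSucc 9, .ofNat 45, .negSucc 443, .negSucc 540, .ofNat 174⟩, ⟨.negSucc 4501, .negSucc 176, .negSucc 87, .ofNat 1011, .ofNat 799, .negSucc 1094⟩, ⟨.negSucc 1390, .negSucc 278, .ofNat 38, .negSucc 148, .ofNat 41, .negSucc 303⟩, .ofNat 4106, .ofNat 6177, .ofNat 0, .ofNat 6177, .ofNat 10210, .ofNat 0, .ofNat 128, .negSucc 617, .negSucc 2745, .ofNat 0, .ofNat 383, .ofNat 1657, .ofNat 0, .ofNat 0, .ofNat 2116, .ofNat 2534, .ofNat 0, .ofNat 0, .ofNat 0, .ofNat 0, .ofNat 0, .ofNat 0, .ofNat 1035810290268635606531524369300246055814567034880, .ofNat 0, .ofNat 0, .ofNat 0, .ofNat 480321145355016314932806237089726928728212111360, .ofNat 0, .ofNat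 0, .ofNat 0, .ofNat 0, .ofNat 0⟩)
    (by decide +kernel)
theorem L06234 : Good (Phi V5.P V5.D (-1) (-1)) ⟨3, 7, 5, 18, 4, 13, 2, 2, 3, 0⟩ :=
  out_sound (S := T5.ds_mm) T5.ok_mm (w := 49) (j := 3) (by decide +kernel)
theorem L06235 : Good (Phi V5.P V5.D (-1) (-1)) ⟨4, 12, 5, 19, 4, 13, 2, 2, 4, 0⟩ :=
  out_sound (S := T5.ds_mm) T5.ok_mm (w := 55) (j := 3) (by decide +kernel)
theorem L06236 : Good (Phi V5.P V5.D (-1) (-1)) ⟨5, 26, 5, 19, 4, 13, 2, 2, 4, 0⟩ :=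
  out_sound (S := T5.ds_mm) T5.ok_mm (w := 61) (j := 3) (by decide +kernel)
theorem L06237 : Good (Phi V5.P V5.D (-1) (-1)) ⟨5, 27, 5, 19, 4, 13, 3, 4, 4, 0⟩ :=
  leafX_sound T5.ok_mm T5.Ymm.bz_eq (w := 261) (c := ⟨⟨.ofNat 3147, .ofNat 52, .ofNat 43, .negSucc 345, .negSucc 550, .negSucc 1316⟩, ⟨.negSucc 1931, .negSucc 30, .negSucc 70, .ofNat 226, .ofNat 335, .ofNat 790⟩, ⟨.negSucc 1623, .ofNat 179, .negSucc 6, .ofNat 564, .ofNat 156, .ofNat 486⟩, ⟨.ofNat 5247, .ofNat 42, .ofNat 120, .negSucc 73, .negSucc 1038, .negSucc 2765⟩, ⟨.ofNat 1036, .ofNat 98, .ofNat 85, .ofNat 679, .negSucc 400, .negSucc 1414⟩, .ofNat 5151, .ofNat 7733, .ofNat 0, .ofNat 7733, .ofNat 12497, .ofNat 0, .ofNat 128, .negSucc 1551, .negSucc 5228, .ofNat 0, .ofNat 971, .ofNat 3222, .ofNat 0, .ofNat 0, .ofNat 4207, .ofNat 4457, .ofNat 0, .ofNat 0, .ofNat 0, .ofNat 0, .ofNat 0, .ofNat 0, .ofNat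 4873973607836517791945761207556302981268162740224, .ofNat 0, .ofNat 0, .ofNat 0, .ofNat 8194084749981662158438236169845255006277188190208, .ofNat 0, .ofNat 0, .ofNat 0, .ofNat 0, .ofNat 0⟩)
    (by decide +kernel)
theorem L06238 : Good (Phi V5.P V5.D (-1) (-1)) ⟨5, 27, 5, 19, 4, 13, 3, 5, 4, 0⟩ :=
  leafX_sound T5.ok_mm T5.Ymm.bz_eq (w := 261) (c := ⟨⟨.ofNat 2473, .ofNat 364, .negSucc 52, .negSucc 314, .negSucc 1026, .negSucc 1731⟩, ⟨.negSucc 1513, .negSucc 235, .ofNat 8, .ofNat 203, .ofNat 628, .ofNat 1054⟩, ⟨.negSucc 1441, .ofNat 30, .negSucc 33, .ofNat 511, .ofNat 505, .ofNat 796⟩, ⟨.ofNat 4029, .ofNat 320, .ofNat 94, .negSucc 273, .negSucc 1729, .negSucc 3008⟩, ⟨.ofNat 529, .negSucc 56, .ofNat 224, .ofNat 289, .negSucc 413, .negSucc 852⟩, .ofNat 6518, .ofNat 9896, .ofNat 0, .ofNat 9896, .ofNat 15923, .ofNat 0, .ofNat 128, .negSucc 1313, .negSucc 3609, .ofNat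 0, .ofNat 822, .ofNat 2226, .ofNat 0, .ofNat 0, .ofNat 2744, .ofNat 3832, .ofNat 0, .ofNat 0, .ofNat 16832105862705255870681245662052781718994157568, .ofNat 0, .ofNat 0, .ofNat 0, .ofNat 5647095384268724055719975387572795894698415751168, .ofNat 0, .ofNat 0, .ofNat 0, .ofNat 621932013997184949535722921340336015905656930304, .ofNat 0, .ofNat 0, .ofNat 0, .ofNat 6320917445053979669090242670826808118189649559552, .ofNat 0⟩)
    (by decide +kernel)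
theorem L06239 : Good (Phi V5.P V5.D (-1) (-1)) ⟨4, 12, 5, 19, 4, 13, 2, 2, 4, 1⟩ :=
  out_sound (S := T5.ds_mm) T5.ok_mm (w := 55) (j := 3) (by decide +kernel)
theorem L06240 : Good (Phi V5.P V5.D (-1) (-1)) ⟨4, 13, 5, 19, 4, 13, 2, 2, 5, 2⟩ :=
  leafX_sound T5.ok_mm T5.Ymm.bz_eq (w := 258) (c := ⟨⟨.ofNat 738, .ofNat 109, .ofNat 223, .ofNat 288, .negSucc 1181, .negSucc 2277⟩, ⟨.negSucc 361, .negSucc 183, .negSucc 91, .negSucc 175, .ofNat 729, .ofNat 1402⟩, ⟨.negSucc 189, .negSucc 52, .negSucc 92, .negSucc 66, .ofNat 497, .ofNat 1190⟩, ⟨.ofNat 403, .ofNat 92, .ofNat 253, .ofNat 563, .negSucc 1816, .negSucc 3416⟩, ⟨.negSucc 1103, .negSucc 41, .negSucc 77, .ofNat 243, .negSucc 201, .negSucc 255⟩, .ofNat 6185, .ofNat 9364, .ofNat 0, .ofNat 9364, .ofNat 15070, .ofNat 0, .ofNat 128, .negSucc 681, .negSucc 3807, .ofNat 0, .ofNat 428, .ofNat 2352, .ofNat 0, .ofNat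 0, .ofNat 2710, .ofNat 2841, .ofNat 0, .ofNat 0, .ofNat 3112856207086725928805734251539452080192225280, .ofNat 0, .ofNat 0, .ofNat 0, .ofNat 0, .ofNat 0, .ofNat 0, .ofNat 0, .ofNat 4967737189280273245365329460083070913143128457216, .ofNat 0, .ofNat 0, .ofNat 0, .ofNat 0, .ofNat 0⟩)
    (by decide +kernel)
theorem L06241 : Good (Phi V5.P V5.D (-1) (-1)) ⟨4, 13, 5, 19, 4, 13, 2, 2, 5, 3⟩ :=
  leafX_sound T5.ok_mm T5.Ymm.bz_eq (w := 260) (c := ⟨⟨.negSucc 1822, .negSucc 793, .negSucc 45, .ofNat 781, .ofNat 553, .negSucc 616⟩, ⟨.ofNat 1211, .ofNat 377, .ofNat 103, .negSucc 484, .negSucc 342, .ofNat 381⟩, ⟨.ofNat 1212, .ofNat 502, .ofNat 21, .negSucc 441, .negSucc 549, .ofNat 155⟩, ⟨.negSucc 4427, .negSucc 389, .negSucc 186, .ofNat 1066, .ofNat 761, .negSucc 866⟩, ⟨.negSucc 1973, .ofNat 227, .negSucc 76, .negSucc 82, .negSucc 46, .ofNat 22⟩, .ofNat 6428, .ofNat 9748,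 .ofNat 0, .ofNat 9748, .ofNat 15678, .ofNat 0, .ofNat 128, .negSucc 1469, .negSucc 6891, .ofNat 0, .ofNat 925, .ofNat 4264, .ofNat 0, .ofNat 0, .ofNat 5203, .ofNat 2127, .ofNat 0, .ofNat 0, .ofNat 6091664110260642612311310105411938555590082560, .ofNat 0, .ofNat 0, .ofNat 0, .ofNat 28643816268956586394043778855757488725594468253696, .ofNat 0, .ofNat 0, .ofNat 0, .ofNat 2364377405516816814406628049381108179582712807424, .ofNat 0, .ofNat 0, .ofNat 0, .ofNat 0, .ofNat 0⟩)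
    (by decide +kernel)
theorem L06242 : Good (Phi V5.P V5.D (-1) (-1)) ⟨5, 28, 5, 19, 4, 13, 2, 2, 5, 0⟩ :=
  leafX_sound T5.ok_mm T5.Ymm.bz_eq (w := 258) (c := ⟨⟨.ofNat 3005, .ofNat 1276, .negSucc 274, .negSucc 244, .negSucc 1136, .negSucc 403⟩, ⟨.negSucc 1850, .negSucc 783, .ofNat 118, .ofNat 162, .ofNat 704, .ofNat 247⟩, ⟨.negSucc 1338, .negSucc 823, .ofNat 216, .ofNat 514, .ofNat 329, .ofNat 101⟩, ⟨.ofNat 5117, .ofNat 1536, .negSucc 207, .ofNat 64, .negSucc 2386, .negSucc 1095⟩, ⟨.ofNat 1295, .negSucc 210, .ofNat 242, .ofNat 659, .negSucc 1194, .negSucc 800⟩, .ofNat 2311, .ofNat 3102, .ofNat 0, .ofNat 3102, .ofNat 4919, .ofNat 0, .ofNat 128, .negSucc 780, .negSucc 2686, .ofNat 0, .ofNat 504, .ofNat 1678, .ofNat 0, .ofNat 0, .ofNat 2118, .ofNat 2952, .ofNat 0, .ofNat 0, .ofNat 6378400761222109406122436502324565828188504064, .ofNat 0, .ofNat 0, .ofNat 0,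 .ofNat 3196333333622951933761126704679438569996856328192, .ofNat 0, .ofNat 0, .ofNat 0, .ofNat 1487507380088080613354090560750863592192101842944, .ofNat 0, .ofNat 0, .ofNat 0, .ofNat 1468962539081081465376324239715138509963165433856, .ofNat 0⟩)
    (by decide +kernel)
theorem L06243 : Good (Phi V5.P V5.D (-1) (-1)) ⟨6, 56, 5, 19, 4, 13, 2, 2, 5, 1⟩ :=
  leafX_sound T5.ok_mm T5.Ymm.bz_eq (w := 263) (c := ⟨⟨.ofNat 2870, .negSucc 68, .ofNat 132, .negSucc 383, .negSucc 1696, .negSucc 1059⟩, ⟨.negSucc 1797, .ofNat 22, .negSucc 95, .ofNat 249, .ofNat 1065, .ofNat 661⟩, ⟨.negSucc 1418, .negSucc 0, .negSucc 23, .ofNat 525, .ofNat 766, .ofNat 494⟩, ⟨.ofNat 4474, .negSucc 249, .ofNat 322, .negSucc 253, .negSucc 3064, .negSucc 2100⟩, ⟨.ofNat 583, .negSucc 179, .ofNat 210, .ofNat 460, .negSucc 1010, .negSucc 921⟩, .ofNat 3017, .ofNat 4252, .ofNat 0, .ofNat 4252, .ofNat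 6801, .ofNat 0, .ofNat 128, .negSucc 661, .negSucc 3178, .ofNat 0, .ofNat 421, .ofNat 1978, .ofNat 0, .ofNat 0, .ofNat 2301, .ofNat 1455, .ofNat 0, .ofNat 0, .ofNat 799468129254766536293577480700200636345483264, .ofNat 0, .ofNat 0, .ofNat 0, .ofNat 345796712720893816148886744579539008560471998464, .ofNat 0, .ofNat 0, .ofNat 0, .ofNat 238544538118104571248097033144638934421631664128, .ofNat 0, .ofNat 0, .ofNat 0, .ofNat 0, .ofNat 0⟩)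
    (by decide +kernel)
theorem L06244 : Good (Phi V5.P V5.D (-1) (-1)) ⟨6, 57, 5, 19, 4, 13, 2, 2, 5, 1⟩ :=
  out_sound (S := T5.ds_mm) T5.ok_mm (w := 67) (j := 3) (by decide +kernel)
theorem L06245 : Good (Phi V5.P V5.D (-1) (-1)) ⟨5, 29, 5, 19, 4, 13, 2, 2, 4, 0⟩ :=
  out_sound (S := T5.ds_mm) T5.ok_mm (w := 61) (j := 3) (by decide +kernel)
theorem L06246 : Good (Phi V5.P V5.D (-1) (-1)) ⟨6, 56, 5, 19, 4, 13, 2, 2, 5, 2⟩ :=
  leafX_sound T5.ok_mm T5.Ymm.bz_eq (w := 264) (c := ⟨⟨.ofNat 810, .negSucc 490, .ofNat 494, .ofNat 269, .negSucc 1051, .negSucc 2539⟩, ⟨.negSucc 537, .ofNat 291, .negSucc 277, .negSucc 165, .ofNat 663, .ofNat 1589⟩, ⟨.negSucc 222, .ofNat 344, .negSucc 301, .negSucc 44, .ofNat 405, .ofNat 1360⟩, ⟨.ofNat 951, .negSucc 592, .ofNat 604, .ofNat 470, .negSucc 1924, .negSucc 4345⟩, ⟨.negSucc 334, .ofNat 121, .negSucc 105, .ofNat 135, .negSucc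 666, .negSucc 1157⟩, .ofNat 3939, .ofNat 5736, .ofNat 0, .ofNat 5736, .ofNat 9196, .ofNat 0, .ofNat 128, .negSucc 536, .negSucc 2783, .ofNat 0, .ofNat 341, .ofNat 1737, .ofNat 0, .ofNat 0, .ofNat 1932, .ofNat 1792, .ofNat 0, .ofNat 0, .ofNat 2980080291028491359459477378418554395303084032, .ofNat 0, .ofNat 0, .ofNat 0, .ofNat 583659851790946545144534685754318542750802247680, .ofNat 0, .ofNat 0, .ofNat 0, .ofNat 773986320293509464748986472093319067209465593856, .ofNat 0, .ofNat 0, .ofNat 0, .ofNat 1375683112630480071265683101871980292201301147648, .ofNat 0⟩)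
    (by decide +kernel)
theorem L06247 : Good (Phi V5.P V5.D (-1) (-1)) ⟨6, 56, 5, 19, 4, 13, 2, 2, 5, 3⟩ :=
  leafX_sound T5.ok_mm T5.Ymm.bz_eq (w := 263) (c := ⟨⟨.negSucc 2680, .negSucc 349, .ofNat 286, .ofNat 859, .ofNat 577, .negSucc 797⟩, ⟨.ofNat 1633, .ofNat 195, .negSucc 108, .negSucc 541, .negSucc 359, .ofNat 503⟩, ⟨.ofNat 1760, .ofNat 174, .negSucc 161, .negSucc 487, .negSucc 568, .ofNat 252⟩, ⟨.negSucc 4968, .negSucc 520, .ofNat 510, .ofNat 1322, .ofNat 762, .negSucc 1341⟩, ⟨.negSucc 1836, .negSucc 118, .ofNat 217, .ofNat 155, .negSucc 65, .negSucc 315⟩, .ofNat 2064, .ofNat 2819, .ofNat 0, .ofNat 2819, .ofNat 4638, .ofNat 0, .ofNat 128, .negSucc 784, .negSucc 3785, .ofNat 0, .ofNat 499, .ofNat 2329, .ofNat 0, .ofNat 0, .ofNat 2730, .ofNat 1858, .ofNat 0, .ofNat 0, .ofNat 860181314331029973830767389267418440454373376, .ofNat 0, .ofNat 0, .ofNat 0,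 .ofNat 1186379924552661276794273395315141929854056792064, .ofNat 0, .ofNat 0, .ofNat 0, .ofNat 424497657488344907047271298287174600408153718784, .ofNat 0, .ofNat 0, .ofNat 0, .ofNat 0, .ofNat 0⟩)
    (by decide +kernel)
theorem L06248 : Good (Phi V5.P V5.D (-1) (-1)) ⟨6, 57, 5, 19, 4, 13, 2, 2, 4, 1⟩ :=
  out_sound (S := T5.ds_mm) T5.ok_mm (w := 67) (j := 3) (by decide +kernel)
theorem L06249 : Good (Phi V5.P V5.D (-1) (-1)) ⟨5, 29, 5, 19, 4, 13, 2, 2, 4, 1⟩ :=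
  out_sound (S := T5.ds_mm) T5.ok_mm (w := 61) (j := 3) (by decide +kernel)
theorem L06250 : Good (Phi V5.P V5.D (-1) (-1)) ⟨4, 15, 5, 19, 4, 13, 2, 2, 3, 0⟩ :=
  out_sound (S := T5.ds_mm) T5.ok_mm (w := 55) (j := 3) (by decide +kernel)
theorem L06251 : Good (Phi V5.P V5.D (-1) (-1)) ⟨2, 2, 4, 8, 3, 7, 2, 2, 4, 0⟩ :=
  out_sound (S := T5.ds_mm) T5.ok_mm (w := 41) (j := 3) (by decide +kernel)
theorem L06252 : Good (Phi V5.P V5.D (-1) (-1)) ⟨4, 12, 4, 8, 3, 7, 2, 2, 4, 0⟩ :=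
  out_sound (S := T5.ds_mm) T5.ok_mm (w := 53) (j := 3) (by decide +kernel)
theorem L06253 : Good (Phi V5.P V5.D (-1) (-1)) ⟨5, 26, 4, 8, 3, 7, 2, 2, 5, 0⟩ :=
  leafX_sound T5.ok_mm T5.Ymm.bz_eq (w := 239) (c := ⟨⟨.ofNat 2797, .ofNat 108, .ofNat 80, .negSucc 1264, .negSucc 1544, .negSucc 814⟩, ⟨.negSucc 1461, .negSucc 85, .negSucc 87, .ofNat 697, .ofNat 808, .ofNat 426⟩, ⟨.negSucc 638, .negSucc 278, .ofNat 291, .ofNat 1192, .ofNat 497, .ofNat 246⟩, ⟨.ofNat 5567, .negSucc 5, .ofNat 259, .negSucc 1944, .negSucc 3303, .negSucc 1757⟩, ⟨.ofNat 2456, .negSucc 235, .ofNat 241, .negSucc 105, .negSucc 1798, .negSucc 976⟩, .ofNat 2255, .ofNat 3444, .ofNat 0, .ofNat 3444, .ofNat 6312, .ofNat 0, .ofNat 128, .negSucc 676, .negSucc 1112, .ofNat 0, .ofNat 376, .ofNat 596, .ofNat 0, .ofNat 0, .ofNat 857, .ofNat 1836, .ofNat 0, .ofNat 0, .ofNat 0, .ofNat 0, .ofNat 0, .ofNat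 0, .ofNat 60209870244829673583056164295632697558040576, .ofNat 0, .ofNat 0, .ofNat 0, .ofNat 81744519411453779906053917999500253280075776, .ofNat 0, .ofNat 0, .ofNat 0, .ofNat 28540119094577638819915467916314231978328064, .ofNat 0⟩)
    (by decide +kernel)
theorem L06254 : Good (Phi V5.P V5.D (-1) (-1)) ⟨5, 26, 4, 8, 3, 7, 2, 2, 5, 1⟩ :=
  leafX_sound T5.ok_mm T5.Ymm.bz_eq (w := 239) (c := ⟨⟨.ofNat 2077, .negSucc 28, .ofNat 47, .negSucc 1328, .negSucc 1390, .negSucc 1082⟩, ⟨.negSucc 1109, .ofNat 7, .negSucc 4, .ofNat 728, .ofNat 731, .ofNat 571⟩, ⟨.negSucc 592, .ofNat 25, .ofNat 164, .ofNat 1074, .ofNat 447, .ofNat 389⟩, ⟨.ofNat 3585, .ofNat 58, .ofNat 179, .negSucc 2121, .negSucc 2832, .negSucc 2137⟩, ⟨.ofNat 867, .ofNat 201, .ofNat 222, .negSucc 253, .negSucc 1366, .negSucc 949⟩, .ofNat 2260, .ofNat 3451, .ofNat 0, .ofNat 3451, .ofNat 6323, .ofNat 0, .ofNat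 128, .negSucc 438, .negSucc 1224, .ofNat 0, .ofNat 245, .ofNat 657, .ofNat 0, .ofNat 0, .ofNat 890, .ofNat 2004, .ofNat 0, .ofNat 0, .ofNat 0, .ofNat 0, .ofNat 0, .ofNat 0, .ofNat 38134797197612118479043677120176018558025728, .ofNat 0, .ofNat 0, .ofNat 0, .ofNat 34467660542551845835448033543995851116904448, .ofNat 0, .ofNat 0, .ofNat 0, .ofNat 17253979390055673838301113800055038939234304, .ofNat 0⟩)
    (by decide +kernel)
theorem L06255 : Good (Phi V5.P V5.D (-1) (-1)) ⟨5, 27, 5, 16, 3, 7, 2, 2, 5, 0⟩ :=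
  leafX_sound T5.ok_mm T5.Ymm.bz_eq (w := 241) (c := ⟨⟨.ofNat 2988, .ofNat 457, .negSucc 137, .negSucc 1235, .negSucc 1640, .negSucc 772⟩, ⟨.negSucc 1605, .negSucc 239, .ofNat 41, .ofNat 703, .ofNat 873, .ofNat 411⟩, ⟨.negSucc 911, .negSucc 237, .ofNat 79, .ofNat 1186, .ofNat 530, .ofNat 253⟩, ⟨.ofNat 5760, .ofNat 737, .negSucc 263, .negSucc 1985, .negSucc 3458, .negSucc 1579⟩, ⟨.ofNat 2378, .ofNat 200, .negSucc 128, .negSucc 284, .negSucc 1832, .negSucc 772⟩, .ofNat 2085, .ofNat 3057, .ofNat 0, .ofNat 3057, .ofNat 5457, .ofNat 0, .ofNat 128, .negSucc 691, .negSucc 835, .ofNat 0, .ofNat 393, .ofNat 457, .ofNat 0, .ofNat 0, .ofNat 619, .ofNat 843, .ofNat 0, .ofNat 0, .ofNat 0, .ofNat 0, .ofNat 0, .ofNat 0, .ofNat 33752166334343026901415380846297126461767680, .ofNat 0, .ofNat 0, .ofNat 0, .ofNat 0, .ofNat 0, .ofNat 0, .ofNat 0, .ofNat 11069566794173296061228993849354781936582656,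 .ofNat 0⟩)
    (by decide +kernel)
theorem L06256 : Good (Phi V5.P V5.D (-1) (-1)) ⟨5, 27, 5, 17, 3, 7, 2, 2, 5, 0⟩ :=
  leafX_sound T5.ok_mm T5.Ymm.bz_eq (w := 242) (c := ⟨⟨.ofNat 2608, .ofNat 744, .negSucc 11, .negSucc 1028, .negSucc 1743, .negSucc 675⟩, ⟨.negSucc 1461, .negSucc 413, .negSucc 22, .ofNat 605, .ofNat 971, .ofNat 372⟩, ⟨.negSucc 687, .negSucc 352, .ofNat 41, .ofNat 1064, .ofNat 543, .ofNat 193⟩, ⟨.ofNat 5379, .ofNat 970, .ofNat 80, .negSucc 1700, .negSucc 3797, .negSucc 1508⟩, ⟨.ofNat 2627, .negSucc 75, .ofNat 134, .negSucc 332, .negSucc 2132, .negSucc 880⟩, .ofNat 2480, .ofNat 3649, .ofNat 0, .ofNat 3649, .ofNat 6306, .ofNat 0, .ofNat 128, .negSucc 808, .negSucc 1083, .ofNat 0, .ofNat 471, .ofNat 615, .ofNat 0, .ofNat 0, .ofNat 786, .ofNat 1053, .ofNat 0, .ofNat 0, .ofNat 0, .ofNat 0, .ofNat 0, .ofNat 0, .ofNat 47067570001844002368896124519974345226846208,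 .ofNat 0, .ofNat 0, .ofNat 0, .ofNat 0, .ofNat 0, .ofNat 0, .ofNat 0, .ofNat 16652495663254603634912189910436565802287104, .ofNat 0⟩)
    (by decide +kernel)
theorem L06257 : Good (Phi V5.P V5.D (-1) (-1)) ⟨5, 27, 5, 16, 3, 7, 3, 4, 5, 1⟩ :=
  leafX_sound T5.ok_mm T5.Ymm.bz_eq (w := 245) (c := ⟨⟨.ofNat 2272, .ofNat 223, .ofNat 24, .negSucc 1482, .negSucc 653, .negSucc 1312⟩, ⟨.negSucc 1235, .negSucc 114, .negSucc 35, .ofNat 841, .ofNat 349, .ofNat 700⟩, ⟨.negSucc 737, .negSucc 87, .ofNat 26, .ofNat 1281, .ofNat 202, .ofNat 493⟩, ⟨.ofNat 4011, .ofNat 348, .ofNat 34, .negSucc 2220, .negSucc 1296, .negSucc 2624⟩, ⟨.ofNat 1159, .ofNat 92, .negSucc 6, .negSucc 66, .negSucc 586, .negSucc 1218⟩, .ofNat 2554, .ofNat 3855, .ofNat 0, .ofNat 3855, .ofNat 6819, .ofNat 0, .ofNat 128, .negSucc 454, .negSucc 571, .ofNat 0, .ofNat 260, .ofNat 314, .ofNat 0, .ofNat 0, .ofNat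 418, .ofNat 907, .ofNat 0, .ofNat 0, .ofNat 0, .ofNat 0, .ofNat 0, .ofNat 0, .ofNat 1002725138767668942535859891053814188896944128, .ofNat 0, .ofNat 0, .ofNat 0, .ofNat 0, .ofNat 0, .ofNat 0, .ofNat 0, .ofNat 95503408572070914388275653275088111435513856, .ofNat 0⟩)
    (by decide +kernel)
theorem L06258 : Good (Phi V5.P V5.D (-1) (-1)) ⟨5, 27, 5, 16, 3, 7, 3, 5, 5, 1⟩ :=
  leafX_sound T5.ok_mm T5.Ymm.bz_eq (w := 245) (c := ⟨⟨.ofNat 1067, .negSucc 163, .ofNat 67, .negSucc 1074, .negSucc 669, .negSucc 774⟩, ⟨.negSucc 596, .ofNat 65, .negSucc 16, .ofNat 599, .ofNat 358, .ofNat 409⟩, ⟨.negSucc 86, .ofNat 35, .ofNat 13, .ofNat 840, .ofNat 177, .ofNat 175⟩, ⟨.ofNat 1919, .negSucc 353, .ofNat 162, .negSucc 1870, .negSucc 1476, .negSucc 1686⟩, ⟨.ofNat 585, .negSucc 191, .ofNat 120, .negSucc 498, .negSucc 844, .negSucc 945⟩, .ofNat 1400, .ofNat 1908, .ofNat 0, .ofNat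 1908, .ofNat 3507, .ofNat 0, .ofNat 128, .negSucc 401, .negSucc 1524, .ofNat 0, .ofNat 225, .ofNat 810, .ofNat 0, .ofNat 0, .ofNat 1002, .ofNat 1776, .ofNat 0, .ofNat 0, .ofNat 1282883364452529982443069332599826336972800, .ofNat 0, .ofNat 0, .ofNat 0, .ofNat 127450660110509468723208846832444397471137792, .ofNat 0, .ofNat 0, .ofNat 0, .ofNat 160548808620608240118145139950105243164868608, .ofNat 0, .ofNat 0, .ofNat 0, .ofNat 651447439398131189284594338781280792498667520, .ofNat 0⟩)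
    (by decide +kernel)
theorem L06259 : Good (Phi V5.P V5.D (-1) (-1)) ⟨5, 27, 5, 17, 3, 7, 3, 4, 5, 1⟩ :=
  leafX_sound T5.ok_mm T5.Ymm.bz_eq (w := 246) (c := ⟨⟨.ofNat 2334, .negSucc 57, .ofNat 186, .negSucc 1445, .negSucc 654, .negSucc 1262⟩, ⟨.negSucc 1322, .ofNat 17, .negSucc 114, .ofNat 846, .ofNat 367, .ofNat 706⟩, ⟨.negSucc 694, .negSucc 3, .negSucc 46, .ofNat 1255, .ofNat 192, .ofNat 448⟩, ⟨.ofNat 4302, .negSucc 127, .ofNat 348, .negSucc 2251, .negSucc 1378, .negSucc 2686⟩, ⟨.ofNat 1507, .negSucc 35, .ofNat 130, .negSucc 239, .negSucc 720, .negSucc 1436⟩, .ofNat 2500, .ofNat 3687, .ofNat 0, .ofNat 3687, .ofNat 6379, .ofNat 0, .ofNat 128, .negSucc 677, .negSucc 936, .ofNat 0, .ofNat 396, .ofNat 530, .ofNat 0, .ofNat 0, .ofNat 656, .ofNat 1648, .ofNat 0, .ofNat 0, .ofNat 0, .ofNat 0, .ofNat 0, .ofNat 0, .ofNat 808393064199878924661458995197056297262383104,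 .ofNat 0, .ofNat 0, .ofNat 0, .ofNat 0, .ofNat 0, .ofNat 0, .ofNat 0, .ofNat 163467624611687056741903477828932980130709504, .ofNat 0⟩)
    (by decide +kernel)
theorem L06260 : Good (Phi V5.P V5.D (-1) (-1)) ⟨6, 54, 5, 17, 3, 7, 3, 5, 5, 1⟩ :=
  leafX_sound T5.ok_mm T5.Ymm.bz_eq (w := 250) (c := ⟨⟨.ofNat 1228, .negSucc 130, .ofNat 72, .negSucc 1110, .negSucc 692, .negSucc 787⟩, ⟨.negSucc 695, .ofNat 64, .negSucc 22, .ofNat 636, .ofNat 383, .ofNat 434⟩, ⟨.negSucc 186, .ofNat 111, .negSucc 16, .ofNat 886, .ofNat 184, .ofNat 186⟩, ⟨.ofNat 2176, .negSucc 179, .ofNat 89, .negSucc 1901, .negSucc 1517, .negSucc 1712⟩, ⟨.ofNat 623, .ofNat 27, .negSucc 13, .negSucc 458, .negSucc 850, .negSucc 949⟩, .ofNat 1559, .ofNat 2156, .ofNat 0, .ofNat 2156, .ofNat 3877, .ofNat 0, .ofNat 128, .negSucc 744, .negSucc 2001, .ofNat 0, .ofNat 424, .ofNat 1092, .ofNat 0, .ofNat 0, .ofNat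 1291, .ofNat 1528, .ofNat 0, .ofNat 0, .ofNat 0, .ofNat 0, .ofNat 0, .ofNat 0, .ofNat 278846939726819818022849154480255916214059008, .ofNat 0, .ofNat 0, .ofNat 0, .ofNat 0, .ofNat 0, .ofNat 0, .ofNat 0, .ofNat 0, .ofNat 0⟩)
    (by decide +kernel)
theorem L06261 : Good (Phi V5.P V5.D (-1) (-1)) ⟨6, 55, 5, 17, 3, 7, 3, 5, 5, 1⟩ :=
  leafX_sound T5.ok_mm T5.Ymm.bz_eq (w := 250) (c := ⟨⟨.ofNat 1330, .ofNat 132, .ofNat 21, .negSucc 1200, .negSucc 829, .negSucc 862⟩, ⟨.negSucc 779, .negSucc 90, .ofNat 1, .ofNat 704, .ofNat 470, .ofNat 485⟩, ⟨.negSucc 236, .negSucc 78, .ofNat 20, .ofNat 974, .ofNat 260, .ofNat 227⟩, ⟨.ofNat 2353, .ofNat 222, .ofNat 39, .negSucc 2004, .negSucc 1732, .negSucc 1853⟩, ⟨.ofNat 691, .ofNat 62, .ofNat 24, .negSucc 433, .negSucc 879, .negSucc 1007⟩, .ofNat 1997, .ofNat 2790, .ofNat 0, .ofNat 2790, .ofNat 4771, .ofNat 0, .ofNat 128, .negSucc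 368, .negSucc 1225, .ofNat 0, .ofNat 217, .ofNat 693, .ofNat 0, .ofNat 0, .ofNat 787, .ofNat 1772, .ofNat 0, .ofNat 0, .ofNat 429938191126962470226075160481042953928704, .ofNat 0, .ofNat 0, .ofNat 0, .ofNat 152531316557390784051876897866374135483990016, .ofNat 0, .ofNat 0, .ofNat 0, .ofNat 62784291113359116800877533511731192050745344, .ofNat 0, .ofNat 0, .ofNat 0, .ofNat 125635796570399195756361405570285892102258688, .ofNat 0⟩)
    (by decide +kernel)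
theorem L06262 : Good (Phi V5.P V5.D (-1) (-1)) ⟨3, 7, 4, 8, 3, 7, 2, 2, 4, 0⟩ :=
  out_sound (S := T5.ds_mm) T5.ok_mm (w := 47) (j := 3) (by decide +kernel)
theorem L06263 : Good (Phi V5.P V5.D (-1) (-1)) ⟨2, 2, 4, 8, 3, 7, 2, 2, 4, 1⟩ :=
  out_sound (S := T5.ds_mm) T5.ok_mm (w := 41) (j := 3) (by decide +kernel)
theorem L06264 : Good (Phi V5.P V5.D (-1) (-1)) ⟨4, 12, 4, 8, 3, 7, 2, 2, 5, 2⟩ :=
  out_sound (S := T5.ds_mm) T5.ok_mm (w := 53) (j := 3) (by decide +kernel)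
theorem L06265 : Good (Phi V5.P V5.D (-1) (-1)) ⟨5, 26, 4, 8, 3, 7, 3, 4, 5, 2⟩ :=
  leafX_sound T5.ok_mm T5.Ymm.bz_eq (w := 246) (c := ⟨⟨.ofNat 416, .negSucc 215, .ofNat 196, .negSucc 727, .negSucc 75, .negSucc 1279⟩, ⟨.negSucc 211, .ofNat 83, .negSucc 43, .ofNat 403, .ofNat 37, .ofNat 679⟩, ⟨.ofNat 184, .ofNat 104, .negSucc 72, .ofNat 626, .negSucc 84, .ofNat 470⟩, ⟨.ofNat 429, .negSucc 342, .ofNat 64, .negSucc 1087, .negSucc 250, .negSucc 2474⟩, ⟨.negSucc 266, .negSucc 129, .negSucc 327, .negSucc 0, .negSucc 245, .negSucc 1022⟩, .ofNat 2831, .ofNat 4443, .ofNat 0, .ofNat 4443, .ofNat 8054, .ofNat 0, .ofNat 128, .negSucc 561, .negSucc 2648, .ofNat 0, .ofNat 316, .ofNat 1427, .ofNat 0, .ofNat 0, .ofNat 1980, .ofNat 3045, .ofNat 0, .ofNat 0, .ofNat 63228978759998442627744248130161017356288, .ofNat 0, .ofNat 0, .ofNat 0, .ofNat 575528685004382827490916562317517512524169216,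 .ofNat 0, .ofNat 0, .ofNat 0, .ofNat 409046611737297172614213390983995916048924672, .ofNat 0, .ofNat 0, .ofNat 0, .ofNat 0, .ofNat 0⟩)
    (by decide +kernel)
theorem L06266 : Good (Phi V5.P V5.D (-1) (-1)) ⟨5, 26, 5, 16, 3, 7, 3, 5, 5, 2⟩ :=
  leafX_sound T5.ok_mm T5.Ymm.bz_eq (w := 249) (c := ⟨⟨.negSucc 371, .negSucc 251, .ofNat 61, .negSucc 138, .negSucc 55, .negSucc 601⟩, ⟨.ofNat 215, .ofNat 97, .ofNat 10, .ofNat 80, .ofNat 25, .ofNat 317⟩, ⟨.ofNat 518, .ofNat 136, .negSucc 3, .ofNat 232, .negSucc 120, .ofNat 108⟩, ⟨.negSucc 1101, .negSucc 336, .ofNat 48, .negSucc 164, .negSucc 200, .negSucc 1198⟩, ⟨.negSucc 922, .negSucc 2, .negSucc 36, .ofNat 78, .negSucc 210, .negSucc 546⟩, .ofNat 2852, .ofNat 4482, .ofNat 0, .ofNat 4482, .ofNat 8127, .ofNat 0, .ofNat 128, .negSucc 690, .negSucc 3228, .ofNat 0, .ofNat 387, .ofNat 1741, .ofNat 0, .ofNat 0, .ofNat 2350,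 .ofNat 2394, .ofNat 0, .ofNat 0, .ofNat 0, .ofNat 0, .ofNat 0, .ofNat 0, .ofNat 675376231739102192789197797008543999238078464, .ofNat 0, .ofNat 0, .ofNat 0, .ofNat 371873853243463102420123135929921959744241664, .ofNat 0, .ofNat 0, .ofNat 0, .ofNat 0, .ofNat 0⟩)
    (by decide +kernel)
theorem L06267 : Good (Phi V5.P V5.D (-1) (-1)) ⟨5, 26, 5, 17, 3, 7, 3, 5, 5, 2⟩ :=
  out_sound (S := T5.ds_mm) T5.ok_mm (w := 61) (j := 3) (by decide +kernel)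
theorem L06268 : Good (Phi V5.P V5.D (-1) (-1)) ⟨5, 27, 4, 8, 3, 7, 3, 4, 6, 4⟩ :=
  leafX_sound T5.ok_mm T5.Ymm.bz_eq (w := 247) (c := ⟨⟨.ofNat 457, .negSucc 327, .ofNat 286, .negSucc 1023, .negSucc 229, .negSucc 637⟩, ⟨.negSucc 291, .ofNat 162, .negSucc 110, .ofNat 583, .ofNat 123, .ofNat 352⟩, ⟨.ofNat 114, .ofNat 205, .negSucc 69, .ofNat 852, .negSucc 32, .ofNat 209⟩, ⟨.ofNat 765, .negSucc 688, .ofNat 561, .negSucc 1687, .negSucc 662, .negSucc 1465⟩, ⟨.ofNat 159, .negSucc 398, .ofNat 292, .negSucc 332, .negSucc 559, .negSucc 917⟩, .ofNat 2007, .ofNat 2865, .ofNat 0, .ofNat 2865, .ofNat 5010, .ofNat 0, .ofNat 128, .negSucc 374, .negSucc 1052, .ofNat 0, .ofNat 219, .ofNat 585, .ofNat 0, .ofNat 0, .ofNat 718, .ofNat 1672, .ofNat 0, .ofNat 0, .ofNat 23993206441433700059914139993113951463276544, .ofNat 0, .ofNat 0, .ofNat 0, .ofNat 12917735988655353439419361145967914373773000704,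 .ofNat 0, .ofNat 0, .ofNat 0, .ofNat 2252913071202340309535162705841532083453820928, .ofNat 0, .ofNat 0, .ofNat 0, .ofNat 8438888152409431538210586218799515697546264576, .ofNat 0⟩)
    (by decide +kernel)
theorem L06269 : Good (Phi V5.P V5.D (-1) (-1)) ⟨5, 27, 4, 8, 3, 7, 3, 4, 6, 5⟩ :=
  leafX_sound T5.ok_mm T5.Ymm.bz_eq (w := 248) (c := ⟨⟨.negSucc 887, .negSucc 189, .ofNat 116, .negSucc 297, .ofNat 101, .negSucc 428⟩, ⟨.ofNat 448, .ofNat 67, .ofNat 27, .ofNat 173, .negSucc 62, .ofNat 238⟩, ⟨.ofNat 809, .ofNat 90, .ofNat 2, .ofNat 360, .negSucc 201, .ofNat 111⟩, ⟨.negSucc 1937, .negSucc 400, .ofNat 288, .negSucc 374, .ofNat 68, .negSucc 860⟩, ⟨.negSucc 1111, .negSucc 282, .ofNat 277, .ofNat 105, .negSucc 133, .negSucc 402⟩, .ofNat 2007, .ofNat 2865, .ofNat 0, .ofNat 2865, .ofNat 5010, .ofNat 0, .ofNat 128, .negSucc 429, .negSucc 1588, .ofNat 0, .ofNat 253,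 .ofNat 886, .ofNat 0, .ofNat 0, .ofNat 1123, .ofNat 1823, .ofNat 0, .ofNat 0, .ofNat 18162351863298265267904711369787855364685824, .ofNat 0, .ofNat 0, .ofNat 0, .ofNat 6890123920069180349246707681516761505301790720, .ofNat 0, .ofNat 0, .ofNat 0, .ofNat 7019523384907602264269545431605241569997750272, .ofNat 0, .ofNat 0, .ofNat 0, .ofNat 0, .ofNat 0⟩)
    (by decide +kernel)
theorem L06270 : Good (Phi V5.P V5.D (-1) (-1)) ⟨6, 54, 5, 16, 4, 14, 3, 5, 5, 2⟩ :=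
  leafX_sound T5.ok_mm T5.Ymm.bz_eq (w := 265) (c := ⟨⟨.negSucc 507, .negSucc 138, .ofNat 83, .ofNat 67, .negSucc 176, .negSucc 821⟩, ⟨.ofNat 243, .ofNat 55, .negSucc 3, .negSucc 31, .ofNat 92, .ofNat 445⟩, ⟨.ofNat 571, .ofNat 75, .negSucc 23, .ofNat 47, .negSucc 44, .ofNat 255⟩, ⟨.negSucc 1248, .negSucc 222, .ofNat 140, .ofNat 139, .negSucc 434, .negSucc 1538⟩, ⟨.negSucc 889, .negSucc 54, .ofNat 65, .ofNat 75, .negSucc 305, .negSucc 582⟩, .ofNat 2574, .ofNat 3888, .ofNat 0, .ofNat 3888, .ofNat 6875, .ofNat 0, .ofNat 128, .negSucc 515, .negSucc 1866, .ofNat 0, .ofNat 298, .ofNat 1033, .ofNat 0, .ofNat 0, .ofNat 1316, .ofNat 1810, .ofNat 0, .ofNat 0, .ofNat 7489615126488605287209361126841377336835702784, .ofNat 0, .ofNat 0, .ofNat 0, .ofNat 2293005999209068772770377140088736626902325788672, .ofNat 0, .ofNat 0, .ofNat 0, .ofNat 0, .ofNat 0, .ofNat 0, .ofNat 0,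 .ofNat 0, .ofNat 0⟩)
    (by decide +kernel)
theorem L06271 : Good (Phi V5.P V5.D (-1) (-1)) ⟨6, 54, 5, 16, 4, 15, 3, 5, 5, 2⟩ :=
  leafX_sound T5.ok_mm T5.Ymm.bz_eq (w := 266) (c := ⟨⟨.negSucc 928, .negSucc 152, .ofNat 120, .negSucc 81, .ofNat 113, .negSucc 272⟩, ⟨.ofNat 476, .ofNat 64, .negSucc 21, .ofNat 46, .negSucc 66, .ofNat 145⟩, ⟨.ofNat 900, .ofNat 72, .negSucc 29, .ofNat 121, .negSucc 217, .negSucc 63⟩, ⟨.negSucc 1945, .negSucc 256, .ofNat 221, .negSucc 137, .ofNat 80, .negSucc 594⟩, ⟨.negSucc 1023, .negSucc 83, .ofNat 113, .negSucc 29, .negSucc 148, .negSucc 337⟩, .ofNat 2150, .ofNat 3178, .ofNat 0, .ofNat 3178, .ofNat 5681, .ofNat 0, .ofNat 128, .negSucc 810, .negSucc 2311, .ofNat 0, .ofNat 461, .ofNat 1255, .ofNat 0, .ofNat 0, .ofNat 1624, .ofNat 3877, .ofNat 0, .ofNat 0, .ofNat 0, .ofNat 0, .ofNat 0, .ofNat 0, .ofNat 1792892731298624875504669318456457118815568789504,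 .ofNat 0, .ofNat 0, .ofNat 0, .ofNat 0, .ofNat 0, .ofNat 0, .ofNat 0, .ofNat 0, .ofNat 0⟩)
    (by decide +kernel)
theorem L06272 : Good (Phi V5.P V5.D (-1) (-1)) ⟨6, 55, 5, 16, 3, 7, 3, 5, 5, 2⟩ :=
  out_sound (S := T5.ds_mm) T5.ok_mm (w := 67) (j := 3) (by decide +kernel)
theorem L06273 : Good (Phi V5.P V5.D (-1) (-1)) ⟨5, 27, 5, 17, 4, 14, 3, 5, 5, 2⟩ :=
  leafX_sound T5.ok_mm T5.Ymm.bz_eq (w := 262) (c := ⟨⟨.negSucc 427, .negSucc 533, .ofNat 256, .ofNat 79, .negSucc 105, .negSucc 778⟩, ⟨.ofNat 228, .ofNat 263, .negSucc 104, .negSucc 41, .ofNat 59, .ofNat 440⟩, ⟨.ofNat 558, .ofNat 271, .negSucc 112, .ofNat 41, .negSucc 85, .ofNat 226⟩, ⟨.negSucc 1130, .negSucc 864, .ofNat 402, .ofNat 177, .negSucc 294, .negSucc 1480⟩, ⟨.negSucc 856, .negSucc 201, .ofNat 85, .ofNat 110, .negSucc 231, .negSucc 584⟩, .ofNat 2447, .ofNat 3600, .ofNat 0, .ofNat 3600, .ofNat 6235,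 .ofNat 0, .ofNat 128, .negSucc 612, .negSucc 2821, .ofNat 0, .ofNat 361, .ofNat 1607, .ofNat 0, .ofNat 0, .ofNat 1931, .ofNat 3143, .ofNat 0, .ofNat 0, .ofNat 35196684349246808279168343577510125969977901056, .ofNat 0, .ofNat 0, .ofNat 0, .ofNat 10374970803895221710267343233342324801501136945152, .ofNat 0, .ofNat 0, .ofNat 0, .ofNat 9078522357974195685604903798299948315232637550592, .ofNat 0, .ofNat 0, .ofNat 0, .ofNat 18733993594265485914984755144055854254915139403776, .ofNat 0⟩)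
    (by decide +kernel)
theorem L06274 : Good (Phi V5.P V5.D (-1) (-1)) ⟨6, 54, 5, 17, 4, 15, 3, 5, 5, 2⟩ :=
  leafX_sound T5.ok_mm T5.Ymm.bz_eq (w := 267) (c := ⟨⟨.negSucc 476, .negSucc 315, .ofNat 214, .negSucc 210, .ofNat 11, .negSucc 403⟩, ⟨.ofNat 263, .ofNat 161, .negSucc 82, .ofNat 120, .negSucc 10, .ofNat 222⟩, ⟨.ofNat 697, .ofNat 165, .negSucc 83, .ofNat 195, .negSucc 174, .negSucc 6⟩, ⟨.negSucc 1216, .negSucc 419, .ofNat 234, .negSucc 388, .negSucc 100, .negSucc 750⟩, ⟨.negSucc 872, .ofNat 36, .negSucc 95, .negSucc 133, .negSucc 199, .negSucc 274⟩, .ofNat 3297, .ofNat 5057, .ofNat 0, .ofNat 5057, .ofNat 8748, .ofNat 0, .ofNat 128, .negSucc 752, .negSucc 2098, .ofNat 0, .ofNat 437, .ofNat 1180, .ofNat 0, .ofNat 0, .ofNat 1440, .ofNat 4334, .ofNat 0, .ofNat 0, .ofNat 0, .ofNat 0, .ofNat 0, .ofNat 0, .ofNat 0, .ofNat 0, .ofNat 0, .ofNat 0, .ofNat 2878643602563191669715951485859601225749542993920,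 .ofNat 0, .ofNat 0, .ofNat 0, .ofNat 0, .ofNat 0⟩)
    (by decide +kernel)
theorem L06275 : Good (Phi V5.P V5.D (-1) (-1)) ⟨6, 55, 5, 17, 4, 15, 3, 5, 5, 2⟩ :=
  leafX_sound T5.ok_mm T5.Ymm.bz_eq (w := 266) (c := ⟨⟨.negSucc 792, .negSucc 342, .ofNat 175, .negSucc 277, .ofNat 123, .negSucc 300⟩, ⟨.ofNat 421, .ofNat 174, .negSucc 59, .ofNat 160, .negSucc 74, .ofNat 167⟩, ⟨.ofNat 859, .ofNat 149, .negSucc 54, .ofNat 229, .negSucc 233, .negSucc 60⟩, ⟨.negSucc 1667, .negSucc 484, .ofNat 241, .negSucc 476, .ofNat 51, .negSucc 594⟩, ⟨.negSucc 887, .negSucc 17, .ofNat 16, .negSucc 123, .negSucc 208, .negSucc 267⟩, .ofNat 2533, .ofNat 3651, .ofNat 0, .ofNat 3651, .ofNat 6162, .ofNat 0, .ofNat 128, .negSucc 911, .negSucc 2367, .ofNat 0, .ofNat 539, .ofNat 1338, .ofNat 0, .ofNat 0, .ofNat 1544, .ofNat 5627, .ofNat 0, .ofNat 0, .ofNat 12518420116236802696171137134277178551055679488,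 .ofNat 0, .ofNat 0, .ofNat 0, .ofNat 14114853312241383758699279027354080718226439798784, .ofNat 0, .ofNat 0, .ofNat 0, .ofNat 12624124772351598202625653512556494008489653305344, .ofNat 0, .ofNat 0, .ofNat 0, .ofNat 9349059704816858535709009386877830868058870120448, .ofNat 0⟩)
    (by decide +kernel)
theorem L06276 : Good (Phi V5.P V5.D (-1) (-1)) ⟨3, 7, 4, 8, 3, 7, 2, 2, 5, 2⟩ :=
  out_sound (S := T5.ds_mm) T5.ok_mm (w := 47) (j := 3) (by decide +kernel)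
theorem L06277 : Good (Phi V5.P V5.D (-1) (-1)) ⟨4, 12, 4, 8, 3, 7, 2, 2, 5, 3⟩ :=
  out_sound (S := T5.ds_mm) T5.ok_mm (w := 53) (j := 3) (by decide +kernel)
theorem L06278 : Good (Phi V5.P V5.D (-1) (-1)) ⟨5, 26, 4, 8, 3, 7, 2, 2, 5, 3⟩ :=
  leafX_sound T5.ok_mm T5.Ymm.bz_eq (w := 241) (c := ⟨⟨.negSucc 2071, .negSucc 60, .ofNat 94, .ofNat 576, .ofNat 737, .negSucc 54⟩, ⟨.ofNat 1129, .negSucc 6, .ofNat 56, .negSucc 307, .negSucc 401, .ofNat 29⟩, ⟨.ofNat 1384, .ofNat 24, .negSucc 14, .negSucc 174, .negSucc 648, .negSucc 155⟩, ⟨.negSucc 4111, .negSucc 31, .ofNat 117, .ofNat 1055, .ofNat 1194, .negSucc 118⟩, ⟨.negSucc 1772, .ofNat 19, .ofNat 48, .ofNat 356, .ofNat 174, .negSucc 63⟩, .ofNat 2866, .ofNat 4506, .ofNat 0, .ofNat 4506, .ofNat 8168, .ofNat 0, .ofNat 128, .negSucc 808, .negSucc 1613, .ofNat 0, .ofNat 461, .ofNat 873, .ofNat 0, .ofNat 0, .ofNat 1392,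 .ofNat 4765, .ofNat 0, .ofNat 0, .ofNat 0, .ofNat 0, .ofNat 0, .ofNat 0, .ofNat 19293259785604360533630553147308762921435136, .ofNat 0, .ofNat 0, .ofNat 0, .ofNat 6801077309608696637157649876769919714983936, .ofNat 0, .ofNat 0, .ofNat 0, .ofNat 88497627183297896657161968162165447855177728, .ofNat 0⟩)
    (by decide +kernel)
theorem L06279 : Good (Phi V5.P V5.D (-1) (-1)) ⟨5, 27, 4, 8, 3, 7, 3, 4, 5, 3⟩ :=
  leafX_sound T5.ok_mm T5.Ymm.bz_eq (w := 243) (c := ⟨⟨.negSucc 2097, .negSucc 177, .ofNat 135, .ofNat 586, .ofNat 425, .negSucc 190⟩, ⟨.ofNat 1112, .ofNat 51, .ofNat 48, .negSucc 326, .negSucc 243, .ofNat 107⟩, ⟨.ofNat 1398, .ofNat 85, .negSucc 36, .negSucc 167, .negSucc 366, .negSucc 93⟩, ⟨.negSucc 4083, .negSucc 196, .ofNat 158, .ofNat 1081, .ofNat 680, .negSucc 397⟩, ⟨.negSucc 1756, .ofNat 19, .ofNat 11, .ofNat 394, .ofNat 105, .negSucc 202⟩, .ofNat 2281,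 .ofNat 3350, .ofNat 0, .ofNat 3350, .ofNat 5870, .ofNat 0, .ofNat 128, .negSucc 468, .negSucc 985, .ofNat 0, .ofNat 278, .ofNat 554, .ofNat 0, .ofNat 0, .ofNat 818, .ofNat 1522, .ofNat 0, .ofNat 0, .ofNat 310529278143932565151278018789808483074048, .ofNat 0, .ofNat 0, .ofNat 0, .ofNat 265715394478403972802579545134877916520251392, .ofNat 0, .ofNat 0, .ofNat 0, .ofNat 0, .ofNat 0, .ofNat 0, .ofNat 0, .ofNat 0, .ofNat 0⟩)
    (by decide +kernel)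
theorem L06280 : Good (Phi V5.P V5.D (-1) (-1)) ⟨5, 27, 4, 8, 3, 7, 3, 5, 5, 3⟩ :=
  leafX_sound T5.ok_mm T5.Ymm.bz_eq (w := 242) (c := ⟨⟨.negSucc 1924, .negSucc 241, .ofNat 252, .ofNat 690, .ofNat 421, .ofNat 29⟩, ⟨.ofNat 1020, .ofNat 89, .negSucc 37, .negSucc 382, .negSucc 237, .negSucc 17⟩, ⟨.ofNat 1155, .ofNat 85, .negSucc 75, .negSucc 200, .negSucc 354, .negSucc 199⟩, ⟨.negSucc 3902, .negSucc 474, .ofNat 482, .ofNat 1299, .ofNat 732, .ofNat 62⟩, ⟨.negSucc 1899, .negSucc 266, .ofNat 274, .ofNat 504, .ofNat 209, .ofNat 39⟩, .ofNat 1475, .ofNat 2015, .ofNat 0, .ofNat 2015, .ofNat 3639, .ofNat 0, .ofNat 128, .negSucc 627, .negSucc 1072, .ofNat 0, .ofNat 367, .ofNat 585, .ofNat 0, .ofNat 0, .ofNat 832, .ofNat 2709, .ofNat 0, .ofNat 0, .ofNat 628740907082397291559925256097710418690048, .ofNat 0, .ofNat 0, .ofNat 0, .ofNat 84859517974460966253734364437802196194557952,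 .ofNat 0, .ofNat 0, .ofNat 0, .ofNat 369612557633286772317130754886012000847003648, .ofNat 0, .ofNat 0, .ofNat 0, .ofNat 220383895692877006408686436280626914227388416, .ofNat 0⟩)
    (by decide +kernel)
theorem L06281 : Good (Phi V5.P V5.D (-1) (-1)) ⟨3, 7, 4, 8, 3, 7, 2, 2, 5, 3⟩ :=
  out_sound (S := T5.ds_mm) T5.ok_mm (w := 47) (j := 3) (by decide +kernel)
theorem L06282 : Good (Phi V5.P V5.D (-1) (-1)) ⟨2, 2, 4, 9, 3, 7, 2, 2, 4, 0⟩ :=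
  out_sound (S := T5.ds_mm) T5.ok_mm (w := 41) (j := 3) (by decide +kernel)
theorem L06283 : Good (Phi V5.P V5.D (-1) (-1)) ⟨4, 12, 4, 9, 3, 7, 2, 2, 5, 0⟩ :=
  out_sound (S := T5.ds_mm) T5.ok_mm (w := 53) (j := 3) (by decide +kernel)
theorem L06284 : Good (Phi V5.P V5.D (-1) (-1)) ⟨5, 26, 4, 9, 3, 7, 2, 2, 5, 0⟩ :=
  out_sound (S := T5.ds_mm) T5.ok_mm (w := 59) (j := 3) (by decide +kernel)
theorem L06285 : Good (Phi V5.P V5.D (-1) (-1)) ⟨6, 54, 4, 9, 3, 7, 2, 2, 5, 0⟩ :=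
  out_sound (S := T5.ds_mm) T5.ok_mm (w := 65) (j := 3) (by decide +kernel)
theorem L06286 : Good (Phi V5.P V5.D (-1) (-1)) ⟨6, 55, 5, 18, 3, 7, 2, 2, 5, 0⟩ :=
  leafX_sound T5.ok_mm T5.Ymm.bz_eq (w := 248) (c := ⟨⟨.ofNat 2815, .negSucc 32, .ofNat 243, .negSucc 709, .negSucc 1648, .negSucc 700⟩, ⟨.negSucc 1656, .ofNat 28, .negSucc 183, .ofNat 441, .ofNat 969, .ofNat 409⟩, ⟨.negSucc 778, .ofNat 45, .negSucc 99, .ofNat 967, .ofNat 492, .ofNat 215⟩, ⟨.ofNat 5650, .ofNat 119, .ofNat 413, .negSucc 1031, .negSucc 3731, .negSucc 1620⟩, ⟨.ofNat 2565, .ofNat 275, .ofNat 105, .ofNat 19, .negSucc 2200, .negSucc 981⟩, .ofNat 2421, .ofNat 3468, .ofNat 0, .ofNat 3468, .ofNat 5839, .ofNat 0, .ofNat 128, .negSucc 1141, .negSucc 1955, .ofNat 0, .ofNat 683, .ofNat 1145, .ofNat 0, .ofNat 0, .ofNat 1348, .ofNat 1244, .ofNat 0, .ofNat 0, .ofNat 70854015680879667973529323743780873961472,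 .ofNat 0, .ofNat 0, .ofNat 0, .ofNat 14158437109019641748791130927071482752270336, .ofNat 0, .ofNat 0, .ofNat 0, .ofNat 0, .ofNat 0, .ofNat 0, .ofNat 0, .ofNat 0, .ofNat 0⟩)
    (by decide +kernel)
theorem L06287 : Good (Phi V5.P V5.D (-1) (-1)) ⟨6, 55, 5, 19, 3, 7, 2, 2, 5, 0⟩ :=
  leafX_sound T5.ok_mm T5.Ymm.bz_eq (w := 251) (c := ⟨⟨.ofNat 2600, .ofNat 402, .ofNat 679, .negSucc 654, .negSucc 1759, .negSucc 659⟩, ⟨.negSucc 1587, .negSucc 230, .negSucc 456, .ofNat 411, .ofNat 1061, .ofNat 397⟩, ⟨.negSucc 624, .negSucc 195, .negSucc 248, .ofNat 954, .ofNat 519, .ofNat 182⟩, ⟨.ofNat 5142, .ofNat 423, .ofNat 808, .negSucc 847, .negSucc 3302, .negSucc 1261⟩, ⟨.ofNat 2215, .negSucc 180, .negSucc 250, .ofNat 153, .negSucc 1263, .negSucc 508⟩, .ofNat 6447, .ofNat 9786, .ofNat 0, .ofNat 9786, .ofNat 15750, .ofNat 0, .ofNat 128, .negSucc 1539, .negSucc 2463, .ofNat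 0, .ofNat 952, .ofNat 1506, .ofNat 0, .ofNat 0, .ofNat 1722, .ofNat 2313, .ofNat 0, .ofNat 0, .ofNat 0, .ofNat 0, .ofNat 0, .ofNat 0, .ofNat 181265286758235574768517221109666208702005248, .ofNat 0, .ofNat 0, .ofNat 0, .ofNat 304771968541411995811575923148409978977517568, .ofNat 0, .ofNat 0, .ofNat 0, .ofNat 246811026266968889134156856452081294128447488, .ofNat 0⟩)
    (by decide +kernel)
theorem L06288 : Good (Phi V5.P V5.D (-1) (-1)) ⟨4, 12, 4, 9, 3, 7, 2, 2, 5, 1⟩ :=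
  out_sound (S := T5.ds_mm) T5.ok_mm (w := 53) (j := 3) (by decide +kernel)
theorem L06289 : Good (Phi V5.P V5.D (-1) (-1)) ⟨5, 26, 4, 9, 3, 7, 2, 2, 5, 1⟩ :=
  out_sound (S := T5.ds_mm) T5.ok_mm (w := 59) (j := 3) (by decide +kernel)
theorem L06290 : Good (Phi V5.P V5.D (-1) (-1)) ⟨6, 54, 4, 9, 3, 7, 2, 2, 5, 1⟩ :=
  out_sound (S := T5.ds_mm) T5.ok_mm (w := 65) (j := 3) (by decide +kernel)
theorem L06291 : Good (Phi V5.P V5.D (-1) (-1)) ⟨6, 55, 5, 18, 3, 7, 3, 4, 5, 1⟩ :=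
  leafX_sound T5.ok_mm T5.Ymm.bz_eq (w := 251) (c := ⟨⟨.ofNat 2539, .ofNat 110, .ofNat 71, .negSucc 1439, .negSucc 849, .negSucc 1229⟩, ⟨.negSucc 1505, .negSucc 61, .negSucc 60, .ofNat 874, .ofNat 495, .ofNat 722⟩, ⟨.negSucc 761, .negSucc 6, .negSucc 24, .ofNat 1273, .ofNat 237, .ofNat 397⟩, ⟨.ofNat 4808, .ofNat 58, .ofNat 306, .negSucc 2269, .negSucc 1921, .negSucc 2595⟩, ⟨.ofNat 1874, .negSucc 148, .ofNat 322, .negSucc 314, .negSucc 1141, .negSucc 1348⟩, .ofNat 2979, .ofNat 4364, .ofNat 0, .ofNat 4364, .ofNat 7284, .ofNat 0, .ofNat 128, .negSucc 649, .negSucc 1191, .ofNat 0, .ofNat 391, .ofNat 702, .ofNat 0, .ofNat 0, .ofNat 804, .ofNat 2535, .ofNat 0, .ofNat 0, .ofNat 0, .ofNat 0, .ofNat 0, .ofNat 0, .ofNat 558116520177733564126121410554631564147294208, .ofNat 0, .ofNat 0, .ofNat 0, .ofNat 433778821109744004359252969752709888617742336, .ofNat 0, .ofNat 0,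 .ofNat 0, .ofNat 193727043751562306542989711577434843825307648, .ofNat 0⟩)
    (by decide +kernel)
theorem L06292 : Good (Phi V5.P V5.D (-1) (-1)) ⟨6, 55, 5, 18, 3, 7, 3, 5, 5, 1⟩ :=
  leafX_sound T5.ok_mm T5.Ymm.bz_eq (w := 251) (c := ⟨⟨.ofNat 1442, .ofNat 111, .ofNat 45, .negSucc 1330, .negSucc 828, .negSucc 954⟩, ⟨.negSucc 863, .negSucc 88, .negSucc 7, .ofNat 804, .ofNat 490, .ofNat 565⟩, ⟨.negSucc 299, .negSucc 81, .ofNat 26, .ofNat 1061, .ofNat 259, .ofNat 316⟩, ⟨.ofNat 2626, .ofNat 218, .ofNat 75, .negSucc 2293, .negSucc 1846, .negSucc 2022⟩, ⟨.ofNat 874, .ofNat 105, .ofNat 24, .negSucc 607, .negSucc 1058, .negSucc 1050⟩, .ofNat 2423, .ofNat 3463, .ofNat 0, .ofNat 3463, .ofNat 5813, .ofNat 0, .ofNat 128, .negSucc 728, .negSucc 1669, .ofNat 0, .ofNat 438, .ofNat 979, .ofNat 0, .ofNat 0, .ofNat 1060, .ofNat 1999, .ofNat 0, .ofNat 0, .ofNat 834838179950736570755076490124074600628224,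 .ofNat 0, .ofNat 0, .ofNat 0, .ofNat 199957886759687940728825182622334641219043328, .ofNat 0, .ofNat 0, .ofNat 0, .ofNat 0, .ofNat 0, .ofNat 0, .ofNat 0, .ofNat 0, .ofNat 0⟩)
    (by decide +kernel)
theorem L06293 : Good (Phi V5.P V5.D (-1) (-1)) ⟨6, 55, 5, 19, 3, 7, 3, 4, 5, 1⟩ :=
  leafX_sound T5.ok_mm T5.Ymm.bz_eq (w := 255) (c := ⟨⟨.ofNat 2928, .negSucc 242, .ofNat 603, .negSucc 1352, .negSucc 887, .negSucc 1295⟩, ⟨.negSucc 1790, .ofNat 154, .negSucc 396, .ofNat 839, .ofNat 537, .ofNat 783⟩, ⟨.negSucc 959, .ofNat 139, .negSucc 181, .ofNat 1263, .ofNat 283, .ofNat 457⟩, ⟨.ofNat 4856, .negSucc 165, .ofNat 816, .negSucc 1838, .negSucc 1716, .negSucc 2374⟩, ⟨.ofNat 1078, .ofNat 274, .negSucc 49, .ofNat 159, .negSucc 715, .negSucc 839⟩, .ofNat 6215, .ofNat 9416, .ofNat 0, .ofNat 9416, .ofNat 15161, .ofNat 0, .ofNat 128, .negSucc 1391, .negSucc 2099, .ofNat 0,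 .ofNat 861, .ofNat 1282, .ofNat 0, .ofNat 0, .ofNat 1396, .ofNat 2622, .ofNat 0, .ofNat 0, .ofNat 0, .ofNat 0, .ofNat 0, .ofNat 0, .ofNat 1875727125923252796308810828441431516511207424, .ofNat 0, .ofNat 0, .ofNat 0, .ofNat 4105745824402690741515572298089413757890461696, .ofNat 0, .ofNat 0, .ofNat 0, .ofNat 2767744317156860285207200683193905816295964672, .ofNat 0⟩)
    (by decide +kernel)
theorem L06294 : Good (Phi V5.P V5.D (-1) (-1)) ⟨6, 55, 5, 19, 3, 7, 3, 5, 5, 1⟩ :=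
  leafX_sound T5.ok_mm T5.Ymm.bz_eq (w := 255) (c := ⟨⟨.ofNat 1329, .ofNat 213, .ofNat 241, .negSucc 1338, .negSucc 892, .negSucc 820⟩, ⟨.negSucc 810, .negSucc 136, .negSucc 141, .ofNat 824, .ofNat 541, .ofNat 498⟩, ⟨.negSucc 230, .negSucc 68, .negSucc 122, .ofNat 1076, .ofNat 278, .ofNat 218⟩, ⟨.ofNat 2119, .ofNat 286, .ofNat 329, .negSucc 2023, .negSucc 1634, .negSucc 1514⟩, ⟨.ofNat 328, .negSucc 5, .negSucc 11, .negSucc 171, .negSucc 576, .negSucc 548⟩, .ofNat 5981, .ofNat 9045, .ofNat 0, .ofNat 9045, .ofNat 14573, .ofNat 0, .ofNat 128, .negSucc 1072, .negSucc 2679, .ofNat 0, .ofNat 664, .ofNat 1637, .ofNat 0, .ofNat 0, .ofNat 1733, .ofNat 3812, .ofNat 0, .ofNat 0, .ofNat 0, .ofNat 0, .ofNat 0, .ofNat 0, .ofNat 2053215695869008861779367498533726811341193216, .ofNat 0, .ofNat 0, .ofNat 0, .ofNat 2010113570536297740212080660742007976104034304, .ofNat 0, .ofNat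 0, .ofNat 0, .ofNat 2156141389486628569565894757625884339351846912, .ofNat 0⟩)
    (by decide +kernel)
theorem L06295 : Good (Phi V5.P V5.D (-1) (-1)) ⟨6, 56, 5, 18, 3, 7, 2, 2, 4, 0⟩ :=
  out_sound (S := T5.ds_mm) T5.ok_mm (w := 67) (j := 3) (by decide +kernel)
theorem L06296 : Good (Phi V5.P V5.D (-1) (-1)) ⟨6, 56, 5, 19, 4, 14, 2, 2, 5, 0⟩ :=
  leafX_sound T5.ok_mm T5.Ymm.bz_eq (w := 262) (c := ⟨⟨.ofNat 2963, .ofNat 313, .negSucc 71, .ofNat 64, .negSucc 1565, .negSucc 801⟩, ⟨.negSucc 1825, .negSucc 196, .ofNat 6, .negSucc 27, .ofNat 969, .ofNat 498⟩, ⟨.negSucc 839, .negSucc 70, .ofNat 17, .ofNat 306, .ofNat 469, .ofNat 285⟩, ⟨.ofNat 5844, .ofNat 782, .negSucc 145, .ofNat 397, .negSucc 3432, .negSucc 1835⟩, ⟨.ofNat 2535, .ofNat 597, .negSucc 99, .ofNat 503, .negSucc 1886, .negSucc 1077⟩, .ofNat 3017, .ofNat 4252, .ofNat 0, .ofNat 4252, .ofNat 6801, .ofNat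 0, .ofNat 128, .negSucc 795, .negSucc 1893, .ofNat 0, .ofNat 499, .ofNat 1168, .ofNat 0, .ofNat 0, .ofNat 1326, .ofNat 2132, .ofNat 0, .ofNat 0, .ofNat 0, .ofNat 0, .ofNat 0, .ofNat 0, .ofNat 2270516164886698877772218535169914372261859557376, .ofNat 0, .ofNat 0, .ofNat 0, .ofNat 575856116842123238391862035872908876791760814080, .ofNat 0, .ofNat 0, .ofNat 0, .ofNat 1376641616065778875210430835798021391409230118912, .ofNat 0⟩)
    (by decide +kernel)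
theorem L06297 : Good (Phi V5.P V5.D (-1) (-1)) ⟨6, 56, 5, 19, 4, 14, 3, 4, 5, 1⟩ :=
  leafX_sound T5.ok_mm T5.Ymm.bz_eq (w := 267) (c := ⟨⟨.ofNat 2592, .ofNat 335, .ofNat 58, .negSucc 317, .negSucc 757, .negSucc 1319⟩, ⟨.negSucc 1603, .negSucc 216, .negSucc 61, .ofNat 208, .ofNat 472, .ofNat 821⟩, ⟨.negSucc 820, .negSucc 131, .negSucc 17, .ofNat 509, .ofNat 242, .ofNat 516⟩, ⟨.ofNat 4724, .ofNat 329, .ofNat 188, .negSucc 167, .negSucc 1538, .negSucc 2760⟩, ⟨.ofNat 1619, .negSucc 168, .ofNat 144, .ofNat 452, .negSucc 720, .negSucc 1388⟩, .ofNat 3995, .ofNat 5818, .ofNat 0, .ofNat 5818, .ofNat 9313, .ofNat 0, .ofNat 128, .negSucc 1271, .negSucc 2191, .ofNat 0, .ofNat 799, .ofNat 1361, .ofNat 0, .ofNat 0, .ofNat 1478, .ofNat 2775, .ofNat 0, .ofNat 0, .ofNat 0, .ofNat 0, .ofNat 0, .ofNat 0, .ofNat 64437537803745137200971794231518280998313040805888, .ofNat 0, .ofNat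 0, .ofNat 0, .ofNat 0, .ofNat 0, .ofNat 0, .ofNat 0, .ofNat 0, .ofNat 0⟩)
    (by decide +kernel)
theorem L06298 : Good (Phi V5.P V5.D (-1) (-1)) ⟨6, 56, 5, 19, 4, 14, 3, 5, 5, 1⟩ :=
  leafX_sound T5.ok_mm T5.Ymm.bz_eq (w := 266) (c := ⟨⟨.ofNat 1735, .ofNat 200, .ofNat 87, .negSucc 453, .negSucc 1085, .negSucc 1169⟩, ⟨.negSucc 1090, .negSucc 152, .negSucc 42, .ofNat 289, .ofNat 677, .ofNat 727⟩, ⟨.negSucc 506, .negSucc 258, .ofNat 74, .ofNat 472, .ofNat 427, .ofNat 460⟩, ⟨.ofNat 3039, .ofNat 265, .ofNat 224, .negSucc 611, .negSucc 2248, .negSucc 2369⟩, ⟨.ofNat 884, .negSucc 11, .ofNat 163, .ofNat 56, .negSucc 1103, .negSucc 1105⟩, .ofNat 3017, .ofNat 4252, .ofNat 0, .ofNat 4252, .ofNat 6801, .ofNat 0, .ofNat 128, .negSucc 847, .negSucc 2207, .ofNat 0, .ofNat 532, .ofNat 1360, .ofNat 0, .ofNat 0, .ofNat 1393, .ofNat 3146, .ofNat 0, .ofNat 0, .ofNat 42148484531584081148382283757738934598979551232,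 .ofNat 0, .ofNat 0, .ofNat 0, .ofNat 45552890201932852705824710133607702435097676349440, .ofNat 0, .ofNat 0, .ofNat 0, .ofNat 0, .ofNat 0, .ofNat 0, .ofNat 0, .ofNat 16361543593847224439397365195455078907357473800192, .ofNat 0⟩)
    (by decide +kernel)
theorem L06299 : Good (Phi V5.P V5.D (-1) (-1)) ⟨6, 56, 5, 19, 4, 15, 2, 2, 5, 0⟩ :=
  leafX_sound T5.ok_mm T5.Ymm.bz_eq (w := 263) (c := ⟨⟨.ofNat 3176, .ofNat 405, .ofNat 203, .negSucc 590, .negSucc 2409, .negSucc 932⟩, ⟨.negSucc 1945, .negSucc 251, .negSucc 168, .ofNat 375, .ofNat 1494, .ofNat 586⟩, ⟨.negSucc 498, .negSucc 129, .negSucc 105, .ofNat 576, .ofNat 744, .ofNat 309⟩, ⟨.ofNat 6914, .ofNat 741, .ofNat 414, .negSucc 1414, .negSucc 5264, .negSucc 2173⟩, ⟨.ofNat 3766, .ofNat 315, .ofNat 156, .negSucc 887, .negSucc 2883, .negSucc 1321⟩, .ofNat 4050, .ofNat 5901, .ofNat 0, .ofNat 5901, .ofNat 9435, .ofNat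 0, .ofNat 128, .negSucc 947, .negSucc 2015, .ofNat 0, .ofNat 592, .ofNat 1245, .ofNat 0, .ofNat 0, .ofNat 1261, .ofNat 1142, .ofNat 0, .ofNat 0, .ofNat 1222962985848318522700709666333004672161284096, .ofNat 0, .ofNat 0, .ofNat 0, .ofNat 4688466258000076958697087182228052183001272942592, .ofNat 0, .ofNat 0, .ofNat 0, .ofNat 0, .ofNat 0, .ofNat 0, .ofNat 0, .ofNat 949949939165588530330643726705165289564630155264, .ofNat 0⟩)
    (by decide +kernel)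
theorem L06300 : Good (Phi V5.P V5.D (-1) (-1)) ⟨6, 56, 6, 38, 4, 15, 2, 2, 5, 1⟩ :=
  leafX_sound T5.ok_mm T5.Ymm.bz_eq (w := 267) (c := ⟨⟨.ofNat 2323, .negSucc 522, .ofNat 285, .negSucc 1052, .negSucc 2042, .negSucc 1362⟩, ⟨.negSucc 1428, .ofNat 329, .negSucc 173, .ofNat 651, .ofNat 1249, .ofNat 836⟩, ⟨.negSucc 222, .ofNat 364, .negSucc 135, .ofNat 709, .ofNat 576, .ofNat 438⟩, ⟨.ofNat 4561, .negSucc 638, .ofNat 445, .negSucc 1913, .negSucc 4124, .negSucc 2725⟩, ⟨.ofNat 1980, .ofNat 141, .ofNat 67, .negSucc 653, .negSucc 1926, .negSucc 1241⟩, .ofNat 5389, .ofNat 8030, .ofNat 0, .ofNat 8030, .ofNat 12832, .ofNat 0, .ofNat 128, .negSucc 1001, .negSucc 2009, .ofNat 0, .ofNat 624, .ofNat 1236, .ofNat 0, .ofNat 0, .ofNat 1227, .ofNat 2266, .ofNat 0, .ofNat 0, .ofNat 6537857398871361653739213697297569822174871552, .ofNat 0, .ofNat 0, .ofNat 0, .ofNat 22627949282821580532297482659628431699145859792896,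 .ofNat 0, .ofNat 0, .ofNat 0, .ofNat 0, .ofNat 0, .ofNat 0, .ofNat 0, .ofNat 1063036483667172350905363643564982229772284198912, .ofNat 0⟩)
    (by decide +kernel)
theorem L06301 : Good (Phi V5.P V5.D (-1) (-1)) ⟨6, 56, 6, 39, 4, 15, 2, 2, 5, 1⟩ :=
  leafX_sound T5.ok_mm T5.Ymm.bz_eq (w := 268) (c := ⟨⟨.ofNat 2398, .ofNat 313, .ofNat 42, .negSucc 898, .negSucc 2190, .negSucc 1275⟩, ⟨.negSucc 1493, .negSucc 191, .negSucc 30, .ofNat 566, .ofNat 1360, .ofNat 792⟩, ⟨.negSucc 238, .negSucc 190, .ofNat 21, .ofNat 660, .ofNat 636, .ofNat 373⟩, ⟨.ofNat 4964, .ofNat 340, .ofNat 147, .negSucc 1859, .negSucc 4637, .negSucc 2591⟩, ⟨.ofNat 2433, .negSucc 141, .ofNat 134, .negSucc 907, .negSucc 2388, .negSucc 1223⟩, .ofNat 4102, .ofNat 5975, .ofNat 0, .ofNat 5975, .ofNat 9540, .ofNat 0, .ofNat 128, .negSucc 1208, .negSucc 3477, .ofNat 0, .ofNat 756, .ofNat 2149, .ofNat 0,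 .ofNat 0, .ofNat 2029, .ofNat 4146, .ofNat 0, .ofNat 0, .ofNat 3176673859737173279052589299450580953771016192, .ofNat 0, .ofNat 0, .ofNat 0, .ofNat 4032072421735355185996228986286848059912453357568, .ofNat 0, .ofNat 0, .ofNat 0, .ofNat 0, .ofNat 0, .ofNat 0, .ofNat 0, .ofNat 3558362091382237016644851392872667757210421428224, .ofNat 0⟩)
    (by decide +kernel)
theorem L06302 : Good (Phi V5.P V5.D (-1) (-1)) ⟨6, 57, 4, 9, 3, 7, 2, 2, 4, 0⟩ :=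
  out_sound (S := T5.ds_mm) T5.ok_mm (w := 65) (j := 3) (by decide +kernel)
theorem L06303 : Good (Phi V5.P V5.D (-1) (-1)) ⟨5, 29, 4, 9, 3, 7, 2, 2, 4, 0⟩ :=
  out_sound (S := T5.ds_mm) T5.ok_mm (w := 59) (j := 3) (by decide +kernel)
theorem L06304 : Good (Phi V5.P V5.D (-1) (-1)) ⟨4, 15, 4, 9, 3, 7, 2, 2, 4, 0⟩ :=
  out_sound (S := T5.ds_mm) T5.ok_mm (w := 53) (j := 3) (by decide +kernel)
theorem L06305 : Good (Phi V5.P V5.D (-1) (-1)) ⟨2, 2, 4, 9, 3, 7, 2, 2, 4, 1⟩ :=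
  out_sound (S := T5.ds_mm) T5.ok_mm (w := 41) (j := 3) (by decide +kernel)
theorem L06306 : Good (Phi V5.P V5.D (-1) (-1)) ⟨4, 12, 4, 9, 3, 7, 2, 2, 5, 2⟩ :=
  out_sound (S := T5.ds_mm) T5.ok_mm (w := 53) (j := 3) (by decide +kernel)
theorem L06307 : Good (Phi V5.P V5.D (-1) (-1)) ⟨5, 26, 4, 9, 3, 7, 2, 2, 5, 2⟩ :=
  out_sound (S := T5.ds_mm) T5.ok_mm (w := 59) (j := 3) (by decide +kernel)
theorem L06308 : Good (Phi V5.P V5.D (-1) (-1)) ⟨6, 54, 4, 9, 3, 7, 2, 2, 5, 2⟩ :=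
  out_sound (S := T5.ds_mm) T5.ok_mm (w := 65) (j := 3) (by decide +kernel)

end Crest.Agent.R097C5.N5mm
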