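import Crest.Agent.R097.KP7
import Crest.Agent.R097.T5Ymm

/-!
# Row 97, box cover in dimension n = 5 (generated)
-/

set_option autoImplicit false
set_option Elab.async false
set_option maxHeartbeats 0
set_option maxRecDepth 100000

open Crest.Agent.R097 Crest.Agent.R097.KA


namespace Crest.Agent.R097C5.N5mm

theorem L06309 : Good (Phi V5.P V5.D (-1) (-1)) ⟨6, 55, 5, 18, 5, 28, 2, 2, 5, 2⟩ :=
  leafX_sound T5.ok_mm T5.Ymm.bz_eq (w := 276) (c := ⟨⟨.ofNat 563, .negSucc 167, .ofNat 140, .negSucc 94, .negSucc 630, .negSucc 1725⟩, ⟨.negSucc 351, .ofNat 72, .negSucc 44, .ofNat 60, .ofNat 374, .ofNat 1028⟩, ⟨.ofNat 112, .ofNat 70, .negSucc 38, .ofNat 108, .ofNat 95, .ofNat 775⟩, ⟨.ofNat 677, .negSucc 251, .ofNat 212, .negSucc 131, .negSucc 1292, .negSucc 3171⟩, ⟨.negSucc 224, .negSucc 33, .ofNat 48, .ofNat 10, .negSucc 619, .negSucc 1128⟩, .ofNat 3056, .ofNat 4484, .ofNat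 0, .ofNat 4484, .ofNat 7470, .ofNat 0, .ofNat 128, .negSucc 558, .negSucc 2218, .ofNat 0, .ofNat 341, .ofNat 1323, .ofNat 0, .ofNat 0, .ofNat 1512, .ofNat 3034, .ofNat 0, .ofNat 0, .ofNat 17379799345512641644923033130038006254902085419008, .ofNat 0, .ofNat 0, .ofNat 0, .ofNat 8079443886365233674587621979716019561643998571397120, .ofNat 0, .ofNat 0, .ofNat 0, .ofNat 10724144884355819853959637161510736848600625997414400, .ofNat 0, .ofNat 0, .ofNat 0, .ofNat 0, .ofNat 0⟩)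
    (by decide +kernel)
theorem L06310 : Good (Phi V5.P V5.D (-1) (-1)) ⟨6, 55, 5, 18, 5, 29, 3, 4, 5, 2⟩ :=
  leafX_sound T5.ok_mm T5.Ymm.bz_eq (w := 280) (c := ⟨⟨.ofNat 433, .negSucc 277, .ofNat 261, .negSucc 103, .negSucc 142, .negSucc 1673⟩, ⟨.negSucc 275, .ofNat 145, .negSucc 121, .ofNat 69, .ofNat 86, .ofNat 993⟩, ⟨.ofNat 281, .ofNat 173, .negSucc 121, .ofNat 134, .negSucc 66, .ofNat 680⟩, ⟨.ofNat 791, .negSucc 415, .ofNat 369, .negSucc 215, .negSucc 465, .negSucc 3370⟩, ⟨.ofNat 268, .negSucc 43, .ofNat 10, .negSucc 104, .negSucc 416, .negSucc 1571⟩, .ofNat 2397, .ofNat 3427, .ofNat 0, .ofNat 3427, .ofNat 5768, .ofNat 0, .ofNat 128, .negSucc 539, .negSucc 2112, .ofNat 0, .ofNat 327, .ofNat 1243, .ofNat 0, .ofNat 0, .ofNat 1403, .ofNat 4148, .ofNat 0, .ofNat 0, .ofNat 0, .ofNat 0, .ofNat 0, .ofNat 0, .ofNat 102242504252153033291920231982176222519365221685919744,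 .ofNat 0, .ofNat 0, .ofNat 0, .ofNat 69812467896577197285700364451624027853897262256095232, .ofNat 0, .ofNat 0, .ofNat 0, .ofNat 0, .ofNat 0⟩)
    (by decide +kernel)
theorem L06311 : Good (Phi V5.P V5.D (-1) (-1)) ⟨6, 55, 5, 18, 5, 29, 3, 5, 5, 2⟩ :=
  leafX_sound T5.ok_mm T5.Ymm.bz_eq (w := 281) (c := ⟨⟨.negSucc 375, .negSucc 141, .ofNat 165, .ofNat 0, .negSucc 99, .negSucc 782⟩, ⟨.ofNat 208, .ofNat 66, .negSucc 64, .ofNat 2, .ofNat 57, .ofNat 462⟩, ⟨.ofNat 602, .ofNat 59, .negSucc 51, .ofNat 54, .negSucc 107, .ofNat 205⟩, ⟨.negSucc 1010, .negSucc 120, .ofNat 218, .ofNat 127, .negSucc 355, .negSucc 1558⟩, ⟨.negSucc 770, .ofNat 121, .negSucc 3, .ofNat 209, .negSucc 341, .negSucc 707⟩, .ofNat 3719, .ofNat 5543, .ofNat 0, .ofNat 5543, .ofNat 9167, .ofNat 0, .ofNat 128, .negSucc 645, .negSucc 2379, .ofNat 0, .ofNat 393, .ofNat 1420, .ofNat 0, .ofNat 0, .ofNat 1557, .ofNat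 4784, .ofNat 0, .ofNat 0, .ofNat 0, .ofNat 0, .ofNat 0, .ofNat 0, .ofNat 214119389257450281236743801757945129009048049174970368, .ofNat 0, .ofNat 0, .ofNat 0, .ofNat 0, .ofNat 0, .ofNat 0, .ofNat 0, .ofNat 184525143289155307098827360633005875019919420165193728, .ofNat 0⟩)
    (by decide +kernel)
theorem L06312 : Good (Phi V5.P V5.D (-1) (-1)) ⟨6, 55, 6, 36, 4, 15, 2, 2, 6, 4⟩ :=
  leafX_sound T5.ok_mm T5.Ymm.bz_eq (w := 272) (c := ⟨⟨.ofNat 61, .negSucc 370, .ofNat 149, .negSucc 576, .negSucc 435, .negSucc 479⟩, ⟨.negSucc 37, .ofNat 202, .negSucc 72, .ofNat 340, .ofNat 245, .ofNat 278⟩, ⟨.ofNat 621, .ofNat 196, .negSucc 56, .ofNat 412, .negSucc 142, .ofNat 121⟩, ⟨.ofNat 67, .negSucc 598, .ofNat 251, .negSucc 1037, .negSucc 1145, .negSucc 974⟩, ⟨.negSucc 29, .negSucc 132, .ofNat 73, .negSucc 335, .negSucc 852, .negSucc 464⟩, .ofNat 3665, .ofNat 5475, .ofNat 0, .ofNat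 5475, .ofNat 9094, .ofNat 0, .ofNat 128, .negSucc 800, .negSucc 2711, .ofNat 0, .ofNat 481, .ofNat 1589, .ofNat 0, .ofNat 0, .ofNat 1726, .ofNat 5421, .ofNat 0, .ofNat 0, .ofNat 91384114631063026046951079592309209169383129088, .ofNat 0, .ofNat 0, .ofNat 0, .ofNat 66860811103278540009245181982488723895382402138112, .ofNat 0, .ofNat 0, .ofNat 0, .ofNat 0, .ofNat 0, .ofNat 0, .ofNat 0, .ofNat 52297324511339899978369093278971556173525567930368, .ofNat 0⟩)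
    (by decide +kernel)
theorem L06313 : Good (Phi V5.P V5.D (-1) (-1)) ⟨6, 55, 6, 37, 4, 15, 2, 2, 6, 4⟩ :=
  leafX_sound T5.ok_mm T5.Ymm.bz_eq (w := 272) (c := ⟨⟨.ofNat 101, .negSucc 216, .ofNat 141, .negSucc 562, .negSucc 435, .negSucc 369⟩, ⟨.negSucc 58, .ofNat 115, .negSucc 69, .ofNat 339, .ofNat 253, .ofNat 220⟩, ⟨.ofNat 641, .ofNat 92, .negSucc 45, .ofNat 412, .negSucc 156, .ofNat 50⟩, ⟨.ofNat 290, .negSucc 512, .ofNat 264, .negSucc 1035, .negSucc 1204, .negSucc 794⟩, ⟨.ofNat 251, .negSucc 354, .ofNat 113, .negSucc 367, .negSucc 936, .negSucc 426⟩, .ofNat 3190, .ofNat 4664, .ofNat 0, .ofNat 4664, .ofNat 7698, .ofNat 0, .ofNat 128, .negSucc 1460, .negSucc 3567, .ofNat 0, .ofNat 887, .ofNat 2119, .ofNat 0, .ofNat 0, .ofNat 2197, .ofNat 6564, .ofNat 0, .ofNat 0, .ofNat 191160169686533483079335574764538105686103425024, .ofNat 0, .ofNat 0, .ofNat 0, .ofNat 76837225612201121368309055044050664958585313689600,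 .ofNat 0, .ofNat 0, .ofNat 0, .ofNat 0, .ofNat 0, .ofNat 0, .ofNat 0, .ofNat 164405610298859641827518319044161953364755477430272, .ofNat 0⟩)
    (by decide +kernel)
theorem L06314 : Good (Phi V5.P V5.D (-1) (-1)) ⟨6, 55, 5, 18, 4, 15, 3, 4, 6, 5⟩ :=
  leafX_sound T5.ok_mm T5.Ymm.bz_eq (w := 272) (c := ⟨⟨.negSucc 936, .negSucc 264, .ofNat 213, .negSucc 307, .ofNat 193, .negSucc 358⟩, ⟨.ofNat 540, .ofNat 142, .negSucc 85, .ofNat 184, .negSucc 116, .ofNat 210⟩, ⟨.ofNat 1003, .ofNat 139, .negSucc 72, .ofNat 278, .negSucc 265, .ofNat 63⟩, ⟨.negSucc 1719, .negSucc 539, .ofNat 425, .negSucc 733, .ofNat 149, .negSucc 785⟩, ⟨.negSucc 599, .negSucc 293, .ofNat 224, .negSucc 471, .negSucc 209, .negSucc 439⟩, .ofNat 3042, .ofNat 4471, .ofNat 0, .ofNat 4471, .ofNat 7468, .ofNat 0, .ofNat 128, .negSucc 818, .negSucc 2329, .ofNat 0, .ofNat 496, .ofNat 1368, .ofNat 0, .ofNat 0, .ofNat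 1558, .ofNat 8855, .ofNat 0, .ofNat 0, .ofNat 0, .ofNat 0, .ofNat 0, .ofNat 0, .ofNat 430437944278725163982167339333705240919723934220288, .ofNat 0, .ofNat 0, .ofNat 0, .ofNat 0, .ofNat 0, .ofNat 0, .ofNat 0, .ofNat 0, .ofNat 0⟩)
    (by decide +kernel)
theorem L06315 : Good (Phi V5.P V5.D (-1) (-1)) ⟨6, 55, 5, 18, 4, 15, 3, 5, 6, 5⟩ :=
  leafX_sound T5.ok_mm T5.Ymm.bz_eq (w := 272) (c := ⟨⟨.negSucc 1132, .negSucc 121, .ofNat 128, .negSucc 76, .ofNat 253, .negSucc 47⟩, ⟨.ofNat 655, .ofNat 49, .negSucc 30, .ofNat 47, .negSucc 153, .ofNat 28⟩, ⟨.ofNat 943, .ofNat 59, .negSucc 37, .ofNat 138, .negSucc 293, .negSucc 70⟩, ⟨.negSucc 2391, .negSucc 205, .ofNat 225, .negSucc 135, .ofNat 387, .negSucc 135⟩, ⟨.negSucc 1241, .negSucc 78, .ofNat 103, .negSucc 40, .ofNat 36, .negSucc 107⟩, .ofNat 3047, .ofNat 4470, .ofNat 0, .ofNat 4470, .ofNat 7450, .ofNat 0, .ofNat 128, .negSucc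 1006, .negSucc 2441, .ofNat 0, .ofNat 608, .ofNat 1436, .ofNat 0, .ofNat 0, .ofNat 1597, .ofNat 9942, .ofNat 0, .ofNat 0, .ofNat 0, .ofNat 0, .ofNat 0, .ofNat 0, .ofNat 258197851063160901187139207318012498011438226341888, .ofNat 0, .ofNat 0, .ofNat 0, .ofNat 0, .ofNat 0, .ofNat 0, .ofNat 0, .ofNat 165090201095265485496647912165179742709657322389504, .ofNat 0⟩)
    (by decide +kernel)
theorem L06316 : Good (Phi V5.P V5.D (-1) (-1)) ⟨6, 55, 5, 19, 4, 14, 3, 4, 5, 2⟩ :=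
  leafX_sound T5.ok_mm T5.Ymm.bz_eq (w := 269) (c := ⟨⟨.ofNat 789, .negSucc 32, .negSucc 50, .negSucc 173, .negSucc 212, .negSucc 1997⟩, ⟨.negSucc 474, .ofNat 1, .ofNat 54, .ofNat 113, .ofNat 127, .ofNat 1218⟩, ⟨.ofNat 7, .ofNat 47, .ofNat 40, .ofNat 267, .negSucc 38, .ofNat 873⟩, ⟨.ofNat 1013, .negSucc 23, .negSucc 77, .negSucc 164, .negSucc 492, .negSucc 3517⟩, ⟨.negSucc 182, .ofNat 28, .ofNat 8, .ofNat 138, .negSucc 298, .negSucc 1055⟩, .ofNat 5230, .ofNat 7856, .ofNat 0, .ofNat 7856, .ofNat 12685, .ofNat 0, .ofNat 128, .negSucc 738, .negSucc 2927, .ofNat 0, .ofNat 460, .ofNat 1796, .ofNat 0, .ofNat 0, .ofNat 1973, .ofNat 5842, .ofNat 0, .ofNat 0, .ofNat 0, .ofNat 0, .ofNat 0, .ofNat 0, .ofNat 40739880671225774116152970569014381943823383134208, .ofNat 0, .ofNat 0, .ofNat 0, .ofNat 36920209612314149229391707170676612348729872089088, .ofNat 0, .ofNat 0, .ofNat 0, .ofNat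 51401872645864169604138025845802524513479233110016, .ofNat 0⟩)
    (by decide +kernel)
theorem L06317 : Good (Phi V5.P V5.D (-1) (-1)) ⟨6, 55, 5, 19, 4, 14, 3, 5, 5, 2⟩ :=
  leafX_sound T5.ok_mm T5.Ymm.bz_eq (w := 271) (c := ⟨⟨.negSucc 50, .negSucc 169, .ofNat 311, .ofNat 80, .negSucc 299, .negSucc 1057⟩, ⟨.ofNat 35, .ofNat 85, .negSucc 152, .negSucc 46, .ofNat 182, .ofNat 646⟩, ⟨.ofNat 360, .ofNat 122, .negSucc 182, .ofNat 61, .ofNat 12, .ofNat 355⟩, ⟨.negSucc 665, .negSucc 169, .ofNat 194, .ofNat 206, .negSucc 493, .negSucc 1812⟩, ⟨.negSucc 903, .ofNat 60, .negSucc 347, .ofNat 148, .negSucc 105, .negSucc 480⟩, .ofNat 6517, .ofNat 9893, .ofNat 0, .ofNat 9893, .ofNat 15916, .ofNat 0, .ofNat 128, .negSucc 1103, .negSucc 5059, .ofNat 0, .ofNat 687, .ofNat 3106, .ofNat 0, .ofNat 0, .ofNat 3310, .ofNat 6364, .ofNat 0, .ofNat 0, .ofNat 0, .ofNat 0, .ofNat 0, .ofNat 0, .ofNat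 83646836161329275247840497096233416424947661668352, .ofNat 0, .ofNat 0, .ofNat 0, .ofNat 63684414517120479133114483451702140651608150638592, .ofNat 0, .ofNat 0, .ofNat 0, .ofNat 0, .ofNat 0⟩)
    (by decide +kernel)
theorem L06318 : Good (Phi V5.P V5.D (-1) (-1)) ⟨6, 55, 5, 19, 4, 15, 3, 4, 5, 2⟩ :=
  leafX_sound T5.ok_mm T5.Ymm.bz_eq (w := 270) (c := ⟨⟨.ofNat 552, .negSucc 461, .ofNat 288, .negSucc 567, .negSucc 27, .negSucc 1284⟩, ⟨.negSucc 327, .ofNat 269, .negSucc 151, .ofNat 348, .ofNat 14, .ofNat 779⟩, ⟨.ofNat 410, .ofNat 231, .negSucc 97, .ofNat 441, .negSucc 165, .ofNat 386⟩, ⟨.ofNat 539, .negSucc 453, .ofNat 279, .negSucc 976, .negSucc 179, .negSucc 2362⟩, ⟨.negSucc 310, .ofNat 220, .negSucc 139, .negSucc 259, .negSucc 222, .negSucc 841⟩, .ofNat 6116, .ofNat 9266, .ofNat 0, .ofNat 9266, .ofNat 14934, .ofNat 0, .ofNat 128, .negSucc 1303, .negSucc 3549, .ofNat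 0, .ofNat 808, .ofNat 2163, .ofNat 0, .ofNat 0, .ofNat 2307, .ofNat 8995, .ofNat 0, .ofNat 0, .ofNat 0, .ofNat 0, .ofNat 0, .ofNat 0, .ofNat 69758254877821112824803043307115618353099093049344, .ofNat 0, .ofNat 0, .ofNat 0, .ofNat 40639410959042653022680590078633045890628042358784, .ofNat 0, .ofNat 0, .ofNat 0, .ofNat 112598613574290311683133202045454052053322962042880, .ofNat 0⟩)
    (by decide +kernel)
theorem L06319 : Good (Phi V5.P V5.D (-1) (-1)) ⟨6, 55, 5, 19, 4, 15, 3, 5, 5, 2⟩ :=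
  leafX_sound T5.ok_mm T5.Ymm.bz_eq (w := 270) (c := ⟨⟨.negSucc 1286, .ofNat 706, .ofNat 63, .negSucc 257, .ofNat 114, .negSucc 314⟩, ⟨.ofNat 793, .negSucc 449, .ofNat 0, .ofNat 159, .negSucc 71, .ofNat 188⟩, ⟨.ofNat 1137, .negSucc 326, .ofNat 6, .ofNat 246, .negSucc 244, .negSucc 64⟩, ⟨.negSucc 2206, .ofNat 955, .ofNat 183, .negSucc 557, .ofNat 27, .negSucc 660⟩, ⟨.negSucc 615, .negSucc 58, .ofNat 167, .negSucc 298, .negSucc 215, .negSucc 337⟩, .ofNat 4457, .ofNat 6637, .ofNat 0, .ofNat 6637, .ofNat 10765, .ofNat 0, .ofNat 128, .negSucc 1785, .negSucc 5901, .ofNat 0, .ofNat 1101, .ofNat 3579, .ofNat 0, .ofNat 0, .ofNat 3654, .ofNat 7169, .ofNat 0, .ofNat 0, .ofNat 0, .ofNat 0, .ofNat 0, .ofNat 0, .ofNat 39166391348834612145637709864526600473726676893696, .ofNat 0, .ofNat 0, .ofNat 0, .ofNat 34871224218921875666355758861800971396387841245184, .ofNat 0, .ofNat 0, .ofNat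 0, .ofNat 33745999070264426639393855447689183566748207546368, .ofNat 0⟩)
    (by decide +kernel)
theorem L06320 : Good (Phi V5.P V5.D (-1) (-1)) ⟨6, 56, 5, 18, 3, 7, 2, 2, 5, 2⟩ :=
  out_sound (S := T5.ds_mm) T5.ok_mm (w := 67) (j := 3) (by decide +kernel)
theorem L06321 : Good (Phi V5.P V5.D (-1) (-1)) ⟨7, 112, 6, 38, 4, 14, 3, 4, 5, 2⟩ :=
  leafX_sound T5.ok_mm T5.Ymm.bz_eq (w := 276) (c := ⟨⟨.ofNat 837, .negSucc 63, .ofNat 192, .negSucc 211, .negSucc 250, .negSucc 2217⟩, ⟨.negSucc 532, .ofNat 31, .negSucc 106, .ofNat 138, .ofNat 154, .ofNat 1369⟩, ⟨.negSucc 7, .ofNat 69, .negSucc 104, .ofNat 308, .negSucc 11, .ofNat 992⟩, ⟨.ofNat 1139, .negSucc 44, .ofNat 117, .negSucc 189, .negSucc 487, .negSucc 3793⟩, ⟨.negSucc 97, .ofNat 69, .negSucc 231, .ofNat 184, .negSucc 204, .negSucc 1003⟩, .ofNat 5331, .ofNat 7944, .ofNat 0, .ofNat 7944, .ofNat 12706, .ofNat 0, .ofNat 128,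 .negSucc 673, .negSucc 3097, .ofNat 0, .ofNat 423, .ofNat 1919, .ofNat 0, .ofNat 0, .ofNat 2082, .ofNat 4541, .ofNat 0, .ofNat 0, .ofNat 11187335152907235097561179713531977808895541248, .ofNat 0, .ofNat 0, .ofNat 0, .ofNat 113029283994991070553651061721529936609400275861504, .ofNat 0, .ofNat 0, .ofNat 0, .ofNat 9225687325678198759244837259011420167353269223424, .ofNat 0, .ofNat 0, .ofNat 0, .ofNat 0, .ofNat 0⟩)
    (by decide +kernel)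
theorem L06322 : Good (Phi V5.P V5.D (-1) (-1)) ⟨7, 112, 6, 38, 4, 14, 3, 5, 6, 4⟩ :=
  leafX_sound T5.ok_mm T5.Ymm.bz_eq (w := 281) (c := ⟨⟨.ofNat 159, .negSucc 15, .ofNat 92, .negSucc 214, .negSucc 653, .negSucc 691⟩, ⟨.negSucc 116, .ofNat 0, .negSucc 41, .ofNat 136, .ofNat 402, .ofNat 427⟩, ⟨.ofNat 242, .negSucc 5, .negSucc 36, .ofNat 251, .ofNat 211, .ofNat 275⟩, ⟨.negSucc 152, .negSucc 10, .ofNat 80, .negSucc 260, .negSucc 1158, .negSucc 1162⟩, ⟨.negSucc 608, .ofNat 13, .negSucc 67, .ofNat 72, .negSucc 359, .negSucc 283⟩, .ofNat 6437, .ofNat 9669, .ofNat 0, .ofNat 9669, .ofNat 15401, .ofNat 0, .ofNat 128, .negSucc 410, .negSucc 2527, .ofNat 0, .ofNat 258, .ofNat 1566, .ofNat 0, .ofNat 0, .ofNat 1617, .ofNat 5263, .ofNat 0, .ofNat 0, .ofNat 0, .ofNat 0, .ofNat 0, .ofNat 0, .ofNat 4346105960356042000959645405532852532905086396923904, .ofNat 0, .ofNat 0, .ofNat 0,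 .ofNat 48514578841154845078203896367767760736231192788992, .ofNat 0, .ofNat 0, .ofNat 0, .ofNat 0, .ofNat 0⟩)
    (by decide +kernel)
theorem L06323 : Good (Phi V5.P V5.D (-1) (-1)) ⟨7, 112, 6, 38, 4, 14, 3, 5, 6, 5⟩ :=
  leafX_sound T5.ok_mm T5.Ymm.bz_eq (w := 282) (c := ⟨⟨.negSucc 1075, .negSucc 134, .ofNat 190, .ofNat 238, .negSucc 66, .negSucc 474⟩, ⟨.ofNat 641, .ofNat 70, .negSucc 93, .negSucc 145, .ofNat 39, .ofNat 293⟩, ⟨.ofNat 848, .ofNat 67, .negSucc 100, .negSucc 35, .negSucc 111, .ofNat 149⟩, ⟨.negSucc 2355, .negSucc 143, .ofNat 258, .ofNat 417, .negSucc 165, .negSucc 762⟩, ⟨.negSucc 1311, .ofNat 56, .ofNat 1, .ofNat 124, .negSucc 113, .negSucc 137⟩, .ofNat 6402, .ofNat 9614, .ofNat 0, .ofNat 9614, .ofNat 15314, .ofNat 0, .ofNat 128, .negSucc 837, .negSucc 4130, .ofNat 0, .ofNat 527, .ofNat 2561, .ofNat 0, .ofNat 0, .ofNat 2690, .ofNat 4244, .ofNat 0, .ofNat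 0, .ofNat 0, .ofNat 0, .ofNat 0, .ofNat 0, .ofNat 4220142404422300812415129303097260393059362757672960, .ofNat 0, .ofNat 0, .ofNat 0, .ofNat 0, .ofNat 0, .ofNat 0, .ofNat 0, .ofNat 0, .ofNat 0⟩)
    (by decide +kernel)
theorem L06324 : Good (Phi V5.P V5.D (-1) (-1)) ⟨7, 112, 6, 38, 4, 15, 3, 4, 5, 2⟩ :=
  leafX_sound T5.ok_mm T5.Ymm.bz_eq (w := 276) (c := ⟨⟨.ofNat 204, .ofNat 197, .ofNat 93, .negSucc 655, .negSucc 138, .negSucc 1364⟩, ⟨.negSucc 135, .negSucc 132, .negSucc 39, .ofNat 406, .ofNat 82, .ofNat 836⟩, ⟨.ofNat 589, .negSucc 84, .negSucc 42, .ofNat 479, .negSucc 102, .ofNat 429⟩, ⟨.ofNat 318, .ofNat 274, .ofNat 123, .negSucc 1092, .negSucc 510, .negSucc 2538⟩, ⟨.ofNat 43, .negSucc 20, .negSucc 5, .negSucc 250, .negSucc 493, .negSucc 945⟩, .ofNat 6024, .ofNat 9027, .ofNat 0, .ofNat 9027, .ofNat 14401, .ofNat 0, .ofNat 128, .negSucc 889, .negSucc 2523, .ofNat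 0, .ofNat 557, .ofNat 1553, .ofNat 0, .ofNat 0, .ofNat 1601, .ofNat 4857, .ofNat 0, .ofNat 0, .ofNat 0, .ofNat 0, .ofNat 0, .ofNat 0, .ofNat 126343483880725867794796029215620299779317799321600, .ofNat 0, .ofNat 0, .ofNat 0, .ofNat 0, .ofNat 0, .ofNat 0, .ofNat 0, .ofNat 0, .ofNat 0⟩)
    (by decide +kernel)
theorem L06325 : Good (Phi V5.P V5.D (-1) (-1)) ⟨7, 112, 6, 38, 4, 15, 3, 5, 5, 2⟩ :=
  leafX_sound T5.ok_mm T5.Ymm.bz_eq (w := 277) (c := ⟨⟨.negSucc 873, .negSucc 103, .ofNat 234, .negSucc 237, .ofNat 176, .negSucc 268⟩, ⟨.ofNat 520, .ofNat 54, .negSucc 124, .ofNat 148, .negSucc 109, .ofNat 163⟩, ⟨.ofNat 951, .ofNat 33, .negSucc 90, .ofNat 239, .negSucc 279, .negSucc 84⟩, ⟨.negSucc 1717, .negSucc 180, .ofNat 416, .negSucc 515, .ofNat 84, .negSucc 600⟩, ⟨.negSucc 761, .negSucc 66, .ofNat 148, .negSucc 273, .negSucc 258, .negSucc 345⟩, .ofNat 4513, .ofNat 6662, .ofNat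 0, .ofNat 6662, .ofNat 10693, .ofNat 0, .ofNat 128, .negSucc 1409, .negSucc 5111, .ofNat 0, .ofNat 878, .ofNat 3131, .ofNat 0, .ofNat 0, .ofNat 3115, .ofNat 7026, .ofNat 0, .ofNat 0, .ofNat 0, .ofNat 0, .ofNat 0, .ofNat 0, .ofNat 99733049251143367442943519641407634407875307110400, .ofNat 0, .ofNat 0, .ofNat 0, .ofNat 0, .ofNat 0, .ofNat 0, .ofNat 0, .ofNat 0, .ofNat 0⟩)
    (by decide +kernel)
theorem L06326 : Good (Phi V5.P V5.D (-1) (-1)) ⟨7, 113, 6, 38, 3, 7, 2, 2, 5, 2⟩ :=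
  out_sound (S := T5.ds_mm) T5.ok_mm (w := 75) (j := 3) (by decide +kernel)
theorem L06327 : Good (Phi V5.P V5.D (-1) (-1)) ⟨7, 112, 6, 39, 4, 14, 3, 4, 5, 2⟩ :=
  leafX_sound T5.ok_mm T5.Ymm.bz_eq (w := 276) (c := ⟨⟨.ofNat 808, .ofNat 253, .negSucc 94, .negSucc 239, .negSucc 246, .negSucc 2039⟩, ⟨.negSucc 509, .negSucc 179, .ofNat 78, .ofNat 157, .ofNat 155, .ofNat 1275⟩, ⟨.ofNat 47, .negSucc 153, .ofNat 71, .ofNat 311, .negSucc 13, .ofNat 867⟩, ⟨.ofNat 1175, .ofNat 390, .negSucc 75, .negSucc 149, .negSucc 621, .negSucc 3896⟩, ⟨.ofNat 33, .ofNat 55, .ofNat 98, .ofNat 303, .negSucc 417, .negSucc 1566⟩, .ofNat 4130, .ofNat 6016, .ofNat 0, .ofNat 6016, .ofNat 9599, .ofNat 0, .ofNat 128, .negSucc 819, .negSucc 3764, .ofNat 0, .ofNat 518, .ofNat 2348, .ofNat 0, .ofNat 0, .ofNat 2457, .ofNat 5966, .ofNat 0, .ofNat 0, .ofNat 0, .ofNat 0, .ofNat 0, .ofNat 0, .ofNat 32339337456201101088899642190174547442649817677824,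 .ofNat 0, .ofNat 0, .ofNat 0, .ofNat 2437030160254330905699219732573433069744311762944, .ofNat 0, .ofNat 0, .ofNat 0, .ofNat 0, .ofNat 0⟩)
    (by decide +kernel)
theorem L06328 : Good (Phi V5.P V5.D (-1) (-1)) ⟨7, 112, 6, 39, 4, 14, 3, 5, 5, 2⟩ :=
  leafX_sound T5.ok_mm T5.Ymm.bz_eq (w := 278) (c := ⟨⟨.negSucc 197, .negSucc 240, .ofNat 215, .ofNat 125, .negSucc 298, .negSucc 992⟩, ⟨.ofNat 115, .ofNat 140, .negSucc 115, .negSucc 75, .ofNat 186, .ofNat 620⟩, ⟨.ofNat 480, .ofNat 145, .negSucc 120, .ofNat 35, .ofNat 6, .ofNat 318⟩, ⟨.negSucc 805, .negSucc 236, .ofNat 254, .ofNat 272, .negSucc 656, .negSucc 1756⟩, ⟨.negSucc 822, .ofNat 150, .negSucc 62, .ofNat 152, .negSucc 361, .negSucc 544⟩, .ofNat 6351, .ofNat 9469, .ofNat 0, .ofNat 9469, .ofNat 14975, .ofNat 0, .ofNat 128, .negSucc 1063, .negSucc 6234, .ofNat 0, .ofNat 674, .ofNat 3911, .ofNat 0, .ofNat 0, .ofNat 3967,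 .ofNat 5072, .ofNat 0, .ofNat 0, .ofNat 0, .ofNat 0, .ofNat 0, .ofNat 0, .ofNat 31447518209756685448549975719726307171316413759488, .ofNat 0, .ofNat 0, .ofNat 0, .ofNat 0, .ofNat 0, .ofNat 0, .ofNat 0, .ofNat 0, .ofNat 0⟩)
    (by decide +kernel)
theorem L06329 : Good (Phi V5.P V5.D (-1) (-1)) ⟨7, 113, 6, 39, 4, 14, 2, 2, 5, 2⟩ :=
  out_sound (S := T5.ds_mm) T5.ok_mm (w := 75) (j := 3) (by decide +kernel)
theorem L06330 : Good (Phi V5.P V5.D (-1) (-1)) ⟨7, 112, 6, 39, 4, 15, 3, 4, 5, 2⟩ :=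
  leafX_sound T5.ok_mm T5.Ymm.bz_eq (w := 277) (c := ⟨⟨.ofNat 36, .ofNat 489, .negSucc 259, .negSucc 506, .negSucc 122, .negSucc 1401⟩, ⟨.negSucc 21, .negSucc 321, .ofNat 183, .ofNat 317, .ofNat 75, .ofNat 873⟩, ⟨.ofNat 700, .negSucc 277, .ofNat 178, .ofNat 414, .negSucc 122, .ofNat 439⟩, ⟨.ofNat 16, .ofNat 671, .negSucc 102, .negSucc 1077, .negSucc 470, .negSucc 2546⟩, ⟨.negSucc 55, .negSucc 17, .ofNat 407, .negSucc 559, .negSucc 463, .negSucc 877⟩, .ofNat 6494, .ofNat 9692, .ofNat 0, .ofNat 9692, .ofNat 15320, .ofNat 0, .ofNat 128, .negSucc 1119, .negSucc 4303, .ofNat 0, .ofNat 708, .ofNat 2688, .ofNat 0, .ofNat 0, .ofNat 2649, .ofNat 5614, .ofNat 0, .ofNat 0, .ofNat 0, .ofNat 0, .ofNat 0, .ofNat 0, .ofNat 56121529271197235063012189505586486339832268193792, .ofNat 0, .ofNat 0, .ofNat 0, .ofNat 0, .ofNat 0, .ofNat 0, .ofNat 0, .ofNat 0, .ofNat 0⟩)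
    (by decide +kernel)
theorem L06331 : Good (Phi V5.P V5.D (-1) (-1)) ⟨7, 112, 6, 39, 4, 15, 3, 5, 5, 2⟩ :=
  leafX_sound T5.ok_mm T5.Ymm.bz_eq (w := 278) (c := ⟨⟨.negSucc 430, .negSucc 332, .ofNat 353, .negSucc 392, .ofNat 53, .negSucc 462⟩, ⟨.ofNat 263, .ofNat 198, .negSucc 200, .ofNat 247, .negSucc 34, .ofNat 286⟩, ⟨.ofNat 755, .ofNat 146, .negSucc 143, .ofNat 316, .negSucc 221, .ofNat 7⟩, ⟨.negSucc 886, .negSucc 491, .ofNat 304, .negSucc 786, .negSucc 105, .negSucc 914⟩, ⟨.negSucc 431, .negSucc 48, .negSucc 287, .negSucc 353, .negSucc 278, .negSucc 401⟩, .ofNat 5315, .ofNat 7857, .ofNat 0, .ofNat 7857, .ofNat 12461, .ofNat 0, .ofNat 128, .negSucc 1604, .negSucc 5819, .ofNat 0, .ofNat 1011, .ofNat 3623, .ofNat 0, .ofNat 0, .ofNat 3460, .ofNat 7393, .ofNat 0, .ofNat 0, .ofNat 0, .ofNat 0, .ofNat 0, .ofNat 0, .ofNat 29637347379321371881246442818932629423875539599360,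 .ofNat 0, .ofNat 0, .ofNat 0, .ofNat 16777861311990801344743177613678732096498376376320, .ofNat 0, .ofNat 0, .ofNat 0, .ofNat 0, .ofNat 0⟩)
    (by decide +kernel)
theorem L06332 : Good (Phi V5.P V5.D (-1) (-1)) ⟨7, 113, 6, 39, 4, 15, 2, 2, 5, 2⟩ :=
  out_sound (S := T5.ds_mm) T5.ok_mm (w := 75) (j := 3) (by decide +kernel)
theorem L06333 : Good (Phi V5.P V5.D (-1) (-1)) ⟨6, 57, 4, 9, 3, 7, 2, 2, 5, 2⟩ :=
  out_sound (S := T5.ds_mm) T5.ok_mm (w := 65) (j := 3) (by decide +kernel)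
theorem L06334 : Good (Phi V5.P V5.D (-1) (-1)) ⟨5, 29, 4, 9, 3, 7, 2, 2, 5, 2⟩ :=
  out_sound (S := T5.ds_mm) T5.ok_mm (w := 59) (j := 3) (by decide +kernel)
theorem L06335 : Good (Phi V5.P V5.D (-1) (-1)) ⟨4, 15, 4, 9, 3, 7, 2, 2, 5, 2⟩ :=
  out_sound (S := T5.ds_mm) T5.ok_mm (w := 53) (j := 3) (by decide +kernel)
theorem L06336 : Good (Phi V5.P V5.D (-1) (-1)) ⟨4, 12, 4, 9, 3, 7, 2, 2, 5, 3⟩ :=
  out_sound (S := T5.ds_mm) T5.ok_mm (w := 53) (j := 3) (by decide +kernel)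
theorem L06337 : Good (Phi V5.P V5.D (-1) (-1)) ⟨5, 26, 4, 9, 3, 7, 2, 2, 5, 3⟩ :=
  out_sound (S := T5.ds_mm) T5.ok_mm (w := 59) (j := 3) (by decide +kernel)
theorem L06338 : Good (Phi V5.P V5.D (-1) (-1)) ⟨5, 27, 4, 9, 3, 7, 3, 4, 6, 6⟩ :=
  leafX_sound T5.ok_mm T5.Ymm.bz_eq (w := 251) (c := ⟨⟨.negSucc 1806, .negSucc 211, .ofNat 131, .ofNat 433, .ofNat 405, .negSucc 197⟩, ⟨.ofNat 1078, .ofNat 76, .ofNat 42, .negSucc 256, .negSucc 245, .ofNat 118⟩, ⟨.ofNat 1262, .ofNat 104, .negSucc 27, .negSucc 35, .negSucc 363, .ofNat 0⟩, ⟨.negSucc 3645, .negSucc 252, .ofNat 162, .ofNat 816, .ofNat 610, .negSucc 392⟩, ⟨.negSucc 1647, .negSucc 8, .ofNat 41, .ofNat 316, .ofNat 43, .negSucc 176⟩, .ofNat 3081, .ofNat 4528, .ofNat 0, .ofNat 4528, .ofNat 7549, .ofNat 0, .ofNat 128, .negSucc 872, .negSucc 2535, .ofNat 0, .ofNat 534, .ofNat 1505, .ofNat 0, .ofNat 0, .ofNat 1870, .ofNat 3342,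 .ofNat 0, .ofNat 0, .ofNat 0, .ofNat 0, .ofNat 0, .ofNat 0, .ofNat 5420998806642363987614705135592591658498129920, .ofNat 0, .ofNat 0, .ofNat 0, .ofNat 81730443711150399927978422452470434144039469056, .ofNat 0, .ofNat 0, .ofNat 0, .ofNat 0, .ofNat 0⟩)
    (by decide +kernel)
theorem L06339 : Good (Phi V5.P V5.D (-1) (-1)) ⟨5, 27, 4, 9, 3, 7, 3, 5, 6, 6⟩ :=
  leafX_sound T5.ok_mm T5.Ymm.bz_eq (w := 249) (c := ⟨⟨.negSucc 1470, .negSucc 403, .ofNat 290, .ofNat 648, .ofNat 412, .negSucc 103⟩, ⟨.ofNat 876, .ofNat 193, .negSucc 72, .negSucc 383, .negSucc 247, .ofNat 62⟩, ⟨.ofNat 921, .ofNat 237, .negSucc 145, .negSucc 145, .negSucc 359, .negSucc 42⟩, ⟨.negSucc 3210, .negSucc 506, .ofNat 352, .ofNat 1227, .ofNat 689, .negSucc 198⟩, ⟨.negSucc 1742, .ofNat 42, .negSucc 21, .ofNat 480, .ofNat 158, .negSucc 81⟩, .ofNat 3101, .ofNat 4545, .ofNat 0, .ofNat 4545, .ofNat 7547, .ofNat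 0, .ofNat 128, .negSucc 518, .negSucc 1333, .ofNat 0, .ofNat 318, .ofNat 794, .ofNat 0, .ofNat 0, .ofNat 949, .ofNat 1946, .ofNat 0, .ofNat 0, .ofNat 0, .ofNat 0, .ofNat 0, .ofNat 0, .ofNat 0, .ofNat 0, .ofNat 0, .ofNat 0, .ofNat 19613034390416606917250772482931887428211834880, .ofNat 0, .ofNat 0, .ofNat 0, .ofNat 0, .ofNat 0⟩)
    (by decide +kernel)
theorem L06340 : Good (Phi V5.P V5.D (-1) (-1)) ⟨5, 27, 4, 9, 3, 7, 2, 2, 6, 7⟩ :=
  leafX_sound T5.ok_mm T5.Ymm.bz_eq (w := 244) (c := ⟨⟨.negSucc 2273, .negSucc 131, .ofNat 48, .ofNat 782, .ofNat 906, .ofNat 17⟩, ⟨.ofNat 1351, .ofNat 35, .ofNat 85, .negSucc 463, .negSucc 543, .negSucc 8⟩, ⟨.ofNat 1414, .ofNat 62, .ofNat 4, .negSucc 216, .negSucc 749, .negSucc 114⟩, ⟨.negSucc 4461, .negSucc 174, .negSucc 14, .ofNat 1432, .ofNat 1501, .ofNat 22⟩, ⟨.negSucc 1891, .negSucc 53, .negSucc 61, .ofNat 500, .ofNat 320, .negSucc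 2⟩, .ofNat 3053, .ofNat 4482, .ofNat 0, .ofNat 4482, .ofNat 7474, .ofNat 0, .ofNat 128, .negSucc 578, .negSucc 849, .ofNat 0, .ofNat 356, .ofNat 505, .ofNat 0, .ofNat 0, .ofNat 700, .ofNat 2086, .ofNat 0, .ofNat 0, .ofNat 1805380900120775420868975397428829395877888, .ofNat 0, .ofNat 0, .ofNat 0, .ofNat 0, .ofNat 0, .ofNat 0, .ofNat 0, .ofNat 1217239860730438429777230198434040369393958912, .ofNat 0, .ofNat 0, .ofNat 0, .ofNat 0, .ofNat 0⟩)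
    (by decide +kernel)
theorem L06341 : Good (Phi V5.P V5.D (-1) (-1)) ⟨5, 28, 5, 18, 3, 7, 2, 2, 5, 3⟩ :=
  out_sound (S := T5.ds_mm) T5.ok_mm (w := 61) (j := 3) (by decide +kernel)
theorem L06342 : Good (Phi V5.P V5.D (-1) (-1)) ⟨5, 28, 5, 19, 3, 7, 3, 4, 5, 3⟩ :=
  leafX_sound T5.ok_mm T5.Ymm.bz_eq (w := 250) (c := ⟨⟨.negSucc 2164, .ofNat 93, .ofNat 3, .ofNat 661, .ofNat 498, .negSucc 172⟩, ⟨.ofNat 1314, .negSucc 112, .ofNat 60, .negSucc 409, .negSucc 313, .ofNat 107⟩, ⟨.ofNat 1459, .negSucc 32, .ofNat 20, .negSucc 114, .negSucc 418, .negSucc 129⟩, ⟨.negSucc 4073, .ofNat 121, .negSucc 2, .ofNat 1017, .ofNat 785, .negSucc 428⟩, ⟨.negSucc 1577, .negSucc 54, .ofNat 17, .ofNat 127, .ofNat 120, .negSucc 284⟩, .ofNat 3936, .ofNat 5730, .ofNat 0, .ofNat 5730, .ofNat 9184, .ofNat 0, .ofNat 128, .negSucc 899, .negSucc 2512, .ofNat 0, .ofNat 570, .ofNat 1558, .ofNat 0, .ofNat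 0, .ofNat 1884, .ofNat 3041, .ofNat 0, .ofNat 0, .ofNat 3697942218296026615777267716520135654113280, .ofNat 0, .ofNat 0, .ofNat 0, .ofNat 4658106971702089062688639226698375230407049216, .ofNat 0, .ofNat 0, .ofNat 0, .ofNat 1560576674883294072737209631747523606302687232, .ofNat 0, .ofNat 0, .ofNat 0, .ofNat 1878591583717305755507505886252727833678839808, .ofNat 0⟩)
    (by decide +kernel)
theorem L06343 : Good (Phi V5.P V5.D (-1) (-1)) ⟨5, 28, 5, 19, 3, 7, 3, 5, 5, 3⟩ :=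
  leafX_sound T5.ok_mm T5.Ymm.bz_eq (w := 249) (c := ⟨⟨.negSucc 1979, .ofNat 16, .ofNat 32, .ofNat 915, .ofNat 493, .ofNat 67⟩, ⟨.ofNat 1200, .negSucc 69, .ofNat 32, .negSucc 567, .negSucc 308, .negSucc 41⟩, ⟨.ofNat 1200, .negSucc 5, .ofNat 2, .negSucc 247, .negSucc 389, .negSucc 232⟩, ⟨.negSucc 4006, .ofNat 47, .ofNat 55, .ofNat 1707, .ofNat 842, .ofNat 103⟩, ⟨.negSucc 1884, .negSucc 13, .ofNat 48, .ofNat 637, .ofNat 221, .ofNat 12⟩, .ofNat 2939, .ofNat 4185, .ofNat 0, .ofNat 4185, .ofNat 6782, .ofNat 0, .ofNat 128, .negSucc 1189, .negSucc 2345, .ofNat 0, .ofNat 748, .ofNat 1437, .ofNat 0, .ofNat 0, .ofNat 1691, .ofNat 2675, .ofNat 0, .ofNat 0, .ofNat 1385222197201989039246388949892371727777792, .ofNat 0, .ofNat 0, .ofNat 0, .ofNat 3098761680923347426322829647168840321388773376, .ofNat 0, .ofNat 0, .ofNat 0, .ofNat 765820550801118249669173886842266195092045824, .ofNat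 0, .ofNat 0, .ofNat 0, .ofNat 2068337088048860890083384046906509203043516416, .ofNat 0⟩)
    (by decide +kernel)
theorem L06344 : Good (Phi V5.P V5.D (-1) (-1)) ⟨5, 29, 4, 9, 3, 7, 2, 2, 5, 3⟩ :=
  out_sound (S := T5.ds_mm) T5.ok_mm (w := 59) (j := 3) (by decide +kernel)
theorem L06345 : Good (Phi V5.P V5.D (-1) (-1)) ⟨4, 15, 4, 9, 3, 7, 2, 2, 5, 3⟩ :=
  out_sound (S := T5.ds_mm) T5.ok_mm (w := 53) (j := 3) (by decide +kernel)
theorem L06346 : Good (Phi V5.P V5.D (-1) (-1)) ⟨2, 2, 3, 4, 2, 3, 2, 2, 4, 2⟩ :=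
  out_sound (S := T5.ds_mm) T5.ok_mm (w := 39) (j := 3) (by decide +kernel)
theorem L06347 : Good (Phi V5.P V5.D (-1) (-1)) ⟨4, 12, 3, 4, 3, 6, 2, 2, 4, 2⟩ :=
  out_sound (S := T5.ds_mm) T5.ok_mm (w := 51) (j := 3) (by decide +kernel)
theorem L06348 : Good (Phi V5.P V5.D (-1) (-1)) ⟨4, 13, 3, 4, 3, 6, 2, 2, 5, 4⟩ :=
  leafX_sound T5.ok_mm T5.Ymm.bz_eq (w := 229) (c := ⟨⟨.negSucc 3738, .negSucc 498, .ofNat 199, .ofNat 1374, .ofNat 920, .ofNat 397⟩, ⟨.ofNat 2107, .ofNat 180, .ofNat 241, .negSucc 815, .negSucc 539, .negSucc 229⟩, ⟨.ofNat 2355, .ofNat 192, .negSucc 111, .negSucc 918, .negSucc 785, .negSucc 411⟩, ⟨.negSucc 6530, .negSucc 605, .ofNat 216, .ofNat 1892, .ofNat 1466, .ofNat 710⟩, ⟨.negSucc 1657, .negSucc 25, .negSucc 71, .negSucc 220, .ofNat 209, .ofNat 222⟩, .ofNat 747, .ofNat 826, .ofNat 0, .ofNat 826, .ofNat 1628, .ofNat 0, .ofNat 128, .negSucc 418, .negSucc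 594, .ofNat 0, .ofNat 264, .ofNat 323, .ofNat 0, .ofNat 0, .ofNat 558, .ofNat 668, .ofNat 0, .ofNat 0, .ofNat 0, .ofNat 0, .ofNat 0, .ofNat 0, .ofNat 0, .ofNat 0, .ofNat 0, .ofNat 0, .ofNat 22895184046627198540940645815082177448116224, .ofNat 0, .ofNat 0, .ofNat 0, .ofNat 7161914470020709611381159536595552683687936, .ofNat 0⟩)
    (by decide +kernel)
theorem L06349 : Good (Phi V5.P V5.D (-1) (-1)) ⟨4, 13, 3, 4, 3, 6, 2, 2, 5, 5⟩ :=
  leafX_sound T5.ok_mm T5.Ymm.bz_eq (w := 230) (c := ⟨⟨.negSucc 3208, .negSucc 366, .ofNat 146, .ofNat 1102, .ofNat 636, .ofNat 408⟩, ⟨.ofNat 1731, .ofNat 232, .ofNat 181, .negSucc 653, .negSucc 362, .negSucc 223⟩, ⟨.ofNat 1852, .ofNat 161, .negSucc 134, .negSucc 737, .negSucc 681, .negSucc 397⟩, ⟨.negSucc 5592, .negSucc 527, .ofNat 231, .ofNat 1469, .ofNat 1164, .ofNat 713⟩, ⟨.negSucc 1224, .negSucc 503, .ofNat 244, .negSucc 249, .ofNat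 378, .ofNat 176⟩, .ofNat 751, .ofNat 833, .ofNat 0, .ofNat 833, .ofNat 1637, .ofNat 0, .ofNat 128, .negSucc 568, .negSucc 351, .ofNat 0, .ofNat 373, .ofNat 193, .ofNat 0, .ofNat 0, .ofNat 483, .ofNat 1522, .ofNat 0, .ofNat 0, .ofNat 0, .ofNat 0, .ofNat 0, .ofNat 0, .ofNat 647032066860377970871690741341822446993408, .ofNat 0, .ofNat 0, .ofNat 0, .ofNat 3822221956301971669838743186201501608443904, .ofNat 0, .ofNat 0, .ofNat 0, .ofNat 13573030888278333350126468328059776920453120, .ofNat 0⟩)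
    (by decide +kernel)
theorem L06350 : Good (Phi V5.P V5.D (-1) (-1)) ⟨5, 28, 3, 4, 3, 6, 2, 2, 5, 4⟩ :=
  leafX_sound T5.ok_mm T5.Ymm.bz_eq (w := 235) (c := ⟨⟨.negSucc 4307, .negSucc 183, .ofNat 70, .ofNat 1504, .ofNat 1024, .ofNat 501⟩, ⟨.ofNat 2401, .ofNat 78, .ofNat 300, .negSucc 958, .negSucc 650, .negSucc 314⟩, ⟨.ofNat 2598, .ofNat 45, .negSucc 36, .negSucc 977, .negSucc 850, .negSucc 478⟩, ⟨.negSucc 7194, .negSucc 62, .ofNat 29, .ofNat 1988, .ofNat 1545, .ofNat 841⟩, ⟨.negSucc 1757, .ofNat 146, .ofNat 17, .negSucc 248, .ofNat 136, .ofNat 201⟩, .ofNat 2047, .ofNat 2797, .ofNat 0, .ofNat 2797, .ofNat 4610, .ofNat 0, .ofNat 128, .negSucc 687, .negSucc 774, .ofNat 0, .ofNat 445, .ofNat 481, .ofNat 0, .ofNat 0, .ofNat 739, .ofNat 1320, .ofNat 0, .ofNat 0, .ofNat 17404388477827944433915329627876937957376, .ofNat 0, .ofNat 0, .ofNat 0, .ofNat 7810894077923281288680919912727503905488896,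 .ofNat 0, .ofNat 0, .ofNat 0, .ofNat 0, .ofNat 0, .ofNat 0, .ofNat 0, .ofNat 20662021364237145653496723327838317956825088, .ofNat 0⟩)
    (by decide +kernel)
theorem L06351 : Good (Phi V5.P V5.D (-1) (-1)) ⟨5, 28, 3, 4, 3, 6, 2, 2, 5, 5⟩ :=
  leafX_sound T5.ok_mm T5.Ymm.bz_eq (w := 236) (c := ⟨⟨.negSucc 3637, .negSucc 116, .ofNat 167, .ofNat 1159, .ofNat 705, .ofNat 421⟩, ⟨.ofNat 2023, .ofNat 33, .ofNat 183, .negSucc 735, .negSucc 442, .negSucc 260⟩, ⟨.ofNat 1813, .negSucc 137, .ofNat 119, .negSucc 720, .negSucc 724, .negSucc 407⟩, ⟨.negSucc 6125, .negSucc 49, .ofNat 147, .ofNat 1527, .ofNat 1219, .ofNat 740⟩, ⟨.negSucc 1641, .negSucc 43, .ofNat 74, .negSucc 206, .ofNat 332, .ofNat 214⟩, .ofNat 2058, .ofNat 2814, .ofNat 0, .ofNat 2814, .ofNat 4635, .ofNat 0, .ofNat 128, .negSucc 1310, .negSucc 717, .ofNat 0, .ofNat 859, .ofNat 445, .ofNat 0, .ofNat 0, .ofNat 1007, .ofNat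 1871, .ofNat 0, .ofNat 0, .ofNat 16953421439839376651166649677222005178368, .ofNat 0, .ofNat 0, .ofNat 0, .ofNat 25341366422694326391190813951545075243679744, .ofNat 0, .ofNat 0, .ofNat 0, .ofNat 0, .ofNat 0, .ofNat 0, .ofNat 0, .ofNat 17141780376163354388937296152324773395824640, .ofNat 0⟩)
    (by decide +kernel)
theorem L06352 : Good (Phi V5.P V5.D (-1) (-1)) ⟨5, 29, 3, 4, 3, 6, 2, 2, 4, 2⟩ :=
  out_sound (S := T5.ds_mm) T5.ok_mm (w := 57) (j := 3) (by decide +kernel)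
theorem L06353 : Good (Phi V5.P V5.D (-1) (-1)) ⟨4, 15, 3, 4, 3, 6, 2, 2, 4, 2⟩ :=
  out_sound (S := T5.ds_mm) T5.ok_mm (w := 51) (j := 3) (by decide +kernel)
theorem L06354 : Good (Phi V5.P V5.D (-1) (-1)) ⟨4, 12, 3, 4, 3, 7, 2, 2, 4, 2⟩ :=
  out_sound (S := T5.ds_mm) T5.ok_mm (w := 51) (j := 3) (by decide +kernel)
theorem L06355 : Good (Phi V5.P V5.D (-1) (-1)) ⟨4, 13, 4, 8, 3, 7, 2, 2, 4, 2⟩ :=
  leafX_sound T5.ok_mm T5.Ymm.bz_eq (w := 227) (c := ⟨⟨.negSucc 2367, .ofNat 170, .negSucc 14, .ofNat 755, .ofNat 672, .ofNat 258⟩, ⟨.ofNat 1317, .negSucc 197, .ofNat 125, .negSucc 421, .negSucc 376, .negSucc 133⟩, ⟨.ofNat 1332, .negSucc 62, .ofNat 15, .negSucc 237, .negSucc 606, .negSucc 461⟩, ⟨.negSucc 4698, .ofNat 341, .negSucc 53, .ofNat 1435, .ofNat 1241, .ofNat 644⟩, ⟨.negSucc 2047, .ofNat 16, .ofNat 14, .ofNat 565, .ofNat 417, .ofNat 459⟩, .ofNat 1067, .ofNat 1351,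 .ofNat 0, .ofNat 1351, .ofNat 2539, .ofNat 0, .ofNat 128, .negSucc 583, .negSucc 290, .ofNat 0, .ofNat 368, .ofNat 151, .ofNat 0, .ofNat 0, .ofNat 497, .ofNat 1062, .ofNat 0, .ofNat 0, .ofNat 1101798306076568250868552481857291157504, .ofNat 0, .ofNat 0, .ofNat 0, .ofNat 157639473084180557090114212272598618734592, .ofNat 0, .ofNat 0, .ofNat 0, .ofNat 265146431377721156688241320049501121019904, .ofNat 0, .ofNat 0, .ofNat 0, .ofNat 198518330981461307507011197738193210310656, .ofNat 0⟩)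
    (by decide +kernel)
theorem L06356 : Good (Phi V5.P V5.D (-1) (-1)) ⟨4, 13, 4, 9, 3, 7, 2, 2, 4, 2⟩ :=
  leafX_sound T5.ok_mm T5.Ymm.bz_eq (w := 229) (c := ⟨⟨.negSucc 2434, .ofNat 174, .negSucc 36, .ofNat 812, .ofNat 740, .ofNat 247⟩, ⟨.ofNat 1522, .negSucc 228, .ofNat 151, .negSucc 484, .negSucc 445, .negSucc 139⟩, ⟨.ofNat 1375, .negSucc 79, .ofNat 30, .negSucc 201, .negSucc 654, .negSucc 483⟩, ⟨.negSucc 4745, .ofNat 234, .negSucc 33, .ofNat 1560, .ofNat 1336, .ofNat 603⟩, ⟨.negSucc 1926, .negSucc 138, .ofNat 81, .ofNat 631, .ofNat 432, .ofNat 406⟩, .ofNat 1773, .ofNat 2430, .ofNat 0, .ofNat 2430, .ofNat 4162, .ofNat 0, .ofNat 128, .negSucc 881, .negSucc 441, .ofNat 0, .ofNat 561, .ofNat 254, .ofNat 0, .ofNat 0, .ofNat 730, .ofNat 1120, .ofNat 0, .ofNat 0, .ofNat 3057772690764883496255114714993305583616, .ofNat 0, .ofNat 0, .ofNat 0, .ofNat 97857326813999453462676572557063946764288,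 .ofNat 0, .ofNat 0, .ofNat 0, .ofNat 1647052599005374631267526617393452126568448, .ofNat 0, .ofNat 0, .ofNat 0, .ofNat 0, .ofNat 0⟩)
    (by decide +kernel)
theorem L06357 : Good (Phi V5.P V5.D (-1) (-1)) ⟨5, 28, 3, 4, 3, 7, 2, 2, 5, 4⟩ :=
  leafX_sound T5.ok_mm T5.Ymm.bz_eq (w := 235) (c := ⟨⟨.negSucc 2249, .ofNat 181, .negSucc 159, .ofNat 880, .ofNat 906, .ofNat 155⟩, ⟨.ofNat 1227, .negSucc 141, .ofNat 293, .negSucc 548, .negSucc 567, .negSucc 94⟩, ⟨.ofNat 1146, .negSucc 254, .ofNat 244, .negSucc 202, .negSucc 727, .negSucc 239⟩, ⟨.negSucc 4559, .ofNat 186, .negSucc 174, .ofNat 1688, .ofNat 1573, .ofNat 347⟩, ⟨.negSucc 2192, .negSucc 132, .ofNat 159, .ofNat 681, .ofNat 436, .ofNat 196⟩, .ofNat 2058, .ofNat 2813, .ofNat 0, .ofNat 2813, .ofNat 4632, .ofNat 0, .ofNat 128, .negSucc 745, .negSucc 549, .ofNat 0, .ofNat 478, .ofNat 332, .ofNat 0, .ofNat 0, .ofNat 601, .ofNat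 1433, .ofNat 0, .ofNat 0, .ofNat 45511287869569310322627263287032041963520, .ofNat 0, .ofNat 0, .ofNat 0, .ofNat 22349020254703334150302107232679576813436928, .ofNat 0, .ofNat 0, .ofNat 0, .ofNat 6126968363141113781474110546468162615902208, .ofNat 0, .ofNat 0, .ofNat 0, .ofNat 14941553166118354361978241792381868973228032, .ofNat 0⟩)
    (by decide +kernel)
theorem L06358 : Good (Phi V5.P V5.D (-1) (-1)) ⟨5, 28, 3, 4, 3, 7, 2, 2, 5, 5⟩ :=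
  leafX_sound T5.ok_mm T5.Ymm.bz_eq (w := 233) (c := ⟨⟨.negSucc 2052, .ofNat 108, .negSucc 102, .ofNat 811, .ofNat 660, .ofNat 133⟩, ⟨.ofNat 1065, .negSucc 131, .ofNat 307, .negSucc 504, .negSucc 414, .negSucc 80⟩, ⟨.ofNat 952, .negSucc 105, .ofNat 128, .negSucc 179, .negSucc 628, .negSucc 243⟩, ⟨.negSucc 4127, .ofNat 132, .negSucc 106, .ofNat 1557, .ofNat 1207, .ofNat 373⟩, ⟨.negSucc 2012, .negSucc 130, .ofNat 216, .ofNat 621, .ofNat 404, .ofNat 288⟩, .ofNat 845, .ofNat 950, .ofNat 0, .ofNat 950, .ofNat 1716, .ofNat 0, .ofNat 128, .negSucc 668, .negSucc 251, .ofNat 0, .ofNat 459, .ofNat 130, .ofNat 0, .ofNat 0, .ofNat 519, .ofNat 735, .ofNat 0, .ofNat 0, .ofNat 0, .ofNat 0, .ofNat 0, .ofNat 0, .ofNat 1083744441786577932032038578865116991717376, .ofNat 0, .ofNat 0, .ofNat 0, .ofNat 0, .ofNat 0, .ofNat 0, .ofNat 0, .ofNat 482479796502104853453710455643878910328832, .ofNat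 0⟩)
    (by decide +kernel)
theorem L06359 : Good (Phi V5.P V5.D (-1) (-1)) ⟨5, 29, 3, 4, 3, 7, 2, 2, 4, 2⟩ :=
  out_sound (S := T5.ds_mm) T5.ok_mm (w := 57) (j := 3) (by decide +kernel)
theorem L06360 : Good (Phi V5.P V5.D (-1) (-1)) ⟨4, 15, 3, 4, 3, 7, 2, 2, 4, 2⟩ :=
  out_sound (S := T5.ds_mm) T5.ok_mm (w := 51) (j := 3) (by decide +kernel)
theorem L06361 : Good (Phi V5.P V5.D (-1) (-1)) ⟨2, 2, 3, 4, 2, 3, 2, 2, 4, 3⟩ :=
  out_sound (S := T5.ds_mm) T5.ok_mm (w := 39) (j := 3) (by decide +kernel)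
theorem L06362 : Good (Phi V5.P V5.D (-1) (-1)) ⟨4, 12, 3, 4, 2, 3, 2, 2, 5, 6⟩ :=
  out_sound (S := T5.ds_mm) T5.ok_mm (w := 51) (j := 3) (by decide +kernel)
theorem L06363 : Good (Phi V5.P V5.D (-1) (-1)) ⟨5, 26, 3, 4, 2, 3, 2, 2, 5, 6⟩ :=
  leafX_sound T5.ok_mm T5.Ymm.bz_eq (w := 223) (c := ⟨⟨.negSucc 2636, .negSucc 33, .negSucc 317, .ofNat 1364, .ofNat 426, .ofNat 130⟩, ⟨.ofNat 1441, .negSucc 10, .ofNat 449, .negSucc 747, .negSucc 220, .negSucc 66⟩, ⟨.ofNat 1355, .negSucc 66, .ofNat 493, .negSucc 749, .negSucc 579, .negSucc 268⟩, ⟨.negSucc 4750, .negSucc 29, .negSucc 350, .ofNat 2200, .ofNat 938, .ofNat 303⟩, ⟨.negSucc 1413, .negSucc 36, .ofNat 270, .ofNat 304, .ofNat 550, .ofNat 200⟩, .ofNat 2899, .ofNat 4569, .ofNat 0, .ofNat 4569, .ofNat 8289, .ofNat 0, .ofNat 128, .negSucc 1331, .negSucc 310, .ofNat 0, .ofNat 810, .ofNat 165, .ofNat 0, .ofNat 0, .ofNat 1230,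 .ofNat 929, .ofNat 0, .ofNat 0, .ofNat 6941463477252267359683201884674326528, .ofNat 0, .ofNat 0, .ofNat 0, .ofNat 59469763374588831678030527861018853376, .ofNat 0, .ofNat 0, .ofNat 0, .ofNat 0, .ofNat 0, .ofNat 0, .ofNat 254138808994024520709445221212933433449250816, .ofNat 431443480862928899184531804156600516608, .ofNat 0⟩)
    (by decide +kernel)
theorem L06364 : Good (Phi V5.P V5.D (-1) (-1)) ⟨5, 27, 3, 4, 2, 3, 2, 2, 5, 6⟩ :=
  leafX_sound T5.ok_mm T5.Ymm.bz_eq (w := 219) (c := ⟨⟨.negSucc 2675, .negSucc 85, .ofNat 95, .ofNat 1408, .ofNat 373, .ofNat 135⟩, ⟨.ofNat 1458, .ofNat 22, .ofNat 193, .negSucc 828, .negSucc 197, .negSucc 77⟩, ⟨.ofNat 1271, .ofNat 118, .negSucc 196, .negSucc 746, .negSucc 563, .negSucc 198⟩, ⟨.negSucc 4898, .ofNat 129, .negSucc 97, .ofNat 2283, .ofNat 939, .ofNat 448⟩, ⟨.negSucc 1669, .ofNat 333, .negSucc 329, .ofNat 400, .ofNat 659, .ofNat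 425⟩, .ofNat 1101, .ofNat 1389, .ofNat 0, .ofNat 1389, .ofNat 2553, .ofNat 0, .ofNat 128, .negSucc 770, .negSucc 204, .ofNat 0, .ofNat 518, .ofNat 105, .ofNat 0, .ofNat 0, .ofNat 786, .ofNat 392, .ofNat 0, .ofNat 0, .ofNat 904132824324453008805443241355771904, .ofNat 0, .ofNat 0, .ofNat 0, .ofNat 342987886400700850414469761824142131200, .ofNat 0, .ofNat 0, .ofNat 194514962386685770647138488212893050330939392, .ofNat 242584890440855548099522235380348747776, .ofNat 0, .ofNat 0, .ofNat 107032346443109115510236687580883032515543040, .ofNat 64276181460139799332586557097449095168, .ofNat 0⟩)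
    (by decide +kernel)
theorem L06365 : Good (Phi V5.P V5.D (-1) (-1)) ⟨4, 12, 3, 4, 2, 3, 2, 2, 5, 7⟩ :=
  out_sound (S := T5.ds_mm) T5.ok_mm (w := 51) (j := 3) (by decide +kernel)
theorem L06366 : Good (Phi V5.P V5.D (-1) (-1)) ⟨4, 13, 3, 4, 3, 6, 2, 2, 5, 7⟩ :=
  leafX_sound T5.ok_mm T5.Ymm.bz_eq (w := 231) (c := ⟨⟨.negSucc 2200, .negSucc 240, .ofNat 39, .ofNat 508, .ofNat 184, .ofNat 120⟩, ⟨.ofNat 1181, .ofNat 152, .ofNat 161, .negSucc 294, .negSucc 86, .negSucc 62⟩, ⟨.ofNat 1087, .ofNat 56, .negSucc 148, .negSucc 547, .negSucc 811, .negSucc 367⟩, ⟨.negSucc 4195, .negSucc 46, .ofNat 10, .ofNat 792, .ofNat 795, .ofNat 387⟩, ⟨.negSucc 1474, .ofNat 227, .negSucc 10, .ofNat 89, .ofNat 876, .ofNat 355⟩, .ofNat 1578, .ofNat 2164, .ofNat 0, .ofNat 2164, .ofNat 3839, .ofNat 0, .ofNat 128, .negSucc 1206, .negSucc 205, .ofNat 0, .ofNat 796, .ofNat 111, .ofNat 0, .ofNat 0,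 .ofNat 1347, .ofNat 840, .ofNat 0, .ofNat 0, .ofNat 0, .ofNat 0, .ofNat 0, .ofNat 3204987150243360080828601891675263741290610688, .ofNat 34133384272899313114058074522624492910411776, .ofNat 0, .ofNat 0, .ofNat 0, .ofNat 0, .ofNat 0, .ofNat 0, .ofNat 162067008483275258592556828385512638365218897920, .ofNat 0, .ofNat 0⟩)
    (by decide +kernel)
theorem L06367 : Good (Phi V5.P V5.D (-1) (-1)) ⟨4, 13, 3, 4, 3, 7, 3, 4, 5, 7⟩ :=
  leafX_sound T5.ok_mm T5.Ymm.bz_eq (w := 233) (c := ⟨⟨.negSucc 1686, .ofNat 30, .negSucc 64, .ofNat 448, .ofNat 60, .negSucc 59⟩, ⟨.ofNat 901, .negSucc 22, .ofNat 187, .negSucc 238, .negSucc 20, .ofNat 47⟩, ⟨.ofNat 673, .negSucc 130, .negSucc 14, .negSucc 210, .negSucc 410, .negSucc 421⟩, ⟨.negSucc 3406, .ofNat 145, .ofNat 37, .ofNat 1162, .ofNat 349, .ofNat 288⟩, ⟨.negSucc 1439, .negSucc 96, .ofNat 289, .ofNat 870, .ofNat 461, .ofNat 626⟩, .ofNat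 1521, .ofNat 2086, .ofNat 0, .ofNat 2086, .ofNat 3745, .ofNat 0, .ofNat 128, .negSucc 651, .ofNat 86, .ofNat 0, .ofNat 450, .negSucc 88, .ofNat 0, .ofNat 0, .ofNat 1451, .ofNat 858, .ofNat 0, .ofNat 0, .ofNat 0, .ofNat 0, .ofNat 0, .ofNat 0, .ofNat 382624683569141289730022467330963953214816256, .ofNat 0, .ofNat 0, .ofNat 138129811006392029388623894523918614090215325696, .ofNat 251551293716263191445788102462347286599958528, .ofNat 0, .ofNat 0, .ofNat 1162269277679774038954823684014484736895436718080, .ofNat 0, .ofNat 0⟩)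
    (by decide +kernel)
theorem L06368 : Good (Phi V5.P V5.D (-1) (-1)) ⟨4, 13, 3, 4, 4, 14, 3, 5, 5, 7⟩ :=
  leafX_sound T5.ok_mm T5.Ymm.bz_eq (w := 247) (c := ⟨⟨.negSucc 1606, .ofNat 155, .negSucc 260, .ofNat 215, .negSucc 80, .negSucc 173⟩, ⟨.ofNat 838, .negSucc 39, .ofNat 272, .negSucc 115, .ofNat 69, .ofNat 121⟩, ⟨.ofNat 241, .ofNat 188, .negSucc 332, .negSucc 179, .negSucc 558, .negSucc 619⟩, ⟨.negSucc 2973, .ofNat 193, .negSucc 87, .ofNat 548, .ofNat 343, .ofNat 194⟩, ⟨.negSucc 966, .negSucc 119, .ofNat 376, .ofNat 390, .ofNat 764, .ofNat 745⟩, .ofNat 1553, .ofNat 2136, .ofNat 0, .ofNat 2136, .ofNat 3820, .ofNat 0, .ofNat 128, .negSucc 635, .ofNat 149, .ofNat 0, .ofNat 427, .negSucc 115, .ofNat 0, .ofNat 0, .ofNat 1229, .ofNat 367, .ofNat 0, .ofNat 8861473596534786372537352840832640762273039646720, .ofNat 16845017298052356029439246967296707543835869184, .ofNat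 0, .ofNat 0, .ofNat 89590813637964821452988193301955587335502304378880, .ofNat 5666579292232831774208542895491376166970079576064, .ofNat 0, .ofNat 0, .ofNat 1437770463908856140568716836812206896208356636098560, .ofNat 4208589994824797772182706994685227083582784143360, .ofNat 0, .ofNat 0, .ofNat 5115199064181495818121273470645332095925946052247552, .ofNat 0, .ofNat 0⟩)
    (by decide +kernel)
theorem L06369 : Good (Phi V5.P V5.D (-1) (-1)) ⟨4, 13, 3, 4, 4, 15, 3, 5, 5, 7⟩ :=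
  leafX_sound T5.ok_mm T5.Ymm.bz_eq (w := 248) (c := ⟨⟨.negSucc 1334, .ofNat 77, .negSucc 137, .ofNat 226, .negSucc 87, .negSucc 245⟩, ⟨.ofNat 694, .ofNat 10, .ofNat 167, .negSucc 117, .ofNat 79, .ofNat 169⟩, ⟨.ofNat 150, .ofNat 22, .negSucc 166, .negSucc 21, .negSucc 544, .negSucc 665⟩, ⟨.negSucc 2485, .ofNat 228, .ofNat 26, .ofNat 648, .ofNat 360, .ofNat 207⟩, ⟨.negSucc 774, .ofNat 44, .ofNat 319, .ofNat 551, .ofNat 819, .ofNat 944⟩, .ofNat 1549, .ofNat 2130, .ofNat 0, .ofNat 2130, .ofNat 3814, .ofNat 0, .ofNat 128, .negSucc 864, .ofNat 330, .ofNat 0, .ofNat 592, .negSucc 250, .ofNat 0, .ofNat 0, .ofNat 1596, .ofNat 1262, .ofNat 0, .ofNat 0, .ofNat 0, .ofNat 0, .ofNat 0, .ofNat 248287460541036477811930877169879978825615870525440, .ofNat 10738100957339942742789222587716164302875293384704, .ofNat 0, .ofNat 0, .ofNat 5262934436685599345887925611251529408389931157422080,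 .ofNat 4403660096471476288534354787100350109046496296960, .ofNat 0, .ofNat 0, .ofNat 14426752353062914985102046389996211527643673200164864, .ofNat 6350822682008465496461068639367032759097644548096, .ofNat 0⟩)
    (by decide +kernel)
theorem L06370 : Good (Phi V5.P V5.D (-1) (-1)) ⟨6, 56, 3, 4, 3, 6, 2, 2, 5, 6⟩ :=
  leafX_sound T5.ok_mm T5.Ymm.bz_eq (w := 239) (c := ⟨⟨.negSucc 3123, .negSucc 103, .ofNat 254, .ofNat 873, .ofNat 466, .ofNat 305⟩, ⟨.ofNat 1745, .ofNat 69, .ofNat 74, .negSucc 554, .negSucc 287, .negSucc 188⟩, ⟨.ofNat 1396, .negSucc 39, .ofNat 51, .negSucc 602, .negSucc 711, .negSucc 372⟩, ⟨.negSucc 5271, .negSucc 65, .ofNat 258, .ofNat 1154, .ofNat 1012, .ofNat 587⟩, ⟨.negSucc 1429, .ofNat 23, .ofNat 24, .negSucc 147, .ofNat 542, .ofNat 239⟩, .ofNat 1325, .ofNat 1681, .ofNat 0, .ofNat 1681, .ofNat 2867, .ofNat 0, .ofNat 128, .negSucc 1679, .negSucc 391,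 .ofNat 0, .ofNat 1139, .ofNat 235, .ofNat 0, .ofNat 0, .ofNat 979, .ofNat 1507, .ofNat 0, .ofNat 0, .ofNat 0, .ofNat 0, .ofNat 0, .ofNat 0, .ofNat 3707611265218643507893402844971990817701888, .ofNat 0, .ofNat 0, .ofNat 0, .ofNat 0, .ofNat 0, .ofNat 0, .ofNat 0, .ofNat 686468488364602578484072550401493289664512, .ofNat 0⟩)
    (by decide +kernel)
theorem L06371 : Good (Phi V5.P V5.D (-1) (-1)) ⟨6, 57, 3, 4, 3, 6, 2, 2, 5, 6⟩ :=
  out_sound (S := T5.ds_mm) T5.ok_mm (w := 63) (j := 3) (by decide +kernel)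
theorem L06372 : Good (Phi V5.P V5.D (-1) (-1)) ⟨5, 28, 4, 8, 3, 7, 2, 2, 5, 6⟩ :=
  out_sound (S := T5.ds_mm) T5.ok_mm (w := 59) (j := 3) (by decide +kernel)
theorem L06373 : Good (Phi V5.P V5.D (-1) (-1)) ⟨6, 56, 4, 9, 3, 7, 2, 2, 5, 6⟩ :=
  leafX_sound T5.ok_mm T5.Ymm.bz_eq (w := 243) (c := ⟨⟨.negSucc 1961, .negSucc 182, .ofNat 132, .ofNat 731, .ofNat 293, .ofNat 29⟩, ⟨.ofNat 1161, .ofNat 126, .negSucc 11, .negSucc 454, .negSucc 174, .negSucc 15⟩, ⟨.ofNat 765, .ofNat 33, .negSucc 2, .negSucc 121, .negSucc 644, .negSucc 296⟩, ⟨.negSucc 3770, .negSucc 142, .ofNat 97, .ofNat 1380, .ofNat 949, .ofNat 333⟩, ⟨.negSucc 1572, .ofNat 131, .negSucc 82, .ofNat 535, .ofNat 841, .ofNat 461⟩, .ofNat 2365, .ofNat 3247, .ofNat 0, .ofNat 3247, .ofNat 5255, .ofNat 0, .ofNat 128, .negSucc 1450, .negSucc 127, .ofNat 0, .ofNat 1002, .ofNat 49, .ofNat 0, .ofNat 0, .ofNat 1499, .ofNat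 1645, .ofNat 0, .ofNat 0, .ofNat 0, .ofNat 0, .ofNat 0, .ofNat 0, .ofNat 6407262872635219848765799598996075311005696, .ofNat 0, .ofNat 0, .ofNat 356096651200395962846111518526734658567568088891392, .ofNat 28192665981084571547059588494683929608978432, .ofNat 0, .ofNat 0, .ofNat 390398382072172688274381284180231980456676362813440, .ofNat 21267378137406439683403853888673108723761152, .ofNat 0⟩)
    (by decide +kernel)
theorem L06374 : Good (Phi V5.P V5.D (-1) (-1)) ⟨6, 57, 4, 9, 3, 7, 2, 2, 5, 6⟩ :=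
  out_sound (S := T5.ds_mm) T5.ok_mm (w := 65) (j := 3) (by decide +kernel)
theorem L06375 : Good (Phi V5.P V5.D (-1) (-1)) ⟨5, 28, 4, 8, 2, 3, 2, 2, 5, 7⟩ :=
  out_sound (S := T5.ds_mm) T5.ok_mm (w := 59) (j := 3) (by decide +kernel)
theorem L06376 : Good (Phi V5.P V5.D (-1) (-1)) ⟨6, 56, 4, 9, 3, 6, 2, 2, 5, 7⟩ :=
  leafX_sound T5.ok_mm T5.Ymm.bz_eq (w := 245) (c := ⟨⟨.negSucc 2215, .ofNat 165, .negSucc 202, .ofNat 491, .ofNat 78, .ofNat 59⟩, ⟨.ofNat 1301, .negSucc 112, .ofNat 232, .negSucc 306, .negSucc 35, .negSucc 31⟩, ⟨.ofNat 1079, .ofNat 18, .negSucc 35, .negSucc 550, .negSucc 902, .negSucc 414⟩, ⟨.negSucc 4192, .ofNat 143, .negSucc 138, .ofNat 842, .ofNat 785, .ofNat 416⟩, ⟨.negSucc 1609, .negSucc 187, .ofNat 226, .ofNat 226, .ofNat 1062, .ofNat 522⟩, .ofNat 3212, .ofNat 4548, .ofNat 0, .ofNat 4548, .ofNat 7261, .ofNat 0, .ofNat 128, .negSucc 2142, .negSucc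 319, .ofNat 0, .ofNat 1468, .ofNat 183, .ofNat 0, .ofNat 0, .ofNat 2503, .ofNat 2128, .ofNat 0, .ofNat 0, .ofNat 0, .ofNat 0, .ofNat 0, .ofNat 0, .ofNat 22512290051560506895384955628111746325020672, .ofNat 0, .ofNat 0, .ofNat 1156109720402607991328675217639510507168862264360960, .ofNat 241008329165008264735818498931073999188262912, .ofNat 0, .ofNat 0, .ofNat 1216781389827569875785410467378327838389461497937920, .ofNat 34116736086014807088043483949706418061312000, .ofNat 0⟩)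
    (by decide +kernel)
theorem L06377 : Good (Phi V5.P V5.D (-1) (-1)) ⟨6, 56, 4, 9, 3, 7, 3, 4, 5, 7⟩ :=
  leafX_sound T5.ok_mm T5.Ymm.bz_eq (w := 246) (c := ⟨⟨.negSucc 1832, .negSucc 190, .ofNat 203, .ofNat 506, .ofNat 7, .negSucc 90⟩, ⟨.ofNat 1089, .ofNat 141, .negSucc 72, .negSucc 301, .ofNat 2, .ofNat 66⟩, ⟨.ofNat 444, .negSucc 159, .ofNat 178, .negSucc 177, .negSucc 446, .negSucc 521⟩, ⟨.negSucc 3458, .negSucc 60, .ofNat 145, .ofNat 1324, .ofNat 406, .ofNat 326⟩, ⟨.negSucc 1351, .ofNat 270, .negSucc 189, .ofNat 955, .ofNat 628, .ofNat 724⟩, .ofNat 2046, .ofNat 2795, .ofNat 0, .ofNat 2795, .ofNat 4606, .ofNat 0, .ofNat 128, .negSucc 1120, .ofNat 216, .ofNat 0, .ofNat 782, .negSucc 189, .ofNat 0, .ofNat 0, .ofNat 2571, .ofNat 1212, .ofNat 0, .ofNat 0, .ofNat 0, .ofNat 0, .ofNat 0, .ofNat 0, .ofNat 155676914304127625780514249089063785456467968, .ofNat 0, .ofNat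 0, .ofNat 671323967766904781384332008333589874445417420161024, .ofNat 559250959178288770481997060012809514179887104, .ofNat 0, .ofNat 0, .ofNat 7349820978783550957382086835599530527053905110499328, .ofNat 808660089806910349534135150985371265148125184, .ofNat 0⟩)
    (by decide +kernel)
theorem L06378 : Good (Phi V5.P V5.D (-1) (-1)) ⟨7, 112, 4, 9, 3, 7, 4, 10, 5, 7⟩ :=
  leafX_sound T5.ok_mm T5.Ymm.bz_eq (w := 256) (c := ⟨⟨.negSucc 1490, .negSucc 30, .negSucc 100, .ofNat 431, .negSucc 101, .negSucc 279⟩, ⟨.ofNat 882, .ofNat 27, .ofNat 117, .negSucc 253, .ofNat 72, .ofNat 190⟩, ⟨.ofNat 330, .negSucc 42, .negSucc 127, .negSucc 245, .negSucc 336, .negSucc 743⟩, ⟨.negSucc 2918, .ofNat 52, .negSucc 42, .ofNat 1322, .ofNat 168, .ofNat 261⟩, ⟨.negSucc 1230, .ofNat 118, .ofNat 154, .ofNat 1124, .ofNat 492, .ofNat 1042⟩, .ofNat 2973, .ofNat 4234, .ofNat 0, .ofNat 4234, .ofNat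 6854, .ofNat 0, .ofNat 128, .negSucc 1084, .ofNat 409, .ofNat 0, .ofNat 734, .negSucc 292, .ofNat 0, .ofNat 0, .ofNat 1979, .ofNat 1131, .ofNat 0, .ofNat 0, .ofNat 0, .ofNat 0, .ofNat 0, .ofNat 0, .ofNat 1405217090730455749714514233159603192713969664, .ofNat 0, .ofNat 0, .ofNat 86225070087945043711145037349618229032453432439472128, .ofNat 325574706950594980011659407381269822792794112, .ofNat 0, .ofNat 0, .ofNat 503664055918873739040126348053280455066152927915671552, .ofNat 0, .ofNat 0⟩)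
    (by decide +kernel)
theorem L06379 : Good (Phi V5.P V5.D (-1) (-1)) ⟨7, 112, 4, 9, 3, 7, 4, 11, 5, 7⟩ :=
  leafX_sound T5.ok_mm T5.Ymm.bz_eq (w := 257) (c := ⟨⟨.negSucc 1543, .negSucc 24, .negSucc 98, .ofNat 429, .negSucc 160, .negSucc 405⟩, ⟨.ofNat 925, .ofNat 27, .ofNat 109, .negSucc 253, .ofNat 111, .ofNat 274⟩, ⟨.ofNat 13, .negSucc 57, .negSucc 37, .negSucc 293, .negSucc 389, .negSucc 908⟩, ⟨.negSucc 2603, .ofNat 14, .negSucc 46, .ofNat 1205, .ofNat 72, .ofNat 74⟩, ⟨.negSucc 595, .ofNat 49, .ofNat 116, .ofNat 941, .ofNat 478, .ofNat 1031⟩, .ofNat 3960, .ofNat 5766, .ofNat 0, .ofNat 5766, .ofNat 9236, .ofNat 0, .ofNat 128, .negSucc 1275, .ofNat 585, .ofNat 0, .ofNat 850, .negSucc 403, .ofNat 0, .ofNat 0, .ofNat 2276, .ofNat 892, .ofNat 0, .ofNat 1904398269865301430408821510323931647131662822670336, .ofNat 0, .ofNat 0, .ofNat 0, .ofNat 0, .ofNat 2176339357817910001941421812227523739597668352,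 .ofNat 0, .ofNat 0, .ofNat 253478663521745435398696780531184721234462315043094528, .ofNat 604082972467703329316883015539067588781801472, .ofNat 0, .ofNat 0, .ofNat 920065326032079844440458573647362905748151334485360640, .ofNat 0, .ofNat 0⟩)
    (by decide +kernel)
theorem L06380 : Good (Phi V5.P V5.D (-1) (-1)) ⟨7, 113, 4, 9, 3, 7, 3, 5, 5, 7⟩ :=
  out_sound (S := T5.ds_mm) T5.ok_mm (w := 71) (j := 3) (by decide +kernel)
theorem L06381 : Good (Phi V5.P V5.D (-1) (-1)) ⟨6, 57, 4, 9, 2, 3, 2, 2, 5, 7⟩ :=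
  out_sound (S := T5.ds_mm) T5.ok_mm (w := 65) (j := 3) (by decide +kernel)
theorem L06382 : Good (Phi V5.P V5.D (-1) (-1)) ⟨5, 29, 3, 4, 2, 3, 2, 2, 4, 3⟩ :=
  out_sound (S := T5.ds_mm) T5.ok_mm (w := 57) (j := 3) (by decide +kernel)
theorem L06383 : Good (Phi V5.P V5.D (-1) (-1)) ⟨4, 15, 3, 4, 2, 3, 2, 2, 4, 3⟩ :=
  out_sound (S := T5.ds_mm) T5.ok_mm (w := 51) (j := 3) (by decide +kernel)
theorem L06384 : Good (Phi V5.P V5.D (-1) (-1)) ⟨2, 2, 3, 5, 3, 6, 3, 4, 3, 0⟩ :=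
  out_sound (S := T5.ds_mm) T5.ok_mm (w := 39) (j := 3) (by decide +kernel)
theorem L06385 : Good (Phi V5.P V5.D (-1) (-1)) ⟨3, 6, 3, 5, 3, 6, 3, 4, 3, 0⟩ :=
  out_sound (S := T5.ds_mm) T5.ok_mm (w := 45) (j := 3) (by decide +kernel)
theorem L06386 : Good (Phi V5.P V5.D (-1) (-1)) ⟨6, 56, 4, 10, 3, 6, 3, 4, 4, 0⟩ :=
  leafX_sound T5.ok_mm T5.Ymm.bz_eq (w := 247) (c := ⟨⟨.ofNat 3248, .ofNat 67, .ofNat 18, .negSucc 516, .negSucc 541, .negSucc 1007⟩, ⟨.negSucc 2081, .negSucc 59, .negSucc 84, .ofNat 349, .ofNat 351, .ofNat 643⟩, ⟨.negSucc 1821, .negSucc 112, .ofNat 128, .ofNat 1069, .ofNat 153, .ofNat 327⟩, ⟨.ofNat 4894, .ofNat 144, .ofNat 26, .ofNat 160, .negSucc 964, .negSucc 2366⟩, ⟨.ofNat 426, .ofNat 106, .ofNat 38, .ofNat 1373, .negSucc 305, .negSucc 1440⟩, .ofNat 5178, .ofNat 7517, .ofNat 0, .ofNat 7517, .ofNat 11720, .ofNat 0, .ofNat 128, .negSucc 1628, .negSucc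 3257, .ofNat 0, .ofNat 1060, .ofNat 2098, .ofNat 0, .ofNat 0, .ofNat 2695, .ofNat 1886, .ofNat 0, .ofNat 0, .ofNat 51395878655269275979238460517451007262720, .ofNat 0, .ofNat 0, .ofNat 0, .ofNat 25925009436980866555957362333189656616632320, .ofNat 0, .ofNat 0, .ofNat 0, .ofNat 42765690296922849254138457820165316418732032, .ofNat 0, .ofNat 0, .ofNat 0, .ofNat 11147954818007073603202428591809858786820096, .ofNat 0⟩)
    (by decide +kernel)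
theorem L06387 : Good (Phi V5.P V5.D (-1) (-1)) ⟨6, 57, 4, 10, 3, 6, 3, 4, 5, 0⟩ :=
  leafX_sound T5.ok_mm T5.Ymm.bz_eq (w := 250) (c := ⟨⟨.ofNat 3163, .negSucc 52, .negSucc 124, .negSucc 429, .negSucc 286, .negSucc 152⟩, ⟨.negSucc 2007, .ofNat 75, .negSucc 83, .ofNat 286, .ofNat 192, .ofNat 103⟩, ⟨.negSucc 1758, .ofNat 150, .ofNat 28, .ofNat 1086, .negSucc 51, .negSucc 46⟩, ⟨.ofNat 4671, .negSucc 52, .negSucc 48, .ofNat 607, .negSucc 705, .negSucc 666⟩, ⟨.ofNat 379, .ofNat 127, .ofNat 115, .ofNat 1814, .negSucc 449, .negSucc 669⟩, .ofNat 2700, .ofNat 3683, .ofNat 0, .ofNat 3683, .ofNat 5760, .ofNat 0, .ofNat 128, .negSucc 1247, .negSucc 2999, .ofNat 0, .ofNat 819, .ofNat 1937, .ofNat 0, .ofNat 0, .ofNat 2409, .ofNat 3608, .ofNat 0, .ofNat 0, .ofNat 770375762687514425427122768078931717259264, .ofNat 0, .ofNat 0, .ofNat 0, .ofNat 456491059803824460940225451871013386420486144,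 .ofNat 2119503914090397123859101742187873221516220563279839232, .ofNat 0, .ofNat 0, .ofNat 0, .ofNat 0, .ofNat 0, .ofNat 0, .ofNat 1047904626713781318077467286842362886325534720, .ofNat 7525569182055380930789976020245944685974631781287067648⟩)
    (by decide +kernel)
theorem L06388 : Good (Phi V5.P V5.D (-1) (-1)) ⟨7, 114, 4, 10, 3, 6, 3, 4, 6, 2⟩ :=
  leafX_sound T5.ok_mm T5.Ymm.bz_eq (w := 260) (c := ⟨⟨.ofNat 2984, .negSucc 39, .ofNat 28, .negSucc 449, .negSucc 513, .negSucc 248⟩, ⟨.negSucc 1970, .negSucc 15, .negSucc 31, .ofNat 301, .ofNat 344, .ofNat 167⟩, ⟨.negSucc 1874, .negSucc 2, .ofNat 116, .ofNat 1025, .ofNat 138, .ofNat 78⟩, ⟨.ofNat 4079, .ofNat 38, .negSucc 4, .ofNat 432, .negSucc 926, .negSucc 609⟩, ⟨.negSucc 239, .ofNat 111, .ofNat 65, .ofNat 1592, .negSucc 303, .negSucc 385⟩, .ofNat 2696, .ofNat 3677, .ofNat 0, .ofNat 3677, .ofNat 5750, .ofNat 0, .ofNat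 128, .negSucc 1158, .negSucc 3838, .ofNat 0, .ofNat 762, .ofNat 2482, .ofNat 0, .ofNat 0, .ofNat 2905, .ofNat 1787, .ofNat 0, .ofNat 0, .ofNat 8487541825016861569208409245179013637341184, .ofNat 0, .ofNat 0, .ofNat 0, .ofNat 7944423383887962663039775576432912326125944832, .ofNat 0, .ofNat 0, .ofNat 0, .ofNat 4158569092557633004926798567797528087951835136, .ofNat 1161603999211042588713619582294575740850761251875377381376, .ofNat 0, .ofNat 0, .ofNat 0, .ofNat 0⟩)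
    (by decide +kernel)
theorem L06389 : Good (Phi V5.P V5.D (-1) (-1)) ⟨7, 114, 4, 10, 3, 6, 3, 4, 6, 3⟩ :=
  leafX_sound T5.ok_mm T5.Ymm.bz_eq (w := 259) (c := ⟨⟨.ofNat 2681, .ofNat 52, .ofNat 86, .negSucc 279, .negSucc 709, .negSucc 729⟩, ⟨.negSucc 1786, .negSucc 73, .negSucc 44, .ofNat 189, .ofNat 474, .ofNat 487⟩, ⟨.negSucc 1725, .negSucc 79, .ofNat 80, .ofNat 822, .ofNat 293, .ofNat 389⟩, ⟨.ofNat 3473, .ofNat 147, .ofNat 55, .ofNat 516, .negSucc 1154, .negSucc 1385⟩, ⟨.negSucc 516, .ofNat 81, .ofNat 40, .ofNat 1359, .negSucc 233, .negSucc 535⟩, .ofNat 2714, .ofNat 3702, .ofNat 0, .ofNat 3702, .ofNat 5783, .ofNat 0, .ofNat 128, .negSucc 1152, .negSucc 3671, .ofNat 0, .ofNat 759, .ofNat 2377, .ofNat 0, .ofNat 0, .ofNat 2634, .ofNat 1618, .ofNat 0, .ofNat 0, .ofNat 9293364567161629994405947609112232591360000, .ofNat 0, .ofNat 0, .ofNat 0, .ofNat 7641135747220657098111187273409388384217989120,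 .ofNat 0, .ofNat 0, .ofNat 0, .ofNat 0, .ofNat 0, .ofNat 0, .ofNat 0, .ofNat 7747481236492939378874662655595522719297306624, .ofNat 1955504807324771788451411196626426616557450297328699179008⟩)
    (by decide +kernel)
theorem L06390 : Good (Phi V5.P V5.D (-1) (-1)) ⟨7, 115, 4, 10, 3, 6, 3, 4, 5, 1⟩ :=
  out_sound (S := T5.ds_mm) T5.ok_mm (w := 21) (j := 4) (by decide +kernel)
theorem L06391 : Good (Phi V5.P V5.D (-1) (-1)) ⟨6, 56, 4, 11, 3, 6, 3, 4, 4, 0⟩ :=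
  out_sound (S := T5.ds_mm) T5.ok_mm (w := 65) (j := 3) (by decide +kernel)
theorem L06392 : Good (Phi V5.P V5.D (-1) (-1)) ⟨7, 114, 5, 22, 3, 6, 3, 4, 4, 0⟩ :=
  out_sound (S := T5.ds_mm) T5.ok_mm (w := 73) (j := 3) (by decide +kernel)
theorem L06393 : Good (Phi V5.P V5.D (-1) (-1)) ⟨7, 115, 5, 22, 3, 6, 3, 4, 4, 0⟩ :=
  out_sound (S := T5.ds_mm) T5.ok_mm (w := 21) (j := 4) (by decide +kernel)
theorem L06394 : Good (Phi V5.P V5.D (-1) (-1)) ⟨6, 57, 5, 23, 3, 6, 3, 4, 4, 0⟩ :=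
  out_sound (S := T5.ds_mm) T5.ok_mm (w := 67) (j := 3) (by decide +kernel)
theorem L06395 : Good (Phi V5.P V5.D (-1) (-1)) ⟨5, 29, 3, 5, 3, 6, 3, 4, 4, 0⟩ :=
  out_sound (S := T5.ds_mm) T5.ok_mm (w := 17) (j := 4) (by decide +kernel)
theorem L06396 : Good (Phi V5.P V5.D (-1) (-1)) ⟨4, 15, 3, 5, 3, 6, 3, 4, 4, 0⟩ :=
  out_sound (S := T5.ds_mm) T5.ok_mm (w := 51) (j := 3) (by decide +kernel)
theorem L06397 : Good (Phi V5.P V5.D (-1) (-1)) ⟨6, 56, 5, 20, 3, 6, 3, 4, 5, 2⟩ :=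
  leafX_sound T5.ok_mm T5.Ymm.bz_eq (w := 253) (c := ⟨⟨.ofNat 1638, .negSucc 321, .ofNat 159, .ofNat 264, .negSucc 807, .negSucc 3191⟩, ⟨.negSucc 1052, .ofNat 146, .negSucc 44, .negSucc 170, .ofNat 525, .ofNat 2072⟩, ⟨.negSucc 1012, .ofNat 334, .negSucc 145, .ofNat 184, .ofNat 409, .ofNat 1817⟩, ⟨.ofNat 1814, .negSucc 439, .ofNat 246, .ofNat 875, .negSucc 1273, .negSucc 5407⟩, ⟨.negSucc 841, .ofNat 138, .negSucc 4, .ofNat 764, .negSucc 196, .negSucc 1357⟩, .ofNat 2376, .ofNat 3244, .ofNat 0, .ofNat 3244, .ofNat 5188, .ofNat 0, .ofNat 128, .negSucc 825, .negSucc 3112, .ofNat 0, .ofNat 536, .ofNat 1973, .ofNat 0, .ofNat 0, .ofNat 2193, .ofNat 1723, .ofNat 0, .ofNat 0, .ofNat 1595781686138082110310245491787865325043712, .ofNat 0, .ofNat 0, .ofNat 0, .ofNat 55795040050996870564031155526967797819113472, .ofNat 0, .ofNat 0, .ofNat 0, .ofNat 203150978542983107346479506966502895572221952,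 .ofNat 0, .ofNat 0, .ofNat 0, .ofNat 0, .ofNat 0⟩)
    (by decide +kernel)
theorem L06398 : Good (Phi V5.P V5.D (-1) (-1)) ⟨6, 56, 5, 21, 3, 6, 3, 4, 5, 2⟩ :=
  leafX_sound T5.ok_mm T5.Ymm.bz_eq (w := 266) (c := ⟨⟨.ofNat 1374, .ofNat 0, .negSucc 52, .ofNat 423, .negSucc 841, .negSucc 3001⟩, ⟨.negSucc 911, .ofNat 0, .ofNat 61, .negSucc 276, .ofNat 556, .ofNat 1981⟩, ⟨.negSucc 721, .ofNat 0, .negSucc 30, .ofNat 73, .ofNat 421, .ofNat 1648⟩, ⟨.ofNat 652, .negSucc 0, .negSucc 37, .ofNat 504, .negSucc 927, .negSucc 3134⟩, ⟨.negSucc 1922, .ofNat 0, .ofNat 21, .negSucc 131, .ofNat 387, .ofNat 1612⟩, .ofNat 28865, .ofNat 43101, .ofNat 0, .ofNat 43101, .ofNat 65170, .ofNat 0, .ofNat 128, .negSucc 5165, .negSucc 22317, .ofNat 0, .ofNat 3424, .ofNat 14750, .ofNat 0, .ofNat 0, .ofNat 16181, .ofNat 11739, .ofNat 0, .ofNat 0, .ofNat 0, .ofNat 0, .ofNat 0, .ofNat 0, .ofNat 19394162816760215872808159514959832412850225152,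 .ofNat 0, .ofNat 0, .ofNat 0, .ofNat 51379859785192620779037225396733780109360627712, .ofNat 0, .ofNat 0, .ofNat 0, .ofNat 0, .ofNat 0⟩)
    (by decide +kernel)
theorem L06399 : Good (Phi V5.P V5.D (-1) (-1)) ⟨7, 114, 5, 20, 3, 6, 3, 4, 5, 2⟩ :=
  leafX_sound T5.ok_mm T5.Ymm.bz_eq (w := 268) (c := ⟨⟨.ofNat 1219, .ofNat 0, .ofNat 194, .ofNat 359, .negSucc 766, .negSucc 2989⟩, ⟨.negSucc 1113, .ofNat 0, .ofNat 178, .negSucc 233, .ofNat 507, .ofNat 1971⟩, ⟨.negSucc 913, .ofNat 0, .ofNat 174, .ofNat 123, .ofNat 351, .ofNat 1631⟩, ⟨.ofNat 819, .ofNat 1, .negSucc 0, .ofNat 521, .negSucc 1099, .negSucc 3491⟩, ⟨.negSucc 1756, .ofNat 1, .negSucc 0, .ofNat 29, .negSucc 24, .ofNat 1051⟩, .ofNat 21699, .ofNat 32307, .ofNat 0, .ofNat 32307, .ofNat 48912, .ofNat 0, .ofNat 128, .negSucc 4885, .negSucc 18327, .ofNat 0, .ofNat 3237, .ofNat 12103, .ofNat 0, .ofNat 0, .ofNat 13185, .ofNat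 24959, .ofNat 0, .ofNat 0, .ofNat 82135177705437381368909550858370280534835200, .ofNat 0, .ofNat 0, .ofNat 0, .ofNat 5011041248569789705399265900865994516991402049536, .ofNat 0, .ofNat 0, .ofNat 0, .ofNat 6775444231151278612300827296533414070955540480, .ofNat 0, .ofNat 0, .ofNat 0, .ofNat 807936643526311964662461796884679917477386256384, .ofNat 0⟩)
    (by decide +kernel)
theorem L06400 : Good (Phi V5.P V5.D (-1) (-1)) ⟨7, 114, 6, 42, 3, 6, 3, 4, 5, 2⟩ :=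
  leafX_sound T5.ok_mm T5.Ymm.bz_eq (w := 265) (c := ⟨⟨.ofNat 1429, .ofNat 19, .negSucc 10, .ofNat 445, .negSucc 607, .negSucc 3244⟩, ⟨.negSucc 960, .negSucc 7, .ofNat 12, .negSucc 292, .ofNat 409, .ofNat 2160⟩, ⟨.negSucc 772, .ofNat 356, .negSucc 157, .ofNat 104, .ofNat 236, .ofNat 1779⟩, ⟨.ofNat 1578, .negSucc 36, .ofNat 124, .ofNat 972, .negSucc 1093, .negSucc 5366⟩, ⟨.negSucc 642, .ofNat 99, .ofNat 115, .ofNat 519, .negSucc 359, .negSucc 1219⟩, .ofNat 7295, .ofNat 10557, .ofNat 0, .ofNat 10557, .ofNat 16055, .ofNat 0, .ofNat 128, .negSucc 1591, .negSucc 7291, .ofNat 0, .ofNat 1058, .ofNat 4816, .ofNat 0, .ofNat 0, .ofNat 5125, .ofNat 3776, .ofNat 0, .ofNat 0, .ofNat 23436128446948881235379077981045193531457536, .ofNat 0, .ofNat 0, .ofNat 0, .ofNat 6869781935993292875302576204386269661048602624, .ofNat 0, .ofNat 0, .ofNat 0, .ofNat 7215530125225514452413119842217007638254714880,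 .ofNat 5227549013967949972128635505195535961693335647900529590272, .ofNat 0, .ofNat 0, .ofNat 0, .ofNat 0⟩)
    (by decide +kernel)
theorem L06401 : Good (Phi V5.P V5.D (-1) (-1)) ⟨8, 228, 6, 43, 3, 6, 3, 4, 5, 2⟩ :=
  out_sound (S := T5.ds_mm) T5.ok_mm (w := 81) (j := 3) (by decide +kernel)
theorem L06402 : Good (Phi V5.P V5.D (-1) (-1)) ⟨8, 229, 6, 43, 3, 6, 3, 4, 5, 2⟩ :=
  out_sound (S := T5.ds_mm) T5.ok_mm (w := 23) (j := 4) (by decide +kernel)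
theorem L06403 : Good (Phi V5.P V5.D (-1) (-1)) ⟨7, 115, 4, 10, 3, 6, 3, 4, 5, 2⟩ :=
  out_sound (S := T5.ds_mm) T5.ok_mm (w := 21) (j := 4) (by decide +kernel)
theorem L06404 : Good (Phi V5.P V5.D (-1) (-1)) ⟨6, 56, 4, 11, 3, 6, 3, 4, 5, 2⟩ :=
  out_sound (S := T5.ds_mm) T5.ok_mm (w := 65) (j := 3) (by decide +kernel)
theorem L06405 : Good (Phi V5.P V5.D (-1) (-1)) ⟨7, 114, 5, 22, 3, 6, 3, 4, 5, 2⟩ :=
  out_sound (S := T5.ds_mm) T5.ok_mm (w := 73) (j := 3) (by decide +kernel)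
theorem L06406 : Good (Phi V5.P V5.D (-1) (-1)) ⟨7, 115, 5, 22, 3, 6, 3, 4, 5, 2⟩ :=
  out_sound (S := T5.ds_mm) T5.ok_mm (w := 21) (j := 4) (by decide +kernel)
theorem L06407 : Good (Phi V5.P V5.D (-1) (-1)) ⟨6, 57, 5, 23, 3, 6, 3, 4, 5, 2⟩ :=
  out_sound (S := T5.ds_mm) T5.ok_mm (w := 67) (j := 3) (by decide +kernel)
theorem L06408 : Good (Phi V5.P V5.D (-1) (-1)) ⟨5, 28, 4, 10, 3, 6, 3, 4, 6, 6⟩ :=
  leafX_sound T5.ok_mm T5.Ymm.bz_eq (w := 250) (c := ⟨⟨.negSucc 3077, .negSucc 105, .ofNat 30, .ofNat 1612, .ofNat 3, .negSucc 816⟩, ⟨.ofNat 1962, .ofNat 74, .ofNat 113, .negSucc 1065, .ofNat 0, .ofNat 537⟩, ⟨.ofNat 2058, .negSucc 216, .ofNat 148, .negSucc 964, .negSucc 83, .ofNat 376⟩, ⟨.negSucc 5451, .negSucc 25, .negSucc 35, .ofNat 2358, .negSucc 70, .negSucc 1346⟩, ⟨.negSucc 1661, .ofNat 12, .negSucc 26, .ofNat 128, .negSucc 103, .negSucc 291⟩, .ofNat 2570, .ofNat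 3504, .ofNat 0, .ofNat 3504, .ofNat 5521, .ofNat 0, .ofNat 128, .negSucc 697, .negSucc 2219, .ofNat 0, .ofNat 459, .ofNat 1430, .ofNat 0, .ofNat 0, .ofNat 1544, .ofNat 1764, .ofNat 0, .ofNat 0, .ofNat 57494646921924726745427362228398039280648192, .ofNat 0, .ofNat 0, .ofNat 0, .ofNat 39590208809022625445598155725874907934531518464, .ofNat 0, .ofNat 0, .ofNat 0, .ofNat 8950821508964461584499021112433591638093201408, .ofNat 14114810234390415119316811260581037338753645578144448512, .ofNat 0, .ofNat 0, .ofNat 32172396235208903683260841911362685698958163968, .ofNat 20092791940766209371310921518593264242807797872311926784⟩)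
    (by decide +kernel)
theorem L06409 : Good (Phi V5.P V5.D (-1) (-1)) ⟨5, 28, 4, 10, 3, 6, 3, 4, 6, 7⟩ :=
  leafX_sound T5.ok_mm T5.Ymm.bz_eq (w := 249) (c := ⟨⟨.negSucc 4199, .negSucc 88, .negSucc 63, .ofNat 1836, .ofNat 347, .negSucc 115⟩, ⟨.ofNat 2698, .ofNat 29, .ofNat 210, .negSucc 1207, .negSucc 223, .ofNat 75⟩, ⟨.ofNat 2595, .ofNat 189, .negSucc 46, .negSucc 1169, .negSucc 296, .negSucc 38⟩, ⟨.negSucc 7073, .negSucc 111, .negSucc 115, .ofNat 2494, .ofNat 435, .negSucc 155⟩, ⟨.negSucc 1750, .ofNat 9, .negSucc 46, .negSucc 144, .negSucc 81, .ofNat 16⟩, .ofNat 2570, .ofNat 3504, .ofNat 0, .ofNat 3504, .ofNat 5521, .ofNat 0, .ofNat 128, .negSucc 577, .negSucc 1330, .ofNat 0, .ofNat 382, .ofNat 859, .ofNat 0, .ofNat 0, .ofNat 985, .ofNat 2197, .ofNat 0, .ofNat 0, .ofNat 0, .ofNat 0, .ofNat 0, .ofNat 0, .ofNat 31047060421496549031692761163824984083153289216, .ofNat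 0, .ofNat 0, .ofNat 0, .ofNat 5486155607639051201790782784644982521276137472, .ofNat 0, .ofNat 0, .ofNat 0, .ofNat 22595092049687955968174478532007774230232956928, .ofNat 9048198914423765850557303276478138024908324688225107968⟩)
    (by decide +kernel)
theorem L06410 : Good (Phi V5.P V5.D (-1) (-1)) ⟨6, 56, 4, 11, 3, 6, 3, 4, 5, 3⟩ :=
  out_sound (S := T5.ds_mm) T5.ok_mm (w := 65) (j := 3) (by decide +kernel)
theorem L06411 : Good (Phi V5.P V5.D (-1) (-1)) ⟨7, 114, 5, 22, 3, 6, 3, 4, 5, 3⟩ :=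
  out_sound (S := T5.ds_mm) T5.ok_mm (w := 73) (j := 3) (by decide +kernel)
theorem L06412 : Good (Phi V5.P V5.D (-1) (-1)) ⟨7, 115, 5, 22, 3, 6, 3, 4, 5, 3⟩ :=
  out_sound (S := T5.ds_mm) T5.ok_mm (w := 21) (j := 4) (by decide +kernel)
theorem L06413 : Good (Phi V5.P V5.D (-1) (-1)) ⟨6, 57, 5, 23, 3, 6, 3, 4, 5, 3⟩ :=
  out_sound (S := T5.ds_mm) T5.ok_mm (w := 67) (j := 3) (by decide +kernel)
theorem L06414 : Good (Phi V5.P V5.D (-1) (-1)) ⟨5, 29, 3, 5, 3, 6, 3, 4, 4, 1⟩ :=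
  out_sound (S := T5.ds_mm) T5.ok_mm (w := 17) (j := 4) (by decide +kernel)
theorem L06415 : Good (Phi V5.P V5.D (-1) (-1)) ⟨4, 15, 3, 5, 3, 6, 3, 4, 4, 1⟩ :=
  out_sound (S := T5.ds_mm) T5.ok_mm (w := 51) (j := 3) (by decide +kernel)
theorem L06416 : Good (Phi V5.P V5.D (-1) (-1)) ⟨2, 2, 3, 5, 3, 6, 3, 5, 3, 0⟩ :=
  out_sound (S := T5.ds_mm) T5.ok_mm (w := 39) (j := 3) (by decide +kernel)
theorem L06417 : Good (Phi V5.P V5.D (-1) (-1)) ⟨3, 6, 3, 5, 3, 6, 3, 5, 3, 0⟩ :=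
  out_sound (S := T5.ds_mm) T5.ok_mm (w := 45) (j := 3) (by decide +kernel)
theorem L06418 : Good (Phi V5.P V5.D (-1) (-1)) ⟨6, 56, 5, 20, 3, 6, 3, 5, 5, 0⟩ :=
  leafX_sound T5.ok_mm T5.Ymm.bz_eq (w := 255) (c := ⟨⟨.ofNat 2841, .ofNat 190, .negSucc 29, .negSucc 502, .negSucc 700, .negSucc 613⟩, ⟨.negSucc 1809, .negSucc 159, .negSucc 0, .ofNat 334, .ofNat 452, .ofNat 394⟩, ⟨.negSucc 1728, .negSucc 299, .ofNat 151, .ofNat 1028, .ofNat 289, .ofNat 286⟩, ⟨.ofNat 4256, .ofNat 145, .negSucc 11, .ofNat 45, .negSucc 1370, .negSucc 1223⟩, ⟨.ofNat 313, .negSucc 112, .ofNat 35, .ofNat 1166, .negSucc 579, .negSucc 542⟩, .ofNat 5250, .ofNat 7628, .ofNat 0, .ofNat 7628, .ofNat 11891, .ofNat 0, .ofNat 128, .negSucc 1296, .negSucc 2797, .ofNat 0, .ofNat 844, .ofNat 1800, .ofNat 0, .ofNat 0, .ofNat 2270, .ofNat 3064, .ofNat 0, .ofNat 0, .ofNat 0, .ofNat 0, .ofNat 0, .ofNat 0, .ofNat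 4172582085059593744415999951948015413481177088, .ofNat 0, .ofNat 0, .ofNat 0, .ofNat 727405888664464505664840720337777065086418944, .ofNat 0, .ofNat 0, .ofNat 0, .ofNat 0, .ofNat 0⟩)
    (by decide +kernel)
theorem L06419 : Good (Phi V5.P V5.D (-1) (-1)) ⟨6, 56, 5, 21, 3, 6, 3, 5, 5, 0⟩ :=
  leafX_sound T5.ok_mm T5.Ymm.bz_eq (w := 263) (c := ⟨⟨.ofNat 2948, .ofNat 1, .negSucc 88, .negSucc 413, .negSucc 689, .negSucc 645⟩, ⟨.negSucc 1948, .negSucc 0, .ofNat 24, .ofNat 279, .ofNat 454, .ofNat 424⟩, ⟨.negSucc 1837, .negSucc 0, .negSucc 53, .ofNat 988, .ofNat 272, .ofNat 284⟩, ⟨.ofNat 4171, .ofNat 2, .negSucc 22, .negSucc 363, .negSucc 936, .negSucc 852⟩, ⟨.ofNat 42, .ofNat 0, .ofNat 7, .ofNat 332, .ofNat 46, .ofNat 81⟩, .ofNat 23065, .ofNat 34364, .ofNat 0, .ofNat 34364, .ofNat 52011, .ofNat 0, .ofNat 128, .negSucc 5946, .negSucc 11505, .ofNat 0, .ofNat 3940, .ofNat 7599,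 .ofNat 0, .ofNat 0, .ofNat 9344, .ofNat 23061, .ofNat 0, .ofNat 0, .ofNat 0, .ofNat 0, .ofNat 0, .ofNat 0, .ofNat 4533587722609515795986396404242348151677124608, .ofNat 0, .ofNat 0, .ofNat 0, .ofNat 85859789078284361174595360712984122925770604544, .ofNat 0, .ofNat 0, .ofNat 0, .ofNat 134670155702574655734898387688443009422115995648, .ofNat 0⟩)
    (by decide +kernel)
theorem L06420 : Good (Phi V5.P V5.D (-1) (-1)) ⟨7, 114, 5, 20, 3, 6, 3, 5, 5, 0⟩ :=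
  leafX_sound T5.ok_mm T5.Ymm.bz_eq (w := 266) (c := ⟨⟨.ofNat 2944, .negSucc 0, .ofNat 6, .negSucc 441, .negSucc 675, .negSucc 587⟩, ⟨.negSucc 1925, .ofNat 1, .negSucc 23, .ofNat 297, .ofNat 445, .ofNat 386⟩, ⟨.negSucc 1865, .ofNat 1, .ofNat 7, .ofNat 1006, .ofNat 274, .ofNat 282⟩, ⟨.ofNat 4084, .negSucc 1, .ofNat 2, .negSucc 320, .negSucc 859, .negSucc 777⟩, ⟨.negSucc 90, .ofNat 0, .ofNat 0, .ofNat 454, .ofNat 132, .ofNat 68⟩, .ofNat 21713, .ofNat 32328, .ofNat 0, .ofNat 32328, .ofNat 48943, .ofNat 0, .ofNat 128, .negSucc 3795, .negSucc 9664, .ofNat 0, .ofNat 2515, .ofNat 6381, .ofNat 0, .ofNat 0, .ofNat 7922, .ofNat 16867, .ofNat 0, .ofNat 0, .ofNat 0, .ofNat 0, .ofNat 0, .ofNat 0, .ofNat 931476238479471402928157777737516816125531258880, .ofNat 0, .ofNat 0, .ofNat 0, .ofNat 1662384782434882278701697191093243536753033216, .ofNat 0, .ofNat 0, .ofNat 0, .ofNat 10567381138235177234654309925565643777688731648,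 .ofNat 0⟩)
    (by decide +kernel)
theorem L06421 : Good (Phi V5.P V5.D (-1) (-1)) ⟨7, 114, 6, 42, 3, 6, 3, 5, 5, 0⟩ :=
  leafX_sound T5.ok_mm T5.Ymm.bz_eq (w := 265) (c := ⟨⟨.ofNat 2919, .negSucc 6, .negSucc 31, .negSucc 422, .negSucc 619, .negSucc 572⟩, ⟨.negSucc 1935, .negSucc 63, .ofNat 34, .ofNat 285, .ofNat 413, .ofNat 382⟩, ⟨.negSucc 1823, .ofNat 3, .ofNat 30, .ofNat 981, .ofNat 224, .ofNat 268⟩, ⟨.ofNat 4381, .ofNat 40, .ofNat 24, .ofNat 94, .negSucc 1273, .negSucc 1268⟩, ⟨.ofNat 416, .ofNat 65, .ofNat 122, .ofNat 1035, .negSucc 602, .negSucc 693⟩, .ofNat 7180, .ofNat 10391, .ofNat 0, .ofNat 10391, .ofNat 15819, .ofNat 0, .ofNat 128, .negSucc 2367, .negSucc 6339, .ofNat 0, .ofNat 1572, .ofNat 4181, .ofNat 0, .ofNat 0, .ofNat 5091, .ofNat 5206, .ofNat 0, .ofNat 0, .ofNat 10509848275902580643084889465952953815793664, .ofNat 11199793907239211637429673603034201656979327710417387520,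 .ofNat 0, .ofNat 0, .ofNat 18822062163311700761384157561899801388697780224, .ofNat 0, .ofNat 0, .ofNat 0, .ofNat 16585462550707147767805276831257851181276332032, .ofNat 0, .ofNat 0, .ofNat 0, .ofNat 0, .ofNat 0⟩)
    (by decide +kernel)
theorem L06422 : Good (Phi V5.P V5.D (-1) (-1)) ⟨8, 228, 6, 43, 3, 6, 3, 5, 5, 0⟩ :=
  out_sound (S := T5.ds_mm) T5.ok_mm (w := 81) (j := 3) (by decide +kernel)
theorem L06423 : Good (Phi V5.P V5.D (-1) (-1)) ⟨8, 229, 6, 43, 3, 6, 3, 5, 5, 0⟩ :=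
  out_sound (S := T5.ds_mm) T5.ok_mm (w := 23) (j := 4) (by decide +kernel)
theorem L06424 : Good (Phi V5.P V5.D (-1) (-1)) ⟨7, 115, 4, 10, 3, 6, 3, 5, 5, 0⟩ :=
  out_sound (S := T5.ds_mm) T5.ok_mm (w := 21) (j := 4) (by decide +kernel)
theorem L06425 : Good (Phi V5.P V5.D (-1) (-1)) ⟨7, 112, 5, 20, 3, 6, 3, 5, 5, 1⟩ :=
  leafX_sound T5.ok_mm T5.Ymm.bz_eq (w := 264) (c := ⟨⟨.ofNat 2225, .ofNat 169, .ofNat 98, .negSucc 308, .negSucc 1227, .negSucc 1324⟩, ⟨.negSucc 1420, .negSucc 117, .negSucc 62, .ofNat 205, .ofNat 783, .ofNat 842⟩, ⟨.negSucc 1431, .negSucc 76, .negSucc 14, .ofNat 679, .ofNat 681, .ofNat 727⟩, ⟨.ofNat 2830, .ofNat 171, .ofNat 86, .negSucc 73, .negSucc 1840, .negSucc 1972⟩, ⟨.negSucc 549, .negSucc 63, .negSucc 52, .ofNat 567, .negSucc 157, .negSucc 148⟩, .ofNat 10352, .ofNat 15576, .ofNat 0, .ofNat 15576, .ofNat 24290, .ofNat 0, .ofNat 128, .negSucc 2501,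 .negSucc 8020, .ofNat 0, .ofNat 1613, .ofNat 5123, .ofNat 0, .ofNat 0, .ofNat 6088, .ofNat 4835, .ofNat 0, .ofNat 0, .ofNat 1674898636511626379130707380989657771671552, .ofNat 0, .ofNat 0, .ofNat 0, .ofNat 1874275894940970487844638236777077945512493056, .ofNat 0, .ofNat 0, .ofNat 0, .ofNat 1797719106281707362209210645298151138049130496, .ofNat 0, .ofNat 0, .ofNat 0, .ofNat 0, .ofNat 0⟩)
    (by decide +kernel)
theorem L06426 : Good (Phi V5.P V5.D (-1) (-1)) ⟨7, 113, 5, 20, 4, 12, 3, 5, 5, 1⟩ :=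
  leafX_sound T5.ok_mm T5.Ymm.bz_eq (w := 271) (c := ⟨⟨.ofNat 2357, .negSucc 104, .ofNat 296, .negSucc 18, .negSucc 1295, .negSucc 1443⟩, ⟨.negSucc 1527, .ofNat 93, .negSucc 240, .ofNat 14, .ofNat 847, .ofNat 943⟩, ⟨.negSucc 1539, .ofNat 204, .negSucc 332, .ofNat 243, .ofNat 794, .ofNat 867⟩, ⟨.ofNat 3242, .negSucc 220, .ofNat 471, .ofNat 280, .negSucc 2103, .negSucc 2673⟩, ⟨.negSucc 158, .negSucc 0, .ofNat 17, .ofNat 453, .negSucc 411, .negSucc 948⟩, .ofNat 2334, .ofNat 3179, .ofNat 0, .ofNat 3179, .ofNat 5086, .ofNat 0, .ofNat 128, .negSucc 915, .negSucc 4180, .ofNat 0, .ofNat 596, .ofNat 2646, .ofNat 0, .ofNat 0, .ofNat 3174, .ofNat 2490, .ofNat 0, .ofNat 0, .ofNat 0, .ofNat 0, .ofNat 0, .ofNat 0, .ofNat 17496960169385304340499735932383100002041155551232, .ofNat 0, .ofNat 0, .ofNat 0, .ofNat 0, .ofNat 0, .ofNat 0, .ofNat 0, .ofNat 8748722009472895536179561969742057895408059809792,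 .ofNat 0⟩)
    (by decide +kernel)
theorem L06427 : Good (Phi V5.P V5.D (-1) (-1)) ⟨7, 113, 5, 20, 4, 13, 3, 5, 5, 1⟩ :=
  leafX_sound T5.ok_mm T5.Ymm.bz_eq (w := 273) (c := ⟨⟨.ofNat 2294, .ofNat 112, .ofNat 22, .negSucc 291, .negSucc 1136, .negSucc 1208⟩, ⟨.negSucc 1489, .negSucc 63, .negSucc 40, .ofNat 196, .ofNat 738, .ofNat 791⟩, ⟨.negSucc 1149, .ofNat 44, .negSucc 120, .ofNat 442, .ofNat 566, .ofNat 595⟩, ⟨.ofNat 3599, .ofNat 147, .ofNat 53, .negSucc 170, .negSucc 2123, .negSucc 2437⟩, ⟨.ofNat 528, .ofNat 24, .ofNat 21, .ofNat 373, .negSucc 789, .negSucc 1109⟩, .ofNat 3731, .ofNat 5298, .ofNat 0, .ofNat 5298, .ofNat 8310, .ofNat 0, .ofNat 128, .negSucc 1019, .negSucc 4075, .ofNat 0, .ofNat 660, .ofNat 2605, .ofNat 0, .ofNat 0, .ofNat 2827, .ofNat 3192, .ofNat 0, .ofNat 0, .ofNat 18851864368883753239686741469101006612779237376, .ofNat 0, .ofNat 0, .ofNat 0, .ofNat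 32919694988776888672061884350863494701811146686464, .ofNat 0, .ofNat 0, .ofNat 0, .ofNat 5614261353975000409108484672988675483418344030208, .ofNat 0, .ofNat 0, .ofNat 0, .ofNat 0, .ofNat 0⟩)
    (by decide +kernel)
theorem L06428 : Good (Phi V5.P V5.D (-1) (-1)) ⟨6, 56, 5, 21, 3, 6, 3, 5, 5, 1⟩ :=
  leafX_sound T5.ok_mm T5.Ymm.bz_eq (w := 257) (c := ⟨⟨.ofNat 2427, .ofNat 1, .negSucc 38, .negSucc 272, .negSucc 1005, .negSucc 1181⟩, ⟨.negSucc 1609, .ofNat 0, .ofNat 17, .ofNat 185, .ofNat 668, .ofNat 782⟩, ⟨.negSucc 1550, .ofNat 0, .negSucc 52, .ofNat 732, .ofNat 520, .ofNat 622⟩, ⟨.ofNat 3426, .ofNat 1, .negSucc 19, .ofNat 168, .negSucc 1898, .negSucc 2279⟩, ⟨.ofNat 9, .ofNat 0, .ofNat 20, .ofNat 834, .negSucc 718, .negSucc 923⟩, .ofNat 4196, .ofNat 5950, .ofNat 0, .ofNat 5950, .ofNat 9208, .ofNat 0, .ofNat 128, .negSucc 2431, .negSucc 8410, .ofNat 0, .ofNat 1598, .ofNat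 5462, .ofNat 0, .ofNat 0, .ofNat 6072, .ofNat 4298, .ofNat 0, .ofNat 0, .ofNat 3251234026532774999136188127663801558368256, .ofNat 0, .ofNat 0, .ofNat 0, .ofNat 4540004092044974011027336665199681450012573696, .ofNat 0, .ofNat 0, .ofNat 0, .ofNat 5580639798349267571846881594396913510759006208, .ofNat 0, .ofNat 0, .ofNat 0, .ofNat 8381457432022978703662658034449544716195201024, .ofNat 0⟩)
    (by decide +kernel)
theorem L06429 : Good (Phi V5.P V5.D (-1) (-1)) ⟨7, 114, 5, 20, 3, 6, 3, 5, 5, 1⟩ :=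
  leafX_sound T5.ok_mm T5.Ymm.bz_eq (w := 270) (c := ⟨⟨.ofNat 2436, .negSucc 0, .ofNat 32, .negSucc 313, .negSucc 1123, .negSucc 1142⟩, ⟨.negSucc 1651, .ofNat 0, .ofNat 19, .ofNat 211, .ofNat 742, .ofNat 753⟩, ⟨.negSucc 1611, .ofNat 0, .ofNat 34, .ofNat 752, .ofNat 603, .ofNat 604⟩, ⟨.ofNat 2706, .negSucc 0, .ofNat 1, .negSucc 273, .negSucc 1217, .negSucc 1223⟩, ⟨.negSucc 1142, .ofNat 0, .ofNat 0, .ofNat 253, .ofNat 539, .ofNat 566⟩, .ofNat 26838, .ofNat 40047, .ofNat 0, .ofNat 40047, .ofNat 60570, .ofNat 0, .ofNat 128, .negSucc 8118, .negSucc 24094, .ofNat 0, .ofNat 5377, .ofNat 15909, .ofNat 0, .ofNat 0, .ofNat 17957, .ofNat 20386, .ofNat 0, .ofNat 0, .ofNat 18920962500493346057805148111855441823137792, .ofNat 0, .ofNat 0, .ofNat 0, .ofNat 2213882437762931082838609931476253602538160390144, .ofNat 0, .ofNat 0, .ofNat 0, .ofNat 8408021075383473442874742300717287911406436352,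 .ofNat 0, .ofNat 0, .ofNat 0, .ofNat 482549899101428259521044314714596291447365828608, .ofNat 0⟩)
    (by decide +kernel)
theorem L06430 : Good (Phi V5.P V5.D (-1) (-1)) ⟨8, 228, 6, 42, 4, 12, 3, 5, 5, 1⟩ :=
  leafX_sound T5.ok_mm T5.Ymm.bz_eq (w := 283) (c := ⟨⟨.ofNat 2510, .ofNat 38, .ofNat 17, .ofNat 21, .negSucc 1264, .negSucc 1459⟩, ⟨.negSucc 1666, .ofNat 16, .negSucc 63, .negSucc 15, .ofNat 844, .ofNat 974⟩, ⟨.negSucc 1641, .ofNat 24, .negSucc 50, .ofNat 215, .ofNat 766, .ofNat 875⟩, ⟨.ofNat 3416, .negSucc 0, .negSucc 2, .ofNat 404, .negSucc 2063, .negSucc 2635⟩, ⟨.negSucc 170, .negSucc 49, .negSucc 47, .ofNat 558, .negSucc 432, .negSucc 872⟩, .ofNat 7192, .ofNat 10409, .ofNat 0, .ofNat 10409, .ofNat 15844, .ofNat 0, .ofNat 128, .negSucc 1642, .negSucc 7900, .ofNat 0, .ofNat 1093, .ofNat 5214, .ofNat 0, .ofNat 0, .ofNat 6097, .ofNat 6074, .ofNat 0, .ofNat 0, .ofNat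 0, .ofNat 0, .ofNat 0, .ofNat 0, .ofNat 135480800899294692357228605513895739353396968161280, .ofNat 0, .ofNat 0, .ofNat 0, .ofNat 0, .ofNat 0, .ofNat 0, .ofNat 0, .ofNat 0, .ofNat 0⟩)
    (by decide +kernel)
theorem L06431 : Good (Phi V5.P V5.D (-1) (-1)) ⟨8, 228, 6, 42, 4, 13, 3, 5, 5, 1⟩ :=
  leafX_sound T5.ok_mm T5.Ymm.bz_eq (w := 283) (c := ⟨⟨.ofNat 2281, .ofNat 39, .negSucc 17, .negSucc 153, .negSucc 1151, .negSucc 1098⟩, ⟨.negSucc 1513, .negSucc 40, .ofNat 16, .ofNat 103, .ofNat 767, .ofNat 731⟩, ⟨.negSucc 1141, .ofNat 88, .negSucc 89, .ofNat 372, .ofNat 577, .ofNat 530⟩, ⟨.ofNat 3426, .ofNat 127, .ofNat 76, .ofNat 48, .negSucc 2142, .negSucc 2109⟩, ⟨.ofNat 330, .ofNat 139, .ofNat 128, .ofNat 398, .negSucc 786, .negSucc 845⟩, .ofNat 7277, .ofNat 10534, .ofNat 0, .ofNat 10534, .ofNat 16028, .ofNat 0, .ofNat 128, .negSucc 2142, .negSucc 7212, .ofNat 0, .ofNat 1419,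 .ofNat 4751, .ofNat 0, .ofNat 0, .ofNat 4978, .ofNat 8151, .ofNat 0, .ofNat 0, .ofNat 0, .ofNat 0, .ofNat 0, .ofNat 0, .ofNat 40539824703593520948010222520722756135924621377536, .ofNat 0, .ofNat 0, .ofNat 0, .ofNat 60452003555347648114817379871710316577465437257728, .ofNat 518797610228911290552313275784995339148908444578844257340620800, .ofNat 0, .ofNat 0, .ofNat 0, .ofNat 0⟩)
    (by decide +kernel)
theorem L06432 : Good (Phi V5.P V5.D (-1) (-1)) ⟨8, 229, 6, 42, 3, 6, 3, 5, 5, 1⟩ :=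
  out_sound (S := T5.ds_mm) T5.ok_mm (w := 23) (j := 4) (by decide +kernel)
theorem L06433 : Good (Phi V5.P V5.D (-1) (-1)) ⟨8, 228, 6, 43, 3, 6, 3, 5, 5, 1⟩ :=
  out_sound (S := T5.ds_mm) T5.ok_mm (w := 81) (j := 3) (by decide +kernel)
theorem L06434 : Good (Phi V5.P V5.D (-1) (-1)) ⟨8, 229, 6, 43, 3, 6, 3, 5, 5, 1⟩ :=
  out_sound (S := T5.ds_mm) T5.ok_mm (w := 23) (j := 4) (by decide +kernel)
theorem L06435 : Good (Phi V5.P V5.D (-1) (-1)) ⟨7, 115, 4, 10, 3, 6, 3, 5, 5, 1⟩ :=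
  out_sound (S := T5.ds_mm) T5.ok_mm (w := 21) (j := 4) (by decide +kernel)
theorem L06436 : Good (Phi V5.P V5.D (-1) (-1)) ⟨6, 56, 4, 11, 3, 6, 3, 5, 4, 0⟩ :=
  out_sound (S := T5.ds_mm) T5.ok_mm (w := 65) (j := 3) (by decide +kernel)
theorem L06437 : Good (Phi V5.P V5.D (-1) (-1)) ⟨7, 114, 5, 22, 3, 6, 3, 5, 4, 0⟩ :=
  out_sound (S := T5.ds_mm) T5.ok_mm (w := 73) (j := 3) (by decide +kernel)
theorem L06438 : Good (Phi V5.P V5.D (-1) (-1)) ⟨7, 115, 5, 22, 3, 6, 3, 5, 4, 0⟩ :=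
  out_sound (S := T5.ds_mm) T5.ok_mm (w := 21) (j := 4) (by decide +kernel)
theorem L06439 : Good (Phi V5.P V5.D (-1) (-1)) ⟨6, 57, 5, 23, 3, 6, 3, 5, 4, 0⟩ :=
  out_sound (S := T5.ds_mm) T5.ok_mm (w := 67) (j := 3) (by decide +kernel)
theorem L06440 : Good (Phi V5.P V5.D (-1) (-1)) ⟨5, 29, 3, 5, 3, 6, 3, 5, 4, 0⟩ :=
  out_sound (S := T5.ds_mm) T5.ok_mm (w := 17) (j := 4) (by decide +kernel)
theorem L06441 : Good (Phi V5.P V5.D (-1) (-1)) ⟨4, 15, 3, 5, 3, 6, 3, 5, 4, 0⟩ :=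
  out_sound (S := T5.ds_mm) T5.ok_mm (w := 51) (j := 3) (by decide +kernel)
theorem L06442 : Good (Phi V5.P V5.D (-1) (-1)) ⟨6, 56, 5, 20, 4, 12, 3, 5, 6, 4⟩ :=
  leafX_sound T5.ok_mm T5.Ymm.bz_eq (w := 272) (c := ⟨⟨.ofNat 516, .ofNat 34, .ofNat 60, .ofNat 414, .negSucc 1421, .negSucc 1607⟩, ⟨.negSucc 376, .ofNat 10, .negSucc 24, .negSucc 274, .ofNat 929, .ofNat 1052⟩, ⟨.negSucc 544, .ofNat 402, .negSucc 251, .negSucc 175, .ofNat 900, .ofNat 1008⟩, ⟨.ofNat 212, .negSucc 83, .ofNat 156, .ofNat 750, .negSucc 2280, .negSucc 2653⟩, ⟨.negSucc 869, .negSucc 61, .ofNat 53, .ofNat 250, .negSucc 411, .negSucc 579⟩, .ofNat 2370, .ofNat 3237, .ofNat 0, .ofNat 3237, .ofNat 5182, .ofNat 0, .ofNat 128, .negSucc 964, .negSucc 3719, .ofNat 0, .ofNat 628, .ofNat 2355, .ofNat 0, .ofNat 0, .ofNat 2695, .ofNat 965, .ofNat 0, .ofNat 0, .ofNat 1526403053963941074323429982625774566532592959488,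 .ofNat 0, .ofNat 0, .ofNat 0, .ofNat 0, .ofNat 0, .ofNat 0, .ofNat 0, .ofNat 0, .ofNat 0, .ofNat 0, .ofNat 0, .ofNat 0, .ofNat 0⟩)
    (by decide +kernel)

end Crest.Agent.R097C5.N5mm
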