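import Crest.Agent.R097.KP7
import Crest.Agent.R097.T5Ymm

/-!
# Row 97, box cover in dimension n = 5 (generated)
-/

set_option autoImplicit false
set_option Elab.async false
set_option maxHeartbeats 0
set_option maxRecDepth 100000

open Crest.Agent.R097 Crest.Agent.R097.KA


namespace Crest.Agent.R097C5.N5mm

theorem L06443 : Good (Phi V5.P V5.D (-1) (-1)) ⟨6, 56, 5, 20, 4, 13, 3, 5, 6, 4⟩ :=
  leafX_sound T5.ok_mm T5.Ymm.bz_eq (w := 275) (c := ⟨⟨.ofNat 678, .negSucc 57, .ofNat 209, .ofNat 14, .negSucc 1003, .negSucc 1247⟩, ⟨.negSucc 433, .negSucc 5, .negSucc 94, .negSucc 7, .ofNat 652, .ofNat 808⟩, ⟨.negSucc 180, .negSucc 141, .negSucc 12, .ofNat 130, .ofNat 509, .ofNat 674⟩, ⟨.ofNat 525, .negSucc 35, .ofNat 237, .ofNat 281, .negSucc 1813, .negSucc 2166⟩, ⟨.negSucc 671, .ofNat 58, .negSucc 52, .ofNat 398, .negSucc 603, .negSucc 620⟩, .ofNat 5245, .ofNat 7617, .ofNat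 0, .ofNat 7617, .ofNat 11870, .ofNat 0, .ofNat 128, .negSucc 1068, .negSucc 4663, .ofNat 0, .ofNat 694, .ofNat 2996, .ofNat 0, .ofNat 0, .ofNat 3138, .ofNat 3153, .ofNat 0, .ofNat 0, .ofNat 2010449418102760390206115989724424249645465600000, .ofNat 0, .ofNat 0, .ofNat 0, .ofNat 761544421526646670326710349170590710779106895593472, .ofNat 0, .ofNat 0, .ofNat 0, .ofNat 0, .ofNat 0, .ofNat 0, .ofNat 0, .ofNat 0, .ofNat 0⟩)
    (by decide +kernel)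
theorem L06444 : Good (Phi V5.P V5.D (-1) (-1)) ⟨6, 57, 5, 20, 3, 6, 3, 5, 6, 4⟩ :=
  leafX_sound T5.ok_mm T5.Ymm.bz_eq (w := 264) (c := ⟨⟨.ofNat 686, .ofNat 0, .negSucc 93, .ofNat 382, .negSucc 1146, .negSucc 1448⟩, ⟨.negSucc 299, .ofNat 0, .negSucc 94, .negSucc 251, .ofNat 759, .ofNat 957⟩, ⟨.negSucc 267, .ofNat 0, .negSucc 74, .ofNat 24, .ofNat 625, .ofNat 844⟩, ⟨.ofNat 303, .ofNat 1, .ofNat 3, .ofNat 893, .negSucc 2032, .negSucc 2446⟩, ⟨.negSucc 795, .ofNat 1, .negSucc 0, .ofNat 534, .negSucc 627, .negSucc 613⟩, .ofNat 6369, .ofNat 9220, .ofNat 0, .ofNat 9220, .ofNat 14135, .ofNat 0, .ofNat 128, .negSucc 2917, .negSucc 12227, .ofNat 0, .ofNat 1924, .ofNat 7998, .ofNat 0, .ofNat 0, .ofNat 8427, .ofNat 13238, .ofNat 0, .ofNat 0, .ofNat 1639037919691488920002570363826144977870651392, .ofNat 0, .ofNat 0, .ofNat 0, .ofNat 77716900293561056869863227773203738656438159933440,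 .ofNat 0, .ofNat 0, .ofNat 0, .ofNat 5970442321418286580492606198727610341857188380672, .ofNat 0, .ofNat 0, .ofNat 0, .ofNat 51553601381247062219738222793544103131882138370048, .ofNat 0⟩)
    (by decide +kernel)
theorem L06445 : Good (Phi V5.P V5.D (-1) (-1)) ⟨6, 56, 5, 21, 3, 6, 3, 5, 6, 4⟩ :=
  leafX_sound T5.ok_mm T5.Ymm.bz_eq (w := 262) (c := ⟨⟨.ofNat 491, .ofNat 0, .negSucc 10, .ofNat 532, .negSucc 1137, .negSucc 1361⟩, ⟨.negSucc 329, .ofNat 0, .ofNat 35, .negSucc 351, .ofNat 755, .ofNat 901⟩, ⟨.negSucc 284, .ofNat 0, .negSucc 49, .negSucc 79, .ofNat 625, .ofNat 790⟩, ⟨.ofNat 177, .negSucc 0, .ofNat 4, .ofNat 1083, .negSucc 2000, .negSucc 2346⟩, ⟨.negSucc 781, .negSucc 0, .ofNat 8, .ofNat 502, .negSucc 593, .negSucc 642⟩, .ofNat 4201, .ofNat 5957, .ofNat 0, .ofNat 5957, .ofNat 9219, .ofNat 0, .ofNat 128, .negSucc 2328, .negSucc 8461, .ofNat 0, .ofNat 1533, .ofNat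 5500, .ofNat 0, .ofNat 0, .ofNat 5902, .ofNat 5109, .ofNat 0, .ofNat 0, .ofNat 110243958518921385376548063429177044981776384, .ofNat 0, .ofNat 0, .ofNat 0, .ofNat 179683747273924731523924530373360634223474507776, .ofNat 0, .ofNat 0, .ofNat 0, .ofNat 368870560610277366244035317025417991492944789504, .ofNat 0, .ofNat 0, .ofNat 0, .ofNat 345650790843133399637503028861121430825658744832, .ofNat 0⟩)
    (by decide +kernel)
theorem L06446 : Good (Phi V5.P V5.D (-1) (-1)) ⟨8, 228, 6, 42, 4, 12, 3, 5, 6, 4⟩ :=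
  leafX_sound T5.ok_mm T5.Ymm.bz_eq (w := 286) (c := ⟨⟨.ofNat 619, .ofNat 45, .ofNat 71, .ofNat 437, .negSucc 1398, .negSucc 1710⟩, ⟨.negSucc 419, .ofNat 7, .negSucc 73, .negSucc 293, .ofNat 934, .ofNat 1141⟩, ⟨.negSucc 415, .negSucc 88, .ofNat 31, .negSucc 173, .ofNat 868, .ofNat 1082⟩, ⟨.ofNat 291, .ofNat 69, .ofNat 76, .ofNat 814, .negSucc 2265, .negSucc 2785⟩, ⟨.negSucc 874, .negSucc 12, .ofNat 1, .ofNat 298, .negSucc 451, .negSucc 573⟩, .ofNat 4538, .ofNat 6429, .ofNat 0, .ofNat 6429, .ofNat 9872, .ofNat 0, .ofNat 128, .negSucc 1193, .negSucc 5128, .ofNat 0, .ofNat 793, .ofNat 3366, .ofNat 0, .ofNat 0, .ofNat 3729, .ofNat 6214, .ofNat 0, .ofNat 0, .ofNat 0, .ofNat 0, .ofNat 0, .ofNat 0, .ofNat 2039949821308264684602829122913684089232795770028032, .ofNat 0, .ofNat 0, .ofNat 0, .ofNat 1533728602491397878311346638358612695293864284520448, .ofNat 0, .ofNat 0, .ofNat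 0, .ofNat 0, .ofNat 0⟩)
    (by decide +kernel)
theorem L06447 : Good (Phi V5.P V5.D (-1) (-1)) ⟨8, 228, 6, 42, 4, 13, 3, 5, 6, 4⟩ :=
  leafX_sound T5.ok_mm T5.Ymm.bz_eq (w := 289) (c := ⟨⟨.ofNat 802, .ofNat 101, .ofNat 1, .ofNat 74, .negSucc 1112, .negSucc 1304⟩, ⟨.negSucc 539, .negSucc 66, .ofNat 9, .negSucc 48, .ofNat 742, .ofNat 868⟩, ⟨.negSucc 303, .ofNat 148, .negSucc 216, .ofNat 98, .ofNat 556, .ofNat 702⟩, ⟨.ofNat 797, .ofNat 64, .ofNat 37, .ofNat 266, .negSucc 1998, .negSucc 2231⟩, ⟨.negSucc 493, .negSucc 32, .negSucc 21, .ofNat 242, .negSucc 654, .negSucc 602⟩, .ofNat 7194, .ofNat 10410, .ofNat 0, .ofNat 10410, .ofNat 15846, .ofNat 0, .ofNat 128, .negSucc 1912, .negSucc 8478, .ofNat 0, .ofNat 1268, .ofNat 5583, .ofNat 0, .ofNat 0, .ofNat 5573, .ofNat 8407, .ofNat 0, .ofNat 0, .ofNat 0, .ofNat 0, .ofNat 0, .ofNat 0, .ofNat 755283600848051485784684407747409202110630182518784,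 .ofNat 0, .ofNat 0, .ofNat 0, .ofNat 3625937609425376480197875240849101119390403478421504, .ofNat 0, .ofNat 0, .ofNat 0, .ofNat 0, .ofNat 0⟩)
    (by decide +kernel)
theorem L06448 : Good (Phi V5.P V5.D (-1) (-1)) ⟨8, 229, 6, 42, 3, 6, 3, 5, 6, 4⟩ :=
  out_sound (S := T5.ds_mm) T5.ok_mm (w := 23) (j := 4) (by decide +kernel)
theorem L06449 : Good (Phi V5.P V5.D (-1) (-1)) ⟨8, 228, 6, 43, 3, 6, 3, 5, 6, 4⟩ :=
  out_sound (S := T5.ds_mm) T5.ok_mm (w := 81) (j := 3) (by decide +kernel)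
theorem L06450 : Good (Phi V5.P V5.D (-1) (-1)) ⟨8, 229, 6, 43, 3, 6, 3, 5, 6, 4⟩ :=
  out_sound (S := T5.ds_mm) T5.ok_mm (w := 23) (j := 4) (by decide +kernel)
theorem L06451 : Good (Phi V5.P V5.D (-1) (-1)) ⟨7, 115, 5, 21, 3, 6, 3, 5, 6, 4⟩ :=
  out_sound (S := T5.ds_mm) T5.ok_mm (w := 21) (j := 4) (by decide +kernel)
theorem L06452 : Good (Phi V5.P V5.D (-1) (-1)) ⟨6, 56, 4, 11, 3, 6, 3, 5, 6, 4⟩ :=
  out_sound (S := T5.ds_mm) T5.ok_mm (w := 65) (j := 3) (by decide +kernel)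
theorem L06453 : Good (Phi V5.P V5.D (-1) (-1)) ⟨7, 114, 5, 22, 3, 6, 3, 5, 6, 4⟩ :=
  out_sound (S := T5.ds_mm) T5.ok_mm (w := 73) (j := 3) (by decide +kernel)
theorem L06454 : Good (Phi V5.P V5.D (-1) (-1)) ⟨7, 115, 5, 22, 3, 6, 3, 5, 6, 4⟩ :=
  out_sound (S := T5.ds_mm) T5.ok_mm (w := 21) (j := 4) (by decide +kernel)
theorem L06455 : Good (Phi V5.P V5.D (-1) (-1)) ⟨6, 57, 5, 23, 3, 6, 3, 5, 6, 4⟩ :=
  out_sound (S := T5.ds_mm) T5.ok_mm (w := 67) (j := 3) (by decide +kernel)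
theorem L06456 : Good (Phi V5.P V5.D (-1) (-1)) ⟨6, 56, 4, 10, 4, 12, 3, 5, 6, 5⟩ :=
  leafX_sound T5.ok_mm T5.Ymm.bz_eq (w := 272) (c := ⟨⟨.negSucc 1743, .negSucc 57, .ofNat 166, .ofNat 853, .negSucc 724, .negSucc 1210⟩, ⟨.ofNat 1142, .negSucc 72, .ofNat 136, .negSucc 555, .ofNat 472, .ofNat 791⟩, ⟨.ofNat 1251, .negSucc 165, .ofNat 129, .negSucc 587, .ofNat 420, .ofNat 698⟩, ⟨.negSucc 3253, .negSucc 86, .ofNat 78, .ofNat 1174, .negSucc 1195, .negSucc 2049⟩, ⟨.negSucc 1182, .negSucc 66, .negSucc 175, .negSucc 46, .negSucc 258, .negSucc 527⟩, .ofNat 5227, .ofNat 7595, .ofNat 0, .ofNat 7595, .ofNat 11844, .ofNat 0, .ofNat 128, .negSucc 728, .negSucc 4289, .ofNat 0, .ofNat 476, .ofNat 2764, .ofNat 0, .ofNat 0, .ofNat 3130, .ofNat 2428, .ofNat 0, .ofNat 0, .ofNat 792897684688369738896166891888746795086322335744, .ofNat 0, .ofNat 0, .ofNat 0, .ofNat 781257762322023497211187640274879909299274052009984,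 .ofNat 0, .ofNat 0, .ofNat 0, .ofNat 121315578434080704285523771741571836851670734602240, .ofNat 0, .ofNat 0, .ofNat 0, .ofNat 886228140653900778621298348865874645814385758437376, .ofNat 0⟩)
    (by decide +kernel)
theorem L06457 : Good (Phi V5.P V5.D (-1) (-1)) ⟨7, 114, 4, 10, 4, 12, 3, 5, 6, 5⟩ :=
  leafX_sound T5.ok_mm T5.Ymm.bz_eq (w := 275) (c := ⟨⟨.negSucc 1701, .ofNat 183, .ofNat 176, .ofNat 768, .negSucc 758, .negSucc 1504⟩, ⟨.ofNat 1034, .negSucc 139, .ofNat 45, .negSucc 512, .ofNat 512, .ofNat 1001⟩, ⟨.ofNat 1058, .negSucc 127, .negSucc 22, .negSucc 500, .ofNat 450, .ofNat 898⟩, ⟨.negSucc 3236, .ofNat 290, .ofNat 125, .ofNat 1077, .negSucc 1304, .negSucc 2302⟩, ⟨.negSucc 1356, .negSucc 27, .negSucc 19, .negSucc 0, .negSucc 347, .negSucc 293⟩, .ofNat 2699, .ofNat 3681, .ofNat 0, .ofNat 3681, .ofNat 5757, .ofNat 0, .ofNat 128, .negSucc 1246, .negSucc 6622, .ofNat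 0, .ofNat 825, .ofNat 4292, .ofNat 0, .ofNat 0, .ofNat 4646, .ofNat 2334, .ofNat 0, .ofNat 0, .ofNat 0, .ofNat 0, .ofNat 0, .ofNat 0, .ofNat 142090455737333653067414443573189016115149275136000, .ofNat 0, .ofNat 0, .ofNat 0, .ofNat 0, .ofNat 0, .ofNat 0, .ofNat 0, .ofNat 231870139497766263887204962556545640656836031938560, .ofNat 85016915473327171603167878064341670507997865408384384450428928⟩)
    (by decide +kernel)
theorem L06458 : Good (Phi V5.P V5.D (-1) (-1)) ⟨7, 115, 4, 10, 4, 12, 3, 5, 6, 5⟩ :=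
  out_sound (S := T5.ds_mm) T5.ok_mm (w := 21) (j := 4) (by decide +kernel)
theorem L06459 : Good (Phi V5.P V5.D (-1) (-1)) ⟨6, 56, 4, 10, 4, 13, 3, 5, 6, 5⟩ :=
  leafX_sound T5.ok_mm T5.Ymm.bz_eq (w := 272) (c := ⟨⟨.negSucc 1157, .negSucc 182, .ofNat 81, .ofNat 663, .negSucc 417, .negSucc 922⟩, ⟨.ofNat 731, .ofNat 98, .ofNat 61, .negSucc 432, .ofNat 274, .ofNat 598⟩, ⟨.ofNat 818, .ofNat 132, .negSucc 33, .negSucc 349, .ofNat 136, .ofNat 444⟩, ⟨.negSucc 2469, .negSucc 219, .ofNat 0, .ofNat 1035, .negSucc 828, .negSucc 1588⟩, ⟨.negSucc 1265, .ofNat 15, .negSucc 100, .ofNat 153, .negSucc 364, .negSucc 439⟩, .ofNat 5328, .ofNat 7736, .ofNat 0, .ofNat 7736, .ofNat 12040, .ofNat 0, .ofNat 128, .negSucc 806, .negSucc 4302, .ofNat 0, .ofNat 525, .ofNat 2769, .ofNat 0, .ofNat 0, .ofNat 2844, .ofNat 1490, .ofNat 0, .ofNat 0, .ofNat 1000096198215570657094447819206421607993594347520,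 .ofNat 0, .ofNat 0, .ofNat 0, .ofNat 0, .ofNat 0, .ofNat 0, .ofNat 0, .ofNat 171696030999907824772584282529562795511213572751360, .ofNat 0, .ofNat 0, .ofNat 0, .ofNat 1037531761921654998215031706363873761096215103012864, .ofNat 0⟩)
    (by decide +kernel)
theorem L06460 : Good (Phi V5.P V5.D (-1) (-1)) ⟨7, 114, 5, 20, 4, 13, 3, 5, 6, 5⟩ :=
  leafX_sound T5.ok_mm T5.Ymm.bz_eq (w := 289) (c := ⟨⟨.negSucc 1109, .ofNat 1, .ofNat 35, .ofNat 593, .negSucc 482, .negSucc 1105⟩, ⟨.ofNat 662, .negSucc 0, .ofNat 45, .negSucc 390, .ofNat 318, .ofNat 729⟩, ⟨.ofNat 764, .ofNat 0, .ofNat 22, .negSucc 309, .ofNat 177, .ofNat 559⟩, ⟨.negSucc 2727, .ofNat 2, .negSucc 1, .ofNat 645, .negSucc 589, .negSucc 1236⟩, ⟨.negSucc 1835, .ofNat 1, .negSucc 0, .negSucc 278, .ofNat 133, .ofNat 469⟩, .ofNat 21704, .ofNat 32314, .ofNat 0, .ofNat 32314, .ofNat 48923, .ofNat 0, .ofNat 128, .negSucc 7924,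 .negSucc 39662, .ofNat 0, .ofNat 5247, .ofNat 26172, .ofNat 0, .ofNat 0, .ofNat 26576, .ofNat 94450, .ofNat 0, .ofNat 0, .ofNat 0, .ofNat 0, .ofNat 0, .ofNat 0, .ofNat 993826868007290874136409358812067784361248869228478464, .ofNat 0, .ofNat 0, .ofNat 0, .ofNat 27656394779579920615781481602841813591156297677406208, .ofNat 0, .ofNat 0, .ofNat 0, .ofNat 105262092659525837911023786544190482355956424451817472, .ofNat 0⟩)
    (by decide +kernel)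
theorem L06461 : Good (Phi V5.P V5.D (-1) (-1)) ⟨7, 114, 5, 21, 4, 13, 3, 5, 6, 5⟩ :=
  leafX_sound T5.ok_mm T5.Ymm.bz_eq (w := 278) (c := ⟨⟨.negSucc 1109, .negSucc 1, .negSucc 85, .ofNat 602, .negSucc 492, .negSucc 1082⟩, ⟨.ofNat 728, .ofNat 56, .ofNat 42, .negSucc 401, .ofNat 331, .ofNat 720⟩, ⟨.ofNat 818, .ofNat 117, .negSucc 52, .negSucc 305, .ofNat 170, .ofNat 530⟩, ⟨.negSucc 2450, .negSucc 40, .negSucc 45, .ofNat 1017, .negSucc 942, .negSucc 1823⟩, ⟨.negSucc 1344, .ofNat 26, .ofNat 29, .ofNat 254, .negSucc 363, .negSucc 455⟩, .ofNat 2851, .ofNat 3892, .ofNat 0, .ofNat 3892, .ofNat 6040, .ofNat 0, .ofNat 128, .negSucc 1023, .negSucc 6434, .ofNat 0, .ofNat 675, .ofNat 4178, .ofNat 0, .ofNat 0, .ofNat 3968, .ofNat 2459, .ofNat 0, .ofNat 0, .ofNat 863760756653192607799821396464198655779710959616, .ofNat 0, .ofNat 0, .ofNat 0, .ofNat 164094040312884124469502657259547022064349605789696,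 .ofNat 0, .ofNat 0, .ofNat 0, .ofNat 107991635474045304585750735670514863701293438861312, .ofNat 115935286819284317518996148920602536785874804188427711246499840, .ofNat 0, .ofNat 0, .ofNat 1246478767980327663966666802557921439462685631578112, .ofNat 661417337545967598919845139152210108967962844513164685492617216⟩)
    (by decide +kernel)
theorem L06462 : Good (Phi V5.P V5.D (-1) (-1)) ⟨7, 115, 4, 10, 4, 13, 3, 5, 6, 5⟩ :=
  out_sound (S := T5.ds_mm) T5.ok_mm (w := 21) (j := 4) (by decide +kernel)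
theorem L06463 : Good (Phi V5.P V5.D (-1) (-1)) ⟨6, 56, 4, 11, 3, 6, 3, 5, 6, 5⟩ :=
  out_sound (S := T5.ds_mm) T5.ok_mm (w := 65) (j := 3) (by decide +kernel)
theorem L06464 : Good (Phi V5.P V5.D (-1) (-1)) ⟨7, 114, 5, 22, 3, 6, 3, 5, 6, 5⟩ :=
  out_sound (S := T5.ds_mm) T5.ok_mm (w := 73) (j := 3) (by decide +kernel)
theorem L06465 : Good (Phi V5.P V5.D (-1) (-1)) ⟨7, 115, 5, 22, 3, 6, 3, 5, 6, 5⟩ :=
  out_sound (S := T5.ds_mm) T5.ok_mm (w := 21) (j := 4) (by decide +kernel)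
theorem L06466 : Good (Phi V5.P V5.D (-1) (-1)) ⟨6, 57, 5, 23, 3, 6, 3, 5, 6, 5⟩ :=
  out_sound (S := T5.ds_mm) T5.ok_mm (w := 67) (j := 3) (by decide +kernel)
theorem L06467 : Good (Phi V5.P V5.D (-1) (-1)) ⟨5, 29, 3, 5, 3, 6, 3, 5, 5, 2⟩ :=
  out_sound (S := T5.ds_mm) T5.ok_mm (w := 17) (j := 4) (by decide +kernel)
theorem L06468 : Good (Phi V5.P V5.D (-1) (-1)) ⟨4, 15, 3, 5, 3, 6, 3, 5, 5, 2⟩ :=
  out_sound (S := T5.ds_mm) T5.ok_mm (w := 51) (j := 3) (by decide +kernel)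
theorem L06469 : Good (Phi V5.P V5.D (-1) (-1)) ⟨6, 56, 4, 10, 3, 6, 3, 5, 5, 3⟩ :=
  leafX_sound T5.ok_mm T5.Ymm.bz_eq (w := 252) (c := ⟨⟨.negSucc 3726, .negSucc 7, .ofNat 17, .ofNat 1854, .ofNat 388, .negSucc 237⟩, ⟨.ofNat 2395, .negSucc 38, .ofNat 182, .negSucc 1204, .negSucc 250, .ofNat 157⟩, ⟨.ofNat 2398, .negSucc 41, .ofNat 20, .negSucc 1224, .negSucc 334, .negSucc 74⟩, ⟨.negSucc 6230, .negSucc 65, .negSucc 57, .ofNat 2472, .ofNat 433, .negSucc 454⟩, ⟨.negSucc 1484, .negSucc 82, .negSucc 136, .negSucc 226, .negSucc 164, .negSucc 178⟩, .ofNat 5300, .ofNat 7696, .ofNat 0, .ofNat 7696, .ofNat 11981, .ofNat 0, .ofNat 128, .negSucc 1212, .negSucc 3094, .ofNat 0, .ofNat 792, .ofNat 1996, .ofNat 0, .ofNat 0, .ofNat 2263, .ofNat 2704, .ofNat 0, .ofNat 0, .ofNat 541378007142905718253514824780633125945344, .ofNat 0, .ofNat 0, .ofNat 0, .ofNat 818952615899445294241582058679975432842903552,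 .ofNat 0, .ofNat 0, .ofNat 0, .ofNat 1145820752682994331898480499967147264366870528, .ofNat 0, .ofNat 0, .ofNat 0, .ofNat 756034891436962975987834772726744733693509632, .ofNat 0⟩)
    (by decide +kernel)
theorem L06470 : Good (Phi V5.P V5.D (-1) (-1)) ⟨7, 114, 5, 20, 3, 6, 3, 5, 5, 3⟩ :=
  leafX_sound T5.ok_mm T5.Ymm.bz_eq (w := 270) (c := ⟨⟨.negSucc 3772, .ofNat 1, .negSucc 6, .ofNat 1842, .ofNat 376, .negSucc 191⟩, ⟨.ofNat 2473, .negSucc 0, .ofNat 20, .negSucc 1216, .negSucc 247, .ofNat 127⟩, ⟨.ofNat 2418, .negSucc 0, .negSucc 18, .negSucc 1215, .negSucc 327, .negSucc 100⟩, ⟨.negSucc 6238, .ofNat 3, .negSucc 2, .ofNat 1927, .ofNat 350, .negSucc 212⟩, ⟨.negSucc 1405, .ofNat 1, .negSucc 0, .negSucc 985, .negSucc 263, .ofNat 85⟩, .ofNat 21693, .ofNat 32299, .ofNat 0, .ofNat 32299, .ofNat 48899, .ofNat 0, .ofNat 128, .negSucc 8165, .negSucc 31143, .ofNat 0, .ofNat 5414,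 .ofNat 20569, .ofNat 0, .ofNat 0, .ofNat 23103, .ofNat 40848, .ofNat 0, .ofNat 0, .ofNat 11056385436807022770742247326418220091441152, .ofNat 0, .ofNat 0, .ofNat 0, .ofNat 2983114419124619593715964265961305585938254004224, .ofNat 0, .ofNat 0, .ofNat 0, .ofNat 257922458333387425033449603774242433848473288704, .ofNat 0, .ofNat 0, .ofNat 0, .ofNat 29137700303348540577519262361352823900293038080, .ofNat 0⟩)
    (by decide +kernel)
theorem L06471 : Good (Phi V5.P V5.D (-1) (-1)) ⟨7, 114, 5, 21, 3, 6, 3, 5, 5, 3⟩ :=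
  leafX_sound T5.ok_mm T5.Ymm.bz_eq (w := 262) (c := ⟨⟨.negSucc 3896, .negSucc 5, .negSucc 68, .ofNat 1900, .ofNat 447, .negSucc 114⟩, ⟨.ofNat 2574, .ofNat 38, .ofNat 80, .negSucc 1263, .negSucc 295, .ofNat 79⟩, ⟨.ofNat 2498, .ofNat 119, .negSucc 119, .negSucc 1250, .negSucc 377, .negSucc 171⟩, ⟨.negSucc 6532, .negSucc 72, .negSucc 94, .ofNat 2522, .ofNat 497, .negSucc 247⟩, ⟨.negSucc 1603, .negSucc 59, .negSucc 39, .negSucc 217, .negSucc 184, .negSucc 123⟩, .ofNat 8455, .ofNat 12236, .ofNat 0, .ofNat 12236, .ofNat 18480, .ofNat 0, .ofNat 128, .negSucc 1710, .negSucc 5144, .ofNat 0, .ofNat 1145, .ofNat 3422, .ofNat 0, .ofNat 0, .ofNat 3618, .ofNat 6058, .ofNat 0, .ofNat 0, .ofNat 0, .ofNat 0, .ofNat 0, .ofNat 0, .ofNat 2479550217445411532763618770790366476127698944, .ofNat 0, .ofNat 0, .ofNat 0, .ofNat 1888891578124065689491598152644074653452599296, .ofNat 699363973545920223461569062784553985272211415933080567808,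 .ofNat 0, .ofNat 0, .ofNat 0, .ofNat 0⟩)
    (by decide +kernel)
theorem L06472 : Good (Phi V5.P V5.D (-1) (-1)) ⟨7, 115, 4, 10, 3, 6, 3, 5, 5, 3⟩ :=
  out_sound (S := T5.ds_mm) T5.ok_mm (w := 21) (j := 4) (by decide +kernel)
theorem L06473 : Good (Phi V5.P V5.D (-1) (-1)) ⟨6, 56, 4, 11, 3, 6, 3, 5, 5, 3⟩ :=
  out_sound (S := T5.ds_mm) T5.ok_mm (w := 65) (j := 3) (by decide +kernel)
theorem L06474 : Good (Phi V5.P V5.D (-1) (-1)) ⟨7, 114, 5, 22, 3, 6, 3, 5, 5, 3⟩ :=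
  out_sound (S := T5.ds_mm) T5.ok_mm (w := 73) (j := 3) (by decide +kernel)
theorem L06475 : Good (Phi V5.P V5.D (-1) (-1)) ⟨7, 115, 5, 22, 3, 6, 3, 5, 5, 3⟩ :=
  out_sound (S := T5.ds_mm) T5.ok_mm (w := 21) (j := 4) (by decide +kernel)
theorem L06476 : Good (Phi V5.P V5.D (-1) (-1)) ⟨6, 57, 5, 23, 3, 6, 3, 5, 5, 3⟩ :=
  out_sound (S := T5.ds_mm) T5.ok_mm (w := 67) (j := 3) (by decide +kernel)
theorem L06477 : Good (Phi V5.P V5.D (-1) (-1)) ⟨5, 29, 3, 5, 3, 6, 3, 5, 5, 3⟩ :=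
  out_sound (S := T5.ds_mm) T5.ok_mm (w := 17) (j := 4) (by decide +kernel)
theorem L06478 : Good (Phi V5.P V5.D (-1) (-1)) ⟨4, 15, 3, 5, 3, 6, 3, 5, 5, 3⟩ :=
  out_sound (S := T5.ds_mm) T5.ok_mm (w := 51) (j := 3) (by decide +kernel)
theorem L06479 : Good (Phi V5.P V5.D (-1) (-1)) ⟨2, 2, 4, 10, 4, 14, 3, 4, 4, 0⟩ :=
  out_sound (S := T5.ds_mm) T5.ok_mm (w := 41) (j := 3) (by decide +kernel)
theorem L06480 : Good (Phi V5.P V5.D (-1) (-1)) ⟨3, 6, 4, 10, 4, 14, 3, 4, 4, 0⟩ :=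
  out_sound (S := T5.ds_mm) T5.ok_mm (w := 47) (j := 3) (by decide +kernel)
theorem L06481 : Good (Phi V5.P V5.D (-1) (-1)) ⟨5, 28, 5, 20, 4, 14, 3, 4, 5, 0⟩ :=
  leafX_sound T5.ok_mm T5.Ymm.bz_eq (w := 264) (c := ⟨⟨.ofNat 2740, .ofNat 568, .ofNat 69, .ofNat 297, .negSucc 426, .negSucc 612⟩, ⟨.negSucc 1730, .negSucc 388, .negSucc 105, .negSucc 182, .ofNat 271, .ofNat 392⟩, ⟨.negSucc 795, .ofNat 91, .negSucc 123, .ofNat 246, .ofNat 2, .ofNat 193⟩, ⟨.ofNat 5435, .ofNat 559, .ofNat 369, .ofNat 1081, .negSucc 1079, .negSucc 1447⟩, ⟨.ofNat 2311, .negSucc 1, .ofNat 304, .ofNat 1029, .negSucc 729, .negSucc 889⟩, .ofNat 5201, .ofNat 7557, .ofNat 0, .ofNat 7557, .ofNat 11789, .ofNat 0, .ofNat 128, .negSucc 959, .negSucc 2273, .ofNat 0, .ofNat 618, .ofNat 1453, .ofNat 0, .ofNat 0, .ofNat 1629, .ofNat 1547, .ofNat 0, .ofNat 0, .ofNat 146267852241337727216239725231434409148552314880,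 .ofNat 0, .ofNat 0, .ofNat 0, .ofNat 49045839180741463473501751136219460610357211430912, .ofNat 0, .ofNat 0, .ofNat 0, .ofNat 13967169340724582070035676967807812995824201236480, .ofNat 85876409397307293586043350676749690587253785647385162022912, .ofNat 0, .ofNat 0, .ofNat 16471184814696004694051593523977187557831769849856, .ofNat 157113030736206534193643058354907468364992733882685449043968⟩)
    (by decide +kernel)
theorem L06482 : Good (Phi V5.P V5.D (-1) (-1)) ⟨6, 56, 5, 21, 4, 14, 3, 4, 5, 0⟩ :=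
  leafX_sound T5.ok_mm T5.Ymm.bz_eq (w := 273) (c := ⟨⟨.ofNat 2823, .ofNat 1, .negSucc 74, .ofNat 651, .negSucc 363, .negSucc 447⟩, ⟨.negSucc 1860, .negSucc 0, .negSucc 46, .negSucc 423, .ofNat 239, .ofNat 297⟩, ⟨.negSucc 717, .ofNat 0, .negSucc 69, .ofNat 78, .negSucc 45, .ofNat 98⟩, ⟨.ofNat 5740, .ofNat 3, .negSucc 32, .ofNat 1529, .negSucc 1003, .negSucc 1309⟩, ⟨.ofNat 2671, .ofNat 1, .ofNat 2, .ofNat 932, .negSucc 741, .negSucc 1020⟩, .ofNat 6500, .ofNat 9417, .ofNat 0, .ofNat 9417, .ofNat 14432, .ofNat 0, .ofNat 128, .negSucc 3979, .negSucc 11355, .ofNat 0, .ofNat 2607, .ofNat 7406, .ofNat 0, .ofNat 0, .ofNat 8135, .ofNat 14548, .ofNat 0, .ofNat 0, .ofNat 0, .ofNat 0, .ofNat 0, .ofNat 0, .ofNat 383288749680529259194435713701806044287805421518848, .ofNat 0, .ofNat 0, .ofNat 0, .ofNat 522335752522919260084026803784120534890189787496448, .ofNat 0, .ofNat 0, .ofNat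 0, .ofNat 916898865894545147328197463114019147856794894729216, .ofNat 0⟩)
    (by decide +kernel)
theorem L06483 : Good (Phi V5.P V5.D (-1) (-1)) ⟨6, 57, 5, 21, 4, 14, 3, 4, 5, 0⟩ :=
  leafX_sound T5.ok_mm T5.Ymm.bz_eq (w := 272) (c := ⟨⟨.ofNat 2859, .ofNat 14, .ofNat 52, .ofNat 727, .negSucc 299, .negSucc 525⟩, ⟨.negSucc 1884, .ofNat 90, .negSucc 170, .negSucc 479, .ofNat 203, .ofNat 351⟩, ⟨.negSucc 736, .ofNat 47, .negSucc 1, .ofNat 40, .negSucc 94, .ofNat 149⟩, ⟨.ofNat 5826, .ofNat 91, .ofNat 249, .ofNat 1732, .negSucc 1030, .negSucc 1417⟩, ⟨.ofNat 2717, .ofNat 124, .ofNat 232, .ofNat 1076, .negSucc 907, .negSucc 1014⟩, .ofNat 7204, .ofNat 10425, .ofNat 0, .ofNat 10425, .ofNat 15866, .ofNat 0, .ofNat 128, .negSucc 2506, .negSucc 6482, .ofNat 0, .ofNat 1653, .ofNat 4259, .ofNat 0, .ofNat 0, .ofNat 4555, .ofNat 4942, .ofNat 0, .ofNat 0, .ofNat 184043008765770531319802784126744630487104356352,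 .ofNat 7127165330606524545026000908770045619842762675931490287616, .ofNat 0, .ofNat 0, .ofNat 76630480235219942463299354732266836574598145769472, .ofNat 3703298784132338373977354701825672878153326751111772106653696, .ofNat 0, .ofNat 0, .ofNat 111492736998455939100792713314317995954075720482816, .ofNat 5527314762786313743278505706880401146098536864474305946189824, .ofNat 0, .ofNat 0, .ofNat 192528493097807084481204116051111276112791608492032, .ofNat 13034283389669678712912421724176076859941950468909726332616704⟩)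
    (by decide +kernel)
theorem L06484 : Good (Phi V5.P V5.D (-1) (-1)) ⟨5, 28, 5, 20, 4, 14, 3, 4, 5, 1⟩ :=
  leafX_sound T5.ok_mm T5.Ymm.bz_eq (w := 265) (c := ⟨⟨.ofNat 2503, .ofNat 414, .ofNat 206, .negSucc 179, .negSucc 675, .negSucc 1241⟩, ⟨.negSucc 1604, .negSucc 255, .negSucc 174, .ofNat 120, .ofNat 436, .ofNat 806⟩, ⟨.negSucc 776, .negSucc 43, .negSucc 119, .ofNat 442, .ofNat 192, .ofNat 468⟩, ⟨.ofNat 4738, .ofNat 416, .ofNat 468, .ofNat 162, .negSucc 1441, .negSucc 2809⟩, ⟨.ofNat 1790, .negSucc 33, .ofNat 216, .ofNat 641, .negSucc 749, .negSucc 1612⟩, .ofNat 5310, .ofNat 7710, .ofNat 0, .ofNat 7710, .ofNat 12002, .ofNat 0, .ofNat 128, .negSucc 1025, .negSucc 2929, .ofNat 0, .ofNat 662, .ofNat 1877, .ofNat 0, .ofNat 0, .ofNat 1921, .ofNat 1749, .ofNat 0, .ofNat 0, .ofNat 39902054967617500061013701671875506638591885312, .ofNat 0, .ofNat 0, .ofNat 0, .ofNat 77007155501749521813274054790327934204455396835328,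 .ofNat 0, .ofNat 0, .ofNat 0, .ofNat 2169089323826937105523949228308129676943756886016, .ofNat 96315607454871974013859157585644867210051238113841132863488, .ofNat 0, .ofNat 0, .ofNat 42367231606738011716144029705792182428088682938368, .ofNat 0⟩)
    (by decide +kernel)
theorem L06485 : Good (Phi V5.P V5.D (-1) (-1)) ⟨6, 56, 5, 21, 4, 14, 3, 4, 5, 1⟩ :=
  leafX_sound T5.ok_mm T5.Ymm.bz_eq (w := 278) (c := ⟨⟨.ofNat 2785, .ofNat 1, .negSucc 60, .ofNat 174, .negSucc 740, .negSucc 1232⟩, ⟨.negSucc 1834, .negSucc 0, .negSucc 20, .negSucc 110, .ofNat 487, .ofNat 810⟩, ⟨.negSucc 842, .ofNat 0, .negSucc 6, .ofNat 288, .ofNat 203, .ofNat 446⟩, ⟨.ofNat 4715, .ofNat 2, .ofNat 4, .ofNat 199, .negSucc 979, .negSucc 1501⟩, ⟨.ofNat 1213, .ofNat 1, .ofNat 3, .negSucc 59, .ofNat 90, .ofNat 336⟩, .ofNat 23135, .ofNat 34471, .ofNat 0, .ofNat 34471, .ofNat 52171, .ofNat 0, .ofNat 128, .negSucc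 7503, .negSucc 17266, .ofNat 0, .ofNat 4957, .ofNat 11382, .ofNat 0, .ofNat 0, .ofNat 11344, .ofNat 30727, .ofNat 0, .ofNat 0, .ofNat 1174613038437886044960849826548834195440842833920, .ofNat 0, .ofNat 0, .ofNat 0, .ofNat 542974584905762228195721764431177840465016732516352, .ofNat 0, .ofNat 0, .ofNat 0, .ofNat 2022616225255040948991290090580137524297927262994432, .ofNat 0, .ofNat 0, .ofNat 0, .ofNat 2748314617528612725393657362186066703759355735441408, .ofNat 0⟩)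
    (by decide +kernel)
theorem L06486 : Good (Phi V5.P V5.D (-1) (-1)) ⟨7, 114, 6, 42, 4, 14, 3, 4, 5, 1⟩ :=
  leafX_sound T5.ok_mm T5.Ymm.bz_eq (w := 279) (c := ⟨⟨.ofNat 2758, .negSucc 17, .negSucc 17, .ofNat 197, .negSucc 683, .negSucc 1069⟩, ⟨.negSucc 1821, .negSucc 22, .negSucc 1, .negSucc 129, .ofNat 454, .ofNat 714⟩, ⟨.negSucc 851, .negSucc 33, .ofNat 51, .ofNat 274, .ofNat 186, .ofNat 390⟩, ⟨.ofNat 4843, .ofNat 176, .ofNat 337, .ofNat 847, .negSucc 1362, .negSucc 2339⟩, ⟨.ofNat 1456, .ofNat 288, .ofNat 544, .ofNat 861, .negSucc 603, .negSucc 1248⟩, .ofNat 7261, .ofNat 10508, .ofNat 0, .ofNat 10508, .ofNat 15986, .ofNat 0, .ofNat 128, .negSucc 2197, .negSucc 5249, .ofNat 0, .ofNat 1451, .ofNat 3450, .ofNat 0, .ofNat 0, .ofNat 3326, .ofNat 5721, .ofNat 0, .ofNat 0, .ofNat 465377788670608589390535098157093519068730753024, .ofNat 0, .ofNat 0, .ofNat 0, .ofNat 209328563069207212716203276740379274554303110447104,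 .ofNat 0, .ofNat 0, .ofNat 0, .ofNat 0, .ofNat 0, .ofNat 0, .ofNat 0, .ofNat 9487935129322986083888850467646820264632765120512, .ofNat 162336978637200443043129239781243130195181930795550776273928192⟩)
    (by decide +kernel)
theorem L06487 : Good (Phi V5.P V5.D (-1) (-1)) ⟨8, 228, 6, 43, 4, 14, 3, 4, 5, 1⟩ :=
  out_sound (S := T5.ds_mm) T5.ok_mm (w := 81) (j := 3) (by decide +kernel)
theorem L06488 : Good (Phi V5.P V5.D (-1) (-1)) ⟨8, 229, 6, 43, 4, 14, 3, 4, 5, 1⟩ :=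
  out_sound (S := T5.ds_mm) T5.ok_mm (w := 23) (j := 4) (by decide +kernel)
theorem L06489 : Good (Phi V5.P V5.D (-1) (-1)) ⟨7, 115, 5, 21, 4, 14, 3, 4, 5, 1⟩ :=
  out_sound (S := T5.ds_mm) T5.ok_mm (w := 21) (j := 4) (by decide +kernel)
theorem L06490 : Good (Phi V5.P V5.D (-1) (-1)) ⟨5, 29, 4, 10, 4, 14, 3, 4, 4, 0⟩ :=
  out_sound (S := T5.ds_mm) T5.ok_mm (w := 59) (j := 3) (by decide +kernel)
theorem L06491 : Good (Phi V5.P V5.D (-1) (-1)) ⟨4, 15, 4, 10, 4, 14, 3, 4, 4, 0⟩ :=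
  out_sound (S := T5.ds_mm) T5.ok_mm (w := 53) (j := 3) (by decide +kernel)
theorem L06492 : Good (Phi V5.P V5.D (-1) (-1)) ⟨2, 2, 4, 11, 4, 14, 3, 4, 4, 0⟩ :=
  out_sound (S := T5.ds_mm) T5.ok_mm (w := 41) (j := 3) (by decide +kernel)
theorem L06493 : Good (Phi V5.P V5.D (-1) (-1)) ⟨3, 6, 4, 11, 4, 14, 3, 4, 4, 0⟩ :=
  out_sound (S := T5.ds_mm) T5.ok_mm (w := 47) (j := 3) (by decide +kernel)
theorem L06494 : Good (Phi V5.P V5.D (-1) (-1)) ⟨6, 56, 4, 11, 4, 14, 3, 4, 4, 0⟩ :=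
  out_sound (S := T5.ds_mm) T5.ok_mm (w := 65) (j := 3) (by decide +kernel)
theorem L06495 : Good (Phi V5.P V5.D (-1) (-1)) ⟨7, 114, 5, 22, 4, 14, 3, 4, 4, 0⟩ :=
  out_sound (S := T5.ds_mm) T5.ok_mm (w := 73) (j := 3) (by decide +kernel)
theorem L06496 : Good (Phi V5.P V5.D (-1) (-1)) ⟨7, 115, 5, 22, 4, 14, 3, 4, 4, 0⟩ :=
  out_sound (S := T5.ds_mm) T5.ok_mm (w := 21) (j := 4) (by decide +kernel)
theorem L06497 : Good (Phi V5.P V5.D (-1) (-1)) ⟨6, 57, 5, 23, 4, 14, 3, 4, 4, 0⟩ :=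
  out_sound (S := T5.ds_mm) T5.ok_mm (w := 67) (j := 3) (by decide +kernel)
theorem L06498 : Good (Phi V5.P V5.D (-1) (-1)) ⟨5, 29, 4, 11, 4, 14, 3, 4, 4, 0⟩ :=
  out_sound (S := T5.ds_mm) T5.ok_mm (w := 17) (j := 4) (by decide +kernel)
theorem L06499 : Good (Phi V5.P V5.D (-1) (-1)) ⟨4, 15, 4, 11, 4, 14, 3, 4, 4, 0⟩ :=
  out_sound (S := T5.ds_mm) T5.ok_mm (w := 53) (j := 3) (by decide +kernel)
theorem L06500 : Good (Phi V5.P V5.D (-1) (-1)) ⟨2, 2, 5, 20, 4, 15, 4, 8, 4, 0⟩ :=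
  out_sound (S := T5.ds_mm) T5.ok_mm (w := 43) (j := 3) (by decide +kernel)
theorem L06501 : Good (Phi V5.P V5.D (-1) (-1)) ⟨3, 6, 5, 20, 4, 15, 4, 8, 4, 0⟩ :=
  out_sound (S := T5.ds_mm) T5.ok_mm (w := 49) (j := 3) (by decide +kernel)
theorem L06502 : Good (Phi V5.P V5.D (-1) (-1)) ⟨5, 28, 6, 40, 4, 15, 4, 8, 4, 0⟩ :=
  leafX_sound T5.ok_mm T5.Ymm.bz_eq (w := 267) (c := ⟨⟨.ofNat 3490, .ofNat 956, .ofNat 236, .negSucc 626, .negSucc 598, .negSucc 2497⟩, ⟨.negSucc 2210, .negSucc 581, .negSucc 180, .ofNat 401, .ofNat 376, .ofNat 1584⟩, ⟨.negSucc 762, .ofNat 133, .negSucc 153, .ofNat 638, .ofNat 178, .ofNat 815⟩, ⟨.ofNat 7422, .ofNat 893, .ofNat 651, .negSucc 1121, .negSucc 1230, .negSucc 5256⟩, ⟨.ofNat 3691, .negSucc 36, .ofNat 385, .negSucc 359, .negSucc 591, .negSucc 2667⟩, .ofNat 4614, .ofNat 6569, .ofNat 0, .ofNat 6569, .ofNat 10142, .ofNat 0, .ofNat 128, .negSucc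 1580, .negSucc 3151, .ofNat 0, .ofNat 1013, .ofNat 1993, .ofNat 0, .ofNat 0, .ofNat 1884, .ofNat 3482, .ofNat 0, .ofNat 0, .ofNat 0, .ofNat 0, .ofNat 0, .ofNat 0, .ofNat 86675921928104096933214963072449516802861885816832, .ofNat 0, .ofNat 0, .ofNat 0, .ofNat 75539831219932737604210982357675876556676901371904, .ofNat 0, .ofNat 0, .ofNat 0, .ofNat 84010442124812648314163347345036566075658775560192, .ofNat 0⟩)
    (by decide +kernel)
theorem L06503 : Good (Phi V5.P V5.D (-1) (-1)) ⟨6, 56, 6, 41, 4, 15, 4, 8, 4, 0⟩ :=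
  leafX_sound T5.ok_mm T5.Ymm.bz_eq (w := 274) (c := ⟨⟨.ofNat 3374, .ofNat 422, .ofNat 344, .negSucc 350, .negSucc 263, .negSucc 2476⟩, ⟨.negSucc 2156, .negSucc 311, .negSucc 246, .ofNat 237, .ofNat 174, .ofNat 1610⟩, ⟨.negSucc 821, .ofNat 151, .negSucc 225, .ofNat 548, .ofNat 20, .ofNat 793⟩, ⟨.ofNat 7772, .ofNat 408, .ofNat 916, .negSucc 1391, .negSucc 967, .negSucc 5139⟩, ⟨.ofNat 4357, .ofNat 30, .ofNat 563, .negSucc 1339, .negSucc 903, .negSucc 2512⟩, .ofNat 8494, .ofNat 12498, .ofNat 0, .ofNat 12498, .ofNat 19197, .ofNat 0, .ofNat 128, .negSucc 2566, .negSucc 6128, .ofNat 0, .ofNat 1670, .ofNat 3968, .ofNat 0, .ofNat 0, .ofNat 3720, .ofNat 4201, .ofNat 0, .ofNat 0, .ofNat 73260040774791071847864707191004209753274449920, .ofNat 0, .ofNat 0, .ofNat 0, .ofNat 130667480485426206513953361188139258072673500004352, .ofNat 0, .ofNat 0, .ofNat 0, .ofNat 0, .ofNat 0, .ofNat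 0, .ofNat 0, .ofNat 0, .ofNat 0⟩)
    (by decide +kernel)
theorem L06504 : Good (Phi V5.P V5.D (-1) (-1)) ⟨6, 57, 6, 41, 4, 15, 4, 8, 4, 0⟩ :=
  leafX_sound T5.ok_mm T5.Ymm.bz_eq (w := 283) (c := ⟨⟨.ofNat 4320, .negSucc 0, .negSucc 16, .negSucc 425, .negSucc 581, .negSucc 2662⟩, ⟨.negSucc 2790, .ofNat 1, .negSucc 38, .ofNat 282, .ofNat 382, .ofNat 1750⟩, ⟨.negSucc 966, .ofNat 0, .negSucc 9, .ofNat 587, .ofNat 146, .ofNat 894⟩, ⟨.ofNat 7064, .negSucc 1, .ofNat 6, .negSucc 628, .negSucc 749, .negSucc 2930⟩, ⟨.ofNat 1556, .negSucc 0, .ofNat 0, .negSucc 33, .ofNat 99, .ofNat 1194⟩, .ofNat 26840, .ofNat 40051, .ofNat 0, .ofNat 40051, .ofNat 60575, .ofNat 0, .ofNat 128, .negSucc 14936, .negSucc 32633, .ofNat 0, .ofNat 9855, .ofNat 21482, .ofNat 0, .ofNat 0, .ofNat 19758, .ofNat 53732, .ofNat 0, .ofNat 0, .ofNat 941313159111819591626078920386403048490344120320, .ofNat 0, .ofNat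 0, .ofNat 0, .ofNat 183046251841012552489627904802454910835982466610626560, .ofNat 0, .ofNat 0, .ofNat 0, .ofNat 360800694347517447592657566674339639653709700382326784, .ofNat 0, .ofNat 0, .ofNat 0, .ofNat 19424788282071827270556291676017103817631326447599616, .ofNat 0⟩)
    (by decide +kernel)
theorem L06505 : Good (Phi V5.P V5.D (-1) (-1)) ⟨5, 29, 5, 20, 4, 15, 4, 8, 4, 0⟩ :=
  out_sound (S := T5.ds_mm) T5.ok_mm (w := 61) (j := 3) (by decide +kernel)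
theorem L06506 : Good (Phi V5.P V5.D (-1) (-1)) ⟨4, 15, 5, 20, 4, 15, 4, 8, 4, 0⟩ :=
  out_sound (S := T5.ds_mm) T5.ok_mm (w := 55) (j := 3) (by decide +kernel)
theorem L06507 : Good (Phi V5.P V5.D (-1) (-1)) ⟨2, 2, 5, 21, 4, 15, 4, 8, 4, 0⟩ :=
  out_sound (S := T5.ds_mm) T5.ok_mm (w := 43) (j := 3) (by decide +kernel)
theorem L06508 : Good (Phi V5.P V5.D (-1) (-1)) ⟨3, 6, 5, 21, 4, 15, 4, 8, 4, 0⟩ :=
  out_sound (S := T5.ds_mm) T5.ok_mm (w := 49) (j := 3) (by decide +kernel)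
theorem L06509 : Good (Phi V5.P V5.D (-1) (-1)) ⟨6, 56, 6, 42, 4, 15, 4, 8, 5, 0⟩ :=
  leafX_sound T5.ok_mm T5.Ymm.bz_eq (w := 286) (c := ⟨⟨.ofNat 3930, .ofNat 2, .ofNat 101, .negSucc 111, .negSucc 444, .negSucc 1057⟩, ⟨.negSucc 2584, .negSucc 0, .negSucc 130, .ofNat 75, .ofNat 292, .ofNat 696⟩, ⟨.negSucc 843, .ofNat 0, .ofNat 3, .ofNat 490, .ofNat 80, .ofNat 367⟩, ⟨.ofNat 7785, .ofNat 3, .ofNat 67, .negSucc 326, .negSucc 667, .negSucc 1310⟩, ⟨.ofNat 3412, .ofNat 2, .negSucc 28, .negSucc 248, .negSucc 67, .ofNat 257⟩, .ofNat 23364, .ofNat 34815, .ofNat 0, .ofNat 34815, .ofNat 52689, .ofNat 0, .ofNat 128, .negSucc 10422, .negSucc 20509, .ofNat 0, .ofNat 6876, .ofNat 13504, .ofNat 0, .ofNat 0, .ofNat 12939, .ofNat 19992, .ofNat 0, .ofNat 0, .ofNat 0, .ofNat 0, .ofNat 0, .ofNat 0, .ofNat 28407876001408053076662849224604315378345404245475328, .ofNat 0, .ofNat 0, .ofNat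 0, .ofNat 0, .ofNat 0, .ofNat 0, .ofNat 0, .ofNat 0, .ofNat 0⟩)
    (by decide +kernel)
theorem L06510 : Good (Phi V5.P V5.D (-1) (-1)) ⟨6, 56, 6, 42, 4, 15, 4, 8, 5, 1⟩ :=
  leafX_sound T5.ok_mm T5.Ymm.bz_eq (w := 287) (c := ⟨⟨.ofNat 3860, .ofNat 1, .negSucc 4, .negSucc 971, .negSucc 891, .negSucc 2043⟩, ⟨.negSucc 2539, .negSucc 0, .negSucc 25, .ofNat 641, .ofNat 587, .ofNat 1344⟩, ⟨.negSucc 899, .ofNat 0, .negSucc 15, .ofNat 807, .ofNat 301, .ofNat 725⟩, ⟨.ofNat 5789, .ofNat 2, .negSucc 31, .negSucc 1125, .negSucc 1066, .negSucc 2231⟩, ⟨.ofNat 569, .ofNat 1, .ofNat 8, .ofNat 359, .ofNat 278, .ofNat 938⟩, .ofNat 29356, .ofNat 43840, .ofNat 0, .ofNat 43840, .ofNat 66284, .ofNat 0, .ofNat 128, .negSucc 9624, .negSucc 26117, .ofNat 0, .ofNat 6354, .ofNat 17205, .ofNat 0, .ofNat 0, .ofNat 15088, .ofNat 22527, .ofNat 0, .ofNat 0, .ofNat 0, .ofNat 0, .ofNat 0, .ofNat 0,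 .ofNat 139419377899161818331790948758410461662077522370625536, .ofNat 0, .ofNat 0, .ofNat 0, .ofNat 11525126776710949077513300356338838905413852742025216, .ofNat 0, .ofNat 0, .ofNat 0, .ofNat 382698862084448731203265637895214855717590931402129408, .ofNat 0⟩)
    (by decide +kernel)
theorem L06511 : Good (Phi V5.P V5.D (-1) (-1)) ⟨8, 228, 6, 42, 4, 15, 4, 8, 4, 0⟩ :=
  leafX_sound T5.ok_mm T5.Ymm.bz_eq (w := 285) (c := ⟨⟨.ofNat 4312, .ofNat 295, .ofNat 187, .negSucc 336, .negSucc 571, .negSucc 2525⟩, ⟨.negSucc 2849, .negSucc 144, .negSucc 214, .ofNat 231, .ofNat 383, .ofNat 1677⟩, ⟨.negSucc 988, .negSucc 167, .negSucc 23, .ofNat 556, .ofNat 148, .ofNat 824⟩, ⟨.ofNat 9080, .ofNat 522, .ofNat 457, .negSucc 1251, .negSucc 1277, .negSucc 5109⟩, ⟨.ofNat 4545, .ofNat 213, .ofNat 228, .negSucc 1151, .negSucc 710, .negSucc 2348⟩, .ofNat 11713, .ofNat 17189, .ofNat 0, .ofNat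 17189, .ofNat 26015, .ofNat 0, .ofNat 128, .negSucc 3130, .negSucc 9788, .ofNat 0, .ofNat 2069, .ofNat 6450, .ofNat 0, .ofNat 0, .ofNat 5696, .ofNat 3624, .ofNat 0, .ofNat 0, .ofNat 188730148950109952583987859023274977180283568128, .ofNat 0, .ofNat 0, .ofNat 0, .ofNat 108942971168698136002934677368659679157003940265984, .ofNat 0, .ofNat 0, .ofNat 0, .ofNat 0, .ofNat 0, .ofNat 0, .ofNat 0, .ofNat 227466642388674196081164765094800097339662061797376, .ofNat 471326066104990509543420750995314504696621819235322132055457792⟩)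
    (by decide +kernel)
theorem L06512 : Good (Phi V5.P V5.D (-1) (-1)) ⟨8, 229, 6, 42, 4, 15, 4, 8, 4, 0⟩ :=
  out_sound (S := T5.ds_mm) T5.ok_mm (w := 23) (j := 4) (by decide +kernel)
theorem L06513 : Good (Phi V5.P V5.D (-1) (-1)) ⟨7, 115, 6, 42, 4, 15, 4, 8, 4, 0⟩ :=
  out_sound (S := T5.ds_mm) T5.ok_mm (w := 75) (j := 3) (by decide +kernel)
theorem L06514 : Good (Phi V5.P V5.D (-1) (-1)) ⟨6, 56, 6, 43, 4, 15, 4, 8, 4, 0⟩ :=
  out_sound (S := T5.ds_mm) T5.ok_mm (w := 69) (j := 3) (by decide +kernel)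
theorem L06515 : Good (Phi V5.P V5.D (-1) (-1)) ⟨8, 228, 6, 43, 4, 15, 4, 8, 4, 0⟩ :=
  out_sound (S := T5.ds_mm) T5.ok_mm (w := 81) (j := 3) (by decide +kernel)
theorem L06516 : Good (Phi V5.P V5.D (-1) (-1)) ⟨8, 229, 6, 43, 4, 15, 4, 8, 4, 0⟩ :=
  out_sound (S := T5.ds_mm) T5.ok_mm (w := 23) (j := 4) (by decide +kernel)
theorem L06517 : Good (Phi V5.P V5.D (-1) (-1)) ⟨7, 115, 6, 43, 4, 15, 4, 8, 4, 0⟩ :=
  out_sound (S := T5.ds_mm) T5.ok_mm (w := 21) (j := 4) (by decide +kernel)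
theorem L06518 : Good (Phi V5.P V5.D (-1) (-1)) ⟨5, 29, 5, 21, 4, 15, 4, 8, 4, 0⟩ :=
  out_sound (S := T5.ds_mm) T5.ok_mm (w := 61) (j := 3) (by decide +kernel)
theorem L06519 : Good (Phi V5.P V5.D (-1) (-1)) ⟨4, 15, 5, 21, 4, 15, 4, 8, 4, 0⟩ :=
  out_sound (S := T5.ds_mm) T5.ok_mm (w := 55) (j := 3) (by decide +kernel)
theorem L06520 : Good (Phi V5.P V5.D (-1) (-1)) ⟨2, 2, 4, 11, 4, 15, 4, 8, 4, 0⟩ :=
  out_sound (S := T5.ds_mm) T5.ok_mm (w := 41) (j := 3) (by decide +kernel)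
theorem L06521 : Good (Phi V5.P V5.D (-1) (-1)) ⟨3, 6, 4, 11, 4, 15, 4, 8, 4, 0⟩ :=
  out_sound (S := T5.ds_mm) T5.ok_mm (w := 47) (j := 3) (by decide +kernel)
theorem L06522 : Good (Phi V5.P V5.D (-1) (-1)) ⟨6, 56, 4, 11, 4, 15, 4, 8, 4, 0⟩ :=
  out_sound (S := T5.ds_mm) T5.ok_mm (w := 65) (j := 3) (by decide +kernel)
theorem L06523 : Good (Phi V5.P V5.D (-1) (-1)) ⟨7, 114, 5, 22, 4, 15, 4, 8, 4, 0⟩ :=
  out_sound (S := T5.ds_mm) T5.ok_mm (w := 73) (j := 3) (by decide +kernel)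
theorem L06524 : Good (Phi V5.P V5.D (-1) (-1)) ⟨7, 115, 5, 22, 4, 15, 4, 8, 4, 0⟩ :=
  out_sound (S := T5.ds_mm) T5.ok_mm (w := 21) (j := 4) (by decide +kernel)
theorem L06525 : Good (Phi V5.P V5.D (-1) (-1)) ⟨6, 57, 5, 23, 4, 15, 4, 8, 4, 0⟩ :=
  out_sound (S := T5.ds_mm) T5.ok_mm (w := 67) (j := 3) (by decide +kernel)
theorem L06526 : Good (Phi V5.P V5.D (-1) (-1)) ⟨5, 29, 4, 11, 4, 15, 4, 8, 4, 0⟩ :=
  out_sound (S := T5.ds_mm) T5.ok_mm (w := 17) (j := 4) (by decide +kernel)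
theorem L06527 : Good (Phi V5.P V5.D (-1) (-1)) ⟨4, 15, 4, 11, 4, 15, 4, 8, 4, 0⟩ :=
  out_sound (S := T5.ds_mm) T5.ok_mm (w := 53) (j := 3) (by decide +kernel)
theorem L06528 : Good (Phi V5.P V5.D (-1) (-1)) ⟨2, 2, 5, 20, 4, 15, 4, 9, 4, 0⟩ :=
  out_sound (S := T5.ds_mm) T5.ok_mm (w := 43) (j := 3) (by decide +kernel)
theorem L06529 : Good (Phi V5.P V5.D (-1) (-1)) ⟨3, 6, 5, 20, 4, 15, 4, 9, 4, 0⟩ :=
  out_sound (S := T5.ds_mm) T5.ok_mm (w := 49) (j := 3) (by decide +kernel)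
theorem L06530 : Good (Phi V5.P V5.D (-1) (-1)) ⟨5, 28, 5, 20, 4, 15, 4, 9, 5, 0⟩ :=
  leafX_sound T5.ok_mm T5.Ymm.bz_eq (w := 269) (c := ⟨⟨.ofNat 3338, .ofNat 363, .ofNat 459, .negSucc 790, .negSucc 513, .negSucc 1290⟩, ⟨.negSucc 2120, .negSucc 234, .negSucc 371, .ofNat 516, .ofNat 333, .ofNat 840⟩, ⟨.negSucc 747, .negSucc 58, .negSucc 213, .ofNat 790, .ofNat 124, .ofNat 498⟩, ⟨.ofNat 6964, .ofNat 590, .ofNat 1158, .negSucc 1528, .negSucc 1210, .negSucc 2942⟩, ⟨.ofNat 3422, .ofNat 253, .ofNat 716, .negSucc 621, .negSucc 740, .negSucc 1707⟩, .ofNat 3968, .ofNat 5601, .ofNat 0, .ofNat 5601, .ofNat 8683, .ofNat 0, .ofNat 128, .negSucc 1108, .negSucc 3928, .ofNat 0, .ofNat 711, .ofNat 2495, .ofNat 0, .ofNat 0, .ofNat 2304, .ofNat 1500, .ofNat 0, .ofNat 0, .ofNat 2336382992374715753878064495377583224075260526592, .ofNat 0, .ofNat 0, .ofNat 0, .ofNat 413330690152720288980820403602462577751930374717440,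 .ofNat 0, .ofNat 0, .ofNat 0, .ofNat 52525226156305355851720912909931020282226892865536, .ofNat 1003787844923875241172735591761638032667016244287697875632128, .ofNat 0, .ofNat 0, .ofNat 908459213523727559575540067013350292191635564396544, .ofNat 0⟩)
    (by decide +kernel)
theorem L06531 : Good (Phi V5.P V5.D (-1) (-1)) ⟨5, 28, 5, 20, 4, 15, 4, 9, 5, 1⟩ :=
  leafX_sound T5.ok_mm T5.Ymm.bz_eq (w := 269) (c := ⟨⟨.ofNat 2234, .ofNat 212, .ofNat 466, .negSucc 1130, .negSucc 624, .negSucc 1468⟩, ⟨.negSucc 1439, .negSucc 158, .negSucc 316, .ofNat 739, .ofNat 408, .ofNat 961⟩, ⟨.negSucc 292, .negSucc 43, .negSucc 185, .ofNat 830, .ofNat 195, .ofNat 483⟩, ⟨.ofNat 4971, .ofNat 348, .ofNat 915, .negSucc 2366, .negSucc 1560, .negSucc 3523⟩, ⟨.ofNat 2765, .ofNat 79, .ofNat 388, .negSucc 1166, .negSucc 1033, .negSucc 2204⟩, .ofNat 3968, .ofNat 5601, .ofNat 0, .ofNat 5601, .ofNat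 8683, .ofNat 0, .ofNat 128, .negSucc 1036, .negSucc 4301, .ofNat 0, .ofNat 666, .ofNat 2729, .ofNat 0, .ofNat 0, .ofNat 2334, .ofNat 1141, .ofNat 0, .ofNat 0, .ofNat 1455348828953726862417008584459042560087527784448, .ofNat 0, .ofNat 0, .ofNat 0, .ofNat 658309590107243176182679732380930484354140285698048, .ofNat 0, .ofNat 0, .ofNat 0, .ofNat 211169494556190731637606124556762662159891826737152, .ofNat 0, .ofNat 0, .ofNat 0, .ofNat 0, .ofNat 4059021115969099249860698546446093585601783962297828007477248⟩)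
    (by decide +kernel)
theorem L06532 : Good (Phi V5.P V5.D (-1) (-1)) ⟨5, 29, 5, 20, 4, 15, 4, 9, 4, 0⟩ :=
  out_sound (S := T5.ds_mm) T5.ok_mm (w := 61) (j := 3) (by decide +kernel)
theorem L06533 : Good (Phi V5.P V5.D (-1) (-1)) ⟨4, 15, 5, 20, 4, 15, 4, 9, 4, 0⟩ :=
  out_sound (S := T5.ds_mm) T5.ok_mm (w := 55) (j := 3) (by decide +kernel)
theorem L06534 : Good (Phi V5.P V5.D (-1) (-1)) ⟨2, 2, 5, 21, 4, 15, 4, 9, 4, 0⟩ :=
  out_sound (S := T5.ds_mm) T5.ok_mm (w := 43) (j := 3) (by decide +kernel)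
theorem L06535 : Good (Phi V5.P V5.D (-1) (-1)) ⟨3, 6, 5, 21, 4, 15, 4, 9, 4, 0⟩ :=
  out_sound (S := T5.ds_mm) T5.ok_mm (w := 49) (j := 3) (by decide +kernel)
theorem L06536 : Good (Phi V5.P V5.D (-1) (-1)) ⟨6, 56, 6, 42, 4, 15, 4, 9, 4, 0⟩ :=
  leafX_sound T5.ok_mm T5.Ymm.bz_eq (w := 281) (c := ⟨⟨.ofNat 4036, .ofNat 1, .ofNat 52, .negSucc 849, .negSucc 458, .negSucc 2928⟩, ⟨.negSucc 2654, .negSucc 0, .negSucc 75, .ofNat 561, .ofNat 301, .ofNat 1927⟩, ⟨.negSucc 1020, .ofNat 0, .ofNat 41, .ofNat 794, .ofNat 124, .ofNat 1063⟩, ⟨.ofNat 6615, .ofNat 2, .ofNat 22, .negSucc 1040, .negSucc 526, .negSucc 3163⟩, ⟨.ofNat 1436, .ofNat 1, .negSucc 17, .ofNat 240, .ofNat 172, .ofNat 1398⟩, .ofNat 28937, .ofNat 43209, .ofNat 0, .ofNat 43209, .ofNat 65333, .ofNat 0, .ofNat 128, .negSucc 8909, .negSucc 18807, .ofNat 0, .ofNat 5880, .ofNat 12390, .ofNat 0, .ofNat 0, .ofNat 11229, .ofNat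 16164, .ofNat 0, .ofNat 0, .ofNat 2902141516778009425903239290991980933520331636736, .ofNat 0, .ofNat 0, .ofNat 0, .ofNat 948475047782986635867709282266673652193897712975872, .ofNat 0, .ofNat 0, .ofNat 0, .ofNat 5920048455770134589120406254974384850177721924321280, .ofNat 0, .ofNat 0, .ofNat 0, .ofNat 7539200158431905597543301388077316704033465253756928, .ofNat 0⟩)
    (by decide +kernel)
theorem L06537 : Good (Phi V5.P V5.D (-1) (-1)) ⟨7, 114, 7, 84, 4, 15, 4, 9, 4, 0⟩ :=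
  leafX_sound T5.ok_mm T5.Ymm.bz_eq (w := 282) (c := ⟨⟨.ofNat 4006, .ofNat 82, .ofNat 53, .negSucc 575, .negSucc 707, .negSucc 2895⟩, ⟨.negSucc 2657, .negSucc 28, .negSucc 56, .ofNat 398, .ofNat 471, .ofNat 1925⟩, ⟨.negSucc 967, .negSucc 10, .negSucc 30, .ofNat 639, .ofNat 228, .ofNat 1044⟩, ⟨.ofNat 8752, .ofNat 111, .ofNat 160, .negSucc 1658, .negSucc 1561, .negSucc 6415⟩, ⟨.ofNat 4680, .ofNat 46, .ofNat 108, .negSucc 1247, .negSucc 850, .negSucc 3518⟩, .ofNat 5261, .ofNat 7472, .ofNat 0, .ofNat 7472, .ofNat 11378, .ofNat 0, .ofNat 128, .negSucc 3554, .negSucc 10941, .ofNat 0, .ofNat 2328, .ofNat 7119, .ofNat 0, .ofNat 0, .ofNat 5932, .ofNat 5844, .ofNat 0, .ofNat 0, .ofNat 0, .ofNat 0, .ofNat 0, .ofNat 0, .ofNat 170505682417780491509954482385158424167370696163328, .ofNat 0, .ofNat 0, .ofNat 0, .ofNat 0, .ofNat 0, .ofNat 0, .ofNat 0, .ofNat 331301530874031755058086837507226381209067237408768,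 .ofNat 0⟩)
    (by decide +kernel)
theorem L06538 : Good (Phi V5.P V5.D (-1) (-1)) ⟨8, 228, 7, 85, 4, 15, 4, 9, 4, 0⟩ :=
  leafX_sound T5.ok_mm T5.Ymm.bz_eq (w := 289) (c := ⟨⟨.ofNat 4089, .ofNat 150, .ofNat 32, .negSucc 385, .negSucc 615, .negSucc 2990⟩, ⟨.negSucc 2734, .negSucc 89, .negSucc 44, .ofNat 269, .ofNat 414, .ofNat 1998⟩, ⟨.negSucc 1145, .ofNat 160, .negSucc 134, .ofNat 574, .ofNat 180, .ofNat 1123⟩, ⟨.ofNat 8766, .ofNat 162, .ofNat 229, .negSucc 1527, .negSucc 1603, .negSucc 5840⟩, ⟨.ofNat 4445, .ofNat 100, .ofNat 176, .negSucc 1458, .negSucc 1103, .negSucc 2468⟩, .ofNat 13272, .ofNat 19462, .ofNat 0, .ofNat 19462, .ofNat 29326, .ofNat 0, .ofNat 128, .negSucc 5534, .negSucc 14990, .ofNat 0, .ofNat 3675, .ofNat 9932, .ofNat 0, .ofNat 0, .ofNat 8505, .ofNat 7803, .ofNat 0, .ofNat 0, .ofNat 872831857126828187075043071353280256505993494528, .ofNat 0, .ofNat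 0, .ofNat 0, .ofNat 91689312461182840860891539345454954112002551709696, .ofNat 0, .ofNat 0, .ofNat 0, .ofNat 0, .ofNat 0, .ofNat 0, .ofNat 0, .ofNat 245980924477036370786411499908190210454713261883392, .ofNat 0⟩)
    (by decide +kernel)
theorem L06539 : Good (Phi V5.P V5.D (-1) (-1)) ⟨8, 229, 7, 85, 4, 15, 4, 9, 4, 0⟩ :=
  out_sound (S := T5.ds_mm) T5.ok_mm (w := 23) (j := 4) (by decide +kernel)
theorem L06540 : Good (Phi V5.P V5.D (-1) (-1)) ⟨7, 115, 6, 42, 4, 15, 4, 9, 4, 0⟩ :=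
  out_sound (S := T5.ds_mm) T5.ok_mm (w := 75) (j := 3) (by decide +kernel)
theorem L06541 : Good (Phi V5.P V5.D (-1) (-1)) ⟨6, 56, 6, 43, 4, 15, 4, 9, 4, 0⟩ :=
  out_sound (S := T5.ds_mm) T5.ok_mm (w := 69) (j := 3) (by decide +kernel)
theorem L06542 : Good (Phi V5.P V5.D (-1) (-1)) ⟨8, 228, 6, 43, 4, 15, 4, 9, 4, 0⟩ :=
  out_sound (S := T5.ds_mm) T5.ok_mm (w := 81) (j := 3) (by decide +kernel)
theorem L06543 : Good (Phi V5.P V5.D (-1) (-1)) ⟨8, 229, 6, 43, 4, 15, 4, 9, 4, 0⟩ :=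
  out_sound (S := T5.ds_mm) T5.ok_mm (w := 23) (j := 4) (by decide +kernel)
theorem L06544 : Good (Phi V5.P V5.D (-1) (-1)) ⟨7, 115, 6, 43, 4, 15, 4, 9, 4, 0⟩ :=
  out_sound (S := T5.ds_mm) T5.ok_mm (w := 21) (j := 4) (by decide +kernel)
theorem L06545 : Good (Phi V5.P V5.D (-1) (-1)) ⟨5, 29, 5, 21, 4, 15, 4, 9, 4, 0⟩ :=
  out_sound (S := T5.ds_mm) T5.ok_mm (w := 61) (j := 3) (by decide +kernel)
theorem L06546 : Good (Phi V5.P V5.D (-1) (-1)) ⟨4, 15, 5, 21, 4, 15, 4, 9, 4, 0⟩ :=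
  out_sound (S := T5.ds_mm) T5.ok_mm (w := 55) (j := 3) (by decide +kernel)
theorem L06547 : Good (Phi V5.P V5.D (-1) (-1)) ⟨2, 2, 4, 11, 4, 15, 4, 9, 4, 0⟩ :=
  out_sound (S := T5.ds_mm) T5.ok_mm (w := 41) (j := 3) (by decide +kernel)
theorem L06548 : Good (Phi V5.P V5.D (-1) (-1)) ⟨3, 6, 4, 11, 4, 15, 4, 9, 4, 0⟩ :=
  out_sound (S := T5.ds_mm) T5.ok_mm (w := 47) (j := 3) (by decide +kernel)
theorem L06549 : Good (Phi V5.P V5.D (-1) (-1)) ⟨6, 56, 4, 11, 4, 15, 4, 9, 4, 0⟩ :=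
  out_sound (S := T5.ds_mm) T5.ok_mm (w := 65) (j := 3) (by decide +kernel)
theorem L06550 : Good (Phi V5.P V5.D (-1) (-1)) ⟨7, 114, 5, 22, 4, 15, 4, 9, 4, 0⟩ :=
  out_sound (S := T5.ds_mm) T5.ok_mm (w := 73) (j := 3) (by decide +kernel)
theorem L06551 : Good (Phi V5.P V5.D (-1) (-1)) ⟨7, 115, 5, 22, 4, 15, 4, 9, 4, 0⟩ :=
  out_sound (S := T5.ds_mm) T5.ok_mm (w := 21) (j := 4) (by decide +kernel)
theorem L06552 : Good (Phi V5.P V5.D (-1) (-1)) ⟨6, 57, 5, 23, 4, 15, 4, 9, 4, 0⟩ :=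
  out_sound (S := T5.ds_mm) T5.ok_mm (w := 67) (j := 3) (by decide +kernel)
theorem L06553 : Good (Phi V5.P V5.D (-1) (-1)) ⟨5, 29, 4, 11, 4, 15, 4, 9, 4, 0⟩ :=
  out_sound (S := T5.ds_mm) T5.ok_mm (w := 17) (j := 4) (by decide +kernel)
theorem L06554 : Good (Phi V5.P V5.D (-1) (-1)) ⟨4, 15, 4, 11, 4, 15, 4, 9, 4, 0⟩ :=
  out_sound (S := T5.ds_mm) T5.ok_mm (w := 53) (j := 3) (by decide +kernel)
theorem L06555 : Good (Phi V5.P V5.D (-1) (-1)) ⟨2, 2, 3, 5, 4, 14, 3, 4, 5, 2⟩ :=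
  out_sound (S := T5.ds_mm) T5.ok_mm (w := 39) (j := 3) (by decide +kernel)
theorem L06556 : Good (Phi V5.P V5.D (-1) (-1)) ⟨3, 6, 3, 5, 4, 14, 3, 4, 6, 4⟩ :=
  out_sound (S := T5.ds_mm) T5.ok_mm (w := 45) (j := 3) (by decide +kernel)
theorem L06557 : Good (Phi V5.P V5.D (-1) (-1)) ⟨6, 56, 5, 20, 4, 14, 3, 4, 6, 4⟩ :=
  leafX_sound T5.ok_mm T5.Ymm.bz_eq (w := 273) (c := ⟨⟨.ofNat 1113, .ofNat 148, .ofNat 226, .negSucc 262, .negSucc 569, .negSucc 1161⟩, ⟨.negSucc 739, .negSucc 69, .negSucc 163, .ofNat 174, .ofNat 369, .ofNat 759⟩, ⟨.negSucc 202, .ofNat 50, .negSucc 149, .ofNat 394, .ofNat 147, .ofNat 507⟩, ⟨.ofNat 1830, .ofNat 243, .ofNat 419, .negSucc 111, .negSucc 1212, .negSucc 2430⟩, ⟨.ofNat 383, .ofNat 66, .ofNat 157, .ofNat 396, .negSucc 621, .negSucc 1210⟩, .ofNat 5345, .ofNat 7761, .ofNat 0, .ofNat 7761, .ofNat 12073, .ofNat 0, .ofNat 128, .negSucc 924, .negSucc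 2452, .ofNat 0, .ofNat 599, .ofNat 1573, .ofNat 0, .ofNat 0, .ofNat 1538, .ofNat 3505, .ofNat 0, .ofNat 0, .ofNat 2148612767446072847450911447734294831280634724352, .ofNat 0, .ofNat 0, .ofNat 0, .ofNat 1996159111588229495635625719498607713747211613372416, .ofNat 0, .ofNat 0, .ofNat 0, .ofNat 0, .ofNat 0, .ofNat 0, .ofNat 0, .ofNat 0, .ofNat 0⟩)
    (by decide +kernel)
theorem L06558 : Good (Phi V5.P V5.D (-1) (-1)) ⟨6, 56, 5, 21, 4, 14, 3, 4, 6, 4⟩ :=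
  leafX_sound T5.ok_mm T5.Ymm.bz_eq (w := 282) (c := ⟨⟨.ofNat 1535, .ofNat 0, .ofNat 5, .negSucc 233, .negSucc 676, .negSucc 1294⟩, ⟨.negSucc 1012, .ofNat 0, .negSucc 5, .ofNat 156, .ofNat 445, .ofNat 852⟩, ⟨.negSucc 317, .ofNat 0, .ofNat 0, .ofNat 365, .ofNat 189, .ofNat 576⟩, ⟨.ofNat 1767, .ofNat 0, .ofNat 0, .negSucc 246, .negSucc 802, .negSucc 1457⟩, ⟨.negSucc 581, .ofNat 0, .ofNat 0, .ofNat 126, .ofNat 218, .ofNat 533⟩, .ofNat 23113, .ofNat 34437, .ofNat 0, .ofNat 34437, .ofNat 52120, .ofNat 0, .ofNat 128, .negSucc 4306, .negSucc 9627, .ofNat 0, .ofNat 2846, .ofNat 6347, .ofNat 0, .ofNat 0, .ofNat 5984, .ofNat 35846, .ofNat 0, .ofNat 0, .ofNat 0, .ofNat 0, .ofNat 0, .ofNat 0, .ofNat 3078860022001374881235218273938153969636241601200128, .ofNat 0, .ofNat 0, .ofNat 0, .ofNat 66325853761655493279427037941126204741262418240339968, .ofNat 0, .ofNat 0, .ofNat 0, .ofNat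 118546756615401241975297780400983201899353090956460032, .ofNat 0⟩)
    (by decide +kernel)
theorem L06559 : Good (Phi V5.P V5.D (-1) (-1)) ⟨6, 56, 4, 11, 4, 14, 3, 4, 6, 4⟩ :=
  out_sound (S := T5.ds_mm) T5.ok_mm (w := 65) (j := 3) (by decide +kernel)
theorem L06560 : Good (Phi V5.P V5.D (-1) (-1)) ⟨7, 114, 5, 20, 4, 14, 3, 4, 6, 4⟩ :=
  leafX_sound T5.ok_mm T5.Ymm.bz_eq (w := 287) (c := ⟨⟨.ofNat 1520, .ofNat 0, .ofNat 23, .negSucc 195, .negSucc 650, .negSucc 1352⟩, ⟨.negSucc 1031, .ofNat 0, .ofNat 14, .ofNat 132, .ofNat 428, .ofNat 889⟩, ⟨.negSucc 351, .ofNat 0, .ofNat 24, .ofNat 356, .ofNat 189, .ofNat 598⟩, ⟨.ofNat 1938, .ofNat 0, .ofNat 0, .negSucc 154, .negSucc 907, .negSucc 1673⟩, ⟨.negSucc 343, .ofNat 0, .ofNat 0, .ofNat 183, .ofNat 7, .ofNat 332⟩, .ofNat 21701, .ofNat 32310, .ofNat 0, .ofNat 32310, .ofNat 48917, .ofNat 0, .ofNat 128, .negSucc 8543, .negSucc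 17459, .ofNat 0, .ofNat 5644, .ofNat 11505, .ofNat 0, .ofNat 0, .ofNat 10920, .ofNat 110054, .ofNat 0, .ofNat 0, .ofNat 0, .ofNat 0, .ofNat 0, .ofNat 0, .ofNat 1848818109741085156090740051569863234573000097172291584, .ofNat 0, .ofNat 0, .ofNat 0, .ofNat 78772226834324283991033600658892493703952918485401600, .ofNat 0, .ofNat 0, .ofNat 0, .ofNat 1450646383682346750724904340011892170550216282014220288, .ofNat 0⟩)
    (by decide +kernel)
theorem L06561 : Good (Phi V5.P V5.D (-1) (-1)) ⟨7, 114, 5, 21, 4, 14, 3, 4, 6, 4⟩ :=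
  leafX_sound T5.ok_mm T5.Ymm.bz_eq (w := 280) (c := ⟨⟨.ofNat 1528, .ofNat 178, .ofNat 174, .negSucc 142, .negSucc 648, .negSucc 1411⟩, ⟨.negSucc 1016, .negSucc 146, .negSucc 96, .ofNat 96, .ofNat 433, .ofNat 940⟩, ⟨.negSucc 326, .negSucc 53, .negSucc 87, .ofNat 344, .ofNat 183, .ofNat 636⟩, ⟨.ofNat 2520, .ofNat 303, .ofNat 284, .ofNat 142, .negSucc 1366, .negSucc 2703⟩, ⟨.ofNat 561, .ofNat 77, .ofNat 73, .ofNat 514, .negSucc 681, .negSucc 1084⟩, .ofNat 8455, .ofNat 12236, .ofNat 0, .ofNat 12236, .ofNat 18480, .ofNat 0, .ofNat 128, .negSucc 1490, .negSucc 4026, .ofNat 0, .ofNat 992, .ofNat 2669, .ofNat 0, .ofNat 0, .ofNat 2390, .ofNat 4343, .ofNat 0, .ofNat 0, .ofNat 733607495869621764149001258318217771343365013504, .ofNat 212015493413387305646125544617079398769291591609303093477376, .ofNat 0, .ofNat 0, .ofNat 1063018111144382349827076954058817692428394383278080, .ofNat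 0, .ofNat 0, .ofNat 0, .ofNat 0, .ofNat 0, .ofNat 0, .ofNat 0, .ofNat 1702383769150528960737911394974619543525343646187520, .ofNat 545136926262297420429567668958275511908991915805578286744993792⟩)
    (by decide +kernel)
theorem L06562 : Good (Phi V5.P V5.D (-1) (-1)) ⟨7, 115, 4, 10, 4, 14, 3, 4, 6, 4⟩ :=
  out_sound (S := T5.ds_mm) T5.ok_mm (w := 21) (j := 4) (by decide +kernel)
theorem L06563 : Good (Phi V5.P V5.D (-1) (-1)) ⟨7, 114, 5, 22, 4, 14, 3, 4, 6, 4⟩ :=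
  out_sound (S := T5.ds_mm) T5.ok_mm (w := 73) (j := 3) (by decide +kernel)
theorem L06564 : Good (Phi V5.P V5.D (-1) (-1)) ⟨7, 115, 5, 22, 4, 14, 3, 4, 6, 4⟩ :=
  out_sound (S := T5.ds_mm) T5.ok_mm (w := 21) (j := 4) (by decide +kernel)
theorem L06565 : Good (Phi V5.P V5.D (-1) (-1)) ⟨6, 57, 5, 23, 4, 14, 3, 4, 6, 4⟩ :=
  out_sound (S := T5.ds_mm) T5.ok_mm (w := 67) (j := 3) (by decide +kernel)
theorem L06566 : Good (Phi V5.P V5.D (-1) (-1)) ⟨5, 29, 3, 5, 4, 14, 3, 4, 6, 4⟩ :=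
  out_sound (S := T5.ds_mm) T5.ok_mm (w := 17) (j := 4) (by decide +kernel)
theorem L06567 : Good (Phi V5.P V5.D (-1) (-1)) ⟨4, 15, 3, 5, 4, 14, 3, 4, 6, 4⟩ :=
  out_sound (S := T5.ds_mm) T5.ok_mm (w := 51) (j := 3) (by decide +kernel)
theorem L06568 : Good (Phi V5.P V5.D (-1) (-1)) ⟨3, 6, 3, 5, 4, 14, 3, 4, 6, 5⟩ :=
  out_sound (S := T5.ds_mm) T5.ok_mm (w := 45) (j := 3) (by decide +kernel)
theorem L06569 : Good (Phi V5.P V5.D (-1) (-1)) ⟨6, 56, 5, 20, 4, 14, 3, 4, 6, 5⟩ :=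
  leafX_sound T5.ok_mm T5.Ymm.bz_eq (w := 275) (c := ⟨⟨.negSucc 514, .ofNat 49, .ofNat 79, .ofNat 70, .negSucc 41, .negSucc 958⟩, ⟨.ofNat 314, .negSucc 40, .negSucc 14, .negSucc 41, .ofNat 29, .ofNat 622⟩, ⟨.ofNat 718, .negSucc 119, .ofNat 34, .ofNat 105, .negSucc 124, .ofNat 405⟩, ⟨.negSucc 1016, .ofNat 50, .ofNat 77, .ofNat 181, .negSucc 330, .negSucc 1925⟩, ⟨.negSucc 432, .negSucc 68, .negSucc 15, .ofNat 126, .negSucc 415, .negSucc 880⟩, .ofNat 5211, .ofNat 7569, .ofNat 0, .ofNat 7569, .ofNat 11802, .ofNat 0, .ofNat 128, .negSucc 1111, .negSucc 4642, .ofNat 0, .ofNat 719, .ofNat 2973, .ofNat 0, .ofNat 0, .ofNat 2962, .ofNat 5957, .ofNat 0, .ofNat 0, .ofNat 0, .ofNat 0, .ofNat 0, .ofNat 0, .ofNat 760756447785256880545204561336174042815356834152448, .ofNat 0, .ofNat 0, .ofNat 0, .ofNat 0, .ofNat 0, .ofNat 0, .ofNat 0, .ofNat 0, .ofNat 0⟩)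
    (by decide +kernel)
theorem L06570 : Good (Phi V5.P V5.D (-1) (-1)) ⟨6, 56, 5, 21, 4, 14, 3, 4, 6, 5⟩ :=
  leafX_sound T5.ok_mm T5.Ymm.bz_eq (w := 277) (c := ⟨⟨.negSucc 143, .ofNat 0, .ofNat 4, .ofNat 4, .negSucc 196, .negSucc 1224⟩, ⟨.ofNat 92, .ofNat 0, .ofNat 21, .negSucc 0, .ofNat 131, .ofNat 806⟩, ⟨.ofNat 499, .ofNat 0, .negSucc 95, .ofNat 159, .negSucc 40, .ofNat 534⟩, ⟨.negSucc 623, .negSucc 0, .ofNat 19, .ofNat 128, .negSucc 518, .negSucc 2156⟩, ⟨.negSucc 636, .negSucc 0, .ofNat 11, .ofNat 186, .negSucc 361, .negSucc 659⟩, .ofNat 6474, .ofNat 9379, .ofNat 0, .ofNat 9379, .ofNat 14375, .ofNat 0, .ofNat 128, .negSucc 2086, .negSucc 8848, .ofNat 0, .ofNat 1371, .ofNat 5771, .ofNat 0, .ofNat 0, .ofNat 5462, .ofNat 15625, .ofNat 0, .ofNat 0, .ofNat 0, .ofNat 0, .ofNat 0, .ofNat 0, .ofNat 9214197027957880774116503065370825048889969522769920, .ofNat 0, .ofNat 0,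 .ofNat 0, .ofNat 29089486769648597984410662981537953670175570656231424, .ofNat 0, .ofNat 0, .ofNat 0, .ofNat 0, .ofNat 0⟩)
    (by decide +kernel)
theorem L06571 : Good (Phi V5.P V5.D (-1) (-1)) ⟨7, 114, 5, 20, 4, 14, 3, 4, 6, 5⟩ :=
  leafX_sound T5.ok_mm T5.Ymm.bz_eq (w := 287) (c := ⟨⟨.negSucc 227, .ofNat 0, .ofNat 25, .ofNat 26, .negSucc 151, .negSucc 1137⟩, ⟨.ofNat 81, .ofNat 0, .ofNat 51, .negSucc 15, .ofNat 99, .ofNat 749⟩, ⟨.ofNat 517, .ofNat 0, .ofNat 16, .ofNat 143, .negSucc 74, .ofNat 492⟩, ⟨.negSucc 1138, .ofNat 1, .negSucc 1, .ofNat 27, .negSucc 256, .negSucc 1306⟩, ⟨.negSucc 1286, .ofNat 1, .ofNat 0, .negSucc 11, .negSucc 64, .ofNat 433⟩, .ofNat 21703, .ofNat 32313, .ofNat 0, .ofNat 32313, .ofNat 48920, .ofNat 0, .ofNat 128, .negSucc 3331, .negSucc 14993, .ofNat 0, .ofNat 2203, .ofNat 9882, .ofNat 0, .ofNat 0, .ofNat 9459, .ofNat 68549, .ofNat 0, .ofNat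 0, .ofNat 0, .ofNat 0, .ofNat 0, .ofNat 0, .ofNat 1050912823889675618561136378611555366891009705422880768, .ofNat 0, .ofNat 0, .ofNat 0, .ofNat 119542042269074344734255413299597853083083101532323840, .ofNat 0, .ofNat 0, .ofNat 0, .ofNat 276619433068805558891990561921040237516114405015683072, .ofNat 0⟩)
    (by decide +kernel)
theorem L06572 : Good (Phi V5.P V5.D (-1) (-1)) ⟨7, 114, 6, 42, 4, 14, 3, 4, 6, 5⟩ :=
  leafX_sound T5.ok_mm T5.Ymm.bz_eq (w := 283) (c := ⟨⟨.negSucc 134, .ofNat 85, .ofNat 67, .negSucc 12, .negSucc 241, .negSucc 1224⟩, ⟨.ofNat 82, .ofNat 4, .negSucc 64, .ofNat 11, .ofNat 162, .ofNat 814⟩, ⟨.ofNat 496, .ofNat 90, .negSucc 113, .ofNat 166, .negSucc 10, .ofNat 541⟩, ⟨.negSucc 607, .ofNat 83, .ofNat 147, .ofNat 115, .negSucc 536, .negSucc 2242⟩, ⟨.negSucc 630, .ofNat 24, .ofNat 43, .ofNat 201, .negSucc 293, .negSucc 788⟩, .ofNat 6011, .ofNat 8592,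 .ofNat 0, .ofNat 8592, .ofNat 13047, .ofNat 0, .ofNat 128, .negSucc 1349, .negSucc 5653, .ofNat 0, .ofNat 894, .ofNat 3719, .ofNat 0, .ofNat 0, .ofNat 3430, .ofNat 7754, .ofNat 0, .ofNat 0, .ofNat 11568710999152989091011774284843954726748303654912, .ofNat 0, .ofNat 0, .ofNat 0, .ofNat 6862088187228284512862481337679245654513411914989568, .ofNat 0, .ofNat 0, .ofNat 0, .ofNat 0, .ofNat 0, .ofNat 0, .ofNat 0, .ofNat 0, .ofNat 0⟩)
    (by decide +kernel)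
theorem L06573 : Good (Phi V5.P V5.D (-1) (-1)) ⟨8, 228, 6, 43, 4, 14, 3, 4, 6, 5⟩ :=
  out_sound (S := T5.ds_mm) T5.ok_mm (w := 81) (j := 3) (by decide +kernel)
theorem L06574 : Good (Phi V5.P V5.D (-1) (-1)) ⟨8, 229, 6, 43, 4, 14, 3, 4, 6, 5⟩ :=
  out_sound (S := T5.ds_mm) T5.ok_mm (w := 23) (j := 4) (by decide +kernel)
theorem L06575 : Good (Phi V5.P V5.D (-1) (-1)) ⟨7, 115, 4, 10, 4, 14, 3, 4, 6, 5⟩ :=
  out_sound (S := T5.ds_mm) T5.ok_mm (w := 21) (j := 4) (by decide +kernel)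
theorem L06576 : Good (Phi V5.P V5.D (-1) (-1)) ⟨6, 56, 4, 11, 4, 14, 3, 4, 6, 5⟩ :=
  out_sound (S := T5.ds_mm) T5.ok_mm (w := 65) (j := 3) (by decide +kernel)
theorem L06577 : Good (Phi V5.P V5.D (-1) (-1)) ⟨7, 114, 5, 22, 4, 14, 3, 4, 6, 5⟩ :=
  out_sound (S := T5.ds_mm) T5.ok_mm (w := 73) (j := 3) (by decide +kernel)
theorem L06578 : Good (Phi V5.P V5.D (-1) (-1)) ⟨7, 115, 5, 22, 4, 14, 3, 4, 6, 5⟩ :=
  out_sound (S := T5.ds_mm) T5.ok_mm (w := 21) (j := 4) (by decide +kernel)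
theorem L06579 : Good (Phi V5.P V5.D (-1) (-1)) ⟨6, 57, 5, 23, 4, 14, 3, 4, 6, 5⟩ :=
  out_sound (S := T5.ds_mm) T5.ok_mm (w := 67) (j := 3) (by decide +kernel)
theorem L06580 : Good (Phi V5.P V5.D (-1) (-1)) ⟨5, 29, 3, 5, 4, 14, 3, 4, 6, 5⟩ :=
  out_sound (S := T5.ds_mm) T5.ok_mm (w := 17) (j := 4) (by decide +kernel)
theorem L06581 : Good (Phi V5.P V5.D (-1) (-1)) ⟨4, 15, 3, 5, 4, 14, 3, 4, 6, 5⟩ :=
  out_sound (S := T5.ds_mm) T5.ok_mm (w := 51) (j := 3) (by decide +kernel)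
theorem L06582 : Good (Phi V5.P V5.D (-1) (-1)) ⟨2, 2, 3, 5, 4, 14, 3, 4, 5, 3⟩ :=
  out_sound (S := T5.ds_mm) T5.ok_mm (w := 39) (j := 3) (by decide +kernel)
theorem L06583 : Good (Phi V5.P V5.D (-1) (-1)) ⟨3, 6, 3, 5, 4, 14, 3, 4, 5, 3⟩ :=
  out_sound (S := T5.ds_mm) T5.ok_mm (w := 45) (j := 3) (by decide +kernel)
theorem L06584 : Good (Phi V5.P V5.D (-1) (-1)) ⟨7, 112, 4, 10, 4, 14, 3, 4, 5, 3⟩ :=
  leafX_sound T5.ok_mm T5.Ymm.bz_eq (w := 275) (c := ⟨⟨.negSucc 1902, .negSucc 22, .ofNat 168, .ofNat 516, .ofNat 385, .negSucc 520⟩, ⟨.ofNat 1213, .ofNat 2, .ofNat 20, .negSucc 327, .negSucc 246, .ofNat 331⟩, ⟨.ofNat 1329, .ofNat 30, .negSucc 111, .negSucc 185, .negSucc 352, .ofNat 65⟩, ⟨.negSucc 3723, .ofNat 7, .ofNat 75, .ofNat 666, .ofNat 437, .negSucc 670⟩, ⟨.negSucc 1553, .ofNat 15, .negSucc 44, .negSucc 94, .negSucc 166, .ofNat 98⟩, .ofNat 10580, .ofNat 15931, .ofNat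 0, .ofNat 15931, .ofNat 24842, .ofNat 0, .ofNat 128, .negSucc 2355, .negSucc 7214, .ofNat 0, .ofNat 1518, .ofNat 4598, .ofNat 0, .ofNat 0, .ofNat 5405, .ofNat 16348, .ofNat 0, .ofNat 0, .ofNat 0, .ofNat 0, .ofNat 0, .ofNat 0, .ofNat 4624453451369093943970283635084353250761054879744, .ofNat 0, .ofNat 0, .ofNat 0, .ofNat 27219388029315357618639524691996897430065100357632, .ofNat 0, .ofNat 0, .ofNat 0, .ofNat 5967582096528521629429111062218758719187162497024, .ofNat 0⟩)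
    (by decide +kernel)
theorem L06585 : Good (Phi V5.P V5.D (-1) (-1)) ⟨7, 113, 4, 10, 4, 14, 3, 4, 5, 3⟩ :=
  leafX_sound T5.ok_mm T5.Ymm.bz_eq (w := 271) (c := ⟨⟨.negSucc 2045, .negSucc 175, .ofNat 444, .ofNat 549, .ofNat 413, .negSucc 468⟩, ⟨.ofNat 1294, .ofNat 102, .negSucc 163, .negSucc 354, .negSucc 267, .ofNat 304⟩, ⟨.ofNat 1425, .ofNat 77, .negSucc 182, .negSucc 199, .negSucc 369, .ofNat 28⟩, ⟨.negSucc 3918, .negSucc 129, .ofNat 323, .ofNat 812, .ofNat 591, .negSucc 727⟩, ⟨.negSucc 1600, .ofNat 70, .negSucc 197, .ofNat 65, .ofNat 18, .negSucc 101⟩, .ofNat 10223, .ofNat 15187, .ofNat 0, .ofNat 15187, .ofNat 23376, .ofNat 0, .ofNat 128, .negSucc 939, .negSucc 2496, .ofNat 0, .ofNat 615, .ofNat 1627, .ofNat 0, .ofNat 0, .ofNat 1741, .ofNat 2800, .ofNat 0, .ofNat 0, .ofNat 6213754595340468645100847240796533412283285504, .ofNat 0, .ofNat 0, .ofNat 0, .ofNat 23522288993526779266776079997197208669696443809792,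 .ofNat 0, .ofNat 0, .ofNat 0, .ofNat 2686751401110067339625827589905959515320959893504, .ofNat 0, .ofNat 0, .ofNat 0, .ofNat 4213851331168671878297475149725791664709981700096, .ofNat 0⟩)
    (by decide +kernel)
theorem L06586 : Good (Phi V5.P V5.D (-1) (-1)) ⟨6, 57, 5, 20, 4, 14, 3, 4, 5, 3⟩ :=
  leafX_sound T5.ok_mm T5.Ymm.bz_eq (w := 280) (c := ⟨⟨.negSucc 2179, .ofNat 1, .ofNat 14, .ofNat 556, .ofNat 409, .negSucc 286⟩, ⟨.ofNat 1403, .negSucc 0, .ofNat 23, .negSucc 365, .negSucc 269, .ofNat 189⟩, ⟨.ofNat 1497, .negSucc 0, .ofNat 2, .negSucc 201, .negSucc 366, .negSucc 68⟩, ⟨.negSucc 4003, .ofNat 2, .negSucc 1, .ofNat 559, .ofNat 413, .negSucc 285⟩, ⟨.negSucc 1452, .ofNat 1, .negSucc 0, .negSucc 325, .negSucc 239, .ofNat 170⟩, .ofNat 28795, .ofNat 42995, .ofNat 0, .ofNat 42995, .ofNat 65011, .ofNat 0, .ofNat 128, .negSucc 8214, .negSucc 29147, .ofNat 0, .ofNat 5439,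 .ofNat 19231, .ofNat 0, .ofNat 0, .ofNat 20879, .ofNat 90605, .ofNat 0, .ofNat 0, .ofNat 454122961612266882936925097858408932993713307648, .ofNat 0, .ofNat 0, .ofNat 0, .ofNat 250575014509110397476664699069939994675973497898926080, .ofNat 0, .ofNat 0, .ofNat 0, .ofNat 657129135888446354877537448934648125243756342411264, .ofNat 0, .ofNat 0, .ofNat 0, .ofNat 558168676833729460035418764550582139818052272783360, .ofNat 0⟩)
    (by decide +kernel)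
theorem L06587 : Good (Phi V5.P V5.D (-1) (-1)) ⟨6, 57, 5, 21, 4, 14, 3, 4, 5, 3⟩ :=
  leafX_sound T5.ok_mm T5.Ymm.bz_eq (w := 270) (c := ⟨⟨.negSucc 2088, .negSucc 37, .negSucc 70, .ofNat 605, .ofNat 404, .negSucc 402⟩, ⟨.ofNat 1375, .ofNat 31, .ofNat 91, .negSucc 400, .negSucc 266, .ofNat 269⟩, ⟨.ofNat 1456, .ofNat 33, .ofNat 40, .negSucc 217, .negSucc 366, .negSucc 9⟩, ⟨.negSucc 3991, .negSucc 36, .negSucc 83, .ofNat 976, .ofNat 538, .negSucc 759⟩, ⟨.negSucc 1601, .ofNat 18, .ofNat 37, .ofNat 194, .negSucc 35, .negSucc 285⟩, .ofNat 5676, .ofNat 8010, .ofNat 0, .ofNat 8010, .ofNat 12050, .ofNat 0, .ofNat 128, .negSucc 1535, .negSucc 4723, .ofNat 0, .ofNat 1031, .ofNat 3139, .ofNat 0, .ofNat 0, .ofNat 3165, .ofNat 10371, .ofNat 0, .ofNat 0, .ofNat 48086463452015987402246591404793397931705106432, .ofNat 0, .ofNat 0, .ofNat 0, .ofNat 39848483682489064840161252346037080357461676785664,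 .ofNat 144533154308081197016342150120616995189643223179403599020032, .ofNat 0, .ofNat 0, .ofNat 12568438961544247020204398438553460772287742476288, .ofNat 1051469357504173217397773863044023356704037960842522027622400, .ofNat 0, .ofNat 0, .ofNat 51604100645457455988009572207053719957819170488320, .ofNat 2287469946633243945458666881439715112997603288145063242104832⟩)
    (by decide +kernel)
theorem L06588 : Good (Phi V5.P V5.D (-1) (-1)) ⟨6, 56, 4, 11, 4, 14, 3, 4, 5, 3⟩ :=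
  out_sound (S := T5.ds_mm) T5.ok_mm (w := 65) (j := 3) (by decide +kernel)
theorem L06589 : Good (Phi V5.P V5.D (-1) (-1)) ⟨7, 114, 5, 22, 4, 14, 3, 4, 5, 3⟩ :=
  out_sound (S := T5.ds_mm) T5.ok_mm (w := 73) (j := 3) (by decide +kernel)
theorem L06590 : Good (Phi V5.P V5.D (-1) (-1)) ⟨7, 115, 5, 22, 4, 14, 3, 4, 5, 3⟩ :=
  out_sound (S := T5.ds_mm) T5.ok_mm (w := 21) (j := 4) (by decide +kernel)
theorem L06591 : Good (Phi V5.P V5.D (-1) (-1)) ⟨6, 57, 5, 23, 4, 14, 3, 4, 5, 3⟩ :=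
  out_sound (S := T5.ds_mm) T5.ok_mm (w := 67) (j := 3) (by decide +kernel)
theorem L06592 : Good (Phi V5.P V5.D (-1) (-1)) ⟨5, 29, 3, 5, 4, 14, 3, 4, 5, 3⟩ :=
  out_sound (S := T5.ds_mm) T5.ok_mm (w := 17) (j := 4) (by decide +kernel)
theorem L06593 : Good (Phi V5.P V5.D (-1) (-1)) ⟨4, 15, 3, 5, 4, 14, 3, 4, 5, 3⟩ :=
  out_sound (S := T5.ds_mm) T5.ok_mm (w := 51) (j := 3) (by decide +kernel)
theorem L06594 : Good (Phi V5.P V5.D (-1) (-1)) ⟨2, 2, 5, 20, 4, 15, 4, 8, 6, 4⟩ :=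
  out_sound (S := T5.ds_mm) T5.ok_mm (w := 43) (j := 3) (by decide +kernel)
theorem L06595 : Good (Phi V5.P V5.D (-1) (-1)) ⟨3, 6, 5, 20, 4, 15, 4, 8, 6, 4⟩ :=
  out_sound (S := T5.ds_mm) T5.ok_mm (w := 49) (j := 3) (by decide +kernel)
theorem L06596 : Good (Phi V5.P V5.D (-1) (-1)) ⟨4, 14, 5, 20, 4, 15, 4, 8, 6, 4⟩ :=
  leafX_sound T5.ok_mm T5.Ymm.bz_eq (w := 267) (c := ⟨⟨.ofNat 976, .ofNat 38, .ofNat 329, .negSucc 1074, .negSucc 277, .negSucc 1284⟩, ⟨.negSucc 637, .negSucc 99, .negSucc 192, .ofNat 705, .ofNat 181, .ofNat 836⟩, ⟨.ofNat 215, .ofNat 26, .negSucc 111, .ofNat 756, .ofNat 37, .ofNat 497⟩, ⟨.ofNat 2095, .ofNat 84, .ofNat 587, .negSucc 2239, .negSucc 615, .negSucc 2726⟩, ⟨.ofNat 1082, .ofNat 20, .ofNat 199, .negSucc 1087, .negSucc 338, .negSucc 1388⟩, .ofNat 2821, .ofNat 3714, .ofNat 0, .ofNat 3714, .ofNat 5588, .ofNat 0, .ofNat 128, .negSucc 545, .negSucc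 2380, .ofNat 0, .ofNat 355, .ofNat 1495, .ofNat 0, .ofNat 0, .ofNat 1240, .ofNat 2042, .ofNat 0, .ofNat 0, .ofNat 23298337151741366007994135387462841640244710735872, .ofNat 9970933689405136266982083249384443351532113962542171160576, .ofNat 0, .ofNat 0, .ofNat 14689455491841576482435597405007769518410479412707328, .ofNat 1739490672993855315250662255771261469312138430829042214109184, .ofNat 0, .ofNat 0, .ofNat 9121769606992056407248185127953957023427925454618624, .ofNat 0, .ofNat 0, .ofNat 0, .ofNat 7388834475436699217141851800976056523456685593853952, .ofNat 9351194598039125775440176555385453887183245159428666502938624⟩)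
    (by decide +kernel)
theorem L06597 : Good (Phi V5.P V5.D (-1) (-1)) ⟨4, 15, 5, 20, 4, 15, 4, 8, 6, 4⟩ :=
  out_sound (S := T5.ds_mm) T5.ok_mm (w := 55) (j := 3) (by decide +kernel)
theorem L06598 : Good (Phi V5.P V5.D (-1) (-1)) ⟨2, 2, 5, 20, 4, 15, 4, 8, 6, 5⟩ :=
  out_sound (S := T5.ds_mm) T5.ok_mm (w := 43) (j := 3) (by decide +kernel)
theorem L06599 : Good (Phi V5.P V5.D (-1) (-1)) ⟨3, 6, 5, 20, 4, 15, 4, 8, 6, 5⟩ :=
  out_sound (S := T5.ds_mm) T5.ok_mm (w := 49) (j := 3) (by decide +kernel)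
theorem L06600 : Good (Phi V5.P V5.D (-1) (-1)) ⟨4, 14, 5, 20, 4, 15, 4, 8, 6, 5⟩ :=
  leafX_sound T5.ok_mm T5.Ymm.bz_eq (w := 267) (c := ⟨⟨.negSucc 622, .ofNat 92, .ofNat 10, .negSucc 628, .ofNat 114, .negSucc 682⟩, ⟨.ofNat 386, .negSucc 93, .ofNat 32, .ofNat 409, .negSucc 73, .ofNat 440⟩, ⟨.ofNat 909, .negSucc 54, .ofNat 39, .ofNat 488, .negSucc 154, .ofNat 208⟩, ⟨.negSucc 1183, .ofNat 114, .ofNat 29, .negSucc 1369, .ofNat 126, .negSucc 1382⟩, ⟨.negSucc 481, .ofNat 14, .ofNat 26, .negSucc 729, .negSucc 49, .negSucc 640⟩, .ofNat 2821, .ofNat 3714, .ofNat 0, .ofNat 3714, .ofNat 5588, .ofNat 0, .ofNat 128, .negSucc 613, .negSucc 2779, .ofNat 0, .ofNat 402, .ofNat 1750, .ofNat 0, .ofNat 0, .ofNat 1539, .ofNat 3437, .ofNat 0, .ofNat 0, .ofNat 28978334087800147978471632965200209134714647216128, .ofNat 20248755494052164001066941287501299914436408370529564622848, .ofNat 0,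 .ofNat 0, .ofNat 16188684697127678072725114485834895766725612800049152, .ofNat 6312393126457818592274491791636519849084373032551272692056064, .ofNat 0, .ofNat 0, .ofNat 11362900305528502986398677515628124575291305187344384, .ofNat 0, .ofNat 0, .ofNat 0, .ofNat 20804660139855362009576505927564568852623217303486464, .ofNat 16400389663878402329691847438563720457033075465718648113463296⟩)
    (by decide +kernel)
theorem L06601 : Good (Phi V5.P V5.D (-1) (-1)) ⟨4, 15, 5, 20, 4, 15, 4, 8, 6, 5⟩ :=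
  out_sound (S := T5.ds_mm) T5.ok_mm (w := 55) (j := 3) (by decide +kernel)
theorem L06602 : Good (Phi V5.P V5.D (-1) (-1)) ⟨2, 2, 5, 20, 4, 15, 4, 8, 5, 3⟩ :=
  out_sound (S := T5.ds_mm) T5.ok_mm (w := 43) (j := 3) (by decide +kernel)
theorem L06603 : Good (Phi V5.P V5.D (-1) (-1)) ⟨3, 6, 5, 20, 4, 15, 4, 8, 5, 3⟩ :=
  out_sound (S := T5.ds_mm) T5.ok_mm (w := 49) (j := 3) (by decide +kernel)
theorem L06604 : Good (Phi V5.P V5.D (-1) (-1)) ⟨6, 56, 5, 20, 4, 15, 4, 8, 5, 3⟩ :=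
  leafX_sound T5.ok_mm T5.Ymm.bz_eq (w := 274) (c := ⟨⟨.negSucc 1621, .negSucc 397, .ofNat 249, .ofNat 85, .ofNat 316, .negSucc 15⟩, ⟨.ofNat 1034, .ofNat 231, .negSucc 101, .negSucc 52, .negSucc 204, .ofNat 10⟩, ⟨.ofNat 1267, .ofNat 235, .negSucc 110, .ofNat 127, .negSucc 247, .negSucc 203⟩, ⟨.negSucc 3309, .negSucc 320, .ofNat 190, .negSucc 81, .ofNat 540, .negSucc 50⟩, ⟨.negSucc 1484, .ofNat 169, .negSucc 123, .negSucc 302, .ofNat 147, .negSucc 41⟩, .ofNat 5251, .ofNat 7627, .ofNat 0, .ofNat 7627, .ofNat 11886, .ofNat 0, .ofNat 128, .negSucc 1712, .negSucc 3818, .ofNat 0, .ofNat 1110, .ofNat 2435, .ofNat 0, .ofNat 0, .ofNat 2755, .ofNat 6963, .ofNat 0, .ofNat 0, .ofNat 0, .ofNat 0, .ofNat 0, .ofNat 0, .ofNat 592291534935719656795227665350564060122254254538752, .ofNat 0, .ofNat 0, .ofNat 0, .ofNat 0, .ofNat 0, .ofNat 0, .ofNat 0, .ofNat 0, .ofNat 0⟩)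
    (by decide +kernel)
theorem L06605 : Good (Phi V5.P V5.D (-1) (-1)) ⟨6, 57, 5, 20, 4, 15, 4, 8, 5, 3⟩ :=
  leafX_sound T5.ok_mm T5.Ymm.bz_eq (w := 282) (c := ⟨⟨.negSucc 1772, .ofNat 1, .ofNat 6, .ofNat 32, .ofNat 279, .ofNat 8⟩, ⟨.ofNat 1134, .negSucc 0, .ofNat 29, .negSucc 20, .negSucc 183, .negSucc 5⟩, ⟨.ofNat 1385, .negSucc 0, .ofNat 0, .ofNat 166, .negSucc 234, .negSucc 217⟩, ⟨.negSucc 3417, .ofNat 2, .negSucc 1, .negSucc 38, .ofNat 325, .negSucc 10⟩, ⟨.negSucc 1413, .ofNat 1, .negSucc 0, .negSucc 126, .negSucc 99, .negSucc 34⟩, .ofNat 21704, .ofNat 32314, .ofNat 0, .ofNat 32314, .ofNat 48922, .ofNat 0, .ofNat 128, .negSucc 7841, .negSucc 16968, .ofNat 0, .ofNat 5187, .ofNat 11168, .ofNat 0, .ofNat 0, .ofNat 12133, .ofNat 99552, .ofNat 0, .ofNat 0, .ofNat 3685493057155668250039130568012224507701316550656, .ofNat 0, .ofNat 0, .ofNat 0, .ofNat 2243583561144652770629429258308607237436861243031814144,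 .ofNat 0, .ofNat 0, .ofNat 0, .ofNat 7714583300755120194839594324391196181225762753347584, .ofNat 0, .ofNat 0, .ofNat 0, .ofNat 39267024848040840002640627036388396290741011277152256, .ofNat 0⟩)
    (by decide +kernel)
theorem L06606 : Good (Phi V5.P V5.D (-1) (-1)) ⟨5, 29, 5, 20, 4, 15, 4, 8, 5, 3⟩ :=
  out_sound (S := T5.ds_mm) T5.ok_mm (w := 61) (j := 3) (by decide +kernel)
theorem L06607 : Good (Phi V5.P V5.D (-1) (-1)) ⟨4, 15, 5, 20, 4, 15, 4, 8, 5, 3⟩ :=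
  out_sound (S := T5.ds_mm) T5.ok_mm (w := 55) (j := 3) (by decide +kernel)
theorem L06608 : Good (Phi V5.P V5.D (-1) (-1)) ⟨2, 2, 5, 21, 4, 15, 4, 8, 5, 2⟩ :=
  out_sound (S := T5.ds_mm) T5.ok_mm (w := 43) (j := 3) (by decide +kernel)
theorem L06609 : Good (Phi V5.P V5.D (-1) (-1)) ⟨3, 6, 5, 21, 4, 15, 4, 8, 5, 2⟩ :=
  out_sound (S := T5.ds_mm) T5.ok_mm (w := 49) (j := 3) (by decide +kernel)
theorem L06610 : Good (Phi V5.P V5.D (-1) (-1)) ⟨6, 56, 5, 21, 4, 15, 4, 8, 5, 2⟩ :=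
  leafX_sound T5.ok_mm T5.Ymm.bz_eq (w := 283) (c := ⟨⟨.ofNat 970, .ofNat 0, .negSucc 6, .negSucc 815, .negSucc 89, .negSucc 2170⟩, ⟨.negSucc 638, .ofNat 0, .ofNat 27, .ofNat 538, .ofNat 59, .ofNat 1429⟩, ⟨.ofNat 289, .ofNat 1, .ofNat 103, .ofNat 609, .negSucc 55, .ofNat 802⟩, ⟨.ofNat 449, .negSucc 0, .negSucc 16, .negSucc 854, .negSucc 114, .negSucc 2247⟩, ⟨.negSucc 1358, .ofNat 0, .ofNat 9, .ofNat 429, .ofNat 19, .ofNat 1180⟩, .ofNat 28917, .ofNat 43179, .ofNat 0, .ofNat 43179, .ofNat 65288, .ofNat 0, .ofNat 128, .negSucc 5235, .negSucc 21234, .ofNat 0, .ofNat 3459, .ofNat 13990, .ofNat 0, .ofNat 0, .ofNat 12327, .ofNat 28367, .ofNat 0, .ofNat 0, .ofNat 0, .ofNat 0, .ofNat 0, .ofNat 0, .ofNat 13775255977989497856988912928018036652815657325297664, .ofNat 0, .ofNat 0, .ofNat 0, .ofNat 26486948709018731525477127017798996416872767362695168, .ofNat 0, .ofNat 0, .ofNat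 0, .ofNat 248078519273089940931112680010025407849240669064265728, .ofNat 0⟩)
    (by decide +kernel)
theorem L06611 : Good (Phi V5.P V5.D (-1) (-1)) ⟨7, 114, 6, 42, 4, 15, 4, 8, 6, 4⟩ :=
  leafX_sound T5.ok_mm T5.Ymm.bz_eq (w := 289) (c := ⟨⟨.ofNat 1371, .ofNat 80, .ofNat 104, .negSucc 988, .negSucc 315, .negSucc 1384⟩, ⟨.negSucc 919, .negSucc 76, .negSucc 58, .ofNat 668, .ofNat 215, .ofNat 926⟩, ⟨.ofNat 81, .ofNat 79, .negSucc 87, .ofNat 735, .ofNat 48, .ofNat 538⟩, ⟨.ofNat 3062, .ofNat 157, .ofNat 291, .negSucc 2271, .negSucc 869, .negSucc 3060⟩, ⟨.ofNat 1694, .ofNat 96, .ofNat 198, .negSucc 1306, .negSucc 630, .negSucc 1668⟩, .ofNat 6011, .ofNat 8592, .ofNat 0, .ofNat 8592, .ofNat 13047, .ofNat 0, .ofNat 128, .negSucc 1854, .negSucc 10790, .ofNat 0, .ofNat 1223, .ofNat 7060, .ofNat 0, .ofNat 0, .ofNat 5645, .ofNat 5658, .ofNat 0, .ofNat 0, .ofNat 0, .ofNat 0, .ofNat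 0, .ofNat 0, .ofNat 15970084282605355945101526219991030225325696353304576, .ofNat 0, .ofNat 0, .ofNat 0, .ofNat 19901189784849497784658199690771423244983406157627392, .ofNat 18582915894982291973574756636053358781245250956988302886248120320, .ofNat 0, .ofNat 0, .ofNat 0, .ofNat 136642398598449829791049277727740362450746345837440216243034390528⟩)
    (by decide +kernel)
theorem L06612 : Good (Phi V5.P V5.D (-1) (-1)) ⟨7, 114, 6, 42, 4, 15, 4, 8, 6, 5⟩ :=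
  leafX_sound T5.ok_mm T5.Ymm.bz_eq (w := 291) (c := ⟨⟨.negSucc 250, .negSucc 25, .negSucc 54, .negSucc 928, .ofNat 7, .negSucc 840⟩, ⟨.ofNat 161, .negSucc 23, .ofNat 77, .ofNat 616, .negSucc 5, .ofNat 556⟩, ⟨.ofNat 761, .negSucc 11, .ofNat 63, .ofNat 651, .negSucc 108, .ofNat 283⟩, ⟨.negSucc 1113, .negSucc 88, .negSucc 167, .negSucc 1411, .ofNat 61, .negSucc 1159⟩, ⟨.negSucc 1133, .negSucc 69, .negSucc 134, .negSucc 171, .ofNat 75, .ofNat 18⟩, .ofNat 17424, .ofNat 25594, .ofNat 0, .ofNat 25594, .ofNat 38383, .ofNat 0, .ofNat 128, .negSucc 1750, .negSucc 7240, .ofNat 0, .ofNat 1166, .ofNat 4802, .ofNat 0, .ofNat 0, .ofNat 4151, .ofNat 8623, .ofNat 0, .ofNat 0, .ofNat 66171869244788542404367787263655462487711111184384, .ofNat 0, .ofNat 0, .ofNat 0, .ofNat 543079345909627756205447299732579756964775875529670656, .ofNat 0, .ofNat 0, .ofNat 0, .ofNat 0, .ofNat 0, .ofNat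 0, .ofNat 0, .ofNat 0, .ofNat 0⟩)
    (by decide +kernel)
theorem L06613 : Good (Phi V5.P V5.D (-1) (-1)) ⟨7, 115, 6, 42, 4, 15, 4, 8, 5, 2⟩ :=
  out_sound (S := T5.ds_mm) T5.ok_mm (w := 75) (j := 3) (by decide +kernel)
theorem L06614 : Good (Phi V5.P V5.D (-1) (-1)) ⟨8, 228, 6, 43, 4, 15, 4, 8, 5, 2⟩ :=
  out_sound (S := T5.ds_mm) T5.ok_mm (w := 81) (j := 3) (by decide +kernel)
theorem L06615 : Good (Phi V5.P V5.D (-1) (-1)) ⟨8, 229, 6, 43, 4, 15, 4, 8, 5, 2⟩ :=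
  out_sound (S := T5.ds_mm) T5.ok_mm (w := 23) (j := 4) (by decide +kernel)
theorem L06616 : Good (Phi V5.P V5.D (-1) (-1)) ⟨7, 115, 6, 43, 4, 15, 4, 8, 5, 2⟩ :=
  out_sound (S := T5.ds_mm) T5.ok_mm (w := 21) (j := 4) (by decide +kernel)
theorem L06617 : Good (Phi V5.P V5.D (-1) (-1)) ⟨5, 29, 5, 21, 4, 15, 4, 8, 5, 2⟩ :=
  out_sound (S := T5.ds_mm) T5.ok_mm (w := 61) (j := 3) (by decide +kernel)
theorem L06618 : Good (Phi V5.P V5.D (-1) (-1)) ⟨4, 15, 5, 21, 4, 15, 4, 8, 5, 2⟩ :=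
  out_sound (S := T5.ds_mm) T5.ok_mm (w := 55) (j := 3) (by decide +kernel)
theorem L06619 : Good (Phi V5.P V5.D (-1) (-1)) ⟨2, 2, 5, 21, 4, 15, 4, 8, 5, 3⟩ :=
  out_sound (S := T5.ds_mm) T5.ok_mm (w := 43) (j := 3) (by decide +kernel)
theorem L06620 : Good (Phi V5.P V5.D (-1) (-1)) ⟨3, 6, 5, 21, 4, 15, 4, 8, 5, 3⟩ :=
  out_sound (S := T5.ds_mm) T5.ok_mm (w := 49) (j := 3) (by decide +kernel)
theorem L06621 : Good (Phi V5.P V5.D (-1) (-1)) ⟨6, 56, 6, 42, 4, 15, 4, 8, 5, 3⟩ :=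
  leafX_sound T5.ok_mm T5.Ymm.bz_eq (w := 284) (c := ⟨⟨.negSucc 1818, .negSucc 0, .ofNat 77, .ofNat 101, .ofNat 287, .ofNat 20⟩, ⟨.ofNat 1197, .ofNat 1, .negSucc 21, .negSucc 65, .negSucc 188, .negSucc 12⟩, ⟨.ofNat 1414, .ofNat 1, .negSucc 104, .ofNat 130, .negSucc 230, .negSucc 226⟩, ⟨.negSucc 3463, .negSucc 1, .ofNat 40, .ofNat 41, .ofNat 324, .negSucc 0⟩, ⟨.negSucc 1374, .negSucc 0, .negSucc 18, .negSucc 149, .negSucc 116, .negSucc 43⟩, .ofNat 23193, .ofNat 34557, .ofNat 0, .ofNat 34557, .ofNat 52301, .ofNat 0, .ofNat 128, .negSucc 5184, .negSucc 10179, .ofNat 0, .ofNat 3431, .ofNat 6706, .ofNat 0, .ofNat 0, .ofNat 7369, .ofNat 53354, .ofNat 0, .ofNat 0, .ofNat 0, .ofNat 0, .ofNat 0, .ofNat 0, .ofNat 19576052314903986332313706996905662803726432802439168, .ofNat 0, .ofNat 0, .ofNat 0, .ofNat 193620244011288435422644904978710462989140619727732736, .ofNat 0, .ofNat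 0, .ofNat 0, .ofNat 279350687427887866398990881116254373536532620453609472, .ofNat 0⟩)
    (by decide +kernel)
theorem L06622 : Good (Phi V5.P V5.D (-1) (-1)) ⟨6, 57, 6, 42, 4, 15, 4, 8, 5, 3⟩ :=
  leafX_sound T5.ok_mm T5.Ymm.bz_eq (w := 277) (c := ⟨⟨.negSucc 1775, .ofNat 26, .negSucc 13, .ofNat 86, .ofNat 347, .negSucc 25⟩, ⟨.ofNat 1165, .negSucc 58, .ofNat 43, .negSucc 47, .negSucc 230, .ofNat 17⟩, ⟨.ofNat 1393, .ofNat 47, .ofNat 5, .ofNat 150, .negSucc 266, .negSucc 212⟩, ⟨.negSucc 3344, .negSucc 0, .negSucc 5, .negSucc 258, .ofNat 582, .negSucc 88⟩, ⟨.negSucc 1294, .negSucc 0, .ofNat 15, .negSucc 548, .ofNat 144, .negSucc 75⟩, .ofNat 4491, .ofNat 6260, .ofNat 0, .ofNat 6260, .ofNat 9469, .ofNat 0, .ofNat 128, .negSucc 2249, .negSucc 5902, .ofNat 0, .ofNat 1500, .ofNat 3860, .ofNat 0, .ofNat 0, .ofNat 3955, .ofNat 16124, .ofNat 0, .ofNat 0, .ofNat 2827263510074124587608783696054133311482366001152,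 .ofNat 0, .ofNat 0, .ofNat 0, .ofNat 2731659851653893723917321420861659752552118152593408, .ofNat 0, .ofNat 0, .ofNat 0, .ofNat 1013376025921616342102922347849976101300979309215744, .ofNat 292715536364595633257030098508767587116960546611578807827562496, .ofNat 0, .ofNat 0, .ofNat 0, .ofNat 1329696932708082535300269245148675366000570295418997587480412160⟩)
    (by decide +kernel)
theorem L06623 : Good (Phi V5.P V5.D (-1) (-1)) ⟨6, 56, 6, 43, 4, 15, 4, 8, 5, 3⟩ :=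
  out_sound (S := T5.ds_mm) T5.ok_mm (w := 69) (j := 3) (by decide +kernel)
theorem L06624 : Good (Phi V5.P V5.D (-1) (-1)) ⟨8, 228, 6, 43, 4, 15, 4, 8, 5, 3⟩ :=
  out_sound (S := T5.ds_mm) T5.ok_mm (w := 81) (j := 3) (by decide +kernel)
theorem L06625 : Good (Phi V5.P V5.D (-1) (-1)) ⟨8, 229, 6, 43, 4, 15, 4, 8, 5, 3⟩ :=
  out_sound (S := T5.ds_mm) T5.ok_mm (w := 23) (j := 4) (by decide +kernel)
theorem L06626 : Good (Phi V5.P V5.D (-1) (-1)) ⟨7, 115, 6, 43, 4, 15, 4, 8, 5, 3⟩ :=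
  out_sound (S := T5.ds_mm) T5.ok_mm (w := 21) (j := 4) (by decide +kernel)
theorem L06627 : Good (Phi V5.P V5.D (-1) (-1)) ⟨5, 29, 5, 21, 4, 15, 4, 8, 5, 3⟩ :=
  out_sound (S := T5.ds_mm) T5.ok_mm (w := 61) (j := 3) (by decide +kernel)
theorem L06628 : Good (Phi V5.P V5.D (-1) (-1)) ⟨4, 15, 5, 21, 4, 15, 4, 8, 5, 3⟩ :=
  out_sound (S := T5.ds_mm) T5.ok_mm (w := 55) (j := 3) (by decide +kernel)
theorem L06629 : Good (Phi V5.P V5.D (-1) (-1)) ⟨2, 2, 4, 11, 4, 15, 4, 8, 4, 1⟩ :=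
  out_sound (S := T5.ds_mm) T5.ok_mm (w := 41) (j := 3) (by decide +kernel)
theorem L06630 : Good (Phi V5.P V5.D (-1) (-1)) ⟨3, 6, 4, 11, 4, 15, 4, 8, 4, 1⟩ :=
  out_sound (S := T5.ds_mm) T5.ok_mm (w := 47) (j := 3) (by decide +kernel)
theorem L06631 : Good (Phi V5.P V5.D (-1) (-1)) ⟨6, 56, 4, 11, 4, 15, 4, 8, 4, 1⟩ :=
  out_sound (S := T5.ds_mm) T5.ok_mm (w := 65) (j := 3) (by decide +kernel)
theorem L06632 : Good (Phi V5.P V5.D (-1) (-1)) ⟨7, 114, 5, 22, 4, 15, 4, 8, 4, 1⟩ :=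
  out_sound (S := T5.ds_mm) T5.ok_mm (w := 73) (j := 3) (by decide +kernel)
theorem L06633 : Good (Phi V5.P V5.D (-1) (-1)) ⟨7, 115, 5, 22, 4, 15, 4, 8, 4, 1⟩ :=
  out_sound (S := T5.ds_mm) T5.ok_mm (w := 21) (j := 4) (by decide +kernel)
theorem L06634 : Good (Phi V5.P V5.D (-1) (-1)) ⟨6, 57, 5, 23, 4, 15, 4, 8, 4, 1⟩ :=
  out_sound (S := T5.ds_mm) T5.ok_mm (w := 67) (j := 3) (by decide +kernel)
theorem L06635 : Good (Phi V5.P V5.D (-1) (-1)) ⟨5, 29, 4, 11, 4, 15, 4, 8, 4, 1⟩ :=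
  out_sound (S := T5.ds_mm) T5.ok_mm (w := 17) (j := 4) (by decide +kernel)
theorem L06636 : Good (Phi V5.P V5.D (-1) (-1)) ⟨4, 15, 4, 11, 4, 15, 4, 8, 4, 1⟩ :=
  out_sound (S := T5.ds_mm) T5.ok_mm (w := 53) (j := 3) (by decide +kernel)
theorem L06637 : Good (Phi V5.P V5.D (-1) (-1)) ⟨2, 2, 5, 20, 4, 15, 4, 9, 4, 1⟩ :=
  out_sound (S := T5.ds_mm) T5.ok_mm (w := 43) (j := 3) (by decide +kernel)
theorem L06638 : Good (Phi V5.P V5.D (-1) (-1)) ⟨3, 6, 5, 20, 4, 15, 4, 9, 5, 2⟩ :=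
  out_sound (S := T5.ds_mm) T5.ok_mm (w := 49) (j := 3) (by decide +kernel)
theorem L06639 : Good (Phi V5.P V5.D (-1) (-1)) ⟨6, 56, 6, 40, 4, 15, 4, 9, 5, 2⟩ :=
  leafX_sound T5.ok_mm T5.Ymm.bz_eq (w := 278) (c := ⟨⟨.ofNat 318, .negSucc 235, .ofNat 82, .negSucc 573, .ofNat 33, .negSucc 1344⟩, ⟨.negSucc 190, .ofNat 112, .negSucc 31, .ofNat 368, .negSucc 21, .ofNat 856⟩, ⟨.ofNat 477, .ofNat 112, .negSucc 17, .ofNat 453, .negSucc 111, .ofNat 416⟩, ⟨.ofNat 436, .negSucc 185, .ofNat 50, .negSucc 1183, .negSucc 37, .negSucc 2618⟩, ⟨.ofNat 6, .ofNat 158, .negSucc 75, .negSucc 567, .negSucc 125, .negSucc 1107⟩, .ofNat 6539, .ofNat 9646, .ofNat 0, .ofNat 9646, .ofNat 15057, .ofNat 0, .ofNat 128, .negSucc 1400, .negSucc 5830, .ofNat 0, .ofNat 898, .ofNat 3702, .ofNat 0, .ofNat 0, .ofNat 3450, .ofNat 5914, .ofNat 0, .ofNat 0, .ofNat 1865108734928814746123332811023297095914183720960,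 .ofNat 0, .ofNat 0, .ofNat 0, .ofNat 2246757047122957032256315394172898047583435827970048, .ofNat 0, .ofNat 0, .ofNat 0, .ofNat 703651050469954646085263900777082889881781968830464, .ofNat 0, .ofNat 0, .ofNat 0, .ofNat 0, .ofNat 0⟩)
    (by decide +kernel)
theorem L06640 : Good (Phi V5.P V5.D (-1) (-1)) ⟨7, 112, 6, 41, 4, 15, 4, 9, 5, 2⟩ :=
  out_sound (S := T5.ds_mm) T5.ok_mm (w := 75) (j := 3) (by decide +kernel)
theorem L06641 : Good (Phi V5.P V5.D (-1) (-1)) ⟨7, 113, 6, 41, 4, 15, 4, 9, 5, 2⟩ :=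
  leafX_sound T5.ok_mm T5.Ymm.bz_eq (w := 284) (c := ⟨⟨.ofNat 188, .ofNat 106, .negSucc 22, .negSucc 722, .negSucc 52, .negSucc 1221⟩, ⟨.negSucc 125, .negSucc 74, .ofNat 28, .ofNat 473, .ofNat 36, .ofNat 795⟩, ⟨.ofNat 571, .negSucc 65, .ofNat 44, .ofNat 530, .negSucc 75, .ofNat 340⟩, ⟨.ofNat 403, .ofNat 114, .negSucc 6, .negSucc 1516, .negSucc 308, .negSucc 2308⟩, ⟨.ofNat 193, .negSucc 21, .ofNat 24, .negSucc 754, .negSucc 351, .negSucc 895⟩, .ofNat 8626, .ofNat 12690, .ofNat 0, .ofNat 12690, .ofNat 19477, .ofNat 0, .ofNat 128, .negSucc 1383, .negSucc 7663, .ofNat 0, .ofNat 902, .ofNat 4965, .ofNat 0, .ofNat 0, .ofNat 4290, .ofNat 6288, .ofNat 0, .ofNat 0, .ofNat 945323952645048377098832726556613927602235637760, .ofNat 0, .ofNat 0, .ofNat 0, .ofNat 831303959224669296798068414533871804280375368220672, .ofNat 0, .ofNat 0, .ofNat 0, .ofNat 34307608469950776136760723731450714580993290797056,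 .ofNat 0, .ofNat 0, .ofNat 0, .ofNat 0, .ofNat 0⟩)
    (by decide +kernel)
theorem L06642 : Good (Phi V5.P V5.D (-1) (-1)) ⟨6, 57, 5, 20, 4, 15, 4, 9, 5, 2⟩ :=
  leafX_sound T5.ok_mm T5.Ymm.bz_eq (w := 282) (c := ⟨⟨.ofNat 415, .ofNat 0, .negSucc 22, .negSucc 773, .ofNat 6, .negSucc 1461⟩, ⟨.negSucc 211, .ofNat 0, .negSucc 45, .ofNat 510, .negSucc 2, .ofNat 958⟩, ⟨.ofNat 494, .ofNat 0, .negSucc 10, .ofNat 562, .negSucc 104, .ofNat 460⟩, ⟨.ofNat 302, .ofNat 1, .ofNat 1, .negSucc 1384, .negSucc 130, .negSucc 2170⟩, ⟨.negSucc 370, .ofNat 0, .ofNat 0, .negSucc 447, .negSucc 206, .negSucc 185⟩, .ofNat 14071, .ofNat 20818, .ofNat 0, .ofNat 20818, .ofNat 31606, .ofNat 0, .ofNat 128, .negSucc 5220, .negSucc 28633, .ofNat 0, .ofNat 3439, .ofNat 18790, .ofNat 0, .ofNat 0, .ofNat 16144, .ofNat 43480, .ofNat 0, .ofNat 0, .ofNat 0, .ofNat 0, .ofNat 0, .ofNat 0, .ofNat 2337425184080231496067421486350730693027499418178289664,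 .ofNat 0, .ofNat 0, .ofNat 0, .ofNat 100248923898985105449937741011923470944304846923104256, .ofNat 0, .ofNat 0, .ofNat 0, .ofNat 10573372829395945293392230466509101451541627684257792, .ofNat 0⟩)
    (by decide +kernel)
theorem L06643 : Good (Phi V5.P V5.D (-1) (-1)) ⟨5, 29, 5, 20, 4, 15, 4, 9, 5, 2⟩ :=
  out_sound (S := T5.ds_mm) T5.ok_mm (w := 61) (j := 3) (by decide +kernel)
theorem L06644 : Good (Phi V5.P V5.D (-1) (-1)) ⟨4, 15, 5, 20, 4, 15, 4, 9, 5, 2⟩ :=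
  out_sound (S := T5.ds_mm) T5.ok_mm (w := 55) (j := 3) (by decide +kernel)
theorem L06645 : Good (Phi V5.P V5.D (-1) (-1)) ⟨3, 6, 5, 20, 4, 15, 4, 9, 5, 3⟩ :=
  out_sound (S := T5.ds_mm) T5.ok_mm (w := 49) (j := 3) (by decide +kernel)
theorem L06646 : Good (Phi V5.P V5.D (-1) (-1)) ⟨5, 28, 5, 20, 4, 15, 4, 9, 5, 3⟩ :=
  leafX_sound T5.ok_mm T5.Ymm.bz_eq (w := 268) (c := ⟨⟨.negSucc 1659, .ofNat 53, .ofNat 44, .ofNat 218, .ofNat 302, .ofNat 27⟩, ⟨.ofNat 1058, .negSucc 73, .ofNat 21, .negSucc 138, .negSucc 195, .negSucc 17⟩, ⟨.ofNat 1227, .negSucc 80, .ofNat 24, .ofNat 53, .negSucc 226, .negSucc 217⟩, ⟨.negSucc 3339, .ofNat 66, .ofNat 32, .ofNat 368, .ofNat 509, .ofNat 63⟩, ⟨.negSucc 1542, .ofNat 2, .negSucc 33, .ofNat 101, .ofNat 129, .ofNat 39⟩, .ofNat 3968, .ofNat 5601, .ofNat 0, .ofNat 5601, .ofNat 8683, .ofNat 0, .ofNat 128, .negSucc 1557, .negSucc 3152, .ofNat 0,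 .ofNat 1014, .ofNat 2007, .ofNat 0, .ofNat 0, .ofNat 2177, .ofNat 6490, .ofNat 0, .ofNat 0, .ofNat 1084254958744053675776159075262311944348596436992, .ofNat 0, .ofNat 0, .ofNat 0, .ofNat 516729963072897293272409204129109901990667109793792, .ofNat 0, .ofNat 0, .ofNat 0, .ofNat 0, .ofNat 0, .ofNat 0, .ofNat 0, .ofNat 1083773554136118599776332789661404162153079755505664, .ofNat 0⟩)
    (by decide +kernel)
theorem L06647 : Good (Phi V5.P V5.D (-1) (-1)) ⟨5, 29, 5, 20, 4, 15, 4, 9, 5, 3⟩ :=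
  out_sound (S := T5.ds_mm) T5.ok_mm (w := 61) (j := 3) (by decide +kernel)
theorem L06648 : Good (Phi V5.P V5.D (-1) (-1)) ⟨4, 15, 5, 20, 4, 15, 4, 9, 5, 3⟩ :=
  out_sound (S := T5.ds_mm) T5.ok_mm (w := 55) (j := 3) (by decide +kernel)
theorem L06649 : Good (Phi V5.P V5.D (-1) (-1)) ⟨2, 2, 5, 21, 4, 15, 4, 9, 5, 2⟩ :=
  out_sound (S := T5.ds_mm) T5.ok_mm (w := 43) (j := 3) (by decide +kernel)
theorem L06650 : Good (Phi V5.P V5.D (-1) (-1)) ⟨3, 6, 5, 21, 4, 15, 4, 9, 5, 2⟩ :=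
  out_sound (S := T5.ds_mm) T5.ok_mm (w := 49) (j := 3) (by decide +kernel)
theorem L06651 : Good (Phi V5.P V5.D (-1) (-1)) ⟨6, 56, 6, 42, 4, 15, 4, 9, 5, 2⟩ :=
  leafX_sound T5.ok_mm T5.Ymm.bz_eq (w := 287) (c := ⟨⟨.ofNat 555, .ofNat 0, .negSucc 102, .negSucc 701, .negSucc 96, .negSucc 1457⟩, ⟨.negSucc 365, .ofNat 0, .ofNat 79, .ofNat 463, .ofNat 64, .ofNat 959⟩, ⟨.ofNat 402, .ofNat 0, .ofNat 114, .ofNat 535, .negSucc 54, .ofNat 446⟩, ⟨.ofNat 100, .negSucc 0, .negSucc 35, .negSucc 792, .negSucc 226, .negSucc 1595⟩, ⟨.negSucc 1011, .ofNat 0, .ofNat 26, .ofNat 284, .negSucc 130, .ofNat 664⟩, .ofNat 29053, .ofNat 43384, .ofNat 0, .ofNat 43384, .ofNat 65597, .ofNat 0, .ofNat 128, .negSucc 7428, .negSucc 28483, .ofNat 0, .ofNat 4907, .ofNat 18764, .ofNat 0, .ofNat 0, .ofNat 16223, .ofNat 25198, .ofNat 0, .ofNat 0, .ofNat 0, .ofNat 0, .ofNat 0, .ofNat 0, .ofNat 114644772203714493364399525592241536170253899914018816,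 .ofNat 0, .ofNat 0, .ofNat 0, .ofNat 123078740697590838295265064951683969176203013744754688, .ofNat 0, .ofNat 0, .ofNat 0, .ofNat 0, .ofNat 0⟩)
    (by decide +kernel)
theorem L06652 : Good (Phi V5.P V5.D (-1) (-1)) ⟨8, 228, 6, 42, 4, 15, 4, 9, 6, 4⟩ :=
  leafX_sound T5.ok_mm T5.Ymm.bz_eq (w := 295) (c := ⟨⟨.ofNat 942, .ofNat 141, .ofNat 113, .negSucc 1348, .negSucc 393, .negSucc 937⟩, ⟨.negSucc 630, .negSucc 91, .negSucc 69, .ofNat 898, .ofNat 263, .ofNat 625⟩, ⟨.ofNat 196, .negSucc 56, .negSucc 25, .ofNat 862, .ofNat 78, .ofNat 324⟩, ⟨.ofNat 1843, .ofNat 108, .ofNat 91, .negSucc 2371, .negSucc 1055, .negSucc 2111⟩, ⟨.ofNat 789, .negSucc 124, .negSucc 102, .negSucc 725, .negSucc 752, .negSucc 1202⟩, .ofNat 19017, .ofNat 28120, .ofNat 0, .ofNat 28120, .ofNat 42378, .ofNat 0, .ofNat 128, .negSucc 1640, .negSucc 7636, .ofNat 0, .ofNat 1090, .ofNat 5058, .ofNat 0, .ofNat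 0, .ofNat 4126, .ofNat 6313, .ofNat 0, .ofNat 0, .ofNat 0, .ofNat 0, .ofNat 0, .ofNat 0, .ofNat 223673538132810288480094578236573955549023073237729280, .ofNat 0, .ofNat 0, .ofNat 0, .ofNat 0, .ofNat 0, .ofNat 0, .ofNat 0, .ofNat 0, .ofNat 0⟩)
    (by decide +kernel)
theorem L06653 : Good (Phi V5.P V5.D (-1) (-1)) ⟨8, 228, 6, 42, 4, 15, 4, 9, 6, 5⟩ :=
  leafX_sound T5.ok_mm T5.Ymm.bz_eq (w := 297) (c := ⟨⟨.negSucc 699, .negSucc 20, .ofNat 10, .negSucc 495, .ofNat 98, .negSucc 416⟩, ⟨.ofNat 458, .ofNat 7, .ofNat 16, .ofNat 329, .negSucc 63, .ofNat 276⟩, ⟨.ofNat 895, .ofNat 0, .ofNat 24, .ofNat 408, .negSucc 143, .ofNat 79⟩, ⟨.negSucc 1628, .ofNat 16, .ofNat 18, .negSucc 737, .negSucc 40, .negSucc 655⟩, ⟨.negSucc 966, .ofNat 41, .ofNat 39, .negSucc 67, .negSucc 266, .negSucc 112⟩, .ofNat 19018, .ofNat 28120, .ofNat 0, .ofNat 28120, .ofNat 42376, .ofNat 0, .ofNat 128, .negSucc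 2589, .negSucc 12378, .ofNat 0, .ofNat 1720, .ofNat 8200, .ofNat 0, .ofNat 0, .ofNat 6998, .ofNat 9661, .ofNat 0, .ofNat 0, .ofNat 0, .ofNat 0, .ofNat 0, .ofNat 0, .ofNat 210222939457773746845660850280757954075687311672082432, .ofNat 0, .ofNat 0, .ofNat 0, .ofNat 0, .ofNat 0, .ofNat 0, .ofNat 0, .ofNat 0, .ofNat 0⟩)
    (by decide +kernel)
theorem L06654 : Good (Phi V5.P V5.D (-1) (-1)) ⟨8, 229, 6, 42, 4, 15, 4, 9, 5, 2⟩ :=
  out_sound (S := T5.ds_mm) T5.ok_mm (w := 23) (j := 4) (by decide +kernel)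
theorem L06655 : Good (Phi V5.P V5.D (-1) (-1)) ⟨7, 115, 6, 42, 4, 15, 4, 9, 5, 2⟩ :=
  out_sound (S := T5.ds_mm) T5.ok_mm (w := 75) (j := 3) (by decide +kernel)
theorem L06656 : Good (Phi V5.P V5.D (-1) (-1)) ⟨6, 56, 6, 43, 4, 15, 4, 9, 5, 2⟩ :=
  out_sound (S := T5.ds_mm) T5.ok_mm (w := 69) (j := 3) (by decide +kernel)
theorem L06657 : Good (Phi V5.P V5.D (-1) (-1)) ⟨8, 228, 6, 43, 4, 15, 4, 9, 5, 2⟩ :=
  out_sound (S := T5.ds_mm) T5.ok_mm (w := 81) (j := 3) (by decide +kernel)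
theorem L06658 : Good (Phi V5.P V5.D (-1) (-1)) ⟨8, 229, 6, 43, 4, 15, 4, 9, 5, 2⟩ :=
  out_sound (S := T5.ds_mm) T5.ok_mm (w := 23) (j := 4) (by decide +kernel)
theorem L06659 : Good (Phi V5.P V5.D (-1) (-1)) ⟨7, 115, 6, 43, 4, 15, 4, 9, 5, 2⟩ :=
  out_sound (S := T5.ds_mm) T5.ok_mm (w := 21) (j := 4) (by decide +kernel)
theorem L06660 : Good (Phi V5.P V5.D (-1) (-1)) ⟨5, 29, 5, 21, 4, 15, 4, 9, 5, 2⟩ :=
  out_sound (S := T5.ds_mm) T5.ok_mm (w := 61) (j := 3) (by decide +kernel)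
theorem L06661 : Good (Phi V5.P V5.D (-1) (-1)) ⟨4, 15, 5, 21, 4, 15, 4, 9, 5, 2⟩ :=
  out_sound (S := T5.ds_mm) T5.ok_mm (w := 55) (j := 3) (by decide +kernel)
theorem L06662 : Good (Phi V5.P V5.D (-1) (-1)) ⟨2, 2, 5, 21, 4, 15, 4, 9, 5, 3⟩ :=
  out_sound (S := T5.ds_mm) T5.ok_mm (w := 43) (j := 3) (by decide +kernel)
theorem L06663 : Good (Phi V5.P V5.D (-1) (-1)) ⟨3, 6, 5, 21, 4, 15, 4, 9, 5, 3⟩ :=
  out_sound (S := T5.ds_mm) T5.ok_mm (w := 49) (j := 3) (by decide +kernel)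

end Crest.Agent.R097C5.N5mm
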