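import Crest.Agent.R097.KP7
import Crest.Agent.R097.T5Ymm

/-!
# Row 97, box cover in dimension n = 5 (generated)
-/

set_option autoImplicit false
set_option Elab.async false
set_option maxHeartbeats 0
set_option maxRecDepth 100000

open Crest.Agent.R097 Crest.Agent.R097.KA


namespace Crest.Agent.R097C5.N5mm

theorem L06664 : Good (Phi V5.P V5.D (-1) (-1)) ⟨6, 56, 5, 21, 4, 15, 4, 9, 5, 3⟩ :=
  leafX_sound T5.ok_mm T5.Ymm.bz_eq (w := 282) (c := ⟨⟨.negSucc 1631, .negSucc 0, .ofNat 147, .ofNat 186, .ofNat 306, .ofNat 87⟩, ⟨.ofNat 1074, .ofNat 0, .negSucc 42, .negSucc 121, .negSucc 201, .negSucc 56⟩, ⟨.ofNat 1230, .ofNat 1, .ofNat 0, .ofNat 79, .negSucc 239, .negSucc 246⟩, ⟨.negSucc 3157, .negSucc 0, .ofNat 30, .ofNat 123, .ofNat 358, .ofNat 127⟩, ⟨.negSucc 1307, .negSucc 0, .negSucc 16, .negSucc 207, .negSucc 105, .ofNat 6⟩, .ofNat 23149, .ofNat 34491, .ofNat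 0, .ofNat 34491, .ofNat 52202, .ofNat 0, .ofNat 128, .negSucc 8290, .negSucc 17369, .ofNat 0, .ofNat 5483, .ofNat 11440, .ofNat 0, .ofNat 0, .ofNat 12085, .ofNat 35696, .ofNat 0, .ofNat 0, .ofNat 0, .ofNat 0, .ofNat 0, .ofNat 0, .ofNat 5994352558077815323512335202309590226754876592881664, .ofNat 0, .ofNat 0, .ofNat 0, .ofNat 18715942666319845897707720639175313745871695870164992, .ofNat 0, .ofNat 0, .ofNat 0, .ofNat 5181561346702573970545081720612358392005286764216320, .ofNat 0⟩)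
    (by decide +kernel)
theorem L06665 : Good (Phi V5.P V5.D (-1) (-1)) ⟨7, 114, 6, 42, 4, 15, 4, 9, 5, 3⟩ :=
  leafX_sound T5.ok_mm T5.Ymm.bz_eq (w := 284) (c := ⟨⟨.negSucc 1602, .negSucc 23, .ofNat 8, .ofNat 215, .ofNat 275, .ofNat 88⟩, ⟨.ofNat 1053, .ofNat 10, .ofNat 16, .negSucc 135, .negSucc 183, .negSucc 57⟩, ⟨.ofNat 1208, .ofNat 3, .ofNat 17, .ofNat 76, .negSucc 219, .negSucc 249⟩, ⟨.negSucc 3045, .negSucc 29, .negSucc 16, .negSucc 25, .ofNat 507, .ofNat 62⟩, ⟨.negSucc 1205, .negSucc 10, .negSucc 26, .negSucc 480, .ofNat 182, .negSucc 90⟩, .ofNat 7211, .ofNat 10437, .ofNat 0, .ofNat 10437, .ofNat 15886, .ofNat 0, .ofNat 128, .negSucc 3544, .negSucc 7723, .ofNat 0, .ofNat 2344, .ofNat 5061, .ofNat 0, .ofNat 0, .ofNat 5190, .ofNat 20817, .ofNat 0, .ofNat 0, .ofNat 0, .ofNat 0, .ofNat 0, .ofNat 0, .ofNat 3717285931277612874245195379965006528032369929093120,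 .ofNat 0, .ofNat 0, .ofNat 0, .ofNat 0, .ofNat 0, .ofNat 0, .ofNat 0, .ofNat 0, .ofNat 0⟩)
    (by decide +kernel)
theorem L06666 : Good (Phi V5.P V5.D (-1) (-1)) ⟨7, 115, 6, 42, 4, 15, 4, 9, 5, 3⟩ :=
  out_sound (S := T5.ds_mm) T5.ok_mm (w := 75) (j := 3) (by decide +kernel)
theorem L06667 : Good (Phi V5.P V5.D (-1) (-1)) ⟨8, 228, 6, 43, 4, 15, 4, 9, 5, 3⟩ :=
  out_sound (S := T5.ds_mm) T5.ok_mm (w := 81) (j := 3) (by decide +kernel)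
theorem L06668 : Good (Phi V5.P V5.D (-1) (-1)) ⟨8, 229, 6, 43, 4, 15, 4, 9, 5, 3⟩ :=
  out_sound (S := T5.ds_mm) T5.ok_mm (w := 23) (j := 4) (by decide +kernel)
theorem L06669 : Good (Phi V5.P V5.D (-1) (-1)) ⟨7, 115, 6, 43, 4, 15, 4, 9, 5, 3⟩ :=
  out_sound (S := T5.ds_mm) T5.ok_mm (w := 21) (j := 4) (by decide +kernel)
theorem L06670 : Good (Phi V5.P V5.D (-1) (-1)) ⟨5, 29, 5, 21, 4, 15, 4, 9, 5, 3⟩ :=
  out_sound (S := T5.ds_mm) T5.ok_mm (w := 61) (j := 3) (by decide +kernel)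
theorem L06671 : Good (Phi V5.P V5.D (-1) (-1)) ⟨4, 15, 5, 21, 4, 15, 4, 9, 5, 3⟩ :=
  out_sound (S := T5.ds_mm) T5.ok_mm (w := 55) (j := 3) (by decide +kernel)
theorem L06672 : Good (Phi V5.P V5.D (-1) (-1)) ⟨2, 2, 4, 11, 4, 15, 4, 9, 4, 1⟩ :=
  out_sound (S := T5.ds_mm) T5.ok_mm (w := 41) (j := 3) (by decide +kernel)
theorem L06673 : Good (Phi V5.P V5.D (-1) (-1)) ⟨3, 6, 4, 11, 4, 15, 4, 9, 4, 1⟩ :=
  out_sound (S := T5.ds_mm) T5.ok_mm (w := 47) (j := 3) (by decide +kernel)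
theorem L06674 : Good (Phi V5.P V5.D (-1) (-1)) ⟨6, 56, 4, 11, 4, 15, 4, 9, 4, 1⟩ :=
  out_sound (S := T5.ds_mm) T5.ok_mm (w := 65) (j := 3) (by decide +kernel)
theorem L06675 : Good (Phi V5.P V5.D (-1) (-1)) ⟨7, 114, 5, 22, 4, 15, 4, 9, 4, 1⟩ :=
  out_sound (S := T5.ds_mm) T5.ok_mm (w := 73) (j := 3) (by decide +kernel)
theorem L06676 : Good (Phi V5.P V5.D (-1) (-1)) ⟨7, 115, 5, 22, 4, 15, 4, 9, 4, 1⟩ :=
  out_sound (S := T5.ds_mm) T5.ok_mm (w := 21) (j := 4) (by decide +kernel)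
theorem L06677 : Good (Phi V5.P V5.D (-1) (-1)) ⟨6, 57, 5, 23, 4, 15, 4, 9, 4, 1⟩ :=
  out_sound (S := T5.ds_mm) T5.ok_mm (w := 67) (j := 3) (by decide +kernel)
theorem L06678 : Good (Phi V5.P V5.D (-1) (-1)) ⟨5, 29, 4, 11, 4, 15, 4, 9, 4, 1⟩ :=
  out_sound (S := T5.ds_mm) T5.ok_mm (w := 17) (j := 4) (by decide +kernel)
theorem L06679 : Good (Phi V5.P V5.D (-1) (-1)) ⟨4, 15, 4, 11, 4, 15, 4, 9, 4, 1⟩ :=
  out_sound (S := T5.ds_mm) T5.ok_mm (w := 53) (j := 3) (by decide +kernel)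
theorem L06680 : Good (Phi V5.P V5.D (-1) (-1)) ⟨2, 2, 5, 20, 4, 14, 4, 10, 4, 0⟩ :=
  out_sound (S := T5.ds_mm) T5.ok_mm (w := 43) (j := 3) (by decide +kernel)
theorem L06681 : Good (Phi V5.P V5.D (-1) (-1)) ⟨3, 6, 5, 20, 4, 14, 4, 10, 4, 0⟩ :=
  out_sound (S := T5.ds_mm) T5.ok_mm (w := 49) (j := 3) (by decide +kernel)
theorem L06682 : Good (Phi V5.P V5.D (-1) (-1)) ⟨6, 56, 5, 20, 4, 14, 4, 10, 5, 0⟩ :=
  leafX_sound T5.ok_mm T5.Ymm.bz_eq (w := 273) (c := ⟨⟨.ofNat 2558, .ofNat 262, .ofNat 97, .ofNat 0, .negSucc 488, .negSucc 913⟩, ⟨.negSucc 1645, .negSucc 132, .negSucc 135, .ofNat 5, .ofNat 315, .ofNat 592⟩, ⟨.negSucc 827, .negSucc 151, .negSucc 20, .ofNat 369, .ofNat 171, .ofNat 370⟩, ⟨.ofNat 4842, .ofNat 350, .ofNat 287, .ofNat 448, .negSucc 1028, .negSucc 2042⟩, ⟨.ofNat 1845, .ofNat 46, .ofNat 184, .ofNat 691, .negSucc 516, .negSucc 1151⟩, .ofNat 5227,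 .ofNat 7591, .ofNat 0, .ofNat 7591, .ofNat 11831, .ofNat 0, .ofNat 128, .negSucc 1347, .negSucc 3577, .ofNat 0, .ofNat 868, .ofNat 2288, .ofNat 0, .ofNat 0, .ofNat 2407, .ofNat 2757, .ofNat 0, .ofNat 0, .ofNat 1618666874372037985245163408746224899080249671680, .ofNat 0, .ofNat 0, .ofNat 0, .ofNat 690122363231878572401954426540625230606028324732928, .ofNat 0, .ofNat 0, .ofNat 0, .ofNat 0, .ofNat 0, .ofNat 0, .ofNat 0, .ofNat 0, .ofNat 0⟩)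
    (by decide +kernel)
theorem L06683 : Good (Phi V5.P V5.D (-1) (-1)) ⟨6, 56, 5, 20, 4, 14, 4, 10, 5, 1⟩ :=
  leafX_sound T5.ok_mm T5.Ymm.bz_eq (w := 272) (c := ⟨⟨.ofNat 1856, .ofNat 46, .ofNat 268, .negSucc 326, .negSucc 510, .negSucc 1239⟩, ⟨.negSucc 1178, .negSucc 63, .negSucc 175, .ofNat 213, .ofNat 332, .ofNat 805⟩, ⟨.negSucc 449, .negSucc 248, .ofNat 17, .ofNat 467, .ofNat 190, .ofNat 487⟩, ⟨.ofNat 3302, .ofNat 173, .ofNat 398, .negSucc 216, .negSucc 1183, .negSucc 2658⟩, ⟨.ofNat 1046, .ofNat 145, .ofNat 52, .ofNat 373, .negSucc 706, .negSucc 1387⟩, .ofNat 5374, .ofNat 7800, .ofNat 0, .ofNat 7800, .ofNat 12127, .ofNat 0, .ofNat 128, .negSucc 944, .negSucc 2343, .ofNat 0, .ofNat 610, .ofNat 1503, .ofNat 0, .ofNat 0, .ofNat 1462, .ofNat 3299, .ofNat 0, .ofNat 0, .ofNat 0, .ofNat 0, .ofNat 0, .ofNat 0, .ofNat 1191522353212693921912673791858045228893131191091200,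 .ofNat 0, .ofNat 0, .ofNat 0, .ofNat 133414048989257408279848041914986939433718757982208, .ofNat 0, .ofNat 0, .ofNat 0, .ofNat 0, .ofNat 0⟩)
    (by decide +kernel)
theorem L06684 : Good (Phi V5.P V5.D (-1) (-1)) ⟨6, 57, 5, 20, 4, 14, 4, 10, 4, 0⟩ :=
  leafX_sound T5.ok_mm T5.Ymm.bz_eq (w := 277) (c := ⟨⟨.ofNat 3019, .negSucc 0, .negSucc 36, .ofNat 192, .negSucc 637, .negSucc 2221⟩, ⟨.negSucc 2036, .ofNat 1, .ofNat 74, .negSucc 122, .ofNat 419, .ofNat 1459⟩, ⟨.negSucc 919, .ofNat 0, .negSucc 84, .ofNat 229, .ofNat 252, .ofNat 896⟩, ⟨.ofNat 4776, .negSucc 0, .ofNat 0, .ofNat 210, .negSucc 1011, .negSucc 2862⟩, ⟨.ofNat 886, .ofNat 0, .ofNat 1, .negSucc 83, .negSucc 172, .ofNat 377⟩, .ofNat 21702, .ofNat 32312, .ofNat 0, .ofNat 32312, .ofNat 48919, .ofNat 0, .ofNat 128, .negSucc 8529, .negSucc 14887, .ofNat 0, .ofNat 5632, .ofNat 9810, .ofNat 0, .ofNat 0, .ofNat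 9848, .ofNat 35221, .ofNat 0, .ofNat 0, .ofNat 40982431538314632052344536928383066645435777024000, .ofNat 0, .ofNat 0, .ofNat 0, .ofNat 117604767254303067478985212161581867110274347091099648, .ofNat 0, .ofNat 0, .ofNat 0, .ofNat 6102346606870646903470748766591670392247808992215040, .ofNat 0, .ofNat 0, .ofNat 0, .ofNat 34151662190361965418631860763616474544198720604340224, .ofNat 0⟩)
    (by decide +kernel)
theorem L06685 : Good (Phi V5.P V5.D (-1) (-1)) ⟨5, 29, 5, 20, 4, 14, 4, 10, 4, 0⟩ :=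
  out_sound (S := T5.ds_mm) T5.ok_mm (w := 61) (j := 3) (by decide +kernel)
theorem L06686 : Good (Phi V5.P V5.D (-1) (-1)) ⟨4, 15, 5, 20, 4, 14, 4, 10, 4, 0⟩ :=
  out_sound (S := T5.ds_mm) T5.ok_mm (w := 55) (j := 3) (by decide +kernel)
theorem L06687 : Good (Phi V5.P V5.D (-1) (-1)) ⟨2, 2, 5, 21, 4, 14, 4, 10, 4, 0⟩ :=
  out_sound (S := T5.ds_mm) T5.ok_mm (w := 43) (j := 3) (by decide +kernel)
theorem L06688 : Good (Phi V5.P V5.D (-1) (-1)) ⟨3, 6, 5, 21, 4, 14, 4, 10, 4, 0⟩ :=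
  out_sound (S := T5.ds_mm) T5.ok_mm (w := 49) (j := 3) (by decide +kernel)
theorem L06689 : Good (Phi V5.P V5.D (-1) (-1)) ⟨6, 56, 6, 42, 4, 14, 4, 10, 4, 0⟩ :=
  leafX_sound T5.ok_mm T5.Ymm.bz_eq (w := 277) (c := ⟨⟨.ofNat 2764, .ofNat 1, .negSucc 60, .ofNat 421, .negSucc 400, .negSucc 2124⟩, ⟨.negSucc 1826, .negSucc 0, .ofNat 16, .negSucc 269, .ofNat 265, .ofNat 1401⟩, ⟨.negSucc 922, .ofNat 0, .ofNat 41, .ofNat 123, .ofNat 147, .ofNat 875⟩, ⟨.ofNat 5461, .ofNat 2, .negSucc 27, .ofNat 548, .negSucc 897, .negSucc 4370⟩, ⟨.ofNat 2370, .ofNat 1, .ofNat 43, .negSucc 53, .negSucc 502, .negSucc 2085⟩, .ofNat 10084, .ofNat 14814, .ofNat 0, .ofNat 14814, .ofNat 22562, .ofNat 0, .ofNat 128, .negSucc 6700, .negSucc 14344, .ofNat 0, .ofNat 4408, .ofNat 9405, .ofNat 0, .ofNat 0, .ofNat 9291, .ofNat 22407, .ofNat 0, .ofNat 0, .ofNat 0, .ofNat 0, .ofNat 0, .ofNat 0, .ofNat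 2127582124183341074422390475415888944221565296312320, .ofNat 0, .ofNat 0, .ofNat 0, .ofNat 1543720111552572104213189548450840834286703830106112, .ofNat 0, .ofNat 0, .ofNat 0, .ofNat 3049243833193281522122551057698180928164932328882176, .ofNat 0⟩)
    (by decide +kernel)
theorem L06690 : Good (Phi V5.P V5.D (-1) (-1)) ⟨6, 56, 6, 43, 4, 14, 4, 10, 4, 0⟩ :=
  out_sound (S := T5.ds_mm) T5.ok_mm (w := 69) (j := 3) (by decide +kernel)
theorem L06691 : Good (Phi V5.P V5.D (-1) (-1)) ⟨7, 114, 5, 21, 4, 14, 4, 10, 5, 0⟩ :=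
  leafX_sound T5.ok_mm T5.Ymm.bz_eq (w := 280) (c := ⟨⟨.ofNat 2772, .ofNat 78, .negSucc 40, .ofNat 511, .negSucc 426, .negSucc 928⟩, ⟨.negSucc 1833, .negSucc 100, .ofNat 15, .negSucc 333, .ofNat 286, .ofNat 620⟩, ⟨.negSucc 941, .ofNat 80, .negSucc 78, .ofNat 112, .ofNat 135, .ofNat 404⟩, ⟨.ofNat 5360, .ofNat 162, .ofNat 108, .ofNat 1153, .negSucc 1040, .negSucc 2075⟩, ⟨.ofNat 2196, .ofNat 157, .ofNat 161, .ofNat 665, .negSucc 657, .negSucc 1150⟩, .ofNat 8455, .ofNat 12236, .ofNat 0, .ofNat 12236, .ofNat 18480, .ofNat 0, .ofNat 128, .negSucc 1918, .negSucc 5303, .ofNat 0, .ofNat 1275, .ofNat 3514, .ofNat 0, .ofNat 0, .ofNat 3443, .ofNat 2674, .ofNat 0, .ofNat 0, .ofNat 1386905659130403137850830869745771207474183929856, .ofNat 78307634355334841484371825778765229138403677211900489236480, .ofNat 0, .ofNat 0, .ofNat 625240841305168558847515236457411538042626102001664,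 .ofNat 0, .ofNat 0, .ofNat 0, .ofNat 0, .ofNat 0, .ofNat 0, .ofNat 0, .ofNat 1180951852995055266552012192013599254400694308831232, .ofNat 652850872479459664812149977570107357507726748043332455126532096⟩)
    (by decide +kernel)
theorem L06692 : Good (Phi V5.P V5.D (-1) (-1)) ⟨7, 115, 5, 21, 4, 14, 4, 10, 5, 0⟩ :=
  out_sound (S := T5.ds_mm) T5.ok_mm (w := 21) (j := 4) (by decide +kernel)
theorem L06693 : Good (Phi V5.P V5.D (-1) (-1)) ⟨8, 228, 6, 42, 4, 14, 4, 10, 5, 1⟩ :=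
  leafX_sound T5.ok_mm T5.Ymm.bz_eq (w := 287) (c := ⟨⟨.ofNat 2169, .ofNat 150, .ofNat 60, .negSucc 212, .negSucc 643, .negSucc 1255⟩, ⟨.negSucc 1441, .negSucc 121, .negSucc 29, .ofNat 146, .ofNat 429, .ofNat 840⟩, ⟨.negSucc 679, .ofNat 27, .negSucc 135, .ofNat 412, .ofNat 260, .ofNat 503⟩, ⟨.ofNat 4068, .ofNat 168, .ofNat 123, .negSucc 183, .negSucc 1352, .negSucc 2744⟩, ⟨.ofNat 1531, .negSucc 8, .ofNat 6, .ofNat 176, .negSucc 672, .negSucc 1469⟩, .ofNat 7176, .ofNat 10386, .ofNat 0, .ofNat 10386, .ofNat 15812, .ofNat 0, .ofNat 128, .negSucc 2606, .negSucc 7033, .ofNat 0, .ofNat 1719, .ofNat 4618, .ofNat 0, .ofNat 0, .ofNat 4322, .ofNat 9606, .ofNat 0, .ofNat 0, .ofNat 0, .ofNat 0, .ofNat 0, .ofNat 0, .ofNat 2145399688722165815908640641433511161956354209349632, .ofNat 0, .ofNat 0, .ofNat 0, .ofNat 1185242601733125994763382854777557321058091393875968, .ofNat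 0, .ofNat 0, .ofNat 0, .ofNat 0, .ofNat 0⟩)
    (by decide +kernel)
theorem L06694 : Good (Phi V5.P V5.D (-1) (-1)) ⟨8, 229, 6, 42, 4, 14, 4, 10, 5, 1⟩ :=
  out_sound (S := T5.ds_mm) T5.ok_mm (w := 23) (j := 4) (by decide +kernel)
theorem L06695 : Good (Phi V5.P V5.D (-1) (-1)) ⟨8, 228, 6, 43, 4, 14, 4, 10, 5, 1⟩ :=
  out_sound (S := T5.ds_mm) T5.ok_mm (w := 81) (j := 3) (by decide +kernel)
theorem L06696 : Good (Phi V5.P V5.D (-1) (-1)) ⟨8, 229, 6, 43, 4, 14, 4, 10, 5, 1⟩ :=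
  out_sound (S := T5.ds_mm) T5.ok_mm (w := 23) (j := 4) (by decide +kernel)
theorem L06697 : Good (Phi V5.P V5.D (-1) (-1)) ⟨7, 115, 5, 21, 4, 14, 4, 10, 5, 1⟩ :=
  out_sound (S := T5.ds_mm) T5.ok_mm (w := 21) (j := 4) (by decide +kernel)
theorem L06698 : Good (Phi V5.P V5.D (-1) (-1)) ⟨5, 29, 5, 21, 4, 14, 4, 10, 4, 0⟩ :=
  out_sound (S := T5.ds_mm) T5.ok_mm (w := 61) (j := 3) (by decide +kernel)
theorem L06699 : Good (Phi V5.P V5.D (-1) (-1)) ⟨4, 15, 5, 21, 4, 14, 4, 10, 4, 0⟩ :=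
  out_sound (S := T5.ds_mm) T5.ok_mm (w := 55) (j := 3) (by decide +kernel)
theorem L06700 : Good (Phi V5.P V5.D (-1) (-1)) ⟨2, 2, 4, 11, 4, 14, 4, 10, 4, 0⟩ :=
  out_sound (S := T5.ds_mm) T5.ok_mm (w := 41) (j := 3) (by decide +kernel)
theorem L06701 : Good (Phi V5.P V5.D (-1) (-1)) ⟨3, 6, 4, 11, 4, 14, 4, 10, 4, 0⟩ :=
  out_sound (S := T5.ds_mm) T5.ok_mm (w := 47) (j := 3) (by decide +kernel)
theorem L06702 : Good (Phi V5.P V5.D (-1) (-1)) ⟨6, 56, 4, 11, 4, 14, 4, 10, 4, 0⟩ :=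
  out_sound (S := T5.ds_mm) T5.ok_mm (w := 65) (j := 3) (by decide +kernel)
theorem L06703 : Good (Phi V5.P V5.D (-1) (-1)) ⟨7, 114, 5, 22, 4, 14, 4, 10, 4, 0⟩ :=
  out_sound (S := T5.ds_mm) T5.ok_mm (w := 73) (j := 3) (by decide +kernel)
theorem L06704 : Good (Phi V5.P V5.D (-1) (-1)) ⟨7, 115, 5, 22, 4, 14, 4, 10, 4, 0⟩ :=
  out_sound (S := T5.ds_mm) T5.ok_mm (w := 21) (j := 4) (by decide +kernel)
theorem L06705 : Good (Phi V5.P V5.D (-1) (-1)) ⟨6, 57, 5, 23, 4, 14, 4, 10, 4, 0⟩ :=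
  out_sound (S := T5.ds_mm) T5.ok_mm (w := 67) (j := 3) (by decide +kernel)
theorem L06706 : Good (Phi V5.P V5.D (-1) (-1)) ⟨5, 29, 4, 11, 4, 14, 4, 10, 4, 0⟩ :=
  out_sound (S := T5.ds_mm) T5.ok_mm (w := 17) (j := 4) (by decide +kernel)
theorem L06707 : Good (Phi V5.P V5.D (-1) (-1)) ⟨4, 15, 4, 11, 4, 14, 4, 10, 4, 0⟩ :=
  out_sound (S := T5.ds_mm) T5.ok_mm (w := 53) (j := 3) (by decide +kernel)
theorem L06708 : Good (Phi V5.P V5.D (-1) (-1)) ⟨2, 2, 6, 40, 4, 14, 4, 11, 4, 0⟩ :=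
  out_sound (S := T5.ds_mm) T5.ok_mm (w := 45) (j := 3) (by decide +kernel)
theorem L06709 : Good (Phi V5.P V5.D (-1) (-1)) ⟨3, 6, 6, 40, 4, 14, 4, 11, 4, 0⟩ :=
  out_sound (S := T5.ds_mm) T5.ok_mm (w := 51) (j := 3) (by decide +kernel)
theorem L06710 : Good (Phi V5.P V5.D (-1) (-1)) ⟨6, 56, 6, 40, 4, 14, 4, 11, 5, 0⟩ :=
  leafX_sound T5.ok_mm T5.Ymm.bz_eq (w := 277) (c := ⟨⟨.ofNat 2347, .ofNat 38, .ofNat 138, .negSucc 267, .negSucc 657, .negSucc 1142⟩, ⟨.negSucc 1491, .negSucc 32, .negSucc 101, .ofNat 175, .ofNat 420, .ofNat 729⟩, ⟨.negSucc 803, .negSucc 11, .negSucc 55, .ofNat 455, .ofNat 283, .ofNat 518⟩, ⟨.ofNat 4272, .ofNat 98, .ofNat 256, .negSucc 205, .negSucc 1387, .negSucc 2323⟩, ⟨.ofNat 1445, .ofNat 95, .ofNat 90, .ofNat 272, .negSucc 701, .negSucc 1085⟩, .ofNat 4839, .ofNat 7039, .ofNat 0, .ofNat 7039, .ofNat 11057, .ofNat 0, .ofNat 128, .negSucc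 1616, .negSucc 3904, .ofNat 0, .ofNat 1033, .ofNat 2476, .ofNat 0, .ofNat 0, .ofNat 2593, .ofNat 5087, .ofNat 0, .ofNat 0, .ofNat 0, .ofNat 0, .ofNat 0, .ofNat 0, .ofNat 1241561315947694380257110751489538352824840555069440, .ofNat 0, .ofNat 0, .ofNat 0, .ofNat 0, .ofNat 0, .ofNat 0, .ofNat 0, .ofNat 1784854134345381363833386241130492241986002062671872, .ofNat 0⟩)
    (by decide +kernel)
theorem L06711 : Good (Phi V5.P V5.D (-1) (-1)) ⟨6, 56, 6, 40, 4, 14, 4, 11, 5, 1⟩ :=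
  leafX_sound T5.ok_mm T5.Ymm.bz_eq (w := 276) (c := ⟨⟨.ofNat 1298, .ofNat 34, .ofNat 103, .negSucc 454, .negSucc 644, .negSucc 1124⟩, ⟨.negSucc 826, .negSucc 41, .negSucc 63, .ofNat 296, .ofNat 413, .ofNat 720⟩, ⟨.negSucc 285, .negSucc 38, .negSucc 46, .ofNat 467, .ofNat 271, .ofNat 446⟩, ⟨.ofNat 2168, .ofNat 31, .ofNat 184, .negSucc 617, .negSucc 1304, .negSucc 2259⟩, ⟨.ofNat 496, .negSucc 12, .ofNat 62, .ofNat 44, .negSucc 602, .negSucc 1028⟩, .ofNat 4807, .ofNat 6989, .ofNat 0, .ofNat 6989, .ofNat 10978, .ofNat 0, .ofNat 128, .negSucc 1604, .negSucc 3105, .ofNat 0, .ofNat 1027, .ofNat 1969, .ofNat 0, .ofNat 0, .ofNat 1952, .ofNat 6059, .ofNat 0, .ofNat 0, .ofNat 0, .ofNat 0, .ofNat 0, .ofNat 0, .ofNat 920088232182675263770640582644986865541870079967232, .ofNat 0, .ofNat 0, .ofNat 0, .ofNat 0, .ofNat 0, .ofNat 0, .ofNat 0, .ofNat 968377088291165004149136719692457606772478474977280,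 .ofNat 0⟩)
    (by decide +kernel)
theorem L06712 : Good (Phi V5.P V5.D (-1) (-1)) ⟨6, 57, 6, 40, 4, 14, 4, 11, 4, 0⟩ :=
  out_sound (S := T5.ds_mm) T5.ok_mm (w := 69) (j := 3) (by decide +kernel)
theorem L06713 : Good (Phi V5.P V5.D (-1) (-1)) ⟨5, 29, 6, 40, 4, 14, 4, 11, 4, 0⟩ :=
  out_sound (S := T5.ds_mm) T5.ok_mm (w := 63) (j := 3) (by decide +kernel)
theorem L06714 : Good (Phi V5.P V5.D (-1) (-1)) ⟨4, 15, 6, 40, 4, 14, 4, 11, 4, 0⟩ :=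
  out_sound (S := T5.ds_mm) T5.ok_mm (w := 57) (j := 3) (by decide +kernel)
theorem L06715 : Good (Phi V5.P V5.D (-1) (-1)) ⟨2, 2, 6, 41, 4, 14, 4, 11, 4, 0⟩ :=
  out_sound (S := T5.ds_mm) T5.ok_mm (w := 45) (j := 3) (by decide +kernel)
theorem L06716 : Good (Phi V5.P V5.D (-1) (-1)) ⟨3, 6, 6, 41, 4, 14, 4, 11, 4, 0⟩ :=
  out_sound (S := T5.ds_mm) T5.ok_mm (w := 51) (j := 3) (by decide +kernel)
theorem L06717 : Good (Phi V5.P V5.D (-1) (-1)) ⟨7, 112, 6, 41, 4, 14, 4, 11, 4, 0⟩ :=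
  out_sound (S := T5.ds_mm) T5.ok_mm (w := 75) (j := 3) (by decide +kernel)
theorem L06718 : Good (Phi V5.P V5.D (-1) (-1)) ⟨7, 113, 6, 41, 4, 14, 4, 11, 5, 0⟩ :=
  leafX_sound T5.ok_mm T5.Ymm.bz_eq (w := 283) (c := ⟨⟨.ofNat 2418, .ofNat 146, .ofNat 106, .negSucc 99, .negSucc 694, .negSucc 1211⟩, ⟨.negSucc 1575, .negSucc 79, .negSucc 98, .ofNat 69, .ofNat 452, .ofNat 790⟩, ⟨.negSucc 850, .negSucc 39, .negSucc 74, .ofNat 384, .ofNat 300, .ofNat 566⟩, ⟨.ofNat 4279, .ofNat 239, .ofNat 262, .ofNat 134, .negSucc 1316, .negSucc 2301⟩, ⟨.ofNat 1310, .ofNat 85, .ofNat 155, .ofNat 422, .negSucc 513, .negSucc 906⟩, .ofNat 8352, .ofNat 12287, .ofNat 0, .ofNat 12287, .ofNat 18887, .ofNat 0, .ofNat 128, .negSucc 1964, .negSucc 5302, .ofNat 0, .ofNat 1281, .ofNat 3441, .ofNat 0, .ofNat 0, .ofNat 3522, .ofNat 6202, .ofNat 0, .ofNat 0, .ofNat 0, .ofNat 0, .ofNat 0, .ofNat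 0, .ofNat 2032674799533453227215244068245085583894987308793856, .ofNat 0, .ofNat 0, .ofNat 0, .ofNat 0, .ofNat 0, .ofNat 0, .ofNat 0, .ofNat 0, .ofNat 0⟩)
    (by decide +kernel)
theorem L06719 : Good (Phi V5.P V5.D (-1) (-1)) ⟨7, 113, 6, 41, 4, 14, 4, 11, 5, 1⟩ :=
  leafX_sound T5.ok_mm T5.Ymm.bz_eq (w := 281) (c := ⟨⟨.ofNat 1389, .ofNat 9, .ofNat 100, .negSucc 446, .negSucc 667, .negSucc 1111⟩, ⟨.negSucc 907, .negSucc 8, .negSucc 64, .ofNat 294, .ofNat 436, .ofNat 725⟩, ⟨.negSucc 285, .negSucc 77, .ofNat 2, .ofNat 454, .ofNat 275, .ofNat 419⟩, ⟨.ofNat 2360, .ofNat 42, .ofNat 169, .negSucc 652, .negSucc 1391, .negSucc 2249⟩, ⟨.ofNat 608, .ofNat 42, .ofNat 52, .negSucc 32, .negSucc 684, .negSucc 1038⟩, .ofNat 5759, .ofNat 8355, .ofNat 0, .ofNat 8355, .ofNat 12921, .ofNat 0, .ofNat 128, .negSucc 1050, .negSucc 3810, .ofNat 0, .ofNat 682, .ofNat 2458, .ofNat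 0, .ofNat 0, .ofNat 2317, .ofNat 5129, .ofNat 0, .ofNat 0, .ofNat 0, .ofNat 0, .ofNat 0, .ofNat 0, .ofNat 0, .ofNat 0, .ofNat 0, .ofNat 0, .ofNat 206341885113040012060310619122380656624303421259776, .ofNat 0, .ofNat 0, .ofNat 0, .ofNat 0, .ofNat 0⟩)
    (by decide +kernel)
theorem L06720 : Good (Phi V5.P V5.D (-1) (-1)) ⟨6, 57, 6, 41, 4, 14, 4, 11, 4, 0⟩ :=
  leafX_sound T5.ok_mm T5.Ymm.bz_eq (w := 276) (c := ⟨⟨.ofNat 2658, .negSucc 0, .negSucc 46, .negSucc 100, .negSucc 676, .negSucc 2430⟩, ⟨.negSucc 1715, .ofNat 0, .negSucc 9, .ofNat 71, .ofNat 447, .ofNat 1604⟩, ⟨.negSucc 822, .ofNat 0, .negSucc 69, .ofNat 350, .ofNat 279, .ofNat 1036⟩, ⟨.ofNat 4978, .negSucc 0, .negSucc 2, .negSucc 118, .negSucc 1450, .negSucc 5000⟩, ⟨.ofNat 1959, .ofNat 0, .negSucc 1, .ofNat 42, .negSucc 750, .negSucc 2380⟩, .ofNat 6369, .ofNat 9220, .ofNat 0, .ofNat 9220, .ofNat 14135,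 .ofNat 0, .ofNat 128, .negSucc 5371, .negSucc 11816, .ofNat 0, .ofNat 3516, .ofNat 7697, .ofNat 0, .ofNat 0, .ofNat 7478, .ofNat 16495, .ofNat 0, .ofNat 0, .ofNat 1167201822947064374841352482929381080574147428352, .ofNat 0, .ofNat 0, .ofNat 0, .ofNat 26934784364343617038540931922023557932421410755444736, .ofNat 0, .ofNat 0, .ofNat 0, .ofNat 64794264854374234484606685615912818365644962529280, .ofNat 0, .ofNat 0, .ofNat 0, .ofNat 10269153310083543588025328206351756333126323764461568, .ofNat 0⟩)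
    (by decide +kernel)
theorem L06721 : Good (Phi V5.P V5.D (-1) (-1)) ⟨5, 29, 6, 41, 4, 14, 4, 11, 4, 0⟩ :=
  out_sound (S := T5.ds_mm) T5.ok_mm (w := 63) (j := 3) (by decide +kernel)
theorem L06722 : Good (Phi V5.P V5.D (-1) (-1)) ⟨4, 15, 6, 41, 4, 14, 4, 11, 4, 0⟩ :=
  out_sound (S := T5.ds_mm) T5.ok_mm (w := 57) (j := 3) (by decide +kernel)
theorem L06723 : Good (Phi V5.P V5.D (-1) (-1)) ⟨2, 2, 5, 21, 4, 14, 4, 11, 4, 0⟩ :=
  out_sound (S := T5.ds_mm) T5.ok_mm (w := 43) (j := 3) (by decide +kernel)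
theorem L06724 : Good (Phi V5.P V5.D (-1) (-1)) ⟨3, 6, 5, 21, 4, 14, 4, 11, 4, 0⟩ :=
  out_sound (S := T5.ds_mm) T5.ok_mm (w := 49) (j := 3) (by decide +kernel)
theorem L06725 : Good (Phi V5.P V5.D (-1) (-1)) ⟨6, 56, 5, 21, 4, 14, 4, 11, 5, 0⟩ :=
  leafX_sound T5.ok_mm T5.Ymm.bz_eq (w := 281) (c := ⟨⟨.ofNat 2626, .ofNat 1, .negSucc 19, .negSucc 49, .negSucc 679, .negSucc 1261⟩, ⟨.negSucc 1730, .negSucc 0, .negSucc 33, .ofNat 36, .ofNat 447, .ofNat 829⟩, ⟨.negSucc 941, .ofNat 0, .ofNat 30, .ofNat 352, .ofNat 295, .ofNat 595⟩, ⟨.ofNat 4437, .ofNat 1, .negSucc 4, .negSucc 36, .negSucc 1099, .negSucc 1909⟩, ⟨.ofNat 1127, .ofNat 0, .ofNat 2, .ofNat 53, .negSucc 219, .negSucc 212⟩, .ofNat 14745, .ofNat 21834, .ofNat 0, .ofNat 21834, .ofNat 33136, .ofNat 0, .ofNat 128, .negSucc 7408, .negSucc 17192, .ofNat 0, .ofNat 4885, .ofNat 11311, .ofNat 0, .ofNat 0, .ofNat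 11344, .ofNat 20319, .ofNat 0, .ofNat 0, .ofNat 0, .ofNat 0, .ofNat 0, .ofNat 0, .ofNat 12540177472170043792148898639564395715099301167235072, .ofNat 0, .ofNat 0, .ofNat 0, .ofNat 21848192062491584579127466486559446122964018358386688, .ofNat 0, .ofNat 0, .ofNat 0, .ofNat 144499718436042577852494529509646285306749428367884288, .ofNat 0⟩)
    (by decide +kernel)
theorem L06726 : Good (Phi V5.P V5.D (-1) (-1)) ⟨8, 228, 7, 84, 4, 14, 4, 11, 5, 0⟩ :=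
  leafX_sound T5.ok_mm T5.Ymm.bz_eq (w := 296) (c := ⟨⟨.ofNat 2580, .ofNat 80, .ofNat 51, .ofNat 40, .negSucc 688, .negSucc 1229⟩, ⟨.negSucc 1702, .negSucc 52, .negSucc 43, .negSucc 24, .ofNat 455, .ofNat 813⟩, ⟨.negSucc 919, .negSucc 10, .negSucc 35, .ofNat 313, .ofNat 297, .ofNat 578⟩, ⟨.ofNat 4040, .ofNat 62, .ofNat 77, .ofNat 93, .negSucc 764, .negSucc 1362⟩, ⟨.ofNat 634, .negSucc 19, .negSucc 16, .ofNat 60, .ofNat 299, .ofNat 535⟩, .ofNat 28541, .ofNat 42499, .ofNat 0, .ofNat 42499, .ofNat 64088, .ofNat 0, .ofNat 128, .negSucc 3646, .negSucc 13494, .ofNat 0, .ofNat 2418, .ofNat 8935, .ofNat 0, .ofNat 0, .ofNat 8852, .ofNat 8475, .ofNat 0, .ofNat 0, .ofNat 0, .ofNat 0, .ofNat 0, .ofNat 0, .ofNat 44688875350458720668581521396221747667000797150838784, .ofNat 0, .ofNat 0, .ofNat 0, .ofNat 0, .ofNat 0, .ofNat 0, .ofNat 0, .ofNat 0, .ofNat 0⟩)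
    (by decide +kernel)
theorem L06727 : Good (Phi V5.P V5.D (-1) (-1)) ⟨8, 228, 7, 85, 4, 14, 4, 11, 5, 0⟩ :=
  leafX_sound T5.ok_mm T5.Ymm.bz_eq (w := 297) (c := ⟨⟨.ofNat 2642, .ofNat 34, .ofNat 16, .ofNat 119, .negSucc 698, .negSucc 1244⟩, ⟨.negSucc 1768, .negSucc 2, .negSucc 32, .negSucc 75, .ofNat 465, .ofNat 829⟩, ⟨.negSucc 953, .negSucc 0, .negSucc 17, .ofNat 277, .ofNat 300, .ofNat 586⟩, ⟨.ofNat 4392, .ofNat 39, .ofNat 61, .ofNat 200, .negSucc 1017, .negSucc 1692⟩, ⟨.ofNat 1018, .ofNat 22, .ofNat 41, .ofNat 54, .negSucc 61, .ofNat 69⟩, .ofNat 22318, .ofNat 32982, .ofNat 0, .ofNat 32982, .ofNat 49534, .ofNat 0, .ofNat 128, .negSucc 7505, .negSucc 19409, .ofNat 0, .ofNat 5003, .ofNat 12922, .ofNat 0, .ofNat 0, .ofNat 12604, .ofNat 8863, .ofNat 0, .ofNat 0, .ofNat 4620889433672352693984870977538792681085899636736, .ofNat 0, .ofNat 0, .ofNat 0, .ofNat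 7165853180091259856819313596804821187112877726629888, .ofNat 0, .ofNat 0, .ofNat 0, .ofNat 0, .ofNat 0, .ofNat 0, .ofNat 0, .ofNat 0, .ofNat 0⟩)
    (by decide +kernel)
theorem L06728 : Good (Phi V5.P V5.D (-1) (-1)) ⟨8, 229, 6, 42, 4, 14, 4, 11, 5, 0⟩ :=
  out_sound (S := T5.ds_mm) T5.ok_mm (w := 23) (j := 4) (by decide +kernel)
theorem L06729 : Good (Phi V5.P V5.D (-1) (-1)) ⟨8, 228, 6, 43, 4, 14, 4, 11, 5, 0⟩ :=
  out_sound (S := T5.ds_mm) T5.ok_mm (w := 81) (j := 3) (by decide +kernel)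
theorem L06730 : Good (Phi V5.P V5.D (-1) (-1)) ⟨8, 229, 6, 43, 4, 14, 4, 11, 5, 0⟩ :=
  out_sound (S := T5.ds_mm) T5.ok_mm (w := 23) (j := 4) (by decide +kernel)
theorem L06731 : Good (Phi V5.P V5.D (-1) (-1)) ⟨7, 115, 5, 21, 4, 14, 4, 11, 5, 0⟩ :=
  out_sound (S := T5.ds_mm) T5.ok_mm (w := 21) (j := 4) (by decide +kernel)
theorem L06732 : Good (Phi V5.P V5.D (-1) (-1)) ⟨6, 56, 5, 21, 4, 14, 4, 11, 5, 1⟩ :=
  leafX_sound T5.ok_mm T5.Ymm.bz_eq (w := 277) (c := ⟨⟨.ofNat 1526, .ofNat 0, .ofNat 5, .negSucc 386, .negSucc 671, .negSucc 1153⟩, ⟨.negSucc 1008, .ofNat 0, .ofNat 9, .ofNat 258, .ofNat 444, .ofNat 762⟩, ⟨.negSucc 396, .ofNat 0, .ofNat 17, .ofNat 431, .ofNat 284, .ofNat 450⟩, ⟨.ofNat 2618, .ofNat 0, .negSucc 9, .negSucc 541, .negSucc 1391, .negSucc 2353⟩, ⟨.ofNat 709, .ofNat 0, .negSucc 6, .ofNat 5, .negSucc 671, .negSucc 1100⟩, .ofNat 6492, .ofNat 9405,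 .ofNat 0, .ofNat 9405, .ofNat 14415, .ofNat 0, .ofNat 128, .negSucc 3630, .negSucc 9441, .ofNat 0, .ofNat 2379, .ofNat 6153, .ofNat 0, .ofNat 0, .ofNat 5743, .ofNat 10646, .ofNat 0, .ofNat 0, .ofNat 2349421890662404909355807334698641964740126965760, .ofNat 0, .ofNat 0, .ofNat 0, .ofNat 5291576643076849011599898700640903498905171473203200, .ofNat 0, .ofNat 0, .ofNat 0, .ofNat 6083018343113610036248151137396829894536377585893376, .ofNat 0, .ofNat 0, .ofNat 0, .ofNat 10520468868561001481128599923066609839611109628182528, .ofNat 0⟩)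
    (by decide +kernel)
theorem L06733 : Good (Phi V5.P V5.D (-1) (-1)) ⟨7, 114, 6, 42, 4, 14, 4, 11, 5, 1⟩ :=
  leafX_sound T5.ok_mm T5.Ymm.bz_eq (w := 283) (c := ⟨⟨.ofNat 1465, .ofNat 51, .ofNat 157, .negSucc 374, .negSucc 675, .negSucc 1136⟩, ⟨.negSucc 977, .negSucc 25, .negSucc 110, .ofNat 252, .ofNat 454, .ofNat 759⟩, ⟨.negSucc 360, .negSucc 202, .ofNat 30, .ofNat 420, .ofNat 275, .ofNat 441⟩, ⟨.ofNat 2659, .ofNat 146, .ofNat 195, .negSucc 577, .negSucc 1510, .negSucc 2377⟩, ⟨.ofNat 896, .ofNat 14, .ofNat 22, .negSucc 74, .negSucc 841, .negSucc 1169⟩, .ofNat 7220, .ofNat 10449, .ofNat 0, .ofNat 10449, .ofNat 15901, .ofNat 0, .ofNat 128, .negSucc 1906, .negSucc 6447, .ofNat 0, .ofNat 1258, .ofNat 4234, .ofNat 0, .ofNat 0, .ofNat 3827, .ofNat 7300, .ofNat 0, .ofNat 0, .ofNat 2060354959845868978049374856239313846472521285632, .ofNat 0, .ofNat 0, .ofNat 0,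 .ofNat 889710026979204586649414783604312351044255099125760, .ofNat 0, .ofNat 0, .ofNat 0, .ofNat 1478069743606850780631598372445402193690378599661568, .ofNat 0, .ofNat 0, .ofNat 0, .ofNat 1418730440396413374242968620538991287355205625053184, .ofNat 3610000238760700224682316433084614397262679010624773662288379904⟩)
    (by decide +kernel)
theorem L06734 : Good (Phi V5.P V5.D (-1) (-1)) ⟨8, 228, 6, 43, 4, 14, 4, 11, 5, 1⟩ :=
  out_sound (S := T5.ds_mm) T5.ok_mm (w := 81) (j := 3) (by decide +kernel)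
theorem L06735 : Good (Phi V5.P V5.D (-1) (-1)) ⟨8, 229, 6, 43, 4, 14, 4, 11, 5, 1⟩ :=
  out_sound (S := T5.ds_mm) T5.ok_mm (w := 23) (j := 4) (by decide +kernel)
theorem L06736 : Good (Phi V5.P V5.D (-1) (-1)) ⟨7, 115, 5, 21, 4, 14, 4, 11, 5, 1⟩ :=
  out_sound (S := T5.ds_mm) T5.ok_mm (w := 21) (j := 4) (by decide +kernel)
theorem L06737 : Good (Phi V5.P V5.D (-1) (-1)) ⟨5, 29, 5, 21, 4, 14, 4, 11, 4, 0⟩ :=
  out_sound (S := T5.ds_mm) T5.ok_mm (w := 61) (j := 3) (by decide +kernel)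
theorem L06738 : Good (Phi V5.P V5.D (-1) (-1)) ⟨4, 15, 5, 21, 4, 14, 4, 11, 4, 0⟩ :=
  out_sound (S := T5.ds_mm) T5.ok_mm (w := 55) (j := 3) (by decide +kernel)
theorem L06739 : Good (Phi V5.P V5.D (-1) (-1)) ⟨2, 2, 4, 11, 4, 14, 4, 11, 4, 0⟩ :=
  out_sound (S := T5.ds_mm) T5.ok_mm (w := 41) (j := 3) (by decide +kernel)
theorem L06740 : Good (Phi V5.P V5.D (-1) (-1)) ⟨3, 6, 4, 11, 4, 14, 4, 11, 4, 0⟩ :=
  out_sound (S := T5.ds_mm) T5.ok_mm (w := 47) (j := 3) (by decide +kernel)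
theorem L06741 : Good (Phi V5.P V5.D (-1) (-1)) ⟨6, 56, 4, 11, 4, 14, 4, 11, 4, 0⟩ :=
  out_sound (S := T5.ds_mm) T5.ok_mm (w := 65) (j := 3) (by decide +kernel)
theorem L06742 : Good (Phi V5.P V5.D (-1) (-1)) ⟨7, 114, 5, 22, 4, 14, 4, 11, 4, 0⟩ :=
  out_sound (S := T5.ds_mm) T5.ok_mm (w := 73) (j := 3) (by decide +kernel)
theorem L06743 : Good (Phi V5.P V5.D (-1) (-1)) ⟨7, 115, 5, 22, 4, 14, 4, 11, 4, 0⟩ :=
  out_sound (S := T5.ds_mm) T5.ok_mm (w := 21) (j := 4) (by decide +kernel)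
theorem L06744 : Good (Phi V5.P V5.D (-1) (-1)) ⟨6, 57, 5, 23, 4, 14, 4, 11, 4, 0⟩ :=
  out_sound (S := T5.ds_mm) T5.ok_mm (w := 67) (j := 3) (by decide +kernel)
theorem L06745 : Good (Phi V5.P V5.D (-1) (-1)) ⟨5, 29, 4, 11, 4, 14, 4, 11, 4, 0⟩ :=
  out_sound (S := T5.ds_mm) T5.ok_mm (w := 17) (j := 4) (by decide +kernel)
theorem L06746 : Good (Phi V5.P V5.D (-1) (-1)) ⟨4, 15, 4, 11, 4, 14, 4, 11, 4, 0⟩ :=
  out_sound (S := T5.ds_mm) T5.ok_mm (w := 53) (j := 3) (by decide +kernel)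
theorem L06747 : Good (Phi V5.P V5.D (-1) (-1)) ⟨2, 2, 5, 20, 4, 15, 4, 10, 4, 0⟩ :=
  out_sound (S := T5.ds_mm) T5.ok_mm (w := 43) (j := 3) (by decide +kernel)
theorem L06748 : Good (Phi V5.P V5.D (-1) (-1)) ⟨3, 6, 5, 20, 4, 15, 4, 10, 4, 0⟩ :=
  out_sound (S := T5.ds_mm) T5.ok_mm (w := 49) (j := 3) (by decide +kernel)
theorem L06749 : Good (Phi V5.P V5.D (-1) (-1)) ⟨6, 56, 6, 40, 4, 15, 4, 10, 4, 0⟩ :=
  leafX_sound T5.ok_mm T5.Ymm.bz_eq (w := 272) (c := ⟨⟨.ofNat 3025, .ofNat 148, .ofNat 182, .negSucc 1200, .negSucc 749, .negSucc 2774⟩, ⟨.negSucc 1915, .negSucc 121, .negSucc 120, .ofNat 772, .ofNat 481, .ofNat 1771⟩, ⟨.negSucc 602, .negSucc 67, .negSucc 80, .ofNat 845, .ofNat 257, .ofNat 998⟩, ⟨.ofNat 6201, .ofNat 211, .ofNat 379, .negSucc 2356, .negSucc 1601, .negSucc 5765⟩, ⟨.ofNat 2955, .ofNat 10, .ofNat 185, .negSucc 1010, .negSucc 834, .negSucc 2833⟩,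 .ofNat 4842, .ofNat 7042, .ofNat 0, .ofNat 7042, .ofNat 11058, .ofNat 0, .ofNat 128, .negSucc 1666, .negSucc 3984, .ofNat 0, .ofNat 1060, .ofNat 2514, .ofNat 0, .ofNat 0, .ofNat 2287, .ofNat 3391, .ofNat 0, .ofNat 0, .ofNat 0, .ofNat 0, .ofNat 0, .ofNat 0, .ofNat 26478650295364615435411476643976610401727381766144, .ofNat 0, .ofNat 0, .ofNat 0, .ofNat 0, .ofNat 0, .ofNat 0, .ofNat 0, .ofNat 126925075058022266403742419102222547443955139608576, .ofNat 0⟩)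
    (by decide +kernel)
theorem L06750 : Good (Phi V5.P V5.D (-1) (-1)) ⟨7, 112, 6, 41, 4, 15, 4, 10, 4, 0⟩ :=
  out_sound (S := T5.ds_mm) T5.ok_mm (w := 75) (j := 3) (by decide +kernel)
theorem L06751 : Good (Phi V5.P V5.D (-1) (-1)) ⟨7, 113, 6, 41, 4, 15, 4, 10, 5, 0⟩ :=
  leafX_sound T5.ok_mm T5.Ymm.bz_eq (w := 283) (c := ⟨⟨.ofNat 3135, .ofNat 391, .ofNat 130, .negSucc 1025, .negSucc 765, .negSucc 1632⟩, ⟨.negSucc 2017, .negSucc 297, .negSucc 84, .ofNat 675, .ofNat 499, .ofNat 1070⟩, ⟨.negSucc 747, .negSucc 97, .negSucc 93, .ofNat 846, .ofNat 262, .ofNat 670⟩, ⟨.ofNat 6633, .ofNat 645, .ofNat 312, .negSucc 2207, .negSucc 1638, .negSucc 3514⟩, ⟨.ofNat 3358, .ofNat 159, .ofNat 182, .negSucc 1150, .negSucc 852, .negSucc 1840⟩, .ofNat 5850, .ofNat 8485, .ofNat 0, .ofNat 8485, .ofNat 13104, .ofNat 0, .ofNat 128, .negSucc 2111, .negSucc 6762, .ofNat 0, .ofNat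 1366, .ofNat 4353, .ofNat 0, .ofNat 0, .ofNat 3886, .ofNat 3998, .ofNat 0, .ofNat 0, .ofNat 0, .ofNat 0, .ofNat 0, .ofNat 0, .ofNat 956328968402462024401926658343226488941223107100672, .ofNat 0, .ofNat 0, .ofNat 0, .ofNat 0, .ofNat 0, .ofNat 0, .ofNat 0, .ofNat 0, .ofNat 0⟩)
    (by decide +kernel)
theorem L06752 : Good (Phi V5.P V5.D (-1) (-1)) ⟨7, 113, 6, 41, 4, 15, 4, 10, 5, 1⟩ :=
  leafX_sound T5.ok_mm T5.Ymm.bz_eq (w := 281) (c := ⟨⟨.ofNat 1859, .ofNat 84, .ofNat 55, .negSucc 1324, .negSucc 836, .negSucc 1341⟩, ⟨.negSucc 1212, .negSucc 56, .negSucc 35, .ofNat 868, .ofNat 542, .ofNat 877⟩, ⟨.negSucc 50, .negSucc 236, .ofNat 111, .ofNat 844, .ofNat 289, .ofNat 418⟩, ⟨.ofNat 3892, .ofNat 222, .ofNat 170, .negSucc 2846, .negSucc 1709, .negSucc 3037⟩, ⟨.ofNat 1939, .ofNat 139, .ofNat 152, .negSucc 1484, .negSucc 809, .negSucc 1739⟩, .ofNat 5825, .ofNat 8446,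 .ofNat 0, .ofNat 8446, .ofNat 13043, .ofNat 0, .ofNat 128, .negSucc 1243, .negSucc 4710, .ofNat 0, .ofNat 805, .ofNat 3030, .ofNat 0, .ofNat 0, .ofNat 2529, .ofNat 3847, .ofNat 0, .ofNat 0, .ofNat 0, .ofNat 0, .ofNat 0, .ofNat 0, .ofNat 0, .ofNat 0, .ofNat 0, .ofNat 0, .ofNat 1072252026295405463567836698513843839089396699627520, .ofNat 0, .ofNat 0, .ofNat 0, .ofNat 0, .ofNat 0⟩)
    (by decide +kernel)
theorem L06753 : Good (Phi V5.P V5.D (-1) (-1)) ⟨6, 57, 5, 20, 4, 15, 4, 10, 4, 0⟩ :=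
  leafX_sound T5.ok_mm T5.Ymm.bz_eq (w := 273) (c := ⟨⟨.ofNat 3569, .negSucc 0, .ofNat 195, .negSucc 1042, .negSucc 875, .negSucc 3302⟩, ⟨.negSucc 2713, .ofNat 0, .ofNat 233, .ofNat 694, .ofNat 575, .ofNat 2176⟩, ⟨.negSucc 1008, .ofNat 0, .ofNat 87, .ofNat 790, .ofNat 284, .ofNat 1234⟩, ⟨.ofNat 7795, .negSucc 0, .ofNat 1, .negSucc 2366, .negSucc 1798, .negSucc 6857⟩, ⟨.ofNat 3774, .negSucc 0, .ofNat 1, .negSucc 1347, .negSucc 857, .negSucc 3340⟩, .ofNat 6370, .ofNat 9221, .ofNat 0, .ofNat 9221, .ofNat 14137, .ofNat 0, .ofNat 128, .negSucc 5497, .negSucc 16679, .ofNat 0, .ofNat 3585, .ofNat 10824, .ofNat 0, .ofNat 0, .ofNat 9092, .ofNat 15305, .ofNat 0, .ofNat 0, .ofNat 39871088790953781919995098251349567463879958593536, .ofNat 0, .ofNat 0, .ofNat 0, .ofNat 47490956030257040465423842600658502914964791756849152, .ofNat 0, .ofNat 0, .ofNat 0, .ofNat 60172465721677805693738413306302153527475005764403200,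 .ofNat 0, .ofNat 0, .ofNat 0, .ofNat 79161379349496819484784812524755338948896315936866304, .ofNat 0⟩)
    (by decide +kernel)
theorem L06754 : Good (Phi V5.P V5.D (-1) (-1)) ⟨5, 29, 5, 20, 4, 15, 4, 10, 4, 0⟩ :=
  out_sound (S := T5.ds_mm) T5.ok_mm (w := 61) (j := 3) (by decide +kernel)
theorem L06755 : Good (Phi V5.P V5.D (-1) (-1)) ⟨4, 15, 5, 20, 4, 15, 4, 10, 4, 0⟩ :=
  out_sound (S := T5.ds_mm) T5.ok_mm (w := 55) (j := 3) (by decide +kernel)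
theorem L06756 : Good (Phi V5.P V5.D (-1) (-1)) ⟨2, 2, 5, 21, 4, 15, 4, 10, 4, 0⟩ :=
  out_sound (S := T5.ds_mm) T5.ok_mm (w := 43) (j := 3) (by decide +kernel)
theorem L06757 : Good (Phi V5.P V5.D (-1) (-1)) ⟨3, 6, 5, 21, 4, 15, 4, 10, 4, 0⟩ :=
  out_sound (S := T5.ds_mm) T5.ok_mm (w := 49) (j := 3) (by decide +kernel)
theorem L06758 : Good (Phi V5.P V5.D (-1) (-1)) ⟨6, 56, 6, 42, 4, 15, 4, 10, 4, 0⟩ :=
  leafX_sound T5.ok_mm T5.Ymm.bz_eq (w := 276) (c := ⟨⟨.ofNat 3547, .ofNat 1, .ofNat 53, .negSucc 1212, .negSucc 763, .negSucc 2853⟩, ⟨.negSucc 2340, .ofNat 0, .negSucc 60, .ofNat 805, .ofNat 504, .ofNat 1884⟩, ⟨.negSucc 845, .ofNat 0, .negSucc 6, .ofNat 883, .ofNat 280, .ofNat 1044⟩, ⟨.ofNat 7332, .ofNat 1, .ofNat 95, .negSucc 2541, .negSucc 1605, .negSucc 6043⟩, ⟨.ofNat 3531, .ofNat 0, .ofNat 19, .negSucc 1253, .negSucc 800, .negSucc 3058⟩, .ofNat 6490,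 .ofNat 9402, .ofNat 0, .ofNat 9402, .ofNat 14409, .ofNat 0, .ofNat 128, .negSucc 6262, .negSucc 15773, .ofNat 0, .ofNat 4087, .ofNat 10243, .ofNat 0, .ofNat 0, .ofNat 8626, .ofNat 8020, .ofNat 0, .ofNat 0, .ofNat 544367848595889140904661807394674893528454135808, .ofNat 0, .ofNat 0, .ofNat 0, .ofNat 1095227654367039689669356747865408640357759547604992, .ofNat 0, .ofNat 0, .ofNat 0, .ofNat 0, .ofNat 0, .ofNat 0, .ofNat 0, .ofNat 4639979145606444736490965885288474916935312504520704, .ofNat 0⟩)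
    (by decide +kernel)
theorem L06759 : Good (Phi V5.P V5.D (-1) (-1)) ⟨8, 228, 6, 42, 4, 15, 4, 10, 5, 0⟩ :=
  leafX_sound T5.ok_mm T5.Ymm.bz_eq (w := 291) (c := ⟨⟨.ofNat 3850, .ofNat 42, .ofNat 337, .negSucc 1264, .negSucc 709, .negSucc 1822⟩, ⟨.negSucc 2539, .negSucc 17, .negSucc 264, .ofNat 839, .ofNat 466, .ofNat 1207⟩, ⟨.negSucc 1062, .negSucc 309, .ofNat 162, .ofNat 983, .ofNat 232, .ofNat 777⟩, ⟨.ofNat 6862, .ofNat 268, .ofNat 382, .negSucc 1796, .negSucc 821, .negSucc 2789⟩, ⟨.ofNat 2204, .ofNat 124, .ofNat 57, .negSucc 37, .ofNat 254, .negSucc 362⟩, .ofNat 18388, .ofNat 27192, .ofNat 0, .ofNat 27192, .ofNat 41009, .ofNat 0, .ofNat 128, .negSucc 3089, .negSucc 9358, .ofNat 0, .ofNat 2048, .ofNat 6194, .ofNat 0, .ofNat 0, .ofNat 5426, .ofNat 4554, .ofNat 0, .ofNat 0, .ofNat 0, .ofNat 0, .ofNat 0, .ofNat 0, .ofNat 1654459704846695734664245031640073651121260494585856,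 .ofNat 0, .ofNat 0, .ofNat 0, .ofNat 5113761857959264121918663958847869301666152158593024, .ofNat 0, .ofNat 0, .ofNat 0, .ofNat 0, .ofNat 0⟩)
    (by decide +kernel)
theorem L06760 : Good (Phi V5.P V5.D (-1) (-1)) ⟨8, 228, 6, 42, 4, 15, 4, 10, 5, 1⟩ :=
  leafX_sound T5.ok_mm T5.Ymm.bz_eq (w := 291) (c := ⟨⟨.ofNat 2385, .ofNat 178, .ofNat 135, .negSucc 1641, .negSucc 947, .negSucc 1588⟩, ⟨.negSucc 1582, .negSucc 129, .negSucc 79, .ofNat 1091, .ofNat 631, .ofNat 1052⟩, ⟨.negSucc 371, .negSucc 4, .negSucc 125, .ofNat 1012, .ofNat 334, .ofNat 537⟩, ⟨.ofNat 3942, .ofNat 254, .ofNat 226, .negSucc 2621, .negSucc 1754, .negSucc 2490⟩, ⟨.ofNat 907, .ofNat 29, .ofNat 31, .negSucc 486, .negSucc 641, .negSucc 402⟩, .ofNat 19407, .ofNat 28705, .ofNat 0, .ofNat 28705, .ofNat 43254, .ofNat 0, .ofNat 128, .negSucc 2199, .negSucc 8712, .ofNat 0, .ofNat 1459, .ofNat 5771, .ofNat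 0, .ofNat 0, .ofNat 4640, .ofNat 4905, .ofNat 0, .ofNat 0, .ofNat 1063161801918827029098537328895319416811275943936, .ofNat 0, .ofNat 0, .ofNat 0, .ofNat 7134247836793428335110060201683338869481755379761152, .ofNat 0, .ofNat 0, .ofNat 0, .ofNat 622587136365269960799735205830970027477526516858880, .ofNat 0, .ofNat 0, .ofNat 0, .ofNat 0, .ofNat 0⟩)
    (by decide +kernel)
theorem L06761 : Good (Phi V5.P V5.D (-1) (-1)) ⟨8, 229, 6, 42, 4, 15, 4, 10, 4, 0⟩ :=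
  out_sound (S := T5.ds_mm) T5.ok_mm (w := 23) (j := 4) (by decide +kernel)
theorem L06762 : Good (Phi V5.P V5.D (-1) (-1)) ⟨7, 115, 6, 42, 4, 15, 4, 10, 4, 0⟩ :=
  out_sound (S := T5.ds_mm) T5.ok_mm (w := 75) (j := 3) (by decide +kernel)
theorem L06763 : Good (Phi V5.P V5.D (-1) (-1)) ⟨6, 56, 6, 43, 4, 15, 4, 10, 4, 0⟩ :=
  out_sound (S := T5.ds_mm) T5.ok_mm (w := 69) (j := 3) (by decide +kernel)
theorem L06764 : Good (Phi V5.P V5.D (-1) (-1)) ⟨8, 228, 6, 43, 4, 15, 4, 10, 4, 0⟩ :=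
  out_sound (S := T5.ds_mm) T5.ok_mm (w := 81) (j := 3) (by decide +kernel)
theorem L06765 : Good (Phi V5.P V5.D (-1) (-1)) ⟨8, 229, 6, 43, 4, 15, 4, 10, 4, 0⟩ :=
  out_sound (S := T5.ds_mm) T5.ok_mm (w := 23) (j := 4) (by decide +kernel)
theorem L06766 : Good (Phi V5.P V5.D (-1) (-1)) ⟨7, 115, 6, 43, 4, 15, 4, 10, 4, 0⟩ :=
  out_sound (S := T5.ds_mm) T5.ok_mm (w := 21) (j := 4) (by decide +kernel)
theorem L06767 : Good (Phi V5.P V5.D (-1) (-1)) ⟨5, 29, 5, 21, 4, 15, 4, 10, 4, 0⟩ :=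
  out_sound (S := T5.ds_mm) T5.ok_mm (w := 61) (j := 3) (by decide +kernel)
theorem L06768 : Good (Phi V5.P V5.D (-1) (-1)) ⟨4, 15, 5, 21, 4, 15, 4, 10, 4, 0⟩ :=
  out_sound (S := T5.ds_mm) T5.ok_mm (w := 55) (j := 3) (by decide +kernel)
theorem L06769 : Good (Phi V5.P V5.D (-1) (-1)) ⟨2, 2, 4, 11, 4, 15, 4, 10, 4, 0⟩ :=
  out_sound (S := T5.ds_mm) T5.ok_mm (w := 41) (j := 3) (by decide +kernel)
theorem L06770 : Good (Phi V5.P V5.D (-1) (-1)) ⟨3, 6, 4, 11, 4, 15, 4, 10, 4, 0⟩ :=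
  out_sound (S := T5.ds_mm) T5.ok_mm (w := 47) (j := 3) (by decide +kernel)
theorem L06771 : Good (Phi V5.P V5.D (-1) (-1)) ⟨6, 56, 4, 11, 4, 15, 4, 10, 4, 0⟩ :=
  out_sound (S := T5.ds_mm) T5.ok_mm (w := 65) (j := 3) (by decide +kernel)
theorem L06772 : Good (Phi V5.P V5.D (-1) (-1)) ⟨7, 114, 5, 22, 4, 15, 4, 10, 4, 0⟩ :=
  out_sound (S := T5.ds_mm) T5.ok_mm (w := 73) (j := 3) (by decide +kernel)
theorem L06773 : Good (Phi V5.P V5.D (-1) (-1)) ⟨7, 115, 5, 22, 4, 15, 4, 10, 4, 0⟩ :=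
  out_sound (S := T5.ds_mm) T5.ok_mm (w := 21) (j := 4) (by decide +kernel)
theorem L06774 : Good (Phi V5.P V5.D (-1) (-1)) ⟨6, 57, 5, 23, 4, 15, 4, 10, 4, 0⟩ :=
  out_sound (S := T5.ds_mm) T5.ok_mm (w := 67) (j := 3) (by decide +kernel)
theorem L06775 : Good (Phi V5.P V5.D (-1) (-1)) ⟨5, 29, 4, 11, 4, 15, 4, 10, 4, 0⟩ :=
  out_sound (S := T5.ds_mm) T5.ok_mm (w := 17) (j := 4) (by decide +kernel)
theorem L06776 : Good (Phi V5.P V5.D (-1) (-1)) ⟨4, 15, 4, 11, 4, 15, 4, 10, 4, 0⟩ :=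
  out_sound (S := T5.ds_mm) T5.ok_mm (w := 53) (j := 3) (by decide +kernel)
theorem L06777 : Good (Phi V5.P V5.D (-1) (-1)) ⟨2, 2, 6, 40, 4, 15, 4, 11, 4, 0⟩ :=
  out_sound (S := T5.ds_mm) T5.ok_mm (w := 45) (j := 3) (by decide +kernel)
theorem L06778 : Good (Phi V5.P V5.D (-1) (-1)) ⟨3, 6, 6, 40, 4, 15, 4, 11, 4, 0⟩ :=
  out_sound (S := T5.ds_mm) T5.ok_mm (w := 51) (j := 3) (by decide +kernel)
theorem L06779 : Good (Phi V5.P V5.D (-1) (-1)) ⟨7, 112, 6, 40, 4, 15, 4, 11, 4, 0⟩ :=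
  leafX_sound T5.ok_mm T5.Ymm.bz_eq (w := 279) (c := ⟨⟨.ofNat 1947, .ofNat 120, .ofNat 205, .negSucc 1084, .negSucc 686, .negSucc 2167⟩, ⟨.negSucc 1230, .negSucc 75, .negSucc 130, .ofNat 687, .ofNat 433, .ofNat 1368⟩, ⟨.negSucc 110, .negSucc 80, .negSucc 34, .ofNat 719, .ofNat 219, .ofNat 657⟩, ⟨.ofNat 3683, .ofNat 123, .ofNat 274, .negSucc 1906, .negSucc 1386, .negSucc 4051⟩, ⟨.ofNat 1423, .negSucc 59, .negSucc 19, .negSucc 573, .negSucc 640, .negSucc 1526⟩, .ofNat 7691, .ofNat 11473, .ofNat 0, .ofNat 11473, .ofNat 17962, .ofNat 0, .ofNat 128, .negSucc 1881, .negSucc 10059, .ofNat 0, .ofNat 1198, .ofNat 6362, .ofNat 0, .ofNat 0, .ofNat 5966, .ofNat 4655, .ofNat 0, .ofNat 0, .ofNat 0, .ofNat 0, .ofNat 0, .ofNat 0, .ofNat 135109181957447441125102781206325672024184746672128, .ofNat 0, .ofNat 0, .ofNat 0, .ofNat 99029086174314338059814410420306448083502864793600,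 .ofNat 0, .ofNat 0, .ofNat 0, .ofNat 0, .ofNat 0⟩)
    (by decide +kernel)
theorem L06780 : Good (Phi V5.P V5.D (-1) (-1)) ⟨7, 113, 6, 40, 4, 15, 4, 11, 4, 0⟩ :=
  leafX_sound T5.ok_mm T5.Ymm.bz_eq (w := 275) (c := ⟨⟨.ofNat 2203, .ofNat 316, .ofNat 23, .negSucc 1228, .negSucc 687, .negSucc 2307⟩, ⟨.negSucc 1408, .negSucc 188, .negSucc 21, .ofNat 786, .ofNat 436, .ofNat 1479⟩, ⟨.negSucc 310, .negSucc 35, .negSucc 31, .ofNat 827, .ofNat 222, .ofNat 772⟩, ⟨.ofNat 4484, .ofNat 359, .ofNat 44, .negSucc 2425, .negSucc 1367, .negSucc 4937⟩, ⟨.ofNat 2104, .negSucc 101, .ofNat 2, .negSucc 1057, .negSucc 608, .negSucc 2569⟩, .ofNat 4895, .ofNat 7110, .ofNat 0, .ofNat 7110, .ofNat 11141, .ofNat 0, .ofNat 128, .negSucc 1001, .negSucc 3713, .ofNat 0, .ofNat 639, .ofNat 2349, .ofNat 0, .ofNat 0, .ofNat 2105, .ofNat 2169, .ofNat 0, .ofNat 0, .ofNat 13096548905357559938610379248814869635835887616,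 .ofNat 0, .ofNat 0, .ofNat 0, .ofNat 12722948082981495169950865812670778682886118703104, .ofNat 0, .ofNat 0, .ofNat 0, .ofNat 15792487872135697209429413897714084353743142256640, .ofNat 0, .ofNat 0, .ofNat 0, .ofNat 0, .ofNat 0⟩)
    (by decide +kernel)
theorem L06781 : Good (Phi V5.P V5.D (-1) (-1)) ⟨6, 57, 6, 40, 4, 15, 4, 11, 4, 0⟩ :=
  out_sound (S := T5.ds_mm) T5.ok_mm (w := 69) (j := 3) (by decide +kernel)
theorem L06782 : Good (Phi V5.P V5.D (-1) (-1)) ⟨5, 29, 6, 40, 4, 15, 4, 11, 4, 0⟩ :=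
  out_sound (S := T5.ds_mm) T5.ok_mm (w := 63) (j := 3) (by decide +kernel)
theorem L06783 : Good (Phi V5.P V5.D (-1) (-1)) ⟨4, 15, 6, 40, 4, 15, 4, 11, 4, 0⟩ :=
  out_sound (S := T5.ds_mm) T5.ok_mm (w := 57) (j := 3) (by decide +kernel)
theorem L06784 : Good (Phi V5.P V5.D (-1) (-1)) ⟨2, 2, 6, 41, 4, 15, 4, 11, 4, 0⟩ :=
  out_sound (S := T5.ds_mm) T5.ok_mm (w := 45) (j := 3) (by decide +kernel)
theorem L06785 : Good (Phi V5.P V5.D (-1) (-1)) ⟨3, 6, 6, 41, 4, 15, 4, 11, 4, 0⟩ :=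
  out_sound (S := T5.ds_mm) T5.ok_mm (w := 51) (j := 3) (by decide +kernel)
theorem L06786 : Good (Phi V5.P V5.D (-1) (-1)) ⟨7, 112, 6, 41, 4, 15, 4, 11, 4, 0⟩ :=
  out_sound (S := T5.ds_mm) T5.ok_mm (w := 75) (j := 3) (by decide +kernel)
theorem L06787 : Good (Phi V5.P V5.D (-1) (-1)) ⟨7, 113, 6, 41, 4, 15, 4, 11, 5, 0⟩ :=
  leafX_sound T5.ok_mm T5.Ymm.bz_eq (w := 283) (c := ⟨⟨.ofNat 2656, .negSucc 102, .ofNat 253, .negSucc 1208, .negSucc 823, .negSucc 1681⟩, ⟨.negSucc 1743, .ofNat 86, .negSucc 189, .ofNat 799, .ofNat 541, .ofNat 1100⟩, ⟨.negSucc 486, .negSucc 99, .negSucc 24, .ofNat 875, .ofNat 304, .ofNat 680⟩, ⟨.ofNat 5736, .negSucc 141, .ofNat 464, .negSucc 2752, .negSucc 2024, .negSucc 3661⟩, ⟨.ofNat 3021, .ofNat 5, .ofNat 161, .negSucc 1587, .negSucc 1309, .negSucc 1959⟩, .ofNat 5778, .ofNat 8379, .ofNat 0, .ofNat 8379, .ofNat 12949, .ofNat 0, .ofNat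 128, .negSucc 1623, .negSucc 7342, .ofNat 0, .ofNat 1050, .ofNat 4722, .ofNat 0, .ofNat 0, .ofNat 4106, .ofNat 3163, .ofNat 0, .ofNat 0, .ofNat 0, .ofNat 0, .ofNat 0, .ofNat 0, .ofNat 1533543732223796861353369046792912083133461451243520, .ofNat 0, .ofNat 0, .ofNat 0, .ofNat 523586026066277350817302411191065276719399862009856, .ofNat 0, .ofNat 0, .ofNat 0, .ofNat 0, .ofNat 0⟩)
    (by decide +kernel)
theorem L06788 : Good (Phi V5.P V5.D (-1) (-1)) ⟨7, 113, 6, 41, 4, 15, 4, 11, 5, 1⟩ :=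
  leafX_sound T5.ok_mm T5.Ymm.bz_eq (w := 283) (c := ⟨⟨.ofNat 750, .ofNat 6, .ofNat 19, .negSucc 1084, .negSucc 619, .negSucc 820⟩, ⟨.negSucc 495, .negSucc 5, .negSucc 3, .ofNat 712, .ofNat 405, .ofNat 536⟩, ⟨.ofNat 330, .negSucc 27, .ofNat 20, .ofNat 669, .ofNat 181, .ofNat 180⟩, ⟨.ofNat 1638, .ofNat 42, .ofNat 2, .negSucc 2345, .negSucc 1407, .negSucc 1862⟩, ⟨.ofNat 878, .ofNat 41, .negSucc 26, .negSucc 1236, .negSucc 809, .negSucc 1071⟩, .ofNat 5782, .ofNat 8389, .ofNat 0, .ofNat 8389, .ofNat 12968, .ofNat 0, .ofNat 128, .negSucc 1946, .negSucc 8542, .ofNat 0, .ofNat 1259, .ofNat 5488, .ofNat 0, .ofNat 0, .ofNat 4539, .ofNat 4517, .ofNat 0, .ofNat 0, .ofNat 0, .ofNat 0, .ofNat 0, .ofNat 0, .ofNat 1190615276537715329134754199688876177998519826644992, .ofNat 0, .ofNat 0, .ofNat 0, .ofNat 0, .ofNat 0, .ofNat 0, .ofNat 0, .ofNat 0, .ofNat 0⟩)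
    (by decide +kernel)
theorem L06789 : Good (Phi V5.P V5.D (-1) (-1)) ⟨6, 57, 6, 41, 4, 15, 4, 11, 4, 0⟩ :=
  leafX_sound T5.ok_mm T5.Ymm.bz_eq (w := 277) (c := ⟨⟨.ofNat 2687, .ofNat 0, .negSucc 295, .negSucc 1234, .negSucc 802, .negSucc 2353⟩, ⟨.negSucc 1244, .ofNat 0, .negSucc 334, .ofNat 817, .ofNat 529, .ofNat 1553⟩, ⟨.negSucc 98, .ofNat 0, .negSucc 203, .ofNat 801, .ofNat 258, .ofNat 747⟩, ⟨.ofNat 4962, .ofNat 0, .ofNat 39, .negSucc 2615, .negSucc 1696, .negSucc 5080⟩, ⟨.ofNat 2450, .ofNat 0, .ofNat 12, .negSucc 1319, .negSucc 855, .negSucc 2664⟩, .ofNat 6368, .ofNat 9219, .ofNat 0, .ofNat 9219, .ofNat 14134, .ofNat 0, .ofNat 128, .negSucc 4931, .negSucc 24250, .ofNat 0, .ofNat 3216, .ofNat 15737, .ofNat 0, .ofNat 0, .ofNat 13001, .ofNat 15680, .ofNat 0, .ofNat 0, .ofNat 348049917459325007154349311967563267697836466110464, .ofNat 0, .ofNat 0, .ofNat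 0, .ofNat 230596544590294068195772660382921845914651009174470656, .ofNat 0, .ofNat 0, .ofNat 0, .ofNat 8042072173372083424861334797441518709134150137282560, .ofNat 0, .ofNat 0, .ofNat 0, .ofNat 662484510064793134183020016198618329161162593694384128, .ofNat 0⟩)
    (by decide +kernel)
theorem L06790 : Good (Phi V5.P V5.D (-1) (-1)) ⟨5, 29, 6, 41, 4, 15, 4, 11, 4, 0⟩ :=
  out_sound (S := T5.ds_mm) T5.ok_mm (w := 63) (j := 3) (by decide +kernel)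
theorem L06791 : Good (Phi V5.P V5.D (-1) (-1)) ⟨4, 15, 6, 41, 4, 15, 4, 11, 4, 0⟩ :=
  out_sound (S := T5.ds_mm) T5.ok_mm (w := 57) (j := 3) (by decide +kernel)
theorem L06792 : Good (Phi V5.P V5.D (-1) (-1)) ⟨2, 2, 5, 21, 4, 15, 4, 11, 4, 0⟩ :=
  out_sound (S := T5.ds_mm) T5.ok_mm (w := 43) (j := 3) (by decide +kernel)
theorem L06793 : Good (Phi V5.P V5.D (-1) (-1)) ⟨3, 6, 5, 21, 4, 15, 4, 11, 4, 0⟩ :=
  out_sound (S := T5.ds_mm) T5.ok_mm (w := 49) (j := 3) (by decide +kernel)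
theorem L06794 : Good (Phi V5.P V5.D (-1) (-1)) ⟨6, 56, 6, 42, 4, 15, 4, 11, 5, 0⟩ :=
  leafX_sound T5.ok_mm T5.Ymm.bz_eq (w := 287) (c := ⟨⟨.ofNat 3268, .ofNat 0, .ofNat 68, .negSucc 1581, .negSucc 1006, .negSucc 2019⟩, ⟨.negSucc 2150, .ofNat 0, .negSucc 63, .ofNat 1042, .ofNat 662, .ofNat 1329⟩, ⟨.negSucc 848, .ofNat 0, .ofNat 277, .ofNat 1045, .ofNat 386, .ofNat 848⟩, ⟨.ofNat 4652, .ofNat 1, .ofNat 12, .negSucc 1746, .negSucc 1147, .negSucc 2233⟩, ⟨.ofNat 103, .ofNat 1, .negSucc 14, .ofNat 706, .ofNat 396, .ofNat 897⟩, .ofNat 28961, .ofNat 43246, .ofNat 0, .ofNat 43246, .ofNat 65389, .ofNat 0, .ofNat 128, .negSucc 7987, .negSucc 24900, .ofNat 0, .ofNat 5270, .ofNat 16406, .ofNat 0, .ofNat 0, .ofNat 14332, .ofNat 15693, .ofNat 0, .ofNat 0, .ofNat 0, .ofNat 0, .ofNat 0, .ofNat 0, .ofNat 133759008462384220105436438459470475739625314685288448, .ofNat 0, .ofNat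 0, .ofNat 0, .ofNat 417020514291450265610755577609628168627563726448361472, .ofNat 0, .ofNat 0, .ofNat 0, .ofNat 316623579207850710715057519870861516210836728105140224, .ofNat 0⟩)
    (by decide +kernel)
theorem L06795 : Good (Phi V5.P V5.D (-1) (-1)) ⟨6, 57, 6, 42, 4, 15, 4, 11, 5, 0⟩ :=
  leafX_sound T5.ok_mm T5.Ymm.bz_eq (w := 279) (c := ⟨⟨.ofNat 3327, .negSucc 290, .ofNat 117, .negSucc 1455, .negSucc 1065, .negSucc 2140⟩, ⟨.negSucc 2210, .ofNat 45, .negSucc 50, .ofNat 977, .ofNat 711, .ofNat 1421⟩, ⟨.negSucc 887, .negSucc 516, .ofNat 145, .ofNat 1006, .ofNat 420, .ofNat 892⟩, ⟨.ofNat 6781, .negSucc 45, .ofNat 7, .negSucc 3083, .negSucc 2225, .negSucc 4313⟩, ⟨.ofNat 3162, .negSucc 19, .negSucc 82, .negSucc 1555, .negSucc 1095, .negSucc 1966⟩, .ofNat 7087, .ofNat 10084, .ofNat 0, .ofNat 10084, .ofNat 15106, .ofNat 0, .ofNat 128, .negSucc 1852, .negSucc 6346,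 .ofNat 0, .ofNat 1227, .ofNat 4182, .ofNat 0, .ofNat 0, .ofNat 3452, .ofNat 2792, .ofNat 0, .ofNat 0, .ofNat 7901566556627975733869985238670577830519086514176, .ofNat 0, .ofNat 0, .ofNat 0, .ofNat 6536393527621468580490551681000997488095571010912256, .ofNat 50459241605192728549774894284096561878234342319488230286688256, .ofNat 0, .ofNat 0, .ofNat 952556347877235492032970764387449557259037226041344, .ofNat 0, .ofNat 0, .ofNat 0, .ofNat 1145883727771344987807873878286175358097136461807616, .ofNat 274992722661938644142842345952558774592173591398625225660694528⟩)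
    (by decide +kernel)
theorem L06796 : Good (Phi V5.P V5.D (-1) (-1)) ⟨6, 56, 6, 42, 4, 15, 4, 11, 5, 1⟩ :=
  leafX_sound T5.ok_mm T5.Ymm.bz_eq (w := 287) (c := ⟨⟨.ofNat 991, .ofNat 0, .ofNat 6, .negSucc 1256, .negSucc 727, .negSucc 921⟩, ⟨.negSucc 651, .ofNat 0, .ofNat 5, .ofNat 826, .ofNat 478, .ofNat 606⟩, ⟨.ofNat 206, .ofNat 0, .ofNat 37, .ofNat 761, .ofNat 238, .ofNat 234⟩, ⟨.ofNat 671, .negSucc 0, .negSucc 1, .negSucc 1418, .negSucc 883, .negSucc 1098⟩, ⟨.negSucc 1075, .ofNat 0, .negSucc 0, .ofNat 509, .ofNat 204, .ofNat 288⟩, .ofNat 23257, .ofNat 34654, .ofNat 0, .ofNat 34654, .ofNat 52447, .ofNat 0, .ofNat 128, .negSucc 7294, .negSucc 27645, .ofNat 0, .ofNat 4812, .ofNat 18201, .ofNat 0, .ofNat 0, .ofNat 15176, .ofNat 25097, .ofNat 0, .ofNat 0, .ofNat 0, .ofNat 0, .ofNat 0, .ofNat 0, .ofNat 57343264787945046012964050994636669121346969576407040, .ofNat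 0, .ofNat 0, .ofNat 0, .ofNat 188173763021808029396056126760208180080042192779870208, .ofNat 0, .ofNat 0, .ofNat 0, .ofNat 386694478123553346928900347902100867464128633130450944, .ofNat 0⟩)
    (by decide +kernel)
theorem L06797 : Good (Phi V5.P V5.D (-1) (-1)) ⟨7, 114, 6, 42, 4, 15, 4, 11, 5, 1⟩ :=
  leafX_sound T5.ok_mm T5.Ymm.bz_eq (w := 285) (c := ⟨⟨.ofNat 887, .ofNat 8, .ofNat 95, .negSucc 1226, .negSucc 679, .negSucc 848⟩, ⟨.negSucc 597, .negSucc 14, .negSucc 50, .ofNat 821, .ofNat 454, .ofNat 567⟩, ⟨.ofNat 270, .negSucc 3, .negSucc 23, .ofNat 743, .ofNat 199, .ofNat 185⟩, ⟨.ofNat 2002, .ofNat 8, .ofNat 65, .negSucc 2699, .negSucc 1624, .negSucc 1909⟩, ⟨.ofNat 1134, .negSucc 37, .negSucc 78, .negSucc 1464, .negSucc 1006, .negSucc 1078⟩, .ofNat 12071, .ofNat 17710, .ofNat 0, .ofNat 17710, .ofNat 26774, .ofNat 0, .ofNat 128, .negSucc 1981, .negSucc 9300,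 .ofNat 0, .ofNat 1311, .ofNat 6137, .ofNat 0, .ofNat 0, .ofNat 4891, .ofNat 4496, .ofNat 0, .ofNat 0, .ofNat 811349529868827031786717008870239338728414773248, .ofNat 0, .ofNat 0, .ofNat 0, .ofNat 11697868152667674794180040088588503634930556597174272, .ofNat 0, .ofNat 0, .ofNat 0, .ofNat 0, .ofNat 988103503858707098466598068305003564505891418259308961324859392, .ofNat 0, .ofNat 0, .ofNat 0, .ofNat 3984762675308079112745124103481773200372469189083577641689153536⟩)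
    (by decide +kernel)
theorem L06798 : Good (Phi V5.P V5.D (-1) (-1)) ⟨7, 115, 6, 42, 4, 15, 4, 11, 5, 1⟩ :=
  out_sound (S := T5.ds_mm) T5.ok_mm (w := 75) (j := 3) (by decide +kernel)
theorem L06799 : Good (Phi V5.P V5.D (-1) (-1)) ⟨6, 56, 6, 43, 4, 15, 4, 11, 4, 0⟩ :=
  out_sound (S := T5.ds_mm) T5.ok_mm (w := 69) (j := 3) (by decide +kernel)
theorem L06800 : Good (Phi V5.P V5.D (-1) (-1)) ⟨8, 228, 6, 43, 4, 15, 4, 11, 4, 0⟩ :=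
  out_sound (S := T5.ds_mm) T5.ok_mm (w := 81) (j := 3) (by decide +kernel)
theorem L06801 : Good (Phi V5.P V5.D (-1) (-1)) ⟨8, 229, 6, 43, 4, 15, 4, 11, 4, 0⟩ :=
  out_sound (S := T5.ds_mm) T5.ok_mm (w := 23) (j := 4) (by decide +kernel)
theorem L06802 : Good (Phi V5.P V5.D (-1) (-1)) ⟨7, 115, 6, 43, 4, 15, 4, 11, 4, 0⟩ :=
  out_sound (S := T5.ds_mm) T5.ok_mm (w := 21) (j := 4) (by decide +kernel)
theorem L06803 : Good (Phi V5.P V5.D (-1) (-1)) ⟨5, 29, 5, 21, 4, 15, 4, 11, 4, 0⟩ :=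
  out_sound (S := T5.ds_mm) T5.ok_mm (w := 61) (j := 3) (by decide +kernel)
theorem L06804 : Good (Phi V5.P V5.D (-1) (-1)) ⟨4, 15, 5, 21, 4, 15, 4, 11, 4, 0⟩ :=
  out_sound (S := T5.ds_mm) T5.ok_mm (w := 55) (j := 3) (by decide +kernel)
theorem L06805 : Good (Phi V5.P V5.D (-1) (-1)) ⟨2, 2, 4, 11, 4, 15, 4, 11, 4, 0⟩ :=
  out_sound (S := T5.ds_mm) T5.ok_mm (w := 41) (j := 3) (by decide +kernel)
theorem L06806 : Good (Phi V5.P V5.D (-1) (-1)) ⟨3, 6, 4, 11, 4, 15, 4, 11, 4, 0⟩ :=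
  out_sound (S := T5.ds_mm) T5.ok_mm (w := 47) (j := 3) (by decide +kernel)
theorem L06807 : Good (Phi V5.P V5.D (-1) (-1)) ⟨6, 56, 4, 11, 4, 15, 4, 11, 4, 0⟩ :=
  out_sound (S := T5.ds_mm) T5.ok_mm (w := 65) (j := 3) (by decide +kernel)
theorem L06808 : Good (Phi V5.P V5.D (-1) (-1)) ⟨7, 114, 5, 22, 4, 15, 4, 11, 4, 0⟩ :=
  out_sound (S := T5.ds_mm) T5.ok_mm (w := 73) (j := 3) (by decide +kernel)
theorem L06809 : Good (Phi V5.P V5.D (-1) (-1)) ⟨7, 115, 5, 22, 4, 15, 4, 11, 4, 0⟩ :=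
  out_sound (S := T5.ds_mm) T5.ok_mm (w := 21) (j := 4) (by decide +kernel)
theorem L06810 : Good (Phi V5.P V5.D (-1) (-1)) ⟨6, 57, 5, 23, 4, 15, 4, 11, 4, 0⟩ :=
  out_sound (S := T5.ds_mm) T5.ok_mm (w := 67) (j := 3) (by decide +kernel)
theorem L06811 : Good (Phi V5.P V5.D (-1) (-1)) ⟨5, 29, 4, 11, 4, 15, 4, 11, 4, 0⟩ :=
  out_sound (S := T5.ds_mm) T5.ok_mm (w := 17) (j := 4) (by decide +kernel)
theorem L06812 : Good (Phi V5.P V5.D (-1) (-1)) ⟨4, 15, 4, 11, 4, 15, 4, 11, 4, 0⟩ :=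
  out_sound (S := T5.ds_mm) T5.ok_mm (w := 53) (j := 3) (by decide +kernel)
theorem L06813 : Good (Phi V5.P V5.D (-1) (-1)) ⟨2, 2, 3, 5, 4, 14, 3, 5, 6, 4⟩ :=
  out_sound (S := T5.ds_mm) T5.ok_mm (w := 39) (j := 3) (by decide +kernel)
theorem L06814 : Good (Phi V5.P V5.D (-1) (-1)) ⟨3, 6, 3, 5, 4, 14, 4, 10, 6, 4⟩ :=
  out_sound (S := T5.ds_mm) T5.ok_mm (w := 45) (j := 3) (by decide +kernel)
theorem L06815 : Good (Phi V5.P V5.D (-1) (-1)) ⟨6, 56, 5, 20, 4, 14, 4, 10, 6, 4⟩ :=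
  leafX_sound T5.ok_mm T5.Ymm.bz_eq (w := 277) (c := ⟨⟨.ofNat 383, .ofNat 65, .ofNat 124, .negSucc 227, .negSucc 374, .negSucc 863⟩, ⟨.negSucc 249, .negSucc 59, .negSucc 59, .ofNat 151, .ofNat 243, .ofNat 559⟩, ⟨.ofNat 128, .negSucc 24, .negSucc 52, .ofNat 295, .ofNat 126, .ofNat 364⟩, ⟨.ofNat 371, .ofNat 97, .ofNat 231, .negSucc 226, .negSucc 757, .negSucc 1718⟩, ⟨.negSucc 274, .ofNat 10, .ofNat 100, .ofNat 149, .negSucc 346, .negSucc 760⟩, .ofNat 3643, .ofNat 5176, .ofNat 0, .ofNat 5176, .ofNat 8145, .ofNat 0, .ofNat 128, .negSucc 1072, .negSucc 3771, .ofNat 0, .ofNat 688, .ofNat 2391, .ofNat 0, .ofNat 0, .ofNat 2242, .ofNat 5752, .ofNat 0, .ofNat 0, .ofNat 0, .ofNat 0, .ofNat 0, .ofNat 0, .ofNat 11756726112303467033459590786205490648531250880446464, .ofNat 0, .ofNat 0, .ofNat 0, .ofNat 0, .ofNat 0, .ofNat 0, .ofNat 0, .ofNat 0, .ofNat 0⟩)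
    (by decide +kernel)
theorem L06816 : Good (Phi V5.P V5.D (-1) (-1)) ⟨6, 57, 5, 20, 4, 14, 4, 10, 6, 4⟩ :=
  leafX_sound T5.ok_mm T5.Ymm.bz_eq (w := 285) (c := ⟨⟨.ofNat 613, .ofNat 0, .ofNat 19, .negSucc 181, .negSucc 439, .negSucc 994⟩, ⟨.negSucc 446, .ofNat 0, .ofNat 29, .ofNat 121, .ofNat 290, .ofNat 653⟩, ⟨.ofNat 18, .ofNat 0, .ofNat 10, .ofNat 278, .ofNat 157, .ofNat 421⟩, ⟨.ofNat 587, .ofNat 0, .negSucc 0, .negSucc 172, .negSucc 794, .negSucc 1520⟩, ⟨.negSucc 453, .ofNat 0, .ofNat 0, .ofNat 126, .negSucc 265, .negSucc 189⟩, .ofNat 14074, .ofNat 20823, .ofNat 0, .ofNat 20823, .ofNat 31613, .ofNat 0, .ofNat 128, .negSucc 2824, .negSucc 13758, .ofNat 0, .ofNat 1863, .ofNat 9045, .ofNat 0, .ofNat 0, .ofNat 8268, .ofNat 67359, .ofNat 0, .ofNat 0, .ofNat 65476256342924738294704894174181841766919148929024, .ofNat 0, .ofNat 0, .ofNat 0, .ofNat 47811109141036020982317958907423062111446866135722491904,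 .ofNat 0, .ofNat 0, .ofNat 0, .ofNat 18210465574857313132555775143725842714921401243590983680, .ofNat 0, .ofNat 0, .ofNat 0, .ofNat 13305000806374114893367712865736059082300481372191457280, .ofNat 0⟩)
    (by decide +kernel)
theorem L06817 : Good (Phi V5.P V5.D (-1) (-1)) ⟨5, 29, 5, 20, 4, 14, 4, 10, 6, 4⟩ :=
  out_sound (S := T5.ds_mm) T5.ok_mm (w := 61) (j := 3) (by decide +kernel)
theorem L06818 : Good (Phi V5.P V5.D (-1) (-1)) ⟨6, 56, 5, 21, 4, 14, 4, 10, 6, 4⟩ :=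
  leafX_sound T5.ok_mm T5.Ymm.bz_eq (w := 283) (c := ⟨⟨.ofNat 632, .ofNat 0, .ofNat 24, .negSucc 173, .negSucc 396, .negSucc 972⟩, ⟨.negSucc 418, .ofNat 0, .negSucc 7, .ofNat 117, .ofNat 263, .ofNat 641⟩, ⟨.ofNat 25, .ofNat 0, .negSucc 61, .ofNat 276, .ofNat 128, .ofNat 415⟩, ⟨.ofNat 817, .ofNat 0, .ofNat 25, .negSucc 161, .negSucc 861, .negSucc 1842⟩, ⟨.negSucc 108, .ofNat 0, .ofNat 1, .ofNat 127, .negSucc 455, .negSucc 716⟩, .ofNat 6496, .ofNat 9411, .ofNat 0, .ofNat 9411, .ofNat 14423, .ofNat 0, .ofNat 128, .negSucc 3635, .negSucc 13625, .ofNat 0, .ofNat 2384, .ofNat 8880, .ofNat 0, .ofNat 0, .ofNat 8026, .ofNat 12059, .ofNat 0, .ofNat 0, .ofNat 0, .ofNat 0, .ofNat 0, .ofNat 0, .ofNat 145208141297896293040779550215237795250933613172097024, .ofNat 0, .ofNat 0, .ofNat 0, .ofNat 308998178469347009502480166084952753416183161989103616, .ofNat 0, .ofNat 0, .ofNat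 0, .ofNat 428737012203378528073165204573271549508897978412171264, .ofNat 0⟩)
    (by decide +kernel)
theorem L06819 : Good (Phi V5.P V5.D (-1) (-1)) ⟨7, 114, 5, 21, 4, 14, 4, 10, 6, 4⟩ :=
  leafX_sound T5.ok_mm T5.Ymm.bz_eq (w := 285) (c := ⟨⟨.ofNat 650, .ofNat 159, .ofNat 177, .negSucc 202, .negSucc 446, .negSucc 1044⟩, ⟨.negSucc 434, .negSucc 103, .negSucc 115, .ofNat 137, .ofNat 299, .ofNat 694⟩, ⟨.ofNat 19, .negSucc 135, .negSucc 30, .ofNat 294, .ofNat 159, .ofNat 451⟩, ⟨.ofNat 795, .ofNat 282, .ofNat 268, .negSucc 164, .negSucc 911, .negSucc 1875⟩, ⟨.negSucc 179, .ofNat 71, .ofNat 63, .ofNat 181, .negSucc 424, .negSucc 615⟩, .ofNat 8455, .ofNat 12236, .ofNat 0, .ofNat 12236, .ofNat 18480, .ofNat 0, .ofNat 128, .negSucc 1606, .negSucc 6050, .ofNat 0, .ofNat 1069, .ofNat 4009, .ofNat 0, .ofNat 0, .ofNat 3467, .ofNat 7528, .ofNat 0, .ofNat 0, .ofNat 11333637508555861163321287762551860569174932717568,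 .ofNat 0, .ofNat 0, .ofNat 0, .ofNat 66935588952933462730359062921382198835458130093015040, .ofNat 0, .ofNat 0, .ofNat 0, .ofNat 6213874324937086057892637661199505639562118690766848, .ofNat 7026993507285623280011972102466264196412371151708117442410577920, .ofNat 0, .ofNat 0, .ofNat 27402591722993812041899386333070829090744580473618432, .ofNat 16535934493596130590494559493914697745638600995396873910254305280⟩)
    (by decide +kernel)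
theorem L06820 : Good (Phi V5.P V5.D (-1) (-1)) ⟨7, 115, 5, 21, 4, 14, 4, 10, 6, 4⟩ :=
  out_sound (S := T5.ds_mm) T5.ok_mm (w := 21) (j := 4) (by decide +kernel)
theorem L06821 : Good (Phi V5.P V5.D (-1) (-1)) ⟨5, 29, 5, 21, 4, 14, 4, 10, 6, 4⟩ :=
  out_sound (S := T5.ds_mm) T5.ok_mm (w := 61) (j := 3) (by decide +kernel)
theorem L06822 : Good (Phi V5.P V5.D (-1) (-1)) ⟨4, 15, 4, 10, 4, 14, 4, 10, 6, 4⟩ :=
  out_sound (S := T5.ds_mm) T5.ok_mm (w := 53) (j := 3) (by decide +kernel)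
theorem L06823 : Good (Phi V5.P V5.D (-1) (-1)) ⟨6, 56, 4, 11, 4, 14, 4, 10, 6, 4⟩ :=
  out_sound (S := T5.ds_mm) T5.ok_mm (w := 65) (j := 3) (by decide +kernel)
theorem L06824 : Good (Phi V5.P V5.D (-1) (-1)) ⟨7, 114, 5, 22, 4, 14, 4, 10, 6, 4⟩ :=
  out_sound (S := T5.ds_mm) T5.ok_mm (w := 73) (j := 3) (by decide +kernel)
theorem L06825 : Good (Phi V5.P V5.D (-1) (-1)) ⟨7, 115, 5, 22, 4, 14, 4, 10, 6, 4⟩ :=
  out_sound (S := T5.ds_mm) T5.ok_mm (w := 21) (j := 4) (by decide +kernel)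
theorem L06826 : Good (Phi V5.P V5.D (-1) (-1)) ⟨6, 57, 5, 23, 4, 14, 4, 10, 6, 4⟩ :=
  out_sound (S := T5.ds_mm) T5.ok_mm (w := 67) (j := 3) (by decide +kernel)
theorem L06827 : Good (Phi V5.P V5.D (-1) (-1)) ⟨5, 29, 4, 11, 4, 14, 4, 10, 6, 4⟩ :=
  out_sound (S := T5.ds_mm) T5.ok_mm (w := 17) (j := 4) (by decide +kernel)
theorem L06828 : Good (Phi V5.P V5.D (-1) (-1)) ⟨4, 15, 4, 11, 4, 14, 4, 10, 6, 4⟩ :=
  out_sound (S := T5.ds_mm) T5.ok_mm (w := 53) (j := 3) (by decide +kernel)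
theorem L06829 : Good (Phi V5.P V5.D (-1) (-1)) ⟨3, 6, 5, 20, 4, 14, 4, 11, 6, 4⟩ :=
  out_sound (S := T5.ds_mm) T5.ok_mm (w := 49) (j := 3) (by decide +kernel)
theorem L06830 : Good (Phi V5.P V5.D (-1) (-1)) ⟨6, 56, 5, 20, 4, 14, 4, 11, 6, 4⟩ :=
  leafX_sound T5.ok_mm T5.Ymm.bz_eq (w := 279) (c := ⟨⟨.negSucc 210, .negSucc 43, .ofNat 132, .negSucc 79, .negSucc 301, .negSucc 532⟩, ⟨.ofNat 128, .ofNat 16, .negSucc 58, .ofNat 52, .ofNat 196, .ofNat 343⟩, ⟨.ofNat 411, .ofNat 22, .negSucc 49, .ofNat 162, .ofNat 78, .ofNat 177⟩, ⟨.negSucc 767, .negSucc 74, .ofNat 171, .ofNat 1, .negSucc 643, .negSucc 1021⟩, ⟨.negSucc 728, .negSucc 25, .negSucc 2, .ofNat 175, .negSucc 329, .negSucc 411⟩, .ofNat 5232, .ofNat 7596, .ofNat 0, .ofNat 7596, .ofNat 11837, .ofNat 0, .ofNat 128, .negSucc 1032, .negSucc 4869, .ofNat 0, .ofNat 666, .ofNat 3114, .ofNat 0, .ofNat 0, .ofNat 2903,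 .ofNat 5309, .ofNat 0, .ofNat 0, .ofNat 0, .ofNat 0, .ofNat 0, .ofNat 0, .ofNat 19845336061805680363274997484350609627786753957953536, .ofNat 0, .ofNat 0, .ofNat 0, .ofNat 0, .ofNat 0, .ofNat 0, .ofNat 0, .ofNat 0, .ofNat 0⟩)
    (by decide +kernel)
theorem L06831 : Good (Phi V5.P V5.D (-1) (-1)) ⟨6, 57, 5, 20, 4, 14, 4, 11, 6, 4⟩ :=
  leafX_sound T5.ok_mm T5.Ymm.bz_eq (w := 291) (c := ⟨⟨.negSucc 128, .ofNat 0, .ofNat 23, .negSucc 24, .negSucc 367, .negSucc 622⟩, ⟨.ofNat 41, .ofNat 0, .ofNat 27, .ofNat 17, .ofNat 242, .ofNat 410⟩, ⟨.ofNat 352, .ofNat 0, .ofNat 20, .ofNat 137, .ofNat 117, .ofNat 227⟩, ⟨.negSucc 939, .ofNat 1, .negSucc 0, .negSucc 19, .negSucc 421, .negSucc 675⟩, ⟨.negSucc 1190, .ofNat 0, .ofNat 0, .ofNat 24, .ofNat 143, .ofNat 295⟩, .ofNat 26852, .ofNat 40069, .ofNat 0, .ofNat 40069, .ofNat 60603, .ofNat 0, .ofNat 128, .negSucc 8562, .negSucc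 50202, .ofNat 0, .ofNat 5658, .ofNat 33094, .ofNat 0, .ofNat 0, .ofNat 30183, .ofNat 177964, .ofNat 0, .ofNat 0, .ofNat 232056497972604326489663711090996376069059721035776, .ofNat 0, .ofNat 0, .ofNat 0, .ofNat 141651921876358409856505978638884955565707171095881187328, .ofNat 0, .ofNat 0, .ofNat 0, .ofNat 23695896099322648252117821618191689469001780580600250368, .ofNat 0, .ofNat 0, .ofNat 0, .ofNat 7164163750959183463998629160944592145195624410585759744, .ofNat 0⟩)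
    (by decide +kernel)
theorem L06832 : Good (Phi V5.P V5.D (-1) (-1)) ⟨5, 29, 5, 20, 4, 14, 4, 11, 6, 4⟩ :=
  out_sound (S := T5.ds_mm) T5.ok_mm (w := 61) (j := 3) (by decide +kernel)
theorem L06833 : Good (Phi V5.P V5.D (-1) (-1)) ⟨4, 15, 5, 20, 4, 14, 4, 11, 6, 4⟩ :=
  out_sound (S := T5.ds_mm) T5.ok_mm (w := 55) (j := 3) (by decide +kernel)
theorem L06834 : Good (Phi V5.P V5.D (-1) (-1)) ⟨3, 6, 5, 21, 4, 14, 4, 11, 6, 4⟩ :=
  out_sound (S := T5.ds_mm) T5.ok_mm (w := 49) (j := 3) (by decide +kernel)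
theorem L06835 : Good (Phi V5.P V5.D (-1) (-1)) ⟨6, 56, 5, 21, 4, 14, 4, 11, 6, 4⟩ :=
  leafX_sound T5.ok_mm T5.Ymm.bz_eq (w := 287) (c := ⟨⟨.negSucc 47, .ofNat 0, .ofNat 39, .negSucc 73, .negSucc 395, .negSucc 614⟩, ⟨.ofNat 29, .ofNat 0, .negSucc 5, .ofNat 50, .ofNat 261, .ofNat 405⟩, ⟨.ofNat 339, .ofNat 0, .negSucc 69, .ofNat 169, .ofNat 129, .ofNat 225⟩, ⟨.negSucc 561, .negSucc 0, .ofNat 24, .negSucc 89, .negSucc 740, .negSucc 1010⟩, ⟨.negSucc 746, .ofNat 0, .negSucc 3, .ofNat 22, .negSucc 277, .negSucc 222⟩, .ofNat 14655, .ofNat 21699, .ofNat 0, .ofNat 21699, .ofNat 32933, .ofNat 0, .ofNat 128, .negSucc 3995, .negSucc 24581, .ofNat 0, .ofNat 2636, .ofNat 16168, .ofNat 0, .ofNat 0, .ofNat 14626, .ofNat 10412, .ofNat 0, .ofNat 0, .ofNat 110028554477973368509091440155119212936004391403520, .ofNat 0, .ofNat 0, .ofNat 0, .ofNat 347883707900455304415211136506073107792397862373949440,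 .ofNat 0, .ofNat 0, .ofNat 0, .ofNat 404067252937588807236867588253765348680463292815114240, .ofNat 0, .ofNat 0, .ofNat 0, .ofNat 0, .ofNat 0⟩)
    (by decide +kernel)
theorem L06836 : Good (Phi V5.P V5.D (-1) (-1)) ⟨7, 114, 6, 42, 4, 14, 4, 11, 6, 4⟩ :=
  leafX_sound T5.ok_mm T5.Ymm.bz_eq (w := 292) (c := ⟨⟨.negSucc 106, .ofNat 5, .ofNat 18, .negSucc 36, .negSucc 381, .negSucc 590⟩, ⟨.ofNat 65, .negSucc 21, .ofNat 7, .ofNat 26, .ofNat 253, .ofNat 392⟩, ⟨.ofNat 376, .ofNat 13, .negSucc 8, .ofNat 153, .ofNat 115, .ofNat 205⟩, ⟨.negSucc 683, .ofNat 40, .ofNat 75, .negSucc 61, .negSucc 640, .negSucc 881⟩, ⟨.negSucc 800, .ofNat 44, .ofNat 83, .negSucc 13, .negSucc 160, .negSucc 83⟩, .ofNat 18756, .ofNat 27734, .ofNat 0, .ofNat 27734, .ofNat 41807, .ofNat 0, .ofNat 128, .negSucc 2135, .negSucc 8886, .ofNat 0, .ofNat 1419, .ofNat 5891, .ofNat 0, .ofNat 0, .ofNat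 5200, .ofNat 10607, .ofNat 0, .ofNat 0, .ofNat 47465337377988967801128204847320923217009865392128, .ofNat 0, .ofNat 0, .ofNat 0, .ofNat 474678712217821910113475380460828725604673561265438720, .ofNat 0, .ofNat 0, .ofNat 0, .ofNat 140295593283478637068679181666896454681110951866925056, .ofNat 0, .ofNat 0, .ofNat 0, .ofNat 8662040056923891354872680246432538880621383679737856, .ofNat 65924852083484002475266107749466054182157738117509321834421551104⟩)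
    (by decide +kernel)
theorem L06837 : Good (Phi V5.P V5.D (-1) (-1)) ⟨8, 228, 6, 43, 4, 14, 4, 11, 6, 4⟩ :=
  out_sound (S := T5.ds_mm) T5.ok_mm (w := 81) (j := 3) (by decide +kernel)
theorem L06838 : Good (Phi V5.P V5.D (-1) (-1)) ⟨8, 229, 6, 43, 4, 14, 4, 11, 6, 4⟩ :=
  out_sound (S := T5.ds_mm) T5.ok_mm (w := 23) (j := 4) (by decide +kernel)
theorem L06839 : Good (Phi V5.P V5.D (-1) (-1)) ⟨7, 115, 5, 21, 4, 14, 4, 11, 6, 4⟩ :=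
  out_sound (S := T5.ds_mm) T5.ok_mm (w := 21) (j := 4) (by decide +kernel)
theorem L06840 : Good (Phi V5.P V5.D (-1) (-1)) ⟨5, 29, 5, 21, 4, 14, 4, 11, 6, 4⟩ :=
  out_sound (S := T5.ds_mm) T5.ok_mm (w := 61) (j := 3) (by decide +kernel)
theorem L06841 : Good (Phi V5.P V5.D (-1) (-1)) ⟨4, 15, 5, 21, 4, 14, 4, 11, 6, 4⟩ :=
  out_sound (S := T5.ds_mm) T5.ok_mm (w := 55) (j := 3) (by decide +kernel)
theorem L06842 : Good (Phi V5.P V5.D (-1) (-1)) ⟨3, 6, 4, 11, 4, 14, 4, 11, 6, 4⟩ :=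
  out_sound (S := T5.ds_mm) T5.ok_mm (w := 47) (j := 3) (by decide +kernel)
theorem L06843 : Good (Phi V5.P V5.D (-1) (-1)) ⟨6, 56, 4, 11, 4, 14, 4, 11, 6, 4⟩ :=
  out_sound (S := T5.ds_mm) T5.ok_mm (w := 65) (j := 3) (by decide +kernel)
theorem L06844 : Good (Phi V5.P V5.D (-1) (-1)) ⟨7, 114, 5, 22, 4, 14, 4, 11, 6, 4⟩ :=
  out_sound (S := T5.ds_mm) T5.ok_mm (w := 73) (j := 3) (by decide +kernel)
theorem L06845 : Good (Phi V5.P V5.D (-1) (-1)) ⟨7, 115, 5, 22, 4, 14, 4, 11, 6, 4⟩ :=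
  out_sound (S := T5.ds_mm) T5.ok_mm (w := 21) (j := 4) (by decide +kernel)
theorem L06846 : Good (Phi V5.P V5.D (-1) (-1)) ⟨6, 57, 5, 23, 4, 14, 4, 11, 6, 4⟩ :=
  out_sound (S := T5.ds_mm) T5.ok_mm (w := 67) (j := 3) (by decide +kernel)
theorem L06847 : Good (Phi V5.P V5.D (-1) (-1)) ⟨5, 29, 4, 11, 4, 14, 4, 11, 6, 4⟩ :=
  out_sound (S := T5.ds_mm) T5.ok_mm (w := 17) (j := 4) (by decide +kernel)
theorem L06848 : Good (Phi V5.P V5.D (-1) (-1)) ⟨4, 15, 4, 11, 4, 14, 4, 11, 6, 4⟩ :=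
  out_sound (S := T5.ds_mm) T5.ok_mm (w := 53) (j := 3) (by decide +kernel)
theorem L06849 : Good (Phi V5.P V5.D (-1) (-1)) ⟨2, 2, 3, 5, 4, 14, 3, 5, 7, 10⟩ :=
  out_sound (S := T5.ds_mm) T5.ok_mm (w := 39) (j := 3) (by decide +kernel)
theorem L06850 : Good (Phi V5.P V5.D (-1) (-1)) ⟨3, 6, 3, 5, 4, 14, 3, 5, 7, 10⟩ :=
  out_sound (S := T5.ds_mm) T5.ok_mm (w := 45) (j := 3) (by decide +kernel)
theorem L06851 : Good (Phi V5.P V5.D (-1) (-1)) ⟨5, 28, 5, 20, 4, 14, 3, 5, 7, 10⟩ :=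
  leafX_sound T5.ok_mm T5.Ymm.bz_eq (w := 275) (c := ⟨⟨.negSucc 896, .negSucc 33, .ofNat 50, .ofNat 225, .negSucc 197, .negSucc 220⟩, ⟨.ofNat 568, .negSucc 9, .ofNat 6, .negSucc 145, .ofNat 128, .ofNat 142⟩, ⟨.ofNat 778, .negSucc 36, .ofNat 7, .negSucc 17, .negSucc 52, .ofNat 59⟩, ⟨.negSucc 2025, .negSucc 12, .ofNat 63, .ofNat 491, .negSucc 470, .negSucc 430⟩, ⟨.negSucc 1162, .ofNat 7, .ofNat 18, .ofNat 266, .negSucc 290, .negSucc 182⟩, .ofNat 3968, .ofNat 5601, .ofNat 0, .ofNat 5601, .ofNat 8683, .ofNat 0, .ofNat 128, .negSucc 1222, .negSucc 4964, .ofNat 0, .ofNat 794, .ofNat 3178, .ofNat 0, .ofNat 0, .ofNat 2950, .ofNat 4952, .ofNat 0, .ofNat 0, .ofNat 144983589904266069131901641646282770625969170415616, .ofNat 0, .ofNat 0, .ofNat 0, .ofNat 28277545949557415745696262095000018233963370078273536, .ofNat 0, .ofNat 0, .ofNat 0, .ofNat 0, .ofNat 0, .ofNat 0,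 .ofNat 0, .ofNat 92055888275531050435134070187276072652703832175804416, .ofNat 0⟩)
    (by decide +kernel)
theorem L06852 : Good (Phi V5.P V5.D (-1) (-1)) ⟨5, 29, 5, 20, 4, 14, 3, 5, 7, 10⟩ :=
  out_sound (S := T5.ds_mm) T5.ok_mm (w := 61) (j := 3) (by decide +kernel)
theorem L06853 : Good (Phi V5.P V5.D (-1) (-1)) ⟨4, 15, 5, 20, 4, 14, 3, 5, 7, 10⟩ :=
  out_sound (S := T5.ds_mm) T5.ok_mm (w := 55) (j := 3) (by decide +kernel)
theorem L06854 : Good (Phi V5.P V5.D (-1) (-1)) ⟨5, 28, 6, 42, 4, 14, 3, 5, 7, 10⟩ :=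
  leafX_sound T5.ok_mm T5.Ymm.bz_eq (w := 282) (c := ⟨⟨.negSucc 897, .negSucc 12, .ofNat 91, .ofNat 301, .negSucc 152, .negSucc 280⟩, ⟨.ofNat 612, .negSucc 37, .negSucc 40, .negSucc 199, .ofNat 103, .ofNat 187⟩, ⟨.ofNat 803, .negSucc 20, .negSucc 41, .negSucc 48, .negSucc 80, .ofNat 88⟩, ⟨.negSucc 1974, .ofNat 22, .ofNat 152, .ofNat 603, .negSucc 505, .negSucc 554⟩, ⟨.negSucc 1052, .ofNat 8, .ofNat 51, .ofNat 271, .negSucc 434, .negSucc 240⟩, .ofNat 7225, .ofNat 10455, .ofNat 0, .ofNat 10455, .ofNat 15909, .ofNat 0, .ofNat 128, .negSucc 1747, .negSucc 9548, .ofNat 0, .ofNat 1155, .ofNat 6275, .ofNat 0, .ofNat 0, .ofNat 5576, .ofNat 9347, .ofNat 0, .ofNat 0, .ofNat 352215305259423624086139354663519275384403744784384, .ofNat 0, .ofNat 0, .ofNat 0, .ofNat 186905650953510936102894060156683052089876266841276416, .ofNat 1884230743687977730410778784450145875662472436953354951091814400,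 .ofNat 0, .ofNat 0, .ofNat 192606530210517520781523432702345027811022774399401984, .ofNat 1308089322983989810183461364102631670570664899835109602723102720, .ofNat 0, .ofNat 0, .ofNat 650012170250071820741391344833974765043476637067247616, .ofNat 9368971225232999145748804063789851722522220300051493046538207232⟩)
    (by decide +kernel)
theorem L06855 : Good (Phi V5.P V5.D (-1) (-1)) ⟨6, 56, 6, 43, 4, 14, 3, 5, 7, 10⟩ :=
  out_sound (S := T5.ds_mm) T5.ok_mm (w := 69) (j := 3) (by decide +kernel)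
theorem L06856 : Good (Phi V5.P V5.D (-1) (-1)) ⟨8, 228, 6, 43, 4, 14, 3, 5, 7, 10⟩ :=
  out_sound (S := T5.ds_mm) T5.ok_mm (w := 81) (j := 3) (by decide +kernel)
theorem L06857 : Good (Phi V5.P V5.D (-1) (-1)) ⟨8, 229, 6, 43, 4, 14, 3, 5, 7, 10⟩ :=
  out_sound (S := T5.ds_mm) T5.ok_mm (w := 23) (j := 4) (by decide +kernel)
theorem L06858 : Good (Phi V5.P V5.D (-1) (-1)) ⟨7, 115, 6, 43, 4, 14, 3, 5, 7, 10⟩ :=
  out_sound (S := T5.ds_mm) T5.ok_mm (w := 21) (j := 4) (by decide +kernel)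
theorem L06859 : Good (Phi V5.P V5.D (-1) (-1)) ⟨5, 29, 5, 21, 4, 14, 3, 5, 7, 10⟩ :=
  out_sound (S := T5.ds_mm) T5.ok_mm (w := 61) (j := 3) (by decide +kernel)
theorem L06860 : Good (Phi V5.P V5.D (-1) (-1)) ⟨4, 15, 5, 21, 4, 14, 3, 5, 7, 10⟩ :=
  out_sound (S := T5.ds_mm) T5.ok_mm (w := 55) (j := 3) (by decide +kernel)
theorem L06861 : Good (Phi V5.P V5.D (-1) (-1)) ⟨6, 56, 4, 11, 4, 14, 3, 5, 7, 10⟩ :=
  out_sound (S := T5.ds_mm) T5.ok_mm (w := 65) (j := 3) (by decide +kernel)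
theorem L06862 : Good (Phi V5.P V5.D (-1) (-1)) ⟨7, 114, 5, 22, 4, 14, 3, 5, 7, 10⟩ :=
  out_sound (S := T5.ds_mm) T5.ok_mm (w := 73) (j := 3) (by decide +kernel)
theorem L06863 : Good (Phi V5.P V5.D (-1) (-1)) ⟨7, 115, 5, 22, 4, 14, 3, 5, 7, 10⟩ :=
  out_sound (S := T5.ds_mm) T5.ok_mm (w := 21) (j := 4) (by decide +kernel)
theorem L06864 : Good (Phi V5.P V5.D (-1) (-1)) ⟨6, 57, 5, 23, 4, 14, 3, 5, 7, 10⟩ :=
  out_sound (S := T5.ds_mm) T5.ok_mm (w := 67) (j := 3) (by decide +kernel)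
theorem L06865 : Good (Phi V5.P V5.D (-1) (-1)) ⟨5, 29, 4, 11, 4, 14, 3, 5, 7, 10⟩ :=
  out_sound (S := T5.ds_mm) T5.ok_mm (w := 17) (j := 4) (by decide +kernel)
theorem L06866 : Good (Phi V5.P V5.D (-1) (-1)) ⟨4, 15, 4, 11, 4, 14, 3, 5, 7, 10⟩ :=
  out_sound (S := T5.ds_mm) T5.ok_mm (w := 53) (j := 3) (by decide +kernel)
theorem L06867 : Good (Phi V5.P V5.D (-1) (-1)) ⟨2, 2, 3, 5, 4, 14, 3, 5, 7, 11⟩ :=
  out_sound (S := T5.ds_mm) T5.ok_mm (w := 39) (j := 3) (by decide +kernel)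
theorem L06868 : Good (Phi V5.P V5.D (-1) (-1)) ⟨3, 6, 3, 5, 4, 14, 3, 5, 7, 11⟩ :=
  out_sound (S := T5.ds_mm) T5.ok_mm (w := 45) (j := 3) (by decide +kernel)
theorem L06869 : Good (Phi V5.P V5.D (-1) (-1)) ⟨5, 28, 5, 20, 4, 14, 3, 5, 7, 11⟩ :=
  leafX_sound T5.ok_mm T5.Ymm.bz_eq (w := 276) (c := ⟨⟨.negSucc 1386, .negSucc 51, .ofNat 40, .ofNat 411, .ofNat 91, .negSucc 165⟩, ⟨.ofNat 886, .negSucc 20, .ofNat 24, .negSucc 264, .negSucc 59, .ofNat 108⟩, ⟨.ofNat 991, .negSucc 23, .ofNat 7, .negSucc 129, .negSucc 199, .ofNat 32⟩, ⟨.negSucc 2860, .negSucc 14, .ofNat 48, .ofNat 724, .ofNat 25, .negSucc 372⟩, ⟨.negSucc 1373, .ofNat 10, .ofNat 26, .ofNat 220, .negSucc 157, .negSucc 213⟩, .ofNat 5198, .ofNat 7554, .ofNat 0, .ofNat 7554, .ofNat 11786, .ofNat 0, .ofNat 128, .negSucc 979, .negSucc 4184, .ofNat 0, .ofNat 633, .ofNat 2676, .ofNat 0, .ofNat 0, .ofNat 2584,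 .ofNat 5204, .ofNat 0, .ofNat 0, .ofNat 72347332994590481735359972972611488100758698590208, .ofNat 0, .ofNat 0, .ofNat 0, .ofNat 55905628824995968540443346635115391108221096958099456, .ofNat 0, .ofNat 0, .ofNat 0, .ofNat 3971549610175024974194875256983790096706931594887168, .ofNat 84079113218592395972591449439501428070833726828953387373953024, .ofNat 0, .ofNat 0, .ofNat 64162271227227052079790345545575416568259430833979392, .ofNat 357431271978312820857742327523340289434497429625058287641690112⟩)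
    (by decide +kernel)
theorem L06870 : Good (Phi V5.P V5.D (-1) (-1)) ⟨6, 56, 5, 21, 4, 14, 3, 5, 7, 11⟩ :=
  leafX_sound T5.ok_mm T5.Ymm.bz_eq (w := 289) (c := ⟨⟨.negSucc 1371, .negSucc 0, .ofNat 14, .ofNat 432, .ofNat 97, .negSucc 172⟩, ⟨.ofNat 902, .ofNat 0, .ofNat 42, .negSucc 283, .negSucc 63, .ofNat 114⟩, ⟨.ofNat 984, .ofNat 0, .ofNat 6, .negSucc 133, .negSucc 205, .ofNat 33⟩, ⟨.negSucc 2825, .negSucc 0, .negSucc 1, .ofNat 475, .ofNat 98, .negSucc 187⟩, ⟨.negSucc 1355, .negSucc 0, .ofNat 2, .negSucc 193, .negSucc 57, .ofNat 81⟩, .ofNat 23251, .ofNat 34645, .ofNat 0, .ofNat 34645, .ofNat 52433, .ofNat 0, .ofNat 128, .negSucc 5036, .negSucc 23599, .ofNat 0, .ofNat 3331, .ofNat 15563, .ofNat 0, .ofNat 0, .ofNat 14558, .ofNat 28020, .ofNat 0, .ofNat 0, .ofNat 0, .ofNat 0, .ofNat 0, .ofNat 0, .ofNat 466526954353127697555264405689182629487454942849400832,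 .ofNat 0, .ofNat 0, .ofNat 0, .ofNat 1036564601837615192881481549638103500244605738214752256, .ofNat 0, .ofNat 0, .ofNat 0, .ofNat 0, .ofNat 0⟩)
    (by decide +kernel)
theorem L06871 : Good (Phi V5.P V5.D (-1) (-1)) ⟨7, 114, 6, 42, 4, 14, 3, 5, 7, 11⟩ :=
  leafX_sound T5.ok_mm T5.Ymm.bz_eq (w := 293) (c := ⟨⟨.negSucc 1415, .negSucc 16, .negSucc 14, .ofNat 481, .ofNat 115, .negSucc 159⟩, ⟨.ofNat 932, .negSucc 6, .ofNat 37, .negSucc 318, .negSucc 75, .ofNat 106⟩, ⟨.ofNat 1007, .negSucc 5, .ofNat 26, .negSucc 156, .negSucc 218, .ofNat 26⟩, ⟨.negSucc 2825, .negSucc 1, .negSucc 8, .ofNat 585, .ofNat 49, .negSucc 234⟩, ⟨.negSucc 1264, .ofNat 18, .ofNat 37, .negSucc 129, .negSucc 168, .negSucc 17⟩, .ofNat 19796, .ofNat 29268, .ofNat 0, .ofNat 29268, .ofNat 44067, .ofNat 0, .ofNat 128, .negSucc 2222, .negSucc 10852, .ofNat 0, .ofNat 1479, .ofNat 7205, .ofNat 0, .ofNat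 0, .ofNat 6511, .ofNat 10184, .ofNat 0, .ofNat 0, .ofNat 77498705135736112115835885137173093464478511529984, .ofNat 0, .ofNat 0, .ofNat 0, .ofNat 1237392593427957801729249127376070748944464932828610560, .ofNat 0, .ofNat 0, .ofNat 0, .ofNat 0, .ofNat 0, .ofNat 0, .ofNat 0, .ofNat 0, .ofNat 0⟩)
    (by decide +kernel)
theorem L06872 : Good (Phi V5.P V5.D (-1) (-1)) ⟨8, 228, 6, 43, 4, 14, 3, 5, 7, 11⟩ :=
  out_sound (S := T5.ds_mm) T5.ok_mm (w := 81) (j := 3) (by decide +kernel)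
theorem L06873 : Good (Phi V5.P V5.D (-1) (-1)) ⟨8, 229, 6, 43, 4, 14, 3, 5, 7, 11⟩ :=
  out_sound (S := T5.ds_mm) T5.ok_mm (w := 23) (j := 4) (by decide +kernel)
theorem L06874 : Good (Phi V5.P V5.D (-1) (-1)) ⟨7, 115, 5, 21, 4, 14, 3, 5, 7, 11⟩ :=
  out_sound (S := T5.ds_mm) T5.ok_mm (w := 21) (j := 4) (by decide +kernel)
theorem L06875 : Good (Phi V5.P V5.D (-1) (-1)) ⟨5, 29, 4, 10, 4, 14, 3, 5, 7, 11⟩ :=
  out_sound (S := T5.ds_mm) T5.ok_mm (w := 59) (j := 3) (by decide +kernel)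
theorem L06876 : Good (Phi V5.P V5.D (-1) (-1)) ⟨6, 56, 4, 11, 4, 14, 3, 5, 7, 11⟩ :=
  out_sound (S := T5.ds_mm) T5.ok_mm (w := 65) (j := 3) (by decide +kernel)
theorem L06877 : Good (Phi V5.P V5.D (-1) (-1)) ⟨7, 114, 5, 22, 4, 14, 3, 5, 7, 11⟩ :=
  out_sound (S := T5.ds_mm) T5.ok_mm (w := 73) (j := 3) (by decide +kernel)
theorem L06878 : Good (Phi V5.P V5.D (-1) (-1)) ⟨7, 115, 5, 22, 4, 14, 3, 5, 7, 11⟩ :=
  out_sound (S := T5.ds_mm) T5.ok_mm (w := 21) (j := 4) (by decide +kernel)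
theorem L06879 : Good (Phi V5.P V5.D (-1) (-1)) ⟨6, 57, 5, 23, 4, 14, 3, 5, 7, 11⟩ :=
  out_sound (S := T5.ds_mm) T5.ok_mm (w := 67) (j := 3) (by decide +kernel)
theorem L06880 : Good (Phi V5.P V5.D (-1) (-1)) ⟨5, 29, 4, 11, 4, 14, 3, 5, 7, 11⟩ :=
  out_sound (S := T5.ds_mm) T5.ok_mm (w := 17) (j := 4) (by decide +kernel)
theorem L06881 : Good (Phi V5.P V5.D (-1) (-1)) ⟨4, 15, 3, 5, 4, 14, 3, 5, 7, 11⟩ :=
  out_sound (S := T5.ds_mm) T5.ok_mm (w := 51) (j := 3) (by decide +kernel)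
theorem L06882 : Good (Phi V5.P V5.D (-1) (-1)) ⟨2, 2, 5, 20, 4, 15, 4, 10, 5, 2⟩ :=
  out_sound (S := T5.ds_mm) T5.ok_mm (w := 43) (j := 3) (by decide +kernel)
theorem L06883 : Good (Phi V5.P V5.D (-1) (-1)) ⟨3, 6, 5, 20, 4, 15, 4, 10, 5, 2⟩ :=
  out_sound (S := T5.ds_mm) T5.ok_mm (w := 49) (j := 3) (by decide +kernel)
theorem L06884 : Good (Phi V5.P V5.D (-1) (-1)) ⟨7, 112, 5, 20, 4, 15, 4, 10, 5, 2⟩ :=
  leafX_sound T5.ok_mm T5.Ymm.bz_eq (w := 279) (c := ⟨⟨.negSucc 264, .negSucc 181, .negSucc 78, .negSucc 359, .ofNat 38, .negSucc 608⟩, ⟨.ofNat 172, .ofNat 103, .ofNat 90, .ofNat 231, .negSucc 23, .ofNat 384⟩, ⟨.ofNat 690, .ofNat 79, .ofNat 79, .ofNat 312, .negSucc 113, .ofNat 70⟩, ⟨.negSucc 536, .negSucc 317, .negSucc 134, .negSucc 867, .negSucc 89, .negSucc 1319⟩, ⟨.negSucc 245, .negSucc 106, .negSucc 13, .negSucc 545, .negSucc 218, .negSucc 705⟩, .ofNat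 4598, .ofNat 6701, .ofNat 0, .ofNat 6701, .ofNat 10593, .ofNat 0, .ofNat 128, .negSucc 2108, .negSucc 7955, .ofNat 0, .ofNat 1337, .ofNat 4982, .ofNat 0, .ofNat 0, .ofNat 4611, .ofNat 14609, .ofNat 0, .ofNat 0, .ofNat 0, .ofNat 0, .ofNat 0, .ofNat 0, .ofNat 580952429139867898807164855096683752024858433683456, .ofNat 0, .ofNat 0, .ofNat 0, .ofNat 370350398795422107727939814543346785247246818476032, .ofNat 0, .ofNat 0, .ofNat 0, .ofNat 3769443225334799715379160201263301513844859229700096, .ofNat 0⟩)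
    (by decide +kernel)
theorem L06885 : Good (Phi V5.P V5.D (-1) (-1)) ⟨7, 113, 6, 40, 4, 15, 4, 10, 5, 2⟩ :=
  leafX_sound T5.ok_mm T5.Ymm.bz_eq (w := 283) (c := ⟨⟨.negSucc 503, .negSucc 259, .ofNat 148, .negSucc 366, .ofNat 78, .negSucc 557⟩, ⟨.ofNat 311, .ofNat 157, .negSucc 75, .ofNat 236, .negSucc 49, .ofNat 355⟩, ⟨.ofNat 798, .ofNat 117, .negSucc 50, .ofNat 317, .negSucc 134, .ofNat 42⟩, ⟨.negSucc 1026, .negSucc 298, .ofNat 100, .negSucc 803, .negSucc 43, .negSucc 996⟩, ⟨.negSucc 492, .ofNat 62, .negSucc 138, .negSucc 436, .negSucc 234, .negSucc 323⟩, .ofNat 8577, .ofNat 12743, .ofNat 0, .ofNat 12743, .ofNat 19765, .ofNat 0, .ofNat 128, .negSucc 1391, .negSucc 5849, .ofNat 0, .ofNat 896, .ofNat 3739, .ofNat 0, .ofNat 0, .ofNat 3400, .ofNat 8312, .ofNat 0, .ofNat 0, .ofNat 0, .ofNat 0, .ofNat 0, .ofNat 0, .ofNat 3855398250632641645840542557509386936850785849311232,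 .ofNat 0, .ofNat 0, .ofNat 0, .ofNat 0, .ofNat 0, .ofNat 0, .ofNat 0, .ofNat 0, .ofNat 0⟩)
    (by decide +kernel)
theorem L06886 : Good (Phi V5.P V5.D (-1) (-1)) ⟨7, 113, 6, 41, 4, 15, 4, 10, 5, 2⟩ :=
  leafX_sound T5.ok_mm T5.Ymm.bz_eq (w := 284) (c := ⟨⟨.negSucc 338, .ofNat 43, .ofNat 113, .negSucc 440, .negSucc 32, .negSucc 708⟩, ⟨.ofNat 221, .negSucc 45, .negSucc 49, .ofNat 291, .ofNat 22, .ofNat 458⟩, ⟨.ofNat 729, .negSucc 9, .negSucc 42, .ofNat 362, .negSucc 83, .ofNat 109⟩, ⟨.negSucc 701, .ofNat 55, .ofNat 56, .negSucc 1081, .negSucc 265, .negSucc 1197⟩, ⟨.negSucc 338, .negSucc 24, .negSucc 138, .negSucc 693, .negSucc 328, .negSucc 304⟩, .ofNat 8447, .ofNat 12430, .ofNat 0, .ofNat 12430, .ofNat 19100, .ofNat 0, .ofNat 128, .negSucc 2249, .negSucc 9388, .ofNat 0, .ofNat 1465, .ofNat 6076, .ofNat 0, .ofNat 0, .ofNat 5260, .ofNat 10533, .ofNat 0, .ofNat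 0, .ofNat 1938264586480096006755990129392562003686935494656, .ofNat 0, .ofNat 0, .ofNat 0, .ofNat 809571708361762264028928561326989981266174512463872, .ofNat 0, .ofNat 0, .ofNat 0, .ofNat 0, .ofNat 0, .ofNat 0, .ofNat 0, .ofNat 0, .ofNat 0⟩)
    (by decide +kernel)
theorem L06887 : Good (Phi V5.P V5.D (-1) (-1)) ⟨6, 57, 5, 20, 4, 15, 4, 10, 5, 2⟩ :=
  leafX_sound T5.ok_mm T5.Ymm.bz_eq (w := 284) (c := ⟨⟨.negSucc 116, .ofNat 0, .negSucc 10, .negSucc 714, .ofNat 50, .negSucc 713⟩, ⟨.ofNat 60, .ofNat 0, .ofNat 24, .ofNat 471, .negSucc 32, .ofNat 469⟩, ⟨.ofNat 640, .ofNat 0, .ofNat 6, .ofNat 499, .negSucc 126, .ofNat 109⟩, ⟨.negSucc 945, .ofNat 1, .negSucc 1, .negSucc 762, .negSucc 42, .negSucc 786⟩, ⟨.negSucc 1153, .ofNat 0, .ofNat 0, .ofNat 350, .negSucc 161, .ofNat 319⟩, .ofNat 26851, .ofNat 40068, .ofNat 0, .ofNat 40068, .ofNat 60601, .ofNat 0, .ofNat 128,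 .negSucc 6446, .negSucc 27470, .ofNat 0, .ofNat 4255, .ofNat 18085, .ofNat 0, .ofNat 0, .ofNat 15424, .ofNat 60142, .ofNat 0, .ofNat 0, .ofNat 3595453610187282831994813175324096555941885902848, .ofNat 0, .ofNat 0, .ofNat 0, .ofNat 2557781971470431513985768537414622320536244829588291584, .ofNat 0, .ofNat 0, .ofNat 0, .ofNat 242864624879747191327521626567796155263789092833329152, .ofNat 0, .ofNat 0, .ofNat 0, .ofNat 55480380380093852663855884882668724102985284667310080, .ofNat 0⟩)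
    (by decide +kernel)
theorem L06888 : Good (Phi V5.P V5.D (-1) (-1)) ⟨5, 29, 5, 20, 4, 15, 4, 10, 5, 2⟩ :=
  out_sound (S := T5.ds_mm) T5.ok_mm (w := 61) (j := 3) (by decide +kernel)
theorem L06889 : Good (Phi V5.P V5.D (-1) (-1)) ⟨4, 15, 5, 20, 4, 15, 4, 10, 5, 2⟩ :=
  out_sound (S := T5.ds_mm) T5.ok_mm (w := 55) (j := 3) (by decide +kernel)
theorem L06890 : Good (Phi V5.P V5.D (-1) (-1)) ⟨2, 2, 5, 21, 4, 15, 4, 10, 5, 2⟩ :=
  out_sound (S := T5.ds_mm) T5.ok_mm (w := 43) (j := 3) (by decide +kernel)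
theorem L06891 : Good (Phi V5.P V5.D (-1) (-1)) ⟨3, 6, 5, 21, 4, 15, 4, 10, 5, 2⟩ :=
  out_sound (S := T5.ds_mm) T5.ok_mm (w := 49) (j := 3) (by decide +kernel)
theorem L06892 : Good (Phi V5.P V5.D (-1) (-1)) ⟨6, 56, 6, 42, 4, 15, 4, 10, 6, 4⟩ :=
  leafX_sound T5.ok_mm T5.Ymm.bz_eq (w := 290) (c := ⟨⟨.ofNat 139, .ofNat 0, .ofNat 17, .negSucc 883, .negSucc 297, .negSucc 526⟩, ⟨.negSucc 90, .ofNat 0, .ofNat 1, .ofNat 582, .ofNat 195, .ofNat 346⟩, ⟨.ofNat 516, .ofNat 0, .negSucc 19, .ofNat 580, .ofNat 37, .ofNat 135⟩, ⟨.negSucc 544, .negSucc 0, .ofNat 11, .negSucc 1037, .negSucc 370, .negSucc 614⟩, ⟨.negSucc 1110, .ofNat 0, .negSucc 3, .ofNat 302, .ofNat 69, .ofNat 184⟩, .ofNat 23154, .ofNat 34500, .ofNat 0, .ofNat 34500, .ofNat 52215, .ofNat 0, .ofNat 128, .negSucc 4053, .negSucc 19112, .ofNat 0, .ofNat 2676, .ofNat 12582, .ofNat 0, .ofNat 0, .ofNat 10445, .ofNat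 43693, .ofNat 0, .ofNat 0, .ofNat 0, .ofNat 0, .ofNat 0, .ofNat 0, .ofNat 743539696183001641947362906081679353103775116638027776, .ofNat 0, .ofNat 0, .ofNat 0, .ofNat 1899276210432565752425011533659711009039943550524981248, .ofNat 0, .ofNat 0, .ofNat 0, .ofNat 7620387432608909271476925223341634212766937025263697920, .ofNat 0⟩)
    (by decide +kernel)
theorem L06893 : Good (Phi V5.P V5.D (-1) (-1)) ⟨7, 114, 6, 42, 4, 15, 4, 10, 6, 4⟩ :=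
  leafX_sound T5.ok_mm T5.Ymm.bz_eq (w := 291) (c := ⟨⟨.ofNat 107, .ofNat 0, .ofNat 20, .negSucc 849, .negSucc 247, .negSucc 494⟩, ⟨.negSucc 75, .negSucc 9, .ofNat 1, .ofNat 566, .ofNat 165, .ofNat 328⟩, ⟨.ofNat 529, .ofNat 21, .ofNat 1, .ofNat 569, .ofNat 13, .ofNat 118⟩, ⟨.negSucc 35, .ofNat 39, .ofNat 78, .negSucc 1611, .negSucc 552, .negSucc 896⟩, ⟨.negSucc 278, .ofNat 47, .ofNat 87, .negSucc 629, .negSucc 307, .negSucc 306⟩, .ofNat 12201, .ofNat 17813, .ofNat 0, .ofNat 17813, .ofNat 26788, .ofNat 0, .ofNat 128, .negSucc 2212, .negSucc 10601, .ofNat 0, .ofNat 1469, .ofNat 7012, .ofNat 0, .ofNat 0, .ofNat 5545, .ofNat 6575, .ofNat 0, .ofNat 0, .ofNat 23891524306522016049175834028166925410548951547904, .ofNat 0, .ofNat 0, .ofNat 0, .ofNat 373386861005293176063065267541641795482151797215199232, .ofNat 0, .ofNat 0, .ofNat 0, .ofNat 0, .ofNat 0, .ofNat 0, .ofNat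 0, .ofNat 0, .ofNat 0⟩)
    (by decide +kernel)
theorem L06894 : Good (Phi V5.P V5.D (-1) (-1)) ⟨7, 115, 6, 42, 4, 15, 4, 10, 6, 4⟩ :=
  out_sound (S := T5.ds_mm) T5.ok_mm (w := 75) (j := 3) (by decide +kernel)
theorem L06895 : Good (Phi V5.P V5.D (-1) (-1)) ⟨6, 56, 6, 42, 4, 15, 4, 10, 6, 5⟩ :=
  leafX_sound T5.ok_mm T5.Ymm.bz_eq (w := 291) (c := ⟨⟨.negSucc 901, .ofNat 0, .ofNat 180, .negSucc 312, .ofNat 176, .negSucc 97⟩, ⟨.ofNat 593, .ofNat 0, .negSucc 98, .ofNat 206, .negSucc 115, .ofNat 64⟩, ⟨.ofNat 905, .ofNat 0, .negSucc 92, .ofNat 300, .negSucc 181, .negSucc 63⟩, ⟨.negSucc 2055, .negSucc 0, .ofNat 91, .negSucc 389, .ofNat 179, .negSucc 97⟩, ⟨.negSucc 1192, .negSucc 0, .negSucc 47, .ofNat 73, .negSucc 102, .ofNat 58⟩, .ofNat 23168, .ofNat 34520, .ofNat 0, .ofNat 34520, .ofNat 52246, .ofNat 0, .ofNat 128, .negSucc 5339, .negSucc 26867, .ofNat 0, .ofNat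 3526, .ofNat 17688, .ofNat 0, .ofNat 0, .ofNat 15214, .ofNat 46233, .ofNat 0, .ofNat 0, .ofNat 0, .ofNat 0, .ofNat 0, .ofNat 0, .ofNat 1157323588973233661318546836808137666041400976912416768, .ofNat 0, .ofNat 0, .ofNat 0, .ofNat 1308539584916384026550754300982242809955312067680403456, .ofNat 0, .ofNat 0, .ofNat 0, .ofNat 0, .ofNat 0⟩)
    (by decide +kernel)
theorem L06896 : Good (Phi V5.P V5.D (-1) (-1)) ⟨7, 114, 6, 42, 4, 15, 4, 10, 6, 5⟩ :=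
  leafX_sound T5.ok_mm T5.Ymm.bz_eq (w := 290) (c := ⟨⟨.negSucc 914, .negSucc 53, .ofNat 41, .negSucc 292, .ofNat 150, .negSucc 116⟩, ⟨.ofNat 599, .ofNat 30, .negSucc 7, .ofNat 197, .negSucc 98, .ofNat 77⟩, ⟨.ofNat 911, .ofNat 43, .negSucc 10, .ofNat 290, .negSucc 168, .negSucc 54⟩, ⟨.negSucc 1876, .negSucc 14, .ofNat 24, .negSucc 702, .ofNat 93, .negSucc 220⟩, ⟨.negSucc 895, .ofNat 12, .negSucc 0, .negSucc 433, .negSucc 174, .negSucc 85⟩, .ofNat 12201, .ofNat 17813, .ofNat 0, .ofNat 17813, .ofNat 26788, .ofNat 0, .ofNat 128, .negSucc 1683, .negSucc 8535, .ofNat 0, .ofNat 1119, .ofNat 5647, .ofNat 0, .ofNat 0, .ofNat 4674, .ofNat 13595, .ofNat 0, .ofNat 0, .ofNat 0, .ofNat 0, .ofNat 0, .ofNat 0, .ofNat 387993065257256361343173869332226959775188828207185920, .ofNat 0, .ofNat 0, .ofNat 0, .ofNat 751821543475888707230283464728044738894157825703936, .ofNat 31315512493988610801208415168575299624487695661863065362527944704,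 .ofNat 0, .ofNat 0, .ofNat 0, .ofNat 0⟩)
    (by decide +kernel)
theorem L06897 : Good (Phi V5.P V5.D (-1) (-1)) ⟨7, 115, 6, 42, 4, 15, 4, 10, 6, 5⟩ :=
  out_sound (S := T5.ds_mm) T5.ok_mm (w := 75) (j := 3) (by decide +kernel)
theorem L06898 : Good (Phi V5.P V5.D (-1) (-1)) ⟨6, 56, 6, 43, 4, 15, 4, 10, 5, 2⟩ :=
  out_sound (S := T5.ds_mm) T5.ok_mm (w := 69) (j := 3) (by decide +kernel)
theorem L06899 : Good (Phi V5.P V5.D (-1) (-1)) ⟨8, 228, 6, 43, 4, 15, 4, 10, 5, 2⟩ :=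
  out_sound (S := T5.ds_mm) T5.ok_mm (w := 81) (j := 3) (by decide +kernel)
theorem L06900 : Good (Phi V5.P V5.D (-1) (-1)) ⟨8, 229, 6, 43, 4, 15, 4, 10, 5, 2⟩ :=
  out_sound (S := T5.ds_mm) T5.ok_mm (w := 23) (j := 4) (by decide +kernel)
theorem L06901 : Good (Phi V5.P V5.D (-1) (-1)) ⟨7, 115, 6, 43, 4, 15, 4, 10, 5, 2⟩ :=
  out_sound (S := T5.ds_mm) T5.ok_mm (w := 21) (j := 4) (by decide +kernel)
theorem L06902 : Good (Phi V5.P V5.D (-1) (-1)) ⟨5, 29, 5, 21, 4, 15, 4, 10, 5, 2⟩ :=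
  out_sound (S := T5.ds_mm) T5.ok_mm (w := 61) (j := 3) (by decide +kernel)
theorem L06903 : Good (Phi V5.P V5.D (-1) (-1)) ⟨4, 15, 5, 21, 4, 15, 4, 10, 5, 2⟩ :=
  out_sound (S := T5.ds_mm) T5.ok_mm (w := 55) (j := 3) (by decide +kernel)
theorem L06904 : Good (Phi V5.P V5.D (-1) (-1)) ⟨2, 2, 4, 11, 4, 15, 4, 10, 5, 2⟩ :=
  out_sound (S := T5.ds_mm) T5.ok_mm (w := 41) (j := 3) (by decide +kernel)
theorem L06905 : Good (Phi V5.P V5.D (-1) (-1)) ⟨3, 6, 4, 11, 4, 15, 4, 10, 5, 2⟩ :=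
  out_sound (S := T5.ds_mm) T5.ok_mm (w := 47) (j := 3) (by decide +kernel)
theorem L06906 : Good (Phi V5.P V5.D (-1) (-1)) ⟨6, 56, 4, 11, 4, 15, 4, 10, 5, 2⟩ :=
  out_sound (S := T5.ds_mm) T5.ok_mm (w := 65) (j := 3) (by decide +kernel)
theorem L06907 : Good (Phi V5.P V5.D (-1) (-1)) ⟨7, 114, 5, 22, 4, 15, 4, 10, 5, 2⟩ :=
  out_sound (S := T5.ds_mm) T5.ok_mm (w := 73) (j := 3) (by decide +kernel)
theorem L06908 : Good (Phi V5.P V5.D (-1) (-1)) ⟨7, 115, 5, 22, 4, 15, 4, 10, 5, 2⟩ :=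
  out_sound (S := T5.ds_mm) T5.ok_mm (w := 21) (j := 4) (by decide +kernel)
theorem L06909 : Good (Phi V5.P V5.D (-1) (-1)) ⟨6, 57, 5, 23, 4, 15, 4, 10, 5, 2⟩ :=
  out_sound (S := T5.ds_mm) T5.ok_mm (w := 67) (j := 3) (by decide +kernel)
theorem L06910 : Good (Phi V5.P V5.D (-1) (-1)) ⟨5, 29, 4, 11, 4, 15, 4, 10, 5, 2⟩ :=
  out_sound (S := T5.ds_mm) T5.ok_mm (w := 17) (j := 4) (by decide +kernel)
theorem L06911 : Good (Phi V5.P V5.D (-1) (-1)) ⟨4, 15, 4, 11, 4, 15, 4, 10, 5, 2⟩ :=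
  out_sound (S := T5.ds_mm) T5.ok_mm (w := 53) (j := 3) (by decide +kernel)
theorem L06912 : Good (Phi V5.P V5.D (-1) (-1)) ⟨2, 2, 5, 20, 4, 15, 4, 11, 5, 2⟩ :=
  out_sound (S := T5.ds_mm) T5.ok_mm (w := 43) (j := 3) (by decide +kernel)
theorem L06913 : Good (Phi V5.P V5.D (-1) (-1)) ⟨3, 6, 5, 20, 4, 15, 4, 11, 5, 2⟩ :=
  out_sound (S := T5.ds_mm) T5.ok_mm (w := 49) (j := 3) (by decide +kernel)

end Crest.Agent.R097C5.N5mm
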