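import Crest.Agent.R097.KP7
import Crest.Agent.R097.T5Ymm

/-!
# Row 97, box cover in dimension n = 5 (generated)
-/

set_option autoImplicit false
set_option Elab.async false
set_option maxHeartbeats 0
set_option maxRecDepth 100000

open Crest.Agent.R097 Crest.Agent.R097.KA


namespace Crest.Agent.R097C5.N5mm

theorem L06914 : Good (Phi V5.P V5.D (-1) (-1)) ⟨6, 56, 5, 20, 4, 15, 4, 11, 6, 4⟩ :=
  leafX_sound T5.ok_mm T5.Ymm.bz_eq (w := 279) (c := ⟨⟨.negSucc 652, .negSucc 4, .ofNat 32, .negSucc 468, .negSucc 93, .ofNat 30⟩, ⟨.ofNat 405, .negSucc 6, .ofNat 15, .ofNat 307, .ofNat 61, .negSucc 17⟩, ⟨.ofNat 812, .negSucc 72, .ofNat 55, .ofNat 345, .negSucc 68, .negSucc 118⟩, ⟨.negSucc 1260, .negSucc 13, .ofNat 15, .negSucc 1137, .negSucc 307, .negSucc 83⟩, ⟨.negSucc 525, .negSucc 24, .negSucc 19, .negSucc 722, .negSucc 264, .negSucc 190⟩, .ofNat 5271, .ofNat 7655, .ofNat 0, .ofNat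 7655, .ofNat 11922, .ofNat 0, .ofNat 128, .negSucc 1257, .negSucc 4805, .ofNat 0, .ofNat 808, .ofNat 3061, .ofNat 0, .ofNat 0, .ofNat 2589, .ofNat 3782, .ofNat 0, .ofNat 0, .ofNat 10154024870483615845025077960219690228825144164352, .ofNat 0, .ofNat 0, .ofNat 0, .ofNat 23307764165171799156923095629330529179975891669745664, .ofNat 0, .ofNat 0, .ofNat 0, .ofNat 0, .ofNat 0, .ofNat 0, .ofNat 0, .ofNat 0, .ofNat 0⟩)
    (by decide +kernel)
theorem L06915 : Good (Phi V5.P V5.D (-1) (-1)) ⟨6, 57, 5, 20, 4, 15, 4, 11, 6, 4⟩ :=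
  leafX_sound T5.ok_mm T5.Ymm.bz_eq (w := 288) (c := ⟨⟨.negSucc 485, .ofNat 0, .ofNat 16, .negSucc 683, .negSucc 119, .negSucc 2⟩, ⟨.ofNat 301, .ofNat 0, .ofNat 7, .ofNat 450, .ofNat 78, .ofNat 2⟩, ⟨.ofNat 723, .ofNat 0, .negSucc 5, .ofNat 450, .negSucc 55, .negSucc 106⟩, ⟨.negSucc 1502, .ofNat 1, .ofNat 0, .negSucc 745, .negSucc 164, .negSucc 28⟩, ⟨.negSucc 1267, .ofNat 1, .negSucc 0, .ofNat 318, .ofNat 4, .negSucc 35⟩, .ofNat 26841, .ofNat 40052, .ofNat 0, .ofNat 40052, .ofNat 60578, .ofNat 0, .ofNat 128, .negSucc 4498, .negSucc 23528, .ofNat 0, .ofNat 2968, .ofNat 15487, .ofNat 0, .ofNat 0, .ofNat 12676, .ofNat 66586, .ofNat 0, .ofNat 0, .ofNat 133354216190443190043096617536288620375885719011328, .ofNat 0, .ofNat 0, .ofNat 0, .ofNat 82249775683785998054343713736411872297841622024827437056, .ofNat 0, .ofNat 0, .ofNat 0, .ofNat 20157672468854710649298698040567624981140872206728822784,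 .ofNat 0, .ofNat 0, .ofNat 0, .ofNat 6210086522138464918560028519068050723578194135225466880, .ofNat 0⟩)
    (by decide +kernel)
theorem L06916 : Good (Phi V5.P V5.D (-1) (-1)) ⟨6, 56, 5, 20, 4, 15, 4, 11, 6, 5⟩ :=
  leafX_sound T5.ok_mm T5.Ymm.bz_eq (w := 278) (c := ⟨⟨.negSucc 1034, .negSucc 63, .ofNat 132, .negSucc 70, .ofNat 234, .ofNat 55⟩, ⟨.ofNat 664, .ofNat 12, .negSucc 39, .ofNat 47, .negSucc 149, .negSucc 36⟩, ⟨.ofNat 860, .ofNat 13, .negSucc 23, .ofNat 160, .negSucc 202, .negSucc 126⟩, ⟨.negSucc 2280, .negSucc 51, .ofNat 127, .negSucc 130, .ofNat 363, .ofNat 173⟩, ⟨.negSucc 1243, .ofNat 12, .negSucc 47, .negSucc 42, .ofNat 51, .ofNat 145⟩, .ofNat 5197, .ofNat 7548, .ofNat 0, .ofNat 7548, .ofNat 11769, .ofNat 0, .ofNat 128, .negSucc 1343, .negSucc 3197, .ofNat 0, .ofNat 864, .ofNat 2034, .ofNat 0, .ofNat 0, .ofNat 1793, .ofNat 5619, .ofNat 0, .ofNat 0, .ofNat 0,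 .ofNat 0, .ofNat 0, .ofNat 0, .ofNat 0, .ofNat 0, .ofNat 0, .ofNat 0, .ofNat 0, .ofNat 0, .ofNat 0, .ofNat 0, .ofNat 0, .ofNat 0⟩)
    (by decide +kernel)
theorem L06917 : Good (Phi V5.P V5.D (-1) (-1)) ⟨6, 57, 5, 20, 4, 15, 4, 11, 6, 5⟩ :=
  leafX_sound T5.ok_mm T5.Ymm.bz_eq (w := 288) (c := ⟨⟨.negSucc 1055, .ofNat 0, .ofNat 4, .negSucc 31, .ofNat 229, .ofNat 119⟩, ⟨.ofNat 681, .ofNat 0, .ofNat 10, .ofNat 21, .negSucc 150, .negSucc 77⟩, ⟨.ofNat 886, .ofNat 0, .negSucc 2, .ofNat 152, .negSucc 202, .negSucc 153⟩, ⟨.negSucc 2229, .ofNat 1, .negSucc 0, .negSucc 57, .ofNat 271, .ofNat 153⟩, ⟨.negSucc 1135, .ofNat 1, .negSucc 0, .negSucc 20, .negSucc 74, .negSucc 19⟩, .ofNat 21714, .ofNat 32329, .ofNat 0, .ofNat 32329, .ofNat 48945, .ofNat 0, .ofNat 128, .negSucc 6278, .negSucc 22179, .ofNat 0, .ofNat 4143, .ofNat 14594, .ofNat 0, .ofNat 0, .ofNat 12484, .ofNat 106171, .ofNat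 0, .ofNat 0, .ofNat 113901398567964450715900672191828855960810695950336, .ofNat 0, .ofNat 0, .ofNat 0, .ofNat 98367742838543836367043583588256704801105558757305221120, .ofNat 0, .ofNat 0, .ofNat 0, .ofNat 7119382808171516649478730456801837868676224609385709568, .ofNat 0, .ofNat 0, .ofNat 0, .ofNat 394801956168677529858715018560612969910443482055442432, .ofNat 0⟩)
    (by decide +kernel)
theorem L06918 : Good (Phi V5.P V5.D (-1) (-1)) ⟨5, 29, 5, 20, 4, 15, 4, 11, 5, 2⟩ :=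
  out_sound (S := T5.ds_mm) T5.ok_mm (w := 61) (j := 3) (by decide +kernel)
theorem L06919 : Good (Phi V5.P V5.D (-1) (-1)) ⟨4, 15, 5, 20, 4, 15, 4, 11, 5, 2⟩ :=
  out_sound (S := T5.ds_mm) T5.ok_mm (w := 55) (j := 3) (by decide +kernel)
theorem L06920 : Good (Phi V5.P V5.D (-1) (-1)) ⟨2, 2, 5, 21, 4, 15, 4, 11, 5, 2⟩ :=
  out_sound (S := T5.ds_mm) T5.ok_mm (w := 43) (j := 3) (by decide +kernel)
theorem L06921 : Good (Phi V5.P V5.D (-1) (-1)) ⟨3, 6, 5, 21, 4, 15, 4, 11, 5, 2⟩ :=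
  out_sound (S := T5.ds_mm) T5.ok_mm (w := 49) (j := 3) (by decide +kernel)
theorem L06922 : Good (Phi V5.P V5.D (-1) (-1)) ⟨6, 56, 6, 42, 4, 15, 4, 11, 5, 2⟩ :=
  leafX_sound T5.ok_mm T5.Ymm.bz_eq (w := 285) (c := ⟨⟨.negSucc 942, .ofNat 0, .negSucc 40, .negSucc 234, .ofNat 247, .ofNat 106⟩, ⟨.ofNat 618, .ofNat 0, .ofNat 46, .ofNat 157, .negSucc 160, .negSucc 70⟩, ⟨.ofNat 941, .ofNat 0, .negSucc 31, .ofNat 244, .negSucc 221, .negSucc 254⟩, ⟨.negSucc 1918, .negSucc 0, .negSucc 36, .negSucc 627, .ofNat 210, .ofNat 136⟩, ⟨.negSucc 899, .negSucc 0, .ofNat 7, .negSucc 443, .negSucc 201, .negSucc 18⟩, .ofNat 14748, .ofNat 21838, .ofNat 0, .ofNat 21838, .ofNat 33142, .ofNat 0, .ofNat 128, .negSucc 6326, .negSucc 28135, .ofNat 0, .ofNat 4167, .ofNat 18472, .ofNat 0, .ofNat 0, .ofNat 15192, .ofNat 24744, .ofNat 0, .ofNat 0, .ofNat 0, .ofNat 0, .ofNat 0, .ofNat 0, .ofNat 32138367534427215111610275060568686053158080263225344,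 .ofNat 0, .ofNat 0, .ofNat 0, .ofNat 98533811855761346193170265221092367114523955957858304, .ofNat 0, .ofNat 0, .ofNat 0, .ofNat 0, .ofNat 0⟩)
    (by decide +kernel)
theorem L06923 : Good (Phi V5.P V5.D (-1) (-1)) ⟨6, 57, 6, 42, 4, 15, 4, 11, 5, 2⟩ :=
  leafX_sound T5.ok_mm T5.Ymm.bz_eq (w := 280) (c := ⟨⟨.negSucc 924, .ofNat 121, .ofNat 127, .negSucc 240, .ofNat 89, .ofNat 98⟩, ⟨.ofNat 609, .negSucc 88, .negSucc 69, .ofNat 163, .negSucc 57, .negSucc 68⟩, ⟨.ofNat 937, .ofNat 55, .negSucc 73, .ofNat 241, .negSucc 149, .negSucc 257⟩, ⟨.negSucc 2074, .ofNat 121, .ofNat 398, .negSucc 671, .ofNat 32, .ofNat 361⟩, ⟨.negSucc 1171, .ofNat 70, .ofNat 300, .negSucc 495, .negSucc 133, .ofNat 332⟩, .ofNat 9172, .ofNat 13156, .ofNat 0, .ofNat 13156, .ofNat 19633, .ofNat 0, .ofNat 128, .negSucc 2126, .negSucc 8427, .ofNat 0, .ofNat 1415, .ofNat 5562, .ofNat 0, .ofNat 0, .ofNat 4361,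 .ofNat 5633, .ofNat 0, .ofNat 0, .ofNat 2570179963818795149904604388998922259339633754112, .ofNat 0, .ofNat 0, .ofNat 0, .ofNat 3628112130099348174586685631987635891331794179457024, .ofNat 299917721864618936787628326442568580591694793835586087798439936, .ofNat 0, .ofNat 0, .ofNat 1264146666603466012245529475224534891419232421019648, .ofNat 0, .ofNat 0, .ofNat 0, .ofNat 1755527278089641051297719909098487443778659032236032, .ofNat 0⟩)
    (by decide +kernel)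
theorem L06924 : Good (Phi V5.P V5.D (-1) (-1)) ⟨6, 56, 6, 43, 4, 15, 4, 11, 5, 2⟩ :=
  out_sound (S := T5.ds_mm) T5.ok_mm (w := 69) (j := 3) (by decide +kernel)
theorem L06925 : Good (Phi V5.P V5.D (-1) (-1)) ⟨8, 228, 6, 43, 4, 15, 4, 11, 5, 2⟩ :=
  out_sound (S := T5.ds_mm) T5.ok_mm (w := 81) (j := 3) (by decide +kernel)
theorem L06926 : Good (Phi V5.P V5.D (-1) (-1)) ⟨8, 229, 6, 43, 4, 15, 4, 11, 5, 2⟩ :=
  out_sound (S := T5.ds_mm) T5.ok_mm (w := 23) (j := 4) (by decide +kernel)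
theorem L06927 : Good (Phi V5.P V5.D (-1) (-1)) ⟨7, 115, 6, 43, 4, 15, 4, 11, 5, 2⟩ :=
  out_sound (S := T5.ds_mm) T5.ok_mm (w := 21) (j := 4) (by decide +kernel)
theorem L06928 : Good (Phi V5.P V5.D (-1) (-1)) ⟨5, 29, 5, 21, 4, 15, 4, 11, 5, 2⟩ :=
  out_sound (S := T5.ds_mm) T5.ok_mm (w := 61) (j := 3) (by decide +kernel)
theorem L06929 : Good (Phi V5.P V5.D (-1) (-1)) ⟨4, 15, 5, 21, 4, 15, 4, 11, 5, 2⟩ :=
  out_sound (S := T5.ds_mm) T5.ok_mm (w := 55) (j := 3) (by decide +kernel)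
theorem L06930 : Good (Phi V5.P V5.D (-1) (-1)) ⟨2, 2, 4, 11, 4, 15, 4, 11, 5, 2⟩ :=
  out_sound (S := T5.ds_mm) T5.ok_mm (w := 41) (j := 3) (by decide +kernel)
theorem L06931 : Good (Phi V5.P V5.D (-1) (-1)) ⟨3, 6, 4, 11, 4, 15, 4, 11, 5, 2⟩ :=
  out_sound (S := T5.ds_mm) T5.ok_mm (w := 47) (j := 3) (by decide +kernel)
theorem L06932 : Good (Phi V5.P V5.D (-1) (-1)) ⟨6, 56, 4, 11, 4, 15, 4, 11, 5, 2⟩ :=
  out_sound (S := T5.ds_mm) T5.ok_mm (w := 65) (j := 3) (by decide +kernel)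
theorem L06933 : Good (Phi V5.P V5.D (-1) (-1)) ⟨7, 114, 5, 22, 4, 15, 4, 11, 5, 2⟩ :=
  out_sound (S := T5.ds_mm) T5.ok_mm (w := 73) (j := 3) (by decide +kernel)
theorem L06934 : Good (Phi V5.P V5.D (-1) (-1)) ⟨7, 115, 5, 22, 4, 15, 4, 11, 5, 2⟩ :=
  out_sound (S := T5.ds_mm) T5.ok_mm (w := 21) (j := 4) (by decide +kernel)
theorem L06935 : Good (Phi V5.P V5.D (-1) (-1)) ⟨6, 57, 5, 23, 4, 15, 4, 11, 5, 2⟩ :=
  out_sound (S := T5.ds_mm) T5.ok_mm (w := 67) (j := 3) (by decide +kernel)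
theorem L06936 : Good (Phi V5.P V5.D (-1) (-1)) ⟨5, 29, 4, 11, 4, 15, 4, 11, 5, 2⟩ :=
  out_sound (S := T5.ds_mm) T5.ok_mm (w := 17) (j := 4) (by decide +kernel)
theorem L06937 : Good (Phi V5.P V5.D (-1) (-1)) ⟨4, 15, 4, 11, 4, 15, 4, 11, 5, 2⟩ :=
  out_sound (S := T5.ds_mm) T5.ok_mm (w := 53) (j := 3) (by decide +kernel)
theorem L06938 : Good (Phi V5.P V5.D (-1) (-1)) ⟨2, 2, 4, 10, 3, 7, 3, 5, 5, 3⟩ :=
  out_sound (S := T5.ds_mm) T5.ok_mm (w := 41) (j := 3) (by decide +kernel)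
theorem L06939 : Good (Phi V5.P V5.D (-1) (-1)) ⟨3, 6, 4, 10, 3, 7, 3, 5, 5, 3⟩ :=
  out_sound (S := T5.ds_mm) T5.ok_mm (w := 47) (j := 3) (by decide +kernel)
theorem L06940 : Good (Phi V5.P V5.D (-1) (-1)) ⟨6, 56, 5, 20, 3, 7, 3, 5, 6, 6⟩ :=
  leafX_sound T5.ok_mm T5.Ymm.bz_eq (w := 259) (c := ⟨⟨.negSucc 1770, .ofNat 20, .ofNat 31, .ofNat 812, .ofNat 387, .negSucc 84⟩, ⟨.ofNat 1135, .negSucc 46, .ofNat 36, .negSucc 520, .negSucc 249, .ofNat 55⟩, ⟨.ofNat 1149, .negSucc 78, .ofNat 30, .negSucc 187, .negSucc 349, .negSucc 66⟩, ⟨.negSucc 3564, .ofNat 16, .ofNat 37, .ofNat 1487, .ofNat 591, .negSucc 207⟩, ⟨.negSucc 1624, .negSucc 52, .ofNat 27, .ofNat 524, .ofNat 69, .negSucc 135⟩, .ofNat 5181, .ofNat 7524, .ofNat 0, .ofNat 7524, .ofNat 11734, .ofNat 0, .ofNat 128, .negSucc 964, .negSucc 2338, .ofNat 0, .ofNat 624, .ofNat 1494, .ofNat 0, .ofNat 0, .ofNat 1508, .ofNat 2382, .ofNat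 0, .ofNat 0, .ofNat 14668696499439333862821114161687981677608960, .ofNat 0, .ofNat 0, .ofNat 0, .ofNat 58344318604335998638110475918626780661327855616, .ofNat 0, .ofNat 0, .ofNat 0, .ofNat 0, .ofNat 0, .ofNat 0, .ofNat 0, .ofNat 0, .ofNat 0⟩)
    (by decide +kernel)
theorem L06941 : Good (Phi V5.P V5.D (-1) (-1)) ⟨6, 56, 5, 21, 3, 7, 3, 5, 6, 6⟩ :=
  leafX_sound T5.ok_mm T5.Ymm.bz_eq (w := 269) (c := ⟨⟨.negSucc 1840, .negSucc 0, .ofNat 7, .ofNat 849, .ofNat 527, .negSucc 34⟩, ⟨.ofNat 1211, .ofNat 0, .ofNat 43, .negSucc 557, .negSucc 347, .ofNat 23⟩, ⟨.ofNat 1156, .ofNat 0, .negSucc 182, .negSucc 170, .negSucc 427, .negSucc 85⟩, ⟨.negSucc 3322, .negSucc 0, .negSucc 0, .ofNat 946, .ofNat 571, .negSucc 52⟩, ⟨.negSucc 1117, .negSucc 0, .ofNat 3, .negSucc 364, .negSucc 252, .negSucc 4⟩, .ofNat 22948, .ofNat 34188, .ofNat 0, .ofNat 34188, .ofNat 51746, .ofNat 0, .ofNat 128, .negSucc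 4708, .negSucc 15406, .ofNat 0, .ofNat 3113, .ofNat 10152, .ofNat 0, .ofNat 0, .ofNat 9772, .ofNat 12988, .ofNat 0, .ofNat 0, .ofNat 62956290927833363069264435597298367555698688, .ofNat 0, .ofNat 0, .ofNat 0, .ofNat 0, .ofNat 0, .ofNat 0, .ofNat 0, .ofNat 3618695123268259183882188187869843882269044899840, .ofNat 0, .ofNat 0, .ofNat 0, .ofNat 0, .ofNat 0⟩)
    (by decide +kernel)
theorem L06942 : Good (Phi V5.P V5.D (-1) (-1)) ⟨6, 56, 4, 10, 3, 7, 3, 5, 6, 7⟩ :=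
  leafX_sound T5.ok_mm T5.Ymm.bz_eq (w := 257) (c := ⟨⟨.negSucc 1965, .negSucc 126, .ofNat 287, .ofNat 1038, .ofNat 562, .negSucc 4⟩, ⟨.ofNat 1255, .ofNat 64, .negSucc 98, .negSucc 668, .negSucc 363, .ofNat 6⟩, ⟨.ofNat 1009, .ofNat 264, .negSucc 336, .negSucc 257, .negSucc 426, .negSucc 95⟩, ⟨.negSucc 4088, .ofNat 3, .ofNat 309, .ofNat 1957, .ofNat 933, .negSucc 24⟩, ⟨.negSucc 1973, .ofNat 173, .negSucc 2, .ofNat 755, .ofNat 215, .negSucc 26⟩, .ofNat 5226, .ofNat 7589, .ofNat 0, .ofNat 7589, .ofNat 11827, .ofNat 0, .ofNat 128, .negSucc 2415, .negSucc 2448, .ofNat 0, .ofNat 1566, .ofNat 1566, .ofNat 0, .ofNat 0, .ofNat 1786, .ofNat 2829, .ofNat 0, .ofNat 0, .ofNat 80586193944481885288852476125871500280463360, .ofNat 0, .ofNat 0, .ofNat 0, .ofNat 19952723698631890640446915691772892273325375488, .ofNat 0, .ofNat 0, .ofNat 0, .ofNat 109160588203975246207990482547243042099498582016,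 .ofNat 0, .ofNat 0, .ofNat 0, .ofNat 27600516380834717679887724475783831674830192640, .ofNat 0⟩)
    (by decide +kernel)
theorem L06943 : Good (Phi V5.P V5.D (-1) (-1)) ⟨6, 57, 5, 20, 3, 7, 3, 5, 5, 3⟩ :=
  leafX_sound T5.ok_mm T5.Ymm.bz_eq (w := 265) (c := ⟨⟨.negSucc 1929, .ofNat 1, .ofNat 4, .ofNat 979, .ofNat 543, .ofNat 34⟩, ⟨.ofNat 1258, .ofNat 0, .ofNat 9, .negSucc 643, .negSucc 357, .negSucc 22⟩, ⟨.ofNat 1188, .ofNat 0, .negSucc 11, .negSucc 213, .negSucc 417, .negSucc 214⟩, ⟨.negSucc 3303, .ofNat 1, .negSucc 0, .ofNat 1016, .ofNat 570, .ofNat 30⟩, ⟨.negSucc 910, .ofNat 1, .negSucc 0, .negSucc 528, .negSucc 284, .negSucc 26⟩, .ofNat 26833, .ofNat 40040, .ofNat 0, .ofNat 40040, .ofNat 60560, .ofNat 0, .ofNat 128, .negSucc 13636, .negSucc 16660, .ofNat 0, .ofNat 9018, .ofNat 10979, .ofNat 0, .ofNat 0, .ofNat 11462, .ofNat 66210, .ofNat 0, .ofNat 0, .ofNat 0, .ofNat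 0, .ofNat 0, .ofNat 0, .ofNat 12554417999330799768907800850081734465743317106688, .ofNat 0, .ofNat 0, .ofNat 0, .ofNat 3961955034310359610110201151848096390738155143168, .ofNat 0, .ofNat 0, .ofNat 0, .ofNat 2890780123566585084910766670423003943030512156672, .ofNat 0⟩)
    (by decide +kernel)
theorem L06944 : Good (Phi V5.P V5.D (-1) (-1)) ⟨6, 57, 5, 21, 3, 7, 3, 5, 5, 3⟩ :=
  leafX_sound T5.ok_mm T5.Ymm.bz_eq (w := 257) (c := ⟨⟨.negSucc 1968, .ofNat 5, .ofNat 130, .ofNat 1086, .ofNat 511, .negSucc 11⟩, ⟨.ofNat 1297, .negSucc 8, .negSucc 47, .negSucc 715, .negSucc 338, .ofNat 7⟩, ⟨.ofNat 1200, .negSucc 125, .negSucc 1, .negSucc 259, .negSucc 400, .negSucc 187⟩, ⟨.negSucc 3728, .ofNat 46, .ofNat 90, .ofNat 1632, .ofNat 785, .negSucc 34⟩, ⟨.negSucc 1465, .negSucc 30, .negSucc 65, .ofNat 177, .ofNat 107, .negSucc 25⟩, .ofNat 10725, .ofNat 15450, .ofNat 0, .ofNat 15450, .ofNat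 23019, .ofNat 0, .ofNat 128, .negSucc 1853, .negSucc 3161, .ofNat 0, .ofNat 1247, .ofNat 2113, .ofNat 0, .ofNat 0, .ofNat 2021, .ofNat 4173, .ofNat 0, .ofNat 0, .ofNat 2464021115534204657642609390878118520029184, .ofNat 0, .ofNat 0, .ofNat 0, .ofNat 10224179413028966936919051374546167056841048064, .ofNat 0, .ofNat 0, .ofNat 0, .ofNat 1085879639983679734144473930007395659092590592, .ofNat 71767969986291612892905177069795144722383435537164795904, .ofNat 0, .ofNat 0, .ofNat 1746149376510669360371981908960012672079757312, .ofNat 141645608387315757718851272217244799484179707640401625088⟩)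
    (by decide +kernel)
theorem L06945 : Good (Phi V5.P V5.D (-1) (-1)) ⟨5, 29, 4, 10, 3, 7, 3, 5, 5, 3⟩ :=
  out_sound (S := T5.ds_mm) T5.ok_mm (w := 59) (j := 3) (by decide +kernel)
theorem L06946 : Good (Phi V5.P V5.D (-1) (-1)) ⟨4, 15, 4, 10, 3, 7, 3, 5, 5, 3⟩ :=
  out_sound (S := T5.ds_mm) T5.ok_mm (w := 53) (j := 3) (by decide +kernel)
theorem L06947 : Good (Phi V5.P V5.D (-1) (-1)) ⟨2, 2, 4, 11, 3, 7, 3, 5, 5, 3⟩ :=
  out_sound (S := T5.ds_mm) T5.ok_mm (w := 41) (j := 3) (by decide +kernel)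
theorem L06948 : Good (Phi V5.P V5.D (-1) (-1)) ⟨3, 6, 4, 11, 3, 7, 3, 5, 5, 3⟩ :=
  out_sound (S := T5.ds_mm) T5.ok_mm (w := 47) (j := 3) (by decide +kernel)
theorem L06949 : Good (Phi V5.P V5.D (-1) (-1)) ⟨6, 56, 4, 11, 3, 7, 3, 5, 5, 3⟩ :=
  out_sound (S := T5.ds_mm) T5.ok_mm (w := 65) (j := 3) (by decide +kernel)
theorem L06950 : Good (Phi V5.P V5.D (-1) (-1)) ⟨7, 114, 5, 22, 3, 7, 3, 5, 5, 3⟩ :=
  out_sound (S := T5.ds_mm) T5.ok_mm (w := 73) (j := 3) (by decide +kernel)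
theorem L06951 : Good (Phi V5.P V5.D (-1) (-1)) ⟨7, 115, 5, 22, 3, 7, 3, 5, 5, 3⟩ :=
  out_sound (S := T5.ds_mm) T5.ok_mm (w := 21) (j := 4) (by decide +kernel)
theorem L06952 : Good (Phi V5.P V5.D (-1) (-1)) ⟨6, 57, 5, 23, 3, 7, 3, 5, 5, 3⟩ :=
  out_sound (S := T5.ds_mm) T5.ok_mm (w := 67) (j := 3) (by decide +kernel)
theorem L06953 : Good (Phi V5.P V5.D (-1) (-1)) ⟨5, 29, 4, 11, 3, 7, 3, 5, 5, 3⟩ :=
  out_sound (S := T5.ds_mm) T5.ok_mm (w := 17) (j := 4) (by decide +kernel)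
theorem L06954 : Good (Phi V5.P V5.D (-1) (-1)) ⟨4, 15, 4, 11, 3, 7, 3, 5, 5, 3⟩ :=
  out_sound (S := T5.ds_mm) T5.ok_mm (w := 53) (j := 3) (by decide +kernel)
theorem L06955 : Good (Phi V5.P V5.D (-1) (-1)) ⟨2, 2, 3, 5, 2, 3, 2, 2, 3, 1⟩ :=
  out_sound (S := T5.ds_mm) T5.ok_mm (w := 39) (j := 3) (by decide +kernel)
theorem L06956 : Good (Phi V5.P V5.D (-1) (-1)) ⟨3, 6, 3, 5, 2, 3, 2, 2, 4, 2⟩ :=
  out_sound (S := T5.ds_mm) T5.ok_mm (w := 45) (j := 3) (by decide +kernel)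
theorem L06957 : Good (Phi V5.P V5.D (-1) (-1)) ⟨5, 28, 4, 10, 3, 6, 2, 2, 5, 4⟩ :=
  leafX_sound T5.ok_mm T5.Ymm.bz_eq (w := 239) (c := ⟨⟨.negSucc 4188, .negSucc 207, .ofNat 74, .ofNat 1519, .ofNat 975, .ofNat 453⟩, ⟨.ofNat 2703, .ofNat 69, .ofNat 136, .negSucc 1001, .negSucc 641, .negSucc 294⟩, ⟨.ofNat 2487, .ofNat 235, .negSucc 149, .negSucc 963, .negSucc 821, .negSucc 454⟩, ⟨.negSucc 7117, .negSucc 146, .ofNat 35, .ofNat 2021, .ofNat 1473, .ofNat 752⟩, ⟨.negSucc 1800, .ofNat 58, .negSucc 33, .negSucc 187, .ofNat 152, .ofNat 175⟩, .ofNat 2455, .ofNat 3353, .ofNat 0, .ofNat 3353, .ofNat 5332, .ofNat 0, .ofNat 128, .negSucc 658, .negSucc 851, .ofNat 0, .ofNat 435, .ofNat 546, .ofNat 0, .ofNat 0, .ofNat 772, .ofNat 1237, .ofNat 0, .ofNat 0, .ofNat 0, .ofNat 0, .ofNat 0, .ofNat 0, .ofNat 39933330812349310758477591859405792603013120, .ofNat 0, .ofNat 0, .ofNat 0, .ofNat 5215881584811492964183621082910220112363520,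 .ofNat 0, .ofNat 0, .ofNat 0, .ofNat 19184917637443202634402783069667998316888064, .ofNat 25023862127193712816804806791943399502526906714030080⟩)
    (by decide +kernel)
theorem L06958 : Good (Phi V5.P V5.D (-1) (-1)) ⟨6, 56, 4, 11, 3, 6, 2, 2, 5, 4⟩ :=
  out_sound (S := T5.ds_mm) T5.ok_mm (w := 65) (j := 3) (by decide +kernel)
theorem L06959 : Good (Phi V5.P V5.D (-1) (-1)) ⟨7, 114, 5, 22, 3, 6, 2, 2, 5, 4⟩ :=
  out_sound (S := T5.ds_mm) T5.ok_mm (w := 73) (j := 3) (by decide +kernel)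
theorem L06960 : Good (Phi V5.P V5.D (-1) (-1)) ⟨7, 115, 5, 22, 3, 6, 2, 2, 5, 4⟩ :=
  out_sound (S := T5.ds_mm) T5.ok_mm (w := 21) (j := 4) (by decide +kernel)
theorem L06961 : Good (Phi V5.P V5.D (-1) (-1)) ⟨6, 57, 5, 23, 3, 6, 2, 2, 5, 4⟩ :=
  out_sound (S := T5.ds_mm) T5.ok_mm (w := 67) (j := 3) (by decide +kernel)
theorem L06962 : Good (Phi V5.P V5.D (-1) (-1)) ⟨5, 28, 4, 10, 3, 7, 3, 4, 5, 4⟩ :=
  leafX_sound T5.ok_mm T5.Ymm.bz_eq (w := 243) (c := ⟨⟨.negSucc 2412, .negSucc 35, .ofNat 51, .ofNat 965, .ofNat 463, .ofNat 170⟩, ⟨.ofNat 1553, .negSucc 28, .ofNat 82, .negSucc 629, .negSucc 303, .negSucc 110⟩, ⟨.ofNat 1378, .negSucc 27, .ofNat 20, .negSucc 204, .negSucc 394, .negSucc 274⟩, ⟨.negSucc 4737, .ofNat 25, .ofNat 43, .ofNat 1784, .ofNat 754, .ofNat 343⟩, ⟨.negSucc 2023, .ofNat 23, .ofNat 30, .ofNat 648, .ofNat 153, .ofNat 157⟩, .ofNat 2570, .ofNat 3504, .ofNat 0,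 .ofNat 3504, .ofNat 5521, .ofNat 0, .ofNat 128, .negSucc 805, .negSucc 975, .ofNat 0, .ofNat 532, .ofNat 620, .ofNat 0, .ofNat 0, .ofNat 983, .ofNat 1734, .ofNat 0, .ofNat 0, .ofNat 1050073941633501615020165972307090285264896, .ofNat 0, .ofNat 0, .ofNat 0, .ofNat 451244854345030015219796482481757989522898944, .ofNat 0, .ofNat 0, .ofNat 0, .ofNat 2208156753421531631478436818030186802970624, .ofNat 123320443832964692309233914237496176380876484203511808, .ofNat 0, .ofNat 0, .ofNat 0, .ofNat 0⟩)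
    (by decide +kernel)
theorem L06963 : Good (Phi V5.P V5.D (-1) (-1)) ⟨5, 28, 4, 10, 3, 7, 3, 5, 5, 4⟩ :=
  leafX_sound T5.ok_mm T5.Ymm.bz_eq (w := 243) (c := ⟨⟨.negSucc 1905, .negSucc 60, .ofNat 93, .ofNat 1038, .ofNat 451, .ofNat 28⟩, ⟨.ofNat 1222, .ofNat 5, .ofNat 32, .negSucc 675, .negSucc 295, .negSucc 19⟩, ⟨.ofNat 1016, .negSucc 296, .ofNat 143, .negSucc 207, .negSucc 355, .negSucc 182⟩, ⟨.negSucc 3967, .ofNat 9, .ofNat 83, .ofNat 2002, .ofNat 820, .ofNat 140⟩, ⟨.negSucc 1927, .ofNat 10, .ofNat 28, .ofNat 818, .ofNat 279, .ofNat 151⟩, .ofNat 2570, .ofNat 3504, .ofNat 0, .ofNat 3504, .ofNat 5521, .ofNat 0, .ofNat 128, .negSucc 1126, .negSucc 718, .ofNat 0, .ofNat 739, .ofNat 455, .ofNat 0, .ofNat 0, .ofNat 713, .ofNat 1302, .ofNat 0, .ofNat 0, .ofNat 0, .ofNat 0, .ofNat 0, .ofNat 0, .ofNat 481021486922387886281991464213751401495396352, .ofNat 0, .ofNat 0, .ofNat 0,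 .ofNat 172610222608827475191843448581576078236057600, .ofNat 814275405822685839149998500885382586737214946166177792, .ofNat 0, .ofNat 0, .ofNat 144032117232012152678905102252368765642604544, .ofNat 394474056478690613136353114417459712627184227888136192⟩)
    (by decide +kernel)
theorem L06964 : Good (Phi V5.P V5.D (-1) (-1)) ⟨6, 56, 4, 11, 3, 7, 2, 2, 5, 4⟩ :=
  out_sound (S := T5.ds_mm) T5.ok_mm (w := 65) (j := 3) (by decide +kernel)
theorem L06965 : Good (Phi V5.P V5.D (-1) (-1)) ⟨7, 114, 5, 22, 3, 7, 2, 2, 5, 4⟩ :=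
  out_sound (S := T5.ds_mm) T5.ok_mm (w := 73) (j := 3) (by decide +kernel)
theorem L06966 : Good (Phi V5.P V5.D (-1) (-1)) ⟨7, 115, 5, 22, 3, 7, 2, 2, 5, 4⟩ :=
  out_sound (S := T5.ds_mm) T5.ok_mm (w := 21) (j := 4) (by decide +kernel)
theorem L06967 : Good (Phi V5.P V5.D (-1) (-1)) ⟨6, 57, 5, 23, 3, 7, 2, 2, 5, 4⟩ :=
  out_sound (S := T5.ds_mm) T5.ok_mm (w := 67) (j := 3) (by decide +kernel)
theorem L06968 : Good (Phi V5.P V5.D (-1) (-1)) ⟨5, 29, 3, 5, 2, 3, 2, 2, 5, 4⟩ :=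
  out_sound (S := T5.ds_mm) T5.ok_mm (w := 17) (j := 4) (by decide +kernel)
theorem L06969 : Good (Phi V5.P V5.D (-1) (-1)) ⟨5, 28, 3, 5, 3, 6, 2, 2, 5, 5⟩ :=
  leafX_sound T5.ok_mm T5.Ymm.bz_eq (w := 234) (c := ⟨⟨.negSucc 3502, .negSucc 191, .ofNat 311, .ofNat 1174, .ofNat 685, .ofNat 452⟩, ⟨.ofNat 2236, .ofNat 134, .ofNat 46, .negSucc 769, .negSucc 445, .negSucc 291⟩, ⟨.ofNat 1922, .ofNat 61, .negSucc 220, .negSucc 730, .negSucc 700, .negSucc 426⟩, ⟨.negSucc 6028, .negSucc 137, .ofNat 189, .ofNat 1551, .ofNat 1204, .ofNat 795⟩, ⟨.negSucc 1596, .ofNat 32, .negSucc 219, .negSucc 178, .ofNat 344, .ofNat 226⟩, .ofNat 904, .ofNat 1024, .ofNat 0, .ofNat 1024, .ofNat 1785, .ofNat 0, .ofNat 128, .negSucc 1073, .negSucc 525, .ofNat 0, .ofNat 735, .ofNat 319, .ofNat 0, .ofNat 0, .ofNat 681, .ofNat 1794, .ofNat 0, .ofNat 0, .ofNat 0, .ofNat 0, .ofNat 0, .ofNat 0, .ofNat 3819399199259174451525924508966720769097728,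 .ofNat 0, .ofNat 0, .ofNat 0, .ofNat 4822720215567181514923542116095040033914880, .ofNat 0, .ofNat 0, .ofNat 0, .ofNat 4981558284467167009355290728585023188893696, .ofNat 1809074573822001421752730968834818954760370163548160⟩)
    (by decide +kernel)
theorem L06970 : Good (Phi V5.P V5.D (-1) (-1)) ⟨5, 28, 3, 5, 3, 7, 2, 2, 5, 5⟩ :=
  leafX_sound T5.ok_mm T5.Ymm.bz_eq (w := 233) (c := ⟨⟨.negSucc 2025, .negSucc 179, .ofNat 185, .ofNat 833, .ofNat 617, .ofNat 69⟩, ⟨.ofNat 1320, .negSucc 0, .ofNat 165, .negSucc 545, .negSucc 402, .negSucc 44⟩, ⟨.ofNat 941, .ofNat 138, .negSucc 105, .negSucc 98, .negSucc 592, .negSucc 207⟩, ⟨.negSucc 4168, .negSucc 61, .ofNat 100, .ofNat 1657, .ofNat 1173, .ofNat 305⟩, ⟨.negSucc 1956, .ofNat 104, .negSucc 3, .ofNat 722, .ofNat 454, .ofNat 314⟩, .ofNat 905, .ofNat 1025, .ofNat 0, .ofNat 1025, .ofNat 1785, .ofNat 0, .ofNat 128, .negSucc 562, .negSucc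 184, .ofNat 0, .ofNat 387, .ofNat 97, .ofNat 0, .ofNat 0, .ofNat 393, .ofNat 671, .ofNat 0, .ofNat 0, .ofNat 0, .ofNat 0, .ofNat 0, .ofNat 0, .ofNat 0, .ofNat 0, .ofNat 0, .ofNat 0, .ofNat 5369790723748964156692603285101433201885184, .ofNat 2051004088214532855447906745684089020478514154962944, .ofNat 0, .ofNat 0, .ofNat 0, .ofNat 0⟩)
    (by decide +kernel)
theorem L06971 : Good (Phi V5.P V5.D (-1) (-1)) ⟨5, 29, 3, 5, 2, 3, 2, 2, 5, 5⟩ :=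
  out_sound (S := T5.ds_mm) T5.ok_mm (w := 17) (j := 4) (by decide +kernel)
theorem L06972 : Good (Phi V5.P V5.D (-1) (-1)) ⟨4, 15, 3, 5, 2, 3, 2, 2, 4, 2⟩ :=
  out_sound (S := T5.ds_mm) T5.ok_mm (w := 51) (j := 3) (by decide +kernel)
theorem L06973 : Good (Phi V5.P V5.D (-1) (-1)) ⟨3, 6, 3, 5, 2, 3, 2, 2, 4, 3⟩ :=
  out_sound (S := T5.ds_mm) T5.ok_mm (w := 45) (j := 3) (by decide +kernel)
theorem L06974 : Good (Phi V5.P V5.D (-1) (-1)) ⟨5, 28, 4, 10, 3, 6, 2, 2, 5, 6⟩ :=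
  leafX_sound T5.ok_mm T5.Ymm.bz_eq (w := 241) (c := ⟨⟨.negSucc 2933, .ofNat 150, .negSucc 145, .ofNat 876, .ofNat 434, .ofNat 289⟩, ⟨.ofNat 1852, .negSucc 7, .ofNat 162, .negSucc 571, .negSucc 281, .negSucc 189⟩, ⟨.ofNat 1451, .negSucc 210, .ofNat 118, .negSucc 583, .negSucc 718, .negSucc 370⟩, ⟨.negSucc 5066, .ofNat 175, .negSucc 173, .ofNat 1148, .ofNat 960, .ofNat 562⟩, ⟨.negSucc 1378, .negSucc 157, .ofNat 75, .negSucc 137, .ofNat 529, .ofNat 234⟩, .ofNat 2430, .ofNat 3319, .ofNat 0, .ofNat 3319, .ofNat 5287, .ofNat 0, .ofNat 128, .negSucc 2407, .negSucc 543, .ofNat 0, .ofNat 1627, .ofNat 345, .ofNat 0, .ofNat 0, .ofNat 1410, .ofNat 993, .ofNat 0, .ofNat 0, .ofNat 0, .ofNat 0, .ofNat 0, .ofNat 0, .ofNat 77427466880457988669489408713080009589260288, .ofNat 22401294295865646260382591429837834283600753159307264, .ofNat 0, .ofNat 0, .ofNat 0, .ofNat 0, .ofNat 0, .ofNat 0,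 .ofNat 0, .ofNat 0⟩)
    (by decide +kernel)
theorem L06975 : Good (Phi V5.P V5.D (-1) (-1)) ⟨6, 56, 4, 10, 3, 7, 2, 2, 5, 6⟩ :=
  leafX_sound T5.ok_mm T5.Ymm.bz_eq (w := 244) (c := ⟨⟨.negSucc 1842, .negSucc 160, .ofNat 213, .ofNat 749, .ofNat 316, .ofNat 16⟩, ⟨.ofNat 1156, .ofNat 129, .negSucc 87, .negSucc 478, .negSucc 200, .negSucc 6⟩, ⟨.ofNat 890, .negSucc 282, .ofNat 243, .negSucc 69, .negSucc 641, .negSucc 303⟩, ⟨.negSucc 3703, .negSucc 92, .ofNat 149, .ofNat 1447, .ofNat 921, .ofNat 306⟩, ⟨.negSucc 1632, .ofNat 83, .negSucc 99, .ofNat 598, .ofNat 729, .ofNat 436⟩, .ofNat 2363, .ofNat 3228, .ofNat 0, .ofNat 3228, .ofNat 5170, .ofNat 0, .ofNat 128, .negSucc 1789, .negSucc 88, .ofNat 0, .ofNat 1222, .ofNat 25, .ofNat 0, .ofNat 0, .ofNat 1781, .ofNat 1136, .ofNat 0, .ofNat 0, .ofNat 193908008095095092901214258933802213572608, .ofNat 0, .ofNat 0, .ofNat 0, .ofNat 17027016860201518369009452355390817857175552,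 .ofNat 0, .ofNat 0, .ofNat 395227901004040584460208560462346221033243294040064, .ofNat 12645207128662637860966135952064460015796224, .ofNat 0, .ofNat 0, .ofNat 531635495068472914065831013682639871702686492524544, .ofNat 26180482788607459552503973195214404655775744, .ofNat 0⟩)
    (by decide +kernel)
theorem L06976 : Good (Phi V5.P V5.D (-1) (-1)) ⟨6, 57, 4, 10, 3, 7, 2, 2, 5, 6⟩ :=
  leafX_sound T5.ok_mm T5.Ymm.bz_eq (w := 248) (c := ⟨⟨.negSucc 1845, .ofNat 88, .negSucc 64, .ofNat 731, .ofNat 242, .ofNat 15⟩, ⟨.ofNat 1135, .negSucc 139, .ofNat 204, .negSucc 480, .negSucc 161, .negSucc 9⟩, ⟨.ofNat 788, .ofNat 123, .negSucc 125, .negSucc 56, .negSucc 686, .negSucc 269⟩, ⟨.negSucc 3678, .ofNat 68, .ofNat 55, .ofNat 1250, .ofNat 904, .ofNat 360⟩, ⟨.negSucc 1558, .ofNat 50, .ofNat 64, .ofNat 346, .ofNat 849, .ofNat 508⟩, .ofNat 6386, .ofNat 9047, .ofNat 0, .ofNat 9047, .ofNat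 13574, .ofNat 0, .ofNat 128, .negSucc 2519, .negSucc 117, .ofNat 0, .ofNat 1751, .ofNat 48, .ofNat 0, .ofNat 0, .ofNat 2673, .ofNat 1038, .ofNat 0, .ofNat 0, .ofNat 376156230808985308141281613640176582524928, .ofNat 0, .ofNat 0, .ofNat 0, .ofNat 86552848120456417818513632256020746873077760, .ofNat 0, .ofNat 0, .ofNat 850926322850547018382711188053179209866330402455552, .ofNat 37875727009182965141894948588185312840122368, .ofNat 726010491632829236547231042047507020973962220311412736, .ofNat 0, .ofNat 1307961299613970719996125931251515058861325005357056, .ofNat 21817717199868114812578555636341884158214144, .ofNat 38638330328302287154563914685754705890337286386614272⟩)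
    (by decide +kernel)
theorem L06977 : Good (Phi V5.P V5.D (-1) (-1)) ⟨5, 28, 4, 10, 3, 6, 2, 2, 5, 7⟩ :=
  leafX_sound T5.ok_mm T5.Ymm.bz_eq (w := 236) (c := ⟨⟨.negSucc 2271, .negSucc 615, .ofNat 315, .ofNat 525, .ofNat 69, .ofNat 91⟩, ⟨.ofNat 1456, .ofNat 355, .negSucc 77, .negSucc 342, .negSucc 41, .negSucc 57⟩, ⟨.ofNat 1043, .negSucc 156, .ofNat 66, .negSucc 531, .negSucc 923, .negSucc 387⟩, ⟨.negSucc 4275, .negSucc 304, .ofNat 155, .ofNat 919, .ofNat 783, .ofNat 417⟩, ⟨.negSucc 1528, .ofNat 440, .negSucc 248, .ofNat 276, .ofNat 1050, .ofNat 449⟩, .ofNat 901, .ofNat 1019, .ofNat 0, .ofNat 1019, .ofNat 1780, .ofNat 0, .ofNat 128, .negSucc 1224, .negSucc 170, .ofNat 0, .ofNat 898, .ofNat 74, .ofNat 0, .ofNat 0, .ofNat 1569, .ofNat 608, .ofNat 0, .ofNat 0, .ofNat 980829398512561759964310728796422881148928, .ofNat 0, .ofNat 0, .ofNat 0, .ofNat 10471755953485384487255301463611882046750720,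 .ofNat 0, .ofNat 0, .ofNat 25439613921054850893302063383406659012647538655232, .ofNat 16951922452870731391475689257530489105809408, .ofNat 17430229043181483940571898534148080011402204388786176, .ofNat 0, .ofNat 31809484244771962086075254972205258052932911235072, .ofNat 83984289466633513241169061301987823941844992, .ofNat 0⟩)
    (by decide +kernel)
theorem L06978 : Good (Phi V5.P V5.D (-1) (-1)) ⟨5, 28, 4, 10, 3, 7, 3, 4, 5, 7⟩ :=
  leafX_sound T5.ok_mm T5.Ymm.bz_eq (w := 243) (c := ⟨⟨.negSucc 1709, .negSucc 64, .ofNat 20, .ofNat 541, .negSucc 7, .negSucc 86⟩, ⟨.ofNat 1075, .ofNat 100, .ofNat 24, .negSucc 345, .ofNat 8, .ofNat 60⟩, ⟨.ofNat 620, .negSucc 548, .ofNat 285, .negSucc 99, .negSucc 459, .negSucc 495⟩, ⟨.negSucc 3397, .ofNat 8, .ofNat 81, .ofNat 1396, .ofNat 394, .ofNat 335⟩, ⟨.negSucc 1482, .ofNat 87, .ofNat 77, .ofNat 973, .ofNat 622, .ofNat 703⟩, .ofNat 2410,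 .ofNat 3292, .ofNat 0, .ofNat 3292, .ofNat 5254, .ofNat 0, .ofNat 128, .negSucc 1312, .ofNat 286, .ofNat 0, .ofNat 922, .negSucc 238, .ofNat 0, .ofNat 0, .ofNat 2790, .ofNat 940, .ofNat 0, .ofNat 0, .ofNat 11440807028437347371496206247561339089190912, .ofNat 0, .ofNat 0, .ofNat 0, .ofNat 661085411126591854308659272357290463857737728, .ofNat 0, .ofNat 0, .ofNat 37063222214061152542594642827721737049767648690176, .ofNat 1140968407004619543733334213149048449521418240, .ofNat 1670299727239011399525461733823600018451733803941494784, .ofNat 0, .ofNat 606504240370086967762635024386588403854189078249472, .ofNat 3083084020280500571189741241063846594490662912, .ofNat 0⟩)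
    (by decide +kernel)
theorem L06979 : Good (Phi V5.P V5.D (-1) (-1)) ⟨5, 28, 4, 10, 4, 14, 4, 10, 5, 7⟩ :=
  leafX_sound T5.ok_mm T5.Ymm.bz_eq (w := 259) (c := ⟨⟨.negSucc 1587, .negSucc 96, .negSucc 69, .ofNat 216, .negSucc 142, .negSucc 306⟩, ⟨.ofNat 1010, .ofNat 73, .ofNat 112, .negSucc 138, .ofNat 95, .ofNat 205⟩, ⟨.ofNat 320, .negSucc 487, .ofNat 126, .negSucc 174, .negSucc 359, .negSucc 831⟩, ⟨.negSucc 3015, .ofNat 65, .negSucc 14, .ofNat 687, .ofNat 197, .ofNat 327⟩, ⟨.negSucc 1114, .ofNat 83, .ofNat 176, .ofNat 595, .ofNat 603, .ofNat 1164⟩, .ofNat 921, .ofNat 1045, .ofNat 0, .ofNat 1045, .ofNat 1801, .ofNat 0, .ofNat 128, .negSucc 1360, .ofNat 565, .ofNat 0, .ofNat 1035, .negSucc 501, .ofNat 0, .ofNat 0, .ofNat 2683, .ofNat 1757, .ofNat 0, .ofNat 0, .ofNat 0, .ofNat 0, .ofNat 0, .ofNat 81121798530270569522177541007052461206435689295511552, .ofNat 40782015578777948222196465935430450187950012497920,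 .ofNat 0, .ofNat 0, .ofNat 1488820925660850986843646918814315474249526715443314688, .ofNat 858248214350901146060616514366832252591515728084992, .ofNat 354213711984761969732729292263555669253386397172084747796480, .ofNat 0, .ofNat 15374211442665717266804364954048457866725971139047194624, .ofNat 568921857097639528338214766292408734828570779582464, .ofNat 0⟩)
    (by decide +kernel)
theorem L06980 : Good (Phi V5.P V5.D (-1) (-1)) ⟨5, 28, 5, 20, 4, 14, 4, 11, 5, 7⟩ :=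
  leafX_sound T5.ok_mm T5.Ymm.bz_eq (w := 267) (c := ⟨⟨.negSucc 1569, .negSucc 97, .negSucc 79, .ofNat 148, .negSucc 201, .negSucc 509⟩, ⟨.ofNat 988, .ofNat 117, .ofNat 74, .negSucc 91, .ofNat 137, .ofNat 342⟩, ⟨.ofNat 45, .negSucc 143, .negSucc 77, .negSucc 259, .negSucc 410, .negSucc 1040⟩, ⟨.negSucc 2740, .negSucc 1, .negSucc 9, .ofNat 644, .ofNat 137, .ofNat 233⟩, ⟨.negSucc 739, .ofNat 62, .ofNat 151, .ofNat 667, .ofNat 647, .ofNat 1457⟩, .ofNat 3968, .ofNat 5601, .ofNat 0, .ofNat 5601, .ofNat 8683, .ofNat 0, .ofNat 128, .negSucc 1769, .ofNat 1090, .ofNat 0, .ofNat 1219, .negSucc 764, .ofNat 0, .ofNat 0, .ofNat 2732, .ofNat 1498, .ofNat 0, .ofNat 395482675597910560980395926796543225322897419962155008, .ofNat 15660439577823250418733826256624673094540491489280, .ofNat 0, .ofNat 0, .ofNat 0, .ofNat 1186464174923159205578701678938124100259530542153728, .ofNat 0, .ofNat 0,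 .ofNat 28417239438931259344981384110743794641310122655189303296, .ofNat 1993445399808186870417526333820696105160961905655808, .ofNat 0, .ofNat 0, .ofNat 193395274344946340750990378670068544624436162701182369792, .ofNat 1852866855004118676708903754021730406183912863694848, .ofNat 0⟩)
    (by decide +kernel)
theorem L06981 : Good (Phi V5.P V5.D (-1) (-1)) ⟨5, 28, 5, 21, 4, 14, 4, 11, 5, 7⟩ :=
  leafX_sound T5.ok_mm T5.Ymm.bz_eq (w := 265) (c := ⟨⟨.negSucc 1682, .ofNat 46, .negSucc 127, .ofNat 144, .negSucc 248, .negSucc 564⟩, ⟨.ofNat 1077, .ofNat 43, .ofNat 101, .negSucc 95, .ofNat 166, .ofNat 376⟩, ⟨.negSucc 84, .ofNat 53, .negSucc 145, .negSucc 262, .negSucc 450, .negSucc 1116⟩, ⟨.negSucc 2800, .ofNat 0, .negSucc 12, .ofNat 715, .ofNat 165, .ofNat 293⟩, ⟨.negSucc 710, .ofNat 33, .ofNat 164, .ofNat 769, .ofNat 770, .ofNat 1628⟩, .ofNat 1571, .ofNat 1999, .ofNat 0, .ofNat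 1999, .ofNat 3230, .ofNat 0, .ofNat 128, .negSucc 2446, .ofNat 1185, .ofNat 0, .ofNat 1745, .negSucc 903, .ofNat 0, .ofNat 0, .ofNat 4035, .ofNat 2121, .ofNat 0, .ofNat 627269355975917574124799870047603426282556918998237184, .ofNat 24533779565785390240111337243691463085295084240896, .ofNat 40172327980337629266993434644688105827315153007244895846400, .ofNat 0, .ofNat 1988098796661302536160836221998127754976985370310213632, .ofNat 521724986872962903393971694801470981929667164897280, .ofNat 0, .ofNat 0, .ofNat 113275372891549979726213055228647384238253263527681720320, .ofNat 2118630268107606639309376501252297619257273482215424, .ofNat 4129999085956010720341507570704224946089044441069402531561472, .ofNat 0, .ofNat 437323653113595229024654682479397589712539044380044951552, .ofNat 1548276089932437286799274472887796571748117703032832, .ofNat 4953367871405409288168880582695922335756195205502919671545856⟩)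
    (by decide +kernel)
theorem L06982 : Good (Phi V5.P V5.D (-1) (-1)) ⟨5, 28, 4, 10, 4, 15, 3, 5, 6, 14⟩ :=
  leafX_sound T5.ok_mm T5.Ymm.bz_eq (w := 263) (c := ⟨⟨.negSucc 1397, .ofNat 288, .negSucc 252, .ofNat 298, .negSucc 317, .negSucc 217⟩, ⟨.ofNat 890, .negSucc 168, .ofNat 209, .negSucc 190, .ofNat 217, .ofNat 143⟩, ⟨.negSucc 61, .ofNat 603, .negSucc 463, .ofNat 53, .negSucc 795, .negSucc 426⟩, ⟨.negSucc 2430, .ofNat 203, .ofNat 23, .ofNat 788, .ofNat 424, .ofNat 266⟩, ⟨.negSucc 736, .negSucc 24, .ofNat 349, .ofNat 572, .ofNat 1314, .ofNat 869⟩, .ofNat 2570, .ofNat 3504, .ofNat 0, .ofNat 3504, .ofNat 5521, .ofNat 0, .ofNat 128, .negSucc 1576, .ofNat 1271, .ofNat 0, .ofNat 1102, .negSucc 917, .ofNat 0, .ofNat 0, .ofNat 2856, .ofNat 831, .ofNat 0, .ofNat 34968244692262833261561994213473369583511539701252096, .ofNat 3010933512929387525336672489861292558626844573696,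 .ofNat 0, .ofNat 0, .ofNat 0, .ofNat 719631269065526514103388824798805491899946158260224, .ofNat 103802907837326398099094602258083570292778120120009649815552, .ofNat 0, .ofNat 7601035820546242180697788993130893493339714296874008576, .ofNat 601687239918116236722996501241999914527059905347584, .ofNat 0, .ofNat 0, .ofNat 40135118730067292996706963125709781778813734804019740672, .ofNat 1764137272077038872053282741699783453009658274381824, .ofNat 1372460018578078992888656227241933512934279145822362653425664⟩)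
    (by decide +kernel)
theorem L06983 : Good (Phi V5.P V5.D (-1) (-1)) ⟨5, 28, 4, 10, 4, 15, 3, 5, 6, 15⟩ :=
  leafX_sound T5.ok_mm T5.Ymm.bz_eq (w := 264) (c := ⟨⟨.negSucc 1427, .negSucc 137, .negSucc 67, .ofNat 145, .negSucc 638, .negSucc 366⟩, ⟨.ofNat 899, .ofNat 151, .ofNat 70, .negSucc 84, .ofNat 442, .ofNat 251⟩, ⟨.negSucc 133, .negSucc 348, .negSucc 14, .negSucc 203, .negSucc 1315, .negSucc 778⟩, ⟨.negSucc 2032, .ofNat 55, .ofNat 127, .ofNat 552, .negSucc 276, .negSucc 5⟩, ⟨.ofNat 59, .ofNat 183, .ofNat 336, .ofNat 531, .ofNat 925, .ofNat 765⟩, .ofNat 5676, .ofNat 8236, .ofNat 0, .ofNat 8236, .ofNat 12749, .ofNat 0, .ofNat 128, .negSucc 784, .ofNat 587, .ofNat 0, .ofNat 533, .negSucc 405, .ofNat 0, .ofNat 0, .ofNat 1808, .ofNat 975, .ofNat 0, .ofNat 144513401103905974144565387992423392048278537609674752, .ofNat 5346438303992010315066007387465955997019749220352, .ofNat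 0, .ofNat 0, .ofNat 770323339704112691536586877327723617833033611226382336, .ofNat 1299095041123907040488692412614182707099599200321536, .ofNat 0, .ofNat 0, .ofNat 8342603462107309481472562357022227065459539038961664000, .ofNat 570480409345141544793132217324383409550237735321600, .ofNat 0, .ofNat 0, .ofNat 27195730422684858164857120764612466127757839830173614080, .ofNat 576114821543011226799638745841632284973609498181632, .ofNat 0⟩)
    (by decide +kernel)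
theorem L06984 : Good (Phi V5.P V5.D (-1) (-1)) ⟨6, 56, 4, 11, 2, 3, 2, 2, 4, 3⟩ :=
  out_sound (S := T5.ds_mm) T5.ok_mm (w := 65) (j := 3) (by decide +kernel)
theorem L06985 : Good (Phi V5.P V5.D (-1) (-1)) ⟨7, 114, 5, 22, 2, 3, 2, 2, 4, 3⟩ :=
  out_sound (S := T5.ds_mm) T5.ok_mm (w := 73) (j := 3) (by decide +kernel)
theorem L06986 : Good (Phi V5.P V5.D (-1) (-1)) ⟨7, 115, 5, 22, 2, 3, 2, 2, 4, 3⟩ :=
  out_sound (S := T5.ds_mm) T5.ok_mm (w := 21) (j := 4) (by decide +kernel)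
theorem L06987 : Good (Phi V5.P V5.D (-1) (-1)) ⟨6, 57, 5, 23, 2, 3, 2, 2, 4, 3⟩ :=
  out_sound (S := T5.ds_mm) T5.ok_mm (w := 67) (j := 3) (by decide +kernel)
theorem L06988 : Good (Phi V5.P V5.D (-1) (-1)) ⟨5, 29, 3, 5, 2, 3, 2, 2, 4, 3⟩ :=
  out_sound (S := T5.ds_mm) T5.ok_mm (w := 17) (j := 4) (by decide +kernel)
theorem L06989 : Good (Phi V5.P V5.D (-1) (-1)) ⟨4, 15, 3, 5, 2, 3, 2, 2, 4, 3⟩ :=
  out_sound (S := T5.ds_mm) T5.ok_mm (w := 51) (j := 3) (by decide +kernel)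
theorem L06990 : Good (Phi V5.P V5.D (-1) (-1)) ⟨2, 2, 2, 3, 2, 3, 2, 2, 2, 0⟩ :=
  out_sound (S := T5.ds_mm) T5.ok_mm (w := 37) (j := 3) (by decide +kernel)
theorem L06991 : Good (Phi V5.P V5.D (-1) (-1)) ⟨3, 6, 2, 3, 2, 3, 2, 2, 2, 0⟩ :=
  out_sound (S := T5.ds_mm) T5.ok_mm (w := 43) (j := 3) (by decide +kernel)
theorem L06992 : Good (Phi V5.P V5.D (-1) (-1)) ⟨5, 28, 3, 6, 2, 3, 2, 2, 2, 0⟩ :=
  out_sound (S := T5.ds_mm) T5.ok_mm (w := 57) (j := 3) (by decide +kernel)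
theorem L06993 : Good (Phi V5.P V5.D (-1) (-1)) ⟨5, 29, 3, 6, 2, 3, 2, 2, 2, 0⟩ :=
  out_sound (S := T5.ds_mm) T5.ok_mm (w := 17) (j := 4) (by decide +kernel)
theorem L06994 : Good (Phi V5.P V5.D (-1) (-1)) ⟨4, 14, 3, 7, 2, 3, 2, 2, 2, 0⟩ :=
  out_sound (S := T5.ds_mm) T5.ok_mm (w := 51) (j := 3) (by decide +kernel)
theorem L06995 : Good (Phi V5.P V5.D (-1) (-1)) ⟨4, 15, 2, 3, 2, 3, 2, 2, 2, 0⟩ :=
  out_sound (S := T5.ds_mm) T5.ok_mm (w := 15) (j := 4) (by decide +kernel)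
theorem L06996 : Good (Phi V5.P V5.D (-1) (-1)) ⟨2, 2, 4, 8, 3, 6, 3, 6, 4, 0⟩ :=
  out_sound (S := T5.ds_mm) T5.ok_mm (w := 41) (j := 3) (by decide +kernel)
theorem L06997 : Good (Phi V5.P V5.D (-1) (-1)) ⟨4, 12, 4, 8, 4, 12, 3, 6, 4, 0⟩ :=
  out_sound (S := T5.ds_mm) T5.ok_mm (w := 53) (j := 3) (by decide +kernel)
theorem L06998 : Good (Phi V5.P V5.D (-1) (-1)) ⟨5, 26, 4, 8, 4, 12, 3, 6, 4, 0⟩ :=
  leafX_sound T5.ok_mm T5.Ymm.bz_eq (w := 254) (c := ⟨⟨.ofNat 1807, .ofNat 254, .ofNat 191, .negSucc 15, .negSucc 1361, .negSucc 2793⟩, ⟨.negSucc 966, .negSucc 192, .negSucc 46, .ofNat 13, .ofNat 746, .ofNat 1524⟩, ⟨.negSucc 1148, .negSucc 302, .negSucc 108, .ofNat 164, .ofNat 914, .ofNat 1807⟩, ⟨.ofNat 2524, .ofNat 301, .ofNat 182, .ofNat 98, .negSucc 2191, .negSucc 4657⟩, ⟨.negSucc 359, .negSucc 83, .negSucc 139, .ofNat 218, .negSucc 294, .negSucc 885⟩, .ofNat 2270, .ofNat 3471,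 .ofNat 0, .ofNat 3471, .ofNat 6360, .ofNat 0, .ofNat 128, .negSucc 449, .negSucc 2322, .ofNat 0, .ofNat 261, .ofNat 1272, .ofNat 0, .ofNat 0, .ofNat 2000, .ofNat 1310, .ofNat 0, .ofNat 0, .ofNat 0, .ofNat 0, .ofNat 0, .ofNat 0, .ofNat 136539646531736438643440781414323985043362414592, .ofNat 0, .ofNat 0, .ofNat 0, .ofNat 181191539996449704425462971104006132048834068480, .ofNat 0, .ofNat 0, .ofNat 0, .ofNat 0, .ofNat 0⟩)
    (by decide +kernel)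
theorem L06999 : Good (Phi V5.P V5.D (-1) (-1)) ⟨6, 54, 4, 8, 4, 12, 3, 6, 4, 0⟩ :=
  leafX_sound T5.ok_mm T5.Ymm.bz_eq (w := 255) (c := ⟨⟨.ofNat 1978, .ofNat 220, .ofNat 43, .negSucc 20, .negSucc 1416, .negSucc 2689⟩, ⟨.negSucc 1145, .negSucc 145, .ofNat 12, .ofNat 20, .ofNat 803, .ofNat 1506⟩, ⟨.negSucc 1349, .negSucc 173, .ofNat 20, .ofNat 148, .ofNat 938, .ofNat 1698⟩, ⟨.ofNat 2841, .ofNat 193, .ofNat 177, .ofNat 45, .negSucc 2348, .negSucc 4641⟩, ⟨.negSucc 167, .negSucc 181, .ofNat 231, .ofNat 128, .negSucc 456, .negSucc 1172⟩, .ofNat 1559, .ofNat 2176, .ofNat 0, .ofNat 2176, .ofNat 3953, .ofNat 0, .ofNat 128, .negSucc 420, .negSucc 1512, .ofNat 0, .ofNat 252, .ofNat 844, .ofNat 0, .ofNat 0, .ofNat 1242, .ofNat 805, .ofNat 0, .ofNat 0, .ofNat 0, .ofNat 0, .ofNat 0, .ofNat 0, .ofNat 0, .ofNat 0, .ofNat 0, .ofNat 0, .ofNat 0, .ofNat 0, .ofNat 0, .ofNat 0, .ofNat 31054545034756760997844832028078053290353360896,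 .ofNat 0⟩)
    (by decide +kernel)
theorem L07000 : Good (Phi V5.P V5.D (-1) (-1)) ⟨6, 55, 4, 8, 4, 12, 3, 6, 4, 0⟩ :=
  leafX_sound T5.ok_mm T5.Ymm.bz_eq (w := 257) (c := ⟨⟨.ofNat 2329, .ofNat 423, .negSucc 199, .ofNat 51, .negSucc 1415, .negSucc 2873⟩, ⟨.negSucc 1411, .negSucc 274, .ofNat 160, .negSucc 32, .ofNat 828, .ofNat 1672⟩, ⟨.negSucc 1714, .negSucc 381, .ofNat 319, .ofNat 97, .ofNat 922, .ofNat 1842⟩, ⟨.ofNat 3190, .ofNat 428, .negSucc 242, .ofNat 141, .negSucc 2287, .negSucc 4689⟩, ⟨.negSucc 364, .negSucc 299, .ofNat 126, .ofNat 109, .negSucc 388, .negSucc 865⟩, .ofNat 2453, .ofNat 3566, .ofNat 0, .ofNat 3566, .ofNat 6095, .ofNat 0, .ofNat 128, .negSucc 432, .negSucc 1868, .ofNat 0, .ofNat 266, .ofNat 1094, .ofNat 0, .ofNat 0, .ofNat 1540, .ofNat 796, .ofNat 0, .ofNat 0, .ofNat 277910579891143776475065507411907383524327424, .ofNat 0, .ofNat 0, .ofNat 0, .ofNat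 129717745733999885342764113944556071957605384192, .ofNat 0, .ofNat 0, .ofNat 0, .ofNat 0, .ofNat 0, .ofNat 0, .ofNat 0, .ofNat 122646324191087475000951653372584581178478034944, .ofNat 0⟩)
    (by decide +kernel)
theorem L07001 : Good (Phi V5.P V5.D (-1) (-1)) ⟨3, 7, 4, 8, 4, 12, 3, 6, 4, 0⟩ :=
  out_sound (S := T5.ds_mm) T5.ok_mm (w := 47) (j := 3) (by decide +kernel)
theorem L07002 : Good (Phi V5.P V5.D (-1) (-1)) ⟨4, 12, 4, 8, 4, 13, 3, 6, 4, 0⟩ :=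
  out_sound (S := T5.ds_mm) T5.ok_mm (w := 53) (j := 3) (by decide +kernel)
theorem L07003 : Good (Phi V5.P V5.D (-1) (-1)) ⟨5, 26, 4, 8, 4, 13, 3, 6, 4, 0⟩ :=
  leafX_sound T5.ok_mm T5.Ymm.bz_eq (w := 255) (c := ⟨⟨.ofNat 1549, .ofNat 57, .negSucc 212, .negSucc 267, .negSucc 1185, .negSucc 1859⟩, ⟨.negSucc 839, .negSucc 49, .ofNat 139, .ofNat 149, .ofNat 641, .ofNat 999⟩, ⟨.negSucc 692, .negSucc 106, .ofNat 293, .ofNat 322, .ofNat 648, .ofNat 910⟩, ⟨.ofNat 2301, .ofNat 33, .negSucc 370, .negSucc 356, .negSucc 2036, .negSucc 3314⟩, ⟨.negSucc 50, .negSucc 51, .negSucc 88, .ofNat 75, .negSucc 486, .negSucc 982⟩, .ofNat 3225, .ofNat 5134, .ofNat 0, .ofNat 5134, .ofNat 9270, .ofNat 0, .ofNat 128, .negSucc 582, .negSucc 2635, .ofNat 0, .ofNat 331, .ofNat 1440, .ofNat 0, .ofNat 0, .ofNat 2074, .ofNat 2047, .ofNat 0, .ofNat 0, .ofNat 713798043954755503577907823029222075464155136,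 .ofNat 0, .ofNat 0, .ofNat 0, .ofNat 431453924215535002659498628365483775483883552768, .ofNat 0, .ofNat 0, .ofNat 0, .ofNat 368292956773065138401251064258832006998063579136, .ofNat 0, .ofNat 0, .ofNat 0, .ofNat 378345832949306347473094187201577257715388907520, .ofNat 0⟩)
    (by decide +kernel)
theorem L07004 : Good (Phi V5.P V5.D (-1) (-1)) ⟨6, 54, 4, 8, 4, 13, 3, 6, 5, 0⟩ :=
  leafX_sound T5.ok_mm T5.Ymm.bz_eq (w := 261) (c := ⟨⟨.ofNat 1792, .ofNat 128, .negSucc 52, .negSucc 438, .negSucc 1420, .negSucc 936⟩, ⟨.negSucc 1019, .negSucc 81, .ofNat 37, .ofNat 250, .ofNat 793, .ofNat 520⟩, ⟨.negSucc 967, .negSucc 81, .ofNat 89, .ofNat 486, .ofNat 823, .ofNat 491⟩, ⟨.ofNat 2730, .ofNat 186, .negSucc 86, .negSucc 577, .negSucc 2564, .negSucc 1722⟩, ⟨.ofNat 123, .ofNat 28, .ofNat 16, .ofNat 118, .negSucc 808, .negSucc 594⟩, .ofNat 1559, .ofNat 2176, .ofNat 0, .ofNat 2176, .ofNat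 3953, .ofNat 0, .ofNat 128, .negSucc 441, .negSucc 1567, .ofNat 0, .ofNat 258, .ofNat 867, .ofNat 0, .ofNat 0, .ofNat 1208, .ofNat 1333, .ofNat 0, .ofNat 0, .ofNat 4521282904524588022895920809589231748017815552, .ofNat 0, .ofNat 0, .ofNat 0, .ofNat 0, .ofNat 0, .ofNat 0, .ofNat 0, .ofNat 2698244420273068364610268351310644248352997244928, .ofNat 0, .ofNat 0, .ofNat 0, .ofNat 0, .ofNat 0⟩)
    (by decide +kernel)
theorem L07005 : Good (Phi V5.P V5.D (-1) (-1)) ⟨6, 54, 4, 8, 4, 13, 3, 6, 5, 1⟩ :=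
  leafX_sound T5.ok_mm T5.Ymm.bz_eq (w := 262) (c := ⟨⟨.ofNat 484, .negSucc 34, .ofNat 197, .negSucc 132, .negSucc 1118, .negSucc 991⟩, ⟨.negSucc 308, .negSucc 1, .negSucc 50, .ofNat 79, .ofNat 623, .ofNat 550⟩, ⟨.negSucc 159, .ofNat 5, .negSucc 84, .ofNat 184, .ofNat 608, .ofNat 476⟩, ⟨.ofNat 369, .negSucc 66, .ofNat 329, .negSucc 188, .negSucc 1919, .negSucc 1776⟩, ⟨.negSucc 615, .negSucc 32, .ofNat 126, .ofNat 10, .negSucc 480, .negSucc 559⟩, .ofNat 2187, .ofNat 3228, .ofNat 0, .ofNat 3228, .ofNat 5741, .ofNat 0, .ofNat 128, .negSucc 364, .negSucc 1777, .ofNat 0, .ofNat 214, .ofNat 992, .ofNat 0, .ofNat 0, .ofNat 1339, .ofNat 828, .ofNat 0, .ofNat 0, .ofNat 2645992021914571271765116245041273825975599104, .ofNat 0, .ofNat 0, .ofNat 0, .ofNat 0, .ofNat 0, .ofNat 0, .ofNat 0, .ofNat 1443574114003741948421688505893159661851763539968, .ofNat 0, .ofNat 0, .ofNat 0, .ofNat 0,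 .ofNat 0⟩)
    (by decide +kernel)
theorem L07006 : Good (Phi V5.P V5.D (-1) (-1)) ⟨6, 55, 4, 8, 4, 13, 3, 6, 5, 0⟩ :=
  leafX_sound T5.ok_mm T5.Ymm.bz_eq (w := 260) (c := ⟨⟨.ofNat 1942, .ofNat 110, .negSucc 63, .negSucc 438, .negSucc 1515, .negSucc 910⟩, ⟨.negSucc 1138, .negSucc 83, .ofNat 37, .ofNat 264, .ofNat 876, .ofNat 518⟩, ⟨.negSucc 1024, .negSucc 83, .ofNat 75, .ofNat 476, .ofNat 872, .ofNat 436⟩, ⟨.ofNat 3060, .ofNat 133, .negSucc 164, .negSucc 591, .negSucc 2748, .negSucc 1713⟩, ⟨.ofNat 371, .negSucc 4, .negSucc 105, .ofNat 73, .negSucc 902, .negSucc 654⟩, .ofNat 1576, .ofNat 2144, .ofNat 0, .ofNat 2144, .ofNat 3768, .ofNat 0, .ofNat 128, .negSucc 367, .negSucc 1494, .ofNat 0, .ofNat 221, .ofNat 853, .ofNat 0, .ofNat 0, .ofNat 1140, .ofNat 1757, .ofNat 0, .ofNat 0, .ofNat 2652422112565630819526895936973511684628938752, .ofNat 0, .ofNat 0, .ofNat 0, .ofNat 2826413189005545405065248109629004439801330401280,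 .ofNat 0, .ofNat 0, .ofNat 0, .ofNat 1070643905625161355238815842028090666516815544320, .ofNat 0, .ofNat 0, .ofNat 0, .ofNat 2206816330830609690958180366683694284144455450624, .ofNat 0⟩)
    (by decide +kernel)
theorem L07007 : Good (Phi V5.P V5.D (-1) (-1)) ⟨6, 55, 4, 8, 4, 13, 3, 6, 5, 1⟩ :=
  leafX_sound T5.ok_mm T5.Ymm.bz_eq (w := 262) (c := ⟨⟨.ofNat 413, .negSucc 239, .ofNat 345, .negSucc 182, .negSucc 1131, .negSucc 1112⟩, ⟨.negSucc 312, .ofNat 122, .negSucc 137, .ofNat 108, .ofNat 658, .ofNat 643⟩, ⟨.negSucc 120, .ofNat 171, .negSucc 182, .ofNat 220, .ofNat 597, .ofNat 547⟩, ⟨.ofNat 303, .negSucc 422, .ofNat 528, .negSucc 248, .negSucc 1996, .negSucc 1986⟩, ⟨.negSucc 548, .negSucc 135, .ofNat 104, .ofNat 28, .negSucc 592, .negSucc 623⟩, .ofNat 2048, .ofNat 2869, .ofNat 0, .ofNat 2869, .ofNat 4905, .ofNat 0, .ofNat 128, .negSucc 430, .negSucc 2268, .ofNat 0, .ofNat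 261, .ofNat 1290, .ofNat 0, .ofNat 0, .ofNat 1649, .ofNat 2082, .ofNat 0, .ofNat 0, .ofNat 2949624176583133163947677793124466834540593152, .ofNat 0, .ofNat 0, .ofNat 0, .ofNat 5307960279300007328437910576205446835597247250432, .ofNat 0, .ofNat 0, .ofNat 0, .ofNat 2009542149283366265356904534669054921678574845952, .ofNat 0, .ofNat 0, .ofNat 0, .ofNat 1360809764965659451742040112132397811441369874432, .ofNat 0⟩)
    (by decide +kernel)
theorem L07008 : Good (Phi V5.P V5.D (-1) (-1)) ⟨3, 7, 4, 8, 4, 13, 3, 6, 4, 0⟩ :=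
  out_sound (S := T5.ds_mm) T5.ok_mm (w := 47) (j := 3) (by decide +kernel)
theorem L07009 : Good (Phi V5.P V5.D (-1) (-1)) ⟨2, 2, 4, 8, 3, 6, 4, 12, 4, 1⟩ :=
  out_sound (S := T5.ds_mm) T5.ok_mm (w := 41) (j := 3) (by decide +kernel)
theorem L07010 : Good (Phi V5.P V5.D (-1) (-1)) ⟨4, 12, 4, 8, 3, 6, 4, 12, 5, 2⟩ :=
  out_sound (S := T5.ds_mm) T5.ok_mm (w := 53) (j := 3) (by decide +kernel)
theorem L07011 : Good (Phi V5.P V5.D (-1) (-1)) ⟨5, 26, 4, 8, 3, 6, 4, 12, 5, 2⟩ :=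
  leafX_sound T5.ok_mm T5.Ymm.bz_eq (w := 251) (c := ⟨⟨.negSucc 1773, .negSucc 2, .negSucc 28, .ofNat 1224, .negSucc 189, .negSucc 951⟩, ⟨.ofNat 975, .negSucc 37, .ofNat 129, .negSucc 675, .ofNat 105, .ofNat 518⟩, ⟨.ofNat 1341, .negSucc 156, .ofNat 104, .negSucc 813, .ofNat 88, .ofNat 412⟩, ⟨.negSucc 3481, .ofNat 112, .ofNat 18, .ofNat 1851, .negSucc 303, .negSucc 1624⟩, ⟨.negSucc 1406, .ofNat 94, .ofNat 211, .ofNat 49, .negSucc 38, .negSucc 371⟩, .ofNat 3248, .ofNat 5181, .ofNat 0, .ofNat 5181, .ofNat 9365, .ofNat 0, .ofNat 128, .negSucc 560, .negSucc 4009, .ofNat 0, .ofNat 321, .ofNat 2197, .ofNat 0, .ofNat 0, .ofNat 3119, .ofNat 1391, .ofNat 0, .ofNat 0, .ofNat 2720188087007311282374980855367136798834688, .ofNat 0, .ofNat 0, .ofNat 0, .ofNat 11381069043211699511518127603618377681722146816, .ofNat 0, .ofNat 0, .ofNat 0, .ofNat 8309846037464242095463621999113524231830241280,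 .ofNat 0, .ofNat 0, .ofNat 0, .ofNat 0, .ofNat 0⟩)
    (by decide +kernel)
theorem L07012 : Good (Phi V5.P V5.D (-1) (-1)) ⟨5, 27, 4, 8, 4, 12, 4, 12, 5, 2⟩ :=
  leafX_sound T5.ok_mm T5.Ymm.bz_eq (w := 261) (c := ⟨⟨.negSucc 1699, .negSucc 911, .ofNat 414, .ofNat 778, .negSucc 216, .negSucc 1285⟩, ⟨.ofNat 889, .ofNat 469, .negSucc 98, .negSucc 455, .ofNat 125, .ofNat 740⟩, ⟨.ofNat 1139, .ofNat 604, .negSucc 248, .negSucc 567, .ofNat 110, .ofNat 681⟩, ⟨.negSucc 3252, .negSucc 1630, .ofNat 784, .ofNat 1200, .negSucc 313, .negSucc 2260⟩, ⟨.negSucc 1325, .negSucc 600, .ofNat 358, .ofNat 109, .ofNat 30, .negSucc 629⟩, .ofNat 1379, .ofNat 1837, .ofNat 0, .ofNat 1837, .ofNat 3305, .ofNat 0, .ofNat 128, .negSucc 331, .negSucc 2547, .ofNat 0, .ofNat 202, .ofNat 1432, .ofNat 0, .ofNat 0, .ofNat 1924, .ofNat 694, .ofNat 0, .ofNat 0, .ofNat 0, .ofNat 0, .ofNat 0, .ofNat 0, .ofNat 90838855608709938754518061739566355110202229915648,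 .ofNat 0, .ofNat 0, .ofNat 0, .ofNat 36544424075538922493989359376531605370153576955904, .ofNat 0, .ofNat 0, .ofNat 0, .ofNat 390850505638081979492747846400013663287195367112704, .ofNat 0⟩)
    (by decide +kernel)
theorem L07013 : Good (Phi V5.P V5.D (-1) (-1)) ⟨5, 27, 4, 8, 4, 13, 4, 12, 5, 2⟩ :=
  leafX_sound T5.ok_mm T5.Ymm.bz_eq (w := 261) (c := ⟨⟨.negSucc 1313, .negSucc 585, .ofNat 416, .ofNat 646, .negSucc 132, .negSucc 894⟩, ⟨.ofNat 674, .ofNat 296, .negSucc 129, .negSucc 370, .ofNat 76, .ofNat 512⟩, ⟨.ofNat 895, .ofNat 337, .negSucc 226, .negSucc 399, .ofNat 21, .ofNat 357⟩, ⟨.negSucc 2616, .negSucc 924, .ofNat 551, .ofNat 1042, .negSucc 227, .negSucc 1674⟩, ⟨.negSucc 1208, .negSucc 208, .negSucc 16, .ofNat 181, .negSucc 49, .negSucc 630⟩, .ofNat 2007, .ofNat 2865, .ofNat 0, .ofNat 2865, .ofNat 5010, .ofNat 0, .ofNat 128, .negSucc 322, .negSucc 1714, .ofNat 0, .ofNat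 193, .ofNat 970, .ofNat 0, .ofNat 0, .ofNat 1216, .ofNat 1447, .ofNat 0, .ofNat 0, .ofNat 0, .ofNat 0, .ofNat 0, .ofNat 0, .ofNat 43447159599001001923163216816840872261638900678656, .ofNat 0, .ofNat 0, .ofNat 0, .ofNat 54469342146485468335658094430470219737259487264768, .ofNat 0, .ofNat 0, .ofNat 0, .ofNat 83798313202435804021333993333922738239379976749056, .ofNat 0⟩)
    (by decide +kernel)
theorem L07014 : Good (Phi V5.P V5.D (-1) (-1)) ⟨3, 7, 4, 8, 3, 6, 4, 12, 5, 2⟩ :=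
  out_sound (S := T5.ds_mm) T5.ok_mm (w := 47) (j := 3) (by decide +kernel)
theorem L07015 : Good (Phi V5.P V5.D (-1) (-1)) ⟨4, 12, 4, 8, 3, 6, 4, 12, 5, 3⟩ :=
  out_sound (S := T5.ds_mm) T5.ok_mm (w := 53) (j := 3) (by decide +kernel)
theorem L07016 : Good (Phi V5.P V5.D (-1) (-1)) ⟨4, 13, 4, 8, 3, 6, 4, 12, 5, 3⟩ :=
  leafX_sound T5.ok_mm T5.Ymm.bz_eq (w := 242) (c := ⟨⟨.negSucc 2933, .negSucc 769, .ofNat 231, .ofNat 1582, .ofNat 252, .ofNat 135⟩, ⟨.ofNat 1648, .ofNat 330, .ofNat 29, .negSucc 930, .negSucc 147, .negSucc 74⟩, ⟨.ofNat 1869, .ofNat 375, .negSucc 105, .negSucc 1103, .negSucc 219, .negSucc 300⟩, ⟨.negSucc 5456, .negSucc 936, .ofNat 228, .ofNat 2449, .ofNat 434, .ofNat 247⟩, ⟨.negSucc 1893, .ofNat 132, .negSucc 146, .ofNat 231, .ofNat 127, .ofNat 93⟩, .ofNat 1489, .ofNat 2048, .ofNat 0, .ofNat 2048, .ofNat 3717, .ofNat 0, .ofNat 128, .negSucc 453, .negSucc 1196,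 .ofNat 0, .ofNat 270, .ofNat 667, .ofNat 0, .ofNat 0, .ofNat 928, .ofNat 534, .ofNat 0, .ofNat 0, .ofNat 0, .ofNat 0, .ofNat 0, .ofNat 0, .ofNat 4542441226149295437111410923630336797757669376, .ofNat 0, .ofNat 0, .ofNat 0, .ofNat 0, .ofNat 0, .ofNat 0, .ofNat 0, .ofNat 17441142359125272710487216674430709348062724096, .ofNat 0⟩)
    (by decide +kernel)
theorem L07017 : Good (Phi V5.P V5.D (-1) (-1)) ⟨3, 7, 4, 8, 3, 6, 4, 12, 5, 3⟩ :=
  out_sound (S := T5.ds_mm) T5.ok_mm (w := 47) (j := 3) (by decide +kernel)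
theorem L07018 : Good (Phi V5.P V5.D (-1) (-1)) ⟨2, 2, 4, 8, 3, 6, 4, 13, 4, 1⟩ :=
  out_sound (S := T5.ds_mm) T5.ok_mm (w := 41) (j := 3) (by decide +kernel)
theorem L07019 : Good (Phi V5.P V5.D (-1) (-1)) ⟨4, 12, 4, 8, 4, 12, 4, 13, 5, 2⟩ :=
  out_sound (S := T5.ds_mm) T5.ok_mm (w := 53) (j := 3) (by decide +kernel)
theorem L07020 : Good (Phi V5.P V5.D (-1) (-1)) ⟨5, 26, 4, 8, 4, 12, 4, 13, 5, 2⟩ :=
  leafX_sound T5.ok_mm T5.Ymm.bz_eq (w := 265) (c := ⟨⟨.negSucc 1470, .negSucc 798, .ofNat 358, .ofNat 740, .ofNat 105, .negSucc 741⟩, ⟨.ofNat 795, .ofNat 412, .negSucc 69, .negSucc 410, .negSucc 55, .ofNat 406⟩, ⟨.ofNat 978, .ofNat 541, .negSucc 230, .negSucc 561, .negSucc 131, .ofNat 304⟩, ⟨.negSucc 3306, .negSucc 849, .ofNat 356, .ofNat 1072, .ofNat 186, .negSucc 1168⟩, ⟨.negSucc 1746, .ofNat 315, .negSucc 151, .negSucc 51, .ofNat 56, .negSucc 108⟩, .ofNat 3162, .ofNat 5023,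 .ofNat 0, .ofNat 5023, .ofNat 9076, .ofNat 0, .ofNat 128, .negSucc 462, .negSucc 3662, .ofNat 0, .ofNat 267, .ofNat 2009, .ofNat 0, .ofNat 0, .ofNat 2932, .ofNat 4068, .ofNat 0, .ofNat 0, .ofNat 0, .ofNat 0, .ofNat 0, .ofNat 0, .ofNat 234687105237570665551732682533589369724182215000064, .ofNat 0, .ofNat 0, .ofNat 0, .ofNat 104675350033734119840733873855810227641029912166400, .ofNat 0, .ofNat 0, .ofNat 0, .ofNat 0, .ofNat 0⟩)
    (by decide +kernel)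
theorem L07021 : Good (Phi V5.P V5.D (-1) (-1)) ⟨5, 27, 4, 8, 4, 12, 4, 13, 5, 2⟩ :=
  leafX_sound T5.ok_mm T5.Ymm.bz_eq (w := 262) (c := ⟨⟨.negSucc 2473, .negSucc 790, .ofNat 515, .ofNat 814, .ofNat 269, .negSucc 695⟩, ⟨.ofNat 1324, .ofNat 427, .negSucc 160, .negSucc 474, .negSucc 155, .ofNat 403⟩, ⟨.ofNat 1686, .ofNat 523, .negSucc 341, .negSucc 631, .negSucc 249, .ofNat 261⟩, ⟨.negSucc 4431, .negSucc 1294, .ofNat 816, .ofNat 1166, .ofNat 423, .negSucc 1230⟩, ⟨.negSucc 1379, .negSucc 400, .ofNat 194, .negSucc 34, .ofNat 64, .negSucc 372⟩, .ofNat 2007, .ofNat 2865, .ofNat 0, .ofNat 2865, .ofNat 5010, .ofNat 0, .ofNat 128, .negSucc 339, .negSucc 1947, .ofNat 0, .ofNat 207, .ofNat 1109, .ofNat 0, .ofNat 0, .ofNat 1500, .ofNat 1493, .ofNat 0, .ofNat 0, .ofNat 0, .ofNat 0, .ofNat 0, .ofNat 0, .ofNat 21977162155099643055926459545168682096721051779072, .ofNat 0, .ofNat 0, .ofNat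 0, .ofNat 0, .ofNat 0, .ofNat 0, .ofNat 0, .ofNat 156481308455908252409808709681700283524130000601088, .ofNat 0⟩)
    (by decide +kernel)
theorem L07022 : Good (Phi V5.P V5.D (-1) (-1)) ⟨4, 12, 4, 8, 4, 13, 4, 13, 5, 2⟩ :=
  out_sound (S := T5.ds_mm) T5.ok_mm (w := 53) (j := 3) (by decide +kernel)
theorem L07023 : Good (Phi V5.P V5.D (-1) (-1)) ⟨5, 26, 4, 8, 4, 13, 4, 13, 5, 2⟩ :=
  leafX_sound T5.ok_mm T5.Ymm.bz_eq (w := 265) (c := ⟨⟨.negSucc 1576, .negSucc 138, .ofNat 120, .ofNat 639, .ofNat 88, .negSucc 324⟩, ⟨.ofNat 865, .ofNat 32, .ofNat 50, .negSucc 350, .negSucc 46, .ofNat 177⟩, ⟨.ofNat 1034, .ofNat 62, .negSucc 49, .negSucc 408, .negSucc 129, .ofNat 3⟩, ⟨.negSucc 3291, .negSucc 101, .ofNat 144, .ofNat 1012, .ofNat 171, .negSucc 565⟩, ⟨.negSucc 1598, .ofNat 75, .ofNat 41, .ofNat 111, .ofNat 69, .negSucc 146⟩, .ofNat 3134, .ofNat 4977, .ofNat 0, .ofNat 4977, .ofNat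 9001, .ofNat 0, .ofNat 128, .negSucc 676, .negSucc 3685, .ofNat 0, .ofNat 386, .ofNat 2011, .ofNat 0, .ofNat 0, .ofNat 2768, .ofNat 7812, .ofNat 0, .ofNat 0, .ofNat 0, .ofNat 0, .ofNat 0, .ofNat 0, .ofNat 246456748977603928135536856915055331989961758998528, .ofNat 0, .ofNat 0, .ofNat 0, .ofNat 260825204625038557159752634715331890378502393823232, .ofNat 0, .ofNat 0, .ofNat 0, .ofNat 526677835367323879739136776967314286628734410686464, .ofNat 0⟩)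
    (by decide +kernel)
theorem L07024 : Good (Phi V5.P V5.D (-1) (-1)) ⟨5, 27, 4, 8, 4, 13, 4, 13, 5, 2⟩ :=
  leafX_sound T5.ok_mm T5.Ymm.bz_eq (w := 262) (c := ⟨⟨.negSucc 1812, .negSucc 307, .ofNat 198, .ofNat 696, .ofNat 173, .negSucc 290⟩, ⟨.ofNat 958, .ofNat 128, .ofNat 1, .negSucc 399, .negSucc 97, .ofNat 168⟩, ⟨.ofNat 1165, .ofNat 146, .negSucc 85, .negSucc 443, .negSucc 187, .negSucc 25⟩, ⟨.negSucc 3552, .negSucc 582, .ofNat 288, .ofNat 1111, .ofNat 339, .negSucc 515⟩, ⟨.negSucc 1565, .negSucc 308, .ofNat 76, .ofNat 167, .ofNat 152, .negSucc 152⟩, .ofNat 2007, .ofNat 2865, .ofNat 0, .ofNat 2865, .ofNat 5010, .ofNat 0, .ofNat 128, .negSucc 348, .negSucc 1798, .ofNat 0, .ofNat 208, .ofNat 1015, .ofNat 0, .ofNat 0, .ofNat 1277, .ofNat 1686, .ofNat 0, .ofNat 0, .ofNat 0, .ofNat 0, .ofNat 0, .ofNat 0, .ofNat 40168121242411973893188843180167694904124038447104, .ofNat 0,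 .ofNat 0, .ofNat 0, .ofNat 63014995911110551954241874237974231653714529091584, .ofNat 0, .ofNat 0, .ofNat 0, .ofNat 83128104935548858869788613311629793694873951404032, .ofNat 0⟩)
    (by decide +kernel)
theorem L07025 : Good (Phi V5.P V5.D (-1) (-1)) ⟨4, 12, 4, 8, 3, 6, 4, 13, 5, 3⟩ :=
  out_sound (S := T5.ds_mm) T5.ok_mm (w := 53) (j := 3) (by decide +kernel)
theorem L07026 : Good (Phi V5.P V5.D (-1) (-1)) ⟨4, 13, 4, 8, 3, 6, 4, 13, 5, 3⟩ :=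
  leafX_sound T5.ok_mm T5.Ymm.bz_eq (w := 242) (c := ⟨⟨.negSucc 2787, .negSucc 537, .ofNat 205, .ofNat 1526, .ofNat 384, .ofNat 145⟩, ⟨.ofNat 1565, .ofNat 207, .ofNat 24, .negSucc 892, .negSucc 212, .negSucc 80⟩, ⟨.ofNat 1658, .ofNat 318, .negSucc 127, .negSucc 1049, .negSucc 306, .negSucc 304⟩, ⟨.negSucc 5263, .negSucc 589, .ofNat 202, .ofNat 2383, .ofNat 721, .ofNat 377⟩, ⟨.negSucc 1947, .ofNat 168, .negSucc 117, .ofNat 259, .ofNat 275, .ofNat 287⟩, .ofNat 1475, .ofNat 2017, .ofNat 0, .ofNat 2017, .ofNat 3649, .ofNat 0, .ofNat 128, .negSucc 437, .negSucc 1298, .ofNat 0, .ofNat 262, .ofNat 723, .ofNat 0, .ofNat 0, .ofNat 1010, .ofNat 941, .ofNat 0, .ofNat 0, .ofNat 0, .ofNat 0, .ofNat 0, .ofNat 0, .ofNat 3875185498314984004324636117228039063885316096, .ofNat 0, .ofNat 0, .ofNat 0, .ofNat 3964748988265747138399592755358673615515025408, .ofNat 0, .ofNat 0, .ofNat 0, .ofNat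 21167578097868317290227939464977495365846564864, .ofNat 0⟩)
    (by decide +kernel)
theorem L07027 : Good (Phi V5.P V5.D (-1) (-1)) ⟨3, 7, 4, 8, 3, 6, 4, 13, 4, 1⟩ :=
  out_sound (S := T5.ds_mm) T5.ok_mm (w := 47) (j := 3) (by decide +kernel)
theorem L07028 : Good (Phi V5.P V5.D (-1) (-1)) ⟨2, 2, 4, 9, 3, 6, 3, 6, 4, 0⟩ :=
  out_sound (S := T5.ds_mm) T5.ok_mm (w := 41) (j := 3) (by decide +kernel)
theorem L07029 : Good (Phi V5.P V5.D (-1) (-1)) ⟨4, 12, 5, 18, 3, 6, 3, 6, 4, 0⟩ :=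
  out_sound (S := T5.ds_mm) T5.ok_mm (w := 55) (j := 3) (by decide +kernel)
theorem L07030 : Good (Phi V5.P V5.D (-1) (-1)) ⟨5, 26, 5, 18, 3, 6, 3, 6, 4, 0⟩ :=
  out_sound (S := T5.ds_mm) T5.ok_mm (w := 61) (j := 3) (by decide +kernel)
theorem L07031 : Good (Phi V5.P V5.D (-1) (-1)) ⟨6, 54, 5, 18, 3, 6, 3, 6, 4, 0⟩ :=
  out_sound (S := T5.ds_mm) T5.ok_mm (w := 67) (j := 3) (by decide +kernel)
theorem L07032 : Good (Phi V5.P V5.D (-1) (-1)) ⟨6, 55, 5, 18, 4, 12, 3, 6, 4, 0⟩ :=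
  leafX_sound T5.ok_mm T5.Ymm.bz_eq (w := 263) (c := ⟨⟨.ofNat 2178, .ofNat 33, .ofNat 157, .negSucc 105, .negSucc 1528, .negSucc 2536⟩, ⟨.negSucc 1322, .negSucc 42, .negSucc 72, .ofNat 70, .ofNat 918, .ofNat 1520⟩, ⟨.negSucc 1457, .negSucc 24, .negSucc 110, .ofNat 220, .ofNat 1007, .ofNat 1578⟩, ⟨.ofNat 3019, .negSucc 22, .ofNat 188, .negSucc 6, .negSucc 2454, .negSucc 4270⟩, ⟨.negSucc 227, .negSucc 87, .negSucc 51, .ofNat 235, .negSucc 405, .negSucc 991⟩, .ofNat 3216, .ofNat 4755, .ofNat 0, .ofNat 4755, .ofNat 7928, .ofNat 0, .ofNat 128, .negSucc 660, .negSucc 3220, .ofNat 0, .ofNat 410, .ofNat 1936, .ofNat 0, .ofNat 0, .ofNat 2639, .ofNat 1011, .ofNat 0, .ofNat 0, .ofNat 0, .ofNat 0, .ofNat 0, .ofNat 0, .ofNat 427237316835652456711477867816889157882713473024, .ofNat 0, .ofNat 0, .ofNat 0, .ofNat 0, .ofNat 0, .ofNat 0, .ofNat 0, .ofNat 0, .ofNat 0⟩)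
    (by decide +kernel)
theorem L07033 : Good (Phi V5.P V5.D (-1) (-1)) ⟨6, 55, 5, 18, 4, 13, 3, 6, 5, 0⟩ :=
  leafX_sound T5.ok_mm T5.Ymm.bz_eq (w := 266) (c := ⟨⟨.ofNat 1803, .ofNat 130, .ofNat 18, .negSucc 393, .negSucc 1479, .negSucc 874⟩, ⟨.negSucc 1087, .negSucc 110, .ofNat 3, .ofNat 247, .ofNat 890, .ofNat 522⟩, ⟨.negSucc 908, .negSucc 74, .negSucc 7, .ofNat 470, .ofNat 845, .ofNat 412⟩, ⟨.ofNat 2806, .ofNat 167, .ofNat 34, .negSucc 466, .negSucc 2736, .negSucc 1667⟩, ⟨.ofNat 303, .ofNat 10, .ofNat 14, .ofNat 163, .negSucc 976, .negSucc 663⟩, .ofNat 2414, .ofNat 3454, .ofNat 0, .ofNat 3454, .ofNat 5810, .ofNat 0, .ofNat 128, .negSucc 680, .negSucc 2021, .ofNat 0, .ofNat 417, .ofNat 1201, .ofNat 0, .ofNat 0, .ofNat 1537, .ofNat 2888, .ofNat 0, .ofNat 0, .ofNat 0, .ofNat 0, .ofNat 0, .ofNat 0, .ofNat 5155965217993446084809072698023708073614947385344, .ofNat 0, .ofNat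 0, .ofNat 0, .ofNat 0, .ofNat 0, .ofNat 0, .ofNat 0, .ofNat 20338949190015703738464786728215409244541493968896, .ofNat 0⟩)
    (by decide +kernel)
theorem L07034 : Good (Phi V5.P V5.D (-1) (-1)) ⟨6, 55, 5, 18, 4, 13, 3, 6, 5, 1⟩ :=
  leafX_sound T5.ok_mm T5.Ymm.bz_eq (w := 267) (c := ⟨⟨.ofNat 735, .negSucc 151, .ofNat 104, .negSucc 193, .negSucc 1159, .negSucc 1040⟩, ⟨.negSucc 455, .ofNat 67, .negSucc 30, .ofNat 115, .ofNat 695, .ofNat 622⟩, ⟨.negSucc 293, .ofNat 97, .negSucc 39, .ofNat 236, .ofNat 617, .ofNat 497⟩, ⟨.ofNat 884, .negSucc 252, .ofNat 143, .negSucc 257, .negSucc 2145, .negSucc 1960⟩, ⟨.negSucc 304, .negSucc 51, .ofNat 12, .ofNat 37, .negSucc 770, .negSucc 747⟩, .ofNat 2434, .ofNat 3488, .ofNat 0, .ofNat 3488, .ofNat 5868, .ofNat 0, .ofNat 128, .negSucc 678, .negSucc 2914, .ofNat 0, .ofNat 415, .ofNat 1729, .ofNat 0, .ofNat 0, .ofNat 2093, .ofNat 2910, .ofNat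 0, .ofNat 0, .ofNat 0, .ofNat 0, .ofNat 0, .ofNat 0, .ofNat 5426671621773610154372172109761502668110958690304, .ofNat 0, .ofNat 0, .ofNat 0, .ofNat 18616715860600867293342975620487008997466963968000, .ofNat 0, .ofNat 0, .ofNat 0, .ofNat 0, .ofNat 0⟩)
    (by decide +kernel)
theorem L07035 : Good (Phi V5.P V5.D (-1) (-1)) ⟨3, 7, 5, 18, 3, 6, 3, 6, 4, 0⟩ :=
  out_sound (S := T5.ds_mm) T5.ok_mm (w := 49) (j := 3) (by decide +kernel)
theorem L07036 : Good (Phi V5.P V5.D (-1) (-1)) ⟨4, 12, 5, 19, 3, 6, 3, 6, 4, 0⟩ :=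
  out_sound (S := T5.ds_mm) T5.ok_mm (w := 55) (j := 3) (by decide +kernel)
theorem L07037 : Good (Phi V5.P V5.D (-1) (-1)) ⟨5, 26, 5, 19, 3, 6, 3, 6, 4, 0⟩ :=
  out_sound (S := T5.ds_mm) T5.ok_mm (w := 61) (j := 3) (by decide +kernel)
theorem L07038 : Good (Phi V5.P V5.D (-1) (-1)) ⟨5, 27, 5, 19, 4, 12, 3, 6, 5, 0⟩ :=
  leafX_sound T5.ok_mm T5.Ymm.bz_eq (w := 266) (c := ⟨⟨.ofNat 2033, .ofNat 399, .negSucc 181, .negSucc 355, .negSucc 1571, .negSucc 1059⟩, ⟨.negSucc 1225, .negSucc 290, .ofNat 119, .ofNat 224, .ofNat 969, .ofNat 651⟩, ⟨.negSucc 1302, .negSucc 422, .ofNat 280, .ofNat 503, .ofNat 1055, .ofNat 653⟩, ⟨.ofNat 2903, .ofNat 353, .negSucc 165, .negSucc 463, .negSucc 2434, .negSucc 1650⟩, ⟨.negSucc 204, .negSucc 155, .ofNat 145, .ofNat 79, .negSucc 291, .negSucc 215⟩, .ofNat 5943, .ofNat 8990, .ofNat 0, .ofNat 8990, .ofNat 14496, .ofNat 0, .ofNat 128, .negSucc 1108,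 .negSucc 3864, .ofNat 0, .ofNat 700, .ofNat 2388, .ofNat 0, .ofNat 0, .ofNat 3281, .ofNat 4149, .ofNat 0, .ofNat 0, .ofNat 0, .ofNat 0, .ofNat 0, .ofNat 0, .ofNat 172154168807395609808705135408608934901099846959104, .ofNat 0, .ofNat 0, .ofNat 0, .ofNat 337514481888633541951466004668583810830530471002112, .ofNat 0, .ofNat 0, .ofNat 0, .ofNat 0, .ofNat 0⟩)
    (by decide +kernel)
theorem L07039 : Good (Phi V5.P V5.D (-1) (-1)) ⟨5, 27, 5, 19, 4, 13, 3, 6, 5, 0⟩ :=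
  leafX_sound T5.ok_mm T5.Ymm.bz_eq (w := 261) (c := ⟨⟨.ofNat 1925, .ofNat 101, .ofNat 32, .negSucc 445, .negSucc 1621, .negSucc 1019⟩, ⟨.negSucc 1167, .negSucc 88, .negSucc 10, .ofNat 279, .ofNat 995, .ofNat 623⟩, ⟨.negSucc 944, .negSucc 88, .ofNat 23, .ofNat 499, .ofNat 940, .ofNat 530⟩, ⟨.ofNat 3014, .ofNat 148, .ofNat 44, .negSucc 589, .negSucc 2946, .negSucc 1881⟩, ⟨.ofNat 374, .ofNat 26, .ofNat 15, .ofNat 83, .negSucc 983, .negSucc 670⟩, .ofNat 1938, .ofNat 2662, .ofNat 0, .ofNat 2662, .ofNat 4468, .ofNat 0, .ofNat 128, .negSucc 775, .negSucc 2479, .ofNat 0, .ofNat 480, .ofNat 1483, .ofNat 0, .ofNat 0, .ofNat 1835, .ofNat 2988, .ofNat 0, .ofNat 0, .ofNat 0, .ofNat 0, .ofNat 0, .ofNat 0, .ofNat 63643548620090521921180347407319854152201575333888, .ofNat 0, .ofNat 0, .ofNat 0, .ofNat 112293869496235480750523391594043569908341404598272, .ofNat 0, .ofNat 0, .ofNat 0, .ofNat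 40765313180177507627754014390928494937828535304192, .ofNat 0⟩)
    (by decide +kernel)
theorem L07040 : Good (Phi V5.P V5.D (-1) (-1)) ⟨6, 54, 6, 38, 3, 6, 3, 6, 5, 1⟩ :=
  out_sound (S := T5.ds_mm) T5.ok_mm (w := 69) (j := 3) (by decide +kernel)
theorem L07041 : Good (Phi V5.P V5.D (-1) (-1)) ⟨6, 55, 6, 38, 3, 6, 3, 6, 5, 1⟩ :=
  leafX_sound T5.ok_mm T5.Ymm.bz_eq (w := 260) (c := ⟨⟨.ofNat 601, .ofNat 20, .ofNat 155, .ofNat 6, .negSucc 1089, .negSucc 1138⟩, ⟨.negSucc 366, .negSucc 33, .negSucc 80, .negSucc 0, .ofNat 671, .ofNat 699⟩, ⟨.negSucc 335, .ofNat 11, .negSucc 122, .ofNat 210, .ofNat 605, .ofNat 581⟩, ⟨.ofNat 334, .ofNat 57, .ofNat 185, .ofNat 33, .negSucc 1707, .negSucc 1804⟩, ⟨.negSucc 839, .ofNat 42, .negSucc 45, .ofNat 40, .negSucc 237, .negSucc 282⟩, .ofNat 6269, .ofNat 9502, .ofNat 0, .ofNat 9502, .ofNat 15298, .ofNat 0, .ofNat 128, .negSucc 1074, .negSucc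 5313, .ofNat 0, .ofNat 675, .ofNat 3276, .ofNat 0, .ofNat 0, .ofNat 4038, .ofNat 3211, .ofNat 0, .ofNat 0, .ofNat 0, .ofNat 0, .ofNat 0, .ofNat 0, .ofNat 6631449549533596626341605422435891236562796544, .ofNat 0, .ofNat 0, .ofNat 0, .ofNat 2711731936590067457965338194012262605854343168, .ofNat 0, .ofNat 0, .ofNat 0, .ofNat 0, .ofNat 0⟩)
    (by decide +kernel)
theorem L07042 : Good (Phi V5.P V5.D (-1) (-1)) ⟨5, 27, 6, 39, 3, 6, 3, 6, 5, 1⟩ :=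
  out_sound (S := T5.ds_mm) T5.ok_mm (w := 63) (j := 3) (by decide +kernel)
theorem L07043 : Good (Phi V5.P V5.D (-1) (-1)) ⟨7, 112, 5, 19, 4, 12, 3, 6, 5, 0⟩ :=
  leafX_sound T5.ok_mm T5.Ymm.bz_eq (w := 270) (c := ⟨⟨.ofNat 2388, .ofNat 161, .negSucc 66, .negSucc 372, .negSucc 1560, .negSucc 985⟩, ⟨.negSucc 1508, .negSucc 99, .ofNat 23, .ofNat 243, .ofNat 986, .ofNat 625⟩, ⟨.negSucc 1671, .negSucc 146, .ofNat 81, .ofNat 519, .ofNat 1041, .ofNat 602⟩, ⟨.ofNat 3372, .ofNat 230, .negSucc 100, .negSucc 425, .negSucc 2637, .negSucc 1725⟩, ⟨.negSucc 82, .ofNat 16, .ofNat 17, .ofNat 166, .negSucc 635, .negSucc 501⟩, .ofNat 2066, .ofNat 2825, .ofNat 0, .ofNat 2825, .ofNat 4649, .ofNat 0, .ofNat 128, .negSucc 900, .negSucc 3171, .ofNat 0, .ofNat 577, .ofNat 1951, .ofNat 0, .ofNat 0, .ofNat 2602, .ofNat 1729, .ofNat 0, .ofNat 0, .ofNat 0, .ofNat 0, .ofNat 0, .ofNat 0, .ofNat 9415850889974471962606780177269081179331267395584,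 .ofNat 0, .ofNat 0, .ofNat 0, .ofNat 0, .ofNat 0, .ofNat 0, .ofNat 0, .ofNat 0, .ofNat 0⟩)
    (by decide +kernel)
theorem L07044 : Good (Phi V5.P V5.D (-1) (-1)) ⟨7, 112, 5, 19, 4, 13, 3, 6, 5, 0⟩ :=
  leafX_sound T5.ok_mm T5.Ymm.bz_eq (w := 270) (c := ⟨⟨.ofNat 2010, .ofNat 88, .negSucc 25, .negSucc 437, .negSucc 1571, .negSucc 969⟩, ⟨.negSucc 1266, .negSucc 70, .ofNat 23, .ofNat 280, .ofNat 988, .ofNat 604⟩, ⟨.negSucc 1042, .negSucc 57, .ofNat 37, .ofNat 516, .ofNat 907, .ofNat 510⟩, ⟨.ofNat 3164, .ofNat 123, .negSucc 61, .negSucc 561, .negSucc 2912, .negSucc 1788⟩, ⟨.ofNat 448, .ofNat 14, .negSucc 29, .ofNat 100, .negSucc 1049, .negSucc 636⟩, .ofNat 2996, .ofNat 4267, .ofNat 0, .ofNat 4267, .ofNat 6896, .ofNat 0, .ofNat 128, .negSucc 657, .negSucc 2084, .ofNat 0, .ofNat 416, .ofNat 1292, .ofNat 0, .ofNat 0, .ofNat 1566, .ofNat 2291, .ofNat 0, .ofNat 0, .ofNat 5257597970715215986477603050372315191244226560,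 .ofNat 0, .ofNat 0, .ofNat 0, .ofNat 3521789192088908586966820698798952788748461408256, .ofNat 0, .ofNat 0, .ofNat 0, .ofNat 6034715313561676398964058489241832626696061190144, .ofNat 0, .ofNat 0, .ofNat 0, .ofNat 0, .ofNat 0⟩)
    (by decide +kernel)
theorem L07045 : Good (Phi V5.P V5.D (-1) (-1)) ⟨7, 113, 5, 19, 3, 6, 3, 6, 5, 0⟩ :=
  out_sound (S := T5.ds_mm) T5.ok_mm (w := 73) (j := 3) (by decide +kernel)
theorem L07046 : Good (Phi V5.P V5.D (-1) (-1)) ⟨6, 56, 5, 19, 4, 12, 3, 6, 5, 1⟩ :=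
  leafX_sound T5.ok_mm T5.Ymm.bz_eq (w := 268) (c := ⟨⟨.ofNat 1037, .negSucc 213, .ofNat 270, .ofNat 137, .negSucc 1358, .negSucc 1832⟩, ⟨.negSucc 674, .ofNat 129, .negSucc 150, .negSucc 82, .ofNat 855, .ofNat 1150⟩, ⟨.negSucc 712, .ofNat 164, .negSucc 193, .ofNat 21, .ofNat 883, .ofNat 1163⟩, ⟨.ofNat 1115, .negSucc 340, .ofNat 365, .ofNat 258, .negSucc 2166, .negSucc 3041⟩, ⟨.negSucc 588, .negSucc 43, .negSucc 10, .ofNat 95, .negSucc 360, .negSucc 673⟩, .ofNat 3947, .ofNat 5754, .ofNat 0, .ofNat 5754, .ofNat 9232, .ofNat 0, .ofNat 128, .negSucc 682, .negSucc 3043, .ofNat 0, .ofNat 436, .ofNat 1901, .ofNat 0, .ofNat 0, .ofNat 2379, .ofNat 1685, .ofNat 0, .ofNat 0, .ofNat 0, .ofNat 0, .ofNat 0, .ofNat 0, .ofNat 69216379907384697727674582038631346000103389265920, .ofNat 0, .ofNat 0, .ofNat 0, .ofNat 10299325540042785631355400534653070083492249862144, .ofNat 0, .ofNat 0, .ofNat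 0, .ofNat 44402753011223040654725472465128643960550893551616, .ofNat 0⟩)
    (by decide +kernel)
theorem L07047 : Good (Phi V5.P V5.D (-1) (-1)) ⟨7, 112, 5, 19, 4, 13, 3, 6, 5, 1⟩ :=
  leafX_sound T5.ok_mm T5.Ymm.bz_eq (w := 272) (c := ⟨⟨.ofNat 516, .negSucc 38, .ofNat 142, .negSucc 68, .negSucc 1107, .negSucc 902⟩, ⟨.negSucc 352, .ofNat 11, .negSucc 51, .ofNat 46, .ofNat 694, .ofNat 567⟩, ⟨.negSucc 99, .ofNat 14, .negSucc 74, .ofNat 141, .ofNat 562, .ofNat 388⟩, ⟨.ofNat 497, .negSucc 49, .ofNat 225, .negSucc 63, .negSucc 1985, .negSucc 1752⟩, ⟨.negSucc 391, .ofNat 3, .ofNat 64, .ofNat 53, .negSucc 639, .negSucc 733⟩, .ofNat 3595, .ofNat 5197, .ofNat 0, .ofNat 5197, .ofNat 8349, .ofNat 0, .ofNat 128, .negSucc 653, .negSucc 3553, .ofNat 0, .ofNat 414, .ofNat 2204, .ofNat 0, .ofNat 0, .ofNat 2497, .ofNat 2783, .ofNat 0, .ofNat 0, .ofNat 8043655152321162693030335047494869939522633728,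 .ofNat 0, .ofNat 0, .ofNat 0, .ofNat 24770541560732719054744137816127411546916365795328, .ofNat 0, .ofNat 0, .ofNat 0, .ofNat 0, .ofNat 0, .ofNat 0, .ofNat 0, .ofNat 0, .ofNat 0⟩)
    (by decide +kernel)
theorem L07048 : Good (Phi V5.P V5.D (-1) (-1)) ⟨7, 113, 5, 19, 4, 13, 3, 6, 5, 1⟩ :=
  out_sound (S := T5.ds_mm) T5.ok_mm (w := 73) (j := 3) (by decide +kernel)
theorem L07049 : Good (Phi V5.P V5.D (-1) (-1)) ⟨6, 57, 5, 19, 3, 6, 3, 6, 4, 0⟩ :=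
  out_sound (S := T5.ds_mm) T5.ok_mm (w := 67) (j := 3) (by decide +kernel)
theorem L07050 : Good (Phi V5.P V5.D (-1) (-1)) ⟨5, 29, 5, 19, 3, 6, 3, 6, 4, 0⟩ :=
  out_sound (S := T5.ds_mm) T5.ok_mm (w := 61) (j := 3) (by decide +kernel)
theorem L07051 : Good (Phi V5.P V5.D (-1) (-1)) ⟨4, 15, 5, 19, 3, 6, 3, 6, 4, 0⟩ :=
  out_sound (S := T5.ds_mm) T5.ok_mm (w := 55) (j := 3) (by decide +kernel)
theorem L07052 : Good (Phi V5.P V5.D (-1) (-1)) ⟨2, 2, 4, 9, 3, 6, 3, 6, 5, 2⟩ :=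
  out_sound (S := T5.ds_mm) T5.ok_mm (w := 41) (j := 3) (by decide +kernel)
theorem L07053 : Good (Phi V5.P V5.D (-1) (-1)) ⟨3, 6, 4, 9, 4, 12, 3, 6, 5, 2⟩ :=
  leafX_sound T5.ok_mm T5.Ymm.bz_eq (w := 253) (c := ⟨⟨.negSucc 955, .negSucc 711, .ofNat 177, .ofNat 721, .negSucc 252, .negSucc 1708⟩, ⟨.ofNat 677, .ofNat 269, .ofNat 32, .negSucc 436, .ofNat 152, .ofNat 1031⟩, ⟨.ofNat 1011, .ofNat 81, .negSucc 61, .negSucc 531, .ofNat 78, .ofNat 987⟩, ⟨.negSucc 2530, .negSucc 630, .ofNat 40, .ofNat 1019, .negSucc 389, .negSucc 2768⟩, ⟨.negSucc 1423, .ofNat 143, .negSucc 288, .negSucc 39, .negSucc 27, .negSucc 493⟩, .ofNat 3083, .ofNat 4530, .ofNat 0, .ofNat 4530, .ofNat 7548, .ofNat 0, .ofNat 128, .negSucc 593, .negSucc 3387, .ofNat 0, .ofNat 369, .ofNat 2036, .ofNat 0, .ofNat 0, .ofNat 2587, .ofNat 894, .ofNat 0, .ofNat 0, .ofNat 46968148196221331021984796141607693101450657792,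 .ofNat 0, .ofNat 0, .ofNat 0, .ofNat 0, .ofNat 0, .ofNat 0, .ofNat 0, .ofNat 42576328310076536816572871411219939813826903408640, .ofNat 0, .ofNat 0, .ofNat 0, .ofNat 0, .ofNat 0⟩)
    (by decide +kernel)
theorem L07054 : Good (Phi V5.P V5.D (-1) (-1)) ⟨6, 56, 4, 9, 4, 12, 3, 6, 5, 2⟩ :=
  leafX_sound T5.ok_mm T5.Ymm.bz_eq (w := 265) (c := ⟨⟨.negSucc 2424, .negSucc 188, .ofNat 655, .ofNat 791, .ofNat 207, .negSucc 1384⟩, ⟨.ofNat 1426, .ofNat 114, .negSucc 304, .negSucc 496, .negSucc 130, .ofNat 874⟩, ⟨.ofNat 1719, .ofNat 110, .negSucc 486, .negSucc 584, .negSucc 265, .ofNat 727⟩, ⟨.negSucc 4323, .negSucc 147, .ofNat 993, .ofNat 1053, .ofNat 255, .negSucc 2406⟩, ⟨.negSucc 1498, .ofNat 29, .ofNat 301, .negSucc 114, .negSucc 53, .negSucc 690⟩, .ofNat 3130, .ofNat 4421, .ofNat 0, .ofNat 4421, .ofNat 7065, .ofNat 0, .ofNat 128, .negSucc 648, .negSucc 4177, .ofNat 0, .ofNat 419,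 .ofNat 2583, .ofNat 0, .ofNat 0, .ofNat 3094, .ofNat 1521, .ofNat 0, .ofNat 0, .ofNat 8593293134307469286939114487703877045029175296, .ofNat 0, .ofNat 0, .ofNat 0, .ofNat 11728247081839235496310814767595287565494061629440, .ofNat 0, .ofNat 0, .ofNat 0, .ofNat 0, .ofNat 0, .ofNat 0, .ofNat 0, .ofNat 4406634388312014932530790611494332507488197279744, .ofNat 0⟩)
    (by decide +kernel)
theorem L07055 : Good (Phi V5.P V5.D (-1) (-1)) ⟨6, 57, 4, 9, 4, 12, 3, 6, 5, 2⟩ :=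
  out_sound (S := T5.ds_mm) T5.ok_mm (w := 65) (j := 3) (by decide +kernel)
theorem L07056 : Good (Phi V5.P V5.D (-1) (-1)) ⟨5, 29, 4, 9, 4, 12, 3, 6, 5, 2⟩ :=
  out_sound (S := T5.ds_mm) T5.ok_mm (w := 59) (j := 3) (by decide +kernel)
theorem L07057 : Good (Phi V5.P V5.D (-1) (-1)) ⟨4, 15, 4, 9, 4, 12, 3, 6, 5, 2⟩ :=
  out_sound (S := T5.ds_mm) T5.ok_mm (w := 53) (j := 3) (by decide +kernel)
theorem L07058 : Good (Phi V5.P V5.D (-1) (-1)) ⟨4, 12, 4, 9, 4, 13, 3, 6, 5, 2⟩ :=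
  out_sound (S := T5.ds_mm) T5.ok_mm (w := 53) (j := 3) (by decide +kernel)
theorem L07059 : Good (Phi V5.P V5.D (-1) (-1)) ⟨4, 13, 4, 9, 4, 13, 3, 6, 5, 2⟩ :=
  leafX_sound T5.ok_mm T5.Ymm.bz_eq (w := 256) (c := ⟨⟨.negSucc 922, .negSucc 745, .ofNat 215, .ofNat 742, .ofNat 76, .negSucc 621⟩, ⟨.ofNat 552, .ofNat 405, .negSucc 33, .negSucc 448, .negSucc 44, .ofNat 374⟩, ⟨.ofNat 719, .ofNat 414, .negSucc 99, .negSucc 450, .negSucc 195, .ofNat 169⟩, ⟨.negSucc 2351, .negSucc 937, .ofNat 272, .ofNat 1219, .ofNat 150, .negSucc 1152⟩, ⟨.negSucc 1450, .negSucc 56, .ofNat 50, .ofNat 249, .ofNat 75, .negSucc 417⟩, .ofNat 3074, .ofNat 4513, .ofNat 0, .ofNat 4513, .ofNat 7516, .ofNat 0, .ofNat 128, .negSucc 736, .negSucc 3203, .ofNat 0, .ofNat 453, .ofNat 1915, .ofNat 0, .ofNat 0, .ofNat 2237, .ofNat 1592, .ofNat 0, .ofNat 0, .ofNat 22039823766084707618387167973633437716973617152, .ofNat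 0, .ofNat 0, .ofNat 0, .ofNat 0, .ofNat 0, .ofNat 0, .ofNat 0, .ofNat 76010515754071895301892205853108086455222224814080, .ofNat 0, .ofNat 0, .ofNat 0, .ofNat 127656966603224652723329699008496934825767760560128, .ofNat 0⟩)
    (by decide +kernel)
theorem L07060 : Good (Phi V5.P V5.D (-1) (-1)) ⟨6, 56, 5, 18, 4, 13, 3, 6, 6, 4⟩ :=
  out_sound (S := T5.ds_mm) T5.ok_mm (w := 67) (j := 3) (by decide +kernel)
theorem L07061 : Good (Phi V5.P V5.D (-1) (-1)) ⟨6, 56, 5, 19, 4, 13, 3, 6, 6, 4⟩ :=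
  leafX_sound T5.ok_mm T5.Ymm.bz_eq (w := 274) (c := ⟨⟨.negSucc 1218, .negSucc 254, .ofNat 94, .ofNat 557, .negSucc 170, .negSucc 449⟩, ⟨.ofNat 730, .ofNat 128, .negSucc 7, .negSucc 350, .ofNat 106, .ofNat 280⟩, ⟨.ofNat 862, .ofNat 142, .negSucc 37, .negSucc 320, .negSucc 44, .ofNat 164⟩, ⟨.negSucc 2674, .negSucc 221, .ofNat 129, .ofNat 947, .negSucc 346, .negSucc 725⟩, ⟨.negSucc 1495, .ofNat 180, .ofNat 34, .ofNat 243, .negSucc 161, .negSucc 133⟩, .ofNat 4023, .ofNat 5798, .ofNat 0, .ofNat 5798, .ofNat 9183, .ofNat 0, .ofNat 128, .negSucc 701, .negSucc 4049, .ofNat 0, .ofNat 448, .ofNat 2527, .ofNat 0, .ofNat 0, .ofNat 2732, .ofNat 4191, .ofNat 0, .ofNat 0, .ofNat 0, .ofNat 0, .ofNat 0, .ofNat 0, .ofNat 2020486552435899966608210318361363829679733616934912, .ofNat 0, .ofNat 0, .ofNat 0, .ofNat 0, .ofNat 0, .ofNat 0, .ofNat 0, .ofNat 526963117099699213057596438759577025968698699022336,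 .ofNat 0⟩)
    (by decide +kernel)
theorem L07062 : Good (Phi V5.P V5.D (-1) (-1)) ⟨6, 56, 4, 9, 4, 13, 3, 6, 6, 5⟩ :=
  leafX_sound T5.ok_mm T5.Ymm.bz_eq (w := 269) (c := ⟨⟨.negSucc 2456, .negSucc 197, .ofNat 380, .ofNat 835, .ofNat 509, .negSucc 249⟩, ⟨.ofNat 1437, .ofNat 104, .negSucc 118, .negSucc 525, .negSucc 318, .ofNat 157⟩, ⟨.ofNat 1527, .ofNat 100, .negSucc 211, .negSucc 508, .negSucc 461, .ofNat 38⟩, ⟨.negSucc 4585, .negSucc 290, .ofNat 460, .ofNat 1363, .ofNat 839, .negSucc 423⟩, ⟨.negSucc 1775, .negSucc 76, .negSucc 28, .ofNat 275, .ofNat 181, .negSucc 105⟩, .ofNat 2917, .ofNat 4095, .ofNat 0, .ofNat 4095, .ofNat 6562, .ofNat 0, .ofNat 128, .negSucc 487, .negSucc 2717, .ofNat 0, .ofNat 310, .ofNat 1667, .ofNat 0, .ofNat 0, .ofNat 1825, .ofNat 2783, .ofNat 0, .ofNat 0, .ofNat 0, .ofNat 0, .ofNat 0, .ofNat 0, .ofNat 244934959268322338366685672309510645245409054687232,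 .ofNat 0, .ofNat 0, .ofNat 0, .ofNat 95316867922182807776900923790119796479647897616384, .ofNat 0, .ofNat 0, .ofNat 0, .ofNat 264753033700839895734907991045270803006359785701376, .ofNat 0⟩)
    (by decide +kernel)
theorem L07063 : Good (Phi V5.P V5.D (-1) (-1)) ⟨6, 57, 4, 9, 4, 13, 3, 6, 5, 2⟩ :=
  out_sound (S := T5.ds_mm) T5.ok_mm (w := 65) (j := 3) (by decide +kernel)
theorem L07064 : Good (Phi V5.P V5.D (-1) (-1)) ⟨5, 29, 4, 9, 4, 13, 3, 6, 5, 2⟩ :=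
  out_sound (S := T5.ds_mm) T5.ok_mm (w := 59) (j := 3) (by decide +kernel)
theorem L07065 : Good (Phi V5.P V5.D (-1) (-1)) ⟨4, 15, 4, 9, 4, 13, 3, 6, 5, 2⟩ :=
  out_sound (S := T5.ds_mm) T5.ok_mm (w := 53) (j := 3) (by decide +kernel)
theorem L07066 : Good (Phi V5.P V5.D (-1) (-1)) ⟨2, 2, 4, 9, 3, 6, 3, 6, 5, 3⟩ :=
  out_sound (S := T5.ds_mm) T5.ok_mm (w := 41) (j := 3) (by decide +kernel)
theorem L07067 : Good (Phi V5.P V5.D (-1) (-1)) ⟨3, 6, 4, 9, 3, 6, 3, 6, 5, 3⟩ :=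
  leafX_sound T5.ok_mm T5.Ymm.bz_eq (w := 235) (c := ⟨⟨.negSucc 2530, .negSucc 959, .ofNat 102, .ofNat 1719, .ofNat 678, .ofNat 159⟩, ⟨.ofNat 1577, .ofNat 478, .ofNat 62, .negSucc 1047, .negSucc 412, .negSucc 93⟩, ⟨.ofNat 1604, .ofNat 539, .negSucc 82, .negSucc 1153, .negSucc 565, .negSucc 301⟩, ⟨.negSucc 5028, .negSucc 1197, .ofNat 80, .ofNat 2638, .ofNat 1137, .ofNat 411⟩, ⟨.negSucc 1849, .negSucc 130, .negSucc 28, .ofNat 238, .ofNat 261, .ofNat 296⟩, .ofNat 1790, .ofNat 2457, .ofNat 0, .ofNat 2457, .ofNat 4206, .ofNat 0, .ofNat 128, .negSucc 779, .negSucc 1729, .ofNat 0, .ofNat 483, .ofNat 1019, .ofNat 0, .ofNat 0, .ofNat 1299, .ofNat 1128, .ofNat 0, .ofNat 0, .ofNat 0, .ofNat 0, .ofNat 0, .ofNat 0, .ofNat 731474912549698997903825334051945766417596416, .ofNat 0, .ofNat 0, .ofNat 0, .ofNat 688938303553355203620313106214019392264470528, .ofNat 0, .ofNat 0, .ofNat 0, .ofNat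 4581675669463401267782313986505551478190505984, .ofNat 0⟩)
    (by decide +kernel)
theorem L07068 : Good (Phi V5.P V5.D (-1) (-1)) ⟨4, 14, 4, 9, 3, 6, 3, 6, 5, 3⟩ :=
  leafX_sound T5.ok_mm T5.Ymm.bz_eq (w := 239) (c := ⟨⟨.negSucc 3554, .negSucc 266, .ofNat 94, .ofNat 1768, .ofNat 764, .ofNat 105⟩, ⟨.ofNat 2114, .ofNat 150, .ofNat 71, .negSucc 1108, .negSucc 476, .negSucc 64⟩, ⟨.ofNat 2235, .ofNat 118, .negSucc 128, .negSucc 1197, .negSucc 587, .negSucc 282⟩, ⟨.negSucc 6128, .negSucc 235, .negSucc 75, .ofNat 2570, .ofNat 1301, .ofNat 252⟩, ⟨.negSucc 1709, .negSucc 55, .negSucc 241, .ofNat 44, .ofNat 324, .ofNat 167⟩, .ofNat 1651, .ofNat 2021, .ofNat 0, .ofNat 2021, .ofNat 3145, .ofNat 0, .ofNat 128, .negSucc 575, .negSucc 2243, .ofNat 0, .ofNat 390, .ofNat 1393, .ofNat 0, .ofNat 0, .ofNat 1546, .ofNat 1121, .ofNat 0, .ofNat 0, .ofNat 2861038922023492370293546551473168868966400,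 .ofNat 0, .ofNat 0, .ofNat 0, .ofNat 1122232010078468113921458175295488787790954496, .ofNat 0, .ofNat 0, .ofNat 0, .ofNat 151467665399851267579902771400255692907479040, .ofNat 0, .ofNat 0, .ofNat 0, .ofNat 4086326450713114771007942953464225783833690112, .ofNat 0⟩)
    (by decide +kernel)
theorem L07069 : Good (Phi V5.P V5.D (-1) (-1)) ⟨4, 15, 4, 9, 3, 6, 3, 6, 5, 3⟩ :=
  out_sound (S := T5.ds_mm) T5.ok_mm (w := 53) (j := 3) (by decide +kernel)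
theorem L07070 : Good (Phi V5.P V5.D (-1) (-1)) ⟨2, 2, 4, 8, 3, 6, 3, 7, 3, 0⟩ :=
  out_sound (S := T5.ds_mm) T5.ok_mm (w := 41) (j := 3) (by decide +kernel)
theorem L07071 : Good (Phi V5.P V5.D (-1) (-1)) ⟨4, 12, 4, 8, 3, 6, 3, 7, 4, 0⟩ :=
  out_sound (S := T5.ds_mm) T5.ok_mm (w := 53) (j := 3) (by decide +kernel)
theorem L07072 : Good (Phi V5.P V5.D (-1) (-1)) ⟨5, 26, 4, 8, 4, 12, 5, 28, 4, 0⟩ :=
  leafX_sound T5.ok_mm T5.Ymm.bz_eq (w := 263) (c := ⟨⟨.negSucc 67, .ofNat 352, .negSucc 372, .ofNat 11, .negSucc 280, .negSucc 1909⟩, ⟨.ofNat 63, .negSucc 250, .ofNat 286, .negSucc 6, .ofNat 153, .ofNat 1041⟩, ⟨.ofNat 284, .negSucc 450, .ofNat 444, .ofNat 60, .ofNat 191, .ofNat 1095⟩, ⟨.negSucc 396, .ofNat 362, .negSucc 518, .negSucc 4, .negSucc 433, .negSucc 3179⟩, ⟨.negSucc 575, .negSucc 244, .ofNat 81, .negSucc 38, .negSucc 29, .negSucc 603⟩, .ofNat 2881, .ofNat 4535, .ofNat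 0, .ofNat 4535, .ofNat 8226, .ofNat 0, .ofNat 128, .negSucc 592, .negSucc 2754, .ofNat 0, .ofNat 344, .ofNat 1512, .ofNat 0, .ofNat 0, .ofNat 2363, .ofNat 3433, .ofNat 0, .ofNat 0, .ofNat 0, .ofNat 0, .ofNat 0, .ofNat 0, .ofNat 148320702039476191050842246909015412083486607015936, .ofNat 0, .ofNat 0, .ofNat 0, .ofNat 173726781400307570899776453927742893520975260811264, .ofNat 0, .ofNat 0, .ofNat 0, .ofNat 215802100753737036980902010390731259656238503297024, .ofNat 0⟩)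
    (by decide +kernel)
theorem L07073 : Good (Phi V5.P V5.D (-1) (-1)) ⟨6, 54, 4, 8, 4, 12, 5, 28, 4, 0⟩ :=
  leafX_sound T5.ok_mm T5.Ymm.bz_eq (w := 265) (c := ⟨⟨.ofNat 186, .negSucc 110, .ofNat 254, .ofNat 6, .negSucc 289, .negSucc 1835⟩, ⟨.negSucc 144, .ofNat 45, .negSucc 71, .negSucc 1, .ofNat 162, .ofNat 1023⟩, ⟨.negSucc 50, .ofNat 70, .negSucc 148, .ofNat 56, .ofNat 190, .ofNat 1019⟩, ⟨.negSucc 140, .negSucc 189, .ofNat 357, .negSucc 1, .negSucc 458, .negSucc 3097⟩, ⟨.negSucc 743, .negSucc 59, .ofNat 23, .negSucc 17, .negSucc 52, .negSucc 680⟩, .ofNat 1856, .ofNat 2674, .ofNat 0, .ofNat 2674, .ofNat 4806, .ofNat 0, .ofNat 128, .negSucc 495, .negSucc 2129, .ofNat 0, .ofNat 297, .ofNat 1190, .ofNat 0, .ofNat 0, .ofNat 1789, .ofNat 1298, .ofNat 0, .ofNat 0, .ofNat 0, .ofNat 0, .ofNat 0, .ofNat 0, .ofNat 0, .ofNat 0, .ofNat 0, .ofNat 0, .ofNat 18894898445907426984734064455762077400454467158016,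 .ofNat 0, .ofNat 0, .ofNat 0, .ofNat 0, .ofNat 0⟩)
    (by decide +kernel)
theorem L07074 : Good (Phi V5.P V5.D (-1) (-1)) ⟨6, 55, 4, 8, 4, 12, 5, 28, 4, 0⟩ :=
  leafX_sound T5.ok_mm T5.Ymm.bz_eq (w := 265) (c := ⟨⟨.negSucc 63, .negSucc 91, .ofNat 397, .ofNat 22, .negSucc 272, .negSucc 1901⟩, ⟨.negSucc 41, .ofNat 35, .negSucc 161, .negSucc 10, .ofNat 161, .ofNat 1108⟩, ⟨.ofNat 168, .ofNat 66, .negSucc 291, .ofNat 44, .ofNat 164, .ofNat 1040⟩, ⟨.negSucc 536, .negSucc 170, .ofNat 629, .ofNat 20, .negSucc 446, .negSucc 3245⟩, ⟨.negSucc 795, .negSucc 76, .ofNat 145, .negSucc 16, .negSucc 86, .negSucc 803⟩, .ofNat 1694, .ofNat 2301, .ofNat 0, .ofNat 2301, .ofNat 3986, .ofNat 0, .ofNat 128, .negSucc 550, .negSucc 2771, .ofNat 0, .ofNat 346, .ofNat 1587, .ofNat 0, .ofNat 0, .ofNat 2281, .ofNat 1156, .ofNat 0, .ofNat 0, .ofNat 0, .ofNat 0, .ofNat 0, .ofNat 0, .ofNat 23007869157117528133693771466289092225186855387136,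 .ofNat 0, .ofNat 0, .ofNat 0, .ofNat 0, .ofNat 0, .ofNat 0, .ofNat 0, .ofNat 10766379824770693592907889356472950183336039415808, .ofNat 0⟩)
    (by decide +kernel)
theorem L07075 : Good (Phi V5.P V5.D (-1) (-1)) ⟨5, 26, 4, 8, 4, 13, 5, 28, 4, 0⟩ :=
  leafX_sound T5.ok_mm T5.Ymm.bz_eq (w := 262) (c := ⟨⟨.negSucc 137, .negSucc 114, .ofNat 278, .negSucc 11, .negSucc 174, .negSucc 1025⟩, ⟨.ofNat 81, .ofNat 32, .negSucc 84, .ofNat 6, .ofNat 94, .ofNat 549⟩, ⟨.ofNat 354, .ofNat 73, .negSucc 202, .ofNat 47, .ofNat 74, .ofNat 294⟩, ⟨.negSucc 590, .negSucc 183, .ofNat 361, .negSucc 35, .negSucc 308, .negSucc 1936⟩, ⟨.negSucc 693, .negSucc 40, .negSucc 28, .negSucc 26, .negSucc 82, .negSucc 720⟩, .ofNat 1452, .ofNat 2050, .ofNat 0, .ofNat 2050, .ofNat 3869, .ofNat 0, .ofNat 128, .negSucc 525, .negSucc 3714, .ofNat 0, .ofNat 299, .ofNat 1973, .ofNat 0, .ofNat 0, .ofNat 2875, .ofNat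 5088, .ofNat 0, .ofNat 0, .ofNat 0, .ofNat 0, .ofNat 0, .ofNat 0, .ofNat 86586078003949019145303529119227381701352347402240, .ofNat 0, .ofNat 0, .ofNat 0, .ofNat 106946036476023564195776002733466005434927211872256, .ofNat 0, .ofNat 0, .ofNat 0, .ofNat 0, .ofNat 0⟩)
    (by decide +kernel)
theorem L07076 : Good (Phi V5.P V5.D (-1) (-1)) ⟨5, 27, 4, 8, 4, 13, 5, 28, 5, 0⟩ :=
  leafX_sound T5.ok_mm T5.Ymm.bz_eq (w := 265) (c := ⟨⟨.ofNat 22, .negSucc 141, .ofNat 97, .negSucc 260, .negSucc 284, .negSucc 594⟩, ⟨.negSucc 48, .ofNat 43, .ofNat 3, .ofNat 147, .ofNat 160, .ofNat 334⟩, ⟨.ofNat 187, .ofNat 84, .negSucc 22, .ofNat 269, .ofNat 157, .ofNat 210⟩, ⟨.negSucc 307, .negSucc 280, .ofNat 183, .negSucc 407, .negSucc 520, .negSucc 1179⟩, ⟨.negSucc 621, .negSucc 134, .ofNat 117, .negSucc 36, .negSucc 172, .negSucc 521⟩, .ofNat 1379, .ofNat 1837, .ofNat 0, .ofNat 1837, .ofNat 3305,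 .ofNat 0, .ofNat 128, .negSucc 432, .negSucc 2009, .ofNat 0, .ofNat 258, .ofNat 1115, .ofNat 0, .ofNat 0, .ofNat 1539, .ofNat 1497, .ofNat 0, .ofNat 0, .ofNat 2633882107193192077692815356439492840790322839552, .ofNat 0, .ofNat 0, .ofNat 0, .ofNat 325777718433880223888157274003575114522609206689792, .ofNat 0, .ofNat 0, .ofNat 0, .ofNat 433238548054061981637454625845519521419728718397440, .ofNat 0, .ofNat 0, .ofNat 0, .ofNat 3275017535415456477735780641612731932711547958198272, .ofNat 0⟩)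
    (by decide +kernel)

end Crest.Agent.R097C5.N5mm
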