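import Crest.Agent.R097.KP7
import Crest.Agent.R097.T5Ymm

/-!
# Row 97, box cover in dimension n = 5 (generated)
-/

set_option autoImplicit false
set_option Elab.async false
set_option maxHeartbeats 0
set_option maxRecDepth 100000

open Crest.Agent.R097 Crest.Agent.R097.KA


namespace Crest.Agent.R097C5.N5mm

theorem L07077 : Good (Phi V5.P V5.D (-1) (-1)) ⟨5, 27, 4, 8, 5, 26, 5, 28, 5, 1⟩ :=
  leafX_sound T5.ok_mm T5.Ymm.bz_eq (w := 280) (c := ⟨⟨.negSucc 907, .negSucc 506, .ofNat 329, .ofNat 63, .negSucc 53, .negSucc 500⟩, ⟨.ofNat 458, .ofNat 242, .negSucc 94, .negSucc 38, .ofNat 29, .ofNat 283⟩, ⟨.ofNat 675, .ofNat 321, .negSucc 186, .negSucc 33, .negSucc 6, .ofNat 137⟩, ⟨.negSucc 2007, .negSucc 727, .ofNat 436, .ofNat 123, .negSucc 74, .negSucc 926⟩, ⟨.negSucc 1186, .negSucc 30, .negSucc 9, .ofNat 56, .ofNat 9, .negSucc 332⟩, .ofNat 2007, .ofNat 2865, .ofNat 0,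 .ofNat 2865, .ofNat 5010, .ofNat 0, .ofNat 128, .negSucc 311, .negSucc 1923, .ofNat 0, .ofNat 187, .ofNat 1087, .ofNat 0, .ofNat 0, .ofNat 1455, .ofNat 1639, .ofNat 0, .ofNat 0, .ofNat 0, .ofNat 0, .ofNat 0, .ofNat 0, .ofNat 10662859220579218661228316301833764182151043820466208768, .ofNat 0, .ofNat 0, .ofNat 0, .ofNat 8072888677170606636722968368591892120187628891788017664, .ofNat 0, .ofNat 0, .ofNat 0, .ofNat 57898063047344295632371578021984208045486463399063715840, .ofNat 0⟩)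
    (by decide +kernel)
theorem L07078 : Good (Phi V5.P V5.D (-1) (-1)) ⟨5, 27, 4, 8, 5, 27, 5, 28, 5, 1⟩ :=
  leafX_sound T5.ok_mm T5.Ymm.bz_eq (w := 279) (c := ⟨⟨.negSucc 1013, .negSucc 247, .ofNat 223, .ofNat 73, .ofNat 13, .negSucc 259⟩, ⟨.ofNat 517, .ofNat 93, .negSucc 33, .negSucc 41, .negSucc 6, .ofNat 144⟩, ⟨.ofNat 769, .ofNat 123, .negSucc 99, .negSucc 39, .negSucc 58, .negSucc 40⟩, ⟨.negSucc 2187, .negSucc 439, .ofNat 358, .ofNat 114, .ofNat 6, .negSucc 506⟩, ⟨.negSucc 1229, .negSucc 185, .ofNat 126, .ofNat 13, .negSucc 22, .negSucc 217⟩, .ofNat 2007, .ofNat 2865, .ofNat 0, .ofNat 2865, .ofNat 5010, .ofNat 0, .ofNat 128, .negSucc 303, .negSucc 1657, .ofNat 0, .ofNat 180, .ofNat 932, .ofNat 0, .ofNat 0, .ofNat 1202, .ofNat 4082, .ofNat 0, .ofNat 0, .ofNat 100443404872586791178899123264430562349784242558337024, .ofNat 0, .ofNat 0, .ofNat 0, .ofNat 13388345045711465917753104156099260645580996231385055232,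 .ofNat 0, .ofNat 0, .ofNat 0, .ofNat 7681663360691259280048802145050724169209967308280168448, .ofNat 0, .ofNat 0, .ofNat 0, .ofNat 22376645859164506609299032643669404925375657606794706944, .ofNat 0⟩)
    (by decide +kernel)
theorem L07079 : Good (Phi V5.P V5.D (-1) (-1)) ⟨5, 26, 4, 8, 3, 6, 5, 29, 4, 0⟩ :=
  leafX_sound T5.ok_mm T5.Ymm.bz_eq (w := 247) (c := ⟨⟨.ofNat 222, .negSucc 929, .ofNat 184, .ofNat 112, .ofNat 53, .negSucc 683⟩, ⟨.negSucc 123, .ofNat 485, .negSucc 23, .negSucc 64, .negSucc 29, .ofNat 368⟩, ⟨.negSucc 91, .ofNat 766, .negSucc 128, .negSucc 13, .negSucc 99, .ofNat 68⟩, ⟨.negSucc 25, .negSucc 1531, .ofNat 183, .ofNat 149, .ofNat 83, .negSucc 1308⟩, ⟨.negSucc 684, .negSucc 234, .negSucc 137, .negSucc 27, .ofNat 7, .negSucc 491⟩, .ofNat 1452, .ofNat 2049, .ofNat 0, .ofNat 2049, .ofNat 3862, .ofNat 0, .ofNat 128, .negSucc 525, .negSucc 2986, .ofNat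 0, .ofNat 303, .ofNat 1593, .ofNat 0, .ofNat 0, .ofNat 2408, .ofNat 2434, .ofNat 0, .ofNat 0, .ofNat 0, .ofNat 0, .ofNat 0, .ofNat 0, .ofNat 1148617848019041957315880781314422832273293312, .ofNat 0, .ofNat 0, .ofNat 0, .ofNat 2998013746619986915450368457727048676991303680, .ofNat 0, .ofNat 0, .ofNat 0, .ofNat 552602062116342830523998266614075769116164096, .ofNat 0⟩)
    (by decide +kernel)
theorem L07080 : Good (Phi V5.P V5.D (-1) (-1)) ⟨6, 54, 4, 8, 3, 6, 5, 29, 5, 0⟩ :=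
  leafX_sound T5.ok_mm T5.Ymm.bz_eq (w := 255) (c := ⟨⟨.negSucc 279, .negSucc 83, .ofNat 60, .negSucc 231, .negSucc 173, .negSucc 433⟩, ⟨.ofNat 119, .ofNat 29, .ofNat 32, .ofNat 129, .ofNat 97, .ofNat 238⟩, ⟨.ofNat 292, .ofNat 56, .ofNat 7, .ofNat 289, .ofNat 84, .ofNat 106⟩, ⟨.negSucc 878, .negSucc 137, .ofNat 111, .negSucc 400, .negSucc 306, .negSucc 831⟩, ⟨.negSucc 836, .negSucc 33, .ofNat 93, .negSucc 99, .negSucc 81, .negSucc 332⟩, .ofNat 1830, .ofNat 2628, .ofNat 0, .ofNat 2628, .ofNat 4726, .ofNat 0, .ofNat 128, .negSucc 463, .negSucc 1795, .ofNat 0, .ofNat 276, .ofNat 999, .ofNat 0, .ofNat 0, .ofNat 1504, .ofNat 963, .ofNat 0, .ofNat 0, .ofNat 0, .ofNat 0, .ofNat 0, .ofNat 0, .ofNat 0, .ofNat 0, .ofNat 0, .ofNat 0, .ofNat 35234212714995852197286775529015076824455053312, .ofNat 0, .ofNat 0, .ofNat 0, .ofNat 0, .ofNat 0⟩)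
    (by decide +kernel)
theorem L07081 : Good (Phi V5.P V5.D (-1) (-1)) ⟨6, 55, 4, 8, 3, 6, 5, 29, 5, 0⟩ :=
  leafX_sound T5.ok_mm T5.Ymm.bz_eq (w := 257) (c := ⟨⟨.negSucc 323, .negSucc 98, .ofNat 151, .negSucc 313, .negSucc 168, .negSucc 464⟩, ⟨.ofNat 117, .ofNat 36, .negSucc 21, .ofNat 184, .ofNat 98, .ofNat 267⟩, ⟨.ofNat 319, .ofNat 60, .negSucc 78, .ofNat 359, .ofNat 74, .ofNat 129⟩, ⟨.negSucc 929, .negSucc 155, .ofNat 188, .negSucc 517, .negSucc 292, .negSucc 875⟩, ⟨.negSucc 822, .negSucc 30, .ofNat 5, .negSucc 102, .negSucc 76, .negSucc 334⟩, .ofNat 2083, .ofNat 2925, .ofNat 0, .ofNat 2925, .ofNat 4995, .ofNat 0, .ofNat 128, .negSucc 624, .negSucc 2746, .ofNat 0, .ofNat 388, .ofNat 1572, .ofNat 0, .ofNat 0, .ofNat 2255, .ofNat 1014, .ofNat 0, .ofNat 0, .ofNat 31517942509829616443014740320074736240427008, .ofNat 0, .ofNat 0, .ofNat 0, .ofNat 55188488919900732596030426054658275181615644672,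 .ofNat 0, .ofNat 0, .ofNat 0, .ofNat 0, .ofNat 0, .ofNat 0, .ofNat 0, .ofNat 19904417982387575216498840607585945109185691648, .ofNat 0⟩)
    (by decide +kernel)
theorem L07082 : Good (Phi V5.P V5.D (-1) (-1)) ⟨5, 27, 4, 8, 4, 12, 5, 29, 5, 1⟩ :=
  leafX_sound T5.ok_mm T5.Ymm.bz_eq (w := 266) (c := ⟨⟨.negSucc 1311, .negSucc 741, .ofNat 624, .ofNat 240, .ofNat 107, .negSucc 595⟩, ⟨.ofNat 682, .ofNat 384, .negSucc 252, .negSucc 141, .negSucc 60, .ofNat 338⟩, ⟨.ofNat 922, .ofNat 537, .negSucc 443, .negSucc 179, .negSucc 120, .ofNat 233⟩, ⟨.negSucc 2609, .negSucc 1072, .ofNat 859, .ofNat 302, .ofNat 203, .negSucc 971⟩, ⟨.negSucc 1194, .negSucc 47, .negSucc 33, .negSucc 82, .ofNat 84, .negSucc 168⟩, .ofNat 2007, .ofNat 2865, .ofNat 0, .ofNat 2865, .ofNat 5010, .ofNat 0, .ofNat 128, .negSucc 360, .negSucc 2041, .ofNat 0, .ofNat 221, .ofNat 1159, .ofNat 0, .ofNat 0, .ofNat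 1659, .ofNat 1906, .ofNat 0, .ofNat 0, .ofNat 0, .ofNat 0, .ofNat 0, .ofNat 0, .ofNat 905158575753681343025574336498042403310561868644352, .ofNat 0, .ofNat 0, .ofNat 0, .ofNat 1542883994991303671237341395009511339750348602474496, .ofNat 0, .ofNat 0, .ofNat 0, .ofNat 2015723125155043114125819463910195418617218726887424, .ofNat 0⟩)
    (by decide +kernel)
theorem L07083 : Good (Phi V5.P V5.D (-1) (-1)) ⟨5, 27, 4, 8, 4, 13, 5, 29, 5, 1⟩ :=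
  leafX_sound T5.ok_mm T5.Ymm.bz_eq (w := 266) (c := ⟨⟨.negSucc 1279, .negSucc 259, .ofNat 303, .ofNat 235, .ofNat 79, .negSucc 77⟩, ⟨.ofNat 666, .ofNat 99, .negSucc 76, .negSucc 133, .negSucc 43, .ofNat 42⟩, ⟨.ofNat 900, .ofNat 135, .negSucc 160, .negSucc 150, .negSucc 103, .negSucc 160⟩, ⟨.negSucc 2571, .negSucc 458, .ofNat 472, .ofNat 312, .ofNat 94, .negSucc 178⟩, ⟨.negSucc 1218, .negSucc 192, .ofNat 120, .negSucc 57, .negSucc 37, .negSucc 107⟩, .ofNat 2007, .ofNat 2865, .ofNat 0, .ofNat 2865, .ofNat 5010, .ofNat 0, .ofNat 128, .negSucc 434, .negSucc 2109, .ofNat 0, .ofNat 260, .ofNat 1187, .ofNat 0, .ofNat 0, .ofNat 1575, .ofNat 3172, .ofNat 0, .ofNat 0, .ofNat 0, .ofNat 0, .ofNat 0, .ofNat 0, .ofNat 347693417808512687392419522325590889543383677665280, .ofNat 0, .ofNat 0, .ofNat 0, .ofNat 548782320531564573860180073915675389825713952522240, .ofNat 0, .ofNat 0,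 .ofNat 0, .ofNat 2111174453557184362219353720619932485399920091594752, .ofNat 0⟩)
    (by decide +kernel)
theorem L07084 : Good (Phi V5.P V5.D (-1) (-1)) ⟨5, 26, 4, 8, 3, 6, 4, 15, 4, 0⟩ :=
  leafX_sound T5.ok_mm T5.Ymm.bz_eq (w := 245) (c := ⟨⟨.negSucc 1035, .ofNat 84, .negSucc 14, .ofNat 148, .ofNat 207, .negSucc 220⟩, ⟨.ofNat 571, .negSucc 77, .ofNat 83, .negSucc 85, .negSucc 112, .ofNat 118⟩, ⟨.ofNat 919, .negSucc 96, .ofNat 55, .negSucc 75, .negSucc 273, .negSucc 269⟩, ⟨.negSucc 2124, .ofNat 131, .negSucc 51, .ofNat 156, .ofNat 371, .negSucc 435⟩, ⟨.negSucc 1012, .negSucc 29, .ofNat 12, .negSucc 115, .ofNat 110, .negSucc 190⟩, .ofNat 2246, .ofNat 3425, .ofNat 0, .ofNat 3425, .ofNat 6274, .ofNat 0, .ofNat 128, .negSucc 773, .negSucc 3585, .ofNat 0, .ofNat 447, .ofNat 1946, .ofNat 0, .ofNat 0, .ofNat 3004, .ofNat 1639, .ofNat 0, .ofNat 0, .ofNat 0, .ofNat 0, .ofNat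 0, .ofNat 0, .ofNat 102649998599488383169420296864055433917104128, .ofNat 0, .ofNat 0, .ofNat 0, .ofNat 295653548607159173955955522542843128654594048, .ofNat 0, .ofNat 0, .ofNat 0, .ofNat 0, .ofNat 0⟩)
    (by decide +kernel)
theorem L07085 : Good (Phi V5.P V5.D (-1) (-1)) ⟨6, 54, 5, 16, 3, 6, 4, 15, 4, 0⟩ :=
  leafX_sound T5.ok_mm T5.Ymm.bz_eq (w := 250) (c := ⟨⟨.negSucc 1000, .ofNat 2, .ofNat 15, .ofNat 109, .ofNat 249, .negSucc 199⟩, ⟨.ofNat 520, .negSucc 20, .ofNat 30, .negSucc 66, .negSucc 138, .ofNat 107⟩, ⟨.ofNat 863, .negSucc 23, .ofNat 11, .negSucc 50, .negSucc 307, .negSucc 294⟩, ⟨.negSucc 2066, .negSucc 22, .ofNat 16, .ofNat 83, .ofNat 420, .negSucc 383⟩, ⟨.negSucc 1048, .negSucc 67, .ofNat 20, .negSucc 138, .ofNat 94, .negSucc 155⟩, .ofNat 2435, .ofNat 3648, .ofNat 0, .ofNat 3648, .ofNat 6462, .ofNat 0, .ofNat 128, .negSucc 382, .negSucc 1869, .ofNat 0,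 .ofNat 228, .ofNat 1040, .ofNat 0, .ofNat 0, .ofNat 1553, .ofNat 962, .ofNat 0, .ofNat 0, .ofNat 217865291173352289097436612004460919521280, .ofNat 0, .ofNat 0, .ofNat 129267587546213963151327131276396645158537605939200, .ofNat 28765403223761616504648671932207873753350144, .ofNat 0, .ofNat 0, .ofNat 0, .ofNat 0, .ofNat 0, .ofNat 0, .ofNat 0, .ofNat 95100499073201842857550712998814439603961856, .ofNat 0⟩)
    (by decide +kernel)
theorem L07086 : Good (Phi V5.P V5.D (-1) (-1)) ⟨6, 55, 5, 16, 3, 6, 4, 15, 4, 0⟩ :=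
  out_sound (S := T5.ds_mm) T5.ok_mm (w := 67) (j := 3) (by decide +kernel)
theorem L07087 : Good (Phi V5.P V5.D (-1) (-1)) ⟨5, 27, 5, 17, 4, 12, 4, 15, 4, 0⟩ :=
  leafX_sound T5.ok_mm T5.Ymm.bz_eq (w := 261) (c := ⟨⟨.negSucc 782, .negSucc 358, .ofNat 178, .ofNat 23, .ofNat 292, .negSucc 223⟩, ⟨.ofNat 433, .ofNat 172, .negSucc 66, .negSucc 14, .negSucc 169, .ofNat 127⟩, ⟨.ofNat 692, .ofNat 236, .negSucc 114, .ofNat 21, .negSucc 345, .negSucc 249⟩, ⟨.negSucc 1684, .negSucc 609, .ofNat 304, .negSucc 64, .ofNat 478, .negSucc 430⟩, ⟨.negSucc 913, .negSucc 192, .ofNat 107, .negSucc 170, .ofNat 88, .negSucc 173⟩, .ofNat 2484, .ofNat 3651, .ofNat 0, .ofNat 3651, .ofNat 6301, .ofNat 0, .ofNat 128, .negSucc 524, .negSucc 2768, .ofNat 0, .ofNat 321, .ofNat 1598, .ofNat 0, .ofNat 0, .ofNat 2358, .ofNat 1676, .ofNat 0, .ofNat 0, .ofNat 0, .ofNat 0, .ofNat 0, .ofNat 0, .ofNat 4374911313309430265313105274589821273444295114752,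 .ofNat 0, .ofNat 0, .ofNat 0, .ofNat 7682464567786144914688032542419879526888518975488, .ofNat 0, .ofNat 0, .ofNat 0, .ofNat 17329067049174268375438252036262649831387455029248, .ofNat 0⟩)
    (by decide +kernel)
theorem L07088 : Good (Phi V5.P V5.D (-1) (-1)) ⟨5, 27, 5, 17, 4, 13, 4, 15, 4, 0⟩ :=
  leafX_sound T5.ok_mm T5.Ymm.bz_eq (w := 261) (c := ⟨⟨.negSucc 834, .negSucc 165, .ofNat 115, .negSucc 19, .ofNat 188, .negSucc 21⟩, ⟨.ofNat 465, .ofNat 52, .negSucc 28, .ofNat 10, .negSucc 107, .ofNat 8⟩, ⟨.ofNat 792, .ofNat 53, .negSucc 48, .ofNat 34, .negSucc 268, .negSucc 422⟩, ⟨.negSucc 1870, .negSucc 231, .ofNat 116, .negSucc 109, .ofNat 372, .negSucc 41⟩, ⟨.negSucc 1107, .negSucc 20, .negSucc 56, .negSucc 137, .ofNat 166, .negSucc 11⟩, .ofNat 2477, .ofNat 3649, .ofNat 0, .ofNat 3649, .ofNat 6313, .ofNat 0, .ofNat 128, .negSucc 633, .negSucc 2626, .ofNat 0, .ofNat 379,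 .ofNat 1503, .ofNat 0, .ofNat 0, .ofNat 2064, .ofNat 2251, .ofNat 0, .ofNat 0, .ofNat 20516087211662064208095204041666690823445544960, .ofNat 0, .ofNat 0, .ofNat 0, .ofNat 4968788748613914717904996442205097026187513823232, .ofNat 0, .ofNat 0, .ofNat 79427395927378336219506197008080605515302324012056576, .ofNat 5781316590246559320534244683327750196838768050176, .ofNat 0, .ofNat 0, .ofNat 0, .ofNat 14857717173742846804069024369602481143006325899264, .ofNat 0⟩)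
    (by decide +kernel)
theorem L07089 : Good (Phi V5.P V5.D (-1) (-1)) ⟨3, 7, 4, 8, 3, 6, 3, 7, 4, 0⟩ :=
  out_sound (S := T5.ds_mm) T5.ok_mm (w := 47) (j := 3) (by decide +kernel)
theorem L07090 : Good (Phi V5.P V5.D (-1) (-1)) ⟨4, 12, 5, 16, 3, 6, 3, 7, 4, 1⟩ :=
  out_sound (S := T5.ds_mm) T5.ok_mm (w := 55) (j := 3) (by decide +kernel)
theorem L07091 : Good (Phi V5.P V5.D (-1) (-1)) ⟨4, 13, 5, 16, 3, 6, 3, 7, 5, 2⟩ :=
  leafX_sound T5.ok_mm T5.Ymm.bz_eq (w := 243) (c := ⟨⟨.negSucc 2258, .negSucc 111, .ofNat 77, .ofNat 1026, .ofNat 1117, .negSucc 37⟩, ⟨.ofNat 1246, .negSucc 19, .ofNat 12, .negSucc 576, .negSucc 610, .ofNat 25⟩, ⟨.ofNat 1494, .negSucc 68, .negSucc 28, .negSucc 714, .negSucc 919, .negSucc 179⟩, ⟨.negSucc 4265, .negSucc 223, .ofNat 140, .ofNat 1597, .ofNat 2112, .negSucc 23⟩, ⟨.negSucc 1560, .negSucc 254, .ofNat 80, .ofNat 132, .ofNat 807, .ofNat 60⟩,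 .ofNat 1792, .ofNat 2585, .ofNat 0, .ofNat 2585, .ofNat 4696, .ofNat 0, .ofNat 128, .negSucc 466, .negSucc 2070, .ofNat 0, .ofNat 274, .ofNat 1133, .ofNat 0, .ofNat 0, .ofNat 1588, .ofNat 424, .ofNat 0, .ofNat 0, .ofNat 0, .ofNat 0, .ofNat 0, .ofNat 0, .ofNat 827328116517736063115626473776469128276606976, .ofNat 0, .ofNat 0, .ofNat 0, .ofNat 1263577792380072873338695592541806558667866112, .ofNat 0, .ofNat 0, .ofNat 0, .ofNat 2023751739723888299799185567394725575927005184, .ofNat 0⟩)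
    (by decide +kernel)
theorem L07092 : Good (Phi V5.P V5.D (-1) (-1)) ⟨4, 13, 5, 16, 3, 6, 3, 7, 5, 3⟩ :=
  leafX_sound T5.ok_mm T5.Ymm.bz_eq (w := 242) (c := ⟨⟨.negSucc 2372, .negSucc 88, .ofNat 86, .ofNat 1190, .ofNat 1153, .ofNat 104⟩, ⟨.ofNat 1297, .negSucc 9, .ofNat 0, .negSucc 664, .negSucc 621, .negSucc 43⟩, ⟨.ofNat 1283, .ofNat 1, .negSucc 58, .negSucc 771, .negSucc 888, .negSucc 238⟩, ⟨.negSucc 4418, .negSucc 100, .ofNat 90, .ofNat 1851, .ofNat 2195, .ofNat 330⟩, ⟨.negSucc 1526, .negSucc 131, .negSucc 35, .ofNat 167, .ofNat 881, .ofNat 317⟩, .ofNat 2101, .ofNat 3121, .ofNat 0, .ofNat 3121, .ofNat 5638, .ofNat 0, .ofNat 128, .negSucc 529, .negSucc 1475, .ofNat 0, .ofNat 310, .ofNat 810, .ofNat 0, .ofNat 0, .ofNat 1191, .ofNat 594, .ofNat 0, .ofNat 0, .ofNat 0, .ofNat 0, .ofNat 0, .ofNat 0, .ofNat 1169281532635909973809063995923483423068389376, .ofNat 0, .ofNat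 0, .ofNat 1968408724231768613339178572305462857680744873984, .ofNat 969730777826509288135204701917512728257232896, .ofNat 0, .ofNat 0, .ofNat 0, .ofNat 1792284532729069593846879778956995546969014272, .ofNat 0⟩)
    (by decide +kernel)
theorem L07093 : Good (Phi V5.P V5.D (-1) (-1)) ⟨4, 12, 5, 17, 3, 6, 3, 7, 4, 1⟩ :=
  out_sound (S := T5.ds_mm) T5.ok_mm (w := 55) (j := 3) (by decide +kernel)
theorem L07094 : Good (Phi V5.P V5.D (-1) (-1)) ⟨4, 13, 5, 17, 3, 6, 3, 7, 5, 2⟩ :=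
  leafX_sound T5.ok_mm T5.Ymm.bz_eq (w := 244) (c := ⟨⟨.negSucc 2122, .negSucc 187, .ofNat 89, .ofNat 1005, .ofNat 1090, .negSucc 27⟩, ⟨.ofNat 1244, .ofNat 23, .ofNat 2, .negSucc 588, .negSucc 621, .ofNat 18⟩, ⟨.ofNat 1363, .ofNat 69, .negSucc 50, .negSucc 692, .negSucc 895, .negSucc 184⟩, ⟨.negSucc 4060, .negSucc 361, .ofNat 105, .ofNat 1611, .ofNat 2127, .negSucc 21⟩, ⟨.negSucc 1569, .negSucc 256, .negSucc 18, .ofNat 246, .ofNat 907, .ofNat 38⟩, .ofNat 2057, .ofNat 2961, .ofNat 0, .ofNat 2961, .ofNat 5182, .ofNat 0, .ofNat 128, .negSucc 528, .negSucc 2573, .ofNat 0, .ofNat 317, .ofNat 1463, .ofNat 0, .ofNat 0, .ofNat 1926, .ofNat 421, .ofNat 0, .ofNat 0, .ofNat 0, .ofNat 0, .ofNat 0, .ofNat 0, .ofNat 1178781366916393710640410784380481766663651328, .ofNat 0, .ofNat 0, .ofNat 0, .ofNat 1178737885254330117769922389886435094830252032, .ofNat 0, .ofNat 0, .ofNat 644527174984811373583896570077116455323252555776,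 .ofNat 2580460062819789329936861113730301418367090688, .ofNat 0⟩)
    (by decide +kernel)
theorem L07095 : Good (Phi V5.P V5.D (-1) (-1)) ⟨5, 26, 5, 17, 3, 6, 3, 7, 5, 3⟩ :=
  out_sound (S := T5.ds_mm) T5.ok_mm (w := 61) (j := 3) (by decide +kernel)
theorem L07096 : Good (Phi V5.P V5.D (-1) (-1)) ⟨5, 27, 5, 17, 3, 6, 3, 7, 5, 3⟩ :=
  leafX_sound T5.ok_mm T5.Ymm.bz_eq (w := 248) (c := ⟨⟨.negSucc 2440, .ofNat 38, .ofNat 64, .ofNat 1208, .ofNat 1193, .ofNat 121⟩, ⟨.ofNat 1383, .negSucc 56, .ofNat 18, .negSucc 707, .negSucc 682, .negSucc 61⟩, ⟨.ofNat 1367, .negSucc 169, .ofNat 6, .negSucc 781, .negSucc 939, .negSucc 284⟩, ⟨.negSucc 4482, .negSucc 1, .ofNat 87, .ofNat 1879, .ofNat 2288, .ofNat 326⟩, ⟨.negSucc 1524, .negSucc 195, .ofNat 16, .ofNat 198, .ofNat 922, .ofNat 243⟩, .ofNat 2490, .ofNat 3671, .ofNat 0, .ofNat 3671, .ofNat 6352, .ofNat 0, .ofNat 128, .negSucc 689,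 .negSucc 2261, .ofNat 0, .ofNat 416, .ofNat 1298, .ofNat 0, .ofNat 0, .ofNat 1783, .ofNat 573, .ofNat 0, .ofNat 0, .ofNat 0, .ofNat 0, .ofNat 0, .ofNat 36697314455594156405060040990283750687699428704256, .ofNat 782894927013936606140934827356665812879409152, .ofNat 0, .ofNat 0, .ofNat 0, .ofNat 0, .ofNat 0, .ofNat 0, .ofNat 0, .ofNat 0, .ofNat 0⟩)
    (by decide +kernel)
theorem L07097 : Good (Phi V5.P V5.D (-1) (-1)) ⟨3, 7, 4, 8, 3, 6, 3, 7, 4, 1⟩ :=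
  out_sound (S := T5.ds_mm) T5.ok_mm (w := 47) (j := 3) (by decide +kernel)
theorem L07098 : Good (Phi V5.P V5.D (-1) (-1)) ⟨2, 2, 4, 9, 3, 6, 3, 7, 4, 0⟩ :=
  out_sound (S := T5.ds_mm) T5.ok_mm (w := 41) (j := 3) (by decide +kernel)
theorem L07099 : Good (Phi V5.P V5.D (-1) (-1)) ⟨4, 12, 4, 9, 4, 12, 3, 7, 4, 0⟩ :=
  out_sound (S := T5.ds_mm) T5.ok_mm (w := 53) (j := 3) (by decide +kernel)
theorem L07100 : Good (Phi V5.P V5.D (-1) (-1)) ⟨4, 13, 5, 18, 4, 12, 3, 7, 5, 0⟩ :=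
  leafX_sound T5.ok_mm T5.Ymm.bz_eq (w := 260) (c := ⟨⟨.ofNat 301, .negSucc 232, .ofNat 60, .negSucc 228, .negSucc 462, .negSucc 373⟩, ⟨.negSucc 139, .ofNat 61, .negSucc 9, .ofNat 138, .ofNat 279, .ofNat 222⟩, ⟨.negSucc 123, .ofNat 170, .negSucc 29, .ofNat 276, .ofNat 169, .ofNat 99⟩, ⟨.negSucc 138, .negSucc 169, .ofNat 25, .negSucc 403, .negSucc 787, .negSucc 617⟩, ⟨.negSucc 921, .ofNat 236, .negSucc 71, .negSucc 120, .negSucc 197, .negSucc 128⟩, .ofNat 3671, .ofNat 5465, .ofNat 0, .ofNat 5465, .ofNat 9040, .ofNat 0, .ofNat 128, .negSucc 595, .negSucc 3880, .ofNat 0, .ofNat 372, .ofNat 2340, .ofNat 0, .ofNat 0, .ofNat 3343, .ofNat 1480, .ofNat 0, .ofNat 0, .ofNat 0, .ofNat 0, .ofNat 0, .ofNat 1709722360743049646020138267478021452328125511761920, .ofNat 33221864627790066132720918225398724013152272384000, .ofNat 0, .ofNat 0, .ofNat 0, .ofNat 14954506446800953284852146849564834291457124728832,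 .ofNat 0, .ofNat 0, .ofNat 0, .ofNat 0, .ofNat 0⟩)
    (by decide +kernel)
theorem L07101 : Good (Phi V5.P V5.D (-1) (-1)) ⟨4, 13, 5, 19, 4, 12, 3, 7, 5, 0⟩ :=
  leafX_sound T5.ok_mm T5.Ymm.bz_eq (w := 264) (c := ⟨⟨.ofNat 227, .negSucc 100, .negSucc 182, .negSucc 203, .negSucc 501, .negSucc 357⟩, ⟨.negSucc 65, .negSucc 29, .ofNat 141, .ofNat 127, .ofNat 309, .ofNat 219⟩, ⟨.ofNat 41, .negSucc 22, .ofNat 178, .ofNat 257, .ofNat 200, .ofNat 83⟩, ⟨.negSucc 304, .negSucc 58, .negSucc 177, .negSucc 276, .negSucc 796, .negSucc 582⟩, ⟨.negSucc 915, .ofNat 38, .ofNat 157, .ofNat 24, .negSucc 123, .negSucc 113⟩, .ofNat 6405, .ofNat 9719, .ofNat 0, .ofNat 9719, .ofNat 15645, .ofNat 0, .ofNat 128, .negSucc 1114, .negSucc 7824, .ofNat 0, .ofNat 705, .ofNat 4833, .ofNat 0, .ofNat 0, .ofNat 6728, .ofNat 5231, .ofNat 0, .ofNat 0, .ofNat 0, .ofNat 0, .ofNat 0, .ofNat 0, .ofNat 635140763803528008554560089434095663348879112273920,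 .ofNat 0, .ofNat 0, .ofNat 0, .ofNat 709824878708026005733644419320518355712299411439616, .ofNat 0, .ofNat 0, .ofNat 0, .ofNat 0, .ofNat 0⟩)
    (by decide +kernel)
theorem L07102 : Good (Phi V5.P V5.D (-1) (-1)) ⟨4, 13, 4, 9, 4, 12, 3, 7, 5, 1⟩ :=
  leafX_sound T5.ok_mm T5.Ymm.bz_eq (w := 257) (c := ⟨⟨.negSucc 624, .negSucc 570, .ofNat 563, .ofNat 65, .ofNat 653, .negSucc 538⟩, ⟨.ofNat 399, .ofNat 278, .negSucc 263, .negSucc 38, .negSucc 393, .ofNat 324⟩, ⟨.ofNat 495, .ofNat 359, .negSucc 391, .negSucc 11, .negSucc 683, .ofNat 198⟩, ⟨.negSucc 1734, .negSucc 756, .ofNat 720, .ofNat 93, .ofNat 1220, .negSucc 862⟩, ⟨.negSucc 1253, .negSucc 41, .negSucc 70, .negSucc 0, .ofNat 459, .negSucc 128⟩, .ofNat 3093, .ofNat 4545, .ofNat 0, .ofNat 4545, .ofNat 7571, .ofNat 0, .ofNat 128, .negSucc 679, .negSucc 3616, .ofNat 0, .ofNat 423, .ofNat 2167, .ofNat 0, .ofNat 0, .ofNat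 2923, .ofNat 1521, .ofNat 0, .ofNat 0, .ofNat 0, .ofNat 0, .ofNat 0, .ofNat 0, .ofNat 0, .ofNat 0, .ofNat 0, .ofNat 0, .ofNat 31542228904046386270348509303016871751414964027392, .ofNat 0, .ofNat 0, .ofNat 701755165216196482773553789883041904197000841134080, .ofNat 116609510201145123710076032742986410817906177736704, .ofNat 0⟩)
    (by decide +kernel)
theorem L07103 : Good (Phi V5.P V5.D (-1) (-1)) ⟨6, 56, 4, 9, 4, 12, 4, 14, 5, 0⟩ :=
  leafX_sound T5.ok_mm T5.Ymm.bz_eq (w := 269) (c := ⟨⟨.ofNat 394, .negSucc 44, .ofNat 182, .negSucc 268, .negSucc 681, .negSucc 701⟩, ⟨.negSucc 288, .ofNat 19, .negSucc 74, .ofNat 171, .ofNat 430, .ofNat 440⟩, ⟨.negSucc 236, .ofNat 14, .negSucc 87, .ofNat 326, .ofNat 445, .ofNat 351⟩, ⟨.ofNat 209, .negSucc 42, .ofNat 220, .negSucc 413, .negSucc 1152, .negSucc 1203⟩, ⟨.negSucc 598, .ofNat 25, .negSucc 8, .negSucc 46, .negSucc 281, .negSucc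 319⟩, .ofNat 4021, .ofNat 5858, .ofNat 0, .ofNat 5858, .ofNat 9375, .ofNat 0, .ofNat 128, .negSucc 518, .negSucc 2622, .ofNat 0, .ofNat 333, .ofNat 1643, .ofNat 0, .ofNat 0, .ofNat 2206, .ofNat 827, .ofNat 0, .ofNat 0, .ofNat 50747131162829509116359693065332251685084463104, .ofNat 0, .ofNat 0, .ofNat 0, .ofNat 233910283926127331485791612657871902473655750230016, .ofNat 0, .ofNat 0, .ofNat 0, .ofNat 0, .ofNat 0, .ofNat 0, .ofNat 0, .ofNat 129373592273257384191306233838717768507718832750592, .ofNat 0⟩)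
    (by decide +kernel)
theorem L07104 : Good (Phi V5.P V5.D (-1) (-1)) ⟨6, 56, 4, 9, 4, 12, 4, 15, 5, 0⟩ :=
  leafX_sound T5.ok_mm T5.Ymm.bz_eq (w := 269) (c := ⟨⟨.negSucc 589, .ofNat 41, .ofNat 93, .negSucc 296, .ofNat 210, .negSucc 8⟩, ⟨.ofNat 316, .negSucc 46, .ofNat 3, .ofNat 187, .negSucc 131, .ofNat 5⟩, ⟨.ofNat 507, .negSucc 35, .negSucc 48, .ofNat 311, .negSucc 282, .negSucc 202⟩, ⟨.negSucc 1409, .ofNat 94, .ofNat 131, .negSucc 509, .ofNat 320, .negSucc 97⟩, ⟨.negSucc 936, .ofNat 43, .ofNat 51, .negSucc 135, .ofNat 34, .negSucc 131⟩, .ofNat 3212, .ofNat 4548, .ofNat 0, .ofNat 4548, .ofNat 7261, .ofNat 0, .ofNat 128, .negSucc 777, .negSucc 4213, .ofNat 0, .ofNat 506, .ofNat 2601, .ofNat 0, .ofNat 0, .ofNat 3612, .ofNat 1617, .ofNat 0, .ofNat 0, .ofNat 63567984769369262784972764436036324038308528128, .ofNat 0, .ofNat 0, .ofNat 0, .ofNat 157818523476720921388538882449166236957669620449280,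 .ofNat 0, .ofNat 0, .ofNat 0, .ofNat 0, .ofNat 0, .ofNat 0, .ofNat 0, .ofNat 51673268738475618041413866120050836277221637750784, .ofNat 0⟩)
    (by decide +kernel)
theorem L07105 : Good (Phi V5.P V5.D (-1) (-1)) ⟨6, 56, 5, 18, 4, 12, 3, 7, 5, 1⟩ :=
  out_sound (S := T5.ds_mm) T5.ok_mm (w := 67) (j := 3) (by decide +kernel)
theorem L07106 : Good (Phi V5.P V5.D (-1) (-1)) ⟨7, 112, 5, 19, 4, 12, 3, 7, 5, 1⟩ :=
  leafX_sound T5.ok_mm T5.Ymm.bz_eq (w := 273) (c := ⟨⟨.negSucc 1177, .ofNat 89, .ofNat 337, .ofNat 55, .ofNat 831, .negSucc 365⟩, ⟨.ofNat 709, .negSucc 68, .negSucc 169, .negSucc 34, .negSucc 522, .ofNat 229⟩, ⟨.ofNat 842, .negSucc 75, .negSucc 233, .ofNat 21, .negSucc 825, .ofNat 77⟩, ⟨.negSucc 2401, .ofNat 48, .ofNat 469, .ofNat 57, .ofNat 1482, .negSucc 668⟩, ⟨.negSucc 1155, .negSucc 127, .ofNat 6, .negSucc 32, .ofNat 467, .negSucc 224⟩, .ofNat 3893, .ofNat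 5671, .ofNat 0, .ofNat 5671, .ofNat 9103, .ofNat 0, .ofNat 128, .negSucc 849, .negSucc 5257, .ofNat 0, .ofNat 543, .ofNat 3275, .ofNat 0, .ofNat 0, .ofNat 4206, .ofNat 1323, .ofNat 0, .ofNat 0, .ofNat 0, .ofNat 0, .ofNat 0, .ofNat 30874146958162975634133519444108832659171705613549830144, .ofNat 16373832374278108764246321851106613007062040313856, .ofNat 0, .ofNat 0, .ofNat 0, .ofNat 0, .ofNat 0, .ofNat 0, .ofNat 0, .ofNat 0, .ofNat 0⟩)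
    (by decide +kernel)
theorem L07107 : Good (Phi V5.P V5.D (-1) (-1)) ⟨7, 113, 5, 19, 4, 12, 3, 7, 5, 1⟩ :=
  out_sound (S := T5.ds_mm) T5.ok_mm (w := 73) (j := 3) (by decide +kernel)
theorem L07108 : Good (Phi V5.P V5.D (-1) (-1)) ⟨6, 57, 4, 9, 4, 12, 3, 7, 4, 0⟩ :=
  out_sound (S := T5.ds_mm) T5.ok_mm (w := 65) (j := 3) (by decide +kernel)
theorem L07109 : Good (Phi V5.P V5.D (-1) (-1)) ⟨5, 29, 4, 9, 4, 12, 3, 7, 4, 0⟩ :=
  out_sound (S := T5.ds_mm) T5.ok_mm (w := 59) (j := 3) (by decide +kernel)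
theorem L07110 : Good (Phi V5.P V5.D (-1) (-1)) ⟨4, 15, 4, 9, 4, 12, 3, 7, 4, 0⟩ :=
  out_sound (S := T5.ds_mm) T5.ok_mm (w := 53) (j := 3) (by decide +kernel)
theorem L07111 : Good (Phi V5.P V5.D (-1) (-1)) ⟨4, 12, 5, 18, 4, 13, 3, 7, 4, 0⟩ :=
  out_sound (S := T5.ds_mm) T5.ok_mm (w := 55) (j := 3) (by decide +kernel)
theorem L07112 : Good (Phi V5.P V5.D (-1) (-1)) ⟨5, 26, 5, 18, 4, 13, 3, 7, 4, 0⟩ :=
  out_sound (S := T5.ds_mm) T5.ok_mm (w := 61) (j := 3) (by decide +kernel)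
theorem L07113 : Good (Phi V5.P V5.D (-1) (-1)) ⟨6, 54, 5, 18, 4, 13, 3, 7, 4, 0⟩ :=
  out_sound (S := T5.ds_mm) T5.ok_mm (w := 67) (j := 3) (by decide +kernel)
theorem L07114 : Good (Phi V5.P V5.D (-1) (-1)) ⟨6, 55, 5, 18, 4, 13, 3, 7, 5, 0⟩ :=
  leafX_sound T5.ok_mm T5.Ymm.bz_eq (w := 268) (c := ⟨⟨.negSucc 282, .ofNat 19, .ofNat 71, .negSucc 209, .negSucc 342, .negSucc 276⟩, ⟨.ofNat 153, .negSucc 31, .negSucc 10, .ofNat 126, .ofNat 203, .ofNat 163⟩, ⟨.ofNat 476, .negSucc 17, .negSucc 41, .ofNat 198, .ofNat 11, .negSucc 16⟩, ⟨.negSucc 887, .ofNat 48, .ofNat 59, .negSucc 274, .negSucc 621, .negSucc 594⟩, ⟨.negSucc 795, .ofNat 20, .negSucc 43, .ofNat 46, .negSucc 205, .negSucc 314⟩, .ofNat 3045, .ofNat 4473, .ofNat 0, .ofNat 4473, .ofNat 7467, .ofNat 0, .ofNat 128, .negSucc 660, .negSucc 3761, .ofNat 0, .ofNat 405, .ofNat 2243, .ofNat 0, .ofNat 0, .ofNat 2946, .ofNat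 2517, .ofNat 0, .ofNat 0, .ofNat 25770242781551995046516632467647536555834212352, .ofNat 0, .ofNat 0, .ofNat 0, .ofNat 5739316776181766854660196447942406935624766455808, .ofNat 0, .ofNat 0, .ofNat 0, .ofNat 18925084641996058349098532641665242627440346398720, .ofNat 0, .ofNat 0, .ofNat 0, .ofNat 0, .ofNat 0⟩)
    (by decide +kernel)
theorem L07115 : Good (Phi V5.P V5.D (-1) (-1)) ⟨6, 55, 5, 18, 4, 13, 3, 7, 5, 1⟩ :=
  leafX_sound T5.ok_mm T5.Ymm.bz_eq (w := 268) (c := ⟨⟨.negSucc 1041, .negSucc 297, .ofNat 245, .ofNat 21, .ofNat 452, .ofNat 32⟩, ⟨.ofNat 603, .ofNat 154, .negSucc 104, .negSucc 13, .negSucc 271, .negSucc 20⟩, ⟨.ofNat 801, .ofNat 175, .negSucc 137, .ofNat 13, .negSucc 529, .negSucc 230⟩, ⟨.negSucc 2256, .negSucc 430, .ofNat 373, .negSucc 40, .ofNat 845, .negSucc 96⟩, ⟨.negSucc 1244, .negSucc 17, .ofNat 64, .negSucc 116, .ofNat 319, .negSucc 227⟩, .ofNat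 3054, .ofNat 4481, .ofNat 0, .ofNat 4481, .ofNat 7465, .ofNat 0, .ofNat 128, .negSucc 637, .negSucc 3707, .ofNat 0, .ofNat 392, .ofNat 2210, .ofNat 0, .ofNat 0, .ofNat 2765, .ofNat 2325, .ofNat 0, .ofNat 0, .ofNat 0, .ofNat 0, .ofNat 0, .ofNat 2956663397953849648528002035563601076595480934941196288, .ofNat 2381578864291570138683074918591608576156524085248, .ofNat 0, .ofNat 0, .ofNat 0, .ofNat 14652997601797084875606932692682863036338542739456, .ofNat 0, .ofNat 0, .ofNat 0, .ofNat 0, .ofNat 0⟩)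
    (by decide +kernel)
theorem L07116 : Good (Phi V5.P V5.D (-1) (-1)) ⟨3, 7, 5, 18, 4, 13, 3, 7, 4, 0⟩ :=
  out_sound (S := T5.ds_mm) T5.ok_mm (w := 49) (j := 3) (by decide +kernel)
theorem L07117 : Good (Phi V5.P V5.D (-1) (-1)) ⟨4, 12, 5, 19, 4, 13, 3, 7, 4, 0⟩ :=
  out_sound (S := T5.ds_mm) T5.ok_mm (w := 55) (j := 3) (by decide +kernel)
theorem L07118 : Good (Phi V5.P V5.D (-1) (-1)) ⟨4, 13, 5, 19, 4, 13, 3, 7, 5, 0⟩ :=
  leafX_sound T5.ok_mm T5.Ymm.bz_eq (w := 263) (c := ⟨⟨.negSucc 42, .negSucc 110, .ofNat 29, .negSucc 302, .negSucc 267, .negSucc 297⟩, ⟨.ofNat 98, .negSucc 17, .ofNat 11, .ofNat 187, .ofNat 162, .ofNat 181⟩, ⟨.ofNat 421, .negSucc 41, .ofNat 14, .ofNat 285, .negSucc 59, .ofNat 0⟩, ⟨.negSucc 578, .negSucc 42, .ofNat 45, .negSucc 546, .negSucc 529, .negSucc 593⟩, ⟨.negSucc 678, .ofNat 31, .ofNat 42, .negSucc 182, .negSucc 235, .negSucc 269⟩, .ofNat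 6547, .ofNat 9936, .ofNat 0, .ofNat 9936, .ofNat 15978, .ofNat 0, .ofNat 128, .negSucc 864, .negSucc 5688, .ofNat 0, .ofNat 542, .ofNat 3505, .ofNat 0, .ofNat 0, .ofNat 4422, .ofNat 3800, .ofNat 0, .ofNat 0, .ofNat 0, .ofNat 0, .ofNat 0, .ofNat 0, .ofNat 671549312424507518397117971262371280640213835055104, .ofNat 0, .ofNat 0, .ofNat 0, .ofNat 381194321356413726225056574472026634777468390604800, .ofNat 0, .ofNat 0, .ofNat 0, .ofNat 0, .ofNat 0⟩)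
    (by decide +kernel)
theorem L07119 : Good (Phi V5.P V5.D (-1) (-1)) ⟨4, 13, 5, 19, 4, 13, 3, 7, 5, 1⟩ :=
  leafX_sound T5.ok_mm T5.Ymm.bz_eq (w := 264) (c := ⟨⟨.negSucc 742, .negSucc 267, .ofNat 16, .negSucc 78, .ofNat 533, .negSucc 22⟩, ⟨.ofNat 546, .ofNat 56, .ofNat 33, .ofNat 48, .negSucc 327, .ofNat 12⟩, ⟨.ofNat 807, .negSucc 26, .negSucc 5, .ofNat 83, .negSucc 585, .negSucc 195⟩, ⟨.negSucc 2117, .negSucc 157, .negSucc 155, .ofNat 15, .ofNat 867, .negSucc 76⟩, ⟨.negSucc 1415, .ofNat 77, .negSucc 234, .ofNat 202, .ofNat 170, .negSucc 67⟩, .ofNat 6344, .ofNat 9618, .ofNat 0, .ofNat 9618, .ofNat 15475, .ofNat 0, .ofNat 128, .negSucc 1353, .negSucc 6379, .ofNat 0, .ofNat 847, .ofNat 3921, .ofNat 0, .ofNat 0, .ofNat 4685, .ofNat 3860, .ofNat 0, .ofNat 0, .ofNat 0, .ofNat 0, .ofNat 0, .ofNat 15975716236475460820286299826827886161261163710513152, .ofNat 1032121372462657509767196432161632579157444937121792,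 .ofNat 0, .ofNat 0, .ofNat 0, .ofNat 75362632237943337578013205036312846153742425260032, .ofNat 0, .ofNat 0, .ofNat 0, .ofNat 0, .ofNat 0⟩)
    (by decide +kernel)
theorem L07120 : Good (Phi V5.P V5.D (-1) (-1)) ⟨7, 112, 5, 19, 4, 13, 3, 7, 5, 0⟩ :=
  leafX_sound T5.ok_mm T5.Ymm.bz_eq (w := 273) (c := ⟨⟨.negSucc 185, .negSucc 47, .ofNat 103, .negSucc 280, .negSucc 321, .negSucc 248⟩, ⟨.ofNat 97, .ofNat 25, .negSucc 38, .ofNat 176, .ofNat 199, .ofNat 154⟩, ⟨.ofNat 411, .ofNat 52, .negSucc 74, .ofNat 266, .negSucc 25, .negSucc 38⟩, ⟨.negSucc 739, .negSucc 304, .ofNat 303, .negSucc 431, .negSucc 603, .negSucc 525⟩, ⟨.negSucc 770, .negSucc 393, .ofNat 288, .negSucc 45, .negSucc 220, .negSucc 261⟩, .ofNat 3949, .ofNat 5753, .ofNat 0, .ofNat 5753, .ofNat 9220, .ofNat 0, .ofNat 128, .negSucc 731, .negSucc 4158, .ofNat 0, .ofNat 464, .ofNat 2589, .ofNat 0, .ofNat 0, .ofNat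 3204, .ofNat 2781, .ofNat 0, .ofNat 0, .ofNat 10485512725357799169805503828317895569222664192, .ofNat 0, .ofNat 0, .ofNat 0, .ofNat 23067401284218817455553806540367001261645034946560, .ofNat 0, .ofNat 0, .ofNat 0, .ofNat 10912999841333883532495365612293525256680733933568, .ofNat 0, .ofNat 0, .ofNat 0, .ofNat 0, .ofNat 0⟩)
    (by decide +kernel)
theorem L07121 : Good (Phi V5.P V5.D (-1) (-1)) ⟨7, 113, 5, 19, 4, 13, 3, 7, 5, 0⟩ :=
  out_sound (S := T5.ds_mm) T5.ok_mm (w := 73) (j := 3) (by decide +kernel)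
theorem L07122 : Good (Phi V5.P V5.D (-1) (-1)) ⟨6, 56, 5, 19, 4, 13, 3, 7, 5, 1⟩ :=
  leafX_sound T5.ok_mm T5.Ymm.bz_eq (w := 269) (c := ⟨⟨.negSucc 1178, .negSucc 530, .ofNat 417, .negSucc 24, .ofNat 610, .ofNat 19⟩, ⟨.ofNat 709, .ofNat 307, .negSucc 219, .ofNat 15, .negSucc 381, .negSucc 12⟩, ⟨.ofNat 893, .ofNat 316, .negSucc 245, .ofNat 53, .negSucc 639, .negSucc 229⟩, ⟨.negSucc 2394, .negSucc 760, .ofNat 505, .negSucc 105, .ofNat 986, .ofNat 2⟩, ⟨.negSucc 1143, .negSucc 11, .negSucc 118, .negSucc 111, .ofNat 187, .negSucc 26⟩, .ofNat 3978, .ofNat 5790, .ofNat 0, .ofNat 5790, .ofNat 9263, .ofNat 0, .ofNat 128, .negSucc 861, .negSucc 3943, .ofNat 0, .ofNat 547, .ofNat 2455, .ofNat 0, .ofNat 0, .ofNat 2869, .ofNat 2323, .ofNat 0, .ofNat 0, .ofNat 17363906457791734126769885031875665696716226560, .ofNat 0, .ofNat 0, .ofNat 2223388649872856715857524081312882476400191124579287040,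 .ofNat 55071420477278737150408268581991248713614561902592, .ofNat 0, .ofNat 0, .ofNat 0, .ofNat 11442347585191371203835132918771754195175115587584, .ofNat 0, .ofNat 0, .ofNat 0, .ofNat 28781635213885307832155056131130313816606102257664, .ofNat 0⟩)
    (by decide +kernel)
theorem L07123 : Good (Phi V5.P V5.D (-1) (-1)) ⟨6, 57, 5, 19, 4, 13, 3, 7, 4, 0⟩ :=
  out_sound (S := T5.ds_mm) T5.ok_mm (w := 67) (j := 3) (by decide +kernel)
theorem L07124 : Good (Phi V5.P V5.D (-1) (-1)) ⟨5, 29, 5, 19, 4, 13, 3, 7, 4, 0⟩ :=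
  out_sound (S := T5.ds_mm) T5.ok_mm (w := 61) (j := 3) (by decide +kernel)
theorem L07125 : Good (Phi V5.P V5.D (-1) (-1)) ⟨4, 15, 5, 19, 4, 13, 3, 7, 4, 0⟩ :=
  out_sound (S := T5.ds_mm) T5.ok_mm (w := 55) (j := 3) (by decide +kernel)
theorem L07126 : Good (Phi V5.P V5.D (-1) (-1)) ⟨2, 2, 4, 9, 3, 6, 3, 7, 4, 1⟩ :=
  out_sound (S := T5.ds_mm) T5.ok_mm (w := 41) (j := 3) (by decide +kernel)
theorem L07127 : Good (Phi V5.P V5.D (-1) (-1)) ⟨4, 12, 4, 9, 4, 12, 4, 14, 4, 1⟩ :=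
  out_sound (S := T5.ds_mm) T5.ok_mm (w := 53) (j := 3) (by decide +kernel)
theorem L07128 : Good (Phi V5.P V5.D (-1) (-1)) ⟨5, 26, 4, 9, 4, 12, 4, 14, 4, 1⟩ :=
  out_sound (S := T5.ds_mm) T5.ok_mm (w := 59) (j := 3) (by decide +kernel)
theorem L07129 : Good (Phi V5.P V5.D (-1) (-1)) ⟨5, 27, 4, 9, 4, 12, 4, 14, 4, 1⟩ :=
  leafX_sound T5.ok_mm T5.Ymm.bz_eq (w := 259) (c := ⟨⟨.negSucc 2413, .ofNat 96, .ofNat 67, .ofNat 584, .ofNat 688, .ofNat 65⟩, ⟨.ofNat 1432, .negSucc 85, .ofNat 62, .negSucc 357, .negSucc 413, .negSucc 28⟩, ⟨.ofNat 1592, .negSucc 127, .negSucc 9, .negSucc 421, .negSucc 558, .negSucc 487⟩, ⟨.negSucc 4533, .ofNat 181, .ofNat 69, .ofNat 872, .ofNat 1230, .ofNat 221⟩, ⟨.negSucc 1671, .negSucc 12, .ofNat 15, .ofNat 47, .ofNat 388, .ofNat 214⟩, .ofNat 3059, .ofNat 4493, .ofNat 0, .ofNat 4493, .ofNat 7491, .ofNat 0, .ofNat 128, .negSucc 589, .negSucc 2961,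 .ofNat 0, .ofNat 366, .ofNat 1772, .ofNat 0, .ofNat 0, .ofNat 2289, .ofNat 874, .ofNat 0, .ofNat 0, .ofNat 0, .ofNat 0, .ofNat 0, .ofNat 0, .ofNat 0, .ofNat 0, .ofNat 0, .ofNat 0, .ofNat 3982683491316941775940279752061196078292559462400, .ofNat 0, .ofNat 0, .ofNat 0, .ofNat 24532354088624374665738221665593017883577676726272, .ofNat 0⟩)
    (by decide +kernel)
theorem L07130 : Good (Phi V5.P V5.D (-1) (-1)) ⟨5, 28, 4, 9, 4, 12, 4, 14, 4, 1⟩ :=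
  leafX_sound T5.ok_mm T5.Ymm.bz_eq (w := 258) (c := ⟨⟨.negSucc 2478, .negSucc 64, .ofNat 301, .ofNat 615, .ofNat 809, .negSucc 55⟩, ⟨.ofNat 1446, .negSucc 22, .negSucc 58, .negSucc 387, .negSucc 508, .ofNat 42⟩, ⟨.ofNat 1632, .ofNat 63, .negSucc 242, .negSucc 431, .negSucc 648, .negSucc 436⟩, ⟨.negSucc 4514, .ofNat 4, .ofNat 404, .ofNat 883, .ofNat 1375, .negSucc 64⟩, ⟨.negSucc 1594, .ofNat 22, .ofNat 38, .ofNat 9, .ofNat 348, .ofNat 39⟩, .ofNat 2417, .ofNat 3255, .ofNat 0, .ofNat 3255, .ofNat 5151, .ofNat 0, .ofNat 128, .negSucc 688, .negSucc 2827, .ofNat 0, .ofNat 453, .ofNat 1741, .ofNat 0, .ofNat 0, .ofNat 2064, .ofNat 1467, .ofNat 0, .ofNat 0, .ofNat 0, .ofNat 0, .ofNat 0, .ofNat 0, .ofNat 8296277351059215870820686274934093890849630846976, .ofNat 0, .ofNat 0, .ofNat 0, .ofNat 1181497427275517678884752648330086118067735101440, .ofNat 0, .ofNat 0, .ofNat 0, .ofNat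 10130104875074594196741960334004526598950735577088, .ofNat 0⟩)
    (by decide +kernel)
theorem L07131 : Good (Phi V5.P V5.D (-1) (-1)) ⟨5, 29, 4, 9, 4, 12, 4, 14, 4, 1⟩ :=
  out_sound (S := T5.ds_mm) T5.ok_mm (w := 59) (j := 3) (by decide +kernel)
theorem L07132 : Good (Phi V5.P V5.D (-1) (-1)) ⟨4, 15, 4, 9, 4, 12, 4, 14, 4, 1⟩ :=
  out_sound (S := T5.ds_mm) T5.ok_mm (w := 53) (j := 3) (by decide +kernel)
theorem L07133 : Good (Phi V5.P V5.D (-1) (-1)) ⟨3, 6, 4, 9, 4, 12, 4, 15, 4, 1⟩ :=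
  leafX_sound T5.ok_mm T5.Ymm.bz_eq (w := 250) (c := ⟨⟨.negSucc 1509, .ofNat 198, .ofNat 305, .ofNat 296, .ofNat 937, .negSucc 156⟩, ⟨.ofNat 1119, .negSucc 378, .negSucc 108, .negSucc 180, .negSucc 561, .ofNat 105⟩, ⟨.ofNat 821, .negSucc 173, .negSucc 186, .negSucc 179, .negSucc 763, .negSucc 258⟩, ⟨.negSucc 2996, .ofNat 273, .ofNat 558, .ofNat 465, .ofNat 1756, .negSucc 40⟩, ⟨.negSucc 1415, .ofNat 48, .ofNat 210, .ofNat 70, .ofNat 664, .ofNat 298⟩, .ofNat 3129, .ofNat 4596, .ofNat 0, .ofNat 4596, .ofNat 7640, .ofNat 0, .ofNat 128, .negSucc 582, .negSucc 2207, .ofNat 0, .ofNat 362, .ofNat 1322, .ofNat 0, .ofNat 0, .ofNat 1714, .ofNat 629, .ofNat 0, .ofNat 0, .ofNat 36044781636419776354442796555007176594379767808, .ofNat 0, .ofNat 0, .ofNat 0, .ofNat 0, .ofNat 0, .ofNat 0, .ofNat 108112926491820306151053709891863016299255698554880, .ofNat 4839273275996159434965735293059319774481462853632,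 .ofNat 0, .ofNat 0, .ofNat 0, .ofNat 50903202364216325310538719186410350130956291014656, .ofNat 0⟩)
    (by decide +kernel)
theorem L07134 : Good (Phi V5.P V5.D (-1) (-1)) ⟨6, 56, 4, 9, 4, 12, 4, 15, 4, 1⟩ :=
  leafX_sound T5.ok_mm T5.Ymm.bz_eq (w := 262) (c := ⟨⟨.negSucc 1262, .ofNat 150, .ofNat 140, .ofNat 337, .ofNat 1342, .negSucc 237⟩, ⟨.ofNat 736, .negSucc 114, .negSucc 30, .negSucc 208, .negSucc 836, .ofNat 156⟩, ⟨.ofNat 585, .negSucc 116, .negSucc 65, .negSucc 183, .negSucc 1038, .negSucc 189⟩, ⟨.negSucc 2652, .ofNat 283, .ofNat 265, .ofNat 438, .ofNat 2437, .negSucc 104⟩, ⟨.negSucc 1374, .ofNat 98, .ofNat 140, .negSucc 58, .ofNat 823, .ofNat 365⟩, .ofNat 2365, .ofNat 3247, .ofNat 0, .ofNat 3247, .ofNat 5255, .ofNat 0, .ofNat 128, .negSucc 733, .negSucc 3089, .ofNat 0, .ofNat 473, .ofNat 1880, .ofNat 0, .ofNat 0, .ofNat 2288, .ofNat 1800, .ofNat 0, .ofNat 0,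 .ofNat 0, .ofNat 0, .ofNat 0, .ofNat 276134098709079103704171980883517547338404199290372096, .ofNat 3201799962829212992432310008815728648033677606912, .ofNat 0, .ofNat 0, .ofNat 1454106165942720068782114212538256766372395386507624448, .ofNat 852598939540452527660804002203985202589357572096, .ofNat 0, .ofNat 0, .ofNat 594199736607397032022675278294153370735692062440554496, .ofNat 4694873355810442039148731164599473989619130826752, .ofNat 0⟩)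
    (by decide +kernel)
theorem L07135 : Good (Phi V5.P V5.D (-1) (-1)) ⟨6, 57, 4, 9, 4, 12, 4, 15, 4, 1⟩ :=
  out_sound (S := T5.ds_mm) T5.ok_mm (w := 65) (j := 3) (by decide +kernel)
theorem L07136 : Good (Phi V5.P V5.D (-1) (-1)) ⟨5, 29, 4, 9, 4, 12, 4, 15, 4, 1⟩ :=
  out_sound (S := T5.ds_mm) T5.ok_mm (w := 59) (j := 3) (by decide +kernel)
theorem L07137 : Good (Phi V5.P V5.D (-1) (-1)) ⟨4, 15, 4, 9, 4, 12, 4, 15, 4, 1⟩ :=
  out_sound (S := T5.ds_mm) T5.ok_mm (w := 53) (j := 3) (by decide +kernel)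
theorem L07138 : Good (Phi V5.P V5.D (-1) (-1)) ⟨3, 6, 5, 18, 4, 13, 3, 7, 4, 1⟩ :=
  leafX_sound T5.ok_mm T5.Ymm.bz_eq (w := 250) (c := ⟨⟨.negSucc 1513, .negSucc 114, .ofNat 96, .ofNat 479, .ofNat 1076, .ofNat 55⟩, ⟨.ofNat 1005, .negSucc 74, .negSucc 16, .negSucc 284, .negSucc 641, .negSucc 29⟩, ⟨.ofNat 1104, .negSucc 172, .negSucc 38, .negSucc 275, .negSucc 878, .negSucc 405⟩, ⟨.negSucc 3343, .negSucc 21, .ofNat 139, .ofNat 741, .ofNat 2100, .ofNat 293⟩, ⟨.negSucc 1674, .negSucc 18, .ofNat 36, .ofNat 78, .ofNat 895, .ofNat 354⟩, .ofNat 3053, .ofNat 4490, .ofNat 0, .ofNat 4490, .ofNat 7500, .ofNat 0, .ofNat 128, .negSucc 986, .negSucc 2712, .ofNat 0, .ofNat 605, .ofNat 1612, .ofNat 0, .ofNat 0, .ofNat 1971, .ofNat 1413, .ofNat 0, .ofNat 0, .ofNat 0, .ofNat 0, .ofNat 0, .ofNat 121255443575456711871642730975282240406422359638016, .ofNat 2543338992372034045117003497353104160863148834816,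 .ofNat 0, .ofNat 0, .ofNat 329546503869302329333613381273099914228613223809024, .ofNat 3458097968750508446905248547208408283738735116288, .ofNat 0, .ofNat 0, .ofNat 0, .ofNat 0, .ofNat 0⟩)
    (by decide +kernel)
theorem L07139 : Good (Phi V5.P V5.D (-1) (-1)) ⟨3, 7, 5, 18, 4, 13, 3, 7, 4, 1⟩ :=
  out_sound (S := T5.ds_mm) T5.ok_mm (w := 49) (j := 3) (by decide +kernel)
theorem L07140 : Good (Phi V5.P V5.D (-1) (-1)) ⟨3, 6, 5, 19, 4, 13, 3, 7, 4, 1⟩ :=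
  leafX_sound T5.ok_mm T5.Ymm.bz_eq (w := 254) (c := ⟨⟨.negSucc 1507, .negSucc 47, .ofNat 95, .ofNat 409, .ofNat 1177, .ofNat 114⟩, ⟨.ofNat 1123, .negSucc 187, .negSucc 15, .negSucc 251, .negSucc 719, .negSucc 66⟩, ⟨.ofNat 1026, .negSucc 116, .negSucc 36, .negSucc 229, .negSucc 932, .negSucc 451⟩, ⟨.negSucc 3167, .ofNat 20, .ofNat 103, .ofNat 627, .ofNat 2043, .ofNat 238⟩, ⟨.negSucc 1475, .negSucc 2, .negSucc 19, .ofNat 67, .ofNat 575, .ofNat 122⟩, .ofNat 5301, .ofNat 7957, .ofNat 0, .ofNat 7957, .ofNat 12828, .ofNat 0, .ofNat 128, .negSucc 1379, .negSucc 5875, .ofNat 0, .ofNat 865, .ofNat 3613, .ofNat 0, .ofNat 0, .ofNat 4165, .ofNat 1402, .ofNat 0, .ofNat 0, .ofNat 6555986621214965090189305688610966069554708480, .ofNat 0, .ofNat 0, .ofNat 0, .ofNat 0, .ofNat 0, .ofNat 0, .ofNat 453778170026647834928491264250688348050301535649792, .ofNat 4563023018409559495873392414902390050756723998720,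 .ofNat 0, .ofNat 0, .ofNat 0, .ofNat 0, .ofNat 0⟩)
    (by decide +kernel)
theorem L07141 : Good (Phi V5.P V5.D (-1) (-1)) ⟨4, 14, 5, 19, 4, 13, 3, 7, 4, 1⟩ :=
  leafX_sound T5.ok_mm T5.Ymm.bz_eq (w := 253) (c := ⟨⟨.negSucc 1563, .negSucc 73, .ofNat 91, .ofNat 490, .ofNat 1243, .ofNat 7⟩, ⟨.ofNat 945, .negSucc 115, .negSucc 5, .negSucc 307, .negSucc 775, .negSucc 2⟩, ⟨.ofNat 913, .negSucc 75, .negSucc 18, .negSucc 281, .negSucc 972, .negSucc 391⟩, ⟨.negSucc 3234, .negSucc 95, .ofNat 138, .ofNat 746, .ofNat 2274, .ofNat 184⟩, ⟨.negSucc 1599, .negSucc 45, .ofNat 40, .ofNat 85, .ofNat 781, .ofNat 271⟩, .ofNat 1828, .ofNat 2278, .ofNat 0, .ofNat 2278, .ofNat 3517, .ofNat 0, .ofNat 128, .negSucc 841, .negSucc 3136, .ofNat 0, .ofNat 558, .ofNat 1931, .ofNat 0, .ofNat 0, .ofNat 1987, .ofNat 631, .ofNat 0, .ofNat 0, .ofNat 917936789873724484820504106515622407706771456, .ofNat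 0, .ofNat 0, .ofNat 232302515694252842027615463791706337062682053574656, .ofNat 898532391922671120126369531182519031297050935296, .ofNat 0, .ofNat 0, .ofNat 0, .ofNat 337601428578727483979240551078521214905486409728, .ofNat 0, .ofNat 0, .ofNat 0, .ofNat 1309422789102646897342647386784663411916814680064, .ofNat 0⟩)
    (by decide +kernel)
theorem L07142 : Good (Phi V5.P V5.D (-1) (-1)) ⟨4, 15, 5, 19, 4, 13, 3, 7, 4, 1⟩ :=
  out_sound (S := T5.ds_mm) T5.ok_mm (w := 55) (j := 3) (by decide +kernel)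
theorem L07143 : Good (Phi V5.P V5.D (-1) (-1)) ⟨2, 2, 4, 8, 3, 7, 3, 6, 4, 0⟩ :=
  out_sound (S := T5.ds_mm) T5.ok_mm (w := 41) (j := 3) (by decide +kernel)
theorem L07144 : Good (Phi V5.P V5.D (-1) (-1)) ⟨4, 12, 4, 8, 3, 7, 3, 6, 4, 0⟩ :=
  out_sound (S := T5.ds_mm) T5.ok_mm (w := 53) (j := 3) (by decide +kernel)
theorem L07145 : Good (Phi V5.P V5.D (-1) (-1)) ⟨5, 26, 4, 8, 3, 7, 3, 6, 5, 0⟩ :=
  leafX_sound T5.ok_mm T5.Ymm.bz_eq (w := 245) (c := ⟨⟨.ofNat 1225, .negSucc 339, .negSucc 163, .negSucc 882, .negSucc 671, .negSucc 718⟩, ⟨.negSucc 632, .ofNat 144, .ofNat 123, .ofNat 479, .ofNat 351, .ofNat 382⟩, ⟨.negSucc 246, .ofNat 239, .ofNat 239, .ofNat 730, .ofNat 143, .ofNat 225⟩, ⟨.ofNat 1897, .negSucc 401, .negSucc 181, .negSucc 1495, .negSucc 1439, .negSucc 1465⟩, ⟨.ofNat 163, .ofNat 145, .ofNat 154, .negSucc 322, .negSucc 787, .negSucc 711⟩, .ofNat 2866, .ofNat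 4506, .ofNat 0, .ofNat 4506, .ofNat 8170, .ofNat 0, .ofNat 128, .negSucc 519, .negSucc 2194, .ofNat 0, .ofNat 289, .ofNat 1185, .ofNat 0, .ofNat 0, .ofNat 1600, .ofNat 2494, .ofNat 0, .ofNat 0, .ofNat 0, .ofNat 0, .ofNat 0, .ofNat 0, .ofNat 739682655237104697100316195178345073028890624, .ofNat 0, .ofNat 0, .ofNat 0, .ofNat 1240782067910474680005352771178121956851449856, .ofNat 0, .ofNat 0, .ofNat 0, .ofNat 433819643094977228534994210474403050354114560, .ofNat 0⟩)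
    (by decide +kernel)
theorem L07146 : Good (Phi V5.P V5.D (-1) (-1)) ⟨6, 54, 4, 8, 4, 14, 3, 6, 5, 0⟩ :=
  leafX_sound T5.ok_mm T5.Ymm.bz_eq (w := 261) (c := ⟨⟨.ofNat 1211, .ofNat 93, .negSucc 3, .negSucc 546, .negSucc 1194, .negSucc 815⟩, ⟨.negSucc 677, .negSucc 65, .ofNat 20, .ofNat 311, .ofNat 656, .ofNat 439⟩, ⟨.negSucc 266, .negSucc 79, .ofNat 70, .ofNat 497, .ofNat 536, .ofNat 305⟩, ⟨.ofNat 2049, .ofNat 125, .ofNat 21, .negSucc 843, .negSucc 2378, .negSucc 1624⟩, ⟨.ofNat 443, .negSucc 3, .ofNat 63, .negSucc 69, .negSucc 1068, .negSucc 738⟩, .ofNat 1442, .ofNat 1980, .ofNat 0, .ofNat 1980, .ofNat 3628, .ofNat 0, .ofNat 128, .negSucc 608, .negSucc 1702, .ofNat 0, .ofNat 344, .ofNat 919, .ofNat 0, .ofNat 0, .ofNat 1189, .ofNat 1524, .ofNat 0, .ofNat 0, .ofNat 5885882990404751232853226628577099316774043648, .ofNat 0, .ofNat 0, .ofNat 0, .ofNat 0, .ofNat 0, .ofNat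 0, .ofNat 0, .ofNat 4788225895375593817954319182789514437148440264704, .ofNat 0, .ofNat 0, .ofNat 0, .ofNat 3562219106488756605326721481416960591449905168384, .ofNat 0⟩)
    (by decide +kernel)
theorem L07147 : Good (Phi V5.P V5.D (-1) (-1)) ⟨6, 55, 4, 8, 4, 14, 3, 6, 5, 0⟩ :=
  leafX_sound T5.ok_mm T5.Ymm.bz_eq (w := 260) (c := ⟨⟨.ofNat 1373, .ofNat 142, .negSucc 70, .negSucc 512, .negSucc 1285, .negSucc 892⟩, ⟨.negSucc 816, .negSucc 96, .ofNat 65, .ofNat 300, .ofNat 734, .ofNat 510⟩, ⟨.negSucc 375, .negSucc 79, .ofNat 123, .ofNat 459, .ofNat 571, .ofNat 349⟩, ⟨.ofNat 2347, .ofNat 295, .negSucc 115, .negSucc 826, .negSucc 2538, .negSucc 1781⟩, ⟨.ofNat 561, .ofNat 157, .ofNat 6, .negSucc 133, .negSucc 1114, .negSucc 812⟩, .ofNat 1244, .ofNat 1584, .ofNat 0, .ofNat 1584, .ofNat 2822, .ofNat 0, .ofNat 128, .negSucc 582, .negSucc 2001, .ofNat 0, .ofNat 338, .ofNat 1094,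 .ofNat 0, .ofNat 0, .ofNat 1342, .ofNat 2111, .ofNat 0, .ofNat 0, .ofNat 10994605923787690169527664494922849140873363456, .ofNat 0, .ofNat 0, .ofNat 0, .ofNat 2107555297919537942625955656235372244056848465920, .ofNat 0, .ofNat 0, .ofNat 0, .ofNat 1369077082392112320831385851622941046679156031488, .ofNat 0, .ofNat 0, .ofNat 0, .ofNat 3081181842699952288981854021182626552885509357568, .ofNat 0⟩)
    (by decide +kernel)
theorem L07148 : Good (Phi V5.P V5.D (-1) (-1)) ⟨5, 27, 4, 8, 4, 15, 3, 6, 5, 0⟩ :=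
  leafX_sound T5.ok_mm T5.Ymm.bz_eq (w := 257) (c := ⟨⟨.ofNat 424, .ofNat 37, .ofNat 7, .negSucc 505, .negSucc 700, .negSucc 596⟩, ⟨.negSucc 258, .negSucc 42, .ofNat 37, .ofNat 283, .ofNat 384, .ofNat 330⟩, ⟨.ofNat 445, .negSucc 51, .ofNat 72, .ofNat 352, .ofNat 117, .ofNat 106⟩, ⟨.ofNat 985, .negSucc 34, .ofNat 70, .negSucc 1116, .negSucc 1626, .negSucc 1373⟩, ⟨.ofNat 619, .negSucc 182, .ofNat 139, .negSucc 646, .negSucc 1035, .negSucc 866⟩, .ofNat 2007, .ofNat 2865, .ofNat 0, .ofNat 2865, .ofNat 5010, .ofNat 0, .ofNat 128, .negSucc 369, .negSucc 1295, .ofNat 0, .ofNat 211, .ofNat 715, .ofNat 0, .ofNat 0, .ofNat 847, .ofNat 941, .ofNat 0, .ofNat 0, .ofNat 9993668421020247288822275258085553821997596672, .ofNat 0, .ofNat 0, .ofNat 0, .ofNat 6785870319768073411291936520855614015193042911232, .ofNat 0, .ofNat 0, .ofNat 0, .ofNat 1121705382951870994511703701913166968935369670656,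 .ofNat 0, .ofNat 0, .ofNat 0, .ofNat 8523236006465236948535136976705723253920731496448, .ofNat 0⟩)
    (by decide +kernel)
theorem L07149 : Good (Phi V5.P V5.D (-1) (-1)) ⟨5, 26, 4, 8, 3, 7, 3, 6, 5, 1⟩ :=
  leafX_sound T5.ok_mm T5.Ymm.bz_eq (w := 246) (c := ⟨⟨.negSucc 48, .negSucc 332, .ofNat 365, .negSucc 370, .negSucc 273, .negSucc 245⟩, ⟨.ofNat 38, .ofNat 146, .negSucc 127, .ofNat 201, .ofNat 142, .ofNat 127⟩, ⟨.ofNat 387, .ofNat 206, .negSucc 186, .ofNat 327, .negSucc 52, .negSucc 80⟩, ⟨.negSucc 613, .negSucc 347, .ofNat 450, .negSucc 595, .negSucc 614, .negSucc 530⟩, ⟨.negSucc 879, .ofNat 157, .negSucc 41, .negSucc 78, .negSucc 370, .negSucc 297⟩, .ofNat 2880, .ofNat 4534, .ofNat 0, .ofNat 4534, .ofNat 8224, .ofNat 0, .ofNat 128, .negSucc 575, .negSucc 3397, .ofNat 0, .ofNat 321, .ofNat 1830, .ofNat 0, .ofNat 0, .ofNat 2418, .ofNat 2785, .ofNat 0, .ofNat 0, .ofNat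 0, .ofNat 0, .ofNat 0, .ofNat 0, .ofNat 524144491854129695473634530877526309817286656, .ofNat 0, .ofNat 0, .ofNat 0, .ofNat 605716897801628811670506773425780999592083456, .ofNat 0, .ofNat 0, .ofNat 0, .ofNat 0, .ofNat 0⟩)
    (by decide +kernel)
theorem L07150 : Good (Phi V5.P V5.D (-1) (-1)) ⟨6, 54, 4, 8, 4, 14, 3, 6, 5, 1⟩ :=
  leafX_sound T5.ok_mm T5.Ymm.bz_eq (w := 262) (c := ⟨⟨.negSucc 81, .negSucc 179, .ofNat 281, .negSucc 219, .negSucc 593, .negSucc 492⟩, ⟨.ofNat 12, .ofNat 80, .negSucc 87, .ofNat 124, .ofNat 324, .ofNat 269⟩, ⟨.ofNat 386, .ofNat 95, .negSucc 115, .ofNat 203, .ofNat 152, .ofNat 83⟩, ⟨.negSucc 463, .negSucc 334, .ofNat 523, .negSucc 354, .negSucc 1153, .negSucc 994⟩, ⟨.negSucc 613, .negSucc 139, .ofNat 252, .negSucc 55, .negSucc 489, .negSucc 471⟩, .ofNat 2179, .ofNat 3209, .ofNat 0, .ofNat 3209, .ofNat 5698, .ofNat 0, .ofNat 128, .negSucc 407,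 .negSucc 1807, .ofNat 0, .ofNat 234, .ofNat 999, .ofNat 0, .ofNat 0, .ofNat 1253, .ofNat 1787, .ofNat 0, .ofNat 0, .ofNat 4928852750384035516412187261235745408652673024, .ofNat 0, .ofNat 0, .ofNat 0, .ofNat 2045631346172380920532013679076426130881958117376, .ofNat 0, .ofNat 0, .ofNat 0, .ofNat 2535234941861637172089623154887992494454353166336, .ofNat 0, .ofNat 0, .ofNat 0, .ofNat 0, .ofNat 0⟩)
    (by decide +kernel)
theorem L07151 : Good (Phi V5.P V5.D (-1) (-1)) ⟨6, 55, 4, 8, 4, 14, 3, 6, 5, 1⟩ :=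
  leafX_sound T5.ok_mm T5.Ymm.bz_eq (w := 263) (c := ⟨⟨.negSucc 314, .ofNat 41, .ofNat 289, .negSucc 184, .negSucc 625, .negSucc 433⟩, ⟨.ofNat 105, .negSucc 42, .negSucc 92, .ofNat 110, .ofNat 358, .ofNat 246⟩, ⟨.ofNat 525, .negSucc 47, .negSucc 128, .ofNat 182, .ofNat 166, .ofNat 46⟩, ⟨.negSucc 815, .ofNat 13, .ofNat 498, .negSucc 315, .negSucc 1247, .negSucc 902⟩, ⟨.negSucc 654, .negSucc 82, .ofNat 189, .negSucc 76, .negSucc 568, .negSucc 457⟩, .ofNat 2048, .ofNat 2869, .ofNat 0, .ofNat 2869, .ofNat 4905, .ofNat 0, .ofNat 128, .negSucc 483, .negSucc 2574, .ofNat 0, .ofNat 286, .ofNat 1443, .ofNat 0, .ofNat 0, .ofNat 1719, .ofNat 3037, .ofNat 0, .ofNat 0, .ofNat 4540700141625545081190259634943424218638843904, .ofNat 0, .ofNat 0, .ofNat 0, .ofNat 4139570776006777627248636244530765692913001168896, .ofNat 0, .ofNat 0, .ofNat 0, .ofNat 0, .ofNat 0, .ofNat 0, .ofNat 0,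 .ofNat 3866879484587963612928238265682042616576468844544, .ofNat 0⟩)
    (by decide +kernel)
theorem L07152 : Good (Phi V5.P V5.D (-1) (-1)) ⟨5, 27, 4, 8, 4, 15, 3, 6, 5, 1⟩ :=
  leafX_sound T5.ok_mm T5.Ymm.bz_eq (w := 258) (c := ⟨⟨.negSucc 780, .negSucc 102, .ofNat 32, .negSucc 140, .negSucc 130, .negSucc 26⟩, ⟨.ofNat 395, .ofNat 17, .ofNat 64, .ofNat 79, .ofNat 68, .ofNat 11⟩, ⟨.ofNat 893, .ofNat 30, .ofNat 39, .ofNat 118, .negSucc 170, .negSucc 198⟩, ⟨.negSucc 1626, .negSucc 215, .ofNat 5, .negSucc 311, .negSucc 370, .negSucc 119⟩, ⟨.negSucc 853, .negSucc 152, .negSucc 6, .negSucc 179, .negSucc 306, .negSucc 136⟩, .ofNat 1922, .ofNat 2757, .ofNat 0, .ofNat 2757, .ofNat 4886, .ofNat 0, .ofNat 128, .negSucc 691, .negSucc 2060, .ofNat 0, .ofNat 392, .ofNat 1128, .ofNat 0, .ofNat 0, .ofNat 1316, .ofNat 1480, .ofNat 0, .ofNat 0, .ofNat 9044989747995452361611137631201449878396862464,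 .ofNat 0, .ofNat 0, .ofNat 0, .ofNat 3971445785147184877833210411491185197646792884224, .ofNat 0, .ofNat 0, .ofNat 0, .ofNat 0, .ofNat 0, .ofNat 0, .ofNat 0, .ofNat 4713620609862181519805986848954199031341635338240, .ofNat 0⟩)
    (by decide +kernel)
theorem L07153 : Good (Phi V5.P V5.D (-1) (-1)) ⟨3, 7, 4, 8, 3, 7, 3, 6, 4, 0⟩ :=
  out_sound (S := T5.ds_mm) T5.ok_mm (w := 47) (j := 3) (by decide +kernel)
theorem L07154 : Good (Phi V5.P V5.D (-1) (-1)) ⟨2, 2, 4, 8, 3, 7, 3, 6, 4, 1⟩ :=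
  out_sound (S := T5.ds_mm) T5.ok_mm (w := 41) (j := 3) (by decide +kernel)
theorem L07155 : Good (Phi V5.P V5.D (-1) (-1)) ⟨4, 12, 4, 8, 3, 7, 3, 6, 4, 1⟩ :=
  out_sound (S := T5.ds_mm) T5.ok_mm (w := 53) (j := 3) (by decide +kernel)
theorem L07156 : Good (Phi V5.P V5.D (-1) (-1)) ⟨5, 26, 4, 8, 3, 7, 3, 6, 5, 2⟩ :=
  leafX_sound T5.ok_mm T5.Ymm.bz_eq (w := 246) (c := ⟨⟨.negSucc 974, .negSucc 266, .ofNat 277, .ofNat 227, .ofNat 276, .ofNat 51⟩, ⟨.ofNat 534, .ofNat 105, .negSucc 68, .negSucc 117, .negSucc 147, .negSucc 28⟩, ⟨.ofNat 684, .ofNat 190, .negSucc 192, .negSucc 9, .negSucc 324, .negSucc 220⟩, ⟨.negSucc 2338, .negSucc 308, .ofNat 325, .ofNat 486, .ofNat 489, .ofNat 78⟩, ⟨.negSucc 1526, .ofNat 80, .negSucc 54, .ofNat 264, .ofNat 139, .ofNat 3⟩, .ofNat 2851, .ofNat 4485, .ofNat 0, .ofNat 4485, .ofNat 8140, .ofNat 0, .ofNat 128, .negSucc 946, .negSucc 2567, .ofNat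 0, .ofNat 529, .ofNat 1382, .ofNat 0, .ofNat 0, .ofNat 1864, .ofNat 3382, .ofNat 0, .ofNat 0, .ofNat 0, .ofNat 0, .ofNat 0, .ofNat 0, .ofNat 218117150019132377821424307245644811411128320, .ofNat 0, .ofNat 0, .ofNat 0, .ofNat 599058296570507628753737499813280276983840768, .ofNat 0, .ofNat 0, .ofNat 0, .ofNat 0, .ofNat 0⟩)
    (by decide +kernel)
theorem L07157 : Good (Phi V5.P V5.D (-1) (-1)) ⟨5, 27, 4, 8, 4, 14, 3, 6, 5, 2⟩ :=
  leafX_sound T5.ok_mm T5.Ymm.bz_eq (w := 257) (c := ⟨⟨.negSucc 1256, .negSucc 153, .ofNat 143, .ofNat 350, .ofNat 223, .negSucc 108⟩, ⟨.ofNat 652, .ofNat 45, .ofNat 5, .negSucc 196, .negSucc 123, .ofNat 60⟩, ⟨.ofNat 878, .ofNat 43, .negSucc 29, .negSucc 145, .negSucc 298, .negSucc 129⟩, ⟨.negSucc 2664, .negSucc 105, .ofNat 126, .ofNat 674, .ofNat 344, .negSucc 262⟩, ⟨.negSucc 1448, .ofNat 151, .negSucc 64, .ofNat 281, .ofNat 39, .negSucc 175⟩,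 .ofNat 2007, .ofNat 2865, .ofNat 0, .ofNat 2865, .ofNat 5010, .ofNat 0, .ofNat 128, .negSucc 402, .negSucc 1669, .ofNat 0, .ofNat 236, .ofNat 933, .ofNat 0, .ofNat 0, .ofNat 1122, .ofNat 2031, .ofNat 0, .ofNat 0, .ofNat 8713549506806879587924482731080491041634123776, .ofNat 0, .ofNat 0, .ofNat 0, .ofNat 2260938891744446234929042671727894352242589827072, .ofNat 0, .ofNat 0, .ofNat 0, .ofNat 1430703533795526415378526956786339470725741543424, .ofNat 0, .ofNat 0, .ofNat 0, .ofNat 1597185582311415829227550561884438401967405924352, .ofNat 0⟩)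
    (by decide +kernel)
theorem L07158 : Good (Phi V5.P V5.D (-1) (-1)) ⟨5, 27, 4, 8, 4, 15, 3, 6, 5, 2⟩ :=
  leafX_sound T5.ok_mm T5.Ymm.bz_eq (w := 257) (c := ⟨⟨.negSucc 1139, .negSucc 162, .ofNat 214, .ofNat 44, .ofNat 385, .ofNat 175⟩, ⟨.ofNat 594, .ofNat 49, .negSucc 44, .negSucc 21, .negSucc 215, .negSucc 98⟩, ⟨.ofNat 853, .ofNat 40, .negSucc 49, .ofNat 51, .negSucc 388, .negSucc 255⟩, ⟨.negSucc 2504, .negSucc 479, .ofNat 505, .ofNat 176, .ofNat 713, .ofNat 346⟩, ⟨.negSucc 1464, .negSucc 451, .ofNat 394, .ofNat 192, .ofNat 263, .ofNat 153⟩, .ofNat 2007, .ofNat 2865, .ofNat 0, .ofNat 2865, .ofNat 5010, .ofNat 0, .ofNat 128, .negSucc 669, .negSucc 1094, .ofNat 0, .ofNat 386, .ofNat 602, .ofNat 0, .ofNat 0, .ofNat 727, .ofNat 1701, .ofNat 0, .ofNat 0, .ofNat 11177366153496870435818731152748562367108874240, .ofNat 0, .ofNat 0, .ofNat 0, .ofNat 4352298549863220756013864624185395838450571149312,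 .ofNat 0, .ofNat 0, .ofNat 0, .ofNat 6682298042791724005214000119064358291147461754880, .ofNat 0, .ofNat 0, .ofNat 0, .ofNat 0, .ofNat 0⟩)
    (by decide +kernel)
theorem L07159 : Good (Phi V5.P V5.D (-1) (-1)) ⟨5, 26, 4, 8, 3, 7, 3, 6, 5, 3⟩ :=
  leafX_sound T5.ok_mm T5.Ymm.bz_eq (w := 244) (c := ⟨⟨.negSucc 1510, .negSucc 33, .ofNat 139, .ofNat 686, .ofNat 459, .ofNat 99⟩, ⟨.ofNat 826, .negSucc 27, .ofNat 20, .negSucc 363, .negSucc 242, .negSucc 50⟩, ⟨.ofNat 938, .negSucc 144, .ofNat 98, .negSucc 199, .negSucc 380, .negSucc 206⟩, ⟨.negSucc 3239, .negSucc 27, .ofNat 174, .ofNat 1340, .ofNat 919, .ofNat 258⟩, ⟨.negSucc 1719, .negSucc 34, .ofNat 46, .ofNat 573, .ofNat 422, .ofNat 198⟩, .ofNat 2892, .ofNat 4555, .ofNat 0, .ofNat 4555, .ofNat 8261, .ofNat 0, .ofNat 128, .negSucc 1244, .negSucc 1026, .ofNat 0, .ofNat 703, .ofNat 553, .ofNat 0, .ofNat 0, .ofNat 886, .ofNat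 3144, .ofNat 0, .ofNat 0, .ofNat 0, .ofNat 0, .ofNat 0, .ofNat 0, .ofNat 89107492860777771877447508622540926382768128, .ofNat 0, .ofNat 0, .ofNat 0, .ofNat 0, .ofNat 0, .ofNat 0, .ofNat 0, .ofNat 497249250272416587126554012667946008857018368, .ofNat 0⟩)
    (by decide +kernel)
theorem L07160 : Good (Phi V5.P V5.D (-1) (-1)) ⟨5, 27, 4, 8, 3, 7, 3, 6, 5, 3⟩ :=
  leafX_sound T5.ok_mm T5.Ymm.bz_eq (w := 242) (c := ⟨⟨.negSucc 1600, .negSucc 13, .ofNat 94, .ofNat 781, .ofNat 483, .ofNat 112⟩, ⟨.ofNat 845, .negSucc 18, .ofNat 20, .negSucc 432, .negSucc 264, .negSucc 59⟩, ⟨.ofNat 836, .ofNat 11, .negSucc 29, .negSucc 217, .negSucc 401, .negSucc 221⟩, ⟨.negSucc 3338, .ofNat 23, .ofNat 42, .ofNat 1476, .ofNat 941, .ofNat 281⟩, ⟨.negSucc 1746, .ofNat 43, .negSucc 100, .ofNat 593, .ofNat 414, .ofNat 200⟩, .ofNat 2917, .ofNat 4403, .ofNat 0, .ofNat 4403, .ofNat 7622, .ofNat 0,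 .ofNat 128, .negSucc 395, .negSucc 517, .ofNat 0, .ofNat 233, .ofNat 292, .ofNat 0, .ofNat 0, .ofNat 431, .ofNat 311, .ofNat 0, .ofNat 0, .ofNat 303533920475708477696665199929428623228928, .ofNat 0, .ofNat 0, .ofNat 0, .ofNat 532885713193235208492232864079929584606248960, .ofNat 0, .ofNat 0, .ofNat 0, .ofNat 92579724767314699014847054836587724386861056, .ofNat 0, .ofNat 0, .ofNat 0, .ofNat 44036917686008690362780164849086212947836928, .ofNat 0⟩)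
    (by decide +kernel)
theorem L07161 : Good (Phi V5.P V5.D (-1) (-1)) ⟨3, 7, 4, 8, 3, 7, 3, 6, 4, 1⟩ :=
  out_sound (S := T5.ds_mm) T5.ok_mm (w := 47) (j := 3) (by decide +kernel)
theorem L07162 : Good (Phi V5.P V5.D (-1) (-1)) ⟨2, 2, 4, 9, 3, 7, 3, 6, 4, 0⟩ :=
  out_sound (S := T5.ds_mm) T5.ok_mm (w := 41) (j := 3) (by decide +kernel)
theorem L07163 : Good (Phi V5.P V5.D (-1) (-1)) ⟨4, 12, 4, 9, 3, 7, 3, 6, 4, 0⟩ :=
  out_sound (S := T5.ds_mm) T5.ok_mm (w := 53) (j := 3) (by decide +kernel)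
theorem L07164 : Good (Phi V5.P V5.D (-1) (-1)) ⟨5, 26, 4, 9, 3, 7, 3, 6, 4, 0⟩ :=
  out_sound (S := T5.ds_mm) T5.ok_mm (w := 59) (j := 3) (by decide +kernel)
theorem L07165 : Good (Phi V5.P V5.D (-1) (-1)) ⟨6, 54, 4, 9, 3, 7, 3, 6, 4, 0⟩ :=
  out_sound (S := T5.ds_mm) T5.ok_mm (w := 65) (j := 3) (by decide +kernel)
theorem L07166 : Good (Phi V5.P V5.D (-1) (-1)) ⟨6, 55, 5, 18, 4, 14, 3, 6, 5, 0⟩ :=
  leafX_sound T5.ok_mm T5.Ymm.bz_eq (w := 266) (c := ⟨⟨.ofNat 1225, .ofNat 122, .ofNat 39, .negSucc 407, .negSucc 1297, .negSucc 803⟩, ⟨.negSucc 733, .negSucc 95, .negSucc 9, .ofNat 248, .ofNat 771, .ofNat 478⟩, ⟨.negSucc 195, .negSucc 87, .ofNat 11, .ofNat 399, .ofNat 554, .ofNat 278⟩, ⟨.ofNat 2153, .ofNat 249, .ofNat 26, .negSucc 546, .negSucc 2665, .negSucc 1692⟩, ⟨.ofNat 618, .ofNat 133, .negSucc 42, .ofNat 67, .negSucc 1297, .negSucc 873⟩, .ofNat 3031, .ofNat 4445,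 .ofNat 0, .ofNat 4445, .ofNat 7410, .ofNat 0, .ofNat 128, .negSucc 640, .negSucc 2127, .ofNat 0, .ofNat 388, .ofNat 1263, .ofNat 0, .ofNat 0, .ofNat 1463, .ofNat 2339, .ofNat 0, .ofNat 0, .ofNat 23177268055927236174098318715210970419743948800, .ofNat 0, .ofNat 0, .ofNat 0, .ofNat 11468566172878279935356021997289640758050952314880, .ofNat 0, .ofNat 0, .ofNat 0, .ofNat 0, .ofNat 0, .ofNat 0, .ofNat 0, .ofNat 0, .ofNat 0⟩)
    (by decide +kernel)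
theorem L07167 : Good (Phi V5.P V5.D (-1) (-1)) ⟨6, 55, 5, 19, 4, 14, 3, 6, 5, 0⟩ :=
  leafX_sound T5.ok_mm T5.Ymm.bz_eq (w := 269) (c := ⟨⟨.ofNat 1541, .negSucc 83, .ofNat 135, .negSucc 404, .negSucc 1475, .negSucc 969⟩, ⟨.negSucc 940, .ofNat 44, .negSucc 76, .ofNat 251, .ofNat 899, .ofNat 591⟩, ⟨.negSucc 441, .ofNat 134, .negSucc 76, .ofNat 394, .ofNat 673, .ofNat 394⟩, ⟨.ofNat 2366, .negSucc 94, .ofNat 98, .negSucc 562, .negSucc 2591, .negSucc 1664⟩, ⟨.ofNat 264, .ofNat 30, .negSucc 128, .ofNat 28, .negSucc 769, .negSucc 446⟩, .ofNat 6405, .ofNat 9720, .ofNat 0, .ofNat 9720, .ofNat 15648, .ofNat 0, .ofNat 128, .negSucc 989, .negSucc 2718, .ofNat 0, .ofNat 614, .ofNat 1668, .ofNat 0, .ofNat 0, .ofNat 1884, .ofNat 4770, .ofNat 0, .ofNat 0, .ofNat 0, .ofNat 0, .ofNat 0, .ofNat 0, .ofNat 44853635964407158111385853311542268179347249561600, .ofNat 0, .ofNat 0, .ofNat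 0, .ofNat 34638773959030061592500895113916208545078213345280, .ofNat 0, .ofNat 0, .ofNat 0, .ofNat 27464637481980386964580129517119440901112613306368, .ofNat 0⟩)
    (by decide +kernel)
theorem L07168 : Good (Phi V5.P V5.D (-1) (-1)) ⟨6, 55, 5, 18, 4, 15, 3, 6, 5, 0⟩ :=
  leafX_sound T5.ok_mm T5.Ymm.bz_eq (w := 267) (c := ⟨⟨.ofNat 628, .negSucc 314, .ofNat 151, .negSucc 528, .negSucc 737, .negSucc 729⟩, ⟨.negSucc 383, .ofNat 181, .negSucc 67, .ofNat 314, .ofNat 434, .ofNat 431⟩, ⟨.ofNat 395, .ofNat 188, .negSucc 65, .ofNat 359, .ofNat 113, .ofNat 164⟩, ⟨.ofNat 1334, .negSucc 568, .ofNat 283, .negSucc 1160, .negSucc 1736, .negSucc 1581⟩, ⟨.ofNat 692, .negSucc 195, .ofNat 123, .negSucc 649, .negSucc 1096, .negSucc 863⟩, .ofNat 3066, .ofNat 4495, .ofNat 0, .ofNat 4495, .ofNat 7477, .ofNat 0, .ofNat 128, .negSucc 747, .negSucc 3279, .ofNat 0, .ofNat 448, .ofNat 1935, .ofNat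 0, .ofNat 0, .ofNat 2053, .ofNat 1073, .ofNat 0, .ofNat 0, .ofNat 17747341623038596375407300386330615385075744768, .ofNat 0, .ofNat 0, .ofNat 0, .ofNat 9269490344990015378702497664692642153771034476544, .ofNat 0, .ofNat 0, .ofNat 0, .ofNat 0, .ofNat 0, .ofNat 0, .ofNat 0, .ofNat 0, .ofNat 0⟩)
    (by decide +kernel)
theorem L07169 : Good (Phi V5.P V5.D (-1) (-1)) ⟨6, 55, 5, 19, 4, 15, 3, 6, 5, 0⟩ :=
  leafX_sound T5.ok_mm T5.Ymm.bz_eq (w := 270) (c := ⟨⟨.ofNat 77, .ofNat 791, .ofNat 25, .negSucc 714, .negSucc 966, .negSucc 785⟩, ⟨.negSucc 22, .negSucc 510, .negSucc 2, .ofNat 434, .ofNat 583, .ofNat 476⟩, ⟨.ofNat 862, .negSucc 600, .ofNat 93, .ofNat 466, .ofNat 233, .ofNat 201⟩, ⟨.ofNat 584, .ofNat 878, .ofNat 341, .negSucc 1271, .negSucc 1934, .negSucc 1609⟩, ⟨.ofNat 700, .negSucc 333, .ofNat 470, .negSucc 400, .negSucc 885, .negSucc 781⟩, .ofNat 6400, .ofNat 9709,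 .ofNat 0, .ofNat 9709, .ofNat 15625, .ofNat 0, .ofNat 128, .negSucc 891, .negSucc 4286, .ofNat 0, .ofNat 550, .ofNat 2616, .ofNat 0, .ofNat 0, .ofNat 2687, .ofNat 3819, .ofNat 0, .ofNat 0, .ofNat 0, .ofNat 0, .ofNat 0, .ofNat 0, .ofNat 77880765591310259673493252038529388093925796872192, .ofNat 0, .ofNat 0, .ofNat 0, .ofNat 55609286377236248294126293603798133901824001835008, .ofNat 0, .ofNat 0, .ofNat 0, .ofNat 16799791313616897832244905528673988829446517293056, .ofNat 0⟩)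
    (by decide +kernel)
theorem L07170 : Good (Phi V5.P V5.D (-1) (-1)) ⟨6, 55, 5, 18, 4, 14, 3, 6, 5, 1⟩ :=
  leafX_sound T5.ok_mm T5.Ymm.bz_eq (w := 268) (c := ⟨⟨.negSucc 168, .negSucc 28, .ofNat 148, .negSucc 123, .negSucc 568, .negSucc 414⟩, ⟨.ofNat 85, .negSucc 5, .negSucc 55, .ofNat 77, .ofNat 336, .ofNat 246⟩, ⟨.ofNat 489, .ofNat 5, .negSucc 56, .ofNat 150, .ofNat 118, .ofNat 26⟩, ⟨.negSucc 436, .negSucc 25, .ofNat 234, .negSucc 264, .negSucc 1235, .negSucc 1016⟩, ⟨.negSucc 323, .ofNat 13, .ofNat 58, .negSucc 139, .negSucc 676, .negSucc 682⟩, .ofNat 3024, .ofNat 4440, .ofNat 0, .ofNat 4440, .ofNat 7414, .ofNat 0, .ofNat 128, .negSucc 829, .negSucc 4146, .ofNat 0, .ofNat 501, .ofNat 2453, .ofNat 0, .ofNat 0, .ofNat 2729, .ofNat 3224, .ofNat 0, .ofNat 0, .ofNat 27242236665743865315584830054982717593819807744, .ofNat 0, .ofNat 0, .ofNat 0, .ofNat 7466409475062950969756956908095280333789511811072,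 .ofNat 0, .ofNat 0, .ofNat 0, .ofNat 0, .ofNat 0, .ofNat 0, .ofNat 0, .ofNat 0, .ofNat 0⟩)
    (by decide +kernel)
theorem L07171 : Good (Phi V5.P V5.D (-1) (-1)) ⟨6, 55, 5, 18, 4, 15, 3, 6, 5, 1⟩ :=
  leafX_sound T5.ok_mm T5.Ymm.bz_eq (w := 268) (c := ⟨⟨.negSucc 723, .negSucc 160, .ofNat 47, .negSucc 251, .negSucc 123, .ofNat 10⟩, ⟨.ofNat 415, .ofNat 72, .ofNat 15, .ofNat 149, .ofNat 69, .negSucc 7⟩, ⟨.ofNat 914, .ofNat 59, .ofNat 13, .ofNat 179, .negSucc 191, .negSucc 216⟩, ⟨.negSucc 1528, .negSucc 323, .ofNat 91, .negSucc 569, .negSucc 354, .negSucc 59⟩, ⟨.negSucc 800, .negSucc 171, .ofNat 68, .negSucc 335, .negSucc 284, .negSucc 119⟩, .ofNat 2404, .ofNat 3440, .ofNat 0, .ofNat 3440, .ofNat 5793, .ofNat 0, .ofNat 128, .negSucc 1153, .negSucc 4642, .ofNat 0, .ofNat 686, .ofNat 2697, .ofNat 0, .ofNat 0, .ofNat 2763, .ofNat 3526, .ofNat 0, .ofNat 0, .ofNat 0, .ofNat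 0, .ofNat 0, .ofNat 0, .ofNat 2082081853825843655505974863302153199830232465408, .ofNat 0, .ofNat 0, .ofNat 0, .ofNat 0, .ofNat 0, .ofNat 0, .ofNat 0, .ofNat 0, .ofNat 0⟩)
    (by decide +kernel)
theorem L07172 : Good (Phi V5.P V5.D (-1) (-1)) ⟨6, 55, 6, 38, 3, 7, 3, 6, 5, 1⟩ :=
  leafX_sound T5.ok_mm T5.Ymm.bz_eq (w := 260) (c := ⟨⟨.negSucc 61, .negSucc 135, .negSucc 28, .negSucc 603, .negSucc 404, .negSucc 236⟩, ⟨.ofNat 45, .ofNat 65, .ofNat 35, .ofNat 369, .ofNat 243, .ofNat 141⟩, ⟨.ofNat 488, .ofNat 68, .ofNat 25, .ofNat 462, .negSucc 24, .negSucc 79⟩, ⟨.negSucc 473, .negSucc 165, .negSucc 74, .negSucc 1028, .negSucc 874, .negSucc 546⟩, ⟨.negSucc 601, .ofNat 25, .negSucc 39, .negSucc 263, .negSucc 471, .negSucc 333⟩, .ofNat 5220, .ofNat 7844, .ofNat 0, .ofNat 7844, .ofNat 12674, .ofNat 0, .ofNat 128, .negSucc 1340, .negSucc 6266, .ofNat 0, .ofNat 828, .ofNat 3824,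 .ofNat 0, .ofNat 0, .ofNat 3987, .ofNat 4190, .ofNat 0, .ofNat 0, .ofNat 0, .ofNat 0, .ofNat 0, .ofNat 0, .ofNat 7636886221549252701845384969024003647750537216, .ofNat 0, .ofNat 0, .ofNat 0, .ofNat 0, .ofNat 0, .ofNat 0, .ofNat 0, .ofNat 0, .ofNat 0⟩)
    (by decide +kernel)
theorem L07173 : Good (Phi V5.P V5.D (-1) (-1)) ⟨6, 55, 6, 39, 3, 7, 3, 6, 5, 1⟩ :=
  out_sound (S := T5.ds_mm) T5.ok_mm (w := 69) (j := 3) (by decide +kernel)
theorem L07174 : Good (Phi V5.P V5.D (-1) (-1)) ⟨7, 112, 5, 18, 3, 7, 3, 6, 4, 0⟩ :=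
  out_sound (S := T5.ds_mm) T5.ok_mm (w := 73) (j := 3) (by decide +kernel)
theorem L07175 : Good (Phi V5.P V5.D (-1) (-1)) ⟨7, 112, 6, 38, 3, 7, 3, 6, 5, 0⟩ :=
  leafX_sound T5.ok_mm T5.Ymm.bz_eq (w := 262) (c := ⟨⟨.ofNat 1117, .negSucc 333, .ofNat 164, .negSucc 1048, .negSucc 982, .negSucc 795⟩, ⟨.negSucc 700, .ofNat 202, .negSucc 88, .ofNat 649, .ofNat 602, .ofNat 488⟩, ⟨.negSucc 8, .ofNat 269, .negSucc 104, .ofNat 797, .ofNat 276, .ofNat 228⟩, ⟨.ofNat 2053, .negSucc 500, .ofNat 244, .negSucc 1878, .negSucc 2114, .negSucc 1654⟩, ⟨.ofNat 716, .negSucc 44, .ofNat 27, .negSucc 605, .negSucc 1123, .negSucc 820⟩, .ofNat 4540, .ofNat 6700, .ofNat 0, .ofNat 6700, .ofNat 10746, .ofNat 0, .ofNat 128, .negSucc 868, .negSucc 3242, .ofNat 0, .ofNat 541, .ofNat 1996, .ofNat 0, .ofNat 0, .ofNat 2093, .ofNat 2296, .ofNat 0, .ofNat 0, .ofNat 0, .ofNat 0, .ofNat 0, .ofNat 0, .ofNat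 5775224713367676852283834657517306425569705984, .ofNat 0, .ofNat 0, .ofNat 0, .ofNat 780768597754435457289531337919647228786376704, .ofNat 0, .ofNat 0, .ofNat 0, .ofNat 423721583430772916619627012099781008692346880, .ofNat 0⟩)
    (by decide +kernel)
theorem L07176 : Good (Phi V5.P V5.D (-1) (-1)) ⟨7, 112, 6, 38, 3, 7, 3, 6, 5, 1⟩ :=
  leafX_sound T5.ok_mm T5.Ymm.bz_eq (w := 263) (c := ⟨⟨.negSucc 308, .negSucc 64, .ofNat 51, .negSucc 617, .negSucc 298, .negSucc 162⟩, ⟨.ofNat 173, .ofNat 28, .negSucc 11, .ofNat 382, .ofNat 181, .ofNat 98⟩, ⟨.ofNat 622, .ofNat 14, .negSucc 2, .ofNat 468, .negSucc 94, .negSucc 144⟩, ⟨.negSucc 776, .negSucc 85, .ofNat 30, .negSucc 1104, .negSucc 732, .negSucc 416⟩, ⟨.negSucc 542, .negSucc 0, .negSucc 53, .negSucc 353, .negSucc 482, .negSucc 291⟩, .ofNat 4626, .ofNat 6838, .ofNat 0, .ofNat 6838, .ofNat 10970, .ofNat 0, .ofNat 128, .negSucc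 833, .negSucc 4516, .ofNat 0, .ofNat 519, .ofNat 2777, .ofNat 0, .ofNat 0, .ofNat 2781, .ofNat 2476, .ofNat 0, .ofNat 0, .ofNat 1594227825697176398930623295700968520286208, .ofNat 0, .ofNat 0, .ofNat 0, .ofNat 5070281005847741993188007539545856542299389952, .ofNat 0, .ofNat 0, .ofNat 0, .ofNat 354286250044958884411964282061735624467021824, .ofNat 0, .ofNat 0, .ofNat 0, .ofNat 0, .ofNat 0⟩)
    (by decide +kernel)
theorem L07177 : Good (Phi V5.P V5.D (-1) (-1)) ⟨7, 112, 6, 39, 4, 14, 3, 6, 5, 0⟩ :=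
  leafX_sound T5.ok_mm T5.Ymm.bz_eq (w := 276) (c := ⟨⟨.ofNat 1603, .negSucc 144, .ofNat 123, .negSucc 401, .negSucc 1508, .negSucc 982⟩, ⟨.negSucc 1001, .ofNat 74, .negSucc 64, .ofNat 254, .ofNat 944, .ofNat 611⟩, ⟨.negSucc 401, .ofNat 72, .negSucc 41, .ofNat 395, .ofNat 682, .ofNat 397⟩, ⟨.ofNat 2774, .negSucc 176, .ofNat 181, .negSucc 656, .negSucc 3030, .negSucc 1873⟩, ⟨.ofNat 764, .ofNat 48, .ofNat 18, .negSucc 129, .negSucc 1380, .negSucc 746⟩, .ofNat 4130, .ofNat 6021, .ofNat 0, .ofNat 6021, .ofNat 9615, .ofNat 0, .ofNat 128, .negSucc 1365, .negSucc 3781, .ofNat 0, .ofNat 860, .ofNat 2354, .ofNat 0, .ofNat 0, .ofNat 2521, .ofNat 4906, .ofNat 0, .ofNat 0, .ofNat 0, .ofNat 0, .ofNat 0, .ofNat 0, .ofNat 18682668599098307019035597226507587724183890558976, .ofNat 0, .ofNat 0, .ofNat 0, .ofNat 0, .ofNat 0, .ofNat 0, .ofNat 0, .ofNat 0, .ofNat 0⟩)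
    (by decide +kernel)
theorem L07178 : Good (Phi V5.P V5.D (-1) (-1)) ⟨7, 112, 6, 39, 4, 15, 3, 6, 5, 0⟩ :=
  leafX_sound T5.ok_mm T5.Ymm.bz_eq (w := 277) (c := ⟨⟨.ofNat 1091, .negSucc 335, .ofNat 235, .negSucc 850, .negSucc 1095, .negSucc 983⟩, ⟨.negSucc 689, .ofNat 224, .negSucc 151, .ofNat 534, .ofNat 684, .ofNat 613⟩, ⟨.ofNat 209, .ofNat 125, .negSucc 87, .ofNat 530, .ofNat 288, .ofNat 301⟩, ⟨.ofNat 2153, .negSucc 602, .ofNat 508, .negSucc 1715, .negSucc 2468, .negSucc 2038⟩, ⟨.ofNat 934, .negSucc 192, .ofNat 273, .negSucc 789, .negSucc 1419, .negSucc 999⟩, .ofNat 4132, .ofNat 6024, .ofNat 0, .ofNat 6024, .ofNat 9618, .ofNat 0, .ofNat 128, .negSucc 969, .negSucc 5124, .ofNat 0, .ofNat 606, .ofNat 3172, .ofNat 0, .ofNat 0, .ofNat 3014, .ofNat 2591, .ofNat 0, .ofNat 0, .ofNat 0, .ofNat 0, .ofNat 0, .ofNat 0, .ofNat 37335657934212405937045375617034459233005837746176,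 .ofNat 0, .ofNat 0, .ofNat 0, .ofNat 0, .ofNat 0, .ofNat 0, .ofNat 0, .ofNat 0, .ofNat 0⟩)
    (by decide +kernel)
theorem L07179 : Good (Phi V5.P V5.D (-1) (-1)) ⟨7, 112, 6, 39, 4, 14, 3, 6, 5, 1⟩ :=
  leafX_sound T5.ok_mm T5.Ymm.bz_eq (w := 278) (c := ⟨⟨.ofNat 280, .negSucc 270, .ofNat 109, .negSucc 297, .negSucc 734, .negSucc 350⟩, ⟨.negSucc 178, .ofNat 156, .negSucc 51, .ofNat 187, .ofNat 458, .ofNat 217⟩, ⟨.ofNat 235, .ofNat 196, .negSucc 71, .ofNat 259, .ofNat 200, .negSucc 16⟩, ⟨.ofNat 84, .negSucc 399, .ofNat 18, .negSucc 321, .negSucc 1424, .negSucc 697⟩, ⟨.negSucc 496, .negSucc 37, .negSucc 193, .ofNat 164, .negSucc 595, .negSucc 309⟩, .ofNat 6423, .ofNat 9584, .ofNat 0, .ofNat 9584, .ofNat 15159, .ofNat 0, .ofNat 128, .negSucc 930, .negSucc 5619, .ofNat 0, .ofNat 589, .ofNat 3522, .ofNat 0, .ofNat 0, .ofNat 3601, .ofNat 6571, .ofNat 0, .ofNat 0, .ofNat 0,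 .ofNat 0, .ofNat 0, .ofNat 0, .ofNat 47692415159105718194059006343811747686064664346624, .ofNat 0, .ofNat 0, .ofNat 0, .ofNat 72076247319208809645192646362300655900516845355008, .ofNat 0, .ofNat 0, .ofNat 0, .ofNat 0, .ofNat 0⟩)
    (by decide +kernel)
theorem L07180 : Good (Phi V5.P V5.D (-1) (-1)) ⟨7, 112, 6, 39, 4, 15, 3, 6, 5, 1⟩ :=
  leafX_sound T5.ok_mm T5.Ymm.bz_eq (w := 279) (c := ⟨⟨.negSucc 495, .negSucc 120, .ofNat 119, .negSucc 440, .negSucc 355, .negSucc 179⟩, ⟨.ofNat 303, .ofNat 66, .negSucc 54, .ofNat 275, .ofNat 219, .ofNat 111⟩, ⟨.ofNat 822, .ofNat 62, .negSucc 51, .ofNat 290, .negSucc 80, .negSucc 131⟩, ⟨.negSucc 1196, .negSucc 188, .ofNat 179, .negSucc 772, .negSucc 826, .negSucc 377⟩, ⟨.negSucc 767, .negSucc 41, .ofNat 33, .negSucc 230, .negSucc 504, .negSucc 191⟩, .ofNat 6399, .ofNat 9546, .ofNat 0, .ofNat 9546, .ofNat 15099, .ofNat 0, .ofNat 128,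 .negSucc 1275, .negSucc 7072, .ofNat 0, .ofNat 803, .ofNat 4412, .ofNat 0, .ofNat 0, .ofNat 4141, .ofNat 1860, .ofNat 0, .ofNat 0, .ofNat 0, .ofNat 0, .ofNat 0, .ofNat 0, .ofNat 41209416982024636022288350704991447815169614282752, .ofNat 0, .ofNat 0, .ofNat 0, .ofNat 0, .ofNat 0, .ofNat 0, .ofNat 0, .ofNat 0, .ofNat 0⟩)
    (by decide +kernel)
theorem L07181 : Good (Phi V5.P V5.D (-1) (-1)) ⟨7, 113, 4, 9, 3, 7, 3, 6, 4, 0⟩ :=
  out_sound (S := T5.ds_mm) T5.ok_mm (w := 71) (j := 3) (by decide +kernel)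
theorem L07182 : Good (Phi V5.P V5.D (-1) (-1)) ⟨6, 57, 4, 9, 3, 7, 3, 6, 4, 0⟩ :=
  out_sound (S := T5.ds_mm) T5.ok_mm (w := 65) (j := 3) (by decide +kernel)
theorem L07183 : Good (Phi V5.P V5.D (-1) (-1)) ⟨5, 29, 4, 9, 3, 7, 3, 6, 4, 0⟩ :=
  out_sound (S := T5.ds_mm) T5.ok_mm (w := 59) (j := 3) (by decide +kernel)
theorem L07184 : Good (Phi V5.P V5.D (-1) (-1)) ⟨4, 15, 4, 9, 3, 7, 3, 6, 4, 0⟩ :=
  out_sound (S := T5.ds_mm) T5.ok_mm (w := 53) (j := 3) (by decide +kernel)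
theorem L07185 : Good (Phi V5.P V5.D (-1) (-1)) ⟨2, 2, 4, 9, 3, 7, 3, 6, 4, 1⟩ :=
  out_sound (S := T5.ds_mm) T5.ok_mm (w := 41) (j := 3) (by decide +kernel)
theorem L07186 : Good (Phi V5.P V5.D (-1) (-1)) ⟨4, 12, 4, 9, 4, 14, 3, 6, 4, 1⟩ :=
  out_sound (S := T5.ds_mm) T5.ok_mm (w := 53) (j := 3) (by decide +kernel)
theorem L07187 : Good (Phi V5.P V5.D (-1) (-1)) ⟨5, 26, 4, 9, 4, 14, 3, 6, 4, 1⟩ :=
  out_sound (S := T5.ds_mm) T5.ok_mm (w := 59) (j := 3) (by decide +kernel)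
theorem L07188 : Good (Phi V5.P V5.D (-1) (-1)) ⟨6, 54, 4, 9, 4, 14, 3, 6, 5, 2⟩ :=
  out_sound (S := T5.ds_mm) T5.ok_mm (w := 65) (j := 3) (by decide +kernel)
theorem L07189 : Good (Phi V5.P V5.D (-1) (-1)) ⟨6, 55, 4, 9, 4, 14, 3, 6, 5, 2⟩ :=
  leafX_sound T5.ok_mm T5.Ymm.bz_eq (w := 265) (c := ⟨⟨.negSucc 1083, .negSucc 254, .ofNat 455, .ofNat 283, .ofNat 170, .negSucc 68⟩, ⟨.ofNat 625, .ofNat 129, .negSucc 188, .negSucc 166, .negSucc 101, .ofNat 39⟩, ⟨.ofNat 805, .ofNat 126, .negSucc 202, .negSucc 89, .negSucc 281, .negSucc 157⟩, ⟨.negSucc 2364, .negSucc 425, .ofNat 580, .ofNat 542, .ofNat 283, .negSucc 153⟩, ⟨.negSucc 1318, .negSucc 131, .negSucc 32, .ofNat 222, .ofNat 66, .negSucc 85⟩, .ofNat 3663, .ofNat 5452, .ofNat 0, .ofNat 5452, .ofNat 9017, .ofNat 0, .ofNat 128, .negSucc 1126, .negSucc 3270, .ofNat 0, .ofNat 686, .ofNat 1950, .ofNat 0, .ofNat 0, .ofNat 2134,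 .ofNat 3105, .ofNat 0, .ofNat 0, .ofNat 0, .ofNat 0, .ofNat 0, .ofNat 0, .ofNat 3585000947172437285712191165968239492714830233600, .ofNat 0, .ofNat 0, .ofNat 0, .ofNat 12070023607089196444885340584903383838142740037632, .ofNat 0, .ofNat 0, .ofNat 0, .ofNat 14091312578204131475459676041844255558180341284864, .ofNat 0⟩)
    (by decide +kernel)
theorem L07190 : Good (Phi V5.P V5.D (-1) (-1)) ⟨5, 27, 4, 9, 4, 14, 3, 6, 5, 3⟩ :=
  leafX_sound T5.ok_mm T5.Ymm.bz_eq (w := 259) (c := ⟨⟨.negSucc 1514, .negSucc 83, .ofNat 123, .ofNat 551, .ofNat 542, .ofNat 18⟩, ⟨.ofNat 913, .negSucc 10, .ofNat 22, .negSucc 330, .negSucc 321, .negSucc 6⟩, ⟨.ofNat 849, .ofNat 10, .negSucc 30, .negSucc 214, .negSucc 436, .negSucc 185⟩, ⟨.negSucc 3188, .negSucc 99, .ofNat 76, .ofNat 941, .ofNat 993, .ofNat 63⟩, ⟨.negSucc 1628, .negSucc 13, .negSucc 89, .ofNat 246, .ofNat 351, .ofNat 62⟩, .ofNat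 4308, .ofNat 6487, .ofNat 0, .ofNat 6487, .ofNat 10680, .ofNat 0, .ofNat 128, .negSucc 852, .negSucc 1239, .ofNat 0, .ofNat 524, .ofNat 744, .ofNat 0, .ofNat 0, .ofNat 919, .ofNat 1623, .ofNat 0, .ofNat 0, .ofNat 0, .ofNat 0, .ofNat 0, .ofNat 0, .ofNat 9481512407974118114878483250100205824248494686208, .ofNat 0, .ofNat 0, .ofNat 0, .ofNat 0, .ofNat 0, .ofNat 0, .ofNat 0, .ofNat 28168743688803943591496913782177223435119868510208, .ofNat 0⟩)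
    (by decide +kernel)
theorem L07191 : Good (Phi V5.P V5.D (-1) (-1)) ⟨6, 56, 5, 18, 4, 14, 3, 6, 4, 1⟩ :=
  out_sound (S := T5.ds_mm) T5.ok_mm (w := 67) (j := 3) (by decide +kernel)
theorem L07192 : Good (Phi V5.P V5.D (-1) (-1)) ⟨6, 56, 5, 19, 4, 14, 3, 6, 4, 1⟩ :=
  leafX_sound T5.ok_mm T5.Ymm.bz_eq (w := 264) (c := ⟨⟨.negSucc 1357, .ofNat 109, .ofNat 52, .ofNat 505, .ofNat 308, .negSucc 148⟩, ⟨.ofNat 817, .negSucc 88, .ofNat 9, .negSucc 313, .negSucc 191, .ofNat 92⟩, ⟨.ofNat 979, .negSucc 63, .negSucc 15, .negSucc 205, .negSucc 369, .negSucc 329⟩, ⟨.negSucc 2768, .ofNat 106, .ofNat 83, .ofNat 865, .ofNat 469, .negSucc 430⟩, ⟨.negSucc 1338, .negSucc 94, .ofNat 47, .ofNat 237, .ofNat 52, .negSucc 337⟩, .ofNat 4455, .ofNat 6464, .ofNat 0, .ofNat 6464, .ofNat 10208, .ofNat 0, .ofNat 128, .negSucc 1793, .negSucc 3085, .ofNat 0, .ofNat 1138, .ofNat 1917, .ofNat 0,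 .ofNat 0, .ofNat 1962, .ofNat 2995, .ofNat 0, .ofNat 0, .ofNat 469673101682599798558660032873883085408567296, .ofNat 0, .ofNat 0, .ofNat 0, .ofNat 780019794055825931770363508323239213014657794048, .ofNat 0, .ofNat 0, .ofNat 0, .ofNat 0, .ofNat 0, .ofNat 0, .ofNat 0, .ofNat 1782434034330387687351967382896870722460570353664, .ofNat 0⟩)
    (by decide +kernel)
theorem L07193 : Good (Phi V5.P V5.D (-1) (-1)) ⟨6, 57, 4, 9, 4, 14, 3, 6, 4, 1⟩ :=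
  out_sound (S := T5.ds_mm) T5.ok_mm (w := 65) (j := 3) (by decide +kernel)
theorem L07194 : Good (Phi V5.P V5.D (-1) (-1)) ⟨5, 29, 4, 9, 4, 14, 3, 6, 4, 1⟩ :=
  out_sound (S := T5.ds_mm) T5.ok_mm (w := 59) (j := 3) (by decide +kernel)
theorem L07195 : Good (Phi V5.P V5.D (-1) (-1)) ⟨4, 15, 4, 9, 4, 14, 3, 6, 4, 1⟩ :=
  out_sound (S := T5.ds_mm) T5.ok_mm (w := 53) (j := 3) (by decide +kernel)
theorem L07196 : Good (Phi V5.P V5.D (-1) (-1)) ⟨4, 12, 4, 9, 4, 15, 3, 6, 4, 1⟩ :=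
  out_sound (S := T5.ds_mm) T5.ok_mm (w := 53) (j := 3) (by decide +kernel)
theorem L07197 : Good (Phi V5.P V5.D (-1) (-1)) ⟨5, 26, 4, 9, 4, 15, 3, 6, 5, 2⟩ :=
  out_sound (S := T5.ds_mm) T5.ok_mm (w := 59) (j := 3) (by decide +kernel)
theorem L07198 : Good (Phi V5.P V5.D (-1) (-1)) ⟨6, 54, 4, 9, 4, 15, 3, 6, 5, 2⟩ :=
  out_sound (S := T5.ds_mm) T5.ok_mm (w := 65) (j := 3) (by decide +kernel)
theorem L07199 : Good (Phi V5.P V5.D (-1) (-1)) ⟨6, 55, 5, 18, 4, 15, 3, 6, 5, 2⟩ :=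
  leafX_sound T5.ok_mm T5.Ymm.bz_eq (w := 266) (c := ⟨⟨.negSucc 1206, .ofNat 107, .negSucc 13, .ofNat 105, .ofNat 376, .ofNat 356⟩, ⟨.ofNat 698, .negSucc 75, .ofNat 35, .negSucc 60, .negSucc 222, .negSucc 211⟩, ⟨.ofNat 901, .negSucc 37, .ofNat 21, .ofNat 40, .negSucc 392, .negSucc 325⟩, ⟨.negSucc 2644, .ofNat 267, .negSucc 0, .ofNat 258, .ofNat 584, .ofNat 716⟩, ⟨.negSucc 1489, .ofNat 177, .ofNat 52, .ofNat 176, .ofNat 74, .ofNat 331⟩, .ofNat 4163, .ofNat 6248, .ofNat 0, .ofNat 6248, .ofNat 10286, .ofNat 0, .ofNat 128, .negSucc 767, .negSucc 1073, .ofNat 0, .ofNat 465, .ofNat 638, .ofNat 0, .ofNat 0, .ofNat 684, .ofNat 2242, .ofNat 0, .ofNat 0, .ofNat 0, .ofNat 0, .ofNat 0, .ofNat 0, .ofNat 11174229001397642686218567508155361386705400627200, .ofNat 0, .ofNat 0, .ofNat 0, .ofNat 0, .ofNat 0, .ofNat 0, .ofNat 0, .ofNat 1899501005973520035561145891485496291230711021568,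 .ofNat 0⟩)
    (by decide +kernel)
theorem L07200 : Good (Phi V5.P V5.D (-1) (-1)) ⟨6, 55, 5, 19, 4, 15, 3, 6, 5, 2⟩ :=
  leafX_sound T5.ok_mm T5.Ymm.bz_eq (w := 270) (c := ⟨⟨.negSucc 1219, .ofNat 7, .ofNat 239, .ofNat 98, .ofNat 485, .ofNat 436⟩, ⟨.ofNat 752, .negSucc 26, .negSucc 111, .negSucc 57, .negSucc 295, .negSucc 265⟩, ⟨.ofNat 889, .ofNat 37, .negSucc 83, .ofNat 49, .negSucc 437, .negSucc 355⟩, ⟨.negSucc 2720, .ofNat 102, .ofNat 465, .ofNat 292, .ofNat 874, .ofNat 810⟩, ⟨.negSucc 1541, .ofNat 122, .ofNat 232, .ofNat 243, .ofNat 288, .ofNat 299⟩, .ofNat 6086, .ofNat 9220, .ofNat 0, .ofNat 9220, .ofNat 14864, .ofNat 0, .ofNat 128, .negSucc 2091, .negSucc 2832, .ofNat 0, .ofNat 1291, .ofNat 1724, .ofNat 0, .ofNat 0, .ofNat 1755, .ofNat 6911, .ofNat 0, .ofNat 0, .ofNat 0, .ofNat 0, .ofNat 0, .ofNat 0, .ofNat 91415268496467351525549155174292340261252770037760,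 .ofNat 0, .ofNat 0, .ofNat 0, .ofNat 0, .ofNat 0, .ofNat 0, .ofNat 0, .ofNat 85102321678552877761249103720125722558159912960000, .ofNat 0⟩)
    (by decide +kernel)
theorem L07201 : Good (Phi V5.P V5.D (-1) (-1)) ⟨5, 26, 4, 9, 4, 15, 3, 6, 5, 3⟩ :=
  out_sound (S := T5.ds_mm) T5.ok_mm (w := 59) (j := 3) (by decide +kernel)
theorem L07202 : Good (Phi V5.P V5.D (-1) (-1)) ⟨6, 54, 4, 9, 4, 15, 3, 6, 5, 3⟩ :=
  out_sound (S := T5.ds_mm) T5.ok_mm (w := 65) (j := 3) (by decide +kernel)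
theorem L07203 : Good (Phi V5.P V5.D (-1) (-1)) ⟨6, 55, 4, 9, 4, 15, 3, 6, 5, 3⟩ :=
  leafX_sound T5.ok_mm T5.Ymm.bz_eq (w := 264) (c := ⟨⟨.negSucc 1116, .ofNat 76, .ofNat 164, .ofNat 341, .ofNat 613, .ofNat 139⟩, ⟨.ofNat 646, .negSucc 56, .negSucc 43, .negSucc 200, .negSucc 364, .negSucc 83⟩, ⟨.ofNat 653, .negSucc 54, .ofNat 9, .negSucc 28, .negSucc 425, .negSucc 180⟩, ⟨.negSucc 2576, .ofNat 221, .ofNat 321, .ofNat 773, .ofNat 1236, .ofNat 319⟩, ⟨.negSucc 1590, .ofNat 164, .ofNat 192, .ofNat 464, .ofNat 583, .ofNat 194⟩, .ofNat 3704, .ofNat 5529, .ofNat 0, .ofNat 5529, .ofNat 9162, .ofNat 0, .ofNat 128, .negSucc 1924, .negSucc 1189, .ofNat 0, .ofNat 1170, .ofNat 703, .ofNat 0, .ofNat 0, .ofNat 934, .ofNat 645, .ofNat 0, .ofNat 0, .ofNat 0, .ofNat 0, .ofNat 0, .ofNat 0, .ofNat 3890348183012121910632969095874872365428603092992, .ofNat 0, .ofNat 0, .ofNat 0, .ofNat 0,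 .ofNat 0, .ofNat 0, .ofNat 0, .ofNat 4434533516380609133350194843336761041308723707904, .ofNat 0⟩)
    (by decide +kernel)
theorem L07204 : Good (Phi V5.P V5.D (-1) (-1)) ⟨6, 56, 5, 18, 4, 15, 3, 6, 5, 2⟩ :=
  out_sound (S := T5.ds_mm) T5.ok_mm (w := 67) (j := 3) (by decide +kernel)

end Crest.Agent.R097C5.N5mm
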