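import Crest.Agent.R097.KP7
import Crest.Agent.R097.T5Ymm

/-!
# Row 97, box cover in dimension n = 5 (generated)
-/

set_option autoImplicit false
set_option Elab.async false
set_option maxHeartbeats 0
set_option maxRecDepth 100000

open Crest.Agent.R097 Crest.Agent.R097.KA


namespace Crest.Agent.R097C5.N5mm

theorem L07205 : Good (Phi V5.P V5.D (-1) (-1)) ⟨6, 56, 5, 19, 4, 15, 3, 6, 5, 2⟩ :=
  leafX_sound T5.ok_mm T5.Ymm.bz_eq (w := 268) (c := ⟨⟨.negSucc 1110, .ofNat 111, .negSucc 83, .ofNat 51, .ofNat 483, .ofNat 394⟩, ⟨.ofNat 666, .negSucc 87, .ofNat 86, .negSucc 27, .negSucc 299, .negSucc 245⟩, ⟨.ofNat 885, .negSucc 15, .ofNat 38, .ofNat 71, .negSucc 443, .negSucc 352⟩, ⟨.negSucc 2313, .ofNat 64, .negSucc 317, .ofNat 122, .ofNat 853, .ofNat 768⟩, ⟨.negSucc 1166, .negSucc 122, .negSucc 301, .ofNat 79, .ofNat 264, .ofNat 327⟩, .ofNat 4631, .ofNat 6733, .ofNat 0, .ofNat 6733, .ofNat 10624,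 .ofNat 0, .ofNat 128, .negSucc 1188, .negSucc 2741, .ofNat 0, .ofNat 746, .ofNat 1687, .ofNat 0, .ofNat 0, .ofNat 1596, .ofNat 2879, .ofNat 0, .ofNat 0, .ofNat 10907411225263269134545855728071895420405547008, .ofNat 0, .ofNat 0, .ofNat 0, .ofNat 56372290549882923457052102535455740887518100324352, .ofNat 0, .ofNat 0, .ofNat 0, .ofNat 10481892118467750228751004315860862807117985218560, .ofNat 0, .ofNat 0, .ofNat 0, .ofNat 0, .ofNat 0⟩)
    (by decide +kernel)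
theorem L07206 : Good (Phi V5.P V5.D (-1) (-1)) ⟨6, 56, 4, 9, 4, 15, 3, 6, 5, 3⟩ :=
  leafX_sound T5.ok_mm T5.Ymm.bz_eq (w := 261) (c := ⟨⟨.negSucc 1081, .ofNat 194, .ofNat 11, .ofNat 514, .ofNat 695, .ofNat 119⟩, ⟨.ofNat 624, .negSucc 147, .ofNat 53, .negSucc 316, .negSucc 433, .negSucc 74⟩, ⟨.ofNat 621, .negSucc 41, .ofNat 3, .negSucc 61, .negSucc 442, .negSucc 160⟩, ⟨.negSucc 2623, .ofNat 271, .ofNat 147, .ofNat 1123, .ofNat 1477, .ofNat 336⟩, ⟨.negSucc 1721, .negSucc 6, .ofNat 233, .ofNat 615, .ofNat 762, .ofNat 252⟩, .ofNat 2069, .ofNat 2826, .ofNat 0, .ofNat 2826, .ofNat 4645, .ofNat 0, .ofNat 128, .negSucc 1068, .negSucc 815, .ofNat 0, .ofNat 663, .ofNat 489, .ofNat 0, .ofNat 0, .ofNat 547, .ofNat 946, .ofNat 0, .ofNat 0, .ofNat 0, .ofNat 0, .ofNat 0, .ofNat 0, .ofNat 771151793252944187830774503943732630196737540096, .ofNat 0, .ofNat 0, .ofNat 0, .ofNat 0, .ofNat 0, .ofNat 0, .ofNat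 0, .ofNat 1302715237390639975303283781429367902642200641536, .ofNat 0⟩)
    (by decide +kernel)
theorem L07207 : Good (Phi V5.P V5.D (-1) (-1)) ⟨6, 57, 4, 9, 4, 15, 3, 6, 4, 1⟩ :=
  out_sound (S := T5.ds_mm) T5.ok_mm (w := 65) (j := 3) (by decide +kernel)
theorem L07208 : Good (Phi V5.P V5.D (-1) (-1)) ⟨5, 29, 4, 9, 4, 15, 3, 6, 4, 1⟩ :=
  out_sound (S := T5.ds_mm) T5.ok_mm (w := 59) (j := 3) (by decide +kernel)
theorem L07209 : Good (Phi V5.P V5.D (-1) (-1)) ⟨4, 15, 4, 9, 4, 15, 3, 6, 4, 1⟩ :=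
  out_sound (S := T5.ds_mm) T5.ok_mm (w := 53) (j := 3) (by decide +kernel)
theorem L07210 : Good (Phi V5.P V5.D (-1) (-1)) ⟨2, 2, 4, 8, 3, 7, 3, 7, 4, 0⟩ :=
  out_sound (S := T5.ds_mm) T5.ok_mm (w := 41) (j := 3) (by decide +kernel)
theorem L07211 : Good (Phi V5.P V5.D (-1) (-1)) ⟨4, 12, 4, 8, 3, 7, 3, 7, 4, 0⟩ :=
  out_sound (S := T5.ds_mm) T5.ok_mm (w := 53) (j := 3) (by decide +kernel)
theorem L07212 : Good (Phi V5.P V5.D (-1) (-1)) ⟨5, 26, 4, 8, 3, 7, 3, 7, 5, 0⟩ :=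
  leafX_sound T5.ok_mm T5.Ymm.bz_eq (w := 246) (c := ⟨⟨.negSucc 616, .negSucc 152, .ofNat 149, .negSucc 97, .ofNat 119, .negSucc 107⟩, ⟨.ofNat 347, .ofNat 46, .negSucc 7, .ofNat 51, .negSucc 67, .ofNat 55⟩, ⟨.ofNat 815, .ofNat 53, .negSucc 53, .ofNat 75, .negSucc 371, .negSucc 153⟩, ⟨.negSucc 1509, .negSucc 142, .ofNat 178, .negSucc 217, .ofNat 124, .negSucc 242⟩, ⟨.negSucc 1007, .ofNat 84, .ofNat 11, .negSucc 129, .negSucc 94, .negSucc 148⟩, .ofNat 3118, .ofNat 4952, .ofNat 0, .ofNat 4952, .ofNat 8960, .ofNat 0, .ofNat 128, .negSucc 358, .negSucc 2710, .ofNat 0, .ofNat 200, .ofNat 1460, .ofNat 0, .ofNat 0, .ofNat 2025, .ofNat 1606, .ofNat 0, .ofNat 36457660815206831123343229214899643271633436672, .ofNat 176827307144431346362531400853793682751488, .ofNat 0, .ofNat 0, .ofNat 2667700170355568680453926044650757385295402893312, .ofNat 125447679693345409006244886085299080441888768, .ofNat 0, .ofNat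 0, .ofNat 0, .ofNat 411382523983540045833002825508903850879221760, .ofNat 0, .ofNat 0, .ofNat 0, .ofNat 0, .ofNat 0⟩)
    (by decide +kernel)
theorem L07213 : Good (Phi V5.P V5.D (-1) (-1)) ⟨5, 26, 4, 8, 3, 7, 3, 7, 5, 1⟩ :=
  leafX_sound T5.ok_mm T5.Ymm.bz_eq (w := 245) (c := ⟨⟨.negSucc 861, .negSucc 252, .negSucc 45, .ofNat 90, .ofNat 411, .ofNat 192⟩, ⟨.ofNat 478, .ofNat 93, .ofNat 90, .negSucc 44, .negSucc 217, .negSucc 101⟩, ⟨.ofNat 771, .ofNat 64, .ofNat 50, .negSucc 3, .negSucc 504, .negSucc 299⟩, ⟨.negSucc 2079, .negSucc 333, .negSucc 174, .ofNat 231, .ofNat 780, .ofNat 372⟩, ⟨.negSucc 1368, .ofNat 2, .negSucc 125, .ofNat 174, .ofNat 304, .ofNat 154⟩, .ofNat 3078, .ofNat 4880, .ofNat 0, .ofNat 4880, .ofNat 8831, .ofNat 0, .ofNat 128, .negSucc 587, .negSucc 1653, .ofNat 0, .ofNat 327, .ofNat 887, .ofNat 0, .ofNat 0, .ofNat 1206, .ofNat 1948, .ofNat 0, .ofNat 0, .ofNat 0, .ofNat 0,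 .ofNat 0, .ofNat 6177673432135319330496804695267347233766635470848, .ofNat 249281328159044570231473175696268033513226240, .ofNat 0, .ofNat 0, .ofNat 0, .ofNat 696637125283975089656841498241073263232942080, .ofNat 0, .ofNat 0, .ofNat 0, .ofNat 563771175395976702238327937048400291780624384, .ofNat 0⟩)
    (by decide +kernel)
theorem L07214 : Good (Phi V5.P V5.D (-1) (-1)) ⟨6, 54, 5, 16, 4, 14, 3, 7, 5, 0⟩ :=
  leafX_sound T5.ok_mm T5.Ymm.bz_eq (w := 266) (c := ⟨⟨.negSucc 510, .negSucc 131, .ofNat 60, .negSucc 113, .negSucc 127, .negSucc 217⟩, ⟨.ofNat 254, .ofNat 52, .ofNat 2, .ofNat 62, .ofNat 64, .ofNat 114⟩, ⟨.ofNat 683, .ofNat 68, .negSucc 15, .ofNat 98, .negSucc 195, .negSucc 77⟩, ⟨.negSucc 1208, .negSucc 171, .ofNat 27, .negSucc 236, .negSucc 313, .negSucc 419⟩, ⟨.negSucc 811, .ofNat 21, .negSucc 74, .negSucc 117, .negSucc 219, .negSucc 174⟩, .ofNat 2561, .ofNat 3868, .ofNat 0, .ofNat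 3868, .ofNat 6846, .ofNat 0, .ofNat 128, .negSucc 352, .negSucc 2091, .ofNat 0, .ofNat 202, .ofNat 1154, .ofNat 0, .ofNat 0, .ofNat 1560, .ofNat 2426, .ofNat 0, .ofNat 0, .ofNat 0, .ofNat 0, .ofNat 0, .ofNat 0, .ofNat 2954542164628878808527461419692170562091849089024, .ofNat 0, .ofNat 0, .ofNat 0, .ofNat 2234148753222218711031186183295158215347292602368, .ofNat 0, .ofNat 0, .ofNat 0, .ofNat 0, .ofNat 0⟩)
    (by decide +kernel)
theorem L07215 : Good (Phi V5.P V5.D (-1) (-1)) ⟨6, 54, 5, 16, 4, 15, 3, 7, 5, 0⟩ :=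
  leafX_sound T5.ok_mm T5.Ymm.bz_eq (w := 265) (c := ⟨⟨.negSucc 811, .negSucc 97, .ofNat 75, .negSucc 100, .ofNat 201, .negSucc 95⟩, ⟨.ofNat 415, .ofNat 34, .negSucc 3, .ofNat 53, .negSucc 114, .ofNat 51⟩, ⟨.ofNat 909, .ofNat 33, .negSucc 9, .ofNat 60, .negSucc 436, .negSucc 155⟩, ⟨.negSucc 1708, .negSucc 150, .ofNat 73, .negSucc 262, .ofNat 274, .negSucc 216⟩, ⟨.negSucc 915, .negSucc 29, .negSucc 31, .negSucc 196, .negSucc 36, .negSucc 130⟩, .ofNat 2078, .ofNat 3043, .ofNat 0, .ofNat 3043, .ofNat 5427, .ofNat 0, .ofNat 128, .negSucc 465, .negSucc 1800, .ofNat 0, .ofNat 262, .ofNat 977, .ofNat 0, .ofNat 0, .ofNat 1250, .ofNat 2677, .ofNat 0, .ofNat 0, .ofNat 0, .ofNat 0, .ofNat 0, .ofNat 72315119448179891839118276195065442447989382175522816, .ofNat 1170197105340679892180837155089996757307593064448, .ofNat 0, .ofNat 0, .ofNat 0, .ofNat 0, .ofNat 0, .ofNat 0, .ofNat 0, .ofNat 0, .ofNat 0⟩)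
    (by decide +kernel)
theorem L07216 : Good (Phi V5.P V5.D (-1) (-1)) ⟨6, 55, 5, 16, 3, 7, 3, 7, 5, 0⟩ :=
  out_sound (S := T5.ds_mm) T5.ok_mm (w := 67) (j := 3) (by decide +kernel)
theorem L07217 : Good (Phi V5.P V5.D (-1) (-1)) ⟨5, 27, 5, 16, 3, 7, 3, 7, 5, 1⟩ :=
  leafX_sound T5.ok_mm T5.Ymm.bz_eq (w := 245) (c := ⟨⟨.negSucc 1210, .negSucc 59, .negSucc 27, .ofNat 166, .ofNat 482, .ofNat 270⟩, ⟨.ofNat 624, .negSucc 11, .ofNat 53, .negSucc 83, .negSucc 260, .negSucc 144⟩, ⟨.ofNat 888, .ofNat 1, .ofNat 27, .negSucc 38, .negSucc 537, .negSucc 339⟩, ⟨.negSucc 2613, .negSucc 171, .negSucc 72, .ofNat 349, .ofNat 911, .ofNat 528⟩, ⟨.negSucc 1472, .negSucc 175, .negSucc 22, .ofNat 186, .ofNat 359, .ofNat 232⟩, .ofNat 2061, .ofNat 3015, .ofNat 0, .ofNat 3015, .ofNat 5381, .ofNat 0, .ofNat 128, .negSucc 409, .negSucc 926, .ofNat 0, .ofNat 233, .ofNat 504, .ofNat 0, .ofNat 0, .ofNat 650, .ofNat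 1111, .ofNat 0, .ofNat 0, .ofNat 597895657748887937643563815353368405082112, .ofNat 0, .ofNat 0, .ofNat 37076766344399901368410901722199898458821905874944, .ofNat 504350599667215810887548908905187177125642240, .ofNat 0, .ofNat 0, .ofNat 30906142733724126288280257304420462803035449458688, .ofNat 84469778351207785843907453710469816702205952, .ofNat 0, .ofNat 0, .ofNat 0, .ofNat 90703912274807641266285994372484961184776192, .ofNat 0⟩)
    (by decide +kernel)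
theorem L07218 : Good (Phi V5.P V5.D (-1) (-1)) ⟨5, 27, 5, 17, 3, 7, 3, 7, 5, 0⟩ :=
  leafX_sound T5.ok_mm T5.Ymm.bz_eq (w := 248) (c := ⟨⟨.negSucc 608, .negSucc 432, .ofNat 109, .negSucc 99, .ofNat 171, .negSucc 156⟩, ⟨.ofNat 337, .ofNat 205, .negSucc 23, .ofNat 56, .negSucc 100, .ofNat 87⟩, ⟨.ofNat 795, .ofNat 220, .negSucc 31, .ofNat 83, .negSucc 414, .negSucc 121⟩, ⟨.negSucc 1230, .negSucc 812, .ofNat 169, .negSucc 291, .ofNat 186, .negSucc 468⟩, ⟨.negSucc 582, .negSucc 344, .ofNat 48, .negSucc 247, .negSucc 102, .negSucc 404⟩, .ofNat 2474, .ofNat 3639, .ofNat 0, .ofNat 3639, .ofNat 6290, .ofNat 0, .ofNat 128, .negSucc 605, .negSucc 2147, .ofNat 0, .ofNat 353, .ofNat 1216, .ofNat 0, .ofNat 0, .ofNat 1506, .ofNat 1657, .ofNat 0, .ofNat 0, .ofNat 1310889971591731803064041795659597883637760, .ofNat 0, .ofNat 0, .ofNat 0, .ofNat 592902370832112128296560347438332761346146304, .ofNat 0, .ofNat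 0, .ofNat 0, .ofNat 959044350599506356071840464220613964436865024, .ofNat 0, .ofNat 0, .ofNat 0, .ofNat 311087770585094377546164065594237241150930944, .ofNat 0⟩)
    (by decide +kernel)
theorem L07219 : Good (Phi V5.P V5.D (-1) (-1)) ⟨5, 27, 5, 17, 4, 14, 3, 7, 5, 1⟩ :=
  leafX_sound T5.ok_mm T5.Ymm.bz_eq (w := 261) (c := ⟨⟨.negSucc 1108, .ofNat 124, .ofNat 35, .ofNat 36, .ofNat 351, .ofNat 144⟩, ⟨.ofNat 617, .negSucc 114, .ofNat 19, .negSucc 19, .negSucc 200, .negSucc 83⟩, ⟨.ofNat 861, .negSucc 98, .negSucc 3, .ofNat 4, .negSucc 473, .negSucc 286⟩, ⟨.negSucc 2439, .ofNat 201, .negSucc 11, .ofNat 116, .ofNat 685, .ofNat 277⟩, ⟨.negSucc 1403, .negSucc 0, .negSucc 69, .ofNat 110, .ofNat 294, .ofNat 125⟩, .ofNat 1567, .ofNat 2147, .ofNat 0, .ofNat 2147, .ofNat 3812, .ofNat 0, .ofNat 128, .negSucc 978, .negSucc 2528, .ofNat 0, .ofNat 568, .ofNat 1400, .ofNat 0, .ofNat 0, .ofNat 1683, .ofNat 2491,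 .ofNat 0, .ofNat 0, .ofNat 40454023337753739065006453190850183404927844352, .ofNat 0, .ofNat 0, .ofNat 26847910179896737780155420086873442457240634960904192, .ofNat 1353215888223765158487388574859530064768807206912, .ofNat 0, .ofNat 0, .ofNat 0, .ofNat 0, .ofNat 0, .ofNat 0, .ofNat 0, .ofNat 38815839947875733898293879886788466769110432219136, .ofNat 0⟩)
    (by decide +kernel)
theorem L07220 : Good (Phi V5.P V5.D (-1) (-1)) ⟨5, 27, 5, 17, 4, 15, 3, 7, 5, 1⟩ :=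
  leafX_sound T5.ok_mm T5.Ymm.bz_eq (w := 260) (c := ⟨⟨.negSucc 1246, .negSucc 37, .ofNat 52, .ofNat 57, .ofNat 571, .ofNat 398⟩, ⟨.ofNat 690, .negSucc 9, .ofNat 3, .negSucc 29, .negSucc 321, .negSucc 224⟩, ⟨.ofNat 920, .negSucc 0, .negSucc 1, .negSucc 0, .negSucc 585, .negSucc 371⟩, ⟨.negSucc 2762, .negSucc 135, .ofNat 111, .ofNat 144, .ofNat 1220, .ofNat 844⟩, ⟨.negSucc 1603, .negSucc 162, .ofNat 86, .ofNat 104, .ofNat 655, .ofNat 446⟩, .ofNat 2070, .ofNat 2979, .ofNat 0, .ofNat 2979, .ofNat 5205, .ofNat 0, .ofNat 128, .negSucc 683, .negSucc 1528, .ofNat 0, .ofNat 393, .ofNat 850, .ofNat 0, .ofNat 0, .ofNat 985, .ofNat 1567, .ofNat 0, .ofNat 0, .ofNat 0, .ofNat 0, .ofNat 0, .ofNat 191460915965901223206208861331668201039675573051326464, .ofNat 6287358258159627773788333055414841990193348608000, .ofNat 0, .ofNat 0, .ofNat 282249589303193238305805447010686119710956021052604416, .ofNat 5349720138702488836986895664163724211057040818176,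 .ofNat 0, .ofNat 0, .ofNat 0, .ofNat 0, .ofNat 0⟩)
    (by decide +kernel)
theorem L07221 : Good (Phi V5.P V5.D (-1) (-1)) ⟨3, 7, 4, 8, 3, 7, 3, 7, 4, 0⟩ :=
  out_sound (S := T5.ds_mm) T5.ok_mm (w := 47) (j := 3) (by decide +kernel)
theorem L07222 : Good (Phi V5.P V5.D (-1) (-1)) ⟨2, 2, 4, 8, 3, 7, 3, 7, 4, 1⟩ :=
  out_sound (S := T5.ds_mm) T5.ok_mm (w := 41) (j := 3) (by decide +kernel)
theorem L07223 : Good (Phi V5.P V5.D (-1) (-1)) ⟨4, 12, 4, 8, 3, 7, 3, 7, 4, 1⟩ :=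
  out_sound (S := T5.ds_mm) T5.ok_mm (w := 53) (j := 3) (by decide +kernel)
theorem L07224 : Good (Phi V5.P V5.D (-1) (-1)) ⟨4, 13, 5, 16, 3, 7, 3, 7, 5, 2⟩ :=
  leafX_sound T5.ok_mm T5.Ymm.bz_eq (w := 242) (c := ⟨⟨.negSucc 1255, .ofNat 107, .ofNat 82, .ofNat 449, .ofNat 665, .ofNat 282⟩, ⟨.ofNat 685, .negSucc 130, .negSucc 13, .negSucc 234, .negSucc 348, .negSucc 148⟩, ⟨.ofNat 747, .negSucc 207, .ofNat 7, .negSucc 123, .negSucc 566, .negSucc 290⟩, ⟨.negSucc 2724, .ofNat 98, .ofNat 125, .ofNat 964, .ofNat 1441, .ofNat 625⟩, ⟨.negSucc 1516, .negSucc 160, .ofNat 36, .ofNat 530, .ofNat 815, .ofNat 367⟩, .ofNat 2153, .ofNat 3205, .ofNat 0, .ofNat 3205, .ofNat 5773, .ofNat 0, .ofNat 128, .negSucc 850, .negSucc 941, .ofNat 0, .ofNat 481, .ofNat 508, .ofNat 0, .ofNat 0, .ofNat 671, .ofNat 308, .ofNat 0, .ofNat 0, .ofNat 2297416787807786935446353370041700214374400, .ofNat 0, .ofNat 0, .ofNat 1577426100779771695699737287312793328475959197696,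 .ofNat 964571009211113611729102885223879629260980224, .ofNat 0, .ofNat 0, .ofNat 0, .ofNat 0, .ofNat 0, .ofNat 0, .ofNat 0, .ofNat 459376641304956466490395452472854950461833216, .ofNat 0⟩)
    (by decide +kernel)
theorem L07225 : Good (Phi V5.P V5.D (-1) (-1)) ⟨4, 13, 5, 17, 3, 7, 3, 7, 5, 2⟩ :=
  leafX_sound T5.ok_mm T5.Ymm.bz_eq (w := 242) (c := ⟨⟨.negSucc 1365, .ofNat 242, .ofNat 40, .ofNat 479, .ofNat 727, .ofNat 322⟩, ⟨.ofNat 794, .negSucc 208, .ofNat 7, .negSucc 265, .negSucc 403, .negSucc 182⟩, ⟨.ofNat 786, .negSucc 176, .ofNat 6, .negSucc 137, .negSucc 628, .negSucc 334⟩, ⟨.negSucc 3047, .ofNat 515, .ofNat 41, .ofNat 1065, .ofNat 1557, .ofNat 639⟩, ⟨.negSucc 1780, .ofNat 246, .negSucc 5, .ofNat 624, .ofNat 841, .ofNat 283⟩, .ofNat 2047, .ofNat 2939, .ofNat 0, .ofNat 2939, .ofNat 5138, .ofNat 0, .ofNat 128, .negSucc 836, .negSucc 1026, .ofNat 0, .ofNat 487, .ofNat 575, .ofNat 0, .ofNat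 0, .ofNat 690, .ofNat 773, .ofNat 0, .ofNat 0, .ofNat 0, .ofNat 0, .ofNat 0, .ofNat 3603741643254549258195122012742993055230271160320, .ofNat 581074275190503610217361704088914750995431424, .ofNat 0, .ofNat 0, .ofNat 8672013225749755288510156986201237499304015298560, .ofNat 983281378924984509425087027935372782996553728, .ofNat 0, .ofNat 0, .ofNat 0, .ofNat 1133228964145630997760386002113322480243310592, .ofNat 0⟩)
    (by decide +kernel)
theorem L07226 : Good (Phi V5.P V5.D (-1) (-1)) ⟨5, 26, 4, 8, 3, 7, 3, 7, 5, 3⟩ :=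
  leafX_sound T5.ok_mm T5.Ymm.bz_eq (w := 244) (c := ⟨⟨.negSucc 1308, .ofNat 270, .ofNat 22, .ofNat 729, .ofNat 660, .ofNat 108⟩, ⟨.ofNat 701, .negSucc 171, .ofNat 41, .negSucc 379, .negSucc 342, .negSucc 49⟩, ⟨.ofNat 413, .negSucc 49, .negSucc 38, .negSucc 150, .negSucc 484, .negSucc 150⟩, ⟨.negSucc 2607, .ofNat 309, .ofNat 53, .ofNat 1507, .ofNat 1296, .ofNat 324⟩, ⟨.negSucc 1223, .negSucc 136, .ofNat 65, .ofNat 765, .ofNat 578, .ofNat 296⟩, .ofNat 3237, .ofNat 5151, .ofNat 0, .ofNat 5151, .ofNat 9291, .ofNat 0, .ofNat 128, .negSucc 836, .negSucc 722, .ofNat 0, .ofNat 473, .ofNat 389, .ofNat 0, .ofNat 0, .ofNat 642, .ofNat 2241, .ofNat 0, .ofNat 0, .ofNat 0, .ofNat 0, .ofNat 0, .ofNat 14156507996579720113459474207919402748002963554304, .ofNat 0, .ofNat 0, .ofNat 0, .ofNat 36268348603995408406921914124233398202411773853696, .ofNat 289418216535178856967842167007843323993915392, .ofNat 0,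 .ofNat 0, .ofNat 0, .ofNat 310436958921408036112846780117379468545228800, .ofNat 0⟩)
    (by decide +kernel)
theorem L07227 : Good (Phi V5.P V5.D (-1) (-1)) ⟨5, 27, 4, 8, 3, 7, 3, 7, 5, 3⟩ :=
  leafX_sound T5.ok_mm T5.Ymm.bz_eq (w := 242) (c := ⟨⟨.negSucc 1126, .ofNat 361, .ofNat 2, .ofNat 814, .ofNat 703, .ofNat 111⟩, ⟨.ofNat 596, .negSucc 233, .ofNat 43, .negSucc 446, .negSucc 374, .negSucc 56⟩, ⟨.ofNat 362, .negSucc 167, .ofNat 37, .negSucc 147, .negSucc 525, .negSucc 138⟩, ⟨.negSucc 2603, .ofNat 685, .negSucc 6, .ofNat 1820, .ofNat 1594, .ofNat 385⟩, ⟨.negSucc 1667, .ofNat 258, .ofNat 21, .ofNat 1092, .ofNat 992, .ofNat 378⟩, .ofNat 2007, .ofNat 2865, .ofNat 0, .ofNat 2865, .ofNat 5010, .ofNat 0, .ofNat 128, .negSucc 748, .negSucc 698, .ofNat 0, .ofNat 439, .ofNat 385, .ofNat 0, .ofNat 0, .ofNat 571, .ofNat 494, .ofNat 0, .ofNat 0, .ofNat 0, .ofNat 0, .ofNat 0, .ofNat 5586298982854708004866305379457348196103790526464,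 .ofNat 133339629485533153344025030684818101650849792, .ofNat 0, .ofNat 0, .ofNat 13189641920613503768945160845666747954259466125312, .ofNat 121278811239550464184505015584633049904578560, .ofNat 0, .ofNat 0, .ofNat 0, .ofNat 50016700853291390633277390115657077590327296, .ofNat 0⟩)
    (by decide +kernel)
theorem L07228 : Good (Phi V5.P V5.D (-1) (-1)) ⟨3, 7, 4, 8, 3, 7, 3, 7, 4, 1⟩ :=
  out_sound (S := T5.ds_mm) T5.ok_mm (w := 47) (j := 3) (by decide +kernel)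
theorem L07229 : Good (Phi V5.P V5.D (-1) (-1)) ⟨2, 2, 4, 9, 3, 7, 3, 7, 4, 0⟩ :=
  out_sound (S := T5.ds_mm) T5.ok_mm (w := 41) (j := 3) (by decide +kernel)
theorem L07230 : Good (Phi V5.P V5.D (-1) (-1)) ⟨4, 12, 4, 9, 3, 7, 3, 7, 4, 0⟩ :=
  out_sound (S := T5.ds_mm) T5.ok_mm (w := 53) (j := 3) (by decide +kernel)
theorem L07231 : Good (Phi V5.P V5.D (-1) (-1)) ⟨5, 26, 4, 9, 3, 7, 3, 7, 4, 0⟩ :=
  out_sound (S := T5.ds_mm) T5.ok_mm (w := 59) (j := 3) (by decide +kernel)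
theorem L07232 : Good (Phi V5.P V5.D (-1) (-1)) ⟨6, 54, 4, 9, 3, 7, 3, 7, 4, 0⟩ :=
  out_sound (S := T5.ds_mm) T5.ok_mm (w := 65) (j := 3) (by decide +kernel)
theorem L07233 : Good (Phi V5.P V5.D (-1) (-1)) ⟨6, 55, 5, 18, 4, 14, 3, 7, 5, 0⟩ :=
  leafX_sound T5.ok_mm T5.Ymm.bz_eq (w := 268) (c := ⟨⟨.negSucc 567, .negSucc 293, .ofNat 191, .negSucc 79, .negSucc 26, .negSucc 181⟩, ⟨.ofNat 324, .ofNat 154, .negSucc 76, .ofNat 48, .ofNat 12, .ofNat 105⟩, ⟨.ofNat 759, .ofNat 184, .negSucc 109, .ofNat 66, .negSucc 268, .negSucc 101⟩, ⟨.negSucc 1246, .negSucc 643, .ofNat 361, .negSucc 167, .negSucc 183, .negSucc 428⟩, ⟨.negSucc 712, .negSucc 372, .ofNat 167, .negSucc 80, .negSucc 229, .negSucc 266⟩, .ofNat 2407, .ofNat 3447, .ofNat 0, .ofNat 3447, .ofNat 5808, .ofNat 0, .ofNat 128, .negSucc 988, .negSucc 4238, .ofNat 0, .ofNat 596, .ofNat 2490, .ofNat 0, .ofNat 0, .ofNat 2984, .ofNat 4133, .ofNat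 0, .ofNat 0, .ofNat 0, .ofNat 0, .ofNat 0, .ofNat 0, .ofNat 5112793520377885063734900386842084849238493102080, .ofNat 0, .ofNat 0, .ofNat 0, .ofNat 0, .ofNat 0, .ofNat 0, .ofNat 0, .ofNat 75148053396604326038491534604121846727841436139520, .ofNat 0⟩)
    (by decide +kernel)
theorem L07234 : Good (Phi V5.P V5.D (-1) (-1)) ⟨6, 55, 5, 18, 4, 14, 3, 7, 5, 1⟩ :=
  leafX_sound T5.ok_mm T5.Ymm.bz_eq (w := 267) (c := ⟨⟨.negSucc 1165, .ofNat 23, .negSucc 49, .ofNat 89, .ofNat 458, .ofNat 205⟩, ⟨.ofNat 674, .negSucc 38, .ofNat 69, .negSucc 51, .negSucc 271, .negSucc 121⟩, ⟨.ofNat 893, .negSucc 30, .ofNat 48, .negSucc 23, .negSucc 530, .negSucc 316⟩, ⟨.negSucc 2505, .negSucc 3, .negSucc 78, .ofNat 167, .ofNat 807, .ofNat 328⟩, ⟨.negSucc 1360, .negSucc 72, .ofNat 19, .ofNat 64, .ofNat 244, .ofNat 55⟩, .ofNat 4096, .ofNat 6157, .ofNat 0, .ofNat 6157, .ofNat 10169, .ofNat 0, .ofNat 128, .negSucc 697, .negSucc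 1649, .ofNat 0, .ofNat 424, .ofNat 982, .ofNat 0, .ofNat 0, .ofNat 1140, .ofNat 2714, .ofNat 0, .ofNat 0, .ofNat 0, .ofNat 0, .ofNat 0, .ofNat 4171124572562301783756411495560708940378091778438332416, .ofNat 9933764274712668529455421243436467595375424831488, .ofNat 0, .ofNat 0, .ofNat 0, .ofNat 0, .ofNat 0, .ofNat 0, .ofNat 0, .ofNat 4778302388056660278293831132245802026994505875456, .ofNat 0⟩)
    (by decide +kernel)
theorem L07235 : Good (Phi V5.P V5.D (-1) (-1)) ⟨6, 55, 5, 19, 4, 14, 3, 7, 4, 0⟩ :=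
  leafX_sound T5.ok_mm T5.Ymm.bz_eq (w := 266) (c := ⟨⟨.negSucc 679, .negSucc 229, .ofNat 32, .negSucc 43, .ofNat 142, .ofNat 109⟩, ⟨.ofNat 426, .ofNat 117, .ofNat 17, .ofNat 27, .negSucc 89, .negSucc 70⟩, ⟨.ofNat 889, .ofNat 106, .negSucc 16, .ofNat 38, .negSucc 387, .negSucc 493⟩, ⟨.negSucc 1585, .negSucc 238, .negSucc 17, .negSucc 118, .ofNat 98, .negSucc 33⟩, ⟨.negSucc 954, .ofNat 109, .negSucc 65, .negSucc 87, .negSucc 168, .negSucc 302⟩, .ofNat 5264, .ofNat 7915, .ofNat 0, .ofNat 7915, .ofNat 12791, .ofNat 0, .ofNat 128, .negSucc 1476, .negSucc 5668, .ofNat 0, .ofNat 915, .ofNat 3466, .ofNat 0, .ofNat 0, .ofNat 3920, .ofNat 4560, .ofNat 0, .ofNat 0, .ofNat 0, .ofNat 0, .ofNat 0, .ofNat 632951662823525229629708944074005846840100466886443008, .ofNat 662494642881993802064575856989085076519519256576, .ofNat 0, .ofNat 0, .ofNat 0, .ofNat 4407993790171438740763204769862792877487933095936,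 .ofNat 0, .ofNat 0, .ofNat 0, .ofNat 1670581089520487307351585081460986213671974731776, .ofNat 0⟩)
    (by decide +kernel)
theorem L07236 : Good (Phi V5.P V5.D (-1) (-1)) ⟨6, 55, 5, 18, 4, 15, 3, 7, 5, 0⟩ :=
  leafX_sound T5.ok_mm T5.Ymm.bz_eq (w := 267) (c := ⟨⟨.negSucc 898, .ofNat 83, .negSucc 126, .negSucc 63, .ofNat 309, .negSucc 137⟩, ⟨.ofNat 519, .negSucc 68, .ofNat 112, .ofNat 38, .negSucc 186, .ofNat 80⟩, ⟨.ofNat 999, .negSucc 60, .ofNat 90, .ofNat 42, .negSucc 503, .negSucc 142⟩, ⟨.negSucc 1860, .ofNat 49, .negSucc 164, .negSucc 200, .ofNat 504, .negSucc 361⟩, ⟨.negSucc 935, .negSucc 126, .ofNat 53, .negSucc 175, .ofNat 98, .negSucc 264⟩, .ofNat 3090, .ofNat 4532, .ofNat 0, .ofNat 4532, .ofNat 7534, .ofNat 0, .ofNat 128, .negSucc 767, .negSucc 2401, .ofNat 0, .ofNat 461, .ofNat 1417, .ofNat 0, .ofNat 0, .ofNat 1558, .ofNat 3250, .ofNat 0, .ofNat 0, .ofNat 0, .ofNat 0, .ofNat 0, .ofNat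 0, .ofNat 4412262939106726717401165356238082759893899542528, .ofNat 0, .ofNat 0, .ofNat 0, .ofNat 0, .ofNat 0, .ofNat 0, .ofNat 0, .ofNat 0, .ofNat 0⟩)
    (by decide +kernel)
theorem L07237 : Good (Phi V5.P V5.D (-1) (-1)) ⟨6, 55, 5, 19, 4, 15, 3, 7, 5, 0⟩ :=
  leafX_sound T5.ok_mm T5.Ymm.bz_eq (w := 271) (c := ⟨⟨.negSucc 834, .negSucc 170, .ofNat 49, .negSucc 85, .ofNat 381, .negSucc 121⟩, ⟨.ofNat 520, .ofNat 80, .ofNat 10, .ofNat 52, .negSucc 233, .ofNat 74⟩, ⟨.ofNat 996, .ofNat 67, .ofNat 0, .ofNat 56, .negSucc 544, .negSucc 152⟩, ⟨.negSucc 1994, .negSucc 169, .ofNat 19, .negSucc 167, .ofNat 579, .negSucc 201⟩, ⟨.negSucc 1242, .ofNat 76, .negSucc 37, .negSucc 70, .ofNat 54, .negSucc 44⟩, .ofNat 6564, .ofNat 9971, .ofNat 0, .ofNat 9971, .ofNat 16047, .ofNat 0, .ofNat 128, .negSucc 982, .negSucc 4937, .ofNat 0, .ofNat 605, .ofNat 3011, .ofNat 0, .ofNat 0, .ofNat 3175, .ofNat 5552, .ofNat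 0, .ofNat 0, .ofNat 0, .ofNat 0, .ofNat 0, .ofNat 0, .ofNat 98591709732785418064706862205045993606566308216832, .ofNat 0, .ofNat 0, .ofNat 0, .ofNat 35339463595287208779250529407760595064682818043904, .ofNat 0, .ofNat 0, .ofNat 0, .ofNat 0, .ofNat 0⟩)
    (by decide +kernel)
theorem L07238 : Good (Phi V5.P V5.D (-1) (-1)) ⟨6, 55, 4, 9, 4, 15, 3, 7, 5, 1⟩ :=
  leafX_sound T5.ok_mm T5.Ymm.bz_eq (w := 263) (c := ⟨⟨.negSucc 1205, .negSucc 0, .ofNat 0, .ofNat 12, .ofNat 600, .ofNat 397⟩, ⟨.ofNat 698, .negSucc 2, .ofNat 49, .negSucc 8, .negSucc 358, .negSucc 236⟩, ⟨.ofNat 922, .negSucc 1, .ofNat 38, .ofNat 15, .negSucc 618, .negSucc 376⟩, ⟨.negSucc 2644, .negSucc 188, .ofNat 202, .ofNat 50, .ofNat 1298, .ofNat 826⟩, ⟨.negSucc 1487, .negSucc 308, .ofNat 367, .ofNat 52, .ofNat 705, .ofNat 413⟩, .ofNat 3129, .ofNat 4594, .ofNat 0, .ofNat 4594, .ofNat 7633, .ofNat 0, .ofNat 128, .negSucc 1069, .negSucc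 1812, .ofNat 0, .ofNat 642, .ofNat 1067, .ofNat 0, .ofNat 0, .ofNat 1122, .ofNat 970, .ofNat 0, .ofNat 0, .ofNat 9350336668891427965492620596688466869760294912, .ofNat 0, .ofNat 0, .ofNat 388059221156599987138050126603853438921073293996851200, .ofNat 2697740164537313142300891112254019741756136882176, .ofNat 0, .ofNat 0, .ofNat 1005504021702667140630298612267264247695108639178096640, .ofNat 5568671861307500705953907467314016093243506163712, .ofNat 0, .ofNat 0, .ofNat 0, .ofNat 11484135826987801829631690820186438489103681978368, .ofNat 0⟩)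
    (by decide +kernel)
theorem L07239 : Good (Phi V5.P V5.D (-1) (-1)) ⟨4, 14, 5, 18, 3, 7, 3, 7, 4, 0⟩ :=
  out_sound (S := T5.ds_mm) T5.ok_mm (w := 55) (j := 3) (by decide +kernel)
theorem L07240 : Good (Phi V5.P V5.D (-1) (-1)) ⟨6, 56, 5, 19, 5, 28, 3, 7, 5, 0⟩ :=
  leafX_sound T5.ok_mm T5.Ymm.bz_eq (w := 284) (c := ⟨⟨.negSucc 584, .negSucc 114, .ofNat 93, .negSucc 131, .negSucc 55, .negSucc 225⟩, ⟨.ofNat 342, .ofNat 47, .negSucc 20, .ofNat 82, .ofNat 32, .ofNat 139⟩, ⟨.ofNat 767, .ofNat 39, .negSucc 26, .ofNat 97, .negSucc 241, .negSucc 69⟩, ⟨.negSucc 1309, .negSucc 113, .ofNat 76, .negSucc 203, .negSucc 261, .negSucc 501⟩, ⟨.negSucc 762, .ofNat 48, .negSucc 55, .negSucc 25, .negSucc 286, .negSucc 284⟩, .ofNat 4631, .ofNat 6733, .ofNat 0, .ofNat 6733, .ofNat 10624, .ofNat 0, .ofNat 128, .negSucc 756, .negSucc 4802, .ofNat 0, .ofNat 479, .ofNat 2987, .ofNat 0, .ofNat 0, .ofNat 3395, .ofNat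 3985, .ofNat 0, .ofNat 0, .ofNat 416632235387782610289480498245173565672470381330432, .ofNat 0, .ofNat 0, .ofNat 0, .ofNat 1108301048099159551961609414530053555917692374599335936, .ofNat 0, .ofNat 0, .ofNat 0, .ofNat 174803351874994029024579310349955808101650459881635840, .ofNat 0, .ofNat 0, .ofNat 0, .ofNat 0, .ofNat 0⟩)
    (by decide +kernel)
theorem L07241 : Good (Phi V5.P V5.D (-1) (-1)) ⟨6, 56, 5, 19, 5, 29, 3, 7, 5, 0⟩ :=
  leafX_sound T5.ok_mm T5.Ymm.bz_eq (w := 283) (c := ⟨⟨.negSucc 867, .negSucc 535, .ofNat 226, .ofNat 57, .ofNat 94, .negSucc 134⟩, ⟨.ofNat 516, .ofNat 319, .negSucc 104, .negSucc 34, .negSucc 60, .ofNat 84⟩, ⟨.ofNat 974, .ofNat 333, .negSucc 123, .negSucc 28, .negSucc 358, .negSucc 141⟩, ⟨.negSucc 1787, .negSucc 1001, .ofNat 424, .ofNat 86, .ofNat 13, .negSucc 444⟩, ⟨.negSucc 889, .negSucc 404, .ofNat 196, .ofNat 7, .negSucc 185, .negSucc 390⟩, .ofNat 3017, .ofNat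 4252, .ofNat 0, .ofNat 4252, .ofNat 6801, .ofNat 0, .ofNat 128, .negSucc 1101, .negSucc 5213, .ofNat 0, .ofNat 690, .ofNat 3206, .ofNat 0, .ofNat 0, .ofNat 3429, .ofNat 4994, .ofNat 0, .ofNat 0, .ofNat 633998547216386803180838724431462794261946943143936, .ofNat 0, .ofNat 0, .ofNat 0, .ofNat 526543623771212984368951913659684345893075244392906752, .ofNat 0, .ofNat 0, .ofNat 0, .ofNat 382543480479851625613118256525600863297002169354420224, .ofNat 0, .ofNat 0, .ofNat 0, .ofNat 1553064685280356396631396516063064460839947410910216192, .ofNat 0⟩)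
    (by decide +kernel)
theorem L07242 : Good (Phi V5.P V5.D (-1) (-1)) ⟨6, 56, 5, 19, 4, 14, 3, 7, 5, 1⟩ :=
  leafX_sound T5.ok_mm T5.Ymm.bz_eq (w := 268) (c := ⟨⟨.negSucc 1210, .negSucc 247, .ofNat 120, .negSucc 6, .ofNat 512, .ofNat 328⟩, ⟨.ofNat 727, .ofNat 124, .negSucc 31, .ofNat 4, .negSucc 319, .negSucc 205⟩, ⟨.ofNat 924, .ofNat 84, .negSucc 29, .ofNat 27, .negSucc 567, .negSucc 384⟩, ⟨.negSucc 2628, .negSucc 285, .ofNat 79, .ofNat 43, .ofNat 886, .ofNat 617⟩, ⟨.negSucc 1442, .ofNat 52, .negSucc 96, .ofNat 83, .ofNat 248, .ofNat 237⟩, .ofNat 4631, .ofNat 6733, .ofNat 0, .ofNat 6733, .ofNat 10624, .ofNat 0, .ofNat 128, .negSucc 1128, .negSucc 2636, .ofNat 0, .ofNat 713, .ofNat 1633, .ofNat 0, .ofNat 0, .ofNat 1722, .ofNat 2464, .ofNat 0, .ofNat 0, .ofNat 14068709253274942263897604829020717215903645696, .ofNat 0, .ofNat 0, .ofNat 4929336252447487116407667156064561653088081467561476096,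 .ofNat 39367947972466416506279010301866222339467629297664, .ofNat 0, .ofNat 0, .ofNat 0, .ofNat 0, .ofNat 0, .ofNat 0, .ofNat 0, .ofNat 2598318481048258693297602463564356181485693173760, .ofNat 0⟩)
    (by decide +kernel)
theorem L07243 : Good (Phi V5.P V5.D (-1) (-1)) ⟨6, 57, 5, 19, 4, 14, 3, 7, 4, 0⟩ :=
  out_sound (S := T5.ds_mm) T5.ok_mm (w := 67) (j := 3) (by decide +kernel)
theorem L07244 : Good (Phi V5.P V5.D (-1) (-1)) ⟨5, 29, 5, 19, 4, 14, 3, 7, 4, 0⟩ :=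
  out_sound (S := T5.ds_mm) T5.ok_mm (w := 61) (j := 3) (by decide +kernel)
theorem L07245 : Good (Phi V5.P V5.D (-1) (-1)) ⟨5, 28, 5, 19, 4, 15, 3, 7, 5, 0⟩ :=
  leafX_sound T5.ok_mm T5.Ymm.bz_eq (w := 263) (c := ⟨⟨.negSucc 1084, .negSucc 497, .ofNat 115, .negSucc 39, .ofNat 424, .negSucc 138⟩, ⟨.ofNat 648, .ofNat 251, .negSucc 24, .ofNat 25, .negSucc 265, .ofNat 87⟩, ⟨.ofNat 1114, .ofNat 252, .negSucc 44, .ofNat 24, .negSucc 566, .negSucc 145⟩, ⟨.negSucc 2242, .negSucc 672, .ofNat 102, .negSucc 106, .ofNat 747, .negSucc 400⟩, ⟨.negSucc 1120, .negSucc 93, .negSucc 38, .negSucc 77, .ofNat 227, .negSucc 314⟩, .ofNat 3008, .ofNat 4147, .ofNat 0, .ofNat 4147, .ofNat 6494, .ofNat 0, .ofNat 128, .negSucc 827, .negSucc 3182, .ofNat 0, .ofNat 516, .ofNat 1942, .ofNat 0, .ofNat 0, .ofNat 1895, .ofNat 3192, .ofNat 0, .ofNat 0, .ofNat 22756492076966154890426485706043320872472674304, .ofNat 0, .ofNat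 0, .ofNat 0, .ofNat 20494660530671624806677127906271812977531843248128, .ofNat 0, .ofNat 0, .ofNat 43219780552430995822809231795514307492318205626548224, .ofNat 14402006920350071967353004667035588106456913674240, .ofNat 0, .ofNat 0, .ofNat 0, .ofNat 16900015796590879510385569957590156500764488368128, .ofNat 0⟩)
    (by decide +kernel)
theorem L07246 : Good (Phi V5.P V5.D (-1) (-1)) ⟨5, 28, 5, 19, 4, 15, 3, 7, 5, 1⟩ :=
  leafX_sound T5.ok_mm T5.Ymm.bz_eq (w := 262) (c := ⟨⟨.negSucc 1434, .ofNat 194, .negSucc 92, .ofNat 81, .ofNat 794, .ofNat 651⟩, ⟨.ofNat 874, .negSucc 108, .ofNat 70, .negSucc 43, .negSucc 492, .negSucc 405⟩, ⟨.ofNat 1042, .negSucc 104, .ofNat 47, .negSucc 2, .negSucc 698, .negSucc 493⟩, ⟨.negSucc 3239, .ofNat 355, .negSucc 89, .ofNat 148, .ofNat 1681, .ofNat 1398⟩, ⟨.negSucc 1892, .ofNat 175, .ofNat 63, .ofNat 59, .ofNat 867, .ofNat 741⟩, .ofNat 3081, .ofNat 4257, .ofNat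 0, .ofNat 4257, .ofNat 6660, .ofNat 0, .ofNat 128, .negSucc 1042, .negSucc 2022, .ofNat 0, .ofNat 650, .ofNat 1229, .ofNat 0, .ofNat 0, .ofNat 1151, .ofNat 1739, .ofNat 0, .ofNat 0, .ofNat 46868513620457438168745998123410471774245093376, .ofNat 0, .ofNat 0, .ofNat 0, .ofNat 37293762422663966895876221007050195123527955251200, .ofNat 0, .ofNat 0, .ofNat 807752286393817022910555909658110327521287461431934976, .ofNat 20004149677495972322332499707782736281942775300096, .ofNat 0, .ofNat 0, .ofNat 0, .ofNat 21193528868193050831686310418757309638194466127872, .ofNat 0⟩)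
    (by decide +kernel)
theorem L07247 : Good (Phi V5.P V5.D (-1) (-1)) ⟨5, 29, 5, 19, 4, 15, 3, 7, 4, 0⟩ :=
  out_sound (S := T5.ds_mm) T5.ok_mm (w := 61) (j := 3) (by decide +kernel)
theorem L07248 : Good (Phi V5.P V5.D (-1) (-1)) ⟨4, 15, 4, 9, 3, 7, 3, 7, 4, 0⟩ :=
  out_sound (S := T5.ds_mm) T5.ok_mm (w := 53) (j := 3) (by decide +kernel)
theorem L07249 : Good (Phi V5.P V5.D (-1) (-1)) ⟨2, 2, 4, 9, 3, 7, 3, 7, 4, 1⟩ :=
  out_sound (S := T5.ds_mm) T5.ok_mm (w := 41) (j := 3) (by decide +kernel)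
theorem L07250 : Good (Phi V5.P V5.D (-1) (-1)) ⟨4, 12, 4, 9, 3, 7, 3, 7, 5, 2⟩ :=
  out_sound (S := T5.ds_mm) T5.ok_mm (w := 53) (j := 3) (by decide +kernel)
theorem L07251 : Good (Phi V5.P V5.D (-1) (-1)) ⟨5, 26, 4, 9, 3, 7, 3, 7, 5, 2⟩ :=
  out_sound (S := T5.ds_mm) T5.ok_mm (w := 59) (j := 3) (by decide +kernel)
theorem L07252 : Good (Phi V5.P V5.D (-1) (-1)) ⟨6, 54, 4, 9, 3, 7, 3, 7, 5, 2⟩ :=
  out_sound (S := T5.ds_mm) T5.ok_mm (w := 65) (j := 3) (by decide +kernel)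
theorem L07253 : Good (Phi V5.P V5.D (-1) (-1)) ⟨6, 55, 5, 18, 3, 7, 3, 7, 5, 2⟩ :=
  leafX_sound T5.ok_mm T5.Ymm.bz_eq (w := 252) (c := ⟨⟨.negSucc 1250, .ofNat 7, .ofNat 73, .ofNat 559, .ofNat 854, .ofNat 438⟩, ⟨.ofNat 718, .negSucc 20, .negSucc 16, .negSucc 321, .negSucc 497, .negSucc 253⟩, ⟨.ofNat 664, .negSucc 26, .negSucc 19, .negSucc 121, .negSucc 659, .negSucc 346⟩, ⟨.negSucc 2863, .ofNat 116, .negSucc 9, .ofNat 1335, .ofNat 1675, .ofNat 921⟩, ⟨.negSucc 1750, .ofNat 166, .negSucc 165, .ofNat 869, .ofNat 735, .ofNat 478⟩, .ofNat 4150, .ofNat 6247, .ofNat 0, .ofNat 6247, .ofNat 10318, .ofNat 0, .ofNat 128, .negSucc 1119, .negSucc 1148, .ofNat 0, .ofNat 678, .ofNat 681, .ofNat 0, .ofNat 0, .ofNat 754, .ofNat 681, .ofNat 0, .ofNat 0, .ofNat 0, .ofNat 0, .ofNat 0, .ofNat 952419699211686707805008599469150884274215875248128, .ofNat 694641603634835985523413087773961519001239552, .ofNat 0,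 .ofNat 0, .ofNat 3800007570440216275510283389335941921321886171529216, .ofNat 1650248361124170084623728375009765756086779904, .ofNat 0, .ofNat 0, .ofNat 0, .ofNat 0, .ofNat 0⟩)
    (by decide +kernel)
theorem L07254 : Good (Phi V5.P V5.D (-1) (-1)) ⟨6, 55, 5, 19, 3, 7, 3, 7, 5, 2⟩ :=
  leafX_sound T5.ok_mm T5.Ymm.bz_eq (w := 256) (c := ⟨⟨.negSucc 787, .negSucc 555, .ofNat 400, .ofNat 612, .ofNat 966, .ofNat 556⟩, ⟨.ofNat 496, .ofNat 305, .negSucc 212, .negSucc 366, .negSucc 584, .negSucc 336⟩, ⟨.ofNat 695, .negSucc 25, .negSucc 1, .negSucc 142, .negSucc 707, .negSucc 386⟩, ⟨.negSucc 2209, .negSucc 627, .ofNat 355, .ofNat 1357, .ofNat 1785, .ofNat 1144⟩, ⟨.negSucc 1610, .ofNat 118, .negSucc 243, .ofNat 770, .ofNat 646, .ofNat 556⟩, .ofNat 5975, .ofNat 9036, .ofNat 0, .ofNat 9036, .ofNat 14558, .ofNat 0, .ofNat 128, .negSucc 2819, .negSucc 2098, .ofNat 0, .ofNat 1746, .ofNat 1280, .ofNat 0,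 .ofNat 0, .ofNat 1345, .ofNat 1593, .ofNat 0, .ofNat 0, .ofNat 1953913188868400213736548507698958008582144, .ofNat 0, .ofNat 0, .ofNat 2310344625638934355774995544658841680645034730323968, .ofNat 2318670830758487611372443560793774630629277696, .ofNat 0, .ofNat 0, .ofNat 25025663537268477296105615120750458939136566441803776, .ofNat 12863348881073760449762622835674583119781953536, .ofNat 0, .ofNat 0, .ofNat 0, .ofNat 2442804102592559654124120883952936698425376768, .ofNat 0⟩)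
    (by decide +kernel)
theorem L07255 : Good (Phi V5.P V5.D (-1) (-1)) ⟨6, 56, 5, 18, 3, 7, 3, 7, 5, 2⟩ :=
  out_sound (S := T5.ds_mm) T5.ok_mm (w := 67) (j := 3) (by decide +kernel)
theorem L07256 : Good (Phi V5.P V5.D (-1) (-1)) ⟨6, 56, 5, 19, 3, 7, 3, 7, 5, 2⟩ :=
  leafX_sound T5.ok_mm T5.Ymm.bz_eq (w := 253) (c := ⟨⟨.negSucc 1418, .ofNat 152, .ofNat 108, .ofNat 884, .ofNat 976, .ofNat 598⟩, ⟨.ofNat 865, .negSucc 109, .negSucc 50, .negSucc 544, .negSucc 599, .negSucc 370⟩, ⟨.ofNat 697, .negSucc 131, .ofNat 18, .negSucc 206, .negSucc 723, .negSucc 391⟩, ⟨.negSucc 3100, .ofNat 166, .ofNat 146, .ofNat 2022, .ofNat 1870, .ofNat 1207⟩, ⟨.negSucc 1717, .negSucc 78, .ofNat 4, .ofNat 1203, .ofNat 765, .ofNat 560⟩, .ofNat 4023, .ofNat 5798, .ofNat 0, .ofNat 5798, .ofNat 9183, .ofNat 0, .ofNat 128, .negSucc 1519, .negSucc 2085, .ofNat 0, .ofNat 955, .ofNat 1285, .ofNat 0, .ofNat 0, .ofNat 1270,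 .ofNat 835, .ofNat 0, .ofNat 0, .ofNat 850872722322254115843104458306038303555584, .ofNat 0, .ofNat 0, .ofNat 1256119535663194465637938065698745894194880912031744, .ofNat 2017664344453272608962045643233213315775725568, .ofNat 0, .ofNat 0, .ofNat 7248854419654299115631057222054156363030796489981952, .ofNat 658567735980031556621681781324289684338114560, .ofNat 0, .ofNat 0, .ofNat 0, .ofNat 78681143478599105412551226026512395221860352, .ofNat 0⟩)
    (by decide +kernel)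
theorem L07257 : Good (Phi V5.P V5.D (-1) (-1)) ⟨6, 57, 4, 9, 3, 7, 3, 7, 5, 2⟩ :=
  out_sound (S := T5.ds_mm) T5.ok_mm (w := 65) (j := 3) (by decide +kernel)
theorem L07258 : Good (Phi V5.P V5.D (-1) (-1)) ⟨5, 29, 4, 9, 3, 7, 3, 7, 5, 2⟩ :=
  out_sound (S := T5.ds_mm) T5.ok_mm (w := 59) (j := 3) (by decide +kernel)
theorem L07259 : Good (Phi V5.P V5.D (-1) (-1)) ⟨4, 15, 4, 9, 3, 7, 3, 7, 5, 2⟩ :=
  out_sound (S := T5.ds_mm) T5.ok_mm (w := 53) (j := 3) (by decide +kernel)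
theorem L07260 : Good (Phi V5.P V5.D (-1) (-1)) ⟨4, 12, 4, 9, 3, 7, 3, 7, 5, 3⟩ :=
  out_sound (S := T5.ds_mm) T5.ok_mm (w := 53) (j := 3) (by decide +kernel)
theorem L07261 : Good (Phi V5.P V5.D (-1) (-1)) ⟨5, 26, 4, 9, 3, 7, 3, 7, 5, 3⟩ :=
  out_sound (S := T5.ds_mm) T5.ok_mm (w := 59) (j := 3) (by decide +kernel)
theorem L07262 : Good (Phi V5.P V5.D (-1) (-1)) ⟨6, 54, 4, 9, 3, 7, 3, 7, 5, 3⟩ :=
  out_sound (S := T5.ds_mm) T5.ok_mm (w := 65) (j := 3) (by decide +kernel)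
theorem L07263 : Good (Phi V5.P V5.D (-1) (-1)) ⟨6, 55, 5, 18, 3, 7, 3, 7, 5, 3⟩ :=
  leafX_sound T5.ok_mm T5.Ymm.bz_eq (w := 252) (c := ⟨⟨.negSucc 1046, .ofNat 209, .negSucc 19, .ofNat 976, .ofNat 836, .ofNat 95⟩, ⟨.ofNat 601, .negSucc 130, .ofNat 26, .negSucc 570, .negSucc 480, .negSucc 52⟩, ⟨.ofNat 349, .negSucc 94, .ofNat 21, .negSucc 193, .negSucc 540, .negSucc 115⟩, ⟨.negSucc 2462, .ofNat 378, .negSucc 62, .ofNat 2160, .ofNat 1741, .ofNat 394⟩, ⟨.negSucc 1571, .ofNat 124, .negSucc 40, .ofNat 1236, .ofNat 892, .ofNat 414⟩, .ofNat 3036, .ofNat 4456, .ofNat 0, .ofNat 4456, .ofNat 7435, .ofNat 0, .ofNat 128, .negSucc 1463, .negSucc 1109, .ofNat 0, .ofNat 890, .ofNat 653, .ofNat 0, .ofNat 0, .ofNat 848, .ofNat 846, .ofNat 0, .ofNat 0, .ofNat 0, .ofNat 0, .ofNat 0, .ofNat 958593033491110291882222416089518957645952813367296, .ofNat 209603539994188383825656781635868370187321344, .ofNat 0, .ofNat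 0, .ofNat 7109903933504074105181209431743952720959101571432448, .ofNat 1422745626422204837825988855643914276129734656, .ofNat 0, .ofNat 0, .ofNat 0, .ofNat 486906136954326562305269670715750189635731456, .ofNat 0⟩)
    (by decide +kernel)
theorem L07264 : Good (Phi V5.P V5.D (-1) (-1)) ⟨6, 55, 5, 19, 3, 7, 3, 7, 5, 3⟩ :=
  leafX_sound T5.ok_mm T5.Ymm.bz_eq (w := 255) (c := ⟨⟨.negSucc 1294, .ofNat 399, .ofNat 107, .ofNat 1132, .ofNat 871, .ofNat 62⟩, ⟨.ofNat 779, .negSucc 246, .negSucc 60, .negSucc 680, .negSucc 525, .negSucc 33⟩, ⟨.ofNat 301, .negSucc 27, .negSucc 53, .negSucc 195, .negSucc 552, .negSucc 81⟩, ⟨.negSucc 2830, .ofNat 602, .ofNat 324, .ofNat 2461, .ofNat 1875, .ofNat 261⟩, ⟨.negSucc 1586, .ofNat 74, .ofNat 274, .ofNat 1347, .ofNat 1004, .ofNat 275⟩, .ofNat 3556, .ofNat 5215, .ofNat 0, .ofNat 5215, .ofNat 8515, .ofNat 0, .ofNat 128, .negSucc 3998, .negSucc 2478, .ofNat 0, .ofNat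 2475, .ofNat 1498, .ofNat 0, .ofNat 0, .ofNat 1819, .ofNat 799, .ofNat 0, .ofNat 0, .ofNat 5643963812150910645265232383409033354149888, .ofNat 0, .ofNat 0, .ofNat 1753123753458813509063275870451168082132611626958848, .ofNat 253560174925844763417608254591100644229120000, .ofNat 0, .ofNat 0, .ofNat 72844115797613483680797219875821352403604939565170688, .ofNat 5012751852675323874694030455310291742501109760, .ofNat 0, .ofNat 0, .ofNat 0, .ofNat 3778317342085471028390291955589222818530721792, .ofNat 0⟩)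
    (by decide +kernel)
theorem L07265 : Good (Phi V5.P V5.D (-1) (-1)) ⟨5, 28, 4, 9, 4, 14, 3, 7, 5, 3⟩ :=
  leafX_sound T5.ok_mm T5.Ymm.bz_eq (w := 257) (c := ⟨⟨.negSucc 899, .ofNat 288, .ofNat 42, .ofNat 504, .ofNat 851, .negSucc 38⟩, ⟨.ofNat 510, .negSucc 235, .ofNat 33, .negSucc 313, .negSucc 528, .ofNat 27⟩, ⟨.ofNat 344, .ofNat 20, .negSucc 81, .negSucc 121, .negSucc 591, .negSucc 115⟩, ⟨.negSucc 2185, .ofNat 472, .ofNat 85, .ofNat 995, .ofNat 1835, .ofNat 85⟩, ⟨.negSucc 1452, .ofNat 97, .ofNat 78, .ofNat 437, .ofNat 977, .ofNat 218⟩, .ofNat 2057, .ofNat 2811, .ofNat 0, .ofNat 2811, .ofNat 4628, .ofNat 0, .ofNat 128, .negSucc 918, .negSucc 1376, .ofNat 0, .ofNat 573, .ofNat 830, .ofNat 0, .ofNat 0, .ofNat 906, .ofNat 1579, .ofNat 0, .ofNat 0, .ofNat 0, .ofNat 0, .ofNat 0, .ofNat 49148431313432224403890328712324937518859472865329152, .ofNat 10832892164202871837030579884655103015384971739136,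 .ofNat 0, .ofNat 0, .ofNat 43018755895905594457719338764835660336841386203545600, .ofNat 3060758311781274555093164512939351074146906800128, .ofNat 0, .ofNat 0, .ofNat 8547551364252031742606353308591028858056931408871424, .ofNat 11899370728868493580562593335974662366869460090880, .ofNat 0⟩)
    (by decide +kernel)
theorem L07266 : Good (Phi V5.P V5.D (-1) (-1)) ⟨5, 28, 4, 9, 4, 15, 3, 7, 5, 3⟩ :=
  leafX_sound T5.ok_mm T5.Ymm.bz_eq (w := 259) (c := ⟨⟨.negSucc 665, .ofNat 620, .ofNat 127, .ofNat 777, .ofNat 1229, .ofNat 149⟩, ⟨.ofNat 431, .negSucc 339, .negSucc 116, .negSucc 478, .negSucc 757, .negSucc 93⟩, ⟨.ofNat 197, .negSucc 169, .negSucc 4, .negSucc 112, .negSucc 637, .negSucc 77⟩, ⟨.negSucc 1899, .ofNat 846, .ofNat 550, .ofNat 1817, .ofNat 2577, .ofNat 318⟩, ⟨.negSucc 1453, .ofNat 110, .ofNat 499, .ofNat 1123, .ofNat 1302, .ofNat 162⟩, .ofNat 3977, .ofNat 5796, .ofNat 0, .ofNat 5796,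 .ofNat 9289, .ofNat 0, .ofNat 128, .negSucc 1345, .negSucc 825, .ofNat 0, .ofNat 844, .ofNat 507, .ofNat 0, .ofNat 0, .ofNat 592, .ofNat 530, .ofNat 0, .ofNat 0, .ofNat 41658394488822785587874040781915333696266698752, .ofNat 0, .ofNat 0, .ofNat 30580285665061183073746600930391423550202783641632768, .ofNat 43294593064483378385004928674580808631888702865408, .ofNat 0, .ofNat 0, .ofNat 179969363309699141244998180048146852064206871098032128, .ofNat 6575180694684590404133939246487463506125606879232, .ofNat 0, .ofNat 0, .ofNat 14891221393058277711068004255342548513616104794357760, .ofNat 6165065429423836628032167740246065774467462725632, .ofNat 0⟩)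
    (by decide +kernel)
theorem L07267 : Good (Phi V5.P V5.D (-1) (-1)) ⟨5, 29, 4, 9, 3, 7, 3, 7, 5, 3⟩ :=
  out_sound (S := T5.ds_mm) T5.ok_mm (w := 59) (j := 3) (by decide +kernel)
theorem L07268 : Good (Phi V5.P V5.D (-1) (-1)) ⟨4, 15, 4, 9, 3, 7, 3, 7, 5, 3⟩ :=
  out_sound (S := T5.ds_mm) T5.ok_mm (w := 53) (j := 3) (by decide +kernel)
theorem L07269 : Good (Phi V5.P V5.D (-1) (-1)) ⟨2, 2, 3, 4, 2, 3, 2, 3, 3, 1⟩ :=
  out_sound (S := T5.ds_mm) T5.ok_mm (w := 39) (j := 3) (by decide +kernel)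
theorem L07270 : Good (Phi V5.P V5.D (-1) (-1)) ⟨4, 12, 3, 4, 3, 6, 2, 3, 4, 2⟩ :=
  out_sound (S := T5.ds_mm) T5.ok_mm (w := 51) (j := 3) (by decide +kernel)
theorem L07271 : Good (Phi V5.P V5.D (-1) (-1)) ⟨4, 13, 3, 4, 4, 12, 2, 3, 5, 4⟩ :=
  leafX_sound T5.ok_mm T5.Ymm.bz_eq (w := 244) (c := ⟨⟨.negSucc 2952, .negSucc 10, .ofNat 5, .ofNat 527, .ofNat 1347, .ofNat 326⟩, ⟨.ofNat 1611, .negSucc 12, .ofNat 258, .negSucc 310, .negSucc 771, .negSucc 180⟩, ⟨.ofNat 1641, .negSucc 24, .negSucc 47, .negSucc 393, .negSucc 1201, .negSucc 425⟩, ⟨.negSucc 5202, .negSucc 9, .negSucc 78, .ofNat 612, .ofNat 2611, .ofNat 686⟩, ⟨.negSucc 1318, .negSucc 331, .negSucc 15, .negSucc 266, .ofNat 1136, .ofNat 372⟩, .ofNat 2094, .ofNat 3016, .ofNat 0, .ofNat 3016, .ofNat 5262, .ofNat 0, .ofNat 128, .negSucc 433, .negSucc 632, .ofNat 0, .ofNat 266, .ofNat 365, .ofNat 0, .ofNat 0, .ofNat 618, .ofNat 416, .ofNat 0,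 .ofNat 0, .ofNat 0, .ofNat 0, .ofNat 0, .ofNat 37233677469043736485393002928555009928755022921728, .ofNat 208305473725235694339346518010282595107072901120, .ofNat 0, .ofNat 0, .ofNat 27195352537668599881802266225382562474411222368256, .ofNat 110045276184576796632372579467019786490954645504, .ofNat 0, .ofNat 0, .ofNat 9206170012890645882018607469009223217983187320832, .ofNat 259479893307022637041662273300933179470187069440, .ofNat 0⟩)
    (by decide +kernel)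
theorem L07272 : Good (Phi V5.P V5.D (-1) (-1)) ⟨4, 13, 3, 4, 4, 13, 2, 3, 5, 4⟩ :=
  leafX_sound T5.ok_mm T5.Ymm.bz_eq (w := 243) (c := ⟨⟨.negSucc 2155, .negSucc 168, .ofNat 118, .ofNat 607, .ofNat 1080, .ofNat 115⟩, ⟨.ofNat 1190, .ofNat 40, .ofNat 143, .negSucc 362, .negSucc 621, .negSucc 51⟩, ⟨.ofNat 1056, .ofNat 49, .negSucc 78, .negSucc 348, .negSucc 953, .negSucc 262⟩, ⟨.negSucc 4180, .negSucc 221, .ofNat 108, .ofNat 975, .ofNat 2313, .ofNat 337⟩, ⟨.negSucc 1646, .negSucc 162, .ofNat 22, .ofNat 132, .ofNat 1242, .ofNat 294⟩, .ofNat 1111, .ofNat 1407, .ofNat 0, .ofNat 1407, .ofNat 2589, .ofNat 0, .ofNat 128, .negSucc 531, .negSucc 549, .ofNat 0, .ofNat 324, .ofNat 303, .ofNat 0, .ofNat 0, .ofNat 518, .ofNat 435, .ofNat 0, .ofNat 0, .ofNat 0, .ofNat 0, .ofNat 0, .ofNat 28845759659823539070058986393053696139248996974592, .ofNat 42000201230526179641752566434242492012781633536, .ofNat 0,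 .ofNat 0, .ofNat 39211147078254492320126003802087614927594365911040, .ofNat 34463571795721801901807767129562845376709394432, .ofNat 0, .ofNat 0, .ofNat 10803872285097423719879844910526934568328922923008, .ofNat 164068009399695477407724812993290260719492661248, .ofNat 0⟩)
    (by decide +kernel)
theorem L07273 : Good (Phi V5.P V5.D (-1) (-1)) ⟨4, 13, 3, 4, 3, 6, 2, 3, 5, 5⟩ :=
  leafX_sound T5.ok_mm T5.Ymm.bz_eq (w := 228) (c := ⟨⟨.negSucc 2332, .negSucc 89, .negSucc 1, .ofNat 788, .ofNat 751, .ofNat 122⟩, ⟨.ofNat 1288, .ofNat 10, .ofNat 222, .negSucc 463, .negSucc 408, .negSucc 62⟩, ⟨.ofNat 1057, .negSucc 52, .negSucc 21, .negSucc 527, .negSucc 861, .negSucc 316⟩, ⟨.negSucc 4247, .negSucc 35, .negSucc 94, .ofNat 1155, .ofNat 1862, .ofNat 450⟩, ⟨.negSucc 1255, .negSucc 105, .negSucc 55, .negSucc 15, .ofNat 1289, .ofNat 464⟩, .ofNat 748, .ofNat 827, .ofNat 0, .ofNat 827, .ofNat 1624, .ofNat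 0, .ofNat 128, .negSucc 426, .negSucc 257, .ofNat 0, .ofNat 274, .ofNat 135, .ofNat 0, .ofNat 0, .ofNat 387, .ofNat 153, .ofNat 0, .ofNat 0, .ofNat 0, .ofNat 0, .ofNat 0, .ofNat 0, .ofNat 0, .ofNat 0, .ofNat 0, .ofNat 16729397264536106916231121618325801232993615872, .ofNat 3892917398171252126522156112291815512604672, .ofNat 0, .ofNat 0, .ofNat 0, .ofNat 0, .ofNat 0⟩)
    (by decide +kernel)
theorem L07274 : Good (Phi V5.P V5.D (-1) (-1)) ⟨4, 12, 3, 4, 3, 6, 2, 3, 4, 3⟩ :=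
  out_sound (S := T5.ds_mm) T5.ok_mm (w := 51) (j := 3) (by decide +kernel)
theorem L07275 : Good (Phi V5.P V5.D (-1) (-1)) ⟨4, 13, 3, 4, 3, 6, 3, 6, 5, 6⟩ :=
  leafX_sound T5.ok_mm T5.Ymm.bz_eq (w := 234) (c := ⟨⟨.negSucc 2009, .ofNat 1, .negSucc 125, .ofNat 475, .ofNat 161, .negSucc 11⟩, ⟨.ofNat 1075, .ofNat 29, .ofNat 223, .negSucc 271, .negSucc 70, .ofNat 21⟩, ⟨.ofNat 728, .negSucc 100, .negSucc 40, .negSucc 466, .negSucc 440, .negSucc 393⟩, ⟨.negSucc 3614, .ofNat 97, .negSucc 180, .ofNat 812, .ofNat 688, .ofNat 300⟩, ⟨.negSucc 971, .negSucc 111, .ofNat 37, .ofNat 199, .ofNat 777, .ofNat 548⟩, .ofNat 1538, .ofNat 2111, .ofNat 0, .ofNat 2111, .ofNat 3778, .ofNat 0, .ofNat 128, .negSucc 933, .negSucc 161, .ofNat 0, .ofNat 593, .ofNat 84, .ofNat 0, .ofNat 0, .ofNat 697, .ofNat 678, .ofNat 0, .ofNat 0, .ofNat 0, .ofNat 0, .ofNat 0, .ofNat 0, .ofNat 355698605520518739626824214713365251141664768,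 .ofNat 0, .ofNat 0, .ofNat 541095887117806956205077248294018091003062255616, .ofNat 308236001459999091759317694647682335181373440, .ofNat 0, .ofNat 0, .ofNat 204299725285837199486336500381869707699911917568, .ofNat 10784426298596346935734501927190923522867200, .ofNat 0⟩)
    (by decide +kernel)
theorem L07276 : Good (Phi V5.P V5.D (-1) (-1)) ⟨4, 13, 3, 4, 3, 6, 3, 6, 5, 7⟩ :=
  leafX_sound T5.ok_mm T5.Ymm.bz_eq (w := 232) (c := ⟨⟨.negSucc 1875, .negSucc 2, .negSucc 252, .ofNat 245, .ofNat 57, .negSucc 81⟩, ⟨.ofNat 982, .ofNat 83, .ofNat 268, .negSucc 126, .negSucc 4, .ofNat 64⟩, ⟨.ofNat 409, .negSucc 6, .negSucc 266, .negSucc 631, .negSucc 534, .negSucc 580⟩, ⟨.negSucc 3242, .ofNat 150, .negSucc 247, .ofNat 677, .ofNat 601, .ofNat 245⟩, ⟨.negSucc 626, .negSucc 36, .ofNat 166, .ofNat 546, .ofNat 909, .ofNat 622⟩, .ofNat 753, .ofNat 835, .ofNat 0, .ofNat 835, .ofNat 1637, .ofNat 0, .ofNat 128,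 .negSucc 680, .negSucc 9, .ofNat 0, .ofNat 474, .negSucc 25, .ofNat 0, .ofNat 0, .ofNat 994, .ofNat 396, .ofNat 0, .ofNat 6290048135574482684536136792746341785900417024, .ofNat 108671699430151468225924454566258225971200, .ofNat 0, .ofNat 0, .ofNat 43822348191742126843973430149090467950901592064, .ofNat 25107133666119538601976135837401574916751360, .ofNat 0, .ofNat 0, .ofNat 679702054444818889592569621151048091382872801280, .ofNat 291489092317030807160087370908144377490571264, .ofNat 0, .ofNat 0, .ofNat 969099185759588589742873887702688481217009942528, .ofNat 0, .ofNat 0⟩)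
    (by decide +kernel)
theorem L07277 : Good (Phi V5.P V5.D (-1) (-1)) ⟨4, 13, 3, 4, 3, 6, 3, 7, 4, 3⟩ :=
  leafX_sound T5.ok_mm T5.Ymm.bz_eq (w := 227) (c := ⟨⟨.negSucc 1799, .ofNat 8, .negSucc 100, .ofNat 294, .ofNat 264, .negSucc 65⟩, ⟨.ofNat 960, .ofNat 58, .ofNat 181, .negSucc 164, .negSucc 115, .ofNat 83⟩, ⟨.ofNat 277, .negSucc 121, .negSucc 30, .negSucc 485, .negSucc 501, .negSucc 770⟩, ⟨.negSucc 2837, .ofNat 160, .negSucc 189, .ofNat 486, .ofNat 942, .ofNat 612⟩, ⟨.negSucc 111, .negSucc 80, .negSucc 48, .ofNat 76, .ofNat 846, .ofNat 1131⟩, .ofNat 366, .ofNat 261, .ofNat 0, .ofNat 261, .ofNat 641, .ofNat 0, .ofNat 128, .negSucc 226, .negSucc 111, .ofNat 0, .ofNat 164, .ofNat 43, .ofNat 0, .ofNat 0, .ofNat 185, .ofNat 1660, .ofNat 0, .ofNat 0, .ofNat 0, .ofNat 0, .ofNat 0, .ofNat 13343172128649890994316203642317210215438614528, .ofNat 0, .ofNat 0, .ofNat 0, .ofNat 79390283267487966288434510932820441547726127104,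 .ofNat 360260533319721515559724883611857117511680, .ofNat 0, .ofNat 0, .ofNat 23229307607527794506682874662991447094263283712, .ofNat 0, .ofNat 0⟩)
    (by decide +kernel)
theorem L07278 : Good (Phi V5.P V5.D (-1) (-1)) ⟨4, 14, 3, 4, 3, 6, 2, 3, 5, 4⟩ :=
  leafX_sound T5.ok_mm T5.Ymm.bz_eq (w := 229) (c := ⟨⟨.negSucc 3154, .negSucc 108, .ofNat 235, .ofNat 1218, .ofNat 1296, .ofNat 225⟩, ⟨.ofNat 1736, .negSucc 7, .ofNat 118, .negSucc 770, .negSucc 811, .negSucc 136⟩, ⟨.ofNat 1670, .ofNat 18, .negSucc 158, .negSucc 776, .negSucc 1086, .negSucc 332⟩, ⟨.negSucc 5466, .ofNat 36, .ofNat 181, .ofNat 1722, .ofNat 2589, .ofNat 552⟩, ⟨.negSucc 1673, .negSucc 122, .negSucc 26, .negSucc 41, .ofNat 1117, .ofNat 346⟩, .ofNat 987, .ofNat 1073, .ofNat 0, .ofNat 1073, .ofNat 1777, .ofNat 0, .ofNat 128, .negSucc 593, .negSucc 873, .ofNat 0, .ofNat 409, .ofNat 516, .ofNat 0, .ofNat 0, .ofNat 734, .ofNat 336,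 .ofNat 0, .ofNat 0, .ofNat 16008417552584191930412069965135276408832, .ofNat 0, .ofNat 0, .ofNat 6829666280579574576546549835223593908829159424, .ofNat 9834775281295501086167073585831139027714048, .ofNat 0, .ofNat 0, .ofNat 20128667168033531752547838066199286632144699392, .ofNat 4658197271158320884386217848271236470145024, .ofNat 0, .ofNat 0, .ofNat 2362722462832256141280822286674042264456527872, .ofNat 4907976848505731407481503323467306307158016, .ofNat 0⟩)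
    (by decide +kernel)
theorem L07279 : Good (Phi V5.P V5.D (-1) (-1)) ⟨4, 14, 3, 4, 3, 6, 2, 3, 5, 5⟩ :=
  leafX_sound T5.ok_mm T5.Ymm.bz_eq (w := 229) (c := ⟨⟨.negSucc 1970, .ofNat 764, .negSucc 509, .ofNat 813, .ofNat 731, .ofNat 28⟩, ⟨.ofNat 1019, .negSucc 544, .ofNat 559, .negSucc 515, .negSucc 449, .negSucc 11⟩, ⟨.ofNat 1052, .ofNat 85, .negSucc 77, .negSucc 535, .negSucc 903, .negSucc 312⟩, ⟨.negSucc 3776, .ofNat 801, .negSucc 624, .ofNat 1168, .ofNat 1864, .ofNat 325⟩, ⟨.negSucc 1402, .negSucc 217, .ofNat 21, .ofNat 1, .ofNat 1282, .ofNat 452⟩, .ofNat 987, .ofNat 1073, .ofNat 0, .ofNat 1073, .ofNat 1777, .ofNat 0, .ofNat 128, .negSucc 953, .negSucc 392, .ofNat 0, .ofNat 679, .ofNat 222, .ofNat 0, .ofNat 0, .ofNat 621, .ofNat 434, .ofNat 0, .ofNat 0, .ofNat 0, .ofNat 0, .ofNat 0, .ofNat 8000131688217867067522365332698960747558862848, .ofNat 2641421530542465732512626319375564122619904,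 .ofNat 0, .ofNat 0, .ofNat 92059036147719525049259382756081383058672975872, .ofNat 21200095290576643121804815254422588747677696, .ofNat 0, .ofNat 0, .ofNat 2590575120024633893688330569844552893321969664, .ofNat 1963068130937657213771090369359675792556032, .ofNat 0⟩)
    (by decide +kernel)
theorem L07280 : Good (Phi V5.P V5.D (-1) (-1)) ⟨4, 14, 3, 4, 3, 6, 3, 6, 5, 6⟩ :=
  leafX_sound T5.ok_mm T5.Ymm.bz_eq (w := 236) (c := ⟨⟨.negSucc 2171, .negSucc 245, .ofNat 147, .ofNat 437, .ofNat 43, .negSucc 91⟩, ⟨.ofNat 1218, .ofNat 184, .ofNat 62, .negSucc 272, .negSucc 16, .ofNat 66⟩, ⟨.ofNat 578, .negSucc 192, .ofNat 50, .negSucc 493, .negSucc 479, .negSucc 439⟩, ⟨.negSucc 3701, .negSucc 127, .ofNat 52, .ofNat 814, .ofNat 585, .ofNat 318⟩, ⟨.negSucc 1005, .ofNat 10, .negSucc 170, .ofNat 297, .ofNat 827, .ofNat 714⟩, .ofNat 2068, .ofNat 2828, .ofNat 0, .ofNat 2828, .ofNat 4657, .ofNat 0, .ofNat 128,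 .negSucc 1410, .negSucc 231, .ofNat 0, .ofNat 930, .ofNat 132, .ofNat 0, .ofNat 0, .ofNat 1088, .ofNat 1068, .ofNat 0, .ofNat 0, .ofNat 0, .ofNat 0, .ofNat 0, .ofNat 76709175825377507533077194828289584960221741056, .ofNat 874467797416869445847972368091107336856272896, .ofNat 0, .ofNat 0, .ofNat 1101082897757999251919483638745301208524736430080, .ofNat 627379728895427608290590509589578196461813760, .ofNat 17119063423268693719303404418117474044972390219251712, .ofNat 0, .ofNat 550374058528888749624054358878934549148899213312, .ofNat 588876735227429339501139789457933186948399104, .ofNat 0⟩)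
    (by decide +kernel)
theorem L07281 : Good (Phi V5.P V5.D (-1) (-1)) ⟨4, 14, 3, 4, 3, 6, 3, 6, 5, 7⟩ :=
  leafX_sound T5.ok_mm T5.Ymm.bz_eq (w := 232) (c := ⟨⟨.negSucc 1995, .negSucc 434, .ofNat 5, .ofNat 151, .negSucc 62, .negSucc 152⟩, ⟨.ofNat 1149, .ofNat 375, .ofNat 108, .negSucc 84, .ofNat 54, .ofNat 106⟩, ⟨.ofNat 211, .negSucc 506, .ofNat 65, .negSucc 702, .negSucc 594, .negSucc 668⟩, ⟨.negSucc 3188, .negSucc 173, .negSucc 66, .ofNat 622, .ofNat 493, .ofNat 228⟩, ⟨.negSucc 563, .ofNat 255, .negSucc 65, .ofNat 645, .ofNat 934, .ofNat 714⟩, .ofNat 845, .ofNat 950, .ofNat 0, .ofNat 950, .ofNat 1718, .ofNat 0, .ofNat 128, .negSucc 810, .ofNat 33, .ofNat 0, .ofNat 575, .negSucc 55, .ofNat 0, .ofNat 0, .ofNat 1056, .ofNat 349, .ofNat 0, .ofNat 9043155714358718066970488003371135207770947584, .ofNat 4206561296331829618711553476849377153646592, .ofNat 0, .ofNat 0, .ofNat 47092833240212587165321816603116056741995872256,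 .ofNat 64134643175302858648305456548118920268087296, .ofNat 0, .ofNat 0, .ofNat 839133068429085907820218514526258933957973245952, .ofNat 443029034480390878591801765194157601578811392, .ofNat 6097772403424548936562302038705516081669286012125184, .ofNat 0, .ofNat 1191112877997829389687577107342141020177105420288, .ofNat 101376965174151321264550288140227395285155840, .ofNat 0⟩)
    (by decide +kernel)
theorem L07282 : Good (Phi V5.P V5.D (-1) (-1)) ⟨4, 14, 3, 4, 3, 6, 3, 7, 4, 3⟩ :=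
  leafX_sound T5.ok_mm T5.Ymm.bz_eq (w := 226) (c := ⟨⟨.negSucc 1784, .negSucc 23, .negSucc 102, .ofNat 194, .ofNat 219, .negSucc 195⟩, ⟨.ofNat 1005, .ofNat 68, .ofNat 196, .negSucc 119, .negSucc 119, .ofNat 146⟩, ⟨.ofNat 162, .negSucc 127, .negSucc 34, .negSucc 499, .negSucc 558, .negSucc 843⟩, ⟨.negSucc 2663, .ofNat 132, .negSucc 203, .ofNat 360, .ofNat 957, .ofNat 548⟩, ⟨.negSucc 177, .negSucc 16, .negSucc 77, .ofNat 114, .ofNat 948, .ofNat 1259⟩, .ofNat 382, .ofNat 285, .ofNat 0, .ofNat 285, .ofNat 643, .ofNat 0, .ofNat 128, .negSucc 145, .negSucc 120, .ofNat 0, .ofNat 103, .ofNat 49, .ofNat 0, .ofNat 0, .ofNat 191, .ofNat 761, .ofNat 0, .ofNat 0, .ofNat 0, .ofNat 0, .ofNat 0, .ofNat 5770654307146177149152366437517720486479396864, .ofNat 162261161949885661591064517232471308238848, .ofNat 0, .ofNat 0, .ofNat 25699040934070657951811071985629869010180898816, .ofNat 300134284257522915234705308948717566427136,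 .ofNat 5920099464626925824275441071672244823307598168064, .ofNat 0, .ofNat 15431941079111338190980809716276779290185433088, .ofNat 0, .ofNat 0⟩)
    (by decide +kernel)
theorem L07283 : Good (Phi V5.P V5.D (-1) (-1)) ⟨4, 15, 3, 4, 3, 6, 2, 3, 3, 1⟩ :=
  out_sound (S := T5.ds_mm) T5.ok_mm (w := 51) (j := 3) (by decide +kernel)
theorem L07284 : Good (Phi V5.P V5.D (-1) (-1)) ⟨4, 12, 3, 4, 3, 7, 2, 3, 4, 2⟩ :=
  out_sound (S := T5.ds_mm) T5.ok_mm (w := 51) (j := 3) (by decide +kernel)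
theorem L07285 : Good (Phi V5.P V5.D (-1) (-1)) ⟨5, 26, 3, 4, 3, 7, 2, 3, 5, 4⟩ :=
  leafX_sound T5.ok_mm T5.Ymm.bz_eq (w := 234) (c := ⟨⟨.negSucc 1604, .ofNat 117, .negSucc 50, .ofNat 825, .ofNat 875, .negSucc 1⟩, ⟨.ofNat 854, .negSucc 78, .ofNat 139, .negSucc 440, .negSucc 446, .ofNat 9⟩, ⟨.ofNat 654, .negSucc 44, .ofNat 207, .negSucc 222, .negSucc 665, .negSucc 161⟩, ⟨.negSucc 3384, .ofNat 262, .negSucc 67, .ofNat 1587, .ofNat 2041, .ofNat 139⟩, ⟨.negSucc 1763, .ofNat 134, .ofNat 67, .ofNat 636, .ofNat 1329, .ofNat 256⟩, .ofNat 1459, .ofNat 2063, .ofNat 0, .ofNat 2063, .ofNat 3893, .ofNat 0, .ofNat 128, .negSucc 844, .negSucc 592, .ofNat 0, .ofNat 486, .ofNat 308, .ofNat 0, .ofNat 0, .ofNat 764, .ofNat 661, .ofNat 0, .ofNat 0, .ofNat 0, .ofNat 0, .ofNat 0, .ofNat 210584632532310884606543585714683092827579088896, .ofNat 1291504437771019052479178992020619633098752, .ofNat 0, .ofNat 0, .ofNat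 712428615428205885646258712244130920165216878592, .ofNat 31866917457542195020809236845131926245212160, .ofNat 0, .ofNat 0, .ofNat 0, .ofNat 0, .ofNat 0⟩)
    (by decide +kernel)
theorem L07286 : Good (Phi V5.P V5.D (-1) (-1)) ⟨5, 26, 3, 4, 3, 7, 2, 3, 5, 5⟩ :=
  leafX_sound T5.ok_mm T5.Ymm.bz_eq (w := 237) (c := ⟨⟨.negSucc 1467, .ofNat 111, .negSucc 108, .ofNat 698, .ofNat 509, .negSucc 119⟩, ⟨.ofNat 780, .negSucc 69, .ofNat 190, .negSucc 369, .negSucc 245, .ofNat 80⟩, ⟨.ofNat 490, .negSucc 158, .ofNat 191, .negSucc 51, .negSucc 584, .negSucc 171⟩, ⟨.negSucc 2800, .ofNat 80, .negSucc 156, .ofNat 1332, .ofNat 1258, .ofNat 55⟩, ⟨.negSucc 1083, .negSucc 181, .ofNat 22, .ofNat 528, .ofNat 921, .ofNat 425⟩, .ofNat 2866, .ofNat 4511, .ofNat 0, .ofNat 4511, .ofNat 8187, .ofNat 0, .ofNat 128, .negSucc 1238, .negSucc 209, .ofNat 0, .ofNat 732, .ofNat 100, .ofNat 0, .ofNat 0, .ofNat 1071, .ofNat 128,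 .ofNat 0, .ofNat 0, .ofNat 24553179072224662425944605277641324363776, .ofNat 0, .ofNat 0, .ofNat 0, .ofNat 0, .ofNat 0, .ofNat 0, .ofNat 2141977089235842773013865054220589468469440806912, .ofNat 58061957618244019737614734196600338626117632, .ofNat 0, .ofNat 0, .ofNat 1339453799730212546730308330830504040175740387328, .ofNat 850965704657307783899145834279227346649088, .ofNat 0⟩)
    (by decide +kernel)
theorem L07287 : Good (Phi V5.P V5.D (-1) (-1)) ⟨5, 27, 4, 8, 3, 7, 2, 3, 5, 4⟩ :=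
  leafX_sound T5.ok_mm T5.Ymm.bz_eq (w := 238) (c := ⟨⟨.negSucc 1530, .ofNat 113, .ofNat 38, .ofNat 864, .ofNat 1031, .negSucc 23⟩, ⟨.ofNat 812, .negSucc 85, .ofNat 45, .negSucc 481, .negSucc 574, .ofNat 20⟩, ⟨.ofNat 562, .ofNat 7, .negSucc 10, .negSucc 161, .negSucc 696, .negSucc 126⟩, ⟨.negSucc 3259, .ofNat 261, .ofNat 33, .ofNat 1753, .ofNat 2343, .ofNat 41⟩, ⟨.negSucc 1771, .ofNat 123, .ofNat 13, .ofNat 847, .ofNat 1444, .ofNat 134⟩, .ofNat 2007, .ofNat 2865, .ofNat 0, .ofNat 2865, .ofNat 5010, .ofNat 0, .ofNat 128, .negSucc 958, .negSucc 367, .ofNat 0, .ofNat 577, .ofNat 201, .ofNat 0, .ofNat 0, .ofNat 527, .ofNat 359, .ofNat 0, .ofNat 0, .ofNat 0, .ofNat 0, .ofNat 0, .ofNat 1283373651138782911727607658628771396492298551296, .ofNat 7192849538911166268723031454250559952912384, .ofNat 0, .ofNat 0, .ofNat 6084526238638892719526244386766621292048582443008, .ofNat 17271460152289843048624260820500085131444224,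 .ofNat 0, .ofNat 0, .ofNat 0, .ofNat 1605567561228237840715963873764257503903744, .ofNat 0⟩)
    (by decide +kernel)
theorem L07288 : Good (Phi V5.P V5.D (-1) (-1)) ⟨5, 27, 4, 8, 3, 7, 2, 3, 5, 5⟩ :=
  leafX_sound T5.ok_mm T5.Ymm.bz_eq (w := 234) (c := ⟨⟨.negSucc 1437, .ofNat 175, .negSucc 58, .ofNat 820, .ofNat 666, .negSucc 167⟩, ⟨.ofNat 771, .negSucc 114, .ofNat 93, .negSucc 464, .negSucc 365, .ofNat 113⟩, ⟨.ofNat 370, .negSucc 15, .ofNat 10, .negSucc 63, .negSucc 577, .negSucc 205⟩, ⟨.negSucc 2937, .ofNat 203, .negSucc 30, .ofNat 1590, .ofNat 1838, .ofNat 6⟩, ⟨.negSucc 1418, .negSucc 133, .ofNat 123, .ofNat 649, .ofNat 1466, .ofNat 435⟩, .ofNat 739, .ofNat 813, .ofNat 0, .ofNat 813, .ofNat 1605, .ofNat 0, .ofNat 128, .negSucc 554, .negSucc 111, .ofNat 0, .ofNat 357, .ofNat 41, .ofNat 0, .ofNat 0, .ofNat 404, .ofNat 53, .ofNat 0, .ofNat 0, .ofNat 0, .ofNat 0, .ofNat 0, .ofNat 0, .ofNat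 0, .ofNat 0, .ofNat 0, .ofNat 3652359338634175945829225583351307519991094444032, .ofNat 2357555427867162993112021558189294864039936, .ofNat 0, .ofNat 0, .ofNat 1792220812110903990886574287962821758965923184640, .ofNat 333983109282980362729911007365413973524480, .ofNat 0⟩)
    (by decide +kernel)
theorem L07289 : Good (Phi V5.P V5.D (-1) (-1)) ⟨5, 27, 4, 9, 3, 7, 3, 6, 4, 2⟩ :=
  leafX_sound T5.ok_mm T5.Ymm.bz_eq (w := 239) (c := ⟨⟨.negSucc 1423, .ofNat 35, .ofNat 34, .ofNat 881, .ofNat 430, .negSucc 184⟩, ⟨.ofNat 839, .negSucc 50, .ofNat 50, .negSucc 518, .negSucc 252, .ofNat 127⟩, ⟨.ofNat 497, .ofNat 58, .negSucc 43, .negSucc 137, .negSucc 321, .negSucc 288⟩, ⟨.negSucc 3088, .ofNat 89, .negSucc 13, .ofNat 1735, .ofNat 964, .ofNat 101⟩, ⟨.negSucc 1672, .ofNat 17, .negSucc 49, .ofNat 765, .ofNat 559, .ofNat 601⟩, .ofNat 2433, .ofNat 3487, .ofNat 0, .ofNat 3487, .ofNat 5866, .ofNat 0, .ofNat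 128, .negSucc 1587, .negSucc 494, .ofNat 0, .ofNat 990, .ofNat 285, .ofNat 0, .ofNat 0, .ofNat 954, .ofNat 218, .ofNat 0, .ofNat 0, .ofNat 18384122989356427527880940660028445032448, .ofNat 0, .ofNat 0, .ofNat 0, .ofNat 0, .ofNat 0, .ofNat 0, .ofNat 6473196384920668887988571732935855785899596972032, .ofNat 48334505033469118080925443237794478253146112, .ofNat 0, .ofNat 0, .ofNat 0, .ofNat 2071467118964630795319480348498297043812352, .ofNat 0⟩)
    (by decide +kernel)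
theorem L07290 : Good (Phi V5.P V5.D (-1) (-1)) ⟨5, 27, 4, 9, 3, 7, 3, 7, 4, 2⟩ :=
  leafX_sound T5.ok_mm T5.Ymm.bz_eq (w := 240) (c := ⟨⟨.negSucc 1090, .ofNat 209, .ofNat 36, .ofNat 1134, .ofNat 556, .negSucc 442⟩, ⟨.ofNat 647, .negSucc 146, .ofNat 5, .negSucc 670, .negSucc 307, .ofNat 291⟩, ⟨.ofNat 186, .negSucc 89, .ofNat 12, .negSucc 74, .negSucc 410, .negSucc 125⟩, ⟨.negSucc 2209, .ofNat 209, .ofNat 183, .ofNat 2268, .ofNat 999, .negSucc 253⟩, ⟨.negSucc 1062, .negSucc 136, .ofNat 215, .ofNat 1045, .ofNat 349, .ofNat 627⟩, .ofNat 3083, .ofNat 4526, .ofNat 0, .ofNat 4526, .ofNat 7533, .ofNat 0, .ofNat 128, .negSucc 1464, .negSucc 669, .ofNat 0, .ofNat 903, .ofNat 393, .ofNat 0, .ofNat 0, .ofNat 854, .ofNat 1200, .ofNat 0, .ofNat 0, .ofNat 0, .ofNat 0, .ofNat 0, .ofNat 1460910130285259856503309822750975545675700240384, .ofNat 8200017282818318111374712727070745718423552, .ofNat 0, .ofNat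 0, .ofNat 14262848497844194531579041566195314957472438943744, .ofNat 48032670263592556695780431463732656545464320, .ofNat 0, .ofNat 0, .ofNat 3662231605144331574032254303165511065057865236480, .ofNat 12086276602997318249997480808160498697633792, .ofNat 0⟩)
    (by decide +kernel)
theorem L07291 : Good (Phi V5.P V5.D (-1) (-1)) ⟨5, 28, 4, 8, 3, 7, 2, 3, 4, 2⟩ :=
  out_sound (S := T5.ds_mm) T5.ok_mm (w := 59) (j := 3) (by decide +kernel)
theorem L07292 : Good (Phi V5.P V5.D (-1) (-1)) ⟨6, 56, 4, 9, 4, 14, 3, 6, 4, 2⟩ :=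
  leafX_sound T5.ok_mm T5.Ymm.bz_eq (w := 255) (c := ⟨⟨.negSucc 1355, .ofNat 131, .negSucc 105, .ofNat 498, .ofNat 331, .negSucc 175⟩, ⟨.ofNat 763, .negSucc 107, .ofNat 167, .negSucc 310, .negSucc 207, .ofNat 119⟩, ⟨.ofNat 578, .ofNat 10, .ofNat 20, .negSucc 145, .negSucc 336, .negSucc 400⟩, ⟨.negSucc 2972, .ofNat 131, .negSucc 174, .ofNat 924, .ofNat 817, .ofNat 193⟩, ⟨.negSucc 1677, .negSucc 115, .ofNat 24, .ofNat 329, .ofNat 533, .ofNat 705⟩, .ofNat 1324, .ofNat 1680, .ofNat 0, .ofNat 1680, .ofNat 2865, .ofNat 0, .ofNat 128, .negSucc 1549, .negSucc 591, .ofNat 0, .ofNat 995, .ofNat 341, .ofNat 0, .ofNat 0, .ofNat 911, .ofNat 546, .ofNat 0, .ofNat 0, .ofNat 0, .ofNat 0, .ofNat 0, .ofNat 0, .ofNat 20950091393276230969553883847146824323947298816, .ofNat 0, .ofNat 0, .ofNat 396612893344449824283308601855289169028612049074126848, .ofNat 117934854597105426164482106649705703912601812992, .ofNat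 0, .ofNat 0, .ofNat 0, .ofNat 0, .ofNat 0⟩)
    (by decide +kernel)
theorem L07293 : Good (Phi V5.P V5.D (-1) (-1)) ⟨6, 56, 4, 9, 4, 15, 3, 6, 4, 2⟩ :=
  leafX_sound T5.ok_mm T5.Ymm.bz_eq (w := 257) (c := ⟨⟨.negSucc 915, .ofNat 9, .ofNat 99, .ofNat 472, .ofNat 552, .negSucc 321⟩, ⟨.ofNat 532, .negSucc 14, .negSucc 22, .negSucc 288, .negSucc 342, .ofNat 208⟩, ⟨.ofNat 311, .negSucc 49, .ofNat 75, .ofNat 26, .negSucc 299, .negSucc 205⟩, ⟨.negSucc 2065, .ofNat 93, .ofNat 36, .ofNat 1020, .ofNat 1245, .negSucc 170⟩, ⟨.negSucc 1228, .ofNat 102, .negSucc 121, .ofNat 548, .ofNat 717, .ofNat 454⟩, .ofNat 2365, .ofNat 3247, .ofNat 0, .ofNat 3247, .ofNat 5255, .ofNat 0, .ofNat 128, .negSucc 1715, .negSucc 311, .ofNat 0, .ofNat 1110, .ofNat 168, .ofNat 0, .ofNat 0, .ofNat 1002, .ofNat 246, .ofNat 0, .ofNat 0, .ofNat 787057244410715292641365846106395002475118592, .ofNat 0, .ofNat 0, .ofNat 0, .ofNat 78799359416474217733070875410036268505300467712,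 .ofNat 0, .ofNat 0, .ofNat 393230763348596661097893385520491420692297859379232768, .ofNat 98165350437475132160261640171588244585557524480, .ofNat 0, .ofNat 0, .ofNat 239221633927137326339207747785997207639202408597291008, .ofNat 30688692169976582548210698165779834290992840704, .ofNat 0⟩)
    (by decide +kernel)
theorem L07294 : Good (Phi V5.P V5.D (-1) (-1)) ⟨6, 56, 4, 9, 3, 7, 3, 7, 4, 2⟩ :=
  leafX_sound T5.ok_mm T5.Ymm.bz_eq (w := 243) (c := ⟨⟨.negSucc 958, .ofNat 218, .negSucc 28, .ofNat 1385, .ofNat 867, .negSucc 478⟩, ⟨.ofNat 589, .negSucc 138, .ofNat 24, .negSucc 862, .negSucc 525, .ofNat 302⟩, ⟨.ofNat 52, .negSucc 20, .ofNat 43, .negSucc 54, .negSucc 484, .negSucc 61⟩, ⟨.negSucc 2156, .ofNat 254, .negSucc 56, .ofNat 2835, .ofNat 1991, .negSucc 373⟩, ⟨.negSucc 1231, .negSucc 58, .negSucc 41, .ofNat 1345, .ofNat 1189, .ofNat 479⟩, .ofNat 2051, .ofNat 2802, .ofNat 0, .ofNat 2802, .ofNat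 4618, .ofNat 0, .ofNat 128, .negSucc 1665, .negSucc 776, .ofNat 0, .ofNat 1049, .ofNat 461, .ofNat 0, .ofNat 0, .ofNat 938, .ofNat 875, .ofNat 0, .ofNat 0, .ofNat 0, .ofNat 0, .ofNat 0, .ofNat 29743041535454992613448198155669716128183896506368, .ofNat 4543439494692472096204418949506502597017600, .ofNat 0, .ofNat 0, .ofNat 251219660282863300528200546435892500543429326929920, .ofNat 4355460820375414269881686277598120998076416, .ofNat 0, .ofNat 0, .ofNat 79924012870567589397430750535081001236337122082816, .ofNat 1117844405910752022475069357316372397293568, .ofNat 0⟩)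
    (by decide +kernel)
theorem L07295 : Good (Phi V5.P V5.D (-1) (-1)) ⟨6, 57, 4, 9, 3, 7, 2, 3, 4, 2⟩ :=
  out_sound (S := T5.ds_mm) T5.ok_mm (w := 65) (j := 3) (by decide +kernel)
theorem L07296 : Good (Phi V5.P V5.D (-1) (-1)) ⟨5, 29, 3, 4, 3, 7, 2, 3, 4, 2⟩ :=
  out_sound (S := T5.ds_mm) T5.ok_mm (w := 57) (j := 3) (by decide +kernel)
theorem L07297 : Good (Phi V5.P V5.D (-1) (-1)) ⟨4, 15, 3, 4, 3, 7, 2, 3, 4, 2⟩ :=
  out_sound (S := T5.ds_mm) T5.ok_mm (w := 51) (j := 3) (by decide +kernel)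
theorem L07298 : Good (Phi V5.P V5.D (-1) (-1)) ⟨3, 6, 3, 4, 3, 7, 3, 6, 5, 6⟩ :=
  leafX_sound T5.ok_mm T5.Ymm.bz_eq (w := 228) (c := ⟨⟨.negSucc 1524, .ofNat 163, .negSucc 165, .ofNat 661, .ofNat 91, .negSucc 245⟩, ⟨.ofNat 731, .ofNat 30, .ofNat 177, .negSucc 371, .negSucc 29, .ofNat 168⟩, ⟨.ofNat 224, .negSucc 70, .negSucc 106, .negSucc 31, .negSucc 320, .negSucc 408⟩, ⟨.negSucc 2839, .ofNat 248, .negSucc 110, .ofNat 1361, .ofNat 664, .ofNat 132⟩, ⟨.negSucc 770, .negSucc 305, .ofNat 207, .ofNat 681, .ofNat 928, .ofNat 834⟩, .ofNat 753, .ofNat 834, .ofNat 0, .ofNat 834, .ofNat 1631, .ofNat 0, .ofNat 128, .negSucc 647, .ofNat 63, .ofNat 0, .ofNat 448, .negSucc 76, .ofNat 0, .ofNat 0, .ofNat 704, .ofNat 293, .ofNat 0, .ofNat 0, .ofNat 0, .ofNat 0, .ofNat 0, .ofNat 1647166462085060187386179696959297863509082112, .ofNat 11471666760163030538640590421730644319010816, .ofNat 0, .ofNat 0, .ofNat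 19902986962776487089660847763432892025962233856, .ofNat 676588936212365420347588733829409257457451008, .ofNat 0, .ofNat 0, .ofNat 31904943870027528812224955795580206526117183488, .ofNat 42646262335739242353651775444391848222654464, .ofNat 0⟩)
    (by decide +kernel)
theorem L07299 : Good (Phi V5.P V5.D (-1) (-1)) ⟨5, 28, 4, 8, 3, 7, 3, 6, 5, 6⟩ :=
  out_sound (S := T5.ds_mm) T5.ok_mm (w := 59) (j := 3) (by decide +kernel)
theorem L07300 : Good (Phi V5.P V5.D (-1) (-1)) ⟨5, 28, 4, 9, 3, 7, 4, 12, 5, 6⟩ :=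
  leafX_sound T5.ok_mm T5.Ymm.bz_eq (w := 247) (c := ⟨⟨.negSucc 1256, .ofNat 342, .negSucc 280, .ofNat 746, .negSucc 44, .negSucc 389⟩, ⟨.ofNat 738, .negSucc 213, .ofNat 232, .negSucc 461, .ofNat 35, .ofNat 260⟩, ⟨.ofNat 236, .ofNat 91, .negSucc 170, .ofNat 29, .negSucc 218, .negSucc 523⟩, ⟨.negSucc 2562, .ofNat 403, .negSucc 224, .ofNat 1510, .ofNat 236, .ofNat 79⟩, ⟨.negSucc 1166, .negSucc 108, .ofNat 216, .ofNat 702, .ofNat 471, .ofNat 997⟩, .ofNat 2071, .ofNat 2830, .ofNat 0, .ofNat 2830, .ofNat 4654, .ofNat 0, .ofNat 128, .negSucc 1637, .ofNat 313, .ofNat 0, .ofNat 1091, .negSucc 238, .ofNat 0, .ofNat 0, .ofNat 1660, .ofNat 1341, .ofNat 0, .ofNat 0, .ofNat 0, .ofNat 0, .ofNat 0, .ofNat 31998688920697813502151307774704679957937153638400, .ofNat 4702984049158558573102193932975519636337459200, .ofNat 0, .ofNat 0, .ofNat 716913004847782885399098579148485322856675089055744, .ofNat 27720346779958309775184279823049210575319990272,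 .ofNat 0, .ofNat 0, .ofNat 1596216515633147108858055912630663067523352876810240, .ofNat 5549898076926561604884425340589199013330288640, .ofNat 0⟩)
    (by decide +kernel)
theorem L07301 : Good (Phi V5.P V5.D (-1) (-1)) ⟨5, 28, 4, 9, 3, 7, 4, 13, 5, 6⟩ :=
  leafX_sound T5.ok_mm T5.Ymm.bz_eq (w := 242) (c := ⟨⟨.negSucc 1375, .ofNat 60, .negSucc 146, .ofNat 679, .negSucc 87, .negSucc 439⟩, ⟨.ofNat 818, .negSucc 20, .ofNat 146, .negSucc 421, .ofNat 64, .ofNat 294⟩, ⟨.negSucc 38, .negSucc 57, .negSucc 37, .negSucc 209, .negSucc 268, .negSucc 535⟩, ⟨.negSucc 2321, .ofNat 115, .negSucc 171, .ofNat 1393, .ofNat 260, .ofNat 58⟩, ⟨.negSucc 564, .negSucc 62, .ofNat 71, .ofNat 666, .ofNat 607, .ofNat 1082⟩, .ofNat 382, .ofNat 285, .ofNat 0, .ofNat 285, .ofNat 643, .ofNat 0, .ofNat 128, .negSucc 214, .negSucc 9, .ofNat 0, .ofNat 158, .negSucc 22, .ofNat 0, .ofNat 0, .ofNat 202, .ofNat 603, .ofNat 0, .ofNat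 0, .ofNat 0, .ofNat 0, .ofNat 0, .ofNat 17761956742152410051011301293305347215097979731968, .ofNat 96105386021460367750897660069548131042197504, .ofNat 0, .ofNat 0, .ofNat 65451384336879325945312713319019852158558860738560, .ofNat 66154136970166058302469458037838231004774400, .ofNat 0, .ofNat 0, .ofNat 68949534101719552652798043416532388420891365605376, .ofNat 0, .ofNat 0⟩)
    (by decide +kernel)
theorem L07302 : Good (Phi V5.P V5.D (-1) (-1)) ⟨5, 29, 3, 4, 3, 7, 3, 6, 5, 6⟩ :=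
  out_sound (S := T5.ds_mm) T5.ok_mm (w := 57) (j := 3) (by decide +kernel)
theorem L07303 : Good (Phi V5.P V5.D (-1) (-1)) ⟨4, 15, 3, 4, 3, 7, 3, 6, 5, 6⟩ :=
  out_sound (S := T5.ds_mm) T5.ok_mm (w := 51) (j := 3) (by decide +kernel)
theorem L07304 : Good (Phi V5.P V5.D (-1) (-1)) ⟨2, 3, 3, 4, 3, 7, 3, 6, 5, 7⟩ :=
  leafX_sound T5.ok_mm T5.Ymm.bz_eq (w := 224) (c := ⟨⟨.negSucc 1542, .negSucc 27, .negSucc 245, .ofNat 333, .negSucc 199, .negSucc 358⟩, ⟨.ofNat 762, .ofNat 244, .ofNat 262, .negSucc 178, .ofNat 149, .ofNat 245⟩, ⟨.ofNat 38, .negSucc 566, .negSucc 169, .negSucc 502, .negSucc 668, .negSucc 785⟩, ⟨.negSucc 2549, .ofNat 352, .negSucc 161, .ofNat 996, .ofNat 298, .ofNat 90⟩, ⟨.negSucc 79, .negSucc 264, .ofNat 275, .ofNat 852, .ofNat 1013, .ofNat 1005⟩, .ofNat 762, .ofNat 845, .ofNat 0, .ofNat 845, .ofNat 1641, .ofNat 0, .ofNat 128, .negSucc 706, .ofNat 119, .ofNat 0, .ofNat 501, .negSucc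 111, .ofNat 0, .ofNat 0, .ofNat 859, .ofNat 625, .ofNat 0, .ofNat 74173124967128221087322399207747912088944640, .ofNat 13779763797880831126855221655732060136931328, .ofNat 0, .ofNat 0, .ofNat 445719630376078403559794333165255392910901248, .ofNat 421828833206070527729351013304920248380555264, .ofNat 82235296554321118539852838031025344941041848942592, .ofNat 0, .ofNat 5279253439509159940063201386814344849927438336, .ofNat 933478514402559001474198000733624287486803968, .ofNat 520679902970738583419637729510198318657511549304832, .ofNat 0, .ofNat 8094320733945444490000590761956441350532497408, .ofNat 258556777638754831908699982471614194186715136, .ofNat 0⟩)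
    (by decide +kernel)
theorem L07305 : Good (Phi V5.P V5.D (-1) (-1)) ⟨2, 3, 3, 4, 3, 7, 3, 7, 4, 3⟩ :=
  out_sound (S := T5.ds_mm) T5.ok_mm (w := 34) (j := 2) (by decide +kernel)
theorem L07306 : Good (Phi V5.P V5.D (-1) (-1)) ⟨2, 2, 3, 5, 4, 12, 3, 6, 5, 0⟩ :=
  out_sound (S := T5.ds_mm) T5.ok_mm (w := 39) (j := 3) (by decide +kernel)
theorem L07307 : Good (Phi V5.P V5.D (-1) (-1)) ⟨3, 6, 3, 5, 4, 12, 3, 6, 5, 0⟩ :=
  out_sound (S := T5.ds_mm) T5.ok_mm (w := 45) (j := 3) (by decide +kernel)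
theorem L07308 : Good (Phi V5.P V5.D (-1) (-1)) ⟨6, 56, 5, 20, 4, 12, 3, 6, 5, 0⟩ :=
  leafX_sound T5.ok_mm T5.Ymm.bz_eq (w := 266) (c := ⟨⟨.ofNat 2322, .ofNat 117, .ofNat 3, .negSucc 322, .negSucc 1449, .negSucc 973⟩, ⟨.negSucc 1484, .negSucc 123, .ofNat 6, .ofNat 212, .ofNat 945, .ofNat 634⟩, ⟨.negSucc 1591, .negSucc 116, .ofNat 36, .ofNat 483, .ofNat 952, .ofNat 597⟩, ⟨.ofNat 3283, .ofNat 213, .negSucc 4, .negSucc 338, .negSucc 2496, .negSucc 1736⟩, ⟨.negSucc 27, .ofNat 60, .ofNat 33, .ofNat 188, .negSucc 668, .negSucc 544⟩, .ofNat 2342, .ofNat 3200, .ofNat 0, .ofNat 3200, .ofNat 5132, .ofNat 0, .ofNat 128, .negSucc 410, .negSucc 2625, .ofNat 0, .ofNat 267, .ofNat 1656, .ofNat 0, .ofNat 0, .ofNat 2121, .ofNat 689, .ofNat 0, .ofNat 0, .ofNat 0, .ofNat 0, .ofNat 0, .ofNat 0, .ofNat 0, .ofNat 0, .ofNat 0, .ofNat 0, .ofNat 0, .ofNat 0, .ofNat 0, .ofNat 0, .ofNat 0, .ofNat 0⟩)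
    (by decide +kernel)
theorem L07309 : Good (Phi V5.P V5.D (-1) (-1)) ⟨6, 56, 5, 21, 4, 12, 3, 6, 5, 0⟩ :=
  leafX_sound T5.ok_mm T5.Ymm.bz_eq (w := 279) (c := ⟨⟨.ofNat 2552, .ofNat 1, .negSucc 39, .negSucc 434, .negSucc 1535, .negSucc 1008⟩, ⟨.negSucc 1687, .ofNat 0, .ofNat 23, .ofNat 289, .ofNat 1013, .ofNat 665⟩, ⟨.negSucc 1766, .ofNat 0, .negSucc 148, .ofNat 586, .ofNat 1004, .ofNat 632⟩, ⟨.ofNat 2769, .ofNat 1, .negSucc 11, .negSucc 481, .negSucc 1724, .negSucc 1128⟩, ⟨.negSucc 1225, .ofNat 0, .ofNat 7, .ofNat 195, .ofNat 644, .ofNat 429⟩, .ofNat 23289, .ofNat 34702, .ofNat 0, .ofNat 34702, .ofNat 52520, .ofNat 0, .ofNat 128, .negSucc 5653, .negSucc 20567, .ofNat 0, .ofNat 3750, .ofNat 13588, .ofNat 0, .ofNat 0, .ofNat 17065, .ofNat 13862, .ofNat 0, .ofNat 0, .ofNat 0, .ofNat 0, .ofNat 0, .ofNat 0, .ofNat 640414979208530234688722621967478884620995001319424, .ofNat 0, .ofNat 0, .ofNat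 0, .ofNat 1385194460178027992468113607832210645501892041375744, .ofNat 0, .ofNat 0, .ofNat 0, .ofNat 1549129321942696117883035199037041754156710810877952, .ofNat 0⟩)
    (by decide +kernel)
theorem L07310 : Good (Phi V5.P V5.D (-1) (-1)) ⟨6, 56, 4, 11, 4, 12, 3, 6, 5, 0⟩ :=
  out_sound (S := T5.ds_mm) T5.ok_mm (w := 65) (j := 3) (by decide +kernel)
theorem L07311 : Good (Phi V5.P V5.D (-1) (-1)) ⟨8, 228, 4, 10, 4, 12, 3, 6, 5, 0⟩ :=
  leafX_sound T5.ok_mm T5.Ymm.bz_eq (w := 275) (c := ⟨⟨.ofNat 2384, .ofNat 82, .ofNat 61, .negSucc 347, .negSucc 1468, .negSucc 939⟩, ⟨.negSucc 1598, .negSucc 64, .negSucc 20, .ofNat 234, .ofNat 982, .ofNat 628⟩, ⟨.negSucc 1673, .negSucc 76, .ofNat 49, .ofNat 499, .ofNat 955, .ofNat 569⟩, ⟨.ofNat 3456, .ofNat 112, .ofNat 27, .negSucc 401, .negSucc 2549, .negSucc 1675⟩, ⟨.ofNat 109, .negSucc 7, .ofNat 1, .ofNat 132, .negSucc 726, .negSucc 533⟩, .ofNat 4518, .ofNat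 6401, .ofNat 0, .ofNat 6401, .ofNat 9834, .ofNat 0, .ofNat 128, .negSucc 1462, .negSucc 5272, .ofNat 0, .ofNat 972, .ofNat 3456, .ofNat 0, .ofNat 0, .ofNat 4262, .ofNat 2082, .ofNat 0, .ofNat 0, .ofNat 991139978623332035840609099840670109360193536, .ofNat 0, .ofNat 0, .ofNat 0, .ofNat 2272705124646012094151753230486625102508031213568, .ofNat 0, .ofNat 0, .ofNat 0, .ofNat 0, .ofNat 0, .ofNat 0, .ofNat 0, .ofNat 1240217534840126721100090795705813343137391706112, .ofNat 3677225380280378600950874785344045117038475515796203275026432⟩)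
    (by decide +kernel)
theorem L07312 : Good (Phi V5.P V5.D (-1) (-1)) ⟨8, 229, 4, 10, 4, 12, 3, 6, 5, 0⟩ :=
  out_sound (S := T5.ds_mm) T5.ok_mm (w := 23) (j := 4) (by decide +kernel)
theorem L07313 : Good (Phi V5.P V5.D (-1) (-1)) ⟨7, 115, 4, 10, 4, 12, 3, 6, 5, 0⟩ :=
  out_sound (S := T5.ds_mm) T5.ok_mm (w := 21) (j := 4) (by decide +kernel)
theorem L07314 : Good (Phi V5.P V5.D (-1) (-1)) ⟨7, 114, 5, 22, 4, 12, 3, 6, 5, 0⟩ :=
  out_sound (S := T5.ds_mm) T5.ok_mm (w := 73) (j := 3) (by decide +kernel)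
theorem L07315 : Good (Phi V5.P V5.D (-1) (-1)) ⟨7, 115, 5, 22, 4, 12, 3, 6, 5, 0⟩ :=
  out_sound (S := T5.ds_mm) T5.ok_mm (w := 21) (j := 4) (by decide +kernel)
theorem L07316 : Good (Phi V5.P V5.D (-1) (-1)) ⟨6, 57, 5, 23, 4, 12, 3, 6, 5, 0⟩ :=
  out_sound (S := T5.ds_mm) T5.ok_mm (w := 67) (j := 3) (by decide +kernel)
theorem L07317 : Good (Phi V5.P V5.D (-1) (-1)) ⟨5, 29, 3, 5, 4, 12, 3, 6, 5, 0⟩ :=
  out_sound (S := T5.ds_mm) T5.ok_mm (w := 17) (j := 4) (by decide +kernel)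
theorem L07318 : Good (Phi V5.P V5.D (-1) (-1)) ⟨4, 15, 3, 5, 4, 12, 3, 6, 5, 0⟩ :=
  out_sound (S := T5.ds_mm) T5.ok_mm (w := 51) (j := 3) (by decide +kernel)
theorem L07319 : Good (Phi V5.P V5.D (-1) (-1)) ⟨2, 2, 3, 5, 4, 12, 3, 6, 5, 1⟩ :=
  out_sound (S := T5.ds_mm) T5.ok_mm (w := 39) (j := 3) (by decide +kernel)
theorem L07320 : Good (Phi V5.P V5.D (-1) (-1)) ⟨3, 6, 3, 5, 4, 12, 4, 12, 5, 1⟩ :=
  out_sound (S := T5.ds_mm) T5.ok_mm (w := 45) (j := 3) (by decide +kernel)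
theorem L07321 : Good (Phi V5.P V5.D (-1) (-1)) ⟨6, 56, 5, 20, 4, 12, 4, 12, 6, 2⟩ :=
  leafX_sound T5.ok_mm T5.Ymm.bz_eq (w := 276) (c := ⟨⟨.ofNat 1205, .ofNat 57, .ofNat 130, .negSucc 95, .negSucc 750, .negSucc 662⟩, ⟨.negSucc 763, .negSucc 88, .negSucc 62, .ofNat 62, .ofNat 492, .ofNat 430⟩, ⟨.negSucc 888, .negSucc 4, .negSucc 92, .ofNat 273, .ofNat 486, .ofNat 405⟩, ⟨.ofNat 1374, .ofNat 50, .ofNat 228, .ofNat 17, .negSucc 1280, .negSucc 1182⟩, ⟨.negSucc 555, .ofNat 8, .ofNat 74, .ofNat 234, .negSucc 331, .negSucc 371⟩, .ofNat 2354, .ofNat 3216, .ofNat 0, .ofNat 3216, .ofNat 5154, .ofNat 0, .ofNat 128, .negSucc 656, .negSucc 3622, .ofNat 0, .ofNat 427, .ofNat 2286, .ofNat 0, .ofNat 0, .ofNat 2766, .ofNat 1609, .ofNat 0, .ofNat 0, .ofNat 0, .ofNat 0, .ofNat 0, .ofNat 0, .ofNat 0, .ofNat 0, .ofNat 0, .ofNat 0, .ofNat 0, .ofNat 0, .ofNat 0, .ofNat 0, .ofNat 0, .ofNat 0⟩)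
    (by decide +kernel)
theorem L07322 : Good (Phi V5.P V5.D (-1) (-1)) ⟨6, 56, 5, 21, 4, 12, 4, 12, 6, 2⟩ :=
  leafX_sound T5.ok_mm T5.Ymm.bz_eq (w := 285) (c := ⟨⟨.ofNat 1423, .ofNat 0, .ofNat 18, .negSucc 95, .negSucc 843, .negSucc 703⟩, ⟨.negSucc 942, .ofNat 0, .ofNat 0, .ofNat 65, .ofNat 557, .ofNat 464⟩, ⟨.negSucc 1018, .ofNat 0, .ofNat 43, .ofNat 277, .ofNat 556, .ofNat 440⟩, ⟨.ofNat 1477, .ofNat 0, .negSucc 1, .negSucc 56, .negSucc 1177, .negSucc 977⟩, ⟨.negSucc 791, .ofNat 0, .negSucc 0, .ofNat 118, .ofNat 12, .ofNat 16⟩, .ofNat 14609, .ofNat 21629, .ofNat 0, .ofNat 21629, .ofNat 32827, .ofNat 0, .ofNat 128, .negSucc 3882, .negSucc 12268, .ofNat 0, .ofNat 2574, .ofNat 8091, .ofNat 0, .ofNat 0, .ofNat 9681, .ofNat 21737, .ofNat 0, .ofNat 0, .ofNat 0, .ofNat 0, .ofNat 0, .ofNat 0, .ofNat 215269801060858464989424250227814207225390836117143552, .ofNat 0, .ofNat 0, .ofNat 0, .ofNat 0,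 .ofNat 0, .ofNat 0, .ofNat 0, .ofNat 158340664435280739232306009063375375394851244526796800, .ofNat 0⟩)
    (by decide +kernel)
theorem L07323 : Good (Phi V5.P V5.D (-1) (-1)) ⟨6, 57, 4, 10, 4, 12, 4, 12, 6, 2⟩ :=
  leafX_sound T5.ok_mm T5.Ymm.bz_eq (w := 275) (c := ⟨⟨.ofNat 1392, .ofNat 90, .ofNat 86, .negSucc 83, .negSucc 831, .negSucc 712⟩, ⟨.negSucc 931, .negSucc 80, .negSucc 47, .ofNat 57, .ofNat 555, .ofNat 475⟩, ⟨.negSucc 980, .negSucc 32, .negSucc 66, .ofNat 264, .ofNat 536, .ofNat 439⟩, ⟨.ofNat 1620, .ofNat 134, .ofNat 132, .ofNat 28, .negSucc 1364, .negSucc 1217⟩, ⟨.negSucc 522, .ofNat 48, .ofNat 44, .ofNat 219, .negSucc 292, .negSucc 325⟩, .ofNat 3726, .ofNat 5131, .ofNat 0, .ofNat 5131, .ofNat 7802, .ofNat 0, .ofNat 128, .negSucc 1083, .negSucc 4814, .ofNat 0, .ofNat 730, .ofNat 3169, .ofNat 0, .ofNat 0, .ofNat 3716, .ofNat 2241, .ofNat 0, .ofNat 0, .ofNat 4071286931713862865181209984534248784719601729536,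 .ofNat 0, .ofNat 0, .ofNat 0, .ofNat 14948782865878175075917028356568953178136403123372032, .ofNat 0, .ofNat 0, .ofNat 0, .ofNat 0, .ofNat 0, .ofNat 0, .ofNat 0, .ofNat 0, .ofNat 142501173620839229137473143568225260041553562587877805997948928⟩)
    (by decide +kernel)
theorem L07324 : Good (Phi V5.P V5.D (-1) (-1)) ⟨6, 56, 4, 11, 4, 12, 4, 12, 6, 2⟩ :=
  out_sound (S := T5.ds_mm) T5.ok_mm (w := 65) (j := 3) (by decide +kernel)
theorem L07325 : Good (Phi V5.P V5.D (-1) (-1)) ⟨7, 114, 5, 22, 4, 12, 4, 12, 6, 2⟩ :=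
  out_sound (S := T5.ds_mm) T5.ok_mm (w := 73) (j := 3) (by decide +kernel)
theorem L07326 : Good (Phi V5.P V5.D (-1) (-1)) ⟨7, 115, 5, 22, 4, 12, 4, 12, 6, 2⟩ :=
  out_sound (S := T5.ds_mm) T5.ok_mm (w := 21) (j := 4) (by decide +kernel)
theorem L07327 : Good (Phi V5.P V5.D (-1) (-1)) ⟨6, 57, 5, 23, 4, 12, 4, 12, 6, 2⟩ :=
  out_sound (S := T5.ds_mm) T5.ok_mm (w := 67) (j := 3) (by decide +kernel)
theorem L07328 : Good (Phi V5.P V5.D (-1) (-1)) ⟨5, 29, 3, 5, 4, 12, 4, 12, 6, 2⟩ :=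
  out_sound (S := T5.ds_mm) T5.ok_mm (w := 17) (j := 4) (by decide +kernel)
theorem L07329 : Good (Phi V5.P V5.D (-1) (-1)) ⟨4, 15, 3, 5, 4, 12, 4, 12, 6, 2⟩ :=
  out_sound (S := T5.ds_mm) T5.ok_mm (w := 51) (j := 3) (by decide +kernel)
theorem L07330 : Good (Phi V5.P V5.D (-1) (-1)) ⟨5, 28, 5, 20, 4, 12, 4, 12, 6, 3⟩ :=
  leafX_sound T5.ok_mm T5.Ymm.bz_eq (w := 273) (c := ⟨⟨.ofNat 308, .ofNat 132, .ofNat 79, .ofNat 237, .negSucc 766, .negSucc 1156⟩, ⟨.negSucc 230, .negSucc 11, .negSucc 48, .negSucc 156, .ofNat 498, .ofNat 749⟩, ⟨.negSucc 351, .ofNat 392, .negSucc 170, .negSucc 61, .ofNat 496, .ofNat 739⟩, ⟨.negSucc 79, .ofNat 51, .ofNat 140, .ofNat 460, .negSucc 1275, .negSucc 1912⟩, ⟨.negSucc 846, .negSucc 18, .ofNat 16, .ofNat 188, .negSucc 291, .negSucc 423⟩, .ofNat 3968, .ofNat 5601, .ofNat 0, .ofNat 5601, .ofNat 8683, .ofNat 0, .ofNat 128, .negSucc 534, .negSucc 3057, .ofNat 0, .ofNat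 353, .ofNat 1975, .ofNat 0, .ofNat 0, .ofNat 2301, .ofNat 1273, .ofNat 0, .ofNat 0, .ofNat 66195915234699278498403168578504420450490935934976, .ofNat 0, .ofNat 0, .ofNat 0, .ofNat 24730517887558374121886134088381480710378268672393216, .ofNat 0, .ofNat 0, .ofNat 0, .ofNat 7261062180257794752131115817693276276291406854619136, .ofNat 11886022632381905574982883572855143603654124381096058560708608, .ofNat 0, .ofNat 0, .ofNat 15440416886631176131381365263410700028264755903856640, .ofNat 69411494119454518856647446270396996415358756504238552468422656⟩)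
    (by decide +kernel)
theorem L07331 : Good (Phi V5.P V5.D (-1) (-1)) ⟨5, 29, 5, 20, 4, 12, 4, 12, 6, 3⟩ :=
  out_sound (S := T5.ds_mm) T5.ok_mm (w := 61) (j := 3) (by decide +kernel)
theorem L07332 : Good (Phi V5.P V5.D (-1) (-1)) ⟨4, 15, 5, 20, 4, 12, 4, 12, 6, 3⟩ :=
  out_sound (S := T5.ds_mm) T5.ok_mm (w := 55) (j := 3) (by decide +kernel)
theorem L07333 : Good (Phi V5.P V5.D (-1) (-1)) ⟨4, 14, 5, 21, 4, 12, 4, 12, 6, 3⟩ :=
  leafX_sound T5.ok_mm T5.Ymm.bz_eq (w := 270) (c := ⟨⟨.ofNat 493, .ofNat 67, .ofNat 86, .ofNat 274, .negSucc 855, .negSucc 1217⟩, ⟨.negSucc 348, .ofNat 32, .negSucc 50, .negSucc 181, .ofNat 568, .ofNat 806⟩, ⟨.negSucc 398, .ofNat 51, .negSucc 49, .negSucc 69, .ofNat 564, .ofNat 785⟩, ⟨.ofNat 53, .ofNat 15, .ofNat 171, .ofNat 464, .negSucc 1285, .negSucc 1825⟩, ⟨.negSucc 996, .ofNat 23, .ofNat 82, .ofNat 120, .negSucc 129, .negSucc 179⟩, .ofNat 5387, .ofNat 7421,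 .ofNat 0, .ofNat 7421, .ofNat 10940, .ofNat 0, .ofNat 128, .negSucc 892, .negSucc 3709, .ofNat 0, .ofNat 613, .ofNat 2497, .ofNat 0, .ofNat 0, .ofNat 2742, .ofNat 1829, .ofNat 0, .ofNat 0, .ofNat 214819375472248514915894272960244802502465654095872, .ofNat 65953602828721250858594930560013013390198807159811407347712, .ofNat 0, .ofNat 0, .ofNat 38876039116704149769014392212986800842472486841876480, .ofNat 23867029772861885687137637018044490440405554296300683160190976, .ofNat 0, .ofNat 0, .ofNat 17806845079496004157566450645763720586333167265251328, .ofNat 0, .ofNat 0, .ofNat 0, .ofNat 18799210587242757886872586368961810811722083426369536, .ofNat 17333911660999478257205503656048063642287261851488858140573696⟩)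
    (by decide +kernel)
theorem L07334 : Good (Phi V5.P V5.D (-1) (-1)) ⟨4, 15, 5, 21, 4, 12, 4, 12, 6, 3⟩ :=
  out_sound (S := T5.ds_mm) T5.ok_mm (w := 55) (j := 3) (by decide +kernel)
theorem L07335 : Good (Phi V5.P V5.D (-1) (-1)) ⟨6, 56, 4, 11, 4, 12, 4, 12, 6, 3⟩ :=
  out_sound (S := T5.ds_mm) T5.ok_mm (w := 65) (j := 3) (by decide +kernel)
theorem L07336 : Good (Phi V5.P V5.D (-1) (-1)) ⟨7, 114, 5, 22, 4, 12, 4, 12, 6, 3⟩ :=
  out_sound (S := T5.ds_mm) T5.ok_mm (w := 73) (j := 3) (by decide +kernel)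
theorem L07337 : Good (Phi V5.P V5.D (-1) (-1)) ⟨7, 115, 5, 22, 4, 12, 4, 12, 6, 3⟩ :=
  out_sound (S := T5.ds_mm) T5.ok_mm (w := 21) (j := 4) (by decide +kernel)
theorem L07338 : Good (Phi V5.P V5.D (-1) (-1)) ⟨6, 57, 5, 23, 4, 12, 4, 12, 6, 3⟩ :=
  out_sound (S := T5.ds_mm) T5.ok_mm (w := 67) (j := 3) (by decide +kernel)
theorem L07339 : Good (Phi V5.P V5.D (-1) (-1)) ⟨5, 29, 4, 11, 4, 12, 4, 12, 6, 3⟩ :=
  out_sound (S := T5.ds_mm) T5.ok_mm (w := 17) (j := 4) (by decide +kernel)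
theorem L07340 : Good (Phi V5.P V5.D (-1) (-1)) ⟨4, 15, 4, 11, 4, 12, 4, 12, 6, 3⟩ :=
  out_sound (S := T5.ds_mm) T5.ok_mm (w := 53) (j := 3) (by decide +kernel)
theorem L07341 : Good (Phi V5.P V5.D (-1) (-1)) ⟨3, 6, 5, 20, 4, 12, 4, 13, 5, 1⟩ :=
  out_sound (S := T5.ds_mm) T5.ok_mm (w := 49) (j := 3) (by decide +kernel)
theorem L07342 : Good (Phi V5.P V5.D (-1) (-1)) ⟨6, 56, 5, 20, 4, 12, 4, 13, 5, 1⟩ :=
  leafX_sound T5.ok_mm T5.Ymm.bz_eq (w := 274) (c := ⟨⟨.ofNat 263, .negSucc 33, .ofNat 120, .negSucc 24, .negSucc 560, .negSucc 1492⟩, ⟨.negSucc 199, .ofNat 46, .negSucc 68, .ofNat 13, .ofNat 365, .ofNat 971⟩, ⟨.negSucc 166, .negSucc 5, .negSucc 57, .ofNat 117, .ofNat 347, .ofNat 913⟩, ⟨.negSucc 145, .negSucc 10, .ofNat 164, .ofNat 71, .negSucc 953, .negSucc 2572⟩, ⟨.negSucc 805, .ofNat 59, .ofNat 11, .ofNat 161, .negSucc 247, .negSucc 708⟩, .ofNat 5256, .ofNat 7635, .ofNat 0, .ofNat 7635,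 .ofNat 11899, .ofNat 0, .ofNat 128, .negSucc 879, .negSucc 4705, .ofNat 0, .ofNat 575, .ofNat 3028, .ofNat 0, .ofNat 0, .ofNat 3668, .ofNat 2128, .ofNat 0, .ofNat 0, .ofNat 0, .ofNat 0, .ofNat 0, .ofNat 0, .ofNat 647368628737072928966995119162823628855629263667200, .ofNat 0, .ofNat 0, .ofNat 0, .ofNat 0, .ofNat 0, .ofNat 0, .ofNat 0, .ofNat 0, .ofNat 0⟩)
    (by decide +kernel)
theorem L07343 : Good (Phi V5.P V5.D (-1) (-1)) ⟨6, 57, 5, 20, 4, 12, 4, 13, 5, 1⟩ :=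
  leafX_sound T5.ok_mm T5.Ymm.bz_eq (w := 285) (c := ⟨⟨.ofNat 240, .ofNat 0, .ofNat 2, .ofNat 56, .negSucc 543, .negSucc 1316⟩, ⟨.negSucc 169, .ofNat 0, .ofNat 7, .negSucc 36, .ofNat 359, .ofNat 869⟩, ⟨.negSucc 125, .ofNat 0, .negSucc 7, .ofNat 43, .ofNat 329, .ofNat 762⟩, ⟨.negSucc 765, .ofNat 1, .negSucc 0, .ofNat 55, .negSucc 569, .negSucc 1364⟩, ⟨.negSucc 1660, .ofNat 1, .negSucc 0, .negSucc 34, .ofNat 290, .ofNat 719⟩, .ofNat 26842, .ofNat 40053, .ofNat 0, .ofNat 40053, .ofNat 60579, .ofNat 0, .ofNat 128, .negSucc 7128, .negSucc 46389, .ofNat 0, .ofNat 4727, .ofNat 30632, .ofNat 0, .ofNat 0, .ofNat 35970, .ofNat 72404, .ofNat 0, .ofNat 0, .ofNat 9573500180883753625632356089206799240860631302144, .ofNat 0, .ofNat 0, .ofNat 0, .ofNat 3881651664505641159390479547121644604005325958971129856, .ofNat 0, .ofNat 0, .ofNat 0, .ofNat 783472087876024490715213441085054604365067670670802944, .ofNat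 0, .ofNat 0, .ofNat 0, .ofNat 3119833190572213758786864473717030643600731723693817856, .ofNat 0⟩)
    (by decide +kernel)
theorem L07344 : Good (Phi V5.P V5.D (-1) (-1)) ⟨5, 29, 5, 20, 4, 12, 4, 13, 5, 1⟩ :=
  out_sound (S := T5.ds_mm) T5.ok_mm (w := 61) (j := 3) (by decide +kernel)
theorem L07345 : Good (Phi V5.P V5.D (-1) (-1)) ⟨4, 15, 5, 20, 4, 12, 4, 13, 5, 1⟩ :=
  out_sound (S := T5.ds_mm) T5.ok_mm (w := 55) (j := 3) (by decide +kernel)
theorem L07346 : Good (Phi V5.P V5.D (-1) (-1)) ⟨3, 6, 5, 21, 4, 12, 4, 13, 5, 1⟩ :=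
  out_sound (S := T5.ds_mm) T5.ok_mm (w := 49) (j := 3) (by decide +kernel)
theorem L07347 : Good (Phi V5.P V5.D (-1) (-1)) ⟨4, 14, 5, 21, 4, 12, 4, 13, 5, 1⟩ :=
  leafX_sound T5.ok_mm T5.Ymm.bz_eq (w := 266) (c := ⟨⟨.ofNat 345, .ofNat 0, .ofNat 285, .ofNat 53, .negSucc 591, .negSucc 1523⟩, ⟨.negSucc 216, .negSucc 71, .negSucc 159, .negSucc 31, .ofNat 393, .ofNat 1009⟩, ⟨.negSucc 209, .negSucc 35, .negSucc 194, .ofNat 59, .ofNat 352, .ofNat 913⟩, ⟨.negSucc 95, .ofNat 61, .ofNat 441, .ofNat 23, .negSucc 944, .negSucc 2336⟩, ⟨.negSucc 850, .ofNat 8, .ofNat 95, .negSucc 76, .negSucc 175, .negSucc 301⟩, .ofNat 5627, .ofNat 7767, .ofNat 0, .ofNat 7767, .ofNat 11439, .ofNat 0, .ofNat 128, .negSucc 977, .negSucc 5393, .ofNat 0, .ofNat 672, .ofNat 3628, .ofNat 0, .ofNat 0, .ofNat 4069, .ofNat 2322, .ofNat 0, .ofNat 0, .ofNat 1864653439822865817894167869539089336536915771392, .ofNat 1430911485638519562727340380602600590693074706364282961920,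 .ofNat 0, .ofNat 0, .ofNat 441826411267303548778638422684159294457443602399232, .ofNat 832851519865429331408255124507326408984815126945771124948992, .ofNat 0, .ofNat 0, .ofNat 1065398628752180745547658477092210706202379765678080, .ofNat 0, .ofNat 0, .ofNat 0, .ofNat 926400563493846133130126894601468909025298778947584, .ofNat 1202501904372028808305088407989466524737134476105222302203904⟩)
    (by decide +kernel)
theorem L07348 : Good (Phi V5.P V5.D (-1) (-1)) ⟨4, 15, 5, 21, 4, 12, 4, 13, 5, 1⟩ :=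
  out_sound (S := T5.ds_mm) T5.ok_mm (w := 55) (j := 3) (by decide +kernel)
theorem L07349 : Good (Phi V5.P V5.D (-1) (-1)) ⟨3, 6, 4, 11, 4, 12, 4, 13, 5, 1⟩ :=
  out_sound (S := T5.ds_mm) T5.ok_mm (w := 47) (j := 3) (by decide +kernel)
theorem L07350 : Good (Phi V5.P V5.D (-1) (-1)) ⟨6, 56, 4, 11, 4, 12, 4, 13, 5, 1⟩ :=
  out_sound (S := T5.ds_mm) T5.ok_mm (w := 65) (j := 3) (by decide +kernel)
theorem L07351 : Good (Phi V5.P V5.D (-1) (-1)) ⟨7, 114, 5, 22, 4, 12, 4, 13, 5, 1⟩ :=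
  out_sound (S := T5.ds_mm) T5.ok_mm (w := 73) (j := 3) (by decide +kernel)
theorem L07352 : Good (Phi V5.P V5.D (-1) (-1)) ⟨7, 115, 5, 22, 4, 12, 4, 13, 5, 1⟩ :=
  out_sound (S := T5.ds_mm) T5.ok_mm (w := 21) (j := 4) (by decide +kernel)
theorem L07353 : Good (Phi V5.P V5.D (-1) (-1)) ⟨6, 57, 5, 23, 4, 12, 4, 13, 5, 1⟩ :=
  out_sound (S := T5.ds_mm) T5.ok_mm (w := 67) (j := 3) (by decide +kernel)
theorem L07354 : Good (Phi V5.P V5.D (-1) (-1)) ⟨5, 29, 4, 11, 4, 12, 4, 13, 5, 1⟩ :=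
  out_sound (S := T5.ds_mm) T5.ok_mm (w := 17) (j := 4) (by decide +kernel)
theorem L07355 : Good (Phi V5.P V5.D (-1) (-1)) ⟨4, 15, 4, 11, 4, 12, 4, 13, 5, 1⟩ :=
  out_sound (S := T5.ds_mm) T5.ok_mm (w := 53) (j := 3) (by decide +kernel)
theorem L07356 : Good (Phi V5.P V5.D (-1) (-1)) ⟨2, 2, 5, 20, 4, 13, 4, 12, 4, 0⟩ :=
  out_sound (S := T5.ds_mm) T5.ok_mm (w := 43) (j := 3) (by decide +kernel)
theorem L07357 : Good (Phi V5.P V5.D (-1) (-1)) ⟨3, 6, 5, 20, 4, 13, 4, 12, 4, 0⟩ :=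
  out_sound (S := T5.ds_mm) T5.ok_mm (w := 49) (j := 3) (by decide +kernel)
theorem L07358 : Good (Phi V5.P V5.D (-1) (-1)) ⟨6, 56, 5, 20, 4, 13, 4, 12, 5, 0⟩ :=
  leafX_sound T5.ok_mm T5.Ymm.bz_eq (w := 272) (c := ⟨⟨.ofNat 1998, .negSucc 31, .ofNat 166, .negSucc 335, .negSucc 721, .negSucc 940⟩, ⟨.negSucc 1272, .negSucc 28, .negSucc 99, .ofNat 220, .ofNat 473, .ofNat 614⟩, ⟨.negSucc 982, .negSucc 91, .negSucc 19, .ofNat 495, .ofNat 397, .ofNat 479⟩, ⟨.ofNat 3146, .negSucc 0, .ofNat 276, .negSucc 326, .negSucc 1451, .negSucc 1854⟩, ⟨.ofNat 462, .ofNat 103, .ofNat 68, .ofNat 231, .negSucc 657, .negSucc 799⟩, .ofNat 3641, .ofNat 5174, .ofNat 0, .ofNat 5174, .ofNat 8143, .ofNat 0, .ofNat 128, .negSucc 997, .negSucc 3737, .ofNat 0, .ofNat 645, .ofNat 2382, .ofNat 0, .ofNat 0, .ofNat 2759, .ofNat 3492, .ofNat 0, .ofNat 0, .ofNat 0, .ofNat 0, .ofNat 0, .ofNat 0, .ofNat 587271231979885060403336298346274638123354178977792,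 .ofNat 0, .ofNat 0, .ofNat 0, .ofNat 86911700927047070903721770329873018502940945547264, .ofNat 0, .ofNat 0, .ofNat 0, .ofNat 0, .ofNat 0⟩)
    (by decide +kernel)

end Crest.Agent.R097C5.N5mm
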