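import Crest.Agent.R097.KP7
import Crest.Agent.R097.T5Ymm

/-!
# Row 97, box cover in dimension n = 5 (generated)
-/

set_option autoImplicit false
set_option Elab.async false
set_option maxHeartbeats 0
set_option maxRecDepth 100000

open Crest.Agent.R097 Crest.Agent.R097.KA


namespace Crest.Agent.R097C5.N5mm

theorem L07359 : Good (Phi V5.P V5.D (-1) (-1)) ⟨6, 56, 5, 20, 4, 13, 4, 12, 5, 1⟩ :=
  leafX_sound T5.ok_mm T5.Ymm.bz_eq (w := 274) (c := ⟨⟨.ofNat 949, .negSucc 23, .ofNat 219, .negSucc 315, .negSucc 682, .negSucc 1184⟩, ⟨.negSucc 606, .negSucc 29, .negSucc 107, .ofNat 207, .ofNat 443, .ofNat 768⟩, ⟨.negSucc 407, .negSucc 10, .negSucc 104, .ofNat 363, .ofNat 371, .ofNat 591⟩, ⟨.ofNat 1281, .negSucc 21, .ofNat 256, .negSucc 430, .negSucc 1265, .negSucc 2296⟩, ⟨.negSucc 124, .ofNat 63, .negSucc 81, .ofNat 23, .negSucc 460, .negSucc 951⟩, .ofNat 5203, .ofNat 7554,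 .ofNat 0, .ofNat 7554, .ofNat 11776, .ofNat 0, .ofNat 128, .negSucc 946, .negSucc 4052, .ofNat 0, .ofNat 614, .ofNat 2601, .ofNat 0, .ofNat 0, .ofNat 2835, .ofNat 1941, .ofNat 0, .ofNat 0, .ofNat 814982195332734114426799243866818957154342404096, .ofNat 0, .ofNat 0, .ofNat 0, .ofNat 601010032849070655102960899548766543516303123021824, .ofNat 0, .ofNat 0, .ofNat 0, .ofNat 0, .ofNat 0, .ofNat 0, .ofNat 0, .ofNat 0, .ofNat 0⟩)
    (by decide +kernel)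
theorem L07360 : Good (Phi V5.P V5.D (-1) (-1)) ⟨6, 57, 5, 20, 4, 13, 4, 12, 4, 0⟩ :=
  leafX_sound T5.ok_mm T5.Ymm.bz_eq (w := 273) (c := ⟨⟨.ofNat 2040, .ofNat 0, .negSucc 3, .negSucc 129, .negSucc 735, .negSucc 2077⟩, ⟨.negSucc 1375, .ofNat 0, .ofNat 30, .ofNat 89, .ofNat 486, .ofNat 1372⟩, ⟨.negSucc 961, .ofNat 0, .negSucc 30, .ofNat 279, .ofNat 410, .ofNat 1049⟩, ⟨.ofNat 3205, .ofNat 0, .ofNat 0, .negSucc 171, .negSucc 1299, .negSucc 3965⟩, ⟨.ofNat 513, .ofNat 0, .ofNat 0, .ofNat 21, .negSucc 398, .negSucc 1571⟩, .ofNat 6369, .ofNat 9219, .ofNat 0, .ofNat 9219, .ofNat 14134, .ofNat 0, .ofNat 128, .negSucc 5105, .negSucc 14350, .ofNat 0, .ofNat 3361, .ofNat 9377, .ofNat 0, .ofNat 0, .ofNat 10263, .ofNat 23292, .ofNat 0, .ofNat 0, .ofNat 77436880709433355920909121090546598676847919104, .ofNat 0, .ofNat 0, .ofNat 0, .ofNat 14483193312613923719447249128560725195631731851395072,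 .ofNat 0, .ofNat 0, .ofNat 0, .ofNat 363592277921389083555650186010417558784379965145088, .ofNat 0, .ofNat 0, .ofNat 0, .ofNat 10658163781759329650860913174370690675550583733092352, .ofNat 0⟩)
    (by decide +kernel)
theorem L07361 : Good (Phi V5.P V5.D (-1) (-1)) ⟨5, 29, 5, 20, 4, 13, 4, 12, 4, 0⟩ :=
  out_sound (S := T5.ds_mm) T5.ok_mm (w := 61) (j := 3) (by decide +kernel)
theorem L07362 : Good (Phi V5.P V5.D (-1) (-1)) ⟨4, 15, 5, 20, 4, 13, 4, 12, 4, 0⟩ :=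
  out_sound (S := T5.ds_mm) T5.ok_mm (w := 55) (j := 3) (by decide +kernel)
theorem L07363 : Good (Phi V5.P V5.D (-1) (-1)) ⟨2, 2, 5, 21, 4, 13, 4, 12, 4, 0⟩ :=
  out_sound (S := T5.ds_mm) T5.ok_mm (w := 43) (j := 3) (by decide +kernel)
theorem L07364 : Good (Phi V5.P V5.D (-1) (-1)) ⟨3, 6, 5, 21, 4, 13, 4, 12, 4, 0⟩ :=
  out_sound (S := T5.ds_mm) T5.ok_mm (w := 49) (j := 3) (by decide +kernel)
theorem L07365 : Good (Phi V5.P V5.D (-1) (-1)) ⟨6, 56, 6, 42, 4, 13, 4, 12, 4, 0⟩ :=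
  leafX_sound T5.ok_mm T5.Ymm.bz_eq (w := 279) (c := ⟨⟨.ofNat 2038, .ofNat 0, .negSucc 239, .negSucc 71, .negSucc 731, .negSucc 2100⟩, ⟨.negSucc 1345, .ofNat 0, .ofNat 174, .ofNat 49, .ofNat 483, .ofNat 1383⟩, ⟨.negSucc 980, .ofNat 0, .ofNat 255, .ofNat 247, .ofNat 387, .ofNat 1050⟩, ⟨.ofNat 2756, .ofNat 0, .negSucc 194, .negSucc 96, .negSucc 1314, .negSucc 3239⟩, ⟨.negSucc 155, .ofNat 0, .ofNat 71, .ofNat 6, .negSucc 430, .negSucc 436⟩, .ofNat 14678, .ofNat 21733, .ofNat 0, .ofNat 21733, .ofNat 32984, .ofNat 0, .ofNat 128, .negSucc 6236, .negSucc 17430, .ofNat 0, .ofNat 4123, .ofNat 11481, .ofNat 0, .ofNat 0, .ofNat 12555, .ofNat 14484, .ofNat 0, .ofNat 0, .ofNat 814550525620789056257613559754328803817369370624, .ofNat 0, .ofNat 0, .ofNat 0, .ofNat 2664125962572701860558735583136009457462299326414848, .ofNat 0, .ofNat 0, .ofNat 0, .ofNat 3595144749645591561564748742277049659340141575012352,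 .ofNat 0, .ofNat 0, .ofNat 0, .ofNat 2972478078072062540062761005412862020606199859249152, .ofNat 0⟩)
    (by decide +kernel)
theorem L07366 : Good (Phi V5.P V5.D (-1) (-1)) ⟨6, 56, 6, 43, 4, 13, 4, 12, 4, 0⟩ :=
  out_sound (S := T5.ds_mm) T5.ok_mm (w := 69) (j := 3) (by decide +kernel)
theorem L07367 : Good (Phi V5.P V5.D (-1) (-1)) ⟨7, 114, 6, 42, 4, 13, 4, 12, 5, 0⟩ :=
  leafX_sound T5.ok_mm T5.Ymm.bz_eq (w := 282) (c := ⟨⟨.ofNat 2097, .ofNat 58, .ofNat 77, .negSucc 263, .negSucc 754, .negSucc 1021⟩, ⟨.negSucc 1392, .negSucc 10, .negSucc 76, .ofNat 178, .ofNat 504, .ofNat 682⟩, ⟨.negSucc 1075, .negSucc 46, .negSucc 37, .ofNat 448, .ofNat 426, .ofNat 539⟩, ⟨.ofNat 3343, .ofNat 78, .ofNat 112, .negSucc 232, .negSucc 1427, .negSucc 1986⟩, ⟨.ofNat 591, .ofNat 4, .ofNat 13, .ofNat 211, .negSucc 548, .negSucc 824⟩, .ofNat 6011, .ofNat 8592, .ofNat 0, .ofNat 8592, .ofNat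 13047, .ofNat 0, .ofNat 128, .negSucc 1464, .negSucc 4670, .ofNat 0, .ofNat 973, .ofNat 3080, .ofNat 0, .ofNat 0, .ofNat 3413, .ofNat 7612, .ofNat 0, .ofNat 0, .ofNat 1646024711674704724682044603285486971726518550528, .ofNat 0, .ofNat 0, .ofNat 0, .ofNat 5281907549315191012149360986838651548102470437699584, .ofNat 0, .ofNat 0, .ofNat 0, .ofNat 997869740739684693175901237159758406472246430269440, .ofNat 0, .ofNat 0, .ofNat 0, .ofNat 1186454842281796594277685070564293742536026090373120, .ofNat 783334311922196842747254218104246821699099930267917863784284160⟩)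
    (by decide +kernel)
theorem L07368 : Good (Phi V5.P V5.D (-1) (-1)) ⟨7, 114, 6, 42, 4, 13, 4, 12, 5, 1⟩ :=
  leafX_sound T5.ok_mm T5.Ymm.bz_eq (w := 282) (c := ⟨⟨.ofNat 1084, .ofNat 100, .ofNat 75, .negSucc 303, .negSucc 788, .negSucc 1142⟩, ⟨.negSucc 726, .negSucc 109, .negSucc 23, .ofNat 204, .ofNat 527, .ofNat 763⟩, ⟨.negSucc 477, .ofNat 150, .negSucc 148, .ofNat 362, .ofNat 429, .ofNat 552⟩, ⟨.ofNat 1462, .ofNat 55, .ofNat 173, .negSucc 399, .negSucc 1445, .negSucc 2209⟩, ⟨.negSucc 96, .ofNat 19, .ofNat 36, .ofNat 42, .negSucc 504, .negSucc 902⟩, .ofNat 4519, .ofNat 6403, .ofNat 0, .ofNat 6403, .ofNat 9836, .ofNat 0, .ofNat 128, .negSucc 2049, .negSucc 9067, .ofNat 0, .ofNat 1352, .ofNat 5921, .ofNat 0, .ofNat 0, .ofNat 6096, .ofNat 5453, .ofNat 0, .ofNat 0, .ofNat 1992699249138397220109832838894083443842938306560, .ofNat 1297725536006419680576676768244038293670198543889537855127552,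 .ofNat 0, .ofNat 0, .ofNat 1095866431390404150445633511895967250622002315132928, .ofNat 0, .ofNat 0, .ofNat 0, .ofNat 1972225805084187225217789064164200799005999194177536, .ofNat 2692498924498207446746477078390882873241705583988247508455260160, .ofNat 0, .ofNat 0, .ofNat 1502229420075337251743430882983400414931775981092864, .ofNat 4571543001820958508198751640615017622633827620638130217959817216⟩)
    (by decide +kernel)
theorem L07369 : Good (Phi V5.P V5.D (-1) (-1)) ⟨8, 228, 6, 43, 4, 13, 4, 12, 4, 0⟩ :=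
  out_sound (S := T5.ds_mm) T5.ok_mm (w := 81) (j := 3) (by decide +kernel)
theorem L07370 : Good (Phi V5.P V5.D (-1) (-1)) ⟨8, 229, 6, 43, 4, 13, 4, 12, 4, 0⟩ :=
  out_sound (S := T5.ds_mm) T5.ok_mm (w := 23) (j := 4) (by decide +kernel)
theorem L07371 : Good (Phi V5.P V5.D (-1) (-1)) ⟨7, 115, 5, 21, 4, 13, 4, 12, 4, 0⟩ :=
  out_sound (S := T5.ds_mm) T5.ok_mm (w := 21) (j := 4) (by decide +kernel)
theorem L07372 : Good (Phi V5.P V5.D (-1) (-1)) ⟨5, 29, 5, 21, 4, 13, 4, 12, 4, 0⟩ :=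
  out_sound (S := T5.ds_mm) T5.ok_mm (w := 61) (j := 3) (by decide +kernel)
theorem L07373 : Good (Phi V5.P V5.D (-1) (-1)) ⟨4, 15, 5, 21, 4, 13, 4, 12, 4, 0⟩ :=
  out_sound (S := T5.ds_mm) T5.ok_mm (w := 55) (j := 3) (by decide +kernel)
theorem L07374 : Good (Phi V5.P V5.D (-1) (-1)) ⟨2, 2, 4, 11, 4, 13, 4, 12, 4, 0⟩ :=
  out_sound (S := T5.ds_mm) T5.ok_mm (w := 41) (j := 3) (by decide +kernel)
theorem L07375 : Good (Phi V5.P V5.D (-1) (-1)) ⟨3, 6, 4, 11, 4, 13, 4, 12, 4, 0⟩ :=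
  out_sound (S := T5.ds_mm) T5.ok_mm (w := 47) (j := 3) (by decide +kernel)
theorem L07376 : Good (Phi V5.P V5.D (-1) (-1)) ⟨6, 56, 4, 11, 4, 13, 4, 12, 4, 0⟩ :=
  out_sound (S := T5.ds_mm) T5.ok_mm (w := 65) (j := 3) (by decide +kernel)
theorem L07377 : Good (Phi V5.P V5.D (-1) (-1)) ⟨7, 114, 5, 22, 4, 13, 4, 12, 4, 0⟩ :=
  out_sound (S := T5.ds_mm) T5.ok_mm (w := 73) (j := 3) (by decide +kernel)
theorem L07378 : Good (Phi V5.P V5.D (-1) (-1)) ⟨7, 115, 5, 22, 4, 13, 4, 12, 4, 0⟩ :=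
  out_sound (S := T5.ds_mm) T5.ok_mm (w := 21) (j := 4) (by decide +kernel)
theorem L07379 : Good (Phi V5.P V5.D (-1) (-1)) ⟨6, 57, 5, 23, 4, 13, 4, 12, 4, 0⟩ :=
  out_sound (S := T5.ds_mm) T5.ok_mm (w := 67) (j := 3) (by decide +kernel)
theorem L07380 : Good (Phi V5.P V5.D (-1) (-1)) ⟨5, 29, 4, 11, 4, 13, 4, 12, 4, 0⟩ :=
  out_sound (S := T5.ds_mm) T5.ok_mm (w := 17) (j := 4) (by decide +kernel)
theorem L07381 : Good (Phi V5.P V5.D (-1) (-1)) ⟨4, 15, 4, 11, 4, 13, 4, 12, 4, 0⟩ :=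
  out_sound (S := T5.ds_mm) T5.ok_mm (w := 53) (j := 3) (by decide +kernel)
theorem L07382 : Good (Phi V5.P V5.D (-1) (-1)) ⟨2, 2, 5, 20, 4, 13, 4, 13, 4, 0⟩ :=
  out_sound (S := T5.ds_mm) T5.ok_mm (w := 43) (j := 3) (by decide +kernel)
theorem L07383 : Good (Phi V5.P V5.D (-1) (-1)) ⟨3, 6, 5, 20, 4, 13, 4, 13, 4, 0⟩ :=
  out_sound (S := T5.ds_mm) T5.ok_mm (w := 49) (j := 3) (by decide +kernel)
theorem L07384 : Good (Phi V5.P V5.D (-1) (-1)) ⟨7, 112, 5, 20, 4, 13, 4, 13, 4, 0⟩ :=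
  leafX_sound T5.ok_mm T5.Ymm.bz_eq (w := 277) (c := ⟨⟨.ofNat 1112, .negSucc 120, .negSucc 82, .negSucc 285, .negSucc 688, .negSucc 1619⟩, ⟨.negSucc 705, .ofNat 64, .ofNat 81, .ofNat 183, .ofNat 439, .ofNat 1033⟩, ⟨.negSucc 377, .ofNat 44, .ofNat 175, .ofNat 310, .ofNat 366, .ofNat 698⟩, ⟨.ofNat 1113, .negSucc 159, .negSucc 111, .negSucc 438, .negSucc 1074, .negSucc 2381⟩, ⟨.negSucc 725, .ofNat 15, .ofNat 33, .negSucc 49, .negSucc 149, .negSucc 126⟩, .ofNat 12754, .ofNat 19453, .ofNat 0, .ofNat 19453, .ofNat 30530, .ofNat 0, .ofNat 128, .negSucc 1536, .negSucc 7459, .ofNat 0, .ofNat 985, .ofNat 4769, .ofNat 0, .ofNat 0, .ofNat 5378, .ofNat 3571, .ofNat 0, .ofNat 0, .ofNat 20128386377467096036013033415973768154344062976, .ofNat 0, .ofNat 0, .ofNat 0, .ofNat 0, .ofNat 0, .ofNat 0, .ofNat 0, .ofNat 27836789449953677593896707514332205322981928337408, .ofNat 0, .ofNat 0,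 .ofNat 0, .ofNat 18581739096232549365153217710167800565699012722688, .ofNat 0⟩)
    (by decide +kernel)
theorem L07385 : Good (Phi V5.P V5.D (-1) (-1)) ⟨7, 113, 5, 20, 5, 26, 4, 13, 4, 0⟩ :=
  leafX_sound T5.ok_mm T5.Ymm.bz_eq (w := 287) (c := ⟨⟨.ofNat 1032, .ofNat 52, .ofNat 142, .negSucc 99, .negSucc 740, .negSucc 1834⟩, ⟨.negSucc 684, .negSucc 52, .negSucc 57, .ofNat 64, .ofNat 482, .ofNat 1192⟩, ⟨.negSucc 390, .negSucc 47, .negSucc 64, .ofNat 131, .ofNat 422, .ofNat 894⟩, ⟨.ofNat 1426, .ofNat 75, .ofNat 182, .negSucc 144, .negSucc 1309, .negSucc 3374⟩, ⟨.negSucc 59, .ofNat 8, .negSucc 9, .negSucc 3, .negSucc 404, .negSucc 1195⟩, .ofNat 5094, .ofNat 7375, .ofNat 0, .ofNat 7375, .ofNat 11480, .ofNat 0, .ofNat 128, .negSucc 1181, .negSucc 4858, .ofNat 0, .ofNat 769, .ofNat 3123, .ofNat 0, .ofNat 0, .ofNat 3578, .ofNat 2063, .ofNat 0, .ofNat 0, .ofNat 88138893346211735543621539100449243340374139731968,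 .ofNat 0, .ofNat 0, .ofNat 0, .ofNat 77119394873718691181487092699706165833361547165958144, .ofNat 0, .ofNat 0, .ofNat 0, .ofNat 0, .ofNat 0, .ofNat 0, .ofNat 0, .ofNat 0, .ofNat 0⟩)
    (by decide +kernel)
theorem L07386 : Good (Phi V5.P V5.D (-1) (-1)) ⟨7, 113, 5, 20, 5, 27, 4, 13, 4, 0⟩ :=
  leafX_sound T5.ok_mm T5.Ymm.bz_eq (w := 287) (c := ⟨⟨.ofNat 684, .negSucc 67, .ofNat 88, .negSucc 124, .negSucc 657, .negSucc 1354⟩, ⟨.negSucc 455, .ofNat 32, .negSucc 31, .ofNat 80, .ofNat 427, .ofNat 880⟩, ⟨.negSucc 21, .ofNat 37, .negSucc 21, .ofNat 133, .ofNat 322, .ofNat 470⟩, ⟨.ofNat 1000, .negSucc 68, .ofNat 78, .negSucc 210, .negSucc 1261, .negSucc 2740⟩, ⟨.ofNat 40, .ofNat 43, .negSucc 52, .negSucc 52, .negSucc 509, .negSucc 1262⟩, .ofNat 5094, .ofNat 7375, .ofNat 0, .ofNat 7375, .ofNat 11480, .ofNat 0, .ofNat 128, .negSucc 1028, .negSucc 4859, .ofNat 0, .ofNat 667,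 .ofNat 3119, .ofNat 0, .ofNat 0, .ofNat 3365, .ofNat 3304, .ofNat 0, .ofNat 0, .ofNat 115828901294468443343700275618064269272814194786304, .ofNat 0, .ofNat 0, .ofNat 0, .ofNat 356153656230907190293116466692781251320311952982409216, .ofNat 0, .ofNat 0, .ofNat 0, .ofNat 0, .ofNat 0, .ofNat 0, .ofNat 0, .ofNat 0, .ofNat 0⟩)
    (by decide +kernel)
theorem L07387 : Good (Phi V5.P V5.D (-1) (-1)) ⟨6, 57, 5, 20, 4, 13, 4, 13, 4, 0⟩ :=
  leafX_sound T5.ok_mm T5.Ymm.bz_eq (w := 277) (c := ⟨⟨.ofNat 1030, .ofNat 0, .ofNat 68, .negSucc 272, .negSucc 777, .negSucc 1655⟩, ⟨.negSucc 777, .ofNat 0, .ofNat 54, .ofNat 180, .ofNat 512, .ofNat 1089⟩, ⟨.negSucc 436, .ofNat 0, .ofNat 67, .ofNat 310, .ofNat 419, .ofNat 700⟩, ⟨.ofNat 1094, .ofNat 0, .ofNat 0, .negSucc 345, .negSucc 1179, .negSucc 2504⟩, ⟨.negSucc 670, .ofNat 0, .negSucc 0, .ofNat 55, .negSucc 134, .negSucc 276⟩, .ofNat 14070,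 .ofNat 20816, .ofNat 0, .ofNat 20816, .ofNat 31604, .ofNat 0, .ofNat 128, .negSucc 6577, .negSucc 27107, .ofNat 0, .ofNat 4347, .ofNat 17844, .ofNat 0, .ofNat 0, .ofNat 19373, .ofNat 31548, .ofNat 0, .ofNat 0, .ofNat 24413496304916384296212354097406597977062779125760, .ofNat 0, .ofNat 0, .ofNat 0, .ofNat 69537382581629489725989120820451445225242718480891904, .ofNat 0, .ofNat 0, .ofNat 0, .ofNat 10052811065600867448479462166460191109338095905931264, .ofNat 0, .ofNat 0, .ofNat 0, .ofNat 1216078830661188264190360715198038774674697960292352, .ofNat 0⟩)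
    (by decide +kernel)
theorem L07388 : Good (Phi V5.P V5.D (-1) (-1)) ⟨5, 29, 5, 20, 4, 13, 4, 13, 4, 0⟩ :=
  out_sound (S := T5.ds_mm) T5.ok_mm (w := 61) (j := 3) (by decide +kernel)
theorem L07389 : Good (Phi V5.P V5.D (-1) (-1)) ⟨4, 15, 5, 20, 4, 13, 4, 13, 4, 0⟩ :=
  out_sound (S := T5.ds_mm) T5.ok_mm (w := 55) (j := 3) (by decide +kernel)
theorem L07390 : Good (Phi V5.P V5.D (-1) (-1)) ⟨2, 2, 5, 21, 4, 13, 4, 13, 4, 0⟩ :=
  out_sound (S := T5.ds_mm) T5.ok_mm (w := 43) (j := 3) (by decide +kernel)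
theorem L07391 : Good (Phi V5.P V5.D (-1) (-1)) ⟨3, 6, 5, 21, 4, 13, 4, 13, 4, 0⟩ :=
  out_sound (S := T5.ds_mm) T5.ok_mm (w := 49) (j := 3) (by decide +kernel)
theorem L07392 : Good (Phi V5.P V5.D (-1) (-1)) ⟨6, 56, 5, 21, 4, 13, 4, 13, 4, 0⟩ :=
  leafX_sound T5.ok_mm T5.Ymm.bz_eq (w := 276) (c := ⟨⟨.ofNat 1015, .ofNat 0, .negSucc 36, .negSucc 220, .negSucc 701, .negSucc 1682⟩, ⟨.negSucc 669, .ofNat 0, .ofNat 46, .ofNat 146, .ofNat 462, .ofNat 1107⟩, ⟨.negSucc 302, .ofNat 0, .negSucc 112, .ofNat 262, .ofNat 364, .ofNat 725⟩, ⟨.ofNat 821, .negSucc 0, .negSucc 23, .negSucc 262, .negSucc 992, .negSucc 2399⟩, ⟨.negSucc 908, .ofNat 0, .ofNat 8, .ofNat 72, .negSucc 12, .negSucc 60⟩, .ofNat 14648, .ofNat 21688, .ofNat 0, .ofNat 21688, .ofNat 32917, .ofNat 0, .ofNat 128, .negSucc 5131, .negSucc 17467, .ofNat 0, .ofNat 3392, .ofNat 11504, .ofNat 0, .ofNat 0, .ofNat 12507, .ofNat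 16166, .ofNat 0, .ofNat 0, .ofNat 0, .ofNat 0, .ofNat 0, .ofNat 0, .ofNat 166287277045665127485481436991842993902622303322112, .ofNat 0, .ofNat 0, .ofNat 0, .ofNat 500233932275271154155666981765510289081913508364288, .ofNat 0, .ofNat 0, .ofNat 0, .ofNat 648194625838395272968022644115459982347569563959296, .ofNat 0⟩)
    (by decide +kernel)
theorem L07393 : Good (Phi V5.P V5.D (-1) (-1)) ⟨8, 228, 6, 42, 4, 13, 4, 13, 5, 0⟩ :=
  leafX_sound T5.ok_mm T5.Ymm.bz_eq (w := 286) (c := ⟨⟨.ofNat 1310, .ofNat 20, .ofNat 17, .negSucc 342, .negSucc 855, .negSucc 1025⟩, ⟨.negSucc 874, .negSucc 24, .negSucc 0, .ofNat 232, .ofNat 573, .ofNat 684⟩, ⟨.negSucc 574, .ofNat 9, .negSucc 37, .ofNat 417, .ofNat 495, .ofNat 506⟩, ⟨.ofNat 1991, .negSucc 28, .ofNat 64, .negSucc 502, .negSucc 1691, .negSucc 1955⟩, ⟨.ofNat 219, .negSucc 22, .ofNat 5, .negSucc 27, .negSucc 728, .negSucc 771⟩, .ofNat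 4495, .ofNat 6369, .ofNat 0, .ofNat 6369, .ofNat 9788, .ofNat 0, .ofNat 128, .negSucc 2484, .negSucc 8181, .ofNat 0, .ofNat 1638, .ofNat 5343, .ofNat 0, .ofNat 0, .ofNat 5881, .ofNat 6962, .ofNat 0, .ofNat 0, .ofNat 0, .ofNat 0, .ofNat 0, .ofNat 0, .ofNat 0, .ofNat 0, .ofNat 0, .ofNat 0, .ofNat 0, .ofNat 0, .ofNat 0, .ofNat 0, .ofNat 0, .ofNat 0⟩)
    (by decide +kernel)
theorem L07394 : Good (Phi V5.P V5.D (-1) (-1)) ⟨8, 228, 6, 42, 4, 13, 4, 13, 5, 1⟩ :=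
  leafX_sound T5.ok_mm T5.Ymm.bz_eq (w := 288) (c := ⟨⟨.negSucc 83, .ofNat 44, .ofNat 61, .negSucc 128, .negSucc 440, .negSucc 763⟩, ⟨.ofNat 47, .negSucc 69, .ofNat 13, .ofNat 87, .ofNat 295, .ofNat 510⟩, ⟨.ofNat 257, .negSucc 69, .ofNat 8, .ofNat 167, .ofNat 195, .ofNat 282⟩, ⟨.negSucc 545, .ofNat 135, .ofNat 66, .negSucc 229, .negSucc 897, .negSucc 1512⟩, ⟨.negSucc 649, .ofNat 42, .ofNat 52, .negSucc 74, .negSucc 418, .negSucc 657⟩, .ofNat 7196, .ofNat 10414, .ofNat 0, .ofNat 10414, .ofNat 15850, .ofNat 0, .ofNat 128, .negSucc 2082, .negSucc 11139, .ofNat 0, .ofNat 1379, .ofNat 7330, .ofNat 0, .ofNat 0, .ofNat 7627, .ofNat 7974, .ofNat 0, .ofNat 0, .ofNat 1991050996510241531863529538022742760997888458752, .ofNat 0, .ofNat 0, .ofNat 0, .ofNat 2296437751427106326945489691999056567597832354136064, .ofNat 0, .ofNat 0, .ofNat 0, .ofNat 0, .ofNat 0, .ofNat 0, .ofNat 0,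 .ofNat 0, .ofNat 0⟩)
    (by decide +kernel)
theorem L07395 : Good (Phi V5.P V5.D (-1) (-1)) ⟨8, 229, 6, 42, 4, 13, 4, 13, 4, 0⟩ :=
  out_sound (S := T5.ds_mm) T5.ok_mm (w := 23) (j := 4) (by decide +kernel)
theorem L07396 : Good (Phi V5.P V5.D (-1) (-1)) ⟨8, 228, 6, 43, 4, 13, 4, 13, 4, 0⟩ :=
  out_sound (S := T5.ds_mm) T5.ok_mm (w := 81) (j := 3) (by decide +kernel)
theorem L07397 : Good (Phi V5.P V5.D (-1) (-1)) ⟨8, 229, 6, 43, 4, 13, 4, 13, 4, 0⟩ :=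
  out_sound (S := T5.ds_mm) T5.ok_mm (w := 23) (j := 4) (by decide +kernel)
theorem L07398 : Good (Phi V5.P V5.D (-1) (-1)) ⟨7, 115, 5, 21, 4, 13, 4, 13, 4, 0⟩ :=
  out_sound (S := T5.ds_mm) T5.ok_mm (w := 21) (j := 4) (by decide +kernel)
theorem L07399 : Good (Phi V5.P V5.D (-1) (-1)) ⟨5, 29, 5, 21, 4, 13, 4, 13, 4, 0⟩ :=
  out_sound (S := T5.ds_mm) T5.ok_mm (w := 61) (j := 3) (by decide +kernel)
theorem L07400 : Good (Phi V5.P V5.D (-1) (-1)) ⟨4, 15, 5, 21, 4, 13, 4, 13, 4, 0⟩ :=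
  out_sound (S := T5.ds_mm) T5.ok_mm (w := 55) (j := 3) (by decide +kernel)
theorem L07401 : Good (Phi V5.P V5.D (-1) (-1)) ⟨2, 2, 4, 11, 4, 13, 4, 13, 4, 0⟩ :=
  out_sound (S := T5.ds_mm) T5.ok_mm (w := 41) (j := 3) (by decide +kernel)
theorem L07402 : Good (Phi V5.P V5.D (-1) (-1)) ⟨3, 6, 4, 11, 4, 13, 4, 13, 4, 0⟩ :=
  out_sound (S := T5.ds_mm) T5.ok_mm (w := 47) (j := 3) (by decide +kernel)
theorem L07403 : Good (Phi V5.P V5.D (-1) (-1)) ⟨6, 56, 4, 11, 4, 13, 4, 13, 4, 0⟩ :=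
  out_sound (S := T5.ds_mm) T5.ok_mm (w := 65) (j := 3) (by decide +kernel)
theorem L07404 : Good (Phi V5.P V5.D (-1) (-1)) ⟨7, 114, 5, 22, 4, 13, 4, 13, 4, 0⟩ :=
  out_sound (S := T5.ds_mm) T5.ok_mm (w := 73) (j := 3) (by decide +kernel)
theorem L07405 : Good (Phi V5.P V5.D (-1) (-1)) ⟨7, 115, 5, 22, 4, 13, 4, 13, 4, 0⟩ :=
  out_sound (S := T5.ds_mm) T5.ok_mm (w := 21) (j := 4) (by decide +kernel)
theorem L07406 : Good (Phi V5.P V5.D (-1) (-1)) ⟨6, 57, 5, 23, 4, 13, 4, 13, 4, 0⟩ :=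
  out_sound (S := T5.ds_mm) T5.ok_mm (w := 67) (j := 3) (by decide +kernel)
theorem L07407 : Good (Phi V5.P V5.D (-1) (-1)) ⟨5, 29, 4, 11, 4, 13, 4, 13, 4, 0⟩ :=
  out_sound (S := T5.ds_mm) T5.ok_mm (w := 17) (j := 4) (by decide +kernel)
theorem L07408 : Good (Phi V5.P V5.D (-1) (-1)) ⟨4, 15, 4, 11, 4, 13, 4, 13, 4, 0⟩ :=
  out_sound (S := T5.ds_mm) T5.ok_mm (w := 53) (j := 3) (by decide +kernel)
theorem L07409 : Good (Phi V5.P V5.D (-1) (-1)) ⟨2, 2, 3, 5, 4, 12, 5, 24, 5, 2⟩ :=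
  out_sound (S := T5.ds_mm) T5.ok_mm (w := 39) (j := 3) (by decide +kernel)
theorem L07410 : Good (Phi V5.P V5.D (-1) (-1)) ⟨3, 6, 5, 20, 4, 12, 5, 24, 6, 4⟩ :=
  out_sound (S := T5.ds_mm) T5.ok_mm (w := 49) (j := 3) (by decide +kernel)
theorem L07411 : Good (Phi V5.P V5.D (-1) (-1)) ⟨5, 28, 5, 20, 4, 12, 5, 24, 6, 4⟩ :=
  leafX_sound T5.ok_mm T5.Ymm.bz_eq (w := 277) (c := ⟨⟨.negSucc 1170, .negSucc 93, .ofNat 72, .ofNat 631, .negSucc 273, .negSucc 1368⟩, ⟨.ofNat 732, .ofNat 35, .ofNat 9, .negSucc 411, .ofNat 181, .ofNat 892⟩, ⟨.ofNat 784, .negSucc 13, .negSucc 18, .negSucc 410, .ofNat 171, .ofNat 854⟩, ⟨.negSucc 2411, .negSucc 95, .ofNat 77, .ofNat 910, .negSucc 486, .negSucc 2272⟩, ⟨.negSucc 1159, .ofNat 36, .negSucc 24, .ofNat 28, .negSucc 151, .negSucc 516⟩, .ofNat 3968, .ofNat 5601, .ofNat 0, .ofNat 5601, .ofNat 8683, .ofNat 0, .ofNat 128, .negSucc 795, .negSucc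 3367, .ofNat 0, .ofNat 525, .ofNat 2177, .ofNat 0, .ofNat 0, .ofNat 2463, .ofNat 2090, .ofNat 0, .ofNat 0, .ofNat 0, .ofNat 0, .ofNat 0, .ofNat 0, .ofNat 501043422691282057264723880809826457837122076262006784, .ofNat 0, .ofNat 0, .ofNat 0, .ofNat 0, .ofNat 0, .ofNat 0, .ofNat 0, .ofNat 317005307002032715931330721154178915101391237798690816, .ofNat 1246165988971438088707934797705477115409244950682543708375613440⟩)
    (by decide +kernel)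
theorem L07412 : Good (Phi V5.P V5.D (-1) (-1)) ⟨5, 29, 5, 20, 4, 12, 5, 24, 6, 4⟩ :=
  out_sound (S := T5.ds_mm) T5.ok_mm (w := 61) (j := 3) (by decide +kernel)
theorem L07413 : Good (Phi V5.P V5.D (-1) (-1)) ⟨4, 15, 5, 20, 4, 12, 5, 24, 6, 4⟩ :=
  out_sound (S := T5.ds_mm) T5.ok_mm (w := 55) (j := 3) (by decide +kernel)
theorem L07414 : Good (Phi V5.P V5.D (-1) (-1)) ⟨3, 6, 5, 21, 4, 12, 5, 24, 6, 4⟩ :=
  out_sound (S := T5.ds_mm) T5.ok_mm (w := 49) (j := 3) (by decide +kernel)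
theorem L07415 : Good (Phi V5.P V5.D (-1) (-1)) ⟨4, 14, 5, 21, 4, 12, 5, 24, 6, 4⟩ :=
  leafX_sound T5.ok_mm T5.Ymm.bz_eq (w := 275) (c := ⟨⟨.negSucc 1062, .negSucc 41, .negSucc 18, .ofNat 600, .negSucc 293, .negSucc 1388⟩, ⟨.ofNat 713, .negSucc 31, .ofNat 64, .negSucc 397, .ofNat 194, .ofNat 920⟩, ⟨.ofNat 713, .negSucc 16, .ofNat 40, .negSucc 377, .ofNat 179, .ofNat 840⟩, ⟨.negSucc 2422, .ofNat 0, .negSucc 25, .ofNat 794, .negSucc 428, .negSucc 2038⟩, ⟨.negSucc 1376, .negSucc 0, .ofNat 26, .negSucc 66, .negSucc 25, .negSucc 141⟩, .ofNat 5387, .ofNat 7421, .ofNat 0, .ofNat 7421, .ofNat 10940, .ofNat 0, .ofNat 128, .negSucc 1060, .negSucc 4397, .ofNat 0, .ofNat 729, .ofNat 2961, .ofNat 0, .ofNat 0, .ofNat 3148, .ofNat 2277, .ofNat 0, .ofNat 0, .ofNat 726704035202925773196750095995001342533342605606912, .ofNat 572161255072940875664274210437108607355922951047036025176064,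 .ofNat 0, .ofNat 0, .ofNat 349158029193985078947255382293022776101693676943572992, .ofNat 300117619057582686428401242664585762797628839155551050571710464, .ofNat 0, .ofNat 0, .ofNat 664634505032450516794769435957229464804061450801774592, .ofNat 0, .ofNat 0, .ofNat 0, .ofNat 729371870700253575918415058669347144095423216987668480, .ofNat 450168881476475491589348979403994886992563025882888280999985152⟩)
    (by decide +kernel)
theorem L07416 : Good (Phi V5.P V5.D (-1) (-1)) ⟨4, 15, 5, 21, 4, 12, 5, 24, 6, 4⟩ :=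
  out_sound (S := T5.ds_mm) T5.ok_mm (w := 55) (j := 3) (by decide +kernel)
theorem L07417 : Good (Phi V5.P V5.D (-1) (-1)) ⟨3, 6, 4, 11, 4, 12, 5, 24, 6, 4⟩ :=
  out_sound (S := T5.ds_mm) T5.ok_mm (w := 47) (j := 3) (by decide +kernel)
theorem L07418 : Good (Phi V5.P V5.D (-1) (-1)) ⟨6, 56, 4, 11, 4, 12, 5, 24, 6, 4⟩ :=
  out_sound (S := T5.ds_mm) T5.ok_mm (w := 65) (j := 3) (by decide +kernel)
theorem L07419 : Good (Phi V5.P V5.D (-1) (-1)) ⟨7, 114, 5, 22, 4, 12, 5, 24, 6, 4⟩ :=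
  out_sound (S := T5.ds_mm) T5.ok_mm (w := 73) (j := 3) (by decide +kernel)
theorem L07420 : Good (Phi V5.P V5.D (-1) (-1)) ⟨7, 115, 5, 22, 4, 12, 5, 24, 6, 4⟩ :=
  out_sound (S := T5.ds_mm) T5.ok_mm (w := 21) (j := 4) (by decide +kernel)
theorem L07421 : Good (Phi V5.P V5.D (-1) (-1)) ⟨6, 57, 5, 23, 4, 12, 5, 24, 6, 4⟩ :=
  out_sound (S := T5.ds_mm) T5.ok_mm (w := 67) (j := 3) (by decide +kernel)
theorem L07422 : Good (Phi V5.P V5.D (-1) (-1)) ⟨5, 29, 4, 11, 4, 12, 5, 24, 6, 4⟩ :=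
  out_sound (S := T5.ds_mm) T5.ok_mm (w := 17) (j := 4) (by decide +kernel)
theorem L07423 : Good (Phi V5.P V5.D (-1) (-1)) ⟨4, 15, 4, 11, 4, 12, 5, 24, 6, 4⟩ :=
  out_sound (S := T5.ds_mm) T5.ok_mm (w := 53) (j := 3) (by decide +kernel)
theorem L07424 : Good (Phi V5.P V5.D (-1) (-1)) ⟨3, 6, 3, 5, 4, 12, 5, 24, 6, 5⟩ :=
  out_sound (S := T5.ds_mm) T5.ok_mm (w := 45) (j := 3) (by decide +kernel)
theorem L07425 : Good (Phi V5.P V5.D (-1) (-1)) ⟨6, 56, 4, 10, 4, 12, 5, 24, 6, 5⟩ :=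
  leafX_sound T5.ok_mm T5.Ymm.bz_eq (w := 279) (c := ⟨⟨.negSucc 2714, .negSucc 245, .ofNat 81, .ofNat 852, .negSucc 37, .negSucc 649⟩, ⟨.ofNat 1733, .ofNat 135, .ofNat 111, .negSucc 553, .ofNat 24, .ofNat 422⟩, ⟨.ofNat 1790, .ofNat 144, .negSucc 27, .negSucc 633, .ofNat 3, .ofNat 312⟩, ⟨.negSucc 4945, .negSucc 270, .ofNat 31, .ofNat 1142, .negSucc 74, .negSucc 1058⟩, ⟨.negSucc 1668, .ofNat 51, .negSucc 61, .negSucc 95, .negSucc 32, .negSucc 212⟩, .ofNat 5237, .ofNat 7607, .ofNat 0, .ofNat 7607, .ofNat 11858, .ofNat 0, .ofNat 128, .negSucc 570, .negSucc 3418, .ofNat 0, .ofNat 373, .ofNat 2201, .ofNat 0, .ofNat 0, .ofNat 2489, .ofNat 517, .ofNat 0, .ofNat 0, .ofNat 40661304848308898265250676212830393491997170073600, .ofNat 0, .ofNat 0, .ofNat 0, .ofNat 0, .ofNat 0, .ofNat 0, .ofNat 0, .ofNat 38182832496526702845694976265995119544230017406861312, .ofNat 0, .ofNat 0, .ofNat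 0, .ofNat 69593625753214407971318993756008569840085334396764160, .ofNat 0⟩)
    (by decide +kernel)
theorem L07426 : Good (Phi V5.P V5.D (-1) (-1)) ⟨6, 57, 4, 10, 4, 12, 5, 24, 6, 5⟩ :=
  leafX_sound T5.ok_mm T5.Ymm.bz_eq (w := 279) (c := ⟨⟨.negSucc 2946, .negSucc 107, .ofNat 137, .ofNat 866, .negSucc 14, .negSucc 743⟩, ⟨.ofNat 1816, .negSucc 34, .ofNat 162, .negSucc 577, .ofNat 11, .ofNat 497⟩, ⟨.ofNat 1844, .negSucc 105, .ofNat 97, .negSucc 647, .negSucc 9, .ofNat 370⟩, ⟨.negSucc 5148, .ofNat 5, .ofNat 6, .ofNat 1184, .negSucc 62, .negSucc 1216⟩, ⟨.negSucc 1655, .negSucc 19, .negSucc 16, .negSucc 48, .negSucc 60, .negSucc 255⟩, .ofNat 3726, .ofNat 5131, .ofNat 0, .ofNat 5131, .ofNat 7802, .ofNat 0, .ofNat 128, .negSucc 874, .negSucc 5208, .ofNat 0, .ofNat 589, .ofNat 3429, .ofNat 0, .ofNat 0, .ofNat 3697, .ofNat 1430, .ofNat 0, .ofNat 0, .ofNat 189045131933939580031515938429521649802979135455232,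 .ofNat 0, .ofNat 0, .ofNat 0, .ofNat 241009639581830047989438318997782407732980059840970752, .ofNat 0, .ofNat 0, .ofNat 0, .ofNat 0, .ofNat 0, .ofNat 0, .ofNat 0, .ofNat 0, .ofNat 3050323661203523388004316441589322125846122299145071357585260544⟩)
    (by decide +kernel)
theorem L07427 : Good (Phi V5.P V5.D (-1) (-1)) ⟨6, 56, 4, 11, 4, 12, 5, 24, 6, 5⟩ :=
  out_sound (S := T5.ds_mm) T5.ok_mm (w := 65) (j := 3) (by decide +kernel)
theorem L07428 : Good (Phi V5.P V5.D (-1) (-1)) ⟨7, 114, 5, 22, 4, 12, 5, 24, 6, 5⟩ :=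
  out_sound (S := T5.ds_mm) T5.ok_mm (w := 73) (j := 3) (by decide +kernel)
theorem L07429 : Good (Phi V5.P V5.D (-1) (-1)) ⟨7, 115, 5, 22, 4, 12, 5, 24, 6, 5⟩ :=
  out_sound (S := T5.ds_mm) T5.ok_mm (w := 21) (j := 4) (by decide +kernel)
theorem L07430 : Good (Phi V5.P V5.D (-1) (-1)) ⟨6, 57, 5, 23, 4, 12, 5, 24, 6, 5⟩ :=
  out_sound (S := T5.ds_mm) T5.ok_mm (w := 67) (j := 3) (by decide +kernel)
theorem L07431 : Good (Phi V5.P V5.D (-1) (-1)) ⟨5, 29, 3, 5, 4, 12, 5, 24, 6, 5⟩ :=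
  out_sound (S := T5.ds_mm) T5.ok_mm (w := 17) (j := 4) (by decide +kernel)
theorem L07432 : Good (Phi V5.P V5.D (-1) (-1)) ⟨4, 15, 3, 5, 4, 12, 5, 24, 6, 5⟩ :=
  out_sound (S := T5.ds_mm) T5.ok_mm (w := 51) (j := 3) (by decide +kernel)
theorem L07433 : Good (Phi V5.P V5.D (-1) (-1)) ⟨2, 2, 3, 5, 4, 12, 5, 25, 5, 2⟩ :=
  out_sound (S := T5.ds_mm) T5.ok_mm (w := 39) (j := 3) (by decide +kernel)
theorem L07434 : Good (Phi V5.P V5.D (-1) (-1)) ⟨3, 6, 5, 20, 4, 12, 5, 25, 5, 2⟩ :=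
  out_sound (S := T5.ds_mm) T5.ok_mm (w := 49) (j := 3) (by decide +kernel)
theorem L07435 : Good (Phi V5.P V5.D (-1) (-1)) ⟨5, 28, 5, 20, 4, 12, 5, 25, 5, 2⟩ :=
  leafX_sound T5.ok_mm T5.Ymm.bz_eq (w := 272) (c := ⟨⟨.negSucc 2093, .negSucc 184, .ofNat 134, .ofNat 924, .ofNat 44, .negSucc 1396⟩, ⟨.ofNat 1330, .ofNat 53, .negSucc 6, .negSucc 600, .negSucc 24, .ofNat 915⟩, ⟨.ofNat 1488, .negSucc 81, .negSucc 33, .negSucc 683, .negSucc 56, .ofNat 719⟩, ⟨.negSucc 3676, .negSucc 177, .ofNat 55, .ofNat 1271, .negSucc 6, .negSucc 2550⟩, ⟨.negSucc 1097, .ofNat 79, .negSucc 193, .negSucc 49, .negSucc 101, .negSucc 873⟩, .ofNat 3968, .ofNat 5601, .ofNat 0, .ofNat 5601, .ofNat 8683, .ofNat 0, .ofNat 128, .negSucc 551, .negSucc 3549, .ofNat 0, .ofNat 364, .ofNat 2293, .ofNat 0, .ofNat 0, .ofNat 2572, .ofNat 1180, .ofNat 0, .ofNat 0, .ofNat 14342896627687759856068586599923527935779747659776,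 .ofNat 0, .ofNat 0, .ofNat 0, .ofNat 8202365105667838929051994497000384580882841118703616, .ofNat 0, .ofNat 0, .ofNat 0, .ofNat 3037051401504627029031489205603854745663820932317184, .ofNat 0, .ofNat 0, .ofNat 0, .ofNat 8449264210475767568086096584977107061320324520869888, .ofNat 41269709330238841892770465189120163150794280024651636427194368⟩)
    (by decide +kernel)
theorem L07436 : Good (Phi V5.P V5.D (-1) (-1)) ⟨5, 29, 5, 20, 4, 12, 5, 25, 5, 2⟩ :=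
  out_sound (S := T5.ds_mm) T5.ok_mm (w := 61) (j := 3) (by decide +kernel)
theorem L07437 : Good (Phi V5.P V5.D (-1) (-1)) ⟨4, 15, 5, 20, 4, 12, 5, 25, 5, 2⟩ :=
  out_sound (S := T5.ds_mm) T5.ok_mm (w := 55) (j := 3) (by decide +kernel)
theorem L07438 : Good (Phi V5.P V5.D (-1) (-1)) ⟨3, 6, 5, 21, 4, 12, 5, 25, 5, 2⟩ :=
  out_sound (S := T5.ds_mm) T5.ok_mm (w := 49) (j := 3) (by decide +kernel)
theorem L07439 : Good (Phi V5.P V5.D (-1) (-1)) ⟨6, 56, 5, 21, 4, 12, 5, 25, 5, 2⟩ :=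
  leafX_sound T5.ok_mm T5.Ymm.bz_eq (w := 286) (c := ⟨⟨.negSucc 1831, .negSucc 0, .ofNat 69, .ofNat 941, .negSucc 42, .negSucc 1755⟩, ⟨.ofNat 1207, .ofNat 1, .ofNat 10, .negSucc 620, .ofNat 29, .ofNat 1158⟩, ⟨.ofNat 1258, .ofNat 1, .negSucc 187, .negSucc 677, .ofNat 6, .ofNat 953⟩, ⟨.negSucc 3526, .negSucc 1, .ofNat 58, .ofNat 1033, .negSucc 191, .negSucc 2384⟩, ⟨.negSucc 1437, .negSucc 0, .negSucc 5, .negSucc 432, .negSucc 193, .ofNat 120⟩, .ofNat 14670, .ofNat 21721, .ofNat 0, .ofNat 21721, .ofNat 32966, .ofNat 0, .ofNat 128, .negSucc 3747, .negSucc 27256, .ofNat 0, .ofNat 2484, .ofNat 17972, .ofNat 0, .ofNat 0, .ofNat 20046, .ofNat 10144, .ofNat 0, .ofNat 0, .ofNat 0, .ofNat 0, .ofNat 0, .ofNat 0, .ofNat 125318335159912507004873862833600002315185851170029568, .ofNat 0, .ofNat 0, .ofNat 0, .ofNat 199069672855610658439496774409037476345801277091872768, .ofNat 0, .ofNat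 0, .ofNat 0, .ofNat 0, .ofNat 0⟩)
    (by decide +kernel)
theorem L07440 : Good (Phi V5.P V5.D (-1) (-1)) ⟨6, 57, 5, 21, 4, 12, 5, 25, 5, 2⟩ :=
  leafX_sound T5.ok_mm T5.Ymm.bz_eq (w := 281) (c := ⟨⟨.negSucc 1877, .ofNat 98, .ofNat 173, .ofNat 893, .ofNat 47, .negSucc 1717⟩, ⟨.ofNat 1233, .negSucc 4, .negSucc 84, .negSucc 594, .negSucc 28, .ofNat 1146⟩, ⟨.ofNat 1287, .negSucc 35, .negSucc 142, .negSucc 648, .negSucc 62, .ofNat 937⟩, ⟨.negSucc 3459, .negSucc 12, .ofNat 64, .ofNat 1235, .negSucc 13, .negSucc 2889⟩, ⟨.negSucc 1243, .negSucc 161, .negSucc 302, .negSucc 23, .negSucc 113, .negSucc 711⟩, .ofNat 7185, .ofNat 10399, .ofNat 0, .ofNat 10399, .ofNat 15831, .ofNat 0, .ofNat 128, .negSucc 1622, .negSucc 9890, .ofNat 0, .ofNat 1080, .ofNat 6522, .ofNat 0, .ofNat 0, .ofNat 7212, .ofNat 3004, .ofNat 0, .ofNat 0, .ofNat 121644044551276338968956350210290597923362143469568,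 .ofNat 0, .ofNat 0, .ofNat 0, .ofNat 18441416802021935141119645653107702443175448716247040, .ofNat 740710769963626798993447184496889327429285233293000437309374464, .ofNat 0, .ofNat 0, .ofNat 10429179212515837456114529060723722367622814508253184, .ofNat 938939427244021742871040895254804460068876461104110871104192512, .ofNat 0, .ofNat 0, .ofNat 29840629032171208238403193297616809333619293696294912, .ofNat 3483839744130266200551498927014117456911760103373580663330439168⟩)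
    (by decide +kernel)
theorem L07441 : Good (Phi V5.P V5.D (-1) (-1)) ⟨5, 29, 5, 21, 4, 12, 5, 25, 5, 2⟩ :=
  out_sound (S := T5.ds_mm) T5.ok_mm (w := 61) (j := 3) (by decide +kernel)
theorem L07442 : Good (Phi V5.P V5.D (-1) (-1)) ⟨4, 15, 5, 21, 4, 12, 5, 25, 5, 2⟩ :=
  out_sound (S := T5.ds_mm) T5.ok_mm (w := 55) (j := 3) (by decide +kernel)
theorem L07443 : Good (Phi V5.P V5.D (-1) (-1)) ⟨3, 6, 4, 11, 4, 12, 5, 25, 5, 2⟩ :=
  out_sound (S := T5.ds_mm) T5.ok_mm (w := 47) (j := 3) (by decide +kernel)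
theorem L07444 : Good (Phi V5.P V5.D (-1) (-1)) ⟨6, 56, 4, 11, 4, 12, 5, 25, 5, 2⟩ :=
  out_sound (S := T5.ds_mm) T5.ok_mm (w := 65) (j := 3) (by decide +kernel)
theorem L07445 : Good (Phi V5.P V5.D (-1) (-1)) ⟨7, 114, 5, 22, 4, 12, 5, 25, 5, 2⟩ :=
  out_sound (S := T5.ds_mm) T5.ok_mm (w := 73) (j := 3) (by decide +kernel)
theorem L07446 : Good (Phi V5.P V5.D (-1) (-1)) ⟨7, 115, 5, 22, 4, 12, 5, 25, 5, 2⟩ :=
  out_sound (S := T5.ds_mm) T5.ok_mm (w := 21) (j := 4) (by decide +kernel)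
theorem L07447 : Good (Phi V5.P V5.D (-1) (-1)) ⟨6, 57, 5, 23, 4, 12, 5, 25, 5, 2⟩ :=
  out_sound (S := T5.ds_mm) T5.ok_mm (w := 67) (j := 3) (by decide +kernel)
theorem L07448 : Good (Phi V5.P V5.D (-1) (-1)) ⟨5, 29, 4, 11, 4, 12, 5, 25, 5, 2⟩ :=
  out_sound (S := T5.ds_mm) T5.ok_mm (w := 17) (j := 4) (by decide +kernel)
theorem L07449 : Good (Phi V5.P V5.D (-1) (-1)) ⟨4, 15, 4, 11, 4, 12, 5, 25, 5, 2⟩ :=
  out_sound (S := T5.ds_mm) T5.ok_mm (w := 53) (j := 3) (by decide +kernel)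
theorem L07450 : Good (Phi V5.P V5.D (-1) (-1)) ⟨2, 2, 3, 5, 4, 12, 4, 12, 5, 3⟩ :=
  out_sound (S := T5.ds_mm) T5.ok_mm (w := 39) (j := 3) (by decide +kernel)
theorem L07451 : Good (Phi V5.P V5.D (-1) (-1)) ⟨3, 6, 3, 5, 4, 12, 4, 12, 5, 3⟩ :=
  out_sound (S := T5.ds_mm) T5.ok_mm (w := 45) (j := 3) (by decide +kernel)
theorem L07452 : Good (Phi V5.P V5.D (-1) (-1)) ⟨6, 56, 4, 10, 4, 12, 4, 12, 5, 3⟩ :=
  leafX_sound T5.ok_mm T5.Ymm.bz_eq (w := 268) (c := ⟨⟨.negSucc 3684, .negSucc 34, .ofNat 78, .ofNat 830, .ofNat 443, .ofNat 385⟩, ⟨.ofNat 2341, .ofNat 34, .ofNat 90, .negSucc 542, .negSucc 285, .negSucc 245⟩, ⟨.ofNat 2391, .negSucc 122, .ofNat 82, .negSucc 637, .negSucc 348, .negSucc 517⟩, ⟨.negSucc 6431, .negSucc 61, .ofNat 49, .ofNat 1168, .ofNat 665, .ofNat 638⟩, ⟨.negSucc 1828, .negSucc 115, .negSucc 0, .negSucc 16, .ofNat 63, .ofNat 150⟩, .ofNat 2353, .ofNat 3214,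 .ofNat 0, .ofNat 3214, .ofNat 5149, .ofNat 0, .ofNat 128, .negSucc 842, .negSucc 3425, .ofNat 0, .ofNat 549, .ofNat 2166, .ofNat 0, .ofNat 0, .ofNat 2542, .ofNat 4025, .ofNat 0, .ofNat 0, .ofNat 0, .ofNat 0, .ofNat 0, .ofNat 0, .ofNat 92100063387005874076499191278802956772802771812352, .ofNat 0, .ofNat 0, .ofNat 0, .ofNat 39962650311666076373224634862296549205851305410560, .ofNat 0, .ofNat 0, .ofNat 0, .ofNat 201667893502823735745100362288346645354960201449472, .ofNat 0⟩)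
    (by decide +kernel)
theorem L07453 : Good (Phi V5.P V5.D (-1) (-1)) ⟨6, 57, 4, 10, 4, 12, 4, 12, 5, 3⟩ :=
  leafX_sound T5.ok_mm T5.Ymm.bz_eq (w := 271) (c := ⟨⟨.negSucc 3664, .negSucc 96, .negSucc 61, .ofNat 876, .ofNat 460, .ofNat 329⟩, ⟨.ofNat 2358, .ofNat 91, .ofNat 166, .negSucc 585, .negSucc 305, .negSucc 216⟩, ⟨.ofNat 2279, .ofNat 23, .ofNat 79, .negSucc 661, .negSucc 356, .negSucc 484⟩, ⟨.negSucc 6365, .negSucc 102, .negSucc 119, .ofNat 1204, .ofNat 641, .ofNat 415⟩, ⟨.negSucc 1858, .negSucc 8, .negSucc 4, .negSucc 38, .negSucc 3, .negSucc 63⟩, .ofNat 7227, .ofNat 10459, .ofNat 0, .ofNat 10459, .ofNat 15916, .ofNat 0, .ofNat 128, .negSucc 1111, .negSucc 3579, .ofNat 0, .ofNat 740, .ofNat 2362, .ofNat 0, .ofNat 0, .ofNat 2618, .ofNat 3894, .ofNat 0, .ofNat 0, .ofNat 0, .ofNat 0, .ofNat 0, .ofNat 0, .ofNat 909513011234565961569094124673879482277671032848384,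 .ofNat 0, .ofNat 0, .ofNat 0, .ofNat 0, .ofNat 2135231837174610825025388037708079206722455365079184315514880, .ofNat 0, .ofNat 0, .ofNat 277926507913767943171427769222705637837151871696896, .ofNat 3318700471991894963937100133729308329656565484100434689785856⟩)
    (by decide +kernel)
theorem L07454 : Good (Phi V5.P V5.D (-1) (-1)) ⟨6, 56, 4, 11, 4, 12, 4, 12, 5, 3⟩ :=
  out_sound (S := T5.ds_mm) T5.ok_mm (w := 65) (j := 3) (by decide +kernel)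
theorem L07455 : Good (Phi V5.P V5.D (-1) (-1)) ⟨7, 114, 5, 22, 4, 12, 4, 12, 5, 3⟩ :=
  out_sound (S := T5.ds_mm) T5.ok_mm (w := 73) (j := 3) (by decide +kernel)
theorem L07456 : Good (Phi V5.P V5.D (-1) (-1)) ⟨7, 115, 5, 22, 4, 12, 4, 12, 5, 3⟩ :=
  out_sound (S := T5.ds_mm) T5.ok_mm (w := 21) (j := 4) (by decide +kernel)
theorem L07457 : Good (Phi V5.P V5.D (-1) (-1)) ⟨6, 57, 5, 23, 4, 12, 4, 12, 5, 3⟩ :=
  out_sound (S := T5.ds_mm) T5.ok_mm (w := 67) (j := 3) (by decide +kernel)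
theorem L07458 : Good (Phi V5.P V5.D (-1) (-1)) ⟨5, 29, 3, 5, 4, 12, 4, 12, 5, 3⟩ :=
  out_sound (S := T5.ds_mm) T5.ok_mm (w := 17) (j := 4) (by decide +kernel)
theorem L07459 : Good (Phi V5.P V5.D (-1) (-1)) ⟨4, 15, 3, 5, 4, 12, 4, 12, 5, 3⟩ :=
  out_sound (S := T5.ds_mm) T5.ok_mm (w := 51) (j := 3) (by decide +kernel)
theorem L07460 : Good (Phi V5.P V5.D (-1) (-1)) ⟨2, 2, 5, 20, 4, 12, 4, 13, 4, 1⟩ :=
  out_sound (S := T5.ds_mm) T5.ok_mm (w := 43) (j := 3) (by decide +kernel)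
theorem L07461 : Good (Phi V5.P V5.D (-1) (-1)) ⟨3, 6, 5, 20, 4, 12, 4, 13, 4, 1⟩ :=
  out_sound (S := T5.ds_mm) T5.ok_mm (w := 49) (j := 3) (by decide +kernel)
theorem L07462 : Good (Phi V5.P V5.D (-1) (-1)) ⟨5, 28, 5, 20, 4, 12, 4, 13, 5, 2⟩ :=
  leafX_sound T5.ok_mm T5.Ymm.bz_eq (w := 270) (c := ⟨⟨.negSucc 2213, .negSucc 199, .ofNat 120, .ofNat 777, .ofNat 354, .negSucc 951⟩, ⟨.ofNat 1382, .ofNat 203, .negSucc 39, .negSucc 502, .negSucc 227, .ofNat 622⟩, ⟨.ofNat 1466, .ofNat 294, .negSucc 118, .negSucc 573, .negSucc 319, .ofNat 405⟩, ⟨.negSucc 3966, .negSucc 268, .ofNat 118, .ofNat 987, .ofNat 578, .negSucc 1782⟩, ⟨.negSucc 1302, .ofNat 53, .negSucc 82, .negSucc 167, .ofNat 129, .negSucc 660⟩, .ofNat 3968, .ofNat 5601, .ofNat 0, .ofNat 5601, .ofNat 8683, .ofNat 0, .ofNat 128, .negSucc 820, .negSucc 5648, .ofNat 0, .ofNat 542, .ofNat 3645, .ofNat 0, .ofNat 0, .ofNat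 4099, .ofNat 904, .ofNat 0, .ofNat 0, .ofNat 926535420640789552001266617545134375236840456192, .ofNat 0, .ofNat 0, .ofNat 0, .ofNat 616658947906409801509820409731579162576336684318720, .ofNat 0, .ofNat 0, .ofNat 0, .ofNat 301936228842377346024439317291128844506861081198592, .ofNat 0, .ofNat 0, .ofNat 0, .ofNat 1505037687567640210683254444771308415040002621177856, .ofNat 0⟩)
    (by decide +kernel)
theorem L07463 : Good (Phi V5.P V5.D (-1) (-1)) ⟨5, 29, 5, 20, 4, 12, 4, 13, 5, 2⟩ :=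
  out_sound (S := T5.ds_mm) T5.ok_mm (w := 61) (j := 3) (by decide +kernel)
theorem L07464 : Good (Phi V5.P V5.D (-1) (-1)) ⟨4, 15, 5, 20, 4, 12, 4, 13, 5, 2⟩ :=
  out_sound (S := T5.ds_mm) T5.ok_mm (w := 55) (j := 3) (by decide +kernel)
theorem L07465 : Good (Phi V5.P V5.D (-1) (-1)) ⟨3, 7, 5, 20, 4, 12, 4, 13, 5, 3⟩ :=
  leafX_sound T5.ok_mm T5.Ymm.bz_eq (w := 254) (c := ⟨⟨.negSucc 3219, .negSucc 21, .ofNat 19, .ofNat 735, .ofNat 626, .ofNat 396⟩, ⟨.ofNat 2054, .ofNat 8, .ofNat 50, .negSucc 479, .negSucc 405, .negSucc 255⟩, ⟨.ofNat 1930, .ofNat 36, .negSucc 21, .negSucc 541, .negSucc 467, .negSucc 506⟩, ⟨.negSucc 5757, .ofNat 56, .negSucc 7, .ofNat 1009, .ofNat 1036, .ofNat 740⟩, ⟨.negSucc 1820, .negSucc 48, .negSucc 42, .negSucc 75, .ofNat 214, .ofNat 282⟩, .ofNat 1402, .ofNat 1546, .ofNat 0, .ofNat 1546, .ofNat 2251, .ofNat 0, .ofNat 128, .negSucc 443, .negSucc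 1439, .ofNat 0, .ofNat 324, .ofNat 942, .ofNat 0, .ofNat 0, .ofNat 955, .ofNat 372, .ofNat 0, .ofNat 0, .ofNat 3052298695764792839611133620881757458833124360192, .ofNat 0, .ofNat 0, .ofNat 0, .ofNat 252300231389233535210961717675805196491572524351488, .ofNat 0, .ofNat 0, .ofNat 0, .ofNat 332279937362157766524750559724113858099076306829312, .ofNat 0, .ofNat 0, .ofNat 0, .ofNat 176711225859054589635634953995829070458667912921088, .ofNat 21945614313034521273276904717095964154679394565131327242240⟩)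
    (by decide +kernel)
theorem L07466 : Good (Phi V5.P V5.D (-1) (-1)) ⟨2, 2, 5, 21, 4, 12, 4, 13, 4, 1⟩ :=
  out_sound (S := T5.ds_mm) T5.ok_mm (w := 43) (j := 3) (by decide +kernel)
theorem L07467 : Good (Phi V5.P V5.D (-1) (-1)) ⟨3, 6, 5, 21, 4, 12, 4, 13, 4, 1⟩ :=
  out_sound (S := T5.ds_mm) T5.ok_mm (w := 49) (j := 3) (by decide +kernel)
theorem L07468 : Good (Phi V5.P V5.D (-1) (-1)) ⟨6, 56, 5, 21, 4, 12, 4, 13, 4, 1⟩ :=
  leafX_sound T5.ok_mm T5.Ymm.bz_eq (w := 270) (c := ⟨⟨.negSucc 2532, .negSucc 0, .ofNat 36, .ofNat 732, .ofNat 692, .negSucc 445⟩, ⟨.ofNat 1664, .ofNat 1, .ofNat 40, .negSucc 483, .negSucc 452, .ofNat 317⟩, ⟨.ofNat 1739, .ofNat 0, .negSucc 192, .negSucc 537, .negSucc 548, .negSucc 227⟩, ⟨.negSucc 4420, .negSucc 1, .ofNat 22, .ofNat 1008, .ofNat 928, .negSucc 1566⟩, ⟨.negSucc 1313, .negSucc 0, .negSucc 1, .negSucc 32, .negSucc 56, .negSucc 1357⟩,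 .ofNat 4211, .ofNat 5972, .ofNat 0, .ofNat 5972, .ofNat 9242, .ofNat 0, .ofNat 128, .negSucc 1667, .negSucc 9818, .ofNat 0, .ofNat 1102, .ofNat 6381, .ofNat 0, .ofNat 0, .ofNat 7121, .ofNat 3953, .ofNat 0, .ofNat 0, .ofNat 0, .ofNat 0, .ofNat 0, .ofNat 0, .ofNat 62143273157204339415618599444891319782248552595456, .ofNat 0, .ofNat 0, .ofNat 0, .ofNat 108768854626107500716514956055459547892476675096576, .ofNat 0, .ofNat 0, .ofNat 0, .ofNat 92033090885653630785188917413103886583887426486272, .ofNat 0⟩)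
    (by decide +kernel)
theorem L07469 : Good (Phi V5.P V5.D (-1) (-1)) ⟨6, 57, 5, 21, 4, 12, 4, 13, 4, 1⟩ :=
  leafX_sound T5.ok_mm T5.Ymm.bz_eq (w := 271) (c := ⟨⟨.negSucc 2653, .ofNat 41, .ofNat 183, .ofNat 858, .ofNat 652, .negSucc 550⟩, ⟨.ofNat 1746, .ofNat 74, .negSucc 112, .negSucc 568, .negSucc 429, .ofNat 379⟩, ⟨.ofNat 1818, .negSucc 84, .negSucc 78, .negSucc 611, .negSucc 526, .negSucc 184⟩, ⟨.negSucc 4610, .negSucc 39, .ofNat 99, .ofNat 1089, .ofNat 866, .negSucc 1249⟩, ⟨.negSucc 1356, .negSucc 86, .negSucc 267, .negSucc 175, .negSucc 48, .negSucc 631⟩, .ofNat 5676, .ofNat 8010, .ofNat 0, .ofNat 8010, .ofNat 12050, .ofNat 0, .ofNat 128, .negSucc 1712, .negSucc 7415, .ofNat 0, .ofNat 1156, .ofNat 4940, .ofNat 0, .ofNat 0, .ofNat 5241, .ofNat 1333, .ofNat 0, .ofNat 0, .ofNat 137709112157962322268109517809567835841626112000, .ofNat 0, .ofNat 0, .ofNat 0, .ofNat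 70094240617117710144663208857572803450598781353984, .ofNat 0, .ofNat 0, .ofNat 0, .ofNat 0, .ofNat 0, .ofNat 0, .ofNat 0, .ofNat 17149487928375147280322078988501547225130469425152, .ofNat 1812261372842577075089876856149791055949737659186921137504256⟩)
    (by decide +kernel)
theorem L07470 : Good (Phi V5.P V5.D (-1) (-1)) ⟨5, 29, 5, 21, 4, 12, 4, 13, 4, 1⟩ :=
  out_sound (S := T5.ds_mm) T5.ok_mm (w := 61) (j := 3) (by decide +kernel)
theorem L07471 : Good (Phi V5.P V5.D (-1) (-1)) ⟨4, 15, 5, 21, 4, 12, 4, 13, 4, 1⟩ :=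
  out_sound (S := T5.ds_mm) T5.ok_mm (w := 55) (j := 3) (by decide +kernel)
theorem L07472 : Good (Phi V5.P V5.D (-1) (-1)) ⟨2, 2, 4, 11, 4, 12, 4, 13, 4, 1⟩ :=
  out_sound (S := T5.ds_mm) T5.ok_mm (w := 41) (j := 3) (by decide +kernel)
theorem L07473 : Good (Phi V5.P V5.D (-1) (-1)) ⟨3, 6, 4, 11, 4, 12, 4, 13, 4, 1⟩ :=
  out_sound (S := T5.ds_mm) T5.ok_mm (w := 47) (j := 3) (by decide +kernel)
theorem L07474 : Good (Phi V5.P V5.D (-1) (-1)) ⟨6, 56, 4, 11, 4, 12, 4, 13, 4, 1⟩ :=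
  out_sound (S := T5.ds_mm) T5.ok_mm (w := 65) (j := 3) (by decide +kernel)
theorem L07475 : Good (Phi V5.P V5.D (-1) (-1)) ⟨7, 114, 5, 22, 4, 12, 4, 13, 4, 1⟩ :=
  out_sound (S := T5.ds_mm) T5.ok_mm (w := 73) (j := 3) (by decide +kernel)
theorem L07476 : Good (Phi V5.P V5.D (-1) (-1)) ⟨7, 115, 5, 22, 4, 12, 4, 13, 4, 1⟩ :=
  out_sound (S := T5.ds_mm) T5.ok_mm (w := 21) (j := 4) (by decide +kernel)
theorem L07477 : Good (Phi V5.P V5.D (-1) (-1)) ⟨6, 57, 5, 23, 4, 12, 4, 13, 4, 1⟩ :=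
  out_sound (S := T5.ds_mm) T5.ok_mm (w := 67) (j := 3) (by decide +kernel)
theorem L07478 : Good (Phi V5.P V5.D (-1) (-1)) ⟨5, 29, 4, 11, 4, 12, 4, 13, 4, 1⟩ :=
  out_sound (S := T5.ds_mm) T5.ok_mm (w := 17) (j := 4) (by decide +kernel)
theorem L07479 : Good (Phi V5.P V5.D (-1) (-1)) ⟨4, 15, 4, 11, 4, 12, 4, 13, 4, 1⟩ :=
  out_sound (S := T5.ds_mm) T5.ok_mm (w := 53) (j := 3) (by decide +kernel)
theorem L07480 : Good (Phi V5.P V5.D (-1) (-1)) ⟨2, 2, 5, 20, 4, 13, 4, 12, 4, 1⟩ :=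
  out_sound (S := T5.ds_mm) T5.ok_mm (w := 43) (j := 3) (by decide +kernel)
theorem L07481 : Good (Phi V5.P V5.D (-1) (-1)) ⟨3, 6, 5, 20, 4, 13, 4, 12, 5, 2⟩ :=
  out_sound (S := T5.ds_mm) T5.ok_mm (w := 49) (j := 3) (by decide +kernel)
theorem L07482 : Good (Phi V5.P V5.D (-1) (-1)) ⟨6, 56, 5, 20, 4, 13, 4, 12, 5, 2⟩ :=
  leafX_sound T5.ok_mm T5.Ymm.bz_eq (w := 274) (c := ⟨⟨.negSucc 1233, .negSucc 84, .ofNat 72, .ofNat 655, .negSucc 116, .negSucc 1096⟩, ⟨.ofNat 769, .ofNat 62, .negSucc 6, .negSucc 425, .ofNat 77, .ofNat 710⟩, ⟨.ofNat 911, .ofNat 5, .negSucc 10, .negSucc 385, .negSucc 0, .ofNat 447⟩, ⟨.negSucc 2666, .negSucc 87, .ofNat 41, .ofNat 1111, .negSucc 219, .negSucc 1879⟩, ⟨.negSucc 1414, .ofNat 16, .negSucc 58, .ofNat 289, .negSucc 79, .negSucc 499⟩, .ofNat 5298, .ofNat 7693, .ofNat 0, .ofNat 7693, .ofNat 11977, .ofNat 0, .ofNat 128, .negSucc 830, .negSucc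 4450, .ofNat 0, .ofNat 540, .ofNat 2860, .ofNat 0, .ofNat 0, .ofNat 2956, .ofNat 2100, .ofNat 0, .ofNat 0, .ofNat 0, .ofNat 0, .ofNat 0, .ofNat 0, .ofNat 578308565944586709814855389668090270000319823872000, .ofNat 0, .ofNat 0, .ofNat 0, .ofNat 0, .ofNat 0, .ofNat 0, .ofNat 0, .ofNat 0, .ofNat 0⟩)
    (by decide +kernel)
theorem L07483 : Good (Phi V5.P V5.D (-1) (-1)) ⟨6, 57, 5, 20, 4, 13, 4, 12, 5, 2⟩ :=
  leafX_sound T5.ok_mm T5.Ymm.bz_eq (w := 282) (c := ⟨⟨.negSucc 1174, .ofNat 1, .ofNat 16, .ofNat 690, .negSucc 119, .negSucc 1204⟩, ⟨.ofNat 744, .ofNat 0, .ofNat 18, .negSucc 453, .ofNat 80, .ofNat 793⟩, ⟨.ofNat 836, .ofNat 0, .ofNat 7, .negSucc 389, .ofNat 8, .ofNat 505⟩, ⟨.negSucc 2468, .ofNat 2, .negSucc 2, .ofNat 875, .negSucc 304, .negSucc 1817⟩, ⟨.negSucc 1271, .ofNat 1, .negSucc 0, .negSucc 139, .negSucc 202, .negSucc 190⟩, .ofNat 14064, .ofNat 20808, .ofNat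 0, .ofNat 20808, .ofNat 31591, .ofNat 0, .ofNat 128, .negSucc 4261, .negSucc 33056, .ofNat 0, .ofNat 2818, .ofNat 21762, .ofNat 0, .ofNat 0, .ofNat 21702, .ofNat 49149, .ofNat 0, .ofNat 0, .ofNat 3104098133763925688878773208444698532226749431808, .ofNat 0, .ofNat 0, .ofNat 0, .ofNat 1399550632538548056903725997029542820234245808939073536, .ofNat 0, .ofNat 0, .ofNat 0, .ofNat 38625741975341127660590900443351394004911275368251392, .ofNat 0, .ofNat 0, .ofNat 0, .ofNat 185335449890602515249173093053385293898617950207737856, .ofNat 0⟩)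
    (by decide +kernel)
theorem L07484 : Good (Phi V5.P V5.D (-1) (-1)) ⟨5, 29, 5, 20, 4, 13, 4, 12, 5, 2⟩ :=
  out_sound (S := T5.ds_mm) T5.ok_mm (w := 61) (j := 3) (by decide +kernel)
theorem L07485 : Good (Phi V5.P V5.D (-1) (-1)) ⟨4, 15, 5, 20, 4, 13, 4, 12, 5, 2⟩ :=
  out_sound (S := T5.ds_mm) T5.ok_mm (w := 55) (j := 3) (by decide +kernel)
theorem L07486 : Good (Phi V5.P V5.D (-1) (-1)) ⟨3, 6, 5, 20, 4, 13, 4, 12, 5, 3⟩ :=
  out_sound (S := T5.ds_mm) T5.ok_mm (w := 49) (j := 3) (by decide +kernel)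
theorem L07487 : Good (Phi V5.P V5.D (-1) (-1)) ⟨3, 7, 5, 20, 4, 13, 4, 12, 5, 3⟩ :=
  leafX_sound T5.ok_mm T5.Ymm.bz_eq (w := 255) (c := ⟨⟨.negSucc 2617, .negSucc 165, .negSucc 12, .ofNat 976, .ofNat 348, .ofNat 122⟩, ⟨.ofNat 1686, .negSucc 287, .ofNat 93, .negSucc 635, .negSucc 226, .negSucc 79⟩, ⟨.ofNat 1507, .ofNat 58, .ofNat 12, .negSucc 570, .negSucc 274, .negSucc 293⟩, ⟨.negSucc 4983, .negSucc 40, .negSucc 64, .ofNat 1538, .ofNat 574, .ofNat 242⟩, ⟨.negSucc 1951, .negSucc 0, .negSucc 41, .ofNat 215, .ofNat 129, .ofNat 120⟩, .ofNat 1391, .ofNat 1531, .ofNat 0, .ofNat 1531, .ofNat 2231, .ofNat 0, .ofNat 128, .negSucc 587, .negSucc 1877, .ofNat 0, .ofNat 416, .ofNat 1212, .ofNat 0, .ofNat 0, .ofNat 1119, .ofNat 834, .ofNat 0, .ofNat 0, .ofNat 3886705518632659191322540154671060461273214877696, .ofNat 37273309649617579782045655852675961146660326012170010624, .ofNat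 0, .ofNat 0, .ofNat 43093366383355958407325823505814875286721362132992, .ofNat 6600197093212644321191059747064669148649646366230335979520, .ofNat 0, .ofNat 0, .ofNat 525555433216197366258054175409267157301103788294144, .ofNat 0, .ofNat 0, .ofNat 0, .ofNat 558143627879662260513802298118502474564210838732800, .ofNat 37613585574453655653737243367901428068777471419614844944384⟩)
    (by decide +kernel)
theorem L07488 : Good (Phi V5.P V5.D (-1) (-1)) ⟨2, 2, 5, 21, 4, 13, 4, 12, 4, 1⟩ :=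
  out_sound (S := T5.ds_mm) T5.ok_mm (w := 43) (j := 3) (by decide +kernel)
theorem L07489 : Good (Phi V5.P V5.D (-1) (-1)) ⟨3, 6, 5, 21, 4, 13, 4, 12, 4, 1⟩ :=
  out_sound (S := T5.ds_mm) T5.ok_mm (w := 49) (j := 3) (by decide +kernel)
theorem L07490 : Good (Phi V5.P V5.D (-1) (-1)) ⟨6, 56, 6, 42, 4, 13, 4, 12, 4, 1⟩ :=
  leafX_sound T5.ok_mm T5.Ymm.bz_eq (w := 283) (c := ⟨⟨.negSucc 1499, .negSucc 0, .negSucc 67, .ofNat 729, .ofNat 196, .negSucc 1052⟩, ⟨.ofNat 987, .ofNat 1, .ofNat 76, .negSucc 480, .negSucc 128, .ofNat 695⟩, ⟨.ofNat 1078, .ofNat 0, .ofNat 77, .negSucc 424, .negSucc 202, .ofNat 143⟩, ⟨.negSucc 3199, .negSucc 1, .negSucc 31, .ofNat 717, .ofNat 184, .negSucc 1062⟩, ⟨.negSucc 1644, .negSucc 0, .ofNat 20, .negSucc 447, .negSucc 130, .ofNat 614⟩, .ofNat 31397, .ofNat 46915, .ofNat 0, .ofNat 46915, .ofNat 70915, .ofNat 0, .ofNat 128, .negSucc 6519, .negSucc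 34438, .ofNat 0, .ofNat 4318, .ofNat 22741, .ofNat 0, .ofNat 0, .ofNat 23288, .ofNat 19501, .ofNat 0, .ofNat 0, .ofNat 0, .ofNat 0, .ofNat 0, .ofNat 0, .ofNat 1752204183177898208325927327390230334035955225198592, .ofNat 0, .ofNat 0, .ofNat 0, .ofNat 203546842340353209062251682459754151243712542277632, .ofNat 0, .ofNat 0, .ofNat 0, .ofNat 0, .ofNat 0⟩)
    (by decide +kernel)
theorem L07491 : Good (Phi V5.P V5.D (-1) (-1)) ⟨6, 56, 6, 43, 4, 13, 4, 12, 4, 1⟩ :=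
  out_sound (S := T5.ds_mm) T5.ok_mm (w := 69) (j := 3) (by decide +kernel)
theorem L07492 : Good (Phi V5.P V5.D (-1) (-1)) ⟨7, 114, 6, 42, 4, 13, 4, 12, 5, 2⟩ :=
  leafX_sound T5.ok_mm T5.Ymm.bz_eq (w := 284) (c := ⟨⟨.negSucc 1253, .negSucc 8, .ofNat 28, .ofNat 719, .negSucc 3, .negSucc 1106⟩, ⟨.ofNat 817, .ofNat 1, .ofNat 4, .negSucc 474, .ofNat 9, .ofNat 741⟩, ⟨.ofNat 903, .ofNat 42, .negSucc 32, .negSucc 398, .negSucc 66, .ofNat 434⟩, ⟨.negSucc 2369, .negSucc 16, .ofNat 48, .ofNat 1053, .negSucc 308, .negSucc 2200⟩, ⟨.negSucc 929, .ofNat 20, .ofNat 4, .ofNat 73, .negSucc 441, .negSucc 963⟩, .ofNat 6011, .ofNat 8592, .ofNat 0, .ofNat 8592, .ofNat 13047, .ofNat 0, .ofNat 128, .negSucc 1294, .negSucc 11474, .ofNat 0, .ofNat 861, .ofNat 7562, .ofNat 0, .ofNat 0, .ofNat 7312, .ofNat 7791, .ofNat 0, .ofNat 0, .ofNat 0, .ofNat 0, .ofNat 0, .ofNat 0, .ofNat 442957212517577662182845059436384016542987248992256,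 .ofNat 0, .ofNat 0, .ofNat 0, .ofNat 295029826230471171054540994670372864514554194821120, .ofNat 0, .ofNat 0, .ofNat 0, .ofNat 0, .ofNat 0⟩)
    (by decide +kernel)
theorem L07493 : Good (Phi V5.P V5.D (-1) (-1)) ⟨7, 114, 6, 42, 4, 13, 4, 12, 5, 3⟩ :=
  leafX_sound T5.ok_mm T5.Ymm.bz_eq (w := 283) (c := ⟨⟨.negSucc 2637, .negSucc 55, .negSucc 1, .ofNat 956, .ofNat 346, .ofNat 134⟩, ⟨.ofNat 1742, .ofNat 16, .ofNat 40, .negSucc 638, .negSucc 231, .negSucc 87⟩, ⟨.ofNat 1523, .ofNat 6, .ofNat 16, .negSucc 563, .negSucc 272, .negSucc 313⟩, ⟨.negSucc 5045, .negSucc 24, .negSucc 23, .ofNat 1539, .ofNat 579, .ofNat 202⟩, ⟨.negSucc 2020, .ofNat 12, .ofNat 10, .ofNat 296, .ofNat 142, .ofNat 21⟩, .ofNat 7192, .ofNat 10409, .ofNat 0, .ofNat 10409, .ofNat 15846, .ofNat 0, .ofNat 128, .negSucc 2422, .negSucc 5354, .ofNat 0, .ofNat 1608, .ofNat 3527, .ofNat 0, .ofNat 0, .ofNat 3623,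 .ofNat 16497, .ofNat 0, .ofNat 0, .ofNat 0, .ofNat 0, .ofNat 0, .ofNat 0, .ofNat 5540172954166887308137480210100304574317155344973824, .ofNat 0, .ofNat 0, .ofNat 0, .ofNat 0, .ofNat 0, .ofNat 0, .ofNat 0, .ofNat 2409798213345774934979814256981686902942991535570944, .ofNat 2825542309146807502225209580674300281700116402676276635694530560⟩)
    (by decide +kernel)
theorem L07494 : Good (Phi V5.P V5.D (-1) (-1)) ⟨8, 228, 6, 43, 4, 13, 4, 12, 4, 1⟩ :=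
  out_sound (S := T5.ds_mm) T5.ok_mm (w := 81) (j := 3) (by decide +kernel)
theorem L07495 : Good (Phi V5.P V5.D (-1) (-1)) ⟨8, 229, 6, 43, 4, 13, 4, 12, 4, 1⟩ :=
  out_sound (S := T5.ds_mm) T5.ok_mm (w := 23) (j := 4) (by decide +kernel)
theorem L07496 : Good (Phi V5.P V5.D (-1) (-1)) ⟨7, 115, 5, 21, 4, 13, 4, 12, 4, 1⟩ :=
  out_sound (S := T5.ds_mm) T5.ok_mm (w := 21) (j := 4) (by decide +kernel)
theorem L07497 : Good (Phi V5.P V5.D (-1) (-1)) ⟨5, 29, 5, 21, 4, 13, 4, 12, 4, 1⟩ :=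
  out_sound (S := T5.ds_mm) T5.ok_mm (w := 61) (j := 3) (by decide +kernel)
theorem L07498 : Good (Phi V5.P V5.D (-1) (-1)) ⟨4, 15, 5, 21, 4, 13, 4, 12, 4, 1⟩ :=
  out_sound (S := T5.ds_mm) T5.ok_mm (w := 55) (j := 3) (by decide +kernel)
theorem L07499 : Good (Phi V5.P V5.D (-1) (-1)) ⟨2, 2, 4, 11, 4, 13, 4, 12, 4, 1⟩ :=
  out_sound (S := T5.ds_mm) T5.ok_mm (w := 41) (j := 3) (by decide +kernel)
theorem L07500 : Good (Phi V5.P V5.D (-1) (-1)) ⟨3, 6, 4, 11, 4, 13, 4, 12, 4, 1⟩ :=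
  out_sound (S := T5.ds_mm) T5.ok_mm (w := 47) (j := 3) (by decide +kernel)
theorem L07501 : Good (Phi V5.P V5.D (-1) (-1)) ⟨6, 56, 4, 11, 4, 13, 4, 12, 4, 1⟩ :=
  out_sound (S := T5.ds_mm) T5.ok_mm (w := 65) (j := 3) (by decide +kernel)
theorem L07502 : Good (Phi V5.P V5.D (-1) (-1)) ⟨7, 114, 5, 22, 4, 13, 4, 12, 4, 1⟩ :=
  out_sound (S := T5.ds_mm) T5.ok_mm (w := 73) (j := 3) (by decide +kernel)
theorem L07503 : Good (Phi V5.P V5.D (-1) (-1)) ⟨7, 115, 5, 22, 4, 13, 4, 12, 4, 1⟩ :=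
  out_sound (S := T5.ds_mm) T5.ok_mm (w := 21) (j := 4) (by decide +kernel)
theorem L07504 : Good (Phi V5.P V5.D (-1) (-1)) ⟨6, 57, 5, 23, 4, 13, 4, 12, 4, 1⟩ :=
  out_sound (S := T5.ds_mm) T5.ok_mm (w := 67) (j := 3) (by decide +kernel)
theorem L07505 : Good (Phi V5.P V5.D (-1) (-1)) ⟨5, 29, 4, 11, 4, 13, 4, 12, 4, 1⟩ :=
  out_sound (S := T5.ds_mm) T5.ok_mm (w := 17) (j := 4) (by decide +kernel)
theorem L07506 : Good (Phi V5.P V5.D (-1) (-1)) ⟨4, 15, 4, 11, 4, 13, 4, 12, 4, 1⟩ :=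
  out_sound (S := T5.ds_mm) T5.ok_mm (w := 53) (j := 3) (by decide +kernel)
theorem L07507 : Good (Phi V5.P V5.D (-1) (-1)) ⟨2, 2, 5, 20, 4, 13, 4, 13, 4, 1⟩ :=
  out_sound (S := T5.ds_mm) T5.ok_mm (w := 43) (j := 3) (by decide +kernel)
theorem L07508 : Good (Phi V5.P V5.D (-1) (-1)) ⟨3, 6, 5, 20, 4, 13, 4, 13, 4, 1⟩ :=
  out_sound (S := T5.ds_mm) T5.ok_mm (w := 49) (j := 3) (by decide +kernel)
theorem L07509 : Good (Phi V5.P V5.D (-1) (-1)) ⟨5, 28, 5, 20, 4, 13, 4, 13, 5, 2⟩ :=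
  leafX_sound T5.ok_mm T5.Ymm.bz_eq (w := 270) (c := ⟨⟨.negSucc 1793, .negSucc 179, .ofNat 41, .ofNat 757, .ofNat 365, .negSucc 292⟩, ⟨.ofNat 1144, .ofNat 77, .ofNat 24, .negSucc 492, .negSucc 233, .ofNat 192⟩, ⟨.ofNat 1216, .negSucc 67, .ofNat 32, .negSucc 454, .negSucc 317, .negSucc 49⟩, ⟨.negSucc 3562, .negSucc 180, .ofNat 50, .ofNat 1226, .ofNat 537, .negSucc 623⟩, ⟨.negSucc 1583, .ofNat 61, .ofNat 17, .ofNat 245, .ofNat 43, .negSucc 314⟩, .ofNat 3968, .ofNat 5601, .ofNat 0, .ofNat 5601, .ofNat 8683, .ofNat 0, .ofNat 128, .negSucc 1167, .negSucc 6074, .ofNat 0, .ofNat 764, .ofNat 3902, .ofNat 0, .ofNat 0, .ofNat 3932, .ofNat 1473, .ofNat 0, .ofNat 0, .ofNat 1331384175597510889013555904957656702239140478976, .ofNat 0, .ofNat 0, .ofNat 0, .ofNat 350907645550021594415571663017278958466539261526016, .ofNat 0, .ofNat 0, .ofNat 0, .ofNat 477407067229063357387936764439159376865018307936256,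 .ofNat 0, .ofNat 0, .ofNat 0, .ofNat 1467153533845209870083082082093375537418010477199360, .ofNat 0⟩)
    (by decide +kernel)
theorem L07510 : Good (Phi V5.P V5.D (-1) (-1)) ⟨5, 29, 5, 20, 4, 13, 4, 13, 5, 2⟩ :=
  out_sound (S := T5.ds_mm) T5.ok_mm (w := 61) (j := 3) (by decide +kernel)
theorem L07511 : Good (Phi V5.P V5.D (-1) (-1)) ⟨4, 14, 5, 20, 4, 13, 4, 13, 5, 3⟩ :=
  leafX_sound T5.ok_mm T5.Ymm.bz_eq (w := 261) (c := ⟨⟨.negSucc 2185, .negSucc 130, .ofNat 58, .ofNat 825, .ofNat 458, .ofNat 97⟩, ⟨.ofNat 1416, .negSucc 177, .ofNat 45, .negSucc 535, .negSucc 297, .negSucc 60⟩, ⟨.ofNat 1159, .ofNat 174, .negSucc 52, .negSucc 463, .negSucc 335, .negSucc 271⟩, ⟨.negSucc 4295, .negSucc 51, .ofNat 42, .ofNat 1293, .ofNat 829, .ofNat 237⟩, ⟨.negSucc 1838, .ofNat 45, .negSucc 24, .ofNat 194, .ofNat 277, .ofNat 153⟩, .ofNat 2821, .ofNat 3714, .ofNat 0, .ofNat 3714, .ofNat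 5588, .ofNat 0, .ofNat 128, .negSucc 535, .negSucc 1474, .ofNat 0, .ofNat 361, .ofNat 954, .ofNat 0, .ofNat 0, .ofNat 956, .ofNat 1519, .ofNat 0, .ofNat 0, .ofNat 0, .ofNat 0, .ofNat 0, .ofNat 0, .ofNat 249645188872851562209004520631870786850895639347200, .ofNat 80185482586951858969211411711517912727938811228396065914880, .ofNat 0, .ofNat 0, .ofNat 335288817717836069249517550583563081320387647111168, .ofNat 0, .ofNat 0, .ofNat 0, .ofNat 241634133498733762969716709085536267853602125512704, .ofNat 147790807545373162404079575343989652900004179476352358940672⟩)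
    (by decide +kernel)
theorem L07512 : Good (Phi V5.P V5.D (-1) (-1)) ⟨4, 15, 5, 20, 4, 13, 4, 13, 4, 1⟩ :=
  out_sound (S := T5.ds_mm) T5.ok_mm (w := 55) (j := 3) (by decide +kernel)
theorem L07513 : Good (Phi V5.P V5.D (-1) (-1)) ⟨2, 2, 6, 42, 4, 13, 4, 13, 4, 1⟩ :=
  out_sound (S := T5.ds_mm) T5.ok_mm (w := 45) (j := 3) (by decide +kernel)
theorem L07514 : Good (Phi V5.P V5.D (-1) (-1)) ⟨3, 6, 6, 42, 4, 13, 4, 13, 4, 1⟩ :=
  out_sound (S := T5.ds_mm) T5.ok_mm (w := 51) (j := 3) (by decide +kernel)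
theorem L07515 : Good (Phi V5.P V5.D (-1) (-1)) ⟨6, 56, 6, 42, 4, 13, 4, 13, 4, 1⟩ :=
  leafX_sound T5.ok_mm T5.Ymm.bz_eq (w := 281) (c := ⟨⟨.negSucc 1819, .negSucc 0, .ofNat 100, .ofNat 707, .ofNat 380, .negSucc 265⟩, ⟨.ofNat 1197, .ofNat 0, .negSucc 37, .negSucc 466, .negSucc 250, .ofNat 175⟩, ⟨.ofNat 1188, .ofNat 0, .ofNat 20, .negSucc 415, .negSucc 309, .negSucc 304⟩, ⟨.negSucc 3413, .negSucc 0, .ofNat 40, .ofNat 710, .ofNat 388, .negSucc 285⟩, ⟨.negSucc 1302, .negSucc 0, .negSucc 23, .negSucc 417, .negSucc 218, .ofNat 133⟩, .ofNat 29217, .ofNat 43632, .ofNat 0, .ofNat 43632, .ofNat 65970, .ofNat 0, .ofNat 128, .negSucc 4083, .negSucc 15462, .ofNat 0, .ofNat 2704, .ofNat 10208, .ofNat 0, .ofNat 0, .ofNat 10380, .ofNat 18603, .ofNat 0, .ofNat 0, .ofNat 0, .ofNat 0, .ofNat 0, .ofNat 0, .ofNat 307992354926369262424930586214114287036426811867136, .ofNat 0, .ofNat 0,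 .ofNat 0, .ofNat 0, .ofNat 0, .ofNat 0, .ofNat 0, .ofNat 1885188208151092590336474435448837848893388253822976, .ofNat 0⟩)
    (by decide +kernel)
theorem L07516 : Good (Phi V5.P V5.D (-1) (-1)) ⟨6, 57, 6, 42, 4, 13, 4, 13, 4, 1⟩ :=
  leafX_sound T5.ok_mm T5.Ymm.bz_eq (w := 273) (c := ⟨⟨.negSucc 1933, .negSucc 24, .ofNat 138, .ofNat 737, .ofNat 439, .negSucc 217⟩, ⟨.ofNat 1269, .negSucc 39, .negSucc 53, .negSucc 488, .negSucc 287, .ofNat 155⟩, ⟨.ofNat 1269, .negSucc 86, .negSucc 37, .negSucc 444, .negSucc 354, .negSucc 353⟩, ⟨.negSucc 3662, .ofNat 18, .ofNat 193, .ofNat 1099, .ofNat 626, .negSucc 779⟩, ⟨.negSucc 1437, .ofNat 20, .ofNat 17, .ofNat 100, .ofNat 22, .negSucc 680⟩, .ofNat 4491, .ofNat 6260, .ofNat 0, .ofNat 6260, .ofNat 9469, .ofNat 0, .ofNat 128, .negSucc 2078, .negSucc 8904, .ofNat 0, .ofNat 1391, .ofNat 5870, .ofNat 0, .ofNat 0, .ofNat 5592, .ofNat 3318,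 .ofNat 0, .ofNat 0, .ofNat 60069624673377469251733205983249078580701822976, .ofNat 0, .ofNat 0, .ofNat 0, .ofNat 91056272474832026731347636341840973658357187477504, .ofNat 0, .ofNat 0, .ofNat 0, .ofNat 0, .ofNat 0, .ofNat 0, .ofNat 0, .ofNat 81091803193625918521192477484662087464745533702144, .ofNat 14817359991565214852556441842504526882499592749281305260195840⟩)
    (by decide +kernel)
theorem L07517 : Good (Phi V5.P V5.D (-1) (-1)) ⟨5, 29, 6, 42, 4, 13, 4, 13, 4, 1⟩ :=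
  out_sound (S := T5.ds_mm) T5.ok_mm (w := 63) (j := 3) (by decide +kernel)
theorem L07518 : Good (Phi V5.P V5.D (-1) (-1)) ⟨4, 15, 6, 42, 4, 13, 4, 13, 4, 1⟩ :=
  out_sound (S := T5.ds_mm) T5.ok_mm (w := 57) (j := 3) (by decide +kernel)
theorem L07519 : Good (Phi V5.P V5.D (-1) (-1)) ⟨2, 2, 6, 43, 4, 13, 4, 13, 4, 1⟩ :=
  out_sound (S := T5.ds_mm) T5.ok_mm (w := 45) (j := 3) (by decide +kernel)
theorem L07520 : Good (Phi V5.P V5.D (-1) (-1)) ⟨3, 6, 6, 43, 4, 13, 4, 13, 4, 1⟩ :=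
  out_sound (S := T5.ds_mm) T5.ok_mm (w := 51) (j := 3) (by decide +kernel)
theorem L07521 : Good (Phi V5.P V5.D (-1) (-1)) ⟨6, 56, 6, 43, 4, 13, 4, 13, 4, 1⟩ :=
  out_sound (S := T5.ds_mm) T5.ok_mm (w := 69) (j := 3) (by decide +kernel)
theorem L07522 : Good (Phi V5.P V5.D (-1) (-1)) ⟨8, 228, 6, 43, 4, 13, 4, 13, 4, 1⟩ :=
  out_sound (S := T5.ds_mm) T5.ok_mm (w := 81) (j := 3) (by decide +kernel)
theorem L07523 : Good (Phi V5.P V5.D (-1) (-1)) ⟨8, 229, 6, 43, 4, 13, 4, 13, 4, 1⟩ :=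
  out_sound (S := T5.ds_mm) T5.ok_mm (w := 23) (j := 4) (by decide +kernel)
theorem L07524 : Good (Phi V5.P V5.D (-1) (-1)) ⟨7, 115, 6, 43, 4, 13, 4, 13, 4, 1⟩ :=
  out_sound (S := T5.ds_mm) T5.ok_mm (w := 21) (j := 4) (by decide +kernel)
theorem L07525 : Good (Phi V5.P V5.D (-1) (-1)) ⟨5, 29, 6, 43, 4, 13, 4, 13, 4, 1⟩ :=
  out_sound (S := T5.ds_mm) T5.ok_mm (w := 63) (j := 3) (by decide +kernel)
theorem L07526 : Good (Phi V5.P V5.D (-1) (-1)) ⟨4, 15, 6, 43, 4, 13, 4, 13, 4, 1⟩ :=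
  out_sound (S := T5.ds_mm) T5.ok_mm (w := 57) (j := 3) (by decide +kernel)
theorem L07527 : Good (Phi V5.P V5.D (-1) (-1)) ⟨2, 2, 4, 11, 4, 13, 4, 13, 4, 1⟩ :=
  out_sound (S := T5.ds_mm) T5.ok_mm (w := 41) (j := 3) (by decide +kernel)
theorem L07528 : Good (Phi V5.P V5.D (-1) (-1)) ⟨3, 6, 4, 11, 4, 13, 4, 13, 4, 1⟩ :=
  out_sound (S := T5.ds_mm) T5.ok_mm (w := 47) (j := 3) (by decide +kernel)
theorem L07529 : Good (Phi V5.P V5.D (-1) (-1)) ⟨6, 56, 4, 11, 4, 13, 4, 13, 4, 1⟩ :=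
  out_sound (S := T5.ds_mm) T5.ok_mm (w := 65) (j := 3) (by decide +kernel)
theorem L07530 : Good (Phi V5.P V5.D (-1) (-1)) ⟨7, 114, 5, 22, 4, 13, 4, 13, 4, 1⟩ :=
  out_sound (S := T5.ds_mm) T5.ok_mm (w := 73) (j := 3) (by decide +kernel)
theorem L07531 : Good (Phi V5.P V5.D (-1) (-1)) ⟨7, 115, 5, 22, 4, 13, 4, 13, 4, 1⟩ :=
  out_sound (S := T5.ds_mm) T5.ok_mm (w := 21) (j := 4) (by decide +kernel)
theorem L07532 : Good (Phi V5.P V5.D (-1) (-1)) ⟨6, 57, 5, 23, 4, 13, 4, 13, 4, 1⟩ :=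
  out_sound (S := T5.ds_mm) T5.ok_mm (w := 67) (j := 3) (by decide +kernel)
theorem L07533 : Good (Phi V5.P V5.D (-1) (-1)) ⟨5, 29, 4, 11, 4, 13, 4, 13, 4, 1⟩ :=
  out_sound (S := T5.ds_mm) T5.ok_mm (w := 17) (j := 4) (by decide +kernel)
theorem L07534 : Good (Phi V5.P V5.D (-1) (-1)) ⟨4, 15, 4, 11, 4, 13, 4, 13, 4, 1⟩ :=
  out_sound (S := T5.ds_mm) T5.ok_mm (w := 53) (j := 3) (by decide +kernel)
theorem L07535 : Good (Phi V5.P V5.D (-1) (-1)) ⟨2, 2, 3, 5, 4, 12, 4, 14, 5, 0⟩ :=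
  out_sound (S := T5.ds_mm) T5.ok_mm (w := 39) (j := 3) (by decide +kernel)
theorem L07536 : Good (Phi V5.P V5.D (-1) (-1)) ⟨3, 6, 3, 5, 4, 12, 4, 14, 5, 0⟩ :=
  out_sound (S := T5.ds_mm) T5.ok_mm (w := 45) (j := 3) (by decide +kernel)
theorem L07537 : Good (Phi V5.P V5.D (-1) (-1)) ⟨6, 56, 4, 10, 5, 24, 4, 14, 5, 0⟩ :=
  leafX_sound T5.ok_mm T5.Ymm.bz_eq (w := 285) (c := ⟨⟨.ofNat 640, .ofNat 136, .negSucc 28, .negSucc 247, .negSucc 665, .negSucc 815⟩, ⟨.negSucc 417, .negSucc 99, .ofNat 52, .ofNat 159, .ofNat 431, .ofNat 527⟩, ⟨.negSucc 377, .negSucc 203, .ofNat 161, .ofNat 265, .ofNat 453, .ofNat 474⟩, ⟨.ofNat 400, .ofNat 238, .negSucc 47, .negSucc 343, .negSucc 1025, .negSucc 1301⟩, ⟨.negSucc 756, .ofNat 6, .ofNat 107, .ofNat 10, .negSucc 128, .negSucc 228⟩, .ofNat 5207, .ofNat 7562, .ofNat 0, .ofNat 7562, .ofNat 11791, .ofNat 0, .ofNat 128, .negSucc 601, .negSucc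 4616, .ofNat 0, .ofNat 395, .ofNat 2972, .ofNat 0, .ofNat 0, .ofNat 3922, .ofNat 1535, .ofNat 0, .ofNat 0, .ofNat 0, .ofNat 0, .ofNat 0, .ofNat 0, .ofNat 0, .ofNat 0, .ofNat 0, .ofNat 0, .ofNat 952160156024017808435988681485255218949524663316774912, .ofNat 0, .ofNat 0, .ofNat 0, .ofNat 6125751860555454960841797036048191881317414549130838016, .ofNat 0⟩)
    (by decide +kernel)
theorem L07538 : Good (Phi V5.P V5.D (-1) (-1)) ⟨6, 56, 4, 11, 5, 24, 4, 14, 5, 0⟩ :=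
  out_sound (S := T5.ds_mm) T5.ok_mm (w := 65) (j := 3) (by decide +kernel)
theorem L07539 : Good (Phi V5.P V5.D (-1) (-1)) ⟨7, 114, 5, 20, 5, 24, 4, 14, 5, 0⟩ :=
  leafX_sound T5.ok_mm T5.Ymm.bz_eq (w := 300) (c := ⟨⟨.ofNat 847, .ofNat 0, .ofNat 0, .negSucc 263, .negSucc 677, .negSucc 834⟩, ⟨.negSucc 574, .ofNat 0, .ofNat 13, .ofNat 175, .ofNat 447, .ofNat 551⟩, ⟨.negSucc 577, .ofNat 0, .negSucc 5, .ofNat 294, .ofNat 459, .ofNat 494⟩, ⟨.ofNat 434, .ofNat 0, .negSucc 0, .negSucc 315, .negSucc 807, .negSucc 970⟩, ⟨.negSucc 1141, .ofNat 0, .ofNat 0, .ofNat 84, .ofNat 217, .ofNat 303⟩, .ofNat 21688, .ofNat 32291, .ofNat 0, .ofNat 32291, .ofNat 48887, .ofNat 0, .ofNat 128, .negSucc 2441, .negSucc 20679, .ofNat 0, .ofNat 1620, .ofNat 13655, .ofNat 0, .ofNat 0, .ofNat 17613, .ofNat 50626, .ofNat 0, .ofNat 0, .ofNat 0, .ofNat 0, .ofNat 0, .ofNat 0, .ofNat 5115038461307089671751763524532942516053152428904996143104,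 .ofNat 0, .ofNat 0, .ofNat 0, .ofNat 377159821325538862195542423732914978891419211691502600192, .ofNat 0, .ofNat 0, .ofNat 0, .ofNat 310045790288393432897027082915046754569792857132989677568, .ofNat 0⟩)
    (by decide +kernel)
theorem L07540 : Good (Phi V5.P V5.D (-1) (-1)) ⟨7, 114, 5, 21, 5, 24, 4, 14, 5, 0⟩ :=
  leafX_sound T5.ok_mm T5.Ymm.bz_eq (w := 295) (c := ⟨⟨.ofNat 845, .ofNat 66, .ofNat 78, .negSucc 267, .negSucc 723, .negSucc 804⟩, ⟨.negSucc 564, .negSucc 27, .negSucc 58, .ofNat 179, .ofNat 481, .ofNat 534⟩, ⟨.negSucc 575, .negSucc 38, .negSucc 60, .ofNat 286, .ofNat 500, .ofNat 471⟩, ⟨.ofNat 825, .negSucc 58, .negSucc 3, .negSucc 453, .negSucc 1131, .negSucc 1236⟩, ⟨.negSucc 547, .negSucc 189, .negSucc 183, .negSucc 114, .negSucc 171, .negSucc 163⟩, .ofNat 7168, .ofNat 10374, .ofNat 0, .ofNat 10374, .ofNat 15794, .ofNat 0, .ofNat 128, .negSucc 1683, .negSucc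 9369, .ofNat 0, .ofNat 1122, .ofNat 6180, .ofNat 0, .ofNat 0, .ofNat 7951, .ofNat 5196, .ofNat 0, .ofNat 0, .ofNat 0, .ofNat 0, .ofNat 0, .ofNat 0, .ofNat 6274776950066806274883326057947068154035523951267938304, .ofNat 2552578325714343703653748605036120673375601707122651849399856005120, .ofNat 0, .ofNat 0, .ofNat 0, .ofNat 0, .ofNat 0, .ofNat 0, .ofNat 5133856228456149836562818006503250420723789248895909888, .ofNat 9741623132552099866971366224278693295036113890772302177117656842240⟩)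
    (by decide +kernel)
theorem L07541 : Good (Phi V5.P V5.D (-1) (-1)) ⟨7, 115, 4, 10, 5, 24, 4, 14, 5, 0⟩ :=
  out_sound (S := T5.ds_mm) T5.ok_mm (w := 21) (j := 4) (by decide +kernel)
theorem L07542 : Good (Phi V5.P V5.D (-1) (-1)) ⟨7, 114, 5, 22, 5, 24, 4, 14, 5, 0⟩ :=
  out_sound (S := T5.ds_mm) T5.ok_mm (w := 73) (j := 3) (by decide +kernel)
theorem L07543 : Good (Phi V5.P V5.D (-1) (-1)) ⟨7, 115, 5, 22, 5, 24, 4, 14, 5, 0⟩ :=
  out_sound (S := T5.ds_mm) T5.ok_mm (w := 21) (j := 4) (by decide +kernel)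
theorem L07544 : Good (Phi V5.P V5.D (-1) (-1)) ⟨6, 57, 5, 23, 5, 24, 4, 14, 5, 0⟩ :=
  out_sound (S := T5.ds_mm) T5.ok_mm (w := 67) (j := 3) (by decide +kernel)
theorem L07545 : Good (Phi V5.P V5.D (-1) (-1)) ⟨5, 29, 3, 5, 5, 24, 4, 14, 5, 0⟩ :=
  out_sound (S := T5.ds_mm) T5.ok_mm (w := 17) (j := 4) (by decide +kernel)
theorem L07546 : Good (Phi V5.P V5.D (-1) (-1)) ⟨4, 15, 3, 5, 5, 24, 4, 14, 5, 0⟩ :=
  out_sound (S := T5.ds_mm) T5.ok_mm (w := 51) (j := 3) (by decide +kernel)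
theorem L07547 : Good (Phi V5.P V5.D (-1) (-1)) ⟨6, 56, 4, 10, 5, 25, 4, 14, 5, 0⟩ :=
  leafX_sound T5.ok_mm T5.Ymm.bz_eq (w := 285) (c := ⟨⟨.ofNat 409, .ofNat 60, .ofNat 53, .negSucc 227, .negSucc 629, .negSucc 644⟩, ⟨.negSucc 277, .negSucc 33, .negSucc 14, .ofNat 148, .ofNat 409, .ofNat 415⟩, ⟨.negSucc 119, .negSucc 80, .ofNat 33, .ofNat 231, .ofNat 391, .ofNat 299⟩, ⟨.ofNat 265, .ofNat 73, .ofNat 31, .negSucc 376, .negSucc 1143, .negSucc 1114⟩, ⟨.negSucc 481, .negSucc 37, .negSucc 0, .negSucc 83, .negSucc 389, .negSucc 311⟩, .ofNat 5211, .ofNat 7569, .ofNat 0, .ofNat 7569, .ofNat 11803, .ofNat 0, .ofNat 128, .negSucc 657, .negSucc 4589, .ofNat 0, .ofNat 430, .ofNat 2951, .ofNat 0, .ofNat 0, .ofNat 3738, .ofNat 846, .ofNat 0, .ofNat 0, .ofNat 2126328406761246205293254617406723498067405949632512, .ofNat 0, .ofNat 0, .ofNat 0, .ofNat 0, .ofNat 0, .ofNat 0, .ofNat 0,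 .ofNat 893133755391800964416474545586057453078550430458314752, .ofNat 0, .ofNat 0, .ofNat 0, .ofNat 7248210547487285678296938099758468527385526746333839360, .ofNat 0⟩)
    (by decide +kernel)
theorem L07548 : Good (Phi V5.P V5.D (-1) (-1)) ⟨7, 114, 5, 20, 5, 25, 4, 14, 5, 0⟩ :=
  leafX_sound T5.ok_mm T5.Ymm.bz_eq (w := 299) (c := ⟨⟨.ofNat 492, .ofNat 0, .negSucc 18, .negSucc 208, .negSucc 654, .negSucc 631⟩, ⟨.negSucc 301, .ofNat 0, .negSucc 11, .ofNat 138, .ofNat 432, .ofNat 416⟩, ⟨.negSucc 145, .ofNat 0, .negSucc 17, .ofNat 216, .ofNat 405, .ofNat 282⟩, ⟨.ofNat 138, .ofNat 0, .ofNat 0, .negSucc 301, .negSucc 979, .negSucc 933⟩, ⟨.negSucc 794, .ofNat 0, .negSucc 0, .negSucc 11, .negSucc 90, .negSucc 69⟩, .ofNat 14063, .ofNat 20807, .ofNat 0, .ofNat 20807, .ofNat 31589, .ofNat 0, .ofNat 128, .negSucc 2158, .negSucc 19999, .ofNat 0, .ofNat 1430, .ofNat 13178, .ofNat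 0, .ofNat 0, .ofNat 16242, .ofNat 55160, .ofNat 0, .ofNat 0, .ofNat 0, .ofNat 0, .ofNat 0, .ofNat 0, .ofNat 9286580795640949212560721608135343962828389176937933701120, .ofNat 0, .ofNat 0, .ofNat 0, .ofNat 228930900737174671861068876093295030751256519670732161024, .ofNat 0, .ofNat 0, .ofNat 0, .ofNat 5006379500649936111445194452640629300341448832962533523456, .ofNat 0⟩)
    (by decide +kernel)
theorem L07549 : Good (Phi V5.P V5.D (-1) (-1)) ⟨7, 114, 5, 21, 5, 25, 4, 14, 5, 0⟩ :=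
  leafX_sound T5.ok_mm T5.Ymm.bz_eq (w := 295) (c := ⟨⟨.ofNat 458, .negSucc 30, .ofNat 9, .negSucc 167, .negSucc 643, .negSucc 568⟩, ⟨.negSucc 310, .negSucc 16, .ofNat 49, .ofNat 113, .ofNat 429, .ofNat 379⟩, ⟨.negSucc 155, .ofNat 11, .ofNat 32, .ofNat 189, .ofNat 393, .ofNat 232⟩, ⟨.ofNat 334, .ofNat 2, .negSucc 8, .negSucc 309, .negSucc 1106, .negSucc 1080⟩, ⟨.negSucc 467, .ofNat 30, .ofNat 29, .negSucc 111, .negSucc 303, .negSucc 421⟩, .ofNat 7224, .ofNat 10454, .ofNat 0, .ofNat 10454, .ofNat 15909, .ofNat 0, .ofNat 128, .negSucc 1108, .negSucc 9025, .ofNat 0, .ofNat 738, .ofNat 5951, .ofNat 0, .ofNat 0, .ofNat 7240, .ofNat 5924, .ofNat 0, .ofNat 0, .ofNat 0, .ofNat 0, .ofNat 0, .ofNat 0, .ofNat 13667915248615214212716804137564335956168497016113987584, .ofNat 3305573620407022099675007373194122207155731751980910729407605243904, .ofNat 0, .ofNat 0, .ofNat 2810774137053088804195136859744255455981631123687997440,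 .ofNat 2676422842990619053274310963753348722133379007078391874291511590912, .ofNat 0, .ofNat 0, .ofNat 7948184336119627720351054598508122441099932170704650240, .ofNat 11702542276581670577850307018261345474818570176808137277000260780032⟩)
    (by decide +kernel)
theorem L07550 : Good (Phi V5.P V5.D (-1) (-1)) ⟨7, 115, 4, 10, 5, 25, 4, 14, 5, 0⟩ :=
  out_sound (S := T5.ds_mm) T5.ok_mm (w := 21) (j := 4) (by decide +kernel)
theorem L07551 : Good (Phi V5.P V5.D (-1) (-1)) ⟨6, 56, 4, 11, 5, 25, 4, 14, 5, 0⟩ :=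
  out_sound (S := T5.ds_mm) T5.ok_mm (w := 65) (j := 3) (by decide +kernel)
theorem L07552 : Good (Phi V5.P V5.D (-1) (-1)) ⟨7, 114, 5, 22, 5, 25, 4, 14, 5, 0⟩ :=
  out_sound (S := T5.ds_mm) T5.ok_mm (w := 73) (j := 3) (by decide +kernel)
theorem L07553 : Good (Phi V5.P V5.D (-1) (-1)) ⟨7, 115, 5, 22, 5, 25, 4, 14, 5, 0⟩ :=
  out_sound (S := T5.ds_mm) T5.ok_mm (w := 21) (j := 4) (by decide +kernel)
theorem L07554 : Good (Phi V5.P V5.D (-1) (-1)) ⟨6, 57, 5, 23, 5, 25, 4, 14, 5, 0⟩ :=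
  out_sound (S := T5.ds_mm) T5.ok_mm (w := 67) (j := 3) (by decide +kernel)
theorem L07555 : Good (Phi V5.P V5.D (-1) (-1)) ⟨5, 29, 3, 5, 5, 25, 4, 14, 5, 0⟩ :=
  out_sound (S := T5.ds_mm) T5.ok_mm (w := 17) (j := 4) (by decide +kernel)
theorem L07556 : Good (Phi V5.P V5.D (-1) (-1)) ⟨4, 15, 3, 5, 5, 25, 4, 14, 5, 0⟩ :=
  out_sound (S := T5.ds_mm) T5.ok_mm (w := 51) (j := 3) (by decide +kernel)
theorem L07557 : Good (Phi V5.P V5.D (-1) (-1)) ⟨2, 2, 5, 20, 4, 12, 4, 14, 5, 1⟩ :=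
  out_sound (S := T5.ds_mm) T5.ok_mm (w := 43) (j := 3) (by decide +kernel)
theorem L07558 : Good (Phi V5.P V5.D (-1) (-1)) ⟨3, 6, 5, 20, 4, 12, 4, 14, 5, 1⟩ :=
  out_sound (S := T5.ds_mm) T5.ok_mm (w := 49) (j := 3) (by decide +kernel)
theorem L07559 : Good (Phi V5.P V5.D (-1) (-1)) ⟨6, 56, 5, 20, 4, 12, 4, 14, 5, 1⟩ :=
  leafX_sound T5.ok_mm T5.Ymm.bz_eq (w := 276) (c := ⟨⟨.negSucc 922, .ofNat 188, .ofNat 79, .ofNat 146, .ofNat 182, .negSucc 694⟩, ⟨.ofNat 586, .negSucc 141, .negSucc 11, .negSucc 91, .negSucc 117, .ofNat 449⟩, ⟨.ofNat 699, .negSucc 204, .negSucc 10, .negSucc 55, .negSucc 222, .ofNat 305⟩, ⟨.negSucc 1929, .ofNat 263, .ofNat 184, .negSucc 51, .ofNat 271, .negSucc 1087⟩, ⟨.negSucc 939, .negSucc 61, .ofNat 158, .negSucc 396, .ofNat 19, .negSucc 161⟩, .ofNat 7320, .ofNat 10789, .ofNat 0, .ofNat 10789, .ofNat 16721, .ofNat 0, .ofNat 128, .negSucc 1051, .negSucc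 7069, .ofNat 0, .ofNat 687, .ofNat 4562, .ofNat 0, .ofNat 0, .ofNat 5516, .ofNat 780, .ofNat 0, .ofNat 0, .ofNat 376261187549767998242053544858866586303206522880, .ofNat 0, .ofNat 0, .ofNat 0, .ofNat 431312493384708420469146406112732613181498921582592, .ofNat 0, .ofNat 0, .ofNat 0, .ofNat 0, .ofNat 0, .ofNat 0, .ofNat 0, .ofNat 0, .ofNat 0⟩)
    (by decide +kernel)
theorem L07560 : Good (Phi V5.P V5.D (-1) (-1)) ⟨6, 57, 5, 20, 4, 12, 4, 14, 5, 1⟩ :=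
  leafX_sound T5.ok_mm T5.Ymm.bz_eq (w := 275) (c := ⟨⟨.negSucc 649, .ofNat 0, .ofNat 17, .negSucc 88, .ofNat 258, .negSucc 531⟩, ⟨.ofNat 416, .ofNat 0, .ofNat 1, .ofNat 59, .negSucc 171, .ofNat 350⟩, ⟨.ofNat 469, .ofNat 0, .ofNat 3, .ofNat 128, .negSucc 299, .ofNat 174⟩, ⟨.negSucc 1629, .ofNat 1, .ofNat 3, .negSucc 184, .ofNat 480, .negSucc 920⟩, ⟨.negSucc 1112, .ofNat 1, .ofNat 2, .negSucc 90, .ofNat 174, .negSucc 260⟩, .ofNat 4011, .ofNat 5543, .ofNat 0, .ofNat 5543, .ofNat 8409, .ofNat 0, .ofNat 128, .negSucc 1155, .negSucc 7651, .ofNat 0, .ofNat 778, .ofNat 4971, .ofNat 0, .ofNat 0, .ofNat 5894, .ofNat 10772, .ofNat 0, .ofNat 0, .ofNat 0, .ofNat 0, .ofNat 0, .ofNat 0, .ofNat 24756378449273141345695327508530579273585911752818688, .ofNat 0, .ofNat 0, .ofNat 0, .ofNat 6233793275871406495481185926942297307513135785050112, .ofNat 0, .ofNat 0, .ofNat 0, .ofNat 100067937610334737002204089119909041584026703137603584,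 .ofNat 0⟩)
    (by decide +kernel)
theorem L07561 : Good (Phi V5.P V5.D (-1) (-1)) ⟨5, 29, 5, 20, 4, 12, 4, 14, 5, 1⟩ :=
  out_sound (S := T5.ds_mm) T5.ok_mm (w := 61) (j := 3) (by decide +kernel)
theorem L07562 : Good (Phi V5.P V5.D (-1) (-1)) ⟨4, 15, 5, 20, 4, 12, 4, 14, 5, 1⟩ :=
  out_sound (S := T5.ds_mm) T5.ok_mm (w := 55) (j := 3) (by decide +kernel)
theorem L07563 : Good (Phi V5.P V5.D (-1) (-1)) ⟨2, 2, 5, 21, 4, 12, 4, 14, 5, 1⟩ :=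
  out_sound (S := T5.ds_mm) T5.ok_mm (w := 43) (j := 3) (by decide +kernel)
theorem L07564 : Good (Phi V5.P V5.D (-1) (-1)) ⟨3, 6, 5, 21, 4, 12, 4, 14, 5, 1⟩ :=
  out_sound (S := T5.ds_mm) T5.ok_mm (w := 49) (j := 3) (by decide +kernel)
theorem L07565 : Good (Phi V5.P V5.D (-1) (-1)) ⟨6, 56, 5, 21, 4, 12, 4, 14, 5, 1⟩ :=
  leafX_sound T5.ok_mm T5.Ymm.bz_eq (w := 282) (c := ⟨⟨.negSucc 615, .ofNat 0, .ofNat 25, .negSucc 14, .ofNat 272, .negSucc 625⟩, ⟨.ofNat 404, .ofNat 0, .ofNat 34, .ofNat 10, .negSucc 179, .ofNat 413⟩, ⟨.ofNat 445, .ofNat 0, .ofNat 94, .ofNat 70, .negSucc 297, .ofNat 261⟩, ⟨.negSucc 1678, .negSucc 0, .negSucc 5, .negSucc 42, .ofNat 434, .negSucc 906⟩, ⟨.negSucc 1225, .negSucc 0, .negSucc 2, .negSucc 32, .ofNat 78, .negSucc 41⟩, .ofNat 14607, .ofNat 21626, .ofNat 0, .ofNat 21626, .ofNat 32823, .ofNat 0, .ofNat 128, .negSucc 4354, .negSucc 31959, .ofNat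 0, .ofNat 2887, .ofNat 21062, .ofNat 0, .ofNat 0, .ofNat 25059, .ofNat 9722, .ofNat 0, .ofNat 0, .ofNat 0, .ofNat 0, .ofNat 0, .ofNat 0, .ofNat 9036848416011793196714589438685434145921925264703488, .ofNat 0, .ofNat 0, .ofNat 0, .ofNat 17663867089379734364510521564790764402044660480999424, .ofNat 0, .ofNat 0, .ofNat 0, .ofNat 0, .ofNat 0⟩)
    (by decide +kernel)
theorem L07566 : Good (Phi V5.P V5.D (-1) (-1)) ⟨7, 114, 6, 42, 4, 12, 4, 14, 5, 1⟩ :=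
  leafX_sound T5.ok_mm T5.Ymm.bz_eq (w := 286) (c := ⟨⟨.negSucc 710, .ofNat 76, .ofNat 209, .negSucc 179, .ofNat 382, .negSucc 571⟩, ⟨.ofNat 465, .negSucc 59, .negSucc 118, .ofNat 119, .negSucc 253, .ofNat 380⟩, ⟨.ofNat 519, .negSucc 46, .negSucc 153, .ofNat 193, .negSucc 377, .ofNat 214⟩, ⟨.negSucc 1726, .ofNat 43, .ofNat 111, .negSucc 114, .ofNat 507, .negSucc 885⟩, ⟨.negSucc 1098, .negSucc 119, .negSucc 246, .ofNat 205, .negSucc 40, .negSucc 129⟩, .ofNat 17424, .ofNat 25594, .ofNat 0, .ofNat 25594, .ofNat 38383, .ofNat 0, .ofNat 128, .negSucc 1201, .negSucc 8674, .ofNat 0, .ofNat 805, .ofNat 5775, .ofNat 0, .ofNat 0, .ofNat 6742, .ofNat 5108, .ofNat 0, .ofNat 0, .ofNat 0, .ofNat 0, .ofNat 0, .ofNat 0, .ofNat 2280988968814670410903469308635856783509591890591744, .ofNat 0, .ofNat 0, .ofNat 0, .ofNat 332940456049173883390719958392708728581676010045440, .ofNat 484850654683815726005213337799062680914289626514380804455399424,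 .ofNat 0, .ofNat 0, .ofNat 0, .ofNat 0⟩)
    (by decide +kernel)
theorem L07567 : Good (Phi V5.P V5.D (-1) (-1)) ⟨8, 228, 6, 43, 4, 12, 4, 14, 5, 1⟩ :=
  out_sound (S := T5.ds_mm) T5.ok_mm (w := 81) (j := 3) (by decide +kernel)
theorem L07568 : Good (Phi V5.P V5.D (-1) (-1)) ⟨8, 229, 6, 43, 4, 12, 4, 14, 5, 1⟩ :=
  out_sound (S := T5.ds_mm) T5.ok_mm (w := 23) (j := 4) (by decide +kernel)
theorem L07569 : Good (Phi V5.P V5.D (-1) (-1)) ⟨7, 115, 5, 21, 4, 12, 4, 14, 5, 1⟩ :=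
  out_sound (S := T5.ds_mm) T5.ok_mm (w := 21) (j := 4) (by decide +kernel)
theorem L07570 : Good (Phi V5.P V5.D (-1) (-1)) ⟨5, 29, 5, 21, 4, 12, 4, 14, 5, 1⟩ :=
  out_sound (S := T5.ds_mm) T5.ok_mm (w := 61) (j := 3) (by decide +kernel)
theorem L07571 : Good (Phi V5.P V5.D (-1) (-1)) ⟨4, 15, 5, 21, 4, 12, 4, 14, 5, 1⟩ :=
  out_sound (S := T5.ds_mm) T5.ok_mm (w := 55) (j := 3) (by decide +kernel)
theorem L07572 : Good (Phi V5.P V5.D (-1) (-1)) ⟨2, 2, 4, 11, 4, 12, 4, 14, 5, 1⟩ :=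
  out_sound (S := T5.ds_mm) T5.ok_mm (w := 41) (j := 3) (by decide +kernel)
theorem L07573 : Good (Phi V5.P V5.D (-1) (-1)) ⟨3, 6, 4, 11, 4, 12, 4, 14, 5, 1⟩ :=
  out_sound (S := T5.ds_mm) T5.ok_mm (w := 47) (j := 3) (by decide +kernel)
theorem L07574 : Good (Phi V5.P V5.D (-1) (-1)) ⟨6, 56, 4, 11, 4, 12, 4, 14, 5, 1⟩ :=
  out_sound (S := T5.ds_mm) T5.ok_mm (w := 65) (j := 3) (by decide +kernel)
theorem L07575 : Good (Phi V5.P V5.D (-1) (-1)) ⟨7, 114, 5, 22, 4, 12, 4, 14, 5, 1⟩ :=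
  out_sound (S := T5.ds_mm) T5.ok_mm (w := 73) (j := 3) (by decide +kernel)
theorem L07576 : Good (Phi V5.P V5.D (-1) (-1)) ⟨7, 115, 5, 22, 4, 12, 4, 14, 5, 1⟩ :=
  out_sound (S := T5.ds_mm) T5.ok_mm (w := 21) (j := 4) (by decide +kernel)
theorem L07577 : Good (Phi V5.P V5.D (-1) (-1)) ⟨6, 57, 5, 23, 4, 12, 4, 14, 5, 1⟩ :=
  out_sound (S := T5.ds_mm) T5.ok_mm (w := 67) (j := 3) (by decide +kernel)
theorem L07578 : Good (Phi V5.P V5.D (-1) (-1)) ⟨5, 29, 4, 11, 4, 12, 4, 14, 5, 1⟩ :=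
  out_sound (S := T5.ds_mm) T5.ok_mm (w := 17) (j := 4) (by decide +kernel)
theorem L07579 : Good (Phi V5.P V5.D (-1) (-1)) ⟨4, 15, 4, 11, 4, 12, 4, 14, 5, 1⟩ :=
  out_sound (S := T5.ds_mm) T5.ok_mm (w := 53) (j := 3) (by decide +kernel)
theorem L07580 : Good (Phi V5.P V5.D (-1) (-1)) ⟨2, 2, 3, 5, 4, 12, 4, 15, 4, 0⟩ :=
  out_sound (S := T5.ds_mm) T5.ok_mm (w := 39) (j := 3) (by decide +kernel)
theorem L07581 : Good (Phi V5.P V5.D (-1) (-1)) ⟨3, 6, 3, 5, 4, 12, 4, 15, 5, 0⟩ :=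
  out_sound (S := T5.ds_mm) T5.ok_mm (w := 45) (j := 3) (by decide +kernel)
theorem L07582 : Good (Phi V5.P V5.D (-1) (-1)) ⟨6, 56, 4, 10, 4, 12, 5, 30, 5, 0⟩ :=
  leafX_sound T5.ok_mm T5.Ymm.bz_eq (w := 275) (c := ⟨⟨.negSucc 523, .ofNat 100, .ofNat 74, .negSucc 285, .ofNat 43, .negSucc 51⟩, ⟨.ofNat 334, .negSucc 87, .ofNat 18, .ofNat 186, .negSucc 27, .ofNat 33⟩, ⟨.ofNat 490, .negSucc 96, .negSucc 17, .ofNat 297, .negSucc 87, .negSucc 177⟩, ⟨.negSucc 1303, .ofNat 148, .ofNat 51, .negSucc 497, .ofNat 63, .negSucc 154⟩, ⟨.negSucc 870, .ofNat 0, .negSucc 29, .negSucc 144, .ofNat 5, .negSucc 125⟩, .ofNat 5252, .ofNat 7627, .ofNat 0, .ofNat 7627, .ofNat 11884, .ofNat 0, .ofNat 128, .negSucc 727, .negSucc 4571, .ofNat 0, .ofNat 476, .ofNat 2941, .ofNat 0, .ofNat 0, .ofNat 3838, .ofNat 1210, .ofNat 0, .ofNat 0, .ofNat 0, .ofNat 0, .ofNat 0, .ofNat 0, .ofNat 0, .ofNat 0, .ofNat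 0, .ofNat 0, .ofNat 2044586089827111801403827187345885758840536221876224, .ofNat 0, .ofNat 0, .ofNat 0, .ofNat 2683725181295857618200617953389706580683167201492992, .ofNat 0⟩)
    (by decide +kernel)
theorem L07583 : Good (Phi V5.P V5.D (-1) (-1)) ⟨7, 114, 5, 20, 4, 12, 5, 30, 5, 0⟩ :=
  leafX_sound T5.ok_mm T5.Ymm.bz_eq (w := 290) (c := ⟨⟨.negSucc 337, .ofNat 0, .ofNat 21, .negSucc 384, .ofNat 21, .negSucc 40⟩, ⟨.ofNat 185, .ofNat 0, .ofNat 22, .ofNat 254, .negSucc 13, .ofNat 26⟩, ⟨.ofNat 309, .ofNat 0, .ofNat 12, .ofNat 384, .negSucc 67, .negSucc 182⟩, ⟨.negSucc 1087, .ofNat 1, .negSucc 0, .negSucc 525, .ofNat 16, .negSucc 94⟩, ⟨.negSucc 969, .ofNat 0, .ofNat 0, .ofNat 22, .negSucc 18, .negSucc 56⟩, .ofNat 14065, .ofNat 20809, .ofNat 0, .ofNat 20809, .ofNat 31592, .ofNat 0, .ofNat 128, .negSucc 4413, .negSucc 28027, .ofNat 0, .ofNat 2927, .ofNat 18470, .ofNat 0, .ofNat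 0, .ofNat 23804, .ofNat 77704, .ofNat 0, .ofNat 0, .ofNat 0, .ofNat 0, .ofNat 0, .ofNat 0, .ofNat 2974313182625644627845465281521570715259733793109442560, .ofNat 0, .ofNat 0, .ofNat 0, .ofNat 15080026261016637626310603142772119868261889371799552, .ofNat 0, .ofNat 0, .ofNat 0, .ofNat 5509377758190392231795276607366319125756895582195023872, .ofNat 0⟩)
    (by decide +kernel)
theorem L07584 : Good (Phi V5.P V5.D (-1) (-1)) ⟨7, 114, 5, 21, 4, 12, 5, 30, 5, 0⟩ :=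
  leafX_sound T5.ok_mm T5.Ymm.bz_eq (w := 285) (c := ⟨⟨.negSucc 253, .ofNat 23, .ofNat 26, .negSucc 403, .ofNat 26, .negSucc 69⟩, ⟨.ofNat 162, .negSucc 43, .ofNat 32, .ofNat 269, .negSucc 16, .ofNat 47⟩, ⟨.ofNat 265, .negSucc 19, .negSucc 2, .ofNat 405, .negSucc 73, .negSucc 154⟩, ⟨.negSucc 862, .ofNat 33, .negSucc 4, .negSucc 697, .ofNat 9, .negSucc 211⟩, ⟨.negSucc 767, .negSucc 22, .negSucc 14, .negSucc 194, .negSucc 40, .negSucc 170⟩, .ofNat 7204, .ofNat 10425, .ofNat 0, .ofNat 10425, .ofNat 15868, .ofNat 0, .ofNat 128, .negSucc 1698, .negSucc 11203, .ofNat 0, .ofNat 1132, .ofNat 7386, .ofNat 0, .ofNat 0, .ofNat 9358, .ofNat 7043, .ofNat 0, .ofNat 0, .ofNat 0, .ofNat 0, .ofNat 0, .ofNat 0, .ofNat 10613677058074933275120048120669816835587711474597888, .ofNat 2460721584958794290389579020901887450997552352459662072574115840, .ofNat 0, .ofNat 0, .ofNat 4112121827303256362025864380777408746419197910712320,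 .ofNat 4734144621092192016309456649279023008077311841076538701846151168, .ofNat 0, .ofNat 0, .ofNat 7033265840898880848560113480657369396844803779461120, .ofNat 12237550837926078084636092703196363642539455836834168488704606208⟩)
    (by decide +kernel)
theorem L07585 : Good (Phi V5.P V5.D (-1) (-1)) ⟨7, 115, 4, 10, 4, 12, 5, 30, 5, 0⟩ :=
  out_sound (S := T5.ds_mm) T5.ok_mm (w := 21) (j := 4) (by decide +kernel)
theorem L07586 : Good (Phi V5.P V5.D (-1) (-1)) ⟨6, 56, 4, 11, 4, 12, 5, 30, 5, 0⟩ :=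
  out_sound (S := T5.ds_mm) T5.ok_mm (w := 65) (j := 3) (by decide +kernel)
theorem L07587 : Good (Phi V5.P V5.D (-1) (-1)) ⟨7, 114, 5, 22, 4, 12, 5, 30, 5, 0⟩ :=
  out_sound (S := T5.ds_mm) T5.ok_mm (w := 73) (j := 3) (by decide +kernel)
theorem L07588 : Good (Phi V5.P V5.D (-1) (-1)) ⟨7, 115, 5, 22, 4, 12, 5, 30, 5, 0⟩ :=
  out_sound (S := T5.ds_mm) T5.ok_mm (w := 21) (j := 4) (by decide +kernel)
theorem L07589 : Good (Phi V5.P V5.D (-1) (-1)) ⟨6, 57, 5, 23, 4, 12, 5, 30, 5, 0⟩ :=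
  out_sound (S := T5.ds_mm) T5.ok_mm (w := 67) (j := 3) (by decide +kernel)
theorem L07590 : Good (Phi V5.P V5.D (-1) (-1)) ⟨5, 29, 3, 5, 4, 12, 5, 30, 5, 0⟩ :=
  out_sound (S := T5.ds_mm) T5.ok_mm (w := 17) (j := 4) (by decide +kernel)
theorem L07591 : Good (Phi V5.P V5.D (-1) (-1)) ⟨6, 56, 4, 10, 4, 12, 5, 31, 5, 0⟩ :=
  leafX_sound T5.ok_mm T5.Ymm.bz_eq (w := 274) (c := ⟨⟨.negSucc 600, .ofNat 133, .ofNat 127, .negSucc 314, .ofNat 197, .ofNat 221⟩, ⟨.ofNat 378, .negSucc 92, .negSucc 40, .ofNat 206, .negSucc 128, .negSucc 143⟩, ⟨.ofNat 464, .negSucc 57, .negSucc 121, .ofNat 327, .negSucc 222, .negSucc 389⟩, ⟨.negSucc 1434, .ofNat 167, .ofNat 169, .negSucc 637, .ofNat 368, .ofNat 361⟩, ⟨.negSucc 909, .negSucc 33, .ofNat 27, .negSucc 293, .ofNat 137, .ofNat 77⟩, .ofNat 3617, .ofNat 5140, .ofNat 0, .ofNat 5140, .ofNat 8097, .ofNat 0, .ofNat 128, .negSucc 857, .negSucc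 5290, .ofNat 0, .ofNat 560, .ofNat 3374, .ofNat 0, .ofNat 0, .ofNat 4475, .ofNat 4531, .ofNat 0, .ofNat 0, .ofNat 0, .ofNat 0, .ofNat 0, .ofNat 0, .ofNat 2082023713331482970745746043700834663570718838489088, .ofNat 0, .ofNat 0, .ofNat 0, .ofNat 1930963440853793031197128033569437658806375436779520, .ofNat 0, .ofNat 0, .ofNat 0, .ofNat 5761764578166941392373827459831330299095596188827648, .ofNat 0⟩)
    (by decide +kernel)
theorem L07592 : Good (Phi V5.P V5.D (-1) (-1)) ⟨6, 57, 4, 10, 4, 12, 5, 31, 5, 0⟩ :=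
  leafX_sound T5.ok_mm T5.Ymm.bz_eq (w := 274) (c := ⟨⟨.negSucc 489, .ofNat 102, .ofNat 121, .negSucc 438, .ofNat 251, .ofNat 324⟩, ⟨.ofNat 306, .negSucc 71, .negSucc 49, .ofNat 294, .negSucc 166, .negSucc 215⟩, ⟨.ofNat 390, .negSucc 97, .negSucc 68, .ofNat 439, .negSucc 266, .negSucc 470⟩, ⟨.negSucc 1301, .ofNat 205, .ofNat 185, .negSucc 751, .ofNat 407, .ofNat 488⟩, ⟨.negSucc 954, .ofNat 80, .ofNat 75, .negSucc 201, .ofNat 83, .ofNat 51⟩, .ofNat 3726, .ofNat 5131, .ofNat 0, .ofNat 5131, .ofNat 7802, .ofNat 0, .ofNat 128, .negSucc 982, .negSucc 5461, .ofNat 0, .ofNat 664, .ofNat 3586, .ofNat 0, .ofNat 0, .ofNat 4605, .ofNat 1713, .ofNat 0, .ofNat 0, .ofNat 1903197786444081364587826990847752908212782759936, .ofNat 0, .ofNat 0, .ofNat 0, .ofNat 6634774419084794305473303953310894394680645219516416, .ofNat 0, .ofNat 0, .ofNat 0, .ofNat 0, .ofNat 0, .ofNat 0, .ofNat 0,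 .ofNat 0, .ofNat 58950975812350865966935479052220320069638038763586906539163648⟩)
    (by decide +kernel)
theorem L07593 : Good (Phi V5.P V5.D (-1) (-1)) ⟨6, 56, 4, 11, 4, 12, 5, 31, 5, 0⟩ :=
  out_sound (S := T5.ds_mm) T5.ok_mm (w := 65) (j := 3) (by decide +kernel)
theorem L07594 : Good (Phi V5.P V5.D (-1) (-1)) ⟨7, 114, 5, 22, 4, 12, 5, 31, 5, 0⟩ :=
  out_sound (S := T5.ds_mm) T5.ok_mm (w := 73) (j := 3) (by decide +kernel)
theorem L07595 : Good (Phi V5.P V5.D (-1) (-1)) ⟨7, 115, 5, 22, 4, 12, 5, 31, 5, 0⟩ :=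
  out_sound (S := T5.ds_mm) T5.ok_mm (w := 21) (j := 4) (by decide +kernel)
theorem L07596 : Good (Phi V5.P V5.D (-1) (-1)) ⟨6, 57, 5, 23, 4, 12, 5, 31, 5, 0⟩ :=
  out_sound (S := T5.ds_mm) T5.ok_mm (w := 67) (j := 3) (by decide +kernel)
theorem L07597 : Good (Phi V5.P V5.D (-1) (-1)) ⟨5, 29, 3, 5, 4, 12, 5, 31, 5, 0⟩ :=
  out_sound (S := T5.ds_mm) T5.ok_mm (w := 17) (j := 4) (by decide +kernel)
theorem L07598 : Good (Phi V5.P V5.D (-1) (-1)) ⟨4, 15, 3, 5, 4, 12, 4, 15, 5, 0⟩ :=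
  out_sound (S := T5.ds_mm) T5.ok_mm (w := 51) (j := 3) (by decide +kernel)
theorem L07599 : Good (Phi V5.P V5.D (-1) (-1)) ⟨3, 6, 3, 5, 4, 12, 4, 15, 5, 1⟩ :=
  out_sound (S := T5.ds_mm) T5.ok_mm (w := 45) (j := 3) (by decide +kernel)
theorem L07600 : Good (Phi V5.P V5.D (-1) (-1)) ⟨6, 56, 5, 20, 4, 12, 4, 15, 5, 1⟩ :=
  leafX_sound T5.ok_mm T5.Ymm.bz_eq (w := 275) (c := ⟨⟨.negSucc 806, .ofNat 26, .ofNat 222, .negSucc 177, .ofNat 745, .ofNat 239⟩, ⟨.ofNat 518, .negSucc 36, .negSucc 115, .ofNat 115, .negSucc 484, .negSucc 155⟩, ⟨.ofNat 495, .negSucc 59, .negSucc 131, .ofNat 211, .negSucc 680, .negSucc 370⟩, ⟨.negSucc 1930, .ofNat 57, .ofNat 291, .negSucc 415, .ofNat 1433, .ofNat 550⟩, ⟨.negSucc 1219, .ofNat 21, .negSucc 6, .negSucc 253, .ofNat 583, .ofNat 328⟩, .ofNat 5218, .ofNat 7580, .ofNat 0, .ofNat 7580, .ofNat 11822, .ofNat 0, .ofNat 128, .negSucc 993, .negSucc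 5745, .ofNat 0, .ofNat 649, .ofNat 3687, .ofNat 0, .ofNat 0, .ofNat 4556, .ofNat 3258, .ofNat 0, .ofNat 0, .ofNat 0, .ofNat 0, .ofNat 0, .ofNat 50727076437281372496472046829555162339942849859404431360, .ofNat 134705300392837714813170653336326894688887965220864, .ofNat 0, .ofNat 0, .ofNat 18506189283586215222559047894458811043849071391701729280, .ofNat 0, .ofNat 0, .ofNat 0, .ofNat 0, .ofNat 0, .ofNat 0⟩)
    (by decide +kernel)
theorem L07601 : Good (Phi V5.P V5.D (-1) (-1)) ⟨6, 56, 5, 21, 4, 12, 4, 15, 5, 1⟩ :=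
  leafX_sound T5.ok_mm T5.Ymm.bz_eq (w := 284) (c := ⟨⟨.negSucc 588, .ofNat 0, .ofNat 23, .negSucc 285, .ofNat 792, .ofNat 392⟩, ⟨.ofNat 385, .ofNat 0, .ofNat 9, .ofNat 189, .negSucc 521, .negSucc 257⟩, ⟨.ofNat 310, .ofNat 0, .negSucc 13, .ofNat 309, .negSucc 714, .negSucc 473⟩, ⟨.negSucc 1326, .ofNat 0, .ofNat 3, .negSucc 317, .ofNat 882, .ofNat 415⟩, ⟨.negSucc 758, .ofNat 0, .ofNat 0, .ofNat 124, .negSucc 340, .negSucc 198⟩, .ofNat 23127, .ofNat 34458, .ofNat 0, .ofNat 34458, .ofNat 52152, .ofNat 0, .ofNat 128, .negSucc 6746, .negSucc 30435, .ofNat 0, .ofNat 4474, .ofNat 20088, .ofNat 0, .ofNat 0, .ofNat 24458, .ofNat 12956, .ofNat 0, .ofNat 0, .ofNat 0, .ofNat 0, .ofNat 0, .ofNat 220629433650642889452305028876539052545350356436269400064, .ofNat 7338213181988223907362524398810731758487337279946752, .ofNat 0, .ofNat 0, .ofNat 0, .ofNat 0, .ofNat 0, .ofNat 0, .ofNat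 0, .ofNat 0, .ofNat 0⟩)
    (by decide +kernel)
theorem L07602 : Good (Phi V5.P V5.D (-1) (-1)) ⟨6, 56, 4, 11, 4, 12, 4, 15, 5, 1⟩ :=
  out_sound (S := T5.ds_mm) T5.ok_mm (w := 65) (j := 3) (by decide +kernel)
theorem L07603 : Good (Phi V5.P V5.D (-1) (-1)) ⟨7, 114, 5, 20, 4, 12, 4, 15, 5, 1⟩ :=
  leafX_sound T5.ok_mm T5.Ymm.bz_eq (w := 288) (c := ⟨⟨.negSucc 564, .ofNat 0, .ofNat 6, .negSucc 268, .ofNat 749, .ofNat 368⟩, ⟨.ofNat 359, .ofNat 0, .ofNat 7, .ofNat 177, .negSucc 493, .negSucc 241⟩, ⟨.ofNat 282, .ofNat 0, .ofNat 1, .ofNat 294, .negSucc 681, .negSucc 446⟩, ⟨.negSucc 1261, .ofNat 0, .ofNat 0, .negSucc 278, .ofNat 793, .ofNat 368⟩, ⟨.negSucc 722, .ofNat 0, .negSucc 0, .ofNat 146, .negSucc 386, .negSucc 218⟩, .ofNat 26806, .ofNat 40000, .ofNat 0, .ofNat 40000, .ofNat 60499, .ofNat 0, .ofNat 128, .negSucc 6559, .negSucc 32231, .ofNat 0, .ofNat 4350, .ofNat 21271,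 .ofNat 0, .ofNat 0, .ofNat 25751, .ofNat 53146, .ofNat 0, .ofNat 0, .ofNat 0, .ofNat 0, .ofNat 0, .ofNat 0, .ofNat 527641867591559826381272032842577820539713400864768000, .ofNat 0, .ofNat 0, .ofNat 0, .ofNat 11932054088724476624183328951739348508605735264845824, .ofNat 0, .ofNat 0, .ofNat 75933265610481379275050624257379367696768155065314738962432, .ofNat 552650990907459141688135334255556969760887722070769664, .ofNat 0⟩)
    (by decide +kernel)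
theorem L07604 : Good (Phi V5.P V5.D (-1) (-1)) ⟨7, 114, 5, 21, 4, 12, 4, 15, 5, 1⟩ :=
  leafX_sound T5.ok_mm T5.Ymm.bz_eq (w := 283) (c := ⟨⟨.negSucc 594, .ofNat 80, .ofNat 128, .negSucc 383, .ofNat 874, .ofNat 515⟩, ⟨.ofNat 391, .negSucc 69, .negSucc 58, .ofNat 255, .negSucc 580, .negSucc 340⟩, ⟨.ofNat 308, .negSucc 123, .negSucc 33, .ofNat 389, .negSucc 776, .negSucc 553⟩, ⟨.negSucc 1344, .ofNat 87, .ofNat 83, .negSucc 481, .ofNat 1196, .ofNat 605⟩, ⟨.negSucc 774, .negSucc 77, .negSucc 73, .ofNat 82, .negSucc 40, .negSucc 171⟩, .ofNat 18704, .ofNat 27660, .ofNat 0, .ofNat 27660, .ofNat 41701, .ofNat 0, .ofNat 128, .negSucc 1439, .negSucc 8002, .ofNat 0, .ofNat 959, .ofNat 5310, .ofNat 0, .ofNat 0, .ofNat 6348, .ofNat 3579, .ofNat 0, .ofNat 0, .ofNat 0, .ofNat 0, .ofNat 0, .ofNat 0, .ofNat 1546035391266248460389627571502423328200399595241472, .ofNat 89690922789451559101319302475585601014403544441798654632656896,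 .ofNat 0, .ofNat 0, .ofNat 281901162144927532732383452764893006439385791463424, .ofNat 209356459092015715060947815556749236076211478879350092512362496, .ofNat 0, .ofNat 0, .ofNat 1630455079040488077378532444178126559344538654081024, .ofNat 591643724026666389417558664269443532178188774551696836715872256⟩)
    (by decide +kernel)
theorem L07605 : Good (Phi V5.P V5.D (-1) (-1)) ⟨7, 115, 4, 10, 4, 12, 4, 15, 5, 1⟩ :=
  out_sound (S := T5.ds_mm) T5.ok_mm (w := 21) (j := 4) (by decide +kernel)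
theorem L07606 : Good (Phi V5.P V5.D (-1) (-1)) ⟨7, 114, 5, 22, 4, 12, 4, 15, 5, 1⟩ :=
  out_sound (S := T5.ds_mm) T5.ok_mm (w := 73) (j := 3) (by decide +kernel)
theorem L07607 : Good (Phi V5.P V5.D (-1) (-1)) ⟨7, 115, 5, 22, 4, 12, 4, 15, 5, 1⟩ :=
  out_sound (S := T5.ds_mm) T5.ok_mm (w := 21) (j := 4) (by decide +kernel)
theorem L07608 : Good (Phi V5.P V5.D (-1) (-1)) ⟨6, 57, 5, 23, 4, 12, 4, 15, 5, 1⟩ :=
  out_sound (S := T5.ds_mm) T5.ok_mm (w := 67) (j := 3) (by decide +kernel)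
theorem L07609 : Good (Phi V5.P V5.D (-1) (-1)) ⟨5, 29, 3, 5, 4, 12, 4, 15, 5, 1⟩ :=
  out_sound (S := T5.ds_mm) T5.ok_mm (w := 17) (j := 4) (by decide +kernel)
theorem L07610 : Good (Phi V5.P V5.D (-1) (-1)) ⟨4, 15, 3, 5, 4, 12, 4, 15, 5, 1⟩ :=
  out_sound (S := T5.ds_mm) T5.ok_mm (w := 51) (j := 3) (by decide +kernel)
theorem L07611 : Good (Phi V5.P V5.D (-1) (-1)) ⟨2, 2, 5, 20, 4, 13, 4, 14, 4, 0⟩ :=
  out_sound (S := T5.ds_mm) T5.ok_mm (w := 43) (j := 3) (by decide +kernel)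
theorem L07612 : Good (Phi V5.P V5.D (-1) (-1)) ⟨3, 6, 5, 20, 4, 13, 4, 14, 4, 0⟩ :=
  out_sound (S := T5.ds_mm) T5.ok_mm (w := 49) (j := 3) (by decide +kernel)
theorem L07613 : Good (Phi V5.P V5.D (-1) (-1)) ⟨6, 56, 5, 20, 4, 13, 4, 14, 5, 0⟩ :=
  leafX_sound T5.ok_mm T5.Ymm.bz_eq (w := 274) (c := ⟨⟨.ofNat 6, .negSucc 57, .ofNat 25, .negSucc 271, .negSucc 462, .negSucc 519⟩, ⟨.negSucc 4, .ofNat 13, .ofNat 19, .ofNat 176, .ofNat 298, .ofNat 334⟩, ⟨.ofNat 302, .ofNat 16, .ofNat 16, .ofNat 251, .ofNat 211, .ofNat 143⟩, ⟨.negSucc 350, .negSucc 79, .negSucc 10, .negSucc 455, .negSucc 863, .negSucc 1006⟩, ⟨.negSucc 553, .negSucc 13, .negSucc 43, .negSucc 108, .negSucc 319, .negSucc 415⟩, .ofNat 5098, .ofNat 7406, .ofNat 0, .ofNat 7406, .ofNat 11570, .ofNat 0, .ofNat 128, .negSucc 931, .negSucc 4310, .ofNat 0, .ofNat 603, .ofNat 2760, .ofNat 0, .ofNat 0, .ofNat 3222, .ofNat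 1524, .ofNat 0, .ofNat 0, .ofNat 398160139139629119794909241145385246495961251840, .ofNat 0, .ofNat 0, .ofNat 0, .ofNat 0, .ofNat 0, .ofNat 0, .ofNat 0, .ofNat 0, .ofNat 0, .ofNat 0, .ofNat 0, .ofNat 0, .ofNat 0⟩)
    (by decide +kernel)
theorem L07614 : Good (Phi V5.P V5.D (-1) (-1)) ⟨6, 57, 5, 20, 4, 13, 4, 14, 5, 0⟩ :=
  leafX_sound T5.ok_mm T5.Ymm.bz_eq (w := 284) (c := ⟨⟨.ofNat 70, .ofNat 0, .ofNat 17, .negSucc 407, .negSucc 480, .negSucc 502⟩, ⟨.negSucc 70, .ofNat 0, .ofNat 12, .ofNat 269, .ofNat 317, .ofNat 331⟩, ⟨.ofNat 221, .ofNat 0, .ofNat 13, .ofNat 354, .ofNat 222, .ofNat 146⟩, ⟨.negSucc 680, .ofNat 1, .ofNat 0, .negSucc 440, .negSucc 541, .negSucc 560⟩, ⟨.negSucc 1207, .ofNat 0, .negSucc 0, .ofNat 198, .ofNat 200, .ofNat 217⟩, .ofNat 26852, .ofNat 40069, .ofNat 0, .ofNat 40069, .ofNat 60603, .ofNat 0, .ofNat 128, .negSucc 5162, .negSucc 27037, .ofNat 0,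 .ofNat 3417, .ofNat 17841, .ofNat 0, .ofNat 0, .ofNat 20305, .ofNat 56398, .ofNat 0, .ofNat 0, .ofNat 4166970627590470432171545490536510932619599282176, .ofNat 0, .ofNat 0, .ofNat 0, .ofNat 1942975603227611798540685867895641159989297302743285760, .ofNat 0, .ofNat 0, .ofNat 0, .ofNat 303381936617321915138267727658618707523630360489361408, .ofNat 0, .ofNat 0, .ofNat 0, .ofNat 809957227671377484457357394373803709895674860178243584, .ofNat 0⟩)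
    (by decide +kernel)
theorem L07615 : Good (Phi V5.P V5.D (-1) (-1)) ⟨5, 29, 5, 20, 4, 13, 4, 14, 5, 0⟩ :=
  out_sound (S := T5.ds_mm) T5.ok_mm (w := 61) (j := 3) (by decide +kernel)
theorem L07616 : Good (Phi V5.P V5.D (-1) (-1)) ⟨4, 15, 5, 20, 4, 13, 4, 14, 5, 0⟩ :=
  out_sound (S := T5.ds_mm) T5.ok_mm (w := 55) (j := 3) (by decide +kernel)

end Crest.Agent.R097C5.N5mm
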