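import Crest.Agent.R097.KP7
import Crest.Agent.R097.T5Ymm

/-!
# Row 97, box cover in dimension n = 5 (generated)
-/

set_option autoImplicit false
set_option Elab.async false
set_option maxHeartbeats 0
set_option maxRecDepth 100000

open Crest.Agent.R097 Crest.Agent.R097.KA


namespace Crest.Agent.R097C5.N5mm

theorem L07617 : Good (Phi V5.P V5.D (-1) (-1)) ⟨4, 14, 6, 40, 4, 13, 4, 14, 5, 1⟩ :=
  leafX_sound T5.ok_mm T5.Ymm.bz_eq (w := 267) (c := ⟨⟨.negSucc 968, .negSucc 134, .ofNat 24, .negSucc 23, .ofNat 154, .negSucc 16⟩, ⟨.ofNat 624, .negSucc 26, .ofNat 6, .ofNat 14, .negSucc 98, .ofNat 6⟩, ⟨.ofNat 798, .ofNat 16, .negSucc 9, .ofNat 42, .negSucc 216, .negSucc 233⟩, ⟨.negSucc 2193, .negSucc 156, .ofNat 45, .negSucc 55, .ofNat 242, .negSucc 56⟩, ⟨.negSucc 1274, .ofNat 7, .ofNat 29, .negSucc 34, .ofNat 35, .negSucc 36⟩, .ofNat 2520, .ofNat 3278, .ofNat 0, .ofNat 3278, .ofNat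 4959, .ofNat 0, .ofNat 128, .negSucc 1004, .negSucc 6272, .ofNat 0, .ofNat 670, .ofNat 3995, .ofNat 0, .ofNat 0, .ofNat 4234, .ofNat 3511, .ofNat 0, .ofNat 0, .ofNat 6729322306848231410030459420837189775265051443200, .ofNat 12057262261390443791206447848792620508115740681525658648576, .ofNat 0, .ofNat 0, .ofNat 390241882988471169199905352273189828662519249502208, .ofNat 405252827509043043941389216052896573689002460603194114310144, .ofNat 0, .ofNat 0, .ofNat 2837777141358894074022006144280415197898188678758400, .ofNat 0, .ofNat 0, .ofNat 0, .ofNat 7453201309431156065427733160191586686386308816830464, .ofNat 0⟩)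
    (by decide +kernel)
theorem L07618 : Good (Phi V5.P V5.D (-1) (-1)) ⟨4, 14, 6, 41, 4, 13, 4, 14, 5, 1⟩ :=
  leafX_sound T5.ok_mm T5.Ymm.bz_eq (w := 269) (c := ⟨⟨.negSucc 831, .negSucc 171, .ofNat 84, .negSucc 170, .ofNat 150, .negSucc 32⟩, ⟨.ofNat 560, .negSucc 26, .negSucc 29, .ofNat 112, .negSucc 99, .ofNat 18⟩, ⟨.ofNat 727, .negSucc 130, .negSucc 24, .ofNat 153, .negSucc 216, .negSucc 206⟩, ⟨.negSucc 1982, .negSucc 101, .ofNat 52, .negSucc 321, .ofNat 308, .negSucc 71⟩, ⟨.negSucc 1205, .ofNat 33, .negSucc 73, .negSucc 123, .ofNat 139, .negSucc 32⟩, .ofNat 3136, .ofNat 4169, .ofNat 0, .ofNat 4169, .ofNat 6245, .ofNat 0, .ofNat 128, .negSucc 1221, .negSucc 7553, .ofNat 0, .ofNat 820, .ofNat 4905, .ofNat 0, .ofNat 0, .ofNat 5098, .ofNat 2729, .ofNat 0, .ofNat 0, .ofNat 8764290747606088623086563111133795159034220773376, .ofNat 9838906405506596801829240032030292986786072644895494897664,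 .ofNat 0, .ofNat 0, .ofNat 695275431118051480548629188906780813597711450243072, .ofNat 1286682097146047888620977640146141985884723911909469537173504, .ofNat 0, .ofNat 0, .ofNat 3687908747842368367079429464277859899229739734269952, .ofNat 0, .ofNat 0, .ofNat 0, .ofNat 1668477302593272317087852057189043076996199983611904, .ofNat 18408629431784253285421055297560866548980298047620653722370048⟩)
    (by decide +kernel)
theorem L07619 : Good (Phi V5.P V5.D (-1) (-1)) ⟨4, 15, 5, 20, 4, 13, 4, 14, 5, 1⟩ :=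
  out_sound (S := T5.ds_mm) T5.ok_mm (w := 55) (j := 3) (by decide +kernel)
theorem L07620 : Good (Phi V5.P V5.D (-1) (-1)) ⟨2, 2, 5, 21, 4, 13, 4, 14, 4, 0⟩ :=
  out_sound (S := T5.ds_mm) T5.ok_mm (w := 43) (j := 3) (by decide +kernel)
theorem L07621 : Good (Phi V5.P V5.D (-1) (-1)) ⟨3, 6, 5, 21, 4, 13, 4, 14, 4, 0⟩ :=
  out_sound (S := T5.ds_mm) T5.ok_mm (w := 49) (j := 3) (by decide +kernel)
theorem L07622 : Good (Phi V5.P V5.D (-1) (-1)) ⟨6, 56, 5, 21, 4, 13, 4, 14, 5, 0⟩ :=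
  leafX_sound T5.ok_mm T5.Ymm.bz_eq (w := 282) (c := ⟨⟨.ofNat 86, .ofNat 0, .ofNat 83, .negSucc 345, .negSucc 498, .negSucc 530⟩, ⟨.negSucc 58, .ofNat 0, .negSucc 30, .ofNat 229, .ofNat 329, .ofNat 349⟩, ⟨.ofNat 238, .ofNat 0, .ofNat 108, .ofNat 316, .ofNat 233, .ofNat 146⟩, ⟨.negSucc 350, .negSucc 0, .ofNat 23, .negSucc 520, .negSucc 859, .negSucc 884⟩, ⟨.negSucc 712, .ofNat 0, .negSucc 14, .negSucc 53, .negSucc 237, .negSucc 209⟩, .ofNat 14625, .ofNat 21654, .ofNat 0, .ofNat 21654, .ofNat 32865, .ofNat 0, .ofNat 128, .negSucc 5129, .negSucc 24381, .ofNat 0, .ofNat 3392, .ofNat 16058, .ofNat 0, .ofNat 0, .ofNat 18199, .ofNat 17335, .ofNat 0, .ofNat 0, .ofNat 0, .ofNat 0, .ofNat 0, .ofNat 0, .ofNat 10184627034637221706847962295042229433211097416990720, .ofNat 0, .ofNat 0, .ofNat 0, .ofNat 29174415073564788237997797984264430678229765639372800, .ofNat 0, .ofNat 0, .ofNat 0, .ofNat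 29515954496731183209484836875259942487755074335408128, .ofNat 0⟩)
    (by decide +kernel)
theorem L07623 : Good (Phi V5.P V5.D (-1) (-1)) ⟨7, 112, 5, 21, 4, 13, 4, 14, 5, 1⟩ :=
  out_sound (S := T5.ds_mm) T5.ok_mm (w := 73) (j := 3) (by decide +kernel)
theorem L07624 : Good (Phi V5.P V5.D (-1) (-1)) ⟨7, 113, 5, 21, 4, 13, 4, 14, 5, 1⟩ :=
  leafX_sound T5.ok_mm T5.Ymm.bz_eq (w := 286) (c := ⟨⟨.negSucc 844, .negSucc 27, .negSucc 29, .negSucc 141, .ofNat 196, .ofNat 0⟩, ⟨.ofNat 565, .ofNat 9, .ofNat 81, .ofNat 93, .negSucc 129, .ofNat 0⟩, ⟨.ofNat 714, .ofNat 1, .ofNat 66, .ofNat 130, .negSucc 240, .negSucc 220⟩, ⟨.negSucc 2015, .negSucc 13, .negSucc 25, .negSucc 196, .ofNat 274, .negSucc 111⟩, ⟨.negSucc 1213, .ofNat 2, .ofNat 4, .ofNat 3, .negSucc 0, .negSucc 168⟩, .ofNat 14695, .ofNat 21762, .ofNat 0, .ofNat 21762, .ofNat 33033, .ofNat 0, .ofNat 128, .negSucc 4963, .negSucc 28712,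 .ofNat 0, .ofNat 3281, .ofNat 18899, .ofNat 0, .ofNat 0, .ofNat 20220, .ofNat 4515, .ofNat 0, .ofNat 0, .ofNat 1418675450140671369017981071242445933369324732416, .ofNat 0, .ofNat 0, .ofNat 0, .ofNat 2150783546573267287340094015957196148675919296331776, .ofNat 0, .ofNat 0, .ofNat 0, .ofNat 1957568221477471248996218867192621842666970614333440, .ofNat 0, .ofNat 0, .ofNat 0, .ofNat 0, .ofNat 0⟩)
    (by decide +kernel)
theorem L07625 : Good (Phi V5.P V5.D (-1) (-1)) ⟨8, 228, 6, 42, 4, 13, 4, 14, 5, 0⟩ :=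
  leafX_sound T5.ok_mm T5.Ymm.bz_eq (w := 288) (c := ⟨⟨.ofNat 108, .ofNat 14, .negSucc 25, .negSucc 369, .negSucc 486, .negSucc 502⟩, ⟨.negSucc 78, .negSucc 12, .ofNat 30, .ofNat 248, .ofNat 327, .ofNat 336⟩, ⟨.ofNat 218, .ofNat 70, .negSucc 53, .ofNat 333, .ofNat 231, .ofNat 131⟩, ⟨.negSucc 64, .ofNat 21, .ofNat 7, .negSucc 716, .negSucc 1051, .negSucc 1084⟩, ⟨.negSucc 329, .ofNat 36, .ofNat 39, .negSucc 294, .negSucc 549, .negSucc 566⟩, .ofNat 7149, .ofNat 10346, .ofNat 0, .ofNat 10346, .ofNat 15754, .ofNat 0, .ofNat 128, .negSucc 1350, .negSucc 9067, .ofNat 0, .ofNat 895, .ofNat 5966, .ofNat 0, .ofNat 0, .ofNat 6670, .ofNat 3479, .ofNat 0, .ofNat 0, .ofNat 0, .ofNat 0, .ofNat 0, .ofNat 0, .ofNat 0, .ofNat 0, .ofNat 0, .ofNat 0, .ofNat 222015691520626424354611611894543261270140671492096, .ofNat 1171403387830574023018938616434352738145576697449868409496928256, .ofNat 0, .ofNat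 0, .ofNat 0, .ofNat 0⟩)
    (by decide +kernel)
theorem L07626 : Good (Phi V5.P V5.D (-1) (-1)) ⟨8, 228, 6, 42, 4, 13, 4, 14, 5, 1⟩ :=
  leafX_sound T5.ok_mm T5.Ymm.bz_eq (w := 292) (c := ⟨⟨.negSucc 894, .ofNat 3, .ofNat 45, .negSucc 182, .ofNat 146, .ofNat 76⟩, ⟨.ofNat 588, .negSucc 0, .negSucc 16, .ofNat 121, .negSucc 97, .negSucc 49⟩, ⟨.ofNat 723, .ofNat 9, .negSucc 33, .ofNat 161, .negSucc 206, .negSucc 263⟩, ⟨.negSucc 2132, .ofNat 20, .ofNat 40, .negSucc 264, .ofNat 320, .ofNat 53⟩, ⟨.negSucc 1320, .ofNat 6, .negSucc 3, .negSucc 13, .ofNat 174, .negSucc 77⟩, .ofNat 18492, .ofNat 27347, .ofNat 0, .ofNat 27347, .ofNat 41239, .ofNat 0, .ofNat 128, .negSucc 2434, .negSucc 14852, .ofNat 0, .ofNat 1620, .ofNat 9848, .ofNat 0, .ofNat 0, .ofNat 10390, .ofNat 9497, .ofNat 0, .ofNat 0, .ofNat 0, .ofNat 0, .ofNat 0, .ofNat 0, .ofNat 7044601016855344804690886983629118381234749865721856,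 .ofNat 0, .ofNat 0, .ofNat 0, .ofNat 0, .ofNat 0, .ofNat 0, .ofNat 0, .ofNat 0, .ofNat 0⟩)
    (by decide +kernel)
theorem L07627 : Good (Phi V5.P V5.D (-1) (-1)) ⟨8, 229, 6, 42, 4, 13, 4, 14, 4, 0⟩ :=
  out_sound (S := T5.ds_mm) T5.ok_mm (w := 23) (j := 4) (by decide +kernel)
theorem L07628 : Good (Phi V5.P V5.D (-1) (-1)) ⟨8, 228, 6, 43, 4, 13, 4, 14, 4, 0⟩ :=
  out_sound (S := T5.ds_mm) T5.ok_mm (w := 81) (j := 3) (by decide +kernel)
theorem L07629 : Good (Phi V5.P V5.D (-1) (-1)) ⟨8, 229, 6, 43, 4, 13, 4, 14, 4, 0⟩ :=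
  out_sound (S := T5.ds_mm) T5.ok_mm (w := 23) (j := 4) (by decide +kernel)
theorem L07630 : Good (Phi V5.P V5.D (-1) (-1)) ⟨7, 115, 5, 21, 4, 13, 4, 14, 4, 0⟩ :=
  out_sound (S := T5.ds_mm) T5.ok_mm (w := 21) (j := 4) (by decide +kernel)
theorem L07631 : Good (Phi V5.P V5.D (-1) (-1)) ⟨5, 29, 5, 21, 4, 13, 4, 14, 4, 0⟩ :=
  out_sound (S := T5.ds_mm) T5.ok_mm (w := 61) (j := 3) (by decide +kernel)
theorem L07632 : Good (Phi V5.P V5.D (-1) (-1)) ⟨4, 15, 5, 21, 4, 13, 4, 14, 4, 0⟩ :=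
  out_sound (S := T5.ds_mm) T5.ok_mm (w := 55) (j := 3) (by decide +kernel)
theorem L07633 : Good (Phi V5.P V5.D (-1) (-1)) ⟨2, 2, 4, 11, 4, 13, 4, 14, 4, 0⟩ :=
  out_sound (S := T5.ds_mm) T5.ok_mm (w := 41) (j := 3) (by decide +kernel)
theorem L07634 : Good (Phi V5.P V5.D (-1) (-1)) ⟨3, 6, 4, 11, 4, 13, 4, 14, 4, 0⟩ :=
  out_sound (S := T5.ds_mm) T5.ok_mm (w := 47) (j := 3) (by decide +kernel)
theorem L07635 : Good (Phi V5.P V5.D (-1) (-1)) ⟨6, 56, 4, 11, 4, 13, 4, 14, 4, 0⟩ :=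
  out_sound (S := T5.ds_mm) T5.ok_mm (w := 65) (j := 3) (by decide +kernel)
theorem L07636 : Good (Phi V5.P V5.D (-1) (-1)) ⟨7, 114, 5, 22, 4, 13, 4, 14, 4, 0⟩ :=
  out_sound (S := T5.ds_mm) T5.ok_mm (w := 73) (j := 3) (by decide +kernel)
theorem L07637 : Good (Phi V5.P V5.D (-1) (-1)) ⟨7, 115, 5, 22, 4, 13, 4, 14, 4, 0⟩ :=
  out_sound (S := T5.ds_mm) T5.ok_mm (w := 21) (j := 4) (by decide +kernel)
theorem L07638 : Good (Phi V5.P V5.D (-1) (-1)) ⟨6, 57, 5, 23, 4, 13, 4, 14, 4, 0⟩ :=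
  out_sound (S := T5.ds_mm) T5.ok_mm (w := 67) (j := 3) (by decide +kernel)
theorem L07639 : Good (Phi V5.P V5.D (-1) (-1)) ⟨5, 29, 4, 11, 4, 13, 4, 14, 4, 0⟩ :=
  out_sound (S := T5.ds_mm) T5.ok_mm (w := 17) (j := 4) (by decide +kernel)
theorem L07640 : Good (Phi V5.P V5.D (-1) (-1)) ⟨4, 15, 4, 11, 4, 13, 4, 14, 4, 0⟩ :=
  out_sound (S := T5.ds_mm) T5.ok_mm (w := 53) (j := 3) (by decide +kernel)
theorem L07641 : Good (Phi V5.P V5.D (-1) (-1)) ⟨2, 2, 4, 10, 4, 13, 4, 15, 4, 0⟩ :=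
  out_sound (S := T5.ds_mm) T5.ok_mm (w := 41) (j := 3) (by decide +kernel)
theorem L07642 : Good (Phi V5.P V5.D (-1) (-1)) ⟨3, 6, 4, 10, 4, 13, 5, 30, 5, 0⟩ :=
  out_sound (S := T5.ds_mm) T5.ok_mm (w := 47) (j := 3) (by decide +kernel)
theorem L07643 : Good (Phi V5.P V5.D (-1) (-1)) ⟨5, 28, 5, 20, 4, 13, 5, 30, 5, 0⟩ :=
  leafX_sound T5.ok_mm T5.Ymm.bz_eq (w := 273) (c := ⟨⟨.negSucc 773, .negSucc 44, .ofNat 16, .negSucc 179, .ofNat 66, .negSucc 36⟩, ⟨.ofNat 494, .negSucc 13, .ofNat 27, .ofNat 117, .negSucc 43, .ofNat 22⟩, ⟨.ofNat 766, .negSucc 8, .ofNat 13, .ofNat 148, .negSucc 110, .negSucc 201⟩, ⟨.negSucc 1759, .negSucc 30, .ofNat 27, .negSucc 369, .ofNat 106, .negSucc 141⟩, ⟨.negSucc 1024, .ofNat 18, .ofNat 33, .negSucc 177, .ofNat 19, .negSucc 136⟩, .ofNat 3968, .ofNat 5601, .ofNat 0, .ofNat 5601, .ofNat 8683, .ofNat 0, .ofNat 128, .negSucc 882, .negSucc 3945, .ofNat 0,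 .ofNat 578, .ofNat 2536, .ofNat 0, .ofNat 0, .ofNat 2976, .ofNat 3283, .ofNat 0, .ofNat 0, .ofNat 18898167663341191565009062608908928934369459961856, .ofNat 0, .ofNat 0, .ofNat 0, .ofNat 8717897071189650671314171101443383565317993664610304, .ofNat 0, .ofNat 0, .ofNat 0, .ofNat 4078805299631469393856604492748193720233526361587712, .ofNat 0, .ofNat 0, .ofNat 0, .ofNat 4584639053429485711963924822423782817460123582070784, .ofNat 29440273169766123929614257946461611576678737916586832909303808⟩)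
    (by decide +kernel)
theorem L07644 : Good (Phi V5.P V5.D (-1) (-1)) ⟨5, 29, 5, 20, 4, 13, 5, 30, 5, 0⟩ :=
  out_sound (S := T5.ds_mm) T5.ok_mm (w := 61) (j := 3) (by decide +kernel)
theorem L07645 : Good (Phi V5.P V5.D (-1) (-1)) ⟨4, 14, 5, 21, 4, 13, 5, 30, 5, 0⟩ :=
  leafX_sound T5.ok_mm T5.Ymm.bz_eq (w := 269) (c := ⟨⟨.negSucc 728, .negSucc 22, .ofNat 30, .negSucc 313, .ofNat 73, .ofNat 10⟩, ⟨.ofNat 496, .negSucc 56, .ofNat 16, .ofNat 210, .negSucc 48, .negSucc 7⟩, ⟨.ofNat 738, .ofNat 15, .negSucc 6, .ofNat 243, .negSucc 119, .negSucc 233⟩, ⟨.negSucc 1672, .ofNat 5, .ofNat 5, .negSucc 591, .ofNat 117, .negSucc 83⟩, ⟨.negSucc 967, .negSucc 5, .negSucc 28, .negSucc 224, .ofNat 22, .negSucc 145⟩, .ofNat 3498, .ofNat 4700, .ofNat 0, .ofNat 4700, .ofNat 7015, .ofNat 0, .ofNat 128, .negSucc 811, .negSucc 4752, .ofNat 0, .ofNat 551, .ofNat 3159, .ofNat 0, .ofNat 0, .ofNat 3475,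 .ofNat 2339, .ofNat 0, .ofNat 0, .ofNat 21788071922067460924639533932192334212457780215808, .ofNat 15085352552990466968702700550265393425164397162379081678848, .ofNat 0, .ofNat 0, .ofNat 4756809361817634499041719179468804129867380899708928, .ofNat 3453224566240813142825076607626924070542518078615047276331008, .ofNat 0, .ofNat 0, .ofNat 6030840829358401359794516983240253451240781159333888, .ofNat 2282686870567554077377617432248123533525168703339372983877632, .ofNat 0, .ofNat 0, .ofNat 12784400484102324426360016667975928374368210182471680, .ofNat 15249620596829135541705541485180735707211553709781743478767616⟩)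
    (by decide +kernel)
theorem L07646 : Good (Phi V5.P V5.D (-1) (-1)) ⟨4, 15, 4, 10, 4, 13, 5, 30, 5, 0⟩ :=
  out_sound (S := T5.ds_mm) T5.ok_mm (w := 53) (j := 3) (by decide +kernel)
theorem L07647 : Good (Phi V5.P V5.D (-1) (-1)) ⟨3, 6, 4, 10, 4, 13, 5, 31, 5, 0⟩ :=
  out_sound (S := T5.ds_mm) T5.ok_mm (w := 47) (j := 3) (by decide +kernel)
theorem L07648 : Good (Phi V5.P V5.D (-1) (-1)) ⟨4, 14, 5, 20, 4, 13, 5, 31, 5, 0⟩ :=
  leafX_sound T5.ok_mm T5.Ymm.bz_eq (w := 267) (c := ⟨⟨.negSucc 823, .negSucc 18, .ofNat 77, .negSucc 220, .ofNat 185, .ofNat 164⟩, ⟨.ofNat 529, .negSucc 94, .negSucc 11, .ofNat 145, .negSucc 120, .negSucc 109⟩, ⟨.ofNat 736, .negSucc 54, .negSucc 31, .ofNat 179, .negSucc 204, .negSucc 343⟩, ⟨.negSucc 1866, .ofNat 50, .ofNat 99, .negSucc 441, .ofNat 314, .ofNat 226⟩, ⟨.negSucc 1073, .ofNat 3, .ofNat 21, .negSucc 197, .ofNat 80, .negSucc 8⟩, .ofNat 2610,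 .ofNat 3410, .ofNat 0, .ofNat 3410, .ofNat 5151, .ofNat 0, .ofNat 128, .negSucc 650, .negSucc 3973, .ofNat 0, .ofNat 438, .ofNat 2559, .ofNat 0, .ofNat 0, .ofNat 2988, .ofNat 5921, .ofNat 0, .ofNat 0, .ofNat 35923335545943449184593213506104556128332465307648, .ofNat 24155721071220562927553113529235666313203811812277087109120, .ofNat 0, .ofNat 0, .ofNat 3792202603815253702577303859835665596004317922328576, .ofNat 1748793320334847720234032326438277039758825486991877619056640, .ofNat 0, .ofNat 0, .ofNat 6631396330894730065453355361938700519526414896070656, .ofNat 1634756971525411611981163916814831877489076846810453378072576, .ofNat 0, .ofNat 0, .ofNat 7314996792463502284571495945861392454151084294799360, .ofNat 7618550559856465183753375486841928875071540163158401435566080⟩)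
    (by decide +kernel)
theorem L07649 : Good (Phi V5.P V5.D (-1) (-1)) ⟨4, 14, 5, 21, 4, 13, 5, 31, 5, 0⟩ :=
  leafX_sound T5.ok_mm T5.Ymm.bz_eq (w := 269) (c := ⟨⟨.negSucc 789, .negSucc 14, .ofNat 41, .negSucc 246, .ofNat 225, .ofNat 182⟩, ⟨.ofNat 533, .negSucc 45, .ofNat 4, .ofNat 165, .negSucc 149, .negSucc 121⟩, ⟨.ofNat 714, .ofNat 6, .negSucc 16, .ofNat 197, .negSucc 230, .negSucc 350⟩, ⟨.negSucc 1820, .ofNat 9, .ofNat 28, .negSucc 463, .ofNat 375, .ofNat 245⟩, ⟨.negSucc 1061, .negSucc 4, .negSucc 14, .negSucc 175, .ofNat 88, .negSucc 16⟩, .ofNat 3498, .ofNat 4700, .ofNat 0, .ofNat 4700, .ofNat 7015, .ofNat 0, .ofNat 128, .negSucc 1021, .negSucc 4845, .ofNat 0, .ofNat 693, .ofNat 3219, .ofNat 0, .ofNat 0, .ofNat 3610, .ofNat 2871, .ofNat 0, .ofNat 0, .ofNat 22659464966201160406289963811683328133715116163072, .ofNat 16074047856205225140002411308815546247723081782746371063808,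 .ofNat 0, .ofNat 0, .ofNat 6940402379298712769845445620664917544639921639129088, .ofNat 3287039578524365978391127972551275385849094659705246324883456, .ofNat 0, .ofNat 0, .ofNat 7831340291478548329615489580435230296421517230080000, .ofNat 1217652649538191196486237001903807524486264635290740844396544, .ofNat 0, .ofNat 0, .ofNat 11263684174150231525903216695053389827328958686822400, .ofNat 14550571692147192650238295950067412486207893361138246187220992⟩)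
    (by decide +kernel)
theorem L07650 : Good (Phi V5.P V5.D (-1) (-1)) ⟨4, 15, 4, 10, 4, 13, 5, 31, 5, 0⟩ :=
  out_sound (S := T5.ds_mm) T5.ok_mm (w := 53) (j := 3) (by decide +kernel)
theorem L07651 : Good (Phi V5.P V5.D (-1) (-1)) ⟨3, 6, 4, 10, 4, 13, 4, 15, 5, 1⟩ :=
  out_sound (S := T5.ds_mm) T5.ok_mm (w := 47) (j := 3) (by decide +kernel)
theorem L07652 : Good (Phi V5.P V5.D (-1) (-1)) ⟨5, 28, 5, 20, 4, 13, 4, 15, 5, 1⟩ :=
  leafX_sound T5.ok_mm T5.Ymm.bz_eq (w := 268) (c := ⟨⟨.negSucc 960, .negSucc 52, .ofNat 128, .negSucc 170, .ofNat 561, .ofNat 426⟩, ⟨.ofNat 616, .negSucc 4, .negSucc 52, .ofNat 111, .negSucc 363, .negSucc 277⟩, ⟨.ofNat 670, .negSucc 108, .negSucc 30, .ofNat 161, .negSucc 506, .negSucc 477⟩, ⟨.negSucc 2222, .negSucc 27, .ofNat 201, .negSucc 338, .ofNat 1003, .ofNat 787⟩, ⟨.negSucc 1323, .ofNat 11, .ofNat 69, .negSucc 149, .ofNat 320, .ofNat 284⟩, .ofNat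 3968, .ofNat 5601, .ofNat 0, .ofNat 5601, .ofNat 8683, .ofNat 0, .ofNat 128, .negSucc 835, .negSucc 3256, .ofNat 0, .ofNat 546, .ofNat 2087, .ofNat 0, .ofNat 0, .ofNat 2315, .ofNat 2663, .ofNat 0, .ofNat 0, .ofNat 0, .ofNat 0, .ofNat 0, .ofNat 0, .ofNat 608433693574871350377911361300002826919390434295808, .ofNat 0, .ofNat 0, .ofNat 49870268211247379820107933100769830565993643721621504, .ofNat 312968142118462931228724105182896513382816902283264, .ofNat 0, .ofNat 0, .ofNat 0, .ofNat 358398288186152119529241382628253894850648848990208, .ofNat 1923343917557720995489459007127579559043982581906979048914944⟩)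
    (by decide +kernel)
theorem L07653 : Good (Phi V5.P V5.D (-1) (-1)) ⟨5, 29, 5, 20, 4, 13, 4, 15, 5, 1⟩ :=
  out_sound (S := T5.ds_mm) T5.ok_mm (w := 61) (j := 3) (by decide +kernel)
theorem L07654 : Good (Phi V5.P V5.D (-1) (-1)) ⟨4, 15, 5, 20, 4, 13, 4, 15, 5, 1⟩ :=
  out_sound (S := T5.ds_mm) T5.ok_mm (w := 55) (j := 3) (by decide +kernel)
theorem L07655 : Good (Phi V5.P V5.D (-1) (-1)) ⟨6, 56, 5, 21, 4, 13, 4, 15, 5, 1⟩ :=
  leafX_sound T5.ok_mm T5.Ymm.bz_eq (w := 280) (c := ⟨⟨.negSucc 841, .ofNat 0, .ofNat 47, .negSucc 310, .ofNat 607, .ofNat 541⟩, ⟨.ofNat 552, .ofNat 0, .ofNat 1, .ofNat 204, .negSucc 399, .negSucc 355⟩, ⟨.ofNat 568, .ofNat 0, .ofNat 41, .ofNat 258, .negSucc 535, .negSucc 550⟩, ⟨.negSucc 1923, .negSucc 0, .ofNat 15, .negSucc 426, .ofNat 908, .ofNat 768⟩, ⟨.negSucc 1119, .negSucc 0, .negSucc 4, .ofNat 13, .ofNat 85, .ofNat 14⟩, .ofNat 14620, .ofNat 21645,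 .ofNat 0, .ofNat 21645, .ofNat 32852, .ofNat 0, .ofNat 128, .negSucc 3908, .negSucc 14743, .ofNat 0, .ofNat 2584, .ofNat 9703, .ofNat 0, .ofNat 0, .ofNat 10560, .ofNat 18520, .ofNat 0, .ofNat 0, .ofNat 0, .ofNat 0, .ofNat 0, .ofNat 291501947422612168987308681658776831679475205046169239552, .ofNat 4038785450202255057144933118283068978503890700861440, .ofNat 0, .ofNat 0, .ofNat 1511709740801493428245125403981954607047973285449412116480, .ofNat 13133016708170213169401397592527474061390365990060032, .ofNat 0, .ofNat 0, .ofNat 0, .ofNat 13606195787262265593328789949836372581368202927276032, .ofNat 0⟩)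
    (by decide +kernel)
theorem L07656 : Good (Phi V5.P V5.D (-1) (-1)) ⟨6, 57, 5, 21, 4, 13, 4, 15, 5, 1⟩ :=
  leafX_sound T5.ok_mm T5.Ymm.bz_eq (w := 276) (c := ⟨⟨.negSucc 897, .ofNat 157, .ofNat 111, .negSucc 289, .ofNat 598, .ofNat 582⟩, ⟨.ofNat 593, .negSucc 16, .negSucc 102, .ofNat 194, .negSucc 400, .negSucc 388⟩, ⟨.ofNat 599, .ofNat 47, .negSucc 150, .ofNat 249, .negSucc 523, .negSucc 574⟩, ⟨.negSucc 2165, .ofNat 143, .ofNat 255, .negSucc 565, .ofNat 1165, .ofNat 1088⟩, ⟨.negSucc 1360, .ofNat 42, .ofNat 86, .negSucc 240, .ofNat 486, .ofNat 407⟩, .ofNat 7162, .ofNat 10365, .ofNat 0, .ofNat 10365, .ofNat 15781, .ofNat 0, .ofNat 128, .negSucc 1669, .negSucc 6542, .ofNat 0, .ofNat 1106, .ofNat 4299, .ofNat 0, .ofNat 0, .ofNat 4613, .ofNat 1860, .ofNat 0, .ofNat 0, .ofNat 5095810240663665372890228700939048223254236889088, .ofNat 0, .ofNat 0, .ofNat 0, .ofNat 1128227892243865143261617475042165763396491376852992,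 .ofNat 24584702190165253078489296745428095273968011032793304616927232, .ofNat 0, .ofNat 0, .ofNat 608725485417988302162901018789714148703165120249856, .ofNat 42116296297408484134697416439690269394804622177043706078560256, .ofNat 0, .ofNat 0, .ofNat 2169971191369877529980908128717926321347020493684736, .ofNat 127884960720021465493968040035038871939780492546351028380893184⟩)
    (by decide +kernel)
theorem L07657 : Good (Phi V5.P V5.D (-1) (-1)) ⟨5, 29, 5, 21, 4, 13, 4, 15, 5, 1⟩ :=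
  out_sound (S := T5.ds_mm) T5.ok_mm (w := 61) (j := 3) (by decide +kernel)
theorem L07658 : Good (Phi V5.P V5.D (-1) (-1)) ⟨4, 15, 5, 21, 4, 13, 4, 15, 5, 1⟩ :=
  out_sound (S := T5.ds_mm) T5.ok_mm (w := 55) (j := 3) (by decide +kernel)
theorem L07659 : Good (Phi V5.P V5.D (-1) (-1)) ⟨2, 2, 4, 11, 4, 13, 4, 15, 4, 0⟩ :=
  out_sound (S := T5.ds_mm) T5.ok_mm (w := 41) (j := 3) (by decide +kernel)
theorem L07660 : Good (Phi V5.P V5.D (-1) (-1)) ⟨3, 6, 4, 11, 4, 13, 4, 15, 4, 0⟩ :=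
  out_sound (S := T5.ds_mm) T5.ok_mm (w := 47) (j := 3) (by decide +kernel)
theorem L07661 : Good (Phi V5.P V5.D (-1) (-1)) ⟨6, 56, 4, 11, 4, 13, 4, 15, 4, 0⟩ :=
  out_sound (S := T5.ds_mm) T5.ok_mm (w := 65) (j := 3) (by decide +kernel)
theorem L07662 : Good (Phi V5.P V5.D (-1) (-1)) ⟨7, 114, 5, 22, 4, 13, 4, 15, 4, 0⟩ :=
  out_sound (S := T5.ds_mm) T5.ok_mm (w := 73) (j := 3) (by decide +kernel)
theorem L07663 : Good (Phi V5.P V5.D (-1) (-1)) ⟨7, 115, 5, 22, 4, 13, 4, 15, 4, 0⟩ :=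
  out_sound (S := T5.ds_mm) T5.ok_mm (w := 21) (j := 4) (by decide +kernel)
theorem L07664 : Good (Phi V5.P V5.D (-1) (-1)) ⟨6, 57, 5, 23, 4, 13, 4, 15, 4, 0⟩ :=
  out_sound (S := T5.ds_mm) T5.ok_mm (w := 67) (j := 3) (by decide +kernel)
theorem L07665 : Good (Phi V5.P V5.D (-1) (-1)) ⟨5, 29, 4, 11, 4, 13, 4, 15, 4, 0⟩ :=
  out_sound (S := T5.ds_mm) T5.ok_mm (w := 17) (j := 4) (by decide +kernel)
theorem L07666 : Good (Phi V5.P V5.D (-1) (-1)) ⟨4, 15, 4, 11, 4, 13, 4, 15, 4, 0⟩ :=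
  out_sound (S := T5.ds_mm) T5.ok_mm (w := 53) (j := 3) (by decide +kernel)
theorem L07667 : Good (Phi V5.P V5.D (-1) (-1)) ⟨2, 2, 5, 20, 4, 12, 4, 14, 4, 1⟩ :=
  out_sound (S := T5.ds_mm) T5.ok_mm (w := 43) (j := 3) (by decide +kernel)
theorem L07668 : Good (Phi V5.P V5.D (-1) (-1)) ⟨3, 6, 5, 20, 4, 12, 4, 14, 4, 1⟩ :=
  out_sound (S := T5.ds_mm) T5.ok_mm (w := 49) (j := 3) (by decide +kernel)
theorem L07669 : Good (Phi V5.P V5.D (-1) (-1)) ⟨5, 28, 6, 40, 4, 12, 4, 14, 4, 1⟩ :=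
  leafX_sound T5.ok_mm T5.Ymm.bz_eq (w := 267) (c := ⟨⟨.negSucc 2138, .negSucc 215, .ofNat 109, .ofNat 672, .ofNat 808, .negSucc 209⟩, ⟨.ofNat 1368, .ofNat 74, .negSucc 36, .negSucc 430, .negSucc 517, .ofNat 137⟩, ⟨.ofNat 1381, .ofNat 60, .negSucc 50, .negSucc 470, .negSucc 646, .negSucc 318⟩, ⟨.negSucc 3981, .negSucc 115, .ofNat 91, .ofNat 851, .ofNat 1308, .negSucc 263⟩, ⟨.negSucc 1440, .ofNat 135, .negSucc 72, .negSucc 150, .ofNat 253, .ofNat 57⟩, .ofNat 5416, .ofNat 7776, .ofNat 0, .ofNat 7776, .ofNat 11960, .ofNat 0, .ofNat 128, .negSucc 1036, .negSucc 3679, .ofNat 0, .ofNat 684, .ofNat 2366, .ofNat 0, .ofNat 0, .ofNat 2683, .ofNat 1614, .ofNat 0, .ofNat 0, .ofNat 0, .ofNat 0, .ofNat 0, .ofNat 0, .ofNat 35081245546227533993126571374961016698149290377216, .ofNat 0, .ofNat 0, .ofNat 0, .ofNat 0, .ofNat 0, .ofNat 0, .ofNat 0, .ofNat 32783373667719152681561863466206304321942084124672,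 .ofNat 0⟩)
    (by decide +kernel)
theorem L07670 : Good (Phi V5.P V5.D (-1) (-1)) ⟨5, 29, 6, 40, 4, 12, 4, 14, 4, 1⟩ :=
  out_sound (S := T5.ds_mm) T5.ok_mm (w := 63) (j := 3) (by decide +kernel)
theorem L07671 : Good (Phi V5.P V5.D (-1) (-1)) ⟨4, 15, 6, 40, 4, 12, 4, 14, 4, 1⟩ :=
  out_sound (S := T5.ds_mm) T5.ok_mm (w := 57) (j := 3) (by decide +kernel)
theorem L07672 : Good (Phi V5.P V5.D (-1) (-1)) ⟨5, 28, 6, 41, 4, 12, 4, 14, 4, 1⟩ :=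
  leafX_sound T5.ok_mm T5.Ymm.bz_eq (w := 268) (c := ⟨⟨.negSucc 2098, .ofNat 124, .ofNat 44, .ofNat 569, .ofNat 918, .negSucc 260⟩, ⟨.ofNat 1390, .negSucc 163, .ofNat 2, .negSucc 373, .negSucc 603, .ofNat 175⟩, ⟨.ofNat 1182, .ofNat 332, .negSucc 89, .negSucc 395, .negSucc 714, .negSucc 271⟩, ⟨.negSucc 4017, .ofNat 81, .ofNat 79, .ofNat 840, .ofNat 1699, .negSucc 374⟩, ⟨.negSucc 1655, .negSucc 23, .ofNat 16, .ofNat 58, .ofNat 608, .negSucc 2⟩, .ofNat 4882, .ofNat 6979, .ofNat 0, .ofNat 6979, .ofNat 10759, .ofNat 0, .ofNat 128, .negSucc 1299, .negSucc 5958, .ofNat 0, .ofNat 858, .ofNat 3866, .ofNat 0, .ofNat 0, .ofNat 4296, .ofNat 2051, .ofNat 0, .ofNat 0, .ofNat 0, .ofNat 0, .ofNat 0, .ofNat 0, .ofNat 62856651854186930279641213358245166237241172819968, .ofNat 0, .ofNat 0, .ofNat 0, .ofNat 77307862089027234147423195149879660135227611676672, .ofNat 0, .ofNat 0, .ofNat 0, .ofNat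 58059776359672142349287371757838369758893112819712, .ofNat 1382351405423874542620576279548372323154172466952251832795136⟩)
    (by decide +kernel)
theorem L07673 : Good (Phi V5.P V5.D (-1) (-1)) ⟨5, 29, 6, 41, 4, 12, 4, 14, 4, 1⟩ :=
  out_sound (S := T5.ds_mm) T5.ok_mm (w := 63) (j := 3) (by decide +kernel)
theorem L07674 : Good (Phi V5.P V5.D (-1) (-1)) ⟨4, 15, 6, 41, 4, 12, 4, 14, 4, 1⟩ :=
  out_sound (S := T5.ds_mm) T5.ok_mm (w := 57) (j := 3) (by decide +kernel)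
theorem L07675 : Good (Phi V5.P V5.D (-1) (-1)) ⟨2, 2, 5, 21, 4, 12, 4, 14, 4, 1⟩ :=
  out_sound (S := T5.ds_mm) T5.ok_mm (w := 43) (j := 3) (by decide +kernel)
theorem L07676 : Good (Phi V5.P V5.D (-1) (-1)) ⟨3, 6, 5, 21, 4, 12, 4, 14, 4, 1⟩ :=
  out_sound (S := T5.ds_mm) T5.ok_mm (w := 49) (j := 3) (by decide +kernel)
theorem L07677 : Good (Phi V5.P V5.D (-1) (-1)) ⟨4, 14, 5, 21, 4, 12, 4, 14, 4, 1⟩ :=
  leafX_sound T5.ok_mm T5.Ymm.bz_eq (w := 261) (c := ⟨⟨.negSucc 1939, .negSucc 20, .ofNat 118, .ofNat 536, .ofNat 935, .negSucc 314⟩, ⟨.ofNat 1290, .negSucc 24, .negSucc 33, .negSucc 356, .negSucc 620, .ofNat 210⟩, ⟨.ofNat 1227, .negSucc 27, .negSucc 53, .negSucc 372, .negSucc 725, .negSucc 245⟩, ⟨.negSucc 3708, .ofNat 9, .ofNat 119, .ofNat 717, .ofNat 1531, .negSucc 418⟩, ⟨.negSucc 1470, .negSucc 1, .negSucc 51, .negSucc 44, .ofNat 322, .ofNat 45⟩, .ofNat 4803, .ofNat 6580,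 .ofNat 0, .ofNat 6580, .ofNat 9727, .ofNat 0, .ofNat 128, .negSucc 1038, .negSucc 4573, .ofNat 0, .ofNat 713, .ofNat 3065, .ofNat 0, .ofNat 0, .ofNat 3209, .ofNat 1475, .ofNat 0, .ofNat 0, .ofNat 0, .ofNat 0, .ofNat 0, .ofNat 0, .ofNat 34499656856054955209319410942163774752305807622144, .ofNat 8043655073392903911396651501386041029760427425503062786048, .ofNat 0, .ofNat 0, .ofNat 28908632838327799997157153856087921076287861424128, .ofNat 0, .ofNat 0, .ofNat 0, .ofNat 24567584045766262116184880108833949684000993837056, .ofNat 23206047504750764946096403384469017856317813039845733302272⟩)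
    (by decide +kernel)
theorem L07678 : Good (Phi V5.P V5.D (-1) (-1)) ⟨4, 15, 5, 21, 4, 12, 4, 14, 4, 1⟩ :=
  out_sound (S := T5.ds_mm) T5.ok_mm (w := 55) (j := 3) (by decide +kernel)
theorem L07679 : Good (Phi V5.P V5.D (-1) (-1)) ⟨2, 2, 4, 11, 4, 12, 4, 14, 4, 1⟩ :=
  out_sound (S := T5.ds_mm) T5.ok_mm (w := 41) (j := 3) (by decide +kernel)
theorem L07680 : Good (Phi V5.P V5.D (-1) (-1)) ⟨3, 6, 4, 11, 4, 12, 4, 14, 4, 1⟩ :=
  out_sound (S := T5.ds_mm) T5.ok_mm (w := 47) (j := 3) (by decide +kernel)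
theorem L07681 : Good (Phi V5.P V5.D (-1) (-1)) ⟨6, 56, 4, 11, 4, 12, 4, 14, 4, 1⟩ :=
  out_sound (S := T5.ds_mm) T5.ok_mm (w := 65) (j := 3) (by decide +kernel)
theorem L07682 : Good (Phi V5.P V5.D (-1) (-1)) ⟨7, 114, 5, 22, 4, 12, 4, 14, 4, 1⟩ :=
  out_sound (S := T5.ds_mm) T5.ok_mm (w := 73) (j := 3) (by decide +kernel)
theorem L07683 : Good (Phi V5.P V5.D (-1) (-1)) ⟨7, 115, 5, 22, 4, 12, 4, 14, 4, 1⟩ :=
  out_sound (S := T5.ds_mm) T5.ok_mm (w := 21) (j := 4) (by decide +kernel)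
theorem L07684 : Good (Phi V5.P V5.D (-1) (-1)) ⟨6, 57, 5, 23, 4, 12, 4, 14, 4, 1⟩ :=
  out_sound (S := T5.ds_mm) T5.ok_mm (w := 67) (j := 3) (by decide +kernel)
theorem L07685 : Good (Phi V5.P V5.D (-1) (-1)) ⟨5, 29, 4, 11, 4, 12, 4, 14, 4, 1⟩ :=
  out_sound (S := T5.ds_mm) T5.ok_mm (w := 17) (j := 4) (by decide +kernel)
theorem L07686 : Good (Phi V5.P V5.D (-1) (-1)) ⟨4, 15, 4, 11, 4, 12, 4, 14, 4, 1⟩ :=
  out_sound (S := T5.ds_mm) T5.ok_mm (w := 53) (j := 3) (by decide +kernel)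
theorem L07687 : Good (Phi V5.P V5.D (-1) (-1)) ⟨2, 2, 3, 5, 4, 12, 4, 15, 5, 2⟩ :=
  out_sound (S := T5.ds_mm) T5.ok_mm (w := 39) (j := 3) (by decide +kernel)
theorem L07688 : Good (Phi V5.P V5.D (-1) (-1)) ⟨3, 6, 3, 5, 4, 12, 4, 15, 5, 2⟩ :=
  out_sound (S := T5.ds_mm) T5.ok_mm (w := 45) (j := 3) (by decide +kernel)
theorem L07689 : Good (Phi V5.P V5.D (-1) (-1)) ⟨5, 28, 5, 20, 4, 12, 4, 15, 5, 2⟩ :=
  leafX_sound T5.ok_mm T5.Ymm.bz_eq (w := 269) (c := ⟨⟨.negSucc 902, .negSucc 35, .ofNat 277, .ofNat 200, .ofNat 1393, .negSucc 92⟩, ⟨.ofNat 588, .negSucc 55, .negSucc 145, .negSucc 126, .negSucc 903, .ofNat 61⟩, ⟨.ofNat 288, .ofNat 246, .negSucc 248, .negSucc 50, .negSucc 1095, .negSucc 95⟩, ⟨.negSucc 2040, .negSucc 15, .ofNat 492, .ofNat 139, .ofNat 2542, .negSucc 23⟩, ⟨.negSucc 1192, .ofNat 119, .ofNat 152, .negSucc 217, .ofNat 874, .ofNat 162⟩, .ofNat 3968, .ofNat 5601, .ofNat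 0, .ofNat 5601, .ofNat 8683, .ofNat 0, .ofNat 128, .negSucc 876, .negSucc 3774, .ofNat 0, .ofNat 578, .ofNat 2424, .ofNat 0, .ofNat 0, .ofNat 2787, .ofNat 1768, .ofNat 0, .ofNat 0, .ofNat 0, .ofNat 0, .ofNat 0, .ofNat 3000956723267735293242497190846991451390973135588163584, .ofNat 544483017433030125975250774596680848302658465824768, .ofNat 0, .ofNat 0, .ofNat 2106413377380846273877449199769047512389200762843955200, .ofNat 245815392986507398424134657997367584060462346534912, .ofNat 587448397408535753761391663189939457233390265651719068188672, .ofNat 0, .ofNat 138768796323850091059170246761259444065587803105263616, .ofNat 181156933185461007838675157452473613085466114916352, .ofNat 2515683934341227475346321680472741720776945163963442776768512⟩)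
    (by decide +kernel)
theorem L07690 : Good (Phi V5.P V5.D (-1) (-1)) ⟨5, 29, 5, 20, 4, 12, 4, 15, 5, 2⟩ :=
  out_sound (S := T5.ds_mm) T5.ok_mm (w := 61) (j := 3) (by decide +kernel)
theorem L07691 : Good (Phi V5.P V5.D (-1) (-1)) ⟨4, 14, 5, 21, 4, 12, 4, 15, 5, 2⟩ :=
  leafX_sound T5.ok_mm T5.Ymm.bz_eq (w := 264) (c := ⟨⟨.negSucc 612, .ofNat 176, .ofNat 228, .ofNat 123, .ofNat 1516, .negSucc 150⟩, ⟨.ofNat 330, .ofNat 190, .negSucc 190, .negSucc 80, .negSucc 1008, .ofNat 99⟩, ⟨.ofNat 82, .negSucc 5, .negSucc 157, .ofNat 32, .negSucc 1177, .negSucc 37⟩, ⟨.negSucc 1517, .ofNat 45, .ofNat 415, .ofNat 133, .ofNat 2696, .negSucc 117⟩, ⟨.negSucc 1070, .ofNat 24, .ofNat 122, .negSucc 53, .ofNat 845, .ofNat 137⟩, .ofNat 3498, .ofNat 4700, .ofNat 0, .ofNat 4700, .ofNat 7015, .ofNat 0, .ofNat 128, .negSucc 938, .negSucc 4192, .ofNat 0, .ofNat 643, .ofNat 2785, .ofNat 0, .ofNat 0,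 .ofNat 3001, .ofNat 668, .ofNat 0, .ofNat 0, .ofNat 7056669558245761686894750023248149301092528685056, .ofNat 0, .ofNat 0, .ofNat 83465785426466683826270558244170589217544970019274752, .ofNat 549748980064385916592879822748528167766373475287040, .ofNat 200517912455107321810773929086071664954014002332355285483520, .ofNat 0, .ofNat 153830362481715726311217531295386046179136412607053824, .ofNat 476225468160187878874376743253787279024482523545600, .ofNat 0, .ofNat 0, .ofNat 0, .ofNat 675463110218245729870013155280244442813469825171456, .ofNat 580895490789253607694693302696670705538295834642964654587904⟩)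
    (by decide +kernel)
theorem L07692 : Good (Phi V5.P V5.D (-1) (-1)) ⟨4, 15, 4, 10, 4, 12, 4, 15, 5, 2⟩ :=
  out_sound (S := T5.ds_mm) T5.ok_mm (w := 53) (j := 3) (by decide +kernel)
theorem L07693 : Good (Phi V5.P V5.D (-1) (-1)) ⟨6, 56, 4, 11, 4, 12, 4, 15, 5, 2⟩ :=
  out_sound (S := T5.ds_mm) T5.ok_mm (w := 65) (j := 3) (by decide +kernel)
theorem L07694 : Good (Phi V5.P V5.D (-1) (-1)) ⟨7, 114, 5, 22, 4, 12, 4, 15, 5, 2⟩ :=
  out_sound (S := T5.ds_mm) T5.ok_mm (w := 73) (j := 3) (by decide +kernel)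
theorem L07695 : Good (Phi V5.P V5.D (-1) (-1)) ⟨7, 115, 5, 22, 4, 12, 4, 15, 5, 2⟩ :=
  out_sound (S := T5.ds_mm) T5.ok_mm (w := 21) (j := 4) (by decide +kernel)
theorem L07696 : Good (Phi V5.P V5.D (-1) (-1)) ⟨6, 57, 5, 23, 4, 12, 4, 15, 5, 2⟩ :=
  out_sound (S := T5.ds_mm) T5.ok_mm (w := 67) (j := 3) (by decide +kernel)
theorem L07697 : Good (Phi V5.P V5.D (-1) (-1)) ⟨5, 29, 4, 11, 4, 12, 4, 15, 5, 2⟩ :=
  out_sound (S := T5.ds_mm) T5.ok_mm (w := 17) (j := 4) (by decide +kernel)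
theorem L07698 : Good (Phi V5.P V5.D (-1) (-1)) ⟨4, 15, 4, 11, 4, 12, 4, 15, 5, 2⟩ :=
  out_sound (S := T5.ds_mm) T5.ok_mm (w := 53) (j := 3) (by decide +kernel)
theorem L07699 : Good (Phi V5.P V5.D (-1) (-1)) ⟨2, 2, 3, 5, 4, 12, 4, 15, 5, 3⟩ :=
  out_sound (S := T5.ds_mm) T5.ok_mm (w := 39) (j := 3) (by decide +kernel)
theorem L07700 : Good (Phi V5.P V5.D (-1) (-1)) ⟨3, 6, 3, 5, 4, 12, 4, 15, 5, 3⟩ :=
  out_sound (S := T5.ds_mm) T5.ok_mm (w := 45) (j := 3) (by decide +kernel)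
theorem L07701 : Good (Phi V5.P V5.D (-1) (-1)) ⟨5, 28, 4, 10, 4, 12, 4, 15, 5, 3⟩ :=
  leafX_sound T5.ok_mm T5.Ymm.bz_eq (w := 264) (c := ⟨⟨.negSucc 1109, .ofNat 118, .ofNat 242, .ofNat 396, .ofNat 1206, .negSucc 322⟩, ⟨.ofNat 736, .negSucc 206, .negSucc 54, .negSucc 262, .negSucc 788, .ofNat 221⟩, ⟨.ofNat 316, .negSucc 112, .negSucc 121, .negSucc 190, .negSucc 879, .ofNat 19⟩, ⟨.negSucc 2316, .ofNat 270, .ofNat 407, .ofNat 601, .ofNat 2315, .negSucc 424⟩, ⟨.negSucc 1137, .ofNat 111, .ofNat 142, .ofNat 72, .ofNat 918, .ofNat 43⟩, .ofNat 2570, .ofNat 3504, .ofNat 0, .ofNat 3504, .ofNat 5521, .ofNat 0, .ofNat 128, .negSucc 718, .negSucc 2968, .ofNat 0, .ofNat 472, .ofNat 1889, .ofNat 0, .ofNat 0, .ofNat 2077, .ofNat 1034, .ofNat 0, .ofNat 0, .ofNat 0, .ofNat 0, .ofNat 0, .ofNat 116420353885894047322583703507688666160226321301504000, .ofNat 83834744367221958126026708320355891619406316306432,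 .ofNat 0, .ofNat 0, .ofNat 307780008286267257672219534614956976450187294838620160, .ofNat 72237196971725347143925619681014483384830871470080, .ofNat 34833268079806843984106511204417821603441240280558181810176, .ofNat 0, .ofNat 150606600376454445649017280139799516444302703151022080, .ofNat 53595727880213888296109962016942990578408117764096, .ofNat 306225615579617657031566246440047112563937556926866055495680⟩)
    (by decide +kernel)
theorem L07702 : Good (Phi V5.P V5.D (-1) (-1)) ⟨6, 56, 4, 11, 4, 12, 4, 15, 5, 3⟩ :=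
  out_sound (S := T5.ds_mm) T5.ok_mm (w := 65) (j := 3) (by decide +kernel)
theorem L07703 : Good (Phi V5.P V5.D (-1) (-1)) ⟨7, 114, 5, 22, 4, 12, 4, 15, 5, 3⟩ :=
  out_sound (S := T5.ds_mm) T5.ok_mm (w := 73) (j := 3) (by decide +kernel)
theorem L07704 : Good (Phi V5.P V5.D (-1) (-1)) ⟨7, 115, 5, 22, 4, 12, 4, 15, 5, 3⟩ :=
  out_sound (S := T5.ds_mm) T5.ok_mm (w := 21) (j := 4) (by decide +kernel)
theorem L07705 : Good (Phi V5.P V5.D (-1) (-1)) ⟨6, 57, 5, 23, 4, 12, 4, 15, 5, 3⟩ :=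
  out_sound (S := T5.ds_mm) T5.ok_mm (w := 67) (j := 3) (by decide +kernel)
theorem L07706 : Good (Phi V5.P V5.D (-1) (-1)) ⟨5, 29, 3, 5, 4, 12, 4, 15, 5, 3⟩ :=
  out_sound (S := T5.ds_mm) T5.ok_mm (w := 17) (j := 4) (by decide +kernel)
theorem L07707 : Good (Phi V5.P V5.D (-1) (-1)) ⟨4, 15, 3, 5, 4, 12, 4, 15, 5, 3⟩ :=
  out_sound (S := T5.ds_mm) T5.ok_mm (w := 51) (j := 3) (by decide +kernel)
theorem L07708 : Good (Phi V5.P V5.D (-1) (-1)) ⟨2, 2, 5, 20, 4, 13, 4, 14, 4, 1⟩ :=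
  out_sound (S := T5.ds_mm) T5.ok_mm (w := 43) (j := 3) (by decide +kernel)
theorem L07709 : Good (Phi V5.P V5.D (-1) (-1)) ⟨3, 6, 5, 20, 4, 13, 4, 14, 4, 1⟩ :=
  out_sound (S := T5.ds_mm) T5.ok_mm (w := 49) (j := 3) (by decide +kernel)
theorem L07710 : Good (Phi V5.P V5.D (-1) (-1)) ⟨4, 14, 5, 20, 4, 13, 4, 14, 4, 1⟩ :=
  leafX_sound T5.ok_mm T5.Ymm.bz_eq (w := 258) (c := ⟨⟨.negSucc 1512, .ofNat 128, .ofNat 71, .ofNat 462, .ofNat 580, .ofNat 23⟩, ⟨.ofNat 962, .negSucc 115, .negSucc 14, .negSucc 297, .negSucc 373, .negSucc 14⟩, ⟨.ofNat 868, .ofNat 158, .negSucc 68, .negSucc 257, .negSucc 452, .negSucc 409⟩, ⟨.negSucc 3155, .ofNat 115, .ofNat 106, .ofNat 729, .ofNat 1054, .ofNat 207⟩, ⟨.negSucc 1578, .negSucc 19, .ofNat 16, .ofNat 125, .ofNat 354, .ofNat 253⟩, .ofNat 2610, .ofNat 3410, .ofNat 0, .ofNat 3410, .ofNat 5151, .ofNat 0, .ofNat 128, .negSucc 1050, .negSucc 3513, .ofNat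 0, .ofNat 705, .ofNat 2257, .ofNat 0, .ofNat 0, .ofNat 2196, .ofNat 407, .ofNat 0, .ofNat 0, .ofNat 60191565580503621763959052840024607038828969984, .ofNat 6036788532863071439839570300021166904712440808298512384, .ofNat 0, .ofNat 0, .ofNat 4861924533576745980406554755202527690269067837440, .ofNat 1527199593056814698304967001283136864917868891708657238016, .ofNat 0, .ofNat 0, .ofNat 31642496117510705790820432757937227581807407398912, .ofNat 0, .ofNat 0, .ofNat 0, .ofNat 5301913312856674227744962923562452443180145049600, .ofNat 12315319620885400437614743837037890495439744241390470561792⟩)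
    (by decide +kernel)
theorem L07711 : Good (Phi V5.P V5.D (-1) (-1)) ⟨4, 15, 5, 20, 4, 13, 4, 14, 4, 1⟩ :=
  out_sound (S := T5.ds_mm) T5.ok_mm (w := 55) (j := 3) (by decide +kernel)
theorem L07712 : Good (Phi V5.P V5.D (-1) (-1)) ⟨2, 2, 5, 21, 4, 13, 4, 14, 4, 1⟩ :=
  out_sound (S := T5.ds_mm) T5.ok_mm (w := 43) (j := 3) (by decide +kernel)
theorem L07713 : Good (Phi V5.P V5.D (-1) (-1)) ⟨3, 6, 5, 21, 4, 13, 4, 14, 4, 1⟩ :=
  out_sound (S := T5.ds_mm) T5.ok_mm (w := 49) (j := 3) (by decide +kernel)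
theorem L07714 : Good (Phi V5.P V5.D (-1) (-1)) ⟨4, 14, 5, 21, 4, 13, 4, 14, 4, 1⟩ :=
  leafX_sound T5.ok_mm T5.Ymm.bz_eq (w := 261) (c := ⟨⟨.negSucc 1367, .negSucc 18, .ofNat 137, .ofNat 413, .ofNat 617, .negSucc 19⟩, ⟨.ofNat 930, .negSucc 102, .negSucc 51, .negSucc 273, .negSucc 408, .ofNat 13⟩, ⟨.ofNat 818, .negSucc 33, .negSucc 82, .negSucc 224, .negSucc 463, .negSucc 372⟩, ⟨.negSucc 2949, .ofNat 37, .ofNat 209, .ofNat 682, .ofNat 1062, .ofNat 125⟩, ⟨.negSucc 1525, .negSucc 0, .ofNat 59, .ofNat 161, .ofNat 293, .ofNat 216⟩, .ofNat 4803, .ofNat 6580, .ofNat 0, .ofNat 6580, .ofNat 9727, .ofNat 0, .ofNat 128, .negSucc 1740, .negSucc 5752, .ofNat 0, .ofNat 1184, .ofNat 3840, .ofNat 0, .ofNat 0, .ofNat 3556, .ofNat 1460, .ofNat 0, .ofNat 0, .ofNat 0, .ofNat 0, .ofNat 0, .ofNat 0, .ofNat 6762198445957676182351195067806551480743558643712, .ofNat 16365908290678090407166506902872058075777031111173258346496,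 .ofNat 0, .ofNat 0, .ofNat 20283224292780614422109719203520397923106401812480, .ofNat 741745763202426741421520193867689642439758335529178890240, .ofNat 0, .ofNat 0, .ofNat 19317312914490499169895045808752156692806465748992, .ofNat 34658568448508843376671086278258193007575037419525666504704⟩)
    (by decide +kernel)
theorem L07715 : Good (Phi V5.P V5.D (-1) (-1)) ⟨4, 15, 5, 21, 4, 13, 4, 14, 4, 1⟩ :=
  out_sound (S := T5.ds_mm) T5.ok_mm (w := 55) (j := 3) (by decide +kernel)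
theorem L07716 : Good (Phi V5.P V5.D (-1) (-1)) ⟨2, 2, 4, 11, 4, 13, 4, 14, 4, 1⟩ :=
  out_sound (S := T5.ds_mm) T5.ok_mm (w := 41) (j := 3) (by decide +kernel)
theorem L07717 : Good (Phi V5.P V5.D (-1) (-1)) ⟨3, 6, 4, 11, 4, 13, 4, 14, 4, 1⟩ :=
  out_sound (S := T5.ds_mm) T5.ok_mm (w := 47) (j := 3) (by decide +kernel)
theorem L07718 : Good (Phi V5.P V5.D (-1) (-1)) ⟨6, 56, 4, 11, 4, 13, 4, 14, 4, 1⟩ :=
  out_sound (S := T5.ds_mm) T5.ok_mm (w := 65) (j := 3) (by decide +kernel)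
theorem L07719 : Good (Phi V5.P V5.D (-1) (-1)) ⟨7, 114, 5, 22, 4, 13, 4, 14, 4, 1⟩ :=
  out_sound (S := T5.ds_mm) T5.ok_mm (w := 73) (j := 3) (by decide +kernel)
theorem L07720 : Good (Phi V5.P V5.D (-1) (-1)) ⟨7, 115, 5, 22, 4, 13, 4, 14, 4, 1⟩ :=
  out_sound (S := T5.ds_mm) T5.ok_mm (w := 21) (j := 4) (by decide +kernel)
theorem L07721 : Good (Phi V5.P V5.D (-1) (-1)) ⟨6, 57, 5, 23, 4, 13, 4, 14, 4, 1⟩ :=
  out_sound (S := T5.ds_mm) T5.ok_mm (w := 67) (j := 3) (by decide +kernel)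
theorem L07722 : Good (Phi V5.P V5.D (-1) (-1)) ⟨5, 29, 4, 11, 4, 13, 4, 14, 4, 1⟩ :=
  out_sound (S := T5.ds_mm) T5.ok_mm (w := 17) (j := 4) (by decide +kernel)
theorem L07723 : Good (Phi V5.P V5.D (-1) (-1)) ⟨4, 15, 4, 11, 4, 13, 4, 14, 4, 1⟩ :=
  out_sound (S := T5.ds_mm) T5.ok_mm (w := 53) (j := 3) (by decide +kernel)
theorem L07724 : Good (Phi V5.P V5.D (-1) (-1)) ⟨2, 2, 3, 5, 4, 13, 4, 15, 5, 2⟩ :=
  out_sound (S := T5.ds_mm) T5.ok_mm (w := 39) (j := 3) (by decide +kernel)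
theorem L07725 : Good (Phi V5.P V5.D (-1) (-1)) ⟨3, 6, 3, 5, 4, 13, 4, 15, 5, 2⟩ :=
  out_sound (S := T5.ds_mm) T5.ok_mm (w := 45) (j := 3) (by decide +kernel)
theorem L07726 : Good (Phi V5.P V5.D (-1) (-1)) ⟨6, 56, 4, 10, 4, 13, 4, 15, 5, 2⟩ :=
  leafX_sound T5.ok_mm T5.Ymm.bz_eq (w := 271) (c := ⟨⟨.negSucc 787, .ofNat 219, .ofNat 230, .ofNat 28, .ofNat 704, .ofNat 241⟩, ⟨.ofNat 530, .negSucc 216, .negSucc 39, .negSucc 14, .negSucc 456, .negSucc 155⟩, ⟨.ofNat 346, .negSucc 243, .ofNat 4, .ofNat 63, .negSucc 555, .negSucc 300⟩, ⟨.negSucc 1873, .ofNat 376, .ofNat 299, .negSucc 41, .ofNat 1423, .ofNat 548⟩, ⟨.negSucc 1162, .ofNat 66, .ofNat 46, .negSucc 122, .ofNat 655, .ofNat 321⟩, .ofNat 5281, .ofNat 7665, .ofNat 0, .ofNat 7665, .ofNat 11932, .ofNat 0, .ofNat 128, .negSucc 1204, .negSucc 4703, .ofNat 0, .ofNat 783, .ofNat 3014, .ofNat 0, .ofNat 0, .ofNat 3166, .ofNat 1389,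 .ofNat 0, .ofNat 0, .ofNat 0, .ofNat 0, .ofNat 0, .ofNat 4861948006063177836814563963254995267638247769249939456, .ofNat 127582694811157828043832942126398410599376038658048, .ofNat 0, .ofNat 0, .ofNat 5831149210572017506545114730927369993498916645733662720, .ofNat 118421648925512366278486859186471506676441971425280, .ofNat 0, .ofNat 0, .ofNat 0, .ofNat 361590005882945379666105634403069274710034022924288, .ofNat 0⟩)
    (by decide +kernel)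
theorem L07727 : Good (Phi V5.P V5.D (-1) (-1)) ⟨7, 114, 5, 20, 4, 13, 4, 15, 5, 2⟩ :=
  leafX_sound T5.ok_mm T5.Ymm.bz_eq (w := 287) (c := ⟨⟨.negSucc 449, .ofNat 0, .negSucc 0, .negSucc 54, .ofNat 819, .ofNat 255⟩, ⟨.ofNat 283, .ofNat 0, .ofNat 11, .ofNat 36, .negSucc 539, .negSucc 167⟩, ⟨.ofNat 94, .ofNat 0, .negSucc 3, .ofNat 126, .negSucc 620, .negSucc 297⟩, ⟨.negSucc 1075, .ofNat 0, .ofNat 0, .negSucc 61, .ofNat 823, .ofNat 260⟩, ⟨.negSucc 675, .ofNat 0, .ofNat 0, .ofNat 23, .negSucc 478, .negSucc 142⟩, .ofNat 28799, .ofNat 43001, .ofNat 0, .ofNat 43001, .ofNat 65020, .ofNat 0, .ofNat 128, .negSucc 3899, .negSucc 16900, .ofNat 0, .ofNat 2581, .ofNat 11143, .ofNat 0, .ofNat 0, .ofNat 11381, .ofNat 40364, .ofNat 0, .ofNat 0, .ofNat 0, .ofNat 0, .ofNat 0, .ofNat 10582622449153404319562777886070164829344711365602349940736, .ofNat 394307231502456553052588738148501879639324568011669504,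 .ofNat 0, .ofNat 0, .ofNat 47938962098932698714426759832221544620096269149767697694720, .ofNat 55750973298166061878408395996425291915280035428171776, .ofNat 0, .ofNat 0, .ofNat 57589953489752629881441682646660502709967376710893500891136, .ofNat 209499364520282457867690302253264750056095011850682368, .ofNat 0⟩)
    (by decide +kernel)
theorem L07728 : Good (Phi V5.P V5.D (-1) (-1)) ⟨7, 114, 5, 21, 4, 13, 4, 15, 5, 2⟩ :=
  leafX_sound T5.ok_mm T5.Ymm.bz_eq (w := 281) (c := ⟨⟨.negSucc 481, .ofNat 92, .ofNat 89, .negSucc 64, .ofNat 899, .ofNat 317⟩, ⟨.ofNat 315, .negSucc 144, .ofNat 41, .ofNat 44, .negSucc 597, .negSucc 210⟩, ⟨.ofNat 101, .negSucc 1, .negSucc 100, .ofNat 142, .negSucc 664, .negSucc 327⟩, ⟨.negSucc 1287, .ofNat 97, .ofNat 65, .negSucc 155, .ofNat 1539, .ofNat 623⟩, ⟨.negSucc 925, .negSucc 66, .negSucc 47, .negSucc 94, .ofNat 417, .ofNat 267⟩, .ofNat 8455, .ofNat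 12236, .ofNat 0, .ofNat 12236, .ofNat 18480, .ofNat 0, .ofNat 128, .negSucc 1826, .negSucc 8425, .ofNat 0, .ofNat 1218, .ofNat 5583, .ofNat 0, .ofNat 0, .ofNat 5444, .ofNat 2298, .ofNat 0, .ofNat 0, .ofNat 0, .ofNat 0, .ofNat 0, .ofNat 1388733223240666980515934316287171599336736294982761054208, .ofNat 1474680075263474465751748397410382312742962998542336, .ofNat 0, .ofNat 0, .ofNat 4105442019137532108574797273097551937530543619963149615104, .ofNat 966582966778862783136627467060254688395222837100544, .ofNat 152638328489426744443623638568818048246030980475859004936945664, .ofNat 0, .ofNat 0, .ofNat 441101388037201402856031595538954745504020996030464, .ofNat 389605465331469477679492704651679839392170012739124657265836032⟩)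
    (by decide +kernel)
theorem L07729 : Good (Phi V5.P V5.D (-1) (-1)) ⟨7, 115, 4, 10, 4, 13, 4, 15, 5, 2⟩ :=
  out_sound (S := T5.ds_mm) T5.ok_mm (w := 21) (j := 4) (by decide +kernel)
theorem L07730 : Good (Phi V5.P V5.D (-1) (-1)) ⟨6, 56, 4, 11, 4, 13, 4, 15, 5, 2⟩ :=
  out_sound (S := T5.ds_mm) T5.ok_mm (w := 65) (j := 3) (by decide +kernel)
theorem L07731 : Good (Phi V5.P V5.D (-1) (-1)) ⟨7, 114, 5, 22, 4, 13, 4, 15, 5, 2⟩ :=
  out_sound (S := T5.ds_mm) T5.ok_mm (w := 73) (j := 3) (by decide +kernel)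
theorem L07732 : Good (Phi V5.P V5.D (-1) (-1)) ⟨7, 115, 5, 22, 4, 13, 4, 15, 5, 2⟩ :=
  out_sound (S := T5.ds_mm) T5.ok_mm (w := 21) (j := 4) (by decide +kernel)
theorem L07733 : Good (Phi V5.P V5.D (-1) (-1)) ⟨6, 57, 5, 23, 4, 13, 4, 15, 5, 2⟩ :=
  out_sound (S := T5.ds_mm) T5.ok_mm (w := 67) (j := 3) (by decide +kernel)
theorem L07734 : Good (Phi V5.P V5.D (-1) (-1)) ⟨5, 29, 3, 5, 4, 13, 4, 15, 5, 2⟩ :=
  out_sound (S := T5.ds_mm) T5.ok_mm (w := 17) (j := 4) (by decide +kernel)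
theorem L07735 : Good (Phi V5.P V5.D (-1) (-1)) ⟨4, 15, 3, 5, 4, 13, 4, 15, 5, 2⟩ :=
  out_sound (S := T5.ds_mm) T5.ok_mm (w := 51) (j := 3) (by decide +kernel)
theorem L07736 : Good (Phi V5.P V5.D (-1) (-1)) ⟨2, 2, 3, 5, 4, 13, 4, 15, 5, 3⟩ :=
  out_sound (S := T5.ds_mm) T5.ok_mm (w := 39) (j := 3) (by decide +kernel)
theorem L07737 : Good (Phi V5.P V5.D (-1) (-1)) ⟨3, 6, 3, 5, 4, 13, 4, 15, 5, 3⟩ :=
  out_sound (S := T5.ds_mm) T5.ok_mm (w := 45) (j := 3) (by decide +kernel)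
theorem L07738 : Good (Phi V5.P V5.D (-1) (-1)) ⟨5, 28, 4, 10, 4, 13, 4, 15, 5, 3⟩ :=
  leafX_sound T5.ok_mm T5.Ymm.bz_eq (w := 264) (c := ⟨⟨.negSucc 590, .ofNat 147, .ofNat 179, .ofNat 345, .ofNat 629, .negSucc 347⟩, ⟨.ofNat 393, .negSucc 189, .negSucc 45, .negSucc 223, .negSucc 407, .ofNat 232⟩, ⟨.negSucc 6, .negSucc 23, .negSucc 105, .negSucc 99, .negSucc 447, .ofNat 32⟩, ⟨.negSucc 1509, .ofNat 284, .ofNat 335, .ofNat 587, .ofNat 1389, .negSucc 481⟩, ⟨.negSucc 1031, .ofNat 84, .ofNat 171, .ofNat 156, .ofNat 755, .ofNat 10⟩, .ofNat 2570, .ofNat 3504, .ofNat 0, .ofNat 3504, .ofNat 5521, .ofNat 0, .ofNat 128, .negSucc 1161, .negSucc 3915, .ofNat 0, .ofNat 756, .ofNat 2483, .ofNat 0, .ofNat 0, .ofNat 2426, .ofNat 668, .ofNat 0, .ofNat 0, .ofNat 0, .ofNat 0, .ofNat 0, .ofNat 115294341744726976394086949717923675535328548499750912, .ofNat 113621817162600738246411494534194722084857390825472,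 .ofNat 0, .ofNat 0, .ofNat 299949423232544279139624378317991414834072433603903488, .ofNat 71144944546946057923560223275663428697392551034880, .ofNat 89685535894848884189178826250122852281153220414589317939200, .ofNat 0, .ofNat 0, .ofNat 74798372679285300290412849150027963807291699888128, .ofNat 572539473643483138209527026960798685273523906089251476865024⟩)
    (by decide +kernel)
theorem L07739 : Good (Phi V5.P V5.D (-1) (-1)) ⟨6, 56, 4, 11, 4, 13, 4, 15, 5, 3⟩ :=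
  out_sound (S := T5.ds_mm) T5.ok_mm (w := 65) (j := 3) (by decide +kernel)
theorem L07740 : Good (Phi V5.P V5.D (-1) (-1)) ⟨7, 114, 5, 22, 4, 13, 4, 15, 5, 3⟩ :=
  out_sound (S := T5.ds_mm) T5.ok_mm (w := 73) (j := 3) (by decide +kernel)
theorem L07741 : Good (Phi V5.P V5.D (-1) (-1)) ⟨7, 115, 5, 22, 4, 13, 4, 15, 5, 3⟩ :=
  out_sound (S := T5.ds_mm) T5.ok_mm (w := 21) (j := 4) (by decide +kernel)
theorem L07742 : Good (Phi V5.P V5.D (-1) (-1)) ⟨6, 57, 5, 23, 4, 13, 4, 15, 5, 3⟩ :=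
  out_sound (S := T5.ds_mm) T5.ok_mm (w := 67) (j := 3) (by decide +kernel)
theorem L07743 : Good (Phi V5.P V5.D (-1) (-1)) ⟨5, 29, 3, 5, 4, 13, 4, 15, 5, 3⟩ :=
  out_sound (S := T5.ds_mm) T5.ok_mm (w := 17) (j := 4) (by decide +kernel)
theorem L07744 : Good (Phi V5.P V5.D (-1) (-1)) ⟨4, 15, 3, 5, 4, 13, 4, 15, 5, 3⟩ :=
  out_sound (S := T5.ds_mm) T5.ok_mm (w := 51) (j := 3) (by decide +kernel)
theorem L07745 : Good (Phi V5.P V5.D (-1) (-1)) ⟨2, 2, 5, 20, 4, 14, 4, 12, 4, 0⟩ :=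
  out_sound (S := T5.ds_mm) T5.ok_mm (w := 43) (j := 3) (by decide +kernel)
theorem L07746 : Good (Phi V5.P V5.D (-1) (-1)) ⟨3, 6, 5, 20, 4, 14, 4, 12, 4, 0⟩ :=
  out_sound (S := T5.ds_mm) T5.ok_mm (w := 49) (j := 3) (by decide +kernel)
theorem L07747 : Good (Phi V5.P V5.D (-1) (-1)) ⟨6, 56, 6, 40, 4, 14, 4, 12, 5, 0⟩ :=
  leafX_sound T5.ok_mm T5.Ymm.bz_eq (w := 277) (c := ⟨⟨.ofNat 1744, .ofNat 64, .ofNat 110, .negSucc 391, .negSucc 858, .negSucc 1264⟩, ⟨.negSucc 1122, .negSucc 29, .negSucc 82, .ofNat 253, .ofNat 549, .ofNat 814⟩, ⟨.negSucc 475, .negSucc 68, .negSucc 39, .ofNat 441, .ofNat 394, .ofNat 569⟩, ⟨.ofNat 3134, .ofNat 103, .ofNat 274, .negSucc 511, .negSucc 1748, .negSucc 2671⟩, ⟨.ofNat 1006, .ofNat 50, .ofNat 178, .ofNat 68, .negSucc 817, .negSucc 1354⟩, .ofNat 4832, .ofNat 7027, .ofNat 0, .ofNat 7027, .ofNat 11037, .ofNat 0, .ofNat 128, .negSucc 1523, .negSucc 4541,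 .ofNat 0, .ofNat 974, .ofNat 2880, .ofNat 0, .ofNat 0, .ofNat 2980, .ofNat 4199, .ofNat 0, .ofNat 0, .ofNat 3035276670085976943197861506376267939582025138176, .ofNat 0, .ofNat 0, .ofNat 0, .ofNat 1698864759380123546007184959920009462110677301723136, .ofNat 0, .ofNat 0, .ofNat 0, .ofNat 0, .ofNat 0, .ofNat 0, .ofNat 0, .ofNat 0, .ofNat 0⟩)
    (by decide +kernel)
theorem L07748 : Good (Phi V5.P V5.D (-1) (-1)) ⟨6, 56, 6, 41, 4, 14, 4, 12, 5, 0⟩ :=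
  leafX_sound T5.ok_mm T5.Ymm.bz_eq (w := 278) (c := ⟨⟨.ofNat 1887, .negSucc 33, .ofNat 138, .negSucc 418, .negSucc 894, .negSucc 1234⟩, ⟨.negSucc 1238, .ofNat 31, .negSucc 100, .ofNat 276, .ofNat 585, .ofNat 809⟩, ⟨.negSucc 394, .negSucc 225, .negSucc 6, .ofNat 473, .ofNat 426, .ofNat 548⟩, ⟨.ofNat 3314, .ofNat 26, .ofNat 210, .negSucc 521, .negSucc 1748, .negSucc 2589⟩, ⟨.ofNat 1038, .ofNat 48, .ofNat 45, .ofNat 104, .negSucc 740, .negSucc 1290⟩, .ofNat 5766, .ofNat 8364, .ofNat 0, .ofNat 8364, .ofNat 12932, .ofNat 0, .ofNat 128, .negSucc 1776, .negSucc 5550, .ofNat 0, .ofNat 1154, .ofNat 3584, .ofNat 0, .ofNat 0, .ofNat 3620, .ofNat 4510, .ofNat 0, .ofNat 0, .ofNat 5712205971446544499967256419971736698958232158208, .ofNat 0, .ofNat 0, .ofNat 0, .ofNat 1472115489496225841238600343262499331253694535565312, .ofNat 0, .ofNat 0, .ofNat 0, .ofNat 2320286527990931962475961285122009815317331717390336,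 .ofNat 0, .ofNat 0, .ofNat 0, .ofNat 0, .ofNat 0⟩)
    (by decide +kernel)
theorem L07749 : Good (Phi V5.P V5.D (-1) (-1)) ⟨6, 56, 6, 40, 4, 14, 4, 12, 5, 1⟩ :=
  leafX_sound T5.ok_mm T5.Ymm.bz_eq (w := 277) (c := ⟨⟨.ofNat 495, .negSucc 54, .ofNat 25, .negSucc 414, .negSucc 631, .negSucc 756⟩, ⟨.negSucc 318, .ofNat 26, .negSucc 7, .ofNat 267, .ofNat 405, .ofNat 482⟩, ⟨.ofNat 72, .ofNat 123, .negSucc 24, .ofNat 358, .ofNat 264, .ofNat 220⟩, ⟨.ofNat 633, .negSucc 38, .ofNat 30, .negSucc 716, .negSucc 1278, .negSucc 1551⟩, ⟨.negSucc 112, .ofNat 63, .negSucc 0, .negSucc 196, .negSucc 591, .negSucc 738⟩, .ofNat 4832, .ofNat 7025, .ofNat 0, .ofNat 7025, .ofNat 11030, .ofNat 0, .ofNat 128, .negSucc 1390, .negSucc 4682, .ofNat 0, .ofNat 890, .ofNat 2968, .ofNat 0, .ofNat 0, .ofNat 2899, .ofNat 6059, .ofNat 0, .ofNat 0, .ofNat 1706209088691179655934986759805595956670994841600, .ofNat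 0, .ofNat 0, .ofNat 0, .ofNat 1775064938766218889116096518649716275023852796379136, .ofNat 0, .ofNat 0, .ofNat 0, .ofNat 3454192174774860401974088252739056372658566894452736, .ofNat 0, .ofNat 0, .ofNat 0, .ofNat 0, .ofNat 0⟩)
    (by decide +kernel)
theorem L07750 : Good (Phi V5.P V5.D (-1) (-1)) ⟨6, 56, 6, 41, 4, 14, 4, 12, 5, 1⟩ :=
  leafX_sound T5.ok_mm T5.Ymm.bz_eq (w := 279) (c := ⟨⟨.ofNat 583, .negSucc 28, .ofNat 60, .negSucc 492, .negSucc 607, .negSucc 803⟩, ⟨.negSucc 369, .ofNat 0, .negSucc 28, .ofNat 321, .ofNat 397, .ofNat 523⟩, ⟨.ofNat 67, .ofNat 3, .negSucc 0, .ofNat 405, .ofNat 238, .ofNat 259⟩, ⟨.ofNat 757, .negSucc 54, .ofNat 135, .negSucc 785, .negSucc 1249, .negSucc 1614⟩, ⟨.negSucc 111, .negSucc 11, .ofNat 81, .negSucc 136, .negSucc 595, .negSucc 727⟩, .ofNat 5796, .ofNat 8408, .ofNat 0, .ofNat 8408, .ofNat 12993, .ofNat 0, .ofNat 128, .negSucc 2034, .negSucc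 7051, .ofNat 0, .ofNat 1321, .ofNat 4551, .ofNat 0, .ofNat 0, .ofNat 4234, .ofNat 8568, .ofNat 0, .ofNat 0, .ofNat 0, .ofNat 0, .ofNat 0, .ofNat 0, .ofNat 884357036747309126665252636756074301247698602295296, .ofNat 0, .ofNat 0, .ofNat 0, .ofNat 0, .ofNat 0, .ofNat 0, .ofNat 0, .ofNat 0, .ofNat 0⟩)
    (by decide +kernel)
theorem L07751 : Good (Phi V5.P V5.D (-1) (-1)) ⟨6, 57, 5, 20, 4, 14, 4, 12, 4, 0⟩ :=
  leafX_sound T5.ok_mm T5.Ymm.bz_eq (w := 273) (c := ⟨⟨.ofNat 1142, .ofNat 0, .ofNat 528, .negSucc 76, .negSucc 781, .negSucc 1988⟩, ⟨.negSucc 1787, .ofNat 0, .ofNat 682, .ofNat 56, .ofNat 518, .ofNat 1315⟩, ⟨.negSucc 601, .ofNat 0, .ofNat 224, .ofNat 234, .ofNat 328, .ofNat 752⟩, ⟨.ofNat 3306, .ofNat 0, .negSucc 38, .negSucc 204, .negSucc 1729, .negSucc 4219⟩, ⟨.ofNat 1375, .ofNat 0, .negSucc 1, .negSucc 135, .negSucc 944, .negSucc 2133⟩, .ofNat 6369, .ofNat 9221, .ofNat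 0, .ofNat 9221, .ofNat 14136, .ofNat 0, .ofNat 128, .negSucc 3451, .negSucc 13778, .ofNat 0, .ofNat 2260, .ofNat 8975, .ofNat 0, .ofNat 0, .ofNat 8538, .ofNat 15010, .ofNat 0, .ofNat 0, .ofNat 149804530458540788364333530128380743802677335425024, .ofNat 0, .ofNat 0, .ofNat 0, .ofNat 125064262841646171223192789632137812722635129887916032, .ofNat 0, .ofNat 0, .ofNat 0, .ofNat 74524533868971302807497019344713947689465056696729600, .ofNat 0, .ofNat 0, .ofNat 0, .ofNat 223699759830222988273827998410069356344472230632095744, .ofNat 0⟩)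
    (by decide +kernel)
theorem L07752 : Good (Phi V5.P V5.D (-1) (-1)) ⟨5, 29, 5, 20, 4, 14, 4, 12, 4, 0⟩ :=
  out_sound (S := T5.ds_mm) T5.ok_mm (w := 61) (j := 3) (by decide +kernel)
theorem L07753 : Good (Phi V5.P V5.D (-1) (-1)) ⟨4, 15, 5, 20, 4, 14, 4, 12, 4, 0⟩ :=
  out_sound (S := T5.ds_mm) T5.ok_mm (w := 55) (j := 3) (by decide +kernel)
theorem L07754 : Good (Phi V5.P V5.D (-1) (-1)) ⟨2, 2, 5, 21, 4, 14, 4, 12, 4, 0⟩ :=
  out_sound (S := T5.ds_mm) T5.ok_mm (w := 43) (j := 3) (by decide +kernel)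
theorem L07755 : Good (Phi V5.P V5.D (-1) (-1)) ⟨3, 6, 5, 21, 4, 14, 4, 12, 4, 0⟩ :=
  out_sound (S := T5.ds_mm) T5.ok_mm (w := 49) (j := 3) (by decide +kernel)
theorem L07756 : Good (Phi V5.P V5.D (-1) (-1)) ⟨6, 56, 6, 42, 4, 14, 4, 12, 4, 0⟩ :=
  leafX_sound T5.ok_mm T5.Ymm.bz_eq (w := 279) (c := ⟨⟨.ofNat 1800, .ofNat 0, .negSucc 69, .negSucc 161, .negSucc 913, .negSucc 2186⟩, ⟨.negSucc 1185, .ofNat 0, .ofNat 51, .ofNat 108, .ofNat 601, .ofNat 1437⟩, ⟨.negSucc 444, .ofNat 0, .negSucc 43, .ofNat 268, .ofNat 411, .ofNat 871⟩, ⟨.ofNat 2536, .ofNat 0, .negSucc 59, .negSucc 124, .negSucc 1426, .negSucc 3318⟩, ⟨.ofNat 17, .ofNat 0, .ofNat 20, .ofNat 153, .negSucc 218, .negSucc 382⟩, .ofNat 14689, .ofNat 21749, .ofNat 0, .ofNat 21749, .ofNat 33008, .ofNat 0, .ofNat 128, .negSucc 6505, .negSucc 20282, .ofNat 0, .ofNat 4290, .ofNat 13341, .ofNat 0, .ofNat 0, .ofNat 12797, .ofNat 22540,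 .ofNat 0, .ofNat 0, .ofNat 607374170430616112269727208732653429076606844928, .ofNat 0, .ofNat 0, .ofNat 0, .ofNat 2704110352744480513044813878972523925672207075770368, .ofNat 0, .ofNat 0, .ofNat 0, .ofNat 4236159444445359526456930980517022545196447873105920, .ofNat 0, .ofNat 0, .ofNat 0, .ofNat 6910233769873076032981069342269044949941957645303808, .ofNat 0⟩)
    (by decide +kernel)
theorem L07757 : Good (Phi V5.P V5.D (-1) (-1)) ⟨7, 114, 6, 42, 4, 14, 4, 12, 5, 0⟩ :=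
  leafX_sound T5.ok_mm T5.Ymm.bz_eq (w := 285) (c := ⟨⟨.ofNat 2013, .ofNat 98, .ofNat 88, .negSucc 337, .negSucc 1003, .negSucc 1344⟩, ⟨.negSucc 1332, .negSucc 81, .negSucc 57, .ofNat 224, .ofNat 665, .ofNat 891⟩, ⟨.negSucc 634, .ofNat 52, .negSucc 89, .ofNat 425, .ofNat 481, .ofNat 623⟩, ⟨.ofNat 3157, .ofNat 119, .ofNat 191, .negSucc 338, .negSucc 1678, .negSucc 2158⟩, ⟨.ofNat 501, .ofNat 32, .ofNat 75, .ofNat 202, .negSucc 407, .negSucc 413⟩, .ofNat 12201, .ofNat 17813, .ofNat 0, .ofNat 17813, .ofNat 26788, .ofNat 0, .ofNat 128, .negSucc 2489, .negSucc 7681, .ofNat 0, .ofNat 1656, .ofNat 5093, .ofNat 0, .ofNat 0, .ofNat 4898, .ofNat 4787, .ofNat 0, .ofNat 0, .ofNat 3413743372495088104324979273029236139111424720896, .ofNat 0, .ofNat 0, .ofNat 0, .ofNat 5216537189822908663026993273451906938013716177747968, .ofNat 0, .ofNat 0, .ofNat 0, .ofNat 6004898790836592908914023033415786960651800616632320,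 .ofNat 0, .ofNat 0, .ofNat 0, .ofNat 20140151685874972397876281608628068746671557705728, .ofNat 4121166807026588720326695756975815992790542775435331053230751744⟩)
    (by decide +kernel)
theorem L07758 : Good (Phi V5.P V5.D (-1) (-1)) ⟨7, 114, 6, 42, 4, 14, 4, 12, 5, 1⟩ :=
  leafX_sound T5.ok_mm T5.Ymm.bz_eq (w := 285) (c := ⟨⟨.ofNat 524, .ofNat 35, .ofNat 117, .negSucc 438, .negSucc 674, .negSucc 767⟩, ⟨.negSucc 351, .negSucc 22, .negSucc 70, .ofNat 294, .ofNat 448, .ofNat 510⟩, ⟨.ofNat 130, .ofNat 0, .negSucc 75, .ofNat 376, .ofNat 269, .ofNat 226⟩, ⟨.ofNat 504, .ofNat 88, .ofNat 205, .negSucc 713, .negSucc 1220, .negSucc 1339⟩, ⟨.negSucc 347, .ofNat 48, .ofNat 77, .negSucc 146, .negSucc 411, .negSucc 397⟩, .ofNat 12201, .ofNat 17813, .ofNat 0, .ofNat 17813, .ofNat 26788, .ofNat 0, .ofNat 128, .negSucc 1422, .negSucc 7204, .ofNat 0, .ofNat 946, .ofNat 4775, .ofNat 0, .ofNat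 0, .ofNat 4302, .ofNat 6947, .ofNat 0, .ofNat 0, .ofNat 811266437048724005505027617521944458403048849408, .ofNat 0, .ofNat 0, .ofNat 0, .ofNat 11436775683044059058550350355494418171948019849625600, .ofNat 0, .ofNat 0, .ofNat 0, .ofNat 206980001726595223686845647339402401535754441326592, .ofNat 484235600810276930773695240207496720420055059030806644859600896, .ofNat 0, .ofNat 0, .ofNat 0, .ofNat 0⟩)
    (by decide +kernel)
theorem L07759 : Good (Phi V5.P V5.D (-1) (-1)) ⟨7, 115, 6, 42, 4, 14, 4, 12, 4, 0⟩ :=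
  out_sound (S := T5.ds_mm) T5.ok_mm (w := 75) (j := 3) (by decide +kernel)
theorem L07760 : Good (Phi V5.P V5.D (-1) (-1)) ⟨6, 56, 6, 43, 4, 14, 4, 12, 4, 0⟩ :=
  out_sound (S := T5.ds_mm) T5.ok_mm (w := 69) (j := 3) (by decide +kernel)
theorem L07761 : Good (Phi V5.P V5.D (-1) (-1)) ⟨8, 228, 6, 43, 4, 14, 4, 12, 4, 0⟩ :=
  out_sound (S := T5.ds_mm) T5.ok_mm (w := 81) (j := 3) (by decide +kernel)
theorem L07762 : Good (Phi V5.P V5.D (-1) (-1)) ⟨8, 229, 6, 43, 4, 14, 4, 12, 4, 0⟩ :=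
  out_sound (S := T5.ds_mm) T5.ok_mm (w := 23) (j := 4) (by decide +kernel)
theorem L07763 : Good (Phi V5.P V5.D (-1) (-1)) ⟨7, 115, 6, 43, 4, 14, 4, 12, 4, 0⟩ :=
  out_sound (S := T5.ds_mm) T5.ok_mm (w := 21) (j := 4) (by decide +kernel)
theorem L07764 : Good (Phi V5.P V5.D (-1) (-1)) ⟨5, 29, 5, 21, 4, 14, 4, 12, 4, 0⟩ :=
  out_sound (S := T5.ds_mm) T5.ok_mm (w := 61) (j := 3) (by decide +kernel)
theorem L07765 : Good (Phi V5.P V5.D (-1) (-1)) ⟨4, 15, 5, 21, 4, 14, 4, 12, 4, 0⟩ :=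
  out_sound (S := T5.ds_mm) T5.ok_mm (w := 55) (j := 3) (by decide +kernel)
theorem L07766 : Good (Phi V5.P V5.D (-1) (-1)) ⟨2, 2, 4, 11, 4, 14, 4, 12, 4, 0⟩ :=
  out_sound (S := T5.ds_mm) T5.ok_mm (w := 41) (j := 3) (by decide +kernel)
theorem L07767 : Good (Phi V5.P V5.D (-1) (-1)) ⟨3, 6, 4, 11, 4, 14, 4, 12, 4, 0⟩ :=
  out_sound (S := T5.ds_mm) T5.ok_mm (w := 47) (j := 3) (by decide +kernel)
theorem L07768 : Good (Phi V5.P V5.D (-1) (-1)) ⟨6, 56, 4, 11, 4, 14, 4, 12, 4, 0⟩ :=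
  out_sound (S := T5.ds_mm) T5.ok_mm (w := 65) (j := 3) (by decide +kernel)
theorem L07769 : Good (Phi V5.P V5.D (-1) (-1)) ⟨7, 114, 5, 22, 4, 14, 4, 12, 4, 0⟩ :=
  out_sound (S := T5.ds_mm) T5.ok_mm (w := 73) (j := 3) (by decide +kernel)
theorem L07770 : Good (Phi V5.P V5.D (-1) (-1)) ⟨7, 115, 5, 22, 4, 14, 4, 12, 4, 0⟩ :=
  out_sound (S := T5.ds_mm) T5.ok_mm (w := 21) (j := 4) (by decide +kernel)
theorem L07771 : Good (Phi V5.P V5.D (-1) (-1)) ⟨6, 57, 5, 23, 4, 14, 4, 12, 4, 0⟩ :=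
  out_sound (S := T5.ds_mm) T5.ok_mm (w := 67) (j := 3) (by decide +kernel)
theorem L07772 : Good (Phi V5.P V5.D (-1) (-1)) ⟨5, 29, 4, 11, 4, 14, 4, 12, 4, 0⟩ :=
  out_sound (S := T5.ds_mm) T5.ok_mm (w := 17) (j := 4) (by decide +kernel)
theorem L07773 : Good (Phi V5.P V5.D (-1) (-1)) ⟨4, 15, 4, 11, 4, 14, 4, 12, 4, 0⟩ :=
  out_sound (S := T5.ds_mm) T5.ok_mm (w := 53) (j := 3) (by decide +kernel)
theorem L07774 : Good (Phi V5.P V5.D (-1) (-1)) ⟨2, 2, 5, 20, 4, 14, 4, 13, 5, 0⟩ :=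
  out_sound (S := T5.ds_mm) T5.ok_mm (w := 43) (j := 3) (by decide +kernel)
theorem L07775 : Good (Phi V5.P V5.D (-1) (-1)) ⟨3, 6, 5, 20, 4, 14, 4, 13, 5, 0⟩ :=
  out_sound (S := T5.ds_mm) T5.ok_mm (w := 49) (j := 3) (by decide +kernel)
theorem L07776 : Good (Phi V5.P V5.D (-1) (-1)) ⟨6, 56, 6, 40, 4, 14, 4, 13, 5, 0⟩ :=
  leafX_sound T5.ok_mm T5.Ymm.bz_eq (w := 277) (c := ⟨⟨.ofNat 689, .negSucc 36, .ofNat 27, .negSucc 357, .negSucc 684, .negSucc 906⟩, ⟨.negSucc 432, .negSucc 11, .negSucc 3, .ofNat 233, .ofNat 439, .ofNat 579⟩, ⟨.ofNat 126, .negSucc 85, .ofNat 24, .ofNat 331, .ofNat 291, .ofNat 339⟩, ⟨.ofNat 1181, .negSucc 26, .ofNat 37, .negSucc 694, .negSucc 1445, .negSucc 1888⟩, ⟨.ofNat 316, .ofNat 26, .ofNat 10, .negSucc 288, .negSucc 732, .negSucc 932⟩, .ofNat 4764, .ofNat 6928, .ofNat 0, .ofNat 6928, .ofNat 10896, .ofNat 0, .ofNat 128, .negSucc 1273, .negSucc 5062, .ofNat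 0, .ofNat 813, .ofNat 3206, .ofNat 0, .ofNat 0, .ofNat 3309, .ofNat 6262, .ofNat 0, .ofNat 0, .ofNat 0, .ofNat 0, .ofNat 0, .ofNat 0, .ofNat 1482700206852711918047375843698807641713621625470976, .ofNat 0, .ofNat 0, .ofNat 0, .ofNat 103616127410563694165094443875621823748652534857728, .ofNat 0, .ofNat 0, .ofNat 0, .ofNat 4305183216235026243872010157125860177209625503858688, .ofNat 0⟩)
    (by decide +kernel)
theorem L07777 : Good (Phi V5.P V5.D (-1) (-1)) ⟨7, 112, 6, 41, 4, 14, 4, 13, 5, 0⟩ :=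
  out_sound (S := T5.ds_mm) T5.ok_mm (w := 75) (j := 3) (by decide +kernel)
theorem L07778 : Good (Phi V5.P V5.D (-1) (-1)) ⟨7, 113, 6, 41, 4, 14, 4, 13, 5, 0⟩ :=
  leafX_sound T5.ok_mm T5.Ymm.bz_eq (w := 282) (c := ⟨⟨.ofNat 817, .ofNat 3, .negSucc 2, .negSucc 410, .negSucc 792, .negSucc 1019⟩, ⟨.negSucc 542, .ofNat 0, .ofNat 6, .ofNat 272, .ofNat 521, .ofNat 668⟩, ⟨.negSucc 56, .ofNat 104, .negSucc 37, .ofNat 384, .ofNat 358, .ofNat 420⟩, ⟨.ofNat 1495, .negSucc 5, .negSucc 48, .negSucc 758, .negSucc 1739, .negSucc 2149⟩, ⟨.ofNat 511, .negSucc 8, .negSucc 64, .negSucc 270, .negSucc 939, .negSucc 1078⟩, .ofNat 5800, .ofNat 8413, .ofNat 0, .ofNat 8413, .ofNat 13000, .ofNat 0, .ofNat 128, .negSucc 1631, .negSucc 5765, .ofNat 0, .ofNat 1060, .ofNat 3723, .ofNat 0, .ofNat 0, .ofNat 3692, .ofNat 5205, .ofNat 0, .ofNat 0, .ofNat 0, .ofNat 0, .ofNat 0, .ofNat 0, .ofNat 1472526190499137752891595785868292833947922510905344,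 .ofNat 0, .ofNat 0, .ofNat 0, .ofNat 0, .ofNat 0, .ofNat 0, .ofNat 0, .ofNat 0, .ofNat 0⟩)
    (by decide +kernel)
theorem L07779 : Good (Phi V5.P V5.D (-1) (-1)) ⟨6, 57, 5, 20, 4, 14, 4, 13, 5, 0⟩ :=
  leafX_sound T5.ok_mm T5.Ymm.bz_eq (w := 278) (c := ⟨⟨.ofNat 678, .ofNat 0, .ofNat 57, .negSucc 423, .negSucc 806, .negSucc 935⟩, ⟨.negSucc 592, .ofNat 0, .ofNat 104, .ofNat 280, .ofNat 534, .ofNat 619⟩, ⟨.ofNat 96, .ofNat 0, .negSucc 8, .ofNat 361, .ofNat 353, .ofNat 348⟩, ⟨.ofNat 1316, .ofNat 0, .negSucc 4, .negSucc 743, .negSucc 1723, .negSucc 2004⟩, ⟨.ofNat 412, .ofNat 0, .ofNat 0, .negSucc 220, .negSucc 881, .negSucc 1032⟩, .ofNat 6369, .ofNat 9221, .ofNat 0, .ofNat 9221, .ofNat 14136, .ofNat 0, .ofNat 128, .negSucc 4833, .negSucc 17207, .ofNat 0, .ofNat 3164, .ofNat 11208, .ofNat 0, .ofNat 0, .ofNat 10889, .ofNat 28940, .ofNat 0, .ofNat 0, .ofNat 20418043726654660404290709580707340731066913652736,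 .ofNat 0, .ofNat 0, .ofNat 0, .ofNat 1232082758651292657235981009493524624626878221664649216, .ofNat 0, .ofNat 0, .ofNat 0, .ofNat 1013711342642005405010465057717622945219347357162799104, .ofNat 0, .ofNat 0, .ofNat 0, .ofNat 786424311996919689390276314080771550125688236537806848, .ofNat 0⟩)
    (by decide +kernel)
theorem L07780 : Good (Phi V5.P V5.D (-1) (-1)) ⟨5, 29, 5, 20, 4, 14, 4, 13, 5, 0⟩ :=
  out_sound (S := T5.ds_mm) T5.ok_mm (w := 61) (j := 3) (by decide +kernel)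
theorem L07781 : Good (Phi V5.P V5.D (-1) (-1)) ⟨4, 15, 5, 20, 4, 14, 4, 13, 5, 0⟩ :=
  out_sound (S := T5.ds_mm) T5.ok_mm (w := 55) (j := 3) (by decide +kernel)
theorem L07782 : Good (Phi V5.P V5.D (-1) (-1)) ⟨2, 2, 5, 20, 4, 14, 4, 13, 5, 1⟩ :=
  out_sound (S := T5.ds_mm) T5.ok_mm (w := 43) (j := 3) (by decide +kernel)
theorem L07783 : Good (Phi V5.P V5.D (-1) (-1)) ⟨3, 6, 5, 20, 4, 14, 4, 13, 5, 1⟩ :=
  out_sound (S := T5.ds_mm) T5.ok_mm (w := 49) (j := 3) (by decide +kernel)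
theorem L07784 : Good (Phi V5.P V5.D (-1) (-1)) ⟨7, 112, 5, 20, 4, 14, 4, 13, 5, 1⟩ :=
  leafX_sound T5.ok_mm T5.Ymm.bz_eq (w := 282) (c := ⟨⟨.negSucc 417, .negSucc 253, .ofNat 209, .negSucc 104, .negSucc 235, .negSucc 84⟩, ⟨.ofNat 263, .ofNat 157, .negSucc 102, .ofNat 67, .ofNat 149, .ofNat 52⟩, ⟨.ofNat 555, .ofNat 178, .negSucc 117, .ofNat 112, .ofNat 17, .negSucc 173⟩, ⟨.negSucc 1210, .negSucc 250, .ofNat 196, .negSucc 210, .negSucc 473, .negSucc 351⟩, ⟨.negSucc 943, .ofNat 147, .negSucc 118, .negSucc 94, .negSucc 215, .negSucc 357⟩, .ofNat 12754, .ofNat 19453, .ofNat 0, .ofNat 19453, .ofNat 30530, .ofNat 0, .ofNat 128, .negSucc 1110, .negSucc 8102, .ofNat 0, .ofNat 711, .ofNat 5175, .ofNat 0, .ofNat 0, .ofNat 4985, .ofNat 9075, .ofNat 0, .ofNat 0, .ofNat 0, .ofNat 0, .ofNat 0, .ofNat 0, .ofNat 325617372592432198538122581714628916524370026823680, .ofNat 0, .ofNat 0, .ofNat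 0, .ofNat 248758234237577757376782755040177857381368858673152, .ofNat 0, .ofNat 0, .ofNat 0, .ofNat 769835093867166795924700993382791026005574768656384, .ofNat 0⟩)
    (by decide +kernel)
theorem L07785 : Good (Phi V5.P V5.D (-1) (-1)) ⟨7, 113, 5, 20, 4, 14, 4, 13, 5, 1⟩ :=
  leafX_sound T5.ok_mm T5.Ymm.bz_eq (w := 279) (c := ⟨⟨.negSucc 517, .ofNat 91, .negSucc 81, .negSucc 213, .negSucc 294, .negSucc 196⟩, ⟨.ofNat 317, .negSucc 66, .ofNat 91, .ofNat 139, .ofNat 190, .ofNat 124⟩, ⟨.ofNat 635, .negSucc 85, .ofNat 98, .ofNat 176, .ofNat 51, .negSucc 107⟩, ⟨.negSucc 1297, .ofNat 65, .negSucc 164, .negSucc 405, .negSucc 551, .negSucc 395⟩, ⟨.negSucc 879, .negSucc 105, .negSucc 44, .negSucc 158, .negSucc 205, .negSucc 179⟩, .ofNat 5094, .ofNat 7375, .ofNat 0, .ofNat 7375, .ofNat 11480, .ofNat 0, .ofNat 128, .negSucc 1435, .negSucc 6232, .ofNat 0, .ofNat 926, .ofNat 3986, .ofNat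 0, .ofNat 0, .ofNat 3784, .ofNat 4647, .ofNat 0, .ofNat 0, .ofNat 0, .ofNat 0, .ofNat 0, .ofNat 0, .ofNat 165987762742296750487427618080216096957047649599488, .ofNat 0, .ofNat 0, .ofNat 0, .ofNat 0, .ofNat 0, .ofNat 0, .ofNat 0, .ofNat 0, .ofNat 0⟩)
    (by decide +kernel)
theorem L07786 : Good (Phi V5.P V5.D (-1) (-1)) ⟨6, 57, 5, 20, 4, 14, 4, 13, 5, 1⟩ :=
  leafX_sound T5.ok_mm T5.Ymm.bz_eq (w := 285) (c := ⟨⟨.negSucc 553, .ofNat 0, .ofNat 10, .negSucc 234, .negSucc 284, .negSucc 157⟩, ⟨.ofNat 354, .ofNat 0, .ofNat 3, .ofNat 155, .ofNat 187, .ofNat 103⟩, ⟨.ofNat 666, .ofNat 0, .ofNat 6, .ofNat 186, .ofNat 39, .negSucc 133⟩, ⟨.negSucc 1566, .ofNat 1, .negSucc 0, .negSucc 302, .negSucc 394, .negSucc 237⟩, ⟨.negSucc 1208, .ofNat 1, .ofNat 0, .ofNat 40, .ofNat 5, .negSucc 25⟩, .ofNat 21700, .ofNat 32308, .ofNat 0, .ofNat 32308, .ofNat 48913, .ofNat 0, .ofNat 128, .negSucc 7555,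 .negSucc 51135, .ofNat 0, .ofNat 4989, .ofNat 33683, .ofNat 0, .ofNat 0, .ofNat 31472, .ofNat 116495, .ofNat 0, .ofNat 0, .ofNat 8662370334629461285318155607329859351140185931776, .ofNat 0, .ofNat 0, .ofNat 0, .ofNat 4962752161031511970124685099571623409866727525841895424, .ofNat 0, .ofNat 0, .ofNat 0, .ofNat 516170838987155290982998020858384249990992110838349824, .ofNat 0, .ofNat 0, .ofNat 0, .ofNat 30305219838699859595574216588624389829150346877861888, .ofNat 0⟩)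
    (by decide +kernel)
theorem L07787 : Good (Phi V5.P V5.D (-1) (-1)) ⟨5, 29, 5, 20, 4, 14, 4, 13, 5, 1⟩ :=
  out_sound (S := T5.ds_mm) T5.ok_mm (w := 61) (j := 3) (by decide +kernel)
theorem L07788 : Good (Phi V5.P V5.D (-1) (-1)) ⟨4, 15, 5, 20, 4, 14, 4, 13, 5, 1⟩ :=
  out_sound (S := T5.ds_mm) T5.ok_mm (w := 55) (j := 3) (by decide +kernel)
theorem L07789 : Good (Phi V5.P V5.D (-1) (-1)) ⟨2, 2, 5, 21, 4, 14, 4, 13, 4, 0⟩ :=
  out_sound (S := T5.ds_mm) T5.ok_mm (w := 43) (j := 3) (by decide +kernel)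
theorem L07790 : Good (Phi V5.P V5.D (-1) (-1)) ⟨3, 6, 5, 21, 4, 14, 4, 13, 4, 0⟩ :=
  out_sound (S := T5.ds_mm) T5.ok_mm (w := 49) (j := 3) (by decide +kernel)
theorem L07791 : Good (Phi V5.P V5.D (-1) (-1)) ⟨6, 56, 6, 42, 4, 14, 4, 13, 5, 0⟩ :=
  leafX_sound T5.ok_mm T5.Ymm.bz_eq (w := 285) (c := ⟨⟨.ofNat 785, .ofNat 0, .negSucc 2, .negSucc 337, .negSucc 847, .negSucc 1023⟩, ⟨.negSucc 517, .ofNat 0, .ofNat 8, .ofNat 223, .ofNat 558, .ofNat 673⟩, ⟨.ofNat 59, .ofNat 0, .negSucc 90, .ofNat 312, .ofNat 381, .ofNat 398⟩, ⟨.ofNat 988, .ofNat 0, .negSucc 10, .negSucc 511, .negSucc 1456, .negSucc 1666⟩, ⟨.negSucc 173, .ofNat 0, .negSucc 3, .negSucc 55, .negSucc 400, .negSucc 346⟩, .ofNat 14653, .ofNat 21696, .ofNat 0, .ofNat 21696, .ofNat 32928, .ofNat 0, .ofNat 128, .negSucc 8622, .negSucc 28867, .ofNat 0, .ofNat 5687, .ofNat 18990, .ofNat 0, .ofNat 0, .ofNat 18793, .ofNat 21283,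 .ofNat 0, .ofNat 0, .ofNat 0, .ofNat 0, .ofNat 0, .ofNat 0, .ofNat 90521108619465183456417852891241070482472865921761280, .ofNat 0, .ofNat 0, .ofNat 0, .ofNat 231246803805546357558419523588573267594994114304671744, .ofNat 0, .ofNat 0, .ofNat 0, .ofNat 0, .ofNat 0⟩)
    (by decide +kernel)
theorem L07792 : Good (Phi V5.P V5.D (-1) (-1)) ⟨6, 56, 6, 42, 4, 14, 4, 13, 5, 1⟩ :=
  leafX_sound T5.ok_mm T5.Ymm.bz_eq (w := 287) (c := ⟨⟨.negSucc 591, .ofNat 0, .negSucc 57, .negSucc 228, .negSucc 278, .negSucc 132⟩, ⟨.ofNat 389, .ofNat 0, .ofNat 62, .ofNat 151, .ofNat 183, .ofNat 87⟩, ⟨.ofNat 696, .ofNat 0, .ofNat 127, .ofNat 181, .ofNat 42, .negSucc 146⟩, ⟨.negSucc 1721, .negSucc 0, .negSucc 46, .negSucc 260, .negSucc 359, .negSucc 178⟩, ⟨.negSucc 1340, .negSucc 0, .ofNat 24, .ofNat 92, .ofNat 46, .ofNat 10⟩, .ofNat 23242, .ofNat 34632, .ofNat 0, .ofNat 34632, .ofNat 52413, .ofNat 0,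 .ofNat 128, .negSucc 4196, .negSucc 31297, .ofNat 0, .ofNat 2772, .ofNat 20628, .ofNat 0, .ofNat 0, .ofNat 19083, .ofNat 30029, .ofNat 0, .ofNat 0, .ofNat 0, .ofNat 0, .ofNat 0, .ofNat 0, .ofNat 93437763594913828572095114258013155504782541422854144, .ofNat 0, .ofNat 0, .ofNat 0, .ofNat 235649736441793842282430180241760492463056204693766144, .ofNat 0, .ofNat 0, .ofNat 0, .ofNat 0, .ofNat 0⟩)
    (by decide +kernel)
theorem L07793 : Good (Phi V5.P V5.D (-1) (-1)) ⟨8, 228, 6, 42, 4, 14, 4, 13, 5, 0⟩ :=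
  leafX_sound T5.ok_mm T5.Ymm.bz_eq (w := 288) (c := ⟨⟨.ofNat 847, .negSucc 59, .negSucc 100, .negSucc 317, .negSucc 847, .negSucc 939⟩, ⟨.negSucc 570, .ofNat 17, .ofNat 94, .ofNat 212, .ofNat 567, .ofNat 629⟩, ⟨.ofNat 0, .ofNat 107, .ofNat 27, .ofNat 306, .ofNat 379, .ofNat 344⟩, ⟨.ofNat 1637, .negSucc 44, .negSucc 133, .negSucc 667, .negSucc 1872, .negSucc 2152⟩, ⟨.ofNat 662, .ofNat 38, .ofNat 36, .negSucc 330, .negSucc 1015, .negSucc 1241⟩, .ofNat 7277, .ofNat 10534, .ofNat 0, .ofNat 10534, .ofNat 16028, .ofNat 0, .ofNat 128, .negSucc 1642, .negSucc 8467, .ofNat 0, .ofNat 1083, .ofNat 5563, .ofNat 0, .ofNat 0, .ofNat 5307, .ofNat 2651, .ofNat 0, .ofNat 0, .ofNat 695817488404341732020173984626610043582786043904, .ofNat 0, .ofNat 0, .ofNat 0, .ofNat 0, .ofNat 0, .ofNat 0, .ofNat 0, .ofNat 0, .ofNat 0, .ofNat 0, .ofNat 0, .ofNat 3621554673808547724879697432788017846143894253731840,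 .ofNat 18076803328926547162071073746182433951005035006119280950160392192⟩)
    (by decide +kernel)
theorem L07794 : Good (Phi V5.P V5.D (-1) (-1)) ⟨8, 228, 6, 42, 4, 14, 4, 13, 5, 1⟩ :=
  leafX_sound T5.ok_mm T5.Ymm.bz_eq (w := 290) (c := ⟨⟨.negSucc 670, .negSucc 0, .ofNat 63, .negSucc 169, .negSucc 256, .negSucc 46⟩, ⟨.ofNat 438, .ofNat 24, .negSucc 50, .ofNat 113, .ofNat 172, .ofNat 32⟩, ⟨.ofNat 745, .ofNat 16, .negSucc 40, .ofNat 150, .ofNat 24, .negSucc 195⟩, ⟨.negSucc 1387, .negSucc 107, .negSucc 28, .negSucc 359, .negSucc 613, .negSucc 241⟩, ⟨.negSucc 675, .negSucc 162, .negSucc 162, .negSucc 182, .negSucc 378, .negSucc 261⟩, .ofNat 11929, .ofNat 17503, .ofNat 0, .ofNat 17503, .ofNat 26472, .ofNat 0, .ofNat 128, .negSucc 2077, .negSucc 11697, .ofNat 0, .ofNat 1377, .ofNat 7728, .ofNat 0, .ofNat 0, .ofNat 7069, .ofNat 7363, .ofNat 0, .ofNat 0, .ofNat 1351549359746136036364282311633176227144225783808,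 .ofNat 0, .ofNat 0, .ofNat 0, .ofNat 3687181947222865295091207075084262593284917130428416, .ofNat 0, .ofNat 0, .ofNat 0, .ofNat 0, .ofNat 0, .ofNat 0, .ofNat 0, .ofNat 0, .ofNat 0⟩)
    (by decide +kernel)
theorem L07795 : Good (Phi V5.P V5.D (-1) (-1)) ⟨8, 229, 6, 42, 4, 14, 4, 13, 4, 0⟩ :=
  out_sound (S := T5.ds_mm) T5.ok_mm (w := 23) (j := 4) (by decide +kernel)
theorem L07796 : Good (Phi V5.P V5.D (-1) (-1)) ⟨7, 115, 6, 42, 4, 14, 4, 13, 4, 0⟩ :=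
  out_sound (S := T5.ds_mm) T5.ok_mm (w := 75) (j := 3) (by decide +kernel)
theorem L07797 : Good (Phi V5.P V5.D (-1) (-1)) ⟨6, 56, 6, 43, 4, 14, 4, 13, 4, 0⟩ :=
  out_sound (S := T5.ds_mm) T5.ok_mm (w := 69) (j := 3) (by decide +kernel)
theorem L07798 : Good (Phi V5.P V5.D (-1) (-1)) ⟨8, 228, 6, 43, 4, 14, 4, 13, 4, 0⟩ :=
  out_sound (S := T5.ds_mm) T5.ok_mm (w := 81) (j := 3) (by decide +kernel)
theorem L07799 : Good (Phi V5.P V5.D (-1) (-1)) ⟨8, 229, 6, 43, 4, 14, 4, 13, 4, 0⟩ :=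
  out_sound (S := T5.ds_mm) T5.ok_mm (w := 23) (j := 4) (by decide +kernel)
theorem L07800 : Good (Phi V5.P V5.D (-1) (-1)) ⟨7, 115, 6, 43, 4, 14, 4, 13, 4, 0⟩ :=
  out_sound (S := T5.ds_mm) T5.ok_mm (w := 21) (j := 4) (by decide +kernel)
theorem L07801 : Good (Phi V5.P V5.D (-1) (-1)) ⟨5, 29, 5, 21, 4, 14, 4, 13, 4, 0⟩ :=
  out_sound (S := T5.ds_mm) T5.ok_mm (w := 61) (j := 3) (by decide +kernel)
theorem L07802 : Good (Phi V5.P V5.D (-1) (-1)) ⟨4, 15, 5, 21, 4, 14, 4, 13, 4, 0⟩ :=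
  out_sound (S := T5.ds_mm) T5.ok_mm (w := 55) (j := 3) (by decide +kernel)
theorem L07803 : Good (Phi V5.P V5.D (-1) (-1)) ⟨2, 2, 4, 11, 4, 14, 4, 13, 4, 0⟩ :=
  out_sound (S := T5.ds_mm) T5.ok_mm (w := 41) (j := 3) (by decide +kernel)
theorem L07804 : Good (Phi V5.P V5.D (-1) (-1)) ⟨3, 6, 4, 11, 4, 14, 4, 13, 4, 0⟩ :=
  out_sound (S := T5.ds_mm) T5.ok_mm (w := 47) (j := 3) (by decide +kernel)
theorem L07805 : Good (Phi V5.P V5.D (-1) (-1)) ⟨6, 56, 4, 11, 4, 14, 4, 13, 4, 0⟩ :=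
  out_sound (S := T5.ds_mm) T5.ok_mm (w := 65) (j := 3) (by decide +kernel)
theorem L07806 : Good (Phi V5.P V5.D (-1) (-1)) ⟨7, 114, 5, 22, 4, 14, 4, 13, 4, 0⟩ :=
  out_sound (S := T5.ds_mm) T5.ok_mm (w := 73) (j := 3) (by decide +kernel)
theorem L07807 : Good (Phi V5.P V5.D (-1) (-1)) ⟨7, 115, 5, 22, 4, 14, 4, 13, 4, 0⟩ :=
  out_sound (S := T5.ds_mm) T5.ok_mm (w := 21) (j := 4) (by decide +kernel)
theorem L07808 : Good (Phi V5.P V5.D (-1) (-1)) ⟨6, 57, 5, 23, 4, 14, 4, 13, 4, 0⟩ :=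
  out_sound (S := T5.ds_mm) T5.ok_mm (w := 67) (j := 3) (by decide +kernel)
theorem L07809 : Good (Phi V5.P V5.D (-1) (-1)) ⟨5, 29, 4, 11, 4, 14, 4, 13, 4, 0⟩ :=
  out_sound (S := T5.ds_mm) T5.ok_mm (w := 17) (j := 4) (by decide +kernel)
theorem L07810 : Good (Phi V5.P V5.D (-1) (-1)) ⟨4, 15, 4, 11, 4, 14, 4, 13, 4, 0⟩ :=
  out_sound (S := T5.ds_mm) T5.ok_mm (w := 53) (j := 3) (by decide +kernel)
theorem L07811 : Good (Phi V5.P V5.D (-1) (-1)) ⟨2, 2, 5, 20, 4, 15, 4, 12, 4, 0⟩ :=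
  out_sound (S := T5.ds_mm) T5.ok_mm (w := 43) (j := 3) (by decide +kernel)
theorem L07812 : Good (Phi V5.P V5.D (-1) (-1)) ⟨3, 6, 6, 40, 4, 15, 4, 12, 5, 0⟩ :=
  out_sound (S := T5.ds_mm) T5.ok_mm (w := 51) (j := 3) (by decide +kernel)
theorem L07813 : Good (Phi V5.P V5.D (-1) (-1)) ⟨6, 56, 6, 40, 4, 15, 4, 12, 5, 0⟩ :=
  leafX_sound T5.ok_mm T5.Ymm.bz_eq (w := 278) (c := ⟨⟨.ofNat 1180, .ofNat 40, .ofNat 79, .negSucc 1092, .negSucc 665, .negSucc 1149⟩, ⟨.negSucc 756, .negSucc 41, .negSucc 40, .ofNat 703, .ofNat 427, .ofNat 738⟩, ⟨.ofNat 158, .negSucc 53, .negSucc 17, .ofNat 697, .ofNat 212, .ofNat 373⟩, ⟨.ofNat 2546, .ofNat 91, .ofNat 195, .negSucc 2388, .negSucc 1560, .negSucc 2527⟩, ⟨.ofNat 1347, .ofNat 39, .ofNat 136, .negSucc 1293, .negSucc 949, .negSucc 1385⟩, .ofNat 4806, .ofNat 6986, .ofNat 0, .ofNat 6986, .ofNat 10969, .ofNat 0, .ofNat 128, .negSucc 1773, .negSucc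 6786, .ofNat 0, .ofNat 1127, .ofNat 4283, .ofNat 0, .ofNat 0, .ofNat 3868, .ofNat 2869, .ofNat 0, .ofNat 0, .ofNat 0, .ofNat 0, .ofNat 0, .ofNat 0, .ofNat 1380347063774962298029355571303425577285126323175424, .ofNat 0, .ofNat 0, .ofNat 0, .ofNat 0, .ofNat 0, .ofNat 0, .ofNat 0, .ofNat 0, .ofNat 0⟩)
    (by decide +kernel)
theorem L07814 : Good (Phi V5.P V5.D (-1) (-1)) ⟨6, 57, 6, 40, 4, 15, 4, 12, 5, 0⟩ :=
  out_sound (S := T5.ds_mm) T5.ok_mm (w := 69) (j := 3) (by decide +kernel)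
theorem L07815 : Good (Phi V5.P V5.D (-1) (-1)) ⟨5, 29, 6, 40, 4, 15, 4, 12, 5, 0⟩ :=
  out_sound (S := T5.ds_mm) T5.ok_mm (w := 63) (j := 3) (by decide +kernel)
theorem L07816 : Good (Phi V5.P V5.D (-1) (-1)) ⟨4, 15, 6, 40, 4, 15, 4, 12, 5, 0⟩ :=
  out_sound (S := T5.ds_mm) T5.ok_mm (w := 57) (j := 3) (by decide +kernel)
theorem L07817 : Good (Phi V5.P V5.D (-1) (-1)) ⟨3, 6, 6, 41, 4, 15, 4, 12, 5, 0⟩ :=
  out_sound (S := T5.ds_mm) T5.ok_mm (w := 51) (j := 3) (by decide +kernel)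
theorem L07818 : Good (Phi V5.P V5.D (-1) (-1)) ⟨6, 56, 6, 41, 4, 15, 4, 12, 5, 0⟩ :=
  leafX_sound T5.ok_mm T5.Ymm.bz_eq (w := 278) (c := ⟨⟨.ofNat 1520, .ofNat 80, .negSucc 67, .negSucc 1102, .negSucc 902, .negSucc 1363⟩, ⟨.negSucc 1068, .ofNat 44, .ofNat 18, .ofNat 727, .ofNat 591, .ofNat 892⟩, ⟨.ofNat 17, .negSucc 119, .ofNat 73, .ofNat 710, .ofNat 322, .ofNat 504⟩, ⟨.ofNat 3331, .ofNat 107, .negSucc 44, .negSucc 2524, .negSucc 1997, .negSucc 3077⟩, ⟨.ofNat 1780, .ofNat 16, .ofNat 70, .negSucc 1469, .negSucc 1097, .negSucc 1749⟩, .ofNat 5747, .ofNat 8337, .ofNat 0, .ofNat 8337, .ofNat 12891, .ofNat 0, .ofNat 128, .negSucc 1183, .negSucc 6681, .ofNat 0, .ofNat 765, .ofNat 4296, .ofNat 0, .ofNat 0, .ofNat 3740, .ofNat 1988, .ofNat 0, .ofNat 0, .ofNat 2754938139943759646567097090740188105533854580736, .ofNat 0, .ofNat 0, .ofNat 0, .ofNat 3222217169278619734531099436884901846988907236818944,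 .ofNat 0, .ofNat 0, .ofNat 0, .ofNat 401513824930796304961108444679806258338770188238848, .ofNat 0, .ofNat 0, .ofNat 0, .ofNat 0, .ofNat 0⟩)
    (by decide +kernel)
theorem L07819 : Good (Phi V5.P V5.D (-1) (-1)) ⟨6, 57, 6, 41, 4, 15, 4, 12, 5, 0⟩ :=
  leafX_sound T5.ok_mm T5.Ymm.bz_eq (w := 284) (c := ⟨⟨.ofNat 1798, .ofNat 0, .ofNat 95, .negSucc 1450, .negSucc 933, .negSucc 1598⟩, ⟨.negSucc 1260, .ofNat 0, .ofNat 16, .ofNat 954, .ofNat 614, .ofNat 1051⟩, ⟨.negSucc 400, .ofNat 0, .ofNat 172, .ofNat 897, .ofNat 348, .ofNat 617⟩, ⟨.ofNat 3344, .ofNat 0, .ofNat 4, .negSucc 2554, .negSucc 1868, .negSucc 2817⟩, ⟨.ofNat 1037, .ofNat 0, .ofNat 1, .negSucc 780, .negSucc 837, .negSucc 865⟩, .ofNat 14068, .ofNat 20814, .ofNat 0, .ofNat 20814, .ofNat 31600, .ofNat 0, .ofNat 128, .negSucc 4529, .negSucc 19732, .ofNat 0, .ofNat 2980, .ofNat 12951, .ofNat 0, .ofNat 0, .ofNat 11178, .ofNat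 29733, .ofNat 0, .ofNat 0, .ofNat 0, .ofNat 0, .ofNat 0, .ofNat 0, .ofNat 6437768181627474470676204916758779877447534712975261696, .ofNat 0, .ofNat 0, .ofNat 0, .ofNat 373449895790601474042952193691530593402216728871567360, .ofNat 0, .ofNat 0, .ofNat 0, .ofNat 1594720251897547494090371320805509454280475784706523136, .ofNat 0⟩)
    (by decide +kernel)
theorem L07820 : Good (Phi V5.P V5.D (-1) (-1)) ⟨5, 29, 6, 41, 4, 15, 4, 12, 5, 0⟩ :=
  out_sound (S := T5.ds_mm) T5.ok_mm (w := 63) (j := 3) (by decide +kernel)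
theorem L07821 : Good (Phi V5.P V5.D (-1) (-1)) ⟨4, 15, 6, 41, 4, 15, 4, 12, 5, 0⟩ :=
  out_sound (S := T5.ds_mm) T5.ok_mm (w := 57) (j := 3) (by decide +kernel)
theorem L07822 : Good (Phi V5.P V5.D (-1) (-1)) ⟨3, 6, 5, 20, 4, 15, 4, 12, 5, 1⟩ :=
  out_sound (S := T5.ds_mm) T5.ok_mm (w := 49) (j := 3) (by decide +kernel)
theorem L07823 : Good (Phi V5.P V5.D (-1) (-1)) ⟨6, 56, 6, 40, 4, 15, 4, 12, 5, 1⟩ :=
  leafX_sound T5.ok_mm T5.Ymm.bz_eq (w := 277) (c := ⟨⟨.negSucc 470, .negSucc 35, .negSucc 15, .negSucc 538, .negSucc 277, .negSucc 168⟩, ⟨.ofNat 301, .ofNat 2, .ofNat 31, .ofNat 345, .ofNat 176, .ofNat 106⟩, ⟨.ofNat 847, .negSucc 26, .ofNat 30, .ofNat 336, .ofNat 6, .negSucc 145⟩, ⟨.negSucc 1056, .negSucc 67, .negSucc 67, .negSucc 1139, .negSucc 608, .negSucc 363⟩, ⟨.negSucc 599, .negSucc 42, .negSucc 57, .negSucc 578, .negSucc 331, .negSucc 191⟩, .ofNat 4863, .ofNat 7075,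 .ofNat 0, .ofNat 7075, .ofNat 11109, .ofNat 0, .ofNat 128, .negSucc 1314, .negSucc 5631, .ofNat 0, .ofNat 836, .ofNat 3552, .ofNat 0, .ofNat 0, .ofNat 3098, .ofNat 5860, .ofNat 0, .ofNat 0, .ofNat 0, .ofNat 0, .ofNat 0, .ofNat 0, .ofNat 867843590745275004052063499870940564607226112638976, .ofNat 0, .ofNat 0, .ofNat 0, .ofNat 0, .ofNat 0, .ofNat 0, .ofNat 0, .ofNat 102801116496619423223591881094263832431598501888000, .ofNat 0⟩)
    (by decide +kernel)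
theorem L07824 : Good (Phi V5.P V5.D (-1) (-1)) ⟨7, 112, 6, 41, 4, 15, 4, 12, 5, 1⟩ :=
  out_sound (S := T5.ds_mm) T5.ok_mm (w := 75) (j := 3) (by decide +kernel)
theorem L07825 : Good (Phi V5.P V5.D (-1) (-1)) ⟨7, 113, 6, 41, 4, 15, 4, 12, 5, 1⟩ :=
  leafX_sound T5.ok_mm T5.Ymm.bz_eq (w := 284) (c := ⟨⟨.negSucc 551, .ofNat 83, .ofNat 126, .negSucc 755, .negSucc 287, .negSucc 29⟩, ⟨.ofNat 352, .negSucc 73, .negSucc 54, .ofNat 498, .ofNat 189, .ofNat 23⟩, ⟨.ofNat 864, .negSucc 43, .negSucc 39, .ofNat 457, .ofNat 0, .negSucc 203⟩, ⟨.negSucc 727, .ofNat 192, .ofNat 105, .negSucc 1906, .negSucc 839, .negSucc 462⟩, ⟨.ofNat 72, .ofNat 98, .negSucc 92, .negSucc 1275, .negSucc 658, .negSucc 634⟩, .ofNat 6780, .ofNat 9942, .ofNat 0, .ofNat 9942, .ofNat 15389, .ofNat 0, .ofNat 128, .negSucc 2187, .negSucc 11037, .ofNat 0, .ofNat 1415, .ofNat 7102, .ofNat 0, .ofNat 0, .ofNat 5833, .ofNat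 9277, .ofNat 0, .ofNat 0, .ofNat 0, .ofNat 0, .ofNat 0, .ofNat 0, .ofNat 818034148959491586002751481507126599895344190849024, .ofNat 0, .ofNat 0, .ofNat 0, .ofNat 0, .ofNat 0, .ofNat 0, .ofNat 0, .ofNat 0, .ofNat 0⟩)
    (by decide +kernel)
theorem L07826 : Good (Phi V5.P V5.D (-1) (-1)) ⟨6, 57, 5, 20, 4, 15, 4, 12, 5, 1⟩ :=
  leafX_sound T5.ok_mm T5.Ymm.bz_eq (w := 286) (c := ⟨⟨.negSucc 397, .ofNat 1, .ofNat 13, .negSucc 847, .negSucc 376, .negSucc 181⟩, ⟨.ofNat 235, .ofNat 0, .ofNat 18, .ofNat 558, .ofNat 247, .ofNat 119⟩, ⟨.ofNat 807, .negSucc 0, .ofNat 0, .ofNat 488, .ofNat 49, .negSucc 140⟩, ⟨.negSucc 1658, .ofNat 1, .negSucc 0, .negSucc 891, .negSucc 414, .negSucc 190⟩, ⟨.negSucc 1674, .ofNat 1, .negSucc 0, .ofNat 438, .ofNat 167, .ofNat 93⟩, .ofNat 26833, .ofNat 40039, .ofNat 0, .ofNat 40039, .ofNat 60559, .ofNat 0, .ofNat 128, .negSucc 7313, .negSucc 54277, .ofNat 0,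 .ofNat 4823, .ofNat 35726, .ofNat 0, .ofNat 0, .ofNat 29505, .ofNat 77407, .ofNat 0, .ofNat 0, .ofNat 8067207946685524844295824791904363468399755395072, .ofNat 0, .ofNat 0, .ofNat 0, .ofNat 4369028389192648466244107355507567630917604015972810752, .ofNat 0, .ofNat 0, .ofNat 0, .ofNat 681375446469681697858743595852166723718320228266934272, .ofNat 0, .ofNat 0, .ofNat 0, .ofNat 65363183452563826245432770101024175503909148419948544, .ofNat 0⟩)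
    (by decide +kernel)
theorem L07827 : Good (Phi V5.P V5.D (-1) (-1)) ⟨5, 29, 5, 20, 4, 15, 4, 12, 5, 1⟩ :=
  out_sound (S := T5.ds_mm) T5.ok_mm (w := 61) (j := 3) (by decide +kernel)
theorem L07828 : Good (Phi V5.P V5.D (-1) (-1)) ⟨4, 15, 5, 20, 4, 15, 4, 12, 5, 1⟩ :=
  out_sound (S := T5.ds_mm) T5.ok_mm (w := 55) (j := 3) (by decide +kernel)
theorem L07829 : Good (Phi V5.P V5.D (-1) (-1)) ⟨2, 2, 5, 21, 4, 15, 4, 12, 4, 0⟩ :=
  out_sound (S := T5.ds_mm) T5.ok_mm (w := 43) (j := 3) (by decide +kernel)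
theorem L07830 : Good (Phi V5.P V5.D (-1) (-1)) ⟨3, 6, 5, 21, 4, 15, 4, 12, 4, 0⟩ :=
  out_sound (S := T5.ds_mm) T5.ok_mm (w := 49) (j := 3) (by decide +kernel)
theorem L07831 : Good (Phi V5.P V5.D (-1) (-1)) ⟨6, 56, 6, 42, 4, 15, 4, 12, 5, 0⟩ :=
  leafX_sound T5.ok_mm T5.Ymm.bz_eq (w := 287) (c := ⟨⟨.ofNat 1665, .ofNat 0, .negSucc 12, .negSucc 1303, .negSucc 936, .negSucc 1476⟩, ⟨.negSucc 1094, .ofNat 0, .ofNat 16, .ofNat 857, .ofNat 616, .ofNat 971⟩, ⟨.negSucc 65, .ofNat 0, .negSucc 54, .ofNat 797, .ofNat 342, .ofNat 539⟩, ⟨.ofNat 1657, .ofNat 0, .negSucc 0, .negSucc 1535, .negSucc 1182, .negSucc 1785⟩, ⟨.negSucc 1014, .ofNat 0, .ofNat 4, .ofNat 436, .ofNat 195, .ofNat 425⟩, .ofNat 23082, .ofNat 34391, .ofNat 0, .ofNat 34391, .ofNat 52051, .ofNat 0, .ofNat 128, .negSucc 6141, .negSucc 34192, .ofNat 0, .ofNat 4050, .ofNat 22514, .ofNat 0, .ofNat 0, .ofNat 19401, .ofNat 10658,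 .ofNat 0, .ofNat 0, .ofNat 0, .ofNat 0, .ofNat 0, .ofNat 0, .ofNat 135079789834494718107367056072917976434662525533945856, .ofNat 0, .ofNat 0, .ofNat 0, .ofNat 100798747081353857171752957721552222551085952731709440, .ofNat 0, .ofNat 0, .ofNat 0, .ofNat 0, .ofNat 0⟩)
    (by decide +kernel)
theorem L07832 : Good (Phi V5.P V5.D (-1) (-1)) ⟨7, 114, 6, 42, 4, 15, 4, 12, 5, 0⟩ :=
  leafX_sound T5.ok_mm T5.Ymm.bz_eq (w := 285) (c := ⟨⟨.ofNat 1750, .ofNat 154, .ofNat 65, .negSucc 1292, .negSucc 933, .negSucc 1574⟩, ⟨.negSucc 1177, .negSucc 66, .negSucc 57, .ofNat 869, .ofNat 625, .ofNat 1056⟩, ⟨.negSucc 142, .ofNat 107, .negSucc 113, .ofNat 827, .ofNat 334, .ofNat 591⟩, ⟨.ofNat 4354, .ofNat 72, .ofNat 83, .negSucc 3163, .negSucc 2368, .negSucc 3716⟩, ⟨.ofNat 2839, .negSucc 56, .negSucc 93, .negSucc 2018, .negSucc 1581, .negSucc 2254⟩, .ofNat 11844, .ofNat 17379, .ofNat 0, .ofNat 17379,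 .ofNat 26292, .ofNat 0, .ofNat 128, .negSucc 1863, .negSucc 9769, .ofNat 0, .ofNat 1231, .ofNat 6443, .ofNat 0, .ofNat 0, .ofNat 5346, .ofNat 2456, .ofNat 0, .ofNat 0, .ofNat 10592121262112175191037805527961578956226167832576, .ofNat 0, .ofNat 0, .ofNat 0, .ofNat 11313361007758790648529574143239630792136674775138304, .ofNat 0, .ofNat 0, .ofNat 0, .ofNat 223883229865888863555649108143606906163588516282368, .ofNat 1685704969220648435290208983616654589423263363305309380710236160, .ofNat 0, .ofNat 0, .ofNat 1940186739514833636563509876392284065285042444697600, .ofNat 5929065084651378090633077706131390192493100037512891204607410176⟩)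
    (by decide +kernel)
theorem L07833 : Good (Phi V5.P V5.D (-1) (-1)) ⟨7, 115, 6, 42, 4, 15, 4, 12, 5, 0⟩ :=
  out_sound (S := T5.ds_mm) T5.ok_mm (w := 75) (j := 3) (by decide +kernel)
theorem L07834 : Good (Phi V5.P V5.D (-1) (-1)) ⟨6, 56, 6, 43, 4, 15, 4, 12, 5, 0⟩ :=
  out_sound (S := T5.ds_mm) T5.ok_mm (w := 69) (j := 3) (by decide +kernel)
theorem L07835 : Good (Phi V5.P V5.D (-1) (-1)) ⟨8, 228, 6, 43, 4, 15, 4, 12, 5, 0⟩ :=
  out_sound (S := T5.ds_mm) T5.ok_mm (w := 81) (j := 3) (by decide +kernel)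
theorem L07836 : Good (Phi V5.P V5.D (-1) (-1)) ⟨8, 229, 6, 43, 4, 15, 4, 12, 5, 0⟩ :=
  out_sound (S := T5.ds_mm) T5.ok_mm (w := 23) (j := 4) (by decide +kernel)
theorem L07837 : Good (Phi V5.P V5.D (-1) (-1)) ⟨7, 115, 6, 43, 4, 15, 4, 12, 5, 0⟩ :=
  out_sound (S := T5.ds_mm) T5.ok_mm (w := 21) (j := 4) (by decide +kernel)
theorem L07838 : Good (Phi V5.P V5.D (-1) (-1)) ⟨5, 29, 5, 21, 4, 15, 4, 12, 5, 0⟩ :=
  out_sound (S := T5.ds_mm) T5.ok_mm (w := 61) (j := 3) (by decide +kernel)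
theorem L07839 : Good (Phi V5.P V5.D (-1) (-1)) ⟨4, 15, 5, 21, 4, 15, 4, 12, 5, 0⟩ :=
  out_sound (S := T5.ds_mm) T5.ok_mm (w := 55) (j := 3) (by decide +kernel)
theorem L07840 : Good (Phi V5.P V5.D (-1) (-1)) ⟨6, 56, 6, 42, 4, 15, 4, 12, 5, 1⟩ :=
  leafX_sound T5.ok_mm T5.Ymm.bz_eq (w := 286) (c := ⟨⟨.negSucc 383, .negSucc 0, .ofNat 4, .negSucc 797, .negSucc 361, .negSucc 146⟩, ⟨.ofNat 253, .ofNat 0, .ofNat 20, .ofNat 524, .ofNat 237, .ofNat 96⟩, ⟨.ofNat 805, .ofNat 0, .ofNat 27, .ofNat 465, .ofNat 41, .negSucc 154⟩, ⟨.negSucc 1195, .negSucc 0, .negSucc 4, .negSucc 1236, .negSucc 584, .negSucc 316⟩, ⟨.negSucc 987, .negSucc 0, .ofNat 0, .negSucc 180, .negSucc 115, .negSucc 167⟩, .ofNat 14608, .ofNat 21627, .ofNat 0, .ofNat 21627, .ofNat 32825, .ofNat 0, .ofNat 128, .negSucc 5791, .negSucc 34986, .ofNat 0, .ofNat 3812, .ofNat 22970, .ofNat 0, .ofNat 0, .ofNat 19007, .ofNat 26759,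 .ofNat 0, .ofNat 0, .ofNat 0, .ofNat 0, .ofNat 0, .ofNat 0, .ofNat 87127559902312840459446155745557571609560247422681088, .ofNat 0, .ofNat 0, .ofNat 0, .ofNat 129567940406587493313281689377364148669952509173825536, .ofNat 0, .ofNat 0, .ofNat 0, .ofNat 0, .ofNat 0⟩)
    (by decide +kernel)
theorem L07841 : Good (Phi V5.P V5.D (-1) (-1)) ⟨7, 114, 6, 42, 5, 30, 4, 12, 5, 1⟩ :=
  leafX_sound T5.ok_mm T5.Ymm.bz_eq (w := 300) (c := ⟨⟨.negSucc 247, .negSucc 34, .negSucc 51, .negSucc 267, .negSucc 502, .negSucc 327⟩, ⟨.ofNat 160, .ofNat 5, .ofNat 57, .ofNat 177, .ofNat 334, .ofNat 217⟩, ⟨.ofNat 723, .negSucc 15, .ofNat 56, .ofNat 174, .ofNat 123, .negSucc 58⟩, ⟨.negSucc 777, .negSucc 37, .negSucc 88, .negSucc 476, .negSucc 988, .negSucc 600⟩, ⟨.negSucc 646, .negSucc 2, .negSucc 5, .negSucc 152, .negSucc 426, .negSucc 211⟩, .ofNat 12201, .ofNat 17813, .ofNat 0, .ofNat 17813, .ofNat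 26788, .ofNat 0, .ofNat 128, .negSucc 1624, .negSucc 10703, .ofNat 0, .ofNat 1079, .ofNat 7083, .ofNat 0, .ofNat 0, .ofNat 5751, .ofNat 11196, .ofNat 0, .ofNat 0, .ofNat 0, .ofNat 0, .ofNat 0, .ofNat 0, .ofNat 94548207589888664967211172095684591386294180638403592192, .ofNat 0, .ofNat 0, .ofNat 0, .ofNat 0, .ofNat 0, .ofNat 0, .ofNat 0, .ofNat 0, .ofNat 2447724291068836537209076686947099927329851449995220632611003039744⟩)
    (by decide +kernel)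
theorem L07842 : Good (Phi V5.P V5.D (-1) (-1)) ⟨7, 114, 6, 42, 5, 31, 4, 12, 5, 1⟩ :=
  leafX_sound T5.ok_mm T5.Ymm.bz_eq (w := 300) (c := ⟨⟨.negSucc 817, .negSucc 67, .negSucc 121, .negSucc 614, .negSucc 306, .ofNat 2⟩, ⟨.ofNat 535, .negSucc 9, .ofNat 131, .ofNat 409, .ofNat 203, .negSucc 1⟩, ⟨.ofNat 1067, .ofNat 31, .ofNat 69, .ofNat 326, .ofNat 3, .negSucc 230⟩, ⟨.negSucc 1844, .negSucc 142, .negSucc 301, .negSucc 1251, .negSucc 613, .negSucc 17⟩, ⟨.negSucc 1047, .negSucc 95, .negSucc 172, .negSucc 584, .negSucc 276, .negSucc 31⟩, .ofNat 12201, .ofNat 17813, .ofNat 0, .ofNat 17813, .ofNat 26788, .ofNat 0, .ofNat 128, .negSucc 1709, .negSucc 11592, .ofNat 0, .ofNat 1134, .ofNat 7662, .ofNat 0, .ofNat 0, .ofNat 5882, .ofNat 6278, .ofNat 0, .ofNat 0, .ofNat 46543630932624519810406219969162827772910791152369664, .ofNat 0, .ofNat 0, .ofNat 0, .ofNat 176901348924042938221643345016629206403531584928309313536,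 .ofNat 0, .ofNat 0, .ofNat 0, .ofNat 8966079267121008130059417619247369401679733298259034112, .ofNat 10051339105069760628735049354868339414112991916517327239215283437568, .ofNat 0, .ofNat 0, .ofNat 0, .ofNat 0⟩)
    (by decide +kernel)
theorem L07843 : Good (Phi V5.P V5.D (-1) (-1)) ⟨7, 115, 6, 42, 4, 15, 4, 12, 5, 1⟩ :=
  out_sound (S := T5.ds_mm) T5.ok_mm (w := 75) (j := 3) (by decide +kernel)
theorem L07844 : Good (Phi V5.P V5.D (-1) (-1)) ⟨6, 56, 6, 43, 4, 15, 4, 12, 5, 1⟩ :=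
  out_sound (S := T5.ds_mm) T5.ok_mm (w := 69) (j := 3) (by decide +kernel)
theorem L07845 : Good (Phi V5.P V5.D (-1) (-1)) ⟨8, 228, 6, 43, 4, 15, 4, 12, 5, 1⟩ :=
  out_sound (S := T5.ds_mm) T5.ok_mm (w := 81) (j := 3) (by decide +kernel)
theorem L07846 : Good (Phi V5.P V5.D (-1) (-1)) ⟨8, 229, 6, 43, 4, 15, 4, 12, 5, 1⟩ :=
  out_sound (S := T5.ds_mm) T5.ok_mm (w := 23) (j := 4) (by decide +kernel)
theorem L07847 : Good (Phi V5.P V5.D (-1) (-1)) ⟨7, 115, 6, 43, 4, 15, 4, 12, 5, 1⟩ :=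
  out_sound (S := T5.ds_mm) T5.ok_mm (w := 21) (j := 4) (by decide +kernel)
theorem L07848 : Good (Phi V5.P V5.D (-1) (-1)) ⟨5, 29, 5, 21, 4, 15, 4, 12, 5, 1⟩ :=
  out_sound (S := T5.ds_mm) T5.ok_mm (w := 61) (j := 3) (by decide +kernel)
theorem L07849 : Good (Phi V5.P V5.D (-1) (-1)) ⟨4, 15, 5, 21, 4, 15, 4, 12, 5, 1⟩ :=
  out_sound (S := T5.ds_mm) T5.ok_mm (w := 55) (j := 3) (by decide +kernel)
theorem L07850 : Good (Phi V5.P V5.D (-1) (-1)) ⟨2, 2, 4, 11, 4, 15, 4, 12, 4, 0⟩ :=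
  out_sound (S := T5.ds_mm) T5.ok_mm (w := 41) (j := 3) (by decide +kernel)
theorem L07851 : Good (Phi V5.P V5.D (-1) (-1)) ⟨3, 6, 4, 11, 4, 15, 4, 12, 4, 0⟩ :=
  out_sound (S := T5.ds_mm) T5.ok_mm (w := 47) (j := 3) (by decide +kernel)
theorem L07852 : Good (Phi V5.P V5.D (-1) (-1)) ⟨6, 56, 4, 11, 4, 15, 4, 12, 4, 0⟩ :=
  out_sound (S := T5.ds_mm) T5.ok_mm (w := 65) (j := 3) (by decide +kernel)
theorem L07853 : Good (Phi V5.P V5.D (-1) (-1)) ⟨7, 114, 5, 22, 4, 15, 4, 12, 4, 0⟩ :=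
  out_sound (S := T5.ds_mm) T5.ok_mm (w := 73) (j := 3) (by decide +kernel)
theorem L07854 : Good (Phi V5.P V5.D (-1) (-1)) ⟨7, 115, 5, 22, 4, 15, 4, 12, 4, 0⟩ :=
  out_sound (S := T5.ds_mm) T5.ok_mm (w := 21) (j := 4) (by decide +kernel)
theorem L07855 : Good (Phi V5.P V5.D (-1) (-1)) ⟨6, 57, 5, 23, 4, 15, 4, 12, 4, 0⟩ :=
  out_sound (S := T5.ds_mm) T5.ok_mm (w := 67) (j := 3) (by decide +kernel)
theorem L07856 : Good (Phi V5.P V5.D (-1) (-1)) ⟨5, 29, 4, 11, 4, 15, 4, 12, 4, 0⟩ :=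
  out_sound (S := T5.ds_mm) T5.ok_mm (w := 17) (j := 4) (by decide +kernel)
theorem L07857 : Good (Phi V5.P V5.D (-1) (-1)) ⟨4, 15, 4, 11, 4, 15, 4, 12, 4, 0⟩ :=
  out_sound (S := T5.ds_mm) T5.ok_mm (w := 53) (j := 3) (by decide +kernel)
theorem L07858 : Good (Phi V5.P V5.D (-1) (-1)) ⟨2, 2, 6, 40, 4, 15, 4, 13, 4, 0⟩ :=
  out_sound (S := T5.ds_mm) T5.ok_mm (w := 45) (j := 3) (by decide +kernel)
theorem L07859 : Good (Phi V5.P V5.D (-1) (-1)) ⟨3, 6, 6, 40, 4, 15, 4, 13, 4, 0⟩ :=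
  out_sound (S := T5.ds_mm) T5.ok_mm (w := 51) (j := 3) (by decide +kernel)
theorem L07860 : Good (Phi V5.P V5.D (-1) (-1)) ⟨6, 56, 6, 40, 4, 15, 4, 13, 5, 0⟩ :=
  leafX_sound T5.ok_mm T5.Ymm.bz_eq (w := 279) (c := ⟨⟨.ofNat 117, .negSucc 92, .negSucc 14, .negSucc 652, .negSucc 405, .negSucc 787⟩, ⟨.negSucc 77, .ofNat 47, .ofNat 27, .ofNat 417, .ofNat 258, .ofNat 503⟩, ⟨.ofNat 576, .ofNat 118, .ofNat 0, .ofNat 397, .ofNat 60, .ofNat 182⟩, ⟨.ofNat 262, .negSucc 89, .negSucc 142, .negSucc 1422, .negSucc 1018, .negSucc 1669⟩, ⟨.ofNat 151, .ofNat 44, .negSucc 173, .negSucc 766, .negSucc 682, .negSucc 852⟩, .ofNat 5318, .ofNat 7796, .ofNat 0, .ofNat 7796, .ofNat 12255, .ofNat 0, .ofNat 128, .negSucc 1436, .negSucc 8242, .ofNat 0, .ofNat 913, .ofNat 5209, .ofNat 0, .ofNat 0, .ofNat 4723, .ofNat 2382, .ofNat 0, .ofNat 0, .ofNat 0, .ofNat 0, .ofNat 0, .ofNat 0, .ofNat 1463272845454994333603126684024423567945921367900160,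 .ofNat 0, .ofNat 0, .ofNat 0, .ofNat 1503013594909827254038665581119113708354121639133184, .ofNat 0, .ofNat 0, .ofNat 0, .ofNat 0, .ofNat 0⟩)
    (by decide +kernel)
theorem L07861 : Good (Phi V5.P V5.D (-1) (-1)) ⟨6, 56, 6, 40, 4, 15, 4, 13, 5, 1⟩ :=
  leafX_sound T5.ok_mm T5.Ymm.bz_eq (w := 278) (c := ⟨⟨.negSucc 1078, .negSucc 56, .negSucc 38, .negSucc 323, .ofNat 50, .ofNat 296⟩, ⟨.ofNat 688, .ofNat 12, .ofNat 49, .ofNat 207, .negSucc 31, .negSucc 190⟩, ⟨.ofNat 1016, .ofNat 22, .ofNat 26, .ofNat 205, .negSucc 163, .negSucc 363⟩, ⟨.negSucc 2269, .negSucc 111, .negSucc 86, .negSucc 751, .negSucc 11, .ofNat 560⟩, ⟨.negSucc 1143, .negSucc 68, .negSucc 34, .negSucc 452, .negSucc 127, .ofNat 215⟩, .ofNat 4803, .ofNat 6982, .ofNat 0, .ofNat 6982, .ofNat 10967, .ofNat 0, .ofNat 128, .negSucc 2369, .negSucc 7618, .ofNat 0, .ofNat 1506, .ofNat 4801, .ofNat 0, .ofNat 0, .ofNat 4194,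 .ofNat 8243, .ofNat 0, .ofNat 0, .ofNat 0, .ofNat 0, .ofNat 0, .ofNat 0, .ofNat 778735574485454111361533577057864370780245988474880, .ofNat 0, .ofNat 0, .ofNat 0, .ofNat 0, .ofNat 0, .ofNat 0, .ofNat 0, .ofNat 0, .ofNat 0⟩)
    (by decide +kernel)
theorem L07862 : Good (Phi V5.P V5.D (-1) (-1)) ⟨6, 57, 6, 40, 4, 15, 4, 13, 4, 0⟩ :=
  out_sound (S := T5.ds_mm) T5.ok_mm (w := 69) (j := 3) (by decide +kernel)
theorem L07863 : Good (Phi V5.P V5.D (-1) (-1)) ⟨5, 29, 6, 40, 4, 15, 4, 13, 4, 0⟩ :=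
  out_sound (S := T5.ds_mm) T5.ok_mm (w := 63) (j := 3) (by decide +kernel)
theorem L07864 : Good (Phi V5.P V5.D (-1) (-1)) ⟨4, 15, 6, 40, 4, 15, 4, 13, 4, 0⟩ :=
  out_sound (S := T5.ds_mm) T5.ok_mm (w := 57) (j := 3) (by decide +kernel)
theorem L07865 : Good (Phi V5.P V5.D (-1) (-1)) ⟨2, 2, 6, 41, 4, 15, 4, 13, 4, 0⟩ :=
  out_sound (S := T5.ds_mm) T5.ok_mm (w := 45) (j := 3) (by decide +kernel)
theorem L07866 : Good (Phi V5.P V5.D (-1) (-1)) ⟨3, 6, 6, 41, 4, 15, 4, 13, 4, 0⟩ :=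
  out_sound (S := T5.ds_mm) T5.ok_mm (w := 51) (j := 3) (by decide +kernel)
theorem L07867 : Good (Phi V5.P V5.D (-1) (-1)) ⟨6, 56, 6, 41, 4, 15, 4, 13, 5, 0⟩ :=
  leafX_sound T5.ok_mm T5.Ymm.bz_eq (w := 279) (c := ⟨⟨.ofNat 127, .negSucc 143, .negSucc 59, .negSucc 782, .negSucc 396, .negSucc 730⟩, ⟨.negSucc 47, .ofNat 29, .ofNat 71, .ofNat 512, .ofNat 259, .ofNat 480⟩, ⟨.ofNat 727, .negSucc 82, .ofNat 95, .ofNat 463, .ofNat 46, .ofNat 146⟩, ⟨.ofNat 229, .negSucc 106, .negSucc 132, .negSucc 1718, .negSucc 961, .negSucc 1713⟩, ⟨.ofNat 144, .ofNat 35, .negSucc 35, .negSucc 932, .negSucc 609, .negSucc 1031⟩, .ofNat 5875, .ofNat 8521, .ofNat 0, .ofNat 8521, .ofNat 13155, .ofNat 0, .ofNat 128, .negSucc 1438, .negSucc 9566, .ofNat 0, .ofNat 931, .ofNat 6162, .ofNat 0, .ofNat 0, .ofNat 5333, .ofNat 1978, .ofNat 0, .ofNat 0, .ofNat 1848089475163440054785975501421498504535852711936,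 .ofNat 0, .ofNat 0, .ofNat 0, .ofNat 0, .ofNat 0, .ofNat 0, .ofNat 0, .ofNat 99464662085199687163965250296920592564210435620864, .ofNat 0, .ofNat 0, .ofNat 0, .ofNat 0, .ofNat 0⟩)
    (by decide +kernel)
theorem L07868 : Good (Phi V5.P V5.D (-1) (-1)) ⟨7, 112, 6, 41, 4, 15, 4, 13, 5, 1⟩ :=
  out_sound (S := T5.ds_mm) T5.ok_mm (w := 75) (j := 3) (by decide +kernel)

end Crest.Agent.R097C5.N5mm
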