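import Crest.Agent.R097.KP7
import Crest.Agent.R097.T5Ymm

/-!
# Row 97, box cover in dimension n = 5 (generated)
-/

set_option autoImplicit false
set_option Elab.async false
set_option maxHeartbeats 0
set_option maxRecDepth 100000

open Crest.Agent.R097 Crest.Agent.R097.KA


namespace Crest.Agent.R097C5.N5mm

theorem L07869 : Good (Phi V5.P V5.D (-1) (-1)) ⟨7, 113, 6, 41, 4, 15, 4, 13, 5, 1⟩ :=
  leafX_sound T5.ok_mm T5.Ymm.bz_eq (w := 284) (c := ⟨⟨.negSucc 1221, .ofNat 10, .negSucc 59, .negSucc 310, .ofNat 39, .ofNat 367⟩, ⟨.ofNat 799, .negSucc 33, .ofNat 73, .ofNat 205, .negSucc 27, .negSucc 241⟩, ⟨.ofNat 1077, .ofNat 41, .ofNat 10, .ofNat 199, .negSucc 168, .negSucc 396⟩, ⟨.negSucc 2683, .ofNat 33, .negSucc 143, .negSucc 846, .ofNat 172, .ofNat 844⟩, ⟨.negSucc 1460, .ofNat 13, .negSucc 70, .negSucc 617, .ofNat 176, .ofNat 496⟩, .ofNat 6780, .ofNat 9942, .ofNat 0, .ofNat 9942,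 .ofNat 15389, .ofNat 0, .ofNat 128, .negSucc 3182, .negSucc 10066, .ofNat 0, .ofNat 2058, .ofNat 6477, .ofNat 0, .ofNat 0, .ofNat 5348, .ofNat 7527, .ofNat 0, .ofNat 0, .ofNat 0, .ofNat 0, .ofNat 0, .ofNat 0, .ofNat 1296104895340270359908211384305121888404235284905984, .ofNat 0, .ofNat 0, .ofNat 0, .ofNat 1049011030868341760720122470007724240950694814679040, .ofNat 0, .ofNat 0, .ofNat 0, .ofNat 1733137539791035704627727296746792359022379229249536, .ofNat 0⟩)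
    (by decide +kernel)
theorem L07870 : Good (Phi V5.P V5.D (-1) (-1)) ⟨6, 57, 6, 41, 4, 15, 4, 13, 4, 0⟩ :=
  leafX_sound T5.ok_mm T5.Ymm.bz_eq (w := 282) (c := ⟨⟨.negSucc 636, .ofNat 1, .ofNat 7, .negSucc 459, .negSucc 274, .negSucc 279⟩, ⟨.ofNat 382, .ofNat 0, .ofNat 32, .ofNat 301, .ofNat 181, .ofNat 183⟩, ⟨.ofNat 1075, .negSucc 0, .negSucc 16, .ofNat 266, .negSucc 21, .negSucc 335⟩, ⟨.negSucc 1464, .ofNat 1, .negSucc 1, .negSucc 743, .negSucc 523, .negSucc 655⟩, ⟨.negSucc 875, .ofNat 1, .negSucc 0, .negSucc 150, .negSucc 206, .negSucc 396⟩, .ofNat 14066, .ofNat 20811, .ofNat 0, .ofNat 20811, .ofNat 31596, .ofNat 0, .ofNat 128, .negSucc 10765, .negSucc 49527, .ofNat 0, .ofNat 7082, .ofNat 32502, .ofNat 0, .ofNat 0, .ofNat 27671, .ofNat 25442, .ofNat 0, .ofNat 0, .ofNat 1082821158587382566261897497280459813686337339392, .ofNat 0, .ofNat 0, .ofNat 0, .ofNat 67783125990443409827522686054820867311559164689383424,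 .ofNat 0, .ofNat 0, .ofNat 0, .ofNat 1647784778291658450752855709961655686907469540360192, .ofNat 0, .ofNat 0, .ofNat 0, .ofNat 71408330548071644772617039544745342823260910918828032, .ofNat 0⟩)
    (by decide +kernel)
theorem L07871 : Good (Phi V5.P V5.D (-1) (-1)) ⟨5, 29, 6, 41, 4, 15, 4, 13, 4, 0⟩ :=
  out_sound (S := T5.ds_mm) T5.ok_mm (w := 63) (j := 3) (by decide +kernel)
theorem L07872 : Good (Phi V5.P V5.D (-1) (-1)) ⟨4, 15, 6, 41, 4, 15, 4, 13, 4, 0⟩ :=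
  out_sound (S := T5.ds_mm) T5.ok_mm (w := 57) (j := 3) (by decide +kernel)
theorem L07873 : Good (Phi V5.P V5.D (-1) (-1)) ⟨2, 2, 5, 21, 4, 15, 4, 13, 4, 0⟩ :=
  out_sound (S := T5.ds_mm) T5.ok_mm (w := 43) (j := 3) (by decide +kernel)
theorem L07874 : Good (Phi V5.P V5.D (-1) (-1)) ⟨3, 6, 5, 21, 4, 15, 4, 13, 5, 0⟩ :=
  out_sound (S := T5.ds_mm) T5.ok_mm (w := 49) (j := 3) (by decide +kernel)
theorem L07875 : Good (Phi V5.P V5.D (-1) (-1)) ⟨6, 56, 6, 42, 4, 15, 4, 13, 5, 0⟩ :=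
  leafX_sound T5.ok_mm T5.Ymm.bz_eq (w := 285) (c := ⟨⟨.ofNat 311, .ofNat 0, .ofNat 103, .negSucc 1034, .negSucc 569, .negSucc 948⟩, ⟨.negSucc 205, .ofNat 0, .negSucc 60, .ofNat 681, .ofNat 376, .ofNat 624⟩, ⟨.ofNat 514, .ofNat 0, .negSucc 51, .ofNat 608, .ofNat 146, .ofNat 245⟩, ⟨.ofNat 456, .negSucc 0, .ofNat 64, .negSucc 1926, .negSucc 1220, .negSucc 1789⟩, ⟨.ofNat 26, .negSucc 0, .negSucc 33, .negSucc 716, .negSucc 631, .negSucc 689⟩, .ofNat 14691, .ofNat 21752, .ofNat 0, .ofNat 21752, .ofNat 33013, .ofNat 0, .ofNat 128, .negSucc 4362, .negSucc 30802, .ofNat 0, .ofNat 2871, .ofNat 20229, .ofNat 0, .ofNat 0, .ofNat 17430, .ofNat 14287, .ofNat 0, .ofNat 0, .ofNat 0, .ofNat 0, .ofNat 0, .ofNat 0, .ofNat 100839041933897951531813088121304418753909646354808832, .ofNat 0, .ofNat 0, .ofNat 0, .ofNat 86492277844799577635111723553529222798643533923221504, .ofNat 0, .ofNat 0, .ofNat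 0, .ofNat 0, .ofNat 0⟩)
    (by decide +kernel)
theorem L07876 : Good (Phi V5.P V5.D (-1) (-1)) ⟨8, 228, 6, 42, 4, 15, 4, 13, 5, 0⟩ :=
  leafX_sound T5.ok_mm T5.Ymm.bz_eq (w := 291) (c := ⟨⟨.ofNat 249, .negSucc 132, .negSucc 80, .negSucc 917, .negSucc 645, .negSucc 945⟩, ⟨.negSucc 173, .ofNat 49, .ofNat 111, .ofNat 611, .ofNat 427, .ofNat 629⟩, ⟨.ofNat 584, .ofNat 155, .negSucc 39, .ofNat 522, .ofNat 169, .ofNat 235⟩, ⟨.negSucc 32, .negSucc 191, .negSucc 130, .negSucc 1748, .negSucc 955, .negSucc 1641⟩, ⟨.negSucc 572, .negSucc 7, .negSucc 21, .negSucc 695, .negSucc 77, .negSucc 476⟩, .ofNat 19096, .ofNat 28238, .ofNat 0, .ofNat 28238, .ofNat 42553, .ofNat 0, .ofNat 128, .negSucc 2611, .negSucc 11785, .ofNat 0, .ofNat 1733, .ofNat 7807, .ofNat 0, .ofNat 0, .ofNat 6579, .ofNat 2600, .ofNat 0, .ofNat 0, .ofNat 3975468991439449717493128304486750848026606043136, .ofNat 0, .ofNat 0,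 .ofNat 0, .ofNat 6478320488915117277549808148191767032233840387031040, .ofNat 0, .ofNat 0, .ofNat 0, .ofNat 0, .ofNat 0, .ofNat 0, .ofNat 0, .ofNat 6694523829395161859594926342072275462466624278233088, .ofNat 20373195520215350372186806817844596039060157518213359972321853440⟩)
    (by decide +kernel)
theorem L07877 : Good (Phi V5.P V5.D (-1) (-1)) ⟨8, 229, 6, 42, 4, 15, 4, 13, 5, 0⟩ :=
  out_sound (S := T5.ds_mm) T5.ok_mm (w := 23) (j := 4) (by decide +kernel)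
theorem L07878 : Good (Phi V5.P V5.D (-1) (-1)) ⟨7, 115, 6, 42, 4, 15, 4, 13, 5, 0⟩ :=
  out_sound (S := T5.ds_mm) T5.ok_mm (w := 75) (j := 3) (by decide +kernel)
theorem L07879 : Good (Phi V5.P V5.D (-1) (-1)) ⟨6, 56, 6, 43, 4, 15, 4, 13, 5, 0⟩ :=
  out_sound (S := T5.ds_mm) T5.ok_mm (w := 69) (j := 3) (by decide +kernel)
theorem L07880 : Good (Phi V5.P V5.D (-1) (-1)) ⟨8, 228, 6, 43, 4, 15, 4, 13, 5, 0⟩ :=
  out_sound (S := T5.ds_mm) T5.ok_mm (w := 81) (j := 3) (by decide +kernel)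
theorem L07881 : Good (Phi V5.P V5.D (-1) (-1)) ⟨8, 229, 6, 43, 4, 15, 4, 13, 5, 0⟩ :=
  out_sound (S := T5.ds_mm) T5.ok_mm (w := 23) (j := 4) (by decide +kernel)
theorem L07882 : Good (Phi V5.P V5.D (-1) (-1)) ⟨7, 115, 6, 43, 4, 15, 4, 13, 5, 0⟩ :=
  out_sound (S := T5.ds_mm) T5.ok_mm (w := 21) (j := 4) (by decide +kernel)
theorem L07883 : Good (Phi V5.P V5.D (-1) (-1)) ⟨5, 29, 5, 21, 4, 15, 4, 13, 5, 0⟩ :=
  out_sound (S := T5.ds_mm) T5.ok_mm (w := 61) (j := 3) (by decide +kernel)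
theorem L07884 : Good (Phi V5.P V5.D (-1) (-1)) ⟨4, 15, 5, 21, 4, 15, 4, 13, 5, 0⟩ :=
  out_sound (S := T5.ds_mm) T5.ok_mm (w := 55) (j := 3) (by decide +kernel)
theorem L07885 : Good (Phi V5.P V5.D (-1) (-1)) ⟨3, 6, 5, 21, 4, 15, 4, 13, 5, 1⟩ :=
  out_sound (S := T5.ds_mm) T5.ok_mm (w := 49) (j := 3) (by decide +kernel)
theorem L07886 : Good (Phi V5.P V5.D (-1) (-1)) ⟨6, 56, 6, 42, 4, 15, 4, 13, 5, 1⟩ :=
  leafX_sound T5.ok_mm T5.Ymm.bz_eq (w := 286) (c := ⟨⟨.negSucc 1136, .negSucc 0, .negSucc 14, .negSucc 572, .negSucc 12, .ofNat 320⟩, ⟨.ofNat 748, .ofNat 0, .ofNat 38, .ofNat 377, .ofNat 8, .negSucc 210⟩, ⟨.ofNat 1060, .ofNat 0, .ofNat 20, .ofNat 317, .negSucc 139, .negSucc 373⟩, ⟨.negSucc 2647, .negSucc 0, .negSucc 16, .negSucc 684, .negSucc 23, .ofNat 354⟩, ⟨.negSucc 1582, .negSucc 0, .ofNat 6, .ofNat 177, .negSucc 7, .negSucc 140⟩, .ofNat 23037, .ofNat 34323, .ofNat 0, .ofNat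 34323, .ofNat 51948, .ofNat 0, .ofNat 128, .negSucc 7525, .negSucc 27480, .ofNat 0, .ofNat 4964, .ofNat 18090, .ofNat 0, .ofNat 0, .ofNat 15042, .ofNat 24316, .ofNat 0, .ofNat 0, .ofNat 0, .ofNat 0, .ofNat 0, .ofNat 0, .ofNat 52262506034648991849741707179834586662145289810345984, .ofNat 0, .ofNat 0, .ofNat 0, .ofNat 88051705413608310906000283158938141289839276297551872, .ofNat 0, .ofNat 0, .ofNat 0, .ofNat 0, .ofNat 0⟩)
    (by decide +kernel)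
theorem L07887 : Good (Phi V5.P V5.D (-1) (-1)) ⟨6, 57, 6, 42, 4, 15, 4, 13, 5, 1⟩ :=
  leafX_sound T5.ok_mm T5.Ymm.bz_eq (w := 280) (c := ⟨⟨.negSucc 1295, .negSucc 64, .negSucc 62, .negSucc 568, .ofNat 83, .ofNat 487⟩, ⟨.ofNat 853, .negSucc 44, .ofNat 87, .ofNat 380, .negSucc 57, .negSucc 325⟩, ⟨.ofNat 1145, .ofNat 1, .ofNat 46, .ofNat 310, .negSucc 188, .negSucc 459⟩, ⟨.negSucc 2866, .negSucc 59, .negSucc 226, .negSucc 1191, .ofNat 276, .ofNat 957⟩, ⟨.negSucc 1576, .negSucc 44, .negSucc 169, .negSucc 591, .ofNat 236, .ofNat 412⟩, .ofNat 9172, .ofNat 13156, .ofNat 0, .ofNat 13156, .ofNat 19633, .ofNat 0, .ofNat 128, .negSucc 1858, .negSucc 7936, .ofNat 0, .ofNat 1233, .ofNat 5236, .ofNat 0, .ofNat 0, .ofNat 4102, .ofNat 4332, .ofNat 0, .ofNat 0, .ofNat 2720488608386208918616042910873562398207514771456, .ofNat 0, .ofNat 0, .ofNat 0, .ofNat 4897008803908628598795911339141622321722639068954624,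 .ofNat 136562447865420049219564214289661853571294096657878399368298496, .ofNat 0, .ofNat 0, .ofNat 936072655646774609091516646659806752704959694766080, .ofNat 0, .ofNat 0, .ofNat 0, .ofNat 2223044902074448888138507407414163258287639958126592, .ofNat 0⟩)
    (by decide +kernel)
theorem L07888 : Good (Phi V5.P V5.D (-1) (-1)) ⟨6, 56, 6, 43, 4, 15, 4, 13, 5, 1⟩ :=
  out_sound (S := T5.ds_mm) T5.ok_mm (w := 69) (j := 3) (by decide +kernel)
theorem L07889 : Good (Phi V5.P V5.D (-1) (-1)) ⟨8, 228, 6, 43, 4, 15, 4, 13, 5, 1⟩ :=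
  out_sound (S := T5.ds_mm) T5.ok_mm (w := 81) (j := 3) (by decide +kernel)
theorem L07890 : Good (Phi V5.P V5.D (-1) (-1)) ⟨8, 229, 6, 43, 4, 15, 4, 13, 5, 1⟩ :=
  out_sound (S := T5.ds_mm) T5.ok_mm (w := 23) (j := 4) (by decide +kernel)
theorem L07891 : Good (Phi V5.P V5.D (-1) (-1)) ⟨7, 115, 6, 43, 4, 15, 4, 13, 5, 1⟩ :=
  out_sound (S := T5.ds_mm) T5.ok_mm (w := 21) (j := 4) (by decide +kernel)
theorem L07892 : Good (Phi V5.P V5.D (-1) (-1)) ⟨5, 29, 5, 21, 4, 15, 4, 13, 5, 1⟩ :=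
  out_sound (S := T5.ds_mm) T5.ok_mm (w := 61) (j := 3) (by decide +kernel)
theorem L07893 : Good (Phi V5.P V5.D (-1) (-1)) ⟨4, 15, 5, 21, 4, 15, 4, 13, 5, 1⟩ :=
  out_sound (S := T5.ds_mm) T5.ok_mm (w := 55) (j := 3) (by decide +kernel)
theorem L07894 : Good (Phi V5.P V5.D (-1) (-1)) ⟨2, 2, 4, 11, 4, 15, 4, 13, 4, 0⟩ :=
  out_sound (S := T5.ds_mm) T5.ok_mm (w := 41) (j := 3) (by decide +kernel)
theorem L07895 : Good (Phi V5.P V5.D (-1) (-1)) ⟨3, 6, 4, 11, 4, 15, 4, 13, 4, 0⟩ :=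
  out_sound (S := T5.ds_mm) T5.ok_mm (w := 47) (j := 3) (by decide +kernel)
theorem L07896 : Good (Phi V5.P V5.D (-1) (-1)) ⟨6, 56, 4, 11, 4, 15, 4, 13, 4, 0⟩ :=
  out_sound (S := T5.ds_mm) T5.ok_mm (w := 65) (j := 3) (by decide +kernel)
theorem L07897 : Good (Phi V5.P V5.D (-1) (-1)) ⟨7, 114, 5, 22, 4, 15, 4, 13, 4, 0⟩ :=
  out_sound (S := T5.ds_mm) T5.ok_mm (w := 73) (j := 3) (by decide +kernel)
theorem L07898 : Good (Phi V5.P V5.D (-1) (-1)) ⟨7, 115, 5, 22, 4, 15, 4, 13, 4, 0⟩ :=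
  out_sound (S := T5.ds_mm) T5.ok_mm (w := 21) (j := 4) (by decide +kernel)
theorem L07899 : Good (Phi V5.P V5.D (-1) (-1)) ⟨6, 57, 5, 23, 4, 15, 4, 13, 4, 0⟩ :=
  out_sound (S := T5.ds_mm) T5.ok_mm (w := 67) (j := 3) (by decide +kernel)
theorem L07900 : Good (Phi V5.P V5.D (-1) (-1)) ⟨5, 29, 4, 11, 4, 15, 4, 13, 4, 0⟩ :=
  out_sound (S := T5.ds_mm) T5.ok_mm (w := 17) (j := 4) (by decide +kernel)
theorem L07901 : Good (Phi V5.P V5.D (-1) (-1)) ⟨4, 15, 4, 11, 4, 15, 4, 13, 4, 0⟩ :=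
  out_sound (S := T5.ds_mm) T5.ok_mm (w := 53) (j := 3) (by decide +kernel)
theorem L07902 : Good (Phi V5.P V5.D (-1) (-1)) ⟨2, 2, 5, 20, 4, 14, 4, 12, 5, 2⟩ :=
  out_sound (S := T5.ds_mm) T5.ok_mm (w := 43) (j := 3) (by decide +kernel)
theorem L07903 : Good (Phi V5.P V5.D (-1) (-1)) ⟨3, 6, 5, 20, 4, 14, 4, 12, 5, 2⟩ :=
  out_sound (S := T5.ds_mm) T5.ok_mm (w := 49) (j := 3) (by decide +kernel)
theorem L07904 : Good (Phi V5.P V5.D (-1) (-1)) ⟨5, 28, 5, 20, 4, 14, 4, 12, 6, 4⟩ :=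
  leafX_sound T5.ok_mm T5.Ymm.bz_eq (w := 275) (c := ⟨⟨.negSucc 888, .negSucc 53, .ofNat 29, .ofNat 232, .negSucc 94, .negSucc 174⟩, ⟨.ofNat 564, .negSucc 3, .ofNat 21, .negSucc 147, .ofNat 61, .ofNat 112⟩, ⟨.ofNat 753, .negSucc 109, .ofNat 40, .negSucc 47, .negSucc 40, .negSucc 16⟩, ⟨.negSucc 2003, .negSucc 27, .negSucc 8, .ofNat 398, .negSucc 254, .negSucc 343⟩, ⟨.negSucc 1148, .ofNat 23, .negSucc 42, .ofNat 109, .negSucc 181, .negSucc 145⟩, .ofNat 3968, .ofNat 5601, .ofNat 0, .ofNat 5601, .ofNat 8683, .ofNat 0, .ofNat 128, .negSucc 1245, .negSucc 5899, .ofNat 0, .ofNat 806, .ofNat 3771, .ofNat 0, .ofNat 0, .ofNat 3428, .ofNat 3511, .ofNat 0, .ofNat 0, .ofNat 39947431638316020819987486086638997245944657870848, .ofNat 0, .ofNat 0, .ofNat 0, .ofNat 13270261081242653429521347577294394472035520677412864, .ofNat 0, .ofNat 0, .ofNat 0, .ofNat 15559154244844394045709972499629742580307419000209408,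 .ofNat 0, .ofNat 0, .ofNat 0, .ofNat 42469475865260160991855742500363723383401160325988352, .ofNat 0⟩)
    (by decide +kernel)
theorem L07905 : Good (Phi V5.P V5.D (-1) (-1)) ⟨5, 28, 5, 20, 4, 14, 4, 12, 6, 5⟩ :=
  leafX_sound T5.ok_mm T5.Ymm.bz_eq (w := 274) (c := ⟨⟨.negSucc 1411, .negSucc 30, .ofNat 41, .ofNat 531, .ofNat 190, .negSucc 54⟩, ⟨.ofNat 907, .negSucc 52, .ofNat 27, .negSucc 342, .negSucc 122, .ofNat 36⟩, ⟨.ofNat 902, .ofNat 19, .negSucc 12, .negSucc 206, .negSucc 186, .negSucc 72⟩, ⟨.negSucc 3010, .negSucc 7, .ofNat 55, .ofNat 976, .ofNat 283, .negSucc 142⟩, ⟨.negSucc 1558, .ofNat 8, .ofNat 28, .ofNat 345, .ofNat 24, .negSucc 96⟩, .ofNat 3968, .ofNat 5601, .ofNat 0, .ofNat 5601, .ofNat 8683, .ofNat 0, .ofNat 128, .negSucc 782, .negSucc 3742, .ofNat 0, .ofNat 508, .ofNat 2395, .ofNat 0, .ofNat 0, .ofNat 2199, .ofNat 5598, .ofNat 0, .ofNat 0, .ofNat 0, .ofNat 0, .ofNat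 0, .ofNat 0, .ofNat 19292437090032861478741480199707367837308387506257920, .ofNat 0, .ofNat 0, .ofNat 0, .ofNat 6934483427153402229143445318800346416462427422982144, .ofNat 3079194708018223442609633739140412774212065569059952373268480, .ofNat 0, .ofNat 0, .ofNat 31830881401794797104443550185936343591182131590594560, .ofNat 72010684713380897787230734596787054651487607818351315343376384⟩)
    (by decide +kernel)
theorem L07906 : Good (Phi V5.P V5.D (-1) (-1)) ⟨5, 29, 5, 20, 4, 14, 4, 12, 5, 2⟩ :=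
  out_sound (S := T5.ds_mm) T5.ok_mm (w := 61) (j := 3) (by decide +kernel)
theorem L07907 : Good (Phi V5.P V5.D (-1) (-1)) ⟨4, 15, 5, 20, 4, 14, 4, 12, 5, 2⟩ :=
  out_sound (S := T5.ds_mm) T5.ok_mm (w := 55) (j := 3) (by decide +kernel)
theorem L07908 : Good (Phi V5.P V5.D (-1) (-1)) ⟨2, 2, 5, 20, 4, 14, 4, 12, 5, 3⟩ :=
  out_sound (S := T5.ds_mm) T5.ok_mm (w := 43) (j := 3) (by decide +kernel)
theorem L07909 : Good (Phi V5.P V5.D (-1) (-1)) ⟨3, 6, 5, 20, 4, 14, 4, 12, 5, 3⟩ :=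
  out_sound (S := T5.ds_mm) T5.ok_mm (w := 49) (j := 3) (by decide +kernel)
theorem L07910 : Good (Phi V5.P V5.D (-1) (-1)) ⟨3, 7, 5, 20, 4, 14, 4, 12, 5, 3⟩ :=
  leafX_sound T5.ok_mm T5.Ymm.bz_eq (w := 254) (c := ⟨⟨.negSucc 1574, .negSucc 119, .ofNat 58, .ofNat 679, .ofNat 293, .ofNat 20⟩, ⟨.ofNat 1013, .negSucc 179, .ofNat 13, .negSucc 440, .negSucc 190, .negSucc 13⟩, ⟨.ofNat 874, .negSucc 37, .negSucc 13, .negSucc 255, .negSucc 222, .negSucc 197⟩, ⟨.negSucc 3372, .negSucc 30, .ofNat 68, .ofNat 1256, .ofNat 535, .ofNat 59⟩, ⟨.negSucc 1754, .ofNat 7, .ofNat 17, .ofNat 449, .ofNat 182, .ofNat 43⟩, .ofNat 1256, .ofNat 1357, .ofNat 0, .ofNat 1357, .ofNat 2001, .ofNat 0, .ofNat 128, .negSucc 872, .negSucc 1316, .ofNat 0, .ofNat 594, .ofNat 824, .ofNat 0, .ofNat 0, .ofNat 718, .ofNat 828, .ofNat 0, .ofNat 0, .ofNat 1452909139512221785128523827924782530111217860608, .ofNat 0, .ofNat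 0, .ofNat 0, .ofNat 48312065566009391709031974718146112172727065378816, .ofNat 5084088693913391174691676757761150738703735811504932388864, .ofNat 0, .ofNat 0, .ofNat 67623754031649604966475632928386954355859976617984, .ofNat 840232972437681903431568560571138586336471172920874369024, .ofNat 0, .ofNat 0, .ofNat 302662288627694876566797884956454317030202232799232, .ofNat 10048683363672063586285376652572983710413762242744942592000⟩)
    (by decide +kernel)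
theorem L07911 : Good (Phi V5.P V5.D (-1) (-1)) ⟨2, 2, 5, 21, 4, 14, 4, 12, 4, 1⟩ :=
  out_sound (S := T5.ds_mm) T5.ok_mm (w := 43) (j := 3) (by decide +kernel)
theorem L07912 : Good (Phi V5.P V5.D (-1) (-1)) ⟨3, 6, 5, 21, 4, 14, 4, 12, 4, 1⟩ :=
  out_sound (S := T5.ds_mm) T5.ok_mm (w := 49) (j := 3) (by decide +kernel)
theorem L07913 : Good (Phi V5.P V5.D (-1) (-1)) ⟨6, 56, 5, 21, 4, 14, 4, 12, 4, 1⟩ :=
  leafX_sound T5.ok_mm T5.Ymm.bz_eq (w := 276) (c := ⟨⟨.negSucc 1303, .negSucc 0, .negSucc 61, .ofNat 647, .ofNat 231, .negSucc 219⟩, ⟨.ofNat 855, .ofNat 0, .ofNat 101, .negSucc 423, .negSucc 150, .ofNat 144⟩, ⟨.ofNat 954, .ofNat 0, .negSucc 71, .negSucc 248, .negSucc 215, .negSucc 283⟩, ⟨.negSucc 2594, .negSucc 0, .negSucc 24, .ofNat 784, .ofNat 205, .negSucc 379⟩, ⟨.negSucc 1153, .negSucc 0, .ofNat 11, .negSucc 182, .negSucc 177, .negSucc 107⟩, .ofNat 14654, .ofNat 21697, .ofNat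 0, .ofNat 21697, .ofNat 32930, .ofNat 0, .ofNat 128, .negSucc 7358, .negSucc 16600, .ofNat 0, .ofNat 4860, .ofNat 10923, .ofNat 0, .ofNat 0, .ofNat 10559, .ofNat 13885, .ofNat 0, .ofNat 0, .ofNat 105130183941898264363517862080310035199079481344, .ofNat 0, .ofNat 0, .ofNat 0, .ofNat 128583827215560096187475920558644097888875299471360, .ofNat 0, .ofNat 0, .ofNat 0, .ofNat 569573268026721708044532721017940184842619240579072, .ofNat 0, .ofNat 0, .ofNat 0, .ofNat 603337797690208265036725117838676015862107168833536, .ofNat 0⟩)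
    (by decide +kernel)
theorem L07914 : Good (Phi V5.P V5.D (-1) (-1)) ⟨7, 114, 6, 42, 4, 14, 4, 12, 5, 2⟩ :=
  leafX_sound T5.ok_mm T5.Ymm.bz_eq (w := 285) (c := ⟨⟨.negSucc 994, .ofNat 18, .ofNat 186, .ofNat 283, .ofNat 82, .negSucc 423⟩, ⟨.ofNat 653, .negSucc 6, .negSucc 109, .negSucc 186, .negSucc 52, .ofNat 278⟩, ⟨.ofNat 797, .negSucc 131, .negSucc 29, .negSucc 68, .negSucc 131, .ofNat 5⟩, ⟨.negSucc 2202, .ofNat 35, .ofNat 133, .ofNat 485, .ofNat 46, .negSucc 651⟩, ⟨.negSucc 1221, .negSucc 48, .negSucc 143, .ofNat 137, .negSucc 97, .negSucc 84⟩, .ofNat 7222, .ofNat 10451, .ofNat 0, .ofNat 10451, .ofNat 15903, .ofNat 0, .ofNat 128, .negSucc 2230, .negSucc 12849, .ofNat 0, .ofNat 1473, .ofNat 8441, .ofNat 0, .ofNat 0, .ofNat 7366, .ofNat 8485, .ofNat 0, .ofNat 0, .ofNat 1041367455541106216378972583283535096575548194816, .ofNat 0, .ofNat 0, .ofNat 0, .ofNat 2167935637746054336204324094084495607919087978545152,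 .ofNat 0, .ofNat 0, .ofNat 0, .ofNat 2703054048839037314194955121165622517886296432574464, .ofNat 2144669184358645186837399308873814448414368175237744301237600256, .ofNat 0, .ofNat 0, .ofNat 0, .ofNat 0⟩)
    (by decide +kernel)
theorem L07915 : Good (Phi V5.P V5.D (-1) (-1)) ⟨7, 114, 6, 42, 4, 14, 4, 12, 5, 3⟩ :=
  leafX_sound T5.ok_mm T5.Ymm.bz_eq (w := 280) (c := ⟨⟨.negSucc 1545, .ofNat 6, .ofNat 8, .ofNat 709, .ofNat 308, .ofNat 11⟩, ⟨.ofNat 1020, .ofNat 6, .ofNat 6, .negSucc 473, .negSucc 204, .negSucc 5⟩, ⟨.ofNat 864, .ofNat 33, .negSucc 21, .negSucc 264, .negSucc 230, .negSucc 191⟩, ⟨.negSucc 3340, .ofNat 8, .negSucc 2, .ofNat 1334, .ofNat 560, .ofNat 45⟩, ⟨.negSucc 1761, .negSucc 4, .negSucc 8, .ofNat 505, .ofNat 192, .ofNat 45⟩, .ofNat 2689, .ofNat 3668, .ofNat 0, .ofNat 3668, .ofNat 5739, .ofNat 0, .ofNat 128, .negSucc 2120, .negSucc 5486, .ofNat 0, .ofNat 1382, .ofNat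 3512, .ofNat 0, .ofNat 0, .ofNat 3299, .ofNat 9181, .ofNat 0, .ofNat 0, .ofNat 0, .ofNat 0, .ofNat 0, .ofNat 0, .ofNat 470353563757098568950128243117916318519314385731584, .ofNat 0, .ofNat 0, .ofNat 0, .ofNat 0, .ofNat 0, .ofNat 0, .ofNat 0, .ofNat 0, .ofNat 0⟩)
    (by decide +kernel)
theorem L07916 : Good (Phi V5.P V5.D (-1) (-1)) ⟨8, 228, 6, 43, 4, 14, 4, 12, 4, 1⟩ :=
  out_sound (S := T5.ds_mm) T5.ok_mm (w := 81) (j := 3) (by decide +kernel)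
theorem L07917 : Good (Phi V5.P V5.D (-1) (-1)) ⟨8, 229, 6, 43, 4, 14, 4, 12, 4, 1⟩ :=
  out_sound (S := T5.ds_mm) T5.ok_mm (w := 23) (j := 4) (by decide +kernel)
theorem L07918 : Good (Phi V5.P V5.D (-1) (-1)) ⟨7, 115, 5, 21, 4, 14, 4, 12, 4, 1⟩ :=
  out_sound (S := T5.ds_mm) T5.ok_mm (w := 21) (j := 4) (by decide +kernel)
theorem L07919 : Good (Phi V5.P V5.D (-1) (-1)) ⟨5, 29, 5, 21, 4, 14, 4, 12, 4, 1⟩ :=
  out_sound (S := T5.ds_mm) T5.ok_mm (w := 61) (j := 3) (by decide +kernel)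
theorem L07920 : Good (Phi V5.P V5.D (-1) (-1)) ⟨4, 15, 5, 21, 4, 14, 4, 12, 4, 1⟩ :=
  out_sound (S := T5.ds_mm) T5.ok_mm (w := 55) (j := 3) (by decide +kernel)
theorem L07921 : Good (Phi V5.P V5.D (-1) (-1)) ⟨2, 2, 4, 11, 4, 14, 4, 12, 4, 1⟩ :=
  out_sound (S := T5.ds_mm) T5.ok_mm (w := 41) (j := 3) (by decide +kernel)
theorem L07922 : Good (Phi V5.P V5.D (-1) (-1)) ⟨3, 6, 4, 11, 4, 14, 4, 12, 4, 1⟩ :=
  out_sound (S := T5.ds_mm) T5.ok_mm (w := 47) (j := 3) (by decide +kernel)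
theorem L07923 : Good (Phi V5.P V5.D (-1) (-1)) ⟨6, 56, 4, 11, 4, 14, 4, 12, 4, 1⟩ :=
  out_sound (S := T5.ds_mm) T5.ok_mm (w := 65) (j := 3) (by decide +kernel)
theorem L07924 : Good (Phi V5.P V5.D (-1) (-1)) ⟨7, 114, 5, 22, 4, 14, 4, 12, 4, 1⟩ :=
  out_sound (S := T5.ds_mm) T5.ok_mm (w := 73) (j := 3) (by decide +kernel)
theorem L07925 : Good (Phi V5.P V5.D (-1) (-1)) ⟨7, 115, 5, 22, 4, 14, 4, 12, 4, 1⟩ :=
  out_sound (S := T5.ds_mm) T5.ok_mm (w := 21) (j := 4) (by decide +kernel)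
theorem L07926 : Good (Phi V5.P V5.D (-1) (-1)) ⟨6, 57, 5, 23, 4, 14, 4, 12, 4, 1⟩ :=
  out_sound (S := T5.ds_mm) T5.ok_mm (w := 67) (j := 3) (by decide +kernel)
theorem L07927 : Good (Phi V5.P V5.D (-1) (-1)) ⟨5, 29, 4, 11, 4, 14, 4, 12, 4, 1⟩ :=
  out_sound (S := T5.ds_mm) T5.ok_mm (w := 17) (j := 4) (by decide +kernel)
theorem L07928 : Good (Phi V5.P V5.D (-1) (-1)) ⟨4, 15, 4, 11, 4, 14, 4, 12, 4, 1⟩ :=
  out_sound (S := T5.ds_mm) T5.ok_mm (w := 53) (j := 3) (by decide +kernel)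
theorem L07929 : Good (Phi V5.P V5.D (-1) (-1)) ⟨2, 2, 5, 20, 4, 14, 4, 13, 4, 1⟩ :=
  out_sound (S := T5.ds_mm) T5.ok_mm (w := 43) (j := 3) (by decide +kernel)
theorem L07930 : Good (Phi V5.P V5.D (-1) (-1)) ⟨3, 6, 6, 40, 4, 14, 4, 13, 4, 1⟩ :=
  out_sound (S := T5.ds_mm) T5.ok_mm (w := 51) (j := 3) (by decide +kernel)
theorem L07931 : Good (Phi V5.P V5.D (-1) (-1)) ⟨4, 14, 6, 40, 4, 14, 4, 13, 4, 1⟩ :=
  leafX_sound T5.ok_mm T5.Ymm.bz_eq (w := 261) (c := ⟨⟨.negSucc 1352, .negSucc 62, .ofNat 41, .ofNat 510, .ofNat 317, .ofNat 227⟩, ⟨.ofNat 864, .negSucc 75, .negSucc 4, .negSucc 322, .negSucc 201, .negSucc 146⟩, ⟨.ofNat 867, .negSucc 45, .negSucc 7, .negSucc 190, .negSucc 259, .negSucc 458⟩, ⟨.negSucc 2985, .negSucc 9, .ofNat 69, .ofNat 936, .ofNat 569, .ofNat 486⟩, ⟨.negSucc 1647, .ofNat 10, .ofNat 34, .ofNat 339, .ofNat 188, .ofNat 245⟩, .ofNat 2520, .ofNat 3278, .ofNat 0,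 .ofNat 3278, .ofNat 4959, .ofNat 0, .ofNat 128, .negSucc 1868, .negSucc 3423, .ofNat 0, .ofNat 1227, .ofNat 2162, .ofNat 0, .ofNat 0, .ofNat 1961, .ofNat 2169, .ofNat 0, .ofNat 0, .ofNat 102187792611728156897118209493982932796908240896, .ofNat 0, .ofNat 0, .ofNat 0, .ofNat 6202636136202738693490970246621995643528827371520, .ofNat 24412140200737792377268260779956766184819482783824490790912, .ofNat 0, .ofNat 0, .ofNat 0, .ofNat 0, .ofNat 0, .ofNat 0, .ofNat 59895776432569370715741808111684092161738034642944, .ofNat 0⟩)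
    (by decide +kernel)
theorem L07932 : Good (Phi V5.P V5.D (-1) (-1)) ⟨4, 15, 6, 40, 4, 14, 4, 13, 4, 1⟩ :=
  out_sound (S := T5.ds_mm) T5.ok_mm (w := 57) (j := 3) (by decide +kernel)
theorem L07933 : Good (Phi V5.P V5.D (-1) (-1)) ⟨3, 6, 6, 41, 4, 14, 4, 13, 4, 1⟩ :=
  out_sound (S := T5.ds_mm) T5.ok_mm (w := 51) (j := 3) (by decide +kernel)
theorem L07934 : Good (Phi V5.P V5.D (-1) (-1)) ⟨5, 28, 6, 41, 4, 14, 4, 13, 4, 1⟩ :=
  leafX_sound T5.ok_mm T5.Ymm.bz_eq (w := 268) (c := ⟨⟨.negSucc 1330, .negSucc 33, .ofNat 53, .ofNat 549, .ofNat 328, .ofNat 196⟩, ⟨.ofNat 880, .negSucc 35, .negSucc 13, .negSucc 355, .negSucc 213, .negSucc 130⟩, ⟨.ofNat 790, .ofNat 178, .negSucc 44, .negSucc 205, .negSucc 257, .negSucc 443⟩, ⟨.negSucc 2998, .negSucc 24, .ofNat 89, .ofNat 984, .ofNat 608, .ofNat 525⟩, ⟨.negSucc 1704, .ofNat 14, .ofNat 35, .ofNat 324, .ofNat 221, .ofNat 371⟩, .ofNat 4882,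 .ofNat 6979, .ofNat 0, .ofNat 6979, .ofNat 10759, .ofNat 0, .ofNat 128, .negSucc 3368, .negSucc 4819, .ofNat 0, .ofNat 2199, .ofNat 3111, .ofNat 0, .ofNat 0, .ofNat 2844, .ofNat 2614, .ofNat 0, .ofNat 0, .ofNat 166019253448499990073965794539660417306395148288, .ofNat 0, .ofNat 0, .ofNat 0, .ofNat 39125138784527451901355340362554019359488437387264, .ofNat 350405624471657360943140173526137455230518201846637258604544, .ofNat 0, .ofNat 0, .ofNat 0, .ofNat 0, .ofNat 0, .ofNat 0, .ofNat 80840849600447317539189145798804634867789662781440, .ofNat 0⟩)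
    (by decide +kernel)
theorem L07935 : Good (Phi V5.P V5.D (-1) (-1)) ⟨5, 29, 6, 41, 4, 14, 4, 13, 4, 1⟩ :=
  out_sound (S := T5.ds_mm) T5.ok_mm (w := 63) (j := 3) (by decide +kernel)
theorem L07936 : Good (Phi V5.P V5.D (-1) (-1)) ⟨4, 15, 6, 41, 4, 14, 4, 13, 4, 1⟩ :=
  out_sound (S := T5.ds_mm) T5.ok_mm (w := 57) (j := 3) (by decide +kernel)
theorem L07937 : Good (Phi V5.P V5.D (-1) (-1)) ⟨2, 2, 5, 21, 4, 14, 4, 13, 4, 1⟩ :=
  out_sound (S := T5.ds_mm) T5.ok_mm (w := 43) (j := 3) (by decide +kernel)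
theorem L07938 : Good (Phi V5.P V5.D (-1) (-1)) ⟨3, 6, 5, 21, 4, 14, 4, 13, 4, 1⟩ :=
  out_sound (S := T5.ds_mm) T5.ok_mm (w := 49) (j := 3) (by decide +kernel)
theorem L07939 : Good (Phi V5.P V5.D (-1) (-1)) ⟨6, 56, 5, 21, 4, 14, 4, 13, 4, 1⟩ :=
  leafX_sound T5.ok_mm T5.Ymm.bz_eq (w := 278) (c := ⟨⟨.negSucc 1267, .ofNat 0, .ofNat 63, .ofNat 514, .ofNat 284, .ofNat 173⟩, ⟨.ofNat 832, .ofNat 0, .ofNat 0, .negSucc 337, .negSucc 186, .negSucc 113⟩, ⟨.ofNat 838, .ofNat 0, .ofNat 58, .negSucc 199, .negSucc 247, .negSucc 455⟩, ⟨.negSucc 2493, .negSucc 0, .ofNat 13, .ofNat 549, .ofNat 312, .ofNat 201⟩, ⟨.negSucc 1080, .negSucc 0, .negSucc 5, .negSucc 256, .negSucc 128, .negSucc 61⟩, .ofNat 23149, .ofNat 34491, .ofNat 0, .ofNat 34491, .ofNat 52202, .ofNat 0, .ofNat 128, .negSucc 12190, .negSucc 20944, .ofNat 0, .ofNat 8060, .ofNat 13808, .ofNat 0, .ofNat 0, .ofNat 13073, .ofNat 17499,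 .ofNat 0, .ofNat 0, .ofNat 0, .ofNat 0, .ofNat 0, .ofNat 0, .ofNat 197989078543164460126681893312121390188069157601280, .ofNat 0, .ofNat 0, .ofNat 0, .ofNat 0, .ofNat 0, .ofNat 0, .ofNat 0, .ofNat 1154469474720907142263822011513259067927896751341568, .ofNat 0⟩)
    (by decide +kernel)
theorem L07940 : Good (Phi V5.P V5.D (-1) (-1)) ⟨7, 114, 6, 42, 4, 14, 4, 13, 4, 1⟩ :=
  leafX_sound T5.ok_mm T5.Ymm.bz_eq (w := 281) (c := ⟨⟨.negSucc 1309, .negSucc 23, .ofNat 58, .ofNat 504, .ofNat 317, .ofNat 243⟩, ⟨.ofNat 862, .negSucc 16, .negSucc 7, .negSucc 332, .negSucc 209, .negSucc 161⟩, ⟨.ofNat 843, .negSucc 74, .ofNat 20, .negSucc 178, .negSucc 256, .negSucc 471⟩, ⟨.negSucc 2628, .negSucc 3, .ofNat 17, .ofNat 605, .ofNat 425, .ofNat 359⟩, ⟨.negSucc 1198, .negSucc 17, .negSucc 51, .negSucc 146, .negSucc 26, .ofNat 25⟩, .ofNat 19066, .ofNat 28195, .ofNat 0, .ofNat 28195, .ofNat 42490,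 .ofNat 0, .ofNat 128, .negSucc 4895, .negSucc 6726, .ofNat 0, .ofNat 3255, .ofNat 4461, .ofNat 0, .ofNat 0, .ofNat 4101, .ofNat 4300, .ofNat 0, .ofNat 0, .ofNat 57449708068837945897863166948960870112971194368, .ofNat 0, .ofNat 0, .ofNat 0, .ofNat 268796531208994726517839077231418825844797579722752, .ofNat 0, .ofNat 0, .ofNat 0, .ofNat 0, .ofNat 0, .ofNat 0, .ofNat 0, .ofNat 48755537526155638730157454130756913849873792499712, .ofNat 84519410665111512312025660904418252888065424238927647223054336⟩)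
    (by decide +kernel)
theorem L07941 : Good (Phi V5.P V5.D (-1) (-1)) ⟨8, 228, 6, 43, 4, 14, 4, 13, 4, 1⟩ :=
  out_sound (S := T5.ds_mm) T5.ok_mm (w := 81) (j := 3) (by decide +kernel)
theorem L07942 : Good (Phi V5.P V5.D (-1) (-1)) ⟨8, 229, 6, 43, 4, 14, 4, 13, 4, 1⟩ :=
  out_sound (S := T5.ds_mm) T5.ok_mm (w := 23) (j := 4) (by decide +kernel)
theorem L07943 : Good (Phi V5.P V5.D (-1) (-1)) ⟨7, 115, 5, 21, 4, 14, 4, 13, 4, 1⟩ :=
  out_sound (S := T5.ds_mm) T5.ok_mm (w := 21) (j := 4) (by decide +kernel)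
theorem L07944 : Good (Phi V5.P V5.D (-1) (-1)) ⟨5, 29, 5, 21, 4, 14, 4, 13, 4, 1⟩ :=
  out_sound (S := T5.ds_mm) T5.ok_mm (w := 61) (j := 3) (by decide +kernel)
theorem L07945 : Good (Phi V5.P V5.D (-1) (-1)) ⟨4, 15, 5, 21, 4, 14, 4, 13, 4, 1⟩ :=
  out_sound (S := T5.ds_mm) T5.ok_mm (w := 55) (j := 3) (by decide +kernel)
theorem L07946 : Good (Phi V5.P V5.D (-1) (-1)) ⟨2, 2, 4, 11, 4, 14, 4, 13, 4, 1⟩ :=
  out_sound (S := T5.ds_mm) T5.ok_mm (w := 41) (j := 3) (by decide +kernel)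
theorem L07947 : Good (Phi V5.P V5.D (-1) (-1)) ⟨3, 6, 4, 11, 4, 14, 4, 13, 4, 1⟩ :=
  out_sound (S := T5.ds_mm) T5.ok_mm (w := 47) (j := 3) (by decide +kernel)
theorem L07948 : Good (Phi V5.P V5.D (-1) (-1)) ⟨6, 56, 4, 11, 4, 14, 4, 13, 4, 1⟩ :=
  out_sound (S := T5.ds_mm) T5.ok_mm (w := 65) (j := 3) (by decide +kernel)
theorem L07949 : Good (Phi V5.P V5.D (-1) (-1)) ⟨7, 114, 5, 22, 4, 14, 4, 13, 4, 1⟩ :=
  out_sound (S := T5.ds_mm) T5.ok_mm (w := 73) (j := 3) (by decide +kernel)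
theorem L07950 : Good (Phi V5.P V5.D (-1) (-1)) ⟨7, 115, 5, 22, 4, 14, 4, 13, 4, 1⟩ :=
  out_sound (S := T5.ds_mm) T5.ok_mm (w := 21) (j := 4) (by decide +kernel)
theorem L07951 : Good (Phi V5.P V5.D (-1) (-1)) ⟨6, 57, 5, 23, 4, 14, 4, 13, 4, 1⟩ :=
  out_sound (S := T5.ds_mm) T5.ok_mm (w := 67) (j := 3) (by decide +kernel)
theorem L07952 : Good (Phi V5.P V5.D (-1) (-1)) ⟨5, 29, 4, 11, 4, 14, 4, 13, 4, 1⟩ :=
  out_sound (S := T5.ds_mm) T5.ok_mm (w := 17) (j := 4) (by decide +kernel)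
theorem L07953 : Good (Phi V5.P V5.D (-1) (-1)) ⟨4, 15, 4, 11, 4, 14, 4, 13, 4, 1⟩ :=
  out_sound (S := T5.ds_mm) T5.ok_mm (w := 53) (j := 3) (by decide +kernel)
theorem L07954 : Good (Phi V5.P V5.D (-1) (-1)) ⟨2, 2, 3, 5, 4, 15, 3, 6, 4, 1⟩ :=
  out_sound (S := T5.ds_mm) T5.ok_mm (w := 39) (j := 3) (by decide +kernel)
theorem L07955 : Good (Phi V5.P V5.D (-1) (-1)) ⟨3, 6, 3, 5, 4, 15, 3, 6, 4, 1⟩ :=
  out_sound (S := T5.ds_mm) T5.ok_mm (w := 45) (j := 3) (by decide +kernel)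
theorem L07956 : Good (Phi V5.P V5.D (-1) (-1)) ⟨4, 14, 5, 20, 5, 30, 4, 12, 5, 2⟩ :=
  leafX_sound T5.ok_mm T5.Ymm.bz_eq (w := 277) (c := ⟨⟨.negSucc 1075, .negSucc 5, .ofNat 68, .ofNat 80, .ofNat 146, .ofNat 249⟩, ⟨.ofNat 689, .negSucc 86, .negSucc 5, .negSucc 50, .negSucc 94, .negSucc 161⟩, ⟨.ofNat 879, .ofNat 48, .negSucc 18, .ofNat 10, .negSucc 173, .negSucc 302⟩, ⟨.negSucc 2386, .ofNat 41, .ofNat 119, .ofNat 167, .ofNat 237, .ofNat 444⟩, ⟨.negSucc 1335, .ofNat 25, .ofNat 62, .ofNat 86, .ofNat 51, .ofNat 142⟩, .ofNat 2763, .ofNat 3630, .ofNat 0, .ofNat 3630, .ofNat 5467, .ofNat 0, .ofNat 128, .negSucc 1445, .negSucc 3321, .ofNat 0, .ofNat 937, .ofNat 2095, .ofNat 0, .ofNat 0, .ofNat 1704, .ofNat 3151, .ofNat 0, .ofNat 0, .ofNat 43145126824070827037866844095030553731000621435191296, .ofNat 2978432888916885413127174622555010505573422400439172852613120, .ofNat 0, .ofNat 0, .ofNat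 4103894833234816776970105298244364423800792950518054912, .ofNat 1872391534174129997652784676673334127077723220146220677197725696, .ofNat 0, .ofNat 0, .ofNat 10384494189507520943332510363668507004697519529027174400, .ofNat 0, .ofNat 0, .ofNat 0, .ofNat 15702840350651878964821519929302013539282573520567009280, .ofNat 5541578091848231050305887642794935599926082250018799356448079872⟩)
    (by decide +kernel)
theorem L07957 : Good (Phi V5.P V5.D (-1) (-1)) ⟨4, 14, 5, 20, 5, 31, 4, 12, 5, 2⟩ :=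
  leafX_sound T5.ok_mm T5.Ymm.bz_eq (w := 277) (c := ⟨⟨.negSucc 1318, .ofNat 182, .ofNat 134, .ofNat 4, .ofNat 273, .ofNat 623⟩, ⟨.ofNat 838, .negSucc 160, .negSucc 51, .ofNat 1, .negSucc 176, .negSucc 404⟩, ⟨.ofNat 1028, .negSucc 30, .negSucc 41, .ofNat 54, .negSucc 233, .negSucc 441⟩, ⟨.negSucc 2805, .ofNat 171, .ofNat 202, .negSucc 74, .ofNat 538, .ofNat 1310⟩, ⟨.negSucc 1483, .ofNat 51, .ofNat 20, .negSucc 109, .ofNat 235, .ofNat 652⟩, .ofNat 2610, .ofNat 3410, .ofNat 0, .ofNat 3410, .ofNat 5151, .ofNat 0, .ofNat 128, .negSucc 998, .negSucc 3019, .ofNat 0, .ofNat 643, .ofNat 1886, .ofNat 0, .ofNat 0, .ofNat 1454, .ofNat 1673, .ofNat 0, .ofNat 0, .ofNat 62420415464126452093649173768012169427990768162701312, .ofNat 0, .ofNat 0, .ofNat 0, .ofNat 4991673591360615524835764742092455606704522141942939648, .ofNat 1477828011503395931770911571592256655149662942088175936541294592, .ofNat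 0, .ofNat 0, .ofNat 8163854972669202569204746655806945796356111834881720320, .ofNat 0, .ofNat 0, .ofNat 0, .ofNat 11226468021695627535044460881359436603311441527785390080, .ofNat 7795641724880928921758502467575958531573127450158652459375919104⟩)
    (by decide +kernel)
theorem L07958 : Good (Phi V5.P V5.D (-1) (-1)) ⟨4, 14, 5, 20, 4, 15, 4, 12, 5, 3⟩ :=
  leafX_sound T5.ok_mm T5.Ymm.bz_eq (w := 262) (c := ⟨⟨.negSucc 1097, .ofNat 358, .ofNat 136, .ofNat 505, .ofNat 375, .ofNat 134⟩, ⟨.ofNat 721, .negSucc 428, .negSucc 46, .negSucc 326, .negSucc 243, .negSucc 88⟩, ⟨.ofNat 592, .ofNat 438, .negSucc 104, .negSucc 52, .negSucc 235, .negSucc 185⟩, ⟨.negSucc 2520, .ofNat 217, .ofNat 373, .ofNat 1133, .ofNat 768, .ofNat 287⟩, ⟨.negSucc 1545, .ofNat 26, .ofNat 227, .ofNat 647, .ofNat 363, .ofNat 145⟩, .ofNat 2763, .ofNat 3630, .ofNat 0, .ofNat 3630, .ofNat 5467, .ofNat 0, .ofNat 128,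 .negSucc 1713, .negSucc 1526, .ofNat 0, .ofNat 1125, .ofNat 962, .ofNat 0, .ofNat 0, .ofNat 947, .ofNat 1565, .ofNat 0, .ofNat 0, .ofNat 0, .ofNat 0, .ofNat 0, .ofNat 0, .ofNat 279559759392906909438115964312451219267077541986304, .ofNat 295577532017989403732802339036621456227068699906764896731136, .ofNat 0, .ofNat 0, .ofNat 318586873524683460790634161193181227255839972130816, .ofNat 159960032413007947753478672506482292253696252733368830001152, .ofNat 0, .ofNat 0, .ofNat 296793077466642659701071496905099911141555047497728, .ofNat 142363270281890482069288199276928540267940672642845050404864⟩)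
    (by decide +kernel)
theorem L07959 : Good (Phi V5.P V5.D (-1) (-1)) ⟨6, 56, 6, 42, 4, 15, 4, 12, 4, 1⟩ :=
  leafX_sound T5.ok_mm T5.Ymm.bz_eq (w := 282) (c := ⟨⟨.negSucc 1097, .ofNat 0, .negSucc 14, .ofNat 407, .ofNat 253, .ofNat 412⟩, ⟨.ofNat 721, .ofNat 0, .ofNat 27, .negSucc 267, .negSucc 166, .negSucc 271⟩, ⟨.ofNat 883, .ofNat 0, .ofNat 56, .negSucc 53, .negSucc 214, .negSucc 500⟩, ⟨.negSucc 2046, .negSucc 0, .negSucc 8, .ofNat 410, .ofNat 260, .ofNat 430⟩, ⟨.negSucc 767, .negSucc 0, .ofNat 6, .negSucc 236, .negSucc 140, .negSucc 218⟩, .ofNat 29415, .ofNat 43929, .ofNat 0, .ofNat 43929, .ofNat 66418, .ofNat 0, .ofNat 128, .negSucc 13964, .negSucc 18371, .ofNat 0, .ofNat 9226, .ofNat 12107, .ofNat 0, .ofNat 0, .ofNat 10933, .ofNat 21379, .ofNat 0, .ofNat 0, .ofNat 0, .ofNat 0, .ofNat 0, .ofNat 0, .ofNat 1380393414899288745067987493934750401219932345860096, .ofNat 0, .ofNat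 0, .ofNat 0, .ofNat 0, .ofNat 0, .ofNat 0, .ofNat 0, .ofNat 6411451865442605677435789161573853175814150896484352, .ofNat 0⟩)
    (by decide +kernel)
theorem L07960 : Good (Phi V5.P V5.D (-1) (-1)) ⟨7, 114, 6, 42, 4, 15, 4, 12, 5, 2⟩ :=
  leafX_sound T5.ok_mm T5.Ymm.bz_eq (w := 287) (c := ⟨⟨.negSucc 1281, .negSucc 0, .ofNat 19, .ofNat 4, .ofNat 241, .ofNat 720⟩, ⟨.ofNat 844, .negSucc 8, .ofNat 6, .negSucc 1, .negSucc 159, .negSucc 478⟩, ⟨.ofNat 991, .negSucc 27, .ofNat 17, .ofNat 111, .negSucc 224, .negSucc 497⟩, ⟨.negSucc 2812, .ofNat 22, .ofNat 36, .ofNat 47, .ofNat 352, .ofNat 1245⟩, ⟨.negSucc 1531, .ofNat 17, .ofNat 33, .ofNat 66, .ofNat 23, .ofNat 357⟩, .ofNat 18373, .ofNat 27171, .ofNat 0, .ofNat 27171, .ofNat 40980, .ofNat 0, .ofNat 128, .negSucc 2974, .negSucc 8920, .ofNat 0, .ofNat 1972, .ofNat 5902, .ofNat 0, .ofNat 0, .ofNat 4695, .ofNat 7705, .ofNat 0, .ofNat 0, .ofNat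 0, .ofNat 0, .ofNat 0, .ofNat 0, .ofNat 7868883120964312340561229905614625863392778902306816, .ofNat 0, .ofNat 0, .ofNat 0, .ofNat 1565124020564108257490416575175761762982807207936, .ofNat 2075761229284048670424372246938708853263718519613030383692546048, .ofNat 0, .ofNat 0, .ofNat 3403452922144443465985975423918295730698761332064256, .ofNat 6665797133255864683374145527524373924487296844962257189627494400⟩)
    (by decide +kernel)
theorem L07961 : Good (Phi V5.P V5.D (-1) (-1)) ⟨7, 114, 6, 42, 4, 15, 4, 12, 5, 3⟩ :=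
  leafX_sound T5.ok_mm T5.Ymm.bz_eq (w := 285) (c := ⟨⟨.negSucc 954, .ofNat 86, .ofNat 52, .ofNat 639, .ofNat 401, .ofNat 103⟩, ⟨.ofNat 628, .negSucc 82, .negSucc 14, .negSucc 420, .negSucc 265, .negSucc 68⟩, ⟨.ofNat 614, .ofNat 35, .negSucc 42, .negSucc 83, .negSucc 245, .negSucc 165⟩, ⟨.negSucc 1873, .ofNat 80, .ofNat 143, .ofNat 894, .ofNat 641, .ofNat 213⟩, ⟨.negSucc 809, .ofNat 31, .ofNat 62, .ofNat 5, .ofNat 120, .ofNat 100⟩, .ofNat 18606, .ofNat 27515, .ofNat 0, .ofNat 27515, .ofNat 41489, .ofNat 0, .ofNat 128, .negSucc 4496, .negSucc 3657, .ofNat 0, .ofNat 2986, .ofNat 2422, .ofNat 0, .ofNat 0, .ofNat 2327, .ofNat 10126, .ofNat 0, .ofNat 0, .ofNat 0, .ofNat 0, .ofNat 0, .ofNat 0, .ofNat 12717325579629627348782481004091887490505550159937536, .ofNat 0, .ofNat 0, .ofNat 0, .ofNat 0, .ofNat 0, .ofNat 0, .ofNat 0, .ofNat 278086697451614958892193346562476531164139642421248,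 .ofNat 854252563318692438496624571735527672074518601698429208954404864⟩)
    (by decide +kernel)
theorem L07962 : Good (Phi V5.P V5.D (-1) (-1)) ⟨7, 115, 6, 42, 4, 15, 4, 12, 4, 1⟩ :=
  out_sound (S := T5.ds_mm) T5.ok_mm (w := 75) (j := 3) (by decide +kernel)
theorem L07963 : Good (Phi V5.P V5.D (-1) (-1)) ⟨6, 56, 6, 43, 4, 15, 4, 12, 4, 1⟩ :=
  out_sound (S := T5.ds_mm) T5.ok_mm (w := 69) (j := 3) (by decide +kernel)
theorem L07964 : Good (Phi V5.P V5.D (-1) (-1)) ⟨8, 228, 6, 43, 4, 15, 4, 12, 4, 1⟩ :=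
  out_sound (S := T5.ds_mm) T5.ok_mm (w := 81) (j := 3) (by decide +kernel)
theorem L07965 : Good (Phi V5.P V5.D (-1) (-1)) ⟨8, 229, 6, 43, 4, 15, 4, 12, 4, 1⟩ :=
  out_sound (S := T5.ds_mm) T5.ok_mm (w := 23) (j := 4) (by decide +kernel)
theorem L07966 : Good (Phi V5.P V5.D (-1) (-1)) ⟨7, 115, 6, 43, 4, 15, 4, 12, 4, 1⟩ :=
  out_sound (S := T5.ds_mm) T5.ok_mm (w := 21) (j := 4) (by decide +kernel)
theorem L07967 : Good (Phi V5.P V5.D (-1) (-1)) ⟨5, 29, 5, 21, 4, 15, 4, 12, 4, 1⟩ :=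
  out_sound (S := T5.ds_mm) T5.ok_mm (w := 61) (j := 3) (by decide +kernel)
theorem L07968 : Good (Phi V5.P V5.D (-1) (-1)) ⟨6, 56, 4, 11, 4, 15, 4, 12, 4, 1⟩ :=
  out_sound (S := T5.ds_mm) T5.ok_mm (w := 65) (j := 3) (by decide +kernel)
theorem L07969 : Good (Phi V5.P V5.D (-1) (-1)) ⟨7, 114, 5, 22, 4, 15, 4, 12, 4, 1⟩ :=
  out_sound (S := T5.ds_mm) T5.ok_mm (w := 73) (j := 3) (by decide +kernel)
theorem L07970 : Good (Phi V5.P V5.D (-1) (-1)) ⟨7, 115, 5, 22, 4, 15, 4, 12, 4, 1⟩ :=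
  out_sound (S := T5.ds_mm) T5.ok_mm (w := 21) (j := 4) (by decide +kernel)
theorem L07971 : Good (Phi V5.P V5.D (-1) (-1)) ⟨6, 57, 5, 23, 4, 15, 4, 12, 4, 1⟩ :=
  out_sound (S := T5.ds_mm) T5.ok_mm (w := 67) (j := 3) (by decide +kernel)
theorem L07972 : Good (Phi V5.P V5.D (-1) (-1)) ⟨5, 29, 4, 11, 4, 15, 4, 12, 4, 1⟩ :=
  out_sound (S := T5.ds_mm) T5.ok_mm (w := 17) (j := 4) (by decide +kernel)
theorem L07973 : Good (Phi V5.P V5.D (-1) (-1)) ⟨6, 56, 6, 40, 4, 15, 4, 13, 4, 1⟩ :=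
  leafX_sound T5.ok_mm T5.Ymm.bz_eq (w := 271) (c := ⟨⟨.negSucc 1411, .ofNat 184, .ofNat 73, .ofNat 492, .ofNat 417, .ofNat 868⟩, ⟨.ofNat 911, .negSucc 157, .negSucc 27, .negSucc 310, .negSucc 263, .negSucc 559⟩, ⟨.ofNat 824, .ofNat 55, .negSucc 48, .negSucc 107, .negSucc 289, .negSucc 608⟩, ⟨.negSucc 3193, .ofNat 393, .ofNat 195, .ofNat 920, .ofNat 828, .ofNat 2074⟩, ⟨.negSucc 1847, .ofNat 200, .ofNat 150, .ofNat 356, .ofNat 368, .ofNat 1289⟩, .ofNat 4809, .ofNat 6994, .ofNat 0, .ofNat 6994, .ofNat 10990, .ofNat 0, .ofNat 128, .negSucc 2794, .negSucc 3397, .ofNat 0, .ofNat 1783, .ofNat 2142, .ofNat 0, .ofNat 0, .ofNat 2050, .ofNat 2855, .ofNat 0, .ofNat 0, .ofNat 0, .ofNat 0, .ofNat 0, .ofNat 0, .ofNat 27694645165863229578673779920087685932926285905920, .ofNat 0, .ofNat 0, .ofNat 0, .ofNat 0, .ofNat 0, .ofNat 0, .ofNat 0, .ofNat 22053764385375791080765012737526701777630108057600,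 .ofNat 0⟩)
    (by decide +kernel)
theorem L07974 : Good (Phi V5.P V5.D (-1) (-1)) ⟨6, 56, 6, 41, 4, 15, 4, 13, 4, 1⟩ :=
  leafX_sound T5.ok_mm T5.Ymm.bz_eq (w := 275) (c := ⟨⟨.negSucc 1361, .ofNat 87, .ofNat 122, .ofNat 636, .ofNat 396, .ofNat 852⟩, ⟨.ofNat 868, .negSucc 40, .negSucc 75, .negSucc 409, .negSucc 256, .negSucc 559⟩, ⟨.ofNat 912, .negSucc 113, .negSucc 15, .negSucc 156, .negSucc 278, .negSucc 578⟩, ⟨.negSucc 2869, .ofNat 60, .ofNat 197, .ofNat 1068, .ofNat 767, .ofNat 2044⟩, ⟨.negSucc 1498, .negSucc 38, .ofNat 31, .ofNat 270, .ofNat 321, .ofNat 1279⟩, .ofNat 8370, .ofNat 12313, .ofNat 0, .ofNat 12313, .ofNat 18926, .ofNat 0, .ofNat 128, .negSucc 3910, .negSucc 5881, .ofNat 0, .ofNat 2547, .ofNat 3804, .ofNat 0, .ofNat 0, .ofNat 3475, .ofNat 4257, .ofNat 0, .ofNat 0, .ofNat 0, .ofNat 0, .ofNat 0, .ofNat 0, .ofNat 80508425465251217459013569877634995967638812753920,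 .ofNat 0, .ofNat 0, .ofNat 0, .ofNat 0, .ofNat 0, .ofNat 0, .ofNat 0, .ofNat 0, .ofNat 0⟩)
    (by decide +kernel)
theorem L07975 : Good (Phi V5.P V5.D (-1) (-1)) ⟨6, 57, 5, 20, 4, 15, 4, 13, 4, 1⟩ :=
  leafX_sound T5.ok_mm T5.Ymm.bz_eq (w := 279) (c := ⟨⟨.negSucc 1233, .ofNat 0, .ofNat 10, .ofNat 605, .ofNat 409, .ofNat 925⟩, ⟨.ofNat 790, .ofNat 0, .ofNat 14, .negSucc 397, .negSucc 268, .negSucc 608⟩, ⟨.ofNat 790, .ofNat 0, .ofNat 12, .negSucc 138, .negSucc 283, .negSucc 590⟩, ⟨.negSucc 1844, .ofNat 0, .ofNat 0, .ofNat 638, .ofNat 437, .ofNat 953⟩, ⟨.negSucc 200, .ofNat 0, .ofNat 0, .negSucc 312, .negSucc 202, .negSucc 509⟩, .ofNat 28794, .ofNat 42994, .ofNat 0, .ofNat 42994, .ofNat 65009, .ofNat 0, .ofNat 128, .negSucc 21034, .negSucc 18270, .ofNat 0, .ofNat 13886, .ofNat 12028, .ofNat 0, .ofNat 0, .ofNat 10536, .ofNat 18122, .ofNat 0, .ofNat 0, .ofNat 0, .ofNat 0, .ofNat 0,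 .ofNat 0, .ofNat 54963698090901787548435572806831541021136631734730752, .ofNat 0, .ofNat 0, .ofNat 0, .ofNat 294512118492978178940473619796439396322641767825408, .ofNat 0, .ofNat 0, .ofNat 0, .ofNat 19885859812421647021126181732640240574986653462953984, .ofNat 0⟩)
    (by decide +kernel)
theorem L07976 : Good (Phi V5.P V5.D (-1) (-1)) ⟨5, 29, 5, 20, 4, 15, 4, 13, 4, 1⟩ :=
  out_sound (S := T5.ds_mm) T5.ok_mm (w := 61) (j := 3) (by decide +kernel)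
theorem L07977 : Good (Phi V5.P V5.D (-1) (-1)) ⟨6, 56, 6, 42, 4, 15, 4, 13, 4, 1⟩ :=
  leafX_sound T5.ok_mm T5.Ymm.bz_eq (w := 275) (c := ⟨⟨.negSucc 1215, .ofNat 0, .ofNat 291, .ofNat 714, .ofNat 382, .ofNat 802⟩, ⟨.ofNat 801, .ofNat 0, .negSucc 199, .negSucc 462, .negSucc 252, .negSucc 541⟩, ⟨.ofNat 783, .ofNat 0, .negSucc 39, .negSucc 167, .negSucc 265, .negSucc 541⟩, ⟨.negSucc 2870, .ofNat 0, .ofNat 373, .ofNat 1189, .ofNat 827, .ofNat 2346⟩, ⟨.negSucc 1751, .ofNat 0, .ofNat 11, .ofNat 291, .ofNat 435, .ofNat 1814⟩, .ofNat 6490, .ofNat 9402, .ofNat 0, .ofNat 9402, .ofNat 14409, .ofNat 0, .ofNat 128, .negSucc 6501, .negSucc 10580, .ofNat 0, .ofNat 4253, .ofNat 6872, .ofNat 0, .ofNat 0, .ofNat 5896, .ofNat 7276, .ofNat 0, .ofNat 0, .ofNat 0, .ofNat 0, .ofNat 0, .ofNat 0, .ofNat 500817723742001688053723349043028725776314013843456, .ofNat 0, .ofNat 0, .ofNat 0, .ofNat 468046547014650620176907577518279961929249261092864,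 .ofNat 0, .ofNat 0, .ofNat 0, .ofNat 2562414312499722963867227007795710699542478474706944, .ofNat 0⟩)
    (by decide +kernel)
theorem L07978 : Good (Phi V5.P V5.D (-1) (-1)) ⟨7, 114, 6, 42, 4, 15, 4, 13, 5, 2⟩ :=
  leafX_sound T5.ok_mm T5.Ymm.bz_eq (w := 285) (c := ⟨⟨.negSucc 1484, .ofNat 104, .ofNat 14, .ofNat 496, .ofNat 523, .ofNat 1020⟩, ⟨.ofNat 982, .negSucc 87, .ofNat 7, .negSucc 325, .negSucc 348, .negSucc 680⟩, ⟨.ofNat 945, .ofNat 45, .negSucc 54, .negSucc 93, .negSucc 343, .negSucc 561⟩, ⟨.negSucc 3245, .ofNat 97, .ofNat 123, .ofNat 834, .ofNat 1192, .ofNat 2127⟩, ⟨.negSucc 1749, .ofNat 44, .ofNat 99, .ofNat 217, .ofNat 685, .ofNat 1042⟩, .ofNat 12201, .ofNat 17813, .ofNat 0, .ofNat 17813, .ofNat 26788, .ofNat 0, .ofNat 128, .negSucc 3612, .negSucc 7395, .ofNat 0, .ofNat 2399, .ofNat 4891, .ofNat 0, .ofNat 0, .ofNat 3805, .ofNat 4294, .ofNat 0, .ofNat 0, .ofNat 0, .ofNat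 0, .ofNat 0, .ofNat 0, .ofNat 10570243496817335460931249654024589583904984134582272, .ofNat 0, .ofNat 0, .ofNat 0, .ofNat 0, .ofNat 0, .ofNat 0, .ofNat 0, .ofNat 0, .ofNat 0⟩)
    (by decide +kernel)
theorem L07979 : Good (Phi V5.P V5.D (-1) (-1)) ⟨7, 114, 6, 42, 4, 15, 4, 13, 5, 3⟩ :=
  leafX_sound T5.ok_mm T5.Ymm.bz_eq (w := 286) (c := ⟨⟨.negSucc 685, .ofNat 122, .ofNat 52, .ofNat 951, .ofNat 617, .ofNat 61⟩, ⟨.ofNat 452, .negSucc 59, .negSucc 47, .negSucc 624, .negSucc 407, .negSucc 40⟩, ⟨.ofNat 388, .ofNat 58, .negSucc 64, .negSucc 169, .negSucc 307, .negSucc 71⟩, ⟨.negSucc 1173, .ofNat 73, .ofNat 118, .ofNat 1326, .ofNat 1041, .ofNat 207⟩, ⟨.negSucc 326, .negSucc 10, .ofNat 0, .ofNat 0, .ofNat 268, .ofNat 180⟩, .ofNat 17424, .ofNat 25594, .ofNat 0, .ofNat 25594, .ofNat 38383, .ofNat 0, .ofNat 128, .negSucc 6977, .negSucc 3968, .ofNat 0, .ofNat 4648, .ofNat 2632, .ofNat 0,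 .ofNat 0, .ofNat 2474, .ofNat 3604, .ofNat 0, .ofNat 0, .ofNat 0, .ofNat 0, .ofNat 0, .ofNat 0, .ofNat 14293613655374983339948679466070168862497335876255744, .ofNat 0, .ofNat 0, .ofNat 0, .ofNat 0, .ofNat 0, .ofNat 0, .ofNat 0, .ofNat 1020926839334025394052830272945088885072051411353600, .ofNat 2108728165904878489737935572513605611655905124842384489969614848⟩)
    (by decide +kernel)
theorem L07980 : Good (Phi V5.P V5.D (-1) (-1)) ⟨7, 115, 6, 42, 4, 15, 4, 13, 4, 1⟩ :=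
  out_sound (S := T5.ds_mm) T5.ok_mm (w := 75) (j := 3) (by decide +kernel)
theorem L07981 : Good (Phi V5.P V5.D (-1) (-1)) ⟨6, 56, 6, 43, 4, 15, 4, 13, 4, 1⟩ :=
  out_sound (S := T5.ds_mm) T5.ok_mm (w := 69) (j := 3) (by decide +kernel)
theorem L07982 : Good (Phi V5.P V5.D (-1) (-1)) ⟨8, 228, 6, 43, 4, 15, 4, 13, 4, 1⟩ :=
  out_sound (S := T5.ds_mm) T5.ok_mm (w := 81) (j := 3) (by decide +kernel)
theorem L07983 : Good (Phi V5.P V5.D (-1) (-1)) ⟨8, 229, 6, 43, 4, 15, 4, 13, 4, 1⟩ :=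
  out_sound (S := T5.ds_mm) T5.ok_mm (w := 23) (j := 4) (by decide +kernel)
theorem L07984 : Good (Phi V5.P V5.D (-1) (-1)) ⟨7, 115, 6, 43, 4, 15, 4, 13, 4, 1⟩ :=
  out_sound (S := T5.ds_mm) T5.ok_mm (w := 21) (j := 4) (by decide +kernel)
theorem L07985 : Good (Phi V5.P V5.D (-1) (-1)) ⟨5, 29, 5, 21, 4, 15, 4, 13, 4, 1⟩ :=
  out_sound (S := T5.ds_mm) T5.ok_mm (w := 61) (j := 3) (by decide +kernel)
theorem L07986 : Good (Phi V5.P V5.D (-1) (-1)) ⟨6, 56, 4, 11, 4, 15, 4, 13, 4, 1⟩ :=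
  out_sound (S := T5.ds_mm) T5.ok_mm (w := 65) (j := 3) (by decide +kernel)
theorem L07987 : Good (Phi V5.P V5.D (-1) (-1)) ⟨7, 114, 5, 22, 4, 15, 4, 13, 4, 1⟩ :=
  out_sound (S := T5.ds_mm) T5.ok_mm (w := 73) (j := 3) (by decide +kernel)
theorem L07988 : Good (Phi V5.P V5.D (-1) (-1)) ⟨7, 115, 5, 22, 4, 15, 4, 13, 4, 1⟩ :=
  out_sound (S := T5.ds_mm) T5.ok_mm (w := 21) (j := 4) (by decide +kernel)
theorem L07989 : Good (Phi V5.P V5.D (-1) (-1)) ⟨6, 57, 5, 23, 4, 15, 4, 13, 4, 1⟩ :=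
  out_sound (S := T5.ds_mm) T5.ok_mm (w := 67) (j := 3) (by decide +kernel)
theorem L07990 : Good (Phi V5.P V5.D (-1) (-1)) ⟨5, 29, 4, 11, 4, 15, 4, 13, 4, 1⟩ :=
  out_sound (S := T5.ds_mm) T5.ok_mm (w := 17) (j := 4) (by decide +kernel)
theorem L07991 : Good (Phi V5.P V5.D (-1) (-1)) ⟨4, 15, 3, 5, 4, 15, 3, 6, 4, 1⟩ :=
  out_sound (S := T5.ds_mm) T5.ok_mm (w := 51) (j := 3) (by decide +kernel)
theorem L07992 : Good (Phi V5.P V5.D (-1) (-1)) ⟨2, 2, 5, 20, 4, 14, 4, 14, 4, 0⟩ :=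
  out_sound (S := T5.ds_mm) T5.ok_mm (w := 43) (j := 3) (by decide +kernel)
theorem L07993 : Good (Phi V5.P V5.D (-1) (-1)) ⟨3, 6, 5, 20, 4, 14, 4, 14, 4, 0⟩ :=
  out_sound (S := T5.ds_mm) T5.ok_mm (w := 49) (j := 3) (by decide +kernel)
theorem L07994 : Good (Phi V5.P V5.D (-1) (-1)) ⟨6, 56, 6, 40, 4, 14, 4, 14, 5, 0⟩ :=
  leafX_sound T5.ok_mm T5.Ymm.bz_eq (w := 279) (c := ⟨⟨.negSucc 356, .negSucc 95, .ofNat 6, .negSucc 231, .negSucc 313, .negSucc 500⟩, ⟨.ofNat 229, .ofNat 41, .ofNat 14, .ofNat 148, .ofNat 200, .ofNat 318⟩, ⟨.ofNat 684, .negSucc 8, .ofNat 19, .ofNat 166, .ofNat 63, .ofNat 74⟩, ⟨.negSucc 1038, .negSucc 85, .negSucc 16, .negSucc 407, .negSucc 601, .negSucc 908⟩, ⟨.negSucc 810, .ofNat 41, .negSucc 20, .negSucc 123, .negSucc 243, .negSucc 310⟩, .ofNat 8141, .ofNat 12113, .ofNat 0, .ofNat 12113, .ofNat 18859, .ofNat 0, .ofNat 128, .negSucc 1218, .negSucc 6178, .ofNat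 0, .ofNat 783, .ofNat 3946, .ofNat 0, .ofNat 0, .ofNat 4168, .ofNat 3239, .ofNat 0, .ofNat 0, .ofNat 0, .ofNat 0, .ofNat 0, .ofNat 0, .ofNat 2846758631335612918301604490285451244174751138054144, .ofNat 0, .ofNat 0, .ofNat 0, .ofNat 0, .ofNat 0, .ofNat 0, .ofNat 0, .ofNat 0, .ofNat 0⟩)
    (by decide +kernel)
theorem L07995 : Good (Phi V5.P V5.D (-1) (-1)) ⟨6, 56, 6, 41, 4, 14, 4, 14, 5, 0⟩ :=
  leafX_sound T5.ok_mm T5.Ymm.bz_eq (w := 280) (c := ⟨⟨.negSucc 404, .negSucc 97, .negSucc 76, .negSucc 265, .negSucc 233, .negSucc 348⟩, ⟨.ofNat 264, .ofNat 52, .ofNat 68, .ofNat 174, .ofNat 152, .ofNat 227⟩, ⟨.ofNat 633, .ofNat 142, .ofNat 31, .ofNat 173, .ofNat 9, .negSucc 14⟩, ⟨.negSucc 940, .negSucc 184, .negSucc 180, .negSucc 530, .negSucc 531, .negSucc 798⟩, ⟨.negSucc 595, .negSucc 35, .negSucc 110, .negSucc 234, .negSucc 306, .negSucc 463⟩, .ofNat 5765, .ofNat 8365, .ofNat 0, .ofNat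 8365, .ofNat 12935, .ofNat 0, .ofNat 128, .negSucc 1967, .negSucc 11758, .ofNat 0, .ofNat 1278, .ofNat 7587, .ofNat 0, .ofNat 0, .ofNat 7688, .ofNat 3353, .ofNat 0, .ofNat 0, .ofNat 4420359087197181289609491380821764212420549541888, .ofNat 0, .ofNat 0, .ofNat 0, .ofNat 233100276511175536080460153725133352793975774248960, .ofNat 0, .ofNat 0, .ofNat 0, .ofNat 0, .ofNat 0, .ofNat 0, .ofNat 0, .ofNat 0, .ofNat 0⟩)
    (by decide +kernel)
theorem L07996 : Good (Phi V5.P V5.D (-1) (-1)) ⟨6, 57, 5, 20, 4, 14, 4, 14, 5, 0⟩ :=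
  leafX_sound T5.ok_mm T5.Ymm.bz_eq (w := 284) (c := ⟨⟨.negSucc 487, .ofNat 0, .ofNat 1, .negSucc 267, .negSucc 234, .negSucc 379⟩, ⟨.ofNat 309, .ofNat 0, .ofNat 11, .ofNat 176, .ofNat 154, .ofNat 250⟩, ⟨.ofNat 766, .ofNat 0, .negSucc 13, .ofNat 181, .ofNat 1, .negSucc 4⟩, ⟨.negSucc 1494, .ofNat 1, .negSucc 0, .negSucc 305, .negSucc 300, .negSucc 429⟩, ⟨.negSucc 1221, .ofNat 1, .negSucc 0, .ofNat 104, .ofNat 45, .ofNat 152⟩, .ofNat 26851, .ofNat 40067, .ofNat 0, .ofNat 40067, .ofNat 60600, .ofNat 0, .ofNat 128, .negSucc 4752, .negSucc 27091, .ofNat 0, .ofNat 3139, .ofNat 17858, .ofNat 0, .ofNat 0, .ofNat 17835, .ofNat 59171, .ofNat 0, .ofNat 0, .ofNat 5436384916294772998969448670449034626822433669120, .ofNat 0, .ofNat 0, .ofNat 0, .ofNat 3382830480156197054108917042791106135149402648309923840, .ofNat 0, .ofNat 0, .ofNat 0, .ofNat 15551259676030253514380891522856114210031177731932160,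 .ofNat 0, .ofNat 0, .ofNat 0, .ofNat 35429445301307666612326173090044562143265881394774016, .ofNat 0⟩)
    (by decide +kernel)
theorem L07997 : Good (Phi V5.P V5.D (-1) (-1)) ⟨5, 29, 5, 20, 4, 14, 4, 14, 5, 0⟩ :=
  out_sound (S := T5.ds_mm) T5.ok_mm (w := 61) (j := 3) (by decide +kernel)
theorem L07998 : Good (Phi V5.P V5.D (-1) (-1)) ⟨4, 15, 5, 20, 4, 14, 4, 14, 5, 0⟩ :=
  out_sound (S := T5.ds_mm) T5.ok_mm (w := 55) (j := 3) (by decide +kernel)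
theorem L07999 : Good (Phi V5.P V5.D (-1) (-1)) ⟨6, 56, 5, 20, 4, 14, 4, 14, 5, 1⟩ :=
  leafX_sound T5.ok_mm T5.Ymm.bz_eq (w := 274) (c := ⟨⟨.negSucc 1243, .ofNat 82, .ofNat 28, .negSucc 9, .ofNat 173, .ofNat 313⟩, ⟨.ofNat 803, .negSucc 91, .ofNat 33, .ofNat 5, .negSucc 111, .negSucc 204⟩, ⟨.ofNat 944, .negSucc 6, .negSucc 23, .ofNat 24, .negSucc 228, .negSucc 389⟩, ⟨.negSucc 2677, .ofNat 103, .negSucc 69, .ofNat 35, .ofNat 308, .ofNat 599⟩, ⟨.negSucc 1415, .negSucc 36, .negSucc 134, .ofNat 76, .ofNat 98, .ofNat 241⟩, .ofNat 5324, .ofNat 7730, .ofNat 0, .ofNat 7730, .ofNat 12029, .ofNat 0, .ofNat 128, .negSucc 1433, .negSucc 4378, .ofNat 0, .ofNat 926, .ofNat 2802, .ofNat 0, .ofNat 0, .ofNat 2738, .ofNat 3549, .ofNat 0, .ofNat 0, .ofNat 0, .ofNat 0, .ofNat 0, .ofNat 0, .ofNat 612489560519927199669826080592525295107652905336832, .ofNat 0, .ofNat 0, .ofNat 0, .ofNat 0, .ofNat 0,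 .ofNat 0, .ofNat 0, .ofNat 147879738172114854162746451457346232012476080193536, .ofNat 0⟩)
    (by decide +kernel)
theorem L08000 : Good (Phi V5.P V5.D (-1) (-1)) ⟨6, 57, 5, 20, 4, 14, 4, 14, 5, 1⟩ :=
  leafX_sound T5.ok_mm T5.Ymm.bz_eq (w := 283) (c := ⟨⟨.negSucc 1272, .ofNat 0, .ofNat 21, .negSucc 64, .ofNat 229, .ofNat 426⟩, ⟨.ofNat 804, .ofNat 0, .ofNat 19, .ofNat 43, .negSucc 150, .negSucc 280⟩, ⟨.ofNat 968, .ofNat 0, .ofNat 10, .ofNat 54, .negSucc 257, .negSucc 450⟩, ⟨.negSucc 2522, .ofNat 1, .negSucc 0, .negSucc 57, .ofNat 248, .ofNat 448⟩, ⟨.negSucc 1155, .ofNat 1, .negSucc 0, .ofNat 49, .negSucc 108, .negSucc 222⟩, .ofNat 26831, .ofNat 40037, .ofNat 0, .ofNat 40037, .ofNat 60555, .ofNat 0, .ofNat 128, .negSucc 6268, .negSucc 22814, .ofNat 0, .ofNat 4141, .ofNat 15033, .ofNat 0, .ofNat 0, .ofNat 14178, .ofNat 57402, .ofNat 0, .ofNat 0, .ofNat 4140118231673663507256441511283310223673067044864,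 .ofNat 0, .ofNat 0, .ofNat 0, .ofNat 2228527699601036714005271415391973722296617218967863296, .ofNat 0, .ofNat 0, .ofNat 0, .ofNat 2784933975020452953961849473051084750806744557420544, .ofNat 0, .ofNat 0, .ofNat 0, .ofNat 752446173574890012062152670956814705945918682634911744, .ofNat 0⟩)
    (by decide +kernel)
theorem L08001 : Good (Phi V5.P V5.D (-1) (-1)) ⟨5, 29, 5, 20, 4, 14, 4, 14, 5, 1⟩ :=
  out_sound (S := T5.ds_mm) T5.ok_mm (w := 61) (j := 3) (by decide +kernel)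
theorem L08002 : Good (Phi V5.P V5.D (-1) (-1)) ⟨4, 15, 5, 20, 4, 14, 4, 14, 5, 1⟩ :=
  out_sound (S := T5.ds_mm) T5.ok_mm (w := 55) (j := 3) (by decide +kernel)
theorem L08003 : Good (Phi V5.P V5.D (-1) (-1)) ⟨2, 2, 6, 42, 4, 14, 4, 14, 4, 0⟩ :=
  out_sound (S := T5.ds_mm) T5.ok_mm (w := 45) (j := 3) (by decide +kernel)
theorem L08004 : Good (Phi V5.P V5.D (-1) (-1)) ⟨3, 6, 6, 42, 4, 14, 4, 14, 4, 0⟩ :=
  out_sound (S := T5.ds_mm) T5.ok_mm (w := 51) (j := 3) (by decide +kernel)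
theorem L08005 : Good (Phi V5.P V5.D (-1) (-1)) ⟨6, 56, 6, 42, 4, 14, 4, 14, 5, 0⟩ :=
  leafX_sound T5.ok_mm T5.Ymm.bz_eq (w := 284) (c := ⟨⟨.negSucc 647, .ofNat 0, .ofNat 44, .negSucc 126, .negSucc 166, .negSucc 366⟩, ⟨.ofNat 425, .ofNat 0, .negSucc 12, .ofNat 83, .ofNat 110, .ofNat 241⟩, ⟨.ofNat 872, .ofNat 0, .negSucc 168, .ofNat 80, .negSucc 41, .negSucc 19⟩, ⟨.negSucc 1492, .negSucc 0, .ofNat 32, .negSucc 181, .negSucc 417, .negSucc 693⟩, ⟨.negSucc 879, .negSucc 0, .negSucc 11, .negSucc 6, .negSucc 274, .negSucc 269⟩, .ofNat 14591, .ofNat 21602, .ofNat 0, .ofNat 21602, .ofNat 32787, .ofNat 0, .ofNat 128, .negSucc 3954, .negSucc 17306, .ofNat 0, .ofNat 2608, .ofNat 11382, .ofNat 0, .ofNat 0, .ofNat 11342, .ofNat 19554, .ofNat 0, .ofNat 0, .ofNat 0, .ofNat 0, .ofNat 0, .ofNat 0, .ofNat 21549487244358874065053622741534174016471431026573312, .ofNat 0, .ofNat 0, .ofNat 0, .ofNat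 132815236666662744930328188308729550401870371810705408, .ofNat 0, .ofNat 0, .ofNat 0, .ofNat 83063688200787495768637514073202329518601831547142144, .ofNat 0⟩)
    (by decide +kernel)
theorem L08006 : Good (Phi V5.P V5.D (-1) (-1)) ⟨6, 57, 6, 42, 4, 14, 4, 14, 5, 0⟩ :=
  leafX_sound T5.ok_mm T5.Ymm.bz_eq (w := 280) (c := ⟨⟨.negSucc 649, .negSucc 47, .ofNat 17, .negSucc 159, .negSucc 159, .negSucc 366⟩, ⟨.ofNat 421, .negSucc 47, .ofNat 27, .ofNat 109, .ofNat 108, .ofNat 245⟩, ⟨.ofNat 862, .negSucc 42, .ofNat 19, .ofNat 111, .negSucc 51, .negSucc 23⟩, ⟨.negSucc 1195, .negSucc 36, .negSucc 165, .negSucc 448, .negSucc 494, .negSucc 881⟩, ⟨.negSucc 435, .negSucc 62, .negSucc 246, .negSucc 333, .negSucc 401, .negSucc 545⟩, .ofNat 7274, .ofNat 10525, .ofNat 0, .ofNat 10525, .ofNat 16009, .ofNat 0, .ofNat 128, .negSucc 1995, .negSucc 10726, .ofNat 0, .ofNat 1317, .ofNat 7049, .ofNat 0,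 .ofNat 0, .ofNat 6825, .ofNat 4923, .ofNat 0, .ofNat 0, .ofNat 11511582327370752275627148565022054638766736277504, .ofNat 0, .ofNat 0, .ofNat 0, .ofNat 6881861240056093396559188900778853307253157980536832, .ofNat 238939655518338089726906645636713214999276127836599424454230016, .ofNat 0, .ofNat 0, .ofNat 643185531709545496300353175635723698373429378940928, .ofNat 321427603157917246834440536900375008870113773331118940928081920, .ofNat 0, .ofNat 0, .ofNat 4896742941910583788967464146502617171455665422467072, .ofNat 805676039161606626042869113795552209668216633104419870870601728⟩)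
    (by decide +kernel)
theorem L08007 : Good (Phi V5.P V5.D (-1) (-1)) ⟨5, 29, 6, 42, 4, 14, 4, 14, 5, 0⟩ :=
  out_sound (S := T5.ds_mm) T5.ok_mm (w := 63) (j := 3) (by decide +kernel)
theorem L08008 : Good (Phi V5.P V5.D (-1) (-1)) ⟨4, 15, 6, 42, 4, 14, 4, 14, 5, 0⟩ :=
  out_sound (S := T5.ds_mm) T5.ok_mm (w := 57) (j := 3) (by decide +kernel)
theorem L08009 : Good (Phi V5.P V5.D (-1) (-1)) ⟨4, 14, 6, 42, 4, 14, 4, 14, 5, 1⟩ :=
  leafX_sound T5.ok_mm T5.Ymm.bz_eq (w := 269) (c := ⟨⟨.negSucc 1263, .negSucc 70, .ofNat 3, .negSucc 42, .ofNat 209, .ofNat 440⟩, ⟨.ofNat 851, .negSucc 26, .ofNat 17, .ofNat 30, .negSucc 138, .negSucc 294⟩, ⟨.ofNat 1001, .negSucc 39, .ofNat 13, .ofNat 46, .negSucc 244, .negSucc 463⟩, ⟨.negSucc 2777, .negSucc 9, .negSucc 6, .negSucc 109, .ofNat 360, .ofNat 780⟩, ⟨.negSucc 1478, .negSucc 1, .ofNat 3, .negSucc 73, .ofNat 100, .ofNat 244⟩, .ofNat 4333,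 .ofNat 5898, .ofNat 0, .ofNat 5898, .ofNat 8742, .ofNat 0, .ofNat 128, .negSucc 1331, .negSucc 5162, .ofNat 0, .ofNat 889, .ofNat 3393, .ofNat 0, .ofNat 0, .ofNat 3029, .ofNat 3650, .ofNat 0, .ofNat 0, .ofNat 6948137771174002756472523994333860207355179827200, .ofNat 12952422378895030389129400105294297816357737683084938051584, .ofNat 0, .ofNat 0, .ofNat 1759957948290953984228049219609820506135177212198912, .ofNat 4135364492388758529589230773734106006291596363484606526128128, .ofNat 0, .ofNat 0, .ofNat 906315381948665413103600447540822407889287286620160, .ofNat 7704242971000309584636030345680323406536414804865477246976, .ofNat 0, .ofNat 0, .ofNat 4835934512821326160140323703946557721437181333995520, .ofNat 3993478830358048478905045817791151460428312543472430927052800⟩)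
    (by decide +kernel)
theorem L08010 : Good (Phi V5.P V5.D (-1) (-1)) ⟨4, 15, 6, 42, 4, 14, 4, 14, 5, 1⟩ :=
  out_sound (S := T5.ds_mm) T5.ok_mm (w := 57) (j := 3) (by decide +kernel)
theorem L08011 : Good (Phi V5.P V5.D (-1) (-1)) ⟨2, 2, 6, 43, 4, 14, 4, 14, 4, 0⟩ :=
  out_sound (S := T5.ds_mm) T5.ok_mm (w := 45) (j := 3) (by decide +kernel)
theorem L08012 : Good (Phi V5.P V5.D (-1) (-1)) ⟨3, 6, 6, 43, 4, 14, 4, 14, 4, 0⟩ :=
  out_sound (S := T5.ds_mm) T5.ok_mm (w := 51) (j := 3) (by decide +kernel)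
theorem L08013 : Good (Phi V5.P V5.D (-1) (-1)) ⟨6, 56, 6, 43, 4, 14, 4, 14, 4, 0⟩ :=
  out_sound (S := T5.ds_mm) T5.ok_mm (w := 69) (j := 3) (by decide +kernel)
theorem L08014 : Good (Phi V5.P V5.D (-1) (-1)) ⟨8, 228, 6, 43, 4, 14, 4, 14, 4, 0⟩ :=
  out_sound (S := T5.ds_mm) T5.ok_mm (w := 81) (j := 3) (by decide +kernel)
theorem L08015 : Good (Phi V5.P V5.D (-1) (-1)) ⟨8, 229, 6, 43, 4, 14, 4, 14, 4, 0⟩ :=
  out_sound (S := T5.ds_mm) T5.ok_mm (w := 23) (j := 4) (by decide +kernel)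
theorem L08016 : Good (Phi V5.P V5.D (-1) (-1)) ⟨7, 115, 6, 43, 4, 14, 4, 14, 4, 0⟩ :=
  out_sound (S := T5.ds_mm) T5.ok_mm (w := 21) (j := 4) (by decide +kernel)
theorem L08017 : Good (Phi V5.P V5.D (-1) (-1)) ⟨5, 29, 6, 43, 4, 14, 4, 14, 4, 0⟩ :=
  out_sound (S := T5.ds_mm) T5.ok_mm (w := 63) (j := 3) (by decide +kernel)
theorem L08018 : Good (Phi V5.P V5.D (-1) (-1)) ⟨4, 15, 6, 43, 4, 14, 4, 14, 4, 0⟩ :=
  out_sound (S := T5.ds_mm) T5.ok_mm (w := 57) (j := 3) (by decide +kernel)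
theorem L08019 : Good (Phi V5.P V5.D (-1) (-1)) ⟨2, 2, 4, 11, 4, 14, 4, 14, 4, 0⟩ :=
  out_sound (S := T5.ds_mm) T5.ok_mm (w := 41) (j := 3) (by decide +kernel)
theorem L08020 : Good (Phi V5.P V5.D (-1) (-1)) ⟨3, 6, 4, 11, 4, 14, 4, 14, 4, 0⟩ :=
  out_sound (S := T5.ds_mm) T5.ok_mm (w := 47) (j := 3) (by decide +kernel)
theorem L08021 : Good (Phi V5.P V5.D (-1) (-1)) ⟨6, 56, 4, 11, 4, 14, 4, 14, 4, 0⟩ :=
  out_sound (S := T5.ds_mm) T5.ok_mm (w := 65) (j := 3) (by decide +kernel)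
theorem L08022 : Good (Phi V5.P V5.D (-1) (-1)) ⟨7, 114, 5, 22, 4, 14, 4, 14, 4, 0⟩ :=
  out_sound (S := T5.ds_mm) T5.ok_mm (w := 73) (j := 3) (by decide +kernel)
theorem L08023 : Good (Phi V5.P V5.D (-1) (-1)) ⟨7, 115, 5, 22, 4, 14, 4, 14, 4, 0⟩ :=
  out_sound (S := T5.ds_mm) T5.ok_mm (w := 21) (j := 4) (by decide +kernel)
theorem L08024 : Good (Phi V5.P V5.D (-1) (-1)) ⟨6, 57, 5, 23, 4, 14, 4, 14, 4, 0⟩ :=
  out_sound (S := T5.ds_mm) T5.ok_mm (w := 67) (j := 3) (by decide +kernel)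
theorem L08025 : Good (Phi V5.P V5.D (-1) (-1)) ⟨5, 29, 4, 11, 4, 14, 4, 14, 4, 0⟩ :=
  out_sound (S := T5.ds_mm) T5.ok_mm (w := 17) (j := 4) (by decide +kernel)
theorem L08026 : Good (Phi V5.P V5.D (-1) (-1)) ⟨4, 15, 4, 11, 4, 14, 4, 14, 4, 0⟩ :=
  out_sound (S := T5.ds_mm) T5.ok_mm (w := 53) (j := 3) (by decide +kernel)
theorem L08027 : Good (Phi V5.P V5.D (-1) (-1)) ⟨2, 2, 4, 10, 5, 28, 4, 15, 5, 0⟩ :=
  out_sound (S := T5.ds_mm) T5.ok_mm (w := 41) (j := 3) (by decide +kernel)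
theorem L08028 : Good (Phi V5.P V5.D (-1) (-1)) ⟨3, 6, 4, 10, 5, 28, 4, 15, 5, 0⟩ :=
  out_sound (S := T5.ds_mm) T5.ok_mm (w := 47) (j := 3) (by decide +kernel)
theorem L08029 : Good (Phi V5.P V5.D (-1) (-1)) ⟨5, 28, 5, 20, 5, 28, 4, 15, 5, 0⟩ :=
  leafX_sound T5.ok_mm T5.Ymm.bz_eq (w := 283) (c := ⟨⟨.negSucc 978, .ofNat 40, .negSucc 37, .negSucc 25, .ofNat 245, .negSucc 13⟩, ⟨.ofNat 631, .negSucc 97, .ofNat 73, .ofNat 17, .negSucc 160, .ofNat 9⟩, ⟨.ofNat 932, .negSucc 66, .ofNat 45, .ofNat 14, .negSucc 307, .negSucc 217⟩, ⟨.negSucc 2120, .ofNat 55, .negSucc 117, .negSucc 62, .ofNat 434, .negSucc 125⟩, ⟨.negSucc 1133, .negSucc 43, .negSucc 66, .negSucc 39, .ofNat 133, .negSucc 159⟩, .ofNat 3968, .ofNat 5601, .ofNat 0, .ofNat 5601, .ofNat 8683, .ofNat 0, .ofNat 128, .negSucc 792, .negSucc 3792, .ofNat 0, .ofNat 515, .ofNat 2428, .ofNat 0, .ofNat 0, .ofNat 2634, .ofNat 6499, .ofNat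 0, .ofNat 0, .ofNat 36637746129792320173501345454687234939481108229652480, .ofNat 0, .ofNat 0, .ofNat 0, .ofNat 10745461708341004505784985638484605170938835066802929664, .ofNat 0, .ofNat 0, .ofNat 0, .ofNat 3313679400629706151670454554179379899123726031045787648, .ofNat 17486860355771379370887580401575464812885589434993657681486544896, .ofNat 0, .ofNat 0, .ofNat 20733845913537512377791919886559983238063351803938865152, .ofNat 13138503596805080224054886302920922412897750450499946152732917760⟩)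
    (by decide +kernel)
theorem L08030 : Good (Phi V5.P V5.D (-1) (-1)) ⟨5, 28, 5, 21, 5, 28, 4, 15, 5, 0⟩ :=
  leafX_sound T5.ok_mm T5.Ymm.bz_eq (w := 287) (c := ⟨⟨.negSucc 1054, .negSucc 19, .ofNat 21, .negSucc 97, .ofNat 318, .ofNat 81⟩, ⟨.ofNat 702, .negSucc 5, .ofNat 20, .ofNat 65, .negSucc 211, .negSucc 52⟩, ⟨.ofNat 996, .negSucc 15, .ofNat 7, .ofNat 58, .negSucc 352, .negSucc 279⟩, ⟨.negSucc 2227, .negSucc 5, .negSucc 10, .negSucc 205, .ofNat 505, .negSucc 21⟩, ⟨.negSucc 1107, .negSucc 7, .negSucc 30, .negSucc 103, .ofNat 90, .negSucc 199⟩, .ofNat 7168, .ofNat 10373, .ofNat 0, .ofNat 10373, .ofNat 15794, .ofNat 0, .ofNat 128, .negSucc 1772, .negSucc 8577, .ofNat 0, .ofNat 1170, .ofNat 5633, .ofNat 0, .ofNat 0, .ofNat 5878, .ofNat 1450, .ofNat 0, .ofNat 0, .ofNat 16476099110249495900671087588670104692852927020138496, .ofNat 34430379942123924883149073819368580747130736381706281817210880,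 .ofNat 0, .ofNat 0, .ofNat 29518857006931873244379705365138678929664273704265187328, .ofNat 88746873518321006510530412493506473172159942783943357348764975104, .ofNat 0, .ofNat 0, .ofNat 2122908158448092532935797015043967216183217618079973376, .ofNat 93419727554410544374423531370046244222321831806953244249854836736, .ofNat 0, .ofNat 0, .ofNat 8551014432325806459076653396158486472965322904728240128, .ofNat 433699203561920279057026574178627755902947280976803753486347927552⟩)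
    (by decide +kernel)
theorem L08031 : Good (Phi V5.P V5.D (-1) (-1)) ⟨5, 29, 4, 10, 5, 28, 4, 15, 5, 0⟩ :=
  out_sound (S := T5.ds_mm) T5.ok_mm (w := 59) (j := 3) (by decide +kernel)
theorem L08032 : Good (Phi V5.P V5.D (-1) (-1)) ⟨4, 15, 4, 10, 5, 28, 4, 15, 5, 0⟩ :=
  out_sound (S := T5.ds_mm) T5.ok_mm (w := 53) (j := 3) (by decide +kernel)
theorem L08033 : Good (Phi V5.P V5.D (-1) (-1)) ⟨2, 2, 4, 11, 5, 28, 4, 15, 5, 0⟩ :=
  out_sound (S := T5.ds_mm) T5.ok_mm (w := 41) (j := 3) (by decide +kernel)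
theorem L08034 : Good (Phi V5.P V5.D (-1) (-1)) ⟨3, 6, 4, 11, 5, 28, 4, 15, 5, 0⟩ :=
  out_sound (S := T5.ds_mm) T5.ok_mm (w := 47) (j := 3) (by decide +kernel)
theorem L08035 : Good (Phi V5.P V5.D (-1) (-1)) ⟨6, 56, 4, 11, 5, 28, 4, 15, 5, 0⟩ :=
  out_sound (S := T5.ds_mm) T5.ok_mm (w := 65) (j := 3) (by decide +kernel)
theorem L08036 : Good (Phi V5.P V5.D (-1) (-1)) ⟨7, 114, 5, 22, 5, 28, 4, 15, 5, 0⟩ :=
  out_sound (S := T5.ds_mm) T5.ok_mm (w := 73) (j := 3) (by decide +kernel)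
theorem L08037 : Good (Phi V5.P V5.D (-1) (-1)) ⟨7, 115, 5, 22, 5, 28, 4, 15, 5, 0⟩ :=
  out_sound (S := T5.ds_mm) T5.ok_mm (w := 21) (j := 4) (by decide +kernel)
theorem L08038 : Good (Phi V5.P V5.D (-1) (-1)) ⟨6, 57, 5, 23, 5, 28, 4, 15, 5, 0⟩ :=
  out_sound (S := T5.ds_mm) T5.ok_mm (w := 67) (j := 3) (by decide +kernel)
theorem L08039 : Good (Phi V5.P V5.D (-1) (-1)) ⟨5, 29, 4, 11, 5, 28, 4, 15, 5, 0⟩ :=
  out_sound (S := T5.ds_mm) T5.ok_mm (w := 17) (j := 4) (by decide +kernel)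
theorem L08040 : Good (Phi V5.P V5.D (-1) (-1)) ⟨4, 15, 4, 11, 5, 28, 4, 15, 5, 0⟩ :=
  out_sound (S := T5.ds_mm) T5.ok_mm (w := 53) (j := 3) (by decide +kernel)
theorem L08041 : Good (Phi V5.P V5.D (-1) (-1)) ⟨2, 2, 3, 5, 5, 28, 4, 15, 5, 1⟩ :=
  out_sound (S := T5.ds_mm) T5.ok_mm (w := 39) (j := 3) (by decide +kernel)
theorem L08042 : Good (Phi V5.P V5.D (-1) (-1)) ⟨3, 6, 3, 5, 5, 28, 4, 15, 5, 1⟩ :=
  out_sound (S := T5.ds_mm) T5.ok_mm (w := 45) (j := 3) (by decide +kernel)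
theorem L08043 : Good (Phi V5.P V5.D (-1) (-1)) ⟨4, 14, 5, 20, 5, 28, 4, 15, 5, 1⟩ :=
  leafX_sound T5.ok_mm T5.Ymm.bz_eq (w := 276) (c := ⟨⟨.negSucc 1082, .ofNat 22, .ofNat 17, .negSucc 24, .ofNat 433, .ofNat 497⟩, ⟨.ofNat 679, .ofNat 24, .ofNat 8, .ofNat 16, .negSucc 280, .negSucc 322⟩, ⟨.ofNat 738, .ofNat 44, .negSucc 10, .ofNat 24, .negSucc 399, .negSucc 487⟩, ⟨.negSucc 2470, .ofNat 7, .ofNat 17, .negSucc 37, .ofNat 839, .ofNat 936⟩, ⟨.negSucc 1457, .ofNat 4, .ofNat 6, .negSucc 4, .ofNat 345, .ofNat 358⟩, .ofNat 2610, .ofNat 3410, .ofNat 0, .ofNat 3410, .ofNat 5151, .ofNat 0, .ofNat 128, .negSucc 999, .negSucc 2122, .ofNat 0, .ofNat 657, .ofNat 1348, .ofNat 0, .ofNat 0, .ofNat 1339, .ofNat 2141, .ofNat 0, .ofNat 0, .ofNat 20967570456344114917518654013530406072484016697638912, .ofNat 3476617885390422551513217351407578686011728349471114059055104, .ofNat 0, .ofNat 0, .ofNat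 16565495721385086882804234114486377093740444604600156160, .ofNat 3855547532276619779238332640075891431445263350991117662197645312, .ofNat 0, .ofNat 0, .ofNat 0, .ofNat 0, .ofNat 0, .ofNat 0, .ofNat 3909469402950708650507454576961685212554009643149426688, .ofNat 1611545461081541489273381837627687293438603555171192010417635328⟩)
    (by decide +kernel)
theorem L08044 : Good (Phi V5.P V5.D (-1) (-1)) ⟨4, 14, 5, 21, 5, 28, 4, 15, 5, 1⟩ :=
  leafX_sound T5.ok_mm T5.Ymm.bz_eq (w := 280) (c := ⟨⟨.negSucc 1092, .negSucc 91, .ofNat 57, .negSucc 75, .ofNat 507, .ofNat 614⟩, ⟨.ofNat 775, .negSucc 160, .ofNat 14, .ofNat 50, .negSucc 335, .negSucc 406⟩, ⟨.ofNat 769, .negSucc 0, .negSucc 16, .ofNat 59, .negSucc 441, .negSucc 552⟩, ⟨.negSucc 2507, .ofNat 8, .ofNat 51, .negSucc 111, .ofNat 897, .ofNat 1087⟩, ⟨.negSucc 1415, .negSucc 2, .ofNat 6, .negSucc 9, .ofNat 281, .ofNat 342⟩, .ofNat 5627,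 .ofNat 7767, .ofNat 0, .ofNat 7767, .ofNat 11439, .ofNat 0, .ofNat 128, .negSucc 2010, .negSucc 3578, .ofNat 0, .ofNat 1357, .ofNat 2379, .ofNat 0, .ofNat 0, .ofNat 2254, .ofNat 2433, .ofNat 0, .ofNat 0, .ofNat 55270578990282082885461541806672225455342172298543104, .ofNat 0, .ofNat 0, .ofNat 503473964153623065469414038324999085534862101123644260352, .ofNat 20732791071541762235220827267792362547805199439270772736, .ofNat 17780453491782566824467443840948387646996254837079943206594936832, .ofNat 0, .ofNat 0, .ofNat 0, .ofNat 0, .ofNat 0, .ofNat 0, .ofNat 19269707175264819356693811607113381359247715962628079616, .ofNat 5706690112705756286992910020738102428773979143878149350969311232⟩)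
    (by decide +kernel)
theorem L08045 : Good (Phi V5.P V5.D (-1) (-1)) ⟨6, 56, 4, 11, 5, 28, 4, 15, 5, 1⟩ :=
  out_sound (S := T5.ds_mm) T5.ok_mm (w := 65) (j := 3) (by decide +kernel)
theorem L08046 : Good (Phi V5.P V5.D (-1) (-1)) ⟨7, 114, 5, 22, 5, 28, 4, 15, 5, 1⟩ :=
  out_sound (S := T5.ds_mm) T5.ok_mm (w := 73) (j := 3) (by decide +kernel)
theorem L08047 : Good (Phi V5.P V5.D (-1) (-1)) ⟨7, 115, 5, 22, 5, 28, 4, 15, 5, 1⟩ :=
  out_sound (S := T5.ds_mm) T5.ok_mm (w := 21) (j := 4) (by decide +kernel)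
theorem L08048 : Good (Phi V5.P V5.D (-1) (-1)) ⟨6, 57, 5, 23, 5, 28, 4, 15, 5, 1⟩ :=
  out_sound (S := T5.ds_mm) T5.ok_mm (w := 67) (j := 3) (by decide +kernel)
theorem L08049 : Good (Phi V5.P V5.D (-1) (-1)) ⟨5, 29, 4, 11, 5, 28, 4, 15, 5, 1⟩ :=
  out_sound (S := T5.ds_mm) T5.ok_mm (w := 17) (j := 4) (by decide +kernel)
theorem L08050 : Good (Phi V5.P V5.D (-1) (-1)) ⟨4, 15, 3, 5, 5, 28, 4, 15, 5, 1⟩ :=
  out_sound (S := T5.ds_mm) T5.ok_mm (w := 51) (j := 3) (by decide +kernel)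
theorem L08051 : Good (Phi V5.P V5.D (-1) (-1)) ⟨2, 2, 5, 20, 5, 29, 4, 15, 4, 0⟩ :=
  out_sound (S := T5.ds_mm) T5.ok_mm (w := 43) (j := 3) (by decide +kernel)
theorem L08052 : Good (Phi V5.P V5.D (-1) (-1)) ⟨3, 6, 5, 20, 5, 29, 4, 15, 4, 0⟩ :=
  out_sound (S := T5.ds_mm) T5.ok_mm (w := 49) (j := 3) (by decide +kernel)
theorem L08053 : Good (Phi V5.P V5.D (-1) (-1)) ⟨5, 28, 5, 20, 5, 29, 4, 15, 4, 0⟩ :=
  leafX_sound T5.ok_mm T5.Ymm.bz_eq (w := 278) (c := ⟨⟨.negSucc 1144, .negSucc 175, .ofNat 54, .negSucc 1, .ofNat 325, .ofNat 493⟩, ⟨.ofNat 733, .ofNat 64, .ofNat 7, .ofNat 2, .negSucc 209, .negSucc 319⟩, ⟨.ofNat 1049, .negSucc 63, .ofNat 28, .ofNat 0, .negSucc 355, .negSucc 708⟩, ⟨.negSucc 2399, .negSucc 164, .negSucc 10, .negSucc 106, .ofNat 490, .ofNat 820⟩, ⟨.negSucc 1192, .ofNat 33, .negSucc 87, .negSucc 158, .ofNat 49, .ofNat 194⟩, .ofNat 3968, .ofNat 5601, .ofNat 0, .ofNat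 5601, .ofNat 8683, .ofNat 0, .ofNat 128, .negSucc 1450, .negSucc 4323, .ofNat 0, .ofNat 937, .ofNat 2756, .ofNat 0, .ofNat 0, .ofNat 2747, .ofNat 2037, .ofNat 0, .ofNat 0, .ofNat 402633973128428149069941157587176420913347741876224, .ofNat 0, .ofNat 0, .ofNat 950596307643729845492966398183924978790385683693020643328, .ofNat 152194012710931332473155708585851208374075019889737728, .ofNat 0, .ofNat 0, .ofNat 0, .ofNat 139372027558281435192394319963180644248263601548165120, .ofNat 610928252461727195963606640334744221073511292484816391548960768, .ofNat 0, .ofNat 0, .ofNat 517192727352222221302881623346918167534594764184748032, .ofNat 0⟩)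
    (by decide +kernel)
theorem L08054 : Good (Phi V5.P V5.D (-1) (-1)) ⟨5, 29, 5, 20, 5, 29, 4, 15, 4, 0⟩ :=
  out_sound (S := T5.ds_mm) T5.ok_mm (w := 61) (j := 3) (by decide +kernel)
theorem L08055 : Good (Phi V5.P V5.D (-1) (-1)) ⟨4, 15, 5, 20, 5, 29, 4, 15, 4, 0⟩ :=
  out_sound (S := T5.ds_mm) T5.ok_mm (w := 55) (j := 3) (by decide +kernel)
theorem L08056 : Good (Phi V5.P V5.D (-1) (-1)) ⟨2, 2, 5, 21, 5, 29, 4, 15, 4, 0⟩ :=
  out_sound (S := T5.ds_mm) T5.ok_mm (w := 43) (j := 3) (by decide +kernel)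
theorem L08057 : Good (Phi V5.P V5.D (-1) (-1)) ⟨3, 6, 5, 21, 5, 29, 4, 15, 4, 0⟩ :=
  out_sound (S := T5.ds_mm) T5.ok_mm (w := 49) (j := 3) (by decide +kernel)
theorem L08058 : Good (Phi V5.P V5.D (-1) (-1)) ⟨6, 56, 5, 21, 5, 29, 4, 15, 4, 0⟩ :=
  leafX_sound T5.ok_mm T5.Ymm.bz_eq (w := 292) (c := ⟨⟨.negSucc 1254, .ofNat 0, .negSucc 36, .ofNat 12, .ofNat 336, .ofNat 579⟩, ⟨.ofNat 825, .ofNat 0, .ofNat 67, .negSucc 7, .negSucc 221, .negSucc 381⟩, ⟨.ofNat 1084, .ofNat 0, .negSucc 0, .negSucc 6, .negSucc 355, .negSucc 752⟩, ⟨.negSucc 2442, .negSucc 0, .negSucc 15, .ofNat 23, .ofNat 364, .ofNat 629⟩, ⟨.negSucc 1026, .negSucc 0, .ofNat 9, .ofNat 7, .negSucc 160, .negSucc 273⟩, .ofNat 23102, .ofNat 34421, .ofNat 0, .ofNat 34421, .ofNat 52096, .ofNat 0, .ofNat 128, .negSucc 9154, .negSucc 22219, .ofNat 0, .ofNat 6045, .ofNat 14638, .ofNat 0, .ofNat 0, .ofNat 14260, .ofNat 17239, .ofNat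 0, .ofNat 0, .ofNat 0, .ofNat 0, .ofNat 0, .ofNat 50353840558914801607812794694953516802696852541163299667968, .ofNat 6149531516958672114200165588125811870784724494417133568, .ofNat 0, .ofNat 0, .ofNat 0, .ofNat 33314429254945222483247427558217536872863122150249201664, .ofNat 0, .ofNat 0, .ofNat 0, .ofNat 0, .ofNat 0⟩)
    (by decide +kernel)
theorem L08059 : Good (Phi V5.P V5.D (-1) (-1)) ⟨6, 57, 5, 21, 5, 29, 4, 15, 4, 0⟩ :=
  leafX_sound T5.ok_mm T5.Ymm.bz_eq (w := 284) (c := ⟨⟨.negSucc 1300, .negSucc 17, .negSucc 6, .negSucc 50, .ofNat 384, .ofNat 675⟩, ⟨.ofNat 857, .ofNat 17, .ofNat 29, .ofNat 35, .negSucc 255, .negSucc 447⟩, ⟨.ofNat 1127, .negSucc 2, .ofNat 8, .ofNat 23, .negSucc 389, .negSucc 821⟩, ⟨.negSucc 2716, .negSucc 33, .negSucc 54, .negSucc 110, .ofNat 660, .ofNat 1096⟩, ⟨.negSucc 1348, .negSucc 20, .negSucc 42, .negSucc 57, .ofNat 183, .ofNat 230⟩, .ofNat 5676,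 .ofNat 8010, .ofNat 0, .ofNat 8010, .ofNat 12050, .ofNat 0, .ofNat 128, .negSucc 1715, .negSucc 5984, .ofNat 0, .ofNat 1142, .ofNat 3957, .ofNat 0, .ofNat 0, .ofNat 3654, .ofNat 4038, .ofNat 0, .ofNat 0, .ofNat 320064779476323922863474749825413726763550060314624, .ofNat 0, .ofNat 0, .ofNat 0, .ofNat 956472020672680056419871401458857151563221785330581504, .ofNat 0, .ofNat 0, .ofNat 26735952209960965399876199686374936045905671905577229352960, .ofNat 612852645078049865341098242272775406319266783465308160, .ofNat 30500767844503589693382884361948033041857138594379341889141735424, .ofNat 0, .ofNat 0, .ofNat 67731230336765000524864300483720401765432501632761856, .ofNat 24129047400078627528793628604461703080791247599138638988031557632⟩)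
    (by decide +kernel)
theorem L08060 : Good (Phi V5.P V5.D (-1) (-1)) ⟨5, 29, 5, 21, 5, 29, 4, 15, 4, 0⟩ :=
  out_sound (S := T5.ds_mm) T5.ok_mm (w := 61) (j := 3) (by decide +kernel)
theorem L08061 : Good (Phi V5.P V5.D (-1) (-1)) ⟨4, 15, 5, 21, 5, 29, 4, 15, 4, 0⟩ :=
  out_sound (S := T5.ds_mm) T5.ok_mm (w := 55) (j := 3) (by decide +kernel)
theorem L08062 : Good (Phi V5.P V5.D (-1) (-1)) ⟨2, 2, 4, 11, 5, 29, 4, 15, 4, 0⟩ :=
  out_sound (S := T5.ds_mm) T5.ok_mm (w := 41) (j := 3) (by decide +kernel)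
theorem L08063 : Good (Phi V5.P V5.D (-1) (-1)) ⟨3, 6, 4, 11, 5, 29, 4, 15, 4, 0⟩ :=
  out_sound (S := T5.ds_mm) T5.ok_mm (w := 47) (j := 3) (by decide +kernel)
theorem L08064 : Good (Phi V5.P V5.D (-1) (-1)) ⟨6, 56, 4, 11, 5, 29, 4, 15, 4, 0⟩ :=
  out_sound (S := T5.ds_mm) T5.ok_mm (w := 65) (j := 3) (by decide +kernel)
theorem L08065 : Good (Phi V5.P V5.D (-1) (-1)) ⟨7, 114, 5, 22, 5, 29, 4, 15, 4, 0⟩ :=
  out_sound (S := T5.ds_mm) T5.ok_mm (w := 73) (j := 3) (by decide +kernel)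
theorem L08066 : Good (Phi V5.P V5.D (-1) (-1)) ⟨7, 115, 5, 22, 5, 29, 4, 15, 4, 0⟩ :=
  out_sound (S := T5.ds_mm) T5.ok_mm (w := 21) (j := 4) (by decide +kernel)
theorem L08067 : Good (Phi V5.P V5.D (-1) (-1)) ⟨6, 57, 5, 23, 5, 29, 4, 15, 4, 0⟩ :=
  out_sound (S := T5.ds_mm) T5.ok_mm (w := 67) (j := 3) (by decide +kernel)
theorem L08068 : Good (Phi V5.P V5.D (-1) (-1)) ⟨5, 29, 4, 11, 5, 29, 4, 15, 4, 0⟩ :=
  out_sound (S := T5.ds_mm) T5.ok_mm (w := 17) (j := 4) (by decide +kernel)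
theorem L08069 : Good (Phi V5.P V5.D (-1) (-1)) ⟨4, 15, 4, 11, 5, 29, 4, 15, 4, 0⟩ :=
  out_sound (S := T5.ds_mm) T5.ok_mm (w := 53) (j := 3) (by decide +kernel)
theorem L08070 : Good (Phi V5.P V5.D (-1) (-1)) ⟨2, 2, 5, 20, 4, 15, 4, 14, 4, 0⟩ :=
  out_sound (S := T5.ds_mm) T5.ok_mm (w := 43) (j := 3) (by decide +kernel)
theorem L08071 : Good (Phi V5.P V5.D (-1) (-1)) ⟨3, 6, 5, 20, 4, 15, 4, 14, 4, 0⟩ :=
  out_sound (S := T5.ds_mm) T5.ok_mm (w := 49) (j := 3) (by decide +kernel)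
theorem L08072 : Good (Phi V5.P V5.D (-1) (-1)) ⟨4, 14, 6, 40, 4, 15, 4, 14, 5, 0⟩ :=
  leafX_sound T5.ok_mm T5.Ymm.bz_eq (w := 266) (c := ⟨⟨.negSucc 798, .negSucc 231, .negSucc 61, .negSucc 307, .ofNat 20, .negSucc 252⟩, ⟨.ofNat 516, .ofNat 11, .ofNat 66, .ofNat 196, .negSucc 16, .ofNat 160⟩, ⟨.ofNat 992, .ofNat 28, .ofNat 42, .ofNat 174, .negSucc 188, .negSucc 103⟩, ⟨.negSucc 1729, .negSucc 325, .negSucc 147, .negSucc 708, .ofNat 9, .negSucc 593⟩, ⟨.negSucc 932, .negSucc 39, .negSucc 77, .negSucc 414, .negSucc 30, .negSucc 358⟩, .ofNat 2352, .ofNat 3038, .ofNat 0, .ofNat 3038, .ofNat 4612, .ofNat 0, .ofNat 128, .negSucc 809, .negSucc 3846, .ofNat 0, .ofNat 514, .ofNat 2383, .ofNat 0, .ofNat 0, .ofNat 2065, .ofNat 1155, .ofNat 0, .ofNat 0, .ofNat 2932380015055997968005781826077169817086836342784, .ofNat 7063256026263462646858878216241673703867148443506161221632, .ofNat 0, .ofNat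 0, .ofNat 414832793971054114910746782687813228161941091909632, .ofNat 0, .ofNat 0, .ofNat 0, .ofNat 1190140048547713313420783093952674014456333025148928, .ofNat 0, .ofNat 0, .ofNat 0, .ofNat 3150565560110203249283890096018094230046304708329472, .ofNat 0⟩)
    (by decide +kernel)
theorem L08073 : Good (Phi V5.P V5.D (-1) (-1)) ⟨4, 14, 6, 41, 4, 15, 4, 14, 5, 0⟩ :=
  leafX_sound T5.ok_mm T5.Ymm.bz_eq (w := 267) (c := ⟨⟨.negSucc 836, .negSucc 106, .negSucc 46, .negSucc 441, .ofNat 24, .negSucc 318⟩, ⟨.ofNat 551, .negSucc 38, .ofNat 58, .ofNat 291, .negSucc 17, .ofNat 212⟩, ⟨.ofNat 1009, .negSucc 25, .ofNat 47, .ofNat 248, .negSucc 183, .negSucc 65⟩, ⟨.negSucc 1672, .negSucc 62, .negSucc 141, .negSucc 1093, .negSucc 16, .negSucc 889⟩, ⟨.negSucc 739, .negSucc 29, .negSucc 91, .negSucc 707, .negSucc 75, .negSucc 655⟩, .ofNat 3136, .ofNat 4169, .ofNat 0, .ofNat 4169, .ofNat 6245, .ofNat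 0, .ofNat 128, .negSucc 824, .negSucc 3937, .ofNat 0, .ofNat 534, .ofNat 2505, .ofNat 0, .ofNat 0, .ofNat 2107, .ofNat 1815, .ofNat 0, .ofNat 0, .ofNat 4033292401657204087907404461091809404255576522752, .ofNat 5439984587501125056837035997221095900154081056608634273792, .ofNat 0, .ofNat 0, .ofNat 1307510716006801965226245803364347295935663527952384, .ofNat 313877453681735602663231092740793512845218275343335214284800, .ofNat 0, .ofNat 0, .ofNat 1038708508872954573310314864652088025470101060845568, .ofNat 0, .ofNat 0, .ofNat 0, .ofNat 2028649354155948923130696391859600142059872341458944, .ofNat 5812098493994360926710137154168869749866934144694504453570560⟩)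
    (by decide +kernel)
theorem L08074 : Good (Phi V5.P V5.D (-1) (-1)) ⟨4, 15, 5, 20, 4, 15, 4, 14, 5, 0⟩ :=
  out_sound (S := T5.ds_mm) T5.ok_mm (w := 55) (j := 3) (by decide +kernel)
theorem L08075 : Good (Phi V5.P V5.D (-1) (-1)) ⟨6, 56, 6, 40, 4, 15, 4, 14, 5, 1⟩ :=
  leafX_sound T5.ok_mm T5.Ymm.bz_eq (w := 278) (c := ⟨⟨.negSucc 1328, .negSucc 28, .negSucc 41, .negSucc 127, .ofNat 324, .ofNat 629⟩, ⟨.ofNat 853, .negSucc 20, .ofNat 53, .ofNat 82, .negSucc 205, .negSucc 399⟩, ⟨.ofNat 1051, .negSucc 90, .ofNat 50, .ofNat 87, .negSucc 307, .negSucc 493⟩, ⟨.negSucc 2977, .ofNat 5, .negSucc 71, .negSucc 173, .ofNat 694, .ofNat 1133⟩, ⟨.negSucc 1688, .ofNat 44, .negSucc 3, .ofNat 12, .ofNat 363, .ofNat 378⟩, .ofNat 8197, .ofNat 12197, .ofNat 0, .ofNat 12197, .ofNat 18985, .ofNat 0, .ofNat 128, .negSucc 1888, .negSucc 4512, .ofNat 0, .ofNat 1209, .ofNat 2870, .ofNat 0, .ofNat 0,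 .ofNat 2608, .ofNat 1481, .ofNat 0, .ofNat 0, .ofNat 0, .ofNat 0, .ofNat 0, .ofNat 0, .ofNat 3373108103876071665639732703847165233393012349861888, .ofNat 0, .ofNat 0, .ofNat 0, .ofNat 0, .ofNat 0, .ofNat 0, .ofNat 0, .ofNat 0, .ofNat 0⟩)
    (by decide +kernel)
theorem L08076 : Good (Phi V5.P V5.D (-1) (-1)) ⟨6, 56, 6, 41, 4, 15, 4, 14, 5, 1⟩ :=
  leafX_sound T5.ok_mm T5.Ymm.bz_eq (w := 278) (c := ⟨⟨.negSucc 1393, .negSucc 5, .negSucc 63, .negSucc 83, .ofNat 282, .ofNat 708⟩, ⟨.ofNat 967, .negSucc 91, .ofNat 82, .ofNat 58, .negSucc 184, .negSucc 461⟩, ⟨.ofNat 1039, .ofNat 21, .ofNat 23, .ofNat 71, .negSucc 296, .negSucc 538⟩, ⟨.negSucc 3100, .ofNat 69, .negSucc 199, .negSucc 266, .ofNat 642, .ofNat 1445⟩, ⟨.negSucc 1669, .ofNat 27, .negSucc 130, .negSucc 219, .ofNat 370, .ofNat 678⟩, .ofNat 5831, .ofNat 8459, .ofNat 0, .ofNat 8459, .ofNat 13069, .ofNat 0, .ofNat 128, .negSucc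 2233, .negSucc 5586, .ofNat 0, .ofNat 1445, .ofNat 3592, .ofNat 0, .ofNat 0, .ofNat 3038, .ofNat 3229, .ofNat 0, .ofNat 0, .ofNat 2415829561506181233616203008025443629725483270144, .ofNat 0, .ofNat 0, .ofNat 0, .ofNat 1833630038360140927278996223870739548975864328749056, .ofNat 0, .ofNat 0, .ofNat 0, .ofNat 374307001028641293689678089035587669744547514023936, .ofNat 0, .ofNat 0, .ofNat 0, .ofNat 862976438170022046657592291023496790313375549620224, .ofNat 0⟩)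
    (by decide +kernel)
theorem L08077 : Good (Phi V5.P V5.D (-1) (-1)) ⟨6, 57, 5, 20, 4, 15, 4, 14, 5, 1⟩ :=
  leafX_sound T5.ok_mm T5.Ymm.bz_eq (w := 282) (c := ⟨⟨.negSucc 1576, .ofNat 1, .ofNat 21, .negSucc 176, .ofNat 427, .ofNat 843⟩, ⟨.ofNat 1001, .ofNat 0, .ofNat 22, .ofNat 116, .negSucc 280, .negSucc 553⟩, ⟨.ofNat 1122, .ofNat 0, .ofNat 7, .ofNat 108, .negSucc 362, .negSucc 590⟩, ⟨.negSucc 2916, .ofNat 1, .negSucc 0, .negSucc 165, .ofNat 512, .ofNat 925⟩, ⟨.negSucc 1104, .ofNat 1, .negSucc 0, .ofNat 121, .negSucc 130, .negSucc 380⟩, .ofNat 26842, .ofNat 40054, .ofNat 0, .ofNat 40054, .ofNat 60580, .ofNat 0, .ofNat 128, .negSucc 6158, .negSucc 13391, .ofNat 0, .ofNat 4062, .ofNat 8814, .ofNat 0, .ofNat 0, .ofNat 7446, .ofNat 24257, .ofNat 0, .ofNat 0, .ofNat 0, .ofNat 0, .ofNat 0, .ofNat 0, .ofNat 1482585672336418734929974323391550416310989994430824448, .ofNat 0, .ofNat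 0, .ofNat 0, .ofNat 138867051561111253518868706200715054488710976901218304, .ofNat 0, .ofNat 0, .ofNat 0, .ofNat 57570210974462560951122200854569134521844804532305920, .ofNat 0⟩)
    (by decide +kernel)
theorem L08078 : Good (Phi V5.P V5.D (-1) (-1)) ⟨5, 29, 5, 20, 4, 15, 4, 14, 5, 1⟩ :=
  out_sound (S := T5.ds_mm) T5.ok_mm (w := 61) (j := 3) (by decide +kernel)
theorem L08079 : Good (Phi V5.P V5.D (-1) (-1)) ⟨4, 15, 5, 20, 4, 15, 4, 14, 5, 1⟩ :=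
  out_sound (S := T5.ds_mm) T5.ok_mm (w := 55) (j := 3) (by decide +kernel)
theorem L08080 : Good (Phi V5.P V5.D (-1) (-1)) ⟨2, 2, 6, 42, 4, 15, 4, 14, 4, 0⟩ :=
  out_sound (S := T5.ds_mm) T5.ok_mm (w := 45) (j := 3) (by decide +kernel)
theorem L08081 : Good (Phi V5.P V5.D (-1) (-1)) ⟨3, 6, 6, 42, 4, 15, 4, 14, 4, 0⟩ :=
  out_sound (S := T5.ds_mm) T5.ok_mm (w := 51) (j := 3) (by decide +kernel)
theorem L08082 : Good (Phi V5.P V5.D (-1) (-1)) ⟨6, 56, 6, 42, 5, 30, 4, 14, 4, 0⟩ :=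
  leafX_sound T5.ok_mm T5.Ymm.bz_eq (w := 295) (c := ⟨⟨.negSucc 1300, .negSucc 0, .ofNat 110, .negSucc 157, .ofNat 73, .ofNat 483⟩, ⟨.ofNat 855, .ofNat 0, .negSucc 52, .ofNat 103, .negSucc 47, .negSucc 317⟩, ⟨.ofNat 1261, .ofNat 0, .negSucc 69, .ofNat 79, .negSucc 204, .negSucc 700⟩, ⟨.negSucc 2548, .negSucc 0, .ofNat 87, .negSucc 252, .ofNat 4, .ofNat 515⟩, ⟨.negSucc 1091, .negSucc 0, .negSucc 30, .negSucc 48, .negSucc 146, .negSucc 242⟩, .ofNat 14652, .ofNat 21694, .ofNat 0, .ofNat 21694, .ofNat 32925, .ofNat 0, .ofNat 128, .negSucc 8336, .negSucc 34029, .ofNat 0, .ofNat 5489, .ofNat 22352, .ofNat 0, .ofNat 0, .ofNat 19744, .ofNat 10167, .ofNat 0, .ofNat 0, .ofNat 0, .ofNat 0, .ofNat 0, .ofNat 0, .ofNat 33675654769940269096155434856398473957820985577146679296, .ofNat 0, .ofNat 0, .ofNat 0, .ofNat 69525049264534894360710421727583374935727013772706971648, .ofNat 0, .ofNat 0,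 .ofNat 0, .ofNat 0, .ofNat 0⟩)
    (by decide +kernel)
theorem L08083 : Good (Phi V5.P V5.D (-1) (-1)) ⟨6, 57, 6, 42, 5, 30, 4, 14, 5, 0⟩ :=
  leafX_sound T5.ok_mm T5.Ymm.bz_eq (w := 295) (c := ⟨⟨.negSucc 861, .negSucc 133, .negSucc 137, .negSucc 149, .negSucc 48, .negSucc 326⟩, ⟨.ofNat 564, .ofNat 16, .ofNat 127, .ofNat 101, .ofNat 32, .ofNat 217⟩, ⟨.ofNat 1020, .ofNat 33, .ofNat 91, .ofNat 82, .negSucc 134, .negSucc 63⟩, ⟨.negSucc 1827, .negSucc 92, .negSucc 270, .negSucc 390, .negSucc 198, .negSucc 731⟩, ⟨.negSucc 934, .negSucc 9, .negSucc 68, .negSucc 268, .negSucc 192, .negSucc 408⟩, .ofNat 8520, .ofNat 12195, .ofNat 0, .ofNat 12195, .ofNat 18216, .ofNat 0, .ofNat 128, .negSucc 1454, .negSucc 12092, .ofNat 0, .ofNat 966, .ofNat 7990, .ofNat 0, .ofNat 0, .ofNat 6956, .ofNat 4353, .ofNat 0, .ofNat 0, .ofNat 55394389051834307728587980613579905749555164215246848, .ofNat 0, .ofNat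 0, .ofNat 0, .ofNat 65040470132402674923713214530956940350268854759258587136, .ofNat 3905849397292179037745908665243552229101221434939742990167072309248, .ofNat 0, .ofNat 0, .ofNat 3852855968426180412658183381037800143506694989290668032, .ofNat 3181750879313099139887816298128694788028636802900213545317468995584, .ofNat 0, .ofNat 0, .ofNat 113010625380441592834477030169187457176457066172934782976, .ofNat 0⟩)
    (by decide +kernel)
theorem L08084 : Good (Phi V5.P V5.D (-1) (-1)) ⟨6, 57, 6, 42, 5, 30, 4, 14, 5, 1⟩ :=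
  leafX_sound T5.ok_mm T5.Ymm.bz_eq (w := 294) (c := ⟨⟨.negSucc 1483, .negSucc 14, .negSucc 15, .negSucc 49, .ofNat 302, .ofNat 670⟩, ⟨.ofNat 979, .negSucc 31, .ofNat 38, .ofNat 32, .negSucc 200, .negSucc 445⟩, ⟨.ofNat 1101, .ofNat 21, .ofNat 12, .ofNat 30, .negSucc 297, .negSucc 537⟩, ⟨.negSucc 3223, .ofNat 0, .negSucc 35, .negSucc 63, .ofNat 578, .ofNat 1237⟩, ⟨.negSucc 1717, .ofNat 1, .negSucc 2, .ofNat 9, .ofNat 231, .ofNat 447⟩, .ofNat 7280, .ofNat 10535, .ofNat 0, .ofNat 10535, .ofNat 16025, .ofNat 0, .ofNat 128, .negSucc 3089, .negSucc 9526, .ofNat 0, .ofNat 2034, .ofNat 6245, .ofNat 0, .ofNat 0, .ofNat 5188, .ofNat 7214, .ofNat 0, .ofNat 0, .ofNat 0, .ofNat 0, .ofNat 0, .ofNat 0, .ofNat 112942673370806100914558092425301547452384366601846128640, .ofNat 0, .ofNat 0, .ofNat 0, .ofNat 49469773803613741043714392939906497053433764485621874688, .ofNat 0, .ofNat 0, .ofNat 0,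 .ofNat 31432937518086471908704344310775866297185998396442279936, .ofNat 23107578083756335554065731864845677752766574818488647391193916768256⟩)
    (by decide +kernel)
theorem L08085 : Good (Phi V5.P V5.D (-1) (-1)) ⟨5, 29, 6, 42, 5, 30, 4, 14, 4, 0⟩ :=
  out_sound (S := T5.ds_mm) T5.ok_mm (w := 63) (j := 3) (by decide +kernel)
theorem L08086 : Good (Phi V5.P V5.D (-1) (-1)) ⟨4, 15, 6, 42, 5, 30, 4, 14, 4, 0⟩ :=
  out_sound (S := T5.ds_mm) T5.ok_mm (w := 57) (j := 3) (by decide +kernel)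
theorem L08087 : Good (Phi V5.P V5.D (-1) (-1)) ⟨6, 56, 6, 42, 5, 31, 4, 14, 4, 0⟩ :=
  leafX_sound T5.ok_mm T5.Ymm.bz_eq (w := 296) (c := ⟨⟨.negSucc 1757, .negSucc 0, .ofNat 35, .negSucc 164, .ofNat 360, .ofNat 770⟩, ⟨.ofNat 1156, .ofNat 0, .ofNat 3, .ofNat 108, .negSucc 236, .negSucc 507⟩, ⟨.ofNat 1476, .ofNat 0, .negSucc 8, .ofNat 87, .negSucc 338, .negSucc 823⟩, ⟨.negSucc 3276, .negSucc 0, .ofNat 20, .negSucc 159, .ofNat 379, .ofNat 789⟩, ⟨.negSucc 1223, .negSucc 0, .negSucc 10, .ofNat 104, .negSucc 187, .negSucc 430⟩, .ofNat 31483, .ofNat 47044, .ofNat 0, .ofNat 47044, .ofNat 71109, .ofNat 0, .ofNat 128, .negSucc 9600, .negSucc 19811, .ofNat 0, .ofNat 6334, .ofNat 13048, .ofNat 0, .ofNat 0, .ofNat 10849, .ofNat 14423, .ofNat 0, .ofNat 0, .ofNat 0, .ofNat 0, .ofNat 0, .ofNat 0, .ofNat 57020141419068796382125514096447966850340823309521780736, .ofNat 0, .ofNat 0, .ofNat 0,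 .ofNat 63404235789667733373496812929693033450196949145537740800, .ofNat 0, .ofNat 0, .ofNat 0, .ofNat 16751338036882076711394086993541537621511235731017695232, .ofNat 0⟩)
    (by decide +kernel)
theorem L08088 : Good (Phi V5.P V5.D (-1) (-1)) ⟨6, 57, 7, 84, 5, 31, 4, 14, 4, 0⟩ :=
  leafX_sound T5.ok_mm T5.Ymm.bz_eq (w := 292) (c := ⟨⟨.negSucc 1639, .negSucc 55, .negSucc 32, .negSucc 199, .ofNat 329, .ofNat 589⟩, ⟨.ofNat 1079, .ofNat 36, .ofNat 31, .ofNat 133, .negSucc 217, .negSucc 388⟩, ⟨.ofNat 1443, .negSucc 12, .ofNat 18, .ofNat 101, .negSucc 334, .negSucc 767⟩, ⟨.negSucc 3437, .negSucc 28, .negSucc 76, .negSucc 477, .ofNat 653, .ofNat 1034⟩, ⟨.negSucc 1714, .negSucc 10, .negSucc 29, .negSucc 294, .ofNat 288, .ofNat 318⟩, .ofNat 7082, .ofNat 10075, .ofNat 0, .ofNat 10075, .ofNat 15091, .ofNat 0, .ofNat 128, .negSucc 3196, .negSucc 10883, .ofNat 0, .ofNat 2108, .ofNat 7122,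 .ofNat 0, .ofNat 0, .ofNat 5698, .ofNat 3138, .ofNat 0, .ofNat 0, .ofNat 2225923357171432622965902653376877023153929087614976, .ofNat 0, .ofNat 0, .ofNat 0, .ofNat 1966622447707267098612098349671914314400440047768698880, .ofNat 0, .ofNat 0, .ofNat 0, .ofNat 1615120244273229555945299991419121892341888842115055616, .ofNat 0, .ofNat 0, .ofNat 0, .ofNat 2597402429000669232876446033384734350656599129447202816, .ofNat 0⟩)
    (by decide +kernel)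
theorem L08089 : Good (Phi V5.P V5.D (-1) (-1)) ⟨6, 57, 7, 85, 5, 31, 4, 14, 4, 0⟩ :=
  leafX_sound T5.ok_mm T5.Ymm.bz_eq (w := 292) (c := ⟨⟨.negSucc 1875, .ofNat 16, .negSucc 51, .negSucc 250, .ofNat 333, .ofNat 859⟩, ⟨.ofNat 1240, .ofNat 19, .ofNat 43, .ofNat 172, .negSucc 221, .negSucc 571⟩, ⟨.ofNat 1562, .ofNat 25, .ofNat 28, .ofNat 118, .negSucc 342, .negSucc 906⟩, ⟨.negSucc 3728, .negSucc 17, .negSucc 145, .negSucc 743, .ofNat 603, .ofNat 1516⟩, ⟨.negSucc 1662, .negSucc 12, .negSucc 106, .negSucc 575, .ofNat 206, .ofNat 472⟩, .ofNat 5012, .ofNat 7030, .ofNat 0, .ofNat 7030, .ofNat 10604, .ofNat 0, .ofNat 128, .negSucc 4120, .negSucc 14268, .ofNat 0, .ofNat 2716, .ofNat 9344, .ofNat 0, .ofNat 0, .ofNat 7126, .ofNat 2769, .ofNat 0, .ofNat 0, .ofNat 1995595855179607164706169084396421918001425882808320, .ofNat 713263184569748468367922786511447534380245480305127556651155456,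 .ofNat 0, .ofNat 0, .ofNat 1142277186208459563538612803431996533573298881388609536, .ofNat 78070022764873412223025836218131884183532283711280414281158361088, .ofNat 0, .ofNat 0, .ofNat 106534393014053108341620097614812607730410517442854912, .ofNat 1983825982733121271154292943262094792468776253190819325495985831936, .ofNat 0, .ofNat 0, .ofNat 1694356206076162643992520426363272907677888715887214592, .ofNat 3310820034714261401500053962334285783333667667555603788156240920576⟩)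
    (by decide +kernel)
theorem L08090 : Good (Phi V5.P V5.D (-1) (-1)) ⟨5, 29, 6, 42, 5, 31, 4, 14, 4, 0⟩ :=
  out_sound (S := T5.ds_mm) T5.ok_mm (w := 63) (j := 3) (by decide +kernel)
theorem L08091 : Good (Phi V5.P V5.D (-1) (-1)) ⟨4, 15, 6, 42, 5, 31, 4, 14, 4, 0⟩ :=
  out_sound (S := T5.ds_mm) T5.ok_mm (w := 57) (j := 3) (by decide +kernel)
theorem L08092 : Good (Phi V5.P V5.D (-1) (-1)) ⟨2, 2, 6, 43, 4, 15, 4, 14, 4, 0⟩ :=
  out_sound (S := T5.ds_mm) T5.ok_mm (w := 45) (j := 3) (by decide +kernel)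
theorem L08093 : Good (Phi V5.P V5.D (-1) (-1)) ⟨3, 6, 6, 43, 4, 15, 4, 14, 4, 0⟩ :=
  out_sound (S := T5.ds_mm) T5.ok_mm (w := 51) (j := 3) (by decide +kernel)
theorem L08094 : Good (Phi V5.P V5.D (-1) (-1)) ⟨6, 56, 6, 43, 4, 15, 4, 14, 4, 0⟩ :=
  out_sound (S := T5.ds_mm) T5.ok_mm (w := 69) (j := 3) (by decide +kernel)
theorem L08095 : Good (Phi V5.P V5.D (-1) (-1)) ⟨8, 228, 6, 43, 4, 15, 4, 14, 4, 0⟩ :=
  out_sound (S := T5.ds_mm) T5.ok_mm (w := 81) (j := 3) (by decide +kernel)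
theorem L08096 : Good (Phi V5.P V5.D (-1) (-1)) ⟨8, 229, 6, 43, 4, 15, 4, 14, 4, 0⟩ :=
  out_sound (S := T5.ds_mm) T5.ok_mm (w := 23) (j := 4) (by decide +kernel)
theorem L08097 : Good (Phi V5.P V5.D (-1) (-1)) ⟨7, 115, 6, 43, 4, 15, 4, 14, 4, 0⟩ :=
  out_sound (S := T5.ds_mm) T5.ok_mm (w := 21) (j := 4) (by decide +kernel)
theorem L08098 : Good (Phi V5.P V5.D (-1) (-1)) ⟨5, 29, 6, 43, 4, 15, 4, 14, 4, 0⟩ :=
  out_sound (S := T5.ds_mm) T5.ok_mm (w := 63) (j := 3) (by decide +kernel)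
theorem L08099 : Good (Phi V5.P V5.D (-1) (-1)) ⟨4, 15, 6, 43, 4, 15, 4, 14, 4, 0⟩ :=
  out_sound (S := T5.ds_mm) T5.ok_mm (w := 57) (j := 3) (by decide +kernel)
theorem L08100 : Good (Phi V5.P V5.D (-1) (-1)) ⟨2, 2, 4, 11, 4, 15, 4, 14, 4, 0⟩ :=
  out_sound (S := T5.ds_mm) T5.ok_mm (w := 41) (j := 3) (by decide +kernel)
theorem L08101 : Good (Phi V5.P V5.D (-1) (-1)) ⟨3, 6, 4, 11, 4, 15, 4, 14, 4, 0⟩ :=
  out_sound (S := T5.ds_mm) T5.ok_mm (w := 47) (j := 3) (by decide +kernel)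
theorem L08102 : Good (Phi V5.P V5.D (-1) (-1)) ⟨6, 56, 4, 11, 4, 15, 4, 14, 4, 0⟩ :=
  out_sound (S := T5.ds_mm) T5.ok_mm (w := 65) (j := 3) (by decide +kernel)
theorem L08103 : Good (Phi V5.P V5.D (-1) (-1)) ⟨7, 114, 5, 22, 4, 15, 4, 14, 4, 0⟩ :=
  out_sound (S := T5.ds_mm) T5.ok_mm (w := 73) (j := 3) (by decide +kernel)
theorem L08104 : Good (Phi V5.P V5.D (-1) (-1)) ⟨7, 115, 5, 22, 4, 15, 4, 14, 4, 0⟩ :=
  out_sound (S := T5.ds_mm) T5.ok_mm (w := 21) (j := 4) (by decide +kernel)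
theorem L08105 : Good (Phi V5.P V5.D (-1) (-1)) ⟨6, 57, 5, 23, 4, 15, 4, 14, 4, 0⟩ :=
  out_sound (S := T5.ds_mm) T5.ok_mm (w := 67) (j := 3) (by decide +kernel)
theorem L08106 : Good (Phi V5.P V5.D (-1) (-1)) ⟨5, 29, 4, 11, 4, 15, 4, 14, 4, 0⟩ :=
  out_sound (S := T5.ds_mm) T5.ok_mm (w := 17) (j := 4) (by decide +kernel)
theorem L08107 : Good (Phi V5.P V5.D (-1) (-1)) ⟨4, 15, 4, 11, 4, 15, 4, 14, 4, 0⟩ :=
  out_sound (S := T5.ds_mm) T5.ok_mm (w := 53) (j := 3) (by decide +kernel)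
theorem L08108 : Good (Phi V5.P V5.D (-1) (-1)) ⟨2, 2, 5, 20, 4, 15, 4, 15, 4, 0⟩ :=
  out_sound (S := T5.ds_mm) T5.ok_mm (w := 43) (j := 3) (by decide +kernel)
theorem L08109 : Good (Phi V5.P V5.D (-1) (-1)) ⟨3, 6, 5, 20, 4, 15, 4, 15, 4, 0⟩ :=
  out_sound (S := T5.ds_mm) T5.ok_mm (w := 49) (j := 3) (by decide +kernel)
theorem L08110 : Good (Phi V5.P V5.D (-1) (-1)) ⟨6, 56, 6, 40, 4, 15, 4, 15, 5, 0⟩ :=
  leafX_sound T5.ok_mm T5.Ymm.bz_eq (w := 278) (c := ⟨⟨.negSucc 1036, .negSucc 169, .ofNat 38, .negSucc 0, .ofNat 422, .negSucc 65⟩, ⟨.ofNat 662, .ofNat 82, .negSucc 1, .ofNat 1, .negSucc 268, .ofNat 41⟩, ⟨.ofNat 956, .ofNat 61, .negSucc 3, .negSucc 4, .negSucc 407, .negSucc 183⟩, ⟨.negSucc 2262, .negSucc 179, .negSucc 64, .negSucc 81, .ofNat 693, .negSucc 130⟩, ⟨.negSucc 1196, .ofNat 12, .negSucc 149, .negSucc 124, .ofNat 147, .negSucc 58⟩, .ofNat 8247, .ofNat 12266, .ofNat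 0, .ofNat 12266, .ofNat 19080, .ofNat 0, .ofNat 128, .negSucc 1273, .negSucc 4169, .ofNat 0, .ofNat 816, .ofNat 2655, .ofNat 0, .ofNat 0, .ofNat 2576, .ofNat 4748, .ofNat 0, .ofNat 0, .ofNat 0, .ofNat 0, .ofNat 0, .ofNat 229502013472523030049333404965955312410506787249310400512, .ofNat 2992993246697697051292243808161354557244648336654336, .ofNat 0, .ofNat 0, .ofNat 0, .ofNat 0, .ofNat 0, .ofNat 0, .ofNat 0, .ofNat 0, .ofNat 0⟩)
    (by decide +kernel)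
theorem L08111 : Good (Phi V5.P V5.D (-1) (-1)) ⟨6, 56, 6, 41, 4, 15, 4, 15, 5, 0⟩ :=
  leafX_sound T5.ok_mm T5.Ymm.bz_eq (w := 280) (c := ⟨⟨.negSucc 1071, .negSucc 115, .negSucc 17, .negSucc 16, .ofNat 462, .negSucc 37⟩, ⟨.ofNat 707, .ofNat 52, .ofNat 33, .ofNat 11, .negSucc 301, .ofNat 25⟩, ⟨.ofNat 1026, .negSucc 7, .ofNat 32, .negSucc 0, .negSucc 428, .negSucc 205⟩, ⟨.negSucc 2480, .negSucc 91, .negSucc 129, .negSucc 53, .ofNat 857, .negSucc 26⟩, ⟨.negSucc 1400, .negSucc 5, .negSucc 116, .negSucc 43, .ofNat 315, .ofNat 39⟩, .ofNat 11529, .ofNat 17098, .ofNat 0, .ofNat 17098, .ofNat 26171, .ofNat 0, .ofNat 128, .negSucc 1881, .negSucc 5193, .ofNat 0, .ofNat 1227, .ofNat 3375, .ofNat 0, .ofNat 0, .ofNat 3160, .ofNat 4787, .ofNat 0, .ofNat 0, .ofNat 3672084806835090730242739119205501790645179645952, .ofNat 0, .ofNat 0, .ofNat 0, .ofNat 3442635802272944642656111728848445744459266293497856,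 .ofNat 0, .ofNat 0, .ofNat 0, .ofNat 0, .ofNat 0, .ofNat 0, .ofNat 0, .ofNat 0, .ofNat 0⟩)
    (by decide +kernel)

end Crest.Agent.R097C5.N5mm
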