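import Crest.Agent.R097.KP7
import Crest.Agent.R097.T5Ymm

/-!
# Row 97, box cover in dimension n = 5 (generated)
-/

set_option autoImplicit false
set_option Elab.async false
set_option maxHeartbeats 0
set_option maxRecDepth 100000

open Crest.Agent.R097 Crest.Agent.R097.KA


namespace Crest.Agent.R097C5.N5mm

theorem L08112 : Good (Phi V5.P V5.D (-1) (-1)) ⟨6, 56, 6, 40, 4, 15, 4, 15, 5, 1⟩ :=
  leafX_sound T5.ok_mm T5.Ymm.bz_eq (w := 278) (c := ⟨⟨.negSucc 1574, .ofNat 479, .negSucc 108, .ofNat 302, .ofNat 547, .ofNat 912⟩, ⟨.ofNat 991, .negSucc 295, .ofNat 74, .negSucc 190, .negSucc 347, .negSucc 578⟩, ⟨.ofNat 862, .negSucc 27, .negSucc 0, .negSucc 101, .negSucc 433, .negSucc 578⟩, ⟨.negSucc 2884, .ofNat 416, .negSucc 279, .ofNat 632, .ofNat 958, .ofNat 1652⟩, ⟨.negSucc 1086, .negSucc 256, .negSucc 227, .ofNat 316, .ofNat 285, .ofNat 561⟩, .ofNat 8192, .ofNat 12183, .ofNat 0, .ofNat 12183, .ofNat 18954, .ofNat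 0, .ofNat 128, .negSucc 2422, .negSucc 2974, .ofNat 0, .ofNat 1551, .ofNat 1892, .ofNat 0, .ofNat 0, .ofNat 1745, .ofNat 2339, .ofNat 0, .ofNat 0, .ofNat 2378863636206665007608224040078910446766204649472, .ofNat 0, .ofNat 0, .ofNat 27331218510801745700439844715985853847858087654624067584, .ofNat 2210652156394803894491201155374457182247486360649728, .ofNat 0, .ofNat 0, .ofNat 0, .ofNat 0, .ofNat 0, .ofNat 0, .ofNat 0, .ofNat 2739149527558368580019365533392739588113123808116736, .ofNat 0⟩)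
    (by decide +kernel)
theorem L08113 : Good (Phi V5.P V5.D (-1) (-1)) ⟨6, 56, 6, 41, 4, 15, 4, 15, 5, 1⟩ :=
  leafX_sound T5.ok_mm T5.Ymm.bz_eq (w := 279) (c := ⟨⟨.negSucc 1613, .ofNat 298, .negSucc 211, .ofNat 325, .ofNat 640, .ofNat 1021⟩, ⟨.ofNat 1028, .negSucc 173, .ofNat 138, .negSucc 207, .negSucc 414, .negSucc 662⟩, ⟨.ofNat 682, .ofNat 269, .negSucc 19, .negSucc 113, .negSucc 474, .negSucc 624⟩, ⟨.negSucc 2903, .ofNat 169, .negSucc 171, .ofNat 579, .ofNat 1058, .ofNat 1784⟩, ⟨.negSucc 1187, .negSucc 77, .ofNat 120, .ofNat 184, .ofNat 236, .ofNat 532⟩, .ofNat 11454, .ofNat 16986, .ofNat 0, .ofNat 16986, .ofNat 26006, .ofNat 0, .ofNat 128, .negSucc 2071, .negSucc 3687, .ofNat 0, .ofNat 1350, .ofNat 2393, .ofNat 0, .ofNat 0, .ofNat 2105, .ofNat 2324, .ofNat 0, .ofNat 0, .ofNat 2179836880148060570469527013583382381434534625280, .ofNat 0, .ofNat 0, .ofNat 0, .ofNat 5137829222425805119626932554752045665227538975162368,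 .ofNat 0, .ofNat 0, .ofNat 1703361228149265419552696324298584091036298489644189745152, .ofNat 962251846333716812198997290714210617098944122978304, .ofNat 0, .ofNat 0, .ofNat 0, .ofNat 469525601524426691795632340249995297351089390616576, .ofNat 0⟩)
    (by decide +kernel)
theorem L08114 : Good (Phi V5.P V5.D (-1) (-1)) ⟨6, 57, 5, 20, 4, 15, 4, 15, 4, 0⟩ :=
  leafX_sound T5.ok_mm T5.Ymm.bz_eq (w := 278) (c := ⟨⟨.negSucc 1423, .ofNat 0, .ofNat 1, .ofNat 91, .ofNat 449, .ofNat 712⟩, ⟨.ofNat 925, .ofNat 0, .ofNat 9, .negSucc 59, .negSucc 294, .negSucc 467⟩, ⟨.ofNat 1154, .ofNat 0, .negSucc 6, .negSucc 45, .negSucc 407, .negSucc 777⟩, ⟨.negSucc 2616, .ofNat 1, .negSucc 0, .ofNat 126, .ofNat 511, .ofNat 809⟩, ⟨.negSucc 938, .ofNat 1, .ofNat 0, .negSucc 2, .negSucc 174, .negSucc 279⟩, .ofNat 21703, .ofNat 32313, .ofNat 0, .ofNat 32313, .ofNat 48921, .ofNat 0, .ofNat 128, .negSucc 13391, .negSucc 21007, .ofNat 0, .ofNat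 8828, .ofNat 13819, .ofNat 0, .ofNat 0, .ofNat 12409, .ofNat 17109, .ofNat 0, .ofNat 475576844409345142120848160730585690718778148654153728, .ofNat 2824615836952856202552576141093940534322011308032, .ofNat 0, .ofNat 0, .ofNat 47250260369738626093518589259510560811871240914963791872, .ofNat 50540732927919378489388493411052431701198459694481408, .ofNat 0, .ofNat 0, .ofNat 1194638837941351594779284727161772640716036264024195727360, .ofNat 14765928534704196087674627393186863195507736293933056, .ofNat 0, .ofNat 0, .ofNat 0, .ofNat 2856472084350178874256119412924839950032763908784128, .ofNat 0⟩)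
    (by decide +kernel)
theorem L08115 : Good (Phi V5.P V5.D (-1) (-1)) ⟨5, 29, 5, 20, 4, 15, 4, 15, 4, 0⟩ :=
  out_sound (S := T5.ds_mm) T5.ok_mm (w := 61) (j := 3) (by decide +kernel)
theorem L08116 : Good (Phi V5.P V5.D (-1) (-1)) ⟨4, 15, 5, 20, 4, 15, 4, 15, 4, 0⟩ :=
  out_sound (S := T5.ds_mm) T5.ok_mm (w := 55) (j := 3) (by decide +kernel)
theorem L08117 : Good (Phi V5.P V5.D (-1) (-1)) ⟨2, 2, 5, 21, 4, 15, 4, 15, 4, 0⟩ :=
  out_sound (S := T5.ds_mm) T5.ok_mm (w := 43) (j := 3) (by decide +kernel)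
theorem L08118 : Good (Phi V5.P V5.D (-1) (-1)) ⟨3, 6, 5, 21, 4, 15, 4, 15, 4, 0⟩ :=
  out_sound (S := T5.ds_mm) T5.ok_mm (w := 49) (j := 3) (by decide +kernel)
theorem L08119 : Good (Phi V5.P V5.D (-1) (-1)) ⟨6, 56, 6, 42, 4, 15, 4, 15, 5, 0⟩ :=
  leafX_sound T5.ok_mm T5.Ymm.bz_eq (w := 286) (c := ⟨⟨.negSucc 1190, .ofNat 0, .ofNat 31, .negSucc 60, .ofNat 500, .negSucc 53⟩, ⟨.ofNat 782, .ofNat 0, .ofNat 2, .ofNat 40, .negSucc 328, .ofNat 35⟩, ⟨.ofNat 1045, .ofNat 0, .negSucc 53, .ofNat 22, .negSucc 450, .negSucc 195⟩, ⟨.negSucc 2490, .negSucc 0, .ofNat 15, .negSucc 39, .ofNat 529, .negSucc 33⟩, ⟨.negSucc 1235, .negSucc 0, .negSucc 5, .ofNat 66, .negSucc 254, .ofNat 60⟩, .ofNat 28969, .ofNat 43257, .ofNat 0, .ofNat 43257, .ofNat 65405, .ofNat 0, .ofNat 128, .negSucc 6802, .negSucc 16992, .ofNat 0, .ofNat 4489, .ofNat 11195, .ofNat 0, .ofNat 0, .ofNat 10276, .ofNat 27457, .ofNat 0, .ofNat 0, .ofNat 14223997681510578415895899644963110915778296152064,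 .ofNat 0, .ofNat 0, .ofNat 0, .ofNat 24812510122184579521951587071000526817767892170309632, .ofNat 0, .ofNat 0, .ofNat 0, .ofNat 230805230014490280268240978159933815145728242173870080, .ofNat 0, .ofNat 0, .ofNat 0, .ofNat 170495489619473618670216023773673777241672212092551168, .ofNat 0⟩)
    (by decide +kernel)
theorem L08120 : Good (Phi V5.P V5.D (-1) (-1)) ⟨7, 114, 6, 42, 4, 15, 4, 15, 5, 0⟩ :=
  leafX_sound T5.ok_mm T5.Ymm.bz_eq (w := 286) (c := ⟨⟨.negSucc 1276, .negSucc 25, .negSucc 37, .negSucc 71, .ofNat 569, .negSucc 12⟩, ⟨.ofNat 840, .ofNat 1, .ofNat 50, .ofNat 48, .negSucc 375, .ofNat 8⟩, ⟨.ofNat 1091, .ofNat 22, .ofNat 18, .ofNat 24, .negSucc 483, .negSucc 221⟩, ⟨.negSucc 2755, .negSucc 22, .negSucc 44, .negSucc 86, .ofNat 718, .ofNat 25⟩, ⟨.negSucc 1452, .ofNat 14, .ofNat 26, .ofNat 20, .negSucc 113, .ofNat 65⟩, .ofNat 20515, .ofNat 30199, .ofNat 0, .ofNat 30199, .ofNat 45245, .ofNat 0, .ofNat 128, .negSucc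 2573, .negSucc 7217, .ofNat 0, .ofNat 1711, .ofNat 4789, .ofNat 0, .ofNat 0, .ofNat 4261, .ofNat 8495, .ofNat 0, .ofNat 0, .ofNat 0, .ofNat 0, .ofNat 0, .ofNat 0, .ofNat 18643746197640746125185870484828867671905546920787968, .ofNat 0, .ofNat 0, .ofNat 0, .ofNat 0, .ofNat 0, .ofNat 0, .ofNat 0, .ofNat 4523344994754002787491810065035820050597651209519104, .ofNat 0⟩)
    (by decide +kernel)
theorem L08121 : Good (Phi V5.P V5.D (-1) (-1)) ⟨7, 115, 6, 42, 4, 15, 4, 15, 5, 0⟩ :=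
  out_sound (S := T5.ds_mm) T5.ok_mm (w := 75) (j := 3) (by decide +kernel)
theorem L08122 : Good (Phi V5.P V5.D (-1) (-1)) ⟨6, 56, 6, 43, 4, 15, 4, 15, 5, 0⟩ :=
  out_sound (S := T5.ds_mm) T5.ok_mm (w := 69) (j := 3) (by decide +kernel)
theorem L08123 : Good (Phi V5.P V5.D (-1) (-1)) ⟨8, 228, 6, 43, 4, 15, 4, 15, 5, 0⟩ :=
  out_sound (S := T5.ds_mm) T5.ok_mm (w := 81) (j := 3) (by decide +kernel)
theorem L08124 : Good (Phi V5.P V5.D (-1) (-1)) ⟨8, 229, 6, 43, 4, 15, 4, 15, 5, 0⟩ :=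
  out_sound (S := T5.ds_mm) T5.ok_mm (w := 23) (j := 4) (by decide +kernel)
theorem L08125 : Good (Phi V5.P V5.D (-1) (-1)) ⟨7, 115, 6, 43, 4, 15, 4, 15, 5, 0⟩ :=
  out_sound (S := T5.ds_mm) T5.ok_mm (w := 21) (j := 4) (by decide +kernel)
theorem L08126 : Good (Phi V5.P V5.D (-1) (-1)) ⟨6, 56, 6, 42, 4, 15, 4, 15, 5, 1⟩ :=
  leafX_sound T5.ok_mm T5.Ymm.bz_eq (w := 285) (c := ⟨⟨.negSucc 1447, .ofNat 0, .ofNat 29, .ofNat 271, .ofNat 550, .ofNat 1045⟩, ⟨.ofNat 951, .ofNat 0, .negSucc 5, .negSucc 176, .negSucc 361, .negSucc 687⟩, ⟨.ofNat 890, .ofNat 0, .ofNat 26, .negSucc 84, .negSucc 445, .negSucc 635⟩, ⟨.negSucc 2238, .negSucc 0, .ofNat 4, .ofNat 298, .ofNat 583, .ofNat 1114⟩, ⟨.negSucc 323, .ofNat 0, .negSucc 3, .negSucc 119, .negSucc 278, .negSucc 521⟩, .ofNat 29238, .ofNat 43662, .ofNat 0, .ofNat 43662, .ofNat 66016, .ofNat 0, .ofNat 128, .negSucc 9480, .negSucc 12553, .ofNat 0, .ofNat 6256, .ofNat 8267, .ofNat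 0, .ofNat 0, .ofNat 7100, .ofNat 12952, .ofNat 0, .ofNat 0, .ofNat 0, .ofNat 0, .ofNat 0, .ofNat 0, .ofNat 0, .ofNat 0, .ofNat 0, .ofNat 0, .ofNat 421905049048297296042850446359401301565949476973051904, .ofNat 0, .ofNat 0, .ofNat 11860328095039974987066493967779595478134489772110712406016, .ofNat 258040395922551397955744394931491011425107961272336384, .ofNat 0⟩)
    (by decide +kernel)
theorem L08127 : Good (Phi V5.P V5.D (-1) (-1)) ⟨6, 57, 6, 42, 4, 15, 4, 15, 5, 1⟩ :=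
  leafX_sound T5.ok_mm T5.Ymm.bz_eq (w := 280) (c := ⟨⟨.negSucc 1439, .negSucc 43, .ofNat 20, .ofNat 247, .ofNat 649, .ofNat 1056⟩, ⟨.ofNat 951, .ofNat 48, .negSucc 10, .negSucc 167, .negSucc 428, .negSucc 698⟩, ⟨.ofNat 909, .negSucc 78, .ofNat 12, .negSucc 90, .negSucc 481, .negSucc 648⟩, ⟨.negSucc 3242, .ofNat 1, .ofNat 27, .ofNat 846, .ofNat 1315, .ofNat 2064⟩, ⟨.negSucc 1840, .ofNat 7, .ofNat 25, .ofNat 744, .ofNat 609, .ofNat 879⟩, .ofNat 9172, .ofNat 13156, .ofNat 0, .ofNat 13156, .ofNat 19633, .ofNat 0, .ofNat 128, .negSucc 3350, .negSucc 6297, .ofNat 0, .ofNat 2223, .ofNat 4150, .ofNat 0, .ofNat 0, .ofNat 3413, .ofNat 2958, .ofNat 0, .ofNat 0, .ofNat 2312138319533401026684524172568496844072105803776, .ofNat 0, .ofNat 0, .ofNat 0, .ofNat 2865287508446731262524049740231668620843323135885312, .ofNat 2345167741528760773245099185576697071351282345834993181261824, .ofNat 0, .ofNat 4435530632982456428213256271941908271834258077645975584768,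 .ofNat 71567000754577297029732169360279762606668981993472, .ofNat 386653621203847838727462477191829467070274714461730263162421248, .ofNat 0, .ofNat 208807529847671159488304566583411459804378735579737620480, .ofNat 0, .ofNat 554722147732509171434448934656005309445275237957615218690359296⟩)
    (by decide +kernel)
theorem L08128 : Good (Phi V5.P V5.D (-1) (-1)) ⟨6, 56, 6, 43, 4, 15, 4, 15, 5, 1⟩ :=
  out_sound (S := T5.ds_mm) T5.ok_mm (w := 69) (j := 3) (by decide +kernel)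
theorem L08129 : Good (Phi V5.P V5.D (-1) (-1)) ⟨8, 228, 6, 43, 4, 15, 4, 15, 5, 1⟩ :=
  out_sound (S := T5.ds_mm) T5.ok_mm (w := 81) (j := 3) (by decide +kernel)
theorem L08130 : Good (Phi V5.P V5.D (-1) (-1)) ⟨8, 229, 6, 43, 4, 15, 4, 15, 5, 1⟩ :=
  out_sound (S := T5.ds_mm) T5.ok_mm (w := 23) (j := 4) (by decide +kernel)
theorem L08131 : Good (Phi V5.P V5.D (-1) (-1)) ⟨7, 115, 6, 43, 4, 15, 4, 15, 5, 1⟩ :=
  out_sound (S := T5.ds_mm) T5.ok_mm (w := 21) (j := 4) (by decide +kernel)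
theorem L08132 : Good (Phi V5.P V5.D (-1) (-1)) ⟨5, 29, 5, 21, 4, 15, 4, 15, 4, 0⟩ :=
  out_sound (S := T5.ds_mm) T5.ok_mm (w := 61) (j := 3) (by decide +kernel)
theorem L08133 : Good (Phi V5.P V5.D (-1) (-1)) ⟨4, 15, 5, 21, 4, 15, 4, 15, 4, 0⟩ :=
  out_sound (S := T5.ds_mm) T5.ok_mm (w := 55) (j := 3) (by decide +kernel)
theorem L08134 : Good (Phi V5.P V5.D (-1) (-1)) ⟨2, 2, 4, 11, 4, 15, 4, 15, 4, 0⟩ :=
  out_sound (S := T5.ds_mm) T5.ok_mm (w := 41) (j := 3) (by decide +kernel)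
theorem L08135 : Good (Phi V5.P V5.D (-1) (-1)) ⟨3, 6, 4, 11, 4, 15, 4, 15, 4, 0⟩ :=
  out_sound (S := T5.ds_mm) T5.ok_mm (w := 47) (j := 3) (by decide +kernel)
theorem L08136 : Good (Phi V5.P V5.D (-1) (-1)) ⟨6, 56, 4, 11, 4, 15, 4, 15, 4, 0⟩ :=
  out_sound (S := T5.ds_mm) T5.ok_mm (w := 65) (j := 3) (by decide +kernel)
theorem L08137 : Good (Phi V5.P V5.D (-1) (-1)) ⟨7, 114, 5, 22, 4, 15, 4, 15, 4, 0⟩ :=
  out_sound (S := T5.ds_mm) T5.ok_mm (w := 73) (j := 3) (by decide +kernel)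
theorem L08138 : Good (Phi V5.P V5.D (-1) (-1)) ⟨7, 115, 5, 22, 4, 15, 4, 15, 4, 0⟩ :=
  out_sound (S := T5.ds_mm) T5.ok_mm (w := 21) (j := 4) (by decide +kernel)
theorem L08139 : Good (Phi V5.P V5.D (-1) (-1)) ⟨6, 57, 5, 23, 4, 15, 4, 15, 4, 0⟩ :=
  out_sound (S := T5.ds_mm) T5.ok_mm (w := 67) (j := 3) (by decide +kernel)
theorem L08140 : Good (Phi V5.P V5.D (-1) (-1)) ⟨5, 29, 4, 11, 4, 15, 4, 15, 4, 0⟩ :=
  out_sound (S := T5.ds_mm) T5.ok_mm (w := 17) (j := 4) (by decide +kernel)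
theorem L08141 : Good (Phi V5.P V5.D (-1) (-1)) ⟨4, 15, 4, 11, 4, 15, 4, 15, 4, 0⟩ :=
  out_sound (S := T5.ds_mm) T5.ok_mm (w := 53) (j := 3) (by decide +kernel)
theorem L08142 : Good (Phi V5.P V5.D (-1) (-1)) ⟨2, 2, 3, 5, 4, 14, 3, 7, 4, 1⟩ :=
  out_sound (S := T5.ds_mm) T5.ok_mm (w := 39) (j := 3) (by decide +kernel)
theorem L08143 : Good (Phi V5.P V5.D (-1) (-1)) ⟨3, 6, 3, 5, 5, 28, 4, 14, 4, 1⟩ :=
  out_sound (S := T5.ds_mm) T5.ok_mm (w := 45) (j := 3) (by decide +kernel)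
theorem L08144 : Good (Phi V5.P V5.D (-1) (-1)) ⟨4, 14, 5, 20, 5, 28, 4, 14, 5, 2⟩ :=
  leafX_sound T5.ok_mm T5.Ymm.bz_eq (w := 276) (c := ⟨⟨.negSucc 1146, .negSucc 47, .ofNat 131, .ofNat 158, .ofNat 461, .ofNat 376⟩, ⟨.ofNat 733, .negSucc 42, .negSucc 50, .negSucc 100, .negSucc 298, .negSucc 243⟩, ⟨.ofNat 667, .ofNat 65, .negSucc 63, .negSucc 60, .negSucc 364, .negSucc 373⟩, ⟨.negSucc 2600, .negSucc 22, .ofNat 213, .ofNat 280, .ofNat 876, .ofNat 703⟩, ⟨.negSucc 1512, .ofNat 30, .ofNat 71, .ofNat 90, .ofNat 345, .ofNat 264⟩, .ofNat 2610, .ofNat 3410, .ofNat 0, .ofNat 3410, .ofNat 5151, .ofNat 0, .ofNat 128, .negSucc 1065, .negSucc 2069, .ofNat 0, .ofNat 703, .ofNat 1318, .ofNat 0, .ofNat 0, .ofNat 1194, .ofNat 1797, .ofNat 0, .ofNat 0, .ofNat 0, .ofNat 0, .ofNat 0, .ofNat 0, .ofNat 3198962060740087997009512667204000069244283846081380352, .ofNat 1141397334598438384512197062616903225251193583202640493121896448, .ofNat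 0, .ofNat 0, .ofNat 0, .ofNat 0, .ofNat 0, .ofNat 0, .ofNat 3536017187150166429165455509750640516704901669102551040, .ofNat 1502937339649862303390799419475797710587964154747182473046654976⟩)
    (by decide +kernel)
theorem L08145 : Good (Phi V5.P V5.D (-1) (-1)) ⟨4, 14, 5, 21, 5, 28, 4, 14, 5, 2⟩ :=
  leafX_sound T5.ok_mm T5.Ymm.bz_eq (w := 278) (c := ⟨⟨.negSucc 1118, .ofNat 42, .ofNat 153, .ofNat 147, .ofNat 542, .ofNat 451⟩, ⟨.ofNat 728, .ofNat 14, .negSucc 84, .negSucc 98, .negSucc 359, .negSucc 301⟩, ⟨.ofNat 653, .negSucc 6, .negSucc 65, .negSucc 47, .negSucc 403, .negSucc 406⟩, ⟨.negSucc 2571, .ofNat 39, .ofNat 270, .ofNat 288, .ofNat 1013, .ofNat 859⟩, ⟨.negSucc 1519, .ofNat 14, .ofNat 101, .ofNat 122, .ofNat 382, .ofNat 336⟩, .ofNat 3498, .ofNat 4700, .ofNat 0, .ofNat 4700, .ofNat 7015, .ofNat 0, .ofNat 128, .negSucc 1490, .negSucc 3877, .ofNat 0, .ofNat 1001, .ofNat 2559, .ofNat 0, .ofNat 0, .ofNat 2168,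 .ofNat 2415, .ofNat 0, .ofNat 0, .ofNat 0, .ofNat 0, .ofNat 0, .ofNat 0, .ofNat 11350420906834512541998012984901521477927042597339004928, .ofNat 5208844262335298207970042803559274044823927409178219090087510016, .ofNat 0, .ofNat 0, .ofNat 11649471115130101159215176856094148849621772735841566720, .ofNat 1518245398106900470308004885908311294916431942540822530930769920, .ofNat 0, .ofNat 0, .ofNat 11945296059251470729305793011580073215964214080361725952, .ofNat 8103148918821561719009772707128227241147105184652177550121893888⟩)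
    (by decide +kernel)
theorem L08146 : Good (Phi V5.P V5.D (-1) (-1)) ⟨4, 15, 4, 10, 5, 28, 4, 14, 5, 2⟩ :=
  out_sound (S := T5.ds_mm) T5.ok_mm (w := 53) (j := 3) (by decide +kernel)
theorem L08147 : Good (Phi V5.P V5.D (-1) (-1)) ⟨4, 14, 4, 10, 5, 28, 4, 14, 5, 3⟩ :=
  leafX_sound T5.ok_mm T5.Ymm.bz_eq (w := 272) (c := ⟨⟨.negSucc 781, .negSucc 4, .ofNat 214, .ofNat 262, .ofNat 455, .negSucc 125⟩, ⟨.ofNat 518, .negSucc 206, .negSucc 50, .negSucc 170, .negSucc 297, .ofNat 82⟩, ⟨.ofNat 249, .ofNat 188, .negSucc 131, .negSucc 73, .negSucc 321, .negSucc 76⟩, ⟨.negSucc 1987, .ofNat 76, .ofNat 334, .ofNat 502, .ofNat 975, .negSucc 89⟩, ⟨.negSucc 1347, .ofNat 56, .ofNat 105, .ofNat 202, .ofNat 498, .ofNat 125⟩, .ofNat 1729, .ofNat 2154, .ofNat 0, .ofNat 2154, .ofNat 3337, .ofNat 0, .ofNat 128, .negSucc 999, .negSucc 2253, .ofNat 0, .ofNat 659, .ofNat 1428, .ofNat 0, .ofNat 0, .ofNat 1263, .ofNat 1652, .ofNat 0, .ofNat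 0, .ofNat 0, .ofNat 0, .ofNat 0, .ofNat 0, .ofNat 840263132502902904413095395252829022773988400587341824, .ofNat 160163255195304357785873819216464786874478606549585699234906112, .ofNat 0, .ofNat 0, .ofNat 1633177900038349494838364204765086743196830493097066496, .ofNat 57778923833113254022237251674479585577620058204516297224486912, .ofNat 0, .ofNat 0, .ofNat 762104992896538706953864581238970721127823929625280512, .ofNat 722965660754083255525084139293677738437444822290310791778271232⟩)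
    (by decide +kernel)
theorem L08148 : Good (Phi V5.P V5.D (-1) (-1)) ⟨4, 15, 4, 10, 5, 28, 4, 14, 5, 3⟩ :=
  out_sound (S := T5.ds_mm) T5.ok_mm (w := 53) (j := 3) (by decide +kernel)
theorem L08149 : Good (Phi V5.P V5.D (-1) (-1)) ⟨6, 56, 4, 11, 5, 28, 4, 14, 4, 1⟩ :=
  out_sound (S := T5.ds_mm) T5.ok_mm (w := 65) (j := 3) (by decide +kernel)
theorem L08150 : Good (Phi V5.P V5.D (-1) (-1)) ⟨7, 114, 5, 22, 5, 28, 4, 14, 4, 1⟩ :=
  out_sound (S := T5.ds_mm) T5.ok_mm (w := 73) (j := 3) (by decide +kernel)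
theorem L08151 : Good (Phi V5.P V5.D (-1) (-1)) ⟨7, 115, 5, 22, 5, 28, 4, 14, 4, 1⟩ :=
  out_sound (S := T5.ds_mm) T5.ok_mm (w := 21) (j := 4) (by decide +kernel)
theorem L08152 : Good (Phi V5.P V5.D (-1) (-1)) ⟨6, 57, 5, 23, 5, 28, 4, 14, 4, 1⟩ :=
  out_sound (S := T5.ds_mm) T5.ok_mm (w := 67) (j := 3) (by decide +kernel)
theorem L08153 : Good (Phi V5.P V5.D (-1) (-1)) ⟨5, 29, 4, 11, 5, 28, 4, 14, 4, 1⟩ :=
  out_sound (S := T5.ds_mm) T5.ok_mm (w := 17) (j := 4) (by decide +kernel)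
theorem L08154 : Good (Phi V5.P V5.D (-1) (-1)) ⟨4, 15, 4, 11, 5, 28, 4, 14, 4, 1⟩ :=
  out_sound (S := T5.ds_mm) T5.ok_mm (w := 53) (j := 3) (by decide +kernel)
theorem L08155 : Good (Phi V5.P V5.D (-1) (-1)) ⟨3, 6, 3, 5, 5, 28, 4, 15, 4, 1⟩ :=
  out_sound (S := T5.ds_mm) T5.ok_mm (w := 45) (j := 3) (by decide +kernel)
theorem L08156 : Good (Phi V5.P V5.D (-1) (-1)) ⟨6, 56, 4, 10, 5, 28, 4, 15, 4, 1⟩ :=
  leafX_sound T5.ok_mm T5.Ymm.bz_eq (w := 280) (c := ⟨⟨.negSucc 814, .ofNat 338, .negSucc 55, .ofNat 141, .ofNat 554, .ofNat 528⟩, ⟨.ofNat 531, .negSucc 256, .ofNat 102, .negSucc 87, .negSucc 356, .negSucc 341⟩, ⟨.ofNat 352, .negSucc 159, .ofNat 20, .negSucc 43, .negSucc 442, .negSucc 538⟩, ⟨.negSucc 1884, .ofNat 434, .ofNat 105, .ofNat 217, .ofNat 1032, .ofNat 1274⟩, ⟨.negSucc 1187, .ofNat 39, .ofNat 209, .ofNat 31, .ofNat 394, .ofNat 810⟩, .ofNat 5299, .ofNat 7693, .ofNat 0, .ofNat 7693, .ofNat 11977, .ofNat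 0, .ofNat 128, .negSucc 1618, .negSucc 3889, .ofNat 0, .ofNat 1047, .ofNat 2487, .ofNat 0, .ofNat 0, .ofNat 2427, .ofNat 1752, .ofNat 0, .ofNat 0, .ofNat 0, .ofNat 0, .ofNat 0, .ofNat 2696131334213929829295056078655960561447175432857005850624, .ofNat 46246095430829091977259756856538256790953182279761920, .ofNat 0, .ofNat 0, .ofNat 7275610401597327048929767715557567289031120119185547460608, .ofNat 85316711856434132260598291657237011402212800796295168, .ofNat 0, .ofNat 0, .ofNat 0, .ofNat 156571801594788918762940520212293504485360781110542336, .ofNat 0⟩)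
    (by decide +kernel)
theorem L08157 : Good (Phi V5.P V5.D (-1) (-1)) ⟨6, 56, 4, 11, 5, 28, 4, 15, 4, 1⟩ :=
  out_sound (S := T5.ds_mm) T5.ok_mm (w := 65) (j := 3) (by decide +kernel)
theorem L08158 : Good (Phi V5.P V5.D (-1) (-1)) ⟨7, 114, 4, 10, 5, 28, 4, 15, 4, 1⟩ :=
  leafX_sound T5.ok_mm T5.Ymm.bz_eq (w := 284) (c := ⟨⟨.negSucc 475, .ofNat 125, .ofNat 56, .ofNat 50, .ofNat 548, .ofNat 508⟩, ⟨.ofNat 338, .negSucc 56, .negSucc 83, .negSucc 32, .negSucc 361, .negSucc 340⟩, ⟨.ofNat 196, .negSucc 26, .negSucc 79, .ofNat 19, .negSucc 432, .negSucc 496⟩, ⟨.negSucc 1444, .ofNat 275, .ofNat 153, .ofNat 114, .ofNat 1044, .ofNat 1258⟩, ⟨.negSucc 1157, .ofNat 176, .ofNat 90, .ofNat 66, .ofNat 413, .ofNat 808⟩, .ofNat 4681, .ofNat 6608, .ofNat 0, .ofNat 6608, .ofNat 10090, .ofNat 0, .ofNat 128, .negSucc 2359, .negSucc 5949, .ofNat 0, .ofNat 1555, .ofNat 3866, .ofNat 0, .ofNat 0, .ofNat 3529, .ofNat 1006, .ofNat 0, .ofNat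 0, .ofNat 0, .ofNat 0, .ofNat 0, .ofNat 0, .ofNat 37968063004803499131561246375979981262799888363552768, .ofNat 209696410934603706250122089789632540128195378062637014422913024, .ofNat 0, .ofNat 0, .ofNat 0, .ofNat 0, .ofNat 0, .ofNat 0, .ofNat 56686019565638400758543976220609612847080150289874944, .ofNat 18459869921773278862579661262754552060301666619109055861408923648⟩)
    (by decide +kernel)
theorem L08159 : Good (Phi V5.P V5.D (-1) (-1)) ⟨7, 115, 4, 10, 5, 28, 4, 15, 4, 1⟩ :=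
  out_sound (S := T5.ds_mm) T5.ok_mm (w := 21) (j := 4) (by decide +kernel)
theorem L08160 : Good (Phi V5.P V5.D (-1) (-1)) ⟨7, 114, 5, 22, 5, 28, 4, 15, 4, 1⟩ :=
  out_sound (S := T5.ds_mm) T5.ok_mm (w := 73) (j := 3) (by decide +kernel)
theorem L08161 : Good (Phi V5.P V5.D (-1) (-1)) ⟨7, 115, 5, 22, 5, 28, 4, 15, 4, 1⟩ :=
  out_sound (S := T5.ds_mm) T5.ok_mm (w := 21) (j := 4) (by decide +kernel)
theorem L08162 : Good (Phi V5.P V5.D (-1) (-1)) ⟨6, 57, 5, 23, 5, 28, 4, 15, 4, 1⟩ :=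
  out_sound (S := T5.ds_mm) T5.ok_mm (w := 67) (j := 3) (by decide +kernel)
theorem L08163 : Good (Phi V5.P V5.D (-1) (-1)) ⟨5, 29, 3, 5, 5, 28, 4, 15, 4, 1⟩ :=
  out_sound (S := T5.ds_mm) T5.ok_mm (w := 17) (j := 4) (by decide +kernel)
theorem L08164 : Good (Phi V5.P V5.D (-1) (-1)) ⟨4, 15, 3, 5, 5, 28, 4, 15, 4, 1⟩ :=
  out_sound (S := T5.ds_mm) T5.ok_mm (w := 51) (j := 3) (by decide +kernel)
theorem L08165 : Good (Phi V5.P V5.D (-1) (-1)) ⟨3, 6, 3, 5, 5, 29, 3, 7, 5, 2⟩ :=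
  out_sound (S := T5.ds_mm) T5.ok_mm (w := 45) (j := 3) (by decide +kernel)
theorem L08166 : Good (Phi V5.P V5.D (-1) (-1)) ⟨5, 28, 5, 20, 5, 29, 3, 7, 5, 2⟩ :=
  leafX_sound T5.ok_mm T5.Ymm.bz_eq (w := 278) (c := ⟨⟨.negSucc 946, .negSucc 71, .ofNat 132, .ofNat 114, .ofNat 799, .ofNat 491⟩, ⟨.ofNat 612, .negSucc 16, .negSucc 48, .negSucc 73, .negSucc 516, .negSucc 318⟩, ⟨.ofNat 592, .negSucc 71, .negSucc 19, .negSucc 15, .negSucc 653, .negSucc 387⟩, ⟨.negSucc 2245, .negSucc 10, .ofNat 174, .ofNat 226, .ofNat 1539, .ofNat 970⟩, ⟨.negSucc 1385, .ofNat 30, .ofNat 35, .ofNat 101, .ofNat 639, .ofNat 428⟩, .ofNat 5918, .ofNat 8534, .ofNat 0, .ofNat 8534, .ofNat 13101, .ofNat 0, .ofNat 128, .negSucc 1120, .negSucc 1683, .ofNat 0, .ofNat 728, .ofNat 1082, .ofNat 0, .ofNat 0, .ofNat 992, .ofNat 1030, .ofNat 0, .ofNat 0, .ofNat 0, .ofNat 0, .ofNat 0, .ofNat 1833416223386708224162788459073458368919355551519447449600, .ofNat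 1225050571850744682981398872432604983638676306602754048, .ofNat 0, .ofNat 0, .ofNat 0, .ofNat 0, .ofNat 0, .ofNat 0, .ofNat 0, .ofNat 53910499137660397951502286081844019630538883013279744, .ofNat 600166567435211031173545712800455467679428181719020343822123008⟩)
    (by decide +kernel)
theorem L08167 : Good (Phi V5.P V5.D (-1) (-1)) ⟨5, 29, 5, 20, 5, 29, 3, 7, 5, 2⟩ :=
  out_sound (S := T5.ds_mm) T5.ok_mm (w := 61) (j := 3) (by decide +kernel)
theorem L08168 : Good (Phi V5.P V5.D (-1) (-1)) ⟨4, 14, 5, 21, 5, 29, 3, 7, 5, 2⟩ :=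
  leafX_sound T5.ok_mm T5.Ymm.bz_eq (w := 275) (c := ⟨⟨.negSucc 992, .ofNat 3, .ofNat 85, .ofNat 146, .ofNat 914, .ofNat 649⟩, ⟨.ofNat 661, .negSucc 29, .negSucc 36, .negSucc 95, .negSucc 603, .negSucc 429⟩, ⟨.ofNat 596, .negSucc 15, .negSucc 24, .negSucc 26, .negSucc 693, .negSucc 447⟩, ⟨.negSucc 2289, .ofNat 14, .ofNat 94, .ofNat 295, .ofNat 1703, .ofNat 1227⟩, ⟨.negSucc 1351, .negSucc 1, .negSucc 10, .ofNat 138, .ofNat 640, .ofNat 479⟩, .ofNat 5387, .ofNat 7421, .ofNat 0, .ofNat 7421, .ofNat 10940, .ofNat 0, .ofNat 128, .negSucc 2113, .negSucc 3359, .ofNat 0, .ofNat 1421, .ofNat 2227, .ofNat 0, .ofNat 0, .ofNat 1808, .ofNat 1949, .ofNat 0, .ofNat 0, .ofNat 0, .ofNat 0, .ofNat 0, .ofNat 21640966996023121658395442689530547539167945520559685632, .ofNat 1419078163769073796995687573787178618949630738739232768, .ofNat 850166153023480462743458633113762498234730088612205964029853696, .ofNat 0, .ofNat 847561892738003763753693335824040637121044496562434080768,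 .ofNat 1105921419861903233862849973574734495951790471072710656, .ofNat 0, .ofNat 0, .ofNat 0, .ofNat 894951124585439028278460955190766382826218401092861952, .ofNat 301199396414595255199406163791383625027471082774551076355964928⟩)
    (by decide +kernel)
theorem L08169 : Good (Phi V5.P V5.D (-1) (-1)) ⟨4, 15, 4, 10, 5, 29, 3, 7, 5, 2⟩ :=
  out_sound (S := T5.ds_mm) T5.ok_mm (w := 53) (j := 3) (by decide +kernel)
theorem L08170 : Good (Phi V5.P V5.D (-1) (-1)) ⟨6, 56, 4, 11, 5, 29, 3, 7, 5, 2⟩ :=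
  out_sound (S := T5.ds_mm) T5.ok_mm (w := 65) (j := 3) (by decide +kernel)
theorem L08171 : Good (Phi V5.P V5.D (-1) (-1)) ⟨7, 114, 5, 22, 5, 29, 3, 7, 5, 2⟩ :=
  out_sound (S := T5.ds_mm) T5.ok_mm (w := 73) (j := 3) (by decide +kernel)
theorem L08172 : Good (Phi V5.P V5.D (-1) (-1)) ⟨7, 115, 5, 22, 5, 29, 3, 7, 5, 2⟩ :=
  out_sound (S := T5.ds_mm) T5.ok_mm (w := 21) (j := 4) (by decide +kernel)
theorem L08173 : Good (Phi V5.P V5.D (-1) (-1)) ⟨6, 57, 5, 23, 5, 29, 3, 7, 5, 2⟩ :=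
  out_sound (S := T5.ds_mm) T5.ok_mm (w := 67) (j := 3) (by decide +kernel)
theorem L08174 : Good (Phi V5.P V5.D (-1) (-1)) ⟨5, 29, 4, 11, 5, 29, 3, 7, 5, 2⟩ :=
  out_sound (S := T5.ds_mm) T5.ok_mm (w := 17) (j := 4) (by decide +kernel)
theorem L08175 : Good (Phi V5.P V5.D (-1) (-1)) ⟨4, 15, 4, 11, 5, 29, 3, 7, 5, 2⟩ :=
  out_sound (S := T5.ds_mm) T5.ok_mm (w := 53) (j := 3) (by decide +kernel)
theorem L08176 : Good (Phi V5.P V5.D (-1) (-1)) ⟨3, 6, 3, 5, 5, 29, 3, 7, 5, 3⟩ :=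
  out_sound (S := T5.ds_mm) T5.ok_mm (w := 45) (j := 3) (by decide +kernel)
theorem L08177 : Good (Phi V5.P V5.D (-1) (-1)) ⟨6, 56, 4, 10, 5, 29, 3, 7, 5, 3⟩ :=
  leafX_sound T5.ok_mm T5.Ymm.bz_eq (w := 278) (c := ⟨⟨.negSucc 599, .ofNat 104, .ofNat 113, .ofNat 282, .ofNat 880, .negSucc 30⟩, ⟨.ofNat 383, .negSucc 76, .negSucc 47, .negSucc 181, .negSucc 568, .ofNat 21⟩, ⟨.ofNat 196, .negSucc 18, .negSucc 45, .negSucc 51, .negSucc 592, .negSucc 97⟩, ⟨.negSucc 1626, .ofNat 214, .ofNat 197, .ofNat 584, .ofNat 1903, .ofNat 49⟩, ⟨.negSucc 1202, .ofNat 105, .ofNat 89, .ofNat 286, .ofNat 1011, .ofNat 141⟩, .ofNat 3666, .ofNat 5208, .ofNat 0, .ofNat 5208, .ofNat 8186, .ofNat 0, .ofNat 128, .negSucc 1342, .negSucc 1873, .ofNat 0, .ofNat 864, .ofNat 1186, .ofNat 0, .ofNat 0, .ofNat 1179, .ofNat 1801, .ofNat 0, .ofNat 0, .ofNat 0, .ofNat 0, .ofNat 0, .ofNat 0, .ofNat 0, .ofNat 0, .ofNat 0, .ofNat 7427115433649362880789961600303313165119995789697699807232,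 .ofNat 130265162353816319298291399332512586460948330329407488, .ofNat 0, .ofNat 0, .ofNat 0, .ofNat 107623522232366767313453457215789182633343394680668160, .ofNat 0⟩)
    (by decide +kernel)
theorem L08178 : Good (Phi V5.P V5.D (-1) (-1)) ⟨6, 57, 4, 10, 5, 29, 3, 7, 5, 3⟩ :=
  leafX_sound T5.ok_mm T5.Ymm.bz_eq (w := 282) (c := ⟨⟨.negSucc 512, .ofNat 152, .ofNat 174, .ofNat 287, .ofNat 937, .negSucc 82⟩, ⟨.ofNat 331, .negSucc 106, .negSucc 99, .negSucc 190, .negSucc 619, .ofNat 54⟩, ⟨.ofNat 131, .negSucc 75, .ofNat 10, .negSucc 44, .negSucc 606, .negSucc 62⟩, ⟨.negSucc 1356, .ofNat 223, .ofNat 209, .ofNat 626, .ofNat 1775, .negSucc 29⟩, ⟨.negSucc 987, .ofNat 0, .ofNat 0, .ofNat 336, .ofNat 694, .ofNat 126⟩, .ofNat 7245, .ofNat 10483, .ofNat 0, .ofNat 10483, .ofNat 15948, .ofNat 0, .ofNat 128, .negSucc 3146, .negSucc 3169, .ofNat 0, .ofNat 2081, .ofNat 2081, .ofNat 0, .ofNat 0, .ofNat 1973, .ofNat 446, .ofNat 0,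 .ofNat 0, .ofNat 0, .ofNat 0, .ofNat 0, .ofNat 2071552158646428442501124396488548298741388169787379548160, .ofNat 809317048211412927054582151301247318711454390311452672, .ofNat 0, .ofNat 0, .ofNat 63811192299025481144950211896860763181189793756268011192320, .ofNat 48255991605511418168997363777743181951878670944567296, .ofNat 3831145962743119659981663867504113108990035836641611038999969792, .ofNat 0, .ofNat 0, .ofNat 408608664035564441390774029559659014216990811981086720, .ofNat 8007314376477890744528056113195740752899603106150935821270646784⟩)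
    (by decide +kernel)
theorem L08179 : Good (Phi V5.P V5.D (-1) (-1)) ⟨6, 56, 4, 11, 5, 29, 3, 7, 5, 3⟩ :=
  out_sound (S := T5.ds_mm) T5.ok_mm (w := 65) (j := 3) (by decide +kernel)
theorem L08180 : Good (Phi V5.P V5.D (-1) (-1)) ⟨7, 114, 5, 22, 5, 29, 3, 7, 5, 3⟩ :=
  out_sound (S := T5.ds_mm) T5.ok_mm (w := 73) (j := 3) (by decide +kernel)
theorem L08181 : Good (Phi V5.P V5.D (-1) (-1)) ⟨7, 115, 5, 22, 5, 29, 3, 7, 5, 3⟩ :=
  out_sound (S := T5.ds_mm) T5.ok_mm (w := 21) (j := 4) (by decide +kernel)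
theorem L08182 : Good (Phi V5.P V5.D (-1) (-1)) ⟨6, 57, 5, 23, 5, 29, 3, 7, 5, 3⟩ :=
  out_sound (S := T5.ds_mm) T5.ok_mm (w := 67) (j := 3) (by decide +kernel)
theorem L08183 : Good (Phi V5.P V5.D (-1) (-1)) ⟨5, 29, 3, 5, 5, 29, 3, 7, 5, 3⟩ :=
  out_sound (S := T5.ds_mm) T5.ok_mm (w := 17) (j := 4) (by decide +kernel)
theorem L08184 : Good (Phi V5.P V5.D (-1) (-1)) ⟨4, 15, 3, 5, 5, 29, 3, 7, 5, 3⟩ :=
  out_sound (S := T5.ds_mm) T5.ok_mm (w := 51) (j := 3) (by decide +kernel)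
theorem L08185 : Good (Phi V5.P V5.D (-1) (-1)) ⟨2, 2, 5, 20, 4, 15, 4, 14, 4, 1⟩ :=
  out_sound (S := T5.ds_mm) T5.ok_mm (w := 43) (j := 3) (by decide +kernel)
theorem L08186 : Good (Phi V5.P V5.D (-1) (-1)) ⟨3, 6, 5, 20, 4, 15, 4, 14, 4, 1⟩ :=
  out_sound (S := T5.ds_mm) T5.ok_mm (w := 49) (j := 3) (by decide +kernel)
theorem L08187 : Good (Phi V5.P V5.D (-1) (-1)) ⟨4, 14, 5, 20, 5, 30, 4, 14, 4, 1⟩ :=
  leafX_sound T5.ok_mm T5.Ymm.bz_eq (w := 271) (c := ⟨⟨.negSucc 900, .negSucc 158, .ofNat 184, .ofNat 271, .ofNat 407, .ofNat 785⟩, ⟨.ofNat 598, .negSucc 120, .negSucc 79, .negSucc 170, .negSucc 263, .negSucc 510⟩, ⟨.ofNat 520, .ofNat 347, .negSucc 102, .negSucc 82, .negSucc 312, .negSucc 534⟩, ⟨.negSucc 2263, .negSucc 9, .ofNat 337, .ofNat 581, .ofNat 893, .ofNat 1770⟩, ⟨.negSucc 1494, .ofNat 62, .ofNat 171, .ofNat 311, .ofNat 486, .ofNat 992⟩, .ofNat 2821, .ofNat 3714, .ofNat 0, .ofNat 3714, .ofNat 5588, .ofNat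 0, .ofNat 128, .negSucc 1862, .negSucc 1769, .ofNat 0, .ofNat 1212, .ofNat 1114, .ofNat 0, .ofNat 0, .ofNat 938, .ofNat 1023, .ofNat 0, .ofNat 0, .ofNat 1628129937072695493087820786064181697762748272738304, .ofNat 0, .ofNat 0, .ofNat 0, .ofNat 243192313540221438360686029264552867661674330447675392, .ofNat 28539888970340283524470924173438027435232468479269145766002688, .ofNat 0, .ofNat 278822559370145483123809127445941084312934324055020929024, .ofNat 105475883926621764073284126063818121730938179124461568, .ofNat 62673638205969040735210272787693289391931834757048459014963200, .ofNat 0, .ofNat 0, .ofNat 147585130971088198289123454850541326119449665967489024, .ofNat 62005951381250959890085827313742813597347302081706800845946880⟩)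
    (by decide +kernel)
theorem L08188 : Good (Phi V5.P V5.D (-1) (-1)) ⟨4, 14, 5, 20, 5, 31, 4, 14, 5, 2⟩ :=
  leafX_sound T5.ok_mm T5.Ymm.bz_eq (w := 276) (c := ⟨⟨.negSucc 1019, .ofNat 124, .ofNat 274, .ofNat 352, .ofNat 636, .ofNat 1008⟩, ⟨.ofNat 664, .negSucc 122, .negSucc 169, .negSucc 226, .negSucc 415, .negSucc 663⟩, ⟨.ofNat 605, .ofNat 182, .negSucc 129, .negSucc 94, .negSucc 396, .negSucc 472⟩, ⟨.negSucc 2578, .ofNat 144, .ofNat 561, .ofNat 903, .ofNat 1501, .ofNat 2396⟩, ⟨.negSucc 1744, .ofNat 46, .ofNat 264, .ofNat 620, .ofNat 912, .ofNat 1461⟩, .ofNat 2610, .ofNat 3410, .ofNat 0, .ofNat 3410, .ofNat 5151, .ofNat 0, .ofNat 128, .negSucc 1385, .negSucc 2584, .ofNat 0, .ofNat 888, .ofNat 1610, .ofNat 0, .ofNat 0, .ofNat 1183, .ofNat 469, .ofNat 0, .ofNat 0, .ofNat 79577604357637899342209396800008156997923620117282816, .ofNat 4243934552539597738010564827132859404466239442595623643119616, .ofNat 0, .ofNat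 0, .ofNat 3585188468724769888050979094135443767094639232408354816, .ofNat 1313613887062617838478973426374445571416416889669524144907091968, .ofNat 0, .ofNat 0, .ofNat 160202942660704342398813771838937653405846634728783872, .ofNat 4197873129696094488763162592689955440148255163520452373382168576, .ofNat 0, .ofNat 0, .ofNat 7232373350235954210358369681140732395877889978279133184, .ofNat 6362092612516364285872032517833980129932048152710571298633285632⟩)
    (by decide +kernel)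
theorem L08189 : Good (Phi V5.P V5.D (-1) (-1)) ⟨4, 14, 5, 20, 5, 31, 4, 14, 5, 3⟩ :=
  leafX_sound T5.ok_mm T5.Ymm.bz_eq (w := 276) (c := ⟨⟨.negSucc 367, .ofNat 141, .ofNat 512, .ofNat 825, .ofNat 1008, .ofNat 224⟩, ⟨.ofNat 272, .negSucc 292, .negSucc 325, .negSucc 539, .negSucc 659, .negSucc 147⟩, ⟨.ofNat 75, .ofNat 541, .negSucc 222, .negSucc 130, .negSucc 371, .ofNat 6⟩, ⟨.negSucc 1255, .ofNat 198, .ofNat 1029, .ofNat 2054, .ofNat 2295, .ofNat 506⟩, ⟨.negSucc 1120, .ofNat 68, .ofNat 454, .ofNat 1345, .ofNat 1322, .ofNat 283⟩, .ofNat 2821, .ofNat 3714, .ofNat 0, .ofNat 3714, .ofNat 5588, .ofNat 0, .ofNat 128, .negSucc 2237, .negSucc 1771, .ofNat 0, .ofNat 1453, .ofNat 1107, .ofNat 0, .ofNat 0, .ofNat 974, .ofNat 498, .ofNat 0, .ofNat 0, .ofNat 110630408215417791946835019947569329505550840163729408, .ofNat 13762776724103646185613296484284160864955633594640946127962112, .ofNat 0, .ofNat 0, .ofNat 5836513707994500601238816717379007918852874065059774464,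 .ofNat 2706119031105625308631830286368066926009206666878469207582834688, .ofNat 0, .ofNat 2974252448090824448105158512760751290756978960242718015488, .ofNat 5852749890643471385173807621082789068004611155478708224, .ofNat 3301204120923776845672895281699826146700378836700431193416400896, .ofNat 0, .ofNat 0, .ofNat 6414390568332822666844324343583376564122792078792982528, .ofNat 5471218572660508327542779015081553062146333842425798885583618048⟩)
    (by decide +kernel)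
theorem L08190 : Good (Phi V5.P V5.D (-1) (-1)) ⟨4, 15, 5, 20, 4, 15, 4, 14, 4, 1⟩ :=
  out_sound (S := T5.ds_mm) T5.ok_mm (w := 55) (j := 3) (by decide +kernel)
theorem L08191 : Good (Phi V5.P V5.D (-1) (-1)) ⟨2, 2, 5, 21, 4, 15, 4, 14, 4, 1⟩ :=
  out_sound (S := T5.ds_mm) T5.ok_mm (w := 43) (j := 3) (by decide +kernel)
theorem L08192 : Good (Phi V5.P V5.D (-1) (-1)) ⟨3, 6, 5, 21, 4, 15, 4, 14, 4, 1⟩ :=
  out_sound (S := T5.ds_mm) T5.ok_mm (w := 49) (j := 3) (by decide +kernel)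
theorem L08193 : Good (Phi V5.P V5.D (-1) (-1)) ⟨6, 56, 7, 84, 4, 15, 4, 14, 4, 1⟩ :=
  leafX_sound T5.ok_mm T5.Ymm.bz_eq (w := 285) (c := ⟨⟨.negSucc 964, .ofNat 0, .negSucc 350, .ofNat 1037, .ofNat 638, .ofNat 1107⟩, ⟨.ofNat 632, .ofNat 0, .ofNat 230, .negSucc 679, .negSucc 418, .negSucc 728⟩, ⟨.ofNat 562, .ofNat 0, .negSucc 116, .negSucc 298, .negSucc 405, .negSucc 455⟩, ⟨.negSucc 1240, .ofNat 0, .negSucc 287, .ofNat 1354, .ofNat 852, .ofNat 1417⟩, ⟨.ofNat 173, .ofNat 0, .ofNat 175, .negSucc 143, .negSucc 66, .negSucc 207⟩, .ofNat 23148, .ofNat 34491, .ofNat 0, .ofNat 34491, .ofNat 52201, .ofNat 0, .ofNat 128, .negSucc 25088, .negSucc 18722, .ofNat 0, .ofNat 16561, .ofNat 12324, .ofNat 0, .ofNat 0, .ofNat 10679, .ofNat 8155, .ofNat 0, .ofNat 0, .ofNat 85445957203230161663773677276790980748001169899520, .ofNat 0, .ofNat 0, .ofNat 0, .ofNat 11045686982862035514725923210632153179698620880912384, .ofNat 0, .ofNat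 0, .ofNat 221858645141579577672330191452161334706825881890052856872960, .ofNat 112486679641389351227425584685647553815649450085842944, .ofNat 0, .ofNat 0, .ofNat 0, .ofNat 89247099679755010996774954584690157831406896948445184, .ofNat 0⟩)
    (by decide +kernel)
theorem L08194 : Good (Phi V5.P V5.D (-1) (-1)) ⟨6, 56, 7, 85, 4, 15, 4, 14, 4, 1⟩ :=
  out_sound (S := T5.ds_mm) T5.ok_mm (w := 71) (j := 3) (by decide +kernel)
theorem L08195 : Good (Phi V5.P V5.D (-1) (-1)) ⟨7, 114, 7, 84, 4, 15, 4, 14, 5, 2⟩ :=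
  leafX_sound T5.ok_mm T5.Ymm.bz_eq (w := 288) (c := ⟨⟨.negSucc 1205, .ofNat 301, .negSucc 40, .ofNat 914, .ofNat 687, .ofNat 1165⟩, ⟨.ofNat 794, .negSucc 151, .ofNat 17, .negSucc 599, .negSucc 455, .negSucc 772⟩, ⟨.ofNat 690, .ofNat 243, .negSucc 59, .negSucc 272, .negSucc 421, .negSucc 551⟩, ⟨.negSucc 2541, .ofNat 103, .negSucc 108, .ofNat 1722, .ofNat 1558, .ofNat 2430⟩, ⟨.negSucc 1278, .negSucc 63, .negSucc 182, .ofNat 668, .ofNat 888, .ofNat 1191⟩, .ofNat 9399, .ofNat 13635, .ofNat 0, .ofNat 13635, .ofNat 20561, .ofNat 0, .ofNat 128, .negSucc 6488, .negSucc 7198, .ofNat 0, .ofNat 4289, .ofNat 4731, .ofNat 0, .ofNat 0, .ofNat 3702, .ofNat 3253, .ofNat 0, .ofNat 0, .ofNat 7033645277456094410717121400815210919473893605376, .ofNat 0, .ofNat 0, .ofNat 0, .ofNat 6699917437822428994624017150686483654607411127255040, .ofNat 0, .ofNat 0, .ofNat 0, .ofNat 0, .ofNat 0, .ofNat 0, .ofNat 0, .ofNat 20620263211473041235951850167793062844989936320380928,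 .ofNat 0⟩)
    (by decide +kernel)
theorem L08196 : Good (Phi V5.P V5.D (-1) (-1)) ⟨7, 114, 7, 85, 4, 15, 4, 14, 5, 2⟩ :=
  leafX_sound T5.ok_mm T5.Ymm.bz_eq (w := 290) (c := ⟨⟨.negSucc 1172, .negSucc 8, .ofNat 33, .ofNat 822, .ofNat 701, .ofNat 1227⟩, ⟨.ofNat 766, .ofNat 63, .negSucc 38, .negSucc 545, .negSucc 470, .negSucc 819⟩, ⟨.ofNat 719, .negSucc 147, .ofNat 5, .negSucc 219, .negSucc 429, .negSucc 568⟩, ⟨.negSucc 2484, .ofNat 66, .ofNat 239, .ofNat 1455, .ofNat 1716, .ofNat 2339⟩, ⟨.negSucc 1253, .ofNat 80, .ofNat 294, .ofNat 460, .ofNat 1093, .ofNat 929⟩, .ofNat 17451, .ofNat 25638, .ofNat 0, .ofNat 25638, .ofNat 38452, .ofNat 0, .ofNat 128, .negSucc 7925, .negSucc 8908, .ofNat 0, .ofNat 5283, .ofNat 5924, .ofNat 0, .ofNat 0, .ofNat 4520, .ofNat 3705, .ofNat 0, .ofNat 0, .ofNat 15598037909368878105031456806103301038817337671680, .ofNat 1688718440118717936927495559280014726857747514374255615672320, .ofNat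 0, .ofNat 0, .ofNat 24081320247057445393463655825947400703516324791320576, .ofNat 0, .ofNat 0, .ofNat 0, .ofNat 0, .ofNat 112444435940060400069259358920052106588897707299732596528036970496, .ofNat 0, .ofNat 0, .ofNat 2320605178180393084028603582895648639089284585881600, .ofNat 45934996392216280544633653342381988638376316867425184108425248768⟩)
    (by decide +kernel)
theorem L08197 : Good (Phi V5.P V5.D (-1) (-1)) ⟨8, 228, 7, 84, 4, 15, 4, 14, 5, 3⟩ :=
  leafX_sound T5.ok_mm T5.Ymm.bz_eq (w := 294) (c := ⟨⟨.negSucc 542, .negSucc 207, .ofNat 140, .ofNat 1713, .ofNat 938, .ofNat 127⟩, ⟨.ofNat 359, .ofNat 144, .negSucc 105, .negSucc 1127, .negSucc 618, .negSucc 84⟩, ⟨.ofNat 130, .negSucc 512, .ofNat 250, .negSucc 309, .negSucc 383, .ofNat 48⟩, ⟨.negSucc 671, .negSucc 4, .ofNat 223, .ofNat 2652, .ofNat 1735, .ofNat 343⟩, ⟨.ofNat 118, .ofNat 168, .ofNat 181, .ofNat 385, .ofNat 634, .ofNat 244⟩, .ofNat 16624, .ofNat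 24596, .ofNat 0, .ofNat 24596, .ofNat 37193, .ofNat 0, .ofNat 128, .negSucc 12217, .negSucc 6875, .ofNat 0, .ofNat 8086, .ofNat 4534, .ofNat 0, .ofNat 0, .ofNat 4221, .ofNat 3502, .ofNat 0, .ofNat 0, .ofNat 18203916453963514927825269471984784195248313073664, .ofNat 0, .ofNat 0, .ofNat 0, .ofNat 1455180676351377705897748535125330130582222565015552, .ofNat 0, .ofNat 0, .ofNat 0, .ofNat 0, .ofNat 0, .ofNat 0, .ofNat 0, .ofNat 8940515983585225562252211127568979567033263966912512, .ofNat 0⟩)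
    (by decide +kernel)
theorem L08198 : Good (Phi V5.P V5.D (-1) (-1)) ⟨8, 228, 7, 85, 4, 15, 4, 14, 5, 3⟩ :=
  leafX_sound T5.ok_mm T5.Ymm.bz_eq (w := 292) (c := ⟨⟨.negSucc 355, .negSucc 47, .ofNat 142, .ofNat 1570, .ofNat 789, .ofNat 92⟩, ⟨.ofNat 288, .negSucc 49, .negSucc 59, .negSucc 1051, .negSucc 532, .negSucc 67⟩, ⟨.ofNat 130, .negSucc 90, .ofNat 17, .negSucc 273, .negSucc 337, .ofNat 59⟩, ⟨.negSucc 1574, .ofNat 170, .ofNat 313, .ofNat 3501, .ofNat 2086, .ofNat 446⟩, ⟨.negSucc 1500, .ofNat 166, .ofNat 270, .ofNat 1940, .ofNat 1454, .ofNat 462⟩, .ofNat 7664, .ofNat 11085, .ofNat 0, .ofNat 11085, .ofNat 16809, .ofNat 0, .ofNat 128, .negSucc 8726, .negSucc 8104, .ofNat 0, .ofNat 5775, .ofNat 5330, .ofNat 0, .ofNat 0, .ofNat 4670, .ofNat 2253, .ofNat 0, .ofNat 0, .ofNat 0, .ofNat 0, .ofNat 0, .ofNat 0, .ofNat 2961009003519582450926191786454353733560676456071168, .ofNat 0, .ofNat 0, .ofNat 56396921596607899455939598656834336587815818284420079676293120,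 .ofNat 16352158705175421871157458776158659769217932589006848, .ofNat 173774274259696719993741786028679415258321496242181466079048499200, .ofNat 0, .ofNat 0, .ofNat 0, .ofNat 0⟩)
    (by decide +kernel)
theorem L08199 : Good (Phi V5.P V5.D (-1) (-1)) ⟨8, 229, 6, 42, 4, 15, 4, 14, 5, 3⟩ :=
  out_sound (S := T5.ds_mm) T5.ok_mm (w := 23) (j := 4) (by decide +kernel)
theorem L08200 : Good (Phi V5.P V5.D (-1) (-1)) ⟨7, 115, 6, 42, 4, 15, 4, 14, 4, 1⟩ :=
  out_sound (S := T5.ds_mm) T5.ok_mm (w := 75) (j := 3) (by decide +kernel)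
theorem L08201 : Good (Phi V5.P V5.D (-1) (-1)) ⟨6, 56, 6, 43, 4, 15, 4, 14, 4, 1⟩ :=
  out_sound (S := T5.ds_mm) T5.ok_mm (w := 69) (j := 3) (by decide +kernel)
theorem L08202 : Good (Phi V5.P V5.D (-1) (-1)) ⟨8, 228, 6, 43, 4, 15, 4, 14, 4, 1⟩ :=
  out_sound (S := T5.ds_mm) T5.ok_mm (w := 81) (j := 3) (by decide +kernel)
theorem L08203 : Good (Phi V5.P V5.D (-1) (-1)) ⟨8, 229, 6, 43, 4, 15, 4, 14, 4, 1⟩ :=
  out_sound (S := T5.ds_mm) T5.ok_mm (w := 23) (j := 4) (by decide +kernel)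
theorem L08204 : Good (Phi V5.P V5.D (-1) (-1)) ⟨7, 115, 6, 43, 4, 15, 4, 14, 4, 1⟩ :=
  out_sound (S := T5.ds_mm) T5.ok_mm (w := 21) (j := 4) (by decide +kernel)
theorem L08205 : Good (Phi V5.P V5.D (-1) (-1)) ⟨5, 29, 5, 21, 4, 15, 4, 14, 4, 1⟩ :=
  out_sound (S := T5.ds_mm) T5.ok_mm (w := 61) (j := 3) (by decide +kernel)
theorem L08206 : Good (Phi V5.P V5.D (-1) (-1)) ⟨4, 15, 5, 21, 4, 15, 4, 14, 4, 1⟩ :=
  out_sound (S := T5.ds_mm) T5.ok_mm (w := 55) (j := 3) (by decide +kernel)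
theorem L08207 : Good (Phi V5.P V5.D (-1) (-1)) ⟨2, 2, 4, 11, 4, 15, 4, 14, 4, 1⟩ :=
  out_sound (S := T5.ds_mm) T5.ok_mm (w := 41) (j := 3) (by decide +kernel)
theorem L08208 : Good (Phi V5.P V5.D (-1) (-1)) ⟨3, 6, 4, 11, 4, 15, 4, 14, 4, 1⟩ :=
  out_sound (S := T5.ds_mm) T5.ok_mm (w := 47) (j := 3) (by decide +kernel)
theorem L08209 : Good (Phi V5.P V5.D (-1) (-1)) ⟨6, 56, 4, 11, 4, 15, 4, 14, 4, 1⟩ :=
  out_sound (S := T5.ds_mm) T5.ok_mm (w := 65) (j := 3) (by decide +kernel)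
theorem L08210 : Good (Phi V5.P V5.D (-1) (-1)) ⟨7, 114, 5, 22, 4, 15, 4, 14, 4, 1⟩ :=
  out_sound (S := T5.ds_mm) T5.ok_mm (w := 73) (j := 3) (by decide +kernel)
theorem L08211 : Good (Phi V5.P V5.D (-1) (-1)) ⟨7, 115, 5, 22, 4, 15, 4, 14, 4, 1⟩ :=
  out_sound (S := T5.ds_mm) T5.ok_mm (w := 21) (j := 4) (by decide +kernel)
theorem L08212 : Good (Phi V5.P V5.D (-1) (-1)) ⟨6, 57, 5, 23, 4, 15, 4, 14, 4, 1⟩ :=
  out_sound (S := T5.ds_mm) T5.ok_mm (w := 67) (j := 3) (by decide +kernel)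
theorem L08213 : Good (Phi V5.P V5.D (-1) (-1)) ⟨5, 29, 4, 11, 4, 15, 4, 14, 4, 1⟩ :=
  out_sound (S := T5.ds_mm) T5.ok_mm (w := 17) (j := 4) (by decide +kernel)
theorem L08214 : Good (Phi V5.P V5.D (-1) (-1)) ⟨4, 15, 4, 11, 4, 15, 4, 14, 4, 1⟩ :=
  out_sound (S := T5.ds_mm) T5.ok_mm (w := 53) (j := 3) (by decide +kernel)
theorem L08215 : Good (Phi V5.P V5.D (-1) (-1)) ⟨2, 2, 5, 20, 4, 15, 4, 15, 4, 1⟩ :=
  out_sound (S := T5.ds_mm) T5.ok_mm (w := 43) (j := 3) (by decide +kernel)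
theorem L08216 : Good (Phi V5.P V5.D (-1) (-1)) ⟨3, 6, 5, 20, 4, 15, 4, 15, 4, 1⟩ :=
  out_sound (S := T5.ds_mm) T5.ok_mm (w := 49) (j := 3) (by decide +kernel)
theorem L08217 : Good (Phi V5.P V5.D (-1) (-1)) ⟨6, 56, 6, 40, 4, 15, 4, 15, 5, 2⟩ :=
  leafX_sound T5.ok_mm T5.Ymm.bz_eq (w := 278) (c := ⟨⟨.negSucc 1006, .ofNat 285, .ofNat 28, .ofNat 968, .ofNat 652, .ofNat 1168⟩, ⟨.ofNat 628, .negSucc 157, .negSucc 30, .negSucc 611, .negSucc 409, .negSucc 743⟩, ⟨.ofNat 420, .negSucc 162, .ofNat 6, .negSucc 257, .negSucc 435, .negSucc 480⟩, ⟨.negSucc 1977, .ofNat 308, .ofNat 141, .ofNat 2038, .ofNat 920, .ofNat 2269⟩, ⟨.negSucc 899, .negSucc 57, .ofNat 133, .ofNat 1037, .ofNat 3, .ofNat 954⟩, .ofNat 8281, .ofNat 12322, .ofNat 0, .ofNat 12322, .ofNat 19171, .ofNat 0, .ofNat 128, .negSucc 3182, .negSucc 2704, .ofNat 0, .ofNat 2039, .ofNat 1719, .ofNat 0, .ofNat 0, .ofNat 1522, .ofNat 1441, .ofNat 0, .ofNat 0, .ofNat 0,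 .ofNat 0, .ofNat 0, .ofNat 180849377133661822839950710569215187986165980455520698368, .ofNat 2269418822518275185154316653607185353185514278092800, .ofNat 0, .ofNat 0, .ofNat 8844509093616727508561034266737304730612064222428690120704, .ofNat 3363625956177953892126722416303808143742065962909696, .ofNat 0, .ofNat 0, .ofNat 814710563086272034369185401199217260970429988570256113664, .ofNat 737115294455204571112390622856585598925585044733952, .ofNat 0⟩)
    (by decide +kernel)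
theorem L08218 : Good (Phi V5.P V5.D (-1) (-1)) ⟨6, 56, 6, 41, 4, 15, 4, 15, 5, 2⟩ :=
  leafX_sound T5.ok_mm T5.Ymm.bz_eq (w := 280) (c := ⟨⟨.negSucc 958, .ofNat 298, .negSucc 11, .ofNat 948, .ofNat 769, .ofNat 1311⟩, ⟨.ofNat 565, .negSucc 114, .negSucc 22, .negSucc 614, .negSucc 497, .negSucc 848⟩, ⟨.ofNat 228, .ofNat 143, .negSucc 81, .negSucc 286, .negSucc 453, .negSucc 514⟩, ⟨.negSucc 1728, .ofNat 321, .ofNat 537, .ofNat 2233, .ofNat 969, .ofNat 2053⟩, ⟨.negSucc 796, .ofNat 143, .ofNat 756, .ofNat 1369, .negSucc 159, .ofNat 321⟩, .ofNat 11281, .ofNat 16729, .ofNat 0, .ofNat 16729, .ofNat 25624, .ofNat 0, .ofNat 128, .negSucc 4014, .negSucc 4207, .ofNat 0, .ofNat 2617, .ofNat 2729, .ofNat 0, .ofNat 0, .ofNat 2291, .ofNat 1053, .ofNat 0, .ofNat 5304525217719427726525586582587147595696505307298529280, .ofNat 9375875538727884713554269762924885322032547364864, .ofNat 0, .ofNat 0, .ofNat 22118618194966668589048432720653389872390799376475226112,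 .ofNat 3408185191154591166235328360379523016208313353240576, .ofNat 0, .ofNat 0, .ofNat 15480541625287655930065439241785147430067436270460583542784, .ofNat 835589295386494508128675351684158613051607630217216, .ofNat 0, .ofNat 0, .ofNat 922474156930471484726473938413947951440800845464319557632, .ofNat 0, .ofNat 0⟩)
    (by decide +kernel)
theorem L08219 : Good (Phi V5.P V5.D (-1) (-1)) ⟨6, 56, 5, 20, 4, 15, 4, 15, 5, 3⟩ :=
  leafX_sound T5.ok_mm T5.Ymm.bz_eq (w := 274) (c := ⟨⟨.negSucc 287, .ofNat 291, .ofNat 358, .ofNat 1459, .ofNat 505, .ofNat 378⟩, ⟨.ofNat 164, .negSucc 114, .negSucc 306, .negSucc 947, .negSucc 280, .negSucc 229⟩, ⟨.negSucc 21, .negSucc 201, .negSucc 26, .negSucc 239, .negSucc 276, .negSucc 72⟩, ⟨.negSucc 1128, .ofNat 534, .ofNat 1017, .ofNat 3752, .ofNat 305, .ofNat 307⟩, ⟨.negSucc 1132, .ofNat 236, .ofNat 741, .ofNat 2594, .negSucc 549, .negSucc 331⟩, .ofNat 5233, .ofNat 7600, .ofNat 0, .ofNat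 7600, .ofNat 11846, .ofNat 0, .ofNat 128, .negSucc 3188, .negSucc 2796, .ofNat 0, .ofNat 2050, .ofNat 1779, .ofNat 0, .ofNat 0, .ofNat 1607, .ofNat 1368, .ofNat 0, .ofNat 0, .ofNat 0, .ofNat 0, .ofNat 0, .ofNat 52479653679316894340642450139999888509213350293690908672, .ofNat 302926858557939498713536137842759816931415643127808, .ofNat 0, .ofNat 0, .ofNat 946580816710674987026494599526932562220702253055152750592, .ofNat 8787118135860850820623758238152102125677970456576, .ofNat 0, .ofNat 0, .ofNat 390602347517541908604717716967657940083021369402516832256, .ofNat 0, .ofNat 0⟩)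
    (by decide +kernel)
theorem L08220 : Good (Phi V5.P V5.D (-1) (-1)) ⟨6, 57, 5, 20, 4, 15, 4, 15, 4, 1⟩ :=
  leafX_sound T5.ok_mm T5.Ymm.bz_eq (w := 279) (c := ⟨⟨.negSucc 985, .negSucc 0, .negSucc 2, .ofNat 1683, .ofNat 824, .ofNat 2354⟩, ⟨.ofNat 655, .ofNat 0, .negSucc 6, .negSucc 1104, .negSucc 540, .negSucc 1547⟩, ⟨.ofNat 390, .ofNat 0, .negSucc 6, .negSucc 521, .negSucc 479, .negSucc 835⟩, ⟨.negSucc 169, .negSucc 0, .ofNat 0, .ofNat 1828, .ofNat 850, .ofNat 2400⟩, ⟨.ofNat 1813, .ofNat 0, .ofNat 1, .negSucc 798, .negSucc 442, .negSucc 1307⟩, .ofNat 26851, .ofNat 40068, .ofNat 0, .ofNat 40068, .ofNat 60601, .ofNat 0, .ofNat 128, .negSucc 21660, .negSucc 21466, .ofNat 0, .ofNat 14291, .ofNat 14126, .ofNat 0, .ofNat 0, .ofNat 11613, .ofNat 13704, .ofNat 0, .ofNat 0, .ofNat 571263996670932958363600754293986916577205813248, .ofNat 0, .ofNat 0, .ofNat 57033494012824770733644499226997861948712670927653961728, .ofNat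 68774016986877380532591282961448249922566164532166656, .ofNat 0, .ofNat 0, .ofNat 7563309339877580864693559986678414692512313135251385745408, .ofNat 50708670172897805907037547789569747017142883351265280, .ofNat 0, .ofNat 0, .ofNat 1241644359623513236062549841378147386653767461470193319936, .ofNat 65640883174816384062852593463525211780627137545895936, .ofNat 0⟩)
    (by decide +kernel)
theorem L08221 : Good (Phi V5.P V5.D (-1) (-1)) ⟨5, 29, 5, 20, 4, 15, 4, 15, 4, 1⟩ :=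
  out_sound (S := T5.ds_mm) T5.ok_mm (w := 61) (j := 3) (by decide +kernel)
theorem L08222 : Good (Phi V5.P V5.D (-1) (-1)) ⟨4, 15, 5, 20, 4, 15, 4, 15, 4, 1⟩ :=
  out_sound (S := T5.ds_mm) T5.ok_mm (w := 55) (j := 3) (by decide +kernel)
theorem L08223 : Good (Phi V5.P V5.D (-1) (-1)) ⟨2, 2, 5, 21, 4, 15, 4, 15, 4, 1⟩ :=
  out_sound (S := T5.ds_mm) T5.ok_mm (w := 43) (j := 3) (by decide +kernel)
theorem L08224 : Good (Phi V5.P V5.D (-1) (-1)) ⟨3, 6, 5, 21, 4, 15, 4, 15, 4, 1⟩ :=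
  out_sound (S := T5.ds_mm) T5.ok_mm (w := 49) (j := 3) (by decide +kernel)
theorem L08225 : Good (Phi V5.P V5.D (-1) (-1)) ⟨6, 56, 6, 42, 4, 15, 4, 15, 5, 2⟩ :=
  leafX_sound T5.ok_mm T5.Ymm.bz_eq (w := 285) (c := ⟨⟨.negSucc 1002, .ofNat 1, .ofNat 315, .ofNat 1388, .ofNat 937, .ofNat 1417⟩, ⟨.ofNat 655, .ofNat 0, .negSucc 232, .negSucc 909, .negSucc 614, .negSucc 930⟩, ⟨.ofNat 422, .ofNat 0, .negSucc 20, .negSucc 438, .negSucc 546, .negSucc 552⟩, ⟨.negSucc 1399, .ofNat 1, .ofNat 275, .ofNat 2471, .ofNat 1494, .ofNat 2302⟩, ⟨.negSucc 0, .ofNat 0, .negSucc 64, .ofNat 791, .ofNat 273, .ofNat 475⟩, .ofNat 14714, .ofNat 21787, .ofNat 0, .ofNat 21787, .ofNat 33066, .ofNat 0, .ofNat 128, .negSucc 17450, .negSucc 18092, .ofNat 0, .ofNat 11488, .ofNat 11872, .ofNat 0, .ofNat 0, .ofNat 9527, .ofNat 6260, .ofNat 0, .ofNat 0, .ofNat 214205418366376291249814864360511836532380090236928, .ofNat 0, .ofNat 0, .ofNat 35560419903128765983038869970489077620398327893340454912,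 .ofNat 79704519280860490283679470361325836129442437386993664, .ofNat 0, .ofNat 0, .ofNat 282814179011189672407923262854381134822534819462730290823168, .ofNat 195450298405755553986444380429762591658444521409085440, .ofNat 0, .ofNat 0, .ofNat 36739464870834536669662878306503336779643888550438284296192, .ofNat 398808824582247703256355540878078206941289049103532032, .ofNat 0⟩)
    (by decide +kernel)
theorem L08226 : Good (Phi V5.P V5.D (-1) (-1)) ⟨6, 56, 6, 42, 4, 15, 4, 15, 5, 3⟩ :=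
  leafX_sound T5.ok_mm T5.Ymm.bz_eq (w := 287) (c := ⟨⟨.negSucc 97, .ofNat 1, .ofNat 132, .ofNat 2515, .ofNat 531, .ofNat 479⟩, ⟨.ofNat 63, .negSucc 0, .negSucc 118, .negSucc 1653, .negSucc 347, .negSucc 315⟩, ⟨.negSucc 157, .ofNat 0, .ofNat 61, .negSucc 511, .negSucc 163, .ofNat 44⟩, ⟨.ofNat 1789, .ofNat 2, .ofNat 57, .ofNat 2646, .ofNat 424, .ofNat 435⟩, ⟨.ofNat 2847, .ofNat 1, .negSucc 34, .negSucc 1304, .negSucc 281, .negSucc 275⟩, .ofNat 29095, .ofNat 43448, .ofNat 0, .ofNat 43448, .ofNat 65693, .ofNat 0, .ofNat 128, .negSucc 19932, .negSucc 15234, .ofNat 0, .ofNat 13163, .ofNat 10033, .ofNat 0, .ofNat 0, .ofNat 8461, .ofNat 10976, .ofNat 0, .ofNat 0, .ofNat 861468164469548909226091102388091801253546513399808, .ofNat 0, .ofNat 0, .ofNat 0, .ofNat 63373038697843117609833070216035194845842003829194752, .ofNat 0, .ofNat 0, .ofNat 430961696945018762197115336190912238812393996415938083160064, .ofNat 305349864058113270578511556149495044973833486319222784,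 .ofNat 0, .ofNat 0, .ofNat 150352698761147629990498698795328798143568478051435288723456, .ofNat 163147180254573670827376036652263874786890631140605952, .ofNat 0⟩)
    (by decide +kernel)
theorem L08227 : Good (Phi V5.P V5.D (-1) (-1)) ⟨6, 57, 6, 42, 5, 30, 4, 15, 5, 2⟩ :=
  leafX_sound T5.ok_mm T5.Ymm.bz_eq (w := 292) (c := ⟨⟨.negSucc 593, .ofNat 28, .ofNat 134, .ofNat 338, .ofNat 612, .ofNat 981⟩, ⟨.ofNat 395, .negSucc 13, .negSucc 88, .negSucc 225, .negSucc 404, .negSucc 654⟩, ⟨.ofNat 275, .negSucc 75, .negSucc 19, .negSucc 84, .negSucc 426, .negSucc 488⟩, ⟨.negSucc 1568, .ofNat 67, .ofNat 243, .ofNat 823, .ofNat 1134, .ofNat 2056⟩, ⟨.negSucc 1106, .ofNat 25, .ofNat 96, .ofNat 524, .ofNat 417, .ofNat 1017⟩, .ofNat 7162, .ofNat 10365, .ofNat 0, .ofNat 10365, .ofNat 15782, .ofNat 0, .ofNat 128, .negSucc 2596, .negSucc 3468, .ofNat 0, .ofNat 1709, .ofNat 2270, .ofNat 0, .ofNat 0, .ofNat 1819, .ofNat 5484, .ofNat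 0, .ofNat 0, .ofNat 0, .ofNat 0, .ofNat 0, .ofNat 5106815756794506173190852167925496260722251374145410474967040, .ofNat 62107262751610709558253933545911795368747729470653202432, .ofNat 0, .ofNat 0, .ofNat 20900466563028687991238440386894214521218380809988972642041856, .ofNat 28366359929540408070352692805647397468714421197752762368, .ofNat 4162684243405351845019015313680886101483633808977129520629112897536, .ofNat 0, .ofNat 505084959460413554624746787041459858408581636914540739297280, .ofNat 21636804675554112704099599953839442321636256148883505152, .ofNat 4521210376926533158229988694857727018055885918385388657857037074432⟩)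
    (by decide +kernel)
theorem L08228 : Good (Phi V5.P V5.D (-1) (-1)) ⟨7, 114, 6, 42, 5, 31, 5, 30, 5, 2⟩ :=
  leafX_sound T5.ok_mm T5.Ymm.bz_eq (w := 303) (c := ⟨⟨.negSucc 1080, .ofNat 197, .ofNat 365, .ofNat 1455, .ofNat 731, .ofNat 1971⟩, ⟨.ofNat 725, .negSucc 164, .negSucc 242, .negSucc 966, .negSucc 483, .negSucc 1313⟩, ⟨.ofNat 444, .ofNat 126, .negSucc 218, .negSucc 468, .negSucc 357, .negSucc 646⟩, ⟨.negSucc 2012, .ofNat 300, .ofNat 619, .ofNat 3082, .ofNat 1334, .ofNat 4056⟩, ⟨.negSucc 746, .ofNat 66, .ofNat 138, .ofNat 1564, .ofNat 467, .ofNat 1934⟩, .ofNat 12201, .ofNat 17813, .ofNat 0, .ofNat 17813, .ofNat 26788, .ofNat 0, .ofNat 128, .negSucc 4120, .negSucc 7316, .ofNat 0, .ofNat 2733, .ofNat 4833, .ofNat 0, .ofNat 0, .ofNat 3438, .ofNat 1533, .ofNat 0, .ofNat 1046411355791780649829061079741860526819401500952075345854464, .ofNat 2463841992165802845614064148988079861650224834915860480, .ofNat 0, .ofNat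 0, .ofNat 0, .ofNat 1729370402400063553734274119278075680328719442895054045184, .ofNat 0, .ofNat 0, .ofNat 2999027850781336711641837817474383825332578055021433502524506112, .ofNat 27621280995684896727197407973282028267489616020449001472, .ofNat 185295487726583335044902551421556287219742740179319336919496260583424, .ofNat 0, .ofNat 112355044587759973105557310562357547084603523450382270123212800, .ofNat 0, .ofNat 790600500550173946292767819556272992651489025762136524745883403681792⟩)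
    (by decide +kernel)
theorem L08229 : Good (Phi V5.P V5.D (-1) (-1)) ⟨7, 115, 6, 42, 5, 31, 5, 30, 5, 2⟩ :=
  out_sound (S := T5.ds_mm) T5.ok_mm (w := 75) (j := 3) (by decide +kernel)
theorem L08230 : Good (Phi V5.P V5.D (-1) (-1)) ⟨6, 57, 6, 42, 5, 31, 5, 31, 5, 2⟩ :=
  leafX_sound T5.ok_mm T5.Ymm.bz_eq (w := 297) (c := ⟨⟨.negSucc 331, .ofNat 145, .ofNat 264, .ofNat 1412, .ofNat 213, .ofNat 1929⟩, ⟨.ofNat 222, .negSucc 112, .negSucc 185, .negSucc 937, .negSucc 137, .negSucc 1274⟩, ⟨.ofNat 77, .ofNat 68, .negSucc 126, .negSucc 451, .negSucc 101, .negSucc 645⟩, ⟨.negSucc 620, .ofNat 191, .ofNat 644, .ofNat 3202, .negSucc 272, .ofNat 3047⟩, ⟨.negSucc 254, .ofNat 95, .ofNat 370, .ofNat 1834, .negSucc 786, .ofNat 595⟩, .ofNat 9172, .ofNat 13156, .ofNat 0, .ofNat 13156, .ofNat 19633, .ofNat 0, .ofNat 128, .negSucc 1972, .negSucc 6050, .ofNat 0, .ofNat 1308, .ofNat 3982, .ofNat 0, .ofNat 0, .ofNat 2712, .ofNat 1230,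 .ofNat 0, .ofNat 553723473198432880986852169882032013059812403051233296777216, .ofNat 6050967943918855117080107686308523511026361009958813696, .ofNat 0, .ofNat 0, .ofNat 0, .ofNat 1309178052450042947942276650802954874571686411332235558912, .ofNat 0, .ofNat 0, .ofNat 125933023550318248374114088537967117788356983405732311762731008, .ofNat 330146157897853010145664623446025792045448931560422113280, .ofNat 0, .ofNat 0, .ofNat 184116914519207798916388609778263874302227210636224485809717248, .ofNat 459256420691991620300463818477730799274441504174494449664, .ofNat 0⟩)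
    (by decide +kernel)
theorem L08231 : Good (Phi V5.P V5.D (-1) (-1)) ⟨6, 57, 6, 42, 4, 15, 4, 15, 5, 3⟩ :=
  leafX_sound T5.ok_mm T5.Ymm.bz_eq (w := 279) (c := ⟨⟨.negSucc 324, .ofNat 132, .ofNat 443, .ofNat 2884, .ofNat 971, .ofNat 427⟩, ⟨.ofNat 226, .ofNat 70, .negSucc 370, .negSucc 1914, .negSucc 642, .negSucc 287⟩, ⟨.negSucc 136, .negSucc 219, .negSucc 59, .negSucc 557, .negSucc 225, .ofNat 112⟩, ⟨.negSucc 635, .ofNat 318, .ofNat 1166, .ofNat 5928, .ofNat 991, .ofNat 576⟩, ⟨.negSucc 295, .ofNat 215, .ofNat 790, .ofNat 2844, .negSucc 437, .negSucc 3⟩, .ofNat 8520, .ofNat 12195, .ofNat 0, .ofNat 12195, .ofNat 18216, .ofNat 0, .ofNat 128, .negSucc 5369, .negSucc 4899, .ofNat 0, .ofNat 3574, .ofNat 3229, .ofNat 0, .ofNat 0, .ofNat 2635, .ofNat 1802, .ofNat 0, .ofNat 53814792414483826020634831936648115927466279758628651008, .ofNat 14535216838152282712690657623540496752174939766784, .ofNat 0, .ofNat 0, .ofNat 584031929838250689200788466739392932294086909172266303488,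 .ofNat 5001949276053738237710581735621932460602919760166912, .ofNat 32006826204755640453343421754738912238716429244744756367458304, .ofNat 0, .ofNat 22338479908548647625732818607080984552414433561358526054400, .ofNat 1706401422048219480654808221543059813571145542664192, .ofNat 489927697791561607134494639625106438565492922897871836045901824, .ofNat 0, .ofNat 9120750438203166800899686345076704014557493188202990665728, .ofNat 503236638584774821367335185673590102510858926030848, .ofNat 429242966593354065702118991436105559360684629585327977027076096⟩)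
    (by decide +kernel)
theorem L08232 : Good (Phi V5.P V5.D (-1) (-1)) ⟨6, 56, 6, 43, 4, 15, 4, 15, 4, 1⟩ :=
  out_sound (S := T5.ds_mm) T5.ok_mm (w := 69) (j := 3) (by decide +kernel)
theorem L08233 : Good (Phi V5.P V5.D (-1) (-1)) ⟨8, 228, 6, 43, 4, 15, 4, 15, 4, 1⟩ :=
  out_sound (S := T5.ds_mm) T5.ok_mm (w := 81) (j := 3) (by decide +kernel)
theorem L08234 : Good (Phi V5.P V5.D (-1) (-1)) ⟨8, 229, 6, 43, 4, 15, 4, 15, 4, 1⟩ :=
  out_sound (S := T5.ds_mm) T5.ok_mm (w := 23) (j := 4) (by decide +kernel)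
theorem L08235 : Good (Phi V5.P V5.D (-1) (-1)) ⟨7, 115, 6, 43, 4, 15, 4, 15, 4, 1⟩ :=
  out_sound (S := T5.ds_mm) T5.ok_mm (w := 21) (j := 4) (by decide +kernel)
theorem L08236 : Good (Phi V5.P V5.D (-1) (-1)) ⟨5, 29, 5, 21, 4, 15, 4, 15, 4, 1⟩ :=
  out_sound (S := T5.ds_mm) T5.ok_mm (w := 61) (j := 3) (by decide +kernel)
theorem L08237 : Good (Phi V5.P V5.D (-1) (-1)) ⟨4, 15, 5, 21, 4, 15, 4, 15, 4, 1⟩ :=
  out_sound (S := T5.ds_mm) T5.ok_mm (w := 55) (j := 3) (by decide +kernel)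
theorem L08238 : Good (Phi V5.P V5.D (-1) (-1)) ⟨2, 2, 4, 11, 4, 15, 4, 15, 4, 1⟩ :=
  out_sound (S := T5.ds_mm) T5.ok_mm (w := 41) (j := 3) (by decide +kernel)
theorem L08239 : Good (Phi V5.P V5.D (-1) (-1)) ⟨3, 6, 4, 11, 4, 15, 4, 15, 4, 1⟩ :=
  out_sound (S := T5.ds_mm) T5.ok_mm (w := 47) (j := 3) (by decide +kernel)
theorem L08240 : Good (Phi V5.P V5.D (-1) (-1)) ⟨6, 56, 4, 11, 4, 15, 4, 15, 4, 1⟩ :=
  out_sound (S := T5.ds_mm) T5.ok_mm (w := 65) (j := 3) (by decide +kernel)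
theorem L08241 : Good (Phi V5.P V5.D (-1) (-1)) ⟨7, 114, 5, 22, 4, 15, 4, 15, 4, 1⟩ :=
  out_sound (S := T5.ds_mm) T5.ok_mm (w := 73) (j := 3) (by decide +kernel)
theorem L08242 : Good (Phi V5.P V5.D (-1) (-1)) ⟨7, 115, 5, 22, 4, 15, 4, 15, 4, 1⟩ :=
  out_sound (S := T5.ds_mm) T5.ok_mm (w := 21) (j := 4) (by decide +kernel)
theorem L08243 : Good (Phi V5.P V5.D (-1) (-1)) ⟨6, 57, 5, 23, 4, 15, 4, 15, 4, 1⟩ :=
  out_sound (S := T5.ds_mm) T5.ok_mm (w := 67) (j := 3) (by decide +kernel)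
theorem L08244 : Good (Phi V5.P V5.D (-1) (-1)) ⟨5, 29, 4, 11, 4, 15, 4, 15, 4, 1⟩ :=
  out_sound (S := T5.ds_mm) T5.ok_mm (w := 17) (j := 4) (by decide +kernel)
theorem L08245 : Good (Phi V5.P V5.D (-1) (-1)) ⟨4, 15, 4, 11, 4, 15, 4, 15, 4, 1⟩ :=
  out_sound (S := T5.ds_mm) T5.ok_mm (w := 53) (j := 3) (by decide +kernel)
theorem L08246 : Good (Phi V5.P V5.D (-1) (-1)) ⟨2, 2, 3, 5, 2, 3, 2, 3, 3, 1⟩ :=
  out_sound (S := T5.ds_mm) T5.ok_mm (w := 39) (j := 3) (by decide +kernel)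
theorem L08247 : Good (Phi V5.P V5.D (-1) (-1)) ⟨3, 6, 3, 5, 2, 3, 2, 3, 3, 1⟩ :=
  out_sound (S := T5.ds_mm) T5.ok_mm (w := 45) (j := 3) (by decide +kernel)
theorem L08248 : Good (Phi V5.P V5.D (-1) (-1)) ⟨6, 56, 4, 10, 3, 6, 2, 3, 5, 4⟩ :=
  leafX_sound T5.ok_mm T5.Ymm.bz_eq (w := 248) (c := ⟨⟨.negSucc 2994, .negSucc 34, .ofNat 159, .ofNat 1272, .ofNat 1293, .ofNat 216⟩, ⟨.ofNat 1893, .ofNat 51, .negSucc 21, .negSucc 821, .negSucc 825, .negSucc 136⟩, ⟨.ofNat 1812, .negSucc 551, .ofNat 492, .negSucc 804, .negSucc 1113, .negSucc 346⟩, ⟨.negSucc 5263, .negSucc 35, .ofNat 30, .ofNat 1671, .ofNat 2302, .ofNat 547⟩, ⟨.negSucc 1500, .negSucc 148, .negSucc 115, .negSucc 200, .ofNat 726, .ofNat 370⟩, .ofNat 5191, .ofNat 7546, .ofNat 0, .ofNat 7546, .ofNat 11779, .ofNat 0, .ofNat 128, .negSucc 2101, .negSucc 2707, .ofNat 0, .ofNat 1373, .ofNat 1739, .ofNat 0, .ofNat 0, .ofNat 2478, .ofNat 848, .ofNat 0, .ofNat 0, .ofNat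 343009739887465709957655714329973149925376, .ofNat 0, .ofNat 0, .ofNat 0, .ofNat 0, .ofNat 0, .ofNat 0, .ofNat 357178940325401155063749839042755479849352590000128, .ofNat 64105990259390303231043581108736384263258112, .ofNat 0, .ofNat 0, .ofNat 0, .ofNat 0, .ofNat 0⟩)
    (by decide +kernel)
theorem L08249 : Good (Phi V5.P V5.D (-1) (-1)) ⟨6, 57, 4, 10, 3, 6, 2, 3, 5, 4⟩ :=
  leafX_sound T5.ok_mm T5.Ymm.bz_eq (w := 246) (c := ⟨⟨.negSucc 2962, .ofNat 98, .negSucc 110, .ofNat 1332, .ofNat 1352, .ofNat 231⟩, ⟨.ofNat 1897, .negSucc 78, .ofNat 203, .negSucc 892, .negSucc 905, .negSucc 153⟩, ⟨.ofNat 1567, .ofNat 181, .negSucc 62, .negSucc 815, .negSucc 1145, .negSucc 356⟩, ⟨.negSucc 5475, .ofNat 72, .negSucc 14, .ofNat 1983, .ofNat 2633, .ofNat 559⟩, ⟨.negSucc 1885, .ofNat 53, .ofNat 48, .ofNat 156, .ofNat 1091, .ofNat 349⟩, .ofNat 2707, .ofNat 3693, .ofNat 0, .ofNat 3693, .ofNat 5772, .ofNat 0, .ofNat 128, .negSucc 1610,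 .negSucc 2474, .ofNat 0, .ofNat 1069, .ofNat 1598, .ofNat 0, .ofNat 0, .ofNat 2097, .ofNat 234, .ofNat 0, .ofNat 0, .ofNat 59253011942459469270459434114612501413888, .ofNat 699092861187758727496379731221752019504902067716096, .ofNat 0, .ofNat 30906313210511071133287548582477385266722576007168, .ofNat 10416936888940812666226824834912328970403840, .ofNat 63541993995969961153526124021206476721690722902736896, .ofNat 0, .ofNat 211848387587230612638589986495435890787133784326144, .ofNat 8062538230698710908271204278689153362690048, .ofNat 238346815786602794657882341160104206256985608793620480, .ofNat 0, .ofNat 0, .ofNat 0, .ofNat 0⟩)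
    (by decide +kernel)
theorem L08250 : Good (Phi V5.P V5.D (-1) (-1)) ⟨5, 28, 4, 10, 3, 6, 2, 3, 5, 5⟩ :=
  leafX_sound T5.ok_mm T5.Ymm.bz_eq (w := 240) (c := ⟨⟨.negSucc 2346, .ofNat 57, .negSucc 100, .ofNat 764, .ofNat 634, .ofNat 26⟩, ⟨.ofNat 1516, .negSucc 99, .ofNat 196, .negSucc 506, .negSucc 413, .negSucc 15⟩, ⟨.ofNat 898, .ofNat 221, .negSucc 128, .negSucc 499, .negSucc 872, .negSucc 323⟩, ⟨.negSucc 4275, .negSucc 10, .negSucc 101, .ofNat 1144, .ofNat 1711, .ofNat 359⟩, ⟨.negSucc 1494, .negSucc 38, .negSucc 2, .ofNat 107, .ofNat 1244, .ofNat 493⟩, .ofNat 2458, .ofNat 3357, .ofNat 0, .ofNat 3357, .ofNat 5338, .ofNat 0, .ofNat 128, .negSucc 1767, .negSucc 693, .ofNat 0, .ofNat 1172, .ofNat 438, .ofNat 0, .ofNat 0, .ofNat 1059, .ofNat 592, .ofNat 0, .ofNat 0, .ofNat 0, .ofNat 0, .ofNat 0, .ofNat 3455594349333544592482024266264221660350806753280, .ofNat 29305682123987495976816474713233235480936448, .ofNat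 0, .ofNat 0, .ofNat 34744704471807851347619752860156027629410623422464, .ofNat 53662481758702388760963168757999985886232576, .ofNat 50244698780760972480155472347228360415928105859809280, .ofNat 0, .ofNat 0, .ofNat 0, .ofNat 0⟩)
    (by decide +kernel)
theorem L08251 : Good (Phi V5.P V5.D (-1) (-1)) ⟨6, 56, 4, 10, 3, 6, 3, 6, 5, 6⟩ :=
  leafX_sound T5.ok_mm T5.Ymm.bz_eq (w := 252) (c := ⟨⟨.negSucc 1933, .negSucc 261, .ofNat 242, .ofNat 384, .ofNat 49, .negSucc 116⟩, ⟨.ofNat 1232, .ofNat 165, .negSucc 65, .negSucc 247, .negSucc 24, .ofNat 81⟩, ⟨.ofNat 697, .negSucc 179, .ofNat 150, .negSucc 506, .negSucc 490, .negSucc 486⟩, ⟨.negSucc 3566, .negSucc 142, .ofNat 150, .ofNat 725, .ofNat 466, .ofNat 302⟩, ⟨.negSucc 1173, .ofNat 131, .negSucc 95, .ofNat 283, .ofNat 606, .ofNat 717⟩, .ofNat 5418, .ofNat 7865, .ofNat 0, .ofNat 7865, .ofNat 12223, .ofNat 0, .ofNat 128, .negSucc 3789, .negSucc 458, .ofNat 0, .ofNat 2514,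 .ofNat 283, .ofNat 0, .ofNat 0, .ofNat 2980, .ofNat 2226, .ofNat 0, .ofNat 0, .ofNat 0, .ofNat 0, .ofNat 0, .ofNat 0, .ofNat 1856897972585830738580494229096780029619077120, .ofNat 0, .ofNat 0, .ofNat 14562525020796414368913762292594851199986491526742016, .ofNat 2515311556164257438767551763405722734305476608, .ofNat 0, .ofNat 0, .ofNat 8200413388309099495555931477512295795809033096527872, .ofNat 1795687696200358440005505432766849750398926848, .ofNat 0⟩)
    (by decide +kernel)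
theorem L08252 : Good (Phi V5.P V5.D (-1) (-1)) ⟨6, 56, 4, 10, 3, 6, 3, 6, 5, 7⟩ :=
  leafX_sound T5.ok_mm T5.Ymm.bz_eq (w := 250) (c := ⟨⟨.negSucc 1985, .negSucc 3, .negSucc 117, .ofNat 77, .negSucc 154, .negSucc 200⟩, ⟨.ofNat 1252, .ofNat 35, .ofNat 128, .negSucc 42, .ofNat 111, .ofNat 137⟩, ⟨.ofNat 340, .negSucc 147, .ofNat 44, .negSucc 774, .negSucc 685, .negSucc 734⟩, ⟨.negSucc 3219, .ofNat 23, .negSucc 102, .ofNat 542, .ofNat 244, .ofNat 203⟩, ⟨.negSucc 569, .negSucc 43, .ofNat 100, .ofNat 666, .ofNat 714, .ofNat 751⟩, .ofNat 3612, .ofNat 5133, .ofNat 0, .ofNat 5133, .ofNat 8085, .ofNat 0, .ofNat 128, .negSucc 2459, .ofNat 179, .ofNat 0, .ofNat 1645, .negSucc 138, .ofNat 0, .ofNat 0, .ofNat 2837, .ofNat 1203, .ofNat 0, .ofNat 66235750495640553088579901432301236003729062232064, .ofNat 8028699407748648221812177879379310536556544, .ofNat 0, .ofNat 0, .ofNat 422589778882144098633857596388957866262700352339968,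 .ofNat 432376532237362785765835350907684635791065088, .ofNat 0, .ofNat 0, .ofNat 14841536981203516240890750030756794225481979130806272, .ofNat 383432589388631030163073754596832108821348352, .ofNat 0, .ofNat 0, .ofNat 20573232754746705254039329973718369686339306496458752, .ofNat 1266487524413074198040066156551508630874095616, .ofNat 0⟩)
    (by decide +kernel)
theorem L08253 : Good (Phi V5.P V5.D (-1) (-1)) ⟨6, 57, 4, 10, 3, 6, 3, 6, 5, 6⟩ :=
  leafX_sound T5.ok_mm T5.Ymm.bz_eq (w := 250) (c := ⟨⟨.negSucc 1884, .ofNat 155, .negSucc 348, .ofNat 330, .ofNat 14, .negSucc 116⟩, ⟨.ofNat 1221, .negSucc 67, .ofNat 280, .negSucc 221, .negSucc 7, .ofNat 78⟩, ⟨.ofNat 819, .ofNat 269, .negSucc 368, .negSucc 543, .negSucc 520, .negSucc 525⟩, ⟨.negSucc 3673, .negSucc 33, .negSucc 74, .ofNat 750, .ofNat 577, .ofNat 327⟩, ⟨.negSucc 1267, .ofNat 66, .ofNat 91, .ofNat 428, .ofNat 835, .ofNat 736⟩, .ofNat 2702, .ofNat 3686, .ofNat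 0, .ofNat 3686, .ofNat 5762, .ofNat 0, .ofNat 128, .negSucc 3357, .negSucc 491, .ofNat 0, .ofNat 2275, .ofNat 297, .ofNat 0, .ofNat 0, .ofNat 2732, .ofNat 1665, .ofNat 0, .ofNat 0, .ofNat 0, .ofNat 0, .ofNat 0, .ofNat 382088602861777527837145879091435888718137434046464, .ofNat 670916117802308402549982948106574547854032896, .ofNat 0, .ofNat 0, .ofNat 12142826081339400569537102236750227013228848197140480, .ofNat 1396257357497277217204872690543950505495756800, .ofNat 18745634815965478576641190545493171148917857777266720768, .ofNat 0, .ofNat 6411751425962784847268784149617555879535052261949440, .ofNat 1658193430831712564244789076849230683245117440, .ofNat 8741924680156752552577993872120282785622458402527510528⟩)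
    (by decide +kernel)
theorem L08254 : Good (Phi V5.P V5.D (-1) (-1)) ⟨6, 57, 4, 10, 3, 6, 4, 12, 5, 7⟩ :=
  leafX_sound T5.ok_mm T5.Ymm.bz_eq (w := 257) (c := ⟨⟨.negSucc 2112, .negSucc 343, .ofNat 180, .negSucc 28, .negSucc 67, .negSucc 226⟩, ⟨.ofNat 1387, .ofNat 290, .negSucc 98, .ofNat 21, .ofNat 47, .ofNat 152⟩, ⟨.ofNat 87, .negSucc 452, .ofNat 303, .negSucc 859, .negSucc 319, .negSucc 778⟩, ⟨.negSucc 3256, .negSucc 63, .negSucc 30, .ofNat 510, .ofNat 177, .ofNat 241⟩, ⟨.negSucc 661, .ofNat 81, .ofNat 46, .ofNat 826, .ofNat 411, .ofNat 839⟩, .ofNat 4539, .ofNat 6431, .ofNat 0, .ofNat 6431, .ofNat 9874, .ofNat 0, .ofNat 128, .negSucc 4718, .ofNat 507, .ofNat 0, .ofNat 3196, .negSucc 369, .ofNat 0, .ofNat 0, .ofNat 5426, .ofNat 2587, .ofNat 0, .ofNat 366702386373584193358884866627931173425671546339328, .ofNat 0, .ofNat 7081285147401601447873492513888619232489457147214561280, .ofNat 0, .ofNat 1207396258438480065444674951999141962103426882994176,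 .ofNat 23606171935306305135907673066001206707880984576, .ofNat 118878187802242774199854160244698354757047321855480823808, .ofNat 0, .ofNat 158411995653056601133041398626042333934539589331976192, .ofNat 23463042738606627443260103198886941035711168512, .ofNat 1306600372122861253817228982740868393998592096978708987904, .ofNat 0, .ofNat 286523445133544155551679992494503426791926744284659712, .ofNat 56161192078507074126907433450373221792201310208, .ofNat 703198857065605837252266856806933924438596617789140631552⟩)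
    (by decide +kernel)
theorem L08255 : Good (Phi V5.P V5.D (-1) (-1)) ⟨6, 57, 4, 10, 3, 6, 4, 13, 5, 7⟩ :=
  leafX_sound T5.ok_mm T5.Ymm.bz_eq (w := 255) (c := ⟨⟨.negSucc 2020, .negSucc 61, .negSucc 93, .negSucc 206, .negSucc 118, .negSucc 263⟩, ⟨.ofNat 1307, .ofNat 69, .ofNat 118, .ofNat 145, .ofNat 86, .ofNat 183⟩, ⟨.negSucc 59, .negSucc 44, .negSucc 87, .negSucc 905, .negSucc 405, .negSucc 760⟩, ⟨.negSucc 2859, .negSucc 67, .negSucc 64, .negSucc 139, .negSucc 76, .negSucc 135⟩, ⟨.ofNat 20, .ofNat 14, .ofNat 12, .ofNat 218, .ofNat 130, .ofNat 348⟩, .ofNat 7173, .ofNat 10380, .ofNat 0, .ofNat 10380, .ofNat 15803, .ofNat 0, .ofNat 128, .negSucc 1963, .negSucc 13, .ofNat 0, .ofNat 1319, .ofNat 2, .ofNat 0, .ofNat 0, .ofNat 1866, .ofNat 4377, .ofNat 0, .ofNat 925148251599901054131211848937998469211374414200832, .ofNat 0, .ofNat 0, .ofNat 0, .ofNat 8487862598564201194030067944234096857862035231211520, .ofNat 15194377432472274958970209936090999570187681792,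 .ofNat 0, .ofNat 0, .ofNat 125855357969776299929063360715548279304883224268767232, .ofNat 375563721272910569594429103161599084483051520, .ofNat 207684866957822063123003443372403729269473870277957910528, .ofNat 0, .ofNat 127201191093249278114588134923307966141901632660570112, .ofNat 15867446907329229240656080131653086956570542080, .ofNat 0⟩)
    (by decide +kernel)
theorem L08256 : Good (Phi V5.P V5.D (-1) (-1)) ⟨5, 28, 4, 10, 3, 6, 3, 7, 4, 3⟩ :=
  leafX_sound T5.ok_mm T5.Ymm.bz_eq (w := 234) (c := ⟨⟨.negSucc 1890, .ofNat 26, .negSucc 82, .ofNat 122, .ofNat 164, .negSucc 289⟩, ⟨.ofNat 1203, .ofNat 10, .ofNat 121, .negSucc 78, .negSucc 98, .ofNat 201⟩, ⟨.ofNat 123, .negSucc 49, .negSucc 28, .negSucc 506, .negSucc 552, .negSucc 883⟩, ⟨.negSucc 2875, .ofNat 133, .negSucc 151, .ofNat 258, .ofNat 861, .ofNat 474⟩, ⟨.negSucc 262, .ofNat 25, .negSucc 55, .ofNat 108, .ofNat 854, .ofNat 1278⟩, .ofNat 391, .ofNat 298, .ofNat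 0, .ofNat 298, .ofNat 646, .ofNat 0, .ofNat 128, .negSucc 306, .negSucc 146, .ofNat 0, .ofNat 216, .ofNat 62, .ofNat 0, .ofNat 0, .ofNat 223, .ofNat 1529, .ofNat 0, .ofNat 0, .ofNat 0, .ofNat 0, .ofNat 0, .ofNat 1648765826094668560199034343790195241587277037568, .ofNat 77512781739220249690697584901537654636544, .ofNat 0, .ofNat 0, .ofNat 14076322424008431782422145917413173044989873094656, .ofNat 170339345045376527841584382395469734608896, .ofNat 335900227592070892494876380744336297141647039266816, .ofNat 0, .ofNat 5819736943133331956888861169542044640186678116352, .ofNat 0, .ofNat 0⟩)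
    (by decide +kernel)
theorem L08257 : Good (Phi V5.P V5.D (-1) (-1)) ⟨5, 28, 4, 10, 4, 14, 3, 6, 4, 2⟩ :=
  leafX_sound T5.ok_mm T5.Ymm.bz_eq (w := 255) (c := ⟨⟨.negSucc 1227, .negSucc 826, .ofNat 455, .ofNat 576, .ofNat 363, .negSucc 223⟩, ⟨.ofNat 803, .ofNat 403, .negSucc 156, .negSucc 378, .negSucc 238, .ofNat 153⟩, ⟨.ofNat 547, .ofNat 197, .negSucc 95, .negSucc 139, .negSucc 357, .negSucc 409⟩, ⟨.negSucc 2999, .negSucc 407, .ofNat 281, .ofNat 1018, .ofNat 908, .ofNat 41⟩, ⟨.negSucc 1748, .ofNat 330, .negSucc 85, .ofNat 312, .ofNat 596, .ofNat 536⟩, .ofNat 3884, .ofNat 5514, .ofNat 0, .ofNat 5514, .ofNat 8610, .ofNat 0, .ofNat 128, .negSucc 2370, .negSucc 793, .ofNat 0, .ofNat 1559, .ofNat 505, .ofNat 0, .ofNat 0, .ofNat 1246, .ofNat 401, .ofNat 0, .ofNat 0, .ofNat 2121939067059496903089020008360643799898128384, .ofNat 0, .ofNat 0, .ofNat 0, .ofNat 602872759359883576712831966063170214170487422976, .ofNat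 0, .ofNat 0, .ofNat 41688724264760849606749707168057777187070267323580416, .ofNat 348998959894158585266659349878116528718962753536, .ofNat 628099980742562495242947681221154321814879503045659459584, .ofNat 0, .ofNat 0, .ofNat 155791929270461449022320347396981338741684568064, .ofNat 184284008422806212514352812825103053304595583371344609280⟩)
    (by decide +kernel)
theorem L08258 : Good (Phi V5.P V5.D (-1) (-1)) ⟨5, 28, 4, 10, 4, 14, 3, 7, 4, 2⟩ :=
  leafX_sound T5.ok_mm T5.Ymm.bz_eq (w := 254) (c := ⟨⟨.negSucc 834, .negSucc 80, .ofNat 156, .ofNat 572, .ofNat 676, .negSucc 671⟩, ⟨.ofNat 522, .ofNat 76, .negSucc 86, .negSucc 371, .negSucc 434, .ofNat 453⟩, ⟨.ofNat 206, .negSucc 315, .ofNat 152, .negSucc 95, .negSucc 486, .negSucc 206⟩, ⟨.negSucc 1939, .ofNat 40, .ofNat 226, .ofNat 1085, .ofNat 1343, .negSucc 723⟩, ⟨.negSucc 1138, .ofNat 82, .ofNat 111, .ofNat 427, .ofNat 608, .ofNat 338⟩, .ofNat 3807, .ofNat 5406,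 .ofNat 0, .ofNat 5406, .ofNat 8459, .ofNat 0, .ofNat 128, .negSucc 1410, .negSucc 682, .ofNat 0, .ofNat 919, .ofNat 435, .ofNat 0, .ofNat 0, .ofNat 666, .ofNat 268, .ofNat 0, .ofNat 0, .ofNat 0, .ofNat 0, .ofNat 0, .ofNat 6742302263873823871180004104995884835724948458700800, .ofNat 272980253898525116090186911933356349262565212160, .ofNat 0, .ofNat 0, .ofNat 39415812598046489703833643354645593723914589153787904, .ofNat 179457607071645166984447168460643220099386310656, .ofNat 364691596139894108919354292033902993709475555652587749376, .ofNat 0, .ofNat 0, .ofNat 244449867433506318158665827079976974541157040128, .ofNat 63580392002215884325452107208141009517894332841799450624⟩)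
    (by decide +kernel)
theorem L08259 : Good (Phi V5.P V5.D (-1) (-1)) ⟨6, 56, 4, 10, 4, 15, 3, 6, 5, 4⟩ :=
  leafX_sound T5.ok_mm T5.Ymm.bz_eq (w := 266) (c := ⟨⟨.negSucc 1019, .ofNat 319, .negSucc 167, .ofNat 651, .ofNat 700, .negSucc 165⟩, ⟨.ofNat 656, .negSucc 221, .ofNat 152, .negSucc 421, .negSucc 454, .ofNat 107⟩, ⟨.ofNat 394, .negSucc 63, .ofNat 106, .negSucc 8, .negSucc 334, .negSucc 58⟩, ⟨.negSucc 2272, .ofNat 363, .negSucc 59, .ofNat 1447, .ofNat 1534, .negSucc 252⟩, ⟨.negSucc 1350, .ofNat 27, .ofNat 115, .ofNat 805, .ofNat 835, .negSucc 29⟩, .ofNat 5249, .ofNat 7621, .ofNat 0, .ofNat 7621, .ofNat 11875, .ofNat 0, .ofNat 128, .negSucc 2922, .negSucc 835, .ofNat 0, .ofNat 1900, .ofNat 529, .ofNat 0, .ofNat 0, .ofNat 1184, .ofNat 1662, .ofNat 0, .ofNat 0, .ofNat 0, .ofNat 0, .ofNat 0, .ofNat 0, .ofNat 11679247588702830094704984852661539258121500753920, .ofNat 0, .ofNat 0, .ofNat 4324517249021492521962611610784236249042138509669826560,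 .ofNat 21144916121045413460828292291285694827214453866496, .ofNat 0, .ofNat 0, .ofNat 0, .ofNat 0, .ofNat 0⟩)
    (by decide +kernel)
theorem L08260 : Good (Phi V5.P V5.D (-1) (-1)) ⟨6, 56, 4, 10, 4, 15, 3, 6, 5, 5⟩ :=
  leafX_sound T5.ok_mm T5.Ymm.bz_eq (w := 264) (c := ⟨⟨.negSucc 945, .ofNat 54, .ofNat 37, .ofNat 568, .ofNat 390, .negSucc 321⟩, ⟨.ofNat 603, .negSucc 42, .ofNat 19, .negSucc 365, .negSucc 252, .ofNat 213⟩, ⟨.ofNat 261, .negSucc 68, .ofNat 63, .ofNat 99, .negSucc 240, .negSucc 170⟩, ⟨.negSucc 2083, .ofNat 112, .ofNat 63, .ofNat 1076, .ofNat 986, .negSucc 190⟩, ⟨.negSucc 1141, .ofNat 41, .ofNat 38, .ofNat 419, .ofNat 664, .ofNat 406⟩, .ofNat 3507, .ofNat 5018, .ofNat 0, .ofNat 5018, .ofNat 7972, .ofNat 0, .ofNat 128, .negSucc 2612, .ofNat 268, .ofNat 0, .ofNat 1700, .negSucc 193, .ofNat 0, .ofNat 0, .ofNat 1672, .ofNat 1504, .ofNat 0, .ofNat 0, .ofNat 0, .ofNat 0, .ofNat 0, .ofNat 1163493298234598571448978866401512861254296897243316224,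 .ofNat 8452769943885219752361706945088839380510353391616, .ofNat 0, .ofNat 0, .ofNat 11551575260114679722830646067898565680483058811704180736, .ofNat 9145852809196385746368781364948989955693948698624, .ofNat 0, .ofNat 0, .ofNat 14583873964131212218505692112138930719022250047255347200, .ofNat 6938430252743975739446357511748910729746481938432, .ofNat 0⟩)
    (by decide +kernel)
theorem L08261 : Good (Phi V5.P V5.D (-1) (-1)) ⟨6, 56, 4, 10, 4, 15, 4, 14, 5, 4⟩ :=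
  leafX_sound T5.ok_mm T5.Ymm.bz_eq (w := 267) (c := ⟨⟨.negSucc 484, .ofNat 163, .ofNat 336, .ofNat 1106, .ofNat 589, .negSucc 283⟩, ⟨.ofNat 308, .negSucc 88, .negSucc 252, .negSucc 715, .negSucc 376, .ofNat 183⟩, ⟨.ofNat 67, .negSucc 164, .ofNat 198, .ofNat 19, .negSucc 261, .ofNat 36⟩, ⟨.negSucc 1266, .ofNat 313, .ofNat 494, .ofNat 2312, .ofNat 1295, .negSucc 400⟩, ⟨.negSucc 867, .ofNat 76, .ofNat 93, .ofNat 1144, .ofNat 705, .negSucc 2⟩, .ofNat 2342, .ofNat 3200, .ofNat 0, .ofNat 3200, .ofNat 5132, .ofNat 0, .ofNat 128, .negSucc 2661, .negSucc 544, .ofNat 0, .ofNat 1702, .ofNat 329, .ofNat 0, .ofNat 0, .ofNat 733, .ofNat 487, .ofNat 0, .ofNat 0, .ofNat 0, .ofNat 0, .ofNat 0, .ofNat 0, .ofNat 0, .ofNat 0, .ofNat 0, .ofNat 47029044705870856824330249618581342198202781977804800000, .ofNat 209614848742774755483988586869087062773793485225984, .ofNat 0, .ofNat 0, .ofNat 2704585254198390771709122562048046686996085239481106432,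 .ofNat 35491258806659497122379608166847373993951585370112, .ofNat 0⟩)
    (by decide +kernel)
theorem L08262 : Good (Phi V5.P V5.D (-1) (-1)) ⟨6, 56, 4, 10, 4, 15, 4, 15, 5, 4⟩ :=
  out_sound (S := T5.ds_mm) T5.ok_mm (w := 40) (j := 2) (by decide +kernel)
theorem L08263 : Good (Phi V5.P V5.D (-1) (-1)) ⟨6, 56, 4, 10, 4, 15, 3, 7, 5, 5⟩ :=
  out_sound (S := T5.ds_mm) T5.ok_mm (w := 38) (j := 2) (by decide +kernel)
theorem L08264 : Good (Phi V5.P V5.D (-1) (-1)) ⟨6, 57, 4, 10, 4, 15, 3, 6, 5, 4⟩ :=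
  leafX_sound T5.ok_mm T5.Ymm.bz_eq (w := 263) (c := ⟨⟨.negSucc 871, .ofNat 54, .ofNat 138, .ofNat 740, .ofNat 828, .negSucc 264⟩, ⟨.ofNat 622, .ofNat 58, .negSucc 177, .negSucc 492, .negSucc 554, .ofNat 178⟩, ⟨.ofNat 428, .ofNat 178, .negSucc 164, .negSucc 15, .negSucc 340, .ofNat 6⟩, ⟨.negSucc 2102, .ofNat 97, .ofNat 227, .ofNat 1611, .ofNat 1746, .negSucc 465⟩, ⟨.negSucc 1310, .ofNat 33, .ofNat 51, .ofNat 848, .ofNat 860, .negSucc 138⟩, .ofNat 2055, .ofNat 2676, .ofNat 0, .ofNat 2676, .ofNat 4181, .ofNat 0, .ofNat 128, .negSucc 2906, .negSucc 775, .ofNat 0, .ofNat 1917, .ofNat 479, .ofNat 0, .ofNat 0, .ofNat 921, .ofNat 270, .ofNat 0, .ofNat 0, .ofNat 25944260289684478904814046235904756999990018048, .ofNat 212638483402299219715408949826800798610769538860634341376, .ofNat 0, .ofNat 0, .ofNat 1799331125577449600449663776537926938863295528960, .ofNat 0, .ofNat 0, .ofNat 0, .ofNat 0, .ofNat 0, .ofNat 0, .ofNat 0,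 .ofNat 3591362726650381002078701146863198849902089076736, .ofNat 50298192538578482611439690323680495207295397938846591090688⟩)
    (by decide +kernel)
theorem L08265 : Good (Phi V5.P V5.D (-1) (-1)) ⟨6, 57, 4, 10, 4, 15, 3, 6, 5, 5⟩ :=
  leafX_sound T5.ok_mm T5.Ymm.bz_eq (w := 264) (c := ⟨⟨.negSucc 774, .ofNat 161, .negSucc 207, .ofNat 666, .ofNat 421, .negSucc 330⟩, ⟨.ofNat 510, .negSucc 85, .ofNat 142, .negSucc 440, .negSucc 281, .ofNat 220⟩, ⟨.ofNat 278, .ofNat 153, .negSucc 136, .ofNat 149, .negSucc 225, .negSucc 168⟩, ⟨.negSucc 1912, .negSucc 27, .negSucc 77, .ofNat 1188, .ofNat 1005, .negSucc 194⟩, ⟨.negSucc 1062, .negSucc 49, .negSucc 22, .ofNat 375, .ofNat 615, .ofNat 404⟩, .ofNat 2698, .ofNat 3680, .ofNat 0, .ofNat 3680, .ofNat 5754, .ofNat 0, .ofNat 128, .negSucc 3505, .ofNat 97, .ofNat 0, .ofNat 2344, .negSucc 103, .ofNat 0, .ofNat 0, .ofNat 1997, .ofNat 959, .ofNat 0, .ofNat 0, .ofNat 0, .ofNat 0, .ofNat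 0, .ofNat 420793256656907080509185705654110162798450861259358208, .ofNat 3033458191174526039577942503153675759363026845696, .ofNat 0, .ofNat 0, .ofNat 24569626773507521519512664031571420604663118295755390976, .ofNat 9291187290795972568120453380784702246704715399168, .ofNat 301094159836252754880452875158317405605084841371661336838144, .ofNat 0, .ofNat 22037482906660311126785649108069748110006380479171788800, .ofNat 3844304562518846969714089561414828499905011515392, .ofNat 13291073616798621138258673784080993566840100381514086219776⟩)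
    (by decide +kernel)
theorem L08266 : Good (Phi V5.P V5.D (-1) (-1)) ⟨7, 114, 4, 10, 4, 15, 4, 14, 5, 4⟩ :=
  leafX_sound T5.ok_mm T5.Ymm.bz_eq (w := 272) (c := ⟨⟨.negSucc 378, .ofNat 179, .ofNat 140, .ofNat 1497, .ofNat 908, .negSucc 345⟩, ⟨.ofNat 198, .negSucc 185, .ofNat 27, .negSucc 1005, .negSucc 607, .ofNat 233⟩, ⟨.ofNat 23, .ofNat 2, .negSucc 147, .ofNat 27, .negSucc 253, .ofNat 125⟩, ⟨.negSucc 1088, .ofNat 310, .ofNat 105, .ofNat 3198, .ofNat 2047, .negSucc 628⟩, ⟨.negSucc 893, .ofNat 30, .ofNat 3, .ofNat 1623, .ofNat 1137, .negSucc 216⟩, .ofNat 2700, .ofNat 3682, .ofNat 0, .ofNat 3682, .ofNat 5758, .ofNat 0, .ofNat 128, .negSucc 3457, .negSucc 895, .ofNat 0, .ofNat 2254, .ofNat 562, .ofNat 0, .ofNat 0, .ofNat 962, .ofNat 394, .ofNat 0, .ofNat 1495152819189336056167662506169532004692461382505857024, .ofNat 230544798669003293828942005042730106761150201856, .ofNat 34183779067286928111740197531783210754143214682185291268096,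 .ofNat 0, .ofNat 0, .ofNat 15243184326952077605717520969787772674497860075520, .ofNat 0, .ofNat 0, .ofNat 1190233363625089854599027067757678303692974189214466834432, .ofNat 174867922067348339138821809576690127508746878844928, .ofNat 21712023754327497814407726122025477853535408544390605086654464, .ofNat 0, .ofNat 0, .ofNat 0, .ofNat 0⟩)
    (by decide +kernel)
theorem L08267 : Good (Phi V5.P V5.D (-1) (-1)) ⟨7, 115, 4, 10, 4, 15, 4, 14, 5, 4⟩ :=
  out_sound (S := T5.ds_mm) T5.ok_mm (w := 21) (j := 4) (by decide +kernel)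
theorem L08268 : Good (Phi V5.P V5.D (-1) (-1)) ⟨6, 57, 4, 10, 4, 15, 4, 15, 5, 4⟩ :=
  out_sound (S := T5.ds_mm) T5.ok_mm (w := 40) (j := 2) (by decide +kernel)
theorem L08269 : Good (Phi V5.P V5.D (-1) (-1)) ⟨6, 57, 4, 10, 4, 15, 3, 7, 5, 5⟩ :=
  out_sound (S := T5.ds_mm) T5.ok_mm (w := 38) (j := 2) (by decide +kernel)
theorem L08270 : Good (Phi V5.P V5.D (-1) (-1)) ⟨5, 28, 4, 10, 3, 7, 4, 12, 5, 6⟩ :=
  leafX_sound T5.ok_mm T5.Ymm.bz_eq (w := 249) (c := ⟨⟨.negSucc 1559, .ofNat 463, .negSucc 324, .ofNat 812, .negSucc 27, .negSucc 447⟩, ⟨.ofNat 1026, .negSucc 438, .ofNat 339, .negSucc 525, .ofNat 24, .ofNat 300⟩, ⟨.negSucc 42, .ofNat 599, .negSucc 399, .ofNat 87, .negSucc 208, .negSucc 559⟩, ⟨.negSucc 2811, .ofNat 266, .negSucc 116, .ofNat 1587, .ofNat 230, .ofNat 101⟩, ⟨.negSucc 1031, .negSucc 96, .ofNat 212, .ofNat 685, .ofNat 415, .ofNat 1117⟩, .ofNat 2417, .ofNat 3301, .ofNat 0, .ofNat 3301, .ofNat 5264, .ofNat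 0, .ofNat 128, .negSucc 2720, .ofNat 620, .ofNat 0, .ofNat 1835, .negSucc 457, .ofNat 0, .ofNat 0, .ofNat 2540, .ofNat 1032, .ofNat 0, .ofNat 0, .ofNat 0, .ofNat 0, .ofNat 0, .ofNat 103638631971799139303919463311944401353194101276672, .ofNat 18245882289005284922792642877268162831225716736, .ofNat 478044185460937892247955820322688753142296647162658816, .ofNat 0, .ofNat 1552177684778547578436906165597662717497918298783744, .ofNat 41421116158709176157734374957875746752692224000, .ofNat 39612254611561654779911000976110331228667418480455188480, .ofNat 0, .ofNat 3954016729166466378427945399611332486775725495418880, .ofNat 52370968570536999403037629543364989321767550976, .ofNat 0⟩)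
    (by decide +kernel)
theorem L08271 : Good (Phi V5.P V5.D (-1) (-1)) ⟨5, 28, 4, 10, 3, 7, 4, 13, 5, 6⟩ :=
  leafX_sound T5.ok_mm T5.Ymm.bz_eq (w := 244) (c := ⟨⟨.negSucc 1518, .ofNat 114, .negSucc 221, .ofNat 672, .negSucc 131, .negSucc 525⟩, ⟨.ofNat 969, .negSucc 80, .ofNat 215, .negSucc 429, .ofNat 96, .ofNat 359⟩, ⟨.negSucc 85, .ofNat 49, .negSucc 120, .negSucc 233, .negSucc 289, .negSucc 619⟩, ⟨.negSucc 2450, .ofNat 75, .negSucc 186, .ofNat 1321, .ofNat 86, .negSucc 68⟩, ⟨.negSucc 467, .negSucc 59, .ofNat 102, .ofNat 569, .ofNat 417, .ofNat 1021⟩, .ofNat 1483, .ofNat 1886, .ofNat 0, .ofNat 1886, .ofNat 3100, .ofNat 0, .ofNat 128, .negSucc 652, .ofNat 49, .ofNat 0, .ofNat 441, .negSucc 46, .ofNat 0, .ofNat 0, .ofNat 510, .ofNat 1492, .ofNat 0, .ofNat 0, .ofNat 0, .ofNat 0, .ofNat 0, .ofNat 44786141780369182619963857231591805113555052658688, .ofNat 2762479908963017159414758942594457018170343424, .ofNat 0,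 .ofNat 0, .ofNat 502258444532548502074107634397226423021721891110912, .ofNat 1970696793430132963383325491337761677314621440, .ofNat 853807914802984818644743204830016683802285261700726784, .ofNat 0, .ofNat 515281782186269315054013918420623077017953893351424, .ofNat 1546513626051257073530057640789970178931687424, .ofNat 0⟩)
    (by decide +kernel)
theorem L08272 : Good (Phi V5.P V5.D (-1) (-1)) ⟨5, 28, 4, 10, 3, 7, 3, 6, 5, 7⟩ :=
  leafX_sound T5.ok_mm T5.Ymm.bz_eq (w := 239) (c := ⟨⟨.negSucc 1801, .ofNat 83, .negSucc 261, .ofNat 102, .negSucc 709, .negSucc 730⟩, ⟨.ofNat 1147, .negSucc 18, .ofNat 228, .negSucc 58, .ofNat 479, .ofNat 491⟩, ⟨.negSucc 432, .ofNat 122, .negSucc 257, .negSucc 767, .negSucc 1116, .negSucc 1211⟩, ⟨.negSucc 2561, .ofNat 77, .negSucc 133, .ofNat 1137, .ofNat 233, .ofNat 147⟩, ⟨.ofNat 10, .negSucc 92, .ofNat 278, .ofNat 1528, .ofNat 1884, .ofNat 1788⟩, .ofNat 391, .ofNat 297, .ofNat 0, .ofNat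 297, .ofNat 646, .ofNat 0, .ofNat 128, .negSucc 364, .ofNat 177, .ofNat 0, .ofNat 306, .negSucc 210, .ofNat 0, .ofNat 0, .ofNat 701, .ofNat 684, .ofNat 0, .ofNat 6994656254726687150136328922109757880810403266560, .ofNat 0, .ofNat 0, .ofNat 0, .ofNat 9538975639807387838630018820623373630040361140224, .ofNat 0, .ofNat 0, .ofNat 0, .ofNat 134986844520862226186265295283748537535354680377344, .ofNat 18522672273153491818510869734265064639168512, .ofNat 0, .ofNat 0, .ofNat 316585059331060213519978122604416623514146020786176, .ofNat 96130764042811788579241720404357532771942400, .ofNat 0⟩)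
    (by decide +kernel)
theorem L08273 : Good (Phi V5.P V5.D (-1) (-1)) ⟨5, 28, 4, 10, 3, 7, 3, 7, 4, 3⟩ :=
  out_sound (S := T5.ds_mm) T5.ok_mm (w := 34) (j := 2) (by decide +kernel)
theorem L08274 : Good (Phi V5.P V5.D (-1) (-1)) ⟨5, 29, 4, 10, 2, 3, 2, 3, 3, 1⟩ :=
  out_sound (S := T5.ds_mm) T5.ok_mm (w := 59) (j := 3) (by decide +kernel)
theorem L08275 : Good (Phi V5.P V5.D (-1) (-1)) ⟨4, 15, 4, 10, 2, 3, 2, 3, 3, 1⟩ :=
  out_sound (S := T5.ds_mm) T5.ok_mm (w := 53) (j := 3) (by decide +kernel)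
theorem L08276 : Good (Phi V5.P V5.D (-1) (-1)) ⟨6, 56, 4, 11, 2, 3, 2, 3, 3, 1⟩ :=
  out_sound (S := T5.ds_mm) T5.ok_mm (w := 65) (j := 3) (by decide +kernel)
theorem L08277 : Good (Phi V5.P V5.D (-1) (-1)) ⟨7, 114, 5, 22, 2, 3, 2, 3, 3, 1⟩ :=
  out_sound (S := T5.ds_mm) T5.ok_mm (w := 73) (j := 3) (by decide +kernel)
theorem L08278 : Good (Phi V5.P V5.D (-1) (-1)) ⟨7, 115, 5, 22, 2, 3, 2, 3, 3, 1⟩ :=
  out_sound (S := T5.ds_mm) T5.ok_mm (w := 21) (j := 4) (by decide +kernel)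
theorem L08279 : Good (Phi V5.P V5.D (-1) (-1)) ⟨6, 57, 5, 23, 2, 3, 2, 3, 3, 1⟩ :=
  out_sound (S := T5.ds_mm) T5.ok_mm (w := 67) (j := 3) (by decide +kernel)
theorem L08280 : Good (Phi V5.P V5.D (-1) (-1)) ⟨5, 29, 4, 11, 2, 3, 2, 3, 3, 1⟩ :=
  out_sound (S := T5.ds_mm) T5.ok_mm (w := 17) (j := 4) (by decide +kernel)
theorem L08281 : Good (Phi V5.P V5.D (-1) (-1)) ⟨4, 15, 4, 11, 2, 3, 2, 3, 3, 1⟩ :=
  out_sound (S := T5.ds_mm) T5.ok_mm (w := 53) (j := 3) (by decide +kernel)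
theorem L08282 : Good (Phi V5.P V5.D (-1) (-1)) ⟨2, 2, 2, 3, 2, 3, 2, 3, 2, 0⟩ :=
  out_sound (S := T5.ds_mm) T5.ok_mm (w := 37) (j := 3) (by decide +kernel)
theorem L08283 : Good (Phi V5.P V5.D (-1) (-1)) ⟨3, 6, 2, 3, 2, 3, 2, 3, 2, 0⟩ :=
  out_sound (S := T5.ds_mm) T5.ok_mm (w := 43) (j := 3) (by decide +kernel)
theorem L08284 : Good (Phi V5.P V5.D (-1) (-1)) ⟨5, 28, 3, 6, 2, 3, 2, 3, 2, 0⟩ :=
  out_sound (S := T5.ds_mm) T5.ok_mm (w := 57) (j := 3) (by decide +kernel)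
theorem L08285 : Good (Phi V5.P V5.D (-1) (-1)) ⟨5, 29, 3, 6, 2, 3, 2, 3, 2, 0⟩ :=
  out_sound (S := T5.ds_mm) T5.ok_mm (w := 17) (j := 4) (by decide +kernel)
theorem L08286 : Good (Phi V5.P V5.D (-1) (-1)) ⟨4, 14, 3, 7, 2, 3, 2, 3, 2, 0⟩ :=
  out_sound (S := T5.ds_mm) T5.ok_mm (w := 51) (j := 3) (by decide +kernel)
theorem L08287 : Good (Phi V5.P V5.D (-1) (-1)) ⟨4, 15, 2, 3, 2, 3, 2, 3, 2, 0⟩ :=
  out_sound (S := T5.ds_mm) T5.ok_mm (w := 15) (j := 4) (by decide +kernel)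
theorem L08288 : Good (Phi V5.P V5.D (-1) (-1)) ⟨2, 2, 1, 1, 1, 1, 1, 1, 3, 2⟩ :=
  out_sound (S := T5.ds_mm) T5.ok_mm (w := 35) (j := 3) (by decide +kernel)
theorem L08289 : Good (Phi V5.P V5.D (-1) (-1)) ⟨4, 12, 2, 2, 2, 2, 2, 2, 4, 4⟩ :=
  out_sound (S := T5.ds_mm) T5.ok_mm (w := 49) (j := 3) (by decide +kernel)
theorem L08290 : Good (Phi V5.P V5.D (-1) (-1)) ⟨4, 13, 2, 2, 3, 4, 2, 2, 4, 4⟩ :=
  leafX_sound T5.ok_mm T5.Ymm.bz_eq (w := 221) (c := ⟨⟨.negSucc 2685, .negSucc 214, .ofNat 74, .ofNat 202, .ofNat 453, .ofNat 478⟩, ⟨.ofNat 1435, .ofNat 214, .ofNat 306, .negSucc 120, .negSucc 257, .negSucc 277⟩, ⟨.ofNat 1956, .ofNat 174, .negSucc 271, .negSucc 650, .negSucc 788, .negSucc 469⟩, ⟨.negSucc 4340, .negSucc 154, .ofNat 141, .ofNat 178, .ofNat 917, .ofNat 759⟩, ⟨.negSucc 408, .negSucc 151, .ofNat 135, .negSucc 201, .ofNat 432, .ofNat 105⟩, .ofNat 751, .ofNat 832, .ofNat 0, .ofNat 832, .ofNat 1632, .ofNat 0,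 .ofNat 128, .negSucc 455, .negSucc 169, .ofNat 0, .ofNat 330, .ofNat 95, .ofNat 0, .ofNat 0, .ofNat 801, .ofNat 1961, .ofNat 0, .ofNat 0, .ofNat 0, .ofNat 0, .ofNat 0, .ofNat 0, .ofNat 48738992907964690154674719657105349935104, .ofNat 0, .ofNat 0, .ofNat 0, .ofNat 164488264191227922192512930690262798172160, .ofNat 0, .ofNat 0, .ofNat 0, .ofNat 74184759830986037133781266891665804623872, .ofNat 0⟩)
    (by decide +kernel)
theorem L08291 : Good (Phi V5.P V5.D (-1) (-1)) ⟨4, 13, 3, 4, 3, 5, 2, 2, 5, 8⟩ :=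
  leafX_sound T5.ok_mm T5.Ymm.bz_eq (w := 230) (c := ⟨⟨.negSucc 2451, .negSucc 101, .negSucc 73, .ofNat 275, .ofNat 282, .ofNat 187⟩, ⟨.ofNat 1323, .ofNat 94, .ofNat 227, .negSucc 164, .negSucc 149, .negSucc 103⟩, ⟨.ofNat 1464, .ofNat 51, .negSucc 183, .negSucc 717, .negSucc 915, .negSucc 333⟩, ⟨.negSucc 4214, .negSucc 11, .negSucc 52, .ofNat 377, .ofNat 869, .ofNat 382⟩, ⟨.negSucc 798, .negSucc 170, .ofNat 162, .negSucc 58, .ofNat 781, .ofNat 185⟩, .ofNat 745, .ofNat 824, .ofNat 0, .ofNat 824, .ofNat 1626, .ofNat 0, .ofNat 128, .negSucc 871, .negSucc 220, .ofNat 0, .ofNat 624, .ofNat 115, .ofNat 0, .ofNat 0, .ofNat 1328, .ofNat 2201, .ofNat 0, .ofNat 0, .ofNat 0, .ofNat 0, .ofNat 0, .ofNat 0, .ofNat 8051321442474783196473002388961279225102336, .ofNat 0, .ofNat 0, .ofNat 203626966681000073724427091055523179625634070528, .ofNat 84989168749439282168818295027793153348337664, .ofNat 0, .ofNat 0, .ofNat 152188187419940378381383293322347710776940167168,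 .ofNat 97869565426986992909884808180931496320696320, .ofNat 0⟩)
    (by decide +kernel)
theorem L08292 : Good (Phi V5.P V5.D (-1) (-1)) ⟨4, 13, 3, 4, 3, 5, 2, 2, 5, 9⟩ :=
  leafX_sound T5.ok_mm T5.Ymm.bz_eq (w := 228) (c := ⟨⟨.negSucc 2277, .ofNat 46, .negSucc 110, .ofNat 160, .ofNat 157, .ofNat 125⟩, ⟨.ofNat 1218, .ofNat 24, .ofNat 226, .negSucc 90, .negSucc 67, .negSucc 67⟩, ⟨.ofNat 1169, .ofNat 141, .negSucc 215, .negSucc 861, .negSucc 1116, .negSucc 380⟩, ⟨.negSucc 3885, .ofNat 222, .negSucc 153, .ofNat 288, .ofNat 740, .ofNat 273⟩, ⟨.negSucc 709, .negSucc 78, .ofNat 58, .ofNat 83, .ofNat 867, .ofNat 158⟩, .ofNat 755, .ofNat 836, .ofNat 0, .ofNat 836, .ofNat 1628, .ofNat 0, .ofNat 128, .negSucc 606, .negSucc 50, .ofNat 0, .ofNat 446, .ofNat 11, .ofNat 0, .ofNat 0, .ofNat 1513, .ofNat 592, .ofNat 0, .ofNat 0, .ofNat 158111343462451756973923851464083706478592, .ofNat 0, .ofNat 0, .ofNat 13522414131426805641088640703251461999796682752,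 .ofNat 6137805472222599916164049211784287263653888, .ofNat 0, .ofNat 0, .ofNat 139111555964120270179614316796637935679423119360, .ofNat 26590766824601514023327753459285994583883776, .ofNat 0, .ofNat 0, .ofNat 326294511000285411568075863514082817177544556544, .ofNat 0, .ofNat 0⟩)
    (by decide +kernel)
theorem L08293 : Good (Phi V5.P V5.D (-1) (-1)) ⟨4, 13, 3, 5, 3, 5, 2, 2, 4, 4⟩ :=
  out_sound (S := T5.ds_mm) T5.ok_mm (w := 51) (j := 3) (by decide +kernel)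
theorem L08294 : Good (Phi V5.P V5.D (-1) (-1)) ⟨3, 6, 2, 3, 2, 2, 2, 2, 4, 4⟩ :=
  out_sound (S := T5.ds_mm) T5.ok_mm (w := 43) (j := 3) (by decide +kernel)
theorem L08295 : Good (Phi V5.P V5.D (-1) (-1)) ⟨4, 14, 1, 1, 3, 4, 2, 2, 4, 4⟩ :=
  leafX_sound T5.ok_mm T5.Ymm.bz_eq (w := 218) (c := ⟨⟨.negSucc 2876, .negSucc 154, .ofNat 36, .ofNat 201, .ofNat 460, .ofNat 482⟩, ⟨.ofNat 1683, .ofNat 228, .ofNat 551, .negSucc 129, .negSucc 295, .negSucc 310⟩, ⟨.ofNat 2132, .ofNat 63, .negSucc 353, .negSucc 702, .negSucc 815, .negSucc 511⟩, ⟨.negSucc 4421, .negSucc 62, .ofNat 1, .ofNat 145, .ofNat 935, .ofNat 771⟩, ⟨.negSucc 502, .negSucc 90, .negSucc 2, .negSucc 219, .ofNat 437, .ofNat 135⟩, .ofNat 879, .ofNat 992, .ofNat 0, .ofNat 992, .ofNat 1754, .ofNat 0, .ofNat 128, .negSucc 760, .negSucc 233, .ofNat 0, .ofNat 562, .ofNat 142, .ofNat 0, .ofNat 0, .ofNat 1066, .ofNat 1114, .ofNat 0, .ofNat 0, .ofNat 0, .ofNat 0, .ofNat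 0, .ofNat 0, .ofNat 40251446106899802856222392540102981058560, .ofNat 141272126493763247488173207765000964082614927360, .ofNat 0, .ofNat 0, .ofNat 0, .ofNat 0, .ofNat 0, .ofNat 0, .ofNat 43342280419292795798862268936850675597312, .ofNat 488002372559896179156362626594313400866310193152⟩)
    (by decide +kernel)
theorem L08296 : Good (Phi V5.P V5.D (-1) (-1)) ⟨4, 14, 2, 2, 3, 5, 3, 4, 5, 8⟩ :=
  leafX_sound T5.ok_mm T5.Ymm.bz_eq (w := 230) (c := ⟨⟨.negSucc 2613, .negSucc 207, .ofNat 41, .ofNat 312, .ofNat 150, .ofNat 213⟩, ⟨.ofNat 1560, .ofNat 368, .ofNat 146, .negSucc 206, .negSucc 96, .negSucc 139⟩, ⟨.ofNat 1526, .negSucc 38, .negSucc 241, .negSucc 742, .negSucc 433, .negSucc 339⟩, ⟨.negSucc 4254, .negSucc 46, .negSucc 14, .ofNat 366, .ofNat 401, .ofNat 414⟩, ⟨.negSucc 873, .ofNat 36, .ofNat 22, .negSucc 115, .ofNat 288, .ofNat 175⟩, .ofNat 884, .ofNat 998, .ofNat 0, .ofNat 998, .ofNat 1760, .ofNat 0, .ofNat 128,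 .negSucc 844, .negSucc 210, .ofNat 0, .ofNat 620, .ofNat 126, .ofNat 0, .ofNat 0, .ofNat 1082, .ofNat 2105, .ofNat 0, .ofNat 0, .ofNat 0, .ofNat 0, .ofNat 0, .ofNat 0, .ofNat 181927989725427914995808762908535603163299840, .ofNat 528966244819328706044340923101444024723456300941312, .ofNat 0, .ofNat 0, .ofNat 121806822809604507120786760434079999123783680, .ofNat 0, .ofNat 0, .ofNat 0, .ofNat 0, .ofNat 0⟩)
    (by decide +kernel)
theorem L08297 : Good (Phi V5.P V5.D (-1) (-1)) ⟨4, 14, 2, 2, 3, 5, 3, 4, 5, 9⟩ :=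
  leafX_sound T5.ok_mm T5.Ymm.bz_eq (w := 230) (c := ⟨⟨.negSucc 2226, .ofNat 96, .negSucc 237, .ofNat 157, .ofNat 56, .ofNat 129⟩, ⟨.ofNat 1295, .ofNat 97, .ofNat 366, .negSucc 100, .negSucc 33, .negSucc 81⟩, ⟨.ofNat 1356, .ofNat 213, .negSucc 476, .negSucc 920, .negSucc 575, .negSucc 406⟩, ⟨.negSucc 3773, .ofNat 50, .negSucc 100, .ofNat 295, .ofNat 340, .ofNat 308⟩, ⟨.negSucc 802, .negSucc 102, .ofNat 69, .ofNat 112, .ofNat 405, .ofNat 193⟩, .ofNat 888, .ofNat 1003, .ofNat 0, .ofNat 1003, .ofNat 1764, .ofNat 0, .ofNat 128, .negSucc 1009, .negSucc 152, .ofNat 0, .ofNat 755, .ofNat 79, .ofNat 0, .ofNat 0, .ofNat 2235, .ofNat 1011, .ofNat 0, .ofNat 0, .ofNat 0, .ofNat 0, .ofNat 0, .ofNat 2064754895277464400218975291203158216168964096, .ofNat 110553720283874788655013390384972543649906688, .ofNat 629711872617844393319922185228272078827627342725120, .ofNat 0, .ofNat 0, .ofNat 0, .ofNat 0, .ofNat 0, .ofNat 0, .ofNat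 0, .ofNat 0⟩)
    (by decide +kernel)
theorem L08298 : Good (Phi V5.P V5.D (-1) (-1)) ⟨5, 28, 2, 2, 3, 5, 3, 5, 5, 8⟩ :=
  leafX_sound T5.ok_mm T5.Ymm.bz_eq (w := 233) (c := ⟨⟨.negSucc 2418, .negSucc 175, .ofNat 273, .ofNat 97, .ofNat 69, .ofNat 96⟩, ⟨.ofNat 1374, .ofNat 134, .ofNat 156, .negSucc 60, .negSucc 39, .negSucc 58⟩, ⟨.ofNat 1084, .negSucc 52, .negSucc 72, .negSucc 859, .negSucc 591, .negSucc 482⟩, ⟨.negSucc 3851, .negSucc 113, .ofNat 211, .ofNat 257, .ofNat 477, .ofNat 334⟩, ⟨.negSucc 620, .ofNat 88, .negSucc 299, .ofNat 199, .ofNat 597, .ofNat 329⟩, .ofNat 387, .ofNat 292, .ofNat 0, .ofNat 292, .ofNat 645, .ofNat 0, .ofNat 128, .negSucc 491, .negSucc 124, .ofNat 0, .ofNat 428, .ofNat 41, .ofNat 0, .ofNat 0, .ofNat 903, .ofNat 746, .ofNat 0, .ofNat 0, .ofNat 0, .ofNat 0, .ofNat 0, .ofNat 0, .ofNat 5043224945139584208165614121976475162771456, .ofNat 0, .ofNat 0, .ofNat 580759672995991920984892413753184672339818708992,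 .ofNat 29158825157826214506325290905468896945373184, .ofNat 4647331842681640350187610519073555974334344889106432, .ofNat 0, .ofNat 641078275422250513148057499887645589972570865664, .ofNat 16332643091088780807679997060160423867711488, .ofNat 6737906782410909438199924435145763132351338373971968⟩)
    (by decide +kernel)
theorem L08299 : Good (Phi V5.P V5.D (-1) (-1)) ⟨5, 29, 2, 2, 3, 5, 3, 5, 5, 8⟩ :=
  out_sound (S := T5.ds_mm) T5.ok_mm (w := 17) (j := 4) (by decide +kernel)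
theorem L08300 : Good (Phi V5.P V5.D (-1) (-1)) ⟨5, 28, 2, 2, 4, 10, 3, 5, 5, 9⟩ :=
  leafX_sound T5.ok_mm T5.Ymm.bz_eq (w := 248) (c := ⟨⟨.negSucc 1934, .ofNat 16, .negSucc 324, .negSucc 50, .negSucc 3, .ofNat 22⟩, ⟨.ofNat 1069, .ofNat 7, .ofNat 534, .ofNat 33, .ofNat 6, .negSucc 12⟩, ⟨.ofNat 1089, .negSucc 15, .negSucc 509, .negSucc 630, .negSucc 785, .negSucc 599⟩, ⟨.negSucc 3292, .ofNat 56, .negSucc 177, .ofNat 56, .ofNat 428, .ofNat 227⟩, ⟨.negSucc 718, .negSucc 7, .ofNat 221, .ofNat 196, .ofNat 661, .ofNat 309⟩, .ofNat 883, .ofNat 998, .ofNat 0, .ofNat 998, .ofNat 1761, .ofNat 0, .ofNat 128, .negSucc 1134, .negSucc 36, .ofNat 0, .ofNat 838, .negSucc 9, .ofNat 0, .ofNat 0, .ofNat 2474, .ofNat 2433, .ofNat 0, .ofNat 0, .ofNat 0, .ofNat 0, .ofNat 0, .ofNat 0, .ofNat 629766010150560295683158099293280024189315579904, .ofNat 0, .ofNat 0, .ofNat 8901334291858862620267564622128308547980060694413312, .ofNat 4242450168778128302389447602416790213862891716608,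 .ofNat 624924745577979720524123614424821946742135649769214705664, .ofNat 0, .ofNat 27543760170820310696557261821294179603616186287259648, .ofNat 5511631523988485567197816535017673411530816749568, .ofNat 702409345404695636515157492655140215790826868052292796416⟩)
    (by decide +kernel)

end Crest.Agent.R097C5.N5mm
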