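import Crest.Agent.R097.KP7
import Crest.Agent.R097.T5Ymm

/-!
# Row 97, box cover in dimension n = 5 (generated)
-/

set_option autoImplicit false
set_option Elab.async false
set_option maxHeartbeats 0
set_option maxRecDepth 100000

open Crest.Agent.R097 Crest.Agent.R097.KA


namespace Crest.Agent.R097C5.N5mm

theorem L08301 : Good (Phi V5.P V5.D (-1) (-1)) ⟨5, 28, 2, 2, 4, 11, 4, 10, 5, 9⟩ :=
  leafX_sound T5.ok_mm T5.Ymm.bz_eq (w := 252) (c := ⟨⟨.negSucc 1878, .negSucc 96, .negSucc 242, .negSucc 122, .negSucc 99, .negSucc 104⟩, ⟨.ofNat 1054, .ofNat 103, .ofNat 427, .ofNat 82, .ofNat 68, .ofNat 72⟩, ⟨.ofNat 618, .negSucc 248, .negSucc 291, .negSucc 799, .negSucc 525, .negSucc 928⟩, ⟨.negSucc 3209, .negSucc 8, .negSucc 100, .ofNat 99, .ofNat 150, .ofNat 184⟩, ⟨.negSucc 719, .ofNat 107, .ofNat 190, .ofNat 419, .ofNat 444, .ofNat 515⟩, .ofNat 820, .ofNat 889, .ofNat 0, .ofNat 889, .ofNat 1567, .ofNat 0, .ofNat 128, .negSucc 1038, .ofNat 285,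 .ofNat 0, .ofNat 801, .negSucc 254, .ofNat 0, .ofNat 0, .ofNat 3439, .ofNat 1821, .ofNat 0, .ofNat 287595365246216558853158253281890221225004282937344, .ofNat 529051401194233848699166613070209944049942528000, .ofNat 160744359424907988769543232668889375759075251469714194432, .ofNat 0, .ofNat 1159640842205359661426010229711553489816880339222528, .ofNat 6259758291333071021679596122205862914057561964544, .ofNat 0, .ofNat 0, .ofNat 15168505137877291975553863927466446964774435452616704, .ofNat 25049607408450768605148818292320164491891654524928, .ofNat 13962175673051224435051509913598215012653531593665004175360, .ofNat 0, .ofNat 276896318183513869339448574494853785327311082663968768, .ofNat 99814726957491200967103493458510043430847130894336, .ofNat 30756182668655138719093223241208972179315769867383036968960⟩)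
    (by decide +kernel)
theorem L08302 : Good (Phi V5.P V5.D (-1) (-1)) ⟨5, 28, 2, 2, 4, 11, 4, 11, 5, 9⟩ :=
  leafX_sound T5.ok_mm T5.Ymm.bz_eq (w := 252) (c := ⟨⟨.negSucc 2029, .negSucc 324, .ofNat 167, .negSucc 211, .negSucc 144, .negSucc 179⟩, ⟨.ofNat 1180, .ofNat 276, .ofNat 100, .ofNat 142, .ofNat 99, .ofNat 121⟩, ⟨.ofNat 125, .negSucc 486, .ofNat 73, .negSucc 914, .negSucc 611, .negSucc 1046⟩, ⟨.negSucc 3035, .negSucc 89, .ofNat 10, .ofNat 42, .ofNat 159, .ofNat 135⟩, ⟨.negSucc 308, .ofNat 207, .negSucc 14, .ofNat 519, .ofNat 551, .ofNat 596⟩, .ofNat 886, .ofNat 1001, .ofNat 0, .ofNat 1001, .ofNat 1763, .ofNat 0, .ofNat 128, .negSucc 971, .ofNat 285, .ofNat 0, .ofNat 720, .negSucc 231, .ofNat 0, .ofNat 0, .ofNat 2490, .ofNat 1539, .ofNat 0, .ofNat 1900289770662543346178920691061262611831340492914688, .ofNat 207426589181312914771256294506659079435782717440, .ofNat 0, .ofNat 0, .ofNat 4616505537168685809776701962768535329742124193153024,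 .ofNat 6443265662752256644189669868585477585320745631744, .ofNat 0, .ofNat 0, .ofNat 106969100742961329180709039211523650622975165981523968, .ofNat 16170315054196859330727637816643582123271492993024, .ofNat 1085899814226358277822512623932722869791222725161183608832, .ofNat 0, .ofNat 339786806373656116463980203152240383004863420367372288, .ofNat 30409336012967465875878542456955602047593474949120, .ofNat 0⟩)
    (by decide +kernel)
theorem L08303 : Good (Phi V5.P V5.D (-1) (-1)) ⟨5, 29, 2, 2, 3, 5, 3, 5, 5, 9⟩ :=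
  out_sound (S := T5.ds_mm) T5.ok_mm (w := 17) (j := 4) (by decide +kernel)
theorem L08304 : Good (Phi V5.P V5.D (-1) (-1)) ⟨5, 28, 3, 6, 3, 5, 2, 2, 4, 4⟩ :=
  out_sound (S := T5.ds_mm) T5.ok_mm (w := 57) (j := 3) (by decide +kernel)
theorem L08305 : Good (Phi V5.P V5.D (-1) (-1)) ⟨5, 29, 3, 6, 3, 5, 2, 2, 4, 4⟩ :=
  out_sound (S := T5.ds_mm) T5.ok_mm (w := 17) (j := 4) (by decide +kernel)
theorem L08306 : Good (Phi V5.P V5.D (-1) (-1)) ⟨4, 14, 3, 7, 3, 5, 2, 2, 4, 4⟩ :=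
  out_sound (S := T5.ds_mm) T5.ok_mm (w := 51) (j := 3) (by decide +kernel)
theorem L08307 : Good (Phi V5.P V5.D (-1) (-1)) ⟨4, 15, 1, 1, 2, 2, 2, 2, 4, 4⟩ :=
  out_sound (S := T5.ds_mm) T5.ok_mm (w := 15) (j := 4) (by decide +kernel)
theorem L08308 : Good (Phi V5.P V5.D (-1) (-1)) ⟨4, 12, 2, 2, 2, 2, 2, 2, 4, 5⟩ :=
  out_sound (S := T5.ds_mm) T5.ok_mm (w := 49) (j := 3) (by decide +kernel)
theorem L08309 : Good (Phi V5.P V5.D (-1) (-1)) ⟨4, 13, 2, 2, 3, 4, 2, 2, 4, 5⟩ :=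
  leafX_sound T5.ok_mm T5.Ymm.bz_eq (w := 220) (c := ⟨⟨.negSucc 2141, .negSucc 277, .ofNat 234, .ofNat 104, .ofNat 223, .ofNat 282⟩, ⟨.ofNat 1140, .ofNat 235, .ofNat 137, .negSucc 60, .negSucc 116, .negSucc 159⟩, ⟨.ofNat 1812, .negSucc 243, .ofNat 140, .negSucc 893, .negSucc 1079, .negSucc 462⟩, ⟨.negSucc 3592, .negSucc 93, .ofNat 167, .ofNat 144, .ofNat 681, .ofNat 494⟩, ⟨.negSucc 535, .ofNat 169, .negSucc 249, .negSucc 10, .ofNat 610, .ofNat 149⟩, .ofNat 759, .ofNat 844, .ofNat 0, .ofNat 844, .ofNat 1645, .ofNat 0, .ofNat 128, .negSucc 479, .negSucc 89, .ofNat 0, .ofNat 356, .ofNat 42, .ofNat 0, .ofNat 0, .ofNat 1636, .ofNat 606, .ofNat 0, .ofNat 0, .ofNat 3976620702404628771816112269261340147712, .ofNat 0, .ofNat 0, .ofNat 0, .ofNat 55513425238262856572290786900155381579776, .ofNat 0, .ofNat 0, .ofNat 1708813702562841542368341666900610670544289792, .ofNat 284081445073595891965658721891500620251136, .ofNat 0, .ofNat 0, .ofNat 5696238555774909434423410758464268304776167424,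 .ofNat 393401983145626309688183517397625381847040, .ofNat 0⟩)
    (by decide +kernel)
theorem L08310 : Good (Phi V5.P V5.D (-1) (-1)) ⟨4, 13, 3, 4, 3, 5, 3, 4, 5, 10⟩ :=
  leafX_sound T5.ok_mm T5.Ymm.bz_eq (w := 233) (c := ⟨⟨.negSucc 2050, .negSucc 19, .negSucc 85, .ofNat 88, .ofNat 23, .ofNat 59⟩, ⟨.ofNat 1087, .ofNat 75, .ofNat 195, .negSucc 45, .negSucc 1, .negSucc 29⟩, ⟨.ofNat 948, .ofNat 205, .negSucc 337, .negSucc 1087, .negSucc 656, .negSucc 522⟩, ⟨.negSucc 3476, .ofNat 91, .negSucc 81, .ofNat 237, .ofNat 283, .ofNat 202⟩, ⟨.negSucc 607, .negSucc 84, .ofNat 75, .ofNat 184, .ofNat 434, .ofNat 199⟩, .ofNat 751, .ofNat 832, .ofNat 0, .ofNat 832, .ofNat 1634, .ofNat 0, .ofNat 128, .negSucc 693, .ofNat 58, .ofNat 0, .ofNat 519, .negSucc 60, .ofNat 0, .ofNat 0, .ofNat 2505, .ofNat 1694, .ofNat 0, .ofNat 0, .ofNat 0, .ofNat 0, .ofNat 0, .ofNat 64650348300771353096208317243209885402573832192, .ofNat 245057623576769053073292422502872839702446080,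 .ofNat 0, .ofNat 0, .ofNat 1031577585275768563351394638942055527220969996288, .ofNat 1751445706486080486304351609925944590219608064, .ofNat 0, .ofNat 0, .ofNat 4600000410134874000963959082792071894874846134272, .ofNat 0, .ofNat 0⟩)
    (by decide +kernel)
theorem L08311 : Good (Phi V5.P V5.D (-1) (-1)) ⟨4, 13, 3, 5, 3, 5, 3, 4, 5, 10⟩ :=
  out_sound (S := T5.ds_mm) T5.ok_mm (w := 51) (j := 3) (by decide +kernel)
theorem L08312 : Good (Phi V5.P V5.D (-1) (-1)) ⟨5, 26, 3, 4, 3, 5, 3, 4, 5, 11⟩ :=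
  leafX_sound T5.ok_mm T5.Ymm.bz_eq (w := 240) (c := ⟨⟨.negSucc 1849, .negSucc 89, .ofNat 39, .negSucc 15, .negSucc 11, .ofNat 33⟩, ⟨.ofNat 974, .ofNat 86, .ofNat 109, .ofNat 17, .ofNat 18, .negSucc 13⟩, ⟨.ofNat 951, .negSucc 182, .ofNat 20, .negSucc 1456, .negSucc 822, .negSucc 595⟩, ⟨.negSucc 3120, .negSucc 20, .ofNat 32, .ofNat 117, .ofNat 196, .ofNat 141⟩, ⟨.negSucc 476, .ofNat 11, .negSucc 11, .ofNat 255, .ofNat 387, .ofNat 165⟩, .ofNat 2856, .ofNat 4491, .ofNat 0, .ofNat 4491, .ofNat 8147, .ofNat 0, .ofNat 128, .negSucc 1048, .ofNat 278, .ofNat 0, .ofNat 655, .negSucc 171, .ofNat 0, .ofNat 0, .ofNat 4251, .ofNat 3529, .ofNat 0, .ofNat 445984129948570421619623155219765224577773338624, .ofNat 9724815915316149273818134261440793819480064, .ofNat 0, .ofNat 0, .ofNat 4477470521938903340974272718961618246495515967488, .ofNat 220312915902491383700740062043703310255390720, .ofNat 0, .ofNat 0, .ofNat 66988651829348280938194095127932558297868579897344,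 .ofNat 1048277385313901850034624693002532545825341440, .ofNat 0, .ofNat 0, .ofNat 296189682193918604834392111523390490448331131584512, .ofNat 1886406444968548550212639194688282526629232640, .ofNat 0⟩)
    (by decide +kernel)
theorem L08313 : Good (Phi V5.P V5.D (-1) (-1)) ⟨5, 27, 3, 4, 4, 10, 3, 4, 5, 11⟩ :=
  leafX_sound T5.ok_mm T5.Ymm.bz_eq (w := 251) (c := ⟨⟨.negSucc 1911, .negSucc 92, .negSucc 9, .negSucc 29, .negSucc 50, .ofNat 17⟩, ⟨.ofNat 1042, .ofNat 89, .ofNat 143, .ofNat 21, .ofNat 42, .negSucc 4⟩, ⟨.ofNat 889, .negSucc 183, .negSucc 113, .negSucc 810, .negSucc 974, .negSucc 681⟩, ⟨.negSucc 3150, .ofNat 2, .negSucc 30, .ofNat 46, .ofNat 213, .ofNat 148⟩, ⟨.negSucc 533, .ofNat 38, .ofNat 20, .ofNat 155, .ofNat 478, .ofNat 211⟩, .ofNat 751, .ofNat 830, .ofNat 0, .ofNat 830, .ofNat 1622, .ofNat 0, .ofNat 128, .negSucc 601, .ofNat 179, .ofNat 0, .ofNat 457, .negSucc 136, .ofNat 0, .ofNat 0, .ofNat 3432, .ofNat 2635, .ofNat 0, .ofNat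 0, .ofNat 0, .ofNat 0, .ofNat 0, .ofNat 0, .ofNat 1675545278679217002026495888699789530374776815616, .ofNat 0, .ofNat 0, .ofNat 99142149731912066410427821915170395879328787831193600, .ofNat 3622045657793154941411911961440100397394281103360, .ofNat 0, .ofNat 0, .ofNat 702924610467047394799606428569600069033608745653895168, .ofNat 0, .ofNat 0⟩)
    (by decide +kernel)
theorem L08314 : Good (Phi V5.P V5.D (-1) (-1)) ⟨5, 27, 3, 4, 4, 11, 3, 4, 5, 11⟩ :=
  leafX_sound T5.ok_mm T5.Ymm.bz_eq (w := 251) (c := ⟨⟨.negSucc 1869, .negSucc 78, .negSucc 79, .negSucc 77, .negSucc 149, .negSucc 55⟩, ⟨.ofNat 1018, .ofNat 82, .ofNat 185, .ofNat 54, .ofNat 106, .ofNat 42⟩, ⟨.ofNat 289, .negSucc 174, .negSucc 277, .negSucc 973, .negSucc 1207, .negSucc 943⟩, ⟨.negSucc 3055, .ofNat 14, .negSucc 63, .ofNat 44, .ofNat 132, .ofNat 89⟩, ⟨.negSucc 466, .ofNat 44, .ofNat 96, .ofNat 260, .ofNat 577, .ofNat 287⟩, .ofNat 1556, .ofNat 2128, .ofNat 0, .ofNat 2128, .ofNat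 3779, .ofNat 0, .ofNat 128, .negSucc 532, .ofNat 211, .ofNat 0, .ofNat 364, .negSucc 139, .ofNat 0, .ofNat 0, .ofNat 2302, .ofNat 2368, .ofNat 0, .ofNat 3875838829096665711692818433188644737670776893734912, .ofNat 23962814306313490269131359051559368194598633472, .ofNat 0, .ofNat 0, .ofNat 0, .ofNat 5959528518554388752110374166049135988790851010560, .ofNat 0, .ofNat 0, .ofNat 159727479773577549481933406749458247952744950083354624, .ofNat 3290874781108224618183283179230290617981208625152, .ofNat 0, .ofNat 0, .ofNat 628969343477258198615206496608241999601433280564428800, .ofNat 0, .ofNat 0⟩)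
    (by decide +kernel)
theorem L08315 : Good (Phi V5.P V5.D (-1) (-1)) ⟨4, 13, 3, 5, 3, 5, 3, 4, 5, 11⟩ :=
  out_sound (S := T5.ds_mm) T5.ok_mm (w := 51) (j := 3) (by decide +kernel)
theorem L08316 : Good (Phi V5.P V5.D (-1) (-1)) ⟨4, 13, 2, 2, 4, 10, 3, 5, 5, 10⟩ :=
  leafX_sound T5.ok_mm T5.Ymm.bz_eq (w := 243) (c := ⟨⟨.negSucc 1838, .negSucc 116, .negSucc 172, .negSucc 60, .negSucc 40, .negSucc 11⟩, ⟨.ofNat 966, .ofNat 148, .ofNat 361, .ofNat 41, .ofNat 40, .ofNat 13⟩, ⟨.ofNat 720, .negSucc 74, .negSucc 639, .negSucc 742, .negSucc 925, .negSucc 709⟩, ⟨.negSucc 3088, .ofNat 50, .negSucc 153, .ofNat 45, .ofNat 326, .ofNat 160⟩, ⟨.negSucc 390, .negSucc 13, .ofNat 189, .ofNat 225, .ofNat 636, .ofNat 297⟩, .ofNat 741, .ofNat 820, .ofNat 0, .ofNat 820, .ofNat 1628, .ofNat 0, .ofNat 128, .negSucc 343, .ofNat 74, .ofNat 0, .ofNat 254, .negSucc 61, .ofNat 0, .ofNat 0, .ofNat 1379, .ofNat 697, .ofNat 0, .ofNat 4166295249429831340222399523094183414725523537920,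 .ofNat 73716606147338808464023605667537597207198826496, .ofNat 0, .ofNat 0, .ofNat 0, .ofNat 0, .ofNat 0, .ofNat 0, .ofNat 211897110305089644387870817091063340533876562853888, .ofNat 1769836034889011535749061533715693478369267023872, .ofNat 0, .ofNat 0, .ofNat 936648684759569867066446211459760762759350426009600, .ofNat 4361419270178677946957336941069352433589413740544, .ofNat 0⟩)
    (by decide +kernel)
theorem L08317 : Good (Phi V5.P V5.D (-1) (-1)) ⟨4, 13, 3, 4, 4, 11, 3, 5, 5, 10⟩ :=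
  leafX_sound T5.ok_mm T5.Ymm.bz_eq (w := 247) (c := ⟨⟨.negSucc 1846, .negSucc 104, .negSucc 143, .negSucc 121, .negSucc 192, .negSucc 99⟩, ⟨.ofNat 968, .ofNat 150, .ofNat 213, .ofNat 82, .ofNat 136, .ofNat 69⟩, ⟨.ofNat 151, .negSucc 157, .negSucc 367, .negSucc 914, .negSucc 1209, .negSucc 976⟩, ⟨.negSucc 3010, .ofNat 59, .negSucc 102, .ofNat 50, .ofNat 214, .ofNat 103⟩, ⟨.negSucc 259, .ofNat 9, .ofNat 154, .ofNat 379, .ofNat 820, .ofNat 415⟩, .ofNat 750, .ofNat 831, .ofNat 0, .ofNat 831, .ofNat 1633, .ofNat 0, .ofNat 128, .negSucc 714, .ofNat 199, .ofNat 0, .ofNat 531, .negSucc 152, .ofNat 0, .ofNat 0, .ofNat 2183, .ofNat 1954, .ofNat 0, .ofNat 319429025655918722638278087482900510263646311415808, .ofNat 0, .ofNat 0, .ofNat 0, .ofNat 1153166594319203248305249093969375206908669657612288, .ofNat 4272173207781300981465977046179743469558560718848, .ofNat 0, .ofNat 0, .ofNat 16662080328324657187205544760570728009513748022689792, .ofNat 0, .ofNat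 0, .ofNat 0, .ofNat 42706991242347846757823322120943076138885662587748352, .ofNat 2774314337091425388332282943147929820032265093120, .ofNat 0⟩)
    (by decide +kernel)
theorem L08318 : Good (Phi V5.P V5.D (-1) (-1)) ⟨4, 13, 3, 5, 4, 11, 3, 5, 5, 10⟩ :=
  out_sound (S := T5.ds_mm) T5.ok_mm (w := 51) (j := 3) (by decide +kernel)
theorem L08319 : Good (Phi V5.P V5.D (-1) (-1)) ⟨4, 13, 2, 2, 4, 10, 3, 5, 5, 11⟩ :=
  leafX_sound T5.ok_mm T5.Ymm.bz_eq (w := 244) (c := ⟨⟨.negSucc 1789, .negSucc 162, .negSucc 167, .negSucc 135, .negSucc 84, .negSucc 57⟩, ⟨.ofNat 935, .ofNat 189, .ofNat 336, .ofNat 89, .ofNat 67, .ofNat 43⟩, ⟨.ofNat 331, .negSucc 324, .negSucc 634, .negSucc 1068, .negSucc 1114, .negSucc 928⟩, ⟨.negSucc 2884, .ofNat 18, .negSucc 119, .negSucc 15, .ofNat 249, .ofNat 96⟩, ⟨.negSucc 183, .ofNat 68, .ofNat 166, .ofNat 311, .ofNat 644, .ofNat 308⟩, .ofNat 748, .ofNat 827, .ofNat 0, .ofNat 827, .ofNat 1626, .ofNat 0, .ofNat 128, .negSucc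 571, .ofNat 245, .ofNat 0, .ofNat 428, .negSucc 182, .ofNat 0, .ofNat 0, .ofNat 3055, .ofNat 2178, .ofNat 0, .ofNat 41632172454054232299313958165446212936614394462208, .ofNat 376365457805757965247038934884548385035362762752, .ofNat 0, .ofNat 0, .ofNat 207262392620407510828552479280928044350305676034048, .ofNat 2332720277242258337046301577967132450459312193536, .ofNat 0, .ofNat 0, .ofNat 2057922850633008782697309246934254680894173565943808, .ofNat 4544265819664132782604078311832530326260574846976, .ofNat 0, .ofNat 0, .ofNat 8501469834287631885165790552414082215562149487443968, .ofNat 41122022755945934053515053077183442254135725916160, .ofNat 0⟩)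
    (by decide +kernel)
theorem L08320 : Good (Phi V5.P V5.D (-1) (-1)) ⟨4, 13, 2, 2, 4, 11, 3, 5, 5, 11⟩ :=
  out_sound (S := T5.ds_mm) T5.ok_mm (w := 38) (j := 2) (by decide +kernel)
theorem L08321 : Good (Phi V5.P V5.D (-1) (-1)) ⟨3, 6, 2, 3, 2, 2, 2, 2, 4, 5⟩ :=
  out_sound (S := T5.ds_mm) T5.ok_mm (w := 43) (j := 3) (by decide +kernel)
theorem L08322 : Good (Phi V5.P V5.D (-1) (-1)) ⟨5, 28, 2, 2, 3, 4, 3, 4, 4, 5⟩ :=
  leafX_sound T5.ok_mm T5.Ymm.bz_eq (w := 229) (c := ⟨⟨.negSucc 2302, .negSucc 103, .negSucc 8, .ofNat 92, .ofNat 107, .ofNat 271⟩, ⟨.ofNat 1328, .ofNat 104, .ofNat 285, .negSucc 59, .negSucc 69, .negSucc 175⟩, ⟨.ofNat 1920, .negSucc 75, .negSucc 355, .negSucc 1034, .negSucc 540, .negSucc 554⟩, ⟨.negSucc 3628, .negSucc 42, .ofNat 31, .ofNat 131, .ofNat 322, .ofNat 487⟩, ⟨.negSucc 526, .ofNat 47, .ofNat 39, .ofNat 10, .ofNat 270, .ofNat 170⟩, .ofNat 387, .ofNat 292, .ofNat 0, .ofNat 292, .ofNat 645, .ofNat 0, .ofNat 128,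 .negSucc 393, .negSucc 98, .ofNat 0, .ofNat 375, .ofNat 36, .ofNat 0, .ofNat 0, .ofNat 1568, .ofNat 1921, .ofNat 0, .ofNat 0, .ofNat 0, .ofNat 0, .ofNat 0, .ofNat 2128118828472774443789351450775552292040998912, .ofNat 230498158145899226586842559564036301651968, .ofNat 6029311339686296751423527210630341985078352019456, .ofNat 0, .ofNat 0, .ofNat 0, .ofNat 0, .ofNat 0, .ofNat 263085092570305880114726892597712849444676829184, .ofNat 1484813368980224361127655992179352391385088, .ofNat 561246778321047468496045064737106728622466011234304⟩)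
    (by decide +kernel)
theorem L08323 : Good (Phi V5.P V5.D (-1) (-1)) ⟨5, 28, 2, 2, 3, 4, 3, 5, 5, 10⟩ :=
  leafX_sound T5.ok_mm T5.Ymm.bz_eq (w := 233) (c := ⟨⟨.negSucc 2075, .negSucc 36, .negSucc 103, .ofNat 6, .ofNat 108, .ofNat 99⟩, ⟨.ofNat 1200, .ofNat 71, .ofNat 300, .negSucc 2, .negSucc 66, .negSucc 61⟩, ⟨.ofNat 1455, .negSucc 87, .negSucc 231, .negSucc 1141, .negSucc 642, .negSucc 401⟩, ⟨.negSucc 3247, .ofNat 21, .negSucc 33, .ofNat 110, .ofNat 439, .ofNat 218⟩, ⟨.negSucc 452, .negSucc 55, .ofNat 203, .ofNat 168, .ofNat 453, .ofNat 132⟩, .ofNat 387, .ofNat 293, .ofNat 0, .ofNat 293, .ofNat 645, .ofNat 0, .ofNat 128, .negSucc 393, .negSucc 65, .ofNat 0, .ofNat 367, .ofNat 4, .ofNat 0, .ofNat 0, .ofNat 1353, .ofNat 1425, .ofNat 0, .ofNat 0, .ofNat 0, .ofNat 0, .ofNat 0, .ofNat 58215207732320809885566527106399433140301987840, .ofNat 8462021135685249139542537418819995850244096, .ofNat 0, .ofNat 0, .ofNat 588257225346990976285695726806282695895293100032,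 .ofNat 19313979007322441248254585738572100205019136, .ofNat 7907944608701348445065825116717766737253537845084160, .ofNat 0, .ofNat 1930987439983482821552525287304868810079248318464, .ofNat 78813688758199069779471918489433315842457600, .ofNat 11047552901076330359070767588260228520725461738717184⟩)
    (by decide +kernel)
theorem L08324 : Good (Phi V5.P V5.D (-1) (-1)) ⟨5, 28, 2, 2, 4, 8, 3, 5, 5, 11⟩ :=
  leafX_sound T5.ok_mm T5.Ymm.bz_eq (w := 248) (c := ⟨⟨.negSucc 2267, .negSucc 419, .ofNat 705, .negSucc 24, .ofNat 74, .ofNat 69⟩, ⟨.ofNat 1300, .ofNat 278, .negSucc 150, .ofNat 16, .negSucc 44, .negSucc 44⟩, ⟨.ofNat 647, .negSucc 735, .ofNat 1181, .negSucc 695, .negSucc 766, .negSucc 422⟩, ⟨.negSucc 3141, .negSucc 136, .ofNat 308, .ofNat 41, .ofNat 392, .ofNat 177⟩, ⟨.negSucc 136, .ofNat 193, .negSucc 316, .ofNat 120, .ofNat 442, .ofNat 125⟩, .ofNat 888, .ofNat 1004, .ofNat 0, .ofNat 1004, .ofNat 1765, .ofNat 0, .ofNat 128, .negSucc 998,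 .ofNat 34, .ofNat 0, .ofNat 756, .negSucc 64, .ofNat 0, .ofNat 0, .ofNat 4730, .ofNat 1315, .ofNat 0, .ofNat 0, .ofNat 39530173662792637633052732063641932759721574400, .ofNat 0, .ofNat 0, .ofNat 0, .ofNat 1171547111004373560472018353261883026856191459328, .ofNat 8312809496099777761784448589794009814908770574483324928, .ofNat 0, .ofNat 0, .ofNat 0, .ofNat 0, .ofNat 0, .ofNat 0, .ofNat 0, .ofNat 0⟩)
    (by decide +kernel)
theorem L08325 : Good (Phi V5.P V5.D (-1) (-1)) ⟨5, 28, 2, 2, 5, 18, 3, 5, 5, 11⟩ :=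
  leafX_sound T5.ok_mm T5.Ymm.bz_eq (w := 262) (c := ⟨⟨.negSucc 1522, .ofNat 334, .negSucc 994, .negSucc 66, .negSucc 52, .negSucc 2⟩, ⟨.ofNat 863, .negSucc 155, .ofNat 835, .ofNat 44, .ofNat 39, .ofNat 4⟩, ⟨.ofNat 1623, .ofNat 730, .negSucc 2291, .negSucc 538, .negSucc 1094, .negSucc 714⟩, ⟨.negSucc 2747, .ofNat 199, .negSucc 459, .negSucc 8, .ofNat 320, .ofNat 142⟩, ⟨.negSucc 492, .negSucc 190, .ofNat 558, .ofNat 132, .ofNat 608, .ofNat 226⟩, .ofNat 820, .ofNat 889, .ofNat 0, .ofNat 889, .ofNat 1567, .ofNat 0, .ofNat 128, .negSucc 637, .ofNat 209, .ofNat 0, .ofNat 500, .negSucc 177, .ofNat 0, .ofNat 0, .ofNat 3341, .ofNat 1700, .ofNat 0, .ofNat 0, .ofNat 0, .ofNat 0, .ofNat 0, .ofNat 1530394812041076899942955849639818364124790522208321536, .ofNat 21546813418460688041134887321216860886899406233665536, .ofNat 0, .ofNat 0, .ofNat 15458042503769535218523628135920443574932368794283147264, .ofNat 55714974776436375244630583651573030992482558130782208,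 .ofNat 6156911823950071735330796936597425560839649246958607010889728, .ofNat 0, .ofNat 314312253969548356195283681075330441840019915567867625472, .ofNat 63161525345853569371774418401087820806405835240505344, .ofNat 19994219604550084023102326683092667061983318911822241525137408⟩)
    (by decide +kernel)
theorem L08326 : Good (Phi V5.P V5.D (-1) (-1)) ⟨5, 28, 2, 2, 5, 19, 3, 5, 5, 11⟩ :=
  leafX_sound T5.ok_mm T5.Ymm.bz_eq (w := 261) (c := ⟨⟨.negSucc 1956, .negSucc 164, .ofNat 53, .negSucc 86, .negSucc 134, .negSucc 64⟩, ⟨.ofNat 1130, .ofNat 157, .ofNat 189, .ofNat 57, .ofNat 93, .ofNat 44⟩, ⟨.ofNat 369, .negSucc 358, .negSucc 62, .negSucc 589, .negSucc 1310, .negSucc 985⟩, ⟨.negSucc 2920, .negSucc 37, .ofNat 24, .negSucc 17, .ofNat 270, .ofNat 109⟩, ⟨.negSucc 232, .ofNat 82, .ofNat 29, .ofNat 176, .ofNat 717, .ofNat 320⟩, .ofNat 381, .ofNat 281, .ofNat 0, .ofNat 281, .ofNat 617, .ofNat 0, .ofNat 128, .negSucc 304, .ofNat 192, .ofNat 0, .ofNat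 298, .negSucc 182, .ofNat 0, .ofNat 0, .ofNat 1704, .ofNat 969, .ofNat 0, .ofNat 790976061739185616102331384621327177735156983245307904, .ofNat 0, .ofNat 0, .ofNat 0, .ofNat 2528414672351839887584501003870363278860395192350932992, .ofNat 1355661202072861284699160930297367238103688789622784, .ofNat 0, .ofNat 0, .ofNat 19309678222110637294906998885044774533454963438356791296, .ofNat 2398340764837086923660907604356704179938914407022592, .ofNat 0, .ofNat 0, .ofNat 139944718968016770975040683270937838138559615105853554688, .ofNat 7016239583488456441820984635737869270658985330999296, .ofNat 0⟩)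
    (by decide +kernel)
theorem L08327 : Good (Phi V5.P V5.D (-1) (-1)) ⟨5, 29, 2, 2, 3, 4, 2, 2, 4, 5⟩ :=
  out_sound (S := T5.ds_mm) T5.ok_mm (w := 17) (j := 4) (by decide +kernel)
theorem L08328 : Good (Phi V5.P V5.D (-1) (-1)) ⟨5, 28, 3, 6, 3, 4, 2, 2, 4, 5⟩ :=
  out_sound (S := T5.ds_mm) T5.ok_mm (w := 57) (j := 3) (by decide +kernel)
theorem L08329 : Good (Phi V5.P V5.D (-1) (-1)) ⟨5, 29, 3, 6, 3, 4, 2, 2, 4, 5⟩ :=
  out_sound (S := T5.ds_mm) T5.ok_mm (w := 17) (j := 4) (by decide +kernel)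
theorem L08330 : Good (Phi V5.P V5.D (-1) (-1)) ⟨4, 14, 3, 7, 3, 4, 2, 2, 4, 5⟩ :=
  out_sound (S := T5.ds_mm) T5.ok_mm (w := 51) (j := 3) (by decide +kernel)
theorem L08331 : Good (Phi V5.P V5.D (-1) (-1)) ⟨4, 15, 1, 1, 3, 4, 2, 2, 4, 5⟩ :=
  out_sound (S := T5.ds_mm) T5.ok_mm (w := 15) (j := 4) (by decide +kernel)
theorem L08332 : Good (Phi V5.P V5.D (-1) (-1)) ⟨5, 28, 2, 2, 4, 10, 3, 4, 5, 10⟩ :=
  leafX_sound T5.ok_mm T5.Ymm.bz_eq (w := 248) (c := ⟨⟨.negSucc 2101, .negSucc 36, .negSucc 46, .ofNat 15, .negSucc 0, .ofNat 57⟩, ⟨.ofNat 1172, .ofNat 35, .ofNat 362, .negSucc 7, .ofNat 5, .negSucc 34⟩, ⟨.ofNat 1039, .negSucc 30, .negSucc 220, .negSucc 601, .negSucc 752, .negSucc 555⟩, ⟨.negSucc 3411, .ofNat 35, .negSucc 101, .ofNat 83, .ofNat 289, .ofNat 225⟩, ⟨.negSucc 685, .negSucc 69, .ofNat 58, .ofNat 113, .ofNat 461, .ofNat 233⟩, .ofNat 381, .ofNat 281, .ofNat 0, .ofNat 281, .ofNat 617, .ofNat 0, .ofNat 128, .negSucc 381, .negSucc 8, .ofNat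 0, .ofNat 369, .negSucc 32, .ofNat 0, .ofNat 0, .ofNat 1506, .ofNat 2487, .ofNat 0, .ofNat 0, .ofNat 0, .ofNat 0, .ofNat 0, .ofNat 0, .ofNat 203000993748685770999423445209868172695454089216, .ofNat 0, .ofNat 0, .ofNat 1408359775661978596279516590734845238989897848586240, .ofNat 323465764020263064633678998926072695029772582912, .ofNat 238311816299894448369961511074230567631064235276907839488, .ofNat 0, .ofNat 11334006759328947711718549844422261747189239347412992, .ofNat 2118071901679247487892705592267800703086874329088, .ofNat 338473337259404918612413771696926618676430265196686082048⟩)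
    (by decide +kernel)
theorem L08333 : Good (Phi V5.P V5.D (-1) (-1)) ⟨5, 28, 2, 2, 4, 11, 4, 8, 5, 10⟩ :=
  leafX_sound T5.ok_mm T5.Ymm.bz_eq (w := 253) (c := ⟨⟨.negSucc 1976, .negSucc 147, .negSucc 19, .negSucc 68, .negSucc 54, .negSucc 46⟩, ⟨.ofNat 1120, .ofNat 142, .ofNat 276, .ofNat 46, .ofNat 38, .ofNat 32⟩, ⟨.ofNat 707, .negSucc 269, .negSucc 226, .negSucc 855, .negSucc 455, .negSucc 869⟩, ⟨.negSucc 3332, .negSucc 48, .ofNat 10, .ofNat 117, .ofNat 116, .ofNat 182⟩, ⟨.negSucc 769, .ofNat 132, .ofNat 30, .ofNat 326, .ofNat 305, .ofNat 380⟩, .ofNat 820, .ofNat 889, .ofNat 0, .ofNat 889, .ofNat 1567, .ofNat 0, .ofNat 128, .negSucc 849, .ofNat 281, .ofNat 0, .ofNat 674, .negSucc 235, .ofNat 0, .ofNat 0, .ofNat 3905, .ofNat 4035, .ofNat 0, .ofNat 0, .ofNat 0, .ofNat 0, .ofNat 0, .ofNat 995401699546657639870352302045974857257891125002240, .ofNat 9500576771743134624252063773837656409049485279232, .ofNat 0, .ofNat 0, .ofNat 10835526985427094156280001282130711775376565369569280,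 .ofNat 54798530725511230853105444344670697078118959546368, .ofNat 13626600503932221207133870392761267784228664999624296103936, .ofNat 0, .ofNat 333391797543370659008989878119010726842964734954700800, .ofNat 142748597307864228912443203035179694864498266472448, .ofNat 44825467926924040933788498110002717447896751774398865735680⟩)
    (by decide +kernel)
theorem L08334 : Good (Phi V5.P V5.D (-1) (-1)) ⟨5, 28, 2, 2, 4, 11, 4, 9, 6, 20⟩ :=
  leafX_sound T5.ok_mm T5.Ymm.bz_eq (w := 256) (c := ⟨⟨.negSucc 1955, .negSucc 205, .ofNat 15, .negSucc 152, .negSucc 114, .negSucc 74⟩, ⟨.ofNat 1099, .ofNat 168, .ofNat 274, .ofNat 102, .ofNat 77, .ofNat 50⟩, ⟨.ofNat 345, .negSucc 477, .ofNat 34, .negSucc 1036, .negSucc 624, .negSucc 569⟩, ⟨.negSucc 3169, .negSucc 69, .ofNat 19, .ofNat 75, .ofNat 99, .ofNat 66⟩, ⟨.negSucc 612, .ofNat 144, .ofNat 80, .ofNat 457, .ofNat 411, .ofNat 272⟩, .ofNat 387, .ofNat 293, .ofNat 0, .ofNat 293, .ofNat 645, .ofNat 0, .ofNat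 128, .negSucc 426, .ofNat 203, .ofNat 0, .ofNat 407, .negSucc 207, .ofNat 0, .ofNat 0, .ofNat 1998, .ofNat 1743, .ofNat 0, .ofNat 0, .ofNat 0, .ofNat 0, .ofNat 0, .ofNat 0, .ofNat 44060922282033302855009604449449494361147558592512, .ofNat 0, .ofNat 0, .ofNat 62475269074797141035011173419971119031884891182596096, .ofNat 391306566197475554714213971755914416470658983657472, .ofNat 127681189557286897872418263537023650463840965961695157551104, .ofNat 0, .ofNat 787129303099364626384852613417814540229493611359633408, .ofNat 1375716284672202537260077544076442018945994059677696, .ofNat 398920038455185205695198117544309879373454070405500214706176⟩)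
    (by decide +kernel)
theorem L08335 : Good (Phi V5.P V5.D (-1) (-1)) ⟨5, 28, 2, 2, 5, 22, 4, 9, 6, 21⟩ :=
  leafX_sound T5.ok_mm T5.Ymm.bz_eq (w := 272) (c := ⟨⟨.negSucc 1718, .ofNat 65, .negSucc 628, .negSucc 113, .negSucc 146, .negSucc 91⟩, ⟨.ofNat 954, .negSucc 0, .ofNat 675, .ofNat 76, .ofNat 98, .ofNat 61⟩, ⟨.ofNat 521, .ofNat 67, .negSucc 1350, .negSucc 638, .negSucc 752, .negSucc 674⟩, ⟨.negSucc 2956, .ofNat 64, .negSucc 279, .ofNat 8, .ofNat 82, .ofNat 40⟩, ⟨.negSucc 519, .ofNat 26, .ofNat 378, .ofNat 255, .ofNat 441, .ofNat 259⟩, .ofNat 885, .ofNat 1000, .ofNat 0, .ofNat 1000, .ofNat 1764, .ofNat 0, .ofNat 128, .negSucc 881, .ofNat 486, .ofNat 0, .ofNat 671, .negSucc 368, .ofNat 0, .ofNat 0, .ofNat 4171, .ofNat 4679, .ofNat 0, .ofNat 0, .ofNat 0, .ofNat 0, .ofNat 0, .ofNat 0, .ofNat 12004899949412189294813573151298075004961464350832328704, .ofNat 0, .ofNat 0, .ofNat 3567858600893391559292947767555062173701425694805139128320, .ofNat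 44788609524820613122003045710617509571002190013602463744, .ofNat 0, .ofNat 0, .ofNat 27841594169206607317105516649284678808480466008905684615168, .ofNat 125990191890216925910439811206413487048336349299646398464, .ofNat 0⟩)
    (by decide +kernel)
theorem L08336 : Good (Phi V5.P V5.D (-1) (-1)) ⟨5, 28, 2, 2, 5, 23, 4, 9, 6, 21⟩ :=
  leafX_sound T5.ok_mm T5.Ymm.bz_eq (w := 272) (c := ⟨⟨.negSucc 1850, .negSucc 81, .negSucc 417, .negSucc 162, .negSucc 218, .negSucc 151⟩, ⟨.ofNat 1048, .ofNat 107, .ofNat 517, .ofNat 109, .ofNat 146, .ofNat 102⟩, ⟨.negSucc 105, .negSucc 258, .negSucc 944, .negSucc 779, .negSucc 924, .negSucc 838⟩, ⟨.negSucc 2974, .negSucc 5, .negSucc 156, .ofNat 8, .ofNat 46, .ofNat 17⟩, ⟨.negSucc 323, .ofNat 146, .ofNat 282, .ofNat 359, .ofNat 547, .ofNat 351⟩, .ofNat 882, .ofNat 996, .ofNat 0, .ofNat 996, .ofNat 1758, .ofNat 0, .ofNat 128, .negSucc 724, .ofNat 556, .ofNat 0, .ofNat 556, .negSucc 416, .ofNat 0, .ofNat 0, .ofNat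 3934, .ofNat 4372, .ofNat 0, .ofNat 204976426494477451691298417016295339964414024327190544384, .ofNat 0, .ofNat 0, .ofNat 0, .ofNat 369840774585955303588220211269431269185235981877865611264, .ofNat 10127210078495550456604084129610924618648565895204438016, .ofNat 0, .ofNat 0, .ofNat 6782765853899374475140305036669616256325366107673123094528, .ofNat 18835679734187662450676681866953572141199436694576693248, .ofNat 0, .ofNat 0, .ofNat 40607733079237796898312547228056161991222372722312977842176, .ofNat 0, .ofNat 0⟩)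
    (by decide +kernel)
theorem L08337 : Good (Phi V5.P V5.D (-1) (-1)) ⟨5, 29, 2, 2, 3, 5, 3, 4, 5, 10⟩ :=
  out_sound (S := T5.ds_mm) T5.ok_mm (w := 17) (j := 4) (by decide +kernel)
theorem L08338 : Good (Phi V5.P V5.D (-1) (-1)) ⟨5, 28, 2, 2, 4, 10, 4, 8, 5, 11⟩ :=
  leafX_sound T5.ok_mm T5.Ymm.bz_eq (w := 253) (c := ⟨⟨.negSucc 2231, .negSucc 443, .ofNat 667, .negSucc 87, .negSucc 58, .negSucc 6⟩, ⟨.ofNat 1278, .ofNat 319, .negSucc 147, .ofNat 59, .ofNat 41, .ofNat 6⟩, ⟨.ofNat 228, .negSucc 979, .ofNat 1334, .negSucc 993, .negSucc 578, .negSucc 811⟩, ⟨.negSucc 3294, .negSucc 166, .ofNat 301, .ofNat 27, .ofNat 98, .ofNat 151⟩, ⟨.negSucc 428, .ofNat 254, .negSucc 316, .ofNat 233, .ofNat 277, .ofNat 252⟩, .ofNat 873, .ofNat 985, .ofNat 0, .ofNat 985, .ofNat 1748, .ofNat 0, .ofNat 128, .negSucc 1049, .ofNat 310, .ofNat 0, .ofNat 801, .negSucc 240, .ofNat 0, .ofNat 0, .ofNat 5035, .ofNat 2486, .ofNat 0, .ofNat 0, .ofNat 1538810001780021961312650040776150364262510886912,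 .ofNat 57242375349368611957817278807705588592326486845338681344, .ofNat 0, .ofNat 1289145199321419117531385944794769453997844468858880, .ofNat 21474316450748519412604541000605814766187210342400, .ofNat 70491327933192691585806426172178972090258027949454262272, .ofNat 0, .ofNat 0, .ofNat 0, .ofNat 0, .ofNat 0, .ofNat 0, .ofNat 0, .ofNat 0⟩)
    (by decide +kernel)
theorem L08339 : Good (Phi V5.P V5.D (-1) (-1)) ⟨5, 28, 2, 2, 4, 10, 4, 9, 6, 22⟩ :=
  leafX_sound T5.ok_mm T5.Ymm.bz_eq (w := 258) (c := ⟨⟨.negSucc 1802, .negSucc 77, .negSucc 249, .negSucc 186, .negSucc 86, .negSucc 44⟩, ⟨.ofNat 1013, .ofNat 94, .ofNat 418, .ofNat 125, .ofNat 59, .ofNat 30⟩, ⟨.ofNat 811, .negSucc 238, .negSucc 664, .negSucc 1262, .negSucc 669, .negSucc 541⟩, ⟨.negSucc 2975, .negSucc 4, .negSucc 115, .negSucc 15, .ofNat 101, .ofNat 57⟩, ⟨.negSucc 515, .ofNat 78, .ofNat 174, .ofNat 378, .ofNat 342, .ofNat 187⟩, .ofNat 877, .ofNat 989, .ofNat 0, .ofNat 989, .ofNat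 1750, .ofNat 0, .ofNat 128, .negSucc 1028, .ofNat 450, .ofNat 0, .ofNat 782, .negSucc 345, .ofNat 0, .ofNat 0, .ofNat 5474, .ofNat 2974, .ofNat 0, .ofNat 0, .ofNat 0, .ofNat 0, .ofNat 0, .ofNat 0, .ofNat 507819546618515291471411522998475827717206764945408, .ofNat 0, .ofNat 0, .ofNat 374883229881088074240262489571172569281701083590164480, .ofNat 1088210441754975808861814624775443973732844785631232, .ofNat 789042003124069425733308647880375276519818950405899767775232, .ofNat 0, .ofNat 5722947929703701092777777808648933196716392287668535296, .ofNat 6889145556099305512307401915983454439448833224081408, .ofNat 2096000088759289035025539364178330851264773113877244846014464⟩)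
    (by decide +kernel)
theorem L08340 : Good (Phi V5.P V5.D (-1) (-1)) ⟨5, 28, 2, 2, 4, 10, 4, 9, 6, 23⟩ :=
  leafX_sound T5.ok_mm T5.Ymm.bz_eq (w := 257) (c := ⟨⟨.negSucc 1911, .negSucc 221, .ofNat 9, .negSucc 254, .negSucc 111, .negSucc 68⟩, ⟨.ofNat 1093, .ofNat 196, .ofNat 228, .ofNat 169, .ofNat 75, .ofNat 46⟩, ⟨.ofNat 346, .negSucc 572, .negSucc 291, .negSucc 1578, .negSucc 807, .negSucc 668⟩, ⟨.negSucc 2908, .negSucc 39, .negSucc 69, .negSucc 65, .ofNat 80, .ofNat 32⟩, ⟨.negSucc 340, .ofNat 144, .ofNat 83, .ofNat 455, .ofNat 374, .ofNat 201⟩, .ofNat 381, .ofNat 281, .ofNat 0, .ofNat 281, .ofNat 617, .ofNat 0, .ofNat 128, .negSucc 457, .ofNat 347, .ofNat 0, .ofNat 458, .negSucc 308, .ofNat 0, .ofNat 0, .ofNat 2709, .ofNat 2138, .ofNat 0, .ofNat 16210156088588423369393807568219595672986301233102848, .ofNat 5224065299440245172983884927082516756787472891904, .ofNat 0, .ofNat 0, .ofNat 34140605261761578674335386914914476287943143919190016,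 .ofNat 79002806304800171333098351319835585272173199097856, .ofNat 0, .ofNat 0, .ofNat 449242317374271730333888772852307823585595423765561344, .ofNat 166541584370741497493899390105512742867214345961472, .ofNat 0, .ofNat 0, .ofNat 3026298809750506323881099584519965491776581396324155392, .ofNat 563947283204783752357294664574372030542235337490432, .ofNat 0⟩)
    (by decide +kernel)
theorem L08341 : Good (Phi V5.P V5.D (-1) (-1)) ⟨5, 29, 2, 2, 4, 10, 3, 4, 5, 11⟩ :=
  out_sound (S := T5.ds_mm) T5.ok_mm (w := 17) (j := 4) (by decide +kernel)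
theorem L08342 : Good (Phi V5.P V5.D (-1) (-1)) ⟨5, 28, 2, 2, 4, 11, 4, 8, 6, 22⟩ :=
  leafX_sound T5.ok_mm T5.Ymm.bz_eq (w := 258) (c := ⟨⟨.negSucc 2023, .negSucc 258, .ofNat 168, .negSucc 179, .negSucc 132, .negSucc 70⟩, ⟨.ofNat 1153, .ofNat 213, .ofNat 151, .ofNat 120, .ofNat 89, .ofNat 47⟩, ⟨.ofNat 75, .negSucc 501, .negSucc 23, .negSucc 1276, .negSucc 765, .negSucc 641⟩, ⟨.negSucc 3113, .negSucc 71, .ofNat 31, .ofNat 34, .ofNat 67, .ofNat 42⟩, ⟨.negSucc 432, .ofNat 181, .negSucc 69, .ofNat 444, .ofNat 388, .ofNat 219⟩, .ofNat 820, .ofNat 889, .ofNat 0, .ofNat 889, .ofNat 1567, .ofNat 0, .ofNat 128, .negSucc 734, .ofNat 513, .ofNat 0, .ofNat 590, .negSucc 389, .ofNat 0, .ofNat 0, .ofNat 3738, .ofNat 3807, .ofNat 0, .ofNat 22350782217006513888923210326281041632885639223443456, .ofNat 13915439327192434462447889476340047662433412579328, .ofNat 0, .ofNat 0, .ofNat 63403835277970853959116930375297434310305933766426624, .ofNat 218404741102165663076596762884917533145862374424576,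 .ofNat 0, .ofNat 0, .ofNat 854958031673114116386572909718041181077874911026872320, .ofNat 1163971020367797744254522460357704629655169346306048, .ofNat 0, .ofNat 0, .ofNat 5785470541429454464040118077886762780676517817244188672, .ofNat 2083782048545050048221756244616652601044999753170944, .ofNat 0⟩)
    (by decide +kernel)
theorem L08343 : Good (Phi V5.P V5.D (-1) (-1)) ⟨5, 28, 2, 2, 4, 11, 4, 8, 6, 23⟩ :=
  leafX_sound T5.ok_mm T5.Ymm.bz_eq (w := 258) (c := ⟨⟨.negSucc 1808, .negSucc 13, .negSucc 448, .negSucc 268, .negSucc 177, .negSucc 107⟩, ⟨.ofNat 1015, .ofNat 53, .ofNat 551, .ofNat 179, .ofNat 119, .ofNat 72⟩, ⟨.ofNat 47, .negSucc 164, .negSucc 1113, .negSucc 1647, .negSucc 964, .negSucc 816⟩, ⟨.negSucc 2955, .ofNat 18, .negSucc 196, .negSucc 32, .ofNat 34, .ofNat 14⟩, ⟨.negSucc 402, .ofNat 58, .ofNat 303, .ofNat 521, .ofNat 427, .ofNat 251⟩, .ofNat 820, .ofNat 889, .ofNat 0, .ofNat 889, .ofNat 1567, .ofNat 0, .ofNat 128, .negSucc 651,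 .ofNat 618, .ofNat 0, .ofNat 528, .negSucc 457, .ofNat 0, .ofNat 0, .ofNat 3519, .ofNat 4452, .ofNat 0, .ofNat 54662252366338224187743284210356671533178775448584192, .ofNat 24132566048578704272822134706154540640613966020608, .ofNat 0, .ofNat 0, .ofNat 73019232182985139430455436679990181197542050706227200, .ofNat 338518943002354798182043928365255880644448416169984, .ofNat 0, .ofNat 0, .ofNat 1281536543795576481530062499759800467826162239052709888, .ofNat 1355031269173326706718540103496931565938143670566912, .ofNat 0, .ofNat 0, .ofNat 8548826341066210051921707652195995274120530033576509440, .ofNat 1331495447016591723304333972798088106081566540693504, .ofNat 277815364186592605261930684656438484058825668005127461535744⟩)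
    (by decide +kernel)
theorem L08344 : Good (Phi V5.P V5.D (-1) (-1)) ⟨5, 29, 2, 2, 4, 11, 4, 8, 5, 11⟩ :=
  out_sound (S := T5.ds_mm) T5.ok_mm (w := 17) (j := 4) (by decide +kernel)
theorem L08345 : Good (Phi V5.P V5.D (-1) (-1)) ⟨4, 14, 2, 2, 5, 22, 4, 9, 6, 22⟩ :=
  leafX_sound T5.ok_mm T5.Ymm.bz_eq (w := 268) (c := ⟨⟨.negSucc 1885, .negSucc 232, .negSucc 310, .negSucc 168, .negSucc 209, .negSucc 138⟩, ⟨.ofNat 1070, .ofNat 251, .ofNat 451, .ofNat 113, .ofNat 140, .ofNat 92⟩, ⟨.negSucc 113, .negSucc 633, .negSucc 894, .negSucc 854, .negSucc 1004, .negSucc 864⟩, ⟨.negSucc 2946, .negSucc 50, .negSucc 125, .negSucc 28, .ofNat 35, .ofNat 4⟩, ⟨.negSucc 283, .ofNat 214, .ofNat 285, .ofNat 322, .ofNat 508, .ofNat 306⟩, .ofNat 879, .ofNat 993, .ofNat 0, .ofNat 993, .ofNat 1756, .ofNat 0, .ofNat 128, .negSucc 529, .ofNat 360, .ofNat 0, .ofNat 406, .negSucc 265, .ofNat 0, .ofNat 0, .ofNat 2770, .ofNat 3179, .ofNat 0, .ofNat 10635451212627372072222687518024912817020377710301544448,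 .ofNat 0, .ofNat 0, .ofNat 0, .ofNat 0, .ofNat 12552649122875535585810964831599072609075145513910665216, .ofNat 0, .ofNat 0, .ofNat 295202224557717975268538489962966085783487196396211142656, .ofNat 95658355714363741062004161057706928323988357929433563136, .ofNat 0, .ofNat 0, .ofNat 1372825711543834799698707641874472058238327963207874904064, .ofNat 0, .ofNat 0⟩)
    (by decide +kernel)
theorem L08346 : Good (Phi V5.P V5.D (-1) (-1)) ⟨4, 14, 2, 2, 5, 23, 4, 9, 6, 22⟩ :=
  out_sound (S := T5.ds_mm) T5.ok_mm (w := 44) (j := 2) (by decide +kernel)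
theorem L08347 : Good (Phi V5.P V5.D (-1) (-1)) ⟨4, 14, 2, 2, 4, 11, 4, 9, 6, 23⟩ :=
  out_sound (S := T5.ds_mm) T5.ok_mm (w := 42) (j := 2) (by decide +kernel)
theorem L08348 : Good (Phi V5.P V5.D (-1) (-1)) ⟨5, 28, 2, 2, 4, 10, 4, 10, 5, 10⟩ :=
  leafX_sound T5.ok_mm T5.Ymm.bz_eq (w := 251) (c := ⟨⟨.negSucc 2306, .negSucc 578, .ofNat 893, .negSucc 155, .negSucc 57, .negSucc 53⟩, ⟨.ofNat 1335, .ofNat 412, .negSucc 310, .ofNat 103, .ofNat 40, .ofNat 37⟩, ⟨.negSucc 120, .negSucc 1202, .ofNat 1766, .negSucc 987, .negSucc 527, .negSucc 873⟩, ⟨.negSucc 3236, .negSucc 225, .ofNat 402, .ofNat 7, .ofNat 150, .ofNat 149⟩, ⟨.negSucc 167, .ofNat 443, .negSucc 672, .ofNat 352, .ofNat 361, .ofNat 361⟩, .ofNat 388, .ofNat 293, .ofNat 0, .ofNat 293, .ofNat 645, .ofNat 0, .ofNat 128, .negSucc 385, .ofNat 134, .ofNat 0, .ofNat 361, .negSucc 152, .ofNat 0, .ofNat 0, .ofNat 1929, .ofNat 787, .ofNat 0, .ofNat 38404531212779060770761124454828811326613538996224,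 .ofNat 521718538636051175408772052477974491129291210752, .ofNat 49956105576233903666058046281999755014615088759773855744, .ofNat 0, .ofNat 402738417387742638153012163647564347141285453234176, .ofNat 1934204279126929009411445535780934872243327991808, .ofNat 0, .ofNat 0, .ofNat 6047099262681735405065836053882589173190788026204160, .ofNat 12188446369714659035695696359464706770030408237056, .ofNat 1822390774806455769046601159344688714081804051382567698432, .ofNat 0, .ofNat 101204760767389302614692528261228480735378077969809408, .ofNat 11968044529804695776145608439730192770287546662912, .ofNat 4341555952144245347844056680738717969259395477269632778240⟩)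
    (by decide +kernel)
theorem L08349 : Good (Phi V5.P V5.D (-1) (-1)) ⟨5, 28, 2, 2, 4, 10, 4, 11, 5, 10⟩ :=
  leafX_sound T5.ok_mm T5.Ymm.bz_eq (w := 252) (c := ⟨⟨.negSucc 1819, .negSucc 25, .negSucc 348, .negSucc 212, .negSucc 79, .negSucc 96⟩, ⟨.ofNat 1038, .ofNat 67, .ofNat 457, .ofNat 142, .ofNat 55, .ofNat 65⟩, ⟨.ofNat 447, .negSucc 91, .negSucc 754, .negSucc 1068, .negSucc 612, .negSucc 960⟩, ⟨.negSucc 2841, .ofNat 19, .negSucc 131, .negSucc 22, .ofNat 164, .ofNat 124⟩, ⟨.negSucc 198, .ofNat 58, .ofNat 190, .ofNat 423, .ofNat 424, .ofNat 402⟩, .ofNat 888, .ofNat 1004, .ofNat 0, .ofNat 1004, .ofNat 1766, .ofNat 0, .ofNat 128, .negSucc 921, .ofNat 281, .ofNat 0, .ofNat 690, .negSucc 224, .ofNat 0, .ofNat 0, .ofNat 3005, .ofNat 2377, .ofNat 0, .ofNat 2713162831454017704645092194829057511748459328176128, .ofNat 0, .ofNat 0, .ofNat 0, .ofNat 6079630969548765079713222266567392132360974454751232, .ofNat 11011714939002220099437957118279970597077614854144,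 .ofNat 0, .ofNat 0, .ofNat 163027296883844563195479490393574950555462466858385408, .ofNat 46945352386421443178740359515731775337289916350464, .ofNat 0, .ofNat 0, .ofNat 557531149207872501218668300125707276688212224565575680, .ofNat 36594079162957393915743700749090001046685555359744, .ofNat 0⟩)
    (by decide +kernel)
theorem L08350 : Good (Phi V5.P V5.D (-1) (-1)) ⟨5, 28, 2, 2, 5, 22, 4, 10, 5, 10⟩ :=
  leafX_sound T5.ok_mm T5.Ymm.bz_eq (w := 266) (c := ⟨⟨.negSucc 1785, .negSucc 12, .negSucc 506, .negSucc 140, .negSucc 156, .negSucc 222⟩, ⟨.ofNat 1007, .ofNat 59, .ofNat 574, .ofNat 94, .ofNat 105, .ofNat 149⟩, ⟨.ofNat 368, .negSucc 2, .negSucc 1210, .negSucc 642, .negSucc 725, .negSucc 1344⟩, ⟨.negSucc 2922, .ofNat 44, .negSucc 244, .negSucc 0, .ofNat 106, .ofNat 80⟩, ⟨.negSucc 398, .ofNat 61, .ofNat 368, .ofNat 301, .ofNat 503, .ofNat 602⟩, .ofNat 820, .ofNat 889, .ofNat 0, .ofNat 889, .ofNat 1567, .ofNat 0, .ofNat 128, .negSucc 755, .ofNat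 533, .ofNat 0, .ofNat 592, .negSucc 408, .ofNat 0, .ofNat 0, .ofNat 3086, .ofNat 2135, .ofNat 0, .ofNat 12584525296282513697450205512194797538004545719796498432, .ofNat 3539671626717875963451899149585369063753205250260992, .ofNat 0, .ofNat 0, .ofNat 18410198717078093634158789369340088082071307488182927360, .ofNat 111976466749422275152129373506278634503050325953347584, .ofNat 0, .ofNat 0, .ofNat 333230937968302021051790084013188291893319301896219918336, .ofNat 460751415951554566284499310189195948435022582997057536, .ofNat 0, .ofNat 0, .ofNat 2511304898697359378971466768265744511438778941711950282752, .ofNat 380831953043950438704042350242785337647429327767207936, .ofNat 0⟩)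
    (by decide +kernel)
theorem L08351 : Good (Phi V5.P V5.D (-1) (-1)) ⟨5, 28, 2, 2, 5, 23, 4, 10, 5, 10⟩ :=
  leafX_sound T5.ok_mm T5.Ymm.bz_eq (w := 267) (c := ⟨⟨.negSucc 1933, .negSucc 137, .negSucc 347, .negSucc 178, .negSucc 267, .negSucc 345⟩, ⟨.ofNat 1109, .ofNat 148, .ofNat 458, .ofNat 120, .ofNat 181, .ofNat 232⟩, ⟨.negSucc 328, .negSucc 321, .negSucc 742, .negSucc 730, .negSucc 971, .negSucc 1642⟩, ⟨.negSucc 2947, .negSucc 27, .negSucc 124, .ofNat 2, .ofNat 42, .ofNat 17⟩, ⟨.negSucc 122, .ofNat 190, .ofNat 241, .ofNat 386, .ofNat 634, .ofNat 764⟩, .ofNat 887, .ofNat 1002, .ofNat 0, .ofNat 1002, .ofNat 1763, .ofNat 0, .ofNat 128, .negSucc 887, .ofNat 513, .ofNat 0, .ofNat 672, .negSucc 390, .ofNat 0, .ofNat 0, .ofNat 3383, .ofNat 4406, .ofNat 0, .ofNat 44276309052909087454848062065301202431921556559063154688, .ofNat 0, .ofNat 0, .ofNat 0, .ofNat 79600004047848981185824432302910313975590930051697213440, .ofNat 204867433136493824017308747559402125734829412757536768,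 .ofNat 0, .ofNat 0, .ofNat 1524240288042519922618060328660544548431955090648231575552, .ofNat 618809025179475400095803126091721370227269744512204800, .ofNat 0, .ofNat 0, .ofNat 6103268805770669925924789961136436155988368193847407149056, .ofNat 602277133758536088731638697048562155288069416132018176, .ofNat 54784779997319360674093906245810347826949956521562618527219712⟩)
    (by decide +kernel)
theorem L08352 : Good (Phi V5.P V5.D (-1) (-1)) ⟨5, 28, 2, 2, 4, 11, 4, 11, 5, 10⟩ :=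
  leafX_sound T5.ok_mm T5.Ymm.bz_eq (w := 253) (c := ⟨⟨.negSucc 2035, .negSucc 152, .negSucc 252, .negSucc 366, .negSucc 220, .negSucc 333⟩, ⟨.ofNat 1186, .ofNat 161, .ofNat 380, .ofNat 245, .ofNat 152, .ofNat 228⟩, ⟨.negSucc 614, .negSucc 319, .negSucc 598, .negSucc 1356, .negSucc 859, .negSucc 1528⟩, ⟨.negSucc 2853, .negSucc 28, .negSucc 111, .negSucc 89, .ofNat 63, .ofNat 11⟩, ⟨.ofNat 161, .ofNat 113, .ofNat 269, .ofNat 659, .ofNat 580, .ofNat 725⟩, .ofNat 387, .ofNat 292, .ofNat 0, .ofNat 292, .ofNat 645, .ofNat 0, .ofNat 128, .negSucc 241, .ofNat 134, .ofNat 0, .ofNat 223, .negSucc 134, .ofNat 0, .ofNat 0, .ofNat 1070, .ofNat 3786, .ofNat 0, .ofNat 12396893000168473585888687663846565690048838836944896, .ofNat 0, .ofNat 0, .ofNat 0, .ofNat 22342459831937834820647365643002461344353357662257152, .ofNat 0, .ofNat 0, .ofNat 0, .ofNat 125655295459040887975267573008004256476386133404549120, .ofNat 2992420443983308001712016306026166429893944934400,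 .ofNat 767289084108902161151584059091109542042956929195111874560, .ofNat 0, .ofNat 464451545129573184578193925426184973939830955641405440, .ofNat 15657157876577896497584770946452364189132038078464, .ofNat 1725147037377786487323372643153924041672366903772152070144⟩)
    (by decide +kernel)
theorem L08353 : Good (Phi V5.P V5.D (-1) (-1)) ⟨5, 28, 2, 2, 4, 10, 4, 10, 6, 22⟩ :=
  leafX_sound T5.ok_mm T5.Ymm.bz_eq (w := 258) (c := ⟨⟨.negSucc 1864, .negSucc 98, .negSucc 214, .negSucc 263, .negSucc 128, .negSucc 64⟩, ⟨.ofNat 1070, .ofNat 120, .ofNat 360, .ofNat 175, .ofNat 88, .ofNat 44⟩, ⟨.ofNat 200, .negSucc 277, .negSucc 576, .negSucc 1441, .negSucc 817, .negSucc 604⟩, ⟨.negSucc 2860, .negSucc 12, .negSucc 78, .negSucc 68, .ofNat 98, .ofNat 37⟩, ⟨.negSucc 194, .ofNat 95, .ofNat 133, .ofNat 470, .ofNat 433, .ofNat 206⟩, .ofNat 880, .ofNat 994, .ofNat 0, .ofNat 994, .ofNat 1756, .ofNat 0, .ofNat 128, .negSucc 740, .ofNat 397, .ofNat 0, .ofNat 561,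 .negSucc 298, .ofNat 0, .ofNat 0, .ofNat 3658, .ofNat 3053, .ofNat 0, .ofNat 29649351970306372170524532630111783225681342158077952, .ofNat 0, .ofNat 0, .ofNat 0, .ofNat 80227483257898043254107929681745882722165320824389632, .ofNat 599010043086163301782295489112227177348510257250304, .ofNat 0, .ofNat 0, .ofNat 1325756744129678199386378191615385393419962773441347584, .ofNat 722745660678416082378896319062646069587393256620032, .ofNat 0, .ofNat 0, .ofNat 6592419970342356312562329029699867019036376571135918080, .ofNat 0, .ofNat 0⟩)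
    (by decide +kernel)
theorem L08354 : Good (Phi V5.P V5.D (-1) (-1)) ⟨5, 28, 2, 2, 4, 10, 4, 10, 6, 23⟩ :=
  leafX_sound T5.ok_mm T5.Ymm.bz_eq (w := 257) (c := ⟨⟨.negSucc 1951, .negSucc 184, .negSucc 95, .negSucc 374, .negSucc 179, .negSucc 127⟩, ⟨.ofNat 1138, .ofNat 186, .ofNat 259, .ofNat 249, .ofNat 121, .ofNat 86⟩, ⟨.negSucc 362, .negSucc 589, .negSucc 316, .negSucc 1930, .negSucc 1035, .negSucc 882⟩, ⟨.negSucc 2812, .negSucc 39, .negSucc 58, .negSucc 141, .ofNat 62, .negSucc 2⟩, ⟨.negSucc 11, .ofNat 138, .ofNat 113, .ofNat 603, .ofNat 490, .ofNat 274⟩, .ofNat 388, .ofNat 293, .ofNat 0, .ofNat 293, .ofNat 645, .ofNat 0, .ofNat 128, .negSucc 531, .ofNat 418, .ofNat 0, .ofNat 512, .negSucc 377, .ofNat 0, .ofNat 0, .ofNat 3715, .ofNat 2836, .ofNat 0, .ofNat 58555173935847170975867570448290300536414677313257472, .ofNat 0, .ofNat 0, .ofNat 0, .ofNat 136877734959895254641949170654429934939994105428574208, .ofNat 98607652599024537274637863372304811666974881873920,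 .ofNat 0, .ofNat 0, .ofNat 1773684266388646431748415701178175037123170447820587008, .ofNat 0, .ofNat 0, .ofNat 0, .ofNat 9043593593252958434995449571101565148708029398800924672, .ofNat 0, .ofNat 0⟩)
    (by decide +kernel)
theorem L08355 : Good (Phi V5.P V5.D (-1) (-1)) ⟨5, 28, 2, 2, 4, 10, 4, 11, 5, 11⟩ :=
  leafX_sound T5.ok_mm T5.Ymm.bz_eq (w := 254) (c := ⟨⟨.negSucc 2022, .negSucc 182, .negSucc 72, .negSucc 383, .negSucc 165, .negSucc 231⟩, ⟨.ofNat 1192, .ofNat 187, .ofNat 232, .ofNat 257, .ofNat 113, .ofNat 157⟩, ⟨.negSucc 649, .negSucc 441, .negSucc 341, .negSucc 1659, .negSucc 870, .negSucc 1414⟩, ⟨.negSucc 2760, .negSucc 38, .negSucc 28, .negSucc 143, .ofNat 77, .ofNat 8⟩, ⟨.ofNat 229, .ofNat 121, .ofNat 116, .ofNat 601, .ofNat 480, .ofNat 513⟩, .ofNat 389, .ofNat 294, .ofNat 0, .ofNat 294, .ofNat 645, .ofNat 0, .ofNat 128, .negSucc 401, .ofNat 206, .ofNat 0, .ofNat 379, .negSucc 200, .ofNat 0, .ofNat 0, .ofNat 1954, .ofNat 7158,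 .ofNat 0, .ofNat 20098270389334532596496324241028015181423432878260224, .ofNat 0, .ofNat 0, .ofNat 0, .ofNat 44956677837001501040697224058247716943085570088763392, .ofNat 3246790132050787852292503685740620449328356392960, .ofNat 0, .ofNat 0, .ofNat 383170676387770591484684652743034153737462039118348288, .ofNat 12202358244206918772539676859304782600321605042176, .ofNat 0, .ofNat 0, .ofNat 1415533612607374925488241413076123298627794308173922304, .ofNat 54674306831965632574265383245274100611967933743104, .ofNat 3575090605227944887922831052494840986931657056190816321536⟩)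
    (by decide +kernel)
theorem L08356 : Good (Phi V5.P V5.D (-1) (-1)) ⟨5, 28, 2, 2, 4, 11, 3, 5, 5, 11⟩ :=
  out_sound (S := T5.ds_mm) T5.ok_mm (w := 38) (j := 2) (by decide +kernel)
theorem L08357 : Good (Phi V5.P V5.D (-1) (-1)) ⟨5, 29, 2, 2, 3, 5, 3, 5, 4, 5⟩ :=
  out_sound (S := T5.ds_mm) T5.ok_mm (w := 17) (j := 4) (by decide +kernel)
theorem L08358 : Good (Phi V5.P V5.D (-1) (-1)) ⟨5, 28, 3, 6, 3, 5, 2, 2, 4, 5⟩ :=
  out_sound (S := T5.ds_mm) T5.ok_mm (w := 57) (j := 3) (by decide +kernel)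
theorem L08359 : Good (Phi V5.P V5.D (-1) (-1)) ⟨5, 29, 3, 6, 3, 5, 2, 2, 4, 5⟩ :=
  out_sound (S := T5.ds_mm) T5.ok_mm (w := 17) (j := 4) (by decide +kernel)
theorem L08360 : Good (Phi V5.P V5.D (-1) (-1)) ⟨4, 14, 3, 7, 3, 5, 2, 2, 4, 5⟩ :=
  out_sound (S := T5.ds_mm) T5.ok_mm (w := 51) (j := 3) (by decide +kernel)
theorem L08361 : Good (Phi V5.P V5.D (-1) (-1)) ⟨4, 15, 1, 1, 3, 5, 2, 2, 4, 5⟩ :=
  out_sound (S := T5.ds_mm) T5.ok_mm (w := 15) (j := 4) (by decide +kernel)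
theorem L08362 : Good (Phi V5.P V5.D (-1) (-1)) ⟨4, 12, 2, 2, 2, 2, 3, 6, 4, 4⟩ :=
  out_sound (S := T5.ds_mm) T5.ok_mm (w := 49) (j := 3) (by decide +kernel)
theorem L08363 : Good (Phi V5.P V5.D (-1) (-1)) ⟨4, 13, 2, 2, 3, 4, 3, 6, 4, 4⟩ :=
  leafX_sound T5.ok_mm T5.Ymm.bz_eq (w := 224) (c := ⟨⟨.negSucc 2082, .negSucc 156, .ofNat 17, .ofNat 43, .ofNat 295, .ofNat 247⟩, ⟨.ofNat 1101, .ofNat 193, .ofNat 202, .negSucc 20, .negSucc 158, .negSucc 135⟩, ⟨.ofNat 1299, .ofNat 7, .negSucc 198, .negSucc 789, .negSucc 502, .negSucc 605⟩, ⟨.negSucc 3345, .negSucc 17, .ofNat 36, .ofNat 144, .ofNat 746, .ofNat 534⟩, ⟨.negSucc 261, .ofNat 38, .negSucc 62, .ofNat 138, .ofNat 532, .ofNat 294⟩, .ofNat 751, .ofNat 834, .ofNat 0, .ofNat 834, .ofNat 1639, .ofNat 0, .ofNat 128, .negSucc 443, .negSucc 145, .ofNat 0, .ofNat 320, .ofNat 69, .ofNat 0, .ofNat 0, .ofNat 1047, .ofNat 616, .ofNat 0, .ofNat 0, .ofNat 0, .ofNat 0, .ofNat 0, .ofNat 0, .ofNat 460618405544761905249545111844235270684672,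 .ofNat 0, .ofNat 0, .ofNat 4448353787051061046577970609809636212307132416, .ofNat 2111871773649692281946222364317186703491072, .ofNat 0, .ofNat 0, .ofNat 7354065608407323319907196333812093848924454912, .ofNat 2218986000062429127404726063436258116370432, .ofNat 0⟩)
    (by decide +kernel)
theorem L08364 : Good (Phi V5.P V5.D (-1) (-1)) ⟨4, 13, 2, 2, 3, 5, 3, 6, 5, 8⟩ :=
  leafX_sound T5.ok_mm T5.Ymm.bz_eq (w := 229) (c := ⟨⟨.negSucc 1991, .negSucc 32, .negSucc 208, .ofNat 5, .ofNat 170, .ofNat 40⟩, ⟨.ofNat 1051, .ofNat 108, .ofNat 366, .ofNat 6, .negSucc 77, .negSucc 13⟩, ⟨.ofNat 681, .ofNat 21, .negSucc 407, .negSucc 886, .negSucc 554, .negSucc 501⟩, ⟨.negSucc 3234, .ofNat 121, .negSucc 198, .ofNat 210, .ofNat 653, .ofNat 253⟩, ⟨.negSucc 289, .negSucc 61, .ofNat 146, .ofNat 340, .ofNat 701, .ofNat 336⟩, .ofNat 746, .ofNat 826, .ofNat 0, .ofNat 826, .ofNat 1630, .ofNat 0, .ofNat 128, .negSucc 691, .negSucc 89, .ofNat 0, .ofNat 490, .ofNat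 22, .ofNat 0, .ofNat 0, .ofNat 1495, .ofNat 562, .ofNat 0, .ofNat 767480359730989305494624748531782895833972736, .ofNat 3328909383471439400469380502182503481606144, .ofNat 0, .ofNat 0, .ofNat 8287553725542346136003772263787708826311983104, .ofNat 66411410135725124248570311254536582617628672, .ofNat 0, .ofNat 0, .ofNat 124983585061369124660521060840620115000846974976, .ofNat 76236900018868022224826232052829756355248128, .ofNat 0, .ofNat 0, .ofNat 201916465628892421014327296623285822796324667392, .ofNat 240537371144433125804830970100985945894420480, .ofNat 0⟩)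
    (by decide +kernel)
theorem L08365 : Good (Phi V5.P V5.D (-1) (-1)) ⟨4, 13, 2, 2, 3, 5, 3, 6, 5, 9⟩ :=
  leafX_sound T5.ok_mm T5.Ymm.bz_eq (w := 230) (c := ⟨⟨.negSucc 1861, .negSucc 78, .negSucc 194, .negSucc 156, .ofNat 50, .negSucc 7⟩, ⟨.ofNat 977, .ofNat 149, .ofNat 328, .ofNat 107, .negSucc 6, .ofNat 13⟩, ⟨.ofNat 410, .negSucc 100, .negSucc 422, .negSucc 1254, .negSucc 752, .negSucc 600⟩, ⟨.negSucc 2915, .ofNat 95, .negSucc 152, .ofNat 65, .ofNat 510, .ofNat 178⟩, ⟨.negSucc 60, .ofNat 12, .ofNat 128, .ofNat 488, .ofNat 740, .ofNat 321⟩, .ofNat 747, .ofNat 826, .ofNat 0, .ofNat 826, .ofNat 1624, .ofNat 0, .ofNat 128, .negSucc 847, .ofNat 22, .ofNat 0, .ofNat 613, .negSucc 43, .ofNat 0, .ofNat 0, .ofNat 1680, .ofNat 1353, .ofNat 0, .ofNat 4808073686473686960060246716430184726092840960, .ofNat 12223908866613654573490721415923053002489856, .ofNat 0, .ofNat 0, .ofNat 24276470687097474280867906050073616464920707072, .ofNat 90086600663200311269095881088938633599123456,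 .ofNat 0, .ofNat 0, .ofNat 444712229353712920152712087956386472378805256192, .ofNat 330948841579447265197666523087291426650718208, .ofNat 0, .ofNat 0, .ofNat 675915912555467866492382450209966427308965232640, .ofNat 610485567458728966367198411641113207799545856, .ofNat 0⟩)
    (by decide +kernel)
theorem L08366 : Good (Phi V5.P V5.D (-1) (-1)) ⟨3, 6, 2, 3, 2, 2, 3, 6, 4, 4⟩ :=
  out_sound (S := T5.ds_mm) T5.ok_mm (w := 43) (j := 3) (by decide +kernel)
theorem L08367 : Good (Phi V5.P V5.D (-1) (-1)) ⟨5, 28, 2, 2, 3, 4, 3, 6, 4, 4⟩ :=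
  leafX_sound T5.ok_mm T5.Ymm.bz_eq (w := 230) (c := ⟨⟨.negSucc 1824, .ofNat 304, .negSucc 859, .ofNat 13, .ofNat 292, .ofNat 179⟩, ⟨.ofNat 1074, .negSucc 112, .ofNat 700, .negSucc 5, .negSucc 182, .negSucc 111⟩, ⟨.ofNat 1796, .ofNat 389, .negSucc 1122, .negSucc 870, .negSucc 546, .negSucc 781⟩, ⟨.negSucc 3157, .ofNat 194, .negSucc 376, .ofNat 105, .ofNat 744, .ofNat 512⟩, ⟨.negSucc 424, .negSucc 87, .ofNat 295, .ofNat 132, .ofNat 508, .ofNat 397⟩, .ofNat 1780, .ofNat 2312, .ofNat 0, .ofNat 2312, .ofNat 3725, .ofNat 0, .ofNat 128, .negSucc 986, .negSucc 230, .ofNat 0, .ofNat 698, .ofNat 134, .ofNat 0, .ofNat 0, .ofNat 2058, .ofNat 700, .ofNat 0, .ofNat 0, .ofNat 26970655705466753596309421674080292044800, .ofNat 0, .ofNat 0, .ofNat 0, .ofNat 2843985268063760469078981001772340871168000, .ofNat 0, .ofNat 0, .ofNat 208102433745791158717984723023745281443074408448, .ofNat 3184303672242740051135421447657565542416384, .ofNat 539315235031565927455389482689460979840024712314880,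 .ofNat 0, .ofNat 504006168425755958558468467251367808699501379584, .ofNat 3119093420331995704521042364439757200556032, .ofNat 0⟩)
    (by decide +kernel)
theorem L08368 : Good (Phi V5.P V5.D (-1) (-1)) ⟨5, 28, 2, 2, 3, 5, 3, 6, 5, 8⟩ :=
  leafX_sound T5.ok_mm T5.Ymm.bz_eq (w := 235) (c := ⟨⟨.negSucc 1959, .negSucc 99, .negSucc 127, .negSucc 152, .ofNat 89, .negSucc 21⟩, ⟨.ofNat 1116, .ofNat 107, .ofNat 334, .ofNat 104, .negSucc 48, .ofNat 17⟩, ⟨.ofNat 899, .negSucc 34, .negSucc 476, .negSucc 1115, .negSucc 700, .negSucc 648⟩, ⟨.negSucc 3109, .ofNat 19, .negSucc 89, .ofNat 112, .ofNat 580, .ofNat 236⟩, ⟨.negSucc 451, .ofNat 68, .ofNat 122, .ofNat 502, .ofNat 709, .ofNat 412⟩, .ofNat 1421, .ofNat 1806, .ofNat 0, .ofNat 1806, .ofNat 3009, .ofNat 0, .ofNat 128, .negSucc 1003, .negSucc 28, .ofNat 0, .ofNat 698, .negSucc 0, .ofNat 0, .ofNat 0, .ofNat 1661, .ofNat 603, .ofNat 0, .ofNat 30292129417740545511783763742518364746282958848, .ofNat 314697879021141317173394234950102256975872,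 .ofNat 0, .ofNat 0, .ofNat 159860193301992921128292732886990981180963160064, .ofNat 32643040455322732332439555813122335154634752, .ofNat 0, .ofNat 0, .ofNat 3512530263075437362426223532572353368234714464256, .ofNat 28111745117949497647126568074959409106649088, .ofNat 9130003096085415048037512912723724540314917615435776, .ofNat 0, .ofNat 5207942531299766701807729790674975728781458669568, .ofNat 54513469557607091295538283345950430254333952, .ofNat 0⟩)
    (by decide +kernel)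
theorem L08369 : Good (Phi V5.P V5.D (-1) (-1)) ⟨5, 28, 2, 2, 3, 5, 3, 6, 5, 9⟩ :=
  leafX_sound T5.ok_mm T5.Ymm.bz_eq (w := 236) (c := ⟨⟨.negSucc 1964, .negSucc 169, .ofNat 6, .negSucc 317, .negSucc 32, .negSucc 65⟩, ⟨.ofNat 1147, .ofNat 171, .ofNat 191, .ofNat 214, .ofNat 31, .ofNat 47⟩, ⟨.ofNat 278, .negSucc 292, .negSucc 63, .negSucc 1524, .negSucc 912, .negSucc 743⟩, ⟨.negSucc 2859, .negSucc 34, .ofNat 7, .negSucc 29, .ofNat 467, .ofNat 157⟩, ⟨.negSucc 68, .ofNat 90, .ofNat 37, .ofNat 642, .ofNat 791, .ofNat 383⟩, .ofNat 1431, .ofNat 1819, .ofNat 0, .ofNat 1819, .ofNat 3022, .ofNat 0, .ofNat 128, .negSucc 1288, .ofNat 123, .ofNat 0, .ofNat 904, .negSucc 104, .ofNat 0, .ofNat 0, .ofNat 2472, .ofNat 1375, .ofNat 0, .ofNat 167330776135024111843205789159094718289254809600, .ofNat 0, .ofNat 0, .ofNat 0, .ofNat 425860874073273872491943243769893031293321478144, .ofNat 64153368321373903355052890144919502219902976, .ofNat 0, .ofNat 0, .ofNat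 14772974533950220675405599341442617786729842606080, .ofNat 68943583544988395804920479866685896502804480, .ofNat 0, .ofNat 0, .ofNat 24555708868620378607533371782680502544142717419520, .ofNat 35283676615017308951001237527284595239682048, .ofNat 0⟩)
    (by decide +kernel)
theorem L08370 : Good (Phi V5.P V5.D (-1) (-1)) ⟨5, 29, 2, 2, 2, 2, 3, 6, 4, 4⟩ :=
  out_sound (S := T5.ds_mm) T5.ok_mm (w := 17) (j := 4) (by decide +kernel)
theorem L08371 : Good (Phi V5.P V5.D (-1) (-1)) ⟨5, 28, 3, 6, 2, 2, 3, 6, 4, 4⟩ :=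
  out_sound (S := T5.ds_mm) T5.ok_mm (w := 57) (j := 3) (by decide +kernel)
theorem L08372 : Good (Phi V5.P V5.D (-1) (-1)) ⟨5, 29, 3, 6, 2, 2, 3, 6, 4, 4⟩ :=
  out_sound (S := T5.ds_mm) T5.ok_mm (w := 17) (j := 4) (by decide +kernel)
theorem L08373 : Good (Phi V5.P V5.D (-1) (-1)) ⟨4, 14, 3, 7, 2, 2, 3, 6, 4, 4⟩ :=
  out_sound (S := T5.ds_mm) T5.ok_mm (w := 51) (j := 3) (by decide +kernel)
theorem L08374 : Good (Phi V5.P V5.D (-1) (-1)) ⟨4, 15, 1, 1, 2, 2, 3, 6, 4, 4⟩ :=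
  out_sound (S := T5.ds_mm) T5.ok_mm (w := 15) (j := 4) (by decide +kernel)
theorem L08375 : Good (Phi V5.P V5.D (-1) (-1)) ⟨2, 3, 1, 1, 2, 2, 3, 7, 4, 4⟩ :=
  leafX_sound T5.ok_mm T5.Ymm.bz_eq (w := 198) (c := ⟨⟨.negSucc 1667, .negSucc 308, .negSucc 46, .negSucc 3, .ofNat 511, .ofNat 174⟩, ⟨.ofNat 774, .ofNat 606, .ofNat 344, .ofNat 17, .negSucc 288, .negSucc 96⟩, ⟨.ofNat 728, .negSucc 98, .negSucc 245, .negSucc 1323, .negSucc 665, .negSucc 448⟩, ⟨.negSucc 2606, .ofNat 264, .ofNat 101, .ofNat 264, .ofNat 1256, .ofNat 464⟩, ⟨.ofNat 286, .negSucc 31, .ofNat 16, .ofNat 441, .ofNat 852, .ofNat 344⟩, .ofNat 373, .ofNat 271, .ofNat 0, .ofNat 271, .ofNat 643, .ofNat 0, .ofNat 128, .negSucc 245, .negSucc 126, .ofNat 0, .ofNat 222, .ofNat 49, .ofNat 0, .ofNat 0, .ofNat 487, .ofNat 439, .ofNat 0, .ofNat 15366011154678962155220054480596762624, .ofNat 11428045132005553791100519375360229376, .ofNat 0, .ofNat 0, .ofNat 126667130260056882800399689117752885248,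 .ofNat 26593727622093894830056603077272666112, .ofNat 426468137137237783460345814096202914856960, .ofNat 0, .ofNat 914742161757159595003409008298209312768, .ofNat 25229502718179505364909716559397650432, .ofNat 2899504084608141871933776703512197124325376, .ofNat 0, .ofNat 1102160727263093317843758502638493106176, .ofNat 12996144793447809028903344504330780672, .ofNat 499351200142359050892531955297371113390080⟩)
    (by decide +kernel)
theorem L08376 : Good (Phi V5.P V5.D (-1) (-1)) ⟨3, 6, 2, 2, 3, 4, 3, 6, 4, 5⟩ :=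
  leafX_sound T5.ok_mm T5.Ymm.bz_eq (w := 221) (c := ⟨⟨.negSucc 1720, .negSucc 157, .negSucc 119, .negSucc 64, .ofNat 170, .ofNat 90⟩, ⟨.ofNat 784, .ofNat 317, .ofNat 247, .ofNat 45, .negSucc 86, .negSucc 46⟩, ⟨.ofNat 1078, .negSucc 140, .negSucc 368, .negSucc 1219, .negSucc 674, .negSucc 810⟩, ⟨.negSucc 2886, .ofNat 149, .negSucc 65, .ofNat 88, .ofNat 562, .ofNat 309⟩, ⟨.negSucc 25, .negSucc 24, .ofNat 102, .ofNat 295, .ofNat 529, .ofNat 295⟩, .ofNat 1583, .ofNat 2175, .ofNat 0, .ofNat 2175, .ofNat 3863, .ofNat 0, .ofNat 128, .negSucc 622, .ofNat 1, .ofNat 0, .ofNat 416, .negSucc 12, .ofNat 0, .ofNat 0, .ofNat 1882, .ofNat 621, .ofNat 0, .ofNat 13977740080135869363830740221009592907202560, .ofNat 649478636841507000394841637631956057325568, .ofNat 0, .ofNat 0, .ofNat 156079001003890157544657687282929289312337920, .ofNat 46328644954594146779660956907405055879020544, .ofNat 0, .ofNat 0, .ofNat 1306420446035760459690724400081307050608427008,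 .ofNat 18604454979236416610527475039095951210840064, .ofNat 0, .ofNat 0, .ofNat 3575788764170814713475545519939101408112934912, .ofNat 47270189489419215265572000343138265928302592, .ofNat 0⟩)
    (by decide +kernel)
theorem L08377 : Good (Phi V5.P V5.D (-1) (-1)) ⟨3, 6, 2, 3, 3, 4, 3, 6, 4, 5⟩ :=
  out_sound (S := T5.ds_mm) T5.ok_mm (w := 43) (j := 3) (by decide +kernel)
theorem L08378 : Good (Phi V5.P V5.D (-1) (-1)) ⟨5, 28, 2, 2, 3, 4, 3, 6, 5, 10⟩ :=
  leafX_sound T5.ok_mm T5.Ymm.bz_eq (w := 233) (c := ⟨⟨.negSucc 1986, .negSucc 212, .ofNat 246, .negSucc 145, .ofNat 142, .ofNat 45⟩, ⟨.ofNat 1159, .ofNat 182, .ofNat 49, .ofNat 99, .negSucc 85, .negSucc 26⟩, ⟨.ofNat 670, .negSucc 499, .ofNat 617, .negSucc 1432, .negSucc 687, .negSucc 457⟩, ⟨.negSucc 2824, .negSucc 55, .ofNat 155, .ofNat 57, .ofNat 566, .ofNat 178⟩, ⟨.negSucc 25, .ofNat 116, .negSucc 137, .ofNat 409, .ofNat 565, .ofNat 181⟩, .ofNat 882, .ofNat 996, .ofNat 0, .ofNat 996, .ofNat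 1759, .ofNat 0, .ofNat 128, .negSucc 548, .ofNat 0, .ofNat 0, .ofNat 411, .negSucc 23, .ofNat 0, .ofNat 0, .ofNat 1914, .ofNat 553, .ofNat 0, .ofNat 21338670894634006258036368414075328749885194240, .ofNat 0, .ofNat 0, .ofNat 0, .ofNat 0, .ofNat 21332152587936072764591839868476969118072832, .ofNat 0, .ofNat 0, .ofNat 2104983173231307859682613204874091048091646951424, .ofNat 29089199640155755303334459965671461290508288, .ofNat 3590063629702631513696876698911317768906879396741120, .ofNat 0, .ofNat 6471585620342195594255732538149156500017300635648, .ofNat 0, .ofNat 0⟩)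
    (by decide +kernel)
theorem L08379 : Good (Phi V5.P V5.D (-1) (-1)) ⟨5, 28, 2, 2, 3, 4, 3, 6, 5, 11⟩ :=
  leafX_sound T5.ok_mm T5.Ymm.bz_eq (w := 236) (c := ⟨⟨.negSucc 1923, .negSucc 205, .ofNat 235, .negSucc 205, .ofNat 95, .ofNat 5⟩, ⟨.ofNat 1133, .ofNat 187, .ofNat 25, .ofNat 140, .negSucc 52, .negSucc 0⟩, ⟨.ofNat 434, .negSucc 408, .ofNat 356, .negSucc 1803, .negSucc 774, .negSucc 578⟩, ⟨.negSucc 2610, .negSucc 15, .ofNat 119, .negSucc 15, .ofNat 394, .ofNat 116⟩, ⟨.ofNat 115, .ofNat 94, .negSucc 28, .ofNat 421, .ofNat 403, .ofNat 171⟩, .ofNat 2301, .ofNat 3143, .ofNat 0, .ofNat 3143, .ofNat 5058, .ofNat 0, .ofNat 128, .negSucc 804, .ofNat 132, .ofNat 0, .ofNat 555, .negSucc 98, .ofNat 0, .ofNat 0, .ofNat 3151, .ofNat 1167, .ofNat 0, .ofNat 102385446574786047490362645276818747580443787264, .ofNat 0, .ofNat 0, .ofNat 0, .ofNat 368247251308306913942508743040178479158228156416, .ofNat 199149684623280410447304949837053565494886400, .ofNat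 0, .ofNat 0, .ofNat 7990704348805967152547688198227954531914232102912, .ofNat 109582912117857941953096824248839591897858048, .ofNat 16372493219476812756540578359213538952315231868551168, .ofNat 0, .ofNat 27009839753623780648845984296302520327387301806080, .ofNat 0, .ofNat 0⟩)
    (by decide +kernel)
theorem L08380 : Good (Phi V5.P V5.D (-1) (-1)) ⟨5, 29, 2, 2, 3, 4, 3, 6, 4, 5⟩ :=
  out_sound (S := T5.ds_mm) T5.ok_mm (w := 17) (j := 4) (by decide +kernel)
theorem L08381 : Good (Phi V5.P V5.D (-1) (-1)) ⟨4, 15, 2, 2, 3, 4, 3, 6, 4, 5⟩ :=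
  out_sound (S := T5.ds_mm) T5.ok_mm (w := 49) (j := 3) (by decide +kernel)
theorem L08382 : Good (Phi V5.P V5.D (-1) (-1)) ⟨5, 28, 3, 6, 3, 4, 3, 6, 4, 5⟩ :=
  out_sound (S := T5.ds_mm) T5.ok_mm (w := 57) (j := 3) (by decide +kernel)
theorem L08383 : Good (Phi V5.P V5.D (-1) (-1)) ⟨5, 29, 3, 6, 3, 4, 3, 6, 4, 5⟩ :=
  out_sound (S := T5.ds_mm) T5.ok_mm (w := 17) (j := 4) (by decide +kernel)
theorem L08384 : Good (Phi V5.P V5.D (-1) (-1)) ⟨4, 14, 3, 7, 3, 4, 3, 6, 4, 5⟩ :=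
  out_sound (S := T5.ds_mm) T5.ok_mm (w := 51) (j := 3) (by decide +kernel)
theorem L08385 : Good (Phi V5.P V5.D (-1) (-1)) ⟨4, 15, 2, 3, 3, 4, 3, 6, 4, 5⟩ :=
  out_sound (S := T5.ds_mm) T5.ok_mm (w := 15) (j := 4) (by decide +kernel)
theorem L08386 : Good (Phi V5.P V5.D (-1) (-1)) ⟨2, 3, 1, 1, 3, 5, 3, 6, 4, 5⟩ :=
  leafX_sound T5.ok_mm T5.Ymm.bz_eq (w := 214) (c := ⟨⟨.negSucc 1743, .negSucc 406, .negSucc 421, .ofNat 1, .negSucc 142, .ofNat 1⟩, ⟨.ofNat 809, .ofNat 659, .ofNat 680, .negSucc 0, .ofNat 124, .negSucc 0⟩, ⟨.ofNat 43, .negSucc 624, .negSucc 1083, .ofNat 1, .negSucc 1173, .ofNat 1⟩, ⟨.negSucc 2747, .ofNat 156, .negSucc 168, .ofNat 1, .ofNat 350, .ofNat 1⟩, ⟨.ofNat 213, .ofNat 97, .ofNat 345, .ofNat 0, .ofNat 841, .ofNat 0⟩, .ofNat 373, .ofNat 272, .ofNat 0, .ofNat 272, .ofNat 644, .ofNat 0, .ofNat 128, .negSucc 505, .ofNat 58, .ofNat 0, .ofNat 465, .negSucc 98, .ofNat 0, .ofNat 0, .ofNat 1517, .ofNat 1845, .ofNat 0, .ofNat 1136537714214411155110993605562830503804928,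 .ofNat 575810130563181050872166380805591236870144, .ofNat 0, .ofNat 0, .ofNat 2477568950121096460347081838840831530762240, .ofNat 1692470917399492559386871403853007248424960, .ofNat 33750071693267552309865911430360959018323673088, .ofNat 0, .ofNat 36324956804418842020257471626193082251214848, .ofNat 23372156834673506125395753037657936985325568, .ofNat 690045375240497164455226768093643495901086351360, .ofNat 0, .ofNat 106262137761935119710774488659984138213785600, .ofNat 17027307722935976880300400830300500149665792, .ofNat 774481814691434525933940472032274762091682856960⟩)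
    (by decide +kernel)
theorem L08387 : Good (Phi V5.P V5.D (-1) (-1)) ⟨2, 3, 1, 1, 2, 2, 3, 7, 4, 5⟩ :=
  out_sound (S := T5.ds_mm) T5.ok_mm (w := 32) (j := 2) (by decide +kernel)
theorem L08388 : Good (Phi V5.P V5.D (-1) (-1)) ⟨4, 12, 2, 2, 2, 3, 2, 2, 4, 4⟩ :=
  out_sound (S := T5.ds_mm) T5.ok_mm (w := 49) (j := 3) (by decide +kernel)
theorem L08389 : Good (Phi V5.P V5.D (-1) (-1)) ⟨4, 13, 3, 4, 3, 6, 3, 4, 5, 8⟩ :=
  leafX_sound T5.ok_mm T5.Ymm.bz_eq (w := 233) (c := ⟨⟨.negSucc 2012, .negSucc 55, .negSucc 113, .ofNat 323, .negSucc 32, .ofNat 41⟩, ⟨.ofNat 1069, .ofNat 64, .ofNat 231, .negSucc 179, .ofNat 29, .negSucc 14⟩, ⟨.ofNat 947, .negSucc 32, .negSucc 224, .negSucc 669, .negSucc 586, .negSucc 488⟩, ⟨.negSucc 3746, .negSucc 1, .negSucc 29, .ofNat 703, .ofNat 314, .ofNat 289⟩, ⟨.negSucc 1159, .negSucc 155, .ofNat 261, .ofNat 387, .ofNat 597, .ofNat 387⟩, .ofNat 1102, .ofNat 1395, .ofNat 0, .ofNat 1395, .ofNat 2579, .ofNat 0, .ofNat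 128, .negSucc 821, .negSucc 14, .ofNat 0, .ofNat 574, .negSucc 12, .ofNat 0, .ofNat 0, .ofNat 1647, .ofNat 2334, .ofNat 0, .ofNat 0, .ofNat 0, .ofNat 0, .ofNat 0, .ofNat 0, .ofNat 401625351510956238810495311116578486631792640, .ofNat 0, .ofNat 0, .ofNat 495406874706300685806933833034883953296184180736, .ofNat 664779758251333073005690930754080955802058752, .ofNat 0, .ofNat 0, .ofNat 1227300512430573247846500125589142200248029937664, .ofNat 3309194151757038873744469763923026768755163136, .ofNat 0⟩)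
    (by decide +kernel)
theorem L08390 : Good (Phi V5.P V5.D (-1) (-1)) ⟨4, 13, 3, 4, 3, 6, 4, 10, 5, 8⟩ :=
  leafX_sound T5.ok_mm T5.Ymm.bz_eq (w := 236) (c := ⟨⟨.negSucc 1737, .negSucc 298, .negSucc 18, .ofNat 159, .negSucc 43, .negSucc 72⟩, ⟨.ofNat 914, .ofNat 216, .ofNat 165, .negSucc 77, .ofNat 36, .ofNat 54⟩, ⟨.ofNat 860, .negSucc 577, .ofNat 36, .negSucc 861, .negSucc 346, .negSucc 667⟩, ⟨.negSucc 3351, .ofNat 5, .negSucc 57, .ofNat 662, .ofNat 157, .ofNat 222⟩, ⟨.negSucc 1073, .ofNat 304, .ofNat 30, .ofNat 714, .ofNat 364, .ofNat 550⟩, .ofNat 755, .ofNat 837, .ofNat 0, .ofNat 837, .ofNat 1635, .ofNat 0, .ofNat 128, .negSucc 470, .ofNat 71, .ofNat 0, .ofNat 348, .negSucc 70, .ofNat 0, .ofNat 0, .ofNat 1086, .ofNat 560, .ofNat 0, .ofNat 16840776185345320986266884963046854123447123968, .ofNat 130967653887523558242222723889835982542864384, .ofNat 0, .ofNat 0, .ofNat 0, .ofNat 0, .ofNat 0, .ofNat 0, .ofNat 1178924496390569732453159542716265756169343074304,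 .ofNat 2353030400756270844655653691677901656426545152, .ofNat 0, .ofNat 0, .ofNat 3956515921415620911100525184980454578426551992320, .ofNat 6404407622430104213079347137452504349472194560, .ofNat 0⟩)
    (by decide +kernel)
theorem L08391 : Good (Phi V5.P V5.D (-1) (-1)) ⟨4, 13, 3, 4, 3, 6, 4, 11, 5, 8⟩ :=
  leafX_sound T5.ok_mm T5.Ymm.bz_eq (w := 237) (c := ⟨⟨.negSucc 1850, .negSucc 88, .negSucc 165, .ofNat 73, .negSucc 42, .negSucc 104⟩, ⟨.ofNat 967, .ofNat 131, .ofNat 227, .negSucc 21, .ofNat 37, .ofNat 79⟩, ⟨.ofNat 329, .negSucc 135, .negSucc 238, .negSucc 931, .negSucc 354, .negSucc 758⟩, ⟨.negSucc 3146, .ofNat 109, .negSucc 136, .ofNat 459, .ofNat 161, .ofNat 154⟩, ⟨.negSucc 501, .ofNat 79, .ofNat 147, .ofNat 599, .ofNat 382, .ofNat 507⟩, .ofNat 1564, .ofNat 2155, .ofNat 0, .ofNat 2155, .ofNat 3854, .ofNat 0, .ofNat 128, .negSucc 628, .ofNat 94, .ofNat 0, .ofNat 414, .negSucc 71, .ofNat 0, .ofNat 0, .ofNat 1241, .ofNat 687, .ofNat 0,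 .ofNat 61449064905864882763194243784628286237473505280, .ofNat 0, .ofNat 0, .ofNat 0, .ofNat 0, .ofNat 8850470187285680743888952458418704657164533760, .ofNat 0, .ofNat 0, .ofNat 3391143873920155171099502361418911924582755598336, .ofNat 7697770891857085702003211227435166763986190336, .ofNat 0, .ofNat 0, .ofNat 8052257227090227589109831203096865182034805391360, .ofNat 0, .ofNat 0⟩)
    (by decide +kernel)
theorem L08392 : Good (Phi V5.P V5.D (-1) (-1)) ⟨4, 13, 3, 4, 4, 12, 3, 4, 5, 9⟩ :=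
  leafX_sound T5.ok_mm T5.Ymm.bz_eq (w := 247) (c := ⟨⟨.negSucc 1906, .negSucc 33, .negSucc 131, .ofNat 81, .negSucc 69, .negSucc 5⟩, ⟨.ofNat 1009, .ofNat 60, .ofNat 236, .negSucc 41, .ofNat 56, .ofNat 13⟩, ⟨.ofNat 616, .ofNat 42, .negSucc 337, .negSucc 464, .negSucc 752, .negSucc 646⟩, ⟨.negSucc 3417, .ofNat 73, .negSucc 90, .ofNat 243, .ofNat 265, .ofNat 211⟩, ⟨.negSucc 852, .negSucc 94, .ofNat 187, .ofNat 214, .ofNat 612, .ofNat 368⟩, .ofNat 750, .ofNat 831, .ofNat 0, .ofNat 831, .ofNat 1634, .ofNat 0, .ofNat 128, .negSucc 713, .ofNat 145, .ofNat 0, .ofNat 540, .negSucc 128, .ofNat 0, .ofNat 0, .ofNat 2396, .ofNat 2030, .ofNat 0, .ofNat 0, .ofNat 0, .ofNat 0, .ofNat 0, .ofNat 0, .ofNat 1681375637664103461616671358868367418185490628608, .ofNat 0, .ofNat 0, .ofNat 3869519566880217159966614452871821063189240437800960, .ofNat 9152596059137957230578752136810778316784260874240, .ofNat 0, .ofNat 0, .ofNat 19695833466922543848141014839043144094920292758978560,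 .ofNat 0, .ofNat 0⟩)
    (by decide +kernel)
theorem L08393 : Good (Phi V5.P V5.D (-1) (-1)) ⟨4, 13, 3, 4, 4, 13, 4, 8, 5, 9⟩ :=
  leafX_sound T5.ok_mm T5.Ymm.bz_eq (w := 252) (c := ⟨⟨.negSucc 1757, .negSucc 16, .negSucc 171, .ofNat 64, .negSucc 75, .negSucc 108⟩, ⟨.ofNat 926, .ofNat 51, .ofNat 251, .negSucc 24, .ofNat 55, .ofNat 79⟩, ⟨.ofNat 261, .ofNat 57, .negSucc 422, .negSucc 516, .negSucc 430, .negSucc 841⟩, ⟨.negSucc 3129, .ofNat 159, .negSucc 78, .ofNat 293, .ofNat 58, .ofNat 79⟩, ⟨.negSucc 770, .ofNat 81, .ofNat 248, .ofNat 343, .ofNat 284, .ofNat 392⟩, .ofNat 2463, .ofNat 3634, .ofNat 0, .ofNat 3634, .ofNat 6310, .ofNat 0, .ofNat 128, .negSucc 474, .ofNat 198, .ofNat 0, .ofNat 316, .negSucc 133, .ofNat 0, .ofNat 0, .ofNat 1762, .ofNat 1289, .ofNat 0, .ofNat 186669042134744738269571154980660475386044132360192, .ofNat 61288312079510908829573499679623292227155918848, .ofNat 0, .ofNat 0, .ofNat 593914393925272046669067810551439732339359317229568,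 .ofNat 429375307679641376638516543290534822680176518758400, .ofNat 0, .ofNat 0, .ofNat 7779791411197488705896235856321304113036013418315776, .ofNat 203566329665650838792113026270036763703686562054144, .ofNat 0, .ofNat 0, .ofNat 51680706962838230793253255919390542907709104876158976, .ofNat 0, .ofNat 0⟩)
    (by decide +kernel)
theorem L08394 : Good (Phi V5.P V5.D (-1) (-1)) ⟨4, 13, 3, 4, 4, 13, 4, 9, 5, 9⟩ :=
  leafX_sound T5.ok_mm T5.Ymm.bz_eq (w := 253) (c := ⟨⟨.negSucc 1835, .ofNat 77, .negSucc 297, .ofNat 43, .negSucc 116, .negSucc 158⟩, ⟨.ofNat 972, .ofNat 14, .ofNat 318, .negSucc 13, .ofNat 82, .ofNat 111⟩, ⟨.negSucc 195, .ofNat 268, .negSucc 672, .negSucc 538, .negSucc 500, .negSucc 956⟩, ⟨.negSucc 3045, .ofNat 171, .negSucc 124, .ofNat 326, .ofNat 77, .ofNat 92⟩, ⟨.negSucc 424, .negSucc 116, .ofNat 426, .ofNat 449, .ofNat 408, .ofNat 545⟩, .ofNat 1608, .ofNat 2212, .ofNat 0, .ofNat 2212, .ofNat 3917, .ofNat 0, .ofNat 128, .negSucc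 1027, .ofNat 347, .ofNat 0, .ofNat 703, .negSucc 239, .ofNat 0, .ofNat 0, .ofNat 2380, .ofNat 2639, .ofNat 0, .ofNat 911393448429056721975939525737921938688222242537472, .ofNat 1896454028301428707922540363419218804258889531392, .ofNat 0, .ofNat 0, .ofNat 2973888340692925293391953363885596417707744335757312, .ofNat 375527600404041368034037189126116894430627408904192, .ofNat 0, .ofNat 0, .ofNat 64409641748805305782384910287630891042386595670917120, .ofNat 0, .ofNat 0, .ofNat 0, .ofNat 175553657841495895049363781897424980304762181263556608, .ofNat 728499924882296211983600673891218407286216174075904, .ofNat 0⟩)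
    (by decide +kernel)
theorem L08395 : Good (Phi V5.P V5.D (-1) (-1)) ⟨4, 13, 3, 4, 4, 12, 3, 5, 5, 9⟩ :=
  leafX_sound T5.ok_mm T5.Ymm.bz_eq (w := 247) (c := ⟨⟨.negSucc 1806, .negSucc 178, .negSucc 101, .negSucc 32, .negSucc 184, .negSucc 117⟩, ⟨.ofNat 939, .ofNat 192, .ofNat 189, .ofNat 31, .ofNat 134, .ofNat 85⟩, ⟨.ofNat 195, .negSucc 284, .negSucc 212, .negSucc 656, .negSucc 973, .negSucc 898⟩, ⟨.negSucc 3077, .ofNat 65, .negSucc 84, .ofNat 165, .ofNat 202, .ofNat 109⟩, ⟨.negSucc 471, .ofNat 180, .ofNat 108, .ofNat 360, .ofNat 783, .ofNat 471⟩, .ofNat 1525, .ofNat 2095, .ofNat 0, .ofNat 2095, .ofNat 3765, .ofNat 0, .ofNat 128, .negSucc 681, .ofNat 193, .ofNat 0, .ofNat 456, .negSucc 133, .ofNat 0, .ofNat 0, .ofNat 1758, .ofNat 1303, .ofNat 0, .ofNat 166721168709409165306753403246693614919240600518656, .ofNat 175340012930616784946756301270922440201860022272, .ofNat 0, .ofNat 0, .ofNat 465115572565653994778908408733114375811592833990656,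 .ofNat 10983642268734246294269672152536929463450514489344, .ofNat 0, .ofNat 0, .ofNat 8375156596255535684724567010558290348534044825747456, .ofNat 19742934818479247754890101787165526686840731467776, .ofNat 0, .ofNat 0, .ofNat 23023606316064025435690481893944787022927868821766144, .ofNat 2177605219885793096666435384972370772038464307200, .ofNat 0⟩)
    (by decide +kernel)
theorem L08396 : Good (Phi V5.P V5.D (-1) (-1)) ⟨4, 13, 3, 4, 4, 13, 3, 5, 5, 9⟩ :=
  leafX_sound T5.ok_mm T5.Ymm.bz_eq (w := 247) (c := ⟨⟨.negSucc 1798, .negSucc 143, .negSucc 210, .negSucc 75, .negSucc 382, .negSucc 307⟩, ⟨.ofNat 939, .ofNat 184, .ofNat 246, .ofNat 65, .ofNat 268, .ofNat 209⟩, ⟨.negSucc 367, .negSucc 267, .negSucc 388, .negSucc 742, .negSucc 1274, .negSucc 1240⟩, ⟨.negSucc 2849, .ofNat 41, .negSucc 84, .ofNat 213, .ofNat 61, .ofNat 20⟩, ⟨.negSucc 93, .ofNat 62, .ofNat 338, .ofNat 537, .ofNat 1012, .ofNat 757⟩, .ofNat 749, .ofNat 829, .ofNat 0, .ofNat 829,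 .ofNat 1627, .ofNat 0, .ofNat 128, .negSucc 433, .ofNat 180, .ofNat 0, .ofNat 328, .negSucc 140, .ofNat 0, .ofNat 0, .ofNat 1180, .ofNat 2751, .ofNat 0, .ofNat 734776018025610126686299777993053270643299720364032, .ofNat 0, .ofNat 0, .ofNat 0, .ofNat 1980809951791945848979476329741078634749572688117760, .ofNat 0, .ofNat 0, .ofNat 0, .ofNat 15996961992415444606931636531695091466874541622427648, .ofNat 0, .ofNat 0, .ofNat 0, .ofNat 39649592310490846295458675149096564233920672780255232, .ofNat 8659166526527478023025308231647579307284625358848, .ofNat 0⟩)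
    (by decide +kernel)
theorem L08397 : Good (Phi V5.P V5.D (-1) (-1)) ⟨4, 13, 3, 5, 3, 6, 2, 2, 4, 4⟩ :=
  out_sound (S := T5.ds_mm) T5.ok_mm (w := 51) (j := 3) (by decide +kernel)
theorem L08398 : Good (Phi V5.P V5.D (-1) (-1)) ⟨4, 13, 3, 4, 4, 14, 3, 4, 5, 8⟩ :=
  leafX_sound T5.ok_mm T5.Ymm.bz_eq (w := 247) (c := ⟨⟨.negSucc 1639, .ofNat 72, .negSucc 180, .ofNat 160, .negSucc 99, .negSucc 118⟩, ⟨.ofNat 856, .ofNat 9, .ofNat 230, .negSucc 81, .ofNat 77, .ofNat 84⟩, ⟨.ofNat 314, .ofNat 196, .negSucc 379, .negSucc 277, .negSucc 665, .negSucc 702⟩, ⟨.negSucc 3085, .ofNat 101, .ofNat 14, .ofNat 543, .ofNat 325, .ofNat 245⟩, ⟨.negSucc 1037, .negSucc 161, .ofNat 418, .ofNat 522, .ofNat 789, .ofNat 701⟩, .ofNat 752, .ofNat 834, .ofNat 0, .ofNat 834, .ofNat 1635, .ofNat 0, .ofNat 128, .negSucc 654, .ofNat 241, .ofNat 0, .ofNat 525, .negSucc 222, .ofNat 0, .ofNat 0, .ofNat 1962, .ofNat 1166, .ofNat 0, .ofNat 11633555070316903686021165234575095310857208332288,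 .ofNat 323714063476239459976723545986077491266202894336, .ofNat 0, .ofNat 0, .ofNat 171433356112202915156316741848615634046406923124736, .ofNat 2929732278363071456540187733619500574958721957888, .ofNat 0, .ofNat 0, .ofNat 3083045441388000075922685662304274700450131030835200, .ofNat 2308017443947324023861264720327956431874664955904, .ofNat 0, .ofNat 0, .ofNat 14886908080008620588886763304376588863106270009229312, .ofNat 0, .ofNat 0⟩)
    (by decide +kernel)
theorem L08399 : Good (Phi V5.P V5.D (-1) (-1)) ⟨4, 13, 3, 4, 4, 15, 3, 4, 5, 8⟩ :=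
  leafX_sound T5.ok_mm T5.Ymm.bz_eq (w := 247) (c := ⟨⟨.negSucc 1417, .ofNat 19, .negSucc 120, .ofNat 138, .negSucc 132, .negSucc 207⟩, ⟨.ofNat 732, .ofNat 50, .ofNat 173, .negSucc 57, .ofNat 102, .ofNat 149⟩, ⟨.ofNat 241, .negSucc 75, .negSucc 194, .negSucc 183, .negSucc 734, .negSucc 838⟩, ⟨.negSucc 2590, .ofNat 223, .ofNat 66, .ofNat 586, .ofNat 280, .ofNat 179⟩, ⟨.negSucc 701, .ofNat 108, .ofNat 365, .ofNat 665, .ofNat 779, .ofNat 807⟩, .ofNat 2049, .ofNat 2949, .ofNat 0, .ofNat 2949, .ofNat 5167, .ofNat 0, .ofNat 128, .negSucc 442, .ofNat 215, .ofNat 0, .ofNat 308, .negSucc 158, .ofNat 0, .ofNat 0, .ofNat 1293, .ofNat 844, .ofNat 0, .ofNat 34287593053642274464079161840847336611296548225024, .ofNat 0, .ofNat 0, .ofNat 0, .ofNat 0, .ofNat 13503126958263599806927152831228457503155069911040, .ofNat 0, .ofNat 0, .ofNat 2246804906468568217761345140834813905476941831471104, .ofNat 4347947824483151976551532959887482601174649012224, .ofNat 0,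 .ofNat 0, .ofNat 8790211353039611812673163271872781962592041545236480, .ofNat 1976809667178106049635719388811905071665337335808, .ofNat 0⟩)
    (by decide +kernel)
theorem L08400 : Good (Phi V5.P V5.D (-1) (-1)) ⟨4, 13, 3, 4, 4, 14, 3, 5, 5, 8⟩ :=
  leafX_sound T5.ok_mm T5.Ymm.bz_eq (w := 247) (c := ⟨⟨.negSucc 1517, .negSucc 202, .negSucc 119, .ofNat 102, .negSucc 260, .negSucc 300⟩, ⟨.ofNat 777, .ofNat 208, .ofNat 177, .negSucc 38, .ofNat 192, .ofNat 214⟩, ⟨.ofNat 85, .negSucc 449, .negSucc 121, .negSucc 357, .negSucc 882, .negSucc 993⟩, ⟨.negSucc 2648, .ofNat 27, .ofNat 15, .ofNat 486, .ofNat 187, .ofNat 100⟩, ⟨.negSucc 460, .ofNat 171, .ofNat 324, .ofNat 578, .ofNat 978, .ofNat 907⟩, .ofNat 1562, .ofNat 2148, .ofNat 0, .ofNat 2148, .ofNat 3837, .ofNat 0, .ofNat 128, .negSucc 525, .ofNat 275, .ofNat 0, .ofNat 359, .negSucc 196, .ofNat 0, .ofNat 0, .ofNat 1469, .ofNat 935, .ofNat 0, .ofNat 133611588008511363972728298215610316179287442456576,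 .ofNat 120008919012481091509461527176298344597503868928, .ofNat 0, .ofNat 0, .ofNat 537647990745934911150467765945536347384659618824192, .ofNat 7473750124557747670072914748686188603435972034560, .ofNat 0, .ofNat 0, .ofNat 5157759310927218790558295331300260430487007726141440, .ofNat 3967844789800385510817900357210625851576155111424, .ofNat 0, .ofNat 0, .ofNat 17630248022187148146620172052458699409153007447703552, .ofNat 0, .ofNat 0⟩)
    (by decide +kernel)
theorem L08401 : Good (Phi V5.P V5.D (-1) (-1)) ⟨4, 13, 3, 4, 4, 15, 3, 5, 5, 8⟩ :=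
  out_sound (S := T5.ds_mm) T5.ok_mm (w := 38) (j := 2) (by decide +kernel)
theorem L08402 : Good (Phi V5.P V5.D (-1) (-1)) ⟨4, 13, 3, 5, 3, 7, 2, 2, 5, 8⟩ :=
  out_sound (S := T5.ds_mm) T5.ok_mm (w := 51) (j := 3) (by decide +kernel)
theorem L08403 : Good (Phi V5.P V5.D (-1) (-1)) ⟨4, 13, 3, 4, 3, 7, 3, 4, 6, 18⟩ :=
  leafX_sound T5.ok_mm T5.Ymm.bz_eq (w := 238) (c := ⟨⟨.negSucc 1652, .negSucc 34, .negSucc 157, .ofNat 154, .negSucc 216, .negSucc 95⟩, ⟨.ofNat 867, .ofNat 86, .ofNat 218, .negSucc 58, .ofNat 151, .ofNat 66⟩, ⟨.negSucc 120, .negSucc 69, .negSucc 351, .negSucc 947, .negSucc 988, .negSucc 499⟩, ⟨.negSucc 2807, .ofNat 88, .negSucc 2, .ofNat 945, .ofNat 245, .ofNat 85⟩, ⟨.negSucc 467, .negSucc 28, .ofNat 362, .ofNat 1219, .ofNat 952, .ofNat 377⟩, .ofNat 747, .ofNat 826, .ofNat 0, .ofNat 826, .ofNat 1627, .ofNat 0, .ofNat 128, .negSucc 479, .ofNat 245, .ofNat 0, .ofNat 391, .negSucc 204, .ofNat 0, .ofNat 0, .ofNat 1706, .ofNat 2437,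 .ofNat 0, .ofNat 451516815724277715832580940189139137331510378496, .ofNat 0, .ofNat 0, .ofNat 0, .ofNat 1631620392190391160752742617842500962776642486272, .ofNat 1578258811657918540947994050425515120739221504, .ofNat 0, .ofNat 0, .ofNat 21964799903196999138760806506049689929788703113216, .ofNat 6175891484258719948907926013834253291929731072, .ofNat 0, .ofNat 0, .ofNat 62316561608618424962798771018120063282272800866304, .ofNat 23793153691651848491806411043050350050212315136, .ofNat 0⟩)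
    (by decide +kernel)
theorem L08404 : Good (Phi V5.P V5.D (-1) (-1)) ⟨4, 13, 3, 4, 3, 7, 3, 4, 6, 19⟩ :=
  out_sound (S := T5.ds_mm) T5.ok_mm (w := 38) (j := 2) (by decide +kernel)
theorem L08405 : Good (Phi V5.P V5.D (-1) (-1)) ⟨4, 13, 3, 5, 3, 7, 3, 4, 5, 9⟩ :=
  out_sound (S := T5.ds_mm) T5.ok_mm (w := 51) (j := 3) (by decide +kernel)
theorem L08406 : Good (Phi V5.P V5.D (-1) (-1)) ⟨4, 13, 2, 2, 3, 7, 3, 5, 5, 9⟩ :=
  out_sound (S := T5.ds_mm) T5.ok_mm (w := 36) (j := 2) (by decide +kernel)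
theorem L08407 : Good (Phi V5.P V5.D (-1) (-1)) ⟨5, 28, 4, 8, 2, 3, 2, 2, 5, 8⟩ :=
  out_sound (S := T5.ds_mm) T5.ok_mm (w := 59) (j := 3) (by decide +kernel)
theorem L08408 : Good (Phi V5.P V5.D (-1) (-1)) ⟨6, 56, 4, 9, 3, 6, 3, 4, 5, 8⟩ :=
  leafX_sound T5.ok_mm T5.Ymm.bz_eq (w := 249) (c := ⟨⟨.negSucc 2041, .ofNat 70, .negSucc 157, .ofNat 335, .negSucc 48, .ofNat 31⟩, ⟨.ofNat 1203, .negSucc 40, .ofNat 191, .negSucc 205, .ofNat 37, .negSucc 15⟩, ⟨.ofNat 973, .ofNat 141, .negSucc 316, .negSucc 670, .negSucc 590, .negSucc 516⟩, ⟨.negSucc 3725, .ofNat 45, .negSucc 131, .ofNat 756, .ofNat 337, .ofNat 322⟩, ⟨.negSucc 1283, .negSucc 152, .ofNat 168, .ofNat 440, .ofNat 640, .ofNat 437⟩, .ofNat 3130, .ofNat 4421, .ofNat 0, .ofNat 4421, .ofNat 7065, .ofNat 0, .ofNat 128, .negSucc 1638, .ofNat 23, .ofNat 0, .ofNat 1143, .negSucc 46, .ofNat 0, .ofNat 0, .ofNat 3675, .ofNat 3316, .ofNat 0, .ofNat 0, .ofNat 0, .ofNat 0, .ofNat 0, .ofNat 0, .ofNat 471622841232936729683288883667610489501777920,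 .ofNat 0, .ofNat 0, .ofNat 3308578811397432045724287178444902006939640890654720, .ofNat 2398474354153987201019548098980001265846583296, .ofNat 0, .ofNat 0, .ofNat 0, .ofNat 0, .ofNat 0⟩)
    (by decide +kernel)
theorem L08409 : Good (Phi V5.P V5.D (-1) (-1)) ⟨6, 56, 4, 9, 4, 12, 3, 5, 5, 8⟩ :=
  leafX_sound T5.ok_mm T5.Ymm.bz_eq (w := 262) (c := ⟨⟨.negSucc 1961, .negSucc 143, .ofNat 1, .ofNat 9, .negSucc 171, .negSucc 119⟩, ⟨.ofNat 1175, .ofNat 115, .ofNat 62, .ofNat 0, .ofNat 121, .ofNat 84⟩, ⟨.ofNat 465, .negSucc 163, .negSucc 29, .negSucc 514, .negSucc 804, .negSucc 795⟩, ⟨.negSucc 3377, .negSucc 44, .negSucc 6, .ofNat 262, .ofNat 340, .ofNat 237⟩, ⟨.negSucc 895, .ofNat 164, .negSucc 9, .ofNat 393, .ofNat 922, .ofNat 645⟩, .ofNat 2068, .ofNat 2828, .ofNat 0, .ofNat 2828, .ofNat 4655, .ofNat 0, .ofNat 128, .negSucc 1778, .ofNat 370, .ofNat 0, .ofNat 1209, .negSucc 276, .ofNat 0, .ofNat 0, .ofNat 4223, .ofNat 1469, .ofNat 0, .ofNat 125462590887885151294431833374718210667206214735101952,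 .ofNat 62650140383745764869017185520466543046821937152, .ofNat 0, .ofNat 0, .ofNat 733928280527496489606492047845693492414037719051665408, .ofNat 3813084834224892679400653965602984616177042456576, .ofNat 0, .ofNat 0, .ofNat 24594811993027835937530066734532113314179533417488580608, .ofNat 22598843454940683749318942258744387180501135261696, .ofNat 0, .ofNat 0, .ofNat 109204179489151725984982245985737320234389001107765460992, .ofNat 38450026467871175692509495980187528149026994126848, .ofNat 0⟩)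
    (by decide +kernel)
theorem L08410 : Good (Phi V5.P V5.D (-1) (-1)) ⟨6, 56, 4, 9, 4, 13, 4, 10, 5, 8⟩ :=
  leafX_sound T5.ok_mm T5.Ymm.bz_eq (w := 262) (c := ⟨⟨.negSucc 1852, .negSucc 111, .negSucc 6, .ofNat 20, .negSucc 148, .negSucc 278⟩, ⟨.ofNat 1112, .ofNat 97, .ofNat 62, .negSucc 4, .ofNat 102, .ofNat 188⟩, ⟨.ofNat 0, .negSucc 240, .ofNat 71, .negSucc 510, .negSucc 455, .negSucc 1017⟩, ⟨.negSucc 3123, .negSucc 42, .ofNat 24, .ofNat 426, .ofNat 161, .ofNat 209⟩, ⟨.negSucc 764, .ofNat 72, .ofNat 89, .ofNat 632, .ofNat 595, .ofNat 960⟩, .ofNat 845, .ofNat 949, .ofNat 0, .ofNat 949, .ofNat 1716, .ofNat 0, .ofNat 128, .negSucc 818, .ofNat 391, .ofNat 0, .ofNat 620, .negSucc 328, .ofNat 0, .ofNat 0, .ofNat 2472, .ofNat 979, .ofNat 0, .ofNat 539691067364165533542660419014129197612386691221291008, .ofNat 1931019479633948733358619630516674682732012371968, .ofNat 0, .ofNat 0, .ofNat 0, .ofNat 10678458339352492084020537006798180588785422565376,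 .ofNat 0, .ofNat 0, .ofNat 36171857554484383691782882181802803005507451028139671552, .ofNat 115362500560669523337925942464237440740290683994112, .ofNat 0, .ofNat 0, .ofNat 207795797885427766786302586931065137434033566517968240640, .ofNat 261629489658427825652789446293475090422694181601280, .ofNat 0⟩)
    (by decide +kernel)
theorem L08411 : Good (Phi V5.P V5.D (-1) (-1)) ⟨6, 56, 4, 9, 4, 13, 4, 11, 5, 8⟩ :=
  leafX_sound T5.ok_mm T5.Ymm.bz_eq (w := 267) (c := ⟨⟨.negSucc 1880, .negSucc 50, .negSucc 125, .negSucc 75, .negSucc 248, .negSucc 414⟩, ⟨.ofNat 1140, .ofNat 64, .ofNat 131, .ofNat 59, .ofNat 169, .ofNat 279⟩, ⟨.negSucc 267, .negSucc 80, .negSucc 151, .negSucc 628, .negSucc 591, .negSucc 1205⟩, ⟨.negSucc 2735, .ofNat 51, .negSucc 64, .ofNat 117, .negSucc 149, .negSucc 252⟩, ⟨.negSucc 46, .ofNat 107, .ofNat 159, .ofNat 358, .ofNat 322, .ofNat 533⟩, .ofNat 5926, .ofNat 8827, .ofNat 0, .ofNat 8827, .ofNat 14007, .ofNat 0, .ofNat 128, .negSucc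 894, .ofNat 387, .ofNat 0, .ofNat 591, .negSucc 260, .ofNat 0, .ofNat 0, .ofNat 1968, .ofNat 1971, .ofNat 0, .ofNat 2065131708461304976771801739856050742740637831552565248, .ofNat 4896211194559469127467149025263488220797880762368, .ofNat 0, .ofNat 0, .ofNat 0, .ofNat 530014167755188249784835102115840174501200689889280, .ofNat 0, .ofNat 0, .ofNat 108597135632217317904115098174474404479649721255773339648, .ofNat 184405445316998508682257961539017971419628531875840, .ofNat 0, .ofNat 0, .ofNat 325663920159851684065028452843299095478964027897279414272, .ofNat 0, .ofNat 0⟩)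
    (by decide +kernel)
theorem L08412 : Good (Phi V5.P V5.D (-1) (-1)) ⟨6, 56, 4, 9, 4, 14, 3, 4, 5, 8⟩ :=
  leafX_sound T5.ok_mm T5.Ymm.bz_eq (w := 262) (c := ⟨⟨.negSucc 1694, .negSucc 130, .ofNat 49, .ofNat 160, .negSucc 181, .negSucc 182⟩, ⟨.ofNat 1013, .ofNat 104, .ofNat 22, .negSucc 92, .ofNat 127, .ofNat 126⟩, ⟨.ofNat 205, .negSucc 271, .ofNat 125, .negSucc 270, .negSucc 779, .negSucc 843⟩, ⟨.negSucc 3101, .negSucc 40, .ofNat 95, .ofNat 637, .ofNat 350, .ofNat 288⟩, ⟨.negSucc 1072, .ofNat 137, .ofNat 60, .ofNat 646, .ofNat 961, .ofNat 864⟩, .ofNat 2038, .ofNat 2784, .ofNat 0, .ofNat 2784, .ofNat 4592, .ofNat 0, .ofNat 128, .negSucc 1561, .ofNat 731, .ofNat 0, .ofNat 1106, .negSucc 542, .ofNat 0, .ofNat 0, .ofNat 4402, .ofNat 2237, .ofNat 0, .ofNat 126653900647978171619160979828996415372742308222992384, .ofNat 213808094248191324779323697673325426178959343616, .ofNat 0, .ofNat 0, .ofNat 0, .ofNat 4589854381558337629312304338836949053968048193536,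 .ofNat 0, .ofNat 0, .ofNat 23889028677572421629185450094141062553621118457005211648, .ofNat 34660387236696796164018303496688394313027228270592, .ofNat 0, .ofNat 0, .ofNat 144942772918553711516115747029584601318398802256665247744, .ofNat 60150270896613993628109619835145947442121503932416, .ofNat 0⟩)
    (by decide +kernel)
theorem L08413 : Good (Phi V5.P V5.D (-1) (-1)) ⟨6, 56, 4, 9, 4, 15, 3, 4, 5, 8⟩ :=
  leafX_sound T5.ok_mm T5.Ymm.bz_eq (w := 263) (c := ⟨⟨.negSucc 1494, .negSucc 30, .ofNat 12, .ofNat 170, .negSucc 199, .negSucc 259⟩, ⟨.ofNat 906, .ofNat 46, .ofNat 25, .negSucc 93, .ofNat 144, .ofNat 182⟩, ⟨.negSucc 14, .negSucc 101, .ofNat 74, .negSucc 148, .negSucc 838, .negSucc 952⟩, ⟨.negSucc 2438, .ofNat 61, .ofNat 96, .ofNat 722, .ofNat 296, .ofNat 241⟩, ⟨.negSucc 470, .ofNat 79, .ofNat 130, .ofNat 763, .ofNat 925, .ofNat 970⟩, .ofNat 3929, .ofNat 5726, .ofNat 0, .ofNat 5726, .ofNat 9188, .ofNat 0, .ofNat 128, .negSucc 1232, .ofNat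 703, .ofNat 0, .ofNat 848, .negSucc 503, .ofNat 0, .ofNat 0, .ofNat 3467, .ofNat 2378, .ofNat 0, .ofNat 222849213616222889954956780133671389406971849225535488, .ofNat 72947969867335906928357309955272292962922397696, .ofNat 0, .ofNat 0, .ofNat 401589646239013782216881661405136142522293388809601024, .ofNat 24511270564545621516881246537257007711041894744064, .ofNat 0, .ofNat 0, .ofNat 34138451906496379379361993028372059598166515371393155072, .ofNat 24356064716578443988505295605082002640331461361664, .ofNat 0, .ofNat 0, .ofNat 133493089047865512986754917901149459533349779215319302144, .ofNat 54524575261774012682359576191439358689077381562368, .ofNat 0⟩)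
    (by decide +kernel)
theorem L08414 : Good (Phi V5.P V5.D (-1) (-1)) ⟨6, 56, 4, 9, 4, 14, 4, 10, 5, 8⟩ :=
  leafX_sound T5.ok_mm T5.Ymm.bz_eq (w := 266) (c := ⟨⟨.negSucc 1657, .negSucc 51, .negSucc 126, .ofNat 1, .negSucc 286, .negSucc 523⟩, ⟨.ofNat 1004, .ofNat 65, .ofNat 123, .ofNat 13, .ofNat 195, .ofNat 354⟩, ⟨.negSucc 220, .negSucc 119, .negSucc 160, .negSucc 535, .negSucc 662, .negSucc 1382⟩, ⟨.negSucc 2351, .negSucc 15, .negSucc 89, .ofNat 286, .negSucc 206, .negSucc 348⟩, ⟨.ofNat 62, .ofNat 9, .ofNat 119, .ofNat 450, .ofNat 316, .ofNat 624⟩, .ofNat 5981, .ofNat 8921, .ofNat 0, .ofNat 8921, .ofNat 14169, .ofNat 0, .ofNat 128, .negSucc 552, .ofNat 381, .ofNat 0, .ofNat 368, .negSucc 257, .ofNat 0, .ofNat 0, .ofNat 1546, .ofNat 950, .ofNat 0, .ofNat 1168241772740641232336096786784042573980158225102667776, .ofNat 1361351589071027941864207993359109139501085097984, .ofNat 0, .ofNat 0, .ofNat 0, .ofNat 501350294159173045788319260826744548949964628164608,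 .ofNat 0, .ofNat 0, .ofNat 34109815826623606099555566425201921014979327133545922560, .ofNat 103459432825624896288066382978088275306716082470912, .ofNat 0, .ofNat 0, .ofNat 151977823853616247459546098309422025297629045806994554880, .ofNat 0, .ofNat 0⟩)
    (by decide +kernel)
theorem L08415 : Good (Phi V5.P V5.D (-1) (-1)) ⟨6, 56, 4, 9, 4, 15, 4, 10, 5, 8⟩ :=
  out_sound (S := T5.ds_mm) T5.ok_mm (w := 40) (j := 2) (by decide +kernel)
theorem L08416 : Good (Phi V5.P V5.D (-1) (-1)) ⟨6, 56, 4, 9, 3, 7, 4, 11, 5, 8⟩ :=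
  out_sound (S := T5.ds_mm) T5.ok_mm (w := 38) (j := 2) (by decide +kernel)
theorem L08417 : Good (Phi V5.P V5.D (-1) (-1)) ⟨6, 57, 4, 9, 2, 3, 2, 2, 5, 8⟩ :=
  out_sound (S := T5.ds_mm) T5.ok_mm (w := 65) (j := 3) (by decide +kernel)
theorem L08418 : Good (Phi V5.P V5.D (-1) (-1)) ⟨5, 28, 4, 10, 4, 12, 3, 4, 5, 8⟩ :=
  leafX_sound T5.ok_mm T5.Ymm.bz_eq (w := 259) (c := ⟨⟨.negSucc 2023, .negSucc 638, .ofNat 317, .ofNat 127, .negSucc 19, .ofNat 48⟩, ⟨.ofNat 1280, .ofNat 448, .negSucc 129, .negSucc 81, .ofNat 16, .negSucc 28⟩, ⟨.ofNat 921, .negSucc 773, .ofNat 355, .negSucc 391, .negSucc 561, .negSucc 522⟩, ⟨.negSucc 3723, .negSucc 416, .ofNat 183, .ofNat 307, .ofNat 337, .ofNat 338⟩, ⟨.negSucc 1216, .ofNat 335, .negSucc 244, .ofNat 196, .ofNat 562, .ofNat 417⟩, .ofNat 2460, .ofNat 3359, .ofNat 0, .ofNat 3359, .ofNat 5340, .ofNat 0, .ofNat 128, .negSucc 2751, .negSucc 182, .ofNat 0, .ofNat 1899, .ofNat 90, .ofNat 0, .ofNat 0, .ofNat 5288, .ofNat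 4452, .ofNat 0, .ofNat 0, .ofNat 0, .ofNat 0, .ofNat 0, .ofNat 0, .ofNat 47967260973782749793550391813349522593080068276224, .ofNat 7892010169411375571929200442587677378586771887617772355584, .ofNat 0, .ofNat 0, .ofNat 0, .ofNat 0, .ofNat 0, .ofNat 0, .ofNat 0, .ofNat 0⟩)
    (by decide +kernel)
theorem L08419 : Good (Phi V5.P V5.D (-1) (-1)) ⟨5, 28, 4, 10, 4, 13, 3, 4, 6, 16⟩ :=
  leafX_sound T5.ok_mm T5.Ymm.bz_eq (w := 259) (c := ⟨⟨.negSucc 1892, .negSucc 260, .ofNat 115, .ofNat 163, .negSucc 97, .negSucc 12⟩, ⟨.ofNat 1201, .ofNat 183, .ofNat 3, .negSucc 102, .ofNat 67, .ofNat 10⟩, ⟨.ofNat 519, .negSucc 395, .ofNat 157, .negSucc 341, .negSucc 633, .negSucc 287⟩, ⟨.negSucc 3462, .negSucc 124, .ofNat 43, .ofNat 475, .ofNat 330, .ofNat 156⟩, ⟨.negSucc 1189, .ofNat 310, .negSucc 216, .ofNat 395, .ofNat 729, .ofNat 275⟩, .ofNat 391, .ofNat 297, .ofNat 0, .ofNat 297, .ofNat 646, .ofNat 0, .ofNat 128, .negSucc 567, .ofNat 30, .ofNat 0, .ofNat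 545, .negSucc 112, .ofNat 0, .ofNat 0, .ofNat 1330, .ofNat 2290, .ofNat 0, .ofNat 0, .ofNat 0, .ofNat 0, .ofNat 0, .ofNat 0, .ofNat 25788668640937576543359767303641429721764012752896, .ofNat 0, .ofNat 0, .ofNat 0, .ofNat 34379331184135683370120151346117634211571438714880, .ofNat 47123196321931871751588690941636654177109540242907463680000, .ofNat 0, .ofNat 0, .ofNat 216155977014655698113794652319336372965253482283008, .ofNat 0⟩)
    (by decide +kernel)
theorem L08420 : Good (Phi V5.P V5.D (-1) (-1)) ⟨5, 28, 4, 10, 4, 13, 3, 4, 6, 17⟩ :=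
  leafX_sound T5.ok_mm T5.Ymm.bz_eq (w := 262) (c := ⟨⟨.negSucc 1623, .negSucc 820, .ofNat 274, .ofNat 79, .negSucc 275, .negSucc 114⟩, ⟨.ofNat 1015, .ofNat 607, .negSucc 133, .negSucc 48, .ofNat 185, .ofNat 76⟩, ⟨.ofNat 778, .negSucc 1478, .ofNat 485, .negSucc 488, .negSucc 986, .negSucc 516⟩, ⟨.negSucc 3283, .negSucc 339, .ofNat 196, .ofNat 491, .ofNat 309, .ofNat 147⟩, ⟨.negSucc 1312, .ofNat 522, .ofNat 6, .ofNat 587, .ofNat 1056, .ofNat 458⟩, .ofNat 1476, .ofNat 1877, .ofNat 0, .ofNat 1877, .ofNat 3090, .ofNat 0, .ofNat 128, .negSucc 1745, .ofNat 565, .ofNat 0, .ofNat 1270, .negSucc 447, .ofNat 0, .ofNat 0, .ofNat 4892, .ofNat 3222, .ofNat 0, .ofNat 19421699842395821669478493571573175675145936212852736, .ofNat 18890648747304872641596228559706354416515733782528, .ofNat 0, .ofNat 0, .ofNat 0, .ofNat 548896693441571289404879582939005835023223235805184, .ofNat 104531220221075240704543445192276451087872891926582975791104, .ofNat 0, .ofNat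 9322053461421469095156778687577616617171249386561208320, .ofNat 5454185305944083488598255465976464730503713524809728, .ofNat 1205024801635665942999459908797274520384282575511302870925312, .ofNat 0, .ofNat 80294393611366300802252911572112921979594520756368703488, .ofNat 8983628206207605123580472826872316532078290426396672, .ofNat 0⟩)
    (by decide +kernel)
theorem L08421 : Good (Phi V5.P V5.D (-1) (-1)) ⟨5, 28, 4, 10, 4, 12, 4, 10, 5, 8⟩ :=
  leafX_sound T5.ok_mm T5.Ymm.bz_eq (w := 259) (c := ⟨⟨.negSucc 1808, .negSucc 636, .ofNat 208, .negSucc 36, .negSucc 135, .negSucc 160⟩, ⟨.ofNat 1139, .ofNat 470, .negSucc 75, .ofNat 25, .ofNat 90, .ofNat 108⟩, ⟨.ofNat 692, .negSucc 926, .ofNat 302, .negSucc 588, .negSucc 475, .negSucc 885⟩, ⟨.negSucc 3344, .negSucc 261, .ofNat 103, .ofNat 262, .ofNat 163, .ofNat 242⟩, ⟨.negSucc 1054, .ofNat 417, .negSucc 78, .ofNat 479, .ofNat 536, .ofNat 719⟩, .ofNat 907, .ofNat 1027, .ofNat 0, .ofNat 1027, .ofNat 1787,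 .ofNat 0, .ofNat 128, .negSucc 1242, .ofNat 171, .ofNat 0, .ofNat 922, .negSucc 170, .ofNat 0, .ofNat 0, .ofNat 2696, .ofNat 2828, .ofNat 0, .ofNat 0, .ofNat 0, .ofNat 0, .ofNat 0, .ofNat 101187753584226563290816115561878779520435575681187840, .ofNat 74581086452668108765673475089215757426429643456512, .ofNat 0, .ofNat 0, .ofNat 1206227194743639257806839322410547807517157412514562048, .ofNat 637586018998492830971090436153515128277305854525440, .ofNat 78181753963424905087115428505219452868409759413885433020416, .ofNat 0, .ofNat 9540218455600493818338575220822864138366381482187948032, .ofNat 987129346193025827709106884882071763176012866650112, .ofNat 0⟩)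
    (by decide +kernel)
theorem L08422 : Good (Phi V5.P V5.D (-1) (-1)) ⟨5, 28, 4, 10, 4, 12, 4, 11, 5, 8⟩ :=
  leafX_sound T5.ok_mm T5.Ymm.bz_eq (w := 263) (c := ⟨⟨.negSucc 1906, .negSucc 213, .negSucc 31, .negSucc 133, .negSucc 180, .negSucc 300⟩, ⟨.ofNat 1204, .ofNat 192, .ofNat 80, .ofNat 92, .ofNat 123, .ofNat 203⟩, ⟨.ofNat 259, .negSucc 398, .ofNat 16, .negSucc 690, .negSucc 515, .negSucc 1104⟩, ⟨.negSucc 3176, .negSucc 22, .ofNat 0, .ofNat 196, .ofNat 132, .ofNat 159⟩, ⟨.negSucc 627, .ofNat 98, .ofNat 137, .ofNat 584, .ofNat 589, .ofNat 885⟩, .ofNat 2456, .ofNat 3354, .ofNat 0, .ofNat 3354, .ofNat 5333, .ofNat 0, .ofNat 128, .negSucc 2532, .ofNat 795, .ofNat 0, .ofNat 1738, .negSucc 572, .ofNat 0, .ofNat 0, .ofNat 5554, .ofNat 2400, .ofNat 0, .ofNat 127932470790115773338861664242203741016088723090046976, .ofNat 13846006779564360806935218824340426803326251696128, .ofNat 0, .ofNat 0, .ofNat 347368448986117937305474837300600050122088499090817024,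 .ofNat 427233405981314420843136733073828777693199156117504, .ofNat 148608832314119566732310346668316043152494949492729640386560, .ofNat 0, .ofNat 18376255296637382584042833782047315807825998381827751936, .ofNat 2048418729339882295286763705068679524643133838065664, .ofNat 624043349881451141704865873072443805986289883262325834645504, .ofNat 0, .ofNat 74543892506212631644530695375587139684991060255178752000, .ofNat 7005666971964371895079318908016308514025593158762496, .ofNat 0⟩)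
    (by decide +kernel)
theorem L08423 : Good (Phi V5.P V5.D (-1) (-1)) ⟨5, 28, 4, 10, 4, 13, 4, 10, 6, 16⟩ :=
  leafX_sound T5.ok_mm T5.Ymm.bz_eq (w := 268) (c := ⟨⟨.negSucc 1830, .negSucc 76, .negSucc 106, .negSucc 30, .negSucc 224, .negSucc 184⟩, ⟨.ofNat 1154, .ofNat 110, .ofNat 121, .ofNat 24, .ofNat 151, .ofNat 123⟩, ⟨.ofNat 72, .negSucc 41, .negSucc 191, .negSucc 596, .negSucc 563, .negSucc 577⟩, ⟨.negSucc 3141, .ofNat 3, .negSucc 17, .ofNat 453, .ofNat 141, .ofNat 127⟩, ⟨.negSucc 794, .ofNat 70, .ofNat 163, .ofNat 759, .ofNat 700, .ofNat 586⟩, .ofNat 2442, .ofNat 3335, .ofNat 0, .ofNat 3335, .ofNat 5306, .ofNat 0, .ofNat 128, .negSucc 1986, .ofNat 871, .ofNat 0, .ofNat 1374, .negSucc 627, .ofNat 0, .ofNat 0, .ofNat 4949, .ofNat 3625, .ofNat 0, .ofNat 0, .ofNat 0, .ofNat 0, .ofNat 0, .ofNat 0, .ofNat 14834432983693908073406824489587743833158582020341760, .ofNat 0, .ofNat 0, .ofNat 76691104659156623480540370264126387858747710600757903360,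 .ofNat 36779530323755832314990062625567683244769853654958080, .ofNat 19734635347608114948052946776316274062985581966104150564405248, .ofNat 0, .ofNat 443203911057052156869064513222372482268188151754956734464, .ofNat 197854112963606022019409548124097653734195504196091904, .ofNat 0⟩)
    (by decide +kernel)
theorem L08424 : Good (Phi V5.P V5.D (-1) (-1)) ⟨5, 28, 4, 10, 4, 13, 4, 10, 6, 17⟩ :=
  leafX_sound T5.ok_mm T5.Ymm.bz_eq (w := 267) (c := ⟨⟨.negSucc 1825, .negSucc 557, .ofNat 105, .negSucc 157, .negSucc 312, .negSucc 230⟩, ⟨.ofNat 1149, .ofNat 435, .negSucc 21, .ofNat 111, .ofNat 211, .ofNat 156⟩, ⟨.negSucc 132, .negSucc 909, .ofNat 187, .negSucc 861, .negSucc 763, .negSucc 753⟩, ⟨.negSucc 2968, .negSucc 76, .ofNat 44, .ofNat 379, .ofNat 77, .ofNat 62⟩, ⟨.negSucc 351, .ofNat 210, .ofNat 183, .ofNat 910, .ofNat 777, .ofNat 586⟩, .ofNat 2454, .ofNat 3349, .ofNat 0, .ofNat 3349, .ofNat 5324, .ofNat 0, .ofNat 128, .negSucc 1674, .ofNat 951,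 .ofNat 0, .ofNat 1164, .negSucc 673, .ofNat 0, .ofNat 0, .ofNat 4438, .ofNat 3458, .ofNat 0, .ofNat 1945690749920117610067938073617680919574900369445093376, .ofNat 403682054295588311046820847070765026463310457864192, .ofNat 0, .ofNat 0, .ofNat 4225998102500425758417567611914247618807742610121162752, .ofNat 13533060101160617006985613035337114769656028900360192, .ofNat 0, .ofNat 0, .ofNat 161171658015460933330115272601540520442353310634828890112, .ofNat 59322746841978480231273999903756896777507742779703296, .ofNat 0, .ofNat 0, .ofNat 592199281218682306406502696849795663372626031902512381952, .ofNat 150677230301650701926065614868974468216936377444466688, .ofNat 0⟩)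
    (by decide +kernel)

end Crest.Agent.R097C5.N5mm
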