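import Crest.Agent.R097.KP7
import Crest.Agent.R097.T5Ymm

/-!
# Row 97, box cover in dimension n = 5 (generated)
-/

set_option autoImplicit false
set_option Elab.async false
set_option maxHeartbeats 0
set_option maxRecDepth 100000

open Crest.Agent.R097 Crest.Agent.R097.KA


namespace Crest.Agent.R097C5.N5mm

theorem L08425 : Good (Phi V5.P V5.D (-1) (-1)) ⟨5, 28, 4, 10, 5, 26, 4, 11, 5, 8⟩ :=
  leafX_sound T5.ok_mm T5.Ymm.bz_eq (w := 275) (c := ⟨⟨.negSucc 1950, .negSucc 193, .negSucc 95, .negSucc 80, .negSucc 321, .negSucc 529⟩, ⟨.ofNat 1237, .ofNat 177, .ofNat 121, .ofNat 56, .ofNat 217, .ofNat 356⟩, ⟨.negSucc 326, .negSucc 357, .negSucc 58, .negSucc 374, .negSucc 678, .negSucc 1422⟩, ⟨.negSucc 2934, .negSucc 57, .negSucc 0, .ofNat 181, .ofNat 93, .ofNat 123⟩, ⟨.negSucc 199, .ofNat 159, .ofNat 177, .ofNat 450, .ofNat 831, .ofNat 1327⟩, .ofNat 1474, .ofNat 1875, .ofNat 0, .ofNat 1875, .ofNat 3087, .ofNat 0, .ofNat 128, .negSucc 1649, .ofNat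 853, .ofNat 0, .ofNat 1169, .negSucc 636, .ofNat 0, .ofNat 0, .ofNat 3894, .ofNat 3310, .ofNat 0, .ofNat 1258100695205891139302722137625518973426737294589659447296, .ofNat 108467369034900284650765480463989426731267041498497024, .ofNat 0, .ofNat 0, .ofNat 2785991975812985867084638334289488522449324149665049870336, .ofNat 2037999079926285324404015149264838044327207675384299520, .ofNat 0, .ofNat 0, .ofNat 99374487295915190635642808404401606375764776270842071875584, .ofNat 6952870761418738616960850296221370152446930586446069760, .ofNat 0, .ofNat 0, .ofNat 324611828848224967844055627146609937944640375790035749830656, .ofNat 24489017163719162668745922252907474094891725130253205504, .ofNat 0⟩)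
    (by decide +kernel)
theorem L08426 : Good (Phi V5.P V5.D (-1) (-1)) ⟨5, 28, 4, 10, 5, 27, 4, 11, 5, 8⟩ :=
  leafX_sound T5.ok_mm T5.Ymm.bz_eq (w := 273) (c := ⟨⟨.negSucc 2042, .ofNat 75, .negSucc 288, .negSucc 107, .negSucc 415, .negSucc 756⟩, ⟨.ofNat 1298, .ofNat 12, .ofNat 239, .ofNat 75, .ofNat 280, .ofNat 510⟩, ⟨.negSucc 740, .ofNat 137, .negSucc 398, .negSucc 421, .negSucc 812, .negSucc 1742⟩, ⟨.negSucc 2772, .ofNat 65, .negSucc 70, .ofNat 225, .ofNat 70, .ofNat 96⟩, ⟨.ofNat 195, .ofNat 33, .ofNat 326, .ofNat 570, .ofNat 999, .ofNat 1744⟩, .ofNat 899, .ofNat 1017, .ofNat 0, .ofNat 1017, .ofNat 1778, .ofNat 0, .ofNat 128, .negSucc 705, .ofNat 486, .ofNat 0, .ofNat 530, .negSucc 392, .ofNat 0, .ofNat 0, .ofNat 1892, .ofNat 2905, .ofNat 0, .ofNat 1659754863167311148137088377602633909654430036237477740544, .ofNat 7653974824873154103377534271664515844428938205986816, .ofNat 0, .ofNat 0, .ofNat 1998299101655847057983093324647105414707842538624771948544,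 .ofNat 726557835111537344582705794126568845487991055185870848, .ofNat 0, .ofNat 0, .ofNat 46837988033557297839854923062389821928715813211620828512256, .ofNat 1098536219081921567719767187671758710871144893884923904, .ofNat 0, .ofNat 0, .ofNat 157320860240483000330673939691857796112797378027836330213376, .ofNat 9237388452477218686141132171200698172208753598842011648, .ofNat 0⟩)
    (by decide +kernel)
theorem L08427 : Good (Phi V5.P V5.D (-1) (-1)) ⟨6, 56, 4, 11, 3, 6, 2, 2, 5, 8⟩ :=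
  out_sound (S := T5.ds_mm) T5.ok_mm (w := 65) (j := 3) (by decide +kernel)
theorem L08428 : Good (Phi V5.P V5.D (-1) (-1)) ⟨7, 114, 5, 22, 3, 6, 2, 2, 5, 8⟩ :=
  out_sound (S := T5.ds_mm) T5.ok_mm (w := 73) (j := 3) (by decide +kernel)
theorem L08429 : Good (Phi V5.P V5.D (-1) (-1)) ⟨7, 115, 5, 22, 3, 6, 2, 2, 5, 8⟩ :=
  out_sound (S := T5.ds_mm) T5.ok_mm (w := 21) (j := 4) (by decide +kernel)
theorem L08430 : Good (Phi V5.P V5.D (-1) (-1)) ⟨6, 57, 5, 23, 3, 6, 2, 2, 5, 8⟩ :=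
  out_sound (S := T5.ds_mm) T5.ok_mm (w := 67) (j := 3) (by decide +kernel)
theorem L08431 : Good (Phi V5.P V5.D (-1) (-1)) ⟨7, 112, 5, 20, 4, 14, 3, 4, 5, 8⟩ :=
  leafX_sound T5.ok_mm T5.Ymm.bz_eq (w := 270) (c := ⟨⟨.negSucc 1639, .negSucc 41, .negSucc 8, .ofNat 146, .negSucc 221, .negSucc 197⟩, ⟨.ofNat 1030, .ofNat 40, .ofNat 28, .negSucc 85, .ofNat 152, .ofNat 135⟩, ⟨.ofNat 293, .negSucc 57, .negSucc 20, .negSucc 298, .negSucc 828, .negSucc 856⟩, ⟨.negSucc 3032, .negSucc 3, .ofNat 12, .ofNat 635, .ofNat 353, .ofNat 313⟩, ⟨.negSucc 1061, .ofNat 49, .ofNat 34, .ofNat 667, .ofNat 1043, .ofNat 928⟩, .ofNat 3060, .ofNat 4373, .ofNat 0, .ofNat 4373, .ofNat 7056, .ofNat 0, .ofNat 128, .negSucc 1629, .ofNat 877, .ofNat 0, .ofNat 1103, .negSucc 605, .ofNat 0, .ofNat 0, .ofNat 4251, .ofNat 2955, .ofNat 0, .ofNat 18317546526900280817422715010212343923080111718811041792, .ofNat 115684067776124146148966567564902842665770418176, .ofNat 0, .ofNat 0, .ofNat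 0, .ofNat 0, .ofNat 0, .ofNat 0, .ofNat 2637168048807197435743995071716548001401378444230021611520, .ofNat 15728986094842779313398504993154177954225466638336, .ofNat 0, .ofNat 0, .ofNat 19784855003513042706873471527134975167279377073144640569344, .ofNat 33104789978044849596363518278429340109290376003584, .ofNat 0⟩)
    (by decide +kernel)
theorem L08432 : Good (Phi V5.P V5.D (-1) (-1)) ⟨7, 112, 5, 20, 4, 15, 3, 4, 5, 8⟩ :=
  leafX_sound T5.ok_mm T5.Ymm.bz_eq (w := 269) (c := ⟨⟨.negSucc 1441, .negSucc 29, .ofNat 43, .ofNat 146, .negSucc 258, .negSucc 331⟩, ⟨.ofNat 904, .ofNat 34, .negSucc 14, .negSucc 80, .ofNat 180, .ofNat 229⟩, ⟨.ofNat 120, .negSucc 61, .ofNat 37, .negSucc 207, .negSucc 933, .negSucc 1095⟩, ⟨.negSucc 2395, .ofNat 47, .ofNat 96, .ofNat 726, .ofNat 366, .ofNat 286⟩, ⟨.negSucc 510, .ofNat 105, .ofNat 47, .ofNat 812, .ofNat 1146, .ofNat 1184⟩, .ofNat 3311, .ofNat 4720, .ofNat 0, .ofNat 4720, .ofNat 7536, .ofNat 0, .ofNat 128, .negSucc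 1129, .ofNat 680, .ofNat 0, .ofNat 787, .negSucc 492, .ofNat 0, .ofNat 0, .ofNat 3193, .ofNat 2180, .ofNat 0, .ofNat 31878991337214267730648930626321790791058808436363886592, .ofNat 24398237618466628733589399618231523953950588928, .ofNat 0, .ofNat 0, .ofNat 0, .ofNat 4931373627711390589675273815356426787643822440448, .ofNat 0, .ofNat 0, .ofNat 3486521998633631654856845864266342298041286969291691786240, .ofNat 12556258055515235657336850084938492524937875554304, .ofNat 0, .ofNat 0, .ofNat 15282843075186494800104853886525422209801811990624822362112, .ofNat 27547100441570275030362074209628517232932168925184, .ofNat 0⟩)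
    (by decide +kernel)
theorem L08433 : Good (Phi V5.P V5.D (-1) (-1)) ⟨7, 113, 5, 20, 3, 7, 4, 8, 5, 8⟩ :=
  leafX_sound T5.ok_mm T5.Ymm.bz_eq (w := 260) (c := ⟨⟨.negSucc 1654, .ofNat 77, .negSucc 126, .ofNat 309, .negSucc 109, .negSucc 221⟩, ⟨.ofNat 1052, .negSucc 45, .ofNat 114, .negSucc 187, .ofNat 75, .ofNat 150⟩, ⟨.ofNat 313, .ofNat 196, .negSucc 301, .negSucc 510, .negSucc 435, .negSucc 923⟩, ⟨.negSucc 2965, .ofNat 116, .negSucc 98, .ofNat 1288, .ofNat 176, .ofNat 263⟩, ⟨.negSucc 944, .negSucc 7, .ofNat 105, .ofNat 1315, .ofNat 508, .ofNat 885⟩, .ofNat 5094, .ofNat 7375, .ofNat 0, .ofNat 7375, .ofNat 11480, .ofNat 0, .ofNat 128, .negSucc 980, .ofNat 591, .ofNat 0, .ofNat 674, .negSucc 413, .ofNat 0, .ofNat 0, .ofNat 2653, .ofNat 1890, .ofNat 0, .ofNat 8569330835182956262254901630648779544339515988508672, .ofNat 83164726690330297972615503358655699345211392, .ofNat 0, .ofNat 0, .ofNat 0, .ofNat 21741467151819165246218728734920131157646376960,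 .ofNat 0, .ofNat 0, .ofNat 649921767894780820599575895725921979199395768546885632, .ofNat 7162277611415812391211082279165322603647729664, .ofNat 0, .ofNat 0, .ofNat 7405321527217844829009003910862674879759529037023674368, .ofNat 29006121054820564111594495316329803867488256000, .ofNat 0⟩)
    (by decide +kernel)
theorem L08434 : Good (Phi V5.P V5.D (-1) (-1)) ⟨7, 113, 5, 20, 4, 14, 4, 9, 5, 8⟩ :=
  leafX_sound T5.ok_mm T5.Ymm.bz_eq (w := 278) (c := ⟨⟨.negSucc 1661, .ofNat 89, .negSucc 177, .ofNat 84, .negSucc 190, .negSucc 373⟩, ⟨.ofNat 1059, .negSucc 47, .ofNat 142, .negSucc 46, .ofNat 130, .ofNat 254⟩, ⟨.ofNat 37, .ofNat 184, .negSucc 333, .negSucc 406, .negSucc 521, .negSucc 1192⟩, ⟨.negSucc 2667, .ofNat 150, .negSucc 94, .ofNat 458, .ofNat 58, .ofNat 47⟩, ⟨.negSucc 456, .ofNat 62, .ofNat 159, .ofNat 525, .ofNat 500, .ofNat 881⟩, .ofNat 7654, .ofNat 11270, .ofNat 0, .ofNat 11270, .ofNat 17412, .ofNat 0, .ofNat 128, .negSucc 2884, .ofNat 1716,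 .ofNat 0, .ofNat 1945, .negSucc 1169, .ofNat 0, .ofNat 0, .ofNat 7503, .ofNat 6059, .ofNat 0, .ofNat 310314786132673916999356162094395628512310115820036423680, .ofNat 5108518008295258465126164622652016698795006885888, .ofNat 0, .ofNat 0, .ofNat 789246547019435859711667554503404076383297610172642361344, .ofNat 1258640444984049208799178435055418897925749528854528, .ofNat 0, .ofNat 0, .ofNat 50468860546955436143459412433319687304824072678467818225664, .ofNat 1030036903312562516067625968559497975246288045735936, .ofNat 0, .ofNat 0, .ofNat 321542429647368492244520421161773486115001039657309554343936, .ofNat 3658006434201293272985118586215528015097957059657728, .ofNat 0⟩)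
    (by decide +kernel)
theorem L08435 : Good (Phi V5.P V5.D (-1) (-1)) ⟨7, 113, 5, 20, 4, 15, 4, 9, 5, 8⟩ :=
  leafX_sound T5.ok_mm T5.Ymm.bz_eq (w := 271) (c := ⟨⟨.negSucc 1546, .negSucc 30, .negSucc 24, .ofNat 103, .negSucc 250, .negSucc 548⟩, ⟨.ofNat 993, .ofNat 39, .ofNat 25, .negSucc 55, .ofNat 172, .ofNat 377⟩, ⟨.negSucc 321, .negSucc 98, .ofNat 6, .negSucc 305, .negSucc 639, .negSucc 1468⟩, ⟨.negSucc 2189, .ofNat 16, .ofNat 86, .ofNat 800, .ofNat 189, .ofNat 266⟩, ⟨.ofNat 18, .ofNat 51, .ofNat 172, .ofNat 1009, .ofNat 836, .ofNat 1603⟩, .ofNat 2371, .ofNat 3238, .ofNat 0, .ofNat 3238, .ofNat 5180, .ofNat 0, .ofNat 128, .negSucc 762, .ofNat 622, .ofNat 0, .ofNat 544, .negSucc 460, .ofNat 0, .ofNat 0, .ofNat 2327, .ofNat 2515, .ofNat 0, .ofNat 251436935842762039149367338324970327748402260088719409152, .ofNat 427600903291598440117700953869084499988732444672, .ofNat 0, .ofNat 0, .ofNat 0, .ofNat 0, .ofNat 0, .ofNat 0, .ofNat 12221398729878491511691173433828892755425480587237874728960,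 .ofNat 31350051044287235112699914684295726299976409546752, .ofNat 0, .ofNat 0, .ofNat 55293870589162086539754184200160062263770053874879263932416, .ofNat 131134328750087041764971379785665415680954512441344, .ofNat 0⟩)
    (by decide +kernel)
theorem L08436 : Good (Phi V5.P V5.D (-1) (-1)) ⟨6, 56, 5, 21, 3, 7, 4, 8, 5, 8⟩ :=
  leafX_sound T5.ok_mm T5.Ymm.bz_eq (w := 256) (c := ⟨⟨.negSucc 1716, .negSucc 0, .negSucc 71, .ofNat 331, .negSucc 105, .negSucc 221⟩, ⟨.ofNat 1132, .ofNat 1, .ofNat 80, .negSucc 209, .ofNat 70, .ofNat 148⟩, ⟨.ofNat 172, .ofNat 0, .negSucc 6, .negSucc 471, .negSucc 408, .negSucc 924⟩, ⟨.negSucc 2981, .negSucc 0, .negSucc 48, .ofNat 1335, .ofNat 188, .ofNat 291⟩, ⟨.negSucc 856, .ofNat 0, .ofNat 13, .ofNat 1318, .ofNat 507, .ofNat 910⟩, .ofNat 5306, .ofNat 7789, .ofNat 0, .ofNat 7789, .ofNat 12236, .ofNat 0, .ofNat 128, .negSucc 1127, .ofNat 672, .ofNat 0, .ofNat 751, .negSucc 451, .ofNat 0, .ofNat 0, .ofNat 2981, .ofNat 2250,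 .ofNat 0, .ofNat 0, .ofNat 246121043131744935322450965002810939406286848, .ofNat 0, .ofNat 0, .ofNat 0, .ofNat 0, .ofNat 0, .ofNat 0, .ofNat 59452372787696900914561086007210481022035184872062976, .ofNat 407033624903301252705432359178102847316164608, .ofNat 0, .ofNat 0, .ofNat 613183283955328450118273063757917260276384852562935808, .ofNat 74171883093541011779141006024046274916934221824, .ofNat 0⟩)
    (by decide +kernel)
theorem L08437 : Good (Phi V5.P V5.D (-1) (-1)) ⟨6, 56, 5, 21, 4, 14, 4, 9, 5, 8⟩ :=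
  leafX_sound T5.ok_mm T5.Ymm.bz_eq (w := 274) (c := ⟨⟨.negSucc 1735, .negSucc 0, .negSucc 30, .ofNat 78, .negSucc 210, .negSucc 394⟩, ⟨.ofNat 1145, .ofNat 1, .ofNat 39, .negSucc 46, .ofNat 142, .ofNat 267⟩, ⟨.negSucc 92, .negSucc 0, .ofNat 41, .negSucc 417, .negSucc 539, .negSucc 1235⟩, ⟨.negSucc 2763, .negSucc 0, .negSucc 10, .ofNat 588, .ofNat 138, .ofNat 198⟩, ⟨.negSucc 488, .ofNat 0, .ofNat 6, .ofNat 725, .ofNat 658, .ofNat 1139⟩, .ofNat 6482, .ofNat 9391, .ofNat 0, .ofNat 9391, .ofNat 14392, .ofNat 0, .ofNat 128, .negSucc 2853, .ofNat 1849, .ofNat 0, .ofNat 1944, .negSucc 1274, .ofNat 0, .ofNat 0, .ofNat 8105, .ofNat 6308, .ofNat 0, .ofNat 22157886076145902595440649933332035158478115684973805568, .ofNat 13048614230808755075430925575905760025228030771200, .ofNat 0, .ofNat 0, .ofNat 0, .ofNat 1894730579553348523935412474033082600475956533526528, .ofNat 0, .ofNat 0, .ofNat 3541353737090593037297035125571860768347612919383868833792, .ofNat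 1100830706095695536085822860747817657412043048747008, .ofNat 0, .ofNat 0, .ofNat 24172302580681643763124027002478367381598636908968828469248, .ofNat 8622012785315579435229328978410030768071510945955840, .ofNat 0⟩)
    (by decide +kernel)
theorem L08438 : Good (Phi V5.P V5.D (-1) (-1)) ⟨6, 56, 5, 21, 4, 15, 4, 9, 5, 8⟩ :=
  leafX_sound T5.ok_mm T5.Ymm.bz_eq (w := 277) (c := ⟨⟨.negSucc 1593, .negSucc 0, .negSucc 102, .ofNat 94, .negSucc 270, .negSucc 579⟩, ⟨.ofNat 1053, .ofNat 1, .ofNat 77, .negSucc 53, .ofNat 185, .ofNat 395⟩, ⟨.negSucc 396, .negSucc 0, .negSucc 172, .negSucc 332, .negSucc 671, .negSucc 1530⟩, ⟨.negSucc 1843, .negSucc 0, .negSucc 23, .ofNat 171, .negSucc 185, .negSucc 502⟩, ⟨.ofNat 604, .ofNat 1, .ofNat 13, .ofNat 65, .ofNat 293, .ofNat 460⟩, .ofNat 14643, .ofNat 21681, .ofNat 0, .ofNat 21681, .ofNat 32906, .ofNat 0, .ofNat 128, .negSucc 3306, .ofNat 2171, .ofNat 0, .ofNat 2230, .negSucc 1474, .ofNat 0, .ofNat 0, .ofNat 7703,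 .ofNat 7716, .ofNat 0, .ofNat 53789019429431422156381172759288270887031834058149593088, .ofNat 250418624735783624240349839664884766492824189272064, .ofNat 0, .ofNat 0, .ofNat 0, .ofNat 6724889684240683266730346277471063021098794661969920, .ofNat 0, .ofNat 0, .ofNat 9304072768875794853902394529379611167183564254911087509504, .ofNat 2688600018831224319019971834604794067335665525194752, .ofNat 0, .ofNat 0, .ofNat 37501096448109004489208484514739158940815507963690702864384, .ofNat 31059131887880587295245062203065965074334649910558720, .ofNat 0⟩)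
    (by decide +kernel)
theorem L08439 : Good (Phi V5.P V5.D (-1) (-1)) ⟨7, 114, 4, 10, 4, 14, 3, 4, 6, 16⟩ :=
  leafX_sound T5.ok_mm T5.Ymm.bz_eq (w := 271) (c := ⟨⟨.negSucc 1769, .negSucc 64, .ofNat 105, .ofNat 159, .negSucc 271, .negSucc 118⟩, ⟨.ofNat 1162, .ofNat 68, .negSucc 51, .negSucc 105, .ofNat 181, .ofNat 77⟩, ⟨.ofNat 94, .negSucc 81, .ofNat 158, .negSucc 303, .negSucc 887, .negSucc 462⟩, ⟨.negSucc 3114, .ofNat 38, .ofNat 28, .ofNat 734, .ofNat 396, .ofNat 233⟩, ⟨.negSucc 1035, .ofNat 66, .ofNat 14, .ofNat 764, .ofNat 1168, .ofNat 598⟩, .ofNat 2280, .ofNat 3037, .ofNat 0, .ofNat 3037, .ofNat 4765, .ofNat 0, .ofNat 128, .negSucc 1821, .ofNat 1016, .ofNat 0, .ofNat 1320, .negSucc 775, .ofNat 0, .ofNat 0, .ofNat 5403, .ofNat 3826, .ofNat 0, .ofNat 0, .ofNat 0, .ofNat 0, .ofNat 0, .ofNat 0, .ofNat 51531829459091845378085774681176844517690245644288, .ofNat 0, .ofNat 0, .ofNat 2643252121678930626533046775870587275145953021012196982784, .ofNat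 181890159051835505963281793053867717546845440835584, .ofNat 56603711017469766086814342911650703018747490074516162498002944, .ofNat 0, .ofNat 26543893607580583366338839675651568125636335902324842037248, .ofNat 557366459782375408916421851156162078309518860615680, .ofNat 181789703240559390971620637302585588976141540454347119842557952⟩)
    (by decide +kernel)
theorem L08440 : Good (Phi V5.P V5.D (-1) (-1)) ⟨7, 115, 4, 10, 4, 14, 3, 4, 6, 16⟩ :=
  out_sound (S := T5.ds_mm) T5.ok_mm (w := 21) (j := 4) (by decide +kernel)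
theorem L08441 : Good (Phi V5.P V5.D (-1) (-1)) ⟨7, 114, 4, 10, 4, 14, 4, 8, 6, 17⟩ :=
  leafX_sound T5.ok_mm T5.Ymm.bz_eq (w := 276) (c := ⟨⟨.negSucc 1604, .ofNat 59, .negSucc 280, .ofNat 79, .negSucc 187, .negSucc 169⟩, ⟨.ofNat 1050, .negSucc 14, .ofNat 210, .negSucc 50, .ofNat 125, .ofNat 113⟩, ⟨.ofNat 140, .ofNat 65, .negSucc 437, .negSucc 462, .negSucc 583, .negSucc 628⟩, ⟨.negSucc 2887, .ofNat 21, .negSucc 14, .ofNat 741, .ofNat 188, .ofNat 171⟩, ⟨.negSucc 700, .ofNat 89, .ofNat 90, .ofNat 948, .ofNat 677, .ofNat 612⟩, .ofNat 2678, .ofNat 3653, .ofNat 0, .ofNat 3653, .ofNat 5719, .ofNat 0, .ofNat 128, .negSucc 2000, .ofNat 1450, .ofNat 0, .ofNat 1428, .negSucc 1061, .ofNat 0, .ofNat 0, .ofNat 7256, .ofNat 3925, .ofNat 0, .ofNat 0, .ofNat 0, .ofNat 0, .ofNat 0, .ofNat 0, .ofNat 2657691345796271676095343310018154072543999496814592, .ofNat 113859414813398466968719951025018988459491988616547444929331200, .ofNat 0, .ofNat 0, .ofNat 0, .ofNat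 0, .ofNat 0, .ofNat 217049600674154870452962869350051075253738720048675339370496, .ofNat 0, .ofNat 1832712375038441710940419319265031178973398501579405361741299712⟩)
    (by decide +kernel)
theorem L08442 : Good (Phi V5.P V5.D (-1) (-1)) ⟨7, 114, 4, 10, 4, 14, 4, 9, 6, 17⟩ :=
  leafX_sound T5.ok_mm T5.Ymm.bz_eq (w := 273) (c := ⟨⟨.negSucc 1851, .negSucc 99, .ofNat 1, .negSucc 66, .negSucc 345, .negSucc 281⟩, ⟨.ofNat 1214, .ofNat 92, .ofNat 20, .ofNat 48, .ofNat 233, .ofNat 190⟩, ⟨.negSucc 510, .negSucc 162, .negSucc 12, .negSucc 742, .negSucc 829, .negSucc 844⟩, ⟨.negSucc 2699, .ofNat 24, .ofNat 13, .ofNat 693, .ofNat 147, .ofNat 138⟩, ⟨.negSucc 158, .ofNat 166, .ofNat 62, .ofNat 1183, .ofNat 946, .ofNat 801⟩, .ofNat 2690, .ofNat 3669, .ofNat 0, .ofNat 3669, .ofNat 5740, .ofNat 0, .ofNat 128, .negSucc 719, .ofNat 602, .ofNat 0, .ofNat 511, .negSucc 432, .ofNat 0, .ofNat 0, .ofNat 2394, .ofNat 2406, .ofNat 0, .ofNat 264334614206170716868635309370583512519795623158832168960,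 .ofNat 0, .ofNat 0, .ofNat 0, .ofNat 0, .ofNat 1097767929765820775493190790543504384105543687471104, .ofNat 0, .ofNat 0, .ofNat 9798175089175995462402790621657922029160115532209298866176, .ofNat 445219302416129630326731459290038421888363929796608, .ofNat 0, .ofNat 0, .ofNat 50825920500844046722592780813933178952952883632951720411136, .ofNat 0, .ofNat 0⟩)
    (by decide +kernel)
theorem L08443 : Good (Phi V5.P V5.D (-1) (-1)) ⟨7, 115, 4, 10, 4, 14, 3, 4, 6, 17⟩ :=
  out_sound (S := T5.ds_mm) T5.ok_mm (w := 21) (j := 4) (by decide +kernel)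
theorem L08444 : Good (Phi V5.P V5.D (-1) (-1)) ⟨7, 114, 4, 10, 4, 15, 3, 4, 6, 16⟩ :=
  leafX_sound T5.ok_mm T5.Ymm.bz_eq (w := 272) (c := ⟨⟨.negSucc 1475, .negSucc 30, .negSucc 31, .ofNat 176, .negSucc 329, .negSucc 174⟩, ⟨.ofNat 952, .ofNat 23, .ofNat 69, .negSucc 113, .ofNat 222, .ofNat 117⟩, ⟨.negSucc 7, .negSucc 109, .ofNat 47, .negSucc 150, .negSucc 1047, .negSucc 566⟩, ⟨.negSucc 2437, .ofNat 102, .ofNat 40, .ofNat 895, .ofNat 510, .ofNat 255⟩, ⟨.negSucc 520, .ofNat 182, .ofNat 92, .ofNat 975, .ofNat 1461, .ofNat 752⟩, .ofNat 2702, .ofNat 3685, .ofNat 0, .ofNat 3685, .ofNat 5761, .ofNat 0, .ofNat 128, .negSucc 1907, .ofNat 1166, .ofNat 0, .ofNat 1374, .negSucc 880, .ofNat 0, .ofNat 0, .ofNat 4991, .ofNat 2827, .ofNat 0, .ofNat 24265327877956595885969814156627234884865430156119900160, .ofNat 571951793158744178842923400155716981253566627840, .ofNat 0, .ofNat 0, .ofNat 89194206427124292576813237429320761997123733992102690816, .ofNat 137547181026005502524109327543219573723785083224064,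 .ofNat 3233317689980565923588019445191251734741630262524626792873984, .ofNat 0, .ofNat 7758956996233286611994976605730877070505710895189572190208, .ofNat 85918908999307359011608095475481054056054312140800, .ofNat 0, .ofNat 0, .ofNat 33292148755246292596067392402474750865136591978907670937600, .ofNat 0, .ofNat 0⟩)
    (by decide +kernel)
theorem L08445 : Good (Phi V5.P V5.D (-1) (-1)) ⟨7, 114, 4, 10, 4, 15, 3, 4, 6, 17⟩ :=
  leafX_sound T5.ok_mm T5.Ymm.bz_eq (w := 267) (c := ⟨⟨.negSucc 1613, .negSucc 51, .negSucc 22, .ofNat 55, .negSucc 506, .negSucc 261⟩, ⟨.ofNat 1067, .ofNat 61, .ofNat 19, .negSucc 33, .ofNat 341, .ofNat 176⟩, ⟨.negSucc 417, .negSucc 105, .negSucc 57, .negSucc 464, .negSucc 1486, .negSucc 819⟩, ⟨.negSucc 2197, .ofNat 69, .ofNat 33, .ofNat 974, .ofNat 526, .ofNat 256⟩, ⟨.ofNat 125, .ofNat 166, .ofNat 78, .ofNat 1344, .ofNat 1852, .ofNat 933⟩, .ofNat 937, .ofNat 1064, .ofNat 0, .ofNat 1064, .ofNat 1820, .ofNat 0, .ofNat 128, .negSucc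 441, .ofNat 406, .ofNat 0, .ofNat 372, .negSucc 370, .ofNat 0, .ofNat 0, .ofNat 1746, .ofNat 1778, .ofNat 0, .ofNat 60365399689232291692430878853097410672063254438013304832, .ofNat 0, .ofNat 0, .ofNat 0, .ofNat 230481860778044467392654447781811000345122597422713798656, .ofNat 0, .ofNat 0, .ofNat 0, .ofNat 2084265243855284114878465780303271862647943723230974443520, .ofNat 7762471241347962980232953642716582787341908705280, .ofNat 0, .ofNat 0, .ofNat 8568608284575105161259572455003207067385811790103641587712, .ofNat 20415486953925044479106788708052816454749802987520, .ofNat 0⟩)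
    (by decide +kernel)
theorem L08446 : Good (Phi V5.P V5.D (-1) (-1)) ⟨7, 115, 4, 10, 4, 15, 3, 4, 5, 8⟩ :=
  out_sound (S := T5.ds_mm) T5.ok_mm (w := 21) (j := 4) (by decide +kernel)
theorem L08447 : Good (Phi V5.P V5.D (-1) (-1)) ⟨5, 28, 4, 10, 4, 14, 4, 10, 6, 16⟩ :=
  leafX_sound T5.ok_mm T5.Ymm.bz_eq (w := 268) (c := ⟨⟨.negSucc 1821, .ofNat 135, .negSucc 282, .negSucc 24, .negSucc 330, .negSucc 286⟩, ⟨.ofNat 1152, .negSucc 25, .ofNat 226, .ofNat 26, .ofNat 225, .ofNat 195⟩, ⟨.negSucc 473, .ofNat 319, .negSucc 481, .negSucc 594, .negSucc 705, .negSucc 754⟩, ⟨.negSucc 2571, .ofNat 116, .ofNat 42, .ofNat 414, .negSucc 91, .negSucc 41⟩, ⟨.negSucc 21, .ofNat 168, .ofNat 389, .ofNat 688, .ofNat 569, .ofNat 552⟩, .ofNat 5641, .ofNat 8183, .ofNat 0, .ofNat 8183, .ofNat 12669, .ofNat 0, .ofNat 128, .negSucc 817, .ofNat 660, .ofNat 0, .ofNat 555, .negSucc 452, .ofNat 0, .ofNat 0, .ofNat 2387, .ofNat 1301, .ofNat 0, .ofNat 691131831656805605632266102850887246080873595433648128,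 .ofNat 14663189563686667141192899195789822835980161253376, .ofNat 0, .ofNat 0, .ofNat 0, .ofNat 36201543736906198499344705503124293642250319757836288, .ofNat 0, .ofNat 0, .ofNat 35556199476261781896123451489019619837476217407705972736, .ofNat 8692449285684365508630457539874707933724107832557568, .ofNat 0, .ofNat 0, .ofNat 167681219029391783866218962973855266357207517784140939264, .ofNat 3469333892598301369244238828596679785365905587830784, .ofNat 0⟩)
    (by decide +kernel)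
theorem L08448 : Good (Phi V5.P V5.D (-1) (-1)) ⟨5, 28, 4, 10, 4, 14, 4, 10, 6, 17⟩ :=
  leafX_sound T5.ok_mm T5.Ymm.bz_eq (w := 265) (c := ⟨⟨.negSucc 2037, .negSucc 132, .negSucc 184, .ofNat 1, .negSucc 494, .ofNat 1⟩, ⟨.ofNat 1294, .ofNat 168, .ofNat 156, .negSucc 0, .ofNat 340, .negSucc 0⟩, ⟨.negSucc 1080, .negSucc 241, .negSucc 285, .ofNat 1, .negSucc 1060, .ofNat 1⟩, ⟨.negSucc 2560, .ofNat 41, .ofNat 19, .ofNat 1, .negSucc 39, .ofNat 1⟩, ⟨.ofNat 561, .ofNat 211, .ofNat 359, .negSucc 0, .ofNat 942, .negSucc 0⟩, .ofNat 903, .ofNat 1022, .ofNat 0, .ofNat 1022, .ofNat 1782, .ofNat 0, .ofNat 128, .negSucc 417, .ofNat 284, .ofNat 0, .ofNat 326, .negSucc 229, .ofNat 0, .ofNat 0, .ofNat 1065, .ofNat 10687, .ofNat 0, .ofNat 5148512794022435790404381200058582499830283301994627072, .ofNat 0, .ofNat 0, .ofNat 0, .ofNat 49983206571644112817655131329610307868973743500288851968, .ofNat 1124409354959309020561243254037336400712713105309696, .ofNat 0, .ofNat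 0, .ofNat 121854029547533801508624555897512541660803887625714794496, .ofNat 1888005738973323407185200859682729168163115890638848, .ofNat 0, .ofNat 0, .ofNat 447693036647460179591848934859851734060542141757250338816, .ofNat 7998437468604919101735445761497949541623467874451456, .ofNat 3689442023377910623773772170235354365525265391719477405548544⟩)
    (by decide +kernel)
theorem L08449 : Good (Phi V5.P V5.D (-1) (-1)) ⟨5, 28, 4, 10, 4, 15, 4, 10, 5, 8⟩ :=
  out_sound (S := T5.ds_mm) T5.ok_mm (w := 40) (j := 2) (by decide +kernel)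
theorem L08450 : Good (Phi V5.P V5.D (-1) (-1)) ⟨5, 28, 4, 10, 3, 7, 4, 11, 5, 8⟩ :=
  out_sound (S := T5.ds_mm) T5.ok_mm (w := 38) (j := 2) (by decide +kernel)
theorem L08451 : Good (Phi V5.P V5.D (-1) (-1)) ⟨6, 56, 4, 11, 3, 7, 2, 2, 5, 8⟩ :=
  out_sound (S := T5.ds_mm) T5.ok_mm (w := 65) (j := 3) (by decide +kernel)
theorem L08452 : Good (Phi V5.P V5.D (-1) (-1)) ⟨7, 114, 5, 22, 3, 7, 2, 2, 5, 8⟩ :=
  out_sound (S := T5.ds_mm) T5.ok_mm (w := 73) (j := 3) (by decide +kernel)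
theorem L08453 : Good (Phi V5.P V5.D (-1) (-1)) ⟨7, 115, 5, 22, 3, 7, 2, 2, 5, 8⟩ :=
  out_sound (S := T5.ds_mm) T5.ok_mm (w := 21) (j := 4) (by decide +kernel)
theorem L08454 : Good (Phi V5.P V5.D (-1) (-1)) ⟨6, 57, 5, 23, 3, 7, 2, 2, 5, 8⟩ :=
  out_sound (S := T5.ds_mm) T5.ok_mm (w := 67) (j := 3) (by decide +kernel)
theorem L08455 : Good (Phi V5.P V5.D (-1) (-1)) ⟨5, 28, 2, 2, 4, 12, 4, 8, 5, 9⟩ :=
  leafX_sound T5.ok_mm T5.Ymm.bz_eq (w := 252) (c := ⟨⟨.negSucc 1529, .ofNat 341, .negSucc 1096, .ofNat 15, .negSucc 86, .negSucc 72⟩, ⟨.ofNat 814, .negSucc 190, .ofNat 1009, .negSucc 7, .ofNat 58, .ofNat 50⟩, ⟨.ofNat 1511, .ofNat 806, .negSucc 2432, .negSucc 606, .negSucc 455, .negSucc 833⟩, ⟨.negSucc 3248, .ofNat 183, .negSucc 493, .ofNat 273, .ofNat 124, .ofNat 228⟩, ⟨.negSucc 1205, .negSucc 107, .ofNat 576, .ofNat 393, .ofNat 374, .ofNat 506⟩, .ofNat 888, .ofNat 1004, .ofNat 0, .ofNat 1004, .ofNat 1767, .ofNat 0, .ofNat 128, .negSucc 814, .ofNat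 213, .ofNat 0, .ofNat 626, .negSucc 187, .ofNat 0, .ofNat 0, .ofNat 3069, .ofNat 1625, .ofNat 0, .ofNat 0, .ofNat 319233532086679748346205505272002801373076783104, .ofNat 0, .ofNat 0, .ofNat 0, .ofNat 14165615976739310520416293446532902782463333367808, .ofNat 0, .ofNat 0, .ofNat 0, .ofNat 31861429380371538693054885330109510940609510113280, .ofNat 0, .ofNat 0, .ofNat 0, .ofNat 0, .ofNat 0⟩)
    (by decide +kernel)
theorem L08456 : Good (Phi V5.P V5.D (-1) (-1)) ⟨5, 28, 2, 2, 4, 12, 4, 9, 6, 18⟩ :=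
  leafX_sound T5.ok_mm T5.Ymm.bz_eq (w := 258) (c := ⟨⟨.negSucc 1747, .negSucc 34, .negSucc 385, .negSucc 85, .negSucc 151, .negSucc 107⟩, ⟨.ofNat 975, .ofNat 70, .ofNat 504, .ofNat 59, .ofNat 102, .ofNat 72⟩, ⟨.ofNat 735, .ofNat 17, .negSucc 910, .negSucc 795, .negSucc 580, .negSucc 557⟩, ⟨.negSucc 3220, .ofNat 21, .negSucc 150, .ofNat 248, .ofNat 118, .ofNat 100⟩, ⟨.negSucc 977, .ofNat 105, .ofNat 296, .ofNat 566, .ofNat 511, .ofNat 386⟩, .ofNat 889, .ofNat 1005, .ofNat 0, .ofNat 1005, .ofNat 1766, .ofNat 0, .ofNat 128, .negSucc 1109, .ofNat 351, .ofNat 0, .ofNat 843, .negSucc 296, .ofNat 0, .ofNat 0, .ofNat 3588, .ofNat 2487, .ofNat 0, .ofNat 0, .ofNat 0, .ofNat 0, .ofNat 0, .ofNat 0, .ofNat 459019242419799134756305728411493899015231371214848, .ofNat 0, .ofNat 0, .ofNat 0, .ofNat 1238703216618123106158890100411637068397676802867200, .ofNat 624628058827808822542729974225761684139858880705493938995200, .ofNat 0, .ofNat 0, .ofNat 0, .ofNat 0⟩)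
    (by decide +kernel)
theorem L08457 : Good (Phi V5.P V5.D (-1) (-1)) ⟨5, 28, 3, 4, 4, 12, 4, 9, 6, 19⟩ :=
  leafX_sound T5.ok_mm T5.Ymm.bz_eq (w := 261) (c := ⟨⟨.negSucc 1720, .ofNat 65, .negSucc 309, .negSucc 115, .negSucc 147, .negSucc 107⟩, ⟨.ofNat 961, .ofNat 2, .ofNat 327, .ofNat 80, .ofNat 100, .ofNat 72⟩, ⟨.ofNat 542, .ofNat 207, .negSucc 732, .negSucc 903, .negSucc 621, .negSucc 605⟩, ⟨.negSucc 2983, .ofNat 129, .negSucc 199, .ofNat 198, .ofNat 97, .ofNat 56⟩, ⟨.negSucc 765, .negSucc 77, .ofNat 321, .ofNat 576, .ofNat 489, .ofNat 332⟩, .ofNat 846, .ofNat 951, .ofNat 0, .ofNat 951, .ofNat 1718, .ofNat 0, .ofNat 128, .negSucc 884, .ofNat 500, .ofNat 0, .ofNat 678, .negSucc 390, .ofNat 0, .ofNat 0, .ofNat 3583, .ofNat 3661, .ofNat 0, .ofNat 0, .ofNat 0, .ofNat 0, .ofNat 0, .ofNat 222870612242965421024154969784406082646704923508473856, .ofNat 2060793505445462365658409045083963277916113926619136, .ofNat 0, .ofNat 0, .ofNat 5218191671150636304314288300738561410334241033837084672,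 .ofNat 16652487929145101547501107355069977020681198183120896, .ofNat 0, .ofNat 0, .ofNat 31761427524833029534404322943155982020608487788159959040, .ofNat 7821966106920118316625457281516879061359489313669120, .ofNat 0⟩)
    (by decide +kernel)
theorem L08458 : Good (Phi V5.P V5.D (-1) (-1)) ⟨5, 28, 3, 5, 4, 12, 4, 9, 6, 19⟩ :=
  leafX_sound T5.ok_mm T5.Ymm.bz_eq (w := 261) (c := ⟨⟨.negSucc 2011, .ofNat 45, .negSucc 330, .negSucc 159, .negSucc 183, .negSucc 107⟩, ⟨.ofNat 1275, .ofNat 18, .ofNat 342, .ofNat 108, .ofNat 123, .ofNat 72⟩, ⟨.negSucc 157, .ofNat 131, .negSucc 697, .negSucc 985, .negSucc 679, .negSucc 612⟩, ⟨.negSucc 3195, .ofNat 82, .negSucc 126, .ofNat 219, .ofNat 95, .ofNat 69⟩, ⟨.negSucc 509, .ofNat 31, .ofNat 304, .ofNat 677, .ofNat 542, .ofNat 341⟩, .ofNat 906, .ofNat 1027, .ofNat 0, .ofNat 1027, .ofNat 1787, .ofNat 0, .ofNat 128, .negSucc 1173, .ofNat 603, .ofNat 0, .ofNat 901, .negSucc 471, .ofNat 0, .ofNat 0, .ofNat 3840, .ofNat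 3529, .ofNat 0, .ofNat 133447854549883541540120412293135531466321361513742336, .ofNat 507632519568452303084371669383351147019481326288896, .ofNat 65745804294029855172729611688695212108610420278785094975488, .ofNat 0, .ofNat 0, .ofNat 688945061447457473781139083512406551874619442200576, .ofNat 0, .ofNat 0, .ofNat 9324453611470691863941055336054269751554778893257801728, .ofNat 17812674842544041146150174114060885104280780587139072, .ofNat 3081617665473189283531661026199093376742007028506499634692096, .ofNat 0, .ofNat 46443326603280223597510766023551551354794308204415156224, .ofNat 45856271988503356380944745744049045572785415221411840, .ofNat 6053343103620747866448492863111400806867548737329137044160512⟩)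
    (by decide +kernel)
theorem L08459 : Good (Phi V5.P V5.D (-1) (-1)) ⟨5, 28, 2, 2, 4, 13, 4, 8, 6, 18⟩ :=
  leafX_sound T5.ok_mm T5.Ymm.bz_eq (w := 257) (c := ⟨⟨.negSucc 1945, .negSucc 309, .ofNat 222, .ofNat 29, .negSucc 138, .negSucc 92⟩, ⟨.ofNat 1102, .ofNat 233, .ofNat 121, .negSucc 12, .ofNat 94, .ofNat 62⟩, ⟨.negSucc 69, .negSucc 601, .ofNat 413, .negSucc 603, .negSucc 535, .negSucc 513⟩, ⟨.negSucc 3184, .ofNat 21, .negSucc 1, .ofNat 452, .ofNat 120, .ofNat 114⟩, ⟨.negSucc 794, .ofNat 350, .negSucc 38, .ofNat 637, .ofNat 490, .ofNat 378⟩, .ofNat 820, .ofNat 889, .ofNat 0, .ofNat 889, .ofNat 1567, .ofNat 0, .ofNat 128, .negSucc 749, .ofNat 419, .ofNat 0, .ofNat 616, .negSucc 361, .ofNat 0, .ofNat 0, .ofNat 2768, .ofNat 2842, .ofNat 0, .ofNat 0, .ofNat 0, .ofNat 0, .ofNat 0, .ofNat 0, .ofNat 231265914528158240373107652967065903380452851318784, .ofNat 0, .ofNat 0, .ofNat 96535740084076003305628371821656616036048116593459200, .ofNat 745077255909679429759781596296614906727737558302720,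 .ofNat 274795518737711058035277947474335406655213785962967835082752, .ofNat 0, .ofNat 1752013936144747294209486113339044954824718597285216256, .ofNat 3251543484986292286882230280369368250824356859478016, .ofNat 693362640634262465002770702676613611001737181910803366805504⟩)
    (by decide +kernel)
theorem L08460 : Good (Phi V5.P V5.D (-1) (-1)) ⟨5, 28, 3, 4, 4, 13, 4, 8, 6, 19⟩ :=
  leafX_sound T5.ok_mm T5.Ymm.bz_eq (w := 262) (c := ⟨⟨.negSucc 1819, .negSucc 146, .negSucc 77, .negSucc 77, .negSucc 190, .negSucc 139⟩, ⟨.ofNat 1031, .ofNat 142, .ofNat 168, .ofNat 61, .ofNat 130, .ofNat 95⟩, ⟨.negSucc 70, .negSucc 326, .negSucc 175, .negSucc 890, .negSucc 713, .negSucc 680⟩, ⟨.negSucc 3014, .ofNat 5, .negSucc 4, .ofNat 345, .ofNat 79, .ofNat 53⟩, ⟨.negSucc 656, .ofNat 148, .ofNat 188, .ofNat 722, .ofNat 556, .ofNat 398⟩, .ofNat 2057, .ofNat 2810, .ofNat 0, .ofNat 2810, .ofNat 4628, .ofNat 0, .ofNat 128, .negSucc 735, .ofNat 408, .ofNat 0, .ofNat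 516, .negSucc 285, .ofNat 0, .ofNat 0, .ofNat 2549, .ofNat 4837, .ofNat 0, .ofNat 119073643298571729066378930159751593510011770752729088, .ofNat 57659863132806223045399022794052189835290321354752, .ofNat 0, .ofNat 0, .ofNat 0, .ofNat 4805590915970648962616704262435364130298612989034496, .ofNat 0, .ofNat 0, .ofNat 6026283064848871044162161994882112178031763157713682432, .ofNat 9117109506911976857807333729804817738030569800859648, .ofNat 0, .ofNat 0, .ofNat 23953751559284634012756931800837096367240683973215518720, .ofNat 6442723025910442988085229193708378967943920280928256, .ofNat 0⟩)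
    (by decide +kernel)
theorem L08461 : Good (Phi V5.P V5.D (-1) (-1)) ⟨5, 28, 4, 10, 4, 13, 4, 8, 6, 19⟩ :=
  leafX_sound T5.ok_mm T5.Ymm.bz_eq (w := 269) (c := ⟨⟨.negSucc 1880, .negSucc 254, .ofNat 7, .negSucc 84, .negSucc 218, .negSucc 140⟩, ⟨.ofNat 1188, .ofNat 217, .ofNat 53, .ofNat 62, .ofNat 149, .ofNat 96⟩, ⟨.negSucc 245, .negSucc 433, .negSucc 47, .negSucc 899, .negSucc 757, .negSucc 696⟩, ⟨.negSucc 2985, .ofNat 21, .ofNat 76, .ofNat 211, .negSucc 9, .negSucc 8⟩, ⟨.negSucc 377, .ofNat 144, .ofNat 241, .ofNat 508, .ofNat 447, .ofNat 290⟩, .ofNat 5657, .ofNat 8206, .ofNat 0, .ofNat 8206, .ofNat 12704, .ofNat 0, .ofNat 128, .negSucc 1354, .ofNat 854, .ofNat 0, .ofNat 921, .negSucc 580, .ofNat 0, .ofNat 0, .ofNat 4952, .ofNat 4064, .ofNat 0, .ofNat 1536612759203921416994682475498761742608024904520433664, .ofNat 492063137184268583818773137431615313849189788549120, .ofNat 121492060216488829934227860836522824342564628111460021567488, .ofNat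 0, .ofNat 5996220326669786656440516113390022327531738414798864384, .ofNat 83094158778081333399529301419093367569510814944591872, .ofNat 1532958008451719154846400149420180722936252040089890705113088, .ofNat 0, .ofNat 125026312484696564535965935759848259465827203356001566720, .ofNat 133004093521599993558865481276678146752336429790003200, .ofNat 0, .ofNat 0, .ofNat 619806988430892984608180796601921466461696686853132910592, .ofNat 270403981913382895942988642581499569220640273076322304, .ofNat 0⟩)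
    (by decide +kernel)
theorem L08462 : Good (Phi V5.P V5.D (-1) (-1)) ⟨6, 56, 4, 11, 4, 13, 4, 8, 6, 19⟩ :=
  out_sound (S := T5.ds_mm) T5.ok_mm (w := 65) (j := 3) (by decide +kernel)
theorem L08463 : Good (Phi V5.P V5.D (-1) (-1)) ⟨7, 114, 5, 22, 4, 13, 4, 8, 6, 19⟩ :=
  out_sound (S := T5.ds_mm) T5.ok_mm (w := 73) (j := 3) (by decide +kernel)
theorem L08464 : Good (Phi V5.P V5.D (-1) (-1)) ⟨7, 115, 5, 22, 4, 13, 4, 8, 6, 19⟩ :=
  out_sound (S := T5.ds_mm) T5.ok_mm (w := 21) (j := 4) (by decide +kernel)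
theorem L08465 : Good (Phi V5.P V5.D (-1) (-1)) ⟨6, 57, 5, 23, 4, 13, 4, 8, 6, 19⟩ :=
  out_sound (S := T5.ds_mm) T5.ok_mm (w := 67) (j := 3) (by decide +kernel)
theorem L08466 : Good (Phi V5.P V5.D (-1) (-1)) ⟨5, 28, 2, 2, 5, 26, 4, 9, 6, 18⟩ :=
  leafX_sound T5.ok_mm T5.Ymm.bz_eq (w := 272) (c := ⟨⟨.negSucc 1720, .negSucc 93, .negSucc 424, .negSucc 58, .negSucc 249, .negSucc 177⟩, ⟨.ofNat 979, .ofNat 122, .ofNat 486, .ofNat 41, .ofNat 167, .ofNat 119⟩, ⟨.ofNat 0, .negSucc 263, .negSucc 601, .negSucc 435, .negSucc 738, .negSucc 715⟩, ⟨.negSucc 3005, .ofNat 5, .negSucc 54, .ofNat 201, .ofNat 112, .ofNat 85⟩, ⟨.negSucc 598, .ofNat 276, .ofNat 294, .ofNat 434, .ofNat 707, .ofNat 516⟩, .ofNat 886, .ofNat 1001, .ofNat 0, .ofNat 1001, .ofNat 1762, .ofNat 0, .ofNat 128, .negSucc 1019, .ofNat 595, .ofNat 0, .ofNat 792, .negSucc 475, .ofNat 0, .ofNat 0, .ofNat 3269, .ofNat 3569, .ofNat 0, .ofNat 93362383759398956975389113099873642770838858077912956928,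 .ofNat 0, .ofNat 0, .ofNat 0, .ofNat 0, .ofNat 5441087450894368789917284035859026656319171571816071168, .ofNat 0, .ofNat 0, .ofNat 5001657300050659533180830707975336826879555148636152135680, .ofNat 17726747180560528969369402831468769618751393027552444416, .ofNat 0, .ofNat 0, .ofNat 22363077585161822201174999002876087017683968467599431303168, .ofNat 8688765500169252765477854029712932546462862255755100160, .ofNat 664863923123521950801309004509580973511830285869944911563849728⟩)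
    (by decide +kernel)
theorem L08467 : Good (Phi V5.P V5.D (-1) (-1)) ⟨5, 28, 2, 2, 5, 27, 4, 9, 6, 18⟩ :=
  leafX_sound T5.ok_mm T5.Ymm.bz_eq (w := 271) (c := ⟨⟨.negSucc 1854, .negSucc 267, .negSucc 128, .negSucc 71, .negSucc 294, .negSucc 242⟩, ⟨.ofNat 1077, .ofNat 238, .ofNat 275, .ofNat 51, .ofNat 198, .ofNat 164⟩, ⟨.negSucc 500, .negSucc 519, .negSucc 226, .negSucc 473, .negSucc 822, .negSucc 849⟩, ⟨.negSucc 2851, .ofNat 34, .ofNat 9, .ofNat 256, .ofNat 113, .ofNat 88⟩, ⟨.negSucc 268, .ofNat 446, .ofNat 253, .ofNat 550, .ofNat 816, .ofNat 660⟩, .ofNat 888, .ofNat 1004, .ofNat 0, .ofNat 1004, .ofNat 1765, .ofNat 0, .ofNat 128, .negSucc 629, .ofNat 538, .ofNat 0, .ofNat 496, .negSucc 433, .ofNat 0, .ofNat 0, .ofNat 2587, .ofNat 2778, .ofNat 0, .ofNat 124759082967728222743054372184684027205521661790942920704, .ofNat 178069434842259623092324542935012771418565716637384704, .ofNat 0, .ofNat 0, .ofNat 231299765986805425847395895287372344769552196769322893312,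 .ofNat 2834505823190250867922943628965500199407710608046424064, .ofNat 0, .ofNat 0, .ofNat 3895123757291720909408683283736477632823852995007035211776, .ofNat 11136245281033154280776122395576458746254841932630982656, .ofNat 8592335712133850366934623707071589481140308118432253556555776, .ofNat 0, .ofNat 19292256654306548716833044187209878433634062999583436308480, .ofNat 21389542549384262681037606750656057749414839616542867456, .ofNat 0⟩)
    (by decide +kernel)
theorem L08468 : Good (Phi V5.P V5.D (-1) (-1)) ⟨5, 28, 2, 2, 4, 13, 4, 9, 6, 19⟩ :=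
  leafX_sound T5.ok_mm T5.Ymm.bz_eq (w := 257) (c := ⟨⟨.negSucc 1850, .negSucc 170, .negSucc 401, .negSucc 300, .negSucc 342, .negSucc 272⟩, ⟨.ofNat 1058, .ofNat 166, .ofNat 492, .ofNat 204, .ofNat 230, .ofNat 183⟩, ⟨.negSucc 471, .negSucc 374, .negSucc 806, .negSucc 1342, .negSucc 1020, .negSucc 995⟩, ⟨.negSucc 2898, .ofNat 10, .negSucc 77, .ofNat 326, .ofNat 72, .ofNat 49⟩, ⟨.negSucc 299, .ofNat 237, .ofNat 605, .ofNat 1150, .ofNat 855, .ofNat 663⟩, .ofNat 388, .ofNat 293, .ofNat 0, .ofNat 293, .ofNat 645, .ofNat 0, .ofNat 128, .negSucc 304, .ofNat 324, .ofNat 0, .ofNat 307, .negSucc 327, .ofNat 0, .ofNat 0, .ofNat 1695, .ofNat 1896, .ofNat 0, .ofNat 42160841342251340330827506013692226471156898561261568, .ofNat 7916686020579518719734155978578719863027984760832, .ofNat 0, .ofNat 0, .ofNat 48523035250398025532722509200483792203253655959240704, .ofNat 23075594724168794787798612013159642709385470279680, .ofNat 0, .ofNat 0, .ofNat 605507453520054422199901582580673464376154751439470592,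 .ofNat 147491768543778505782043688251171330227016292106240, .ofNat 0, .ofNat 0, .ofNat 3006982605768505621994080852855903254171446963234406400, .ofNat 0, .ofNat 0⟩)
    (by decide +kernel)
theorem L08469 : Good (Phi V5.P V5.D (-1) (-1)) ⟨5, 28, 2, 2, 5, 24, 4, 10, 6, 18⟩ :=
  leafX_sound T5.ok_mm T5.Ymm.bz_eq (w := 272) (c := ⟨⟨.negSucc 2083, .negSucc 347, .ofNat 231, .negSucc 87, .negSucc 201, .negSucc 106⟩, ⟨.ofNat 1208, .ofNat 288, .ofNat 72, .ofNat 60, .ofNat 136, .ofNat 72⟩, ⟨.negSucc 327, .negSucc 648, .ofNat 509, .negSucc 450, .negSucc 675, .negSucc 559⟩, ⟨.negSucc 3128, .negSucc 86, .ofNat 42, .ofNat 81, .ofNat 115, .ofNat 75⟩, ⟨.negSucc 374, .ofNat 253, .negSucc 51, .ofNat 318, .ofNat 615, .ofNat 358⟩, .ofNat 881, .ofNat 995, .ofNat 0, .ofNat 995, .ofNat 1759, .ofNat 0, .ofNat 128, .negSucc 1315, .ofNat 495, .ofNat 0, .ofNat 988, .negSucc 396, .ofNat 0, .ofNat 0, .ofNat 3621, .ofNat 2929, .ofNat 0, .ofNat 0, .ofNat 0, .ofNat 0, .ofNat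 0, .ofNat 55267317031700701246147819493389770248321736227992633344, .ofNat 6384868142889051815582768857721562561816228883653984256, .ofNat 0, .ofNat 0, .ofNat 3392321785039875683580703445640028894448246015669844312064, .ofNat 9120089027272004770853628282130478050860366308145364992, .ofNat 8384766217118663266425499594182564225348573648511713799179337728, .ofNat 0, .ofNat 19811010501252533733558637646315986514820452981970552487936, .ofNat 49602692564403751955657686684071039644920904437664317440, .ofNat 0⟩)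
    (by decide +kernel)
theorem L08470 : Good (Phi V5.P V5.D (-1) (-1)) ⟨5, 28, 2, 2, 5, 25, 4, 10, 6, 18⟩ :=
  leafX_sound T5.ok_mm T5.Ymm.bz_eq (w := 272) (c := ⟨⟨.negSucc 1881, .negSucc 201, .negSucc 280, .negSucc 123, .negSucc 295, .negSucc 216⟩, ⟨.ofNat 1080, .ofNat 193, .ofNat 404, .ofNat 83, .ofNat 198, .ofNat 145⟩, ⟨.negSucc 147, .negSucc 274, .negSucc 666, .negSucc 537, .negSucc 825, .negSucc 798⟩, ⟨.negSucc 2963, .negSucc 7, .negSucc 126, .ofNat 121, .ofNat 80, .ofNat 47⟩, ⟨.negSucc 342, .ofNat 267, .ofNat 295, .ofNat 448, .ofNat 759, .ofNat 541⟩, .ofNat 886, .ofNat 1001, .ofNat 0, .ofNat 1001, .ofNat 1763, .ofNat 0, .ofNat 128, .negSucc 1103, .ofNat 548, .ofNat 0, .ofNat 838, .negSucc 429, .ofNat 0, .ofNat 0, .ofNat 2955, .ofNat 3400, .ofNat 0, .ofNat 145947890448728582718939319774873536349194778310724288512, .ofNat 0, .ofNat 0, .ofNat 0, .ofNat 238426098670193884547193427394924862035447879789086507008, .ofNat 5029575147188090853926446775222069898195294629805424640,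 .ofNat 0, .ofNat 0, .ofNat 8007387817868230920468408202072985948345148310575627894784, .ofNat 9096548332229286462137409295605365361100640822396715008, .ofNat 0, .ofNat 0, .ofNat 24720984962702565321633998674410673869679306356692912963584, .ofNat 7704998293481705424062277058676354191741558106783481856, .ofNat 0⟩)
    (by decide +kernel)
theorem L08471 : Good (Phi V5.P V5.D (-1) (-1)) ⟨5, 28, 2, 2, 4, 12, 4, 10, 6, 19⟩ :=
  leafX_sound T5.ok_mm T5.Ymm.bz_eq (w := 258) (c := ⟨⟨.negSucc 1781, .negSucc 27, .negSucc 658, .negSucc 332, .negSucc 271, .negSucc 198⟩, ⟨.ofNat 996, .ofNat 61, .ofNat 695, .ofNat 224, .ofNat 184, .ofNat 134⟩, ⟨.negSucc 87, .negSucc 151, .negSucc 1111, .negSucc 1298, .negSucc 871, .negSucc 819⟩, ⟨.negSucc 2964, .negSucc 15, .negSucc 134, .ofNat 108, .ofNat 69, .ofNat 25⟩, ⟨.negSucc 257, .ofNat 200, .ofNat 363, .ofNat 871, .ofNat 685, .ofNat 463⟩, .ofNat 892, .ofNat 1009, .ofNat 0, .ofNat 1009, .ofNat 1771, .ofNat 0, .ofNat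 128, .negSucc 1113, .ofNat 615, .ofNat 0, .ofNat 843, .negSucc 474, .ofNat 0, .ofNat 0, .ofNat 3668, .ofNat 3222, .ofNat 0, .ofNat 61854783670265011550104417498710051188983092706541568, .ofNat 17483840072071173049375065135700586988386811641856, .ofNat 331239872767681585608626491029220472384603666351013232640, .ofNat 0, .ofNat 79032899819754840812013247787610226929734399698141184, .ofNat 386836887545319856067344397807016372996656320217088, .ofNat 0, .ofNat 0, .ofNat 2924281566670617343199910213051934298675892386149695488, .ofNat 2682906624957133479417561688656267659075189538291712, .ofNat 0, .ofNat 0, .ofNat 10420680974318426805105847931730652221476361647186509824, .ofNat 0, .ofNat 0⟩)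
    (by decide +kernel)
theorem L08472 : Good (Phi V5.P V5.D (-1) (-1)) ⟨5, 28, 2, 2, 4, 12, 4, 11, 5, 9⟩ :=
  leafX_sound T5.ok_mm T5.Ymm.bz_eq (w := 252) (c := ⟨⟨.negSucc 1946, .negSucc 178, .negSucc 374, .negSucc 393, .negSucc 332, .negSucc 477⟩, ⟨.ofNat 1117, .ofNat 173, .ofNat 478, .ofNat 267, .ofNat 229, .ofNat 325⟩, ⟨.negSucc 360, .negSucc 290, .negSucc 676, .negSucc 1243, .negSucc 916, .negSucc 1634⟩, ⟨.negSucc 2898, .negSucc 49, .negSucc 119, .ofNat 30, .ofNat 23, .negSucc 5⟩, ⟨.ofNat 36, .ofNat 263, .ofNat 208, .ofNat 868, .ofNat 711, .ofNat 982⟩, .ofNat 890, .ofNat 1006, .ofNat 0, .ofNat 1006, .ofNat 1767, .ofNat 0, .ofNat 128, .negSucc 620, .ofNat 239, .ofNat 0, .ofNat 463, .negSucc 188, .ofNat 0, .ofNat 0, .ofNat 1433, .ofNat 1980, .ofNat 0, .ofNat 7321229363375029877023915252919535929397394353946624, .ofNat 0, .ofNat 0, .ofNat 0, .ofNat 9313310639652654224311073305308544075367664029007872, .ofNat 3273594339645838594079215841991382575141101764608,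 .ofNat 0, .ofNat 0, .ofNat 155126920504586917937477900582689831021770916757504000, .ofNat 0, .ofNat 0, .ofNat 0, .ofNat 384896766427718684576345557479854971925419810600517632, .ofNat 6681680479711142473202846585223800904825759072256, .ofNat 538599981150806093885091991578539763926976984699595915264⟩)
    (by decide +kernel)
theorem L08473 : Good (Phi V5.P V5.D (-1) (-1)) ⟨5, 28, 2, 2, 4, 13, 4, 10, 5, 9⟩ :=
  leafX_sound T5.ok_mm T5.Ymm.bz_eq (w := 253) (c := ⟨⟨.negSucc 1906, .negSucc 240, .negSucc 382, .negSucc 328, .negSucc 371, .negSucc 629⟩, ⟨.ofNat 1101, .ofNat 222, .ofNat 459, .ofNat 231, .ofNat 257, .ofNat 432⟩, ⟨.negSucc 603, .negSucc 464, .negSucc 601, .negSucc 1236, .negSucc 944, .negSucc 1969⟩, ⟨.negSucc 2827, .negSucc 28, .negSucc 52, .ofNat 81, .negSucc 191, .negSucc 238⟩, ⟨.ofNat 83, .ofNat 449, .ofNat 264, .ofNat 806, .ofNat 489, .ofNat 954⟩, .ofNat 2308, .ofNat 3152, .ofNat 0, .ofNat 3152, .ofNat 5068, .ofNat 0, .ofNat 128, .negSucc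 479, .ofNat 297, .ofNat 0, .ofNat 333, .negSucc 207, .ofNat 0, .ofNat 0, .ofNat 1377, .ofNat 1814, .ofNat 0, .ofNat 7704233492949162231425067109060716946659166822334464, .ofNat 482787400940647822936632108619397648942008107008, .ofNat 17581559854043670189835661190968634792875733689397411840, .ofNat 0, .ofNat 17915336706054641968766158175010995999358410498768896, .ofNat 22569432825361038379951440152228783154075254390784, .ofNat 0, .ofNat 0, .ofNat 102645973297719634649024598125259156241962481087414272, .ofNat 5694372350900783785248919949309767829044777189376, .ofNat 0, .ofNat 0, .ofNat 363289077912221636327983288465022211355478997143126016, .ofNat 14146125933691486784749676570143144416814550745088, .ofNat 791881012478426244108578592936824334547206316083032096768⟩)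
    (by decide +kernel)
theorem L08474 : Good (Phi V5.P V5.D (-1) (-1)) ⟨5, 28, 2, 2, 4, 13, 4, 11, 5, 9⟩ :=
  out_sound (S := T5.ds_mm) T5.ok_mm (w := 40) (j := 2) (by decide +kernel)
theorem L08475 : Good (Phi V5.P V5.D (-1) (-1)) ⟨5, 28, 2, 2, 4, 14, 4, 8, 6, 18⟩ :=
  leafX_sound T5.ok_mm T5.Ymm.bz_eq (w := 257) (c := ⟨⟨.negSucc 1461, .ofNat 70, .negSucc 726, .negSucc 28, .negSucc 240, .negSucc 189⟩, ⟨.ofNat 821, .ofNat 4, .ofNat 672, .ofNat 27, .ofNat 162, .ofNat 128⟩, ⟨.ofNat 233, .ofNat 100, .negSucc 1423, .negSucc 740, .negSucc 746, .negSucc 739⟩, ⟨.negSucc 2737, .ofNat 167, .negSucc 84, .ofNat 658, .ofNat 160, .ofNat 126⟩, ⟨.negSucc 627, .ofNat 291, .ofNat 609, .ofNat 1075, .ofNat 759, .ofNat 605⟩, .ofNat 889, .ofNat 1004, .ofNat 0, .ofNat 1004, .ofNat 1765, .ofNat 0, .ofNat 128, .negSucc 484, .ofNat 370, .ofNat 0, .ofNat 396, .negSucc 310, .ofNat 0, .ofNat 0, .ofNat 1910, .ofNat 2011, .ofNat 0, .ofNat 15689735265230774344482543003139468782482072681840640,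 .ofNat 6454146043773274055804176782519989661459132973056, .ofNat 0, .ofNat 0, .ofNat 20985422857829260459282867768649449495661374265622528, .ofNat 218550732288495017421181945909201541420714660200448, .ofNat 0, .ofNat 0, .ofNat 438447727906267444369597080419130838882082682591772672, .ofNat 426293207352518896294224945499556262798945735933952, .ofNat 0, .ofNat 0, .ofNat 2110235145606284879966768121719188338079165802115760128, .ofNat 940265913915478270753487516562587623133802582245376, .ofNat 46384415146920156857794941999379519664772440532610090795008⟩)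
    (by decide +kernel)
theorem L08476 : Good (Phi V5.P V5.D (-1) (-1)) ⟨5, 28, 2, 2, 4, 14, 4, 9, 6, 18⟩ :=
  leafX_sound T5.ok_mm T5.Ymm.bz_eq (w := 258) (c := ⟨⟨.negSucc 1781, .negSucc 176, .negSucc 429, .ofNat 1, .negSucc 413, .ofNat 1⟩, ⟨.ofNat 1042, .ofNat 180, .ofNat 456, .negSucc 0, .ofNat 283, .negSucc 0⟩, ⟨.negSucc 709, .negSucc 379, .negSucc 761, .ofNat 1, .negSucc 1056, .ofNat 1⟩, ⟨.negSucc 2593, .ofNat 119, .negSucc 25, .ofNat 1, .ofNat 40, .ofNat 1⟩, ⟨.ofNat 99, .ofNat 478, .ofNat 563, .negSucc 0, .ofNat 902, .negSucc 0⟩, .ofNat 882, .ofNat 996, .ofNat 0, .ofNat 996, .ofNat 1758, .ofNat 0, .ofNat 128, .negSucc 399, .ofNat 293, .ofNat 0, .ofNat 319, .negSucc 239, .ofNat 0, .ofNat 0, .ofNat 1310, .ofNat 6933, .ofNat 0, .ofNat 63672747257163673591781771012272456567764593638637568, .ofNat 0, .ofNat 0, .ofNat 0, .ofNat 486277592795234796355567635396888639726263828624703488, .ofNat 193681792773515143889333868299819341896948316635136,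 .ofNat 0, .ofNat 0, .ofNat 1541983488092971812452429294456544981468746442883465216, .ofNat 184684855474240221088702585862990791435934117134336, .ofNat 0, .ofNat 0, .ofNat 5601189259101702056221714438307639599482903407227830272, .ofNat 1135379571939917500403906160717190394056501169750016, .ofNat 182523923561255765263813340592315871469784319835366580289536⟩)
    (by decide +kernel)
theorem L08477 : Good (Phi V5.P V5.D (-1) (-1)) ⟨5, 28, 2, 2, 4, 15, 3, 4, 6, 18⟩ :=
  out_sound (S := T5.ds_mm) T5.ok_mm (w := 40) (j := 2) (by decide +kernel)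
theorem L08478 : Good (Phi V5.P V5.D (-1) (-1)) ⟨5, 28, 2, 2, 3, 7, 3, 4, 6, 19⟩ :=
  out_sound (S := T5.ds_mm) T5.ok_mm (w := 38) (j := 2) (by decide +kernel)
theorem L08479 : Good (Phi V5.P V5.D (-1) (-1)) ⟨5, 28, 2, 2, 3, 7, 3, 5, 5, 9⟩ :=
  out_sound (S := T5.ds_mm) T5.ok_mm (w := 36) (j := 2) (by decide +kernel)
theorem L08480 : Good (Phi V5.P V5.D (-1) (-1)) ⟨5, 29, 2, 2, 2, 3, 2, 2, 4, 4⟩ :=
  out_sound (S := T5.ds_mm) T5.ok_mm (w := 17) (j := 4) (by decide +kernel)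
theorem L08481 : Good (Phi V5.P V5.D (-1) (-1)) ⟨4, 15, 2, 2, 2, 3, 2, 2, 4, 4⟩ :=
  out_sound (S := T5.ds_mm) T5.ok_mm (w := 49) (j := 3) (by decide +kernel)
theorem L08482 : Good (Phi V5.P V5.D (-1) (-1)) ⟨3, 6, 2, 3, 2, 3, 2, 2, 4, 4⟩ :=
  out_sound (S := T5.ds_mm) T5.ok_mm (w := 43) (j := 3) (by decide +kernel)
theorem L08483 : Good (Phi V5.P V5.D (-1) (-1)) ⟨5, 28, 3, 6, 2, 3, 2, 2, 4, 4⟩ :=
  out_sound (S := T5.ds_mm) T5.ok_mm (w := 57) (j := 3) (by decide +kernel)
theorem L08484 : Good (Phi V5.P V5.D (-1) (-1)) ⟨5, 29, 3, 6, 2, 3, 2, 2, 4, 4⟩ :=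
  out_sound (S := T5.ds_mm) T5.ok_mm (w := 17) (j := 4) (by decide +kernel)
theorem L08485 : Good (Phi V5.P V5.D (-1) (-1)) ⟨4, 14, 3, 7, 2, 3, 2, 2, 4, 4⟩ :=
  out_sound (S := T5.ds_mm) T5.ok_mm (w := 51) (j := 3) (by decide +kernel)
theorem L08486 : Good (Phi V5.P V5.D (-1) (-1)) ⟨4, 15, 2, 3, 2, 3, 2, 2, 4, 4⟩ :=
  out_sound (S := T5.ds_mm) T5.ok_mm (w := 15) (j := 4) (by decide +kernel)
theorem L08487 : Good (Phi V5.P V5.D (-1) (-1)) ⟨2, 3, 2, 2, 3, 6, 3, 6, 5, 8⟩ :=
  leafX_sound T5.ok_mm T5.Ymm.bz_eq (w := 221) (c := ⟨⟨.negSucc 1817, .negSucc 205, .negSucc 460, .negSucc 178, .negSucc 133, .negSucc 183⟩, ⟨.ofNat 896, .ofNat 395, .ofNat 562, .ofNat 124, .ofNat 94, .ofNat 123⟩, ⟨.ofNat 117, .negSucc 489, .negSucc 542, .negSucc 1193, .negSucc 820, .negSucc 882⟩, ⟨.negSucc 2982, .ofNat 253, .negSucc 301, .ofNat 336, .ofNat 419, .ofNat 191⟩, ⟨.negSucc 19, .negSucc 189, .ofNat 412, .ofNat 951, .ofNat 1039, .ofNat 744⟩, .ofNat 374, .ofNat 273,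 .ofNat 0, .ofNat 273, .ofNat 643, .ofNat 0, .ofNat 128, .negSucc 610, .ofNat 57, .ofNat 0, .ofNat 523, .negSucc 109, .ofNat 0, .ofNat 0, .ofNat 1032, .ofNat 832, .ofNat 0, .ofNat 35231689261464137012365698695663177919627264, .ofNat 13115595307334058596903727575147413457862656, .ofNat 0, .ofNat 0, .ofNat 64130242532450583688655571892669316377608192, .ofNat 23224577042903519598076810394859115842109440, .ofNat 2848314636209005560835590939957144512798503469056, .ofNat 0, .ofNat 1297340473749663687114624571777457220030038016, .ofNat 368407641774710032009881365190448015512436736, .ofNat 53138501899651728394733167170567355592108972965888, .ofNat 0, .ofNat 1944299125712174746403368613268932264070217728, .ofNat 247299298439518859886747801379439759610347520, .ofNat 6634207583234895156267219646908653349423510716416⟩)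
    (by decide +kernel)
theorem L08488 : Good (Phi V5.P V5.D (-1) (-1)) ⟨3, 6, 2, 3, 3, 6, 3, 6, 5, 8⟩ :=
  out_sound (S := T5.ds_mm) T5.ok_mm (w := 43) (j := 3) (by decide +kernel)
theorem L08489 : Good (Phi V5.P V5.D (-1) (-1)) ⟨5, 28, 3, 6, 3, 6, 3, 6, 5, 8⟩ :=
  out_sound (S := T5.ds_mm) T5.ok_mm (w := 57) (j := 3) (by decide +kernel)
theorem L08490 : Good (Phi V5.P V5.D (-1) (-1)) ⟨5, 29, 3, 6, 3, 6, 3, 6, 5, 8⟩ :=
  out_sound (S := T5.ds_mm) T5.ok_mm (w := 17) (j := 4) (by decide +kernel)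
theorem L08491 : Good (Phi V5.P V5.D (-1) (-1)) ⟨4, 14, 3, 7, 3, 6, 3, 6, 5, 8⟩ :=
  out_sound (S := T5.ds_mm) T5.ok_mm (w := 51) (j := 3) (by decide +kernel)
theorem L08492 : Good (Phi V5.P V5.D (-1) (-1)) ⟨4, 15, 2, 3, 3, 6, 3, 6, 5, 8⟩ :=
  out_sound (S := T5.ds_mm) T5.ok_mm (w := 15) (j := 4) (by decide +kernel)
theorem L08493 : Good (Phi V5.P V5.D (-1) (-1)) ⟨2, 3, 1, 1, 3, 6, 3, 6, 5, 9⟩ :=
  out_sound (S := T5.ds_mm) T5.ok_mm (w := 36) (j := 2) (by decide +kernel)
theorem L08494 : Good (Phi V5.P V5.D (-1) (-1)) ⟨2, 3, 1, 1, 3, 6, 3, 7, 4, 4⟩ :=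
  out_sound (S := T5.ds_mm) T5.ok_mm (w := 34) (j := 2) (by decide +kernel)
theorem L08495 : Good (Phi V5.P V5.D (-1) (-1)) ⟨2, 3, 1, 1, 3, 7, 2, 3, 4, 4⟩ :=
  out_sound (S := T5.ds_mm) T5.ok_mm (w := 32) (j := 2) (by decide +kernel)
theorem L08496 : Good (Phi V5.P V5.D (-1) (-1)) ⟨4, 12, 2, 2, 3, 6, 2, 2, 4, 5⟩ :=
  out_sound (S := T5.ds_mm) T5.ok_mm (w := 49) (j := 3) (by decide +kernel)
theorem L08497 : Good (Phi V5.P V5.D (-1) (-1)) ⟨5, 26, 3, 4, 3, 6, 3, 4, 5, 10⟩ :=
  leafX_sound T5.ok_mm T5.Ymm.bz_eq (w := 236) (c := ⟨⟨.negSucc 1863, .negSucc 33, .negSucc 109, .ofNat 61, .negSucc 90, .negSucc 24⟩, ⟨.ofNat 985, .ofNat 50, .ofNat 201, .negSucc 19, .ofNat 67, .ofNat 23⟩, ⟨.ofNat 129, .negSucc 22, .negSucc 372, .negSucc 1202, .negSucc 864, .negSucc 717⟩, ⟨.negSucc 3186, .ofNat 60, .negSucc 98, .ofNat 377, .ofNat 203, .ofNat 150⟩, ⟨.negSucc 574, .ofNat 24, .ofNat 123, .ofNat 522, .ofNat 614, .ofNat 342⟩, .ofNat 717, .ofNat 798, .ofNat 0, .ofNat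 798, .ofNat 1656, .ofNat 0, .ofNat 128, .negSucc 414, .ofNat 156, .ofNat 0, .ofNat 313, .negSucc 113, .ofNat 0, .ofNat 0, .ofNat 1735, .ofNat 1462, .ofNat 0, .ofNat 498098772875280813838109589581847327544845533184, .ofNat 21263324745531094875254705197203586199584768, .ofNat 0, .ofNat 0, .ofNat 3209159568768789212405050803587652498382540242944, .ofNat 5741446777681386659653624709700626226872320, .ofNat 0, .ofNat 0, .ofNat 21860247122306110505948551944219616340202125000704, .ofNat 212549196062654567016958769816590259253673984, .ofNat 0, .ofNat 0, .ofNat 74105227999746827146071049097222430171644311896064, .ofNat 578418579904880272107709825872839897740476416, .ofNat 0⟩)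
    (by decide +kernel)
theorem L08498 : Good (Phi V5.P V5.D (-1) (-1)) ⟨5, 26, 3, 4, 3, 6, 3, 4, 5, 11⟩ :=
  leafX_sound T5.ok_mm T5.Ymm.bz_eq (w := 239) (c := ⟨⟨.negSucc 1861, .negSucc 68, .negSucc 94, .ofNat 1, .negSucc 155, .ofNat 1⟩, ⟨.ofNat 990, .ofNat 72, .ofNat 192, .negSucc 0, .ofNat 104, .negSucc 0⟩, ⟨.negSucc 514, .negSucc 127, .negSucc 349, .ofNat 1, .negSucc 1094, .ofNat 1⟩, ⟨.negSucc 2992, .ofNat 10, .negSucc 80, .ofNat 1, .ofNat 109, .ofNat 1⟩, ⟨.negSucc 219, .ofNat 17, .ofNat 136, .ofNat 0, .ofNat 668, .ofNat 0⟩, .ofNat 164, .ofNat 49, .ofNat 0, .ofNat 49, .ofNat 223, .ofNat 0, .ofNat 159, .negSucc 69, .ofNat 96, .ofNat 0, .ofNat 128, .negSucc 128, .ofNat 0, .ofNat 0, .ofNat 821, .ofNat 15532, .ofNat 0, .ofNat 4494589096991751199902576331575904801324405882880, .ofNat 0, .ofNat 0, .ofNat 0, .ofNat 30328956146459468929846194890044621951750174146560, .ofNat 7223644861654652802793603978137103300034560, .ofNat 0, .ofNat 0, .ofNat 50917939144012742137268443904343512558785110474752,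 .ofNat 28522371360827190708506211560297316327882752, .ofNat 0, .ofNat 0, .ofNat 349032907535280454783752716521097618563792510124032, .ofNat 282432500299194169347163336037917168140025856, .ofNat 0⟩)
    (by decide +kernel)
theorem L08499 : Good (Phi V5.P V5.D (-1) (-1)) ⟨5, 26, 3, 4, 3, 6, 3, 5, 4, 5⟩ :=
  out_sound (S := T5.ds_mm) T5.ok_mm (w := 34) (j := 2) (by decide +kernel)
theorem L08500 : Good (Phi V5.P V5.D (-1) (-1)) ⟨5, 27, 3, 4, 5, 24, 3, 4, 5, 10⟩ :=
  leafX_sound T5.ok_mm T5.Ymm.bz_eq (w := 265) (c := ⟨⟨.negSucc 1854, .negSucc 107, .negSucc 49, .negSucc 11, .negSucc 171, .negSucc 80⟩, ⟨.ofNat 1004, .ofNat 100, .ofNat 169, .ofNat 12, .ofNat 123, .ofNat 61⟩, ⟨.ofNat 233, .negSucc 254, .negSucc 129, .negSucc 375, .negSucc 1068, .negSucc 915⟩, ⟨.negSucc 3119, .negSucc 16, .negSucc 27, .ofNat 82, .ofNat 176, .ofNat 126⟩, ⟨.negSucc 619, .ofNat 56, .ofNat 105, .ofNat 169, .ofNat 713, .ofNat 414⟩, .ofNat 1104, .ofNat 1392, .ofNat 0, .ofNat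 1392, .ofNat 2555, .ofNat 0, .ofNat 128, .negSucc 700, .ofNat 241, .ofNat 0, .ofNat 501, .negSucc 169, .ofNat 0, .ofNat 0, .ofNat 2368, .ofNat 2787, .ofNat 0, .ofNat 10734931499461941887761814929715904050553745903307456512, .ofNat 0, .ofNat 0, .ofNat 0, .ofNat 59187591020687695586904307450190700885126840870544343040, .ofNat 21454115463202140325123618222411067924236513572814848, .ofNat 0, .ofNat 0, .ofNat 712289919314887706006675889431033396919710232401233838080, .ofNat 0, .ofNat 0, .ofNat 0, .ofNat 2440760841806788145126363724663863211582381588402506039296, .ofNat 197323846270777112784248279396881232958706215666319360, .ofNat 0⟩)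
    (by decide +kernel)
theorem L08501 : Good (Phi V5.P V5.D (-1) (-1)) ⟨5, 27, 3, 4, 5, 25, 3, 4, 5, 10⟩ :=
  leafX_sound T5.ok_mm T5.Ymm.bz_eq (w := 266) (c := ⟨⟨.negSucc 1847, .negSucc 57, .negSucc 124, .negSucc 11, .negSucc 223, .negSucc 121⟩, ⟨.ofNat 1006, .ofNat 68, .ofNat 214, .ofNat 13, .ofNat 155, .ofNat 86⟩, ⟨.negSucc 102, .negSucc 94, .negSucc 354, .negSucc 388, .negSucc 1169, .negSucc 1023⟩, ⟨.negSucc 3023, .ofNat 47, .negSucc 95, .ofNat 102, .ofNat 104, .ofNat 78⟩, ⟨.negSucc 475, .ofNat 60, .ofNat 151, .ofNat 201, .ofNat 711, .ofNat 431⟩, .ofNat 1567, .ofNat 2150, .ofNat 0, .ofNat 2150, .ofNat 3824, .ofNat 0, .ofNat 128, .negSucc 792, .ofNat 297, .ofNat 0, .ofNat 545, .negSucc 200, .ofNat 0, .ofNat 0, .ofNat 2518, .ofNat 3841, .ofNat 0, .ofNat 26183012942921352140954166864838452632486118040058986496, .ofNat 0, .ofNat 0, .ofNat 0, .ofNat 106075047445099471536127470145551275209682019133167763456, .ofNat 94284051964568780674156263697889859079694434732867584,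 .ofNat 0, .ofNat 0, .ofNat 1485515208676828536868316750741950965851220448696388812800, .ofNat 0, .ofNat 0, .ofNat 0, .ofNat 4443552202478299718663155062503330358526584376075757813760, .ofNat 13642557864516741480949900459615272092635116427280384, .ofNat 0⟩)
    (by decide +kernel)
theorem L08502 : Good (Phi V5.P V5.D (-1) (-1)) ⟨5, 27, 3, 4, 4, 13, 3, 4, 5, 10⟩ :=
  leafX_sound T5.ok_mm T5.Ymm.bz_eq (w := 252) (c := ⟨⟨.negSucc 1838, .negSucc 81, .negSucc 125, .negSucc 60, .negSucc 274, .negSucc 187⟩, ⟨.ofNat 1006, .ofNat 85, .ofNat 210, .ofNat 52, .ofNat 189, .ofNat 132⟩, ⟨.negSucc 437, .negSucc 170, .negSucc 343, .negSucc 857, .negSucc 1253, .negSucc 1149⟩, ⟨.negSucc 2922, .ofNat 24, .negSucc 56, .ofNat 230, .ofNat 102, .ofNat 60⟩, ⟨.negSucc 321, .ofNat 65, .ofNat 224, .ofNat 522, .ofNat 836, .ofNat 556⟩, .ofNat 760, .ofNat 841, .ofNat 0, .ofNat 841, .ofNat 1631, .ofNat 0, .ofNat 128, .negSucc 378, .ofNat 204, .ofNat 0, .ofNat 299, .negSucc 155,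 .ofNat 0, .ofNat 0, .ofNat 1572, .ofNat 4874, .ofNat 0, .ofNat 14924554541525550708521453671764400886839563031412736, .ofNat 0, .ofNat 0, .ofNat 0, .ofNat 49757765125618860960719343228421840346545945950814208, .ofNat 0, .ofNat 0, .ofNat 0, .ofNat 321373522542370847653584468892466884578734858557194240, .ofNat 0, .ofNat 0, .ofNat 0, .ofNat 1091350696152696570375394276912106393275570881281654784, .ofNat 673093381663977134863539393692266410847860948992, .ofNat 0⟩)
    (by decide +kernel)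
theorem L08503 : Good (Phi V5.P V5.D (-1) (-1)) ⟨5, 27, 3, 4, 3, 6, 3, 5, 5, 10⟩ :=
  out_sound (S := T5.ds_mm) T5.ok_mm (w := 36) (j := 2) (by decide +kernel)
theorem L08504 : Good (Phi V5.P V5.D (-1) (-1)) ⟨5, 27, 3, 4, 3, 6, 2, 2, 5, 11⟩ :=
  leafX_sound T5.ok_mm T5.Ymm.bz_eq (w := 236) (c := ⟨⟨.negSucc 1922, .negSucc 82, .negSucc 121, .ofNat 1, .negSucc 464, .ofNat 1⟩, ⟨.ofNat 1056, .ofNat 87, .ofNat 210, .negSucc 0, .ofNat 353, .negSucc 0⟩, ⟨.negSucc 622, .negSucc 177, .negSucc 413, .ofNat 1, .negSucc 2118, .ofNat 1⟩, ⟨.negSucc 2979, .ofNat 11, .negSucc 88, .ofNat 2, .ofNat 16, .ofNat 2⟩, ⟨.negSucc 208, .ofNat 41, .ofNat 159, .ofNat 0, .ofNat 1068, .ofNat 0⟩, .ofNat 367, .ofNat 262, .ofNat 0, .ofNat 262, .ofNat 642, .ofNat 0, .ofNat 128, .negSucc 320, .ofNat 224, .ofNat 0, .ofNat 333, .negSucc 198, .ofNat 0, .ofNat 0, .ofNat 1995, .ofNat 18081, .ofNat 0, .ofNat 3783459454155529164339831767672733894473995517952, .ofNat 0, .ofNat 0, .ofNat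 0, .ofNat 9342699511873549116319247323017287292044168921088, .ofNat 0, .ofNat 0, .ofNat 0, .ofNat 85749946203219854206956524086531936985115711766528, .ofNat 0, .ofNat 0, .ofNat 0, .ofNat 436307165645185847173759185115127498294531549298688, .ofNat 25296040050002574939090863402516192639844352, .ofNat 0⟩)
    (by decide +kernel)
theorem L08505 : Good (Phi V5.P V5.D (-1) (-1)) ⟨4, 13, 3, 5, 3, 6, 2, 2, 4, 5⟩ :=
  out_sound (S := T5.ds_mm) T5.ok_mm (w := 51) (j := 3) (by decide +kernel)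
theorem L08506 : Good (Phi V5.P V5.D (-1) (-1)) ⟨4, 14, 2, 2, 4, 12, 4, 8, 6, 20⟩ :=
  leafX_sound T5.ok_mm T5.Ymm.bz_eq (w := 254) (c := ⟨⟨.negSucc 1916, .negSucc 343, .negSucc 98, .negSucc 103, .negSucc 132, .negSucc 72⟩, ⟨.ofNat 1082, .ofNat 306, .ofNat 329, .ofNat 72, .ofNat 89, .ofNat 49⟩, ⟨.ofNat 109, .negSucc 739, .negSucc 287, .negSucc 970, .negSucc 627, .negSucc 563⟩, ⟨.negSucc 3169, .negSucc 64, .negSucc 26, .ofNat 206, .ofNat 88, .ofNat 70⟩, ⟨.negSucc 670, .ofNat 304, .ofNat 210, .ofNat 543, .ofNat 426, .ofNat 270⟩, .ofNat 881, .ofNat 994, .ofNat 0, .ofNat 994, .ofNat 1756, .ofNat 0, .ofNat 128, .negSucc 829, .ofNat 447, .ofNat 0, .ofNat 646, .negSucc 345, .ofNat 0, .ofNat 0, .ofNat 3379, .ofNat 3364, .ofNat 0, .ofNat 815534183725677991051930204279038859106570028974080, .ofNat 39178672370636121841696671669538936912435652591616, .ofNat 1309513012072100450887406234852612772964546959303990312960, .ofNat 0, .ofNat 2666625718302828919093847429087472393089748131905536,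 .ofNat 1503108192841601416375066796056924393150444103270400, .ofNat 0, .ofNat 0, .ofNat 35155629423308385183166008023887504060881452937510912, .ofNat 1673374291206763540960141212099422876080728306614272, .ofNat 110580483544246267891312159406452380763778944600655660056576, .ofNat 0, .ofNat 273996239802428922589084652037165944159705198294466560, .ofNat 4162615335352937603877199755850159692183975025967104, .ofNat 77705781187931021496285603121537831023581121141200016900096⟩)
    (by decide +kernel)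
theorem L08507 : Good (Phi V5.P V5.D (-1) (-1)) ⟨5, 28, 2, 2, 4, 12, 4, 8, 6, 21⟩ :=
  leafX_sound T5.ok_mm T5.Ymm.bz_eq (w := 258) (c := ⟨⟨.negSucc 1925, .negSucc 182, .negSucc 140, .negSucc 196, .negSucc 189, .negSucc 126⟩, ⟨.ofNat 1093, .ofNat 167, .ofNat 343, .ofNat 133, .ofNat 127, .ofNat 85⟩, ⟨.negSucc 245, .negSucc 474, .negSucc 367, .negSucc 1280, .negSucc 838, .negSucc 768⟩, ⟨.negSucc 3052, .negSucc 30, .negSucc 70, .ofNat 132, .ofNat 49, .ofNat 34⟩, ⟨.negSucc 440, .ofNat 188, .ofNat 177, .ofNat 632, .ofNat 494, .ofNat 328⟩, .ofNat 876, .ofNat 988, .ofNat 0, .ofNat 988, .ofNat 1751, .ofNat 0, .ofNat 128, .negSucc 634, .ofNat 458, .ofNat 0, .ofNat 495, .negSucc 344, .ofNat 0, .ofNat 0, .ofNat 3304, .ofNat 3807, .ofNat 0, .ofNat 41928858821469301973013338685285981987616310884827136, .ofNat 15113168930456900947813198432243506261497737117696, .ofNat 0, .ofNat 0, .ofNat 84964818852095112869828411774919361518978286644887552, .ofNat 298836936423105836501581267082518266466511079079936,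 .ofNat 0, .ofNat 0, .ofNat 1384843768803893160715075800914196097710170860511297536, .ofNat 614210754790392798634728612978521793040751846752256, .ofNat 9764946074800078292425266060064876633450389366446525251584, .ofNat 0, .ofNat 6835364967403283882136183507621666066107624007342751744, .ofNat 1579487602097285347057523424301653887909585892671488, .ofNat 0⟩)
    (by decide +kernel)
theorem L08508 : Good (Phi V5.P V5.D (-1) (-1)) ⟨5, 29, 2, 2, 4, 12, 4, 8, 6, 21⟩ :=
  out_sound (S := T5.ds_mm) T5.ok_mm (w := 17) (j := 4) (by decide +kernel)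
theorem L08509 : Good (Phi V5.P V5.D (-1) (-1)) ⟨5, 28, 3, 4, 4, 12, 4, 9, 6, 20⟩ :=
  leafX_sound T5.ok_mm T5.Ymm.bz_eq (w := 261) (c := ⟨⟨.negSucc 1874, .negSucc 105, .negSucc 183, .negSucc 222, .negSucc 211, .negSucc 142⟩, ⟨.ofNat 1067, .ofNat 121, .ofNat 239, .ofNat 151, .ofNat 142, .ofNat 95⟩, ⟨.negSucc 107, .negSucc 201, .negSucc 475, .negSucc 1206, .negSucc 828, .negSucc 737⟩, ⟨.negSucc 2975, .ofNat 11, .negSucc 95, .ofNat 117, .ofNat 57, .ofNat 31⟩, ⟨.negSucc 438, .ofNat 75, .ofNat 246, .ofNat 688, .ofNat 567, .ofNat 370⟩, .ofNat 846, .ofNat 950, .ofNat 0, .ofNat 950, .ofNat 1715, .ofNat 0, .ofNat 128, .negSucc 629, .ofNat 434, .ofNat 0, .ofNat 484, .negSucc 328, .ofNat 0, .ofNat 0, .ofNat 2917, .ofNat 3912, .ofNat 0, .ofNat 229701021568188157941228349476291505160325958419349504, .ofNat 63238296959657814080396088394836287568824540069888, .ofNat 0, .ofNat 0, .ofNat 577254545333526101979196045256956959724568094410014720, .ofNat 532534155591393371044716412654076253003752683864064,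 .ofNat 0, .ofNat 0, .ofNat 8796714784724246204464835485250013793525639197434576896, .ofNat 5636308747556748125441156755947394632682563067445248, .ofNat 0, .ofNat 0, .ofNat 38421402175154366460993812998116652617123711981042270208, .ofNat 7612972028051303013764375657174250635037192105230336, .ofNat 0⟩)
    (by decide +kernel)
theorem L08510 : Good (Phi V5.P V5.D (-1) (-1)) ⟨5, 28, 4, 10, 4, 12, 4, 9, 6, 20⟩ :=
  leafX_sound T5.ok_mm T5.Ymm.bz_eq (w := 268) (c := ⟨⟨.negSucc 2045, .negSucc 96, .negSucc 105, .negSucc 275, .negSucc 258, .negSucc 160⟩, ⟨.ofNat 1296, .ofNat 119, .ofNat 129, .ofNat 186, .ofNat 175, .ofNat 108⟩, ⟨.negSucc 543, .negSucc 199, .negSucc 249, .negSucc 1333, .negSucc 931, .negSucc 808⟩, ⟨.negSucc 3059, .negSucc 1, .negSucc 11, .ofNat 65, .ofNat 13, .ofNat 6⟩, ⟨.negSucc 199, .ofNat 90, .ofNat 161, .ofNat 692, .ofNat 572, .ofNat 357⟩, .ofNat 2437, .ofNat 3329, .ofNat 0, .ofNat 3329, .ofNat 5303, .ofNat 0, .ofNat 128, .negSucc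 1734, .ofNat 1130, .ofNat 0, .ofNat 1208, .negSucc 783, .ofNat 0, .ofNat 0, .ofNat 6898, .ofNat 8436, .ofNat 0, .ofNat 6279459706405076235908812218638163484685905156068343808, .ofNat 263816486329744586943226119484532748794420281737216, .ofNat 0, .ofNat 0, .ofNat 11176412320442381849808422917307587959714828663656546304, .ofNat 33933218615064154266382101492253494749669557150941184, .ofNat 0, .ofNat 0, .ofNat 514286510624442504208284817793720893002492675429637292032, .ofNat 24624812589039602123107996536661049842135054002683904, .ofNat 0, .ofNat 0, .ofNat 2057631148420102940560100599992116100651734249633046593536, .ofNat 105115023928969143002153820671149442663005726485512192, .ofNat 0⟩)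
    (by decide +kernel)
theorem L08511 : Good (Phi V5.P V5.D (-1) (-1)) ⟨6, 56, 4, 11, 4, 12, 4, 9, 6, 20⟩ :=
  out_sound (S := T5.ds_mm) T5.ok_mm (w := 65) (j := 3) (by decide +kernel)
theorem L08512 : Good (Phi V5.P V5.D (-1) (-1)) ⟨7, 114, 5, 22, 4, 12, 4, 9, 6, 20⟩ :=
  out_sound (S := T5.ds_mm) T5.ok_mm (w := 73) (j := 3) (by decide +kernel)
theorem L08513 : Good (Phi V5.P V5.D (-1) (-1)) ⟨7, 115, 5, 22, 4, 12, 4, 9, 6, 20⟩ :=
  out_sound (S := T5.ds_mm) T5.ok_mm (w := 21) (j := 4) (by decide +kernel)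
theorem L08514 : Good (Phi V5.P V5.D (-1) (-1)) ⟨6, 57, 5, 23, 4, 12, 4, 9, 6, 20⟩ :=
  out_sound (S := T5.ds_mm) T5.ok_mm (w := 67) (j := 3) (by decide +kernel)
theorem L08515 : Good (Phi V5.P V5.D (-1) (-1)) ⟨5, 28, 2, 2, 4, 12, 4, 9, 6, 21⟩ :=
  leafX_sound T5.ok_mm T5.Ymm.bz_eq (w := 259) (c := ⟨⟨.negSucc 2012, .negSucc 157, .negSucc 359, .ofNat 1, .negSucc 302, .ofNat 1⟩, ⟨.ofNat 1153, .ofNat 152, .ofNat 487, .negSucc 0, .ofNat 206, .negSucc 0⟩, ⟨.negSucc 856, .negSucc 409, .negSucc 867, .ofNat 1, .negSucc 1093, .ofNat 1⟩, ⟨.negSucc 2964, .negSucc 21, .negSucc 136, .ofNat 2, .ofNat 3, .ofNat 2⟩, ⟨.negSucc 61, .ofNat 151, .ofNat 451, .ofNat 0, .ofNat 656, .ofNat 0⟩, .ofNat 387, .ofNat 292, .ofNat 0, .ofNat 292, .ofNat 645, .ofNat 0, .ofNat 128, .negSucc 452, .ofNat 382, .ofNat 0, .ofNat 446, .negSucc 353, .ofNat 0, .ofNat 0, .ofNat 2458, .ofNat 14265, .ofNat 0, .ofNat 166690592060921099665338187199171025362638867034800128, .ofNat 0, .ofNat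 0, .ofNat 0, .ofNat 331835560534076036922700475090679053499114115620143104, .ofNat 77737715867521819517136577542954511272359267139584, .ofNat 0, .ofNat 0, .ofNat 4075201061144658564254101245468000893984877668533796864, .ofNat 0, .ofNat 0, .ofNat 0, .ofNat 21478958822065416542785356516336819298795999027768852480, .ofNat 4952429990774586610727931016265947180719643008434176, .ofNat 629081156608794870795647456862800549670007369576399616606208⟩)
    (by decide +kernel)
theorem L08516 : Good (Phi V5.P V5.D (-1) (-1)) ⟨5, 29, 2, 2, 4, 12, 4, 9, 5, 10⟩ :=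
  out_sound (S := T5.ds_mm) T5.ok_mm (w := 17) (j := 4) (by decide +kernel)
theorem L08517 : Good (Phi V5.P V5.D (-1) (-1)) ⟨4, 14, 2, 2, 4, 13, 4, 8, 6, 20⟩ :=
  leafX_sound T5.ok_mm T5.Ymm.bz_eq (w := 254) (c := ⟨⟨.negSucc 1767, .negSucc 68, .negSucc 564, .negSucc 209, .negSucc 268, .negSucc 176⟩, ⟨.ofNat 992, .ofNat 130, .ofNat 623, .ofNat 144, .ofNat 181, .ofNat 119⟩, ⟨.negSucc 329, .negSucc 289, .negSucc 1207, .negSucc 1257, .negSucc 936, .negSucc 833⟩, ⟨.negSucc 2918, .ofNat 57, .negSucc 86, .ofNat 280, .ofNat 61, .ofNat 40⟩, ⟨.negSucc 362, .ofNat 330, .ofNat 562, .ofNat 858, .ofNat 661, .ofNat 439⟩, .ofNat 891, .ofNat 1007, .ofNat 0, .ofNat 1007, .ofNat 1768, .ofNat 0, .ofNat 128, .negSucc 557, .ofNat 353, .ofNat 0, .ofNat 442, .negSucc 275, .ofNat 0, .ofNat 0, .ofNat 2103, .ofNat 4672, .ofNat 0, .ofNat 5107856193557266914585441100160190710654084147314688, .ofNat 0, .ofNat 0, .ofNat 0, .ofNat 5245369327506847078685446060592931967096876603277312,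 .ofNat 1653474007428082473506471466006705762881172351746048, .ofNat 0, .ofNat 0, .ofNat 118557995957171925968516612403454070408754439921860608, .ofNat 4389100958719280199374442512423281774076459690754048, .ofNat 20462634859944716874684988972195733494336753435751596687360, .ofNat 0, .ofNat 394024647300947430919292454178774916089525782571909120, .ofNat 3413260528295451616709072183833864261421323717181440, .ofNat 25155234873672958147148225924975249752138616074814563024896⟩)
    (by decide +kernel)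
theorem L08518 : Good (Phi V5.P V5.D (-1) (-1)) ⟨4, 14, 2, 2, 4, 13, 4, 8, 6, 21⟩ :=
  out_sound (S := T5.ds_mm) T5.ok_mm (w := 42) (j := 2) (by decide +kernel)
theorem L08519 : Good (Phi V5.P V5.D (-1) (-1)) ⟨4, 14, 2, 2, 4, 13, 4, 9, 5, 10⟩ :=
  out_sound (S := T5.ds_mm) T5.ok_mm (w := 40) (j := 2) (by decide +kernel)
theorem L08520 : Good (Phi V5.P V5.D (-1) (-1)) ⟨4, 14, 2, 2, 3, 6, 3, 4, 5, 11⟩ :=
  leafX_sound T5.ok_mm T5.Ymm.bz_eq (w := 232) (c := ⟨⟨.negSucc 1989, .negSucc 306, .negSucc 270, .ofNat 1, .negSucc 461, .ofNat 1⟩, ⟨.ofNat 1136, .ofNat 296, .ofNat 432, .negSucc 0, .ofNat 318, .negSucc 0⟩, ⟨.negSucc 743, .negSucc 732, .negSucc 923, .ofNat 1, .negSucc 1848, .ofNat 1⟩, ⟨.negSucc 2998, .negSucc 54, .negSucc 106, .ofNat 2, .negSucc 16, .ofNat 2⟩, ⟨.negSucc 205, .ofNat 249, .ofNat 388, .ofNat 0, .ofNat 970, .ofNat 0⟩, .ofNat 389, .ofNat 294, .ofNat 0, .ofNat 294, .ofNat 645, .ofNat 0, .ofNat 128, .negSucc 392, .ofNat 439, .ofNat 0,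 .ofNat 398, .negSucc 397, .ofNat 0, .ofNat 0, .ofNat 3069, .ofNat 14813, .ofNat 0, .ofNat 136490764199440622275805519304210220107327078400, .ofNat 0, .ofNat 0, .ofNat 0, .ofNat 228583282430819486564650495288902827881701310464, .ofNat 89605339923965635042939178476106663440941056, .ofNat 0, .ofNat 0, .ofNat 2688190403886381599233374367355106496216374968320, .ofNat 302105801849464261773616448724043309135167488, .ofNat 6712770959885066479333741743066890053436692896940032, .ofNat 0, .ofNat 18590181004156699170356917180892202104957683367936, .ofNat 3026478318407639383281740040361588167400226816, .ofNat 26419244937861406920101560620029298317382261613264896⟩)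
    (by decide +kernel)
theorem L08521 : Good (Phi V5.P V5.D (-1) (-1)) ⟨4, 14, 2, 2, 3, 6, 3, 5, 4, 5⟩ :=
  out_sound (S := T5.ds_mm) T5.ok_mm (w := 34) (j := 2) (by decide +kernel)
theorem L08522 : Good (Phi V5.P V5.D (-1) (-1)) ⟨4, 15, 2, 2, 3, 6, 2, 2, 4, 5⟩ :=
  out_sound (S := T5.ds_mm) T5.ok_mm (w := 49) (j := 3) (by decide +kernel)
theorem L08523 : Good (Phi V5.P V5.D (-1) (-1)) ⟨3, 6, 2, 3, 3, 6, 2, 2, 4, 5⟩ :=
  out_sound (S := T5.ds_mm) T5.ok_mm (w := 43) (j := 3) (by decide +kernel)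
theorem L08524 : Good (Phi V5.P V5.D (-1) (-1)) ⟨5, 28, 3, 6, 3, 6, 2, 2, 4, 5⟩ :=
  out_sound (S := T5.ds_mm) T5.ok_mm (w := 57) (j := 3) (by decide +kernel)
theorem L08525 : Good (Phi V5.P V5.D (-1) (-1)) ⟨5, 29, 3, 6, 3, 6, 2, 2, 4, 5⟩ :=
  out_sound (S := T5.ds_mm) T5.ok_mm (w := 17) (j := 4) (by decide +kernel)
theorem L08526 : Good (Phi V5.P V5.D (-1) (-1)) ⟨4, 14, 3, 7, 3, 6, 2, 2, 4, 5⟩ :=
  out_sound (S := T5.ds_mm) T5.ok_mm (w := 51) (j := 3) (by decide +kernel)
theorem L08527 : Good (Phi V5.P V5.D (-1) (-1)) ⟨4, 15, 2, 3, 3, 6, 2, 2, 4, 5⟩ :=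
  out_sound (S := T5.ds_mm) T5.ok_mm (w := 15) (j := 4) (by decide +kernel)
theorem L08528 : Good (Phi V5.P V5.D (-1) (-1)) ⟨2, 3, 1, 1, 3, 7, 2, 2, 4, 5⟩ :=
  out_sound (S := T5.ds_mm) T5.ok_mm (w := 32) (j := 2) (by decide +kernel)
theorem L08529 : Good (Phi V5.P V5.D (-1) (-1)) ⟨2, 3, 1, 1, 2, 3, 2, 3, 4, 5⟩ :=
  out_sound (S := T5.ds_mm) T5.ok_mm (w := 30) (j := 2) (by decide +kernel)
theorem L08530 : Good (Phi V5.P V5.D (-1) (-1)) ⟨2, 2, 2, 2, 2, 2, 1, 1, 3, 3⟩ :=
  out_sound (S := T5.ds_mm) T5.ok_mm (w := 37) (j := 3) (by decide +kernel)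
theorem L08531 : Good (Phi V5.P V5.D (-1) (-1)) ⟨4, 12, 2, 2, 3, 4, 2, 2, 4, 6⟩ :=
  out_sound (S := T5.ds_mm) T5.ok_mm (w := 49) (j := 3) (by decide +kernel)
theorem L08532 : Good (Phi V5.P V5.D (-1) (-1)) ⟨4, 13, 3, 4, 3, 4, 3, 4, 5, 12⟩ :=
  leafX_sound T5.ok_mm T5.Ymm.bz_eq (w := 233) (c := ⟨⟨.negSucc 1932, .negSucc 27, .negSucc 62, .ofNat 11, .ofNat 47, .ofNat 77⟩, ⟨.ofNat 1032, .ofNat 77, .ofNat 172, .negSucc 4, .negSucc 20, .negSucc 43⟩, ⟨.ofNat 1415, .ofNat 246, .negSucc 335, .negSucc 1446, .negSucc 760, .negSucc 381⟩, ⟨.negSucc 3141, .ofNat 66, .negSucc 45, .ofNat 90, .ofNat 246, .ofNat 171⟩, ⟨.negSucc 308, .negSucc 162, .ofNat 111, .ofNat 138, .ofNat 311, .ofNat 109⟩, .ofNat 366, .ofNat 261, .ofNat 0, .ofNat 261, .ofNat 644, .ofNat 0, .ofNat 128, .negSucc 279, .ofNat 17, .ofNat 0, .ofNat 281, .negSucc 40, .ofNat 0, .ofNat 0, .ofNat 1863, .ofNat 2003, .ofNat 0, .ofNat 0, .ofNat 2878743745816334563340300996904542980276224, .ofNat 0, .ofNat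 0, .ofNat 61948853576872982478182872153670889935455911936, .ofNat 118378639318044190822379792024342549195915264, .ofNat 0, .ofNat 0, .ofNat 398449797799179943924924317916706823601764958208, .ofNat 537196160084978868105234423685877684542373888, .ofNat 0, .ofNat 0, .ofNat 2380604359451479944422644179760622781987228221440, .ofNat 1754852760280598292824043112581642965477228544, .ofNat 0⟩)
    (by decide +kernel)
theorem L08533 : Good (Phi V5.P V5.D (-1) (-1)) ⟨4, 13, 3, 4, 4, 8, 3, 4, 5, 13⟩ :=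
  leafX_sound T5.ok_mm T5.Ymm.bz_eq (w := 248) (c := ⟨⟨.negSucc 1818, .negSucc 77, .negSucc 13, .negSucc 15, .ofNat 21, .ofNat 62⟩, ⟨.ofNat 963, .ofNat 118, .ofNat 126, .ofNat 11, .negSucc 3, .negSucc 32⟩, ⟨.ofNat 1213, .ofNat 95, .negSucc 169, .negSucc 868, .negSucc 919, .negSucc 429⟩, ⟨.negSucc 2945, .ofNat 32, .ofNat 1, .ofNat 30, .ofNat 222, .ofNat 130⟩, ⟨.negSucc 280, .negSucc 37, .ofNat 8, .ofNat 104, .ofNat 337, .ofNat 78⟩, .ofNat 378, .ofNat 285, .ofNat 0, .ofNat 285, .ofNat 704, .ofNat 0, .ofNat 128, .negSucc 299, .ofNat 99, .ofNat 0, .ofNat 287, .negSucc 99, .ofNat 0, .ofNat 0, .ofNat 2946, .ofNat 5082, .ofNat 15655904509956636793287227395934178665069477372100608, .ofNat 0, .ofNat 559478088038112992396796021044222249046221258752, .ofNat 0, .ofNat 0, .ofNat 281986287214503581922813543049172099888613372723200, .ofNat 1964232705274028738385283746928229265595118387200, .ofNat 0, .ofNat 0, .ofNat 2496893652289554212656033194717213165992975328608256,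 .ofNat 4588416108669091223176772868105681715371521867776, .ofNat 0, .ofNat 0, .ofNat 30309528164353366409651936403755543210908942908522496, .ofNat 0, .ofNat 0⟩)
    (by decide +kernel)
theorem L08534 : Good (Phi V5.P V5.D (-1) (-1)) ⟨4, 13, 3, 4, 5, 18, 4, 8, 5, 13⟩ :=
  leafX_sound T5.ok_mm T5.Ymm.bz_eq (w := 267) (c := ⟨⟨.negSucc 1742, .negSucc 78, .negSucc 106, .negSucc 55, .negSucc 20, .negSucc 42⟩, ⟨.ofNat 918, .ofNat 117, .ofNat 190, .ofNat 35, .ofNat 17, .ofNat 31⟩, ⟨.ofNat 879, .ofNat 74, .negSucc 700, .negSucc 721, .negSucc 579, .negSucc 1113⟩, ⟨.negSucc 2861, .ofNat 56, .negSucc 79, .negSucc 22, .ofNat 83, .ofNat 62⟩, ⟨.negSucc 300, .negSucc 16, .ofNat 112, .ofNat 97, .ofNat 197, .ofNat 205⟩, .ofNat 874, .ofNat 1066, .ofNat 0, .ofNat 1066, .ofNat 2094, .ofNat 0, .ofNat 128, .negSucc 526, .ofNat 321, .ofNat 0, .ofNat 367, .negSucc 207, .ofNat 0, .ofNat 0, .ofNat 4753, .ofNat 16145, .ofNat 1261914376709192388296784891803035266735035639173065211904,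 .ofNat 0, .ofNat 16857442956181912095822531472345863150549393223974912, .ofNat 0, .ofNat 0, .ofNat 0, .ofNat 4400960319920730291781571889289841227981455651487350784, .ofNat 0, .ofNat 0, .ofNat 111878031526130400082255172989631980050648908621210976256, .ofNat 4205653852139173424819406335715605219491761853674029056, .ofNat 0, .ofNat 0, .ofNat 1718279486861603731872273561514374394024646021546130800640, .ofNat 17013589546249724339731081778904978725504352806661783552, .ofNat 0⟩)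
    (by decide +kernel)
theorem L08535 : Good (Phi V5.P V5.D (-1) (-1)) ⟨4, 13, 3, 4, 5, 19, 4, 8, 5, 13⟩ :=
  leafX_sound T5.ok_mm T5.Ymm.bz_eq (w := 268) (c := ⟨⟨.negSucc 1763, .negSucc 83, .negSucc 114, .negSucc 80, .negSucc 65, .negSucc 79⟩, ⟨.ofNat 928, .ofNat 125, .ofNat 193, .ofNat 52, .ofNat 45, .ofNat 54⟩, ⟨.ofNat 335, .ofNat 31, .negSucc 695, .negSucc 801, .negSucc 778, .negSucc 1314⟩, ⟨.negSucc 2864, .ofNat 76, .negSucc 93, .negSucc 44, .ofNat 39, .ofNat 23⟩, ⟨.negSucc 249, .ofNat 29, .ofNat 103, .ofNat 115, .ofNat 224, .ofNat 232⟩, .ofNat 1535, .ofNat 2112, .ofNat 0, .ofNat 2112, .ofNat 3793, .ofNat 0, .ofNat 128, .negSucc 701, .ofNat 438, .ofNat 0, .ofNat 476, .negSucc 279, .ofNat 0, .ofNat 0, .ofNat 5353, .ofNat 16153, .ofNat 0, .ofNat 0, .ofNat 0, .ofNat 0, .ofNat 0, .ofNat 34429594861458564935678355026707900790371183859098189824, .ofNat 16555283813807535296982959814575010549227527126323822592, .ofNat 0, .ofNat 0, .ofNat 501801960054818241170360395160605679230127237130082058240,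 .ofNat 11036469391097303264470271050766744499486230975157895168, .ofNat 0, .ofNat 0, .ofNat 3610791363849773923307188975976194720926191828684683345920, .ofNat 12451390097371737317227930821297881501384030033799020544, .ofNat 0⟩)
    (by decide +kernel)
theorem L08536 : Good (Phi V5.P V5.D (-1) (-1)) ⟨4, 13, 3, 4, 4, 9, 4, 9, 5, 13⟩ :=
  leafX_sound T5.ok_mm T5.Ymm.bz_eq (w := 252) (c := ⟨⟨.negSucc 1679, .negSucc 176, .negSucc 76, .negSucc 172, .negSucc 73, .negSucc 103⟩, ⟨.ofNat 875, .ofNat 194, .ofNat 160, .ofNat 111, .ofNat 51, .ofNat 70⟩, ⟨.ofNat 763, .negSucc 582, .negSucc 436, .negSucc 1620, .negSucc 870, .negSucc 1441⟩, ⟨.negSucc 2734, .negSucc 2, .negSucc 50, .negSucc 74, .ofNat 65, .ofNat 27⟩, ⟨.negSucc 212, .ofNat 92, .ofNat 82, .ofNat 298, .ofNat 291, .ofNat 297⟩, .ofNat 751, .ofNat 831, .ofNat 0, .ofNat 831, .ofNat 1625, .ofNat 0, .ofNat 128, .negSucc 489, .ofNat 340, .ofNat 0, .ofNat 374, .negSucc 236, .ofNat 0, .ofNat 0, .ofNat 4156,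 .ofNat 5741, .ofNat 0, .ofNat 1806030932512881346634740864905155981581262455308288, .ofNat 0, .ofNat 0, .ofNat 0, .ofNat 8844913119656711606174457078396835118967690421600256, .ofNat 127026511200285808825158693428083238483849834921984, .ofNat 0, .ofNat 0, .ofNat 72732387645806605717937790026945052412223172835803136, .ofNat 203634458354439499180208294315809055730691133669376, .ofNat 0, .ofNat 0, .ofNat 504477410409336741914569764882986863532760791232020480, .ofNat 569346634523112233357483190407689911446044015591424, .ofNat 0⟩)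
    (by decide +kernel)
theorem L08537 : Good (Phi V5.P V5.D (-1) (-1)) ⟨4, 13, 3, 4, 4, 8, 3, 5, 5, 12⟩ :=
  leafX_sound T5.ok_mm T5.Ymm.bz_eq (w := 247) (c := ⟨⟨.negSucc 1756, .negSucc 161, .ofNat 1, .negSucc 34, .ofNat 41, .ofNat 44⟩, ⟨.ofNat 922, .ofNat 182, .ofNat 106, .ofNat 25, .negSucc 10, .negSucc 21⟩, ⟨.ofNat 1115, .negSucc 315, .negSucc 48, .negSucc 817, .negSucc 879, .negSucc 493⟩, ⟨.negSucc 2831, .ofNat 12, .ofNat 3, .ofNat 30, .ofNat 317, .ofNat 134⟩, ⟨.negSucc 200, .ofNat 79, .negSucc 10, .ofNat 140, .ofNat 439, .ofNat 123⟩, .ofNat 756, .ofNat 837, .ofNat 0, .ofNat 837, .ofNat 1629, .ofNat 0, .ofNat 128, .negSucc 434, .ofNat 117, .ofNat 0, .ofNat 329, .negSucc 99, .ofNat 0, .ofNat 0, .ofNat 3101, .ofNat 2225, .ofNat 0, .ofNat 0, .ofNat 0, .ofNat 0, .ofNat 0, .ofNat 0, .ofNat 2762955162021243645443463735569561830005774745600, .ofNat 0, .ofNat 0, .ofNat 4229037821599495589724796689996423698660962399682560, .ofNat 6950006359843496134198706747453303203633899241472,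 .ofNat 0, .ofNat 0, .ofNat 34517934782760575095283474151533162155146370411921408, .ofNat 0, .ofNat 0⟩)
    (by decide +kernel)
theorem L08538 : Good (Phi V5.P V5.D (-1) (-1)) ⟨4, 13, 3, 4, 4, 9, 3, 5, 5, 12⟩ :=
  leafX_sound T5.ok_mm T5.Ymm.bz_eq (w := 248) (c := ⟨⟨.negSucc 1734, .negSucc 124, .negSucc 83, .negSucc 142, .negSucc 59, .negSucc 46⟩, ⟨.ofNat 907, .ofNat 167, .ofNat 160, .ofNat 93, .ofNat 52, .ofNat 34⟩, ⟨.ofNat 573, .negSucc 200, .negSucc 416, .negSucc 1258, .negSucc 1211, .negSucc 956⟩, ⟨.negSucc 2771, .ofNat 50, .negSucc 58, .negSucc 46, .ofNat 235, .ofNat 74⟩, ⟨.negSucc 128, .ofNat 37, .ofNat 83, .ofNat 270, .ofNat 550, .ofNat 243⟩, .ofNat 1100, .ofNat 1392, .ofNat 0, .ofNat 1392, .ofNat 2574, .ofNat 0, .ofNat 128, .negSucc 689, .ofNat 323, .ofNat 0, .ofNat 484, .negSucc 221, .ofNat 0, .ofNat 0, .ofNat 4334, .ofNat 2929, .ofNat 0, .ofNat 345236676097776389952150413940916393466021013356544, .ofNat 0, .ofNat 0, .ofNat 0, .ofNat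 1711846631963454268391929145411588724808996836343808, .ofNat 17784334672792058729187275558114684631936915210240, .ofNat 0, .ofNat 0, .ofNat 21933765923327269313151208359754293584640194058911744, .ofNat 18104873425093526607924946959599650298637290831872, .ofNat 0, .ofNat 0, .ofNat 117737123736192040333975121130804588432141927711768576, .ofNat 0, .ofNat 0⟩)
    (by decide +kernel)
theorem L08539 : Good (Phi V5.P V5.D (-1) (-1)) ⟨4, 13, 3, 4, 4, 8, 4, 10, 5, 13⟩ :=
  leafX_sound T5.ok_mm T5.Ymm.bz_eq (w := 252) (c := ⟨⟨.negSucc 1662, .negSucc 184, .ofNat 7, .negSucc 114, .negSucc 22, .negSucc 14⟩, ⟨.ofNat 866, .ofNat 207, .ofNat 94, .ofNat 74, .ofNat 21, .ofNat 13⟩, ⟨.ofNat 1003, .negSucc 548, .ofNat 19, .negSucc 1325, .negSucc 664, .negSucc 853⟩, ⟨.negSucc 2669, .ofNat 6, .ofNat 7, .negSucc 21, .ofNat 115, .ofNat 87⟩, ⟨.negSucc 149, .ofNat 120, .negSucc 17, .ofNat 246, .ofNat 249, .ofNat 193⟩, .ofNat 753, .ofNat 836, .ofNat 0, .ofNat 836, .ofNat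 1642, .ofNat 0, .ofNat 128, .negSucc 577, .ofNat 312, .ofNat 0, .ofNat 437, .negSucc 229, .ofNat 0, .ofNat 0, .ofNat 4865, .ofNat 5973, .ofNat 0, .ofNat 0, .ofNat 0, .ofNat 0, .ofNat 0, .ofNat 4515303053381688057038423675693712672680116236582912, .ofNat 146485876777499180180674440854003488955689240363008, .ofNat 0, .ofNat 0, .ofNat 55724879246124601035169106380989960482433103145467904, .ofNat 229975602574435117332090278913025272713802990747648, .ofNat 0, .ofNat 0, .ofNat 491727613919822009991333906075559822380605763594747904, .ofNat 388813018589739637521899582441617453460276564197376, .ofNat 0⟩)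
    (by decide +kernel)
theorem L08540 : Good (Phi V5.P V5.D (-1) (-1)) ⟨4, 13, 3, 4, 4, 8, 4, 11, 5, 13⟩ :=
  leafX_sound T5.ok_mm T5.Ymm.bz_eq (w := 252) (c := ⟨⟨.negSucc 1637, .negSucc 170, .negSucc 38, .negSucc 160, .negSucc 14, .negSucc 64⟩, ⟨.ofNat 853, .ofNat 207, .ofNat 114, .ofNat 106, .ofNat 17, .ofNat 46⟩, ⟨.ofNat 614, .negSucc 558, .negSucc 199, .negSucc 1497, .negSucc 628, .negSucc 1086⟩, ⟨.negSucc 2512, .ofNat 4, .negSucc 2, .negSucc 59, .ofNat 124, .ofNat 45⟩, ⟨.ofNat 81, .ofNat 65, .ofNat 63, .ofNat 286, .ofNat 249, .ofNat 231⟩, .ofNat 1559, .ofNat 2143, .ofNat 0, .ofNat 2143, .ofNat 3828, .ofNat 0, .ofNat 128, .negSucc 615, .ofNat 424, .ofNat 0, .ofNat 416, .negSucc 284, .ofNat 0, .ofNat 0, .ofNat 6196, .ofNat 6064, .ofNat 0, .ofNat 2181467942962895705510923634543377870265087994888192, .ofNat 0, .ofNat 0, .ofNat 0, .ofNat 13606914590195354074211262974551794453010756078141440, .ofNat 506274102648045164814642130705772232216684219334656,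 .ofNat 0, .ofNat 0, .ofNat 130696085664557929536302874113623779822097273039355904, .ofNat 303409379151597162268871511844855336565685813772288, .ofNat 0, .ofNat 0, .ofNat 1067600740130030610434578804553666782679327622467420160, .ofNat 0, .ofNat 0⟩)
    (by decide +kernel)
theorem L08541 : Good (Phi V5.P V5.D (-1) (-1)) ⟨4, 13, 3, 4, 4, 9, 3, 5, 5, 13⟩ :=
  leafX_sound T5.ok_mm T5.Ymm.bz_eq (w := 249) (c := ⟨⟨.negSucc 1760, .negSucc 142, .negSucc 93, .negSucc 235, .negSucc 187, .negSucc 137⟩, ⟨.ofNat 927, .ofNat 183, .ofNat 162, .ofNat 147, .ofNat 129, .ofNat 90⟩, ⟨.negSucc 228, .negSucc 324, .negSucc 517, .negSucc 1798, .negSucc 1838, .negSucc 1539⟩, ⟨.negSucc 2674, .ofNat 23, .negSucc 50, .negSucc 122, .ofNat 93, .ofNat 0⟩, ⟨.ofNat 96, .ofNat 48, .ofNat 106, .ofNat 361, .ofNat 602, .ofNat 331⟩, .ofNat 747, .ofNat 827, .ofNat 0, .ofNat 827, .ofNat 1627, .ofNat 0, .ofNat 128, .negSucc 376, .ofNat 316, .ofNat 0, .ofNat 286, .negSucc 222, .ofNat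 0, .ofNat 0, .ofNat 3817, .ofNat 9350, .ofNat 0, .ofNat 2261251231174187574977744409187464611397821297328128, .ofNat 0, .ofNat 0, .ofNat 0, .ofNat 8682212833263149963827440723773199766799308097060864, .ofNat 6081098512574380862300888041777008929024170262528, .ofNat 0, .ofNat 0, .ofNat 50752936226723075740884396063255269599327784640970752, .ofNat 0, .ofNat 0, .ofNat 0, .ofNat 337808114239457984268846405131947900896964977562222592, .ofNat 66163487508803926397319554135764744891344902684672, .ofNat 0⟩)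
    (by decide +kernel)
theorem L08542 : Good (Phi V5.P V5.D (-1) (-1)) ⟨4, 13, 3, 5, 3, 4, 2, 2, 4, 6⟩ :=
  out_sound (S := T5.ds_mm) T5.ok_mm (w := 51) (j := 3) (by decide +kernel)
theorem L08543 : Good (Phi V5.P V5.D (-1) (-1)) ⟨4, 12, 2, 2, 3, 5, 3, 4, 4, 6⟩ :=
  out_sound (S := T5.ds_mm) T5.ok_mm (w := 49) (j := 3) (by decide +kernel)
theorem L08544 : Good (Phi V5.P V5.D (-1) (-1)) ⟨4, 13, 3, 4, 4, 10, 4, 8, 5, 12⟩ :=
  leafX_sound T5.ok_mm T5.Ymm.bz_eq (w := 252) (c := ⟨⟨.negSucc 1809, .negSucc 61, .negSucc 113, .negSucc 106, .negSucc 63, .negSucc 49⟩, ⟨.ofNat 952, .ofNat 108, .ofNat 200, .ofNat 69, .ofNat 44, .ofNat 36⟩, ⟨.ofNat 432, .ofNat 116, .negSucc 564, .negSucc 1190, .negSucc 678, .negSucc 1032⟩, ⟨.negSucc 2998, .ofNat 82, .negSucc 94, .negSucc 13, .ofNat 68, .ofNat 81⟩, ⟨.negSucc 362, .negSucc 22, .ofNat 111, .ofNat 234, .ofNat 263, .ofNat 255⟩, .ofNat 759, .ofNat 840, .ofNat 0, .ofNat 840, .ofNat 1631, .ofNat 0, .ofNat 128, .negSucc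 494, .ofNat 317, .ofNat 0, .ofNat 378, .negSucc 222, .ofNat 0, .ofNat 0, .ofNat 3908, .ofNat 4119, .ofNat 0, .ofNat 811940191948988715209569887102359095184261250023424, .ofNat 0, .ofNat 0, .ofNat 0, .ofNat 4197854555021686526299346287763510738229820154445824, .ofNat 127865625102032769260000909950597838147864705892352, .ofNat 0, .ofNat 0, .ofNat 37885267309695378761438663999960874832973465217138688, .ofNat 164996680615713117356448138324898862974031781429248, .ofNat 0, .ofNat 0, .ofNat 323182922626387715037077505334060804282211791880060928, .ofNat 0, .ofNat 0⟩)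
    (by decide +kernel)
theorem L08545 : Good (Phi V5.P V5.D (-1) (-1)) ⟨4, 13, 3, 4, 4, 10, 4, 9, 5, 12⟩ :=
  leafX_sound T5.ok_mm T5.Ymm.bz_eq (w := 252) (c := ⟨⟨.negSucc 1786, .negSucc 134, .negSucc 96, .negSucc 186, .negSucc 93, .negSucc 105⟩, ⟨.ofNat 937, .ofNat 166, .ofNat 180, .ofNat 119, .ofNat 63, .ofNat 71⟩, ⟨.ofNat 140, .negSucc 279, .negSucc 421, .negSucc 1455, .negSucc 805, .negSucc 1249⟩, ⟨.negSucc 2871, .ofNat 26, .negSucc 70, .negSucc 66, .ofNat 61, .ofNat 44⟩, ⟨.negSucc 179, .ofNat 32, .ofNat 101, .ofNat 340, .ofNat 328, .ofNat 332⟩, .ofNat 752, .ofNat 834, .ofNat 0, .ofNat 834, .ofNat 1634, .ofNat 0, .ofNat 128, .negSucc 426, .ofNat 219, .ofNat 0, .ofNat 323, .negSucc 154, .ofNat 0, .ofNat 0, .ofNat 2495, .ofNat 4555, .ofNat 0, .ofNat 2060548090919566772284368596855373812520071571963904, .ofNat 0, .ofNat 0, .ofNat 0, .ofNat 8554659206625715044450815060968303606226620489138176, .ofNat 39452370599917225034671598157583113074959418654720,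 .ofNat 0, .ofNat 0, .ofNat 63037945473028845191398847759097270286092971364319232, .ofNat 0, .ofNat 0, .ofNat 0, .ofNat 280702437995908267682950417066912942748584822444130304, .ofNat 97618649300466143572230397000581266196081477156864, .ofNat 0⟩)
    (by decide +kernel)
theorem L08546 : Good (Phi V5.P V5.D (-1) (-1)) ⟨4, 13, 3, 5, 4, 10, 3, 4, 5, 12⟩ :=
  out_sound (S := T5.ds_mm) T5.ok_mm (w := 51) (j := 3) (by decide +kernel)
theorem L08547 : Good (Phi V5.P V5.D (-1) (-1)) ⟨4, 13, 2, 2, 4, 11, 3, 4, 5, 12⟩ :=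
  leafX_sound T5.ok_mm T5.Ymm.bz_eq (w := 248) (c := ⟨⟨.negSucc 1847, .negSucc 146, .negSucc 231, .ofNat 1, .negSucc 266, .ofNat 1⟩, ⟨.ofNat 978, .ofNat 159, .ofNat 411, .negSucc 0, .ofNat 196, .negSucc 0⟩, ⟨.negSucc 453, .negSucc 311, .negSucc 998, .ofNat 1, .negSucc 1574, .ofNat 1⟩, ⟨.negSucc 2952, .ofNat 9, .negSucc 170, .ofNat 2, .ofNat 21, .ofNat 2⟩, ⟨.negSucc 176, .ofNat 38, .ofNat 268, .ofNat 0, .ofNat 644, .ofNat 0⟩, .ofNat 366, .ofNat 261, .ofNat 0, .ofNat 261, .ofNat 644, .ofNat 0, .ofNat 128, .negSucc 494, .ofNat 347, .ofNat 0, .ofNat 508, .negSucc 286, .ofNat 0, .ofNat 0, .ofNat 3549, .ofNat 39920, .ofNat 0, .ofNat 679304095237732727829791343496495378515077770510336, .ofNat 0, .ofNat 0, .ofNat 0, .ofNat 1806547381010294652663874747265064927564957541728256, .ofNat 2110285293466947556942310984955363904260459724800, .ofNat 0, .ofNat 0, .ofNat 22556161684979898047760061394987301631252448065617920, .ofNat 0, .ofNat 0, .ofNat 0, .ofNat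 138893053127519649473094055288548890374173578114367488, .ofNat 66223758758470451552722939517340211967490430861312, .ofNat 0⟩)
    (by decide +kernel)
theorem L08548 : Good (Phi V5.P V5.D (-1) (-1)) ⟨4, 13, 2, 2, 4, 10, 3, 4, 5, 13⟩ :=
  leafX_sound T5.ok_mm T5.Ymm.bz_eq (w := 246) (c := ⟨⟨.negSucc 1809, .negSucc 107, .negSucc 241, .negSucc 214, .negSucc 240, .negSucc 139⟩, ⟨.ofNat 959, .ofNat 134, .ofNat 408, .ofNat 137, .ofNat 160, .ofNat 92⟩, ⟨.negSucc 252, .negSucc 224, .negSucc 1219, .negSucc 1780, .negSucc 2002, .negSucc 1550⟩, ⟨.negSucc 2869, .ofNat 28, .negSucc 174, .negSucc 103, .ofNat 41, .ofNat 8⟩, ⟨.negSucc 139, .negSucc 3, .ofNat 260, .ofNat 354, .ofNat 644, .ofNat 350⟩, .ofNat 367, .ofNat 262, .ofNat 0, .ofNat 262, .ofNat 644, .ofNat 0, .ofNat 128, .negSucc 302, .ofNat 303, .ofNat 0, .ofNat 311, .negSucc 240, .ofNat 0, .ofNat 0, .ofNat 3401, .ofNat 7212, .ofNat 0, .ofNat 264960098089222309942248038251981196250585453559808, .ofNat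 115350460237909965290706996875640258207871401984, .ofNat 0, .ofNat 0, .ofNat 800969986951764068854675909748705277157622520217600, .ofNat 961115801519217410699922044994309100987912028160, .ofNat 0, .ofNat 0, .ofNat 4463611712074692531476680876467525271136425339781120, .ofNat 0, .ofNat 0, .ofNat 0, .ofNat 31147621530295317806249004194158352442589914010222592, .ofNat 15756781140116407792759609390594834400650832379904, .ofNat 0⟩)
    (by decide +kernel)
theorem L08549 : Good (Phi V5.P V5.D (-1) (-1)) ⟨4, 13, 2, 2, 4, 11, 3, 4, 5, 13⟩ :=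
  out_sound (S := T5.ds_mm) T5.ok_mm (w := 38) (j := 2) (by decide +kernel)
theorem L08550 : Good (Phi V5.P V5.D (-1) (-1)) ⟨3, 6, 2, 2, 3, 5, 3, 5, 4, 6⟩ :=
  out_sound (S := T5.ds_mm) T5.ok_mm (w := 34) (j := 2) (by decide +kernel)
theorem L08551 : Good (Phi V5.P V5.D (-1) (-1)) ⟨3, 6, 2, 2, 4, 8, 4, 8, 5, 14⟩ :=
  leafX_sound T5.ok_mm T5.Ymm.bz_eq (w := 248) (c := ⟨⟨.negSucc 1308, .negSucc 391, .negSucc 58, .negSucc 177, .negSucc 93, .negSucc 131⟩, ⟨.ofNat 556, .ofNat 415, .ofNat 254, .ofNat 113, .ofNat 63, .ofNat 87⟩, ⟨.ofNat 2949, .negSucc 1182, .negSucc 604, .negSucc 1924, .negSucc 1097, .negSucc 1820⟩, ⟨.negSucc 2640, .negSucc 37, .negSucc 26, .negSucc 81, .ofNat 38, .ofNat 3⟩, ⟨.negSucc 618, .ofNat 218, .ofNat 80, .ofNat 294, .ofNat 286, .ofNat 311⟩, .ofNat 752, .ofNat 832, .ofNat 0, .ofNat 832, .ofNat 1628, .ofNat 0, .ofNat 128, .negSucc 581, .ofNat 656, .ofNat 0, .ofNat 446, .negSucc 454, .ofNat 0, .ofNat 0, .ofNat 8923, .ofNat 28888,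 .ofNat 7804988727864881076833680870680894208240262894845952, .ofNat 0, .ofNat 41839565925770589710111697703642332762127911092224, .ofNat 0, .ofNat 17085332877721568125922519063023256540385845130035200, .ofNat 14220587245980032785058542070796355940582672039936, .ofNat 247293187732168938899680694481461501829162089840640, .ofNat 0, .ofNat 115013436287564536649774202703228981272563029500755968, .ofNat 0, .ofNat 478527892131265873022570474567222856270040182816768, .ofNat 0, .ofNat 955971222123229436254170144390542983082843505181065216, .ofNat 9324326661608473631489185537465038459947459947790336, .ofNat 10504323864526295431825890500482795925764046193688576, .ofNat 0⟩)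
    (by decide +kernel)
theorem L08552 : Good (Phi V5.P V5.D (-1) (-1)) ⟨4, 12, 3, 4, 4, 8, 4, 9, 5, 14⟩ :=
  out_sound (S := T5.ds_mm) T5.ok_mm (w := 51) (j := 3) (by decide +kernel)
theorem L08553 : Good (Phi V5.P V5.D (-1) (-1)) ⟨4, 13, 3, 4, 5, 16, 4, 9, 6, 28⟩ :=
  leafX_sound T5.ok_mm T5.Ymm.bz_eq (w := 273) (c := ⟨⟨.negSucc 1670, .negSucc 94, .negSucc 68, .negSucc 77, .negSucc 20, .negSucc 59⟩, ⟨.ofNat 875, .ofNat 143, .ofNat 146, .ofNat 49, .ofNat 17, .ofNat 41⟩, ⟨.ofNat 893, .negSucc 73, .negSucc 478, .negSucc 908, .negSucc 679, .negSucc 859⟩, ⟨.negSucc 2672, .ofNat 63, .negSucc 31, .negSucc 37, .ofNat 83, .negSucc 4⟩, ⟨.negSucc 161, .ofNat 54, .ofNat 64, .ofNat 130, .ofNat 200, .ofNat 131⟩, .ofNat 1568, .ofNat 2158, .ofNat 0, .ofNat 2158, .ofNat 3853, .ofNat 0, .ofNat 128, .negSucc 837, .ofNat 752, .ofNat 0, .ofNat 567, .negSucc 490, .ofNat 0, .ofNat 0, .ofNat 10847, .ofNat 22552, .ofNat 20794372996956080779257337014639723515523834798962989072384,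 .ofNat 0, .ofNat 17920966044589173474804386013850099208546826362940293120, .ofNat 0, .ofNat 38962160326969733412719240011450395366725553533987869163520, .ofNat 0, .ofNat 556164009644092805795160625498373600945054351076699930624, .ofNat 0, .ofNat 0, .ofNat 0, .ofNat 0, .ofNat 0, .ofNat 0, .ofNat 0, .ofNat 0, .ofNat 0⟩)
    (by decide +kernel)
theorem L08554 : Good (Phi V5.P V5.D (-1) (-1)) ⟨4, 13, 3, 4, 5, 17, 4, 9, 6, 28⟩ :=
  leafX_sound T5.ok_mm T5.Ymm.bz_eq (w := 272) (c := ⟨⟨.negSucc 1581, .negSucc 307, .ofNat 9, .negSucc 151, .negSucc 120, .negSucc 75⟩, ⟨.ofNat 812, .ofNat 287, .ofNat 96, .ofNat 97, .ofNat 81, .ofNat 50⟩, ⟨.ofNat 1033, .negSucc 1411, .ofNat 7, .negSucc 1360, .negSucc 1288, .negSucc 992⟩, ⟨.negSucc 2601, .negSucc 78, .ofNat 5, .negSucc 80, .ofNat 35, .negSucc 6⟩, ⟨.negSucc 214, .ofNat 246, .negSucc 5, .ofNat 237, .ofNat 351, .ofNat 181⟩, .ofNat 378, .ofNat 285, .ofNat 0, .ofNat 285, .ofNat 704, .ofNat 0, .ofNat 128, .negSucc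 225, .ofNat 343, .ofNat 0, .ofNat 218, .negSucc 260, .ofNat 0, .ofNat 0, .ofNat 3552, .ofNat 9510, .ofNat 6466714736845312534845245380984314195324144504670064214016, .ofNat 32190299697401966994615127433061809322855064609539227648, .ofNat 6391358103314796598290315348455107537126703719413448704, .ofNat 0, .ofNat 0, .ofNat 124766029501066993067566642960599644855020906722625585152, .ofNat 2798423870374671055959890518897730807521600376676548608, .ofNat 0, .ofNat 0, .ofNat 555215487250156959923644566675125618895917837524177780736, .ofNat 80020845882592691707665395153440260729382109445321916416, .ofNat 0, .ofNat 0, .ofNat 10753711013212821938216267750466619429520454840291422109696, .ofNat 182434434980756662838906123136364888135073940342667476992, .ofNat 0⟩)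
    (by decide +kernel)
theorem L08555 : Good (Phi V5.P V5.D (-1) (-1)) ⟨4, 13, 3, 4, 5, 16, 4, 9, 6, 29⟩ :=
  leafX_sound T5.ok_mm T5.Ymm.bz_eq (w := 275) (c := ⟨⟨.negSucc 1465, .negSucc 236, .negSucc 78, .negSucc 212, .negSucc 156, .negSucc 99⟩, ⟨.ofNat 733, .ofNat 254, .ofNat 142, .ofNat 136, .ofNat 106, .ofNat 65⟩, ⟨.ofNat 1844, .negSucc 1038, .negSucc 589, .negSucc 1840, .negSucc 1574, .negSucc 1156⟩, ⟨.negSucc 2519, .negSucc 19, .negSucc 41, .negSucc 114, .ofNat 11, .negSucc 18⟩, ⟨.negSucc 332, .ofNat 170, .ofNat 97, .ofNat 315, .ofNat 393, .ofNat 211⟩, .ofNat 752, .ofNat 834, .ofNat 0, .ofNat 834, .ofNat 1636, .ofNat 0, .ofNat 128, .negSucc 642, .ofNat 691, .ofNat 0, .ofNat 491, .negSucc 482, .ofNat 0, .ofNat 0, .ofNat 8500, .ofNat 82246, .ofNat 98630831818426243637106989903555684855224330878182102138880, .ofNat 0, .ofNat 0, .ofNat 0, .ofNat 90746641856737196563379595900981347757902649729388128501760, .ofNat 412941143993767816721199437957635977844860588552586526720,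 .ofNat 134857621743026432314486492284416176718484464139671437312, .ofNat 0, .ofNat 722724685391379037868479591218782010033597369095829126643712, .ofNat 3053304301408436168940014894875069334542229109542653788160, .ofNat 2496046914383288264549048326687124246747451841660107882496, .ofNat 0, .ofNat 5971581107598953677184810646739413434066011118638491917877248, .ofNat 66751610693561666057086461087510544557468750324612781309952, .ofNat 5171994874359648034323369050085538391680234656244571308032, .ofNat 0⟩)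
    (by decide +kernel)

end Crest.Agent.R097C5.N5mm
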