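import Crest.Agent.R097.KP7
import Crest.Agent.R097.T5Ymm

/-!
# Row 97, box cover in dimension n = 5 (generated)
-/

set_option autoImplicit false
set_option Elab.async false
set_option maxHeartbeats 0
set_option maxRecDepth 100000

open Crest.Agent.R097 Crest.Agent.R097.KA


namespace Crest.Agent.R097C5.N5mm

theorem L08556 : Good (Phi V5.P V5.D (-1) (-1)) ⟨4, 13, 3, 4, 5, 17, 4, 9, 6, 29⟩ :=
  leafX_sound T5.ok_mm T5.Ymm.bz_eq (w := 274) (c := ⟨⟨.negSucc 1645, .negSucc 189, .negSucc 146, .ofNat 1, .negSucc 222, .ofNat 1⟩, ⟨.ofNat 840, .ofNat 223, .ofNat 188, .negSucc 0, .ofNat 164, .negSucc 0⟩, ⟨.ofNat 29, .negSucc 766, .negSucc 1017, .ofNat 1, .negSucc 1535, .ofNat 1⟩, ⟨.negSucc 2604, .ofNat 2, .negSucc 85, .ofNat 1, .negSucc 39, .ofNat 1⟩, ⟨.negSucc 70, .ofNat 112, .ofNat 172, .ofNat 0, .ofNat 515, .ofNat 0⟩, .ofNat 367, .ofNat 262, .ofNat 0, .ofNat 262, .ofNat 641, .ofNat 0, .ofNat 128, .negSucc 594, .ofNat 819, .ofNat 0, .ofNat 616, .negSucc 668, .ofNat 0, .ofNat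 0, .ofNat 9212, .ofNat 58048, .ofNat 157165363474171343261856560412325556474083066055460227383296, .ofNat 934494990216773743987268239612992789737125141120831979520, .ofNat 7605046957918988286917392974420916579060295778858696704, .ofNat 0, .ofNat 180616281773465747831725197228192051328613308140482453307392, .ofNat 2043617730710791726538794992365069550087192356907745542144, .ofNat 58853030237467334513027890599446107022065361403850522624, .ofNat 0, .ofNat 1924000989442965402518830145249432183350739954270357602435072, .ofNat 21664394123833875091836981967665924358602951079763610959872, .ofNat 0, .ofNat 0, .ofNat 7286526932660007300576409277582268229768277049461241131565056, .ofNat 156387307257919561186954424346230946026355263614674683297792, .ofNat 0, .ofNat 0⟩)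
    (by decide +kernel)
theorem L08557 : Good (Phi V5.P V5.D (-1) (-1)) ⟨3, 6, 3, 5, 4, 8, 4, 9, 5, 14⟩ :=
  out_sound (S := T5.ds_mm) T5.ok_mm (w := 45) (j := 3) (by decide +kernel)
theorem L08558 : Good (Phi V5.P V5.D (-1) (-1)) ⟨3, 6, 3, 4, 5, 18, 4, 8, 6, 28⟩ :=
  leafX_sound T5.ok_mm T5.Ymm.bz_eq (w := 270) (c := ⟨⟨.negSucc 1560, .negSucc 241, .negSucc 131, .negSucc 146, .negSucc 123, .negSucc 98⟩, ⟨.ofNat 722, .ofNat 311, .ofNat 198, .ofNat 93, .ofNat 82, .ofNat 64⟩, ⟨.ofNat 666, .negSucc 405, .negSucc 899, .negSucc 1315, .negSucc 1251, .negSucc 1133⟩, ⟨.negSucc 2739, .ofNat 44, .negSucc 81, .negSucc 98, .negSucc 3, .negSucc 36⟩, ⟨.negSucc 174, .ofNat 4, .ofNat 157, .ofNat 183, .ofNat 288, .ofNat 168⟩, .ofNat 1561, .ofNat 2146, .ofNat 0, .ofNat 2146, .ofNat 3832, .ofNat 0, .ofNat 128, .negSucc 591, .ofNat 632, .ofNat 0, .ofNat 402, .negSucc 402, .ofNat 0, .ofNat 0, .ofNat 7362, .ofNat 30362, .ofNat 1947765814197975466693182862920341905624933418298612121600, .ofNat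 5729958357604438014832493371723965007056449300902969344, .ofNat 42457264170460944580551445243076442524135571225657212928, .ofNat 0, .ofNat 2345675121575017067649722099673986087851945479210497212416, .ofNat 36014496936911561899892837794920966323022793289788030976, .ofNat 1112069193993479565922456584620252621924176991498107092992, .ofNat 0, .ofNat 17186541004964320071827979780769886204281211988688286777344, .ofNat 315436693032756208963654804356240860050659883220060864512, .ofNat 431590687423184085551985882584360222822661644278810279936, .ofNat 0, .ofNat 183582571078351832825303350472421410002945894132235792023552, .ofNat 3566966922137001823096002523444406428916808203411029753856, .ofNat 0, .ofNat 0⟩)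
    (by decide +kernel)
theorem L08559 : Good (Phi V5.P V5.D (-1) (-1)) ⟨3, 6, 3, 5, 5, 18, 4, 8, 6, 28⟩ :=
  out_sound (S := T5.ds_mm) T5.ok_mm (w := 45) (j := 3) (by decide +kernel)
theorem L08560 : Good (Phi V5.P V5.D (-1) (-1)) ⟨3, 6, 2, 2, 5, 18, 4, 9, 6, 28⟩ :=
  leafX_sound T5.ok_mm T5.Ymm.bz_eq (w := 268) (c := ⟨⟨.negSucc 1576, .negSucc 368, .negSucc 236, .ofNat 1, .negSucc 182, .negSucc 127⟩, ⟨.ofNat 710, .ofNat 424, .ofNat 356, .negSucc 0, .ofNat 135, .ofNat 86⟩, ⟨.ofNat 94, .negSucc 1243, .negSucc 1537, .ofNat 1, .negSucc 1287, .negSucc 1173⟩, ⟨.negSucc 2693, .negSucc 6, .negSucc 151, .ofNat 1, .negSucc 21, .negSucc 43⟩, ⟨.negSucc 35, .ofNat 196, .ofNat 256, .ofNat 0, .ofNat 413, .ofNat 244⟩, .ofNat 366, .ofNat 260, .ofNat 0, .ofNat 260, .ofNat 644, .ofNat 0, .ofNat 128, .negSucc 428, .ofNat 545, .ofNat 0, .ofNat 443, .negSucc 435, .ofNat 0, .ofNat 0, .ofNat 6140, .ofNat 82326, .ofNat 0, .ofNat 6259224938837260360483860944566406952805799997120446464, .ofNat 0,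 .ofNat 0, .ofNat 0, .ofNat 26036174988658951318258300132407360928450192109199163392, .ofNat 91893823227584239686452051266885082713091947519239258112, .ofNat 0, .ofNat 0, .ofNat 166860798672652198185207578898131120147542012283460780032, .ofNat 525805599037757430557819140765737914520187803837482926080, .ofNat 0, .ofNat 0, .ofNat 1856271936175512133333466524819513720946570629580255657984, .ofNat 4570461596386532577753780592713026207526252669277636132864, .ofNat 0⟩)
    (by decide +kernel)
theorem L08561 : Good (Phi V5.P V5.D (-1) (-1)) ⟨3, 6, 2, 2, 5, 19, 3, 4, 6, 28⟩ :=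
  out_sound (S := T5.ds_mm) T5.ok_mm (w := 42) (j := 2) (by decide +kernel)
theorem L08562 : Good (Phi V5.P V5.D (-1) (-1)) ⟨3, 6, 2, 2, 6, 36, 5, 16, 6, 29⟩ :=
  out_sound (S := T5.ds_mm) T5.ok_mm (w := 39) (j := 1) (by decide +kernel)
theorem L08563 : Good (Phi V5.P V5.D (-1) (-1)) ⟨3, 6, 2, 2, 6, 36, 5, 17, 6, 29⟩ :=
  out_sound (S := T5.ds_mm) T5.ok_mm (w := 48) (j := 2) (by decide +kernel)
theorem L08564 : Good (Phi V5.P V5.D (-1) (-1)) ⟨3, 6, 2, 2, 6, 37, 4, 8, 6, 29⟩ :=
  out_sound (S := T5.ds_mm) T5.ok_mm (w := 46) (j := 2) (by decide +kernel)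
theorem L08565 : Good (Phi V5.P V5.D (-1) (-1)) ⟨3, 6, 2, 2, 5, 18, 4, 9, 6, 29⟩ :=
  out_sound (S := T5.ds_mm) T5.ok_mm (w := 44) (j := 2) (by decide +kernel)
theorem L08566 : Good (Phi V5.P V5.D (-1) (-1)) ⟨3, 6, 2, 2, 5, 19, 3, 4, 6, 29⟩ :=
  out_sound (S := T5.ds_mm) T5.ok_mm (w := 42) (j := 2) (by decide +kernel)
theorem L08567 : Good (Phi V5.P V5.D (-1) (-1)) ⟨4, 12, 3, 4, 4, 8, 4, 10, 5, 14⟩ :=
  out_sound (S := T5.ds_mm) T5.ok_mm (w := 51) (j := 3) (by decide +kernel)
theorem L08568 : Good (Phi V5.P V5.D (-1) (-1)) ⟨4, 13, 3, 4, 5, 16, 4, 10, 6, 28⟩ :=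
  leafX_sound T5.ok_mm T5.Ymm.bz_eq (w := 273) (c := ⟨⟨.negSucc 1579, .negSucc 231, .negSucc 45, .negSucc 148, .negSucc 114, .negSucc 73⟩, ⟨.ofNat 811, .ofNat 251, .ofNat 119, .ofNat 96, .ofNat 79, .ofNat 48⟩, ⟨.ofNat 926, .negSucc 1006, .negSucc 305, .negSucc 1320, .negSucc 1266, .negSucc 931⟩, ⟨.negSucc 2530, .negSucc 11, .negSucc 23, .negSucc 66, .ofNat 62, .ofNat 0⟩, ⟨.negSucc 90, .ofNat 186, .ofNat 48, .ofNat 244, .ofNat 365, .ofNat 176⟩, .ofNat 751, .ofNat 832, .ofNat 0, .ofNat 832, .ofNat 1634, .ofNat 0, .ofNat 128, .negSucc 531, .ofNat 634, .ofNat 0, .ofNat 406, .negSucc 447, .ofNat 0, .ofNat 0, .ofNat 8012, .ofNat 13629, .ofNat 0, .ofNat 0, .ofNat 0, .ofNat 0, .ofNat 0, .ofNat 285555242083849727733239998999260739097491451854291206144, .ofNat 105488537703653346876909092649152026357125220554093101056, .ofNat 0, .ofNat 0, .ofNat 3197753803073686218034981347543599035411536965582802911232, .ofNat 280247181947222152400271091155616689042292775154800918528, .ofNat 0, .ofNat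 0, .ofNat 49042384754697195067263476803491913910414400853897755230208, .ofNat 0, .ofNat 0⟩)
    (by decide +kernel)
theorem L08569 : Good (Phi V5.P V5.D (-1) (-1)) ⟨4, 13, 3, 4, 5, 16, 4, 10, 6, 29⟩ :=
  leafX_sound T5.ok_mm T5.Ymm.bz_eq (w := 274) (c := ⟨⟨.negSucc 1694, .negSucc 109, .negSucc 136, .negSucc 215, .negSucc 117, .negSucc 106⟩, ⟨.ofNat 890, .ofNat 166, .ofNat 180, .ofNat 138, .ofNat 77, .ofNat 68⟩, ⟨.negSucc 181, .negSucc 264, .negSucc 924, .negSucc 1889, .negSucc 1348, .negSucc 1236⟩, ⟨.negSucc 2543, .ofNat 53, .negSucc 70, .negSucc 134, .ofNat 3, .negSucc 36⟩, ⟨.ofNat 150, .ofNat 39, .ofNat 153, .ofNat 281, .ofNat 290, .ofNat 195⟩, .ofNat 1581, .ofNat 2175, .ofNat 0, .ofNat 2175, .ofNat 3868, .ofNat 0, .ofNat 128, .negSucc 610, .ofNat 738, .ofNat 0, .ofNat 414, .negSucc 479, .ofNat 0, .ofNat 0, .ofNat 8828, .ofNat 39995, .ofNat 30867513995229573388993809783001369508764915668116549140480, .ofNat 265307626705086828525866020504472128773203333362437062656, .ofNat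 35576788517013640115593998279016034866578296050993332224, .ofNat 0, .ofNat 0, .ofNat 1333745058790542452663859117341856384786937589683514769408, .ofNat 424334579818085695619400797936743076624435749523877265408, .ofNat 0, .ofNat 0, .ofNat 12555870075462838057595454137026541501879991264443939946496, .ofNat 137378770021885237943418288903347268901228081950018764800, .ofNat 0, .ofNat 0, .ofNat 120168259178595159036444314371188655639242949993495447732224, .ofNat 3152156519278198361255690968487839777077871034863674458112, .ofNat 0⟩)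
    (by decide +kernel)
theorem L08570 : Good (Phi V5.P V5.D (-1) (-1)) ⟨4, 13, 3, 4, 5, 17, 4, 10, 5, 14⟩ :=
  leafX_sound T5.ok_mm T5.Ymm.bz_eq (w := 271) (c := ⟨⟨.negSucc 1737, .negSucc 173, .negSucc 111, .ofNat 1, .negSucc 167, .ofNat 1⟩, ⟨.ofNat 911, .ofNat 212, .ofNat 164, .negSucc 0, .ofNat 121, .negSucc 0⟩, ⟨.negSucc 480, .negSucc 608, .negSucc 702, .ofNat 1, .negSucc 1319, .ofNat 1⟩, ⟨.negSucc 2598, .ofNat 16, .negSucc 61, .ofNat 1, .ofNat 13, .ofNat 1⟩, ⟨.ofNat 176, .ofNat 101, .ofNat 125, .ofNat 0, .ofNat 434, .ofNat 0⟩, .ofNat 367, .ofNat 262, .ofNat 0, .ofNat 262, .ofNat 643, .ofNat 0, .ofNat 128, .negSucc 621, .ofNat 729, .ofNat 0, .ofNat 636, .negSucc 618, .ofNat 0, .ofNat 0, .ofNat 8501, .ofNat 167181, .ofNat 0, .ofNat 0, .ofNat 0, .ofNat 0, .ofNat 0, .ofNat 487427620601227739580956433821241428373916152765419094016, .ofNat 1280359910745648789966439667759361292639479353915211776, .ofNat 0, .ofNat 0, .ofNat 6360300816107984914424338878052565334566493511071796559872,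 .ofNat 0, .ofNat 0, .ofNat 0, .ofNat 75944395902550538847847793876018607017038677488808325283840, .ofNat 37666268067573399647758980352618187797601193680456122368, .ofNat 0⟩)
    (by decide +kernel)
theorem L08571 : Good (Phi V5.P V5.D (-1) (-1)) ⟨3, 6, 3, 5, 4, 8, 4, 10, 5, 14⟩ :=
  out_sound (S := T5.ds_mm) T5.ok_mm (w := 45) (j := 3) (by decide +kernel)
theorem L08572 : Good (Phi V5.P V5.D (-1) (-1)) ⟨3, 6, 2, 2, 4, 8, 4, 11, 5, 14⟩ :=
  out_sound (S := T5.ds_mm) T5.ok_mm (w := 40) (j := 2) (by decide +kernel)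
theorem L08573 : Good (Phi V5.P V5.D (-1) (-1)) ⟨3, 6, 2, 2, 4, 9, 3, 5, 5, 14⟩ :=
  out_sound (S := T5.ds_mm) T5.ok_mm (w := 38) (j := 2) (by decide +kernel)
theorem L08574 : Good (Phi V5.P V5.D (-1) (-1)) ⟨3, 6, 2, 2, 4, 8, 4, 8, 5, 15⟩ :=
  out_sound (S := T5.ds_mm) T5.ok_mm (w := 32) (j := 1) (by decide +kernel)
theorem L08575 : Good (Phi V5.P V5.D (-1) (-1)) ⟨3, 6, 2, 2, 5, 16, 4, 9, 6, 30⟩ :=
  out_sound (S := T5.ds_mm) T5.ok_mm (w := 36) (j := 1) (by decide +kernel)
theorem L08576 : Good (Phi V5.P V5.D (-1) (-1)) ⟨3, 6, 2, 2, 5, 17, 4, 9, 6, 30⟩ :=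
  out_sound (S := T5.ds_mm) T5.ok_mm (w := 44) (j := 2) (by decide +kernel)
theorem L08577 : Good (Phi V5.P V5.D (-1) (-1)) ⟨3, 6, 2, 2, 4, 8, 4, 9, 6, 31⟩ :=
  out_sound (S := T5.ds_mm) T5.ok_mm (w := 34) (j := 1) (by decide +kernel)
theorem L08578 : Good (Phi V5.P V5.D (-1) (-1)) ⟨3, 6, 2, 2, 4, 8, 3, 5, 5, 15⟩ :=
  out_sound (S := T5.ds_mm) T5.ok_mm (w := 38) (j := 2) (by decide +kernel)
theorem L08579 : Good (Phi V5.P V5.D (-1) (-1)) ⟨3, 6, 2, 2, 4, 9, 2, 2, 5, 15⟩ :=
  out_sound (S := T5.ds_mm) T5.ok_mm (w := 36) (j := 2) (by decide +kernel)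
theorem L08580 : Good (Phi V5.P V5.D (-1) (-1)) ⟨3, 6, 2, 2, 3, 5, 2, 2, 4, 7⟩ :=
  out_sound (S := T5.ds_mm) T5.ok_mm (w := 32) (j := 2) (by decide +kernel)
theorem L08581 : Good (Phi V5.P V5.D (-1) (-1)) ⟨3, 6, 2, 2, 3, 4, 2, 3, 4, 6⟩ :=
  leafX_sound T5.ok_mm T5.Ymm.bz_eq (w := 216) (c := ⟨⟨.negSucc 1544, .negSucc 248, .negSucc 68, .negSucc 227, .ofNat 80, .negSucc 30⟩, ⟨.ofNat 701, .ofNat 354, .ofNat 214, .ofNat 148, .negSucc 16, .ofNat 27⟩, ⟨.ofNat 619, .negSucc 465, .negSucc 291, .negSucc 2052, .negSucc 1811, .negSucc 1274⟩, ⟨.negSucc 2525, .ofNat 90, .negSucc 14, .ofNat 4, .ofNat 762, .ofNat 188⟩, ⟨.ofNat 148, .ofNat 93, .ofNat 58, .ofNat 559, .ofNat 1115, .ofNat 387⟩, .ofNat 366, .ofNat 260, .ofNat 0, .ofNat 260, .ofNat 641, .ofNat 0, .ofNat 136, .negSucc 127, .ofNat 48, .ofNat 0, .ofNat 127, .negSucc 70, .ofNat 0, .ofNat 0, .ofNat 1360, .ofNat 620, .ofNat 0, .ofNat 18099133631392061189466482143554937265586176, .ofNat 2706100112752289395626386486797906477056, .ofNat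 0, .ofNat 0, .ofNat 74377703761594890304864579841430121592389632, .ofNat 22063220328983431929478898238214612451328, .ofNat 0, .ofNat 0, .ofNat 185549826339840352320158617233684815096578048, .ofNat 51185921034456394033765203931118377631744, .ofNat 0, .ofNat 0, .ofNat 1139362689561982279957381677342106629714214912, .ofNat 0, .ofNat 0⟩)
    (by decide +kernel)
theorem L08582 : Good (Phi V5.P V5.D (-1) (-1)) ⟨3, 6, 2, 2, 3, 4, 2, 3, 4, 7⟩ :=
  out_sound (S := T5.ds_mm) T5.ok_mm (w := 32) (j := 2) (by decide +kernel)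
theorem L08583 : Good (Phi V5.P V5.D (-1) (-1)) ⟨3, 6, 2, 2, 3, 5, 2, 3, 3, 3⟩ :=
  out_sound (S := T5.ds_mm) T5.ok_mm (w := 30) (j := 2) (by decide +kernel)
theorem L08584 : Good (Phi V5.P V5.D (-1) (-1)) ⟨5, 28, 2, 2, 4, 8, 3, 4, 5, 12⟩ :=
  leafX_sound T5.ok_mm T5.Ymm.bz_eq (w := 250) (c := ⟨⟨.negSucc 1995, .negSucc 41, .negSucc 73, .ofNat 25, .ofNat 71, .ofNat 96⟩, ⟨.ofNat 1151, .ofNat 76, .ofNat 279, .negSucc 16, .negSucc 43, .negSucc 61⟩, ⟨.ofNat 1442, .negSucc 84, .negSucc 226, .negSucc 646, .negSucc 686, .negSucc 292⟩, ⟨.negSucc 3113, .ofNat 12, .negSucc 29, .ofNat 55, .ofNat 270, .ofNat 183⟩, ⟨.negSucc 368, .ofNat 8, .ofNat 41, .ofNat 30, .ofNat 263, .ofNat 75⟩, .ofNat 883, .ofNat 997, .ofNat 0, .ofNat 997, .ofNat 1760, .ofNat 0, .ofNat 128, .negSucc 758, .negSucc 32, .ofNat 0, .ofNat 579, .negSucc 0, .ofNat 0, .ofNat 0, .ofNat 4209, .ofNat 11136, .ofNat 0, .ofNat 0, .ofNat 0, .ofNat 0, .ofNat 0, .ofNat 0, .ofNat 1756174526285191949431975671796020233801262170112,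 .ofNat 0, .ofNat 0, .ofNat 0, .ofNat 0, .ofNat 0, .ofNat 0, .ofNat 0, .ofNat 0, .ofNat 0⟩)
    (by decide +kernel)
theorem L08585 : Good (Phi V5.P V5.D (-1) (-1)) ⟨5, 28, 2, 2, 5, 18, 3, 4, 5, 12⟩ :=
  leafX_sound T5.ok_mm T5.Ymm.bz_eq (w := 262) (c := ⟨⟨.negSucc 1733, .ofNat 144, .negSucc 516, .negSucc 33, .negSucc 57, .ofNat 25⟩, ⟨.ofNat 984, .negSucc 44, .ofNat 559, .ofNat 22, .ofNat 41, .negSucc 14⟩, ⟨.ofNat 1515, .ofNat 363, .negSucc 1386, .negSucc 515, .negSucc 1165, .negSucc 692⟩, ⟨.negSucc 2942, .ofNat 91, .negSucc 236, .ofNat 2, .ofNat 208, .ofNat 141⟩, ⟨.negSucc 594, .negSucc 186, .ofNat 463, .ofNat 82, .ofNat 463, .ofNat 173⟩, .ofNat 388, .ofNat 293, .ofNat 0, .ofNat 293, .ofNat 645, .ofNat 0, .ofNat 128, .negSucc 313, .ofNat 132, .ofNat 0, .ofNat 307, .negSucc 136, .ofNat 0, .ofNat 0, .ofNat 2944, .ofNat 2540, .ofNat 0, .ofNat 0, .ofNat 0, .ofNat 0, .ofNat 0, .ofNat 0, .ofNat 7576596164504456887439861130174467739891518723325952, .ofNat 0, .ofNat 0, .ofNat 0,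 .ofNat 14731309147332123299549006950871621926021888563216384, .ofNat 3279846315090568690477272672891374417611612746072681074393088, .ofNat 0, .ofNat 216301532787694235054544455539162464187776774235035271168, .ofNat 56871495671943705683878977916799640552731026663669760, .ofNat 18185798567407696935094673916397515012276487873176201559277568⟩)
    (by decide +kernel)
theorem L08586 : Good (Phi V5.P V5.D (-1) (-1)) ⟨5, 28, 2, 2, 5, 19, 4, 8, 5, 12⟩ :=
  leafX_sound T5.ok_mm T5.Ymm.bz_eq (w := 267) (c := ⟨⟨.negSucc 1943, .negSucc 152, .ofNat 63, .negSucc 61, .negSucc 62, .negSucc 32⟩, ⟨.ofNat 1105, .ofNat 135, .ofNat 219, .ofNat 41, .ofNat 42, .ofNat 23⟩, ⟨.ofNat 735, .negSucc 336, .negSucc 173, .negSucc 628, .negSucc 698, .negSucc 980⟩, ⟨.negSucc 2990, .negSucc 21, .negSucc 31, .negSucc 13, .ofNat 80, .ofNat 107⟩, ⟨.negSucc 399, .ofNat 86, .negSucc 18, .ofNat 120, .ofNat 267, .ofNat 247⟩, .ofNat 381, .ofNat 281, .ofNat 0, .ofNat 281, .ofNat 617, .ofNat 0, .ofNat 128, .negSucc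 292, .ofNat 210, .ofNat 0, .ofNat 296, .negSucc 197, .ofNat 0, .ofNat 0, .ofNat 3151, .ofNat 4530, .ofNat 0, .ofNat 0, .ofNat 0, .ofNat 0, .ofNat 0, .ofNat 0, .ofNat 77536120489771998227725800388582383388330731553947648, .ofNat 0, .ofNat 0, .ofNat 10104965377232876025175973535327260094921941074069946368, .ofNat 296758185964986944253307554271377888698260554178887680, .ofNat 58918193497967128981219512619073541467724663974112819014533120, .ofNat 0, .ofNat 1034765735086034051941353230552371353484790729435716255744, .ofNat 1307951760665038676008458930973198284762105121093976064, .ofNat 401431912782921219211827702410544169330739995328663645161783296⟩)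
    (by decide +kernel)
theorem L08587 : Good (Phi V5.P V5.D (-1) (-1)) ⟨5, 28, 2, 2, 5, 19, 4, 9, 5, 12⟩ :=
  leafX_sound T5.ok_mm T5.Ymm.bz_eq (w := 267) (c := ⟨⟨.negSucc 1663, .ofNat 112, .negSucc 600, .negSucc 111, .negSucc 99, .negSucc 117⟩, ⟨.ofNat 937, .negSucc 25, .ofNat 621, .ofNat 73, .ofNat 67, .ofNat 79⟩, ⟨.ofNat 926, .ofNat 233, .negSucc 1678, .negSucc 788, .negSucc 834, .negSucc 1368⟩, ⟨.negSucc 2773, .ofNat 97, .negSucc 280, .negSucc 35, .ofNat 81, .ofNat 51⟩, ⟨.negSucc 390, .negSucc 48, .ofNat 384, .ofNat 188, .ofNat 339, .ofNat 339⟩, .ofNat 820, .ofNat 889, .ofNat 0, .ofNat 889, .ofNat 1567, .ofNat 0, .ofNat 128, .negSucc 743, .ofNat 590, .ofNat 0, .ofNat 592, .negSucc 443, .ofNat 0, .ofNat 0, .ofNat 5508, .ofNat 3945, .ofNat 0, .ofNat 11986886378136502886481539391273406771238488822350086144, .ofNat 8720316139036987266958553649745703427672797175873536, .ofNat 0, .ofNat 0, .ofNat 8562452691444446767653068573228921951213238312580939776, .ofNat 289089199307144234866846420773323027214836180499562496,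 .ofNat 0, .ofNat 0, .ofNat 371465166136685191417783023766396489521954760256693207040, .ofNat 1761809120808120233443997515553222148753219939882500096, .ofNat 0, .ofNat 0, .ofNat 5930974951575710917575920982429633129487083492454856392704, .ofNat 1528985934944040152839200373982867455438572111047688192, .ofNat 0⟩)
    (by decide +kernel)
theorem L08588 : Good (Phi V5.P V5.D (-1) (-1)) ⟨5, 29, 2, 2, 3, 4, 3, 4, 5, 12⟩ :=
  out_sound (S := T5.ds_mm) T5.ok_mm (w := 17) (j := 4) (by decide +kernel)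
theorem L08589 : Good (Phi V5.P V5.D (-1) (-1)) ⟨5, 28, 2, 2, 4, 8, 4, 8, 6, 26⟩ :=
  leafX_sound T5.ok_mm T5.Ymm.bz_eq (w := 259) (c := ⟨⟨.negSucc 1776, .ofNat 70, .negSucc 326, .negSucc 21, .ofNat 5, .ofNat 35⟩, ⟨.ofNat 1005, .negSucc 7, .ofNat 456, .ofNat 14, .negSucc 1, .negSucc 22⟩, ⟨.ofNat 1502, .ofNat 104, .negSucc 741, .negSucc 935, .negSucc 484, .negSucc 209⟩, ⟨.negSucc 2868, .ofNat 60, .negSucc 144, .ofNat 30, .ofNat 108, .ofNat 77⟩, ⟨.negSucc 365, .negSucc 47, .ofNat 159, .ofNat 91, .ofNat 155, .ofNat 42⟩, .ofNat 890, .ofNat 1007, .ofNat 0, .ofNat 1007, .ofNat 1768, .ofNat 0, .ofNat 128, .negSucc 1019, .ofNat 189, .ofNat 0, .ofNat 782, .negSucc 158, .ofNat 0, .ofNat 0, .ofNat 7169, .ofNat 12232, .ofNat 5230634216737695442621869057016338174708392996450074624, .ofNat 0, .ofNat 30541454174353235944715269553649863978948099047424, .ofNat 0, .ofNat 0, .ofNat 0, .ofNat 1459895339483976506905837816924622513257919627132928, .ofNat 0, .ofNat 0, .ofNat 0, .ofNat 0, .ofNat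 0, .ofNat 0, .ofNat 0, .ofNat 0, .ofNat 0⟩)
    (by decide +kernel)
theorem L08590 : Good (Phi V5.P V5.D (-1) (-1)) ⟨5, 28, 2, 2, 4, 8, 4, 8, 6, 27⟩ :=
  leafX_sound T5.ok_mm T5.Ymm.bz_eq (w := 261) (c := ⟨⟨.negSucc 1812, .negSucc 139, .ofNat 63, .negSucc 125, .negSucc 39, .negSucc 0⟩, ⟨.ofNat 1036, .ofNat 132, .ofNat 188, .ofNat 83, .ofNat 27, .ofNat 2⟩, ⟨.ofNat 1557, .negSucc 414, .negSucc 97, .negSucc 1556, .negSucc 739, .negSucc 448⟩, ⟨.negSucc 2813, .negSucc 27, .ofNat 18, .negSucc 29, .ofNat 85, .ofNat 50⟩, ⟨.negSucc 379, .ofNat 60, .ofNat 4, .ofNat 230, .ofNat 223, .ofNat 78⟩, .ofNat 883, .ofNat 998, .ofNat 0, .ofNat 998, .ofNat 1760, .ofNat 0, .ofNat 128, .negSucc 827, .ofNat 414, .ofNat 0, .ofNat 637, .negSucc 311, .ofNat 0, .ofNat 0, .ofNat 7896, .ofNat 30331, .ofNat 13731170747136158523300596057080387695034839735518363648, .ofNat 0, .ofNat 65481685746643722966257045746922499065169680793600, .ofNat 4945479618253277266195566267001112478509270448551856439296, .ofNat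 14524207270701068531851143272097272370799920080761126912, .ofNat 0, .ofNat 801322512106572446256878077956043099903956111851520, .ofNat 0, .ofNat 0, .ofNat 0, .ofNat 0, .ofNat 0, .ofNat 0, .ofNat 0, .ofNat 0, .ofNat 0⟩)
    (by decide +kernel)
theorem L08591 : Good (Phi V5.P V5.D (-1) (-1)) ⟨5, 28, 2, 2, 5, 16, 4, 9, 5, 13⟩ :=
  leafX_sound T5.ok_mm T5.Ymm.bz_eq (w := 268) (c := ⟨⟨.negSucc 1778, .negSucc 8, .negSucc 169, .negSucc 60, .negSucc 40, .ofNat 15⟩, ⟨.ofNat 1026, .ofNat 57, .ofNat 311, .ofNat 40, .ofNat 28, .negSucc 8⟩, ⟨.ofNat 1246, .negSucc 9, .negSucc 585, .negSucc 732, .negSucc 767, .negSucc 712⟩, ⟨.negSucc 2742, .ofNat 55, .negSucc 120, .negSucc 9, .ofNat 99, .ofNat 115⟩, ⟨.negSucc 358, .negSucc 99, .ofNat 304, .ofNat 126, .ofNat 251, .ofNat 155⟩, .ofNat 387, .ofNat 293, .ofNat 0, .ofNat 293, .ofNat 644, .ofNat 0, .ofNat 128, .negSucc 284, .ofNat 159, .ofNat 0, .ofNat 281, .negSucc 167, .ofNat 0, .ofNat 0, .ofNat 3678, .ofNat 11055, .ofNat 2183109145478153383502873780164987524009910837382683295744,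 .ofNat 0, .ofNat 5418745616895081775907157070494646056416735970459648, .ofNat 0, .ofNat 0, .ofNat 0, .ofNat 171668174912214086145028516672836579668096586036019200, .ofNat 0, .ofNat 0, .ofNat 0, .ofNat 327743349655861074753915857833789969785097730733899776, .ofNat 38420918952807020020790671492182100569453674710058249991749632, .ofNat 0, .ofNat 0, .ofNat 1604700312046743380238645549273113744344967120821420032, .ofNat 573174561611581515134903705452055195620451178891319152673292288⟩)
    (by decide +kernel)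
theorem L08592 : Good (Phi V5.P V5.D (-1) (-1)) ⟨5, 28, 3, 4, 5, 17, 4, 9, 5, 13⟩ :=
  leafX_sound T5.ok_mm T5.Ymm.bz_eq (w := 272) (c := ⟨⟨.negSucc 1694, .negSucc 31, .negSucc 144, .negSucc 112, .negSucc 92, .negSucc 76⟩, ⟨.ofNat 967, .ofNat 68, .ofNat 200, .ofNat 73, .ofNat 63, .ofNat 52⟩, ⟨.ofNat 1386, .negSucc 110, .negSucc 687, .negSucc 1001, .negSucc 1025, .negSucc 1294⟩, ⟨.negSucc 2677, .ofNat 35, .negSucc 97, .negSucc 36, .ofNat 75, .ofNat 70⟩, ⟨.negSucc 358, .negSucc 21, .ofNat 136, .ofNat 196, .ofNat 328, .ofNat 283⟩, .ofNat 1715, .ofNat 2195, .ofNat 0, .ofNat 2195, .ofNat 3556, .ofNat 0, .ofNat 128, .negSucc 636, .ofNat 456, .ofNat 0, .ofNat 491, .negSucc 339, .ofNat 0, .ofNat 0, .ofNat 6197, .ofNat 13645, .ofNat 0, .ofNat 0, .ofNat 0, .ofNat 0, .ofNat 0, .ofNat 562715119630089399054146308258804770560988616816727162880, .ofNat 3915518978657995299284105060071810572643762929817092096, .ofNat 0, .ofNat 0, .ofNat 1493765408532410619521890865480517372762302426483687161856,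 .ofNat 8658957904994390728203815443505885812048014326827581440, .ofNat 0, .ofNat 0, .ofNat 41056157313644396628695775818913035770947970545894247366656, .ofNat 13864078850288535331466437345617489196506774171990097920, .ofNat 0⟩)
    (by decide +kernel)
theorem L08593 : Good (Phi V5.P V5.D (-1) (-1)) ⟨5, 28, 3, 5, 5, 17, 4, 9, 5, 13⟩ :=
  leafX_sound T5.ok_mm T5.Ymm.bz_eq (w := 270) (c := ⟨⟨.negSucc 1834, .ofNat 120, .negSucc 316, .negSucc 169, .negSucc 102, .negSucc 101⟩, ⟨.ofNat 1162, .negSucc 25, .ofNat 309, .ofNat 112, .ofNat 68, .ofNat 67⟩, ⟨.ofNat 832, .ofNat 253, .negSucc 1077, .negSucc 1333, .negSucc 1037, .negSucc 1467⟩, ⟨.negSucc 2763, .ofNat 120, .negSucc 172, .negSucc 78, .ofNat 69, .ofNat 47⟩, ⟨.negSucc 248, .negSucc 145, .ofNat 314, .ofNat 260, .ofNat 341, .ofNat 318⟩, .ofNat 390, .ofNat 297, .ofNat 0, .ofNat 297, .ofNat 646, .ofNat 0, .ofNat 128, .negSucc 344, .ofNat 331, .ofNat 0, .ofNat 341, .negSucc 291, .ofNat 0, .ofNat 0, .ofNat 3983, .ofNat 4632, .ofNat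 0, .ofNat 0, .ofNat 108720050204456755450284664753839625080206437191254016, .ofNat 20931535360044919020487655297697873001898716993391154350260224, .ofNat 0, .ofNat 27270708990366814662929390311714586057434959961261080576, .ofNat 441719037418693465858541526828998879655143916166971392, .ofNat 0, .ofNat 0, .ofNat 630443534987861927451909958918187098133657603751662321664, .ofNat 904474572825968799841400007608402634192198502889553920, .ofNat 0, .ofNat 0, .ofNat 17373546950789189880885191543389097490883201664035682516992, .ofNat 11373954726367929809535607139261637104879404716524568576, .ofNat 4436074656148469286976156513971910097192866999131006366046486528⟩)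
    (by decide +kernel)
theorem L08594 : Good (Phi V5.P V5.D (-1) (-1)) ⟨5, 28, 2, 2, 5, 18, 4, 8, 6, 26⟩ :=
  leafX_sound T5.ok_mm T5.Ymm.bz_eq (w := 273) (c := ⟨⟨.negSucc 1814, .negSucc 58, .negSucc 138, .negSucc 85, .negSucc 76, .negSucc 17⟩, ⟨.ofNat 1029, .ofNat 76, .ofNat 335, .ofNat 56, .ofNat 52, .ofNat 13⟩, ⟨.ofNat 785, .negSucc 234, .negSucc 518, .negSucc 828, .negSucc 865, .negSucc 539⟩, ⟨.negSucc 2833, .ofNat 4, .negSucc 78, .negSucc 31, .ofNat 63, .ofNat 44⟩, ⟨.negSucc 342, .ofNat 11, .ofNat 116, .ofNat 146, .ofNat 276, .ofNat 113⟩, .ofNat 388, .ofNat 293, .ofNat 0, .ofNat 293, .ofNat 645, .ofNat 0, .ofNat 128, .negSucc 319, .ofNat 260, .ofNat 0, .ofNat 318, .negSucc 229, .ofNat 0, .ofNat 0, .ofNat 3796, .ofNat 15142, .ofNat 0, .ofNat 0, .ofNat 0, .ofNat 0, .ofNat 0, .ofNat 22627342337850091969437167326086748380862671152824188928, .ofNat 3860404263194550104529100357100902671922192839639826432, .ofNat 316288354644146581378970600763518341149306850584197186124251136,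 .ofNat 0, .ofNat 0, .ofNat 10072733275725855131732124628582759373808308386543960064, .ofNat 3829894539802907079782850927014370621941814720560525853495132160, .ofNat 0, .ofNat 13148906607568372150788261701815582278804880577837381189632, .ofNat 127688030760072786218720977024197070227603080232908619776, .ofNat 19014889148143126301864509961291326981499646513212891686640812032⟩)
    (by decide +kernel)
theorem L08595 : Good (Phi V5.P V5.D (-1) (-1)) ⟨5, 28, 2, 2, 5, 19, 4, 8, 6, 26⟩ :=
  leafX_sound T5.ok_mm T5.Ymm.bz_eq (w := 274) (c := ⟨⟨.negSucc 1824, .negSucc 154, .negSucc 75, .negSucc 175, .negSucc 148, .negSucc 104⟩, ⟨.ofNat 1034, .ofNat 144, .ofNat 292, .ofNat 117, .ofNat 99, .ofNat 70⟩, ⟨.ofNat 434, .negSucc 664, .negSucc 382, .negSucc 1293, .negSucc 1195, .negSucc 1018⟩, ⟨.negSucc 2824, .negSucc 56, .negSucc 27, .negSucc 89, .ofNat 19, .negSucc 8⟩, ⟨.negSucc 290, .ofNat 111, .ofNat 59, .ofNat 238, .ofNat 352, .ofNat 210⟩, .ofNat 1423, .ofNat 1808, .ofNat 0, .ofNat 1808,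 .ofNat 3009, .ofNat 0, .ofNat 128, .negSucc 1059, .ofNat 751, .ofNat 0, .ofNat 765, .negSucc 516, .ofNat 0, .ofNat 0, .ofNat 7478, .ofNat 13971, .ofNat 0, .ofNat 167295555311055809267842071818187616916142608649681895424, .ofNat 0, .ofNat 0, .ofNat 0, .ofNat 0, .ofNat 24583554513249892372758882304288211907698187488435634176, .ofNat 0, .ofNat 0, .ofNat 14339812015138399711858844072711150519663500541898774282240, .ofNat 0, .ofNat 0, .ofNat 0, .ofNat 98805178585454005963840704474957279697054025676325159698432, .ofNat 118251376727113813619937291643138592519549212726283730944, .ofNat 0⟩)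
    (by decide +kernel)
theorem L08596 : Good (Phi V5.P V5.D (-1) (-1)) ⟨5, 28, 2, 2, 5, 18, 5, 16, 6, 27⟩ :=
  leafX_sound T5.ok_mm T5.Ymm.bz_eq (w := 278) (c := ⟨⟨.negSucc 1821, .negSucc 199, .ofNat 36, .negSucc 175, .negSucc 61, .negSucc 100⟩, ⟨.ofNat 1036, .ofNat 172, .ofNat 216, .ofNat 117, .ofNat 41, .ofNat 67⟩, ⟨.ofNat 631, .negSucc 783, .negSucc 149, .negSucc 1410, .negSucc 578, .negSucc 1092⟩, ⟨.negSucc 2776, .negSucc 72, .ofNat 17, .negSucc 91, .ofNat 14, .negSucc 12⟩, ⟨.negSucc 272, .ofNat 149, .negSucc 18, .ofNat 244, .ofNat 161, .ofNat 204⟩, .ofNat 388, .ofNat 294, .ofNat 0, .ofNat 294, .ofNat 645, .ofNat 0, .ofNat 128, .negSucc 329, .ofNat 506, .ofNat 0, .ofNat 330, .negSucc 416, .ofNat 0, .ofNat 0, .ofNat 5736, .ofNat 18965, .ofNat 142582352633369344685312270526387057780376129346997866987520, .ofNat 0, .ofNat 5180172091673249471500059748639614671606699490189246464, .ofNat 966362988116116491191001648905938979979399184547812046071136256, .ofNat 0, .ofNat 312360130474345611889551785749497203814565031799737548800,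 .ofNat 89570650463355480903288616390741113839866177568009879552, .ofNat 0, .ofNat 0, .ofNat 0, .ofNat 202058590305332640785684860938903118489362085176391237632, .ofNat 64394047600587763362776272671492563401172236242600144645954469888, .ofNat 0, .ofNat 106753995556906911626929932089240131163052127691688885878784, .ofNat 2319991906194244586329058779201263239739741843869560471552, .ofNat 676700631434965013452734632049328215586618736075795998935225466880⟩)
    (by decide +kernel)
theorem L08597 : Good (Phi V5.P V5.D (-1) (-1)) ⟨5, 28, 2, 2, 5, 18, 5, 17, 6, 27⟩ :=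
  leafX_sound T5.ok_mm T5.Ymm.bz_eq (w := 278) (c := ⟨⟨.negSucc 1703, .negSucc 82, .negSucc 293, .negSucc 229, .negSucc 95, .negSucc 134⟩, ⟨.ofNat 957, .ofNat 93, .ofNat 435, .ofNat 152, .ofNat 64, .ofNat 90⟩, ⟨.ofNat 600, .negSucc 637, .negSucc 871, .negSucc 1691, .negSucc 777, .negSucc 1290⟩, ⟨.negSucc 2692, .negSucc 13, .negSucc 92, .negSucc 128, .negSucc 5, .negSucc 38⟩, ⟨.negSucc 234, .ofNat 124, .ofNat 163, .ofNat 293, .ofNat 197, .ofNat 229⟩, .ofNat 2908, .ofNat 4002, .ofNat 0, .ofNat 4002, .ofNat 6274, .ofNat 0, .ofNat 128, .negSucc 692, .ofNat 893, .ofNat 0, .ofNat 491, .negSucc 612, .ofNat 0, .ofNat 0, .ofNat 8515, .ofNat 12920, .ofNat 0, .ofNat 513958642227597174655644816417158194602411682383748136960, .ofNat 7949033574086892881794174333572181608570074733058457600, .ofNat 818204629551010906419580147586397613592459482689159884898828288, .ofNat 0, .ofNat 616615024661664735687482191838502346312600727223906861056, .ofNat 1625684748844447346539707354961351264246527491400987049984,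 .ofNat 4675412704622603051625762426903255536046624275120768433512251392, .ofNat 0, .ofNat 17167269767871363140409842580777057660909944023102905122816, .ofNat 770411771186924747159289355331145639775731605487898066944, .ofNat 0, .ofNat 0, .ofNat 453784781949638215187078946123256972990755206383754280960000, .ofNat 0, .ofNat 0⟩)
    (by decide +kernel)
theorem L08598 : Good (Phi V5.P V5.D (-1) (-1)) ⟨5, 28, 3, 4, 5, 19, 4, 8, 6, 27⟩ :=
  leafX_sound T5.ok_mm T5.Ymm.bz_eq (w := 278) (c := ⟨⟨.negSucc 1847, .negSucc 81, .negSucc 125, .negSucc 174, .negSucc 167, .negSucc 115⟩, ⟨.ofNat 1059, .ofNat 101, .ofNat 195, .ofNat 114, .ofNat 112, .ofNat 76⟩, ⟨.negSucc 85, .negSucc 259, .negSucc 709, .negSucc 1351, .negSucc 1370, .negSucc 1146⟩, ⟨.negSucc 2766, .ofNat 9, .negSucc 87, .negSucc 97, .negSucc 5, .negSucc 27⟩, ⟨.negSucc 175, .ofNat 34, .ofNat 129, .ofNat 242, .ofNat 370, .ofNat 218⟩, .ofNat 847, .ofNat 952, .ofNat 0, .ofNat 952, .ofNat 1717, .ofNat 0, .ofNat 128, .negSucc 840,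 .ofNat 937, .ofNat 0, .ofNat 650, .negSucc 656, .ofNat 0, .ofNat 0, .ofNat 9486, .ofNat 37474, .ofNat 0, .ofNat 2316890266603071428151006240744410589598766113553068851200, .ofNat 2550564411103885566510496527631737875771101297906810880, .ofNat 0, .ofNat 0, .ofNat 14312694221172708418848084756585857271539287565776201973760, .ofNat 116574385337287181676385686461030985365624051449261457408, .ofNat 0, .ofNat 0, .ofNat 223766448704995396013392342294689354858349228452137073115136, .ofNat 510241344556461956556447458662482575268138146249356345344, .ofNat 0, .ofNat 0, .ofNat 1887659269688984719473436503790182663578302770134569357148160, .ofNat 1100856582620519442263583442106659659809001711191946428416, .ofNat 0⟩)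
    (by decide +kernel)
theorem L08599 : Good (Phi V5.P V5.D (-1) (-1)) ⟨5, 28, 4, 10, 5, 19, 4, 8, 6, 27⟩ :=
  leafX_sound T5.ok_mm T5.Ymm.bz_eq (w := 280) (c := ⟨⟨.negSucc 1928, .negSucc 80, .negSucc 96, .negSucc 259, .negSucc 253, .negSucc 192⟩, ⟨.ofNat 1225, .ofNat 94, .ofNat 126, .ofNat 173, .ofNat 169, .ofNat 128⟩, ⟨.negSucc 543, .negSucc 263, .negSucc 533, .negSucc 1788, .negSucc 1815, .negSucc 1612⟩, ⟨.negSucc 2824, .negSucc 15, .negSucc 44, .negSucc 148, .negSucc 55, .negSucc 73⟩, ⟨.negSucc 96, .ofNat 41, .ofNat 96, .ofNat 330, .ofNat 458, .ofNat 299⟩, .ofNat 908, .ofNat 1028, .ofNat 0, .ofNat 1028, .ofNat 1788, .ofNat 0, .ofNat 128, .negSucc 534, .ofNat 851, .ofNat 0, .ofNat 414, .negSucc 605, .ofNat 0, .ofNat 0, .ofNat 7981, .ofNat 15701, .ofNat 0, .ofNat 23708983128980948876187654905083596365000597550000743907328, .ofNat 1439825176897877002452627245709126176691209830219644928, .ofNat 0, .ofNat 0, .ofNat 80145975543151112008746759490659283874923709232943447670784,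 .ofNat 93820007590671033476816941016928914732205844473044795392, .ofNat 0, .ofNat 0, .ofNat 802385599799869230229618359527936598706228283925963680514048, .ofNat 107558068668205792867393039726786264954977756007739949056, .ofNat 0, .ofNat 0, .ofNat 9232914125648013182733842337835174545775024261054301957259264, .ofNat 100467881689704269131089588953618459338722289458436112384, .ofNat 0⟩)
    (by decide +kernel)
theorem L08600 : Good (Phi V5.P V5.D (-1) (-1)) ⟨6, 56, 4, 11, 5, 19, 4, 8, 6, 27⟩ :=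
  out_sound (S := T5.ds_mm) T5.ok_mm (w := 65) (j := 3) (by decide +kernel)
theorem L08601 : Good (Phi V5.P V5.D (-1) (-1)) ⟨7, 114, 5, 22, 5, 19, 4, 8, 6, 27⟩ :=
  out_sound (S := T5.ds_mm) T5.ok_mm (w := 73) (j := 3) (by decide +kernel)
theorem L08602 : Good (Phi V5.P V5.D (-1) (-1)) ⟨7, 115, 5, 22, 5, 19, 4, 8, 6, 27⟩ :=
  out_sound (S := T5.ds_mm) T5.ok_mm (w := 21) (j := 4) (by decide +kernel)
theorem L08603 : Good (Phi V5.P V5.D (-1) (-1)) ⟨6, 57, 5, 23, 5, 19, 4, 8, 6, 27⟩ :=
  out_sound (S := T5.ds_mm) T5.ok_mm (w := 67) (j := 3) (by decide +kernel)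
theorem L08604 : Good (Phi V5.P V5.D (-1) (-1)) ⟨5, 28, 3, 4, 4, 9, 4, 9, 6, 26⟩ :=
  leafX_sound T5.ok_mm T5.Ymm.bz_eq (w := 262) (c := ⟨⟨.negSucc 1773, .negSucc 60, .negSucc 118, .negSucc 294, .negSucc 123, .negSucc 72⟩, ⟨.ofNat 1019, .ofNat 92, .ofNat 181, .ofNat 193, .ofNat 83, .ofNat 48⟩, ⟨.ofNat 532, .negSucc 151, .negSucc 552, .negSucc 2225, .negSucc 1103, .negSucc 827⟩, ⟨.negSucc 2702, .ofNat 33, .negSucc 73, .negSucc 130, .ofNat 50, .ofNat 13⟩, ⟨.negSucc 229, .ofNat 23, .ofNat 126, .ofNat 454, .ofNat 357, .ofNat 185⟩, .ofNat 1468, .ofNat 1827, .ofNat 0, .ofNat 1827, .ofNat 3000, .ofNat 0, .ofNat 128, .negSucc 585, .ofNat 594, .ofNat 0, .ofNat 454, .negSucc 428, .ofNat 0, .ofNat 0, .ofNat 4992, .ofNat 5816, .ofNat 0, .ofNat 199723007230031404320059493763041131283893465500352512, .ofNat 47066669151746808408582406309185442911851837915136, .ofNat 0, .ofNat 0, .ofNat 1415583730272118434353556544099688260837496651503370240, .ofNat 1992839020452385303331615421890876284881767864729600,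 .ofNat 0, .ofNat 0, .ofNat 6619149387379805394537771026371435406362040259309469696, .ofNat 10066940710479876326339195452240408873819311681044480, .ofNat 0, .ofNat 0, .ofNat 76523221731829395096960647508701083692381444370727960576, .ofNat 11958005374117435409740774163213295306096451952574464, .ofNat 0⟩)
    (by decide +kernel)
theorem L08605 : Good (Phi V5.P V5.D (-1) (-1)) ⟨5, 28, 3, 4, 4, 9, 4, 9, 6, 27⟩ :=
  leafX_sound T5.ok_mm T5.Ymm.bz_eq (w := 262) (c := ⟨⟨.negSucc 1878, .negSucc 183, .negSucc 48, .negSucc 379, .negSucc 167, .negSucc 126⟩, ⟨.ofNat 1092, .ofNat 173, .ofNat 133, .ofNat 248, .ofNat 112, .ofNat 83⟩, ⟨.negSucc 273, .negSucc 769, .negSucc 375, .negSucc 2757, .negSucc 1384, .negSucc 1201⟩, ⟨.negSucc 2727, .negSucc 42, .negSucc 12, .negSucc 193, .ofNat 17, .negSucc 24⟩, ⟨.negSucc 41, .ofNat 160, .ofNat 79, .ofNat 543, .ofNat 403, .ofNat 243⟩, .ofNat 1715, .ofNat 2195, .ofNat 0, .ofNat 2195, .ofNat 3556, .ofNat 0, .ofNat 128, .negSucc 726, .ofNat 912, .ofNat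 0, .ofNat 564, .negSucc 648, .ofNat 0, .ofNat 0, .ofNat 6315, .ofNat 9945, .ofNat 0, .ofNat 726654266473292767478487557416056641816605065511698432, .ofNat 264301183722634173684907930305600244532346328449024, .ofNat 0, .ofNat 0, .ofNat 3190182712413282639295320569527157621845520066585559040, .ofNat 2589195316500276701075307934541809018636542488346624, .ofNat 0, .ofNat 0, .ofNat 21688623477079016372780066514579052144727110231351361536, .ofNat 19209583431106580402804861133318523618268842534371328, .ofNat 0, .ofNat 0, .ofNat 196616797167655717811160762719822241433321227915129520128, .ofNat 46722747430146362209407691852128061796500284903522304, .ofNat 0⟩)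
    (by decide +kernel)
theorem L08606 : Good (Phi V5.P V5.D (-1) (-1)) ⟨5, 28, 4, 10, 5, 18, 4, 9, 6, 26⟩ :=
  leafX_sound T5.ok_mm T5.Ymm.bz_eq (w := 282) (c := ⟨⟨.negSucc 1860, .negSucc 94, .negSucc 72, .negSucc 162, .negSucc 139, .negSucc 97⟩, ⟨.ofNat 1179, .ofNat 114, .ofNat 102, .ofNat 108, .ofNat 94, .ofNat 65⟩, ⟨.ofNat 115, .negSucc 251, .negSucc 401, .negSucc 1175, .negSucc 1173, .negSucc 982⟩, ⟨.negSucc 2757, .negSucc 1, .negSucc 35, .negSucc 73, .ofNat 45, .negSucc 3⟩, ⟨.negSucc 127, .ofNat 34, .ofNat 84, .ofNat 239, .ofNat 371, .ofNat 205⟩, .ofNat 2432, .ofNat 3321, .ofNat 0, .ofNat 3321, .ofNat 5288, .ofNat 0, .ofNat 128, .negSucc 2218, .ofNat 1732, .ofNat 0, .ofNat 1543, .negSucc 1179, .ofNat 0, .ofNat 0, .ofNat 16926, .ofNat 16361, .ofNat 0, .ofNat 0, .ofNat 0, .ofNat 0, .ofNat 0, .ofNat 7780203073963304669920370615760626515215246774352645980160, .ofNat 1242143811538874622979609266486326410620939816789826600960, .ofNat 0, .ofNat 0, .ofNat 2681251369559617089346503969633779855628128858075681571995648,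 .ofNat 11324419138769308852558856954924233397341277036765287284736, .ofNat 0, .ofNat 0, .ofNat 24905391114428224912406342795254788035038882886726276079419392, .ofNat 29913996178912120310111269820459554597721479483122396430336, .ofNat 0⟩)
    (by decide +kernel)
theorem L08607 : Good (Phi V5.P V5.D (-1) (-1)) ⟨5, 28, 4, 10, 5, 18, 4, 9, 6, 27⟩ :=
  leafX_sound T5.ok_mm T5.Ymm.bz_eq (w := 279) (c := ⟨⟨.negSucc 1844, .negSucc 441, .ofNat 120, .negSucc 250, .negSucc 232, .negSucc 172⟩, ⟨.ofNat 1172, .ofNat 331, .negSucc 18, .ofNat 166, .ofNat 155, .ofNat 115⟩, ⟨.negSucc 373, .negSucc 1334, .ofNat 173, .negSucc 1723, .negSucc 1740, .negSucc 1498⟩, ⟨.negSucc 2672, .negSucc 296, .ofNat 126, .negSucc 130, .negSucc 9, .negSucc 52⟩, ⟨.negSucc 93, .ofNat 554, .negSucc 195, .ofNat 356, .ofNat 502, .ofNat 304⟩, .ofNat 393, .ofNat 301, .ofNat 0, .ofNat 301, .ofNat 646, .ofNat 0, .ofNat 128, .negSucc 357, .ofNat 668, .ofNat 0, .ofNat 355, .negSucc 543, .ofNat 0, .ofNat 0, .ofNat 4848,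 .ofNat 6309, .ofNat 0, .ofNat 14028501861886935684084071543487208566233821448635500462080, .ofNat 5790020667386166453567002179840717839548799706405535744, .ofNat 0, .ofNat 0, .ofNat 29165449101251968724598711928925278153365241581581721665536, .ofNat 71466773320220646457338716619087826541796491657408937984, .ofNat 0, .ofNat 0, .ofNat 183539732258676879395773756847185858950141954446400017137664, .ofNat 319145811189825148064776123535509571919429290140937224192, .ofNat 0, .ofNat 0, .ofNat 3253422902612861711020266937661299001173703737565379458760704, .ofNat 780073467026663936552406347048076875102459514785743503360, .ofNat 0⟩)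
    (by decide +kernel)
theorem L08608 : Good (Phi V5.P V5.D (-1) (-1)) ⟨6, 56, 4, 11, 5, 18, 4, 9, 5, 13⟩ :=
  out_sound (S := T5.ds_mm) T5.ok_mm (w := 65) (j := 3) (by decide +kernel)
theorem L08609 : Good (Phi V5.P V5.D (-1) (-1)) ⟨7, 114, 5, 22, 5, 18, 4, 9, 5, 13⟩ :=
  out_sound (S := T5.ds_mm) T5.ok_mm (w := 73) (j := 3) (by decide +kernel)
theorem L08610 : Good (Phi V5.P V5.D (-1) (-1)) ⟨7, 115, 5, 22, 5, 18, 4, 9, 5, 13⟩ :=
  out_sound (S := T5.ds_mm) T5.ok_mm (w := 21) (j := 4) (by decide +kernel)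
theorem L08611 : Good (Phi V5.P V5.D (-1) (-1)) ⟨6, 57, 5, 23, 5, 18, 4, 9, 5, 13⟩ :=
  out_sound (S := T5.ds_mm) T5.ok_mm (w := 67) (j := 3) (by decide +kernel)
theorem L08612 : Good (Phi V5.P V5.D (-1) (-1)) ⟨5, 28, 3, 5, 5, 19, 4, 9, 5, 13⟩ :=
  leafX_sound T5.ok_mm T5.Ymm.bz_eq (w := 272) (c := ⟨⟨.negSucc 1980, .negSucc 132, .negSucc 138, .negSucc 269, .negSucc 250, .negSucc 376⟩, ⟨.ofNat 1258, .ofNat 134, .ofNat 210, .ofNat 181, .ofNat 169, .ofNat 254⟩, ⟨.negSucc 833, .negSucc 582, .negSucc 588, .negSucc 1636, .negSucc 1633, .negSucc 2839⟩, ⟨.negSucc 2788, .negSucc 40, .negSucc 46, .negSucc 178, .negSucc 85, .negSucc 186⟩, ⟨.ofNat 74, .ofNat 119, .ofNat 120, .ofNat 295, .ofNat 395, .ofNat 507⟩, .ofNat 2500, .ofNat 3413, .ofNat 0, .ofNat 3413, .ofNat 5410, .ofNat 0, .ofNat 128, .negSucc 896, .ofNat 886, .ofNat 0, .ofNat 625, .negSucc 602, .ofNat 0, .ofNat 0, .ofNat 7772, .ofNat 13764, .ofNat 0, .ofNat 1075595243511683677620187023191458266878231651782823510016, .ofNat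 30848572737258332206775422155770140479655755030462464, .ofNat 0, .ofNat 0, .ofNat 2762672563796256890713575622437209451466906151771135016960, .ofNat 6985541877759616775296109528118572366105896324075356160, .ofNat 269537941269491610185645279220278351407266776365942332075278336, .ofNat 0, .ofNat 35390769364897037350322024500871761719355792625772001230848, .ofNat 9599656100251026053819573103801876646850898770662522880, .ofNat 0, .ofNat 0, .ofNat 270086257304773134330296980600733298468190957853981689249792, .ofNat 17994504699673015334675286472866862550265987440041787392, .ofNat 4325109834603152817058099183073002905102820899768015130932019200⟩)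
    (by decide +kernel)
theorem L08613 : Good (Phi V5.P V5.D (-1) (-1)) ⟨5, 29, 2, 2, 3, 4, 3, 4, 5, 13⟩ :=
  out_sound (S := T5.ds_mm) T5.ok_mm (w := 17) (j := 4) (by decide +kernel)
theorem L08614 : Good (Phi V5.P V5.D (-1) (-1)) ⟨5, 28, 3, 4, 4, 8, 3, 5, 5, 12⟩ :=
  leafX_sound T5.ok_mm T5.Ymm.bz_eq (w := 254) (c := ⟨⟨.negSucc 1737, .ofNat 76, .negSucc 168, .negSucc 91, .ofNat 2, .ofNat 24⟩, ⟨.ofNat 996, .negSucc 4, .ofNat 214, .ofNat 61, .ofNat 5, .negSucc 12⟩, ⟨.ofNat 1643, .ofNat 585, .negSucc 847, .negSucc 1083, .negSucc 1021, .negSucc 617⟩, ⟨.negSucc 2704, .ofNat 139, .negSucc 126, .ofNat 2, .ofNat 303, .ofNat 133⟩, ⟨.negSucc 277, .negSucc 71, .ofNat 108, .ofNat 211, .ofNat 475, .ofNat 158⟩, .ofNat 2046, .ofNat 2796, .ofNat 0, .ofNat 2796, .ofNat 4611, .ofNat 0, .ofNat 128, .negSucc 1148, .ofNat 378, .ofNat 0, .ofNat 790, .negSucc 267, .ofNat 0, .ofNat 0, .ofNat 7487, .ofNat 2891, .ofNat 0, .ofNat 472528586674913108701115044585763424668178003787776, .ofNat 91640252364254018110568925139969646047256379392,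 .ofNat 0, .ofNat 0, .ofNat 2637077956832343548530917939523995856136814215561216, .ofNat 29754807294295369143955372138523081671826126929920, .ofNat 0, .ofNat 0, .ofNat 278944341194708041614170708435586463810919305953935360, .ofNat 50730776729113769050526416863604933592517502304256, .ofNat 0, .ofNat 0, .ofNat 2697039444613915631491583167154620603377669434836516864, .ofNat 54008968449137250150114982006390618154161823285248, .ofNat 0⟩)
    (by decide +kernel)
theorem L08615 : Good (Phi V5.P V5.D (-1) (-1)) ⟨5, 28, 4, 10, 4, 8, 3, 5, 5, 12⟩ :=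
  leafX_sound T5.ok_mm T5.Ymm.bz_eq (w := 253) (c := ⟨⟨.negSucc 1958, .ofNat 342, .negSucc 228, .negSucc 112, .negSucc 36, .ofNat 4⟩, ⟨.ofNat 1242, .negSucc 160, .ofNat 192, .ofNat 74, .ofNat 27, .negSucc 1⟩, ⟨.ofNat 727, .ofNat 979, .negSucc 628, .negSucc 1146, .negSucc 1181, .negSucc 750⟩, ⟨.negSucc 2856, .ofNat 227, .negSucc 112, .negSucc 8, .ofNat 302, .ofNat 121⟩, ⟨.negSucc 122, .negSucc 432, .ofNat 258, .ofNat 252, .ofNat 549, .ofNat 194⟩, .ofNat 393, .ofNat 301, .ofNat 0, .ofNat 301, .ofNat 646, .ofNat 0, .ofNat 128, .negSucc 279, .ofNat 134, .ofNat 0, .ofNat 271, .negSucc 141, .ofNat 0, .ofNat 0, .ofNat 2125, .ofNat 844, .ofNat 0, .ofNat 4208189433589415719091623389675061153375679273762816, .ofNat 275631408488234002142415407898046020886831562752, .ofNat 0, .ofNat 0, .ofNat 0, .ofNat 0, .ofNat 0, .ofNat 0, .ofNat 129267522458907038639507411643642779913102293546827776, .ofNat 3714371566786534244658146851343326260509972365312, .ofNat 6840239191506152640296672240149361776803933858965607153664,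 .ofNat 0, .ofNat 2180351946501596227507532020024160287023288858781417472, .ofNat 35885857102666216976480076186159397007004903931904, .ofNat 0⟩)
    (by decide +kernel)
theorem L08616 : Good (Phi V5.P V5.D (-1) (-1)) ⟨6, 56, 4, 11, 4, 8, 3, 5, 5, 12⟩ :=
  out_sound (S := T5.ds_mm) T5.ok_mm (w := 65) (j := 3) (by decide +kernel)
theorem L08617 : Good (Phi V5.P V5.D (-1) (-1)) ⟨7, 114, 5, 22, 4, 8, 3, 5, 5, 12⟩ :=
  out_sound (S := T5.ds_mm) T5.ok_mm (w := 73) (j := 3) (by decide +kernel)
theorem L08618 : Good (Phi V5.P V5.D (-1) (-1)) ⟨7, 115, 5, 22, 4, 8, 3, 5, 5, 12⟩ :=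
  out_sound (S := T5.ds_mm) T5.ok_mm (w := 21) (j := 4) (by decide +kernel)
theorem L08619 : Good (Phi V5.P V5.D (-1) (-1)) ⟨6, 57, 5, 23, 4, 8, 3, 5, 5, 12⟩ :=
  out_sound (S := T5.ds_mm) T5.ok_mm (w := 67) (j := 3) (by decide +kernel)
theorem L08620 : Good (Phi V5.P V5.D (-1) (-1)) ⟨5, 28, 2, 2, 5, 18, 4, 10, 5, 12⟩ :=
  leafX_sound T5.ok_mm T5.Ymm.bz_eq (w := 267) (c := ⟨⟨.negSucc 1809, .negSucc 59, .negSucc 189, .negSucc 114, .negSucc 78, .negSucc 112⟩, ⟨.ofNat 1053, .ofNat 103, .ofNat 306, .ofNat 76, .ofNat 53, .ofNat 76⟩, ⟨.ofNat 441, .negSucc 232, .negSucc 546, .negSucc 801, .negSucc 784, .negSucc 1314⟩, ⟨.negSucc 2729, .ofNat 31, .negSucc 96, .negSucc 35, .ofNat 111, .ofNat 57⟩, ⟨.negSucc 162, .ofNat 42, .ofNat 161, .ofNat 197, .ofNat 343, .ofNat 338⟩, .ofNat 820, .ofNat 889, .ofNat 0, .ofNat 889, .ofNat 1567, .ofNat 0, .ofNat 128, .negSucc 719, .ofNat 590, .ofNat 0, .ofNat 570, .negSucc 448, .ofNat 0, .ofNat 0, .ofNat 5480, .ofNat 3905, .ofNat 0, .ofNat 12639689002591680026840658430940767608599205366154133504,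 .ofNat 0, .ofNat 0, .ofNat 0, .ofNat 25070433186669214336280783891352102104579281045591949312, .ofNat 282127848914218085512488765427500576651442058279518208, .ofNat 0, .ofNat 0, .ofNat 476951336332213423420559626068454966335056588849461329920, .ofNat 656050711381378647576731722509180931679094053330223104, .ofNat 0, .ofNat 0, .ofNat 6185152689315269826942866921081070004980836125232462823424, .ofNat 0, .ofNat 0⟩)
    (by decide +kernel)
theorem L08621 : Good (Phi V5.P V5.D (-1) (-1)) ⟨5, 28, 2, 2, 5, 19, 4, 10, 5, 12⟩ :=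
  leafX_sound T5.ok_mm T5.Ymm.bz_eq (w := 266) (c := ⟨⟨.negSucc 1781, .negSucc 20, .negSucc 398, .negSucc 180, .negSucc 161, .negSucc 218⟩, ⟨.ofNat 1031, .ofNat 78, .ofNat 450, .ofNat 120, .ofNat 108, .ofNat 146⟩, ⟨.ofNat 78, .negSucc 195, .negSucc 1079, .negSucc 1033, .negSucc 1086, .negSucc 1743⟩, ⟨.negSucc 2682, .ofNat 51, .negSucc 224, .negSucc 71, .ofNat 69, .ofNat 5⟩, ⟨.negSucc 149, .negSucc 30, .ofNat 434, .ofNat 283, .ofNat 456, .ofNat 484⟩, .ofNat 381, .ofNat 281, .ofNat 0, .ofNat 281, .ofNat 617, .ofNat 0, .ofNat 128, .negSucc 327, .ofNat 404, .ofNat 0, .ofNat 329, .negSucc 342, .ofNat 0, .ofNat 0, .ofNat 2539, .ofNat 2310, .ofNat 0, .ofNat 18674676497216688792235670967349471129674593976371380224, .ofNat 0, .ofNat 0, .ofNat 0, .ofNat 33871707356876037529970334010313958520712355572575371264, .ofNat 70326196189424174935828436482004941660128471752376320, .ofNat 0, .ofNat 0, .ofNat 224325715456671747391920263605150591918476814506405134336, .ofNat 227439619819710440807387498234535910490436102862667776,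 .ofNat 0, .ofNat 0, .ofNat 2311480334916853036752137863205413341191475566517191442432, .ofNat 371754252213437114666379839335526329074573876540735488, .ofNat 0⟩)
    (by decide +kernel)
theorem L08622 : Good (Phi V5.P V5.D (-1) (-1)) ⟨5, 28, 2, 2, 4, 9, 4, 11, 5, 12⟩ :=
  leafX_sound T5.ok_mm T5.Ymm.bz_eq (w := 253) (c := ⟨⟨.negSucc 1878, .negSucc 121, .negSucc 118, .negSucc 336, .negSucc 126, .negSucc 184⟩, ⟨.ofNat 1105, .ofNat 144, .ofNat 250, .ofNat 224, .ofNat 87, .ofNat 123⟩, ⟨.negSucc 273, .negSucc 399, .negSucc 441, .negSucc 1890, .negSucc 967, .negSucc 1507⟩, ⟨.negSucc 2606, .negSucc 0, .negSucc 57, .negSucc 127, .ofNat 110, .ofNat 22⟩, ⟨.ofNat 167, .ofNat 81, .ofNat 122, .ofNat 536, .ofNat 445, .ofNat 434⟩, .ofNat 387, .ofNat 293, .ofNat 0, .ofNat 293, .ofNat 645, .ofNat 0, .ofNat 128, .negSucc 314, .ofNat 200, .ofNat 0, .ofNat 303, .negSucc 192, .ofNat 0, .ofNat 0, .ofNat 2247, .ofNat 4013, .ofNat 0, .ofNat 9256310663859040557048111886690789925676061646913536,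 .ofNat 0, .ofNat 0, .ofNat 0, .ofNat 28088198856554457245084606527537019159043532172296192, .ofNat 1377778816665947556712325543617583022546255609856, .ofNat 0, .ofNat 0, .ofNat 165019635344054197527217409871499649340303899721990144, .ofNat 0, .ofNat 0, .ofNat 0, .ofNat 824211147136461072553097157149940773936473796780228608, .ofNat 17017957650290999708356504359667977417360133849088, .ofNat 1081300602860558837657278916776175020692463897428302495744⟩)
    (by decide +kernel)
theorem L08623 : Good (Phi V5.P V5.D (-1) (-1)) ⟨5, 29, 2, 2, 3, 4, 3, 5, 5, 12⟩ :=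
  out_sound (S := T5.ds_mm) T5.ok_mm (w := 17) (j := 4) (by decide +kernel)
theorem L08624 : Good (Phi V5.P V5.D (-1) (-1)) ⟨4, 14, 2, 2, 4, 8, 4, 10, 6, 26⟩ :=
  leafX_sound T5.ok_mm T5.Ymm.bz_eq (w := 254) (c := ⟨⟨.negSucc 1634, .ofNat 102, .negSucc 397, .negSucc 207, .negSucc 58, .negSucc 32⟩, ⟨.ofNat 939, .ofNat 43, .ofNat 448, .ofNat 137, .ofNat 41, .ofNat 22⟩, ⟨.ofNat 1143, .ofNat 36, .negSucc 1092, .negSucc 1783, .negSucc 835, .negSucc 605⟩, ⟨.negSucc 2590, .ofNat 146, .negSucc 163, .negSucc 54, .ofNat 117, .ofNat 42⟩, ⟨.negSucc 260, .negSucc 86, .ofNat 332, .ofNat 374, .ofNat 312, .ofNat 141⟩, .ofNat 749, .ofNat 759, .ofNat 0, .ofNat 759, .ofNat 1313, .ofNat 0, .ofNat 128, .negSucc 545, .ofNat 473, .ofNat 0, .ofNat 465, .negSucc 390, .ofNat 0, .ofNat 0, .ofNat 5357, .ofNat 2890, .ofNat 0, .ofNat 467040243366510985068570892490926789956497844469760, .ofNat 52796035350817704619972687058653972089211923202048, .ofNat 994879085285892591682850094924445566167194185941961932800,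 .ofNat 0, .ofNat 3843977813934660819673489827552049377535899201437696, .ofNat 1408399947739000461168017128893584047707640544886784, .ofNat 0, .ofNat 0, .ofNat 4215056466516586593717415851580206766300889673105408, .ofNat 3344882295866709246610175162983267339550887092682752, .ofNat 93265246723040621088158829578406294719983155292576954712064, .ofNat 0, .ofNat 407120744917352003622590750212579180851768101313708032, .ofNat 26489265073397424866289438622749528582274634945134592, .ofNat 219548625676146361980557918675214732632022575439705272221696⟩)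
    (by decide +kernel)
theorem L08625 : Good (Phi V5.P V5.D (-1) (-1)) ⟨4, 14, 2, 2, 5, 16, 4, 10, 6, 27⟩ :=
  leafX_sound T5.ok_mm T5.Ymm.bz_eq (w := 269) (c := ⟨⟨.negSucc 1936, .negSucc 625, .ofNat 341, .negSucc 152, .negSucc 51, .negSucc 47⟩, ⟨.ofNat 1142, .ofNat 527, .negSucc 45, .ofNat 101, .ofNat 35, .ofNat 32⟩, ⟨.ofNat 272, .negSucc 1499, .ofNat 149, .negSucc 1239, .negSucc 811, .negSucc 729⟩, ⟨.negSucc 2676, .negSucc 172, .ofNat 162, .negSucc 46, .ofNat 123, .ofNat 37⟩, ⟨.ofNat 10, .ofNat 383, .negSucc 122, .ofNat 260, .ofNat 309, .ofNat 165⟩, .ofNat 1366, .ofNat 1626, .ofNat 0, .ofNat 1626, .ofNat 2574, .ofNat 0, .ofNat 128, .negSucc 651, .ofNat 663, .ofNat 0, .ofNat 514, .negSucc 507, .ofNat 0, .ofNat 0, .ofNat 7015, .ofNat 7031, .ofNat 0, .ofNat 0, .ofNat 0, .ofNat 0, .ofNat 0, .ofNat 54736694577380616607404228030437924895604124027759624192, .ofNat 62609378764125588149850687333167964586099105876225818624, .ofNat 0, .ofNat 0, .ofNat 78530215854673230632383546130434109379853943316978597888,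 .ofNat 147639698289353227785732529981366318841631385400073256960, .ofNat 1450064021694715660389990258495886501844319751279698815337103360, .ofNat 0, .ofNat 3063159602667653726971898963922443120510790576160269926400, .ofNat 688407105244207004619604748118053133694874857398870212608, .ofNat 8518481343982812878562512552848192093382232784637077339825504256⟩)
    (by decide +kernel)
theorem L08626 : Good (Phi V5.P V5.D (-1) (-1)) ⟨4, 14, 2, 2, 5, 17, 4, 10, 6, 27⟩ :=
  leafX_sound T5.ok_mm T5.Ymm.bz_eq (w := 269) (c := ⟨⟨.negSucc 1657, .ofNat 33, .negSucc 527, .negSucc 240, .negSucc 158, .negSucc 150⟩, ⟨.ofNat 943, .ofNat 67, .ofNat 561, .ofNat 159, .ofNat 107, .ofNat 100⟩, ⟨.ofNat 170, .negSucc 680, .negSucc 1506, .negSucc 1674, .negSucc 1341, .negSucc 1351⟩, ⟨.negSucc 2563, .ofNat 58, .negSucc 131, .negSucc 109, .ofNat 44, .negSucc 30⟩, ⟨.negSucc 33, .ofNat 104, .ofNat 380, .ofNat 340, .ofNat 406, .ofNat 272⟩, .ofNat 1861, .ofNat 2331, .ofNat 0, .ofNat 2331, .ofNat 3593, .ofNat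 0, .ofNat 128, .negSucc 705, .ofNat 842, .ofNat 0, .ofNat 547, .negSucc 621, .ofNat 0, .ofNat 0, .ofNat 6097, .ofNat 5138, .ofNat 0, .ofNat 18515810031859671559356774794782347089271007588120526848, .ofNat 2069054026897177617544517026552279573076709931550244864, .ofNat 8094247794801677695952760051822048746268072851859594528423936, .ofNat 0, .ofNat 56207655160619511024623885668461424026947185332931526656, .ofNat 72189151766191282409653142607824581261278156076265504768, .ofNat 0, .ofNat 0, .ofNat 520992579183168730324622607760404175271823709864940535808, .ofNat 249951110433681038013895989565583147630450193860430659584, .ofNat 0, .ofNat 0, .ofNat 5315596058623385216259132678535278789821612978754069463040, .ofNat 330596013602436069752657099236169990217253283216255614976, .ofNat 0⟩)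
    (by decide +kernel)
theorem L08627 : Good (Phi V5.P V5.D (-1) (-1)) ⟨4, 14, 2, 2, 5, 16, 4, 11, 5, 13⟩ :=
  leafX_sound T5.ok_mm T5.Ymm.bz_eq (w := 262) (c := ⟨⟨.negSucc 1662, .negSucc 19, .negSucc 327, .negSucc 147, .negSucc 90, .negSucc 136⟩, ⟨.ofNat 973, .ofNat 140, .ofNat 372, .ofNat 98, .ofNat 61, .ofNat 91⟩, ⟨.ofNat 556, .negSucc 364, .negSucc 1024, .negSucc 1090, .negSucc 997, .negSucc 1507⟩, ⟨.negSucc 2457, .ofNat 90, .negSucc 126, .negSucc 41, .ofNat 125, .ofNat 40⟩, ⟨.negSucc 46, .negSucc 57, .ofNat 380, .ofNat 261, .ofNat 395, .ofNat 366⟩, .ofNat 373, .ofNat 265, .ofNat 0, .ofNat 265, .ofNat 570, .ofNat 0, .ofNat 128, .negSucc 272, .ofNat 332, .ofNat 0, .ofNat 289, .negSucc 314, .ofNat 0, .ofNat 0, .ofNat 2717, .ofNat 1991, .ofNat 0, .ofNat 701510028379435993842757245781740827523144648642002944, .ofNat 0, .ofNat 0, .ofNat 0, .ofNat 1584963140429510536595871487895938105050368548928487424, .ofNat 101643781644922740879765245263402872967422161518067712, .ofNat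 752607736379646926890961501022551157943787687819559527514112, .ofNat 0, .ofNat 9075770349774079149072663855869564133387252811899600896, .ofNat 982843280502861326514656797173934261944625074144280576, .ofNat 0, .ofNat 0, .ofNat 120915473490431650163774188235974915800314565756985540608, .ofNat 1507532976629766757676391686025663925622620992544178176, .ofNat 0⟩)
    (by decide +kernel)
theorem L08628 : Good (Phi V5.P V5.D (-1) (-1)) ⟨4, 14, 2, 2, 5, 17, 4, 11, 5, 13⟩ :=
  leafX_sound T5.ok_mm T5.Ymm.bz_eq (w := 266) (c := ⟨⟨.negSucc 1859, .negSucc 227, .negSucc 173, .negSucc 201, .negSucc 135, .ofNat 1⟩, ⟨.ofNat 1099, .ofNat 278, .ofNat 277, .ofNat 136, .ofNat 95, .negSucc 0⟩, ⟨.negSucc 564, .negSucc 831, .negSucc 809, .negSucc 1203, .negSucc 998, .ofNat 1⟩, ⟨.negSucc 2525, .negSucc 14, .negSucc 47, .negSucc 87, .ofNat 72, .ofNat 1⟩, ⟨.ofNat 283, .ofNat 164, .ofNat 179, .ofNat 313, .ofNat 424, .ofNat 0⟩, .ofNat 387, .ofNat 293, .ofNat 0, .ofNat 293, .ofNat 645, .ofNat 0, .ofNat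 128, .negSucc 506, .ofNat 458, .ofNat 0, .ofNat 496, .negSucc 423, .ofNat 0, .ofNat 0, .ofNat 4974, .ofNat 36431, .ofNat 0, .ofNat 10638416564214339060565338230924059284482848417982185472, .ofNat 0, .ofNat 0, .ofNat 0, .ofNat 29530769914397695232386085047907686470913734831100657664, .ofNat 494066723397909233036172535387492068994926775160012800, .ofNat 2899071371151215454999472317531289688086059479419472188538880, .ofNat 0, .ofNat 363947025138738604456951684158409504300930107823169208320, .ofNat 0, .ofNat 67276431510332013447930997389840057758052209666045475456811008, .ofNat 0, .ofNat 2816322112663937452647325452592943703917281381739386634240, .ofNat 16479078564912573806277347488991298461254680922751500288, .ofNat 201326229952332241824798151669664513171083766430419608582225920⟩)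
    (by decide +kernel)
theorem L08629 : Good (Phi V5.P V5.D (-1) (-1)) ⟨4, 14, 2, 2, 4, 9, 4, 10, 5, 13⟩ :=
  leafX_sound T5.ok_mm T5.Ymm.bz_eq (w := 250) (c := ⟨⟨.negSucc 1837, .negSucc 199, .negSucc 283, .negSucc 486, .negSucc 209, .negSucc 314⟩, ⟨.ofNat 1068, .ofNat 248, .ofNat 380, .ofNat 325, .ofNat 141, .ofNat 210⟩, ⟨.negSucc 396, .negSucc 954, .negSucc 1076, .negSucc 2948, .negSucc 1455, .negSucc 2477⟩, ⟨.negSucc 2646, .negSucc 41, .negSucc 86, .negSucc 250, .ofNat 12, .negSucc 80⟩, ⟨.ofNat 105, .ofNat 189, .ofNat 222, .ofNat 647, .ofNat 460, .ofNat 544⟩, .ofNat 881, .ofNat 995, .ofNat 0, .ofNat 995, .ofNat 1756, .ofNat 0, .ofNat 128, .negSucc 646, .ofNat 668, .ofNat 0, .ofNat 496, .negSucc 486, .ofNat 0, .ofNat 0, .ofNat 6432, .ofNat 8154, .ofNat 0, .ofNat 2257741093520600675426755669714026173848832748552192, .ofNat 0, .ofNat 0, .ofNat 0, .ofNat 4410032202567443739809500881799653321586388171227136, .ofNat 95162141225050856296403264092936923215034536951808, .ofNat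 112376101243623659571939470520712179972730552871282540544, .ofNat 0, .ofNat 53422852735195754497497229578382451608072178110562304, .ofNat 279944213152709215996138085068336843070137010487296, .ofNat 1067215078648191770306441047016333247365621592044725075968, .ofNat 0, .ofNat 385316186568246213320191685800060015607741803816550400, .ofNat 578246218110121378565436576669352370254125824212992, .ofNat 3841325578428859162119467425374066121329308667853288767488⟩)
    (by decide +kernel)
theorem L08630 : Good (Phi V5.P V5.D (-1) (-1)) ⟨4, 14, 2, 2, 4, 9, 4, 11, 5, 13⟩ :=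
  out_sound (S := T5.ds_mm) T5.ok_mm (w := 40) (j := 2) (by decide +kernel)
theorem L08631 : Good (Phi V5.P V5.D (-1) (-1)) ⟨6, 56, 2, 2, 5, 20, 4, 8, 5, 12⟩ :=
  leafX_sound T5.ok_mm T5.Ymm.bz_eq (w := 271) (c := ⟨⟨.negSucc 1819, .negSucc 27, .negSucc 221, .negSucc 103, .negSucc 106, .negSucc 112⟩, ⟨.ofNat 1030, .ofNat 41, .ofNat 389, .ofNat 69, .ofNat 71, .ofNat 76⟩, ⟨.ofNat 652, .negSucc 74, .negSucc 847, .negSucc 790, .negSucc 838, .negSucc 1333⟩, ⟨.negSucc 2908, .ofNat 11, .negSucc 165, .negSucc 31, .ofNat 57, .ofNat 57⟩, ⟨.negSucc 468, .ofNat 6, .ofNat 217, .ofNat 185, .ofNat 327, .ofNat 348⟩, .ofNat 385, .ofNat 289, .ofNat 0, .ofNat 289, .ofNat 642, .ofNat 0, .ofNat 128, .negSucc 331, .ofNat 325, .ofNat 0, .ofNat 331, .negSucc 273, .ofNat 0, .ofNat 0, .ofNat 3061, .ofNat 4079, .ofNat 0, .ofNat 64752129611245618923051571480311904848738752100388831232, .ofNat 7528189421632918848966703360746945075299363841900544, .ofNat 0, .ofNat 0, .ofNat 201605907182750583353224642044356862230744321696682999808,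 .ofNat 20813198838297748172416432593197286277275036575334400, .ofNat 0, .ofNat 0, .ofNat 1412065005237411850217287478281938750574142739460172808192, .ofNat 60654215682541388768567695061180257034537822595317760, .ofNat 0, .ofNat 0, .ofNat 26958788834053360651704418334236556712090420515716456251392, .ofNat 591162463922681117724096610685070702328636704754237440, .ofNat 0⟩)
    (by decide +kernel)
theorem L08632 : Good (Phi V5.P V5.D (-1) (-1)) ⟨6, 57, 2, 2, 5, 20, 4, 8, 5, 12⟩ :=
  leafX_sound T5.ok_mm T5.Ymm.bz_eq (w := 270) (c := ⟨⟨.negSucc 1945, .negSucc 116, .ofNat 1, .negSucc 130, .negSucc 139, .negSucc 166⟩, ⟨.ofNat 1224, .ofNat 135, .ofNat 100, .ofNat 87, .ofNat 93, .ofNat 112⟩, ⟨.ofNat 286, .negSucc 408, .negSucc 109, .negSucc 888, .negSucc 965, .negSucc 1592⟩, ⟨.negSucc 2975, .negSucc 37, .negSucc 13, .negSucc 41, .ofNat 44, .ofNat 32⟩, ⟨.negSucc 401, .ofNat 93, .ofNat 32, .ofNat 219, .ofNat 367, .ofNat 412⟩, .ofNat 395, .ofNat 303, .ofNat 0, .ofNat 303, .ofNat 647,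 .ofNat 0, .ofNat 128, .negSucc 349, .ofNat 292, .ofNat 0, .ofNat 345, .negSucc 249, .ofNat 0, .ofNat 0, .ofNat 2796, .ofNat 3543, .ofNat 0, .ofNat 61269313123537885483405196198958903503526791237502763008, .ofNat 5843971261925823322238939079145166232373429717172224, .ofNat 24631902638458978239269138464755601025102906464906564979392512, .ofNat 0, .ofNat 216604785324051470652991704618978617203845356377845268480, .ofNat 16590714888247708208144919393426634176237119551307776, .ofNat 0, .ofNat 0, .ofNat 1699642249213174890764996157147377037494092682771078053888, .ofNat 86267373918452110026380676404356823075369140843708416, .ofNat 407146565503501750185673620687239492099005136806219060743241728, .ofNat 0, .ofNat 21654521072745742974634809265826686967055277522210349121536, .ofNat 504661840640571749828273193153781901559625740235833344, .ofNat 1894498257107463645415258870920554220682558005621779931613626368⟩)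
    (by decide +kernel)
theorem L08633 : Good (Phi V5.P V5.D (-1) (-1)) ⟨5, 28, 2, 2, 5, 21, 4, 8, 5, 12⟩ :=
  leafX_sound T5.ok_mm T5.Ymm.bz_eq (w := 268) (c := ⟨⟨.negSucc 1869, .negSucc 96, .negSucc 237, .negSucc 141, .negSucc 152, .negSucc 195⟩, ⟨.ofNat 1058, .ofNat 108, .ofNat 408, .ofNat 95, .ofNat 102, .ofNat 131⟩, ⟨.negSucc 5, .negSucc 367, .negSucc 742, .negSucc 913, .negSucc 973, .negSucc 1678⟩, ⟨.negSucc 2936, .negSucc 21, .negSucc 101, .negSucc 50, .ofNat 25, .negSucc 2⟩, ⟨.negSucc 302, .ofNat 111, .ofNat 136, .ofNat 228, .ofNat 370, .ofNat 421⟩, .ofNat 1410, .ofNat 1792, .ofNat 0, .ofNat 1792, .ofNat 2993, .ofNat 0, .ofNat 128, .negSucc 851, .ofNat 710, .ofNat 0, .ofNat 615, .negSucc 491, .ofNat 0, .ofNat 0, .ofNat 6294, .ofNat 7852, .ofNat 0, .ofNat 39152487014515205982960253075312296163746204996237000704, .ofNat 8591766150656783695239614833701764322779165095886848, .ofNat 0, .ofNat 0, .ofNat 58854799770645403582413666538239464707114935179559305216, .ofNat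 697400665433601228933908075133805381177882363597684736, .ofNat 0, .ofNat 0, .ofNat 1607361117791035892980486299486672019662190190780336832512, .ofNat 990659493190438111505055827833685238241243354844102656, .ofNat 0, .ofNat 0, .ofNat 12553452102368410544498647039841578958000789258959205695488, .ofNat 0, .ofNat 0⟩)
    (by decide +kernel)
theorem L08634 : Good (Phi V5.P V5.D (-1) (-1)) ⟨5, 29, 2, 2, 4, 10, 4, 8, 5, 12⟩ :=
  out_sound (S := T5.ds_mm) T5.ok_mm (w := 17) (j := 4) (by decide +kernel)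
theorem L08635 : Good (Phi V5.P V5.D (-1) (-1)) ⟨4, 14, 2, 2, 5, 20, 4, 9, 6, 24⟩ :=
  leafX_sound T5.ok_mm T5.Ymm.bz_eq (w := 268) (c := ⟨⟨.negSucc 1852, .negSucc 276, .negSucc 197, .negSucc 184, .negSucc 192, .negSucc 123⟩, ⟨.ofNat 1053, .ofNat 275, .ofNat 370, .ofNat 123, .ofNat 129, .ofNat 83⟩, ⟨.ofNat 124, .negSucc 845, .negSucc 822, .negSucc 1073, .negSucc 1185, .negSucc 951⟩, ⟨.negSucc 2840, .negSucc 68, .negSucc 84, .negSucc 75, .ofNat 25, .negSucc 9⟩, ⟨.negSucc 232, .ofNat 197, .ofNat 205, .ofNat 281, .ofNat 450, .ofNat 252⟩, .ofNat 886, .ofNat 1001, .ofNat 0, .ofNat 1001, .ofNat 1762, .ofNat 0, .ofNat 128, .negSucc 438, .ofNat 347, .ofNat 0, .ofNat 337, .negSucc 252, .ofNat 0, .ofNat 0, .ofNat 3109, .ofNat 3037, .ofNat 0, .ofNat 5918020911899911839003693871419381937690644617764012032, .ofNat 0, .ofNat 18670465026606724545209856743317938325133213843992591672016896, .ofNat 0, .ofNat 0, .ofNat 14159929639390237089453600297951855564942167280887791616, .ofNat 0, .ofNat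 0, .ofNat 131572743362054328839782363685873468030794606882186067968, .ofNat 28074027816108472174661812267715743874348832647079264256, .ofNat 820558070107992453451153960247151978140993050867263370004791296, .ofNat 0, .ofNat 953894175606659972695323646516897111787147013881354780672, .ofNat 157747601273871721170299230402859461697870868495353249792, .ofNat 2101822921682552849054373688270158195340855372156274103828873216⟩)
    (by decide +kernel)
theorem L08636 : Good (Phi V5.P V5.D (-1) (-1)) ⟨4, 14, 2, 2, 5, 21, 4, 9, 6, 24⟩ :=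
  leafX_sound T5.ok_mm T5.Ymm.bz_eq (w := 270) (c := ⟨⟨.negSucc 1990, .negSucc 279, .negSucc 275, .ofNat 1, .negSucc 240, .negSucc 174⟩, ⟨.ofNat 1146, .ofNat 287, .ofNat 416, .negSucc 0, .ofNat 166, .ofNat 121⟩, ⟨.negSucc 838, .negSucc 929, .negSucc 983, .ofNat 1, .negSucc 1176, .negSucc 1063⟩, ⟨.negSucc 2887, .negSucc 65, .negSucc 130, .ofNat 2, .negSucc 16, .negSucc 41⟩, ⟨.ofNat 4, .ofNat 212, .ofNat 282, .ofNat 0, .ofNat 492, .ofNat 313⟩, .ofNat 388, .ofNat 294, .ofNat 0, .ofNat 294, .ofNat 645, .ofNat 0, .ofNat 128, .negSucc 449, .ofNat 407, .ofNat 0, .ofNat 442, .negSucc 348, .ofNat 0, .ofNat 0, .ofNat 3286, .ofNat 22941, .ofNat 0, .ofNat 84117795882206935701730264277338382808396474726972653568, .ofNat 0, .ofNat 0, .ofNat 0, .ofNat 159687506096581842829018526158804241702389946592295649280, .ofNat 11656863823046177717669540039770962298513405658664009728, .ofNat 0, .ofNat 0, .ofNat 1848043275534286174954844049053808387107672693012372127744, .ofNat 95087145454645322390736224516969496942191860641634975744,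 .ofNat 1265082802214701822229812016309057833754063181206134221673857024, .ofNat 0, .ofNat 9841749651611144351756766078770837970028072196611153854464, .ofNat 460613224653035059303017492898176056714622879199498600448, .ofNat 3714912329560614880095716902966154645683739809306673149500194816⟩)
    (by decide +kernel)
theorem L08637 : Good (Phi V5.P V5.D (-1) (-1)) ⟨4, 14, 2, 2, 4, 10, 4, 9, 6, 25⟩ :=
  leafX_sound T5.ok_mm T5.Ymm.bz_eq (w := 255) (c := ⟨⟨.negSucc 1951, .negSucc 304, .negSucc 218, .negSucc 422, .negSucc 250, .negSucc 176⟩, ⟨.ofNat 1132, .ofNat 320, .ofNat 354, .ofNat 280, .ofNat 171, .ofNat 120⟩, ⟨.negSucc 648, .negSucc 955, .negSucc 1049, .negSucc 2353, .negSucc 1432, .negSucc 1219⟩, ⟨.negSucc 2828, .negSucc 73, .negSucc 112, .negSucc 203, .negSucc 15, .negSucc 45⟩, ⟨.negSucc 13, .ofNat 204, .ofNat 246, .ofNat 639, .ofNat 516, .ofNat 313⟩, .ofNat 388, .ofNat 294, .ofNat 0, .ofNat 294, .ofNat 645, .ofNat 0, .ofNat 128, .negSucc 444, .ofNat 445, .ofNat 0, .ofNat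 439, .negSucc 374, .ofNat 0, .ofNat 0, .ofNat 3830, .ofNat 10776, .ofNat 0, .ofNat 17711922571155622592000741178093284956547400522006528, .ofNat 0, .ofNat 0, .ofNat 0, .ofNat 31561568319787259410253321324569927339496570905165824, .ofNat 462670230309445595640272184909301599465269190721536, .ofNat 0, .ofNat 0, .ofNat 323611997893713650519200015805749248963204984986402816, .ofNat 0, .ofNat 44186179449005358087699854955417516736055301540994418212864, .ofNat 0, .ofNat 1747782654075039796584008437484525939711486969411272704, .ofNat 17024135714651513099895071071925077737121191634665472, .ofNat 156070261241997418535008913121078029354442312631111708049408⟩)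
    (by decide +kernel)
theorem L08638 : Good (Phi V5.P V5.D (-1) (-1)) ⟨4, 14, 2, 2, 4, 11, 3, 4, 5, 12⟩ :=
  leafX_sound T5.ok_mm T5.Ymm.bz_eq (w := 247) (c := ⟨⟨.negSucc 1986, .negSucc 285, .negSucc 241, .ofNat 1, .negSucc 385, .ofNat 1⟩, ⟨.ofNat 1133, .ofNat 276, .ofNat 416, .negSucc 0, .ofNat 263, .negSucc 0⟩, ⟨.negSucc 758, .negSucc 843, .negSucc 975, .ofNat 1, .negSucc 1966, .ofNat 1⟩, ⟨.negSucc 2949, .negSucc 44, .negSucc 155, .ofNat 2, .negSucc 25, .ofNat 2⟩, ⟨.negSucc 174, .ofNat 141, .ofNat 335, .ofNat 0, .ofNat 975, .ofNat 0⟩, .ofNat 166, .ofNat 58, .ofNat 0, .ofNat 58, .ofNat 217, .ofNat 0, .ofNat 128, .negSucc 352, .ofNat 443, .ofNat 0, .ofNat 598, .negSucc 528, .ofNat 0, .ofNat 0, .ofNat 3112, .ofNat 15116, .ofNat 0, .ofNat 461593983601909301844474337515157792004407520395264, .ofNat 0, .ofNat 0, .ofNat 0, .ofNat 847284323882363777225977518647584151095863106600960, .ofNat 787961269162422423897272509747889122599803813888, .ofNat 1509916479724642267014126100841635555252333232133242880,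 .ofNat 0, .ofNat 12034657973890943061864255193995186372422921940369408, .ofNat 0, .ofNat 132443969681843551714927400655519577061299655699297468416, .ofNat 0, .ofNat 66659021327314010032568937646446282356791730765824000, .ofNat 46123846979888024820346045155094168001935942090752, .ofNat 406680799960473755115683701464421177412790432390143016960⟩)
    (by decide +kernel)
theorem L08639 : Good (Phi V5.P V5.D (-1) (-1)) ⟨4, 14, 2, 2, 5, 20, 4, 8, 5, 13⟩ :=
  leafX_sound T5.ok_mm T5.Ymm.bz_eq (w := 264) (c := ⟨⟨.negSucc 1852, .negSucc 167, .negSucc 335, .negSucc 208, .negSucc 210, .negSucc 319⟩, ⟨.ofNat 1044, .ofNat 181, .ofNat 487, .ofNat 139, .ofNat 140, .ofNat 214⟩, ⟨.negSucc 308, .negSucc 811, .negSucc 1310, .negSucc 1353, .negSucc 1411, .negSucc 2498⟩, ⟨.negSucc 2820, .negSucc 10, .negSucc 194, .negSucc 104, .negSucc 19, .negSucc 87⟩, ⟨.negSucc 212, .ofNat 61, .ofNat 350, .ofNat 298, .ofNat 432, .ofNat 558⟩, .ofNat 387, .ofNat 293, .ofNat 0, .ofNat 293, .ofNat 645, .ofNat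 0, .ofNat 128, .negSucc 263, .ofNat 420, .ofNat 0, .ofNat 265, .negSucc 341, .ofNat 0, .ofNat 0, .ofNat 3802, .ofNat 6666, .ofNat 0, .ofNat 3353770339086030099228876588180323403707961116867952640, .ofNat 0, .ofNat 0, .ofNat 0, .ofNat 8372597679674568847358196938541656065647127170876702720, .ofNat 96729243311645310391807158780327912401993583615279104, .ofNat 0, .ofNat 0, .ofNat 45470047091253039787143545556594984129667448952603017216, .ofNat 1185707828130558402792408287517011017344622115975856128, .ofNat 228821239702170225996054789190688741233112985500789426356224, .ofNat 0, .ofNat 454188008532971589284235645974427088258686133967534424064, .ofNat 0, .ofNat 0⟩)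
    (by decide +kernel)
theorem L08640 : Good (Phi V5.P V5.D (-1) (-1)) ⟨4, 14, 2, 2, 5, 21, 4, 8, 5, 13⟩ :=
  out_sound (S := T5.ds_mm) T5.ok_mm (w := 42) (j := 2) (by decide +kernel)
theorem L08641 : Good (Phi V5.P V5.D (-1) (-1)) ⟨4, 14, 2, 2, 4, 10, 4, 9, 5, 13⟩ :=
  out_sound (S := T5.ds_mm) T5.ok_mm (w := 40) (j := 2) (by decide +kernel)
theorem L08642 : Good (Phi V5.P V5.D (-1) (-1)) ⟨4, 14, 2, 2, 4, 11, 3, 4, 5, 13⟩ :=
  out_sound (S := T5.ds_mm) T5.ok_mm (w := 38) (j := 2) (by decide +kernel)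
theorem L08643 : Good (Phi V5.P V5.D (-1) (-1)) ⟨4, 14, 2, 2, 3, 5, 3, 5, 4, 6⟩ :=
  out_sound (S := T5.ds_mm) T5.ok_mm (w := 34) (j := 2) (by decide +kernel)
theorem L08644 : Good (Phi V5.P V5.D (-1) (-1)) ⟨4, 15, 2, 2, 2, 2, 2, 2, 4, 6⟩ :=
  out_sound (S := T5.ds_mm) T5.ok_mm (w := 49) (j := 3) (by decide +kernel)
theorem L08645 : Good (Phi V5.P V5.D (-1) (-1)) ⟨3, 7, 2, 2, 3, 4, 3, 6, 4, 6⟩ :=
  leafX_sound T5.ok_mm T5.Ymm.bz_eq (w := 220) (c := ⟨⟨.negSucc 1722, .negSucc 121, .negSucc 192, .negSucc 368, .negSucc 42, .negSucc 119⟩, ⟨.ofNat 1016, .ofNat 323, .ofNat 278, .ofNat 247, .ofNat 36, .ofNat 83⟩, ⟨.ofNat 370, .negSucc 371, .negSucc 595, .negSucc 2614, .negSucc 1260, .negSucc 1718⟩, ⟨.negSucc 2434, .ofNat 48, .negSucc 4, .negSucc 41, .ofNat 399, .ofNat 167⟩, ⟨.ofNat 183, .ofNat 74, .ofNat 133, .ofNat 723, .ofNat 698, .ofNat 510⟩, .ofNat 387, .ofNat 292, .ofNat 0, .ofNat 292, .ofNat 645, .ofNat 0, .ofNat 128, .negSucc 166, .ofNat 67, .ofNat 0, .ofNat 161, .negSucc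 84, .ofNat 0, .ofNat 0, .ofNat 1345, .ofNat 709, .ofNat 0, .ofNat 97950232758217169118816182262707583509856256, .ofNat 181858837128653308121688242438415933505536, .ofNat 0, .ofNat 0, .ofNat 304433480555374469767493834432901612354666496, .ofNat 4374222910571598293695673708381658910031872, .ofNat 0, .ofNat 0, .ofNat 1024588527336248004037253718809557533548609536, .ofNat 3304134510143771501250816441002562519302144, .ofNat 117316285617755018435628974877427246316484820992, .ofNat 0, .ofNat 5139461218865506330517128871639884416080150528, .ofNat 8604834106791272764099828279452385421557760, .ofNat 0⟩)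
    (by decide +kernel)
theorem L08646 : Good (Phi V5.P V5.D (-1) (-1)) ⟨3, 7, 2, 2, 3, 4, 3, 7, 4, 6⟩ :=
  out_sound (S := T5.ds_mm) T5.ok_mm (w := 34) (j := 2) (by decide +kernel)
theorem L08647 : Good (Phi V5.P V5.D (-1) (-1)) ⟨3, 7, 2, 2, 3, 5, 2, 3, 4, 6⟩ :=
  out_sound (S := T5.ds_mm) T5.ok_mm (w := 32) (j := 2) (by decide +kernel)
theorem L08648 : Good (Phi V5.P V5.D (-1) (-1)) ⟨5, 28, 2, 2, 5, 16, 4, 8, 6, 28⟩ :=
  leafX_sound T5.ok_mm T5.Ymm.bz_eq (w := 279) (c := ⟨⟨.negSucc 1760, .negSucc 143, .ofNat 60, .negSucc 81, .negSucc 63, .negSucc 38⟩, ⟨.ofNat 1009, .ofNat 140, .ofNat 172, .ofNat 54, .ofNat 44, .ofNat 26⟩, ⟨.ofNat 1392, .negSucc 490, .negSucc 37, .negSucc 915, .negSucc 844, .negSucc 689⟩, ⟨.negSucc 2726, .negSucc 30, .ofNat 23, .negSucc 27, .ofNat 64, .ofNat 25⟩, ⟨.negSucc 335, .ofNat 84, .negSucc 37, .ofNat 137, .ofNat 241, .ofNat 127⟩, .ofNat 387, .ofNat 292, .ofNat 0, .ofNat 292, .ofNat 645, .ofNat 0, .ofNat 128, .negSucc 256, .ofNat 263, .ofNat 0,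 .ofNat 257, .negSucc 234, .ofNat 0, .ofNat 0, .ofNat 4089, .ofNat 489687, .ofNat 1210382535000668558703168774788119531178729643804008741076992, .ofNat 0, .ofNat 0, .ofNat 0, .ofNat 141290596034069728664988779408244770507808500078540184616960, .ofNat 0, .ofNat 5464409491361981907294786005772878571129357515345625088, .ofNat 0, .ofNat 780932782147563747785931578938311603765816211302794297081856, .ofNat 0, .ofNat 26342475302699692626863822079272468003407284274989105152, .ofNat 992623677040574371666576311841142224196078783810985231411838976, .ofNat 7749147341005303962524181906385443937163388750355747007627264, .ofNat 0, .ofNat 243491462602081191122077148236668752925359662181537284096, .ofNat 0⟩)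
    (by decide +kernel)
theorem L08649 : Good (Phi V5.P V5.D (-1) (-1)) ⟨5, 28, 3, 4, 5, 17, 4, 8, 6, 28⟩ :=
  leafX_sound T5.ok_mm T5.Ymm.bz_eq (w := 280) (c := ⟨⟨.negSucc 1628, .negSucc 105, .negSucc 74, .negSucc 191, .negSucc 167, .negSucc 120⟩, ⟨.ofNat 927, .ofNat 121, .ofNat 149, .ofNat 125, .ofNat 111, .ofNat 79⟩, ⟨.ofNat 1711, .negSucc 394, .negSucc 499, .negSucc 1592, .negSucc 1519, .negSucc 1295⟩, ⟨.negSucc 2637, .negSucc 5, .negSucc 40, .negSucc 98, .ofNat 3, .negSucc 24⟩, ⟨.negSucc 461, .ofNat 66, .ofNat 86, .ofNat 277, .ofNat 383, .ofNat 236⟩, .ofNat 847, .ofNat 953, .ofNat 0, .ofNat 953, .ofNat 1720, .ofNat 0, .ofNat 128, .negSucc 670, .ofNat 928, .ofNat 0, .ofNat 517, .negSucc 659, .ofNat 0, .ofNat 0, .ofNat 10706, .ofNat 110271, .ofNat 1840329811047515328784321960585020987993773514462834582355968, .ofNat 0, .ofNat 9437238409246107517534367428000702680146564767973113856, .ofNat 0, .ofNat 1650816411266819634977840596762670962201070858837997440204800, .ofNat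 0, .ofNat 74275676533531826027534841988587548569442397405178757120, .ofNat 0, .ofNat 16431290118845742538470737488999687156224325562211396181032960, .ofNat 24442735881006847464701858780279571871560554446688851329024, .ofNat 524747966326574737902958345233200299299895393888084426752, .ofNat 0, .ofNat 145491575449821885067241500172032230905233033836773674391175168, .ofNat 1153315356938576851182401483858597761699593637919179902287872, .ofNat 675043005233562083097011447647002657864836234725392646144, .ofNat 0⟩)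
    (by decide +kernel)
theorem L08650 : Good (Phi V5.P V5.D (-1) (-1)) ⟨5, 28, 4, 10, 5, 17, 4, 8, 6, 28⟩ :=
  leafX_sound T5.ok_mm T5.Ymm.bz_eq (w := 283) (c := ⟨⟨.negSucc 1699, .negSucc 174, .negSucc 22, .negSucc 213, .negSucc 132, .negSucc 176⟩, ⟨.ofNat 1068, .ofNat 180, .ofNat 61, .ofNat 142, .ofNat 90, .ofNat 118⟩, ⟨.ofNat 1133, .negSucc 467, .negSucc 354, .negSucc 1712, .negSucc 1283, .negSucc 1675⟩, ⟨.negSucc 2668, .negSucc 30, .negSucc 8, .negSucc 116, .ofNat 3, .negSucc 45⟩, ⟨.negSucc 318, .ofNat 75, .ofNat 68, .ofNat 280, .ofNat 293, .ofNat 308⟩, .ofNat 2570, .ofNat 3504, .ofNat 0, .ofNat 3504, .ofNat 5521, .ofNat 0, .ofNat 128, .negSucc 1638, .ofNat 2108, .ofNat 0, .ofNat 1146, .negSucc 1439, .ofNat 0, .ofNat 0, .ofNat 24223, .ofNat 130197, .ofNat 17579692027353664413874460138229031260716216283813196637143040, .ofNat 0, .ofNat 28493006846948192311844649527898086545492682206479384576, .ofNat 40892898318031837833196247866203030544050653397389585370625081344, .ofNat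 27892260293248355198443165141745452935398131223355867218837504, .ofNat 28585204183124714896911988561392396909291645143372569509888, .ofNat 1460657859079444043829401651979393227568758994586340163584, .ofNat 0, .ofNat 479708350452506901990269176000863972083797943138352349059219456, .ofNat 1265602362434490435350877831964824151390000563051087574073344, .ofNat 1200178828823836795582735396816794483605387428317471178752, .ofNat 3415981240028942690721017726473420746861730262809617413945337839616, .ofNat 4063713896184054028314012799681344396470782535170354288621780992, .ofNat 49907867576622078305305444413959402770454189239460620010520576, .ofNat 43061001120741292516622195138172139348758966802073002180608, .ofNat 11365863302465715692902934831919892383027611779056116268705171636224⟩)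
    (by decide +kernel)
theorem L08651 : Good (Phi V5.P V5.D (-1) (-1)) ⟨6, 56, 4, 11, 5, 17, 4, 8, 6, 28⟩ :=
  out_sound (S := T5.ds_mm) T5.ok_mm (w := 65) (j := 3) (by decide +kernel)
theorem L08652 : Good (Phi V5.P V5.D (-1) (-1)) ⟨7, 114, 5, 22, 5, 17, 4, 8, 6, 28⟩ :=
  out_sound (S := T5.ds_mm) T5.ok_mm (w := 73) (j := 3) (by decide +kernel)
theorem L08653 : Good (Phi V5.P V5.D (-1) (-1)) ⟨7, 115, 5, 22, 5, 17, 4, 8, 6, 28⟩ :=
  out_sound (S := T5.ds_mm) T5.ok_mm (w := 21) (j := 4) (by decide +kernel)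
theorem L08654 : Good (Phi V5.P V5.D (-1) (-1)) ⟨6, 57, 5, 23, 5, 17, 4, 8, 6, 28⟩ :=
  out_sound (S := T5.ds_mm) T5.ok_mm (w := 67) (j := 3) (by decide +kernel)
theorem L08655 : Good (Phi V5.P V5.D (-1) (-1)) ⟨5, 28, 2, 2, 4, 8, 5, 16, 6, 29⟩ :=
  out_sound (S := T5.ds_mm) T5.ok_mm (w := 35) (j := 1) (by decide +kernel)
theorem L08656 : Good (Phi V5.P V5.D (-1) (-1)) ⟨5, 28, 2, 2, 5, 16, 5, 17, 6, 29⟩ :=
  out_sound (S := T5.ds_mm) T5.ok_mm (w := 37) (j := 1) (by decide +kernel)
theorem L08657 : Good (Phi V5.P V5.D (-1) (-1)) ⟨5, 28, 2, 2, 5, 17, 6, 34, 7, 58⟩ :=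
  out_sound (S := T5.ds_mm) T5.ok_mm (w := 40) (j := 1) (by decide +kernel)
theorem L08658 : Good (Phi V5.P V5.D (-1) (-1)) ⟨5, 28, 2, 2, 6, 34, 6, 35, 7, 58⟩ :=
  out_sound (S := T5.ds_mm) T5.ok_mm (w := 42) (j := 1) (by decide +kernel)
theorem L08659 : Good (Phi V5.P V5.D (-1) (-1)) ⟨5, 28, 2, 2, 6, 35, 7, 70, 8, 116⟩ :=
  out_sound (S := T5.ds_mm) T5.ok_mm (w := 45) (j := 1) (by decide +kernel)
theorem L08660 : Good (Phi V5.P V5.D (-1) (-1)) ⟨5, 28, 2, 2, 7, 70, 7, 71, 8, 116⟩ :=
  out_sound (S := T5.ds_mm) T5.ok_mm (w := 47) (j := 1) (by decide +kernel)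
theorem L08661 : Good (Phi V5.P V5.D (-1) (-1)) ⟨5, 28, 2, 2, 7, 71, 7, 71, 8, 116⟩ :=
  out_sound (S := T5.ds_mm) T5.ok_mm (w := 58) (j := 2) (by decide +kernel)
theorem L08662 : Good (Phi V5.P V5.D (-1) (-1)) ⟨5, 28, 2, 2, 6, 35, 6, 35, 8, 117⟩ :=
  out_sound (S := T5.ds_mm) T5.ok_mm (w := 44) (j := 1) (by decide +kernel)
theorem L08663 : Good (Phi V5.P V5.D (-1) (-1)) ⟨5, 28, 2, 2, 5, 17, 5, 17, 7, 59⟩ :=
  out_sound (S := T5.ds_mm) T5.ok_mm (w := 39) (j := 1) (by decide +kernel)
theorem L08664 : Good (Phi V5.P V5.D (-1) (-1)) ⟨5, 28, 3, 4, 5, 16, 4, 9, 6, 28⟩ :=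
  leafX_sound T5.ok_mm T5.Ymm.bz_eq (w := 278) (c := ⟨⟨.negSucc 1701, .negSucc 83, .negSucc 60, .negSucc 152, .negSucc 102, .negSucc 73⟩, ⟨.ofNat 983, .ofNat 108, .ofNat 134, .ofNat 99, .ofNat 70, .ofNat 49⟩, ⟨.ofNat 1201, .negSucc 280, .negSucc 409, .negSucc 1372, .negSucc 1183, .negSucc 972⟩, ⟨.negSucc 2610, .ofNat 19, .negSucc 30, .negSucc 61, .ofNat 61, .ofNat 5⟩, ⟨.negSucc 278, .ofNat 46, .ofNat 94, .ofNat 252, .ofNat 334, .ofNat 176⟩, .ofNat 846, .ofNat 952, .ofNat 0, .ofNat 952, .ofNat 1720, .ofNat 0, .ofNat 128, .negSucc 666, .ofNat 989, .ofNat 0, .ofNat 513, .negSucc 716, .ofNat 0, .ofNat 0, .ofNat 12380, .ofNat 28489, .ofNat 415679762200635736370661614066498099691182234907489622556672, .ofNat 0, .ofNat 1305636163836878069660405021264882583351645157973819392, .ofNat 0, .ofNat 682579748290584328713283869915693391206347238157574148718592, .ofNat 0, .ofNat 83142856892829492715293737462831776570060052464247242752, .ofNat 0, .ofNat 0, .ofNat 0, .ofNat 562232654679750819971819090288638681417777955854669053952,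 .ofNat 0, .ofNat 0, .ofNat 0, .ofNat 0, .ofNat 0⟩)
    (by decide +kernel)
theorem L08665 : Good (Phi V5.P V5.D (-1) (-1)) ⟨5, 28, 3, 4, 5, 16, 4, 9, 6, 29⟩ :=
  leafX_sound T5.ok_mm T5.Ymm.bz_eq (w := 279) (c := ⟨⟨.negSucc 1606, .negSucc 199, .negSucc 55, .negSucc 310, .negSucc 240, .negSucc 197⟩, ⟨.ofNat 931, .ofNat 195, .ofNat 118, .ofNat 203, .ofNat 160, .ofNat 131⟩, ⟨.ofNat 1499, .negSucc 988, .negSucc 485, .negSucc 2492, .negSucc 2147, .negSucc 1928⟩, ⟨.negSucc 2526, .negSucc 51, .negSucc 14, .negSucc 154, .negSucc 8, .negSucc 59⟩, ⟨.negSucc 328, .ofNat 184, .ofNat 71, .ofNat 459, .ofNat 537, .ofNat 353⟩, .ofNat 844, .ofNat 948, .ofNat 0, .ofNat 948, .ofNat 1715, .ofNat 0, .ofNat 128, .negSucc 830, .ofNat 1332, .ofNat 0, .ofNat 640, .negSucc 954, .ofNat 0, .ofNat 0, .ofNat 14308, .ofNat 71781, .ofNat 1548147365886078147627653876551476566138220338875638600433664, .ofNat 2159204403440103642437851577163742972044130920796570779648, .ofNat 0, .ofNat 0, .ofNat 1886796458810031422984604227703435538216496430309481381888000,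 .ofNat 8281866187911491554350490668463188673429627458117663981568, .ofNat 106088564143349138314942966894991223245551680809387163648, .ofNat 0, .ofNat 23205608146240655790038939148144996804655185482764112994762752, .ofNat 112787850435292121169287683258995725204917282864651267211264, .ofNat 1027026073119569478930793515550199067190964048450140766208, .ofNat 0, .ofNat 236005882684017211957643434423027557883903333938966820261199872, .ofNat 2709529914689747657876725730658616434573623205712658329239552, .ofNat 1287355071584410939887495243132564795807876901900411469824, .ofNat 0⟩)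
    (by decide +kernel)
theorem L08666 : Good (Phi V5.P V5.D (-1) (-1)) ⟨5, 28, 3, 4, 5, 17, 5, 18, 5, 14⟩ :=
  leafX_sound T5.ok_mm T5.Ymm.bz_eq (w := 276) (c := ⟨⟨.negSucc 1787, .negSucc 134, .negSucc 82, .negSucc 194, .negSucc 69, .negSucc 253⟩, ⟨.ofNat 1039, .ofNat 145, .ofNat 149, .ofNat 126, .ofNat 47, .ofNat 167⟩, ⟨.ofNat 238, .negSucc 585, .negSucc 559, .negSucc 1594, .negSucc 688, .negSucc 2651⟩, ⟨.negSucc 2652, .negSucc 12, .negSucc 29, .negSucc 89, .ofNat 22, .negSucc 44⟩, ⟨.negSucc 120, .ofNat 101, .ofNat 119, .ofNat 296, .ofNat 194, .ofNat 501⟩, .ofNat 1637, .ofNat 2079, .ofNat 0, .ofNat 2079, .ofNat 3381, .ofNat 0, .ofNat 128, .negSucc 607, .ofNat 714, .ofNat 0, .ofNat 472, .negSucc 510, .ofNat 0, .ofNat 0, .ofNat 6525, .ofNat 19874, .ofNat 267892942738268639833902770319696975781571458072112428744704, .ofNat 490325771980389339060114331502974964902971316026516439040, .ofNat 580442788594675206944261666190283542368028541468016640, .ofNat 0, .ofNat 0, .ofNat 5715440552541365906103505835759083644760427807927951163392,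 .ofNat 24068527089869044150483204908595843833121353764744200192, .ofNat 0, .ofNat 0, .ofNat 25005385212580825335101455669653442461815953844312347770880, .ofNat 97420348584447750971366922128818269081862663449316687872, .ofNat 0, .ofNat 0, .ofNat 326857468351746594450302650708121093513100054953682848972800, .ofNat 271034318739511175591514434433572460947513031314267701248, .ofNat 0⟩)
    (by decide +kernel)
theorem L08667 : Good (Phi V5.P V5.D (-1) (-1)) ⟨5, 28, 3, 4, 5, 17, 5, 19, 5, 14⟩ :=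
  leafX_sound T5.ok_mm T5.Ymm.bz_eq (w := 277) (c := ⟨⟨.negSucc 1742, .negSucc 87, .negSucc 189, .negSucc 265, .negSucc 101, .negSucc 354⟩, ⟨.ofNat 1017, .ofNat 122, .ofNat 210, .ofNat 173, .ofNat 67, .ofNat 232⟩, ⟨.ofNat 90, .negSucc 493, .negSucc 1021, .negSucc 1972, .negSucc 857, .negSucc 3253⟩, ⟨.negSucc 2556, .ofNat 26, .negSucc 102, .negSucc 127, .ofNat 6, .negSucc 103⟩, ⟨.negSucc 46, .ofNat 72, .ofNat 215, .ofNat 393, .ofNat 239, .ofNat 628⟩, .ofNat 1468, .ofNat 1827, .ofNat 0, .ofNat 1827, .ofNat 3000, .ofNat 0, .ofNat 128, .negSucc 757, .ofNat 1026, .ofNat 0, .ofNat 590, .negSucc 734, .ofNat 0, .ofNat 0, .ofNat 8077, .ofNat 22701, .ofNat 0, .ofNat 1678158620851029086855377486512223360671289644538977583104, .ofNat 1417643521096295734513485324612402582719032750432583680, .ofNat 0, .ofNat 0, .ofNat 9376434602650341573955519434007764319505653054506356703232, .ofNat 27359189874547859407418292631871939992053406561797668864, .ofNat 0, .ofNat 0, .ofNat 59276047821573953977203122465931986915192426866524597256192,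 .ofNat 189935634761072330307549078182446831550623318002745999360, .ofNat 0, .ofNat 0, .ofNat 762475108473598575651726914389440100596266551314512844161024, .ofNat 412826825772433587462961269333856416838608613242195410944, .ofNat 0⟩)
    (by decide +kernel)
theorem L08668 : Good (Phi V5.P V5.D (-1) (-1)) ⟨5, 28, 4, 10, 5, 16, 5, 18, 6, 28⟩ :=
  leafX_sound T5.ok_mm T5.Ymm.bz_eq (w := 287) (c := ⟨⟨.negSucc 1727, .negSucc 187, .negSucc 5, .negSucc 142, .negSucc 35, .negSucc 151⟩, ⟨.ofNat 1093, .ofNat 176, .ofNat 53, .ofNat 95, .ofNat 24, .ofNat 101⟩, ⟨.ofNat 930, .negSucc 539, .negSucc 278, .negSucc 1307, .negSucc 491, .negSucc 1501⟩, ⟨.negSucc 2628, .negSucc 43, .ofNat 2, .negSucc 55, .ofNat 39, .negSucc 29⟩, ⟨.negSucc 210, .ofNat 107, .ofNat 48, .ofNat 224, .ofNat 139, .ofNat 279⟩, .ofNat 905, .ofNat 1025, .ofNat 0, .ofNat 1025, .ofNat 1786, .ofNat 0, .ofNat 128, .negSucc 853, .ofNat 1095, .ofNat 0, .ofNat 658, .negSucc 806, .ofNat 0, .ofNat 0, .ofNat 14572, .ofNat 118682,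 .ofNat 147011645647605907794006823619006494734782266556810208405880832, .ofNat 0, .ofNat 1157272630058415659580873223804616804885008774666987241472, .ofNat 0, .ofNat 0, .ofNat 30163588902284239857849810284927742910700736323168189284352, .ofNat 5481923567360291949782846091824486457182233609049793888256, .ofNat 0, .ofNat 0, .ofNat 0, .ofNat 24800823202266972049533603641502062288188336197199867150336, .ofNat 0, .ofNat 0, .ofNat 0, .ofNat 0, .ofNat 0⟩)
    (by decide +kernel)
theorem L08669 : Good (Phi V5.P V5.D (-1) (-1)) ⟨6, 56, 4, 10, 5, 16, 5, 19, 6, 28⟩ :=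
  leafX_sound T5.ok_mm T5.Ymm.bz_eq (w := 290) (c := ⟨⟨.negSucc 1867, .ofNat 126, .negSucc 251, .negSucc 202, .negSucc 54, .negSucc 85⟩, ⟨.ofNat 1187, .negSucc 57, .ofNat 216, .ofNat 134, .ofNat 37, .ofNat 57⟩, ⟨.ofNat 44, .ofNat 499, .negSucc 1147, .negSucc 1680, .negSucc 601, .negSucc 1077⟩, ⟨.negSucc 2651, .ofNat 107, .negSucc 137, .negSucc 85, .ofNat 36, .ofNat 4⟩, ⟨.ofNat 4, .negSucc 111, .ofNat 235, .ofNat 314, .ofNat 180, .ofNat 196⟩, .ofNat 892, .ofNat 1009, .ofNat 0, .ofNat 1009, .ofNat 1770, .ofNat 0, .ofNat 128, .negSucc 809, .ofNat 1137, .ofNat 0, .ofNat 624, .negSucc 830, .ofNat 0, .ofNat 0, .ofNat 13026, .ofNat 55736, .ofNat 756914762043612793151582247495744429612417570120930851477782528, .ofNat 0, .ofNat 220062446025788236974469508060722545121390242341226283008, .ofNat 0, .ofNat 0, .ofNat 1020647311858528041400846458795723888698605706887475752861696, .ofNat 1965803665105190189867645412859769287900940777895034355712, .ofNat 0, .ofNat 0, .ofNat 21000158981026196194310834022546595935499151835000228164927488,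 .ofNat 12238192864569375593300363321488925884850692879621380112384, .ofNat 0, .ofNat 0, .ofNat 895053534864084598386827150434739071075035484352946242551021568, .ofNat 71829303883593364094375207606753923433675020802402235187200, .ofNat 0⟩)
    (by decide +kernel)
theorem L08670 : Good (Phi V5.P V5.D (-1) (-1)) ⟨6, 57, 4, 10, 5, 16, 5, 19, 6, 28⟩ :=
  leafX_sound T5.ok_mm T5.Ymm.bz_eq (w := 292) (c := ⟨⟨.negSucc 1830, .negSucc 161, .ofNat 26, .negSucc 236, .negSucc 80, .negSucc 126⟩, ⟨.ofNat 1193, .ofNat 145, .ofNat 21, .ofNat 157, .ofNat 55, .ofNat 85⟩, ⟨.ofNat 430, .negSucc 469, .negSucc 276, .negSucc 1883, .negSucc 770, .negSucc 1360⟩, ⟨.negSucc 2621, .negSucc 25, .negSucc 15, .negSucc 51, .ofNat 28, .ofNat 20⟩, ⟨.negSucc 131, .ofNat 77, .ofNat 54, .ofNat 419, .ofNat 213, .ofNat 297⟩, .ofNat 6386, .ofNat 9047, .ofNat 0, .ofNat 9047, .ofNat 13574, .ofNat 0, .ofNat 128, .negSucc 1358, .ofNat 1741, .ofNat 0, .ofNat 956, .negSucc 1209, .ofNat 0, .ofNat 0, .ofNat 18704, .ofNat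 75413, .ofNat 902718008600455267876678404258516855478498102819868324776640512, .ofNat 0, .ofNat 124098467026108650208621330155569191982959422812559769600, .ofNat 2409718974640120267868974932276142240805207382975437691873220624384, .ofNat 0, .ofNat 11934414986752499773534892011315953509851632574715931205304320, .ofNat 21512552291321398163353311187752326335612478867267997663232, .ofNat 0, .ofNat 0, .ofNat 29798684091239251309207263701504596673631207772236509389783040, .ofNat 13593719366749072446234687471111887979885137309248788627456, .ofNat 157691287213725253759653869329009581710928164329016306193126775586816, .ofNat 0, .ofNat 1725421298443035664192603365788834053871053124786973989530501120, .ofNat 80112789911829945627708391380568284800780795078607412133888, .ofNat 734053719320543906405206336724228054606381990482684346670476561481728⟩)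
    (by decide +kernel)
theorem L08671 : Good (Phi V5.P V5.D (-1) (-1)) ⟨6, 56, 4, 11, 5, 16, 4, 9, 6, 28⟩ :=
  out_sound (S := T5.ds_mm) T5.ok_mm (w := 65) (j := 3) (by decide +kernel)
theorem L08672 : Good (Phi V5.P V5.D (-1) (-1)) ⟨7, 114, 5, 22, 5, 16, 4, 9, 6, 28⟩ :=
  out_sound (S := T5.ds_mm) T5.ok_mm (w := 73) (j := 3) (by decide +kernel)
theorem L08673 : Good (Phi V5.P V5.D (-1) (-1)) ⟨7, 115, 5, 22, 5, 16, 4, 9, 6, 28⟩ :=
  out_sound (S := T5.ds_mm) T5.ok_mm (w := 21) (j := 4) (by decide +kernel)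
theorem L08674 : Good (Phi V5.P V5.D (-1) (-1)) ⟨6, 57, 5, 23, 5, 16, 4, 9, 6, 28⟩ :=
  out_sound (S := T5.ds_mm) T5.ok_mm (w := 67) (j := 3) (by decide +kernel)
theorem L08675 : Good (Phi V5.P V5.D (-1) (-1)) ⟨5, 28, 4, 10, 6, 34, 5, 18, 6, 28⟩ :=
  leafX_sound T5.ok_mm T5.Ymm.bz_eq (w := 299) (c := ⟨⟨.negSucc 1816, .negSucc 34, .negSucc 124, .negSucc 155, .negSucc 152, .negSucc 182⟩, ⟨.ofNat 1152, .ofNat 68, .ofNat 138, .ofNat 103, .ofNat 102, .ofNat 121⟩, ⟨.ofNat 81, .negSucc 168, .negSucc 681, .negSucc 1156, .negSucc 1215, .negSucc 1734⟩, ⟨.negSucc 2647, .ofNat 27, .negSucc 58, .negSucc 80, .negSucc 23, .negSucc 57⟩, ⟨.negSucc 72, .negSucc 40, .ofNat 168, .ofNat 214, .ofNat 294, .ofNat 318⟩, .ofNat 393, .ofNat 301, .ofNat 0, .ofNat 301, .ofNat 646, .ofNat 0, .ofNat 128, .negSucc 368, .ofNat 884, .ofNat 0, .ofNat 367, .negSucc 739, .ofNat 0, .ofNat 0, .ofNat 8801, .ofNat 30849, .ofNat 99583373656346594953694464245472209807713816343277670400627048448, .ofNat 86232220572195359727797808112278474316986561468245000817999872,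 .ofNat 471136609027136410713190631922767848863878468418880757825536, .ofNat 592243091657569814850017751219626095890185606915860137924936272445440, .ofNat 0, .ofNat 241568481729814682318119710921333110632694501238271451781398528, .ofNat 10814304003249398730223518816827188971818861781354726396264448, .ofNat 0, .ofNat 0, .ofNat 216668781705451386954365714644311699895932119309034440125054976, .ofNat 121072412870879925178889174099923512755155892439431652019535872, .ofNat 79951089941282299365297790323036997565989087739583261420163192248598528, .ofNat 0, .ofNat 116586545273816948940180947808358511149487930232417036288544210944, .ofNat 2065658398005994058972071631499263433100472635233230194397413376, .ofNat 0⟩)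
    (by decide +kernel)
theorem L08676 : Good (Phi V5.P V5.D (-1) (-1)) ⟨5, 28, 4, 10, 6, 35, 5, 18, 6, 28⟩ :=
  leafX_sound T5.ok_mm T5.Ymm.bz_eq (w := 299) (c := ⟨⟨.negSucc 1860, .negSucc 105, .negSucc 143, .negSucc 213, .negSucc 184, .negSucc 294⟩, ⟨.ofNat 1175, .ofNat 137, .ofNat 142, .ofNat 143, .ofNat 124, .ofNat 197⟩, ⟨.negSucc 426, .negSucc 470, .negSucc 876, .negSucc 1503, .negSucc 1371, .negSucc 2426⟩, ⟨.negSucc 2655, .negSucc 22, .negSucc 68, .negSucc 119, .negSucc 53, .negSucc 130⟩, ⟨.ofNat 31, .ofNat 71, .ofNat 149, .ofNat 268, .ofNat 306, .ofNat 423⟩, .ofNat 2427, .ofNat 3315, .ofNat 0, .ofNat 3315, .ofNat 5283, .ofNat 0, .ofNat 128, .negSucc 601, .ofNat 1313, .ofNat 0, .ofNat 419, .negSucc 889, .ofNat 0, .ofNat 0, .ofNat 12400, .ofNat 22847, .ofNat 18391750982842167440350938990412757241471052837755977172321828864, .ofNat 331603405823338489731000217715675744713800328088759714327822336, .ofNat 814350435760047387557086907529759758411129466713280190873600, .ofNat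 2092439011569905390332187943308885037663065210715301137124822458826752, .ofNat 0, .ofNat 0, .ofNat 541106276828278070603946618149600445076694930634560103352631296, .ofNat 0, .ofNat 0, .ofNat 11943212053686120334818759495680263713001567877343600767863357440, .ofNat 298420645723987771353730881327308930331210618905987480838733824, .ofNat 0, .ofNat 0, .ofNat 274115757394480010412032632109694013956495859334080290649758760960, .ofNat 0, .ofNat 87682970445605502109553757904893219902172132725923041083609754439254016⟩)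
    (by decide +kernel)
theorem L08677 : Good (Phi V5.P V5.D (-1) (-1)) ⟨6, 56, 4, 11, 5, 17, 5, 18, 6, 28⟩ :=
  out_sound (S := T5.ds_mm) T5.ok_mm (w := 65) (j := 3) (by decide +kernel)
theorem L08678 : Good (Phi V5.P V5.D (-1) (-1)) ⟨7, 114, 5, 22, 5, 17, 5, 18, 6, 28⟩ :=
  out_sound (S := T5.ds_mm) T5.ok_mm (w := 73) (j := 3) (by decide +kernel)
theorem L08679 : Good (Phi V5.P V5.D (-1) (-1)) ⟨7, 115, 5, 22, 5, 17, 5, 18, 6, 28⟩ :=
  out_sound (S := T5.ds_mm) T5.ok_mm (w := 21) (j := 4) (by decide +kernel)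
theorem L08680 : Good (Phi V5.P V5.D (-1) (-1)) ⟨6, 57, 5, 23, 5, 17, 5, 18, 6, 28⟩ :=
  out_sound (S := T5.ds_mm) T5.ok_mm (w := 67) (j := 3) (by decide +kernel)
theorem L08681 : Good (Phi V5.P V5.D (-1) (-1)) ⟨5, 28, 4, 10, 5, 17, 5, 19, 6, 28⟩ :=
  leafX_sound T5.ok_mm T5.Ymm.bz_eq (w := 287) (c := ⟨⟨.negSucc 1911, .negSucc 21, .negSucc 187, .negSucc 286, .negSucc 114, .negSucc 251⟩, ⟨.ofNat 1213, .ofNat 70, .ofNat 175, .ofNat 189, .ofNat 76, .ofNat 168⟩, ⟨.negSucc 747, .negSucc 207, .negSucc 1033, .negSucc 2069, .negSucc 939, .negSucc 2183⟩, ⟨.negSucc 2626, .ofNat 19, .negSucc 69, .negSucc 182, .negSucc 20, .negSucc 116⟩, ⟨.ofNat 155, .ofNat 45, .ofNat 190, .ofNat 343, .ofNat 222, .ofNat 361⟩, .ofNat 2391, .ofNat 3266, .ofNat 0, .ofNat 3266, .ofNat 5218, .ofNat 0, .ofNat 128, .negSucc 1437, .ofNat 2593, .ofNat 0, .ofNat 1001, .negSucc 1759, .ofNat 0, .ofNat 0, .ofNat 24851, .ofNat 33822, .ofNat 0, .ofNat 256578135626292273965410065777064660057830180393528670027776,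 .ofNat 117717454137602880688253834134513176555274155955073318912, .ofNat 0, .ofNat 0, .ofNat 500150282044724092671634798598112289307811746115589664407552, .ofNat 20016893099280647905211893901262510908451133485028277747712, .ofNat 0, .ofNat 0, .ofNat 20764786713618190907634194304381326885579796832500927254495232, .ofNat 42322167483529788214237522207862654199659441989328322953216, .ofNat 0, .ofNat 0, .ofNat 289914285239597901285879922174812002709311426951656048416522240, .ofNat 0, .ofNat 112758730845600501793404411496329357149460870708513174074571792318464⟩)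
    (by decide +kernel)
theorem L08682 : Good (Phi V5.P V5.D (-1) (-1)) ⟨6, 56, 4, 11, 5, 17, 5, 19, 6, 28⟩ :=
  out_sound (S := T5.ds_mm) T5.ok_mm (w := 65) (j := 3) (by decide +kernel)
theorem L08683 : Good (Phi V5.P V5.D (-1) (-1)) ⟨7, 114, 5, 22, 5, 17, 5, 19, 6, 28⟩ :=
  out_sound (S := T5.ds_mm) T5.ok_mm (w := 73) (j := 3) (by decide +kernel)
theorem L08684 : Good (Phi V5.P V5.D (-1) (-1)) ⟨7, 115, 5, 22, 5, 17, 5, 19, 6, 28⟩ :=
  out_sound (S := T5.ds_mm) T5.ok_mm (w := 21) (j := 4) (by decide +kernel)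
theorem L08685 : Good (Phi V5.P V5.D (-1) (-1)) ⟨6, 57, 5, 23, 5, 17, 5, 19, 6, 28⟩ :=
  out_sound (S := T5.ds_mm) T5.ok_mm (w := 67) (j := 3) (by decide +kernel)
theorem L08686 : Good (Phi V5.P V5.D (-1) (-1)) ⟨5, 28, 3, 5, 5, 16, 5, 18, 7, 58⟩ :=
  leafX_sound T5.ok_mm T5.Ymm.bz_eq (w := 291) (c := ⟨⟨.negSucc 1509, .negSucc 256, .negSucc 198, .negSucc 453, .negSucc 127, .negSucc 84⟩, ⟨.ofNat 953, .ofNat 238, .ofNat 223, .ofNat 296, .ofNat 81, .ofNat 54⟩, ⟨.ofNat 1828, .negSucc 1417, .negSucc 1385, .negSucc 3323, .negSucc 1023, .negSucc 826⟩, ⟨.negSucc 2331, .negSucc 23, .negSucc 152, .negSucc 317, .negSucc 71, .negSucc 70⟩, ⟨.negSucc 807, .ofNat 103, .ofNat 385, .ofNat 855, .ofNat 467, .ofNat 290⟩, .ofNat 166, .ofNat 59, .ofNat 0, .ofNat 59, .ofNat 216, .ofNat 0, .ofNat 128, .negSucc 162, .ofNat 566, .ofNat 0, .ofNat 293, .negSucc 652, .ofNat 0, .ofNat 0, .ofNat 4721, .ofNat 426848, .ofNat 511245175667881899223769516177409721810260478676894835676282880, .ofNat 0, .ofNat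 13644585906883578494922888567610038504848208717873223303168, .ofNat 10234796517343917011672368729523023333442360071747096098173530144768, .ofNat 117174279056983299375907239767146031601461008411645966353956864, .ofNat 0, .ofNat 1332289798916991840714825786257412577641518163033373802496, .ofNat 0, .ofNat 632092200257210015009848417135955835017807523173531062928146432, .ofNat 0, .ofNat 9433461285889092886670790813767611120602300292553043345408, .ofNat 0, .ofNat 3974876006800289479362563076905584586730981935293601032446148608, .ofNat 6139710355993680205622521661759182622817573781512897628733440, .ofNat 280744542183271372036704345490730671653906876509889184661504, .ofNat 120188867525943210204816841188695429140339416834307692968118868508672⟩)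
    (by decide +kernel)
theorem L08687 : Good (Phi V5.P V5.D (-1) (-1)) ⟨5, 28, 4, 10, 6, 32, 5, 19, 7, 58⟩ :=
  leafX_sound T5.ok_mm T5.Ymm.bz_eq (w := 307) (c := ⟨⟨.negSucc 1704, .negSucc 273, .negSucc 17, .negSucc 210, .negSucc 145, .negSucc 164⟩, ⟨.ofNat 1076, .ofNat 245, .ofNat 55, .ofNat 140, .ofNat 97, .ofNat 110⟩, ⟨.ofNat 344, .negSucc 901, .negSucc 510, .negSucc 1630, .negSucc 1245, .negSucc 1443⟩, ⟨.negSucc 2512, .negSucc 100, .ofNat 11, .negSucc 101, .negSucc 10, .negSucc 61⟩, ⟨.negSucc 84, .ofNat 228, .ofNat 48, .ofNat 300, .ofNat 305, .ofNat 261⟩, .ofNat 907, .ofNat 1027, .ofNat 0, .ofNat 1027, .ofNat 1787, .ofNat 0, .ofNat 128, .negSucc 831, .ofNat 2011, .ofNat 0, .ofNat 642, .negSucc 1461, .ofNat 0, .ofNat 0, .ofNat 20482, .ofNat 221968, .ofNat 9391646043219367081781836971550236221839872867941367820890740359168, .ofNat 0, .ofNat 690056650816217856005897445289415806257725601341141296869277696, .ofNat 0, .ofNat 4746036175544016415941588381722375485120154302112299892248680595456,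 .ofNat 10557369512153823856901559413545192699369418616339150422543433728, .ofNat 4007195197664277021055133294039468510630751064517696093482385408, .ofNat 0, .ofNat 70132592590685452559193193748668472489954209394106884701650820268032, .ofNat 20325270992736991992027277977634802168970480996718102565500223488, .ofNat 4402009513689723136373118031201395124148063009556282382305198080, .ofNat 8006910954357426532766993009119801651768867817738517567731203323140767744, .ofNat 948481771512096661221975493001143264393572487913130373049546916757504, .ofNat 5080778819899120231126610561141730749786643513552370557473196605440, .ofNat 260955582900914997272793912387071393296504573516631825749087617024, .ofNat 76661361137375800885113686805360007965769947116831925581013752640754941952⟩)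
    (by decide +kernel)
theorem L08688 : Good (Phi V5.P V5.D (-1) (-1)) ⟨5, 28, 4, 10, 6, 33, 5, 19, 7, 58⟩ :=
  leafX_sound T5.ok_mm T5.Ymm.bz_eq (w := 307) (c := ⟨⟨.negSucc 1889, .negSucc 57, .negSucc 182, .negSucc 270, .negSucc 219, .negSucc 202⟩, ⟨.ofNat 1197, .ofNat 101, .ofNat 167, .ofNat 181, .ofNat 147, .ofNat 135⟩, ⟨.negSucc 891, .negSucc 475, .negSucc 1044, .negSucc 2003, .negSucc 1729, .negSucc 1714⟩, ⟨.negSucc 2584, .negSucc 3, .negSucc 63, .negSucc 155, .negSucc 70, .negSucc 92⟩, ⟨.ofNat 183, .ofNat 78, .ofNat 187, .ofNat 337, .ofNat 361, .ofNat 290⟩, .ofNat 2460, .ofNat 3359, .ofNat 0, .ofNat 3359, .ofNat 5337, .ofNat 0, .ofNat 128, .negSucc 1320, .ofNat 2498, .ofNat 0, .ofNat 921, .negSucc 1698, .ofNat 0, .ofNat 0, .ofNat 23574, .ofNat 171929, .ofNat 5382948521348282686257500653209871782581517065008330543840190529536, .ofNat 9087689319882614961355490928298738898181388598682102759040221184, .ofNat 185828637787337220816485838013318687963995311559755849101475840,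 .ofNat 179706862496747318469430045900588520330312396671616270446668300446334976, .ofNat 5090406638859615394582286777497582850182925616525787231023265742848, .ofNat 29494769586729806328588198757276671230204657429875289276622569472, .ofNat 12548792380472224948749387853008479883066502908408341036059852800, .ofNat 0, .ofNat 97774733819378964802069462131445871857124048187909077753030766493696, .ofNat 786530999741874497538257215106558638642893754722697058659174711296, .ofNat 64976211562898657170310498991777561804633919878734104373284044800, .ofNat 0, .ofNat 1403524513994032816513144446440685464906213104900949491831569406492672, .ofNat 13003509380083563379063273052358289507613712565256971163772336996352, .ofNat 34901397813363916750228645122594360300354848037823019503990079488, .ofNat 0⟩)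
    (by decide +kernel)
theorem L08689 : Good (Phi V5.P V5.D (-1) (-1)) ⟨6, 56, 4, 11, 5, 16, 5, 19, 7, 58⟩ :=
  out_sound (S := T5.ds_mm) T5.ok_mm (w := 65) (j := 3) (by decide +kernel)
theorem L08690 : Good (Phi V5.P V5.D (-1) (-1)) ⟨7, 114, 5, 22, 5, 16, 5, 19, 7, 58⟩ :=
  out_sound (S := T5.ds_mm) T5.ok_mm (w := 73) (j := 3) (by decide +kernel)
theorem L08691 : Good (Phi V5.P V5.D (-1) (-1)) ⟨7, 115, 5, 22, 5, 16, 5, 19, 7, 58⟩ :=
  out_sound (S := T5.ds_mm) T5.ok_mm (w := 21) (j := 4) (by decide +kernel)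
theorem L08692 : Good (Phi V5.P V5.D (-1) (-1)) ⟨6, 57, 5, 23, 5, 16, 5, 19, 7, 58⟩ :=
  out_sound (S := T5.ds_mm) T5.ok_mm (w := 67) (j := 3) (by decide +kernel)

end Crest.Agent.R097C5.N5mm
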