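import Crest.Agent.R097.KP7
import Crest.Agent.R097.T5Ymm

/-!
# Row 97, box cover in dimension n = 5 (generated)
-/

set_option autoImplicit false
set_option Elab.async false
set_option maxHeartbeats 0
set_option maxRecDepth 100000

open Crest.Agent.R097 Crest.Agent.R097.KA


namespace Crest.Agent.R097C5.N5mm

theorem L08693 : Good (Phi V5.P V5.D (-1) (-1)) ⟨5, 28, 3, 5, 5, 16, 5, 18, 7, 59⟩ :=
  out_sound (S := T5.ds_mm) T5.ok_mm (w := 39) (j := 1) (by decide +kernel)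
theorem L08694 : Good (Phi V5.P V5.D (-1) (-1)) ⟨5, 28, 3, 5, 5, 16, 6, 38, 7, 59⟩ :=
  out_sound (S := T5.ds_mm) T5.ok_mm (w := 40) (j := 1) (by decide +kernel)
theorem L08695 : Good (Phi V5.P V5.D (-1) (-1)) ⟨5, 28, 3, 5, 6, 32, 7, 78, 8, 118⟩ :=
  out_sound (S := T5.ds_mm) T5.ok_mm (w := 45) (j := 1) (by decide +kernel)
theorem L08696 : Good (Phi V5.P V5.D (-1) (-1)) ⟨5, 28, 3, 5, 7, 64, 7, 79, 8, 118⟩ :=
  out_sound (S := T5.ds_mm) T5.ok_mm (w := 47) (j := 1) (by decide +kernel)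
theorem L08697 : Good (Phi V5.P V5.D (-1) (-1)) ⟨5, 28, 3, 5, 7, 65, 8, 158, 9, 236⟩ :=
  out_sound (S := T5.ds_mm) T5.ok_mm (w := 50) (j := 1) (by decide +kernel)
theorem L08698 : Good (Phi V5.P V5.D (-1) (-1)) ⟨5, 28, 3, 5, 8, 130, 8, 159, 9, 236⟩ :=
  out_sound (S := T5.ds_mm) T5.ok_mm (w := 52) (j := 1) (by decide +kernel)
theorem L08699 : Good (Phi V5.P V5.D (-1) (-1)) ⟨5, 28, 3, 5, 8, 131, 8, 159, 9, 236⟩ :=
  out_sound (S := T5.ds_mm) T5.ok_mm (w := 64) (j := 2) (by decide +kernel)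
theorem L08700 : Good (Phi V5.P V5.D (-1) (-1)) ⟨5, 28, 3, 5, 7, 65, 7, 79, 9, 237⟩ :=
  out_sound (S := T5.ds_mm) T5.ok_mm (w := 49) (j := 1) (by decide +kernel)
theorem L08701 : Good (Phi V5.P V5.D (-1) (-1)) ⟨5, 28, 3, 5, 6, 32, 6, 39, 8, 119⟩ :=
  out_sound (S := T5.ds_mm) T5.ok_mm (w := 44) (j := 1) (by decide +kernel)
theorem L08702 : Good (Phi V5.P V5.D (-1) (-1)) ⟨5, 28, 3, 5, 6, 33, 6, 39, 7, 59⟩ :=
  out_sound (S := T5.ds_mm) T5.ok_mm (w := 52) (j := 2) (by decide +kernel)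
theorem L08703 : Good (Phi V5.P V5.D (-1) (-1)) ⟨5, 28, 3, 5, 6, 34, 5, 18, 7, 58⟩ :=
  leafX_sound T5.ok_mm T5.Ymm.bz_eq (w := 304) (c := ⟨⟨.negSucc 1901, .negSucc 253, .negSucc 225, .negSucc 250, .negSucc 192, .ofNat 1⟩, ⟨.ofNat 1203, .ofNat 246, .ofNat 230, .ofNat 167, .ofNat 126, .negSucc 0⟩, ⟨.negSucc 1166, .negSucc 1486, .negSucc 1461, .negSucc 1651, .negSucc 1340, .ofNat 2⟩, ⟨.negSucc 2657, .negSucc 73, .negSucc 109, .negSucc 135, .negSucc 49, .ofNat 1⟩, ⟨.ofNat 52, .ofNat 223, .ofNat 278, .ofNat 418, .ofNat 426, .ofNat 0⟩, .ofNat 391, .ofNat 298, .ofNat 0, .ofNat 298, .ofNat 646, .ofNat 0, .ofNat 128, .negSucc 346, .ofNat 857, .ofNat 0, .ofNat 347, .negSucc 708, .ofNat 0, .ofNat 0, .ofNat 7987, .ofNat 251354, .ofNat 1980382209896128635488233046957439607731466298360010320197250449408, .ofNat 5104593251649666807700232206802513434156802762872384061863624704, .ofNat 133361353484873220974728309956932245256675656687896827141292032,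 .ofNat 109971392531108042674141686013136245985994359633791634391945511109132288, .ofNat 1983280372989168277567694861795809960155569299865927837829579145216, .ofNat 9848363115924268469969709762366906711231810285263567115408900096, .ofNat 200751022050493786192156675604641083744419379127809973665398784, .ofNat 65252692085659037880200533944139983133153301442735770074264869365874688, .ofNat 11837092655756437159100748705363421147525651814106230503944929411072, .ofNat 47725924537762950914443366965699415093668815318957912509630119936, .ofNat 0, .ofNat 338986822203342681787292704747617989046652476621083975783539715860332544, .ofNat 95987783415077518097898358628070546054282507082729968784317054189568, .ofNat 545915524028051449962493793679062359362960901456096910395398160384, .ofNat 19880518329947233838986797988316184167741899869367966717280518144, .ofNat 6236371419042814037080343466191888965107325221416451327097020162257190912⟩)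
    (by decide +kernel)
theorem L08704 : Good (Phi V5.P V5.D (-1) (-1)) ⟨5, 28, 3, 5, 6, 34, 5, 19, 7, 58⟩ :=
  out_sound (S := T5.ds_mm) T5.ok_mm (w := 50) (j := 2) (by decide +kernel)
theorem L08705 : Good (Phi V5.P V5.D (-1) (-1)) ⟨5, 28, 3, 5, 6, 35, 4, 9, 7, 58⟩ :=
  out_sound (S := T5.ds_mm) T5.ok_mm (w := 48) (j := 2) (by decide +kernel)
theorem L08706 : Good (Phi V5.P V5.D (-1) (-1)) ⟨5, 28, 3, 5, 6, 34, 5, 18, 7, 59⟩ :=
  out_sound (S := T5.ds_mm) T5.ok_mm (w := 41) (j := 1) (by decide +kernel)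
theorem L08707 : Good (Phi V5.P V5.D (-1) (-1)) ⟨5, 28, 3, 5, 6, 34, 5, 19, 7, 59⟩ :=
  out_sound (S := T5.ds_mm) T5.ok_mm (w := 50) (j := 2) (by decide +kernel)
theorem L08708 : Good (Phi V5.P V5.D (-1) (-1)) ⟨5, 28, 3, 5, 6, 35, 4, 9, 7, 59⟩ :=
  out_sound (S := T5.ds_mm) T5.ok_mm (w := 48) (j := 2) (by decide +kernel)
theorem L08709 : Good (Phi V5.P V5.D (-1) (-1)) ⟨5, 29, 2, 2, 4, 8, 3, 4, 5, 14⟩ :=
  out_sound (S := T5.ds_mm) T5.ok_mm (w := 17) (j := 4) (by decide +kernel)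
theorem L08710 : Good (Phi V5.P V5.D (-1) (-1)) ⟨4, 15, 2, 2, 4, 8, 3, 4, 5, 14⟩ :=
  out_sound (S := T5.ds_mm) T5.ok_mm (w := 49) (j := 3) (by decide +kernel)
theorem L08711 : Good (Phi V5.P V5.D (-1) (-1)) ⟨5, 28, 3, 4, 5, 18, 4, 8, 6, 28⟩ :=
  leafX_sound T5.ok_mm T5.Ymm.bz_eq (w := 279) (c := ⟨⟨.negSucc 1736, .negSucc 121, .negSucc 126, .negSucc 233, .negSucc 208, .negSucc 160⟩, ⟨.ofNat 995, .ofNat 134, .ofNat 186, .ofNat 152, .ofNat 139, .ofNat 105⟩, ⟨.ofNat 585, .negSucc 502, .negSucc 804, .negSucc 1796, .negSucc 1731, .negSucc 1527⟩, ⟨.negSucc 2656, .negSucc 12, .negSucc 81, .negSucc 154, .negSucc 46, .negSucc 68⟩, ⟨.negSucc 240, .ofNat 81, .ofNat 135, .ofNat 281, .ofNat 397, .ofNat 254⟩, .ofNat 2038, .ofNat 2784, .ofNat 0, .ofNat 2784, .ofNat 4594, .ofNat 0, .ofNat 128, .negSucc 1180, .ofNat 1298, .ofNat 0, .ofNat 818, .negSucc 862, .ofNat 0, .ofNat 0, .ofNat 13168, .ofNat 62439, .ofNat 1103406598136759750815869674249386795271052588679926900588544,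 .ofNat 3686187858773434905326919922680261525518395105328070918144, .ofNat 3718940824696803874027014468344454261244850551736238080, .ofNat 0, .ofNat 2318425667647785108455135131880824391366942277156937358376960, .ofNat 8664699158098526110302744922505050948165956386339904552960, .ofNat 330984101254242660547349153452605562657225866743688200192, .ofNat 0, .ofNat 23396581905176545455724856784451963052160214511535650506801152, .ofNat 325777008158928565296365634986557825543639358915499817697280, .ofNat 799172167025521864514796470885150612371046607783941111808, .ofNat 0, .ofNat 218189880381907557810004035498637895728077575089380128618184704, .ofNat 3316341696600557755216361199220609187602874667879902100848640, .ofNat 1669542031683625857085412545569708045778443748676561010688, .ofNat 0⟩)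
    (by decide +kernel)
theorem L08712 : Good (Phi V5.P V5.D (-1) (-1)) ⟨5, 28, 4, 10, 5, 18, 5, 16, 6, 28⟩ :=
  leafX_sound T5.ok_mm T5.Ymm.bz_eq (w := 285) (c := ⟨⟨.negSucc 1794, .negSucc 247, .negSucc 0, .negSucc 296, .negSucc 137, .negSucc 195⟩, ⟨.ofNat 1136, .ofNat 210, .ofNat 59, .ofNat 196, .ofNat 92, .ofNat 130⟩, ⟨.ofNat 88, .negSucc 744, .negSucc 301, .negSucc 2182, .negSucc 1059, .negSucc 1791⟩, ⟨.negSucc 2708, .negSucc 142, .ofNat 28, .negSucc 166, .negSucc 29, .negSucc 74⟩, ⟨.negSucc 232, .ofNat 269, .negSucc 31, .ofNat 392, .ofNat 258, .ofNat 321⟩, .ofNat 393, .ofNat 301, .ofNat 0, .ofNat 301, .ofNat 646, .ofNat 0, .ofNat 128, .negSucc 341, .ofNat 756, .ofNat 0, .ofNat 344, .negSucc 602, .ofNat 0, .ofNat 0, .ofNat 6593, .ofNat 51263, .ofNat 59298532664153940234358534368990893360239488053025644258263040, .ofNat 45849578735137523230858056087949132559815992998922085728256, .ofNat 225930805660337766183386541279323397213405594357214478336,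 .ofNat 291954829206129048253368686902661119388216600492670908884022460416, .ofNat 57881967201730800551445132386065201994638600664152316418457600, .ofNat 194144693843822331635885811900212655658848582316584777809920, .ofNat 954137993644500056803993883963739546904280299095642341376, .ofNat 0, .ofNat 339722309078856059202502650355004423384968871955547432861827072, .ofNat 1011699839636337902555010426158853345932995322777956639571968, .ofNat 8508045885616871307830991127591010781183238570639401943040, .ofNat 0, .ofNat 3729768957887853712709568804045762689468115091468125481876848640, .ofNat 24659242677164622241679670843754371713236455131122191000666112, .ofNat 13741206438305652473584145241691603358851243551465737814016, .ofNat 0⟩)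
    (by decide +kernel)
theorem L08713 : Good (Phi V5.P V5.D (-1) (-1)) ⟨5, 28, 4, 10, 5, 18, 5, 17, 6, 28⟩ :=
  leafX_sound T5.ok_mm T5.Ymm.bz_eq (w := 286) (c := ⟨⟨.negSucc 1979, .ofNat 96, .negSucc 212, .negSucc 338, .negSucc 147, .negSucc 244⟩, ⟨.ofNat 1256, .negSucc 6, .ofNat 193, .ofNat 224, .ofNat 98, .ofNat 162⟩, ⟨.negSucc 989, .ofNat 106, .negSucc 907, .negSucc 2425, .negSucc 1131, .negSucc 2073⟩, ⟨.negSucc 2774, .ofNat 93, .negSucc 108, .negSucc 193, .negSucc 32, .negSucc 102⟩, ⟨.ofNat 70, .negSucc 81, .ofNat 190, .ofNat 432, .ofNat 268, .ofNat 368⟩, .ofNat 921, .ofNat 1045, .ofNat 0, .ofNat 1045, .ofNat 1801, .ofNat 0, .ofNat 128, .negSucc 840, .ofNat 1332, .ofNat 0, .ofNat 653, .negSucc 945, .ofNat 0, .ofNat 0, .ofNat 10209, .ofNat 48069, .ofNat 18259267479231860643917037530717360841753091108516550315868160, .ofNat 140017891762667199013453450998917249411055393386381849919488, .ofNat 105673948595668550982019897566945271148034122158188789760,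 .ofNat 1641287153650229267793293767505848148485608625521704993579597824, .ofNat 0, .ofNat 378253824539843854882916344279543079258912389981453275889664, .ofNat 4089472736109178696876503840349996327382450818004597866496, .ofNat 0, .ofNat 0, .ofNat 5999486436687920603178785771628161452261205859425248633421824, .ofNat 41027135732775402473351752568908603486972288579937929003008, .ofNat 0, .ofNat 0, .ofNat 75826321481646299982963924606531400211166633830158370735128576, .ofNat 53158595452633837134253781650798844408162762710955883233280, .ofNat 2175508780811606706027132181465986842683018227332462111335655669760⟩)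
    (by decide +kernel)
theorem L08714 : Good (Phi V5.P V5.D (-1) (-1)) ⟨6, 56, 4, 11, 5, 18, 4, 8, 6, 28⟩ :=
  out_sound (S := T5.ds_mm) T5.ok_mm (w := 65) (j := 3) (by decide +kernel)
theorem L08715 : Good (Phi V5.P V5.D (-1) (-1)) ⟨7, 114, 5, 22, 5, 18, 4, 8, 6, 28⟩ :=
  out_sound (S := T5.ds_mm) T5.ok_mm (w := 73) (j := 3) (by decide +kernel)
theorem L08716 : Good (Phi V5.P V5.D (-1) (-1)) ⟨7, 115, 5, 22, 5, 18, 4, 8, 6, 28⟩ :=
  out_sound (S := T5.ds_mm) T5.ok_mm (w := 21) (j := 4) (by decide +kernel)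
theorem L08717 : Good (Phi V5.P V5.D (-1) (-1)) ⟨6, 57, 5, 23, 5, 18, 4, 8, 6, 28⟩ :=
  out_sound (S := T5.ds_mm) T5.ok_mm (w := 67) (j := 3) (by decide +kernel)
theorem L08718 : Good (Phi V5.P V5.D (-1) (-1)) ⟨5, 29, 2, 2, 5, 18, 4, 8, 6, 28⟩ :=
  out_sound (S := T5.ds_mm) T5.ok_mm (w := 17) (j := 4) (by decide +kernel)
theorem L08719 : Good (Phi V5.P V5.D (-1) (-1)) ⟨4, 15, 2, 2, 5, 18, 4, 8, 6, 28⟩ :=
  out_sound (S := T5.ds_mm) T5.ok_mm (w := 49) (j := 3) (by decide +kernel)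
theorem L08720 : Good (Phi V5.P V5.D (-1) (-1)) ⟨3, 7, 2, 2, 5, 18, 4, 9, 6, 28⟩ :=
  leafX_sound T5.ok_mm T5.Ymm.bz_eq (w := 267) (c := ⟨⟨.negSucc 1838, .negSucc 384, .negSucc 495, .ofNat 1, .negSucc 288, .negSucc 254⟩, ⟨.ofNat 1071, .ofNat 523, .ofNat 510, .negSucc 0, .ofNat 195, .ofNat 171⟩, ⟨.negSucc 618, .negSucc 1708, .negSucc 2826, .ofNat 2, .negSucc 1820, .negSucc 1954⟩, ⟨.negSucc 2675, .negSucc 100, .negSucc 210, .ofNat 1, .negSucc 66, .negSucc 112⟩, ⟨.ofNat 64, .ofNat 329, .ofNat 478, .ofNat 0, .ofNat 597, .ofNat 423⟩, .ofNat 388, .ofNat 294, .ofNat 0, .ofNat 294, .ofNat 645, .ofNat 0, .ofNat 128, .negSucc 707, .ofNat 1005, .ofNat 0, .ofNat 709, .negSucc 821, .ofNat 0, .ofNat 0, .ofNat 9355, .ofNat 26299, .ofNat 0, .ofNat 5661893861365484748058796264986828822040496903529955328, .ofNat 15554162348165888338115381229570243162987398457899089920, .ofNat 0, .ofNat 0, .ofNat 13614181578417031231880935252989421037843397739653627904,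 .ofNat 147250354811222123096353381835720515099947643296278380544, .ofNat 35588600876307172563263602014962287563276034503301439380520960, .ofNat 0, .ofNat 230195595142127081533994721222120342035426054716159688704, .ofNat 847154141882246345638542792642543956753894885491413614592, .ofNat 0, .ofNat 0, .ofNat 1842539471184000188776811083331102840701676055878262849536, .ofNat 1779195343348415302318085163658100211457572663570586402816, .ofNat 0⟩)
    (by decide +kernel)
theorem L08721 : Good (Phi V5.P V5.D (-1) (-1)) ⟨3, 7, 2, 2, 5, 19, 3, 4, 6, 28⟩ :=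
  out_sound (S := T5.ds_mm) T5.ok_mm (w := 42) (j := 2) (by decide +kernel)
theorem L08722 : Good (Phi V5.P V5.D (-1) (-1)) ⟨3, 7, 2, 2, 6, 36, 5, 16, 6, 29⟩ :=
  out_sound (S := T5.ds_mm) T5.ok_mm (w := 39) (j := 1) (by decide +kernel)
theorem L08723 : Good (Phi V5.P V5.D (-1) (-1)) ⟨3, 7, 2, 2, 6, 36, 5, 17, 6, 29⟩ :=
  out_sound (S := T5.ds_mm) T5.ok_mm (w := 48) (j := 2) (by decide +kernel)
theorem L08724 : Good (Phi V5.P V5.D (-1) (-1)) ⟨3, 7, 2, 2, 6, 37, 4, 8, 6, 29⟩ :=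
  out_sound (S := T5.ds_mm) T5.ok_mm (w := 46) (j := 2) (by decide +kernel)
theorem L08725 : Good (Phi V5.P V5.D (-1) (-1)) ⟨3, 7, 2, 2, 5, 18, 4, 9, 6, 29⟩ :=
  out_sound (S := T5.ds_mm) T5.ok_mm (w := 44) (j := 2) (by decide +kernel)
theorem L08726 : Good (Phi V5.P V5.D (-1) (-1)) ⟨3, 7, 2, 2, 5, 19, 3, 4, 6, 29⟩ :=
  out_sound (S := T5.ds_mm) T5.ok_mm (w := 42) (j := 2) (by decide +kernel)
theorem L08727 : Good (Phi V5.P V5.D (-1) (-1)) ⟨4, 14, 3, 4, 5, 16, 4, 10, 6, 28⟩ :=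
  leafX_sound T5.ok_mm T5.Ymm.bz_eq (w := 272) (c := ⟨⟨.negSucc 1601, .ofNat 54, .negSucc 246, .negSucc 217, .negSucc 175, .negSucc 113⟩, ⟨.ofNat 931, .ofNat 90, .ofNat 243, .ofNat 142, .ofNat 117, .ofNat 75⟩, ⟨.ofNat 1096, .ofNat 393, .negSucc 1367, .negSucc 1749, .negSucc 1637, .negSucc 1220⟩, ⟨.negSucc 2444, .ofNat 154, .negSucc 126, .negSucc 95, .ofNat 40, .negSucc 11⟩, ⟨.negSucc 169, .negSucc 140, .ofNat 282, .ofNat 340, .ofNat 462, .ofNat 239⟩, .ofNat 847, .ofNat 953, .ofNat 0, .ofNat 953, .ofNat 1719, .ofNat 0, .ofNat 128, .negSucc 760, .ofNat 1063, .ofNat 0, .ofNat 585, .negSucc 771, .ofNat 0, .ofNat 0, .ofNat 11670, .ofNat 8391, .ofNat 0, .ofNat 65745412783200458566326737279846232539429548697252265984, .ofNat 9311714245211840361791421020876007653458304753035378688, .ofNat 0, .ofNat 0, .ofNat 219176765294954069886395929969552843473477341076397228032, .ofNat 253427262438776568103351093973038670727398705937495621632, .ofNat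 0, .ofNat 0, .ofNat 5590841511388397009098572416584815085208152240855034363904, .ofNat 380038524082801677694015579949443484824180243361723056128, .ofNat 0, .ofNat 0, .ofNat 82518376298224945969418019356071675499331193869681672847360, .ofNat 699126600824499116353361455737670702946861492382568808448, .ofNat 0⟩)
    (by decide +kernel)
theorem L08728 : Good (Phi V5.P V5.D (-1) (-1)) ⟨5, 28, 4, 10, 5, 16, 5, 20, 6, 28⟩ :=
  leafX_sound T5.ok_mm T5.Ymm.bz_eq (w := 283) (c := ⟨⟨.negSucc 1815, .ofNat 32, .negSucc 129, .negSucc 299, .negSucc 110, .negSucc 154⟩, ⟨.ofNat 1150, .ofNat 45, .ofNat 126, .ofNat 198, .ofNat 74, .ofNat 102⟩, ⟨.ofNat 21, .negSucc 5, .negSucc 571, .negSucc 2275, .negSucc 978, .negSucc 1526⟩, ⟨.negSucc 2554, .ofNat 64, .negSucc 53, .negSucc 132, .ofNat 14, .negSucc 31⟩, ⟨.ofNat 56, .negSucc 93, .ofNat 163, .ofNat 456, .ofNat 272, .ofNat 297⟩, .ofNat 393, .ofNat 301, .ofNat 0, .ofNat 301, .ofNat 646, .ofNat 0, .ofNat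 128, .negSucc 355, .ofNat 669, .ofNat 0, .ofNat 353, .negSucc 573, .ofNat 0, .ofNat 0, .ofNat 6302, .ofNat 10097, .ofNat 0, .ofNat 18347216344026843183301471375802984369990068858003904266240, .ofNat 39996269891371641984479979598125415180916413341294919680, .ofNat 41272280117420016170028391805908433225429942674254631135378145280, .ofNat 0, .ofNat 69567545824524127597934581489945124125371561262280683290624, .ofNat 439591292398799949016032781221291409007066022229550563328, .ofNat 0, .ofNat 0, .ofNat 414011432596687709731912471653198192134059832659358800412672, .ofNat 6559413816068659030006568724891575477991107581810191630336, .ofNat 2756170517311724412240892284554826621209628381581689846785814560768, .ofNat 0, .ofNat 16220839023931331862447039712914015177573718576158690749972480, .ofNat 71026337260434928424088082568138311931332491253500155527168, .ofNat 0⟩)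
    (by decide +kernel)
theorem L08729 : Good (Phi V5.P V5.D (-1) (-1)) ⟨5, 28, 4, 10, 5, 16, 5, 21, 6, 28⟩ :=
  leafX_sound T5.ok_mm T5.Ymm.bz_eq (w := 284) (c := ⟨⟨.negSucc 1915, .ofNat 125, .negSucc 206, .negSucc 293, .negSucc 117, .negSucc 186⟩, ⟨.ofNat 1217, .negSucc 17, .ofNat 177, .ofNat 195, .ofNat 78, .ofNat 124⟩, ⟨.negSucc 854, .ofNat 254, .negSucc 856, .negSucc 2147, .negSucc 980, .negSucc 1690⟩, ⟨.negSucc 2535, .ofNat 93, .negSucc 75, .negSucc 126, .ofNat 15, .negSucc 44⟩, ⟨.ofNat 293, .negSucc 103, .ofNat 194, .ofNat 440, .ofNat 274, .ofNat 336⟩, .ofNat 901, .ofNat 1020, .ofNat 0, .ofNat 1020, .ofNat 1781, .ofNat 0, .ofNat 128, .negSucc 940, .ofNat 1718, .ofNat 0, .ofNat 724, .negSucc 1262, .ofNat 0, .ofNat 0, .ofNat 17599, .ofNat 16979, .ofNat 0, .ofNat 170489503441378280757846025950821275465403592928733375234048, .ofNat 0, .ofNat 0, .ofNat 0, .ofNat 520204928556014287350526508836775722239056598578206634672128,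 .ofNat 5270782196721197551661684803066263366754914336095938281472, .ofNat 272124636647744160500197010465841572124375762944895319836786163712, .ofNat 0, .ofNat 9674210248084961408847098774092894273747292134077259283693568, .ofNat 23901156522632494904832007982151162132555752521533828890624, .ofNat 0, .ofNat 0, .ofNat 141735063877894677906386787747421961200797043297084652459655168, .ofNat 0, .ofNat 0⟩)
    (by decide +kernel)
theorem L08730 : Good (Phi V5.P V5.D (-1) (-1)) ⟨5, 29, 4, 10, 5, 16, 4, 10, 6, 28⟩ :=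
  out_sound (S := T5.ds_mm) T5.ok_mm (w := 59) (j := 3) (by decide +kernel)
theorem L08731 : Good (Phi V5.P V5.D (-1) (-1)) ⟨6, 56, 4, 11, 5, 16, 4, 10, 6, 28⟩ :=
  out_sound (S := T5.ds_mm) T5.ok_mm (w := 65) (j := 3) (by decide +kernel)
theorem L08732 : Good (Phi V5.P V5.D (-1) (-1)) ⟨7, 114, 5, 22, 5, 16, 4, 10, 6, 28⟩ :=
  out_sound (S := T5.ds_mm) T5.ok_mm (w := 73) (j := 3) (by decide +kernel)
theorem L08733 : Good (Phi V5.P V5.D (-1) (-1)) ⟨7, 115, 5, 22, 5, 16, 4, 10, 6, 28⟩ :=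
  out_sound (S := T5.ds_mm) T5.ok_mm (w := 21) (j := 4) (by decide +kernel)
theorem L08734 : Good (Phi V5.P V5.D (-1) (-1)) ⟨6, 57, 5, 23, 5, 16, 4, 10, 6, 28⟩ :=
  out_sound (S := T5.ds_mm) T5.ok_mm (w := 67) (j := 3) (by decide +kernel)
theorem L08735 : Good (Phi V5.P V5.D (-1) (-1)) ⟨5, 29, 4, 11, 5, 16, 4, 10, 6, 28⟩ :=
  out_sound (S := T5.ds_mm) T5.ok_mm (w := 17) (j := 4) (by decide +kernel)
theorem L08736 : Good (Phi V5.P V5.D (-1) (-1)) ⟨5, 28, 3, 4, 6, 32, 5, 20, 7, 58⟩ :=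
  leafX_sound T5.ok_mm T5.Ymm.bz_eq (w := 302) (c := ⟨⟨.negSucc 1801, .negSucc 168, .negSucc 96, .negSucc 172, .negSucc 138, .negSucc 113⟩, ⟨.ofNat 1064, .ofNat 178, .ofNat 140, .ofNat 113, .ofNat 92, .ofNat 75⟩, ⟨.negSucc 403, .negSucc 888, .negSucc 667, .negSucc 1380, .negSucc 1221, .negSucc 1071⟩, ⟨.negSucc 2511, .negSucc 28, .negSucc 37, .negSucc 83, .negSucc 7, .negSucc 38⟩, ⟨.ofNat 154, .ofNat 158, .ofNat 113, .ofNat 257, .ofNat 300, .ofNat 196⟩, .ofNat 849, .ofNat 955, .ofNat 0, .ofNat 955, .ofNat 1722, .ofNat 0, .ofNat 128, .negSucc 514, .ofNat 1083, .ofNat 0, .ofNat 396, .negSucc 778, .ofNat 0, .ofNat 0, .ofNat 11352, .ofNat 93351, .ofNat 0, .ofNat 0, .ofNat 0, .ofNat 0, .ofNat 0, .ofNat 1809506506135054207024221770152952351674515238898621067485511680, .ofNat 460162064813993694605878880591698017843254222920964738643918848, .ofNat 0, .ofNat 0, .ofNat 15561020058504641697809724515696822209665805567863474351660597248, .ofNat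 3349494030784023346966443979730629946425135832034270071188619264, .ofNat 0, .ofNat 0, .ofNat 274367639180695594497610004819612924785755693940418448310541484032, .ofNat 9327853644653970497136191665081452086690743753326081624942575616, .ofNat 0⟩)
    (by decide +kernel)
theorem L08737 : Good (Phi V5.P V5.D (-1) (-1)) ⟨5, 28, 4, 10, 6, 32, 6, 40, 7, 58⟩ :=
  leafX_sound T5.ok_mm T5.Ymm.bz_eq (w := 310) (c := ⟨⟨.negSucc 1858, .negSucc 55, .negSucc 188, .negSucc 253, .negSucc 104, .negSucc 181⟩, ⟨.ofNat 1178, .ofNat 97, .ofNat 171, .ofNat 170, .ofNat 70, .ofNat 122⟩, ⟨.negSucc 745, .negSucc 401, .negSucc 1135, .negSucc 1907, .negSucc 848, .negSucc 1570⟩, ⟨.negSucc 2522, .negSucc 6, .negSucc 58, .negSucc 131, .negSucc 20, .negSucc 73⟩, ⟨.ofNat 211, .ofNat 73, .ofNat 203, .ofNat 342, .ofNat 191, .ofNat 273⟩, .ofNat 2476, .ofNat 3379, .ofNat 0, .ofNat 3379, .ofNat 5362, .ofNat 0, .ofNat 128, .negSucc 1043, .ofNat 2793, .ofNat 0, .ofNat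 728, .negSucc 1906, .ofNat 0, .ofNat 0, .ofNat 27104, .ofNat 108837, .ofNat 26121356060217869570704259828496541080574128379610321732786917998592, .ofNat 23663296868954224951343147501772443905226823674413489444676960256, .ofNat 936357846621550118907385920069333359053384525662062958878916608, .ofNat 1596720559645670516555715975890093420924248987525228198552184526041251840, .ofNat 0, .ofNat 62368399995204181315193554394291634313723853018843614974811570176, .ofNat 124982904576849609914228603274827162005085021200806003769652281344, .ofNat 0, .ofNat 0, .ofNat 1327126232194987616217339043893654806852577552974717741552269000704, .ofNat 588440763173729693409401381501471749998309435486800012219131101184, .ofNat 0, .ofNat 0, .ofNat 41633000038443789038462235343039550986083244949578814110271908347904, .ofNat 9959613282157533058022760672068227558822803425729277372987825192960, .ofNat 0⟩)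
    (by decide +kernel)
theorem L08738 : Good (Phi V5.P V5.D (-1) (-1)) ⟨5, 28, 4, 10, 6, 32, 6, 41, 7, 58⟩ :=
  leafX_sound T5.ok_mm T5.Ymm.bz_eq (w := 310) (c := ⟨⟨.negSucc 1981, .ofNat 20, .negSucc 221, .negSucc 257, .negSucc 89, .negSucc 189⟩, ⟨.ofNat 1259, .ofNat 57, .ofNat 187, .ofNat 170, .ofNat 59, .ofNat 126⟩, ⟨.negSucc 1675, .negSucc 92, .negSucc 1250, .negSucc 1904, .negSucc 720, .negSucc 1602⟩, ⟨.negSucc 2568, .ofNat 91, .negSucc 110, .negSucc 119, .negSucc 9, .negSucc 71⟩, ⟨.ofNat 461, .negSucc 241, .ofNat 363, .ofNat 395, .ofNat 192, .ofNat 308⟩, .ofNat 391, .ofNat 298, .ofNat 0, .ofNat 298, .ofNat 646, .ofNat 0, .ofNat 128, .negSucc 352, .ofNat 996, .ofNat 0, .ofNat 352, .negSucc 857, .ofNat 0, .ofNat 0, .ofNat 9754, .ofNat 85520, .ofNat 0, .ofNat 0, .ofNat 0, .ofNat 0, .ofNat 0, .ofNat 110791144055496579377970849157248603278214518039096950209833336832, .ofNat 5323320680793189988736790592612464780114590513002753271233773568,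 .ofNat 0, .ofNat 0, .ofNat 628179444000302065597158085445595034403960613884571786919190462464, .ofNat 130886486008018579327705371251119655040171723380250648043268866048, .ofNat 0, .ofNat 0, .ofNat 11930007292014929839915228386808932187604583473097306755443965558784, .ofNat 328069501277481855239969479548084372075262936619962714430636032000, .ofNat 0⟩)
    (by decide +kernel)
theorem L08739 : Good (Phi V5.P V5.D (-1) (-1)) ⟨6, 56, 4, 11, 6, 32, 5, 20, 7, 58⟩ :=
  out_sound (S := T5.ds_mm) T5.ok_mm (w := 65) (j := 3) (by decide +kernel)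
theorem L08740 : Good (Phi V5.P V5.D (-1) (-1)) ⟨7, 114, 5, 22, 6, 32, 5, 20, 7, 58⟩ :=
  out_sound (S := T5.ds_mm) T5.ok_mm (w := 73) (j := 3) (by decide +kernel)
theorem L08741 : Good (Phi V5.P V5.D (-1) (-1)) ⟨7, 115, 5, 22, 6, 32, 5, 20, 7, 58⟩ :=
  out_sound (S := T5.ds_mm) T5.ok_mm (w := 21) (j := 4) (by decide +kernel)
theorem L08742 : Good (Phi V5.P V5.D (-1) (-1)) ⟨6, 57, 5, 23, 6, 32, 5, 20, 7, 58⟩ :=
  out_sound (S := T5.ds_mm) T5.ok_mm (w := 67) (j := 3) (by decide +kernel)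
theorem L08743 : Good (Phi V5.P V5.D (-1) (-1)) ⟨5, 28, 2, 2, 7, 64, 8, 160, 9, 236⟩ :=
  out_sound (S := T5.ds_mm) T5.ok_mm (w := 50) (j := 1) (by decide +kernel)
theorem L08744 : Good (Phi V5.P V5.D (-1) (-1)) ⟨5, 28, 2, 2, 8, 128, 8, 161, 9, 236⟩ :=
  out_sound (S := T5.ds_mm) T5.ok_mm (w := 52) (j := 1) (by decide +kernel)
theorem L08745 : Good (Phi V5.P V5.D (-1) (-1)) ⟨5, 28, 2, 2, 9, 258, 9, 322, 10, 472⟩ :=
  out_sound (S := T5.ds_mm) T5.ok_mm (w := 57) (j := 1) (by decide +kernel)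
theorem L08746 : Good (Phi V5.P V5.D (-1) (-1)) ⟨5, 28, 2, 2, 9, 258, 9, 323, 10, 472⟩ :=
  out_sound (S := T5.ds_mm) T5.ok_mm (w := 70) (j := 2) (by decide +kernel)
theorem L08747 : Good (Phi V5.P V5.D (-1) (-1)) ⟨5, 28, 2, 2, 9, 258, 8, 161, 10, 473⟩ :=
  out_sound (S := T5.ds_mm) T5.ok_mm (w := 56) (j := 1) (by decide +kernel)
theorem L08748 : Good (Phi V5.P V5.D (-1) (-1)) ⟨5, 28, 2, 2, 9, 259, 8, 161, 9, 236⟩ :=
  out_sound (S := T5.ds_mm) T5.ok_mm (w := 66) (j := 2) (by decide +kernel)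
theorem L08749 : Good (Phi V5.P V5.D (-1) (-1)) ⟨5, 28, 2, 2, 7, 64, 7, 80, 9, 237⟩ :=
  out_sound (S := T5.ds_mm) T5.ok_mm (w := 49) (j := 1) (by decide +kernel)
theorem L08750 : Good (Phi V5.P V5.D (-1) (-1)) ⟨5, 28, 2, 2, 9, 256, 9, 324, 10, 472⟩ :=
  out_sound (S := T5.ds_mm) T5.ok_mm (w := 57) (j := 1) (by decide +kernel)
theorem L08751 : Good (Phi V5.P V5.D (-1) (-1)) ⟨5, 28, 2, 2, 9, 257, 9, 324, 10, 472⟩ :=
  out_sound (S := T5.ds_mm) T5.ok_mm (w := 70) (j := 2) (by decide +kernel)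
theorem L08752 : Good (Phi V5.P V5.D (-1) (-1)) ⟨5, 28, 2, 2, 10, 512, 10, 650, 11, 944⟩ :=
  out_sound (S := T5.ds_mm) T5.ok_mm (w := 62) (j := 1) (by decide +kernel)
theorem L08753 : Good (Phi V5.P V5.D (-1) (-1)) ⟨5, 28, 2, 2, 10, 513, 10, 650, 11, 944⟩ :=
  out_sound (S := T5.ds_mm) T5.ok_mm (w := 76) (j := 2) (by decide +kernel)
theorem L08754 : Good (Phi V5.P V5.D (-1) (-1)) ⟨5, 28, 2, 2, 10, 512, 11, 1302, 12, 1888⟩ :=
  out_sound (S := T5.ds_mm) T5.ok_mm (w := 65) (j := 1) (by decide +kernel)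
theorem L08755 : Good (Phi V5.P V5.D (-1) (-1)) ⟨5, 28, 2, 2, 11, 1024, 11, 1303, 12, 1888⟩ :=
  out_sound (S := T5.ds_mm) T5.ok_mm (w := 67) (j := 1) (by decide +kernel)
theorem L08756 : Good (Phi V5.P V5.D (-1) (-1)) ⟨5, 28, 2, 2, 11, 1025, 11, 1303, 12, 1888⟩ :=
  out_sound (S := T5.ds_mm) T5.ok_mm (w := 82) (j := 2) (by decide +kernel)
theorem L08757 : Good (Phi V5.P V5.D (-1) (-1)) ⟨5, 28, 2, 2, 10, 512, 10, 651, 12, 1889⟩ :=
  out_sound (S := T5.ds_mm) T5.ok_mm (w := 64) (j := 1) (by decide +kernel)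
theorem L08758 : Good (Phi V5.P V5.D (-1) (-1)) ⟨5, 28, 2, 2, 10, 513, 10, 651, 11, 944⟩ :=
  out_sound (S := T5.ds_mm) T5.ok_mm (w := 76) (j := 2) (by decide +kernel)
theorem L08759 : Good (Phi V5.P V5.D (-1) (-1)) ⟨5, 28, 2, 2, 9, 256, 9, 325, 11, 945⟩ :=
  out_sound (S := T5.ds_mm) T5.ok_mm (w := 59) (j := 1) (by decide +kernel)
theorem L08760 : Good (Phi V5.P V5.D (-1) (-1)) ⟨5, 28, 2, 2, 9, 257, 9, 325, 10, 472⟩ :=
  out_sound (S := T5.ds_mm) T5.ok_mm (w := 70) (j := 2) (by decide +kernel)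
theorem L08761 : Good (Phi V5.P V5.D (-1) (-1)) ⟨5, 28, 2, 2, 8, 128, 8, 162, 10, 473⟩ :=
  out_sound (S := T5.ds_mm) T5.ok_mm (w := 54) (j := 1) (by decide +kernel)
theorem L08762 : Good (Phi V5.P V5.D (-1) (-1)) ⟨5, 28, 2, 2, 8, 128, 8, 163, 9, 236⟩ :=
  out_sound (S := T5.ds_mm) T5.ok_mm (w := 64) (j := 2) (by decide +kernel)
theorem L08763 : Good (Phi V5.P V5.D (-1) (-1)) ⟨5, 28, 2, 2, 8, 128, 7, 81, 9, 237⟩ :=
  out_sound (S := T5.ds_mm) T5.ok_mm (w := 62) (j := 2) (by decide +kernel)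
theorem L08764 : Good (Phi V5.P V5.D (-1) (-1)) ⟨5, 28, 2, 2, 8, 129, 7, 81, 8, 118⟩ :=
  out_sound (S := T5.ds_mm) T5.ok_mm (w := 60) (j := 2) (by decide +kernel)
theorem L08765 : Good (Phi V5.P V5.D (-1) (-1)) ⟨5, 28, 2, 2, 7, 64, 6, 40, 8, 119⟩ :=
  out_sound (S := T5.ds_mm) T5.ok_mm (w := 46) (j := 1) (by decide +kernel)
theorem L08766 : Good (Phi V5.P V5.D (-1) (-1)) ⟨5, 28, 2, 2, 7, 65, 6, 40, 7, 59⟩ :=
  out_sound (S := T5.ds_mm) T5.ok_mm (w := 54) (j := 2) (by decide +kernel)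
theorem L08767 : Good (Phi V5.P V5.D (-1) (-1)) ⟨5, 28, 2, 2, 6, 32, 6, 41, 7, 59⟩ :=
  out_sound (S := T5.ds_mm) T5.ok_mm (w := 52) (j := 2) (by decide +kernel)
theorem L08768 : Good (Phi V5.P V5.D (-1) (-1)) ⟨5, 29, 2, 2, 6, 32, 5, 20, 6, 29⟩ :=
  out_sound (S := T5.ds_mm) T5.ok_mm (w := 17) (j := 4) (by decide +kernel)
theorem L08769 : Good (Phi V5.P V5.D (-1) (-1)) ⟨4, 14, 2, 2, 6, 33, 5, 20, 6, 29⟩ :=
  out_sound (S := T5.ds_mm) T5.ok_mm (w := 48) (j := 2) (by decide +kernel)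
theorem L08770 : Good (Phi V5.P V5.D (-1) (-1)) ⟨4, 14, 2, 2, 5, 16, 5, 21, 6, 29⟩ :=
  out_sound (S := T5.ds_mm) T5.ok_mm (w := 46) (j := 2) (by decide +kernel)
theorem L08771 : Good (Phi V5.P V5.D (-1) (-1)) ⟨4, 15, 2, 2, 5, 16, 4, 10, 5, 14⟩ :=
  out_sound (S := T5.ds_mm) T5.ok_mm (w := 49) (j := 3) (by decide +kernel)
theorem L08772 : Good (Phi V5.P V5.D (-1) (-1)) ⟨3, 7, 2, 2, 5, 17, 4, 10, 5, 14⟩ :=
  leafX_sound T5.ok_mm T5.Ymm.bz_eq (w := 262) (c := ⟨⟨.negSucc 1807, .negSucc 326, .negSucc 475, .ofNat 1, .negSucc 323, .ofNat 1⟩, ⟨.ofNat 1060, .ofNat 484, .ofNat 482, .negSucc 0, .ofNat 224, .negSucc 0⟩, ⟨.negSucc 560, .negSucc 1520, .negSucc 2669, .ofNat 2, .negSucc 2046, .ofNat 2⟩, ⟨.negSucc 2567, .negSucc 53, .negSucc 161, .ofNat 1, .negSucc 47, .ofNat 1⟩, ⟨.ofNat 177, .ofNat 287, .ofNat 483, .ofNat 0, .ofNat 676, .ofNat 0⟩, .ofNat 387, .ofNat 292, .ofNat 0, .ofNat 292, .ofNat 645, .ofNat 0, .ofNat 128, .negSucc 562,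 .ofNat 998, .ofNat 0, .ofNat 561, .negSucc 850, .ofNat 0, .ofNat 0, .ofNat 9794, .ofNat 24784, .ofNat 0, .ofNat 660440403828604796079122419514199174166051332793827328, .ofNat 0, .ofNat 0, .ofNat 0, .ofNat 1566304039261439031871437940997843981763185925716705280, .ofNat 4543653711702745583023048342570761421717203886475837440, .ofNat 1389611176768159625870602087366130700055149051438784040665088, .ofNat 0, .ofNat 19484274530381148707209150627481691863876040302828453888, .ofNat 11823566397653957461871455103389546214605045342423482368, .ofNat 22580381460647049302419087490180708205756287166485565391503360, .ofNat 0, .ofNat 260196939565748066235613193542187626649349227906309554176, .ofNat 0, .ofNat 113881089569609237830718577673511301270649965862762569128738816⟩)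
    (by decide +kernel)
theorem L08773 : Good (Phi V5.P V5.D (-1) (-1)) ⟨3, 7, 2, 2, 4, 8, 4, 11, 5, 14⟩ :=
  out_sound (S := T5.ds_mm) T5.ok_mm (w := 40) (j := 2) (by decide +kernel)
theorem L08774 : Good (Phi V5.P V5.D (-1) (-1)) ⟨3, 7, 2, 2, 4, 9, 3, 5, 5, 14⟩ :=
  out_sound (S := T5.ds_mm) T5.ok_mm (w := 38) (j := 2) (by decide +kernel)
theorem L08775 : Good (Phi V5.P V5.D (-1) (-1)) ⟨3, 7, 2, 2, 4, 8, 4, 8, 5, 15⟩ :=
  out_sound (S := T5.ds_mm) T5.ok_mm (w := 32) (j := 1) (by decide +kernel)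
theorem L08776 : Good (Phi V5.P V5.D (-1) (-1)) ⟨3, 7, 2, 2, 5, 16, 4, 9, 6, 30⟩ :=
  out_sound (S := T5.ds_mm) T5.ok_mm (w := 36) (j := 1) (by decide +kernel)
theorem L08777 : Good (Phi V5.P V5.D (-1) (-1)) ⟨3, 7, 2, 2, 5, 17, 4, 9, 6, 30⟩ :=
  out_sound (S := T5.ds_mm) T5.ok_mm (w := 44) (j := 2) (by decide +kernel)
theorem L08778 : Good (Phi V5.P V5.D (-1) (-1)) ⟨3, 7, 2, 2, 4, 8, 4, 9, 6, 31⟩ :=
  out_sound (S := T5.ds_mm) T5.ok_mm (w := 34) (j := 1) (by decide +kernel)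
theorem L08779 : Good (Phi V5.P V5.D (-1) (-1)) ⟨3, 7, 2, 2, 4, 8, 3, 5, 5, 15⟩ :=
  out_sound (S := T5.ds_mm) T5.ok_mm (w := 38) (j := 2) (by decide +kernel)
theorem L08780 : Good (Phi V5.P V5.D (-1) (-1)) ⟨3, 7, 2, 2, 4, 9, 2, 2, 5, 15⟩ :=
  out_sound (S := T5.ds_mm) T5.ok_mm (w := 36) (j := 2) (by decide +kernel)
theorem L08781 : Good (Phi V5.P V5.D (-1) (-1)) ⟨3, 7, 2, 2, 3, 5, 2, 2, 4, 7⟩ :=
  out_sound (S := T5.ds_mm) T5.ok_mm (w := 32) (j := 2) (by decide +kernel)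
theorem L08782 : Good (Phi V5.P V5.D (-1) (-1)) ⟨3, 7, 2, 2, 2, 2, 2, 3, 4, 7⟩ :=
  out_sound (S := T5.ds_mm) T5.ok_mm (w := 30) (j := 2) (by decide +kernel)
theorem L08783 : Good (Phi V5.P V5.D (-1) (-1)) ⟨2, 2, 2, 3, 2, 2, 1, 1, 3, 3⟩ :=
  out_sound (S := T5.ds_mm) T5.ok_mm (w := 37) (j := 3) (by decide +kernel)
theorem L08784 : Good (Phi V5.P V5.D (-1) (-1)) ⟨3, 6, 2, 3, 2, 2, 1, 1, 3, 3⟩ :=
  out_sound (S := T5.ds_mm) T5.ok_mm (w := 43) (j := 3) (by decide +kernel)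
theorem L08785 : Good (Phi V5.P V5.D (-1) (-1)) ⟨5, 28, 3, 6, 2, 2, 1, 1, 3, 3⟩ :=
  out_sound (S := T5.ds_mm) T5.ok_mm (w := 57) (j := 3) (by decide +kernel)
theorem L08786 : Good (Phi V5.P V5.D (-1) (-1)) ⟨5, 29, 3, 6, 2, 2, 1, 1, 3, 3⟩ :=
  out_sound (S := T5.ds_mm) T5.ok_mm (w := 17) (j := 4) (by decide +kernel)
theorem L08787 : Good (Phi V5.P V5.D (-1) (-1)) ⟨4, 14, 3, 7, 2, 2, 1, 1, 3, 3⟩ :=
  out_sound (S := T5.ds_mm) T5.ok_mm (w := 51) (j := 3) (by decide +kernel)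
theorem L08788 : Good (Phi V5.P V5.D (-1) (-1)) ⟨4, 15, 2, 3, 2, 2, 1, 1, 3, 3⟩ :=
  out_sound (S := T5.ds_mm) T5.ok_mm (w := 15) (j := 4) (by decide +kernel)
theorem L08789 : Good (Phi V5.P V5.D (-1) (-1)) ⟨1, 1, 1, 1, 2, 3, 1, 1, 3, 3⟩ :=
  out_sound (S := T5.ds_mm) T5.ok_mm (w := 26) (j := 2) (by decide +kernel)
theorem L08790 : Good (Phi V5.P V5.D (-1) (-1)) ⟨1, 1, 1, 1, 4, 8, 3, 4, 4, 8⟩ :=
  out_sound (S := T5.ds_mm) T5.ok_mm (w := 29) (j := 1) (by decide +kernel)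
theorem L08791 : Good (Phi V5.P V5.D (-1) (-1)) ⟨1, 1, 1, 1, 4, 8, 3, 5, 4, 8⟩ :=
  out_sound (S := T5.ds_mm) T5.ok_mm (w := 36) (j := 2) (by decide +kernel)
theorem L08792 : Good (Phi V5.P V5.D (-1) (-1)) ⟨1, 1, 1, 1, 4, 8, 2, 2, 4, 9⟩ :=
  out_sound (S := T5.ds_mm) T5.ok_mm (w := 28) (j := 1) (by decide +kernel)
theorem L08793 : Good (Phi V5.P V5.D (-1) (-1)) ⟨1, 1, 1, 1, 4, 9, 2, 2, 3, 4⟩ :=
  out_sound (S := T5.ds_mm) T5.ok_mm (w := 32) (j := 2) (by decide +kernel)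
theorem L08794 : Good (Phi V5.P V5.D (-1) (-1)) ⟨1, 1, 1, 1, 3, 4, 2, 3, 3, 4⟩ :=
  out_sound (S := T5.ds_mm) T5.ok_mm (w := 30) (j := 2) (by decide +kernel)
theorem L08795 : Good (Phi V5.P V5.D (-1) (-1)) ⟨1, 1, 1, 1, 3, 4, 1, 1, 3, 5⟩ :=
  out_sound (S := T5.ds_mm) T5.ok_mm (w := 28) (j := 2) (by decide +kernel)
theorem L08796 : Good (Phi V5.P V5.D (-1) (-1)) ⟨1, 1, 1, 1, 3, 5, 1, 1, 2, 2⟩ :=
  out_sound (S := T5.ds_mm) T5.ok_mm (w := 26) (j := 2) (by decide +kernel)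
theorem L08797 : Good (Phi V5.P V5.D (-1) (-1)) ⟨1, 1, 1, 1, 2, 2, 1, 1, 2, 3⟩ :=
  out_sound (S := T5.ds_mm) T5.ok_mm (w := 24) (j := 2) (by decide +kernel)
theorem L08798 : Good (Phi V5.P V5.D (-1) (-1)) ⟨1, 1, 1, 1, 2, 3, 1, 1, 1, 1⟩ :=
  out_sound (S := T5.ds_mm) T5.ok_mm (w := 22) (j := 2) (by decide +kernel)

end Crest.Agent.R097C5.N5mm
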