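import Crest.Agent.R097C5.N5mm_000
import Crest.Agent.R097C5.N5mm_001
import Crest.Agent.R097C5.N5mm_002
import Crest.Agent.R097C5.N5mm_003
import Crest.Agent.R097C5.N5mm_004
import Crest.Agent.R097C5.N5mm_005
import Crest.Agent.R097C5.N5mm_006
import Crest.Agent.R097C5.N5mm_007
import Crest.Agent.R097C5.N5mm_008
import Crest.Agent.R097C5.N5mm_009
import Crest.Agent.R097C5.N5mm_010
import Crest.Agent.R097C5.N5mm_011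
import Crest.Agent.R097C5.N5mm_012
import Crest.Agent.R097C5.N5mm_013
import Crest.Agent.R097C5.N5mm_014

/-!
# Row 97, box cover in dimension n = 5 (generated)
-/

set_option autoImplicit false
set_option Elab.async false
set_option maxHeartbeats 0
set_option maxRecDepth 100000

open Crest.Agent.R097 Crest.Agent.R097.KA


namespace Crest.Agent.R097C5.N5mm

theorem g00000 : Good (Phi V5.P V5.D (-1) (-1)) ⟨2, 0, 2, 0, 1, 0, 2, 0, 0, 0⟩ :=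
  Good.n3 (Good.n4 (Good.n4 (Good.n4 L00000 L00001) L00002) L00003) (Good.n4 (Good.n4 (Good.n4 L00004 L00005) L00006) L00007)
theorem g00001 : Good (Phi V5.P V5.D (-1) (-1)) ⟨2, 0, 2, 0, 1, 0, 2, 1, 1, 0⟩ :=
  Good.n4 (Good.n4 L00008 L00009) (Good.n4 (Good.n4 L00010 (Good.n2 L00011 (Good.n3 (Good.n4 L00012 L00013) L00014))) L00015)
theorem g00002 : Good (Phi V5.P V5.D (-1) (-1)) ⟨2, 0, 2, 0, 1, 0, 1, 1, 2, 0⟩ :=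
  Good.n4 (Good.n3 L00017 (Good.n3 L00018 (Good.n2 (Good.n3 L00019 L00020) L00021))) (Good.n3 (Good.n4 L00022 L00023) (Good.n3 L00024 (Good.n3 L00025 L00026)))
theorem g00003 : Good (Phi V5.P V5.D (-1) (-1)) ⟨2, 0, 2, 0, 1, 0, 1, 1, 2, 1⟩ :=
  Good.n3 (Good.n4 (Good.n4 L00027 L00028) L00029) (Good.n4 (Good.n2 (Good.n3 L00030 L00031) (Good.n3 L00032 L00033)) (Good.n3 L00034 L00035))
theorem g00004 : Good (Phi V5.P V5.D (-1) (-1)) ⟨2, 0, 2, 0, 1, 1, 3, 0, 3, 0⟩ :=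
  Good.n2 (Good.n4 L00037 L00038) (Good.n4 (Good.n2 L00039 L00040) (Good.n2 (Good.n3 L00041 L00042) L00043))
theorem g00005 : Good (Phi V5.P V5.D (-1) (-1)) ⟨2, 0, 2, 0, 1, 1, 1, 0, 4, 2⟩ :=
  Good.n2 (Good.n3 (Good.n3 L00046 L00047) L00048) (Good.n3 (Good.n2 (Good.n3 (Good.n3 (Good.n2 L00049 L00050) L00051) L00052) L00053) L00054)
theorem g00006 : Good (Phi V5.P V5.D (-1) (-1)) ⟨2, 0, 2, 0, 1, 1, 1, 0, 2, 0⟩ :=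
  Good.n4 (Good.n3 (Good.n3 g00004 L00044) L00045) (Good.n4 g00005 (Good.n2 (Good.n3 L00055 L00056) (Good.n3 (Good.n0 L00057 L00058) L00059)))
theorem g00007 : Good (Phi V5.P V5.D (-1) (-1)) ⟨2, 0, 2, 0, 1, 1, 1, 0, 3, 2⟩ :=
  Good.n4 (Good.n2 (Good.n3 L00060 L00061) (Good.n1 L00062 L00063)) (Good.n3 (Good.n2 L00064 L00065) (Good.n2 (Good.n0 L00066 L00067) L00068))
theorem g00008 : Good (Phi V5.P V5.D (-1) (-1)) ⟨2, 0, 2, 0, 9, 304, 8, 126, 9, 224⟩ :=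
  Good.n4 (Good.n2 (Good.n3 L00087 (Good.n4 (Good.n2 (Good.n3 L00088 L00089) L00090) L00091)) L00092) L00093
theorem g00009 : Good (Phi V5.P V5.D (-1) (-1)) ⟨2, 0, 2, 0, 8, 152, 6, 31, 8, 112⟩ :=
  Good.n3 (Good.n4 (Good.n3 L00081 (Good.n4 (Good.n3 L00082 (Good.n2 L00083 L00084)) L00085)) L00086) (Good.n4 (Good.n2 (Good.n3 g00008 L00094) L00095) L00096)
theorem g00010 : Good (Phi V5.P V5.D (-1) (-1)) ⟨2, 0, 2, 0, 6, 38, 5, 15, 7, 56⟩ :=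
  Good.n2 (Good.n3 L00080 (Good.n4 (Good.n2 g00009 L00097) L00098)) (Good.n3 (Good.n4 (Good.n2 L00099 L00100) L00101) L00102)
theorem g00011 : Good (Phi V5.P V5.D (-1) (-1)) ⟨2, 0, 2, 0, 5, 19, 4, 7, 6, 28⟩ :=
  Good.n3 (Good.n4 (Good.n3 L00076 (Good.n2 L00077 L00078)) L00079) (Good.n2 (Good.n4 g00010 L00103) L00104)
theorem g00012 : Good (Phi V5.P V5.D (-1) (-1)) ⟨2, 0, 2, 0, 3, 4, 2, 1, 4, 7⟩ :=
  Good.n3 L00072 (Good.n4 (Good.n2 L00073 (Good.n3 L00074 (Good.n4 (Good.n2 L00075 g00011) L00105))) L00106)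
theorem g00013 : Good (Phi V5.P V5.D (-1) (-1)) ⟨2, 0, 2, 0, 4, 10, 2, 1, 4, 7⟩ :=
  Good.n4 (Good.n3 L00107 (Good.n2 (Good.n4 (Good.n3 (Good.n3 L00108 L00109) L00110) L00111) L00112)) L00113
theorem g00014 : Good (Phi V5.P V5.D (-1) (-1)) ⟨2, 0, 2, 0, 1, 1, 1, 0, 3, 3⟩ :=
  Good.n4 (Good.n2 L00069 L00070) (Good.n2 (Good.n3 L00071 (Good.n2 g00012 (Good.n2 g00013 L00114))) L00115)
theorem g00015 : Good (Phi V5.P V5.D (-1) (-1)) ⟨2, 0, 2, 0, 1, 1, 1, 0, 0, 0⟩ :=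
  Good.n4 (Good.n4 g00006 (Good.n4 g00007 g00014)) (Good.n2 (Good.n4 (Good.n4 (Good.n2 L00116 L00117) L00118) L00119) L00120)
theorem g00016 : Good (Phi V5.P V5.D (-1) (-1)) ⟨2, 0, 2, 0, 1, 1, 1, 1, 3, 1⟩ :=
  Good.n3 (Good.n4 L00124 (Good.n2 L00125 (Good.n0 L00126 L00127))) (Good.n4 L00128 (Good.n2 L00129 (Good.n3 L00130 L00131)))
theorem g00017 : Good (Phi V5.P V5.D (-1) (-1)) ⟨2, 0, 2, 0, 1, 1, 2, 2, 3, 2⟩ :=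
  Good.n4 (Good.n2 L00132 (Good.n4 L00133 (Good.n0 L00134 L00135))) (Good.n2 (Good.n2 L00136 L00137) L00138)
theorem g00018 : Good (Phi V5.P V5.D (-1) (-1)) ⟨2, 0, 2, 0, 1, 1, 1, 1, 2, 1⟩ :=
  Good.n4 (Good.n3 g00017 (Good.n4 (Good.n2 L00139 L00140) (Good.n2 L00141 L00142))) (Good.n2 (Good.n2 (Good.n4 L00143 L00144) (Good.n4 L00145 L00146)) L00147)
theorem g00019 : Good (Phi V5.P V5.D (-1) (-1)) ⟨2, 0, 2, 0, 2, 2, 1, 1, 2, 2⟩ :=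
  Good.n2 (Good.n4 (Good.n3 (Good.n2 (Good.n4 (Good.n3 L00148 L00149) L00150) L00151) L00152) L00153) L00154
theorem g00020 : Good (Phi V5.P V5.D (-1) (-1)) ⟨2, 0, 2, 0, 1, 1, 1, 1, 0, 0⟩ :=
  Good.n4 (Good.n4 (Good.n4 (Good.n3 L00121 (Good.n4 L00122 L00123)) g00016) g00018) (Good.n2 (Good.n4 g00019 L00155) L00156)
theorem g00021 : Good (Phi V5.P V5.D (-1) (-1)) ⟨2, 0, 2, 0, 0, 0, 0, 0, 0, 0⟩ :=
  Good.n2 (Good.n3 (Good.n3 g00000 (Good.n4 g00001 L00016)) (Good.n4 (Good.n4 g00002 g00003) L00036)) (Good.n3 g00015 g00020)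
theorem g00022 : Good (Phi V5.P V5.D (-1) (-1)) ⟨2, 0, 2, 1, 1, 0, 2, 1, 1, 0⟩ :=
  Good.n4 (Good.n4 L00162 L00163) (Good.n4 (Good.n4 L00164 (Good.n2 L00165 (Good.n3 L00166 L00167))) L00168)
theorem g00023 : Good (Phi V5.P V5.D (-1) (-1)) ⟨2, 0, 2, 1, 1, 0, 1, 0, 0, 0⟩ :=
  Good.n3 (Good.n4 (Good.n4 (Good.n4 (Good.n3 L00157 L00158) L00159) L00160) L00161) (Good.n4 g00022 L00169)
theorem g00024 : Good (Phi V5.P V5.D (-1) (-1)) ⟨2, 0, 2, 1, 1, 0, 2, 3, 2, 0⟩ :=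
  Good.n4 (Good.n3 L00172 (Good.n3 L00173 (Good.n2 (Good.n3 L00174 (Good.n0 L00175 L00176)) L00177))) (Good.n2 L00178 L00179)
theorem g00025 : Good (Phi V5.P V5.D (-1) (-1)) ⟨2, 0, 2, 1, 2, 1, 2, 3, 3, 2⟩ :=
  Good.n3 (Good.n3 L00185 (Good.n0 L00186 L00187)) (Good.n4 L00188 (Good.n0 (Good.n3 L00189 L00190) (Good.n1 L00191 (Good.n2 L00192 L00193))))
theorem g00026 : Good (Phi V5.P V5.D (-1) (-1)) ⟨2, 0, 2, 1, 2, 1, 3, 6, 3, 3⟩ :=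
  Good.n2 L00201 (Good.n4 (Good.n1 L00202 (Good.n0 (Good.n4 L00203 L00204) (Good.n2 L00205 L00206))) L00207)
theorem g00027 : Good (Phi V5.P V5.D (-1) (-1)) ⟨2, 0, 2, 1, 2, 1, 3, 7, 3, 3⟩ :=
  Good.n3 (Good.n4 (Good.n0 (Good.n2 (Good.n3 L00208 L00209) L00210) (Good.n2 L00211 L00212)) L00213) L00214
theorem g00028 : Good (Phi V5.P V5.D (-1) (-1)) ⟨2, 0, 2, 1, 1, 0, 1, 1, 3, 3⟩ :=
  Good.n2 (Good.n3 L00194 (Good.n3 L00195 (Good.n3 L00196 L00197))) (Good.n3 (Good.n4 L00198 (Good.n4 L00199 L00200)) (Good.n3 g00026 g00027))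
theorem g00029 : Good (Phi V5.P V5.D (-1) (-1)) ⟨2, 0, 2, 1, 1, 0, 1, 1, 2, 1⟩ :=
  Good.n4 (Good.n3 (Good.n4 L00180 L00181) (Good.n2 (Good.n3 L00182 (Good.n3 L00183 L00184)) g00025)) g00028
theorem g00030 : Good (Phi V5.P V5.D (-1) (-1)) ⟨2, 0, 2, 1, 1, 1, 3, 0, 3, 0⟩ :=
  Good.n2 (Good.n4 L00216 L00217) (Good.n4 (Good.n2 L00218 L00219) (Good.n3 (Good.n2 L00220 L00221) L00222))
theorem g00031 : Good (Phi V5.P V5.D (-1) (-1)) ⟨2, 0, 2, 1, 2, 3, 3, 0, 4, 2⟩ :=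
  Good.n4 (Good.n0 (Good.n3 (Good.n3 L00231 L00232) L00233) (Good.n3 (Good.n3 L00234 L00235) L00236)) (Good.n2 (Good.n3 L00237 L00238) L00239)
theorem g00032 : Good (Phi V5.P V5.D (-1) (-1)) ⟨2, 0, 2, 1, 1, 1, 2, 0, 3, 1⟩ :=
  Good.n2 (Good.n4 (Good.n3 (Good.n3 L00226 L00227) L00228) (Good.n0 L00229 L00230)) (Good.n4 (Good.n3 g00031 L00240) (Good.n3 L00241 L00242))
theorem g00033 : Good (Phi V5.P V5.D (-1) (-1)) ⟨2, 0, 2, 1, 1, 1, 1, 0, 2, 0⟩ :=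
  Good.n4 (Good.n3 (Good.n3 g00030 (Good.n2 L00223 L00224)) L00225) (Good.n3 g00032 (Good.n4 L00243 (Good.n2 L00244 L00245)))
theorem g00034 : Good (Phi V5.P V5.D (-1) (-1)) ⟨2, 0, 2, 1, 1, 1, 1, 0, 3, 2⟩ :=
  Good.n4 (Good.n2 L00246 (Good.n2 L00247 L00248)) (Good.n2 (Good.n3 L00249 (Good.n2 L00250 L00251)) (Good.n3 L00252 L00253))
theorem g00035 : Good (Phi V5.P V5.D (-1) (-1)) ⟨2, 0, 2, 1, 9, 304, 8, 126, 9, 224⟩ :=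
  Good.n4 (Good.n2 (Good.n3 L00273 (Good.n4 (Good.n2 (Good.n3 L00274 L00275) L00276) L00277)) L00278) L00279
theorem g00036 : Good (Phi V5.P V5.D (-1) (-1)) ⟨2, 0, 2, 1, 8, 152, 6, 31, 8, 112⟩ :=
  Good.n3 (Good.n4 (Good.n3 L00267 (Good.n4 (Good.n3 L00268 (Good.n2 L00269 L00270)) L00271)) L00272) (Good.n4 (Good.n2 (Good.n3 g00035 L00280) L00281) L00282)
theorem g00037 : Good (Phi V5.P V5.D (-1) (-1)) ⟨2, 0, 2, 1, 6, 38, 5, 15, 7, 56⟩ :=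
  Good.n2 (Good.n3 L00266 (Good.n4 (Good.n2 g00036 L00283) L00284)) (Good.n3 (Good.n4 (Good.n2 L00285 L00286) L00287) L00288)
theorem g00038 : Good (Phi V5.P V5.D (-1) (-1)) ⟨2, 0, 2, 1, 5, 19, 4, 7, 6, 28⟩ :=
  Good.n3 (Good.n4 (Good.n3 L00262 (Good.n2 L00263 L00264)) L00265) (Good.n2 (Good.n4 g00037 L00289) L00290)
theorem g00039 : Good (Phi V5.P V5.D (-1) (-1)) ⟨2, 0, 2, 1, 3, 4, 2, 1, 4, 7⟩ :=
  Good.n3 L00258 (Good.n4 (Good.n2 L00259 (Good.n3 L00260 (Good.n4 (Good.n2 L00261 g00038) L00291))) L00292)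
theorem g00040 : Good (Phi V5.P V5.D (-1) (-1)) ⟨2, 0, 2, 1, 4, 10, 2, 1, 4, 7⟩ :=
  Good.n4 (Good.n3 L00293 (Good.n2 (Good.n4 (Good.n3 (Good.n3 L00294 L00295) L00296) L00297) L00298)) L00299
theorem g00041 : Good (Phi V5.P V5.D (-1) (-1)) ⟨2, 0, 2, 1, 1, 1, 1, 0, 3, 3⟩ :=
  Good.n4 (Good.n2 (Good.n2 L00254 L00255) L00256) (Good.n2 (Good.n3 L00257 (Good.n2 g00039 (Good.n2 g00040 L00300))) L00301)
theorem g00042 : Good (Phi V5.P V5.D (-1) (-1)) ⟨2, 0, 2, 1, 1, 1, 1, 0, 0, 0⟩ :=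
  Good.n4 (Good.n4 g00033 (Good.n4 g00034 g00041)) (Good.n2 (Good.n4 (Good.n4 (Good.n2 L00302 L00303) L00304) L00305) L00306)
theorem g00043 : Good (Phi V5.P V5.D (-1) (-1)) ⟨2, 0, 2, 1, 1, 1, 2, 3, 3, 1⟩ :=
  Good.n4 (Good.n2 L00313 (Good.n3 L00314 L00315)) (Good.n2 (Good.n0 L00316 L00317) (Good.n3 (Good.n2 L00318 L00319) L00320))
theorem g00044 : Good (Phi V5.P V5.D (-1) (-1)) ⟨2, 0, 2, 1, 1, 1, 1, 1, 2, 0⟩ :=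
  Good.n4 (Good.n3 L00307 (Good.n2 L00308 L00309)) (Good.n3 (Good.n4 L00310 (Good.n2 L00311 L00312)) g00043)
theorem g00045 : Good (Phi V5.P V5.D (-1) (-1)) ⟨2, 0, 2, 1, 1, 1, 2, 2, 3, 2⟩ :=
  Good.n4 (Good.n2 (Good.n0 L00321 L00322) (Good.n2 L00323 (Good.n4 L00324 L00325))) (Good.n2 (Good.n2 L00326 L00327) L00328)
theorem g00046 : Good (Phi V5.P V5.D (-1) (-1)) ⟨2, 0, 2, 1, 1, 1, 1, 1, 3, 2⟩ :=
  Good.n3 g00045 (Good.n4 (Good.n2 (Good.n3 L00329 L00330) L00331) (Good.n2 (Good.n3 L00332 L00333) L00334))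
theorem g00047 : Good (Phi V5.P V5.D (-1) (-1)) ⟨2, 0, 2, 1, 3, 4, 2, 2, 4, 7⟩ :=
  Good.n4 (Good.n3 L00340 L00341) (Good.n2 (Good.n3 (Good.n3 L00342 (Good.n4 (Good.n2 L00343 L00344) L00345)) L00346) L00347)
theorem g00048 : Good (Phi V5.P V5.D (-1) (-1)) ⟨2, 0, 2, 1, 2, 2, 2, 2, 3, 3⟩ :=
  Good.n4 (Good.n2 (Good.n3 L00335 (Good.n2 L00336 L00337)) (Good.n3 L00338 L00339)) (Good.n2 g00047 L00348)
theorem g00049 : Good (Phi V5.P V5.D (-1) (-1)) ⟨2, 0, 2, 1, 2, 2, 1, 1, 2, 2⟩ :=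
  Good.n2 (Good.n4 (Good.n3 (Good.n2 (Good.n4 (Good.n3 L00352 L00353) L00354) L00355) L00356) L00357) L00358
theorem g00050 : Good (Phi V5.P V5.D (-1) (-1)) ⟨2, 0, 2, 1, 1, 1, 1, 1, 0, 0⟩ :=
  Good.n4 (Good.n4 g00044 (Good.n4 g00046 (Good.n2 (Good.n3 g00048 (Good.n4 L00349 L00350)) L00351))) (Good.n2 (Good.n4 g00049 L00359) L00360)
theorem g00051 : Good (Phi V5.P V5.D (-1) (-1)) ⟨2, 0, 2, 1, 0, 0, 0, 0, 0, 0⟩ :=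
  Good.n2 (Good.n3 g00023 (Good.n4 (Good.n4 (Good.n3 (Good.n4 L00170 L00171) g00024) g00029) L00215)) (Good.n3 g00042 g00050)
theorem g00052 : Good (Phi V5.P V5.D (-1) (-1)) ⟨2, 1, 1, 0, 1, 0, 2, 0, 0, 0⟩ :=
  Good.n3 (Good.n4 (Good.n4 (Good.n4 (Good.n4 (Good.n4 L00361 L00362) L00363) L00364) L00365) L00366) (Good.n4 (Good.n4 (Good.n4 L00367 L00368) L00369) L00370)
theorem g00053 : Good (Phi V5.P V5.D (-1) (-1)) ⟨2, 1, 1, 0, 1, 0, 2, 1, 1, 0⟩ :=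
  Good.n4 (Good.n4 L00371 L00372) (Good.n4 (Good.n4 L00373 (Good.n2 L00374 (Good.n0 L00375 (Good.n4 L00376 L00377)))) L00378)
theorem g00054 : Good (Phi V5.P V5.D (-1) (-1)) ⟨2, 1, 1, 0, 1, 0, 1, 1, 2, 0⟩ :=
  Good.n4 (Good.n3 (Good.n4 L00380 L00381) (Good.n3 L00382 L00383)) (Good.n3 L00384 (Good.n3 L00385 (Good.n3 L00386 L00387)))
theorem g00055 : Good (Phi V5.P V5.D (-1) (-1)) ⟨2, 1, 1, 0, 1, 0, 2, 3, 2, 1⟩ :=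
  Good.n4 (Good.n3 (Good.n4 L00392 L00393) (Good.n4 L00394 (Good.n2 L00395 L00396))) (Good.n3 (Good.n1 L00397 (Good.n4 L00398 L00399)) (Good.n4 (Good.n2 L00400 L00401) L00402))
theorem g00056 : Good (Phi V5.P V5.D (-1) (-1)) ⟨2, 1, 1, 0, 1, 0, 1, 1, 0, 0⟩ :=
  Good.n4 (Good.n4 g00054 (Good.n3 (Good.n4 (Good.n4 L00388 L00389) (Good.n4 L00390 L00391)) g00055)) L00403
theorem g00057 : Good (Phi V5.P V5.D (-1) (-1)) ⟨2, 1, 2, 0, 2, 3, 2, 0, 3, 0⟩ :=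
  Good.n3 (Good.n4 L00408 (Good.n2 (Good.n3 (Good.n3 L00409 L00410) L00411) L00412)) (Good.n4 L00413 L00414)
theorem g00058 : Good (Phi V5.P V5.D (-1) (-1)) ⟨2, 1, 2, 0, 1, 1, 1, 0, 3, 0⟩ :=
  Good.n3 (Good.n2 (Good.n4 (Good.n3 L00404 L00405) (Good.n3 L00406 L00407)) g00057) (Good.n4 L00415 L00416)
theorem g00059 : Good (Phi V5.P V5.D (-1) (-1)) ⟨2, 1, 2, 0, 3, 6, 2, 0, 4, 2⟩ :=
  Good.n0 (Good.n3 (Good.n3 (Good.n3 L00420 L00421) L00422) L00423) (Good.n3 (Good.n3 (Good.n3 L00424 L00425) L00426) L00427)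
theorem g00060 : Good (Phi V5.P V5.D (-1) (-1)) ⟨2, 1, 2, 0, 1, 1, 2, 0, 3, 1⟩ :=
  Good.n2 (Good.n3 (Good.n3 L00417 L00418) L00419) (Good.n4 (Good.n2 g00059 L00428) (Good.n0 L00429 L00430))
theorem g00061 : Good (Phi V5.P V5.D (-1) (-1)) ⟨2, 1, 2, 0, 1, 1, 1, 0, 2, 0⟩ :=
  Good.n4 g00058 (Good.n3 g00060 (Good.n2 (Good.n4 L00431 L00432) (Good.n4 L00433 (Good.n2 L00434 L00435))))
theorem g00062 : Good (Phi V5.P V5.D (-1) (-1)) ⟨2, 1, 2, 0, 1, 1, 1, 0, 3, 2⟩ :=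
  Good.n4 (Good.n3 (Good.n2 L00436 L00437) (Good.n2 L00438 (Good.n2 L00439 L00440))) (Good.n2 (Good.n3 L00441 (Good.n2 (Good.n3 L00442 L00443) L00444)) (Good.n0 L00445 L00446))
theorem g00063 : Good (Phi V5.P V5.D (-1) (-1)) ⟨2, 1, 2, 0, 9, 304, 8, 126, 9, 224⟩ :=
  Good.n4 (Good.n2 (Good.n3 L00465 (Good.n4 (Good.n2 (Good.n3 L00466 L00467) L00468) L00469)) L00470) L00471
theorem g00064 : Good (Phi V5.P V5.D (-1) (-1)) ⟨2, 1, 2, 0, 8, 152, 6, 31, 8, 112⟩ :=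
  Good.n3 (Good.n4 (Good.n3 L00459 (Good.n4 (Good.n3 L00460 (Good.n2 L00461 L00462)) L00463)) L00464) (Good.n4 (Good.n2 (Good.n3 g00063 L00472) L00473) L00474)
theorem g00065 : Good (Phi V5.P V5.D (-1) (-1)) ⟨2, 1, 2, 0, 6, 38, 5, 15, 7, 56⟩ :=
  Good.n2 (Good.n3 L00458 (Good.n4 (Good.n2 g00064 L00475) L00476)) (Good.n3 (Good.n4 (Good.n2 L00477 L00478) L00479) L00480)
theorem g00066 : Good (Phi V5.P V5.D (-1) (-1)) ⟨2, 1, 2, 0, 5, 19, 4, 7, 6, 28⟩ :=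
  Good.n3 (Good.n4 (Good.n3 L00454 (Good.n2 L00455 L00456)) L00457) (Good.n2 (Good.n4 g00065 L00481) L00482)
theorem g00067 : Good (Phi V5.P V5.D (-1) (-1)) ⟨2, 1, 2, 0, 3, 4, 2, 1, 4, 7⟩ :=
  Good.n3 L00450 (Good.n4 (Good.n2 L00451 (Good.n3 L00452 (Good.n4 (Good.n2 L00453 g00066) L00483))) L00484)
theorem g00068 : Good (Phi V5.P V5.D (-1) (-1)) ⟨2, 1, 2, 0, 4, 10, 2, 1, 4, 7⟩ :=
  Good.n4 (Good.n3 L00485 (Good.n2 (Good.n4 (Good.n3 (Good.n3 L00486 L00487) L00488) L00489) L00490)) L00491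
theorem g00069 : Good (Phi V5.P V5.D (-1) (-1)) ⟨2, 1, 2, 0, 1, 1, 1, 0, 3, 3⟩ :=
  Good.n4 (Good.n2 L00447 L00448) (Good.n2 (Good.n3 L00449 (Good.n2 g00067 (Good.n2 g00068 L00492))) L00493)
theorem g00070 : Good (Phi V5.P V5.D (-1) (-1)) ⟨2, 1, 2, 0, 1, 1, 1, 0, 0, 0⟩ :=
  Good.n4 (Good.n4 g00061 (Good.n4 g00062 g00069)) (Good.n2 (Good.n4 (Good.n4 (Good.n2 L00494 L00495) L00496) L00497) L00498)
theorem g00071 : Good (Phi V5.P V5.D (-1) (-1)) ⟨3, 2, 3, 2, 1, 1, 2, 0, 3, 0⟩ :=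
  Good.n2 (Good.n4 L00499 (Good.n3 L00500 L00501)) (Good.n4 (Good.n0 L00502 L00503) (Good.n3 (Good.n2 (Good.n3 L00504 L00505) L00506) L00507))
theorem g00072 : Good (Phi V5.P V5.D (-1) (-1)) ⟨3, 2, 2, 1, 3, 6, 2, 0, 4, 2⟩ :=
  Good.n3 (Good.n4 (Good.n3 (Good.n3 L00515 L00516) L00517) (Good.n1 (Good.n3 L00518 L00519) L00520)) L00521
theorem g00073 : Good (Phi V5.P V5.D (-1) (-1)) ⟨2, 1, 2, 1, 1, 1, 1, 0, 4, 2⟩ :=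
  Good.n2 (Good.n3 (Good.n3 (Good.n3 L00511 L00512) L00513) L00514) (Good.n3 (Good.n0 (Good.n2 g00072 L00522) L00523) L00524)
theorem g00074 : Good (Phi V5.P V5.D (-1) (-1)) ⟨2, 1, 2, 1, 1, 1, 1, 0, 4, 3⟩ :=
  Good.n2 (Good.n0 (Good.n3 L00525 L00526) L00527) (Good.n3 (Good.n0 L00528 L00529) (Good.n2 L00530 L00531))
theorem g00075 : Good (Phi V5.P V5.D (-1) (-1)) ⟨2, 1, 2, 1, 1, 1, 1, 0, 3, 2⟩ :=
  Good.n4 (Good.n1 (Good.n0 (Good.n2 L00532 L00533) L00534) L00535) (Good.n3 (Good.n2 L00536 L00537) (Good.n2 (Good.n0 L00538 L00539) L00540))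
theorem g00076 : Good (Phi V5.P V5.D (-1) (-1)) ⟨2, 1, 2, 1, 9, 304, 8, 126, 9, 224⟩ :=
  Good.n4 (Good.n2 (Good.n3 L00559 (Good.n4 (Good.n2 (Good.n3 L00560 L00561) L00562) L00563)) L00564) L00565
theorem g00077 : Good (Phi V5.P V5.D (-1) (-1)) ⟨2, 1, 2, 1, 8, 152, 6, 31, 8, 112⟩ :=
  Good.n3 (Good.n4 (Good.n3 L00553 (Good.n4 (Good.n3 L00554 (Good.n2 L00555 L00556)) L00557)) L00558) (Good.n4 (Good.n2 (Good.n3 g00076 L00566) L00567) L00568)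
theorem g00078 : Good (Phi V5.P V5.D (-1) (-1)) ⟨2, 1, 2, 1, 6, 38, 5, 15, 7, 56⟩ :=
  Good.n2 (Good.n3 L00552 (Good.n4 (Good.n2 g00077 L00569) L00570)) (Good.n3 (Good.n4 (Good.n2 L00571 L00572) L00573) L00574)
theorem g00079 : Good (Phi V5.P V5.D (-1) (-1)) ⟨2, 1, 2, 1, 5, 19, 4, 7, 6, 28⟩ :=
  Good.n3 (Good.n4 (Good.n3 L00548 (Good.n2 L00549 L00550)) L00551) (Good.n2 (Good.n4 g00078 L00575) L00576)
theorem g00080 : Good (Phi V5.P V5.D (-1) (-1)) ⟨2, 1, 2, 1, 3, 4, 2, 1, 4, 7⟩ :=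
  Good.n3 L00544 (Good.n4 (Good.n2 L00545 (Good.n3 L00546 (Good.n4 (Good.n2 L00547 g00079) L00577))) L00578)
theorem g00081 : Good (Phi V5.P V5.D (-1) (-1)) ⟨2, 1, 2, 1, 4, 10, 2, 1, 4, 7⟩ :=
  Good.n4 (Good.n3 L00579 (Good.n2 (Good.n4 (Good.n3 (Good.n3 L00580 L00581) L00582) L00583) L00584)) L00585
theorem g00082 : Good (Phi V5.P V5.D (-1) (-1)) ⟨2, 1, 2, 1, 1, 1, 1, 0, 3, 3⟩ :=
  Good.n4 (Good.n2 L00541 L00542) (Good.n2 (Good.n3 L00543 (Good.n2 g00080 (Good.n2 g00081 L00586))) L00587)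
theorem g00083 : Good (Phi V5.P V5.D (-1) (-1)) ⟨2, 1, 2, 1, 1, 1, 1, 0, 1, 0⟩ :=
  Good.n4 (Good.n4 (Good.n1 (Good.n0 (Good.n3 g00071 L00508) L00509) L00510) (Good.n4 g00073 g00074)) (Good.n4 g00075 g00082)
theorem g00084 : Good (Phi V5.P V5.D (-1) (-1)) ⟨2, 1, 1, 0, 1, 1, 1, 0, 0, 0⟩ :=
  Good.n1 g00070 (Good.n4 g00083 (Good.n2 (Good.n4 (Good.n4 (Good.n2 L00588 L00589) L00590) L00591) L00592))
theorem g00085 : Good (Phi V5.P V5.D (-1) (-1)) ⟨2, 1, 2, 0, 1, 1, 1, 1, 3, 0⟩ :=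
  Good.n4 (Good.n2 (Good.n3 L00593 L00594) (Good.n3 L00595 (Good.n1 L00596 L00597))) (Good.n3 (Good.n2 L00598 (Good.n1 L00599 L00600)) (Good.n3 L00601 L00602))
theorem g00086 : Good (Phi V5.P V5.D (-1) (-1)) ⟨2, 1, 2, 0, 2, 3, 2, 2, 3, 1⟩ :=
  Good.n4 (Good.n0 L00605 (Good.n1 L00606 L00607)) (Good.n0 (Good.n2 L00608 L00609) (Good.n2 L00610 (Good.n4 L00611 L00612)))
theorem g00087 : Good (Phi V5.P V5.D (-1) (-1)) ⟨2, 1, 2, 0, 1, 1, 1, 1, 3, 1⟩ :=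
  Good.n3 (Good.n2 (Good.n4 L00603 L00604) g00086) (Good.n4 (Good.n2 L00613 (Good.n3 L00614 L00615)) (Good.n2 L00616 (Good.n2 L00617 L00618)))
theorem g00088 : Good (Phi V5.P V5.D (-1) (-1)) ⟨2, 1, 2, 0, 1, 1, 2, 2, 3, 2⟩ :=
  Good.n4 (Good.n2 (Good.n0 L00619 L00620) (Good.n0 L00621 L00622)) (Good.n2 (Good.n2 L00623 L00624) L00625)
theorem g00089 : Good (Phi V5.P V5.D (-1) (-1)) ⟨2, 1, 2, 0, 1, 1, 1, 1, 1, 0⟩ :=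
  Good.n4 (Good.n4 g00085 g00087) (Good.n4 (Good.n3 g00088 (Good.n4 L00626 L00627)) (Good.n2 (Good.n3 L00628 L00629) L00630))
theorem g00090 : Good (Phi V5.P V5.D (-1) (-1)) ⟨2, 1, 2, 0, 2, 2, 1, 1, 2, 2⟩ :=
  Good.n2 (Good.n4 (Good.n3 (Good.n2 (Good.n4 (Good.n3 L00631 L00632) L00633) L00634) L00635) L00636) L00637
theorem g00091 : Good (Phi V5.P V5.D (-1) (-1)) ⟨2, 1, 2, 1, 1, 1, 1, 1, 3, 1⟩ :=
  Good.n3 (Good.n4 L00646 (Good.n2 L00647 (Good.n1 (Good.n0 (Good.n4 L00648 L00649) L00650) L00651))) (Good.n4 (Good.n0 L00652 L00653) (Good.n2 L00654 (Good.n3 (Good.n0 L00655 L00656) L00657)))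
theorem g00092 : Good (Phi V5.P V5.D (-1) (-1)) ⟨2, 1, 2, 1, 1, 1, 1, 1, 2, 0⟩ :=
  Good.n4 (Good.n1 (Good.n2 (Good.n3 L00640 L00641) (Good.n4 (Good.n3 L00642 L00643) L00644)) L00645) g00091
theorem g00093 : Good (Phi V5.P V5.D (-1) (-1)) ⟨2, 1, 2, 1, 1, 1, 2, 2, 3, 2⟩ :=
  Good.n4 (Good.n2 (Good.n0 L00658 L00659) (Good.n2 L00660 L00661)) (Good.n2 (Good.n0 (Good.n2 L00662 L00663) L00664) L00665)
theorem g00094 : Good (Phi V5.P V5.D (-1) (-1)) ⟨2, 1, 2, 1, 2, 2, 2, 2, 5, 15⟩ :=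
  Good.n2 (Good.n2 (Good.n3 (Good.n3 L00673 (Good.n4 (Good.n2 L00674 L00675) L00676)) L00677) L00678) L00679
theorem g00095 : Good (Phi V5.P V5.D (-1) (-1)) ⟨2, 1, 2, 1, 1, 1, 1, 1, 3, 3⟩ :=
  Good.n2 (Good.n3 (Good.n4 (Good.n2 L00669 L00670) (Good.n4 (Good.n2 L00671 L00672) g00094)) L00680) L00681
theorem g00096 : Good (Phi V5.P V5.D (-1) (-1)) ⟨2, 1, 2, 1, 2, 2, 1, 1, 2, 2⟩ :=
  Good.n2 (Good.n4 (Good.n3 (Good.n2 (Good.n4 (Good.n3 L00682 L00683) L00684) L00685) L00686) L00687) L00688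
theorem g00097 : Good (Phi V5.P V5.D (-1) (-1)) ⟨2, 1, 2, 1, 1, 1, 1, 1, 0, 0⟩ :=
  Good.n4 (Good.n4 g00092 (Good.n4 (Good.n3 g00093 (Good.n4 (Good.n2 L00666 L00667) L00668)) g00095)) (Good.n2 (Good.n4 g00096 L00689) L00690)
theorem g00098 : Good (Phi V5.P V5.D (-1) (-1)) ⟨2, 1, 1, 0, 0, 0, 0, 0, 0, 0⟩ :=
  Good.n2 (Good.n3 (Good.n3 g00052 (Good.n4 g00053 L00379)) g00056) (Good.n3 g00084 (Good.n1 (Good.n4 g00089 (Good.n2 (Good.n4 g00090 L00638) L00639)) g00097))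
theorem g00099 : Good (Phi V5.P V5.D (-1) (-1)) ⟨3, 0, 3, 4, 1, 1, 3, 0, 3, 1⟩ :=
  Good.n4 (Good.n2 (Good.n3 L00703 L00704) (Good.n2 (Good.n3 L00705 L00706) L00707)) (Good.n2 L00708 L00709)
theorem g00100 : Good (Phi V5.P V5.D (-1) (-1)) ⟨3, 0, 3, 4, 1, 1, 2, 0, 2, 0⟩ :=
  Good.n4 (Good.n2 (Good.n4 L00697 L00698) (Good.n3 (Good.n4 L00699 (Good.n2 L00700 L00701)) L00702)) (Good.n3 g00099 (Good.n2 L00710 L00711))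
theorem g00101 : Good (Phi V5.P V5.D (-1) (-1)) ⟨3, 0, 1, 1, 0, 0, 1, 0, 2, 0⟩ :=
  Good.n2 (Good.n4 (Good.n4 (Good.n1 (Good.n3 (Good.n4 L00691 L00692) L00693) L00694) L00695) L00696) (Good.n1 (Good.n3 (Good.n1 g00100 L00712) (Good.n4 L00713 (Good.n3 L00714 L00715))) L00716)
theorem g00102 : Good (Phi V5.P V5.D (-1) (-1)) ⟨3, 0, 3, 4, 0, 0, 2, 2, 2, 0⟩ :=
  Good.n4 (Good.n2 L00717 L00718) (Good.n2 L00719 (Good.n4 L00720 (Good.n2 L00721 (Good.n4 L00722 L00723))))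
theorem g00103 : Good (Phi V5.P V5.D (-1) (-1)) ⟨3, 0, 3, 4, 1, 0, 2, 3, 2, 0⟩ :=
  Good.n4 (Good.n3 L00724 (Good.n3 L00725 (Good.n2 (Good.n2 L00726 L00727) L00728))) (Good.n3 L00729 L00730)
theorem g00104 : Good (Phi V5.P V5.D (-1) (-1)) ⟨3, 0, 3, 4, 1, 1, 2, 3, 2, 0⟩ :=
  Good.n4 (Good.n2 L00731 L00732) (Good.n2 (Good.n4 L00733 L00734) (Good.n4 L00735 (Good.n3 (Good.n2 L00736 L00737) L00738)))
theorem g00105 : Good (Phi V5.P V5.D (-1) (-1)) ⟨2, 0, 1, 1, 0, 0, 0, 0, 2, 0⟩ :=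
  Good.n0 (Good.n3 g00101 (Good.n1 (Good.n1 (Good.n3 g00102 (Good.n2 g00103 g00104)) L00739) L00740)) L00741
theorem g00106 : Good (Phi V5.P V5.D (-1) (-1)) ⟨2, 0, 2, 2, 1, 1, 1, 0, 3, 2⟩ :=
  Good.n4 (Good.n0 (Good.n1 (Good.n2 L00749 (Good.n3 L00750 L00751)) L00752) L00753) (Good.n2 (Good.n3 L00754 L00755) (Good.n3 L00756 (Good.n0 L00757 L00758)))
theorem g00107 : Good (Phi V5.P V5.D (-1) (-1)) ⟨2, 0, 1, 1, 0, 0, 1, 0, 3, 2⟩ :=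
  Good.n2 (Good.n4 L00743 (Good.n3 L00744 (Good.n4 (Good.n2 L00745 L00746) (Good.n0 L00747 L00748)))) (Good.n1 g00106 L00759)
theorem g00108 : Good (Phi V5.P V5.D (-1) (-1)) ⟨2, 0, 1, 1, 9, 304, 8, 126, 9, 224⟩ :=
  Good.n4 (Good.n2 (Good.n3 L00782 (Good.n4 (Good.n2 (Good.n3 L00783 L00784) L00785) L00786)) L00787) L00788
theorem g00109 : Good (Phi V5.P V5.D (-1) (-1)) ⟨2, 0, 1, 1, 8, 152, 6, 31, 8, 112⟩ :=
  Good.n3 (Good.n4 (Good.n3 L00776 (Good.n4 (Good.n3 L00777 (Good.n2 L00778 L00779)) L00780)) L00781) (Good.n4 (Good.n2 (Good.n3 g00108 L00789) L00790) L00791)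
theorem g00110 : Good (Phi V5.P V5.D (-1) (-1)) ⟨2, 0, 1, 1, 6, 38, 5, 15, 7, 56⟩ :=
  Good.n2 (Good.n3 L00775 (Good.n4 (Good.n2 g00109 L00792) L00793)) (Good.n3 (Good.n4 (Good.n2 L00794 L00795) L00796) L00797)
theorem g00111 : Good (Phi V5.P V5.D (-1) (-1)) ⟨2, 0, 1, 1, 5, 19, 4, 7, 6, 28⟩ :=
  Good.n3 (Good.n4 (Good.n3 L00771 (Good.n2 L00772 L00773)) L00774) (Good.n2 (Good.n4 g00110 L00798) L00799)
theorem g00112 : Good (Phi V5.P V5.D (-1) (-1)) ⟨2, 0, 1, 1, 3, 4, 2, 1, 4, 7⟩ :=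
  Good.n3 L00767 (Good.n4 (Good.n2 L00768 (Good.n3 L00769 (Good.n4 (Good.n2 L00770 g00111) L00800))) L00801)
theorem g00113 : Good (Phi V5.P V5.D (-1) (-1)) ⟨2, 0, 1, 1, 4, 10, 2, 1, 4, 7⟩ :=
  Good.n4 (Good.n3 L00802 (Good.n2 (Good.n4 (Good.n3 (Good.n3 L00803 L00804) L00805) L00806) L00807)) L00808
theorem g00114 : Good (Phi V5.P V5.D (-1) (-1)) ⟨2, 0, 1, 1, 1, 1, 1, 0, 3, 3⟩ :=
  Good.n4 (Good.n2 (Good.n3 L00761 (Good.n2 L00762 (Good.n2 L00763 L00764))) L00765) (Good.n2 (Good.n3 L00766 (Good.n2 g00112 (Good.n2 g00113 L00809))) L00810)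
theorem g00115 : Good (Phi V5.P V5.D (-1) (-1)) ⟨2, 0, 2, 2, 2, 0, 2, 3, 4, 6⟩ :=
  Good.n0 (Good.n4 (Good.n3 L00817 (Good.n3 L00818 L00819)) (Good.n3 L00820 (Good.n3 L00821 L00822))) L00823
theorem g00116 : Good (Phi V5.P V5.D (-1) (-1)) ⟨2, 0, 2, 2, 2, 0, 1, 1, 2, 1⟩ :=
  Good.n4 (Good.n0 (Good.n3 L00811 (Good.n4 L00812 (Good.n3 L00813 L00814))) L00815) (Good.n4 (Good.n3 L00816 g00115) (Good.n3 L00824 (Good.n3 L00825 L00826)))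
theorem g00117 : Good (Phi V5.P V5.D (-1) (-1)) ⟨3, 0, 2, 2, 2, 1, 2, 3, 3, 2⟩ :=
  Good.n1 (Good.n3 (Good.n4 L00828 L00829) (Good.n4 L00830 (Good.n2 (Good.n2 L00831 L00832) L00833))) L00834
theorem g00118 : Good (Phi V5.P V5.D (-1) (-1)) ⟨3, 0, 2, 2, 2, 1, 2, 2, 4, 6⟩ :=
  Good.n1 (Good.n1 (Good.n2 L00835 (Good.n3 L00836 L00837)) (Good.n3 L00838 (Good.n4 L00839 L00840))) L00841
theorem g00119 : Good (Phi V5.P V5.D (-1) (-1)) ⟨3, 0, 2, 2, 3, 3, 2, 2, 4, 7⟩ :=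
  Good.n3 L00843 (Good.n2 L00844 (Good.n4 (Good.n1 (Good.n3 L00845 (Good.n2 L00846 L00847)) L00848) L00849))
theorem g00120 : Good (Phi V5.P V5.D (-1) (-1)) ⟨3, 0, 3, 4, 4, 5, 4, 14, 4, 6⟩ :=
  Good.n4 (Good.n0 (Good.n3 L00858 L00859) (Good.n1 (Good.n1 L00860 L00861) L00862)) (Good.n1 L00863 (Good.n0 (Good.n3 L00864 L00865) L00866))
theorem g00121 : Good (Phi V5.P V5.D (-1) (-1)) ⟨3, 0, 2, 2, 3, 2, 3, 7, 4, 6⟩ :=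
  Good.n1 (Good.n3 (Good.n2 (Good.n4 (Good.n4 L00854 L00855) (Good.n3 L00856 L00857)) g00120) L00867) L00868
theorem g00122 : Good (Phi V5.P V5.D (-1) (-1)) ⟨3, 0, 2, 2, 3, 2, 2, 3, 3, 3⟩ :=
  Good.n4 (Good.n3 (Good.n1 (Good.n4 L00850 (Good.n1 L00851 L00852)) L00853) g00121) (Good.n3 L00869 (Good.n3 (Good.n1 L00870 L00871) L00872))
theorem g00123 : Good (Phi V5.P V5.D (-1) (-1)) ⟨3, 0, 2, 2, 3, 3, 3, 6, 4, 6⟩ :=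
  Good.n2 (Good.n1 (Good.n3 L00873 (Good.n4 L00874 (Good.n1 L00875 L00876))) L00877) (Good.n1 (Good.n3 (Good.n4 L00878 (Good.n1 L00879 L00880)) L00881) L00882)
theorem g00124 : Good (Phi V5.P V5.D (-1) (-1)) ⟨3, 0, 2, 2, 3, 3, 2, 3, 4, 7⟩ :=
  Good.n3 (Good.n2 (Good.n4 (Good.n1 (Good.n3 L00884 L00885) L00886) L00887) (Good.n3 L00888 L00889)) L00890
theorem g00125 : Good (Phi V5.P V5.D (-1) (-1)) ⟨3, 0, 2, 2, 2, 1, 1, 1, 3, 3⟩ :=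
  Good.n3 (Good.n4 g00118 (Good.n2 L00842 g00119)) (Good.n2 g00122 (Good.n4 (Good.n3 g00123 L00883) g00124))
theorem g00126 : Good (Phi V5.P V5.D (-1) (-1)) ⟨2, 0, 1, 1, 2, 3, 2, 2, 3, 2⟩ :=
  Good.n4 (Good.n0 (Good.n1 (Good.n2 (Good.n1 L00899 L00900) L00901) L00902) L00903) (Good.n2 (Good.n1 L00904 L00905) L00906)
theorem g00127 : Good (Phi V5.P V5.D (-1) (-1)) ⟨2, 0, 1, 1, 1, 1, 2, 2, 3, 2⟩ :=
  Good.n2 (Good.n4 L00893 (Good.n2 L00894 (Good.n3 L00895 (Good.n1 (Good.n4 L00896 L00897) L00898)))) g00126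
theorem g00128 : Good (Phi V5.P V5.D (-1) (-1)) ⟨2, 0, 1, 1, 2, 2, 2, 3, 3, 2⟩ :=
  Good.n4 (Good.n0 (Good.n1 (Good.n3 (Good.n2 L00907 L00908) L00909) L00910) L00911) (Good.n3 (Good.n1 (Good.n2 L00912 L00913) L00914) L00915)
theorem g00129 : Good (Phi V5.P V5.D (-1) (-1)) ⟨2, 0, 2, 2, 3, 4, 3, 5, 4, 6⟩ :=
  Good.n4 (Good.n2 L00921 (Good.n1 (Good.n0 L00922 L00923) L00924)) (Good.n1 (Good.n2 (Good.n3 (Good.n0 L00925 L00926) L00927) L00928) L00929)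
theorem g00130 : Good (Phi V5.P V5.D (-1) (-1)) ⟨2, 0, 2, 2, 2, 2, 2, 2, 4, 6⟩ :=
  Good.n2 (Good.n3 (Good.n4 L00917 (Good.n2 L00918 (Good.n1 L00919 L00920))) g00129) (Good.n3 (Good.n4 L00930 L00931) L00932)
theorem g00131 : Good (Phi V5.P V5.D (-1) (-1)) ⟨2, 0, 1, 1, 2, 2, 1, 1, 4, 6⟩ :=
  Good.n3 (Good.n1 g00130 L00933) (Good.n2 (Good.n3 (Good.n1 (Good.n4 (Good.n1 L00934 L00935) L00936) L00937) L00938) L00939)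
theorem g00132 : Good (Phi V5.P V5.D (-1) (-1)) ⟨2, 0, 2, 2, 3, 4, 2, 2, 5, 14⟩ :=
  Good.n3 (Good.n2 (Good.n1 (Good.n4 L00940 L00941) L00942) (Good.n1 L00943 L00944)) (Good.n2 (Good.n3 (Good.n1 (Good.n2 L00945 L00946) L00947) L00948) L00949)
theorem g00133 : Good (Phi V5.P V5.D (-1) (-1)) ⟨2, 0, 1, 1, 3, 4, 2, 2, 4, 7⟩ :=
  Good.n4 (Good.n1 g00132 L00950) (Good.n2 (Good.n3 (Good.n3 L00951 (Good.n4 (Good.n2 L00952 L00953) L00954)) L00955) L00956)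
theorem g00134 : Good (Phi V5.P V5.D (-1) (-1)) ⟨2, 0, 1, 1, 1, 1, 1, 1, 2, 1⟩ :=
  Good.n4 (Good.n3 g00127 (Good.n2 g00128 L00916)) (Good.n2 (Good.n4 g00131 (Good.n3 (Good.n2 g00133 L00957) L00958)) L00959)
theorem g00135 : Good (Phi V5.P V5.D (-1) (-1)) ⟨2, 0, 1, 1, 0, 0, 1, 1, 2, 1⟩ :=
  Good.n2 (Good.n1 (Good.n2 g00116 (Good.n0 (Good.n4 (Good.n3 L00827 g00117) g00125) L00891)) L00892) g00134
theorem g00136 : Good (Phi V5.P V5.D (-1) (-1)) ⟨1, 0, 1, 1, 0, 0, 0, 0, 1, 0⟩ :=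
  Good.n4 (Good.n0 g00105 L00742) (Good.n0 (Good.n3 (Good.n4 g00107 (Good.n2 L00760 g00114)) g00135) L00960)
theorem g00137 : Good (Phi V5.P V5.D (-1) (-1)) ⟨2, 2, 2, 0, 1, 0, 2, 0, 4, 0⟩ :=
  Good.n0 (Good.n4 (Good.n3 L00962 L00963) L00964) (Good.n2 (Good.n4 L00965 L00966) (Good.n3 L00967 L00968))
theorem g00138 : Good (Phi V5.P V5.D (-1) (-1)) ⟨2, 2, 2, 0, 2, 1, 3, 2, 4, 5⟩ :=
  Good.n4 (Good.n2 L00979 (Good.n3 L00980 (Good.n4 L00981 (Good.n3 L00982 (Good.n0 L00983 L00984))))) L00985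
theorem g00139 : Good (Phi V5.P V5.D (-1) (-1)) ⟨2, 2, 2, 0, 3, 3, 4, 6, 5, 11⟩ :=
  Good.n2 (Good.n3 (Good.n4 L00995 L00996) (Good.n0 L00997 L00998)) (Good.n0 L00999 (Good.n0 L01000 L01001))
theorem g00140 : Good (Phi V5.P V5.D (-1) (-1)) ⟨2, 2, 2, 0, 2, 1, 3, 3, 4, 5⟩ :=
  Good.n3 (Good.n4 (Good.n0 L00990 L00991) (Good.n2 (Good.n4 (Good.n3 L00992 L00993) L00994) g00139)) (Good.n2 (Good.n4 L01002 (Good.n0 L01003 L01004)) (Good.n0 L01005 (Good.n4 L01006 L01007)))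
theorem g00141 : Good (Phi V5.P V5.D (-1) (-1)) ⟨2, 2, 2, 0, 1, 0, 2, 1, 4, 5⟩ :=
  Good.n3 (Good.n2 L00978 g00138) (Good.n2 (Good.n4 L00986 (Good.n3 L00987 (Good.n3 L00988 L00989))) g00140)
theorem g00142 : Good (Phi V5.P V5.D (-1) (-1)) ⟨2, 2, 2, 0, 1, 0, 1, 0, 2, 1⟩ :=
  Good.n4 (Good.n4 (Good.n3 L00974 (Good.n0 L00975 L00976)) (Good.n3 L00977 g00141)) (Good.n3 L01008 (Good.n4 (Good.n2 L01009 (Good.n3 L01010 (Good.n0 L01011 L01012))) L01013))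
theorem g00143 : Good (Phi V5.P V5.D (-1) (-1)) ⟨2, 2, 2, 0, 1, 0, 1, 0, 1, 0⟩ :=
  Good.n4 (Good.n4 (Good.n4 (Good.n3 g00137 L00969) (Good.n3 L00970 L00971)) (Good.n4 L00972 L00973)) g00142
theorem g00144 : Good (Phi V5.P V5.D (-1) (-1)) ⟨2, 3, 3, 1, 1, 0, 1, 0, 3, 0⟩ :=
  Good.n4 (Good.n3 (Good.n0 (Good.n3 (Good.n2 L01015 L01016) L01017) L01018) L01019) (Good.n0 (Good.n3 L01020 L01021) L01022)
theorem g00145 : Good (Phi V5.P V5.D (-1) (-1)) ⟨4, 12, 2, 0, 2, 1, 2, 1, 4, 5⟩ :=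
  Good.n3 (Good.n4 (Good.n3 L01031 L01032) L01033) (Good.n3 (Good.n4 L01034 (Good.n2 L01035 L01036)) (Good.n4 L01037 L01038))
theorem g00146 : Good (Phi V5.P V5.D (-1) (-1)) ⟨4, 12, 2, 0, 1, 0, 1, 0, 2, 1⟩ :=
  Good.n4 (Good.n3 (Good.n4 L01026 L01027) (Good.n4 L01028 (Good.n2 (Good.n4 L01029 L01030) g00145))) (Good.n3 L01039 (Good.n4 L01040 L01041))
theorem g00147 : Good (Phi V5.P V5.D (-1) (-1)) ⟨2, 3, 2, 0, 1, 0, 1, 0, 1, 0⟩ :=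
  Good.n4 (Good.n4 (Good.n1 L01014 g00144) (Good.n0 (Good.n3 L01023 L01024) L01025)) (Good.n0 (Good.n0 g00146 L01042) L01043)
theorem g00148 : Good (Phi V5.P V5.D (-1) (-1)) ⟨2, 2, 2, 0, 1, 0, 1, 1, 3, 0⟩ :=
  Good.n3 (Good.n4 (Good.n4 L01045 L01046) L01047) (Good.n3 (Good.n4 L01048 L01049) (Good.n0 L01050 L01051))
theorem g00149 : Good (Phi V5.P V5.D (-1) (-1)) ⟨2, 3, 2, 0, 1, 0, 1, 1, 3, 0⟩ :=
  Good.n0 (Good.n0 (Good.n3 (Good.n4 L01052 L01053) (Good.n1 L01054 (Good.n4 L01055 L01056))) L01057) L01058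
theorem g00150 : Good (Phi V5.P V5.D (-1) (-1)) ⟨1, 1, 2, 0, 1, 0, 1, 1, 3, 1⟩ :=
  Good.n0 (Good.n3 L01059 (Good.n3 L01060 L01061)) (Good.n0 (Good.n3 L01062 (Good.n0 (Good.n1 L01063 (Good.n4 L01064 L01065)) L01066)) L01067)
theorem g00151 : Good (Phi V5.P V5.D (-1) (-1)) ⟨2, 2, 2, 0, 1, 0, 2, 2, 3, 3⟩ :=
  Good.n2 (Good.n3 (Good.n4 L01074 L01075) (Good.n4 L01076 L01077)) (Good.n4 (Good.n0 L01078 L01079) L01080)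
theorem g00152 : Good (Phi V5.P V5.D (-1) (-1)) ⟨1, 1, 2, 0, 1, 0, 2, 2, 3, 3⟩ :=
  Good.n0 g00151 (Good.n0 (Good.n0 (Good.n1 L01081 (Good.n4 (Good.n2 L01082 L01083) L01084)) L01085) L01086)
theorem g00153 : Good (Phi V5.P V5.D (-1) (-1)) ⟨1, 1, 2, 0, 1, 0, 2, 2, 2, 1⟩ :=
  Good.n4 (Good.n0 (Good.n0 L01068 (Good.n2 L01069 L01070)) (Good.n0 (Good.n2 L01071 L01072) L01073)) g00152
theorem g00154 : Good (Phi V5.P V5.D (-1) (-1)) ⟨1, 1, 2, 0, 1, 0, 2, 3, 3, 3⟩ :=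
  Good.n2 (Good.n0 (Good.n0 L01091 L01092) (Good.n0 L01093 L01094)) (Good.n4 (Good.n3 L01095 L01096) (Good.n3 (Good.n0 L01097 L01098) L01099))
theorem g00155 : Good (Phi V5.P V5.D (-1) (-1)) ⟨1, 1, 2, 0, 1, 0, 1, 1, 1, 0⟩ :=
  Good.n4 (Good.n4 (Good.n0 g00148 g00149) g00150) (Good.n3 g00153 (Good.n4 (Good.n4 (Good.n0 L01087 L01088) (Good.n0 L01089 L01090)) g00154))
theorem g00156 : Good (Phi V5.P V5.D (-1) (-1)) ⟨3, 4, 2, 0, 1, 1, 3, 0, 3, 0⟩ :=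
  Good.n2 (Good.n4 L01101 (Good.n4 L01102 L01103)) (Good.n4 L01104 (Good.n2 (Good.n4 L01105 (Good.n3 (Good.n3 L01106 L01107) L01108)) L01109))
theorem g00157 : Good (Phi V5.P V5.D (-1) (-1)) ⟨3, 4, 2, 0, 1, 1, 1, 0, 3, 0⟩ :=
  Good.n3 (Good.n3 g00156 (Good.n4 L01110 L01111)) (Good.n2 (Good.n4 L01112 L01113) (Good.n4 L01114 L01115))
theorem g00158 : Good (Phi V5.P V5.D (-1) (-1)) ⟨4, 11, 2, 0, 3, 6, 4, 0, 4, 1⟩ :=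
  Good.n4 (Good.n3 L01126 L01127) (Good.n4 (Good.n3 L01128 L01129) (Good.n3 (Good.n2 L01130 L01131) L01132))
theorem g00159 : Good (Phi V5.P V5.D (-1) (-1)) ⟨3, 5, 2, 0, 2, 3, 4, 0, 3, 0⟩ :=
  Good.n4 (Good.n2 (Good.n0 L01120 L01121) L01122) (Good.n2 (Good.n0 (Good.n4 L01123 (Good.n3 L01124 L01125)) g00158) (Good.n4 L01133 L01134))
theorem g00160 : Good (Phi V5.P V5.D (-1) (-1)) ⟨3, 5, 2, 0, 1, 1, 4, 1, 3, 0⟩ :=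
  Good.n4 (Good.n2 L01135 L01136) (Good.n2 (Good.n2 L01137 L01138) (Good.n2 (Good.n4 L01139 L01140) L01141))
theorem g00161 : Good (Phi V5.P V5.D (-1) (-1)) ⟨3, 5, 2, 0, 1, 1, 2, 0, 3, 0⟩ :=
  Good.n3 (Good.n3 (Good.n2 (Good.n4 (Good.n4 L01116 L01117) (Good.n4 L01118 L01119)) g00159) g00160) (Good.n4 (Good.n2 L01142 L01143) (Good.n2 L01144 (Good.n4 L01145 L01146)))
theorem g00162 : Good (Phi V5.P V5.D (-1) (-1)) ⟨4, 11, 2, 0, 1, 1, 2, 1, 3, 0⟩ :=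
  Good.n4 (Good.n2 L01152 (Good.n2 L01153 L01154)) (Good.n2 (Good.n2 L01155 L01156) (Good.n4 L01157 (Good.n2 L01158 (Good.n2 L01159 L01160))))
theorem g00163 : Good (Phi V5.P V5.D (-1) (-1)) ⟨3, 5, 2, 0, 1, 1, 1, 0, 3, 0⟩ :=
  Good.n3 g00161 (Good.n0 (Good.n4 (Good.n2 L01147 L01148) (Good.n2 L01149 (Good.n4 L01150 L01151))) g00162)
theorem g00164 : Good (Phi V5.P V5.D (-1) (-1)) ⟨3, 4, 3, 1, 2, 3, 2, 0, 4, 2⟩ :=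
  Good.n4 (Good.n2 (Good.n3 (Good.n3 (Good.n3 L01169 L01170) L01171) L01172) L01173) (Good.n3 (Good.n3 L01174 L01175) L01176)
theorem g00165 : Good (Phi V5.P V5.D (-1) (-1)) ⟨3, 4, 2, 0, 1, 1, 2, 0, 4, 2⟩ :=
  Good.n2 (Good.n3 (Good.n3 L01161 L01162) L01163) (Good.n1 (Good.n2 (Good.n3 (Good.n3 (Good.n3 L01164 L01165) L01166) L01167) L01168) g00164)
theorem g00166 : Good (Phi V5.P V5.D (-1) (-1)) ⟨4, 11, 2, 0, 3, 6, 2, 0, 5, 4⟩ :=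
  Good.n1 (Good.n3 (Good.n3 (Good.n2 (Good.n3 L01184 L01185) (Good.n3 L01186 L01187)) L01188) L01189) (Good.n3 (Good.n3 (Good.n3 L01190 L01191) L01192) L01193)
theorem g00167 : Good (Phi V5.P V5.D (-1) (-1)) ⟨3, 5, 2, 0, 2, 3, 2, 0, 5, 4⟩ :=
  Good.n2 (Good.n0 (Good.n3 (Good.n3 (Good.n3 L01180 L01181) L01182) L01183) g00166) (Good.n0 L01194 (Good.n2 L01195 L01196))
theorem g00168 : Good (Phi V5.P V5.D (-1) (-1)) ⟨3, 5, 2, 0, 1, 1, 2, 0, 5, 5⟩ :=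
  Good.n3 (Good.n2 (Good.n3 L01197 L01198) (Good.n2 (Good.n3 L01199 L01200) L01201)) (Good.n2 L01202 (Good.n0 L01203 L01204))
theorem g00169 : Good (Phi V5.P V5.D (-1) (-1)) ⟨2, 2, 2, 0, 1, 1, 2, 0, 3, 1⟩ :=
  Good.n4 (Good.n0 g00165 (Good.n4 (Good.n2 (Good.n3 (Good.n3 L01177 L01178) L01179) g00167) g00168)) (Good.n2 (Good.n0 L01205 (Good.n0 L01206 L01207)) (Good.n2 (Good.n3 L01208 L01209) L01210))
theorem g00170 : Good (Phi V5.P V5.D (-1) (-1)) ⟨3, 5, 2, 0, 1, 1, 2, 1, 4, 2⟩ :=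
  Good.n2 L01213 (Good.n4 (Good.n2 (Good.n0 L01214 L01215) (Good.n0 L01216 L01217)) (Good.n3 L01218 L01219))
theorem g00171 : Good (Phi V5.P V5.D (-1) (-1)) ⟨2, 2, 2, 0, 1, 1, 2, 1, 3, 1⟩ :=
  Good.n4 (Good.n0 (Good.n2 L01211 L01212) g00170) (Good.n0 (Good.n2 L01220 (Good.n4 L01221 L01222)) (Good.n2 L01223 (Good.n2 L01224 L01225)))
theorem g00172 : Good (Phi V5.P V5.D (-1) (-1)) ⟨4, 12, 3, 1, 2, 3, 5, 0, 4, 1⟩ :=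
  Good.n2 (Good.n4 (Good.n4 L01232 L01233) (Good.n3 L01234 (Good.n0 L01235 L01236))) (Good.n2 L01237 L01238)
theorem g00173 : Good (Phi V5.P V5.D (-1) (-1)) ⟨4, 12, 3, 1, 1, 1, 5, 1, 3, 0⟩ :=
  Good.n4 (Good.n2 L01239 L01240) (Good.n2 (Good.n2 L01241 L01242) (Good.n2 (Good.n4 L01243 L01244) (Good.n4 L01245 L01246)))
theorem g00174 : Good (Phi V5.P V5.D (-1) (-1)) ⟨4, 12, 3, 1, 1, 1, 4, 0, 3, 0⟩ :=
  Good.n3 (Good.n2 (Good.n4 L01227 (Good.n4 L01228 L01229)) (Good.n4 (Good.n2 L01230 L01231) g00172)) g00173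
theorem g00175 : Good (Phi V5.P V5.D (-1) (-1)) ⟨4, 12, 3, 1, 1, 1, 4, 1, 3, 0⟩ :=
  Good.n2 (Good.n4 L01247 L01248) (Good.n4 L01249 (Good.n2 (Good.n4 L01250 L01251) (Good.n4 L01252 L01253)))
theorem g00176 : Good (Phi V5.P V5.D (-1) (-1)) ⟨4, 12, 3, 1, 1, 1, 2, 0, 3, 0⟩ :=
  Good.n3 (Good.n3 g00174 g00175) (Good.n2 (Good.n4 L01254 L01255) (Good.n4 L01256 (Good.n4 L01257 (Good.n2 L01258 L01259))))
theorem g00177 : Good (Phi V5.P V5.D (-1) (-1)) ⟨4, 12, 3, 1, 1, 1, 4, 7, 3, 0⟩ :=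
  Good.n2 (Good.n4 L01270 L01271) (Good.n4 (Good.n2 L01272 L01273) (Good.n4 L01274 (Good.n2 L01275 L01276)))
theorem g00178 : Good (Phi V5.P V5.D (-1) (-1)) ⟨4, 12, 3, 1, 1, 1, 2, 1, 3, 0⟩ :=
  Good.n3 (Good.n2 (Good.n4 L01260 L01261) (Good.n4 L01262 (Good.n2 L01263 L01264))) (Good.n3 (Good.n4 (Good.n2 L01265 L01266) (Good.n2 L01267 (Good.n4 L01268 L01269))) g00177)
theorem g00179 : Good (Phi V5.P V5.D (-1) (-1)) ⟨5, 24, 4, 2, 2, 3, 3, 0, 4, 2⟩ :=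
  Good.n4 (Good.n2 (Good.n3 (Good.n3 L01282 L01283) L01284) L01285) (Good.n2 (Good.n3 L01286 L01287) L01288)
theorem g00180 : Good (Phi V5.P V5.D (-1) (-1)) ⟨5, 24, 4, 2, 1, 1, 2, 0, 3, 1⟩ :=
  Good.n3 (Good.n2 (Good.n4 (Good.n3 L01279 L01280) L01281) (Good.n4 g00179 L01289)) (Good.n2 (Good.n4 L01290 L01291) (Good.n4 (Good.n2 L01292 L01293) L01294))
theorem g00181 : Good (Phi V5.P V5.D (-1) (-1)) ⟨4, 12, 4, 2, 1, 1, 1, 0, 3, 1⟩ :=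
  Good.n3 (Good.n0 g00180 L01295) (Good.n0 (Good.n2 (Good.n4 L01296 L01297) (Good.n4 (Good.n2 L01298 L01299) L01300)) L01301)
theorem g00182 : Good (Phi V5.P V5.D (-1) (-1)) ⟨4, 12, 4, 3, 2, 2, 2, 0, 4, 2⟩ :=
  Good.n2 L01302 (Good.n4 (Good.n3 (Good.n3 L01303 L01304) L01305) (Good.n3 (Good.n3 L01306 L01307) L01308))
theorem g00183 : Good (Phi V5.P V5.D (-1) (-1)) ⟨4, 12, 4, 3, 3, 6, 2, 0, 4, 2⟩ :=
  Good.n4 (Good.n3 (Good.n3 (Good.n3 (Good.n2 L01309 L01310) L01311) L01312) L01313) (Good.n3 (Good.n3 (Good.n2 L01314 L01315) L01316) L01317)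
theorem g00184 : Good (Phi V5.P V5.D (-1) (-1)) ⟨4, 12, 4, 3, 1, 1, 1, 0, 4, 2⟩ :=
  Good.n3 (Good.n2 g00182 (Good.n2 g00183 (Good.n2 (Good.n3 L01318 L01319) L01320))) (Good.n2 L01321 (Good.n4 (Good.n2 L01322 L01323) L01324))
theorem g00185 : Good (Phi V5.P V5.D (-1) (-1)) ⟨4, 12, 4, 3, 1, 1, 1, 0, 3, 1⟩ :=
  Good.n4 g00184 (Good.n3 (Good.n2 L01325 (Good.n0 L01326 L01327)) (Good.n2 L01328 (Good.n2 L01329 L01330)))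
theorem g00186 : Good (Phi V5.P V5.D (-1) (-1)) ⟨3, 6, 2, 0, 1, 1, 1, 0, 2, 0⟩ :=
  Good.n4 (Good.n1 L01226 (Good.n0 (Good.n3 g00176 g00178) L01277)) (Good.n1 L01278 (Good.n0 (Good.n1 g00181 g00185) L01331))
theorem g00187 : Good (Phi V5.P V5.D (-1) (-1)) ⟨1, 1, 2, 0, 1, 1, 2, 0, 4, 4⟩ :=
  Good.n2 (Good.n0 (Good.n0 L01333 (Good.n0 L01334 L01335)) (Good.n4 L01336 L01337)) (Good.n0 L01338 (Good.n0 (Good.n0 (Good.n1 L01339 L01340) L01341) L01342))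
theorem g00188 : Good (Phi V5.P V5.D (-1) (-1)) ⟨1, 1, 2, 0, 1, 1, 2, 0, 4, 5⟩ :=
  Good.n0 (Good.n2 L01343 L01344) (Good.n0 (Good.n0 (Good.n1 L01345 (Good.n2 L01346 L01347)) L01348) L01349)
theorem g00189 : Good (Phi V5.P V5.D (-1) (-1)) ⟨2, 2, 2, 0, 3, 4, 4, 5, 4, 5⟩ :=
  Good.n2 (Good.n4 (Good.n0 L01358 (Good.n0 L01359 L01360)) (Good.n0 L01361 L01362)) (Good.n4 L01363 L01364)
theorem g00190 : Good (Phi V5.P V5.D (-1) (-1)) ⟨2, 2, 2, 0, 3, 4, 2, 1, 4, 5⟩ :=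
  Good.n3 (Good.n3 (Good.n4 (Good.n0 L01355 L01356) L01357) g00189) (Good.n0 L01365 (Good.n0 L01366 L01367))
theorem g00191 : Good (Phi V5.P V5.D (-1) (-1)) ⟨2, 2, 2, 0, 2, 2, 2, 1, 3, 2⟩ :=
  Good.n4 (Good.n2 (Good.n3 L01352 L01353) L01354) (Good.n2 g00190 (Good.n3 (Good.n4 L01368 L01369) L01370))
theorem g00192 : Good (Phi V5.P V5.D (-1) (-1)) ⟨2, 3, 2, 0, 2, 2, 2, 1, 3, 2⟩ :=
  Good.n0 (Good.n4 L01371 (Good.n3 (Good.n4 (Good.n3 L01372 L01373) L01374) (Good.n4 L01375 L01376))) L01377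
theorem g00193 : Good (Phi V5.P V5.D (-1) (-1)) ⟨2, 2, 2, 0, 9, 304, 8, 126, 9, 224⟩ :=
  Good.n4 (Good.n2 (Good.n3 L01398 (Good.n4 (Good.n2 (Good.n3 L01399 L01400) L01401) L01402)) L01403) L01404
theorem g00194 : Good (Phi V5.P V5.D (-1) (-1)) ⟨2, 2, 2, 0, 8, 152, 6, 31, 8, 112⟩ :=
  Good.n3 (Good.n4 (Good.n3 L01392 (Good.n4 (Good.n3 L01393 (Good.n2 L01394 L01395)) L01396)) L01397) (Good.n4 (Good.n2 (Good.n3 g00193 L01405) L01406) L01407)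
theorem g00195 : Good (Phi V5.P V5.D (-1) (-1)) ⟨2, 2, 2, 0, 6, 38, 5, 15, 7, 56⟩ :=
  Good.n2 (Good.n3 L01391 (Good.n4 (Good.n2 g00194 L01408) L01409)) (Good.n3 (Good.n4 (Good.n2 L01410 L01411) L01412) L01413)
theorem g00196 : Good (Phi V5.P V5.D (-1) (-1)) ⟨2, 2, 2, 0, 5, 19, 4, 7, 6, 28⟩ :=
  Good.n3 (Good.n4 (Good.n3 L01387 (Good.n2 L01388 L01389)) L01390) (Good.n2 (Good.n4 g00195 L01414) L01415)
theorem g00197 : Good (Phi V5.P V5.D (-1) (-1)) ⟨2, 2, 2, 0, 3, 4, 2, 1, 4, 7⟩ :=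
  Good.n3 L01383 (Good.n4 (Good.n2 L01384 (Good.n3 L01385 (Good.n4 (Good.n2 L01386 g00196) L01416))) L01417)
theorem g00198 : Good (Phi V5.P V5.D (-1) (-1)) ⟨2, 2, 2, 0, 4, 10, 2, 1, 4, 7⟩ :=
  Good.n4 (Good.n3 L01418 (Good.n2 (Good.n4 (Good.n3 (Good.n3 L01419 L01420) L01421) L01422) L01423)) L01424
theorem g00199 : Good (Phi V5.P V5.D (-1) (-1)) ⟨2, 2, 2, 0, 2, 2, 2, 1, 3, 3⟩ :=
  Good.n4 (Good.n2 (Good.n3 L01378 (Good.n0 L01379 L01380)) (Good.n3 L01381 L01382)) (Good.n2 g00197 (Good.n2 g00198 L01425))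
theorem g00200 : Good (Phi V5.P V5.D (-1) (-1)) ⟨3, 6, 2, 0, 9, 304, 8, 126, 9, 224⟩ :=
  Good.n4 (Good.n2 (Good.n3 L01444 (Good.n4 (Good.n2 (Good.n3 L01445 L01446) L01447) L01448)) L01449) L01450
theorem g00201 : Good (Phi V5.P V5.D (-1) (-1)) ⟨3, 6, 2, 0, 8, 152, 6, 31, 8, 112⟩ :=
  Good.n3 (Good.n4 (Good.n3 L01438 (Good.n4 (Good.n3 L01439 (Good.n2 L01440 L01441)) L01442)) L01443) (Good.n4 (Good.n2 (Good.n3 g00200 L01451) L01452) L01453)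
theorem g00202 : Good (Phi V5.P V5.D (-1) (-1)) ⟨3, 6, 2, 0, 6, 38, 5, 15, 7, 56⟩ :=
  Good.n2 (Good.n3 L01437 (Good.n4 (Good.n2 g00201 L01454) L01455)) (Good.n3 (Good.n4 (Good.n2 L01456 L01457) L01458) L01459)
theorem g00203 : Good (Phi V5.P V5.D (-1) (-1)) ⟨3, 6, 2, 0, 5, 19, 4, 7, 6, 28⟩ :=
  Good.n3 (Good.n4 (Good.n3 L01433 (Good.n2 L01434 L01435)) L01436) (Good.n2 (Good.n4 g00202 L01460) L01461)
theorem g00204 : Good (Phi V5.P V5.D (-1) (-1)) ⟨3, 6, 2, 0, 3, 4, 2, 1, 4, 7⟩ :=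
  Good.n3 L01429 (Good.n4 (Good.n2 L01430 (Good.n3 L01431 (Good.n4 (Good.n2 L01432 g00203) L01462))) L01463)
theorem g00205 : Good (Phi V5.P V5.D (-1) (-1)) ⟨3, 6, 2, 0, 4, 10, 2, 1, 4, 7⟩ :=
  Good.n4 (Good.n3 L01464 (Good.n2 (Good.n4 (Good.n3 (Good.n3 L01465 L01466) L01467) L01468) L01469)) L01470
theorem g00206 : Good (Phi V5.P V5.D (-1) (-1)) ⟨2, 3, 2, 0, 2, 2, 2, 1, 3, 3⟩ :=
  Good.n0 (Good.n4 (Good.n0 (Good.n2 L01426 L01427) L01428) (Good.n2 g00204 (Good.n2 g00205 L01471))) L01472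
theorem g00207 : Good (Phi V5.P V5.D (-1) (-1)) ⟨1, 1, 2, 0, 2, 3, 2, 1, 2, 1⟩ :=
  Good.n4 (Good.n4 (Good.n4 (Good.n2 L01473 L01474) (Good.n0 L01475 L01476)) (Good.n2 L01477 L01478)) L01479
theorem g00208 : Good (Phi V5.P V5.D (-1) (-1)) ⟨1, 1, 2, 0, 1, 1, 1, 0, 2, 1⟩ :=
  Good.n3 (Good.n4 (Good.n4 g00187 g00188) (Good.n2 L01350 L01351)) (Good.n2 (Good.n4 (Good.n0 g00191 g00192) (Good.n0 g00199 g00206)) g00207)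
theorem g00209 : Good (Phi V5.P V5.D (-1) (-1)) ⟨1, 1, 2, 0, 1, 1, 1, 0, 1, 0⟩ :=
  Good.n4 (Good.n0 (Good.n4 (Good.n0 g00157 g00163) (Good.n3 g00169 g00171)) (Good.n0 g00186 L01332)) g00208
theorem g00210 : Good (Phi V5.P V5.D (-1) (-1)) ⟨3, 4, 2, 0, 1, 1, 2, 3, 4, 0⟩ :=
  Good.n2 (Good.n3 L01488 L01489) (Good.n3 (Good.n2 L01490 L01491) (Good.n1 (Good.n3 L01492 L01493) (Good.n1 L01494 L01495)))
theorem g00211 : Good (Phi V5.P V5.D (-1) (-1)) ⟨4, 8, 2, 0, 2, 3, 1, 1, 4, 1⟩ :=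
  Good.n1 (Good.n3 (Good.n3 L01498 L01499) (Good.n3 L01500 L01501)) (Good.n3 (Good.n4 L01502 L01503) L01504)
theorem g00212 : Good (Phi V5.P V5.D (-1) (-1)) ⟨4, 9, 2, 0, 1, 1, 2, 2, 4, 1⟩ :=
  Good.n2 L01505 (Good.n4 (Good.n1 (Good.n3 L01506 L01507) L01508) (Good.n2 L01509 (Good.n3 L01510 L01511)))
theorem g00213 : Good (Phi V5.P V5.D (-1) (-1)) ⟨3, 4, 2, 0, 1, 1, 1, 1, 4, 1⟩ :=
  Good.n0 (Good.n2 (Good.n3 L01496 L01497) g00211) (Good.n3 g00212 (Good.n2 L01512 (Good.n4 (Good.n2 L01513 (Good.n3 L01514 L01515)) L01516)))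
theorem g00214 : Good (Phi V5.P V5.D (-1) (-1)) ⟨3, 4, 2, 0, 1, 1, 1, 1, 4, 2⟩ :=
  Good.n3 (Good.n2 L01517 (Good.n3 (Good.n2 L01518 L01519) (Good.n4 L01520 L01521))) (Good.n2 L01522 (Good.n3 L01523 L01524))
theorem g00215 : Good (Phi V5.P V5.D (-1) (-1)) ⟨3, 4, 2, 0, 1, 1, 1, 1, 4, 3⟩ :=
  Good.n3 (Good.n2 L01525 (Good.n4 (Good.n3 L01526 L01527) (Good.n2 L01528 L01529))) (Good.n2 (Good.n3 L01530 L01531) L01532)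
theorem g00216 : Good (Phi V5.P V5.D (-1) (-1)) ⟨3, 4, 2, 0, 1, 1, 1, 1, 2, 0⟩ :=
  Good.n4 (Good.n4 (Good.n3 (Good.n2 L01485 (Good.n2 L01486 L01487)) g00210) g00213) (Good.n4 g00214 g00215)
theorem g00217 : Good (Phi V5.P V5.D (-1) (-1)) ⟨3, 5, 3, 0, 2, 2, 2, 2, 2, 0⟩ :=
  Good.n4 (Good.n4 (Good.n0 L01533 L01534) (Good.n0 L01535 (Good.n4 L01536 L01537))) (Good.n4 L01538 L01539)
theorem g00218 : Good (Phi V5.P V5.D (-1) (-1)) ⟨3, 5, 3, 0, 2, 2, 2, 3, 3, 0⟩ :=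
  Good.n4 (Good.n0 L01540 (Good.n3 L01541 (Good.n3 L01542 L01543))) (Good.n3 (Good.n0 L01544 L01545) (Good.n0 L01546 (Good.n3 L01547 L01548)))
theorem g00219 : Good (Phi V5.P V5.D (-1) (-1)) ⟨4, 10, 3, 0, 2, 3, 1, 1, 4, 0⟩ :=
  Good.n3 (Good.n2 L01553 L01554) (Good.n2 (Good.n3 L01555 L01556) (Good.n3 (Good.n4 L01557 L01558) (Good.n4 L01559 L01560)))
theorem g00220 : Good (Phi V5.P V5.D (-1) (-1)) ⟨4, 11, 3, 0, 2, 3, 2, 3, 5, 0⟩ :=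
  Good.n3 (Good.n2 (Good.n0 L01566 L01567) (Good.n3 L01568 L01569)) (Good.n2 (Good.n0 L01570 L01571) (Good.n3 L01572 L01573))
theorem g00221 : Good (Phi V5.P V5.D (-1) (-1)) ⟨4, 11, 3, 0, 2, 3, 2, 3, 5, 1⟩ :=
  Good.n2 (Good.n3 L01574 (Good.n3 L01575 L01576)) (Good.n2 (Good.n3 L01577 L01578) (Good.n3 L01579 L01580))
theorem g00222 : Good (Phi V5.P V5.D (-1) (-1)) ⟨4, 11, 3, 0, 2, 3, 1, 1, 4, 0⟩ :=
  Good.n3 (Good.n2 (Good.n4 L01561 L01562) (Good.n4 L01563 (Good.n3 L01564 L01565))) (Good.n4 g00220 g00221)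
theorem g00223 : Good (Phi V5.P V5.D (-1) (-1)) ⟨3, 5, 3, 0, 2, 3, 2, 2, 4, 1⟩ :=
  Good.n2 (Good.n4 (Good.n4 L01581 L01582) (Good.n0 L01583 L01584)) (Good.n4 (Good.n3 L01585 (Good.n0 L01586 L01587)) (Good.n3 (Good.n0 L01588 L01589) L01590))
theorem g00224 : Good (Phi V5.P V5.D (-1) (-1)) ⟨4, 11, 3, 0, 2, 3, 2, 3, 5, 2⟩ :=
  Good.n2 (Good.n3 (Good.n0 L01596 L01597) L01598) (Good.n2 (Good.n3 L01599 L01600) (Good.n3 L01601 L01602))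
theorem g00225 : Good (Phi V5.P V5.D (-1) (-1)) ⟨3, 5, 3, 0, 2, 3, 2, 3, 4, 1⟩ :=
  Good.n0 (Good.n4 (Good.n3 (Good.n2 L01591 L01592) L01593) (Good.n2 L01594 L01595)) (Good.n4 g00224 (Good.n2 (Good.n2 L01603 L01604) L01605))
theorem g00226 : Good (Phi V5.P V5.D (-1) (-1)) ⟨3, 5, 3, 0, 2, 3, 1, 1, 5, 4⟩ :=
  Good.n3 (Good.n0 (Good.n3 (Good.n2 L01606 L01607) L01608) (Good.n3 L01609 (Good.n2 L01610 L01611))) (Good.n0 L01612 L01613)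
theorem g00227 : Good (Phi V5.P V5.D (-1) (-1)) ⟨3, 5, 3, 0, 2, 3, 1, 1, 3, 1⟩ :=
  Good.n4 (Good.n4 g00226 (Good.n3 (Good.n3 L01614 L01615) L01616)) (Good.n3 (Good.n3 L01617 (Good.n0 L01618 L01619)) L01620)
theorem g00228 : Good (Phi V5.P V5.D (-1) (-1)) ⟨3, 5, 3, 0, 1, 1, 1, 1, 2, 0⟩ :=
  Good.n2 (Good.n3 g00217 (Good.n4 g00218 (Good.n4 (Good.n3 L01549 L01550) (Good.n3 L01551 L01552)))) (Good.n4 (Good.n4 (Good.n0 g00219 g00222) (Good.n3 g00223 g00225)) g00227)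
theorem g00229 : Good (Phi V5.P V5.D (-1) (-1)) ⟨3, 5, 3, 1, 3, 7, 2, 3, 4, 0⟩ :=
  Good.n3 (Good.n0 L01638 (Good.n4 L01639 L01640)) (Good.n0 (Good.n1 L01641 L01642) (Good.n4 L01643 L01644))
theorem g00230 : Good (Phi V5.P V5.D (-1) (-1)) ⟨3, 5, 3, 1, 2, 3, 2, 3, 4, 0⟩ :=
  Good.n2 (Good.n0 (Good.n3 L01632 L01633) (Good.n3 (Good.n0 L01634 L01635) (Good.n3 L01636 L01637))) g00229
theorem g00231 : Good (Phi V5.P V5.D (-1) (-1)) ⟨3, 5, 3, 1, 2, 3, 1, 1, 4, 0⟩ :=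
  Good.n3 (Good.n0 (Good.n2 L01626 L01627) (Good.n2 (Good.n4 L01628 L01629) (Good.n3 L01630 L01631))) g00230
theorem g00232 : Good (Phi V5.P V5.D (-1) (-1)) ⟨4, 10, 3, 1, 1, 1, 2, 2, 4, 1⟩ :=
  Good.n2 L01645 (Good.n4 (Good.n2 L01646 (Good.n3 L01647 L01648)) (Good.n2 L01649 (Good.n0 L01650 L01651)))
theorem g00233 : Good (Phi V5.P V5.D (-1) (-1)) ⟨4, 10, 3, 1, 1, 1, 1, 1, 4, 1⟩ :=
  Good.n3 g00232 (Good.n2 L01652 (Good.n1 (Good.n3 (Good.n4 L01653 L01654) L01655) (Good.n2 L01656 L01657)))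
theorem g00234 : Good (Phi V5.P V5.D (-1) (-1)) ⟨5, 22, 4, 2, 2, 3, 1, 1, 4, 1⟩ :=
  Good.n4 (Good.n3 (Good.n2 L01661 (Good.n3 L01662 L01663)) (Good.n3 L01664 L01665)) (Good.n3 (Good.n2 L01666 (Good.n3 L01667 L01668)) L01669)
theorem g00235 : Good (Phi V5.P V5.D (-1) (-1)) ⟨5, 23, 4, 2, 2, 3, 2, 2, 4, 1⟩ :=
  Good.n2 (Good.n4 L01674 L01675) (Good.n4 (Good.n3 L01676 (Good.n3 L01677 L01678)) (Good.n3 L01679 L01680))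
theorem g00236 : Good (Phi V5.P V5.D (-1) (-1)) ⟨5, 23, 4, 2, 1, 1, 1, 1, 4, 1⟩ :=
  Good.n2 (Good.n3 (Good.n4 L01670 L01671) (Good.n3 L01672 L01673)) (Good.n3 g00235 (Good.n4 (Good.n2 L01681 (Good.n3 L01682 L01683)) (Good.n2 L01684 L01685)))
theorem g00237 : Good (Phi V5.P V5.D (-1) (-1)) ⟨4, 11, 4, 3, 1, 1, 2, 2, 4, 1⟩ :=
  Good.n2 L01686 (Good.n4 (Good.n2 L01687 (Good.n3 L01688 L01689)) (Good.n2 L01690 (Good.n3 L01691 L01692)))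
theorem g00238 : Good (Phi V5.P V5.D (-1) (-1)) ⟨4, 11, 4, 3, 1, 1, 1, 1, 4, 1⟩ :=
  Good.n3 g00237 (Good.n2 (Good.n3 L01693 L01694) (Good.n4 (Good.n3 L01695 L01696) (Good.n3 L01697 L01698)))
theorem g00239 : Good (Phi V5.P V5.D (-1) (-1)) ⟨3, 5, 3, 1, 1, 1, 1, 1, 4, 1⟩ :=
  Good.n0 g00233 (Good.n1 (Good.n0 (Good.n2 (Good.n3 L01658 (Good.n3 L01659 L01660)) g00234) g00236) g00238)
theorem g00240 : Good (Phi V5.P V5.D (-1) (-1)) ⟨3, 5, 3, 1, 1, 1, 1, 1, 3, 0⟩ :=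
  Good.n4 (Good.n2 (Good.n3 (Good.n0 L01621 L01622) (Good.n0 L01623 (Good.n3 L01624 L01625))) g00231) g00239
theorem g00241 : Good (Phi V5.P V5.D (-1) (-1)) ⟨3, 5, 3, 1, 1, 1, 2, 2, 3, 1⟩ :=
  Good.n4 (Good.n2 L01699 (Good.n4 (Good.n2 L01700 (Good.n0 L01701 L01702)) (Good.n0 L01703 L01704))) (Good.n2 L01705 (Good.n4 L01706 L01707))
theorem g00242 : Good (Phi V5.P V5.D (-1) (-1)) ⟨3, 5, 3, 1, 1, 1, 2, 3, 3, 1⟩ :=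
  Good.n4 (Good.n2 (Good.n4 L01708 L01709) (Good.n3 L01710 L01711)) (Good.n2 L01712 (Good.n4 L01713 L01714))
theorem g00243 : Good (Phi V5.P V5.D (-1) (-1)) ⟨3, 6, 2, 0, 2, 2, 2, 2, 3, 0⟩ :=
  Good.n0 (Good.n4 (Good.n1 L01715 (Good.n2 L01716 L01717)) (Good.n1 L01718 (Good.n4 L01719 L01720))) L01721
theorem g00244 : Good (Phi V5.P V5.D (-1) (-1)) ⟨3, 6, 2, 0, 2, 2, 2, 3, 4, 0⟩ :=
  Good.n0 (Good.n1 L01726 (Good.n0 (Good.n3 (Good.n4 L01727 L01728) (Good.n2 L01729 L01730)) L01731)) L01732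
theorem g00245 : Good (Phi V5.P V5.D (-1) (-1)) ⟨4, 12, 2, 0, 2, 2, 2, 3, 4, 1⟩ :=
  Good.n2 (Good.n1 L01733 (Good.n3 L01734 L01735)) (Good.n4 (Good.n3 L01736 L01737) (Good.n1 L01738 L01739))
theorem g00246 : Good (Phi V5.P V5.D (-1) (-1)) ⟨2, 3, 2, 0, 2, 2, 2, 3, 2, 0⟩ :=
  Good.n4 (Good.n0 (Good.n4 g00244 (Good.n0 g00245 L01740)) L01741) (Good.n0 (Good.n4 (Good.n4 (Good.n0 L01742 L01743) L01744) L01745) L01746)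
theorem g00247 : Good (Phi V5.P V5.D (-1) (-1)) ⟨3, 6, 3, 1, 2, 3, 2, 2, 4, 0⟩ :=
  Good.n2 (Good.n0 (Good.n4 L01748 L01749) L01750) (Good.n0 (Good.n4 L01751 (Good.n1 L01752 L01753)) L01754)
theorem g00248 : Good (Phi V5.P V5.D (-1) (-1)) ⟨4, 12, 3, 1, 2, 3, 2, 3, 5, 0⟩ :=
  Good.n3 (Good.n2 (Good.n0 (Good.n2 L01756 L01757) L01758) (Good.n2 L01759 L01760)) (Good.n2 (Good.n2 L01761 L01762) (Good.n3 L01763 L01764))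
theorem g00249 : Good (Phi V5.P V5.D (-1) (-1)) ⟨4, 12, 3, 1, 2, 3, 2, 3, 5, 1⟩ :=
  Good.n2 (Good.n0 (Good.n3 L01765 L01766) (Good.n3 L01767 L01768)) (Good.n2 (Good.n3 (Good.n0 L01769 L01770) L01771) (Good.n3 L01772 L01773))

end Crest.Agent.R097C5.N5mm
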