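import Crest.Agent.R097C5.N5mm_g0
import Crest.Agent.R097C5.N5mm_015
import Crest.Agent.R097C5.N5mm_016
import Crest.Agent.R097C5.N5mm_017
import Crest.Agent.R097C5.N5mm_018
import Crest.Agent.R097C5.N5mm_019
import Crest.Agent.R097C5.N5mm_020
import Crest.Agent.R097C5.N5mm_021
import Crest.Agent.R097C5.N5mm_022
import Crest.Agent.R097C5.N5mm_023
import Crest.Agent.R097C5.N5mm_024
import Crest.Agent.R097C5.N5mm_025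
import Crest.Agent.R097C5.N5mm_026
import Crest.Agent.R097C5.N5mm_027
import Crest.Agent.R097C5.N5mm_028
import Crest.Agent.R097C5.N5mm_029

/-!
# Row 97, box cover in dimension n = 5 (generated)
-/

set_option autoImplicit false
set_option Elab.async false
set_option maxHeartbeats 0
set_option maxRecDepth 100000

open Crest.Agent.R097 Crest.Agent.R097.KA


namespace Crest.Agent.R097C5.N5mm

theorem g00250 : Good (Phi V5.P V5.D (-1) (-1)) ⟨4, 12, 3, 1, 3, 6, 1, 1, 4, 1⟩ :=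
  Good.n4 (Good.n3 (Good.n2 L01776 L01777) (Good.n3 (Good.n2 L01778 L01779) L01780)) (Good.n3 L01781 L01782)
theorem g00251 : Good (Phi V5.P V5.D (-1) (-1)) ⟨4, 12, 3, 1, 3, 7, 1, 1, 4, 1⟩ :=
  Good.n3 (Good.n4 (Good.n2 (Good.n3 L01785 L01786) (Good.n3 L01787 L01788)) (Good.n3 L01789 L01790)) (Good.n4 (Good.n3 L01791 L01792) L01793)
theorem g00252 : Good (Phi V5.P V5.D (-1) (-1)) ⟨2, 3, 3, 1, 2, 3, 1, 1, 3, 0⟩ :=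
  Good.n4 (Good.n3 (Good.n0 g00247 L01755) (Good.n0 (Good.n0 (Good.n4 g00248 g00249) L01774) L01775)) (Good.n2 (Good.n0 (Good.n0 g00250 L01783) L01784) (Good.n0 (Good.n0 g00251 L01794) L01795))
theorem g00253 : Good (Phi V5.P V5.D (-1) (-1)) ⟨4, 12, 2, 0, 2, 3, 1, 1, 3, 1⟩ :=
  Good.n4 (Good.n1 L01796 (Good.n4 (Good.n3 (Good.n2 L01797 L01798) L01799) (Good.n3 L01800 L01801))) (Good.n3 (Good.n1 L01802 (Good.n4 L01803 L01804)) (Good.n4 L01805 L01806))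
theorem g00254 : Good (Phi V5.P V5.D (-1) (-1)) ⟨2, 3, 2, 0, 1, 1, 1, 1, 2, 0⟩ :=
  Good.n2 (Good.n3 (Good.n4 (Good.n0 g00243 L01722) (Good.n0 (Good.n4 L01723 L01724) L01725)) g00246) (Good.n4 (Good.n1 L01747 g00252) (Good.n0 (Good.n0 g00253 L01807) L01808))
theorem g00255 : Good (Phi V5.P V5.D (-1) (-1)) ⟨2, 2, 2, 0, 1, 1, 1, 1, 4, 4⟩ :=
  Good.n3 (Good.n2 (Good.n0 L01809 L01810) (Good.n4 (Good.n2 L01811 L01812) L01813)) (Good.n2 L01814 L01815)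
theorem g00256 : Good (Phi V5.P V5.D (-1) (-1)) ⟨4, 12, 2, 0, 1, 1, 1, 1, 4, 4⟩ :=
  Good.n3 (Good.n1 L01816 (Good.n2 L01817 (Good.n2 L01818 (Good.n2 L01819 L01820)))) (Good.n2 L01821 L01822)
theorem g00257 : Good (Phi V5.P V5.D (-1) (-1)) ⟨2, 3, 2, 0, 1, 1, 1, 1, 4, 5⟩ :=
  Good.n0 (Good.n0 (Good.n3 (Good.n2 (Good.n1 L01829 L01830) L01831) (Good.n2 L01832 L01833)) L01834) L01835
theorem g00258 : Good (Phi V5.P V5.D (-1) (-1)) ⟨1, 1, 2, 0, 1, 1, 1, 1, 3, 2⟩ :=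
  Good.n4 (Good.n0 g00255 (Good.n0 (Good.n0 g00256 L01823) L01824)) (Good.n0 (Good.n3 (Good.n2 L01825 L01826) (Good.n2 L01827 L01828)) g00257)
theorem g00259 : Good (Phi V5.P V5.D (-1) (-1)) ⟨2, 2, 2, 0, 3, 4, 2, 2, 4, 7⟩ :=
  Good.n4 L01839 (Good.n2 (Good.n3 (Good.n3 L01840 (Good.n4 (Good.n2 L01841 L01842) L01843)) L01844) L01845)
theorem g00260 : Good (Phi V5.P V5.D (-1) (-1)) ⟨4, 12, 2, 0, 3, 4, 2, 2, 4, 7⟩ :=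
  Good.n4 (Good.n3 L01850 L01851) (Good.n2 (Good.n3 (Good.n3 L01852 (Good.n4 (Good.n2 L01853 L01854) L01855)) L01856) L01857)
theorem g00261 : Good (Phi V5.P V5.D (-1) (-1)) ⟨2, 3, 2, 0, 2, 2, 2, 2, 3, 3⟩ :=
  Good.n0 (Good.n0 (Good.n4 (Good.n1 L01847 (Good.n2 L01848 L01849)) (Good.n2 g00260 L01858)) L01859) L01860
theorem g00262 : Good (Phi V5.P V5.D (-1) (-1)) ⟨1, 1, 2, 0, 2, 2, 1, 1, 3, 3⟩ :=
  Good.n3 (Good.n0 (Good.n4 (Good.n2 (Good.n3 L01836 L01837) L01838) (Good.n2 g00259 L01846)) g00261) L01861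
theorem g00263 : Good (Phi V5.P V5.D (-1) (-1)) ⟨1, 1, 2, 0, 1, 1, 1, 1, 1, 0⟩ :=
  Good.n4 (Good.n0 (Good.n0 g00216 (Good.n1 g00228 (Good.n4 g00240 (Good.n3 g00241 g00242)))) g00254) (Good.n4 g00258 (Good.n2 g00262 L01862))
theorem g00264 : Good (Phi V5.P V5.D (-1) (-1)) ⟨1, 1, 2, 0, 2, 2, 1, 1, 2, 2⟩ :=
  Good.n2 (Good.n4 (Good.n3 (Good.n2 (Good.n4 (Good.n3 L01863 L01864) L01865) L01866) L01867) L01868) L01869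
theorem g00265 : Good (Phi V5.P V5.D (-1) (-1)) ⟨1, 1, 2, 0, 1, 1, 0, 0, 0, 0⟩ :=
  Good.n3 (Good.n4 g00209 (Good.n2 (Good.n4 (Good.n4 (Good.n2 L01480 L01481) L01482) L01483) L01484)) (Good.n4 g00263 (Good.n2 (Good.n4 g00264 L01870) L01871))
theorem g00266 : Good (Phi V5.P V5.D (-1) (-1)) ⟨3, 5, 3, 2, 1, 0, 1, 0, 3, 0⟩ :=
  Good.n3 (Good.n4 (Good.n0 L01873 (Good.n3 (Good.n2 L01874 L01875) L01876)) L01877) (Good.n4 L01878 L01879)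
theorem g00267 : Good (Phi V5.P V5.D (-1) (-1)) ⟨2, 2, 2, 1, 1, 0, 1, 0, 2, 0⟩ :=
  Good.n4 (Good.n0 L01872 (Good.n1 g00266 L01880)) (Good.n0 L01881 (Good.n0 L01882 (Good.n4 L01883 L01884)))
theorem g00268 : Good (Phi V5.P V5.D (-1) (-1)) ⟨3, 5, 2, 1, 1, 0, 2, 1, 4, 5⟩ :=
  Good.n3 (Good.n4 (Good.n4 L01888 L01889) L01890) (Good.n2 (Good.n4 L01891 L01892) (Good.n4 L01893 (Good.n3 L01894 L01895)))
theorem g00269 : Good (Phi V5.P V5.D (-1) (-1)) ⟨2, 2, 2, 1, 1, 0, 1, 0, 2, 1⟩ :=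
  Good.n4 (Good.n0 L01885 (Good.n3 L01886 (Good.n4 L01887 g00268))) (Good.n3 L01896 (Good.n4 L01897 L01898))
theorem g00270 : Good (Phi V5.P V5.D (-1) (-1)) ⟨3, 6, 2, 1, 1, 0, 2, 0, 4, 0⟩ :=
  Good.n3 (Good.n2 (Good.n4 (Good.n0 L01899 L01900) L01901) (Good.n3 (Good.n0 L01902 L01903) L01904)) (Good.n0 L01905 L01906)
theorem g00271 : Good (Phi V5.P V5.D (-1) (-1)) ⟨2, 3, 2, 1, 1, 0, 2, 1, 3, 0⟩ :=
  Good.n4 (Good.n0 (Good.n0 (Good.n2 L01910 L01911) (Good.n2 L01912 (Good.n2 L01913 L01914))) L01915) (Good.n0 L01916 L01917)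
theorem g00272 : Good (Phi V5.P V5.D (-1) (-1)) ⟨2, 3, 2, 1, 1, 0, 1, 0, 2, 0⟩ :=
  Good.n4 (Good.n3 (Good.n0 (Good.n4 g00270 (Good.n3 L01907 L01908)) L01909) g00271) (Good.n0 (Good.n4 (Good.n0 (Good.n3 L01918 L01919) (Good.n2 L01920 L01921)) L01922) L01923)
theorem g00273 : Good (Phi V5.P V5.D (-1) (-1)) ⟨3, 6, 2, 1, 2, 1, 3, 3, 4, 5⟩ :=
  Good.n4 (Good.n3 (Good.n0 L01938 L01939) L01940) (Good.n3 (Good.n4 (Good.n0 L01941 L01942) L01943) (Good.n4 L01944 L01945))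
theorem g00274 : Good (Phi V5.P V5.D (-1) (-1)) ⟨3, 6, 2, 1, 2, 1, 1, 0, 4, 5⟩ :=
  Good.n3 L01932 (Good.n3 (Good.n4 (Good.n3 L01933 (Good.n4 L01934 (Good.n2 L01935 L01936))) L01937) g00273)
theorem g00275 : Good (Phi V5.P V5.D (-1) (-1)) ⟨3, 6, 2, 1, 1, 0, 1, 0, 3, 2⟩ :=
  Good.n2 (Good.n4 L01924 (Good.n3 L01925 (Good.n4 L01926 (Good.n0 L01927 L01928)))) (Good.n4 (Good.n3 L01929 (Good.n3 L01930 L01931)) g00274)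
theorem g00276 : Good (Phi V5.P V5.D (-1) (-1)) ⟨3, 6, 2, 1, 1, 0, 1, 0, 2, 1⟩ :=
  Good.n4 g00275 (Good.n3 L01946 (Good.n4 (Good.n2 L01947 (Good.n3 L01948 (Good.n4 L01949 L01950))) L01951))
theorem g00277 : Good (Phi V5.P V5.D (-1) (-1)) ⟨1, 1, 3, 2, 1, 0, 1, 1, 4, 0⟩ :=
  Good.n3 (Good.n0 L01954 (Good.n0 (Good.n0 L01955 L01956) L01957)) (Good.n0 L01958 (Good.n0 (Good.n0 L01959 (Good.n1 L01960 (Good.n0 L01961 L01962))) L01963))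
theorem g00278 : Good (Phi V5.P V5.D (-1) (-1)) ⟨1, 1, 3, 2, 1, 0, 1, 1, 4, 1⟩ :=
  Good.n0 (Good.n0 L01964 (Good.n0 L01965 (Good.n3 L01966 L01967))) (Good.n0 (Good.n3 L01968 (Good.n2 L01969 (Good.n3 L01970 L01971))) L01972)
theorem g00279 : Good (Phi V5.P V5.D (-1) (-1)) ⟨1, 1, 3, 2, 1, 0, 1, 1, 3, 1⟩ :=
  Good.n3 (Good.n0 L01973 (Good.n0 (Good.n4 L01974 L01975) L01976)) (Good.n4 (Good.n0 L01977 (Good.n0 (Good.n0 L01978 L01979) L01980)) (Good.n0 L01981 L01982))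
theorem g00280 : Good (Phi V5.P V5.D (-1) (-1)) ⟨3, 6, 3, 3, 2, 0, 1, 1, 3, 0⟩ :=
  Good.n3 (Good.n4 (Good.n0 L01984 (Good.n3 L01985 L01986)) L01987) (Good.n4 (Good.n0 L01988 (Good.n0 L01989 L01990)) (Good.n0 L01991 L01992))
theorem g00281 : Good (Phi V5.P V5.D (-1) (-1)) ⟨1, 1, 3, 3, 2, 0, 1, 1, 2, 0⟩ :=
  Good.n4 (Good.n0 L01983 (Good.n0 g00280 L01993)) (Good.n0 L01994 (Good.n0 (Good.n3 L01995 (Good.n0 L01996 L01997)) L01998))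
theorem g00282 : Good (Phi V5.P V5.D (-1) (-1)) ⟨1, 1, 3, 3, 2, 1, 2, 2, 2, 0⟩ :=
  Good.n4 (Good.n0 L01999 (Good.n0 (Good.n4 (Good.n0 L02000 L02001) (Good.n0 L02002 L02003)) L02004)) (Good.n0 L02005 (Good.n0 L02006 L02007))
theorem g00283 : Good (Phi V5.P V5.D (-1) (-1)) ⟨4, 13, 3, 3, 2, 1, 2, 3, 4, 0⟩ :=
  Good.n0 (Good.n3 L02010 (Good.n2 L02011 L02012)) (Good.n3 (Good.n0 L02013 L02014) (Good.n0 L02015 L02016))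
theorem g00284 : Good (Phi V5.P V5.D (-1) (-1)) ⟨1, 1, 3, 3, 2, 1, 2, 3, 3, 0⟩ :=
  Good.n4 (Good.n0 L02008 (Good.n0 (Good.n0 L02009 g00283) L02017)) (Good.n0 L02018 (Good.n0 (Good.n3 L02019 (Good.n0 L02020 L02021)) L02022))
theorem g00285 : Good (Phi V5.P V5.D (-1) (-1)) ⟨1, 1, 3, 3, 2, 1, 1, 1, 2, 0⟩ :=
  Good.n3 g00282 (Good.n4 g00284 (Good.n0 L02023 (Good.n0 (Good.n0 L02024 (Good.n2 L02025 L02026)) L02027)))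
theorem g00286 : Good (Phi V5.P V5.D (-1) (-1)) ⟨1, 1, 2, 1, 2, 0, 2, 2, 3, 3⟩ :=
  Good.n0 (Good.n0 L02034 (Good.n4 L02035 L02036)) (Good.n0 (Good.n4 (Good.n4 L02037 L02038) L02039) L02040)
theorem g00287 : Good (Phi V5.P V5.D (-1) (-1)) ⟨1, 1, 2, 1, 2, 0, 2, 2, 2, 1⟩ :=
  Good.n4 (Good.n0 (Good.n0 L02028 L02029) (Good.n0 (Good.n4 L02030 (Good.n4 L02031 L02032)) L02033)) g00286
theorem g00288 : Good (Phi V5.P V5.D (-1) (-1)) ⟨1, 1, 2, 1, 2, 0, 2, 3, 3, 3⟩ :=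
  Good.n0 (Good.n0 L02043 L02044) (Good.n0 (Good.n0 (Good.n4 L02045 L02046) (Good.n4 L02047 L02048)) L02049)
theorem g00289 : Good (Phi V5.P V5.D (-1) (-1)) ⟨3, 6, 2, 1, 3, 3, 3, 5, 4, 7⟩ :=
  Good.n0 (Good.n4 L02064 L02065) (Good.n1 L02066 (Good.n2 L02067 (Good.n4 (Good.n2 L02068 L02069) L02070)))
theorem g00290 : Good (Phi V5.P V5.D (-1) (-1)) ⟨2, 3, 2, 1, 2, 1, 2, 2, 3, 3⟩ :=
  Good.n0 (Good.n4 (Good.n4 (Good.n2 L02059 L02060) L02061) (Good.n2 L02062 (Good.n3 L02063 g00289))) L02071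
theorem g00291 : Good (Phi V5.P V5.D (-1) (-1)) ⟨1, 1, 2, 1, 2, 1, 2, 2, 2, 1⟩ :=
  Good.n4 (Good.n0 (Good.n0 L02050 L02051) (Good.n0 (Good.n3 (Good.n4 L02052 L02053) L02054) L02055)) (Good.n0 (Good.n0 L02056 (Good.n4 L02057 L02058)) g00290)
theorem g00292 : Good (Phi V5.P V5.D (-1) (-1)) ⟨2, 3, 2, 1, 2, 1, 2, 3, 3, 3⟩ :=
  Good.n4 (Good.n0 (Good.n0 L02077 L02078) L02079) (Good.n0 (Good.n2 L02080 (Good.n3 (Good.n2 L02081 L02082) L02083)) L02084)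
theorem g00293 : Good (Phi V5.P V5.D (-1) (-1)) ⟨1, 1, 2, 1, 2, 1, 1, 1, 2, 1⟩ :=
  Good.n3 g00291 (Good.n0 (Good.n4 L02072 (Good.n4 L02073 L02074)) (Good.n4 (Good.n0 L02075 L02076) g00292))
theorem g00294 : Good (Phi V5.P V5.D (-1) (-1)) ⟨1, 1, 2, 1, 1, 0, 1, 1, 1, 0⟩ :=
  Good.n4 (Good.n1 (Good.n4 (Good.n4 g00277 g00278) g00279) (Good.n2 g00281 g00285)) (Good.n2 (Good.n3 g00287 (Good.n4 (Good.n0 L02041 L02042) g00288)) g00293)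
theorem g00295 : Good (Phi V5.P V5.D (-1) (-1)) ⟨1, 1, 2, 1, 1, 0, 0, 0, 0, 0⟩ :=
  Good.n3 (Good.n4 (Good.n0 (Good.n4 g00267 g00269) (Good.n4 g00272 (Good.n0 g00276 L01952))) L01953) (Good.n4 g00294 L02085)
theorem g00296 : Good (Phi V5.P V5.D (-1) (-1)) ⟨3, 5, 3, 2, 2, 2, 2, 0, 3, 0⟩ :=
  Good.n4 (Good.n3 (Good.n1 L02087 L02088) L02089) (Good.n3 (Good.n4 (Good.n0 L02090 L02091) (Good.n3 L02092 L02093)) L02094)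
theorem g00297 : Good (Phi V5.P V5.D (-1) (-1)) ⟨4, 11, 3, 2, 2, 2, 2, 0, 4, 2⟩ :=
  Good.n2 L02099 (Good.n4 (Good.n3 (Good.n3 L02100 L02101) L02102) (Good.n3 (Good.n3 L02103 L02104) L02105))
theorem g00298 : Good (Phi V5.P V5.D (-1) (-1)) ⟨2, 2, 3, 2, 2, 2, 1, 0, 3, 1⟩ :=
  Good.n3 (Good.n0 L02097 (Good.n4 (Good.n0 L02098 g00297) L02106)) (Good.n0 L02107 (Good.n0 L02108 (Good.n4 L02109 L02110)))
theorem g00299 : Good (Phi V5.P V5.D (-1) (-1)) ⟨2, 3, 3, 2, 2, 2, 4, 0, 3, 0⟩ :=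
  Good.n4 (Good.n0 (Good.n2 (Good.n0 L02111 L02112) (Good.n4 L02113 (Good.n0 L02114 L02115))) L02116) (Good.n0 (Good.n2 L02117 (Good.n4 (Good.n0 L02118 L02119) (Good.n0 L02120 L02121))) L02122)
theorem g00300 : Good (Phi V5.P V5.D (-1) (-1)) ⟨2, 3, 3, 2, 2, 2, 2, 0, 3, 0⟩ :=
  Good.n3 (Good.n3 g00299 (Good.n0 (Good.n4 (Good.n2 L02123 L02124) (Good.n4 L02125 L02126)) L02127)) (Good.n0 (Good.n4 (Good.n0 L02128 (Good.n0 L02129 L02130)) (Good.n0 L02131 L02132)) L02133)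
theorem g00301 : Good (Phi V5.P V5.D (-1) (-1)) ⟨3, 6, 3, 2, 2, 2, 2, 1, 3, 0⟩ :=
  Good.n0 (Good.n4 L02134 (Good.n2 L02135 L02136)) (Good.n0 (Good.n1 L02137 (Good.n4 (Good.n0 (Good.n4 L02138 L02139) L02140) L02141)) L02142)
theorem g00302 : Good (Phi V5.P V5.D (-1) (-1)) ⟨4, 12, 3, 2, 2, 2, 2, 0, 4, 2⟩ :=
  Good.n4 (Good.n3 (Good.n3 (Good.n3 L02144 L02145) L02146) L02147) (Good.n0 (Good.n3 (Good.n3 L02148 L02149) L02150) (Good.n3 (Good.n3 L02151 L02152) L02153))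
theorem g00303 : Good (Phi V5.P V5.D (-1) (-1)) ⟨3, 6, 3, 2, 2, 2, 2, 0, 4, 2⟩ :=
  Good.n0 g00302 (Good.n0 (Good.n0 (Good.n3 (Good.n3 (Good.n3 L02154 L02155) L02156) L02157) L02158) L02159)
theorem g00304 : Good (Phi V5.P V5.D (-1) (-1)) ⟨2, 3, 3, 2, 2, 2, 1, 0, 3, 1⟩ :=
  Good.n0 (Good.n4 (Good.n3 g00303 (Good.n4 L02160 L02161)) (Good.n3 (Good.n3 L02162 L02163) L02164)) L02165
theorem g00305 : Good (Phi V5.P V5.D (-1) (-1)) ⟨1, 1, 3, 2, 2, 2, 1, 0, 2, 0⟩ :=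
  Good.n0 (Good.n4 (Good.n0 L02086 (Good.n3 g00296 (Good.n4 L02095 L02096))) g00298) (Good.n4 (Good.n3 g00300 (Good.n0 g00301 L02143)) g00304)
theorem g00306 : Good (Phi V5.P V5.D (-1) (-1)) ⟨1, 1, 3, 2, 3, 6, 3, 0, 4, 0⟩ :=
  Good.n3 (Good.n0 L02166 (Good.n0 (Good.n0 (Good.n4 L02167 L02168) L02169) L02170)) (Good.n0 L02171 (Good.n0 (Good.n0 L02172 L02173) L02174))
theorem g00307 : Good (Phi V5.P V5.D (-1) (-1)) ⟨3, 6, 3, 2, 3, 6, 3, 0, 5, 2⟩ :=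
  Good.n0 (Good.n0 (Good.n3 (Good.n3 L02178 L02179) L02180) (Good.n3 (Good.n2 L02181 L02182) L02183)) (Good.n0 (Good.n3 (Good.n4 L02184 L02185) L02186) L02187)
theorem g00308 : Good (Phi V5.P V5.D (-1) (-1)) ⟨3, 6, 3, 2, 3, 6, 4, 0, 5, 3⟩ :=
  Good.n0 (Good.n0 (Good.n3 (Good.n3 L02193 L02194) L02195) (Good.n3 (Good.n3 L02196 L02197) L02198)) (Good.n0 (Good.n0 (Good.n3 (Good.n3 L02199 L02200) L02201) L02202) L02203)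
theorem g00309 : Good (Phi V5.P V5.D (-1) (-1)) ⟨1, 1, 3, 2, 3, 6, 3, 0, 5, 3⟩ :=
  Good.n3 (Good.n0 (Good.n0 L02189 (Good.n3 (Good.n3 L02190 L02191) L02192)) (Good.n0 g00308 L02204)) (Good.n0 L02205 (Good.n0 (Good.n0 L02206 L02207) L02208))
theorem g00310 : Good (Phi V5.P V5.D (-1) (-1)) ⟨1, 1, 3, 2, 3, 6, 3, 0, 3, 0⟩ :=
  Good.n4 g00306 (Good.n4 (Good.n0 (Good.n0 L02175 (Good.n3 L02176 L02177)) (Good.n0 g00307 L02188)) g00309)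
theorem g00311 : Good (Phi V5.P V5.D (-1) (-1)) ⟨1, 1, 3, 2, 3, 6, 3, 1, 3, 0⟩ :=
  Good.n0 (Good.n0 L02209 (Good.n4 L02210 L02211)) (Good.n0 (Good.n4 L02212 (Good.n4 L02213 (Good.n0 L02214 L02215))) L02216)
theorem g00312 : Good (Phi V5.P V5.D (-1) (-1)) ⟨3, 6, 3, 2, 3, 7, 4, 0, 4, 1⟩ :=
  Good.n0 (Good.n4 (Good.n2 L02221 L02222) (Good.n0 L02223 (Good.n2 L02224 L02225))) (Good.n0 (Good.n2 L02226 L02227) L02228)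
theorem g00313 : Good (Phi V5.P V5.D (-1) (-1)) ⟨1, 1, 3, 2, 3, 7, 4, 1, 3, 0⟩ :=
  Good.n0 (Good.n4 L02230 L02231) (Good.n0 (Good.n4 L02232 (Good.n0 (Good.n4 L02233 L02234) (Good.n1 L02235 L02236))) L02237)
theorem g00314 : Good (Phi V5.P V5.D (-1) (-1)) ⟨1, 1, 3, 2, 3, 7, 3, 0, 3, 0⟩ :=
  Good.n3 (Good.n0 (Good.n4 L02217 (Good.n0 L02218 L02219)) (Good.n0 (Good.n4 L02220 g00312) L02229)) g00313
theorem g00315 : Good (Phi V5.P V5.D (-1) (-1)) ⟨1, 1, 3, 2, 3, 7, 3, 1, 3, 0⟩ :=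
  Good.n0 (Good.n0 L02238 (Good.n4 L02239 L02240)) (Good.n0 (Good.n4 L02241 (Good.n0 (Good.n4 L02242 L02243) (Good.n2 L02244 L02245))) L02246)
theorem g00316 : Good (Phi V5.P V5.D (-1) (-1)) ⟨2, 3, 3, 2, 2, 3, 2, 1, 5, 3⟩ :=
  Good.n0 (Good.n0 (Good.n2 L02261 (Good.n3 L02262 L02263)) (Good.n0 (Good.n2 L02264 L02265) L02266)) L02267
theorem g00317 : Good (Phi V5.P V5.D (-1) (-1)) ⟨1, 1, 3, 2, 2, 3, 2, 1, 4, 1⟩ :=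
  Good.n4 (Good.n0 L02252 (Good.n0 (Good.n2 L02253 (Good.n0 L02254 L02255)) L02256)) (Good.n0 (Good.n0 L02257 (Good.n0 L02258 (Good.n2 L02259 L02260))) g00316)
theorem g00318 : Good (Phi V5.P V5.D (-1) (-1)) ⟨1, 1, 3, 2, 2, 3, 1, 0, 3, 0⟩ :=
  Good.n3 (Good.n2 (Good.n3 g00310 g00311) (Good.n3 g00314 g00315)) (Good.n4 (Good.n0 L02247 (Good.n0 (Good.n0 (Good.n2 L02248 L02249) L02250) L02251)) g00317)
theorem g00319 : Good (Phi V5.P V5.D (-1) (-1)) ⟨4, 12, 3, 2, 3, 6, 4, 0, 4, 2⟩ :=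
  Good.n4 (Good.n2 (Good.n3 (Good.n3 L02273 L02274) L02275) (Good.n3 L02276 L02277)) (Good.n3 L02278 L02279)
theorem g00320 : Good (Phi V5.P V5.D (-1) (-1)) ⟨1, 1, 3, 2, 3, 6, 4, 0, 4, 2⟩ :=
  Good.n0 (Good.n0 L02268 (Good.n0 L02269 (Good.n4 (Good.n3 L02270 L02271) L02272))) (Good.n0 (Good.n0 g00319 (Good.n0 (Good.n3 (Good.n3 L02280 L02281) L02282) L02283)) L02284)
theorem g00321 : Good (Phi V5.P V5.D (-1) (-1)) ⟨1, 1, 3, 2, 2, 3, 3, 0, 4, 2⟩ :=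
  Good.n2 (Good.n3 g00320 (Good.n0 L02285 (Good.n0 (Good.n4 (Good.n0 L02286 L02287) L02288) L02289))) (Good.n0 L02290 (Good.n0 (Good.n0 (Good.n2 L02291 L02292) L02293) L02294))
theorem g00322 : Good (Phi V5.P V5.D (-1) (-1)) ⟨2, 3, 3, 2, 2, 3, 3, 1, 4, 2⟩ :=
  Good.n0 (Good.n0 (Good.n4 (Good.n2 L02297 L02298) L02299) (Good.n0 (Good.n4 L02300 L02301) L02302)) L02303
theorem g00323 : Good (Phi V5.P V5.D (-1) (-1)) ⟨1, 1, 3, 2, 2, 3, 2, 0, 4, 3⟩ :=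
  Good.n0 (Good.n0 L02304 (Good.n2 L02305 L02306)) (Good.n0 (Good.n0 (Good.n2 L02307 L02308) L02309) L02310)
theorem g00324 : Good (Phi V5.P V5.D (-1) (-1)) ⟨2, 2, 3, 2, 2, 3, 2, 1, 3, 1⟩ :=
  Good.n4 (Good.n0 L02311 (Good.n0 L02312 (Good.n2 L02313 L02314))) (Good.n0 L02315 (Good.n2 L02316 L02317))
theorem g00325 : Good (Phi V5.P V5.D (-1) (-1)) ⟨3, 6, 3, 2, 2, 3, 2, 1, 3, 1⟩ :=
  Good.n4 (Good.n0 (Good.n4 (Good.n2 L02318 L02319) L02320) (Good.n0 (Good.n2 L02321 L02322) L02323)) (Good.n2 L02324 L02325)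
theorem g00326 : Good (Phi V5.P V5.D (-1) (-1)) ⟨1, 1, 3, 2, 2, 3, 1, 0, 3, 1⟩ :=
  Good.n3 (Good.n4 (Good.n3 g00321 (Good.n0 (Good.n0 L02295 L02296) g00322)) g00323) (Good.n0 g00324 (Good.n0 g00325 L02326))
theorem g00327 : Good (Phi V5.P V5.D (-1) (-1)) ⟨3, 6, 3, 3, 2, 2, 4, 0, 4, 0⟩ :=
  Good.n2 (Good.n0 L02328 L02329) (Good.n4 (Good.n0 L02330 L02331) (Good.n0 L02332 (Good.n0 L02333 (Good.n0 L02334 L02335))))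
theorem g00328 : Good (Phi V5.P V5.D (-1) (-1)) ⟨2, 3, 3, 3, 1, 1, 4, 0, 4, 0⟩ :=
  Good.n2 (Good.n0 g00327 L02336) (Good.n0 (Good.n2 (Good.n0 L02337 (Good.n4 L02338 L02339)) (Good.n0 L02340 L02341)) L02342)
theorem g00329 : Good (Phi V5.P V5.D (-1) (-1)) ⟨2, 3, 3, 3, 1, 1, 3, 0, 4, 0⟩ :=
  Good.n3 g00328 (Good.n0 (Good.n2 (Good.n0 L02343 (Good.n2 L02344 L02345)) (Good.n0 L02346 L02347)) L02348)
theorem g00330 : Good (Phi V5.P V5.D (-1) (-1)) ⟨3, 6, 3, 3, 2, 3, 4, 0, 5, 2⟩ :=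
  Good.n0 (Good.n2 (Good.n4 L02353 L02354) (Good.n0 L02355 L02356)) (Good.n2 (Good.n3 (Good.n3 L02357 L02358) L02359) (Good.n2 L02360 L02361))
theorem g00331 : Good (Phi V5.P V5.D (-1) (-1)) ⟨2, 3, 3, 3, 1, 1, 4, 1, 5, 2⟩ :=
  Good.n0 (Good.n2 (Good.n2 L02363 (Good.n0 L02364 L02365)) (Good.n0 L02366 (Good.n2 L02367 L02368))) L02369
theorem g00332 : Good (Phi V5.P V5.D (-1) (-1)) ⟨2, 3, 3, 3, 1, 1, 3, 0, 5, 2⟩ :=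
  Good.n3 (Good.n0 (Good.n2 (Good.n2 L02349 (Good.n0 L02350 (Good.n0 L02351 L02352))) g00330) L02362) g00331
theorem g00333 : Good (Phi V5.P V5.D (-1) (-1)) ⟨2, 3, 3, 3, 2, 2, 3, 0, 5, 3⟩ :=
  Good.n0 (Good.n0 (Good.n3 L02370 L02371) (Good.n2 L02372 (Good.n3 (Good.n3 L02373 L02374) L02375))) L02376
theorem g00334 : Good (Phi V5.P V5.D (-1) (-1)) ⟨5, 25, 3, 3, 3, 6, 3, 0, 5, 3⟩ :=
  Good.n4 (Good.n3 (Good.n3 L02378 L02379) L02380) (Good.n3 (Good.n3 (Good.n2 (Good.n3 L02381 L02382) L02383) L02384) L02385)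
theorem g00335 : Good (Phi V5.P V5.D (-1) (-1)) ⟨6, 52, 3, 3, 3, 6, 3, 0, 6, 7⟩ :=
  Good.n1 (Good.n3 (Good.n3 (Good.n2 (Good.n3 L02389 L02390) L02391) L02392) L02393) (Good.n3 (Good.n3 L02394 L02395) L02396)
theorem g00336 : Good (Phi V5.P V5.D (-1) (-1)) ⟨6, 53, 3, 3, 3, 6, 3, 0, 5, 3⟩ :=
  Good.n4 (Good.n3 (Good.n3 L02397 L02398) L02399) (Good.n3 (Good.n2 (Good.n3 L02400 L02401) L02402) L02403)
theorem g00337 : Good (Phi V5.P V5.D (-1) (-1)) ⟨4, 13, 3, 3, 3, 6, 3, 0, 5, 3⟩ :=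
  Good.n0 (Good.n0 (Good.n4 (Good.n3 (Good.n3 L02386 L02387) L02388) g00335) g00336) (Good.n1 L02404 (Good.n3 (Good.n3 L02405 L02406) L02407))
theorem g00338 : Good (Phi V5.P V5.D (-1) (-1)) ⟨2, 3, 3, 3, 3, 7, 3, 0, 5, 3⟩ :=
  Good.n0 (Good.n0 (Good.n0 L02409 L02410) (Good.n0 (Good.n2 L02411 L02412) (Good.n1 L02413 L02414))) L02415
theorem g00339 : Good (Phi V5.P V5.D (-1) (-1)) ⟨2, 3, 3, 3, 1, 1, 3, 0, 4, 1⟩ :=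
  Good.n4 g00332 (Good.n2 g00333 (Good.n2 (Good.n0 (Good.n0 (Good.n0 L02377 g00334) g00337) L02408) g00338))
theorem g00340 : Good (Phi V5.P V5.D (-1) (-1)) ⟨2, 3, 3, 3, 1, 1, 3, 1, 4, 0⟩ :=
  Good.n0 (Good.n2 (Good.n4 (Good.n0 (Good.n0 L02416 L02417) L02418) L02419) (Good.n0 L02420 L02421)) L02422
theorem g00341 : Good (Phi V5.P V5.D (-1) (-1)) ⟨3, 6, 3, 3, 2, 3, 3, 1, 4, 1⟩ :=
  Good.n0 (Good.n4 L02426 (Good.n0 L02427 (Good.n2 L02428 L02429))) (Good.n4 (Good.n0 L02430 (Good.n1 L02431 (Good.n0 L02432 L02433))) (Good.n2 L02434 L02435))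
theorem g00342 : Good (Phi V5.P V5.D (-1) (-1)) ⟨2, 3, 3, 3, 1, 1, 2, 0, 3, 0⟩ :=
  Good.n3 (Good.n4 g00329 g00339) (Good.n4 g00340 (Good.n0 (Good.n2 (Good.n0 L02423 (Good.n2 L02424 L02425)) g00341) L02436))
theorem g00343 : Good (Phi V5.P V5.D (-1) (-1)) ⟨2, 3, 3, 3, 2, 2, 2, 1, 4, 0⟩ :=
  Good.n0 (Good.n0 L02438 (Good.n0 (Good.n4 L02439 L02440) (Good.n0 (Good.n4 L02441 L02442) L02443))) L02444
theorem g00344 : Good (Phi V5.P V5.D (-1) (-1)) ⟨1, 1, 3, 3, 1, 1, 2, 1, 4, 0⟩ :=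
  Good.n2 (Good.n0 L02437 g00343) (Good.n0 L02445 (Good.n0 (Good.n2 (Good.n0 L02446 L02447) (Good.n0 L02448 L02449)) L02450))
theorem g00345 : Good (Phi V5.P V5.D (-1) (-1)) ⟨2, 3, 3, 3, 2, 3, 3, 3, 5, 2⟩ :=
  Good.n0 (Good.n4 (Good.n0 L02461 (Good.n1 L02462 L02463)) (Good.n0 L02464 (Good.n2 L02465 L02466))) L02467
theorem g00346 : Good (Phi V5.P V5.D (-1) (-1)) ⟨2, 3, 3, 3, 2, 3, 2, 1, 5, 3⟩ :=
  Good.n2 (Good.n0 (Good.n0 L02468 (Good.n2 L02469 L02470)) L02471) (Good.n0 (Good.n4 (Good.n1 L02472 L02473) L02474) L02475)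
theorem g00347 : Good (Phi V5.P V5.D (-1) (-1)) ⟨2, 3, 3, 3, 1, 1, 2, 1, 4, 1⟩ :=
  Good.n2 (Good.n0 (Good.n0 L02452 (Good.n2 L02453 (Good.n0 L02454 L02455))) L02456) (Good.n4 (Good.n3 (Good.n0 (Good.n0 L02457 (Good.n2 L02458 L02459)) L02460) g00345) g00346)
theorem g00348 : Good (Phi V5.P V5.D (-1) (-1)) ⟨5, 25, 4, 6, 2, 2, 2, 0, 4, 2⟩ :=
  Good.n4 (Good.n3 (Good.n3 (Good.n3 L02478 L02479) L02480) L02481) (Good.n3 (Good.n3 L02482 L02483) L02484)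
theorem g00349 : Good (Phi V5.P V5.D (-1) (-1)) ⟨5, 25, 4, 6, 3, 6, 3, 0, 4, 2⟩ :=
  Good.n4 (Good.n2 (Good.n3 (Good.n3 L02487 L02488) L02489) (Good.n3 (Good.n3 L02490 L02491) L02492)) (Good.n3 (Good.n3 L02493 L02494) L02495)
theorem g00350 : Good (Phi V5.P V5.D (-1) (-1)) ⟨5, 25, 4, 6, 2, 3, 2, 0, 3, 1⟩ :=
  Good.n3 (Good.n2 (Good.n4 g00349 L02496) (Good.n4 L02497 L02498)) (Good.n4 (Good.n2 L02499 L02500) L02501)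
theorem g00351 : Good (Phi V5.P V5.D (-1) (-1)) ⟨5, 26, 4, 6, 2, 3, 3, 0, 5, 4⟩ :=
  Good.n2 (Good.n2 (Good.n3 (Good.n3 L02508 L02509) L02510) (Good.n3 (Good.n3 L02511 L02512) L02513)) L02514
theorem g00352 : Good (Phi V5.P V5.D (-1) (-1)) ⟨5, 26, 4, 6, 1, 1, 3, 0, 3, 1⟩ :=
  Good.n2 (Good.n4 (Good.n4 (Good.n3 (Good.n3 L02502 L02503) L02504) (Good.n3 L02505 L02506)) L02507) (Good.n4 (Good.n4 g00351 (Good.n2 (Good.n3 (Good.n3 L02515 L02516) L02517) L02518)) L02519)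
theorem g00353 : Good (Phi V5.P V5.D (-1) (-1)) ⟨4, 13, 4, 6, 1, 1, 2, 0, 3, 1⟩ :=
  Good.n0 (Good.n3 g00352 (Good.n2 (Good.n4 L02520 L02521) (Good.n4 (Good.n4 L02522 L02523) L02524))) L02525
theorem g00354 : Good (Phi V5.P V5.D (-1) (-1)) ⟨2, 3, 4, 6, 1, 1, 2, 0, 3, 1⟩ :=
  Good.n0 (Good.n0 (Good.n0 L02477 (Good.n2 (Good.n4 g00348 (Good.n3 L02485 L02486)) g00350)) g00353) L02526
theorem g00355 : Good (Phi V5.P V5.D (-1) (-1)) ⟨4, 13, 4, 7, 3, 5, 2, 0, 5, 4⟩ :=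
  Good.n3 (Good.n0 (Good.n3 (Good.n3 L02534 L02535) L02536) (Good.n3 (Good.n3 L02537 L02538) L02539)) L02540
theorem g00356 : Good (Phi V5.P V5.D (-1) (-1)) ⟨3, 6, 4, 7, 3, 5, 2, 0, 4, 2⟩ :=
  Good.n0 (Good.n3 (Good.n3 (Good.n3 L02530 L02531) L02532) L02533) (Good.n4 g00355 (Good.n3 (Good.n3 L02541 L02542) L02543))
theorem g00357 : Good (Phi V5.P V5.D (-1) (-1)) ⟨3, 6, 4, 7, 2, 2, 2, 0, 3, 1⟩ :=
  Good.n2 (Good.n4 (Good.n3 L02527 L02528) L02529) (Good.n4 g00356 (Good.n0 L02544 (Good.n3 L02545 L02546)))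
theorem g00358 : Good (Phi V5.P V5.D (-1) (-1)) ⟨5, 26, 4, 7, 3, 6, 3, 0, 5, 4⟩ :=
  Good.n4 (Good.n3 (Good.n3 L02551 L02552) L02553) (Good.n0 (Good.n3 (Good.n3 L02554 L02555) L02556) (Good.n3 (Good.n3 L02557 L02558) L02559))
theorem g00359 : Good (Phi V5.P V5.D (-1) (-1)) ⟨5, 27, 4, 7, 3, 6, 3, 0, 5, 4⟩ :=
  Good.n0 (Good.n4 (Good.n3 (Good.n3 L02560 L02561) L02562) (Good.n3 (Good.n3 L02563 L02564) L02565)) L02566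
theorem g00360 : Good (Phi V5.P V5.D (-1) (-1)) ⟨4, 13, 4, 7, 3, 6, 3, 0, 5, 5⟩ :=
  Good.n0 (Good.n3 (Good.n2 (Good.n3 L02569 L02570) L02571) L02572) (Good.n0 (Good.n3 L02573 L02574) L02575)
theorem g00361 : Good (Phi V5.P V5.D (-1) (-1)) ⟨3, 6, 4, 7, 3, 6, 3, 0, 4, 2⟩ :=
  Good.n4 (Good.n0 (Good.n0 L02547 (Good.n3 (Good.n3 L02548 L02549) L02550)) (Good.n0 g00358 g00359)) (Good.n0 (Good.n3 L02567 L02568) g00360)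
theorem g00362 : Good (Phi V5.P V5.D (-1) (-1)) ⟨3, 6, 4, 7, 2, 3, 2, 0, 4, 2⟩ :=
  Good.n2 (Good.n3 g00361 (Good.n0 L02576 L02577)) (Good.n4 (Good.n0 L02578 (Good.n2 L02579 L02580)) (Good.n2 L02581 L02582))
theorem g00363 : Good (Phi V5.P V5.D (-1) (-1)) ⟨2, 3, 3, 3, 1, 1, 2, 0, 3, 1⟩ :=
  Good.n1 g00354 (Good.n0 (Good.n2 g00357 (Good.n4 g00362 (Good.n0 L02583 (Good.n2 L02584 L02585)))) L02586)
theorem g00364 : Good (Phi V5.P V5.D (-1) (-1)) ⟨3, 6, 3, 3, 1, 1, 2, 1, 4, 2⟩ :=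
  Good.n2 (Good.n4 (Good.n0 L02587 L02588) (Good.n2 L02589 L02590)) (Good.n0 (Good.n2 L02591 L02592) (Good.n4 (Good.n2 L02593 L02594) (Good.n2 L02595 L02596)))
theorem g00365 : Good (Phi V5.P V5.D (-1) (-1)) ⟨3, 6, 3, 3, 1, 1, 2, 1, 3, 1⟩ :=
  Good.n4 g00364 (Good.n0 (Good.n2 L02597 (Good.n2 L02598 L02599)) (Good.n2 L02600 (Good.n4 L02601 L02602)))
theorem g00366 : Good (Phi V5.P V5.D (-1) (-1)) ⟨1, 1, 3, 3, 1, 1, 1, 0, 2, 0⟩ :=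
  Good.n4 (Good.n3 (Good.n0 L02327 g00342) (Good.n4 g00344 (Good.n0 L02451 g00347))) (Good.n0 L02476 (Good.n3 g00363 (Good.n0 g00365 L02603)))
theorem g00367 : Good (Phi V5.P V5.D (-1) (-1)) ⟨2, 3, 2, 1, 2, 2, 1, 0, 4, 4⟩ :=
  Good.n3 (Good.n0 (Good.n4 L02607 L02608) L02609) (Good.n0 (Good.n3 (Good.n2 L02610 L02611) L02612) L02613)
theorem g00368 : Good (Phi V5.P V5.D (-1) (-1)) ⟨3, 6, 2, 1, 2, 3, 1, 0, 4, 4⟩ :=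
  Good.n3 L02619 (Good.n0 (Good.n2 L02620 (Good.n1 L02621 L02622)) (Good.n4 L02623 (Good.n2 L02624 L02625)))
theorem g00369 : Good (Phi V5.P V5.D (-1) (-1)) ⟨1, 1, 2, 1, 2, 3, 1, 0, 4, 4⟩ :=
  Good.n0 (Good.n0 L02614 (Good.n1 (Good.n0 L02615 (Good.n3 L02616 L02617)) L02618)) (Good.n0 g00368 L02626)
theorem g00370 : Good (Phi V5.P V5.D (-1) (-1)) ⟨4, 11, 2, 1, 1, 1, 1, 0, 4, 5⟩ :=
  Good.n2 (Good.n3 L02629 (Good.n1 (Good.n3 (Good.n4 L02630 L02631) (Good.n2 L02632 L02633)) L02634)) (Good.n3 L02635 (Good.n1 (Good.n4 L02636 L02637) L02638))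
theorem g00371 : Good (Phi V5.P V5.D (-1) (-1)) ⟨3, 6, 2, 1, 3, 4, 2, 1, 4, 5⟩ :=
  Good.n3 (Good.n4 (Good.n3 (Good.n0 L02640 L02641) (Good.n0 L02642 L02643)) (Good.n0 L02644 L02645)) (Good.n3 (Good.n4 L02646 L02647) L02648)
theorem g00372 : Good (Phi V5.P V5.D (-1) (-1)) ⟨3, 6, 2, 1, 1, 1, 1, 0, 4, 5⟩ :=
  Good.n2 (Good.n3 L02639 (Good.n2 g00371 (Good.n4 L02649 L02650))) (Good.n3 (Good.n2 L02651 L02652) (Good.n4 (Good.n2 L02653 L02654) (Good.n2 L02655 L02656)))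
theorem g00373 : Good (Phi V5.P V5.D (-1) (-1)) ⟨1, 1, 2, 1, 1, 1, 1, 0, 3, 2⟩ :=
  Good.n4 (Good.n2 (Good.n0 (Good.n0 L02604 (Good.n3 L02605 L02606)) g00367) g00369) (Good.n0 (Good.n0 L02627 (Good.n0 L02628 g00370)) (Good.n0 g00372 L02657))
theorem g00374 : Good (Phi V5.P V5.D (-1) (-1)) ⟨2, 3, 2, 1, 2, 2, 2, 1, 4, 6⟩ :=
  Good.n2 (Good.n0 (Good.n4 (Good.n3 L02662 L02663) L02664) L02665) (Good.n0 (Good.n4 (Good.n3 L02666 L02667) (Good.n2 L02668 L02669)) L02670)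
theorem g00375 : Good (Phi V5.P V5.D (-1) (-1)) ⟨1, 1, 2, 1, 1, 1, 1, 0, 4, 6⟩ :=
  Good.n2 (Good.n3 L02658 (Good.n0 (Good.n0 L02659 (Good.n2 L02660 L02661)) g00374)) (Good.n0 L02671 (Good.n3 L02672 (Good.n3 L02673 L02674)))
theorem g00376 : Good (Phi V5.P V5.D (-1) (-1)) ⟨1, 1, 2, 1, 9, 304, 8, 126, 9, 224⟩ :=
  Good.n4 (Good.n2 (Good.n3 L02691 (Good.n4 (Good.n2 (Good.n3 L02692 L02693) L02694) L02695)) L02696) L02697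
theorem g00377 : Good (Phi V5.P V5.D (-1) (-1)) ⟨1, 1, 2, 1, 8, 152, 6, 31, 8, 112⟩ :=
  Good.n3 (Good.n4 (Good.n3 L02685 (Good.n4 (Good.n3 L02686 (Good.n2 L02687 L02688)) L02689)) L02690) (Good.n4 (Good.n2 (Good.n3 g00376 L02698) L02699) L02700)
theorem g00378 : Good (Phi V5.P V5.D (-1) (-1)) ⟨1, 1, 2, 1, 6, 38, 5, 15, 7, 56⟩ :=
  Good.n2 (Good.n3 L02684 (Good.n4 (Good.n2 g00377 L02701) L02702)) (Good.n3 (Good.n4 (Good.n2 L02703 L02704) L02705) L02706)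
theorem g00379 : Good (Phi V5.P V5.D (-1) (-1)) ⟨1, 1, 2, 1, 5, 19, 4, 7, 6, 28⟩ :=
  Good.n3 (Good.n4 (Good.n3 L02680 (Good.n2 L02681 L02682)) L02683) (Good.n2 (Good.n4 g00378 L02707) L02708)
theorem g00380 : Good (Phi V5.P V5.D (-1) (-1)) ⟨1, 1, 2, 1, 3, 4, 2, 1, 4, 7⟩ :=
  Good.n3 L02676 (Good.n4 (Good.n2 L02677 (Good.n3 L02678 (Good.n4 (Good.n2 L02679 g00379) L02709))) L02710)
theorem g00381 : Good (Phi V5.P V5.D (-1) (-1)) ⟨1, 1, 2, 1, 4, 10, 2, 1, 4, 7⟩ :=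
  Good.n4 (Good.n3 L02711 (Good.n2 (Good.n4 (Good.n3 (Good.n3 L02712 L02713) L02714) L02715) L02716)) L02717
theorem g00382 : Good (Phi V5.P V5.D (-1) (-1)) ⟨1, 1, 2, 1, 1, 1, 1, 0, 2, 1⟩ :=
  Good.n4 g00373 (Good.n4 g00375 (Good.n2 (Good.n3 L02675 (Good.n2 g00380 (Good.n2 g00381 L02718))) L02719))
theorem g00383 : Good (Phi V5.P V5.D (-1) (-1)) ⟨1, 1, 2, 1, 1, 1, 1, 0, 0, 0⟩ :=
  Good.n4 (Good.n4 (Good.n1 (Good.n2 g00305 (Good.n4 g00318 g00326)) g00366) g00382) (Good.n2 (Good.n4 (Good.n4 (Good.n2 L02720 L02721) L02722) L02723) L02724)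
theorem g00384 : Good (Phi V5.P V5.D (-1) (-1)) ⟨2, 2, 3, 2, 2, 2, 1, 1, 3, 0⟩ :=
  Good.n4 (Good.n0 L02725 (Good.n0 L02726 (Good.n3 L02727 L02728))) (Good.n0 L02729 (Good.n0 L02730 (Good.n3 L02731 L02732)))
theorem g00385 : Good (Phi V5.P V5.D (-1) (-1)) ⟨3, 6, 3, 2, 2, 2, 2, 2, 3, 0⟩ :=
  Good.n4 (Good.n0 (Good.n0 L02733 (Good.n4 L02734 L02735)) (Good.n0 L02736 L02737)) (Good.n0 (Good.n2 L02738 (Good.n4 L02739 L02740)) L02741)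
theorem g00386 : Good (Phi V5.P V5.D (-1) (-1)) ⟨3, 6, 3, 2, 2, 2, 3, 6, 3, 0⟩ :=
  Good.n4 (Good.n0 (Good.n0 L02743 (Good.n4 L02744 L02745)) L02746) (Good.n0 (Good.n0 L02747 L02748) L02749)
theorem g00387 : Good (Phi V5.P V5.D (-1) (-1)) ⟨3, 6, 3, 2, 2, 2, 3, 7, 3, 0⟩ :=
  Good.n4 (Good.n3 (Good.n0 (Good.n0 L02751 L02752) L02753) (Good.n0 (Good.n1 L02754 L02755) L02756)) (Good.n3 (Good.n0 L02757 L02758) (Good.n0 (Good.n0 L02759 L02760) (Good.n0 L02761 L02762)))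
theorem g00388 : Good (Phi V5.P V5.D (-1) (-1)) ⟨1, 1, 3, 2, 2, 2, 1, 1, 3, 0⟩ :=
  Good.n0 g00384 (Good.n3 (Good.n0 g00385 L02742) (Good.n3 (Good.n0 g00386 L02750) (Good.n0 g00387 L02763)))
theorem g00389 : Good (Phi V5.P V5.D (-1) (-1)) ⟨3, 5, 3, 2, 2, 3, 2, 3, 4, 0⟩ :=
  Good.n3 (Good.n0 L02767 (Good.n2 L02768 (Good.n4 L02769 L02770))) (Good.n0 L02771 (Good.n2 L02772 (Good.n2 L02773 L02774)))
theorem g00390 : Good (Phi V5.P V5.D (-1) (-1)) ⟨4, 11, 3, 2, 2, 3, 1, 1, 4, 1⟩ :=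
  Good.n3 (Good.n4 (Good.n2 L02776 (Good.n3 L02777 L02778)) (Good.n2 L02779 L02780)) (Good.n1 (Good.n2 L02781 (Good.n1 L02782 L02783)) (Good.n2 L02784 L02785))
theorem g00391 : Good (Phi V5.P V5.D (-1) (-1)) ⟨3, 6, 3, 2, 4, 13, 2, 3, 5, 0⟩ :=
  Good.n0 (Good.n1 (Good.n3 L02795 (Good.n3 L02796 L02797)) (Good.n3 L02798 (Good.n0 L02799 L02800))) (Good.n3 L02801 L02802)
theorem g00392 : Good (Phi V5.P V5.D (-1) (-1)) ⟨3, 6, 3, 2, 3, 6, 2, 3, 5, 0⟩ :=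
  Good.n2 (Good.n0 (Good.n0 (Good.n3 L02789 L02790) (Good.n3 L02791 L02792)) (Good.n3 L02793 L02794)) g00391
theorem g00393 : Good (Phi V5.P V5.D (-1) (-1)) ⟨3, 6, 3, 2, 3, 7, 2, 3, 5, 0⟩ :=
  Good.n3 (Good.n0 (Good.n2 (Good.n1 L02804 L02805) L02806) (Good.n0 L02807 L02808)) (Good.n0 (Good.n3 L02809 L02810) (Good.n3 L02811 L02812))
theorem g00394 : Good (Phi V5.P V5.D (-1) (-1)) ⟨2, 3, 3, 2, 2, 3, 1, 1, 5, 0⟩ :=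
  Good.n0 (Good.n2 (Good.n3 (Good.n0 (Good.n1 L02786 L02787) L02788) g00392) (Good.n3 L02803 g00393)) L02813
theorem g00395 : Good (Phi V5.P V5.D (-1) (-1)) ⟨3, 6, 4, 4, 3, 7, 1, 1, 5, 1⟩ :=
  Good.n3 (Good.n3 L02820 (Good.n0 L02821 L02822)) (Good.n0 (Good.n3 (Good.n0 L02823 L02824) L02825) L02826)
theorem g00396 : Good (Phi V5.P V5.D (-1) (-1)) ⟨2, 3, 4, 4, 2, 3, 1, 1, 5, 1⟩ :=
  Good.n2 (Good.n0 (Good.n0 (Good.n3 L02814 (Good.n3 L02815 (Good.n0 L02816 L02817))) L02818) L02819) (Good.n0 g00395 L02827)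
theorem g00397 : Good (Phi V5.P V5.D (-1) (-1)) ⟨3, 6, 4, 5, 3, 6, 2, 3, 5, 1⟩ :=
  Good.n0 (Good.n0 (Good.n3 L02834 L02835) (Good.n3 L02836 L02837)) (Good.n0 (Good.n3 (Good.n0 L02838 L02839) L02840) L02841)
theorem g00398 : Good (Phi V5.P V5.D (-1) (-1)) ⟨2, 3, 4, 5, 3, 6, 1, 1, 5, 1⟩ :=
  Good.n3 (Good.n0 (Good.n0 (Good.n0 L02828 L02829) (Good.n0 (Good.n0 L02830 L02831) L02832)) L02833) (Good.n0 g00397 L02842)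
theorem g00399 : Good (Phi V5.P V5.D (-1) (-1)) ⟨2, 3, 4, 5, 3, 7, 2, 3, 5, 1⟩ :=
  Good.n0 (Good.n0 (Good.n2 (Good.n3 L02847 L02848) (Good.n3 L02849 L02850)) (Good.n3 L02851 L02852)) L02853
theorem g00400 : Good (Phi V5.P V5.D (-1) (-1)) ⟨2, 3, 3, 2, 2, 3, 1, 1, 5, 1⟩ :=
  Good.n1 g00396 (Good.n2 g00398 (Good.n3 (Good.n0 (Good.n0 (Good.n3 L02843 L02844) L02845) L02846) g00399))
theorem g00401 : Good (Phi V5.P V5.D (-1) (-1)) ⟨4, 12, 3, 2, 3, 6, 1, 1, 5, 2⟩ :=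
  Good.n3 (Good.n4 L02854 L02855) (Good.n1 (Good.n3 L02856 L02857) (Good.n2 L02858 (Good.n3 L02859 L02860)))
theorem g00402 : Good (Phi V5.P V5.D (-1) (-1)) ⟨3, 6, 3, 2, 3, 6, 1, 1, 5, 2⟩ :=
  Good.n0 g00401 (Good.n3 (Good.n0 (Good.n0 L02861 L02862) L02863) (Good.n3 (Good.n0 L02864 L02865) L02866))
theorem g00403 : Good (Phi V5.P V5.D (-1) (-1)) ⟨2, 3, 3, 2, 3, 6, 1, 1, 4, 1⟩ :=
  Good.n4 (Good.n0 g00402 L02867) (Good.n0 (Good.n0 (Good.n3 L02868 L02869) (Good.n3 L02870 L02871)) L02872)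
theorem g00404 : Good (Phi V5.P V5.D (-1) (-1)) ⟨3, 6, 3, 2, 3, 7, 2, 2, 5, 2⟩ :=
  Good.n0 (Good.n3 (Good.n4 L02873 L02874) (Good.n4 L02875 L02876)) (Good.n0 (Good.n1 L02877 (Good.n1 L02878 (Good.n3 L02879 L02880))) L02881)
theorem g00405 : Good (Phi V5.P V5.D (-1) (-1)) ⟨2, 3, 3, 2, 3, 7, 1, 1, 4, 1⟩ :=
  Good.n3 (Good.n0 (Good.n4 g00404 (Good.n3 L02882 L02883)) L02884) (Good.n0 (Good.n0 (Good.n4 (Good.n3 L02885 L02886) L02887) (Good.n3 L02888 L02889)) L02890)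
theorem g00406 : Good (Phi V5.P V5.D (-1) (-1)) ⟨1, 1, 3, 2, 2, 3, 1, 1, 3, 0⟩ :=
  Good.n0 (Good.n0 L02764 (Good.n4 (Good.n3 (Good.n2 L02765 L02766) g00389) (Good.n0 L02775 g00390))) (Good.n4 (Good.n4 g00394 g00400) (Good.n2 g00403 g00405))
theorem g00407 : Good (Phi V5.P V5.D (-1) (-1)) ⟨2, 2, 3, 2, 2, 2, 1, 1, 3, 1⟩ :=
  Good.n0 L02891 (Good.n4 (Good.n0 L02892 (Good.n3 L02893 L02894)) (Good.n0 L02895 (Good.n3 L02896 L02897)))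
theorem g00408 : Good (Phi V5.P V5.D (-1) (-1)) ⟨3, 6, 3, 2, 2, 2, 1, 1, 4, 2⟩ :=
  Good.n0 (Good.n3 L02898 (Good.n4 L02899 L02900)) (Good.n0 (Good.n3 L02901 (Good.n4 L02902 L02903)) L02904)
theorem g00409 : Good (Phi V5.P V5.D (-1) (-1)) ⟨1, 1, 3, 2, 2, 3, 2, 2, 4, 2⟩ :=
  Good.n0 (Good.n0 L02908 (Good.n4 (Good.n2 L02909 L02910) L02911)) (Good.n0 (Good.n0 (Good.n4 (Good.n2 L02912 L02913) L02914) (Good.n2 L02915 L02916)) L02917)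
theorem g00410 : Good (Phi V5.P V5.D (-1) (-1)) ⟨1, 1, 3, 2, 2, 3, 2, 2, 4, 3⟩ :=
  Good.n0 (Good.n0 L02918 (Good.n0 L02919 (Good.n4 L02920 L02921))) (Good.n0 (Good.n2 L02922 (Good.n2 L02923 L02924)) L02925)
theorem g00411 : Good (Phi V5.P V5.D (-1) (-1)) ⟨3, 6, 3, 2, 2, 3, 2, 3, 3, 1⟩ :=
  Good.n4 (Good.n0 (Good.n2 L02929 (Good.n3 L02930 L02931)) (Good.n0 (Good.n4 L02932 L02933) L02934)) (Good.n4 L02935 L02936)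
theorem g00412 : Good (Phi V5.P V5.D (-1) (-1)) ⟨1, 1, 3, 2, 2, 3, 1, 1, 3, 1⟩ :=
  Good.n3 (Good.n4 g00409 g00410) (Good.n0 (Good.n0 L02926 (Good.n4 L02927 L02928)) (Good.n0 g00411 L02937))
theorem g00413 : Good (Phi V5.P V5.D (-1) (-1)) ⟨1, 1, 3, 2, 1, 1, 1, 1, 2, 0⟩ :=
  Good.n4 (Good.n2 g00388 g00406) (Good.n2 (Good.n0 g00407 (Good.n0 (Good.n4 g00408 (Good.n3 L02905 L02906)) L02907)) g00412)
theorem g00414 : Good (Phi V5.P V5.D (-1) (-1)) ⟨3, 6, 4, 6, 2, 2, 2, 2, 3, 0⟩ :=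
  Good.n0 (Good.n4 L02939 L02940) (Good.n0 (Good.n4 (Good.n4 L02941 L02942) (Good.n4 L02943 L02944)) L02945)
theorem g00415 : Good (Phi V5.P V5.D (-1) (-1)) ⟨4, 13, 4, 7, 2, 2, 2, 2, 4, 0⟩ :=
  Good.n0 (Good.n4 (Good.n3 (Good.n0 L02948 L02949) L02950) L02951) (Good.n4 (Good.n0 (Good.n3 (Good.n0 L02952 L02953) L02954) L02955) L02956)
theorem g00416 : Good (Phi V5.P V5.D (-1) (-1)) ⟨3, 6, 4, 7, 2, 2, 2, 2, 3, 0⟩ :=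
  Good.n0 (Good.n4 L02946 L02947) (Good.n4 g00415 (Good.n0 (Good.n4 L02957 L02958) (Good.n0 L02959 L02960)))
theorem g00417 : Good (Phi V5.P V5.D (-1) (-1)) ⟨1, 1, 3, 3, 2, 2, 2, 2, 2, 0⟩ :=
  Good.n4 (Good.n0 L02938 (Good.n0 (Good.n1 g00414 g00416) L02961)) (Good.n0 L02962 (Good.n0 (Good.n4 (Good.n0 L02963 L02964) L02965) L02966))
theorem g00418 : Good (Phi V5.P V5.D (-1) (-1)) ⟨3, 6, 4, 6, 2, 2, 3, 7, 4, 0⟩ :=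
  Good.n0 (Good.n0 L02971 (Good.n2 L02972 (Good.n0 L02973 L02974))) (Good.n0 (Good.n0 (Good.n2 L02975 L02976) (Good.n3 L02977 L02978)) L02979)
theorem g00419 : Good (Phi V5.P V5.D (-1) (-1)) ⟨3, 6, 4, 6, 2, 2, 2, 3, 4, 1⟩ :=
  Good.n3 (Good.n0 (Good.n0 L02982 L02983) (Good.n0 (Good.n4 L02984 L02985) L02986)) (Good.n0 L02987 (Good.n0 (Good.n3 L02988 L02989) L02990))
theorem g00420 : Good (Phi V5.P V5.D (-1) (-1)) ⟨1, 1, 4, 6, 2, 2, 2, 3, 3, 0⟩ :=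
  Good.n4 (Good.n0 L02967 (Good.n0 (Good.n3 (Good.n0 L02968 (Good.n4 L02969 L02970)) g00418) L02980)) (Good.n0 L02981 (Good.n0 g00419 L02991))
theorem g00421 : Good (Phi V5.P V5.D (-1) (-1)) ⟨4, 13, 4, 7, 2, 2, 2, 3, 4, 0⟩ :=
  Good.n0 (Good.n3 (Good.n0 L02995 L02996) (Good.n2 (Good.n4 L02997 L02998) (Good.n4 L02999 L03000))) (Good.n0 (Good.n3 L03001 (Good.n1 L03002 (Good.n2 L03003 L03004))) L03005)
theorem g00422 : Good (Phi V5.P V5.D (-1) (-1)) ⟨4, 13, 4, 7, 2, 2, 2, 3, 4, 1⟩ :=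
  Good.n0 (Good.n4 (Good.n3 L03009 L03010) L03011) (Good.n4 (Good.n0 (Good.n3 L03012 L03013) L03014) L03015)
theorem g00423 : Good (Phi V5.P V5.D (-1) (-1)) ⟨2, 3, 4, 7, 2, 2, 2, 3, 3, 0⟩ :=
  Good.n4 (Good.n0 (Good.n0 (Good.n1 L02993 L02994) g00421) L03006) (Good.n0 (Good.n0 (Good.n0 L03007 L03008) g00422) L03016)
theorem g00424 : Good (Phi V5.P V5.D (-1) (-1)) ⟨2, 3, 3, 3, 2, 2, 2, 3, 3, 1⟩ :=
  Good.n0 (Good.n4 (Good.n0 (Good.n3 L03018 (Good.n0 L03019 L03020)) (Good.n4 L03021 L03022)) L03023) L03024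
theorem g00425 : Good (Phi V5.P V5.D (-1) (-1)) ⟨5, 25, 4, 6, 3, 6, 1, 1, 4, 0⟩ :=
  Good.n3 (Good.n4 L03027 L03028) (Good.n4 (Good.n3 (Good.n2 L03029 L03030) L03031) (Good.n3 L03032 L03033))
theorem g00426 : Good (Phi V5.P V5.D (-1) (-1)) ⟨5, 25, 4, 6, 3, 7, 1, 1, 4, 0⟩ :=
  Good.n3 (Good.n4 L03034 L03035) (Good.n2 (Good.n3 L03036 (Good.n4 L03037 L03038)) (Good.n3 L03039 L03040))
theorem g00427 : Good (Phi V5.P V5.D (-1) (-1)) ⟨5, 26, 4, 6, 3, 6, 1, 1, 4, 0⟩ :=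
  Good.n3 (Good.n4 L03041 L03042) (Good.n3 (Good.n2 L03043 (Good.n3 L03044 L03045)) (Good.n2 L03046 (Good.n4 L03047 L03048)))
theorem g00428 : Good (Phi V5.P V5.D (-1) (-1)) ⟨5, 26, 4, 6, 3, 7, 2, 3, 4, 0⟩ :=
  Good.n3 (Good.n4 (Good.n2 L03053 L03054) (Good.n0 L03055 L03056)) (Good.n4 (Good.n3 L03057 L03058) L03059)
theorem g00429 : Good (Phi V5.P V5.D (-1) (-1)) ⟨4, 13, 4, 6, 2, 3, 1, 1, 4, 0⟩ :=
  Good.n2 (Good.n0 g00427 L03049) (Good.n0 (Good.n3 (Good.n4 L03050 (Good.n1 L03051 L03052)) g00428) L03060)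
theorem g00430 : Good (Phi V5.P V5.D (-1) (-1)) ⟨3, 6, 4, 6, 4, 12, 1, 1, 4, 1⟩ :=
  Good.n0 (Good.n3 (Good.n0 L03061 L03062) L03063) (Good.n0 (Good.n4 (Good.n3 L03064 L03065) (Good.n3 L03066 L03067)) L03068)
theorem g00431 : Good (Phi V5.P V5.D (-1) (-1)) ⟨4, 13, 4, 6, 4, 13, 1, 1, 4, 1⟩ :=
  Good.n0 (Good.n4 (Good.n3 (Good.n3 L03073 L03074) L03075) (Good.n3 L03076 (Good.n1 L03077 L03078))) L03079
theorem g00432 : Good (Phi V5.P V5.D (-1) (-1)) ⟨4, 13, 4, 6, 3, 7, 1, 1, 5, 2⟩ :=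
  Good.n0 (Good.n3 (Good.n3 (Good.n4 L03084 L03085) (Good.n4 L03086 L03087)) (Good.n2 L03088 L03089)) L03090
theorem g00433 : Good (Phi V5.P V5.D (-1) (-1)) ⟨3, 6, 4, 6, 3, 7, 1, 1, 4, 1⟩ :=
  Good.n4 (Good.n0 (Good.n3 (Good.n3 L03080 L03081) (Good.n3 L03082 L03083)) g00432) (Good.n0 (Good.n3 L03091 L03092) (Good.n0 (Good.n3 (Good.n2 L03093 L03094) L03095) L03096))
theorem g00434 : Good (Phi V5.P V5.D (-1) (-1)) ⟨3, 6, 4, 6, 2, 3, 1, 1, 4, 1⟩ :=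
  Good.n2 (Good.n2 g00430 (Good.n0 (Good.n4 (Good.n3 L03069 L03070) (Good.n3 L03071 L03072)) g00431)) g00433
theorem g00435 : Good (Phi V5.P V5.D (-1) (-1)) ⟨1, 1, 4, 6, 2, 3, 1, 1, 3, 0⟩ :=
  Good.n0 L03025 (Good.n0 (Good.n4 (Good.n0 (Good.n0 L03026 (Good.n2 g00425 g00426)) g00429) g00434) L03097)
theorem g00436 : Good (Phi V5.P V5.D (-1) (-1)) ⟨2, 3, 4, 7, 3, 6, 2, 2, 4, 0⟩ :=
  Good.n0 (Good.n0 L03099 (Good.n0 (Good.n4 L03100 (Good.n3 L03101 L03102)) (Good.n3 L03103 L03104))) L03105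
theorem g00437 : Good (Phi V5.P V5.D (-1) (-1)) ⟨3, 6, 4, 7, 4, 12, 2, 3, 4, 0⟩ :=
  Good.n0 L03106 (Good.n0 (Good.n3 L03107 L03108) (Good.n0 (Good.n1 L03109 (Good.n3 L03110 L03111)) L03112))
theorem g00438 : Good (Phi V5.P V5.D (-1) (-1)) ⟨4, 13, 4, 7, 4, 13, 2, 3, 4, 0⟩ :=
  Good.n0 (Good.n3 (Good.n0 L03115 (Good.n4 L03116 L03117)) (Good.n3 (Good.n2 L03118 L03119) L03120)) (Good.n0 (Good.n3 L03121 (Good.n3 L03122 L03123)) L03124)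
theorem g00439 : Good (Phi V5.P V5.D (-1) (-1)) ⟨4, 13, 4, 7, 3, 6, 1, 1, 5, 2⟩ :=
  Good.n3 (Good.n0 (Good.n2 L03129 L03130) (Good.n0 (Good.n4 (Good.n1 L03131 L03132) L03133) L03134)) (Good.n0 (Good.n3 L03135 L03136) (Good.n0 (Good.n3 L03137 L03138) L03139))
theorem g00440 : Good (Phi V5.P V5.D (-1) (-1)) ⟨4, 13, 4, 7, 3, 6, 1, 1, 5, 3⟩ :=
  Good.n0 (Good.n3 L03140 L03141) (Good.n0 (Good.n3 L03142 (Good.n1 L03143 (Good.n4 L03144 L03145))) L03146)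
theorem g00441 : Good (Phi V5.P V5.D (-1) (-1)) ⟨2, 3, 4, 7, 3, 6, 1, 1, 3, 0⟩ :=
  Good.n4 (Good.n3 g00436 (Good.n0 (Good.n2 g00437 (Good.n0 (Good.n3 L03113 L03114) g00438)) L03125)) (Good.n0 (Good.n0 (Good.n3 (Good.n4 L03126 L03127) L03128) (Good.n4 g00439 g00440)) L03147)
theorem g00442 : Good (Phi V5.P V5.D (-1) (-1)) ⟨2, 3, 4, 7, 3, 7, 2, 2, 4, 0⟩ :=
  Good.n0 (Good.n0 L03149 (Good.n0 (Good.n4 L03150 (Good.n1 L03151 L03152)) (Good.n4 L03153 L03154))) L03155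
theorem g00443 : Good (Phi V5.P V5.D (-1) (-1)) ⟨5, 27, 4, 7, 3, 7, 2, 2, 5, 2⟩ :=
  Good.n2 (Good.n0 (Good.n3 L03161 L03162) L03163) (Good.n1 L03164 (Good.n3 L03165 (Good.n0 L03166 L03167)))
theorem g00444 : Good (Phi V5.P V5.D (-1) (-1)) ⟨3, 6, 4, 7, 3, 7, 2, 2, 4, 1⟩ :=
  Good.n4 (Good.n0 L03156 (Good.n0 (Good.n2 (Good.n3 L03157 L03158) (Good.n3 L03159 L03160)) g00443)) (Good.n0 L03168 (Good.n3 L03169 L03170))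
theorem g00445 : Good (Phi V5.P V5.D (-1) (-1)) ⟨4, 13, 4, 7, 4, 14, 2, 3, 4, 0⟩ :=
  Good.n3 (Good.n0 (Good.n4 L03174 L03175) (Good.n1 L03176 (Good.n4 L03177 L03178))) (Good.n3 (Good.n4 L03179 L03180) L03181)
theorem g00446 : Good (Phi V5.P V5.D (-1) (-1)) ⟨4, 13, 4, 7, 4, 15, 2, 3, 4, 0⟩ :=
  Good.n0 (Good.n4 (Good.n3 L03182 L03183) (Good.n3 L03184 L03185)) (Good.n1 L03186 (Good.n3 L03187 (Good.n4 L03188 L03189)))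
theorem g00447 : Good (Phi V5.P V5.D (-1) (-1)) ⟨3, 6, 4, 7, 3, 7, 2, 3, 3, 0⟩ :=
  Good.n4 (Good.n0 (Good.n3 L03172 L03173) (Good.n2 g00445 g00446)) (Good.n0 L03190 (Good.n4 (Good.n3 (Good.n0 L03191 L03192) L03193) L03194))
theorem g00448 : Good (Phi V5.P V5.D (-1) (-1)) ⟨1, 1, 4, 7, 2, 3, 1, 1, 3, 0⟩ :=
  Good.n2 (Good.n0 L03098 g00441) (Good.n0 L03148 (Good.n3 (Good.n4 g00442 (Good.n0 g00444 L03171)) (Good.n0 g00447 L03195)))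
theorem g00449 : Good (Phi V5.P V5.D (-1) (-1)) ⟨2, 3, 3, 3, 3, 6, 1, 1, 3, 1⟩ :=
  Good.n3 (Good.n0 (Good.n4 (Good.n0 L03197 L03198) L03199) L03200) (Good.n0 (Good.n4 (Good.n4 L03201 L03202) (Good.n3 (Good.n4 L03203 L03204) L03205)) L03206)
theorem g00450 : Good (Phi V5.P V5.D (-1) (-1)) ⟨3, 6, 3, 3, 3, 7, 1, 1, 4, 2⟩ :=
  Good.n0 (Good.n3 L03207 (Good.n4 L03208 L03209)) (Good.n3 L03210 (Good.n0 (Good.n3 L03211 L03212) (Good.n3 L03213 L03214)))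
theorem g00451 : Good (Phi V5.P V5.D (-1) (-1)) ⟨2, 3, 3, 3, 3, 7, 1, 1, 3, 1⟩ :=
  Good.n4 (Good.n0 g00450 L03215) (Good.n0 (Good.n3 (Good.n4 L03216 (Good.n3 L03217 L03218)) (Good.n3 L03219 L03220)) L03221)
theorem g00452 : Good (Phi V5.P V5.D (-1) (-1)) ⟨1, 1, 3, 3, 1, 1, 1, 1, 2, 0⟩ :=
  Good.n2 (Good.n3 g00417 (Good.n4 (Good.n1 g00420 (Good.n0 L02992 g00423)) (Good.n0 L03017 g00424))) (Good.n4 (Good.n1 g00435 g00448) (Good.n0 L03196 (Good.n2 g00449 g00451)))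
theorem g00453 : Good (Phi V5.P V5.D (-1) (-1)) ⟨2, 2, 2, 1, 1, 1, 1, 1, 4, 4⟩ :=
  Good.n3 (Good.n0 L03222 (Good.n2 L03223 (Good.n4 L03224 L03225))) (Good.n0 L03226 (Good.n2 L03227 L03228))
theorem g00454 : Good (Phi V5.P V5.D (-1) (-1)) ⟨3, 5, 2, 1, 1, 1, 1, 1, 4, 5⟩ :=
  Good.n3 (Good.n2 (Good.n2 L03230 (Good.n3 L03231 L03232)) (Good.n2 L03233 L03234)) (Good.n2 (Good.n3 (Good.n1 L03235 L03236) L03237) L03238)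
theorem g00455 : Good (Phi V5.P V5.D (-1) (-1)) ⟨4, 12, 2, 1, 2, 3, 2, 2, 4, 4⟩ :=
  Good.n1 (Good.n4 (Good.n2 L03240 L03241) (Good.n2 L03242 L03243)) (Good.n2 (Good.n4 L03244 (Good.n3 L03245 L03246)) (Good.n4 L03247 L03248))
theorem g00456 : Good (Phi V5.P V5.D (-1) (-1)) ⟨4, 13, 2, 1, 2, 3, 2, 2, 4, 4⟩ :=
  Good.n4 (Good.n2 (Good.n3 L03249 L03250) (Good.n3 L03251 L03252)) (Good.n1 (Good.n3 L03253 L03254) (Good.n2 (Good.n3 L03255 L03256) (Good.n3 L03257 L03258)))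
theorem g00457 : Good (Phi V5.P V5.D (-1) (-1)) ⟨3, 6, 2, 1, 1, 1, 1, 1, 4, 4⟩ :=
  Good.n3 (Good.n2 L03239 (Good.n0 g00455 g00456)) (Good.n2 (Good.n3 (Good.n2 L03259 L03260) L03261) L03262)
theorem g00458 : Good (Phi V5.P V5.D (-1) (-1)) ⟨4, 13, 2, 1, 2, 2, 2, 2, 4, 5⟩ :=
  Good.n2 L03266 (Good.n1 (Good.n3 L03267 L03268) (Good.n3 (Good.n4 L03269 L03270) (Good.n4 L03271 L03272)))
theorem g00459 : Good (Phi V5.P V5.D (-1) (-1)) ⟨3, 6, 2, 1, 2, 2, 1, 1, 4, 5⟩ :=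
  Good.n3 (Good.n0 (Good.n2 L03263 (Good.n3 L03264 L03265)) g00458) (Good.n3 (Good.n2 L03273 L03274) L03275)
theorem g00460 : Good (Phi V5.P V5.D (-1) (-1)) ⟨3, 6, 2, 1, 1, 1, 1, 1, 3, 2⟩ :=
  Good.n4 g00457 (Good.n2 g00459 (Good.n3 (Good.n2 (Good.n3 (Good.n4 L03276 L03277) L03278) L03279) L03280))
theorem g00461 : Good (Phi V5.P V5.D (-1) (-1)) ⟨3, 5, 2, 1, 3, 4, 2, 2, 4, 7⟩ :=
  Good.n4 (Good.n3 L03287 L03288) (Good.n2 (Good.n3 (Good.n3 L03289 (Good.n4 (Good.n2 L03290 L03291) L03292)) L03293) L03294)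
theorem g00462 : Good (Phi V5.P V5.D (-1) (-1)) ⟨2, 2, 2, 1, 2, 2, 2, 2, 3, 3⟩ :=
  Good.n0 L03282 (Good.n4 (Good.n2 (Good.n1 (Good.n3 L03283 L03284) L03285) L03286) (Good.n2 g00461 L03295))
theorem g00463 : Good (Phi V5.P V5.D (-1) (-1)) ⟨3, 6, 2, 1, 3, 4, 2, 2, 4, 6⟩ :=
  Good.n0 (Good.n3 (Good.n4 L03297 L03298) (Good.n4 L03299 L03300)) (Good.n3 (Good.n4 L03301 (Good.n2 L03302 L03303)) (Good.n2 L03304 L03305))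
theorem g00464 : Good (Phi V5.P V5.D (-1) (-1)) ⟨3, 6, 2, 1, 4, 9, 3, 4, 5, 14⟩ :=
  Good.n4 (Good.n2 L03310 L03311) (Good.n2 (Good.n3 (Good.n2 (Good.n3 L03312 L03313) L03314) L03315) L03316)
theorem g00465 : Good (Phi V5.P V5.D (-1) (-1)) ⟨3, 6, 2, 1, 3, 4, 2, 2, 4, 7⟩ :=
  Good.n4 (Good.n3 (Good.n2 L03309 g00464) (Good.n2 L03317 L03318)) (Good.n2 (Good.n3 (Good.n3 L03319 (Good.n4 (Good.n2 L03320 L03321) L03322)) L03323) L03324)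
theorem g00466 : Good (Phi V5.P V5.D (-1) (-1)) ⟨3, 6, 2, 1, 2, 2, 1, 1, 3, 3⟩ :=
  Good.n3 (Good.n4 (Good.n2 g00463 (Good.n3 (Good.n2 L03306 L03307) L03308)) (Good.n2 g00465 L03325)) L03326
theorem g00467 : Good (Phi V5.P V5.D (-1) (-1)) ⟨1, 1, 2, 1, 1, 1, 1, 1, 2, 1⟩ :=
  Good.n4 (Good.n0 (Good.n4 g00453 (Good.n0 L03229 g00454)) (Good.n0 g00460 L03281)) (Good.n2 (Good.n0 (Good.n3 g00462 L03296) (Good.n0 g00466 L03327)) L03328)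
theorem g00468 : Good (Phi V5.P V5.D (-1) (-1)) ⟨1, 1, 2, 1, 2, 2, 1, 1, 2, 2⟩ :=
  Good.n2 (Good.n4 (Good.n3 (Good.n2 (Good.n4 (Good.n3 L03329 L03330) L03331) L03332) L03333) L03334) L03335
theorem g00469 : Good (Phi V5.P V5.D (-1) (-1)) ⟨1, 1, 2, 1, 1, 1, 0, 0, 0, 0⟩ :=
  Good.n3 g00383 (Good.n4 (Good.n4 (Good.n1 g00413 g00452) g00467) (Good.n2 (Good.n4 g00468 L03336) L03337))
theorem g00470 : Good (Phi V5.P V5.D (-1) (-1)) ⟨1, 1, 1, 0, 0, 0, 0, 0, 0, 0⟩ :=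
  Good.n1 (Good.n2 (Good.n3 (Good.n4 (Good.n0 g00143 g00147) L01044) (Good.n4 g00155 L01100)) g00265) (Good.n2 g00295 g00469)
theorem g00471 : Good (Phi V5.P V5.D (-1) (-1)) ⟨3, 6, 2, 2, 2, 0, 2, 0, 3, 0⟩ :=
  Good.n0 L03339 (Good.n4 (Good.n4 (Good.n1 (Good.n4 (Good.n3 L03340 L03341) L03342) L03343) L03344) L03345)
theorem g00472 : Good (Phi V5.P V5.D (-1) (-1)) ⟨3, 7, 2, 2, 2, 0, 2, 0, 5, 0⟩ :=
  Good.n0 (Good.n3 (Good.n0 (Good.n3 (Good.n3 L03346 L03347) L03348) L03349) (Good.n0 L03350 L03351)) L03352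
theorem g00473 : Good (Phi V5.P V5.D (-1) (-1)) ⟨1, 1, 2, 2, 2, 0, 2, 0, 3, 0⟩ :=
  Good.n0 L03338 (Good.n0 g00471 (Good.n4 (Good.n4 g00472 (Good.n0 (Good.n0 L03353 L03354) L03355)) L03356))
theorem g00474 : Good (Phi V5.P V5.D (-1) (-1)) ⟨2, 3, 3, 4, 2, 0, 2, 1, 4, 0⟩ :=
  Good.n0 (Good.n0 L03358 (Good.n4 L03359 L03360)) (Good.n0 (Good.n0 (Good.n1 L03361 (Good.n0 (Good.n4 L03362 L03363) L03364)) L03365) L03366)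
theorem g00475 : Good (Phi V5.P V5.D (-1) (-1)) ⟨5, 28, 3, 5, 2, 0, 2, 1, 5, 0⟩ :=
  Good.n3 L03369 (Good.n4 (Good.n1 L03370 (Good.n0 L03371 (Good.n1 (Good.n0 L03372 L03373) L03374))) L03375)
theorem g00476 : Good (Phi V5.P V5.D (-1) (-1)) ⟨2, 3, 2, 2, 2, 0, 2, 1, 3, 0⟩ :=
  Good.n1 (Good.n4 g00474 L03367) (Good.n0 L03368 (Good.n4 (Good.n4 (Good.n0 (Good.n0 g00475 L03376) L03377) L03378) L03379))
theorem g00477 : Good (Phi V5.P V5.D (-1) (-1)) ⟨2, 3, 2, 2, 3, 2, 2, 0, 4, 0⟩ :=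
  Good.n0 (Good.n0 L03381 (Good.n3 (Good.n3 L03382 L03383) L03384)) (Good.n0 (Good.n3 (Good.n0 (Good.n3 (Good.n3 L03385 L03386) L03387) L03388) L03389) L03390)
theorem g00478 : Good (Phi V5.P V5.D (-1) (-1)) ⟨5, 28, 3, 5, 3, 2, 2, 1, 4, 0⟩ :=
  Good.n4 (Good.n1 (Good.n3 L03399 L03400) (Good.n0 L03401 (Good.n1 (Good.n0 L03402 L03403) L03404))) L03405
theorem g00479 : Good (Phi V5.P V5.D (-1) (-1)) ⟨2, 3, 2, 2, 3, 2, 2, 1, 4, 0⟩ :=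
  Good.n0 (Good.n0 L03394 L03395) (Good.n0 (Good.n0 (Good.n1 (Good.n1 L03396 (Good.n0 L03397 L03398)) g00478) L03406) L03407)
theorem g00480 : Good (Phi V5.P V5.D (-1) (-1)) ⟨1, 1, 2, 2, 3, 2, 1, 0, 3, 0⟩ :=
  Good.n3 (Good.n0 L03380 (Good.n4 g00477 (Good.n0 L03391 L03392))) (Good.n0 L03393 (Good.n4 g00479 L03408))
theorem g00481 : Good (Phi V5.P V5.D (-1) (-1)) ⟨5, 28, 3, 5, 3, 3, 3, 1, 4, 0⟩ :=
  Good.n1 (Good.n0 L03417 (Good.n4 L03418 L03419)) (Good.n0 L03420 (Good.n1 (Good.n0 L03421 L03422) L03423))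
theorem g00482 : Good (Phi V5.P V5.D (-1) (-1)) ⟨2, 3, 2, 2, 3, 3, 2, 0, 4, 0⟩ :=
  Good.n0 (Good.n0 L03410 (Good.n1 (Good.n3 L03411 L03412) L03413)) (Good.n0 (Good.n0 (Good.n3 (Good.n3 L03414 L03415) (Good.n1 L03416 g00481)) L03424) L03425)
theorem g00483 : Good (Phi V5.P V5.D (-1) (-1)) ⟨5, 28, 4, 10, 3, 3, 2, 1, 5, 0⟩ :=
  Good.n0 (Good.n4 L03433 L03434) (Good.n0 (Good.n3 (Good.n1 L03435 (Good.n1 L03436 (Good.n0 L03437 L03438))) L03439) L03440)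
theorem g00484 : Good (Phi V5.P V5.D (-1) (-1)) ⟨5, 28, 2, 2, 3, 3, 2, 1, 4, 0⟩ :=
  Good.n1 (Good.n4 (Good.n0 (Good.n1 L03429 L03430) L03431) L03432) (Good.n1 (Good.n4 g00483 L03441) (Good.n0 L03442 (Good.n1 (Good.n0 L03443 L03444) L03445)))
theorem g00485 : Good (Phi V5.P V5.D (-1) (-1)) ⟨2, 3, 2, 2, 3, 3, 1, 0, 4, 0⟩ :=
  Good.n3 g00482 (Good.n0 (Good.n0 L03426 (Good.n4 L03427 L03428)) (Good.n0 (Good.n0 g00484 L03446) L03447))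
theorem g00486 : Good (Phi V5.P V5.D (-1) (-1)) ⟨5, 28, 3, 5, 3, 3, 1, 0, 4, 1⟩ :=
  Good.n1 (Good.n3 (Good.n3 L03455 L03456) (Good.n0 L03457 L03458)) (Good.n0 L03459 (Good.n1 (Good.n0 L03460 L03461) L03462))
theorem g00487 : Good (Phi V5.P V5.D (-1) (-1)) ⟨3, 7, 2, 2, 3, 3, 1, 0, 4, 1⟩ :=
  Good.n0 (Good.n0 (Good.n1 (Good.n0 (Good.n3 (Good.n1 L03451 L03452) L03453) L03454) g00486) L03463) L03464
theorem g00488 : Good (Phi V5.P V5.D (-1) (-1)) ⟨1, 1, 2, 2, 2, 1, 1, 0, 3, 0⟩ :=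
  Good.n2 g00480 (Good.n0 L03409 (Good.n4 g00485 (Good.n0 (Good.n0 L03448 (Good.n3 L03449 L03450)) g00487)))
theorem g00489 : Good (Phi V5.P V5.D (-1) (-1)) ⟨1, 1, 1, 1, 1, 0, 1, 0, 3, 0⟩ :=
  Good.n1 (Good.n2 (Good.n3 g00473 (Good.n0 L03357 g00476)) g00488) (Good.n0 L03465 (Good.n0 L03466 (Good.n0 (Good.n1 (Good.n0 L03467 L03468) L03469) L03470)))
theorem g00490 : Good (Phi V5.P V5.D (-1) (-1)) ⟨4, 14, 1, 1, 1, 0, 1, 0, 4, 2⟩ :=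
  Good.n1 (Good.n0 (Good.n3 (Good.n2 L03478 L03479) L03480) L03481) (Good.n1 (Good.n0 L03482 L03483) L03484)
theorem g00491 : Good (Phi V5.P V5.D (-1) (-1)) ⟨3, 7, 1, 1, 1, 0, 1, 0, 3, 1⟩ :=
  Good.n0 (Good.n4 g00490 (Good.n1 (Good.n3 L03485 L03486) (Good.n1 (Good.n0 L03487 L03488) L03489))) L03490
theorem g00492 : Good (Phi V5.P V5.D (-1) (-1)) ⟨2, 3, 1, 1, 1, 0, 1, 0, 3, 1⟩ :=
  Good.n0 (Good.n1 (Good.n0 L03472 (Good.n1 (Good.n2 L03473 (Good.n3 L03474 L03475)) L03476)) L03477) g00491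
theorem g00493 : Good (Phi V5.P V5.D (-1) (-1)) ⟨4, 13, 2, 2, 1, 0, 3, 3, 4, 5⟩ :=
  Good.n2 (Good.n4 L03500 L03501) (Good.n4 (Good.n3 L03502 L03503) (Good.n3 (Good.n4 L03504 L03505) (Good.n4 L03506 L03507)))
theorem g00494 : Good (Phi V5.P V5.D (-1) (-1)) ⟨3, 6, 2, 2, 1, 0, 2, 1, 3, 2⟩ :=
  Good.n4 (Good.n2 L03494 L03495) (Good.n3 (Good.n4 (Good.n4 L03496 L03497) L03498) (Good.n0 L03499 g00493))
theorem g00495 : Good (Phi V5.P V5.D (-1) (-1)) ⟨3, 6, 1, 1, 1, 0, 1, 0, 2, 1⟩ :=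
  Good.n4 (Good.n1 (Good.n3 (Good.n4 L03492 L03493) g00494) L03508) (Good.n2 L03509 (Good.n4 (Good.n3 L03510 (Good.n3 L03511 (Good.n4 L03512 L03513))) L03514))
theorem g00496 : Good (Phi V5.P V5.D (-1) (-1)) ⟨6, 56, 4, 9, 1, 0, 3, 3, 4, 5⟩ :=
  Good.n2 (Good.n4 L03523 L03524) (Good.n1 L03525 (Good.n4 L03526 (Good.n4 (Good.n2 L03527 L03528) L03529)))
theorem g00497 : Good (Phi V5.P V5.D (-1) (-1)) ⟨5, 28, 3, 4, 1, 0, 2, 1, 3, 2⟩ :=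
  Good.n0 (Good.n1 L03518 (Good.n4 (Good.n2 L03519 L03520) (Good.n3 (Good.n4 L03521 L03522) g00496))) L03530
theorem g00498 : Good (Phi V5.P V5.D (-1) (-1)) ⟨5, 28, 4, 10, 2, 1, 2, 1, 4, 5⟩ :=
  Good.n3 (Good.n4 L03537 L03538) (Good.n4 (Good.n3 L03539 L03540) (Good.n4 (Good.n2 L03541 L03542) L03543))
theorem g00499 : Good (Phi V5.P V5.D (-1) (-1)) ⟨5, 28, 4, 10, 1, 0, 2, 1, 3, 2⟩ :=
  Good.n4 (Good.n2 L03531 (Good.n2 L03532 L03533)) (Good.n2 (Good.n3 L03534 (Good.n4 L03535 L03536)) g00498)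

end Crest.Agent.R097C5.N5mm
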