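import Crest.Agent.R097C5.N5mm_g1
import Crest.Agent.R097C5.N5mm_030
import Crest.Agent.R097C5.N5mm_031
import Crest.Agent.R097C5.N5mm_032
import Crest.Agent.R097C5.N5mm_033
import Crest.Agent.R097C5.N5mm_034
import Crest.Agent.R097C5.N5mm_035
import Crest.Agent.R097C5.N5mm_036
import Crest.Agent.R097C5.N5mm_037
import Crest.Agent.R097C5.N5mm_038
import Crest.Agent.R097C5.N5mm_039

/-!
# Row 97, box cover in dimension n = 5 (generated)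
-/

set_option autoImplicit false
set_option Elab.async false
set_option maxHeartbeats 0
set_option maxRecDepth 100000

open Crest.Agent.R097 Crest.Agent.R097.KA


namespace Crest.Agent.R097C5.N5mm

theorem g00500 : Good (Phi V5.P V5.D (-1) (-1)) ⟨5, 28, 2, 2, 1, 0, 1, 0, 3, 2⟩ :=
  Good.n3 (Good.n4 (Good.n3 L03515 L03516) L03517) (Good.n1 g00497 (Good.n1 g00499 (Good.n0 L03544 (Good.n1 (Good.n0 L03545 L03546) L03547))))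
theorem g00501 : Good (Phi V5.P V5.D (-1) (-1)) ⟨4, 14, 2, 2, 1, 0, 1, 0, 3, 3⟩ :=
  Good.n4 (Good.n3 L03549 (Good.n2 L03550 (Good.n3 L03551 (Good.n4 (Good.n3 L03552 L03553) L03554)))) L03555
theorem g00502 : Good (Phi V5.P V5.D (-1) (-1)) ⟨3, 7, 1, 1, 1, 0, 1, 0, 2, 1⟩ :=
  Good.n0 (Good.n1 (Good.n4 (Good.n0 g00500 L03548) g00501) (Good.n1 (Good.n0 L03556 L03557) L03558)) L03559
theorem g00503 : Good (Phi V5.P V5.D (-1) (-1)) ⟨1, 1, 1, 1, 1, 0, 1, 0, 0, 0⟩ :=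
  Good.n4 (Good.n4 (Good.n4 g00489 (Good.n0 L03471 g00492)) (Good.n0 L03491 (Good.n0 g00495 g00502))) L03560
theorem g00504 : Good (Phi V5.P V5.D (-1) (-1)) ⟨5, 28, 3, 4, 2, 0, 2, 2, 4, 0⟩ :=
  Good.n4 (Good.n0 (Good.n1 L03566 (Good.n4 L03567 L03568)) L03569) (Good.n0 (Good.n1 L03570 L03571) L03572)
theorem g00505 : Good (Phi V5.P V5.D (-1) (-1)) ⟨2, 3, 3, 4, 2, 0, 2, 2, 4, 0⟩ :=
  Good.n0 (Good.n4 (Good.n0 L03562 (Good.n4 L03563 L03564)) L03565) (Good.n0 (Good.n0 g00504 L03573) L03574)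
theorem g00506 : Good (Phi V5.P V5.D (-1) (-1)) ⟨1, 1, 3, 4, 2, 0, 2, 2, 2, 0⟩ :=
  Good.n4 (Good.n4 (Good.n0 L03561 g00505) (Good.n0 L03575 (Good.n0 L03576 L03577))) (Good.n0 L03578 L03579)
theorem g00507 : Good (Phi V5.P V5.D (-1) (-1)) ⟨3, 7, 4, 10, 3, 0, 3, 4, 3, 0⟩ :=
  Good.n4 (Good.n4 (Good.n0 (Good.n0 (Good.n0 L03582 (Good.n1 L03583 L03584)) L03585) L03586) L03587) L03588
theorem g00508 : Good (Phi V5.P V5.D (-1) (-1)) ⟨2, 3, 4, 10, 3, 0, 3, 5, 5, 0⟩ :=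
  Good.n0 L03589 (Good.n0 (Good.n0 (Good.n0 L03590 (Good.n0 (Good.n0 L03591 L03592) L03593)) L03594) L03595)
theorem g00509 : Good (Phi V5.P V5.D (-1) (-1)) ⟨3, 7, 4, 10, 3, 1, 2, 2, 3, 0⟩ :=
  Good.n4 (Good.n4 (Good.n0 (Good.n0 (Good.n4 (Good.n3 L03600 L03601) L03602) L03603) L03604) L03605) L03606
theorem g00510 : Good (Phi V5.P V5.D (-1) (-1)) ⟨2, 3, 4, 10, 2, 0, 2, 2, 3, 0⟩ :=
  Good.n2 (Good.n3 (Good.n0 L03581 g00507) (Good.n4 (Good.n4 g00508 (Good.n0 L03596 L03597)) L03598)) (Good.n0 L03599 g00509)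
theorem g00511 : Good (Phi V5.P V5.D (-1) (-1)) ⟨2, 3, 4, 11, 2, 0, 2, 2, 3, 0⟩ :=
  Good.n0 L03608 (Good.n0 (Good.n0 (Good.n0 L03609 (Good.n1 (Good.n0 L03610 L03611) L03612)) L03613) L03614)
theorem g00512 : Good (Phi V5.P V5.D (-1) (-1)) ⟨1, 1, 3, 5, 2, 0, 2, 2, 2, 0⟩ :=
  Good.n4 (Good.n1 (Good.n0 L03580 g00510) (Good.n0 L03607 g00511)) (Good.n0 L03615 (Good.n0 L03616 L03617))
theorem g00513 : Good (Phi V5.P V5.D (-1) (-1)) ⟨1, 1, 1, 1, 2, 0, 2, 2, 2, 0⟩ :=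
  Good.n1 (Good.n1 g00506 g00512) (Good.n0 L03618 (Good.n0 L03619 (Good.n0 (Good.n1 (Good.n0 L03620 L03621) L03622) L03623)))
theorem g00514 : Good (Phi V5.P V5.D (-1) (-1)) ⟨2, 3, 3, 4, 2, 0, 3, 6, 3, 0⟩ :=
  Good.n4 (Good.n0 (Good.n0 L03625 (Good.n4 L03626 L03627)) (Good.n0 (Good.n0 L03628 L03629) L03630)) L03631
theorem g00515 : Good (Phi V5.P V5.D (-1) (-1)) ⟨5, 28, 3, 4, 2, 0, 3, 7, 3, 0⟩ :=
  Good.n4 (Good.n1 L03637 (Good.n0 (Good.n3 L03638 (Good.n4 L03639 L03640)) L03641)) (Good.n3 L03642 (Good.n4 (Good.n1 L03643 (Good.n0 L03644 L03645)) L03646))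
theorem g00516 : Good (Phi V5.P V5.D (-1) (-1)) ⟨2, 3, 3, 4, 2, 0, 3, 7, 3, 0⟩ :=
  Good.n0 (Good.n0 L03632 (Good.n3 L03633 (Good.n4 (Good.n4 L03634 L03635) L03636))) (Good.n0 (Good.n0 g00515 L03647) L03648)
theorem g00517 : Good (Phi V5.P V5.D (-1) (-1)) ⟨4, 14, 3, 5, 3, 0, 3, 6, 4, 0⟩ :=
  Good.n0 (Good.n1 (Good.n4 L03651 L03652) (Good.n0 L03653 (Good.n1 (Good.n0 L03654 L03655) L03656))) L03657
theorem g00518 : Good (Phi V5.P V5.D (-1) (-1)) ⟨2, 3, 4, 11, 3, 0, 4, 14, 3, 0⟩ :=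
  Good.n0 L03667 (Good.n0 (Good.n0 (Good.n0 L03668 (Good.n1 (Good.n0 L03669 L03670) L03671)) L03672) L03673)
theorem g00519 : Good (Phi V5.P V5.D (-1) (-1)) ⟨1, 1, 3, 5, 3, 0, 4, 14, 3, 0⟩ :=
  Good.n0 L03661 (Good.n1 (Good.n4 (Good.n0 L03662 (Good.n0 (Good.n0 L03663 L03664) L03665)) L03666) g00518)
theorem g00520 : Good (Phi V5.P V5.D (-1) (-1)) ⟨5, 28, 3, 5, 3, 0, 4, 15, 4, 0⟩ :=
  Good.n1 (Good.n3 L03676 (Good.n4 (Good.n0 L03677 L03678) L03679)) (Good.n0 L03680 (Good.n1 (Good.n0 L03681 L03682) L03683))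
theorem g00521 : Good (Phi V5.P V5.D (-1) (-1)) ⟨2, 3, 3, 5, 3, 0, 4, 15, 3, 0⟩ :=
  Good.n4 (Good.n0 L03675 (Good.n0 (Good.n0 g00520 L03684) L03685)) (Good.n0 L03686 (Good.n0 (Good.n0 L03687 L03688) L03689))
theorem g00522 : Good (Phi V5.P V5.D (-1) (-1)) ⟨1, 1, 3, 5, 3, 0, 2, 3, 3, 0⟩ :=
  Good.n3 (Good.n4 (Good.n0 L03649 (Good.n0 L03650 (Good.n0 g00517 L03658))) (Good.n0 L03659 L03660)) (Good.n3 g00519 (Good.n0 L03674 g00521))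
theorem g00523 : Good (Phi V5.P V5.D (-1) (-1)) ⟨5, 28, 3, 5, 3, 1, 3, 6, 4, 0⟩ :=
  Good.n1 (Good.n4 (Good.n0 L03692 (Good.n4 (Good.n0 L03693 L03694) (Good.n0 L03695 L03696))) L03697) (Good.n0 L03698 (Good.n1 (Good.n0 L03699 L03700) L03701))
theorem g00524 : Good (Phi V5.P V5.D (-1) (-1)) ⟨1, 1, 3, 5, 3, 1, 3, 6, 3, 0⟩ :=
  Good.n4 (Good.n0 L03690 (Good.n0 L03691 (Good.n0 (Good.n0 g00523 L03702) L03703))) (Good.n0 L03704 (Good.n0 L03705 L03706))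
theorem g00525 : Good (Phi V5.P V5.D (-1) (-1)) ⟨4, 14, 3, 5, 3, 1, 4, 14, 4, 0⟩ :=
  Good.n0 (Good.n1 (Good.n2 L03709 L03710) (Good.n0 L03711 (Good.n1 (Good.n0 L03712 L03713) L03714))) L03715
theorem g00526 : Good (Phi V5.P V5.D (-1) (-1)) ⟨4, 14, 4, 10, 3, 1, 4, 15, 3, 0⟩ :=
  Good.n3 (Good.n0 (Good.n4 (Good.n4 L03721 L03722) L03723) L03724) (Good.n4 (Good.n0 (Good.n0 L03725 L03726) L03727) (Good.n0 L03728 L03729))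
theorem g00527 : Good (Phi V5.P V5.D (-1) (-1)) ⟨2, 3, 4, 11, 3, 1, 4, 15, 3, 0⟩ :=
  Good.n0 L03732 (Good.n0 (Good.n0 (Good.n0 L03733 (Good.n1 (Good.n0 L03734 L03735) L03736)) L03737) L03738)
theorem g00528 : Good (Phi V5.P V5.D (-1) (-1)) ⟨1, 1, 3, 5, 3, 1, 3, 7, 3, 0⟩ :=
  Good.n3 (Good.n0 L03707 (Good.n4 (Good.n0 L03708 (Good.n0 g00525 L03716)) (Good.n0 L03717 L03718))) (Good.n1 (Good.n0 L03719 (Good.n0 L03720 (Good.n0 g00526 L03730))) (Good.n0 L03731 g00527))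
theorem g00529 : Good (Phi V5.P V5.D (-1) (-1)) ⟨2, 3, 2, 2, 2, 0, 2, 3, 3, 1⟩ :=
  Good.n0 (Good.n0 L03740 (Good.n3 L03741 L03742)) (Good.n0 (Good.n0 (Good.n3 L03743 (Good.n1 L03744 L03745)) L03746) L03747)
theorem g00530 : Good (Phi V5.P V5.D (-1) (-1)) ⟨1, 1, 2, 2, 2, 0, 2, 3, 2, 0⟩ :=
  Good.n4 (Good.n1 (Good.n0 L03624 (Good.n3 g00514 g00516)) (Good.n2 g00522 (Good.n3 g00524 g00528))) (Good.n0 L03739 g00529)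
theorem g00531 : Good (Phi V5.P V5.D (-1) (-1)) ⟨1, 1, 1, 1, 2, 0, 2, 3, 2, 0⟩ :=
  Good.n1 g00530 (Good.n0 L03748 (Good.n0 L03749 (Good.n0 (Good.n1 (Good.n0 L03750 L03751) L03752) L03753)))
theorem g00532 : Good (Phi V5.P V5.D (-1) (-1)) ⟨5, 28, 3, 5, 2, 1, 2, 2, 5, 0⟩ :=
  Good.n3 (Good.n1 (Good.n2 L03761 L03762) (Good.n0 L03763 (Good.n1 (Good.n0 L03764 L03765) L03766))) (Good.n1 (Good.n4 L03767 L03768) (Good.n0 L03769 (Good.n1 (Good.n0 L03770 L03771) L03772)))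
theorem g00533 : Good (Phi V5.P V5.D (-1) (-1)) ⟨2, 3, 2, 2, 2, 1, 2, 2, 4, 0⟩ :=
  Good.n0 (Good.n0 L03755 (Good.n1 (Good.n4 (Good.n0 L03756 L03757) L03758) L03759)) (Good.n0 (Good.n0 (Good.n4 (Good.n1 L03760 g00532) (Good.n1 L03773 L03774)) L03775) L03776)
theorem g00534 : Good (Phi V5.P V5.D (-1) (-1)) ⟨4, 14, 2, 2, 2, 1, 2, 2, 4, 1⟩ :=
  Good.n0 (Good.n4 (Good.n2 L03779 (Good.n1 (Good.n0 (Good.n1 L03780 L03781) L03782) L03783)) L03784) L03785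
theorem g00535 : Good (Phi V5.P V5.D (-1) (-1)) ⟨1, 1, 2, 2, 2, 1, 2, 2, 2, 0⟩ :=
  Good.n4 (Good.n4 (Good.n0 L03754 g00533) (Good.n0 L03777 (Good.n0 L03778 (Good.n0 g00534 L03786)))) (Good.n0 L03787 (Good.n0 L03788 (Good.n0 (Good.n0 (Good.n4 L03789 L03790) L03791) L03792)))
theorem g00536 : Good (Phi V5.P V5.D (-1) (-1)) ⟨1, 1, 1, 1, 2, 1, 2, 2, 2, 0⟩ :=
  Good.n1 g00535 (Good.n0 L03793 (Good.n0 L03794 (Good.n0 (Good.n1 (Good.n0 L03795 L03796) L03797) L03798)))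
theorem g00537 : Good (Phi V5.P V5.D (-1) (-1)) ⟨4, 13, 4, 8, 2, 1, 2, 3, 3, 0⟩ :=
  Good.n4 (Good.n3 L03801 (Good.n0 (Good.n0 L03802 (Good.n1 L03803 L03804)) (Good.n3 L03805 L03806))) (Good.n3 L03807 (Good.n0 L03808 L03809))
theorem g00538 : Good (Phi V5.P V5.D (-1) (-1)) ⟨3, 6, 4, 9, 2, 1, 2, 3, 3, 0⟩ :=
  Good.n4 (Good.n0 L03812 (Good.n0 L03813 (Good.n3 L03814 (Good.n0 L03815 (Good.n3 L03816 L03817))))) (Good.n0 L03818 (Good.n3 L03819 (Good.n0 L03820 (Good.n3 L03821 L03822))))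
theorem g00539 : Good (Phi V5.P V5.D (-1) (-1)) ⟨5, 28, 4, 9, 2, 1, 2, 3, 3, 0⟩ :=
  Good.n4 (Good.n3 L03823 (Good.n3 L03824 L03825)) (Good.n3 L03826 (Good.n0 (Good.n3 L03827 L03828) L03829))
theorem g00540 : Good (Phi V5.P V5.D (-1) (-1)) ⟨1, 1, 3, 4, 2, 1, 2, 3, 3, 0⟩ :=
  Good.n1 (Good.n0 L03799 (Good.n0 (Good.n0 L03800 g00537) L03810)) (Good.n0 L03811 (Good.n0 g00538 (Good.n0 (Good.n0 g00539 L03830) L03831)))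
theorem g00541 : Good (Phi V5.P V5.D (-1) (-1)) ⟨2, 3, 3, 4, 2, 1, 2, 3, 3, 1⟩ :=
  Good.n0 (Good.n0 L03833 (Good.n4 L03834 L03835)) (Good.n0 (Good.n4 L03836 (Good.n0 L03837 L03838)) L03839)
theorem g00542 : Good (Phi V5.P V5.D (-1) (-1)) ⟨5, 28, 3, 5, 2, 1, 3, 6, 3, 0⟩ :=
  Good.n4 (Good.n1 (Good.n4 L03842 L03843) (Good.n0 L03844 (Good.n1 (Good.n0 L03845 L03846) L03847))) (Good.n1 L03848 (Good.n0 L03849 (Good.n1 (Good.n0 L03850 L03851) L03852)))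
theorem g00543 : Good (Phi V5.P V5.D (-1) (-1)) ⟨5, 28, 3, 5, 2, 1, 4, 14, 4, 0⟩ :=
  Good.n1 (Good.n0 L03857 (Good.n0 L03858 L03859)) (Good.n0 L03860 (Good.n1 (Good.n0 L03861 L03862) L03863))
theorem g00544 : Good (Phi V5.P V5.D (-1) (-1)) ⟨5, 28, 3, 5, 2, 1, 4, 15, 5, 1⟩ :=
  Good.n1 (Good.n0 L03873 (Good.n0 (Good.n0 L03874 L03875) L03876)) (Good.n0 L03877 (Good.n1 (Good.n0 L03878 L03879) L03880))
theorem g00545 : Good (Phi V5.P V5.D (-1) (-1)) ⟨5, 28, 3, 5, 2, 1, 4, 15, 4, 0⟩ :=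
  Good.n4 (Good.n1 (Good.n3 L03867 L03868) (Good.n0 L03869 (Good.n1 (Good.n0 L03870 L03871) L03872))) g00544
theorem g00546 : Good (Phi V5.P V5.D (-1) (-1)) ⟨5, 28, 3, 5, 2, 1, 4, 15, 5, 2⟩ :=
  Good.n1 (Good.n0 L03882 (Good.n3 L03883 L03884)) (Good.n0 L03885 (Good.n1 (Good.n0 L03886 L03887) L03888))
theorem g00547 : Good (Phi V5.P V5.D (-1) (-1)) ⟨4, 14, 3, 5, 2, 1, 4, 15, 4, 1⟩ :=
  Good.n0 (Good.n4 g00546 (Good.n1 L03889 (Good.n0 L03890 (Good.n1 (Good.n0 L03891 L03892) L03893)))) L03894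
theorem g00548 : Good (Phi V5.P V5.D (-1) (-1)) ⟨4, 14, 3, 5, 2, 1, 3, 7, 3, 0⟩ :=
  Good.n3 (Good.n4 (Good.n0 g00543 L03864) (Good.n0 L03865 L03866)) (Good.n4 (Good.n0 g00545 L03881) g00547)
theorem g00549 : Good (Phi V5.P V5.D (-1) (-1)) ⟨1, 1, 3, 5, 2, 1, 2, 3, 3, 0⟩ :=
  Good.n3 (Good.n0 L03840 (Good.n0 L03841 (Good.n0 (Good.n0 g00542 L03853) L03854))) (Good.n0 L03855 (Good.n0 L03856 (Good.n0 g00548 L03895)))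
theorem g00550 : Good (Phi V5.P V5.D (-1) (-1)) ⟨5, 28, 3, 5, 2, 1, 2, 3, 3, 1⟩ :=
  Good.n4 (Good.n1 (Good.n3 L03898 L03899) (Good.n0 L03900 (Good.n1 (Good.n0 L03901 L03902) L03903))) L03904
theorem g00551 : Good (Phi V5.P V5.D (-1) (-1)) ⟨1, 1, 2, 2, 2, 1, 2, 3, 2, 0⟩ :=
  Good.n1 (Good.n4 g00540 (Good.n0 L03832 g00541)) (Good.n4 g00549 (Good.n0 L03896 (Good.n0 L03897 (Good.n0 (Good.n0 g00550 L03905) L03906))))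
theorem g00552 : Good (Phi V5.P V5.D (-1) (-1)) ⟨1, 1, 1, 1, 2, 1, 2, 3, 2, 0⟩ :=
  Good.n1 g00551 (Good.n0 L03907 (Good.n0 L03908 (Good.n0 (Good.n1 (Good.n0 L03909 L03910) L03911) L03912)))
theorem g00553 : Good (Phi V5.P V5.D (-1) (-1)) ⟨4, 13, 2, 2, 1, 0, 2, 2, 3, 2⟩ :=
  Good.n1 (Good.n2 (Good.n4 L03915 (Good.n4 L03916 L03917)) (Good.n4 L03918 (Good.n2 L03919 L03920))) L03921
theorem g00554 : Good (Phi V5.P V5.D (-1) (-1)) ⟨5, 28, 4, 10, 1, 0, 3, 4, 4, 5⟩ :=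
  Good.n0 (Good.n2 (Good.n4 L03929 L03930) L03931) (Good.n0 (Good.n2 (Good.n4 L03932 L03933) L03934) L03935)
theorem g00555 : Good (Phi V5.P V5.D (-1) (-1)) ⟨5, 28, 3, 5, 1, 0, 2, 2, 4, 5⟩ :=
  Good.n1 (Good.n3 g00554 (Good.n2 L03936 L03937)) (Good.n0 L03938 (Good.n1 (Good.n0 L03939 L03940) L03941))
theorem g00556 : Good (Phi V5.P V5.D (-1) (-1)) ⟨5, 28, 2, 2, 1, 0, 2, 2, 3, 2⟩ :=
  Good.n4 (Good.n2 L03922 L03923) (Good.n1 (Good.n1 L03924 (Good.n0 (Good.n4 L03925 (Good.n2 L03926 L03927)) L03928)) g00555)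
theorem g00557 : Good (Phi V5.P V5.D (-1) (-1)) ⟨2, 3, 2, 2, 1, 0, 1, 1, 3, 2⟩ :=
  Good.n3 (Good.n0 (Good.n0 L03914 g00553) (Good.n0 (Good.n0 g00556 L03942) L03943)) (Good.n0 L03944 (Good.n0 (Good.n0 L03945 L03946) L03947))
theorem g00558 : Good (Phi V5.P V5.D (-1) (-1)) ⟨2, 3, 2, 2, 3, 2, 2, 2, 3, 3⟩ :=
  Good.n4 (Good.n0 (Good.n4 L03954 L03955) (Good.n4 (Good.n4 L03956 L03957) L03958)) (Good.n0 (Good.n4 L03959 L03960) (Good.n0 (Good.n4 L03961 L03962) L03963))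
theorem g00559 : Good (Phi V5.P V5.D (-1) (-1)) ⟨4, 13, 2, 2, 7, 59, 7, 87, 8, 120⟩ :=
  Good.n4 (Good.n3 L03985 (Good.n2 L03986 (Good.n2 (Good.n4 (Good.n3 L03987 L03988) L03989) L03990))) L03991
theorem g00560 : Good (Phi V5.P V5.D (-1) (-1)) ⟨4, 13, 2, 2, 5, 14, 5, 21, 6, 30⟩ :=
  Good.n4 (Good.n3 L03981 (Good.n2 L03982 (Good.n4 (Good.n3 L03983 (Good.n2 L03984 g00559)) L03992))) L03993
theorem g00561 : Good (Phi V5.P V5.D (-1) (-1)) ⟨4, 13, 2, 2, 6, 30, 6, 43, 7, 60⟩ :=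
  Good.n2 (Good.n3 (Good.n4 (Good.n4 (Good.n3 L03995 (Good.n2 L03996 L03997)) L03998) L03999) L04000) L04001
theorem g00562 : Good (Phi V5.P V5.D (-1) (-1)) ⟨4, 13, 2, 2, 4, 7, 4, 10, 5, 15⟩ :=
  Good.n4 (Good.n3 L03980 (Good.n2 g00560 (Good.n2 (Good.n4 (Good.n3 L03994 g00561) L04002) L04003))) L04004
theorem g00563 : Good (Phi V5.P V5.D (-1) (-1)) ⟨4, 13, 2, 2, 4, 7, 4, 11, 6, 30⟩ :=
  Good.n2 (Good.n4 (Good.n1 L04005 L04006) (Good.n3 (Good.n3 L04007 (Good.n2 L04008 L04009)) L04010)) L04011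
theorem g00564 : Good (Phi V5.P V5.D (-1) (-1)) ⟨4, 13, 2, 2, 4, 7, 3, 5, 4, 7⟩ :=
  Good.n4 (Good.n1 (Good.n3 (Good.n2 L03974 (Good.n2 L03975 L03976)) (Good.n2 L03977 L03978)) L03979) (Good.n3 g00562 (Good.n4 g00563 (Good.n2 (Good.n3 L04012 L04013) L04014)))
theorem g00565 : Good (Phi V5.P V5.D (-1) (-1)) ⟨4, 13, 2, 2, 3, 3, 2, 2, 3, 3⟩ :=
  Good.n4 (Good.n1 (Good.n3 (Good.n4 L03965 L03966) L03967) L03968) (Good.n3 (Good.n4 L03969 L03970) (Good.n2 (Good.n1 (Good.n4 L03971 L03972) L03973) g00564))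
theorem g00566 : Good (Phi V5.P V5.D (-1) (-1)) ⟨4, 14, 2, 2, 3, 3, 2, 2, 4, 6⟩ :=
  Good.n3 (Good.n4 L04015 L04016) (Good.n4 (Good.n0 L04017 L04018) (Good.n2 L04019 (Good.n3 L04020 (Good.n0 L04021 L04022))))
theorem g00567 : Good (Phi V5.P V5.D (-1) (-1)) ⟨3, 7, 2, 2, 3, 3, 3, 4, 4, 7⟩ :=
  Good.n4 (Good.n3 L04024 (Good.n2 L04025 (Good.n0 (Good.n4 (Good.n0 L04026 L04027) L04028) L04029))) L04030
theorem g00568 : Good (Phi V5.P V5.D (-1) (-1)) ⟨4, 14, 2, 2, 4, 6, 3, 5, 5, 14⟩ :=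
  Good.n3 (Good.n4 L04031 L04032) (Good.n0 (Good.n2 L04033 (Good.n4 L04034 (Good.n0 L04035 (Good.n1 L04036 L04037)))) L04038)
theorem g00569 : Good (Phi V5.P V5.D (-1) (-1)) ⟨5, 28, 3, 5, 5, 13, 4, 11, 7, 60⟩ :=
  Good.n3 L04047 (Good.n1 (Good.n0 L04048 L04049) (Good.n0 L04050 (Good.n1 (Good.n0 L04051 L04052) L04053)))
theorem g00570 : Good (Phi V5.P V5.D (-1) (-1)) ⟨4, 14, 2, 2, 7, 53, 8, 191, 9, 244⟩ :=
  Good.n4 (Good.n2 (Good.n3 L04060 (Good.n4 (Good.n2 L04061 (Good.n2 L04062 L04063)) L04064)) L04065) (Good.n2 L04066 L04067)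
theorem g00571 : Good (Phi V5.P V5.D (-1) (-1)) ⟨4, 14, 2, 2, 6, 27, 6, 47, 7, 61⟩ :=
  Good.n2 (Good.n3 (Good.n4 (Good.n4 (Good.n3 L04070 (Good.n2 L04071 L04072)) L04073) L04074) L04075) L04076
theorem g00572 : Good (Phi V5.P V5.D (-1) (-1)) ⟨4, 14, 2, 2, 5, 13, 6, 47, 7, 61⟩ :=
  Good.n2 (Good.n4 (Good.n3 L04057 (Good.n4 (Good.n2 L04058 (Good.n3 L04059 g00570)) L04068)) L04069) g00571
theorem g00573 : Good (Phi V5.P V5.D (-1) (-1)) ⟨4, 14, 2, 2, 4, 6, 4, 11, 6, 30⟩ :=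
  Good.n2 (Good.n0 (Good.n3 L04041 (Good.n1 L04042 (Good.n4 L04043 L04044))) L04045) (Good.n4 (Good.n1 L04046 (Good.n0 g00569 L04054)) (Good.n3 L04055 (Good.n3 L04056 g00572)))
theorem g00574 : Good (Phi V5.P V5.D (-1) (-1)) ⟨4, 14, 3, 5, 5, 14, 4, 10, 6, 29⟩ :=
  Good.n3 L04081 (Good.n0 (Good.n1 L04082 (Good.n0 L04083 (Good.n1 (Good.n0 L04084 L04085) L04086))) L04087)
theorem g00575 : Good (Phi V5.P V5.D (-1) (-1)) ⟨4, 14, 4, 10, 5, 15, 4, 10, 6, 29⟩ :=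
  Good.n3 (Good.n2 L04096 (Good.n4 (Good.n0 L04097 L04098) L04099)) (Good.n2 (Good.n4 L04100 (Good.n3 L04101 L04102)) L04103)
theorem g00576 : Good (Phi V5.P V5.D (-1) (-1)) ⟨4, 14, 2, 2, 5, 15, 4, 10, 6, 29⟩ :=
  Good.n1 (Good.n1 L04092 (Good.n0 (Good.n3 L04093 L04094) L04095)) (Good.n1 g00575 (Good.n0 (Good.n0 L04104 (Good.n1 (Good.n0 L04105 L04106) L04107)) L04108))
theorem g00577 : Good (Phi V5.P V5.D (-1) (-1)) ⟨3, 7, 2, 2, 4, 7, 4, 10, 5, 14⟩ :=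
  Good.n2 (Good.n0 (Good.n4 L04079 (Good.n1 L04080 g00574)) L04088) (Good.n0 (Good.n4 (Good.n0 (Good.n3 L04089 L04090) L04091) g00576) L04109)
theorem g00578 : Good (Phi V5.P V5.D (-1) (-1)) ⟨4, 14, 4, 10, 5, 14, 4, 11, 6, 29⟩ :=
  Good.n2 (Good.n0 (Good.n3 L04114 L04115) L04116) (Good.n0 (Good.n4 L04117 (Good.n3 (Good.n0 L04118 L04119) L04120)) L04121)
theorem g00579 : Good (Phi V5.P V5.D (-1) (-1)) ⟨4, 14, 2, 2, 5, 14, 4, 11, 6, 29⟩ :=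
  Good.n1 (Good.n0 (Good.n1 L04111 L04112) L04113) (Good.n1 g00578 (Good.n0 (Good.n0 L04122 (Good.n1 (Good.n0 L04123 L04124) L04125)) L04126))
theorem g00580 : Good (Phi V5.P V5.D (-1) (-1)) ⟨3, 7, 2, 2, 7, 59, 7, 87, 8, 120⟩ :=
  Good.n4 (Good.n3 L04135 (Good.n2 L04136 (Good.n2 (Good.n4 (Good.n3 L04137 L04138) L04139) L04140))) L04141
theorem g00581 : Good (Phi V5.P V5.D (-1) (-1)) ⟨3, 7, 2, 2, 5, 14, 5, 21, 6, 30⟩ :=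
  Good.n4 (Good.n3 L04131 (Good.n2 L04132 (Good.n4 (Good.n3 L04133 (Good.n2 L04134 g00580)) L04142))) L04143
theorem g00582 : Good (Phi V5.P V5.D (-1) (-1)) ⟨4, 14, 4, 10, 6, 29, 4, 11, 7, 60⟩ :=
  Good.n3 (Good.n4 (Good.n3 L04150 L04151) (Good.n3 (Good.n3 L04152 (Good.n2 L04153 L04154)) L04155)) L04156
theorem g00583 : Good (Phi V5.P V5.D (-1) (-1)) ⟨4, 14, 3, 5, 5, 14, 4, 11, 7, 60⟩ :=
  Good.n1 (Good.n2 (Good.n0 (Good.n3 L04147 L04148) L04149) g00582) (Good.n0 (Good.n0 L04157 (Good.n1 (Good.n0 L04158 L04159) L04160)) L04161)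
theorem g00584 : Good (Phi V5.P V5.D (-1) (-1)) ⟨3, 7, 2, 2, 5, 14, 4, 11, 6, 30⟩ :=
  Good.n4 (Good.n0 (Good.n1 (Good.n3 L04145 L04146) g00583) L04162) (Good.n3 (Good.n3 L04163 (Good.n2 L04164 L04165)) L04166)
theorem g00585 : Good (Phi V5.P V5.D (-1) (-1)) ⟨3, 7, 2, 2, 6, 30, 6, 43, 7, 60⟩ :=
  Good.n2 (Good.n3 (Good.n4 (Good.n4 (Good.n3 L04171 (Good.n2 L04172 L04173)) L04174) L04175) L04176) L04177
theorem g00586 : Good (Phi V5.P V5.D (-1) (-1)) ⟨3, 7, 2, 2, 5, 15, 3, 5, 5, 15⟩ :=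
  Good.n3 (Good.n4 (Good.n3 L04169 (Good.n2 (Good.n4 (Good.n3 L04170 g00585) L04178) L04179)) L04180) L04181
theorem g00587 : Good (Phi V5.P V5.D (-1) (-1)) ⟨3, 7, 2, 2, 4, 7, 3, 5, 5, 15⟩ :=
  Good.n2 (Good.n3 (Good.n4 (Good.n3 L04130 g00581) L04144) (Good.n4 g00584 (Good.n3 L04167 L04168))) g00586
theorem g00588 : Good (Phi V5.P V5.D (-1) (-1)) ⟨3, 7, 2, 2, 4, 7, 3, 5, 4, 7⟩ :=
  Good.n4 (Good.n3 g00577 (Good.n0 (Good.n2 (Good.n4 L04110 g00579) (Good.n4 L04127 L04128)) L04129)) g00587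
theorem g00589 : Good (Phi V5.P V5.D (-1) (-1)) ⟨3, 7, 2, 2, 3, 3, 3, 5, 4, 7⟩ :=
  Good.n2 (Good.n4 (Good.n0 g00568 L04039) (Good.n0 (Good.n3 L04040 (Good.n4 g00573 L04077)) L04078)) g00588
theorem g00590 : Good (Phi V5.P V5.D (-1) (-1)) ⟨2, 3, 2, 2, 2, 1, 2, 2, 3, 3⟩ :=
  Good.n2 g00558 (Good.n0 (Good.n0 L03964 g00565) (Good.n4 (Good.n0 g00566 L04023) (Good.n3 g00567 g00589)))
theorem g00591 : Good (Phi V5.P V5.D (-1) (-1)) ⟨2, 3, 2, 2, 1, 0, 2, 2, 3, 3⟩ :=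
  Good.n2 (Good.n0 (Good.n4 (Good.n3 L03948 L03949) L03950) (Good.n4 (Good.n4 L03951 L03952) L03953)) g00590
theorem g00592 : Good (Phi V5.P V5.D (-1) (-1)) ⟨4, 13, 3, 4, 6, 24, 5, 25, 6, 31⟩ :=
  Good.n4 (Good.n3 (Good.n4 (Good.n3 L04194 (Good.n4 (Good.n2 L04195 L04196) L04197)) L04198) L04199) L04200
theorem g00593 : Good (Phi V5.P V5.D (-1) (-1)) ⟨4, 13, 3, 4, 4, 6, 4, 12, 6, 31⟩ :=
  Good.n2 (Good.n3 L04193 (Good.n2 g00592 L04201)) (Good.n3 (Good.n2 (Good.n3 L04202 L04203) L04204) L04205)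
theorem g00594 : Good (Phi V5.P V5.D (-1) (-1)) ⟨4, 13, 3, 4, 3, 3, 3, 6, 4, 7⟩ :=
  Good.n2 (Good.n4 L04189 (Good.n4 (Good.n0 L04190 (Good.n3 L04191 L04192)) (Good.n3 g00593 L04206))) L04207
theorem g00595 : Good (Phi V5.P V5.D (-1) (-1)) ⟨4, 13, 3, 4, 1, 0, 3, 6, 3, 3⟩ :=
  Good.n2 (Good.n4 L04183 L04184) (Good.n4 (Good.n2 L04185 L04186) (Good.n2 (Good.n4 L04187 L04188) g00594))
theorem g00596 : Good (Phi V5.P V5.D (-1) (-1)) ⟨5, 28, 3, 5, 6, 20, 7, 108, 8, 125⟩ :=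
  Good.n4 (Good.n2 L04233 (Good.n3 L04234 (Good.n4 (Good.n2 L04235 (Good.n2 L04236 L04237)) L04238))) L04239
theorem g00597 : Good (Phi V5.P V5.D (-1) (-1)) ⟨5, 28, 3, 5, 8, 80, 9, 439, 11, 1000⟩ :=
  Good.n2 (Good.n3 L04242 (Good.n4 (Good.n2 L04243 (Good.n3 L04244 L04245)) L04246)) (Good.n3 (Good.n4 (Good.n2 L04247 L04248) L04249) L04250)
theorem g00598 : Good (Phi V5.P V5.D (-1) (-1)) ⟨5, 28, 3, 5, 7, 40, 8, 219, 10, 500⟩ :=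
  Good.n2 (Good.n3 L04241 (Good.n4 g00597 L04251)) (Good.n3 (Good.n2 (Good.n4 (Good.n3 L04252 L04253) L04254) L04255) L04256)
theorem g00599 : Good (Phi V5.P V5.D (-1) (-1)) ⟨5, 28, 3, 5, 6, 20, 7, 109, 9, 250⟩ :=
  Good.n2 (Good.n3 L04240 (Good.n4 g00598 (Good.n2 L04257 L04258))) (Good.n2 (Good.n3 (Good.n2 (Good.n4 (Good.n3 L04259 L04260) L04261) L04262) L04263) L04264)
theorem g00600 : Good (Phi V5.P V5.D (-1) (-1)) ⟨5, 28, 3, 5, 9, 160, 9, 440, 9, 250⟩ :=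
  Good.n3 (Good.n2 (Good.n4 (Good.n4 (Good.n4 (Good.n3 L04267 L04268) L04269) L04270) L04271) L04272) L04273
theorem g00601 : Good (Phi V5.P V5.D (-1) (-1)) ⟨5, 28, 3, 5, 7, 40, 6, 55, 8, 125⟩ :=
  Good.n3 (Good.n3 (Good.n2 (Good.n3 (Good.n2 (Good.n4 g00600 L04274) L04275) L04276) L04277) L04278) L04279
theorem g00602 : Good (Phi V5.P V5.D (-1) (-1)) ⟨5, 28, 3, 5, 5, 10, 5, 27, 8, 125⟩ :=
  Good.n2 (Good.n3 (Good.n3 g00596 (Good.n4 g00599 (Good.n2 L04265 L04266))) (Good.n2 g00601 L04280)) (Good.n3 (Good.n2 (Good.n3 (Good.n2 (Good.n3 L04281 L04282) L04283) L04284) L04285) L04286)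
theorem g00603 : Good (Phi V5.P V5.D (-1) (-1)) ⟨5, 28, 3, 5, 5, 10, 4, 13, 8, 125⟩ :=
  Good.n3 (Good.n3 L04227 (Good.n2 L04228 (Good.n3 L04229 (Good.n4 (Good.n2 L04230 L04231) L04232)))) g00602
theorem g00604 : Good (Phi V5.P V5.D (-1) (-1)) ⟨5, 28, 3, 5, 5, 10, 4, 13, 7, 62⟩ :=
  Good.n4 (Good.n3 (Good.n1 L04221 (Good.n0 L04222 (Good.n1 (Good.n0 L04223 L04224) L04225))) L04226) g00603
theorem g00605 : Good (Phi V5.P V5.D (-1) (-1)) ⟨5, 28, 3, 5, 5, 10, 3, 6, 5, 15⟩ :=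
  Good.n4 (Good.n0 L04218 L04219) (Good.n3 L04220 (Good.n4 g00604 (Good.n3 L04287 (Good.n2 (Good.n3 L04288 L04289) L04290))))
theorem g00606 : Good (Phi V5.P V5.D (-1) (-1)) ⟨5, 28, 3, 5, 5, 11, 4, 12, 6, 30⟩ :=
  Good.n4 L04291 (Good.n3 L04292 (Good.n1 L04293 (Good.n0 L04294 (Good.n1 (Good.n0 L04295 L04296) L04297))))
theorem g00607 : Good (Phi V5.P V5.D (-1) (-1)) ⟨5, 28, 3, 5, 5, 11, 4, 13, 6, 30⟩ :=
  Good.n4 L04298 (Good.n3 (Good.n1 L04299 (Good.n0 L04300 (Good.n1 (Good.n0 L04301 L04302) L04303))) L04304)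
theorem g00608 : Good (Phi V5.P V5.D (-1) (-1)) ⟨5, 28, 3, 5, 6, 23, 6, 51, 8, 124⟩ :=
  Good.n3 L04308 (Good.n4 (Good.n2 (Good.n3 L04309 (Good.n4 (Good.n2 L04310 L04311) L04312)) L04313) L04314)
theorem g00609 : Good (Phi V5.P V5.D (-1) (-1)) ⟨5, 28, 3, 5, 5, 11, 5, 26, 7, 62⟩ :=
  Good.n4 (Good.n1 L04317 (Good.n0 L04318 (Good.n1 (Good.n0 L04319 L04320) L04321))) (Good.n2 (Good.n3 L04322 L04323) L04324)
theorem g00610 : Good (Phi V5.P V5.D (-1) (-1)) ⟨5, 28, 3, 5, 5, 11, 3, 6, 6, 31⟩ :=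
  Good.n3 (Good.n3 L04305 (Good.n4 (Good.n3 L04306 (Good.n4 (Good.n2 L04307 g00608) L04315)) L04316)) (Good.n4 (Good.n3 g00609 L04325) (Good.n3 (Good.n3 L04326 L04327) L04328))
theorem g00611 : Good (Phi V5.P V5.D (-1) (-1)) ⟨5, 28, 2, 2, 3, 2, 3, 6, 5, 15⟩ :=
  Good.n2 (Good.n1 L04214 (Good.n4 L04215 L04216)) (Good.n1 L04217 (Good.n2 g00605 (Good.n4 (Good.n3 g00606 g00607) g00610)))
theorem g00612 : Good (Phi V5.P V5.D (-1) (-1)) ⟨5, 28, 3, 5, 7, 50, 7, 99, 9, 246⟩ :=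
  Good.n3 (Good.n4 (Good.n2 L04353 L04354) L04355) (Good.n2 (Good.n2 (Good.n4 (Good.n3 L04356 L04357) L04358) L04359) L04360)
theorem g00613 : Good (Phi V5.P V5.D (-1) (-1)) ⟨5, 28, 3, 5, 6, 25, 6, 49, 8, 123⟩ :=
  Good.n3 (Good.n4 (Good.n2 L04349 (Good.n2 L04350 L04351)) L04352) (Good.n2 (Good.n4 g00612 L04361) L04362)
theorem g00614 : Good (Phi V5.P V5.D (-1) (-1)) ⟨5, 28, 3, 5, 5, 12, 5, 24, 7, 61⟩ :=
  Good.n4 (Good.n1 L04342 (Good.n0 L04343 (Good.n1 (Good.n0 L04344 L04345) L04346))) (Good.n3 L04347 (Good.n2 L04348 g00613))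
theorem g00615 : Good (Phi V5.P V5.D (-1) (-1)) ⟨5, 28, 3, 5, 5, 12, 4, 12, 6, 30⟩ :=
  Good.n4 (Good.n3 (Good.n1 L04336 (Good.n0 L04337 (Good.n1 (Good.n0 L04338 L04339) L04340))) L04341) (Good.n3 g00614 (Good.n1 L04363 (Good.n0 L04364 (Good.n1 (Good.n0 L04365 L04366) L04367))))
theorem g00616 : Good (Phi V5.P V5.D (-1) (-1)) ⟨4, 14, 3, 5, 6, 26, 6, 48, 7, 61⟩ :=
  Good.n4 (Good.n1 L04377 (Good.n0 (Good.n0 L04378 (Good.n1 (Good.n0 L04379 L04380) L04381)) L04382)) (Good.n3 L04383 L04384)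
theorem g00617 : Good (Phi V5.P V5.D (-1) (-1)) ⟨4, 14, 3, 5, 6, 26, 5, 24, 6, 30⟩ :=
  Good.n4 (Good.n1 L04371 (Good.n0 (Good.n0 L04372 (Good.n1 (Good.n0 L04373 L04374) L04375)) L04376)) (Good.n3 g00616 L04385)
theorem g00618 : Good (Phi V5.P V5.D (-1) (-1)) ⟨4, 14, 2, 2, 4, 6, 3, 6, 6, 30⟩ :=
  Good.n2 (Good.n0 (Good.n3 (Good.n1 L04335 g00615) L04368) L04369) (Good.n3 (Good.n2 (Good.n3 (Good.n1 L04370 g00617) L04386) L04387) L04388)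
theorem g00619 : Good (Phi V5.P V5.D (-1) (-1)) ⟨4, 14, 2, 2, 6, 24, 5, 25, 6, 31⟩ :=
  Good.n4 (Good.n3 (Good.n4 (Good.n3 L04390 (Good.n4 (Good.n2 L04391 L04392) L04393)) L04394) L04395) L04396
theorem g00620 : Good (Phi V5.P V5.D (-1) (-1)) ⟨4, 14, 2, 2, 4, 6, 4, 12, 6, 31⟩ :=
  Good.n2 (Good.n3 L04389 (Good.n2 g00619 L04397)) (Good.n3 (Good.n2 (Good.n3 L04398 L04399) L04400) L04401)
theorem g00621 : Good (Phi V5.P V5.D (-1) (-1)) ⟨4, 14, 2, 2, 3, 3, 3, 6, 4, 7⟩ :=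
  Good.n2 (Good.n4 (Good.n0 (Good.n2 L04332 L04333) L04334) (Good.n4 g00618 (Good.n3 g00620 L04402))) L04403
theorem g00622 : Good (Phi V5.P V5.D (-1) (-1)) ⟨4, 14, 2, 2, 2, 1, 3, 6, 3, 3⟩ :=
  Good.n2 (Good.n4 L04212 (Good.n0 (Good.n4 L04213 g00611) L04329)) (Good.n4 (Good.n2 L04330 L04331) g00621)
theorem g00623 : Good (Phi V5.P V5.D (-1) (-1)) ⟨2, 3, 2, 2, 1, 0, 3, 6, 3, 3⟩ :=
  Good.n0 (Good.n0 L04182 (Good.n1 g00595 L04208)) (Good.n2 (Good.n0 (Good.n4 L04209 L04210) L04211) (Good.n0 g00622 L04404))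
theorem g00624 : Good (Phi V5.P V5.D (-1) (-1)) ⟨4, 14, 2, 2, 3, 2, 3, 7, 3, 3⟩ :=
  Good.n4 L04416 (Good.n3 (Good.n4 L04417 (Good.n4 L04418 (Good.n2 (Good.n4 L04419 L04420) L04421))) L04422)
theorem g00625 : Good (Phi V5.P V5.D (-1) (-1)) ⟨3, 7, 2, 2, 1, 0, 3, 7, 3, 3⟩ :=
  Good.n2 (Good.n0 (Good.n4 L04411 (Good.n0 (Good.n2 L04412 L04413) L04414)) L04415) (Good.n0 (Good.n2 g00624 L04423) L04424)
theorem g00626 : Good (Phi V5.P V5.D (-1) (-1)) ⟨2, 3, 2, 2, 1, 0, 3, 7, 3, 3⟩ :=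
  Good.n0 (Good.n0 L04405 (Good.n1 (Good.n2 (Good.n4 L04406 L04407) (Good.n4 L04408 L04409)) L04410)) g00625
theorem g00627 : Good (Phi V5.P V5.D (-1) (-1)) ⟨1, 1, 1, 1, 1, 0, 1, 1, 2, 1⟩ :=
  Good.n1 (Good.n0 L03913 (Good.n4 g00557 (Good.n3 g00591 (Good.n3 g00623 g00626)))) (Good.n0 L04425 (Good.n0 L04426 (Good.n0 (Good.n1 (Good.n0 L04427 L04428) L04429) L04430)))
theorem g00628 : Good (Phi V5.P V5.D (-1) (-1)) ⟨1, 1, 1, 1, 1, 0, 0, 0, 0, 0⟩ :=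
  Good.n3 g00503 (Good.n4 (Good.n4 (Good.n2 (Good.n3 g00513 g00531) (Good.n3 g00536 g00552)) g00627) L04431)
theorem g00629 : Good (Phi V5.P V5.D (-1) (-1)) ⟨5, 27, 4, 8, 2, 2, 4, 0, 3, 0⟩ :=
  Good.n4 (Good.n2 L04439 (Good.n4 L04440 L04441)) (Good.n2 L04442 (Good.n4 (Good.n4 L04443 L04444) (Good.n3 L04445 L04446)))
theorem g00630 : Good (Phi V5.P V5.D (-1) (-1)) ⟨3, 6, 4, 8, 2, 2, 4, 0, 3, 0⟩ :=
  Good.n0 L04433 (Good.n0 (Good.n4 (Good.n2 L04434 L04435) (Good.n2 L04436 (Good.n4 L04437 L04438))) g00629)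
theorem g00631 : Good (Phi V5.P V5.D (-1) (-1)) ⟨3, 6, 4, 8, 2, 2, 4, 1, 3, 0⟩ :=
  Good.n0 L04448 (Good.n4 (Good.n0 L04449 (Good.n2 L04450 L04451)) (Good.n2 L04452 (Good.n4 L04453 L04454)))
theorem g00632 : Good (Phi V5.P V5.D (-1) (-1)) ⟨4, 14, 4, 9, 2, 2, 4, 0, 4, 0⟩ :=
  Good.n0 (Good.n4 (Good.n2 L04462 L04463) (Good.n2 L04464 (Good.n0 (Good.n2 L04465 L04466) L04467))) L04468
theorem g00633 : Good (Phi V5.P V5.D (-1) (-1)) ⟨2, 3, 4, 9, 2, 2, 4, 0, 4, 0⟩ :=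
  Good.n0 (Good.n0 L04456 (Good.n0 L04457 (Good.n2 (Good.n4 L04458 L04459) (Good.n3 L04460 L04461)))) (Good.n0 g00632 L04469)
theorem g00634 : Good (Phi V5.P V5.D (-1) (-1)) ⟨3, 7, 4, 9, 2, 2, 4, 1, 4, 0⟩ :=
  Good.n0 (Good.n0 (Good.n4 (Good.n0 (Good.n2 L04474 L04475) L04476) (Good.n0 L04477 L04478)) L04479) L04480
theorem g00635 : Good (Phi V5.P V5.D (-1) (-1)) ⟨3, 6, 4, 9, 2, 2, 4, 0, 4, 1⟩ :=
  Good.n4 (Good.n0 L04481 (Good.n0 L04482 (Good.n2 L04483 (Good.n0 L04484 (Good.n4 L04485 L04486))))) (Good.n0 L04487 (Good.n0 L04488 (Good.n2 L04489 L04490)))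
theorem g00636 : Good (Phi V5.P V5.D (-1) (-1)) ⟨4, 14, 4, 9, 2, 2, 4, 0, 5, 2⟩ :=
  Good.n0 (Good.n2 (Good.n0 L04491 L04492) (Good.n0 (Good.n0 (Good.n3 L04493 L04494) L04495) L04496)) L04497
theorem g00637 : Good (Phi V5.P V5.D (-1) (-1)) ⟨3, 7, 4, 9, 2, 2, 4, 0, 4, 1⟩ :=
  Good.n4 (Good.n0 g00636 L04498) (Good.n0 (Good.n0 (Good.n2 L04499 (Good.n0 L04500 L04501)) L04502) L04503)
theorem g00638 : Good (Phi V5.P V5.D (-1) (-1)) ⟨3, 7, 4, 9, 2, 2, 4, 1, 4, 1⟩ :=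
  Good.n0 (Good.n0 (Good.n2 (Good.n0 L04509 L04510) (Good.n0 (Good.n4 L04511 L04512) L04513)) L04514) L04515
theorem g00639 : Good (Phi V5.P V5.D (-1) (-1)) ⟨2, 3, 4, 9, 2, 2, 3, 0, 4, 1⟩ :=
  Good.n3 (Good.n0 g00635 g00637) (Good.n0 (Good.n0 L04504 (Good.n0 L04505 (Good.n0 L04506 (Good.n4 L04507 L04508)))) g00638)
theorem g00640 : Good (Phi V5.P V5.D (-1) (-1)) ⟨2, 3, 4, 9, 2, 2, 3, 0, 3, 0⟩ :=
  Good.n4 (Good.n3 g00633 (Good.n0 (Good.n0 L04470 (Good.n4 (Good.n0 L04471 L04472) L04473)) g00634)) g00639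
theorem g00641 : Good (Phi V5.P V5.D (-1) (-1)) ⟨5, 28, 3, 4, 2, 2, 3, 1, 3, 0⟩ :=
  Good.n4 (Good.n4 (Good.n0 L04522 L04523) (Good.n0 (Good.n1 L04524 L04525) L04526)) (Good.n0 (Good.n1 L04527 (Good.n2 L04528 L04529)) L04530)
theorem g00642 : Good (Phi V5.P V5.D (-1) (-1)) ⟨2, 3, 3, 4, 2, 2, 3, 1, 3, 0⟩ :=
  Good.n0 (Good.n0 L04516 (Good.n4 (Good.n4 L04517 L04518) (Good.n0 L04519 (Good.n4 L04520 L04521)))) (Good.n0 (Good.n0 g00641 L04531) L04532)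
theorem g00643 : Good (Phi V5.P V5.D (-1) (-1)) ⟨1, 1, 3, 4, 2, 2, 2, 0, 3, 0⟩ :=
  Good.n0 L04432 (Good.n3 (Good.n1 (Good.n3 (Good.n0 g00630 L04447) (Good.n0 g00631 L04455)) g00640) g00642)
theorem g00644 : Good (Phi V5.P V5.D (-1) (-1)) ⟨2, 3, 3, 4, 3, 4, 2, 0, 4, 2⟩ :=
  Good.n0 (Good.n0 L04534 (Good.n3 L04535 L04536)) (Good.n0 (Good.n0 (Good.n3 L04537 L04538) L04539) L04540)
theorem g00645 : Good (Phi V5.P V5.D (-1) (-1)) ⟨5, 27, 3, 4, 3, 5, 2, 0, 5, 4⟩ :=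
  Good.n3 (Good.n4 (Good.n3 (Good.n3 L04547 L04548) L04549) (Good.n3 (Good.n3 L04550 L04551) L04552)) L04553
theorem g00646 : Good (Phi V5.P V5.D (-1) (-1)) ⟨3, 6, 3, 4, 3, 5, 2, 0, 5, 4⟩ :=
  Good.n0 L04541 (Good.n0 (Good.n0 L04542 (Good.n3 (Good.n3 (Good.n3 L04543 L04544) L04545) L04546)) g00645)
theorem g00647 : Good (Phi V5.P V5.D (-1) (-1)) ⟨5, 28, 3, 4, 3, 5, 3, 0, 5, 4⟩ :=
  Good.n2 (Good.n0 (Good.n1 L04559 (Good.n3 L04560 L04561)) L04562) (Good.n0 (Good.n3 (Good.n3 L04563 L04564) L04565) L04566)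
theorem g00648 : Good (Phi V5.P V5.D (-1) (-1)) ⟨4, 14, 3, 4, 3, 5, 3, 0, 4, 2⟩ :=
  Good.n0 (Good.n4 g00647 (Good.n3 (Good.n0 (Good.n4 (Good.n3 L04567 L04568) L04569) L04570) L04571)) L04572
theorem g00649 : Good (Phi V5.P V5.D (-1) (-1)) ⟨2, 3, 3, 4, 3, 5, 2, 0, 4, 2⟩ :=
  Good.n0 (Good.n4 g00646 (Good.n0 L04554 (Good.n3 (Good.n3 (Good.n3 L04555 L04556) L04557) L04558))) (Good.n0 (Good.n3 g00648 (Good.n0 (Good.n4 (Good.n0 L04573 L04574) L04575) L04576)) L04577)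
theorem g00650 : Good (Phi V5.P V5.D (-1) (-1)) ⟨5, 28, 3, 4, 3, 5, 2, 0, 4, 3⟩ :=
  Good.n4 (Good.n3 (Good.n0 (Good.n3 L04587 L04588) L04589) L04590) (Good.n1 L04591 (Good.n3 L04592 L04593))
theorem g00651 : Good (Phi V5.P V5.D (-1) (-1)) ⟨2, 3, 3, 4, 2, 2, 2, 0, 4, 3⟩ :=
  Good.n0 (Good.n0 L04579 (Good.n2 L04580 (Good.n3 (Good.n3 L04581 L04582) L04583))) (Good.n0 (Good.n2 (Good.n0 (Good.n3 L04584 L04585) L04586) (Good.n0 g00650 L04594)) L04595)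
theorem g00652 : Good (Phi V5.P V5.D (-1) (-1)) ⟨2, 3, 4, 10, 3, 4, 4, 0, 4, 0⟩ :=
  Good.n0 L04597 (Good.n0 (Good.n0 (Good.n4 (Good.n0 L04598 L04599) (Good.n3 L04600 L04601)) L04602) L04603)
theorem g00653 : Good (Phi V5.P V5.D (-1) (-1)) ⟨6, 57, 4, 10, 3, 5, 4, 0, 5, 1⟩ :=
  Good.n2 (Good.n0 (Good.n4 (Good.n3 L04609 L04610) (Good.n3 L04611 L04612)) L04613) (Good.n0 (Good.n1 L04614 L04615) L04616)
theorem g00654 : Good (Phi V5.P V5.D (-1) (-1)) ⟨3, 7, 4, 10, 3, 5, 4, 0, 4, 0⟩ :=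
  Good.n0 (Good.n4 (Good.n0 L04605 L04606) (Good.n0 (Good.n0 (Good.n4 L04607 L04608) g00653) L04617)) L04618
theorem g00655 : Good (Phi V5.P V5.D (-1) (-1)) ⟨2, 3, 4, 11, 2, 2, 4, 0, 4, 0⟩ :=
  Good.n0 L04619 (Good.n0 (Good.n0 (Good.n0 L04620 (Good.n1 (Good.n0 L04621 L04622) L04623)) L04624) L04625)
theorem g00656 : Good (Phi V5.P V5.D (-1) (-1)) ⟨5, 28, 3, 5, 2, 2, 4, 1, 4, 0⟩ :=
  Good.n4 (Good.n2 (Good.n1 L04627 (Good.n0 L04628 (Good.n1 (Good.n0 L04629 L04630) L04631))) L04632) (Good.n2 L04633 L04634)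
theorem g00657 : Good (Phi V5.P V5.D (-1) (-1)) ⟨2, 3, 3, 5, 2, 2, 3, 0, 4, 0⟩ :=
  Good.n3 (Good.n1 (Good.n2 g00652 (Good.n0 L04604 g00654)) g00655) (Good.n0 L04626 (Good.n0 (Good.n0 g00656 L04635) L04636))
theorem g00658 : Good (Phi V5.P V5.D (-1) (-1)) ⟨5, 28, 4, 10, 3, 5, 4, 0, 5, 2⟩ :=
  Good.n0 (Good.n4 (Good.n2 L04642 L04643) L04644) (Good.n0 (Good.n4 (Good.n3 (Good.n2 L04645 L04646) L04647) (Good.n2 L04648 L04649)) L04650)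
theorem g00659 : Good (Phi V5.P V5.D (-1) (-1)) ⟨3, 7, 4, 10, 2, 2, 3, 0, 5, 2⟩ :=
  Good.n3 (Good.n0 (Good.n2 (Good.n0 (Good.n4 L04639 L04640) L04641) (Good.n0 g00658 L04651)) L04652) (Good.n0 (Good.n0 (Good.n2 L04653 L04654) L04655) L04656)
theorem g00660 : Good (Phi V5.P V5.D (-1) (-1)) ⟨4, 14, 4, 10, 2, 2, 3, 0, 5, 3⟩ :=
  Good.n0 (Good.n2 L04658 (Good.n4 (Good.n3 L04659 L04660) (Good.n3 (Good.n3 L04661 L04662) L04663))) L04664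
theorem g00661 : Good (Phi V5.P V5.D (-1) (-1)) ⟨2, 3, 4, 11, 2, 2, 3, 0, 4, 1⟩ :=
  Good.n0 L04666 (Good.n0 (Good.n0 (Good.n0 L04667 (Good.n1 (Good.n0 L04668 L04669) L04670)) L04671) L04672)
theorem g00662 : Good (Phi V5.P V5.D (-1) (-1)) ⟨1, 1, 3, 5, 2, 2, 3, 0, 4, 1⟩ :=
  Good.n0 L04637 (Good.n1 (Good.n4 (Good.n0 L04638 g00659) (Good.n0 L04657 (Good.n0 g00660 L04665))) g00661)
theorem g00663 : Good (Phi V5.P V5.D (-1) (-1)) ⟨5, 28, 3, 5, 2, 2, 3, 1, 5, 1⟩ :=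
  Good.n1 (Good.n0 L04680 (Good.n0 (Good.n1 L04681 L04682) L04683)) (Good.n0 L04684 (Good.n1 (Good.n0 L04685 L04686) L04687))
theorem g00664 : Good (Phi V5.P V5.D (-1) (-1)) ⟨4, 14, 3, 5, 2, 2, 3, 1, 4, 0⟩ :=
  Good.n0 (Good.n4 (Good.n1 L04675 (Good.n0 L04676 (Good.n1 (Good.n0 L04677 L04678) L04679))) g00663) L04688
theorem g00665 : Good (Phi V5.P V5.D (-1) (-1)) ⟨5, 28, 3, 5, 2, 2, 3, 1, 4, 1⟩ :=
  Good.n4 L04690 (Good.n1 (Good.n2 L04691 L04692) (Good.n0 L04693 (Good.n1 (Good.n0 L04694 L04695) L04696)))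
theorem g00666 : Good (Phi V5.P V5.D (-1) (-1)) ⟨1, 1, 3, 5, 2, 2, 3, 1, 3, 0⟩ :=
  Good.n0 L04673 (Good.n0 L04674 (Good.n4 (Good.n0 g00664 L04689) (Good.n0 (Good.n0 g00665 L04697) L04698)))
theorem g00667 : Good (Phi V5.P V5.D (-1) (-1)) ⟨6, 57, 4, 10, 3, 5, 3, 0, 5, 4⟩ :=
  Good.n4 (Good.n3 (Good.n0 (Good.n2 L04710 L04711) L04712) (Good.n0 L04713 L04714)) (Good.n0 (Good.n3 (Good.n4 (Good.n3 L04715 L04716) (Good.n3 L04717 L04718)) L04719) L04720)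
theorem g00668 : Good (Phi V5.P V5.D (-1) (-1)) ⟨5, 28, 4, 10, 3, 5, 3, 0, 5, 5⟩ :=
  Good.n0 (Good.n3 (Good.n3 L04721 L04722) L04723) (Good.n0 (Good.n3 (Good.n3 L04724 L04725) L04726) L04727)
theorem g00669 : Good (Phi V5.P V5.D (-1) (-1)) ⟨3, 7, 4, 10, 3, 5, 3, 0, 4, 2⟩ :=
  Good.n0 (Good.n0 (Good.n4 (Good.n0 (Good.n3 (Good.n3 L04707 L04708) L04709) g00667) g00668) L04728) L04729
theorem g00670 : Good (Phi V5.P V5.D (-1) (-1)) ⟨1, 1, 4, 10, 3, 5, 3, 0, 4, 3⟩ :=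
  Good.n0 L04730 (Good.n0 L04731 (Good.n0 (Good.n0 (Good.n4 (Good.n3 L04732 L04733) L04734) L04735) L04736))
theorem g00671 : Good (Phi V5.P V5.D (-1) (-1)) ⟨1, 1, 4, 10, 2, 2, 3, 0, 3, 1⟩ :=
  Good.n2 (Good.n0 L04699 (Good.n0 L04700 (Good.n4 (Good.n0 (Good.n3 L04701 L04702) L04703) L04704))) (Good.n4 (Good.n0 L04705 (Good.n0 L04706 g00669)) g00670)
theorem g00672 : Good (Phi V5.P V5.D (-1) (-1)) ⟨2, 3, 4, 11, 2, 2, 3, 0, 3, 1⟩ :=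
  Good.n0 L04738 (Good.n0 (Good.n0 (Good.n0 L04739 (Good.n1 (Good.n0 L04740 L04741) L04742)) L04743) L04744)
theorem g00673 : Good (Phi V5.P V5.D (-1) (-1)) ⟨5, 28, 4, 10, 2, 2, 3, 1, 3, 1⟩ :=
  Good.n4 (Good.n0 (Good.n4 L04747 L04748) (Good.n4 (Good.n0 (Good.n2 L04749 L04750) L04751) L04752)) (Good.n0 L04753 L04754)
theorem g00674 : Good (Phi V5.P V5.D (-1) (-1)) ⟨3, 7, 3, 5, 2, 2, 3, 1, 3, 1⟩ :=
  Good.n1 (Good.n0 (Good.n0 g00673 L04755) L04756) (Good.n0 (Good.n0 (Good.n0 L04757 (Good.n1 (Good.n0 L04758 L04759) L04760)) L04761) L04762)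
theorem g00675 : Good (Phi V5.P V5.D (-1) (-1)) ⟨1, 1, 3, 5, 2, 2, 2, 0, 2, 0⟩ :=
  Good.n4 (Good.n3 (Good.n4 (Good.n0 L04596 g00657) g00662) g00666) (Good.n3 (Good.n1 g00671 (Good.n0 L04737 g00672)) (Good.n0 L04745 (Good.n0 L04746 g00674)))
theorem g00676 : Good (Phi V5.P V5.D (-1) (-1)) ⟨1, 1, 2, 2, 2, 2, 2, 0, 2, 0⟩ :=
  Good.n1 (Good.n4 g00643 (Good.n4 (Good.n0 L04533 (Good.n2 g00644 g00649)) (Good.n0 L04578 g00651))) g00675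
theorem g00677 : Good (Phi V5.P V5.D (-1) (-1)) ⟨1, 1, 1, 1, 2, 2, 2, 0, 2, 0⟩ :=
  Good.n1 g00676 (Good.n0 L04763 (Good.n0 L04764 (Good.n0 (Good.n1 (Good.n0 L04765 L04766) L04767) L04768)))
theorem g00678 : Good (Phi V5.P V5.D (-1) (-1)) ⟨5, 28, 3, 5, 2, 2, 2, 1, 5, 0⟩ :=
  Good.n1 (Good.n4 L04781 (Good.n2 L04782 L04783)) (Good.n0 L04784 (Good.n1 (Good.n0 L04785 L04786) L04787))
theorem g00679 : Good (Phi V5.P V5.D (-1) (-1)) ⟨5, 28, 2, 2, 2, 2, 2, 1, 5, 0⟩ :=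
  Good.n1 (Good.n0 (Good.n3 (Good.n1 L04775 L04776) (Good.n1 L04777 (Good.n2 L04778 L04779))) L04780) g00678
theorem g00680 : Good (Phi V5.P V5.D (-1) (-1)) ⟨5, 28, 4, 10, 2, 2, 2, 1, 5, 1⟩ :=
  Good.n3 (Good.n2 L04792 L04793) (Good.n0 (Good.n2 L04794 L04795) (Good.n0 (Good.n4 (Good.n1 L04796 L04797) L04798) L04799))
theorem g00681 : Good (Phi V5.P V5.D (-1) (-1)) ⟨5, 28, 2, 2, 2, 2, 2, 1, 5, 1⟩ :=
  Good.n1 (Good.n0 (Good.n1 L04788 (Good.n0 L04789 L04790)) L04791) (Good.n1 g00680 (Good.n0 L04800 (Good.n1 (Good.n0 L04801 L04802) L04803)))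
theorem g00682 : Good (Phi V5.P V5.D (-1) (-1)) ⟨2, 3, 2, 2, 2, 2, 2, 1, 4, 0⟩ :=
  Good.n0 (Good.n0 L04770 (Good.n1 (Good.n4 (Good.n2 L04771 L04772) L04773) L04774)) (Good.n0 (Good.n0 (Good.n4 g00679 g00681) L04804) L04805)
theorem g00683 : Good (Phi V5.P V5.D (-1) (-1)) ⟨2, 3, 2, 2, 3, 4, 2, 1, 4, 1⟩ :=
  Good.n0 (Good.n0 L04806 (Good.n1 L04807 L04808)) (Good.n0 (Good.n0 (Good.n4 (Good.n1 L04809 L04810) L04811) L04812) L04813)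
theorem g00684 : Good (Phi V5.P V5.D (-1) (-1)) ⟨3, 7, 2, 2, 3, 5, 2, 1, 4, 1⟩ :=
  Good.n0 (Good.n0 (Good.n1 (Good.n0 (Good.n4 L04818 L04819) L04820) (Good.n4 L04821 L04822)) L04823) L04824
theorem g00685 : Good (Phi V5.P V5.D (-1) (-1)) ⟨2, 3, 2, 2, 2, 2, 2, 1, 3, 0⟩ :=
  Good.n4 g00682 (Good.n2 g00683 (Good.n0 (Good.n0 L04814 (Good.n1 (Good.n4 L04815 L04816) L04817)) g00684))
theorem g00686 : Good (Phi V5.P V5.D (-1) (-1)) ⟨1, 1, 1, 1, 2, 2, 2, 1, 3, 0⟩ :=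
  Good.n0 L04769 (Good.n1 g00685 (Good.n0 L04825 (Good.n0 (Good.n1 (Good.n0 L04826 L04827) L04828) L04829)))
theorem g00687 : Good (Phi V5.P V5.D (-1) (-1)) ⟨5, 28, 2, 2, 2, 2, 2, 1, 5, 4⟩ :=
  Good.n1 (Good.n0 (Good.n1 L04836 (Good.n2 L04837 L04838)) L04839) (Good.n1 (Good.n2 L04840 L04841) (Good.n0 L04842 (Good.n1 (Good.n0 L04843 L04844) L04845)))
theorem g00688 : Good (Phi V5.P V5.D (-1) (-1)) ⟨4, 14, 1, 1, 2, 2, 2, 1, 4, 2⟩ :=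
  Good.n1 (Good.n0 (Good.n4 g00687 (Good.n1 (Good.n0 L04846 L04847) L04848)) L04849) (Good.n1 (Good.n0 L04850 L04851) L04852)
theorem g00689 : Good (Phi V5.P V5.D (-1) (-1)) ⟨2, 3, 1, 1, 2, 2, 2, 1, 4, 2⟩ :=
  Good.n0 (Good.n0 L04831 (Good.n1 (Good.n1 (Good.n2 L04832 L04833) L04834) L04835)) (Good.n0 g00688 L04853)
theorem g00690 : Good (Phi V5.P V5.D (-1) (-1)) ⟨1, 1, 1, 1, 2, 2, 1, 0, 2, 0⟩ :=
  Good.n3 g00677 (Good.n4 g00686 (Good.n4 (Good.n0 L04830 g00689) (Good.n0 L04854 (Good.n0 L04855 L04856))))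
theorem g00691 : Good (Phi V5.P V5.D (-1) (-1)) ⟨5, 28, 3, 4, 2, 3, 4, 0, 5, 1⟩ :=
  Good.n2 (Good.n0 (Good.n1 L04868 L04869) L04870) (Good.n1 L04871 (Good.n0 (Good.n1 L04872 L04873) L04874))
theorem g00692 : Good (Phi V5.P V5.D (-1) (-1)) ⟨3, 7, 3, 4, 2, 3, 4, 0, 4, 0⟩ :=
  Good.n0 (Good.n0 (Good.n4 (Good.n1 L04864 (Good.n0 (Good.n2 L04865 L04866) L04867)) g00691) L04875) L04876
theorem g00693 : Good (Phi V5.P V5.D (-1) (-1)) ⟨2, 3, 3, 4, 2, 3, 4, 0, 4, 0⟩ :=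
  Good.n0 (Good.n0 L04858 (Good.n2 (Good.n4 L04859 L04860) (Good.n2 L04861 (Good.n3 L04862 L04863)))) g00692
theorem g00694 : Good (Phi V5.P V5.D (-1) (-1)) ⟨5, 27, 3, 4, 2, 3, 4, 0, 5, 2⟩ :=
  Good.n1 (Good.n2 (Good.n4 L04880 L04881) L04882) (Good.n0 L04883 (Good.n2 (Good.n4 L04884 L04885) L04886))
theorem g00695 : Good (Phi V5.P V5.D (-1) (-1)) ⟨3, 7, 3, 4, 2, 3, 4, 0, 5, 2⟩ :=
  Good.n0 (Good.n0 (Good.n1 L04887 (Good.n0 (Good.n2 (Good.n4 L04888 L04889) L04890) L04891)) L04892) L04893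
theorem g00696 : Good (Phi V5.P V5.D (-1) (-1)) ⟨4, 13, 3, 4, 3, 6, 4, 0, 5, 3⟩ :=
  Good.n0 (Good.n0 L04895 (Good.n1 (Good.n3 L04896 L04897) L04898)) (Good.n0 (Good.n3 L04899 L04900) (Good.n3 L04901 L04902))
theorem g00697 : Good (Phi V5.P V5.D (-1) (-1)) ⟨2, 3, 3, 4, 3, 6, 4, 0, 5, 3⟩ :=
  Good.n0 (Good.n0 L04894 g00696) (Good.n0 (Good.n0 (Good.n0 (Good.n1 L04903 (Good.n3 L04904 L04905)) L04906) L04907) L04908)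
theorem g00698 : Good (Phi V5.P V5.D (-1) (-1)) ⟨2, 3, 3, 4, 2, 3, 4, 0, 4, 1⟩ :=
  Good.n4 (Good.n0 (Good.n0 L04877 (Good.n0 (Good.n3 L04878 L04879) g00694)) g00695) (Good.n2 g00697 (Good.n0 (Good.n0 L04909 (Good.n0 L04910 L04911)) (Good.n0 L04912 L04913)))
theorem g00699 : Good (Phi V5.P V5.D (-1) (-1)) ⟨2, 3, 3, 4, 2, 3, 4, 1, 4, 0⟩ :=
  Good.n0 (Good.n0 L04914 (Good.n0 L04915 (Good.n2 L04916 L04917))) (Good.n0 (Good.n0 (Good.n1 L04918 (Good.n2 L04919 L04920)) L04921) L04922)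
theorem g00700 : Good (Phi V5.P V5.D (-1) (-1)) ⟨2, 3, 3, 4, 2, 3, 4, 1, 5, 3⟩ :=
  Good.n0 (Good.n0 L04929 (Good.n0 L04930 (Good.n2 L04931 L04932))) (Good.n0 (Good.n0 (Good.n1 L04933 (Good.n0 (Good.n1 L04934 L04935) L04936)) L04937) L04938)
theorem g00701 : Good (Phi V5.P V5.D (-1) (-1)) ⟨2, 3, 3, 4, 2, 3, 4, 1, 4, 1⟩ :=
  Good.n4 (Good.n0 (Good.n0 L04923 (Good.n2 L04924 L04925)) (Good.n0 (Good.n0 L04926 L04927) L04928)) g00700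
theorem g00702 : Good (Phi V5.P V5.D (-1) (-1)) ⟨2, 3, 3, 4, 2, 3, 4, 2, 4, 0⟩ :=
  Good.n0 (Good.n0 L04939 (Good.n1 L04940 L04941)) (Good.n0 (Good.n0 (Good.n4 L04942 (Good.n1 L04943 (Good.n0 L04944 L04945))) L04946) L04947)
theorem g00703 : Good (Phi V5.P V5.D (-1) (-1)) ⟨2, 3, 3, 4, 2, 3, 4, 3, 4, 0⟩ :=
  Good.n0 (Good.n0 L04948 (Good.n1 L04949 L04950)) (Good.n0 (Good.n0 (Good.n1 L04951 (Good.n0 L04952 L04953)) L04954) L04955)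
theorem g00704 : Good (Phi V5.P V5.D (-1) (-1)) ⟨2, 3, 3, 4, 2, 3, 3, 1, 5, 2⟩ :=
  Good.n0 (Good.n0 L04956 (Good.n1 L04957 L04958)) (Good.n0 (Good.n0 (Good.n1 L04959 (Good.n0 L04960 L04961)) L04962) L04963)
theorem g00705 : Good (Phi V5.P V5.D (-1) (-1)) ⟨2, 3, 3, 4, 2, 3, 3, 1, 5, 3⟩ :=
  Good.n0 (Good.n0 L04964 (Good.n0 (Good.n1 (Good.n0 L04965 L04966) L04967) (Good.n2 L04968 L04969))) (Good.n0 (Good.n0 (Good.n1 L04970 (Good.n0 (Good.n4 L04971 L04972) L04973)) L04974) L04975)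
theorem g00706 : Good (Phi V5.P V5.D (-1) (-1)) ⟨2, 3, 3, 4, 2, 3, 2, 0, 3, 0⟩ :=
  Good.n3 (Good.n3 (Good.n4 g00693 g00698) (Good.n4 g00699 g00701)) (Good.n4 (Good.n3 g00702 g00703) (Good.n4 g00704 g00705))
theorem g00707 : Good (Phi V5.P V5.D (-1) (-1)) ⟨4, 13, 3, 4, 2, 3, 4, 0, 4, 2⟩ :=
  Good.n4 (Good.n0 (Good.n3 L04978 L04979) (Good.n2 (Good.n3 L04980 L04981) L04982)) (Good.n2 (Good.n3 L04983 L04984) L04985)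
theorem g00708 : Good (Phi V5.P V5.D (-1) (-1)) ⟨6, 56, 3, 4, 3, 6, 3, 0, 5, 4⟩ :=
  Good.n1 L04989 (Good.n4 (Good.n3 (Good.n3 L04990 L04991) L04992) (Good.n3 (Good.n3 L04993 L04994) L04995))
theorem g00709 : Good (Phi V5.P V5.D (-1) (-1)) ⟨5, 28, 3, 4, 2, 3, 3, 0, 4, 2⟩ :=
  Good.n0 (Good.n2 (Good.n4 g00708 (Good.n1 L04996 (Good.n3 L04997 L04998))) (Good.n1 L04999 L05000)) L05001
theorem g00710 : Good (Phi V5.P V5.D (-1) (-1)) ⟨2, 3, 3, 4, 2, 3, 3, 0, 4, 2⟩ :=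
  Good.n0 (Good.n0 L04977 (Good.n3 g00707 (Good.n2 (Good.n2 L04986 L04987) L04988))) (Good.n0 (Good.n0 g00709 L05002) L05003)
theorem g00711 : Good (Phi V5.P V5.D (-1) (-1)) ⟨5, 28, 3, 4, 2, 3, 3, 1, 4, 2⟩ :=
  Good.n4 (Good.n1 L05009 (Good.n0 (Good.n2 L05010 L05011) L05012)) (Good.n0 (Good.n1 L05013 L05014) L05015)
theorem g00712 : Good (Phi V5.P V5.D (-1) (-1)) ⟨2, 3, 3, 4, 2, 3, 3, 1, 4, 2⟩ :=
  Good.n0 (Good.n0 L05005 (Good.n4 (Good.n2 L05006 L05007) L05008)) (Good.n0 (Good.n0 g00711 L05016) L05017)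
theorem g00713 : Good (Phi V5.P V5.D (-1) (-1)) ⟨4, 14, 3, 4, 2, 3, 2, 0, 4, 3⟩ :=
  Good.n2 (Good.n0 (Good.n0 (Good.n3 L05023 L05024) L05025) L05026) (Good.n0 (Good.n1 L05027 (Good.n0 L05028 L05029)) L05030)
theorem g00714 : Good (Phi V5.P V5.D (-1) (-1)) ⟨1, 1, 3, 4, 2, 3, 2, 0, 4, 3⟩ :=
  Good.n0 L05018 (Good.n0 (Good.n0 L05019 (Good.n2 (Good.n3 L05020 L05021) L05022)) (Good.n0 g00713 L05031))
theorem g00715 : Good (Phi V5.P V5.D (-1) (-1)) ⟨1, 1, 3, 4, 2, 3, 2, 0, 2, 0⟩ :=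
  Good.n4 (Good.n0 L04857 g00706) (Good.n4 (Good.n3 (Good.n0 L04976 g00710) (Good.n0 L05004 g00712)) g00714)
theorem g00716 : Good (Phi V5.P V5.D (-1) (-1)) ⟨5, 28, 3, 5, 3, 6, 3, 0, 5, 1⟩ :=
  Good.n4 (Good.n1 L05036 (Good.n0 L05037 (Good.n1 (Good.n0 L05038 L05039) L05040))) (Good.n3 L05041 L05042)
theorem g00717 : Good (Phi V5.P V5.D (-1) (-1)) ⟨3, 7, 3, 5, 4, 14, 3, 0, 4, 0⟩ :=
  Good.n0 (Good.n0 (Good.n1 L05046 (Good.n0 L05047 (Good.n1 (Good.n0 L05048 L05049) L05050))) L05051) L05052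
theorem g00718 : Good (Phi V5.P V5.D (-1) (-1)) ⟨4, 14, 3, 5, 4, 15, 4, 0, 5, 0⟩ :=
  Good.n0 (Good.n1 (Good.n0 L05053 L05054) (Good.n0 L05055 (Good.n1 (Good.n0 L05056 L05057) L05058))) L05059
theorem g00719 : Good (Phi V5.P V5.D (-1) (-1)) ⟨7, 114, 4, 10, 4, 15, 4, 0, 5, 1⟩ :=
  Good.n1 L05064 (Good.n1 (Good.n2 L05065 (Good.n0 (Good.n4 L05066 L05067) L05068)) (Good.n0 L05069 L05070))
theorem g00720 : Good (Phi V5.P V5.D (-1) (-1)) ⟨5, 28, 3, 5, 4, 15, 4, 0, 5, 1⟩ :=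
  Good.n1 (Good.n0 (Good.n1 (Good.n1 L05061 L05062) L05063) (Good.n0 g00719 L05071)) (Good.n0 L05072 (Good.n1 (Good.n0 L05073 L05074) L05075))
theorem g00721 : Good (Phi V5.P V5.D (-1) (-1)) ⟨7, 114, 4, 10, 4, 15, 4, 1, 4, 0⟩ :=
  Good.n4 (Good.n2 L05081 L05082) (Good.n1 L05083 (Good.n1 (Good.n0 L05084 L05085) (Good.n0 L05086 L05087)))
theorem g00722 : Good (Phi V5.P V5.D (-1) (-1)) ⟨5, 28, 3, 5, 4, 15, 4, 1, 4, 0⟩ :=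
  Good.n1 (Good.n0 (Good.n4 L05078 (Good.n1 L05079 L05080)) (Good.n0 g00721 L05088)) (Good.n0 L05089 (Good.n1 (Good.n0 L05090 L05091) L05092))
theorem g00723 : Good (Phi V5.P V5.D (-1) (-1)) ⟨3, 7, 3, 5, 4, 15, 3, 0, 4, 0⟩ :=
  Good.n3 (Good.n4 (Good.n0 g00718 L05060) (Good.n0 (Good.n0 g00720 L05076) L05077)) (Good.n0 (Good.n0 g00722 L05093) L05094)
theorem g00724 : Good (Phi V5.P V5.D (-1) (-1)) ⟨2, 3, 3, 5, 2, 3, 3, 0, 4, 0⟩ :=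
  Good.n2 (Good.n0 L05033 (Good.n0 (Good.n4 (Good.n0 L05034 L05035) (Good.n0 g00716 L05043)) L05044)) (Good.n0 L05045 (Good.n2 g00717 g00723))
theorem g00725 : Good (Phi V5.P V5.D (-1) (-1)) ⟨6, 57, 4, 10, 3, 7, 3, 1, 4, 0⟩ :=
  Good.n4 (Good.n0 (Good.n1 L05103 (Good.n1 L05104 (Good.n0 L05105 L05106))) L05107) (Good.n0 (Good.n1 L05108 (Good.n1 L05109 (Good.n0 L05110 L05111))) L05112)
theorem g00726 : Good (Phi V5.P V5.D (-1) (-1)) ⟨5, 28, 3, 5, 3, 7, 3, 1, 4, 0⟩ :=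
  Good.n1 (Good.n0 (Good.n1 (Good.n4 L05099 L05100) (Good.n1 L05101 L05102)) g00725) (Good.n0 L05113 (Good.n1 (Good.n0 L05114 L05115) L05116))
theorem g00727 : Good (Phi V5.P V5.D (-1) (-1)) ⟨1, 1, 3, 5, 2, 3, 3, 1, 4, 0⟩ :=
  Good.n0 L05095 (Good.n0 L05096 (Good.n2 (Good.n0 L05097 L05098) (Good.n0 (Good.n0 g00726 L05117) L05118)))
theorem g00728 : Good (Phi V5.P V5.D (-1) (-1)) ⟨7, 114, 4, 10, 3, 7, 4, 0, 5, 2⟩ :=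
  Good.n1 L05129 (Good.n2 L05130 (Good.n1 (Good.n4 (Good.n3 L05131 L05132) L05133) (Good.n0 L05134 L05135)))
theorem g00729 : Good (Phi V5.P V5.D (-1) (-1)) ⟨5, 28, 4, 10, 2, 3, 4, 0, 5, 2⟩ :=
  Good.n2 (Good.n4 (Good.n0 L05121 L05122) (Good.n2 L05123 L05124)) (Good.n0 (Good.n1 (Good.n0 L05125 (Good.n3 L05126 L05127)) L05128) (Good.n0 g00728 L05136))
theorem g00730 : Good (Phi V5.P V5.D (-1) (-1)) ⟨6, 56, 4, 10, 2, 3, 4, 0, 5, 3⟩ :=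
  Good.n1 (Good.n0 (Good.n2 (Good.n4 L05140 L05141) L05142) (Good.n2 (Good.n4 L05143 L05144) L05145)) (Good.n2 (Good.n4 L05146 L05147) L05148)
theorem g00731 : Good (Phi V5.P V5.D (-1) (-1)) ⟨5, 28, 4, 10, 2, 3, 4, 0, 5, 3⟩ :=
  Good.n0 g00730 (Good.n2 (Good.n4 (Good.n0 L05149 L05150) L05151) (Good.n0 (Good.n1 L05152 L05153) L05154))
theorem g00732 : Good (Phi V5.P V5.D (-1) (-1)) ⟨2, 3, 4, 10, 2, 3, 4, 0, 4, 1⟩ :=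
  Good.n4 (Good.n0 L05120 (Good.n0 (Good.n0 g00729 L05137) L05138)) (Good.n0 L05139 (Good.n0 (Good.n0 g00731 L05155) L05156))
theorem g00733 : Good (Phi V5.P V5.D (-1) (-1)) ⟨5, 28, 4, 10, 2, 3, 4, 1, 5, 2⟩ :=
  Good.n0 (Good.n2 L05158 (Good.n1 L05159 L05160)) (Good.n0 (Good.n2 L05161 (Good.n1 L05162 L05163)) L05164)
theorem g00734 : Good (Phi V5.P V5.D (-1) (-1)) ⟨5, 28, 4, 10, 2, 3, 4, 1, 5, 3⟩ :=
  Good.n0 (Good.n2 L05168 L05169) (Good.n0 (Good.n1 L05170 (Good.n1 (Good.n2 L05171 L05172) (Good.n0 L05173 L05174))) L05175)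
theorem g00735 : Good (Phi V5.P V5.D (-1) (-1)) ⟨2, 3, 4, 10, 2, 3, 4, 1, 4, 1⟩ :=
  Good.n4 (Good.n0 L05157 (Good.n0 (Good.n0 g00733 L05165) L05166)) (Good.n0 L05167 (Good.n0 (Good.n0 g00734 L05176) L05177))
theorem g00736 : Good (Phi V5.P V5.D (-1) (-1)) ⟨2, 3, 4, 11, 2, 3, 3, 0, 4, 1⟩ :=
  Good.n0 L05178 (Good.n0 (Good.n0 (Good.n0 L05179 (Good.n1 (Good.n0 L05180 L05181) L05182)) L05183) L05184)
theorem g00737 : Good (Phi V5.P V5.D (-1) (-1)) ⟨5, 28, 4, 10, 2, 3, 4, 2, 5, 2⟩ :=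
  Good.n0 (Good.n1 L05187 L05188) (Good.n0 (Good.n2 (Good.n1 L05189 L05190) (Good.n2 L05191 (Good.n1 L05192 L05193))) L05194)
theorem g00738 : Good (Phi V5.P V5.D (-1) (-1)) ⟨5, 28, 4, 10, 2, 3, 4, 3, 5, 2⟩ :=
  Good.n0 (Good.n1 (Good.n1 L05196 L05197) L05198) (Good.n0 (Good.n1 L05199 (Good.n1 (Good.n0 L05200 L05201) (Good.n0 L05202 L05203))) L05204)
theorem g00739 : Good (Phi V5.P V5.D (-1) (-1)) ⟨3, 7, 3, 5, 2, 3, 3, 1, 5, 2⟩ :=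
  Good.n1 (Good.n0 (Good.n3 (Good.n0 g00737 L05195) (Good.n0 g00738 L05205)) L05206) (Good.n0 (Good.n0 (Good.n0 L05207 (Good.n1 (Good.n0 L05208 L05209) L05210)) L05211) L05212)
theorem g00740 : Good (Phi V5.P V5.D (-1) (-1)) ⟨5, 28, 4, 10, 3, 7, 3, 1, 5, 3⟩ :=
  Good.n4 (Good.n0 L05217 (Good.n0 (Good.n1 L05218 L05219) L05220)) (Good.n0 L05221 (Good.n2 (Good.n0 L05222 L05223) (Good.n0 L05224 L05225)))
theorem g00741 : Good (Phi V5.P V5.D (-1) (-1)) ⟨5, 28, 3, 5, 2, 3, 3, 1, 5, 3⟩ :=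
  Good.n2 (Good.n4 L05215 L05216) (Good.n1 g00740 (Good.n0 L05226 (Good.n1 (Good.n0 L05227 L05228) L05229)))
theorem g00742 : Good (Phi V5.P V5.D (-1) (-1)) ⟨1, 1, 3, 5, 2, 3, 3, 1, 4, 1⟩ :=
  Good.n4 (Good.n0 L05185 (Good.n0 L05186 g00739)) (Good.n0 L05213 (Good.n0 L05214 (Good.n0 (Good.n0 g00741 L05230) L05231)))
theorem g00743 : Good (Phi V5.P V5.D (-1) (-1)) ⟨1, 1, 3, 5, 2, 3, 2, 0, 3, 0⟩ :=
  Good.n4 (Good.n3 (Good.n0 L05032 g00724) g00727) (Good.n3 (Good.n0 L05119 (Good.n1 (Good.n3 g00732 g00735) g00736)) g00742)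
theorem g00744 : Good (Phi V5.P V5.D (-1) (-1)) ⟨5, 28, 4, 10, 3, 6, 3, 0, 6, 8⟩ :=
  Good.n0 (Good.n3 (Good.n3 L05234 L05235) L05236) (Good.n0 (Good.n1 (Good.n3 L05237 L05238) (Good.n3 L05239 L05240)) L05241)
theorem g00745 : Good (Phi V5.P V5.D (-1) (-1)) ⟨5, 28, 3, 5, 3, 6, 3, 0, 6, 9⟩ :=
  Good.n1 (Good.n3 (Good.n3 L05246 L05247) L05248) (Good.n0 L05249 (Good.n1 (Good.n0 L05250 L05251) L05252))
theorem g00746 : Good (Phi V5.P V5.D (-1) (-1)) ⟨4, 14, 3, 5, 3, 6, 3, 0, 5, 4⟩ :=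
  Good.n0 (Good.n4 (Good.n1 g00744 (Good.n0 L05242 (Good.n1 (Good.n0 L05243 L05244) L05245))) g00745) L05253
theorem g00747 : Good (Phi V5.P V5.D (-1) (-1)) ⟨5, 28, 3, 5, 3, 6, 3, 0, 5, 5⟩ :=
  Good.n1 (Good.n3 (Good.n0 L05254 L05255) L05256) (Good.n0 L05257 (Good.n1 (Good.n0 L05258 L05259) L05260))
theorem g00748 : Good (Phi V5.P V5.D (-1) (-1)) ⟨1, 1, 3, 5, 3, 6, 2, 0, 4, 2⟩ :=
  Good.n3 (Good.n0 L05232 (Good.n0 L05233 (Good.n0 (Good.n4 g00746 (Good.n0 g00747 L05261)) L05262))) (Good.n0 L05263 (Good.n0 L05264 (Good.n0 (Good.n0 (Good.n4 L05265 L05266) L05267) L05268)))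
theorem g00749 : Good (Phi V5.P V5.D (-1) (-1)) ⟨7, 114, 4, 10, 3, 7, 2, 0, 4, 2⟩ :=
  Good.n4 (Good.n1 L05275 (Good.n1 (Good.n3 L05276 L05277) (Good.n0 L05278 L05279))) (Good.n3 L05280 L05281)

end Crest.Agent.R097C5.N5mm
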