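import Crest.Agent.R097C5.N5mm_g2
import Crest.Agent.R097C5.N5mm_040
import Crest.Agent.R097C5.N5mm_041
import Crest.Agent.R097C5.N5mm_042
import Crest.Agent.R097C5.N5mm_043
import Crest.Agent.R097C5.N5mm_044
import Crest.Agent.R097C5.N5mm_045
import Crest.Agent.R097C5.N5mm_046
import Crest.Agent.R097C5.N5mm_047
import Crest.Agent.R097C5.N5mm_048
import Crest.Agent.R097C5.N5mm_049

/-!
# Row 97, box cover in dimension n = 5 (generated)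
-/

set_option autoImplicit false
set_option Elab.async false
set_option maxHeartbeats 0
set_option maxRecDepth 100000

open Crest.Agent.R097 Crest.Agent.R097.KA


namespace Crest.Agent.R097C5.N5mm

theorem g00750 : Good (Phi V5.P V5.D (-1) (-1)) ⟨5, 28, 3, 5, 3, 7, 2, 0, 4, 2⟩ :=
  Good.n1 (Good.n0 (Good.n4 (Good.n2 L05271 L05272) (Good.n3 L05273 L05274)) (Good.n0 g00749 L05282)) (Good.n0 L05283 (Good.n1 (Good.n0 L05284 L05285) L05286))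
theorem g00751 : Good (Phi V5.P V5.D (-1) (-1)) ⟨5, 28, 3, 5, 3, 6, 2, 0, 4, 3⟩ :=
  Good.n2 (Good.n1 (Good.n3 L05291 L05292) (Good.n0 L05293 (Good.n1 (Good.n0 L05294 L05295) L05296))) L05297
theorem g00752 : Good (Phi V5.P V5.D (-1) (-1)) ⟨2, 3, 3, 5, 2, 3, 2, 0, 4, 3⟩ :=
  Good.n0 L05290 (Good.n2 (Good.n0 (Good.n0 g00751 L05298) L05299) (Good.n0 (Good.n0 L05300 L05301) L05302))
theorem g00753 : Good (Phi V5.P V5.D (-1) (-1)) ⟨1, 1, 3, 5, 2, 3, 2, 0, 3, 1⟩ :=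
  Good.n4 (Good.n2 g00748 (Good.n0 L05269 (Good.n0 L05270 (Good.n0 (Good.n0 g00750 L05287) L05288)))) (Good.n0 L05289 g00752)
theorem g00754 : Good (Phi V5.P V5.D (-1) (-1)) ⟨1, 1, 1, 1, 2, 3, 2, 0, 2, 0⟩ :=
  Good.n1 (Good.n1 g00715 (Good.n4 g00743 g00753)) (Good.n0 L05303 (Good.n0 L05304 (Good.n0 (Good.n1 (Good.n0 L05305 L05306) L05307) L05308)))
theorem g00755 : Good (Phi V5.P V5.D (-1) (-1)) ⟨2, 3, 4, 8, 3, 6, 2, 1, 3, 0⟩ :=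
  Good.n0 (Good.n4 (Good.n0 L05310 L05311) (Good.n0 L05312 (Good.n4 L05313 (Good.n0 L05314 L05315)))) L05316
theorem g00756 : Good (Phi V5.P V5.D (-1) (-1)) ⟨2, 3, 4, 8, 3, 7, 3, 3, 3, 0⟩ :=
  Good.n4 (Good.n0 (Good.n0 L05322 L05323) L05324) (Good.n0 (Good.n4 L05325 (Good.n0 L05326 (Good.n4 L05327 L05328))) L05329)
theorem g00757 : Good (Phi V5.P V5.D (-1) (-1)) ⟨2, 3, 4, 8, 2, 3, 2, 1, 3, 0⟩ :=
  Good.n2 g00755 (Good.n3 (Good.n0 (Good.n0 L05317 (Good.n4 L05318 (Good.n4 L05319 L05320))) L05321) g00756)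
theorem g00758 : Good (Phi V5.P V5.D (-1) (-1)) ⟨4, 14, 4, 9, 3, 6, 2, 1, 3, 0⟩ :=
  Good.n1 L05336 (Good.n0 (Good.n0 (Good.n4 L05337 (Good.n4 L05338 (Good.n4 L05339 L05340))) L05341) L05342)
theorem g00759 : Good (Phi V5.P V5.D (-1) (-1)) ⟨2, 3, 4, 9, 3, 6, 2, 1, 3, 0⟩ :=
  Good.n0 (Good.n4 L05330 (Good.n0 L05331 (Good.n4 L05332 (Good.n0 L05333 (Good.n4 L05334 L05335))))) (Good.n0 g00758 L05343)
theorem g00760 : Good (Phi V5.P V5.D (-1) (-1)) ⟨2, 3, 4, 9, 3, 7, 2, 1, 4, 0⟩ :=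
  Good.n0 (Good.n0 L05344 (Good.n0 L05345 (Good.n4 L05346 L05347))) (Good.n0 (Good.n0 (Good.n0 (Good.n1 L05348 L05349) L05350) L05351) L05352)
theorem g00761 : Good (Phi V5.P V5.D (-1) (-1)) ⟨2, 3, 4, 9, 3, 7, 2, 1, 5, 2⟩ :=
  Good.n0 (Good.n0 L05353 (Good.n0 L05354 (Good.n0 L05355 L05356))) (Good.n0 (Good.n0 L05357 L05358) L05359)
theorem g00762 : Good (Phi V5.P V5.D (-1) (-1)) ⟨2, 3, 4, 9, 3, 7, 2, 1, 5, 3⟩ :=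
  Good.n0 (Good.n0 L05360 (Good.n0 L05361 (Good.n2 L05362 L05363))) (Good.n0 (Good.n0 (Good.n0 (Good.n1 L05364 (Good.n4 L05365 L05366)) L05367) L05368) L05369)
theorem g00763 : Good (Phi V5.P V5.D (-1) (-1)) ⟨5, 28, 3, 4, 2, 3, 2, 1, 4, 2⟩ :=
  Good.n4 (Good.n1 L05377 (Good.n0 (Good.n2 L05378 L05379) L05380)) (Good.n0 (Good.n1 L05381 L05382) L05383)
theorem g00764 : Good (Phi V5.P V5.D (-1) (-1)) ⟨2, 3, 3, 4, 2, 3, 2, 1, 4, 2⟩ :=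
  Good.n0 (Good.n0 L05371 (Good.n4 (Good.n2 L05372 (Good.n0 L05373 L05374)) (Good.n2 L05375 L05376))) (Good.n0 (Good.n0 g00763 L05384) L05385)
theorem g00765 : Good (Phi V5.P V5.D (-1) (-1)) ⟨2, 3, 3, 4, 2, 3, 2, 1, 4, 3⟩ :=
  Good.n0 (Good.n0 L05387 (Good.n2 L05388 L05389)) (Good.n0 (Good.n0 (Good.n3 L05390 L05391) L05392) L05393)
theorem g00766 : Good (Phi V5.P V5.D (-1) (-1)) ⟨1, 1, 3, 4, 2, 3, 2, 1, 2, 0⟩ :=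
  Good.n4 (Good.n0 L05309 (Good.n1 g00757 (Good.n2 g00759 (Good.n4 g00760 (Good.n4 g00761 g00762))))) (Good.n4 (Good.n0 L05370 g00764) (Good.n0 L05386 g00765))
theorem g00767 : Good (Phi V5.P V5.D (-1) (-1)) ⟨5, 28, 4, 10, 3, 6, 2, 1, 4, 1⟩ :=
  Good.n0 (Good.n4 L05399 (Good.n4 L05400 L05401)) (Good.n4 (Good.n0 L05402 L05403) (Good.n4 L05404 (Good.n0 L05405 L05406)))
theorem g00768 : Good (Phi V5.P V5.D (-1) (-1)) ⟨2, 3, 4, 10, 3, 6, 2, 1, 3, 0⟩ :=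
  Good.n4 (Good.n0 L05395 (Good.n0 L05396 L05397)) (Good.n0 L05398 (Good.n0 (Good.n0 g00767 L05407) L05408))
theorem g00769 : Good (Phi V5.P V5.D (-1) (-1)) ⟨5, 28, 5, 21, 4, 15, 2, 1, 5, 0⟩ :=
  Good.n1 (Good.n0 L05421 (Good.n0 L05422 L05423)) (Good.n0 L05424 (Good.n0 (Good.n0 L05425 L05426) L05427))
theorem g00770 : Good (Phi V5.P V5.D (-1) (-1)) ⟨5, 28, 5, 21, 4, 15, 2, 1, 5, 1⟩ :=
  Good.n1 (Good.n0 L05428 (Good.n2 L05429 L05430)) (Good.n0 L05431 (Good.n0 (Good.n0 L05432 L05433) L05434))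
theorem g00771 : Good (Phi V5.P V5.D (-1) (-1)) ⟨4, 14, 4, 10, 4, 15, 2, 1, 4, 0⟩ :=
  Good.n1 (Good.n0 (Good.n0 (Good.n1 L05416 (Good.n0 L05417 L05418)) L05419) L05420) (Good.n0 (Good.n4 g00769 g00770) L05435)
theorem g00772 : Good (Phi V5.P V5.D (-1) (-1)) ⟨4, 14, 4, 10, 3, 7, 2, 1, 4, 0⟩ :=
  Good.n2 (Good.n0 (Good.n0 (Good.n1 L05410 L05411) (Good.n0 (Good.n1 L05412 L05413) L05414)) L05415) g00771
theorem g00773 : Good (Phi V5.P V5.D (-1) (-1)) ⟨4, 14, 5, 20, 3, 7, 2, 1, 5, 2⟩ :=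
  Good.n0 (Good.n0 (Good.n1 (Good.n2 L05437 L05438) (Good.n0 L05439 (Good.n1 L05440 L05441))) L05442) L05443
theorem g00774 : Good (Phi V5.P V5.D (-1) (-1)) ⟨6, 57, 5, 21, 3, 7, 2, 1, 5, 2⟩ :=
  Good.n0 (Good.n1 (Good.n0 (Good.n2 L05446 (Good.n4 L05447 L05448)) L05449) (Good.n0 L05450 L05451)) L05452
theorem g00775 : Good (Phi V5.P V5.D (-1) (-1)) ⟨5, 28, 4, 10, 3, 7, 2, 1, 6, 6⟩ :=
  Good.n0 (Good.n1 (Good.n2 L05455 L05456) L05457) (Good.n0 (Good.n1 L05458 (Good.n1 (Good.n2 L05459 L05460) (Good.n0 L05461 L05462))) L05463)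
theorem g00776 : Good (Phi V5.P V5.D (-1) (-1)) ⟨7, 114, 4, 10, 3, 7, 2, 1, 6, 7⟩ :=
  Good.n1 L05467 (Good.n1 (Good.n0 (Good.n1 L05468 (Good.n2 L05469 L05470)) L05471) (Good.n0 L05472 L05473))
theorem g00777 : Good (Phi V5.P V5.D (-1) (-1)) ⟨4, 14, 4, 10, 3, 7, 2, 1, 5, 3⟩ :=
  Good.n0 (Good.n4 g00775 (Good.n0 (Good.n1 (Good.n0 L05464 L05465) L05466) (Good.n0 g00776 L05474))) L05475
theorem g00778 : Good (Phi V5.P V5.D (-1) (-1)) ⟨3, 7, 4, 10, 3, 7, 2, 1, 4, 1⟩ :=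
  Good.n4 (Good.n1 (Good.n0 g00773 L05444) (Good.n0 (Good.n0 (Good.n0 L05445 g00774) L05453) L05454)) (Good.n0 g00777 L05476)
theorem g00779 : Good (Phi V5.P V5.D (-1) (-1)) ⟨6, 57, 4, 10, 2, 3, 2, 1, 5, 4⟩ :=
  Good.n0 (Good.n2 (Good.n1 L05481 L05482) (Good.n1 L05483 (Good.n1 L05484 (Good.n0 L05485 L05486)))) L05487
theorem g00780 : Good (Phi V5.P V5.D (-1) (-1)) ⟨3, 7, 4, 10, 2, 3, 2, 1, 4, 2⟩ :=
  Good.n0 (Good.n0 (Good.n4 (Good.n0 (Good.n2 L05479 L05480) g00779) (Good.n2 L05488 L05489)) L05490) L05491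
theorem g00781 : Good (Phi V5.P V5.D (-1) (-1)) ⟨4, 14, 4, 10, 2, 3, 2, 1, 4, 3⟩ :=
  Good.n4 (Good.n0 (Good.n2 L05494 L05495) L05496) (Good.n0 (Good.n0 L05497 (Good.n0 L05498 L05499)) L05500)
theorem g00782 : Good (Phi V5.P V5.D (-1) (-1)) ⟨1, 1, 4, 10, 2, 3, 2, 1, 3, 1⟩ :=
  Good.n4 (Good.n0 L05477 (Good.n0 L05478 g00780)) (Good.n0 L05492 (Good.n0 L05493 (Good.n0 g00781 L05501)))
theorem g00783 : Good (Phi V5.P V5.D (-1) (-1)) ⟨1, 1, 4, 10, 2, 3, 2, 1, 2, 0⟩ :=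
  Good.n4 (Good.n0 L05394 (Good.n2 g00768 (Good.n0 L05409 (Good.n4 (Good.n0 g00772 L05436) g00778)))) g00782
theorem g00784 : Good (Phi V5.P V5.D (-1) (-1)) ⟨2, 3, 4, 11, 2, 3, 2, 1, 2, 0⟩ :=
  Good.n0 L05503 (Good.n0 (Good.n0 (Good.n0 L05504 (Good.n1 (Good.n0 L05505 L05506) L05507)) L05508) L05509)
theorem g00785 : Good (Phi V5.P V5.D (-1) (-1)) ⟨1, 1, 1, 1, 2, 3, 2, 1, 2, 0⟩ :=
  Good.n1 (Good.n1 g00766 (Good.n1 g00783 (Good.n0 L05502 g00784))) (Good.n0 L05510 (Good.n0 L05511 (Good.n0 (Good.n1 (Good.n0 L05512 L05513) L05514) L05515)))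
theorem g00786 : Good (Phi V5.P V5.D (-1) (-1)) ⟨4, 14, 2, 2, 2, 2, 2, 0, 4, 4⟩ :=
  Good.n0 (Good.n1 (Good.n0 (Good.n4 L05520 L05521) L05522) (Good.n3 L05523 (Good.n4 L05524 L05525))) L05526
theorem g00787 : Good (Phi V5.P V5.D (-1) (-1)) ⟨2, 3, 1, 1, 2, 2, 2, 0, 4, 4⟩ :=
  Good.n0 (Good.n1 (Good.n4 L05517 L05518) L05519) (Good.n0 (Good.n1 g00786 (Good.n1 (Good.n0 L05527 L05528) L05529)) L05530)
theorem g00788 : Good (Phi V5.P V5.D (-1) (-1)) ⟨2, 3, 1, 1, 2, 3, 2, 0, 4, 4⟩ :=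
  Good.n1 (Good.n0 (Good.n0 L05536 L05537) (Good.n0 (Good.n0 (Good.n2 L05538 L05539) L05540) L05541)) (Good.n0 L05542 (Good.n0 (Good.n1 (Good.n0 L05543 L05544) L05545) L05546))
theorem g00789 : Good (Phi V5.P V5.D (-1) (-1)) ⟨2, 3, 1, 1, 3, 6, 2, 0, 4, 5⟩ :=
  Good.n1 (Good.n0 L05547 (Good.n0 L05548 L05549)) (Good.n0 L05550 (Good.n0 (Good.n1 (Good.n0 L05551 L05552) L05553) L05554))
theorem g00790 : Good (Phi V5.P V5.D (-1) (-1)) ⟨2, 3, 1, 1, 3, 7, 2, 0, 4, 5⟩ :=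
  Good.n1 (Good.n4 L05555 L05556) (Good.n0 L05557 (Good.n0 (Good.n1 (Good.n0 L05558 L05559) L05560) L05561))
theorem g00791 : Good (Phi V5.P V5.D (-1) (-1)) ⟨1, 1, 1, 1, 1, 1, 2, 0, 2, 1⟩ :=
  Good.n2 (Good.n0 L05516 (Good.n4 (Good.n4 g00787 (Good.n4 (Good.n0 L05531 L05532) L05533)) L05534)) (Good.n0 L05535 (Good.n4 (Good.n4 g00788 (Good.n2 g00789 g00790)) (Good.n2 L05562 L05563)))
theorem g00792 : Good (Phi V5.P V5.D (-1) (-1)) ⟨4, 14, 1, 1, 2, 2, 2, 1, 4, 4⟩ :=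
  Good.n1 (Good.n0 (Good.n1 (Good.n4 L05569 L05570) (Good.n4 L05571 L05572)) L05573) (Good.n1 (Good.n0 L05574 L05575) L05576)
theorem g00793 : Good (Phi V5.P V5.D (-1) (-1)) ⟨4, 13, 1, 1, 2, 2, 2, 1, 4, 5⟩ :=
  Good.n1 (Good.n1 (Good.n3 (Good.n4 L05579 L05580) (Good.n2 (Good.n4 L05581 L05582) L05583)) L05584) L05585
theorem g00794 : Good (Phi V5.P V5.D (-1) (-1)) ⟨5, 28, 2, 2, 3, 5, 3, 3, 5, 11⟩ :=
  Good.n2 L05594 (Good.n1 L05595 (Good.n1 L05596 (Good.n0 L05597 (Good.n1 (Good.n0 L05598 L05599) L05600))))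
theorem g00795 : Good (Phi V5.P V5.D (-1) (-1)) ⟨5, 28, 2, 2, 2, 2, 2, 1, 4, 5⟩ :=
  Good.n2 (Good.n3 (Good.n4 L05586 L05587) (Good.n4 L05588 L05589)) (Good.n4 (Good.n1 L05590 L05591) (Good.n3 (Good.n2 L05592 L05593) g00794))
theorem g00796 : Good (Phi V5.P V5.D (-1) (-1)) ⟨2, 3, 1, 1, 2, 2, 2, 1, 4, 5⟩ :=
  Good.n0 (Good.n0 L05578 g00793) (Good.n0 (Good.n1 (Good.n0 g00795 L05601) (Good.n1 (Good.n0 L05602 L05603) L05604)) L05605)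
theorem g00797 : Good (Phi V5.P V5.D (-1) (-1)) ⟨2, 3, 1, 1, 2, 2, 2, 1, 3, 2⟩ :=
  Good.n4 (Good.n0 (Good.n0 L05565 (Good.n3 (Good.n1 L05566 L05567) L05568)) (Good.n0 g00792 L05577)) g00796
theorem g00798 : Good (Phi V5.P V5.D (-1) (-1)) ⟨4, 13, 2, 2, 3, 5, 2, 1, 4, 6⟩ :=
  Good.n4 (Good.n1 (Good.n3 L05614 (Good.n2 L05615 L05616)) L05617) (Good.n1 (Good.n3 L05618 (Good.n2 (Good.n3 L05619 L05620) L05621)) L05622)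
theorem g00799 : Good (Phi V5.P V5.D (-1) (-1)) ⟨3, 6, 1, 1, 2, 2, 2, 1, 4, 6⟩ :=
  Good.n2 (Good.n0 L05607 (Good.n1 (Good.n3 L05608 (Good.n4 L05609 (Good.n1 L05610 L05611))) L05612)) (Good.n1 (Good.n0 L05613 g00798) L05623)
theorem g00800 : Good (Phi V5.P V5.D (-1) (-1)) ⟨5, 28, 2, 2, 4, 9, 3, 3, 5, 13⟩ :=
  Good.n4 (Good.n1 L05628 (Good.n1 L05629 (Good.n0 L05630 (Good.n1 (Good.n0 L05631 L05632) L05633)))) (Good.n3 L05634 (Good.n2 L05635 (Good.n2 L05636 L05637)))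
theorem g00801 : Good (Phi V5.P V5.D (-1) (-1)) ⟨5, 28, 2, 2, 4, 10, 3, 3, 5, 12⟩ :=
  Good.n1 L05642 (Good.n1 (Good.n4 L05643 L05644) (Good.n0 L05645 (Good.n1 (Good.n0 L05646 L05647) L05648)))
theorem g00802 : Good (Phi V5.P V5.D (-1) (-1)) ⟨5, 28, 2, 2, 3, 5, 2, 1, 5, 12⟩ :=
  Good.n3 (Good.n2 L05639 (Good.n1 L05640 L05641)) (Good.n2 g00801 (Good.n1 L05649 (Good.n3 L05650 (Good.n2 L05651 L05652))))
theorem g00803 : Good (Phi V5.P V5.D (-1) (-1)) ⟨5, 28, 3, 5, 4, 10, 3, 3, 6, 26⟩ :=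
  Good.n3 (Good.n1 (Good.n2 L05661 L05662) (Good.n0 L05663 (Good.n1 (Good.n0 L05664 L05665) L05666))) (Good.n2 L05667 L05668)
theorem g00804 : Good (Phi V5.P V5.D (-1) (-1)) ⟨5, 28, 2, 2, 5, 21, 4, 6, 6, 27⟩ :=
  Good.n2 (Good.n4 (Good.n3 (Good.n2 (Good.n4 (Good.n3 L05671 L05672) L05673) L05674) L05675) L05676) L05677
theorem g00805 : Good (Phi V5.P V5.D (-1) (-1)) ⟨5, 28, 2, 2, 4, 10, 3, 3, 5, 13⟩ :=
  Good.n4 (Good.n1 (Good.n3 L05659 L05660) g00803) (Good.n2 (Good.n3 L05669 L05670) (Good.n3 g00804 L05678))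
theorem g00806 : Good (Phi V5.P V5.D (-1) (-1)) ⟨4, 14, 2, 2, 3, 5, 2, 1, 5, 13⟩ :=
  Good.n3 (Good.n3 (Good.n2 L05654 (Good.n2 L05655 L05656)) (Good.n2 L05657 L05658)) (Good.n2 (Good.n0 g00805 L05679) L05680)
theorem g00807 : Good (Phi V5.P V5.D (-1) (-1)) ⟨4, 14, 2, 2, 2, 2, 2, 1, 4, 6⟩ :=
  Good.n2 (Good.n4 (Good.n4 L05624 L05625) (Good.n3 L05626 (Good.n2 L05627 (Good.n0 g00800 L05638)))) (Good.n4 (Good.n0 g00802 L05653) g00806)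
theorem g00808 : Good (Phi V5.P V5.D (-1) (-1)) ⟨2, 3, 1, 1, 9, 304, 8, 126, 9, 224⟩ :=
  Good.n4 (Good.n2 (Good.n3 L05705 (Good.n4 (Good.n2 (Good.n3 L05706 L05707) L05708) L05709)) L05710) L05711
theorem g00809 : Good (Phi V5.P V5.D (-1) (-1)) ⟨2, 3, 1, 1, 8, 152, 6, 31, 8, 112⟩ :=
  Good.n3 (Good.n4 (Good.n3 L05699 (Good.n4 (Good.n3 L05700 (Good.n2 L05701 L05702)) L05703)) L05704) (Good.n4 (Good.n2 (Good.n3 g00808 L05712) L05713) L05714)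
theorem g00810 : Good (Phi V5.P V5.D (-1) (-1)) ⟨2, 3, 1, 1, 6, 38, 5, 15, 7, 56⟩ :=
  Good.n2 (Good.n3 L05698 (Good.n4 (Good.n2 g00809 L05715) L05716)) (Good.n3 (Good.n4 (Good.n2 L05717 L05718) L05719) L05720)
theorem g00811 : Good (Phi V5.P V5.D (-1) (-1)) ⟨2, 3, 1, 1, 5, 19, 4, 7, 6, 28⟩ :=
  Good.n3 (Good.n4 (Good.n3 L05694 (Good.n2 L05695 L05696)) L05697) (Good.n2 (Good.n4 g00810 L05721) L05722)
theorem g00812 : Good (Phi V5.P V5.D (-1) (-1)) ⟨2, 3, 1, 1, 4, 9, 4, 7, 6, 28⟩ :=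
  Good.n2 (Good.n1 L05688 (Good.n0 L05689 (Good.n0 (Good.n1 (Good.n0 L05690 L05691) L05692) L05693))) g00811
theorem g00813 : Good (Phi V5.P V5.D (-1) (-1)) ⟨2, 3, 1, 1, 4, 10, 2, 1, 4, 7⟩ :=
  Good.n4 (Good.n3 L05725 (Good.n2 (Good.n4 (Good.n3 (Good.n3 L05726 L05727) L05728) L05729) L05730)) L05731
theorem g00814 : Good (Phi V5.P V5.D (-1) (-1)) ⟨2, 3, 1, 1, 2, 2, 2, 1, 4, 7⟩ :=
  Good.n2 (Good.n3 L05685 (Good.n4 (Good.n2 L05686 (Good.n3 L05687 (Good.n4 g00812 L05723))) L05724)) (Good.n2 g00813 L05732)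
theorem g00815 : Good (Phi V5.P V5.D (-1) (-1)) ⟨2, 3, 1, 1, 2, 2, 2, 1, 3, 3⟩ :=
  Good.n4 (Good.n0 g00799 (Good.n0 (Good.n1 g00807 (Good.n1 (Good.n0 L05681 L05682) L05683)) L05684)) g00814
theorem g00816 : Good (Phi V5.P V5.D (-1) (-1)) ⟨5, 28, 3, 5, 3, 7, 2, 1, 4, 4⟩ :=
  Good.n1 (Good.n4 (Good.n3 L05751 L05752) (Good.n3 L05753 (Good.n4 L05754 L05755))) (Good.n0 L05756 (Good.n1 (Good.n0 L05757 L05758) L05759))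
theorem g00817 : Good (Phi V5.P V5.D (-1) (-1)) ⟨5, 28, 2, 2, 3, 7, 2, 1, 4, 4⟩ :=
  Good.n1 (Good.n1 L05745 (Good.n4 L05746 (Good.n0 (Good.n3 L05747 (Good.n1 L05748 L05749)) L05750))) g00816
theorem g00818 : Good (Phi V5.P V5.D (-1) (-1)) ⟨4, 14, 2, 2, 2, 3, 2, 1, 4, 4⟩ :=
  Good.n0 (Good.n2 (Good.n1 (Good.n0 L05740 L05741) (Good.n4 L05742 (Good.n3 L05743 L05744))) g00817) L05760
theorem g00819 : Good (Phi V5.P V5.D (-1) (-1)) ⟨2, 3, 2, 2, 2, 3, 2, 1, 4, 4⟩ :=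
  Good.n0 (Good.n0 L05734 (Good.n1 (Good.n2 L05735 (Good.n4 L05736 (Good.n3 L05737 L05738))) L05739)) (Good.n0 g00818 L05761)
theorem g00820 : Good (Phi V5.P V5.D (-1) (-1)) ⟨3, 6, 2, 2, 3, 6, 2, 1, 4, 5⟩ :=
  Good.n0 L05762 (Good.n1 (Good.n4 (Good.n2 L05763 L05764) (Good.n3 L05765 (Good.n2 L05766 L05767))) L05768)
theorem g00821 : Good (Phi V5.P V5.D (-1) (-1)) ⟨4, 14, 2, 2, 3, 6, 2, 1, 5, 10⟩ :=
  Good.n3 L05769 (Good.n0 (Good.n2 (Good.n0 L05770 L05771) (Good.n3 L05772 (Good.n4 L05773 L05774))) L05775)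
theorem g00822 : Good (Phi V5.P V5.D (-1) (-1)) ⟨4, 14, 2, 2, 3, 6, 2, 1, 5, 11⟩ :=
  Good.n3 (Good.n0 (Good.n2 L05776 L05777) L05778) (Good.n2 (Good.n3 (Good.n0 L05779 L05780) (Good.n4 L05781 L05782)) L05783)
theorem g00823 : Good (Phi V5.P V5.D (-1) (-1)) ⟨2, 3, 2, 2, 2, 3, 2, 1, 4, 5⟩ :=
  Good.n2 (Good.n0 g00820 (Good.n0 (Good.n4 g00821 g00822) L05784)) (Good.n2 (Good.n3 L05785 L05786) L05787)
theorem g00824 : Good (Phi V5.P V5.D (-1) (-1)) ⟨2, 3, 1, 1, 2, 3, 2, 1, 3, 2⟩ :=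
  Good.n1 (Good.n4 g00819 g00823) (Good.n0 L05788 (Good.n0 (Good.n1 (Good.n0 L05789 L05790) L05791) L05792))
theorem g00825 : Good (Phi V5.P V5.D (-1) (-1)) ⟨2, 3, 1, 1, 3, 6, 3, 2, 4, 6⟩ :=
  Good.n1 (Good.n4 L05794 L05795) (Good.n0 L05796 (Good.n0 (Good.n1 (Good.n0 L05797 L05798) L05799) L05800))
theorem g00826 : Good (Phi V5.P V5.D (-1) (-1)) ⟨1, 1, 1, 1, 2, 3, 2, 1, 2, 1⟩ :=
  Good.n4 (Good.n0 L05733 g00824) (Good.n4 (Good.n0 L05793 (Good.n2 (Good.n3 g00825 L05801) L05802)) L05803)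
theorem g00827 : Good (Phi V5.P V5.D (-1) (-1)) ⟨1, 1, 1, 1, 1, 1, 1, 0, 1, 0⟩ :=
  Good.n4 (Good.n2 g00690 (Good.n3 g00754 g00785)) (Good.n3 g00791 (Good.n2 (Good.n4 (Good.n0 L05564 g00797) (Good.n0 L05606 g00815)) g00826))
theorem g00828 : Good (Phi V5.P V5.D (-1) (-1)) ⟨4, 14, 3, 4, 3, 5, 3, 5, 5, 0⟩ :=
  Good.n0 (Good.n1 L05824 (Good.n0 (Good.n1 L05825 (Good.n3 (Good.n0 L05826 L05827) L05828)) L05829)) L05830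
theorem g00829 : Good (Phi V5.P V5.D (-1) (-1)) ⟨2, 3, 3, 4, 3, 5, 2, 2, 5, 0⟩ :=
  Good.n3 (Good.n0 L05815 (Good.n0 (Good.n0 (Good.n1 L05816 (Good.n0 L05817 L05818)) L05819) L05820)) (Good.n0 (Good.n0 L05821 (Good.n2 L05822 L05823)) (Good.n0 g00828 L05831))
theorem g00830 : Good (Phi V5.P V5.D (-1) (-1)) ⟨2, 3, 3, 4, 3, 5, 2, 2, 5, 1⟩ :=
  Good.n3 (Good.n0 L05832 (Good.n0 (Good.n0 L05833 L05834) L05835)) (Good.n0 (Good.n1 L05836 L05837) (Good.n0 L05838 L05839))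
theorem g00831 : Good (Phi V5.P V5.D (-1) (-1)) ⟨2, 3, 3, 4, 2, 2, 2, 2, 4, 0⟩ :=
  Good.n2 (Good.n0 (Good.n0 L05810 L05811) (Good.n0 (Good.n0 L05812 L05813) L05814)) (Good.n4 g00829 g00830)
theorem g00832 : Good (Phi V5.P V5.D (-1) (-1)) ⟨2, 3, 3, 4, 3, 4, 2, 2, 4, 1⟩ :=
  Good.n0 (Good.n0 L05840 L05841) (Good.n0 (Good.n0 (Good.n4 L05842 (Good.n0 (Good.n1 L05843 L05844) L05845)) L05846) L05847)
theorem g00833 : Good (Phi V5.P V5.D (-1) (-1)) ⟨2, 3, 3, 4, 3, 5, 2, 2, 4, 1⟩ :=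
  Good.n0 (Good.n0 L05848 (Good.n4 (Good.n0 L05849 (Good.n1 L05850 L05851)) L05852)) (Good.n0 (Good.n0 (Good.n1 L05853 (Good.n1 L05854 L05855)) L05856) L05857)
theorem g00834 : Good (Phi V5.P V5.D (-1) (-1)) ⟨6, 56, 5, 21, 2, 2, 3, 5, 5, 0⟩ :=
  Good.n0 L05870 (Good.n3 (Good.n2 L05871 L05872) (Good.n2 L05873 (Good.n0 L05874 (Good.n1 L05875 L05876))))
theorem g00835 : Good (Phi V5.P V5.D (-1) (-1)) ⟨6, 56, 4, 10, 2, 2, 3, 5, 4, 0⟩ :=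
  Good.n1 (Good.n2 L05864 (Good.n0 L05865 (Good.n4 (Good.n3 (Good.n1 L05866 L05867) L05868) L05869))) (Good.n4 g00834 L05877)
theorem g00836 : Good (Phi V5.P V5.D (-1) (-1)) ⟨7, 114, 4, 10, 2, 2, 3, 4, 5, 0⟩ :=
  Good.n3 (Good.n2 (Good.n4 L05878 L05879) (Good.n4 L05880 L05881)) (Good.n2 (Good.n1 L05882 (Good.n1 L05883 (Good.n0 L05884 L05885))) (Good.n1 L05886 L05887))
theorem g00837 : Good (Phi V5.P V5.D (-1) (-1)) ⟨7, 114, 4, 10, 2, 2, 4, 10, 5, 0⟩ :=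
  Good.n2 (Good.n1 L05889 (Good.n1 L05890 (Good.n0 L05891 L05892))) (Good.n4 L05893 (Good.n2 L05894 L05895))
theorem g00838 : Good (Phi V5.P V5.D (-1) (-1)) ⟨6, 57, 4, 10, 2, 2, 2, 2, 5, 0⟩ :=
  Good.n3 (Good.n0 g00836 L05888) (Good.n0 (Good.n3 g00837 (Good.n2 L05896 (Good.n2 L05897 L05898))) L05899)
theorem g00839 : Good (Phi V5.P V5.D (-1) (-1)) ⟨7, 114, 5, 21, 2, 2, 2, 2, 5, 1⟩ :=
  Good.n3 (Good.n1 L05901 (Good.n0 L05902 L05903)) (Good.n1 (Good.n0 L05904 L05905) (Good.n0 L05906 L05907))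
theorem g00840 : Good (Phi V5.P V5.D (-1) (-1)) ⟨5, 28, 4, 10, 2, 2, 2, 2, 4, 0⟩ :=
  Good.n0 (Good.n3 (Good.n4 (Good.n2 L05860 (Good.n2 L05861 L05862)) L05863) g00835) (Good.n4 g00838 (Good.n0 (Good.n1 L05900 g00839) L05908))
theorem g00841 : Good (Phi V5.P V5.D (-1) (-1)) ⟨6, 57, 4, 10, 2, 2, 2, 2, 4, 1⟩ :=
  Good.n4 (Good.n0 (Good.n2 L05916 L05917) L05918) (Good.n0 (Good.n2 L05919 (Good.n1 L05920 (Good.n1 L05921 (Good.n0 L05922 L05923)))) L05924)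
theorem g00842 : Good (Phi V5.P V5.D (-1) (-1)) ⟨5, 28, 3, 5, 2, 2, 2, 2, 4, 1⟩ :=
  Good.n1 (Good.n0 (Good.n4 (Good.n1 L05913 L05914) L05915) g00841) (Good.n0 L05925 (Good.n1 (Good.n0 L05926 L05927) L05928))
theorem g00843 : Good (Phi V5.P V5.D (-1) (-1)) ⟨4, 14, 3, 5, 2, 2, 2, 2, 3, 0⟩ :=
  Good.n0 (Good.n4 (Good.n1 g00840 (Good.n0 L05909 (Good.n1 (Good.n0 L05910 L05911) L05912))) g00842) L05929
theorem g00844 : Good (Phi V5.P V5.D (-1) (-1)) ⟨1, 1, 2, 2, 2, 2, 2, 2, 3, 0⟩ :=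
  Good.n1 (Good.n0 L05809 (Good.n4 g00831 (Good.n2 g00832 g00833))) (Good.n0 L05858 (Good.n0 L05859 (Good.n0 g00843 L05930)))
theorem g00845 : Good (Phi V5.P V5.D (-1) (-1)) ⟨3, 7, 2, 2, 2, 2, 2, 2, 3, 1⟩ :=
  Good.n4 (Good.n0 (Good.n0 (Good.n1 (Good.n1 L05935 L05936) L05937) L05938) L05939) (Good.n0 (Good.n0 (Good.n1 L05940 L05941) L05942) L05943)
theorem g00846 : Good (Phi V5.P V5.D (-1) (-1)) ⟨1, 1, 1, 1, 2, 2, 2, 2, 2, 0⟩ :=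
  Good.n1 (Good.n4 g00844 (Good.n0 L05931 (Good.n0 (Good.n0 L05932 (Good.n4 L05933 L05934)) g00845))) (Good.n0 L05944 (Good.n0 L05945 (Good.n0 (Good.n1 (Good.n0 L05946 L05947) L05948) L05949)))
theorem g00847 : Good (Phi V5.P V5.D (-1) (-1)) ⟨1, 1, 4, 8, 2, 2, 3, 6, 3, 0⟩ :=
  Good.n4 (Good.n0 L05950 (Good.n0 (Good.n0 L05951 (Good.n0 L05952 (Good.n4 L05953 L05954))) L05955)) (Good.n0 L05956 (Good.n0 (Good.n0 L05957 (Good.n4 (Good.n0 L05958 L05959) L05960)) L05961))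
theorem g00848 : Good (Phi V5.P V5.D (-1) (-1)) ⟨6, 55, 4, 8, 2, 2, 3, 7, 4, 0⟩ :=
  Good.n4 (Good.n0 (Good.n2 L05969 (Good.n1 L05970 L05971)) L05972) (Good.n2 (Good.n0 (Good.n1 L05973 L05974) L05975) (Good.n0 L05976 L05977))
theorem g00849 : Good (Phi V5.P V5.D (-1) (-1)) ⟨3, 6, 4, 8, 2, 2, 3, 7, 4, 0⟩ :=
  Good.n0 L05963 (Good.n0 L05964 (Good.n0 (Good.n2 L05965 (Good.n4 L05966 (Good.n1 L05967 L05968))) g00848))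
theorem g00850 : Good (Phi V5.P V5.D (-1) (-1)) ⟨2, 3, 4, 8, 2, 2, 3, 7, 3, 0⟩ :=
  Good.n0 (Good.n4 g00849 (Good.n0 L05978 (Good.n0 L05979 (Good.n4 (Good.n0 L05980 L05981) L05982)))) L05983
theorem g00851 : Good (Phi V5.P V5.D (-1) (-1)) ⟨6, 55, 4, 9, 2, 2, 2, 3, 4, 0⟩ :=
  Good.n4 (Good.n3 L05988 (Good.n2 L05989 (Good.n1 L05990 L05991))) (Good.n3 L05992 (Good.n2 L05993 (Good.n1 (Good.n0 L05994 L05995) (Good.n0 L05996 L05997))))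
theorem g00852 : Good (Phi V5.P V5.D (-1) (-1)) ⟨6, 56, 4, 9, 2, 2, 2, 3, 4, 0⟩ :=
  Good.n3 (Good.n1 L05998 (Good.n2 L05999 (Good.n0 L06000 L06001))) (Good.n2 L06002 (Good.n1 L06003 (Good.n4 (Good.n0 L06004 L06005) (Good.n0 L06006 L06007))))
theorem g00853 : Good (Phi V5.P V5.D (-1) (-1)) ⟨2, 3, 4, 9, 2, 2, 2, 3, 4, 0⟩ :=
  Good.n0 (Good.n0 L05985 (Good.n0 L05986 (Good.n0 L05987 g00851))) (Good.n0 (Good.n0 (Good.n0 g00852 L06008) L06009) L06010)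
theorem g00854 : Good (Phi V5.P V5.D (-1) (-1)) ⟨5, 28, 4, 9, 2, 2, 2, 3, 4, 1⟩ :=
  Good.n0 (Good.n4 (Good.n1 L06017 (Good.n2 (Good.n3 L06018 L06019) L06020)) (Good.n2 L06021 L06022)) L06023
theorem g00855 : Good (Phi V5.P V5.D (-1) (-1)) ⟨2, 3, 4, 9, 2, 2, 2, 3, 4, 1⟩ :=
  Good.n0 (Good.n0 L06011 (Good.n0 L06012 (Good.n0 L06013 (Good.n4 (Good.n3 L06014 L06015) L06016)))) (Good.n0 (Good.n0 g00854 L06024) L06025)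
theorem g00856 : Good (Phi V5.P V5.D (-1) (-1)) ⟨2, 3, 3, 4, 2, 2, 2, 3, 4, 2⟩ :=
  Good.n0 (Good.n0 L06027 (Good.n4 (Good.n3 L06028 L06029) L06030)) (Good.n0 (Good.n0 (Good.n4 L06031 L06032) L06033) L06034)
theorem g00857 : Good (Phi V5.P V5.D (-1) (-1)) ⟨1, 1, 3, 4, 2, 2, 2, 3, 3, 1⟩ :=
  Good.n0 L06026 (Good.n4 g00856 (Good.n0 (Good.n0 L06035 L06036) (Good.n0 (Good.n0 L06037 L06038) L06039)))
theorem g00858 : Good (Phi V5.P V5.D (-1) (-1)) ⟨1, 1, 3, 4, 2, 2, 2, 3, 2, 0⟩ :=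
  Good.n4 (Good.n1 (Good.n3 g00847 (Good.n0 L05962 g00850)) (Good.n0 L05984 (Good.n4 g00853 g00855))) g00857
theorem g00859 : Good (Phi V5.P V5.D (-1) (-1)) ⟨5, 28, 4, 10, 3, 5, 3, 6, 5, 1⟩ :=
  Good.n0 (Good.n1 L06049 L06050) (Good.n0 (Good.n1 L06051 (Good.n1 L06052 (Good.n0 L06053 L06054))) L06055)
theorem g00860 : Good (Phi V5.P V5.D (-1) (-1)) ⟨2, 3, 4, 10, 3, 5, 3, 6, 4, 0⟩ :=
  Good.n0 L06045 (Good.n0 (Good.n0 (Good.n4 (Good.n0 L06046 (Good.n2 L06047 L06048)) g00859) L06056) L06057)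
theorem g00861 : Good (Phi V5.P V5.D (-1) (-1)) ⟨3, 7, 5, 21, 2, 2, 3, 6, 5, 2⟩ :=
  Good.n0 (Good.n0 (Good.n0 L06065 (Good.n0 (Good.n1 L06066 (Good.n0 L06067 L06068)) L06069)) L06070) L06071
theorem g00862 : Good (Phi V5.P V5.D (-1) (-1)) ⟨2, 3, 4, 10, 2, 2, 3, 6, 4, 1⟩ :=
  Good.n1 (Good.n0 L06058 (Good.n0 (Good.n0 (Good.n0 (Good.n4 L06059 L06060) L06061) L06062) L06063)) (Good.n4 (Good.n0 L06064 g00861) (Good.n0 L06072 (Good.n0 L06073 L06074)))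
theorem g00863 : Good (Phi V5.P V5.D (-1) (-1)) ⟨2, 3, 4, 11, 2, 2, 3, 6, 3, 0⟩ :=
  Good.n0 L06075 (Good.n0 (Good.n0 (Good.n0 L06076 (Good.n1 (Good.n0 L06077 L06078) L06079)) L06080) L06081)
theorem g00864 : Good (Phi V5.P V5.D (-1) (-1)) ⟨2, 3, 3, 5, 2, 2, 3, 6, 3, 0⟩ :=
  Good.n1 (Good.n4 (Good.n2 (Good.n0 L06041 (Good.n0 (Good.n0 L06042 L06043) L06044)) g00860) g00862) g00863
theorem g00865 : Good (Phi V5.P V5.D (-1) (-1)) ⟨5, 28, 3, 5, 3, 4, 3, 7, 4, 0⟩ :=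
  Good.n1 (Good.n2 L06084 (Good.n2 L06085 L06086)) (Good.n0 L06087 (Good.n1 (Good.n0 L06088 L06089) L06090))
theorem g00866 : Good (Phi V5.P V5.D (-1) (-1)) ⟨4, 14, 3, 5, 3, 4, 3, 7, 4, 1⟩ :=
  Good.n0 (Good.n4 (Good.n1 L06092 (Good.n0 L06093 (Good.n1 (Good.n0 L06094 L06095) L06096))) L06097) L06098
theorem g00867 : Good (Phi V5.P V5.D (-1) (-1)) ⟨6, 57, 4, 10, 3, 5, 3, 7, 5, 0⟩ :=
  Good.n0 (Good.n1 L06105 (Good.n1 (Good.n0 (Good.n2 L06106 L06107) L06108) (Good.n0 L06109 L06110))) L06111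
theorem g00868 : Good (Phi V5.P V5.D (-1) (-1)) ⟨5, 28, 3, 5, 3, 5, 3, 7, 5, 0⟩ :=
  Good.n1 (Good.n0 (Good.n1 (Good.n0 L06102 L06103) L06104) g00867) (Good.n0 L06112 (Good.n1 (Good.n0 L06113 L06114) L06115))
theorem g00869 : Good (Phi V5.P V5.D (-1) (-1)) ⟨4, 14, 3, 5, 3, 5, 4, 14, 5, 1⟩ :=
  Good.n1 (Good.n1 (Good.n0 L06119 L06120) L06121) (Good.n0 (Good.n0 L06122 (Good.n1 (Good.n0 L06123 L06124) L06125)) L06126)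
theorem g00870 : Good (Phi V5.P V5.D (-1) (-1)) ⟨5, 28, 3, 5, 3, 5, 4, 15, 5, 1⟩ :=
  Good.n1 (Good.n1 L06128 (Good.n0 L06129 L06130)) (Good.n0 L06131 (Good.n1 (Good.n0 L06132 L06133) L06134))
theorem g00871 : Good (Phi V5.P V5.D (-1) (-1)) ⟨2, 3, 3, 5, 3, 5, 3, 7, 4, 0⟩ :=
  Good.n4 (Good.n0 L06101 (Good.n0 (Good.n0 g00868 L06116) L06117)) (Good.n0 L06118 (Good.n3 (Good.n0 g00869 L06127) (Good.n0 (Good.n0 g00870 L06135) L06136)))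
theorem g00872 : Good (Phi V5.P V5.D (-1) (-1)) ⟨3, 7, 4, 10, 4, 11, 3, 7, 4, 1⟩ :=
  Good.n0 (Good.n3 (Good.n1 (Good.n0 L06142 L06143) L06144) (Good.n1 (Good.n0 L06145 L06146) L06147)) L06148
theorem g00873 : Good (Phi V5.P V5.D (-1) (-1)) ⟨3, 7, 3, 5, 3, 5, 3, 7, 4, 1⟩ :=
  Good.n1 (Good.n2 (Good.n0 (Good.n0 (Good.n4 L06138 L06139) L06140) L06141) g00872) (Good.n0 (Good.n0 (Good.n0 L06149 (Good.n1 (Good.n0 L06150 L06151) L06152)) L06153) L06154)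
theorem g00874 : Good (Phi V5.P V5.D (-1) (-1)) ⟨1, 1, 3, 5, 2, 2, 3, 7, 3, 0⟩ :=
  Good.n2 (Good.n0 L06082 (Good.n0 L06083 (Good.n0 (Good.n4 (Good.n0 g00865 L06091) g00866) L06099))) (Good.n0 L06100 (Good.n4 g00871 (Good.n0 L06137 g00873)))
theorem g00875 : Good (Phi V5.P V5.D (-1) (-1)) ⟨5, 28, 3, 5, 2, 2, 2, 3, 4, 2⟩ :=
  Good.n1 (Good.n4 (Good.n0 L06157 L06158) L06159) (Good.n0 L06160 (Good.n1 (Good.n0 L06161 L06162) L06163))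
theorem g00876 : Good (Phi V5.P V5.D (-1) (-1)) ⟨4, 14, 3, 5, 2, 2, 2, 3, 4, 3⟩ :=
  Good.n0 (Good.n1 (Good.n3 L06166 L06167) (Good.n0 L06168 (Good.n1 (Good.n0 L06169 L06170) L06171))) L06172
theorem g00877 : Good (Phi V5.P V5.D (-1) (-1)) ⟨1, 1, 3, 5, 2, 2, 2, 3, 3, 1⟩ :=
  Good.n0 L06155 (Good.n0 L06156 (Good.n4 (Good.n0 (Good.n0 g00875 L06164) L06165) (Good.n0 g00876 L06173)))
theorem g00878 : Good (Phi V5.P V5.D (-1) (-1)) ⟨1, 1, 1, 1, 2, 2, 2, 3, 2, 0⟩ :=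
  Good.n1 (Good.n1 g00858 (Good.n4 (Good.n3 (Good.n0 L06040 g00864) g00874) g00877)) (Good.n0 L06174 (Good.n0 L06175 (Good.n0 (Good.n1 (Good.n0 L06176 L06177) L06178) L06179)))
theorem g00879 : Good (Phi V5.P V5.D (-1) (-1)) ⟨5, 27, 4, 8, 3, 6, 2, 2, 4, 0⟩ :=
  Good.n4 (Good.n0 L06188 L06189) (Good.n0 (Good.n3 L06190 L06191) (Good.n0 (Good.n3 L06192 (Good.n1 L06193 L06194)) L06195))
theorem g00880 : Good (Phi V5.P V5.D (-1) (-1)) ⟨5, 27, 4, 8, 3, 6, 2, 2, 5, 2⟩ :=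
  Good.n0 (Good.n3 L06196 (Good.n4 L06197 L06198)) (Good.n4 (Good.n0 L06199 L06200) (Good.n0 L06201 L06202))
theorem g00881 : Good (Phi V5.P V5.D (-1) (-1)) ⟨4, 13, 4, 8, 3, 6, 2, 2, 3, 0⟩ :=
  Good.n0 (Good.n4 (Good.n4 L06182 L06183) (Good.n4 (Good.n0 L06184 (Good.n1 L06185 L06186)) L06187)) (Good.n4 g00879 (Good.n4 g00880 L06203))
theorem g00882 : Good (Phi V5.P V5.D (-1) (-1)) ⟨2, 3, 4, 9, 4, 12, 2, 2, 4, 0⟩ :=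
  Good.n0 (Good.n0 L06205 (Good.n0 L06206 (Good.n4 L06207 L06208))) (Good.n0 (Good.n0 (Good.n0 (Good.n1 L06209 (Good.n4 L06210 L06211)) L06212) L06213) L06214)
theorem g00883 : Good (Phi V5.P V5.D (-1) (-1)) ⟨2, 3, 4, 9, 4, 12, 2, 2, 4, 1⟩ :=
  Good.n0 (Good.n0 L06215 (Good.n0 L06216 (Good.n4 L06217 L06218))) (Good.n0 (Good.n0 (Good.n0 (Good.n4 L06219 (Good.n1 L06220 L06221)) L06222) L06223) L06224)
theorem g00884 : Good (Phi V5.P V5.D (-1) (-1)) ⟨3, 6, 5, 18, 4, 13, 2, 2, 3, 0⟩ :=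
  Good.n4 (Good.n0 L06225 (Good.n0 L06226 (Good.n0 L06227 (Good.n4 L06228 L06229)))) (Good.n0 L06230 (Good.n0 L06231 (Good.n4 L06232 L06233)))
theorem g00885 : Good (Phi V5.P V5.D (-1) (-1)) ⟨3, 6, 5, 19, 4, 13, 2, 2, 3, 0⟩ :=
  Good.n4 (Good.n0 L06235 (Good.n0 L06236 (Good.n3 L06237 L06238))) (Good.n0 L06239 (Good.n4 L06240 L06241))
theorem g00886 : Good (Phi V5.P V5.D (-1) (-1)) ⟨4, 14, 5, 19, 4, 13, 2, 2, 3, 0⟩ :=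
  Good.n4 (Good.n0 (Good.n4 L06242 (Good.n0 L06243 L06244)) L06245) (Good.n0 (Good.n0 (Good.n4 L06246 L06247) L06248) L06249)
theorem g00887 : Good (Phi V5.P V5.D (-1) (-1)) ⟨2, 3, 4, 9, 3, 6, 2, 2, 3, 0⟩ :=
  Good.n2 (Good.n4 g00882 g00883) (Good.n1 (Good.n0 g00884 L06234) (Good.n0 g00885 (Good.n0 g00886 L06250)))
theorem g00888 : Good (Phi V5.P V5.D (-1) (-1)) ⟨5, 27, 4, 8, 3, 7, 2, 2, 4, 0⟩ :=
  Good.n4 (Good.n1 L06255 L06256) (Good.n1 (Good.n3 L06257 L06258) (Good.n3 L06259 (Good.n0 L06260 L06261)))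
theorem g00889 : Good (Phi V5.P V5.D (-1) (-1)) ⟨5, 27, 4, 8, 3, 7, 2, 2, 5, 2⟩ :=
  Good.n3 (Good.n4 L06268 L06269) (Good.n1 (Good.n0 (Good.n2 L06270 L06271) L06272) (Good.n2 L06273 (Good.n0 L06274 L06275)))
theorem g00890 : Good (Phi V5.P V5.D (-1) (-1)) ⟨2, 3, 4, 8, 3, 7, 2, 2, 4, 1⟩ :=
  Good.n4 (Good.n0 (Good.n0 L06264 (Good.n0 (Good.n3 L06265 (Good.n1 L06266 L06267)) g00889)) L06276) (Good.n0 (Good.n0 L06277 (Good.n0 L06278 (Good.n3 L06279 L06280))) L06281)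
theorem g00891 : Good (Phi V5.P V5.D (-1) (-1)) ⟨1, 1, 4, 8, 3, 7, 2, 2, 3, 0⟩ :=
  Good.n4 (Good.n0 L06251 (Good.n0 (Good.n0 L06252 (Good.n0 (Good.n4 L06253 L06254) g00888)) L06262)) (Good.n0 L06263 g00890)
theorem g00892 : Good (Phi V5.P V5.D (-1) (-1)) ⟨3, 6, 4, 9, 3, 7, 2, 2, 5, 1⟩ :=
  Good.n0 L06288 (Good.n0 L06289 (Good.n0 L06290 (Good.n1 (Good.n3 L06291 L06292) (Good.n3 L06293 L06294))))
theorem g00893 : Good (Phi V5.P V5.D (-1) (-1)) ⟨6, 56, 4, 9, 3, 7, 2, 2, 4, 0⟩ :=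
  Good.n1 L06295 (Good.n2 (Good.n4 L06296 (Good.n3 L06297 L06298)) (Good.n4 L06299 (Good.n1 L06300 L06301)))
theorem g00894 : Good (Phi V5.P V5.D (-1) (-1)) ⟨2, 3, 4, 9, 3, 7, 2, 2, 4, 0⟩ :=
  Good.n0 (Good.n4 (Good.n0 L06283 (Good.n0 L06284 (Good.n0 L06285 (Good.n1 L06286 L06287)))) g00892) (Good.n0 (Good.n0 (Good.n0 g00893 L06302) L06303) L06304)
theorem g00895 : Good (Phi V5.P V5.D (-1) (-1)) ⟨6, 55, 5, 18, 3, 7, 2, 2, 5, 2⟩ :=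
  Good.n2 (Good.n2 L06309 (Good.n3 L06310 L06311)) (Good.n4 (Good.n1 L06312 L06313) (Good.n3 L06314 L06315))
theorem g00896 : Good (Phi V5.P V5.D (-1) (-1)) ⟨4, 13, 4, 9, 3, 7, 2, 2, 5, 2⟩ :=
  Good.n0 L06307 (Good.n0 L06308 (Good.n1 g00895 (Good.n2 (Good.n3 L06316 L06317) (Good.n3 L06318 L06319))))
theorem g00897 : Good (Phi V5.P V5.D (-1) (-1)) ⟨6, 56, 5, 19, 3, 7, 2, 2, 5, 2⟩ :=
  Good.n1 (Good.n0 (Good.n2 (Good.n3 L06321 (Good.n4 L06322 L06323)) (Good.n3 L06324 L06325)) L06326) (Good.n2 (Good.n0 (Good.n3 L06327 L06328) L06329) (Good.n0 (Good.n3 L06330 L06331) L06332))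
theorem g00898 : Good (Phi V5.P V5.D (-1) (-1)) ⟨2, 3, 4, 9, 3, 7, 2, 2, 5, 2⟩ :=
  Good.n0 (Good.n0 L06306 g00896) (Good.n0 (Good.n0 (Good.n0 (Good.n1 L06320 g00897) L06333) L06334) L06335)
theorem g00899 : Good (Phi V5.P V5.D (-1) (-1)) ⟨2, 3, 4, 9, 3, 7, 2, 2, 5, 3⟩ :=
  Good.n0 (Good.n0 L06336 (Good.n0 L06337 (Good.n4 (Good.n3 L06338 L06339) L06340))) (Good.n0 (Good.n0 (Good.n1 L06341 (Good.n3 L06342 L06343)) L06344) L06345)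
theorem g00900 : Good (Phi V5.P V5.D (-1) (-1)) ⟨1, 1, 3, 4, 2, 3, 2, 2, 3, 0⟩ :=
  Good.n2 (Good.n0 L06180 (Good.n1 (Good.n0 (Good.n0 L06181 g00881) L06204) g00887)) (Good.n1 g00891 (Good.n4 (Good.n0 L06282 g00894) (Good.n0 L06305 (Good.n4 g00898 g00899))))
theorem g00901 : Good (Phi V5.P V5.D (-1) (-1)) ⟨2, 3, 3, 4, 3, 6, 2, 2, 4, 2⟩ :=
  Good.n0 (Good.n0 L06347 (Good.n4 L06348 L06349)) (Good.n0 (Good.n0 (Good.n4 L06350 L06351) L06352) L06353)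
theorem g00902 : Good (Phi V5.P V5.D (-1) (-1)) ⟨2, 3, 3, 4, 3, 7, 2, 2, 4, 2⟩ :=
  Good.n0 (Good.n0 L06354 (Good.n1 L06355 L06356)) (Good.n0 (Good.n0 (Good.n4 L06357 L06358) L06359) L06360)
theorem g00903 : Good (Phi V5.P V5.D (-1) (-1)) ⟨3, 6, 3, 4, 2, 3, 2, 2, 4, 3⟩ :=
  Good.n4 (Good.n0 L06362 (Good.n0 L06363 L06364)) (Good.n0 L06365 (Good.n2 L06366 (Good.n3 L06367 (Good.n2 L06368 L06369))))
theorem g00904 : Good (Phi V5.P V5.D (-1) (-1)) ⟨5, 28, 3, 4, 2, 3, 2, 2, 5, 7⟩ :=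
  Good.n1 L06375 (Good.n0 (Good.n2 L06376 (Good.n3 L06377 (Good.n0 (Good.n3 L06378 L06379) L06380))) L06381)
theorem g00905 : Good (Phi V5.P V5.D (-1) (-1)) ⟨4, 14, 3, 4, 2, 3, 2, 2, 4, 3⟩ :=
  Good.n0 (Good.n4 (Good.n2 (Good.n0 L06370 L06371) (Good.n1 L06372 (Good.n0 L06373 L06374))) g00904) L06382
theorem g00906 : Good (Phi V5.P V5.D (-1) (-1)) ⟨1, 1, 3, 4, 2, 3, 2, 2, 3, 1⟩ :=
  Good.n4 (Good.n0 L06346 (Good.n2 g00901 g00902)) (Good.n0 L06361 (Good.n0 g00903 (Good.n0 g00905 L06383)))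
theorem g00907 : Good (Phi V5.P V5.D (-1) (-1)) ⟨5, 28, 3, 5, 3, 6, 3, 4, 4, 0⟩ :=
  Good.n1 (Good.n0 L06386 (Good.n4 L06387 (Good.n0 (Good.n4 L06388 L06389) L06390))) (Good.n0 L06391 (Good.n1 (Good.n0 L06392 L06393) L06394))
theorem g00908 : Good (Phi V5.P V5.D (-1) (-1)) ⟨5, 28, 4, 10, 3, 6, 3, 4, 5, 2⟩ :=
  Good.n0 (Good.n1 L06397 L06398) (Good.n0 (Good.n1 L06399 (Good.n1 L06400 (Good.n0 L06401 L06402))) L06403)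
theorem g00909 : Good (Phi V5.P V5.D (-1) (-1)) ⟨5, 28, 3, 5, 3, 6, 3, 4, 4, 1⟩ :=
  Good.n4 (Good.n1 g00908 (Good.n0 L06404 (Good.n1 (Good.n0 L06405 L06406) L06407))) (Good.n1 (Good.n4 L06408 L06409) (Good.n0 L06410 (Good.n1 (Good.n0 L06411 L06412) L06413)))
theorem g00910 : Good (Phi V5.P V5.D (-1) (-1)) ⟨2, 3, 3, 5, 3, 6, 3, 4, 3, 0⟩ :=
  Good.n0 L06385 (Good.n4 (Good.n0 (Good.n0 g00907 L06395) L06396) (Good.n0 (Good.n0 g00909 L06414) L06415))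
theorem g00911 : Good (Phi V5.P V5.D (-1) (-1)) ⟨5, 28, 4, 10, 3, 6, 3, 5, 5, 0⟩ :=
  Good.n0 (Good.n1 L06418 L06419) (Good.n0 (Good.n1 L06420 (Good.n1 L06421 (Good.n0 L06422 L06423))) L06424)
theorem g00912 : Good (Phi V5.P V5.D (-1) (-1)) ⟨6, 57, 4, 10, 3, 6, 3, 5, 5, 1⟩ :=
  Good.n0 (Good.n1 L06429 (Good.n1 (Good.n0 (Good.n2 L06430 L06431) L06432) (Good.n0 L06433 L06434))) L06435
theorem g00913 : Good (Phi V5.P V5.D (-1) (-1)) ⟨5, 28, 3, 5, 3, 6, 3, 5, 4, 0⟩ :=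
  Good.n1 (Good.n4 g00911 (Good.n0 (Good.n1 (Good.n0 L06425 (Good.n2 L06426 L06427)) L06428) g00912)) (Good.n0 L06436 (Good.n1 (Good.n0 L06437 L06438) L06439))
theorem g00914 : Good (Phi V5.P V5.D (-1) (-1)) ⟨5, 28, 5, 21, 3, 6, 3, 5, 6, 4⟩ :=
  Good.n0 L06445 (Good.n0 (Good.n1 (Good.n0 (Good.n2 L06446 L06447) L06448) (Good.n0 L06449 L06450)) L06451)
theorem g00915 : Good (Phi V5.P V5.D (-1) (-1)) ⟨5, 28, 3, 5, 3, 6, 3, 5, 6, 4⟩ :=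
  Good.n1 (Good.n1 (Good.n0 (Good.n2 L06442 L06443) L06444) g00914) (Good.n0 L06452 (Good.n1 (Good.n0 L06453 L06454) L06455))
theorem g00916 : Good (Phi V5.P V5.D (-1) (-1)) ⟨5, 28, 4, 10, 3, 6, 3, 5, 6, 5⟩ :=
  Good.n2 (Good.n0 L06456 (Good.n0 L06457 L06458)) (Good.n0 L06459 (Good.n0 (Good.n1 L06460 L06461) L06462))
theorem g00917 : Good (Phi V5.P V5.D (-1) (-1)) ⟨4, 14, 3, 5, 3, 6, 3, 5, 5, 2⟩ :=
  Good.n0 (Good.n4 g00915 (Good.n1 g00916 (Good.n0 L06463 (Good.n1 (Good.n0 L06464 L06465) L06466)))) L06467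
theorem g00918 : Good (Phi V5.P V5.D (-1) (-1)) ⟨5, 28, 3, 5, 3, 6, 3, 5, 5, 3⟩ :=
  Good.n1 (Good.n0 L06469 (Good.n0 (Good.n1 L06470 L06471) L06472)) (Good.n0 L06473 (Good.n1 (Good.n0 L06474 L06475) L06476))
theorem g00919 : Good (Phi V5.P V5.D (-1) (-1)) ⟨3, 7, 3, 5, 3, 6, 3, 5, 3, 0⟩ :=
  Good.n4 (Good.n0 (Good.n0 g00913 L06440) L06441) (Good.n4 (Good.n0 g00917 L06468) (Good.n0 (Good.n0 g00918 L06477) L06478))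
theorem g00920 : Good (Phi V5.P V5.D (-1) (-1)) ⟨5, 28, 4, 10, 4, 14, 3, 4, 4, 0⟩ :=
  Good.n4 (Good.n1 L06481 (Good.n0 L06482 L06483)) (Good.n1 L06484 (Good.n0 L06485 (Good.n0 (Good.n1 L06486 (Good.n0 L06487 L06488)) L06489)))
theorem g00921 : Good (Phi V5.P V5.D (-1) (-1)) ⟨2, 3, 4, 11, 4, 14, 3, 4, 4, 0⟩ :=
  Good.n0 L06493 (Good.n0 (Good.n0 (Good.n0 L06494 (Good.n1 (Good.n0 L06495 L06496) L06497)) L06498) L06499)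
theorem g00922 : Good (Phi V5.P V5.D (-1) (-1)) ⟨1, 1, 3, 5, 4, 14, 3, 4, 4, 0⟩ :=
  Good.n1 (Good.n0 L06479 (Good.n0 L06480 (Good.n0 (Good.n0 g00920 L06490) L06491))) (Good.n0 L06492 g00921)
theorem g00923 : Good (Phi V5.P V5.D (-1) (-1)) ⟨1, 1, 5, 20, 4, 15, 4, 8, 4, 0⟩ :=
  Good.n0 L06500 (Good.n0 L06501 (Good.n0 (Good.n0 (Good.n1 L06502 (Good.n0 L06503 L06504)) L06505) L06506))
theorem g00924 : Good (Phi V5.P V5.D (-1) (-1)) ⟨5, 28, 5, 21, 4, 15, 4, 8, 4, 0⟩ :=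
  Good.n1 (Good.n0 (Good.n4 L06509 L06510) (Good.n0 (Good.n0 L06511 L06512) L06513)) (Good.n0 L06514 (Good.n0 (Good.n0 L06515 L06516) L06517))
theorem g00925 : Good (Phi V5.P V5.D (-1) (-1)) ⟨2, 3, 4, 11, 4, 15, 4, 8, 4, 0⟩ :=
  Good.n0 L06521 (Good.n0 (Good.n0 (Good.n0 L06522 (Good.n1 (Good.n0 L06523 L06524) L06525)) L06526) L06527)
theorem g00926 : Good (Phi V5.P V5.D (-1) (-1)) ⟨1, 1, 3, 5, 4, 15, 4, 8, 4, 0⟩ :=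
  Good.n1 (Good.n1 g00923 (Good.n0 L06507 (Good.n0 L06508 (Good.n0 (Good.n0 g00924 L06518) L06519)))) (Good.n0 L06520 g00925)
theorem g00927 : Good (Phi V5.P V5.D (-1) (-1)) ⟨5, 28, 5, 21, 4, 15, 4, 9, 4, 0⟩ :=
  Good.n1 (Good.n0 L06536 (Good.n0 (Good.n1 L06537 (Good.n0 L06538 L06539)) L06540)) (Good.n0 L06541 (Good.n0 (Good.n0 L06542 L06543) L06544))
theorem g00928 : Good (Phi V5.P V5.D (-1) (-1)) ⟨1, 1, 4, 10, 4, 15, 4, 9, 4, 0⟩ :=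
  Good.n1 (Good.n0 L06528 (Good.n0 L06529 (Good.n0 (Good.n0 (Good.n4 L06530 L06531) L06532) L06533))) (Good.n0 L06534 (Good.n0 L06535 (Good.n0 (Good.n0 g00927 L06545) L06546)))
theorem g00929 : Good (Phi V5.P V5.D (-1) (-1)) ⟨2, 3, 4, 11, 4, 15, 4, 9, 4, 0⟩ :=
  Good.n0 L06548 (Good.n0 (Good.n0 (Good.n0 L06549 (Good.n1 (Good.n0 L06550 L06551) L06552)) L06553) L06554)
theorem g00930 : Good (Phi V5.P V5.D (-1) (-1)) ⟨5, 28, 3, 5, 4, 14, 3, 4, 6, 4⟩ :=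
  Good.n0 (Good.n1 (Good.n1 L06557 L06558) L06559) (Good.n1 (Good.n0 (Good.n1 L06560 L06561) L06562) (Good.n1 (Good.n0 L06563 L06564) L06565))
theorem g00931 : Good (Phi V5.P V5.D (-1) (-1)) ⟨5, 28, 4, 10, 4, 14, 3, 4, 6, 5⟩ :=
  Good.n0 (Good.n1 L06569 L06570) (Good.n0 (Good.n1 L06571 (Good.n1 L06572 (Good.n0 L06573 L06574))) L06575)
theorem g00932 : Good (Phi V5.P V5.D (-1) (-1)) ⟨3, 7, 3, 5, 4, 14, 3, 4, 6, 5⟩ :=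
  Good.n0 (Good.n0 (Good.n1 g00931 (Good.n0 L06576 (Good.n1 (Good.n0 L06577 L06578) L06579))) L06580) L06581
theorem g00933 : Good (Phi V5.P V5.D (-1) (-1)) ⟨1, 1, 3, 5, 4, 14, 3, 4, 5, 2⟩ :=
  Good.n0 L06555 (Good.n4 (Good.n0 L06556 (Good.n0 (Good.n0 g00930 L06566) L06567)) (Good.n0 L06568 g00932))
theorem g00934 : Good (Phi V5.P V5.D (-1) (-1)) ⟨5, 28, 3, 5, 4, 14, 3, 4, 5, 3⟩ :=
  Good.n1 (Good.n0 (Good.n0 L06584 L06585) (Good.n1 L06586 L06587)) (Good.n0 L06588 (Good.n1 (Good.n0 L06589 L06590) L06591))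
theorem g00935 : Good (Phi V5.P V5.D (-1) (-1)) ⟨1, 1, 5, 20, 4, 15, 4, 8, 5, 2⟩ :=
  Good.n4 (Good.n0 L06594 (Good.n0 L06595 (Good.n0 L06596 L06597))) (Good.n0 L06598 (Good.n0 L06599 (Good.n0 L06600 L06601)))
theorem g00936 : Good (Phi V5.P V5.D (-1) (-1)) ⟨1, 1, 5, 20, 4, 15, 4, 8, 4, 1⟩ :=
  Good.n4 g00935 (Good.n0 L06602 (Good.n0 L06603 (Good.n0 (Good.n0 (Good.n0 L06604 L06605) L06606) L06607)))
theorem g00937 : Good (Phi V5.P V5.D (-1) (-1)) ⟨5, 28, 5, 21, 4, 15, 4, 8, 5, 2⟩ :=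
  Good.n0 L06610 (Good.n1 (Good.n0 (Good.n4 L06611 L06612) L06613) (Good.n0 (Good.n0 L06614 L06615) L06616))
theorem g00938 : Good (Phi V5.P V5.D (-1) (-1)) ⟨4, 14, 5, 21, 4, 15, 4, 8, 5, 3⟩ :=
  Good.n0 (Good.n1 (Good.n0 L06621 L06622) (Good.n0 L06623 (Good.n0 (Good.n0 L06624 L06625) L06626))) L06627
theorem g00939 : Good (Phi V5.P V5.D (-1) (-1)) ⟨1, 1, 5, 21, 4, 15, 4, 8, 4, 1⟩ :=
  Good.n4 (Good.n0 L06608 (Good.n0 L06609 (Good.n0 (Good.n0 g00937 L06617) L06618))) (Good.n0 L06619 (Good.n0 L06620 (Good.n0 g00938 L06628)))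
theorem g00940 : Good (Phi V5.P V5.D (-1) (-1)) ⟨2, 3, 4, 11, 4, 15, 4, 8, 4, 1⟩ :=
  Good.n0 L06630 (Good.n0 (Good.n0 (Good.n0 L06631 (Good.n1 (Good.n0 L06632 L06633) L06634)) L06635) L06636)
theorem g00941 : Good (Phi V5.P V5.D (-1) (-1)) ⟨2, 3, 5, 20, 4, 15, 4, 9, 5, 2⟩ :=
  Good.n0 L06638 (Good.n0 (Good.n0 (Good.n0 (Good.n1 L06639 (Good.n0 L06640 L06641)) L06642) L06643) L06644)
theorem g00942 : Good (Phi V5.P V5.D (-1) (-1)) ⟨5, 28, 5, 21, 4, 15, 4, 9, 5, 2⟩ :=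
  Good.n1 (Good.n0 L06651 (Good.n0 (Good.n0 (Good.n4 L06652 L06653) L06654) L06655)) (Good.n0 L06656 (Good.n0 (Good.n0 L06657 L06658) L06659))
theorem g00943 : Good (Phi V5.P V5.D (-1) (-1)) ⟨4, 14, 5, 21, 4, 15, 4, 9, 5, 3⟩ :=
  Good.n0 (Good.n0 L06664 (Good.n1 (Good.n0 L06665 L06666) (Good.n0 (Good.n0 L06667 L06668) L06669))) L06670
theorem g00944 : Good (Phi V5.P V5.D (-1) (-1)) ⟨1, 1, 5, 21, 4, 15, 4, 9, 4, 1⟩ :=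
  Good.n4 (Good.n0 L06649 (Good.n0 L06650 (Good.n0 (Good.n0 g00942 L06660) L06661))) (Good.n0 L06662 (Good.n0 L06663 (Good.n0 g00943 L06671)))
theorem g00945 : Good (Phi V5.P V5.D (-1) (-1)) ⟨1, 1, 4, 10, 4, 15, 4, 9, 4, 1⟩ :=
  Good.n1 (Good.n0 L06637 (Good.n4 g00941 (Good.n0 L06645 (Good.n0 (Good.n0 L06646 L06647) L06648)))) g00944
theorem g00946 : Good (Phi V5.P V5.D (-1) (-1)) ⟨2, 3, 4, 11, 4, 15, 4, 9, 4, 1⟩ :=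
  Good.n0 L06673 (Good.n0 (Good.n0 (Good.n0 L06674 (Good.n1 (Good.n0 L06675 L06676) L06677)) L06678) L06679)
theorem g00947 : Good (Phi V5.P V5.D (-1) (-1)) ⟨1, 1, 3, 5, 4, 15, 3, 4, 4, 1⟩ :=
  Good.n3 (Good.n1 (Good.n1 g00936 g00939) (Good.n0 L06629 g00940)) (Good.n1 g00945 (Good.n0 L06672 g00946))
theorem g00948 : Good (Phi V5.P V5.D (-1) (-1)) ⟨1, 1, 3, 5, 3, 7, 3, 4, 4, 1⟩ :=
  Good.n2 (Good.n4 g00933 (Good.n0 L06582 (Good.n0 L06583 (Good.n0 (Good.n0 g00934 L06592) L06593)))) g00947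
theorem g00949 : Good (Phi V5.P V5.D (-1) (-1)) ⟨1, 1, 5, 20, 4, 14, 4, 10, 4, 0⟩ :=
  Good.n0 L06680 (Good.n0 L06681 (Good.n0 (Good.n0 (Good.n0 (Good.n4 L06682 L06683) L06684) L06685) L06686))
theorem g00950 : Good (Phi V5.P V5.D (-1) (-1)) ⟨6, 57, 5, 21, 4, 14, 4, 10, 4, 0⟩ :=
  Good.n4 (Good.n0 L06691 L06692) (Good.n0 (Good.n1 (Good.n0 L06693 L06694) (Good.n0 L06695 L06696)) L06697)
theorem g00951 : Good (Phi V5.P V5.D (-1) (-1)) ⟨1, 1, 5, 21, 4, 14, 4, 10, 4, 0⟩ :=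
  Good.n0 L06687 (Good.n0 L06688 (Good.n0 (Good.n0 (Good.n0 (Good.n1 L06689 L06690) g00950) L06698) L06699))
theorem g00952 : Good (Phi V5.P V5.D (-1) (-1)) ⟨2, 3, 4, 11, 4, 14, 4, 10, 4, 0⟩ :=
  Good.n0 L06701 (Good.n0 (Good.n0 (Good.n0 L06702 (Good.n1 (Good.n0 L06703 L06704) L06705)) L06706) L06707)
theorem g00953 : Good (Phi V5.P V5.D (-1) (-1)) ⟨1, 1, 6, 40, 4, 14, 4, 11, 4, 0⟩ :=
  Good.n0 L06708 (Good.n0 L06709 (Good.n0 (Good.n0 (Good.n0 (Good.n4 L06710 L06711) L06712) L06713) L06714))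
theorem g00954 : Good (Phi V5.P V5.D (-1) (-1)) ⟨2, 3, 6, 41, 4, 14, 4, 11, 4, 0⟩ :=
  Good.n0 L06716 (Good.n0 (Good.n0 (Good.n0 (Good.n0 L06717 (Good.n4 L06718 L06719)) L06720) L06721) L06722)
theorem g00955 : Good (Phi V5.P V5.D (-1) (-1)) ⟨5, 28, 5, 21, 4, 14, 4, 11, 5, 0⟩ :=
  Good.n0 L06725 (Good.n0 (Good.n1 (Good.n0 (Good.n1 L06726 L06727) L06728) (Good.n0 L06729 L06730)) L06731)
theorem g00956 : Good (Phi V5.P V5.D (-1) (-1)) ⟨4, 14, 5, 21, 4, 14, 4, 11, 4, 0⟩ :=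
  Good.n0 (Good.n4 g00955 (Good.n0 L06732 (Good.n0 (Good.n1 L06733 (Good.n0 L06734 L06735)) L06736))) L06737
theorem g00957 : Good (Phi V5.P V5.D (-1) (-1)) ⟨1, 1, 4, 10, 4, 14, 4, 11, 4, 0⟩ :=
  Good.n1 (Good.n1 g00953 (Good.n0 L06715 g00954)) (Good.n0 L06723 (Good.n0 L06724 (Good.n0 g00956 L06738)))
theorem g00958 : Good (Phi V5.P V5.D (-1) (-1)) ⟨2, 3, 4, 11, 4, 14, 4, 11, 4, 0⟩ :=
  Good.n0 L06740 (Good.n0 (Good.n0 (Good.n0 L06741 (Good.n1 (Good.n0 L06742 L06743) L06744)) L06745) L06746)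
theorem g00959 : Good (Phi V5.P V5.D (-1) (-1)) ⟨1, 1, 3, 5, 4, 14, 3, 5, 4, 0⟩ :=
  Good.n3 (Good.n1 (Good.n1 g00949 g00951) (Good.n0 L06700 g00952)) (Good.n1 g00957 (Good.n0 L06739 g00958))
theorem g00960 : Good (Phi V5.P V5.D (-1) (-1)) ⟨3, 7, 5, 20, 4, 15, 4, 10, 4, 0⟩ :=
  Good.n0 (Good.n0 (Good.n0 (Good.n1 L06749 (Good.n0 L06750 (Good.n4 L06751 L06752))) L06753) L06754) L06755
theorem g00961 : Good (Phi V5.P V5.D (-1) (-1)) ⟨5, 28, 5, 21, 4, 15, 4, 10, 4, 0⟩ :=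
  Good.n1 (Good.n0 L06758 (Good.n0 (Good.n0 (Good.n4 L06759 L06760) L06761) L06762)) (Good.n0 L06763 (Good.n0 (Good.n0 L06764 L06765) L06766))
theorem g00962 : Good (Phi V5.P V5.D (-1) (-1)) ⟨1, 1, 4, 10, 4, 15, 4, 10, 4, 0⟩ :=
  Good.n1 (Good.n0 L06747 (Good.n0 L06748 g00960)) (Good.n0 L06756 (Good.n0 L06757 (Good.n0 (Good.n0 g00961 L06767) L06768)))
theorem g00963 : Good (Phi V5.P V5.D (-1) (-1)) ⟨2, 3, 4, 11, 4, 15, 4, 10, 4, 0⟩ :=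
  Good.n0 L06770 (Good.n0 (Good.n0 (Good.n0 L06771 (Good.n1 (Good.n0 L06772 L06773) L06774)) L06775) L06776)
theorem g00964 : Good (Phi V5.P V5.D (-1) (-1)) ⟨1, 1, 6, 40, 4, 15, 4, 11, 4, 0⟩ :=
  Good.n0 L06777 (Good.n0 L06778 (Good.n0 (Good.n0 (Good.n0 (Good.n0 L06779 L06780) L06781) L06782) L06783))
theorem g00965 : Good (Phi V5.P V5.D (-1) (-1)) ⟨2, 3, 6, 41, 4, 15, 4, 11, 4, 0⟩ :=
  Good.n0 L06785 (Good.n0 (Good.n0 (Good.n0 (Good.n0 L06786 (Good.n4 L06787 L06788)) L06789) L06790) L06791)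
theorem g00966 : Good (Phi V5.P V5.D (-1) (-1)) ⟨5, 28, 5, 21, 4, 15, 4, 11, 4, 0⟩ :=
  Good.n1 (Good.n4 (Good.n0 L06794 L06795) (Good.n0 L06796 (Good.n0 L06797 L06798))) (Good.n0 L06799 (Good.n0 (Good.n0 L06800 L06801) L06802))
theorem g00967 : Good (Phi V5.P V5.D (-1) (-1)) ⟨1, 1, 4, 10, 4, 15, 4, 11, 4, 0⟩ :=
  Good.n1 (Good.n1 g00964 (Good.n0 L06784 g00965)) (Good.n0 L06792 (Good.n0 L06793 (Good.n0 (Good.n0 g00966 L06803) L06804)))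
theorem g00968 : Good (Phi V5.P V5.D (-1) (-1)) ⟨2, 3, 4, 11, 4, 15, 4, 11, 4, 0⟩ :=
  Good.n0 L06806 (Good.n0 (Good.n0 (Good.n0 L06807 (Good.n1 (Good.n0 L06808 L06809) L06810)) L06811) L06812)
theorem g00969 : Good (Phi V5.P V5.D (-1) (-1)) ⟨1, 1, 3, 5, 3, 7, 3, 5, 4, 0⟩ :=
  Good.n2 g00959 (Good.n3 (Good.n1 g00962 (Good.n0 L06769 g00963)) (Good.n1 g00967 (Good.n0 L06805 g00968)))
theorem g00970 : Good (Phi V5.P V5.D (-1) (-1)) ⟨4, 14, 4, 10, 4, 14, 4, 10, 6, 4⟩ :=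
  Good.n1 (Good.n0 (Good.n0 L06815 L06816) L06817) (Good.n0 (Good.n0 L06818 (Good.n0 L06819 L06820)) L06821)
theorem g00971 : Good (Phi V5.P V5.D (-1) (-1)) ⟨3, 7, 3, 5, 4, 14, 4, 10, 6, 4⟩ :=
  Good.n1 (Good.n0 g00970 L06822) (Good.n0 (Good.n0 (Good.n0 L06823 (Good.n1 (Good.n0 L06824 L06825) L06826)) L06827) L06828)
theorem g00972 : Good (Phi V5.P V5.D (-1) (-1)) ⟨3, 7, 5, 21, 4, 14, 4, 11, 6, 4⟩ :=
  Good.n0 (Good.n0 (Good.n0 L06835 (Good.n0 (Good.n1 L06836 (Good.n0 L06837 L06838)) L06839)) L06840) L06841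
theorem g00973 : Good (Phi V5.P V5.D (-1) (-1)) ⟨2, 3, 4, 10, 4, 14, 4, 11, 6, 4⟩ :=
  Good.n1 (Good.n0 L06829 (Good.n0 (Good.n0 (Good.n0 L06830 L06831) L06832) L06833)) (Good.n0 L06834 g00972)
theorem g00974 : Good (Phi V5.P V5.D (-1) (-1)) ⟨2, 3, 4, 11, 4, 14, 4, 11, 6, 4⟩ :=
  Good.n0 L06842 (Good.n0 (Good.n0 (Good.n0 L06843 (Good.n1 (Good.n0 L06844 L06845) L06846)) L06847) L06848)
theorem g00975 : Good (Phi V5.P V5.D (-1) (-1)) ⟨3, 7, 5, 21, 4, 14, 3, 5, 7, 10⟩ :=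
  Good.n0 (Good.n0 (Good.n1 L06854 (Good.n0 L06855 (Good.n0 (Good.n0 L06856 L06857) L06858))) L06859) L06860
theorem g00976 : Good (Phi V5.P V5.D (-1) (-1)) ⟨3, 7, 3, 5, 4, 14, 3, 5, 7, 10⟩ :=
  Good.n1 (Good.n1 (Good.n0 (Good.n0 L06851 L06852) L06853) g00975) (Good.n0 (Good.n0 (Good.n0 L06861 (Good.n1 (Good.n0 L06862 L06863) L06864)) L06865) L06866)
theorem g00977 : Good (Phi V5.P V5.D (-1) (-1)) ⟨4, 14, 4, 10, 4, 14, 3, 5, 7, 11⟩ :=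
  Good.n0 (Good.n1 L06869 (Good.n0 L06870 (Good.n0 (Good.n1 L06871 (Good.n0 L06872 L06873)) L06874))) L06875
theorem g00978 : Good (Phi V5.P V5.D (-1) (-1)) ⟨3, 7, 3, 5, 4, 14, 3, 5, 7, 11⟩ :=
  Good.n0 (Good.n1 g00977 (Good.n0 (Good.n0 L06876 (Good.n1 (Good.n0 L06877 L06878) L06879)) L06880)) L06881
theorem g00979 : Good (Phi V5.P V5.D (-1) (-1)) ⟨1, 1, 3, 5, 4, 14, 3, 5, 5, 2⟩ :=
  Good.n4 (Good.n0 L06813 (Good.n3 (Good.n0 L06814 g00971) (Good.n1 g00973 g00974))) (Good.n4 (Good.n0 L06849 (Good.n0 L06850 g00976)) (Good.n0 L06867 (Good.n0 L06868 g00978)))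
theorem g00980 : Good (Phi V5.P V5.D (-1) (-1)) ⟨2, 3, 5, 20, 4, 15, 4, 10, 5, 2⟩ :=
  Good.n0 L06883 (Good.n0 (Good.n0 (Good.n0 (Good.n0 L06884 (Good.n1 L06885 L06886)) L06887) L06888) L06889)
theorem g00981 : Good (Phi V5.P V5.D (-1) (-1)) ⟨5, 28, 5, 21, 4, 15, 4, 10, 5, 2⟩ :=
  Good.n1 (Good.n4 (Good.n0 L06892 (Good.n0 L06893 L06894)) (Good.n0 L06895 (Good.n0 L06896 L06897))) (Good.n0 L06898 (Good.n0 (Good.n0 L06899 L06900) L06901))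
theorem g00982 : Good (Phi V5.P V5.D (-1) (-1)) ⟨1, 1, 4, 10, 4, 15, 4, 10, 5, 2⟩ :=
  Good.n1 (Good.n0 L06882 g00980) (Good.n0 L06890 (Good.n0 L06891 (Good.n0 (Good.n0 g00981 L06902) L06903)))
theorem g00983 : Good (Phi V5.P V5.D (-1) (-1)) ⟨2, 3, 4, 11, 4, 15, 4, 10, 5, 2⟩ :=
  Good.n0 L06905 (Good.n0 (Good.n0 (Good.n0 L06906 (Good.n1 (Good.n0 L06907 L06908) L06909)) L06910) L06911)
theorem g00984 : Good (Phi V5.P V5.D (-1) (-1)) ⟨2, 3, 5, 20, 4, 15, 4, 11, 5, 2⟩ :=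
  Good.n0 L06913 (Good.n0 (Good.n0 (Good.n4 (Good.n0 L06914 L06915) (Good.n0 L06916 L06917)) L06918) L06919)
theorem g00985 : Good (Phi V5.P V5.D (-1) (-1)) ⟨4, 14, 5, 21, 4, 15, 4, 11, 5, 2⟩ :=
  Good.n0 (Good.n1 (Good.n0 L06922 L06923) (Good.n0 L06924 (Good.n0 (Good.n0 L06925 L06926) L06927))) L06928
theorem g00986 : Good (Phi V5.P V5.D (-1) (-1)) ⟨2, 3, 4, 11, 4, 15, 4, 11, 5, 2⟩ :=
  Good.n0 L06931 (Good.n0 (Good.n0 (Good.n0 L06932 (Good.n1 (Good.n0 L06933 L06934) L06935)) L06936) L06937)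
theorem g00987 : Good (Phi V5.P V5.D (-1) (-1)) ⟨1, 1, 3, 5, 4, 15, 4, 11, 5, 2⟩ :=
  Good.n1 (Good.n1 (Good.n0 L06912 g00984) (Good.n0 L06920 (Good.n0 L06921 (Good.n0 g00985 L06929)))) (Good.n0 L06930 g00986)
theorem g00988 : Good (Phi V5.P V5.D (-1) (-1)) ⟨3, 7, 4, 10, 3, 7, 3, 5, 5, 3⟩ :=
  Good.n0 (Good.n0 (Good.n0 (Good.n4 (Good.n1 L06940 L06941) L06942) (Good.n1 L06943 L06944)) L06945) L06946
theorem g00989 : Good (Phi V5.P V5.D (-1) (-1)) ⟨2, 3, 4, 11, 3, 7, 3, 5, 5, 3⟩ :=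
  Good.n0 L06948 (Good.n0 (Good.n0 (Good.n0 L06949 (Good.n1 (Good.n0 L06950 L06951) L06952)) L06953) L06954)
theorem g00990 : Good (Phi V5.P V5.D (-1) (-1)) ⟨1, 1, 3, 5, 3, 7, 3, 5, 4, 1⟩ :=
  Good.n4 (Good.n2 g00979 (Good.n3 (Good.n1 g00982 (Good.n0 L06904 g00983)) g00987)) (Good.n1 (Good.n0 L06938 (Good.n0 L06939 g00988)) (Good.n0 L06947 g00989))
theorem g00991 : Good (Phi V5.P V5.D (-1) (-1)) ⟨1, 1, 3, 5, 3, 7, 2, 2, 3, 0⟩ :=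
  Good.n3 (Good.n4 (Good.n2 g00922 (Good.n3 g00926 (Good.n1 g00928 (Good.n0 L06547 g00929)))) g00948) (Good.n4 g00969 g00990)
theorem g00992 : Good (Phi V5.P V5.D (-1) (-1)) ⟨5, 28, 3, 5, 2, 3, 2, 2, 5, 4⟩ :=
  Good.n2 (Good.n1 L06957 (Good.n0 L06958 (Good.n1 (Good.n0 L06959 L06960) L06961))) (Good.n1 (Good.n3 L06962 L06963) (Good.n0 L06964 (Good.n1 (Good.n0 L06965 L06966) L06967)))
theorem g00993 : Good (Phi V5.P V5.D (-1) (-1)) ⟨2, 3, 3, 5, 2, 3, 2, 2, 4, 2⟩ :=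
  Good.n0 L06956 (Good.n0 (Good.n4 (Good.n0 g00992 L06968) (Good.n0 (Good.n2 L06969 L06970) L06971)) L06972)
theorem g00994 : Good (Phi V5.P V5.D (-1) (-1)) ⟨5, 28, 4, 10, 2, 3, 2, 2, 5, 7⟩ :=
  Good.n2 L06977 (Good.n3 L06978 (Good.n2 (Good.n3 L06979 (Good.n1 L06980 L06981)) (Good.n4 L06982 L06983)))
theorem g00995 : Good (Phi V5.P V5.D (-1) (-1)) ⟨5, 28, 3, 5, 2, 3, 2, 2, 4, 3⟩ :=
  Good.n1 (Good.n4 (Good.n2 L06974 (Good.n0 L06975 L06976)) g00994) (Good.n0 L06984 (Good.n1 (Good.n0 L06985 L06986) L06987))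
theorem g00996 : Good (Phi V5.P V5.D (-1) (-1)) ⟨1, 1, 3, 5, 2, 3, 2, 2, 2, 0⟩ :=
  Good.n4 (Good.n2 (Good.n3 (Good.n0 L06384 g00910) (Good.n0 L06416 (Good.n0 L06417 g00919))) g00991) (Good.n0 L06955 (Good.n4 g00993 (Good.n0 L06973 (Good.n0 (Good.n0 g00995 L06988) L06989))))
theorem g00997 : Good (Phi V5.P V5.D (-1) (-1)) ⟨1, 1, 1, 1, 2, 3, 2, 2, 2, 0⟩ :=
  Good.n1 (Good.n1 (Good.n4 g00900 g00906) g00996) (Good.n0 L06990 (Good.n0 L06991 (Good.n0 (Good.n1 (Good.n0 L06992 L06993) L06994) L06995)))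
theorem g00998 : Good (Phi V5.P V5.D (-1) (-1)) ⟨2, 3, 4, 8, 4, 13, 3, 6, 4, 0⟩ :=
  Good.n0 (Good.n0 L07002 (Good.n0 L07003 (Good.n0 (Good.n4 L07004 L07005) (Good.n4 L07006 L07007)))) L07008
theorem g00999 : Good (Phi V5.P V5.D (-1) (-1)) ⟨1, 1, 4, 8, 3, 6, 3, 6, 4, 0⟩ :=
  Good.n0 L06996 (Good.n2 (Good.n0 (Good.n0 L06997 (Good.n0 L06998 (Good.n0 L06999 L07000))) L07001) g00998)

end Crest.Agent.R097C5.N5mm
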