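import Crest.Agent.R097C5.N5mm_g3
import Crest.Agent.R097C5.N5mm_050
import Crest.Agent.R097C5.N5mm_051
import Crest.Agent.R097C5.N5mm_052
import Crest.Agent.R097C5.N5mm_053
import Crest.Agent.R097C5.N5mm_054
import Crest.Agent.R097C5.N5mm_055
import Crest.Agent.R097C5.N5mm_056
import Crest.Agent.R097C5.N5mm_057
import Crest.Agent.R097C5.N5mm_058
import Crest.Agent.R097C5.N5mm_059

/-!
# Row 97, box cover in dimension n = 5 (generated)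
-/

set_option autoImplicit false
set_option Elab.async false
set_option maxHeartbeats 0
set_option maxRecDepth 100000

open Crest.Agent.R097 Crest.Agent.R097.KA


namespace Crest.Agent.R097C5.N5mm

theorem g01000 : Good (Phi V5.P V5.D (-1) (-1)) ⟨2, 3, 4, 8, 3, 6, 4, 12, 4, 1⟩ :=
  Good.n4 (Good.n0 (Good.n0 L07010 (Good.n0 L07011 (Good.n2 L07012 L07013))) L07014) (Good.n0 (Good.n0 L07015 L07016) L07017)
theorem g01001 : Good (Phi V5.P V5.D (-1) (-1)) ⟨3, 6, 4, 8, 3, 6, 4, 13, 4, 1⟩ :=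
  Good.n4 (Good.n2 (Good.n0 L07019 (Good.n0 L07020 L07021)) (Good.n0 L07022 (Good.n0 L07023 L07024))) (Good.n0 L07025 L07026)
theorem g01002 : Good (Phi V5.P V5.D (-1) (-1)) ⟨2, 3, 5, 18, 3, 6, 3, 6, 4, 0⟩ :=
  Good.n0 (Good.n0 L07029 (Good.n0 L07030 (Good.n0 L07031 (Good.n2 L07032 (Good.n4 L07033 L07034))))) L07035
theorem g01003 : Good (Phi V5.P V5.D (-1) (-1)) ⟨3, 6, 5, 19, 3, 6, 3, 6, 4, 0⟩ :=
  Good.n0 L07036 (Good.n0 L07037 (Good.n4 (Good.n2 L07038 L07039) (Good.n1 (Good.n0 L07040 L07041) L07042)))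
theorem g01004 : Good (Phi V5.P V5.D (-1) (-1)) ⟨5, 28, 5, 19, 3, 6, 3, 6, 4, 0⟩ :=
  Good.n0 (Good.n4 (Good.n0 (Good.n2 L07043 L07044) L07045) (Good.n2 L07046 (Good.n0 L07047 L07048))) L07049
theorem g01005 : Good (Phi V5.P V5.D (-1) (-1)) ⟨2, 3, 4, 9, 4, 13, 3, 6, 5, 2⟩ :=
  Good.n0 (Good.n0 L07058 L07059) (Good.n0 (Good.n0 (Good.n0 (Good.n4 (Good.n1 L07060 L07061) L07062) L07063) L07064) L07065)
theorem g01006 : Good (Phi V5.P V5.D (-1) (-1)) ⟨1, 1, 4, 9, 3, 6, 3, 6, 5, 2⟩ :=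
  Good.n0 L07052 (Good.n2 (Good.n0 L07053 (Good.n0 (Good.n0 (Good.n0 L07054 L07055) L07056) L07057)) g01005)
theorem g01007 : Good (Phi V5.P V5.D (-1) (-1)) ⟨1, 1, 4, 9, 3, 6, 3, 6, 3, 0⟩ :=
  Good.n4 (Good.n0 L07028 (Good.n1 g01002 (Good.n0 g01003 (Good.n0 (Good.n0 g01004 L07050) L07051)))) (Good.n4 g01006 (Good.n0 L07066 (Good.n0 L07067 (Good.n0 L07068 L07069))))
theorem g01008 : Good (Phi V5.P V5.D (-1) (-1)) ⟨1, 1, 3, 4, 3, 6, 3, 6, 3, 0⟩ :=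
  Good.n1 (Good.n4 g00999 (Good.n3 (Good.n0 L07009 g01000) (Good.n0 L07018 (Good.n0 g01001 L07027)))) g01007
theorem g01009 : Good (Phi V5.P V5.D (-1) (-1)) ⟨4, 13, 4, 8, 3, 6, 5, 28, 4, 0⟩ :=
  Good.n2 (Good.n0 L07072 (Good.n0 L07073 L07074)) (Good.n0 L07075 (Good.n4 L07076 (Good.n2 L07077 L07078)))
theorem g01010 : Good (Phi V5.P V5.D (-1) (-1)) ⟨4, 13, 4, 8, 3, 6, 3, 7, 4, 0⟩ :=
  Good.n3 (Good.n3 g01009 (Good.n0 L07079 (Good.n4 (Good.n0 L07080 L07081) (Good.n2 L07082 L07083)))) (Good.n0 L07084 (Good.n1 (Good.n0 L07085 L07086) (Good.n2 L07087 L07088)))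
theorem g01011 : Good (Phi V5.P V5.D (-1) (-1)) ⟨3, 6, 4, 8, 3, 6, 3, 7, 4, 1⟩ :=
  Good.n1 (Good.n0 L07090 (Good.n4 L07091 L07092)) (Good.n0 L07093 (Good.n4 L07094 (Good.n0 L07095 L07096)))
theorem g01012 : Good (Phi V5.P V5.D (-1) (-1)) ⟨4, 14, 4, 9, 4, 12, 3, 7, 4, 0⟩ :=
  Good.n0 (Good.n0 (Good.n4 (Good.n3 L07103 L07104) (Good.n1 L07105 (Good.n0 L07106 L07107))) L07108) L07109
theorem g01013 : Good (Phi V5.P V5.D (-1) (-1)) ⟨2, 3, 5, 19, 4, 13, 3, 7, 4, 0⟩ :=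
  Good.n0 (Good.n0 L07117 (Good.n4 L07118 L07119)) (Good.n0 (Good.n0 (Good.n0 (Good.n4 (Good.n0 L07120 L07121) L07122) L07123) L07124) L07125)
theorem g01014 : Good (Phi V5.P V5.D (-1) (-1)) ⟨2, 3, 4, 9, 4, 13, 3, 7, 4, 0⟩ :=
  Good.n1 (Good.n0 (Good.n0 L07111 (Good.n0 L07112 (Good.n0 L07113 (Good.n4 L07114 L07115)))) L07116) g01013
theorem g01015 : Good (Phi V5.P V5.D (-1) (-1)) ⟨2, 3, 4, 9, 3, 6, 3, 7, 4, 0⟩ :=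
  Good.n2 (Good.n0 (Good.n0 L07099 (Good.n4 (Good.n1 L07100 L07101) L07102)) (Good.n0 g01012 L07110)) g01014
theorem g01016 : Good (Phi V5.P V5.D (-1) (-1)) ⟨2, 3, 4, 9, 4, 12, 3, 7, 4, 1⟩ :=
  Good.n3 (Good.n0 (Good.n0 L07127 (Good.n0 L07128 L07129)) (Good.n0 (Good.n0 L07130 L07131) L07132)) (Good.n0 L07133 (Good.n0 (Good.n0 (Good.n0 L07134 L07135) L07136) L07137))
theorem g01017 : Good (Phi V5.P V5.D (-1) (-1)) ⟨1, 1, 4, 9, 3, 6, 3, 7, 4, 1⟩ :=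
  Good.n0 L07126 (Good.n2 g01016 (Good.n1 (Good.n0 L07138 L07139) (Good.n0 L07140 (Good.n0 L07141 L07142))))
theorem g01018 : Good (Phi V5.P V5.D (-1) (-1)) ⟨1, 1, 3, 4, 3, 6, 3, 7, 3, 0⟩ :=
  Good.n1 (Good.n0 L07070 (Good.n4 (Good.n0 (Good.n0 L07071 g01010) L07089) (Good.n0 g01011 L07097))) (Good.n4 (Good.n0 L07098 g01015) g01017)
theorem g01019 : Good (Phi V5.P V5.D (-1) (-1)) ⟨4, 13, 4, 8, 3, 7, 3, 6, 4, 0⟩ :=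
  Good.n4 (Good.n0 L07145 (Good.n2 (Good.n0 L07146 L07147) L07148)) (Good.n0 L07149 (Good.n2 (Good.n0 L07150 L07151) L07152))
theorem g01020 : Good (Phi V5.P V5.D (-1) (-1)) ⟨2, 3, 4, 8, 3, 7, 3, 6, 4, 1⟩ :=
  Good.n0 (Good.n0 L07155 (Good.n4 (Good.n0 L07156 (Good.n2 L07157 L07158)) (Good.n0 L07159 L07160))) L07161
theorem g01021 : Good (Phi V5.P V5.D (-1) (-1)) ⟨6, 55, 4, 9, 3, 7, 3, 6, 4, 0⟩ :=
  Good.n4 (Good.n2 (Good.n1 L07166 L07167) (Good.n1 L07168 L07169)) (Good.n1 (Good.n2 L07170 L07171) (Good.n1 L07172 L07173))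
theorem g01022 : Good (Phi V5.P V5.D (-1) (-1)) ⟨7, 112, 4, 9, 3, 7, 3, 6, 4, 0⟩ :=
  Good.n1 L07174 (Good.n1 (Good.n4 L07175 L07176) (Good.n4 (Good.n2 L07177 L07178) (Good.n2 L07179 L07180)))
theorem g01023 : Good (Phi V5.P V5.D (-1) (-1)) ⟨2, 3, 4, 9, 3, 7, 3, 6, 4, 0⟩ :=
  Good.n0 (Good.n0 L07163 (Good.n0 L07164 (Good.n0 L07165 g01021))) (Good.n0 (Good.n0 (Good.n0 (Good.n0 g01022 L07181) L07182) L07183) L07184)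
theorem g01024 : Good (Phi V5.P V5.D (-1) (-1)) ⟨2, 3, 4, 9, 4, 14, 3, 6, 4, 1⟩ :=
  Good.n0 (Good.n0 L07186 (Good.n0 L07187 (Good.n4 (Good.n0 L07188 L07189) L07190))) (Good.n0 (Good.n0 (Good.n0 (Good.n1 L07191 L07192) L07193) L07194) L07195)
theorem g01025 : Good (Phi V5.P V5.D (-1) (-1)) ⟨4, 13, 4, 9, 4, 15, 3, 6, 4, 1⟩ :=
  Good.n4 (Good.n0 L07197 (Good.n0 L07198 (Good.n1 L07199 L07200))) (Good.n0 L07201 (Good.n0 L07202 L07203))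
theorem g01026 : Good (Phi V5.P V5.D (-1) (-1)) ⟨2, 3, 4, 9, 4, 15, 3, 6, 4, 1⟩ :=
  Good.n0 (Good.n0 L07196 g01025) (Good.n0 (Good.n0 (Good.n0 (Good.n4 (Good.n1 L07204 L07205) L07206) L07207) L07208) L07209)
theorem g01027 : Good (Phi V5.P V5.D (-1) (-1)) ⟨1, 1, 3, 4, 3, 7, 3, 6, 3, 0⟩ :=
  Good.n1 (Good.n4 (Good.n0 L07143 (Good.n0 (Good.n0 L07144 g01019) L07153)) (Good.n0 L07154 g01020)) (Good.n4 (Good.n0 L07162 g01023) (Good.n0 L07185 (Good.n2 g01024 g01026)))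
theorem g01028 : Good (Phi V5.P V5.D (-1) (-1)) ⟨5, 27, 4, 8, 3, 7, 3, 7, 4, 0⟩ :=
  Good.n1 (Good.n4 (Good.n0 (Good.n2 L07214 L07215) L07216) L07217) (Good.n4 L07218 (Good.n2 L07219 L07220))
theorem g01029 : Good (Phi V5.P V5.D (-1) (-1)) ⟨1, 1, 4, 8, 3, 7, 3, 7, 4, 1⟩ :=
  Good.n0 L07222 (Good.n0 (Good.n0 L07223 (Good.n4 (Good.n1 L07224 L07225) (Good.n0 L07226 L07227))) L07228)
theorem g01030 : Good (Phi V5.P V5.D (-1) (-1)) ⟨1, 1, 4, 8, 3, 7, 3, 7, 3, 0⟩ :=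
  Good.n4 (Good.n0 L07210 (Good.n0 (Good.n0 L07211 (Good.n0 (Good.n4 L07212 L07213) g01028)) L07221)) g01029
theorem g01031 : Good (Phi V5.P V5.D (-1) (-1)) ⟨5, 27, 4, 9, 3, 7, 3, 7, 4, 0⟩ :=
  Good.n0 L07232 (Good.n2 (Good.n1 (Good.n4 L07233 L07234) L07235) (Good.n4 (Good.n1 L07236 L07237) L07238))
theorem g01032 : Good (Phi V5.P V5.D (-1) (-1)) ⟨4, 14, 5, 19, 3, 7, 3, 7, 4, 0⟩ :=
  Good.n2 (Good.n0 (Good.n0 (Good.n4 (Good.n2 L07240 L07241) L07242) L07243) L07244) (Good.n0 (Good.n4 L07245 L07246) L07247)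
theorem g01033 : Good (Phi V5.P V5.D (-1) (-1)) ⟨1, 1, 4, 9, 3, 7, 3, 7, 4, 0⟩ :=
  Good.n0 L07229 (Good.n0 (Good.n0 L07230 (Good.n0 L07231 g01031)) (Good.n0 (Good.n1 L07239 g01032) L07248))
theorem g01034 : Good (Phi V5.P V5.D (-1) (-1)) ⟨2, 3, 4, 9, 3, 7, 3, 7, 5, 2⟩ :=
  Good.n0 (Good.n0 L07250 (Good.n0 L07251 (Good.n0 L07252 (Good.n1 L07253 L07254)))) (Good.n0 (Good.n0 (Good.n0 (Good.n1 L07255 L07256) L07257) L07258) L07259)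
theorem g01035 : Good (Phi V5.P V5.D (-1) (-1)) ⟨2, 3, 4, 9, 3, 7, 3, 7, 5, 3⟩ :=
  Good.n0 (Good.n0 L07260 (Good.n0 L07261 (Good.n0 L07262 (Good.n1 L07263 L07264)))) (Good.n0 (Good.n0 (Good.n2 L07265 L07266) L07267) L07268)
theorem g01036 : Good (Phi V5.P V5.D (-1) (-1)) ⟨1, 1, 3, 4, 2, 3, 2, 3, 3, 0⟩ :=
  Good.n2 (Good.n3 g01008 g01018) (Good.n3 g01027 (Good.n1 g01030 (Good.n4 g01033 (Good.n0 L07249 (Good.n4 g01034 g01035)))))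
theorem g01037 : Good (Phi V5.P V5.D (-1) (-1)) ⟨3, 6, 3, 4, 3, 6, 2, 3, 3, 1⟩ :=
  Good.n4 (Good.n0 L07270 (Good.n4 (Good.n2 L07271 L07272) L07273)) (Good.n0 L07274 (Good.n3 (Good.n4 L07275 L07276) L07277))
theorem g01038 : Good (Phi V5.P V5.D (-1) (-1)) ⟨2, 3, 3, 4, 3, 6, 2, 3, 3, 1⟩ :=
  Good.n0 g01037 (Good.n0 (Good.n4 (Good.n4 L07278 L07279) (Good.n3 (Good.n4 L07280 L07281) L07282)) L07283)
theorem g01039 : Good (Phi V5.P V5.D (-1) (-1)) ⟨3, 6, 3, 4, 3, 7, 2, 3, 4, 2⟩ :=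
  Good.n0 L07284 (Good.n0 (Good.n4 L07285 L07286) (Good.n1 (Good.n4 L07287 L07288) (Good.n3 L07289 L07290)))
theorem g01040 : Good (Phi V5.P V5.D (-1) (-1)) ⟨3, 7, 3, 4, 3, 7, 2, 3, 4, 2⟩ :=
  Good.n0 (Good.n0 (Good.n1 L07291 (Good.n0 (Good.n3 (Good.n2 L07292 L07293) L07294) L07295)) L07296) L07297
theorem g01041 : Good (Phi V5.P V5.D (-1) (-1)) ⟨2, 3, 3, 4, 3, 7, 3, 6, 4, 3⟩ :=
  Good.n4 (Good.n0 L07298 (Good.n0 (Good.n0 (Good.n1 L07299 (Good.n3 L07300 L07301)) L07302) L07303)) L07304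
theorem g01042 : Good (Phi V5.P V5.D (-1) (-1)) ⟨1, 1, 3, 4, 2, 3, 2, 3, 2, 0⟩ :=
  Good.n4 g01036 (Good.n0 L07269 (Good.n2 g01038 (Good.n4 (Good.n0 g01039 g01040) (Good.n3 g01041 L07305))))
theorem g01043 : Good (Phi V5.P V5.D (-1) (-1)) ⟨5, 28, 3, 5, 4, 12, 3, 6, 5, 0⟩ :=
  Good.n0 (Good.n1 (Good.n1 L07308 L07309) L07310) (Good.n1 (Good.n0 (Good.n0 L07311 L07312) L07313) (Good.n1 (Good.n0 L07314 L07315) L07316))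
theorem g01044 : Good (Phi V5.P V5.D (-1) (-1)) ⟨5, 28, 3, 5, 4, 12, 4, 12, 6, 2⟩ :=
  Good.n1 (Good.n0 (Good.n1 L07321 L07322) L07323) (Good.n0 L07324 (Good.n1 (Good.n0 L07325 L07326) L07327))
theorem g01045 : Good (Phi V5.P V5.D (-1) (-1)) ⟨3, 7, 3, 5, 4, 12, 4, 12, 6, 3⟩ :=
  Good.n1 (Good.n1 (Good.n0 (Good.n0 L07330 L07331) L07332) (Good.n0 L07333 L07334)) (Good.n0 (Good.n0 (Good.n0 L07335 (Good.n1 (Good.n0 L07336 L07337) L07338)) L07339) L07340)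
theorem g01046 : Good (Phi V5.P V5.D (-1) (-1)) ⟨2, 3, 4, 10, 4, 12, 4, 13, 5, 1⟩ :=
  Good.n1 (Good.n0 L07341 (Good.n0 (Good.n0 (Good.n0 L07342 L07343) L07344) L07345)) (Good.n0 L07346 (Good.n0 L07347 L07348))
theorem g01047 : Good (Phi V5.P V5.D (-1) (-1)) ⟨2, 3, 4, 11, 4, 12, 4, 13, 5, 1⟩ :=
  Good.n0 L07349 (Good.n0 (Good.n0 (Good.n0 L07350 (Good.n1 (Good.n0 L07351 L07352) L07353)) L07354) L07355)
theorem g01048 : Good (Phi V5.P V5.D (-1) (-1)) ⟨2, 3, 3, 5, 4, 12, 3, 6, 5, 1⟩ :=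
  Good.n3 (Good.n0 L07320 (Good.n4 (Good.n0 (Good.n0 g01044 L07328) L07329) g01045)) (Good.n1 g01046 g01047)
theorem g01049 : Good (Phi V5.P V5.D (-1) (-1)) ⟨1, 1, 3, 5, 4, 12, 3, 6, 4, 0⟩ :=
  Good.n4 (Good.n0 L07306 (Good.n0 L07307 (Good.n0 (Good.n0 g01043 L07317) L07318))) (Good.n0 L07319 g01048)
theorem g01050 : Good (Phi V5.P V5.D (-1) (-1)) ⟨1, 1, 5, 20, 4, 13, 4, 12, 4, 0⟩ :=
  Good.n0 L07356 (Good.n0 L07357 (Good.n0 (Good.n0 (Good.n0 (Good.n4 L07358 L07359) L07360) L07361) L07362))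
theorem g01051 : Good (Phi V5.P V5.D (-1) (-1)) ⟨5, 28, 5, 21, 4, 13, 4, 12, 4, 0⟩ :=
  Good.n0 (Good.n1 L07365 L07366) (Good.n0 (Good.n1 (Good.n4 L07367 L07368) (Good.n0 L07369 L07370)) L07371)
theorem g01052 : Good (Phi V5.P V5.D (-1) (-1)) ⟨2, 3, 4, 11, 4, 13, 4, 12, 4, 0⟩ :=
  Good.n0 L07375 (Good.n0 (Good.n0 (Good.n0 L07376 (Good.n1 (Good.n0 L07377 L07378) L07379)) L07380) L07381)
theorem g01053 : Good (Phi V5.P V5.D (-1) (-1)) ⟨1, 1, 3, 5, 4, 13, 4, 12, 4, 0⟩ :=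
  Good.n1 (Good.n1 g01050 (Good.n0 L07363 (Good.n0 L07364 (Good.n0 (Good.n0 g01051 L07372) L07373)))) (Good.n0 L07374 g01052)
theorem g01054 : Good (Phi V5.P V5.D (-1) (-1)) ⟨2, 3, 5, 20, 4, 13, 4, 13, 4, 0⟩ :=
  Good.n0 L07383 (Good.n0 (Good.n0 (Good.n0 (Good.n0 L07384 (Good.n2 L07385 L07386)) L07387) L07388) L07389)
theorem g01055 : Good (Phi V5.P V5.D (-1) (-1)) ⟨5, 28, 5, 21, 4, 13, 4, 13, 4, 0⟩ :=
  Good.n0 L07392 (Good.n0 (Good.n1 (Good.n0 (Good.n4 L07393 L07394) L07395) (Good.n0 L07396 L07397)) L07398)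
theorem g01056 : Good (Phi V5.P V5.D (-1) (-1)) ⟨1, 1, 4, 10, 4, 13, 4, 13, 4, 0⟩ :=
  Good.n1 (Good.n0 L07382 g01054) (Good.n0 L07390 (Good.n0 L07391 (Good.n0 (Good.n0 g01055 L07399) L07400)))
theorem g01057 : Good (Phi V5.P V5.D (-1) (-1)) ⟨2, 3, 4, 11, 4, 13, 4, 13, 4, 0⟩ :=
  Good.n0 L07402 (Good.n0 (Good.n0 (Good.n0 L07403 (Good.n1 (Good.n0 L07404 L07405) L07406)) L07407) L07408)
theorem g01058 : Good (Phi V5.P V5.D (-1) (-1)) ⟨2, 3, 4, 10, 4, 12, 5, 24, 6, 4⟩ :=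
  Good.n1 (Good.n0 L07410 (Good.n0 (Good.n0 L07411 L07412) L07413)) (Good.n0 L07414 (Good.n0 L07415 L07416))
theorem g01059 : Good (Phi V5.P V5.D (-1) (-1)) ⟨2, 3, 4, 11, 4, 12, 5, 24, 6, 4⟩ :=
  Good.n0 L07417 (Good.n0 (Good.n0 (Good.n0 L07418 (Good.n1 (Good.n0 L07419 L07420) L07421)) L07422) L07423)
theorem g01060 : Good (Phi V5.P V5.D (-1) (-1)) ⟨4, 14, 3, 5, 4, 12, 5, 24, 6, 5⟩ :=
  Good.n0 (Good.n1 (Good.n0 L07425 L07426) (Good.n0 L07427 (Good.n1 (Good.n0 L07428 L07429) L07430))) L07431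
theorem g01061 : Good (Phi V5.P V5.D (-1) (-1)) ⟨2, 3, 4, 10, 4, 12, 5, 25, 5, 2⟩ :=
  Good.n1 (Good.n0 L07434 (Good.n0 (Good.n0 L07435 L07436) L07437)) (Good.n0 L07438 (Good.n0 (Good.n0 (Good.n0 L07439 L07440) L07441) L07442))
theorem g01062 : Good (Phi V5.P V5.D (-1) (-1)) ⟨2, 3, 4, 11, 4, 12, 5, 25, 5, 2⟩ :=
  Good.n0 L07443 (Good.n0 (Good.n0 (Good.n0 L07444 (Good.n1 (Good.n0 L07445 L07446) L07447)) L07448) L07449)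
theorem g01063 : Good (Phi V5.P V5.D (-1) (-1)) ⟨1, 1, 3, 5, 4, 12, 4, 12, 5, 2⟩ :=
  Good.n3 (Good.n0 L07409 (Good.n4 (Good.n1 g01058 g01059) (Good.n0 L07424 (Good.n0 g01060 L07432)))) (Good.n0 L07433 (Good.n1 g01061 g01062))
theorem g01064 : Good (Phi V5.P V5.D (-1) (-1)) ⟨4, 14, 3, 5, 4, 12, 4, 12, 5, 3⟩ :=
  Good.n0 (Good.n1 (Good.n0 L07452 L07453) (Good.n0 L07454 (Good.n1 (Good.n0 L07455 L07456) L07457))) L07458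
theorem g01065 : Good (Phi V5.P V5.D (-1) (-1)) ⟨1, 1, 4, 10, 4, 12, 4, 13, 4, 1⟩ :=
  Good.n1 (Good.n0 L07460 (Good.n0 L07461 (Good.n4 (Good.n0 (Good.n0 L07462 L07463) L07464) L07465))) (Good.n0 L07466 (Good.n0 L07467 (Good.n0 (Good.n0 (Good.n0 L07468 L07469) L07470) L07471)))
theorem g01066 : Good (Phi V5.P V5.D (-1) (-1)) ⟨2, 3, 4, 11, 4, 12, 4, 13, 4, 1⟩ :=
  Good.n0 L07473 (Good.n0 (Good.n0 (Good.n0 L07474 (Good.n1 (Good.n0 L07475 L07476) L07477)) L07478) L07479)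
theorem g01067 : Good (Phi V5.P V5.D (-1) (-1)) ⟨1, 1, 3, 5, 4, 12, 3, 6, 4, 1⟩ :=
  Good.n3 (Good.n4 g01063 (Good.n0 L07450 (Good.n0 L07451 (Good.n0 g01064 L07459)))) (Good.n1 g01065 (Good.n0 L07472 g01066))
theorem g01068 : Good (Phi V5.P V5.D (-1) (-1)) ⟨2, 3, 5, 20, 4, 13, 4, 12, 4, 1⟩ :=
  Good.n4 (Good.n0 L07481 (Good.n0 (Good.n0 (Good.n0 L07482 L07483) L07484) L07485)) (Good.n0 L07486 L07487)
theorem g01069 : Good (Phi V5.P V5.D (-1) (-1)) ⟨5, 28, 5, 21, 4, 13, 4, 12, 4, 1⟩ :=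
  Good.n0 (Good.n1 L07490 L07491) (Good.n0 (Good.n1 (Good.n4 L07492 L07493) (Good.n0 L07494 L07495)) L07496)
theorem g01070 : Good (Phi V5.P V5.D (-1) (-1)) ⟨1, 1, 4, 10, 4, 13, 4, 12, 4, 1⟩ :=
  Good.n1 (Good.n0 L07480 g01068) (Good.n0 L07488 (Good.n0 L07489 (Good.n0 (Good.n0 g01069 L07497) L07498)))
theorem g01071 : Good (Phi V5.P V5.D (-1) (-1)) ⟨2, 3, 4, 11, 4, 13, 4, 12, 4, 1⟩ :=
  Good.n0 L07500 (Good.n0 (Good.n0 (Good.n0 L07501 (Good.n1 (Good.n0 L07502 L07503) L07504)) L07505) L07506)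
theorem g01072 : Good (Phi V5.P V5.D (-1) (-1)) ⟨2, 3, 6, 43, 4, 13, 4, 13, 4, 1⟩ :=
  Good.n0 L07520 (Good.n0 (Good.n0 (Good.n0 L07521 (Good.n0 (Good.n0 L07522 L07523) L07524)) L07525) L07526)
theorem g01073 : Good (Phi V5.P V5.D (-1) (-1)) ⟨1, 1, 5, 21, 4, 13, 4, 13, 4, 1⟩ :=
  Good.n1 (Good.n0 L07513 (Good.n0 L07514 (Good.n0 (Good.n0 (Good.n0 L07515 L07516) L07517) L07518))) (Good.n0 L07519 g01072)
theorem g01074 : Good (Phi V5.P V5.D (-1) (-1)) ⟨1, 1, 4, 10, 4, 13, 4, 13, 4, 1⟩ :=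
  Good.n1 (Good.n0 L07507 (Good.n0 L07508 (Good.n0 (Good.n4 (Good.n0 L07509 L07510) L07511) L07512))) g01073
theorem g01075 : Good (Phi V5.P V5.D (-1) (-1)) ⟨2, 3, 4, 11, 4, 13, 4, 13, 4, 1⟩ :=
  Good.n0 L07528 (Good.n0 (Good.n0 (Good.n0 L07529 (Good.n1 (Good.n0 L07530 L07531) L07532)) L07533) L07534)
theorem g01076 : Good (Phi V5.P V5.D (-1) (-1)) ⟨1, 1, 3, 5, 3, 6, 3, 6, 4, 1⟩ :=
  Good.n2 g01067 (Good.n3 (Good.n1 g01070 (Good.n0 L07499 g01071)) (Good.n1 g01074 (Good.n0 L07527 g01075)))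
theorem g01077 : Good (Phi V5.P V5.D (-1) (-1)) ⟨5, 28, 3, 5, 5, 24, 4, 14, 5, 0⟩ :=
  Good.n0 (Good.n1 L07537 L07538) (Good.n1 (Good.n0 (Good.n1 L07539 L07540) L07541) (Good.n1 (Good.n0 L07542 L07543) L07544))
theorem g01078 : Good (Phi V5.P V5.D (-1) (-1)) ⟨5, 28, 3, 5, 5, 25, 4, 14, 5, 0⟩ :=
  Good.n1 (Good.n0 L07547 (Good.n0 (Good.n1 L07548 L07549) L07550)) (Good.n0 L07551 (Good.n1 (Good.n0 L07552 L07553) L07554))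
theorem g01079 : Good (Phi V5.P V5.D (-1) (-1)) ⟨2, 3, 3, 5, 4, 12, 4, 14, 5, 0⟩ :=
  Good.n0 L07536 (Good.n2 (Good.n0 (Good.n0 g01077 L07545) L07546) (Good.n0 (Good.n0 g01078 L07555) L07556))
theorem g01080 : Good (Phi V5.P V5.D (-1) (-1)) ⟨3, 7, 5, 21, 4, 12, 4, 14, 5, 1⟩ :=
  Good.n0 (Good.n0 (Good.n0 L07565 (Good.n0 (Good.n1 L07566 (Good.n0 L07567 L07568)) L07569)) L07570) L07571
theorem g01081 : Good (Phi V5.P V5.D (-1) (-1)) ⟨1, 1, 4, 10, 4, 12, 4, 14, 5, 1⟩ :=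
  Good.n1 (Good.n0 L07557 (Good.n0 L07558 (Good.n0 (Good.n0 (Good.n0 L07559 L07560) L07561) L07562))) (Good.n0 L07563 (Good.n0 L07564 g01080))
theorem g01082 : Good (Phi V5.P V5.D (-1) (-1)) ⟨2, 3, 4, 11, 4, 12, 4, 14, 5, 1⟩ :=
  Good.n0 L07573 (Good.n0 (Good.n0 (Good.n0 L07574 (Good.n1 (Good.n0 L07575 L07576) L07577)) L07578) L07579)
theorem g01083 : Good (Phi V5.P V5.D (-1) (-1)) ⟨5, 28, 3, 5, 4, 12, 5, 30, 5, 0⟩ :=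
  Good.n1 (Good.n0 L07582 (Good.n0 (Good.n1 L07583 L07584) L07585)) (Good.n0 L07586 (Good.n1 (Good.n0 L07587 L07588) L07589))
theorem g01084 : Good (Phi V5.P V5.D (-1) (-1)) ⟨4, 14, 3, 5, 4, 12, 5, 31, 5, 0⟩ :=
  Good.n0 (Good.n1 (Good.n0 L07591 L07592) (Good.n0 L07593 (Good.n1 (Good.n0 L07594 L07595) L07596))) L07597
theorem g01085 : Good (Phi V5.P V5.D (-1) (-1)) ⟨5, 28, 3, 5, 4, 12, 4, 15, 5, 1⟩ :=
  Good.n0 (Good.n1 (Good.n1 L07600 L07601) L07602) (Good.n1 (Good.n0 (Good.n1 L07603 L07604) L07605) (Good.n1 (Good.n0 L07606 L07607) L07608))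
theorem g01086 : Good (Phi V5.P V5.D (-1) (-1)) ⟨2, 3, 3, 5, 4, 12, 4, 15, 4, 0⟩ :=
  Good.n4 (Good.n0 L07581 (Good.n0 (Good.n3 (Good.n0 g01083 L07590) g01084) L07598)) (Good.n0 L07599 (Good.n0 (Good.n0 g01085 L07609) L07610))
theorem g01087 : Good (Phi V5.P V5.D (-1) (-1)) ⟨1, 1, 3, 5, 4, 12, 3, 7, 4, 0⟩ :=
  Good.n3 (Good.n4 (Good.n0 L07535 g01079) (Good.n1 g01081 (Good.n0 L07572 g01082))) (Good.n0 L07580 g01086)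
theorem g01088 : Good (Phi V5.P V5.D (-1) (-1)) ⟨3, 7, 5, 20, 4, 13, 4, 14, 4, 0⟩ :=
  Good.n4 (Good.n0 (Good.n0 (Good.n0 L07613 L07614) L07615) L07616) (Good.n0 (Good.n1 L07617 L07618) L07619)
theorem g01089 : Good (Phi V5.P V5.D (-1) (-1)) ⟨5, 28, 5, 21, 4, 13, 4, 14, 4, 0⟩ :=
  Good.n0 (Good.n4 L07622 (Good.n0 L07623 L07624)) (Good.n0 (Good.n1 (Good.n0 (Good.n4 L07625 L07626) L07627) (Good.n0 L07628 L07629)) L07630)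
theorem g01090 : Good (Phi V5.P V5.D (-1) (-1)) ⟨1, 1, 4, 10, 4, 13, 4, 14, 4, 0⟩ :=
  Good.n1 (Good.n0 L07611 (Good.n0 L07612 g01088)) (Good.n0 L07620 (Good.n0 L07621 (Good.n0 (Good.n0 g01089 L07631) L07632)))
theorem g01091 : Good (Phi V5.P V5.D (-1) (-1)) ⟨2, 3, 4, 11, 4, 13, 4, 14, 4, 0⟩ :=
  Good.n0 L07634 (Good.n0 (Good.n0 (Good.n0 L07635 (Good.n1 (Good.n0 L07636 L07637) L07638)) L07639) L07640)
theorem g01092 : Good (Phi V5.P V5.D (-1) (-1)) ⟨2, 3, 4, 10, 4, 13, 4, 15, 5, 0⟩ :=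
  Good.n3 (Good.n0 L07642 (Good.n0 (Good.n1 (Good.n0 L07643 L07644) L07645) L07646)) (Good.n0 L07647 (Good.n0 (Good.n1 L07648 L07649) L07650))
theorem g01093 : Good (Phi V5.P V5.D (-1) (-1)) ⟨3, 7, 4, 10, 4, 13, 4, 15, 5, 1⟩ :=
  Good.n1 (Good.n0 (Good.n0 L07652 L07653) L07654) (Good.n0 (Good.n0 (Good.n0 L07655 L07656) L07657) L07658)
theorem g01094 : Good (Phi V5.P V5.D (-1) (-1)) ⟨2, 3, 4, 11, 4, 13, 4, 15, 4, 0⟩ :=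
  Good.n0 L07660 (Good.n0 (Good.n0 (Good.n0 L07661 (Good.n1 (Good.n0 L07662 L07663) L07664)) L07665) L07666)
theorem g01095 : Good (Phi V5.P V5.D (-1) (-1)) ⟨1, 1, 3, 5, 4, 13, 3, 7, 4, 0⟩ :=
  Good.n3 (Good.n1 g01090 (Good.n0 L07633 g01091)) (Good.n1 (Good.n0 L07641 (Good.n4 g01092 (Good.n0 L07651 g01093))) (Good.n0 L07659 g01094))
theorem g01096 : Good (Phi V5.P V5.D (-1) (-1)) ⟨2, 3, 5, 20, 4, 12, 4, 14, 4, 1⟩ :=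
  Good.n0 L07668 (Good.n1 (Good.n0 (Good.n0 L07669 L07670) L07671) (Good.n0 (Good.n0 L07672 L07673) L07674))
theorem g01097 : Good (Phi V5.P V5.D (-1) (-1)) ⟨2, 3, 4, 11, 4, 12, 4, 14, 4, 1⟩ :=
  Good.n0 L07680 (Good.n0 (Good.n0 (Good.n0 L07681 (Good.n1 (Good.n0 L07682 L07683) L07684)) L07685) L07686)
theorem g01098 : Good (Phi V5.P V5.D (-1) (-1)) ⟨1, 1, 3, 5, 4, 12, 4, 14, 4, 1⟩ :=
  Good.n1 (Good.n1 (Good.n0 L07667 g01096) (Good.n0 L07675 (Good.n0 L07676 (Good.n0 L07677 L07678)))) (Good.n0 L07679 g01097)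
theorem g01099 : Good (Phi V5.P V5.D (-1) (-1)) ⟨3, 7, 3, 5, 4, 12, 4, 15, 5, 2⟩ :=
  Good.n1 (Good.n0 (Good.n1 (Good.n0 L07689 L07690) L07691) L07692) (Good.n0 (Good.n0 (Good.n0 L07693 (Good.n1 (Good.n0 L07694 L07695) L07696)) L07697) L07698)
theorem g01100 : Good (Phi V5.P V5.D (-1) (-1)) ⟨3, 7, 3, 5, 4, 12, 4, 15, 5, 3⟩ :=
  Good.n0 (Good.n0 (Good.n1 L07701 (Good.n0 L07702 (Good.n1 (Good.n0 L07703 L07704) L07705))) L07706) L07707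
theorem g01101 : Good (Phi V5.P V5.D (-1) (-1)) ⟨1, 1, 3, 5, 4, 12, 3, 7, 4, 1⟩ :=
  Good.n3 g01098 (Good.n4 (Good.n0 L07687 (Good.n0 L07688 g01099)) (Good.n0 L07699 (Good.n0 L07700 g01100)))
theorem g01102 : Good (Phi V5.P V5.D (-1) (-1)) ⟨1, 1, 4, 10, 4, 13, 4, 14, 4, 1⟩ :=
  Good.n1 (Good.n0 L07708 (Good.n0 L07709 (Good.n0 L07710 L07711))) (Good.n0 L07712 (Good.n0 L07713 (Good.n0 L07714 L07715)))
theorem g01103 : Good (Phi V5.P V5.D (-1) (-1)) ⟨2, 3, 4, 11, 4, 13, 4, 14, 4, 1⟩ :=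
  Good.n0 L07717 (Good.n0 (Good.n0 (Good.n0 L07718 (Good.n1 (Good.n0 L07719 L07720) L07721)) L07722) L07723)
theorem g01104 : Good (Phi V5.P V5.D (-1) (-1)) ⟨5, 28, 3, 5, 4, 13, 4, 15, 5, 2⟩ :=
  Good.n1 (Good.n0 L07726 (Good.n0 (Good.n1 L07727 L07728) L07729)) (Good.n0 L07730 (Good.n1 (Good.n0 L07731 L07732) L07733))
theorem g01105 : Good (Phi V5.P V5.D (-1) (-1)) ⟨3, 7, 3, 5, 4, 13, 4, 15, 5, 3⟩ :=
  Good.n0 (Good.n0 (Good.n1 L07738 (Good.n0 L07739 (Good.n1 (Good.n0 L07740 L07741) L07742))) L07743) L07744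
theorem g01106 : Good (Phi V5.P V5.D (-1) (-1)) ⟨1, 1, 3, 5, 4, 13, 4, 15, 4, 1⟩ :=
  Good.n4 (Good.n0 L07724 (Good.n0 L07725 (Good.n0 (Good.n0 g01104 L07734) L07735))) (Good.n0 L07736 (Good.n0 L07737 g01105))
theorem g01107 : Good (Phi V5.P V5.D (-1) (-1)) ⟨1, 1, 3, 5, 3, 6, 3, 7, 3, 0⟩ :=
  Good.n4 (Good.n2 g01087 g01095) (Good.n2 g01101 (Good.n3 (Good.n1 g01102 (Good.n0 L07716 g01103)) g01106))
theorem g01108 : Good (Phi V5.P V5.D (-1) (-1)) ⟨1, 1, 3, 5, 3, 6, 2, 3, 3, 0⟩ :=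
  Good.n3 (Good.n4 (Good.n2 g01049 (Good.n3 g01053 (Good.n1 g01056 (Good.n0 L07401 g01057)))) g01076) g01107
theorem g01109 : Good (Phi V5.P V5.D (-1) (-1)) ⟨3, 7, 5, 20, 4, 14, 4, 12, 4, 0⟩ :=
  Good.n0 (Good.n0 (Good.n0 (Good.n4 (Good.n1 L07747 L07748) (Good.n1 L07749 L07750)) L07751) L07752) L07753
theorem g01110 : Good (Phi V5.P V5.D (-1) (-1)) ⟨5, 28, 5, 21, 4, 14, 4, 12, 4, 0⟩ :=
  Good.n1 (Good.n0 L07756 (Good.n0 (Good.n4 L07757 L07758) L07759)) (Good.n0 L07760 (Good.n0 (Good.n0 L07761 L07762) L07763))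
theorem g01111 : Good (Phi V5.P V5.D (-1) (-1)) ⟨1, 1, 4, 10, 4, 14, 4, 12, 4, 0⟩ :=
  Good.n1 (Good.n0 L07745 (Good.n0 L07746 g01109)) (Good.n0 L07754 (Good.n0 L07755 (Good.n0 (Good.n0 g01110 L07764) L07765)))
theorem g01112 : Good (Phi V5.P V5.D (-1) (-1)) ⟨2, 3, 4, 11, 4, 14, 4, 12, 4, 0⟩ :=
  Good.n0 L07767 (Good.n0 (Good.n0 (Good.n0 L07768 (Good.n1 (Good.n0 L07769 L07770) L07771)) L07772) L07773)
theorem g01113 : Good (Phi V5.P V5.D (-1) (-1)) ⟨2, 3, 5, 20, 4, 14, 4, 13, 5, 0⟩ :=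
  Good.n0 L07775 (Good.n0 (Good.n0 (Good.n0 (Good.n1 L07776 (Good.n0 L07777 L07778)) L07779) L07780) L07781)
theorem g01114 : Good (Phi V5.P V5.D (-1) (-1)) ⟨1, 1, 5, 20, 4, 14, 4, 13, 5, 1⟩ :=
  Good.n0 L07782 (Good.n0 L07783 (Good.n0 (Good.n0 (Good.n0 (Good.n0 L07784 L07785) L07786) L07787) L07788))
theorem g01115 : Good (Phi V5.P V5.D (-1) (-1)) ⟨5, 28, 5, 21, 4, 14, 4, 13, 4, 0⟩ :=
  Good.n1 (Good.n0 (Good.n4 L07791 L07792) (Good.n0 (Good.n0 (Good.n4 L07793 L07794) L07795) L07796)) (Good.n0 L07797 (Good.n0 (Good.n0 L07798 L07799) L07800))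
theorem g01116 : Good (Phi V5.P V5.D (-1) (-1)) ⟨1, 1, 4, 10, 4, 14, 4, 13, 4, 0⟩ :=
  Good.n1 (Good.n4 (Good.n0 L07774 g01113) g01114) (Good.n0 L07789 (Good.n0 L07790 (Good.n0 (Good.n0 g01115 L07801) L07802)))
theorem g01117 : Good (Phi V5.P V5.D (-1) (-1)) ⟨2, 3, 4, 11, 4, 14, 4, 13, 4, 0⟩ :=
  Good.n0 L07804 (Good.n0 (Good.n0 (Good.n0 L07805 (Good.n1 (Good.n0 L07806 L07807) L07808)) L07809) L07810)
theorem g01118 : Good (Phi V5.P V5.D (-1) (-1)) ⟨2, 3, 5, 20, 4, 15, 4, 12, 5, 0⟩ :=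
  Good.n1 (Good.n0 L07812 (Good.n0 (Good.n0 (Good.n0 L07813 L07814) L07815) L07816)) (Good.n0 L07817 (Good.n0 (Good.n0 (Good.n0 L07818 L07819) L07820) L07821))
theorem g01119 : Good (Phi V5.P V5.D (-1) (-1)) ⟨2, 3, 5, 20, 4, 15, 4, 12, 5, 1⟩ :=
  Good.n0 L07822 (Good.n0 (Good.n0 (Good.n0 (Good.n1 L07823 (Good.n0 L07824 L07825)) L07826) L07827) L07828)
theorem g01120 : Good (Phi V5.P V5.D (-1) (-1)) ⟨5, 28, 5, 21, 4, 15, 4, 12, 5, 0⟩ :=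
  Good.n1 (Good.n0 L07831 (Good.n0 L07832 L07833)) (Good.n0 L07834 (Good.n0 (Good.n0 L07835 L07836) L07837))
theorem g01121 : Good (Phi V5.P V5.D (-1) (-1)) ⟨5, 28, 5, 21, 4, 15, 4, 12, 5, 1⟩ :=
  Good.n1 (Good.n0 L07840 (Good.n0 (Good.n2 L07841 L07842) L07843)) (Good.n0 L07844 (Good.n0 (Good.n0 L07845 L07846) L07847))
theorem g01122 : Good (Phi V5.P V5.D (-1) (-1)) ⟨2, 3, 5, 21, 4, 15, 4, 12, 4, 0⟩ :=
  Good.n0 L07830 (Good.n4 (Good.n0 (Good.n0 g01120 L07838) L07839) (Good.n0 (Good.n0 g01121 L07848) L07849))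
theorem g01123 : Good (Phi V5.P V5.D (-1) (-1)) ⟨2, 3, 4, 11, 4, 15, 4, 12, 4, 0⟩ :=
  Good.n0 L07851 (Good.n0 (Good.n0 (Good.n0 L07852 (Good.n1 (Good.n0 L07853 L07854) L07855)) L07856) L07857)
theorem g01124 : Good (Phi V5.P V5.D (-1) (-1)) ⟨1, 1, 3, 5, 4, 15, 4, 12, 4, 0⟩ :=
  Good.n1 (Good.n1 (Good.n0 L07811 (Good.n4 g01118 g01119)) (Good.n0 L07829 g01122)) (Good.n0 L07850 g01123)
theorem g01125 : Good (Phi V5.P V5.D (-1) (-1)) ⟨1, 1, 6, 40, 4, 15, 4, 13, 4, 0⟩ :=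
  Good.n0 L07858 (Good.n0 L07859 (Good.n0 (Good.n0 (Good.n0 (Good.n4 L07860 L07861) L07862) L07863) L07864))
theorem g01126 : Good (Phi V5.P V5.D (-1) (-1)) ⟨2, 3, 6, 41, 4, 15, 4, 13, 4, 0⟩ :=
  Good.n0 L07866 (Good.n0 (Good.n0 (Good.n0 (Good.n4 L07867 (Good.n0 L07868 L07869)) L07870) L07871) L07872)
theorem g01127 : Good (Phi V5.P V5.D (-1) (-1)) ⟨5, 28, 5, 21, 4, 15, 4, 13, 5, 0⟩ :=
  Good.n1 (Good.n0 L07875 (Good.n0 (Good.n0 L07876 L07877) L07878)) (Good.n0 L07879 (Good.n0 (Good.n0 L07880 L07881) L07882))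
theorem g01128 : Good (Phi V5.P V5.D (-1) (-1)) ⟨4, 14, 5, 21, 4, 15, 4, 13, 5, 1⟩ :=
  Good.n0 (Good.n1 (Good.n0 L07886 L07887) (Good.n0 L07888 (Good.n0 (Good.n0 L07889 L07890) L07891))) L07892
theorem g01129 : Good (Phi V5.P V5.D (-1) (-1)) ⟨2, 3, 5, 21, 4, 15, 4, 13, 4, 0⟩ :=
  Good.n4 (Good.n0 L07874 (Good.n0 (Good.n0 g01127 L07883) L07884)) (Good.n0 L07885 (Good.n0 g01128 L07893))
theorem g01130 : Good (Phi V5.P V5.D (-1) (-1)) ⟨2, 3, 4, 11, 4, 15, 4, 13, 4, 0⟩ :=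
  Good.n0 L07895 (Good.n0 (Good.n0 (Good.n0 L07896 (Good.n1 (Good.n0 L07897 L07898) L07899)) L07900) L07901)
theorem g01131 : Good (Phi V5.P V5.D (-1) (-1)) ⟨1, 1, 3, 5, 4, 15, 4, 13, 4, 0⟩ :=
  Good.n1 (Good.n1 (Good.n1 g01125 (Good.n0 L07865 g01126)) (Good.n0 L07873 g01129)) (Good.n0 L07894 g01130)
theorem g01132 : Good (Phi V5.P V5.D (-1) (-1)) ⟨1, 1, 3, 5, 3, 7, 3, 6, 4, 0⟩ :=
  Good.n2 (Good.n3 (Good.n1 g01111 (Good.n0 L07766 g01112)) (Good.n1 g01116 (Good.n0 L07803 g01117))) (Good.n3 g01124 g01131)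
theorem g01133 : Good (Phi V5.P V5.D (-1) (-1)) ⟨1, 1, 5, 20, 4, 14, 4, 12, 4, 1⟩ :=
  Good.n4 (Good.n0 L07902 (Good.n0 L07903 (Good.n0 (Good.n0 (Good.n4 L07904 L07905) L07906) L07907))) (Good.n0 L07908 (Good.n0 L07909 L07910))
theorem g01134 : Good (Phi V5.P V5.D (-1) (-1)) ⟨4, 14, 5, 21, 4, 14, 4, 12, 4, 1⟩ :=
  Good.n0 (Good.n0 L07913 (Good.n0 (Good.n1 (Good.n4 L07914 L07915) (Good.n0 L07916 L07917)) L07918)) L07919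
theorem g01135 : Good (Phi V5.P V5.D (-1) (-1)) ⟨2, 3, 4, 11, 4, 14, 4, 12, 4, 1⟩ :=
  Good.n0 L07922 (Good.n0 (Good.n0 (Good.n0 L07923 (Good.n1 (Good.n0 L07924 L07925) L07926)) L07927) L07928)
theorem g01136 : Good (Phi V5.P V5.D (-1) (-1)) ⟨1, 1, 3, 5, 4, 14, 4, 12, 4, 1⟩ :=
  Good.n1 (Good.n1 g01133 (Good.n0 L07911 (Good.n0 L07912 (Good.n0 g01134 L07920)))) (Good.n0 L07921 g01135)
theorem g01137 : Good (Phi V5.P V5.D (-1) (-1)) ⟨2, 3, 5, 20, 4, 14, 4, 13, 4, 1⟩ :=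
  Good.n1 (Good.n0 L07930 (Good.n0 L07931 L07932)) (Good.n0 L07933 (Good.n0 (Good.n0 L07934 L07935) L07936))
theorem g01138 : Good (Phi V5.P V5.D (-1) (-1)) ⟨3, 7, 5, 21, 4, 14, 4, 13, 4, 1⟩ :=
  Good.n0 (Good.n0 (Good.n0 L07939 (Good.n0 (Good.n1 L07940 (Good.n0 L07941 L07942)) L07943)) L07944) L07945
theorem g01139 : Good (Phi V5.P V5.D (-1) (-1)) ⟨2, 3, 4, 11, 4, 14, 4, 13, 4, 1⟩ :=
  Good.n0 L07947 (Good.n0 (Good.n0 (Good.n0 L07948 (Good.n1 (Good.n0 L07949 L07950) L07951)) L07952) L07953)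
theorem g01140 : Good (Phi V5.P V5.D (-1) (-1)) ⟨1, 1, 3, 5, 4, 14, 4, 13, 4, 1⟩ :=
  Good.n1 (Good.n1 (Good.n0 L07929 g01137) (Good.n0 L07937 (Good.n0 L07938 g01138))) (Good.n0 L07946 g01139)
theorem g01141 : Good (Phi V5.P V5.D (-1) (-1)) ⟨5, 28, 5, 21, 4, 15, 4, 12, 4, 1⟩ :=
  Good.n1 (Good.n0 L07959 (Good.n0 (Good.n4 L07960 L07961) L07962)) (Good.n0 L07963 (Good.n0 (Good.n0 L07964 L07965) L07966))
theorem g01142 : Good (Phi V5.P V5.D (-1) (-1)) ⟨4, 14, 3, 5, 4, 15, 4, 12, 4, 1⟩ :=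
  Good.n1 (Good.n1 (Good.n4 (Good.n2 L07956 L07957) L07958) (Good.n0 g01141 L07967)) (Good.n0 (Good.n0 L07968 (Good.n1 (Good.n0 L07969 L07970) L07971)) L07972)
theorem g01143 : Good (Phi V5.P V5.D (-1) (-1)) ⟨5, 28, 5, 21, 4, 15, 4, 13, 4, 1⟩ :=
  Good.n1 (Good.n0 L07977 (Good.n0 (Good.n4 L07978 L07979) L07980)) (Good.n0 L07981 (Good.n0 (Good.n0 L07982 L07983) L07984))
theorem g01144 : Good (Phi V5.P V5.D (-1) (-1)) ⟨4, 14, 3, 5, 4, 15, 4, 13, 4, 1⟩ :=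
  Good.n1 (Good.n1 (Good.n0 (Good.n0 (Good.n1 L07973 L07974) L07975) L07976) (Good.n0 g01143 L07985)) (Good.n0 (Good.n0 L07986 (Good.n1 (Good.n0 L07987 L07988) L07989)) L07990)
theorem g01145 : Good (Phi V5.P V5.D (-1) (-1)) ⟨1, 1, 3, 5, 3, 7, 3, 6, 4, 1⟩ :=
  Good.n2 (Good.n3 g01136 g01140) (Good.n0 L07954 (Good.n0 L07955 (Good.n0 (Good.n3 g01142 g01144) L07991)))
theorem g01146 : Good (Phi V5.P V5.D (-1) (-1)) ⟨3, 7, 5, 20, 4, 14, 4, 14, 4, 0⟩ :=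
  Good.n4 (Good.n0 (Good.n0 (Good.n0 (Good.n1 L07994 L07995) L07996) L07997) L07998) (Good.n0 (Good.n0 (Good.n0 L07999 L08000) L08001) L08002)
theorem g01147 : Good (Phi V5.P V5.D (-1) (-1)) ⟨2, 3, 6, 42, 4, 14, 4, 14, 4, 0⟩ :=
  Good.n0 L08004 (Good.n4 (Good.n0 (Good.n0 (Good.n0 L08005 L08006) L08007) L08008) (Good.n0 L08009 L08010))
theorem g01148 : Good (Phi V5.P V5.D (-1) (-1)) ⟨2, 3, 6, 43, 4, 14, 4, 14, 4, 0⟩ :=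
  Good.n0 L08012 (Good.n0 (Good.n0 (Good.n0 L08013 (Good.n0 (Good.n0 L08014 L08015) L08016)) L08017) L08018)
theorem g01149 : Good (Phi V5.P V5.D (-1) (-1)) ⟨1, 1, 4, 10, 4, 14, 4, 14, 4, 0⟩ :=
  Good.n1 (Good.n0 L07992 (Good.n0 L07993 g01146)) (Good.n1 (Good.n0 L08003 g01147) (Good.n0 L08011 g01148))
theorem g01150 : Good (Phi V5.P V5.D (-1) (-1)) ⟨2, 3, 4, 11, 4, 14, 4, 14, 4, 0⟩ :=
  Good.n0 L08020 (Good.n0 (Good.n0 (Good.n0 L08021 (Good.n1 (Good.n0 L08022 L08023) L08024)) L08025) L08026)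
theorem g01151 : Good (Phi V5.P V5.D (-1) (-1)) ⟨2, 3, 4, 11, 5, 28, 4, 15, 5, 0⟩ :=
  Good.n0 L08034 (Good.n0 (Good.n0 (Good.n0 L08035 (Good.n1 (Good.n0 L08036 L08037) L08038)) L08039) L08040)
theorem g01152 : Good (Phi V5.P V5.D (-1) (-1)) ⟨1, 1, 3, 5, 5, 28, 4, 15, 5, 0⟩ :=
  Good.n1 (Good.n0 L08027 (Good.n0 L08028 (Good.n0 (Good.n0 (Good.n1 L08029 L08030) L08031) L08032))) (Good.n0 L08033 g01151)
theorem g01153 : Good (Phi V5.P V5.D (-1) (-1)) ⟨4, 14, 3, 5, 5, 28, 4, 15, 5, 1⟩ :=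
  Good.n1 (Good.n1 L08043 L08044) (Good.n0 (Good.n0 L08045 (Good.n1 (Good.n0 L08046 L08047) L08048)) L08049)
theorem g01154 : Good (Phi V5.P V5.D (-1) (-1)) ⟨1, 1, 4, 10, 5, 29, 4, 15, 4, 0⟩ :=
  Good.n1 (Good.n0 L08051 (Good.n0 L08052 (Good.n0 (Good.n0 L08053 L08054) L08055))) (Good.n0 L08056 (Good.n0 L08057 (Good.n0 (Good.n0 (Good.n0 L08058 L08059) L08060) L08061)))
theorem g01155 : Good (Phi V5.P V5.D (-1) (-1)) ⟨2, 3, 4, 11, 5, 29, 4, 15, 4, 0⟩ :=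
  Good.n0 L08063 (Good.n0 (Good.n0 (Good.n0 L08064 (Good.n1 (Good.n0 L08065 L08066) L08067)) L08068) L08069)
theorem g01156 : Good (Phi V5.P V5.D (-1) (-1)) ⟨1, 1, 3, 5, 4, 14, 4, 15, 4, 0⟩ :=
  Good.n2 (Good.n4 g01152 (Good.n0 L08041 (Good.n0 L08042 (Good.n0 g01153 L08050)))) (Good.n1 g01154 (Good.n0 L08062 g01155))
theorem g01157 : Good (Phi V5.P V5.D (-1) (-1)) ⟨3, 7, 5, 20, 4, 15, 4, 14, 4, 0⟩ :=
  Good.n4 (Good.n0 (Good.n1 L08072 L08073) L08074) (Good.n0 (Good.n0 (Good.n0 (Good.n1 L08075 L08076) L08077) L08078) L08079)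
theorem g01158 : Good (Phi V5.P V5.D (-1) (-1)) ⟨3, 7, 6, 42, 4, 15, 4, 14, 4, 0⟩ :=
  Good.n2 (Good.n0 (Good.n0 (Good.n0 L08082 (Good.n4 L08083 L08084)) L08085) L08086) (Good.n0 (Good.n0 (Good.n0 L08087 (Good.n1 L08088 L08089)) L08090) L08091)
theorem g01159 : Good (Phi V5.P V5.D (-1) (-1)) ⟨2, 3, 6, 43, 4, 15, 4, 14, 4, 0⟩ :=
  Good.n0 L08093 (Good.n0 (Good.n0 (Good.n0 L08094 (Good.n0 (Good.n0 L08095 L08096) L08097)) L08098) L08099)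
theorem g01160 : Good (Phi V5.P V5.D (-1) (-1)) ⟨1, 1, 4, 10, 4, 15, 4, 14, 4, 0⟩ :=
  Good.n1 (Good.n0 L08070 (Good.n0 L08071 g01157)) (Good.n1 (Good.n0 L08080 (Good.n0 L08081 g01158)) (Good.n0 L08092 g01159))
theorem g01161 : Good (Phi V5.P V5.D (-1) (-1)) ⟨2, 3, 4, 11, 4, 15, 4, 14, 4, 0⟩ :=
  Good.n0 L08101 (Good.n0 (Good.n0 (Good.n0 L08102 (Good.n1 (Good.n0 L08103 L08104) L08105)) L08106) L08107)
theorem g01162 : Good (Phi V5.P V5.D (-1) (-1)) ⟨3, 7, 5, 20, 4, 15, 4, 15, 4, 0⟩ :=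
  Good.n0 (Good.n0 (Good.n0 (Good.n4 (Good.n1 L08110 L08111) (Good.n1 L08112 L08113)) L08114) L08115) L08116
theorem g01163 : Good (Phi V5.P V5.D (-1) (-1)) ⟨5, 28, 5, 21, 4, 15, 4, 15, 5, 0⟩ :=
  Good.n1 (Good.n0 L08119 (Good.n0 L08120 L08121)) (Good.n0 L08122 (Good.n0 (Good.n0 L08123 L08124) L08125))
theorem g01164 : Good (Phi V5.P V5.D (-1) (-1)) ⟨5, 28, 5, 21, 4, 15, 4, 15, 4, 0⟩ :=
  Good.n4 g01163 (Good.n1 (Good.n0 L08126 L08127) (Good.n0 L08128 (Good.n0 (Good.n0 L08129 L08130) L08131)))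
theorem g01165 : Good (Phi V5.P V5.D (-1) (-1)) ⟨1, 1, 4, 10, 4, 15, 4, 15, 4, 0⟩ :=
  Good.n1 (Good.n0 L08108 (Good.n0 L08109 g01162)) (Good.n0 L08117 (Good.n0 L08118 (Good.n0 (Good.n0 g01164 L08132) L08133)))
theorem g01166 : Good (Phi V5.P V5.D (-1) (-1)) ⟨2, 3, 4, 11, 4, 15, 4, 15, 4, 0⟩ :=
  Good.n0 L08135 (Good.n0 (Good.n0 (Good.n0 L08136 (Good.n1 (Good.n0 L08137 L08138) L08139)) L08140) L08141)
theorem g01167 : Good (Phi V5.P V5.D (-1) (-1)) ⟨1, 1, 3, 5, 3, 7, 3, 7, 4, 0⟩ :=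
  Good.n2 (Good.n3 (Good.n1 g01149 (Good.n0 L08019 g01150)) g01156) (Good.n3 (Good.n1 g01160 (Good.n0 L08100 g01161)) (Good.n1 g01165 (Good.n0 L08134 g01166)))
theorem g01168 : Good (Phi V5.P V5.D (-1) (-1)) ⟨3, 7, 3, 5, 5, 28, 4, 14, 4, 1⟩ :=
  Good.n1 (Good.n4 (Good.n0 (Good.n1 L08144 L08145) L08146) (Good.n0 L08147 L08148)) (Good.n0 (Good.n0 (Good.n0 L08149 (Good.n1 (Good.n0 L08150 L08151) L08152)) L08153) L08154)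
theorem g01169 : Good (Phi V5.P V5.D (-1) (-1)) ⟨5, 28, 3, 5, 5, 28, 4, 15, 4, 1⟩ :=
  Good.n0 (Good.n1 L08156 L08157) (Good.n1 (Good.n0 L08158 L08159) (Good.n1 (Good.n0 L08160 L08161) L08162))
theorem g01170 : Good (Phi V5.P V5.D (-1) (-1)) ⟨3, 7, 3, 5, 5, 29, 3, 7, 5, 2⟩ :=
  Good.n1 (Good.n0 (Good.n1 (Good.n0 L08166 L08167) L08168) L08169) (Good.n0 (Good.n0 (Good.n0 L08170 (Good.n1 (Good.n0 L08171 L08172) L08173)) L08174) L08175)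
theorem g01171 : Good (Phi V5.P V5.D (-1) (-1)) ⟨4, 14, 3, 5, 5, 29, 3, 7, 5, 3⟩ :=
  Good.n0 (Good.n1 (Good.n0 L08177 L08178) (Good.n0 L08179 (Good.n1 (Good.n0 L08180 L08181) L08182))) L08183
theorem g01172 : Good (Phi V5.P V5.D (-1) (-1)) ⟨2, 3, 3, 5, 4, 14, 3, 7, 4, 1⟩ :=
  Good.n2 (Good.n3 (Good.n0 L08143 g01168) (Good.n0 L08155 (Good.n0 (Good.n0 g01169 L08163) L08164))) (Good.n4 (Good.n0 L08165 g01170) (Good.n0 L08176 (Good.n0 g01171 L08184)))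
theorem g01173 : Good (Phi V5.P V5.D (-1) (-1)) ⟨5, 28, 6, 42, 4, 15, 4, 14, 4, 1⟩ :=
  Good.n0 (Good.n1 L08193 L08194) (Good.n0 (Good.n4 (Good.n1 L08195 L08196) (Good.n0 (Good.n1 L08197 L08198) L08199)) L08200)
theorem g01174 : Good (Phi V5.P V5.D (-1) (-1)) ⟨3, 7, 5, 21, 4, 15, 4, 14, 4, 1⟩ :=
  Good.n0 (Good.n0 (Good.n1 g01173 (Good.n0 L08201 (Good.n0 (Good.n0 L08202 L08203) L08204))) L08205) L08206
theorem g01175 : Good (Phi V5.P V5.D (-1) (-1)) ⟨1, 1, 4, 10, 4, 15, 4, 14, 4, 1⟩ :=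
  Good.n1 (Good.n0 L08185 (Good.n0 L08186 (Good.n0 (Good.n2 L08187 (Good.n4 L08188 L08189)) L08190))) (Good.n0 L08191 (Good.n0 L08192 g01174))
theorem g01176 : Good (Phi V5.P V5.D (-1) (-1)) ⟨2, 3, 4, 11, 4, 15, 4, 14, 4, 1⟩ :=
  Good.n0 L08208 (Good.n0 (Good.n0 (Good.n0 L08209 (Good.n1 (Good.n0 L08210 L08211) L08212)) L08213) L08214)
theorem g01177 : Good (Phi V5.P V5.D (-1) (-1)) ⟨2, 3, 5, 20, 4, 15, 4, 15, 4, 1⟩ :=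
  Good.n0 L08216 (Good.n0 (Good.n0 (Good.n0 (Good.n4 (Good.n1 L08217 L08218) L08219) L08220) L08221) L08222)
theorem g01178 : Good (Phi V5.P V5.D (-1) (-1)) ⟨5, 28, 6, 42, 4, 15, 4, 15, 4, 1⟩ :=
  Good.n0 (Good.n4 L08225 L08226) (Good.n4 (Good.n2 L08227 (Good.n3 (Good.n0 L08228 L08229) L08230)) L08231)
theorem g01179 : Good (Phi V5.P V5.D (-1) (-1)) ⟨3, 7, 5, 21, 4, 15, 4, 15, 4, 1⟩ :=
  Good.n0 (Good.n0 (Good.n1 g01178 (Good.n0 L08232 (Good.n0 (Good.n0 L08233 L08234) L08235))) L08236) L08237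
theorem g01180 : Good (Phi V5.P V5.D (-1) (-1)) ⟨2, 3, 4, 11, 4, 15, 4, 15, 4, 1⟩ :=
  Good.n0 L08239 (Good.n0 (Good.n0 (Good.n0 L08240 (Good.n1 (Good.n0 L08241 L08242) L08243)) L08244) L08245)
theorem g01181 : Good (Phi V5.P V5.D (-1) (-1)) ⟨1, 1, 3, 5, 4, 15, 4, 15, 4, 1⟩ :=
  Good.n1 (Good.n1 (Good.n0 L08215 g01177) (Good.n0 L08223 (Good.n0 L08224 g01179))) (Good.n0 L08238 g01180)
theorem g01182 : Good (Phi V5.P V5.D (-1) (-1)) ⟨1, 1, 3, 5, 3, 7, 3, 7, 3, 0⟩ :=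
  Good.n4 g01167 (Good.n2 (Good.n0 L08142 g01172) (Good.n3 (Good.n1 g01175 (Good.n0 L08207 g01176)) g01181))
theorem g01183 : Good (Phi V5.P V5.D (-1) (-1)) ⟨5, 28, 4, 10, 3, 6, 2, 3, 3, 1⟩ :=
  Good.n4 (Good.n4 (Good.n0 L08248 L08249) L08250) (Good.n3 (Good.n0 (Good.n4 L08251 L08252) (Good.n4 L08253 (Good.n3 L08254 L08255))) L08256)
theorem g01184 : Good (Phi V5.P V5.D (-1) (-1)) ⟨5, 28, 4, 10, 4, 15, 2, 3, 4, 2⟩ :=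
  Good.n0 (Good.n3 (Good.n4 L08259 L08260) (Good.n4 (Good.n3 L08261 L08262) L08263)) (Good.n3 (Good.n4 L08264 L08265) (Good.n4 (Good.n3 (Good.n0 L08266 L08267) L08268) L08269))
theorem g01185 : Good (Phi V5.P V5.D (-1) (-1)) ⟨5, 28, 4, 10, 3, 7, 2, 3, 3, 1⟩ :=
  Good.n4 (Good.n2 (Good.n3 L08257 L08258) g01184) (Good.n3 (Good.n4 (Good.n3 L08270 L08271) L08272) L08273)
theorem g01186 : Good (Phi V5.P V5.D (-1) (-1)) ⟨3, 7, 3, 5, 2, 3, 2, 3, 3, 1⟩ :=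
  Good.n1 (Good.n0 (Good.n0 (Good.n2 g01183 g01185) L08274) L08275) (Good.n0 (Good.n0 (Good.n0 L08276 (Good.n1 (Good.n0 L08277 L08278) L08279)) L08280) L08281)
theorem g01187 : Good (Phi V5.P V5.D (-1) (-1)) ⟨1, 1, 3, 5, 2, 3, 2, 3, 2, 0⟩ :=
  Good.n4 (Good.n2 g01108 (Good.n3 (Good.n4 g01132 g01145) g01182)) (Good.n0 L08246 (Good.n0 L08247 g01186))
theorem g01188 : Good (Phi V5.P V5.D (-1) (-1)) ⟨1, 1, 1, 1, 2, 3, 2, 3, 2, 0⟩ :=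
  Good.n1 (Good.n1 g01042 g01187) (Good.n0 L08282 (Good.n0 L08283 (Good.n0 (Good.n1 (Good.n0 L08284 L08285) L08286) L08287)))
theorem g01189 : Good (Phi V5.P V5.D (-1) (-1)) ⟨4, 14, 2, 2, 3, 5, 2, 2, 4, 4⟩ :=
  Good.n3 (Good.n4 L08296 L08297) (Good.n4 (Good.n0 L08298 L08299) (Good.n0 (Good.n2 L08300 (Good.n3 L08301 L08302)) L08303))
theorem g01190 : Good (Phi V5.P V5.D (-1) (-1)) ⟨2, 3, 1, 1, 2, 2, 2, 2, 4, 4⟩ :=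
  Good.n0 (Good.n1 (Good.n0 L08289 (Good.n2 L08290 (Good.n1 (Good.n4 L08291 L08292) L08293))) L08294) (Good.n0 (Good.n2 L08295 (Good.n1 g01189 (Good.n1 (Good.n0 L08304 L08305) L08306))) L08307)
theorem g01191 : Good (Phi V5.P V5.D (-1) (-1)) ⟨4, 13, 2, 2, 3, 5, 2, 2, 4, 5⟩ :=
  Good.n3 (Good.n4 (Good.n1 L08310 L08311) (Good.n1 (Good.n0 L08312 (Good.n2 L08313 L08314)) L08315)) (Good.n4 (Good.n2 L08316 (Good.n1 L08317 L08318)) (Good.n2 L08319 L08320))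
theorem g01192 : Good (Phi V5.P V5.D (-1) (-1)) ⟨4, 14, 1, 1, 3, 4, 2, 2, 4, 5⟩ :=
  Good.n1 (Good.n0 (Good.n3 L08322 (Good.n4 L08323 (Good.n2 L08324 (Good.n2 L08325 L08326)))) L08327) (Good.n1 (Good.n0 L08328 L08329) L08330)
theorem g01193 : Good (Phi V5.P V5.D (-1) (-1)) ⟨4, 14, 2, 2, 3, 5, 3, 4, 5, 11⟩ :=
  Good.n2 (Good.n0 (Good.n3 L08338 (Good.n4 L08339 L08340)) L08341) (Good.n3 (Good.n0 (Good.n4 L08342 L08343) L08344) (Good.n4 (Good.n2 L08345 L08346) L08347))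
theorem g01194 : Good (Phi V5.P V5.D (-1) (-1)) ⟨4, 14, 2, 2, 3, 5, 3, 4, 4, 5⟩ :=
  Good.n4 (Good.n0 (Good.n2 L08332 (Good.n3 L08333 (Good.n4 L08334 (Good.n2 L08335 L08336)))) L08337) g01193
theorem g01195 : Good (Phi V5.P V5.D (-1) (-1)) ⟨5, 28, 2, 2, 3, 5, 3, 5, 4, 5⟩ :=
  Good.n4 (Good.n2 (Good.n3 L08348 L08349) (Good.n3 (Good.n2 L08350 L08351) L08352)) (Good.n2 (Good.n3 (Good.n4 L08353 L08354) L08355) L08356)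
theorem g01196 : Good (Phi V5.P V5.D (-1) (-1)) ⟨3, 7, 1, 1, 3, 5, 2, 2, 4, 5⟩ :=
  Good.n0 (Good.n1 (Good.n3 g01194 (Good.n0 g01195 L08357)) (Good.n1 (Good.n0 L08358 L08359) L08360)) L08361
theorem g01197 : Good (Phi V5.P V5.D (-1) (-1)) ⟨2, 3, 1, 1, 2, 2, 2, 2, 4, 5⟩ :=
  Good.n0 (Good.n1 (Good.n0 L08308 (Good.n2 L08309 g01191)) L08321) (Good.n2 (Good.n0 g01192 L08331) g01196)
theorem g01198 : Good (Phi V5.P V5.D (-1) (-1)) ⟨4, 14, 1, 1, 2, 2, 3, 6, 4, 4⟩ :=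
  Good.n1 (Good.n0 (Good.n2 L08367 (Good.n4 L08368 L08369)) L08370) (Good.n1 (Good.n0 L08371 L08372) L08373)
theorem g01199 : Good (Phi V5.P V5.D (-1) (-1)) ⟨2, 3, 1, 1, 2, 2, 3, 6, 4, 4⟩ :=
  Good.n0 (Good.n1 (Good.n0 L08362 (Good.n2 L08363 (Good.n4 L08364 L08365))) L08366) (Good.n0 g01198 L08374)
theorem g01200 : Good (Phi V5.P V5.D (-1) (-1)) ⟨3, 7, 1, 1, 3, 4, 3, 6, 4, 5⟩ :=
  Good.n1 (Good.n0 (Good.n0 (Good.n4 L08378 L08379) L08380) L08381) (Good.n0 (Good.n1 (Good.n0 L08382 L08383) L08384) L08385)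
theorem g01201 : Good (Phi V5.P V5.D (-1) (-1)) ⟨2, 3, 1, 1, 2, 2, 2, 3, 3, 2⟩ :=
  Good.n4 (Good.n3 g01199 L08375) (Good.n3 (Good.n2 (Good.n0 (Good.n1 L08376 L08377) g01200) L08386) L08387)
theorem g01202 : Good (Phi V5.P V5.D (-1) (-1)) ⟨4, 13, 3, 4, 3, 6, 2, 2, 4, 4⟩ :=
  Good.n4 (Good.n3 L08389 (Good.n3 L08390 L08391)) (Good.n3 (Good.n2 L08392 (Good.n3 L08393 L08394)) (Good.n2 L08395 L08396))
theorem g01203 : Good (Phi V5.P V5.D (-1) (-1)) ⟨4, 13, 2, 2, 3, 7, 2, 2, 4, 4⟩ :=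
  Good.n4 (Good.n1 (Good.n3 (Good.n2 L08398 L08399) (Good.n2 L08400 L08401)) L08402) (Good.n3 (Good.n1 (Good.n4 L08403 L08404) L08405) L08406)
theorem g01204 : Good (Phi V5.P V5.D (-1) (-1)) ⟨6, 56, 4, 9, 2, 3, 2, 2, 5, 8⟩ :=
  Good.n2 (Good.n3 L08408 (Good.n2 L08409 (Good.n3 L08410 L08411))) (Good.n3 (Good.n2 L08412 L08413) (Good.n3 (Good.n2 L08414 L08415) L08416))
theorem g01205 : Good (Phi V5.P V5.D (-1) (-1)) ⟨5, 28, 4, 10, 3, 6, 2, 2, 5, 8⟩ :=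
  Good.n3 (Good.n2 L08418 (Good.n4 L08419 L08420)) (Good.n2 (Good.n3 L08421 L08422) (Good.n3 (Good.n4 L08423 L08424) (Good.n2 L08425 L08426)))
theorem g01206 : Good (Phi V5.P V5.D (-1) (-1)) ⟨6, 56, 4, 10, 3, 7, 3, 4, 5, 8⟩ :=
  Good.n1 (Good.n0 (Good.n2 L08431 L08432) (Good.n3 L08433 (Good.n2 L08434 L08435))) (Good.n3 L08436 (Good.n2 L08437 L08438))
theorem g01207 : Good (Phi V5.P V5.D (-1) (-1)) ⟨6, 57, 4, 10, 3, 7, 3, 4, 5, 8⟩ :=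
  Good.n2 (Good.n4 (Good.n0 L08439 L08440) (Good.n0 (Good.n3 L08441 L08442) L08443)) (Good.n0 (Good.n4 L08444 L08445) L08446)
theorem g01208 : Good (Phi V5.P V5.D (-1) (-1)) ⟨5, 28, 3, 5, 3, 7, 2, 2, 5, 8⟩ :=
  Good.n1 (Good.n3 (Good.n0 g01206 g01207) (Good.n3 (Good.n2 (Good.n4 L08447 L08448) L08449) L08450)) (Good.n0 L08451 (Good.n1 (Good.n0 L08452 L08453) L08454))
theorem g01209 : Good (Phi V5.P V5.D (-1) (-1)) ⟨5, 28, 2, 2, 2, 3, 2, 2, 5, 8⟩ :=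
  Good.n1 (Good.n1 L08407 (Good.n0 g01204 L08417)) (Good.n2 (Good.n1 g01205 (Good.n0 L08427 (Good.n1 (Good.n0 L08428 L08429) L08430))) g01208)
theorem g01210 : Good (Phi V5.P V5.D (-1) (-1)) ⟨5, 28, 2, 2, 4, 13, 4, 8, 5, 9⟩ :=
  Good.n4 L08459 (Good.n1 L08460 (Good.n1 L08461 (Good.n0 L08462 (Good.n1 (Good.n0 L08463 L08464) L08465))))
theorem g01211 : Good (Phi V5.P V5.D (-1) (-1)) ⟨5, 28, 2, 2, 3, 6, 3, 4, 5, 9⟩ :=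
  Good.n2 (Good.n3 L08455 (Good.n4 L08456 (Good.n1 L08457 L08458))) (Good.n3 g01210 (Good.n4 (Good.n2 L08466 L08467) L08468))
theorem g01212 : Good (Phi V5.P V5.D (-1) (-1)) ⟨5, 28, 2, 2, 3, 6, 2, 2, 5, 9⟩ :=
  Good.n3 g01211 (Good.n2 (Good.n3 (Good.n4 (Good.n2 L08469 L08470) L08471) L08472) (Good.n3 L08473 L08474))
theorem g01213 : Good (Phi V5.P V5.D (-1) (-1)) ⟨5, 28, 2, 2, 2, 3, 2, 2, 4, 4⟩ :=
  Good.n4 g01209 (Good.n2 g01212 (Good.n3 (Good.n4 (Good.n2 (Good.n3 L08475 L08476) L08477) L08478) L08479))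
theorem g01214 : Good (Phi V5.P V5.D (-1) (-1)) ⟨2, 3, 2, 2, 2, 3, 2, 2, 4, 4⟩ :=
  Good.n0 (Good.n0 L08388 (Good.n2 (Good.n1 g01202 L08397) g01203)) (Good.n0 (Good.n0 g01213 L08480) L08481)
theorem g01215 : Good (Phi V5.P V5.D (-1) (-1)) ⟨2, 3, 1, 1, 3, 6, 3, 6, 4, 4⟩ :=
  Good.n4 (Good.n1 L08487 (Good.n0 L08488 (Good.n0 (Good.n1 (Good.n0 L08489 L08490) L08491) L08492))) L08493
theorem g01216 : Good (Phi V5.P V5.D (-1) (-1)) ⟨2, 3, 1, 1, 2, 3, 1, 1, 4, 4⟩ :=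
  Good.n3 (Good.n1 g01214 (Good.n0 L08482 (Good.n0 (Good.n1 (Good.n0 L08483 L08484) L08485) L08486))) (Good.n2 (Good.n3 g01215 L08494) L08495)
theorem g01217 : Good (Phi V5.P V5.D (-1) (-1)) ⟨4, 13, 3, 4, 3, 6, 2, 2, 4, 5⟩ :=
  Good.n0 (Good.n3 (Good.n4 L08497 L08498) L08499) (Good.n4 (Good.n3 (Good.n2 (Good.n2 L08500 L08501) L08502) L08503) L08504)
theorem g01218 : Good (Phi V5.P V5.D (-1) (-1)) ⟨5, 28, 2, 2, 4, 12, 4, 9, 5, 10⟩ :=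
  Good.n4 (Good.n1 L08509 (Good.n1 L08510 (Good.n0 L08511 (Good.n1 (Good.n0 L08512 L08513) L08514)))) L08515
theorem g01219 : Good (Phi V5.P V5.D (-1) (-1)) ⟨4, 14, 2, 2, 3, 6, 3, 4, 5, 10⟩ :=
  Good.n2 (Good.n3 (Good.n4 L08506 (Good.n0 L08507 L08508)) (Good.n0 g01218 L08516)) (Good.n3 (Good.n4 L08517 L08518) L08519)
theorem g01220 : Good (Phi V5.P V5.D (-1) (-1)) ⟨2, 3, 2, 2, 3, 6, 2, 2, 4, 5⟩ :=
  Good.n0 (Good.n0 L08496 (Good.n1 g01217 L08505)) (Good.n0 (Good.n3 (Good.n4 g01219 L08520) L08521) L08522)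
theorem g01221 : Good (Phi V5.P V5.D (-1) (-1)) ⟨2, 3, 1, 1, 2, 3, 2, 2, 4, 5⟩ :=
  Good.n2 (Good.n1 g01220 (Good.n0 L08523 (Good.n0 (Good.n1 (Good.n0 L08524 L08525) L08526) L08527))) L08528
theorem g01222 : Good (Phi V5.P V5.D (-1) (-1)) ⟨1, 1, 1, 1, 1, 1, 1, 1, 3, 2⟩ :=
  Good.n0 L08288 (Good.n2 (Good.n3 (Good.n4 g01190 g01197) g01201) (Good.n4 g01216 (Good.n3 g01221 L08529)))
theorem g01223 : Good (Phi V5.P V5.D (-1) (-1)) ⟨4, 13, 3, 4, 3, 4, 2, 2, 4, 6⟩ :=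
  Good.n3 (Good.n4 L08532 (Good.n2 L08533 (Good.n3 (Good.n2 L08534 L08535) L08536))) (Good.n4 (Good.n2 L08537 L08538) (Good.n2 (Good.n3 L08539 L08540) L08541))
theorem g01224 : Good (Phi V5.P V5.D (-1) (-1)) ⟨3, 6, 2, 2, 3, 5, 3, 4, 4, 6⟩ :=
  Good.n0 L08543 (Good.n4 (Good.n2 (Good.n1 (Good.n3 L08544 L08545) L08546) L08547) (Good.n2 L08548 L08549))
theorem g01225 : Good (Phi V5.P V5.D (-1) (-1)) ⟨3, 6, 2, 2, 4, 8, 3, 4, 5, 14⟩ :=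
  Good.n3 L08551 (Good.n1 (Good.n0 L08552 (Good.n4 (Good.n2 L08553 L08554) (Good.n2 L08555 L08556))) L08557)
theorem g01226 : Good (Phi V5.P V5.D (-1) (-1)) ⟨3, 6, 2, 2, 4, 9, 3, 4, 5, 14⟩ :=
  Good.n4 (Good.n2 (Good.n3 (Good.n1 L08558 L08559) L08560) L08561) (Good.n2 (Good.n3 (Good.n2 (Good.n3 L08562 L08563) L08564) L08565) L08566)
theorem g01227 : Good (Phi V5.P V5.D (-1) (-1)) ⟨3, 6, 2, 2, 3, 4, 3, 5, 5, 14⟩ :=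
  Good.n2 (Good.n3 (Good.n1 (Good.n0 L08567 (Good.n2 (Good.n4 L08568 L08569) L08570)) L08571) L08572) L08573
theorem g01228 : Good (Phi V5.P V5.D (-1) (-1)) ⟨3, 6, 2, 2, 3, 4, 2, 2, 4, 7⟩ :=
  Good.n4 (Good.n3 (Good.n2 g01225 g01226) g01227) (Good.n2 (Good.n3 (Good.n3 L08574 (Good.n4 (Good.n2 L08575 L08576) L08577)) L08578) L08579)
theorem g01229 : Good (Phi V5.P V5.D (-1) (-1)) ⟨3, 6, 2, 2, 2, 2, 2, 2, 3, 3⟩ :=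
  Good.n4 (Good.n2 (Good.n0 L08531 (Good.n1 g01223 L08542)) (Good.n3 g01224 L08550)) (Good.n2 g01228 L08580)
theorem g01230 : Good (Phi V5.P V5.D (-1) (-1)) ⟨5, 28, 2, 2, 4, 9, 4, 8, 6, 27⟩ :=
  Good.n2 (Good.n3 L08596 L08597) (Good.n1 L08598 (Good.n1 L08599 (Good.n0 L08600 (Good.n1 (Good.n0 L08601 L08602) L08603))))
theorem g01231 : Good (Phi V5.P V5.D (-1) (-1)) ⟨5, 28, 3, 5, 4, 9, 4, 9, 5, 13⟩ :=
  Good.n2 (Good.n1 (Good.n4 L08606 L08607) (Good.n0 L08608 (Good.n1 (Good.n0 L08609 L08610) L08611))) L08612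
theorem g01232 : Good (Phi V5.P V5.D (-1) (-1)) ⟨5, 28, 2, 2, 3, 4, 3, 4, 5, 13⟩ :=
  Good.n2 (Good.n3 (Good.n4 L08589 L08590) (Good.n2 L08591 (Good.n1 L08592 L08593))) (Good.n3 (Good.n4 (Good.n2 L08594 L08595) g01230) (Good.n1 (Good.n4 L08604 L08605) g01231))
theorem g01233 : Good (Phi V5.P V5.D (-1) (-1)) ⟨4, 14, 2, 2, 3, 4, 3, 4, 4, 6⟩ :=
  Good.n4 (Good.n0 (Good.n2 L08584 (Good.n2 L08585 (Good.n3 L08586 L08587))) L08588) (Good.n0 g01232 L08613)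
theorem g01234 : Good (Phi V5.P V5.D (-1) (-1)) ⟨5, 28, 2, 2, 3, 4, 3, 5, 5, 12⟩ :=
  Good.n2 (Good.n1 L08614 (Good.n1 L08615 (Good.n0 L08616 (Good.n1 (Good.n0 L08617 L08618) L08619)))) (Good.n3 (Good.n2 L08620 L08621) L08622)
theorem g01235 : Good (Phi V5.P V5.D (-1) (-1)) ⟨4, 14, 2, 2, 3, 4, 3, 5, 5, 13⟩ :=
  Good.n2 (Good.n3 (Good.n4 L08624 (Good.n2 L08625 L08626)) (Good.n2 L08627 L08628)) (Good.n3 L08629 L08630)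
theorem g01236 : Good (Phi V5.P V5.D (-1) (-1)) ⟨4, 14, 2, 2, 4, 10, 3, 4, 5, 12⟩ :=
  Good.n3 (Good.n0 (Good.n2 (Good.n0 L08631 L08632) L08633) L08634) (Good.n4 (Good.n2 L08635 L08636) L08637)
theorem g01237 : Good (Phi V5.P V5.D (-1) (-1)) ⟨4, 14, 2, 2, 3, 5, 2, 2, 4, 6⟩ :=
  Good.n3 (Good.n4 (Good.n2 g01236 L08638) (Good.n2 (Good.n3 (Good.n2 L08639 L08640) L08641) L08642)) L08643
theorem g01238 : Good (Phi V5.P V5.D (-1) (-1)) ⟨3, 7, 2, 2, 2, 2, 1, 1, 4, 6⟩ :=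
  Good.n3 (Good.n0 (Good.n2 (Good.n3 g01233 (Good.n4 (Good.n0 g01234 L08623) g01235)) g01237) L08644) (Good.n2 (Good.n3 L08645 L08646) L08647)
theorem g01239 : Good (Phi V5.P V5.D (-1) (-1)) ⟨5, 28, 2, 2, 4, 8, 4, 8, 6, 28⟩ :=
  Good.n2 L08648 (Good.n1 L08649 (Good.n1 L08650 (Good.n0 L08651 (Good.n1 (Good.n0 L08652 L08653) L08654))))
theorem g01240 : Good (Phi V5.P V5.D (-1) (-1)) ⟨5, 28, 2, 2, 5, 17, 5, 17, 6, 29⟩ :=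
  Good.n4 (Good.n3 L08657 (Good.n2 L08658 (Good.n4 (Good.n3 L08659 (Good.n2 L08660 L08661)) L08662))) L08663
theorem g01241 : Good (Phi V5.P V5.D (-1) (-1)) ⟨5, 28, 3, 5, 5, 16, 4, 9, 6, 28⟩ :=
  Good.n1 (Good.n3 L08668 (Good.n0 L08669 L08670)) (Good.n0 L08671 (Good.n1 (Good.n0 L08672 L08673) L08674))
theorem g01242 : Good (Phi V5.P V5.D (-1) (-1)) ⟨5, 28, 3, 5, 5, 17, 4, 9, 6, 28⟩ :=
  Good.n3 (Good.n1 (Good.n2 L08675 L08676) (Good.n0 L08677 (Good.n1 (Good.n0 L08678 L08679) L08680))) (Good.n1 L08681 (Good.n0 L08682 (Good.n1 (Good.n0 L08683 L08684) L08685)))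
theorem g01243 : Good (Phi V5.P V5.D (-1) (-1)) ⟨5, 28, 3, 5, 5, 16, 4, 9, 7, 58⟩ :=
  Good.n3 L08686 (Good.n1 (Good.n2 L08687 L08688) (Good.n0 L08689 (Good.n1 (Good.n0 L08690 L08691) L08692)))
theorem g01244 : Good (Phi V5.P V5.D (-1) (-1)) ⟨5, 28, 3, 5, 6, 32, 6, 39, 7, 59⟩ :=
  Good.n4 (Good.n3 L08695 (Good.n2 L08696 (Good.n4 (Good.n3 L08697 (Good.n2 L08698 L08699)) L08700))) L08701
theorem g01245 : Good (Phi V5.P V5.D (-1) (-1)) ⟨5, 28, 3, 5, 4, 8, 4, 9, 6, 29⟩ :=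
  Good.n2 (Good.n4 g01243 (Good.n3 L08693 (Good.n3 L08694 (Good.n2 g01244 L08702)))) (Good.n4 (Good.n2 (Good.n3 L08703 L08704) L08705) (Good.n2 (Good.n3 L08706 L08707) L08708))
theorem g01246 : Good (Phi V5.P V5.D (-1) (-1)) ⟨5, 28, 2, 2, 4, 8, 4, 9, 5, 14⟩ :=
  Good.n1 (Good.n2 (Good.n4 L08664 L08665) (Good.n3 L08666 L08667)) (Good.n4 (Good.n2 g01241 g01242) g01245)
theorem g01247 : Good (Phi V5.P V5.D (-1) (-1)) ⟨3, 7, 2, 2, 4, 8, 3, 4, 5, 14⟩ :=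
  Good.n0 (Good.n0 (Good.n3 (Good.n4 g01239 (Good.n3 L08655 (Good.n2 L08656 g01240))) g01246) L08709) L08710
theorem g01248 : Good (Phi V5.P V5.D (-1) (-1)) ⟨5, 28, 2, 2, 5, 18, 4, 8, 6, 28⟩ :=
  Good.n1 L08711 (Good.n1 (Good.n3 L08712 L08713) (Good.n0 L08714 (Good.n1 (Good.n0 L08715 L08716) L08717)))
theorem g01249 : Good (Phi V5.P V5.D (-1) (-1)) ⟨3, 7, 2, 2, 4, 9, 3, 4, 5, 14⟩ :=
  Good.n4 (Good.n2 (Good.n3 (Good.n0 (Good.n0 g01248 L08718) L08719) L08720) L08721) (Good.n2 (Good.n3 (Good.n2 (Good.n3 L08722 L08723) L08724) L08725) L08726)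

end Crest.Agent.R097C5.N5mm
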