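import Crest.Agent.R097.KP7
import Crest.Agent.R097.T5Ymp

/-!
# Row 97, box cover in dimension n = 5 (generated)
-/

set_option autoImplicit false
set_option Elab.async false
set_option maxHeartbeats 0
set_option maxRecDepth 100000

open Crest.Agent.R097 Crest.Agent.R097.KA


namespace Crest.Agent.R097C5.N5mp

theorem L00000 : Good (Phi V5.P V5.D (-1) 1) ⟨2, 0, 3, 0, 1, 0, 2, 0, 4, 0⟩ :=
  leafX_sound T5.ok_mp T5.Ymp.bz_eq (w := 187) (c := ⟨⟨.ofNat 509, .negSucc 23, .negSucc 17, .ofNat 293, .ofNat 147, .negSucc 1220⟩, ⟨.negSucc 2, .negSucc 1, .ofNat 43, .negSucc 67, .ofNat 60, .negSucc 104⟩, ⟨.negSucc 493, .ofNat 100, .ofNat 77, .negSucc 208, .negSucc 328, .ofNat 1023⟩, ⟨.ofNat 1498, .negSucc 97, .negSucc 0, .ofNat 920, .ofNat 384, .negSucc 3593⟩, ⟨.negSucc 22, .negSucc 271, .negSucc 16, .negSucc 758, .ofNat 303, .negSucc 44⟩, .ofNat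 584, .negSucc 77, .ofNat 0, .negSucc 77, .ofNat 1099, .ofNat 0, .ofNat 291, .ofNat 24, .negSucc 221, .ofNat 0, .ofNat 128, .negSucc 5, .ofNat 0, .ofNat 0, .ofNat 709, .ofNat 3766, .ofNat 0, .ofNat 0, .ofNat 0, .ofNat 0, .ofNat 0, .ofNat 0, .ofNat 0, .ofNat 0, .ofNat 0, .ofNat 0, .ofNat 0, .ofNat 0, .ofNat 0, .ofNat 0, .ofNat 0, .ofNat 0⟩)
    (by decide +kernel)
theorem L00001 : Good (Phi V5.P V5.D (-1) 1) ⟨2, 0, 3, 0, 1, 0, 2, 1, 4, 0⟩ :=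
  leafX_sound T5.ok_mp T5.Ymp.bz_eq (w := 187) (c := ⟨⟨.ofNat 583, .negSucc 70, .negSucc 31, .ofNat 408, .negSucc 228, .negSucc 1261⟩, ⟨.ofNat 32, .ofNat 0, .ofNat 17, .negSucc 8, .ofNat 4, .negSucc 138⟩, ⟨.negSucc 598, .ofNat 22, .ofNat 80, .negSucc 399, .ofNat 167, .ofNat 1055⟩, ⟨.ofNat 1659, .negSucc 205, .negSucc 85, .ofNat 1258, .negSucc 668, .negSucc 3657⟩, ⟨.ofNat 54, .negSucc 137, .ofNat 2, .negSucc 379, .ofNat 121, .negSucc 175⟩, .ofNat 583, .negSucc 82, .ofNat 0, .negSucc 82, .ofNat 1108, .ofNat 0, .ofNat 383, .ofNat 27, .negSucc 254, .ofNat 0, .ofNat 128, .negSucc 8, .ofNat 0, .ofNat 0, .ofNat 667, .ofNat 2126, .ofNat 0, .ofNat 0, .ofNat 0, .ofNat 0, .ofNat 0, .ofNat 0, .ofNat 0, .ofNat 0, .ofNat 0, .ofNat 0, .ofNat 0, .ofNat 0, .ofNat 0, .ofNat 0, .ofNat 0, .ofNat 0⟩)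
    (by decide +kernel)
theorem L00002 : Good (Phi V5.P V5.D (-1) 1) ⟨2, 0, 3, 0, 1, 0, 1, 0, 4, 1⟩ :=
  leafX_sound T5.ok_mp T5.Ymp.bz_eq (w := 182) (c := ⟨⟨.negSucc 614, .negSucc 160, .negSucc 4, .ofNat 128, .ofNat 33, .negSucc 551⟩, ⟨.ofNat 1, .negSucc 41, .negSucc 119, .negSucc 91, .ofNat 32, .negSucc 50⟩, ⟨.ofNat 746, .ofNat 183, .ofNat 49, .negSucc 724, .negSucc 151, .ofNat 531⟩, ⟨.negSucc 1912, .negSucc 198, .ofNat 13, .ofNat 413, .ofNat 71, .negSucc 1617⟩, ⟨.negSucc 78, .negSucc 76, .negSucc 25, .negSucc 825, .ofNat 246, .ofNat 8⟩, .ofNat 582, .negSucc 74, .ofNat 0, .negSucc 74, .ofNat 1108, .ofNat 0, .ofNat 360, .ofNat 23, .negSucc 156, .ofNat 0, .ofNat 128, .ofNat 1, .ofNat 0, .ofNat 0, .ofNat 628, .ofNat 2601, .ofNat 0, .ofNat 0, .ofNat 0, .ofNat 0, .ofNat 0, .ofNat 0, .ofNat 0, .ofNat 0, .ofNat 0, .ofNat 0, .ofNat 0, .ofNat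 0, .ofNat 0, .ofNat 0, .ofNat 0, .ofNat 0⟩)
    (by decide +kernel)
theorem L00003 : Good (Phi V5.P V5.D (-1) 1) ⟨2, 0, 3, 0, 1, 0, 2, 2, 3, 0⟩ :=
  leafX_sound T5.ok_mp T5.Ymp.bz_eq (w := 180) (c := ⟨⟨.negSucc 36, .negSucc 162, .negSucc 18, .ofNat 242, .negSucc 42, .negSucc 1017⟩, ⟨.ofNat 66, .negSucc 62, .negSucc 95, .negSucc 33, .negSucc 14, .negSucc 78⟩, ⟨.ofNat 10, .ofNat 88, .ofNat 13, .negSucc 419, .ofNat 65, .ofNat 944⟩, ⟨.negSucc 204, .negSucc 271, .ofNat 7, .ofNat 729, .negSucc 145, .negSucc 2962⟩, ⟨.ofNat 19, .negSucc 195, .negSucc 54, .negSucc 299, .ofNat 8, .ofNat 48⟩, .ofNat 697, .negSucc 129, .ofNat 0, .negSucc 129, .ofNat 1582, .ofNat 0, .ofNat 334, .ofNat 31, .negSucc 177, .ofNat 0, .ofNat 128, .negSucc 6, .ofNat 0, .ofNat 0, .ofNat 515, .ofNat 796, .ofNat 0, .ofNat 0, .ofNat 0, .ofNat 0, .ofNat 0, .ofNat 0, .ofNat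 0, .ofNat 0, .ofNat 0, .ofNat 0, .ofNat 0, .ofNat 0, .ofNat 0, .ofNat 0, .ofNat 0, .ofNat 0⟩)
    (by decide +kernel)
theorem L00004 : Good (Phi V5.P V5.D (-1) 1) ⟨2, 0, 3, 0, 1, 0, 3, 6, 3, 0⟩ :=
  leafX_sound T5.ok_mp T5.Ymp.bz_eq (w := 185) (c := ⟨⟨.negSucc 342, .negSucc 154, .negSucc 45, .ofNat 106, .ofNat 93, .negSucc 593⟩, ⟨.ofNat 31, .negSucc 44, .negSucc 87, .negSucc 52, .ofNat 5, .negSucc 55⟩, ⟨.ofNat 349, .ofNat 48, .ofNat 34, .negSucc 244, .negSucc 104, .ofNat 486⟩, ⟨.negSucc 1081, .negSucc 266, .negSucc 99, .ofNat 348, .ofNat 242, .negSucc 1740⟩, ⟨.ofNat 2, .negSucc 110, .ofNat 52, .negSucc 389, .ofNat 23, .negSucc 43⟩, .ofNat 758, .negSucc 170, .ofNat 0, .negSucc 170, .ofNat 1881, .ofNat 0, .ofNat 449, .ofNat 33, .negSucc 174, .ofNat 0, .ofNat 128, .negSucc 6, .ofNat 0, .ofNat 0, .ofNat 504, .ofNat 1400, .ofNat 0, .ofNat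 0, .ofNat 0, .ofNat 0, .ofNat 0, .ofNat 0, .ofNat 0, .ofNat 0, .ofNat 0, .ofNat 0, .ofNat 0, .ofNat 0, .ofNat 0, .ofNat 0, .ofNat 0, .ofNat 0⟩)
    (by decide +kernel)
theorem L00005 : Good (Phi V5.P V5.D (-1) 1) ⟨2, 0, 3, 0, 2, 0, 3, 7, 3, 0⟩ :=
  leafX_sound T5.ok_mp T5.Ymp.bz_eq (w := 200) (c := ⟨⟨.negSucc 547, .negSucc 65, .negSucc 18, .negSucc 33, .ofNat 456, .negSucc 236⟩, ⟨.negSucc 14, .negSucc 15, .negSucc 58, .negSucc 39, .ofNat 36, .negSucc 16⟩, ⟨.ofNat 518, .ofNat 3, .ofNat 24, .negSucc 3, .negSucc 513, .ofNat 82⟩, ⟨.negSucc 1658, .negSucc 63, .negSucc 43, .negSucc 70, .ofNat 1321, .negSucc 695⟩, ⟨.negSucc 21, .negSucc 3, .negSucc 9, .negSucc 267, .negSucc 10, .ofNat 37⟩, .ofNat 649, .negSucc 107, .ofNat 0, .negSucc 107, .ofNat 1384, .ofNat 0, .ofNat 348, .ofNat 28, .negSucc 323, .ofNat 0, .ofNat 128, .negSucc 21, .ofNat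 0, .ofNat 0, .ofNat 809, .ofNat 2301, .ofNat 0, .ofNat 0, .ofNat 0, .ofNat 0, .ofNat 0, .ofNat 0, .ofNat 0, .ofNat 0, .ofNat 0, .ofNat 0, .ofNat 0, .ofNat 0, .ofNat 0, .ofNat 0, .ofNat 0, .ofNat 0⟩)
    (by decide +kernel)
theorem L00006 : Good (Phi V5.P V5.D (-1) 1) ⟨2, 0, 3, 0, 2, 1, 3, 7, 3, 0⟩ :=
  leafX_sound T5.ok_mp T5.Ymp.bz_eq (w := 199) (c := ⟨⟨.negSucc 389, .negSucc 101, .negSucc 39, .negSucc 82, .ofNat 328, .negSucc 359⟩, ⟨.negSucc 43, .negSucc 19, .negSucc 70, .negSucc 23, .ofNat 37, .negSucc 18⟩, ⟨.ofNat 368, .negSucc 65, .ofNat 28, .ofNat 65, .negSucc 315, .ofNat 172⟩, ⟨.negSucc 1202, .negSucc 118, .negSucc 76, .negSucc 215, .ofNat 913, .negSucc 1041⟩, ⟨.negSucc 284, .negSucc 74, .negSucc 57, .negSucc 157, .ofNat 30, .ofNat 141⟩, .ofNat 744, .negSucc 160, .ofNat 0, .negSucc 160, .ofNat 1773, .ofNat 0, .ofNat 351, .ofNat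 38, .negSucc 237, .ofNat 0, .ofNat 128, .negSucc 5, .ofNat 0, .ofNat 0, .ofNat 586, .ofNat 1355, .ofNat 0, .ofNat 0, .ofNat 0, .ofNat 0, .ofNat 0, .ofNat 0, .ofNat 0, .ofNat 0, .ofNat 0, .ofNat 0, .ofNat 0, .ofNat 0, .ofNat 0, .ofNat 0, .ofNat 0, .ofNat 0⟩)
    (by decide +kernel)
theorem L00007 : Good (Phi V5.P V5.D (-1) 1) ⟨2, 0, 3, 0, 1, 0, 1, 0, 3, 1⟩ :=
  leafX_sound T5.ok_mp T5.Ymp.bz_eq (w := 178) (c := ⟨⟨.negSucc 1250, .negSucc 160, .ofNat 1, .negSucc 65, .ofNat 176, .negSucc 49⟩, ⟨.negSucc 32, .negSucc 53, .negSucc 155, .negSucc 74, .ofNat 33, .ofNat 3⟩, ⟨.ofNat 1346, .ofNat 128, .ofNat 38, .negSucc 486, .negSucc 286, .ofNat 239⟩, ⟨.negSucc 3803, .negSucc 137, .ofNat 33, .negSucc 134, .ofNat 509, .negSucc 173⟩, ⟨.negSucc 169, .ofNat 6, .ofNat 5, .negSucc 549, .ofNat 158, .ofNat 72⟩, .ofNat 581, .negSucc 72, .ofNat 0, .negSucc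 72, .ofNat 1111, .ofNat 0, .ofNat 750, .ofNat 22, .negSucc 140, .ofNat 0, .ofNat 128, .ofNat 5, .ofNat 0, .ofNat 0, .ofNat 940, .ofNat 1877, .ofNat 0, .ofNat 0, .ofNat 0, .ofNat 0, .ofNat 0, .ofNat 0, .ofNat 0, .ofNat 0, .ofNat 0, .ofNat 0, .ofNat 0, .ofNat 0, .ofNat 625052362674729548904264981922447360, .ofNat 0, .ofNat 0, .ofNat 0⟩)
    (by decide +kernel)
theorem L00008 : Good (Phi V5.P V5.D (-1) 1) ⟨2, 0, 3, 0, 1, 0, 2, 2, 3, 1⟩ :=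
  leafX_sound T5.ok_mp T5.Ymp.bz_eq (w := 182) (c := ⟨⟨.negSucc 1103, .negSucc 130, .ofNat 2, .negSucc 87, .ofNat 138, .negSucc 9⟩, ⟨.negSucc 14, .negSucc 43, .negSucc 140, .negSucc 64, .ofNat 15, .ofNat 4⟩, ⟨.ofNat 1123, .ofNat 50, .negSucc 26, .negSucc 242, .negSucc 194, .ofNat 53⟩, ⟨.negSucc 3349, .negSucc 53, .ofNat 26, .negSucc 232, .ofNat 378, .negSucc 57⟩, ⟨.negSucc 56, .ofNat 33, .negSucc 13, .negSucc 396, .ofNat 32, .ofNat 24⟩, .ofNat 735, .negSucc 152, .ofNat 0, .negSucc 152, .ofNat 1828, .ofNat 0, .ofNat 514, .ofNat 30, .negSucc 167, .ofNat 0, .ofNat 128, .negSucc 1, .ofNat 0, .ofNat 0, .ofNat 946, .ofNat 2132, .ofNat 0, .ofNat 0, .ofNat 0, .ofNat 0, .ofNat 0, .ofNat 0, .ofNat 0, .ofNat 0, .ofNat 0, .ofNat 0, .ofNat 0, .ofNat 0, .ofNat 0, .ofNat 0, .ofNat 0, .ofNat 0⟩)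
    (by decide +kernel)
theorem L00009 : Good (Phi V5.P V5.D (-1) 1) ⟨2, 0, 3, 0, 1, 0, 3, 6, 3, 1⟩ :=
  leafX_sound T5.ok_mp T5.Ymp.bz_eq (w := 186) (c := ⟨⟨.negSucc 923, .negSucc 72, .negSucc 0, .negSucc 170, .ofNat 117, .negSucc 52⟩, ⟨.negSucc 19, .negSucc 36, .negSucc 123, .negSucc 46, .ofNat 16, .ofNat 5⟩, ⟨.ofNat 847, .negSucc 25, .negSucc 18, .ofNat 3, .negSucc 175, .ofNat 18⟩, ⟨.negSucc 2818, .ofNat 57, .ofNat 17, .negSucc 459, .ofNat 324, .negSucc 168⟩, ⟨.negSucc 158, .ofNat 51, .ofNat 1, .negSucc 231, .ofNat 54, .ofNat 91⟩, .ofNat 695, .negSucc 126, .ofNat 0, .negSucc 126, .ofNat 1594, .ofNat 0, .ofNat 399, .ofNat 29, .negSucc 198, .ofNat 0, .ofNat 128, .negSucc 5, .ofNat 0, .ofNat 0, .ofNat 974, .ofNat 3268, .ofNat 0, .ofNat 0, .ofNat 0, .ofNat 0, .ofNat 0, .ofNat 0, .ofNat 0, .ofNat 0, .ofNat 0, .ofNat 0, .ofNat 0, .ofNat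 0, .ofNat 0, .ofNat 0, .ofNat 0, .ofNat 0⟩)
    (by decide +kernel)
theorem L00010 : Good (Phi V5.P V5.D (-1) 1) ⟨2, 0, 3, 0, 1, 0, 4, 14, 3, 1⟩ :=
  leafX_sound T5.ok_mp T5.Ymp.bz_eq (w := 190) (c := ⟨⟨.negSucc 770, .negSucc 33, .ofNat 10, .negSucc 240, .ofNat 109, .negSucc 107⟩, ⟨.negSucc 22, .negSucc 29, .negSucc 106, .negSucc 34, .ofNat 19, .ofNat 5⟩, ⟨.ofNat 600, .negSucc 71, .negSucc 29, .ofNat 186, .negSucc 151, .ofNat 43⟩, ⟨.negSucc 2346, .ofNat 148, .ofNat 30, .negSucc 698, .ofNat 297, .negSucc 331⟩, ⟨.negSucc 199, .ofNat 18, .ofNat 12, .negSucc 39, .ofNat 98, .ofNat 127⟩, .ofNat 697, .negSucc 137, .ofNat 0, .negSucc 137, .ofNat 1592, .ofNat 0, .ofNat 420, .ofNat 32, .negSucc 228, .ofNat 0, .ofNat 128, .negSucc 9, .ofNat 0, .ofNat 0, .ofNat 984, .ofNat 2459, .ofNat 0, .ofNat 0, .ofNat 0, .ofNat 0, .ofNat 0, .ofNat 0, .ofNat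 0, .ofNat 0, .ofNat 0, .ofNat 282304037737320727245622510950023168, .ofNat 0, .ofNat 0, .ofNat 0, .ofNat 0, .ofNat 0, .ofNat 0⟩)
    (by decide +kernel)
theorem L00011 : Good (Phi V5.P V5.D (-1) 1) ⟨2, 0, 3, 0, 1, 0, 4, 15, 3, 1⟩ :=
  leafX_sound T5.ok_mp T5.Ymp.bz_eq (w := 189) (c := ⟨⟨.negSucc 588, .negSucc 19, .ofNat 10, .negSucc 296, .ofNat 261, .negSucc 191⟩, ⟨.negSucc 19, .negSucc 14, .negSucc 91, .negSucc 24, .ofNat 26, .ofNat 0⟩, ⟨.ofNat 393, .negSucc 64, .negSucc 27, .ofNat 295, .negSucc 348, .ofNat 29⟩, ⟨.negSucc 1796, .ofNat 121, .ofNat 48, .negSucc 864, .ofNat 739, .negSucc 566⟩, ⟨.negSucc 219, .ofNat 133, .negSucc 33, .ofNat 8, .negSucc 5, .ofNat 174⟩, .ofNat 696, .negSucc 129, .ofNat 0, .negSucc 129, .ofNat 1590, .ofNat 0, .ofNat 428, .ofNat 31, .negSucc 257, .ofNat 0, .ofNat 128, .negSucc 13, .ofNat 0, .ofNat 0, .ofNat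 915, .ofNat 1435, .ofNat 0, .ofNat 0, .ofNat 0, .ofNat 0, .ofNat 0, .ofNat 6235018159056975581912828659774783488, .ofNat 0, .ofNat 0, .ofNat 0, .ofNat 1246138140056951820620914287515271168, .ofNat 0, .ofNat 0, .ofNat 0, .ofNat 5344720982358108488028807796948467712, .ofNat 0, .ofNat 0⟩)
    (by decide +kernel)
theorem L00012 : Good (Phi V5.P V5.D (-1) 1) ⟨2, 0, 3, 1, 1, 0, 2, 0, 4, 0⟩ :=
  leafX_sound T5.ok_mp T5.Ymp.bz_eq (w := 187) (c := ⟨⟨.ofNat 588, .negSucc 41, .negSucc 36, .ofNat 162, .ofNat 125, .negSucc 1260⟩, ⟨.ofNat 97, .negSucc 1, .ofNat 33, .negSucc 58, .ofNat 73, .negSucc 283⟩, ⟨.negSucc 608, .ofNat 114, .ofNat 110, .ofNat 8, .negSucc 289, .ofNat 1120⟩, ⟨.ofNat 1715, .negSucc 122, .negSucc 48, .ofNat 650, .ofNat 261, .negSucc 3684⟩, ⟨.negSucc 5, .negSucc 66, .negSucc 22, .negSucc 786, .ofNat 241, .negSucc 85⟩, .ofNat 608,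 .negSucc 176, .ofNat 0, .negSucc 176, .ofNat 1113, .ofNat 0, .ofNat 222, .ofNat 53, .negSucc 220, .ofNat 0, .ofNat 128, .negSucc 27, .ofNat 0, .ofNat 0, .ofNat 742, .ofNat 3065, .ofNat 0, .ofNat 0, .ofNat 0, .ofNat 0, .ofNat 0, .ofNat 0, .ofNat 0, .ofNat 0, .ofNat 0, .ofNat 0, .ofNat 0, .ofNat 0, .ofNat 0, .ofNat 0, .ofNat 0, .ofNat 0⟩)
    (by decide +kernel)
theorem L00013 : Good (Phi V5.P V5.D (-1) 1) ⟨2, 0, 3, 1, 1, 0, 2, 1, 4, 0⟩ :=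
  leafX_sound T5.ok_mp T5.Ymp.bz_eq (w := 186) (c := ⟨⟨.ofNat 591, .negSucc 103, .negSucc 33, .ofNat 317, .negSucc 244, .negSucc 1192⟩, ⟨.ofNat 113, .negSucc 42, .ofNat 15, .ofNat 25, .negSucc 37, .negSucc 259⟩, ⟨.negSucc 626, .ofNat 165, .ofNat 39, .negSucc 375, .ofNat 175, .ofNat 1079⟩, ⟨.ofNat 1728, .negSucc 298, .negSucc 39, .ofNat 997, .negSucc 771, .negSucc 3470⟩, ⟨.negSucc 26, .negSucc 64, .ofNat 1, .negSucc 382, .ofNat 110, .negSucc 95⟩, .ofNat 609, .negSucc 184, .ofNat 0, .negSucc 184, .ofNat 1123, .ofNat 0, .ofNat 244, .ofNat 56, .negSucc 218, .ofNat 0, .ofNat 128, .negSucc 30, .ofNat 0, .ofNat 0, .ofNat 581, .ofNat 1832, .ofNat 0, .ofNat 0, .ofNat 0, .ofNat 0, .ofNat 0, .ofNat 0, .ofNat 0, .ofNat 0, .ofNat 0, .ofNat 0, .ofNat 0, .ofNat 0, .ofNat 0, .ofNat 0, .ofNat 0, .ofNat 0⟩)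
    (by decide +kernel)
theorem L00014 : Good (Phi V5.P V5.D (-1) 1) ⟨2, 0, 3, 1, 1, 0, 1, 0, 4, 1⟩ :=
  leafX_sound T5.ok_mp T5.Ymp.bz_eq (w := 182) (c := ⟨⟨.negSucc 592, .negSucc 157, .negSucc 62, .ofNat 116, .ofNat 33, .negSucc 596⟩, ⟨.negSucc 97, .negSucc 46, .negSucc 114, .negSucc 76, .ofNat 49, .negSucc 105⟩, ⟨.ofNat 754, .ofNat 179, .ofNat 51, .negSucc 682, .negSucc 166, .ofNat 593⟩, ⟨.negSucc 1866, .negSucc 152, .negSucc 111, .ofNat 478, .ofNat 26, .negSucc 1696⟩, ⟨.negSucc 172, .negSucc 111, .negSucc 22, .negSucc 788, .ofNat 280, .ofNat 121⟩, .ofNat 742, .negSucc 314, .ofNat 0, .negSucc 314, .ofNat 1671, .ofNat 0, .ofNat 375, .ofNat 67, .negSucc 158, .ofNat 0, .ofNat 128, .negSucc 20, .ofNat 0, .ofNat 0, .ofNat 653, .ofNat 2040, .ofNat 0, .ofNat 0, .ofNat 0, .ofNat 0, .ofNat 0, .ofNat 0, .ofNat 0, .ofNat 0, .ofNat 0, .ofNat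 0, .ofNat 0, .ofNat 0, .ofNat 0, .ofNat 0, .ofNat 0, .ofNat 0⟩)
    (by decide +kernel)
theorem L00015 : Good (Phi V5.P V5.D (-1) 1) ⟨2, 0, 3, 1, 1, 0, 2, 2, 3, 0⟩ :=
  leafX_sound T5.ok_mp T5.Ymp.bz_eq (w := 180) (c := ⟨⟨.ofNat 94, .negSucc 103, .negSucc 69, .ofNat 149, .negSucc 132, .negSucc 1159⟩, ⟨.ofNat 72, .negSucc 33, .negSucc 92, .negSucc 25, .negSucc 33, .negSucc 261⟩, ⟨.negSucc 72, .ofNat 63, .ofNat 65, .negSucc 379, .ofNat 135, .ofNat 1058⟩, ⟨.ofNat 92, .negSucc 50, .negSucc 185, .ofNat 532, .negSucc 394, .negSucc 3287⟩, ⟨.ofNat 256, .ofNat 16, .negSucc 1, .negSucc 336, .negSucc 226, .negSucc 317⟩, .ofNat 748, .negSucc 321, .ofNat 0, .negSucc 321, .ofNat 1654, .ofNat 0, .ofNat 450, .ofNat 69, .negSucc 175, .ofNat 0, .ofNat 128, .negSucc 26, .ofNat 0, .ofNat 0, .ofNat 534, .ofNat 648, .ofNat 0, .ofNat 0, .ofNat 0, .ofNat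 0, .ofNat 0, .ofNat 0, .ofNat 0, .ofNat 0, .ofNat 0, .ofNat 0, .ofNat 0, .ofNat 0, .ofNat 0, .ofNat 0, .ofNat 0, .ofNat 0⟩)
    (by decide +kernel)
theorem L00016 : Good (Phi V5.P V5.D (-1) 1) ⟨2, 0, 3, 1, 1, 0, 3, 6, 3, 0⟩ :=
  leafX_sound T5.ok_mp T5.Ymp.bz_eq (w := 185) (c := ⟨⟨.negSucc 355, .negSucc 54, .negSucc 43, .ofNat 21, .ofNat 69, .negSucc 576⟩, ⟨.negSucc 23, .negSucc 35, .negSucc 83, .negSucc 45, .ofNat 9, .negSucc 133⟩, ⟨.ofNat 367, .negSucc 28, .ofNat 53, .negSucc 185, .negSucc 70, .ofNat 438⟩, ⟨.negSucc 1166, .ofNat 20, .negSucc 78, .ofNat 144, .ofNat 207, .negSucc 1651⟩, ⟨.ofNat 13, .ofNat 83, .ofNat 21, .negSucc 343, .negSucc 54, .negSucc 158⟩, .ofNat 751, .negSucc 320, .ofNat 0, .negSucc 320, .ofNat 1638, .ofNat 0, .ofNat 465, .ofNat 69, .negSucc 177, .ofNat 0, .ofNat 128, .negSucc 28, .ofNat 0, .ofNat 0, .ofNat 495,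 .ofNat 1168, .ofNat 0, .ofNat 0, .ofNat 0, .ofNat 0, .ofNat 0, .ofNat 0, .ofNat 0, .ofNat 0, .ofNat 0, .ofNat 0, .ofNat 0, .ofNat 0, .ofNat 0, .ofNat 0, .ofNat 0, .ofNat 0⟩)
    (by decide +kernel)
theorem L00017 : Good (Phi V5.P V5.D (-1) 1) ⟨2, 0, 3, 1, 2, 0, 3, 7, 3, 0⟩ :=
  leafX_sound T5.ok_mp T5.Ymp.bz_eq (w := 200) (c := ⟨⟨.negSucc 534, .negSucc 52, .negSucc 35, .negSucc 52, .ofNat 463, .negSucc 258⟩, ⟨.negSucc 77, .negSucc 20, .negSucc 69, .negSucc 48, .ofNat 95, .negSucc 49⟩, ⟨.ofNat 498, .negSucc 4, .ofNat 45, .ofNat 25, .negSucc 521, .ofNat 98⟩, ⟨.negSucc 1619, .negSucc 14, .negSucc 78, .negSucc 103, .ofNat 1333, .negSucc 760⟩, ⟨.negSucc 9, .ofNat 10, .negSucc 21, .negSucc 280, .negSucc 21, .ofNat 40⟩, .ofNat 691, .negSucc 268, .ofNat 0, .negSucc 268, .ofNat 1432, .ofNat 0, .ofNat 304, .ofNat 63, .negSucc 249, .ofNat 0,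 .ofNat 128, .negSucc 46, .ofNat 0, .ofNat 0, .ofNat 646, .ofNat 2281, .ofNat 0, .ofNat 0, .ofNat 0, .ofNat 0, .ofNat 0, .ofNat 0, .ofNat 0, .ofNat 0, .ofNat 0, .ofNat 0, .ofNat 0, .ofNat 0, .ofNat 0, .ofNat 0, .ofNat 0, .ofNat 0⟩)
    (by decide +kernel)
theorem L00018 : Good (Phi V5.P V5.D (-1) 1) ⟨2, 0, 3, 1, 2, 1, 3, 7, 3, 0⟩ :=
  leafX_sound T5.ok_mp T5.Ymp.bz_eq (w := 199) (c := ⟨⟨.negSucc 422, .negSucc 120, .negSucc 16, .negSucc 74, .ofNat 314, .negSucc 343⟩, ⟨.negSucc 94, .negSucc 33, .negSucc 68, .negSucc 25, .ofNat 62, .negSucc 59⟩, ⟨.ofNat 404, .negSucc 36, .ofNat 18, .ofNat 50, .negSucc 288, .ofNat 111⟩, ⟨.negSucc 1236, .negSucc 183, .negSucc 11, .negSucc 192, .ofNat 869, .negSucc 1013⟩, ⟨.negSucc 309, .negSucc 33, .negSucc 6, .negSucc 96, .ofNat 11, .ofNat 70⟩, .ofNat 606, .negSucc 181, .ofNat 0, .negSucc 181, .ofNat 1128,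 .ofNat 0, .ofNat 301, .ofNat 62, .negSucc 208, .ofNat 0, .ofNat 128, .negSucc 21, .ofNat 0, .ofNat 0, .ofNat 497, .ofNat 1366, .ofNat 0, .ofNat 0, .ofNat 0, .ofNat 0, .ofNat 0, .ofNat 0, .ofNat 0, .ofNat 0, .ofNat 0, .ofNat 0, .ofNat 0, .ofNat 0, .ofNat 0, .ofNat 106531471472579857844745225020651864064, .ofNat 0, .ofNat 0⟩)
    (by decide +kernel)
theorem L00019 : Good (Phi V5.P V5.D (-1) 1) ⟨2, 0, 3, 1, 1, 0, 1, 0, 3, 1⟩ :=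
  leafX_sound T5.ok_mp T5.Ymp.bz_eq (w := 178) (c := ⟨⟨.negSucc 1161, .negSucc 176, .negSucc 44, .negSucc 87, .ofNat 138, .negSucc 100⟩, ⟨.negSucc 182, .negSucc 61, .negSucc 159, .negSucc 89, .ofNat 47, .negSucc 1⟩, ⟨.ofNat 1258, .ofNat 153, .ofNat 104, .negSucc 518, .negSucc 253, .ofNat 331⟩, ⟨.negSucc 3546, .negSucc 149, .negSucc 83, .negSucc 143, .ofNat 361, .negSucc 300⟩, ⟨.negSucc 230, .ofNat 16, .ofNat 37, .negSucc 581, .ofNat 161, .ofNat 142⟩, .ofNat 801, .negSucc 384, .ofNat 0, .negSucc 384, .ofNat 1913, .ofNat 0, .ofNat 265, .ofNat 68, .negSucc 101, .ofNat 0, .ofNat 128, .negSucc 9, .ofNat 0, .ofNat 0, .ofNat 692, .ofNat 2276, .ofNat 0, .ofNat 0, .ofNat 0, .ofNat 0, .ofNat 0, .ofNat 0, .ofNat 0, .ofNat 0, .ofNat 0, .ofNat 0, .ofNat 0, .ofNat 0, .ofNat 355359287175817510177809198512865280, .ofNat 0, .ofNat 0, .ofNat 0⟩)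
    (by decide +kernel)
theorem L00020 : Good (Phi V5.P V5.D (-1) 1) ⟨2, 0, 3, 1, 1, 0, 2, 2, 3, 1⟩ :=
  leafX_sound T5.ok_mp T5.Ymp.bz_eq (w := 182) (c := ⟨⟨.negSucc 1089, .negSucc 117, .negSucc 6, .negSucc 111, .ofNat 145, .negSucc 32⟩, ⟨.negSucc 150, .negSucc 49, .negSucc 139, .negSucc 80, .ofNat 35, .negSucc 3⟩, ⟨.ofNat 1123, .ofNat 56, .negSucc 13, .negSucc 200, .negSucc 240, .ofNat 48⟩, ⟨.negSucc 3310, .negSucc 52, .ofNat 5, .negSucc 236, .ofNat 395, .negSucc 103⟩, ⟨.negSucc 61, .ofNat 55, .negSucc 21, .negSucc 424, .ofNat 39, .ofNat 37⟩, .ofNat 839, .negSucc 448, .ofNat 0, .negSucc 448, .ofNat 2074, .ofNat 0, .ofNat 360, .ofNat 72, .negSucc 143, .ofNat 0, .ofNat 128, .negSucc 21, .ofNat 0, .ofNat 0, .ofNat 834, .ofNat 1979, .ofNat 0, .ofNat 0, .ofNat 0, .ofNat 0, .ofNat 0, .ofNat 0, .ofNat 0, .ofNat 0, .ofNat 0, .ofNat 0, .ofNat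 0, .ofNat 0, .ofNat 0, .ofNat 0, .ofNat 0, .ofNat 0⟩)
    (by decide +kernel)
theorem L00021 : Good (Phi V5.P V5.D (-1) 1) ⟨2, 0, 3, 1, 1, 0, 3, 6, 3, 1⟩ :=
  leafX_sound T5.ok_mp T5.Ymp.bz_eq (w := 186) (c := ⟨⟨.negSucc 910, .negSucc 79, .negSucc 8, .negSucc 176, .ofNat 108, .negSucc 62⟩, ⟨.negSucc 134, .negSucc 32, .negSucc 126, .negSucc 73, .ofNat 27, .ofNat 0⟩, ⟨.ofNat 834, .negSucc 1, .negSucc 10, .ofNat 23, .negSucc 174, .negSucc 9⟩, ⟨.negSucc 2770, .ofNat 29, .negSucc 4, .negSucc 463, .ofNat 309, .negSucc 206⟩, ⟨.negSucc 120, .ofNat 45, .negSucc 11, .negSucc 284, .ofNat 34, .ofNat 93⟩, .ofNat 609, .negSucc 179, .ofNat 0, .negSucc 179, .ofNat 1114, .ofNat 0, .ofNat 381, .ofNat 54, .negSucc 177, .ofNat 0, .ofNat 128, .negSucc 19, .ofNat 0, .ofNat 0, .ofNat 862, .ofNat 2679, .ofNat 0, .ofNat 0, .ofNat 0, .ofNat 0, .ofNat 0, .ofNat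 0, .ofNat 0, .ofNat 0, .ofNat 0, .ofNat 0, .ofNat 0, .ofNat 0, .ofNat 0, .ofNat 0, .ofNat 0, .ofNat 0⟩)
    (by decide +kernel)
theorem L00022 : Good (Phi V5.P V5.D (-1) 1) ⟨2, 0, 3, 1, 1, 0, 4, 14, 3, 1⟩ :=
  leafX_sound T5.ok_mp T5.Ymp.bz_eq (w := 189) (c := ⟨⟨.negSucc 767, .negSucc 51, .negSucc 9, .negSucc 237, .ofNat 125, .negSucc 75⟩, ⟨.negSucc 117, .negSucc 23, .negSucc 107, .negSucc 71, .ofNat 29, .ofNat 0⟩, ⟨.ofNat 635, .negSucc 48, .negSucc 16, .ofNat 115, .negSucc 177, .negSucc 33⟩, ⟨.negSucc 2321, .ofNat 53, .negSucc 17, .negSucc 641, .ofNat 362, .negSucc 267⟩, ⟨.negSucc 183, .ofNat 116, .ofNat 22, .negSucc 189, .ofNat 19, .ofNat 143⟩, .ofNat 751, .negSucc 320, .ofNat 0, .negSucc 320, .ofNat 1637, .ofNat 0, .ofNat 269, .ofNat 67, .negSucc 138, .ofNat 0, .ofNat 128, .negSucc 21, .ofNat 0, .ofNat 0, .ofNat 587, .ofNat 1507,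 .ofNat 0, .ofNat 0, .ofNat 0, .ofNat 0, .ofNat 0, .ofNat 1772847242091267017999301474019966976, .ofNat 0, .ofNat 0, .ofNat 0, .ofNat 0, .ofNat 0, .ofNat 0, .ofNat 0, .ofNat 1818879713128611362300291926580002816, .ofNat 0, .ofNat 0⟩)
    (by decide +kernel)
theorem L00023 : Good (Phi V5.P V5.D (-1) 1) ⟨2, 0, 3, 1, 1, 0, 4, 15, 3, 1⟩ :=
  leafX_sound T5.ok_mp T5.Ymp.bz_eq (w := 189) (c := ⟨⟨.negSucc 643, .ofNat 36, .ofNat 7, .negSucc 270, .ofNat 318, .negSucc 183⟩, ⟨.negSucc 98, .ofNat 0, .negSucc 87, .negSucc 70, .ofNat 76, .negSucc 24⟩, ⟨.ofNat 442, .negSucc 121, .negSucc 20, .ofNat 227, .negSucc 384, .ofNat 19⟩, ⟨.negSucc 1927, .ofNat 276, .ofNat 29, .negSucc 775, .ofNat 910, .negSucc 573⟩, ⟨.negSucc 139, .ofNat 63, .negSucc 21, .negSucc 114, .ofNat 25, .ofNat 167⟩, .ofNat 608, .negSucc 190, .ofNat 0, .negSucc 190, .ofNat 1136, .ofNat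 0, .ofNat 335, .ofNat 57, .negSucc 177, .ofNat 0, .ofNat 128, .negSucc 27, .ofNat 0, .ofNat 0, .ofNat 598, .ofNat 1312, .ofNat 0, .ofNat 0, .ofNat 0, .ofNat 0, .ofNat 0, .ofNat 3633123548619611663947383248233955328, .ofNat 0, .ofNat 0, .ofNat 0, .ofNat 1117575213480644270945365314907406336, .ofNat 0, .ofNat 0, .ofNat 0, .ofNat 3052242842896836703723254132766670848, .ofNat 0, .ofNat 0⟩)
    (by decide +kernel)
theorem L00024 : Good (Phi V5.P V5.D (-1) 1) ⟨2, 0, 2, 0, 1, 0, 2, 0, 3, 2⟩ :=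
  leafX_sound T5.ok_mp T5.Ymp.bz_eq (w := 182) (c := ⟨⟨.negSucc 1280, .negSucc 167, .negSucc 33, .negSucc 83, .ofNat 101, .ofNat 129⟩, ⟨.negSucc 94, .negSucc 51, .negSucc 322, .negSucc 71, .ofNat 87, .ofNat 4⟩, ⟨.ofNat 1514, .ofNat 164, .ofNat 54, .negSucc 491, .negSucc 52, .ofNat 65⟩, ⟨.negSucc 3906, .negSucc 122, .ofNat 0, .negSucc 140, .ofNat 224, .ofNat 345⟩, ⟨.negSucc 174, .negSucc 30, .ofNat 4, .negSucc 573, .ofNat 210, .ofNat 63⟩, .ofNat 191, .negSucc 7, .ofNat 0, .negSucc 7, .ofNat 226, .ofNat 0, .ofNat 209, .ofNat 6, .negSucc 141, .ofNat 0, .ofNat 128, .ofNat 43, .ofNat 0, .ofNat 0, .ofNat 630, .ofNat 22202, .ofNat 126411169975797407338786044023668736, .ofNat 0, .ofNat 0, .ofNat 0, .ofNat 1064203406889650436218861650121326592, .ofNat 0, .ofNat 0, .ofNat 0, .ofNat 451800173841770363391674239732940800, .ofNat 0, .ofNat 0, .ofNat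 0, .ofNat 827775410879936447549793109779939328, .ofNat 0, .ofNat 0, .ofNat 0⟩)
    (by decide +kernel)
theorem L00025 : Good (Phi V5.P V5.D (-1) 1) ⟨2, 0, 2, 0, 1, 0, 2, 1, 4, 4⟩ :=
  leafX_sound T5.ok_mp T5.Ymp.bz_eq (w := 186) (c := ⟨⟨.negSucc 1206, .negSucc 120, .negSucc 20, .negSucc 83, .ofNat 93, .ofNat 65⟩, ⟨.negSucc 23, .negSucc 52, .negSucc 296, .negSucc 65, .ofNat 22, .ofNat 11⟩, ⟨.ofNat 1385, .ofNat 86, .ofNat 21, .negSucc 275, .negSucc 214, .ofNat 26⟩, ⟨.negSucc 3696, .negSucc 44, .ofNat 2, .negSucc 169, .ofNat 268, .ofNat 177⟩, ⟨.negSucc 63, .negSucc 4, .ofNat 5, .negSucc 441, .ofNat 62, .ofNat 30⟩, .ofNat 403, .negSucc 51, .ofNat 0, .negSucc 51, .ofNat 592, .ofNat 0, .ofNat 172, .ofNat 24, .negSucc 70, .ofNat 0, .ofNat 128, .ofNat 5, .ofNat 0, .ofNat 0, .ofNat 615, .ofNat 8143, .ofNat 0, .ofNat 0, .ofNat 0, .ofNat 0, .ofNat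 0, .ofNat 0, .ofNat 0, .ofNat 0, .ofNat 0, .ofNat 0, .ofNat 0, .ofNat 0, .ofNat 0, .ofNat 0, .ofNat 0, .ofNat 0⟩)
    (by decide +kernel)
theorem L00026 : Good (Phi V5.P V5.D (-1) 1) ⟨2, 0, 2, 0, 2, 0, 2, 1, 4, 5⟩ :=
  leafX_sound T5.ok_mp T5.Ymp.bz_eq (w := 202) (c := ⟨⟨.negSucc 1166, .negSucc 106, .negSucc 4, .negSucc 28, .ofNat 92, .ofNat 66⟩, ⟨.negSucc 22, .negSucc 50, .negSucc 273, .negSucc 27, .ofNat 16, .ofNat 9⟩, ⟨.ofNat 1479, .ofNat 88, .negSucc 19, .negSucc 50, .negSucc 334, .negSucc 29⟩, ⟨.negSucc 3555, .negSucc 20, .ofNat 7, .negSucc 50, .ofNat 278, .ofNat 182⟩, ⟨.negSucc 14, .ofNat 4, .ofNat 0, .negSucc 189, .ofNat 12, .ofNat 10⟩, .ofNat 191, .negSucc 8, .ofNat 0, .negSucc 8, .ofNat 226, .ofNat 0, .ofNat 216, .ofNat 9, .negSucc 98, .ofNat 0, .ofNat 128, .ofNat 5, .ofNat 0, .ofNat 0, .ofNat 596, .ofNat 34622, .ofNat 3452719808125626610467301866279668809728,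 .ofNat 0, .ofNat 0, .ofNat 0, .ofNat 21804986601843756655868196642243666247680, .ofNat 0, .ofNat 0, .ofNat 0, .ofNat 8290474330976029038213517893532179759104, .ofNat 0, .ofNat 0, .ofNat 0, .ofNat 0, .ofNat 0, .ofNat 0, .ofNat 0⟩)
    (by decide +kernel)
theorem L00027 : Good (Phi V5.P V5.D (-1) 1) ⟨3, 0, 2, 0, 2, 1, 3, 2, 5, 10⟩ :=
  leafX_sound T5.ok_mp T5.Ymp.bz_eq (w := 217) (c := ⟨⟨.negSucc 1174, .negSucc 31, .negSucc 25, .negSucc 37, .ofNat 27, .ofNat 40⟩, ⟨.negSucc 40, .negSucc 36, .negSucc 293, .negSucc 35, .ofNat 11, .ofNat 9⟩, ⟨.ofNat 1311, .ofNat 14, .negSucc 9, .negSucc 187, .negSucc 68, .ofNat 42⟩, ⟨.negSucc 3572, .negSucc 8, .ofNat 15, .negSucc 73, .ofNat 91, .ofNat 115⟩, ⟨.negSucc 247, .negSucc 3, .negSucc 4, .negSucc 227, .ofNat 42, .ofNat 26⟩, .ofNat 406, .negSucc 42, .ofNat 0, .negSucc 42, .ofNat 578, .ofNat 0, .ofNat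 192, .ofNat 20, .negSucc 51, .ofNat 0, .ofNat 128, .ofNat 13, .ofNat 0, .ofNat 0, .ofNat 644, .ofNat 138615, .ofNat 13297537065301882751647138813994950453100544, .ofNat 0, .ofNat 0, .ofNat 0, .ofNat 0, .ofNat 0, .ofNat 0, .ofNat 0, .ofNat 0, .ofNat 0, .ofNat 0, .ofNat 0, .ofNat 99493142275888093350905754146582142428119040, .ofNat 0, .ofNat 0, .ofNat 0⟩)
    (by decide +kernel)
theorem L00028 : Good (Phi V5.P V5.D (-1) 1) ⟨3, 1, 2, 0, 2, 1, 3, 2, 5, 10⟩ :=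
  leafX_sound T5.ok_mp T5.Ymp.bz_eq (w := 217) (c := ⟨⟨.negSucc 1219, .negSucc 90, .negSucc 28, .negSucc 37, .ofNat 39, .ofNat 46⟩, ⟨.negSucc 80, .negSucc 9, .negSucc 299, .negSucc 33, .ofNat 13, .ofNat 11⟩, ⟨.ofNat 1363, .ofNat 82, .ofNat 8, .negSucc 200, .negSucc 109, .ofNat 44⟩, ⟨.negSucc 3601, .negSucc 27, .ofNat 10, .negSucc 70, .ofNat 108, .ofNat 129⟩, ⟨.negSucc 254, .ofNat 1, .negSucc 3, .negSucc 238, .ofNat 49, .ofNat 30⟩, .ofNat 398, .negSucc 51, .ofNat 0, .negSucc 51, .ofNat 604, .ofNat 0, .ofNat 178, .ofNat 25, .negSucc 41, .ofNat 0, .ofNat 128, .ofNat 8, .ofNat 0, .ofNat 0, .ofNat 508, .ofNat 123338, .ofNat 5417158036598028802214269813081958541950976, .ofNat 0, .ofNat 0, .ofNat 0, .ofNat 0, .ofNat 0, .ofNat 0, .ofNat 0, .ofNat 0, .ofNat 0, .ofNat 0, .ofNat 0, .ofNat 53898247480320819062323979274430301603889152, .ofNat 0,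 .ofNat 0, .ofNat 0⟩)
    (by decide +kernel)
theorem L00029 : Good (Phi V5.P V5.D (-1) 1) ⟨2, 0, 2, 0, 2, 1, 3, 2, 5, 11⟩ :=
  leafX_sound T5.ok_mp T5.Ymp.bz_eq (w := 215) (c := ⟨⟨.negSucc 1170, .negSucc 114, .negSucc 30, .negSucc 2, .ofNat 47, .ofNat 44⟩, ⟨.negSucc 42, .negSucc 44, .negSucc 287, .negSucc 32, .ofNat 9, .ofNat 13⟩, ⟨.ofNat 1461, .ofNat 90, .negSucc 8, .negSucc 217, .negSucc 164, .ofNat 61⟩, ⟨.negSucc 3549, .negSucc 11, .ofNat 17, .ofNat 8, .ofNat 106, .ofNat 123⟩, ⟨.negSucc 231, .negSucc 4, .negSucc 4, .negSucc 218, .ofNat 45, .ofNat 35⟩, .ofNat 191, .negSucc 8, .ofNat 0, .negSucc 8, .ofNat 226, .ofNat 0, .ofNat 269, .ofNat 6, .negSucc 81, .ofNat 0, .ofNat 128, .ofNat 30, .ofNat 0, .ofNat 0, .ofNat 589, .ofNat 534473, .ofNat 4587043556767728554144190329701947387412480, .ofNat 0, .ofNat 0, .ofNat 0, .ofNat 14555577441109273314704588238896686021214208,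 .ofNat 0, .ofNat 0, .ofNat 0, .ofNat 2635033362871020359605394948764385696284672, .ofNat 0, .ofNat 0, .ofNat 0, .ofNat 8013166770936627344829599321996338929860608, .ofNat 0, .ofNat 0, .ofNat 0⟩)
    (by decide +kernel)
theorem L00030 : Good (Phi V5.P V5.D (-1) 1) ⟨2, 0, 2, 0, 2, 1, 3, 3, 4, 5⟩ :=
  leafX_sound T5.ok_mp T5.Ymp.bz_eq (w := 206) (c := ⟨⟨.negSucc 1153, .negSucc 99, .negSucc 17, .negSucc 46, .ofNat 40, .ofNat 89⟩, ⟨.negSucc 49, .negSucc 46, .negSucc 280, .negSucc 29, .ofNat 13, .ofNat 18⟩, ⟨.ofNat 1229, .ofNat 49, .negSucc 50, .negSucc 77, .negSucc 117, .ofNat 41⟩, ⟨.negSucc 3506, .ofNat 8, .ofNat 25, .negSucc 86, .ofNat 109, .ofNat 239⟩, ⟨.negSucc 241, .ofNat 14, .negSucc 3, .negSucc 184, .ofNat 40, .ofNat 43⟩, .ofNat 401, .negSucc 52, .ofNat 0, .negSucc 52, .ofNat 597, .ofNat 0, .ofNat 290, .ofNat 25, .negSucc 71, .ofNat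 0, .ofNat 128, .ofNat 7, .ofNat 0, .ofNat 0, .ofNat 866, .ofNat 28075, .ofNat 7413065995191271902068064394864949723136, .ofNat 0, .ofNat 0, .ofNat 0, .ofNat 0, .ofNat 0, .ofNat 0, .ofNat 0, .ofNat 0, .ofNat 0, .ofNat 0, .ofNat 0, .ofNat 0, .ofNat 0, .ofNat 0, .ofNat 0⟩)
    (by decide +kernel)
theorem L00031 : Good (Phi V5.P V5.D (-1) 1) ⟨2, 0, 2, 0, 1, 0, 1, 0, 3, 3⟩ :=
  leafX_sound T5.ok_mp T5.Ymp.bz_eq (w := 179) (c := ⟨⟨.negSucc 1098, .negSucc 90, .negSucc 13, .negSucc 65, .ofNat 86, .ofNat 182⟩, ⟨.negSucc 86, .negSucc 32, .negSucc 270, .negSucc 36, .ofNat 69, .ofNat 30⟩, ⟨.ofNat 1512, .ofNat 22, .negSucc 78, .negSucc 59, .negSucc 336, .ofNat 110⟩, ⟨.negSucc 3447, .ofNat 45, .ofNat 21, .negSucc 107, .ofNat 292, .ofNat 470⟩, ⟨.negSucc 300, .ofNat 21, .negSucc 1, .negSucc 280, .ofNat 251, .ofNat 107⟩, .ofNat 191, .negSucc 8, .ofNat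 0, .negSucc 8, .ofNat 226, .ofNat 0, .ofNat 271, .ofNat 8, .negSucc 56, .ofNat 0, .ofNat 128, .ofNat 8, .ofNat 0, .ofNat 0, .ofNat 534, .ofNat 32785, .ofNat 41860830884249862021546080049561600, .ofNat 0, .ofNat 0, .ofNat 0, .ofNat 176365532598719781864849082765279232, .ofNat 0, .ofNat 0, .ofNat 0, .ofNat 139442436108964886836895770008879104, .ofNat 0, .ofNat 0, .ofNat 0, .ofNat 245435297533324545660135875398336512, .ofNat 0, .ofNat 0, .ofNat 0⟩)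
    (by decide +kernel)
theorem L00032 : Good (Phi V5.P V5.D (-1) 1) ⟨2, 0, 2, 0, 1, 0, 2, 2, 4, 4⟩ :=
  leafX_sound T5.ok_mp T5.Ymp.bz_eq (w := 185) (c := ⟨⟨.negSucc 1118, .negSucc 96, .negSucc 13, .negSucc 105, .ofNat 121, .ofNat 55⟩, ⟨.negSucc 23, .negSucc 44, .negSucc 272, .negSucc 55, .ofNat 23, .ofNat 11⟩, ⟨.ofNat 1168, .ofNat 29, .ofNat 0, .negSucc 105, .negSucc 294, .negSucc 24⟩, ⟨.negSucc 3406, .ofNat 8, .ofNat 2, .negSucc 256, .ofNat 335, .ofNat 152⟩, ⟨.negSucc 68, .ofNat 24, .negSucc 0, .negSucc 330, .ofNat 56, .ofNat 33⟩, .ofNat 402, .negSucc 53, .ofNat 0, .negSucc 53, .ofNat 594, .ofNat 0, .ofNat 215, .ofNat 26, .negSucc 86, .ofNat 0, .ofNat 128, .negSucc 1, .ofNat 0, .ofNat 0, .ofNat 630, .ofNat 3385, .ofNat 0, .ofNat 0, .ofNat 0, .ofNat 0, .ofNat 0, .ofNat 0, .ofNat 0, .ofNat 0, .ofNat 0, .ofNat 0, .ofNat 0, .ofNat 0,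 .ofNat 0, .ofNat 0, .ofNat 0, .ofNat 0⟩)
    (by decide +kernel)
theorem L00033 : Good (Phi V5.P V5.D (-1) 1) ⟨2, 0, 2, 0, 1, 0, 2, 2, 4, 5⟩ :=
  leafX_sound T5.ok_mp T5.Ymp.bz_eq (w := 185) (c := ⟨⟨.negSucc 1072, .negSucc 90, .negSucc 9, .negSucc 87, .ofNat 93, .ofNat 59⟩, ⟨.negSucc 22, .negSucc 44, .negSucc 259, .negSucc 50, .ofNat 21, .ofNat 16⟩, ⟨.ofNat 1177, .negSucc 7, .negSucc 84, .negSucc 22, .negSucc 305, .negSucc 14⟩, ⟨.negSucc 3272, .ofNat 27, .ofNat 10, .negSucc 201, .ofNat 245, .ofNat 161⟩, ⟨.negSucc 46, .ofNat 31, .negSucc 12, .negSucc 302, .ofNat 69, .ofNat 26⟩, .ofNat 594, .negSucc 127, .ofNat 0, .negSucc 127, .ofNat 1106, .ofNat 0, .ofNat 179, .ofNat 38, .negSucc 50, .ofNat 0, .ofNat 128, .negSucc 4, .ofNat 0, .ofNat 0, .ofNat 639, .ofNat 4183, .ofNat 0, .ofNat 0, .ofNat 0, .ofNat 0, .ofNat 0, .ofNat 0, .ofNat 0, .ofNat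 0, .ofNat 0, .ofNat 0, .ofNat 0, .ofNat 0, .ofNat 0, .ofNat 0, .ofNat 0, .ofNat 0⟩)
    (by decide +kernel)
theorem L00034 : Good (Phi V5.P V5.D (-1) 1) ⟨2, 0, 2, 0, 1, 0, 2, 2, 3, 3⟩ :=
  leafX_sound T5.ok_mp T5.Ymp.bz_eq (w := 180) (c := ⟨⟨.negSucc 1015, .negSucc 69, .ofNat 0, .negSucc 68, .ofNat 60, .ofNat 97⟩, ⟨.negSucc 23, .negSucc 39, .negSucc 253, .negSucc 34, .ofNat 25, .ofNat 23⟩, ⟨.ofNat 1033, .ofNat 62, .negSucc 82, .ofNat 117, .negSucc 303, .negSucc 51⟩, ⟨.negSucc 3079, .ofNat 39, .ofNat 20, .negSucc 159, .ofNat 171, .ofNat 221⟩, ⟨.negSucc 113, .ofNat 49, .negSucc 16, .negSucc 190, .ofNat 114, .ofNat 59⟩, .ofNat 725, .negSucc 256, .ofNat 0, .negSucc 256, .ofNat 1628, .ofNat 0, .ofNat 184, .ofNat 53, .negSucc 66, .ofNat 0, .ofNat 128, .negSucc 15, .ofNat 0, .ofNat 0, .ofNat 1326, .ofNat 2633, .ofNat 0, .ofNat 0, .ofNat 0,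 .ofNat 0, .ofNat 0, .ofNat 13992559289830891817909886233083904, .ofNat 0, .ofNat 0, .ofNat 0, .ofNat 0, .ofNat 0, .ofNat 0, .ofNat 0, .ofNat 0, .ofNat 0, .ofNat 0⟩)
    (by decide +kernel)
theorem L00035 : Good (Phi V5.P V5.D (-1) 1) ⟨2, 0, 2, 0, 1, 0, 3, 6, 4, 4⟩ :=
  leafX_sound T5.ok_mp T5.Ymp.bz_eq (w := 188) (c := ⟨⟨.negSucc 991, .negSucc 56, .ofNat 3, .negSucc 148, .ofNat 84, .ofNat 29⟩, ⟨.negSucc 15, .negSucc 36, .negSucc 251, .negSucc 44, .ofNat 21, .ofNat 9⟩, ⟨.ofNat 850, .negSucc 1, .negSucc 55, .ofNat 106, .negSucc 206, .negSucc 58⟩, ⟨.negSucc 3002, .ofNat 104, .ofNat 17, .negSucc 409, .ofNat 216, .ofNat 67⟩, ⟨.negSucc 76, .ofNat 24, .negSucc 20, .negSucc 142, .ofNat 82, .ofNat 56⟩, .ofNat 596, .negSucc 130, .ofNat 0, .negSucc 130, .ofNat 1096, .ofNat 0, .ofNat 246, .ofNat 39, .negSucc 69, .ofNat 0, .ofNat 128, .negSucc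 6, .ofNat 0, .ofNat 0, .ofNat 507, .ofNat 1775, .ofNat 0, .ofNat 0, .ofNat 0, .ofNat 0, .ofNat 0, .ofNat 0, .ofNat 0, .ofNat 0, .ofNat 0, .ofNat 0, .ofNat 0, .ofNat 0, .ofNat 0, .ofNat 297614419573292645712032360254406656, .ofNat 0, .ofNat 0⟩)
    (by decide +kernel)
theorem L00036 : Good (Phi V5.P V5.D (-1) 1) ⟨2, 0, 2, 0, 1, 0, 3, 6, 4, 5⟩ :=
  leafX_sound T5.ok_mp T5.Ymp.bz_eq (w := 188) (c := ⟨⟨.negSucc 958, .negSucc 60, .ofNat 1, .negSucc 125, .ofNat 61, .ofNat 28⟩, ⟨.negSucc 18, .negSucc 36, .negSucc 241, .negSucc 24, .ofNat 17, .ofNat 9⟩, ⟨.ofNat 766, .ofNat 12, .negSucc 68, .ofNat 185, .negSucc 220, .negSucc 59⟩, ⟨.negSucc 2899, .ofNat 70, .ofNat 14, .negSucc 370, .ofNat 157, .ofNat 79⟩, ⟨.negSucc 117, .ofNat 49, .ofNat 5, .negSucc 33, .ofNat 75, .ofNat 33⟩, .ofNat 780, .negSucc 281, .ofNat 0, .negSucc 281, .ofNat 1946, .ofNat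 0, .ofNat 389, .ofNat 48, .negSucc 96, .ofNat 0, .ofNat 128, .negSucc 15, .ofNat 0, .ofNat 0, .ofNat 1005, .ofNat 2156, .ofNat 0, .ofNat 0, .ofNat 0, .ofNat 0, .ofNat 0, .ofNat 0, .ofNat 0, .ofNat 0, .ofNat 0, .ofNat 181668548948391291329986425606111232, .ofNat 0, .ofNat 0, .ofNat 0, .ofNat 0, .ofNat 0, .ofNat 0⟩)
    (by decide +kernel)
theorem L00037 : Good (Phi V5.P V5.D (-1) 1) ⟨2, 0, 2, 0, 2, 0, 3, 7, 3, 2⟩ :=
  leafX_sound T5.ok_mp T5.Ymp.bz_eq (w := 197) (c := ⟨⟨.negSucc 845, .negSucc 0, .negSucc 15, .negSucc 45, .ofNat 167, .negSucc 85⟩, ⟨.negSucc 16, .negSucc 29, .negSucc 217, .negSucc 5, .ofNat 42, .negSucc 0⟩, ⟨.ofNat 548, .negSucc 28, .negSucc 30, .ofNat 52, .negSucc 353, .negSucc 26⟩, ⟨.negSucc 2558, .ofNat 201, .negSucc 35, .negSucc 139, .ofNat 475, .negSucc 270⟩, ⟨.negSucc 139, .ofNat 69, .negSucc 22, .ofNat 25, .ofNat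 97, .ofNat 112⟩, .ofNat 593, .negSucc 128, .ofNat 0, .negSucc 128, .ofNat 1107, .ofNat 0, .ofNat 341, .ofNat 38, .negSucc 73, .ofNat 0, .ofNat 128, .negSucc 11, .ofNat 0, .ofNat 0, .ofNat 446, .ofNat 2494, .ofNat 0, .ofNat 0, .ofNat 0, .ofNat 0, .ofNat 0, .ofNat 0, .ofNat 0, .ofNat 0, .ofNat 0, .ofNat 195954398860692584048677586507501928448, .ofNat 0, .ofNat 0, .ofNat 0, .ofNat 0, .ofNat 0, .ofNat 0⟩)
    (by decide +kernel)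
theorem L00038 : Good (Phi V5.P V5.D (-1) 1) ⟨2, 0, 2, 0, 2, 1, 3, 7, 3, 2⟩ :=
  leafX_sound T5.ok_mp T5.Ymp.bz_eq (w := 196) (c := ⟨⟨.negSucc 968, .ofNat 33, .ofNat 23, .negSucc 172, .ofNat 103, .negSucc 14⟩, ⟨.negSucc 36, .negSucc 18, .negSucc 237, .negSucc 2, .ofNat 45, .ofNat 21⟩, ⟨.ofNat 712, .negSucc 123, .negSucc 122, .ofNat 203, .negSucc 262, .negSucc 66⟩, ⟨.negSucc 2927, .ofNat 329, .ofNat 58, .negSucc 510, .ofNat 286, .negSucc 56⟩, ⟨.negSucc 207, .ofNat 123, .ofNat 2, .ofNat 109, .ofNat 242, .ofNat 154⟩, .ofNat 401, .negSucc 41, .ofNat 0, .negSucc 41, .ofNat 591, .ofNat 0, .ofNat 184, .ofNat 21, .negSucc 47, .ofNat 0, .ofNat 128, .negSucc 5, .ofNat 0, .ofNat 0, .ofNat 284, .ofNat 893, .ofNat 0, .ofNat 0, .ofNat 0, .ofNat 0, .ofNat 0, .ofNat 154477341678982382762806123297750646784, .ofNat 0, .ofNat 0, .ofNat 0, .ofNat 148553763919241445357215092114326552576,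 .ofNat 0, .ofNat 0, .ofNat 0, .ofNat 85491528241477713594443155203036282880, .ofNat 0, .ofNat 0⟩)
    (by decide +kernel)
theorem L00039 : Good (Phi V5.P V5.D (-1) 1) ⟨2, 0, 2, 0, 1, 0, 2, 3, 3, 3⟩ :=
  leafX_sound T5.ok_mp T5.Ymp.bz_eq (w := 179) (c := ⟨⟨.negSucc 947, .negSucc 33, .ofNat 0, .negSucc 74, .ofNat 100, .negSucc 7⟩, ⟨.negSucc 15, .negSucc 42, .negSucc 231, .negSucc 8, .ofNat 29, .ofNat 6⟩, ⟨.ofNat 719, .ofNat 4, .negSucc 61, .ofNat 149, .negSucc 484, .negSucc 52⟩, ⟨.negSucc 2868, .ofNat 135, .negSucc 0, .negSucc 215, .ofNat 258, .negSucc 16⟩, ⟨.negSucc 62, .ofNat 8, .ofNat 8, .ofNat 11, .ofNat 118, .ofNat 16⟩, .ofNat 668, .negSucc 176, .ofNat 0, .negSucc 176, .ofNat 1368, .ofNat 0, .ofNat 344, .ofNat 42, .negSucc 59, .ofNat 0, .ofNat 128, .negSucc 17, .ofNat 0, .ofNat 0, .ofNat 791, .ofNat 1265, .ofNat 0, .ofNat 0, .ofNat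 0, .ofNat 0, .ofNat 0, .ofNat 52498079017738280144318362986479616, .ofNat 0, .ofNat 0, .ofNat 0, .ofNat 16074810682621735365566836710047744, .ofNat 0, .ofNat 0, .ofNat 30556486036292842384836145388191744, .ofNat 39504230167899314161707749602230272, .ofNat 0, .ofNat 0⟩)
    (by decide +kernel)
theorem L00040 : Good (Phi V5.P V5.D (-1) 1) ⟨2, 0, 2, 0, 1, 0, 0, 0, 1, 1⟩ :=
  leafX_sound T5.ok_mp T5.Ymp.bz_eq (w := 171) (c := ⟨⟨.negSucc 948, .negSucc 99, .ofNat 0, .ofNat 0, .ofNat 0, .ofNat 0⟩, ⟨.negSucc 2, .negSucc 49, .negSucc 241, .ofNat 0, .ofNat 0, .ofNat 0⟩, ⟨.ofNat 251, .ofNat 100, .ofNat 0, .ofNat 0, .ofNat 0, .ofNat 0⟩, ⟨.negSucc 2877, .negSucc 44, .ofNat 0, .ofNat 1, .negSucc 0, .ofNat 1⟩, ⟨.ofNat 0, .ofNat 0, .ofNat 0, .ofNat 0, .ofNat 0, .ofNat 0⟩, .ofNat 191, .negSucc 7, .ofNat 0, .negSucc 7, .ofNat 226, .ofNat 0, .ofNat 144,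 .ofNat 8, .negSucc 104, .ofNat 0, .ofNat 128, .negSucc 4, .ofNat 0, .ofNat 0, .ofNat 304, .ofNat 10766, .ofNat 4569620594507929965329960140800000000, .ofNat 456961740982859872541425206644703232, .ofNat 0, .ofNat 0, .ofNat 292455718048198032771296103942475218944, .ofNat 28609808195516536472105462097397153792, .ofNat 0, .ofNat 0, .ofNat 292455718048507517781117449011200000000, .ofNat 28609838972717565670497839036336439296, .ofNat 0, .ofNat 0, .ofNat 292455718048507517781117449011200000000, .ofNat 28609817893654861112457540057908117504, .ofNat 0, .ofNat 0⟩)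
    (by decide +kernel)
theorem L00041 : Good (Phi V5.P V5.D (-1) 1) ⟨2, 0, 2, 0, 3, 4, 3, 0, 4, 0⟩ :=
  leafX_sound T5.ok_mp T5.Ymp.bz_eq (w := 216) (c := ⟨⟨.ofNat 958, .negSucc 73, .negSucc 196, .ofNat 162, .ofNat 121, .negSucc 1354⟩, ⟨.negSucc 0, .negSucc 37, .ofNat 78, .ofNat 13, .ofNat 42, .negSucc 249⟩, ⟨.negSucc 577, .ofNat 222, .ofNat 214, .negSucc 52, .negSucc 186, .ofNat 348⟩, ⟨.ofNat 2786, .negSucc 218, .negSucc 322, .ofNat 493, .ofNat 355, .negSucc 3937⟩, ⟨.negSucc 597, .negSucc 542, .negSucc 73, .ofNat 84, .ofNat 432, .negSucc 557⟩, .ofNat 403, .negSucc 47, .ofNat 0, .negSucc 47, .ofNat 588, .ofNat 0, .ofNat 246, .ofNat 15, .negSucc 67, .ofNat 0, .ofNat 128, .ofNat 9, .ofNat 0, .ofNat 0, .ofNat 323, .ofNat 7124, .ofNat 0, .ofNat 0, .ofNat 0, .ofNat 0, .ofNat 0, .ofNat 0, .ofNat 0, .ofNat 0, .ofNat 28070346477241285073611486277541286750715904,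 .ofNat 0, .ofNat 0, .ofNat 0, .ofNat 0, .ofNat 0, .ofNat 0, .ofNat 0⟩)
    (by decide +kernel)
theorem L00042 : Good (Phi V5.P V5.D (-1) 1) ⟨2, 0, 2, 0, 3, 5, 3, 0, 4, 0⟩ :=
  leafX_sound T5.ok_mp T5.Ymp.bz_eq (w := 216) (c := ⟨⟨.ofNat 1115, .negSucc 28, .negSucc 254, .ofNat 116, .ofNat 180, .negSucc 1410⟩, ⟨.ofNat 58, .negSucc 67, .ofNat 57, .ofNat 63, .ofNat 72, .negSucc 300⟩, ⟨.negSucc 601, .ofNat 311, .ofNat 231, .negSucc 132, .negSucc 263, .ofNat 223⟩, ⟨.ofNat 3283, .negSucc 99, .negSucc 507, .ofNat 268, .ofNat 454, .negSucc 4033⟩, ⟨.negSucc 221, .negSucc 777, .negSucc 293, .ofNat 432, .ofNat 407, .negSucc 863⟩, .ofNat 403, .negSucc 46, .ofNat 0, .negSucc 46, .ofNat 590, .ofNat 0, .ofNat 165, .negSucc 0, .negSucc 60, .ofNat 0, .ofNat 128, .ofNat 2, .ofNat 0, .ofNat 0, .ofNat 268, .ofNat 6102, .ofNat 0, .ofNat 0, .ofNat 0, .ofNat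 0, .ofNat 0, .ofNat 0, .ofNat 0, .ofNat 0, .ofNat 0, .ofNat 0, .ofNat 0, .ofNat 0, .ofNat 53228206965439538266557983048844104379138048, .ofNat 0, .ofNat 0, .ofNat 0⟩)
    (by decide +kernel)
theorem L00043 : Good (Phi V5.P V5.D (-1) 1) ⟨2, 0, 2, 0, 2, 2, 3, 1, 4, 0⟩ :=
  leafX_sound T5.ok_mp T5.Ymp.bz_eq (w := 201) (c := ⟨⟨.ofNat 1045, .negSucc 26, .negSucc 193, .ofNat 353, .ofNat 92, .negSucc 1399⟩, ⟨.ofNat 53, .negSucc 103, .ofNat 129, .ofNat 156, .ofNat 41, .negSucc 320⟩, ⟨.negSucc 766, .ofNat 222, .ofNat 169, .negSucc 246, .negSucc 104, .ofNat 457⟩, ⟨.ofNat 3099, .negSucc 48, .negSucc 454, .ofNat 925, .ofNat 185, .negSucc 3994⟩, ⟨.negSucc 105, .negSucc 545, .negSucc 123, .ofNat 711, .ofNat 271, .negSucc 979⟩, .ofNat 401, .negSucc 44, .ofNat 0, .negSucc 44, .ofNat 593, .ofNat 0, .ofNat 149, .ofNat 19, .negSucc 75, .ofNat 0, .ofNat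 128, .ofNat 7, .ofNat 0, .ofNat 0, .ofNat 231, .ofNat 2080, .ofNat 0, .ofNat 0, .ofNat 0, .ofNat 0, .ofNat 0, .ofNat 0, .ofNat 0, .ofNat 0, .ofNat 0, .ofNat 0, .ofNat 0, .ofNat 0, .ofNat 0, .ofNat 0, .ofNat 0, .ofNat 0⟩)
    (by decide +kernel)
theorem L00044 : Good (Phi V5.P V5.D (-1) 1) ⟨2, 0, 2, 0, 3, 6, 2, 0, 4, 0⟩ :=
  leafX_sound T5.ok_mp T5.Ymp.bz_eq (w := 211) (c := ⟨⟨.ofNat 1188, .negSucc 35, .negSucc 291, .negSucc 132, .ofNat 330, .negSucc 1329⟩, ⟨.ofNat 227, .negSucc 142, .negSucc 3, .ofNat 113, .ofNat 129, .negSucc 393⟩, ⟨.negSucc 834, .ofNat 351, .ofNat 201, .ofNat 101, .negSucc 375, .ofNat 409⟩, ⟨.ofNat 3407, .ofNat 5, .negSucc 747, .negSucc 597, .ofNat 915, .negSucc 3705⟩, ⟨.ofNat 592, .negSucc 967, .negSucc 453, .ofNat 1063, .ofNat 657, .negSucc 1301⟩, .ofNat 403, .negSucc 53, .ofNat 0, .negSucc 53, .ofNat 591, .ofNat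 0, .ofNat 166, .ofNat 1, .negSucc 103, .ofNat 0, .ofNat 128, .negSucc 0, .ofNat 0, .ofNat 0, .ofNat 263, .ofNat 1348, .ofNat 0, .ofNat 0, .ofNat 0, .ofNat 0, .ofNat 0, .ofNat 0, .ofNat 0, .ofNat 0, .ofNat 0, .ofNat 0, .ofNat 0, .ofNat 0, .ofNat 0, .ofNat 0, .ofNat 0, .ofNat 0⟩)
    (by decide +kernel)
theorem L00045 : Good (Phi V5.P V5.D (-1) 1) ⟨2, 0, 2, 0, 3, 7, 2, 0, 4, 0⟩ :=
  leafX_sound T5.ok_mp T5.Ymp.bz_eq (w := 211) (c := ⟨⟨.ofNat 773, .negSucc 93, .negSucc 209, .negSucc 509, .ofNat 453, .negSucc 1018⟩, ⟨.ofNat 412, .negSucc 164, .negSucc 97, .ofNat 112, .ofNat 99, .negSucc 377⟩, ⟨.negSucc 335, .ofNat 200, .ofNat 67, .ofNat 568, .negSucc 482, .ofNat 184⟩, ⟨.ofNat 2085, .negSucc 176, .negSucc 760, .negSucc 1729, .ofNat 1262, .negSucc 2656⟩, ⟨.ofNat 1980, .negSucc 737, .negSucc 635, .ofNat 1438, .ofNat 339, .negSucc 1615⟩, .ofNat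 593, .negSucc 131, .ofNat 0, .negSucc 131, .ofNat 1110, .ofNat 0, .ofNat 138, .ofNat 34, .negSucc 70, .ofNat 0, .ofNat 128, .negSucc 6, .ofNat 0, .ofNat 0, .ofNat 203, .ofNat 1156, .ofNat 0, .ofNat 0, .ofNat 0, .ofNat 0, .ofNat 0, .ofNat 0, .ofNat 0, .ofNat 0, .ofNat 0, .ofNat 0, .ofNat 0, .ofNat 0, .ofNat 696891468563116026591322643919485527916544, .ofNat 0, .ofNat 0, .ofNat 0⟩)
    (by decide +kernel)
theorem L00046 : Good (Phi V5.P V5.D (-1) 1) ⟨2, 0, 2, 0, 2, 2, 2, 0, 4, 1⟩ :=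
  leafX_sound T5.ok_mp T5.Ymp.bz_eq (w := 197) (c := ⟨⟨.negSucc 287, .negSucc 268, .negSucc 132, .ofNat 95, .ofNat 175, .negSucc 829⟩, ⟨.negSucc 84, .negSucc 98, .negSucc 203, .ofNat 10, .ofNat 83, .negSucc 114⟩, ⟨.negSucc 258, .ofNat 380, .ofNat 257, .negSucc 358, .negSucc 98, .ofNat 499⟩, ⟨.negSucc 931, .negSucc 495, .negSucc 104, .ofNat 331, .ofNat 429, .negSucc 2421⟩, ⟨.negSucc 866, .negSucc 462, .negSucc 89, .negSucc 11, .ofNat 478, .negSucc 176⟩, .ofNat 590, .negSucc 115, .ofNat 0, .negSucc 115, .ofNat 1105, .ofNat 0, .ofNat 288, .ofNat 29, .negSucc 63, .ofNat 0, .ofNat 128, .ofNat 9, .ofNat 0, .ofNat 0, .ofNat 340, .ofNat 2697, .ofNat 880338482898886483696507897321833365504, .ofNat 0, .ofNat 0, .ofNat 0, .ofNat 0, .ofNat 0, .ofNat 0, .ofNat 0, .ofNat 0, .ofNat 0, .ofNat 0, .ofNat 0, .ofNat 2812483564280458200381425397299970834432,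 .ofNat 0, .ofNat 0, .ofNat 0⟩)
    (by decide +kernel)
theorem L00047 : Good (Phi V5.P V5.D (-1) 1) ⟨2, 0, 2, 0, 2, 3, 3, 0, 4, 1⟩ :=
  leafX_sound T5.ok_mp T5.Ymp.bz_eq (w := 202) (c := ⟨⟨.negSucc 217, .negSucc 234, .negSucc 138, .negSucc 151, .ofNat 98, .negSucc 753⟩, ⟨.negSucc 5, .negSucc 115, .negSucc 256, .ofNat 215, .ofNat 12, .negSucc 157⟩, ⟨.negSucc 550, .ofNat 438, .ofNat 267, .ofNat 374, .negSucc 154, .ofNat 464⟩, ⟨.negSucc 725, .negSucc 413, .negSucc 221, .negSucc 616, .ofNat 286, .negSucc 2133⟩, ⟨.negSucc 451, .negSucc 596, .negSucc 363, .ofNat 1518, .ofNat 56, .negSucc 363⟩, .ofNat 591, .negSucc 112, .ofNat 0, .negSucc 112, .ofNat 1095, .ofNat 0, .ofNat 271, .negSucc 4, .negSucc 112, .ofNat 0, .ofNat 128, .negSucc 1, .ofNat 0, .ofNat 0, .ofNat 460, .ofNat 4254, .ofNat 11486260437338475841079375746329265307648, .ofNat 0,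 .ofNat 0, .ofNat 0, .ofNat 0, .ofNat 0, .ofNat 0, .ofNat 0, .ofNat 0, .ofNat 0, .ofNat 0, .ofNat 0, .ofNat 0, .ofNat 0, .ofNat 0, .ofNat 0⟩)
    (by decide +kernel)
theorem L00048 : Good (Phi V5.P V5.D (-1) 1) ⟨2, 0, 2, 0, 2, 3, 3, 1, 4, 1⟩ :=
  leafX_sound T5.ok_mp T5.Ymp.bz_eq (w := 201) (c := ⟨⟨.negSucc 115, .negSucc 207, .negSucc 127, .negSucc 135, .ofNat 63, .negSucc 802⟩, ⟨.ofNat 81, .negSucc 121, .negSucc 255, .ofNat 139, .ofNat 4, .negSucc 208⟩, ⟨.negSucc 522, .ofNat 298, .ofNat 119, .ofNat 242, .negSucc 57, .ofNat 459⟩, ⟨.negSucc 388, .negSucc 341, .negSucc 274, .negSucc 592, .ofNat 192, .negSucc 2281⟩, ⟨.negSucc 299, .negSucc 566, .negSucc 372, .ofNat 1368, .ofNat 108, .negSucc 434⟩, .ofNat 596, .negSucc 134, .ofNat 0, .negSucc 134, .ofNat 1104, .ofNat 0, .ofNat 365, .ofNat 21, .negSucc 80, .ofNat 0, .ofNat 128, .ofNat 1,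 .ofNat 0, .ofNat 0, .ofNat 265, .ofNat 1790, .ofNat 0, .ofNat 0, .ofNat 0, .ofNat 0, .ofNat 0, .ofNat 0, .ofNat 0, .ofNat 0, .ofNat 0, .ofNat 0, .ofNat 0, .ofNat 0, .ofNat 0, .ofNat 0, .ofNat 0, .ofNat 0⟩)
    (by decide +kernel)
theorem L00049 : Good (Phi V5.P V5.D (-1) 1) ⟨2, 0, 2, 0, 2, 2, 2, 0, 4, 2⟩ :=
  leafX_sound T5.ok_mp T5.Ymp.bz_eq (w := 198) (c := ⟨⟨.negSucc 1103, .negSucc 241, .negSucc 70, .ofNat 31, .ofNat 84, .negSucc 217⟩, ⟨.negSucc 108, .negSucc 76, .negSucc 322, .negSucc 30, .ofNat 45, .negSucc 35⟩, ⟨.ofNat 155, .ofNat 427, .ofNat 221, .negSucc 236, .negSucc 35, .ofNat 367⟩, ⟨.negSucc 3350, .negSucc 285, .ofNat 52, .ofNat 135, .ofNat 169, .negSucc 680⟩, ⟨.negSucc 914, .negSucc 177, .negSucc 40, .negSucc 249, .ofNat 287, .ofNat 65⟩, .ofNat 598, .negSucc 151, .ofNat 0, .negSucc 151, .ofNat 1117, .ofNat 0, .ofNat 362,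 .ofNat 40, .negSucc 68, .ofNat 0, .ofNat 128, .ofNat 12, .ofNat 0, .ofNat 0, .ofNat 465, .ofNat 5224, .ofNat 674647765635422212740947795110621347840, .ofNat 0, .ofNat 0, .ofNat 0, .ofNat 0, .ofNat 0, .ofNat 0, .ofNat 0, .ofNat 0, .ofNat 0, .ofNat 0, .ofNat 0, .ofNat 1966761858146344298702634343737405210624, .ofNat 0, .ofNat 0, .ofNat 0⟩)
    (by decide +kernel)
theorem L00050 : Good (Phi V5.P V5.D (-1) 1) ⟨2, 0, 2, 0, 2, 2, 2, 0, 4, 3⟩ :=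
  leafX_sound T5.ok_mp T5.Ymp.bz_eq (w := 199) (c := ⟨⟨.negSucc 1309, .negSucc 205, .negSucc 48, .ofNat 7, .ofNat 29, .ofNat 23⟩, ⟨.negSucc 114, .negSucc 66, .negSucc 342, .negSucc 34, .ofNat 22, .ofNat 15⟩, ⟨.ofNat 628, .ofNat 250, .ofNat 132, .negSucc 248, .ofNat 0, .ofNat 219⟩, ⟨.negSucc 3976, .negSucc 204, .ofNat 51, .ofNat 75, .ofNat 65, .ofNat 47⟩, ⟨.negSucc 735, .negSucc 126, .negSucc 35, .negSucc 290, .ofNat 143, .ofNat 80⟩, .ofNat 592, .negSucc 131, .ofNat 0, .negSucc 131, .ofNat 1116, .ofNat 0, .ofNat 188, .ofNat 34, .negSucc 56, .ofNat 0, .ofNat 128, .ofNat 13, .ofNat 0, .ofNat 0, .ofNat 494, .ofNat 7222, .ofNat 434160379210233828551188649721437618176, .ofNat 0, .ofNat 0, .ofNat 0, .ofNat 0, .ofNat 0, .ofNat 0, .ofNat 0, .ofNat 0, .ofNat 0, .ofNat 0, .ofNat 0, .ofNat 16077263404935100680132423212733344776192, .ofNat 0, .ofNat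 0, .ofNat 0⟩)
    (by decide +kernel)
theorem L00051 : Good (Phi V5.P V5.D (-1) 1) ⟨2, 0, 2, 0, 2, 3, 4, 0, 3, 1⟩ :=
  leafX_sound T5.ok_mp T5.Ymp.bz_eq (w := 201) (c := ⟨⟨.negSucc 1119, .negSucc 196, .negSucc 53, .ofNat 104, .negSucc 50, .negSucc 95⟩, ⟨.negSucc 88, .negSucc 97, .negSucc 345, .ofNat 87, .negSucc 2, .negSucc 69⟩, ⟨.ofNat 202, .ofNat 380, .ofNat 116, .negSucc 53, .negSucc 3, .ofNat 367⟩, ⟨.negSucc 3381, .negSucc 172, .ofNat 91, .ofNat 201, .negSucc 190, .negSucc 237⟩, ⟨.negSucc 646, .negSucc 403, .negSucc 290, .ofNat 578, .ofNat 47, .negSucc 427⟩, .ofNat 595, .negSucc 137, .ofNat 0, .negSucc 137, .ofNat 1111, .ofNat 0, .ofNat 169, .ofNat 9, .negSucc 42, .ofNat 0, .ofNat 128, .ofNat 3, .ofNat 0, .ofNat 0, .ofNat 300, .ofNat 7747, .ofNat 15450089188458988083186161722903773577216, .ofNat 0, .ofNat 0, .ofNat 0, .ofNat 0,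 .ofNat 0, .ofNat 0, .ofNat 0, .ofNat 0, .ofNat 0, .ofNat 0, .ofNat 0, .ofNat 21477071810274732253658634427836678537216, .ofNat 0, .ofNat 0, .ofNat 0⟩)
    (by decide +kernel)
theorem L00052 : Good (Phi V5.P V5.D (-1) 1) ⟨2, 0, 2, 0, 2, 3, 4, 1, 3, 1⟩ :=
  leafX_sound T5.ok_mp T5.Ymp.bz_eq (w := 200) (c := ⟨⟨.negSucc 1171, .negSucc 192, .negSucc 57, .ofNat 133, .negSucc 21, .negSucc 87⟩, ⟨.negSucc 94, .negSucc 87, .negSucc 347, .ofNat 61, .ofNat 5, .negSucc 41⟩, ⟨.ofNat 214, .ofNat 342, .ofNat 112, .negSucc 72, .negSucc 55, .ofNat 418⟩, ⟨.negSucc 3585, .negSucc 146, .ofNat 82, .ofNat 324, .negSucc 67, .negSucc 222⟩, ⟨.negSucc 594, .negSucc 352, .negSucc 258, .ofNat 325, .ofNat 74, .negSucc 290⟩, .ofNat 596, .negSucc 130, .ofNat 0, .negSucc 130, .ofNat 1096, .ofNat 0, .ofNat 190, .ofNat 8, .negSucc 44, .ofNat 0, .ofNat 128, .ofNat 4,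 .ofNat 0, .ofNat 0, .ofNat 267, .ofNat 2870, .ofNat 0, .ofNat 0, .ofNat 0, .ofNat 0, .ofNat 0, .ofNat 0, .ofNat 0, .ofNat 0, .ofNat 0, .ofNat 0, .ofNat 0, .ofNat 0, .ofNat 0, .ofNat 0, .ofNat 0, .ofNat 0⟩)
    (by decide +kernel)
theorem L00053 : Good (Phi V5.P V5.D (-1) 1) ⟨2, 0, 2, 0, 2, 3, 3, 1, 3, 1⟩ :=
  leafX_sound T5.ok_mp T5.Ymp.bz_eq (w := 196) (c := ⟨⟨.negSucc 1192, .negSucc 164, .negSucc 48, .ofNat 113, .ofNat 23, .negSucc 100⟩, ⟨.negSucc 85, .negSucc 76, .negSucc 354, .ofNat 39, .ofNat 12, .negSucc 34⟩, ⟨.ofNat 254, .ofNat 259, .ofNat 70, .negSucc 86, .negSucc 70, .ofNat 386⟩, ⟨.negSucc 3621, .negSucc 57, .ofNat 72, .ofNat 291, .ofNat 41, .negSucc 295⟩, ⟨.negSucc 493, .negSucc 354, .negSucc 294, .ofNat 151, .ofNat 131, .negSucc 230⟩, .ofNat 596, .negSucc 130, .ofNat 0, .negSucc 130, .ofNat 1096, .ofNat 0, .ofNat 191, .ofNat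 14, .negSucc 53, .ofNat 0, .ofNat 128, .ofNat 6, .ofNat 0, .ofNat 0, .ofNat 285, .ofNat 1837, .ofNat 0, .ofNat 0, .ofNat 0, .ofNat 0, .ofNat 0, .ofNat 0, .ofNat 0, .ofNat 0, .ofNat 0, .ofNat 0, .ofNat 0, .ofNat 0, .ofNat 0, .ofNat 0, .ofNat 0, .ofNat 0⟩)
    (by decide +kernel)
theorem L00054 : Good (Phi V5.P V5.D (-1) 1) ⟨3, 0, 2, 0, 2, 2, 2, 0, 3, 2⟩ :=
  leafX_sound T5.ok_mp T5.Ymp.bz_eq (w := 199) (c := ⟨⟨.negSucc 1329, .negSucc 51, .negSucc 38, .ofNat 30, .ofNat 30, .ofNat 189⟩, ⟨.negSucc 111, .negSucc 51, .negSucc 315, .negSucc 24, .ofNat 24, .ofNat 57⟩, ⟨.ofNat 985, .ofNat 49, .ofNat 67, .negSucc 271, .negSucc 75, .ofNat 327⟩, ⟨.negSucc 3987, .negSucc 39, .ofNat 56, .ofNat 110, .ofNat 71, .ofNat 517⟩, ⟨.negSucc 687, .negSucc 61, .negSucc 39, .negSucc 214, .ofNat 144, .ofNat 203⟩, .ofNat 726, .negSucc 195, .ofNat 0, .negSucc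 195, .ofNat 1505, .ofNat 0, .ofNat 275, .ofNat 35, .negSucc 20, .ofNat 0, .ofNat 128, .ofNat 8, .ofNat 0, .ofNat 0, .ofNat 452, .ofNat 9160, .ofNat 2130501975599879565510241805807432761344, .ofNat 0, .ofNat 0, .ofNat 0, .ofNat 0, .ofNat 0, .ofNat 0, .ofNat 0, .ofNat 0, .ofNat 0, .ofNat 0, .ofNat 0, .ofNat 33394374409263822018424624694092103680000, .ofNat 0, .ofNat 0, .ofNat 0⟩)
    (by decide +kernel)
theorem L00055 : Good (Phi V5.P V5.D (-1) 1) ⟨3, 1, 2, 0, 2, 2, 2, 0, 3, 2⟩ :=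
  leafX_sound T5.ok_mp T5.Ymp.bz_eq (w := 199) (c := ⟨⟨.negSucc 1403, .negSucc 91, .negSucc 41, .ofNat 36, .ofNat 34, .ofNat 242⟩, ⟨.negSucc 174, .negSucc 2, .negSucc 320, .negSucc 26, .ofNat 37, .ofNat 65⟩, ⟨.ofNat 1169, .ofNat 112, .ofNat 87, .negSucc 271, .negSucc 206, .ofNat 285⟩, ⟨.negSucc 4062, .negSucc 12, .ofNat 50, .ofNat 139, .ofNat 47, .ofNat 653⟩, ⟨.negSucc 764, .negSucc 35, .negSucc 18, .negSucc 282, .ofNat 189, .ofNat 232⟩, .ofNat 587, .negSucc 144, .ofNat 0, .negSucc 144, .ofNat 1157, .ofNat 0, .ofNat 202, .ofNat 38, .negSucc 30, .ofNat 0, .ofNat 128, .ofNat 11, .ofNat 0, .ofNat 0, .ofNat 603, .ofNat 13234, .ofNat 1551047772495155697341859794053236785152, .ofNat 0, .ofNat 0, .ofNat 0, .ofNat 0, .ofNat 0, .ofNat 0, .ofNat 0, .ofNat 0, .ofNat 0, .ofNat 0, .ofNat 0, .ofNat 68819611425717761271321329183167673794560, .ofNat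 0, .ofNat 0, .ofNat 0⟩)
    (by decide +kernel)
theorem L00056 : Good (Phi V5.P V5.D (-1) 1) ⟨2, 0, 2, 0, 2, 3, 2, 0, 3, 2⟩ :=
  leafX_sound T5.ok_mp T5.Ymp.bz_eq (w := 192) (c := ⟨⟨.negSucc 1315, .negSucc 111, .negSucc 24, .ofNat 150, .ofNat 15, .ofNat 235⟩, ⟨.negSucc 157, .negSucc 54, .negSucc 312, .ofNat 36, .ofNat 30, .ofNat 64⟩, ⟨.ofNat 840, .ofNat 154, .ofNat 33, .negSucc 129, .negSucc 150, .ofNat 276⟩, ⟨.negSucc 3918, .ofNat 44, .ofNat 128, .ofNat 444, .negSucc 13, .ofNat 645⟩, ⟨.negSucc 907, .negSucc 211, .negSucc 118, .ofNat 30, .ofNat 239, .ofNat 210⟩, .ofNat 592, .negSucc 128, .ofNat 0, .negSucc 128, .ofNat 1110, .ofNat 0, .ofNat 148, .ofNat 22, .negSucc 22, .ofNat 0, .ofNat 128, .ofNat 8, .ofNat 0, .ofNat 0, .ofNat 562, .ofNat 1512, .ofNat 0, .ofNat 0, .ofNat 0, .ofNat 0, .ofNat 0, .ofNat 0, .ofNat 0, .ofNat 0, .ofNat 0,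 .ofNat 0, .ofNat 0, .ofNat 0, .ofNat 12480560295233206891017844096097058816, .ofNat 23782388601303050039249566843482931200, .ofNat 0, .ofNat 0⟩)
    (by decide +kernel)
theorem L00057 : Good (Phi V5.P V5.D (-1) 1) ⟨2, 0, 2, 0, 1, 1, 2, 0, 3, 3⟩ :=
  leafX_sound T5.ok_mp T5.Ymp.bz_eq (w := 177) (c := ⟨⟨.negSucc 1244, .negSucc 73, .negSucc 24, .ofNat 0, .ofNat 173, .ofNat 1⟩, ⟨.negSucc 33, .negSucc 38, .negSucc 268, .ofNat 0, .negSucc 52, .ofNat 0⟩, ⟨.ofNat 1312, .ofNat 46, .negSucc 2, .ofNat 0, .negSucc 238, .negSucc 0⟩, ⟨.negSucc 3320, .ofNat 100, .ofNat 86, .ofNat 0, .ofNat 59, .ofNat 2⟩, ⟨.negSucc 578, .negSucc 88, .negSucc 43, .ofNat 0, .ofNat 56, .ofNat 0⟩, .ofNat 191, .negSucc 8, .ofNat 0, .negSucc 8, .ofNat 226, .ofNat 0, .ofNat 128, .negSucc 5, .negSucc 10, .ofNat 0, .ofNat 140, .ofNat 17, .ofNat 0, .ofNat 0, .ofNat 430, .ofNat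 851, .ofNat 18905133687887607154716988000960512, .ofNat 0, .ofNat 0, .ofNat 0, .ofNat 464621606568858257069746081971044352, .ofNat 9689803413750657453915802578190336, .ofNat 0, .ofNat 0, .ofNat 0, .ofNat 3809430380213133034900272382476288, .ofNat 0, .ofNat 0, .ofNat 808240515408768583452509330185650176, .ofNat 18033760515950755084520692746551296, .ofNat 0, .ofNat 0⟩)
    (by decide +kernel)
theorem L00058 : Good (Phi V5.P V5.D (-1) 1) ⟨2, 0, 2, 0, 2, 2, 2, 0, 1, 1⟩ :=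
  out_sound (S := T5.ds_mp) T5.ok_mp (w := 18) (j := 1) (by decide +kernel)
theorem L00059 : Good (Phi V5.P V5.D (-1) 1) ⟨2, 0, 2, 0, 2, 3, 2, 0, 1, 1⟩ :=
  out_sound (S := T5.ds_mp) T5.ok_mp (w := 24) (j := 2) (by decide +kernel)
theorem L00060 : Good (Phi V5.P V5.D (-1) 1) ⟨2, 0, 2, 0, 1, 1, 2, 1, 3, 0⟩ :=
  leafX_sound T5.ok_mp T5.Ymp.bz_eq (w := 177) (c := ⟨⟨.ofNat 1098, .negSucc 265, .negSucc 115, .ofNat 68, .negSucc 96, .negSucc 2027⟩, ⟨.ofNat 247, .negSucc 119, .negSucc 100, .ofNat 72, .ofNat 6, .negSucc 448⟩, ⟨.negSucc 913, .ofNat 149, .negSucc 35, .ofNat 181, .ofNat 184, .ofNat 975⟩, ⟨.ofNat 3009, .negSucc 652, .negSucc 140, .ofNat 182, .negSucc 304, .negSucc 5618⟩, ⟨.ofNat 567, .negSucc 68, .negSucc 535, .ofNat 949, .negSucc 406, .negSucc 1368⟩, .ofNat 710, .negSucc 200, .ofNat 0, .negSucc 200, .ofNat 1602, .ofNat 0, .ofNat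 188, .ofNat 57, .negSucc 91, .ofNat 0, .ofNat 128, .ofNat 4, .ofNat 0, .ofNat 0, .ofNat 290, .ofNat 347, .ofNat 0, .ofNat 0, .ofNat 0, .ofNat 0, .ofNat 0, .ofNat 0, .ofNat 0, .ofNat 0, .ofNat 0, .ofNat 0, .ofNat 0, .ofNat 0, .ofNat 0, .ofNat 0, .ofNat 0, .ofNat 0⟩)
    (by decide +kernel)
theorem L00061 : Good (Phi V5.P V5.D (-1) 1) ⟨2, 0, 2, 0, 1, 1, 2, 1, 4, 2⟩ :=
  leafX_sound T5.ok_mp T5.Ymp.bz_eq (w := 183) (c := ⟨⟨.negSucc 1005, .negSucc 209, .negSucc 93, .negSucc 10, .ofNat 67, .negSucc 223⟩, ⟨.negSucc 73, .negSucc 77, .negSucc 341, .ofNat 11, .ofNat 21, .negSucc 34⟩, ⟨.ofNat 276, .ofNat 217, .ofNat 63, .negSucc 166, .ofNat 38, .ofNat 265⟩, ⟨.negSucc 3137, .negSucc 182, .negSucc 12, .ofNat 17, .ofNat 136, .negSucc 658⟩, ⟨.negSucc 596, .negSucc 201, .negSucc 233, .ofNat 61, .ofNat 117, .negSucc 55⟩, .ofNat 716, .negSucc 213,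 .ofNat 0, .negSucc 213, .ofNat 1597, .ofNat 0, .ofNat 187, .ofNat 44, .negSucc 79, .ofNat 0, .ofNat 128, .ofNat 5, .ofNat 0, .ofNat 0, .ofNat 358, .ofNat 1374, .ofNat 0, .ofNat 0, .ofNat 0, .ofNat 0, .ofNat 0, .ofNat 0, .ofNat 0, .ofNat 0, .ofNat 0, .ofNat 0, .ofNat 0, .ofNat 0, .ofNat 0, .ofNat 0, .ofNat 0, .ofNat 0⟩)
    (by decide +kernel)
theorem L00062 : Good (Phi V5.P V5.D (-1) 1) ⟨2, 0, 2, 0, 1, 1, 2, 1, 4, 3⟩ :=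
  leafX_sound T5.ok_mp T5.Ymp.bz_eq (w := 183) (c := ⟨⟨.negSucc 1322, .negSucc 131, .negSucc 48, .ofNat 49, .ofNat 80, .ofNat 31⟩, ⟨.negSucc 110, .negSucc 46, .negSucc 338, .negSucc 29, .ofNat 37, .ofNat 12⟩, ⟨.ofNat 768, .ofNat 85, .ofNat 49, .negSucc 331, .negSucc 22, .ofNat 142⟩, ⟨.negSucc 4031, .negSucc 23, .ofNat 55, .ofNat 207, .ofNat 199, .ofNat 81⟩, ⟨.negSucc 539, .negSucc 50, .negSucc 104, .negSucc 353, .ofNat 138, .ofNat 10⟩, .ofNat 718, .negSucc 230, .ofNat 0, .negSucc 230, .ofNat 1612, .ofNat 0, .ofNat 171, .ofNat 45, .negSucc 41, .ofNat 0, .ofNat 128, .ofNat 4, .ofNat 0, .ofNat 0, .ofNat 306, .ofNat 979, .ofNat 0, .ofNat 0, .ofNat 0, .ofNat 0, .ofNat 0, .ofNat 0, .ofNat 0, .ofNat 0, .ofNat 0, .ofNat 0, .ofNat 0, .ofNat 0, .ofNat 0, .ofNat 0, .ofNat 0, .ofNat 0⟩)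
    (by decide +kernel)
theorem L00063 : Good (Phi V5.P V5.D (-1) 1) ⟨2, 0, 2, 0, 2, 2, 2, 1, 4, 4⟩ :=
  leafX_sound T5.ok_mp T5.Ymp.bz_eq (w := 199) (c := ⟨⟨.negSucc 1294, .negSucc 121, .negSucc 37, .ofNat 12, .ofNat 62, .ofNat 98⟩, ⟨.negSucc 97, .negSucc 51, .negSucc 315, .negSucc 21, .ofNat 28, .ofNat 25⟩, ⟨.ofNat 960, .ofNat 62, .ofNat 25, .negSucc 215, .negSucc 52, .ofNat 98⟩, ⟨.negSucc 3915, .negSucc 8, .ofNat 37, .ofNat 60, .ofNat 155, .ofNat 269⟩, ⟨.negSucc 564, .negSucc 60, .negSucc 45, .negSucc 181, .ofNat 166, .ofNat 92⟩, .ofNat 402, .negSucc 44, .ofNat 0, .negSucc 44, .ofNat 592, .ofNat 0, .ofNat 212, .ofNat 17, .negSucc 56, .ofNat 0, .ofNat 128, .ofNat 16, .ofNat 0, .ofNat 0, .ofNat 500, .ofNat 4288, .ofNat 0, .ofNat 0, .ofNat 0, .ofNat 0, .ofNat 0, .ofNat 0, .ofNat 0, .ofNat 0, .ofNat 0, .ofNat 0, .ofNat 0, .ofNat 0,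 .ofNat 0, .ofNat 0, .ofNat 0, .ofNat 0⟩)
    (by decide +kernel)
theorem L00064 : Good (Phi V5.P V5.D (-1) 1) ⟨2, 0, 2, 0, 2, 3, 2, 1, 4, 4⟩ :=
  leafX_sound T5.ok_mp T5.Ymp.bz_eq (w := 197) (c := ⟨⟨.negSucc 1309, .negSucc 79, .negSucc 21, .ofNat 120, .ofNat 38, .ofNat 117⟩, ⟨.negSucc 128, .negSucc 60, .negSucc 311, .ofNat 33, .ofNat 42, .ofNat 34⟩, ⟨.ofNat 783, .negSucc 6, .negSucc 10, .negSucc 103, .ofNat 5, .ofNat 127⟩, ⟨.negSucc 3939, .ofNat 125, .ofNat 123, .ofNat 378, .ofNat 55, .ofNat 290⟩, ⟨.negSucc 707, .negSucc 210, .negSucc 127, .ofNat 18, .ofNat 303, .ofNat 178⟩, .ofNat 594, .negSucc 131, .ofNat 0, .negSucc 131, .ofNat 1107, .ofNat 0, .ofNat 182, .ofNat 26, .negSucc 24, .ofNat 0, .ofNat 128, .ofNat 7, .ofNat 0, .ofNat 0, .ofNat 475, .ofNat 1120, .ofNat 0, .ofNat 0, .ofNat 0, .ofNat 0, .ofNat 0, .ofNat 0, .ofNat 0, .ofNat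 0, .ofNat 0, .ofNat 0, .ofNat 0, .ofNat 0, .ofNat 0, .ofNat 253014350768632451802828495864624840704, .ofNat 0, .ofNat 0⟩)
    (by decide +kernel)
theorem L00065 : Good (Phi V5.P V5.D (-1) 1) ⟨4, 0, 2, 0, 2, 2, 2, 1, 4, 5⟩ :=
  leafX_sound T5.ok_mp T5.Ymp.bz_eq (w := 208) (c := ⟨⟨.negSucc 1219, .negSucc 6, .negSucc 19, .ofNat 18, .ofNat 39, .ofNat 93⟩, ⟨.negSucc 88, .negSucc 18, .negSucc 285, .negSucc 11, .ofNat 27, .ofNat 24⟩, ⟨.ofNat 1068, .negSucc 23, .negSucc 43, .negSucc 117, .negSucc 22, .ofNat 116⟩, ⟨.negSucc 3652, .ofNat 5, .ofNat 60, .ofNat 75, .ofNat 95, .ofNat 260⟩, ⟨.negSucc 524, .ofNat 2, .negSucc 18, .negSucc 113, .ofNat 148, .ofNat 68⟩, .ofNat 726, .negSucc 182, .ofNat 0, .negSucc 182, .ofNat 1489, .ofNat 0, .ofNat 222, .ofNat 35, .negSucc 41, .ofNat 0, .ofNat 128, .ofNat 7, .ofNat 0, .ofNat 0, .ofNat 932, .ofNat 10462,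 .ofNat 273954910092106454076508930618134091530240, .ofNat 0, .ofNat 0, .ofNat 0, .ofNat 0, .ofNat 0, .ofNat 0, .ofNat 0, .ofNat 0, .ofNat 0, .ofNat 0, .ofNat 0, .ofNat 0, .ofNat 143742981440728266482568373434737959632896, .ofNat 0, .ofNat 0⟩)
    (by decide +kernel)
theorem L00066 : Good (Phi V5.P V5.D (-1) 1) ⟨4, 1, 2, 0, 2, 2, 2, 1, 4, 5⟩ :=
  leafX_sound T5.ok_mp T5.Ymp.bz_eq (w := 208) (c := ⟨⟨.negSucc 1233, .negSucc 20, .negSucc 22, .ofNat 27, .ofNat 49, .ofNat 96⟩, ⟨.negSucc 106, .negSucc 14, .negSucc 290, .negSucc 12, .ofNat 30, .ofNat 27⟩, ⟨.ofNat 1092, .ofNat 14, .negSucc 25, .negSucc 165, .negSucc 80, .ofNat 110⟩, ⟨.negSucc 3659, .negSucc 0, .ofNat 53, .ofNat 102, .ofNat 116, .ofNat 268⟩, ⟨.negSucc 517, .ofNat 2, .negSucc 27, .negSucc 140, .ofNat 157, .ofNat 73⟩, .ofNat 604, .negSucc 141, .ofNat 0, .negSucc 141, .ofNat 1081,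 .ofNat 0, .ofNat 189, .ofNat 38, .negSucc 36, .ofNat 0, .ofNat 128, .ofNat 6, .ofNat 0, .ofNat 0, .ofNat 850, .ofNat 9784, .ofNat 162909771794300057519682825408311745052672, .ofNat 0, .ofNat 0, .ofNat 0, .ofNat 0, .ofNat 0, .ofNat 0, .ofNat 0, .ofNat 0, .ofNat 0, .ofNat 0, .ofNat 0, .ofNat 0, .ofNat 166130595522455479207017471304756363264000, .ofNat 0, .ofNat 0⟩)
    (by decide +kernel)
theorem L00067 : Good (Phi V5.P V5.D (-1) 1) ⟨3, 1, 2, 0, 2, 2, 2, 1, 4, 5⟩ :=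
  leafX_sound T5.ok_mp T5.Ymp.bz_eq (w := 204) (c := ⟨⟨.negSucc 1272, .negSucc 72, .negSucc 27, .ofNat 43, .ofNat 70, .ofNat 109⟩, ⟨.negSucc 130, .negSucc 8, .negSucc 291, .negSucc 8, .ofNat 37, .ofNat 28⟩, ⟨.ofNat 1148, .ofNat 25, .ofNat 4, .negSucc 184, .negSucc 155, .ofNat 92⟩, ⟨.negSucc 3710, .ofNat 15, .ofNat 43, .ofNat 154, .ofNat 166, .ofNat 297⟩, ⟨.negSucc 554, .negSucc 19, .negSucc 19, .negSucc 141, .ofNat 199, .ofNat 87⟩, .ofNat 399, .negSucc 52, .ofNat 0, .negSucc 52, .ofNat 604, .ofNat 0, .ofNat 162, .ofNat 22, .negSucc 41, .ofNat 0, .ofNat 128, .ofNat 10, .ofNat 0, .ofNat 0, .ofNat 749, .ofNat 7401, .ofNat 4529208496718748475758281247073650081792, .ofNat 0, .ofNat 0, .ofNat 0, .ofNat 0, .ofNat 1860916973355769867943083982303738724352, .ofNat 0, .ofNat 0, .ofNat 0, .ofNat 2927563584889458600621041645641321676800, .ofNat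 0, .ofNat 0, .ofNat 0, .ofNat 5318927827333812933759559478722825289728, .ofNat 0, .ofNat 0⟩)
    (by decide +kernel)
theorem L00068 : Good (Phi V5.P V5.D (-1) 1) ⟨2, 0, 2, 0, 2, 3, 2, 1, 4, 5⟩ :=
  leafX_sound T5.ok_mp T5.Ymp.bz_eq (w := 197) (c := ⟨⟨.negSucc 1200, .negSucc 55, .negSucc 15, .ofNat 117, .ofNat 35, .ofNat 119⟩, ⟨.negSucc 101, .negSucc 50, .negSucc 297, .ofNat 8, .ofNat 47, .ofNat 33⟩, ⟨.ofNat 918, .negSucc 41, .negSucc 33, .negSucc 81, .negSucc 27, .ofNat 154⟩, ⟨.negSucc 3628, .ofNat 149, .ofNat 111, .ofNat 347, .ofNat 80, .ofNat 336⟩, ⟨.negSucc 623, .negSucc 128, .negSucc 95, .ofNat 39, .ofNat 303, .ofNat 125⟩, .ofNat 402, .negSucc 44, .ofNat 0, .negSucc 44, .ofNat 590, .ofNat 0, .ofNat 160, .ofNat 10, .negSucc 20, .ofNat 0, .ofNat 128, .ofNat 12, .ofNat 0, .ofNat 0, .ofNat 753, .ofNat 1871, .ofNat 0, .ofNat 0, .ofNat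 0, .ofNat 0, .ofNat 0, .ofNat 297406288068354885495577016943933128704, .ofNat 0, .ofNat 0, .ofNat 0, .ofNat 279550220503621996818625055621140971520, .ofNat 0, .ofNat 0, .ofNat 0, .ofNat 1194099325116442679226305892735072075776, .ofNat 0, .ofNat 0⟩)
    (by decide +kernel)
theorem L00069 : Good (Phi V5.P V5.D (-1) 1) ⟨2, 0, 2, 0, 2, 2, 2, 1, 3, 3⟩ :=
  leafX_sound T5.ok_mp T5.Ymp.bz_eq (w := 193) (c := ⟨⟨.negSucc 1141, .negSucc 75, .negSucc 23, .ofNat 38, .ofNat 59, .ofNat 183⟩, ⟨.negSucc 88, .negSucc 33, .negSucc 269, .ofNat 1, .ofNat 30, .ofNat 37⟩, ⟨.ofNat 1289, .negSucc 16, .negSucc 74, .negSucc 113, .negSucc 147, .ofNat 266⟩, ⟨.negSucc 3429, .ofNat 76, .ofNat 27, .ofNat 125, .ofNat 132, .ofNat 498⟩, ⟨.negSucc 487, .ofNat 24, .negSucc 7, .negSucc 75, .ofNat 157, .ofNat 112⟩, .ofNat 590, .negSucc 124, .ofNat 0, .negSucc 124, .ofNat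 1115, .ofNat 0, .ofNat 258, .ofNat 34, .negSucc 26, .ofNat 0, .ofNat 128, .ofNat 0, .ofNat 0, .ofNat 0, .ofNat 1283, .ofNat 2838, .ofNat 127303176291677663755093502732005277696, .ofNat 0, .ofNat 0, .ofNat 0, .ofNat 0, .ofNat 0, .ofNat 0, .ofNat 0, .ofNat 0, .ofNat 0, .ofNat 0, .ofNat 0, .ofNat 10906370392456339801849100029328086794240, .ofNat 465493687172417803858921804455894581248, .ofNat 0, .ofNat 0⟩)
    (by decide +kernel)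
theorem L00070 : Good (Phi V5.P V5.D (-1) 1) ⟨2, 0, 2, 0, 2, 3, 2, 1, 3, 3⟩ :=
  leafX_sound T5.ok_mp T5.Ymp.bz_eq (w := 194) (c := ⟨⟨.negSucc 1077, .negSucc 66, .negSucc 22, .ofNat 150, .ofNat 40, .ofNat 1⟩, ⟨.negSucc 89, .negSucc 35, .negSucc 267, .ofNat 17, .ofNat 39, .ofNat 0⟩, ⟨.ofNat 1109, .negSucc 6, .negSucc 21, .negSucc 196, .negSucc 173, .ofNat 0⟩, ⟨.negSucc 3270, .ofNat 122, .ofNat 84, .ofNat 405, .ofNat 73, .ofNat 1⟩, ⟨.negSucc 531, .negSucc 79, .negSucc 42, .negSucc 16, .ofNat 233, .ofNat 0⟩, .ofNat 402, .negSucc 48, .ofNat 0, .negSucc 48, .ofNat 591, .ofNat 0, .ofNat 148, .ofNat 13, .negSucc 5, .ofNat 0, .ofNat 128, .ofNat 9, .ofNat 0, .ofNat 0, .ofNat 703, .ofNat 5803, .ofNat 0, .ofNat 0, .ofNat 0, .ofNat 0, .ofNat 4360046798810499026206988853411615604736, .ofNat 507002111066846186382577289598758551552, .ofNat 0, .ofNat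 0, .ofNat 0, .ofNat 193238468078037809840603250036414873600, .ofNat 0, .ofNat 0, .ofNat 0, .ofNat 400865691376594037920079409874504515584, .ofNat 0, .ofNat 0⟩)
    (by decide +kernel)
theorem L00071 : Good (Phi V5.P V5.D (-1) 1) ⟨2, 0, 2, 0, 3, 4, 2, 1, 3, 4⟩ :=
  out_sound (S := T5.ds_mp) T5.ok_mp (w := 24) (j := 1) (by decide +kernel)
theorem L00072 : Good (Phi V5.P V5.D (-1) 1) ⟨2, 0, 2, 0, 3, 5, 2, 1, 3, 4⟩ :=
  out_sound (S := T5.ds_mp) T5.ok_mp (w := 30) (j := 2) (by decide +kernel)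
theorem L00073 : Good (Phi V5.P V5.D (-1) 1) ⟨2, 0, 2, 0, 2, 2, 2, 1, 3, 5⟩ :=
  out_sound (S := T5.ds_mp) T5.ok_mp (w := 22) (j := 1) (by decide +kernel)
theorem L00074 : Good (Phi V5.P V5.D (-1) 1) ⟨2, 0, 2, 0, 2, 2, 2, 1, 2, 3⟩ :=
  out_sound (S := T5.ds_mp) T5.ok_mp (w := 20) (j := 1) (by decide +kernel)
theorem L00075 : Good (Phi V5.P V5.D (-1) 1) ⟨2, 0, 2, 0, 2, 3, 2, 1, 1, 1⟩ :=
  out_sound (S := T5.ds_mp) T5.ok_mp (w := 24) (j := 2) (by decide +kernel)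
theorem L00076 : Good (Phi V5.P V5.D (-1) 1) ⟨2, 0, 2, 0, 1, 1, 2, 2, 3, 0⟩ :=
  leafX_sound T5.ok_mp T5.Ymp.bz_eq (w := 177) (c := ⟨⟨.ofNat 713, .ofNat 0, .negSucc 295, .negSucc 50, .negSucc 285, .negSucc 1483⟩, ⟨.ofNat 149, .negSucc 93, .negSucc 153, .negSucc 14, .negSucc 41, .negSucc 246⟩, ⟨.negSucc 578, .negSucc 57, .ofNat 67, .ofNat 60, .ofNat 341, .ofNat 838⟩, ⟨.ofNat 1893, .ofNat 118, .negSucc 612, .negSucc 88, .negSucc 806, .negSucc 4211⟩, ⟨.ofNat 476, .negSucc 275, .negSucc 219, .negSucc 227, .negSucc 433, .negSucc 573⟩, .ofNat 592, .negSucc 132, .ofNat 0, .negSucc 132, .ofNat 1113, .ofNat 0, .ofNat 159, .ofNat 64, .negSucc 127, .ofNat 0, .ofNat 128, .ofNat 8, .ofNat 0, .ofNat 0, .ofNat 312, .ofNat 263, .ofNat 0, .ofNat 0, .ofNat 0, .ofNat 0, .ofNat 0, .ofNat 0, .ofNat 0, .ofNat 0, .ofNat 0, .ofNat 0, .ofNat 0, .ofNat 0, .ofNat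 0, .ofNat 0, .ofNat 0, .ofNat 0⟩)
    (by decide +kernel)
theorem L00077 : Good (Phi V5.P V5.D (-1) 1) ⟨2, 0, 2, 0, 1, 1, 2, 2, 4, 2⟩ :=
  leafX_sound T5.ok_mp T5.Ymp.bz_eq (w := 182) (c := ⟨⟨.negSucc 1052, .negSucc 83, .negSucc 83, .negSucc 51, .ofNat 95, .negSucc 196⟩, ⟨.negSucc 89, .negSucc 55, .negSucc 318, .negSucc 27, .ofNat 66, .negSucc 0⟩, ⟨.ofNat 583, .negSucc 120, .ofNat 23, .negSucc 143, .ofNat 61, .ofNat 249⟩, ⟨.negSucc 3238, .ofNat 156, .negSucc 72, .negSucc 113, .ofNat 165, .negSucc 552⟩, ⟨.negSucc 564, .negSucc 215, .negSucc 73, .negSucc 218, .ofNat 343, .ofNat 140⟩, .ofNat 718, .negSucc 228, .ofNat 0, .negSucc 228, .ofNat 1607, .ofNat 0, .ofNat 166, .ofNat 57, .negSucc 70, .ofNat 0, .ofNat 128, .ofNat 4, .ofNat 0, .ofNat 0, .ofNat 285, .ofNat 465, .ofNat 0, .ofNat 0, .ofNat 0, .ofNat 0, .ofNat 0, .ofNat 0, .ofNat 0,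 .ofNat 0, .ofNat 0, .ofNat 0, .ofNat 0, .ofNat 0, .ofNat 0, .ofNat 0, .ofNat 0, .ofNat 0⟩)
    (by decide +kernel)
theorem L00078 : Good (Phi V5.P V5.D (-1) 1) ⟨2, 0, 2, 0, 2, 2, 2, 2, 4, 3⟩ :=
  leafX_sound T5.ok_mp T5.Ymp.bz_eq (w := 198) (c := ⟨⟨.negSucc 1221, .negSucc 86, .negSucc 29, .negSucc 58, .ofNat 70, .ofNat 9⟩, ⟨.negSucc 105, .negSucc 41, .negSucc 316, .negSucc 11, .ofNat 51, .ofNat 26⟩, ⟨.ofNat 842, .negSucc 97, .negSucc 27, .negSucc 113, .ofNat 32, .ofNat 135⟩, ⟨.negSucc 3682, .ofNat 80, .ofNat 16, .negSucc 141, .ofNat 160, .negSucc 5⟩, ⟨.negSucc 617, .negSucc 4, .negSucc 40, .negSucc 88, .ofNat 287, .ofNat 153⟩, .ofNat 591, .negSucc 111, .ofNat 0, .negSucc 111, .ofNat 1099, .ofNat 0, .ofNat 276, .ofNat 36, .negSucc 127, .ofNat 0, .ofNat 128, .ofNat 11, .ofNat 0, .ofNat 0, .ofNat 785, .ofNat 2764, .ofNat 0, .ofNat 0,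 .ofNat 0, .ofNat 0, .ofNat 0, .ofNat 0, .ofNat 0, .ofNat 0, .ofNat 0, .ofNat 0, .ofNat 0, .ofNat 0, .ofNat 0, .ofNat 0, .ofNat 0, .ofNat 0⟩)
    (by decide +kernel)
theorem L00079 : Good (Phi V5.P V5.D (-1) 1) ⟨2, 0, 2, 0, 2, 3, 2, 2, 4, 3⟩ :=
  leafX_sound T5.ok_mp T5.Ymp.bz_eq (w := 197) (c := ⟨⟨.negSucc 1374, .negSucc 20, .negSucc 26, .ofNat 69, .ofNat 57, .ofNat 96⟩, ⟨.negSucc 117, .negSucc 49, .negSucc 332, .ofNat 35, .ofNat 83, .ofNat 37⟩, ⟨.ofNat 772, .negSucc 154, .negSucc 27, .negSucc 38, .ofNat 146, .ofNat 81⟩, ⟨.negSucc 4075, .ofNat 303, .ofNat 57, .ofNat 145, .ofNat 62, .ofNat 195⟩, ⟨.negSucc 677, .negSucc 173, .negSucc 134, .ofNat 209, .ofNat 558, .ofNat 234⟩, .ofNat 596, .negSucc 130, .ofNat 0, .negSucc 130, .ofNat 1096, .ofNat 0, .ofNat 225, .ofNat 35, .negSucc 57, .ofNat 0, .ofNat 128, .ofNat 10, .ofNat 0, .ofNat 0,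 .ofNat 425, .ofNat 697, .ofNat 0, .ofNat 0, .ofNat 0, .ofNat 0, .ofNat 0, .ofNat 0, .ofNat 0, .ofNat 0, .ofNat 0, .ofNat 0, .ofNat 0, .ofNat 0, .ofNat 0, .ofNat 198137226285483381762179121541843779584, .ofNat 0, .ofNat 0⟩)
    (by decide +kernel)
theorem L00080 : Good (Phi V5.P V5.D (-1) 1) ⟨2, 0, 2, 0, 2, 2, 2, 2, 4, 4⟩ :=
  leafX_sound T5.ok_mp T5.Ymp.bz_eq (w := 198) (c := ⟨⟨.negSucc 1227, .negSucc 84, .negSucc 34, .negSucc 14, .ofNat 78, .ofNat 72⟩, ⟨.negSucc 88, .negSucc 37, .negSucc 298, .negSucc 7, .ofNat 37, .ofNat 27⟩, ⟨.ofNat 949, .negSucc 63, .negSucc 17, .negSucc 91, .negSucc 37, .ofNat 87⟩, ⟨.negSucc 3686, .ofNat 63, .ofNat 7, .negSucc 24, .ofNat 167, .ofNat 181⟩, ⟨.negSucc 550, .ofNat 107, .negSucc 52, .negSucc 56, .ofNat 219, .ofNat 130⟩, .ofNat 718, .negSucc 231, .ofNat 0, .negSucc 231, .ofNat 1619, .ofNat 0, .ofNat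 298, .ofNat 50, .negSucc 68, .ofNat 0, .ofNat 128, .ofNat 1, .ofNat 0, .ofNat 0, .ofNat 749, .ofNat 2080, .ofNat 0, .ofNat 0, .ofNat 0, .ofNat 0, .ofNat 0, .ofNat 0, .ofNat 0, .ofNat 0, .ofNat 0, .ofNat 200681823131581568022276330236401418240, .ofNat 0, .ofNat 0, .ofNat 0, .ofNat 694164341588852312452984210332357492736, .ofNat 0, .ofNat 0⟩)
    (by decide +kernel)
theorem L00081 : Good (Phi V5.P V5.D (-1) 1) ⟨3, 0, 2, 0, 2, 3, 2, 2, 4, 4⟩ :=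
  leafX_sound T5.ok_mp T5.Ymp.bz_eq (w := 199) (c := ⟨⟨.negSucc 1297, .ofNat 27, .negSucc 7, .ofNat 49, .ofNat 27, .ofNat 109⟩, ⟨.negSucc 86, .negSucc 39, .negSucc 312, .ofNat 69, .ofNat 72, .ofNat 32⟩, ⟨.ofNat 862, .negSucc 140, .negSucc 41, .ofNat 59, .ofNat 192, .ofNat 117⟩, ⟨.negSucc 3873, .ofNat 155, .ofNat 91, .ofNat 110, .ofNat 2, .ofNat 305⟩, ⟨.negSucc 516, .negSucc 61, .negSucc 82, .ofNat 405, .ofNat 474, .ofNat 98⟩, .ofNat 598, .negSucc 101, .ofNat 0, .negSucc 101, .ofNat 1059, .ofNat 0, .ofNat 128, .ofNat 26, .negSucc 12, .ofNat 0, .ofNat 149, .ofNat 3, .ofNat 0, .ofNat 0, .ofNat 276, .ofNat 233, .ofNat 0, .ofNat 0, .ofNat 0, .ofNat 0, .ofNat 0, .ofNat 0, .ofNat 0, .ofNat 0, .ofNat 0, .ofNat 0, .ofNat 0, .ofNat 0, .ofNat 0, .ofNat 2275329205074182735016538417102749433856, .ofNat 0, .ofNat 0⟩)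
    (by decide +kernel)
theorem L00082 : Good (Phi V5.P V5.D (-1) 1) ⟨3, 1, 2, 0, 2, 3, 2, 2, 4, 4⟩ :=
  leafX_sound T5.ok_mp T5.Ymp.bz_eq (w := 200) (c := ⟨⟨.negSucc 1315, .negSucc 19, .negSucc 8, .ofNat 117, .ofNat 89, .ofNat 123⟩, ⟨.negSucc 137, .negSucc 6, .negSucc 302, .ofNat 53, .ofNat 86, .ofNat 43⟩, ⟨.ofNat 835, .negSucc 113, .negSucc 49, .negSucc 64, .ofNat 45, .ofNat 67⟩, ⟨.negSucc 3810, .ofNat 172, .ofNat 93, .ofNat 312, .ofNat 155, .ofNat 318⟩, ⟨.negSucc 561, .negSucc 100, .negSucc 90, .ofNat 206, .ofNat 555, .ofNat 181⟩, .ofNat 584, .negSucc 140, .ofNat 0, .negSucc 140, .ofNat 1165, .ofNat 0, .ofNat 172, .ofNat 35, .negSucc 15, .ofNat 0, .ofNat 128, .ofNat 3, .ofNat 0, .ofNat 0, .ofNat 324, .ofNat 301, .ofNat 0, .ofNat 0, .ofNat 0, .ofNat 0, .ofNat 0, .ofNat 0, .ofNat 0, .ofNat 0, .ofNat 0, .ofNat 0, .ofNat 0, .ofNat 0,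 .ofNat 0, .ofNat 3173362964949631167093730042302093590528, .ofNat 0, .ofNat 0⟩)
    (by decide +kernel)
theorem L00083 : Good (Phi V5.P V5.D (-1) 1) ⟨2, 0, 2, 0, 2, 2, 2, 2, 4, 5⟩ :=
  leafX_sound T5.ok_mp T5.Ymp.bz_eq (w := 198) (c := ⟨⟨.negSucc 1173, .negSucc 50, .negSucc 16, .ofNat 3, .ofNat 45, .ofNat 89⟩, ⟨.negSucc 72, .negSucc 37, .negSucc 282, .negSucc 1, .ofNat 39, .ofNat 23⟩, ⟨.ofNat 1066, .negSucc 110, .negSucc 81, .negSucc 45, .negSucc 70, .ofNat 91⟩, ⟨.negSucc 3530, .ofNat 134, .ofNat 28, .ofNat 34, .ofNat 98, .ofNat 230⟩, ⟨.negSucc 420, .ofNat 48, .negSucc 22, .negSucc 39, .ofNat 236, .ofNat 81⟩, .ofNat 593, .negSucc 120, .ofNat 0, .negSucc 120, .ofNat 1098, .ofNat 0, .ofNat 220, .ofNat 34, .negSucc 33, .ofNat 0, .ofNat 128, .negSucc 0, .ofNat 0, .ofNat 0, .ofNat 829, .ofNat 2025, .ofNat 0, .ofNat 0, .ofNat 0, .ofNat 0,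 .ofNat 0, .ofNat 353945443681035374955993132651125932032, .ofNat 0, .ofNat 0, .ofNat 0, .ofNat 391843586836258744733092100129047969792, .ofNat 0, .ofNat 0, .ofNat 0, .ofNat 1116607945079047505999805448347675787264, .ofNat 0, .ofNat 0⟩)
    (by decide +kernel)
theorem L00084 : Good (Phi V5.P V5.D (-1) 1) ⟨2, 0, 2, 0, 2, 3, 2, 2, 4, 5⟩ :=
  leafX_sound T5.ok_mp T5.Ymp.bz_eq (w := 198) (c := ⟨⟨.negSucc 1179, .negSucc 28, .negSucc 7, .ofNat 104, .ofNat 61, .ofNat 125⟩, ⟨.negSucc 77, .negSucc 29, .negSucc 279, .ofNat 26, .ofNat 63, .ofNat 33⟩, ⟨.ofNat 1027, .negSucc 219, .negSucc 66, .negSucc 83, .ofNat 56, .ofNat 87⟩, ⟨.negSucc 3577, .ofNat 247, .ofNat 87, .ofNat 279, .ofNat 99, .ofNat 323⟩, ⟨.negSucc 413, .negSucc 22, .negSucc 51, .ofNat 148, .ofNat 436, .ofNat 148⟩, .ofNat 402, .negSucc 50, .ofNat 0, .negSucc 50, .ofNat 593, .ofNat 0,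 .ofNat 234, .ofNat 17, .negSucc 13, .ofNat 0, .ofNat 128, .ofNat 5, .ofNat 0, .ofNat 0, .ofNat 539, .ofNat 1595, .ofNat 0, .ofNat 0, .ofNat 0, .ofNat 0, .ofNat 0, .ofNat 552757973325967585958008405993711468544, .ofNat 0, .ofNat 0, .ofNat 0, .ofNat 560972878924418592517142460862757339136, .ofNat 0, .ofNat 0, .ofNat 0, .ofNat 1611440832343875853918126916037999853568, .ofNat 0, .ofNat 0⟩)
    (by decide +kernel)
theorem L00085 : Good (Phi V5.P V5.D (-1) 1) ⟨2, 0, 2, 0, 2, 2, 2, 2, 3, 3⟩ :=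
  leafX_sound T5.ok_mp T5.Ymp.bz_eq (w := 191) (c := ⟨⟨.negSucc 1090, .negSucc 38, .negSucc 7, .ofNat 8, .ofNat 39, .ofNat 136⟩, ⟨.negSucc 61, .negSucc 29, .negSucc 260, .negSucc 3, .ofNat 31, .ofNat 37⟩, ⟨.ofNat 1167, .negSucc 149, .negSucc 142, .ofNat 97, .negSucc 114, .ofNat 228⟩, ⟨.negSucc 3303, .ofNat 148, .ofNat 35, .ofNat 44, .ofNat 92, .ofNat 435⟩, ⟨.negSucc 355, .ofNat 65, .ofNat 2, .negSucc 41, .ofNat 217, .ofNat 85⟩, .ofNat 401, .negSucc 45, .ofNat 0, .negSucc 45, .ofNat 592, .ofNat 0, .ofNat 143, .ofNat 20, .negSucc 15, .ofNat 0, .ofNat 128, .negSucc 7, .ofNat 0, .ofNat 0, .ofNat 705, .ofNat 526, .ofNat 0, .ofNat 0, .ofNat 0, .ofNat 0, .ofNat 0, .ofNat 38188470115680998535092190553520996352, .ofNat 0, .ofNat 0, .ofNat 0, .ofNat 0, .ofNat 0, .ofNat 0, .ofNat 0, .ofNat 153921076775099009208116461055716098048, .ofNat 0, .ofNat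 0⟩)
    (by decide +kernel)
theorem L00086 : Good (Phi V5.P V5.D (-1) 1) ⟨2, 0, 2, 0, 2, 3, 2, 2, 3, 3⟩ :=
  out_sound (S := T5.ds_mp) T5.ok_mp (w := 28) (j := 2) (by decide +kernel)
theorem L00087 : Good (Phi V5.P V5.D (-1) 1) ⟨2, 0, 2, 0, 4, 8, 3, 4, 4, 8⟩ :=
  out_sound (S := T5.ds_mp) T5.ok_mp (w := 29) (j := 1) (by decide +kernel)
theorem L00088 : Good (Phi V5.P V5.D (-1) 1) ⟨2, 0, 2, 0, 4, 8, 3, 5, 4, 8⟩ :=
  out_sound (S := T5.ds_mp) T5.ok_mp (w := 36) (j := 2) (by decide +kernel)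
theorem L00089 : Good (Phi V5.P V5.D (-1) 1) ⟨2, 0, 2, 0, 4, 8, 2, 2, 4, 9⟩ :=
  out_sound (S := T5.ds_mp) T5.ok_mp (w := 28) (j := 1) (by decide +kernel)
theorem L00090 : Good (Phi V5.P V5.D (-1) 1) ⟨2, 0, 2, 0, 4, 9, 2, 2, 3, 4⟩ :=
  out_sound (S := T5.ds_mp) T5.ok_mp (w := 32) (j := 2) (by decide +kernel)
theorem L00091 : Good (Phi V5.P V5.D (-1) 1) ⟨2, 0, 2, 0, 3, 4, 2, 2, 3, 5⟩ :=
  out_sound (S := T5.ds_mp) T5.ok_mp (w := 24) (j := 1) (by decide +kernel)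
theorem L00092 : Good (Phi V5.P V5.D (-1) 1) ⟨2, 0, 2, 0, 3, 5, 2, 2, 2, 2⟩ :=
  out_sound (S := T5.ds_mp) T5.ok_mp (w := 28) (j := 2) (by decide +kernel)
theorem L00093 : Good (Phi V5.P V5.D (-1) 1) ⟨2, 0, 2, 0, 2, 2, 2, 2, 2, 3⟩ :=
  out_sound (S := T5.ds_mp) T5.ok_mp (w := 20) (j := 1) (by decide +kernel)
theorem L00094 : Good (Phi V5.P V5.D (-1) 1) ⟨2, 0, 2, 0, 2, 3, 2, 2, 1, 1⟩ :=
  out_sound (S := T5.ds_mp) T5.ok_mp (w := 24) (j := 2) (by decide +kernel)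
theorem L00095 : Good (Phi V5.P V5.D (-1) 1) ⟨2, 0, 3, 0, 1, 1, 2, 3, 3, 0⟩ :=
  leafX_sound T5.ok_mp T5.Ymp.bz_eq (w := 179) (c := ⟨⟨.negSucc 40, .negSucc 55, .negSucc 33, .negSucc 254, .negSucc 131, .negSucc 774⟩, ⟨.negSucc 12, .negSucc 60, .negSucc 73, .negSucc 0, .ofNat 41, .negSucc 71⟩, ⟨.ofNat 52, .negSucc 135, .negSucc 11, .ofNat 193, .ofNat 282, .ofNat 400⟩, ⟨.negSucc 192, .ofNat 29, .negSucc 76, .negSucc 716, .negSucc 441, .negSucc 2201⟩, ⟨.negSucc 198, .negSucc 367, .ofNat 19, .negSucc 62, .ofNat 308, .negSucc 54⟩, .ofNat 697, .negSucc 133, .ofNat 0, .negSucc 133, .ofNat 1585, .ofNat 0, .ofNat 188, .ofNat 64, .negSucc 138, .ofNat 0, .ofNat 128, .ofNat 15, .ofNat 0, .ofNat 0, .ofNat 322, .ofNat 302, .ofNat 0, .ofNat 0, .ofNat 0, .ofNat 0, .ofNat 0, .ofNat 2031752242399284990097365433057280, .ofNat 0, .ofNat 0, .ofNat 0, .ofNat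 10865171286921597463788425488367616, .ofNat 0, .ofNat 0, .ofNat 0, .ofNat 0, .ofNat 0, .ofNat 0⟩)
    (by decide +kernel)
theorem L00096 : Good (Phi V5.P V5.D (-1) 1) ⟨2, 0, 3, 1, 1, 1, 2, 3, 3, 0⟩ :=
  leafX_sound T5.ok_mp T5.Ymp.bz_eq (w := 179) (c := ⟨⟨.negSucc 58, .negSucc 160, .negSucc 16, .negSucc 183, .negSucc 39, .negSucc 847⟩, ⟨.negSucc 17, .negSucc 94, .negSucc 96, .negSucc 21, .ofNat 33, .negSucc 155⟩, ⟨.ofNat 89, .negSucc 92, .negSucc 54, .ofNat 75, .ofNat 161, .ofNat 501⟩, ⟨.negSucc 216, .negSucc 187, .ofNat 41, .negSucc 513, .negSucc 215, .negSucc 2483⟩, ⟨.negSucc 446, .negSucc 414, .negSucc 115, .ofNat 58, .ofNat 372, .ofNat 234⟩, .ofNat 754, .negSucc 320, .ofNat 0, .negSucc 320, .ofNat 1621, .ofNat 0, .ofNat 177, .ofNat 102, .negSucc 127, .ofNat 0, .ofNat 128, .ofNat 2, .ofNat 0, .ofNat 0, .ofNat 288, .ofNat 286, .ofNat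 0, .ofNat 0, .ofNat 0, .ofNat 0, .ofNat 0, .ofNat 4443441498133402974222702486749184, .ofNat 0, .ofNat 0, .ofNat 0, .ofNat 5318364744071210304755334387859456, .ofNat 0, .ofNat 0, .ofNat 0, .ofNat 3890299188896480548809637969788928, .ofNat 0, .ofNat 0⟩)
    (by decide +kernel)
theorem L00097 : Good (Phi V5.P V5.D (-1) 1) ⟨2, 0, 2, 0, 2, 2, 3, 6, 3, 1⟩ :=
  leafX_sound T5.ok_mp T5.Ymp.bz_eq (w := 196) (c := ⟨⟨.negSucc 1086, .negSucc 62, .negSucc 22, .negSucc 98, .ofNat 51, .negSucc 64⟩, ⟨.negSucc 85, .negSucc 24, .negSucc 292, .ofNat 1, .ofNat 40, .ofNat 31⟩, ⟨.ofNat 803, .negSucc 166, .negSucc 63, .ofNat 28, .negSucc 7, .ofNat 169⟩, ⟨.negSucc 3231, .ofNat 134, .negSucc 7, .negSucc 298, .ofNat 97, .negSucc 279⟩, ⟨.negSucc 619, .ofNat 96, .negSucc 61, .ofNat 116, .ofNat 252, .ofNat 329⟩, .ofNat 591, .negSucc 131, .ofNat 0, .negSucc 131,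 .ofNat 1119, .ofNat 0, .ofNat 382, .ofNat 48, .negSucc 170, .ofNat 0, .ofNat 128, .ofNat 7, .ofNat 0, .ofNat 0, .ofNat 765, .ofNat 1237, .ofNat 0, .ofNat 0, .ofNat 0, .ofNat 0, .ofNat 0, .ofNat 0, .ofNat 0, .ofNat 0, .ofNat 0, .ofNat 30620586577976960854569372344861589504, .ofNat 0, .ofNat 0, .ofNat 0, .ofNat 0, .ofNat 0, .ofNat 0⟩)
    (by decide +kernel)
theorem L00098 : Good (Phi V5.P V5.D (-1) 1) ⟨2, 0, 2, 0, 2, 3, 3, 6, 3, 1⟩ :=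
  leafX_sound T5.ok_mp T5.Ymp.bz_eq (w := 195) (c := ⟨⟨.negSucc 1306, .ofNat 69, .ofNat 6, .negSucc 24, .ofNat 23, .negSucc 1⟩, ⟨.negSucc 85, .negSucc 66, .negSucc 311, .ofNat 65, .ofNat 74, .ofNat 90⟩, ⟨.ofNat 872, .negSucc 341, .negSucc 89, .ofNat 48, .ofNat 125, .ofNat 262⟩, ⟨.negSucc 3836, .ofNat 533, .ofNat 59, .negSucc 158, .negSucc 43, .negSucc 171⟩, ⟨.negSucc 538, .negSucc 268, .negSucc 91, .ofNat 493, .ofNat 585, .ofNat 747⟩, .ofNat 593, .negSucc 120, .ofNat 0, .negSucc 120, .ofNat 1101, .ofNat 0, .ofNat 205, .ofNat 44, .negSucc 56, .ofNat 0, .ofNat 128, .ofNat 11, .ofNat 0, .ofNat 0, .ofNat 279, .ofNat 219, .ofNat 0, .ofNat 0, .ofNat 0, .ofNat 0, .ofNat 0, .ofNat 23421808499320933919975805506937683968, .ofNat 0, .ofNat 0, .ofNat 0, .ofNat 0, .ofNat 0, .ofNat 0, .ofNat 0, .ofNat 36844814545696578633935828703260966912, .ofNat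 0, .ofNat 0⟩)
    (by decide +kernel)
theorem L00099 : Good (Phi V5.P V5.D (-1) 1) ⟨2, 0, 2, 0, 1, 1, 3, 7, 3, 1⟩ :=
  leafX_sound T5.ok_mp T5.Ymp.bz_eq (w := 181) (c := ⟨⟨.negSucc 1036, .ofNat 24, .negSucc 4, .negSucc 281, .ofNat 112, .negSucc 170⟩, ⟨.negSucc 56, .negSucc 19, .negSucc 281, .ofNat 62, .ofNat 78, .ofNat 24⟩, ⟨.ofNat 867, .negSucc 305, .negSucc 95, .ofNat 223, .negSucc 44, .ofNat 174⟩, ⟨.negSucc 3064, .ofNat 352, .negSucc 20, .negSucc 980, .ofNat 244, .negSucc 580⟩, ⟨.negSucc 497, .ofNat 59, .ofNat 1, .ofNat 901, .ofNat 404, .ofNat 405⟩, .ofNat 597, .negSucc 136, .ofNat 0, .negSucc 136, .ofNat 1103, .ofNat 0, .ofNat 146, .ofNat 56, .negSucc 63, .ofNat 0, .ofNat 128, .ofNat 5, .ofNat 0, .ofNat 0, .ofNat 219, .ofNat 243, .ofNat 0, .ofNat 0, .ofNat 0, .ofNat 0, .ofNat 0, .ofNat 14357043713640809435482813760536576, .ofNat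 0, .ofNat 0, .ofNat 0, .ofNat 15277268185171297144918783421317120, .ofNat 0, .ofNat 0, .ofNat 0, .ofNat 8654803163276576325441537393557504, .ofNat 0, .ofNat 0⟩)
    (by decide +kernel)
theorem L00100 : Good (Phi V5.P V5.D (-1) 1) ⟨2, 0, 2, 0, 1, 1, 2, 3, 3, 2⟩ :=
  leafX_sound T5.ok_mp T5.Ymp.bz_eq (w := 177) (c := ⟨⟨.negSucc 1170, .negSucc 20, .ofNat 13, .negSucc 145, .ofNat 29, .ofNat 99⟩, ⟨.negSucc 67, .negSucc 18, .negSucc 278, .ofNat 29, .ofNat 84, .ofNat 41⟩, ⟨.ofNat 1008, .negSucc 200, .negSucc 146, .ofNat 134, .negSucc 89, .ofNat 60⟩, ⟨.negSucc 3527, .ofNat 245, .ofNat 48, .negSucc 468, .ofNat 32, .ofNat 252⟩, ⟨.negSucc 379, .ofNat 145, .ofNat 17, .ofNat 369, .ofNat 510, .ofNat 204⟩, .ofNat 588, .negSucc 116, .ofNat 0, .negSucc 116, .ofNat 1120, .ofNat 0, .ofNat 231, .ofNat 37, .negSucc 50, .ofNat 0, .ofNat 128, .negSucc 2,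 .ofNat 0, .ofNat 0, .ofNat 574, .ofNat 491, .ofNat 0, .ofNat 0, .ofNat 0, .ofNat 0, .ofNat 0, .ofNat 17538848856291141162631897607569408, .ofNat 0, .ofNat 0, .ofNat 0, .ofNat 10735772431432811114165889769930752, .ofNat 0, .ofNat 0, .ofNat 0, .ofNat 25754791816071527272644511648448512, .ofNat 0, .ofNat 0⟩)
    (by decide +kernel)
theorem L00101 : Good (Phi V5.P V5.D (-1) 1) ⟨2, 0, 2, 0, 1, 1, 2, 3, 3, 3⟩ :=
  leafX_sound T5.ok_mp T5.Ymp.bz_eq (w := 179) (c := ⟨⟨.negSucc 1077, .ofNat 6, .ofNat 9, .ofNat 1, .ofNat 7, .ofNat 133⟩, ⟨.negSucc 35, .negSucc 18, .negSucc 250, .ofNat 0, .ofNat 55, .ofNat 35⟩, ⟨.ofNat 1074, .negSucc 179, .negSucc 214, .ofNat 0, .negSucc 210, .ofNat 47⟩, ⟨.negSucc 3252, .ofNat 263, .ofNat 41, .ofNat 1, .ofNat 18, .ofNat 331⟩, ⟨.negSucc 181, .ofNat 149, .ofNat 28, .ofNat 0, .ofNat 398, .ofNat 139⟩, .ofNat 191,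 .negSucc 8, .ofNat 0, .negSucc 8, .ofNat 226, .ofNat 0, .ofNat 177, .ofNat 8, .negSucc 33, .ofNat 0, .ofNat 128, .negSucc 22, .ofNat 0, .ofNat 0, .ofNat 451, .ofNat 2424, .ofNat 0, .ofNat 0, .ofNat 0, .ofNat 0, .ofNat 0, .ofNat 60416484036288694239252409483264000, .ofNat 0, .ofNat 0, .ofNat 0, .ofNat 63520401553105986026407953375952896, .ofNat 0, .ofNat 0, .ofNat 0, .ofNat 53096799694089663119503421440262144, .ofNat 0, .ofNat 0⟩)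
    (by decide +kernel)
theorem L00102 : Good (Phi V5.P V5.D (-1) 1) ⟨2, 0, 2, 0, 1, 1, 2, 3, 1, 1⟩ :=
  out_sound (S := T5.ds_mp) T5.ok_mp (w := 22) (j := 2) (by decide +kernel)
theorem L00103 : Good (Phi V5.P V5.D (-1) 1) ⟨3, 0, 2, 1, 1, 0, 2, 0, 4, 0⟩ :=
  leafX_sound T5.ok_mp T5.Ymp.bz_eq (w := 187) (c := ⟨⟨.ofNat 578, .negSucc 10, .negSucc 79, .ofNat 34, .ofNat 104, .negSucc 1162⟩, ⟨.ofNat 200, .negSucc 17, .ofNat 40, .negSucc 57, .ofNat 44, .negSucc 464⟩, ⟨.negSucc 566, .ofNat 14, .ofNat 141, .ofNat 105, .negSucc 220, .ofNat 1017⟩, ⟨.ofNat 1619, .ofNat 18, .negSucc 136, .ofNat 299, .ofNat 237, .negSucc 3107⟩, ⟨.negSucc 6, .negSucc 98, .ofNat 11, .negSucc 500, .ofNat 229, .negSucc 589⟩, .ofNat 1070, .negSucc 866, .ofNat 0, .negSucc 866, .ofNat 2287, .ofNat 0, .ofNat 166, .ofNat 115, .negSucc 109, .ofNat 0, .ofNat 128, .negSucc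 37, .ofNat 0, .ofNat 0, .ofNat 390, .ofNat 1567, .ofNat 0, .ofNat 0, .ofNat 0, .ofNat 0, .ofNat 0, .ofNat 0, .ofNat 0, .ofNat 0, .ofNat 0, .ofNat 0, .ofNat 0, .ofNat 0, .ofNat 0, .ofNat 0, .ofNat 0, .ofNat 0⟩)
    (by decide +kernel)
theorem L00104 : Good (Phi V5.P V5.D (-1) 1) ⟨3, 0, 2, 1, 1, 0, 2, 1, 4, 0⟩ :=
  leafX_sound T5.ok_mp T5.Ymp.bz_eq (w := 187) (c := ⟨⟨.ofNat 611, .negSucc 67, .negSucc 82, .ofNat 221, .negSucc 241, .negSucc 1189⟩, ⟨.ofNat 189, .negSucc 14, .ofNat 12, .ofNat 70, .negSucc 69, .negSucc 464⟩, ⟨.negSucc 680, .ofNat 73, .ofNat 140, .negSucc 186, .ofNat 221, .ofNat 1108⟩, ⟨.ofNat 1846, .negSucc 197, .negSucc 177, .ofNat 804, .negSucc 799, .negSucc 3607⟩, ⟨.ofNat 26, .negSucc 48, .negSucc 40, .negSucc 360, .ofNat 108, .negSucc 115⟩, .ofNat 428, .negSucc 122, .ofNat 0, .negSucc 122, .ofNat 604, .ofNat 0, .ofNat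 158, .ofNat 58, .negSucc 168, .ofNat 0, .ofNat 128, .negSucc 33, .ofNat 0, .ofNat 0, .ofNat 369, .ofNat 1123, .ofNat 0, .ofNat 0, .ofNat 0, .ofNat 0, .ofNat 0, .ofNat 0, .ofNat 0, .ofNat 0, .ofNat 0, .ofNat 0, .ofNat 0, .ofNat 0, .ofNat 0, .ofNat 0, .ofNat 0, .ofNat 0⟩)
    (by decide +kernel)
theorem L00105 : Good (Phi V5.P V5.D (-1) 1) ⟨3, 0, 2, 1, 1, 0, 1, 0, 4, 1⟩ :=
  leafX_sound T5.ok_mp T5.Ymp.bz_eq (w := 182) (c := ⟨⟨.negSucc 608, .negSucc 45, .negSucc 49, .ofNat 30, .ofNat 14, .negSucc 576⟩, ⟨.negSucc 137, .negSucc 40, .negSucc 209, .negSucc 80, .ofNat 34, .negSucc 222⟩, ⟨.ofNat 729, .ofNat 72, .ofNat 77, .negSucc 533, .negSucc 125, .ofNat 606⟩, ⟨.negSucc 1910, .negSucc 31, .negSucc 51, .ofNat 428, .negSucc 36, .negSucc 1712⟩, ⟨.negSucc 100, .negSucc 43, .ofNat 40, .negSucc 836, .ofNat 247, .ofNat 36⟩, .ofNat 427, .negSucc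 120, .ofNat 0, .negSucc 120, .ofNat 603, .ofNat 0, .ofNat 151, .ofNat 55, .negSucc 93, .ofNat 0, .ofNat 128, .negSucc 13, .ofNat 0, .ofNat 0, .ofNat 315, .ofNat 1134, .ofNat 0, .ofNat 0, .ofNat 0, .ofNat 0, .ofNat 0, .ofNat 0, .ofNat 0, .ofNat 0, .ofNat 0, .ofNat 0, .ofNat 0, .ofNat 0, .ofNat 451249578263140547286463259619622912, .ofNat 0, .ofNat 0, .ofNat 0⟩)
    (by decide +kernel)
theorem L00106 : Good (Phi V5.P V5.D (-1) 1) ⟨3, 0, 2, 1, 1, 0, 1, 0, 3, 1⟩ :=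
  leafX_sound T5.ok_mp T5.Ymp.bz_eq (w := 177) (c := ⟨⟨.negSucc 1215, .negSucc 53, .negSucc 17, .negSucc 111, .ofNat 150, .negSucc 86⟩, ⟨.negSucc 325, .negSucc 53, .negSucc 299, .negSucc 94, .ofNat 74, .negSucc 28⟩, ⟨.ofNat 1354, .ofNat 69, .ofNat 92, .negSucc 439, .negSucc 317, .ofNat 257⟩, ⟨.negSucc 3648, .negSucc 65, .ofNat 19, .negSucc 118, .ofNat 409, .negSucc 299⟩, ⟨.negSucc 144, .negSucc 7, .ofNat 31, .negSucc 561, .ofNat 165, .ofNat 34⟩, .ofNat 702, .negSucc 371, .ofNat 0, .negSucc 371, .ofNat 1220, .ofNat 0, .ofNat 283, .ofNat 91, .negSucc 69, .ofNat 0, .ofNat 128, .negSucc 14, .ofNat 0, .ofNat 0, .ofNat 506, .ofNat 479, .ofNat 0, .ofNat 0, .ofNat 0, .ofNat 0, .ofNat 0, .ofNat 0, .ofNat 0, .ofNat 0, .ofNat 0, .ofNat 0, .ofNat 0, .ofNat 0, .ofNat 416400523068859098104671819794481152, .ofNat 0, .ofNat 0, .ofNat 0⟩)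
    (by decide +kernel)
theorem L00107 : Good (Phi V5.P V5.D (-1) 1) ⟨3, 0, 2, 1, 1, 0, 2, 0, 3, 2⟩ :=
  leafX_sound T5.ok_mp T5.Ymp.bz_eq (w := 187) (c := ⟨⟨.negSucc 1299, .negSucc 54, .negSucc 33, .negSucc 102, .ofNat 88, .ofNat 126⟩, ⟨.negSucc 351, .negSucc 52, .negSucc 319, .negSucc 94, .ofNat 49, .ofNat 54⟩, ⟨.ofNat 1626, .ofNat 56, .ofNat 73, .negSucc 481, .negSucc 117, .ofNat 140⟩, ⟨.negSucc 3912, .negSucc 53, .ofNat 0, .negSucc 102, .ofNat 203, .ofNat 357⟩, ⟨.negSucc 75, .negSucc 14, .ofNat 1, .negSucc 575, .ofNat 107, .ofNat 98⟩, .ofNat 427, .negSucc 119, .ofNat 0, .negSucc 119, .ofNat 602, .ofNat 0, .ofNat 141, .ofNat 53, .negSucc 109, .ofNat 0, .ofNat 128, .ofNat 7, .ofNat 0, .ofNat 0, .ofNat 999, .ofNat 39033, .ofNat 4320610884529027873908644330726227968, .ofNat 0, .ofNat 0, .ofNat 0, .ofNat 18931010167470689538014325814513893376,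 .ofNat 0, .ofNat 0, .ofNat 0, .ofNat 5995076205065305550991112371865387008, .ofNat 0, .ofNat 0, .ofNat 0, .ofNat 29534407968936601517245652259292839936, .ofNat 0, .ofNat 0, .ofNat 0⟩)
    (by decide +kernel)
theorem L00108 : Good (Phi V5.P V5.D (-1) 1) ⟨3, 0, 2, 1, 1, 0, 2, 1, 4, 4⟩ :=
  leafX_sound T5.ok_mp T5.Ymp.bz_eq (w := 190) (c := ⟨⟨.negSucc 1229, .negSucc 32, .negSucc 17, .negSucc 108, .ofNat 100, .ofNat 60⟩, ⟨.negSucc 326, .negSucc 40, .negSucc 295, .negSucc 83, .ofNat 45, .ofNat 26⟩, ⟨.ofNat 1456, .negSucc 7, .ofNat 15, .negSucc 304, .negSucc 217, .negSucc 6⟩, ⟨.negSucc 3710, .negSucc 3, .ofNat 11, .negSucc 149, .ofNat 263, .ofNat 169⟩, ⟨.negSucc 45, .negSucc 17, .ofNat 6, .negSucc 463, .ofNat 75, .ofNat 18⟩, .ofNat 699, .negSucc 369, .ofNat 0, .negSucc 369, .ofNat 1218, .ofNat 0, .ofNat 128, .ofNat 106, .negSucc 62, .ofNat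 0, .ofNat 151, .negSucc 11, .ofNat 0, .ofNat 0, .ofNat 722, .ofNat 10768, .ofNat 0, .ofNat 0, .ofNat 0, .ofNat 0, .ofNat 10458496956241718278619346562919170048, .ofNat 0, .ofNat 0, .ofNat 0, .ofNat 0, .ofNat 0, .ofNat 0, .ofNat 0, .ofNat 0, .ofNat 0, .ofNat 0, .ofNat 0⟩)
    (by decide +kernel)
theorem L00109 : Good (Phi V5.P V5.D (-1) 1) ⟨3, 0, 2, 1, 2, 0, 2, 1, 4, 5⟩ :=
  leafX_sound T5.ok_mp T5.Ymp.bz_eq (w := 206) (c := ⟨⟨.negSucc 1182, .negSucc 25, .negSucc 6, .negSucc 38, .ofNat 100, .ofNat 58⟩, ⟨.negSucc 316, .negSucc 35, .negSucc 271, .negSucc 33, .ofNat 42, .ofNat 26⟩, ⟨.ofNat 1487, .ofNat 28, .negSucc 19, .negSucc 86, .negSucc 339, .negSucc 45⟩, ⟨.negSucc 3561, .negSucc 1, .ofNat 6, .negSucc 41, .ofNat 282, .ofNat 179⟩, ⟨.negSucc 13, .ofNat 1, .negSucc 0, .negSucc 193, .ofNat 13, .ofNat 12⟩, .ofNat 194, .negSucc 21, .ofNat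 0, .negSucc 21, .ofNat 225, .ofNat 0, .ofNat 226, .ofNat 22, .negSucc 83, .ofNat 0, .ofNat 128, .negSucc 1, .ofNat 0, .ofNat 0, .ofNat 517, .ofNat 39040, .ofNat 70353259520068495594758598741564623683584, .ofNat 0, .ofNat 0, .ofNat 0, .ofNat 489058195108442299276678906640357732122624, .ofNat 0, .ofNat 0, .ofNat 0, .ofNat 0, .ofNat 0, .ofNat 0, .ofNat 0, .ofNat 161229092536270975646415258405371597815808, .ofNat 0, .ofNat 0, .ofNat 0⟩)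
    (by decide +kernel)
theorem L00110 : Good (Phi V5.P V5.D (-1) 1) ⟨4, 0, 2, 1, 2, 1, 3, 2, 5, 10⟩ :=
  leafX_sound T5.ok_mp T5.Ymp.bz_eq (w := 221) (c := ⟨⟨.negSucc 1197, .negSucc 10, .negSucc 27, .negSucc 51, .ofNat 32, .ofNat 43⟩, ⟨.negSucc 336, .negSucc 23, .negSucc 289, .negSucc 42, .ofNat 18, .ofNat 19⟩, ⟨.ofNat 1328, .ofNat 10, .negSucc 8, .negSucc 174, .negSucc 107, .ofNat 24⟩, ⟨.negSucc 3559, .negSucc 3, .ofNat 16, .negSucc 63, .ofNat 85, .ofNat 114⟩, ⟨.negSucc 246, .negSucc 1, .negSucc 5, .negSucc 233, .ofNat 36, .ofNat 31⟩, .ofNat 695, .negSucc 355, .ofNat 0, .negSucc 355, .ofNat 1206, .ofNat 0, .ofNat 172, .ofNat 87, .negSucc 33, .ofNat 0, .ofNat 128, .negSucc 2, .ofNat 0, .ofNat 0, .ofNat 591, .ofNat 156884, .ofNat 300140873704087697976116550837435232820396032, .ofNat 0, .ofNat 0, .ofNat 0, .ofNat 489613665433722564624037156602835711635226624,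 .ofNat 0, .ofNat 0, .ofNat 0, .ofNat 0, .ofNat 0, .ofNat 0, .ofNat 0, .ofNat 1118435938402129909095171129905816145405935616, .ofNat 0, .ofNat 0, .ofNat 0⟩)
    (by decide +kernel)
theorem L00111 : Good (Phi V5.P V5.D (-1) 1) ⟨4, 1, 2, 1, 2, 1, 3, 2, 5, 10⟩ :=
  leafX_sound T5.ok_mp T5.Ymp.bz_eq (w := 221) (c := ⟨⟨.negSucc 1215, .negSucc 25, .negSucc 26, .negSucc 53, .ofNat 41, .ofNat 44⟩, ⟨.negSucc 360, .negSucc 19, .negSucc 292, .negSucc 44, .ofNat 21, .ofNat 21⟩, ⟨.ofNat 1357, .ofNat 28, .negSucc 3, .negSucc 173, .negSucc 136, .ofNat 26⟩, ⟨.negSucc 3580, .negSucc 9, .ofNat 14, .negSucc 58, .ofNat 99, .ofNat 121⟩, ⟨.negSucc 248, .ofNat 0, .negSucc 4, .negSucc 238, .ofNat 40, .ofNat 28⟩, .ofNat 430, .negSucc 130, .ofNat 0, .negSucc 130, .ofNat 607, .ofNat 0, .ofNat 171, .ofNat 58, .negSucc 49, .ofNat 0, .ofNat 128, .ofNat 3, .ofNat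 0, .ofNat 0, .ofNat 601, .ofNat 181168, .ofNat 251802401778129309850899747766787206828523520, .ofNat 0, .ofNat 0, .ofNat 0, .ofNat 582334344250685404702494367047279895778426880, .ofNat 0, .ofNat 0, .ofNat 0, .ofNat 704717559799053674492163305117717869545652224, .ofNat 0, .ofNat 0, .ofNat 0, .ofNat 1099888857605343717506699544244828948509229056, .ofNat 0, .ofNat 0, .ofNat 0⟩)
    (by decide +kernel)
theorem L00112 : Good (Phi V5.P V5.D (-1) 1) ⟨3, 0, 2, 1, 2, 1, 3, 2, 5, 11⟩ :=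
  leafX_sound T5.ok_mp T5.Ymp.bz_eq (w := 219) (c := ⟨⟨.negSucc 1183, .negSucc 30, .negSucc 26, .negSucc 26, .ofNat 41, .ofNat 44⟩, ⟨.negSucc 323, .negSucc 38, .negSucc 283, .negSucc 36, .ofNat 13, .ofNat 23⟩, ⟨.ofNat 1340, .ofNat 27, .negSucc 27, .negSucc 139, .negSucc 122, .ofNat 29⟩, ⟨.negSucc 3493, .negSucc 1, .ofNat 23, .negSucc 9, .ofNat 84, .ofNat 126⟩, ⟨.negSucc 248, .negSucc 1, .negSucc 9, .negSucc 208, .ofNat 46, .ofNat 32⟩, .ofNat 194, .negSucc 21, .ofNat 0, .negSucc 21, .ofNat 225, .ofNat 0, .ofNat 197, .ofNat 20, .negSucc 117, .ofNat 0, .ofNat 128, .ofNat 37, .ofNat 0, .ofNat 0, .ofNat 825, .ofNat 778540, .ofNat 117711447810932372674340316126778542688043008, .ofNat 0, .ofNat 0, .ofNat 0, .ofNat 210667185640267044239740593780256537306988544, .ofNat 0, .ofNat 0, .ofNat 0, .ofNat 50951532186865198856428464867071967864291328,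 .ofNat 0, .ofNat 0, .ofNat 0, .ofNat 183721098236495150417584283433811716383703040, .ofNat 0, .ofNat 0, .ofNat 0⟩)
    (by decide +kernel)
theorem L00113 : Good (Phi V5.P V5.D (-1) 1) ⟨3, 0, 2, 1, 2, 1, 3, 3, 4, 5⟩ :=
  leafX_sound T5.ok_mp T5.Ymp.bz_eq (w := 210) (c := ⟨⟨.negSucc 1167, .negSucc 25, .negSucc 20, .negSucc 49, .ofNat 43, .ofNat 71⟩, ⟨.negSucc 331, .negSucc 37, .negSucc 278, .negSucc 36, .ofNat 22, .ofNat 31⟩, ⟨.ofNat 1202, .ofNat 16, .negSucc 45, .negSucc 89, .negSucc 130, .negSucc 9⟩, ⟨.negSucc 3463, .ofNat 2, .ofNat 19, .negSucc 81, .ofNat 110, .ofNat 207⟩, ⟨.negSucc 237, .ofNat 9, .negSucc 5, .negSucc 190, .ofNat 33, .ofNat 40⟩, .ofNat 427, .negSucc 119, .ofNat 0, .negSucc 119, .ofNat 602, .ofNat 0, .ofNat 151, .ofNat 53, .negSucc 47, .ofNat 0, .ofNat 128, .negSucc 0, .ofNat 0, .ofNat 0, .ofNat 599, .ofNat 29773,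 .ofNat 226984587691138942262254156496006111297536, .ofNat 0, .ofNat 0, .ofNat 0, .ofNat 1275949861162152556628101959324749547962368, .ofNat 0, .ofNat 0, .ofNat 0, .ofNat 0, .ofNat 0, .ofNat 0, .ofNat 0, .ofNat 0, .ofNat 0, .ofNat 0, .ofNat 0⟩)
    (by decide +kernel)
theorem L00114 : Good (Phi V5.P V5.D (-1) 1) ⟨3, 0, 2, 1, 1, 0, 1, 0, 3, 3⟩ :=
  leafX_sound T5.ok_mp T5.Ymp.bz_eq (w := 184) (c := ⟨⟨.negSucc 1154, .negSucc 17, .negSucc 16, .negSucc 76, .ofNat 125, .ofNat 162⟩, ⟨.negSucc 355, .negSucc 31, .negSucc 264, .negSucc 57, .ofNat 93, .ofNat 72⟩, ⟨.ofNat 1577, .ofNat 7, .negSucc 99, .negSucc 69, .negSucc 484, .ofNat 16⟩, ⟨.negSucc 3400, .ofNat 20, .ofNat 24, .negSucc 118, .ofNat 284, .ofNat 443⟩, ⟨.negSucc 250, .ofNat 14, .negSucc 6, .negSucc 299, .ofNat 214, .ofNat 117⟩, .ofNat 429, .negSucc 126, .ofNat 0, .negSucc 126, .ofNat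 605, .ofNat 0, .ofNat 189, .ofNat 55, .negSucc 60, .ofNat 0, .ofNat 128, .negSucc 4, .ofNat 0, .ofNat 0, .ofNat 1028, .ofNat 78264, .ofNat 1616230243416512700404679075824664576, .ofNat 0, .ofNat 0, .ofNat 0, .ofNat 4983840700695482651574629677628653568, .ofNat 0, .ofNat 0, .ofNat 0, .ofNat 4826656175261909496968697938167463936, .ofNat 0, .ofNat 0, .ofNat 0, .ofNat 13528090096684461202506595998260789248, .ofNat 0, .ofNat 0, .ofNat 0⟩)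
    (by decide +kernel)
theorem L00115 : Good (Phi V5.P V5.D (-1) 1) ⟨3, 0, 2, 1, 1, 0, 1, 0, 1, 1⟩ :=
  out_sound (S := T5.ds_mp) T5.ok_mp (w := 15) (j := 1) (by decide +kernel)
theorem L00116 : Good (Phi V5.P V5.D (-1) 1) ⟨3, 0, 3, 2, 2, 0, 2, 2, 3, 0⟩ :=
  leafX_sound T5.ok_mp T5.Ymp.bz_eq (w := 198) (c := ⟨⟨.negSucc 75, .negSucc 15, .negSucc 50, .ofNat 43, .negSucc 66, .negSucc 951⟩, ⟨.ofNat 42, .negSucc 42, .negSucc 92, .negSucc 2, .negSucc 27, .negSucc 309⟩, ⟨.ofNat 20, .negSucc 22, .ofNat 72, .negSucc 98, .ofNat 54, .ofNat 941⟩, ⟨.negSucc 301, .ofNat 27, .negSucc 110, .ofNat 227, .negSucc 226, .negSucc 2789⟩, ⟨.ofNat 95, .negSucc 79, .negSucc 60, .negSucc 366, .ofNat 74, .negSucc 7⟩, .ofNat 865, .negSucc 541, .ofNat 0, .negSucc 541, .ofNat 1767, .ofNat 0, .ofNat 158, .ofNat 93, .negSucc 98, .ofNat 0, .ofNat 128, .negSucc 30,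 .ofNat 0, .ofNat 0, .ofNat 313, .ofNat 625, .ofNat 0, .ofNat 0, .ofNat 0, .ofNat 0, .ofNat 0, .ofNat 0, .ofNat 0, .ofNat 0, .ofNat 0, .ofNat 0, .ofNat 0, .ofNat 0, .ofNat 0, .ofNat 0, .ofNat 0, .ofNat 0⟩)
    (by decide +kernel)
theorem L00117 : Good (Phi V5.P V5.D (-1) 1) ⟨3, 0, 3, 2, 2, 0, 2, 2, 3, 1⟩ :=
  leafX_sound T5.ok_mp T5.Ymp.bz_eq (w := 201) (c := ⟨⟨.negSucc 1125, .negSucc 32, .negSucc 7, .negSucc 46, .ofNat 137, .negSucc 6⟩, ⟨.negSucc 289, .negSucc 38, .negSucc 135, .negSucc 35, .ofNat 46, .negSucc 1⟩, ⟨.ofNat 1163, .negSucc 5, .ofNat 10, .negSucc 64, .negSucc 277, .ofNat 6⟩, ⟨.negSucc 3402, .negSucc 13, .negSucc 2, .negSucc 63, .ofNat 384, .negSucc 14⟩, ⟨.negSucc 4, .ofNat 8, .negSucc 0, .negSucc 215, .ofNat 31, .negSucc 9⟩, .ofNat 1003, .negSucc 736, .ofNat 0, .negSucc 736, .ofNat 2252, .ofNat 0, .ofNat 294, .ofNat 95,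 .negSucc 148, .ofNat 0, .ofNat 128, .negSucc 42, .ofNat 0, .ofNat 0, .ofNat 893, .ofNat 4165, .ofNat 0, .ofNat 0, .ofNat 0, .ofNat 0, .ofNat 0, .ofNat 0, .ofNat 0, .ofNat 0, .ofNat 0, .ofNat 0, .ofNat 0, .ofNat 0, .ofNat 0, .ofNat 0, .ofNat 0, .ofNat 0⟩)
    (by decide +kernel)

end Crest.Agent.R097C5.N5mp
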