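import Crest.Agent.R097.KP7
import Crest.Agent.R097.T5Ymp

/-!
# Row 97, box cover in dimension n = 5 (generated)
-/

set_option autoImplicit false
set_option Elab.async false
set_option maxHeartbeats 0
set_option maxRecDepth 100000

open Crest.Agent.R097 Crest.Agent.R097.KA


namespace Crest.Agent.R097C5.N5mp

theorem L00118 : Good (Phi V5.P V5.D (-1) 1) ⟨3, 0, 3, 2, 2, 0, 3, 6, 2, 0⟩ :=
  leafX_sound T5.ok_mp T5.Ymp.bz_eq (w := 197) (c := ⟨⟨.negSucc 742, .negSucc 28, .negSucc 1, .negSucc 41, .ofNat 100, .negSucc 270⟩, ⟨.negSucc 174, .negSucc 34, .negSucc 116, .negSucc 36, .ofNat 35, .negSucc 86⟩, ⟨.ofNat 738, .ofNat 2, .ofNat 9, .negSucc 24, .negSucc 183, .ofNat 101⟩, ⟨.negSucc 2176, .negSucc 37, .ofNat 13, .negSucc 63, .ofNat 291, .negSucc 889⟩, ⟨.negSucc 55, .ofNat 35, .negSucc 19, .negSucc 211, .ofNat 11, .ofNat 64⟩, .ofNat 658,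 .negSucc 282, .ofNat 0, .negSucc 282, .ofNat 1150, .ofNat 0, .ofNat 269, .ofNat 73, .negSucc 117, .ofNat 0, .ofNat 128, .negSucc 29, .ofNat 0, .ofNat 0, .ofNat 467, .ofNat 743, .ofNat 0, .ofNat 0, .ofNat 0, .ofNat 0, .ofNat 0, .ofNat 0, .ofNat 0, .ofNat 0, .ofNat 0, .ofNat 0, .ofNat 0, .ofNat 0, .ofNat 0, .ofNat 0, .ofNat 0, .ofNat 0⟩)
    (by decide +kernel)
theorem L00119 : Good (Phi V5.P V5.D (-1) 1) ⟨3, 0, 3, 2, 2, 0, 3, 7, 2, 0⟩ :=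
  leafX_sound T5.ok_mp T5.Ymp.bz_eq (w := 198) (c := ⟨⟨.negSucc 586, .negSucc 6, .negSucc 9, .negSucc 79, .ofNat 362, .negSucc 310⟩, ⟨.negSucc 158, .negSucc 11, .negSucc 89, .negSucc 36, .ofNat 122, .negSucc 88⟩, ⟨.ofNat 579, .ofNat 3, .ofNat 14, .ofNat 69, .negSucc 486, .negSucc 48⟩, ⟨.negSucc 1759, .ofNat 20, .ofNat 13, .negSucc 181, .ofNat 1077, .negSucc 956⟩, ⟨.negSucc 19, .ofNat 7, .negSucc 99, .negSucc 174, .ofNat 4, .ofNat 87⟩, .ofNat 773, .negSucc 418, .ofNat 0, .negSucc 418, .ofNat 1483, .ofNat 0, .ofNat 235, .ofNat 86, .negSucc 169, .ofNat 0, .ofNat 128, .negSucc 49, .ofNat 0, .ofNat 0, .ofNat 542, .ofNat 1206, .ofNat 0, .ofNat 0, .ofNat 0, .ofNat 0, .ofNat 0, .ofNat 431363347974219843833901195129509642240, .ofNat 0, .ofNat 0, .ofNat 0, .ofNat 0, .ofNat 0, .ofNat 0, .ofNat 0, .ofNat 0, .ofNat 0, .ofNat 0⟩)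
    (by decide +kernel)
theorem L00120 : Good (Phi V5.P V5.D (-1) 1) ⟨3, 0, 3, 2, 2, 0, 2, 2, 3, 2⟩ :=
  leafX_sound T5.ok_mp T5.Ymp.bz_eq (w := 202) (c := ⟨⟨.negSucc 1129, .negSucc 24, .negSucc 3, .negSucc 35, .ofNat 108, .ofNat 95⟩, ⟨.negSucc 292, .negSucc 34, .negSucc 130, .negSucc 30, .ofNat 37, .ofNat 33⟩, ⟨.ofNat 1205, .ofNat 11, .negSucc 6, .negSucc 60, .negSucc 358, .negSucc 131⟩, ⟨.negSucc 3383, .negSucc 6, .ofNat 2, .negSucc 53, .ofNat 301, .ofNat 262⟩, ⟨.negSucc 39, .ofNat 6, .negSucc 7, .negSucc 170, .ofNat 41, .ofNat 34⟩, .ofNat 980, .negSucc 699, .ofNat 0, .negSucc 699, .ofNat 2183, .ofNat 0, .ofNat 252, .ofNat 94, .negSucc 43, .ofNat 0, .ofNat 128, .negSucc 12, .ofNat 0, .ofNat 0, .ofNat 509, .ofNat 11324, .ofNat 0, .ofNat 0, .ofNat 0, .ofNat 0, .ofNat 0, .ofNat 0, .ofNat 0, .ofNat 0, .ofNat 0, .ofNat 0, .ofNat 0, .ofNat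 0, .ofNat 0, .ofNat 0, .ofNat 0, .ofNat 0⟩)
    (by decide +kernel)
theorem L00121 : Good (Phi V5.P V5.D (-1) 1) ⟨3, 0, 3, 2, 2, 0, 2, 3, 3, 2⟩ :=
  leafX_sound T5.ok_mp T5.Ymp.bz_eq (w := 200) (c := ⟨⟨.negSucc 976, .ofNat 0, .ofNat 4, .negSucc 52, .ofNat 218, .negSucc 1⟩, ⟨.negSucc 256, .negSucc 25, .negSucc 113, .negSucc 24, .ofNat 84, .ofNat 5⟩, ⟨.ofNat 833, .negSucc 7, .negSucc 19, .negSucc 4, .negSucc 576, .negSucc 126⟩, ⟨.negSucc 2913, .ofNat 62, .ofNat 31, .negSucc 140, .ofNat 614, .negSucc 37⟩, ⟨.negSucc 82, .negSucc 9, .negSucc 40, .negSucc 57, .ofNat 121, .ofNat 94⟩, .ofNat 768, .negSucc 405, .ofNat 0, .negSucc 405, .ofNat 1469, .ofNat 0, .ofNat 256, .ofNat 83, .negSucc 51, .ofNat 0, .ofNat 128, .negSucc 15, .ofNat 0, .ofNat 0, .ofNat 390, .ofNat 1825, .ofNat 0, .ofNat 0, .ofNat 0, .ofNat 0, .ofNat 0, .ofNat 16691335821861102034555787283520668303360,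 .ofNat 0, .ofNat 0, .ofNat 0, .ofNat 6550244608174309402820457060778368827392, .ofNat 0, .ofNat 0, .ofNat 0, .ofNat 0, .ofNat 0, .ofNat 0⟩)
    (by decide +kernel)
theorem L00122 : Good (Phi V5.P V5.D (-1) 1) ⟨3, 0, 3, 2, 2, 0, 1, 1, 3, 3⟩ :=
  leafX_sound T5.ok_mp T5.Ymp.bz_eq (w := 195) (c := ⟨⟨.negSucc 1028, .negSucc 14, .negSucc 5, .negSucc 30, .ofNat 189, .negSucc 10⟩, ⟨.negSucc 275, .negSucc 26, .negSucc 122, .negSucc 18, .ofNat 79, .ofNat 5⟩, ⟨.ofNat 1115, .ofNat 24, .negSucc 12, .negSucc 52, .negSucc 910, .negSucc 58⟩, ⟨.negSucc 3076, .ofNat 6, .negSucc 2, .negSucc 64, .ofNat 515, .negSucc 42⟩, ⟨.negSucc 75, .ofNat 5, .negSucc 42, .negSucc 71, .ofNat 174, .ofNat 38⟩, .ofNat 662, .negSucc 290, .ofNat 0, .negSucc 290, .ofNat 1151, .ofNat 0, .ofNat 235, .ofNat 74, .negSucc 23, .ofNat 0, .ofNat 128, .negSucc 7, .ofNat 0, .ofNat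 0, .ofNat 344, .ofNat 784, .ofNat 0, .ofNat 0, .ofNat 0, .ofNat 0, .ofNat 0, .ofNat 0, .ofNat 0, .ofNat 0, .ofNat 0, .ofNat 0, .ofNat 0, .ofNat 0, .ofNat 3199210333919069355083184756241048010752, .ofNat 0, .ofNat 0, .ofNat 0⟩)
    (by decide +kernel)
theorem L00123 : Good (Phi V5.P V5.D (-1) 1) ⟨3, 0, 3, 2, 2, 0, 1, 1, 1, 1⟩ :=
  leafX_sound T5.ok_mp T5.Ymp.bz_eq (w := 193) (c := ⟨⟨.negSucc 957, .negSucc 25, .ofNat 0, .ofNat 0, .ofNat 0, .ofNat 0⟩, ⟨.negSucc 239, .negSucc 32, .negSucc 119, .ofNat 0, .ofNat 0, .ofNat 0⟩, ⟨.ofNat 260, .ofNat 26, .ofNat 0, .ofNat 0, .ofNat 0, .ofNat 0⟩, ⟨.negSucc 2881, .negSucc 10, .ofNat 0, .ofNat 1, .negSucc 0, .ofNat 1⟩, ⟨.ofNat 0, .ofNat 0, .ofNat 0, .ofNat 0, .ofNat 0, .ofNat 0⟩, .ofNat 193, .negSucc 18, .ofNat 0, .negSucc 18, .ofNat 225, .ofNat 0, .ofNat 142, .ofNat 19, .negSucc 102, .ofNat 0, .ofNat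 128, .negSucc 11, .ofNat 0, .ofNat 0, .ofNat 301, .ofNat 109040, .ofNat 0, .ofNat 0, .ofNat 0, .ofNat 0, .ofNat 1226648188033727275859412040857472204800000000, .ofNat 60525302055635769806077197239125687228432384, .ofNat 0, .ofNat 0, .ofNat 1226648188033727275859412040857472204800000000, .ofNat 54117025560169569408987585799535068671115264, .ofNat 0, .ofNat 0, .ofNat 1226648188033727275859412040857472204800000000, .ofNat 60525380138531743390619568624470532112252928, .ofNat 0, .ofNat 0⟩)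
    (by decide +kernel)
theorem L00124 : Good (Phi V5.P V5.D (-1) 1) ⟨3, 0, 3, 3, 3, 0, 2, 2, 2, 0⟩ :=
  leafX_sound T5.ok_mp T5.Ymp.bz_eq (w := 207) (c := ⟨⟨.negSucc 727, .negSucc 42, .negSucc 5, .negSucc 16, .ofNat 135, .negSucc 425⟩, ⟨.negSucc 252, .negSucc 39, .negSucc 125, .negSucc 13, .ofNat 62, .negSucc 198⟩, ⟨.ofNat 646, .ofNat 72, .ofNat 26, .ofNat 2, .negSucc 252, .ofNat 456⟩, ⟨.negSucc 2061, .negSucc 78, .negSucc 5, .negSucc 7, .ofNat 369, .negSucc 1398⟩, ⟨.negSucc 26, .negSucc 25, .negSucc 34, .negSucc 119, .ofNat 7, .ofNat 73⟩, .ofNat 744, .negSucc 445, .ofNat 0, .negSucc 445, .ofNat 1280, .ofNat 0, .ofNat 211, .ofNat 99, .negSucc 106, .ofNat 0, .ofNat 128, .negSucc 40, .ofNat 0, .ofNat 0, .ofNat 428, .ofNat 405, .ofNat 0, .ofNat 0, .ofNat 0, .ofNat 0, .ofNat 0, .ofNat 0, .ofNat 0, .ofNat 0, .ofNat 0, .ofNat 0, .ofNat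 0, .ofNat 0, .ofNat 0, .ofNat 0, .ofNat 0, .ofNat 0⟩)
    (by decide +kernel)
theorem L00125 : Good (Phi V5.P V5.D (-1) 1) ⟨3, 0, 3, 3, 3, 0, 2, 2, 3, 2⟩ :=
  leafX_sound T5.ok_mp T5.Ymp.bz_eq (w := 217) (c := ⟨⟨.negSucc 1126, .negSucc 24, .negSucc 2, .negSucc 14, .ofNat 108, .ofNat 85⟩, ⟨.negSucc 433, .negSucc 34, .negSucc 129, .negSucc 13, .ofNat 50, .ofNat 38⟩, ⟨.ofNat 1208, .ofNat 15, .negSucc 4, .negSucc 43, .negSucc 365, .negSucc 143⟩, ⟨.negSucc 3384, .negSucc 6, .negSucc 3, .negSucc 3, .ofNat 317, .ofNat 242⟩, ⟨.negSucc 11, .negSucc 0, .negSucc 1, .negSucc 84, .ofNat 12, .ofNat 12⟩, .ofNat 746, .negSucc 451, .ofNat 0, .negSucc 451, .ofNat 1291, .ofNat 0, .ofNat 194, .ofNat 100, .negSucc 41, .ofNat 0, .ofNat 128, .negSucc 15, .ofNat 0, .ofNat 0, .ofNat 441, .ofNat 16467, .ofNat 0, .ofNat 0, .ofNat 0, .ofNat 0, .ofNat 0, .ofNat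 0, .ofNat 0, .ofNat 0, .ofNat 0, .ofNat 0, .ofNat 0, .ofNat 0, .ofNat 14823415313476398249448953080495130233798656, .ofNat 0, .ofNat 0, .ofNat 0⟩)
    (by decide +kernel)
theorem L00126 : Good (Phi V5.P V5.D (-1) 1) ⟨3, 0, 3, 3, 3, 0, 2, 2, 3, 3⟩ :=
  leafX_sound T5.ok_mp T5.Ymp.bz_eq (w := 218) (c := ⟨⟨.negSucc 1038, .negSucc 20, .negSucc 0, .negSucc 8, .ofNat 89, .ofNat 69⟩, ⟨.negSucc 396, .negSucc 31, .negSucc 121, .negSucc 10, .ofNat 42, .ofNat 33⟩, ⟨.ofNat 1110, .ofNat 22, .negSucc 9, .negSucc 70, .negSucc 417, .negSucc 156⟩, ⟨.negSucc 3118, .ofNat 5, .ofNat 1, .ofNat 4, .ofNat 251, .ofNat 199⟩, ⟨.negSucc 12, .ofNat 0, .negSucc 2, .negSucc 68, .ofNat 20, .ofNat 16⟩, .ofNat 438, .negSucc 146, .ofNat 0, .negSucc 146, .ofNat 614, .ofNat 0, .ofNat 164, .ofNat 61, .negSucc 21, .ofNat 0, .ofNat 128, .negSucc 6, .ofNat 0, .ofNat 0, .ofNat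 318, .ofNat 30969, .ofNat 0, .ofNat 0, .ofNat 0, .ofNat 0, .ofNat 1838091858430144918711308530842483113198616576, .ofNat 0, .ofNat 0, .ofNat 0, .ofNat 0, .ofNat 0, .ofNat 0, .ofNat 0, .ofNat 173576099123337380949846981646108214236807168, .ofNat 0, .ofNat 0, .ofNat 0⟩)
    (by decide +kernel)
theorem L00127 : Good (Phi V5.P V5.D (-1) 1) ⟨3, 0, 3, 3, 3, 0, 2, 2, 1, 1⟩ :=
  out_sound (S := T5.ds_mp) T5.ok_mp (w := 20) (j := 1) (by decide +kernel)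
theorem L00128 : Good (Phi V5.P V5.D (-1) 1) ⟨3, 0, 3, 3, 3, 1, 2, 2, 3, 0⟩ :=
  leafX_sound T5.ok_mp T5.Ymp.bz_eq (w := 212) (c := ⟨⟨.negSucc 46, .ofNat 7, .ofNat 9, .negSucc 2, .negSucc 133, .negSucc 1036⟩, ⟨.ofNat 22, .negSucc 13, .negSucc 76, .negSucc 10, .negSucc 60, .negSucc 482⟩, ⟨.negSucc 14, .negSucc 32, .ofNat 5, .negSucc 25, .ofNat 124, .ofNat 1016⟩, ⟨.negSucc 165, .ofNat 99, .negSucc 65, .ofNat 24, .negSucc 369, .negSucc 2944⟩, ⟨.negSucc 8, .negSucc 70, .ofNat 239, .negSucc 46, .negSucc 96, .negSucc 311⟩, .ofNat 1069, .negSucc 890, .ofNat 0, .negSucc 890, .ofNat 2150, .ofNat 0, .ofNat 212, .ofNat 124, .negSucc 140, .ofNat 0, .ofNat 128, .negSucc 57, .ofNat 0, .ofNat 0, .ofNat 438, .ofNat 886, .ofNat 0, .ofNat 0, .ofNat 0, .ofNat 0, .ofNat 0, .ofNat 0, .ofNat 0, .ofNat 0, .ofNat 0, .ofNat 0, .ofNat 0, .ofNat 0, .ofNat 0,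 .ofNat 0, .ofNat 0, .ofNat 0⟩)
    (by decide +kernel)
theorem L00129 : Good (Phi V5.P V5.D (-1) 1) ⟨3, 0, 3, 3, 3, 1, 2, 2, 3, 1⟩ :=
  leafX_sound T5.ok_mp T5.Ymp.bz_eq (w := 215) (c := ⟨⟨.negSucc 1156, .negSucc 32, .negSucc 0, .negSucc 34, .ofNat 143, .negSucc 3⟩, ⟨.negSucc 454, .negSucc 39, .negSucc 131, .negSucc 23, .ofNat 68, .ofNat 0⟩, ⟨.ofNat 1165, .ofNat 15, .negSucc 6, .negSucc 31, .negSucc 298, .negSucc 31⟩, ⟨.negSucc 3426, .negSucc 24, .ofNat 17, .negSucc 60, .ofNat 415, .negSucc 30⟩, ⟨.negSucc 113, .negSucc 0, .negSucc 2, .negSucc 107, .ofNat 13, .ofNat 12⟩, .ofNat 747, .negSucc 453, .ofNat 0, .negSucc 453, .ofNat 1291, .ofNat 0, .ofNat 177, .ofNat 102, .negSucc 96, .ofNat 0, .ofNat 128, .negSucc 32, .ofNat 0, .ofNat 0, .ofNat 573, .ofNat 4113, .ofNat 0, .ofNat 0, .ofNat 0, .ofNat 0, .ofNat 0, .ofNat 0, .ofNat 0, .ofNat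 0, .ofNat 0, .ofNat 0, .ofNat 0, .ofNat 0, .ofNat 0, .ofNat 0, .ofNat 0, .ofNat 0⟩)
    (by decide +kernel)
theorem L00130 : Good (Phi V5.P V5.D (-1) 1) ⟨3, 0, 3, 3, 3, 1, 2, 2, 3, 2⟩ :=
  leafX_sound T5.ok_mp T5.Ymp.bz_eq (w := 216) (c := ⟨⟨.negSucc 1148, .negSucc 18, .negSucc 3, .negSucc 24, .ofNat 107, .ofNat 94⟩, ⟨.negSucc 452, .negSucc 32, .negSucc 130, .negSucc 17, .ofNat 52, .ofNat 46⟩, ⟨.ofNat 1178, .ofNat 11, .negSucc 18, .negSucc 30, .negSucc 358, .negSucc 161⟩, ⟨.negSucc 3409, .ofNat 19, .ofNat 5, .negSucc 36, .ofNat 296, .ofNat 263⟩, ⟨.negSucc 121, .negSucc 7, .negSucc 6, .negSucc 84, .ofNat 46, .ofNat 38⟩, .ofNat 1069, .negSucc 890, .ofNat 0, .negSucc 890, .ofNat 2152, .ofNat 0, .ofNat 201, .ofNat 122, .negSucc 38, .ofNat 0, .ofNat 128, .negSucc 15, .ofNat 0, .ofNat 0, .ofNat 465, .ofNat 11493, .ofNat 0, .ofNat 0, .ofNat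 0, .ofNat 0, .ofNat 0, .ofNat 0, .ofNat 0, .ofNat 0, .ofNat 0, .ofNat 0, .ofNat 0, .ofNat 0, .ofNat 0, .ofNat 0, .ofNat 0, .ofNat 0⟩)
    (by decide +kernel)
theorem L00131 : Good (Phi V5.P V5.D (-1) 1) ⟨3, 0, 3, 3, 3, 1, 2, 2, 3, 3⟩ :=
  leafX_sound T5.ok_mp T5.Ymp.bz_eq (w := 217) (c := ⟨⟨.negSucc 1050, .negSucc 17, .negSucc 1, .negSucc 19, .ofNat 90, .ofNat 77⟩, ⟨.negSucc 411, .negSucc 29, .negSucc 123, .negSucc 13, .ofNat 47, .ofNat 37⟩, ⟨.ofNat 1051, .ofNat 16, .negSucc 34, .negSucc 32, .negSucc 406, .negSucc 180⟩, ⟨.negSucc 3116, .ofNat 17, .ofNat 5, .negSucc 33, .ofNat 239, .ofNat 209⟩, ⟨.negSucc 118, .ofNat 10, .negSucc 0, .negSucc 59, .ofNat 61, .ofNat 58⟩, .ofNat 437, .negSucc 146, .ofNat 0, .negSucc 146, .ofNat 616, .ofNat 0, .ofNat 219, .ofNat 62, .negSucc 20, .ofNat 0, .ofNat 128, .negSucc 6, .ofNat 0, .ofNat 0, .ofNat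 256, .ofNat 14084, .ofNat 0, .ofNat 0, .ofNat 0, .ofNat 0, .ofNat 0, .ofNat 0, .ofNat 0, .ofNat 0, .ofNat 0, .ofNat 0, .ofNat 0, .ofNat 0, .ofNat 200313001283774434149238401502183477536096256, .ofNat 0, .ofNat 0, .ofNat 0⟩)
    (by decide +kernel)
theorem L00132 : Good (Phi V5.P V5.D (-1) 1) ⟨3, 0, 3, 3, 3, 1, 2, 2, 1, 1⟩ :=
  out_sound (S := T5.ds_mp) T5.ok_mp (w := 20) (j := 1) (by decide +kernel)
theorem L00133 : Good (Phi V5.P V5.D (-1) 1) ⟨3, 0, 3, 3, 2, 0, 3, 6, 2, 0⟩ :=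
  leafX_sound T5.ok_mp T5.Ymp.bz_eq (w := 197) (c := ⟨⟨.negSucc 767, .negSucc 28, .negSucc 16, .negSucc 61, .ofNat 128, .negSucc 234⟩, ⟨.negSucc 283, .negSucc 33, .negSucc 118, .negSucc 41, .ofNat 56, .negSucc 102⟩, ⟨.ofNat 809, .ofNat 17, .ofNat 8, .negSucc 14, .negSucc 220, .ofNat 3⟩, ⟨.negSucc 2254, .negSucc 24, .negSucc 26, .negSucc 104, .ofNat 366, .negSucc 781⟩, ⟨.negSucc 76, .ofNat 13, .negSucc 15, .negSucc 164, .ofNat 11, .ofNat 73⟩, .ofNat 745, .negSucc 449, .ofNat 0, .negSucc 449, .ofNat 1288, .ofNat 0, .ofNat 205, .ofNat 100, .negSucc 121, .ofNat 0, .ofNat 128, .negSucc 45, .ofNat 0, .ofNat 0, .ofNat 470, .ofNat 631, .ofNat 0, .ofNat 0, .ofNat 0, .ofNat 0, .ofNat 0, .ofNat 0, .ofNat 0, .ofNat 0, .ofNat 0, .ofNat 0, .ofNat 0, .ofNat 0, .ofNat 0, .ofNat 0, .ofNat 0, .ofNat 0⟩)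
    (by decide +kernel)
theorem L00134 : Good (Phi V5.P V5.D (-1) 1) ⟨3, 0, 3, 3, 2, 0, 3, 7, 3, 0⟩ :=
  leafX_sound T5.ok_mp T5.Ymp.bz_eq (w := 203) (c := ⟨⟨.negSucc 578, .negSucc 19, .negSucc 7, .negSucc 137, .ofNat 465, .negSucc 187⟩, ⟨.negSucc 231, .negSucc 15, .negSucc 58, .negSucc 84, .ofNat 208, .negSucc 78⟩, ⟨.ofNat 546, .ofNat 0, .ofNat 9, .ofNat 160, .negSucc 525, .negSucc 9⟩, ⟨.negSucc 1732, .negSucc 39, .ofNat 24, .negSucc 253, .ofNat 1337, .negSucc 568⟩, ⟨.negSucc 16, .ofNat 27, .negSucc 66, .negSucc 336, .ofNat 56, .ofNat 39⟩, .ofNat 1230, .negSucc 1135, .ofNat 0, .negSucc 1135, .ofNat 2633, .ofNat 0, .ofNat 143, .ofNat 126, .negSucc 189, .ofNat 0, .ofNat 128, .negSucc 80, .ofNat 0, .ofNat 0, .ofNat 509, .ofNat 1315, .ofNat 0, .ofNat 0, .ofNat 0, .ofNat 0, .ofNat 0, .ofNat 0, .ofNat 0, .ofNat 0, .ofNat 0, .ofNat 0, .ofNat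 0, .ofNat 0, .ofNat 0, .ofNat 0, .ofNat 0, .ofNat 0⟩)
    (by decide +kernel)
theorem L00135 : Good (Phi V5.P V5.D (-1) 1) ⟨3, 0, 3, 3, 2, 0, 3, 7, 3, 1⟩ :=
  leafX_sound T5.ok_mp T5.Ymp.bz_eq (w := 203) (c := ⟨⟨.negSucc 722, .negSucc 21, .ofNat 5, .negSucc 108, .ofNat 351, .negSucc 159⟩, ⟨.negSucc 272, .negSucc 32, .negSucc 87, .negSucc 60, .ofNat 165, .negSucc 66⟩, ⟨.ofNat 599, .ofNat 3, .negSucc 15, .ofNat 58, .negSucc 516, .negSucc 47⟩, ⟨.negSucc 2160, .ofNat 3, .ofNat 32, .negSucc 263, .ofNat 1048, .negSucc 523⟩, ⟨.negSucc 48, .negSucc 27, .negSucc 13, .negSucc 150, .ofNat 13, .ofNat 95⟩, .ofNat 745, .negSucc 449, .ofNat 0, .negSucc 449, .ofNat 1288, .ofNat 0, .ofNat 154, .ofNat 101, .negSucc 81, .ofNat 0, .ofNat 128, .negSucc 30, .ofNat 0, .ofNat 0, .ofNat 319, .ofNat 1331, .ofNat 0, .ofNat 0, .ofNat 0, .ofNat 0, .ofNat 0, .ofNat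 11296758051293634722314085548712542601216, .ofNat 0, .ofNat 0, .ofNat 0, .ofNat 0, .ofNat 0, .ofNat 0, .ofNat 0, .ofNat 0, .ofNat 0, .ofNat 0⟩)
    (by decide +kernel)
theorem L00136 : Good (Phi V5.P V5.D (-1) 1) ⟨3, 0, 3, 3, 2, 0, 2, 3, 3, 2⟩ :=
  leafX_sound T5.ok_mp T5.Ymp.bz_eq (w := 200) (c := ⟨⟨.negSucc 971, .negSucc 6, .negSucc 3, .negSucc 42, .ofNat 235, .negSucc 11⟩, ⟨.negSucc 377, .negSucc 23, .negSucc 112, .negSucc 25, .ofNat 115, .negSucc 0⟩, ⟨.ofNat 837, .ofNat 3, .negSucc 19, .negSucc 55, .negSucc 600, .negSucc 126⟩, ⟨.negSucc 2899, .ofNat 38, .ofNat 5, .negSucc 95, .ofNat 658, .negSucc 62⟩, ⟨.negSucc 58, .ofNat 0, .negSucc 26, .negSucc 71, .ofNat 111, .ofNat 51⟩, .ofNat 737, .negSucc 436, .ofNat 0, .negSucc 436, .ofNat 1275, .ofNat 0, .ofNat 202, .ofNat 98, .negSucc 46, .ofNat 0, .ofNat 128, .negSucc 18, .ofNat 0, .ofNat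 0, .ofNat 340, .ofNat 1628, .ofNat 0, .ofNat 0, .ofNat 0, .ofNat 0, .ofNat 0, .ofNat 0, .ofNat 0, .ofNat 0, .ofNat 0, .ofNat 5906382117367218020253042026870172811264, .ofNat 0, .ofNat 0, .ofNat 0, .ofNat 0, .ofNat 0, .ofNat 0⟩)
    (by decide +kernel)
theorem L00137 : Good (Phi V5.P V5.D (-1) 1) ⟨3, 0, 3, 3, 2, 0, 2, 3, 3, 3⟩ :=
  leafX_sound T5.ok_mp T5.Ymp.bz_eq (w := 200) (c := ⟨⟨.negSucc 951, .negSucc 4, .ofNat 5, .negSucc 21, .ofNat 103, .negSucc 18⟩, ⟨.negSucc 363, .negSucc 22, .negSucc 112, .negSucc 14, .ofNat 59, .negSucc 8⟩, ⟨.ofNat 697, .ofNat 17, .negSucc 31, .negSucc 99, .negSucc 489, .negSucc 64⟩, ⟨.negSucc 2865, .ofNat 57, .ofNat 28, .negSucc 37, .ofNat 241, .negSucc 43⟩, ⟨.ofNat 5, .negSucc 19, .negSucc 28, .negSucc 81, .ofNat 143, .negSucc 23⟩, .ofNat 1256, .negSucc 1174, .ofNat 0, .negSucc 1174, .ofNat 2680, .ofNat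 0, .ofNat 128, .ofNat 139, .negSucc 40, .ofNat 0, .ofNat 140, .negSucc 19, .ofNat 0, .ofNat 0, .ofNat 377, .ofNat 2181, .ofNat 0, .ofNat 0, .ofNat 0, .ofNat 0, .ofNat 0, .ofNat 7406029627415421887477319174379127439360, .ofNat 0, .ofNat 0, .ofNat 0, .ofNat 0, .ofNat 0, .ofNat 0, .ofNat 49105400654595916051716973968469625143296, .ofNat 0, .ofNat 0, .ofNat 0⟩)
    (by decide +kernel)
theorem L00138 : Good (Phi V5.P V5.D (-1) 1) ⟨3, 0, 3, 3, 2, 0, 2, 3, 1, 1⟩ :=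
  leafX_sound T5.ok_mp T5.Ymp.bz_eq (w := 197) (c := ⟨⟨.negSucc 957, .negSucc 25, .negSucc 0, .ofNat 0, .ofNat 0, .ofNat 0⟩, ⟨.negSucc 359, .negSucc 33, .negSucc 119, .ofNat 0, .ofNat 0, .ofNat 0⟩, ⟨.ofNat 260, .ofNat 26, .ofNat 1, .ofNat 0, .ofNat 0, .ofNat 0⟩, ⟨.negSucc 2881, .negSucc 10, .ofNat 0, .ofNat 1, .negSucc 0, .ofNat 1⟩, ⟨.ofNat 0, .ofNat 0, .ofNat 0, .ofNat 0, .ofNat 0, .ofNat 0⟩, .ofNat 194, .negSucc 25, .ofNat 0, .negSucc 25, .ofNat 226, .ofNat 0, .ofNat 140, .ofNat 25, .negSucc 102, .ofNat 0, .ofNat 128, .negSucc 15, .ofNat 0, .ofNat 0, .ofNat 300, .ofNat 103264, .ofNat 0, .ofNat 0, .ofNat 0, .ofNat 0, .ofNat 9813185504269818206875296326859777638400000000, .ofNat 204441662733817413626073035515238387535577088, .ofNat 0, .ofNat 0, .ofNat 9813185504269818206875296326859777638400000000, .ofNat 204442403846249441431283365285354102128115712,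 .ofNat 0, .ofNat 0, .ofNat 9813185504269818206875296326859777638400000000, .ofNat 204441463003356749135150782466551871529025536, .ofNat 0, .ofNat 0⟩)
    (by decide +kernel)
theorem L00139 : Good (Phi V5.P V5.D (-1) 1) ⟨3, 0, 2, 1, 2, 1, 2, 2, 3, 0⟩ :=
  leafX_sound T5.ok_mp T5.Ymp.bz_eq (w := 195) (c := ⟨⟨.ofNat 153, .negSucc 62, .negSucc 62, .ofNat 121, .negSucc 116, .negSucc 1181⟩, ⟨.ofNat 132, .negSucc 70, .negSucc 145, .ofNat 25, .negSucc 46, .negSucc 488⟩, ⟨.negSucc 145, .ofNat 8, .ofNat 91, .negSucc 243, .ofNat 141, .ofNat 940⟩, ⟨.ofNat 348, .negSucc 91, .negSucc 59, .ofNat 451, .negSucc 311, .negSucc 3429⟩, ⟨.ofNat 211, .negSucc 153, .negSucc 137, .negSucc 168, .negSucc 236, .negSucc 230⟩, .ofNat 692, .negSucc 354, .ofNat 0, .negSucc 354, .ofNat 1204, .ofNat 0, .ofNat 205, .ofNat 95, .negSucc 78, .ofNat 0, .ofNat 128, .negSucc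 19, .ofNat 0, .ofNat 0, .ofNat 236, .ofNat 524, .ofNat 0, .ofNat 0, .ofNat 0, .ofNat 0, .ofNat 0, .ofNat 0, .ofNat 0, .ofNat 0, .ofNat 0, .ofNat 0, .ofNat 0, .ofNat 0, .ofNat 0, .ofNat 0, .ofNat 0, .ofNat 0⟩)
    (by decide +kernel)
theorem L00140 : Good (Phi V5.P V5.D (-1) 1) ⟨3, 0, 2, 1, 2, 1, 3, 6, 3, 0⟩ :=
  leafX_sound T5.ok_mp T5.Ymp.bz_eq (w := 199) (c := ⟨⟨.negSucc 334, .negSucc 73, .negSucc 34, .ofNat 16, .ofNat 54, .negSucc 624⟩, ⟨.negSucc 60, .negSucc 32, .negSucc 178, .negSucc 19, .ofNat 12, .negSucc 251⟩, ⟨.ofNat 322, .ofNat 18, .ofNat 35, .negSucc 121, .negSucc 29, .ofNat 422⟩, ⟨.negSucc 989, .negSucc 163, .negSucc 36, .ofNat 113, .ofNat 167, .negSucc 1817⟩, ⟨.negSucc 119, .ofNat 12, .ofNat 29, .negSucc 139, .negSucc 95, .negSucc 158⟩, .ofNat 681, .negSucc 332, .ofNat 0, .negSucc 332, .ofNat 1189, .ofNat 0, .ofNat 251,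 .ofNat 91, .negSucc 120, .ofNat 0, .ofNat 128, .negSucc 27, .ofNat 0, .ofNat 0, .ofNat 333, .ofNat 702, .ofNat 0, .ofNat 0, .ofNat 0, .ofNat 0, .ofNat 0, .ofNat 0, .ofNat 0, .ofNat 0, .ofNat 0, .ofNat 0, .ofNat 0, .ofNat 0, .ofNat 0, .ofNat 0, .ofNat 0, .ofNat 0⟩)
    (by decide +kernel)
theorem L00141 : Good (Phi V5.P V5.D (-1) 1) ⟨3, 0, 2, 1, 2, 1, 3, 7, 3, 0⟩ :=
  leafX_sound T5.ok_mp T5.Ymp.bz_eq (w := 200) (c := ⟨⟨.negSucc 476, .ofNat 31, .negSucc 81, .negSucc 132, .ofNat 312, .negSucc 335⟩, ⟨.negSucc 146, .ofNat 4, .negSucc 158, .negSucc 66, .ofNat 124, .negSucc 133⟩, ⟨.ofNat 479, .negSucc 94, .ofNat 77, .ofNat 80, .negSucc 292, .ofNat 65⟩, ⟨.negSucc 1352, .ofNat 109, .negSucc 145, .negSucc 358, .ofNat 906, .negSucc 984⟩, ⟨.negSucc 308, .ofNat 70, .negSucc 15, .negSucc 80, .ofNat 0, .negSucc 38⟩, .ofNat 691, .negSucc 352, .ofNat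 0, .negSucc 352, .ofNat 1202, .ofNat 0, .ofNat 231, .ofNat 96, .negSucc 195, .ofNat 0, .ofNat 128, .negSucc 49, .ofNat 0, .ofNat 0, .ofNat 486, .ofNat 808, .ofNat 0, .ofNat 0, .ofNat 0, .ofNat 0, .ofNat 0, .ofNat 0, .ofNat 0, .ofNat 0, .ofNat 0, .ofNat 0, .ofNat 0, .ofNat 0, .ofNat 0, .ofNat 0, .ofNat 0, .ofNat 0⟩)
    (by decide +kernel)
theorem L00142 : Good (Phi V5.P V5.D (-1) 1) ⟨3, 0, 2, 1, 2, 1, 2, 2, 3, 1⟩ :=
  leafX_sound T5.ok_mp T5.Ymp.bz_eq (w := 197) (c := ⟨⟨.negSucc 1093, .negSucc 46, .negSucc 35, .negSucc 100, .ofNat 103, .negSucc 60⟩, ⟨.negSucc 306, .negSucc 41, .negSucc 288, .negSucc 65, .ofNat 51, .negSucc 15⟩, ⟨.ofNat 893, .ofNat 22, .negSucc 6, .negSucc 94, .negSucc 134, .ofNat 152⟩, ⟨.negSucc 3223, .negSucc 57, .negSucc 14, .negSucc 216, .ofNat 274, .negSucc 210⟩, ⟨.negSucc 298, .ofNat 25, .negSucc 16, .negSucc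 203, .ofNat 57, .ofNat 58⟩, .ofNat 697, .negSucc 362, .ofNat 0, .negSucc 362, .ofNat 1206, .ofNat 0, .ofNat 306, .ofNat 93, .negSucc 114, .ofNat 0, .ofNat 128, .negSucc 23, .ofNat 0, .ofNat 0, .ofNat 647, .ofNat 3116, .ofNat 0, .ofNat 0, .ofNat 0, .ofNat 0, .ofNat 0, .ofNat 0, .ofNat 0, .ofNat 0, .ofNat 0, .ofNat 0, .ofNat 0, .ofNat 0, .ofNat 0, .ofNat 0, .ofNat 0, .ofNat 0⟩)
    (by decide +kernel)
theorem L00143 : Good (Phi V5.P V5.D (-1) 1) ⟨3, 0, 2, 1, 2, 1, 2, 3, 3, 1⟩ :=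
  leafX_sound T5.ok_mp T5.Ymp.bz_eq (w := 196) (c := ⟨⟨.negSucc 1004, .ofNat 8, .negSucc 12, .negSucc 152, .ofNat 296, .negSucc 76⟩, ⟨.negSucc 305, .negSucc 7, .negSucc 241, .negSucc 71, .ofNat 144, .negSucc 8⟩, ⟨.ofNat 905, .negSucc 45, .negSucc 53, .ofNat 50, .negSucc 478, .negSucc 58⟩, ⟨.negSucc 2898, .ofNat 57, .ofNat 18, .negSucc 422, .ofNat 831, .negSucc 290⟩, ⟨.negSucc 392, .ofNat 114, .negSucc 4, .negSucc 82, .ofNat 126, .ofNat 149⟩, .ofNat 697, .negSucc 362, .ofNat 0, .negSucc 362, .ofNat 1206, .ofNat 0, .ofNat 219, .ofNat 94, .negSucc 83, .ofNat 0, .ofNat 128, .negSucc 20, .ofNat 0, .ofNat 0, .ofNat 361, .ofNat 810, .ofNat 0, .ofNat 0, .ofNat 0, .ofNat 0, .ofNat 0, .ofNat 575084321103380086289057172992594804736, .ofNat 0, .ofNat 0, .ofNat 0, .ofNat 0, .ofNat 0, .ofNat 0, .ofNat 0, .ofNat 0, .ofNat 0, .ofNat 0⟩)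
    (by decide +kernel)
theorem L00144 : Good (Phi V5.P V5.D (-1) 1) ⟨3, 0, 2, 1, 2, 1, 2, 2, 3, 2⟩ :=
  leafX_sound T5.ok_mp T5.Ymp.bz_eq (w := 198) (c := ⟨⟨.negSucc 1173, .negSucc 21, .negSucc 21, .negSucc 73, .ofNat 90, .ofNat 121⟩, ⟨.negSucc 334, .negSucc 37, .negSucc 274, .negSucc 43, .ofNat 46, .ofNat 54⟩, ⟨.ofNat 1082, .negSucc 14, .negSucc 48, .negSucc 29, .negSucc 253, .negSucc 85⟩, ⟨.negSucc 3470, .ofNat 21, .ofNat 10, .negSucc 159, .ofNat 227, .ofNat 321⟩, ⟨.negSucc 284, .ofNat 18, .negSucc 5, .negSucc 147, .ofNat 107, .ofNat 91⟩, .ofNat 690, .negSucc 352, .ofNat 0, .negSucc 352, .ofNat 1203, .ofNat 0, .ofNat 145, .ofNat 88, .negSucc 66, .ofNat 0, .ofNat 128, .negSucc 15, .ofNat 0, .ofNat 0, .ofNat 750, .ofNat 4448, .ofNat 0, .ofNat 0, .ofNat 0, .ofNat 0, .ofNat 0, .ofNat 0, .ofNat 0, .ofNat 0, .ofNat 0, .ofNat 0, .ofNat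 0, .ofNat 0, .ofNat 0, .ofNat 0, .ofNat 0, .ofNat 0⟩)
    (by decide +kernel)
theorem L00145 : Good (Phi V5.P V5.D (-1) 1) ⟨3, 0, 2, 1, 2, 1, 2, 3, 3, 2⟩ :=
  leafX_sound T5.ok_mp T5.Ymp.bz_eq (w := 196) (c := ⟨⟨.negSucc 1064, .ofNat 11, .negSucc 0, .negSucc 111, .ofNat 156, .ofNat 68⟩, ⟨.negSucc 297, .negSucc 17, .negSucc 253, .negSucc 47, .ofNat 83, .ofNat 41⟩, ⟨.ofNat 861, .negSucc 42, .negSucc 105, .ofNat 90, .negSucc 460, .negSucc 166⟩, ⟨.negSucc 3123, .ofNat 93, .ofNat 29, .negSucc 325, .ofNat 366, .ofNat 146⟩, ⟨.negSucc 258, .ofNat 36, .ofNat 7, .negSucc 44, .ofNat 267, .ofNat 152⟩, .ofNat 429, .negSucc 124, .ofNat 0, .negSucc 124, .ofNat 605, .ofNat 0, .ofNat 288, .ofNat 56, .negSucc 71, .ofNat 0, .ofNat 128, .negSucc 17, .ofNat 0, .ofNat 0, .ofNat 542, .ofNat 1149, .ofNat 0, .ofNat 0, .ofNat 0, .ofNat 0, .ofNat 0, .ofNat 1623956304053087768789187312111461597184,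 .ofNat 0, .ofNat 0, .ofNat 0, .ofNat 567416704638056554389863677556821065728, .ofNat 0, .ofNat 0, .ofNat 0, .ofNat 526800357168207931055616099133163569152, .ofNat 0, .ofNat 0⟩)
    (by decide +kernel)
theorem L00146 : Good (Phi V5.P V5.D (-1) 1) ⟨3, 0, 2, 1, 2, 1, 1, 1, 3, 3⟩ :=
  leafX_sound T5.ok_mp T5.Ymp.bz_eq (w := 194) (c := ⟨⟨.negSucc 1074, .negSucc 13, .negSucc 6, .negSucc 28, .ofNat 153, .ofNat 86⟩, ⟨.negSucc 309, .negSucc 23, .negSucc 251, .negSucc 14, .ofNat 97, .ofNat 38⟩, ⟨.ofNat 1021, .ofNat 3, .negSucc 72, .ofNat 50, .negSucc 767, .negSucc 81⟩, ⟨.negSucc 3156, .ofNat 15, .ofNat 24, .negSucc 70, .ofNat 316, .ofNat 236⟩, ⟨.negSucc 262, .ofNat 59, .ofNat 7, .negSucc 87, .ofNat 341, .ofNat 99⟩, .ofNat 694, .negSucc 357, .ofNat 0, .negSucc 357, .ofNat 1208, .ofNat 0, .ofNat 239, .ofNat 87, .negSucc 37, .ofNat 0, .ofNat 128,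 .negSucc 18, .ofNat 0, .ofNat 0, .ofNat 685, .ofNat 2389, .ofNat 0, .ofNat 0, .ofNat 0, .ofNat 0, .ofNat 0, .ofNat 901129232418579215728639316963297853440, .ofNat 0, .ofNat 0, .ofNat 0, .ofNat 291907167971629462730144377209452756992, .ofNat 0, .ofNat 0, .ofNat 1070479626370269835617514883138029879296, .ofNat 317636016215083257412173772023446634496, .ofNat 0, .ofNat 0⟩)
    (by decide +kernel)
theorem L00147 : Good (Phi V5.P V5.D (-1) 1) ⟨3, 0, 2, 1, 3, 2, 2, 2, 4, 8⟩ :=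
  out_sound (S := T5.ds_mp) T5.ok_mp (w := 26) (j := 1) (by decide +kernel)
theorem L00148 : Good (Phi V5.P V5.D (-1) 1) ⟨3, 0, 2, 1, 3, 3, 3, 4, 4, 8⟩ :=
  out_sound (S := T5.ds_mp) T5.ok_mp (w := 27) (j := 1) (by decide +kernel)
theorem L00149 : Good (Phi V5.P V5.D (-1) 1) ⟨3, 0, 2, 1, 4, 6, 3, 5, 5, 16⟩ :=
  out_sound (S := T5.ds_mp) T5.ok_mp (w := 31) (j := 1) (by decide +kernel)
theorem L00150 : Good (Phi V5.P V5.D (-1) 1) ⟨3, 0, 2, 1, 4, 7, 4, 10, 5, 16⟩ :=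
  out_sound (S := T5.ds_mp) T5.ok_mp (w := 32) (j := 1) (by decide +kernel)
theorem L00151 : Good (Phi V5.P V5.D (-1) 1) ⟨3, 0, 2, 1, 4, 7, 4, 11, 5, 16⟩ :=
  out_sound (S := T5.ds_mp) T5.ok_mp (w := 40) (j := 2) (by decide +kernel)
theorem L00152 : Good (Phi V5.P V5.D (-1) 1) ⟨3, 0, 2, 1, 3, 3, 3, 5, 5, 17⟩ :=
  out_sound (S := T5.ds_mp) T5.ok_mp (w := 29) (j := 1) (by decide +kernel)
theorem L00153 : Good (Phi V5.P V5.D (-1) 1) ⟨3, 0, 2, 1, 3, 2, 4, 12, 5, 16⟩ :=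
  out_sound (S := T5.ds_mp) T5.ok_mp (w := 30) (j := 1) (by decide +kernel)
theorem L00154 : Good (Phi V5.P V5.D (-1) 1) ⟨3, 0, 2, 1, 4, 4, 4, 13, 6, 32⟩ :=
  out_sound (S := T5.ds_mp) T5.ok_mp (w := 34) (j := 1) (by decide +kernel)
theorem L00155 : Good (Phi V5.P V5.D (-1) 1) ⟨3, 0, 2, 1, 4, 5, 5, 26, 6, 32⟩ :=
  out_sound (S := T5.ds_mp) T5.ok_mp (w := 35) (j := 1) (by decide +kernel)
theorem L00156 : Good (Phi V5.P V5.D (-1) 1) ⟨3, 0, 2, 1, 5, 10, 5, 27, 6, 32⟩ :=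
  out_sound (S := T5.ds_mp) T5.ok_mp (w := 37) (j := 1) (by decide +kernel)
theorem L00157 : Good (Phi V5.P V5.D (-1) 1) ⟨3, 0, 2, 1, 5, 11, 5, 27, 6, 32⟩ :=
  out_sound (S := T5.ds_mp) T5.ok_mp (w := 46) (j := 2) (by decide +kernel)
theorem L00158 : Good (Phi V5.P V5.D (-1) 1) ⟨3, 0, 2, 1, 3, 2, 4, 13, 6, 33⟩ :=
  out_sound (S := T5.ds_mp) T5.ok_mp (w := 32) (j := 1) (by decide +kernel)
theorem L00159 : Good (Phi V5.P V5.D (-1) 1) ⟨3, 0, 2, 1, 5, 8, 5, 28, 7, 64⟩ :=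
  out_sound (S := T5.ds_mp) T5.ok_mp (w := 39) (j := 1) (by decide +kernel)
theorem L00160 : Good (Phi V5.P V5.D (-1) 1) ⟨3, 0, 2, 1, 5, 9, 6, 56, 7, 64⟩ :=
  out_sound (S := T5.ds_mp) T5.ok_mp (w := 40) (j := 1) (by decide +kernel)
theorem L00161 : Good (Phi V5.P V5.D (-1) 1) ⟨3, 0, 2, 1, 5, 9, 6, 57, 7, 64⟩ :=
  out_sound (S := T5.ds_mp) T5.ok_mp (w := 50) (j := 2) (by decide +kernel)
theorem L00162 : Good (Phi V5.P V5.D (-1) 1) ⟨3, 0, 2, 1, 4, 4, 5, 28, 7, 65⟩ :=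
  out_sound (S := T5.ds_mp) T5.ok_mp (w := 37) (j := 1) (by decide +kernel)
theorem L00163 : Good (Phi V5.P V5.D (-1) 1) ⟨3, 0, 2, 1, 6, 16, 6, 58, 8, 128⟩ :=
  out_sound (S := T5.ds_mp) T5.ok_mp (w := 44) (j := 1) (by decide +kernel)
theorem L00164 : Good (Phi V5.P V5.D (-1) 1) ⟨3, 0, 2, 1, 6, 17, 6, 58, 8, 128⟩ :=
  out_sound (S := T5.ds_mp) T5.ok_mp (w := 54) (j := 2) (by decide +kernel)
theorem L00165 : Good (Phi V5.P V5.D (-1) 1) ⟨3, 0, 2, 1, 5, 8, 6, 58, 8, 129⟩ :=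
  out_sound (S := T5.ds_mp) T5.ok_mp (w := 42) (j := 1) (by decide +kernel)
theorem L00166 : Good (Phi V5.P V5.D (-1) 1) ⟨3, 0, 2, 1, 5, 8, 6, 58, 7, 65⟩ :=
  out_sound (S := T5.ds_mp) T5.ok_mp (w := 40) (j := 1) (by decide +kernel)
theorem L00167 : Good (Phi V5.P V5.D (-1) 1) ⟨3, 0, 2, 1, 5, 8, 6, 59, 6, 32⟩ :=
  out_sound (S := T5.ds_mp) T5.ok_mp (w := 48) (j := 2) (by decide +kernel)
theorem L00168 : Good (Phi V5.P V5.D (-1) 1) ⟨3, 0, 2, 1, 5, 9, 5, 29, 6, 32⟩ :=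
  out_sound (S := T5.ds_mp) T5.ok_mp (w := 46) (j := 2) (by decide +kernel)
theorem L00169 : Good (Phi V5.P V5.D (-1) 1) ⟨3, 0, 2, 1, 4, 4, 4, 14, 6, 33⟩ :=
  out_sound (S := T5.ds_mp) T5.ok_mp (w := 34) (j := 1) (by decide +kernel)
theorem L00170 : Good (Phi V5.P V5.D (-1) 1) ⟨3, 0, 2, 1, 4, 4, 4, 15, 5, 16⟩ :=
  out_sound (S := T5.ds_mp) T5.ok_mp (w := 40) (j := 2) (by decide +kernel)
theorem L00171 : Good (Phi V5.P V5.D (-1) 1) ⟨3, 0, 2, 1, 4, 5, 3, 7, 5, 16⟩ :=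
  out_sound (S := T5.ds_mp) T5.ok_mp (w := 38) (j := 2) (by decide +kernel)
theorem L00172 : Good (Phi V5.P V5.D (-1) 1) ⟨3, 0, 2, 1, 3, 2, 3, 6, 5, 17⟩ :=
  out_sound (S := T5.ds_mp) T5.ok_mp (w := 29) (j := 1) (by decide +kernel)
theorem L00173 : Good (Phi V5.P V5.D (-1) 1) ⟨3, 0, 2, 1, 4, 4, 3, 7, 5, 17⟩ :=
  out_sound (S := T5.ds_mp) T5.ok_mp (w := 31) (j := 1) (by decide +kernel)
theorem L00174 : Good (Phi V5.P V5.D (-1) 1) ⟨3, 0, 2, 1, 4, 5, 3, 7, 5, 17⟩ :=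
  out_sound (S := T5.ds_mp) T5.ok_mp (w := 38) (j := 2) (by decide +kernel)
theorem L00175 : Good (Phi V5.P V5.D (-1) 1) ⟨3, 0, 2, 1, 4, 6, 5, 24, 6, 32⟩ :=
  out_sound (S := T5.ds_mp) T5.ok_mp (w := 35) (j := 1) (by decide +kernel)
theorem L00176 : Good (Phi V5.P V5.D (-1) 1) ⟨3, 0, 2, 1, 4, 6, 5, 25, 6, 32⟩ :=
  out_sound (S := T5.ds_mp) T5.ok_mp (w := 44) (j := 2) (by decide +kernel)
theorem L00177 : Good (Phi V5.P V5.D (-1) 1) ⟨3, 0, 2, 1, 4, 6, 4, 12, 6, 33⟩ :=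
  out_sound (S := T5.ds_mp) T5.ok_mp (w := 34) (j := 1) (by decide +kernel)
theorem L00178 : Good (Phi V5.P V5.D (-1) 1) ⟨3, 0, 2, 1, 4, 6, 4, 12, 5, 17⟩ :=
  out_sound (S := T5.ds_mp) T5.ok_mp (w := 32) (j := 1) (by decide +kernel)
theorem L00179 : Good (Phi V5.P V5.D (-1) 1) ⟨3, 0, 2, 1, 4, 6, 4, 13, 4, 8⟩ :=
  out_sound (S := T5.ds_mp) T5.ok_mp (w := 38) (j := 2) (by decide +kernel)
theorem L00180 : Good (Phi V5.P V5.D (-1) 1) ⟨3, 0, 2, 1, 4, 7, 3, 6, 4, 8⟩ :=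
  out_sound (S := T5.ds_mp) T5.ok_mp (w := 36) (j := 2) (by decide +kernel)
theorem L00181 : Good (Phi V5.P V5.D (-1) 1) ⟨3, 0, 2, 1, 3, 3, 3, 7, 4, 8⟩ :=
  out_sound (S := T5.ds_mp) T5.ok_mp (w := 34) (j := 2) (by decide +kernel)
theorem L00182 : Good (Phi V5.P V5.D (-1) 1) ⟨3, 0, 2, 1, 2, 1, 2, 2, 4, 9⟩ :=
  out_sound (S := T5.ds_mp) T5.ok_mp (w := 24) (j := 1) (by decide +kernel)
theorem L00183 : Good (Phi V5.P V5.D (-1) 1) ⟨3, 0, 2, 1, 3, 2, 2, 3, 4, 9⟩ :=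
  out_sound (S := T5.ds_mp) T5.ok_mp (w := 26) (j := 1) (by decide +kernel)
theorem L00184 : Good (Phi V5.P V5.D (-1) 1) ⟨3, 0, 2, 1, 3, 3, 2, 3, 4, 9⟩ :=
  out_sound (S := T5.ds_mp) T5.ok_mp (w := 32) (j := 2) (by decide +kernel)
theorem L00185 : Good (Phi V5.P V5.D (-1) 1) ⟨3, 0, 2, 1, 2, 1, 1, 1, 3, 5⟩ :=
  out_sound (S := T5.ds_mp) T5.ok_mp (w := 21) (j := 1) (by decide +kernel)
theorem L00186 : Good (Phi V5.P V5.D (-1) 1) ⟨3, 0, 2, 1, 2, 1, 1, 1, 2, 3⟩ :=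
  out_sound (S := T5.ds_mp) T5.ok_mp (w := 19) (j := 1) (by decide +kernel)
theorem L00187 : Good (Phi V5.P V5.D (-1) 1) ⟨3, 1, 2, 1, 1, 0, 2, 0, 4, 0⟩ :=
  leafX_sound T5.ok_mp T5.Ymp.bz_eq (w := 187) (c := ⟨⟨.ofNat 599, .negSucc 106, .negSucc 74, .ofNat 97, .ofNat 173, .negSucc 1335⟩, ⟨.ofNat 214, .negSucc 23, .ofNat 39, .negSucc 79, .ofNat 80, .negSucc 531⟩, ⟨.negSucc 552, .ofNat 180, .ofNat 61, .ofNat 136, .negSucc 320, .ofNat 1145⟩, ⟨.ofNat 1655, .negSucc 231, .negSucc 116, .ofNat 637, .ofNat 373, .negSucc 3847⟩, ⟨.ofNat 24, .negSucc 212, .ofNat 23, .negSucc 905, .ofNat 364, .negSucc 178⟩, .ofNat 419, .negSucc 125, .ofNat 0, .negSucc 125, .ofNat 617, .ofNat 0, .ofNat 171, .ofNat 60, .negSucc 178, .ofNat 0, .ofNat 128, .negSucc 33, .ofNat 0, .ofNat 0, .ofNat 468, .ofNat 2228, .ofNat 0, .ofNat 0, .ofNat 0, .ofNat 0, .ofNat 4174356921440350559923993110896443392,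 .ofNat 0, .ofNat 0, .ofNat 0, .ofNat 0, .ofNat 0, .ofNat 0, .ofNat 0, .ofNat 0, .ofNat 0, .ofNat 0, .ofNat 0⟩)
    (by decide +kernel)
theorem L00188 : Good (Phi V5.P V5.D (-1) 1) ⟨3, 1, 2, 1, 1, 0, 2, 1, 4, 0⟩ :=
  leafX_sound T5.ok_mp T5.Ymp.bz_eq (w := 186) (c := ⟨⟨.ofNat 563, .negSucc 88, .negSucc 39, .ofNat 219, .negSucc 206, .negSucc 1256⟩, ⟨.ofNat 245, .negSucc 18, .negSucc 21, .ofNat 71, .negSucc 96, .negSucc 556⟩, ⟨.negSucc 504, .ofNat 38, .ofNat 104, .negSucc 252, .ofNat 122, .ofNat 1103⟩, ⟨.ofNat 1585, .negSucc 216, .negSucc 52, .ofNat 858, .negSucc 664, .negSucc 3610⟩, ⟨.ofNat 114, .negSucc 130, .negSucc 32, .negSucc 535, .ofNat 96, .negSucc 99⟩, .ofNat 422, .negSucc 136, .ofNat 0, .negSucc 136, .ofNat 623, .ofNat 0, .ofNat 176, .ofNat 65, .negSucc 163, .ofNat 0, .ofNat 128, .negSucc 36, .ofNat 0, .ofNat 0, .ofNat 354,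 .ofNat 788, .ofNat 0, .ofNat 0, .ofNat 0, .ofNat 0, .ofNat 0, .ofNat 0, .ofNat 0, .ofNat 0, .ofNat 0, .ofNat 0, .ofNat 0, .ofNat 0, .ofNat 0, .ofNat 0, .ofNat 0, .ofNat 0⟩)
    (by decide +kernel)
theorem L00189 : Good (Phi V5.P V5.D (-1) 1) ⟨3, 1, 2, 1, 1, 0, 1, 0, 4, 1⟩ :=
  leafX_sound T5.ok_mp T5.Ymp.bz_eq (w := 183) (c := ⟨⟨.negSucc 614, .negSucc 176, .negSucc 71, .negSucc 22, .ofNat 27, .negSucc 559⟩, ⟨.negSucc 161, .negSucc 48, .negSucc 244, .negSucc 80, .ofNat 33, .negSucc 215⟩, ⟨.ofNat 816, .ofNat 160, .ofNat 125, .negSucc 543, .negSucc 207, .ofNat 550⟩, ⟨.negSucc 1924, .negSucc 243, .negSucc 63, .ofNat 294, .ofNat 8, .negSucc 1610⟩, ⟨.ofNat 13, .negSucc 153, .negSucc 41, .negSucc 870, .ofNat 214, .negSucc 13⟩, .ofNat 692, .negSucc 398, .ofNat 0, .negSucc 398, .ofNat 1281, .ofNat 0, .ofNat 192, .ofNat 101, .negSucc 113, .ofNat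 0, .ofNat 128, .negSucc 32, .ofNat 0, .ofNat 0, .ofNat 456, .ofNat 1877, .ofNat 0, .ofNat 0, .ofNat 0, .ofNat 0, .ofNat 0, .ofNat 0, .ofNat 0, .ofNat 0, .ofNat 0, .ofNat 0, .ofNat 0, .ofNat 0, .ofNat 0, .ofNat 0, .ofNat 0, .ofNat 0⟩)
    (by decide +kernel)
theorem L00190 : Good (Phi V5.P V5.D (-1) 1) ⟨3, 1, 2, 1, 1, 0, 1, 0, 3, 1⟩ :=
  leafX_sound T5.ok_mp T5.Ymp.bz_eq (w := 178) (c := ⟨⟨.negSucc 1318, .negSucc 106, .negSucc 28, .negSucc 142, .ofNat 206, .negSucc 36⟩, ⟨.negSucc 393, .negSucc 24, .negSucc 314, .negSucc 105, .ofNat 94, .negSucc 6⟩, ⟨.ofNat 1518, .ofNat 105, .ofNat 51, .negSucc 395, .negSucc 435, .ofNat 204⟩, ⟨.negSucc 3852, .negSucc 82, .negSucc 21, .negSucc 187, .ofNat 531, .negSucc 125⟩, ⟨.negSucc 168, .ofNat 19, .ofNat 14, .negSucc 533, .ofNat 141, .ofNat 65⟩, .ofNat 699, .negSucc 408, .ofNat 0, .negSucc 408, .ofNat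 1288, .ofNat 0, .ofNat 212, .ofNat 101, .negSucc 78, .ofNat 0, .ofNat 128, .negSucc 19, .ofNat 0, .ofNat 0, .ofNat 544, .ofNat 1285, .ofNat 0, .ofNat 0, .ofNat 0, .ofNat 0, .ofNat 0, .ofNat 0, .ofNat 0, .ofNat 0, .ofNat 0, .ofNat 0, .ofNat 0, .ofNat 0, .ofNat 522253049097915281605846278128795648, .ofNat 0, .ofNat 0, .ofNat 0⟩)
    (by decide +kernel)
theorem L00191 : Good (Phi V5.P V5.D (-1) 1) ⟨3, 1, 2, 1, 1, 0, 2, 0, 3, 2⟩ :=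
  leafX_sound T5.ok_mp T5.Ymp.bz_eq (w := 187) (c := ⟨⟨.negSucc 1317, .negSucc 116, .negSucc 34, .negSucc 138, .ofNat 79, .ofNat 163⟩, ⟨.negSucc 396, .negSucc 25, .negSucc 328, .negSucc 104, .ofNat 53, .ofNat 70⟩, ⟨.ofNat 1571, .ofNat 116, .ofNat 68, .negSucc 409, .negSucc 52, .ofNat 75⟩, ⟨.negSucc 3873, .negSucc 81, .negSucc 10, .negSucc 178, .ofNat 169, .ofNat 437⟩, ⟨.negSucc 156, .negSucc 2, .ofNat 6, .negSucc 586, .ofNat 180, .ofNat 94⟩, .ofNat 419, .negSucc 124, .ofNat 0, .negSucc 124, .ofNat 616, .ofNat 0, .ofNat 136, .ofNat 57, .negSucc 114, .ofNat 0, .ofNat 128, .ofNat 3, .ofNat 0, .ofNat 0, .ofNat 1006, .ofNat 43377, .ofNat 3106692311804224413158789492183662592, .ofNat 0, .ofNat 0, .ofNat 0, .ofNat 16550359988136657266667160819686440960, .ofNat 0, .ofNat 0, .ofNat 0, .ofNat 9072773080535530490208742434943270912, .ofNat 0,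 .ofNat 0, .ofNat 0, .ofNat 42971750215184483667929065128116355072, .ofNat 0, .ofNat 0, .ofNat 0⟩)
    (by decide +kernel)
theorem L00192 : Good (Phi V5.P V5.D (-1) 1) ⟨3, 1, 2, 1, 1, 0, 2, 1, 4, 4⟩ :=
  leafX_sound T5.ok_mp T5.Ymp.bz_eq (w := 190) (c := ⟨⟨.negSucc 1276, .negSucc 95, .negSucc 14, .negSucc 112, .ofNat 112, .ofNat 68⟩, ⟨.negSucc 376, .negSucc 19, .negSucc 296, .negSucc 82, .ofNat 52, .ofNat 26⟩, ⟨.ofNat 1467, .ofNat 108, .ofNat 27, .negSucc 282, .negSucc 280, .ofNat 1⟩, ⟨.negSucc 3751, .negSucc 36, .ofNat 11, .negSucc 154, .ofNat 293, .ofNat 191⟩, ⟨.negSucc 67, .ofNat 6, .ofNat 5, .negSucc 455, .ofNat 65, .ofNat 29⟩, .ofNat 422, .negSucc 131, .ofNat 0, .negSucc 131, .ofNat 618, .ofNat 0, .ofNat 128, .ofNat 60, .negSucc 64, .ofNat 0, .ofNat 130, .negSucc 5, .ofNat 0, .ofNat 0, .ofNat 565, .ofNat 7635, .ofNat 0, .ofNat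 0, .ofNat 0, .ofNat 0, .ofNat 0, .ofNat 0, .ofNat 0, .ofNat 0, .ofNat 0, .ofNat 0, .ofNat 0, .ofNat 0, .ofNat 0, .ofNat 0, .ofNat 0, .ofNat 0⟩)
    (by decide +kernel)
theorem L00193 : Good (Phi V5.P V5.D (-1) 1) ⟨3, 1, 2, 1, 1, 0, 3, 2, 5, 10⟩ :=
  leafX_sound T5.ok_mp T5.Ymp.bz_eq (w := 202) (c := ⟨⟨.negSucc 1170, .negSucc 91, .negSucc 26, .negSucc 121, .ofNat 35, .ofNat 54⟩, ⟨.negSucc 340, .negSucc 16, .negSucc 296, .negSucc 86, .ofNat 24, .ofNat 24⟩, ⟨.ofNat 1527, .ofNat 103, .ofNat 11, .negSucc 321, .negSucc 138, .ofNat 18⟩, ⟨.negSucc 3526, .negSucc 34, .ofNat 12, .negSucc 132, .ofNat 103, .ofNat 142⟩, ⟨.negSucc 27, .ofNat 7, .negSucc 1, .negSucc 471, .ofNat 51, .ofNat 27⟩, .ofNat 422, .negSucc 132, .ofNat 0, .negSucc 132, .ofNat 619, .ofNat 0, .ofNat 204, .ofNat 60, .negSucc 64, .ofNat 0, .ofNat 128, .ofNat 2, .ofNat 0, .ofNat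 0, .ofNat 772, .ofNat 71916, .ofNat 1023010530988691578131861131507871514624, .ofNat 0, .ofNat 0, .ofNat 0, .ofNat 15819792567634137076913621784908466749440, .ofNat 0, .ofNat 0, .ofNat 0, .ofNat 14290088172647143432048347865458713559040, .ofNat 0, .ofNat 0, .ofNat 0, .ofNat 12776192720175346477115459613425953406976, .ofNat 0, .ofNat 0, .ofNat 0⟩)
    (by decide +kernel)
theorem L00194 : Good (Phi V5.P V5.D (-1) 1) ⟨3, 1, 2, 1, 1, 0, 3, 2, 5, 11⟩ :=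
  leafX_sound T5.ok_mp T5.Ymp.bz_eq (w := 205) (c := ⟨⟨.negSucc 1205, .negSucc 83, .negSucc 28, .negSucc 37, .ofNat 42, .ofNat 52⟩, ⟨.negSucc 341, .negSucc 12, .negSucc 288, .negSucc 62, .ofNat 19, .ofNat 26⟩, ⟨.ofNat 1556, .ofNat 94, .negSucc 3, .negSucc 323, .negSucc 137, .ofNat 21⟩, ⟨.negSucc 3551, .negSucc 17, .ofNat 16, .ofNat 35, .ofNat 98, .ofNat 139⟩, ⟨.negSucc 63, .ofNat 5, .negSucc 3, .negSucc 413, .ofNat 62, .ofNat 31⟩, .ofNat 420, .negSucc 128, .ofNat 0, .negSucc 128, .ofNat 618, .ofNat 0, .ofNat 175, .ofNat 58, .negSucc 61, .ofNat 0, .ofNat 128, .ofNat 5, .ofNat 0, .ofNat 0, .ofNat 856, .ofNat 545934, .ofNat 12760575925721673425510690519677740777472, .ofNat 0, .ofNat 0, .ofNat 0, .ofNat 80185436564261061837263984426953692151808, .ofNat 0, .ofNat 0, .ofNat 0, .ofNat 22777219059768484398833445366758629179392, .ofNat 0, .ofNat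 0, .ofNat 0, .ofNat 39981927100801467791855839495834363232256, .ofNat 0, .ofNat 0, .ofNat 0⟩)
    (by decide +kernel)
theorem L00195 : Good (Phi V5.P V5.D (-1) 1) ⟨3, 1, 2, 1, 1, 0, 3, 3, 4, 5⟩ :=
  leafX_sound T5.ok_mp T5.Ymp.bz_eq (w := 195) (c := ⟨⟨.negSucc 1163, .negSucc 72, .negSucc 12, .negSucc 97, .ofNat 50, .ofNat 84⟩, ⟨.negSucc 338, .negSucc 11, .negSucc 277, .negSucc 72, .ofNat 23, .ofNat 40⟩, ⟨.ofNat 1343, .ofNat 73, .negSucc 20, .negSucc 208, .negSucc 168, .negSucc 15⟩, ⟨.negSucc 3430, .negSucc 1, .ofNat 10, .negSucc 121, .ofNat 130, .ofNat 223⟩, ⟨.negSucc 37, .ofNat 12, .negSucc 0, .negSucc 384, .ofNat 28, .ofNat 42⟩, .ofNat 422, .negSucc 132, .ofNat 0, .negSucc 132, .ofNat 618, .ofNat 0, .ofNat 129, .ofNat 59, .negSucc 42, .ofNat 0, .ofNat 128, .negSucc 4, .ofNat 0, .ofNat 0, .ofNat 514, .ofNat 21645, .ofNat 25986520991268995939911430852763975680,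 .ofNat 0, .ofNat 0, .ofNat 0, .ofNat 103879570064961487395612168244250542080, .ofNat 0, .ofNat 0, .ofNat 0, .ofNat 0, .ofNat 0, .ofNat 0, .ofNat 0, .ofNat 0, .ofNat 0, .ofNat 0, .ofNat 0⟩)
    (by decide +kernel)
theorem L00196 : Good (Phi V5.P V5.D (-1) 1) ⟨3, 1, 2, 1, 1, 0, 1, 0, 3, 3⟩ :=
  leafX_sound T5.ok_mp T5.Ymp.bz_eq (w := 184) (c := ⟨⟨.negSucc 1236, .negSucc 64, .negSucc 15, .negSucc 55, .ofNat 172, .ofNat 187⟩, ⟨.negSucc 406, .negSucc 8, .negSucc 264, .negSucc 42, .ofNat 99, .ofNat 79⟩, ⟨.ofNat 1793, .ofNat 52, .negSucc 84, .negSucc 140, .negSucc 643, .ofNat 17⟩, ⟨.negSucc 3537, .ofNat 12, .ofNat 20, .negSucc 57, .ofNat 392, .ofNat 486⟩, ⟨.negSucc 305, .ofNat 13, .negSucc 1, .negSucc 277, .ofNat 260, .ofNat 126⟩, .ofNat 421, .negSucc 128, .ofNat 0, .negSucc 128, .ofNat 616, .ofNat 0, .ofNat 175, .ofNat 58, .negSucc 63, .ofNat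 0, .ofNat 128, .negSucc 5, .ofNat 0, .ofNat 0, .ofNat 1070, .ofNat 62258, .ofNat 1089259045466614010475560335057092608, .ofNat 0, .ofNat 0, .ofNat 0, .ofNat 4314795039361728816529726359417651200, .ofNat 0, .ofNat 0, .ofNat 0, .ofNat 5054323288946742556709455138276769792, .ofNat 0, .ofNat 0, .ofNat 0, .ofNat 13947640780669758552228450750456397824, .ofNat 0, .ofNat 0, .ofNat 0⟩)
    (by decide +kernel)
theorem L00197 : Good (Phi V5.P V5.D (-1) 1) ⟨3, 1, 2, 1, 1, 0, 1, 0, 1, 1⟩ :=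
  out_sound (S := T5.ds_mp) T5.ok_mp (w := 15) (j := 1) (by decide +kernel)
theorem L00198 : Good (Phi V5.P V5.D (-1) 1) ⟨3, 1, 3, 2, 1, 0, 2, 2, 3, 0⟩ :=
  leafX_sound T5.ok_mp T5.Ymp.bz_eq (w := 184) (c := ⟨⟨.negSucc 62, .ofNat 22, .negSucc 40, .ofNat 66, .negSucc 22, .negSucc 1067⟩, ⟨.ofNat 36, .ofNat 9, .negSucc 93, .negSucc 39, .negSucc 15, .negSucc 375⟩, ⟨.ofNat 1, .negSucc 33, .ofNat 50, .negSucc 254, .ofNat 49, .ofNat 993⟩, ⟨.negSucc 232, .ofNat 121, .negSucc 43, .ofNat 337, .negSucc 121, .negSucc 3015⟩, ⟨.ofNat 16, .ofNat 121, .negSucc 61, .negSucc 431, .negSucc 1, .negSucc 79⟩, .ofNat 653, .negSucc 324, .ofNat 0, .negSucc 324, .ofNat 1231, .ofNat 0, .ofNat 325, .ofNat 89, .negSucc 170, .ofNat 0, .ofNat 128, .negSucc 42, .ofNat 0, .ofNat 0, .ofNat 502, .ofNat 534, .ofNat 0, .ofNat 0, .ofNat 0, .ofNat 0, .ofNat 0, .ofNat 0,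 .ofNat 0, .ofNat 0, .ofNat 0, .ofNat 0, .ofNat 0, .ofNat 0, .ofNat 0, .ofNat 0, .ofNat 0, .ofNat 0⟩)
    (by decide +kernel)
theorem L00199 : Good (Phi V5.P V5.D (-1) 1) ⟨3, 1, 3, 2, 1, 0, 2, 2, 3, 1⟩ :=
  leafX_sound T5.ok_mp T5.Ymp.bz_eq (w := 186) (c := ⟨⟨.negSucc 1147, .negSucc 95, .negSucc 10, .negSucc 149, .ofNat 150, .negSucc 0⟩, ⟨.negSucc 329, .negSucc 18, .negSucc 142, .negSucc 92, .ofNat 57, .ofNat 4⟩, ⟨.ofNat 1181, .ofNat 55, .ofNat 5, .negSucc 265, .negSucc 233, .ofNat 33⟩, ⟨.negSucc 3368, .negSucc 61, .ofNat 0, .negSucc 281, .ofNat 404, .negSucc 23⟩, ⟨.negSucc 65, .ofNat 21, .negSucc 10, .negSucc 413, .ofNat 60, .ofNat 45⟩, .ofNat 864, .negSucc 610, .ofNat 0, .negSucc 610, .ofNat 1941, .ofNat 0, .ofNat 245, .ofNat 108, .negSucc 113, .ofNat 0, .ofNat 128, .negSucc 30, .ofNat 0, .ofNat 0, .ofNat 673, .ofNat 2977, .ofNat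 0, .ofNat 0, .ofNat 0, .ofNat 0, .ofNat 0, .ofNat 0, .ofNat 0, .ofNat 0, .ofNat 0, .ofNat 0, .ofNat 0, .ofNat 0, .ofNat 0, .ofNat 0, .ofNat 0, .ofNat 0⟩)
    (by decide +kernel)
theorem L00200 : Good (Phi V5.P V5.D (-1) 1) ⟨3, 1, 3, 2, 1, 0, 2, 2, 3, 2⟩ :=
  leafX_sound T5.ok_mp T5.Ymp.bz_eq (w := 187) (c := ⟨⟨.negSucc 1176, .negSucc 61, .ofNat 0, .negSucc 93, .ofNat 114, .ofNat 120⟩, ⟨.negSucc 347, .negSucc 11, .negSucc 128, .negSucc 59, .ofNat 47, .ofNat 47⟩, ⟨.ofNat 1208, .ofNat 42, .negSucc 10, .negSucc 146, .negSucc 324, .negSucc 119⟩, ⟨.negSucc 3434, .ofNat 19, .ofNat 12, .negSucc 167, .ofNat 302, .ofNat 326⟩, ⟨.negSucc 83, .ofNat 5, .ofNat 9, .negSucc 299, .ofNat 68, .ofNat 60⟩, .ofNat 867, .negSucc 606, .ofNat 0, .negSucc 606, .ofNat 1919, .ofNat 0, .ofNat 248, .ofNat 105, .negSucc 85, .ofNat 0, .ofNat 128, .negSucc 24, .ofNat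 0, .ofNat 0, .ofNat 974, .ofNat 5106, .ofNat 0, .ofNat 0, .ofNat 0, .ofNat 0, .ofNat 0, .ofNat 0, .ofNat 0, .ofNat 0, .ofNat 0, .ofNat 0, .ofNat 0, .ofNat 0, .ofNat 0, .ofNat 0, .ofNat 0, .ofNat 0⟩)
    (by decide +kernel)
theorem L00201 : Good (Phi V5.P V5.D (-1) 1) ⟨3, 1, 3, 2, 1, 0, 2, 2, 3, 3⟩ :=
  leafX_sound T5.ok_mp T5.Ymp.bz_eq (w := 187) (c := ⟨⟨.negSucc 1062, .negSucc 56, .negSucc 2, .negSucc 54, .ofNat 88, .ofNat 107⟩, ⟨.negSucc 309, .negSucc 11, .negSucc 125, .negSucc 37, .ofNat 41, .ofNat 46⟩, ⟨.ofNat 1114, .ofNat 47, .negSucc 18, .negSucc 85, .negSucc 395, .negSucc 130⟩, ⟨.negSucc 3094, .ofNat 24, .negSucc 6, .negSucc 90, .ofNat 216, .ofNat 252⟩, ⟨.negSucc 87, .negSucc 2, .ofNat 2, .negSucc 186, .ofNat 95, .ofNat 130⟩, .ofNat 1023, .negSucc 869, .ofNat 0, .negSucc 869, .ofNat 2574, .ofNat 0, .ofNat 128, .ofNat 119, .negSucc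 46, .ofNat 0, .ofNat 139, .negSucc 18, .ofNat 0, .ofNat 0, .ofNat 867, .ofNat 4482, .ofNat 0, .ofNat 0, .ofNat 0, .ofNat 0, .ofNat 11474901071484569733916166955357700096, .ofNat 810843746490737343580540274718277632, .ofNat 0, .ofNat 0, .ofNat 0, .ofNat 0, .ofNat 0, .ofNat 0, .ofNat 0, .ofNat 0, .ofNat 0, .ofNat 0⟩)
    (by decide +kernel)
theorem L00202 : Good (Phi V5.P V5.D (-1) 1) ⟨3, 1, 3, 2, 2, 0, 2, 2, 3, 4⟩ :=
  out_sound (S := T5.ds_mp) T5.ok_mp (w := 22) (j := 1) (by decide +kernel)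
theorem L00203 : Good (Phi V5.P V5.D (-1) 1) ⟨3, 1, 3, 2, 3, 2, 2, 2, 4, 8⟩ :=
  out_sound (S := T5.ds_mp) T5.ok_mp (w := 26) (j := 1) (by decide +kernel)
theorem L00204 : Good (Phi V5.P V5.D (-1) 1) ⟨3, 1, 3, 2, 3, 3, 3, 4, 4, 8⟩ :=
  out_sound (S := T5.ds_mp) T5.ok_mp (w := 27) (j := 1) (by decide +kernel)
theorem L00205 : Good (Phi V5.P V5.D (-1) 1) ⟨3, 1, 3, 2, 4, 6, 3, 5, 5, 16⟩ :=
  out_sound (S := T5.ds_mp) T5.ok_mp (w := 31) (j := 1) (by decide +kernel)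
theorem L00206 : Good (Phi V5.P V5.D (-1) 1) ⟨3, 1, 3, 2, 4, 7, 4, 10, 5, 16⟩ :=
  out_sound (S := T5.ds_mp) T5.ok_mp (w := 32) (j := 1) (by decide +kernel)
theorem L00207 : Good (Phi V5.P V5.D (-1) 1) ⟨3, 1, 3, 2, 4, 7, 4, 11, 5, 16⟩ :=
  out_sound (S := T5.ds_mp) T5.ok_mp (w := 40) (j := 2) (by decide +kernel)
theorem L00208 : Good (Phi V5.P V5.D (-1) 1) ⟨3, 1, 3, 2, 3, 3, 3, 5, 5, 17⟩ :=
  out_sound (S := T5.ds_mp) T5.ok_mp (w := 29) (j := 1) (by decide +kernel)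
theorem L00209 : Good (Phi V5.P V5.D (-1) 1) ⟨3, 1, 3, 2, 2, 1, 2, 2, 4, 9⟩ :=
  out_sound (S := T5.ds_mp) T5.ok_mp (w := 24) (j := 1) (by decide +kernel)
theorem L00210 : Good (Phi V5.P V5.D (-1) 1) ⟨3, 1, 3, 2, 1, 0, 2, 2, 3, 5⟩ :=
  out_sound (S := T5.ds_mp) T5.ok_mp (w := 20) (j := 1) (by decide +kernel)
theorem L00211 : Good (Phi V5.P V5.D (-1) 1) ⟨3, 1, 3, 2, 1, 0, 2, 2, 2, 3⟩ :=
  out_sound (S := T5.ds_mp) T5.ok_mp (w := 18) (j := 1) (by decide +kernel)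
theorem L00212 : Good (Phi V5.P V5.D (-1) 1) ⟨3, 1, 3, 3, 1, 0, 2, 2, 3, 0⟩ :=
  leafX_sound T5.ok_mp T5.Ymp.bz_eq (w := 184) (c := ⟨⟨.negSucc 188, .negSucc 7, .ofNat 53, .ofNat 62, .negSucc 42, .negSucc 1036⟩, ⟨.negSucc 37, .negSucc 6, .negSucc 57, .negSucc 2, .negSucc 23, .negSucc 482⟩, ⟨.ofNat 188, .negSucc 37, .negSucc 15, .negSucc 319, .ofNat 44, .ofNat 940⟩, ⟨.negSucc 708, .ofNat 128, .ofNat 164, .ofNat 471, .negSucc 138, .negSucc 2855⟩, ⟨.ofNat 204, .negSucc 25, .ofNat 60, .negSucc 605, .negSucc 8, .negSucc 226⟩, .ofNat 1087, .negSucc 978, .ofNat 0, .negSucc 978, .ofNat 2319, .ofNat 0, .ofNat 154, .ofNat 128, .negSucc 118, .ofNat 0, .ofNat 121, .negSucc 48, .ofNat 0, .ofNat 0, .ofNat 366, .ofNat 430, .ofNat 0, .ofNat 0, .ofNat 0, .ofNat 0, .ofNat 0, .ofNat 0, .ofNat 0, .ofNat 0, .ofNat 0, .ofNat 0, .ofNat 0, .ofNat 0, .ofNat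 0, .ofNat 0, .ofNat 0, .ofNat 0⟩)
    (by decide +kernel)
theorem L00213 : Good (Phi V5.P V5.D (-1) 1) ⟨3, 1, 3, 3, 1, 0, 2, 2, 3, 1⟩ :=
  leafX_sound T5.ok_mp T5.Ymp.bz_eq (w := 186) (c := ⟨⟨.negSucc 1178, .negSucc 76, .negSucc 22, .negSucc 160, .ofNat 154, .ofNat 18⟩, ⟨.negSucc 483, .negSucc 14, .negSucc 147, .negSucc 103, .ofNat 71, .ofNat 13⟩, ⟨.ofNat 1167, .ofNat 66, .ofNat 20, .negSucc 211, .negSucc 263, .ofNat 7⟩, ⟨.negSucc 3392, .negSucc 9, .negSucc 35, .negSucc 287, .ofNat 388, .negSucc 4⟩, ⟨.negSucc 171, .ofNat 18, .ofNat 2, .negSucc 384, .ofNat 106, .ofNat 105⟩, .ofNat 1072, .negSucc 966, .ofNat 0, .negSucc 966, .ofNat 2327, .ofNat 0, .ofNat 131, .ofNat 128, .negSucc 80, .ofNat 0, .ofNat 121, .negSucc 30, .ofNat 0, .ofNat 0, .ofNat 475, .ofNat 2159, .ofNat 0, .ofNat 0, .ofNat 0, .ofNat 0, .ofNat 0, .ofNat 0, .ofNat 0, .ofNat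 0, .ofNat 0, .ofNat 0, .ofNat 0, .ofNat 0, .ofNat 0, .ofNat 0, .ofNat 0, .ofNat 0⟩)
    (by decide +kernel)
theorem L00214 : Good (Phi V5.P V5.D (-1) 1) ⟨3, 1, 3, 3, 1, 0, 2, 2, 3, 2⟩ :=
  leafX_sound T5.ok_mp T5.Ymp.bz_eq (w := 187) (c := ⟨⟨.negSucc 1171, .negSucc 69, .negSucc 2, .negSucc 107, .ofNat 126, .ofNat 119⟩, ⟨.negSucc 485, .negSucc 12, .negSucc 131, .negSucc 70, .ofNat 64, .ofNat 59⟩, ⟨.ofNat 1232, .ofNat 51, .negSucc 14, .negSucc 184, .negSucc 350, .negSucc 135⟩, ⟨.negSucc 3406, .negSucc 4, .ofNat 14, .negSucc 175, .ofNat 314, .ofNat 311⟩, ⟨.negSucc 103, .ofNat 23, .negSucc 4, .negSucc 282, .ofNat 92, .ofNat 64⟩, .ofNat 1102, .negSucc 999, .ofNat 0, .negSucc 999, .ofNat 2341, .ofNat 0, .ofNat 147, .ofNat 128, .negSucc 32, .ofNat 0, .ofNat 122, .negSucc 12, .ofNat 0, .ofNat 0, .ofNat 392, .ofNat 4161, .ofNat 0, .ofNat 0,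 .ofNat 0, .ofNat 0, .ofNat 0, .ofNat 0, .ofNat 0, .ofNat 0, .ofNat 0, .ofNat 0, .ofNat 0, .ofNat 0, .ofNat 0, .ofNat 0, .ofNat 0, .ofNat 0⟩)
    (by decide +kernel)
theorem L00215 : Good (Phi V5.P V5.D (-1) 1) ⟨3, 1, 3, 3, 1, 0, 2, 2, 3, 3⟩ :=
  leafX_sound T5.ok_mp T5.Ymp.bz_eq (w := 188) (c := ⟨⟨.negSucc 1064, .negSucc 61, .negSucc 3, .negSucc 51, .ofNat 87, .ofNat 119⟩, ⟨.negSucc 436, .negSucc 10, .negSucc 124, .negSucc 38, .ofNat 45, .ofNat 57⟩, ⟨.ofNat 1122, .ofNat 49, .negSucc 25, .negSucc 157, .negSucc 390, .negSucc 189⟩, ⟨.negSucc 3110, .ofNat 21, .ofNat 11, .negSucc 62, .ofNat 204, .ofNat 302⟩, ⟨.negSucc 59, .negSucc 1, .negSucc 24, .negSucc 190, .ofNat 94, .ofNat 56⟩, .ofNat 734, .negSucc 472, .ofNat 0, .negSucc 472, .ofNat 1344, .ofNat 0, .ofNat 128, .ofNat 148, .negSucc 47, .ofNat 0, .ofNat 176, .negSucc 21, .ofNat 0, .ofNat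 0, .ofNat 817, .ofNat 6417, .ofNat 0, .ofNat 0, .ofNat 0, .ofNat 0, .ofNat 2252374953097153003327504569967050752, .ofNat 1374716705006310782612341628111683584, .ofNat 0, .ofNat 0, .ofNat 0, .ofNat 0, .ofNat 0, .ofNat 0, .ofNat 0, .ofNat 0, .ofNat 0, .ofNat 0⟩)
    (by decide +kernel)
theorem L00216 : Good (Phi V5.P V5.D (-1) 1) ⟨3, 1, 3, 3, 2, 0, 2, 2, 3, 4⟩ :=
  out_sound (S := T5.ds_mp) T5.ok_mp (w := 22) (j := 1) (by decide +kernel)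
theorem L00217 : Good (Phi V5.P V5.D (-1) 1) ⟨3, 1, 3, 3, 3, 2, 2, 2, 4, 8⟩ :=
  out_sound (S := T5.ds_mp) T5.ok_mp (w := 26) (j := 1) (by decide +kernel)
theorem L00218 : Good (Phi V5.P V5.D (-1) 1) ⟨3, 1, 3, 3, 3, 3, 3, 4, 4, 8⟩ :=
  out_sound (S := T5.ds_mp) T5.ok_mp (w := 27) (j := 1) (by decide +kernel)
theorem L00219 : Good (Phi V5.P V5.D (-1) 1) ⟨3, 1, 3, 3, 4, 6, 3, 5, 5, 16⟩ :=
  out_sound (S := T5.ds_mp) T5.ok_mp (w := 31) (j := 1) (by decide +kernel)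
theorem L00220 : Good (Phi V5.P V5.D (-1) 1) ⟨3, 1, 3, 3, 4, 7, 4, 10, 5, 16⟩ :=
  out_sound (S := T5.ds_mp) T5.ok_mp (w := 32) (j := 1) (by decide +kernel)
theorem L00221 : Good (Phi V5.P V5.D (-1) 1) ⟨3, 1, 3, 3, 4, 7, 4, 11, 5, 16⟩ :=
  out_sound (S := T5.ds_mp) T5.ok_mp (w := 40) (j := 2) (by decide +kernel)
theorem L00222 : Good (Phi V5.P V5.D (-1) 1) ⟨3, 1, 3, 3, 3, 3, 3, 5, 5, 17⟩ :=
  out_sound (S := T5.ds_mp) T5.ok_mp (w := 29) (j := 1) (by decide +kernel)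
theorem L00223 : Good (Phi V5.P V5.D (-1) 1) ⟨3, 1, 3, 3, 2, 1, 2, 2, 4, 9⟩ :=
  out_sound (S := T5.ds_mp) T5.ok_mp (w := 24) (j := 1) (by decide +kernel)
theorem L00224 : Good (Phi V5.P V5.D (-1) 1) ⟨3, 1, 3, 3, 1, 0, 2, 2, 3, 5⟩ :=
  out_sound (S := T5.ds_mp) T5.ok_mp (w := 20) (j := 1) (by decide +kernel)
theorem L00225 : Good (Phi V5.P V5.D (-1) 1) ⟨3, 1, 3, 3, 1, 0, 2, 2, 2, 3⟩ :=
  out_sound (S := T5.ds_mp) T5.ok_mp (w := 18) (j := 1) (by decide +kernel)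
theorem L00226 : Good (Phi V5.P V5.D (-1) 1) ⟨3, 1, 2, 1, 1, 0, 3, 6, 3, 0⟩ :=
  leafX_sound T5.ok_mp T5.Ymp.bz_eq (w := 185) (c := ⟨⟨.negSucc 393, .negSucc 92, .negSucc 66, .negSucc 23, .ofNat 56, .negSucc 604⟩, ⟨.negSucc 60, .negSucc 6, .negSucc 213, .negSucc 60, .ofNat 14, .negSucc 255⟩, ⟨.ofNat 402, .ofNat 67, .ofNat 79, .negSucc 230, .negSucc 46, .ofNat 443⟩, ⟨.negSucc 1201, .negSucc 102, .negSucc 112, .ofNat 130, .ofNat 140, .negSucc 1760⟩, ⟨.ofNat 20, .negSucc 54, .negSucc 39, .negSucc 495, .negSucc 10, .ofNat 52⟩, .ofNat 691, .negSucc 399, .ofNat 0, .negSucc 399, .ofNat 1286, .ofNat 0, .ofNat 183, .ofNat 102, .negSucc 97, .ofNat 0, .ofNat 128, .negSucc 30, .ofNat 0, .ofNat 0, .ofNat 266, .ofNat 568, .ofNat 0, .ofNat 0, .ofNat 0, .ofNat 0, .ofNat 0, .ofNat 0, .ofNat 0, .ofNat 0, .ofNat 0, .ofNat 0, .ofNat 0, .ofNat 0, .ofNat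 0, .ofNat 0, .ofNat 0, .ofNat 0⟩)
    (by decide +kernel)
theorem L00227 : Good (Phi V5.P V5.D (-1) 1) ⟨3, 1, 2, 1, 1, 0, 3, 6, 3, 1⟩ :=
  leafX_sound T5.ok_mp T5.Ymp.bz_eq (w := 187) (c := ⟨⟨.negSucc 1009, .negSucc 72, .negSucc 0, .negSucc 152, .ofNat 136, .negSucc 10⟩, ⟨.negSucc 294, .negSucc 12, .negSucc 243, .negSucc 88, .ofNat 60, .ofNat 3⟩, ⟨.ofNat 970, .ofNat 32, .negSucc 28, .negSucc 124, .negSucc 227, .negSucc 89⟩, ⟨.negSucc 2962, .negSucc 23, .ofNat 38, .negSucc 311, .ofNat 374, .negSucc 61⟩, ⟨.negSucc 66, .ofNat 21, .negSucc 14, .negSucc 325, .ofNat 34, .ofNat 67⟩, .ofNat 691, .negSucc 395, .ofNat 0, .negSucc 395, .ofNat 1277, .ofNat 0, .ofNat 171, .ofNat 99, .negSucc 83, .ofNat 0, .ofNat 128, .negSucc 24, .ofNat 0, .ofNat 0, .ofNat 401, .ofNat 1867, .ofNat 0, .ofNat 0, .ofNat 0, .ofNat 0, .ofNat 0, .ofNat 0, .ofNat 0, .ofNat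 0, .ofNat 0, .ofNat 0, .ofNat 0, .ofNat 0, .ofNat 0, .ofNat 0, .ofNat 0, .ofNat 0⟩)
    (by decide +kernel)
theorem L00228 : Good (Phi V5.P V5.D (-1) 1) ⟨3, 1, 2, 1, 1, 0, 3, 6, 3, 2⟩ :=
  leafX_sound T5.ok_mp T5.Ymp.bz_eq (w := 187) (c := ⟨⟨.negSucc 1040, .negSucc 53, .ofNat 8, .negSucc 88, .ofNat 88, .ofNat 64⟩, ⟨.negSucc 301, .negSucc 14, .negSucc 237, .negSucc 42, .ofNat 39, .ofNat 30⟩, ⟨.ofNat 897, .negSucc 3, .negSucc 59, .negSucc 105, .negSucc 225, .negSucc 142⟩, ⟨.negSucc 3040, .ofNat 50, .ofNat 37, .negSucc 213, .ofNat 221, .ofNat 156⟩, ⟨.negSucc 68, .negSucc 53, .negSucc 7, .negSucc 96, .ofNat 84, .ofNat 75⟩, .ofNat 684, .negSucc 384, .ofNat 0, .negSucc 384, .ofNat 1272, .ofNat 0, .ofNat 158, .ofNat 96, .negSucc 63, .ofNat 0, .ofNat 128, .negSucc 20, .ofNat 0, .ofNat 0, .ofNat 542, .ofNat 2310, .ofNat 0, .ofNat 0, .ofNat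 0, .ofNat 0, .ofNat 0, .ofNat 207301837223919782785581539385147392, .ofNat 0, .ofNat 0, .ofNat 0, .ofNat 310532989057795594332061913776652288, .ofNat 0, .ofNat 0, .ofNat 0, .ofNat 0, .ofNat 0, .ofNat 0⟩)
    (by decide +kernel)
theorem L00229 : Good (Phi V5.P V5.D (-1) 1) ⟨3, 1, 2, 1, 1, 0, 3, 6, 3, 3⟩ :=
  leafX_sound T5.ok_mp T5.Ymp.bz_eq (w := 188) (c := ⟨⟨.negSucc 988, .negSucc 38, .ofNat 10, .negSucc 18, .ofNat 52, .ofNat 34⟩, ⟨.negSucc 290, .negSucc 0, .negSucc 227, .negSucc 3, .ofNat 28, .ofNat 22⟩, ⟨.ofNat 743, .ofNat 32, .negSucc 85, .negSucc 124, .negSucc 237, .negSucc 94⟩, ⟨.negSucc 2869, .ofNat 41, .ofNat 28, .negSucc 40, .ofNat 121, .ofNat 39⟩, ⟨.negSucc 95, .ofNat 58, .negSucc 0, .negSucc 19, .ofNat 65, .ofNat 136⟩, .ofNat 1121, .negSucc 1037, .ofNat 0, .negSucc 1037, .ofNat 2623, .ofNat 0, .ofNat 174, .ofNat 126, .negSucc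 55, .ofNat 0, .ofNat 128, .negSucc 26, .ofNat 0, .ofNat 0, .ofNat 746, .ofNat 3105, .ofNat 0, .ofNat 0, .ofNat 0, .ofNat 0, .ofNat 0, .ofNat 1055329738004513878486202698357014528, .ofNat 0, .ofNat 0, .ofNat 0, .ofNat 699884535986857102962096086548742144, .ofNat 0, .ofNat 0, .ofNat 0, .ofNat 1420099528576288318065017301325840384, .ofNat 0, .ofNat 0⟩)
    (by decide +kernel)
theorem L00230 : Good (Phi V5.P V5.D (-1) 1) ⟨3, 1, 2, 1, 2, 0, 3, 6, 3, 4⟩ :=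
  out_sound (S := T5.ds_mp) T5.ok_mp (w := 23) (j := 1) (by decide +kernel)
theorem L00231 : Good (Phi V5.P V5.D (-1) 1) ⟨3, 1, 2, 1, 3, 2, 4, 12, 5, 16⟩ :=
  out_sound (S := T5.ds_mp) T5.ok_mp (w := 30) (j := 1) (by decide +kernel)
theorem L00232 : Good (Phi V5.P V5.D (-1) 1) ⟨3, 1, 2, 1, 4, 4, 4, 13, 6, 32⟩ :=
  out_sound (S := T5.ds_mp) T5.ok_mp (w := 34) (j := 1) (by decide +kernel)
theorem L00233 : Good (Phi V5.P V5.D (-1) 1) ⟨3, 1, 2, 1, 4, 5, 5, 26, 6, 32⟩ :=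
  out_sound (S := T5.ds_mp) T5.ok_mp (w := 35) (j := 1) (by decide +kernel)
theorem L00234 : Good (Phi V5.P V5.D (-1) 1) ⟨3, 1, 2, 1, 5, 10, 5, 27, 6, 32⟩ :=
  out_sound (S := T5.ds_mp) T5.ok_mp (w := 37) (j := 1) (by decide +kernel)
theorem L00235 : Good (Phi V5.P V5.D (-1) 1) ⟨3, 1, 2, 1, 5, 11, 5, 27, 6, 32⟩ :=
  out_sound (S := T5.ds_mp) T5.ok_mp (w := 46) (j := 2) (by decide +kernel)
theorem L00236 : Good (Phi V5.P V5.D (-1) 1) ⟨3, 1, 2, 1, 3, 2, 4, 13, 6, 33⟩ :=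
  out_sound (S := T5.ds_mp) T5.ok_mp (w := 32) (j := 1) (by decide +kernel)
theorem L00237 : Good (Phi V5.P V5.D (-1) 1) ⟨3, 1, 2, 1, 3, 2, 3, 6, 5, 17⟩ :=
  out_sound (S := T5.ds_mp) T5.ok_mp (w := 29) (j := 1) (by decide +kernel)
theorem L00238 : Good (Phi V5.P V5.D (-1) 1) ⟨3, 1, 2, 1, 4, 6, 5, 24, 6, 32⟩ :=
  out_sound (S := T5.ds_mp) T5.ok_mp (w := 35) (j := 1) (by decide +kernel)
theorem L00239 : Good (Phi V5.P V5.D (-1) 1) ⟨3, 1, 2, 1, 4, 6, 5, 25, 6, 32⟩ :=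
  out_sound (S := T5.ds_mp) T5.ok_mp (w := 44) (j := 2) (by decide +kernel)
theorem L00240 : Good (Phi V5.P V5.D (-1) 1) ⟨3, 1, 2, 1, 4, 6, 4, 12, 6, 33⟩ :=
  out_sound (S := T5.ds_mp) T5.ok_mp (w := 34) (j := 1) (by decide +kernel)
theorem L00241 : Good (Phi V5.P V5.D (-1) 1) ⟨3, 1, 2, 1, 4, 6, 4, 12, 5, 17⟩ :=
  out_sound (S := T5.ds_mp) T5.ok_mp (w := 32) (j := 1) (by decide +kernel)
theorem L00242 : Good (Phi V5.P V5.D (-1) 1) ⟨3, 1, 2, 1, 4, 6, 4, 13, 4, 8⟩ :=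
  out_sound (S := T5.ds_mp) T5.ok_mp (w := 38) (j := 2) (by decide +kernel)
theorem L00243 : Good (Phi V5.P V5.D (-1) 1) ⟨3, 1, 2, 1, 4, 7, 3, 6, 4, 8⟩ :=
  out_sound (S := T5.ds_mp) T5.ok_mp (w := 36) (j := 2) (by decide +kernel)
theorem L00244 : Good (Phi V5.P V5.D (-1) 1) ⟨3, 1, 2, 1, 2, 1, 3, 6, 4, 9⟩ :=
  out_sound (S := T5.ds_mp) T5.ok_mp (w := 25) (j := 1) (by decide +kernel)
theorem L00245 : Good (Phi V5.P V5.D (-1) 1) ⟨3, 1, 2, 1, 1, 0, 3, 6, 3, 5⟩ :=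
  out_sound (S := T5.ds_mp) T5.ok_mp (w := 21) (j := 1) (by decide +kernel)
theorem L00246 : Good (Phi V5.P V5.D (-1) 1) ⟨3, 1, 2, 1, 1, 0, 3, 6, 2, 3⟩ :=
  out_sound (S := T5.ds_mp) T5.ok_mp (w := 19) (j := 1) (by decide +kernel)
theorem L00247 : Good (Phi V5.P V5.D (-1) 1) ⟨3, 1, 2, 1, 1, 0, 4, 14, 3, 0⟩ :=
  leafX_sound T5.ok_mp T5.Ymp.bz_eq (w := 190) (c := ⟨⟨.negSucc 367, .negSucc 89, .negSucc 79, .negSucc 147, .ofNat 103, .negSucc 389⟩, ⟨.negSucc 88, .negSucc 14, .negSucc 188, .negSucc 97, .ofNat 40, .negSucc 144⟩, ⟨.ofNat 413, .ofNat 26, .ofNat 70, .negSucc 63, .negSucc 123, .ofNat 185⟩, ⟨.negSucc 1126, .negSucc 92, .negSucc 165, .negSucc 243, .ofNat 282, .negSucc 1141⟩, ⟨.negSucc 78, .negSucc 87, .negSucc 14, .negSucc 379, .ofNat 19, .ofNat 99⟩, .ofNat 683, .negSucc 387, .ofNat 0, .negSucc 387, .ofNat 1280, .ofNat 0, .ofNat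 241, .ofNat 101, .negSucc 146, .ofNat 0, .ofNat 128, .negSucc 43, .ofNat 0, .ofNat 0, .ofNat 361, .ofNat 1090, .ofNat 0, .ofNat 0, .ofNat 0, .ofNat 0, .ofNat 0, .ofNat 0, .ofNat 0, .ofNat 0, .ofNat 0, .ofNat 0, .ofNat 0, .ofNat 0, .ofNat 0, .ofNat 0, .ofNat 0, .ofNat 0⟩)
    (by decide +kernel)
theorem L00248 : Good (Phi V5.P V5.D (-1) 1) ⟨3, 1, 2, 1, 1, 0, 5, 30, 3, 0⟩ :=
  leafX_sound T5.ok_mp T5.Ymp.bz_eq (w := 194) (c := ⟨⟨.negSucc 346, .negSucc 24, .negSucc 63, .negSucc 204, .ofNat 104, .negSucc 273⟩, ⟨.negSucc 84, .negSucc 2, .negSucc 151, .negSucc 118, .ofNat 35, .negSucc 99⟩, ⟨.ofNat 337, .negSucc 32, .ofNat 43, .ofNat 79, .negSucc 112, .ofNat 42⟩, ⟨.negSucc 1016, .ofNat 61, .negSucc 105, .negSucc 436, .ofNat 251, .negSucc 834⟩, ⟨.negSucc 126, .negSucc 74, .negSucc 9, .negSucc 366, .ofNat 118, .ofNat 77⟩, .ofNat 683, .negSucc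 378, .ofNat 0, .negSucc 378, .ofNat 1260, .ofNat 0, .ofNat 248, .ofNat 99, .negSucc 158, .ofNat 0, .ofNat 128, .negSucc 47, .ofNat 0, .ofNat 0, .ofNat 366, .ofNat 1764, .ofNat 0, .ofNat 0, .ofNat 0, .ofNat 0, .ofNat 0, .ofNat 0, .ofNat 0, .ofNat 0, .ofNat 0, .ofNat 0, .ofNat 0, .ofNat 0, .ofNat 0, .ofNat 0, .ofNat 0, .ofNat 0⟩)
    (by decide +kernel)
theorem L00249 : Good (Phi V5.P V5.D (-1) 1) ⟨3, 1, 2, 1, 1, 0, 5, 31, 3, 0⟩ :=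
  leafX_sound T5.ok_mp T5.Ymp.bz_eq (w := 194) (c := ⟨⟨.negSucc 253, .negSucc 9, .negSucc 64, .negSucc 315, .ofNat 179, .negSucc 165⟩, ⟨.negSucc 58, .negSucc 3, .negSucc 120, .negSucc 164, .ofNat 73, .negSucc 60⟩, ⟨.ofNat 211, .negSucc 49, .ofNat 70, .ofNat 201, .negSucc 177, .negSucc 71⟩, ⟨.negSucc 749, .ofNat 72, .negSucc 122, .negSucc 758, .ofNat 523, .negSucc 539⟩, ⟨.negSucc 113, .negSucc 29, .negSucc 4, .negSucc 350, .negSucc 31, .ofNat 147⟩, .ofNat 698, .negSucc 408, .ofNat 0, .negSucc 408, .ofNat 1288, .ofNat 0, .ofNat 187, .ofNat 103, .negSucc 180, .ofNat 0, .ofNat 128, .negSucc 57, .ofNat 0, .ofNat 0, .ofNat 401, .ofNat 1638, .ofNat 0, .ofNat 637432754750642107353182864813326336, .ofNat 0, .ofNat 0, .ofNat 0, .ofNat 1367127342259251048134138132648951808, .ofNat 0, .ofNat 0, .ofNat 0, .ofNat 0, .ofNat 0, .ofNat 0, .ofNat 0,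 .ofNat 0, .ofNat 0, .ofNat 0⟩)
    (by decide +kernel)
theorem L00250 : Good (Phi V5.P V5.D (-1) 1) ⟨3, 1, 2, 1, 1, 0, 4, 14, 3, 1⟩ :=
  leafX_sound T5.ok_mp T5.Ymp.bz_eq (w := 190) (c := ⟨⟨.negSucc 825, .negSucc 20, .ofNat 9, .negSucc 239, .ofNat 125, .negSucc 54⟩, ⟨.negSucc 246, .ofNat 18, .negSucc 216, .negSucc 98, .ofNat 54, .negSucc 10⟩, ⟨.ofNat 694, .negSucc 26, .negSucc 55, .ofNat 31, .negSucc 179, .negSucc 93⟩, ⟨.negSucc 2367, .ofNat 98, .ofNat 40, .negSucc 651, .ofNat 312, .negSucc 209⟩, ⟨.negSucc 198, .ofNat 65, .negSucc 13, .negSucc 53, .ofNat 91, .ofNat 119⟩, .ofNat 690, .negSucc 394, .ofNat 0, .negSucc 394, .ofNat 1277, .ofNat 0, .ofNat 174, .ofNat 101, .negSucc 69, .ofNat 0, .ofNat 128, .negSucc 19, .ofNat 0, .ofNat 0, .ofNat 280, .ofNat 1035, .ofNat 0, .ofNat 0, .ofNat 0, .ofNat 0, .ofNat 0, .ofNat 0, .ofNat 0, .ofNat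 0, .ofNat 0, .ofNat 0, .ofNat 0, .ofNat 0, .ofNat 0, .ofNat 0, .ofNat 0, .ofNat 0⟩)
    (by decide +kernel)
theorem L00251 : Good (Phi V5.P V5.D (-1) 1) ⟨3, 1, 2, 1, 2, 0, 4, 15, 3, 1⟩ :=
  leafX_sound T5.ok_mp T5.Ymp.bz_eq (w := 204) (c := ⟨⟨.negSucc 663, .negSucc 18, .ofNat 3, .negSucc 24, .ofNat 310, .negSucc 173⟩, ⟨.negSucc 199, .ofNat 9, .negSucc 146, .negSucc 23, .ofNat 136, .negSucc 68⟩, ⟨.ofNat 459, .ofNat 5, .negSucc 21, .negSucc 56, .negSucc 394, .negSucc 31⟩, ⟨.negSucc 1913, .ofNat 55, .ofNat 29, .negSucc 55, .ofNat 876, .negSucc 536⟩, ⟨.negSucc 111, .ofNat 30, .negSucc 15, .negSucc 33, .ofNat 10, .ofNat 107⟩, .ofNat 692, .negSucc 395, .ofNat 0, .negSucc 395, .ofNat 1276, .ofNat 0, .ofNat 148, .ofNat 96, .negSucc 89, .ofNat 0, .ofNat 128, .negSucc 29, .ofNat 0, .ofNat 0, .ofNat 288, .ofNat 1475, .ofNat 0, .ofNat 209238750381423567968687164535798235136,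 .ofNat 0, .ofNat 0, .ofNat 0, .ofNat 9387293767601824248714738001468138192896, .ofNat 0, .ofNat 0, .ofNat 0, .ofNat 0, .ofNat 0, .ofNat 0, .ofNat 0, .ofNat 0, .ofNat 0, .ofNat 0⟩)
    (by decide +kernel)
theorem L00252 : Good (Phi V5.P V5.D (-1) 1) ⟨3, 1, 2, 1, 2, 1, 4, 15, 3, 1⟩ :=
  leafX_sound T5.ok_mp T5.Ymp.bz_eq (w := 204) (c := ⟨⟨.negSucc 759, .ofNat 8, .ofNat 6, .negSucc 214, .ofNat 278, .negSucc 102⟩, ⟨.negSucc 235, .ofNat 23, .negSucc 194, .negSucc 78, .ofNat 111, .negSucc 16⟩, ⟨.ofNat 505, .negSucc 65, .negSucc 74, .ofNat 119, .negSucc 327, .negSucc 78⟩, ⟨.negSucc 2091, .ofNat 135, .ofNat 34, .negSucc 680, .ofNat 770, .negSucc 440⟩, ⟨.negSucc 327, .ofNat 79, .negSucc 26, .ofNat 113, .ofNat 81, .ofNat 305⟩, .ofNat 422, .negSucc 132, .ofNat 0, .negSucc 132, .ofNat 618, .ofNat 0, .ofNat 208, .ofNat 68, .negSucc 145, .ofNat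 0, .ofNat 128, .negSucc 24, .ofNat 0, .ofNat 0, .ofNat 370, .ofNat 1218, .ofNat 0, .ofNat 241664174495058188669537606629163270144, .ofNat 0, .ofNat 0, .ofNat 0, .ofNat 13120119651579670650032375286549958361088, .ofNat 0, .ofNat 0, .ofNat 0, .ofNat 5668001508301539234694202776379512061952, .ofNat 0, .ofNat 0, .ofNat 0, .ofNat 8748644269515037426134723143049553117184, .ofNat 0, .ofNat 0⟩)
    (by decide +kernel)
theorem L00253 : Good (Phi V5.P V5.D (-1) 1) ⟨3, 1, 2, 1, 1, 0, 3, 7, 3, 2⟩ :=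
  leafX_sound T5.ok_mp T5.Ymp.bz_eq (w := 186) (c := ⟨⟨.negSucc 932, .negSucc 22, .ofNat 16, .negSucc 85, .ofNat 211, .negSucc 12⟩, ⟨.negSucc 275, .ofNat 6, .negSucc 216, .negSucc 20, .ofNat 87, .ofNat 1⟩, ⟨.ofNat 657, .ofNat 9, .negSucc 86, .negSucc 68, .negSucc 421, .negSucc 135⟩, ⟨.negSucc 2686, .ofNat 71, .ofNat 47, .negSucc 287, .ofNat 557, .negSucc 69⟩, ⟨.negSucc 135, .ofNat 91, .negSucc 20, .ofNat 107, .ofNat 121, .ofNat 66⟩, .ofNat 685, .negSucc 388, .ofNat 0, .negSucc 388, .ofNat 1278, .ofNat 0, .ofNat 237, .ofNat 97, .negSucc 57, .ofNat 0, .ofNat 128, .negSucc 20, .ofNat 0, .ofNat 0, .ofNat 367, .ofNat 1185, .ofNat 0, .ofNat 0, .ofNat 0, .ofNat 0, .ofNat 0, .ofNat 1430608388046737693009394018600091648, .ofNat 0, .ofNat 0, .ofNat 0, .ofNat 640747923272346554725596501955837952, .ofNat 0, .ofNat 0, .ofNat 0, .ofNat 518684632756060104024035773508485120,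 .ofNat 0, .ofNat 0⟩)
    (by decide +kernel)
theorem L00254 : Good (Phi V5.P V5.D (-1) 1) ⟨3, 1, 2, 1, 1, 0, 3, 7, 3, 3⟩ :=
  leafX_sound T5.ok_mp T5.Ymp.bz_eq (w := 187) (c := ⟨⟨.negSucc 919, .negSucc 49, .ofNat 11, .negSucc 4, .ofNat 68, .negSucc 47⟩, ⟨.negSucc 258, .negSucc 9, .negSucc 221, .ofNat 17, .ofNat 34, .negSucc 20⟩, ⟨.ofNat 488, .ofNat 69, .negSucc 75, .negSucc 149, .negSucc 269, .negSucc 30⟩, ⟨.negSucc 2701, .ofNat 22, .ofNat 13, .negSucc 78, .ofNat 165, .negSucc 114⟩, ⟨.ofNat 15, .ofNat 9, .ofNat 4, .ofNat 141, .ofNat 65, .negSucc 70⟩, .ofNat 943, .negSucc 742, .ofNat 0, .negSucc 742, .ofNat 2056, .ofNat 0, .ofNat 200, .ofNat 116, .negSucc 58, .ofNat 0, .ofNat 128, .negSucc 25, .ofNat 0, .ofNat 0, .ofNat 530, .ofNat 2507, .ofNat 0, .ofNat 0, .ofNat 0, .ofNat 0, .ofNat 0, .ofNat 2321045004328991547959587672260870144,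 .ofNat 0, .ofNat 0, .ofNat 0, .ofNat 1566605954905557616380491925246967808, .ofNat 0, .ofNat 0, .ofNat 1816213115359604056751901481411543040, .ofNat 1874895990508455763640869726822858752, .ofNat 0, .ofNat 0⟩)
    (by decide +kernel)
theorem L00255 : Good (Phi V5.P V5.D (-1) 1) ⟨3, 1, 2, 1, 1, 0, 3, 7, 1, 1⟩ :=
  leafX_sound T5.ok_mp T5.Ymp.bz_eq (w := 184) (c := ⟨⟨.negSucc 982, .negSucc 76, .negSucc 0, .ofNat 1, .negSucc 0, .ofNat 1⟩, ⟨.negSucc 272, .negSucc 19, .negSucc 242, .ofNat 0, .ofNat 0, .ofNat 0⟩, ⟨.ofNat 286, .ofNat 77, .ofNat 1, .ofNat 0, .ofNat 0, .ofNat 0⟩, ⟨.negSucc 2892, .negSucc 33, .ofNat 0, .ofNat 1, .negSucc 0, .ofNat 1⟩, ⟨.ofNat 0, .ofNat 0, .ofNat 0, .ofNat 0, .ofNat 0, .ofNat 0⟩, .ofNat 192, .negSucc 22, .ofNat 0, .negSucc 22, .ofNat 227, .ofNat 0, .ofNat 143, .ofNat 23, .negSucc 105, .ofNat 0, .ofNat 128, .negSucc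 14, .ofNat 0, .ofNat 0, .ofNat 303, .ofNat 9696, .ofNat 0, .ofNat 0, .ofNat 0, .ofNat 0, .ofNat 2395797242253373585662914142299750400000000, .ofNat 24038109859177004013575521332291759505408, .ofNat 0, .ofNat 0, .ofNat 2395797242253373585662914142299750400000000, .ofNat 24038154770334364605686533102225131044864, .ofNat 0, .ofNat 0, .ofNat 2395797242253373585662914142299750400000000, .ofNat 24038116586559125343531822906498898460672, .ofNat 0, .ofNat 0⟩)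
    (by decide +kernel)
theorem L00256 : Good (Phi V5.P V5.D (-1) 1) ⟨2, 0, 2, 1, 3, 4, 3, 0, 4, 0⟩ :=
  leafX_sound T5.ok_mp T5.Ymp.bz_eq (w := 216) (c := ⟨⟨.ofNat 796, .negSucc 133, .negSucc 224, .ofNat 117, .ofNat 164, .negSucc 1318⟩, ⟨.ofNat 199, .negSucc 106, .ofNat 11, .ofNat 37, .ofNat 81, .negSucc 529⟩, ⟨.negSucc 368, .ofNat 276, .ofNat 270, .negSucc 76, .negSucc 266, .ofNat 435⟩, ⟨.ofNat 2514, .negSucc 231, .negSucc 363, .ofNat 339, .ofNat 356, .negSucc 3777⟩, ⟨.negSucc 612, .negSucc 519, .negSucc 81, .negSucc 94, .ofNat 352, .negSucc 393⟩, .ofNat 427, .negSucc 128, .ofNat 0, .negSucc 128, .ofNat 607, .ofNat 0, .ofNat 149, .ofNat 67, .negSucc 51, .ofNat 0, .ofNat 128, .negSucc 5, .ofNat 0, .ofNat 0, .ofNat 254, .ofNat 6169, .ofNat 0, .ofNat 0, .ofNat 0, .ofNat 0, .ofNat 26362785906929325000618044135251591129202688, .ofNat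 0, .ofNat 0, .ofNat 0, .ofNat 0, .ofNat 0, .ofNat 0, .ofNat 0, .ofNat 0, .ofNat 0, .ofNat 0, .ofNat 0⟩)
    (by decide +kernel)
theorem L00257 : Good (Phi V5.P V5.D (-1) 1) ⟨2, 0, 2, 1, 3, 5, 3, 0, 4, 0⟩ :=
  leafX_sound T5.ok_mp T5.Ymp.bz_eq (w := 216) (c := ⟨⟨.ofNat 905, .negSucc 123, .negSucc 303, .ofNat 57, .ofNat 249, .negSucc 1329⟩, ⟨.ofNat 254, .negSucc 110, .negSucc 18, .ofNat 17, .ofNat 120, .negSucc 561⟩, ⟨.negSucc 399, .ofNat 321, .ofNat 336, .negSucc 98, .negSucc 387, .ofNat 372⟩, ⟨.ofNat 2825, .negSucc 151, .negSucc 551, .ofNat 55, .ofNat 533, .negSucc 3757⟩, ⟨.negSucc 421, .negSucc 909, .negSucc 272, .ofNat 298, .ofNat 474, .negSucc 653⟩, .ofNat 427, .negSucc 128, .ofNat 0, .negSucc 128, .ofNat 607, .ofNat 0, .ofNat 210, .ofNat 57, .negSucc 57, .ofNat 0, .ofNat 128, .negSucc 12, .ofNat 0, .ofNat 0, .ofNat 265, .ofNat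 6967, .ofNat 0, .ofNat 0, .ofNat 0, .ofNat 0, .ofNat 0, .ofNat 0, .ofNat 0, .ofNat 0, .ofNat 0, .ofNat 0, .ofNat 0, .ofNat 0, .ofNat 0, .ofNat 0, .ofNat 0, .ofNat 0⟩)
    (by decide +kernel)
theorem L00258 : Good (Phi V5.P V5.D (-1) 1) ⟨2, 0, 2, 1, 2, 2, 3, 1, 4, 0⟩ :=
  leafX_sound T5.ok_mp T5.Ymp.bz_eq (w := 202) (c := ⟨⟨.ofNat 998, .negSucc 116, .negSucc 200, .ofNat 223, .ofNat 107, .negSucc 1458⟩, ⟨.ofNat 273, .negSucc 96, .ofNat 45, .ofNat 104, .ofNat 84, .negSucc 617⟩, ⟨.negSucc 583, .ofNat 180, .ofNat 188, .negSucc 259, .negSucc 166, .ofNat 568⟩, ⟨.ofNat 2981, .negSucc 186, .negSucc 402, .ofNat 601, .ofNat 209, .negSucc 4093⟩, ⟨.negSucc 145, .negSucc 667, .negSucc 189, .ofNat 263, .ofNat 338, .negSucc 734⟩, .ofNat 425, .negSucc 126, .ofNat 0, .negSucc 126, .ofNat 610, .ofNat 0, .ofNat 200, .ofNat 69, .negSucc 74, .ofNat 0, .ofNat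 128, .negSucc 9, .ofNat 0, .ofNat 0, .ofNat 233, .ofNat 2388, .ofNat 0, .ofNat 0, .ofNat 0, .ofNat 0, .ofNat 0, .ofNat 0, .ofNat 0, .ofNat 0, .ofNat 0, .ofNat 0, .ofNat 0, .ofNat 0, .ofNat 0, .ofNat 0, .ofNat 0, .ofNat 0⟩)
    (by decide +kernel)
theorem L00259 : Good (Phi V5.P V5.D (-1) 1) ⟨2, 0, 2, 1, 3, 6, 2, 0, 4, 0⟩ :=
  leafX_sound T5.ok_mp T5.Ymp.bz_eq (w := 210) (c := ⟨⟨.ofNat 936, .negSucc 123, .negSucc 286, .negSucc 89, .ofNat 434, .negSucc 1389⟩, ⟨.ofNat 311, .negSucc 130, .negSucc 37, .ofNat 43, .ofNat 241, .negSucc 626⟩, ⟨.negSucc 548, .ofNat 319, .ofNat 261, .ofNat 33, .negSucc 654, .ofNat 607⟩, ⟨.ofNat 2713, .negSucc 87, .negSucc 568, .negSucc 619, .ofNat 1020, .negSucc 3664⟩, ⟨.ofNat 159, .negSucc 868, .negSucc 399, .ofNat 808, .ofNat 634, .negSucc 1139⟩, .ofNat 423, .negSucc 126, .ofNat 0, .negSucc 126, .ofNat 613,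 .ofNat 0, .ofNat 199, .ofNat 50, .negSucc 93, .ofNat 0, .ofNat 128, .negSucc 17, .ofNat 0, .ofNat 0, .ofNat 241, .ofNat 839, .ofNat 0, .ofNat 0, .ofNat 0, .ofNat 0, .ofNat 0, .ofNat 0, .ofNat 0, .ofNat 0, .ofNat 0, .ofNat 0, .ofNat 0, .ofNat 0, .ofNat 3038952363953637240373023936858141598154752, .ofNat 0, .ofNat 0, .ofNat 0⟩)
    (by decide +kernel)
theorem L00260 : Good (Phi V5.P V5.D (-1) 1) ⟨2, 0, 2, 1, 3, 7, 2, 0, 4, 0⟩ :=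
  leafX_sound T5.ok_mp T5.Ymp.bz_eq (w := 211) (c := ⟨⟨.ofNat 503, .negSucc 66, .negSucc 162, .negSucc 375, .ofNat 482, .negSucc 1046⟩, ⟨.ofNat 340, .negSucc 116, .negSucc 145, .negSucc 2, .ofNat 236, .negSucc 570⟩, ⟨.negSucc 78, .ofNat 95, .ofNat 42, .ofNat 415, .negSucc 615, .ofNat 201⟩, ⟨.ofNat 1128, .ofNat 29, .negSucc 467, .negSucc 1681, .ofNat 1214, .negSucc 2448⟩, ⟨.ofNat 1170, .negSucc 659, .negSucc 407, .ofNat 1559, .ofNat 557, .negSucc 1711⟩, .ofNat 689, .negSucc 369, .ofNat 0, .negSucc 369, .ofNat 1235, .ofNat 0, .ofNat 195, .ofNat 107, .negSucc 108, .ofNat 0, .ofNat 128, .negSucc 26, .ofNat 0, .ofNat 0, .ofNat 330, .ofNat 1267, .ofNat 0, .ofNat 0, .ofNat 0, .ofNat 0, .ofNat 0, .ofNat 0, .ofNat 0, .ofNat 0, .ofNat 0, .ofNat 0, .ofNat 0, .ofNat 0, .ofNat 0, .ofNat 0, .ofNat 0, .ofNat 0⟩)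
    (by decide +kernel)
theorem L00261 : Good (Phi V5.P V5.D (-1) 1) ⟨2, 0, 2, 1, 1, 1, 2, 0, 4, 1⟩ :=
  leafX_sound T5.ok_mp T5.Ymp.bz_eq (w := 183) (c := ⟨⟨.negSucc 419, .negSucc 257, .negSucc 160, .ofNat 3, .ofNat 105, .negSucc 697⟩, ⟨.negSucc 194, .negSucc 120, .negSucc 259, .ofNat 70, .ofNat 74, .negSucc 277⟩, ⟨.negSucc 17, .ofNat 414, .ofNat 219, .negSucc 40, .negSucc 362, .ofNat 494⟩, ⟨.negSucc 1076, .negSucc 395, .negSucc 185, .negSucc 222, .ofNat 193, .negSucc 1931⟩, ⟨.negSucc 997, .negSucc 294, .negSucc 157, .ofNat 637, .ofNat 337, .negSucc 229⟩, .ofNat 697, .negSucc 384, .ofNat 0, .negSucc 384, .ofNat 1248, .ofNat 0, .ofNat 255, .ofNat 103, .negSucc 64, .ofNat 0, .ofNat 128, .negSucc 10, .ofNat 0, .ofNat 0, .ofNat 342, .ofNat 1402, .ofNat 104351912123474074692129714006392832, .ofNat 0, .ofNat 0, .ofNat 0, .ofNat 0, .ofNat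 0, .ofNat 0, .ofNat 0, .ofNat 0, .ofNat 0, .ofNat 0, .ofNat 0, .ofNat 278988815228615953342713818953809920, .ofNat 0, .ofNat 0, .ofNat 0⟩)
    (by decide +kernel)
theorem L00262 : Good (Phi V5.P V5.D (-1) 1) ⟨2, 0, 2, 1, 2, 2, 2, 0, 3, 1⟩ :=
  leafX_sound T5.ok_mp T5.Ymp.bz_eq (w := 193) (c := ⟨⟨.negSucc 1212, .negSucc 272, .negSucc 72, .negSucc 11, .ofNat 8, .negSucc 67⟩, ⟨.negSucc 404, .negSucc 112, .negSucc 327, .negSucc 36, .ofNat 14, .negSucc 15⟩, ⟨.ofNat 481, .ofNat 403, .ofNat 232, .negSucc 144, .negSucc 161, .ofNat 460⟩, ⟨.negSucc 3557, .negSucc 312, .ofNat 12, .ofNat 129, .negSucc 13, .negSucc 267⟩, ⟨.negSucc 702, .negSucc 153, .negSucc 13, .negSucc 368, .ofNat 51, .ofNat 128⟩, .ofNat 698, .negSucc 378, .ofNat 0, .negSucc 378, .ofNat 1229, .ofNat 0, .ofNat 209, .ofNat 96, .negSucc 45, .ofNat 0, .ofNat 128, .ofNat 1, .ofNat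 0, .ofNat 0, .ofNat 434, .ofNat 3134, .ofNat 8431107875765062074346135743130238976, .ofNat 0, .ofNat 0, .ofNat 0, .ofNat 0, .ofNat 0, .ofNat 0, .ofNat 0, .ofNat 0, .ofNat 0, .ofNat 0, .ofNat 0, .ofNat 888845020120984297443206489174739779584, .ofNat 0, .ofNat 0, .ofNat 0⟩)
    (by decide +kernel)
theorem L00263 : Good (Phi V5.P V5.D (-1) 1) ⟨2, 0, 2, 1, 2, 3, 2, 0, 4, 2⟩ :=
  leafX_sound T5.ok_mp T5.Ymp.bz_eq (w := 198) (c := ⟨⟨.negSucc 1102, .negSucc 288, .negSucc 128, .ofNat 69, .negSucc 6, .negSucc 147⟩, ⟨.negSucc 384, .negSucc 131, .negSucc 336, .ofNat 44, .ofNat 3, .negSucc 67⟩, ⟨.ofNat 459, .ofNat 355, .ofNat 215, .negSucc 220, .negSucc 252, .ofNat 252⟩, ⟨.negSucc 3233, .negSucc 312, .negSucc 35, .ofNat 182, .negSucc 48, .negSucc 374⟩, ⟨.negSucc 824, .negSucc 285, .negSucc 146, .ofNat 85, .ofNat 73, .negSucc 142⟩, .ofNat 945,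 .negSucc 725, .ofNat 0, .negSucc 725, .ofNat 2011, .ofNat 0, .ofNat 276, .ofNat 114, .negSucc 137, .ofNat 0, .ofNat 128, .negSucc 26, .ofNat 0, .ofNat 0, .ofNat 835, .ofNat 4310, .ofNat 473062532053929871157852909722251821056, .ofNat 0, .ofNat 0, .ofNat 0, .ofNat 0, .ofNat 0, .ofNat 0, .ofNat 0, .ofNat 0, .ofNat 0, .ofNat 0, .ofNat 0, .ofNat 0, .ofNat 0, .ofNat 0, .ofNat 0⟩)
    (by decide +kernel)
theorem L00264 : Good (Phi V5.P V5.D (-1) 1) ⟨2, 0, 2, 1, 2, 3, 2, 0, 4, 3⟩ :=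
  leafX_sound T5.ok_mp T5.Ymp.bz_eq (w := 198) (c := ⟨⟨.negSucc 1345, .negSucc 208, .negSucc 85, .ofNat 141, .negSucc 17, .ofNat 80⟩, ⟨.negSucc 472, .negSucc 96, .negSucc 332, .ofNat 48, .ofNat 3, .ofNat 33⟩, ⟨.ofNat 805, .ofNat 286, .ofNat 183, .negSucc 392, .negSucc 180, .ofNat 88⟩, ⟨.negSucc 3853, .negSucc 131, .ofNat 94, .ofNat 458, .negSucc 102, .ofNat 219⟩, ⟨.negSucc 921, .negSucc 229, .negSucc 179, .negSucc 144, .ofNat 133, .negSucc 1⟩, .ofNat 837, .negSucc 570, .ofNat 0, .negSucc 570, .ofNat 1660, .ofNat 0, .ofNat 181, .ofNat 98, .negSucc 80, .ofNat 0, .ofNat 128, .negSucc 4, .ofNat 0, .ofNat 0, .ofNat 796, .ofNat 4922, .ofNat 192588193675029461454802471956032520192, .ofNat 0, .ofNat 0, .ofNat 0, .ofNat 0, .ofNat 0, .ofNat 0, .ofNat 0, .ofNat 0, .ofNat 0, .ofNat 0, .ofNat 0, .ofNat 19356583720750449010112459389268205240320,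 .ofNat 0, .ofNat 0, .ofNat 0⟩)
    (by decide +kernel)
theorem L00265 : Good (Phi V5.P V5.D (-1) 1) ⟨2, 0, 2, 1, 2, 2, 2, 0, 4, 4⟩ :=
  leafX_sound T5.ok_mp T5.Ymp.bz_eq (w := 200) (c := ⟨⟨.negSucc 1404, .negSucc 169, .negSucc 47, .ofNat 30, .ofNat 71, .ofNat 116⟩, ⟨.negSucc 473, .negSucc 72, .negSucc 313, .negSucc 13, .ofNat 46, .ofNat 58⟩, ⟨.ofNat 1287, .ofNat 272, .ofNat 144, .negSucc 244, .negSucc 393, .ofNat 135⟩, ⟨.negSucc 4060, .negSucc 98, .ofNat 39, .ofNat 225, .ofNat 129, .ofNat 293⟩, ⟨.negSucc 689, .negSucc 51, .negSucc 10, .negSucc 339, .ofNat 135, .ofNat 113⟩, .ofNat 424, .negSucc 127, .ofNat 0, .negSucc 127, .ofNat 612, .ofNat 0, .ofNat 210, .ofNat 54, .negSucc 62, .ofNat 0, .ofNat 128, .ofNat 15, .ofNat 0, .ofNat 0, .ofNat 635, .ofNat 11860, .ofNat 657212657925613000092100508371346522112, .ofNat 0, .ofNat 0, .ofNat 0,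 .ofNat 0, .ofNat 0, .ofNat 0, .ofNat 0, .ofNat 0, .ofNat 0, .ofNat 0, .ofNat 0, .ofNat 32891756996135818649956000516176567336960, .ofNat 0, .ofNat 0, .ofNat 0⟩)
    (by decide +kernel)
theorem L00266 : Good (Phi V5.P V5.D (-1) 1) ⟨2, 0, 2, 1, 2, 3, 2, 0, 4, 4⟩ :=
  leafX_sound T5.ok_mp T5.Ymp.bz_eq (w := 198) (c := ⟨⟨.negSucc 1333, .negSucc 136, .negSucc 48, .ofNat 163, .ofNat 2, .ofNat 129⟩, ⟨.negSucc 484, .negSucc 61, .negSucc 295, .ofNat 47, .ofNat 25, .ofNat 63⟩, ⟨.ofNat 987, .ofNat 181, .ofNat 85, .negSucc 353, .negSucc 197, .ofNat 84⟩, ⟨.negSucc 3825, .ofNat 47, .ofNat 150, .ofNat 581, .negSucc 29, .ofNat 307⟩, ⟨.negSucc 899, .negSucc 221, .negSucc 146, .negSucc 259, .ofNat 143, .ofNat 162⟩, .ofNat 680, .negSucc 348, .ofNat 0, .negSucc 348, .ofNat 1215, .ofNat 0, .ofNat 217, .ofNat 74, .negSucc 47, .ofNat 0, .ofNat 128, .ofNat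 11, .ofNat 0, .ofNat 0, .ofNat 845, .ofNat 3587, .ofNat 0, .ofNat 0, .ofNat 0, .ofNat 0, .ofNat 0, .ofNat 0, .ofNat 0, .ofNat 0, .ofNat 0, .ofNat 0, .ofNat 0, .ofNat 0, .ofNat 16798629844010401922163853294283989712896, .ofNat 0, .ofNat 0, .ofNat 0⟩)
    (by decide +kernel)
theorem L00267 : Good (Phi V5.P V5.D (-1) 1) ⟨2, 0, 2, 1, 2, 2, 2, 0, 4, 5⟩ :=
  leafX_sound T5.ok_mp T5.Ymp.bz_eq (w := 202) (c := ⟨⟨.negSucc 1362, .negSucc 123, .negSucc 42, .ofNat 87, .ofNat 78, .ofNat 133⟩, ⟨.negSucc 428, .negSucc 53, .negSucc 287, .ofNat 14, .ofNat 10, .ofNat 69⟩, ⟨.ofNat 1398, .ofNat 212, .ofNat 103, .negSucc 244, .negSucc 326, .ofNat 109⟩, ⟨.negSucc 3896, .ofNat 8, .ofNat 60, .ofNat 376, .ofNat 66, .ofNat 328⟩, ⟨.negSucc 608, .negSucc 63, .negSucc 34, .negSucc 283, .ofNat 163, .ofNat 138⟩, .ofNat 428, .negSucc 134, .ofNat 0, .negSucc 134,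 .ofNat 615, .ofNat 0, .ofNat 184, .ofNat 52, .negSucc 37, .ofNat 0, .ofNat 128, .ofNat 15, .ofNat 0, .ofNat 0, .ofNat 694, .ofNat 33553, .ofNat 5882773328324624156496906595809913470976, .ofNat 0, .ofNat 0, .ofNat 0, .ofNat 48687137409607170050813723330279991410688, .ofNat 0, .ofNat 0, .ofNat 0, .ofNat 0, .ofNat 0, .ofNat 0, .ofNat 0, .ofNat 87352458544727952299621819384954538164224, .ofNat 0, .ofNat 0, .ofNat 0⟩)
    (by decide +kernel)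
theorem L00268 : Good (Phi V5.P V5.D (-1) 1) ⟨2, 0, 2, 1, 2, 3, 2, 0, 4, 5⟩ :=
  leafX_sound T5.ok_mp T5.Ymp.bz_eq (w := 197) (c := ⟨⟨.negSucc 1237, .negSucc 109, .negSucc 45, .ofNat 170, .ofNat 25, .ofNat 140⟩, ⟨.negSucc 444, .negSucc 54, .negSucc 269, .ofNat 49, .ofNat 27, .ofNat 76⟩, ⟨.ofNat 1108, .ofNat 201, .ofNat 107, .negSucc 324, .negSucc 244, .ofNat 107⟩, ⟨.negSucc 3489, .ofNat 39, .ofNat 99, .ofNat 603, .negSucc 34, .ofNat 356⟩, ⟨.negSucc 904, .negSucc 101, .negSucc 61, .negSucc 271, .ofNat 231, .ofNat 139⟩, .ofNat 426, .negSucc 129, .ofNat 0, .negSucc 129, .ofNat 612, .ofNat 0, .ofNat 173, .ofNat 44, .negSucc 25, .ofNat 0, .ofNat 128, .ofNat 19, .ofNat 0, .ofNat 0, .ofNat 670, .ofNat 1444, .ofNat 0, .ofNat 0, .ofNat 0, .ofNat 0, .ofNat 0, .ofNat 0, .ofNat 0, .ofNat 0, .ofNat 0, .ofNat 0, .ofNat 0, .ofNat 0, .ofNat 24786923799588340888118974471910566395904,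 .ofNat 725502076179504644502075109905012883456, .ofNat 0, .ofNat 0⟩)
    (by decide +kernel)
theorem L00269 : Good (Phi V5.P V5.D (-1) 1) ⟨2, 0, 2, 1, 1, 1, 2, 0, 3, 3⟩ :=
  leafX_sound T5.ok_mp T5.Ymp.bz_eq (w := 179) (c := ⟨⟨.negSucc 1321, .negSucc 80, .negSucc 27, .ofNat 0, .ofNat 230, .ofNat 1⟩, ⟨.negSucc 286, .negSucc 37, .negSucc 259, .ofNat 0, .negSucc 70, .ofNat 0⟩, ⟨.ofNat 1429, .ofNat 119, .ofNat 38, .ofNat 0, .negSucc 400, .negSucc 0⟩, ⟨.negSucc 3270, .ofNat 84, .ofNat 80, .ofNat 0, .ofNat 103, .ofNat 2⟩, ⟨.negSucc 566, .negSucc 54, .negSucc 37, .ofNat 0, .negSucc 19, .ofNat 0⟩, .ofNat 424, .negSucc 127, .ofNat 0, .negSucc 127, .ofNat 613, .ofNat 0, .ofNat 224, .ofNat 47, .negSucc 15, .ofNat 0, .ofNat 128, .ofNat 17, .ofNat 0, .ofNat 0, .ofNat 805, .ofNat 2405, .ofNat 50852302323276974345114607889154048, .ofNat 132753845091418447717865132916736,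 .ofNat 0, .ofNat 0, .ofNat 1978941725858040853891187419855716352, .ofNat 48284518626670646545094686955012096, .ofNat 0, .ofNat 0, .ofNat 211665477651987245856259714788098048, .ofNat 11966457847147858006547543659380736, .ofNat 0, .ofNat 0, .ofNat 2066390326222042741147627386430291968, .ofNat 50526321321627574607242633175629824, .ofNat 0, .ofNat 0⟩)
    (by decide +kernel)
theorem L00270 : Good (Phi V5.P V5.D (-1) 1) ⟨2, 0, 2, 1, 2, 2, 2, 0, 1, 1⟩ :=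
  out_sound (S := T5.ds_mp) T5.ok_mp (w := 18) (j := 1) (by decide +kernel)
theorem L00271 : Good (Phi V5.P V5.D (-1) 1) ⟨2, 0, 2, 1, 2, 3, 2, 0, 1, 1⟩ :=
  out_sound (S := T5.ds_mp) T5.ok_mp (w := 24) (j := 2) (by decide +kernel)
theorem L00272 : Good (Phi V5.P V5.D (-1) 1) ⟨2, 0, 2, 1, 1, 1, 2, 1, 3, 0⟩ :=
  leafX_sound T5.ok_mp T5.Ymp.bz_eq (w := 178) (c := ⟨⟨.ofNat 866, .negSucc 120, .negSucc 57, .ofNat 47, .negSucc 97, .negSucc 2138⟩, ⟨.ofNat 385, .negSucc 62, .negSucc 111, .ofNat 85, .negSucc 46, .negSucc 983⟩, ⟨.negSucc 656, .ofNat 70, .ofNat 150, .negSucc 181, .ofNat 68, .ofNat 1058⟩, ⟨.ofNat 2163, .negSucc 89, .negSucc 36, .ofNat 12, .negSucc 212, .negSucc 5496⟩, ⟨.ofNat 429, .negSucc 315, .negSucc 45, .ofNat 405, .negSucc 215, .negSucc 1499⟩, .ofNat 949, .negSucc 723, .ofNat 0, .negSucc 723, .ofNat 1995, .ofNat 0, .ofNat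 168, .ofNat 128, .negSucc 91, .ofNat 0, .ofNat 122, .negSucc 20, .ofNat 0, .ofNat 0, .ofNat 316, .ofNat 375, .ofNat 0, .ofNat 0, .ofNat 0, .ofNat 0, .ofNat 0, .ofNat 0, .ofNat 0, .ofNat 0, .ofNat 0, .ofNat 0, .ofNat 0, .ofNat 0, .ofNat 0, .ofNat 0, .ofNat 0, .ofNat 0⟩)
    (by decide +kernel)
theorem L00273 : Good (Phi V5.P V5.D (-1) 1) ⟨2, 0, 2, 1, 1, 1, 2, 1, 4, 2⟩ :=
  leafX_sound T5.ok_mp T5.Ymp.bz_eq (w := 183) (c := ⟨⟨.negSucc 1153, .negSucc 228, .negSucc 109, .ofNat 10, .ofNat 61, .negSucc 128⟩, ⟨.negSucc 375, .negSucc 104, .negSucc 336, .negSucc 38, .ofNat 37, .negSucc 45⟩, ⟨.ofNat 510, .ofNat 192, .ofNat 157, .negSucc 365, .negSucc 48, .ofNat 246⟩, ⟨.negSucc 3419, .negSucc 205, .negSucc 41, .ofNat 230, .ofNat 117, .negSucc 397⟩, ⟨.negSucc 574, .negSucc 201, .negSucc 95, .negSucc 495, .ofNat 115, .negSucc 6⟩, .ofNat 690, .negSucc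 369, .ofNat 0, .negSucc 369, .ofNat 1233, .ofNat 0, .ofNat 167, .ofNat 98, .negSucc 69, .ofNat 0, .ofNat 128, .negSucc 5, .ofNat 0, .ofNat 0, .ofNat 329, .ofNat 1358, .ofNat 0, .ofNat 0, .ofNat 0, .ofNat 0, .ofNat 0, .ofNat 0, .ofNat 0, .ofNat 0, .ofNat 0, .ofNat 0, .ofNat 0, .ofNat 0, .ofNat 0, .ofNat 0, .ofNat 0, .ofNat 0⟩)
    (by decide +kernel)
theorem L00274 : Good (Phi V5.P V5.D (-1) 1) ⟨2, 0, 2, 1, 1, 1, 2, 1, 4, 3⟩ :=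
  leafX_sound T5.ok_mp T5.Ymp.bz_eq (w := 183) (c := ⟨⟨.negSucc 1382, .negSucc 175, .negSucc 72, .ofNat 77, .ofNat 86, .ofNat 69⟩, ⟨.negSucc 464, .negSucc 69, .negSucc 334, .negSucc 12, .ofNat 54, .ofNat 45⟩, ⟨.ofNat 914, .ofNat 95, .ofNat 73, .negSucc 434, .negSucc 89, .ofNat 108⟩, ⟨.negSucc 4072, .negSucc 45, .ofNat 21, .ofNat 431, .ofNat 191, .ofNat 122⟩, ⟨.negSucc 603, .negSucc 177, .negSucc 104, .negSucc 561, .ofNat 178, .ofNat 167⟩, .ofNat 426, .negSucc 131, .ofNat 0, .negSucc 131, .ofNat 614, .ofNat 0, .ofNat 154, .ofNat 55, .negSucc 74, .ofNat 0, .ofNat 128, .ofNat 12, .ofNat 0, .ofNat 0, .ofNat 421, .ofNat 1269, .ofNat 0, .ofNat 0, .ofNat 0, .ofNat 0, .ofNat 0, .ofNat 0, .ofNat 0, .ofNat 0, .ofNat 0, .ofNat 0, .ofNat 0, .ofNat 0, .ofNat 0, .ofNat 0, .ofNat 0, .ofNat 0⟩)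
    (by decide +kernel)
theorem L00275 : Good (Phi V5.P V5.D (-1) 1) ⟨2, 0, 2, 1, 2, 2, 2, 1, 4, 4⟩ :=
  leafX_sound T5.ok_mp T5.Ymp.bz_eq (w := 199) (c := ⟨⟨.negSucc 1336, .negSucc 132, .negSucc 44, .ofNat 19, .ofNat 77, .ofNat 98⟩, ⟨.negSucc 428, .negSucc 62, .negSucc 310, .negSucc 13, .ofNat 46, .ofNat 47⟩, ⟨.ofNat 1061, .ofNat 92, .ofNat 50, .negSucc 226, .negSucc 167, .ofNat 72⟩, ⟨.negSucc 3895, .negSucc 37, .ofNat 24, .ofNat 161, .ofNat 161, .ofNat 240⟩, ⟨.negSucc 572, .negSucc 16, .negSucc 26, .negSucc 262, .ofNat 139, .ofNat 100⟩, .ofNat 704, .negSucc 396, .ofNat 0, .negSucc 396, .ofNat 1260, .ofNat 0, .ofNat 169, .ofNat 97, .negSucc 38, .ofNat 0, .ofNat 128, .negSucc 1, .ofNat 0, .ofNat 0, .ofNat 475, .ofNat 5050, .ofNat 81611147659871380986954422951344078848, .ofNat 0, .ofNat 0, .ofNat 0, .ofNat 0, .ofNat 0, .ofNat 0, .ofNat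 0, .ofNat 0, .ofNat 0, .ofNat 0, .ofNat 0, .ofNat 0, .ofNat 0, .ofNat 0, .ofNat 0⟩)
    (by decide +kernel)
theorem L00276 : Good (Phi V5.P V5.D (-1) 1) ⟨2, 0, 2, 1, 2, 3, 2, 1, 4, 4⟩ :=
  leafX_sound T5.ok_mp T5.Ymp.bz_eq (w := 198) (c := ⟨⟨.negSucc 1358, .negSucc 105, .negSucc 46, .ofNat 158, .ofNat 73, .ofNat 148⟩, ⟨.negSucc 471, .negSucc 49, .negSucc 299, .ofNat 47, .ofNat 54, .ofNat 70⟩, ⟨.ofNat 855, .ofNat 61, .ofNat 51, .negSucc 225, .negSucc 114, .ofNat 49⟩, ⟨.negSucc 3868, .ofNat 78, .ofNat 102, .ofNat 527, .ofNat 92, .ofNat 343⟩, ⟨.negSucc 827, .negSucc 115, .negSucc 110, .negSucc 202, .ofNat 268, .ofNat 174⟩, .ofNat 698, .negSucc 378, .ofNat 0, .negSucc 378, .ofNat 1229, .ofNat 0, .ofNat 170, .ofNat 82, .negSucc 40, .ofNat 0, .ofNat 128, .ofNat 10, .ofNat 0, .ofNat 0, .ofNat 739, .ofNat 1692, .ofNat 0, .ofNat 0, .ofNat 0,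 .ofNat 0, .ofNat 0, .ofNat 276210975809959731350491394945373437952, .ofNat 0, .ofNat 0, .ofNat 0, .ofNat 272793430959440431319377324874055811072, .ofNat 0, .ofNat 0, .ofNat 0, .ofNat 575951896932374741880086004724504985600, .ofNat 0, .ofNat 0⟩)
    (by decide +kernel)
theorem L00277 : Good (Phi V5.P V5.D (-1) 1) ⟨3, 0, 2, 1, 3, 4, 4, 4, 4, 5⟩ :=
  leafX_sound T5.ok_mp T5.Ymp.bz_eq (w := 230) (c := ⟨⟨.negSucc 1251, .negSucc 36, .negSucc 35, .ofNat 3, .ofNat 19, .ofNat 100⟩, ⟨.negSucc 382, .negSucc 43, .negSucc 290, .negSucc 12, .ofNat 11, .ofNat 51⟩, ⟨.ofNat 1131, .ofNat 50, .ofNat 36, .negSucc 119, .negSucc 66, .ofNat 115⟩, ⟨.negSucc 3641, .negSucc 6, .ofNat 36, .ofNat 49, .ofNat 40, .ofNat 274⟩, ⟨.negSucc 486, .negSucc 13, .negSucc 14, .negSucc 125, .ofNat 26, .ofNat 95⟩, .ofNat 429, .negSucc 123, .ofNat 0, .negSucc 123, .ofNat 603,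 .ofNat 0, .ofNat 218, .ofNat 53, .negSucc 54, .ofNat 0, .ofNat 128, .ofNat 14, .ofNat 0, .ofNat 0, .ofNat 880, .ofNat 152622, .ofNat 75999146530872155992394422202995481676116656128, .ofNat 0, .ofNat 0, .ofNat 0, .ofNat 198109256034083965227219266959897680578632220672, .ofNat 0, .ofNat 0, .ofNat 0, .ofNat 184083350655664517086635542860784234042069352448, .ofNat 0, .ofNat 0, .ofNat 0, .ofNat 241445437469278825468591413047152835728555114496, .ofNat 0, .ofNat 0, .ofNat 0⟩)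
    (by decide +kernel)
theorem L00278 : Good (Phi V5.P V5.D (-1) 1) ⟨3, 0, 2, 1, 3, 4, 4, 5, 4, 5⟩ :=
  leafX_sound T5.ok_mp T5.Ymp.bz_eq (w := 228) (c := ⟨⟨.negSucc 1234, .negSucc 29, .negSucc 30, .negSucc 1, .ofNat 16, .ofNat 101⟩, ⟨.negSucc 377, .negSucc 40, .negSucc 284, .negSucc 11, .ofNat 11, .ofNat 49⟩, ⟨.ofNat 1084, .ofNat 24, .negSucc 5, .negSucc 87, .negSucc 46, .ofNat 72⟩, ⟨.negSucc 3601, .ofNat 5, .ofNat 36, .ofNat 39, .ofNat 38, .ofNat 266⟩, ⟨.negSucc 471, .negSucc 10, .negSucc 16, .negSucc 107, .ofNat 30, .ofNat 87⟩, .ofNat 426, .negSucc 117, .ofNat 0, .negSucc 117, .ofNat 601, .ofNat 0, .ofNat 136, .ofNat 51, .negSucc 34, .ofNat 0, .ofNat 128, .ofNat 6, .ofNat 0, .ofNat 0, .ofNat 493, .ofNat 59347, .ofNat 18217523947789827589652917893990073885674962944, .ofNat 0, .ofNat 0, .ofNat 0, .ofNat 0, .ofNat 0, .ofNat 0, .ofNat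 0, .ofNat 0, .ofNat 0, .ofNat 0, .ofNat 0, .ofNat 0, .ofNat 0, .ofNat 0, .ofNat 0⟩)
    (by decide +kernel)
theorem L00279 : Good (Phi V5.P V5.D (-1) 1) ⟨3, 1, 2, 1, 3, 4, 3, 2, 4, 5⟩ :=
  leafX_sound T5.ok_mp T5.Ymp.bz_eq (w := 224) (c := ⟨⟨.negSucc 1303, .negSucc 76, .negSucc 32, .ofNat 10, .ofNat 41, .ofNat 114⟩, ⟨.negSucc 435, .negSucc 10, .negSucc 291, .negSucc 4, .ofNat 21, .ofNat 58⟩, ⟨.ofNat 1200, .ofNat 85, .ofNat 35, .negSucc 110, .negSucc 145, .ofNat 75⟩, ⟨.negSucc 3683, .negSucc 0, .ofNat 27, .ofNat 75, .ofNat 92, .ofNat 296⟩, ⟨.negSucc 525, .ofNat 0, .negSucc 5, .negSucc 111, .ofNat 73, .ofNat 91⟩, .ofNat 422, .negSucc 132, .ofNat 0, .negSucc 132, .ofNat 618, .ofNat 0, .ofNat 178, .ofNat 58, .negSucc 52, .ofNat 0, .ofNat 128, .ofNat 9, .ofNat 0, .ofNat 0, .ofNat 800, .ofNat 50544, .ofNat 1452501423004792002131993179449393475766714368,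 .ofNat 0, .ofNat 0, .ofNat 0, .ofNat 0, .ofNat 0, .ofNat 0, .ofNat 0, .ofNat 11528744776303066131611915260218663462867304448, .ofNat 0, .ofNat 0, .ofNat 0, .ofNat 9571719958425178759610321618257723918292877312, .ofNat 0, .ofNat 0, .ofNat 0⟩)
    (by decide +kernel)
theorem L00280 : Good (Phi V5.P V5.D (-1) 1) ⟨2, 0, 2, 1, 3, 4, 3, 3, 4, 5⟩ :=
  leafX_sound T5.ok_mp T5.Ymp.bz_eq (w := 218) (c := ⟨⟨.negSucc 1225, .negSucc 102, .negSucc 34, .ofNat 7, .ofNat 46, .ofNat 108⟩, ⟨.negSucc 384, .negSucc 44, .negSucc 280, .negSucc 5, .ofNat 25, .ofNat 47⟩, ⟨.ofNat 1078, .ofNat 63, .negSucc 5, .negSucc 89, .negSucc 127, .ofNat 32⟩, ⟨.negSucc 3588, .ofNat 21, .ofNat 25, .ofNat 52, .ofNat 96, .ofNat 273⟩, ⟨.negSucc 464, .ofNat 12, .negSucc 10, .negSucc 91, .ofNat 72, .ofNat 82⟩, .ofNat 425, .negSucc 130, .ofNat 0, .negSucc 130, .ofNat 613, .ofNat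 0, .ofNat 161, .ofNat 57, .negSucc 33, .ofNat 0, .ofNat 128, .ofNat 2, .ofNat 0, .ofNat 0, .ofNat 490, .ofNat 9819, .ofNat 0, .ofNat 0, .ofNat 0, .ofNat 0, .ofNat 0, .ofNat 0, .ofNat 0, .ofNat 0, .ofNat 0, .ofNat 0, .ofNat 0, .ofNat 0, .ofNat 0, .ofNat 0, .ofNat 0, .ofNat 0⟩)
    (by decide +kernel)
theorem L00281 : Good (Phi V5.P V5.D (-1) 1) ⟨2, 0, 2, 1, 3, 5, 2, 1, 4, 5⟩ :=
  leafX_sound T5.ok_mp T5.Ymp.bz_eq (w := 213) (c := ⟨⟨.negSucc 1265, .negSucc 73, .negSucc 28, .ofNat 41, .ofNat 66, .ofNat 118⟩, ⟨.negSucc 428, .negSucc 35, .negSucc 274, .ofNat 15, .ofNat 50, .ofNat 58⟩, ⟨.ofNat 1091, .negSucc 1, .negSucc 17, .negSucc 106, .negSucc 185, .ofNat 75⟩, ⟨.negSucc 3651, .ofNat 103, .ofNat 60, .ofNat 148, .ofNat 116, .ofNat 292⟩, ⟨.negSucc 671, .negSucc 12, .negSucc 25, .negSucc 61, .ofNat 219, .ofNat 129⟩, .ofNat 692, .negSucc 380,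 .ofNat 0, .negSucc 380, .ofNat 1249, .ofNat 0, .ofNat 163, .ofNat 90, .negSucc 24, .ofNat 0, .ofNat 128, .ofNat 2, .ofNat 0, .ofNat 0, .ofNat 657, .ofNat 6599, .ofNat 0, .ofNat 0, .ofNat 0, .ofNat 0, .ofNat 0, .ofNat 0, .ofNat 0, .ofNat 0, .ofNat 0, .ofNat 0, .ofNat 0, .ofNat 0, .ofNat 0, .ofNat 356269329887453697795744043555330080112640, .ofNat 0, .ofNat 0⟩)
    (by decide +kernel)
theorem L00282 : Good (Phi V5.P V5.D (-1) 1) ⟨2, 0, 2, 1, 2, 3, 2, 1, 4, 5⟩ :=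
  leafX_sound T5.ok_mp T5.Ymp.bz_eq (w := 197) (c := ⟨⟨.negSucc 1224, .negSucc 69, .negSucc 30, .ofNat 131, .ofNat 62, .ofNat 126⟩, ⟨.negSucc 415, .negSucc 42, .negSucc 277, .ofNat 48, .ofNat 55, .ofNat 72⟩, ⟨.ofNat 932, .ofNat 15, .ofNat 30, .negSucc 214, .negSucc 163, .ofNat 108⟩, ⟨.negSucc 3517, .ofNat 129, .ofNat 100, .ofNat 452, .ofNat 78, .ofNat 324⟩, ⟨.negSucc 709, .negSucc 95, .negSucc 79, .negSucc 137, .ofNat 288, .ofNat 162⟩, .ofNat 425, .negSucc 126, .ofNat 0, .negSucc 126, .ofNat 610, .ofNat 0, .ofNat 128, .ofNat 55, .negSucc 17, .ofNat 0, .ofNat 154, .ofNat 13, .ofNat 0, .ofNat 0, .ofNat 520, .ofNat 1152, .ofNat 0, .ofNat 0, .ofNat 0, .ofNat 0, .ofNat 0, .ofNat 165055890748367207276373187270247710720, .ofNat 0, .ofNat 0, .ofNat 0, .ofNat 363325668612937521637520211148315557888, .ofNat 0, .ofNat 0, .ofNat 0, .ofNat 493577362528064256457623864874601807872,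 .ofNat 0, .ofNat 0⟩)
    (by decide +kernel)
theorem L00283 : Good (Phi V5.P V5.D (-1) 1) ⟨2, 0, 2, 1, 2, 2, 2, 1, 3, 3⟩ :=
  leafX_sound T5.ok_mp T5.Ymp.bz_eq (w := 194) (c := ⟨⟨.negSucc 1157, .negSucc 70, .negSucc 16, .ofNat 46, .ofNat 48, .ofNat 193⟩, ⟨.negSucc 368, .negSucc 34, .negSucc 262, .ofNat 10, .ofNat 37, .ofNat 87⟩, ⟨.ofNat 1219, .ofNat 19, .negSucc 75, .negSucc 109, .negSucc 193, .ofNat 141⟩, ⟨.negSucc 3365, .ofNat 77, .ofNat 51, .ofNat 174, .ofNat 75, .ofNat 523⟩, ⟨.negSucc 509, .ofNat 20, .negSucc 15, .negSucc 100, .ofNat 188, .ofNat 142⟩, .ofNat 422, .negSucc 121, .ofNat 0, .negSucc 121, .ofNat 609, .ofNat 0, .ofNat 259, .ofNat 51, .negSucc 33, .ofNat 0, .ofNat 128, .ofNat 3, .ofNat 0, .ofNat 0, .ofNat 1146, .ofNat 4181, .ofNat 253469558382986277580662542638969257984, .ofNat 0, .ofNat 0, .ofNat 0, .ofNat 0, .ofNat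 0, .ofNat 0, .ofNat 0, .ofNat 0, .ofNat 0, .ofNat 0, .ofNat 0, .ofNat 10229891026509227650299078254496080461824, .ofNat 306004009993158923135103667915691393024, .ofNat 0, .ofNat 0⟩)
    (by decide +kernel)
theorem L00284 : Good (Phi V5.P V5.D (-1) 1) ⟨2, 0, 2, 1, 2, 3, 2, 1, 3, 3⟩ :=
  leafX_sound T5.ok_mp T5.Ymp.bz_eq (w := 195) (c := ⟨⟨.negSucc 1097, .negSucc 69, .negSucc 27, .ofNat 101, .ofNat 43, .ofNat 1⟩, ⟨.negSucc 360, .negSucc 36, .negSucc 255, .ofNat 83, .ofNat 47, .ofNat 0⟩, ⟨.ofNat 1059, .ofNat 60, .ofNat 10, .negSucc 19, .negSucc 209, .ofNat 0⟩, ⟨.negSucc 3177, .ofNat 106, .ofNat 85, .ofNat 425, .ofNat 56, .ofNat 1⟩, ⟨.negSucc 591, .negSucc 52, .negSucc 42, .negSucc 52, .ofNat 236, .ofNat 0⟩, .ofNat 424, .negSucc 126, .ofNat 0, .negSucc 126, .ofNat 612, .ofNat 0, .ofNat 214, .ofNat 46, .negSucc 15, .ofNat 0, .ofNat 128,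 .ofNat 21, .ofNat 0, .ofNat 0, .ofNat 998, .ofNat 8676, .ofNat 0, .ofNat 0, .ofNat 0, .ofNat 0, .ofNat 11126748655859656514738720924011717459968, .ofNat 1056863757648291076546539767199074091008, .ofNat 0, .ofNat 0, .ofNat 3748005681141067572257997998342113591296, .ofNat 522927209975011818749598908227650584576, .ofNat 0, .ofNat 0, .ofNat 0, .ofNat 602052053481283181612686259449292128256, .ofNat 0, .ofNat 0⟩)
    (by decide +kernel)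
theorem L00285 : Good (Phi V5.P V5.D (-1) 1) ⟨2, 0, 2, 1, 3, 4, 2, 1, 3, 4⟩ :=
  out_sound (S := T5.ds_mp) T5.ok_mp (w := 24) (j := 1) (by decide +kernel)
theorem L00286 : Good (Phi V5.P V5.D (-1) 1) ⟨2, 0, 2, 1, 3, 5, 2, 1, 3, 4⟩ :=
  out_sound (S := T5.ds_mp) T5.ok_mp (w := 30) (j := 2) (by decide +kernel)
theorem L00287 : Good (Phi V5.P V5.D (-1) 1) ⟨2, 0, 2, 1, 2, 2, 2, 1, 3, 5⟩ :=
  out_sound (S := T5.ds_mp) T5.ok_mp (w := 22) (j := 1) (by decide +kernel)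
theorem L00288 : Good (Phi V5.P V5.D (-1) 1) ⟨2, 0, 2, 1, 2, 2, 2, 1, 2, 3⟩ :=
  out_sound (S := T5.ds_mp) T5.ok_mp (w := 20) (j := 1) (by decide +kernel)
theorem L00289 : Good (Phi V5.P V5.D (-1) 1) ⟨2, 0, 2, 1, 2, 3, 2, 1, 1, 1⟩ :=
  out_sound (S := T5.ds_mp) T5.ok_mp (w := 24) (j := 2) (by decide +kernel)
theorem L00290 : Good (Phi V5.P V5.D (-1) 1) ⟨2, 0, 2, 1, 1, 1, 2, 2, 4, 0⟩ :=
  leafX_sound T5.ok_mp T5.Ymp.bz_eq (w := 182) (c := ⟨⟨.ofNat 765, .negSucc 24, .negSucc 110, .ofNat 51, .negSucc 452, .negSucc 1161⟩, ⟨.ofNat 285, .negSucc 28, .negSucc 42, .ofNat 6, .negSucc 213, .negSucc 484⟩, ⟨.negSucc 633, .ofNat 42, .ofNat 41, .negSucc 130, .ofNat 335, .ofNat 625⟩, ⟨.ofNat 1953, .ofNat 93, .negSucc 198, .ofNat 291, .negSucc 1104, .negSucc 2979⟩, ⟨.ofNat 588, .negSucc 582, .ofNat 72, .negSucc 550, .negSucc 556, .negSucc 669⟩, .ofNat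 939, .negSucc 707, .ofNat 0, .negSucc 707, .ofNat 1979, .ofNat 0, .ofNat 169, .ofNat 128, .negSucc 129, .ofNat 0, .ofNat 118, .negSucc 25, .ofNat 0, .ofNat 0, .ofNat 328, .ofNat 217, .ofNat 0, .ofNat 0, .ofNat 0, .ofNat 0, .ofNat 0, .ofNat 0, .ofNat 0, .ofNat 0, .ofNat 0, .ofNat 0, .ofNat 0, .ofNat 0, .ofNat 0, .ofNat 0, .ofNat 0, .ofNat 0⟩)
    (by decide +kernel)
theorem L00291 : Good (Phi V5.P V5.D (-1) 1) ⟨2, 0, 2, 1, 1, 1, 3, 6, 4, 0⟩ :=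
  leafX_sound T5.ok_mp T5.Ymp.bz_eq (w := 186) (c := ⟨⟨.ofNat 115, .negSucc 106, .negSucc 83, .negSucc 127, .negSucc 269, .negSucc 629⟩, ⟨.ofNat 80, .negSucc 63, .negSucc 118, .negSucc 136, .negSucc 119, .negSucc 256⟩, ⟨.ofNat 36, .negSucc 37, .negSucc 34, .negSucc 174, .ofNat 202, .ofNat 257⟩, ⟨.negSucc 35, .negSucc 1, .ofNat 38, .negSucc 20, .negSucc 613, .negSucc 1544⟩, ⟨.ofNat 321, .negSucc 434, .negSucc 239, .negSucc 954, .negSucc 286, .negSucc 359⟩, .ofNat 1080, .negSucc 919, .ofNat 0, .negSucc 919, .ofNat 2407, .ofNat 0, .ofNat 128, .ofNat 162, .negSucc 113, .ofNat 0, .ofNat 146, .negSucc 20, .ofNat 0, .ofNat 0, .ofNat 271, .ofNat 273, .ofNat 0, .ofNat 0, .ofNat 0, .ofNat 0, .ofNat 0, .ofNat 0, .ofNat 0, .ofNat 0, .ofNat 0, .ofNat 0, .ofNat 0, .ofNat 0, .ofNat 0, .ofNat 0, .ofNat 0, .ofNat 0⟩)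
    (by decide +kernel)
theorem L00292 : Good (Phi V5.P V5.D (-1) 1) ⟨2, 0, 2, 1, 1, 1, 3, 7, 4, 0⟩ :=
  leafX_sound T5.ok_mp T5.Ymp.bz_eq (w := 186) (c := ⟨⟨.negSucc 229, .negSucc 112, .negSucc 74, .negSucc 209, .negSucc 62, .negSucc 355⟩, ⟨.negSucc 53, .negSucc 90, .negSucc 168, .negSucc 137, .ofNat 3, .negSucc 119⟩, ⟨.ofNat 404, .negSucc 197, .negSucc 94, .negSucc 173, .ofNat 87, .ofNat 135⟩, ⟨.negSucc 1024, .ofNat 169, .ofNat 131, .negSucc 151, .negSucc 214, .negSucc 1019⟩, ⟨.ofNat 216, .negSucc 660, .negSucc 342, .negSucc 952, .ofNat 121, .ofNat 43⟩, .ofNat 1006, .negSucc 819, .ofNat 0, .negSucc 819, .ofNat 2245, .ofNat 0, .ofNat 128, .ofNat 147, .negSucc 132, .ofNat 0, .ofNat 133, .negSucc 17, .ofNat 0, .ofNat 0, .ofNat 296, .ofNat 357, .ofNat 0, .ofNat 0, .ofNat 0, .ofNat 0, .ofNat 0, .ofNat 8639438100084893110761874222219264,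 .ofNat 0, .ofNat 0, .ofNat 0, .ofNat 0, .ofNat 0, .ofNat 0, .ofNat 0, .ofNat 3965384293142025123277504180649984, .ofNat 0, .ofNat 0⟩)
    (by decide +kernel)
theorem L00293 : Good (Phi V5.P V5.D (-1) 1) ⟨2, 0, 2, 1, 1, 1, 2, 2, 4, 1⟩ :=
  leafX_sound T5.ok_mp T5.Ymp.bz_eq (w := 182) (c := ⟨⟨.negSucc 444, .negSucc 190, .negSucc 118, .negSucc 23, .negSucc 61, .negSucc 544⟩, ⟨.negSucc 151, .negSucc 71, .negSucc 246, .negSucc 71, .negSucc 17, .negSucc 183⟩, ⟨.ofNat 114, .ofNat 35, .ofNat 34, .negSucc 309, .ofNat 180, .ofNat 399⟩, ⟨.negSucc 1351, .negSucc 175, .negSucc 85, .ofNat 149, .negSucc 185, .negSucc 1615⟩, ⟨.negSucc 447, .negSucc 268, .negSucc 75, .negSucc 581, .negSucc 4, .ofNat 102⟩, .ofNat 683, .negSucc 358, .ofNat 0, .negSucc 358, .ofNat 1228, .ofNat 0, .ofNat 199, .ofNat 110, .negSucc 158, .ofNat 0, .ofNat 128, .negSucc 17,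 .ofNat 0, .ofNat 0, .ofNat 445, .ofNat 645, .ofNat 0, .ofNat 0, .ofNat 0, .ofNat 0, .ofNat 0, .ofNat 0, .ofNat 0, .ofNat 0, .ofNat 0, .ofNat 0, .ofNat 0, .ofNat 0, .ofNat 0, .ofNat 0, .ofNat 0, .ofNat 0⟩)
    (by decide +kernel)
theorem L00294 : Good (Phi V5.P V5.D (-1) 1) ⟨2, 0, 2, 1, 2, 2, 2, 3, 4, 1⟩ :=
  leafX_sound T5.ok_mp T5.Ymp.bz_eq (w := 197) (c := ⟨⟨.negSucc 715, .negSucc 110, .negSucc 95, .negSucc 111, .ofNat 256, .negSucc 307⟩, ⟨.negSucc 259, .negSucc 17, .negSucc 241, .negSucc 62, .ofNat 129, .negSucc 106⟩, ⟨.ofNat 509, .negSucc 142, .ofNat 13, .negSucc 33, .negSucc 141, .ofNat 199⟩, ⟨.negSucc 2070, .ofNat 4, .negSucc 146, .negSucc 297, .ofNat 568, .negSucc 851⟩, ⟨.negSucc 502, .negSucc 112, .negSucc 29, .negSucc 151, .ofNat 345, .negSucc 72⟩, .ofNat 931, .negSucc 693, .ofNat 0, .negSucc 693, .ofNat 1967, .ofNat 0, .ofNat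 231, .ofNat 128, .negSucc 208, .ofNat 0, .ofNat 125, .negSucc 42, .ofNat 0, .ofNat 0, .ofNat 570, .ofNat 523, .ofNat 0, .ofNat 0, .ofNat 0, .ofNat 0, .ofNat 0, .ofNat 0, .ofNat 0, .ofNat 0, .ofNat 0, .ofNat 27705788594926511832785797883170390016, .ofNat 0, .ofNat 0, .ofNat 0, .ofNat 0, .ofNat 0, .ofNat 0⟩)
    (by decide +kernel)
theorem L00295 : Good (Phi V5.P V5.D (-1) 1) ⟨2, 0, 2, 1, 2, 3, 2, 3, 4, 1⟩ :=
  leafX_sound T5.ok_mp T5.Ymp.bz_eq (w := 196) (c := ⟨⟨.negSucc 852, .negSucc 27, .negSucc 43, .ofNat 5, .ofNat 88, .negSucc 350⟩, ⟨.negSucc 299, .negSucc 72, .negSucc 260, .negSucc 0, .ofNat 155, .negSucc 84⟩, ⟨.ofNat 395, .negSucc 246, .negSucc 66, .negSucc 78, .ofNat 207, .ofNat 359⟩, ⟨.negSucc 2463, .ofNat 431, .ofNat 99, .ofNat 193, .negSucc 158, .negSucc 1158⟩, ⟨.negSucc 614, .negSucc 618, .negSucc 260, .negSucc 419, .ofNat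 1099, .ofNat 539⟩, .ofNat 954, .negSucc 719, .ofNat 0, .negSucc 719, .ofNat 1962, .ofNat 0, .ofNat 198, .ofNat 128, .negSucc 120, .ofNat 0, .ofNat 120, .negSucc 8, .ofNat 0, .ofNat 0, .ofNat 306, .ofNat 254, .ofNat 0, .ofNat 0, .ofNat 0, .ofNat 0, .ofNat 0, .ofNat 0, .ofNat 0, .ofNat 0, .ofNat 0, .ofNat 21634596167739325090193521190809632768, .ofNat 0, .ofNat 0, .ofNat 0, .ofNat 0, .ofNat 0, .ofNat 0⟩)
    (by decide +kernel)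
theorem L00296 : Good (Phi V5.P V5.D (-1) 1) ⟨2, 0, 2, 1, 1, 1, 2, 2, 4, 2⟩ :=
  leafX_sound T5.ok_mp T5.Ymp.bz_eq (w := 182) (c := ⟨⟨.negSucc 1168, .negSucc 163, .negSucc 76, .negSucc 39, .ofNat 120, .negSucc 78⟩, ⟨.negSucc 372, .negSucc 80, .negSucc 310, .negSucc 45, .ofNat 77, .negSucc 32⟩, ⟨.ofNat 621, .negSucc 7, .ofNat 49, .negSucc 236, .ofNat 52, .ofNat 163⟩, ⟨.negSucc 3388, .ofNat 4, .negSucc 56, .negSucc 6, .ofNat 150, .negSucc 275⟩, ⟨.negSucc 597, .negSucc 250, .negSucc 6, .negSucc 343, .ofNat 388, .ofNat 59⟩, .ofNat 945, .negSucc 717, .ofNat 0, .negSucc 717, .ofNat 1997, .ofNat 0, .ofNat 128, .ofNat 143, .negSucc 59, .ofNat 0, .ofNat 145, .negSucc 9, .ofNat 0, .ofNat 0, .ofNat 256, .ofNat 371, .ofNat 0, .ofNat 0, .ofNat 0, .ofNat 0, .ofNat 0, .ofNat 0, .ofNat 0, .ofNat 0, .ofNat 0, .ofNat 0, .ofNat 0, .ofNat 0, .ofNat 0,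 .ofNat 0, .ofNat 0, .ofNat 0⟩)
    (by decide +kernel)
theorem L00297 : Good (Phi V5.P V5.D (-1) 1) ⟨2, 0, 2, 1, 2, 2, 2, 3, 4, 2⟩ :=
  leafX_sound T5.ok_mp T5.Ymp.bz_eq (w := 197) (c := ⟨⟨.negSucc 1106, .negSucc 61, .negSucc 30, .negSucc 119, .ofNat 254, .negSucc 99⟩, ⟨.negSucc 359, .negSucc 18, .negSucc 284, .negSucc 45, .ofNat 156, .negSucc 33⟩, ⟨.ofNat 769, .negSucc 170, .negSucc 47, .ofNat 18, .negSucc 168, .ofNat 105⟩, ⟨.negSucc 3228, .ofNat 135, .ofNat 42, .negSucc 292, .ofNat 524, .negSucc 334⟩, ⟨.negSucc 517, .ofNat 50, .negSucc 147, .negSucc 61, .ofNat 467, .ofNat 141⟩, .ofNat 956, .negSucc 733, .ofNat 0, .negSucc 733, .ofNat 2006, .ofNat 0, .ofNat 151, .ofNat 128, .negSucc 93, .ofNat 0, .ofNat 127, .negSucc 18, .ofNat 0, .ofNat 0, .ofNat 358, .ofNat 514, .ofNat 0, .ofNat 0, .ofNat 0, .ofNat 0, .ofNat 0, .ofNat 64088362082506549526325758523057635328,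 .ofNat 0, .ofNat 0, .ofNat 0, .ofNat 121397768642749177821545960546217492480, .ofNat 0, .ofNat 0, .ofNat 0, .ofNat 74816781020665713512610594444720209920, .ofNat 0, .ofNat 0⟩)
    (by decide +kernel)
theorem L00298 : Good (Phi V5.P V5.D (-1) 1) ⟨2, 0, 2, 1, 2, 3, 3, 6, 4, 2⟩ :=
  leafX_sound T5.ok_mp T5.Ymp.bz_eq (w := 201) (c := ⟨⟨.negSucc 1306, .ofNat 46, .negSucc 10, .ofNat 76, .ofNat 57, .negSucc 31⟩, ⟨.negSucc 437, .negSucc 19, .negSucc 311, .ofNat 74, .ofNat 90, .ofNat 38⟩, ⟨.ofNat 722, .negSucc 308, .negSucc 81, .ofNat 9, .ofNat 130, .ofNat 202⟩, ⟨.negSucc 3702, .ofNat 613, .ofNat 128, .ofNat 58, .negSucc 102, .negSucc 353⟩, ⟨.negSucc 741, .negSucc 374, .negSucc 219, .ofNat 399, .ofNat 682, .ofNat 592⟩, .ofNat 691, .negSucc 371, .ofNat 0, .negSucc 371, .ofNat 1235, .ofNat 0, .ofNat 146, .ofNat 106, .negSucc 81, .ofNat 0, .ofNat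 128, .ofNat 6, .ofNat 0, .ofNat 0, .ofNat 304, .ofNat 448, .ofNat 0, .ofNat 0, .ofNat 0, .ofNat 0, .ofNat 0, .ofNat 222569641250557778791653376440133484544, .ofNat 0, .ofNat 0, .ofNat 0, .ofNat 307619233079092103750303763500426592256, .ofNat 0, .ofNat 0, .ofNat 0, .ofNat 208840935523582101328825163371715231744, .ofNat 0, .ofNat 0⟩)
    (by decide +kernel)

end Crest.Agent.R097C5.N5mp
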