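import Crest.Agent.R097.KP7
import Crest.Agent.R097.T5Ymp

/-!
# Row 97, box cover in dimension n = 5 (generated)
-/

set_option autoImplicit false
set_option Elab.async false
set_option maxHeartbeats 0
set_option maxRecDepth 100000

open Crest.Agent.R097 Crest.Agent.R097.KA


namespace Crest.Agent.R097C5.N5mp

theorem L00299 : Good (Phi V5.P V5.D (-1) 1) ⟨2, 0, 2, 1, 2, 3, 3, 7, 4, 2⟩ :=
  leafX_sound T5.ok_mp T5.Ymp.bz_eq (w := 201) (c := ⟨⟨.negSucc 1398, .ofNat 149, .ofNat 77, .ofNat 148, .ofNat 54, .ofNat 18⟩, ⟨.negSucc 398, .ofNat 14, .negSucc 292, .ofNat 137, .ofNat 133, .ofNat 63⟩, ⟨.ofNat 963, .negSucc 437, .negSucc 130, .ofNat 61, .ofNat 119, .ofNat 131⟩, ⟨.negSucc 4245, .ofNat 1006, .ofNat 271, .ofNat 152, .negSucc 173, .negSucc 170⟩, ⟨.ofNat 152, .negSucc 615, .negSucc 262, .ofNat 641, .ofNat 906, .ofNat 549⟩, .ofNat 703,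 .negSucc 401, .ofNat 0, .negSucc 401, .ofNat 1267, .ofNat 0, .ofNat 291, .ofNat 113, .negSucc 102, .ofNat 0, .ofNat 128, .ofNat 9, .ofNat 0, .ofNat 0, .ofNat 358, .ofNat 440, .ofNat 0, .ofNat 0, .ofNat 0, .ofNat 0, .ofNat 0, .ofNat 0, .ofNat 0, .ofNat 0, .ofNat 0, .ofNat 690969729975695582218283383769264029696, .ofNat 0, .ofNat 0, .ofNat 0, .ofNat 866451783374395850627447221019104772096, .ofNat 0, .ofNat 0⟩)
    (by decide +kernel)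
theorem L00300 : Good (Phi V5.P V5.D (-1) 1) ⟨2, 0, 2, 1, 2, 2, 2, 2, 4, 3⟩ :=
  leafX_sound T5.ok_mp T5.Ymp.bz_eq (w := 197) (c := ⟨⟨.negSucc 1289, .negSucc 107, .negSucc 56, .negSucc 55, .ofNat 115, .ofNat 51⟩, ⟨.negSucc 415, .negSucc 44, .negSucc 318, .negSucc 36, .ofNat 69, .ofNat 30⟩, ⟨.ofNat 909, .negSucc 42, .ofNat 14, .negSucc 126, .negSucc 85, .ofNat 35⟩, ⟨.negSucc 3749, .ofNat 34, .negSucc 27, .negSucc 96, .ofNat 233, .ofNat 93⟩, ⟨.negSucc 598, .ofNat 25, .negSucc 43, .negSucc 167, .ofNat 243, .ofNat 114⟩, .ofNat 426, .negSucc 129, .ofNat 0, .negSucc 129, .ofNat 611, .ofNat 0, .ofNat 178, .ofNat 64, .negSucc 96, .ofNat 0, .ofNat 128, .ofNat 4, .ofNat 0, .ofNat 0, .ofNat 458, .ofNat 1353, .ofNat 0, .ofNat 0, .ofNat 0, .ofNat 0, .ofNat 0, .ofNat 0, .ofNat 0, .ofNat 0, .ofNat 0, .ofNat 0, .ofNat 0, .ofNat 0, .ofNat 0, .ofNat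 0, .ofNat 0, .ofNat 0⟩)
    (by decide +kernel)
theorem L00301 : Good (Phi V5.P V5.D (-1) 1) ⟨2, 0, 2, 1, 2, 2, 2, 3, 4, 3⟩ :=
  leafX_sound T5.ok_mp T5.Ymp.bz_eq (w := 197) (c := ⟨⟨.negSucc 1222, .negSucc 33, .negSucc 18, .negSucc 73, .ofNat 176, .ofNat 48⟩, ⟨.negSucc 385, .negSucc 7, .negSucc 291, .negSucc 23, .ofNat 122, .ofNat 37⟩, ⟨.ofNat 921, .negSucc 189, .negSucc 88, .ofNat 4, .negSucc 192, .negSucc 15⟩, ⟨.negSucc 3548, .ofNat 196, .ofNat 34, .negSucc 244, .ofNat 256, .ofNat 52⟩, ⟨.negSucc 502, .ofNat 105, .negSucc 64, .ofNat 76, .ofNat 557, .ofNat 186⟩, .ofNat 698, .negSucc 378, .ofNat 0, .negSucc 378, .ofNat 1229, .ofNat 0, .ofNat 151, .ofNat 102, .negSucc 65, .ofNat 0, .ofNat 128, .negSucc 6, .ofNat 0, .ofNat 0, .ofNat 376, .ofNat 662, .ofNat 0, .ofNat 0, .ofNat 0, .ofNat 0, .ofNat 0, .ofNat 178025407928022160395524184914320687104,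 .ofNat 0, .ofNat 0, .ofNat 0, .ofNat 264978460581408764998542167581275455488, .ofNat 0, .ofNat 0, .ofNat 0, .ofNat 186182215072647377881198790796873039872, .ofNat 0, .ofNat 0⟩)
    (by decide +kernel)
theorem L00302 : Good (Phi V5.P V5.D (-1) 1) ⟨3, 0, 2, 1, 2, 3, 2, 2, 4, 3⟩ :=
  leafX_sound T5.ok_mp T5.Ymp.bz_eq (w := 200) (c := ⟨⟨.negSucc 1390, .ofNat 2, .negSucc 37, .ofNat 60, .ofNat 86, .ofNat 97⟩, ⟨.negSucc 457, .negSucc 43, .negSucc 323, .ofNat 48, .ofNat 97, .ofNat 58⟩, ⟨.ofNat 724, .negSucc 122, .negSucc 2, .negSucc 2, .ofNat 145, .ofNat 92⟩, ⟨.negSucc 3953, .ofNat 200, .ofNat 69, .ofNat 55, .negSucc 13, .ofNat 241⟩, ⟨.negSucc 770, .negSucc 202, .negSucc 137, .ofNat 295, .ofNat 638, .ofNat 130⟩, .ofNat 696, .negSucc 360, .ofNat 0, .negSucc 360, .ofNat 1211, .ofNat 0, .ofNat 128, .ofNat 95, .negSucc 37, .ofNat 0, .ofNat 138,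 .ofNat 7, .ofNat 0, .ofNat 0, .ofNat 312, .ofNat 393, .ofNat 0, .ofNat 0, .ofNat 0, .ofNat 0, .ofNat 0, .ofNat 0, .ofNat 0, .ofNat 0, .ofNat 0, .ofNat 0, .ofNat 0, .ofNat 0, .ofNat 0, .ofNat 1316034893254664778015529942226044977152, .ofNat 0, .ofNat 0⟩)
    (by decide +kernel)
theorem L00303 : Good (Phi V5.P V5.D (-1) 1) ⟨3, 1, 2, 1, 2, 3, 2, 2, 4, 3⟩ :=
  leafX_sound T5.ok_mp T5.Ymp.bz_eq (w := 201) (c := ⟨⟨.negSucc 1478, .negSucc 50, .negSucc 12, .ofNat 139, .ofNat 151, .ofNat 148⟩, ⟨.negSucc 532, .negSucc 2, .negSucc 302, .ofNat 57, .ofNat 115, .ofNat 80⟩, ⟨.ofNat 777, .negSucc 45, .negSucc 38, .negSucc 128, .ofNat 2, .negSucc 3⟩, ⟨.negSucc 4061, .ofNat 123, .ofNat 169, .ofNat 467, .ofNat 169, .ofNat 316⟩, ⟨.negSucc 795, .negSucc 95, .negSucc 172, .negSucc 134, .ofNat 617, .ofNat 205⟩, .ofNat 691, .negSucc 396, .ofNat 0, .negSucc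 396, .ofNat 1279, .ofNat 0, .ofNat 128, .ofNat 105, .negSucc 45, .ofNat 0, .ofNat 137, .ofNat 4, .ofNat 0, .ofNat 0, .ofNat 365, .ofNat 567, .ofNat 0, .ofNat 0, .ofNat 0, .ofNat 0, .ofNat 0, .ofNat 790428115947639470162640498798471675904, .ofNat 0, .ofNat 0, .ofNat 0, .ofNat 2525510693740866708294669453793156923392, .ofNat 0, .ofNat 0, .ofNat 0, .ofNat 1889965907898175626448122051249834033152, .ofNat 0, .ofNat 0⟩)
    (by decide +kernel)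
theorem L00304 : Good (Phi V5.P V5.D (-1) 1) ⟨2, 0, 2, 1, 2, 3, 2, 3, 4, 3⟩ :=
  leafX_sound T5.ok_mp T5.Ymp.bz_eq (w := 197) (c := ⟨⟨.negSucc 1391, .ofNat 52, .ofNat 20, .ofNat 130, .ofNat 242, .ofNat 111⟩, ⟨.negSucc 414, .ofNat 1, .negSucc 310, .ofNat 109, .ofNat 176, .ofNat 80⟩, ⟨.ofNat 959, .negSucc 314, .negSucc 87, .ofNat 35, .ofNat 71, .ofNat 35⟩, ⟨.negSucc 4091, .ofNat 543, .ofNat 142, .ofNat 145, .ofNat 213, .ofNat 152⟩, ⟨.negSucc 295, .negSucc 149, .negSucc 167, .ofNat 588, .ofNat 1015, .ofNat 390⟩, .ofNat 688, .negSucc 373, .ofNat 0, .negSucc 373, .ofNat 1243, .ofNat 0, .ofNat 185, .ofNat 99, .negSucc 56, .ofNat 0, .ofNat 128, .ofNat 6, .ofNat 0, .ofNat 0, .ofNat 389, .ofNat 371, .ofNat 0, .ofNat 0, .ofNat 0, .ofNat 0, .ofNat 0, .ofNat 178401253095244415383603403262003249152, .ofNat 0, .ofNat 0, .ofNat 0, .ofNat 236855850798655033700343205373306470400,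 .ofNat 0, .ofNat 0, .ofNat 0, .ofNat 315379314703902309169164413520972873728, .ofNat 0, .ofNat 0⟩)
    (by decide +kernel)
theorem L00305 : Good (Phi V5.P V5.D (-1) 1) ⟨2, 0, 2, 1, 2, 2, 2, 2, 4, 4⟩ :=
  leafX_sound T5.ok_mp T5.Ymp.bz_eq (w := 197) (c := ⟨⟨.negSucc 1271, .negSucc 93, .negSucc 30, .negSucc 9, .ofNat 109, .ofNat 95⟩, ⟨.negSucc 401, .negSucc 38, .negSucc 298, .negSucc 17, .ofNat 66, .ofNat 52⟩, ⟨.ofNat 993, .negSucc 39, .negSucc 35, .negSucc 114, .negSucc 147, .negSucc 5⟩, ⟨.negSucc 3704, .ofNat 50, .ofNat 29, .ofNat 17, .ofNat 190, .ofNat 221⟩, ⟨.negSucc 515, .ofNat 28, .negSucc 38, .negSucc 123, .ofNat 274, .ofNat 125⟩, .ofNat 427, .negSucc 132, .ofNat 0, .negSucc 132, .ofNat 613, .ofNat 0, .ofNat 134, .ofNat 61, .negSucc 52, .ofNat 0, .ofNat 128, .ofNat 2, .ofNat 0, .ofNat 0, .ofNat 432, .ofNat 1324, .ofNat 0, .ofNat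 0, .ofNat 0, .ofNat 0, .ofNat 0, .ofNat 121461597601792406483668980515911761920, .ofNat 0, .ofNat 0, .ofNat 0, .ofNat 216910625254019398197483609317577850880, .ofNat 0, .ofNat 0, .ofNat 0, .ofNat 195073882773285726118725868423378632704, .ofNat 0, .ofNat 0⟩)
    (by decide +kernel)
theorem L00306 : Good (Phi V5.P V5.D (-1) 1) ⟨2, 0, 2, 1, 2, 3, 2, 2, 4, 4⟩ :=
  leafX_sound T5.ok_mp T5.Ymp.bz_eq (w := 195) (c := ⟨⟨.negSucc 1352, .negSucc 30, .negSucc 3, .ofNat 153, .ofNat 138, .ofNat 144⟩, ⟨.negSucc 449, .negSucc 17, .negSucc 282, .ofNat 73, .ofNat 105, .ofNat 80⟩, ⟨.ofNat 908, .negSucc 164, .negSucc 40, .negSucc 79, .negSucc 36, .ofNat 37⟩, ⟨.negSucc 3906, .ofNat 278, .ofNat 156, .ofNat 421, .ofNat 161, .ofNat 321⟩, ⟨.negSucc 592, .negSucc 106, .negSucc 117, .ofNat 61, .ofNat 552, .ofNat 227⟩, .ofNat 428, .negSucc 134, .ofNat 0, .negSucc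 134, .ofNat 615, .ofNat 0, .ofNat 133, .ofNat 54, .negSucc 23, .ofNat 0, .ofNat 128, .ofNat 13, .ofNat 0, .ofNat 0, .ofNat 317, .ofNat 192, .ofNat 0, .ofNat 0, .ofNat 0, .ofNat 0, .ofNat 0, .ofNat 72357724553341170224719790202238795776, .ofNat 0, .ofNat 0, .ofNat 0, .ofNat 0, .ofNat 0, .ofNat 0, .ofNat 0, .ofNat 162678765932451690883473112187248050176, .ofNat 0, .ofNat 0⟩)
    (by decide +kernel)
theorem L00307 : Good (Phi V5.P V5.D (-1) 1) ⟨2, 0, 2, 1, 2, 2, 2, 2, 4, 5⟩ :=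
  leafX_sound T5.ok_mp T5.Ymp.bz_eq (w := 197) (c := ⟨⟨.negSucc 1212, .negSucc 59, .negSucc 5, .ofNat 17, .ofNat 96, .ofNat 107⟩, ⟨.negSucc 371, .negSucc 31, .negSucc 278, .ofNat 3, .ofNat 59, .ofNat 50⟩, ⟨.ofNat 1053, .negSucc 74, .negSucc 87, .negSucc 89, .negSucc 188, .negSucc 6⟩, ⟨.negSucc 3516, .ofNat 104, .ofNat 39, .ofNat 70, .ofNat 167, .ofNat 254⟩, ⟨.negSucc 451, .ofNat 42, .ofNat 5, .negSucc 64, .ofNat 255, .ofNat 111⟩, .ofNat 690, .negSucc 371, .ofNat 0, .negSucc 371, .ofNat 1239, .ofNat 0, .ofNat 226, .ofNat 91, .negSucc 26, .ofNat 0, .ofNat 128, .negSucc 3, .ofNat 0, .ofNat 0, .ofNat 556, .ofNat 1243, .ofNat 0, .ofNat 0, .ofNat 0, .ofNat 0, .ofNat 0, .ofNat 0, .ofNat 0, .ofNat 0, .ofNat 0, .ofNat 335172128281189135529390827284396507136, .ofNat 0, .ofNat 0, .ofNat 0, .ofNat 449683599840602313769349727063847731200, .ofNat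 0, .ofNat 0⟩)
    (by decide +kernel)
theorem L00308 : Good (Phi V5.P V5.D (-1) 1) ⟨2, 0, 2, 1, 2, 3, 2, 2, 4, 5⟩ :=
  leafX_sound T5.ok_mp T5.Ymp.bz_eq (w := 197) (c := ⟨⟨.negSucc 1192, .negSucc 23, .negSucc 14, .ofNat 112, .ofNat 92, .ofNat 133⟩, ⟨.negSucc 372, .negSucc 21, .negSucc 273, .ofNat 60, .ofNat 76, .ofNat 69⟩, ⟨.ofNat 945, .negSucc 180, .negSucc 53, .negSucc 78, .negSucc 47, .ofNat 48⟩, ⟨.negSucc 3485, .ofNat 231, .ofNat 92, .ofNat 328, .ofNat 109, .ofNat 318⟩, ⟨.negSucc 475, .negSucc 0, .negSucc 75, .ofNat 88, .ofNat 440, .ofNat 177⟩, .ofNat 423, .negSucc 122, .ofNat 0, .negSucc 122, .ofNat 609, .ofNat 0, .ofNat 229, .ofNat 49, .negSucc 18, .ofNat 0, .ofNat 128, .ofNat 10, .ofNat 0, .ofNat 0, .ofNat 494, .ofNat 1418, .ofNat 0, .ofNat 0, .ofNat 0, .ofNat 0, .ofNat 0, .ofNat 515784075710136605419282394976677265408, .ofNat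 0, .ofNat 0, .ofNat 0, .ofNat 632183888549013542431254747743705366528, .ofNat 0, .ofNat 0, .ofNat 0, .ofNat 1166260946665361905716821760768347209728, .ofNat 0, .ofNat 0⟩)
    (by decide +kernel)
theorem L00309 : Good (Phi V5.P V5.D (-1) 1) ⟨2, 0, 2, 1, 1, 1, 2, 3, 3, 2⟩ :=
  leafX_sound T5.ok_mp T5.Ymp.bz_eq (w := 177) (c := ⟨⟨.negSucc 1213, .ofNat 8, .ofNat 4, .negSucc 64, .ofNat 139, .ofNat 137⟩, ⟨.negSucc 370, .ofNat 4, .negSucc 272, .ofNat 6, .ofNat 115, .ofNat 84⟩, ⟨.ofNat 968, .negSucc 197, .negSucc 140, .negSucc 36, .negSucc 276, .negSucc 105⟩, ⟨.negSucc 3542, .ofNat 257, .ofNat 52, .negSucc 309, .ofNat 178, .ofNat 317⟩, ⟨.negSucc 373, .ofNat 146, .negSucc 22, .ofNat 297, .ofNat 546, .ofNat 235⟩, .ofNat 425, .negSucc 131, .ofNat 0, .negSucc 131, .ofNat 614, .ofNat 0, .ofNat 183, .ofNat 62, .negSucc 46, .ofNat 0, .ofNat 128,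 .negSucc 3, .ofNat 0, .ofNat 0, .ofNat 428, .ofNat 273, .ofNat 0, .ofNat 0, .ofNat 0, .ofNat 0, .ofNat 0, .ofNat 8266248357503253341412183253188608, .ofNat 0, .ofNat 0, .ofNat 0, .ofNat 7538832526667787731625371060142080, .ofNat 0, .ofNat 0, .ofNat 0, .ofNat 12838132941772403618088632805490688, .ofNat 0, .ofNat 0⟩)
    (by decide +kernel)
theorem L00310 : Good (Phi V5.P V5.D (-1) 1) ⟨2, 0, 2, 1, 1, 1, 1, 1, 3, 3⟩ :=
  leafX_sound T5.ok_mp T5.Ymp.bz_eq (w := 173) (c := ⟨⟨.negSucc 1112, .negSucc 40, .negSucc 12, .ofNat 48, .ofNat 143, .ofNat 160⟩, ⟨.negSucc 335, .negSucc 19, .negSucc 257, .ofNat 1, .ofNat 97, .ofNat 75⟩, ⟨.ofNat 1086, .negSucc 63, .negSucc 151, .negSucc 147, .negSucc 580, .ofNat 6⟩, ⟨.negSucc 3263, .ofNat 141, .ofNat 24, .ofNat 148, .ofNat 206, .ofNat 413⟩, ⟨.negSucc 359, .ofNat 67, .negSucc 5, .negSucc 106, .ofNat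 503, .ofNat 114⟩, .ofNat 423, .negSucc 123, .ofNat 0, .negSucc 123, .ofNat 610, .ofNat 0, .ofNat 156, .ofNat 53, .negSucc 23, .ofNat 0, .ofNat 128, .negSucc 8, .ofNat 0, .ofNat 0, .ofNat 860, .ofNat 370, .ofNat 0, .ofNat 0, .ofNat 0, .ofNat 0, .ofNat 0, .ofNat 5210123501856019098735457509310464, .ofNat 0, .ofNat 0, .ofNat 0, .ofNat 3217887749518307762134420388052992, .ofNat 0, .ofNat 0, .ofNat 0, .ofNat 14003413984007551332891412140130304, .ofNat 0, .ofNat 0⟩)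
    (by decide +kernel)
theorem L00311 : Good (Phi V5.P V5.D (-1) 1) ⟨2, 0, 2, 1, 4, 8, 3, 4, 4, 8⟩ :=
  out_sound (S := T5.ds_mp) T5.ok_mp (w := 29) (j := 1) (by decide +kernel)
theorem L00312 : Good (Phi V5.P V5.D (-1) 1) ⟨2, 0, 2, 1, 4, 8, 3, 5, 4, 8⟩ :=
  out_sound (S := T5.ds_mp) T5.ok_mp (w := 36) (j := 2) (by decide +kernel)
theorem L00313 : Good (Phi V5.P V5.D (-1) 1) ⟨2, 0, 2, 1, 4, 8, 2, 2, 4, 9⟩ :=
  out_sound (S := T5.ds_mp) T5.ok_mp (w := 28) (j := 1) (by decide +kernel)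
theorem L00314 : Good (Phi V5.P V5.D (-1) 1) ⟨2, 0, 2, 1, 4, 9, 2, 2, 3, 4⟩ :=
  out_sound (S := T5.ds_mp) T5.ok_mp (w := 32) (j := 2) (by decide +kernel)
theorem L00315 : Good (Phi V5.P V5.D (-1) 1) ⟨2, 0, 2, 1, 3, 4, 2, 3, 3, 4⟩ :=
  out_sound (S := T5.ds_mp) T5.ok_mp (w := 30) (j := 2) (by decide +kernel)
theorem L00316 : Good (Phi V5.P V5.D (-1) 1) ⟨2, 0, 2, 1, 3, 4, 1, 1, 3, 5⟩ :=
  out_sound (S := T5.ds_mp) T5.ok_mp (w := 28) (j := 2) (by decide +kernel)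
theorem L00317 : Good (Phi V5.P V5.D (-1) 1) ⟨2, 0, 2, 1, 3, 5, 1, 1, 2, 2⟩ :=
  out_sound (S := T5.ds_mp) T5.ok_mp (w := 26) (j := 2) (by decide +kernel)
theorem L00318 : Good (Phi V5.P V5.D (-1) 1) ⟨2, 0, 2, 1, 2, 2, 1, 1, 2, 3⟩ :=
  out_sound (S := T5.ds_mp) T5.ok_mp (w := 24) (j := 2) (by decide +kernel)
theorem L00319 : Good (Phi V5.P V5.D (-1) 1) ⟨2, 0, 2, 1, 2, 3, 1, 1, 1, 1⟩ :=
  out_sound (S := T5.ds_mp) T5.ok_mp (w := 22) (j := 2) (by decide +kernel)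
theorem L00320 : Good (Phi V5.P V5.D (-1) 1) ⟨3, 2, 2, 0, 1, 0, 2, 0, 4, 0⟩ :=
  leafX_sound T5.ok_mp T5.Ymp.bz_eq (w := 187) (c := ⟨⟨.ofNat 712, .ofNat 4, .negSucc 97, .ofNat 108, .ofNat 102, .negSucc 1490⟩, ⟨.ofNat 67, .ofNat 2, .ofNat 65, .negSucc 101, .ofNat 53, .negSucc 244⟩, ⟨.negSucc 694, .negSucc 6, .ofNat 137, .ofNat 167, .negSucc 277, .ofNat 1227⟩, ⟨.ofNat 1823, .negSucc 70, .negSucc 132, .ofNat 497, .ofNat 249, .negSucc 3904⟩, ⟨.ofNat 59, .negSucc 130, .negSucc 25, .negSucc 1124, .ofNat 241, .negSucc 87⟩, .ofNat 552, .negSucc 159, .ofNat 0, .negSucc 159, .ofNat 1348, .ofNat 0, .ofNat 283, .ofNat 56, .negSucc 214, .ofNat 0, .ofNat 128, .negSucc 19, .ofNat 0, .ofNat 0, .ofNat 610, .ofNat 2615, .ofNat 0, .ofNat 0, .ofNat 0, .ofNat 0, .ofNat 0, .ofNat 0, .ofNat 0, .ofNat 0, .ofNat 0, .ofNat 0, .ofNat 0, .ofNat 0, .ofNat 21888012127855970039799020653943717888,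 .ofNat 0, .ofNat 0, .ofNat 0⟩)
    (by decide +kernel)
theorem L00321 : Good (Phi V5.P V5.D (-1) 1) ⟨3, 2, 2, 0, 1, 0, 2, 1, 4, 0⟩ :=
  leafX_sound T5.ok_mp T5.Ymp.bz_eq (w := 187) (c := ⟨⟨.ofNat 589, .ofNat 6, .negSucc 77, .ofNat 387, .negSucc 205, .negSucc 1459⟩, ⟨.ofNat 66, .negSucc 40, .ofNat 23, .ofNat 37, .negSucc 6, .negSucc 221⟩, ⟨.negSucc 649, .ofNat 51, .ofNat 141, .negSucc 359, .ofNat 119, .ofNat 1209⟩, ⟨.ofNat 1523, .negSucc 32, .negSucc 80, .ofNat 1096, .negSucc 609, .negSucc 3785⟩, ⟨.negSucc 76, .ofNat 1, .negSucc 35, .negSucc 597, .ofNat 191, .negSucc 21⟩, .ofNat 554, .negSucc 166, .ofNat 0, .negSucc 166, .ofNat 1341, .ofNat 0, .ofNat 271, .ofNat 60, .negSucc 199, .ofNat 0, .ofNat 128, .negSucc 20, .ofNat 0, .ofNat 0, .ofNat 475, .ofNat 1271, .ofNat 0, .ofNat 0, .ofNat 0, .ofNat 0, .ofNat 0, .ofNat 0, .ofNat 0, .ofNat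 0, .ofNat 0, .ofNat 0, .ofNat 0, .ofNat 0, .ofNat 0, .ofNat 0, .ofNat 0, .ofNat 0⟩)
    (by decide +kernel)
theorem L00322 : Good (Phi V5.P V5.D (-1) 1) ⟨3, 2, 2, 0, 1, 0, 1, 0, 4, 1⟩ :=
  leafX_sound T5.ok_mp T5.Ymp.bz_eq (w := 183) (c := ⟨⟨.negSucc 673, .negSucc 165, .negSucc 105, .ofNat 48, .ofNat 63, .negSucc 685⟩, ⟨.negSucc 17, .ofNat 24, .negSucc 275, .negSucc 88, .ofNat 54, .negSucc 91⟩, ⟨.ofNat 884, .ofNat 170, .ofNat 103, .negSucc 696, .negSucc 223, .ofNat 682⟩, ⟨.negSucc 1990, .negSucc 173, .negSucc 152, .ofNat 313, .ofNat 91, .negSucc 1742⟩, ⟨.negSucc 166, .negSucc 29, .negSucc 74, .negSucc 889, .ofNat 356, .ofNat 84⟩, .ofNat 549, .negSucc 157, .ofNat 0, .negSucc 157, .ofNat 1355, .ofNat 0, .ofNat 306, .ofNat 55, .negSucc 150, .ofNat 0, .ofNat 128, .negSucc 10, .ofNat 0, .ofNat 0, .ofNat 541, .ofNat 2201, .ofNat 0, .ofNat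 0, .ofNat 0, .ofNat 0, .ofNat 0, .ofNat 0, .ofNat 0, .ofNat 0, .ofNat 0, .ofNat 0, .ofNat 0, .ofNat 0, .ofNat 0, .ofNat 0, .ofNat 0, .ofNat 0⟩)
    (by decide +kernel)
theorem L00323 : Good (Phi V5.P V5.D (-1) 1) ⟨3, 2, 2, 0, 1, 0, 1, 0, 3, 1⟩ :=
  leafX_sound T5.ok_mp T5.Ymp.bz_eq (w := 179) (c := ⟨⟨.negSucc 1454, .negSucc 192, .negSucc 30, .negSucc 113, .ofNat 218, .ofNat 2⟩, ⟨.negSucc 99, .ofNat 25, .negSucc 323, .negSucc 60, .ofNat 42, .ofNat 11⟩, ⟨.ofNat 1639, .ofNat 186, .ofNat 51, .negSucc 448, .negSucc 434, .ofNat 166⟩, ⟨.negSucc 3992, .negSucc 135, .negSucc 24, .negSucc 226, .ofNat 550, .negSucc 24⟩, ⟨.negSucc 205, .ofNat 30, .ofNat 5, .negSucc 530, .ofNat 162, .ofNat 94⟩, .ofNat 548, .negSucc 148, .ofNat 0, .negSucc 148, .ofNat 1352, .ofNat 0, .ofNat 441, .ofNat 51, .negSucc 112, .ofNat 0, .ofNat 128, .negSucc 3, .ofNat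 0, .ofNat 0, .ofNat 701, .ofNat 1777, .ofNat 0, .ofNat 0, .ofNat 0, .ofNat 0, .ofNat 0, .ofNat 0, .ofNat 0, .ofNat 0, .ofNat 0, .ofNat 0, .ofNat 0, .ofNat 0, .ofNat 693277374613560726779350495896010752, .ofNat 0, .ofNat 0, .ofNat 0⟩)
    (by decide +kernel)
theorem L00324 : Good (Phi V5.P V5.D (-1) 1) ⟨3, 2, 2, 0, 1, 0, 2, 0, 3, 2⟩ :=
  leafX_sound T5.ok_mp T5.Ymp.bz_eq (w := 187) (c := ⟨⟨.negSucc 1424, .negSucc 189, .negSucc 37, .negSucc 133, .ofNat 101, .ofNat 199⟩, ⟨.negSucc 116, .ofNat 34, .negSucc 342, .negSucc 61, .ofNat 58, .ofNat 12⟩, ⟨.ofNat 1801, .ofNat 195, .ofNat 82, .negSucc 446, .negSucc 207, .ofNat 220⟩, ⟨.negSucc 3937, .negSucc 110, .negSucc 12, .negSucc 258, .ofNat 209, .ofNat 545⟩, ⟨.negSucc 158, .negSucc 4, .ofNat 9, .negSucc 598, .ofNat 186, .ofNat 139⟩, .ofNat 381, .negSucc 59, .ofNat 0, .negSucc 59, .ofNat 655,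 .ofNat 0, .ofNat 188, .ofNat 31, .negSucc 124, .ofNat 0, .ofNat 128, .ofNat 13, .ofNat 0, .ofNat 0, .ofNat 968, .ofNat 52161, .ofNat 3654275719676907025243522572998410240, .ofNat 0, .ofNat 0, .ofNat 0, .ofNat 28942012162841005160652881355840946176, .ofNat 0, .ofNat 0, .ofNat 0, .ofNat 15916658808861984288400525769584934912, .ofNat 0, .ofNat 0, .ofNat 0, .ofNat 44646789453770574881302861146746781696, .ofNat 0, .ofNat 0, .ofNat 0⟩)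
    (by decide +kernel)
theorem L00325 : Good (Phi V5.P V5.D (-1) 1) ⟨3, 2, 2, 0, 1, 0, 2, 1, 4, 4⟩ :=
  leafX_sound T5.ok_mp T5.Ymp.bz_eq (w := 190) (c := ⟨⟨.negSucc 1378, .negSucc 152, .negSucc 21, .negSucc 96, .ofNat 128, .ofNat 88⟩, ⟨.negSucc 83, .ofNat 25, .negSucc 306, .negSucc 54, .ofNat 28, .ofNat 15⟩, ⟨.ofNat 1593, .ofNat 141, .ofNat 16, .negSucc 323, .negSucc 290, .ofNat 5⟩, ⟨.negSucc 3794, .negSucc 61, .negSucc 6, .negSucc 191, .ofNat 320, .ofNat 223⟩, ⟨.negSucc 62, .ofNat 1, .negSucc 3, .negSucc 448, .ofNat 72, .ofNat 33⟩, .ofNat 380, .negSucc 53, .ofNat 0, .negSucc 53, .ofNat 654, .ofNat 0, .ofNat 179, .ofNat 28, .negSucc 54, .ofNat 0, .ofNat 128, .ofNat 2, .ofNat 0, .ofNat 0, .ofNat 440, .ofNat 6857, .ofNat 0, .ofNat 0, .ofNat 0, .ofNat 0, .ofNat 0, .ofNat 0, .ofNat 0, .ofNat 0, .ofNat 0, .ofNat 0, .ofNat 0, .ofNat 0,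 .ofNat 0, .ofNat 0, .ofNat 0, .ofNat 0⟩)
    (by decide +kernel)
theorem L00326 : Good (Phi V5.P V5.D (-1) 1) ⟨3, 2, 2, 0, 1, 0, 2, 1, 5, 10⟩ :=
  leafX_sound T5.ok_mp T5.Ymp.bz_eq (w := 196) (c := ⟨⟨.negSucc 1299, .negSucc 141, .negSucc 14, .negSucc 66, .ofNat 113, .ofNat 44⟩, ⟨.negSucc 76, .ofNat 23, .negSucc 289, .negSucc 43, .ofNat 21, .ofNat 10⟩, ⟨.ofNat 1551, .ofNat 138, .ofNat 0, .negSucc 225, .negSucc 287, .negSucc 8⟩, ⟨.negSucc 3596, .negSucc 39, .ofNat 2, .negSucc 125, .ofNat 294, .ofNat 112⟩, ⟨.negSucc 83, .ofNat 6, .ofNat 0, .negSucc 377, .ofNat 91, .ofNat 9⟩, .ofNat 380, .negSucc 53, .ofNat 0, .negSucc 53, .ofNat 654, .ofNat 0, .ofNat 171, .ofNat 28, .negSucc 83, .ofNat 0, .ofNat 128, .ofNat 2, .ofNat 0, .ofNat 0, .ofNat 839, .ofNat 23783, .ofNat 20672046938382286390960311155625558016, .ofNat 0, .ofNat 0, .ofNat 0, .ofNat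 208814305602423754696034656633852264448, .ofNat 0, .ofNat 0, .ofNat 0, .ofNat 445502451553215097681729825995294244864, .ofNat 0, .ofNat 0, .ofNat 0, .ofNat 1048848609094340925413814700029612392448, .ofNat 0, .ofNat 0, .ofNat 0⟩)
    (by decide +kernel)
theorem L00327 : Good (Phi V5.P V5.D (-1) 1) ⟨3, 2, 2, 0, 1, 0, 2, 1, 5, 11⟩ :=
  leafX_sound T5.ok_mp T5.Ymp.bz_eq (w := 197) (c := ⟨⟨.negSucc 1252, .negSucc 129, .negSucc 18, .negSucc 58, .ofNat 99, .ofNat 49⟩, ⟨.negSucc 81, .ofNat 26, .negSucc 280, .negSucc 35, .ofNat 25, .ofNat 10⟩, ⟨.ofNat 1535, .ofNat 118, .negSucc 9, .negSucc 184, .negSucc 285, .ofNat 5⟩, ⟨.negSucc 3482, .negSucc 17, .ofNat 7, .negSucc 96, .ofNat 258, .ofNat 126⟩, ⟨.negSucc 126, .ofNat 7, .ofNat 4, .negSucc 335, .ofNat 119, .ofNat 18⟩, .ofNat 381, .negSucc 54, .ofNat 0, .negSucc 54, .ofNat 653, .ofNat 0, .ofNat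 210, .ofNat 28, .negSucc 64, .ofNat 0, .ofNat 128, .ofNat 3, .ofNat 0, .ofNat 0, .ofNat 838, .ofNat 36769, .ofNat 108964952883469378830632371375529000960, .ofNat 0, .ofNat 0, .ofNat 0, .ofNat 0, .ofNat 0, .ofNat 0, .ofNat 0, .ofNat 1106111590787625567314921967626131341312, .ofNat 0, .ofNat 0, .ofNat 0, .ofNat 1567524057336483867281705102327624499200, .ofNat 0, .ofNat 0, .ofNat 0⟩)
    (by decide +kernel)
theorem L00328 : Good (Phi V5.P V5.D (-1) 1) ⟨3, 2, 2, 0, 1, 0, 1, 0, 3, 3⟩ :=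
  leafX_sound T5.ok_mp T5.Ymp.bz_eq (w := 184) (c := ⟨⟨.negSucc 1362, .negSucc 110, .negSucc 14, .negSucc 7, .ofNat 206, .ofNat 198⟩, ⟨.negSucc 104, .ofNat 30, .negSucc 269, .negSucc 30, .ofNat 48, .ofNat 39⟩, ⟨.ofNat 1990, .ofNat 71, .negSucc 56, .negSucc 248, .negSucc 641, .ofNat 97⟩, ⟨.negSucc 3674, .ofNat 11, .ofNat 19, .negSucc 1, .ofNat 477, .ofNat 520⟩, ⟨.negSucc 352, .ofNat 12, .ofNat 2, .negSucc 261, .ofNat 306, .ofNat 115⟩, .ofNat 381, .negSucc 49, .ofNat 0, .negSucc 49, .ofNat 651, .ofNat 0, .ofNat 252, .ofNat 25, .negSucc 55, .ofNat 0, .ofNat 128, .ofNat 2, .ofNat 0, .ofNat 0, .ofNat 893, .ofNat 61528, .ofNat 815270275685732555643781173569650688, .ofNat 0, .ofNat 0, .ofNat 0, .ofNat 7061279172987818042989435188643102720, .ofNat 0, .ofNat 0, .ofNat 0, .ofNat 4998267833342084620501566181225791488, .ofNat 0, .ofNat 0, .ofNat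 0, .ofNat 12479748074591421805867672526282293248, .ofNat 0, .ofNat 0, .ofNat 0⟩)
    (by decide +kernel)
theorem L00329 : Good (Phi V5.P V5.D (-1) 1) ⟨3, 2, 2, 0, 1, 0, 1, 0, 1, 1⟩ :=
  out_sound (S := T5.ds_mp) T5.ok_mp (w := 15) (j := 1) (by decide +kernel)
theorem L00330 : Good (Phi V5.P V5.D (-1) 1) ⟨3, 3, 2, 0, 1, 0, 3, 0, 4, 0⟩ :=
  leafX_sound T5.ok_mp T5.Ymp.bz_eq (w := 192) (c := ⟨⟨.ofNat 669, .negSucc 6, .negSucc 151, .ofNat 247, .ofNat 153, .negSucc 1632⟩, ⟨.ofNat 71, .ofNat 4, .negSucc 4, .negSucc 81, .negSucc 5, .negSucc 149⟩, ⟨.negSucc 562, .ofNat 9, .ofNat 158, .ofNat 33, .negSucc 246, .ofNat 1329⟩, ⟨.ofNat 1590, .negSucc 69, .negSucc 221, .ofNat 738, .ofNat 338, .negSucc 3990⟩, ⟨.ofNat 61, .negSucc 81, .negSucc 29, .negSucc 1477, .ofNat 140, .negSucc 6⟩, .ofNat 356, .negSucc 42, .ofNat 0, .negSucc 42, .ofNat 692, .ofNat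 0, .ofNat 381, .ofNat 25, .negSucc 246, .ofNat 0, .ofNat 128, .negSucc 4, .ofNat 0, .ofNat 0, .ofNat 582, .ofNat 5264, .ofNat 0, .ofNat 0, .ofNat 0, .ofNat 0, .ofNat 0, .ofNat 0, .ofNat 0, .ofNat 0, .ofNat 0, .ofNat 0, .ofNat 0, .ofNat 0, .ofNat 0, .ofNat 0, .ofNat 0, .ofNat 0⟩)
    (by decide +kernel)
theorem L00331 : Good (Phi V5.P V5.D (-1) 1) ⟨3, 3, 2, 0, 1, 0, 3, 0, 4, 1⟩ :=
  leafX_sound T5.ok_mp T5.Ymp.bz_eq (w := 192) (c := ⟨⟨.negSucc 827, .negSucc 277, .negSucc 46, .negSucc 72, .ofNat 52, .negSucc 696⟩, ⟨.ofNat 26, .ofNat 65, .negSucc 295, .negSucc 87, .ofNat 11, .negSucc 81⟩, ⟨.ofNat 1077, .ofNat 272, .ofNat 105, .negSucc 667, .negSucc 187, .ofNat 732⟩, ⟨.negSucc 2089, .negSucc 281, .negSucc 3, .negSucc 38, .ofNat 24, .negSucc 1699⟩, ⟨.negSucc 58, .ofNat 12, .negSucc 37, .negSucc 1198, .ofNat 90, .ofNat 110⟩, .ofNat 357,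 .negSucc 43, .ofNat 0, .negSucc 43, .ofNat 691, .ofNat 0, .ofNat 315, .ofNat 25, .negSucc 199, .ofNat 0, .ofNat 128, .ofNat 0, .ofNat 0, .ofNat 0, .ofNat 601, .ofNat 6795, .ofNat 0, .ofNat 0, .ofNat 0, .ofNat 0, .ofNat 8725707726416636738642904111325904896, .ofNat 0, .ofNat 0, .ofNat 0, .ofNat 0, .ofNat 0, .ofNat 0, .ofNat 0, .ofNat 0, .ofNat 0, .ofNat 0, .ofNat 0⟩)
    (by decide +kernel)
theorem L00332 : Good (Phi V5.P V5.D (-1) 1) ⟨3, 3, 2, 0, 1, 0, 3, 0, 3, 1⟩ :=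
  leafX_sound T5.ok_mp T5.Ymp.bz_eq (w := 189) (c := ⟨⟨.negSucc 1456, .negSucc 311, .negSucc 58, .negSucc 205, .ofNat 40, .negSucc 331⟩, ⟨.negSucc 2, .ofNat 91, .negSucc 374, .negSucc 80, .negSucc 19, .negSucc 0⟩, ⟨.ofNat 1750, .ofNat 292, .ofNat 121, .negSucc 646, .negSucc 100, .ofNat 613⟩, ⟨.negSucc 3711, .negSucc 265, .negSucc 26, .negSucc 379, .ofNat 91, .negSucc 847⟩, ⟨.negSucc 74, .negSucc 18, .ofNat 14, .negSucc 977, .ofNat 108, .ofNat 280⟩, .ofNat 357, .negSucc 42, .ofNat 0, .negSucc 42, .ofNat 692, .ofNat 0, .ofNat 323, .ofNat 24, .negSucc 200, .ofNat 0, .ofNat 128, .ofNat 11, .ofNat 0, .ofNat 0, .ofNat 856, .ofNat 11021, .ofNat 0, .ofNat 0, .ofNat 0, .ofNat 0, .ofNat 192378394860165585693138641215710822400, .ofNat 0, .ofNat 0, .ofNat 0, .ofNat 0, .ofNat 0, .ofNat 0, .ofNat 0, .ofNat 173806456428899254137120711714881404928,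 .ofNat 0, .ofNat 0, .ofNat 0⟩)
    (by decide +kernel)
theorem L00333 : Good (Phi V5.P V5.D (-1) 1) ⟨3, 3, 2, 0, 1, 0, 3, 0, 2, 1⟩ :=
  out_sound (S := T5.ds_mp) T5.ok_mp (w := 19) (j := 1) (by decide +kernel)
theorem L00334 : Good (Phi V5.P V5.D (-1) 1) ⟨3, 3, 2, 0, 1, 0, 3, 1, 3, 0⟩ :=
  leafX_sound T5.ok_mp T5.Ymp.bz_eq (w := 186) (c := ⟨⟨.ofNat 849, .negSucc 193, .negSucc 198, .ofNat 104, .negSucc 58, .negSucc 2465⟩, ⟨.ofNat 158, .ofNat 61, .negSucc 77, .negSucc 137, .ofNat 10, .negSucc 293⟩, ⟨.negSucc 638, .ofNat 139, .ofNat 95, .negSucc 185, .negSucc 87, .ofNat 2238⟩, ⟨.ofNat 2003, .negSucc 354, .negSucc 367, .ofNat 358, .negSucc 159, .negSucc 5948⟩, ⟨.negSucc 151, .negSucc 48, .negSucc 134, .negSucc 918, .ofNat 246, .ofNat 272⟩, .ofNat 505, .negSucc 142, .ofNat 0, .negSucc 142, .ofNat 1508, .ofNat 0, .ofNat 483, .ofNat 57,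 .negSucc 192, .ofNat 0, .ofNat 128, .negSucc 12, .ofNat 0, .ofNat 0, .ofNat 553, .ofNat 1318, .ofNat 0, .ofNat 0, .ofNat 0, .ofNat 0, .ofNat 0, .ofNat 0, .ofNat 0, .ofNat 0, .ofNat 0, .ofNat 0, .ofNat 0, .ofNat 0, .ofNat 0, .ofNat 0, .ofNat 0, .ofNat 0⟩)
    (by decide +kernel)
theorem L00335 : Good (Phi V5.P V5.D (-1) 1) ⟨3, 3, 2, 0, 1, 0, 3, 1, 3, 1⟩ :=
  leafX_sound T5.ok_mp T5.Ymp.bz_eq (w := 188) (c := ⟨⟨.negSucc 1579, .negSucc 289, .negSucc 26, .negSucc 203, .ofNat 65, .ofNat 43⟩, ⟨.negSucc 53, .ofNat 105, .negSucc 362, .negSucc 52, .ofNat 9, .ofNat 7⟩, ⟨.ofNat 1636, .ofNat 306, .ofNat 130, .negSucc 461, .negSucc 147, .ofNat 302⟩, ⟨.negSucc 3997, .negSucc 161, .negSucc 1, .negSucc 410, .ofNat 146, .ofNat 76⟩, ⟨.negSucc 204, .negSucc 25, .ofNat 68, .negSucc 547, .ofNat 130, .ofNat 75⟩, .ofNat 573, .negSucc 218, .ofNat 0, .negSucc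 218, .ofNat 2695, .ofNat 0, .ofNat 364, .ofNat 66, .negSucc 91, .ofNat 0, .ofNat 128, .negSucc 1, .ofNat 0, .ofNat 0, .ofNat 554, .ofNat 6251, .ofNat 0, .ofNat 0, .ofNat 0, .ofNat 0, .ofNat 0, .ofNat 0, .ofNat 0, .ofNat 0, .ofNat 0, .ofNat 0, .ofNat 0, .ofNat 0, .ofNat 22718481682068306140082832040366440448, .ofNat 0, .ofNat 0, .ofNat 0⟩)
    (by decide +kernel)
theorem L00336 : Good (Phi V5.P V5.D (-1) 1) ⟨3, 3, 2, 0, 1, 0, 3, 1, 2, 1⟩ :=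
  leafX_sound T5.ok_mp T5.Ymp.bz_eq (w := 186) (c := ⟨⟨.negSucc 1532, .negSucc 267, .negSucc 37, .negSucc 169, .ofNat 45, .ofNat 616⟩, ⟨.negSucc 52, .ofNat 98, .negSucc 350, .negSucc 46, .ofNat 14, .ofNat 10⟩, ⟨.ofNat 1862, .ofNat 309, .ofNat 123, .negSucc 402, .negSucc 118, .ofNat 88⟩, ⟨.negSucc 3882, .negSucc 146, .negSucc 14, .negSucc 343, .ofNat 105, .ofNat 1269⟩, ⟨.negSucc 83, .ofNat 13, .ofNat 28, .negSucc 572, .ofNat 87, .ofNat 164⟩, .ofNat 496, .negSucc 113, .ofNat 0, .negSucc 113, .ofNat 1537, .ofNat 0, .ofNat 278, .ofNat 45, .negSucc 142, .ofNat 0, .ofNat 128, .ofNat 3, .ofNat 0, .ofNat 0, .ofNat 1167, .ofNat 31290, .ofNat 5661381916293148227552219420967305216, .ofNat 0, .ofNat 0, .ofNat 0, .ofNat 62189551775702712892148931315235815424, .ofNat 0, .ofNat 0, .ofNat 0, .ofNat 22988356364608316920471188485611454464, .ofNat 0,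 .ofNat 0, .ofNat 0, .ofNat 62916533493284312823376314455543513088, .ofNat 0, .ofNat 0, .ofNat 0⟩)
    (by decide +kernel)
theorem L00337 : Good (Phi V5.P V5.D (-1) 1) ⟨3, 3, 2, 0, 1, 0, 2, 1, 3, 0⟩ :=
  leafX_sound T5.ok_mp T5.Ymp.bz_eq (w := 182) (c := ⟨⟨.ofNat 613, .negSucc 207, .negSucc 129, .ofNat 142, .negSucc 31, .negSucc 2207⟩, ⟨.ofNat 130, .negSucc 7, .negSucc 106, .negSucc 72, .negSucc 10, .negSucc 207⟩, ⟨.negSucc 470, .ofNat 132, .ofNat 153, .negSucc 463, .negSucc 39, .ofNat 2008⟩, ⟨.ofNat 1307, .negSucc 333, .negSucc 162, .ofNat 423, .negSucc 143, .negSucc 5178⟩, ⟨.negSucc 255, .ofNat 134, .negSucc 167, .negSucc 798, .ofNat 198, .ofNat 363⟩, .ofNat 499, .negSucc 127, .ofNat 0, .negSucc 127, .ofNat 1541, .ofNat 0, .ofNat 403, .ofNat 53, .negSucc 223, .ofNat 0, .ofNat 128, .negSucc 12, .ofNat 0, .ofNat 0, .ofNat 540, .ofNat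 570, .ofNat 0, .ofNat 0, .ofNat 0, .ofNat 0, .ofNat 0, .ofNat 0, .ofNat 0, .ofNat 0, .ofNat 0, .ofNat 0, .ofNat 0, .ofNat 0, .ofNat 0, .ofNat 0, .ofNat 0, .ofNat 0⟩)
    (by decide +kernel)
theorem L00338 : Good (Phi V5.P V5.D (-1) 1) ⟨3, 3, 2, 0, 1, 0, 2, 1, 3, 1⟩ :=
  leafX_sound T5.ok_mp T5.Ymp.bz_eq (w := 184) (c := ⟨⟨.negSucc 1550, .negSucc 287, .negSucc 22, .negSucc 185, .ofNat 144, .ofNat 70⟩, ⟨.negSucc 54, .ofNat 86, .negSucc 334, .negSucc 50, .ofNat 17, .ofNat 14⟩, ⟨.ofNat 1622, .ofNat 274, .ofNat 58, .negSucc 449, .negSucc 265, .ofNat 164⟩, ⟨.negSucc 3874, .negSucc 217, .negSucc 5, .negSucc 389, .ofNat 328, .ofNat 138⟩, ⟨.negSucc 114, .negSucc 0, .ofNat 37, .negSucc 546, .ofNat 74, .ofNat 119⟩, .ofNat 500, .negSucc 133, .ofNat 0, .negSucc 133, .ofNat 1519, .ofNat 0, .ofNat 500, .ofNat 53, .negSucc 145, .ofNat 0, .ofNat 128,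 .negSucc 5, .ofNat 0, .ofNat 0, .ofNat 721, .ofNat 3629, .ofNat 0, .ofNat 0, .ofNat 0, .ofNat 0, .ofNat 0, .ofNat 0, .ofNat 0, .ofNat 0, .ofNat 0, .ofNat 0, .ofNat 0, .ofNat 0, .ofNat 0, .ofNat 0, .ofNat 0, .ofNat 0⟩)
    (by decide +kernel)
theorem L00339 : Good (Phi V5.P V5.D (-1) 1) ⟨3, 3, 2, 0, 1, 0, 2, 1, 4, 4⟩ :=
  leafX_sound T5.ok_mp T5.Ymp.bz_eq (w := 190) (c := ⟨⟨.negSucc 1540, .negSucc 224, .negSucc 23, .negSucc 131, .ofNat 146, .ofNat 115⟩, ⟨.negSucc 42, .ofNat 80, .negSucc 326, .negSucc 48, .ofNat 19, .ofNat 18⟩, ⟨.ofNat 1752, .ofNat 238, .ofNat 35, .negSucc 300, .negSucc 346, .negSucc 0⟩, ⟨.negSucc 3877, .negSucc 91, .negSucc 15, .negSucc 244, .ofNat 347, .ofNat 276⟩, ⟨.negSucc 70, .ofNat 19, .negSucc 5, .negSucc 456, .ofNat 74, .ofNat 43⟩, .ofNat 357, .negSucc 47, .ofNat 0, .negSucc 47, .ofNat 690, .ofNat 0, .ofNat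 286, .ofNat 27, .negSucc 100, .ofNat 0, .ofNat 128, .ofNat 5, .ofNat 0, .ofNat 0, .ofNat 720, .ofNat 10142, .ofNat 0, .ofNat 0, .ofNat 0, .ofNat 0, .ofNat 0, .ofNat 0, .ofNat 0, .ofNat 0, .ofNat 0, .ofNat 0, .ofNat 0, .ofNat 0, .ofNat 0, .ofNat 0, .ofNat 0, .ofNat 0⟩)
    (by decide +kernel)
theorem L00340 : Good (Phi V5.P V5.D (-1) 1) ⟨3, 3, 2, 0, 1, 0, 3, 2, 5, 10⟩ :=
  leafX_sound T5.ok_mp T5.Ymp.bz_eq (w := 202) (c := ⟨⟨.negSucc 1452, .negSucc 208, .negSucc 31, .negSucc 75, .ofNat 66, .ofNat 75⟩, ⟨.negSucc 44, .ofNat 86, .negSucc 315, .negSucc 38, .ofNat 12, .ofNat 7⟩, ⟨.ofNat 1912, .ofNat 227, .ofNat 67, .negSucc 446, .negSucc 217, .ofNat 18⟩, ⟨.negSucc 3666, .negSucc 66, .negSucc 4, .negSucc 121, .ofNat 148, .ofNat 168⟩, ⟨.negSucc 11, .ofNat 16, .ofNat 8, .negSucc 482, .ofNat 48, .ofNat 26⟩, .ofNat 499, .negSucc 127, .ofNat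 0, .negSucc 127, .ofNat 1541, .ofNat 0, .ofNat 255, .ofNat 50, .negSucc 71, .ofNat 0, .ofNat 128, .ofNat 0, .ofNat 0, .ofNat 0, .ofNat 888, .ofNat 50357, .ofNat 823992198899542764102414118460996976640, .ofNat 0, .ofNat 0, .ofNat 0, .ofNat 0, .ofNat 0, .ofNat 0, .ofNat 0, .ofNat 0, .ofNat 0, .ofNat 0, .ofNat 0, .ofNat 44050771096983516441440182908631627333632, .ofNat 0, .ofNat 0, .ofNat 0⟩)
    (by decide +kernel)
theorem L00341 : Good (Phi V5.P V5.D (-1) 1) ⟨3, 3, 2, 0, 1, 0, 3, 3, 5, 10⟩ :=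
  leafX_sound T5.ok_mp T5.Ymp.bz_eq (w := 201) (c := ⟨⟨.negSucc 1408, .negSucc 197, .negSucc 14, .negSucc 56, .ofNat 79, .ofNat 59⟩, ⟨.negSucc 46, .ofNat 78, .negSucc 292, .negSucc 27, .ofNat 9, .ofNat 4⟩, ⟨.ofNat 1623, .ofNat 198, .ofNat 17, .negSucc 282, .negSucc 225, .negSucc 37⟩, ⟨.negSucc 3519, .negSucc 52, .negSucc 0, .negSucc 105, .ofNat 175, .ofNat 133⟩, ⟨.negSucc 43, .ofNat 10, .ofNat 0, .negSucc 350, .ofNat 39, .ofNat 10⟩, .ofNat 356, .negSucc 41, .ofNat 0, .negSucc 41, .ofNat 697, .ofNat 0, .ofNat 242, .ofNat 24, .negSucc 65, .ofNat 0, .ofNat 128, .ofNat 3, .ofNat 0, .ofNat 0, .ofNat 603, .ofNat 28281, .ofNat 0, .ofNat 0, .ofNat 0, .ofNat 0, .ofNat 0, .ofNat 0, .ofNat 0, .ofNat 0, .ofNat 0, .ofNat 0, .ofNat 0, .ofNat 0, .ofNat 0, .ofNat 0, .ofNat 0, .ofNat 0⟩)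
    (by decide +kernel)
theorem L00342 : Good (Phi V5.P V5.D (-1) 1) ⟨3, 3, 2, 0, 1, 0, 2, 1, 5, 11⟩ :=
  leafX_sound T5.ok_mp T5.Ymp.bz_eq (w := 198) (c := ⟨⟨.negSucc 1441, .negSucc 177, .negSucc 20, .negSucc 37, .ofNat 149, .ofNat 61⟩, ⟨.negSucc 56, .ofNat 77, .negSucc 282, .negSucc 23, .ofNat 21, .ofNat 6⟩, ⟨.ofNat 1854, .ofNat 171, .ofNat 12, .negSucc 267, .negSucc 466, .negSucc 9⟩, ⟨.negSucc 3579, .negSucc 23, .negSucc 1, .negSucc 56, .ofNat 317, .ofNat 141⟩, ⟨.negSucc 117, .ofNat 13, .ofNat 6, .negSucc 304, .ofNat 96, .ofNat 4⟩, .ofNat 499, .negSucc 127, .ofNat 0, .negSucc 127, .ofNat 1541, .ofNat 0, .ofNat 244, .ofNat 50, .negSucc 60, .ofNat 0, .ofNat 128, .negSucc 0, .ofNat 0, .ofNat 0, .ofNat 837, .ofNat 44319, .ofNat 179327635925116260418524480174423015424, .ofNat 0, .ofNat 0, .ofNat 0, .ofNat 1894536944206323635142929466215081443328,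 .ofNat 0, .ofNat 0, .ofNat 0, .ofNat 1461262421774703588566425377781915320320, .ofNat 0, .ofNat 0, .ofNat 0, .ofNat 1787230724906163477325798534858588291072, .ofNat 0, .ofNat 0, .ofNat 0⟩)
    (by decide +kernel)
theorem L00343 : Good (Phi V5.P V5.D (-1) 1) ⟨3, 3, 2, 0, 1, 0, 2, 1, 3, 3⟩ :=
  leafX_sound T5.ok_mp T5.Ymp.bz_eq (w := 189) (c := ⟨⟨.negSucc 1443, .negSucc 157, .negSucc 16, .ofNat 28, .ofNat 144, .ofNat 255⟩, ⟨.negSucc 75, .ofNat 76, .negSucc 271, .negSucc 12, .ofNat 33, .ofNat 30⟩, ⟨.ofNat 2097, .ofNat 124, .negSucc 21, .negSucc 459, .negSucc 511, .negSucc 8⟩, ⟨.negSucc 3579, .ofNat 1, .ofNat 8, .ofNat 83, .ofNat 322, .ofNat 594⟩, ⟨.negSucc 209, .ofNat 14, .ofNat 5, .negSucc 258, .ofNat 171, .ofNat 117⟩, .ofNat 355, .negSucc 41, .ofNat 0, .negSucc 41, .ofNat 693, .ofNat 0, .ofNat 243, .ofNat 24, .negSucc 63, .ofNat 0,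 .ofNat 128, .ofNat 1, .ofNat 0, .ofNat 0, .ofNat 940, .ofNat 68323, .ofNat 10106512152577893210098850912056377344, .ofNat 0, .ofNat 0, .ofNat 0, .ofNat 52006634509667269424868418118827900928, .ofNat 0, .ofNat 0, .ofNat 0, .ofNat 43808764627472362419297304113728978944, .ofNat 0, .ofNat 0, .ofNat 0, .ofNat 102484187183743383301986984443456258048, .ofNat 0, .ofNat 0, .ofNat 0⟩)
    (by decide +kernel)
theorem L00344 : Good (Phi V5.P V5.D (-1) 1) ⟨3, 3, 2, 0, 1, 0, 1, 0, 1, 1⟩ :=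
  out_sound (S := T5.ds_mp) T5.ok_mp (w := 15) (j := 1) (by decide +kernel)
theorem L00345 : Good (Phi V5.P V5.D (-1) 1) ⟨2, 1, 2, 0, 1, 0, 2, 2, 3, 0⟩ :=
  leafX_sound T5.ok_mp T5.Ymp.bz_eq (w := 177) (c := ⟨⟨.ofNat 25, .negSucc 395, .negSucc 51, .ofNat 86, .negSucc 92, .negSucc 1239⟩, ⟨.ofNat 61, .ofNat 75, .negSucc 233, .negSucc 42, .negSucc 12, .negSucc 135⟩, ⟨.negSucc 11, .ofNat 301, .ofNat 61, .negSucc 473, .ofNat 76, .ofNat 1169⟩, ⟨.negSucc 173, .negSucc 410, .negSucc 89, .ofNat 332, .negSucc 288, .negSucc 3107⟩, ⟨.negSucc 186, .ofNat 17, .negSucc 43, .negSucc 408, .ofNat 201, .negSucc 5⟩, .ofNat 526, .negSucc 144, .ofNat 0, .negSucc 144, .ofNat 1420, .ofNat 0, .ofNat 445, .ofNat 56, .negSucc 296, .ofNat 0, .ofNat 128, .negSucc 23, .ofNat 0, .ofNat 0, .ofNat 735, .ofNat 400, .ofNat 0, .ofNat 0, .ofNat 0, .ofNat 0, .ofNat 0,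 .ofNat 0, .ofNat 0, .ofNat 0, .ofNat 0, .ofNat 0, .ofNat 0, .ofNat 0, .ofNat 0, .ofNat 0, .ofNat 0, .ofNat 0⟩)
    (by decide +kernel)
theorem L00346 : Good (Phi V5.P V5.D (-1) 1) ⟨2, 1, 2, 0, 1, 0, 3, 6, 3, 0⟩ :=
  leafX_sound T5.ok_mp T5.Ymp.bz_eq (w := 181) (c := ⟨⟨.negSucc 370, .negSucc 382, .negSucc 96, .ofNat 2, .ofNat 102, .negSucc 704⟩, ⟨.ofNat 30, .ofNat 68, .negSucc 253, .negSucc 44, .negSucc 0, .negSucc 83⟩, ⟨.ofNat 415, .ofNat 278, .ofNat 86, .negSucc 325, .negSucc 99, .ofNat 512⟩, ⟨.negSucc 1128, .negSucc 406, .negSucc 198, .ofNat 91, .ofNat 226, .negSucc 1824⟩, ⟨.negSucc 321, .ofNat 76, .negSucc 16, .negSucc 425, .ofNat 139, .ofNat 248⟩, .ofNat 525, .negSucc 143, .ofNat 0, .negSucc 143, .ofNat 1420, .ofNat 0, .ofNat 316, .ofNat 56, .negSucc 151, .ofNat 0, .ofNat 128, .negSucc 12, .ofNat 0, .ofNat 0, .ofNat 358, .ofNat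 531, .ofNat 0, .ofNat 0, .ofNat 0, .ofNat 0, .ofNat 0, .ofNat 0, .ofNat 0, .ofNat 0, .ofNat 0, .ofNat 0, .ofNat 0, .ofNat 0, .ofNat 0, .ofNat 0, .ofNat 0, .ofNat 0⟩)
    (by decide +kernel)
theorem L00347 : Good (Phi V5.P V5.D (-1) 1) ⟨2, 1, 2, 0, 1, 0, 3, 7, 3, 0⟩ :=
  leafX_sound T5.ok_mp T5.Ymp.bz_eq (w := 182) (c := ⟨⟨.negSucc 655, .negSucc 205, .negSucc 24, .negSucc 99, .ofNat 578, .negSucc 230⟩, ⟨.negSucc 40, .ofNat 44, .negSucc 142, .negSucc 65, .ofNat 78, .negSucc 22⟩, ⟨.ofNat 614, .ofNat 62, .ofNat 24, .negSucc 123, .negSucc 606, .ofNat 65⟩, ⟨.negSucc 1772, .negSucc 116, .ofNat 16, .negSucc 223, .ofNat 1366, .negSucc 607⟩, ⟨.negSucc 98, .negSucc 41, .negSucc 45, .negSucc 386, .negSucc 63, .ofNat 173⟩, .ofNat 626, .negSucc 292, .ofNat 0, .negSucc 292, .ofNat 2367, .ofNat 0, .ofNat 297, .ofNat 83, .negSucc 242, .ofNat 0, .ofNat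 128, .negSucc 24, .ofNat 0, .ofNat 0, .ofNat 514, .ofNat 675, .ofNat 0, .ofNat 159656966775165097815794425790464, .ofNat 0, .ofNat 0, .ofNat 0, .ofNat 0, .ofNat 0, .ofNat 0, .ofNat 0, .ofNat 0, .ofNat 0, .ofNat 0, .ofNat 0, .ofNat 0, .ofNat 0, .ofNat 0⟩)
    (by decide +kernel)
theorem L00348 : Good (Phi V5.P V5.D (-1) 1) ⟨2, 1, 2, 0, 1, 0, 2, 2, 3, 1⟩ :=
  leafX_sound T5.ok_mp T5.Ymp.bz_eq (w := 179) (c := ⟨⟨.negSucc 1273, .negSucc 375, .negSucc 29, .negSucc 124, .ofNat 189, .ofNat 39⟩, ⟨.negSucc 87, .ofNat 107, .negSucc 302, .negSucc 45, .ofNat 29, .ofNat 16⟩, ⟨.ofNat 1284, .ofNat 320, .ofNat 36, .negSucc 347, .negSucc 288, .ofNat 20⟩, ⟨.negSucc 3531, .negSucc 186, .negSucc 41, .negSucc 249, .ofNat 461, .ofNat 87⟩, ⟨.negSucc 133, .ofNat 65, .ofNat 13, .negSucc 391, .ofNat 62, .ofNat 87⟩, .ofNat 521, .negSucc 142, .ofNat 0, .negSucc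 142, .ofNat 1429, .ofNat 0, .ofNat 354, .ofNat 54, .negSucc 126, .ofNat 0, .ofNat 128, .negSucc 6, .ofNat 0, .ofNat 0, .ofNat 594, .ofNat 2114, .ofNat 0, .ofNat 0, .ofNat 0, .ofNat 0, .ofNat 0, .ofNat 0, .ofNat 0, .ofNat 0, .ofNat 0, .ofNat 0, .ofNat 0, .ofNat 0, .ofNat 0, .ofNat 0, .ofNat 0, .ofNat 0⟩)
    (by decide +kernel)
theorem L00349 : Good (Phi V5.P V5.D (-1) 1) ⟨2, 1, 2, 0, 1, 0, 3, 6, 3, 1⟩ :=
  leafX_sound T5.ok_mp T5.Ymp.bz_eq (w := 182) (c := ⟨⟨.negSucc 1118, .negSucc 291, .negSucc 3, .negSucc 134, .ofNat 177, .ofNat 45⟩, ⟨.negSucc 78, .ofNat 98, .negSucc 264, .negSucc 27, .ofNat 26, .ofNat 7⟩, ⟨.ofNat 1044, .ofNat 161, .ofNat 4, .negSucc 221, .negSucc 237, .negSucc 53⟩, ⟨.negSucc 3054, .negSucc 88, .ofNat 16, .negSucc 341, .ofNat 432, .ofNat 69⟩, ⟨.negSucc 226, .ofNat 72, .negSucc 12, .negSucc 203, .ofNat 135, .ofNat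 191⟩, .ofNat 367, .negSucc 49, .ofNat 0, .negSucc 49, .ofNat 672, .ofNat 0, .ofNat 207, .ofNat 30, .negSucc 133, .ofNat 0, .ofNat 128, .negSucc 3, .ofNat 0, .ofNat 0, .ofNat 446, .ofNat 886, .ofNat 0, .ofNat 0, .ofNat 0, .ofNat 0, .ofNat 0, .ofNat 0, .ofNat 0, .ofNat 0, .ofNat 0, .ofNat 0, .ofNat 0, .ofNat 0, .ofNat 0, .ofNat 0, .ofNat 0, .ofNat 0⟩)
    (by decide +kernel)
theorem L00350 : Good (Phi V5.P V5.D (-1) 1) ⟨2, 1, 2, 0, 1, 0, 4, 14, 3, 1⟩ :=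
  leafX_sound T5.ok_mp T5.Ymp.bz_eq (w := 187) (c := ⟨⟨.negSucc 905, .negSucc 206, .ofNat 6, .negSucc 163, .ofNat 144, .negSucc 37⟩, ⟨.negSucc 69, .ofNat 71, .negSucc 214, .negSucc 13, .ofNat 27, .ofNat 5⟩, ⟨.ofNat 739, .ofNat 92, .negSucc 31, .negSucc 76, .negSucc 188, .negSucc 49⟩, ⟨.negSucc 2482, .ofNat 55, .ofNat 30, .negSucc 451, .ofNat 352, .negSucc 139⟩, ⟨.negSucc 233, .ofNat 7, .negSucc 35, .ofNat 146, .ofNat 62, .ofNat 165⟩, .ofNat 528, .negSucc 151, .ofNat 0, .negSucc 151, .ofNat 1457, .ofNat 0, .ofNat 374, .ofNat 57, .negSucc 217, .ofNat 0, .ofNat 128, .negSucc 17, .ofNat 0, .ofNat 0, .ofNat 735, .ofNat 1625, .ofNat 0, .ofNat 0, .ofNat 0, .ofNat 0, .ofNat 0, .ofNat 0, .ofNat 0, .ofNat 0, .ofNat 0, .ofNat 18489502736249659937923329475739648, .ofNat 0, .ofNat 0, .ofNat 0, .ofNat 0, .ofNat 0, .ofNat 0⟩)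
    (by decide +kernel)
theorem L00351 : Good (Phi V5.P V5.D (-1) 1) ⟨2, 1, 2, 0, 1, 0, 4, 15, 3, 1⟩ :=
  leafX_sound T5.ok_mp T5.Ymp.bz_eq (w := 186) (c := ⟨⟨.negSucc 651, .negSucc 133, .ofNat 8, .negSucc 245, .ofNat 344, .negSucc 154⟩, ⟨.negSucc 48, .ofNat 51, .negSucc 165, .negSucc 19, .ofNat 45, .negSucc 2⟩, ⟨.ofNat 431, .negSucc 2, .negSucc 45, .ofNat 63, .negSucc 399, .ofNat 37⟩, ⟨.negSucc 1757, .ofNat 77, .ofNat 16, .negSucc 705, .ofNat 875, .negSucc 425⟩, ⟨.negSucc 272, .ofNat 28, .negSucc 22, .ofNat 258, .ofNat 103, .ofNat 171⟩, .ofNat 528, .negSucc 151, .ofNat 0, .negSucc 151, .ofNat 1457, .ofNat 0, .ofNat 384, .ofNat 58, .negSucc 266, .ofNat 0, .ofNat 128, .negSucc 23, .ofNat 0, .ofNat 0, .ofNat 737, .ofNat 1030, .ofNat 0, .ofNat 4305515646060348478207289582419968, .ofNat 0, .ofNat 0, .ofNat 0, .ofNat 0, .ofNat 0, .ofNat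 0, .ofNat 0, .ofNat 155486974761669583081045986606317568, .ofNat 0, .ofNat 0, .ofNat 0, .ofNat 0, .ofNat 0, .ofNat 0⟩)
    (by decide +kernel)
theorem L00352 : Good (Phi V5.P V5.D (-1) 1) ⟨2, 1, 2, 0, 2, 0, 2, 2, 3, 2⟩ :=
  leafX_sound T5.ok_mp T5.Ymp.bz_eq (w := 194) (c := ⟨⟨.negSucc 1254, .negSucc 312, .negSucc 4, .negSucc 16, .ofNat 146, .ofNat 124⟩, ⟨.negSucc 84, .ofNat 96, .negSucc 268, .negSucc 14, .ofNat 16, .ofNat 15⟩, ⟨.ofNat 1325, .ofNat 294, .negSucc 18, .negSucc 84, .negSucc 389, .negSucc 132⟩, ⟨.negSucc 3468, .negSucc 73, .negSucc 0, .negSucc 22, .ofNat 361, .ofNat 307⟩, ⟨.negSucc 41, .ofNat 10, .negSucc 3, .negSucc 129, .ofNat 37, .ofNat 20⟩, .ofNat 370, .negSucc 44, .ofNat 0, .negSucc 44, .ofNat 670, .ofNat 0, .ofNat 282, .ofNat 24, .negSucc 69, .ofNat 0, .ofNat 128, .negSucc 2, .ofNat 0, .ofNat 0, .ofNat 527, .ofNat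 4764, .ofNat 0, .ofNat 0, .ofNat 0, .ofNat 0, .ofNat 0, .ofNat 0, .ofNat 0, .ofNat 0, .ofNat 0, .ofNat 0, .ofNat 0, .ofNat 0, .ofNat 0, .ofNat 0, .ofNat 0, .ofNat 0⟩)
    (by decide +kernel)
theorem L00353 : Good (Phi V5.P V5.D (-1) 1) ⟨2, 1, 2, 0, 2, 1, 2, 2, 3, 2⟩ :=
  leafX_sound T5.ok_mp T5.Ymp.bz_eq (w := 194) (c := ⟨⟨.negSucc 1327, .negSucc 298, .negSucc 11, .negSucc 23, .ofNat 151, .ofNat 190⟩, ⟨.negSucc 105, .ofNat 98, .negSucc 278, .negSucc 13, .ofNat 27, .ofNat 25⟩, ⟨.ofNat 1227, .ofNat 236, .negSucc 19, .negSucc 137, .negSucc 347, .negSucc 76⟩, ⟨.negSucc 3619, .negSucc 39, .ofNat 14, .negSucc 76, .ofNat 369, .ofNat 452⟩, ⟨.negSucc 299, .ofNat 47, .negSucc 3, .negSucc 78, .ofNat 147, .ofNat 102⟩, .ofNat 369, .negSucc 48, .ofNat 0, .negSucc 48, .ofNat 670, .ofNat 0, .ofNat 252, .ofNat 27, .negSucc 96, .ofNat 0, .ofNat 128,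 .ofNat 0, .ofNat 0, .ofNat 0, .ofNat 770, .ofNat 2650, .ofNat 0, .ofNat 0, .ofNat 0, .ofNat 0, .ofNat 0, .ofNat 0, .ofNat 0, .ofNat 0, .ofNat 0, .ofNat 0, .ofNat 0, .ofNat 0, .ofNat 0, .ofNat 0, .ofNat 0, .ofNat 0⟩)
    (by decide +kernel)
theorem L00354 : Good (Phi V5.P V5.D (-1) 1) ⟨2, 1, 2, 0, 1, 0, 2, 2, 3, 3⟩ :=
  leafX_sound T5.ok_mp T5.Ymp.bz_eq (w := 181) (c := ⟨⟨.negSucc 1182, .negSucc 247, .ofNat 4, .ofNat 45, .ofNat 145, .ofNat 79⟩, ⟨.negSucc 90, .ofNat 87, .negSucc 235, .negSucc 14, .ofNat 27, .ofNat 29⟩, ⟨.ofNat 1318, .ofNat 198, .negSucc 69, .negSucc 175, .negSucc 493, .negSucc 56⟩, ⟨.negSucc 3218, .ofNat 25, .ofNat 24, .ofNat 100, .ofNat 317, .ofNat 194⟩, ⟨.negSucc 143, .ofNat 41, .ofNat 19, .negSucc 128, .ofNat 116, .ofNat 114⟩, .ofNat 528, .negSucc 149, .ofNat 0, .negSucc 149, .ofNat 1414, .ofNat 0, .ofNat 304, .ofNat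 53, .negSucc 87, .ofNat 0, .ofNat 128, .negSucc 14, .ofNat 0, .ofNat 0, .ofNat 1354, .ofNat 5111, .ofNat 0, .ofNat 0, .ofNat 0, .ofNat 0, .ofNat 496529076273134021959668888147853312, .ofNat 9034292792389545951927223403413504, .ofNat 0, .ofNat 0, .ofNat 0, .ofNat 0, .ofNat 0, .ofNat 0, .ofNat 1454219978944303528106486754149662720, .ofNat 82777117374167206963026138071302144, .ofNat 0, .ofNat 0⟩)
    (by decide +kernel)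
theorem L00355 : Good (Phi V5.P V5.D (-1) 1) ⟨2, 1, 2, 0, 1, 0, 3, 6, 3, 2⟩ :=
  leafX_sound T5.ok_mp T5.Ymp.bz_eq (w := 183) (c := ⟨⟨.negSucc 1127, .negSucc 238, .negSucc 0, .negSucc 21, .ofNat 124, .ofNat 88⟩, ⟨.negSucc 80, .ofNat 81, .negSucc 241, .negSucc 2, .ofNat 27, .ofNat 12⟩, ⟨.ofNat 1003, .ofNat 171, .negSucc 50, .negSucc 186, .negSucc 260, .negSucc 144⟩, ⟨.negSucc 3078, .ofNat 12, .ofNat 9, .negSucc 65, .ofNat 300, .ofNat 186⟩, ⟨.negSucc 176, .ofNat 93, .negSucc 19, .ofNat 45, .ofNat 95, .ofNat 97⟩, .ofNat 522, .negSucc 144, .ofNat 0, .negSucc 144, .ofNat 1429, .ofNat 0, .ofNat 256, .ofNat 53, .negSucc 96, .ofNat 0, .ofNat 128, .negSucc 10, .ofNat 0, .ofNat 0, .ofNat 723, .ofNat 1817, .ofNat 0, .ofNat 0, .ofNat 0, .ofNat 0, .ofNat 0, .ofNat 4879862003312427748989350854000640, .ofNat 0, .ofNat 0, .ofNat 0, .ofNat 0, .ofNat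 0, .ofNat 0, .ofNat 0, .ofNat 72156642638821157107736451391422464, .ofNat 0, .ofNat 0⟩)
    (by decide +kernel)
theorem L00356 : Good (Phi V5.P V5.D (-1) 1) ⟨2, 1, 2, 0, 1, 0, 3, 7, 3, 2⟩ :=
  leafX_sound T5.ok_mp T5.Ymp.bz_eq (w := 182) (c := ⟨⟨.negSucc 1012, .negSucc 173, .ofNat 22, .negSucc 34, .ofNat 265, .ofNat 9⟩, ⟨.negSucc 73, .ofNat 70, .negSucc 212, .ofNat 20, .ofNat 46, .ofNat 8⟩, ⟨.ofNat 738, .ofNat 89, .negSucc 96, .negSucc 62, .negSucc 453, .negSucc 89⟩, ⟨.negSucc 2752, .ofNat 110, .ofNat 38, .negSucc 143, .ofNat 631, .ofNat 13⟩, ⟨.negSucc 188, .ofNat 155, .negSucc 4, .ofNat 189, .ofNat 216, .ofNat 116⟩, .ofNat 620, .negSucc 272, .ofNat 0, .negSucc 272, .ofNat 2381, .ofNat 0, .ofNat 534, .ofNat 72, .negSucc 124, .ofNat 0, .ofNat 128, .negSucc 16, .ofNat 0, .ofNat 0, .ofNat 714, .ofNat 909, .ofNat 0, .ofNat 0, .ofNat 0,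 .ofNat 0, .ofNat 0, .ofNat 0, .ofNat 0, .ofNat 0, .ofNat 0, .ofNat 38855364055961648143476339024855040, .ofNat 0, .ofNat 0, .ofNat 0, .ofNat 109221381319044447626494098951634944, .ofNat 0, .ofNat 0⟩)
    (by decide +kernel)
theorem L00357 : Good (Phi V5.P V5.D (-1) 1) ⟨2, 1, 2, 0, 1, 0, 2, 3, 3, 3⟩ :=
  leafX_sound T5.ok_mp T5.Ymp.bz_eq (w := 179) (c := ⟨⟨.negSucc 1058, .negSucc 196, .ofNat 11, .ofNat 18, .ofNat 101, .ofNat 38⟩, ⟨.negSucc 63, .ofNat 75, .negSucc 227, .ofNat 12, .ofNat 20, .negSucc 1⟩, ⟨.ofNat 851, .ofNat 126, .negSucc 88, .negSucc 55, .negSucc 441, .negSucc 126⟩, ⟨.negSucc 2870, .ofNat 95, .ofNat 19, .negSucc 9, .ofNat 209, .ofNat 65⟩, ⟨.negSucc 125, .ofNat 72, .negSucc 22, .ofNat 182, .ofNat 148, .ofNat 38⟩, .ofNat 524, .negSucc 144, .ofNat 0, .negSucc 144, .ofNat 1425, .ofNat 0, .ofNat 423, .ofNat 52, .negSucc 107,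 .ofNat 0, .ofNat 128, .negSucc 21, .ofNat 0, .ofNat 0, .ofNat 1124, .ofNat 1198, .ofNat 0, .ofNat 0, .ofNat 0, .ofNat 0, .ofNat 0, .ofNat 46737259289181698283617046438608896, .ofNat 0, .ofNat 0, .ofNat 0, .ofNat 20936675002291022391545911421435904, .ofNat 0, .ofNat 0, .ofNat 0, .ofNat 81723854917149516717203307148345344, .ofNat 0, .ofNat 0⟩)
    (by decide +kernel)
theorem L00358 : Good (Phi V5.P V5.D (-1) 1) ⟨2, 1, 2, 0, 1, 0, 1, 1, 1, 1⟩ :=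
  leafX_sound T5.ok_mp T5.Ymp.bz_eq (w := 175) (c := ⟨⟨.negSucc 1048, .negSucc 322, .ofNat 0, .ofNat 1, .negSucc 0, .ofNat 1⟩, ⟨.negSucc 58, .ofNat 84, .negSucc 253, .ofNat 0, .ofNat 0, .ofNat 0⟩, ⟨.ofNat 352, .ofNat 323, .ofNat 0, .ofNat 0, .ofNat 0, .ofNat 0⟩, ⟨.negSucc 2922, .negSucc 144, .ofNat 0, .ofNat 1, .negSucc 0, .ofNat 1⟩, ⟨.ofNat 0, .ofNat 0, .ofNat 0, .ofNat 0, .ofNat 0, .ofNat 0⟩, .ofNat 183, .negSucc 8, .ofNat 0, .negSucc 8, .ofNat 236, .ofNat 0, .ofNat 154, .ofNat 10, .negSucc 116, .ofNat 0, .ofNat 128, .negSucc 5, .ofNat 0, .ofNat 0, .ofNat 320, .ofNat 4948, .ofNat 36556964756063439722639681126400000000, .ofNat 1406035656409247863451735217447895040, .ofNat 0, .ofNat 0, .ofNat 2339645744388060142248939592089600000000, .ofNat 110360662302630830435260911761540251648, .ofNat 0, .ofNat 0, .ofNat 2339645744388060142248939592089600000000,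 .ofNat 110360760095406401337893125295844622336, .ofNat 0, .ofNat 0, .ofNat 2339645744388060142248939592089600000000, .ofNat 110360730201320847664708901963068080128, .ofNat 0, .ofNat 0⟩)
    (by decide +kernel)
theorem L00359 : Good (Phi V5.P V5.D (-1) 1) ⟨2, 1, 2, 0, 3, 4, 3, 0, 4, 0⟩ :=
  leafX_sound T5.ok_mp T5.Ymp.bz_eq (w := 216) (c := ⟨⟨.ofNat 1004, .ofNat 73, .negSucc 258, .ofNat 176, .ofNat 200, .negSucc 1757⟩, ⟨.negSucc 33, .negSucc 25, .negSucc 2, .ofNat 38, .ofNat 48, .negSucc 164⟩, ⟨.negSucc 426, .ofNat 126, .ofNat 283, .ofNat 42, .negSucc 303, .ofNat 607⟩, ⟨.ofNat 2652, .negSucc 162, .negSucc 299, .ofNat 542, .ofNat 454, .negSucc 4379⟩, ⟨.negSucc 1041, .negSucc 829, .negSucc 114, .negSucc 319, .ofNat 469, .negSucc 231⟩, .ofNat 369, .negSucc 50, .ofNat 0, .negSucc 50, .ofNat 679, .ofNat 0, .ofNat 325, .ofNat 22, .negSucc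 98, .ofNat 0, .ofNat 128, .ofNat 7, .ofNat 0, .ofNat 0, .ofNat 384, .ofNat 5396, .ofNat 0, .ofNat 0, .ofNat 0, .ofNat 0, .ofNat 0, .ofNat 0, .ofNat 0, .ofNat 0, .ofNat 0, .ofNat 0, .ofNat 0, .ofNat 0, .ofNat 0, .ofNat 0, .ofNat 0, .ofNat 0⟩)
    (by decide +kernel)
theorem L00360 : Good (Phi V5.P V5.D (-1) 1) ⟨2, 1, 2, 0, 3, 5, 4, 0, 4, 0⟩ :=
  leafX_sound T5.ok_mp T5.Ymp.bz_eq (w := 221) (c := ⟨⟨.ofNat 1337, .ofNat 48, .negSucc 353, .ofNat 77, .ofNat 155, .negSucc 1892⟩, ⟨.ofNat 56, .negSucc 77, .ofNat 46, .negSucc 35, .ofNat 37, .negSucc 265⟩, ⟨.negSucc 418, .ofNat 326, .ofNat 265, .ofNat 90, .negSucc 264, .ofNat 471⟩, ⟨.ofNat 3396, .negSucc 122, .negSucc 479, .ofNat 275, .ofNat 349, .negSucc 4646⟩, ⟨.negSucc 1217, .negSucc 1130, .negSucc 204, .ofNat 57, .ofNat 317, .negSucc 266⟩, .ofNat 369, .negSucc 50, .ofNat 0, .negSucc 50,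 .ofNat 679, .ofNat 0, .ofNat 288, .negSucc 4, .negSucc 78, .ofNat 0, .ofNat 128, .ofNat 1, .ofNat 0, .ofNat 0, .ofNat 330, .ofNat 11459, .ofNat 0, .ofNat 0, .ofNat 0, .ofNat 0, .ofNat 0, .ofNat 0, .ofNat 0, .ofNat 0, .ofNat 0, .ofNat 0, .ofNat 0, .ofNat 0, .ofNat 0, .ofNat 0, .ofNat 0, .ofNat 0⟩)
    (by decide +kernel)
theorem L00361 : Good (Phi V5.P V5.D (-1) 1) ⟨2, 1, 2, 0, 3, 5, 4, 1, 4, 0⟩ :=
  leafX_sound T5.ok_mp T5.Ymp.bz_eq (w := 220) (c := ⟨⟨.ofNat 1325, .ofNat 145, .negSucc 295, .ofNat 131, .ofNat 107, .negSucc 1795⟩, ⟨.ofNat 42, .negSucc 53, .ofNat 55, .ofNat 22, .ofNat 35, .negSucc 226⟩, ⟨.negSucc 516, .ofNat 174, .ofNat 215, .negSucc 39, .negSucc 179, .ofNat 467⟩, ⟨.ofNat 3555, .negSucc 21, .negSucc 456, .ofNat 360, .ofNat 271, .negSucc 4592⟩, ⟨.negSucc 790, .negSucc 1191, .negSucc 296, .ofNat 161, .ofNat 336, .negSucc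 547⟩, .ofNat 368, .negSucc 45, .ofNat 0, .negSucc 45, .ofNat 672, .ofNat 0, .ofNat 325, .ofNat 4, .negSucc 87, .ofNat 0, .ofNat 128, .ofNat 3, .ofNat 0, .ofNat 0, .ofNat 276, .ofNat 4246, .ofNat 0, .ofNat 0, .ofNat 0, .ofNat 0, .ofNat 0, .ofNat 0, .ofNat 0, .ofNat 0, .ofNat 0, .ofNat 0, .ofNat 0, .ofNat 0, .ofNat 0, .ofNat 0, .ofNat 0, .ofNat 0⟩)
    (by decide +kernel)
theorem L00362 : Good (Phi V5.P V5.D (-1) 1) ⟨2, 1, 2, 0, 2, 2, 3, 1, 4, 0⟩ :=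
  leafX_sound T5.ok_mp T5.Ymp.bz_eq (w := 201) (c := ⟨⟨.ofNat 1124, .ofNat 204, .negSucc 255, .ofNat 499, .ofNat 64, .negSucc 1818⟩, ⟨.ofNat 24, .negSucc 73, .ofNat 94, .ofNat 35, .ofNat 61, .negSucc 231⟩, ⟨.negSucc 694, .ofNat 101, .ofNat 153, .negSucc 135, .negSucc 184, .ofNat 724⟩, ⟨.ofNat 3036, .ofNat 65, .negSucc 402, .ofNat 1240, .ofNat 165, .negSucc 4558⟩, ⟨.negSucc 527, .negSucc 886, .negSucc 239, .ofNat 9, .ofNat 411, .negSucc 575⟩, .ofNat 367, .negSucc 43, .ofNat 0, .negSucc 43, .ofNat 674, .ofNat 0, .ofNat 266, .ofNat 24, .negSucc 84, .ofNat 0, .ofNat 128, .ofNat 4, .ofNat 0, .ofNat 0, .ofNat 210, .ofNat 1522, .ofNat 0, .ofNat 0, .ofNat 0, .ofNat 0, .ofNat 0, .ofNat 0, .ofNat 0, .ofNat 0, .ofNat 0, .ofNat 0, .ofNat 0, .ofNat 0, .ofNat 0, .ofNat 0, .ofNat 0, .ofNat 0⟩)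
    (by decide +kernel)
theorem L00363 : Good (Phi V5.P V5.D (-1) 1) ⟨2, 1, 2, 0, 2, 2, 2, 0, 4, 1⟩ :=
  leafX_sound T5.ok_mp T5.Ymp.bz_eq (w := 197) (c := ⟨⟨.negSucc 398, .negSucc 526, .negSucc 191, .ofNat 40, .ofNat 210, .negSucc 1030⟩, ⟨.negSucc 142, .ofNat 105, .negSucc 290, .negSucc 12, .ofNat 41, .negSucc 55⟩, ⟨.negSucc 79, .ofNat 655, .ofNat 259, .ofNat 26, .negSucc 357, .ofNat 664⟩, ⟨.negSucc 1166, .negSucc 850, .negSucc 169, .ofNat 183, .ofNat 517, .negSucc 2610⟩, ⟨.negSucc 1460, .negSucc 394, .negSucc 106, .negSucc 341, .ofNat 585, .ofNat 340⟩, .ofNat 365, .negSucc 41, .ofNat 0, .negSucc 41, .ofNat 678, .ofNat 0, .ofNat 380, .ofNat 9, .negSucc 116, .ofNat 0, .ofNat 128, .ofNat 17, .ofNat 0, .ofNat 0, .ofNat 368, .ofNat 2217, .ofNat 734602909143291503068634310672943939584, .ofNat 0, .ofNat 0, .ofNat 0, .ofNat 0, .ofNat 0,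 .ofNat 0, .ofNat 0, .ofNat 0, .ofNat 0, .ofNat 0, .ofNat 0, .ofNat 237386778956601731362167728122638630912, .ofNat 0, .ofNat 0, .ofNat 0⟩)
    (by decide +kernel)
theorem L00364 : Good (Phi V5.P V5.D (-1) 1) ⟨2, 1, 2, 0, 2, 2, 2, 1, 3, 0⟩ :=
  leafX_sound T5.ok_mp T5.Ymp.bz_eq (w := 192) (c := ⟨⟨.ofNat 1087, .negSucc 231, .negSucc 124, .ofNat 376, .ofNat 13, .negSucc 2612⟩, ⟨.ofNat 119, .ofNat 24, .negSucc 134, .negSucc 38, .ofNat 19, .negSucc 324⟩, ⟨.negSucc 821, .ofNat 191, .ofNat 100, .negSucc 230, .negSucc 59, .ofNat 1451⟩, ⟨.ofNat 2920, .negSucc 574, .negSucc 203, .ofNat 937, .negSucc 81, .negSucc 6798⟩, ⟨.negSucc 304, .negSucc 512, .negSucc 230, .ofNat 58, .ofNat 159, .negSucc 684⟩, .ofNat 371, .negSucc 48, .ofNat 0, .negSucc 48, .ofNat 665, .ofNat 0, .ofNat 352, .ofNat 37, .negSucc 162, .ofNat 0, .ofNat 128, .ofNat 10, .ofNat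 0, .ofNat 0, .ofNat 331, .ofNat 435, .ofNat 0, .ofNat 0, .ofNat 0, .ofNat 0, .ofNat 0, .ofNat 0, .ofNat 0, .ofNat 0, .ofNat 0, .ofNat 0, .ofNat 0, .ofNat 0, .ofNat 0, .ofNat 0, .ofNat 0, .ofNat 0⟩)
    (by decide +kernel)
theorem L00365 : Good (Phi V5.P V5.D (-1) 1) ⟨2, 1, 2, 0, 3, 6, 3, 0, 4, 0⟩ :=
  leafX_sound T5.ok_mp T5.Ymp.bz_eq (w := 215) (c := ⟨⟨.ofNat 1354, .negSucc 50, .negSucc 381, .negSucc 196, .ofNat 389, .negSucc 1770⟩, ⟨.ofNat 64, .negSucc 89, .ofNat 8, .ofNat 47, .ofNat 101, .negSucc 311⟩, ⟨.negSucc 447, .ofNat 358, .ofNat 220, .ofNat 115, .negSucc 578, .ofNat 727⟩, ⟨.ofNat 3556, .negSucc 239, .negSucc 654, .negSucc 661, .ofNat 914, .negSucc 4419⟩, ⟨.negSucc 660, .negSucc 1256, .negSucc 351, .ofNat 1008, .ofNat 471, .negSucc 939⟩, .ofNat 367, .negSucc 51, .ofNat 0, .negSucc 51, .ofNat 669, .ofNat 0, .ofNat 219, .negSucc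 18, .negSucc 119, .ofNat 0, .ofNat 128, .negSucc 2, .ofNat 0, .ofNat 0, .ofNat 276, .ofNat 2372, .ofNat 0, .ofNat 0, .ofNat 0, .ofNat 0, .ofNat 0, .ofNat 0, .ofNat 0, .ofNat 0, .ofNat 0, .ofNat 0, .ofNat 0, .ofNat 0, .ofNat 0, .ofNat 0, .ofNat 0, .ofNat 0⟩)
    (by decide +kernel)
theorem L00366 : Good (Phi V5.P V5.D (-1) 1) ⟨2, 1, 2, 0, 3, 6, 3, 1, 4, 0⟩ :=
  leafX_sound T5.ok_mp T5.Ymp.bz_eq (w := 215) (c := ⟨⟨.ofNat 1694, .ofNat 231, .negSucc 338, .negSucc 80, .ofNat 150, .negSucc 1895⟩, ⟨.ofNat 167, .negSucc 136, .ofNat 60, .ofNat 134, .ofNat 40, .negSucc 369⟩, ⟨.negSucc 862, .ofNat 82, .ofNat 141, .negSucc 26, .negSucc 237, .ofNat 771⟩, ⟨.ofNat 4369, .ofNat 229, .negSucc 609, .negSucc 370, .ofNat 298, .negSucc 4665⟩, ⟨.ofNat 240, .negSucc 1388, .negSucc 446, .ofNat 826, .ofNat 408, .negSucc 1321⟩, .ofNat 368, .negSucc 45, .ofNat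 0, .negSucc 45, .ofNat 672, .ofNat 0, .ofNat 283, .ofNat 12, .negSucc 186, .ofNat 0, .ofNat 128, .ofNat 3, .ofNat 0, .ofNat 0, .ofNat 343, .ofNat 1528, .ofNat 0, .ofNat 0, .ofNat 0, .ofNat 0, .ofNat 0, .ofNat 0, .ofNat 0, .ofNat 0, .ofNat 0, .ofNat 0, .ofNat 0, .ofNat 0, .ofNat 0, .ofNat 0, .ofNat 0, .ofNat 0⟩)
    (by decide +kernel)
theorem L00367 : Good (Phi V5.P V5.D (-1) 1) ⟨2, 1, 2, 0, 3, 7, 2, 0, 4, 0⟩ :=
  leafX_sound T5.ok_mp T5.Ymp.bz_eq (w := 211) (c := ⟨⟨.ofNat 912, .negSucc 253, .negSucc 244, .negSucc 658, .ofNat 698, .negSucc 1390⟩, ⟨.ofNat 168, .negSucc 95, .negSucc 82, .ofNat 106, .ofNat 98, .negSucc 260⟩, ⟨.negSucc 86, .ofNat 313, .negSucc 53, .ofNat 452, .negSucc 712, .ofNat 456⟩, ⟨.ofNat 2190, .negSucc 520, .negSucc 624, .negSucc 1801, .ofNat 1599, .negSucc 3259⟩, ⟨.ofNat 539, .negSucc 654, .negSucc 451, .ofNat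 2143, .ofNat 744, .negSucc 1442⟩, .ofNat 523, .negSucc 137, .ofNat 0, .negSucc 137, .ofNat 1429, .ofNat 0, .ofNat 243, .ofNat 50, .negSucc 119, .ofNat 0, .ofNat 128, .negSucc 9, .ofNat 0, .ofNat 0, .ofNat 274, .ofNat 740, .ofNat 0, .ofNat 0, .ofNat 0, .ofNat 0, .ofNat 0, .ofNat 0, .ofNat 0, .ofNat 0, .ofNat 0, .ofNat 0, .ofNat 0, .ofNat 0, .ofNat 2856415560434825249683459476494942514184192, .ofNat 0, .ofNat 0, .ofNat 0⟩)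
    (by decide +kernel)
theorem L00368 : Good (Phi V5.P V5.D (-1) 1) ⟨2, 1, 2, 0, 3, 6, 3, 0, 4, 1⟩ :=
  leafX_sound T5.ok_mp T5.Ymp.bz_eq (w := 216) (c := ⟨⟨.negSucc 324, .negSucc 725, .negSucc 213, .negSucc 13, .ofNat 125, .negSucc 929⟩, ⟨.negSucc 107, .ofNat 85, .negSucc 323, .ofNat 29, .ofNat 18, .negSucc 90⟩, ⟨.negSucc 53, .ofNat 877, .ofNat 301, .ofNat 195, .negSucc 380, .ofNat 652⟩, ⟨.negSucc 888, .negSucc 1218, .negSucc 259, .negSucc 130, .ofNat 297, .negSucc 2446⟩, ⟨.negSucc 1456, .negSucc 441, .negSucc 208, .ofNat 503, .ofNat 156, .ofNat 64⟩, .ofNat 370, .negSucc 48, .ofNat 0, .negSucc 48, .ofNat 667, .ofNat 0, .ofNat 347, .negSucc 32, .negSucc 165, .ofNat 0, .ofNat 128, .ofNat 16, .ofNat 0, .ofNat 0, .ofNat 432, .ofNat 5272, .ofNat 55606938655019556450747030550743158743891968, .ofNat 0, .ofNat 0, .ofNat 0, .ofNat 0, .ofNat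 0, .ofNat 0, .ofNat 0, .ofNat 0, .ofNat 0, .ofNat 0, .ofNat 0, .ofNat 0, .ofNat 0, .ofNat 0, .ofNat 0⟩)
    (by decide +kernel)
theorem L00369 : Good (Phi V5.P V5.D (-1) 1) ⟨2, 1, 2, 0, 3, 7, 3, 0, 4, 1⟩ :=
  leafX_sound T5.ok_mp T5.Ymp.bz_eq (w := 215) (c := ⟨⟨.negSucc 437, .negSucc 763, .negSucc 235, .negSucc 68, .ofNat 138, .negSucc 798⟩, ⟨.negSucc 89, .ofNat 85, .negSucc 344, .ofNat 71, .ofNat 35, .negSucc 82⟩, ⟨.ofNat 305, .ofNat 883, .ofNat 212, .negSucc 350, .negSucc 338, .ofNat 508⟩, ⟨.negSucc 1319, .negSucc 1211, .negSucc 452, .negSucc 393, .ofNat 364, .negSucc 1984⟩, ⟨.negSucc 550, .negSucc 289, .negSucc 365, .ofNat 1290, .ofNat 76, .negSucc 466⟩, .ofNat 368, .negSucc 48, .ofNat 0, .negSucc 48, .ofNat 673, .ofNat 0, .ofNat 325, .negSucc 42, .negSucc 167, .ofNat 0, .ofNat 128, .ofNat 7, .ofNat 0, .ofNat 0, .ofNat 378, .ofNat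 2745, .ofNat 0, .ofNat 0, .ofNat 0, .ofNat 0, .ofNat 0, .ofNat 0, .ofNat 0, .ofNat 0, .ofNat 0, .ofNat 0, .ofNat 0, .ofNat 0, .ofNat 0, .ofNat 0, .ofNat 0, .ofNat 0⟩)
    (by decide +kernel)
theorem L00370 : Good (Phi V5.P V5.D (-1) 1) ⟨2, 1, 2, 0, 2, 3, 3, 1, 4, 1⟩ :=
  leafX_sound T5.ok_mp T5.Ymp.bz_eq (w := 201) (c := ⟨⟨.negSucc 153, .negSucc 652, .negSucc 279, .negSucc 169, .ofNat 114, .negSucc 985⟩, ⟨.negSucc 36, .ofNat 39, .negSucc 318, .ofNat 87, .ofNat 9, .negSucc 147⟩, ⟨.negSucc 221, .ofNat 621, .ofNat 247, .ofNat 33, .negSucc 209, .ofNat 691⟩, ⟨.negSucc 580, .negSucc 1032, .negSucc 421, .negSucc 595, .ofNat 261, .negSucc 2448⟩, ⟨.negSucc 1117, .negSucc 454, .negSucc 310, .ofNat 1646, .ofNat 29, .negSucc 309⟩, .ofNat 527, .negSucc 148, .ofNat 0, .negSucc 148, .ofNat 1414, .ofNat 0, .ofNat 357, .ofNat 37, .negSucc 103, .ofNat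 0, .ofNat 128, .negSucc 0, .ofNat 0, .ofNat 0, .ofNat 271, .ofNat 1289, .ofNat 0, .ofNat 0, .ofNat 0, .ofNat 0, .ofNat 0, .ofNat 0, .ofNat 0, .ofNat 0, .ofNat 0, .ofNat 0, .ofNat 0, .ofNat 0, .ofNat 0, .ofNat 0, .ofNat 0, .ofNat 0⟩)
    (by decide +kernel)
theorem L00371 : Good (Phi V5.P V5.D (-1) 1) ⟨2, 1, 2, 0, 2, 3, 2, 1, 4, 0⟩ :=
  leafX_sound T5.ok_mp T5.Ymp.bz_eq (w := 197) (c := ⟨⟨.ofNat 1787, .ofNat 355, .negSucc 180, .negSucc 796, .negSucc 179, .negSucc 1806⟩, ⟨.ofNat 201, .negSucc 91, .ofNat 116, .ofNat 32, .negSucc 11, .negSucc 315⟩, ⟨.negSucc 1023, .negSucc 171, .negSucc 31, .ofNat 796, .ofNat 84, .ofNat 647⟩, ⟨.ofNat 4513, .ofNat 492, .negSucc 384, .negSucc 2112, .negSucc 421, .negSucc 4226⟩, ⟨.ofNat 564, .negSucc 768, .negSucc 523, .ofNat 1984, .negSucc 316, .negSucc 1452⟩, .ofNat 525, .negSucc 131, .ofNat 0, .negSucc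 131, .ofNat 1423, .ofNat 0, .ofNat 296, .ofNat 88, .negSucc 147, .ofNat 0, .ofNat 128, .negSucc 0, .ofNat 0, .ofNat 0, .ofNat 279, .ofNat 467, .ofNat 0, .ofNat 0, .ofNat 0, .ofNat 0, .ofNat 0, .ofNat 0, .ofNat 0, .ofNat 0, .ofNat 0, .ofNat 0, .ofNat 0, .ofNat 0, .ofNat 0, .ofNat 0, .ofNat 0, .ofNat 0⟩)
    (by decide +kernel)
theorem L00372 : Good (Phi V5.P V5.D (-1) 1) ⟨2, 1, 2, 0, 2, 3, 2, 1, 4, 1⟩ :=
  leafX_sound T5.ok_mp T5.Ymp.bz_eq (w := 196) (c := ⟨⟨.negSucc 113, .negSucc 584, .negSucc 251, .negSucc 128, .ofNat 99, .negSucc 976⟩, ⟨.negSucc 12, .ofNat 57, .negSucc 316, .ofNat 0, .ofNat 1, .negSucc 130⟩, ⟨.negSucc 251, .ofNat 511, .ofNat 117, .ofNat 85, .negSucc 95, .ofNat 571⟩, ⟨.negSucc 537, .negSucc 886, .negSucc 341, .negSucc 399, .ofNat 284, .negSucc 2391⟩, ⟨.negSucc 787, .negSucc 315, .negSucc 242, .ofNat 542, .negSucc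 252, .negSucc 213⟩, .ofNat 520, .negSucc 137, .ofNat 0, .negSucc 137, .ofNat 1441, .ofNat 0, .ofNat 270, .ofNat 61, .negSucc 126, .ofNat 0, .ofNat 128, .ofNat 1, .ofNat 0, .ofNat 0, .ofNat 258, .ofNat 913, .ofNat 0, .ofNat 0, .ofNat 0, .ofNat 0, .ofNat 0, .ofNat 0, .ofNat 0, .ofNat 0, .ofNat 0, .ofNat 0, .ofNat 0, .ofNat 0, .ofNat 0, .ofNat 0, .ofNat 0, .ofNat 0⟩)
    (by decide +kernel)
theorem L00373 : Good (Phi V5.P V5.D (-1) 1) ⟨2, 1, 2, 0, 2, 2, 3, 0, 4, 2⟩ :=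
  leafX_sound T5.ok_mp T5.Ymp.bz_eq (w := 203) (c := ⟨⟨.negSucc 1306, .negSucc 661, .negSucc 120, .ofNat 8, .ofNat 22, .negSucc 183⟩, ⟨.negSucc 153, .ofNat 132, .negSucc 389, .negSucc 33, .negSucc 7, .ofNat 0⟩, ⟨.ofNat 525, .ofNat 829, .ofNat 308, .negSucc 78, .negSucc 201, .ofNat 395⟩, ⟨.negSucc 3586, .negSucc 816, .negSucc 31, .ofNat 53, .ofNat 23, .negSucc 522⟩, ⟨.negSucc 1169, .negSucc 126, .ofNat 7, .negSucc 358, .ofNat 135, .ofNat 228⟩, .ofNat 370, .negSucc 48, .ofNat 0, .negSucc 48, .ofNat 669, .ofNat 0, .ofNat 313, .ofNat 12, .negSucc 130, .ofNat 0, .ofNat 128, .ofNat 30, .ofNat 0, .ofNat 0, .ofNat 615, .ofNat 12444, .ofNat 17345431613425030669343744531466937171968, .ofNat 0, .ofNat 0, .ofNat 0, .ofNat 0, .ofNat 0, .ofNat 0, .ofNat 0, .ofNat 0, .ofNat 0, .ofNat 0, .ofNat 0, .ofNat 180243578529112228340698708319971101900800,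 .ofNat 0, .ofNat 0, .ofNat 0⟩)
    (by decide +kernel)
theorem L00374 : Good (Phi V5.P V5.D (-1) 1) ⟨2, 1, 2, 0, 2, 2, 3, 1, 4, 2⟩ :=
  leafX_sound T5.ok_mp T5.Ymp.bz_eq (w := 203) (c := ⟨⟨.negSucc 1302, .negSucc 644, .negSucc 109, .negSucc 10, .ofNat 58, .negSucc 173⟩, ⟨.negSucc 145, .ofNat 128, .negSucc 398, .negSucc 28, .ofNat 14, .negSucc 12⟩, ⟨.ofNat 488, .ofNat 723, .ofNat 221, .negSucc 144, .negSucc 133, .ofNat 369⟩, ⟨.negSucc 3621, .negSucc 740, .negSucc 29, .ofNat 23, .ofNat 114, .negSucc 473⟩, ⟨.negSucc 1017, .negSucc 75, .negSucc 14, .negSucc 375, .ofNat 121, .ofNat 214⟩, .ofNat 370, .negSucc 47, .ofNat 0, .negSucc 47, .ofNat 670, .ofNat 0, .ofNat 355, .ofNat 16, .negSucc 131, .ofNat 0, .ofNat 128, .ofNat 25, .ofNat 0, .ofNat 0, .ofNat 518, .ofNat 5359, .ofNat 0, .ofNat 0, .ofNat 0, .ofNat 0, .ofNat 0, .ofNat 0, .ofNat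 0, .ofNat 0, .ofNat 0, .ofNat 0, .ofNat 0, .ofNat 0, .ofNat 0, .ofNat 0, .ofNat 0, .ofNat 0⟩)
    (by decide +kernel)
theorem L00375 : Good (Phi V5.P V5.D (-1) 1) ⟨2, 1, 2, 0, 2, 2, 2, 1, 4, 2⟩ :=
  leafX_sound T5.ok_mp T5.Ymp.bz_eq (w := 198) (c := ⟨⟨.negSucc 1283, .negSucc 591, .negSucc 129, .negSucc 7, .ofNat 130, .negSucc 150⟩, ⟨.negSucc 144, .ofNat 124, .negSucc 377, .negSucc 20, .ofNat 30, .negSucc 5⟩, ⟨.ofNat 633, .ofNat 539, .ofNat 163, .negSucc 242, .negSucc 138, .ofNat 241⟩, ⟨.negSucc 3553, .negSucc 614, .negSucc 124, .ofNat 19, .ofNat 289, .negSucc 414⟩, ⟨.negSucc 894, .negSucc 6, .negSucc 19, .negSucc 412, .ofNat 228, .ofNat 174⟩, .ofNat 530, .negSucc 146, .ofNat 0, .negSucc 146, .ofNat 1404, .ofNat 0, .ofNat 223, .ofNat 58, .negSucc 79, .ofNat 0, .ofNat 128, .ofNat 3, .ofNat 0, .ofNat 0, .ofNat 318, .ofNat 1995, .ofNat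 0, .ofNat 0, .ofNat 0, .ofNat 0, .ofNat 0, .ofNat 0, .ofNat 0, .ofNat 0, .ofNat 0, .ofNat 0, .ofNat 0, .ofNat 0, .ofNat 0, .ofNat 0, .ofNat 0, .ofNat 0⟩)
    (by decide +kernel)
theorem L00376 : Good (Phi V5.P V5.D (-1) 1) ⟨2, 1, 2, 0, 2, 3, 4, 0, 4, 2⟩ :=
  leafX_sound T5.ok_mp T5.Ymp.bz_eq (w := 207) (c := ⟨⟨.negSucc 1347, .negSucc 678, .negSucc 132, .ofNat 138, .negSucc 1, .negSucc 94⟩, ⟨.negSucc 170, .ofNat 120, .negSucc 412, .ofNat 59, .ofNat 6, .negSucc 18⟩, ⟨.ofNat 839, .ofNat 858, .ofNat 237, .negSucc 438, .negSucc 157, .ofNat 241⟩, ⟨.negSucc 3710, .negSucc 749, .negSucc 82, .ofNat 233, .negSucc 36, .negSucc 216⟩, ⟨.negSucc 1314, .negSucc 147, .negSucc 179, .ofNat 682, .ofNat 109, .negSucc 100⟩, .ofNat 577, .negSucc 205, .ofNat 0, .negSucc 205, .ofNat 1936, .ofNat 0, .ofNat 470, .ofNat 27, .negSucc 158, .ofNat 0, .ofNat 128,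 .negSucc 0, .ofNat 0, .ofNat 0, .ofNat 792, .ofNat 10986, .ofNat 166361479136942588307096677903566691631104, .ofNat 0, .ofNat 0, .ofNat 0, .ofNat 0, .ofNat 0, .ofNat 0, .ofNat 0, .ofNat 0, .ofNat 0, .ofNat 0, .ofNat 0, .ofNat 0, .ofNat 0, .ofNat 0, .ofNat 0⟩)
    (by decide +kernel)
theorem L00377 : Good (Phi V5.P V5.D (-1) 1) ⟨2, 1, 2, 0, 2, 3, 4, 1, 4, 2⟩ :=
  leafX_sound T5.ok_mp T5.Ymp.bz_eq (w := 207) (c := ⟨⟨.negSucc 1325, .negSucc 687, .negSucc 130, .ofNat 102, .negSucc 4, .negSucc 70⟩, ⟨.negSucc 167, .ofNat 117, .negSucc 403, .ofNat 61, .ofNat 6, .negSucc 28⟩, ⟨.ofNat 698, .ofNat 751, .ofNat 163, .negSucc 364, .negSucc 108, .ofNat 255⟩, ⟨.negSucc 3671, .negSucc 801, .negSucc 38, .ofNat 154, .negSucc 14, .negSucc 196⟩, ⟨.negSucc 1258, .negSucc 67, .negSucc 230, .ofNat 672, .ofNat 134, .negSucc 193⟩, .ofNat 592, .negSucc 224,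 .ofNat 0, .negSucc 224, .ofNat 1882, .ofNat 0, .ofNat 433, .ofNat 38, .negSucc 135, .ofNat 0, .ofNat 128, .negSucc 0, .ofNat 0, .ofNat 0, .ofNat 625, .ofNat 6547, .ofNat 0, .ofNat 0, .ofNat 0, .ofNat 0, .ofNat 0, .ofNat 0, .ofNat 0, .ofNat 0, .ofNat 0, .ofNat 0, .ofNat 0, .ofNat 0, .ofNat 0, .ofNat 0, .ofNat 0, .ofNat 0⟩)
    (by decide +kernel)
theorem L00378 : Good (Phi V5.P V5.D (-1) 1) ⟨2, 1, 2, 0, 2, 3, 3, 1, 4, 2⟩ :=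
  leafX_sound T5.ok_mp T5.Ymp.bz_eq (w := 201) (c := ⟨⟨.negSucc 1356, .negSucc 607, .negSucc 143, .ofNat 126, .ofNat 59, .negSucc 103⟩, ⟨.negSucc 169, .ofNat 124, .negSucc 402, .ofNat 40, .ofNat 10, .negSucc 14⟩, ⟨.ofNat 633, .ofNat 618, .ofNat 163, .negSucc 246, .negSucc 156, .ofNat 193⟩, ⟨.negSucc 3757, .negSucc 643, .negSucc 97, .ofNat 268, .ofNat 158, .negSucc 257⟩, ⟨.negSucc 1045, .negSucc 170, .negSucc 161, .ofNat 338, .negSucc 51, .negSucc 63⟩, .ofNat 528, .negSucc 151, .ofNat 0, .negSucc 151, .ofNat 1457, .ofNat 0, .ofNat 266, .ofNat 27, .negSucc 121, .ofNat 0, .ofNat 128, .ofNat 2, .ofNat 0, .ofNat 0, .ofNat 430, .ofNat 2088, .ofNat 0, .ofNat 0, .ofNat 0, .ofNat 0, .ofNat 0, .ofNat 0, .ofNat 0, .ofNat 0, .ofNat 0, .ofNat 0, .ofNat 0, .ofNat 0, .ofNat 0, .ofNat 0, .ofNat 0, .ofNat 0⟩)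
    (by decide +kernel)
theorem L00379 : Good (Phi V5.P V5.D (-1) 1) ⟨2, 1, 2, 0, 2, 3, 2, 1, 4, 2⟩ :=
  leafX_sound T5.ok_mp T5.Ymp.bz_eq (w := 198) (c := ⟨⟨.negSucc 1396, .negSucc 517, .negSucc 143, .ofNat 139, .ofNat 171, .negSucc 63⟩, ⟨.negSucc 175, .ofNat 129, .negSucc 382, .ofNat 14, .ofNat 24, .negSucc 2⟩, ⟨.ofNat 655, .ofNat 421, .ofNat 86, .negSucc 216, .negSucc 212, .ofNat 125⟩, ⟨.negSucc 3820, .negSucc 468, .negSucc 106, .ofNat 341, .ofNat 401, .negSucc 176⟩, ⟨.negSucc 899, .negSucc 198, .negSucc 211, .negSucc 73, .ofNat 9, .ofNat 18⟩, .ofNat 514, .negSucc 141, .ofNat 0, .negSucc 141, .ofNat 1457, .ofNat 0, .ofNat 430, .ofNat 45, .negSucc 147, .ofNat 0, .ofNat 128, .ofNat 4, .ofNat 0, .ofNat 0, .ofNat 443, .ofNat 1601, .ofNat 0, .ofNat 0, .ofNat 0, .ofNat 0, .ofNat 0, .ofNat 0, .ofNat 0, .ofNat 0, .ofNat 0, .ofNat 0, .ofNat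 0, .ofNat 0, .ofNat 0, .ofNat 0, .ofNat 0, .ofNat 0⟩)
    (by decide +kernel)
theorem L00380 : Good (Phi V5.P V5.D (-1) 1) ⟨2, 1, 2, 0, 2, 2, 2, 0, 4, 3⟩ :=
  leafX_sound T5.ok_mp T5.Ymp.bz_eq (w := 200) (c := ⟨⟨.negSucc 1595, .negSucc 539, .negSucc 89, .ofNat 26, .ofNat 75, .ofNat 137⟩, ⟨.negSucc 178, .ofNat 149, .negSucc 388, .negSucc 25, .ofNat 28, .ofNat 18⟩, ⟨.ofNat 1117, .ofNat 667, .ofNat 234, .negSucc 183, .negSucc 346, .ofNat 138⟩, ⟨.negSucc 4347, .negSucc 453, .negSucc 26, .ofNat 120, .ofNat 152, .ofNat 294⟩, ⟨.negSucc 926, .negSucc 34, .ofNat 11, .negSucc 385, .ofNat 201, .ofNat 148⟩, .ofNat 368, .negSucc 48, .ofNat 0, .negSucc 48, .ofNat 671, .ofNat 0, .ofNat 340, .ofNat 17, .negSucc 180, .ofNat 0, .ofNat 128, .ofNat 42, .ofNat 0, .ofNat 0, .ofNat 997, .ofNat 10379, .ofNat 0, .ofNat 0, .ofNat 0, .ofNat 0, .ofNat 0, .ofNat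 0, .ofNat 0, .ofNat 0, .ofNat 0, .ofNat 0, .ofNat 0, .ofNat 0, .ofNat 59336870345917765004930819684617253027840, .ofNat 0, .ofNat 0, .ofNat 0⟩)
    (by decide +kernel)
theorem L00381 : Good (Phi V5.P V5.D (-1) 1) ⟨2, 1, 2, 0, 2, 2, 2, 1, 4, 3⟩ :=
  leafX_sound T5.ok_mp T5.Ymp.bz_eq (w := 199) (c := ⟨⟨.negSucc 1573, .negSucc 448, .negSucc 81, .ofNat 19, .ofNat 164, .ofNat 126⟩, ⟨.negSucc 164, .ofNat 132, .negSucc 364, .negSucc 24, .ofNat 40, .ofNat 24⟩, ⟨.ofNat 1073, .ofNat 393, .ofNat 143, .negSucc 277, .negSucc 263, .ofNat 47⟩, ⟨.negSucc 4280, .negSucc 292, .negSucc 40, .ofNat 103, .ofNat 369, .ofNat 279⟩, ⟨.negSucc 723, .negSucc 9, .negSucc 19, .negSucc 374, .ofNat 208, .ofNat 146⟩, .ofNat 366, .negSucc 49, .ofNat 0, .negSucc 49, .ofNat 672, .ofNat 0, .ofNat 490, .ofNat 24, .negSucc 195, .ofNat 0, .ofNat 128, .ofNat 31, .ofNat 0,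 .ofNat 0, .ofNat 886, .ofNat 3794, .ofNat 0, .ofNat 0, .ofNat 0, .ofNat 0, .ofNat 0, .ofNat 0, .ofNat 0, .ofNat 0, .ofNat 0, .ofNat 0, .ofNat 0, .ofNat 0, .ofNat 0, .ofNat 0, .ofNat 0, .ofNat 0⟩)
    (by decide +kernel)
theorem L00382 : Good (Phi V5.P V5.D (-1) 1) ⟨2, 1, 2, 0, 3, 6, 2, 0, 4, 3⟩ :=
  leafX_sound T5.ok_mp T5.Ymp.bz_eq (w := 213) (c := ⟨⟨.negSucc 1644, .negSucc 448, .negSucc 106, .ofNat 136, .ofNat 97, .ofNat 176⟩, ⟨.negSucc 208, .ofNat 141, .negSucc 376, .negSucc 4, .ofNat 24, .ofNat 39⟩, ⟨.ofNat 1225, .ofNat 573, .ofNat 215, .negSucc 97, .negSucc 561, .negSucc 23⟩, ⟨.negSucc 4431, .negSucc 268, .negSucc 5, .ofNat 348, .ofNat 198, .ofNat 401⟩, ⟨.negSucc 1130, .negSucc 141, .negSucc 88, .negSucc 81, .ofNat 138, .ofNat 54⟩, .ofNat 519, .negSucc 133, .ofNat 0, .negSucc 133, .ofNat 1436, .ofNat 0, .ofNat 343, .ofNat 26,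 .negSucc 127, .ofNat 0, .ofNat 128, .ofNat 11, .ofNat 0, .ofNat 0, .ofNat 809, .ofNat 6766, .ofNat 764004259375923869992107815721546121478144, .ofNat 0, .ofNat 0, .ofNat 0, .ofNat 0, .ofNat 0, .ofNat 0, .ofNat 0, .ofNat 0, .ofNat 0, .ofNat 0, .ofNat 0, .ofNat 133349248800408282081521058455906708967391232, .ofNat 0, .ofNat 0, .ofNat 0⟩)
    (by decide +kernel)
theorem L00383 : Good (Phi V5.P V5.D (-1) 1) ⟨2, 1, 2, 0, 3, 7, 2, 0, 4, 3⟩ :=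
  leafX_sound T5.ok_mp T5.Ymp.bz_eq (w := 212) (c := ⟨⟨.negSucc 1566, .negSucc 370, .negSucc 78, .ofNat 109, .ofNat 95, .ofNat 199⟩, ⟨.negSucc 189, .ofNat 136, .negSucc 371, .ofNat 15, .ofNat 12, .ofNat 29⟩, ⟨.ofNat 1207, .ofNat 388, .ofNat 67, .negSucc 390, .negSucc 466, .ofNat 37⟩, ⟨.negSucc 4219, .negSucc 141, .ofNat 74, .ofNat 251, .ofNat 192, .ofNat 495⟩, ⟨.negSucc 989, .negSucc 232, .negSucc 219, .ofNat 88, .ofNat 25, .negSucc 51⟩, .ofNat 530, .negSucc 170, .ofNat 0, .negSucc 170, .ofNat 1404, .ofNat 0, .ofNat 402, .ofNat 30, .negSucc 125, .ofNat 0, .ofNat 128, .ofNat 6, .ofNat 0, .ofNat 0, .ofNat 898, .ofNat 3378, .ofNat 0, .ofNat 0, .ofNat 0, .ofNat 0, .ofNat 0, .ofNat 0, .ofNat 0, .ofNat 0, .ofNat 0, .ofNat 0, .ofNat 0, .ofNat 0, .ofNat 0, .ofNat 0, .ofNat 0, .ofNat 0⟩)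
    (by decide +kernel)
theorem L00384 : Good (Phi V5.P V5.D (-1) 1) ⟨2, 1, 2, 0, 3, 6, 2, 1, 4, 3⟩ :=
  leafX_sound T5.ok_mp T5.Ymp.bz_eq (w := 213) (c := ⟨⟨.negSucc 1608, .negSucc 370, .negSucc 97, .ofNat 166, .ofNat 128, .ofNat 190⟩, ⟨.negSucc 193, .ofNat 124, .negSucc 358, .ofNat 3, .ofNat 41, .ofNat 38⟩, ⟨.ofNat 939, .ofNat 295, .ofNat 117, .negSucc 223, .negSucc 249, .negSucc 42⟩, ⟨.negSucc 4295, .negSucc 123, .negSucc 17, .ofNat 394, .ofNat 260, .ofNat 411⟩, ⟨.negSucc 1065, .negSucc 138, .negSucc 102, .negSucc 74, .ofNat 299, .ofNat 153⟩, .ofNat 527, .negSucc 154, .ofNat 0, .negSucc 154, .ofNat 1424, .ofNat 0, .ofNat 396, .ofNat 46, .negSucc 140, .ofNat 0, .ofNat 128, .ofNat 8, .ofNat 0, .ofNat 0, .ofNat 791, .ofNat 4628, .ofNat 0, .ofNat 0, .ofNat 0, .ofNat 0, .ofNat 0, .ofNat 0, .ofNat 0, .ofNat 0, .ofNat 0, .ofNat 0, .ofNat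 0, .ofNat 0, .ofNat 0, .ofNat 0, .ofNat 0, .ofNat 0⟩)
    (by decide +kernel)
theorem L00385 : Good (Phi V5.P V5.D (-1) 1) ⟨2, 1, 2, 0, 3, 7, 2, 1, 4, 3⟩ :=
  leafX_sound T5.ok_mp T5.Ymp.bz_eq (w := 213) (c := ⟨⟨.negSucc 1577, .negSucc 261, .negSucc 77, .ofNat 149, .ofNat 143, .ofNat 224⟩, ⟨.negSucc 187, .ofNat 125, .negSucc 351, .ofNat 16, .ofNat 34, .ofNat 33⟩, ⟨.ofNat 943, .ofNat 154, .ofNat 30, .negSucc 291, .negSucc 224, .negSucc 60⟩, ⟨.negSucc 4213, .ofNat 99, .ofNat 72, .ofNat 347, .ofNat 296, .ofNat 510⟩, ⟨.negSucc 859, .negSucc 336, .negSucc 329, .negSucc 18, .ofNat 214, .ofNat 83⟩, .ofNat 528, .negSucc 159, .ofNat 0, .negSucc 159, .ofNat 1420, .ofNat 0, .ofNat 378, .ofNat 39, .negSucc 136, .ofNat 0, .ofNat 128, .ofNat 9, .ofNat 0, .ofNat 0, .ofNat 892, .ofNat 3376, .ofNat 0, .ofNat 0, .ofNat 0, .ofNat 0, .ofNat 0, .ofNat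 0, .ofNat 0, .ofNat 0, .ofNat 0, .ofNat 0, .ofNat 0, .ofNat 0, .ofNat 0, .ofNat 0, .ofNat 0, .ofNat 0⟩)
    (by decide +kernel)
theorem L00386 : Good (Phi V5.P V5.D (-1) 1) ⟨2, 1, 2, 0, 2, 2, 2, 0, 4, 4⟩ :=
  leafX_sound T5.ok_mp T5.Ymp.bz_eq (w := 201) (c := ⟨⟨.negSucc 1628, .negSucc 424, .negSucc 31, .ofNat 97, .ofNat 137, .ofNat 156⟩, ⟨.negSucc 175, .ofNat 138, .negSucc 351, .negSucc 27, .ofNat 34, .ofNat 32⟩, ⟨.ofNat 1617, .ofNat 518, .ofNat 129, .negSucc 326, .negSucc 530, .ofNat 70⟩, ⟨.negSucc 4386, .negSucc 243, .ofNat 54, .ofNat 271, .ofNat 302, .ofNat 374⟩, ⟨.negSucc 748, .negSucc 15, .negSucc 6, .negSucc 373, .ofNat 157, .ofNat 131⟩, .ofNat 369, .negSucc 51, .ofNat 0, .negSucc 51, .ofNat 671, .ofNat 0, .ofNat 421, .ofNat 21, .negSucc 139, .ofNat 0, .ofNat 128, .ofNat 37, .ofNat 0, .ofNat 0, .ofNat 1204, .ofNat 19041, .ofNat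 0, .ofNat 0, .ofNat 0, .ofNat 0, .ofNat 42620135687790164813337595801461665562624, .ofNat 0, .ofNat 0, .ofNat 0, .ofNat 9998857206646680021118481108041577005056, .ofNat 0, .ofNat 0, .ofNat 0, .ofNat 112970555652053987308413251268550506577920, .ofNat 0, .ofNat 0, .ofNat 0⟩)
    (by decide +kernel)
theorem L00387 : Good (Phi V5.P V5.D (-1) 1) ⟨2, 1, 2, 0, 2, 2, 2, 1, 4, 4⟩ :=
  leafX_sound T5.ok_mp T5.Ymp.bz_eq (w := 199) (c := ⟨⟨.negSucc 1511, .negSucc 368, .negSucc 58, .ofNat 82, .ofNat 121, .ofNat 176⟩, ⟨.negSucc 141, .ofNat 130, .negSucc 339, .negSucc 12, .ofNat 19, .ofNat 20⟩, ⟨.ofNat 1185, .ofNat 347, .ofNat 145, .negSucc 323, .negSucc 291, .ofNat 25⟩, ⟨.negSucc 4108, .negSucc 142, .negSucc 4, .ofNat 238, .ofNat 264, .ofNat 406⟩, ⟨.negSucc 632, .negSucc 18, .ofNat 4, .negSucc 311, .ofNat 218, .ofNat 133⟩, .ofNat 368, .negSucc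 46, .ofNat 0, .negSucc 46, .ofNat 672, .ofNat 0, .ofNat 320, .ofNat 21, .negSucc 109, .ofNat 0, .ofNat 128, .ofNat 21, .ofNat 0, .ofNat 0, .ofNat 835, .ofNat 5298, .ofNat 0, .ofNat 0, .ofNat 0, .ofNat 0, .ofNat 0, .ofNat 0, .ofNat 0, .ofNat 0, .ofNat 0, .ofNat 0, .ofNat 0, .ofNat 0, .ofNat 0, .ofNat 0, .ofNat 0, .ofNat 0⟩)
    (by decide +kernel)
theorem L00388 : Good (Phi V5.P V5.D (-1) 1) ⟨2, 1, 2, 0, 2, 3, 2, 0, 4, 4⟩ :=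
  leafX_sound T5.ok_mp T5.Ymp.bz_eq (w := 198) (c := ⟨⟨.negSucc 1573, .negSucc 302, .negSucc 58, .ofNat 291, .ofNat 93, .ofNat 217⟩, ⟨.negSucc 195, .ofNat 138, .negSucc 334, .ofNat 4, .ofNat 27, .ofNat 29⟩, ⟨.ofNat 1437, .ofNat 354, .ofNat 149, .negSucc 621, .negSucc 472, .negSucc 43⟩, ⟨.negSucc 4161, .negSucc 23, .ofNat 76, .ofNat 696, .ofNat 168, .ofNat 473⟩, ⟨.negSucc 1110, .negSucc 108, .negSucc 107, .negSucc 161, .ofNat 199, .ofNat 170⟩, .ofNat 525, .negSucc 146, .ofNat 0, .negSucc 146, .ofNat 1429, .ofNat 0, .ofNat 227, .ofNat 30, .negSucc 44, .ofNat 0, .ofNat 128, .ofNat 6, .ofNat 0, .ofNat 0, .ofNat 662, .ofNat 2772, .ofNat 0, .ofNat 0, .ofNat 0, .ofNat 0, .ofNat 0, .ofNat 0, .ofNat 0, .ofNat 0, .ofNat 0, .ofNat 0, .ofNat 0, .ofNat 0, .ofNat 3228239260134272039779562501151758745600, .ofNat 0, .ofNat 0, .ofNat 0⟩)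
    (by decide +kernel)
theorem L00389 : Good (Phi V5.P V5.D (-1) 1) ⟨2, 1, 2, 0, 2, 3, 2, 1, 4, 4⟩ :=
  leafX_sound T5.ok_mp T5.Ymp.bz_eq (w := 198) (c := ⟨⟨.negSucc 1478, .negSucc 282, .negSucc 61, .ofNat 268, .ofNat 117, .ofNat 207⟩, ⟨.negSucc 170, .ofNat 124, .negSucc 322, .ofNat 21, .ofNat 30, .ofNat 32⟩, ⟨.ofNat 968, .ofNat 247, .ofNat 97, .negSucc 420, .negSucc 247, .negSucc 87⟩, ⟨.negSucc 3988, .ofNat 46, .ofNat 57, .ofNat 666, .ofNat 235, .ofNat 463⟩, ⟨.negSucc 866, .negSucc 172, .negSucc 148, .negSucc 179, .ofNat 363, .ofNat 131⟩, .ofNat 524, .negSucc 136, .ofNat 0, .negSucc 136, .ofNat 1421, .ofNat 0, .ofNat 280, .ofNat 34, .negSucc 57, .ofNat 0, .ofNat 128, .ofNat 7, .ofNat 0, .ofNat 0, .ofNat 830, .ofNat 1644, .ofNat 0, .ofNat 0, .ofNat 0, .ofNat 0, .ofNat 0, .ofNat 362365259873941512156404791510946545664, .ofNat 0, .ofNat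 0, .ofNat 0, .ofNat 0, .ofNat 0, .ofNat 0, .ofNat 0, .ofNat 776381266580053345507466729019444035584, .ofNat 0, .ofNat 0⟩)
    (by decide +kernel)
theorem L00390 : Good (Phi V5.P V5.D (-1) 1) ⟨2, 1, 2, 0, 2, 2, 2, 0, 4, 5⟩ :=
  leafX_sound T5.ok_mp T5.Ymp.bz_eq (w := 202) (c := ⟨⟨.negSucc 1573, .negSucc 303, .negSucc 35, .ofNat 177, .ofNat 128, .ofNat 158⟩, ⟨.negSucc 206, .ofNat 133, .negSucc 313, .negSucc 9, .ofNat 70, .ofNat 37⟩, ⟨.ofNat 1982, .ofNat 358, .ofNat 143, .negSucc 449, .negSucc 681, .ofNat 106⟩, ⟨.negSucc 4194, .negSucc 33, .ofNat 56, .ofNat 436, .ofNat 267, .ofNat 395⟩, ⟨.negSucc 599, .negSucc 49, .negSucc 0, .negSucc 320, .ofNat 111, .ofNat 157⟩, .ofNat 369, .negSucc 48, .ofNat 0, .negSucc 48, .ofNat 669, .ofNat 0, .ofNat 323, .ofNat 17, .negSucc 80, .ofNat 0, .ofNat 128, .ofNat 29, .ofNat 0, .ofNat 0, .ofNat 1256,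 .ofNat 45796, .ofNat 8953509220338541510613231269377910767616, .ofNat 0, .ofNat 0, .ofNat 0, .ofNat 149338423606179907447000019106587815706624, .ofNat 0, .ofNat 0, .ofNat 0, .ofNat 43552298531996179822871243257892546019328, .ofNat 0, .ofNat 0, .ofNat 0, .ofNat 195842722424514682141853627194146841165824, .ofNat 0, .ofNat 0, .ofNat 0⟩)
    (by decide +kernel)
theorem L00391 : Good (Phi V5.P V5.D (-1) 1) ⟨2, 1, 2, 0, 2, 3, 2, 0, 4, 5⟩ :=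
  leafX_sound T5.ok_mp T5.Ymp.bz_eq (w := 197) (c := ⟨⟨.negSucc 1354, .negSucc 263, .negSucc 45, .ofNat 269, .ofNat 45, .ofNat 192⟩, ⟨.negSucc 183, .ofNat 123, .negSucc 298, .ofNat 16, .ofNat 34, .ofNat 28⟩, ⟨.ofNat 1429, .ofNat 315, .ofNat 134, .negSucc 492, .negSucc 480, .ofNat 14⟩, ⟨.negSucc 3689, .ofNat 34, .ofNat 82, .ofNat 688, .ofNat 122, .ofNat 432⟩, ⟨.negSucc 983, .negSucc 97, .negSucc 51, .negSucc 253, .ofNat 243, .ofNat 151⟩, .ofNat 370, .negSucc 49, .ofNat 0, .negSucc 49, .ofNat 669, .ofNat 0, .ofNat 226, .ofNat 11, .negSucc 29, .ofNat 0, .ofNat 128, .ofNat 16, .ofNat 0, .ofNat 0, .ofNat 802, .ofNat 1886, .ofNat 0, .ofNat 0, .ofNat 0, .ofNat 0, .ofNat 0, .ofNat 0, .ofNat 0, .ofNat 0, .ofNat 0, .ofNat 0, .ofNat 0, .ofNat 0, .ofNat 40826054043245063701142101542841471729664, .ofNat 1176136607571101904143525865709480443904,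 .ofNat 0, .ofNat 0⟩)
    (by decide +kernel)
theorem L00392 : Good (Phi V5.P V5.D (-1) 1) ⟨2, 1, 2, 0, 3, 4, 4, 4, 4, 5⟩ :=
  leafX_sound T5.ok_mp T5.Ymp.bz_eq (w := 225) (c := ⟨⟨.negSucc 1374, .negSucc 338, .negSucc 47, .ofNat 33, .ofNat 34, .ofNat 158⟩, ⟨.negSucc 126, .ofNat 124, .negSucc 315, .negSucc 10, .ofNat 5, .ofNat 25⟩, ⟨.ofNat 1283, .ofNat 374, .ofNat 122, .negSucc 181, .negSucc 123, .ofNat 60⟩, ⟨.negSucc 3765, .negSucc 84, .ofNat 5, .ofNat 91, .ofNat 72, .ofNat 379⟩, ⟨.negSucc 512, .ofNat 0, .ofNat 8, .negSucc 152, .ofNat 34, .ofNat 105⟩, .ofNat 369, .negSucc 50, .ofNat 0, .negSucc 50, .ofNat 679, .ofNat 0, .ofNat 343, .ofNat 24, .negSucc 55, .ofNat 0, .ofNat 128, .ofNat 14, .ofNat 0, .ofNat 0, .ofNat 772, .ofNat 68934, .ofNat 2032309643884957863958689036884673328295444480, .ofNat 0, .ofNat 0, .ofNat 0, .ofNat 0, .ofNat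 0, .ofNat 0, .ofNat 0, .ofNat 5759913899676900619148185815204130695264862208, .ofNat 0, .ofNat 0, .ofNat 0, .ofNat 27661738571404850158605039180462538274696593408, .ofNat 0, .ofNat 0, .ofNat 0⟩)
    (by decide +kernel)
theorem L00393 : Good (Phi V5.P V5.D (-1) 1) ⟨2, 1, 2, 0, 3, 4, 4, 5, 4, 5⟩ :=
  leafX_sound T5.ok_mp T5.Ymp.bz_eq (w := 224) (c := ⟨⟨.negSucc 1355, .negSucc 317, .negSucc 33, .ofNat 29, .ofNat 35, .ofNat 152⟩, ⟨.negSucc 123, .ofNat 125, .negSucc 303, .negSucc 14, .ofNat 4, .ofNat 25⟩, ⟨.ofNat 1219, .ofNat 296, .ofNat 77, .negSucc 165, .negSucc 98, .ofNat 36⟩, ⟨.negSucc 3707, .negSucc 47, .ofNat 17, .ofNat 78, .ofNat 75, .ofNat 359⟩, ⟨.negSucc 491, .negSucc 1, .ofNat 9, .negSucc 125, .ofNat 41, .ofNat 97⟩, .ofNat 367, .negSucc 43, .ofNat 0, .negSucc 43, .ofNat 674, .ofNat 0, .ofNat 216, .ofNat 21, .negSucc 52, .ofNat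 0, .ofNat 128, .ofNat 11, .ofNat 0, .ofNat 0, .ofNat 686, .ofNat 29786, .ofNat 394296084222502965284113853976771569976868864, .ofNat 0, .ofNat 0, .ofNat 0, .ofNat 0, .ofNat 0, .ofNat 0, .ofNat 0, .ofNat 0, .ofNat 0, .ofNat 0, .ofNat 0, .ofNat 0, .ofNat 0, .ofNat 0, .ofNat 0⟩)
    (by decide +kernel)
theorem L00394 : Good (Phi V5.P V5.D (-1) 1) ⟨2, 1, 2, 0, 3, 4, 3, 3, 4, 5⟩ :=
  leafX_sound T5.ok_mp T5.Ymp.bz_eq (w := 219) (c := ⟨⟨.negSucc 1327, .negSucc 295, .negSucc 28, .ofNat 29, .ofNat 65, .ofNat 136⟩, ⟨.negSucc 126, .ofNat 118, .negSucc 292, .negSucc 6, .ofNat 12, .ofNat 22⟩, ⟨.ofNat 1172, .ofNat 222, .ofNat 26, .negSucc 162, .negSucc 166, .ofNat 25⟩, ⟨.negSucc 3641, .negSucc 12, .ofNat 20, .ofNat 75, .ofNat 148, .ofNat 326⟩, ⟨.negSucc 474, .ofNat 9, .ofNat 4, .negSucc 90, .ofNat 98, .ofNat 91⟩, .ofNat 370, .negSucc 51, .ofNat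 0, .negSucc 51, .ofNat 667, .ofNat 0, .ofNat 425, .ofNat 26, .negSucc 82, .ofNat 0, .ofNat 128, .ofNat 11, .ofNat 0, .ofNat 0, .ofNat 1006, .ofNat 14433, .ofNat 0, .ofNat 0, .ofNat 0, .ofNat 0, .ofNat 0, .ofNat 0, .ofNat 0, .ofNat 0, .ofNat 0, .ofNat 0, .ofNat 0, .ofNat 0, .ofNat 0, .ofNat 0, .ofNat 0, .ofNat 0⟩)
    (by decide +kernel)
theorem L00395 : Good (Phi V5.P V5.D (-1) 1) ⟨2, 1, 2, 0, 3, 5, 2, 1, 4, 5⟩ :=
  leafX_sound T5.ok_mp T5.Ymp.bz_eq (w := 213) (c := ⟨⟨.negSucc 1379, .negSucc 269, .negSucc 20, .ofNat 83, .ofNat 108, .ofNat 162⟩, ⟨.negSucc 144, .ofNat 123, .negSucc 298, .negSucc 4, .ofNat 33, .ofNat 25⟩, ⟨.ofNat 1208, .ofNat 169, .ofNat 42, .negSucc 198, .negSucc 341, .ofNat 17⟩, ⟨.negSucc 3739, .ofNat 40, .ofNat 57, .ofNat 205, .ofNat 246, .ofNat 378⟩, ⟨.negSucc 690, .negSucc 38, .negSucc 18, .negSucc 75, .ofNat 271,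 .ofNat 123⟩, .ofNat 368, .negSucc 45, .ofNat 0, .negSucc 45, .ofNat 673, .ofNat 0, .ofNat 241, .ofNat 18, .negSucc 39, .ofNat 0, .ofNat 128, .ofNat 10, .ofNat 0, .ofNat 0, .ofNat 855, .ofNat 5534, .ofNat 0, .ofNat 0, .ofNat 0, .ofNat 0, .ofNat 0, .ofNat 0, .ofNat 0, .ofNat 0, .ofNat 0, .ofNat 0, .ofNat 0, .ofNat 0, .ofNat 0, .ofNat 1755974937381272315468109033393335878811648, .ofNat 0, .ofNat 0⟩)
    (by decide +kernel)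
theorem L00396 : Good (Phi V5.P V5.D (-1) 1) ⟨2, 1, 2, 0, 2, 3, 2, 1, 4, 5⟩ :=
  leafX_sound T5.ok_mp T5.Ymp.bz_eq (w := 198) (c := ⟨⟨.negSucc 1308, .negSucc 227, .negSucc 39, .ofNat 242, .ofNat 114, .ofNat 164⟩, ⟨.negSucc 155, .ofNat 133, .negSucc 303, .ofNat 27, .ofNat 38, .ofNat 35⟩, ⟨.ofNat 1027, .ofNat 135, .ofNat 118, .negSucc 484, .negSucc 428, .ofNat 7⟩, ⟨.negSucc 3558, .ofNat 119, .ofNat 57, .ofNat 619, .ofNat 225, .ofNat 384⟩, ⟨.negSucc 752, .negSucc 90, .negSucc 38, .negSucc 214, .ofNat 332, .ofNat 122⟩, .ofNat 528, .negSucc 144, .ofNat 0, .negSucc 144, .ofNat 1412, .ofNat 0, .ofNat 252, .ofNat 38, .negSucc 17, .ofNat 0, .ofNat 128, .ofNat 5, .ofNat 0, .ofNat 0, .ofNat 793, .ofNat 2082, .ofNat 0, .ofNat 0, .ofNat 0, .ofNat 0, .ofNat 0, .ofNat 822574855339444706839842535506339430400, .ofNat 0, .ofNat 0, .ofNat 0, .ofNat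 424317060080993439501863436077336887296, .ofNat 0, .ofNat 0, .ofNat 0, .ofNat 1351253390196335355424907257931848744960, .ofNat 0, .ofNat 0⟩)
    (by decide +kernel)
theorem L00397 : Good (Phi V5.P V5.D (-1) 1) ⟨2, 1, 2, 0, 2, 2, 1, 0, 4, 6⟩ :=
  leafX_sound T5.ok_mp T5.Ymp.bz_eq (w := 194) (c := ⟨⟨.negSucc 1388, .negSucc 227, .negSucc 25, .ofNat 111, .ofNat 214, .ofNat 115⟩, ⟨.negSucc 171, .ofNat 102, .negSucc 263, .ofNat 13, .ofNat 67, .ofNat 28⟩, ⟨.ofNat 1918, .ofNat 111, .ofNat 14, .negSucc 362, .negSucc 836, .ofNat 36⟩, ⟨.negSucc 3681, .ofNat 89, .ofNat 27, .ofNat 276, .ofNat 431, .ofNat 271⟩, ⟨.negSucc 854, .ofNat 54, .ofNat 0, .negSucc 76, .ofNat 536, .ofNat 41⟩, .ofNat 622, .negSucc 267, .ofNat 0, .negSucc 267, .ofNat 2370, .ofNat 0, .ofNat 278, .ofNat 66, .negSucc 20, .ofNat 0, .ofNat 128, .negSucc 0, .ofNat 0, .ofNat 0, .ofNat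 1000, .ofNat 2032, .ofNat 103522025555982754234085345984436502528, .ofNat 0, .ofNat 0, .ofNat 0, .ofNat 0, .ofNat 0, .ofNat 0, .ofNat 0, .ofNat 0, .ofNat 0, .ofNat 0, .ofNat 0, .ofNat 7680148233451208452389018602954161127424, .ofNat 447458365761560113042306246424683085824, .ofNat 0, .ofNat 0⟩)
    (by decide +kernel)
theorem L00398 : Good (Phi V5.P V5.D (-1) 1) ⟨2, 1, 2, 0, 2, 3, 1, 0, 4, 6⟩ :=
  leafX_sound T5.ok_mp T5.Ymp.bz_eq (w := 194) (c := ⟨⟨.negSucc 1236, .negSucc 204, .negSucc 25, .ofNat 196, .ofNat 165, .ofNat 145⟩, ⟨.negSucc 153, .ofNat 116, .negSucc 268, .ofNat 10, .ofNat 55, .ofNat 27⟩, ⟨.ofNat 1675, .ofNat 69, .ofNat 94, .negSucc 357, .negSucc 1130, .negSucc 140⟩, ⟨.negSucc 3318, .ofNat 121, .ofNat 74, .ofNat 513, .ofNat 317, .ofNat 335⟩, ⟨.negSucc 902, .negSucc 56, .negSucc 17, .negSucc 160, .ofNat 545, .ofNat 110⟩,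 .ofNat 366, .negSucc 47, .ofNat 0, .negSucc 47, .ofNat 676, .ofNat 0, .ofNat 153, .ofNat 15, .negSucc 10, .ofNat 0, .ofNat 128, .ofNat 13, .ofNat 0, .ofNat 0, .ofNat 1224, .ofNat 2859, .ofNat 0, .ofNat 0, .ofNat 0, .ofNat 0, .ofNat 1972699040295652911802332846895742844928, .ofNat 373785846030470166133350712157652647936, .ofNat 0, .ofNat 0, .ofNat 1417324927312880600870356605883639660544, .ofNat 398283337781744685967733796700441018368, .ofNat 0, .ofNat 0, .ofNat 25295402382522261577689180559437285294080, .ofNat 3791200371507200260121367797221338120192, .ofNat 0, .ofNat 0⟩)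
    (by decide +kernel)
theorem L00399 : Good (Phi V5.P V5.D (-1) 1) ⟨2, 1, 2, 0, 2, 2, 2, 0, 4, 7⟩ :=
  out_sound (S := T5.ds_mp) T5.ok_mp (w := 24) (j := 1) (by decide +kernel)
theorem L00400 : Good (Phi V5.P V5.D (-1) 1) ⟨2, 1, 2, 0, 3, 4, 3, 2, 4, 7⟩ :=
  out_sound (S := T5.ds_mp) T5.ok_mp (w := 27) (j := 1) (by decide +kernel)
theorem L00401 : Good (Phi V5.P V5.D (-1) 1) ⟨2, 1, 2, 0, 4, 8, 3, 3, 5, 14⟩ :=
  out_sound (S := T5.ds_mp) T5.ok_mp (w := 31) (j := 1) (by decide +kernel)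
theorem L00402 : Good (Phi V5.P V5.D (-1) 1) ⟨2, 1, 2, 0, 4, 9, 4, 6, 5, 14⟩ :=
  out_sound (S := T5.ds_mp) T5.ok_mp (w := 32) (j := 1) (by decide +kernel)
theorem L00403 : Good (Phi V5.P V5.D (-1) 1) ⟨2, 1, 2, 0, 5, 18, 4, 7, 6, 28⟩ :=
  leafX_sound T5.ok_mp T5.Ymp.bz_eq (w := 268) (c := ⟨⟨.negSucc 1139, .negSucc 190, .negSucc 5, .ofNat 0, .ofNat 90, .ofNat 1⟩, ⟨.negSucc 1, .ofNat 107, .negSucc 239, .ofNat 0, .negSucc 87, .ofNat 0⟩, ⟨.ofNat 1094, .negSucc 213, .negSucc 115, .ofNat 0, .ofNat 129, .ofNat 0⟩, ⟨.negSucc 2951, .ofNat 132, .ofNat 32, .negSucc 0, .ofNat 50, .ofNat 1⟩, ⟨.negSucc 338, .ofNat 54, .ofNat 21, .ofNat 0, .ofNat 68, .ofNat 0⟩, .ofNat 183, .negSucc 7, .ofNat 0, .negSucc 7, .ofNat 236, .ofNat 0, .ofNat 140, .ofNat 4, .ofNat 4, .ofNat 0, .ofNat 128, .negSucc 17, .ofNat 0, .ofNat 0, .ofNat 733, .ofNat 2287687, .ofNat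 0, .ofNat 0, .ofNat 0, .ofNat 0, .ofNat 101206334874442890095937018751229346506443294742123905024, .ofNat 119668898118842476771149428385850562562127746729771008, .ofNat 0, .ofNat 0, .ofNat 125264841962898091740067412837137775695082383747284205568, .ofNat 529990113084228563636993088463167960218278174539120640, .ofNat 0, .ofNat 0, .ofNat 230075547819388414362904615402684530520517329218181267456, .ofNat 397269906251530956994778427573663084772653924997922816, .ofNat 0, .ofNat 0⟩)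
    (by decide +kernel)
theorem L00404 : Good (Phi V5.P V5.D (-1) 1) ⟨2, 1, 2, 0, 5, 19, 6, 28, 7, 56⟩ :=
  out_sound (S := T5.ds_mp) T5.ok_mp (w := 40) (j := 1) (by decide +kernel)
theorem L00405 : Good (Phi V5.P V5.D (-1) 1) ⟨2, 1, 2, 0, 6, 38, 6, 29, 7, 56⟩ :=
  out_sound (S := T5.ds_mp) T5.ok_mp (w := 42) (j := 1) (by decide +kernel)
theorem L00406 : Good (Phi V5.P V5.D (-1) 1) ⟨2, 1, 2, 0, 6, 39, 6, 29, 7, 56⟩ :=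
  out_sound (S := T5.ds_mp) T5.ok_mp (w := 52) (j := 2) (by decide +kernel)
theorem L00407 : Good (Phi V5.P V5.D (-1) 1) ⟨2, 1, 2, 0, 5, 19, 5, 14, 7, 57⟩ :=
  out_sound (S := T5.ds_mp) T5.ok_mp (w := 39) (j := 1) (by decide +kernel)
theorem L00408 : Good (Phi V5.P V5.D (-1) 1) ⟨2, 1, 2, 0, 7, 76, 6, 30, 7, 56⟩ :=
  out_sound (S := T5.ds_mp) T5.ok_mp (w := 44) (j := 1) (by decide +kernel)
theorem L00409 : Good (Phi V5.P V5.D (-1) 1) ⟨2, 1, 2, 0, 8, 152, 8, 124, 9, 224⟩ :=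
  out_sound (S := T5.ds_mp) T5.ok_mp (w := 52) (j := 1) (by decide +kernel)
theorem L00410 : Good (Phi V5.P V5.D (-1) 1) ⟨2, 1, 2, 0, 8, 152, 9, 250, 10, 448⟩ :=
  out_sound (S := T5.ds_mp) T5.ok_mp (w := 55) (j := 1) (by decide +kernel)
theorem L00411 : Good (Phi V5.P V5.D (-1) 1) ⟨2, 1, 2, 0, 9, 304, 9, 251, 10, 448⟩ :=
  out_sound (S := T5.ds_mp) T5.ok_mp (w := 57) (j := 1) (by decide +kernel)
theorem L00412 : Good (Phi V5.P V5.D (-1) 1) ⟨2, 1, 2, 0, 9, 305, 9, 251, 10, 448⟩ :=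
  out_sound (S := T5.ds_mp) T5.ok_mp (w := 70) (j := 2) (by decide +kernel)
theorem L00413 : Good (Phi V5.P V5.D (-1) 1) ⟨2, 1, 2, 0, 8, 152, 8, 125, 10, 449⟩ :=
  out_sound (S := T5.ds_mp) T5.ok_mp (w := 54) (j := 1) (by decide +kernel)
theorem L00414 : Good (Phi V5.P V5.D (-1) 1) ⟨2, 1, 2, 0, 8, 152, 7, 62, 9, 225⟩ :=
  out_sound (S := T5.ds_mp) T5.ok_mp (w := 51) (j := 1) (by decide +kernel)
theorem L00415 : Good (Phi V5.P V5.D (-1) 1) ⟨2, 1, 2, 0, 10, 608, 9, 252, 10, 448⟩ :=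
  out_sound (S := T5.ds_mp) T5.ok_mp (w := 59) (j := 1) (by decide +kernel)
theorem L00416 : Good (Phi V5.P V5.D (-1) 1) ⟨2, 1, 2, 0, 11, 1216, 10, 506, 11, 896⟩ :=
  out_sound (S := T5.ds_mp) T5.ok_mp (w := 64) (j := 1) (by decide +kernel)
theorem L00417 : Good (Phi V5.P V5.D (-1) 1) ⟨2, 1, 2, 0, 11, 1216, 10, 507, 11, 896⟩ :=
  out_sound (S := T5.ds_mp) T5.ok_mp (w := 78) (j := 2) (by decide +kernel)
theorem L00418 : Good (Phi V5.P V5.D (-1) 1) ⟨2, 1, 2, 0, 11, 1217, 9, 253, 11, 896⟩ :=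
  out_sound (S := T5.ds_mp) T5.ok_mp (w := 76) (j := 2) (by decide +kernel)
theorem L00419 : Good (Phi V5.P V5.D (-1) 1) ⟨2, 1, 2, 0, 10, 608, 9, 253, 11, 897⟩ :=
  out_sound (S := T5.ds_mp) T5.ok_mp (w := 74) (j := 2) (by decide +kernel)
theorem L00420 : Good (Phi V5.P V5.D (-1) 1) ⟨2, 1, 2, 0, 10, 609, 8, 126, 10, 448⟩ :=
  out_sound (S := T5.ds_mp) T5.ok_mp (w := 70) (j := 2) (by decide +kernel)
theorem L00421 : Good (Phi V5.P V5.D (-1) 1) ⟨2, 1, 2, 0, 9, 304, 8, 126, 10, 449⟩ :=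
  out_sound (S := T5.ds_mp) T5.ok_mp (w := 56) (j := 1) (by decide +kernel)
theorem L00422 : Good (Phi V5.P V5.D (-1) 1) ⟨2, 1, 2, 0, 9, 304, 8, 127, 9, 224⟩ :=
  out_sound (S := T5.ds_mp) T5.ok_mp (w := 66) (j := 2) (by decide +kernel)
theorem L00423 : Good (Phi V5.P V5.D (-1) 1) ⟨2, 1, 2, 0, 9, 305, 7, 63, 9, 224⟩ :=
  out_sound (S := T5.ds_mp) T5.ok_mp (w := 64) (j := 2) (by decide +kernel)
theorem L00424 : Good (Phi V5.P V5.D (-1) 1) ⟨2, 1, 2, 0, 8, 152, 7, 63, 9, 225⟩ :=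
  out_sound (S := T5.ds_mp) T5.ok_mp (w := 62) (j := 2) (by decide +kernel)
theorem L00425 : Good (Phi V5.P V5.D (-1) 1) ⟨2, 1, 2, 0, 8, 153, 6, 31, 8, 112⟩ :=
  out_sound (S := T5.ds_mp) T5.ok_mp (w := 58) (j := 2) (by decide +kernel)
theorem L00426 : Good (Phi V5.P V5.D (-1) 1) ⟨2, 1, 2, 0, 7, 76, 6, 31, 8, 113⟩ :=
  out_sound (S := T5.ds_mp) T5.ok_mp (w := 56) (j := 2) (by decide +kernel)
theorem L00427 : Good (Phi V5.P V5.D (-1) 1) ⟨2, 1, 2, 0, 8, 154, 6, 30, 8, 112⟩ :=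
  out_sound (S := T5.ds_mp) T5.ok_mp (w := 48) (j := 1) (by decide +kernel)
theorem L00428 : Good (Phi V5.P V5.D (-1) 1) ⟨2, 1, 2, 0, 8, 155, 6, 30, 8, 112⟩ :=
  out_sound (S := T5.ds_mp) T5.ok_mp (w := 58) (j := 2) (by decide +kernel)
theorem L00429 : Good (Phi V5.P V5.D (-1) 1) ⟨2, 1, 2, 0, 7, 77, 6, 30, 8, 113⟩ :=
  out_sound (S := T5.ds_mp) T5.ok_mp (w := 46) (j := 1) (by decide +kernel)
theorem L00430 : Good (Phi V5.P V5.D (-1) 1) ⟨2, 1, 2, 0, 7, 77, 6, 31, 7, 56⟩ :=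
  out_sound (S := T5.ds_mp) T5.ok_mp (w := 54) (j := 2) (by decide +kernel)
theorem L00431 : Good (Phi V5.P V5.D (-1) 1) ⟨2, 1, 2, 0, 6, 38, 5, 15, 7, 57⟩ :=
  out_sound (S := T5.ds_mp) T5.ok_mp (w := 50) (j := 2) (by decide +kernel)
theorem L00432 : Good (Phi V5.P V5.D (-1) 1) ⟨2, 1, 2, 0, 6, 39, 5, 15, 6, 28⟩ :=
  out_sound (S := T5.ds_mp) T5.ok_mp (w := 48) (j := 2) (by decide +kernel)
theorem L00433 : Good (Phi V5.P V5.D (-1) 1) ⟨2, 1, 2, 0, 4, 9, 4, 7, 6, 29⟩ :=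
  out_sound (S := T5.ds_mp) T5.ok_mp (w := 34) (j := 1) (by decide +kernel)
theorem L00434 : Good (Phi V5.P V5.D (-1) 1) ⟨2, 1, 2, 0, 3, 4, 3, 3, 5, 15⟩ :=
  out_sound (S := T5.ds_mp) T5.ok_mp (w := 29) (j := 1) (by decide +kernel)
theorem L00435 : Good (Phi V5.P V5.D (-1) 1) ⟨2, 1, 2, 0, 4, 10, 3, 2, 5, 14⟩ :=
  out_sound (S := T5.ds_mp) T5.ok_mp (w := 31) (j := 1) (by decide +kernel)
theorem L00436 : Good (Phi V5.P V5.D (-1) 1) ⟨2, 1, 2, 0, 5, 20, 5, 12, 6, 28⟩ :=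
  out_sound (S := T5.ds_mp) T5.ok_mp (w := 37) (j := 1) (by decide +kernel)
theorem L00437 : Good (Phi V5.P V5.D (-1) 1) ⟨2, 1, 2, 0, 5, 20, 5, 13, 6, 28⟩ :=
  out_sound (S := T5.ds_mp) T5.ok_mp (w := 46) (j := 2) (by decide +kernel)
theorem L00438 : Good (Phi V5.P V5.D (-1) 1) ⟨2, 1, 2, 0, 5, 20, 4, 7, 6, 28⟩ :=
  out_sound (S := T5.ds_mp) T5.ok_mp (w := 44) (j := 2) (by decide +kernel)
theorem L00439 : Good (Phi V5.P V5.D (-1) 1) ⟨2, 1, 2, 0, 5, 20, 3, 3, 6, 29⟩ :=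
  out_sound (S := T5.ds_mp) T5.ok_mp (w := 42) (j := 2) (by decide +kernel)
theorem L00440 : Good (Phi V5.P V5.D (-1) 1) ⟨2, 1, 2, 0, 5, 21, 3, 3, 5, 14⟩ :=
  out_sound (S := T5.ds_mp) T5.ok_mp (w := 40) (j := 2) (by decide +kernel)
theorem L00441 : Good (Phi V5.P V5.D (-1) 1) ⟨2, 1, 2, 0, 4, 10, 2, 1, 5, 15⟩ :=
  out_sound (S := T5.ds_mp) T5.ok_mp (w := 36) (j := 2) (by decide +kernel)
theorem L00442 : Good (Phi V5.P V5.D (-1) 1) ⟨2, 1, 2, 0, 4, 11, 2, 1, 4, 7⟩ :=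
  out_sound (S := T5.ds_mp) T5.ok_mp (w := 34) (j := 2) (by decide +kernel)
theorem L00443 : Good (Phi V5.P V5.D (-1) 1) ⟨2, 1, 2, 0, 2, 3, 1, 0, 4, 7⟩ :=
  out_sound (S := T5.ds_mp) T5.ok_mp (w := 28) (j := 2) (by decide +kernel)
theorem L00444 : Good (Phi V5.P V5.D (-1) 1) ⟨2, 1, 2, 0, 3, 4, 1, 0, 3, 4⟩ :=
  out_sound (S := T5.ds_mp) T5.ok_mp (w := 23) (j := 1) (by decide +kernel)
theorem L00445 : Good (Phi V5.P V5.D (-1) 1) ⟨2, 1, 2, 0, 3, 5, 1, 0, 3, 4⟩ :=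
  out_sound (S := T5.ds_mp) T5.ok_mp (w := 28) (j := 2) (by decide +kernel)
theorem L00446 : Good (Phi V5.P V5.D (-1) 1) ⟨2, 1, 2, 0, 2, 2, 1, 0, 3, 5⟩ :=
  out_sound (S := T5.ds_mp) T5.ok_mp (w := 21) (j := 1) (by decide +kernel)
theorem L00447 : Good (Phi V5.P V5.D (-1) 1) ⟨2, 1, 2, 0, 2, 2, 1, 0, 2, 3⟩ :=
  out_sound (S := T5.ds_mp) T5.ok_mp (w := 19) (j := 1) (by decide +kernel)
theorem L00448 : Good (Phi V5.P V5.D (-1) 1) ⟨2, 1, 2, 0, 2, 3, 1, 0, 1, 1⟩ :=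
  out_sound (S := T5.ds_mp) T5.ok_mp (w := 22) (j := 2) (by decide +kernel)
theorem L00449 : Good (Phi V5.P V5.D (-1) 1) ⟨2, 1, 2, 0, 2, 2, 2, 2, 4, 0⟩ :=
  leafX_sound T5.ok_mp T5.Ymp.bz_eq (w := 196) (c := ⟨⟨.ofNat 720, .negSucc 84, .negSucc 113, .ofNat 366, .negSucc 521, .negSucc 1106⟩, ⟨.ofNat 127, .ofNat 2, .negSucc 47, .negSucc 7, .negSucc 102, .negSucc 143⟩, ⟨.negSucc 596, .ofNat 25, .ofNat 29, .negSucc 246, .ofNat 345, .ofNat 633⟩, ⟨.ofNat 1908, .negSucc 192, .negSucc 122, .ofNat 920, .negSucc 1406, .negSucc 2839⟩, ⟨.negSucc 198, .negSucc 381, .negSucc 105, .negSucc 333, .negSucc 3, .negSucc 262⟩, .ofNat 367, .negSucc 48, .ofNat 0, .negSucc 48, .ofNat 673, .ofNat 0, .ofNat 234, .ofNat 62, .negSucc 198, .ofNat 0, .ofNat 128, .ofNat 4, .ofNat 0, .ofNat 0, .ofNat 296, .ofNat 371, .ofNat 0, .ofNat 0, .ofNat 0, .ofNat 0, .ofNat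 0, .ofNat 0, .ofNat 0, .ofNat 0, .ofNat 0, .ofNat 0, .ofNat 0, .ofNat 0, .ofNat 0, .ofNat 0, .ofNat 0, .ofNat 0⟩)
    (by decide +kernel)
theorem L00450 : Good (Phi V5.P V5.D (-1) 1) ⟨2, 1, 2, 0, 2, 3, 2, 2, 4, 0⟩ :=
  leafX_sound T5.ok_mp T5.Ymp.bz_eq (w := 197) (c := ⟨⟨.ofNat 1141, .ofNat 86, .negSucc 98, .negSucc 316, .negSucc 740, .negSucc 1091⟩, ⟨.ofNat 173, .ofNat 16, .negSucc 82, .negSucc 6, .negSucc 148, .negSucc 206⟩, ⟨.negSucc 668, .negSucc 22, .negSucc 111, .ofNat 384, .ofNat 418, .ofNat 325⟩, ⟨.ofNat 2753, .ofNat 212, .negSucc 36, .negSucc 901, .negSucc 1734, .negSucc 2590⟩, ⟨.ofNat 208, .negSucc 579, .negSucc 378, .ofNat 498, .negSucc 545, .negSucc 1008⟩, .ofNat 527, .negSucc 142, .ofNat 0, .negSucc 142, .ofNat 1416, .ofNat 0, .ofNat 199, .ofNat 111, .negSucc 181, .ofNat 0, .ofNat 128, .ofNat 3, .ofNat 0, .ofNat 0, .ofNat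 298, .ofNat 365, .ofNat 0, .ofNat 0, .ofNat 0, .ofNat 0, .ofNat 0, .ofNat 0, .ofNat 0, .ofNat 0, .ofNat 0, .ofNat 0, .ofNat 0, .ofNat 0, .ofNat 0, .ofNat 0, .ofNat 0, .ofNat 0⟩)
    (by decide +kernel)
theorem L00451 : Good (Phi V5.P V5.D (-1) 1) ⟨2, 1, 2, 0, 2, 2, 3, 6, 4, 0⟩ :=
  leafX_sound T5.ok_mp T5.Ymp.bz_eq (w := 200) (c := ⟨⟨.ofNat 107, .negSucc 272, .negSucc 95, .ofNat 146, .negSucc 192, .negSucc 777⟩, ⟨.negSucc 15, .ofNat 42, .negSucc 129, .negSucc 4, .negSucc 25, .negSucc 113⟩, ⟨.negSucc 95, .ofNat 79, .ofNat 19, .negSucc 170, .ofNat 151, .ofNat 410⟩, ⟨.ofNat 198, .negSucc 447, .negSucc 77, .ofNat 425, .negSucc 546, .negSucc 1980⟩, ⟨.negSucc 292, .negSucc 325, .negSucc 145, .negSucc 395, .negSucc 23, .negSucc 76⟩, .ofNat 366, .negSucc 47, .ofNat 0, .negSucc 47, .ofNat 676, .ofNat 0, .ofNat 470, .ofNat 69, .negSucc 516,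 .ofNat 0, .ofNat 128, .ofNat 12, .ofNat 0, .ofNat 0, .ofNat 728, .ofNat 808, .ofNat 0, .ofNat 0, .ofNat 0, .ofNat 0, .ofNat 0, .ofNat 0, .ofNat 0, .ofNat 0, .ofNat 0, .ofNat 0, .ofNat 0, .ofNat 0, .ofNat 0, .ofNat 0, .ofNat 0, .ofNat 0⟩)
    (by decide +kernel)
theorem L00452 : Good (Phi V5.P V5.D (-1) 1) ⟨2, 1, 2, 0, 2, 2, 3, 7, 4, 0⟩ :=
  leafX_sound T5.ok_mp T5.Ymp.bz_eq (w := 201) (c := ⟨⟨.negSucc 297, .negSucc 292, .negSucc 114, .negSucc 96, .ofNat 54, .negSucc 303⟩, ⟨.negSucc 50, .ofNat 34, .negSucc 170, .negSucc 35, .ofNat 29, .negSucc 25⟩, ⟨.ofNat 232, .ofNat 58, .negSucc 7, .ofNat 32, .negSucc 47, .ofNat 65⟩, ⟨.negSucc 889, .negSucc 386, .negSucc 111, .negSucc 199, .ofNat 97, .negSucc 775⟩, ⟨.negSucc 637, .negSucc 167, .negSucc 153, .negSucc 275, .ofNat 275, .ofNat 199⟩, .ofNat 524, .negSucc 149, .ofNat 0, .negSucc 149, .ofNat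 1428, .ofNat 0, .ofNat 337, .ofNat 97, .negSucc 419, .ofNat 0, .ofNat 128, .negSucc 10, .ofNat 0, .ofNat 0, .ofNat 687, .ofNat 830, .ofNat 0, .ofNat 0, .ofNat 0, .ofNat 0, .ofNat 0, .ofNat 0, .ofNat 0, .ofNat 0, .ofNat 0, .ofNat 0, .ofNat 0, .ofNat 0, .ofNat 0, .ofNat 0, .ofNat 0, .ofNat 0⟩)
    (by decide +kernel)
theorem L00453 : Good (Phi V5.P V5.D (-1) 1) ⟨2, 1, 2, 0, 2, 3, 3, 6, 5, 0⟩ :=
  leafX_sound T5.ok_mp T5.Ymp.bz_eq (w := 206) (c := ⟨⟨.ofNat 281, .negSucc 73, .ofNat 12, .negSucc 401, .negSucc 388, .negSucc 421⟩, ⟨.ofNat 14, .ofNat 44, .negSucc 119, .negSucc 79, .negSucc 57, .negSucc 80⟩, ⟨.negSucc 85, .ofNat 0, .negSucc 203, .ofNat 305, .ofNat 203, .ofNat 96⟩, ⟨.ofNat 573, .negSucc 33, .ofNat 221, .negSucc 908, .negSucc 962, .negSucc 974⟩, ⟨.negSucc 296, .negSucc 472, .negSucc 379, .negSucc 305, .negSucc 136, .negSucc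 247⟩, .ofNat 523, .negSucc 144, .ofNat 0, .negSucc 144, .ofNat 1421, .ofNat 0, .ofNat 364, .ofNat 126, .negSucc 415, .ofNat 0, .ofNat 128, .ofNat 17, .ofNat 0, .ofNat 0, .ofNat 639, .ofNat 1173, .ofNat 0, .ofNat 0, .ofNat 0, .ofNat 0, .ofNat 0, .ofNat 0, .ofNat 0, .ofNat 0, .ofNat 0, .ofNat 0, .ofNat 0, .ofNat 0, .ofNat 0, .ofNat 0, .ofNat 0, .ofNat 0⟩)
    (by decide +kernel)
theorem L00454 : Good (Phi V5.P V5.D (-1) 1) ⟨2, 1, 2, 0, 2, 3, 3, 6, 5, 1⟩ :=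
  leafX_sound T5.ok_mp T5.Ymp.bz_eq (w := 206) (c := ⟨⟨.negSucc 147, .negSucc 277, .negSucc 119, .negSucc 285, .negSucc 191, .negSucc 311⟩, ⟨.negSucc 41, .ofNat 49, .negSucc 204, .negSucc 67, .negSucc 25, .negSucc 42⟩, ⟨.ofNat 7, .ofNat 142, .negSucc 98, .ofNat 171, .ofNat 117, .ofNat 129⟩, ⟨.negSucc 531, .negSucc 337, .ofNat 13, .negSucc 648, .negSucc 497, .negSucc 803⟩, ⟨.negSucc 737, .negSucc 336, .negSucc 382, .negSucc 391, .ofNat 68, .ofNat 34⟩, .ofNat 529, .negSucc 158, .ofNat 0, .negSucc 158, .ofNat 1410, .ofNat 0, .ofNat 254, .ofNat 119, .negSucc 209, .ofNat 0, .ofNat 128, .ofNat 6, .ofNat 0, .ofNat 0, .ofNat 330, .ofNat 945, .ofNat 0, .ofNat 0, .ofNat 0, .ofNat 0, .ofNat 0, .ofNat 0, .ofNat 0, .ofNat 0, .ofNat 0, .ofNat 0, .ofNat 0, .ofNat 0, .ofNat 0, .ofNat 0, .ofNat 0, .ofNat 0⟩)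
    (by decide +kernel)

end Crest.Agent.R097C5.N5mp
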