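import Crest.Agent.R097.KP7
import Crest.Agent.R097.T5Ymp

/-!
# Row 97, box cover in dimension n = 5 (generated)
-/

set_option autoImplicit false
set_option Elab.async false
set_option maxHeartbeats 0
set_option maxRecDepth 100000

open Crest.Agent.R097 Crest.Agent.R097.KA


namespace Crest.Agent.R097C5.N5mp

theorem L00455 : Good (Phi V5.P V5.D (-1) 1) ⟨3, 2, 2, 0, 2, 3, 3, 7, 4, 0⟩ :=
  leafX_sound T5.ok_mp T5.Ymp.bz_eq (w := 204) (c := ⟨⟨.negSucc 332, .negSucc 25, .negSucc 16, .negSucc 269, .negSucc 125, .negSucc 342⟩, ⟨.negSucc 22, .ofNat 29, .negSucc 203, .negSucc 88, .ofNat 16, .negSucc 44⟩, ⟨.ofNat 343, .negSucc 61, .negSucc 203, .ofNat 73, .ofNat 85, .ofNat 53⟩, ⟨.negSucc 929, .ofNat 121, .ofNat 184, .negSucc 638, .negSucc 418, .negSucc 924⟩, ⟨.negSucc 625, .negSucc 208, .negSucc 384, .negSucc 499, .ofNat 507, .ofNat 264⟩,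 .ofNat 557, .negSucc 168, .ofNat 0, .negSucc 168, .ofNat 1330, .ofNat 0, .ofNat 185, .ofNat 124, .negSucc 134, .ofNat 0, .ofNat 128, .ofNat 9, .ofNat 0, .ofNat 0, .ofNat 232, .ofNat 660, .ofNat 0, .ofNat 0, .ofNat 0, .ofNat 0, .ofNat 0, .ofNat 0, .ofNat 0, .ofNat 0, .ofNat 0, .ofNat 0, .ofNat 0, .ofNat 0, .ofNat 0, .ofNat 0, .ofNat 0, .ofNat 0⟩)
    (by decide +kernel)
theorem L00456 : Good (Phi V5.P V5.D (-1) 1) ⟨3, 3, 2, 0, 2, 3, 4, 14, 4, 0⟩ :=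
  leafX_sound T5.ok_mp T5.Ymp.bz_eq (w := 209) (c := ⟨⟨.negSucc 281, .negSucc 149, .negSucc 83, .negSucc 269, .negSucc 78, .negSucc 517⟩, ⟨.negSucc 18, .ofNat 36, .negSucc 214, .negSucc 54, .ofNat 2, .negSucc 53⟩, ⟨.ofNat 236, .ofNat 74, .negSucc 138, .ofNat 135, .ofNat 17, .ofNat 105⟩, ⟨.negSucc 772, .negSucc 185, .ofNat 84, .negSucc 579, .negSucc 188, .negSucc 1248⟩, ⟨.negSucc 773, .negSucc 158, .negSucc 367, .negSucc 519, .ofNat 108, .ofNat 142⟩, .ofNat 498, .negSucc 126, .ofNat 0, .negSucc 126, .ofNat 1522, .ofNat 0, .ofNat 267, .ofNat 128, .negSucc 430, .ofNat 0, .ofNat 128, .ofNat 13, .ofNat 0, .ofNat 0, .ofNat 600, .ofNat 1371, .ofNat 0, .ofNat 0, .ofNat 0, .ofNat 0, .ofNat 0, .ofNat 0, .ofNat 0, .ofNat 0, .ofNat 0, .ofNat 0, .ofNat 0, .ofNat 0, .ofNat 0, .ofNat 0, .ofNat 0, .ofNat 0⟩)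
    (by decide +kernel)
theorem L00457 : Good (Phi V5.P V5.D (-1) 1) ⟨3, 3, 2, 0, 2, 3, 4, 15, 4, 0⟩ :=
  leafX_sound T5.ok_mp T5.Ymp.bz_eq (w := 210) (c := ⟨⟨.negSucc 498, .negSucc 134, .negSucc 91, .negSucc 188, .negSucc 51, .negSucc 324⟩, ⟨.negSucc 29, .ofNat 38, .negSucc 232, .negSucc 49, .ofNat 3, .negSucc 11⟩, ⟨.ofNat 380, .ofNat 37, .negSucc 147, .ofNat 31, .negSucc 15, .ofNat 28⟩, ⟨.negSucc 1275, .negSucc 119, .ofNat 28, .negSucc 385, .negSucc 123, .negSucc 826⟩, ⟨.negSucc 678, .negSucc 187, .negSucc 444, .negSucc 614, .ofNat 119, .ofNat 484⟩, .ofNat 496, .negSucc 120, .ofNat 0, .negSucc 120, .ofNat 1530, .ofNat 0, .ofNat 288, .ofNat 128, .negSucc 439, .ofNat 0, .ofNat 125, .ofNat 17, .ofNat 0, .ofNat 0, .ofNat 608, .ofNat 1592, .ofNat 0, .ofNat 0, .ofNat 0, .ofNat 0, .ofNat 0, .ofNat 30239450174209386789601360131441064673280,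 .ofNat 0, .ofNat 0, .ofNat 0, .ofNat 0, .ofNat 0, .ofNat 0, .ofNat 0, .ofNat 0, .ofNat 0, .ofNat 0⟩)
    (by decide +kernel)
theorem L00458 : Good (Phi V5.P V5.D (-1) 1) ⟨2, 1, 2, 0, 2, 2, 2, 2, 4, 1⟩ :=
  leafX_sound T5.ok_mp T5.Ymp.bz_eq (w := 197) (c := ⟨⟨.negSucc 426, .negSucc 523, .negSucc 242, .ofNat 121, .negSucc 34, .negSucc 658⟩, ⟨.negSucc 55, .ofNat 95, .negSucc 288, .negSucc 45, .ofNat 7, .negSucc 65⟩, ⟨.ofNat 48, .ofNat 367, .ofNat 149, .negSucc 256, .ofNat 83, .ofNat 479⟩, ⟨.negSucc 1304, .negSucc 704, .negSucc 408, .ofNat 301, .negSucc 127, .negSucc 1639⟩, ⟨.negSucc 788, .negSucc 226, .ofNat 15, .negSucc 428, .ofNat 238, .ofNat 255⟩, .ofNat 518, .negSucc 126, .ofNat 0, .negSucc 126, .ofNat 1452, .ofNat 0, .ofNat 315, .ofNat 69, .negSucc 129, .ofNat 0, .ofNat 128, .negSucc 0, .ofNat 0, .ofNat 0, .ofNat 293, .ofNat 826,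 .ofNat 0, .ofNat 0, .ofNat 0, .ofNat 0, .ofNat 0, .ofNat 0, .ofNat 0, .ofNat 0, .ofNat 0, .ofNat 0, .ofNat 0, .ofNat 0, .ofNat 0, .ofNat 0, .ofNat 0, .ofNat 0⟩)
    (by decide +kernel)
theorem L00459 : Good (Phi V5.P V5.D (-1) 1) ⟨2, 1, 2, 0, 2, 3, 2, 2, 5, 2⟩ :=
  leafX_sound T5.ok_mp T5.Ymp.bz_eq (w := 202) (c := ⟨⟨.negSucc 187, .negSucc 388, .negSucc 198, .negSucc 142, .negSucc 236, .negSucc 408⟩, ⟨.negSucc 40, .ofNat 60, .negSucc 239, .negSucc 37, .negSucc 46, .negSucc 64⟩, ⟨.negSucc 154, .ofNat 282, .ofNat 3, .ofNat 102, .ofNat 203, .ofNat 207⟩, ⟨.negSucc 624, .negSucc 573, .negSucc 207, .negSucc 310, .negSucc 620, .negSucc 1033⟩, ⟨.negSucc 850, .negSucc 296, .negSucc 255, .negSucc 288, .negSucc 12, .ofNat 17⟩, .ofNat 530, .negSucc 156, .ofNat 0, .negSucc 156, .ofNat 1412, .ofNat 0, .ofNat 350, .ofNat 99, .negSucc 276, .ofNat 0,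 .ofNat 128, .ofNat 1, .ofNat 0, .ofNat 0, .ofNat 477, .ofNat 1120, .ofNat 0, .ofNat 0, .ofNat 0, .ofNat 0, .ofNat 0, .ofNat 0, .ofNat 0, .ofNat 0, .ofNat 0, .ofNat 0, .ofNat 0, .ofNat 0, .ofNat 0, .ofNat 0, .ofNat 0, .ofNat 0⟩)
    (by decide +kernel)
theorem L00460 : Good (Phi V5.P V5.D (-1) 1) ⟨2, 1, 2, 0, 2, 3, 3, 4, 5, 3⟩ :=
  leafX_sound T5.ok_mp T5.Ymp.bz_eq (w := 207) (c := ⟨⟨.negSucc 721, .negSucc 531, .negSucc 247, .negSucc 70, .ofNat 36, .negSucc 314⟩, ⟨.negSucc 115, .ofNat 91, .negSucc 326, .negSucc 14, .ofNat 6, .negSucc 30⟩, ⟨.ofNat 124, .ofNat 414, .ofNat 91, .negSucc 4, .negSucc 12, .ofNat 223⟩, ⟨.negSucc 2100, .negSucc 662, .negSucc 331, .negSucc 165, .ofNat 72, .negSucc 779⟩, ⟨.negSucc 932, .negSucc 211, .negSucc 156, .negSucc 193, .negSucc 51, .ofNat 24⟩, .ofNat 522, .negSucc 153, .ofNat 0, .negSucc 153, .ofNat 1434,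 .ofNat 0, .ofNat 347, .ofNat 81, .negSucc 267, .ofNat 0, .ofNat 128, .ofNat 1, .ofNat 0, .ofNat 0, .ofNat 526, .ofNat 2651, .ofNat 0, .ofNat 0, .ofNat 0, .ofNat 0, .ofNat 0, .ofNat 0, .ofNat 0, .ofNat 0, .ofNat 0, .ofNat 0, .ofNat 0, .ofNat 0, .ofNat 0, .ofNat 0, .ofNat 0, .ofNat 0⟩)
    (by decide +kernel)
theorem L00461 : Good (Phi V5.P V5.D (-1) 1) ⟨2, 1, 2, 0, 2, 3, 3, 5, 5, 3⟩ :=
  leafX_sound T5.ok_mp T5.Ymp.bz_eq (w := 207) (c := ⟨⟨.negSucc 815, .negSucc 463, .negSucc 189, .negSucc 13, .ofNat 4, .negSucc 246⟩, ⟨.negSucc 123, .ofNat 99, .negSucc 309, .negSucc 31, .ofNat 14, .negSucc 18⟩, ⟨.ofNat 238, .ofNat 301, .ofNat 27, .negSucc 25, .ofNat 36, .ofNat 164⟩, ⟨.negSucc 2284, .negSucc 527, .negSucc 204, .negSucc 14, .negSucc 27, .negSucc 645⟩, ⟨.negSucc 958, .negSucc 249, .negSucc 215, .negSucc 310, .ofNat 165, .ofNat 157⟩, .ofNat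 522, .negSucc 126, .ofNat 0, .negSucc 126, .ofNat 1429, .ofNat 0, .ofNat 416, .ofNat 78, .negSucc 261, .ofNat 0, .ofNat 128, .ofNat 8, .ofNat 0, .ofNat 0, .ofNat 498, .ofNat 1919, .ofNat 0, .ofNat 0, .ofNat 0, .ofNat 0, .ofNat 0, .ofNat 0, .ofNat 0, .ofNat 0, .ofNat 0, .ofNat 0, .ofNat 0, .ofNat 0, .ofNat 0, .ofNat 0, .ofNat 0, .ofNat 0⟩)
    (by decide +kernel)
theorem L00462 : Good (Phi V5.P V5.D (-1) 1) ⟨2, 1, 2, 0, 2, 2, 3, 6, 4, 1⟩ :=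
  leafX_sound T5.ok_mp T5.Ymp.bz_eq (w := 201) (c := ⟨⟨.negSucc 593, .negSucc 507, .negSucc 189, .negSucc 26, .ofNat 66, .negSucc 423⟩, ⟨.negSucc 87, .ofNat 74, .negSucc 272, .negSucc 17, .ofNat 20, .negSucc 21⟩, ⟨.ofNat 280, .ofNat 322, .ofNat 82, .negSucc 137, .negSucc 28, .ofNat 293⟩, ⟨.negSucc 1779, .negSucc 673, .negSucc 272, .ofNat 2, .ofNat 115, .negSucc 1050⟩, ⟨.negSucc 756, .ofNat 149, .negSucc 91, .negSucc 330, .ofNat 157, .ofNat 250⟩, .ofNat 518, .negSucc 135, .ofNat 0, .negSucc 135, .ofNat 1436, .ofNat 0, .ofNat 258, .ofNat 79, .negSucc 147, .ofNat 0, .ofNat 128, .negSucc 1, .ofNat 0, .ofNat 0, .ofNat 296, .ofNat 1045, .ofNat 0, .ofNat 0, .ofNat 0, .ofNat 0, .ofNat 0, .ofNat 0, .ofNat 0, .ofNat 0, .ofNat 0, .ofNat 0, .ofNat 0, .ofNat 0, .ofNat 0, .ofNat 0, .ofNat 0, .ofNat 0⟩)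
    (by decide +kernel)
theorem L00463 : Good (Phi V5.P V5.D (-1) 1) ⟨2, 1, 2, 0, 2, 3, 3, 6, 5, 2⟩ :=
  leafX_sound T5.ok_mp T5.Ymp.bz_eq (w := 206) (c := ⟨⟨.negSucc 551, .negSucc 338, .negSucc 143, .negSucc 127, .negSucc 105, .negSucc 277⟩, ⟨.negSucc 99, .ofNat 74, .negSucc 254, .negSucc 38, .ofNat 9, .negSucc 21⟩, ⟨.ofNat 186, .ofNat 156, .negSucc 45, .ofNat 59, .ofNat 95, .ofNat 147⟩, ⟨.negSucc 1592, .negSucc 356, .negSucc 69, .negSucc 245, .negSucc 304, .negSucc 740⟩, ⟨.negSucc 846, .negSucc 262, .negSucc 282, .negSucc 529, .ofNat 294, .ofNat 218⟩, .ofNat 525, .negSucc 141, .ofNat 0, .negSucc 141, .ofNat 1423, .ofNat 0, .ofNat 262, .ofNat 104, .negSucc 299, .ofNat 0, .ofNat 128, .ofNat 8, .ofNat 0, .ofNat 0, .ofNat 495, .ofNat 1250, .ofNat 0, .ofNat 0, .ofNat 0, .ofNat 0, .ofNat 0, .ofNat 0, .ofNat 0, .ofNat 0, .ofNat 0, .ofNat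 0, .ofNat 0, .ofNat 0, .ofNat 0, .ofNat 0, .ofNat 0, .ofNat 0⟩)
    (by decide +kernel)
theorem L00464 : Good (Phi V5.P V5.D (-1) 1) ⟨2, 1, 2, 0, 2, 3, 3, 6, 5, 3⟩ :=
  leafX_sound T5.ok_mp T5.Ymp.bz_eq (w := 207) (c := ⟨⟨.negSucc 1042, .negSucc 278, .negSucc 163, .ofNat 78, .ofNat 118, .negSucc 122⟩, ⟨.negSucc 134, .ofNat 84, .negSucc 296, .negSucc 21, .ofNat 64, .ofNat 17⟩, ⟨.ofNat 497, .ofNat 62, .ofNat 21, .negSucc 91, .negSucc 37, .ofNat 84⟩, ⟨.negSucc 2838, .negSucc 45, .negSucc 194, .ofNat 172, .ofNat 205, .negSucc 340⟩, ⟨.negSucc 859, .negSucc 219, .negSucc 123, .negSucc 438, .ofNat 430, .ofNat 407⟩, .ofNat 617, .negSucc 275, .ofNat 0, .negSucc 275, .ofNat 2387, .ofNat 0, .ofNat 367, .ofNat 117, .negSucc 297, .ofNat 0, .ofNat 128, .negSucc 2, .ofNat 0, .ofNat 0, .ofNat 582, .ofNat 1258, .ofNat 0, .ofNat 0, .ofNat 0, .ofNat 0,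 .ofNat 0, .ofNat 0, .ofNat 0, .ofNat 0, .ofNat 0, .ofNat 0, .ofNat 0, .ofNat 0, .ofNat 0, .ofNat 0, .ofNat 0, .ofNat 0⟩)
    (by decide +kernel)
theorem L00465 : Good (Phi V5.P V5.D (-1) 1) ⟨2, 1, 2, 0, 2, 2, 3, 7, 4, 1⟩ :=
  leafX_sound T5.ok_mp T5.Ymp.bz_eq (w := 201) (c := ⟨⟨.negSucc 664, .negSucc 333, .negSucc 93, .negSucc 186, .ofNat 253, .negSucc 291⟩, ⟨.negSucc 83, .ofNat 70, .negSucc 228, .negSucc 28, .ofNat 71, .negSucc 7⟩, ⟨.ofNat 342, .ofNat 91, .negSucc 4, .ofNat 81, .negSucc 185, .ofNat 182⟩, ⟨.negSucc 1810, .negSucc 301, .negSucc 170, .negSucc 475, .ofNat 559, .negSucc 806⟩, ⟨.negSucc 750, .negSucc 77, .negSucc 11, .ofNat 36, .ofNat 370, .ofNat 466⟩, .ofNat 523, .negSucc 138, .ofNat 0, .negSucc 138, .ofNat 1430, .ofNat 0, .ofNat 318, .ofNat 86, .negSucc 359, .ofNat 0, .ofNat 128, .negSucc 3, .ofNat 0, .ofNat 0, .ofNat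 647, .ofNat 985, .ofNat 0, .ofNat 0, .ofNat 0, .ofNat 0, .ofNat 0, .ofNat 0, .ofNat 0, .ofNat 0, .ofNat 0, .ofNat 592028710850432430809038143057286922240, .ofNat 0, .ofNat 0, .ofNat 0, .ofNat 0, .ofNat 0, .ofNat 0⟩)
    (by decide +kernel)
theorem L00466 : Good (Phi V5.P V5.D (-1) 1) ⟨3, 2, 2, 0, 2, 3, 3, 7, 4, 1⟩ :=
  leafX_sound T5.ok_mp T5.Ymp.bz_eq (w := 205) (c := ⟨⟨.negSucc 819, .negSucc 75, .negSucc 57, .negSucc 49, .ofNat 11, .negSucc 279⟩, ⟨.negSucc 99, .ofNat 15, .negSucc 262, .negSucc 12, .ofNat 76, .ofNat 32⟩, ⟨.ofNat 423, .negSucc 40, .negSucc 126, .negSucc 5, .ofNat 71, .ofNat 219⟩, ⟨.negSucc 2238, .ofNat 58, .ofNat 11, .negSucc 89, .negSucc 82, .negSucc 823⟩, ⟨.negSucc 654, .negSucc 139, .negSucc 305, .negSucc 160, .ofNat 699, .ofNat 691⟩, .ofNat 662, .negSucc 292, .ofNat 0, .negSucc 292, .ofNat 2168, .ofNat 0, .ofNat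 253, .ofNat 122, .negSucc 135, .ofNat 0, .ofNat 128, .ofNat 1, .ofNat 0, .ofNat 0, .ofNat 269, .ofNat 837, .ofNat 0, .ofNat 0, .ofNat 0, .ofNat 0, .ofNat 0, .ofNat 7233182973090333551570705491834376814592, .ofNat 0, .ofNat 0, .ofNat 0, .ofNat 8800914539910501063885334392027601698816, .ofNat 0, .ofNat 0, .ofNat 0, .ofNat 0, .ofNat 0, .ofNat 0⟩)
    (by decide +kernel)
theorem L00467 : Good (Phi V5.P V5.D (-1) 1) ⟨3, 3, 2, 0, 2, 3, 3, 7, 4, 1⟩ :=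
  leafX_sound T5.ok_mp T5.Ymp.bz_eq (w := 205) (c := ⟨⟨.negSucc 1148, .negSucc 81, .negSucc 32, .ofNat 248, .ofNat 127, .negSucc 166⟩, ⟨.negSucc 98, .ofNat 63, .negSucc 252, .ofNat 10, .ofNat 65, .ofNat 30⟩, ⟨.ofNat 583, .negSucc 24, .negSucc 115, .negSucc 172, .negSucc 68, .ofNat 89⟩, ⟨.negSucc 2804, .ofNat 107, .ofNat 48, .ofNat 596, .ofNat 235, .negSucc 469⟩, ⟨.negSucc 664, .negSucc 221, .negSucc 73, .negSucc 538, .ofNat 604, .ofNat 613⟩, .ofNat 584, .negSucc 225, .ofNat 0, .negSucc 225, .ofNat 2668, .ofNat 0, .ofNat 380, .ofNat 125, .negSucc 284, .ofNat 0, .ofNat 128, .ofNat 0, .ofNat 0, .ofNat 0, .ofNat 471, .ofNat 798, .ofNat 0, .ofNat 0, .ofNat 0, .ofNat 0, .ofNat 0, .ofNat 0, .ofNat 0, .ofNat 0, .ofNat 0, .ofNat 7784933703758903158119656016586997760000, .ofNat 0, .ofNat 0, .ofNat 0, .ofNat 0, .ofNat 0, .ofNat 0⟩)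
    (by decide +kernel)
theorem L00468 : Good (Phi V5.P V5.D (-1) 1) ⟨2, 1, 2, 0, 2, 2, 2, 2, 4, 2⟩ :=
  leafX_sound T5.ok_mp T5.Ymp.bz_eq (w := 198) (c := ⟨⟨.negSucc 1221, .negSucc 522, .negSucc 95, .negSucc 32, .ofNat 165, .negSucc 105⟩, ⟨.negSucc 127, .ofNat 110, .negSucc 333, .negSucc 32, .ofNat 36, .negSucc 0⟩, ⟨.ofNat 683, .ofNat 374, .ofNat 63, .negSucc 209, .negSucc 114, .ofNat 141⟩, ⟨.negSucc 3372, .negSucc 509, .negSucc 111, .negSucc 49, .ofNat 358, .negSucc 295⟩, ⟨.negSucc 755, .ofNat 44, .negSucc 18, .negSucc 291, .ofNat 257, .ofNat 185⟩, .ofNat 522, .negSucc 146, .ofNat 0, .negSucc 146, .ofNat 1433, .ofNat 0, .ofNat 254, .ofNat 67, .negSucc 136, .ofNat 0, .ofNat 128, .ofNat 0, .ofNat 0, .ofNat 0, .ofNat 438, .ofNat 1719, .ofNat 0, .ofNat 0, .ofNat 0, .ofNat 0, .ofNat 0, .ofNat 0, .ofNat 0, .ofNat 0, .ofNat 0, .ofNat 0,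 .ofNat 0, .ofNat 0, .ofNat 0, .ofNat 0, .ofNat 0, .ofNat 0⟩)
    (by decide +kernel)
theorem L00469 : Good (Phi V5.P V5.D (-1) 1) ⟨2, 1, 2, 0, 2, 2, 2, 2, 4, 3⟩ :=
  leafX_sound T5.ok_mp T5.Ymp.bz_eq (w := 197) (c := ⟨⟨.negSucc 1468, .negSucc 352, .negSucc 47, .ofNat 18, .ofNat 186, .ofNat 116⟩, ⟨.negSucc 147, .ofNat 118, .negSucc 328, .negSucc 6, .ofNat 51, .ofNat 21⟩, ⟨.ofNat 1007, .ofNat 181, .ofNat 42, .negSucc 248, .negSucc 203, .negSucc 24⟩, ⟨.negSucc 3988, .negSucc 121, .negSucc 15, .ofNat 65, .ofNat 428, .ofNat 259⟩, ⟨.negSucc 635, .ofNat 25, .negSucc 3, .negSucc 177, .ofNat 356, .ofNat 121⟩, .ofNat 370, .negSucc 50, .ofNat 0, .negSucc 50, .ofNat 669, .ofNat 0, .ofNat 179, .ofNat 30, .negSucc 70, .ofNat 0, .ofNat 128, .ofNat 7, .ofNat 0, .ofNat 0, .ofNat 289, .ofNat 1031, .ofNat 0, .ofNat 0, .ofNat 0, .ofNat 0, .ofNat 0, .ofNat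 0, .ofNat 0, .ofNat 0, .ofNat 0, .ofNat 0, .ofNat 0, .ofNat 0, .ofNat 0, .ofNat 0, .ofNat 0, .ofNat 0⟩)
    (by decide +kernel)
theorem L00470 : Good (Phi V5.P V5.D (-1) 1) ⟨3, 2, 2, 0, 2, 3, 2, 2, 4, 2⟩ :=
  leafX_sound T5.ok_mp T5.Ymp.bz_eq (w := 201) (c := ⟨⟨.negSucc 1321, .negSucc 129, .negSucc 80, .ofNat 109, .ofNat 118, .negSucc 94⟩, ⟨.negSucc 161, .ofNat 30, .negSucc 328, .ofNat 6, .ofNat 58, .ofNat 11⟩, ⟨.ofNat 576, .ofNat 35, .negSucc 19, .negSucc 108, .negSucc 10, .ofNat 134⟩, ⟨.negSucc 3569, .negSucc 6, .ofNat 9, .ofNat 302, .ofNat 234, .negSucc 285⟩, ⟨.negSucc 929, .negSucc 144, .negSucc 209, .negSucc 175, .ofNat 427, .ofNat 270⟩, .ofNat 548, .negSucc 150, .ofNat 0, .negSucc 150, .ofNat 1357, .ofNat 0, .ofNat 179, .ofNat 60, .negSucc 80, .ofNat 0, .ofNat 128, .ofNat 4, .ofNat 0, .ofNat 0, .ofNat 258, .ofNat 769, .ofNat 0,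 .ofNat 0, .ofNat 0, .ofNat 0, .ofNat 0, .ofNat 0, .ofNat 0, .ofNat 0, .ofNat 0, .ofNat 0, .ofNat 0, .ofNat 0, .ofNat 0, .ofNat 0, .ofNat 0, .ofNat 0⟩)
    (by decide +kernel)
theorem L00471 : Good (Phi V5.P V5.D (-1) 1) ⟨3, 3, 2, 0, 2, 3, 3, 4, 4, 2⟩ :=
  leafX_sound T5.ok_mp T5.Ymp.bz_eq (w := 207) (c := ⟨⟨.negSucc 1621, .negSucc 269, .negSucc 99, .ofNat 343, .ofNat 76, .ofNat 33⟩, ⟨.negSucc 116, .ofNat 79, .negSucc 359, .ofNat 4, .ofNat 16, .ofNat 16⟩, ⟨.ofNat 796, .ofNat 198, .ofNat 20, .negSucc 349, .negSucc 42, .ofNat 5⟩, ⟨.negSucc 3997, .negSucc 222, .ofNat 3, .ofNat 829, .ofNat 161, .ofNat 39⟩, ⟨.negSucc 751, .negSucc 28, .negSucc 210, .negSucc 624, .negSucc 33, .ofNat 36⟩, .ofNat 585, .negSucc 248, .ofNat 0, .negSucc 248, .ofNat 2629, .ofNat 0, .ofNat 478, .ofNat 84, .negSucc 264, .ofNat 0, .ofNat 128, .negSucc 1, .ofNat 0,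 .ofNat 0, .ofNat 700, .ofNat 3158, .ofNat 0, .ofNat 0, .ofNat 0, .ofNat 0, .ofNat 0, .ofNat 0, .ofNat 0, .ofNat 0, .ofNat 0, .ofNat 0, .ofNat 0, .ofNat 0, .ofNat 0, .ofNat 0, .ofNat 0, .ofNat 0⟩)
    (by decide +kernel)
theorem L00472 : Good (Phi V5.P V5.D (-1) 1) ⟨3, 3, 2, 0, 2, 3, 3, 5, 5, 4⟩ :=
  leafX_sound T5.ok_mp T5.Ymp.bz_eq (w := 212) (c := ⟨⟨.negSucc 1548, .negSucc 174, .negSucc 93, .ofNat 277, .ofNat 152, .negSucc 13⟩, ⟨.negSucc 120, .ofNat 84, .negSucc 334, .ofNat 5, .ofNat 36, .ofNat 11⟩, ⟨.ofNat 761, .ofNat 89, .negSucc 0, .negSucc 252, .negSucc 93, .ofNat 2⟩, ⟨.negSucc 3800, .negSucc 51, .negSucc 23, .ofNat 698, .ofNat 322, .negSucc 59⟩, ⟨.negSucc 881, .negSucc 107, .negSucc 133, .negSucc 504, .ofNat 217, .ofNat 185⟩, .ofNat 495, .negSucc 122, .ofNat 0, .negSucc 122, .ofNat 1528, .ofNat 0, .ofNat 568, .ofNat 71, .negSucc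 423, .ofNat 0, .ofNat 128, .ofNat 13, .ofNat 0, .ofNat 0, .ofNat 907, .ofNat 2729, .ofNat 0, .ofNat 0, .ofNat 0, .ofNat 0, .ofNat 0, .ofNat 0, .ofNat 0, .ofNat 0, .ofNat 0, .ofNat 0, .ofNat 0, .ofNat 0, .ofNat 0, .ofNat 0, .ofNat 0, .ofNat 0⟩)
    (by decide +kernel)
theorem L00473 : Good (Phi V5.P V5.D (-1) 1) ⟨3, 3, 2, 0, 2, 3, 3, 5, 5, 5⟩ :=
  leafX_sound T5.ok_mp T5.Ymp.bz_eq (w := 211) (c := ⟨⟨.negSucc 1643, .negSucc 91, .negSucc 76, .ofNat 350, .ofNat 176, .ofNat 60⟩, ⟨.negSucc 120, .ofNat 87, .negSucc 330, .ofNat 22, .ofNat 51, .ofNat 22⟩, ⟨.ofNat 833, .negSucc 10, .ofNat 12, .negSucc 287, .negSucc 111, .negSucc 21⟩, ⟨.negSucc 4013, .ofNat 143, .negSucc 27, .ofNat 860, .ofNat 362, .ofNat 112⟩, ⟨.negSucc 750, .negSucc 183, .negSucc 84, .negSucc 392, .ofNat 342, .ofNat 205⟩, .ofNat 496, .negSucc 132, .ofNat 0, .negSucc 132, .ofNat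 1522, .ofNat 0, .ofNat 337, .ofNat 64, .negSucc 183, .ofNat 0, .ofNat 128, .ofNat 8, .ofNat 0, .ofNat 0, .ofNat 544, .ofNat 1907, .ofNat 0, .ofNat 0, .ofNat 0, .ofNat 0, .ofNat 0, .ofNat 0, .ofNat 0, .ofNat 0, .ofNat 0, .ofNat 0, .ofNat 0, .ofNat 0, .ofNat 0, .ofNat 0, .ofNat 0, .ofNat 0⟩)
    (by decide +kernel)
theorem L00474 : Good (Phi V5.P V5.D (-1) 1) ⟨3, 2, 2, 0, 2, 3, 3, 4, 4, 3⟩ :=
  leafX_sound T5.ok_mp T5.Ymp.bz_eq (w := 206) (c := ⟨⟨.negSucc 1475, .negSucc 107, .negSucc 43, .ofNat 178, .ofNat 78, .ofNat 143⟩, ⟨.negSucc 162, .ofNat 38, .negSucc 327, .ofNat 21, .ofNat 37, .ofNat 40⟩, ⟨.ofNat 752, .ofNat 14, .negSucc 17, .negSucc 158, .negSucc 34, .negSucc 10⟩, ⟨.negSucc 3983, .ofNat 66, .ofNat 66, .ofNat 474, .ofNat 151, .ofNat 316⟩, ⟨.negSucc 814, .negSucc 103, .negSucc 164, .negSucc 21, .ofNat 276, .ofNat 261⟩, .ofNat 549,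 .negSucc 158, .ofNat 0, .negSucc 158, .ofNat 1358, .ofNat 0, .ofNat 197, .ofNat 49, .negSucc 58, .ofNat 0, .ofNat 128, .ofNat 4, .ofNat 0, .ofNat 0, .ofNat 366, .ofNat 1411, .ofNat 0, .ofNat 0, .ofNat 0, .ofNat 0, .ofNat 0, .ofNat 0, .ofNat 0, .ofNat 0, .ofNat 0, .ofNat 0, .ofNat 0, .ofNat 0, .ofNat 0, .ofNat 6905246346338755421252532918706606440448, .ofNat 0, .ofNat 0⟩)
    (by decide +kernel)
theorem L00475 : Good (Phi V5.P V5.D (-1) 1) ⟨3, 2, 2, 0, 2, 3, 3, 5, 4, 3⟩ :=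
  leafX_sound T5.ok_mp T5.Ymp.bz_eq (w := 205) (c := ⟨⟨.negSucc 1411, .negSucc 84, .negSucc 25, .ofNat 189, .ofNat 87, .ofNat 116⟩, ⟨.negSucc 141, .ofNat 24, .negSucc 304, .ofNat 40, .ofNat 50, .ofNat 48⟩, ⟨.ofNat 726, .negSucc 30, .negSucc 34, .negSucc 110, .negSucc 25, .ofNat 21⟩, ⟨.negSucc 3813, .ofNat 115, .ofNat 51, .ofNat 493, .ofNat 160, .ofNat 234⟩, ⟨.negSucc 654, .negSucc 32, .negSucc 140, .ofNat 111, .ofNat 361, .ofNat 371⟩, .ofNat 550, .negSucc 153, .ofNat 0, .negSucc 153, .ofNat 1352, .ofNat 0, .ofNat 264, .ofNat 52, .negSucc 68, .ofNat 0, .ofNat 128, .ofNat 6, .ofNat 0, .ofNat 0, .ofNat 457, .ofNat 1180, .ofNat 0, .ofNat 0, .ofNat 0, .ofNat 0, .ofNat 0, .ofNat 11824867243067318365657482553085663379456, .ofNat 0, .ofNat 0, .ofNat 0, .ofNat 13552521433030367717620397990605431504896, .ofNat 0, .ofNat 0, .ofNat 0, .ofNat 15781783464922329423589004864770063466496,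 .ofNat 0, .ofNat 0⟩)
    (by decide +kernel)
theorem L00476 : Good (Phi V5.P V5.D (-1) 1) ⟨3, 3, 2, 0, 2, 3, 3, 4, 4, 3⟩ :=
  leafX_sound T5.ok_mp T5.Ymp.bz_eq (w := 206) (c := ⟨⟨.negSucc 1652, .negSucc 139, .negSucc 69, .ofNat 333, .ofNat 110, .ofNat 171⟩, ⟨.negSucc 117, .ofNat 72, .negSucc 330, .ofNat 26, .ofNat 26, .ofNat 39⟩, ⟨.ofNat 871, .ofNat 40, .ofNat 42, .negSucc 329, .negSucc 97, .negSucc 81⟩, ⟨.negSucc 4063, .ofNat 39, .ofNat 15, .ofNat 821, .ofNat 223, .ofNat 381⟩, ⟨.negSucc 839, .negSucc 110, .negSucc 109, .negSucc 280, .ofNat 240, .ofNat 252⟩, .ofNat 500, .negSucc 121, .ofNat 0, .negSucc 121, .ofNat 1528, .ofNat 0, .ofNat 263, .ofNat 44, .negSucc 76, .ofNat 0, .ofNat 128, .ofNat 5, .ofNat 0, .ofNat 0, .ofNat 412, .ofNat 1303, .ofNat 0, .ofNat 0, .ofNat 0, .ofNat 0, .ofNat 0, .ofNat 0, .ofNat 0, .ofNat 0, .ofNat 0, .ofNat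 0, .ofNat 0, .ofNat 0, .ofNat 0, .ofNat 6982859593937404077854871646296057315328, .ofNat 0, .ofNat 0⟩)
    (by decide +kernel)
theorem L00477 : Good (Phi V5.P V5.D (-1) 1) ⟨3, 3, 2, 0, 2, 3, 3, 5, 4, 3⟩ :=
  leafX_sound T5.ok_mp T5.Ymp.bz_eq (w := 206) (c := ⟨⟨.negSucc 1616, .negSucc 69, .negSucc 28, .ofNat 373, .ofNat 141, .ofNat 189⟩, ⟨.negSucc 120, .ofNat 76, .negSucc 299, .ofNat 44, .ofNat 50, .ofNat 56⟩, ⟨.ofNat 822, .negSucc 52, .negSucc 5, .negSucc 259, .negSucc 92, .negSucc 113⟩, ⟨.negSucc 3956, .ofNat 210, .ofNat 49, .ofNat 888, .ofNat 282, .ofNat 395⟩, ⟨.negSucc 690, .negSucc 148, .negSucc 73, .negSucc 144, .ofNat 443, .ofNat 396⟩, .ofNat 495, .negSucc 105, .ofNat 0, .negSucc 105, .ofNat 1544, .ofNat 0, .ofNat 323, .ofNat 41, .negSucc 95, .ofNat 0, .ofNat 128, .ofNat 7, .ofNat 0, .ofNat 0, .ofNat 574, .ofNat 1319, .ofNat 0,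 .ofNat 0, .ofNat 0, .ofNat 0, .ofNat 0, .ofNat 11208999238898052428333294127362145779712, .ofNat 0, .ofNat 0, .ofNat 0, .ofNat 15112598217553400473656952103135048892416, .ofNat 0, .ofNat 0, .ofNat 0, .ofNat 20021474371224883811691663754273954463744, .ofNat 0, .ofNat 0⟩)
    (by decide +kernel)
theorem L00478 : Good (Phi V5.P V5.D (-1) 1) ⟨2, 1, 2, 0, 2, 2, 3, 6, 4, 2⟩ :=
  leafX_sound T5.ok_mp T5.Ymp.bz_eq (w := 202) (c := ⟨⟨.negSucc 1171, .negSucc 393, .negSucc 42, .negSucc 89, .ofNat 131, .negSucc 26⟩, ⟨.negSucc 111, .ofNat 106, .negSucc 301, .negSucc 15, .ofNat 43, .ofNat 7⟩, ⟨.ofNat 742, .ofNat 161, .negSucc 27, .negSucc 97, .negSucc 102, .ofNat 35⟩, ⟨.negSucc 3173, .negSucc 282, .negSucc 35, .negSucc 230, .ofNat 276, .negSucc 137⟩, ⟨.negSucc 621, .ofNat 126, .negSucc 32, .negSucc 44, .ofNat 303, .ofNat 253⟩, .ofNat 519, .negSucc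 145, .ofNat 0, .negSucc 145, .ofNat 1442, .ofNat 0, .ofNat 220, .ofNat 72, .negSucc 197, .ofNat 0, .ofNat 128, .negSucc 1, .ofNat 0, .ofNat 0, .ofNat 555, .ofNat 1429, .ofNat 0, .ofNat 0, .ofNat 0, .ofNat 0, .ofNat 0, .ofNat 0, .ofNat 0, .ofNat 0, .ofNat 0, .ofNat 0, .ofNat 0, .ofNat 0, .ofNat 0, .ofNat 0, .ofNat 0, .ofNat 0⟩)
    (by decide +kernel)
theorem L00479 : Good (Phi V5.P V5.D (-1) 1) ⟨2, 1, 2, 0, 2, 2, 3, 7, 4, 2⟩ :=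
  leafX_sound T5.ok_mp T5.Ymp.bz_eq (w := 201) (c := ⟨⟨.negSucc 1097, .negSucc 243, .negSucc 9, .negSucc 126, .ofNat 258, .negSucc 28⟩, ⟨.negSucc 101, .ofNat 102, .negSucc 261, .ofNat 2, .ofNat 79, .ofNat 27⟩, ⟨.ofNat 696, .negSucc 17, .negSucc 62, .ofNat 3, .negSucc 236, .ofNat 5⟩, ⟨.negSucc 2983, .ofNat 83, .negSucc 32, .negSucc 332, .ofNat 536, .negSucc 162⟩, ⟨.negSucc 434, .ofNat 24, .ofNat 13, .ofNat 211, .ofNat 511, .ofNat 378⟩, .ofNat 529, .negSucc 154, .ofNat 0, .negSucc 154, .ofNat 1412, .ofNat 0, .ofNat 327, .ofNat 78, .negSucc 212, .ofNat 0, .ofNat 128, .negSucc 1, .ofNat 0, .ofNat 0, .ofNat 535, .ofNat 898, .ofNat 0, .ofNat 0, .ofNat 0, .ofNat 0, .ofNat 0, .ofNat 1292751093510998379841307901701834932224, .ofNat 0, .ofNat 0, .ofNat 0, .ofNat 1246540237046625496914391018530012135424, .ofNat 0, .ofNat 0, .ofNat 0, .ofNat 0,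 .ofNat 0, .ofNat 0⟩)
    (by decide +kernel)
theorem L00480 : Good (Phi V5.P V5.D (-1) 1) ⟨2, 1, 2, 0, 2, 3, 3, 6, 4, 2⟩ :=
  leafX_sound T5.ok_mp T5.Ymp.bz_eq (w := 202) (c := ⟨⟨.negSucc 1436, .negSucc 122, .negSucc 20, .ofNat 275, .ofNat 147, .ofNat 27⟩, ⟨.negSucc 169, .ofNat 94, .negSucc 285, .ofNat 43, .ofNat 74, .ofNat 67⟩, ⟨.ofNat 766, .negSucc 146, .negSucc 55, .negSucc 154, .negSucc 39, .ofNat 68⟩, ⟨.negSucc 3777, .ofNat 362, .ofNat 39, .ofNat 646, .ofNat 259, .negSucc 33⟩, ⟨.negSucc 731, .negSucc 205, .negSucc 116, .negSucc 84, .ofNat 621, .ofNat 637⟩, .ofNat 522, .negSucc 148, .ofNat 0, .negSucc 148, .ofNat 1437, .ofNat 0, .ofNat 460, .ofNat 75, .negSucc 185, .ofNat 0, .ofNat 128, .ofNat 11, .ofNat 0, .ofNat 0, .ofNat 519, .ofNat 937, .ofNat 0, .ofNat 0, .ofNat 0, .ofNat 0, .ofNat 0, .ofNat 0, .ofNat 0, .ofNat 0, .ofNat 0,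 .ofNat 370270356070906369246838760345132072960, .ofNat 0, .ofNat 0, .ofNat 0, .ofNat 173072638237587272284383099294461198336, .ofNat 0, .ofNat 0⟩)
    (by decide +kernel)
theorem L00481 : Good (Phi V5.P V5.D (-1) 1) ⟨2, 1, 2, 0, 2, 3, 3, 7, 4, 2⟩ :=
  leafX_sound T5.ok_mp T5.Ymp.bz_eq (w := 201) (c := ⟨⟨.negSucc 1297, .negSucc 126, .ofNat 41, .ofNat 198, .ofNat 240, .ofNat 24⟩, ⟨.negSucc 100, .ofNat 86, .negSucc 264, .ofNat 47, .ofNat 130, .ofNat 55⟩, ⟨.ofNat 743, .negSucc 168, .negSucc 106, .negSucc 88, .negSucc 32, .ofNat 24⟩, ⟨.negSucc 3480, .ofNat 377, .ofNat 112, .ofNat 396, .ofNat 515, .negSucc 108⟩, ⟨.negSucc 212, .negSucc 140, .negSucc 128, .ofNat 210, .ofNat 638, .ofNat 738⟩, .ofNat 625, .negSucc 255, .ofNat 0, .negSucc 255, .ofNat 2329, .ofNat 0, .ofNat 505, .ofNat 95, .negSucc 183, .ofNat 0, .ofNat 128, .ofNat 3, .ofNat 0,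 .ofNat 0, .ofNat 508, .ofNat 534, .ofNat 0, .ofNat 0, .ofNat 0, .ofNat 0, .ofNat 0, .ofNat 1526345164484257620189547135153670717440, .ofNat 0, .ofNat 0, .ofNat 0, .ofNat 685490210243033286764441475063780212736, .ofNat 0, .ofNat 0, .ofNat 0, .ofNat 831799855221741657683274898759053475840, .ofNat 0, .ofNat 0⟩)
    (by decide +kernel)
theorem L00482 : Good (Phi V5.P V5.D (-1) 1) ⟨2, 1, 2, 0, 2, 2, 2, 3, 4, 3⟩ :=
  leafX_sound T5.ok_mp T5.Ymp.bz_eq (w := 197) (c := ⟨⟨.negSucc 1322, .negSucc 247, .negSucc 1, .negSucc 20, .ofNat 267, .ofNat 99⟩, ⟨.negSucc 119, .ofNat 111, .negSucc 289, .ofNat 8, .ofNat 89, .ofNat 29⟩, ⟨.ofNat 918, .negSucc 3, .negSucc 70, .negSucc 136, .negSucc 279, .negSucc 64⟩, ⟨.negSucc 3572, .ofNat 100, .ofNat 19, .negSucc 84, .ofNat 549, .ofNat 197⟩, ⟨.negSucc 485, .ofNat 117, .negSucc 37, .ofNat 161, .ofNat 805, .ofNat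 211⟩, .ofNat 526, .negSucc 146, .ofNat 0, .negSucc 146, .ofNat 1419, .ofNat 0, .ofNat 292, .ofNat 62, .negSucc 95, .ofNat 0, .ofNat 128, .negSucc 0, .ofNat 0, .ofNat 0, .ofNat 448, .ofNat 774, .ofNat 0, .ofNat 0, .ofNat 0, .ofNat 0, .ofNat 0, .ofNat 335648028187403105376879185478782287872, .ofNat 0, .ofNat 0, .ofNat 0, .ofNat 369129880892968705417628293221184438272, .ofNat 0, .ofNat 0, .ofNat 0, .ofNat 178576534986613339614590070769816961024, .ofNat 0, .ofNat 0⟩)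
    (by decide +kernel)
theorem L00483 : Good (Phi V5.P V5.D (-1) 1) ⟨3, 2, 2, 0, 2, 3, 2, 3, 4, 3⟩ :=
  leafX_sound T5.ok_mp T5.Ymp.bz_eq (w := 201) (c := ⟨⟨.negSucc 1367, .negSucc 38, .ofNat 18, .ofNat 204, .ofNat 176, .ofNat 102⟩, ⟨.negSucc 112, .ofNat 27, .negSucc 285, .ofNat 72, .ofNat 142, .ofNat 54⟩, ⟨.ofNat 762, .negSucc 112, .negSucc 76, .negSucc 57, .ofNat 8, .ofNat 2⟩, ⟨.negSucc 3707, .ofNat 228, .ofNat 78, .ofNat 468, .ofNat 267, .ofNat 205⟩, ⟨.negSucc 332, .negSucc 65, .negSucc 84, .ofNat 390, .ofNat 1273, .ofNat 406⟩, .ofNat 553, .negSucc 161, .ofNat 0, .negSucc 161, .ofNat 1344, .ofNat 0, .ofNat 452, .ofNat 58, .negSucc 76, .ofNat 0, .ofNat 128, .ofNat 6, .ofNat 0, .ofNat 0, .ofNat 499, .ofNat 506, .ofNat 0, .ofNat 0, .ofNat 0, .ofNat 0, .ofNat 0, .ofNat 6760991782390557812977184052928428638208, .ofNat 0, .ofNat 0, .ofNat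 0, .ofNat 4082657603653797144553072940387689037824, .ofNat 0, .ofNat 0, .ofNat 0, .ofNat 7510840696283003830129734808867159670784, .ofNat 0, .ofNat 0⟩)
    (by decide +kernel)
theorem L00484 : Good (Phi V5.P V5.D (-1) 1) ⟨3, 3, 2, 0, 2, 3, 2, 3, 4, 3⟩ :=
  leafX_sound T5.ok_mp T5.Ymp.bz_eq (w := 200) (c := ⟨⟨.negSucc 1445, .negSucc 100, .negSucc 0, .ofNat 356, .ofNat 322, .ofNat 149⟩, ⟨.negSucc 65, .ofNat 75, .negSucc 280, .ofNat 34, .ofNat 108, .ofNat 35⟩, ⟨.ofNat 717, .negSucc 39, .negSucc 53, .negSucc 221, .negSucc 187, .negSucc 117⟩, ⟨.negSucc 3575, .ofNat 158, .ofNat 55, .ofNat 799, .ofNat 580, .ofNat 299⟩, ⟨.negSucc 313, .negSucc 104, .negSucc 53, .ofNat 93, .ofNat 982, .ofNat 371⟩, .ofNat 580, .negSucc 232, .ofNat 0, .negSucc 232, .ofNat 2656, .ofNat 0, .ofNat 375, .ofNat 74, .negSucc 67, .ofNat 0, .ofNat 128, .ofNat 1, .ofNat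 0, .ofNat 0, .ofNat 388, .ofNat 201, .ofNat 0, .ofNat 0, .ofNat 0, .ofNat 0, .ofNat 0, .ofNat 3319610525279424114120876440576916979712, .ofNat 0, .ofNat 0, .ofNat 0, .ofNat 2251265063635814660919846958853420744704, .ofNat 0, .ofNat 0, .ofNat 0, .ofNat 3962157070216807122145999199506842779648, .ofNat 0, .ofNat 0⟩)
    (by decide +kernel)
theorem L00485 : Good (Phi V5.P V5.D (-1) 1) ⟨2, 1, 2, 0, 2, 2, 2, 2, 4, 4⟩ :=
  leafX_sound T5.ok_mp T5.Ymp.bz_eq (w := 198) (c := ⟨⟨.negSucc 1401, .negSucc 287, .negSucc 42, .ofNat 63, .ofNat 165, .ofNat 137⟩, ⟨.negSucc 130, .ofNat 103, .negSucc 299, .negSucc 3, .ofNat 52, .ofNat 26⟩, ⟨.ofNat 1089, .ofNat 113, .ofNat 37, .negSucc 298, .negSucc 246, .negSucc 53⟩, ⟨.negSucc 3791, .ofNat 3, .negSucc 18, .ofNat 165, .ofNat 343, .ofNat 308⟩, ⟨.negSucc 493, .ofNat 41, .negSucc 23, .negSucc 118, .ofNat 337,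 .ofNat 94⟩, .ofNat 522, .negSucc 139, .ofNat 0, .negSucc 139, .ofNat 1437, .ofNat 0, .ofNat 239, .ofNat 52, .negSucc 71, .ofNat 0, .ofNat 128, .ofNat 0, .ofNat 0, .ofNat 0, .ofNat 630, .ofNat 1883, .ofNat 0, .ofNat 0, .ofNat 0, .ofNat 0, .ofNat 0, .ofNat 120847904403232996005953030997007138816, .ofNat 0, .ofNat 0, .ofNat 0, .ofNat 0, .ofNat 0, .ofNat 0, .ofNat 0, .ofNat 440057320912811872101091169095127138304, .ofNat 0, .ofNat 0⟩)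
    (by decide +kernel)
theorem L00486 : Good (Phi V5.P V5.D (-1) 1) ⟨2, 1, 2, 0, 2, 3, 2, 2, 4, 4⟩ :=
  leafX_sound T5.ok_mp T5.Ymp.bz_eq (w := 196) (c := ⟨⟨.negSucc 1372, .negSucc 202, .negSucc 15, .ofNat 213, .ofNat 166, .ofNat 153⟩, ⟨.negSucc 146, .ofNat 131, .negSucc 307, .ofNat 23, .ofNat 68, .ofNat 35⟩, ⟨.ofNat 828, .negSucc 46, .negSucc 22, .negSucc 198, .negSucc 217, .negSucc 39⟩, ⟨.negSucc 3741, .ofNat 222, .ofNat 88, .ofNat 547, .ofNat 314, .ofNat 356⟩, ⟨.negSucc 616, .negSucc 94, .negSucc 128, .ofNat 40, .ofNat 637, .ofNat 189⟩, .ofNat 528, .negSucc 137, .ofNat 0, .negSucc 137, .ofNat 1410, .ofNat 0, .ofNat 264, .ofNat 41, .negSucc 26, .ofNat 0, .ofNat 128, .ofNat 3, .ofNat 0, .ofNat 0, .ofNat 481, .ofNat 339, .ofNat 0, .ofNat 0, .ofNat 0, .ofNat 0, .ofNat 0, .ofNat 0, .ofNat 0, .ofNat 0, .ofNat 0, .ofNat 0, .ofNat 0, .ofNat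 0, .ofNat 0, .ofNat 398472473677042244774139753483517034496, .ofNat 0, .ofNat 0⟩)
    (by decide +kernel)
theorem L00487 : Good (Phi V5.P V5.D (-1) 1) ⟨2, 1, 2, 0, 1, 1, 2, 3, 4, 4⟩ :=
  leafX_sound T5.ok_mp T5.Ymp.bz_eq (w := 182) (c := ⟨⟨.negSucc 1253, .negSucc 171, .ofNat 7, .negSucc 4, .ofNat 233, .ofNat 88⟩, ⟨.negSucc 109, .ofNat 96, .negSucc 259, .ofNat 54, .ofNat 95, .ofNat 39⟩, ⟨.ofNat 909, .negSucc 68, .negSucc 89, .negSucc 340, .negSucc 356, .negSucc 40⟩, ⟨.negSucc 3419, .ofNat 194, .ofNat 45, .negSucc 59, .ofNat 452, .ofNat 215⟩, ⟨.negSucc 268, .ofNat 104, .ofNat 12, .ofNat 416, .ofNat 676, .ofNat 138⟩, .ofNat 369, .negSucc 54, .ofNat 0, .negSucc 54, .ofNat 668, .ofNat 0, .ofNat 237, .ofNat 33, .negSucc 77, .ofNat 0, .ofNat 128, .ofNat 0, .ofNat 0, .ofNat 0, .ofNat 531, .ofNat 447, .ofNat 0, .ofNat 0, .ofNat 0, .ofNat 0,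 .ofNat 0, .ofNat 123063712162045163362677876408188928, .ofNat 0, .ofNat 0, .ofNat 0, .ofNat 83067106651429943271282053377687552, .ofNat 0, .ofNat 0, .ofNat 0, .ofNat 138969210987770564874795474143412224, .ofNat 0, .ofNat 0⟩)
    (by decide +kernel)
theorem L00488 : Good (Phi V5.P V5.D (-1) 1) ⟨2, 1, 2, 0, 3, 4, 1, 1, 4, 5⟩ :=
  leafX_sound T5.ok_mp T5.Ymp.bz_eq (w := 208) (c := ⟨⟨.negSucc 1274, .negSucc 273, .negSucc 11, .ofNat 16, .ofNat 285, .ofNat 123⟩, ⟨.negSucc 113, .ofNat 121, .negSucc 287, .ofNat 1, .ofNat 80, .ofNat 15⟩, ⟨.ofNat 1088, .ofNat 109, .negSucc 16, .negSucc 145, .negSucc 651, .ofNat 0⟩, ⟨.negSucc 3491, .ofNat 48, .ofNat 14, .ofNat 49, .ofNat 611, .ofNat 275⟩, ⟨.negSucc 410, .ofNat 24, .negSucc 9, .negSucc 49, .ofNat 674, .ofNat 113⟩, .ofNat 526, .negSucc 157, .ofNat 0, .negSucc 157, .ofNat 1424, .ofNat 0, .ofNat 275,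 .ofNat 57, .negSucc 48, .ofNat 0, .ofNat 128, .negSucc 2, .ofNat 0, .ofNat 0, .ofNat 784, .ofNat 1267, .ofNat 0, .ofNat 0, .ofNat 0, .ofNat 0, .ofNat 0, .ofNat 765577108525613170122638261599272695758848, .ofNat 0, .ofNat 0, .ofNat 0, .ofNat 812633425931277985435227078369001359802368, .ofNat 0, .ofNat 0, .ofNat 0, .ofNat 1048311989417590258936786183808051289522176, .ofNat 0, .ofNat 0⟩)
    (by decide +kernel)
theorem L00489 : Good (Phi V5.P V5.D (-1) 1) ⟨2, 1, 2, 0, 3, 5, 1, 1, 4, 5⟩ :=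
  leafX_sound T5.ok_mp T5.Ymp.bz_eq (w := 208) (c := ⟨⟨.negSucc 1290, .negSucc 213, .negSucc 2, .ofNat 77, .ofNat 267, .ofNat 142⟩, ⟨.negSucc 127, .ofNat 118, .negSucc 272, .ofNat 11, .ofNat 108, .ofNat 25⟩, ⟨.ofNat 1015, .negSucc 37, .negSucc 44, .negSucc 202, .negSucc 484, .negSucc 35⟩, ⟨.negSucc 3512, .ofNat 152, .ofNat 65, .ofNat 181, .ofNat 547, .ofNat 325⟩, ⟨.negSucc 481, .ofNat 22, .ofNat 2, .ofNat 14, .ofNat 847, .ofNat 132⟩, .ofNat 528, .negSucc 151, .ofNat 0, .negSucc 151, .ofNat 1457, .ofNat 0, .ofNat 335, .ofNat 51, .ofNat 23, .ofNat 0, .ofNat 128, .negSucc 9, .ofNat 0, .ofNat 0, .ofNat 1239, .ofNat 1014, .ofNat 0, .ofNat 0, .ofNat 0, .ofNat 0, .ofNat 0, .ofNat 1077457780558752763472029326962372833705984, .ofNat 0, .ofNat 0, .ofNat 0, .ofNat 708956864189273219828901359368823239606272, .ofNat 0, .ofNat 0, .ofNat 0, .ofNat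 3084212738374140336461571755945546049650688, .ofNat 0, .ofNat 0⟩)
    (by decide +kernel)
theorem L00490 : Good (Phi V5.P V5.D (-1) 1) ⟨2, 1, 2, 0, 2, 3, 1, 1, 4, 5⟩ :=
  leafX_sound T5.ok_mp T5.Ymp.bz_eq (w := 193) (c := ⟨⟨.negSucc 1230, .negSucc 167, .negSucc 4, .ofNat 233, .ofNat 280, .ofNat 150⟩, ⟨.negSucc 119, .ofNat 112, .negSucc 267, .ofNat 33, .ofNat 132, .ofNat 37⟩, ⟨.ofNat 859, .negSucc 165, .negSucc 4, .negSucc 448, .negSucc 501, .negSucc 75⟩, ⟨.negSucc 3367, .ofNat 233, .ofNat 81, .ofNat 562, .ofNat 559, .ofNat 363⟩, ⟨.negSucc 462, .negSucc 27, .negSucc 35, .ofNat 71, .ofNat 1123, .ofNat 199⟩, .ofNat 368, .negSucc 48, .ofNat 0, .negSucc 48, .ofNat 672, .ofNat 0, .ofNat 172, .ofNat 18, .negSucc 16, .ofNat 0, .ofNat 128, .ofNat 4, .ofNat 0, .ofNat 0, .ofNat 605, .ofNat 1024, .ofNat 0, .ofNat 0, .ofNat 0, .ofNat 0, .ofNat 0,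 .ofNat 220057419641550008763299854359761780736, .ofNat 0, .ofNat 0, .ofNat 0, .ofNat 215551050171425323382224405231879323648, .ofNat 0, .ofNat 0, .ofNat 0, .ofNat 316410342949334411785590263925539078144, .ofNat 0, .ofNat 0⟩)
    (by decide +kernel)
theorem L00491 : Good (Phi V5.P V5.D (-1) 1) ⟨2, 1, 2, 0, 2, 2, 1, 1, 3, 3⟩ :=
  leafX_sound T5.ok_mp T5.Ymp.bz_eq (w := 187) (c := ⟨⟨.negSucc 1181, .negSucc 200, .negSucc 16, .ofNat 70, .ofNat 219, .ofNat 223⟩, ⟨.negSucc 98, .ofNat 94, .negSucc 257, .ofNat 10, .ofNat 83, .ofNat 33⟩, ⟨.ofNat 1186, .negSucc 25, .negSucc 55, .negSucc 325, .negSucc 746, .negSucc 15⟩, ⟨.negSucc 3238, .ofNat 119, .ofNat 22, .ofNat 195, .ofNat 486, .ofNat 521⟩, ⟨.negSucc 330, .ofNat 58, .ofNat 3, .negSucc 23, .ofNat 641, .ofNat 125⟩, .ofNat 370, .negSucc 47, .ofNat 0, .negSucc 47, .ofNat 668, .ofNat 0, .ofNat 207,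 .ofNat 24, .negSucc 24, .ofNat 0, .ofNat 128, .negSucc 10, .ofNat 0, .ofNat 0, .ofNat 1095, .ofNat 370, .ofNat 0, .ofNat 0, .ofNat 0, .ofNat 0, .ofNat 0, .ofNat 27807343749625709725646343283763314688, .ofNat 0, .ofNat 0, .ofNat 0, .ofNat 15674152374649419317709374031094874112, .ofNat 0, .ofNat 0, .ofNat 0, .ofNat 92949039026718156524590101872703963136, .ofNat 0, .ofNat 0⟩)
    (by decide +kernel)
theorem L00492 : Good (Phi V5.P V5.D (-1) 1) ⟨2, 1, 2, 0, 2, 3, 1, 1, 3, 3⟩ :=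
  out_sound (S := T5.ds_mp) T5.ok_mp (w := 26) (j := 2) (by decide +kernel)
theorem L00493 : Good (Phi V5.P V5.D (-1) 1) ⟨2, 1, 2, 0, 4, 8, 3, 4, 4, 8⟩ :=
  out_sound (S := T5.ds_mp) T5.ok_mp (w := 29) (j := 1) (by decide +kernel)
theorem L00494 : Good (Phi V5.P V5.D (-1) 1) ⟨2, 1, 2, 0, 4, 8, 3, 5, 4, 8⟩ :=
  out_sound (S := T5.ds_mp) T5.ok_mp (w := 36) (j := 2) (by decide +kernel)
theorem L00495 : Good (Phi V5.P V5.D (-1) 1) ⟨2, 1, 2, 0, 4, 8, 2, 2, 4, 9⟩ :=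
  out_sound (S := T5.ds_mp) T5.ok_mp (w := 28) (j := 1) (by decide +kernel)
theorem L00496 : Good (Phi V5.P V5.D (-1) 1) ⟨2, 1, 2, 0, 4, 9, 2, 2, 3, 4⟩ :=
  out_sound (S := T5.ds_mp) T5.ok_mp (w := 32) (j := 2) (by decide +kernel)
theorem L00497 : Good (Phi V5.P V5.D (-1) 1) ⟨2, 1, 2, 0, 3, 4, 2, 3, 3, 4⟩ :=
  out_sound (S := T5.ds_mp) T5.ok_mp (w := 30) (j := 2) (by decide +kernel)
theorem L00498 : Good (Phi V5.P V5.D (-1) 1) ⟨2, 1, 2, 0, 3, 4, 1, 1, 3, 5⟩ :=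
  out_sound (S := T5.ds_mp) T5.ok_mp (w := 28) (j := 2) (by decide +kernel)
theorem L00499 : Good (Phi V5.P V5.D (-1) 1) ⟨2, 1, 2, 0, 3, 5, 1, 1, 2, 2⟩ :=
  out_sound (S := T5.ds_mp) T5.ok_mp (w := 26) (j := 2) (by decide +kernel)
theorem L00500 : Good (Phi V5.P V5.D (-1) 1) ⟨2, 1, 2, 0, 2, 2, 1, 1, 2, 3⟩ :=
  out_sound (S := T5.ds_mp) T5.ok_mp (w := 24) (j := 2) (by decide +kernel)
theorem L00501 : Good (Phi V5.P V5.D (-1) 1) ⟨2, 1, 2, 0, 2, 3, 1, 1, 1, 1⟩ :=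
  out_sound (S := T5.ds_mp) T5.ok_mp (w := 22) (j := 2) (by decide +kernel)
theorem L00502 : Good (Phi V5.P V5.D (-1) 1) ⟨2, 1, 2, 1, 1, 0, 3, 0, 3, 0⟩ :=
  leafX_sound T5.ok_mp T5.Ymp.bz_eq (w := 182) (c := ⟨⟨.ofNat 771, .negSucc 101, .negSucc 68, .negSucc 162, .ofNat 110, .negSucc 2415⟩, ⟨.ofNat 217, .ofNat 52, .negSucc 34, .negSucc 180, .ofNat 47, .negSucc 746⟩, ⟨.negSucc 710, .ofNat 140, .ofNat 58, .ofNat 333, .negSucc 229, .ofNat 2205⟩, ⟨.ofNat 1685, .negSucc 2, .negSucc 84, .ofNat 25, .ofNat 286, .negSucc 6160⟩, ⟨.negSucc 30, .negSucc 120, .ofNat 31, .negSucc 1178, .ofNat 101, .ofNat 172⟩, .ofNat 387, .negSucc 122, .ofNat 0, .negSucc 122, .ofNat 657, .ofNat 0, .ofNat 263, .ofNat 65, .negSucc 212, .ofNat 0, .ofNat 128, .negSucc 32, .ofNat 0, .ofNat 0, .ofNat 608, .ofNat 2465, .ofNat 0, .ofNat 0, .ofNat 0, .ofNat 0, .ofNat 776993333595325108189543196847505408,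 .ofNat 0, .ofNat 0, .ofNat 0, .ofNat 0, .ofNat 0, .ofNat 0, .ofNat 0, .ofNat 4588604678778876678496002598036832256, .ofNat 0, .ofNat 0, .ofNat 0⟩)
    (by decide +kernel)
theorem L00503 : Good (Phi V5.P V5.D (-1) 1) ⟨2, 1, 2, 1, 1, 0, 3, 1, 3, 0⟩ :=
  leafX_sound T5.ok_mp T5.Ymp.bz_eq (w := 181) (c := ⟨⟨.ofNat 740, .negSucc 235, .negSucc 97, .negSucc 68, .ofNat 14, .negSucc 2226⟩, ⟨.ofNat 234, .negSucc 8, .negSucc 116, .negSucc 49, .ofNat 22, .negSucc 736⟩, ⟨.negSucc 693, .ofNat 215, .ofNat 212, .negSucc 63, .negSucc 43, .ofNat 2055⟩, ⟨.ofNat 1749, .negSucc 338, .negSucc 99, .ofNat 183, .ofNat 40, .negSucc 5833⟩, ⟨.ofNat 14, .ofNat 7, .negSucc 96, .negSucc 998, .ofNat 195, .ofNat 35⟩, .ofNat 390, .negSucc 127, .ofNat 0, .negSucc 127, .ofNat 663, .ofNat 0, .ofNat 241, .ofNat 68, .negSucc 164, .ofNat 0, .ofNat 128, .negSucc 26, .ofNat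 0, .ofNat 0, .ofNat 404, .ofNat 826, .ofNat 0, .ofNat 0, .ofNat 0, .ofNat 0, .ofNat 0, .ofNat 0, .ofNat 0, .ofNat 0, .ofNat 0, .ofNat 0, .ofNat 0, .ofNat 0, .ofNat 0, .ofNat 0, .ofNat 62738622440409684607846016090112, .ofNat 0⟩)
    (by decide +kernel)
theorem L00504 : Good (Phi V5.P V5.D (-1) 1) ⟨2, 1, 2, 1, 1, 0, 2, 1, 3, 0⟩ :=
  leafX_sound T5.ok_mp T5.Ymp.bz_eq (w := 177) (c := ⟨⟨.ofNat 504, .negSucc 264, .negSucc 15, .negSucc 51, .ofNat 17, .negSucc 1967⟩, ⟨.ofNat 261, .negSucc 0, .negSucc 155, .negSucc 46, .negSucc 3, .negSucc 708⟩, ⟨.negSucc 474, .ofNat 118, .ofNat 59, .negSucc 107, .negSucc 68, .ofNat 1936⟩, ⟨.ofNat 1206, .negSucc 291, .ofNat 60, .ofNat 238, .negSucc 43, .negSucc 5205⟩, ⟨.ofNat 25, .negSucc 286, .negSucc 76, .negSucc 684, .ofNat 141, .ofNat 196⟩, .ofNat 390, .negSucc 127, .ofNat 0, .negSucc 127, .ofNat 663,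 .ofNat 0, .ofNat 263, .ofNat 67, .negSucc 223, .ofNat 0, .ofNat 128, .negSucc 38, .ofNat 0, .ofNat 0, .ofNat 487, .ofNat 480, .ofNat 0, .ofNat 0, .ofNat 0, .ofNat 0, .ofNat 0, .ofNat 0, .ofNat 0, .ofNat 0, .ofNat 0, .ofNat 0, .ofNat 0, .ofNat 0, .ofNat 0, .ofNat 0, .ofNat 0, .ofNat 0⟩)
    (by decide +kernel)
theorem L00505 : Good (Phi V5.P V5.D (-1) 1) ⟨2, 1, 2, 1, 1, 0, 2, 2, 4, 0⟩ :=
  leafX_sound T5.ok_mp T5.Ymp.bz_eq (w := 182) (c := ⟨⟨.ofNat 122, .negSucc 277, .negSucc 65, .ofNat 185, .negSucc 347, .negSucc 920⟩, ⟨.ofNat 60, .negSucc 2, .negSucc 141, .ofNat 29, .negSucc 111, .negSucc 306⟩, ⟨.negSucc 75, .ofNat 158, .ofNat 104, .negSucc 465, .ofNat 309, .ofNat 802⟩, ⟨.ofNat 80, .negSucc 319, .negSucc 121, .ofNat 722, .negSucc 875, .negSucc 2319⟩, ⟨.negSucc 10, .negSucc 182, .ofNat 102, .negSucc 632, .ofNat 69, .ofNat 50⟩, .ofNat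 609, .negSucc 371, .ofNat 0, .negSucc 371, .ofNat 1413, .ofNat 0, .ofNat 226, .ofNat 113, .negSucc 253, .ofNat 0, .ofNat 128, .negSucc 68, .ofNat 0, .ofNat 0, .ofNat 540, .ofNat 365, .ofNat 0, .ofNat 0, .ofNat 0, .ofNat 0, .ofNat 0, .ofNat 0, .ofNat 0, .ofNat 0, .ofNat 0, .ofNat 0, .ofNat 0, .ofNat 0, .ofNat 0, .ofNat 0, .ofNat 0, .ofNat 0⟩)
    (by decide +kernel)
theorem L00506 : Good (Phi V5.P V5.D (-1) 1) ⟨2, 1, 2, 1, 1, 0, 2, 2, 4, 1⟩ :=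
  leafX_sound T5.ok_mp T5.Ymp.bz_eq (w := 183) (c := ⟨⟨.negSucc 828, .negSucc 486, .negSucc 81, .negSucc 117, .ofNat 73, .negSucc 290⟩, ⟨.negSucc 231, .ofNat 52, .negSucc 303, .negSucc 77, .ofNat 36, .negSucc 108⟩, ⟨.ofNat 834, .ofNat 420, .ofNat 130, .negSucc 404, .negSucc 103, .ofNat 281⟩, ⟨.negSucc 2396, .negSucc 493, .negSucc 143, .negSucc 100, .ofNat 161, .negSucc 758⟩, ⟨.ofNat 24, .negSucc 27, .negSucc 2, .negSucc 583, .ofNat 14, .ofNat 14⟩, .ofNat 605, .negSucc 366, .ofNat 0, .negSucc 366, .ofNat 1411, .ofNat 0, .ofNat 281, .ofNat 112, .negSucc 131, .ofNat 0, .ofNat 128, .negSucc 31, .ofNat 0, .ofNat 0, .ofNat 382, .ofNat 1082, .ofNat 0, .ofNat 0, .ofNat 0, .ofNat 0, .ofNat 0, .ofNat 0, .ofNat 0, .ofNat 0, .ofNat 0, .ofNat 0, .ofNat 0, .ofNat 0, .ofNat 0, .ofNat 0, .ofNat 0, .ofNat 0⟩)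
    (by decide +kernel)
theorem L00507 : Good (Phi V5.P V5.D (-1) 1) ⟨2, 1, 2, 1, 1, 0, 3, 6, 4, 0⟩ :=
  leafX_sound T5.ok_mp T5.Ymp.bz_eq (w := 186) (c := ⟨⟨.negSucc 357, .negSucc 458, .negSucc 74, .ofNat 58, .negSucc 39, .negSucc 444⟩, ⟨.negSucc 85, .negSucc 10, .negSucc 192, .negSucc 40, .negSucc 17, .negSucc 147⟩, ⟨.ofNat 406, .ofNat 335, .ofNat 76, .negSucc 369, .ofNat 2, .ofNat 352⟩, ⟨.negSucc 1033, .negSucc 720, .negSucc 150, .ofNat 371, .negSucc 142, .negSucc 1192⟩, ⟨.ofNat 19, .negSucc 22, .negSucc 38, .negSucc 549, .negSucc 49, .ofNat 46⟩, .ofNat 389, .negSucc 122, .ofNat 0, .negSucc 122, .ofNat 655, .ofNat 0, .ofNat 310, .ofNat 67, .negSucc 336, .ofNat 0, .ofNat 128, .negSucc 63, .ofNat 0, .ofNat 0, .ofNat 579, .ofNat 809, .ofNat 0, .ofNat 0, .ofNat 0, .ofNat 0, .ofNat 0, .ofNat 0, .ofNat 0, .ofNat 0, .ofNat 0, .ofNat 0,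 .ofNat 0, .ofNat 0, .ofNat 0, .ofNat 0, .ofNat 0, .ofNat 0⟩)
    (by decide +kernel)
theorem L00508 : Good (Phi V5.P V5.D (-1) 1) ⟨2, 1, 2, 1, 1, 0, 3, 7, 4, 0⟩ :=
  leafX_sound T5.ok_mp T5.Ymp.bz_eq (w := 187) (c := ⟨⟨.negSucc 504, .negSucc 293, .negSucc 82, .negSucc 197, .ofNat 401, .negSucc 176⟩, ⟨.negSucc 137, .ofNat 2, .negSucc 169, .negSucc 125, .ofNat 139, .negSucc 46⟩, ⟨.ofNat 506, .ofNat 151, .ofNat 90, .negSucc 64, .negSucc 430, .ofNat 69⟩, ⟨.negSucc 1423, .negSucc 370, .negSucc 125, .negSucc 355, .ofNat 1011, .negSucc 443⟩, ⟨.negSucc 49, .negSucc 65, .negSucc 17, .negSucc 442, .negSucc 59, .ofNat 17⟩, .ofNat 607, .negSucc 371, .ofNat 0, .negSucc 371, .ofNat 1427, .ofNat 0, .ofNat 271, .ofNat 115, .negSucc 321, .ofNat 0, .ofNat 128, .negSucc 84, .ofNat 0, .ofNat 0, .ofNat 610, .ofNat 1156, .ofNat 0, .ofNat 0, .ofNat 0, .ofNat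 0, .ofNat 0, .ofNat 0, .ofNat 0, .ofNat 0, .ofNat 0, .ofNat 0, .ofNat 0, .ofNat 0, .ofNat 0, .ofNat 0, .ofNat 0, .ofNat 0⟩)
    (by decide +kernel)
theorem L00509 : Good (Phi V5.P V5.D (-1) 1) ⟨2, 1, 2, 1, 1, 0, 3, 6, 4, 1⟩ :=
  leafX_sound T5.ok_mp T5.Ymp.bz_eq (w := 187) (c := ⟨⟨.negSucc 856, .negSucc 452, .negSucc 30, .negSucc 218, .ofNat 177, .negSucc 134⟩, ⟨.negSucc 258, .ofNat 59, .negSucc 273, .negSucc 90, .ofNat 38, .negSucc 21⟩, ⟨.ofNat 869, .ofNat 341, .ofNat 44, .negSucc 233, .negSucc 215, .ofNat 69⟩, ⟨.negSucc 2428, .negSucc 479, .negSucc 52, .negSucc 375, .ofNat 395, .negSucc 331⟩, ⟨.negSucc 117, .ofNat 46, .ofNat 12, .negSucc 440, .ofNat 55, .ofNat 65⟩, .ofNat 595, .negSucc 356, .ofNat 0, .negSucc 356, .ofNat 1418, .ofNat 0, .ofNat 253, .ofNat 111, .negSucc 135, .ofNat 0, .ofNat 128, .negSucc 33, .ofNat 0, .ofNat 0, .ofNat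 353, .ofNat 1137, .ofNat 0, .ofNat 0, .ofNat 0, .ofNat 0, .ofNat 0, .ofNat 0, .ofNat 0, .ofNat 0, .ofNat 0, .ofNat 0, .ofNat 0, .ofNat 0, .ofNat 0, .ofNat 0, .ofNat 0, .ofNat 0⟩)
    (by decide +kernel)
theorem L00510 : Good (Phi V5.P V5.D (-1) 1) ⟨2, 1, 2, 1, 1, 0, 4, 14, 4, 1⟩ :=
  leafX_sound T5.ok_mp T5.Ymp.bz_eq (w := 192) (c := ⟨⟨.negSucc 720, .negSucc 365, .negSucc 86, .negSucc 245, .ofNat 231, .negSucc 90⟩, ⟨.negSucc 204, .ofNat 30, .negSucc 226, .negSucc 119, .ofNat 79, .negSucc 33⟩, ⟨.ofNat 697, .ofNat 236, .ofNat 60, .negSucc 163, .negSucc 240, .ofNat 13⟩, ⟨.negSucc 2007, .negSucc 383, .negSucc 129, .negSucc 488, .ofNat 527, .negSucc 283⟩, ⟨.negSucc 179, .ofNat 90, .negSucc 17, .negSucc 333, .ofNat 31, .ofNat 126⟩, .ofNat 607, .negSucc 367, .ofNat 0, .negSucc 367, .ofNat 1411, .ofNat 0, .ofNat 253, .ofNat 112, .negSucc 139,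 .ofNat 0, .ofNat 128, .negSucc 35, .ofNat 0, .ofNat 0, .ofNat 336, .ofNat 1773, .ofNat 0, .ofNat 0, .ofNat 0, .ofNat 0, .ofNat 0, .ofNat 0, .ofNat 0, .ofNat 0, .ofNat 0, .ofNat 0, .ofNat 0, .ofNat 0, .ofNat 0, .ofNat 0, .ofNat 0, .ofNat 0⟩)
    (by decide +kernel)
theorem L00511 : Good (Phi V5.P V5.D (-1) 1) ⟨2, 1, 2, 1, 2, 0, 4, 15, 4, 1⟩ :=
  leafX_sound T5.ok_mp T5.Ymp.bz_eq (w := 205) (c := ⟨⟨.negSucc 618, .negSucc 182, .negSucc 44, .negSucc 57, .ofNat 470, .negSucc 89⟩, ⟨.negSucc 183, .ofNat 5, .negSucc 127, .negSucc 33, .ofNat 166, .negSucc 35⟩, ⟨.ofNat 491, .ofNat 128, .ofNat 48, .negSucc 65, .negSucc 525, .negSucc 6⟩, ⟨.negSucc 1710, .negSucc 178, .negSucc 73, .negSucc 77, .ofNat 1221, .negSucc 231⟩, ⟨.negSucc 62, .ofNat 30, .ofNat 1, .negSucc 206, .negSucc 3, .ofNat 55⟩, .ofNat 390, .negSucc 124, .ofNat 0, .negSucc 124, .ofNat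 654, .ofNat 0, .ofNat 204, .ofNat 63, .negSucc 232, .ofNat 0, .ofNat 128, .negSucc 49, .ofNat 0, .ofNat 0, .ofNat 432, .ofNat 1396, .ofNat 0, .ofNat 0, .ofNat 0, .ofNat 0, .ofNat 0, .ofNat 0, .ofNat 0, .ofNat 0, .ofNat 0, .ofNat 0, .ofNat 0, .ofNat 0, .ofNat 0, .ofNat 2671254890926116288956554354271333646336, .ofNat 144689078895131230565326360234959044608, .ofNat 0⟩)
    (by decide +kernel)
theorem L00512 : Good (Phi V5.P V5.D (-1) 1) ⟨2, 1, 2, 1, 2, 1, 4, 15, 4, 1⟩ :=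
  leafX_sound T5.ok_mp T5.Ymp.bz_eq (w := 206) (c := ⟨⟨.negSucc 703, .negSucc 175, .negSucc 51, .negSucc 229, .ofNat 442, .negSucc 39⟩, ⟨.negSucc 236, .ofNat 66, .negSucc 170, .negSucc 86, .ofNat 136, .ofNat 12⟩, ⟨.ofNat 485, .ofNat 31, .ofNat 44, .ofNat 27, .negSucc 459, .negSucc 57⟩, ⟨.negSucc 1791, .negSucc 94, .negSucc 80, .negSucc 545, .ofNat 1032, .negSucc 166⟩, ⟨.negSucc 372, .ofNat 97, .negSucc 26, .negSucc 103, .ofNat 69, .ofNat 163⟩, .ofNat 606, .negSucc 368, .ofNat 0, .negSucc 368, .ofNat 1413, .ofNat 0, .ofNat 222, .ofNat 119, .negSucc 188, .ofNat 0, .ofNat 128, .negSucc 44, .ofNat 0, .ofNat 0, .ofNat 381, .ofNat 1472, .ofNat 0, .ofNat 123024955455270988548523739623247052800, .ofNat 0, .ofNat 0, .ofNat 0, .ofNat 2239745366296335325341409356060146270208, .ofNat 0, .ofNat 0, .ofNat 0, .ofNat 0, .ofNat 0, .ofNat 0, .ofNat 0,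 .ofNat 1928125975454208270219215887995729084416, .ofNat 0, .ofNat 0⟩)
    (by decide +kernel)
theorem L00513 : Good (Phi V5.P V5.D (-1) 1) ⟨2, 1, 2, 1, 1, 0, 1, 0, 3, 1⟩ :=
  leafX_sound T5.ok_mp T5.Ymp.bz_eq (w := 174) (c := ⟨⟨.negSucc 1500, .negSucc 439, .negSucc 29, .negSucc 201, .ofNat 262, .ofNat 58⟩, ⟨.negSucc 450, .ofNat 90, .negSucc 333, .negSucc 98, .ofNat 101, .ofNat 3⟩, ⟨.ofNat 1726, .ofNat 448, .ofNat 82, .negSucc 314, .negSucc 542, .ofNat 84⟩, ⟨.negSucc 4072, .negSucc 254, .negSucc 29, .negSucc 336, .ofNat 595, .ofNat 89⟩, ⟨.negSucc 240, .ofNat 19, .ofNat 19, .negSucc 508, .ofNat 190, .ofNat 95⟩, .ofNat 619, .negSucc 394, .ofNat 0, .negSucc 394, .ofNat 1458, .ofNat 0, .ofNat 262, .ofNat 115, .negSucc 122, .ofNat 0, .ofNat 128, .negSucc 25, .ofNat 0, .ofNat 0, .ofNat 751, .ofNat 988, .ofNat 0, .ofNat 0, .ofNat 0, .ofNat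 0, .ofNat 0, .ofNat 0, .ofNat 0, .ofNat 0, .ofNat 0, .ofNat 0, .ofNat 0, .ofNat 0, .ofNat 56306729369611144098128703843729408, .ofNat 0, .ofNat 104857612156499087292536717312, .ofNat 0⟩)
    (by decide +kernel)
theorem L00514 : Good (Phi V5.P V5.D (-1) 1) ⟨2, 1, 2, 1, 1, 0, 2, 2, 3, 1⟩ :=
  leafX_sound T5.ok_mp T5.Ymp.bz_eq (w := 178) (c := ⟨⟨.negSucc 1345, .negSucc 382, .negSucc 44, .negSucc 185, .ofNat 228, .ofNat 137⟩, ⟨.negSucc 397, .ofNat 86, .negSucc 309, .negSucc 103, .ofNat 84, .ofNat 51⟩, ⟨.ofNat 1385, .ofNat 346, .ofNat 38, .negSucc 292, .negSucc 375, .negSucc 89⟩, ⟨.negSucc 3658, .negSucc 196, .negSucc 53, .negSucc 352, .ofNat 521, .ofNat 278⟩, ⟨.negSucc 132, .ofNat 24, .negSucc 9, .negSucc 368, .ofNat 96, .ofNat 104⟩, .ofNat 387, .negSucc 126, .ofNat 0, .negSucc 126, .ofNat 657, .ofNat 0, .ofNat 254, .ofNat 66, .negSucc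 109, .ofNat 0, .ofNat 128, .negSucc 16, .ofNat 0, .ofNat 0, .ofNat 441, .ofNat 1062, .ofNat 0, .ofNat 0, .ofNat 0, .ofNat 0, .ofNat 0, .ofNat 0, .ofNat 0, .ofNat 0, .ofNat 0, .ofNat 0, .ofNat 0, .ofNat 0, .ofNat 0, .ofNat 0, .ofNat 0, .ofNat 0⟩)
    (by decide +kernel)
theorem L00515 : Good (Phi V5.P V5.D (-1) 1) ⟨2, 1, 2, 1, 1, 0, 3, 6, 3, 1⟩ :=
  leafX_sound T5.ok_mp T5.Ymp.bz_eq (w := 182) (c := ⟨⟨.negSucc 1152, .negSucc 314, .negSucc 10, .negSucc 148, .ofNat 194, .ofNat 86⟩, ⟨.negSucc 345, .ofNat 88, .negSucc 270, .negSucc 69, .ofNat 73, .ofNat 33⟩, ⟨.ofNat 1102, .ofNat 242, .ofNat 3, .negSucc 271, .negSucc 280, .negSucc 145⟩, ⟨.negSucc 3077, .negSucc 153, .negSucc 19, .negSucc 336, .ofNat 451, .ofNat 124⟩, ⟨.negSucc 274, .ofNat 72, .ofNat 3, .negSucc 163, .ofNat 137, .ofNat 208⟩, .ofNat 390, .negSucc 127, .ofNat 0, .negSucc 127,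 .ofNat 663, .ofNat 0, .ofNat 202, .ofNat 66, .negSucc 96, .ofNat 0, .ofNat 128, .negSucc 15, .ofNat 0, .ofNat 0, .ofNat 329, .ofNat 1049, .ofNat 0, .ofNat 0, .ofNat 0, .ofNat 0, .ofNat 0, .ofNat 0, .ofNat 58762170683301956695724224675840, .ofNat 0, .ofNat 0, .ofNat 0, .ofNat 0, .ofNat 0, .ofNat 0, .ofNat 0, .ofNat 0, .ofNat 0⟩)
    (by decide +kernel)
theorem L00516 : Good (Phi V5.P V5.D (-1) 1) ⟨2, 1, 2, 1, 1, 0, 4, 14, 3, 1⟩ :=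
  leafX_sound T5.ok_mp T5.Ymp.bz_eq (w := 186) (c := ⟨⟨.negSucc 940, .negSucc 193, .negSucc 11, .negSucc 142, .ofNat 161, .negSucc 2⟩, ⟨.negSucc 288, .ofNat 81, .negSucc 219, .negSucc 52, .ofNat 63, .ofNat 10⟩, ⟨.ofNat 818, .ofNat 91, .negSucc 22, .negSucc 183, .negSucc 230, .negSucc 131⟩, ⟨.negSucc 2497, .ofNat 77, .negSucc 19, .negSucc 415, .ofNat 388, .negSucc 107⟩, ⟨.negSucc 280, .ofNat 29, .ofNat 20, .ofNat 30, .ofNat 68, .ofNat 223⟩, .ofNat 618, .negSucc 382, .ofNat 0, .negSucc 382, .ofNat 1416, .ofNat 0, .ofNat 370, .ofNat 112, .negSucc 164, .ofNat 0, .ofNat 128, .negSucc 43, .ofNat 0, .ofNat 0, .ofNat 590, .ofNat 974, .ofNat 0, .ofNat 0, .ofNat 0, .ofNat 0, .ofNat 0, .ofNat 0, .ofNat 0, .ofNat 0, .ofNat 0, .ofNat 33183108696178643694742572908937216, .ofNat 0, .ofNat 0, .ofNat 0, .ofNat 0, .ofNat 0, .ofNat 0⟩)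
    (by decide +kernel)
theorem L00517 : Good (Phi V5.P V5.D (-1) 1) ⟨2, 1, 2, 1, 2, 0, 4, 15, 4, 2⟩ :=
  leafX_sound T5.ok_mp T5.Ymp.bz_eq (w := 206) (c := ⟨⟨.negSucc 738, .negSucc 133, .negSucc 8, .negSucc 1, .ofNat 440, .negSucc 82⟩, ⟨.negSucc 233, .ofNat 43, .negSucc 136, .negSucc 9, .ofNat 157, .negSucc 14⟩, ⟨.ofNat 530, .ofNat 83, .negSucc 0, .negSucc 120, .negSucc 521, .negSucc 16⟩, ⟨.negSucc 1991, .negSucc 29, .negSucc 7, .ofNat 8, .ofNat 1149, .negSucc 248⟩, ⟨.negSucc 101, .ofNat 53, .negSucc 8, .negSucc 80, .ofNat 21, .ofNat 84⟩, .ofNat 390, .negSucc 127, .ofNat 0, .negSucc 127, .ofNat 663, .ofNat 0, .ofNat 285, .ofNat 64, .negSucc 274, .ofNat 0, .ofNat 128, .negSucc 58, .ofNat 0, .ofNat 0, .ofNat 597, .ofNat 1732, .ofNat 0, .ofNat 0, .ofNat 0, .ofNat 0, .ofNat 0, .ofNat 0, .ofNat 0, .ofNat 0, .ofNat 0, .ofNat 0, .ofNat 0,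 .ofNat 0, .ofNat 0, .ofNat 0, .ofNat 0, .ofNat 0⟩)
    (by decide +kernel)
theorem L00518 : Good (Phi V5.P V5.D (-1) 1) ⟨2, 1, 2, 1, 2, 1, 4, 15, 4, 2⟩ :=
  leafX_sound T5.ok_mp T5.Ymp.bz_eq (w := 205) (c := ⟨⟨.negSucc 792, .negSucc 99, .negSucc 3, .negSucc 222, .ofNat 407, .negSucc 28⟩, ⟨.negSucc 248, .ofNat 94, .negSucc 175, .negSucc 71, .ofNat 148, .negSucc 5⟩, ⟨.ofNat 474, .negSucc 26, .negSucc 31, .ofNat 47, .negSucc 431, .negSucc 50⟩, ⟨.negSucc 2082, .ofNat 150, .ofNat 2, .negSucc 640, .ofNat 1007, .negSucc 151⟩, ⟨.negSucc 319, .ofNat 149, .negSucc 24, .ofNat 141, .ofNat 99, .ofNat 223⟩, .ofNat 390, .negSucc 127, .ofNat 0, .negSucc 127, .ofNat 663, .ofNat 0, .ofNat 175, .ofNat 76, .negSucc 211, .ofNat 0, .ofNat 128, .negSucc 32, .ofNat 0, .ofNat 0, .ofNat 418, .ofNat 941, .ofNat 0, .ofNat 99687957971168937879464866075327332352,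 .ofNat 0, .ofNat 0, .ofNat 0, .ofNat 0, .ofNat 16665716139719432584070349658666303488, .ofNat 0, .ofNat 0, .ofNat 3730140861802937025625413377954605432832, .ofNat 0, .ofNat 0, .ofNat 0, .ofNat 0, .ofNat 0, .ofNat 0⟩)
    (by decide +kernel)
theorem L00519 : Good (Phi V5.P V5.D (-1) 1) ⟨2, 1, 2, 1, 1, 0, 4, 15, 4, 3⟩ :=
  leafX_sound T5.ok_mp T5.Ymp.bz_eq (w := 191) (c := ⟨⟨.negSucc 799, .negSucc 175, .ofNat 20, .negSucc 152, .ofNat 356, .negSucc 21⟩, ⟨.negSucc 256, .ofNat 58, .negSucc 181, .negSucc 25, .ofNat 147, .ofNat 16⟩, ⟨.ofNat 506, .ofNat 100, .negSucc 75, .negSucc 91, .negSucc 433, .negSucc 40⟩, ⟨.negSucc 2141, .ofNat 13, .ofNat 36, .negSucc 538, .ofNat 874, .negSucc 47⟩, ⟨.negSucc 166, .ofNat 36, .ofNat 7, .ofNat 311, .ofNat 97, .negSucc 2⟩, .ofNat 604, .negSucc 371, .ofNat 0, .negSucc 371, .ofNat 1419, .ofNat 0, .ofNat 333,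 .ofNat 112, .negSucc 221, .ofNat 0, .ofNat 128, .negSucc 58, .ofNat 0, .ofNat 0, .ofNat 695, .ofNat 1189, .ofNat 0, .ofNat 28942335935312743104219149802405888, .ofNat 0, .ofNat 0, .ofNat 0, .ofNat 5141222008158916987321941209099796480, .ofNat 0, .ofNat 0, .ofNat 0, .ofNat 1767503078133704954839608042308239360, .ofNat 0, .ofNat 0, .ofNat 0, .ofNat 0, .ofNat 0, .ofNat 0⟩)
    (by decide +kernel)
theorem L00520 : Good (Phi V5.P V5.D (-1) 1) ⟨2, 1, 2, 1, 1, 0, 2, 0, 4, 4⟩ :=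
  leafX_sound T5.ok_mp T5.Ymp.bz_eq (w := 186) (c := ⟨⟨.negSucc 1393, .negSucc 431, .negSucc 37, .negSucc 197, .ofNat 84, .ofNat 127⟩, ⟨.negSucc 431, .ofNat 86, .negSucc 355, .negSucc 111, .ofNat 66, .ofNat 52⟩, ⟨.ofNat 1796, .ofNat 553, .ofNat 116, .negSucc 250, .negSucc 317, .ofNat 73⟩, ⟨.negSucc 3906, .negSucc 270, .negSucc 16, .negSucc 318, .ofNat 230, .ofNat 295⟩, ⟨.negSucc 158, .ofNat 40, .ofNat 13, .negSucc 583, .ofNat 165, .ofNat 67⟩, .ofNat 185, .negSucc 21, .ofNat 0, .negSucc 21, .ofNat 232, .ofNat 0, .ofNat 128, .ofNat 30, .negSucc 164, .ofNat 0, .ofNat 169, .ofNat 37, .ofNat 0, .ofNat 0, .ofNat 690, .ofNat 9680, .ofNat 0, .ofNat 0, .ofNat 0, .ofNat 0, .ofNat 1410031762853036275824307896494063616, .ofNat 0, .ofNat 0, .ofNat 0, .ofNat 0, .ofNat 0, .ofNat 0, .ofNat 0, .ofNat 7515341070537335565470354434919759872, .ofNat 0,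 .ofNat 0, .ofNat 0⟩)
    (by decide +kernel)
theorem L00521 : Good (Phi V5.P V5.D (-1) 1) ⟨2, 1, 2, 1, 1, 0, 2, 1, 4, 4⟩ :=
  leafX_sound T5.ok_mp T5.Ymp.bz_eq (w := 185) (c := ⟨⟨.negSucc 1380, .negSucc 392, .negSucc 35, .negSucc 137, .ofNat 140, .ofNat 117⟩, ⟨.negSucc 420, .ofNat 97, .negSucc 305, .negSucc 83, .ofNat 61, .ofNat 36⟩, ⟨.ofNat 1645, .ofNat 425, .ofNat 46, .negSucc 249, .negSucc 403, .negSucc 52⟩, ⟨.negSucc 3797, .negSucc 174, .negSucc 35, .negSucc 210, .ofNat 318, .ofNat 266⟩, ⟨.negSucc 76, .ofNat 37, .negSucc 3, .negSucc 430, .ofNat 65, .ofNat 33⟩, .ofNat 390, .negSucc 125, .ofNat 0, .negSucc 125, .ofNat 656, .ofNat 0, .ofNat 214, .ofNat 63, .negSucc 53, .ofNat 0, .ofNat 128, .negSucc 4, .ofNat 0, .ofNat 0, .ofNat 416, .ofNat 3990, .ofNat 0, .ofNat 0, .ofNat 0, .ofNat 0, .ofNat 0, .ofNat 0, .ofNat 0, .ofNat 0, .ofNat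 0, .ofNat 0, .ofNat 0, .ofNat 0, .ofNat 1568737218524707036478558455730274304, .ofNat 0, .ofNat 25063878533967164786619451441152, .ofNat 0⟩)
    (by decide +kernel)
theorem L00522 : Good (Phi V5.P V5.D (-1) 1) ⟨2, 1, 2, 1, 1, 0, 2, 0, 4, 5⟩ :=
  out_sound (S := T5.ds_mp) T5.ok_mp (w := 22) (j := 1) (by decide +kernel)
theorem L00523 : Good (Phi V5.P V5.D (-1) 1) ⟨2, 1, 2, 1, 2, 0, 2, 1, 4, 5⟩ :=
  leafX_sound T5.ok_mp T5.Ymp.bz_eq (w := 201) (c := ⟨⟨.negSucc 1317, .negSucc 322, .ofNat 0, .negSucc 44, .ofNat 133, .ofNat 87⟩, ⟨.negSucc 388, .ofNat 93, .negSucc 287, .negSucc 24, .ofNat 47, .ofNat 23⟩, ⟨.ofNat 1655, .ofNat 339, .negSucc 16, .negSucc 75, .negSucc 429, .negSucc 62⟩, ⟨.negSucc 3623, .negSucc 79, .ofNat 9, .negSucc 53, .ofNat 327, .ofNat 210⟩, ⟨.negSucc 17, .ofNat 11, .negSucc 1, .negSucc 175, .ofNat 13, .ofNat 7⟩, .ofNat 184,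 .negSucc 21, .ofNat 0, .negSucc 21, .ofNat 232, .ofNat 0, .ofNat 205, .ofNat 24, .negSucc 71, .ofNat 0, .ofNat 128, .negSucc 1, .ofNat 0, .ofNat 0, .ofNat 412, .ofNat 21784, .ofNat 1890901221226871906196703560306956173312, .ofNat 0, .ofNat 0, .ofNat 0, .ofNat 15021251127589630226064317826651649998848, .ofNat 0, .ofNat 0, .ofNat 0, .ofNat 0, .ofNat 0, .ofNat 0, .ofNat 0, .ofNat 15750204179179273611938262235003557511168, .ofNat 0, .ofNat 4307149076596136855351613891685646336, .ofNat 0⟩)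
    (by decide +kernel)
theorem L00524 : Good (Phi V5.P V5.D (-1) 1) ⟨2, 1, 2, 1, 2, 1, 3, 2, 6, 20⟩ :=
  leafX_sound T5.ok_mp T5.Ymp.bz_eq (w := 217) (c := ⟨⟨.negSucc 1351, .negSucc 364, .negSucc 31, .negSucc 54, .ofNat 79, .ofNat 32⟩, ⟨.negSucc 411, .ofNat 99, .negSucc 311, .negSucc 31, .ofNat 17, .ofNat 11⟩, ⟨.ofNat 1527, .ofNat 470, .ofNat 65, .negSucc 158, .negSucc 267, .ofNat 8⟩, ⟨.negSucc 3677, .negSucc 149, .negSucc 6, .negSucc 54, .ofNat 160, .ofNat 83⟩, ⟨.negSucc 255, .ofNat 37, .ofNat 8, .negSucc 241, .ofNat 42, .ofNat 13⟩, .ofNat 184, .negSucc 21, .ofNat 0, .negSucc 21, .ofNat 232, .ofNat 0, .ofNat 230, .ofNat 23, .negSucc 143, .ofNat 0, .ofNat 128, .ofNat 32, .ofNat 0, .ofNat 0, .ofNat 781, .ofNat 52250, .ofNat 1405538223866423523128056931527581186916352, .ofNat 0, .ofNat 0, .ofNat 0, .ofNat 0, .ofNat 0, .ofNat 0, .ofNat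 0, .ofNat 4961641763970314381264320871944673252343808, .ofNat 0, .ofNat 0, .ofNat 0, .ofNat 37161517057675542969447042177960271102869504, .ofNat 0, .ofNat 218307191119455379217107849237045322973184, .ofNat 0⟩)
    (by decide +kernel)
theorem L00525 : Good (Phi V5.P V5.D (-1) 1) ⟨2, 1, 2, 1, 2, 1, 3, 2, 6, 21⟩ :=
  leafX_sound T5.ok_mp T5.Ymp.bz_eq (w := 217) (c := ⟨⟨.negSucc 1358, .negSucc 339, .negSucc 32, .negSucc 13, .ofNat 74, .ofNat 27⟩, ⟨.negSucc 413, .ofNat 96, .negSucc 303, .negSucc 32, .ofNat 32, .ofNat 15⟩, ⟨.ofNat 1620, .ofNat 435, .ofNat 63, .negSucc 210, .negSucc 296, .ofNat 23⟩, ⟨.negSucc 3657, .negSucc 114, .negSucc 3, .ofNat 8, .ofNat 153, .ofNat 81⟩, ⟨.negSucc 245, .ofNat 33, .ofNat 7, .negSucc 239, .ofNat 46, .ofNat 18⟩, .ofNat 185, .negSucc 21, .ofNat 0, .negSucc 21, .ofNat 232, .ofNat 0, .ofNat 243, .ofNat 23, .negSucc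 112, .ofNat 0, .ofNat 128, .ofNat 29, .ofNat 0, .ofNat 0, .ofNat 668, .ofNat 92309, .ofNat 4387487394982913356079706453042684653207552, .ofNat 0, .ofNat 0, .ofNat 0, .ofNat 37860103704178964385697545574916231622819840, .ofNat 0, .ofNat 0, .ofNat 0, .ofNat 9336630461006930550514122254841983411421184, .ofNat 0, .ofNat 0, .ofNat 0, .ofNat 33530742811940097341161530756715590828687360, .ofNat 0, .ofNat 177742057582656991926937435389118935728128, .ofNat 0⟩)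
    (by decide +kernel)
theorem L00526 : Good (Phi V5.P V5.D (-1) 1) ⟨2, 1, 2, 1, 2, 1, 3, 2, 5, 11⟩ :=
  leafX_sound T5.ok_mp T5.Ymp.bz_eq (w := 214) (c := ⟨⟨.negSucc 1325, .negSucc 325, .negSucc 32, .negSucc 23, .ofNat 72, .ofNat 67⟩, ⟨.negSucc 450, .ofNat 103, .negSucc 297, .ofNat 14, .ofNat 35, .ofNat 19⟩, ⟨.ofNat 1763, .ofNat 415, .ofNat 59, .negSucc 236, .negSucc 390, .ofNat 26⟩, ⟨.negSucc 3683, .negSucc 89, .ofNat 0, .ofNat 86, .ofNat 174, .ofNat 164⟩, ⟨.negSucc 219, .ofNat 30, .ofNat 8, .negSucc 233, .ofNat 32, .ofNat 36⟩, .ofNat 184, .negSucc 20, .ofNat 0, .negSucc 20, .ofNat 233, .ofNat 0, .ofNat 176, .ofNat 21, .negSucc 92, .ofNat 0, .ofNat 128, .ofNat 25, .ofNat 0, .ofNat 0, .ofNat 595, .ofNat 256225, .ofNat 2494345144796750038244690004160457744580608, .ofNat 0, .ofNat 0, .ofNat 0, .ofNat 7173151653059354998287342863090379464376320,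 .ofNat 0, .ofNat 0, .ofNat 0, .ofNat 2390602013085752719697783774220622879522816, .ofNat 0, .ofNat 0, .ofNat 0, .ofNat 8027850746987835850266054971157867290165248, .ofNat 0, .ofNat 0, .ofNat 0⟩)
    (by decide +kernel)
theorem L00527 : Good (Phi V5.P V5.D (-1) 1) ⟨2, 1, 2, 1, 2, 1, 3, 3, 5, 10⟩ :=
  leafX_sound T5.ok_mp T5.Ymp.bz_eq (w := 210) (c := ⟨⟨.negSucc 1293, .negSucc 338, .negSucc 31, .negSucc 54, .ofNat 74, .ofNat 69⟩, ⟨.negSucc 397, .ofNat 96, .negSucc 299, .negSucc 24, .ofNat 26, .ofNat 17⟩, ⟨.ofNat 1333, .ofNat 389, .ofNat 37, .negSucc 143, .negSucc 238, .negSucc 22⟩, ⟨.negSucc 3536, .negSucc 114, .negSucc 5, .negSucc 55, .ofNat 167, .ofNat 160⟩, ⟨.negSucc 235, .ofNat 32, .ofNat 2, .negSucc 195, .ofNat 47, .ofNat 24⟩, .ofNat 184, .negSucc 21, .ofNat 0, .negSucc 21, .ofNat 233, .ofNat 0, .ofNat 225, .ofNat 24, .negSucc 140,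 .ofNat 0, .ofNat 128, .ofNat 21, .ofNat 0, .ofNat 0, .ofNat 757, .ofNat 19239, .ofNat 0, .ofNat 0, .ofNat 0, .ofNat 0, .ofNat 0, .ofNat 0, .ofNat 0, .ofNat 0, .ofNat 0, .ofNat 0, .ofNat 288979322717561998505342428614882230272, .ofNat 0, .ofNat 0, .ofNat 0, .ofNat 0, .ofNat 0⟩)
    (by decide +kernel)
theorem L00528 : Good (Phi V5.P V5.D (-1) 1) ⟨2, 1, 2, 1, 2, 1, 3, 3, 5, 11⟩ :=
  leafX_sound T5.ok_mp T5.Ymp.bz_eq (w := 211) (c := ⟨⟨.negSucc 1275, .negSucc 295, .negSucc 21, .negSucc 22, .ofNat 80, .ofNat 55⟩, ⟨.negSucc 387, .ofNat 96, .negSucc 277, .negSucc 23, .ofNat 22, .ofNat 24⟩, ⟨.ofNat 1393, .ofNat 318, .negSucc 19, .negSucc 140, .negSucc 265, .negSucc 18⟩, ⟨.negSucc 3443, .negSucc 40, .ofNat 5, .negSucc 12, .ofNat 162, .ofNat 136⟩, ⟨.negSucc 247, .ofNat 30, .negSucc 1, .negSucc 155, .ofNat 65, .ofNat 21⟩, .ofNat 390, .negSucc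 126, .ofNat 0, .negSucc 126, .ofNat 655, .ofNat 0, .ofNat 202, .ofNat 64, .negSucc 49, .ofNat 0, .ofNat 128, .negSucc 3, .ofNat 0, .ofNat 0, .ofNat 582, .ofNat 31441, .ofNat 248008039315482740869586129113731337027584, .ofNat 0, .ofNat 0, .ofNat 0, .ofNat 0, .ofNat 0, .ofNat 0, .ofNat 0, .ofNat 0, .ofNat 0, .ofNat 0, .ofNat 0, .ofNat 0, .ofNat 0, .ofNat 5645129794363728384237944168625456807936, .ofNat 0⟩)
    (by decide +kernel)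
theorem L00529 : Good (Phi V5.P V5.D (-1) 1) ⟨2, 1, 2, 1, 1, 0, 2, 2, 3, 2⟩ :=
  leafX_sound T5.ok_mp T5.Ymp.bz_eq (w := 180) (c := ⟨⟨.negSucc 1300, .negSucc 300, .negSucc 15, .negSucc 77, .ofNat 157, .ofNat 184⟩, ⟨.negSucc 387, .ofNat 97, .negSucc 284, .negSucc 50, .ofNat 61, .ofNat 69⟩, ⟨.ofNat 1368, .ofNat 294, .negSucc 13, .negSucc 270, .negSucc 429, .negSucc 142⟩, ⟨.negSucc 3541, .negSucc 35, .negSucc 13, .negSucc 108, .ofNat 342, .ofNat 444⟩, ⟨.negSucc 97, .ofNat 14, .negSucc 24, .negSucc 261, .ofNat 106, .ofNat 51⟩, .ofNat 612, .negSucc 380, .ofNat 0, .negSucc 380, .ofNat 1422, .ofNat 0, .ofNat 254, .ofNat 110, .negSucc 60, .ofNat 0, .ofNat 128, .negSucc 14, .ofNat 0, .ofNat 0, .ofNat 564, .ofNat 2260, .ofNat 0, .ofNat 0, .ofNat 0, .ofNat 0, .ofNat 0, .ofNat 0, .ofNat 0, .ofNat 0, .ofNat 0, .ofNat 0, .ofNat 0, .ofNat 0, .ofNat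 0, .ofNat 0, .ofNat 10553068088832825775310388592640, .ofNat 0⟩)
    (by decide +kernel)
theorem L00530 : Good (Phi V5.P V5.D (-1) 1) ⟨2, 1, 2, 1, 1, 0, 3, 6, 3, 2⟩ :=
  leafX_sound T5.ok_mp T5.Ymp.bz_eq (w := 183) (c := ⟨⟨.negSucc 1115, .negSucc 260, .ofNat 0, .negSucc 22, .ofNat 120, .ofNat 75⟩, ⟨.negSucc 332, .ofNat 81, .negSucc 244, .negSucc 16, .ofNat 43, .ofNat 34⟩, ⟨.ofNat 997, .ofNat 212, .negSucc 51, .negSucc 294, .negSucc 270, .negSucc 168⟩, ⟨.negSucc 3057, .negSucc 10, .ofNat 11, .negSucc 63, .ofNat 278, .ofNat 162⟩, ⟨.negSucc 99, .ofNat 28, .negSucc 22, .negSucc 10, .ofNat 53, .ofNat 89⟩, .ofNat 605, .negSucc 373, .ofNat 0, .negSucc 373, .ofNat 1425, .ofNat 0, .ofNat 220, .ofNat 110, .negSucc 87, .ofNat 0, .ofNat 128, .negSucc 24, .ofNat 0, .ofNat 0, .ofNat 622, .ofNat 1464, .ofNat 0, .ofNat 0, .ofNat 0, .ofNat 0, .ofNat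 0, .ofNat 0, .ofNat 0, .ofNat 0, .ofNat 0, .ofNat 45413232011306166702552651000709120, .ofNat 0, .ofNat 0, .ofNat 0, .ofNat 0, .ofNat 0, .ofNat 0⟩)
    (by decide +kernel)
theorem L00531 : Good (Phi V5.P V5.D (-1) 1) ⟨2, 1, 2, 1, 1, 0, 3, 7, 3, 2⟩ :=
  leafX_sound T5.ok_mp T5.Ymp.bz_eq (w := 182) (c := ⟨⟨.negSucc 1015, .negSucc 158, .ofNat 22, .negSucc 9, .ofNat 240, .negSucc 13⟩, ⟨.negSucc 289, .ofNat 68, .negSucc 207, .ofNat 7, .ofNat 90, .negSucc 3⟩, ⟨.ofNat 735, .ofNat 115, .negSucc 80, .negSucc 201, .negSucc 433, .negSucc 127⟩, ⟨.negSucc 2745, .ofNat 136, .ofNat 44, .negSucc 122, .ofNat 635, .negSucc 104⟩, ⟨.negSucc 89, .ofNat 27, .ofNat 29, .ofNat 210, .negSucc 58, .ofNat 141⟩, .ofNat 602, .negSucc 369, .ofNat 0, .negSucc 369, .ofNat 1424, .ofNat 0, .ofNat 239, .ofNat 109, .negSucc 101, .ofNat 0, .ofNat 128, .negSucc 30, .ofNat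 0, .ofNat 0, .ofNat 541, .ofNat 798, .ofNat 0, .ofNat 0, .ofNat 0, .ofNat 0, .ofNat 0, .ofNat 80275676152127136012780408177426432, .ofNat 0, .ofNat 0, .ofNat 0, .ofNat 59893729661518118301730591213617152, .ofNat 0, .ofNat 0, .ofNat 0, .ofNat 55500659893511985633026685890723840, .ofNat 0, .ofNat 0⟩)
    (by decide +kernel)
theorem L00532 : Good (Phi V5.P V5.D (-1) 1) ⟨2, 1, 2, 1, 1, 0, 1, 0, 3, 3⟩ :=
  leafX_sound T5.ok_mp T5.Ymp.bz_eq (w := 179) (c := ⟨⟨.negSucc 1426, .negSucc 263, .negSucc 18, .negSucc 17, .ofNat 268, .ofNat 268⟩, ⟨.negSucc 475, .ofNat 95, .negSucc 268, .negSucc 23, .ofNat 136, .ofNat 93⟩, ⟨.ofNat 2260, .ofNat 256, .negSucc 40, .negSucc 287, .negSucc 961, .negSucc 140⟩, ⟨.negSucc 3786, .negSucc 5, .ofNat 12, .ofNat 51, .ofNat 567, .ofNat 604⟩, ⟨.negSucc 361, .ofNat 31, .ofNat 2, .negSucc 258, .ofNat 310, .ofNat 135⟩,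 .ofNat 185, .negSucc 22, .ofNat 0, .negSucc 22, .ofNat 232, .ofNat 0, .ofNat 186, .ofNat 24, .negSucc 61, .ofNat 0, .ofNat 128, .ofNat 5, .ofNat 0, .ofNat 0, .ofNat 503, .ofNat 21685, .ofNat 39550687444442756454540795445248000, .ofNat 0, .ofNat 0, .ofNat 0, .ofNat 129526413299799764671441101276577792, .ofNat 0, .ofNat 0, .ofNat 0, .ofNat 122892649239869954703540764503179264, .ofNat 0, .ofNat 0, .ofNat 0, .ofNat 207313624260030200522048300705120256, .ofNat 0, .ofNat 0, .ofNat 0⟩)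
    (by decide +kernel)
theorem L00533 : Good (Phi V5.P V5.D (-1) 1) ⟨2, 1, 2, 1, 1, 0, 2, 2, 3, 3⟩ :=
  leafX_sound T5.ok_mp T5.Ymp.bz_eq (w := 180) (c := ⟨⟨.negSucc 1180, .negSucc 261, .ofNat 17, .ofNat 21, .ofNat 135, .ofNat 139⟩, ⟨.negSucc 333, .ofNat 91, .negSucc 246, .negSucc 6, .ofNat 28, .ofNat 43⟩, ⟨.ofNat 1296, .ofNat 234, .negSucc 65, .negSucc 261, .negSucc 486, .negSucc 202⟩, ⟨.negSucc 3176, .negSucc 10, .ofNat 22, .ofNat 66, .ofNat 274, .ofNat 305⟩, ⟨.negSucc 128, .ofNat 19, .ofNat 24, .negSucc 91, .ofNat 111, .ofNat 72⟩, .ofNat 390, .negSucc 125, .ofNat 0, .negSucc 125, .ofNat 654, .ofNat 0, .ofNat 253, .ofNat 62, .negSucc 89, .ofNat 0, .ofNat 128, .negSucc 25, .ofNat 0, .ofNat 0, .ofNat 1051, .ofNat 3503, .ofNat 0, .ofNat 0, .ofNat 0, .ofNat 0, .ofNat 0, .ofNat 0, .ofNat 0, .ofNat 0, .ofNat 0, .ofNat 10016653451470479377895053984792576,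 .ofNat 0, .ofNat 0, .ofNat 448563328448675082625666288367697920, .ofNat 48132614922049613856493570380267520, .ofNat 0, .ofNat 0⟩)
    (by decide +kernel)
theorem L00534 : Good (Phi V5.P V5.D (-1) 1) ⟨2, 1, 2, 1, 1, 0, 2, 3, 3, 3⟩ :=
  leafX_sound T5.ok_mp T5.Ymp.bz_eq (w := 179) (c := ⟨⟨.negSucc 1063, .negSucc 196, .ofNat 6, .ofNat 111, .ofNat 116, .ofNat 0⟩, ⟨.negSucc 309, .ofNat 83, .negSucc 229, .ofNat 38, .ofNat 51, .negSucc 3⟩, ⟨.ofNat 826, .ofNat 152, .negSucc 65, .negSucc 336, .negSucc 468, .negSucc 72⟩, ⟨.negSucc 2911, .ofNat 116, .negSucc 0, .ofNat 220, .ofNat 231, .negSucc 21⟩, ⟨.negSucc 72, .ofNat 25, .negSucc 17, .ofNat 121, .ofNat 174, .ofNat 51⟩, .ofNat 591, .negSucc 342, .ofNat 0, .negSucc 342, .ofNat 1411, .ofNat 0, .ofNat 193, .ofNat 102, .negSucc 62, .ofNat 0, .ofNat 128, .negSucc 22, .ofNat 0, .ofNat 0, .ofNat 627,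 .ofNat 1008, .ofNat 0, .ofNat 0, .ofNat 0, .ofNat 0, .ofNat 0, .ofNat 14025000406017781078492472775016448, .ofNat 0, .ofNat 0, .ofNat 0, .ofNat 18720588966661940103044387812933632, .ofNat 0, .ofNat 0, .ofNat 52526476438620160582247859420659712, .ofNat 23133856050420022873585369749651456, .ofNat 0, .ofNat 0⟩)
    (by decide +kernel)
theorem L00535 : Good (Phi V5.P V5.D (-1) 1) ⟨2, 1, 2, 1, 1, 0, 0, 0, 1, 1⟩ :=
  leafX_sound T5.ok_mp T5.Ymp.bz_eq (w := 171) (c := ⟨⟨.negSucc 1051, .negSucc 320, .ofNat 2, .ofNat 1, .negSucc 0, .ofNat 1⟩, ⟨.negSucc 303, .ofNat 74, .negSucc 252, .ofNat 0, .ofNat 0, .ofNat 0⟩, ⟨.ofNat 355, .ofNat 321, .negSucc 1, .ofNat 0, .ofNat 0, .ofNat 0⟩, ⟨.negSucc 2923, .negSucc 144, .ofNat 1, .ofNat 1, .negSucc 0, .ofNat 1⟩, ⟨.ofNat 0, .ofNat 0, .ofNat 0, .ofNat 0, .ofNat 0, .ofNat 0⟩, .ofNat 184, .negSucc 20, .ofNat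 0, .negSucc 20, .ofNat 233, .ofNat 0, .ofNat 150, .ofNat 22, .negSucc 115, .ofNat 0, .ofNat 128, .negSucc 13, .ofNat 0, .ofNat 0, .ofNat 315, .ofNat 4919, .ofNat 4569620594507929965329960140800000000, .ofNat 456960330077572334527503080196407296, .ofNat 0, .ofNat 0, .ofNat 292455718048507517781117449011200000000, .ofNat 28609804679457339891804136315159576576, .ofNat 0, .ofNat 0, .ofNat 292455718048507517781117449011200000000, .ofNat 28609823789963268228723789402436796416, .ofNat 0, .ofNat 0, .ofNat 292455718048198032771296103942475218944, .ofNat 28609816926359462915843527758604926976, .ofNat 0, .ofNat 0⟩)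
    (by decide +kernel)
theorem L00536 : Good (Phi V5.P V5.D (-1) 1) ⟨2, 1, 3, 2, 3, 4, 4, 0, 4, 0⟩ :=
  leafX_sound T5.ok_mp T5.Ymp.bz_eq (w := 224) (c := ⟨⟨.ofNat 761, .ofNat 47, .negSucc 123, .ofNat 130, .ofNat 140, .negSucc 1746⟩, ⟨.ofNat 137, .negSucc 89, .negSucc 1, .negSucc 0, .ofNat 51, .negSucc 484⟩, ⟨.negSucc 218, .ofNat 149, .ofNat 134, .ofNat 109, .negSucc 225, .ofNat 648⟩, ⟨.ofNat 2297, .negSucc 74, .negSucc 142, .ofNat 444, .ofNat 259, .negSucc 4277⟩, ⟨.negSucc 1058, .negSucc 780, .negSucc 31, .negSucc 436, .ofNat 221, .negSucc 118⟩, .ofNat 383, .negSucc 108, .ofNat 0, .negSucc 108, .ofNat 664, .ofNat 0, .ofNat 358, .ofNat 67, .negSucc 68, .ofNat 0, .ofNat 128, .negSucc 3, .ofNat 0, .ofNat 0, .ofNat 315, .ofNat 14465, .ofNat 0, .ofNat 0, .ofNat 0, .ofNat 0, .ofNat 0, .ofNat 0, .ofNat 0, .ofNat 0, .ofNat 0, .ofNat 0, .ofNat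 0, .ofNat 0, .ofNat 2509625537795876864989719588698775202954215424, .ofNat 0, .ofNat 0, .ofNat 0⟩)
    (by decide +kernel)
theorem L00537 : Good (Phi V5.P V5.D (-1) 1) ⟨2, 1, 3, 2, 3, 5, 4, 0, 4, 0⟩ :=
  leafX_sound T5.ok_mp T5.Ymp.bz_eq (w := 224) (c := ⟨⟨.ofNat 1010, .ofNat 40, .negSucc 230, .ofNat 42, .ofNat 138, .negSucc 1822⟩, ⟨.ofNat 182, .negSucc 115, .negSucc 22, .ofNat 2, .ofNat 65, .negSucc 516⟩, ⟨.negSucc 206, .ofNat 317, .ofNat 189, .ofNat 26, .negSucc 273, .ofNat 618⟩, ⟨.ofNat 2947, .ofNat 38, .negSucc 322, .ofNat 93, .ofNat 277, .negSucc 4493⟩, ⟨.negSucc 1367, .negSucc 1163, .ofNat 51, .negSucc 71, .ofNat 301, .negSucc 147⟩, .ofNat 380, .negSucc 103, .ofNat 0, .negSucc 103, .ofNat 657, .ofNat 0, .ofNat 357, .ofNat 46, .negSucc 69, .ofNat 0, .ofNat 128, .negSucc 10, .ofNat 0, .ofNat 0, .ofNat 268, .ofNat 10167, .ofNat 0,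 .ofNat 0, .ofNat 0, .ofNat 0, .ofNat 0, .ofNat 0, .ofNat 0, .ofNat 0, .ofNat 0, .ofNat 0, .ofNat 0, .ofNat 0, .ofNat 466602896807166849479383918006674810940162048, .ofNat 0, .ofNat 0, .ofNat 0⟩)
    (by decide +kernel)
theorem L00538 : Good (Phi V5.P V5.D (-1) 1) ⟨2, 1, 3, 2, 2, 2, 4, 1, 4, 0⟩ :=
  leafX_sound T5.ok_mp T5.Ymp.bz_eq (w := 209) (c := ⟨⟨.ofNat 924, .ofNat 75, .negSucc 92, .ofNat 236, .ofNat 76, .negSucc 1831⟩, ⟨.ofNat 165, .negSucc 107, .ofNat 7, .ofNat 76, .ofNat 65, .negSucc 532⟩, ⟨.negSucc 394, .ofNat 173, .ofNat 96, .negSucc 35, .negSucc 161, .ofNat 748⟩, ⟨.ofNat 2625, .negSucc 10, .negSucc 85, .ofNat 720, .ofNat 191, .negSucc 4481⟩, ⟨.negSucc 897, .negSucc 959, .ofNat 34, .negSucc 296, .ofNat 321, .negSucc 347⟩, .ofNat 381, .negSucc 103, .ofNat 0, .negSucc 103, .ofNat 655, .ofNat 0, .ofNat 392, .ofNat 63, .negSucc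 86, .ofNat 0, .ofNat 128, .negSucc 8, .ofNat 0, .ofNat 0, .ofNat 281, .ofNat 4044, .ofNat 0, .ofNat 0, .ofNat 0, .ofNat 0, .ofNat 0, .ofNat 0, .ofNat 0, .ofNat 0, .ofNat 0, .ofNat 0, .ofNat 0, .ofNat 0, .ofNat 0, .ofNat 0, .ofNat 0, .ofNat 0⟩)
    (by decide +kernel)
theorem L00539 : Good (Phi V5.P V5.D (-1) 1) ⟨2, 1, 3, 2, 2, 2, 3, 1, 4, 0⟩ :=
  leafX_sound T5.ok_mp T5.Ymp.bz_eq (w := 205) (c := ⟨⟨.ofNat 1019, .ofNat 100, .negSucc 235, .ofNat 339, .ofNat 191, .negSucc 1800⟩, ⟨.ofNat 239, .negSucc 110, .negSucc 2, .ofNat 76, .ofNat 54, .negSucc 531⟩, ⟨.negSucc 523, .ofNat 85, .ofNat 150, .negSucc 167, .negSucc 266, .ofNat 797⟩, ⟨.ofNat 2860, .ofNat 34, .negSucc 375, .ofNat 943, .ofNat 310, .negSucc 4489⟩, ⟨.negSucc 616, .negSucc 872, .negSucc 167, .negSucc 175, .ofNat 428, .negSucc 478⟩, .ofNat 383, .negSucc 105, .ofNat 0, .negSucc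 105, .ofNat 655, .ofNat 0, .ofNat 372, .ofNat 70, .negSucc 109, .ofNat 0, .ofNat 128, .negSucc 7, .ofNat 0, .ofNat 0, .ofNat 286, .ofNat 2203, .ofNat 0, .ofNat 0, .ofNat 0, .ofNat 0, .ofNat 0, .ofNat 0, .ofNat 0, .ofNat 0, .ofNat 0, .ofNat 0, .ofNat 0, .ofNat 0, .ofNat 0, .ofNat 0, .ofNat 0, .ofNat 0⟩)
    (by decide +kernel)
theorem L00540 : Good (Phi V5.P V5.D (-1) 1) ⟨2, 1, 3, 2, 2, 2, 2, 1, 4, 0⟩ :=
  leafX_sound T5.ok_mp T5.Ymp.bz_eq (w := 200) (c := ⟨⟨.ofNat 1084, .ofNat 81, .negSucc 150, .ofNat 586, .negSucc 202, .negSucc 1862⟩, ⟨.ofNat 295, .negSucc 92, .ofNat 12, .ofNat 111, .negSucc 42, .negSucc 563⟩, ⟨.negSucc 698, .ofNat 0, .ofNat 128, .negSucc 356, .negSucc 44, .ofNat 968⟩, ⟨.ofNat 2918, .negSucc 7, .negSucc 212, .ofNat 1434, .negSucc 587, .negSucc 4542⟩, ⟨.negSucc 312, .negSucc 593, .negSucc 75, .negSucc 255, .ofNat 291,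 .negSucc 624⟩, .ofNat 381, .negSucc 104, .ofNat 0, .negSucc 104, .ofNat 657, .ofNat 0, .ofNat 267, .ofNat 82, .negSucc 120, .ofNat 0, .ofNat 128, .negSucc 9, .ofNat 0, .ofNat 0, .ofNat 222, .ofNat 666, .ofNat 0, .ofNat 0, .ofNat 0, .ofNat 0, .ofNat 0, .ofNat 0, .ofNat 0, .ofNat 0, .ofNat 0, .ofNat 0, .ofNat 0, .ofNat 0, .ofNat 0, .ofNat 0, .ofNat 0, .ofNat 0⟩)
    (by decide +kernel)
theorem L00541 : Good (Phi V5.P V5.D (-1) 1) ⟨3, 2, 3, 2, 2, 3, 2, 0, 4, 0⟩ :=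
  leafX_sound T5.ok_mp T5.Ymp.bz_eq (w := 205) (c := ⟨⟨.ofNat 921, .negSucc 3, .negSucc 156, .negSucc 616, .ofNat 570, .negSucc 1577⟩, ⟨.ofNat 220, .negSucc 55, .negSucc 66, .ofNat 14, .ofNat 237, .negSucc 574⟩, ⟨.negSucc 154, .ofNat 6, .ofNat 95, .ofNat 361, .negSucc 735, .ofNat 616⟩, ⟨.ofNat 2613, .ofNat 68, .negSucc 167, .negSucc 2321, .ofNat 1274, .negSucc 3785⟩, ⟨.negSucc 816, .negSucc 535, .negSucc 428, .ofNat 2503, .ofNat 691, .negSucc 954⟩, .ofNat 814, .negSucc 659, .ofNat 0, .negSucc 659, .ofNat 2287, .ofNat 0, .ofNat 287, .ofNat 128, .negSucc 143, .ofNat 0, .ofNat 107, .negSucc 37, .ofNat 0, .ofNat 0, .ofNat 438, .ofNat 1912, .ofNat 0, .ofNat 0, .ofNat 0, .ofNat 0, .ofNat 0, .ofNat 0, .ofNat 0, .ofNat 0, .ofNat 0, .ofNat 0, .ofNat 0, .ofNat 0, .ofNat 0, .ofNat 0, .ofNat 0, .ofNat 0⟩)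
    (by decide +kernel)
theorem L00542 : Good (Phi V5.P V5.D (-1) 1) ⟨3, 3, 3, 2, 2, 3, 3, 0, 4, 0⟩ :=
  leafX_sound T5.ok_mp T5.Ymp.bz_eq (w := 209) (c := ⟨⟨.ofNat 1153, .negSucc 50, .negSucc 229, .negSucc 795, .ofNat 438, .negSucc 1962⟩, ⟨.ofNat 127, .negSucc 49, .negSucc 45, .ofNat 27, .ofNat 143, .negSucc 507⟩, ⟨.ofNat 36, .ofNat 15, .ofNat 112, .ofNat 29, .negSucc 671, .ofNat 994⟩, ⟨.ofNat 3093, .negSucc 63, .negSucc 324, .negSucc 2643, .ofNat 959, .negSucc 4386⟩, ⟨.negSucc 1985, .negSucc 549, .negSucc 88, .ofNat 3240, .ofNat 306, .negSucc 618⟩, .ofNat 625, .negSucc 425, .ofNat 0, .negSucc 425, .ofNat 1960, .ofNat 0, .ofNat 469, .ofNat 128, .negSucc 153, .ofNat 0, .ofNat 113, .negSucc 31, .ofNat 0, .ofNat 0, .ofNat 423, .ofNat 2289, .ofNat 0, .ofNat 0, .ofNat 0, .ofNat 0, .ofNat 0, .ofNat 0, .ofNat 0, .ofNat 0, .ofNat 0, .ofNat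 0, .ofNat 0, .ofNat 0, .ofNat 3410855100056150908300859464787958125559808, .ofNat 0, .ofNat 0, .ofNat 0⟩)
    (by decide +kernel)
theorem L00543 : Good (Phi V5.P V5.D (-1) 1) ⟨3, 3, 3, 2, 2, 3, 3, 1, 4, 0⟩ :=
  leafX_sound T5.ok_mp T5.Ymp.bz_eq (w := 209) (c := ⟨⟨.ofNat 1702, .ofNat 58, .negSucc 276, .negSucc 837, .ofNat 274, .negSucc 2272⟩, ⟨.ofNat 325, .negSucc 36, .negSucc 61, .ofNat 30, .ofNat 69, .negSucc 620⟩, ⟨.negSucc 803, .negSucc 7, .ofNat 105, .ofNat 380, .negSucc 297, .ofNat 1113⟩, ⟨.ofNat 4166, .ofNat 183, .negSucc 622, .negSucc 2667, .ofNat 638, .negSucc 4893⟩, ⟨.negSucc 1200, .negSucc 576, .ofNat 181, .ofNat 2993, .negSucc 18, .negSucc 1034⟩, .ofNat 686, .negSucc 554, .ofNat 0, .negSucc 554, .ofNat 2447, .ofNat 0, .ofNat 233, .ofNat 128, .negSucc 112, .ofNat 0, .ofNat 97, .negSucc 20, .ofNat 0, .ofNat 0, .ofNat 252, .ofNat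 1157, .ofNat 0, .ofNat 0, .ofNat 0, .ofNat 0, .ofNat 0, .ofNat 0, .ofNat 0, .ofNat 0, .ofNat 0, .ofNat 0, .ofNat 0, .ofNat 0, .ofNat 0, .ofNat 0, .ofNat 0, .ofNat 0⟩)
    (by decide +kernel)
theorem L00544 : Good (Phi V5.P V5.D (-1) 1) ⟨2, 1, 3, 2, 2, 3, 2, 1, 4, 0⟩ :=
  leafX_sound T5.ok_mp T5.Ymp.bz_eq (w := 201) (c := ⟨⟨.ofNat 1519, .ofNat 314, .negSucc 80, .negSucc 596, .negSucc 121, .negSucc 1970⟩, ⟨.ofNat 457, .negSucc 21, .negSucc 28, .negSucc 34, .negSucc 63, .negSucc 642⟩, ⟨.negSucc 936, .negSucc 212, .negSucc 9, .ofNat 541, .negSucc 15, .ofNat 889⟩, ⟨.ofNat 3868, .ofNat 667, .negSucc 216, .negSucc 2040, .negSucc 167, .negSucc 4294⟩, ⟨.ofNat 309, .negSucc 806, .negSucc 266, .ofNat 1623, .negSucc 341, .negSucc 1368⟩, .ofNat 763, .negSucc 630, .ofNat 0, .negSucc 630, .ofNat 2359, .ofNat 0, .ofNat 261, .ofNat 128, .negSucc 191,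 .ofNat 0, .ofNat 95, .negSucc 34, .ofNat 0, .ofNat 0, .ofNat 389, .ofNat 548, .ofNat 0, .ofNat 0, .ofNat 0, .ofNat 0, .ofNat 0, .ofNat 0, .ofNat 0, .ofNat 0, .ofNat 0, .ofNat 0, .ofNat 0, .ofNat 0, .ofNat 0, .ofNat 0, .ofNat 0, .ofNat 0⟩)
    (by decide +kernel)
theorem L00545 : Good (Phi V5.P V5.D (-1) 1) ⟨2, 1, 3, 2, 2, 2, 1, 0, 4, 1⟩ :=
  leafX_sound T5.ok_mp T5.Ymp.bz_eq (w := 196) (c := ⟨⟨.negSucc 535, .negSucc 594, .negSucc 53, .negSucc 34, .ofNat 148, .negSucc 913⟩, ⟨.negSucc 285, .negSucc 10, .negSucc 141, .negSucc 32, .ofNat 99, .negSucc 223⟩, ⟨.ofNat 329, .ofNat 571, .ofNat 32, .negSucc 29, .negSucc 461, .ofNat 648⟩, ⟨.negSucc 1269, .negSucc 903, .ofNat 15, .ofNat 68, .ofNat 221, .negSucc 2399⟩, ⟨.negSucc 1431, .negSucc 296, .negSucc 21, .negSucc 456, .ofNat 713, .ofNat 347⟩, .ofNat 379, .negSucc 103, .ofNat 0, .negSucc 103,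 .ofNat 658, .ofNat 0, .ofNat 294, .ofNat 63, .negSucc 179, .ofNat 0, .ofNat 128, .ofNat 0, .ofNat 0, .ofNat 0, .ofNat 468, .ofNat 1013, .ofNat 130758680011739481176153548078276673536, .ofNat 0, .ofNat 0, .ofNat 0, .ofNat 0, .ofNat 0, .ofNat 0, .ofNat 0, .ofNat 0, .ofNat 0, .ofNat 0, .ofNat 0, .ofNat 1541803350232386827403100343118212366336, .ofNat 0, .ofNat 0, .ofNat 0⟩)
    (by decide +kernel)
theorem L00546 : Good (Phi V5.P V5.D (-1) 1) ⟨2, 1, 3, 2, 2, 3, 2, 0, 4, 1⟩ :=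
  leafX_sound T5.ok_mp T5.Ymp.bz_eq (w := 200) (c := ⟨⟨.negSucc 556, .negSucc 789, .negSucc 102, .negSucc 186, .ofNat 176, .negSucc 787⟩, ⟨.negSucc 322, .negSucc 20, .negSucc 178, .ofNat 48, .ofNat 66, .negSucc 211⟩, ⟨.ofNat 449, .ofNat 867, .ofNat 138, .negSucc 227, .negSucc 654, .ofNat 639⟩, ⟨.negSucc 1286, .negSucc 1249, .negSucc 115, .negSucc 834, .ofNat 376, .negSucc 1941⟩, ⟨.negSucc 1705, .negSucc 340, .negSucc 11, .ofNat 1445, .ofNat 200, .negSucc 0⟩, .ofNat 569, .negSucc 301, .ofNat 0, .negSucc 301, .ofNat 1408, .ofNat 0, .ofNat 455, .ofNat 98, .negSucc 165, .ofNat 0, .ofNat 128, .negSucc 20, .ofNat 0, .ofNat 0, .ofNat 505, .ofNat 1802, .ofNat 3469754748742966909539519210530940125184, .ofNat 0, .ofNat 0, .ofNat 0, .ofNat 0, .ofNat 0, .ofNat 0, .ofNat 0, .ofNat 0, .ofNat 0, .ofNat 0, .ofNat 0, .ofNat 28222903268051298846870105875749032427520,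 .ofNat 0, .ofNat 0, .ofNat 0⟩)
    (by decide +kernel)
theorem L00547 : Good (Phi V5.P V5.D (-1) 1) ⟨2, 1, 3, 2, 2, 3, 2, 1, 4, 1⟩ :=
  leafX_sound T5.ok_mp T5.Ymp.bz_eq (w := 200) (c := ⟨⟨.negSucc 341, .negSucc 791, .negSucc 89, .negSucc 156, .ofNat 148, .negSucc 898⟩, ⟨.negSucc 196, .negSucc 12, .negSucc 166, .negSucc 12, .ofNat 3, .negSucc 272⟩, ⟨.negSucc 88, .ofNat 662, .ofNat 33, .negSucc 76, .negSucc 220, .ofNat 655⟩, ⟨.negSucc 910, .negSucc 1236, .negSucc 89, .negSucc 536, .ofNat 428, .negSucc 2189⟩, ⟨.negSucc 1094, .negSucc 116, .negSucc 80, .ofNat 428, .negSucc 240, .negSucc 158⟩, .ofNat 582, .negSucc 325, .ofNat 0, .negSucc 325, .ofNat 1414, .ofNat 0, .ofNat 382, .ofNat 124, .negSucc 197, .ofNat 0, .ofNat 128, .negSucc 21, .ofNat 0, .ofNat 0, .ofNat 425, .ofNat 1254, .ofNat 0, .ofNat 0, .ofNat 0, .ofNat 0, .ofNat 0, .ofNat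 0, .ofNat 0, .ofNat 0, .ofNat 0, .ofNat 0, .ofNat 0, .ofNat 0, .ofNat 0, .ofNat 0, .ofNat 0, .ofNat 0⟩)
    (by decide +kernel)
theorem L00548 : Good (Phi V5.P V5.D (-1) 1) ⟨2, 1, 3, 2, 2, 2, 2, 0, 4, 2⟩ :=
  leafX_sound T5.ok_mp T5.Ymp.bz_eq (w := 201) (c := ⟨⟨.negSucc 1373, .negSucc 679, .negSucc 64, .negSucc 56, .ofNat 26, .negSucc 151⟩, ⟨.negSucc 496, .ofNat 70, .negSucc 201, .negSucc 49, .ofNat 26, .negSucc 23⟩, ⟨.ofNat 859, .ofNat 825, .ofNat 145, .negSucc 58, .negSucc 404, .ofNat 363⟩, ⟨.negSucc 3594, .negSucc 766, .negSucc 26, .negSucc 31, .ofNat 22, .negSucc 442⟩, ⟨.negSucc 1130, .negSucc 10, .negSucc 19, .negSucc 408, .ofNat 216, .ofNat 218⟩, .ofNat 572, .negSucc 302, .ofNat 0, .negSucc 302, .ofNat 1404, .ofNat 0, .ofNat 260, .ofNat 104, .negSucc 94, .ofNat 0, .ofNat 128, .negSucc 4, .ofNat 0, .ofNat 0, .ofNat 526, .ofNat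 3800, .ofNat 0, .ofNat 0, .ofNat 0, .ofNat 0, .ofNat 0, .ofNat 0, .ofNat 0, .ofNat 0, .ofNat 0, .ofNat 0, .ofNat 0, .ofNat 0, .ofNat 84048835653557600359791658778787921788928, .ofNat 0, .ofNat 0, .ofNat 0⟩)
    (by decide +kernel)
theorem L00549 : Good (Phi V5.P V5.D (-1) 1) ⟨2, 1, 3, 2, 2, 2, 2, 1, 4, 2⟩ :=
  leafX_sound T5.ok_mp T5.Ymp.bz_eq (w := 201) (c := ⟨⟨.negSucc 1368, .negSucc 622, .negSucc 73, .negSucc 94, .ofNat 123, .negSucc 100⟩, ⟨.negSucc 461, .ofNat 52, .negSucc 197, .negSucc 57, .ofNat 46, .negSucc 23⟩, ⟨.ofNat 741, .ofNat 612, .ofNat 120, .negSucc 132, .negSucc 207, .ofNat 215⟩, ⟨.negSucc 3585, .negSucc 725, .negSucc 85, .negSucc 95, .ofNat 236, .negSucc 331⟩, ⟨.negSucc 850, .negSucc 18, .negSucc 1, .negSucc 440, .ofNat 196, .ofNat 166⟩, .ofNat 383, .negSucc 107, .ofNat 0, .negSucc 107, .ofNat 658, .ofNat 0, .ofNat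 347, .ofNat 63, .negSucc 198, .ofNat 0, .ofNat 128, .ofNat 5, .ofNat 0, .ofNat 0, .ofNat 606, .ofNat 3308, .ofNat 0, .ofNat 0, .ofNat 0, .ofNat 0, .ofNat 0, .ofNat 0, .ofNat 0, .ofNat 0, .ofNat 0, .ofNat 0, .ofNat 0, .ofNat 0, .ofNat 0, .ofNat 0, .ofNat 0, .ofNat 0⟩)
    (by decide +kernel)
theorem L00550 : Good (Phi V5.P V5.D (-1) 1) ⟨2, 1, 3, 2, 2, 2, 2, 0, 4, 3⟩ :=
  leafX_sound T5.ok_mp T5.Ymp.bz_eq (w := 202) (c := ⟨⟨.negSucc 1660, .negSucc 562, .negSucc 61, .ofNat 7, .ofNat 81, .ofNat 137⟩, ⟨.negSucc 553, .ofNat 97, .negSucc 197, .negSucc 32, .ofNat 41, .ofNat 38⟩, ⟨.ofNat 1412, .ofNat 735, .ofNat 135, .negSucc 209, .negSucc 454, .ofNat 104⟩, ⟨.negSucc 4314, .negSucc 509, .negSucc 59, .ofNat 117, .ofNat 148, .ofNat 269⟩, ⟨.negSucc 899, .ofNat 22, .ofNat 25, .negSucc 436, .ofNat 166, .ofNat 153⟩, .ofNat 379, .negSucc 102, .ofNat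 0, .negSucc 102, .ofNat 658, .ofNat 0, .ofNat 412, .ofNat 51, .negSucc 146, .ofNat 0, .ofNat 128, .ofNat 23, .ofNat 0, .ofNat 0, .ofNat 884, .ofNat 6947, .ofNat 0, .ofNat 0, .ofNat 0, .ofNat 0, .ofNat 0, .ofNat 0, .ofNat 0, .ofNat 0, .ofNat 0, .ofNat 0, .ofNat 0, .ofNat 0, .ofNat 298822901629859082714225111297642219962368, .ofNat 0, .ofNat 0, .ofNat 0⟩)
    (by decide +kernel)
theorem L00551 : Good (Phi V5.P V5.D (-1) 1) ⟨2, 1, 3, 2, 2, 2, 2, 1, 4, 3⟩ :=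
  leafX_sound T5.ok_mp T5.Ymp.bz_eq (w := 202) (c := ⟨⟨.negSucc 1588, .negSucc 506, .negSucc 37, .negSucc 7, .ofNat 130, .ofNat 122⟩, ⟨.negSucc 534, .ofNat 107, .negSucc 185, .negSucc 33, .ofNat 59, .ofNat 43⟩, ⟨.ofNat 1113, .ofNat 514, .ofNat 73, .negSucc 244, .negSucc 252, .ofNat 48⟩, ⟨.negSucc 4210, .negSucc 396, .negSucc 22, .ofNat 81, .ofNat 291, .ofNat 265⟩, ⟨.negSucc 726, .ofNat 25, .ofNat 10, .negSucc 406, .ofNat 199, .ofNat 113⟩, .ofNat 377, .negSucc 99, .ofNat 0, .negSucc 99, .ofNat 659, .ofNat 0, .ofNat 555, .ofNat 55, .negSucc 252, .ofNat 0, .ofNat 128, .ofNat 20, .ofNat 0, .ofNat 0, .ofNat 1143, .ofNat 4809, .ofNat 0, .ofNat 0, .ofNat 0, .ofNat 0, .ofNat 0, .ofNat 0, .ofNat 0, .ofNat 0, .ofNat 0, .ofNat 0, .ofNat 0, .ofNat 0, .ofNat 0, .ofNat 0, .ofNat 0, .ofNat 0⟩)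
    (by decide +kernel)
theorem L00552 : Good (Phi V5.P V5.D (-1) 1) ⟨2, 1, 3, 2, 3, 6, 2, 0, 4, 2⟩ :=
  leafX_sound T5.ok_mp T5.Ymp.bz_eq (w := 215) (c := ⟨⟨.negSucc 1439, .negSucc 737, .negSucc 100, .ofNat 23, .ofNat 65, .negSucc 73⟩, ⟨.negSucc 536, .ofNat 51, .negSucc 207, .ofNat 2, .ofNat 28, .negSucc 11⟩, ⟨.ofNat 1032, .ofNat 894, .ofNat 183, .negSucc 0, .negSucc 677, .ofNat 254⟩, ⟨.negSucc 3642, .negSucc 947, .negSucc 112, .ofNat 40, .ofNat 119, .negSucc 214⟩, ⟨.negSucc 1377, .negSucc 57, .ofNat 29, .negSucc 0, .ofNat 126, .ofNat 62⟩, .ofNat 572, .negSucc 309, .ofNat 0, .negSucc 309, .ofNat 1408, .ofNat 0, .ofNat 354, .ofNat 93, .negSucc 141, .ofNat 0, .ofNat 128, .negSucc 12, .ofNat 0, .ofNat 0, .ofNat 596, .ofNat 4474, .ofNat 0, .ofNat 0, .ofNat 0, .ofNat 0, .ofNat 0, .ofNat 0, .ofNat 0, .ofNat 0, .ofNat 0, .ofNat 0, .ofNat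 0, .ofNat 0, .ofNat 359908787346514413875030301170920268043911168, .ofNat 0, .ofNat 0, .ofNat 0⟩)
    (by decide +kernel)
theorem L00553 : Good (Phi V5.P V5.D (-1) 1) ⟨2, 1, 3, 2, 3, 7, 2, 0, 4, 2⟩ :=
  leafX_sound T5.ok_mp T5.Ymp.bz_eq (w := 215) (c := ⟨⟨.negSucc 1443, .negSucc 714, .negSucc 103, .ofNat 43, .ofNat 20, .ofNat 21⟩, ⟨.negSucc 516, .ofNat 63, .negSucc 209, .ofNat 36, .ofNat 0, .negSucc 15⟩, ⟨.ofNat 1116, .ofNat 655, .ofNat 101, .negSucc 537, .negSucc 384, .ofNat 105⟩, ⟨.negSucc 3746, .negSucc 893, .negSucc 123, .negSucc 8, .ofNat 62, .ofNat 113⟩, ⟨.negSucc 1095, .ofNat 20, .negSucc 43, .ofNat 434, .negSucc 78, .negSucc 309⟩, .ofNat 571, .negSucc 301, .ofNat 0, .negSucc 301, .ofNat 1408, .ofNat 0, .ofNat 466, .ofNat 78, .negSucc 218, .ofNat 0, .ofNat 128, .negSucc 17, .ofNat 0, .ofNat 0, .ofNat 906, .ofNat 4777, .ofNat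 0, .ofNat 0, .ofNat 0, .ofNat 0, .ofNat 0, .ofNat 0, .ofNat 0, .ofNat 0, .ofNat 0, .ofNat 0, .ofNat 0, .ofNat 0, .ofNat 0, .ofNat 0, .ofNat 0, .ofNat 0⟩)
    (by decide +kernel)
theorem L00554 : Good (Phi V5.P V5.D (-1) 1) ⟨2, 1, 3, 2, 2, 3, 2, 0, 4, 3⟩ :=
  leafX_sound T5.ok_mp T5.Ymp.bz_eq (w := 202) (c := ⟨⟨.negSucc 1731, .negSucc 472, .negSucc 50, .ofNat 245, .ofNat 83, .ofNat 219⟩, ⟨.negSucc 596, .ofNat 105, .negSucc 184, .ofNat 42, .ofNat 30, .ofNat 56⟩, ⟨.ofNat 1512, .ofNat 586, .ofNat 74, .negSucc 691, .negSucc 497, .negSucc 8⟩, ⟨.negSucc 4396, .negSucc 361, .ofNat 18, .ofNat 644, .ofNat 192, .ofNat 486⟩, ⟨.negSucc 1180, .negSucc 65, .negSucc 37, .negSucc 242, .ofNat 57, .ofNat 83⟩, .ofNat 572, .negSucc 304, .ofNat 0, .negSucc 304, .ofNat 1406, .ofNat 0, .ofNat 364, .ofNat 80, .negSucc 173, .ofNat 0, .ofNat 128, .negSucc 1,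 .ofNat 0, .ofNat 0, .ofNat 1218, .ofNat 5842, .ofNat 0, .ofNat 0, .ofNat 0, .ofNat 0, .ofNat 0, .ofNat 0, .ofNat 0, .ofNat 0, .ofNat 0, .ofNat 0, .ofNat 0, .ofNat 0, .ofNat 411325142043377454160638686944936675246080, .ofNat 0, .ofNat 0, .ofNat 0⟩)
    (by decide +kernel)
theorem L00555 : Good (Phi V5.P V5.D (-1) 1) ⟨2, 1, 3, 2, 2, 3, 2, 1, 4, 2⟩ :=
  leafX_sound T5.ok_mp T5.Ymp.bz_eq (w := 201) (c := ⟨⟨.negSucc 1583, .negSucc 554, .negSucc 99, .ofNat 220, .ofNat 184, .ofNat 11⟩, ⟨.negSucc 545, .ofNat 84, .negSucc 199, .ofNat 24, .ofNat 40, .ofNat 10⟩, ⟨.ofNat 827, .ofNat 539, .ofNat 79, .negSucc 411, .negSucc 289, .ofNat 86⟩, ⟨.negSucc 3972, .negSucc 454, .negSucc 118, .ofNat 531, .ofNat 346, .negSucc 34⟩, ⟨.negSucc 1193, .negSucc 248, .ofNat 17, .negSucc 301, .ofNat 156, .ofNat 120⟩, .ofNat 750, .negSucc 602, .ofNat 0, .negSucc 602,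 .ofNat 2341, .ofNat 0, .ofNat 387, .ofNat 128, .negSucc 163, .ofNat 0, .ofNat 123, .negSucc 19, .ofNat 0, .ofNat 0, .ofNat 570, .ofNat 1761, .ofNat 0, .ofNat 0, .ofNat 0, .ofNat 0, .ofNat 0, .ofNat 0, .ofNat 0, .ofNat 0, .ofNat 0, .ofNat 0, .ofNat 0, .ofNat 0, .ofNat 0, .ofNat 0, .ofNat 0, .ofNat 0⟩)
    (by decide +kernel)
theorem L00556 : Good (Phi V5.P V5.D (-1) 1) ⟨2, 1, 3, 2, 3, 6, 2, 1, 4, 3⟩ :=
  leafX_sound T5.ok_mp T5.Ymp.bz_eq (w := 216) (c := ⟨⟨.negSucc 1707, .negSucc 400, .negSucc 28, .ofNat 130, .ofNat 140, .ofNat 220⟩, ⟨.negSucc 578, .ofNat 108, .negSucc 177, .ofNat 27, .ofNat 66, .ofNat 60⟩, ⟨.ofNat 1072, .ofNat 374, .ofNat 49, .negSucc 215, .negSucc 322, .negSucc 61⟩, ⟨.negSucc 4330, .negSucc 183, .ofNat 28, .ofNat 357, .ofNat 281, .ofNat 470⟩, ⟨.negSucc 1090, .negSucc 166, .negSucc 26, .negSucc 164, .ofNat 262, .ofNat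 154⟩, .ofNat 575, .negSucc 303, .ofNat 0, .negSucc 303, .ofNat 1399, .ofNat 0, .ofNat 381, .ofNat 93, .negSucc 108, .ofNat 0, .ofNat 128, .negSucc 3, .ofNat 0, .ofNat 0, .ofNat 593, .ofNat 4207, .ofNat 0, .ofNat 0, .ofNat 0, .ofNat 0, .ofNat 0, .ofNat 0, .ofNat 0, .ofNat 0, .ofNat 0, .ofNat 0, .ofNat 0, .ofNat 0, .ofNat 0, .ofNat 0, .ofNat 0, .ofNat 0⟩)
    (by decide +kernel)
theorem L00557 : Good (Phi V5.P V5.D (-1) 1) ⟨2, 1, 3, 2, 3, 7, 2, 1, 4, 3⟩ :=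
  leafX_sound T5.ok_mp T5.Ymp.bz_eq (w := 216) (c := ⟨⟨.negSucc 1732, .negSucc 253, .negSucc 29, .ofNat 133, .ofNat 193, .ofNat 300⟩, ⟨.negSucc 587, .ofNat 131, .negSucc 177, .ofNat 24, .ofNat 69, .ofNat 87⟩, ⟨.ofNat 1047, .ofNat 193, .ofNat 15, .negSucc 281, .negSucc 293, .negSucc 142⟩, ⟨.negSucc 4284, .ofNat 96, .ofNat 80, .ofNat 351, .ofNat 371, .ofNat 653⟩, ⟨.negSucc 1225, .negSucc 219, .negSucc 122, .negSucc 141, .ofNat 266, .ofNat 159⟩, .ofNat 581, .negSucc 312, .ofNat 0, .negSucc 312, .ofNat 1394, .ofNat 0, .ofNat 311, .ofNat 83, .negSucc 132, .ofNat 0, .ofNat 128, .ofNat 7, .ofNat 0, .ofNat 0, .ofNat 898, .ofNat 3173, .ofNat 0, .ofNat 0, .ofNat 0, .ofNat 0, .ofNat 0, .ofNat 0, .ofNat 0, .ofNat 0, .ofNat 0, .ofNat 0, .ofNat 0, .ofNat 0, .ofNat 0, .ofNat 0, .ofNat 0, .ofNat 0⟩)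
    (by decide +kernel)
theorem L00558 : Good (Phi V5.P V5.D (-1) 1) ⟨2, 1, 3, 2, 2, 2, 2, 0, 4, 4⟩ :=
  leafX_sound T5.ok_mp T5.Ymp.bz_eq (w := 203) (c := ⟨⟨.negSucc 1590, .negSucc 418, .negSucc 17, .ofNat 66, .ofNat 21, .ofNat 202⟩, ⟨.negSucc 526, .ofNat 104, .negSucc 171, .negSucc 11, .ofNat 33, .ofNat 55⟩, ⟨.ofNat 1752, .ofNat 600, .ofNat 110, .negSucc 290, .negSucc 563, .ofNat 46⟩, ⟨.negSucc 4192, .negSucc 245, .ofNat 30, .ofNat 271, .ofNat 61, .ofNat 439⟩, ⟨.negSucc 762, .ofNat 15, .ofNat 4, .negSucc 390, .ofNat 164, .ofNat 124⟩, .ofNat 381, .negSucc 104, .ofNat 0, .negSucc 104, .ofNat 656, .ofNat 0, .ofNat 465, .ofNat 50, .negSucc 130, .ofNat 0, .ofNat 128, .ofNat 26, .ofNat 0, .ofNat 0, .ofNat 1145, .ofNat 13899, .ofNat 0, .ofNat 0, .ofNat 0, .ofNat 0, .ofNat 0, .ofNat 0, .ofNat 0, .ofNat 0, .ofNat 0, .ofNat 0, .ofNat 0, .ofNat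 0, .ofNat 979577332198382736777189945411801041600512, .ofNat 0, .ofNat 0, .ofNat 0⟩)
    (by decide +kernel)
theorem L00559 : Good (Phi V5.P V5.D (-1) 1) ⟨2, 1, 3, 2, 2, 2, 2, 1, 4, 4⟩ :=
  leafX_sound T5.ok_mp T5.Ymp.bz_eq (w := 202) (c := ⟨⟨.negSucc 1554, .negSucc 384, .negSucc 30, .ofNat 72, .ofNat 137, .ofNat 166⟩, ⟨.negSucc 507, .ofNat 109, .negSucc 167, .negSucc 2, .ofNat 55, .ofNat 53⟩, ⟨.ofNat 1329, .ofNat 405, .ofNat 67, .negSucc 314, .negSucc 383, .negSucc 5⟩, ⟨.negSucc 4107, .negSucc 168, .negSucc 5, .ofNat 273, .ofNat 288, .ofNat 378⟩, ⟨.negSucc 618, .ofNat 2, .negSucc 10, .negSucc 332, .ofNat 198, .ofNat 115⟩, .ofNat 384, .negSucc 104, .ofNat 0, .negSucc 104, .ofNat 655, .ofNat 0, .ofNat 349, .ofNat 53, .negSucc 90, .ofNat 0, .ofNat 128, .ofNat 10, .ofNat 0, .ofNat 0, .ofNat 669, .ofNat 4388, .ofNat 0, .ofNat 0, .ofNat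 0, .ofNat 0, .ofNat 0, .ofNat 0, .ofNat 0, .ofNat 0, .ofNat 0, .ofNat 0, .ofNat 0, .ofNat 0, .ofNat 0, .ofNat 0, .ofNat 0, .ofNat 0⟩)
    (by decide +kernel)
theorem L00560 : Good (Phi V5.P V5.D (-1) 1) ⟨2, 1, 3, 2, 2, 3, 2, 0, 4, 4⟩ :=
  leafX_sound T5.ok_mp T5.Ymp.bz_eq (w := 201) (c := ⟨⟨.negSucc 1600, .negSucc 342, .negSucc 38, .ofNat 271, .ofNat 88, .ofNat 216⟩, ⟨.negSucc 546, .ofNat 117, .negSucc 167, .ofNat 46, .ofNat 23, .ofNat 67⟩, ⟨.ofNat 1558, .ofNat 525, .ofNat 76, .negSucc 771, .negSucc 507, .ofNat 2⟩, ⟨.negSucc 4065, .negSucc 132, .ofNat 31, .ofNat 767, .ofNat 185, .ofNat 487⟩, ⟨.negSucc 1070, .negSucc 90, .negSucc 31, .negSucc 367, .ofNat 96, .ofNat 161⟩, .ofNat 380, .negSucc 103, .ofNat 0, .negSucc 103, .ofNat 657, .ofNat 0, .ofNat 228, .ofNat 32, .negSucc 84, .ofNat 0, .ofNat 128, .ofNat 31, .ofNat 0, .ofNat 0, .ofNat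 985, .ofNat 4067, .ofNat 0, .ofNat 0, .ofNat 0, .ofNat 0, .ofNat 0, .ofNat 692137772319195335641690483758024622080, .ofNat 0, .ofNat 0, .ofNat 0, .ofNat 0, .ofNat 0, .ofNat 0, .ofNat 160593268750125209635739138708920984403968, .ofNat 0, .ofNat 0, .ofNat 0⟩)
    (by decide +kernel)
theorem L00561 : Good (Phi V5.P V5.D (-1) 1) ⟨2, 1, 3, 2, 3, 6, 2, 1, 4, 4⟩ :=
  leafX_sound T5.ok_mp T5.Ymp.bz_eq (w := 216) (c := ⟨⟨.negSucc 1548, .negSucc 274, .negSucc 26, .ofNat 125, .ofNat 150, .ofNat 214⟩, ⟨.negSucc 536, .ofNat 121, .negSucc 152, .ofNat 29, .ofNat 66, .ofNat 75⟩, ⟨.ofNat 1116, .ofNat 229, .ofNat 48, .negSucc 226, .negSucc 376, .negSucc 76⟩, ⟨.negSucc 3939, .ofNat 49, .ofNat 29, .ofNat 358, .ofNat 263, .ofNat 456⟩, ⟨.negSucc 1018, .negSucc 109, .negSucc 27, .negSucc 158, .ofNat 344, .ofNat 232⟩, .ofNat 587, .negSucc 318, .ofNat 0, .negSucc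 318, .ofNat 1393, .ofNat 0, .ofNat 280, .ofNat 89, .negSucc 60, .ofNat 0, .ofNat 128, .ofNat 3, .ofNat 0, .ofNat 0, .ofNat 770, .ofNat 4367, .ofNat 0, .ofNat 0, .ofNat 0, .ofNat 0, .ofNat 0, .ofNat 0, .ofNat 0, .ofNat 0, .ofNat 0, .ofNat 0, .ofNat 0, .ofNat 0, .ofNat 0, .ofNat 8828274589352158469986280845424645264900096, .ofNat 0, .ofNat 0⟩)
    (by decide +kernel)

end Crest.Agent.R097C5.N5mp
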