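import Crest.Agent.R097.KP7
import Crest.Agent.R097.T5Ymp

/-!
# Row 97, box cover in dimension n = 5 (generated)
-/

set_option autoImplicit false
set_option Elab.async false
set_option maxHeartbeats 0
set_option maxRecDepth 100000

open Crest.Agent.R097 Crest.Agent.R097.KA


namespace Crest.Agent.R097C5.N5mp

theorem L00562 : Good (Phi V5.P V5.D (-1) 1) ⟨2, 1, 3, 2, 3, 7, 2, 1, 4, 4⟩ :=
  leafX_sound T5.ok_mp T5.Ymp.bz_eq (w := 215) (c := ⟨⟨.negSucc 1446, .negSucc 197, .negSucc 17, .ofNat 138, .ofNat 163, .ofNat 216⟩, ⟨.negSucc 518, .ofNat 118, .negSucc 143, .ofNat 31, .ofNat 77, .ofNat 79⟩, ⟨.ofNat 884, .ofNat 65, .ofNat 12, .negSucc 211, .negSucc 246, .negSucc 41⟩, ⟨.negSucc 3633, .ofNat 194, .ofNat 99, .ofNat 368, .ofNat 286, .ofNat 436⟩, ⟨.negSucc 1145, .negSucc 275, .negSucc 95, .negSucc 121, .ofNat 420, .ofNat 314⟩, .ofNat 584, .negSucc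 319, .ofNat 0, .negSucc 319, .ofNat 1404, .ofNat 0, .ofNat 355, .ofNat 79, .negSucc 45, .ofNat 0, .ofNat 128, .ofNat 13, .ofNat 0, .ofNat 0, .ofNat 904, .ofNat 2596, .ofNat 0, .ofNat 0, .ofNat 0, .ofNat 0, .ofNat 0, .ofNat 0, .ofNat 0, .ofNat 0, .ofNat 0, .ofNat 9647801880971299861832881980322227437961216, .ofNat 0, .ofNat 0, .ofNat 0, .ofNat 23818760127665057531930614897515806486167552, .ofNat 0, .ofNat 0⟩)
    (by decide +kernel)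
theorem L00563 : Good (Phi V5.P V5.D (-1) 1) ⟨2, 1, 3, 2, 2, 2, 2, 0, 4, 5⟩ :=
  leafX_sound T5.ok_mp T5.Ymp.bz_eq (w := 205) (c := ⟨⟨.negSucc 1630, .negSucc 312, .negSucc 26, .ofNat 176, .ofNat 143, .ofNat 186⟩, ⟨.negSucc 498, .ofNat 116, .negSucc 155, .negSucc 2, .ofNat 43, .ofNat 73⟩, ⟨.ofNat 2218, .ofNat 456, .ofNat 113, .negSucc 478, .negSucc 787, .ofNat 48⟩, ⟨.negSucc 4176, .negSucc 56, .ofNat 8, .ofNat 486, .ofNat 266, .ofNat 428⟩, ⟨.negSucc 607, .negSucc 19, .ofNat 14, .negSucc 379, .ofNat 143, .ofNat 168⟩, .ofNat 380, .negSucc 104, .ofNat 0, .negSucc 104, .ofNat 658, .ofNat 0, .ofNat 402, .ofNat 45, .negSucc 68, .ofNat 0, .ofNat 128, .ofNat 23, .ofNat 0, .ofNat 0, .ofNat 1117, .ofNat 46395, .ofNat 72633040060873901063209428374749941071872, .ofNat 0, .ofNat 0, .ofNat 0, .ofNat 871584591405717483089593111982463546032128, .ofNat 0,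 .ofNat 0, .ofNat 0, .ofNat 204129577451470932698226604604592364716032, .ofNat 0, .ofNat 0, .ofNat 0, .ofNat 1881231736819592520493406950767927480025088, .ofNat 0, .ofNat 0, .ofNat 0⟩)
    (by decide +kernel)
theorem L00564 : Good (Phi V5.P V5.D (-1) 1) ⟨2, 1, 3, 2, 2, 3, 2, 0, 4, 5⟩ :=
  leafX_sound T5.ok_mp T5.Ymp.bz_eq (w := 201) (c := ⟨⟨.negSucc 1416, .negSucc 236, .negSucc 26, .ofNat 243, .ofNat 79, .ofNat 172⟩, ⟨.negSucc 500, .ofNat 115, .negSucc 146, .ofNat 50, .ofNat 42, .ofNat 69⟩, ⟨.ofNat 1660, .ofNat 339, .ofNat 101, .negSucc 557, .negSucc 664, .ofNat 75⟩, ⟨.negSucc 3611, .ofNat 65, .ofNat 31, .ofNat 707, .ofNat 145, .ofNat 396⟩, ⟨.negSucc 1024, .negSucc 70, .negSucc 12, .negSucc 324, .ofNat 215, .ofNat 183⟩, .ofNat 584, .negSucc 309, .ofNat 0, .negSucc 309, .ofNat 1394, .ofNat 0, .ofNat 236, .ofNat 79, .negSucc 30, .ofNat 0,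 .ofNat 128, .ofNat 10, .ofNat 0, .ofNat 0, .ofNat 1083, .ofNat 3051, .ofNat 0, .ofNat 0, .ofNat 0, .ofNat 0, .ofNat 0, .ofNat 0, .ofNat 0, .ofNat 0, .ofNat 0, .ofNat 0, .ofNat 0, .ofNat 0, .ofNat 595597890433378537038671110678548441989120, .ofNat 14225426943014608777667457797133925613568, .ofNat 0, .ofNat 0⟩)
    (by decide +kernel)
theorem L00565 : Good (Phi V5.P V5.D (-1) 1) ⟨3, 2, 3, 2, 3, 4, 3, 2, 4, 5⟩ :=
  leafX_sound T5.ok_mp T5.Ymp.bz_eq (w := 228) (c := ⟨⟨.negSucc 1415, .negSucc 132, .negSucc 18, .ofNat 20, .ofNat 57, .ofNat 145⟩, ⟨.negSucc 446, .ofNat 30, .negSucc 148, .negSucc 2, .ofNat 26, .ofNat 51⟩, ⟨.ofNat 1360, .ofNat 151, .ofNat 39, .negSucc 138, .negSucc 208, .ofNat 38⟩, ⟨.negSucc 3744, .negSucc 22, .ofNat 7, .ofNat 91, .ofNat 126, .ofNat 346⟩, ⟨.negSucc 532, .ofNat 8, .ofNat 1, .negSucc 122, .ofNat 78, .ofNat 102⟩, .ofNat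 397, .negSucc 113, .ofNat 0, .negSucc 113, .ofNat 648, .ofNat 0, .ofNat 237, .ofNat 54, .negSucc 45, .ofNat 0, .ofNat 128, .ofNat 8, .ofNat 0, .ofNat 0, .ofNat 651, .ofNat 56311, .ofNat 7582034691270143276003806560296984679788052480, .ofNat 0, .ofNat 0, .ofNat 0, .ofNat 0, .ofNat 0, .ofNat 0, .ofNat 0, .ofNat 91190301496972750639878900250750992997953830912, .ofNat 0, .ofNat 0, .ofNat 0, .ofNat 161870377081523784878824915320071299000357093376, .ofNat 0, .ofNat 0, .ofNat 0⟩)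
    (by decide +kernel)
theorem L00566 : Good (Phi V5.P V5.D (-1) 1) ⟨3, 3, 3, 2, 3, 4, 4, 4, 4, 5⟩ :=
  leafX_sound T5.ok_mp T5.Ymp.bz_eq (w := 233) (c := ⟨⟨.negSucc 1574, .negSucc 197, .negSucc 23, .ofNat 23, .ofNat 29, .ofNat 215⟩, ⟨.negSucc 413, .ofNat 83, .negSucc 161, .negSucc 4, .ofNat 12, .ofNat 60⟩, ⟨.ofNat 1576, .ofNat 266, .ofNat 89, .negSucc 151, .negSucc 152, .negSucc 19⟩, ⟨.negSucc 3810, .negSucc 56, .negSucc 6, .ofNat 97, .ofNat 63, .ofNat 469⟩, ⟨.negSucc 509, .ofNat 12, .ofNat 14, .negSucc 154, .ofNat 38, .ofNat 101⟩, .ofNat 367, .negSucc 96, .ofNat 0, .negSucc 96, .ofNat 668, .ofNat 0, .ofNat 338, .ofNat 51, .negSucc 70, .ofNat 0, .ofNat 128, .ofNat 11, .ofNat 0, .ofNat 0, .ofNat 768, .ofNat 114348, .ofNat 433135892807508190993432077151982577609288450048, .ofNat 0, .ofNat 0, .ofNat 0, .ofNat 4039063731158068390527887358774025975406627127296,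 .ofNat 0, .ofNat 0, .ofNat 0, .ofNat 1929456292626210575492596808636953536491337809920, .ofNat 0, .ofNat 0, .ofNat 0, .ofNat 3290899956649246400607938332894705730019628417024, .ofNat 0, .ofNat 0, .ofNat 0⟩)
    (by decide +kernel)
theorem L00567 : Good (Phi V5.P V5.D (-1) 1) ⟨3, 3, 3, 2, 3, 4, 4, 5, 4, 5⟩ :=
  leafX_sound T5.ok_mp T5.Ymp.bz_eq (w := 232) (c := ⟨⟨.negSucc 1551, .negSucc 186, .negSucc 19, .ofNat 39, .ofNat 39, .ofNat 182⟩, ⟨.negSucc 405, .ofNat 78, .negSucc 151, .ofNat 0, .ofNat 12, .ofNat 53⟩, ⟨.ofNat 1472, .ofNat 224, .ofNat 63, .negSucc 179, .negSucc 151, .negSucc 19⟩, ⟨.negSucc 3751, .negSucc 41, .negSucc 1, .ofNat 122, .ofNat 79, .ofNat 405⟩, ⟨.negSucc 482, .ofNat 9, .ofNat 12, .negSucc 130, .ofNat 35, .ofNat 96⟩, .ofNat 368, .negSucc 97, .ofNat 0, .negSucc 97, .ofNat 671, .ofNat 0, .ofNat 369, .ofNat 52, .negSucc 72,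 .ofNat 0, .ofNat 128, .ofNat 9, .ofNat 0, .ofNat 0, .ofNat 883, .ofNat 71904, .ofNat 148430345952709507467738198701021316508305850368, .ofNat 0, .ofNat 0, .ofNat 0, .ofNat 0, .ofNat 0, .ofNat 0, .ofNat 0, .ofNat 0, .ofNat 0, .ofNat 0, .ofNat 0, .ofNat 0, .ofNat 0, .ofNat 0, .ofNat 0⟩)
    (by decide +kernel)
theorem L00568 : Good (Phi V5.P V5.D (-1) 1) ⟨2, 1, 3, 2, 3, 4, 3, 3, 4, 5⟩ :=
  leafX_sound T5.ok_mp T5.Ymp.bz_eq (w := 222) (c := ⟨⟨.negSucc 1367, .negSucc 288, .negSucc 16, .ofNat 30, .ofNat 69, .ofNat 153⟩, ⟨.negSucc 441, .ofNat 111, .negSucc 141, .ofNat 2, .ofNat 26, .ofNat 49⟩, ⟨.ofNat 1223, .ofNat 255, .ofNat 19, .negSucc 150, .negSucc 212, .negSucc 27⟩, ⟨.negSucc 3645, .negSucc 7, .ofNat 7, .ofNat 100, .ofNat 144, .ofNat 350⟩, ⟨.negSucc 474, .ofNat 20, .negSucc 0, .negSucc 83, .ofNat 99, .ofNat 90⟩, .ofNat 379, .negSucc 105,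 .ofNat 0, .negSucc 105, .ofNat 658, .ofNat 0, .ofNat 296, .ofNat 54, .negSucc 74, .ofNat 0, .ofNat 128, .ofNat 4, .ofNat 0, .ofNat 0, .ofNat 922, .ofNat 18271, .ofNat 0, .ofNat 0, .ofNat 0, .ofNat 0, .ofNat 0, .ofNat 0, .ofNat 0, .ofNat 0, .ofNat 0, .ofNat 0, .ofNat 0, .ofNat 0, .ofNat 0, .ofNat 0, .ofNat 0, .ofNat 0⟩)
    (by decide +kernel)
theorem L00569 : Good (Phi V5.P V5.D (-1) 1) ⟨2, 1, 3, 2, 3, 5, 2, 1, 4, 5⟩ :=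
  leafX_sound T5.ok_mp T5.Ymp.bz_eq (w := 217) (c := ⟨⟨.negSucc 1410, .negSucc 288, .negSucc 14, .ofNat 79, .ofNat 125, .ofNat 170⟩, ⟨.negSucc 463, .ofNat 116, .negSucc 146, .ofNat 14, .ofNat 54, .ofNat 53⟩, ⟨.ofNat 1262, .ofNat 300, .ofNat 38, .negSucc 175, .negSucc 458, .negSucc 2⟩, ⟨.negSucc 3695, .negSucc 4, .ofNat 33, .ofNat 237, .ofNat 243, .ofNat 384⟩, ⟨.negSucc 679, .negSucc 20, .negSucc 12, .negSucc 121, .ofNat 267, .ofNat 132⟩, .ofNat 384, .negSucc 104, .ofNat 0, .negSucc 104, .ofNat 654, .ofNat 0, .ofNat 219, .ofNat 48, .negSucc 58, .ofNat 0, .ofNat 128, .ofNat 14, .ofNat 0, .ofNat 0, .ofNat 1065, .ofNat 6252, .ofNat 0, .ofNat 0, .ofNat 0, .ofNat 0, .ofNat 0, .ofNat 7527495571920039076370706818157775434022912, .ofNat 0, .ofNat 0, .ofNat 0, .ofNat 0, .ofNat 0, .ofNat 0, .ofNat 0, .ofNat 0, .ofNat 0, .ofNat 0⟩)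
    (by decide +kernel)
theorem L00570 : Good (Phi V5.P V5.D (-1) 1) ⟨2, 1, 3, 2, 2, 3, 2, 1, 4, 5⟩ :=
  leafX_sound T5.ok_mp T5.Ymp.bz_eq (w := 201) (c := ⟨⟨.negSucc 1354, .negSucc 211, .negSucc 24, .ofNat 268, .ofNat 122, .ofNat 183⟩, ⟨.negSucc 458, .ofNat 106, .negSucc 145, .ofNat 58, .ofNat 67, .ofNat 66⟩, ⟨.ofNat 1116, .ofNat 144, .ofNat 75, .negSucc 582, .negSucc 424, .negSucc 16⟩, ⟨.negSucc 3496, .ofNat 121, .ofNat 23, .ofNat 749, .ofNat 218, .ofNat 407⟩, ⟨.negSucc 815, .negSucc 73, .negSucc 18, .negSucc 288, .ofNat 352, .ofNat 181⟩, .ofNat 587, .negSucc 316, .ofNat 0, .negSucc 316, .ofNat 1398, .ofNat 0, .ofNat 215, .ofNat 84, .negSucc 28, .ofNat 0, .ofNat 128, .ofNat 9, .ofNat 0, .ofNat 0, .ofNat 1112, .ofNat 1902, .ofNat 0, .ofNat 0, .ofNat 0, .ofNat 0, .ofNat 0, .ofNat 5517220937126113557155388083666071584768, .ofNat 0, .ofNat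 0, .ofNat 0, .ofNat 4522711401194900624294097043416112168960, .ofNat 0, .ofNat 0, .ofNat 0, .ofNat 14773708500613883269640196259508717092864, .ofNat 0, .ofNat 0⟩)
    (by decide +kernel)
theorem L00571 : Good (Phi V5.P V5.D (-1) 1) ⟨2, 1, 3, 2, 2, 2, 1, 0, 3, 3⟩ :=
  leafX_sound T5.ok_mp T5.Ymp.bz_eq (w := 193) (c := ⟨⟨.negSucc 1480, .negSucc 249, .negSucc 1, .ofNat 138, .ofNat 284, .ofNat 250⟩, ⟨.negSucc 452, .ofNat 104, .negSucc 141, .ofNat 15, .ofNat 89, .ofNat 79⟩, ⟨.ofNat 2120, .ofNat 197, .negSucc 10, .negSucc 393, .negSucc 1085, .ofNat 43⟩, ⟨.negSucc 3725, .ofNat 34, .ofNat 17, .ofNat 340, .ofNat 504, .ofNat 583⟩, ⟨.negSucc 809, .ofNat 25, .ofNat 6, .negSucc 103, .ofNat 516, .ofNat 171⟩, .ofNat 384, .negSucc 106, .ofNat 0, .negSucc 106, .ofNat 655, .ofNat 0, .ofNat 343, .ofNat 51, .negSucc 39, .ofNat 0, .ofNat 128, .ofNat 3, .ofNat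 0, .ofNat 0, .ofNat 1205, .ofNat 2487, .ofNat 184752691566270231387956002728347435008, .ofNat 0, .ofNat 0, .ofNat 0, .ofNat 0, .ofNat 0, .ofNat 0, .ofNat 0, .ofNat 0, .ofNat 0, .ofNat 0, .ofNat 0, .ofNat 11740863276578056064460718602546927632384, .ofNat 622058639693765400846321507426623291392, .ofNat 0, .ofNat 0⟩)
    (by decide +kernel)
theorem L00572 : Good (Phi V5.P V5.D (-1) 1) ⟨2, 1, 3, 2, 2, 3, 1, 0, 3, 3⟩ :=
  leafX_sound T5.ok_mp T5.Ymp.bz_eq (w := 192) (c := ⟨⟨.negSucc 1289, .negSucc 207, .negSucc 15, .ofNat 249, .ofNat 218, .ofNat 1⟩, ⟨.negSucc 445, .ofNat 114, .negSucc 129, .ofNat 49, .ofNat 93, .ofNat 0⟩, ⟨.ofNat 1773, .ofNat 204, .ofNat 72, .negSucc 397, .negSucc 1283, .negSucc 0⟩, ⟨.negSucc 3266, .ofNat 106, .ofNat 32, .ofNat 638, .ofNat 363, .ofNat 1⟩, ⟨.negSucc 935, .negSucc 33, .negSucc 1, .negSucc 163, .ofNat 551, .ofNat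 0⟩, .ofNat 378, .negSucc 101, .ofNat 0, .negSucc 101, .ofNat 660, .ofNat 0, .ofNat 200, .ofNat 41, .negSucc 22, .ofNat 0, .ofNat 128, .ofNat 22, .ofNat 0, .ofNat 0, .ofNat 1283, .ofNat 2724, .ofNat 204235725850010603739215996278510977024, .ofNat 7546477836550875189738672126748000256, .ofNat 0, .ofNat 0, .ofNat 5321379266192735664975315467307673714688, .ofNat 853644628250458675006010417144571887616, .ofNat 0, .ofNat 0, .ofNat 2166065537370493654956346439258528022528, .ofNat 502637972919736772715992871126339420160, .ofNat 0, .ofNat 0, .ofNat 28802646140421960923352117168167647707136, .ofNat 4016572851201754297341134031986337251328, .ofNat 0, .ofNat 0⟩)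
    (by decide +kernel)
theorem L00573 : Good (Phi V5.P V5.D (-1) 1) ⟨2, 1, 3, 3, 2, 2, 3, 0, 5, 0⟩ :=
  leafX_sound T5.ok_mp T5.Ymp.bz_eq (w := 210) (c := ⟨⟨.ofNat 712, .ofNat 96, .negSucc 196, .ofNat 115, .ofNat 251, .negSucc 919⟩, ⟨.ofNat 174, .negSucc 110, .ofNat 8, .ofNat 13, .ofNat 141, .negSucc 360⟩, ⟨.negSucc 30, .ofNat 144, .ofNat 100, .ofNat 110, .negSucc 456, .ofNat 331⟩, ⟨.ofNat 2207, .ofNat 154, .negSucc 281, .ofNat 527, .ofNat 516, .negSucc 2240⟩, ⟨.negSucc 1081, .negSucc 982, .ofNat 7, .negSucc 570, .ofNat 448, .negSucc 117⟩, .ofNat 397, .negSucc 145, .ofNat 0, .negSucc 145, .ofNat 658, .ofNat 0, .ofNat 408, .ofNat 92, .negSucc 119, .ofNat 0, .ofNat 128, .negSucc 28, .ofNat 0, .ofNat 0, .ofNat 435, .ofNat 5934, .ofNat 0, .ofNat 0, .ofNat 0, .ofNat 0, .ofNat 0, .ofNat 0, .ofNat 0, .ofNat 0, .ofNat 0, .ofNat 0, .ofNat 0, .ofNat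 0, .ofNat 0, .ofNat 0, .ofNat 0, .ofNat 0⟩)
    (by decide +kernel)
theorem L00574 : Good (Phi V5.P V5.D (-1) 1) ⟨2, 1, 3, 3, 2, 2, 3, 0, 5, 1⟩ :=
  leafX_sound T5.ok_mp T5.Ymp.bz_eq (w := 211) (c := ⟨⟨.ofNat 8, .negSucc 319, .negSucc 147, .negSucc 3, .ofNat 149, .negSucc 766⟩, ⟨.negSucc 104, .negSucc 97, .negSucc 86, .negSucc 27, .ofNat 86, .negSucc 296⟩, ⟨.ofNat 177, .ofNat 382, .ofNat 164, .ofNat 114, .negSucc 416, .ofNat 374⟩, ⟨.ofNat 413, .negSucc 465, .negSucc 183, .ofNat 180, .ofNat 264, .negSucc 1985⟩, ⟨.negSucc 1387, .negSucc 717, .ofNat 3, .negSucc 462, .ofNat 388, .ofNat 128⟩, .ofNat 396, .negSucc 145, .ofNat 0, .negSucc 145, .ofNat 658, .ofNat 0, .ofNat 494, .ofNat 86, .negSucc 177, .ofNat 0, .ofNat 128, .negSucc 28, .ofNat 0, .ofNat 0, .ofNat 646, .ofNat 8011, .ofNat 0, .ofNat 0, .ofNat 0, .ofNat 0, .ofNat 0, .ofNat 0, .ofNat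 0, .ofNat 0, .ofNat 379941409964445459536469476260343246225408, .ofNat 0, .ofNat 0, .ofNat 0, .ofNat 0, .ofNat 0, .ofNat 0, .ofNat 0⟩)
    (by decide +kernel)
theorem L00575 : Good (Phi V5.P V5.D (-1) 1) ⟨2, 1, 3, 3, 2, 2, 3, 1, 4, 0⟩ :=
  leafX_sound T5.ok_mp T5.Ymp.bz_eq (w := 204) (c := ⟨⟨.ofNat 944, .ofNat 16, .negSucc 212, .ofNat 332, .ofNat 211, .negSucc 1946⟩, ⟨.ofNat 334, .negSucc 125, .negSucc 25, .ofNat 93, .ofNat 87, .negSucc 760⟩, ⟨.negSucc 438, .ofNat 141, .ofNat 171, .negSucc 206, .negSucc 288, .ofNat 914⟩, ⟨.ofNat 2705, .ofNat 21, .negSucc 319, .ofNat 931, .ofNat 342, .negSucc 4739⟩, ⟨.negSucc 686, .negSucc 863, .negSucc 64, .negSucc 365, .ofNat 409, .negSucc 326⟩, .ofNat 394, .negSucc 143, .ofNat 0, .negSucc 143, .ofNat 659, .ofNat 0, .ofNat 275, .ofNat 94, .negSucc 94, .ofNat 0, .ofNat 128, .negSucc 15, .ofNat 0, .ofNat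 0, .ofNat 242, .ofNat 1752, .ofNat 0, .ofNat 0, .ofNat 0, .ofNat 0, .ofNat 0, .ofNat 0, .ofNat 0, .ofNat 0, .ofNat 0, .ofNat 0, .ofNat 0, .ofNat 0, .ofNat 0, .ofNat 0, .ofNat 14857342967307698652906467746023211008, .ofNat 0⟩)
    (by decide +kernel)
theorem L00576 : Good (Phi V5.P V5.D (-1) 1) ⟨2, 1, 3, 3, 2, 3, 3, 0, 4, 0⟩ :=
  leafX_sound T5.ok_mp T5.Ymp.bz_eq (w := 204) (c := ⟨⟨.ofNat 713, .negSucc 45, .negSucc 114, .negSucc 581, .ofNat 393, .negSucc 1669⟩, ⟨.ofNat 206, .negSucc 90, .negSucc 84, .negSucc 32, .ofNat 173, .negSucc 684⟩, ⟨.ofNat 128, .ofNat 94, .ofNat 96, .negSucc 107, .negSucc 625, .ofNat 853⟩, ⟨.ofNat 2433, .ofNat 159, .negSucc 133, .negSucc 2710, .ofNat 772, .negSucc 3997⟩, ⟨.negSucc 1446, .negSucc 1167, .negSucc 135, .ofNat 3135, .ofNat 468, .negSucc 597⟩, .ofNat 394, .negSucc 141, .ofNat 0, .negSucc 141, .ofNat 656,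 .ofNat 0, .ofNat 299, .ofNat 76, .negSucc 191, .ofNat 0, .ofNat 128, .negSucc 32, .ofNat 0, .ofNat 0, .ofNat 367, .ofNat 1019, .ofNat 0, .ofNat 0, .ofNat 0, .ofNat 0, .ofNat 143633780616090030254352381617613249183744, .ofNat 0, .ofNat 166119400024935998443319672099431251968, .ofNat 0, .ofNat 0, .ofNat 0, .ofNat 0, .ofNat 0, .ofNat 0, .ofNat 0, .ofNat 0, .ofNat 0⟩)
    (by decide +kernel)
theorem L00577 : Good (Phi V5.P V5.D (-1) 1) ⟨2, 1, 3, 3, 2, 3, 3, 1, 4, 0⟩ :=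
  leafX_sound T5.ok_mp T5.Ymp.bz_eq (w := 205) (c := ⟨⟨.ofNat 1233, .ofNat 11, .negSucc 98, .negSucc 620, .ofNat 233, .negSucc 1921⟩, ⟨.ofNat 431, .negSucc 69, .negSucc 46, .negSucc 64, .ofNat 77, .negSucc 786⟩, ⟨.negSucc 564, .ofNat 10, .ofNat 69, .ofNat 198, .negSucc 263, .ofNat 877⟩, ⟨.ofNat 3315, .ofNat 207, .negSucc 128, .negSucc 2600, .ofNat 462, .negSucc 4250⟩, ⟨.negSucc 564, .negSucc 972, .negSucc 372, .ofNat 2813, .ofNat 280, .negSucc 1195⟩, .ofNat 658, .negSucc 466, .ofNat 0, .negSucc 466, .ofNat 1495, .ofNat 0, .ofNat 452, .ofNat 128, .negSucc 221, .ofNat 0, .ofNat 102, .negSucc 65, .ofNat 0, .ofNat 0, .ofNat 515, .ofNat 1260, .ofNat 0, .ofNat 0, .ofNat 0, .ofNat 0, .ofNat 0, .ofNat 0, .ofNat 0, .ofNat 0, .ofNat 0, .ofNat 0, .ofNat 0, .ofNat 0, .ofNat 0, .ofNat 0, .ofNat 0, .ofNat 0⟩)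
    (by decide +kernel)
theorem L00578 : Good (Phi V5.P V5.D (-1) 1) ⟨2, 1, 3, 3, 1, 1, 2, 0, 4, 1⟩ :=
  leafX_sound T5.ok_mp T5.Ymp.bz_eq (w := 186) (c := ⟨⟨.negSucc 578, .negSucc 795, .negSucc 94, .negSucc 257, .ofNat 60, .negSucc 703⟩, ⟨.negSucc 395, .negSucc 79, .negSucc 194, .negSucc 22, .ofNat 54, .negSucc 243⟩, ⟨.ofNat 808, .ofNat 752, .ofNat 39, .negSucc 444, .negSucc 600, .ofNat 600⟩, ⟨.negSucc 1105, .negSucc 1192, .negSucc 105, .negSucc 995, .ofNat 23, .negSucc 1775⟩, ⟨.negSucc 2111, .negSucc 257, .negSucc 29, .ofNat 1111, .ofNat 488, .ofNat 247⟩, .ofNat 658, .negSucc 466, .ofNat 0, .negSucc 466, .ofNat 1495, .ofNat 0, .ofNat 294, .ofNat 128, .negSucc 96, .ofNat 0, .ofNat 111, .negSucc 23, .ofNat 0, .ofNat 0, .ofNat 393, .ofNat 1111, .ofNat 576255630057386655452467020020318208, .ofNat 0, .ofNat 0, .ofNat 0, .ofNat 0, .ofNat 0,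 .ofNat 0, .ofNat 0, .ofNat 0, .ofNat 0, .ofNat 0, .ofNat 0, .ofNat 2348034639894910717009639156349927424, .ofNat 0, .ofNat 0, .ofNat 0⟩)
    (by decide +kernel)
theorem L00579 : Good (Phi V5.P V5.D (-1) 1) ⟨2, 1, 3, 3, 1, 1, 2, 1, 4, 0⟩ :=
  leafX_sound T5.ok_mp T5.Ymp.bz_eq (w := 186) (c := ⟨⟨.ofNat 1196, .ofNat 49, .negSucc 72, .ofNat 88, .negSucc 188, .negSucc 1994⟩, ⟨.ofNat 412, .negSucc 113, .ofNat 14, .ofNat 125, .negSucc 51, .negSucc 791⟩, ⟨.negSucc 680, .negSucc 14, .ofNat 7, .negSucc 241, .ofNat 37, .ofNat 973⟩, ⟨.ofNat 2986, .ofNat 86, .ofNat 2, .negSucc 182, .negSucc 342, .negSucc 4322⟩, ⟨.negSucc 139, .negSucc 811, .negSucc 229, .ofNat 1111, .negSucc 146, .negSucc 1140⟩, .ofNat 918, .negSucc 914, .ofNat 0, .negSucc 914, .ofNat 2583, .ofNat 0, .ofNat 269, .ofNat 128, .negSucc 162, .ofNat 0, .ofNat 89, .negSucc 47, .ofNat 0, .ofNat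 0, .ofNat 402, .ofNat 299, .ofNat 0, .ofNat 0, .ofNat 0, .ofNat 0, .ofNat 0, .ofNat 0, .ofNat 0, .ofNat 0, .ofNat 0, .ofNat 0, .ofNat 0, .ofNat 0, .ofNat 0, .ofNat 0, .ofNat 0, .ofNat 0⟩)
    (by decide +kernel)
theorem L00580 : Good (Phi V5.P V5.D (-1) 1) ⟨2, 1, 3, 3, 1, 1, 2, 1, 4, 1⟩ :=
  leafX_sound T5.ok_mp T5.Ymp.bz_eq (w := 186) (c := ⟨⟨.negSucc 407, .negSucc 827, .negSucc 168, .negSucc 231, .ofNat 46, .negSucc 823⟩, ⟨.negSucc 260, .negSucc 82, .negSucc 185, .negSucc 87, .ofNat 11, .negSucc 315⟩, ⟨.ofNat 78, .ofNat 664, .ofNat 164, .negSucc 283, .negSucc 53, .ofNat 630⟩, ⟨.negSucc 1000, .negSucc 1381, .negSucc 281, .negSucc 524, .ofNat 104, .negSucc 2042⟩, ⟨.negSucc 1180, .ofNat 171, .ofNat 20, .ofNat 63, .negSucc 18, .ofNat 40⟩, .ofNat 658, .negSucc 466, .ofNat 0, .negSucc 466, .ofNat 1495, .ofNat 0, .ofNat 268, .ofNat 128, .negSucc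 155, .ofNat 0, .ofNat 106, .negSucc 35, .ofNat 0, .ofNat 0, .ofNat 400, .ofNat 720, .ofNat 0, .ofNat 0, .ofNat 0, .ofNat 0, .ofNat 0, .ofNat 0, .ofNat 0, .ofNat 0, .ofNat 0, .ofNat 0, .ofNat 0, .ofNat 0, .ofNat 0, .ofNat 0, .ofNat 389896785061950034580056597069824, .ofNat 0⟩)
    (by decide +kernel)
theorem L00581 : Good (Phi V5.P V5.D (-1) 1) ⟨2, 1, 3, 3, 2, 2, 2, 0, 4, 2⟩ :=
  leafX_sound T5.ok_mp T5.Ymp.bz_eq (w := 201) (c := ⟨⟨.negSucc 1484, .negSucc 694, .negSucc 58, .negSucc 89, .ofNat 118, .negSucc 131⟩, ⟨.negSucc 666, .ofNat 22, .negSucc 212, .negSucc 58, .ofNat 41, .negSucc 37⟩, ⟨.ofNat 1101, .ofNat 893, .ofNat 177, .negSucc 7, .negSucc 606, .ofNat 365⟩, ⟨.negSucc 3684, .negSucc 851, .negSucc 56, .negSucc 44, .ofNat 171, .negSucc 431⟩, ⟨.negSucc 1124, .ofNat 8, .ofNat 12, .negSucc 432, .ofNat 227, .ofNat 215⟩, .ofNat 395, .negSucc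 143, .ofNat 0, .negSucc 143, .ofNat 657, .ofNat 0, .ofNat 248, .ofNat 75, .negSucc 173, .ofNat 0, .ofNat 128, .ofNat 3, .ofNat 0, .ofNat 0, .ofNat 746, .ofNat 3053, .ofNat 0, .ofNat 0, .ofNat 0, .ofNat 0, .ofNat 0, .ofNat 0, .ofNat 7074059819496650806562315968213680128, .ofNat 0, .ofNat 0, .ofNat 0, .ofNat 0, .ofNat 0, .ofNat 0, .ofNat 0, .ofNat 0, .ofNat 0⟩)
    (by decide +kernel)
theorem L00582 : Good (Phi V5.P V5.D (-1) 1) ⟨2, 1, 3, 3, 2, 2, 2, 1, 4, 2⟩ :=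
  leafX_sound T5.ok_mp T5.Ymp.bz_eq (w := 201) (c := ⟨⟨.negSucc 1432, .negSucc 700, .negSucc 67, .negSucc 69, .ofNat 116, .negSucc 66⟩, ⟨.negSucc 640, .ofNat 31, .negSucc 200, .negSucc 64, .ofNat 53, .negSucc 22⟩, ⟨.ofNat 871, .ofNat 703, .ofNat 116, .negSucc 178, .negSucc 249, .ofNat 196⟩, ⟨.negSucc 3682, .negSucc 792, .negSucc 71, .negSucc 3, .ofNat 187, .negSucc 276⟩, ⟨.negSucc 877, .ofNat 5, .ofNat 7, .negSucc 481, .ofNat 221, .ofNat 204⟩, .ofNat 642, .negSucc 441, .ofNat 0, .negSucc 441, .ofNat 1450, .ofNat 0, .ofNat 150, .ofNat 128, .negSucc 87, .ofNat 0, .ofNat 121, .negSucc 16, .ofNat 0, .ofNat 0, .ofNat 372, .ofNat 2194, .ofNat 0, .ofNat 0, .ofNat 0, .ofNat 0, .ofNat 0, .ofNat 0, .ofNat 2506893899488082169431682706082627584, .ofNat 0, .ofNat 0, .ofNat 0, .ofNat 0, .ofNat 0, .ofNat 0, .ofNat 0, .ofNat 0, .ofNat 0⟩)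
    (by decide +kernel)
theorem L00583 : Good (Phi V5.P V5.D (-1) 1) ⟨2, 1, 3, 3, 2, 3, 2, 0, 4, 2⟩ :=
  leafX_sound T5.ok_mp T5.Ymp.bz_eq (w := 201) (c := ⟨⟨.negSucc 1568, .negSucc 743, .negSucc 74, .ofNat 95, .ofNat 40, .negSucc 0⟩, ⟨.negSucc 718, .ofNat 7, .negSucc 206, .ofNat 37, .ofNat 9, .negSucc 9⟩, ⟨.ofNat 1346, .ofNat 849, .ofNat 189, .negSucc 647, .negSucc 577, .ofNat 157⟩, ⟨.negSucc 3826, .negSucc 928, .ofNat 4, .ofNat 163, .ofNat 20, .negSucc 46⟩, ⟨.negSucc 1370, .ofNat 16, .negSucc 107, .ofNat 125, .ofNat 126, .ofNat 16⟩, .ofNat 915, .negSucc 919, .ofNat 0, .negSucc 919, .ofNat 2594, .ofNat 0, .ofNat 278, .ofNat 128, .negSucc 110, .ofNat 0, .ofNat 101, .negSucc 26, .ofNat 0, .ofNat 0, .ofNat 532, .ofNat 1975, .ofNat 0, .ofNat 0, .ofNat 0, .ofNat 0, .ofNat 0, .ofNat 0, .ofNat 0, .ofNat 0, .ofNat 0, .ofNat 0, .ofNat 0, .ofNat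 0, .ofNat 43763618337303993661496780268965705285632, .ofNat 0, .ofNat 0, .ofNat 0⟩)
    (by decide +kernel)
theorem L00584 : Good (Phi V5.P V5.D (-1) 1) ⟨3, 2, 3, 3, 2, 3, 2, 1, 4, 2⟩ :=
  leafX_sound T5.ok_mp T5.Ymp.bz_eq (w := 205) (c := ⟨⟨.negSucc 1583, .negSucc 250, .negSucc 84, .ofNat 92, .ofNat 116, .negSucc 28⟩, ⟨.negSucc 703, .negSucc 8, .negSucc 190, .ofNat 18, .ofNat 48, .negSucc 14⟩, ⟨.ofNat 820, .ofNat 239, .ofNat 78, .negSucc 332, .negSucc 210, .ofNat 135⟩, ⟨.negSucc 3961, .negSucc 243, .negSucc 94, .ofNat 355, .ofNat 289, .negSucc 67⟩, ⟨.negSucc 1039, .negSucc 124, .ofNat 23, .negSucc 290, .ofNat 19, .negSucc 31⟩, .ofNat 1001, .negSucc 993, .ofNat 0, .negSucc 993, .ofNat 2610, .ofNat 0, .ofNat 232, .ofNat 128, .negSucc 71, .ofNat 0, .ofNat 103, .negSucc 17, .ofNat 0, .ofNat 0, .ofNat 303, .ofNat 2157, .ofNat 0, .ofNat 0, .ofNat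 0, .ofNat 0, .ofNat 0, .ofNat 0, .ofNat 0, .ofNat 0, .ofNat 0, .ofNat 0, .ofNat 0, .ofNat 0, .ofNat 0, .ofNat 0, .ofNat 0, .ofNat 0⟩)
    (by decide +kernel)
theorem L00585 : Good (Phi V5.P V5.D (-1) 1) ⟨3, 3, 3, 3, 2, 3, 2, 1, 5, 4⟩ :=
  leafX_sound T5.ok_mp T5.Ymp.bz_eq (w := 210) (c := ⟨⟨.negSucc 1908, .negSucc 430, .negSucc 147, .ofNat 91, .ofNat 211, .ofNat 51⟩, ⟨.negSucc 715, .ofNat 17, .negSucc 226, .ofNat 17, .ofNat 64, .ofNat 3⟩, ⟨.ofNat 1141, .ofNat 403, .ofNat 130, .negSucc 371, .negSucc 303, .ofNat 23⟩, ⟨.negSucc 4361, .negSucc 523, .negSucc 218, .ofNat 206, .ofNat 520, .ofNat 115⟩, ⟨.negSucc 1136, .negSucc 28, .ofNat 25, .negSucc 26, .negSucc 110, .negSucc 89⟩, .ofNat 841, .negSucc 853, .ofNat 0, .negSucc 853, .ofNat 2628, .ofNat 0, .ofNat 364, .ofNat 128, .negSucc 173, .ofNat 0, .ofNat 92, .negSucc 39, .ofNat 0, .ofNat 0,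 .ofNat 470, .ofNat 1656, .ofNat 0, .ofNat 0, .ofNat 2289295804783630571829261453456572416, .ofNat 0, .ofNat 0, .ofNat 0, .ofNat 0, .ofNat 0, .ofNat 0, .ofNat 0, .ofNat 0, .ofNat 0, .ofNat 0, .ofNat 0, .ofNat 0, .ofNat 0⟩)
    (by decide +kernel)
theorem L00586 : Good (Phi V5.P V5.D (-1) 1) ⟨3, 3, 3, 3, 2, 3, 2, 1, 5, 5⟩ :=
  leafX_sound T5.ok_mp T5.Ymp.bz_eq (w := 211) (c := ⟨⟨.negSucc 2046, .negSucc 348, .negSucc 69, .ofNat 230, .ofNat 265, .ofNat 142⟩, ⟨.negSucc 759, .ofNat 49, .negSucc 206, .ofNat 48, .ofNat 84, .ofNat 35⟩, ⟨.ofNat 1317, .ofNat 347, .ofNat 121, .negSucc 541, .negSucc 392, .negSucc 21⟩, ⟨.negSucc 4712, .negSucc 379, .negSucc 59, .ofNat 675, .ofNat 616, .ofNat 360⟩, ⟨.negSucc 1015, .ofNat 18, .ofNat 11, .negSucc 432, .negSucc 49, .negSucc 137⟩, .ofNat 600, .negSucc 403, .ofNat 0, .negSucc 403, .ofNat 1458, .ofNat 0, .ofNat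 526, .ofNat 127, .negSucc 201, .ofNat 0, .ofNat 128, .negSucc 22, .ofNat 0, .ofNat 0, .ofNat 681, .ofNat 3553, .ofNat 0, .ofNat 0, .ofNat 0, .ofNat 0, .ofNat 0, .ofNat 0, .ofNat 0, .ofNat 0, .ofNat 0, .ofNat 0, .ofNat 0, .ofNat 0, .ofNat 0, .ofNat 0, .ofNat 0, .ofNat 0⟩)
    (by decide +kernel)
theorem L00587 : Good (Phi V5.P V5.D (-1) 1) ⟨2, 1, 3, 3, 2, 2, 2, 0, 4, 3⟩ :=
  leafX_sound T5.ok_mp T5.Ymp.bz_eq (w := 203) (c := ⟨⟨.negSucc 1684, .negSucc 562, .negSucc 69, .negSucc 27, .ofNat 69, .ofNat 154⟩, ⟨.negSucc 744, .ofNat 68, .negSucc 191, .negSucc 37, .ofNat 32, .ofNat 68⟩, ⟨.ofNat 1618, .ofNat 814, .ofNat 178, .negSucc 93, .negSucc 680, .ofNat 140⟩, ⟨.negSucc 4339, .negSucc 522, .negSucc 71, .ofNat 95, .ofNat 128, .ofNat 320⟩, ⟨.negSucc 855, .ofNat 52, .ofNat 26, .negSucc 431, .ofNat 121, .ofNat 150⟩, .ofNat 392, .negSucc 138, .ofNat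 0, .negSucc 138, .ofNat 657, .ofNat 0, .ofNat 581, .ofNat 69, .negSucc 274, .ofNat 0, .ofNat 128, .ofNat 26, .ofNat 0, .ofNat 0, .ofNat 1644, .ofNat 8940, .ofNat 0, .ofNat 0, .ofNat 0, .ofNat 0, .ofNat 0, .ofNat 0, .ofNat 0, .ofNat 0, .ofNat 7259478466222691765708121518967986585600, .ofNat 0, .ofNat 0, .ofNat 0, .ofNat 998400581284151335914245181724156965683200, .ofNat 0, .ofNat 0, .ofNat 0⟩)
    (by decide +kernel)
theorem L00588 : Good (Phi V5.P V5.D (-1) 1) ⟨2, 1, 3, 3, 2, 2, 2, 1, 4, 3⟩ :=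
  leafX_sound T5.ok_mp T5.Ymp.bz_eq (w := 202) (c := ⟨⟨.negSucc 1673, .negSucc 491, .negSucc 30, .negSucc 10, .ofNat 167, .ofNat 159⟩, ⟨.negSucc 728, .ofNat 79, .negSucc 192, .negSucc 25, .ofNat 75, .ofNat 74⟩, ⟨.ofNat 1280, .ofNat 522, .ofNat 68, .negSucc 247, .negSucc 367, .ofNat 1⟩, ⟨.negSucc 4294, .negSucc 367, .negSucc 31, .ofNat 116, .ofNat 320, .ofNat 320⟩, ⟨.negSucc 778, .ofNat 16, .ofNat 20, .negSucc 374, .ofNat 217, .ofNat 167⟩, .ofNat 648, .negSucc 448, .ofNat 0, .negSucc 448, .ofNat 1458, .ofNat 0, .ofNat 200, .ofNat 128, .negSucc 87, .ofNat 0, .ofNat 127, .negSucc 13, .ofNat 0, .ofNat 0, .ofNat 555, .ofNat 3270, .ofNat 0, .ofNat 0, .ofNat 0, .ofNat 0, .ofNat 0, .ofNat 0, .ofNat 0, .ofNat 0, .ofNat 0, .ofNat 0, .ofNat 0, .ofNat 0, .ofNat 0, .ofNat 0, .ofNat 0, .ofNat 0⟩)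
    (by decide +kernel)
theorem L00589 : Good (Phi V5.P V5.D (-1) 1) ⟨2, 1, 3, 3, 2, 3, 2, 0, 4, 3⟩ :=
  leafX_sound T5.ok_mp T5.Ymp.bz_eq (w := 201) (c := ⟨⟨.negSucc 1722, .negSucc 527, .negSucc 60, .ofNat 221, .ofNat 47, .ofNat 216⟩, ⟨.negSucc 775, .ofNat 62, .negSucc 186, .ofNat 57, .ofNat 26, .ofNat 78⟩, ⟨.ofNat 1610, .ofNat 674, .ofNat 83, .negSucc 833, .negSucc 496, .ofNat 36⟩, ⟨.negSucc 4247, .negSucc 481, .negSucc 28, .ofNat 631, .ofNat 108, .ofNat 471⟩, ⟨.negSucc 1192, .negSucc 33, .ofNat 7, .negSucc 310, .ofNat 35, .ofNat 66⟩, .ofNat 648, .negSucc 445, .ofNat 0, .negSucc 445, .ofNat 1454, .ofNat 0, .ofNat 361, .ofNat 113, .negSucc 142, .ofNat 0, .ofNat 128, .negSucc 12, .ofNat 0, .ofNat 0, .ofNat 1035, .ofNat 4041, .ofNat 0, .ofNat 0, .ofNat 0, .ofNat 0, .ofNat 0, .ofNat 0, .ofNat 0, .ofNat 0, .ofNat 0, .ofNat 0, .ofNat 0, .ofNat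 0, .ofNat 325389058686886221948580879370166695100416, .ofNat 0, .ofNat 0, .ofNat 0⟩)
    (by decide +kernel)
theorem L00590 : Good (Phi V5.P V5.D (-1) 1) ⟨3, 2, 3, 3, 2, 3, 2, 1, 4, 3⟩ :=
  leafX_sound T5.ok_mp T5.Ymp.bz_eq (w := 205) (c := ⟨⟨.negSucc 1734, .negSucc 135, .negSucc 58, .ofNat 202, .ofNat 161, .ofNat 186⟩, ⟨.negSucc 769, .ofNat 27, .negSucc 167, .ofNat 51, .ofNat 82, .ofNat 83⟩, ⟨.ofNat 1051, .ofNat 148, .ofNat 93, .negSucc 407, .negSucc 263, .negSucc 11⟩, ⟨.negSucc 4304, .negSucc 5, .ofNat 6, .ofNat 699, .ofNat 334, .ofNat 403⟩, ⟨.negSucc 1111, .negSucc 63, .negSucc 68, .negSucc 441, .ofNat 199, .ofNat 185⟩, .ofNat 1023, .negSucc 1014, .ofNat 0, .negSucc 1014, .ofNat 2606, .ofNat 0, .ofNat 149, .ofNat 128, .negSucc 61, .ofNat 0, .ofNat 110, .negSucc 11, .ofNat 0, .ofNat 0, .ofNat 451, .ofNat 1770, .ofNat 0, .ofNat 0, .ofNat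 0, .ofNat 0, .ofNat 0, .ofNat 0, .ofNat 0, .ofNat 0, .ofNat 0, .ofNat 0, .ofNat 0, .ofNat 0, .ofNat 0, .ofNat 0, .ofNat 0, .ofNat 0⟩)
    (by decide +kernel)
theorem L00591 : Good (Phi V5.P V5.D (-1) 1) ⟨3, 3, 3, 3, 2, 3, 2, 1, 4, 3⟩ :=
  leafX_sound T5.ok_mp T5.Ymp.bz_eq (w := 205) (c := ⟨⟨.negSucc 2064, .negSucc 203, .negSucc 53, .ofNat 355, .ofNat 246, .ofNat 309⟩, ⟨.negSucc 771, .ofNat 65, .negSucc 181, .ofNat 78, .ofNat 97, .ofNat 116⟩, ⟨.ofNat 1463, .ofNat 190, .ofNat 96, .negSucc 608, .negSucc 442, .negSucc 149⟩, ⟨.negSucc 4699, .negSucc 130, .negSucc 5, .ofNat 1060, .ofNat 511, .ofNat 669⟩, ⟨.negSucc 1064, .negSucc 19, .negSucc 36, .negSucc 701, .ofNat 165, .ofNat 141⟩, .ofNat 379, .negSucc 132, .ofNat 0, .negSucc 132, .ofNat 661, .ofNat 0, .ofNat 303, .ofNat 59, .negSucc 135, .ofNat 0, .ofNat 128, .ofNat 19, .ofNat 0, .ofNat 0,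 .ofNat 572, .ofNat 2073, .ofNat 0, .ofNat 0, .ofNat 0, .ofNat 0, .ofNat 0, .ofNat 0, .ofNat 8362950365436100192756785594218053632, .ofNat 0, .ofNat 0, .ofNat 0, .ofNat 1867194013664079974942087425061552128, .ofNat 0, .ofNat 0, .ofNat 0, .ofNat 0, .ofNat 0⟩)
    (by decide +kernel)
theorem L00592 : Good (Phi V5.P V5.D (-1) 1) ⟨2, 1, 3, 3, 2, 2, 2, 0, 4, 4⟩ :=
  leafX_sound T5.ok_mp T5.Ymp.bz_eq (w := 203) (c := ⟨⟨.negSucc 1608, .negSucc 436, .negSucc 21, .ofNat 68, .ofNat 20, .ofNat 201⟩, ⟨.negSucc 721, .ofNat 95, .negSucc 169, .negSucc 6, .ofNat 39, .ofNat 85⟩, ⟨.ofNat 1913, .ofNat 722, .ofNat 138, .negSucc 280, .negSucc 712, .ofNat 69⟩, ⟨.negSucc 4218, .negSucc 281, .ofNat 15, .ofNat 314, .ofNat 85, .ofNat 438⟩, ⟨.negSucc 701, .ofNat 47, .ofNat 13, .negSucc 420, .ofNat 102, .ofNat 143⟩, .ofNat 393, .negSucc 140, .ofNat 0, .negSucc 140,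 .ofNat 657, .ofNat 0, .ofNat 391, .ofNat 67, .negSucc 115, .ofNat 0, .ofNat 128, .ofNat 16, .ofNat 0, .ofNat 0, .ofNat 979, .ofNat 8864, .ofNat 2049635430716462299550145369062644908032, .ofNat 0, .ofNat 0, .ofNat 0, .ofNat 0, .ofNat 0, .ofNat 0, .ofNat 0, .ofNat 0, .ofNat 0, .ofNat 0, .ofNat 0, .ofNat 656595207199277682333870559980992216432640, .ofNat 0, .ofNat 13384618708048171028515066083186573312, .ofNat 0⟩)
    (by decide +kernel)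
theorem L00593 : Good (Phi V5.P V5.D (-1) 1) ⟨2, 1, 3, 3, 2, 2, 2, 1, 4, 4⟩ :=
  leafX_sound T5.ok_mp T5.Ymp.bz_eq (w := 202) (c := ⟨⟨.negSucc 1587, .negSucc 400, .negSucc 21, .ofNat 67, .ofNat 163, .ofNat 182⟩, ⟨.negSucc 685, .ofNat 100, .negSucc 170, .negSucc 3, .ofNat 68, .ofNat 89⟩, ⟨.ofNat 1373, .ofNat 528, .ofNat 74, .negSucc 310, .negSucc 481, .negSucc 20⟩, ⟨.negSucc 4113, .negSucc 206, .negSucc 5, .ofNat 272, .ofNat 317, .ofNat 416⟩, ⟨.negSucc 623, .ofNat 39, .ofNat 7, .negSucc 333, .ofNat 187, .ofNat 118⟩, .ofNat 395, .negSucc 142, .ofNat 0, .negSucc 142, .ofNat 658, .ofNat 0, .ofNat 208, .ofNat 71, .negSucc 79, .ofNat 0, .ofNat 128, .ofNat 5, .ofNat 0, .ofNat 0, .ofNat 629, .ofNat 4372, .ofNat 0, .ofNat 0, .ofNat 0, .ofNat 0, .ofNat 0, .ofNat 0, .ofNat 6728571049369462249146782260526055424, .ofNat 0, .ofNat 0, .ofNat 0, .ofNat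 0, .ofNat 0, .ofNat 0, .ofNat 0, .ofNat 0, .ofNat 0⟩)
    (by decide +kernel)
theorem L00594 : Good (Phi V5.P V5.D (-1) 1) ⟨2, 1, 3, 3, 3, 6, 2, 0, 4, 4⟩ :=
  leafX_sound T5.ok_mp T5.Ymp.bz_eq (w := 217) (c := ⟨⟨.negSucc 1653, .negSucc 347, .negSucc 54, .ofNat 146, .ofNat 92, .ofNat 238⟩, ⟨.negSucc 736, .ofNat 90, .negSucc 160, .ofNat 36, .ofNat 40, .ofNat 104⟩, ⟨.ofNat 1854, .ofNat 573, .ofNat 155, .negSucc 331, .negSucc 799, .negSucc 52⟩, ⟨.negSucc 4076, .negSucc 152, .negSucc 12, .ofNat 448, .ofNat 184, .ofNat 522⟩, ⟨.negSucc 1088, .negSucc 29, .ofNat 3, .negSucc 256, .ofNat 102, .ofNat 155⟩, .ofNat 397, .negSucc 144, .ofNat 0, .negSucc 144, .ofNat 658, .ofNat 0, .ofNat 447, .ofNat 57, .negSucc 161, .ofNat 0, .ofNat 128, .ofNat 38, .ofNat 0, .ofNat 0, .ofNat 1575, .ofNat 10264, .ofNat 0, .ofNat 0, .ofNat 0, .ofNat 0, .ofNat 0, .ofNat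 0, .ofNat 0, .ofNat 0, .ofNat 0, .ofNat 0, .ofNat 0, .ofNat 0, .ofNat 5067422568251897068478136726161468146713624576, .ofNat 0, .ofNat 0, .ofNat 0⟩)
    (by decide +kernel)
theorem L00595 : Good (Phi V5.P V5.D (-1) 1) ⟨2, 1, 3, 3, 3, 7, 2, 0, 4, 4⟩ :=
  leafX_sound T5.ok_mp T5.Ymp.bz_eq (w := 216) (c := ⟨⟨.negSucc 1528, .negSucc 307, .negSucc 71, .ofNat 140, .ofNat 101, .ofNat 249⟩, ⟨.negSucc 697, .ofNat 97, .negSucc 168, .ofNat 38, .ofNat 33, .ofNat 103⟩, ⟨.ofNat 1466, .ofNat 438, .ofNat 154, .negSucc 600, .negSucc 583, .negSucc 36⟩, ⟨.negSucc 3664, .negSucc 98, .negSucc 11, .ofNat 427, .ofNat 220, .ofNat 526⟩, ⟨.negSucc 1278, .negSucc 91, .negSucc 55, .negSucc 232, .ofNat 28, .ofNat 181⟩, .ofNat 634, .negSucc 435, .ofNat 0, .negSucc 435, .ofNat 1457, .ofNat 0, .ofNat 274, .ofNat 100, .negSucc 63, .ofNat 0, .ofNat 128, .ofNat 13, .ofNat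 0, .ofNat 0, .ofNat 1151, .ofNat 6375, .ofNat 0, .ofNat 0, .ofNat 0, .ofNat 0, .ofNat 0, .ofNat 0, .ofNat 0, .ofNat 0, .ofNat 0, .ofNat 9051934307662788354551658113795774107090944, .ofNat 0, .ofNat 0, .ofNat 220863832846195471624377306938349177779781632, .ofNat 0, .ofNat 0, .ofNat 0⟩)
    (by decide +kernel)
theorem L00596 : Good (Phi V5.P V5.D (-1) 1) ⟨2, 1, 3, 3, 3, 6, 2, 1, 4, 4⟩ :=
  leafX_sound T5.ok_mp T5.Ymp.bz_eq (w := 216) (c := ⟨⟨.negSucc 1604, .negSucc 305, .negSucc 31, .ofNat 137, .ofNat 173, .ofNat 245⟩, ⟨.negSucc 707, .ofNat 115, .negSucc 167, .ofNat 32, .ofNat 87, .ofNat 109⟩, ⟨.ofNat 1208, .ofNat 368, .ofNat 69, .negSucc 281, .negSucc 487, .negSucc 88⟩, ⟨.negSucc 3967, .negSucc 47, .ofNat 20, .ofNat 417, .ofNat 302, .ofNat 528⟩, ⟨.negSucc 1021, .negSucc 28, .negSucc 24, .negSucc 221, .ofNat 319, .ofNat 208⟩, .ofNat 399,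 .negSucc 147, .ofNat 0, .negSucc 147, .ofNat 665, .ofNat 0, .ofNat 264, .ofNat 63, .negSucc 85, .ofNat 0, .ofNat 128, .ofNat 17, .ofNat 0, .ofNat 0, .ofNat 749, .ofNat 3263, .ofNat 0, .ofNat 0, .ofNat 0, .ofNat 0, .ofNat 0, .ofNat 0, .ofNat 0, .ofNat 0, .ofNat 0, .ofNat 5498063954330279504958250373309173361278976, .ofNat 0, .ofNat 0, .ofNat 0, .ofNat 12296676600529835236229312369847761899618304, .ofNat 0, .ofNat 0⟩)
    (by decide +kernel)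
theorem L00597 : Good (Phi V5.P V5.D (-1) 1) ⟨2, 1, 3, 3, 3, 7, 2, 1, 4, 4⟩ :=
  leafX_sound T5.ok_mp T5.Ymp.bz_eq (w := 214) (c := ⟨⟨.negSucc 1489, .negSucc 232, .negSucc 42, .ofNat 159, .ofNat 203, .ofNat 252⟩, ⟨.negSucc 678, .ofNat 112, .negSucc 152, .ofNat 41, .ofNat 92, .ofNat 112⟩, ⟨.ofNat 942, .ofNat 233, .ofNat 56, .negSucc 318, .negSucc 366, .negSucc 109⟩, ⟨.negSucc 3608, .ofNat 87, .ofNat 58, .ofNat 511, .ofNat 363, .ofNat 518⟩, ⟨.negSucc 1180, .negSucc 173, .negSucc 84, .negSucc 287, .ofNat 334, .ofNat 261⟩, .ofNat 399, .negSucc 147, .ofNat 0, .negSucc 147, .ofNat 665, .ofNat 0, .ofNat 215, .ofNat 55, .negSucc 29, .ofNat 0, .ofNat 128, .ofNat 26, .ofNat 0, .ofNat 0, .ofNat 487, .ofNat 844, .ofNat 0, .ofNat 0, .ofNat 0, .ofNat 0, .ofNat 0, .ofNat 0, .ofNat 0, .ofNat 0, .ofNat 0, .ofNat 0, .ofNat 0, .ofNat 0, .ofNat 0, .ofNat 8266126514109719324162543654033739158126592,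 .ofNat 0, .ofNat 0⟩)
    (by decide +kernel)
theorem L00598 : Good (Phi V5.P V5.D (-1) 1) ⟨2, 1, 3, 3, 2, 2, 2, 0, 4, 5⟩ :=
  leafX_sound T5.ok_mp T5.Ymp.bz_eq (w := 205) (c := ⟨⟨.negSucc 1636, .negSucc 306, .negSucc 26, .ofNat 183, .ofNat 102, .ofNat 204⟩, ⟨.negSucc 738, .ofNat 107, .negSucc 149, .ofNat 61, .ofNat 76, .ofNat 78⟩, ⟨.ofNat 2313, .ofNat 540, .ofNat 131, .negSucc 470, .negSucc 813, .ofNat 20⟩, ⟨.negSucc 4257, .negSucc 61, .ofNat 11, .ofNat 621, .ofNat 232, .ofNat 430⟩, ⟨.negSucc 598, .ofNat 8, .ofNat 9, .negSucc 402, .ofNat 152, .ofNat 168⟩, .ofNat 392, .negSucc 141, .ofNat 0, .negSucc 141, .ofNat 658, .ofNat 0, .ofNat 472, .ofNat 62, .negSucc 114, .ofNat 0, .ofNat 128, .ofNat 32, .ofNat 0, .ofNat 0, .ofNat 1725, .ofNat 38366, .ofNat 58874597906284909408512768926997966487552, .ofNat 0, .ofNat 0, .ofNat 0, .ofNat 817769773449811441674520454035863288938496,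 .ofNat 0, .ofNat 0, .ofNat 0, .ofNat 404093515485078529259186066916236939231232, .ofNat 0, .ofNat 0, .ofNat 0, .ofNat 3063412583797582989784349828813296678993920, .ofNat 0, .ofNat 0, .ofNat 0⟩)
    (by decide +kernel)
theorem L00599 : Good (Phi V5.P V5.D (-1) 1) ⟨2, 1, 3, 3, 2, 3, 2, 0, 4, 5⟩ :=
  leafX_sound T5.ok_mp T5.Ymp.bz_eq (w := 201) (c := ⟨⟨.negSucc 1478, .negSucc 269, .negSucc 32, .ofNat 288, .ofNat 107, .ofNat 218⟩, ⟨.negSucc 672, .ofNat 111, .negSucc 141, .ofNat 78, .ofNat 61, .ofNat 92⟩, ⟨.ofNat 1901, .ofNat 488, .ofNat 144, .negSucc 774, .negSucc 827, .negSucc 15⟩, ⟨.negSucc 3653, .negSucc 5, .ofNat 17, .ofNat 866, .ofNat 204, .ofNat 460⟩, ⟨.negSucc 991, .negSucc 20, .negSucc 4, .negSucc 438, .ofNat 165, .ofNat 175⟩, .ofNat 394, .negSucc 141, .ofNat 0, .negSucc 141, .ofNat 659, .ofNat 0, .ofNat 365, .ofNat 55, .negSucc 64,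 .ofNat 0, .ofNat 128, .ofNat 35, .ofNat 0, .ofNat 0, .ofNat 1394, .ofNat 2534, .ofNat 2473281386761495983148788532437294514176, .ofNat 0, .ofNat 0, .ofNat 0, .ofNat 0, .ofNat 0, .ofNat 0, .ofNat 0, .ofNat 0, .ofNat 2551887434299158387039143666033782423552, .ofNat 0, .ofNat 0, .ofNat 938642788765845688116792495105643013734400, .ofNat 23999760099946922443649762911563922014208, .ofNat 0, .ofNat 0⟩)
    (by decide +kernel)
theorem L00600 : Good (Phi V5.P V5.D (-1) 1) ⟨2, 1, 3, 3, 3, 4, 4, 4, 5, 10⟩ :=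
  leafX_sound T5.ok_mp T5.Ymp.bz_eq (w := 232) (c := ⟨⟨.negSucc 1425, .negSucc 344, .negSucc 20, .ofNat 16, .ofNat 37, .ofNat 78⟩, ⟨.negSucc 614, .ofNat 92, .negSucc 161, .ofNat 1, .ofNat 14, .ofNat 45⟩, ⟨.ofNat 1387, .ofNat 528, .ofNat 82, .negSucc 127, .negSucc 176, .ofNat 33⟩, ⟨.negSucc 3743, .negSucc 133, .negSucc 3, .ofNat 106, .ofNat 75, .ofNat 197⟩, ⟨.negSucc 512, .ofNat 33, .ofNat 11, .negSucc 151, .ofNat 28, .ofNat 55⟩, .ofNat 186, .negSucc 25, .ofNat 0, .negSucc 25, .ofNat 231, .ofNat 0, .ofNat 252, .ofNat 23, .negSucc 105, .ofNat 0, .ofNat 128, .ofNat 40, .ofNat 0, .ofNat 0, .ofNat 601, .ofNat 44627, .ofNat 61151252063610909173187712818074291085789626368, .ofNat 0, .ofNat 0, .ofNat 0, .ofNat 0, .ofNat 0, .ofNat 0, .ofNat 0, .ofNat 0, .ofNat 0, .ofNat 0, .ofNat 0, .ofNat 335605221035081235510630954211096326608504487936, .ofNat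 0, .ofNat 3633205998589059984940069639145365017120997376, .ofNat 0⟩)
    (by decide +kernel)
theorem L00601 : Good (Phi V5.P V5.D (-1) 1) ⟨2, 1, 3, 3, 3, 4, 4, 5, 5, 10⟩ :=
  leafX_sound T5.ok_mp T5.Ymp.bz_eq (w := 232) (c := ⟨⟨.negSucc 1404, .negSucc 339, .negSucc 16, .ofNat 24, .ofNat 38, .ofNat 79⟩, ⟨.negSucc 594, .ofNat 95, .negSucc 157, .negSucc 5, .ofNat 13, .ofNat 39⟩, ⟨.ofNat 1293, .ofNat 461, .ofNat 48, .negSucc 140, .negSucc 153, .ofNat 17⟩, ⟨.negSucc 3677, .negSucc 120, .ofNat 0, .ofNat 103, .ofNat 74, .ofNat 187⟩, ⟨.negSucc 481, .ofNat 32, .ofNat 4, .negSucc 134, .ofNat 35, .ofNat 47⟩, .ofNat 185, .negSucc 25, .ofNat 0, .negSucc 25, .ofNat 231, .ofNat 0, .ofNat 250, .ofNat 24, .negSucc 140, .ofNat 0, .ofNat 128, .ofNat 47, .ofNat 0, .ofNat 0, .ofNat 791, .ofNat 37824, .ofNat 31765854553855528097955380746624864682583785472, .ofNat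 0, .ofNat 0, .ofNat 0, .ofNat 0, .ofNat 0, .ofNat 1662333193279061965629480124355560341353005056, .ofNat 0, .ofNat 0, .ofNat 0, .ofNat 0, .ofNat 0, .ofNat 0, .ofNat 0, .ofNat 0, .ofNat 0⟩)
    (by decide +kernel)
theorem L00602 : Good (Phi V5.P V5.D (-1) 1) ⟨2, 1, 3, 3, 3, 4, 3, 2, 5, 11⟩ :=
  leafX_sound T5.ok_mp T5.Ymp.bz_eq (w := 229) (c := ⟨⟨.negSucc 1397, .negSucc 297, .negSucc 14, .ofNat 39, .ofNat 86, .ofNat 80⟩, ⟨.negSucc 586, .ofNat 102, .negSucc 143, .ofNat 0, .ofNat 29, .ofNat 38⟩, ⟨.ofNat 1545, .ofNat 397, .ofNat 36, .negSucc 152, .negSucc 362, .negSucc 11⟩, ⟨.negSucc 3618, .negSucc 47, .ofNat 5, .ofNat 128, .ofNat 159, .ofNat 189⟩, ⟨.negSucc 494, .ofNat 29, .ofNat 6, .negSucc 109, .ofNat 79, .ofNat 45⟩, .ofNat 185, .negSucc 24, .ofNat 0, .negSucc 24, .ofNat 232, .ofNat 0, .ofNat 297, .ofNat 23, .negSucc 109, .ofNat 0, .ofNat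 128, .ofNat 38, .ofNat 0, .ofNat 0, .ofNat 827, .ofNat 55976, .ofNat 26453159711481378853881343936559033158415155200, .ofNat 0, .ofNat 0, .ofNat 0, .ofNat 0, .ofNat 0, .ofNat 0, .ofNat 0, .ofNat 44880862351439986220730473684164420004348952576, .ofNat 0, .ofNat 0, .ofNat 0, .ofNat 193678862583197159340020168608061339983742500864, .ofNat 0, .ofNat 0, .ofNat 0⟩)
    (by decide +kernel)
theorem L00603 : Good (Phi V5.P V5.D (-1) 1) ⟨2, 1, 3, 3, 3, 5, 3, 2, 4, 5⟩ :=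
  leafX_sound T5.ok_mp T5.Ymp.bz_eq (w := 222) (c := ⟨⟨.negSucc 1453, .negSucc 290, .negSucc 20, .ofNat 97, .ofNat 73, .ofNat 191⟩, ⟨.negSucc 628, .ofNat 108, .negSucc 148, .ofNat 24, .ofNat 38, .ofNat 77⟩, ⟨.ofNat 1363, .ofNat 397, .ofNat 79, .negSucc 246, .negSucc 318, .negSucc 26⟩, ⟨.negSucc 3706, .negSucc 29, .ofNat 11, .ofNat 279, .ofNat 140, .ofNat 414⟩, ⟨.negSucc 695, .ofNat 19, .ofNat 9, .negSucc 137, .ofNat 110, .ofNat 139⟩, .ofNat 395, .negSucc 141, .ofNat 0, .negSucc 141, .ofNat 656, .ofNat 0, .ofNat 351, .ofNat 64, .negSucc 91, .ofNat 0, .ofNat 128, .ofNat 20, .ofNat 0, .ofNat 0, .ofNat 1460, .ofNat 19841, .ofNat 0, .ofNat 0, .ofNat 0, .ofNat 0, .ofNat 0, .ofNat 0, .ofNat 0, .ofNat 0, .ofNat 0, .ofNat 0, .ofNat 942715121696452721237249775301928410939392, .ofNat 0, .ofNat 0, .ofNat 0, .ofNat 0, .ofNat 0⟩)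
    (by decide +kernel)
theorem L00604 : Good (Phi V5.P V5.D (-1) 1) ⟨2, 1, 3, 3, 2, 2, 3, 3, 4, 5⟩ :=
  leafX_sound T5.ok_mp T5.Ymp.bz_eq (w := 206) (c := ⟨⟨.negSucc 1404, .negSucc 263, .ofNat 2, .ofNat 88, .ofNat 65, .ofNat 169⟩, ⟨.negSucc 601, .ofNat 100, .negSucc 141, .ofNat 32, .ofNat 36, .ofNat 69⟩, ⟨.ofNat 1253, .ofNat 259, .ofNat 1, .negSucc 333, .negSucc 224, .negSucc 43⟩, ⟨.negSucc 3672, .ofNat 29, .ofNat 30, .ofNat 298, .ofNat 137, .ofNat 363⟩, ⟨.negSucc 491, .ofNat 9, .ofNat 12, .negSucc 180, .ofNat 101, .ofNat 131⟩, .ofNat 647, .negSucc 442, .ofNat 0, .negSucc 442, .ofNat 1452, .ofNat 0, .ofNat 219, .ofNat 118, .negSucc 40, .ofNat 0, .ofNat 128, .negSucc 4, .ofNat 0, .ofNat 0, .ofNat 747, .ofNat 5031, .ofNat 0, .ofNat 0, .ofNat 0, .ofNat 0, .ofNat 0, .ofNat 0, .ofNat 0, .ofNat 0, .ofNat 0, .ofNat 0, .ofNat 0, .ofNat 0, .ofNat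 0, .ofNat 15894746318450555512822399058588060352512, .ofNat 0, .ofNat 0⟩)
    (by decide +kernel)
theorem L00605 : Good (Phi V5.P V5.D (-1) 1) ⟨2, 1, 3, 3, 2, 3, 2, 1, 4, 5⟩ :=
  leafX_sound T5.ok_mp T5.Ymp.bz_eq (w := 201) (c := ⟨⟨.negSucc 1374, .negSucc 234, .negSucc 43, .ofNat 288, .ofNat 142, .ofNat 210⟩, ⟨.negSucc 613, .ofNat 115, .negSucc 142, .ofNat 79, .ofNat 78, .ofNat 80⟩, ⟨.ofNat 1152, .ofNat 291, .ofNat 158, .negSucc 689, .negSucc 512, .negSucc 73⟩, ⟨.negSucc 3458, .ofNat 61, .negSucc 0, .ofNat 851, .ofNat 229, .ofNat 437⟩, ⟨.negSucc 832, .negSucc 5, .negSucc 5, .negSucc 414, .ofNat 333, .ofNat 152⟩, .ofNat 637, .negSucc 441, .ofNat 0, .negSucc 441, .ofNat 1463, .ofNat 0, .ofNat 215, .ofNat 110, .negSucc 38, .ofNat 0, .ofNat 128, .ofNat 8, .ofNat 0, .ofNat 0, .ofNat 1191, .ofNat 2047, .ofNat 0, .ofNat 0, .ofNat 0, .ofNat 0,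 .ofNat 0, .ofNat 7516668438736804351678981782366396088320, .ofNat 0, .ofNat 0, .ofNat 0, .ofNat 6203471184064315031292255772844465586176, .ofNat 0, .ofNat 0, .ofNat 0, .ofNat 17747597890490207964484402717709263962112, .ofNat 0, .ofNat 0⟩)
    (by decide +kernel)
theorem L00606 : Good (Phi V5.P V5.D (-1) 1) ⟨2, 1, 3, 3, 2, 2, 1, 0, 3, 3⟩ :=
  leafX_sound T5.ok_mp T5.Ymp.bz_eq (w := 193) (c := ⟨⟨.negSucc 1485, .negSucc 228, .negSucc 1, .ofNat 133, .ofNat 279, .ofNat 242⟩, ⟨.negSucc 637, .ofNat 99, .negSucc 132, .ofNat 48, .ofNat 132, .ofNat 110⟩, ⟨.ofNat 2240, .ofNat 212, .ofNat 28, .negSucc 351, .negSucc 1267, .negSucc 117⟩, ⟨.negSucc 3698, .ofNat 72, .ofNat 37, .ofNat 363, .ofNat 472, .ofNat 514⟩, ⟨.negSucc 828, .ofNat 14, .negSucc 14, .negSucc 86, .ofNat 536, .ofNat 238⟩, .ofNat 658, .negSucc 466, .ofNat 0, .negSucc 466, .ofNat 1495, .ofNat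 0, .ofNat 222, .ofNat 117, .negSucc 9, .ofNat 0, .ofNat 128, .ofNat 3, .ofNat 0, .ofNat 0, .ofNat 1128, .ofNat 2481, .ofNat 201330888242030565140608495701918220288, .ofNat 0, .ofNat 0, .ofNat 0, .ofNat 0, .ofNat 0, .ofNat 0, .ofNat 0, .ofNat 0, .ofNat 0, .ofNat 0, .ofNat 0, .ofNat 10822828254472855626959847002260920860672, .ofNat 443744928397432958707194548713305407488, .ofNat 3150493079111394402170248779268096, .ofNat 0⟩)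
    (by decide +kernel)
theorem L00607 : Good (Phi V5.P V5.D (-1) 1) ⟨2, 1, 3, 3, 2, 3, 1, 0, 3, 3⟩ :=
  leafX_sound T5.ok_mp T5.Ymp.bz_eq (w := 191) (c := ⟨⟨.negSucc 1324, .negSucc 211, .negSucc 16, .ofNat 298, .ofNat 256, .ofNat 1⟩, ⟨.negSucc 589, .ofNat 113, .negSucc 129, .ofNat 65, .ofNat 118, .ofNat 0⟩, ⟨.ofNat 2044, .ofNat 289, .ofNat 83, .negSucc 836, .negSucc 1689, .ofNat 0⟩, ⟨.negSucc 3269, .ofNat 88, .ofNat 25, .ofNat 801, .ofNat 434, .ofNat 1⟩, ⟨.negSucc 907, .negSucc 10, .ofNat 1, .negSucc 290, .ofNat 487, .ofNat 0⟩, .ofNat 185, .negSucc 24, .ofNat 0, .negSucc 24, .ofNat 231, .ofNat 0, .ofNat 151, .ofNat 12, .negSucc 46, .ofNat 0, .ofNat 128, .ofNat 61, .ofNat 0, .ofNat 0, .ofNat 973, .ofNat 1460, .ofNat 132820314914850410041951022875622244352, .ofNat 5465346189900195949264079423302270976, .ofNat 0, .ofNat 0, .ofNat 2611805443392707696132561468785806016512,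 .ofNat 409956185218677349861969807244408127488, .ofNat 0, .ofNat 0, .ofNat 1196525805694159712429671781865462169600, .ofNat 276657371708311771925473146695783022592, .ofNat 0, .ofNat 0, .ofNat 15226044591089685697688091353253444321280, .ofNat 2035331311475106789884416182408116699136, .ofNat 0, .ofNat 0⟩)
    (by decide +kernel)
theorem L00608 : Good (Phi V5.P V5.D (-1) 1) ⟨2, 1, 2, 1, 3, 4, 1, 0, 3, 4⟩ :=
  out_sound (S := T5.ds_mp) T5.ok_mp (w := 23) (j := 1) (by decide +kernel)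
theorem L00609 : Good (Phi V5.P V5.D (-1) 1) ⟨2, 1, 2, 1, 3, 5, 1, 0, 3, 4⟩ :=
  out_sound (S := T5.ds_mp) T5.ok_mp (w := 28) (j := 2) (by decide +kernel)
theorem L00610 : Good (Phi V5.P V5.D (-1) 1) ⟨2, 1, 2, 1, 2, 2, 1, 0, 3, 5⟩ :=
  out_sound (S := T5.ds_mp) T5.ok_mp (w := 21) (j := 1) (by decide +kernel)
theorem L00611 : Good (Phi V5.P V5.D (-1) 1) ⟨2, 1, 2, 1, 2, 2, 1, 0, 2, 3⟩ :=
  out_sound (S := T5.ds_mp) T5.ok_mp (w := 19) (j := 1) (by decide +kernel)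
theorem L00612 : Good (Phi V5.P V5.D (-1) 1) ⟨2, 1, 2, 1, 2, 3, 1, 0, 1, 1⟩ :=
  out_sound (S := T5.ds_mp) T5.ok_mp (w := 22) (j := 2) (by decide +kernel)
theorem L00613 : Good (Phi V5.P V5.D (-1) 1) ⟨2, 1, 2, 1, 2, 2, 2, 2, 4, 0⟩ :=
  leafX_sound T5.ok_mp T5.Ymp.bz_eq (w := 196) (c := ⟨⟨.ofNat 626, .negSucc 124, .negSucc 77, .ofNat 413, .negSucc 507, .negSucc 1248⟩, ⟨.ofNat 164, .ofNat 27, .negSucc 100, .ofNat 68, .negSucc 146, .negSucc 405⟩, ⟨.negSucc 493, .ofNat 16, .ofNat 43, .negSucc 367, .ofNat 326, .ofNat 764⟩, ⟨.ofNat 1695, .negSucc 169, .negSucc 191, .ofNat 1034, .negSucc 1275, .negSucc 3008⟩, ⟨.ofNat 70, .negSucc 509, .negSucc 225, .negSucc 510, .negSucc 161, .negSucc 373⟩, .ofNat 606, .negSucc 365, .ofNat 0, .negSucc 365, .ofNat 1416, .ofNat 0, .ofNat 259, .ofNat 128, .negSucc 152, .ofNat 0, .ofNat 120, .negSucc 31, .ofNat 0,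 .ofNat 0, .ofNat 306, .ofNat 389, .ofNat 0, .ofNat 0, .ofNat 0, .ofNat 0, .ofNat 0, .ofNat 0, .ofNat 0, .ofNat 0, .ofNat 0, .ofNat 0, .ofNat 0, .ofNat 0, .ofNat 0, .ofNat 0, .ofNat 0, .ofNat 0⟩)
    (by decide +kernel)
theorem L00614 : Good (Phi V5.P V5.D (-1) 1) ⟨3, 2, 2, 1, 2, 3, 2, 2, 4, 0⟩ :=
  leafX_sound T5.ok_mp T5.Ymp.bz_eq (w := 201) (c := ⟨⟨.ofNat 1095, .negSucc 134, .negSucc 145, .negSucc 211, .negSucc 686, .negSucc 1204⟩, ⟨.ofNat 306, .negSucc 14, .negSucc 91, .negSucc 31, .negSucc 267, .negSucc 457⟩, ⟨.negSucc 761, .ofNat 67, .negSucc 11, .ofNat 113, .ofNat 404, .ofNat 517⟩, ⟨.ofNat 2768, .negSucc 278, .negSucc 140, .negSucc 443, .negSucc 1520, .negSucc 2900⟩, ⟨.ofNat 178, .negSucc 235, .negSucc 11, .negSucc 298, .negSucc 859, .negSucc 811⟩, .ofNat 916, .negSucc 838, .ofNat 0, .negSucc 838, .ofNat 2429, .ofNat 0, .ofNat 128,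 .ofNat 235, .negSucc 169, .ofNat 0, .ofNat 173, .negSucc 35, .ofNat 0, .ofNat 0, .ofNat 335, .ofNat 341, .ofNat 0, .ofNat 0, .ofNat 0, .ofNat 0, .ofNat 0, .ofNat 0, .ofNat 0, .ofNat 0, .ofNat 0, .ofNat 0, .ofNat 0, .ofNat 0, .ofNat 0, .ofNat 0, .ofNat 0, .ofNat 0⟩)
    (by decide +kernel)
theorem L00615 : Good (Phi V5.P V5.D (-1) 1) ⟨3, 3, 3, 2, 2, 3, 2, 2, 4, 0⟩ :=
  leafX_sound T5.ok_mp T5.Ymp.bz_eq (w := 204) (c := ⟨⟨.ofNat 1202, .ofNat 36, .negSucc 107, .negSucc 216, .negSucc 690, .negSucc 1517⟩, ⟨.ofNat 277, .ofNat 13, .negSucc 88, .negSucc 52, .negSucc 209, .negSucc 408⟩, ⟨.negSucc 830, .negSucc 38, .negSucc 5, .ofNat 163, .ofNat 373, .ofNat 728⟩, ⟨.ofNat 2960, .ofNat 73, .negSucc 94, .negSucc 572, .negSucc 1488, .negSucc 3468⟩, ⟨.negSucc 508, .negSucc 154, .negSucc 176, .ofNat 79, .negSucc 620, .negSucc 465⟩, .ofNat 547, .negSucc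 289, .ofNat 0, .negSucc 289, .ofNat 1443, .ofNat 0, .ofNat 135, .ofNat 128, .negSucc 223, .ofNat 0, .ofNat 109, .negSucc 18, .ofNat 0, .ofNat 0, .ofNat 329, .ofNat 373, .ofNat 0, .ofNat 0, .ofNat 0, .ofNat 0, .ofNat 0, .ofNat 0, .ofNat 0, .ofNat 0, .ofNat 0, .ofNat 0, .ofNat 0, .ofNat 0, .ofNat 0, .ofNat 0, .ofNat 0, .ofNat 0⟩)
    (by decide +kernel)
theorem L00616 : Good (Phi V5.P V5.D (-1) 1) ⟨3, 3, 3, 3, 2, 3, 2, 2, 4, 0⟩ :=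
  leafX_sound T5.ok_mp T5.Ymp.bz_eq (w := 204) (c := ⟨⟨.ofNat 1135, .ofNat 51, .negSucc 34, .negSucc 15, .negSucc 738, .negSucc 1689⟩, ⟨.ofNat 379, .negSucc 20, .negSucc 70, .negSucc 34, .negSucc 283, .negSucc 599⟩, ⟨.negSucc 823, .negSucc 116, .negSucc 46, .negSucc 86, .ofNat 395, .ofNat 913⟩, ⟨.ofNat 2754, .ofNat 247, .ofNat 117, .ofNat 23, .negSucc 1517, .negSucc 3795⟩, ⟨.negSucc 452, .negSucc 568, .negSucc 206, .negSucc 306, .negSucc 592, .negSucc 330⟩, .ofNat 841, .negSucc 853, .ofNat 0, .negSucc 853, .ofNat 2628, .ofNat 0, .ofNat 128, .ofNat 163, .negSucc 233, .ofNat 0, .ofNat 105, .negSucc 54, .ofNat 0, .ofNat 0, .ofNat 360, .ofNat 202, .ofNat 0, .ofNat 0, .ofNat 0, .ofNat 0, .ofNat 0, .ofNat 0, .ofNat 0, .ofNat 0, .ofNat 0, .ofNat 0, .ofNat 0, .ofNat 0, .ofNat 0, .ofNat 0, .ofNat 2225497273847175732899839417847382016, .ofNat 0⟩)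
    (by decide +kernel)
theorem L00617 : Good (Phi V5.P V5.D (-1) 1) ⟨2, 1, 2, 1, 2, 2, 2, 2, 4, 1⟩ :=
  leafX_sound T5.ok_mp T5.Ymp.bz_eq (w := 196) (c := ⟨⟨.negSucc 650, .negSucc 617, .negSucc 206, .negSucc 81, .ofNat 18, .negSucc 484⟩, ⟨.negSucc 254, .negSucc 5, .negSucc 341, .negSucc 20, .ofNat 20, .negSucc 130⟩, ⟨.ofNat 263, .ofNat 452, .ofNat 150, .negSucc 184, .negSucc 28, .ofNat 379⟩, ⟨.negSucc 1704, .negSucc 879, .negSucc 326, .ofNat 12, .negSucc 70, .negSucc 1271⟩, ⟨.negSucc 955, .ofNat 23, .negSucc 5, .negSucc 487, .ofNat 297, .ofNat 248⟩, .ofNat 613, .negSucc 381, .ofNat 0, .negSucc 381, .ofNat 1419, .ofNat 0, .ofNat 135, .ofNat 128, .negSucc 74, .ofNat 0, .ofNat 120, .negSucc 13, .ofNat 0, .ofNat 0, .ofNat 185, .ofNat 357, .ofNat 0, .ofNat 0, .ofNat 0, .ofNat 0, .ofNat 0, .ofNat 0, .ofNat 0, .ofNat 0, .ofNat 0, .ofNat 0, .ofNat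 0, .ofNat 0, .ofNat 0, .ofNat 0, .ofNat 0, .ofNat 0⟩)
    (by decide +kernel)
theorem L00618 : Good (Phi V5.P V5.D (-1) 1) ⟨3, 2, 2, 1, 2, 3, 2, 2, 4, 1⟩ :=
  leafX_sound T5.ok_mp T5.Ymp.bz_eq (w := 200) (c := ⟨⟨.negSucc 737, .negSucc 247, .negSucc 100, .ofNat 23, .ofNat 24, .negSucc 526⟩, ⟨.negSucc 263, .negSucc 28, .negSucc 262, .negSucc 41, .ofNat 5, .negSucc 184⟩, ⟨.ofNat 107, .ofNat 134, .ofNat 13, .negSucc 134, .ofNat 55, .ofNat 362⟩, ⟨.negSucc 1958, .negSucc 337, .ofNat 81, .ofNat 294, .ofNat 176, .negSucc 1417⟩, ⟨.negSucc 657, .negSucc 156, .negSucc 174, .negSucc 650, .negSucc 342, .ofNat 144⟩, .ofNat 930, .negSucc 855, .ofNat 0, .negSucc 855, .ofNat 2431, .ofNat 0, .ofNat 128, .ofNat 142, .negSucc 89, .ofNat 0, .ofNat 108, .negSucc 18, .ofNat 0, .ofNat 0, .ofNat 207, .ofNat 496, .ofNat 0, .ofNat 0, .ofNat 0, .ofNat 0, .ofNat 0,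 .ofNat 0, .ofNat 0, .ofNat 0, .ofNat 0, .ofNat 0, .ofNat 0, .ofNat 0, .ofNat 0, .ofNat 0, .ofNat 0, .ofNat 0⟩)
    (by decide +kernel)
theorem L00619 : Good (Phi V5.P V5.D (-1) 1) ⟨3, 3, 3, 2, 2, 3, 2, 2, 5, 2⟩ :=
  leafX_sound T5.ok_mp T5.Ymp.bz_eq (w := 209) (c := ⟨⟨.negSucc 689, .negSucc 327, .negSucc 98, .negSucc 46, .negSucc 93, .negSucc 465⟩, ⟨.negSucc 243, .ofNat 26, .negSucc 154, .negSucc 43, .negSucc 29, .negSucc 103⟩, ⟨.ofNat 109, .ofNat 241, .ofNat 34, .negSucc 68, .ofNat 77, .ofNat 291⟩, ⟨.negSucc 1509, .negSucc 485, .negSucc 64, .negSucc 22, .negSucc 241, .negSucc 1114⟩, ⟨.negSucc 1277, .negSucc 13, .negSucc 123, .negSucc 373, .ofNat 18, .ofNat 184⟩, .ofNat 766, .negSucc 739, .ofNat 0, .negSucc 739, .ofNat 3080, .ofNat 0, .ofNat 211, .ofNat 128, .negSucc 158, .ofNat 0, .ofNat 89, .negSucc 22, .ofNat 0, .ofNat 0, .ofNat 270,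 .ofNat 683, .ofNat 0, .ofNat 0, .ofNat 0, .ofNat 0, .ofNat 0, .ofNat 0, .ofNat 0, .ofNat 0, .ofNat 0, .ofNat 0, .ofNat 0, .ofNat 0, .ofNat 0, .ofNat 0, .ofNat 0, .ofNat 0⟩)
    (by decide +kernel)
theorem L00620 : Good (Phi V5.P V5.D (-1) 1) ⟨3, 3, 3, 3, 2, 3, 2, 2, 5, 2⟩ :=
  leafX_sound T5.ok_mp T5.Ymp.bz_eq (w := 209) (c := ⟨⟨.negSucc 815, .negSucc 400, .negSucc 159, .negSucc 29, .negSucc 40, .negSucc 451⟩, ⟨.negSucc 364, .negSucc 29, .negSucc 168, .negSucc 26, .negSucc 20, .negSucc 147⟩, ⟨.ofNat 152, .ofNat 318, .ofNat 95, .negSucc 114, .ofNat 33, .ofNat 306⟩, ⟨.negSucc 1615, .negSucc 687, .negSucc 279, .negSucc 28, .negSucc 37, .negSucc 1124⟩, ⟨.negSucc 1414, .ofNat 24, .ofNat 104, .negSucc 160, .negSucc 188, .ofNat 213⟩, .ofNat 830, .negSucc 832, .ofNat 0, .negSucc 832, .ofNat 2579, .ofNat 0, .ofNat 151, .ofNat 128, .negSucc 184,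 .ofNat 0, .ofNat 86, .negSucc 39, .ofNat 0, .ofNat 0, .ofNat 315, .ofNat 699, .ofNat 0, .ofNat 0, .ofNat 0, .ofNat 0, .ofNat 0, .ofNat 0, .ofNat 0, .ofNat 0, .ofNat 0, .ofNat 0, .ofNat 0, .ofNat 0, .ofNat 0, .ofNat 0, .ofNat 62731937318931627188975133523246579712, .ofNat 0⟩)
    (by decide +kernel)
theorem L00621 : Good (Phi V5.P V5.D (-1) 1) ⟨3, 3, 2, 1, 2, 3, 3, 4, 5, 3⟩ :=
  leafX_sound T5.ok_mp T5.Ymp.bz_eq (w := 210) (c := ⟨⟨.negSucc 1357, .negSucc 407, .negSucc 270, .ofNat 88, .ofNat 122, .negSucc 164⟩, ⟨.negSucc 397, .ofNat 17, .negSucc 391, .negSucc 4, .ofNat 34, .negSucc 44⟩, ⟨.ofNat 562, .ofNat 326, .ofNat 176, .negSucc 226, .negSucc 96, .ofNat 128⟩, ⟨.negSucc 3141, .negSucc 607, .negSucc 392, .ofNat 299, .ofNat 280, .negSucc 354⟩, ⟨.negSucc 1195, .ofNat 105, .ofNat 75, .negSucc 366, .negSucc 65, .negSucc 54⟩, .ofNat 754, .negSucc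 692, .ofNat 0, .negSucc 692, .ofNat 2499, .ofNat 0, .ofNat 131, .ofNat 128, .negSucc 124, .ofNat 0, .ofNat 92, .negSucc 20, .ofNat 0, .ofNat 0, .ofNat 246, .ofNat 703, .ofNat 0, .ofNat 0, .ofNat 0, .ofNat 0, .ofNat 0, .ofNat 0, .ofNat 0, .ofNat 0, .ofNat 0, .ofNat 0, .ofNat 0, .ofNat 0, .ofNat 0, .ofNat 0, .ofNat 220324487406233429722233092980206469120, .ofNat 0⟩)
    (by decide +kernel)
theorem L00622 : Good (Phi V5.P V5.D (-1) 1) ⟨3, 3, 2, 1, 2, 3, 3, 5, 5, 3⟩ :=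
  leafX_sound T5.ok_mp T5.Ymp.bz_eq (w := 211) (c := ⟨⟨.negSucc 1389, .negSucc 305, .negSucc 199, .ofNat 165, .ofNat 132, .negSucc 149⟩, ⟨.negSucc 415, .ofNat 35, .negSucc 351, .ofNat 8, .ofNat 55, .negSucc 34⟩, ⟨.ofNat 561, .ofNat 244, .ofNat 120, .negSucc 223, .negSucc 83, .ofNat 110⟩, ⟨.negSucc 3244, .negSucc 405, .negSucc 190, .ofNat 610, .ofNat 292, .negSucc 383⟩, ⟨.negSucc 1052, .ofNat 105, .negSucc 46, .negSucc 791, .ofNat 49, .ofNat 127⟩, .ofNat 754, .negSucc 686, .ofNat 0, .negSucc 686, .ofNat 2491, .ofNat 0, .ofNat 151, .ofNat 128, .negSucc 160, .ofNat 0, .ofNat 92, .negSucc 25, .ofNat 0, .ofNat 0, .ofNat 307, .ofNat 1008, .ofNat 0, .ofNat 0, .ofNat 0, .ofNat 0, .ofNat 0, .ofNat 0, .ofNat 0, .ofNat 0, .ofNat 0, .ofNat 0, .ofNat 0, .ofNat 0, .ofNat 0, .ofNat 0, .ofNat 501938229908490973897048577622186917888, .ofNat 0⟩)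
    (by decide +kernel)
theorem L00623 : Good (Phi V5.P V5.D (-1) 1) ⟨3, 2, 2, 1, 2, 2, 3, 6, 4, 0⟩ :=
  leafX_sound T5.ok_mp T5.Ymp.bz_eq (w := 204) (c := ⟨⟨.ofNat 10, .negSucc 133, .negSucc 172, .ofNat 87, .negSucc 221, .negSucc 735⟩, ⟨.negSucc 41, .ofNat 12, .negSucc 168, .ofNat 6, .negSucc 66, .negSucc 262⟩, ⟨.negSucc 24, .ofNat 14, .ofNat 78, .negSucc 190, .ofNat 172, .ofNat 359⟩, ⟨.ofNat 2, .negSucc 187, .negSucc 193, .ofNat 434, .negSucc 581, .negSucc 1910⟩, ⟨.negSucc 400, .negSucc 117, .negSucc 185, .negSucc 494, .negSucc 13, .negSucc 46⟩, .ofNat 656, .negSucc 415, .ofNat 0, .negSucc 415, .ofNat 1409, .ofNat 0, .ofNat 164, .ofNat 128, .negSucc 172, .ofNat 0, .ofNat 118, .negSucc 36, .ofNat 0, .ofNat 0, .ofNat 336, .ofNat 772, .ofNat 0, .ofNat 0, .ofNat 0, .ofNat 0, .ofNat 0, .ofNat 0, .ofNat 0, .ofNat 0, .ofNat 0, .ofNat 0, .ofNat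 0, .ofNat 0, .ofNat 0, .ofNat 0, .ofNat 0, .ofNat 0⟩)
    (by decide +kernel)
theorem L00624 : Good (Phi V5.P V5.D (-1) 1) ⟨3, 2, 2, 1, 2, 2, 3, 7, 4, 0⟩ :=
  leafX_sound T5.ok_mp T5.Ymp.bz_eq (w := 205) (c := ⟨⟨.negSucc 283, .negSucc 170, .negSucc 151, .negSucc 43, .ofNat 12, .negSucc 469⟩, ⟨.negSucc 111, .negSucc 27, .negSucc 181, .negSucc 38, .ofNat 15, .negSucc 158⟩, ⟨.ofNat 180, .ofNat 53, .ofNat 49, .negSucc 95, .negSucc 19, .ofNat 178⟩, ⟨.negSucc 676, .negSucc 291, .negSucc 189, .ofNat 24, .negSucc 25, .negSucc 1258⟩, ⟨.negSucc 580, .negSucc 80, .negSucc 101, .negSucc 377, .ofNat 120, .ofNat 107⟩, .ofNat 651, .negSucc 407, .ofNat 0, .negSucc 407, .ofNat 1405, .ofNat 0, .ofNat 158, .ofNat 128, .negSucc 246, .ofNat 0, .ofNat 120, .negSucc 46, .ofNat 0, .ofNat 0, .ofNat 450, .ofNat 1028, .ofNat 0, .ofNat 0, .ofNat 0, .ofNat 0, .ofNat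 0, .ofNat 0, .ofNat 0, .ofNat 0, .ofNat 0, .ofNat 2510998703354120956450739918043684536320, .ofNat 0, .ofNat 0, .ofNat 0, .ofNat 0, .ofNat 0, .ofNat 0⟩)
    (by decide +kernel)
theorem L00625 : Good (Phi V5.P V5.D (-1) 1) ⟨3, 3, 2, 1, 2, 2, 3, 6, 4, 0⟩ :=
  leafX_sound T5.ok_mp T5.Ymp.bz_eq (w := 204) (c := ⟨⟨.negSucc 71, .negSucc 215, .negSucc 167, .ofNat 112, .negSucc 197, .negSucc 920⟩, ⟨.negSucc 18, .negSucc 5, .negSucc 206, .negSucc 5, .negSucc 64, .negSucc 273⟩, ⟨.negSucc 29, .ofNat 102, .ofNat 82, .negSucc 261, .ofNat 123, .ofNat 567⟩, ⟨.negSucc 152, .negSucc 337, .negSucc 188, .ofNat 478, .negSucc 487, .negSucc 2201⟩, ⟨.negSucc 628, .negSucc 75, .negSucc 112, .negSucc 705, .ofNat 68, .ofNat 181⟩, .ofNat 570, .negSucc 346, .ofNat 0, .negSucc 346, .ofNat 1444, .ofNat 0, .ofNat 203, .ofNat 128, .negSucc 185, .ofNat 0, .ofNat 114, .negSucc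 32, .ofNat 0, .ofNat 0, .ofNat 310, .ofNat 491, .ofNat 0, .ofNat 0, .ofNat 0, .ofNat 0, .ofNat 0, .ofNat 0, .ofNat 0, .ofNat 0, .ofNat 0, .ofNat 0, .ofNat 0, .ofNat 0, .ofNat 0, .ofNat 0, .ofNat 0, .ofNat 0⟩)
    (by decide +kernel)
theorem L00626 : Good (Phi V5.P V5.D (-1) 1) ⟨3, 3, 2, 1, 2, 2, 4, 14, 4, 0⟩ :=
  leafX_sound T5.ok_mp T5.Ymp.bz_eq (w := 209) (c := ⟨⟨.negSucc 401, .negSucc 206, .negSucc 212, .ofNat 19, .negSucc 39, .negSucc 561⟩, ⟨.negSucc 132, .ofNat 2, .negSucc 230, .negSucc 31, .negSucc 3, .negSucc 141⟩, ⟨.ofNat 229, .ofNat 77, .ofNat 77, .negSucc 177, .ofNat 4, .ofNat 287⟩, ⟨.negSucc 902, .negSucc 282, .negSucc 290, .ofNat 198, .negSucc 95, .negSucc 1422⟩, ⟨.negSucc 726, .negSucc 124, .negSucc 90, .negSucc 459, .ofNat 36, .ofNat 303⟩, .ofNat 566, .negSucc 338, .ofNat 0, .negSucc 338, .ofNat 1443, .ofNat 0, .ofNat 205,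 .ofNat 128, .negSucc 319, .ofNat 0, .ofNat 115, .negSucc 49, .ofNat 0, .ofNat 0, .ofNat 502, .ofNat 1016, .ofNat 0, .ofNat 0, .ofNat 0, .ofNat 0, .ofNat 0, .ofNat 0, .ofNat 0, .ofNat 0, .ofNat 0, .ofNat 0, .ofNat 0, .ofNat 0, .ofNat 0, .ofNat 0, .ofNat 407969423967201999706432098616943312896, .ofNat 0⟩)
    (by decide +kernel)
theorem L00627 : Good (Phi V5.P V5.D (-1) 1) ⟨3, 3, 2, 1, 2, 2, 4, 15, 4, 0⟩ :=
  leafX_sound T5.ok_mp T5.Ymp.bz_eq (w := 209) (c := ⟨⟨.negSucc 547, .negSucc 241, .negSucc 136, .negSucc 103, .ofNat 143, .negSucc 304⟩, ⟨.negSucc 167, .negSucc 6, .negSucc 209, .negSucc 60, .ofNat 48, .negSucc 66⟩, ⟨.ofNat 312, .ofNat 116, .ofNat 30, .negSucc 94, .negSucc 146, .ofNat 75⟩, ⟨.negSucc 1255, .negSucc 385, .negSucc 139, .negSucc 98, .ofNat 338, .negSucc 796⟩, ⟨.negSucc 654, .ofNat 4, .negSucc 117, .negSucc 475, .negSucc 53,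 .ofNat 315⟩, .ofNat 661, .negSucc 505, .ofNat 0, .negSucc 505, .ofNat 1971, .ofNat 0, .ofNat 187, .ofNat 128, .negSucc 295, .ofNat 0, .ofNat 103, .negSucc 55, .ofNat 0, .ofNat 0, .ofNat 465, .ofNat 925, .ofNat 0, .ofNat 0, .ofNat 0, .ofNat 0, .ofNat 0, .ofNat 0, .ofNat 0, .ofNat 0, .ofNat 0, .ofNat 0, .ofNat 0, .ofNat 0, .ofNat 0, .ofNat 0, .ofNat 247129623337625421778800098938995081216, .ofNat 0⟩)
    (by decide +kernel)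
theorem L00628 : Good (Phi V5.P V5.D (-1) 1) ⟨3, 2, 2, 1, 2, 3, 3, 6, 4, 0⟩ :=
  leafX_sound T5.ok_mp T5.Ymp.bz_eq (w := 204) (c := ⟨⟨.ofNat 55, .negSucc 135, .negSucc 109, .negSucc 173, .negSucc 231, .negSucc 688⟩, ⟨.negSucc 13, .negSucc 6, .negSucc 154, .negSucc 109, .negSucc 89, .negSucc 270⟩, ⟨.negSucc 114, .ofNat 53, .negSucc 78, .negSucc 26, .ofNat 149, .ofNat 259⟩, ⟨.ofNat 184, .negSucc 190, .ofNat 112, .negSucc 163, .negSucc 562, .negSucc 1709⟩, ⟨.negSucc 686, .negSucc 206, .negSucc 266, .negSucc 771, .negSucc 102, .negSucc 195⟩, .ofNat 920, .negSucc 850, .ofNat 0, .negSucc 850, .ofNat 2451, .ofNat 0, .ofNat 134, .ofNat 128, .negSucc 144, .ofNat 0, .ofNat 94, .negSucc 25, .ofNat 0, .ofNat 0, .ofNat 271, .ofNat 501, .ofNat 0, .ofNat 0, .ofNat 0, .ofNat 0, .ofNat 0, .ofNat 0, .ofNat 0, .ofNat 0, .ofNat 0, .ofNat 0, .ofNat 0, .ofNat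 0, .ofNat 0, .ofNat 0, .ofNat 0, .ofNat 0⟩)
    (by decide +kernel)
theorem L00629 : Good (Phi V5.P V5.D (-1) 1) ⟨3, 3, 3, 2, 2, 3, 3, 6, 5, 0⟩ :=
  leafX_sound T5.ok_mp T5.Ymp.bz_eq (w := 212) (c := ⟨⟨.ofNat 208, .negSucc 2, .negSucc 27, .negSucc 295, .negSucc 463, .negSucc 507⟩, ⟨.negSucc 19, .ofNat 10, .negSucc 64, .negSucc 95, .negSucc 118, .negSucc 131⟩, ⟨.negSucc 250, .negSucc 38, .negSucc 80, .ofNat 171, .ofNat 247, .ofNat 203⟩, ⟨.ofNat 663, .ofNat 37, .ofNat 144, .negSucc 586, .negSucc 1057, .negSucc 1163⟩, ⟨.negSucc 999, .negSucc 212, .negSucc 230, .negSucc 424, .negSucc 107, .negSucc 133⟩, .ofNat 622, .negSucc 416, .ofNat 0, .negSucc 416, .ofNat 1962, .ofNat 0, .ofNat 143, .ofNat 128, .negSucc 204, .ofNat 0, .ofNat 96, .negSucc 16, .ofNat 0, .ofNat 0, .ofNat 298, .ofNat 668, .ofNat 0, .ofNat 0, .ofNat 0, .ofNat 0, .ofNat 0, .ofNat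 0, .ofNat 0, .ofNat 0, .ofNat 0, .ofNat 0, .ofNat 0, .ofNat 0, .ofNat 0, .ofNat 0, .ofNat 0, .ofNat 0⟩)
    (by decide +kernel)
theorem L00630 : Good (Phi V5.P V5.D (-1) 1) ⟨4, 6, 3, 3, 2, 3, 3, 6, 5, 0⟩ :=
  leafX_sound T5.ok_mp T5.Ymp.bz_eq (w := 217) (c := ⟨⟨.ofNat 107, .ofNat 2, .negSucc 49, .negSucc 176, .negSucc 448, .negSucc 494⟩, ⟨.negSucc 28, .ofNat 8, .negSucc 55, .negSucc 104, .negSucc 164, .negSucc 185⟩, ⟨.negSucc 253, .negSucc 28, .negSucc 35, .negSucc 16, .ofNat 255, .ofNat 221⟩, ⟨.ofNat 586, .ofNat 40, .ofNat 102, .negSucc 149, .negSucc 1045, .negSucc 1161⟩, ⟨.negSucc 1116, .negSucc 84, .negSucc 142, .negSucc 760, .negSucc 102, .negSucc 101⟩, .ofNat 903, .negSucc 936, .ofNat 0, .negSucc 936, .ofNat 2714, .ofNat 0, .ofNat 128, .ofNat 146, .negSucc 228, .ofNat 0, .ofNat 98, .negSucc 50, .ofNat 0, .ofNat 0, .ofNat 356, .ofNat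 1063, .ofNat 0, .ofNat 0, .ofNat 0, .ofNat 0, .ofNat 0, .ofNat 0, .ofNat 0, .ofNat 0, .ofNat 0, .ofNat 0, .ofNat 0, .ofNat 0, .ofNat 0, .ofNat 0, .ofNat 0, .ofNat 0⟩)
    (by decide +kernel)
theorem L00631 : Good (Phi V5.P V5.D (-1) 1) ⟨4, 7, 3, 3, 2, 3, 3, 6, 5, 0⟩ :=
  leafX_sound T5.ok_mp T5.Ymp.bz_eq (w := 217) (c := ⟨⟨.ofNat 198, .ofNat 46, .negSucc 23, .negSucc 126, .negSucc 525, .negSucc 665⟩, ⟨.negSucc 13, .negSucc 5, .negSucc 56, .negSucc 96, .negSucc 166, .negSucc 203⟩, ⟨.negSucc 354, .negSucc 95, .negSucc 77, .negSucc 32, .ofNat 309, .ofNat 387⟩, ⟨.ofNat 776, .ofNat 145, .ofNat 172, .ofNat 4, .negSucc 1178, .negSucc 1527⟩, ⟨.negSucc 1268, .negSucc 243, .negSucc 182, .negSucc 900, .negSucc 22, .ofNat 96⟩, .ofNat 892, .negSucc 1020, .ofNat 0, .negSucc 1020, .ofNat 3301, .ofNat 0, .ofNat 128, .ofNat 143, .negSucc 294, .ofNat 0,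 .ofNat 93, .negSucc 55, .ofNat 0, .ofNat 0, .ofNat 412, .ofNat 266, .ofNat 0, .ofNat 0, .ofNat 0, .ofNat 0, .ofNat 0, .ofNat 0, .ofNat 0, .ofNat 0, .ofNat 0, .ofNat 0, .ofNat 0, .ofNat 0, .ofNat 0, .ofNat 0, .ofNat 436432794883138032505224797383362084864, .ofNat 0⟩)
    (by decide +kernel)
theorem L00632 : Good (Phi V5.P V5.D (-1) 1) ⟨3, 3, 3, 2, 2, 3, 3, 6, 5, 1⟩ :=
  leafX_sound T5.ok_mp T5.Ymp.bz_eq (w := 213) (c := ⟨⟨.negSucc 395, .negSucc 197, .negSucc 88, .negSucc 102, .negSucc 219, .negSucc 448⟩, ⟨.negSucc 181, .ofNat 9, .negSucc 115, .negSucc 68, .negSucc 44, .negSucc 100⟩, ⟨.ofNat 3, .ofNat 129, .negSucc 13, .negSucc 14, .ofNat 127, .ofNat 242⟩, ⟨.negSucc 782, .negSucc 313, .negSucc 30, .negSucc 77, .negSucc 525, .negSucc 1048⟩, ⟨.negSucc 1235, .negSucc 59, .negSucc 119, .negSucc 627, .ofNat 67, .ofNat 69⟩, .ofNat 697, .negSucc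 573, .ofNat 0, .negSucc 573, .ofNat 2454, .ofNat 0, .ofNat 258, .ofNat 128, .negSucc 256, .ofNat 0, .ofNat 91, .negSucc 30, .ofNat 0, .ofNat 0, .ofNat 382, .ofNat 1378, .ofNat 0, .ofNat 0, .ofNat 0, .ofNat 0, .ofNat 0, .ofNat 0, .ofNat 0, .ofNat 0, .ofNat 0, .ofNat 0, .ofNat 0, .ofNat 0, .ofNat 0, .ofNat 0, .ofNat 0, .ofNat 0⟩)
    (by decide +kernel)
theorem L00633 : Good (Phi V5.P V5.D (-1) 1) ⟨3, 3, 4, 6, 2, 3, 3, 6, 5, 1⟩ :=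
  leafX_sound T5.ok_mp T5.Ymp.bz_eq (w := 216) (c := ⟨⟨.negSucc 523, .negSucc 195, .negSucc 41, .negSucc 38, .negSucc 182, .negSucc 445⟩, ⟨.negSucc 272, .negSucc 4, .negSucc 56, .negSucc 61, .negSucc 51, .negSucc 131⟩, ⟨.ofNat 27, .ofNat 126, .ofNat 1, .negSucc 112, .ofNat 106, .ofNat 267⟩, ⟨.negSucc 897, .negSucc 325, .ofNat 3, .ofNat 140, .negSucc 457, .negSucc 1094⟩, ⟨.negSucc 1385, .negSucc 32, .negSucc 55, .negSucc 708, .ofNat 84, .ofNat 167⟩, .ofNat 798, .negSucc 777, .ofNat 0, .negSucc 777, .ofNat 2576, .ofNat 0, .ofNat 145, .ofNat 128, .negSucc 204, .ofNat 0, .ofNat 86, .negSucc 37, .ofNat 0, .ofNat 0, .ofNat 304, .ofNat 867, .ofNat 0, .ofNat 0, .ofNat 0, .ofNat 0, .ofNat 0, .ofNat 0, .ofNat 0, .ofNat 0, .ofNat 0, .ofNat 0, .ofNat 0, .ofNat 0, .ofNat 0, .ofNat 0, .ofNat 0, .ofNat 0⟩)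
    (by decide +kernel)
theorem L00634 : Good (Phi V5.P V5.D (-1) 1) ⟨3, 3, 4, 7, 2, 3, 3, 6, 5, 1⟩ :=
  leafX_sound T5.ok_mp T5.Ymp.bz_eq (w := 216) (c := ⟨⟨.negSucc 537, .negSucc 213, .negSucc 36, .ofNat 4, .negSucc 250, .negSucc 458⟩, ⟨.negSucc 310, .negSucc 15, .negSucc 51, .negSucc 49, .negSucc 80, .negSucc 144⟩, ⟨.negSucc 0, .ofNat 146, .ofNat 5, .negSucc 152, .ofNat 153, .ofNat 304⟩, ⟨.negSucc 820, .negSucc 390, .negSucc 11, .ofNat 267, .negSucc 597, .negSucc 1165⟩, ⟨.negSucc 1505, .ofNat 43, .ofNat 25, .negSucc 752, .ofNat 69, .ofNat 271⟩, .ofNat 864, .negSucc 891, .ofNat 0, .negSucc 891, .ofNat 2621, .ofNat 0, .ofNat 141, .ofNat 128, .negSucc 295, .ofNat 0, .ofNat 86, .negSucc 63, .ofNat 0, .ofNat 0, .ofNat 439, .ofNat 1040, .ofNat 0, .ofNat 0, .ofNat 0, .ofNat 0, .ofNat 0, .ofNat 0, .ofNat 0, .ofNat 0, .ofNat 0, .ofNat 0, .ofNat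 0, .ofNat 0, .ofNat 0, .ofNat 0, .ofNat 3891720507248014242175264457731386376192, .ofNat 0⟩)
    (by decide +kernel)
theorem L00635 : Good (Phi V5.P V5.D (-1) 1) ⟨3, 2, 2, 1, 2, 3, 4, 14, 4, 0⟩ :=
  leafX_sound T5.ok_mp T5.Ymp.bz_eq (w := 209) (c := ⟨⟨.negSucc 339, .negSucc 62, .negSucc 82, .negSucc 210, .negSucc 47, .negSucc 456⟩, ⟨.negSucc 162, .ofNat 14, .negSucc 161, .negSucc 128, .negSucc 7, .negSucc 168⟩, ⟨.ofNat 125, .negSucc 4, .negSucc 106, .negSucc 39, .ofNat 29, .ofNat 186⟩, ⟨.negSucc 833, .ofNat 2, .ofNat 197, .negSucc 148, .negSucc 122, .negSucc 1267⟩, ⟨.negSucc 802, .negSucc 79, .negSucc 290, .negSucc 1046, .ofNat 9, .ofNat 189⟩, .ofNat 923, .negSucc 856, .ofNat 0, .negSucc 856, .ofNat 2459, .ofNat 0, .ofNat 128, .ofNat 159, .negSucc 163, .ofNat 0, .ofNat 118, .negSucc 25, .ofNat 0, .ofNat 0, .ofNat 301, .ofNat 683, .ofNat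 0, .ofNat 0, .ofNat 0, .ofNat 0, .ofNat 0, .ofNat 0, .ofNat 0, .ofNat 0, .ofNat 0, .ofNat 0, .ofNat 0, .ofNat 0, .ofNat 0, .ofNat 0, .ofNat 0, .ofNat 0⟩)
    (by decide +kernel)
theorem L00636 : Good (Phi V5.P V5.D (-1) 1) ⟨3, 2, 2, 1, 2, 3, 4, 15, 4, 0⟩ :=
  leafX_sound T5.ok_mp T5.Ymp.bz_eq (w := 209) (c := ⟨⟨.negSucc 488, .negSucc 141, .negSucc 57, .negSucc 161, .negSucc 34, .negSucc 299⟩, ⟨.negSucc 181, .negSucc 18, .negSucc 194, .negSucc 117, .negSucc 6, .negSucc 82⟩, ⟨.ofNat 249, .ofNat 0, .negSucc 146, .negSucc 108, .negSucc 20, .ofNat 122⟩, ⟨.negSucc 1265, .negSucc 150, .ofNat 313, .negSucc 58, .negSucc 91, .negSucc 890⟩, ⟨.negSucc 608, .negSucc 242, .negSucc 537, .negSucc 972, .ofNat 75, .ofNat 320⟩, .ofNat 911, .negSucc 835, .ofNat 0, .negSucc 835, .ofNat 2444, .ofNat 0, .ofNat 128, .ofNat 204, .negSucc 208, .ofNat 0, .ofNat 154,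 .negSucc 28, .ofNat 0, .ofNat 0, .ofNat 374, .ofNat 995, .ofNat 0, .ofNat 0, .ofNat 0, .ofNat 0, .ofNat 0, .ofNat 0, .ofNat 0, .ofNat 0, .ofNat 0, .ofNat 0, .ofNat 0, .ofNat 0, .ofNat 0, .ofNat 0, .ofNat 0, .ofNat 0⟩)
    (by decide +kernel)
theorem L00637 : Good (Phi V5.P V5.D (-1) 1) ⟨3, 3, 3, 2, 2, 3, 4, 14, 5, 0⟩ :=
  leafX_sound T5.ok_mp T5.Ymp.bz_eq (w := 217) (c := ⟨⟨.negSucc 319, .negSucc 104, .negSucc 13, .negSucc 278, .negSucc 159, .negSucc 310⟩, ⟨.negSucc 148, .ofNat 14, .negSucc 89, .negSucc 113, .negSucc 31, .negSucc 77⟩, ⟨.ofNat 66, .ofNat 37, .negSucc 96, .ofNat 76, .ofNat 81, .ofNat 104⟩, ⟨.negSucc 612, .negSucc 120, .ofNat 167, .negSucc 487, .negSucc 388, .negSucc 712⟩, ⟨.negSucc 1073, .negSucc 174, .negSucc 210, .negSucc 648, .ofNat 91, .negSucc 21⟩, .ofNat 694, .negSucc 567, .ofNat 0, .negSucc 567, .ofNat 2459, .ofNat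 0, .ofNat 192, .ofNat 128, .negSucc 291, .ofNat 0, .ofNat 90, .negSucc 28, .ofNat 0, .ofNat 0, .ofNat 425, .ofNat 1625, .ofNat 0, .ofNat 0, .ofNat 0, .ofNat 0, .ofNat 0, .ofNat 0, .ofNat 0, .ofNat 0, .ofNat 0, .ofNat 0, .ofNat 0, .ofNat 0, .ofNat 0, .ofNat 0, .ofNat 0, .ofNat 0⟩)
    (by decide +kernel)
theorem L00638 : Good (Phi V5.P V5.D (-1) 1) ⟨3, 3, 3, 2, 2, 3, 4, 14, 5, 1⟩ :=
  leafX_sound T5.ok_mp T5.Ymp.bz_eq (w := 217) (c := ⟨⟨.negSucc 716, .negSucc 247, .negSucc 75, .negSucc 62, .negSucc 55, .negSucc 235⟩, ⟨.negSucc 250, .ofNat 11, .negSucc 122, .negSucc 67, .ofNat 0, .negSucc 42⟩, ⟨.ofNat 223, .ofNat 145, .negSucc 22, .negSucc 85, .ofNat 25, .ofNat 110⟩, ⟨.negSucc 1544, .negSucc 406, .ofNat 4, .ofNat 25, .negSucc 177, .negSucc 617⟩, ⟨.negSucc 1198, .ofNat 27, .negSucc 153, .negSucc 739, .ofNat 182, .ofNat 264⟩, .ofNat 695, .negSucc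 567, .ofNat 0, .negSucc 567, .ofNat 2463, .ofNat 0, .ofNat 140, .ofNat 128, .negSucc 259, .ofNat 0, .ofNat 92, .negSucc 28, .ofNat 0, .ofNat 0, .ofNat 384, .ofNat 1077, .ofNat 0, .ofNat 0, .ofNat 0, .ofNat 0, .ofNat 0, .ofNat 0, .ofNat 0, .ofNat 0, .ofNat 0, .ofNat 0, .ofNat 0, .ofNat 0, .ofNat 0, .ofNat 0, .ofNat 0, .ofNat 0⟩)
    (by decide +kernel)
theorem L00639 : Good (Phi V5.P V5.D (-1) 1) ⟨3, 3, 3, 2, 2, 3, 4, 15, 5, 0⟩ :=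
  leafX_sound T5.ok_mp T5.Ymp.bz_eq (w := 217) (c := ⟨⟨.negSucc 539, .negSucc 123, .negSucc 58, .negSucc 219, .negSucc 90, .negSucc 185⟩, ⟨.negSucc 200, .ofNat 26, .negSucc 116, .negSucc 110, .negSucc 10, .negSucc 33⟩, ⟨.ofNat 229, .ofNat 39, .negSucc 76, .negSucc 41, .ofNat 3, .ofNat 33⟩, ⟨.negSucc 1156, .negSucc 149, .ofNat 70, .negSucc 307, .negSucc 234, .negSucc 462⟩, ⟨.negSucc 1002, .negSucc 90, .negSucc 280, .negSucc 802, .ofNat 110, .ofNat 119⟩, .ofNat 684, .negSucc 551, .ofNat 0, .negSucc 551, .ofNat 2460, .ofNat 0, .ofNat 128, .ofNat 152, .negSucc 194, .ofNat 0, .ofNat 109, .negSucc 17, .ofNat 0, .ofNat 0, .ofNat 279, .ofNat 1403, .ofNat 0, .ofNat 0, .ofNat 0, .ofNat 0, .ofNat 0, .ofNat 0, .ofNat 0, .ofNat 0, .ofNat 0, .ofNat 0, .ofNat 0, .ofNat 0, .ofNat 0, .ofNat 0, .ofNat 0, .ofNat 0⟩)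
    (by decide +kernel)
theorem L00640 : Good (Phi V5.P V5.D (-1) 1) ⟨3, 3, 3, 2, 2, 3, 4, 15, 5, 1⟩ :=
  leafX_sound T5.ok_mp T5.Ymp.bz_eq (w := 217) (c := ⟨⟨.negSucc 853, .negSucc 196, .negSucc 47, .negSucc 58, .ofNat 50, .negSucc 105⟩, ⟨.negSucc 275, .ofNat 26, .negSucc 121, .negSucc 68, .ofNat 34, .ofNat 2⟩, ⟨.ofNat 301, .ofNat 95, .negSucc 47, .negSucc 107, .negSucc 57, .ofNat 57⟩, ⟨.negSucc 1901, .negSucc 257, .ofNat 53, .ofNat 54, .ofNat 45, .negSucc 355⟩, ⟨.negSucc 1047, .negSucc 31, .negSucc 182, .negSucc 778, .ofNat 308, .ofNat 397⟩, .ofNat 765, .negSucc 737, .ofNat 0, .negSucc 737, .ofNat 3083, .ofNat 0, .ofNat 128, .ofNat 163, .negSucc 270, .ofNat 0, .ofNat 112, .negSucc 29, .ofNat 0, .ofNat 0, .ofNat 394, .ofNat 833, .ofNat 0, .ofNat 0, .ofNat 0, .ofNat 0, .ofNat 0, .ofNat 39178868063641406637164632602923344330752, .ofNat 0,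 .ofNat 0, .ofNat 0, .ofNat 0, .ofNat 0, .ofNat 0, .ofNat 0, .ofNat 0, .ofNat 0, .ofNat 0⟩)
    (by decide +kernel)
theorem L00641 : Good (Phi V5.P V5.D (-1) 1) ⟨4, 6, 3, 3, 2, 3, 4, 14, 4, 0⟩ :=
  leafX_sound T5.ok_mp T5.Ymp.bz_eq (w := 216) (c := ⟨⟨.negSucc 468, .negSucc 89, .negSucc 85, .negSucc 29, .negSucc 113, .negSucc 542⟩, ⟨.negSucc 237, .negSucc 4, .negSucc 103, .negSucc 64, .negSucc 37, .negSucc 180⟩, ⟨.ofNat 54, .ofNat 41, .negSucc 12, .negSucc 154, .ofNat 41, .ofNat 307⟩, ⟨.negSucc 807, .negSucc 114, .ofNat 13, .ofNat 320, .negSucc 288, .negSucc 1458⟩, ⟨.negSucc 1183, .negSucc 112, .negSucc 130, .negSucc 1074, .ofNat 51, .ofNat 372⟩, .ofNat 902, .negSucc 934, .ofNat 0, .negSucc 934, .ofNat 2705, .ofNat 0, .ofNat 128, .ofNat 183, .negSucc 187, .ofNat 0, .ofNat 125, .negSucc 37, .ofNat 0, .ofNat 0, .ofNat 294, .ofNat 892, .ofNat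 0, .ofNat 0, .ofNat 0, .ofNat 0, .ofNat 0, .ofNat 0, .ofNat 0, .ofNat 0, .ofNat 0, .ofNat 0, .ofNat 0, .ofNat 0, .ofNat 0, .ofNat 0, .ofNat 0, .ofNat 0⟩)
    (by decide +kernel)
theorem L00642 : Good (Phi V5.P V5.D (-1) 1) ⟨4, 6, 3, 3, 2, 3, 4, 15, 5, 0⟩ :=
  leafX_sound T5.ok_mp T5.Ymp.bz_eq (w := 222) (c := ⟨⟨.negSucc 578, .negSucc 80, .negSucc 53, .negSucc 197, .negSucc 46, .negSucc 199⟩, ⟨.negSucc 264, .negSucc 7, .negSucc 96, .negSucc 135, .negSucc 15, .negSucc 60⟩, ⟨.ofNat 151, .ofNat 26, .negSucc 59, .negSucc 112, .negSucc 22, .ofNat 77⟩, ⟨.negSucc 1111, .negSucc 94, .ofNat 139, .negSucc 59, .negSucc 127, .negSucc 558⟩, ⟨.negSucc 1089, .negSucc 131, .negSucc 231, .negSucc 1120, .ofNat 53, .ofNat 183⟩, .ofNat 895, .negSucc 924, .ofNat 0, .negSucc 924, .ofNat 2698, .ofNat 0, .ofNat 128, .ofNat 222, .negSucc 234, .ofNat 0, .ofNat 154,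 .negSucc 42, .ofNat 0, .ofNat 0, .ofNat 358, .ofNat 1978, .ofNat 0, .ofNat 0, .ofNat 0, .ofNat 0, .ofNat 0, .ofNat 0, .ofNat 0, .ofNat 0, .ofNat 0, .ofNat 0, .ofNat 0, .ofNat 0, .ofNat 0, .ofNat 0, .ofNat 0, .ofNat 0⟩)
    (by decide +kernel)
theorem L00643 : Good (Phi V5.P V5.D (-1) 1) ⟨4, 6, 3, 3, 2, 3, 4, 15, 5, 1⟩ :=
  leafX_sound T5.ok_mp T5.Ymp.bz_eq (w := 222) (c := ⟨⟨.negSucc 919, .negSucc 121, .negSucc 59, .negSucc 18, .ofNat 65, .negSucc 119⟩, ⟨.negSucc 385, .negSucc 9, .negSucc 120, .negSucc 64, .ofNat 36, .negSucc 14⟩, ⟨.ofNat 270, .ofNat 55, .negSucc 35, .negSucc 158, .negSucc 77, .ofNat 97⟩, ⟨.negSucc 1964, .negSucc 218, .ofNat 103, .ofNat 353, .ofNat 119, .negSucc 460⟩, ⟨.negSucc 1043, .ofNat 16, .negSucc 260, .negSucc 1085, .ofNat 127, .ofNat 468⟩, .ofNat 896, .negSucc 922, .ofNat 0, .negSucc 922, .ofNat 2693, .ofNat 0,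 .ofNat 128, .ofNat 173, .negSucc 228, .ofNat 0, .ofNat 120, .negSucc 42, .ofNat 0, .ofNat 0, .ofNat 355, .ofNat 1657, .ofNat 0, .ofNat 0, .ofNat 0, .ofNat 0, .ofNat 0, .ofNat 12547684254915400642252422365714660993269760, .ofNat 0, .ofNat 0, .ofNat 0, .ofNat 0, .ofNat 0, .ofNat 0, .ofNat 0, .ofNat 20153815843934830024814657574456354410594304, .ofNat 0, .ofNat 0⟩)
    (by decide +kernel)
theorem L00644 : Good (Phi V5.P V5.D (-1) 1) ⟨4, 7, 3, 3, 3, 6, 4, 14, 5, 0⟩ :=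
  leafX_sound T5.ok_mp T5.Ymp.bz_eq (w := 236) (c := ⟨⟨.negSucc 429, .negSucc 44, .negSucc 48, .ofNat 85, .negSucc 172, .negSucc 511⟩, ⟨.negSucc 211, .negSucc 6, .negSucc 84, .negSucc 7, .negSucc 49, .negSucc 154⟩, ⟨.ofNat 39, .negSucc 18, .negSucc 54, .negSucc 161, .ofNat 84, .ofNat 306⟩, ⟨.negSucc 643, .negSucc 36, .ofNat 102, .ofNat 380, .negSucc 419, .negSucc 1245⟩, ⟨.negSucc 1331, .negSucc 122, .negSucc 179, .negSucc 566, .ofNat 70, .ofNat 246⟩, .ofNat 778, .negSucc 757, .ofNat 0, .negSucc 757, .ofNat 2475, .ofNat 0, .ofNat 194, .ofNat 128, .negSucc 478, .ofNat 0, .ofNat 90, .negSucc 90, .ofNat 0, .ofNat 0, .ofNat 676, .ofNat 1813, .ofNat 0, .ofNat 0, .ofNat 0, .ofNat 0, .ofNat 0, .ofNat 0, .ofNat 0, .ofNat 0, .ofNat 0, .ofNat 0, .ofNat 0, .ofNat 0, .ofNat 0, .ofNat 0, .ofNat 0, .ofNat 0⟩)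
    (by decide +kernel)
theorem L00645 : Good (Phi V5.P V5.D (-1) 1) ⟨4, 7, 3, 3, 3, 6, 4, 15, 5, 0⟩ :=
  leafX_sound T5.ok_mp T5.Ymp.bz_eq (w := 236) (c := ⟨⟨.negSucc 623, .negSucc 93, .negSucc 62, .negSucc 18, .negSucc 66, .negSucc 326⟩, ⟨.negSucc 272, .negSucc 11, .negSucc 104, .negSucc 33, .negSucc 15, .negSucc 80⟩, ⟨.ofNat 130, .ofNat 26, .negSucc 48, .negSucc 72, .negSucc 12, .ofNat 177⟩, ⟨.negSucc 1095, .negSucc 137, .ofNat 57, .ofNat 109, .negSucc 192, .negSucc 822⟩, ⟨.negSucc 1305, .negSucc 84, .negSucc 174, .negSucc 483, .ofNat 119, .ofNat 265⟩, .ofNat 756, .negSucc 717, .ofNat 0, .negSucc 717, .ofNat 2454, .ofNat 0, .ofNat 141, .ofNat 128, .negSucc 531, .ofNat 0, .ofNat 93, .negSucc 85, .ofNat 0, .ofNat 0, .ofNat 744, .ofNat 1598, .ofNat 0, .ofNat 0, .ofNat 0, .ofNat 0, .ofNat 0, .ofNat 0, .ofNat 0, .ofNat 0, .ofNat 0, .ofNat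 0, .ofNat 0, .ofNat 0, .ofNat 0, .ofNat 0, .ofNat 321124222031294295066412076976579259924480000, .ofNat 0⟩)
    (by decide +kernel)
theorem L00646 : Good (Phi V5.P V5.D (-1) 1) ⟨4, 7, 3, 3, 3, 6, 3, 7, 5, 1⟩ :=
  leafX_sound T5.ok_mp T5.Ymp.bz_eq (w := 232) (c := ⟨⟨.negSucc 924, .negSucc 213, .negSucc 125, .ofNat 40, .ofNat 33, .negSucc 282⟩, ⟨.negSucc 371, .negSucc 15, .negSucc 145, .negSucc 13, .ofNat 42, .negSucc 57⟩, ⟨.ofNat 262, .ofNat 150, .ofNat 46, .negSucc 99, .negSucc 80, .ofNat 198⟩, ⟨.negSucc 1763, .negSucc 400, .negSucc 161, .ofNat 202, .negSucc 53, .negSucc 773⟩, ⟨.negSucc 1436, .ofNat 106, .negSucc 19, .negSucc 369, .ofNat 423, .ofNat 414⟩, .ofNat 767, .negSucc 736, .ofNat 0, .negSucc 736, .ofNat 2469, .ofNat 0, .ofNat 128, .ofNat 181, .negSucc 347, .ofNat 0, .ofNat 128, .negSucc 61, .ofNat 0, .ofNat 0, .ofNat 492, .ofNat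 1225, .ofNat 0, .ofNat 0, .ofNat 0, .ofNat 0, .ofNat 0, .ofNat 0, .ofNat 0, .ofNat 0, .ofNat 0, .ofNat 0, .ofNat 0, .ofNat 0, .ofNat 0, .ofNat 5783694258102436056287175992553573081736544256, .ofNat 3898905007267784382361955547140643203579904, .ofNat 0⟩)
    (by decide +kernel)
theorem L00647 : Good (Phi V5.P V5.D (-1) 1) ⟨4, 7, 4, 6, 3, 7, 4, 14, 5, 0⟩ :=
  leafX_sound T5.ok_mp T5.Ymp.bz_eq (w := 239) (c := ⟨⟨.negSucc 436, .negSucc 29, .negSucc 33, .negSucc 203, .negSucc 178, .negSucc 373⟩, ⟨.negSucc 250, .negSucc 0, .negSucc 52, .negSucc 82, .negSucc 49, .negSucc 102⟩, ⟨.negSucc 32, .negSucc 6, .negSucc 30, .ofNat 50, .ofNat 71, .ofNat 180⟩, ⟨.negSucc 531, .negSucc 18, .ofNat 54, .negSucc 364, .negSucc 422, .negSucc 868⟩, ⟨.negSucc 1763, .negSucc 95, .negSucc 118, .negSucc 330, .ofNat 45, .ofNat 69⟩, .ofNat 833, .negSucc 897, .ofNat 0,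 .negSucc 897, .ofNat 3091, .ofNat 0, .ofNat 128, .ofNat 165, .negSucc 371, .ofNat 0, .ofNat 108, .negSucc 49, .ofNat 0, .ofNat 0, .ofNat 498, .ofNat 1647, .ofNat 0, .ofNat 0, .ofNat 0, .ofNat 0, .ofNat 0, .ofNat 0, .ofNat 0, .ofNat 0, .ofNat 0, .ofNat 0, .ofNat 0, .ofNat 0, .ofNat 0, .ofNat 0, .ofNat 0, .ofNat 0⟩)
    (by decide +kernel)
theorem L00648 : Good (Phi V5.P V5.D (-1) 1) ⟨4, 7, 4, 6, 3, 7, 4, 15, 5, 0⟩ :=
  leafX_sound T5.ok_mp T5.Ymp.bz_eq (w := 239) (c := ⟨⟨.negSucc 697, .negSucc 111, .negSucc 1, .negSucc 150, .negSucc 68, .negSucc 221⟩, ⟨.negSucc 320, .negSucc 13, .negSucc 51, .negSucc 83, .negSucc 18, .negSucc 50⟩, ⟨.ofNat 102, .ofNat 51, .negSucc 55, .negSucc 19, .negSucc 29, .ofNat 104⟩, ⟨.negSucc 1150, .negSucc 197, .ofNat 134, .negSucc 189, .negSucc 165, .negSucc 570⟩, ⟨.negSucc 1689, .negSucc 38, .negSucc 154, .negSucc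 532, .ofNat 16, .ofNat 212⟩, .ofNat 732, .negSucc 672, .ofNat 0, .negSucc 672, .ofNat 2437, .ofNat 0, .ofNat 128, .ofNat 192, .negSucc 369, .ofNat 0, .ofNat 133, .negSucc 38, .ofNat 0, .ofNat 0, .ofNat 491, .ofNat 1776, .ofNat 0, .ofNat 0, .ofNat 0, .ofNat 0, .ofNat 0, .ofNat 0, .ofNat 0, .ofNat 0, .ofNat 0, .ofNat 0, .ofNat 0, .ofNat 0, .ofNat 0, .ofNat 0, .ofNat 0, .ofNat 0⟩)
    (by decide +kernel)
theorem L00649 : Good (Phi V5.P V5.D (-1) 1) ⟨4, 7, 4, 6, 3, 7, 4, 14, 5, 1⟩ :=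
  leafX_sound T5.ok_mp T5.Ymp.bz_eq (w := 239) (c := ⟨⟨.negSucc 946, .negSucc 119, .negSucc 35, .ofNat 14, .negSucc 17, .negSucc 218⟩, ⟨.negSucc 395, .ofNat 0, .negSucc 63, .negSucc 33, .ofNat 2, .negSucc 41⟩, ⟨.ofNat 221, .ofNat 82, .negSucc 9, .negSucc 99, .negSucc 20, .ofNat 143⟩, ⟨.negSucc 1746, .negSucc 201, .ofNat 16, .ofNat 194, .negSucc 73, .negSucc 585⟩, ⟨.negSucc 1664, .ofNat 19, .negSucc 51, .negSucc 533, .ofNat 109, .ofNat 309⟩, .ofNat 824, .negSucc 880, .ofNat 0, .negSucc 880, .ofNat 3060, .ofNat 0, .ofNat 128, .ofNat 218, .negSucc 409, .ofNat 0, .ofNat 144, .negSucc 56, .ofNat 0, .ofNat 0, .ofNat 549, .ofNat 1851, .ofNat 0, .ofNat 0, .ofNat 0, .ofNat 0, .ofNat 0, .ofNat 0, .ofNat 0, .ofNat 0, .ofNat 0, .ofNat 0, .ofNat 0, .ofNat 0, .ofNat 0, .ofNat 0, .ofNat 0, .ofNat 0⟩)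
    (by decide +kernel)
theorem L00650 : Good (Phi V5.P V5.D (-1) 1) ⟨4, 7, 4, 6, 3, 7, 4, 15, 5, 1⟩ :=
  leafX_sound T5.ok_mp T5.Ymp.bz_eq (w := 239) (c := ⟨⟨.negSucc 1136, .negSucc 38, .negSucc 42, .ofNat 107, .ofNat 106, .negSucc 21⟩, ⟨.negSucc 433, .ofNat 14, .negSucc 66, .negSucc 22, .ofNat 38, .ofNat 21⟩, ⟨.ofNat 329, .ofNat 1, .negSucc 12, .negSucc 171, .negSucc 130, .ofNat 32⟩, ⟨.negSucc 2194, .ofNat 45, .negSucc 20, .ofNat 400, .ofNat 211, .negSucc 191⟩, ⟨.negSucc 1523, .negSucc 164, .negSucc 12, .negSucc 610, .ofNat 90, .ofNat 442⟩, .ofNat 872, .negSucc 993, .ofNat 0, .negSucc 993, .ofNat 3391, .ofNat 0, .ofNat 134, .ofNat 128, .negSucc 268, .ofNat 0, .ofNat 85, .negSucc 35, .ofNat 0, .ofNat 0, .ofNat 363, .ofNat 1664, .ofNat 0, .ofNat 0, .ofNat 0, .ofNat 0, .ofNat 0, .ofNat 0, .ofNat 0, .ofNat 0, .ofNat 0, .ofNat 0, .ofNat 0,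 .ofNat 0, .ofNat 0, .ofNat 0, .ofNat 0, .ofNat 0⟩)
    (by decide +kernel)
theorem L00651 : Good (Phi V5.P V5.D (-1) 1) ⟨4, 7, 4, 7, 3, 7, 4, 14, 5, 0⟩ :=
  leafX_sound T5.ok_mp T5.Ymp.bz_eq (w := 239) (c := ⟨⟨.negSucc 402, .negSucc 8, .ofNat 22, .negSucc 230, .negSucc 204, .negSucc 421⟩, ⟨.negSucc 269, .negSucc 1, .negSucc 31, .negSucc 101, .negSucc 64, .negSucc 123⟩, ⟨.negSucc 144, .negSucc 36, .negSucc 72, .ofNat 80, .ofNat 97, .ofNat 265⟩, ⟨.negSucc 298, .ofNat 62, .ofNat 197, .negSucc 427, .negSucc 478, .negSucc 1050⟩, ⟨.negSucc 1994, .negSucc 186, .negSucc 141, .negSucc 292, .ofNat 50, .ofNat 291⟩, .ofNat 870, .negSucc 944, .ofNat 0, .negSucc 944, .ofNat 2885, .ofNat 0, .ofNat 141, .ofNat 128, .negSucc 474, .ofNat 0, .ofNat 85, .negSucc 77, .ofNat 0, .ofNat 0, .ofNat 619, .ofNat 1415, .ofNat 0, .ofNat 0, .ofNat 0, .ofNat 0, .ofNat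 0, .ofNat 0, .ofNat 0, .ofNat 0, .ofNat 0, .ofNat 0, .ofNat 0, .ofNat 0, .ofNat 0, .ofNat 0, .ofNat 594761596750056546043066400903409520758226944, .ofNat 0⟩)
    (by decide +kernel)
theorem L00652 : Good (Phi V5.P V5.D (-1) 1) ⟨4, 7, 4, 7, 3, 7, 4, 15, 5, 0⟩ :=
  leafX_sound T5.ok_mp T5.Ymp.bz_eq (w := 239) (c := ⟨⟨.negSucc 654, .negSucc 76, .negSucc 11, .negSucc 208, .negSucc 65, .negSucc 318⟩, ⟨.negSucc 350, .negSucc 7, .negSucc 50, .negSucc 105, .negSucc 26, .negSucc 83⟩, ⟨.negSucc 20, .ofNat 25, .negSucc 42, .ofNat 31, .negSucc 39, .ofNat 222⟩, ⟨.negSucc 882, .negSucc 148, .ofNat 122, .negSucc 306, .negSucc 124, .negSucc 860⟩, ⟨.negSucc 1969, .ofNat 11, .negSucc 137, .negSucc 481, .negSucc 75, .ofNat 401⟩, .ofNat 897, .negSucc 990, .ofNat 0, .negSucc 990, .ofNat 2951, .ofNat 0, .ofNat 128, .ofNat 213, .negSucc 542, .ofNat 0, .ofNat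 143, .negSucc 88, .ofNat 0, .ofNat 0, .ofNat 716, .ofNat 1145, .ofNat 0, .ofNat 0, .ofNat 0, .ofNat 0, .ofNat 0, .ofNat 0, .ofNat 0, .ofNat 0, .ofNat 0, .ofNat 0, .ofNat 0, .ofNat 0, .ofNat 0, .ofNat 0, .ofNat 725790719596884678561697607690481352424030208, .ofNat 0⟩)
    (by decide +kernel)
theorem L00653 : Good (Phi V5.P V5.D (-1) 1) ⟨4, 7, 4, 7, 3, 7, 4, 14, 5, 1⟩ :=
  leafX_sound T5.ok_mp T5.Ymp.bz_eq (w := 239) (c := ⟨⟨.negSucc 972, .negSucc 152, .negSucc 61, .ofNat 26, .negSucc 4, .negSucc 233⟩, ⟨.negSucc 451, .negSucc 10, .negSucc 68, .negSucc 28, .ofNat 4, .negSucc 53⟩, ⟨.ofNat 190, .ofNat 115, .ofNat 22, .negSucc 111, .negSucc 31, .ofNat 179⟩, ⟨.negSucc 1688, .negSucc 298, .negSucc 42, .ofNat 247, .negSucc 48, .negSucc 668⟩, ⟨.negSucc 1776, .ofNat 97, .negSucc 26, .negSucc 547, .ofNat 103, .ofNat 399⟩, .ofNat 801, .negSucc 798,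 .ofNat 0, .negSucc 798, .ofNat 2497, .ofNat 0, .ofNat 128, .ofNat 202, .negSucc 417, .ofNat 0, .ofNat 137, .negSucc 67, .ofNat 0, .ofNat 0, .ofNat 550, .ofNat 1710, .ofNat 0, .ofNat 0, .ofNat 0, .ofNat 0, .ofNat 0, .ofNat 0, .ofNat 100168383067052365604525852376129371688140800, .ofNat 0, .ofNat 0, .ofNat 0, .ofNat 0, .ofNat 0, .ofNat 0, .ofNat 0, .ofNat 457733904292782012583185213408062350926282752, .ofNat 0⟩)
    (by decide +kernel)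
theorem L00654 : Good (Phi V5.P V5.D (-1) 1) ⟨4, 7, 4, 7, 3, 7, 4, 15, 5, 1⟩ :=
  leafX_sound T5.ok_mp T5.Ymp.bz_eq (w := 239) (c := ⟨⟨.negSucc 1176, .negSucc 89, .ofNat 11, .ofNat 120, .ofNat 90, .negSucc 46⟩, ⟨.negSucc 495, .ofNat 3, .negSucc 55, .negSucc 21, .ofNat 32, .ofNat 14⟩, ⟨.ofNat 331, .ofNat 50, .negSucc 52, .negSucc 206, .negSucc 131, .ofNat 59⟩, ⟨.negSucc 2243, .negSucc 131, .ofNat 134, .ofNat 555, .ofNat 182, .negSucc 228⟩, ⟨.negSucc 1469, .ofNat 18, .negSucc 114, .negSucc 858, .ofNat 61, .ofNat 369⟩, .ofNat 927, .negSucc 1065, .ofNat 0, .negSucc 1065, .ofNat 3185, .ofNat 0, .ofNat 128, .ofNat 178, .negSucc 380, .ofNat 0, .ofNat 119, .negSucc 63, .ofNat 0, .ofNat 0, .ofNat 500, .ofNat 1204, .ofNat 0, .ofNat 0, .ofNat 0, .ofNat 0, .ofNat 0, .ofNat 0, .ofNat 0, .ofNat 0, .ofNat 0, .ofNat 0, .ofNat 0, .ofNat 0, .ofNat 0, .ofNat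 355267800750216473145592633007083993544286797824, .ofNat 253203500140566653252216240079058422795862016, .ofNat 0⟩)
    (by decide +kernel)
theorem L00655 : Good (Phi V5.P V5.D (-1) 1) ⟨3, 2, 2, 1, 1, 1, 3, 6, 4, 1⟩ :=
  leafX_sound T5.ok_mp T5.Ymp.bz_eq (w := 191) (c := ⟨⟨.negSucc 949, .negSucc 143, .negSucc 134, .ofNat 64, .ofNat 94, .negSucc 286⟩, ⟨.negSucc 328, .ofNat 21, .negSucc 288, .negSucc 33, .ofNat 54, .negSucc 78⟩, ⟨.ofNat 479, .ofNat 45, .ofNat 21, .negSucc 310, .negSucc 22, .ofNat 213⟩, ⟨.negSucc 2457, .negSucc 88, .negSucc 138, .ofNat 462, .ofNat 152, .negSucc 859⟩, ⟨.negSucc 732, .negSucc 47, .negSucc 84, .negSucc 813, .ofNat 199, .ofNat 369⟩, .ofNat 911, .negSucc 835, .ofNat 0, .negSucc 835, .ofNat 2444, .ofNat 0, .ofNat 128, .ofNat 181, .negSucc 113, .ofNat 0, .ofNat 138, .negSucc 24, .ofNat 0, .ofNat 0, .ofNat 257, .ofNat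 650, .ofNat 0, .ofNat 0, .ofNat 0, .ofNat 0, .ofNat 0, .ofNat 0, .ofNat 0, .ofNat 0, .ofNat 0, .ofNat 0, .ofNat 0, .ofNat 0, .ofNat 0, .ofNat 0, .ofNat 0, .ofNat 0⟩)
    (by decide +kernel)

end Crest.Agent.R097C5.N5mp
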