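import Crest.Agent.R097.KP7
import Crest.Agent.R097.T5Ymp

/-!
# Row 97, box cover in dimension n = 5 (generated)
-/

set_option autoImplicit false
set_option Elab.async false
set_option maxHeartbeats 0
set_option maxRecDepth 100000

open Crest.Agent.R097 Crest.Agent.R097.KA


namespace Crest.Agent.R097C5.N5mp

theorem L00656 : Good (Phi V5.P V5.D (-1) 1) ⟨3, 2, 2, 1, 2, 2, 3, 7, 4, 1⟩ :=
  leafX_sound T5.ok_mp T5.Ymp.bz_eq (w := 205) (c := ⟨⟨.negSucc 778, .negSucc 204, .negSucc 107, .negSucc 117, .ofNat 275, .negSucc 287⟩, ⟨.negSucc 267, .negSucc 10, .negSucc 256, .negSucc 49, .ofNat 140, .negSucc 77⟩, ⟨.ofNat 400, .ofNat 94, .negSucc 1, .negSucc 54, .negSucc 231, .ofNat 182⟩, ⟨.negSucc 1948, .negSucc 331, .negSucc 143, .negSucc 281, .ofNat 613, .negSucc 913⟩, ⟨.negSucc 752, .ofNat 98, .negSucc 114, .negSucc 27, .ofNat 336, .ofNat 424⟩, .ofNat 649,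 .negSucc 400, .ofNat 0, .negSucc 400, .ofNat 1397, .ofNat 0, .ofNat 142, .ofNat 128, .negSucc 177, .ofNat 0, .ofNat 123, .negSucc 30, .ofNat 0, .ofNat 0, .ofNat 370, .ofNat 844, .ofNat 0, .ofNat 0, .ofNat 0, .ofNat 0, .ofNat 0, .ofNat 0, .ofNat 0, .ofNat 0, .ofNat 0, .ofNat 7922905506081274049186722757923531915264, .ofNat 0, .ofNat 0, .ofNat 0, .ofNat 7084022148777891934347951092527542566912, .ofNat 0, .ofNat 0⟩)
    (by decide +kernel)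
theorem L00657 : Good (Phi V5.P V5.D (-1) 1) ⟨3, 2, 2, 1, 2, 3, 3, 7, 4, 1⟩ :=
  leafX_sound T5.ok_mp T5.Ymp.bz_eq (w := 205) (c := ⟨⟨.negSucc 1053, .negSucc 110, .negSucc 19, .ofNat 158, .ofNat 144, .negSucc 133⟩, ⟨.negSucc 380, .ofNat 0, .negSucc 238, .ofNat 34, .ofNat 99, .ofNat 21⟩, ⟨.ofNat 430, .negSucc 23, .negSucc 110, .negSucc 151, .negSucc 37, .ofNat 184⟩, ⟨.negSucc 2590, .negSucc 21, .ofNat 206, .ofNat 597, .ofNat 114, .negSucc 710⟩, ⟨.negSucc 971, .negSucc 124, .negSucc 233, .negSucc 566, .ofNat 686, .ofNat 984⟩, .ofNat 890, .negSucc 787, .ofNat 0, .negSucc 787, .ofNat 2368, .ofNat 0, .ofNat 128, .ofNat 136, .negSucc 123, .ofNat 0, .ofNat 107, .negSucc 15, .ofNat 0, .ofNat 0, .ofNat 272, .ofNat 442, .ofNat 0, .ofNat 0, .ofNat 0, .ofNat 0, .ofNat 0, .ofNat 0, .ofNat 0, .ofNat 0, .ofNat 0, .ofNat 4339644017512916222975029253830099337216, .ofNat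 0, .ofNat 0, .ofNat 0, .ofNat 2996937423277211271327395513445264654336, .ofNat 0, .ofNat 0⟩)
    (by decide +kernel)
theorem L00658 : Good (Phi V5.P V5.D (-1) 1) ⟨3, 3, 2, 1, 2, 2, 3, 6, 4, 1⟩ :=
  leafX_sound T5.ok_mp T5.Ymp.bz_eq (w := 205) (c := ⟨⟨.negSucc 1024, .negSucc 360, .negSucc 195, .negSucc 76, .ofNat 88, .negSucc 324⟩, ⟨.negSucc 281, .ofNat 10, .negSucc 332, .negSucc 49, .ofNat 44, .negSucc 71⟩, ⟨.ofNat 540, .ofNat 271, .ofNat 129, .negSucc 166, .negSucc 93, .ofNat 224⟩, ⟨.negSucc 2414, .negSucc 507, .negSucc 327, .negSucc 56, .ofNat 146, .negSucc 879⟩, ⟨.negSucc 782, .ofNat 38, .ofNat 17, .negSucc 424, .ofNat 189, .ofNat 387⟩, .ofNat 572, .negSucc 350, .ofNat 0, .negSucc 350, .ofNat 1442, .ofNat 0, .ofNat 184, .ofNat 128, .negSucc 160, .ofNat 0, .ofNat 116, .negSucc 25, .ofNat 0, .ofNat 0, .ofNat 308, .ofNat 969, .ofNat 0, .ofNat 0, .ofNat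 0, .ofNat 0, .ofNat 0, .ofNat 0, .ofNat 0, .ofNat 0, .ofNat 0, .ofNat 0, .ofNat 0, .ofNat 0, .ofNat 0, .ofNat 0, .ofNat 0, .ofNat 0⟩)
    (by decide +kernel)
theorem L00659 : Good (Phi V5.P V5.D (-1) 1) ⟨3, 3, 2, 1, 2, 2, 3, 7, 4, 1⟩ :=
  leafX_sound T5.ok_mp T5.Ymp.bz_eq (w := 205) (c := ⟨⟨.negSucc 976, .negSucc 299, .negSucc 163, .negSucc 225, .ofNat 424, .negSucc 168⟩, ⟨.negSucc 287, .ofNat 30, .negSucc 286, .negSucc 67, .ofNat 151, .negSucc 13⟩, ⟨.ofNat 490, .ofNat 187, .ofNat 66, .ofNat 12, .negSucc 410, .ofNat 83⟩, ⟨.negSucc 2301, .negSucc 364, .negSucc 321, .negSucc 481, .ofNat 883, .negSucc 487⟩, ⟨.negSucc 750, .ofNat 63, .ofNat 68, .negSucc 95, .ofNat 283, .ofNat 399⟩, .ofNat 741, .negSucc 665, .ofNat 0, .negSucc 665, .ofNat 2481, .ofNat 0, .ofNat 159, .ofNat 128, .negSucc 176, .ofNat 0, .ofNat 96, .negSucc 33, .ofNat 0, .ofNat 0, .ofNat 325,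 .ofNat 574, .ofNat 0, .ofNat 0, .ofNat 0, .ofNat 0, .ofNat 0, .ofNat 0, .ofNat 0, .ofNat 0, .ofNat 0, .ofNat 4147238347891720676992728361609965076480, .ofNat 0, .ofNat 0, .ofNat 0, .ofNat 49957573008169199639163618562995650560, .ofNat 3279537939908007368093517458360500224, .ofNat 0⟩)
    (by decide +kernel)
theorem L00660 : Good (Phi V5.P V5.D (-1) 1) ⟨3, 3, 3, 2, 2, 3, 3, 6, 5, 2⟩ :=
  leafX_sound T5.ok_mp T5.Ymp.bz_eq (w := 213) (c := ⟨⟨.negSucc 985, .negSucc 312, .negSucc 104, .ofNat 92, .ofNat 12, .negSucc 250⟩, ⟨.negSucc 327, .ofNat 22, .negSucc 148, .negSucc 22, .ofNat 23, .negSucc 37⟩, ⟨.ofNat 316, .ofNat 222, .ofNat 30, .negSucc 167, .negSucc 3, .ofNat 168⟩, ⟨.negSucc 2175, .negSucc 465, .negSucc 106, .ofNat 354, .negSucc 50, .negSucc 657⟩, ⟨.negSucc 1347, .ofNat 11, .negSucc 28, .negSucc 620, .ofNat 306, .ofNat 307⟩, .ofNat 681, .negSucc 540,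 .ofNat 0, .negSucc 540, .ofNat 2454, .ofNat 0, .ofNat 158, .ofNat 128, .negSucc 205, .ofNat 0, .ofNat 94, .negSucc 22, .ofNat 0, .ofNat 0, .ofNat 326, .ofNat 971, .ofNat 0, .ofNat 0, .ofNat 0, .ofNat 0, .ofNat 0, .ofNat 0, .ofNat 0, .ofNat 0, .ofNat 0, .ofNat 0, .ofNat 0, .ofNat 0, .ofNat 0, .ofNat 0, .ofNat 0, .ofNat 0⟩)
    (by decide +kernel)
theorem L00661 : Good (Phi V5.P V5.D (-1) 1) ⟨3, 3, 3, 2, 2, 3, 3, 6, 5, 3⟩ :=
  leafX_sound T5.ok_mp T5.Ymp.bz_eq (w := 214) (c := ⟨⟨.negSucc 1489, .negSucc 212, .negSucc 33, .ofNat 341, .ofNat 154, .negSucc 47⟩, ⟨.negSucc 427, .ofNat 59, .negSucc 155, .ofNat 27, .ofNat 70, .ofNat 10⟩, ⟨.ofNat 658, .ofNat 131, .negSucc 10, .negSucc 320, .negSucc 91, .ofNat 39⟩, ⟨.negSucc 3422, .negSucc 164, .ofNat 34, .ofNat 916, .ofNat 228, .negSucc 182⟩, ⟨.negSucc 1056, .negSucc 17, .negSucc 95, .negSucc 654, .ofNat 470,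 .ofNat 279⟩, .ofNat 754, .negSucc 723, .ofNat 0, .negSucc 723, .ofNat 3077, .ofNat 0, .ofNat 176, .ofNat 128, .negSucc 138, .ofNat 0, .ofNat 92, .negSucc 15, .ofNat 0, .ofNat 0, .ofNat 251, .ofNat 923, .ofNat 0, .ofNat 0, .ofNat 0, .ofNat 0, .ofNat 0, .ofNat 0, .ofNat 0, .ofNat 0, .ofNat 0, .ofNat 0, .ofNat 0, .ofNat 0, .ofNat 0, .ofNat 0, .ofNat 0, .ofNat 0⟩)
    (by decide +kernel)
theorem L00662 : Good (Phi V5.P V5.D (-1) 1) ⟨3, 3, 3, 2, 2, 3, 3, 7, 4, 1⟩ :=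
  leafX_sound T5.ok_mp T5.Ymp.bz_eq (w := 208) (c := ⟨⟨.negSucc 1257, .negSucc 177, .ofNat 8, .ofNat 284, .ofNat 237, .negSucc 88⟩, ⟨.negSucc 373, .ofNat 49, .negSucc 119, .ofNat 21, .ofNat 107, .ofNat 44⟩, ⟨.ofNat 536, .ofNat 67, .negSucc 72, .negSucc 247, .negSucc 175, .ofNat 74⟩, ⟨.negSucc 2808, .negSucc 108, .ofNat 103, .ofNat 754, .ofNat 320, .negSucc 458⟩, ⟨.negSucc 1156, .negSucc 86, .negSucc 54, .negSucc 521, .ofNat 821, .ofNat 946⟩, .ofNat 634, .negSucc 439, .ofNat 0, .negSucc 439, .ofNat 1962, .ofNat 0, .ofNat 191, .ofNat 128, .negSucc 181, .ofNat 0, .ofNat 102, .negSucc 13, .ofNat 0, .ofNat 0, .ofNat 299, .ofNat 561, .ofNat 0, .ofNat 0, .ofNat 0, .ofNat 0, .ofNat 0, .ofNat 45411299143447940027164215733451067752448, .ofNat 0, .ofNat 0, .ofNat 0, .ofNat 52389817351635941296804709288392058208256, .ofNat 0, .ofNat 0, .ofNat 0, .ofNat 0, .ofNat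 0, .ofNat 0⟩)
    (by decide +kernel)
theorem L00663 : Good (Phi V5.P V5.D (-1) 1) ⟨3, 3, 3, 3, 2, 3, 4, 12, 5, 2⟩ :=
  leafX_sound T5.ok_mp T5.Ymp.bz_eq (w := 218) (c := ⟨⟨.negSucc 1078, .negSucc 334, .negSucc 105, .ofNat 161, .negSucc 29, .negSucc 277⟩, ⟨.negSucc 452, .negSucc 2, .negSucc 155, .ofNat 2, .negSucc 0, .negSucc 71⟩, ⟨.ofNat 338, .ofNat 263, .ofNat 52, .negSucc 246, .ofNat 22, .ofNat 197⟩, ⟨.negSucc 2279, .negSucc 557, .negSucc 116, .ofNat 600, .negSucc 85, .negSucc 715⟩, ⟨.negSucc 1322, .ofNat 96, .ofNat 29, .negSucc 723, .ofNat 90, .ofNat 234⟩, .ofNat 819, .negSucc 812, .ofNat 0, .negSucc 812, .ofNat 2560, .ofNat 0, .ofNat 146, .ofNat 128, .negSucc 196, .ofNat 0, .ofNat 87, .negSucc 38, .ofNat 0, .ofNat 0, .ofNat 316, .ofNat 1068, .ofNat 0, .ofNat 0, .ofNat 0, .ofNat 0, .ofNat 0, .ofNat 0, .ofNat 0, .ofNat 0, .ofNat 0, .ofNat 0, .ofNat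 0, .ofNat 0, .ofNat 0, .ofNat 0, .ofNat 15153267833178333154058109240982051487744, .ofNat 0⟩)
    (by decide +kernel)
theorem L00664 : Good (Phi V5.P V5.D (-1) 1) ⟨3, 3, 3, 3, 2, 3, 4, 13, 5, 2⟩ :=
  leafX_sound T5.ok_mp T5.Ymp.bz_eq (w := 218) (c := ⟨⟨.negSucc 1156, .negSucc 317, .negSucc 102, .ofNat 240, .negSucc 6, .negSucc 195⟩, ⟨.negSucc 471, .ofNat 8, .negSucc 157, .ofNat 23, .ofNat 12, .negSucc 44⟩, ⟨.ofNat 408, .ofNat 233, .ofNat 41, .negSucc 303, .ofNat 3, .ofNat 149⟩, ⟨.negSucc 2421, .negSucc 543, .negSucc 122, .ofNat 788, .negSucc 84, .negSucc 574⟩, ⟨.negSucc 1357, .ofNat 195, .ofNat 4, .negSucc 769, .ofNat 223, .ofNat 348⟩, .ofNat 838, .negSucc 843, .ofNat 0, .negSucc 843, .ofNat 2584, .ofNat 0, .ofNat 229, .ofNat 128, .negSucc 237, .ofNat 0, .ofNat 88, .negSucc 45, .ofNat 0, .ofNat 0, .ofNat 383, .ofNat 811, .ofNat 0, .ofNat 0, .ofNat 0,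 .ofNat 0, .ofNat 0, .ofNat 0, .ofNat 0, .ofNat 0, .ofNat 0, .ofNat 0, .ofNat 0, .ofNat 0, .ofNat 0, .ofNat 0, .ofNat 27445306753606978665404409426467794976768, .ofNat 0⟩)
    (by decide +kernel)
theorem L00665 : Good (Phi V5.P V5.D (-1) 1) ⟨3, 3, 3, 3, 2, 3, 3, 6, 5, 3⟩ :=
  leafX_sound T5.ok_mp T5.Ymp.bz_eq (w := 213) (c := ⟨⟨.negSucc 1608, .negSucc 295, .negSucc 35, .ofNat 426, .ofNat 219, .ofNat 4⟩, ⟨.negSucc 620, .ofNat 30, .negSucc 147, .ofNat 93, .ofNat 104, .ofNat 20⟩, ⟨.ofNat 684, .ofNat 223, .ofNat 16, .negSucc 372, .negSucc 143, .ofNat 23⟩, ⟨.negSucc 3641, .negSucc 390, .ofNat 35, .ofNat 1294, .ofNat 393, .negSucc 87⟩, ⟨.negSucc 1008, .ofNat 96, .negSucc 58, .negSucc 886, .ofNat 365, .ofNat 279⟩, .ofNat 713, .negSucc 605, .ofNat 0, .negSucc 605, .ofNat 2006, .ofNat 0, .ofNat 148, .ofNat 128, .negSucc 168, .ofNat 0, .ofNat 96, .negSucc 25,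 .ofNat 0, .ofNat 0, .ofNat 302, .ofNat 728, .ofNat 0, .ofNat 0, .ofNat 0, .ofNat 0, .ofNat 0, .ofNat 0, .ofNat 0, .ofNat 0, .ofNat 0, .ofNat 0, .ofNat 0, .ofNat 0, .ofNat 0, .ofNat 0, .ofNat 825817630237866353765235545197298843648, .ofNat 0⟩)
    (by decide +kernel)
theorem L00666 : Good (Phi V5.P V5.D (-1) 1) ⟨4, 6, 3, 3, 2, 3, 3, 7, 4, 1⟩ :=
  leafX_sound T5.ok_mp T5.Ymp.bz_eq (w := 213) (c := ⟨⟨.negSucc 1360, .negSucc 113, .negSucc 1, .ofNat 333, .ofNat 337, .negSucc 10⟩, ⟨.negSucc 544, .negSucc 3, .negSucc 111, .ofNat 73, .ofNat 170, .ofNat 65⟩, ⟨.ofNat 512, .ofNat 36, .negSucc 48, .negSucc 277, .negSucc 220, .ofNat 108⟩, ⟨.negSucc 3013, .negSucc 122, .ofNat 111, .ofNat 1106, .ofNat 597, .negSucc 374⟩, ⟨.negSucc 1032, .negSucc 82, .negSucc 92, .negSucc 883, .ofNat 588, .ofNat 979⟩, .ofNat 893, .negSucc 916, .ofNat 0, .negSucc 916, .ofNat 2688, .ofNat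 0, .ofNat 128, .ofNat 197, .negSucc 174, .ofNat 0, .ofNat 138, .negSucc 30, .ofNat 0, .ofNat 0, .ofNat 321, .ofNat 703, .ofNat 0, .ofNat 0, .ofNat 0, .ofNat 0, .ofNat 0, .ofNat 0, .ofNat 0, .ofNat 0, .ofNat 0, .ofNat 1158074433054901964940666096031271588200448, .ofNat 0, .ofNat 0, .ofNat 0, .ofNat 0, .ofNat 0, .ofNat 0⟩)
    (by decide +kernel)
theorem L00667 : Good (Phi V5.P V5.D (-1) 1) ⟨4, 7, 3, 3, 2, 3, 3, 7, 5, 2⟩ :=
  leafX_sound T5.ok_mp T5.Ymp.bz_eq (w := 218) (c := ⟨⟨.negSucc 1428, .negSucc 191, .negSucc 81, .ofNat 406, .ofNat 241, .ofNat 1⟩, ⟨.negSucc 504, .negSucc 1, .negSucc 143, .ofNat 52, .ofNat 121, .ofNat 35⟩, ⟨.ofNat 593, .ofNat 127, .ofNat 4, .negSucc 389, .negSucc 203, .ofNat 23⟩, ⟨.negSucc 3035, .negSucc 340, .negSucc 65, .ofNat 1277, .ofNat 357, .negSucc 163⟩, ⟨.negSucc 1043, .ofNat 114, .negSucc 49, .negSucc 1144, .ofNat 599, .ofNat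 513⟩, .ofNat 874, .negSucc 972, .ofNat 0, .negSucc 972, .ofNat 3121, .ofNat 0, .ofNat 128, .ofNat 130, .negSucc 289, .ofNat 0, .ofNat 88, .negSucc 49, .ofNat 0, .ofNat 0, .ofNat 430, .ofNat 609, .ofNat 0, .ofNat 0, .ofNat 0, .ofNat 0, .ofNat 0, .ofNat 1455631964760996935769241109996904267120640, .ofNat 0, .ofNat 0, .ofNat 0, .ofNat 2879891682221861330448270023480108568805376, .ofNat 68998158200335223766171867659458576384, .ofNat 0, .ofNat 0, .ofNat 4242855205575536679581300695979874102280192, .ofNat 420120262949622745527557535420548907008, .ofNat 0⟩)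
    (by decide +kernel)
theorem L00668 : Good (Phi V5.P V5.D (-1) 1) ⟨4, 7, 3, 3, 2, 3, 3, 7, 5, 3⟩ :=
  leafX_sound T5.ok_mp T5.Ymp.bz_eq (w := 218) (c := ⟨⟨.negSucc 1712, .negSucc 98, .negSucc 18, .ofNat 682, .ofNat 502, .ofNat 114⟩, ⟨.negSucc 562, .ofNat 28, .negSucc 127, .ofNat 150, .ofNat 195, .ofNat 75⟩, ⟨.ofNat 774, .ofNat 64, .negSucc 15, .negSucc 499, .negSucc 407, .negSucc 44⟩, ⟨.negSucc 3837, .negSucc 123, .ofNat 56, .ofNat 1931, .ofNat 935, .ofNat 124⟩, ⟨.negSucc 525, .ofNat 121, .negSucc 92, .negSucc 1163, .ofNat 565, .ofNat 450⟩, .ofNat 769, .negSucc 739, .ofNat 0, .negSucc 739, .ofNat 2476, .ofNat 0, .ofNat 190, .ofNat 128, .negSucc 211, .ofNat 0, .ofNat 92, .negSucc 28, .ofNat 0, .ofNat 0, .ofNat 362, .ofNat 568, .ofNat 0, .ofNat 0, .ofNat 0, .ofNat 0, .ofNat 0, .ofNat 0, .ofNat 0, .ofNat 0, .ofNat 0, .ofNat 5860846409916439899760934197749541962252288,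 .ofNat 0, .ofNat 0, .ofNat 0, .ofNat 4810116363975354436099615852024054471983104, .ofNat 174448445550835978457495130830079524864, .ofNat 0⟩)
    (by decide +kernel)
theorem L00669 : Good (Phi V5.P V5.D (-1) 1) ⟨2, 1, 2, 1, 2, 2, 3, 4, 4, 2⟩ :=
  leafX_sound T5.ok_mp T5.Ymp.bz_eq (w := 202) (c := ⟨⟨.negSucc 1318, .negSucc 590, .negSucc 149, .negSucc 89, .ofNat 113, .negSucc 18⟩, ⟨.negSucc 435, .ofNat 53, .negSucc 387, .negSucc 57, .ofNat 50, .ofNat 2⟩, ⟨.ofNat 724, .ofNat 513, .ofNat 177, .negSucc 188, .negSucc 127, .ofNat 97⟩, ⟨.negSucc 3500, .negSucc 613, .negSucc 213, .negSucc 91, .ofNat 210, .negSucc 134⟩, ⟨.negSucc 744, .ofNat 18, .negSucc 4, .negSucc 327, .ofNat 119, .ofNat 186⟩, .ofNat 617, .negSucc 386, .ofNat 0, .negSucc 386, .ofNat 1422, .ofNat 0, .ofNat 206, .ofNat 128, .negSucc 77, .ofNat 0, .ofNat 126, .negSucc 12, .ofNat 0, .ofNat 0, .ofNat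 264, .ofNat 1408, .ofNat 0, .ofNat 0, .ofNat 0, .ofNat 0, .ofNat 0, .ofNat 0, .ofNat 0, .ofNat 0, .ofNat 0, .ofNat 0, .ofNat 0, .ofNat 0, .ofNat 0, .ofNat 0, .ofNat 0, .ofNat 0⟩)
    (by decide +kernel)
theorem L00670 : Good (Phi V5.P V5.D (-1) 1) ⟨2, 1, 2, 1, 2, 2, 3, 5, 4, 2⟩ :=
  leafX_sound T5.ok_mp T5.Ymp.bz_eq (w := 202) (c := ⟨⟨.negSucc 1313, .negSucc 504, .negSucc 95, .negSucc 88, .ofNat 117, .ofNat 3⟩, ⟨.negSucc 418, .ofNat 62, .negSucc 351, .negSucc 54, .ofNat 41, .ofNat 14⟩, ⟨.ofNat 787, .ofNat 359, .ofNat 71, .negSucc 178, .negSucc 116, .ofNat 42⟩, ⟨.negSucc 3450, .negSucc 469, .negSucc 130, .negSucc 126, .ofNat 220, .negSucc 76⟩, ⟨.negSucc 713, .ofNat 75, .ofNat 10, .negSucc 274, .ofNat 183, .ofNat 207⟩, .ofNat 619, .negSucc 387, .ofNat 0, .negSucc 387, .ofNat 1421, .ofNat 0, .ofNat 222, .ofNat 128, .negSucc 117, .ofNat 0, .ofNat 127, .negSucc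 19, .ofNat 0, .ofNat 0, .ofNat 382, .ofNat 2031, .ofNat 0, .ofNat 0, .ofNat 0, .ofNat 0, .ofNat 0, .ofNat 0, .ofNat 0, .ofNat 0, .ofNat 0, .ofNat 0, .ofNat 36159764991129469609787112941143719936, .ofNat 0, .ofNat 0, .ofNat 0, .ofNat 0, .ofNat 0⟩)
    (by decide +kernel)
theorem L00671 : Good (Phi V5.P V5.D (-1) 1) ⟨3, 2, 2, 1, 2, 2, 2, 2, 4, 3⟩ :=
  leafX_sound T5.ok_mp T5.Ymp.bz_eq (w := 202) (c := ⟨⟨.negSucc 1504, .negSucc 151, .negSucc 55, .ofNat 3, .ofNat 191, .ofNat 103⟩, ⟨.negSucc 484, .ofNat 33, .negSucc 330, .negSucc 16, .ofNat 92, .ofNat 47⟩, ⟨.ofNat 1009, .ofNat 97, .ofNat 37, .negSucc 243, .negSucc 226, .ofNat 0⟩, ⟨.negSucc 3944, .negSucc 63, .negSucc 30, .ofNat 73, .ofNat 380, .ofNat 219⟩, ⟨.negSucc 647, .ofNat 54, .negSucc 20, .negSucc 191, .ofNat 339, .ofNat 129⟩, .ofNat 640, .negSucc 384, .ofNat 0, .negSucc 384, .ofNat 1390, .ofNat 0,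 .ofNat 170, .ofNat 115, .negSucc 63, .ofNat 0, .ofNat 128, .negSucc 8, .ofNat 0, .ofNat 0, .ofNat 371, .ofNat 1831, .ofNat 0, .ofNat 0, .ofNat 0, .ofNat 0, .ofNat 0, .ofNat 0, .ofNat 0, .ofNat 0, .ofNat 0, .ofNat 0, .ofNat 0, .ofNat 0, .ofNat 0, .ofNat 0, .ofNat 0, .ofNat 0⟩)
    (by decide +kernel)
theorem L00672 : Good (Phi V5.P V5.D (-1) 1) ⟨3, 3, 2, 1, 2, 2, 2, 2, 4, 3⟩ :=
  leafX_sound T5.ok_mp T5.Ymp.bz_eq (w := 202) (c := ⟨⟨.negSucc 1759, .negSucc 261, .negSucc 56, .ofNat 35, .ofNat 282, .ofNat 195⟩, ⟨.negSucc 477, .ofNat 72, .negSucc 342, .ofNat 1, .ofNat 114, .ofNat 65⟩, ⟨.ofNat 1248, .ofNat 215, .ofNat 84, .negSucc 307, .negSucc 403, .negSucc 92⟩, ⟨.negSucc 4207, .negSucc 180, .negSucc 47, .ofNat 144, .ofNat 557, .ofNat 408⟩, ⟨.negSucc 608, .ofNat 31, .ofNat 33, .negSucc 235, .ofNat 306, .ofNat 136⟩, .ofNat 569, .negSucc 343, .ofNat 0, .negSucc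 343, .ofNat 1439, .ofNat 0, .ofNat 128, .ofNat 142, .negSucc 88, .ofNat 0, .ofNat 151, .negSucc 10, .ofNat 0, .ofNat 0, .ofNat 423, .ofNat 1007, .ofNat 0, .ofNat 0, .ofNat 0, .ofNat 0, .ofNat 0, .ofNat 0, .ofNat 0, .ofNat 0, .ofNat 0, .ofNat 0, .ofNat 0, .ofNat 0, .ofNat 0, .ofNat 0, .ofNat 0, .ofNat 0⟩)
    (by decide +kernel)
theorem L00673 : Good (Phi V5.P V5.D (-1) 1) ⟨3, 2, 2, 1, 2, 3, 3, 4, 4, 2⟩ :=
  leafX_sound T5.ok_mp T5.Ymp.bz_eq (w := 206) (c := ⟨⟨.negSucc 1463, .negSucc 198, .negSucc 125, .ofNat 116, .ofNat 107, .negSucc 10⟩, ⟨.negSucc 511, .ofNat 15, .negSucc 352, .ofNat 12, .ofNat 52, .ofNat 13⟩, ⟨.ofNat 621, .ofNat 137, .ofNat 84, .negSucc 240, .negSucc 72, .ofNat 96⟩, ⟨.negSucc 3781, .negSucc 143, .negSucc 46, .ofNat 479, .ofNat 226, .negSucc 63⟩, ⟨.negSucc 953, .negSucc 62, .negSucc 130, .negSucc 488, .ofNat 130, .ofNat 115⟩, .ofNat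 949, .negSucc 903, .ofNat 0, .negSucc 903, .ofNat 2507, .ofNat 0, .ofNat 207, .ofNat 128, .negSucc 78, .ofNat 0, .ofNat 103, .negSucc 16, .ofNat 0, .ofNat 0, .ofNat 278, .ofNat 1223, .ofNat 0, .ofNat 0, .ofNat 0, .ofNat 0, .ofNat 0, .ofNat 0, .ofNat 0, .ofNat 0, .ofNat 0, .ofNat 0, .ofNat 0, .ofNat 0, .ofNat 0, .ofNat 0, .ofNat 0, .ofNat 0⟩)
    (by decide +kernel)
theorem L00674 : Good (Phi V5.P V5.D (-1) 1) ⟨3, 2, 2, 1, 2, 3, 3, 5, 4, 2⟩ :=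
  leafX_sound T5.ok_mp T5.Ymp.bz_eq (w := 205) (c := ⟨⟨.negSucc 1423, .negSucc 148, .negSucc 113, .ofNat 185, .ofNat 107, .ofNat 23⟩, ⟨.negSucc 495, .ofNat 20, .negSucc 329, .ofNat 36, .ofNat 62, .ofNat 37⟩, ⟨.ofNat 600, .ofNat 68, .ofNat 36, .negSucc 206, .negSucc 31, .ofNat 67⟩, ⟨.negSucc 3619, .negSucc 54, .negSucc 33, .ofNat 624, .ofNat 171, .negSucc 90⟩, ⟨.negSucc 989, .negSucc 101, .negSucc 153, .negSucc 426, .ofNat 302, .ofNat 404⟩, .ofNat 646, .negSucc 400, .ofNat 0, .negSucc 400, .ofNat 1404, .ofNat 0, .ofNat 157, .ofNat 125, .negSucc 85, .ofNat 0, .ofNat 128, .negSucc 6, .ofNat 0, .ofNat 0, .ofNat 271, .ofNat 760, .ofNat 0, .ofNat 0, .ofNat 0, .ofNat 0, .ofNat 0, .ofNat 0, .ofNat 0, .ofNat 0, .ofNat 0, .ofNat 0, .ofNat 0, .ofNat 0, .ofNat 0, .ofNat 0, .ofNat 0, .ofNat 0⟩)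
    (by decide +kernel)
theorem L00675 : Good (Phi V5.P V5.D (-1) 1) ⟨3, 3, 2, 1, 2, 3, 3, 4, 5, 4⟩ :=
  leafX_sound T5.ok_mp T5.Ymp.bz_eq (w := 211) (c := ⟨⟨.negSucc 1696, .negSucc 332, .negSucc 188, .ofNat 232, .ofNat 139, .negSucc 7⟩, ⟨.negSucc 481, .ofNat 47, .negSucc 395, .ofNat 32, .ofNat 52, .negSucc 6⟩, ⟨.ofNat 802, .ofNat 272, .ofNat 156, .negSucc 351, .negSucc 109, .ofNat 58⟩, ⟨.negSucc 3981, .negSucc 397, .negSucc 194, .ofNat 741, .ofNat 314, .negSucc 57⟩, ⟨.negSucc 1055, .ofNat 111, .negSucc 22, .negSucc 669, .ofNat 16, .ofNat 53⟩, .ofNat 758, .negSucc 699, .ofNat 0, .negSucc 699, .ofNat 2497, .ofNat 0, .ofNat 213, .ofNat 128, .negSucc 131, .ofNat 0, .ofNat 97, .negSucc 21, .ofNat 0, .ofNat 0, .ofNat 323, .ofNat 1333, .ofNat 0, .ofNat 0, .ofNat 0, .ofNat 0, .ofNat 0, .ofNat 0, .ofNat 0, .ofNat 0, .ofNat 0, .ofNat 0, .ofNat 0, .ofNat 0, .ofNat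 0, .ofNat 0, .ofNat 595140553140787109834806499440374841344, .ofNat 0⟩)
    (by decide +kernel)
theorem L00676 : Good (Phi V5.P V5.D (-1) 1) ⟨3, 3, 2, 1, 2, 3, 3, 4, 5, 5⟩ :=
  leafX_sound T5.ok_mp T5.Ymp.bz_eq (w := 211) (c := ⟨⟨.negSucc 1874, .negSucc 197, .negSucc 121, .ofNat 400, .ofNat 161, .ofNat 148⟩, ⟨.negSucc 522, .ofNat 77, .negSucc 369, .ofNat 59, .ofNat 57, .ofNat 54⟩, ⟨.ofNat 986, .ofNat 164, .ofNat 97, .negSucc 451, .negSucc 145, .negSucc 73⟩, ⟨.negSucc 4422, .negSucc 1, .negSucc 83, .ofNat 1129, .ofNat 324, .ofNat 316⟩, ⟨.negSucc 869, .negSucc 189, .ofNat 56, .negSucc 846, .ofNat 122, .ofNat 88⟩, .ofNat 735, .negSucc 653, .ofNat 0, .negSucc 653, .ofNat 2468, .ofNat 0, .ofNat 210, .ofNat 128, .negSucc 115, .ofNat 0, .ofNat 107, .negSucc 14, .ofNat 0, .ofNat 0, .ofNat 372, .ofNat 2001, .ofNat 0, .ofNat 0, .ofNat 0, .ofNat 0, .ofNat 0, .ofNat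 0, .ofNat 0, .ofNat 0, .ofNat 0, .ofNat 0, .ofNat 0, .ofNat 0, .ofNat 0, .ofNat 0, .ofNat 0, .ofNat 0⟩)
    (by decide +kernel)
theorem L00677 : Good (Phi V5.P V5.D (-1) 1) ⟨3, 3, 2, 1, 2, 3, 3, 5, 5, 4⟩ :=
  leafX_sound T5.ok_mp T5.Ymp.bz_eq (w := 211) (c := ⟨⟨.negSucc 1734, .negSucc 210, .negSucc 110, .ofNat 413, .ofNat 217, .ofNat 19⟩, ⟨.negSucc 497, .ofNat 67, .negSucc 337, .ofNat 75, .ofNat 81, .ofNat 22⟩, ⟨.ofNat 797, .ofNat 166, .ofNat 47, .negSucc 354, .negSucc 130, .ofNat 18⟩, ⟨.negSucc 4113, .negSucc 119, .negSucc 56, .ofNat 1262, .ofNat 457, .ofNat 19⟩, ⟨.negSucc 771, .negSucc 116, .ofNat 28, .negSucc 1002, .ofNat 143, .ofNat 97⟩, .ofNat 566, .negSucc 333, .ofNat 0, .negSucc 333, .ofNat 1444, .ofNat 0, .ofNat 184, .ofNat 128, .negSucc 170, .ofNat 0, .ofNat 124, .negSucc 12, .ofNat 0, .ofNat 0, .ofNat 369, .ofNat 1268, .ofNat 0, .ofNat 0,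 .ofNat 0, .ofNat 0, .ofNat 0, .ofNat 0, .ofNat 0, .ofNat 0, .ofNat 0, .ofNat 0, .ofNat 0, .ofNat 0, .ofNat 0, .ofNat 0, .ofNat 435892156900403238627511174006608756736, .ofNat 0⟩)
    (by decide +kernel)
theorem L00678 : Good (Phi V5.P V5.D (-1) 1) ⟨3, 3, 2, 1, 2, 3, 3, 5, 5, 5⟩ :=
  leafX_sound T5.ok_mp T5.Ymp.bz_eq (w := 211) (c := ⟨⟨.negSucc 1841, .negSucc 94, .negSucc 57, .ofNat 506, .ofNat 254, .ofNat 102⟩, ⟨.negSucc 517, .ofNat 87, .negSucc 315, .ofNat 101, .ofNat 100, .ofNat 47⟩, ⟨.ofNat 907, .ofNat 58, .ofNat 26, .negSucc 406, .negSucc 165, .negSucc 47⟩, ⟨.negSucc 4337, .ofNat 154, .ofNat 73, .ofNat 1381, .ofNat 504, .ofNat 157⟩, ⟨.negSucc 744, .negSucc 138, .negSucc 90, .negSucc 771, .ofNat 261, .ofNat 236⟩, .ofNat 671, .negSucc 515, .ofNat 0, .negSucc 515, .ofNat 1983, .ofNat 0, .ofNat 195, .ofNat 128, .negSucc 98, .ofNat 0, .ofNat 114, .negSucc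 7, .ofNat 0, .ofNat 0, .ofNat 321, .ofNat 1083, .ofNat 0, .ofNat 0, .ofNat 0, .ofNat 0, .ofNat 0, .ofNat 0, .ofNat 0, .ofNat 0, .ofNat 0, .ofNat 0, .ofNat 505032444349872022346875523117329940480, .ofNat 0, .ofNat 0, .ofNat 0, .ofNat 0, .ofNat 0⟩)
    (by decide +kernel)
theorem L00679 : Good (Phi V5.P V5.D (-1) 1) ⟨2, 1, 2, 1, 3, 6, 3, 4, 5, 6⟩ :=
  leafX_sound T5.ok_mp T5.Ymp.bz_eq (w := 222) (c := ⟨⟨.negSucc 1557, .negSucc 376, .negSucc 80, .ofNat 120, .ofNat 169, .ofNat 87⟩, ⟨.negSucc 526, .ofNat 105, .negSucc 352, .ofNat 22, .ofNat 70, .ofNat 42⟩, ⟨.ofNat 801, .ofNat 273, .ofNat 80, .negSucc 166, .negSucc 180, .negSucc 25⟩, ⟨.negSucc 4012, .negSucc 155, .negSucc 20, .ofNat 359, .ofNat 337, .ofNat 184⟩, ⟨.negSucc 878, .negSucc 79, .negSucc 55, .negSucc 207, .ofNat 186, .ofNat 119⟩, .ofNat 388, .negSucc 123, .ofNat 0, .negSucc 123, .ofNat 657, .ofNat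 0, .ofNat 252, .ofNat 66, .negSucc 159, .ofNat 0, .ofNat 128, .ofNat 13, .ofNat 0, .ofNat 0, .ofNat 525, .ofNat 2785, .ofNat 0, .ofNat 0, .ofNat 0, .ofNat 0, .ofNat 0, .ofNat 0, .ofNat 0, .ofNat 0, .ofNat 0, .ofNat 0, .ofNat 0, .ofNat 0, .ofNat 0, .ofNat 0, .ofNat 0, .ofNat 0⟩)
    (by decide +kernel)
theorem L00680 : Good (Phi V5.P V5.D (-1) 1) ⟨2, 1, 2, 1, 3, 7, 3, 4, 5, 6⟩ :=
  leafX_sound T5.ok_mp T5.Ymp.bz_eq (w := 221) (c := ⟨⟨.negSucc 1547, .negSucc 200, .negSucc 73, .ofNat 216, .ofNat 144, .ofNat 142⟩, ⟨.negSucc 540, .ofNat 113, .negSucc 313, .ofNat 43, .ofNat 68, .ofNat 68⟩, ⟨.ofNat 714, .ofNat 93, .ofNat 52, .negSucc 201, .negSucc 71, .negSucc 66⟩, ⟨.negSucc 3949, .ofNat 210, .ofNat 160, .ofNat 613, .ofNat 267, .ofNat 306⟩, ⟨.negSucc 929, .negSucc 236, .negSucc 253, .negSucc 335, .ofNat 255, .ofNat 86⟩, .ofNat 602, .negSucc 371, .ofNat 0,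 .negSucc 371, .ofNat 1420, .ofNat 0, .ofNat 199, .ofNat 107, .negSucc 75, .ofNat 0, .ofNat 128, .ofNat 3, .ofNat 0, .ofNat 0, .ofNat 373, .ofNat 1308, .ofNat 0, .ofNat 0, .ofNat 0, .ofNat 0, .ofNat 0, .ofNat 0, .ofNat 0, .ofNat 0, .ofNat 0, .ofNat 0, .ofNat 0, .ofNat 0, .ofNat 0, .ofNat 0, .ofNat 0, .ofNat 0⟩)
    (by decide +kernel)
theorem L00681 : Good (Phi V5.P V5.D (-1) 1) ⟨2, 1, 2, 1, 2, 3, 3, 5, 5, 6⟩ :=
  leafX_sound T5.ok_mp T5.Ymp.bz_eq (w := 206) (c := ⟨⟨.negSucc 1515, .negSucc 212, .negSucc 49, .ofNat 384, .ofNat 136, .ofNat 102⟩, ⟨.negSucc 504, .ofNat 121, .negSucc 314, .ofNat 104, .ofNat 77, .ofNat 55⟩, ⟨.ofNat 769, .ofNat 21, .ofNat 14, .negSucc 273, .negSucc 64, .negSucc 24⟩, ⟨.negSucc 3898, .ofNat 156, .ofNat 56, .ofNat 1019, .ofNat 184, .ofNat 168⟩, ⟨.negSucc 726, .negSucc 53, .negSucc 141, .negSucc 348, .ofNat 443, .ofNat 242⟩, .ofNat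 613, .negSucc 381, .ofNat 0, .negSucc 381, .ofNat 1419, .ofNat 0, .ofNat 199, .ofNat 116, .negSucc 69, .ofNat 0, .ofNat 128, .ofNat 1, .ofNat 0, .ofNat 0, .ofNat 364, .ofNat 655, .ofNat 0, .ofNat 0, .ofNat 0, .ofNat 0, .ofNat 0, .ofNat 0, .ofNat 0, .ofNat 0, .ofNat 0, .ofNat 6079703499741267762729574967943960199168, .ofNat 0, .ofNat 0, .ofNat 0, .ofNat 1942493828550482460467371165632182616064, .ofNat 0, .ofNat 0⟩)
    (by decide +kernel)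
theorem L00682 : Good (Phi V5.P V5.D (-1) 1) ⟨2, 1, 2, 1, 2, 3, 3, 4, 5, 7⟩ :=
  leafX_sound T5.ok_mp T5.Ymp.bz_eq (w := 207) (c := ⟨⟨.negSucc 1553, .negSucc 254, .negSucc 44, .ofNat 359, .ofNat 128, .ofNat 131⟩, ⟨.negSucc 527, .ofNat 117, .negSucc 308, .ofNat 87, .ofNat 63, .ofNat 66⟩, ⟨.ofNat 829, .ofNat 136, .ofNat 46, .negSucc 366, .negSucc 112, .negSucc 19⟩, ⟨.negSucc 3988, .ofNat 90, .ofNat 76, .ofNat 985, .ofNat 211, .ofNat 270⟩, ⟨.negSucc 771, .negSucc 66, .negSucc 106, .negSucc 423, .ofNat 285, .ofNat 130⟩, .ofNat 606, .negSucc 372, .ofNat 0, .negSucc 372, .ofNat 1418, .ofNat 0, .ofNat 213, .ofNat 107, .negSucc 71, .ofNat 0, .ofNat 128, .ofNat 2, .ofNat 0, .ofNat 0, .ofNat 529, .ofNat 1206, .ofNat 0, .ofNat 0, .ofNat 0, .ofNat 0, .ofNat 0, .ofNat 6783861884144200221611286096254217486336, .ofNat 0, .ofNat 0, .ofNat 0, .ofNat 8056835689260350908644561783282647171072,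 .ofNat 0, .ofNat 0, .ofNat 0, .ofNat 6720728715356054579655853484136562950144, .ofNat 0, .ofNat 0⟩)
    (by decide +kernel)
theorem L00683 : Good (Phi V5.P V5.D (-1) 1) ⟨2, 1, 2, 1, 2, 3, 3, 5, 5, 7⟩ :=
  leafX_sound T5.ok_mp T5.Ymp.bz_eq (w := 206) (c := ⟨⟨.negSucc 1490, .negSucc 113, .negSucc 8, .ofNat 397, .ofNat 187, .ofNat 76⟩, ⟨.negSucc 495, .ofNat 154, .negSucc 286, .ofNat 130, .ofNat 94, .ofNat 46⟩, ⟨.ofNat 762, .negSucc 26, .negSucc 12, .negSucc 253, .negSucc 112, .ofNat 11⟩, ⟨.negSucc 3870, .ofNat 377, .ofNat 121, .ofNat 1042, .ofNat 303, .ofNat 112⟩, ⟨.negSucc 584, .negSucc 69, .negSucc 100, .negSucc 244, .ofNat 408, .ofNat 267⟩, .ofNat 611, .negSucc 379, .ofNat 0, .negSucc 379, .ofNat 1423, .ofNat 0, .ofNat 331, .ofNat 110, .negSucc 64, .ofNat 0, .ofNat 128, .ofNat 6, .ofNat 0, .ofNat 0, .ofNat 527, .ofNat 672, .ofNat 0, .ofNat 0, .ofNat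 0, .ofNat 0, .ofNat 0, .ofNat 0, .ofNat 0, .ofNat 0, .ofNat 0, .ofNat 8499031841970909470224336131737606160384, .ofNat 0, .ofNat 0, .ofNat 0, .ofNat 9751293962334175904285731459139501031424, .ofNat 0, .ofNat 0⟩)
    (by decide +kernel)
theorem L00684 : Good (Phi V5.P V5.D (-1) 1) ⟨2, 1, 2, 1, 2, 2, 3, 6, 4, 2⟩ :=
  leafX_sound T5.ok_mp T5.Ymp.bz_eq (w := 201) (c := ⟨⟨.negSucc 1258, .negSucc 429, .negSucc 79, .negSucc 71, .ofNat 150, .ofNat 41⟩, ⟨.negSucc 415, .ofNat 70, .negSucc 319, .negSucc 26, .ofNat 65, .ofNat 36⟩, ⟨.ofNat 756, .ofNat 247, .ofNat 27, .negSucc 151, .negSucc 144, .negSucc 34⟩, ⟨.negSucc 3291, .negSucc 346, .negSucc 119, .negSucc 161, .ofNat 266, .negSucc 6⟩, ⟨.negSucc 666, .ofNat 154, .negSucc 28, .negSucc 35, .ofNat 255, .ofNat 276⟩, .ofNat 616, .negSucc 381, .ofNat 0, .negSucc 381, .ofNat 1418, .ofNat 0, .ofNat 171, .ofNat 128,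 .negSucc 103, .ofNat 0, .ofNat 126, .negSucc 16, .ofNat 0, .ofNat 0, .ofNat 301, .ofNat 906, .ofNat 0, .ofNat 0, .ofNat 0, .ofNat 0, .ofNat 0, .ofNat 0, .ofNat 0, .ofNat 0, .ofNat 0, .ofNat 0, .ofNat 57394322359658196817865122543648636928, .ofNat 0, .ofNat 0, .ofNat 0, .ofNat 8689870922712415905463328008784838656, .ofNat 0⟩)
    (by decide +kernel)
theorem L00685 : Good (Phi V5.P V5.D (-1) 1) ⟨2, 1, 2, 1, 2, 2, 3, 7, 4, 2⟩ :=
  leafX_sound T5.ok_mp T5.Ymp.bz_eq (w := 201) (c := ⟨⟨.negSucc 1192, .negSucc 232, .negSucc 16, .negSucc 93, .ofNat 309, .ofNat 60⟩, ⟨.negSucc 389, .ofNat 102, .negSucc 267, .negSucc 18, .ofNat 153, .ofNat 51⟩, ⟨.ofNat 692, .ofNat 24, .negSucc 70, .negSucc 57, .negSucc 305, .negSucc 74⟩, ⟨.negSucc 3099, .ofNat 33, .negSucc 24, .negSucc 323, .ofNat 592, .negSucc 1⟩, ⟨.negSucc 582, .ofNat 182, .negSucc 36, .ofNat 236, .ofNat 614,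 .ofNat 421⟩, .ofNat 604, .negSucc 369, .ofNat 0, .negSucc 369, .ofNat 1423, .ofNat 0, .ofNat 210, .ofNat 128, .negSucc 122, .ofNat 0, .ofNat 126, .negSucc 16, .ofNat 0, .ofNat 0, .ofNat 324, .ofNat 519, .ofNat 0, .ofNat 0, .ofNat 0, .ofNat 0, .ofNat 0, .ofNat 0, .ofNat 0, .ofNat 0, .ofNat 0, .ofNat 925244333299661861111586717940561477632, .ofNat 0, .ofNat 0, .ofNat 0, .ofNat 262980989265686796550563183407705096192, .ofNat 19535121303907612968773319343854321664, .ofNat 0⟩)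
    (by decide +kernel)
theorem L00686 : Good (Phi V5.P V5.D (-1) 1) ⟨3, 2, 2, 1, 2, 3, 3, 6, 4, 2⟩ :=
  leafX_sound T5.ok_mp T5.Ymp.bz_eq (w := 205) (c := ⟨⟨.negSucc 1487, .negSucc 67, .negSucc 17, .ofNat 312, .ofNat 186, .ofNat 104⟩, ⟨.negSucc 517, .ofNat 44, .negSucc 284, .ofNat 113, .ofNat 120, .ofNat 88⟩, ⟨.ofNat 666, .negSucc 37, .negSucc 37, .negSucc 177, .negSucc 43, .ofNat 40⟩, ⟨.negSucc 3779, .ofNat 144, .ofNat 145, .ofNat 881, .ofNat 256, .ofNat 18⟩, ⟨.negSucc 816, .negSucc 55, .negSucc 183, .negSucc 267, .ofNat 555, .ofNat 623⟩, .ofNat 918, .negSucc 850, .ofNat 0, .negSucc 850, .ofNat 2455, .ofNat 0, .ofNat 128, .ofNat 156, .negSucc 77, .ofNat 0, .ofNat 127, .negSucc 9, .ofNat 0, .ofNat 0, .ofNat 276, .ofNat 560, .ofNat 0, .ofNat 0, .ofNat 0, .ofNat 0, .ofNat 0, .ofNat 2154795389312227395417999705092158128128, .ofNat 0, .ofNat 0, .ofNat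 0, .ofNat 6036042710040594296039585617909347516416, .ofNat 0, .ofNat 0, .ofNat 0, .ofNat 3258741574750547615481238804152216190976, .ofNat 0, .ofNat 0⟩)
    (by decide +kernel)
theorem L00687 : Good (Phi V5.P V5.D (-1) 1) ⟨3, 2, 2, 1, 2, 3, 3, 7, 4, 2⟩ :=
  leafX_sound T5.ok_mp T5.Ymp.bz_eq (w := 205) (c := ⟨⟨.negSucc 1337, .negSucc 26, .ofNat 39, .ofNat 280, .ofNat 249, .ofNat 92⟩, ⟨.negSucc 413, .ofNat 41, .negSucc 260, .ofNat 116, .ofNat 164, .ofNat 88⟩, ⟨.ofNat 650, .negSucc 105, .negSucc 123, .negSucc 82, .negSucc 92, .ofNat 20⟩, ⟨.negSucc 3538, .ofNat 224, .ofNat 205, .ofNat 741, .ofNat 247, .negSucc 37⟩, ⟨.negSucc 280, .negSucc 40, .negSucc 240, .negSucc 32, .ofNat 930, .ofNat 708⟩, .ofNat 920, .negSucc 847, .ofNat 0, .negSucc 847, .ofNat 2443, .ofNat 0, .ofNat 140, .ofNat 128, .negSucc 67, .ofNat 0, .ofNat 104, .negSucc 8, .ofNat 0, .ofNat 0,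 .ofNat 217, .ofNat 339, .ofNat 0, .ofNat 0, .ofNat 0, .ofNat 0, .ofNat 0, .ofNat 2975742055781622079258820680379057307648, .ofNat 0, .ofNat 0, .ofNat 0, .ofNat 8084805726186259655056037445796181835776, .ofNat 0, .ofNat 0, .ofNat 0, .ofNat 4265261109925347918646019863160821907456, .ofNat 0, .ofNat 0⟩)
    (by decide +kernel)
theorem L00688 : Good (Phi V5.P V5.D (-1) 1) ⟨3, 3, 2, 1, 2, 3, 4, 12, 4, 2⟩ :=
  leafX_sound T5.ok_mp T5.Ymp.bz_eq (w := 209) (c := ⟨⟨.negSucc 1724, .negSucc 119, .negSucc 54, .ofNat 530, .ofNat 130, .ofNat 248⟩, ⟨.negSucc 481, .ofNat 67, .negSucc 295, .ofNat 128, .ofNat 57, .ofNat 105⟩, ⟨.ofNat 807, .ofNat 37, .negSucc 2, .negSucc 324, .negSucc 76, .negSucc 118⟩, ⟨.negSucc 4043, .ofNat 21, .ofNat 46, .ofNat 1457, .ofNat 245, .ofNat 382⟩, ⟨.negSucc 712, .ofNat 28, .negSucc 118, .negSucc 714, .ofNat 189, .ofNat 534⟩, .ofNat 568,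 .negSucc 343, .ofNat 0, .negSucc 343, .ofNat 1440, .ofNat 0, .ofNat 193, .ofNat 128, .negSucc 127, .ofNat 0, .ofNat 126, .negSucc 3, .ofNat 0, .ofNat 0, .ofNat 339, .ofNat 689, .ofNat 0, .ofNat 0, .ofNat 0, .ofNat 0, .ofNat 0, .ofNat 0, .ofNat 0, .ofNat 0, .ofNat 0, .ofNat 28490060979583733062056052930362562576384, .ofNat 132816627827583474754181344346450690048, .ofNat 0, .ofNat 0, .ofNat 2490386335824451643660473434224155688960, .ofNat 0, .ofNat 0⟩)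
    (by decide +kernel)
theorem L00689 : Good (Phi V5.P V5.D (-1) 1) ⟨3, 3, 2, 1, 2, 3, 4, 13, 4, 2⟩ :=
  leafX_sound T5.ok_mp T5.Ymp.bz_eq (w := 209) (c := ⟨⟨.negSucc 1629, .negSucc 84, .negSucc 47, .ofNat 577, .ofNat 169, .ofNat 224⟩, ⟨.negSucc 452, .ofNat 86, .negSucc 284, .ofNat 139, .ofNat 75, .ofNat 117⟩, ⟨.ofNat 746, .ofNat 10, .negSucc 26, .negSucc 348, .negSucc 102, .negSucc 85⟩, ⟨.negSucc 3844, .ofNat 110, .ofNat 8, .ofNat 1531, .ofNat 298, .ofNat 295⟩, ⟨.negSucc 608, .ofNat 28, .negSucc 92, .negSucc 645, .ofNat 315, .ofNat 732⟩, .ofNat 561, .negSucc 330, .ofNat 0, .negSucc 330, .ofNat 1440, .ofNat 0, .ofNat 205, .ofNat 128, .negSucc 151, .ofNat 0, .ofNat 127, .negSucc 1, .ofNat 0, .ofNat 0, .ofNat 389, .ofNat 560, .ofNat 0, .ofNat 0, .ofNat 0, .ofNat 0, .ofNat 0, .ofNat 16892351370234231503734166707947834441728, .ofNat 0, .ofNat 0, .ofNat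 0, .ofNat 37607372036210967774460136693989944328192, .ofNat 0, .ofNat 0, .ofNat 0, .ofNat 9035448913324978530861033765564730834944, .ofNat 0, .ofNat 0⟩)
    (by decide +kernel)
theorem L00690 : Good (Phi V5.P V5.D (-1) 1) ⟨3, 3, 2, 1, 2, 3, 3, 7, 4, 2⟩ :=
  leafX_sound T5.ok_mp T5.Ymp.bz_eq (w := 205) (c := ⟨⟨.negSucc 1459, .negSucc 163, .ofNat 22, .ofNat 556, .ofNat 310, .ofNat 195⟩, ⟨.negSucc 395, .ofNat 50, .negSucc 233, .ofNat 154, .ofNat 154, .ofNat 121⟩, ⟨.ofNat 657, .ofNat 38, .negSucc 81, .negSucc 286, .negSucc 259, .negSucc 116⟩, ⟨.negSucc 3560, .negSucc 72, .ofNat 194, .ofNat 1504, .ofNat 316, .ofNat 239⟩, ⟨.negSucc 237, .ofNat 76, .negSucc 199, .negSucc 645, .ofNat 1129, .ofNat 734⟩, .ofNat 770, .negSucc 716, .ofNat 0, .negSucc 716, .ofNat 2510, .ofNat 0, .ofNat 216, .ofNat 128, .negSucc 141, .ofNat 0, .ofNat 98, .negSucc 15, .ofNat 0, .ofNat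 0, .ofNat 368, .ofNat 301, .ofNat 0, .ofNat 0, .ofNat 0, .ofNat 0, .ofNat 0, .ofNat 4783973749423065685575699680537320882176, .ofNat 0, .ofNat 0, .ofNat 0, .ofNat 8971892316851845232579953263215391014912, .ofNat 0, .ofNat 0, .ofNat 0, .ofNat 5514422193768269699146479852314477723648, .ofNat 0, .ofNat 0⟩)
    (by decide +kernel)
theorem L00691 : Good (Phi V5.P V5.D (-1) 1) ⟨2, 1, 2, 1, 2, 2, 3, 6, 4, 3⟩ :=
  leafX_sound T5.ok_mp T5.Ymp.bz_eq (w := 201) (c := ⟨⟨.negSucc 1331, .negSucc 307, .negSucc 25, .ofNat 16, .ofNat 160, .ofNat 131⟩, ⟨.negSucc 420, .ofNat 105, .negSucc 287, .ofNat 6, .ofNat 76, .ofNat 50⟩, ⟨.ofNat 849, .ofNat 151, .negSucc 42, .negSucc 202, .negSucc 206, .negSucc 109⟩, ⟨.negSucc 3528, .negSucc 43, .negSucc 14, .negSucc 23, .ofNat 264, .ofNat 238⟩, ⟨.negSucc 438, .ofNat 97, .negSucc 35, .ofNat 123, .ofNat 375, .ofNat 185⟩, .ofNat 609,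 .negSucc 376, .ofNat 0, .negSucc 376, .ofNat 1427, .ofNat 0, .ofNat 169, .ofNat 121, .negSucc 79, .ofNat 0, .ofNat 128, .negSucc 11, .ofNat 0, .ofNat 0, .ofNat 401, .ofNat 940, .ofNat 0, .ofNat 0, .ofNat 0, .ofNat 0, .ofNat 0, .ofNat 0, .ofNat 0, .ofNat 0, .ofNat 0, .ofNat 1073947875197245439846669846654411079680, .ofNat 0, .ofNat 0, .ofNat 0, .ofNat 518630235367846274927571132575589072896, .ofNat 4870177654007510727044862633295478784, .ofNat 0⟩)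
    (by decide +kernel)
theorem L00692 : Good (Phi V5.P V5.D (-1) 1) ⟨2, 1, 2, 1, 3, 6, 3, 6, 4, 3⟩ :=
  leafX_sound T5.ok_mp T5.Ymp.bz_eq (w := 214) (c := ⟨⟨.negSucc 1408, .negSucc 142, .ofNat 11, .ofNat 150, .ofNat 183, .ofNat 200⟩, ⟨.negSucc 455, .ofNat 143, .negSucc 277, .ofNat 61, .ofNat 117, .ofNat 98⟩, ⟨.ofNat 732, .negSucc 91, .negSucc 51, .negSucc 86, .negSucc 103, .negSucc 112⟩, ⟨.negSucc 3722, .ofNat 328, .ofNat 104, .ofNat 381, .ofNat 218, .ofNat 341⟩, ⟨.negSucc 442, .negSucc 16, .negSucc 101, .ofNat 37, .ofNat 740, .ofNat 486⟩, .ofNat 390, .negSucc 127, .ofNat 0, .negSucc 127, .ofNat 663, .ofNat 0, .ofNat 375, .ofNat 71, .negSucc 88, .ofNat 0, .ofNat 128, .ofNat 24, .ofNat 0, .ofNat 0, .ofNat 442, .ofNat 395, .ofNat 0, .ofNat 0, .ofNat 0, .ofNat 0, .ofNat 0, .ofNat 0, .ofNat 0, .ofNat 0, .ofNat 0, .ofNat 2010930155500050665809133660832318099554304,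 .ofNat 0, .ofNat 0, .ofNat 0, .ofNat 1597651179056592021756390338988466491097088, .ofNat 0, .ofNat 0⟩)
    (by decide +kernel)
theorem L00693 : Good (Phi V5.P V5.D (-1) 1) ⟨2, 1, 2, 1, 3, 7, 3, 6, 4, 3⟩ :=
  leafX_sound T5.ok_mp T5.Ymp.bz_eq (w := 215) (c := ⟨⟨.negSucc 1375, .ofNat 91, .ofNat 71, .ofNat 247, .ofNat 250, .ofNat 220⟩, ⟨.negSucc 443, .ofNat 158, .negSucc 229, .ofNat 112, .ofNat 170, .ofNat 148⟩, ⟨.ofNat 635, .negSucc 248, .negSucc 49, .ofNat 23, .negSucc 32, .negSucc 10⟩, ⟨.negSucc 3654, .ofNat 917, .ofNat 330, .ofNat 603, .ofNat 260, .ofNat 266⟩, ⟨.negSucc 245, .negSucc 417, .negSucc 287, .ofNat 50, .ofNat 992, .ofNat 826⟩, .ofNat 390, .negSucc 123, .ofNat 0, .negSucc 123, .ofNat 654, .ofNat 0, .ofNat 414, .ofNat 67, .negSucc 119, .ofNat 0, .ofNat 128, .ofNat 55, .ofNat 0, .ofNat 0, .ofNat 556, .ofNat 344, .ofNat 0, .ofNat 0, .ofNat 0,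 .ofNat 0, .ofNat 0, .ofNat 0, .ofNat 0, .ofNat 0, .ofNat 0, .ofNat 2232648736606560914401467437865027135078400, .ofNat 0, .ofNat 0, .ofNat 0, .ofNat 7307600370456860260932708818813033730015232, .ofNat 0, .ofNat 0⟩)
    (by decide +kernel)
theorem L00694 : Good (Phi V5.P V5.D (-1) 1) ⟨2, 1, 2, 1, 1, 1, 3, 7, 4, 3⟩ :=
  leafX_sound T5.ok_mp T5.Ymp.bz_eq (w := 186) (c := ⟨⟨.negSucc 1190, .negSucc 158, .ofNat 21, .negSucc 106, .ofNat 302, .ofNat 74⟩, ⟨.negSucc 355, .ofNat 122, .negSucc 250, .ofNat 28, .ofNat 145, .ofNat 37⟩, ⟨.ofNat 674, .negSucc 44, .negSucc 125, .negSucc 79, .negSucc 317, .negSucc 66⟩, ⟨.negSucc 3206, .ofNat 210, .ofNat 39, .negSucc 547, .ofNat 604, .ofNat 77⟩, ⟨.negSucc 228, .ofNat 183, .negSucc 39, .ofNat 851, .ofNat 591, .ofNat 304⟩, .ofNat 390, .negSucc 127, .ofNat 0, .negSucc 127, .ofNat 653, .ofNat 0, .ofNat 257, .ofNat 77, .negSucc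 118, .ofNat 0, .ofNat 128, .negSucc 3, .ofNat 0, .ofNat 0, .ofNat 401, .ofNat 375, .ofNat 0, .ofNat 0, .ofNat 0, .ofNat 0, .ofNat 0, .ofNat 532015628907511959129463320603525120, .ofNat 0, .ofNat 0, .ofNat 0, .ofNat 295885237792381036748605094551879680, .ofNat 0, .ofNat 0, .ofNat 0, .ofNat 340317315964599888414235209584607232, .ofNat 2735740796142018532294520230379520, .ofNat 0⟩)
    (by decide +kernel)
theorem L00695 : Good (Phi V5.P V5.D (-1) 1) ⟨3, 2, 2, 1, 2, 2, 2, 2, 4, 4⟩ :=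
  leafX_sound T5.ok_mp T5.Ymp.bz_eq (w := 202) (c := ⟨⟨.negSucc 1436, .negSucc 117, .negSucc 19, .ofNat 40, .ofNat 184, .ofNat 129⟩, ⟨.negSucc 456, .ofNat 34, .negSucc 290, .ofNat 2, .ofNat 90, .ofNat 55⟩, ⟨.ofNat 1069, .ofNat 62, .negSucc 18, .negSucc 248, .negSucc 313, .negSucc 26⟩, ⟨.negSucc 3781, .ofNat 4, .ofNat 40, .ofNat 145, .ofNat 350, .ofNat 293⟩, ⟨.negSucc 549, .ofNat 48, .negSucc 29, .negSucc 115, .ofNat 360, .ofNat 147⟩, .ofNat 648, .negSucc 399, .ofNat 0, .negSucc 399, .ofNat 1397, .ofNat 0, .ofNat 128, .ofNat 128, .negSucc 40, .ofNat 0, .ofNat 147, .negSucc 5, .ofNat 0, .ofNat 0, .ofNat 417, .ofNat 2089, .ofNat 0, .ofNat 0, .ofNat 0, .ofNat 0, .ofNat 0, .ofNat 0, .ofNat 0, .ofNat 0, .ofNat 0, .ofNat 7128566926285870452184752636821923430400, .ofNat 0, .ofNat 0, .ofNat 0, .ofNat 2393723782406036980871108152263679410176, .ofNat 0, .ofNat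 0⟩)
    (by decide +kernel)
theorem L00696 : Good (Phi V5.P V5.D (-1) 1) ⟨3, 3, 2, 1, 2, 2, 2, 2, 4, 4⟩ :=
  leafX_sound T5.ok_mp T5.Ymp.bz_eq (w := 202) (c := ⟨⟨.negSucc 1599, .negSucc 197, .negSucc 36, .ofNat 77, .ofNat 240, .ofNat 177⟩, ⟨.negSucc 420, .ofNat 64, .negSucc 304, .ofNat 13, .ofNat 92, .ofNat 61⟩, ⟨.ofNat 1217, .ofNat 155, .ofNat 46, .negSucc 352, .negSucc 435, .negSucc 98⟩, ⟨.negSucc 3859, .negSucc 69, .negSucc 9, .ofNat 232, .ofNat 467, .ofNat 378⟩, ⟨.negSucc 481, .ofNat 13, .negSucc 20, .negSucc 151, .ofNat 336, .ofNat 142⟩, .ofNat 576, .negSucc 353, .ofNat 0, .negSucc 353, .ofNat 1450, .ofNat 0, .ofNat 128, .ofNat 151, .negSucc 45, .ofNat 0, .ofNat 167, .negSucc 5, .ofNat 0, .ofNat 0, .ofNat 389, .ofNat 1048, .ofNat 0, .ofNat 0, .ofNat 0, .ofNat 0, .ofNat 0, .ofNat 1071425677270240406579687375999797821440, .ofNat 0, .ofNat 0, .ofNat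 0, .ofNat 0, .ofNat 0, .ofNat 0, .ofNat 0, .ofNat 2587414245440385534465287030626171486208, .ofNat 904167605146879689718321379882827776, .ofNat 0⟩)
    (by decide +kernel)
theorem L00697 : Good (Phi V5.P V5.D (-1) 1) ⟨2, 1, 2, 1, 3, 6, 2, 2, 4, 4⟩ :=
  leafX_sound T5.ok_mp T5.Ymp.bz_eq (w := 211) (c := ⟨⟨.negSucc 1431, .negSucc 176, .negSucc 36, .ofNat 141, .ofNat 232, .ofNat 195⟩, ⟨.negSucc 487, .ofNat 117, .negSucc 283, .ofNat 48, .ofNat 127, .ofNat 91⟩, ⟨.ofNat 838, .ofNat 11, .ofNat 40, .negSucc 195, .negSucc 288, .negSucc 85⟩, ⟨.negSucc 3687, .ofNat 220, .ofNat 53, .ofNat 372, .ofNat 328, .ofNat 399⟩, ⟨.negSucc 771, .negSucc 6, .negSucc 41, .negSucc 86, .ofNat 712, .ofNat 243⟩, .ofNat 847, .negSucc 784, .ofNat 0, .negSucc 784, .ofNat 2455, .ofNat 0, .ofNat 137, .ofNat 128, .negSucc 23, .ofNat 0, .ofNat 118, .negSucc 0, .ofNat 0, .ofNat 0, .ofNat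 371, .ofNat 546, .ofNat 0, .ofNat 0, .ofNat 0, .ofNat 0, .ofNat 0, .ofNat 96960370432726176837567077023326784192512, .ofNat 0, .ofNat 0, .ofNat 0, .ofNat 0, .ofNat 0, .ofNat 0, .ofNat 0, .ofNat 695379296048791981058206448077531489763328, .ofNat 0, .ofNat 0⟩)
    (by decide +kernel)
theorem L00698 : Good (Phi V5.P V5.D (-1) 1) ⟨2, 1, 2, 1, 3, 7, 2, 2, 4, 4⟩ :=
  leafX_sound T5.ok_mp T5.Ymp.bz_eq (w := 210) (c := ⟨⟨.negSucc 1366, .negSucc 78, .negSucc 24, .ofNat 194, .ofNat 340, .ofNat 242⟩, ⟨.negSucc 464, .ofNat 128, .negSucc 271, .ofNat 62, .ofNat 167, .ofNat 117⟩, ⟨.ofNat 710, .negSucc 96, .ofNat 24, .negSucc 126, .negSucc 288, .negSucc 104⟩, ⟨.negSucc 3523, .ofNat 441, .ofNat 196, .ofNat 514, .ofNat 538, .ofNat 475⟩, ⟨.negSucc 693, .negSucc 227, .negSucc 222, .negSucc 138, .ofNat 693, .ofNat 341⟩, .ofNat 609, .negSucc 374, .ofNat 0, .negSucc 374,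 .ofNat 1420, .ofNat 0, .ofNat 230, .ofNat 97, .negSucc 19, .ofNat 0, .ofNat 128, .ofNat 8, .ofNat 0, .ofNat 0, .ofNat 373, .ofNat 276, .ofNat 0, .ofNat 0, .ofNat 0, .ofNat 0, .ofNat 0, .ofNat 0, .ofNat 0, .ofNat 0, .ofNat 0, .ofNat 0, .ofNat 0, .ofNat 0, .ofNat 0, .ofNat 1346195413028453883551998035497068974309376, .ofNat 0, .ofNat 0⟩)
    (by decide +kernel)
theorem L00699 : Good (Phi V5.P V5.D (-1) 1) ⟨2, 1, 2, 1, 2, 2, 2, 2, 4, 5⟩ :=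
  leafX_sound T5.ok_mp T5.Ymp.bz_eq (w := 198) (c := ⟨⟨.negSucc 1321, .negSucc 248, .negSucc 28, .ofNat 106, .ofNat 184, .ofNat 150⟩, ⟨.negSucc 423, .ofNat 107, .negSucc 277, .ofNat 29, .ofNat 89, .ofNat 56⟩, ⟨.ofNat 1107, .ofNat 135, .ofNat 8, .negSucc 355, .negSucc 440, .negSucc 103⟩, ⟨.negSucc 3510, .ofNat 43, .ofNat 1, .ofNat 278, .ofNat 342, .ofNat 324⟩, ⟨.negSucc 431, .ofNat 60, .negSucc 19, .negSucc 46, .ofNat 371, .ofNat 120⟩, .ofNat 385, .negSucc 124, .ofNat 0, .negSucc 124, .ofNat 658, .ofNat 0, .ofNat 202, .ofNat 62, .negSucc 39, .ofNat 0, .ofNat 128, .ofNat 0, .ofNat 0, .ofNat 0, .ofNat 568, .ofNat 1586, .ofNat 0, .ofNat 0, .ofNat 0, .ofNat 0, .ofNat 0, .ofNat 375474297548047852762085320991610765312, .ofNat 0, .ofNat 0, .ofNat 0, .ofNat 401119433625093055586001136129910243328, .ofNat 0, .ofNat 0, .ofNat 0, .ofNat 446146603599965156290843062966914383872,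 .ofNat 881878514932234382891913753346965504, .ofNat 0⟩)
    (by decide +kernel)
theorem L00700 : Good (Phi V5.P V5.D (-1) 1) ⟨2, 1, 2, 1, 2, 3, 2, 2, 4, 5⟩ :=
  leafX_sound T5.ok_mp T5.Ymp.bz_eq (w := 198) (c := ⟨⟨.negSucc 1247, .negSucc 163, .negSucc 12, .ofNat 248, .ofNat 197, .ofNat 178⟩, ⟨.negSucc 409, .ofNat 118, .negSucc 258, .ofNat 89, .ofNat 117, .ofNat 86⟩, ⟨.ofNat 802, .negSucc 37, .ofNat 5, .negSucc 385, .negSucc 331, .negSucc 99⟩, ⟨.negSucc 3289, .ofNat 212, .ofNat 80, .ofNat 631, .ofNat 284, .ofNat 382⟩, ⟨.negSucc 505, .ofNat 3, .negSucc 41, .negSucc 30, .ofNat 573, .ofNat 203⟩, .ofNat 389, .negSucc 123, .ofNat 0, .negSucc 123, .ofNat 656, .ofNat 0, .ofNat 211, .ofNat 56, .negSucc 37, .ofNat 0, .ofNat 128, .ofNat 15, .ofNat 0, .ofNat 0, .ofNat 807, .ofNat 2313, .ofNat 0, .ofNat 0, .ofNat 0, .ofNat 0, .ofNat 0, .ofNat 1294363839810680880939059837811963199488,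 .ofNat 0, .ofNat 0, .ofNat 0, .ofNat 1029605146868263227126760955443402506240, .ofNat 0, .ofNat 0, .ofNat 0, .ofNat 2268462002359298205240208525096944402432, .ofNat 0, .ofNat 0⟩)
    (by decide +kernel)
theorem L00701 : Good (Phi V5.P V5.D (-1) 1) ⟨2, 1, 2, 1, 2, 2, 2, 3, 3, 2⟩ :=
  leafX_sound T5.ok_mp T5.Ymp.bz_eq (w := 192) (c := ⟨⟨.negSucc 1275, .negSucc 180, .ofNat 13, .ofNat 50, .ofNat 319, .ofNat 220⟩, ⟨.negSucc 385, .ofNat 122, .negSucc 264, .ofNat 21, .ofNat 134, .ofNat 96⟩, ⟨.ofNat 849, .ofNat 0, .negSucc 103, .negSucc 227, .negSucc 513, .negSucc 172⟩, ⟨.negSucc 3414, .ofNat 189, .ofNat 36, .ofNat 43, .ofNat 547, .ofNat 475⟩, ⟨.negSucc 293, .ofNat 137, .negSucc 7, .ofNat 194, .ofNat 730, .ofNat 312⟩, .ofNat 392, .negSucc 126, .ofNat 0, .negSucc 126, .ofNat 653, .ofNat 0, .ofNat 235, .ofNat 67, .negSucc 58, .ofNat 0, .ofNat 128, .negSucc 4,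 .ofNat 0, .ofNat 0, .ofNat 471, .ofNat 516, .ofNat 0, .ofNat 0, .ofNat 0, .ofNat 0, .ofNat 0, .ofNat 51345891235144545621951507921127866368, .ofNat 0, .ofNat 0, .ofNat 0, .ofNat 45487570779954540926804398852026662912, .ofNat 0, .ofNat 0, .ofNat 0, .ofNat 50217848354468129249967833410273542144, .ofNat 0, .ofNat 0⟩)
    (by decide +kernel)
theorem L00702 : Good (Phi V5.P V5.D (-1) 1) ⟨2, 1, 2, 1, 2, 3, 2, 3, 3, 2⟩ :=
  leafX_sound T5.ok_mp T5.Ymp.bz_eq (w := 193) (c := ⟨⟨.negSucc 1231, .negSucc 103, .ofNat 29, .ofNat 251, .ofNat 319, .ofNat 329⟩, ⟨.negSucc 358, .ofNat 133, .negSucc 256, .ofNat 100, .ofNat 206, .ofNat 168⟩, ⟨.ofNat 681, .negSucc 187, .negSucc 80, .negSucc 237, .negSucc 241, .negSucc 175⟩, ⟨.negSucc 3373, .ofNat 382, .ofNat 90, .ofNat 534, .ofNat 433, .ofNat 652⟩, ⟨.negSucc 75, .ofNat 88, .negSucc 54, .ofNat 308, .ofNat 1134, .ofNat 655⟩,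 .ofNat 388, .negSucc 124, .ofNat 0, .negSucc 124, .ofNat 656, .ofNat 0, .ofNat 128, .ofNat 70, .negSucc 38, .ofNat 0, .ofNat 135, .ofNat 8, .ofNat 0, .ofNat 0, .ofNat 279, .ofNat 1083, .ofNat 0, .ofNat 0, .ofNat 0, .ofNat 0, .ofNat 0, .ofNat 79826237088271940432447127096372756480, .ofNat 45702769265084762139161083470938112, .ofNat 0, .ofNat 0, .ofNat 104586277171497455639579318394667663360, .ofNat 0, .ofNat 0, .ofNat 0, .ofNat 87927417355683506786953565355617812480, .ofNat 54085745016185275616700716806045696, .ofNat 0⟩)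
    (by decide +kernel)
theorem L00703 : Good (Phi V5.P V5.D (-1) 1) ⟨2, 1, 2, 1, 2, 2, 1, 1, 3, 3⟩ :=
  leafX_sound T5.ok_mp T5.Ymp.bz_eq (w := 187) (c := ⟨⟨.negSucc 1197, .negSucc 194, .negSucc 1, .ofNat 86, .ofNat 305, .ofNat 195⟩, ⟨.negSucc 384, .ofNat 113, .negSucc 243, .ofNat 30, .ofNat 143, .ofNat 82⟩, ⟨.ofNat 1119, .ofNat 9, .negSucc 106, .negSucc 281, .negSucc 972, .negSucc 92⟩, ⟨.negSucc 3217, .ofNat 132, .ofNat 37, .ofNat 243, .ofNat 536, .ofNat 477⟩, ⟨.negSucc 325, .ofNat 41, .ofNat 8, .negSucc 12, .ofNat 676, .ofNat 136⟩, .ofNat 389, .negSucc 124, .ofNat 0, .negSucc 124, .ofNat 656, .ofNat 0, .ofNat 165, .ofNat 61, .negSucc 21, .ofNat 0, .ofNat 128, .negSucc 5, .ofNat 0, .ofNat 0, .ofNat 668, .ofNat 384, .ofNat 0, .ofNat 0, .ofNat 0, .ofNat 0, .ofNat 0, .ofNat 16481193163368587350008770702323220480, .ofNat 0, .ofNat 0, .ofNat 0, .ofNat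 11061717785941728446552297806720139264, .ofNat 0, .ofNat 0, .ofNat 0, .ofNat 31867359498905262387882373546982244352, .ofNat 0, .ofNat 0⟩)
    (by decide +kernel)
theorem L00704 : Good (Phi V5.P V5.D (-1) 1) ⟨2, 1, 2, 1, 2, 3, 1, 1, 3, 3⟩ :=
  out_sound (S := T5.ds_mp) T5.ok_mp (w := 26) (j := 2) (by decide +kernel)
theorem L00705 : Good (Phi V5.P V5.D (-1) 1) ⟨2, 1, 2, 1, 4, 8, 3, 4, 4, 8⟩ :=
  out_sound (S := T5.ds_mp) T5.ok_mp (w := 29) (j := 1) (by decide +kernel)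
theorem L00706 : Good (Phi V5.P V5.D (-1) 1) ⟨2, 1, 2, 1, 4, 8, 3, 5, 4, 8⟩ :=
  out_sound (S := T5.ds_mp) T5.ok_mp (w := 36) (j := 2) (by decide +kernel)
theorem L00707 : Good (Phi V5.P V5.D (-1) 1) ⟨2, 1, 2, 1, 4, 8, 2, 2, 4, 9⟩ :=
  out_sound (S := T5.ds_mp) T5.ok_mp (w := 28) (j := 1) (by decide +kernel)
theorem L00708 : Good (Phi V5.P V5.D (-1) 1) ⟨2, 1, 2, 1, 4, 9, 2, 2, 3, 4⟩ :=
  out_sound (S := T5.ds_mp) T5.ok_mp (w := 32) (j := 2) (by decide +kernel)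
theorem L00709 : Good (Phi V5.P V5.D (-1) 1) ⟨2, 1, 2, 1, 3, 4, 2, 3, 3, 4⟩ :=
  out_sound (S := T5.ds_mp) T5.ok_mp (w := 30) (j := 2) (by decide +kernel)
theorem L00710 : Good (Phi V5.P V5.D (-1) 1) ⟨2, 1, 2, 1, 3, 4, 1, 1, 3, 5⟩ :=
  out_sound (S := T5.ds_mp) T5.ok_mp (w := 28) (j := 2) (by decide +kernel)
theorem L00711 : Good (Phi V5.P V5.D (-1) 1) ⟨2, 1, 2, 1, 3, 5, 1, 1, 2, 2⟩ :=
  out_sound (S := T5.ds_mp) T5.ok_mp (w := 26) (j := 2) (by decide +kernel)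
theorem L00712 : Good (Phi V5.P V5.D (-1) 1) ⟨2, 1, 2, 1, 2, 2, 1, 1, 2, 3⟩ :=
  out_sound (S := T5.ds_mp) T5.ok_mp (w := 24) (j := 2) (by decide +kernel)
theorem L00713 : Good (Phi V5.P V5.D (-1) 1) ⟨2, 1, 2, 1, 2, 3, 1, 1, 1, 1⟩ :=
  out_sound (S := T5.ds_mp) T5.ok_mp (w := 22) (j := 2) (by decide +kernel)
theorem L00714 : Good (Phi V5.P V5.D (-1) 1) ⟨1, 0, 2, 2, 1, 0, 2, 0, 5, 0⟩ :=
  leafX_sound T5.ok_mp T5.Ymp.bz_eq (w := 184) (c := ⟨⟨.ofNat 677, .negSucc 32, .negSucc 225, .negSucc 136, .ofNat 168, .negSucc 781⟩, ⟨.ofNat 344, .negSucc 88, .ofNat 6, .negSucc 94, .ofNat 105, .negSucc 420⟩, ⟨.negSucc 638, .ofNat 75, .ofNat 296, .ofNat 445, .negSucc 343, .ofNat 666⟩, ⟨.ofNat 1848, .negSucc 263, .negSucc 441, .ofNat 253, .ofNat 328, .negSucc 2129⟩, ⟨.ofNat 248, .negSucc 357, .negSucc 65, .negSucc 1130, .ofNat 253, .negSucc 148⟩, .ofNat 438, .negSucc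 190, .ofNat 0, .negSucc 190, .ofNat 657, .ofNat 0, .ofNat 167, .ofNat 87, .negSucc 179, .ofNat 0, .ofNat 128, .negSucc 56, .ofNat 0, .ofNat 0, .ofNat 428, .ofNat 1957, .ofNat 0, .ofNat 0, .ofNat 661513335643338244843599992717312, .ofNat 0, .ofNat 0, .ofNat 0, .ofNat 31608815990759645593811367889993728, .ofNat 0, .ofNat 0, .ofNat 0, .ofNat 11412048834008238539093628074065920, .ofNat 0, .ofNat 0, .ofNat 0, .ofNat 36842058935824431302369075708035072, .ofNat 0⟩)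
    (by decide +kernel)
theorem L00715 : Good (Phi V5.P V5.D (-1) 1) ⟨1, 0, 2, 2, 1, 0, 2, 0, 5, 1⟩ :=
  leafX_sound T5.ok_mp T5.Ymp.bz_eq (w := 184) (c := ⟨⟨.ofNat 18, .negSucc 362, .negSucc 56, .negSucc 147, .ofNat 53, .negSucc 544⟩, ⟨.ofNat 11, .negSucc 139, .negSucc 162, .negSucc 141, .ofNat 38, .negSucc 269⟩, ⟨.ofNat 159, .ofNat 374, .ofNat 86, .ofNat 35, .negSucc 237, .ofNat 444⟩, ⟨.negSucc 208, .negSucc 480, .negSucc 78, .ofNat 223, .ofNat 9, .negSucc 1450⟩, ⟨.ofNat 194, .negSucc 402, .negSucc 70, .negSucc 1351, .ofNat 300, .ofNat 88⟩, .ofNat 805, .negSucc 638, .ofNat 0, .negSucc 638, .ofNat 1552, .ofNat 0, .ofNat 167, .ofNat 128, .negSucc 128, .ofNat 0, .ofNat 121, .negSucc 54, .ofNat 0, .ofNat 0, .ofNat 416, .ofNat 2222, .ofNat 0, .ofNat 0, .ofNat 0, .ofNat 0, .ofNat 0, .ofNat 0, .ofNat 0, .ofNat 0, .ofNat 0, .ofNat 0, .ofNat 32229012464248514293629254434291712,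 .ofNat 0, .ofNat 0, .ofNat 0, .ofNat 0, .ofNat 0⟩)
    (by decide +kernel)
theorem L00716 : Good (Phi V5.P V5.D (-1) 1) ⟨1, 0, 2, 2, 1, 0, 2, 1, 4, 0⟩ :=
  leafX_sound T5.ok_mp T5.Ymp.bz_eq (w := 178) (c := ⟨⟨.ofNat 586, .negSucc 284, .ofNat 35, .ofNat 132, .negSucc 180, .negSucc 1323⟩, ⟨.ofNat 311, .negSucc 106, .negSucc 70, .ofNat 89, .negSucc 120, .negSucc 721⟩, ⟨.negSucc 492, .ofNat 172, .ofNat 56, .negSucc 170, .ofNat 79, .ofNat 1202⟩, ⟨.ofNat 1515, .negSucc 531, .ofNat 16, .ofNat 832, .negSucc 651, .negSucc 3611⟩, ⟨.ofNat 239, .negSucc 278, .ofNat 41, .negSucc 624, .ofNat 60, .negSucc 204⟩, .ofNat 434, .negSucc 189, .ofNat 0, .negSucc 189, .ofNat 658, .ofNat 0, .ofNat 230, .ofNat 86, .negSucc 187, .ofNat 0, .ofNat 128, .negSucc 57, .ofNat 0, .ofNat 0, .ofNat 377, .ofNat 484, .ofNat 0, .ofNat 0, .ofNat 0, .ofNat 0, .ofNat 0, .ofNat 0, .ofNat 0,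 .ofNat 0, .ofNat 0, .ofNat 0, .ofNat 0, .ofNat 0, .ofNat 0, .ofNat 0, .ofNat 873166270940761317560344727519232, .ofNat 0⟩)
    (by decide +kernel)
theorem L00717 : Good (Phi V5.P V5.D (-1) 1) ⟨1, 0, 2, 2, 1, 0, 1, 0, 4, 1⟩ :=
  leafX_sound T5.ok_mp T5.Ymp.bz_eq (w := 174) (c := ⟨⟨.negSucc 456, .negSucc 608, .negSucc 3, .negSucc 198, .ofNat 33, .negSucc 621⟩, ⟨.negSucc 295, .negSucc 110, .negSucc 321, .negSucc 123, .ofNat 44, .negSucc 306⟩, ⟨.ofNat 663, .ofNat 509, .ofNat 118, .negSucc 221, .negSucc 256, .ofNat 642⟩, ⟨.negSucc 1675, .negSucc 618, .negSucc 50, .negSucc 9, .negSucc 32, .negSucc 1706⟩, ⟨.negSucc 7, .negSucc 167, .ofNat 6, .negSucc 936, .ofNat 234, .ofNat 74⟩, .ofNat 444, .negSucc 195, .ofNat 0, .negSucc 195, .ofNat 658, .ofNat 0, .ofNat 178, .ofNat 84, .negSucc 123, .ofNat 0, .ofNat 128, .negSucc 35, .ofNat 0, .ofNat 0, .ofNat 386, .ofNat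 765, .ofNat 0, .ofNat 0, .ofNat 0, .ofNat 0, .ofNat 0, .ofNat 0, .ofNat 34447847320559894048853112913920, .ofNat 0, .ofNat 0, .ofNat 0, .ofNat 0, .ofNat 0, .ofNat 2950973748318158839246395478638592, .ofNat 0, .ofNat 40566807695921711352283058405376, .ofNat 0⟩)
    (by decide +kernel)
theorem L00718 : Good (Phi V5.P V5.D (-1) 1) ⟨1, 0, 2, 2, 1, 0, 2, 2, 4, 0⟩ :=
  leafX_sound T5.ok_mp T5.Ymp.bz_eq (w := 178) (c := ⟨⟨.ofNat 159, .negSucc 468, .ofNat 16, .ofNat 158, .negSucc 257, .negSucc 825⟩, ⟨.ofNat 85, .negSucc 142, .negSucc 171, .ofNat 44, .negSucc 139, .negSucc 446⟩, ⟨.negSucc 132, .ofNat 311, .ofNat 22, .negSucc 293, .ofNat 237, .ofNat 772⟩, ⟨.ofNat 298, .negSucc 785, .negSucc 34, .ofNat 689, .negSucc 779, .negSucc 2280⟩, ⟨.ofNat 138, .negSucc 94, .ofNat 55, .negSucc 545, .negSucc 48, .negSucc 83⟩, .ofNat 437, .negSucc 191, .ofNat 0, .negSucc 191,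 .ofNat 658, .ofNat 0, .ofNat 284, .ofNat 87, .negSucc 208, .ofNat 0, .ofNat 128, .negSucc 65, .ofNat 0, .ofNat 0, .ofNat 397, .ofNat 356, .ofNat 0, .ofNat 0, .ofNat 0, .ofNat 0, .ofNat 0, .ofNat 0, .ofNat 0, .ofNat 0, .ofNat 0, .ofNat 0, .ofNat 347869262548339490485616217423872, .ofNat 0, .ofNat 0, .ofNat 0, .ofNat 686404275638462455188526095925248, .ofNat 0⟩)
    (by decide +kernel)
theorem L00719 : Good (Phi V5.P V5.D (-1) 1) ⟨1, 0, 2, 2, 1, 0, 2, 2, 4, 1⟩ :=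
  leafX_sound T5.ok_mp T5.Ymp.bz_eq (w := 179) (c := ⟨⟨.negSucc 690, .negSucc 534, .ofNat 90, .negSucc 214, .ofNat 96, .negSucc 316⟩, ⟨.negSucc 367, .negSucc 84, .negSucc 307, .negSucc 123, .ofNat 27, .negSucc 152⟩, ⟨.ofNat 737, .ofNat 447, .negSucc 62, .negSucc 213, .negSucc 132, .ofNat 262⟩, ⟨.negSucc 2189, .negSucc 583, .ofNat 118, .negSucc 266, .ofNat 171, .negSucc 838⟩, ⟨.negSucc 41, .ofNat 15, .negSucc 15, .negSucc 503, .ofNat 47, .ofNat 4⟩, .ofNat 436, .negSucc 194, .ofNat 0, .negSucc 194, .ofNat 663, .ofNat 0, .ofNat 275, .ofNat 87, .negSucc 165, .ofNat 0, .ofNat 128, .negSucc 47, .ofNat 0, .ofNat 0, .ofNat 432, .ofNat 813, .ofNat 0, .ofNat 0, .ofNat 0, .ofNat 0, .ofNat 0, .ofNat 0, .ofNat 0, .ofNat 0, .ofNat 0, .ofNat 0, .ofNat 431313182896552560363120428580864, .ofNat 0, .ofNat 0, .ofNat 0, .ofNat 0, .ofNat 0⟩)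
    (by decide +kernel)
theorem L00720 : Good (Phi V5.P V5.D (-1) 1) ⟨2, 0, 2, 2, 1, 0, 3, 6, 3, 0⟩ :=
  leafX_sound T5.ok_mp T5.Ymp.bz_eq (w := 181) (c := ⟨⟨.negSucc 416, .negSucc 144, .ofNat 74, .negSucc 133, .ofNat 82, .negSucc 529⟩, ⟨.negSucc 188, .negSucc 81, .negSucc 151, .negSucc 89, .ofNat 43, .negSucc 311⟩, ⟨.ofNat 450, .ofNat 63, .ofNat 4, .negSucc 53, .negSucc 114, .ofNat 373⟩, ⟨.negSucc 1381, .negSucc 226, .ofNat 233, .negSucc 194, .ofNat 236, .negSucc 1401⟩, ⟨.ofNat 136, .ofNat 31, .ofNat 43, .negSucc 308, .negSucc 47, .negSucc 279⟩, .ofNat 1612, .negSucc 1724, .ofNat 0, .negSucc 1724, .ofNat 3227, .ofNat 0, .ofNat 128, .ofNat 137, .negSucc 113, .ofNat 0, .ofNat 113, .negSucc 61, .ofNat 0, .ofNat 0, .ofNat 344, .ofNat 374, .ofNat 0, .ofNat 0, .ofNat 793673760849252264689539219456, .ofNat 0, .ofNat 0, .ofNat 0, .ofNat 0, .ofNat 0, .ofNat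 0, .ofNat 0, .ofNat 85182581900457102927778566635520, .ofNat 0, .ofNat 0, .ofNat 0, .ofNat 0, .ofNat 0⟩)
    (by decide +kernel)
theorem L00721 : Good (Phi V5.P V5.D (-1) 1) ⟨2, 1, 2, 2, 1, 0, 3, 6, 3, 0⟩ :=
  leafX_sound T5.ok_mp T5.Ymp.bz_eq (w := 181) (c := ⟨⟨.negSucc 445, .negSucc 486, .negSucc 62, .negSucc 250, .ofNat 118, .negSucc 543⟩, ⟨.negSucc 221, .negSucc 51, .negSucc 237, .negSucc 141, .ofNat 45, .negSucc 292⟩, ⟨.ofNat 560, .ofNat 358, .ofNat 57, .negSucc 158, .negSucc 159, .ofNat 360⟩, ⟨.negSucc 1242, .negSucc 676, .negSucc 45, .negSucc 341, .ofNat 227, .negSucc 1530⟩, ⟨.negSucc 155, .ofNat 39, .negSucc 48, .negSucc 530, .ofNat 71, .ofNat 179⟩, .ofNat 763, .negSucc 627, .ofNat 0, .negSucc 627, .ofNat 1591, .ofNat 0, .ofNat 128, .ofNat 184, .negSucc 124, .ofNat 0, .ofNat 166, .negSucc 50, .ofNat 0, .ofNat 0, .ofNat 301, .ofNat 340, .ofNat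 0, .ofNat 0, .ofNat 881570174936887851188897185792, .ofNat 0, .ofNat 0, .ofNat 0, .ofNat 44250601514747875599250320523264, .ofNat 0, .ofNat 0, .ofNat 0, .ofNat 0, .ofNat 0, .ofNat 0, .ofNat 0, .ofNat 30447023373771506472969304014848, .ofNat 0⟩)
    (by decide +kernel)
theorem L00722 : Good (Phi V5.P V5.D (-1) 1) ⟨2, 0, 2, 2, 1, 0, 4, 14, 3, 0⟩ :=
  leafX_sound T5.ok_mp T5.Ymp.bz_eq (w := 186) (c := ⟨⟨.negSucc 426, .negSucc 113, .ofNat 21, .negSucc 204, .ofNat 115, .negSucc 349⟩, ⟨.negSucc 205, .negSucc 52, .negSucc 161, .negSucc 137, .ofNat 62, .negSucc 198⟩, ⟨.ofNat 472, .ofNat 13, .ofNat 42, .ofNat 29, .negSucc 122, .ofNat 127⟩, ⟨.negSucc 1349, .negSucc 174, .ofNat 144, .negSucc 373, .ofNat 304, .negSucc 936⟩, ⟨.ofNat 23, .ofNat 66, .negSucc 49, .negSucc 411, .ofNat 12, .negSucc 128⟩, .ofNat 1596, .negSucc 1706, .ofNat 0, .negSucc 1706, .ofNat 3208,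 .ofNat 0, .ofNat 128, .ofNat 208, .negSucc 103, .ofNat 0, .ofNat 170, .negSucc 55, .ofNat 0, .ofNat 0, .ofNat 292, .ofNat 902, .ofNat 0, .ofNat 0, .ofNat 0, .ofNat 0, .ofNat 0, .ofNat 0, .ofNat 0, .ofNat 0, .ofNat 0, .ofNat 0, .ofNat 1704582326177831824625716082769920, .ofNat 0, .ofNat 0, .ofNat 0, .ofNat 684338582277098208895761890934784, .ofNat 0⟩)
    (by decide +kernel)
theorem L00723 : Good (Phi V5.P V5.D (-1) 1) ⟨2, 1, 2, 2, 1, 0, 4, 14, 3, 0⟩ :=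
  leafX_sound T5.ok_mp T5.Ymp.bz_eq (w := 186) (c := ⟨⟨.negSucc 510, .negSucc 360, .negSucc 97, .negSucc 254, .ofNat 147, .negSucc 328⟩, ⟨.negSucc 274, .ofNat 1, .negSucc 205, .negSucc 161, .ofNat 69, .negSucc 157⟩, ⟨.ofNat 579, .ofNat 255, .ofNat 132, .negSucc 131, .negSucc 171, .ofNat 106⟩, ⟨.negSucc 1392, .negSucc 418, .negSucc 102, .negSucc 407, .ofNat 336, .negSucc 981⟩, ⟨.negSucc 125, .negSucc 12, .negSucc 97, .negSucc 537, .ofNat 24, .ofNat 257⟩, .ofNat 736, .negSucc 592, .ofNat 0, .negSucc 592, .ofNat 1564, .ofNat 0, .ofNat 200, .ofNat 128, .negSucc 209, .ofNat 0, .ofNat 118, .negSucc 82, .ofNat 0, .ofNat 0, .ofNat 447, .ofNat 656, .ofNat 0, .ofNat 0, .ofNat 27367438525766933483245010944000, .ofNat 0, .ofNat 0, .ofNat 0, .ofNat 0, .ofNat 0, .ofNat 0, .ofNat 0, .ofNat 810481535134304841635318045081600, .ofNat 0, .ofNat 0, .ofNat 0, .ofNat 0,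 .ofNat 0⟩)
    (by decide +kernel)
theorem L00724 : Good (Phi V5.P V5.D (-1) 1) ⟨3, 0, 2, 2, 2, 0, 4, 15, 3, 0⟩ :=
  leafX_sound T5.ok_mp T5.Ymp.bz_eq (w := 205) (c := ⟨⟨.negSucc 449, .negSucc 9, .negSucc 1, .negSucc 173, .ofNat 311, .negSucc 128⟩, ⟨.negSucc 229, .negSucc 13, .negSucc 103, .negSucc 116, .ofNat 183, .negSucc 70⟩, ⟨.ofNat 406, .negSucc 17, .ofNat 5, .ofNat 212, .negSucc 348, .negSucc 85⟩, ⟨.negSucc 1349, .ofNat 1, .ofNat 38, .negSucc 357, .ofNat 920, .negSucc 393⟩, ⟨.negSucc 20, .ofNat 10, .negSucc 15, .negSucc 283, .ofNat 2, .ofNat 18⟩, .ofNat 998, .negSucc 831, .ofNat 0, .negSucc 831, .ofNat 1692, .ofNat 0, .ofNat 128, .ofNat 135, .negSucc 245, .ofNat 0, .ofNat 131, .negSucc 133, .ofNat 0, .ofNat 0, .ofNat 586, .ofNat 2036, .ofNat 0, .ofNat 0, .ofNat 0, .ofNat 0, .ofNat 0, .ofNat 0, .ofNat 0, .ofNat 0, .ofNat 0, .ofNat 0, .ofNat 1929733957754807382045431290910474240,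 .ofNat 0, .ofNat 0, .ofNat 0, .ofNat 0, .ofNat 0⟩)
    (by decide +kernel)
theorem L00725 : Good (Phi V5.P V5.D (-1) 1) ⟨3, 0, 2, 2, 2, 1, 4, 15, 3, 0⟩ :=
  leafX_sound T5.ok_mp T5.Ymp.bz_eq (w := 205) (c := ⟨⟨.negSucc 487, .negSucc 14, .negSucc 84, .negSucc 182, .ofNat 238, .negSucc 225⟩, ⟨.negSucc 254, .negSucc 19, .negSucc 178, .negSucc 109, .ofNat 136, .negSucc 129⟩, ⟨.ofNat 521, .negSucc 74, .ofNat 61, .ofNat 124, .negSucc 216, .negSucc 74⟩, ⟨.negSucc 1315, .negSucc 16, .negSucc 154, .negSucc 452, .ofNat 670, .negSucc 670⟩, ⟨.negSucc 317, .ofNat 43, .negSucc 16, .negSucc 146, .ofNat 60, .negSucc 6⟩, .ofNat 1188, .negSucc 1087, .ofNat 0, .negSucc 1087, .ofNat 2221, .ofNat 0, .ofNat 128, .ofNat 235, .negSucc 180, .ofNat 0, .ofNat 207, .negSucc 87, .ofNat 0, .ofNat 0, .ofNat 452, .ofNat 1720, .ofNat 0, .ofNat 0, .ofNat 0, .ofNat 0, .ofNat 0, .ofNat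 0, .ofNat 0, .ofNat 0, .ofNat 0, .ofNat 0, .ofNat 6065989673275054753332057521971527680, .ofNat 0, .ofNat 0, .ofNat 0, .ofNat 0, .ofNat 0⟩)
    (by decide +kernel)
theorem L00726 : Good (Phi V5.P V5.D (-1) 1) ⟨3, 1, 2, 2, 1, 0, 5, 30, 3, 0⟩ :=
  leafX_sound T5.ok_mp T5.Ymp.bz_eq (w := 194) (c := ⟨⟨.negSucc 348, .negSucc 40, .negSucc 81, .negSucc 271, .ofNat 89, .negSucc 255⟩, ⟨.negSucc 168, .negSucc 17, .negSucc 174, .negSucc 178, .ofNat 53, .negSucc 152⟩, ⟨.ofNat 325, .negSucc 14, .ofNat 96, .ofNat 124, .negSucc 84, .ofNat 29⟩, ⟨.negSucc 1096, .negSucc 2, .negSucc 140, .negSucc 510, .ofNat 251, .negSucc 659⟩, ⟨.ofNat 18, .ofNat 14, .negSucc 10, .negSucc 443, .negSucc 4, .negSucc 114⟩, .ofNat 1724, .negSucc 1914, .ofNat 0, .negSucc 1914, .ofNat 3496, .ofNat 0, .ofNat 128, .ofNat 193, .negSucc 152, .ofNat 0, .ofNat 153, .negSucc 84, .ofNat 0, .ofNat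 0, .ofNat 381, .ofNat 1303, .ofNat 0, .ofNat 0, .ofNat 0, .ofNat 0, .ofNat 0, .ofNat 0, .ofNat 0, .ofNat 0, .ofNat 0, .ofNat 0, .ofNat 8515943604968641973934647549100032, .ofNat 0, .ofNat 0, .ofNat 0, .ofNat 0, .ofNat 0⟩)
    (by decide +kernel)
theorem L00727 : Good (Phi V5.P V5.D (-1) 1) ⟨4, 2, 2, 2, 2, 0, 5, 31, 3, 0⟩ :=
  leafX_sound T5.ok_mp T5.Ymp.bz_eq (w := 213) (c := ⟨⟨.negSucc 392, .negSucc 7, .negSucc 36, .negSucc 146, .ofNat 218, .negSucc 56⟩, ⟨.negSucc 214, .ofNat 0, .negSucc 106, .negSucc 93, .ofNat 134, .negSucc 30⟩, ⟨.ofNat 325, .negSucc 6, .ofNat 49, .ofNat 142, .negSucc 243, .negSucc 159⟩, ⟨.negSucc 1151, .ofNat 10, .negSucc 67, .negSucc 256, .ofNat 638, .negSucc 180⟩, ⟨.negSucc 21, .ofNat 0, .negSucc 7, .negSucc 279, .negSucc 8, .ofNat 24⟩, .ofNat 930, .negSucc 752, .ofNat 0, .negSucc 752, .ofNat 1600, .ofNat 0, .ofNat 128, .ofNat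 173, .negSucc 243, .ofNat 0, .ofNat 170, .negSucc 126, .ofNat 0, .ofNat 0, .ofNat 549, .ofNat 3619, .ofNat 0, .ofNat 93949977581898225563901215720254463803392, .ofNat 819024989584809700965685799216480256, .ofNat 0, .ofNat 0, .ofNat 0, .ofNat 0, .ofNat 0, .ofNat 0, .ofNat 0, .ofNat 24621454441632457287564767017908043776, .ofNat 0, .ofNat 0, .ofNat 0, .ofNat 29393075621884638335200309774152368128, .ofNat 0⟩)
    (by decide +kernel)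
theorem L00728 : Good (Phi V5.P V5.D (-1) 1) ⟨4, 3, 2, 2, 2, 0, 5, 31, 3, 0⟩ :=
  leafX_sound T5.ok_mp T5.Ymp.bz_eq (w := 213) (c := ⟨⟨.negSucc 405, .negSucc 2, .negSucc 24, .negSucc 163, .ofNat 214, .negSucc 41⟩, ⟨.negSucc 213, .ofNat 3, .negSucc 96, .negSucc 105, .ofNat 125, .negSucc 22⟩, ⟨.ofNat 339, .negSucc 17, .ofNat 36, .ofNat 130, .negSucc 233, .negSucc 178⟩, ⟨.negSucc 1122, .ofNat 60, .negSucc 12, .negSucc 294, .ofNat 474, .negSucc 100⟩, ⟨.negSucc 85, .negSucc 49, .negSucc 33, .negSucc 259, .ofNat 189, .negSucc 15⟩, .ofNat 2163, .negSucc 2583, .ofNat 0, .negSucc 2583, .ofNat 4451, .ofNat 0, .ofNat 128, .ofNat 168, .negSucc 197, .ofNat 0, .ofNat 127, .negSucc 118, .ofNat 0, .ofNat 0, .ofNat 456, .ofNat 2637, .ofNat 0, .ofNat 68037690744923361530280972012377570541568, .ofNat 596539644146781655502447626755768320, .ofNat 0, .ofNat 0, .ofNat 0,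 .ofNat 0, .ofNat 0, .ofNat 0, .ofNat 0, .ofNat 16440304376510285877542149440636190720, .ofNat 0, .ofNat 0, .ofNat 0, .ofNat 0, .ofNat 0⟩)
    (by decide +kernel)
theorem L00729 : Good (Phi V5.P V5.D (-1) 1) ⟨3, 1, 2, 2, 2, 1, 5, 31, 4, 0⟩ :=
  leafX_sound T5.ok_mp T5.Ymp.bz_eq (w := 214) (c := ⟨⟨.negSucc 460, .negSucc 60, .negSucc 78, .negSucc 128, .ofNat 109, .negSucc 63⟩, ⟨.negSucc 257, .negSucc 22, .negSucc 147, .negSucc 85, .ofNat 66, .negSucc 37⟩, ⟨.ofNat 439, .negSucc 37, .ofNat 72, .ofNat 18, .negSucc 102, .negSucc 76⟩, ⟨.negSucc 1200, .negSucc 60, .negSucc 119, .negSucc 242, .ofNat 308, .negSucc 206⟩, ⟨.negSucc 317, .negSucc 40, .negSucc 11, .negSucc 203, .ofNat 6, .ofNat 33⟩, .ofNat 910, .negSucc 738, .ofNat 0, .negSucc 738, .ofNat 1598, .ofNat 0, .ofNat 128, .ofNat 243, .negSucc 215, .ofNat 0, .ofNat 227, .negSucc 101, .ofNat 0, .ofNat 0,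 .ofNat 446, .ofNat 2778, .ofNat 0, .ofNat 28759482676345603425477812013657902546944, .ofNat 74017206951105904473682263265278689280, .ofNat 0, .ofNat 0, .ofNat 0, .ofNat 0, .ofNat 0, .ofNat 0, .ofNat 0, .ofNat 0, .ofNat 0, .ofNat 0, .ofNat 0, .ofNat 0, .ofNat 0⟩)
    (by decide +kernel)
theorem L00730 : Good (Phi V5.P V5.D (-1) 1) ⟨3, 1, 2, 2, 3, 2, 6, 62, 4, 1⟩ :=
  leafX_sound T5.ok_mp T5.Ymp.bz_eq (w := 233) (c := ⟨⟨.negSucc 537, .negSucc 14, .negSucc 56, .negSucc 115, .ofNat 88, .negSucc 51⟩, ⟨.negSucc 298, .ofNat 8, .negSucc 154, .negSucc 71, .ofNat 51, .negSucc 25⟩, ⟨.ofNat 373, .negSucc 51, .ofNat 56, .ofNat 51, .negSucc 95, .negSucc 87⟩, ⟨.negSucc 1416, .ofNat 45, .negSucc 93, .negSucc 282, .ofNat 247, .negSucc 205⟩, ⟨.negSucc 317, .ofNat 23, .negSucc 5, .negSucc 78, .ofNat 3, .ofNat 98⟩, .ofNat 917, .negSucc 745, .ofNat 0, .negSucc 745, .ofNat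 1603, .ofNat 0, .ofNat 128, .ofNat 202, .negSucc 174, .ofNat 0, .ofNat 190, .negSucc 83, .ofNat 0, .ofNat 0, .ofNat 412, .ofNat 7826, .ofNat 0, .ofNat 0, .ofNat 0, .ofNat 0, .ofNat 0, .ofNat 0, .ofNat 0, .ofNat 0, .ofNat 0, .ofNat 0, .ofNat 922070733973406227257794968718088942664024064, .ofNat 0, .ofNat 0, .ofNat 0, .ofNat 561021448347008192561050920620169557048295424, .ofNat 0⟩)
    (by decide +kernel)
theorem L00731 : Good (Phi V5.P V5.D (-1) 1) ⟨3, 1, 2, 2, 3, 2, 6, 63, 4, 1⟩ :=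
  leafX_sound T5.ok_mp T5.Ymp.bz_eq (w := 233) (c := ⟨⟨.negSucc 463, .negSucc 0, .negSucc 51, .negSucc 124, .ofNat 114, .negSucc 29⟩, ⟨.negSucc 258, .ofNat 13, .negSucc 133, .negSucc 76, .ofNat 71, .negSucc 14⟩, ⟨.ofNat 292, .negSucc 65, .ofNat 49, .ofNat 71, .negSucc 116, .negSucc 116⟩, ⟨.negSucc 1184, .ofNat 64, .negSucc 77, .negSucc 324, .ofNat 329, .negSucc 160⟩, ⟨.negSucc 332, .ofNat 34, .negSucc 8, .negSucc 67, .negSucc 1, .ofNat 114⟩, .ofNat 472, .negSucc 228, .ofNat 0, .negSucc 228, .ofNat 668, .ofNat 0, .ofNat 146, .ofNat 95, .negSucc 218, .ofNat 0, .ofNat 128, .negSucc 77, .ofNat 0, .ofNat 0, .ofNat 392, .ofNat 5084, .ofNat 0, .ofNat 1149250983040932882035673420094469960848375808, .ofNat 42810430649710533483281029216175425146847232, .ofNat 0, .ofNat 0, .ofNat 0, .ofNat 0, .ofNat 0, .ofNat 0, .ofNat 550628515805726990122036482159588821862187008,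 .ofNat 192973031002496798877825887163670624439631872, .ofNat 0, .ofNat 0, .ofNat 626180648614506614871249937022763090753617920, .ofNat 323047998465334745704670266296168936059699200, .ofNat 0⟩)
    (by decide +kernel)
theorem L00732 : Good (Phi V5.P V5.D (-1) 1) ⟨3, 1, 2, 2, 3, 3, 5, 31, 4, 1⟩ :=
  leafX_sound T5.ok_mp T5.Ymp.bz_eq (w := 228) (c := ⟨⟨.negSucc 644, .negSucc 13, .negSucc 52, .negSucc 143, .ofNat 177, .negSucc 73⟩, ⟨.negSucc 362, .ofNat 12, .negSucc 171, .negSucc 85, .ofNat 104, .negSucc 37⟩, ⟨.ofNat 445, .negSucc 95, .ofNat 22, .ofNat 37, .negSucc 168, .negSucc 77⟩, ⟨.negSucc 1663, .ofNat 49, .negSucc 49, .negSucc 370, .ofNat 480, .negSucc 316⟩, ⟨.negSucc 443, .ofNat 60, .negSucc 29, .negSucc 54, .ofNat 41, .ofNat 163⟩, .ofNat 928, .negSucc 765, .ofNat 0, .negSucc 765, .ofNat 1629, .ofNat 0, .ofNat 128, .ofNat 176, .negSucc 149, .ofNat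 0, .ofNat 159, .negSucc 66, .ofNat 0, .ofNat 0, .ofNat 347, .ofNat 3172, .ofNat 0, .ofNat 109349365715671382222385698740501729203191808, .ofNat 1803023844265055123981058293229200628252672, .ofNat 0, .ofNat 0, .ofNat 0, .ofNat 0, .ofNat 0, .ofNat 0, .ofNat 0, .ofNat 19360979071372531841842592991331127769694208, .ofNat 0, .ofNat 0, .ofNat 0, .ofNat 10340269348430542901425451591822953448210432, .ofNat 0⟩)
    (by decide +kernel)
theorem L00733 : Good (Phi V5.P V5.D (-1) 1) ⟨3, 2, 2, 2, 2, 0, 4, 15, 3, 0⟩ :=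
  leafX_sound T5.ok_mp T5.Ymp.bz_eq (w := 205) (c := ⟨⟨.negSucc 559, .negSucc 96, .negSucc 11, .negSucc 150, .ofNat 389, .negSucc 80⟩, ⟨.negSucc 291, .negSucc 13, .negSucc 117, .negSucc 90, .ofNat 207, .negSucc 33⟩, ⟨.ofNat 505, .ofNat 64, .ofNat 19, .ofNat 76, .negSucc 426, .negSucc 117⟩, ⟨.negSucc 1493, .negSucc 121, .negSucc 25, .negSucc 282, .ofNat 1010, .negSucc 232⟩, ⟨.negSucc 81, .negSucc 5, .ofNat 34, .negSucc 226, .ofNat 12, .ofNat 58⟩, .ofNat 836, .negSucc 706, .ofNat 0, .negSucc 706, .ofNat 1649, .ofNat 0, .ofNat 128, .ofNat 157, .negSucc 321, .ofNat 0, .ofNat 145, .negSucc 150, .ofNat 0, .ofNat 0, .ofNat 675, .ofNat 2173, .ofNat 0, .ofNat 771323415610225647903850641224588328960, .ofNat 136105878593603548368768092837249024, .ofNat 0, .ofNat 0, .ofNat 819438038676520729150668576392526954496, .ofNat 0, .ofNat 0, .ofNat 0, .ofNat 0, .ofNat 4812788466321542343913477022846812160,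 .ofNat 0, .ofNat 0, .ofNat 0, .ofNat 0, .ofNat 0⟩)
    (by decide +kernel)
theorem L00734 : Good (Phi V5.P V5.D (-1) 1) ⟨3, 3, 2, 2, 2, 0, 4, 15, 3, 0⟩ :=
  leafX_sound T5.ok_mp T5.Ymp.bz_eq (w := 205) (c := ⟨⟨.negSucc 711, .negSucc 106, .negSucc 28, .negSucc 126, .ofNat 454, .negSucc 45⟩, ⟨.negSucc 322, .ofNat 10, .negSucc 108, .negSucc 65, .ofNat 201, .negSucc 16⟩, ⟨.ofNat 658, .ofNat 76, .ofNat 40, .negSucc 9, .negSucc 493, .negSucc 152⟩, ⟨.negSucc 1715, .negSucc 110, .negSucc 7, .negSucc 201, .ofNat 1080, .negSucc 167⟩, ⟨.negSucc 107, .ofNat 30, .ofNat 12, .negSucc 247, .ofNat 10, .ofNat 131⟩, .ofNat 682, .negSucc 536, .ofNat 0, .negSucc 536, .ofNat 1537, .ofNat 0, .ofNat 195, .ofNat 128, .negSucc 326, .ofNat 0, .ofNat 123, .negSucc 123, .ofNat 0, .ofNat 0, .ofNat 645, .ofNat 2161, .ofNat 0, .ofNat 0, .ofNat 0, .ofNat 0, .ofNat 0, .ofNat 0, .ofNat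 0, .ofNat 0, .ofNat 0, .ofNat 0, .ofNat 7641489076426811927633057200897785856, .ofNat 0, .ofNat 0, .ofNat 0, .ofNat 0, .ofNat 0⟩)
    (by decide +kernel)
theorem L00735 : Good (Phi V5.P V5.D (-1) 1) ⟨4, 4, 2, 2, 2, 1, 4, 15, 4, 0⟩ :=
  leafX_sound T5.ok_mp T5.Ymp.bz_eq (w := 214) (c := ⟨⟨.negSucc 619, .negSucc 6, .negSucc 63, .negSucc 142, .ofNat 215, .negSucc 77⟩, ⟨.negSucc 330, .ofNat 14, .negSucc 151, .negSucc 91, .ofNat 126, .negSucc 43⟩, ⟨.ofNat 526, .negSucc 34, .ofNat 64, .negSucc 25, .negSucc 213, .negSucc 55⟩, ⟨.negSucc 1551, .ofNat 82, .negSucc 54, .negSucc 237, .ofNat 577, .negSucc 259⟩, ⟨.negSucc 317, .negSucc 68, .negSucc 36, .negSucc 248, .negSucc 5, .ofNat 83⟩, .ofNat 884, .negSucc 752, .ofNat 0, .negSucc 752, .ofNat 1672, .ofNat 0, .ofNat 128, .ofNat 194, .negSucc 340, .ofNat 0, .ofNat 172, .negSucc 158, .ofNat 0, .ofNat 0, .ofNat 675,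 .ofNat 2016, .ofNat 0, .ofNat 48244159503109703741303192972441793069056, .ofNat 940892683488887559838769825080934400, .ofNat 0, .ofNat 0, .ofNat 0, .ofNat 0, .ofNat 0, .ofNat 0, .ofNat 0, .ofNat 19460279633079609465230736450381676544, .ofNat 0, .ofNat 0, .ofNat 0, .ofNat 0, .ofNat 0⟩)
    (by decide +kernel)
theorem L00736 : Good (Phi V5.P V5.D (-1) 1) ⟨4, 5, 2, 2, 2, 1, 4, 15, 4, 0⟩ :=
  leafX_sound T5.ok_mp T5.Ymp.bz_eq (w := 214) (c := ⟨⟨.negSucc 632, .negSucc 62, .negSucc 123, .negSucc 161, .ofNat 235, .negSucc 92⟩, ⟨.negSucc 323, .negSucc 4, .negSucc 191, .negSucc 91, .ofNat 123, .negSucc 43⟩, ⟨.ofNat 516, .ofNat 19, .ofNat 118, .negSucc 41, .negSucc 242, .negSucc 48⟩, ⟨.negSucc 1474, .negSucc 75, .negSucc 231, .negSucc 256, .ofNat 584, .negSucc 319⟩, ⟨.negSucc 406, .negSucc 14, .ofNat 39, .negSucc 316, .ofNat 41, .ofNat 163⟩, .ofNat 884, .negSucc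 796, .ofNat 0, .negSucc 796, .ofNat 1760, .ofNat 0, .ofNat 128, .ofNat 147, .negSucc 228, .ofNat 0, .ofNat 123, .negSucc 106, .ofNat 0, .ofNat 0, .ofNat 429, .ofNat 1683, .ofNat 0, .ofNat 36464820370451865929281989542796167479296, .ofNat 936959847205455625756490192255975424, .ofNat 0, .ofNat 0, .ofNat 0, .ofNat 0, .ofNat 0, .ofNat 0, .ofNat 0, .ofNat 11462667704378965221229959119582003200, .ofNat 0, .ofNat 0, .ofNat 0, .ofNat 48722965715621549840496567392244072448, .ofNat 0⟩)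
    (by decide +kernel)
theorem L00737 : Good (Phi V5.P V5.D (-1) 1) ⟨3, 3, 2, 2, 2, 1, 4, 15, 4, 0⟩ :=
  leafX_sound T5.ok_mp T5.Ymp.bz_eq (w := 210) (c := ⟨⟨.negSucc 734, .negSucc 199, .negSucc 64, .negSucc 206, .ofNat 307, .negSucc 44⟩, ⟨.negSucc 343, .negSucc 14, .negSucc 172, .negSucc 108, .ofNat 133, .negSucc 11⟩, ⟨.ofNat 590, .ofNat 109, .ofNat 59, .negSucc 35, .negSucc 311, .negSucc 94⟩, ⟨.negSucc 1658, .negSucc 282, .negSucc 46, .negSucc 364, .ofNat 719, .negSucc 177⟩, ⟨.negSucc 394, .negSucc 17, .negSucc 21, .negSucc 309, .ofNat 13, .ofNat 160⟩, .ofNat 674, .negSucc 527, .ofNat 0, .negSucc 527, .ofNat 1528, .ofNat 0, .ofNat 164, .ofNat 128, .negSucc 314, .ofNat 0, .ofNat 115, .negSucc 108, .ofNat 0, .ofNat 0, .ofNat 539, .ofNat 1529, .ofNat 0, .ofNat 1725569056801655980649278611004739026944, .ofNat 3886136761110231174967265605472747520, .ofNat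 0, .ofNat 0, .ofNat 0, .ofNat 0, .ofNat 0, .ofNat 0, .ofNat 0, .ofNat 120616110245930127045409723652444782592, .ofNat 0, .ofNat 0, .ofNat 0, .ofNat 0, .ofNat 0⟩)
    (by decide +kernel)
theorem L00738 : Good (Phi V5.P V5.D (-1) 1) ⟨3, 2, 2, 2, 2, 1, 5, 30, 4, 1⟩ :=
  leafX_sound T5.ok_mp T5.Ymp.bz_eq (w := 214) (c := ⟨⟨.negSucc 714, .negSucc 90, .negSucc 70, .negSucc 227, .ofNat 147, .negSucc 46⟩, ⟨.negSucc 376, .ofNat 12, .negSucc 206, .negSucc 133, .ofNat 82, .negSucc 18⟩, ⟨.ofNat 522, .ofNat 12, .ofNat 49, .negSucc 22, .negSucc 151, .negSucc 77⟩, ⟨.negSucc 1793, .negSucc 65, .negSucc 113, .negSucc 525, .ofNat 365, .negSucc 221⟩, ⟨.negSucc 365, .ofNat 49, .negSucc 16, .negSucc 142, .ofNat 38, .ofNat 179⟩, .ofNat 842, .negSucc 713, .ofNat 0, .negSucc 713, .ofNat 1654, .ofNat 0, .ofNat 128, .ofNat 161, .negSucc 120, .ofNat 0, .ofNat 140, .negSucc 51,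 .ofNat 0, .ofNat 0, .ofNat 274, .ofNat 2723, .ofNat 0, .ofNat 0, .ofNat 0, .ofNat 0, .ofNat 0, .ofNat 0, .ofNat 0, .ofNat 0, .ofNat 0, .ofNat 0, .ofNat 2078705269319869477507878510253641302016, .ofNat 0, .ofNat 0, .ofNat 0, .ofNat 657077814551071446061932463439331983360, .ofNat 0⟩)
    (by decide +kernel)
theorem L00739 : Good (Phi V5.P V5.D (-1) 1) ⟨3, 2, 2, 2, 2, 1, 6, 62, 4, 1⟩ :=
  leafX_sound T5.ok_mp T5.Ymp.bz_eq (w := 218) (c := ⟨⟨.negSucc 585, .negSucc 52, .negSucc 70, .negSucc 258, .ofNat 108, .negSucc 11⟩, ⟨.negSucc 310, .ofNat 19, .negSucc 175, .negSucc 146, .ofNat 60, .ofNat 0⟩, ⟨.ofNat 373, .negSucc 22, .ofNat 50, .ofNat 30, .negSucc 110, .negSucc 115⟩, ⟨.negSucc 1434, .ofNat 9, .negSucc 110, .negSucc 648, .ofNat 282, .negSucc 145⟩, ⟨.negSucc 359, .ofNat 25, .negSucc 33, .negSucc 74, .ofNat 10, .ofNat 199⟩, .ofNat 826, .negSucc 690, .ofNat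 0, .negSucc 690, .ofNat 1632, .ofNat 0, .ofNat 128, .ofNat 154, .negSucc 118, .ofNat 0, .ofNat 135, .negSucc 49, .ofNat 0, .ofNat 0, .ofNat 254, .ofNat 2556, .ofNat 0, .ofNat 0, .ofNat 0, .ofNat 0, .ofNat 0, .ofNat 0, .ofNat 0, .ofNat 0, .ofNat 0, .ofNat 0, .ofNat 40572870591530856279193272916072271446016, .ofNat 0, .ofNat 0, .ofNat 0, .ofNat 8676770356486142913077977780035161948160, .ofNat 0⟩)
    (by decide +kernel)
theorem L00740 : Good (Phi V5.P V5.D (-1) 1) ⟨3, 2, 2, 2, 3, 2, 6, 63, 4, 1⟩ :=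
  leafX_sound T5.ok_mp T5.Ymp.bz_eq (w := 232) (c := ⟨⟨.negSucc 508, .negSucc 22, .negSucc 47, .negSucc 116, .ofNat 142, .ofNat 22⟩, ⟨.negSucc 272, .ofNat 24, .negSucc 129, .negSucc 68, .ofNat 82, .ofNat 16⟩, ⟨.ofNat 276, .negSucc 41, .ofNat 43, .ofNat 33, .negSucc 145, .negSucc 153⟩, ⟨.negSucc 1222, .ofNat 33, .negSucc 75, .negSucc 294, .ofNat 375, .negSucc 30⟩, ⟨.negSucc 341, .ofNat 37, .negSucc 3, .negSucc 36, .ofNat 7, .ofNat 161⟩, .ofNat 450, .negSucc 223, .ofNat 0, .negSucc 223, .ofNat 682, .ofNat 0, .ofNat 128, .ofNat 105, .negSucc 204, .ofNat 0, .ofNat 136, .negSucc 69, .ofNat 0, .ofNat 0, .ofNat 343, .ofNat 4056, .ofNat 0, .ofNat 772317572939159279104485531950268485080186880, .ofNat 35171276733084817570703927762938330810941440, .ofNat 0, .ofNat 0, .ofNat 0, .ofNat 0, .ofNat 0, .ofNat 0, .ofNat 0, .ofNat 442634020832066276524696530629959577973555200,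 .ofNat 0, .ofNat 0, .ofNat 735633933363692571715363533325218654585880576, .ofNat 369739184460088404699198177746278452102692864, .ofNat 0⟩)
    (by decide +kernel)
theorem L00741 : Good (Phi V5.P V5.D (-1) 1) ⟨3, 2, 2, 2, 3, 3, 6, 63, 4, 1⟩ :=
  leafX_sound T5.ok_mp T5.Ymp.bz_eq (w := 232) (c := ⟨⟨.negSucc 608, .negSucc 42, .negSucc 82, .negSucc 154, .ofNat 122, .ofNat 13⟩, ⟨.negSucc 327, .ofNat 24, .negSucc 172, .negSucc 83, .ofNat 66, .ofNat 13⟩, ⟨.ofNat 311, .negSucc 48, .ofNat 48, .ofNat 20, .negSucc 117, .negSucc 146⟩, ⟨.negSucc 1464, .ofNat 10, .negSucc 137, .negSucc 382, .ofNat 317, .negSucc 93⟩, ⟨.negSucc 429, .ofNat 58, .negSucc 24, .negSucc 48, .ofNat 15, .ofNat 241⟩, .ofNat 918, .negSucc 824, .ofNat 0, .negSucc 824, .ofNat 1770, .ofNat 0, .ofNat 128, .ofNat 176, .negSucc 172, .ofNat 0, .ofNat 146, .negSucc 77, .ofNat 0, .ofNat 0, .ofNat 342,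 .ofNat 3541, .ofNat 0, .ofNat 500427581140104283421677823445938392210079744, .ofNat 31649082425973662813738945016309811110739968, .ofNat 0, .ofNat 0, .ofNat 0, .ofNat 0, .ofNat 0, .ofNat 0, .ofNat 3392971063414817520415641092115627786331226112, .ofNat 520961185955404175774892624379726794212769792, .ofNat 0, .ofNat 0, .ofNat 8074119687000105843584333612867183677271965696, .ofNat 310578583452674038332407034595010076513140736, .ofNat 0⟩)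
    (by decide +kernel)
theorem L00742 : Good (Phi V5.P V5.D (-1) 1) ⟨3, 3, 2, 2, 2, 1, 4, 15, 4, 1⟩ :=
  leafX_sound T5.ok_mp T5.Ymp.bz_eq (w := 210) (c := ⟨⟨.negSucc 848, .negSucc 170, .negSucc 109, .negSucc 278, .ofNat 468, .ofNat 18⟩, ⟨.negSucc 395, .ofNat 9, .negSucc 204, .negSucc 122, .ofNat 205, .ofNat 20⟩, ⟨.ofNat 585, .ofNat 99, .ofNat 114, .ofNat 12, .negSucc 495, .negSucc 136⟩, ⟨.negSucc 1941, .negSucc 217, .negSucc 238, .negSucc 658, .ofNat 1097, .negSucc 45⟩, ⟨.negSucc 390, .ofNat 56, .ofNat 16, .negSucc 40, .ofNat 60, .ofNat 219⟩, .ofNat 678, .negSucc 530, .ofNat 0, .negSucc 530, .ofNat 1533, .ofNat 0, .ofNat 168, .ofNat 128, .negSucc 188, .ofNat 0, .ofNat 114, .negSucc 62, .ofNat 0, .ofNat 0, .ofNat 368, .ofNat 1649, .ofNat 0, .ofNat 1387198265980335825834424806248087027712, .ofNat 3881026332456744079546603343043362816, .ofNat 0, .ofNat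 0, .ofNat 2971539931027358485955898808490725998592, .ofNat 558632679150797925546698567572988624896, .ofNat 0, .ofNat 0, .ofNat 0, .ofNat 308143366016422288636630337708061884416, .ofNat 0, .ofNat 0, .ofNat 0, .ofNat 334863287211875965576209020780743229440, .ofNat 0⟩)
    (by decide +kernel)
theorem L00743 : Good (Phi V5.P V5.D (-1) 1) ⟨1, 0, 2, 2, 1, 0, 1, 0, 4, 2⟩ :=
  leafX_sound T5.ok_mp T5.Ymp.bz_eq (w := 175) (c := ⟨⟨.negSucc 1115, .negSucc 655, .ofNat 39, .negSucc 201, .ofNat 237, .negSucc 186⟩, ⟨.negSucc 627, .negSucc 67, .negSucc 381, .negSucc 144, .ofNat 122, .negSucc 64⟩, ⟨.ofNat 1354, .ofNat 704, .ofNat 12, .negSucc 326, .negSucc 552, .ofNat 326⟩, ⟨.negSucc 3479, .negSucc 565, .ofNat 12, .negSucc 200, .ofNat 478, .negSucc 435⟩, ⟨.negSucc 149, .ofNat 29, .negSucc 32, .negSucc 688, .ofNat 248, .ofNat 34⟩, .ofNat 436, .negSucc 190, .ofNat 0,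 .negSucc 190, .ofNat 657, .ofNat 0, .ofNat 202, .ofNat 83, .negSucc 138, .ofNat 0, .ofNat 128, .negSucc 32, .ofNat 0, .ofNat 0, .ofNat 617, .ofNat 1266, .ofNat 0, .ofNat 0, .ofNat 0, .ofNat 0, .ofNat 0, .ofNat 0, .ofNat 129170937925041287311211003641856, .ofNat 0, .ofNat 0, .ofNat 0, .ofNat 0, .ofNat 0, .ofNat 12566129060899952359275631705325568, .ofNat 0, .ofNat 171694335042599083672428726976512, .ofNat 0⟩)
    (by decide +kernel)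
theorem L00744 : Good (Phi V5.P V5.D (-1) 1) ⟨2, 0, 2, 2, 1, 0, 1, 0, 4, 3⟩ :=
  leafX_sound T5.ok_mp T5.Ymp.bz_eq (w := 180) (c := ⟨⟨.negSucc 1335, .negSucc 155, .negSucc 58, .negSucc 157, .ofNat 211, .ofNat 32⟩, ⟨.negSucc 695, .negSucc 84, .negSucc 328, .negSucc 119, .ofNat 132, .ofNat 13⟩, ⟨.ofNat 1655, .ofNat 119, .ofNat 97, .negSucc 315, .negSucc 490, .ofNat 48⟩, ⟨.negSucc 3951, .negSucc 107, .negSucc 73, .negSucc 184, .ofNat 525, .ofNat 29⟩, ⟨.negSucc 175, .ofNat 6, .ofNat 23, .negSucc 520, .ofNat 143, .ofNat 88⟩, .ofNat 876, .negSucc 674, .ofNat 0, .negSucc 674, .ofNat 1528, .ofNat 0, .ofNat 152, .ofNat 127, .negSucc 103, .ofNat 0, .ofNat 128, .negSucc 41, .ofNat 0, .ofNat 0, .ofNat 856, .ofNat 2995, .ofNat 0, .ofNat 0, .ofNat 0, .ofNat 0, .ofNat 0, .ofNat 0, .ofNat 0, .ofNat 0, .ofNat 0, .ofNat 0, .ofNat 0, .ofNat 0, .ofNat 708028917449337429636554822376226816,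 .ofNat 0, .ofNat 118353173988936640176289677836288, .ofNat 0⟩)
    (by decide +kernel)
theorem L00745 : Good (Phi V5.P V5.D (-1) 1) ⟨2, 1, 2, 2, 1, 0, 1, 0, 4, 3⟩ :=
  leafX_sound T5.ok_mp T5.Ymp.bz_eq (w := 179) (c := ⟨⟨.negSucc 1539, .negSucc 441, .negSucc 41, .negSucc 251, .ofNat 302, .ofNat 61⟩, ⟨.negSucc 803, .ofNat 53, .negSucc 333, .negSucc 146, .ofNat 152, .ofNat 39⟩, ⟨.ofNat 1985, .ofNat 463, .ofNat 88, .negSucc 215, .negSucc 761, .ofNat 19⟩, ⟨.negSucc 4171, .negSucc 299, .negSucc 40, .negSucc 390, .ofNat 672, .ofNat 165⟩, ⟨.negSucc 134, .ofNat 19, .ofNat 12, .negSucc 525, .ofNat 173, .ofNat 20⟩, .ofNat 420, .negSucc 185, .ofNat 0, .negSucc 185, .ofNat 667, .ofNat 0, .ofNat 176, .ofNat 84, .negSucc 98, .ofNat 0, .ofNat 128, .negSucc 20, .ofNat 0, .ofNat 0, .ofNat 563, .ofNat 1218, .ofNat 0, .ofNat 0, .ofNat 0, .ofNat 0, .ofNat 0, .ofNat 0,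 .ofNat 0, .ofNat 0, .ofNat 0, .ofNat 0, .ofNat 0, .ofNat 0, .ofNat 193128588426640427340211637106769920, .ofNat 0, .ofNat 68307457467329650879758579269632, .ofNat 0⟩)
    (by decide +kernel)
theorem L00746 : Good (Phi V5.P V5.D (-1) 1) ⟨2, 0, 2, 2, 1, 0, 2, 2, 3, 1⟩ :=
  leafX_sound T5.ok_mp T5.Ymp.bz_eq (w := 179) (c := ⟨⟨.negSucc 1145, .negSucc 106, .negSucc 36, .negSucc 185, .ofNat 145, .ofNat 38⟩, ⟨.negSucc 607, .negSucc 50, .negSucc 301, .negSucc 121, .ofNat 92, .ofNat 32⟩, ⟨.ofNat 1214, .ofNat 20, .ofNat 15, .negSucc 180, .negSucc 270, .negSucc 62⟩, ⟨.negSucc 3424, .negSucc 25, .ofNat 0, .negSucc 308, .ofNat 357, .ofNat 60⟩, ⟨.negSucc 146, .ofNat 82, .negSucc 92, .negSucc 383, .ofNat 78, .ofNat 100⟩, .ofNat 905, .negSucc 713, .ofNat 0, .negSucc 713, .ofNat 1563, .ofNat 0, .ofNat 128, .ofNat 155, .negSucc 85, .ofNat 0, .ofNat 153, .negSucc 38,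 .ofNat 0, .ofNat 0, .ofNat 499, .ofNat 1941, .ofNat 0, .ofNat 0, .ofNat 65506915201001923663148089344, .ofNat 0, .ofNat 0, .ofNat 0, .ofNat 0, .ofNat 0, .ofNat 0, .ofNat 0, .ofNat 7582478513286609668434709970944, .ofNat 0, .ofNat 0, .ofNat 0, .ofNat 0, .ofNat 0⟩)
    (by decide +kernel)
theorem L00747 : Good (Phi V5.P V5.D (-1) 1) ⟨2, 1, 2, 2, 1, 0, 2, 2, 4, 2⟩ :=
  leafX_sound T5.ok_mp T5.Ymp.bz_eq (w := 184) (c := ⟨⟨.negSucc 1236, .negSucc 419, .negSucc 33, .negSucc 252, .ofNat 205, .negSucc 7⟩, ⟨.negSucc 639, .ofNat 36, .negSucc 304, .negSucc 147, .ofNat 96, .negSucc 3⟩, ⟨.ofNat 1281, .ofNat 383, .ofNat 53, .negSucc 258, .negSucc 308, .ofNat 15⟩, ⟨.negSucc 3390, .negSucc 340, .negSucc 48, .negSucc 432, .ofNat 478, .negSucc 42⟩, ⟨.negSucc 80, .ofNat 51, .ofNat 23, .negSucc 458, .ofNat 66, .ofNat 47⟩, .ofNat 420, .negSucc 187, .ofNat 0, .negSucc 187,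 .ofNat 669, .ofNat 0, .ofNat 256, .ofNat 88, .negSucc 166, .ofNat 0, .ofNat 128, .negSucc 40, .ofNat 0, .ofNat 0, .ofNat 559, .ofNat 2227, .ofNat 0, .ofNat 0, .ofNat 0, .ofNat 0, .ofNat 0, .ofNat 0, .ofNat 712579303782135928456551113687040, .ofNat 0, .ofNat 0, .ofNat 0, .ofNat 233886168751677457456749351010304, .ofNat 0, .ofNat 0, .ofNat 0, .ofNat 0, .ofNat 0⟩)
    (by decide +kernel)
theorem L00748 : Good (Phi V5.P V5.D (-1) 1) ⟨2, 1, 2, 2, 1, 0, 2, 2, 4, 3⟩ :=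
  leafX_sound T5.ok_mp T5.Ymp.bz_eq (w := 185) (c := ⟨⟨.negSucc 1320, .negSucc 361, .ofNat 1, .negSucc 238, .ofNat 217, .ofNat 108⟩, ⟨.negSucc 688, .ofNat 68, .negSucc 281, .negSucc 115, .ofNat 110, .ofNat 40⟩, ⟨.ofNat 1372, .ofNat 349, .ofNat 35, .negSucc 252, .negSucc 394, .negSucc 65⟩, ⟨.negSucc 3610, .negSucc 182, .ofNat 54, .negSucc 386, .ofNat 511, .ofNat 222⟩, ⟨.negSucc 93, .ofNat 42, .ofNat 10, .negSucc 399, .ofNat 87, .ofNat 71⟩, .ofNat 422, .negSucc 188, .ofNat 0, .negSucc 188, .ofNat 669, .ofNat 0, .ofNat 236, .ofNat 86, .negSucc 89, .ofNat 0, .ofNat 128, .negSucc 21, .ofNat 0, .ofNat 0, .ofNat 424, .ofNat 2773, .ofNat 0, .ofNat 0, .ofNat 0, .ofNat 0, .ofNat 0, .ofNat 0, .ofNat 487818023060262036456695939465216, .ofNat 0, .ofNat 0, .ofNat 0, .ofNat 363309450567464506825102074052608, .ofNat 0, .ofNat 0, .ofNat 0, .ofNat 328310290086048544120561270259712,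 .ofNat 0⟩)
    (by decide +kernel)
theorem L00749 : Good (Phi V5.P V5.D (-1) 1) ⟨2, 0, 2, 2, 1, 0, 3, 6, 4, 2⟩ :=
  leafX_sound T5.ok_mp T5.Ymp.bz_eq (w := 188) (c := ⟨⟨.negSucc 942, .negSucc 98, .negSucc 13, .negSucc 235, .ofNat 139, .negSucc 20⟩, ⟨.negSucc 481, .negSucc 38, .negSucc 263, .negSucc 161, .ofNat 88, .negSucc 17⟩, ⟨.ofNat 932, .ofNat 13, .negSucc 13, .negSucc 107, .negSucc 215, .negSucc 40⟩, ⟨.negSucc 2832, .negSucc 31, .ofNat 7, .negSucc 458, .ofNat 396, .negSucc 116⟩, ⟨.negSucc 62, .ofNat 40, .negSucc 6, .negSucc 404, .ofNat 24, .ofNat 41⟩, .ofNat 462, .negSucc 203, .ofNat 0, .negSucc 203, .ofNat 652, .ofNat 0, .ofNat 184, .ofNat 84, .negSucc 103, .ofNat 0, .ofNat 128, .negSucc 30, .ofNat 0, .ofNat 0, .ofNat 349, .ofNat 1635, .ofNat 0, .ofNat 0, .ofNat 0, .ofNat 0, .ofNat 0, .ofNat 0, .ofNat 0, .ofNat 0, .ofNat 0, .ofNat 0, .ofNat 0,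 .ofNat 0, .ofNat 0, .ofNat 0, .ofNat 0, .ofNat 0⟩)
    (by decide +kernel)
theorem L00750 : Good (Phi V5.P V5.D (-1) 1) ⟨2, 0, 2, 2, 1, 0, 3, 6, 4, 3⟩ :=
  leafX_sound T5.ok_mp T5.Ymp.bz_eq (w := 188) (c := ⟨⟨.negSucc 983, .negSucc 67, .negSucc 23, .negSucc 218, .ofNat 140, .ofNat 10⟩, ⟨.negSucc 510, .negSucc 29, .negSucc 255, .negSucc 137, .ofNat 84, .ofNat 7⟩, ⟨.ofNat 920, .negSucc 2, .negSucc 11, .negSucc 91, .negSucc 241, .negSucc 76⟩, ⟨.negSucc 2978, .ofNat 53, .negSucc 21, .negSucc 445, .ofNat 380, .ofNat 8⟩, ⟨.negSucc 66, .ofNat 58, .negSucc 14, .negSucc 323, .ofNat 34, .ofNat 43⟩, .ofNat 892, .negSucc 700, .ofNat 0, .negSucc 700, .ofNat 1555, .ofNat 0, .ofNat 156, .ofNat 128, .negSucc 98, .ofNat 0, .ofNat 127, .negSucc 45, .ofNat 0, .ofNat 0, .ofNat 533, .ofNat 2812, .ofNat 0, .ofNat 0, .ofNat 64993118024970672184658780749824, .ofNat 0, .ofNat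 0, .ofNat 0, .ofNat 0, .ofNat 0, .ofNat 0, .ofNat 0, .ofNat 4274516537275838687320391123206144, .ofNat 0, .ofNat 0, .ofNat 0, .ofNat 0, .ofNat 0⟩)
    (by decide +kernel)
theorem L00751 : Good (Phi V5.P V5.D (-1) 1) ⟨2, 1, 2, 2, 1, 0, 3, 6, 4, 2⟩ :=
  leafX_sound T5.ok_mp T5.Ymp.bz_eq (w := 187) (c := ⟨⟨.negSucc 1084, .negSucc 348, .negSucc 27, .negSucc 235, .ofNat 206, .ofNat 9⟩, ⟨.negSucc 568, .ofNat 46, .negSucc 281, .negSucc 132, .ofNat 103, .ofNat 8⟩, ⟨.ofNat 1069, .ofNat 276, .ofNat 8, .negSucc 248, .negSucc 285, .negSucc 52⟩, ⟨.negSucc 2937, .negSucc 270, .negSucc 55, .negSucc 463, .ofNat 481, .negSucc 15⟩, ⟨.negSucc 135, .ofNat 88, .negSucc 0, .negSucc 302, .ofNat 82, .ofNat 71⟩, .ofNat 416, .negSucc 184, .ofNat 0, .negSucc 184, .ofNat 669, .ofNat 0, .ofNat 150, .ofNat 87, .negSucc 98, .ofNat 0, .ofNat 128, .negSucc 26, .ofNat 0, .ofNat 0, .ofNat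 289, .ofNat 1085, .ofNat 0, .ofNat 0, .ofNat 0, .ofNat 0, .ofNat 0, .ofNat 0, .ofNat 4753111545871523368565394292867072, .ofNat 0, .ofNat 0, .ofNat 0, .ofNat 0, .ofNat 0, .ofNat 0, .ofNat 0, .ofNat 0, .ofNat 0⟩)
    (by decide +kernel)
theorem L00752 : Good (Phi V5.P V5.D (-1) 1) ⟨2, 1, 2, 2, 1, 0, 3, 6, 4, 3⟩ :=
  leafX_sound T5.ok_mp T5.Ymp.bz_eq (w := 188) (c := ⟨⟨.negSucc 1133, .negSucc 286, .negSucc 12, .negSucc 166, .ofNat 191, .ofNat 57⟩, ⟨.negSucc 594, .ofNat 73, .negSucc 258, .negSucc 89, .ofNat 96, .ofNat 32⟩, ⟨.ofNat 1062, .ofNat 230, .negSucc 33, .negSucc 266, .negSucc 309, .negSucc 113⟩, ⟨.negSucc 3095, .negSucc 45, .ofNat 9, .negSucc 329, .ofNat 422, .ofNat 110⟩, ⟨.negSucc 114, .ofNat 3, .negSucc 24, .negSucc 173, .ofNat 103, .ofNat 77⟩, .ofNat 753, .negSucc 614, .ofNat 0, .negSucc 614, .ofNat 1581, .ofNat 0, .ofNat 139, .ofNat 128, .negSucc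 51, .ofNat 0, .ofNat 118, .negSucc 19, .ofNat 0, .ofNat 0, .ofNat 246, .ofNat 1445, .ofNat 0, .ofNat 0, .ofNat 0, .ofNat 0, .ofNat 0, .ofNat 0, .ofNat 11596225566280216850386801727111168, .ofNat 0, .ofNat 0, .ofNat 0, .ofNat 5142101379931755919713552119627776, .ofNat 0, .ofNat 0, .ofNat 0, .ofNat 1010916307146814727530154221895680, .ofNat 0⟩)
    (by decide +kernel)
theorem L00753 : Good (Phi V5.P V5.D (-1) 1) ⟨2, 0, 2, 2, 2, 0, 4, 14, 3, 1⟩ :=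
  leafX_sound T5.ok_mp T5.Ymp.bz_eq (w := 201) (c := ⟨⟨.negSucc 805, .negSucc 51, .ofNat 0, .negSucc 68, .ofNat 125, .negSucc 84⟩, ⟨.negSucc 415, .negSucc 29, .negSucc 204, .negSucc 42, .ofNat 77, .negSucc 49⟩, ⟨.ofNat 693, .ofNat 11, .negSucc 14, .negSucc 42, .negSucc 195, .negSucc 113⟩, ⟨.negSucc 2434, .ofNat 7, .ofNat 52, .negSucc 93, .ofNat 342, .negSucc 249⟩, ⟨.negSucc 44, .ofNat 93, .negSucc 48, .negSucc 166, .ofNat 43, .ofNat 2⟩, .ofNat 1628, .negSucc 1754, .ofNat 0, .negSucc 1754, .ofNat 3276, .ofNat 0, .ofNat 128, .ofNat 155, .negSucc 89, .ofNat 0, .ofNat 128, .negSucc 49, .ofNat 0, .ofNat 0, .ofNat 397, .ofNat 2789, .ofNat 0, .ofNat 0, .ofNat 0, .ofNat 0, .ofNat 0, .ofNat 0, .ofNat 0, .ofNat 0, .ofNat 0, .ofNat 0, .ofNat 62837003255450332283357681132859555840, .ofNat 0, .ofNat 0, .ofNat 0, .ofNat 0, .ofNat 0⟩)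
    (by decide +kernel)
theorem L00754 : Good (Phi V5.P V5.D (-1) 1) ⟨2, 0, 2, 2, 2, 1, 4, 14, 3, 1⟩ :=
  leafX_sound T5.ok_mp T5.Ymp.bz_eq (w := 201) (c := ⟨⟨.negSucc 935, .negSucc 8, .negSucc 0, .negSucc 173, .ofNat 108, .negSucc 16⟩, ⟨.negSucc 493, .ofNat 5, .negSucc 227, .negSucc 104, .ofNat 64, .negSucc 7⟩, ⟨.ofNat 777, .negSucc 131, .negSucc 40, .negSucc 0, .negSucc 168, .negSucc 178⟩, ⟨.negSucc 2622, .ofNat 167, .ofNat 31, .negSucc 501, .ofNat 263, .negSucc 198⟩, ⟨.negSucc 382, .ofNat 112, .negSucc 5, .negSucc 32, .ofNat 78, .ofNat 224⟩, .ofNat 895, .negSucc 700, .ofNat 0, .negSucc 700, .ofNat 1550, .ofNat 0, .ofNat 128, .ofNat 148, .negSucc 92, .ofNat 0, .ofNat 144, .negSucc 40, .ofNat 0, .ofNat 0, .ofNat 386, .ofNat 1868, .ofNat 0, .ofNat 0, .ofNat 0, .ofNat 0, .ofNat 0, .ofNat 188553099119161799218199872242093916160, .ofNat 0, .ofNat 0, .ofNat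 0, .ofNat 0, .ofNat 0, .ofNat 0, .ofNat 0, .ofNat 239797829135996678937765546089355673600, .ofNat 0, .ofNat 0⟩)
    (by decide +kernel)
theorem L00755 : Good (Phi V5.P V5.D (-1) 1) ⟨3, 0, 2, 2, 2, 0, 5, 30, 3, 1⟩ :=
  leafX_sound T5.ok_mp T5.Ymp.bz_eq (w := 209) (c := ⟨⟨.negSucc 646, .ofNat 10, .negSucc 5, .negSucc 79, .ofNat 121, .negSucc 134⟩, ⟨.negSucc 323, .negSucc 9, .negSucc 176, .negSucc 53, .ofNat 70, .negSucc 74⟩, ⟨.ofNat 467, .negSucc 29, .negSucc 27, .negSucc 4, .negSucc 171, .negSucc 91⟩, ⟨.negSucc 1911, .ofNat 57, .ofNat 6, .negSucc 159, .ofNat 349, .negSucc 446⟩, ⟨.negSucc 72, .ofNat 36, .negSucc 2, .negSucc 140, .ofNat 24, .ofNat 73⟩, .ofNat 893, .negSucc 682, .ofNat 0, .negSucc 682, .ofNat 1526, .ofNat 0, .ofNat 150, .ofNat 123, .negSucc 99, .ofNat 0, .ofNat 128, .negSucc 49, .ofNat 0, .ofNat 0, .ofNat 365, .ofNat 3218, .ofNat 0, .ofNat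 0, .ofNat 0, .ofNat 0, .ofNat 0, .ofNat 0, .ofNat 0, .ofNat 0, .ofNat 0, .ofNat 0, .ofNat 196000462819385229707578539515278524416, .ofNat 0, .ofNat 0, .ofNat 0, .ofNat 57744583105583774814949575926214557696, .ofNat 0⟩)
    (by decide +kernel)
theorem L00756 : Good (Phi V5.P V5.D (-1) 1) ⟨3, 0, 2, 2, 2, 0, 5, 31, 3, 1⟩ :=
  leafX_sound T5.ok_mp T5.Ymp.bz_eq (w := 209) (c := ⟨⟨.negSucc 465, .ofNat 24, .ofNat 5, .negSucc 126, .ofNat 183, .negSucc 225⟩, ⟨.negSucc 240, .ofNat 5, .negSucc 126, .negSucc 73, .ofNat 114, .negSucc 125⟩, ⟨.ofNat 233, .negSucc 37, .negSucc 22, .ofNat 66, .negSucc 234, .negSucc 22⟩, ⟨.negSucc 1357, .ofNat 95, .ofNat 59, .negSucc 309, .ofNat 523, .negSucc 751⟩, ⟨.negSucc 82, .ofNat 13, .negSucc 42, .negSucc 130, .ofNat 46, .ofNat 131⟩, .ofNat 876, .negSucc 656, .ofNat 0, .negSucc 656, .ofNat 1501, .ofNat 0, .ofNat 139, .ofNat 122,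 .negSucc 133, .ofNat 0, .ofNat 128, .negSucc 64, .ofNat 0, .ofNat 0, .ofNat 419, .ofNat 2578, .ofNat 0, .ofNat 2209426194014999675940057959376336453632, .ofNat 2531547358056288982202683651516268544, .ofNat 0, .ofNat 0, .ofNat 0, .ofNat 0, .ofNat 0, .ofNat 0, .ofNat 0, .ofNat 122023801332526228105189581506308210688, .ofNat 0, .ofNat 0, .ofNat 0, .ofNat 77778029460326129127741106440802140160, .ofNat 0⟩)
    (by decide +kernel)
theorem L00757 : Good (Phi V5.P V5.D (-1) 1) ⟨3, 1, 2, 2, 2, 0, 5, 30, 3, 1⟩ :=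
  leafX_sound T5.ok_mp T5.Ymp.bz_eq (w := 210) (c := ⟨⟨.negSucc 672, .negSucc 35, .negSucc 15, .negSucc 30, .ofNat 130, .negSucc 127⟩, ⟨.negSucc 356, .negSucc 4, .negSucc 174, .negSucc 19, .ofNat 80, .negSucc 73⟩, ⟨.ofNat 487, .ofNat 15, .ofNat 1, .negSucc 90, .negSucc 177, .negSucc 94⟩, ⟨.negSucc 1917, .ofNat 17, .negSucc 6, .negSucc 52, .ofNat 342, .negSucc 433⟩, ⟨.negSucc 119, .ofNat 29, .negSucc 38, .negSucc 64, .ofNat 53, .ofNat 115⟩, .ofNat 914, .negSucc 748, .ofNat 0, .negSucc 748, .ofNat 1613, .ofNat 0, .ofNat 128, .ofNat 161, .negSucc 109, .ofNat 0, .ofNat 157, .negSucc 55, .ofNat 0, .ofNat 0, .ofNat 387, .ofNat 3723, .ofNat 0, .ofNat 0, .ofNat 0, .ofNat 0, .ofNat 0, .ofNat 0, .ofNat 0, .ofNat 0, .ofNat 0, .ofNat 0, .ofNat 179485401543356779874715258521082920960, .ofNat 0, .ofNat 0, .ofNat 0, .ofNat 16274272566852518156131541210737147904, .ofNat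 0⟩)
    (by decide +kernel)
theorem L00758 : Good (Phi V5.P V5.D (-1) 1) ⟨3, 1, 2, 2, 3, 0, 5, 31, 3, 1⟩ :=
  leafX_sound T5.ok_mp T5.Ymp.bz_eq (w := 223) (c := ⟨⟨.negSucc 500, .negSucc 26, .ofNat 2, .ofNat 8, .ofNat 202, .negSucc 225⟩, ⟨.negSucc 264, .negSucc 1, .negSucc 122, .ofNat 3, .ofNat 124, .negSucc 136⟩, ⟨.ofNat 251, .ofNat 20, .negSucc 10, .negSucc 64, .negSucc 253, .ofNat 4⟩, ⟨.negSucc 1445, .ofNat 15, .ofNat 16, .ofNat 47, .ofNat 583, .negSucc 694⟩, ⟨.negSucc 49, .ofNat 7, .negSucc 11, .negSucc 48, .ofNat 15, .ofNat 67⟩, .ofNat 460, .negSucc 207, .ofNat 0, .negSucc 207, .ofNat 655, .ofNat 0, .ofNat 251, .ofNat 81, .negSucc 224, .ofNat 0, .ofNat 128, .negSucc 86, .ofNat 0, .ofNat 0, .ofNat 560, .ofNat 2764, .ofNat 0, .ofNat 0, .ofNat 0, .ofNat 0, .ofNat 0, .ofNat 0, .ofNat 0, .ofNat 0, .ofNat 0, .ofNat 0, .ofNat 1600489137514392358151002343191738964770816,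 .ofNat 0, .ofNat 0, .ofNat 0, .ofNat 0, .ofNat 0⟩)
    (by decide +kernel)
theorem L00759 : Good (Phi V5.P V5.D (-1) 1) ⟨3, 1, 2, 2, 3, 1, 6, 62, 4, 2⟩ :=
  leafX_sound T5.ok_mp T5.Ymp.bz_eq (w := 233) (c := ⟨⟨.negSucc 544, .negSucc 8, .negSucc 8, .negSucc 61, .ofNat 101, .negSucc 66⟩, ⟨.negSucc 293, .ofNat 11, .negSucc 133, .negSucc 36, .ofNat 62, .negSucc 38⟩, ⟨.ofNat 272, .negSucc 22, .negSucc 8, .ofNat 18, .negSucc 119, .negSucc 67⟩, ⟨.negSucc 1520, .ofNat 63, .ofNat 8, .negSucc 144, .ofNat 281, .negSucc 240⟩, ⟨.negSucc 158, .ofNat 27, .negSucc 10, .negSucc 51, .ofNat 13, .ofNat 78⟩, .ofNat 914, .negSucc 745, .ofNat 0, .negSucc 745, .ofNat 1606, .ofNat 0, .ofNat 128, .ofNat 145, .negSucc 102, .ofNat 0, .ofNat 141, .negSucc 51, .ofNat 0, .ofNat 0, .ofNat 296, .ofNat 6927, .ofNat 0, .ofNat 0, .ofNat 0, .ofNat 0, .ofNat 0, .ofNat 0, .ofNat 0, .ofNat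 0, .ofNat 0, .ofNat 0, .ofNat 1174564329145279948996060192855860173242105856, .ofNat 0, .ofNat 0, .ofNat 0, .ofNat 301084890034834068588060603438690161286709248, .ofNat 0⟩)
    (by decide +kernel)

end Crest.Agent.R097C5.N5mp
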