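import Crest.Agent.R097.KP7
import Crest.Agent.R097.T5Ymp

/-!
# Row 97, box cover in dimension n = 5 (generated)
-/

set_option autoImplicit false
set_option Elab.async false
set_option maxHeartbeats 0
set_option maxRecDepth 100000

open Crest.Agent.R097 Crest.Agent.R097.KA


namespace Crest.Agent.R097C5.N5mp

theorem L00760 : Good (Phi V5.P V5.D (-1) 1) ⟨4, 2, 2, 2, 3, 1, 6, 63, 4, 2⟩ :=
  leafX_sound T5.ok_mp T5.Ymp.bz_eq (w := 237) (c := ⟨⟨.negSucc 429, .ofNat 5, .negSucc 14, .negSucc 77, .ofNat 127, .negSucc 81⟩, ⟨.negSucc 232, .ofNat 6, .negSucc 109, .negSucc 48, .ofNat 80, .negSucc 45⟩, ⟨.ofNat 134, .negSucc 21, .ofNat 2, .ofNat 45, .negSucc 144, .negSucc 57⟩, ⟨.negSucc 1174, .ofNat 42, .negSucc 6, .negSucc 195, .ofNat 369, .negSucc 303⟩, ⟨.negSucc 162, .ofNat 15, .negSucc 9, .negSucc 50, .ofNat 9, .ofNat 97⟩, .ofNat 464, .negSucc 208, .ofNat 0, .negSucc 208, .ofNat 653,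 .ofNat 0, .ofNat 128, .ofNat 92, .negSucc 153, .ofNat 0, .ofNat 141, .negSucc 55, .ofNat 0, .ofNat 0, .ofNat 338, .ofNat 7237, .ofNat 0, .ofNat 26377772308100933103595892237579721390675722240, .ofNat 14653818869922743902972246216491420375580672, .ofNat 0, .ofNat 0, .ofNat 69558785845402663423990782387569453239105486848, .ofNat 0, .ofNat 0, .ofNat 0, .ofNat 0, .ofNat 149600757764605493328994253361820306491047936, .ofNat 0, .ofNat 0, .ofNat 44131249849340728573335918241995678199807213568, .ofNat 52091665382889176117586940653373203117244416, .ofNat 0⟩)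
    (by decide +kernel)
theorem L00761 : Good (Phi V5.P V5.D (-1) 1) ⟨4, 3, 2, 2, 3, 1, 6, 63, 4, 2⟩ :=
  leafX_sound T5.ok_mp T5.Ymp.bz_eq (w := 237) (c := ⟨⟨.negSucc 451, .ofNat 3, .negSucc 6, .negSucc 54, .ofNat 141, .negSucc 65⟩, ⟨.negSucc 240, .ofNat 11, .negSucc 105, .negSucc 35, .ofNat 85, .negSucc 37⟩, ⟨.ofNat 147, .negSucc 18, .negSucc 9, .ofNat 11, .negSucc 163, .negSucc 73⟩, ⟨.negSucc 1196, .ofNat 43, .ofNat 7, .negSucc 138, .ofNat 398, .negSucc 256⟩, ⟨.negSucc 171, .ofNat 22, .negSucc 0, .negSucc 29, .ofNat 12, .ofNat 110⟩, .ofNat 461, .negSucc 215, .ofNat 0, .negSucc 215, .ofNat 663, .ofNat 0, .ofNat 128, .ofNat 103, .negSucc 162, .ofNat 0, .ofNat 151, .negSucc 59, .ofNat 0, .ofNat 0, .ofNat 353, .ofNat 6589, .ofNat 0, .ofNat 24016352291607553578317726316621378454873440256, .ofNat 14093302673587574645870515046060818840944640, .ofNat 0, .ofNat 0, .ofNat 126723661373576968947955689985243825898726096896,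 .ofNat 0, .ofNat 0, .ofNat 0, .ofNat 0, .ofNat 307475678597585267776644719538916092004007936, .ofNat 0, .ofNat 0, .ofNat 59093382513022978167375301719330295626980130816, .ofNat 69457734210267424473749036568327650344435712, .ofNat 0⟩)
    (by decide +kernel)
theorem L00762 : Good (Phi V5.P V5.D (-1) 1) ⟨3, 1, 2, 2, 3, 1, 5, 31, 4, 3⟩ :=
  leafX_sound T5.ok_mp T5.Ymp.bz_eq (w := 228) (c := ⟨⟨.negSucc 630, .ofNat 10, .ofNat 7, .negSucc 38, .ofNat 183, .negSucc 80⟩, ⟨.negSucc 336, .ofNat 20, .negSucc 139, .negSucc 23, .ofNat 107, .negSucc 42⟩, ⟨.ofNat 228, .negSucc 32, .negSucc 44, .negSucc 13, .negSucc 227, .negSucc 39⟩, ⟨.negSucc 1791, .ofNat 120, .ofNat 35, .negSucc 127, .ofNat 500, .negSucc 285⟩, ⟨.negSucc 108, .ofNat 31, .negSucc 13, .ofNat 24, .ofNat 42, .ofNat 91⟩, .ofNat 906, .negSucc 732, .ofNat 0, .negSucc 732, .ofNat 1593, .ofNat 0, .ofNat 170, .ofNat 128, .negSucc 81, .ofNat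 0, .ofNat 125, .negSucc 41, .ofNat 0, .ofNat 0, .ofNat 278, .ofNat 3732, .ofNat 0, .ofNat 134145800851682711244724960197052551403667456, .ofNat 2253893159430765558890336357161339736555520, .ofNat 0, .ofNat 0, .ofNat 0, .ofNat 0, .ofNat 0, .ofNat 0, .ofNat 1515824684352079597383119537620094685424910336, .ofNat 115500257526643533638565751610830672235593728, .ofNat 0, .ofNat 0, .ofNat 738821710106503097617673175799606558224023552, .ofNat 4697213581618498822580140088251155335872512, .ofNat 0⟩)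
    (by decide +kernel)
theorem L00763 : Good (Phi V5.P V5.D (-1) 1) ⟨3, 0, 2, 2, 2, 1, 4, 15, 3, 1⟩ :=
  leafX_sound T5.ok_mp T5.Ymp.bz_eq (w := 205) (c := ⟨⟨.negSucc 767, .ofNat 54, .negSucc 1, .negSucc 264, .ofNat 225, .negSucc 120⟩, ⟨.negSucc 395, .ofNat 22, .negSucc 204, .negSucc 157, .ofNat 123, .negSucc 59⟩, ⟨.ofNat 563, .negSucc 102, .negSucc 90, .ofNat 141, .negSucc 302, .negSucc 153⟩, ⟨.negSucc 2127, .ofNat 157, .ofNat 25, .negSucc 768, .ofNat 645, .negSucc 504⟩, ⟨.negSucc 344, .ofNat 122, .negSucc 4, .negSucc 38, .ofNat 52, .ofNat 246⟩, .ofNat 886, .negSucc 673, .ofNat 0, .negSucc 673, .ofNat 1516, .ofNat 0, .ofNat 128, .ofNat 129, .negSucc 97, .ofNat 0, .ofNat 128, .negSucc 42, .ofNat 0, .ofNat 0, .ofNat 352, .ofNat 1454, .ofNat 0, .ofNat 154026760595499715024625939537821958144, .ofNat 134151362642413557726175130619478016, .ofNat 0, .ofNat 0, .ofNat 9733714766057977136274392154041837682688,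 .ofNat 0, .ofNat 0, .ofNat 0, .ofNat 4869735514753643054483329987568312778752, .ofNat 9154316305703511506407700110881325056, .ofNat 0, .ofNat 0, .ofNat 5699111064639055949112047515093509865472, .ofNat 1890779219054455745380957276990341120, .ofNat 0⟩)
    (by decide +kernel)
theorem L00764 : Good (Phi V5.P V5.D (-1) 1) ⟨3, 1, 2, 2, 3, 2, 5, 30, 4, 2⟩ :=
  leafX_sound T5.ok_mp T5.Ymp.bz_eq (w := 229) (c := ⟨⟨.negSucc 762, .negSucc 5, .negSucc 14, .negSucc 102, .ofNat 131, .negSucc 41⟩, ⟨.negSucc 413, .ofNat 17, .negSucc 179, .negSucc 64, .ofNat 81, .negSucc 23⟩, ⟨.ofNat 488, .negSucc 48, .negSucc 19, .ofNat 24, .negSucc 153, .negSucc 88⟩, ⟨.negSucc 2101, .ofNat 89, .ofNat 4, .negSucc 276, .ofNat 355, .negSucc 190⟩, ⟨.negSucc 264, .ofNat 55, .negSucc 5, .negSucc 29, .ofNat 30, .ofNat 110⟩, .ofNat 918, .negSucc 750, .ofNat 0, .negSucc 750, .ofNat 1611, .ofNat 0, .ofNat 152, .ofNat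 128, .negSucc 116, .ofNat 0, .ofNat 121, .negSucc 55, .ofNat 0, .ofNat 0, .ofNat 367, .ofNat 5236, .ofNat 0, .ofNat 0, .ofNat 0, .ofNat 0, .ofNat 0, .ofNat 0, .ofNat 0, .ofNat 0, .ofNat 0, .ofNat 0, .ofNat 51043877504279034435816251946692680420950016, .ofNat 0, .ofNat 0, .ofNat 0, .ofNat 0, .ofNat 0⟩)
    (by decide +kernel)
theorem L00765 : Good (Phi V5.P V5.D (-1) 1) ⟨3, 1, 2, 2, 3, 2, 6, 62, 4, 2⟩ :=
  leafX_sound T5.ok_mp T5.Ymp.bz_eq (w := 232) (c := ⟨⟨.negSucc 630, .ofNat 20, .negSucc 10, .negSucc 116, .ofNat 94, .negSucc 48⟩, ⟨.negSucc 340, .ofNat 28, .negSucc 154, .negSucc 70, .ofNat 58, .negSucc 25⟩, ⟨.ofNat 332, .negSucc 74, .negSucc 31, .ofNat 45, .negSucc 106, .negSucc 88⟩, ⟨.negSucc 1694, .ofNat 138, .ofNat 13, .negSucc 342, .ofNat 263, .negSucc 248⟩, ⟨.negSucc 285, .ofNat 62, .negSucc 13, .ofNat 7, .ofNat 19, .ofNat 171⟩, .ofNat 472, .negSucc 228, .ofNat 0, .negSucc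 228, .ofNat 668, .ofNat 0, .ofNat 128, .ofNat 113, .negSucc 139, .ofNat 0, .ofNat 153, .negSucc 48, .ofNat 0, .ofNat 0, .ofNat 314, .ofNat 3678, .ofNat 0, .ofNat 0, .ofNat 45680357406683883944908852756832107056070656, .ofNat 0, .ofNat 0, .ofNat 0, .ofNat 0, .ofNat 0, .ofNat 0, .ofNat 0, .ofNat 0, .ofNat 0, .ofNat 0, .ofNat 0, .ofNat 166872488615365227178510018929471526640025600, .ofNat 0⟩)
    (by decide +kernel)
theorem L00766 : Good (Phi V5.P V5.D (-1) 1) ⟨4, 2, 2, 2, 3, 2, 6, 63, 4, 2⟩ :=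
  leafX_sound T5.ok_mp T5.Ymp.bz_eq (w := 237) (c := ⟨⟨.negSucc 518, .ofNat 19, .negSucc 16, .negSucc 128, .ofNat 111, .negSucc 70⟩, ⟨.negSucc 280, .ofNat 15, .negSucc 133, .negSucc 78, .ofNat 70, .negSucc 35⟩, ⟨.ofNat 203, .negSucc 43, .negSucc 13, .ofNat 75, .negSucc 123, .negSucc 77⟩, ⟨.negSucc 1390, .ofNat 81, .ofNat 0, .negSucc 361, .ofNat 324, .negSucc 298⟩, ⟨.negSucc 245, .ofNat 32, .negSucc 13, .negSucc 25, .ofNat 9, .ofNat 152⟩, .ofNat 464, .negSucc 209, .ofNat 0, .negSucc 209, .ofNat 654, .ofNat 0, .ofNat 129, .ofNat 88, .negSucc 160, .ofNat 0, .ofNat 128, .negSucc 52, .ofNat 0, .ofNat 0, .ofNat 346, .ofNat 5693, .ofNat 0, .ofNat 18993246215878522162534098633775573978985791488, .ofNat 15901750707777216272198106825193069201063936, .ofNat 0, .ofNat 0, .ofNat 168439263685478207632371200685238681504621527040, .ofNat 50343531666223825828515794752727987509002240, .ofNat 0,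 .ofNat 0, .ofNat 129317412189902407777118823623667497913412485120, .ofNat 75554847126908243512048370839597477546426368, .ofNat 0, .ofNat 0, .ofNat 225987083233350308740254626404511871299290660864, .ofNat 190029875765194821100898400209310137783943168, .ofNat 0⟩)
    (by decide +kernel)
theorem L00767 : Good (Phi V5.P V5.D (-1) 1) ⟨4, 3, 2, 2, 3, 2, 6, 63, 4, 2⟩ :=
  leafX_sound T5.ok_mp T5.Ymp.bz_eq (w := 237) (c := ⟨⟨.negSucc 524, .ofNat 15, .negSucc 14, .negSucc 113, .ofNat 134, .negSucc 45⟩, ⟨.negSucc 278, .ofNat 20, .negSucc 128, .negSucc 72, .ofNat 78, .negSucc 23⟩, ⟨.ofNat 185, .negSucc 41, .negSucc 12, .ofNat 43, .negSucc 145, .negSucc 95⟩, ⟨.negSucc 1372, .ofNat 77, .negSucc 0, .negSucc 320, .ofNat 381, .negSucc 226⟩, ⟨.negSucc 227, .ofNat 36, .negSucc 8, .negSucc 12, .ofNat 3, .ofNat 158⟩, .ofNat 469, .negSucc 229, .ofNat 0, .negSucc 229, .ofNat 672, .ofNat 0, .ofNat 129,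 .ofNat 96, .negSucc 150, .ofNat 0, .ofNat 128, .negSucc 52, .ofNat 0, .ofNat 0, .ofNat 309, .ofNat 5122, .ofNat 0, .ofNat 18973707414049480204709884423748116197928861696, .ofNat 12053820008808730960935584014219188130283520, .ofNat 0, .ofNat 0, .ofNat 177691777854112523638933258733404814379942150144, .ofNat 6974195339669698166479091093019962470563840, .ofNat 0, .ofNat 0, .ofNat 169969083992030125872118975362529639487160451072, .ofNat 79074582724511596515074618655710281079980032, .ofNat 0, .ofNat 0, .ofNat 190146509535119650320235790652258796670539530240, .ofNat 60301070073164231195955664878213052825075712, .ofNat 0⟩)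
    (by decide +kernel)
theorem L00768 : Good (Phi V5.P V5.D (-1) 1) ⟨3, 1, 2, 2, 3, 3, 4, 15, 4, 2⟩ :=
  leafX_sound T5.ok_mp T5.Ymp.bz_eq (w := 224) (c := ⟨⟨.negSucc 869, .negSucc 3, .negSucc 7, .negSucc 133, .ofNat 270, .negSucc 43⟩, ⟨.negSucc 482, .ofNat 35, .negSucc 210, .negSucc 78, .ofNat 163, .negSucc 13⟩, ⟨.ofNat 519, .negSucc 61, .negSucc 79, .ofNat 29, .negSucc 292, .negSucc 67⟩, ⟨.negSucc 2355, .ofNat 86, .ofNat 54, .negSucc 391, .ofNat 693, .negSucc 252⟩, ⟨.negSucc 349, .ofNat 109, .negSucc 66, .ofNat 1, .ofNat 125, .ofNat 196⟩, .ofNat 909, .negSucc 733, .ofNat 0, .negSucc 733, .ofNat 1589, .ofNat 0, .ofNat 150, .ofNat 128, .negSucc 89, .ofNat 0, .ofNat 118, .negSucc 37, .ofNat 0, .ofNat 0, .ofNat 276, .ofNat 1704, .ofNat 0, .ofNat 8738748315895605775602746683833381055102976, .ofNat 81545581763685530532227518690354423398400, .ofNat 0, .ofNat 0, .ofNat 0, .ofNat 0,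 .ofNat 0, .ofNat 0, .ofNat 105804682958215448639059193588520684921815040, .ofNat 3643903401625226097953060212786268884434944, .ofNat 0, .ofNat 0, .ofNat 71527693723231898877396329940924553368698880, .ofNat 535053287899020559080635496734342927876096, .ofNat 0⟩)
    (by decide +kernel)
theorem L00769 : Good (Phi V5.P V5.D (-1) 1) ⟨3, 1, 2, 2, 2, 1, 5, 30, 4, 3⟩ :=
  leafX_sound T5.ok_mp T5.Ymp.bz_eq (w := 214) (c := ⟨⟨.negSucc 835, .ofNat 30, .ofNat 26, .negSucc 194, .ofNat 104, .negSucc 15⟩, ⟨.negSucc 445, .ofNat 40, .negSucc 186, .negSucc 114, .ofNat 66, .negSucc 6⟩, ⟨.ofNat 443, .negSucc 78, .negSucc 111, .ofNat 35, .negSucc 137, .negSucc 99⟩, ⟨.negSucc 2337, .ofNat 192, .ofNat 89, .negSucc 643, .ofNat 272, .negSucc 141⟩, ⟨.negSucc 203, .ofNat 78, .negSucc 15, .ofNat 120, .ofNat 53, .ofNat 155⟩, .ofNat 472, .negSucc 228, .ofNat 0, .negSucc 228, .ofNat 668, .ofNat 0, .ofNat 128,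 .ofNat 104, .negSucc 82, .ofNat 0, .ofNat 140, .negSucc 27, .ofNat 0, .ofNat 0, .ofNat 262, .ofNat 1992, .ofNat 0, .ofNat 0, .ofNat 0, .ofNat 0, .ofNat 0, .ofNat 146132620518287651369548141664590438072320, .ofNat 0, .ofNat 0, .ofNat 0, .ofNat 319258157763490863018833995851793715691520, .ofNat 0, .ofNat 0, .ofNat 0, .ofNat 81096256524322586290959359245978460749824, .ofNat 1051866706174782299188502881597644603392, .ofNat 0⟩)
    (by decide +kernel)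
theorem L00770 : Good (Phi V5.P V5.D (-1) 1) ⟨3, 1, 2, 2, 2, 1, 5, 31, 4, 3⟩ :=
  leafX_sound T5.ok_mp T5.Ymp.bz_eq (w := 214) (c := ⟨⟨.negSucc 706, .ofNat 41, .ofNat 18, .negSucc 198, .ofNat 169, .negSucc 49⟩, ⟨.negSucc 378, .ofNat 43, .negSucc 157, .negSucc 116, .ofNat 104, .negSucc 23⟩, ⟨.ofNat 265, .negSucc 76, .negSucc 81, .ofNat 72, .negSucc 205, .negSucc 72⟩, ⟨.negSucc 1994, .ofNat 195, .ofNat 63, .negSucc 628, .ofNat 431, .negSucc 231⟩, ⟨.negSucc 136, .ofNat 78, .negSucc 15, .ofNat 92, .ofNat 79, .ofNat 143⟩, .ofNat 922, .negSucc 757, .ofNat 0, .negSucc 757, .ofNat 1620, .ofNat 0, .ofNat 128, .ofNat 134, .negSucc 70, .ofNat 0, .ofNat 127, .negSucc 34, .ofNat 0, .ofNat 0, .ofNat 247, .ofNat 3227, .ofNat 0, .ofNat 27223174848290722402753762470057104900096, .ofNat 134650427831989112162163014168783880192, .ofNat 0, .ofNat 0, .ofNat 768187855899921184549250334401725475061760,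 .ofNat 0, .ofNat 0, .ofNat 0, .ofNat 885806767519080245286944158477312617086976, .ofNat 3287194524128303016211528207973962743808, .ofNat 0, .ofNat 0, .ofNat 436328284471856667933965706616848580083712, .ofNat 1244083237521978500877539618816035651584, .ofNat 0⟩)
    (by decide +kernel)
theorem L00771 : Good (Phi V5.P V5.D (-1) 1) ⟨2, 1, 2, 2, 1, 0, 4, 14, 3, 1⟩ :=
  leafX_sound T5.ok_mp T5.Ymp.bz_eq (w := 186) (c := ⟨⟨.negSucc 977, .negSucc 245, .negSucc 11, .negSucc 123, .ofNat 182, .ofNat 35⟩, ⟨.negSucc 510, .ofNat 54, .negSucc 220, .negSucc 69, .ofNat 99, .ofNat 19⟩, ⟨.ofNat 893, .ofNat 127, .negSucc 40, .negSucc 281, .negSucc 255, .negSucc 204⟩, ⟨.negSucc 2564, .negSucc 65, .negSucc 12, .negSucc 347, .ofNat 451, .negSucc 46⟩, ⟨.negSucc 224, .ofNat 23, .negSucc 3, .negSucc 1, .ofNat 24, .ofNat 213⟩, .ofNat 775, .negSucc 642, .ofNat 0, .negSucc 642, .ofNat 1604, .ofNat 0, .ofNat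 195, .ofNat 128, .negSucc 101, .ofNat 0, .ofNat 117, .negSucc 41, .ofNat 0, .ofNat 0, .ofNat 378, .ofNat 919, .ofNat 0, .ofNat 0, .ofNat 15646112830775386830416394584064, .ofNat 0, .ofNat 0, .ofNat 0, .ofNat 0, .ofNat 0, .ofNat 0, .ofNat 30033015847515307910133221943148544, .ofNat 2104507411042681733842932183597056, .ofNat 0, .ofNat 0, .ofNat 0, .ofNat 0, .ofNat 0⟩)
    (by decide +kernel)
theorem L00772 : Good (Phi V5.P V5.D (-1) 1) ⟨3, 2, 2, 2, 2, 0, 5, 30, 3, 1⟩ :=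
  leafX_sound T5.ok_mp T5.Ymp.bz_eq (w := 209) (c := ⟨⟨.negSucc 753, .negSucc 89, .ofNat 3, .ofNat 21, .ofNat 139, .negSucc 102⟩, ⟨.negSucc 391, .ofNat 5, .negSucc 158, .ofNat 8, .ofNat 79, .negSucc 51⟩, ⟨.ofNat 552, .ofNat 73, .negSucc 24, .negSucc 164, .negSucc 180, .negSucc 111⟩, ⟨.negSucc 2001, .negSucc 35, .ofNat 23, .ofNat 54, .ofNat 356, .negSucc 357⟩, ⟨.negSucc 131, .negSucc 10, .negSucc 11, .negSucc 24, .ofNat 42, .ofNat 145⟩, .ofNat 434, .negSucc 197, .ofNat 0, .negSucc 197, .ofNat 670, .ofNat 0, .ofNat 159, .ofNat 85, .negSucc 182, .ofNat 0, .ofNat 128, .negSucc 62, .ofNat 0, .ofNat 0, .ofNat 489, .ofNat 2327, .ofNat 0, .ofNat 0, .ofNat 0, .ofNat 0, .ofNat 0, .ofNat 0, .ofNat 0, .ofNat 0, .ofNat 0, .ofNat 0, .ofNat 73867630253999662400657962278053740544, .ofNat 0, .ofNat 0, .ofNat 0, .ofNat 0, .ofNat 0⟩)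
    (by decide +kernel)
theorem L00773 : Good (Phi V5.P V5.D (-1) 1) ⟨3, 2, 2, 2, 2, 0, 5, 31, 3, 1⟩ :=
  leafX_sound T5.ok_mp T5.Ymp.bz_eq (w := 209) (c := ⟨⟨.negSucc 565, .negSucc 35, .negSucc 2, .ofNat 27, .ofNat 216, .negSucc 193⟩, ⟨.negSucc 297, .ofNat 21, .negSucc 122, .ofNat 17, .ofNat 127, .negSucc 107⟩, ⟨.ofNat 317, .ofNat 18, .negSucc 13, .negSucc 154, .negSucc 258, .negSucc 31⟩, ⟨.negSucc 1512, .ofNat 22, .ofNat 43, .ofNat 68, .ofNat 577, .negSucc 579⟩, ⟨.negSucc 81, .ofNat 56, .negSucc 87, .negSucc 11, .ofNat 4, .ofNat 113⟩, .ofNat 834, .negSucc 703, .ofNat 0, .negSucc 703, .ofNat 1647, .ofNat 0, .ofNat 128, .ofNat 150, .negSucc 181, .ofNat 0, .ofNat 139, .negSucc 85, .ofNat 0, .ofNat 0, .ofNat 509, .ofNat 2104, .ofNat 0, .ofNat 2984516075182139320167817371289407979520, .ofNat 2479782040639284113053389130064461824, .ofNat 0, .ofNat 0, .ofNat 47472377860226885070345176243867656126464,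 .ofNat 0, .ofNat 0, .ofNat 0, .ofNat 0, .ofNat 168807374590589231713060897264513318912, .ofNat 0, .ofNat 0, .ofNat 0, .ofNat 0, .ofNat 0⟩)
    (by decide +kernel)
theorem L00774 : Good (Phi V5.P V5.D (-1) 1) ⟨3, 2, 2, 2, 2, 1, 5, 30, 3, 1⟩ :=
  leafX_sound T5.ok_mp T5.Ymp.bz_eq (w := 208) (c := ⟨⟨.negSucc 857, .negSucc 15, .ofNat 17, .negSucc 156, .ofNat 148, .ofNat 21⟩, ⟨.negSucc 447, .ofNat 55, .negSucc 178, .negSucc 86, .ofNat 84, .ofNat 21⟩, ⟨.ofNat 540, .negSucc 31, .negSucc 81, .negSucc 63, .negSucc 176, .negSucc 238⟩, ⟨.negSucc 2157, .ofNat 116, .ofNat 49, .negSucc 510, .ofNat 360, .negSucc 158⟩, ⟨.negSucc 350, .ofNat 103, .negSucc 21, .ofNat 144, .ofNat 60, .ofNat 375⟩, .ofNat 442, .negSucc 208, .ofNat 0, .negSucc 208, .ofNat 674, .ofNat 0, .ofNat 128, .ofNat 100, .negSucc 83, .ofNat 0, .ofNat 134, .negSucc 23, .ofNat 0, .ofNat 0, .ofNat 218, .ofNat 921, .ofNat 0, .ofNat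 0, .ofNat 0, .ofNat 0, .ofNat 0, .ofNat 0, .ofNat 0, .ofNat 0, .ofNat 0, .ofNat 0, .ofNat 0, .ofNat 0, .ofNat 0, .ofNat 5742452392325473055710939773066316611584, .ofNat 13181260841783847280011842997587017728, .ofNat 0⟩)
    (by decide +kernel)
theorem L00775 : Good (Phi V5.P V5.D (-1) 1) ⟨3, 2, 2, 2, 2, 1, 6, 62, 3, 1⟩ :=
  leafX_sound T5.ok_mp T5.Ymp.bz_eq (w := 213) (c := ⟨⟨.negSucc 650, .ofNat 0, .ofNat 6, .negSucc 211, .ofNat 100, .negSucc 42⟩, ⟨.negSucc 337, .ofNat 50, .negSucc 148, .negSucc 115, .ofNat 57, .negSucc 13⟩, ⟨.ofNat 305, .negSucc 48, .negSucc 50, .ofNat 3, .negSucc 113, .negSucc 198⟩, ⟨.negSucc 1668, .ofNat 134, .ofNat 30, .negSucc 608, .ofNat 263, .negSucc 303⟩, ⟨.negSucc 246, .ofNat 76, .negSucc 9, .ofNat 87, .ofNat 10, .ofNat 352⟩, .ofNat 844, .negSucc 720, .ofNat 0, .negSucc 720, .ofNat 1664, .ofNat 0, .ofNat 128, .ofNat 218, .negSucc 102, .ofNat 0, .ofNat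 192, .negSucc 44, .ofNat 0, .ofNat 0, .ofNat 285, .ofNat 1626, .ofNat 0, .ofNat 0, .ofNat 37741710767263231562191407947620286464, .ofNat 0, .ofNat 0, .ofNat 0, .ofNat 0, .ofNat 0, .ofNat 0, .ofNat 389719532481290072959180666045948900671488, .ofNat 0, .ofNat 0, .ofNat 0, .ofNat 161779842275387883469129243320325507121152, .ofNat 803904806798438832217588713922186182656, .ofNat 0⟩)
    (by decide +kernel)
theorem L00776 : Good (Phi V5.P V5.D (-1) 1) ⟨3, 2, 2, 2, 2, 1, 6, 63, 3, 1⟩ :=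
  leafX_sound T5.ok_mp T5.Ymp.bz_eq (w := 213) (c := ⟨⟨.negSucc 515, .ofNat 18, .negSucc 1, .negSucc 239, .ofNat 123, .negSucc 98⟩, ⟨.negSucc 271, .ofNat 52, .negSucc 123, .negSucc 126, .ofNat 67, .negSucc 38⟩, ⟨.ofNat 151, .negSucc 69, .negSucc 19, .ofNat 59, .negSucc 135, .negSucc 154⟩, ⟨.negSucc 1321, .ofNat 152, .ofNat 20, .negSucc 649, .ofNat 337, .negSucc 427⟩, ⟨.negSucc 208, .ofNat 66, .negSucc 12, .ofNat 26, .negSucc 2, .ofNat 332⟩, .ofNat 450, .negSucc 223, .ofNat 0, .negSucc 223, .ofNat 682, .ofNat 0, .ofNat 206, .ofNat 101, .negSucc 137, .ofNat 0, .ofNat 128, .negSucc 43, .ofNat 0, .ofNat 0, .ofNat 293, .ofNat 2187, .ofNat 0, .ofNat 14259492858651974569653285958180315070464, .ofNat 39598454937661133838718418037283749888, .ofNat 0, .ofNat 0, .ofNat 311982619657832020427405901669899324882944, .ofNat 0, .ofNat 0, .ofNat 0, .ofNat 526376075969520473478699123280680925003776,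 .ofNat 0, .ofNat 0, .ofNat 0, .ofNat 257835339635718601225603409771764329218048, .ofNat 800353760094955200642562549540049649664, .ofNat 0⟩)
    (by decide +kernel)
theorem L00777 : Good (Phi V5.P V5.D (-1) 1) ⟨3, 3, 2, 2, 1, 0, 4, 15, 3, 1⟩ :=
  leafX_sound T5.ok_mp T5.Ymp.bz_eq (w := 190) (c := ⟨⟨.negSucc 939, .negSucc 70, .ofNat 224, .negSucc 72, .ofNat 446, .negSucc 30⟩, ⟨.negSucc 432, .ofNat 54, .negSucc 51, .negSucc 24, .ofNat 206, .negSucc 2⟩, ⟨.ofNat 748, .ofNat 25, .negSucc 197, .negSucc 335, .negSucc 520, .negSucc 185⟩, ⟨.negSucc 2173, .ofNat 16, .ofNat 546, .negSucc 307, .ofNat 1075, .negSucc 226⟩, ⟨.negSucc 361, .ofNat 109, .ofNat 22, .ofNat 268, .ofNat 35, .ofNat 334⟩, .ofNat 676, .negSucc 529, .ofNat 0, .negSucc 529, .ofNat 1529, .ofNat 0, .ofNat 206, .ofNat 128, .negSucc 154, .ofNat 0, .ofNat 120, .negSucc 54, .ofNat 0, .ofNat 0, .ofNat 434, .ofNat 743, .ofNat 0,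 .ofNat 21934622589066795814100284181839872, .ofNat 4309140865609604223319914053632, .ofNat 0, .ofNat 0, .ofNat 0, .ofNat 0, .ofNat 0, .ofNat 0, .ofNat 706234585856604590086729099074600960, .ofNat 805045566720176989074793506537472, .ofNat 0, .ofNat 0, .ofNat 0, .ofNat 373625709573475251572265766092800, .ofNat 0⟩)
    (by decide +kernel)
theorem L00778 : Good (Phi V5.P V5.D (-1) 1) ⟨1, 0, 2, 3, 1, 0, 0, 0, 2, 0⟩ :=
  out_sound (S := T5.ds_mp) T5.ok_mp (w := 31) (j := 3) (by decide +kernel)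
theorem L00779 : Good (Phi V5.P V5.D (-1) 1) ⟨2, 0, 2, 2, 2, 0, 2, 0, 3, 2⟩ :=
  leafX_sound T5.ok_mp T5.Ymp.bz_eq (w := 200) (c := ⟨⟨.negSucc 1262, .negSucc 138, .ofNat 2, .negSucc 69, .ofNat 38, .ofNat 1⟩, ⟨.negSucc 731, .negSucc 76, .negSucc 317, .negSucc 47, .ofNat 110, .ofNat 0⟩, ⟨.ofNat 1654, .ofNat 140, .ofNat 13, .negSucc 72, .negSucc 188, .negSucc 0⟩, ⟨.negSucc 4065, .negSucc 76, .ofNat 9, .negSucc 67, .ofNat 349, .ofNat 2⟩, ⟨.negSucc 62, .ofNat 2, .ofNat 2, .negSucc 239, .ofNat 64, .ofNat 0⟩, .ofNat 195, .negSucc 33, .ofNat 0, .negSucc 33, .ofNat 228, .ofNat 0, .ofNat 338, .ofNat 34, .negSucc 143, .ofNat 0, .ofNat 128, .negSucc 7, .ofNat 0, .ofNat 0, .ofNat 657, .ofNat 287227, .ofNat 13316146149377372806172552638758089916416, .ofNat 0, .ofNat 0, .ofNat 0, .ofNat 51528295275624843433387676582405619056640, .ofNat 0, .ofNat 542426157913289344721466986206330880, .ofNat 0,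 .ofNat 7573698113541161361371894995295391449088, .ofNat 0, .ofNat 85286970352835040926883898875445248, .ofNat 0, .ofNat 20647977988371952729344957667498885382144, .ofNat 0, .ofNat 342027551430750045783581722610237440, .ofNat 0⟩)
    (by decide +kernel)
theorem L00780 : Good (Phi V5.P V5.D (-1) 1) ⟨2, 0, 2, 2, 2, 0, 2, 1, 4, 4⟩ :=
  leafX_sound T5.ok_mp T5.Ymp.bz_eq (w := 200) (c := ⟨⟨.negSucc 1243, .negSucc 113, .negSucc 8, .negSucc 55, .ofNat 113, .ofNat 66⟩, ⟨.negSucc 642, .negSucc 65, .negSucc 290, .negSucc 42, .ofNat 66, .ofNat 38⟩, ⟨.ofNat 1513, .ofNat 99, .ofNat 3, .negSucc 102, .negSucc 339, .negSucc 46⟩, ⟨.negSucc 3745, .negSucc 41, .ofNat 1, .negSucc 50, .ofNat 311, .ofNat 180⟩, ⟨.negSucc 18, .ofNat 5, .ofNat 1, .negSucc 208, .ofNat 13, .ofNat 12⟩, .ofNat 461, .negSucc 203, .ofNat 0, .negSucc 203, .ofNat 652, .ofNat 0, .ofNat 140, .ofNat 80, .negSucc 39, .ofNat 0, .ofNat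 128, .negSucc 11, .ofNat 0, .ofNat 0, .ofNat 350, .ofNat 10813, .ofNat 0, .ofNat 0, .ofNat 0, .ofNat 0, .ofNat 0, .ofNat 0, .ofNat 0, .ofNat 0, .ofNat 0, .ofNat 0, .ofNat 0, .ofNat 0, .ofNat 5959174374717336401251134129400124014592, .ofNat 0, .ofNat 3030609426904688035888742468425875456, .ofNat 0⟩)
    (by decide +kernel)
theorem L00781 : Good (Phi V5.P V5.D (-1) 1) ⟨2, 0, 2, 2, 2, 0, 2, 1, 4, 5⟩ :=
  leafX_sound T5.ok_mp T5.Ymp.bz_eq (w := 202) (c := ⟨⟨.negSucc 1179, .negSucc 108, .negSucc 9, .negSucc 58, .ofNat 115, .ofNat 66⟩, ⟨.negSucc 612, .negSucc 58, .negSucc 274, .negSucc 35, .ofNat 61, .ofNat 42⟩, ⟨.ofNat 1516, .ofNat 103, .negSucc 17, .negSucc 111, .negSucc 385, .negSucc 68⟩, ⟨.negSucc 3565, .negSucc 28, .ofNat 1, .negSucc 38, .ofNat 296, .ofNat 192⟩, ⟨.negSucc 18, .ofNat 5, .negSucc 2, .negSucc 192, .ofNat 16, .ofNat 11⟩, .ofNat 196, .negSucc 33, .ofNat 0, .negSucc 33,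 .ofNat 227, .ofNat 0, .ofNat 232, .ofNat 33, .negSucc 73, .ofNat 0, .ofNat 128, .negSucc 6, .ofNat 0, .ofNat 0, .ofNat 453, .ofNat 38216, .ofNat 4423047888428463444713224214638579679232, .ofNat 0, .ofNat 0, .ofNat 0, .ofNat 32964144153162888693104893736578432630784, .ofNat 0, .ofNat 679794711720171109604675081235070976, .ofNat 0, .ofNat 10200496261436063820610336814724286513152, .ofNat 0, .ofNat 0, .ofNat 0, .ofNat 13464729366792344530326170963004339781632, .ofNat 0, .ofNat 9871243256263517566461668681031090176, .ofNat 0⟩)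
    (by decide +kernel)
theorem L00782 : Good (Phi V5.P V5.D (-1) 1) ⟨2, 0, 2, 2, 2, 0, 1, 0, 3, 3⟩ :=
  out_sound (S := T5.ds_mp) T5.ok_mp (w := 21) (j := 1) (by decide +kernel)
theorem L00783 : Good (Phi V5.P V5.D (-1) 1) ⟨2, 0, 2, 2, 2, 0, 2, 2, 3, 2⟩ :=
  leafX_sound T5.ok_mp T5.Ymp.bz_eq (w := 195) (c := ⟨⟨.negSucc 1132, .negSucc 96, .negSucc 5, .negSucc 42, .ofNat 123, .ofNat 102⟩, ⟨.negSucc 585, .negSucc 53, .negSucc 261, .negSucc 34, .ofNat 71, .ofNat 61⟩, ⟨.ofNat 1241, .ofNat 86, .negSucc 31, .negSucc 123, .negSucc 388, .negSucc 177⟩, ⟨.negSucc 3405, .negSucc 17, .negSucc 0, .negSucc 30, .ofNat 333, .ofNat 277⟩, ⟨.negSucc 32, .ofNat 11, .negSucc 4, .negSucc 165, .ofNat 26, .ofNat 24⟩, .ofNat 477, .negSucc 226, .ofNat 0, .negSucc 226, .ofNat 664, .ofNat 0, .ofNat 251, .ofNat 85, .negSucc 52, .ofNat 0, .ofNat 128, .negSucc 19, .ofNat 0, .ofNat 0, .ofNat 452, .ofNat 7313,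 .ofNat 0, .ofNat 0, .ofNat 0, .ofNat 0, .ofNat 0, .ofNat 0, .ofNat 0, .ofNat 0, .ofNat 0, .ofNat 0, .ofNat 259055820527965858454518631304790016, .ofNat 0, .ofNat 0, .ofNat 0, .ofNat 0, .ofNat 0⟩)
    (by decide +kernel)
theorem L00784 : Good (Phi V5.P V5.D (-1) 1) ⟨2, 0, 2, 2, 2, 0, 3, 6, 3, 2⟩ :=
  leafX_sound T5.ok_mp T5.Ymp.bz_eq (w := 198) (c := ⟨⟨.negSucc 998, .negSucc 69, .ofNat 0, .negSucc 27, .ofNat 90, .ofNat 47⟩, ⟨.negSucc 520, .negSucc 36, .negSucc 236, .negSucc 19, .ofNat 55, .ofNat 31⟩, ⟨.ofNat 872, .ofNat 50, .negSucc 32, .negSucc 127, .negSucc 260, .negSucc 189⟩, ⟨.negSucc 3006, .ofNat 33, .ofNat 2, .negSucc 25, .ofNat 244, .ofNat 112⟩, ⟨.negSucc 56, .ofNat 27, .ofNat 7, .negSucc 105, .ofNat 40, .ofNat 50⟩, .ofNat 873, .negSucc 671, .ofNat 0, .negSucc 671, .ofNat 1522, .ofNat 0, .ofNat 212, .ofNat 124, .negSucc 52, .ofNat 0, .ofNat 128, .negSucc 25, .ofNat 0, .ofNat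 0, .ofNat 418, .ofNat 5171, .ofNat 0, .ofNat 0, .ofNat 0, .ofNat 0, .ofNat 0, .ofNat 0, .ofNat 0, .ofNat 0, .ofNat 0, .ofNat 0, .ofNat 6052476459296912312665631376239755264, .ofNat 0, .ofNat 0, .ofNat 0, .ofNat 2819761430734058225568114556616572928, .ofNat 0⟩)
    (by decide +kernel)
theorem L00785 : Good (Phi V5.P V5.D (-1) 1) ⟨2, 0, 2, 2, 2, 0, 3, 7, 3, 2⟩ :=
  leafX_sound T5.ok_mp T5.Ymp.bz_eq (w := 197) (c := ⟨⟨.negSucc 841, .negSucc 34, .negSucc 6, .negSucc 28, .ofNat 189, .negSucc 78⟩, ⟨.negSucc 433, .negSucc 25, .negSucc 202, .negSucc 11, .ofNat 112, .negSucc 48⟩, ⟨.ofNat 539, .ofNat 23, .negSucc 23, .negSucc 121, .negSucc 384, .negSucc 70⟩, ⟨.negSucc 2525, .ofNat 68, .ofNat 17, .negSucc 63, .ofNat 517, .negSucc 265⟩, ⟨.negSucc 23, .ofNat 54, .negSucc 62, .negSucc 33, .ofNat 45, .ofNat 25⟩, .ofNat 907, .negSucc 717, .ofNat 0, .negSucc 717, .ofNat 1569, .ofNat 0, .ofNat 129,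 .ofNat 127, .negSucc 47, .ofNat 0, .ofNat 128, .negSucc 24, .ofNat 0, .ofNat 0, .ofNat 281, .ofNat 1385, .ofNat 0, .ofNat 0, .ofNat 9765190687739220487536821680472064, .ofNat 0, .ofNat 0, .ofNat 0, .ofNat 0, .ofNat 0, .ofNat 0, .ofNat 191425679827834626972777614499033120768, .ofNat 2200401363530891304476843662427291648, .ofNat 0, .ofNat 0, .ofNat 38839746837422907482151987780029251584, .ofNat 439282348290901073866840881881939968, .ofNat 0⟩)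
    (by decide +kernel)
theorem L00786 : Good (Phi V5.P V5.D (-1) 1) ⟨2, 0, 2, 2, 2, 0, 1, 1, 3, 3⟩ :=
  leafX_sound T5.ok_mp T5.Ymp.bz_eq (w := 189) (c := ⟨⟨.negSucc 1027, .negSucc 87, .negSucc 8, .negSucc 25, .ofNat 236, .negSucc 31⟩, ⟨.negSucc 537, .negSucc 51, .negSucc 241, .negSucc 15, .ofNat 144, .negSucc 13⟩, ⟨.ofNat 1112, .ofNat 74, .negSucc 32, .negSucc 153, .negSucc 945, .negSucc 27⟩, ⟨.negSucc 3096, .negSucc 0, .ofNat 14, .negSucc 23, .ofNat 582, .negSucc 93⟩, ⟨.negSucc 73, .negSucc 3, .negSucc 14, .negSucc 78, .ofNat 199, .negSucc 3⟩, .ofNat 999, .negSucc 839, .ofNat 0, .negSucc 839, .ofNat 1689, .ofNat 0, .ofNat 128, .ofNat 228, .negSucc 32, .ofNat 0, .ofNat 220, .negSucc 18, .ofNat 0, .ofNat 0, .ofNat 445, .ofNat 1056, .ofNat 1283716372740696344063796904300904448, .ofNat 0, .ofNat 0, .ofNat 0, .ofNat 0, .ofNat 0, .ofNat 0, .ofNat 0, .ofNat 0, .ofNat 0, .ofNat 0, .ofNat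 0, .ofNat 51447191149393476717495899807167807488, .ofNat 0, .ofNat 0, .ofNat 0⟩)
    (by decide +kernel)
theorem L00787 : Good (Phi V5.P V5.D (-1) 1) ⟨2, 0, 2, 2, 2, 1, 2, 0, 3, 2⟩ :=
  leafX_sound T5.ok_mp T5.Ymp.bz_eq (w := 197) (c := ⟨⟨.negSucc 1407, .negSucc 179, .negSucc 26, .negSucc 81, .ofNat 134, .ofNat 181⟩, ⟨.negSucc 715, .negSucc 94, .negSucc 334, .negSucc 57, .ofNat 51, .ofNat 103⟩, ⟨.ofNat 1768, .ofNat 250, .ofNat 91, .negSucc 244, .negSucc 464, .ofNat 183⟩, ⟨.negSucc 3994, .negSucc 155, .negSucc 1, .negSucc 45, .ofNat 229, .ofNat 436⟩, ⟨.negSucc 301, .negSucc 12, .ofNat 13, .negSucc 333, .ofNat 67, .ofNat 158⟩, .ofNat 196, .negSucc 33, .ofNat 0, .negSucc 33, .ofNat 228, .ofNat 0, .ofNat 234, .ofNat 34, .negSucc 162, .ofNat 0, .ofNat 128, .ofNat 42, .ofNat 0, .ofNat 0, .ofNat 745, .ofNat 29183, .ofNat 860713340204411975187772262231727669248, .ofNat 0, .ofNat 0, .ofNat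 0, .ofNat 6022525148367903139808495496793241419776, .ofNat 0, .ofNat 79274706200783020230733987873554432, .ofNat 0, .ofNat 1332877269613802290975996911448072650752, .ofNat 0, .ofNat 27378993533272221890489774407417856, .ofNat 0, .ofNat 5621538496403730550848222757872797220864, .ofNat 0, .ofNat 565002391144702073032218531306930176, .ofNat 0⟩)
    (by decide +kernel)
theorem L00788 : Good (Phi V5.P V5.D (-1) 1) ⟨2, 0, 2, 2, 2, 1, 2, 1, 4, 4⟩ :=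
  leafX_sound T5.ok_mp T5.Ymp.bz_eq (w := 200) (c := ⟨⟨.negSucc 1295, .negSucc 130, .negSucc 23, .negSucc 70, .ofNat 106, .ofNat 72⟩, ⟨.negSucc 683, .negSucc 74, .negSucc 302, .negSucc 52, .ofNat 62, .ofNat 46⟩, ⟨.ofNat 1348, .ofNat 140, .ofNat 16, .negSucc 167, .negSucc 295, .negSucc 19⟩, ⟨.negSucc 3777, .negSucc 84, .ofNat 8, .negSucc 69, .ofNat 265, .ofNat 206⟩, ⟨.negSucc 285, .ofNat 28, .negSucc 13, .negSucc 252, .ofNat 64, .ofNat 35⟩, .ofNat 461, .negSucc 201, .ofNat 0, .negSucc 201, .ofNat 650, .ofNat 0, .ofNat 138, .ofNat 82, .negSucc 58, .ofNat 0, .ofNat 128, .negSucc 7, .ofNat 0, .ofNat 0, .ofNat 548, .ofNat 8712, .ofNat 195033623983378624457807661320957329408, .ofNat 0, .ofNat 57762086756324346085410132440645632, .ofNat 0, .ofNat 0, .ofNat 0, .ofNat 1482161207695622142463236344731664384, .ofNat 0, .ofNat 0, .ofNat 0, .ofNat 0, .ofNat 0, .ofNat 8979179961290825060773292777769288073216,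 .ofNat 0, .ofNat 11906375451777930292879293193427877888, .ofNat 0⟩)
    (by decide +kernel)
theorem L00789 : Good (Phi V5.P V5.D (-1) 1) ⟨2, 0, 2, 2, 3, 2, 3, 2, 5, 10⟩ :=
  leafX_sound T5.ok_mp T5.Ymp.bz_eq (w := 228) (c := ⟨⟨.negSucc 1192, .negSucc 127, .negSucc 20, .negSucc 31, .ofNat 24, .ofNat 23⟩, ⟨.negSucc 657, .negSucc 66, .negSucc 293, .negSucc 26, .ofNat 48, .ofNat 32⟩, ⟨.ofNat 1331, .ofNat 142, .negSucc 1, .negSucc 79, .negSucc 149, .ofNat 18⟩, ⟨.negSucc 3572, .negSucc 58, .ofNat 4, .negSucc 38, .ofNat 123, .ofNat 109⟩, ⟨.negSucc 242, .ofNat 7, .negSucc 1, .negSucc 117, .ofNat 29, .ofNat 18⟩, .ofNat 196, .negSucc 33, .ofNat 0, .negSucc 33, .ofNat 227, .ofNat 0, .ofNat 303, .ofNat 34, .negSucc 113, .ofNat 0, .ofNat 128, .ofNat 15, .ofNat 0, .ofNat 0, .ofNat 680, .ofNat 251375, .ofNat 8978672112272395431063654304400332271812345856, .ofNat 0, .ofNat 0, .ofNat 0, .ofNat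 0, .ofNat 0, .ofNat 0, .ofNat 0, .ofNat 9121634640905596734708623553002815682540208128, .ofNat 0, .ofNat 29571590086483407979370872157100196073832448, .ofNat 0, .ofNat 27548839207191900718950072698482573926155157504, .ofNat 0, .ofNat 139259168619945844221002981847735760223993856, .ofNat 0⟩)
    (by decide +kernel)
theorem L00790 : Good (Phi V5.P V5.D (-1) 1) ⟨2, 0, 2, 2, 3, 3, 4, 4, 6, 20⟩ :=
  leafX_sound T5.ok_mp T5.Ymp.bz_eq (w := 238) (c := ⟨⟨.negSucc 1250, .negSucc 146, .negSucc 34, .negSucc 26, .ofNat 32, .ofNat 30⟩, ⟨.negSucc 659, .negSucc 74, .negSucc 303, .negSucc 16, .ofNat 8, .ofNat 13⟩, ⟨.ofNat 1244, .ofNat 217, .ofNat 52, .negSucc 74, .negSucc 104, .ofNat 2⟩, ⟨.negSucc 3611, .negSucc 84, .ofNat 7, .ofNat 7, .ofNat 55, .ofNat 68⟩, ⟨.negSucc 356, .ofNat 2, .ofNat 0, .negSucc 135, .ofNat 15, .ofNat 16⟩, .ofNat 196, .negSucc 33, .ofNat 0, .negSucc 33, .ofNat 227, .ofNat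 0, .ofNat 249, .ofNat 33, .negSucc 123, .ofNat 0, .ofNat 128, .ofNat 38, .ofNat 0, .ofNat 0, .ofNat 712, .ofNat 498161, .ofNat 869352147141981234856084069396302943366380781568, .ofNat 0, .ofNat 21300720955357656119471359430631122253817839616, .ofNat 0, .ofNat 969197047702401866001427654515131910645818064896, .ofNat 0, .ofNat 23461656935095041682695687197369193685166587904, .ofNat 0, .ofNat 0, .ofNat 0, .ofNat 0, .ofNat 0, .ofNat 2317121706864996642477878916783052495819653513216, .ofNat 0, .ofNat 107928396014204271336920549648631297988597121024, .ofNat 0⟩)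
    (by decide +kernel)
theorem L00791 : Good (Phi V5.P V5.D (-1) 1) ⟨2, 0, 2, 2, 3, 3, 4, 5, 6, 20⟩ :=
  leafX_sound T5.ok_mp T5.Ymp.bz_eq (w := 236) (c := ⟨⟨.negSucc 1230, .negSucc 138, .negSucc 32, .negSucc 27, .ofNat 31, .ofNat 29⟩, ⟨.negSucc 648, .negSucc 69, .negSucc 301, .negSucc 21, .ofNat 14, .ofNat 12⟩, ⟨.ofNat 1193, .ofNat 178, .ofNat 26, .negSucc 80, .negSucc 112, .negSucc 9⟩, ⟨.negSucc 3551, .negSucc 70, .ofNat 1, .negSucc 11, .ofNat 65, .ofNat 66⟩, ⟨.negSucc 349, .ofNat 8, .negSucc 2, .negSucc 123, .ofNat 17, .ofNat 11⟩, .ofNat 196, .negSucc 33, .ofNat 0, .negSucc 33, .ofNat 227, .ofNat 0, .ofNat 321, .ofNat 34, .negSucc 197, .ofNat 0, .ofNat 128, .ofNat 44, .ofNat 0, .ofNat 0, .ofNat 1160, .ofNat 135482, .ofNat 102070531677280277331869114303294356464106209280, .ofNat 0, .ofNat 3939233100279678558249185189788224977056563200, .ofNat 0, .ofNat 0, .ofNat 0, .ofNat 0,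 .ofNat 0, .ofNat 19285324670590422498629794881558114984444035072, .ofNat 0, .ofNat 24200462567058313120809918885509890576935288832, .ofNat 0, .ofNat 0, .ofNat 0, .ofNat 0, .ofNat 0⟩)
    (by decide +kernel)
theorem L00792 : Good (Phi V5.P V5.D (-1) 1) ⟨2, 0, 2, 2, 3, 3, 4, 4, 6, 21⟩ :=
  out_sound (S := T5.ds_mp) T5.ok_mp (w := 32) (j := 1) (by decide +kernel)
theorem L00793 : Good (Phi V5.P V5.D (-1) 1) ⟨2, 0, 2, 2, 3, 3, 5, 10, 6, 21⟩ :=
  leafX_sound T5.ok_mp T5.Ymp.bz_eq (w := 242) (c := ⟨⟨.negSucc 1225, .negSucc 128, .negSucc 25, .negSucc 6, .ofNat 18, .ofNat 19⟩, ⟨.negSucc 631, .negSucc 66, .negSucc 297, .negSucc 24, .ofNat 3, .ofNat 19⟩, ⟨.ofNat 1195, .ofNat 179, .ofNat 15, .negSucc 90, .negSucc 56, .ofNat 14⟩, ⟨.negSucc 3511, .negSucc 55, .ofNat 14, .ofNat 15, .ofNat 27, .ofNat 66⟩, ⟨.negSucc 337, .ofNat 5, .negSucc 2, .negSucc 124, .ofNat 11, .ofNat 17⟩, .ofNat 196, .negSucc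 33, .ofNat 0, .negSucc 33, .ofNat 227, .ofNat 0, .ofNat 225, .ofNat 33, .negSucc 102, .ofNat 0, .ofNat 128, .ofNat 29, .ofNat 0, .ofNat 0, .ofNat 645, .ofNat 480902, .ofNat 7315754758761151213111205194947401027527316078592, .ofNat 0, .ofNat 0, .ofNat 0, .ofNat 15197883910971558402172704497092849176536261066752, .ofNat 0, .ofNat 0, .ofNat 0, .ofNat 0, .ofNat 0, .ofNat 0, .ofNat 0, .ofNat 6231493207773326157846665499280452554642971164672, .ofNat 0, .ofNat 2442007491219092414697243101680264737916746465280, .ofNat 0⟩)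
    (by decide +kernel)
theorem L00794 : Good (Phi V5.P V5.D (-1) 1) ⟨2, 0, 2, 2, 3, 3, 5, 11, 6, 21⟩ :=
  leafX_sound T5.ok_mp T5.Ymp.bz_eq (w := 240) (c := ⟨⟨.negSucc 1199, .negSucc 122, .negSucc 26, .negSucc 19, .ofNat 13, .ofNat 18⟩, ⟨.negSucc 633, .negSucc 63, .negSucc 292, .negSucc 20, .ofNat 7, .ofNat 17⟩, ⟨.ofNat 1145, .ofNat 159, .negSucc 1, .negSucc 80, .negSucc 50, .ofNat 12⟩, ⟨.negSucc 3471, .negSucc 45, .ofNat 12, .negSucc 3, .ofNat 27, .ofNat 62⟩, ⟨.negSucc 331, .ofNat 8, .negSucc 2, .negSucc 118, .ofNat 9, .ofNat 15⟩, .ofNat 195, .negSucc 32, .ofNat 0, .negSucc 32, .ofNat 227, .ofNat 0, .ofNat 306, .ofNat 33, .negSucc 89, .ofNat 0, .ofNat 128, .ofNat 21, .ofNat 0, .ofNat 0, .ofNat 571, .ofNat 170503, .ofNat 1763116949028369177381431419841183393712533667840, .ofNat 0, .ofNat 37540668706993688618278964006182191434041393152, .ofNat 0, .ofNat 0, .ofNat 0, .ofNat 0, .ofNat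 0, .ofNat 0, .ofNat 0, .ofNat 0, .ofNat 0, .ofNat 95879557373386992631901728223695512283381760000, .ofNat 0, .ofNat 1513858124827587112704794294057991674983513849856, .ofNat 0⟩)
    (by decide +kernel)
theorem L00795 : Good (Phi V5.P V5.D (-1) 1) ⟨2, 0, 2, 2, 2, 1, 3, 2, 5, 11⟩ :=
  leafX_sound T5.ok_mp T5.Ymp.bz_eq (w := 215) (c := ⟨⟨.negSucc 1221, .negSucc 119, .negSucc 22, .negSucc 25, .ofNat 62, .ofNat 48⟩, ⟨.negSucc 612, .negSucc 58, .negSucc 289, .negSucc 34, .ofNat 13, .ofNat 39⟩, ⟨.ofNat 1352, .ofNat 162, .negSucc 14, .negSucc 121, .negSucc 204, .ofNat 1⟩, ⟨.negSucc 3518, .negSucc 30, .ofNat 19, .ofNat 31, .ofNat 98, .ofNat 139⟩, ⟨.negSucc 251, .ofNat 11, .negSucc 6, .negSucc 216, .ofNat 44, .ofNat 31⟩, .ofNat 196, .negSucc 33, .ofNat 0, .negSucc 33, .ofNat 227, .ofNat 0, .ofNat 234, .ofNat 33, .negSucc 87, .ofNat 0, .ofNat 128, .ofNat 22, .ofNat 0, .ofNat 0, .ofNat 598,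 .ofNat 436224, .ofNat 4437973694811451483122948564573123810164736, .ofNat 0, .ofNat 0, .ofNat 0, .ofNat 14731961132509238333782962454940818364956672, .ofNat 0, .ofNat 1882748178125901423669552749523270369280, .ofNat 0, .ofNat 2110872862281687261092627254609359400861696, .ofNat 0, .ofNat 0, .ofNat 0, .ofNat 8652428441680363370153872323031878141476864, .ofNat 0, .ofNat 6714400796579326183860074404006774964224, .ofNat 0⟩)
    (by decide +kernel)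
theorem L00796 : Good (Phi V5.P V5.D (-1) 1) ⟨2, 0, 2, 2, 2, 1, 3, 3, 4, 5⟩ :=
  leafX_sound T5.ok_mp T5.Ymp.bz_eq (w := 205) (c := ⟨⟨.negSucc 1191, .negSucc 105, .negSucc 11, .negSucc 60, .ofNat 55, .ofNat 88⟩, ⟨.negSucc 624, .negSucc 55, .negSucc 280, .negSucc 41, .ofNat 28, .ofNat 55⟩, ⟨.ofNat 1204, .ofNat 96, .negSucc 49, .negSucc 105, .negSucc 183, .negSucc 42⟩, ⟨.negSucc 3483, .negSucc 12, .ofNat 26, .negSucc 61, .ofNat 120, .ofNat 241⟩, ⟨.negSucc 241, .ofNat 15, .negSucc 6, .negSucc 194, .ofNat 37, .ofNat 43⟩, .ofNat 459, .negSucc 199, .ofNat 0, .negSucc 199, .ofNat 650, .ofNat 0, .ofNat 165, .ofNat 81, .negSucc 42, .ofNat 0, .ofNat 128, .negSucc 6, .ofNat 0, .ofNat 0, .ofNat 536, .ofNat 23560, .ofNat 6282154247550786216074228642357511716864, .ofNat 0, .ofNat 0, .ofNat 0, .ofNat 103661050494814018041957339915720895496192, .ofNat 0, .ofNat 0, .ofNat 0, .ofNat 0, .ofNat 0,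 .ofNat 258175180584670159280466555855035170816, .ofNat 0, .ofNat 0, .ofNat 0, .ofNat 0, .ofNat 0⟩)
    (by decide +kernel)
theorem L00797 : Good (Phi V5.P V5.D (-1) 1) ⟨2, 0, 2, 2, 2, 1, 1, 0, 3, 3⟩ :=
  leafX_sound T5.ok_mp T5.Ymp.bz_eq (w := 193) (c := ⟨⟨.negSucc 1287, .negSucc 90, .negSucc 16, .negSucc 37, .ofNat 216, .ofNat 203⟩, ⟨.negSucc 693, .negSucc 40, .negSucc 265, .negSucc 21, .ofNat 129, .ofNat 102⟩, ⟨.ofNat 1775, .ofNat 94, .negSucc 91, .negSucc 77, .negSucc 810, .negSucc 145⟩, ⟨.negSucc 3635, .ofNat 23, .ofNat 19, .negSucc 14, .ofNat 463, .ofNat 471⟩, ⟨.negSucc 452, .ofNat 28, .negSucc 5, .negSucc 146, .ofNat 258, .ofNat 129⟩, .ofNat 196, .negSucc 34, .ofNat 0, .negSucc 34, .ofNat 228, .ofNat 0, .ofNat 256, .ofNat 35, .negSucc 57, .ofNat 0, .ofNat 128, .ofNat 3, .ofNat 0, .ofNat 0, .ofNat 481, .ofNat 24977, .ofNat 145039228012676502344091966474702290944, .ofNat 0,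 .ofNat 0, .ofNat 0, .ofNat 757726358686980871435801906122296655872, .ofNat 0, .ofNat 6125841376909505812615283190267904, .ofNat 0, .ofNat 371644510669829747394444027255156899840, .ofNat 0, .ofNat 3499795384920252514032408145690624, .ofNat 0, .ofNat 699527823910676661307944529205468856320, .ofNat 0, .ofNat 8379739885368389697179598110851072, .ofNat 0⟩)
    (by decide +kernel)
theorem L00798 : Good (Phi V5.P V5.D (-1) 1) ⟨2, 0, 2, 2, 2, 1, 2, 2, 3, 2⟩ :=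
  leafX_sound T5.ok_mp T5.Ymp.bz_eq (w := 194) (c := ⟨⟨.negSucc 1207, .negSucc 98, .negSucc 18, .negSucc 85, .ofNat 130, .ofNat 155⟩, ⟨.negSucc 639, .negSucc 48, .negSucc 267, .negSucc 59, .ofNat 77, .ofNat 89⟩, ⟨.ofNat 1145, .ofNat 46, .negSucc 75, .negSucc 78, .negSucc 364, .negSucc 181⟩, ⟨.negSucc 3516, .negSucc 4, .ofNat 45, .negSucc 143, .ofNat 291, .ofNat 381⟩, ⟨.negSucc 271, .ofNat 48, .negSucc 26, .negSucc 167, .ofNat 109, .ofNat 80⟩, .ofNat 899, .negSucc 710, .ofNat 0, .negSucc 710, .ofNat 1562, .ofNat 0, .ofNat 128, .ofNat 129, .negSucc 26, .ofNat 0, .ofNat 128, .negSucc 11, .ofNat 0, .ofNat 0, .ofNat 308, .ofNat 2490, .ofNat 0, .ofNat 0, .ofNat 0, .ofNat 0, .ofNat 0, .ofNat 0, .ofNat 0, .ofNat 0, .ofNat 0, .ofNat 0, .ofNat 0, .ofNat 0, .ofNat 0, .ofNat 0, .ofNat 24765855270928480905106853296340992, .ofNat 0⟩)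
    (by decide +kernel)
theorem L00799 : Good (Phi V5.P V5.D (-1) 1) ⟨2, 0, 2, 2, 2, 1, 3, 6, 3, 2⟩ :=
  leafX_sound T5.ok_mp T5.Ymp.bz_eq (w := 198) (c := ⟨⟨.negSucc 1088, .negSucc 24, .negSucc 0, .negSucc 80, .ofNat 97, .ofNat 93⟩, ⟨.negSucc 578, .negSucc 5, .negSucc 241, .negSucc 51, .ofNat 59, .ofNat 64⟩, ⟨.ofNat 835, .negSucc 38, .negSucc 117, .negSucc 52, .negSucc 246, .negSucc 218⟩, ⟨.negSucc 3150, .ofNat 157, .ofNat 29, .negSucc 228, .ofNat 195, .ofNat 181⟩, ⟨.negSucc 273, .ofNat 76, .ofNat 5, .negSucc 24, .ofNat 127, .ofNat 151⟩, .ofNat 999, .negSucc 839, .ofNat 0, .negSucc 839, .ofNat 1689, .ofNat 0, .ofNat 128, .ofNat 163, .negSucc 53, .ofNat 0, .ofNat 154, .negSucc 28, .ofNat 0, .ofNat 0, .ofNat 481, .ofNat 2585, .ofNat 0, .ofNat 0, .ofNat 15369556629286011158952927354159104, .ofNat 0, .ofNat 0, .ofNat 118658309286981536640329428093330522112, .ofNat 0, .ofNat 0, .ofNat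 0, .ofNat 203487624237819674988527992505892864000, .ofNat 6068097342015765519479615118534246400, .ofNat 0, .ofNat 0, .ofNat 0, .ofNat 0, .ofNat 0⟩)
    (by decide +kernel)
theorem L00800 : Good (Phi V5.P V5.D (-1) 1) ⟨2, 0, 2, 2, 2, 1, 3, 7, 3, 2⟩ :=
  leafX_sound T5.ok_mp T5.Ymp.bz_eq (w := 197) (c := ⟨⟨.negSucc 1003, .ofNat 39, .ofNat 35, .negSucc 114, .ofNat 211, .ofNat 34⟩, ⟨.negSucc 523, .ofNat 30, .negSucc 204, .negSucc 73, .ofNat 133, .ofNat 21⟩, ⟨.ofNat 604, .negSucc 93, .negSucc 131, .negSucc 2, .negSucc 390, .negSucc 214⟩, ⟨.negSucc 2889, .ofNat 278, .ofNat 99, .negSucc 412, .ofNat 442, .negSucc 39⟩, ⟨.negSucc 238, .ofNat 126, .negSucc 13, .ofNat 98, .ofNat 244, .ofNat 239⟩, .ofNat 885, .negSucc 683, .ofNat 0, .negSucc 683, .ofNat 1532, .ofNat 0, .ofNat 135, .ofNat 127, .negSucc 48, .ofNat 0, .ofNat 128, .negSucc 24, .ofNat 0, .ofNat 0, .ofNat 354, .ofNat 1413, .ofNat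 0, .ofNat 0, .ofNat 0, .ofNat 0, .ofNat 0, .ofNat 258027685864638651411994941078217162752, .ofNat 0, .ofNat 0, .ofNat 0, .ofNat 261149611716045681978706805615402942464, .ofNat 2544201789401932936024099684316348416, .ofNat 0, .ofNat 0, .ofNat 104985371105352000588349390909060677632, .ofNat 1410407404391636868451982535152369664, .ofNat 0⟩)
    (by decide +kernel)
theorem L00801 : Good (Phi V5.P V5.D (-1) 1) ⟨2, 0, 2, 2, 2, 1, 1, 1, 3, 3⟩ :=
  leafX_sound T5.ok_mp T5.Ymp.bz_eq (w := 188) (c := ⟨⟨.negSucc 1095, .negSucc 51, .ofNat 22, .negSucc 24, .ofNat 224, .ofNat 78⟩, ⟨.negSucc 566, .negSucc 35, .negSucc 230, .negSucc 25, .ofNat 130, .ofNat 56⟩, ⟨.ofNat 991, .ofNat 58, .negSucc 169, .negSucc 50, .negSucc 877, .negSucc 162⟩, ⟨.negSucc 3153, .ofNat 92, .ofNat 55, .negSucc 66, .ofNat 386, .ofNat 206⟩, ⟨.negSucc 249, .ofNat 7, .ofNat 32, .negSucc 63, .ofNat 411, .ofNat 84⟩, .ofNat 459,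 .negSucc 198, .ofNat 0, .negSucc 198, .ofNat 649, .ofNat 0, .ofNat 186, .ofNat 79, .negSucc 26, .ofNat 0, .ofNat 128, .negSucc 14, .ofNat 0, .ofNat 0, .ofNat 408, .ofNat 904, .ofNat 0, .ofNat 0, .ofNat 0, .ofNat 0, .ofNat 0, .ofNat 21614197961882054311169018146483863552, .ofNat 16115150927008641678166635417960448, .ofNat 0, .ofNat 0, .ofNat 12919170755505257219225330700324438016, .ofNat 0, .ofNat 0, .ofNat 22881529445617471717517112786892619776, .ofNat 5539668163228673686721370196122009600, .ofNat 0, .ofNat 0⟩)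
    (by decide +kernel)
theorem L00802 : Good (Phi V5.P V5.D (-1) 1) ⟨3, 2, 2, 2, 1, 0, 2, 0, 4, 4⟩ :=
  leafX_sound T5.ok_mp T5.Ymp.bz_eq (w := 192) (c := ⟨⟨.negSucc 1434, .negSucc 190, .negSucc 44, .negSucc 225, .ofNat 103, .ofNat 129⟩, ⟨.negSucc 759, .ofNat 4, .negSucc 347, .negSucc 136, .ofNat 81, .ofNat 66⟩, ⟨.ofNat 1938, .ofNat 286, .ofNat 166, .negSucc 175, .negSucc 423, .ofNat 71⟩, ⟨.negSucc 3919, .negSucc 133, .negSucc 31, .negSucc 273, .ofNat 184, .ofNat 307⟩, ⟨.negSucc 130, .ofNat 24, .ofNat 23, .negSucc 581, .ofNat 147, .ofNat 68⟩, .ofNat 438, .negSucc 202, .ofNat 0, .negSucc 202, .ofNat 671, .ofNat 0, .ofNat 128, .ofNat 94, .negSucc 79, .ofNat 0, .ofNat 137, .negSucc 6, .ofNat 0, .ofNat 0, .ofNat 715, .ofNat 43365, .ofNat 0, .ofNat 0, .ofNat 0, .ofNat 0, .ofNat 117289713551960696133948582196758446080, .ofNat 0, .ofNat 0, .ofNat 0, .ofNat 93037789257202183713553177843913981952,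 .ofNat 0, .ofNat 0, .ofNat 0, .ofNat 413841360895879259822560224287215583232, .ofNat 0, .ofNat 180943968520430985611810596454400, .ofNat 0⟩)
    (by decide +kernel)
theorem L00803 : Good (Phi V5.P V5.D (-1) 1) ⟨3, 2, 2, 2, 1, 0, 2, 1, 4, 4⟩ :=
  leafX_sound T5.ok_mp T5.Ymp.bz_eq (w := 190) (c := ⟨⟨.negSucc 1381, .negSucc 150, .negSucc 14, .negSucc 167, .ofNat 131, .ofNat 84⟩, ⟨.negSucc 715, .ofNat 13, .negSucc 297, .negSucc 99, .ofNat 75, .ofNat 49⟩, ⟨.ofNat 1662, .ofNat 177, .ofNat 34, .negSucc 219, .negSucc 396, .negSucc 49⟩, ⟨.negSucc 3793, .negSucc 54, .ofNat 5, .negSucc 208, .ofNat 315, .ofNat 219⟩, ⟨.negSucc 63, .ofNat 11, .ofNat 21, .negSucc 421, .ofNat 56, .ofNat 18⟩, .ofNat 835, .negSucc 706, .ofNat 0, .negSucc 706, .ofNat 1652, .ofNat 0, .ofNat 128, .ofNat 167, .negSucc 72, .ofNat 0, .ofNat 154, .negSucc 28, .ofNat 0, .ofNat 0, .ofNat 736, .ofNat 8435, .ofNat 0, .ofNat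 0, .ofNat 1534492303604236998936608374784, .ofNat 0, .ofNat 0, .ofNat 0, .ofNat 0, .ofNat 0, .ofNat 0, .ofNat 0, .ofNat 604953611502387157408101036982272, .ofNat 0, .ofNat 0, .ofNat 0, .ofNat 553260092160034680410999202250752, .ofNat 0⟩)
    (by decide +kernel)
theorem L00804 : Good (Phi V5.P V5.D (-1) 1) ⟨3, 2, 2, 2, 1, 0, 2, 0, 4, 5⟩ :=
  out_sound (S := T5.ds_mp) T5.ok_mp (w := 22) (j := 1) (by decide +kernel)
theorem L00805 : Good (Phi V5.P V5.D (-1) 1) ⟨3, 2, 2, 2, 2, 0, 2, 1, 4, 5⟩ :=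
  leafX_sound T5.ok_mp T5.Ymp.bz_eq (w := 206) (c := ⟨⟨.negSucc 1321, .negSucc 130, .negSucc 9, .negSucc 49, .ofNat 128, .ofNat 74⟩, ⟨.negSucc 678, .ofNat 14, .negSucc 280, .negSucc 36, .ofNat 74, .ofNat 45⟩, ⟨.ofNat 1662, .ofNat 135, .negSucc 4, .negSucc 114, .negSucc 418, .negSucc 71⟩, ⟨.negSucc 3619, .negSucc 26, .negSucc 3, .negSucc 37, .ofNat 319, .ofNat 199⟩, ⟨.negSucc 27, .ofNat 5, .negSucc 4, .negSucc 179, .ofNat 26, .ofNat 7⟩, .ofNat 442, .negSucc 207, .ofNat 0, .negSucc 207, .ofNat 673, .ofNat 0, .ofNat 128, .ofNat 95, .negSucc 33, .ofNat 0, .ofNat 141, .negSucc 10, .ofNat 0, .ofNat 0, .ofNat 352, .ofNat 25949, .ofNat 36733365113025207729773468889484632260608, .ofNat 0, .ofNat 0, .ofNat 0, .ofNat 214007469304682836117194783712348645359616, .ofNat 0, .ofNat 0, .ofNat 0, .ofNat 0, .ofNat 0, .ofNat 0, .ofNat 0, .ofNat 195293642135919765939102212333807272460288, .ofNat 0,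 .ofNat 1486867686277106577803519171514859520, .ofNat 0⟩)
    (by decide +kernel)
theorem L00806 : Good (Phi V5.P V5.D (-1) 1) ⟨3, 2, 3, 4, 2, 1, 3, 2, 5, 10⟩ :=
  leafX_sound T5.ok_mp T5.Ymp.bz_eq (w := 219) (c := ⟨⟨.negSucc 1376, .negSucc 147, .negSucc 13, .negSucc 67, .ofNat 63, .ofNat 64⟩, ⟨.negSucc 716, .ofNat 16, .negSucc 152, .negSucc 45, .ofNat 38, .ofNat 37⟩, ⟨.ofNat 1573, .ofNat 205, .ofNat 25, .negSucc 118, .negSucc 268, .ofNat 1⟩, ⟨.negSucc 3674, .negSucc 60, .ofNat 0, .negSucc 52, .ofNat 145, .ofNat 159⟩, ⟨.negSucc 247, .ofNat 17, .ofNat 2, .negSucc 239, .ofNat 39, .ofNat 30⟩, .ofNat 190, .negSucc 33, .ofNat 0, .negSucc 33, .ofNat 230, .ofNat 0, .ofNat 287, .ofNat 36, .negSucc 94, .ofNat 0, .ofNat 128, .ofNat 18, .ofNat 0, .ofNat 0, .ofNat 548, .ofNat 64251, .ofNat 25479914365304537590676782476929923618439168, .ofNat 0, .ofNat 0, .ofNat 0, .ofNat 0, .ofNat 0, .ofNat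 0, .ofNat 0, .ofNat 113383221356009485024119283819304716941131776, .ofNat 0, .ofNat 0, .ofNat 0, .ofNat 271815861176253227787847461456247396843388928, .ofNat 0, .ofNat 2932929889991871088942953916095067586560, .ofNat 0⟩)
    (by decide +kernel)
theorem L00807 : Good (Phi V5.P V5.D (-1) 1) ⟨3, 2, 3, 5, 2, 1, 3, 2, 5, 10⟩ :=
  leafX_sound T5.ok_mp T5.Ymp.bz_eq (w := 218) (c := ⟨⟨.negSucc 1380, .negSucc 146, .negSucc 13, .negSucc 78, .ofNat 58, .ofNat 68⟩, ⟨.negSucc 867, .ofNat 10, .negSucc 152, .negSucc 50, .ofNat 41, .ofNat 40⟩, ⟨.ofNat 1587, .ofNat 212, .ofNat 26, .negSucc 93, .negSucc 276, .negSucc 14⟩, ⟨.negSucc 3659, .negSucc 62, .negSucc 2, .negSucc 66, .ofNat 137, .ofNat 162⟩, ⟨.negSucc 248, .ofNat 19, .ofNat 0, .negSucc 235, .ofNat 40, .ofNat 27⟩, .ofNat 467, .negSucc 249, .ofNat 0, .negSucc 249, .ofNat 697, .ofNat 0, .ofNat 196, .ofNat 98, .negSucc 24, .ofNat 0, .ofNat 128,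 .negSucc 3, .ofNat 0, .ofNat 0, .ofNat 324, .ofNat 47134, .ofNat 17855814478956406395762458565217745610211328, .ofNat 0, .ofNat 174468834882868248255320146462348673024, .ofNat 0, .ofNat 0, .ofNat 0, .ofNat 0, .ofNat 0, .ofNat 0, .ofNat 0, .ofNat 0, .ofNat 0, .ofNat 88748738851376442591540614844426646737387520, .ofNat 0, .ofNat 4691225683360564993554359808117165785088, .ofNat 0⟩)
    (by decide +kernel)
theorem L00808 : Good (Phi V5.P V5.D (-1) 1) ⟨3, 2, 2, 2, 2, 1, 3, 2, 5, 11⟩ :=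
  leafX_sound T5.ok_mp T5.Ymp.bz_eq (w := 219) (c := ⟨⟨.negSucc 1356, .negSucc 137, .negSucc 32, .negSucc 18, .ofNat 61, .ofNat 64⟩, ⟨.negSucc 709, .ofNat 19, .negSucc 292, .negSucc 20, .ofNat 42, .ofNat 42⟩, ⟨.ofNat 1569, .ofNat 204, .ofNat 39, .negSucc 106, .negSucc 273, .negSucc 16⟩, ⟨.negSucc 3617, .negSucc 43, .ofNat 4, .ofNat 58, .ofNat 139, .ofNat 165⟩, ⟨.negSucc 259, .ofNat 18, .ofNat 4, .negSucc 209, .ofNat 54, .ofNat 30⟩, .ofNat 191, .negSucc 33, .ofNat 0, .negSucc 33, .ofNat 230, .ofNat 0, .ofNat 193, .ofNat 35, .negSucc 122, .ofNat 0, .ofNat 128, .ofNat 28, .ofNat 0, .ofNat 0, .ofNat 800, .ofNat 394118, .ofNat 42977336546626684786771848730533114842972160, .ofNat 0, .ofNat 0, .ofNat 0, .ofNat 218168261506033485891930993325703483982086144, .ofNat 0, .ofNat 127788513965858541237410813141602795520, .ofNat 0, .ofNat 63120395751088269961545604492587037320282112, .ofNat 0,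 .ofNat 180378261229930555474218417764773658624, .ofNat 0, .ofNat 222982219132462011379332947934772677809537024, .ofNat 0, .ofNat 0, .ofNat 0⟩)
    (by decide +kernel)
theorem L00809 : Good (Phi V5.P V5.D (-1) 1) ⟨3, 2, 2, 2, 2, 1, 3, 3, 4, 5⟩ :=
  leafX_sound T5.ok_mp T5.Ymp.bz_eq (w := 209) (c := ⟨⟨.negSucc 1322, .negSucc 138, .negSucc 30, .negSucc 53, .ofNat 57, .ofNat 124⟩, ⟨.negSucc 684, .ofNat 11, .negSucc 292, .negSucc 34, .ofNat 33, .ofNat 71⟩, ⟨.ofNat 1341, .ofNat 173, .ofNat 5, .negSucc 114, .negSucc 221, .negSucc 85⟩, ⟨.negSucc 3534, .negSucc 43, .negSucc 6, .negSucc 39, .ofNat 138, .ofNat 296⟩, ⟨.negSucc 227, .ofNat 8, .negSucc 5, .negSucc 186, .ofNat 32, .ofNat 50⟩, .ofNat 438, .negSucc 203, .ofNat 0, .negSucc 203, .ofNat 672, .ofNat 0, .ofNat 177, .ofNat 87, .negSucc 31, .ofNat 0, .ofNat 128, .negSucc 5, .ofNat 0, .ofNat 0, .ofNat 355, .ofNat 15484, .ofNat 0, .ofNat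 0, .ofNat 0, .ofNat 0, .ofNat 0, .ofNat 0, .ofNat 0, .ofNat 0, .ofNat 0, .ofNat 0, .ofNat 0, .ofNat 0, .ofNat 191836292841894496692696206114332698738688, .ofNat 0, .ofNat 7663586533415781459647208446454923264, .ofNat 0⟩)
    (by decide +kernel)
theorem L00810 : Good (Phi V5.P V5.D (-1) 1) ⟨3, 3, 2, 2, 1, 0, 2, 0, 3, 2⟩ :=
  leafX_sound T5.ok_mp T5.Ymp.bz_eq (w := 187) (c := ⟨⟨.negSucc 1613, .negSucc 272, .negSucc 39, .negSucc 273, .ofNat 121, .ofNat 339⟩, ⟨.negSucc 734, .ofNat 61, .negSucc 357, .negSucc 141, .ofNat 66, .ofNat 141⟩, ⟨.ofNat 2277, .ofNat 386, .ofNat 169, .negSucc 49, .negSucc 572, .ofNat 83⟩, ⟨.negSucc 3989, .negSucc 182, .negSucc 34, .negSucc 411, .ofNat 225, .ofNat 750⟩, ⟨.negSucc 151, .ofNat 38, .ofNat 36, .negSucc 551, .ofNat 168, .ofNat 100⟩, .ofNat 674, .negSucc 528, .ofNat 0, .negSucc 528, .ofNat 1528, .ofNat 0, .ofNat 128, .ofNat 138, .negSucc 96, .ofNat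 0, .ofNat 131, .negSucc 24, .ofNat 0, .ofNat 0, .ofNat 927, .ofNat 27166, .ofNat 2659059189024448120585732293123899392, .ofNat 0, .ofNat 248306827643784626346070638592, .ofNat 0, .ofNat 19597995830832850726359803952795484160, .ofNat 0, .ofNat 11142713925821357773610085777408, .ofNat 0, .ofNat 15447353888958395697835245800146337792, .ofNat 0, .ofNat 0, .ofNat 0, .ofNat 61939326470134721072403831041019609088, .ofNat 0, .ofNat 11412971205815802289664701759488, .ofNat 0⟩)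
    (by decide +kernel)
theorem L00811 : Good (Phi V5.P V5.D (-1) 1) ⟨3, 3, 2, 2, 1, 0, 2, 1, 4, 4⟩ :=
  leafX_sound T5.ok_mp T5.Ymp.bz_eq (w := 190) (c := ⟨⟨.negSucc 1564, .negSucc 213, .negSucc 13, .negSucc 187, .ofNat 157, .ofNat 118⟩, ⟨.negSucc 699, .ofNat 65, .negSucc 314, .negSucc 100, .ofNat 72, .ofNat 53⟩, ⟨.ofNat 1868, .ofNat 252, .ofNat 46, .negSucc 167, .negSucc 466, .negSucc 56⟩, ⟨.negSucc 3881, .negSucc 86, .negSucc 1, .negSucc 264, .ofNat 345, .ofNat 276⟩, ⟨.negSucc 45, .ofNat 23, .ofNat 4, .negSucc 420, .ofNat 55, .ofNat 19⟩, .ofNat 674, .negSucc 527, .ofNat 0, .negSucc 527, .ofNat 1527, .ofNat 0, .ofNat 157, .ofNat 128, .negSucc 64, .ofNat 0, .ofNat 122, .negSucc 19, .ofNat 0, .ofNat 0, .ofNat 593, .ofNat 7916, .ofNat 0, .ofNat 0, .ofNat 1520440795526112681617329750016, .ofNat 0, .ofNat 0, .ofNat 0, .ofNat 977536655193900146050018209431552, .ofNat 0, .ofNat 0, .ofNat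 0, .ofNat 443805054877800667255909958811648, .ofNat 0, .ofNat 0, .ofNat 0, .ofNat 725881818801799226063837894541312, .ofNat 0⟩)
    (by decide +kernel)
theorem L00812 : Good (Phi V5.P V5.D (-1) 1) ⟨3, 3, 2, 2, 2, 0, 2, 1, 4, 5⟩ :=
  leafX_sound T5.ok_mp T5.Ymp.bz_eq (w := 206) (c := ⟨⟨.negSucc 1474, .negSucc 189, .negSucc 1, .negSucc 60, .ofNat 147, .ofNat 99⟩, ⟨.negSucc 651, .ofNat 62, .negSucc 288, .negSucc 33, .ofNat 59, .ofNat 43⟩, ⟨.ofNat 1829, .ofNat 202, .negSucc 25, .negSucc 67, .negSucc 466, .negSucc 80⟩, ⟨.negSucc 3661, .negSucc 51, .ofNat 6, .negSucc 68, .ofNat 336, .ofNat 230⟩, ⟨.negSucc 17, .ofNat 3, .negSucc 2, .negSucc 174, .ofNat 18, .ofNat 8⟩, .ofNat 395, .negSucc 163, .ofNat 0, .negSucc 163, .ofNat 665, .ofNat 0, .ofNat 189, .ofNat 78, .negSucc 61, .ofNat 0, .ofNat 128, .negSucc 14, .ofNat 0, .ofNat 0, .ofNat 584, .ofNat 41759, .ofNat 61540802342507081356498678901176384094208,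 .ofNat 0, .ofNat 0, .ofNat 0, .ofNat 539086316747887968744997338068990738563072, .ofNat 0, .ofNat 3934479999001866927611131124359626752, .ofNat 0, .ofNat 0, .ofNat 0, .ofNat 8403502219832771789613899545829179392, .ofNat 0, .ofNat 469646105271502415713399460361439950143488, .ofNat 0, .ofNat 8810799633992610992984936673315913728, .ofNat 0⟩)
    (by decide +kernel)
theorem L00813 : Good (Phi V5.P V5.D (-1) 1) ⟨3, 3, 2, 2, 2, 1, 3, 2, 6, 20⟩ :=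
  leafX_sound T5.ok_mp T5.Ymp.bz_eq (w := 221) (c := ⟨⟨.negSucc 1541, .negSucc 210, .negSucc 28, .negSucc 75, .ofNat 79, .ofNat 42⟩, ⟨.negSucc 695, .ofNat 64, .negSucc 314, .negSucc 43, .ofNat 34, .ofNat 19⟩, ⟨.ofNat 1815, .ofNat 295, .ofNat 66, .negSucc 86, .negSucc 325, .negSucc 8⟩, ⟨.negSucc 3739, .negSucc 89, .negSucc 15, .negSucc 82, .ofNat 165, .ofNat 95⟩, ⟨.negSucc 243, .ofNat 26, .ofNat 10, .negSucc 228, .ofNat 46, .ofNat 12⟩, .ofNat 399, .negSucc 168, .ofNat 0, .negSucc 168, .ofNat 666, .ofNat 0, .ofNat 243, .ofNat 82, .negSucc 61, .ofNat 0, .ofNat 128, .negSucc 4, .ofNat 0, .ofNat 0, .ofNat 609, .ofNat 62812, .ofNat 20281569206999215879481545955949987743399936, .ofNat 0, .ofNat 4143658360421738525315547860143364374528, .ofNat 0, .ofNat 0, .ofNat 0, .ofNat 0, .ofNat 0, .ofNat 0, .ofNat 0, .ofNat 0, .ofNat 0, .ofNat 101129005517789344511908239399114267231780864, .ofNat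 0, .ofNat 260990869731423610965586900487167941804032, .ofNat 0⟩)
    (by decide +kernel)
theorem L00814 : Good (Phi V5.P V5.D (-1) 1) ⟨3, 3, 2, 2, 2, 1, 3, 2, 6, 21⟩ :=
  leafX_sound T5.ok_mp T5.Ymp.bz_eq (w := 221) (c := ⟨⟨.negSucc 1529, .negSucc 201, .negSucc 34, .negSucc 39, .ofNat 75, .ofNat 41⟩, ⟨.negSucc 690, .ofNat 65, .negSucc 306, .negSucc 30, .ofNat 35, .ofNat 20⟩, ⟨.ofNat 1848, .ofNat 291, .ofNat 77, .negSucc 124, .negSucc 334, .negSucc 7⟩, ⟨.negSucc 3713, .negSucc 77, .negSucc 12, .negSucc 1, .ofNat 158, .ofNat 94⟩, ⟨.negSucc 234, .ofNat 24, .ofNat 11, .negSucc 225, .ofNat 46, .ofNat 14⟩, .ofNat 399, .negSucc 168, .ofNat 0, .negSucc 168, .ofNat 666, .ofNat 0, .ofNat 201, .ofNat 82, .negSucc 34, .ofNat 0, .ofNat 128, .negSucc 1, .ofNat 0, .ofNat 0, .ofNat 378, .ofNat 75794, .ofNat 59383067056298906255218259431714372118904832, .ofNat 0, .ofNat 4123320175087945401240550072943277768704,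 .ofNat 0, .ofNat 0, .ofNat 0, .ofNat 0, .ofNat 0, .ofNat 0, .ofNat 0, .ofNat 0, .ofNat 0, .ofNat 114432421851633126436826050668078668303040512, .ofNat 0, .ofNat 121256920864047368402886936634051373563904, .ofNat 0⟩)
    (by decide +kernel)
theorem L00815 : Good (Phi V5.P V5.D (-1) 1) ⟨3, 3, 2, 2, 2, 1, 3, 2, 5, 11⟩ :=
  leafX_sound T5.ok_mp T5.Ymp.bz_eq (w := 218) (c := ⟨⟨.negSucc 1541, .negSucc 190, .negSucc 33, .ofNat 7, .ofNat 81, .ofNat 80⟩, ⟨.negSucc 671, .ofNat 65, .negSucc 299, .negSucc 27, .ofNat 31, .ofNat 44⟩, ⟨.ofNat 1897, .ofNat 281, .ofNat 81, .negSucc 169, .negSucc 348, .negSucc 16⟩, ⟨.negSucc 3712, .negSucc 63, .negSucc 7, .ofNat 83, .ofNat 168, .ofNat 188⟩, ⟨.negSucc 234, .ofNat 24, .ofNat 12, .negSucc 214, .ofNat 50, .ofNat 30⟩, .ofNat 184, .negSucc 28, .ofNat 0, .negSucc 28, .ofNat 231, .ofNat 0, .ofNat 207, .ofNat 31, .negSucc 73, .ofNat 0, .ofNat 128, .ofNat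 17, .ofNat 0, .ofNat 0, .ofNat 458, .ofNat 303714, .ofNat 57406697553202287456546856885875092978925568, .ofNat 0, .ofNat 0, .ofNat 0, .ofNat 215136095130956430406293150185631983043870720, .ofNat 0, .ofNat 627852472803494827080423512839896956928, .ofNat 0, .ofNat 32601553439977700270244192770197225862070272, .ofNat 0, .ofNat 0, .ofNat 0, .ofNat 108413526781276264051920974381822780511354880, .ofNat 0, .ofNat 2253982152003201800474519860609128857600, .ofNat 0⟩)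
    (by decide +kernel)
theorem L00816 : Good (Phi V5.P V5.D (-1) 1) ⟨3, 3, 2, 2, 3, 2, 3, 3, 4, 5⟩ :=
  leafX_sound T5.ok_mp T5.Ymp.bz_eq (w := 223) (c := ⟨⟨.negSucc 1475, .negSucc 181, .negSucc 17, .negSucc 31, .ofNat 83, .ofNat 118⟩, ⟨.negSucc 666, .ofNat 64, .negSucc 288, .negSucc 17, .ofNat 36, .ofNat 54⟩, ⟨.ofNat 1541, .ofNat 216, .negSucc 15, .negSucc 40, .negSucc 271, .negSucc 83⟩, ⟨.negSucc 3589, .negSucc 48, .ofNat 1, .negSucc 38, .ofNat 183, .ofNat 276⟩, ⟨.negSucc 206, .ofNat 16, .negSucc 2, .negSucc 86, .ofNat 29, .ofNat 23⟩, .ofNat 184, .negSucc 29, .ofNat 0, .negSucc 29, .ofNat 231, .ofNat 0, .ofNat 217, .ofNat 33, .negSucc 55, .ofNat 0, .ofNat 128, .ofNat 2, .ofNat 0, .ofNat 0, .ofNat 321, .ofNat 19403, .ofNat 710426036125407253062472203571959814594494464, .ofNat 0, .ofNat 3473340998872379643441246089073446092800, .ofNat 0, .ofNat 0, .ofNat 0, .ofNat 0, .ofNat 0,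 .ofNat 0, .ofNat 0, .ofNat 0, .ofNat 0, .ofNat 0, .ofNat 0, .ofNat 654839851983503558282656656198303217614848, .ofNat 0⟩)
    (by decide +kernel)
theorem L00817 : Good (Phi V5.P V5.D (-1) 1) ⟨3, 3, 2, 2, 3, 3, 3, 3, 4, 5⟩ :=
  leafX_sound T5.ok_mp T5.Ymp.bz_eq (w := 224) (c := ⟨⟨.negSucc 1524, .negSucc 187, .negSucc 20, .negSucc 11, .ofNat 87, .ofNat 149⟩, ⟨.negSucc 692, .ofNat 65, .negSucc 296, .negSucc 8, .ofNat 40, .ofNat 66⟩, ⟨.ofNat 1513, .ofNat 236, .ofNat 32, .negSucc 75, .negSucc 305, .negSucc 84⟩, ⟨.negSucc 3655, .negSucc 55, .ofNat 3, .ofNat 9, .ofNat 181, .ofNat 333⟩, ⟨.negSucc 329, .ofNat 17, .ofNat 0, .negSucc 83, .ofNat 58, .ofNat 49⟩, .ofNat 396, .negSucc 164, .ofNat 0, .negSucc 164, .ofNat 665, .ofNat 0, .ofNat 323, .ofNat 81, .negSucc 55, .ofNat 0, .ofNat 128, .negSucc 5, .ofNat 0, .ofNat 0, .ofNat 593, .ofNat 32436, .ofNat 957404411547359318680857342313052050911395840,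 .ofNat 0, .ofNat 802279092004788742740317891423169937408, .ofNat 0, .ofNat 0, .ofNat 0, .ofNat 0, .ofNat 0, .ofNat 0, .ofNat 0, .ofNat 1731936849968780630508362846051135496650752, .ofNat 0, .ofNat 0, .ofNat 0, .ofNat 2538800304754480336513020140064093276995584, .ofNat 0⟩)
    (by decide +kernel)
theorem L00818 : Good (Phi V5.P V5.D (-1) 1) ⟨2, 1, 2, 2, 1, 0, 1, 0, 3, 3⟩ :=
  leafX_sound T5.ok_mp T5.Ymp.bz_eq (w := 179) (c := ⟨⟨.negSucc 1453, .negSucc 262, .negSucc 16, .negSucc 26, .ofNat 288, .ofNat 256⟩, ⟨.negSucc 777, .ofNat 88, .negSucc 266, .negSucc 18, .ofNat 166, .ofNat 131⟩, ⟨.ofNat 2394, .ofNat 296, .negSucc 61, .negSucc 279, .negSucc 1170, .negSucc 190⟩, ⟨.negSucc 3840, .negSucc 15, .ofNat 20, .ofNat 74, .ofNat 621, .ofNat 591⟩, ⟨.negSucc 380, .ofNat 34, .ofNat 2, .negSucc 245, .ofNat 317, .ofNat 136⟩, .ofNat 188, .negSucc 31, .ofNat 0, .negSucc 31, .ofNat 231, .ofNat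 0, .ofNat 289, .ofNat 34, .negSucc 78, .ofNat 0, .ofNat 128, .ofNat 4, .ofNat 0, .ofNat 0, .ofNat 630, .ofNat 20149, .ofNat 43904066967051732503387978541826048, .ofNat 0, .ofNat 0, .ofNat 0, .ofNat 158286559281642292840729647438102528, .ofNat 0, .ofNat 505755487240394006904082268160, .ofNat 0, .ofNat 123484361517481662961180066480914432, .ofNat 0, .ofNat 258799029507975772305547591680, .ofNat 0, .ofNat 318421411966561115326119073114226688, .ofNat 0, .ofNat 622296050651033475464755675136, .ofNat 0⟩)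
    (by decide +kernel)
theorem L00819 : Good (Phi V5.P V5.D (-1) 1) ⟨2, 1, 2, 2, 1, 0, 2, 2, 4, 4⟩ :=
  leafX_sound T5.ok_mp T5.Ymp.bz_eq (w := 184) (c := ⟨⟨.negSucc 1277, .negSucc 316, .negSucc 14, .negSucc 136, .ofNat 188, .ofNat 89⟩, ⟨.negSucc 664, .ofNat 65, .negSucc 291, .negSucc 76, .ofNat 92, .ofNat 52⟩, ⟨.ofNat 1353, .ofNat 312, .negSucc 21, .negSucc 256, .negSucc 448, .negSucc 93⟩, ⟨.negSucc 3497, .negSucc 75, .negSucc 31, .negSucc 179, .ofNat 417, .ofNat 209⟩, ⟨.negSucc 58, .negSucc 11, .ofNat 19, .negSucc 322, .ofNat 94, .ofNat 24⟩, .ofNat 741, .negSucc 601, .ofNat 0, .negSucc 601, .ofNat 1574, .ofNat 0, .ofNat 128, .ofNat 148, .negSucc 41, .ofNat 0, .ofNat 138, .negSucc 15, .ofNat 0, .ofNat 0, .ofNat 329, .ofNat 2027, .ofNat 0, .ofNat 0, .ofNat 0, .ofNat 0, .ofNat 0, .ofNat 0, .ofNat 1286086872123697535873566669537280, .ofNat 0, .ofNat 0, .ofNat 0, .ofNat 0, .ofNat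 0, .ofNat 0, .ofNat 0, .ofNat 0, .ofNat 0⟩)
    (by decide +kernel)
theorem L00820 : Good (Phi V5.P V5.D (-1) 1) ⟨2, 1, 2, 2, 1, 0, 2, 2, 4, 5⟩ :=
  leafX_sound T5.ok_mp T5.Ymp.bz_eq (w := 185) (c := ⟨⟨.negSucc 1223, .negSucc 267, .negSucc 1, .negSucc 67, .ofNat 143, .ofNat 87⟩, ⟨.negSucc 633, .ofNat 68, .negSucc 266, .negSucc 41, .ofNat 81, .ofNat 40⟩, ⟨.ofNat 1319, .ofNat 255, .negSucc 48, .negSucc 290, .negSucc 460, .negSucc 114⟩, ⟨.negSucc 3337, .negSucc 32, .ofNat 10, .negSucc 49, .ofNat 339, .ofNat 194⟩, ⟨.negSucc 71, .ofNat 20, .negSucc 2, .negSucc 244, .ofNat 76, .ofNat 37⟩, .ofNat 419, .negSucc 186, .ofNat 0, .negSucc 186, .ofNat 668, .ofNat 0, .ofNat 128, .ofNat 146, .negSucc 44, .ofNat 0, .ofNat 223, .negSucc 12, .ofNat 0, .ofNat 0, .ofNat 413, .ofNat 3255, .ofNat 0, .ofNat 0, .ofNat 0, .ofNat 0, .ofNat 0, .ofNat 0, .ofNat 384195300310790631928642031058944, .ofNat 0,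 .ofNat 0, .ofNat 0, .ofNat 0, .ofNat 0, .ofNat 0, .ofNat 0, .ofNat 923223180413339969153705858564096, .ofNat 0⟩)
    (by decide +kernel)
theorem L00821 : Good (Phi V5.P V5.D (-1) 1) ⟨2, 1, 2, 2, 1, 0, 2, 2, 3, 3⟩ :=
  leafX_sound T5.ok_mp T5.Ymp.bz_eq (w := 180) (c := ⟨⟨.negSucc 1152, .negSucc 268, .negSucc 36, .negSucc 5, .ofNat 137, .ofNat 151⟩, ⟨.negSucc 603, .ofNat 70, .negSucc 244, .negSucc 9, .ofNat 62, .ofNat 94⟩, ⟨.ofNat 1249, .ofNat 277, .ofNat 5, .negSucc 337, .negSucc 525, .negSucc 216⟩, ⟨.negSucc 3154, .negSucc 4, .negSucc 15, .ofNat 71, .ofNat 255, .ofNat 348⟩, ⟨.negSucc 79, .negSucc 34, .negSucc 59, .negSucc 168, .ofNat 145, .ofNat 91⟩, .ofNat 762, .negSucc 627, .ofNat 0, .negSucc 627, .ofNat 1594, .ofNat 0, .ofNat 128, .ofNat 147, .negSucc 49, .ofNat 0, .ofNat 138, .negSucc 23, .ofNat 0, .ofNat 0, .ofNat 741, .ofNat 3850, .ofNat 0, .ofNat 0, .ofNat 0, .ofNat 0, .ofNat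 0, .ofNat 0, .ofNat 0, .ofNat 0, .ofNat 0, .ofNat 10546026506246565027225537181908992, .ofNat 62286276242877455429290476699648, .ofNat 0, .ofNat 437090653185276509310787916050464768, .ofNat 24593594031673292985658572040830976, .ofNat 12075511562964555279707041431552, .ofNat 0⟩)
    (by decide +kernel)
theorem L00822 : Good (Phi V5.P V5.D (-1) 1) ⟨2, 1, 2, 2, 1, 0, 3, 6, 3, 2⟩ :=
  leafX_sound T5.ok_mp T5.Ymp.bz_eq (w := 183) (c := ⟨⟨.negSucc 1137, .negSucc 255, .ofNat 1, .negSucc 38, .ofNat 141, .ofNat 113⟩, ⟨.negSucc 593, .ofNat 62, .negSucc 239, .negSucc 22, .ofNat 75, .ofNat 64⟩, ⟨.ofNat 1008, .ofNat 212, .negSucc 46, .negSucc 362, .negSucc 298, .negSucc 230⟩, ⟨.negSucc 3098, .negSucc 4, .ofNat 47, .negSucc 84, .ofNat 317, .ofNat 241⟩, ⟨.negSucc 93, .negSucc 25, .negSucc 49, .negSucc 40, .ofNat 80, .ofNat 102⟩, .ofNat 744, .negSucc 604, .ofNat 0, .negSucc 604, .ofNat 1574, .ofNat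 0, .ofNat 128, .ofNat 220, .negSucc 66, .ofNat 0, .ofNat 207, .negSucc 27, .ofNat 0, .ofNat 0, .ofNat 491, .ofNat 1517, .ofNat 0, .ofNat 0, .ofNat 717043105250874182002863505408, .ofNat 0, .ofNat 0, .ofNat 0, .ofNat 227984334413409194644236448825344, .ofNat 0, .ofNat 0, .ofNat 0, .ofNat 1141758447967019209168808591753216, .ofNat 0, .ofNat 0, .ofNat 29054252980772769888032070748340224, .ofNat 177673911571077841490243420684288, .ofNat 0⟩)
    (by decide +kernel)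
theorem L00823 : Good (Phi V5.P V5.D (-1) 1) ⟨2, 1, 2, 2, 1, 0, 3, 7, 3, 2⟩ :=
  leafX_sound T5.ok_mp T5.Ymp.bz_eq (w := 182) (c := ⟨⟨.negSucc 1045, .negSucc 109, .ofNat 62, .ofNat 35, .ofNat 277, .ofNat 29⟩, ⟨.negSucc 543, .ofNat 96, .negSucc 183, .ofNat 29, .ofNat 151, .ofNat 22⟩, ⟨.ofNat 763, .ofNat 51, .negSucc 141, .negSucc 374, .negSucc 465, .negSucc 179⟩, ⟨.negSucc 2756, .ofNat 278, .ofNat 160, .negSucc 105, .ofNat 560, .ofNat 20⟩, ⟨.negSucc 209, .negSucc 18, .negSucc 26, .ofNat 352, .ofNat 249, .ofNat 124⟩, .ofNat 1039, .negSucc 1061, .ofNat 0, .negSucc 1061, .ofNat 2401, .ofNat 0, .ofNat 128, .ofNat 131, .negSucc 52, .ofNat 0, .ofNat 106, .negSucc 25, .ofNat 0, .ofNat 0, .ofNat 304, .ofNat 733, .ofNat 0, .ofNat 0, .ofNat 0, .ofNat 0, .ofNat 0, .ofNat 15986640262443760597540552895889408, .ofNat 209775551023405475922418635636736, .ofNat 0, .ofNat 0, .ofNat 39748982970736580041107551746523136,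 .ofNat 77994966021939585420870849396736, .ofNat 0, .ofNat 0, .ofNat 14449400939571140957912374020407296, .ofNat 61819694793220045374437992693760, .ofNat 0⟩)
    (by decide +kernel)
theorem L00824 : Good (Phi V5.P V5.D (-1) 1) ⟨2, 1, 2, 2, 1, 0, 2, 3, 3, 3⟩ :=
  leafX_sound T5.ok_mp T5.Ymp.bz_eq (w := 179) (c := ⟨⟨.negSucc 1064, .negSucc 185, .ofNat 7, .ofNat 79, .ofNat 120, .ofNat 6⟩, ⟨.negSucc 548, .ofNat 83, .negSucc 230, .ofNat 42, .ofNat 62, .ofNat 9⟩, ⟨.ofNat 816, .ofNat 130, .negSucc 78, .negSucc 412, .negSucc 486, .negSucc 66⟩, ⟨.negSucc 2859, .ofNat 97, .ofNat 17, .ofNat 89, .ofNat 239, .negSucc 65⟩, ⟨.negSucc 133, .ofNat 44, .negSucc 35, .ofNat 190, .ofNat 126, .ofNat 153⟩, .ofNat 769, .negSucc 634, .ofNat 0, .negSucc 634, .ofNat 1599, .ofNat 0, .ofNat 128, .ofNat 165, .negSucc 59, .ofNat 0, .ofNat 156, .negSucc 29, .ofNat 0, .ofNat 0, .ofNat 580, .ofNat 1029, .ofNat 0,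 .ofNat 0, .ofNat 0, .ofNat 0, .ofNat 0, .ofNat 10005605140428582667877334479011840, .ofNat 16184519135516308666303211634688, .ofNat 0, .ofNat 0, .ofNat 20525769740945259588868514684862464, .ofNat 29073483093709108568326601179136, .ofNat 0, .ofNat 57684442868656001192753486878474240, .ofNat 19397930415222797370342569158901760, .ofNat 719412659137083857555538575360, .ofNat 0⟩)
    (by decide +kernel)
theorem L00825 : Good (Phi V5.P V5.D (-1) 1) ⟨1, 0, 2, 3, 1, 0, 0, 0, 2, 1⟩ :=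
  out_sound (S := T5.ds_mp) T5.ok_mp (w := 31) (j := 3) (by decide +kernel)
theorem L00826 : Good (Phi V5.P V5.D (-1) 1) ⟨1, 0, 1, 1, 1, 0, 0, 0, 1, 1⟩ :=
  leafX_sound T5.ok_mp T5.Ymp.bz_eq (w := 164) (c := ⟨⟨.negSucc 915, .negSucc 386, .ofNat 46, .ofNat 1, .negSucc 0, .ofNat 1⟩, ⟨.negSucc 507, .negSucc 3, .negSucc 507, .ofNat 0, .ofNat 0, .ofNat 0⟩, ⟨.ofNat 219, .ofNat 387, .negSucc 45, .ofNat 0, .ofNat 0, .ofNat 0⟩, ⟨.negSucc 2860, .negSucc 175, .ofNat 11, .ofNat 1, .negSucc 0, .ofNat 1⟩, ⟨.ofNat 0, .ofNat 1, .negSucc 0, .ofNat 0, .ofNat 0, .ofNat 0⟩, .ofNat 192, .negSucc 32, .ofNat 0, .negSucc 32, .ofNat 229, .ofNat 0, .ofNat 141, .ofNat 33, .negSucc 107, .ofNat 0, .ofNat 128, .negSucc 20, .ofNat 0, .ofNat 0, .ofNat 303, .ofNat 5401, .ofNat 35700160894593202854140313600000000, .ofNat 3569993447940991905379704228544512, .ofNat 0, .ofNat 0, .ofNat 2284810297253964982664980070400000000,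 .ofNat 223514056245059260617338564623990784, .ofNat 0, .ofNat 0, .ofNat 61104998287508736323945215557632, .ofNat 6073632994263383795131490500608, .ofNat 0, .ofNat 0, .ofNat 115277433815759128309003483873280, .ofNat 11338946820810179156809462317056, .ofNat 0, .ofNat 0⟩)
    (by decide +kernel)
theorem L00827 : Good (Phi V5.P V5.D (-1) 1) ⟨1, 0, 2, 2, 2, 2, 4, 0, 3, 0⟩ :=
  leafX_sound T5.ok_mp T5.Ymp.bz_eq (w := 196) (c := ⟨⟨.ofNat 630, .negSucc 419, .negSucc 155, .ofNat 8, .ofNat 57, .negSucc 2148⟩, ⟨.ofNat 255, .negSucc 187, .negSucc 93, .negSucc 2, .ofNat 95, .negSucc 1182⟩, ⟨.negSucc 231, .ofNat 590, .ofNat 365, .ofNat 56, .negSucc 260, .ofNat 1290⟩, ⟨.ofNat 2067, .negSucc 503, .negSucc 82, .ofNat 182, .ofNat 88, .negSucc 5955⟩, ⟨.negSucc 888, .negSucc 1083, .negSucc 241, .negSucc 252, .ofNat 352, .ofNat 14⟩, .ofNat 440, .negSucc 193, .ofNat 0, .negSucc 193, .ofNat 658, .ofNat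 0, .ofNat 234, .ofNat 98, .negSucc 54, .ofNat 0, .ofNat 128, .negSucc 12, .ofNat 0, .ofNat 0, .ofNat 271, .ofNat 3108, .ofNat 0, .ofNat 0, .ofNat 0, .ofNat 0, .ofNat 0, .ofNat 0, .ofNat 0, .ofNat 0, .ofNat 0, .ofNat 0, .ofNat 0, .ofNat 0, .ofNat 1953135414103702497356433973647520038912, .ofNat 0, .ofNat 26544091498131465872914376319448383488, .ofNat 0⟩)
    (by decide +kernel)
theorem L00828 : Good (Phi V5.P V5.D (-1) 1) ⟨1, 0, 2, 2, 2, 2, 4, 1, 3, 0⟩ :=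
  leafX_sound T5.ok_mp T5.Ymp.bz_eq (w := 196) (c := ⟨⟨.ofNat 780, .negSucc 532, .negSucc 152, .ofNat 102, .negSucc 12, .negSucc 2169⟩, ⟨.ofNat 426, .negSucc 297, .negSucc 115, .negSucc 26, .ofNat 39, .negSucc 1201⟩, ⟨.negSucc 402, .ofNat 599, .ofNat 315, .negSucc 107, .negSucc 98, .ofNat 1197⟩, ⟨.ofNat 2383, .negSucc 810, .negSucc 116, .ofNat 355, .negSucc 28, .negSucc 5981⟩, ⟨.negSucc 490, .negSucc 983, .negSucc 62, .negSucc 401, .ofNat 98, .negSucc 154⟩, .ofNat 464, .negSucc 228, .ofNat 0, .negSucc 228, .ofNat 676, .ofNat 0, .ofNat 269, .ofNat 113, .negSucc 49, .ofNat 0, .ofNat 128, .negSucc 13, .ofNat 0, .ofNat 0, .ofNat 218, .ofNat 1515, .ofNat 0, .ofNat 0, .ofNat 0, .ofNat 0, .ofNat 0, .ofNat 0, .ofNat 0, .ofNat 0, .ofNat 0, .ofNat 0, .ofNat 0, .ofNat 0, .ofNat 0, .ofNat 0, .ofNat 20496696716553070603521614441623846912, .ofNat 0⟩)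
    (by decide +kernel)
theorem L00829 : Good (Phi V5.P V5.D (-1) 1) ⟨1, 0, 2, 2, 2, 2, 3, 1, 3, 0⟩ :=
  leafX_sound T5.ok_mp T5.Ymp.bz_eq (w := 192) (c := ⟨⟨.ofNat 941, .negSucc 549, .negSucc 260, .ofNat 84, .ofNat 156, .negSucc 2435⟩, ⟨.ofNat 427, .negSucc 229, .negSucc 236, .ofNat 90, .ofNat 25, .negSucc 1231⟩, ⟨.negSucc 601, .ofNat 611, .ofNat 293, .negSucc 68, .negSucc 288, .ofNat 1476⟩, ⟨.ofNat 2432, .negSucc 970, .negSucc 365, .ofNat 494, .ofNat 54, .negSucc 5879⟩, ⟨.negSucc 275, .negSucc 531, .negSucc 301, .negSucc 202, .ofNat 307, .negSucc 785⟩, .ofNat 966, .negSucc 850, .ofNat 0, .negSucc 850, .ofNat 1754, .ofNat 0, .ofNat 206, .ofNat 128, .negSucc 38, .ofNat 0, .ofNat 103, .negSucc 17, .ofNat 0, .ofNat 0, .ofNat 188, .ofNat 537, .ofNat 0, .ofNat 0, .ofNat 0, .ofNat 0, .ofNat 0, .ofNat 0, .ofNat 0, .ofNat 0, .ofNat 0, .ofNat 0, .ofNat 4185526078091018222414137079451615232,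 .ofNat 0, .ofNat 0, .ofNat 0, .ofNat 1030255363153071909755614360663752704, .ofNat 0⟩)
    (by decide +kernel)
theorem L00830 : Good (Phi V5.P V5.D (-1) 1) ⟨1, 0, 2, 3, 2, 2, 2, 0, 3, 0⟩ :=
  out_sound (S := T5.ds_mp) T5.ok_mp (w := 31) (j := 3) (by decide +kernel)
theorem L00831 : Good (Phi V5.P V5.D (-1) 1) ⟨1, 0, 1, 1, 3, 6, 2, 0, 4, 0⟩ :=
  leafX_sound T5.ok_mp T5.Ymp.bz_eq (w := 204) (c := ⟨⟨.ofNat 710, .negSucc 407, .negSucc 803, .negSucc 172, .ofNat 606, .negSucc 1350⟩, ⟨.ofNat 348, .negSucc 281, .negSucc 308, .negSucc 75, .ofNat 347, .negSucc 742⟩, ⟨.negSucc 224, .ofNat 667, .ofNat 817, .ofNat 12, .negSucc 924, .ofNat 686⟩, ⟨.ofNat 2156, .negSucc 200, .negSucc 1158, .negSucc 880, .ofNat 1296, .negSucc 3475⟩, ⟨.negSucc 543, .negSucc 1827, .negSucc 465, .ofNat 799, .ofNat 778, .negSucc 532⟩, .ofNat 435, .negSucc 189, .ofNat 0, .negSucc 189, .ofNat 658, .ofNat 0, .ofNat 267,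 .ofNat 108, .negSucc 151, .ofNat 0, .ofNat 128, .negSucc 43, .ofNat 0, .ofNat 0, .ofNat 340, .ofNat 954, .ofNat 0, .ofNat 0, .ofNat 0, .ofNat 0, .ofNat 0, .ofNat 0, .ofNat 196057009336987090775918675597143255810048, .ofNat 0, .ofNat 0, .ofNat 0, .ofNat 82836955524899608131335744559986683936768, .ofNat 0, .ofNat 0, .ofNat 0, .ofNat 58496268223542696858663696209691914797056, .ofNat 0⟩)
    (by decide +kernel)
theorem L00832 : Good (Phi V5.P V5.D (-1) 1) ⟨1, 0, 2, 2, 3, 7, 2, 0, 4, 0⟩ :=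
  leafX_sound T5.ok_mp T5.Ymp.bz_eq (w := 206) (c := ⟨⟨.ofNat 539, .negSucc 596, .negSucc 303, .negSucc 345, .ofNat 616, .negSucc 1222⟩, ⟨.ofNat 325, .negSucc 323, .negSucc 259, .negSucc 122, .ofNat 319, .negSucc 712⟩, ⟨.ofNat 56, .ofNat 362, .ofNat 1, .ofNat 150, .negSucc 881, .ofNat 503⟩, ⟨.ofNat 894, .negSucc 641, .negSucc 419, .negSucc 1878, .ofNat 1368, .negSucc 2546⟩, ⟨.ofNat 649, .negSucc 1251, .negSucc 520, .ofNat 1780, .ofNat 498, .negSucc 1367⟩, .ofNat 836, .negSucc 675, .ofNat 0, .negSucc 675, .ofNat 1580, .ofNat 0, .ofNat 129, .ofNat 128, .negSucc 83, .ofNat 0, .ofNat 99, .negSucc 31, .ofNat 0, .ofNat 0, .ofNat 247, .ofNat 516, .ofNat 0, .ofNat 0, .ofNat 0, .ofNat 0, .ofNat 0, .ofNat 0, .ofNat 258105264681554588468872798148352869924864, .ofNat 0, .ofNat 0, .ofNat 0, .ofNat 97667764250738564731404947461896168013824, .ofNat 0, .ofNat 0, .ofNat 0, .ofNat 114857192594352491711069818932664066899968,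 .ofNat 0⟩)
    (by decide +kernel)
theorem L00833 : Good (Phi V5.P V5.D (-1) 1) ⟨1, 0, 2, 3, 3, 7, 2, 0, 4, 0⟩ :=
  out_sound (S := T5.ds_mp) T5.ok_mp (w := 31) (j := 3) (by decide +kernel)
theorem L00834 : Good (Phi V5.P V5.D (-1) 1) ⟨1, 0, 1, 1, 3, 6, 2, 0, 4, 1⟩ :=
  leafX_sound T5.ok_mp T5.Ymp.bz_eq (w := 203) (c := ⟨⟨.negSucc 548, .negSucc 964, .negSucc 80, .negSucc 34, .ofNat 127, .negSucc 637⟩, ⟨.negSucc 342, .negSucc 331, .negSucc 683, .negSucc 5, .ofNat 73, .negSucc 350⟩, ⟨.ofNat 302, .ofNat 1236, .ofNat 608, .negSucc 61, .negSucc 753, .ofNat 576⟩, ⟨.negSucc 1197, .negSucc 1371, .ofNat 114, .negSucc 212, .ofNat 176, .negSucc 1815⟩, ⟨.negSucc 1217, .negSucc 785, .negSucc 28, .ofNat 168, .ofNat 298, .ofNat 166⟩, .ofNat 440, .negSucc 197, .ofNat 0, .negSucc 197, .ofNat 662, .ofNat 0, .ofNat 295, .ofNat 96, .negSucc 141, .ofNat 0, .ofNat 128, .negSucc 27, .ofNat 0, .ofNat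 0, .ofNat 398, .ofNat 739, .ofNat 0, .ofNat 0, .ofNat 0, .ofNat 0, .ofNat 0, .ofNat 0, .ofNat 169584230843927907635154194621580376539136, .ofNat 0, .ofNat 0, .ofNat 0, .ofNat 66704902699158261651520614684388323491840, .ofNat 0, .ofNat 0, .ofNat 0, .ofNat 37814973330776791977755133444215067901952, .ofNat 0⟩)
    (by decide +kernel)
theorem L00835 : Good (Phi V5.P V5.D (-1) 1) ⟨1, 0, 2, 2, 3, 7, 2, 0, 4, 1⟩ :=
  leafX_sound T5.ok_mp T5.Ymp.bz_eq (w := 207) (c := ⟨⟨.negSucc 578, .negSucc 1204, .negSucc 64, .negSucc 63, .ofNat 171, .negSucc 539⟩, ⟨.negSucc 357, .negSucc 345, .negSucc 423, .ofNat 8, .ofNat 36, .negSucc 288⟩, ⟨.ofNat 349, .ofNat 1177, .ofNat 139, .negSucc 517, .negSucc 523, .ofNat 452⟩, ⟨.negSucc 1684, .negSucc 1821, .negSucc 4, .negSucc 405, .ofNat 224, .negSucc 1240⟩, ⟨.negSucc 642, .negSucc 461, .negSucc 487, .ofNat 655, .ofNat 215, .negSucc 393⟩, .ofNat 966, .negSucc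 850, .ofNat 0, .negSucc 850, .ofNat 1754, .ofNat 0, .ofNat 197, .ofNat 128, .negSucc 89, .ofNat 0, .ofNat 99, .negSucc 36, .ofNat 0, .ofNat 0, .ofNat 353, .ofNat 979, .ofNat 0, .ofNat 0, .ofNat 0, .ofNat 0, .ofNat 0, .ofNat 0, .ofNat 298920643649700207759875996936135057080320, .ofNat 0, .ofNat 0, .ofNat 0, .ofNat 93316196315687642016071997882984445247488, .ofNat 0, .ofNat 0, .ofNat 0, .ofNat 220518485572577349839569577512160018300928, .ofNat 0⟩)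
    (by decide +kernel)
theorem L00836 : Good (Phi V5.P V5.D (-1) 1) ⟨1, 0, 2, 3, 3, 7, 2, 0, 4, 1⟩ :=
  out_sound (S := T5.ds_mp) T5.ok_mp (w := 31) (j := 3) (by decide +kernel)
theorem L00837 : Good (Phi V5.P V5.D (-1) 1) ⟨1, 0, 1, 1, 2, 2, 2, 1, 3, 0⟩ :=
  leafX_sound T5.ok_mp T5.Ymp.bz_eq (w := 185) (c := ⟨⟨.ofNat 972, .negSucc 634, .ofNat 33, .negSucc 64, .ofNat 53, .negSucc 2276⟩, ⟨.ofNat 508, .negSucc 251, .negSucc 320, .ofNat 24, .ofNat 17, .negSucc 1243⟩, ⟨.negSucc 652, .ofNat 435, .ofNat 264, .negSucc 138, .negSucc 140, .ofNat 1459⟩, ⟨.ofNat 2578, .negSucc 973, .ofNat 191, .ofNat 157, .negSucc 66, .negSucc 6016⟩, ⟨.negSucc 93, .negSucc 659, .negSucc 453, .negSucc 164, .ofNat 184, .negSucc 550⟩, .ofNat 501, .negSucc 286, .ofNat 0, .negSucc 286, .ofNat 714, .ofNat 0, .ofNat 239, .ofNat 128, .negSucc 128, .ofNat 0, .ofNat 128, .negSucc 46, .ofNat 0, .ofNat 0, .ofNat 309,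 .ofNat 392, .ofNat 0, .ofNat 0, .ofNat 0, .ofNat 0, .ofNat 0, .ofNat 0, .ofNat 444172105136768526501046686429741056, .ofNat 0, .ofNat 0, .ofNat 0, .ofNat 97527613353701924956679805689921536, .ofNat 0, .ofNat 0, .ofNat 0, .ofNat 76801210184223714982947890093096960, .ofNat 0⟩)
    (by decide +kernel)
theorem L00838 : Good (Phi V5.P V5.D (-1) 1) ⟨2, 0, 2, 2, 2, 3, 2, 1, 4, 0⟩ :=
  leafX_sound T5.ok_mp T5.Ymp.bz_eq (w := 198) (c := ⟨⟨.ofNat 1100, .negSucc 36, .negSucc 310, .negSucc 255, .negSucc 68, .negSucc 1480⟩, ⟨.ofNat 642, .negSucc 55, .negSucc 148, .negSucc 71, .negSucc 61, .negSucc 910⟩, ⟨.negSucc 825, .ofNat 53, .ofNat 251, .ofNat 77, .ofNat 14, .ofNat 662⟩, ⟨.ofNat 2822, .ofNat 239, .negSucc 697, .negSucc 1444, .ofNat 3, .negSucc 3403⟩, ⟨.ofNat 695, .negSucc 687, .negSucc 290, .ofNat 1150, .negSucc 406, .negSucc 1446⟩, .ofNat 1559, .negSucc 1648, .ofNat 0, .negSucc 1648, .ofNat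 3131, .ofNat 0, .ofNat 128, .ofNat 213, .negSucc 129, .ofNat 0, .ofNat 159, .negSucc 58, .ofNat 0, .ofNat 0, .ofNat 397, .ofNat 541, .ofNat 0, .ofNat 0, .ofNat 0, .ofNat 0, .ofNat 0, .ofNat 0, .ofNat 0, .ofNat 0, .ofNat 0, .ofNat 0, .ofNat 3843714028696697460601567312175169536, .ofNat 0, .ofNat 0, .ofNat 0, .ofNat 5267590574169401147173584127729336320, .ofNat 0⟩)
    (by decide +kernel)
theorem L00839 : Good (Phi V5.P V5.D (-1) 1) ⟨3, 2, 2, 2, 2, 3, 2, 1, 4, 0⟩ :=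
  leafX_sound T5.ok_mp T5.Ymp.bz_eq (w := 201) (c := ⟨⟨.ofNat 1279, .negSucc 20, .negSucc 274, .negSucc 221, .negSucc 10, .negSucc 1999⟩, ⟨.ofNat 647, .negSucc 35, .negSucc 69, .negSucc 79, .negSucc 15, .negSucc 1086⟩, ⟨.negSucc 783, .ofNat 4, .ofNat 111, .negSucc 83, .negSucc 112, .ofNat 1004⟩, ⟨.ofNat 3318, .negSucc 4, .negSucc 314, .negSucc 1280, .ofNat 161, .negSucc 4421⟩, ⟨.negSucc 76, .negSucc 292, .negSucc 466, .ofNat 1342, .negSucc 287, .negSucc 1324⟩, .ofNat 1560, .negSucc 1856, .ofNat 0, .negSucc 1856, .ofNat 3683, .ofNat 0, .ofNat 128, .ofNat 203, .negSucc 109, .ofNat 0, .ofNat 135, .negSucc 49, .ofNat 0, .ofNat 0, .ofNat 281, .ofNat 126, .ofNat 0, .ofNat 0, .ofNat 0, .ofNat 0, .ofNat 0, .ofNat 0, .ofNat 0, .ofNat 0, .ofNat 0, .ofNat 0, .ofNat 0, .ofNat 0, .ofNat 0, .ofNat 0, .ofNat 798506307672506126506891878080708608, .ofNat 0⟩)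
    (by decide +kernel)
theorem L00840 : Good (Phi V5.P V5.D (-1) 1) ⟨3, 3, 2, 2, 2, 3, 2, 1, 4, 0⟩ :=
  leafX_sound T5.ok_mp T5.Ymp.bz_eq (w := 201) (c := ⟨⟨.ofNat 1645, .ofNat 195, .negSucc 732, .negSucc 306, .negSucc 73, .negSucc 2612⟩, ⟨.ofNat 643, .ofNat 9, .negSucc 253, .negSucc 53, .negSucc 27, .negSucc 1124⟩, ⟨.negSucc 993, .negSucc 204, .ofNat 225, .negSucc 26, .negSucc 50, .ofNat 1417⟩, ⟨.ofNat 3871, .ofNat 665, .negSucc 1317, .negSucc 1153, .ofNat 76, .negSucc 5517⟩, ⟨.negSucc 80, .negSucc 789, .negSucc 571, .ofNat 1089, .negSucc 510, .negSucc 1286⟩, .ofNat 1037, .negSucc 1171, .ofNat 0, .negSucc 1171, .ofNat 2923, .ofNat 0, .ofNat 197, .ofNat 128, .negSucc 188, .ofNat 0, .ofNat 80, .negSucc 63, .ofNat 0, .ofNat 0, .ofNat 364, .ofNat 141, .ofNat 0, .ofNat 0, .ofNat 28510997564808590204807060935147520, .ofNat 0, .ofNat 0, .ofNat 0, .ofNat 0, .ofNat 0, .ofNat 0, .ofNat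 0, .ofNat 578494883848385362615730413364051968, .ofNat 0, .ofNat 0, .ofNat 0, .ofNat 1894742484537530443588459617834762240, .ofNat 0⟩)
    (by decide +kernel)
theorem L00841 : Good (Phi V5.P V5.D (-1) 1) ⟨2, 0, 2, 2, 2, 3, 2, 1, 4, 1⟩ :=
  leafX_sound T5.ok_mp T5.Ymp.bz_eq (w := 197) (c := ⟨⟨.negSucc 417, .negSucc 288, .negSucc 209, .negSucc 61, .negSucc 12, .negSucc 724⟩, ⟨.negSucc 219, .negSucc 175, .negSucc 310, .negSucc 19, .negSucc 14, .negSucc 435⟩, ⟨.negSucc 86, .ofNat 227, .ofNat 267, .negSucc 210, .negSucc 66, .ofNat 540⟩, ⟨.negSucc 1210, .negSucc 535, .negSucc 134, .negSucc 219, .ofNat 21, .negSucc 1695⟩, ⟨.negSucc 467, .ofNat 1, .negSucc 327, .ofNat 105, .negSucc 117, .negSucc 587⟩, .ofNat 2158, .negSucc 2481, .ofNat 0, .negSucc 2481, .ofNat 4196, .ofNat 0, .ofNat 128, .ofNat 155, .negSucc 81, .ofNat 0, .ofNat 114, .negSucc 44, .ofNat 0, .ofNat 0, .ofNat 305, .ofNat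 1134, .ofNat 0, .ofNat 0, .ofNat 0, .ofNat 0, .ofNat 0, .ofNat 0, .ofNat 0, .ofNat 0, .ofNat 0, .ofNat 0, .ofNat 0, .ofNat 0, .ofNat 0, .ofNat 0, .ofNat 2192583164349409135640682200783912960, .ofNat 0⟩)
    (by decide +kernel)
theorem L00842 : Good (Phi V5.P V5.D (-1) 1) ⟨2, 1, 2, 2, 2, 3, 2, 1, 4, 1⟩ :=
  leafX_sound T5.ok_mp T5.Ymp.bz_eq (w := 196) (c := ⟨⟨.negSucc 668, .negSucc 769, .negSucc 247, .negSucc 130, .ofNat 83, .negSucc 799⟩, ⟨.negSucc 424, .negSucc 98, .negSucc 400, .negSucc 55, .ofNat 24, .negSucc 378⟩, ⟨.ofNat 120, .ofNat 715, .ofNat 200, .negSucc 210, .negSucc 178, .ofNat 649⟩, ⟨.negSucc 1505, .negSucc 1011, .negSucc 510, .negSucc 506, .ofNat 204, .negSucc 1874⟩, ⟨.negSucc 1102, .negSucc 293, .ofNat 131, .ofNat 356, .negSucc 52, .negSucc 183⟩, .ofNat 1023, .negSucc 1037, .ofNat 0, .negSucc 1037, .ofNat 2376, .ofNat 0, .ofNat 128, .ofNat 166, .negSucc 108, .ofNat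 0, .ofNat 117, .negSucc 38, .ofNat 0, .ofNat 0, .ofNat 297, .ofNat 337, .ofNat 0, .ofNat 0, .ofNat 122870407223016808792118877803773952, .ofNat 0, .ofNat 0, .ofNat 0, .ofNat 4506511273235420741196994736472195072, .ofNat 0, .ofNat 0, .ofNat 0, .ofNat 0, .ofNat 0, .ofNat 0, .ofNat 0, .ofNat 4960459846963541288296985581695533056, .ofNat 0⟩)
    (by decide +kernel)
theorem L00843 : Good (Phi V5.P V5.D (-1) 1) ⟨1, 0, 2, 3, 2, 3, 2, 1, 3, 0⟩ :=
  out_sound (S := T5.ds_mp) T5.ok_mp (w := 31) (j := 3) (by decide +kernel)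
theorem L00844 : Good (Phi V5.P V5.D (-1) 1) ⟨1, 0, 2, 2, 2, 2, 2, 0, 4, 2⟩ :=
  leafX_sound T5.ok_mp T5.Ymp.bz_eq (w := 193) (c := ⟨⟨.negSucc 1137, .negSucc 897, .ofNat 1, .negSucc 103, .negSucc 22, .negSucc 84⟩, ⟨.negSucc 686, .negSucc 223, .negSucc 416, .negSucc 28, .ofNat 42, .negSucc 89⟩, ⟨.ofNat 791, .ofNat 1194, .ofNat 291, .negSucc 61, .negSucc 406, .ofNat 212⟩, ⟨.negSucc 3156, .negSucc 1141, .ofNat 81, .negSucc 14, .negSucc 112, .negSucc 401⟩, ⟨.negSucc 875, .negSucc 256, .negSucc 38, .negSucc 391, .ofNat 210, .ofNat 118⟩, .ofNat 445, .negSucc 197, .ofNat 0, .negSucc 197, .ofNat 659, .ofNat 0, .ofNat 311, .ofNat 91, .negSucc 107, .ofNat 0, .ofNat 128, .negSucc 6, .ofNat 0, .ofNat 0, .ofNat 521, .ofNat 1827, .ofNat 0, .ofNat 0, .ofNat 0, .ofNat 0, .ofNat 0, .ofNat 0, .ofNat 0, .ofNat 0, .ofNat 0, .ofNat 0, .ofNat 0, .ofNat 0, .ofNat 313121662880932048278096092125118595072,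 .ofNat 0, .ofNat 32672640962270432586888578549149597696, .ofNat 0⟩)
    (by decide +kernel)
theorem L00845 : Good (Phi V5.P V5.D (-1) 1) ⟨2, 0, 2, 2, 2, 3, 2, 0, 4, 2⟩ :=
  leafX_sound T5.ok_mp T5.Ymp.bz_eq (w := 198) (c := ⟨⟨.negSucc 1197, .negSucc 358, .negSucc 103, .ofNat 73, .negSucc 56, .negSucc 108⟩, ⟨.negSucc 681, .negSucc 185, .negSucc 331, .ofNat 49, .negSucc 31, .negSucc 68⟩, ⟨.ofNat 883, .ofNat 429, .ofNat 196, .negSucc 536, .negSucc 306, .ofNat 217⟩, ⟨.negSucc 3147, .negSucc 548, .ofNat 37, .ofNat 213, .negSucc 232, .negSucc 249⟩, ⟨.negSucc 1079, .negSucc 151, .negSucc 84, .ofNat 23, .ofNat 116, .negSucc 114⟩, .ofNat 891, .negSucc 696, .ofNat 0, .negSucc 696, .ofNat 1545, .ofNat 0, .ofNat 182, .ofNat 128, .negSucc 96, .ofNat 0, .ofNat 121, .negSucc 29, .ofNat 0, .ofNat 0, .ofNat 606, .ofNat 2899, .ofNat 0, .ofNat 0, .ofNat 0, .ofNat 0, .ofNat 0, .ofNat 0, .ofNat 0,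 .ofNat 0, .ofNat 0, .ofNat 0, .ofNat 0, .ofNat 0, .ofNat 5549991528508848910777826281544707211264, .ofNat 0, .ofNat 14841897454163275239149589533539958784, .ofNat 0⟩)
    (by decide +kernel)
theorem L00846 : Good (Phi V5.P V5.D (-1) 1) ⟨2, 1, 2, 2, 2, 3, 3, 0, 4, 2⟩ :=
  leafX_sound T5.ok_mp T5.Ymp.bz_eq (w := 202) (c := ⟨⟨.negSucc 1608, .negSucc 726, .negSucc 172, .ofNat 68, .negSucc 7, .negSucc 5⟩, ⟨.negSucc 897, .negSucc 57, .negSucc 416, .ofNat 39, .negSucc 5, .ofNat 0⟩, ⟨.ofNat 1590, .ofNat 892, .ofNat 307, .negSucc 896, .negSucc 316, .ofNat 202⟩, ⟨.negSucc 3773, .negSucc 980, .negSucc 194, .ofNat 75, .negSucc 32, .negSucc 22⟩, ⟨.negSucc 1395, .negSucc 2, .ofNat 30, .ofNat 182, .ofNat 19, .ofNat 15⟩, .ofNat 843, .negSucc 757, .ofNat 0, .negSucc 757, .ofNat 1732, .ofNat 0, .ofNat 308, .ofNat 128, .negSucc 97, .ofNat 0, .ofNat 100, .negSucc 34, .ofNat 0, .ofNat 0, .ofNat 535,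 .ofNat 5118, .ofNat 0, .ofNat 0, .ofNat 0, .ofNat 0, .ofNat 0, .ofNat 0, .ofNat 922154828354191236053582261321153380352, .ofNat 0, .ofNat 0, .ofNat 0, .ofNat 53238317368799423857224934504808841216, .ofNat 0, .ofNat 52450495270972797600386814365137853480960, .ofNat 0, .ofNat 177805640745521438695764876070657982464, .ofNat 0⟩)
    (by decide +kernel)
theorem L00847 : Good (Phi V5.P V5.D (-1) 1) ⟨2, 1, 2, 2, 2, 3, 3, 1, 4, 2⟩ :=
  leafX_sound T5.ok_mp T5.Ymp.bz_eq (w := 201) (c := ⟨⟨.negSucc 1628, .negSucc 730, .negSucc 141, .ofNat 38, .ofNat 19, .ofNat 20⟩, ⟨.negSucc 899, .negSucc 47, .negSucc 404, .ofNat 18, .ofNat 11, .negSucc 2⟩, ⟨.ofNat 1154, .ofNat 818, .ofNat 288, .negSucc 636, .negSucc 221, .ofNat 194⟩, ⟨.negSucc 3883, .negSucc 812, .negSucc 140, .ofNat 94, .negSucc 4, .negSucc 8⟩, ⟨.negSucc 1294, .negSucc 216, .ofNat 44, .ofNat 11, .ofNat 96, .ofNat 52⟩, .ofNat 1257, .negSucc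 1464, .ofNat 0, .negSucc 1464, .ofNat 3241, .ofNat 0, .ofNat 154, .ofNat 128, .negSucc 52, .ofNat 0, .ofNat 89, .negSucc 19, .ofNat 0, .ofNat 0, .ofNat 267, .ofNat 1172, .ofNat 0, .ofNat 0, .ofNat 2768628779327424158227838335677628416, .ofNat 0, .ofNat 0, .ofNat 0, .ofNat 290323484723400502383695712994178629632, .ofNat 0, .ofNat 0, .ofNat 0, .ofNat 45810334097349004897929917796506927104, .ofNat 0, .ofNat 0, .ofNat 0, .ofNat 51832536424767137673583953740159778816, .ofNat 0⟩)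
    (by decide +kernel)
theorem L00848 : Good (Phi V5.P V5.D (-1) 1) ⟨2, 0, 2, 2, 2, 2, 2, 0, 4, 3⟩ :=
  leafX_sound T5.ok_mp T5.Ymp.bz_eq (w := 198) (c := ⟨⟨.negSucc 1425, .negSucc 236, .negSucc 77, .negSucc 10, .ofNat 33, .ofNat 53⟩, ⟨.negSucc 781, .negSucc 122, .negSucc 345, .negSucc 23, .ofNat 26, .ofNat 35⟩, ⟨.ofNat 1193, .ofNat 386, .ofNat 310, .negSucc 165, .negSucc 415, .ofNat 164⟩, ⟨.negSucc 3936, .negSucc 255, .negSucc 23, .ofNat 176, .ofNat 18, .ofNat 92⟩, ⟨.negSucc 782, .negSucc 61, .ofNat 11, .negSucc 378, .ofNat 133, .ofNat 112⟩, .ofNat 462, .negSucc 203, .ofNat 0, .negSucc 203, .ofNat 652, .ofNat 0, .ofNat 307, .ofNat 84, .negSucc 95, .ofNat 0, .ofNat 128, .ofNat 4, .ofNat 0, .ofNat 0, .ofNat 715, .ofNat 3970, .ofNat 0, .ofNat 0, .ofNat 0, .ofNat 0, .ofNat 0, .ofNat 0, .ofNat 0, .ofNat 0, .ofNat 0, .ofNat 0, .ofNat 0, .ofNat 0, .ofNat 23546603049964711774649277077984693452800,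 .ofNat 0, .ofNat 9955803470700985379383545349854461952, .ofNat 0⟩)
    (by decide +kernel)
theorem L00849 : Good (Phi V5.P V5.D (-1) 1) ⟨2, 0, 3, 4, 3, 6, 2, 0, 4, 3⟩ :=
  leafX_sound T5.ok_mp T5.Ymp.bz_eq (w := 216) (c := ⟨⟨.negSucc 1430, .negSucc 220, .negSucc 38, .ofNat 55, .negSucc 1, .ofNat 78⟩, ⟨.negSucc 800, .negSucc 120, .negSucc 162, .ofNat 22, .ofNat 6, .ofNat 50⟩, ⟨.ofNat 1109, .ofNat 340, .ofNat 127, .negSucc 173, .negSucc 392, .ofNat 103⟩, ⟨.negSucc 3806, .negSucc 182, .ofNat 26, .ofNat 274, .negSucc 62, .ofNat 200⟩, ⟨.negSucc 1031, .negSucc 150, .negSucc 27, .negSucc 210, .ofNat 105, .ofNat 54⟩, .ofNat 881, .negSucc 678, .ofNat 0, .negSucc 678, .ofNat 1529, .ofNat 0, .ofNat 135, .ofNat 127, .negSucc 86, .ofNat 0, .ofNat 128, .negSucc 19, .ofNat 0, .ofNat 0, .ofNat 816, .ofNat 6749, .ofNat 3813403447743671388114817122039982991605760, .ofNat 0, .ofNat 9556273956572642726982138443913184149504,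 .ofNat 0, .ofNat 0, .ofNat 0, .ofNat 0, .ofNat 0, .ofNat 0, .ofNat 0, .ofNat 0, .ofNat 0, .ofNat 1175790927246308808246192526367459539656114176, .ofNat 0, .ofNat 0, .ofNat 0⟩)
    (by decide +kernel)
theorem L00850 : Good (Phi V5.P V5.D (-1) 1) ⟨2, 0, 3, 5, 3, 6, 2, 0, 4, 3⟩ :=
  leafX_sound T5.ok_mp T5.Ymp.bz_eq (w := 217) (c := ⟨⟨.negSucc 1443, .negSucc 281, .negSucc 35, .ofNat 34, .ofNat 13, .ofNat 96⟩, ⟨.negSucc 975, .negSucc 123, .negSucc 166, .ofNat 19, .ofNat 7, .ofNat 66⟩, ⟨.ofNat 1300, .ofNat 453, .ofNat 147, .negSucc 193, .negSucc 555, .ofNat 102⟩, ⟨.negSucc 3756, .negSucc 284, .ofNat 9, .ofNat 249, .negSucc 25, .ofNat 224⟩, ⟨.negSucc 1093, .negSucc 98, .ofNat 12, .negSucc 230, .ofNat 89, .ofNat 84⟩, .ofNat 1027, .negSucc 895, .ofNat 0, .negSucc 895, .ofNat 1765, .ofNat 0, .ofNat 128, .ofNat 136, .negSucc 119, .ofNat 0, .ofNat 122, .negSucc 40, .ofNat 0, .ofNat 0, .ofNat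 1183, .ofNat 11079, .ofNat 4719340084631231823490747805774591408734208, .ofNat 0, .ofNat 26041348448567183797790372195369368944640, .ofNat 0, .ofNat 0, .ofNat 0, .ofNat 747704897734472455111097649304839221411840, .ofNat 0, .ofNat 0, .ofNat 0, .ofNat 1002918837164763662761034109776100667162624, .ofNat 0, .ofNat 2257278955340288669473792957471083032823726080, .ofNat 0, .ofNat 3214178950193543318389381464064001879048192, .ofNat 0⟩)
    (by decide +kernel)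
theorem L00851 : Good (Phi V5.P V5.D (-1) 1) ⟨2, 0, 2, 2, 3, 7, 2, 0, 5, 6⟩ :=
  leafX_sound T5.ok_mp T5.Ymp.bz_eq (w := 218) (c := ⟨⟨.negSucc 1313, .negSucc 269, .negSucc 112, .ofNat 66, .negSucc 52, .ofNat 31⟩, ⟨.negSucc 747, .negSucc 144, .negSucc 326, .ofNat 40, .negSucc 25, .ofNat 15⟩, ⟨.ofNat 862, .ofNat 261, .ofNat 255, .negSucc 328, .negSucc 216, .ofNat 80⟩, ⟨.negSucc 3487, .negSucc 254, .ofNat 71, .ofNat 281, .negSucc 172, .ofNat 121⟩, ⟨.negSucc 1057, .negSucc 242, .negSucc 168, .negSucc 129, .ofNat 41, .negSucc 58⟩, .ofNat 894, .negSucc 699, .ofNat 0, .negSucc 699, .ofNat 1552, .ofNat 0, .ofNat 160, .ofNat 127, .negSucc 137, .ofNat 0, .ofNat 128, .negSucc 22, .ofNat 0, .ofNat 0, .ofNat 1185, .ofNat 7224, .ofNat 0, .ofNat 0, .ofNat 178650663598947262191923794312943454126080, .ofNat 0, .ofNat 0, .ofNat 0, .ofNat 3076969608237783556641520097549844314324992, .ofNat 0, .ofNat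 0, .ofNat 0, .ofNat 3385278858492567086541577518828318397300736, .ofNat 0, .ofNat 0, .ofNat 0, .ofNat 0, .ofNat 0⟩)
    (by decide +kernel)
theorem L00852 : Good (Phi V5.P V5.D (-1) 1) ⟨2, 0, 3, 4, 3, 7, 2, 0, 5, 7⟩ :=
  leafX_sound T5.ok_mp T5.Ymp.bz_eq (w := 221) (c := ⟨⟨.negSucc 1325, .negSucc 206, .negSucc 58, .ofNat 84, .negSucc 25, .ofNat 53⟩, ⟨.negSucc 756, .negSucc 115, .negSucc 154, .ofNat 43, .negSucc 9, .ofNat 33⟩, ⟨.ofNat 971, .ofNat 203, .ofNat 111, .negSucc 327, .negSucc 242, .ofNat 60⟩, ⟨.negSucc 3474, .negSucc 96, .ofNat 26, .ofNat 350, .negSucc 114, .ofNat 158⟩, ⟨.negSucc 1103, .negSucc 277, .negSucc 63, .negSucc 172, .ofNat 68, .negSucc 0⟩, .ofNat 876, .negSucc 674, .ofNat 0, .negSucc 674, .ofNat 1525, .ofNat 0, .ofNat 128, .ofNat 121, .negSucc 75, .ofNat 0, .ofNat 128, .negSucc 5, .ofNat 0, .ofNat 0, .ofNat 900, .ofNat 8195, .ofNat 46587786786659872734019730629967268196384768,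 .ofNat 0, .ofNat 540530492705854627092957396012931469017088, .ofNat 0, .ofNat 0, .ofNat 0, .ofNat 0, .ofNat 0, .ofNat 0, .ofNat 0, .ofNat 0, .ofNat 0, .ofNat 6182337918500101529263773753697097279839666176, .ofNat 0, .ofNat 0, .ofNat 0⟩)
    (by decide +kernel)
theorem L00853 : Good (Phi V5.P V5.D (-1) 1) ⟨2, 0, 4, 10, 3, 7, 3, 0, 5, 7⟩ :=
  leafX_sound T5.ok_mp T5.Ymp.bz_eq (w := 229) (c := ⟨⟨.negSucc 1344, .negSucc 271, .negSucc 24, .ofNat 73, .negSucc 23, .ofNat 73⟩, ⟨.negSucc 910, .negSucc 121, .negSucc 78, .ofNat 42, .negSucc 12, .ofNat 47⟩, ⟨.ofNat 1080, .ofNat 335, .ofNat 100, .negSucc 442, .negSucc 170, .ofNat 67⟩, ⟨.negSucc 3386, .negSucc 263, .ofNat 20, .ofNat 368, .negSucc 63, .ofNat 212⟩, ⟨.negSucc 1185, .negSucc 154, .negSucc 30, .negSucc 244, .negSucc 1, .negSucc 4⟩, .ofNat 478, .negSucc 234, .ofNat 0, .negSucc 234, .ofNat 672, .ofNat 0, .ofNat 280, .ofNat 79, .negSucc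 122, .ofNat 0, .ofNat 128, .ofNat 32, .ofNat 0, .ofNat 0, .ofNat 1034, .ofNat 23764, .ofNat 11791118947073215034889970610000881932618956800, .ofNat 0, .ofNat 91703663634851327481099636123054560166019072, .ofNat 0, .ofNat 0, .ofNat 0, .ofNat 0, .ofNat 0, .ofNat 0, .ofNat 0, .ofNat 607300973868435418709254069219525109487763456, .ofNat 0, .ofNat 764449870384183404296895324025984885349169496064, .ofNat 0, .ofNat 1761924095385330287955468527886572231153680384, .ofNat 0⟩)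
    (by decide +kernel)
theorem L00854 : Good (Phi V5.P V5.D (-1) 1) ⟨2, 0, 4, 10, 3, 7, 3, 1, 5, 7⟩ :=
  leafX_sound T5.ok_mp T5.Ymp.bz_eq (w := 229) (c := ⟨⟨.negSucc 1389, .negSucc 234, .negSucc 32, .ofNat 64, .ofNat 4, .ofNat 83⟩, ⟨.negSucc 940, .negSucc 102, .negSucc 79, .ofNat 41, .ofNat 5, .ofNat 53⟩, ⟨.ofNat 941, .ofNat 198, .ofNat 72, .negSucc 277, .negSucc 119, .ofNat 9⟩, ⟨.negSucc 3556, .negSucc 99, .ofNat 9, .ofNat 357, .negSucc 6, .ofNat 239⟩, ⟨.negSucc 1132, .negSucc 242, .negSucc 32, .negSucc 254, .ofNat 32, .negSucc 2⟩, .ofNat 1025, .negSucc 890, .ofNat 0, .negSucc 890, .ofNat 1757, .ofNat 0, .ofNat 197, .ofNat 128, .negSucc 85, .ofNat 0, .ofNat 120, .negSucc 11, .ofNat 0, .ofNat 0, .ofNat 1022, .ofNat 11111, .ofNat 0, .ofNat 0, .ofNat 0, .ofNat 0, .ofNat 0, .ofNat 0, .ofNat 0, .ofNat 0, .ofNat 0, .ofNat 0, .ofNat 479626463729005418677719319580752744563081216, .ofNat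 0, .ofNat 0, .ofNat 0, .ofNat 0, .ofNat 0⟩)
    (by decide +kernel)
theorem L00855 : Good (Phi V5.P V5.D (-1) 1) ⟨2, 0, 4, 11, 3, 7, 2, 0, 5, 7⟩ :=
  out_sound (S := T5.ds_mp) T5.ok_mp (w := 41) (j := 3) (by decide +kernel)
theorem L00856 : Good (Phi V5.P V5.D (-1) 1) ⟨2, 1, 2, 2, 2, 2, 2, 0, 4, 3⟩ :=
  leafX_sound T5.ok_mp T5.Ymp.bz_eq (w := 198) (c := ⟨⟨.negSucc 1777, .negSucc 538, .negSucc 57, .ofNat 0, .ofNat 68, .ofNat 189⟩, ⟨.negSucc 958, .ofNat 43, .negSucc 386, .negSucc 17, .ofNat 45, .ofNat 93⟩, ⟨.ofNat 1815, .ofNat 818, .ofNat 378, .negSucc 86, .negSucc 733, .ofNat 75⟩, ⟨.negSucc 4443, .negSucc 458, .negSucc 22, .ofNat 187, .ofNat 95, .ofNat 363⟩, ⟨.negSucc 857, .ofNat 18, .ofNat 47, .negSucc 410, .ofNat 120, .ofNat 188⟩, .ofNat 755, .negSucc 616, .ofNat 0, .negSucc 616, .ofNat 1584, .ofNat 0, .ofNat 141, .ofNat 128, .negSucc 72, .ofNat 0, .ofNat 114, .negSucc 15, .ofNat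 0, .ofNat 0, .ofNat 630, .ofNat 3682, .ofNat 0, .ofNat 0, .ofNat 0, .ofNat 0, .ofNat 0, .ofNat 0, .ofNat 0, .ofNat 0, .ofNat 0, .ofNat 0, .ofNat 0, .ofNat 0, .ofNat 12613684297078775707117909988470610198528, .ofNat 0, .ofNat 25246399016661239943254394944209551360, .ofNat 0⟩)
    (by decide +kernel)
theorem L00857 : Good (Phi V5.P V5.D (-1) 1) ⟨2, 1, 3, 4, 3, 6, 2, 0, 4, 3⟩ :=
  leafX_sound T5.ok_mp T5.Ymp.bz_eq (w := 215) (c := ⟨⟨.negSucc 1821, .negSucc 507, .negSucc 40, .ofNat 88, .ofNat 79, .ofNat 220⟩, ⟨.negSucc 974, .ofNat 26, .negSucc 188, .ofNat 29, .ofNat 32, .ofNat 109⟩, ⟨.ofNat 1935, .ofNat 753, .ofNat 125, .negSucc 314, .negSucc 824, .negSucc 9⟩, ⟨.negSucc 4359, .negSucc 463, .negSucc 4, .ofNat 330, .ofNat 147, .ofNat 479⟩, ⟨.negSucc 1188, .negSucc 38, .ofNat 6, .negSucc 245, .ofNat 67, .ofNat 124⟩, .ofNat 750, .negSucc 610, .ofNat 0, .negSucc 610, .ofNat 1577, .ofNat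 0, .ofNat 195, .ofNat 128, .negSucc 97, .ofNat 0, .ofNat 117, .negSucc 20, .ofNat 0, .ofNat 0, .ofNat 733, .ofNat 3767, .ofNat 0, .ofNat 0, .ofNat 4137502142269619359121487720178618728448, .ofNat 0, .ofNat 0, .ofNat 0, .ofNat 0, .ofNat 0, .ofNat 0, .ofNat 0, .ofNat 0, .ofNat 0, .ofNat 345386199208827027051825064837973388526878720, .ofNat 0, .ofNat 1164219908376234789013268616254952254210048, .ofNat 0⟩)
    (by decide +kernel)
theorem L00858 : Good (Phi V5.P V5.D (-1) 1) ⟨2, 1, 3, 5, 3, 6, 2, 0, 4, 3⟩ :=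
  leafX_sound T5.ok_mp T5.Ymp.bz_eq (w := 216) (c := ⟨⟨.negSucc 1808, .negSucc 445, .negSucc 45, .ofNat 64, .ofNat 42, .ofNat 177⟩, ⟨.negSucc 1141, .negSucc 35, .negSucc 175, .ofNat 35, .ofNat 27, .ofNat 109⟩, ⟨.ofNat 2011, .ofNat 703, .ofNat 152, .negSucc 309, .negSucc 788, .ofNat 44⟩, ⟨.negSucc 4240, .negSucc 449, .ofNat 4, .ofNat 326, .ofNat 72, .ofNat 400⟩, ⟨.negSucc 1180, .negSucc 8, .ofNat 12, .negSucc 266, .ofNat 65, .ofNat 111⟩, .ofNat 942, .negSucc 853, .ofNat 0, .negSucc 853, .ofNat 1794, .ofNat 0, .ofNat 143, .ofNat 128, .negSucc 116, .ofNat 0, .ofNat 109, .negSucc 37, .ofNat 0, .ofNat 0, .ofNat 1036, .ofNat 7851, .ofNat 0, .ofNat 0, .ofNat 22328690852868219806287960821155464478720, .ofNat 0, .ofNat 0, .ofNat 0, .ofNat 2134859948705622252170527057161462696902656, .ofNat 0, .ofNat 0, .ofNat 0, .ofNat 272961842681470202076316664116104445034496, .ofNat 0, .ofNat 1197772283291151543626939140911693581250461696,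 .ofNat 0, .ofNat 3892964739997615719603859018743341056524288, .ofNat 0⟩)
    (by decide +kernel)
theorem L00859 : Good (Phi V5.P V5.D (-1) 1) ⟨3, 2, 3, 4, 3, 7, 2, 0, 5, 6⟩ :=
  leafX_sound T5.ok_mp T5.Ymp.bz_eq (w := 225) (c := ⟨⟨.negSucc 1649, .negSucc 245, .negSucc 84, .ofNat 73, .ofNat 9, .ofNat 95⟩, ⟨.negSucc 903, .negSucc 19, .negSucc 187, .ofNat 34, .ofNat 1, .ofNat 47⟩, ⟨.ofNat 1366, .ofNat 301, .ofNat 147, .negSucc 516, .negSucc 392, .ofNat 13⟩, ⟨.negSucc 3903, .negSucc 296, .negSucc 46, .ofNat 259, .ofNat 57, .ofNat 279⟩, ⟨.negSucc 1278, .negSucc 1, .negSucc 33, .negSucc 122, .negSucc 66, .negSucc 63⟩, .ofNat 1119, .negSucc 1144, .ofNat 0, .negSucc 1144, .ofNat 2468, .ofNat 0, .ofNat 143, .ofNat 128, .negSucc 119, .ofNat 0, .ofNat 103, .negSucc 33, .ofNat 0, .ofNat 0, .ofNat 972, .ofNat 9882, .ofNat 0, .ofNat 0, .ofNat 0, .ofNat 0, .ofNat 0, .ofNat 0, .ofNat 0, .ofNat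 0, .ofNat 0, .ofNat 0, .ofNat 0, .ofNat 0, .ofNat 136901819698311262698872474318022699380604141568, .ofNat 0, .ofNat 0, .ofNat 0⟩)
    (by decide +kernel)
theorem L00860 : Good (Phi V5.P V5.D (-1) 1) ⟨3, 2, 3, 5, 3, 7, 2, 0, 5, 6⟩ :=
  leafX_sound T5.ok_mp T5.Ymp.bz_eq (w := 226) (c := ⟨⟨.negSucc 1706, .negSucc 251, .negSucc 79, .ofNat 60, .negSucc 2, .ofNat 81⟩, ⟨.negSucc 1080, .negSucc 37, .negSucc 184, .ofNat 36, .negSucc 2, .ofNat 47⟩, ⟨.ofNat 1508, .ofNat 273, .ofNat 151, .negSucc 514, .negSucc 383, .ofNat 27⟩, ⟨.negSucc 3898, .negSucc 215, .negSucc 54, .ofNat 227, .ofNat 29, .ofNat 211⟩, ⟨.negSucc 1301, .negSucc 155, .ofNat 3, .negSucc 110, .negSucc 59, .negSucc 2⟩, .ofNat 3038, .negSucc 4122, .ofNat 0, .negSucc 4122, .ofNat 7118, .ofNat 0, .ofNat 128, .ofNat 191, .negSucc 131, .ofNat 0, .ofNat 130, .negSucc 65, .ofNat 0, .ofNat 0, .ofNat 1328, .ofNat 11668, .ofNat 0, .ofNat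 0, .ofNat 539088861650274071332409818411431568080896, .ofNat 0, .ofNat 0, .ofNat 0, .ofNat 0, .ofNat 0, .ofNat 0, .ofNat 0, .ofNat 12854552193592344663011104777496015455387648, .ofNat 0, .ofNat 0, .ofNat 0, .ofNat 50137556186008493079522407215647711469502464, .ofNat 0⟩)
    (by decide +kernel)
theorem L00861 : Good (Phi V5.P V5.D (-1) 1) ⟨3, 2, 3, 4, 3, 7, 2, 0, 5, 7⟩ :=
  leafX_sound T5.ok_mp T5.Ymp.bz_eq (w := 225) (c := ⟨⟨.negSucc 1619, .negSucc 180, .negSucc 63, .ofNat 96, .ofNat 44, .ofNat 108⟩, ⟨.negSucc 893, .ofNat 5, .negSucc 166, .ofNat 46, .ofNat 23, .ofNat 58⟩, ⟨.ofNat 1424, .ofNat 251, .ofNat 147, .negSucc 489, .negSucc 436, .negSucc 24⟩, ⟨.negSucc 3828, .negSucc 137, .ofNat 26, .ofNat 403, .ofNat 150, .ofNat 276⟩, ⟨.negSucc 1253, .negSucc 49, .negSucc 63, .negSucc 273, .negSucc 61, .ofNat 17⟩, .ofNat 817, .negSucc 677, .ofNat 0, .negSucc 677, .ofNat 1619, .ofNat 0,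 .ofNat 246, .ofNat 128, .negSucc 115, .ofNat 0, .ofNat 124, .negSucc 12, .ofNat 0, .ofNat 0, .ofNat 1209, .ofNat 10157, .ofNat 0, .ofNat 0, .ofNat 0, .ofNat 0, .ofNat 0, .ofNat 0, .ofNat 0, .ofNat 0, .ofNat 0, .ofNat 0, .ofNat 0, .ofNat 0, .ofNat 238952942221842755448891297409353957214947115008, .ofNat 0, .ofNat 0, .ofNat 0⟩)
    (by decide +kernel)

end Crest.Agent.R097C5.N5mp
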