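import Crest.Agent.R097.KP7
import Crest.Agent.R097.T5Ymp

/-!
# Row 97, box cover in dimension n = 5 (generated)
-/

set_option autoImplicit false
set_option Elab.async false
set_option maxHeartbeats 0
set_option maxRecDepth 100000

open Crest.Agent.R097 Crest.Agent.R097.KA


namespace Crest.Agent.R097C5.N5mp

theorem L00862 : Good (Phi V5.P V5.D (-1) 1) ⟨3, 2, 4, 10, 3, 7, 2, 0, 5, 7⟩ :=
  leafX_sound T5.ok_mp T5.Ymp.bz_eq (w := 229) (c := ⟨⟨.negSucc 1698, .negSucc 176, .negSucc 22, .ofNat 92, .ofNat 45, .ofNat 125⟩, ⟨.negSucc 1069, .negSucc 3, .negSucc 79, .ofNat 52, .ofNat 24, .ofNat 74⟩, ⟨.ofNat 1578, .ofNat 254, .ofNat 89, .negSucc 493, .negSucc 448, .ofNat 0⟩, ⟨.negSucc 3820, .negSucc 166, .ofNat 17, .ofNat 396, .ofNat 152, .ofNat 308⟩, ⟨.negSucc 1345, .ofNat 3, .negSucc 13, .negSucc 257, .negSucc 60, .ofNat 27⟩, .ofNat 2088, .negSucc 2624, .ofNat 0, .negSucc 2624,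 .ofNat 4717, .ofNat 0, .ofNat 128, .ofNat 183, .negSucc 106, .ofNat 0, .ofNat 131, .negSucc 43, .ofNat 0, .ofNat 0, .ofNat 1483, .ofNat 12907, .ofNat 0, .ofNat 0, .ofNat 968486176511628652218305740645330711478272, .ofNat 0, .ofNat 0, .ofNat 0, .ofNat 0, .ofNat 0, .ofNat 0, .ofNat 0, .ofNat 1169764859244061735511247541274020501520384, .ofNat 0, .ofNat 1623759560352036398624725617460150580607224643584, .ofNat 0, .ofNat 100337346312093209817949381999772300038111232, .ofNat 0⟩)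
    (by decide +kernel)
theorem L00863 : Good (Phi V5.P V5.D (-1) 1) ⟨3, 2, 4, 11, 3, 7, 2, 0, 5, 7⟩ :=
  out_sound (S := T5.ds_mp) T5.ok_mp (w := 47) (j := 3) (by decide +kernel)
theorem L00864 : Good (Phi V5.P V5.D (-1) 1) ⟨3, 3, 3, 4, 3, 7, 2, 0, 4, 3⟩ :=
  leafX_sound T5.ok_mp T5.Ymp.bz_eq (w := 220) (c := ⟨⟨.negSucc 2039, .negSucc 256, .negSucc 91, .ofNat 134, .ofNat 96, .ofNat 337⟩, ⟨.negSucc 954, .ofNat 42, .negSucc 192, .ofNat 45, .ofNat 31, .ofNat 135⟩, ⟨.ofNat 1842, .ofNat 338, .ofNat 209, .negSucc 569, .negSucc 534, .negSucc 152⟩, ⟨.negSucc 4519, .negSucc 235, .negSucc 36, .ofNat 424, .ofNat 284, .ofNat 822⟩, ⟨.negSucc 1197, .ofNat 13, .negSucc 68, .negSucc 249, .negSucc 142, .negSucc 70⟩, .ofNat 665, .negSucc 514, .ofNat 0, .negSucc 514, .ofNat 1517, .ofNat 0, .ofNat 331, .ofNat 126, .negSucc 167, .ofNat 0, .ofNat 128, .negSucc 13, .ofNat 0, .ofNat 0, .ofNat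 1225, .ofNat 7391, .ofNat 0, .ofNat 0, .ofNat 5073330032607645412525343152917671051264, .ofNat 0, .ofNat 0, .ofNat 0, .ofNat 606956518859120599924428855805852119990272, .ofNat 0, .ofNat 0, .ofNat 0, .ofNat 84819253450174392482160046226833942773760, .ofNat 0, .ofNat 17629314548054660363176684346758024740682596352, .ofNat 0, .ofNat 576246141732860750469156055514939454914560, .ofNat 0⟩)
    (by decide +kernel)
theorem L00865 : Good (Phi V5.P V5.D (-1) 1) ⟨3, 3, 3, 5, 3, 7, 2, 0, 4, 3⟩ :=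
  out_sound (S := T5.ds_mp) T5.ok_mp (w := 45) (j := 3) (by decide +kernel)
theorem L00866 : Good (Phi V5.P V5.D (-1) 1) ⟨2, 0, 2, 2, 1, 1, 2, 1, 4, 2⟩ :=
  leafX_sound T5.ok_mp T5.Ymp.bz_eq (w := 184) (c := ⟨⟨.negSucc 1192, .negSucc 253, .negSucc 116, .negSucc 63, .ofNat 44, .negSucc 141⟩, ⟨.negSucc 651, .negSucc 140, .negSucc 347, .negSucc 60, .ofNat 34, .negSucc 83⟩, ⟨.ofNat 705, .ofNat 192, .ofNat 186, .negSucc 394, .negSucc 104, .ofNat 232⟩, ⟨.negSucc 3357, .negSucc 311, .negSucc 58, .ofNat 150, .ofNat 79, .negSucc 393⟩, ⟨.negSucc 642, .negSucc 84, .negSucc 74, .negSucc 584, .ofNat 91, .negSucc 29⟩, .ofNat 1682, .negSucc 1827, .ofNat 0, .negSucc 1827, .ofNat 3362, .ofNat 0, .ofNat 128, .ofNat 186, .negSucc 67, .ofNat 0, .ofNat 145, .negSucc 30, .ofNat 0, .ofNat 0, .ofNat 397, .ofNat 2160, .ofNat 0, .ofNat 0, .ofNat 10778524079111491364486285099008, .ofNat 0, .ofNat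 0, .ofNat 0, .ofNat 0, .ofNat 0, .ofNat 0, .ofNat 0, .ofNat 179771024524013193442974450581504, .ofNat 0, .ofNat 0, .ofNat 0, .ofNat 394735439059159341065126981664768, .ofNat 0⟩)
    (by decide +kernel)
theorem L00867 : Good (Phi V5.P V5.D (-1) 1) ⟨2, 0, 2, 2, 2, 2, 2, 1, 4, 3⟩ :=
  leafX_sound T5.ok_mp T5.Ymp.bz_eq (w := 199) (c := ⟨⟨.negSucc 1393, .negSucc 195, .negSucc 61, .negSucc 54, .ofNat 87, .ofNat 56⟩, ⟨.negSucc 758, .negSucc 101, .negSucc 336, .negSucc 39, .ofNat 52, .ofNat 38⟩, ⟨.ofNat 967, .ofNat 183, .ofNat 115, .negSucc 149, .negSucc 182, .ofNat 99⟩, ⟨.negSucc 3907, .negSucc 174, .negSucc 21, .ofNat 53, .ofNat 163, .ofNat 127⟩, ⟨.negSucc 643, .negSucc 36, .negSucc 0, .negSucc 359, .ofNat 141, .ofNat 76⟩, .ofNat 885, .negSucc 685, .ofNat 0, .negSucc 685, .ofNat 1537, .ofNat 0, .ofNat 157, .ofNat 128, .negSucc 68, .ofNat 0, .ofNat 124, .negSucc 19, .ofNat 0,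 .ofNat 0, .ofNat 566, .ofNat 5483, .ofNat 0, .ofNat 0, .ofNat 0, .ofNat 0, .ofNat 0, .ofNat 0, .ofNat 0, .ofNat 0, .ofNat 0, .ofNat 0, .ofNat 4181622379238558722915826622554701824, .ofNat 0, .ofNat 0, .ofNat 0, .ofNat 22024914135095338702916554153311338496, .ofNat 0⟩)
    (by decide +kernel)
theorem L00868 : Good (Phi V5.P V5.D (-1) 1) ⟨3, 0, 2, 2, 2, 3, 2, 1, 4, 3⟩ :=
  leafX_sound T5.ok_mp T5.Ymp.bz_eq (w := 202) (c := ⟨⟨.negSucc 1485, .negSucc 38, .negSucc 76, .ofNat 103, .ofNat 40, .ofNat 108⟩, ⟨.negSucc 819, .negSucc 55, .negSucc 298, .ofNat 49, .ofNat 34, .ofNat 65⟩, ⟨.ofNat 832, .negSucc 17, .ofNat 147, .negSucc 211, .negSucc 61, .ofNat 53⟩, ⟨.negSucc 3956, .ofNat 61, .ofNat 58, .ofNat 411, .ofNat 15, .ofNat 253⟩, ⟨.negSucc 1011, .negSucc 108, .negSucc 40, .negSucc 188, .ofNat 187, .ofNat 102⟩, .ofNat 2141, .negSucc 2507, .ofNat 0, .negSucc 2507, .ofNat 4488, .ofNat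 0, .ofNat 128, .ofNat 192, .negSucc 56, .ofNat 0, .ofNat 155, .negSucc 19, .ofNat 0, .ofNat 0, .ofNat 596, .ofNat 2361, .ofNat 0, .ofNat 0, .ofNat 34028299272664056073657284321869824, .ofNat 0, .ofNat 0, .ofNat 0, .ofNat 0, .ofNat 0, .ofNat 0, .ofNat 0, .ofNat 1743045760618054060255139942971211776, .ofNat 0, .ofNat 0, .ofNat 0, .ofNat 0, .ofNat 0⟩)
    (by decide +kernel)
theorem L00869 : Good (Phi V5.P V5.D (-1) 1) ⟨3, 1, 3, 4, 2, 3, 2, 1, 4, 3⟩ :=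
  leafX_sound T5.ok_mp T5.Ymp.bz_eq (w := 206) (c := ⟨⟨.negSucc 1596, .negSucc 89, .negSucc 57, .ofNat 160, .ofNat 105, .ofNat 141⟩, ⟨.negSucc 910, .negSucc 17, .negSucc 166, .ofNat 75, .ofNat 67, .ofNat 86⟩, ⟨.ofNat 934, .ofNat 67, .ofNat 78, .negSucc 326, .negSucc 164, .ofNat 47⟩, ⟨.negSucc 4102, .ofNat 24, .negSucc 13, .ofNat 644, .ofNat 170, .ofNat 345⟩, ⟨.negSucc 1081, .negSucc 64, .negSucc 26, .negSucc 354, .ofNat 217, .ofNat 92⟩, .ofNat 1595, .negSucc 1742, .ofNat 0, .negSucc 1742, .ofNat 3287, .ofNat 0, .ofNat 128, .ofNat 314, .negSucc 84, .ofNat 0, .ofNat 252, .negSucc 29, .ofNat 0, .ofNat 0, .ofNat 732, .ofNat 4425, .ofNat 0, .ofNat 0, .ofNat 0, .ofNat 0, .ofNat 0, .ofNat 0, .ofNat 0, .ofNat 0, .ofNat 0, .ofNat 0, .ofNat 0, .ofNat 0, .ofNat 0, .ofNat 0, .ofNat 0, .ofNat 0⟩)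
    (by decide +kernel)
theorem L00870 : Good (Phi V5.P V5.D (-1) 1) ⟨3, 1, 4, 10, 2, 3, 2, 1, 4, 3⟩ :=
  leafX_sound T5.ok_mp T5.Ymp.bz_eq (w := 212) (c := ⟨⟨.negSucc 1645, .negSucc 102, .negSucc 29, .ofNat 134, .ofNat 116, .ofNat 156⟩, ⟨.negSucc 1083, .negSucc 25, .negSucc 83, .ofNat 79, .ofNat 77, .ofNat 102⟩, ⟨.ofNat 1048, .ofNat 90, .ofNat 60, .negSucc 349, .negSucc 217, .ofNat 13⟩, ⟨.negSucc 3963, .negSucc 56, .negSucc 19, .ofNat 512, .ofNat 173, .ofNat 322⟩, ⟨.negSucc 1312, .ofNat 15, .ofNat 6, .negSucc 222, .ofNat 232, .ofNat 178⟩, .ofNat 4822, .negSucc 6484, .ofNat 0, .negSucc 6484, .ofNat 10228, .ofNat 0, .ofNat 128, .ofNat 574, .negSucc 117, .ofNat 0, .ofNat 407, .negSucc 66, .ofNat 0, .ofNat 0, .ofNat 1214, .ofNat 6589, .ofNat 0, .ofNat 0, .ofNat 0, .ofNat 0, .ofNat 0, .ofNat 0, .ofNat 0, .ofNat 0, .ofNat 0, .ofNat 0, .ofNat 118729880187011794254210509481380413440,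 .ofNat 0, .ofNat 0, .ofNat 0, .ofNat 0, .ofNat 0⟩)
    (by decide +kernel)
theorem L00871 : Good (Phi V5.P V5.D (-1) 1) ⟨3, 1, 4, 11, 2, 3, 2, 1, 4, 3⟩ :=
  out_sound (S := T5.ds_mp) T5.ok_mp (w := 47) (j := 3) (by decide +kernel)
theorem L00872 : Good (Phi V5.P V5.D (-1) 1) ⟨2, 1, 2, 2, 2, 2, 2, 1, 4, 2⟩ :=
  leafX_sound T5.ok_mp T5.Ymp.bz_eq (w := 198) (c := ⟨⟨.negSucc 1487, .negSucc 637, .negSucc 122, .negSucc 101, .ofNat 99, .negSucc 71⟩, ⟨.negSucc 813, .negSucc 22, .negSucc 392, .negSucc 83, .ofNat 62, .negSucc 18⟩, ⟨.ofNat 973, .ofNat 652, .ofNat 233, .negSucc 136, .negSucc 280, .ofNat 212⟩, ⟨.negSucc 3732, .negSucc 733, .negSucc 132, .negSucc 62, .ofNat 146, .negSucc 252⟩, ⟨.negSucc 856, .ofNat 6, .ofNat 8, .negSucc 443, .ofNat 214, .ofNat 170⟩, .ofNat 760, .negSucc 627, .ofNat 0, .negSucc 627, .ofNat 1595, .ofNat 0, .ofNat 128, .ofNat 145, .negSucc 68, .ofNat 0,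 .ofNat 121, .negSucc 19, .ofNat 0, .ofNat 0, .ofNat 312, .ofNat 1621, .ofNat 0, .ofNat 0, .ofNat 0, .ofNat 0, .ofNat 0, .ofNat 0, .ofNat 6487093984234313143242040889697107968, .ofNat 0, .ofNat 0, .ofNat 0, .ofNat 0, .ofNat 0, .ofNat 0, .ofNat 0, .ofNat 3891614329567760197724370260618903552, .ofNat 0⟩)
    (by decide +kernel)
theorem L00873 : Good (Phi V5.P V5.D (-1) 1) ⟨2, 1, 2, 2, 2, 2, 2, 1, 4, 3⟩ :=
  leafX_sound T5.ok_mp T5.Ymp.bz_eq (w := 199) (c := ⟨⟨.negSucc 1720, .negSucc 478, .negSucc 61, .negSucc 30, .ofNat 170, .ofNat 169⟩, ⟨.negSucc 904, .ofNat 32, .negSucc 371, .negSucc 28, .ofNat 80, .ofNat 89⟩, ⟨.ofNat 1388, .ofNat 549, .ofNat 130, .negSucc 192, .negSucc 446, .ofNat 5⟩, ⟨.negSucc 4341, .negSucc 434, .negSucc 30, .ofNat 132, .ofNat 324, .ofNat 360⟩, ⟨.negSucc 718, .ofNat 52, .ofNat 17, .negSucc 409, .ofNat 180, .ofNat 136⟩, .ofNat 419, .negSucc 186, .ofNat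 0, .negSucc 186, .ofNat 668, .ofNat 0, .ofNat 234, .ofNat 91, .negSucc 112, .ofNat 0, .ofNat 128, .negSucc 4, .ofNat 0, .ofNat 0, .ofNat 549, .ofNat 3338, .ofNat 0, .ofNat 0, .ofNat 0, .ofNat 0, .ofNat 0, .ofNat 0, .ofNat 9218455763078183514581619100348317696, .ofNat 0, .ofNat 0, .ofNat 0, .ofNat 0, .ofNat 0, .ofNat 0, .ofNat 0, .ofNat 13756280663841763362796360080050618368, .ofNat 0⟩)
    (by decide +kernel)
theorem L00874 : Good (Phi V5.P V5.D (-1) 1) ⟨3, 2, 2, 2, 2, 3, 2, 1, 5, 4⟩ :=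
  leafX_sound T5.ok_mp T5.Ymp.bz_eq (w := 208) (c := ⟨⟨.negSucc 1553, .negSucc 307, .negSucc 158, .negSucc 11, .ofNat 92, .negSucc 67⟩, ⟨.negSucc 841, .negSucc 41, .negSucc 400, .negSucc 13, .ofNat 44, .negSucc 36⟩, ⟨.ofNat 809, .ofNat 303, .ofNat 193, .negSucc 291, .negSucc 175, .ofNat 111⟩, ⟨.negSucc 3807, .negSucc 413, .negSucc 161, .negSucc 1, .ofNat 268, .negSucc 19⟩, ⟨.negSucc 983, .negSucc 19, .negSucc 7, .negSucc 69, .negSucc 61, .negSucc 277⟩, .ofNat 2053, .negSucc 2716, .ofNat 0, .negSucc 2716, .ofNat 5279, .ofNat 0, .ofNat 128, .ofNat 290, .negSucc 92, .ofNat 0, .ofNat 193, .negSucc 40, .ofNat 0, .ofNat 0, .ofNat 360, .ofNat 2075, .ofNat 0, .ofNat 0, .ofNat 2996364571382056846397067155617087488, .ofNat 0, .ofNat 0, .ofNat 0, .ofNat 0, .ofNat 0, .ofNat 0, .ofNat 0, .ofNat 0, .ofNat 0, .ofNat 0, .ofNat 0, .ofNat 60455612889967460903853160673356808192, .ofNat 0⟩)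
    (by decide +kernel)
theorem L00875 : Good (Phi V5.P V5.D (-1) 1) ⟨3, 2, 3, 4, 2, 3, 2, 1, 5, 5⟩ :=
  leafX_sound T5.ok_mp T5.Ymp.bz_eq (w := 210) (c := ⟨⟨.negSucc 1736, .negSucc 223, .negSucc 58, .ofNat 84, .ofNat 153, .ofNat 42⟩, ⟨.negSucc 941, .negSucc 8, .negSucc 183, .ofNat 31, .ofNat 87, .ofNat 22⟩, ⟨.ofNat 1059, .ofNat 190, .ofNat 95, .negSucc 374, .negSucc 263, .ofNat 41⟩, ⟨.negSucc 4243, .negSucc 209, .ofNat 3, .ofNat 454, .ofNat 400, .ofNat 97⟩, ⟨.negSucc 1054, .negSucc 45, .negSucc 39, .negSucc 434, .negSucc 6, .ofNat 16⟩, .ofNat 1142, .negSucc 1169, .ofNat 0, .negSucc 1169, .ofNat 2488, .ofNat 0, .ofNat 128, .ofNat 149, .negSucc 77, .ofNat 0, .ofNat 115, .negSucc 25, .ofNat 0, .ofNat 0, .ofNat 360, .ofNat 2700, .ofNat 0, .ofNat 0, .ofNat 0, .ofNat 0, .ofNat 0, .ofNat 0, .ofNat 0, .ofNat 0, .ofNat 0, .ofNat 0, .ofNat 0, .ofNat 0, .ofNat 0, .ofNat 0, .ofNat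 0, .ofNat 0⟩)
    (by decide +kernel)
theorem L00876 : Good (Phi V5.P V5.D (-1) 1) ⟨3, 2, 3, 5, 2, 3, 2, 1, 5, 5⟩ :=
  leafX_sound T5.ok_mp T5.Ymp.bz_eq (w := 211) (c := ⟨⟨.negSucc 1818, .negSucc 223, .negSucc 16, .ofNat 73, .ofNat 167, .ofNat 43⟩, ⟨.negSucc 1142, .negSucc 17, .negSucc 156, .ofNat 35, .ofNat 97, .ofNat 29⟩, ⟨.ofNat 1102, .ofNat 295, .ofNat 242, .negSucc 370, .negSucc 287, .ofNat 70⟩, ⟨.negSucc 4375, .negSucc 114, .ofNat 253, .ofNat 460, .ofNat 409, .ofNat 96⟩, ⟨.negSucc 1002, .negSucc 171, .negSucc 225, .negSucc 456, .ofNat 29, .ofNat 35⟩, .ofNat 2115, .negSucc 2668, .ofNat 0, .negSucc 2668, .ofNat 4786, .ofNat 0, .ofNat 128, .ofNat 277, .negSucc 88, .ofNat 0, .ofNat 191, .negSucc 42, .ofNat 0, .ofNat 0, .ofNat 452, .ofNat 4594, .ofNat 0, .ofNat 0, .ofNat 15621577980041963377007917269176549376, .ofNat 0, .ofNat 0, .ofNat 0, .ofNat 676539248343406618105545374194481496064,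 .ofNat 0, .ofNat 0, .ofNat 0, .ofNat 437621979041451390374321045643225726976, .ofNat 0, .ofNat 0, .ofNat 0, .ofNat 35703601922041809225237087472188391424, .ofNat 0⟩)
    (by decide +kernel)
theorem L00877 : Good (Phi V5.P V5.D (-1) 1) ⟨3, 3, 3, 4, 2, 3, 2, 1, 5, 4⟩ :=
  leafX_sound T5.ok_mp T5.Ymp.bz_eq (w := 210) (c := ⟨⟨.negSucc 1932, .negSucc 437, .negSucc 83, .ofNat 12, .ofNat 171, .negSucc 34⟩, ⟨.negSucc 914, .negSucc 4, .negSucc 219, .ofNat 0, .ofNat 69, .negSucc 11⟩, ⟨.ofNat 1195, .ofNat 422, .ofNat 119, .negSucc 323, .negSucc 291, .ofNat 91⟩, ⟨.negSucc 4328, .negSucc 540, .negSucc 63, .ofNat 62, .ofNat 409, .negSucc 85⟩, ⟨.negSucc 1134, .negSucc 44, .negSucc 50, .negSucc 78, .negSucc 26, .ofNat 11⟩, .ofNat 1182, .negSucc 1448, .ofNat 0, .negSucc 1448, .ofNat 3522, .ofNat 0, .ofNat 217, .ofNat 128, .negSucc 108, .ofNat 0, .ofNat 84, .negSucc 34, .ofNat 0, .ofNat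 0, .ofNat 338, .ofNat 1424, .ofNat 0, .ofNat 0, .ofNat 3507902168659669963335372011678466048, .ofNat 0, .ofNat 0, .ofNat 0, .ofNat 597143133617647364841773582847238471680, .ofNat 0, .ofNat 0, .ofNat 0, .ofNat 0, .ofNat 0, .ofNat 0, .ofNat 0, .ofNat 136057795601761847931498990724951572480, .ofNat 0⟩)
    (by decide +kernel)
theorem L00878 : Good (Phi V5.P V5.D (-1) 1) ⟨4, 6, 3, 4, 2, 3, 3, 2, 5, 5⟩ :=
  leafX_sound T5.ok_mp T5.Ymp.bz_eq (w := 219) (c := ⟨⟨.negSucc 2041, .negSucc 180, .negSucc 108, .ofNat 117, .ofNat 96, .ofNat 100⟩, ⟨.negSucc 955, .ofNat 1, .negSucc 222, .ofNat 37, .ofNat 39, .ofNat 39⟩, ⟨.ofNat 1392, .ofNat 189, .ofNat 157, .negSucc 497, .negSucc 203, .ofNat 10⟩, ⟨.negSucc 4675, .negSucc 154, .negSucc 150, .ofNat 401, .ofNat 280, .ofNat 332⟩, ⟨.negSucc 946, .negSucc 106, .ofNat 38, .negSucc 278, .negSucc 107, .negSucc 197⟩, .ofNat 1677, .negSucc 2337, .ofNat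 0, .negSucc 2337, .ofNat 5161, .ofNat 0, .ofNat 138, .ofNat 128, .negSucc 72, .ofNat 0, .ofNat 84, .negSucc 25, .ofNat 0, .ofNat 0, .ofNat 310, .ofNat 3452, .ofNat 0, .ofNat 0, .ofNat 23406836804283526251256681044687978496, .ofNat 0, .ofNat 0, .ofNat 0, .ofNat 0, .ofNat 0, .ofNat 0, .ofNat 0, .ofNat 0, .ofNat 0, .ofNat 0, .ofNat 0, .ofNat 557188849598021219146431448889696452608, .ofNat 0⟩)
    (by decide +kernel)
theorem L00879 : Good (Phi V5.P V5.D (-1) 1) ⟨4, 6, 3, 4, 2, 3, 3, 3, 5, 5⟩ :=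
  leafX_sound T5.ok_mp T5.Ymp.bz_eq (w := 219) (c := ⟨⟨.negSucc 1995, .negSucc 165, .negSucc 132, .ofNat 207, .ofNat 135, .ofNat 108⟩, ⟨.negSucc 935, .ofNat 3, .negSucc 218, .ofNat 59, .ofNat 64, .ofNat 44⟩, ⟨.ofNat 1192, .ofNat 162, .ofNat 146, .negSucc 437, .negSucc 183, .negSucc 5⟩, ⟨.negSucc 4530, .negSucc 152, .negSucc 189, .ofNat 742, .ofNat 324, .ofNat 273⟩, ⟨.negSucc 1001, .negSucc 68, .ofNat 18, .negSucc 565, .ofNat 10, .negSucc 44⟩, .ofNat 1342, .negSucc 1695, .ofNat 0, .negSucc 1695, .ofNat 3868, .ofNat 0, .ofNat 137, .ofNat 128, .negSucc 59, .ofNat 0, .ofNat 86, .negSucc 19, .ofNat 0, .ofNat 0, .ofNat 231, .ofNat 2328, .ofNat 0, .ofNat 0, .ofNat 10919411648813237857771550361291587584, .ofNat 0, .ofNat 0, .ofNat 0, .ofNat 0, .ofNat 0, .ofNat 0, .ofNat 0, .ofNat 388569766966663581869712549993536028672, .ofNat 0, .ofNat 0, .ofNat 0, .ofNat 180742210711926787107608019503813754880,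 .ofNat 0⟩)
    (by decide +kernel)
theorem L00880 : Good (Phi V5.P V5.D (-1) 1) ⟨4, 7, 3, 4, 2, 3, 2, 1, 5, 5⟩ :=
  leafX_sound T5.ok_mp T5.Ymp.bz_eq (w := 215) (c := ⟨⟨.negSucc 2375, .negSucc 118, .negSucc 30, .ofNat 239, .ofNat 259, .ofNat 185⟩, ⟨.negSucc 989, .ofNat 24, .negSucc 203, .ofNat 63, .ofNat 102, .ofNat 64⟩, ⟨.ofNat 1702, .ofNat 155, .ofNat 93, .negSucc 560, .negSucc 419, .negSucc 65⟩, ⟨.negSucc 5145, .ofNat 110, .negSucc 32, .ofNat 659, .ofNat 560, .ofNat 428⟩, ⟨.negSucc 1036, .negSucc 364, .ofNat 137, .negSucc 334, .ofNat 68, .negSucc 39⟩, .ofNat 1173, .negSucc 1519, .ofNat 0, .negSucc 1519, .ofNat 3937, .ofNat 0, .ofNat 191, .ofNat 128, .negSucc 102, .ofNat 0, .ofNat 88, .negSucc 26, .ofNat 0, .ofNat 0, .ofNat 364, .ofNat 2222, .ofNat 0, .ofNat 0, .ofNat 1193073940403473930538639351867244544, .ofNat 0, .ofNat 0, .ofNat 0, .ofNat 176162553008369147934490427437264928768,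 .ofNat 0, .ofNat 0, .ofNat 0, .ofNat 19403348673966999601432630251132813312, .ofNat 0, .ofNat 0, .ofNat 0, .ofNat 27322400137872134483546523439059697664, .ofNat 0⟩)
    (by decide +kernel)
theorem L00881 : Good (Phi V5.P V5.D (-1) 1) ⟨3, 3, 3, 5, 2, 3, 2, 1, 4, 2⟩ :=
  out_sound (S := T5.ds_mp) T5.ok_mp (w := 45) (j := 3) (by decide +kernel)
theorem L00882 : Good (Phi V5.P V5.D (-1) 1) ⟨3, 2, 3, 4, 2, 3, 3, 2, 4, 3⟩ :=
  leafX_sound T5.ok_mp T5.Ymp.bz_eq (w := 209) (c := ⟨⟨.negSucc 1768, .negSucc 182, .negSucc 61, .ofNat 172, .ofNat 61, .ofNat 218⟩, ⟨.negSucc 960, .ofNat 7, .negSucc 173, .ofNat 70, .ofNat 37, .ofNat 121⟩, ⟨.ofNat 1196, .ofNat 220, .ofNat 107, .negSucc 513, .negSucc 185, .negSucc 47⟩, ⟨.negSucc 4341, .negSucc 111, .negSucc 3, .ofNat 775, .ofNat 129, .ofNat 534⟩, ⟨.negSucc 1020, .negSucc 52, .negSucc 32, .negSucc 620, .ofNat 55, .ofNat 77⟩, .ofNat 825, .negSucc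 690, .ofNat 0, .negSucc 690, .ofNat 1634, .ofNat 0, .ofNat 128, .ofNat 130, .negSucc 67, .ofNat 0, .ofNat 119, .negSucc 14, .ofNat 0, .ofNat 0, .ofNat 449, .ofNat 3003, .ofNat 0, .ofNat 0, .ofNat 0, .ofNat 0, .ofNat 0, .ofNat 0, .ofNat 0, .ofNat 0, .ofNat 0, .ofNat 0, .ofNat 52022263909403921508541776133699403776, .ofNat 0, .ofNat 0, .ofNat 0, .ofNat 0, .ofNat 0⟩)
    (by decide +kernel)
theorem L00883 : Good (Phi V5.P V5.D (-1) 1) ⟨3, 2, 4, 10, 2, 3, 3, 2, 4, 3⟩ :=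
  leafX_sound T5.ok_mp T5.Ymp.bz_eq (w := 213) (c := ⟨⟨.negSucc 1848, .negSucc 177, .negSucc 30, .ofNat 187, .ofNat 68, .ofNat 242⟩, ⟨.negSucc 1160, .ofNat 1, .negSucc 84, .ofNat 101, .ofNat 42, .ofNat 147⟩, ⟨.ofNat 1305, .ofNat 208, .ofNat 63, .negSucc 514, .negSucc 192, .negSucc 18⟩, ⟨.negSucc 4435, .negSucc 118, .negSucc 9, .ofNat 905, .ofNat 156, .ofNat 610⟩, ⟨.negSucc 1004, .negSucc 42, .negSucc 4, .negSucc 697, .ofNat 42, .ofNat 45⟩, .ofNat 942, .negSucc 854, .ofNat 0, .negSucc 854, .ofNat 1796, .ofNat 0, .ofNat 128, .ofNat 138, .negSucc 47, .ofNat 0, .ofNat 119, .negSucc 12, .ofNat 0, .ofNat 0, .ofNat 369, .ofNat 4175, .ofNat 0, .ofNat 0, .ofNat 10042856867053869267606623593191964672, .ofNat 0, .ofNat 0, .ofNat 0, .ofNat 234971167463647517884230361911530618880, .ofNat 0, .ofNat 0, .ofNat 0, .ofNat 167300764619708044049458481941153054720, .ofNat 0, .ofNat 0, .ofNat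 0, .ofNat 0, .ofNat 0⟩)
    (by decide +kernel)
theorem L00884 : Good (Phi V5.P V5.D (-1) 1) ⟨3, 2, 4, 11, 2, 3, 3, 2, 4, 3⟩ :=
  out_sound (S := T5.ds_mp) T5.ok_mp (w := 47) (j := 3) (by decide +kernel)
theorem L00885 : Good (Phi V5.P V5.D (-1) 1) ⟨3, 2, 2, 2, 3, 6, 3, 3, 4, 3⟩ :=
  leafX_sound T5.ok_mp T5.Ymp.bz_eq (w := 221) (c := ⟨⟨.negSucc 1700, .negSucc 168, .negSucc 109, .ofNat 67, .ofNat 88, .ofNat 205⟩, ⟨.negSucc 920, .ofNat 12, .negSucc 347, .ofNat 29, .ofNat 53, .ofNat 115⟩, ⟨.ofNat 1000, .ofNat 161, .ofNat 175, .negSucc 182, .negSucc 168, .negSucc 47⟩, ⟨.negSucc 4158, .negSucc 90, .negSucc 35, .ofNat 339, .ofNat 165, .ofNat 458⟩, ⟨.negSucc 1027, .negSucc 31, .negSucc 43, .negSucc 289, .ofNat 132, .ofNat 163⟩, .ofNat 435, .negSucc 197, .ofNat 0, .negSucc 197, .ofNat 669, .ofNat 0, .ofNat 154, .ofNat 87, .negSucc 89, .ofNat 0, .ofNat 128, .ofNat 1, .ofNat 0, .ofNat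 0, .ofNat 402, .ofNat 3877, .ofNat 0, .ofNat 0, .ofNat 0, .ofNat 0, .ofNat 0, .ofNat 0, .ofNat 275892423997136120306246941361212739289088, .ofNat 0, .ofNat 0, .ofNat 0, .ofNat 330721442418808493143221622810344297594880, .ofNat 0, .ofNat 0, .ofNat 0, .ofNat 403875768085805554444744005898846427152384, .ofNat 0⟩)
    (by decide +kernel)
theorem L00886 : Good (Phi V5.P V5.D (-1) 1) ⟨3, 2, 3, 4, 3, 7, 3, 3, 4, 3⟩ :=
  leafX_sound T5.ok_mp T5.Ymp.bz_eq (w := 224) (c := ⟨⟨.negSucc 1728, .negSucc 90, .negSucc 55, .ofNat 142, .ofNat 128, .ofNat 287⟩, ⟨.negSucc 949, .ofNat 37, .negSucc 152, .ofNat 68, .ofNat 77, .ofNat 159⟩, ⟨.ofNat 831, .ofNat 49, .ofNat 90, .negSucc 156, .negSucc 111, .negSucc 65⟩, ⟨.negSucc 4071, .ofNat 138, .ofNat 33, .ofNat 562, .ofNat 262, .ofNat 622⟩, ⟨.negSucc 1275, .negSucc 187, .negSucc 42, .negSucc 345, .ofNat 140, .ofNat 217⟩, .ofNat 1133, .negSucc 1160,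 .ofNat 0, .negSucc 1160, .ofNat 2480, .ofNat 0, .ofNat 128, .ofNat 213, .negSucc 73, .ofNat 0, .ofNat 176, .negSucc 13, .ofNat 0, .ofNat 0, .ofNat 604, .ofNat 4575, .ofNat 0, .ofNat 0, .ofNat 0, .ofNat 0, .ofNat 0, .ofNat 0, .ofNat 0, .ofNat 0, .ofNat 0, .ofNat 0, .ofNat 58742821488225028679686569780405061287936, .ofNat 0, .ofNat 0, .ofNat 0, .ofNat 0, .ofNat 0⟩)
    (by decide +kernel)
theorem L00887 : Good (Phi V5.P V5.D (-1) 1) ⟨3, 2, 3, 5, 3, 7, 3, 3, 4, 3⟩ :=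
  leafX_sound T5.ok_mp T5.Ymp.bz_eq (w := 225) (c := ⟨⟨.negSucc 1796, .negSucc 91, .negSucc 30, .ofNat 159, .ofNat 133, .ofNat 293⟩, ⟨.negSucc 1125, .ofNat 39, .negSucc 137, .ofNat 87, .ofNat 82, .ofNat 176⟩, ⟨.ofNat 904, .ofNat 110, .ofNat 138, .negSucc 166, .negSucc 133, .negSucc 69⟩, ⟨.negSucc 4028, .ofNat 156, .ofNat 137, .ofNat 570, .ofNat 240, .ofNat 607⟩, ⟨.negSucc 1407, .negSucc 182, .negSucc 108, .negSucc 278, .ofNat 178, .ofNat 255⟩, .ofNat 2909, .negSucc 3956, .ofNat 0, .negSucc 3956, .ofNat 6913, .ofNat 0, .ofNat 128, .ofNat 267, .negSucc 65, .ofNat 0, .ofNat 183, .negSucc 29, .ofNat 0, .ofNat 0, .ofNat 578, .ofNat 4524, .ofNat 0, .ofNat 0, .ofNat 106403243911052515603563557405261123551232, .ofNat 0, .ofNat 0, .ofNat 0, .ofNat 0, .ofNat 0, .ofNat 0, .ofNat 0, .ofNat 1874841862431549723106782122252428057247744, .ofNat 0, .ofNat 0, .ofNat 0, .ofNat 0, .ofNat 0⟩)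
    (by decide +kernel)
theorem L00888 : Good (Phi V5.P V5.D (-1) 1) ⟨3, 3, 2, 2, 3, 6, 3, 2, 5, 6⟩ :=
  leafX_sound T5.ok_mp T5.Ymp.bz_eq (w := 227) (c := ⟨⟨.negSucc 1973, .negSucc 343, .negSucc 157, .ofNat 77, .ofNat 88, .ofNat 129⟩, ⟨.negSucc 930, .ofNat 28, .negSucc 407, .ofNat 18, .ofNat 38, .ofNat 59⟩, ⟨.ofNat 1447, .ofNat 417, .ofNat 292, .negSucc 231, .negSucc 281, .negSucc 29⟩, ⟨.negSucc 4430, .negSucc 369, .negSucc 154, .ofNat 308, .ofNat 175, .ofNat 285⟩, ⟨.negSucc 1113, .ofNat 23, .ofNat 41, .negSucc 291, .ofNat 67, .ofNat 50⟩, .ofNat 673, .negSucc 526, .ofNat 0, .negSucc 526, .ofNat 1527, .ofNat 0, .ofNat 299, .ofNat 128, .negSucc 162, .ofNat 0, .ofNat 115, .negSucc 31, .ofNat 0, .ofNat 0, .ofNat 788, .ofNat 12614, .ofNat 0, .ofNat 0, .ofNat 0, .ofNat 0, .ofNat 0, .ofNat 0, .ofNat 53749509985242231972651607470164820721926144, .ofNat 0, .ofNat 0, .ofNat 0, .ofNat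 53701627429716911079793288562376308108034048, .ofNat 0, .ofNat 0, .ofNat 0, .ofNat 90299529573177083659891039217891966218928128, .ofNat 0⟩)
    (by decide +kernel)
theorem L00889 : Good (Phi V5.P V5.D (-1) 1) ⟨3, 3, 3, 4, 3, 7, 3, 2, 5, 6⟩ :=
  leafX_sound T5.ok_mp T5.Ymp.bz_eq (w := 230) (c := ⟨⟨.negSucc 1977, .negSucc 257, .negSucc 90, .ofNat 157, .ofNat 125, .ofNat 188⟩, ⟨.negSucc 936, .ofNat 46, .negSucc 192, .ofNat 48, .ofNat 47, .ofNat 77⟩, ⟨.ofNat 1234, .ofNat 318, .ofNat 148, .negSucc 370, .negSucc 228, .negSucc 71⟩, ⟨.negSucc 4374, .negSucc 198, .negSucc 40, .ofNat 530, .ofNat 315, .ofNat 488⟩, ⟨.negSucc 1227, .negSucc 34, .negSucc 39, .negSucc 369, .negSucc 62, .negSucc 91⟩, .ofNat 668, .negSucc 519, .ofNat 0, .negSucc 519, .ofNat 1522, .ofNat 0, .ofNat 272, .ofNat 128, .negSucc 122, .ofNat 0, .ofNat 124, .negSucc 13, .ofNat 0, .ofNat 0, .ofNat 599, .ofNat 9127,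 .ofNat 0, .ofNat 0, .ofNat 3527934815428944038071142198299404596674560, .ofNat 0, .ofNat 0, .ofNat 0, .ofNat 84195563114153548512438684982042738844237824, .ofNat 0, .ofNat 0, .ofNat 0, .ofNat 35703061808937282613695041235381990992117760, .ofNat 0, .ofNat 0, .ofNat 0, .ofNat 75952345635540951247715174723916506922483712, .ofNat 0⟩)
    (by decide +kernel)
theorem L00890 : Good (Phi V5.P V5.D (-1) 1) ⟨3, 3, 3, 5, 3, 7, 3, 2, 5, 6⟩ :=
  out_sound (S := T5.ds_mp) T5.ok_mp (w := 45) (j := 3) (by decide +kernel)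
theorem L00891 : Good (Phi V5.P V5.D (-1) 1) ⟨3, 3, 2, 2, 3, 6, 3, 3, 5, 6⟩ :=
  leafX_sound T5.ok_mp T5.Ymp.bz_eq (w := 227) (c := ⟨⟨.negSucc 1952, .negSucc 287, .negSucc 146, .ofNat 115, .ofNat 123, .ofNat 154⟩, ⟨.negSucc 916, .ofNat 41, .negSucc 391, .ofNat 32, .ofNat 61, .ofNat 68⟩, ⟨.ofNat 1266, .ofNat 300, .ofNat 215, .negSucc 244, .negSucc 225, .negSucc 75⟩, ⟨.negSucc 4403, .negSucc 258, .negSucc 146, .ofNat 416, .ofNat 244, .ofNat 331⟩, ⟨.negSucc 1032, .ofNat 18, .ofNat 34, .negSucc 332, .ofNat 116, .ofNat 65⟩, .ofNat 679, .negSucc 534, .ofNat 0, .negSucc 534, .ofNat 1533, .ofNat 0, .ofNat 180, .ofNat 128, .negSucc 91, .ofNat 0, .ofNat 113, .negSucc 17, .ofNat 0, .ofNat 0, .ofNat 398, .ofNat 5927, .ofNat 0, .ofNat 0, .ofNat 0, .ofNat 0, .ofNat 0, .ofNat 0, .ofNat 0, .ofNat 0, .ofNat 0, .ofNat 0, .ofNat 17469164387943788949189044899700584405270528, .ofNat 0, .ofNat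 0, .ofNat 0, .ofNat 24251776210367620075310290030087839340822528, .ofNat 0⟩)
    (by decide +kernel)
theorem L00892 : Good (Phi V5.P V5.D (-1) 1) ⟨3, 3, 3, 4, 3, 7, 3, 3, 5, 6⟩ :=
  leafX_sound T5.ok_mp T5.Ymp.bz_eq (w := 229) (c := ⟨⟨.negSucc 1919, .negSucc 171, .negSucc 76, .ofNat 214, .ofNat 174, .ofNat 193⟩, ⟨.negSucc 906, .ofNat 55, .negSucc 181, .ofNat 63, .ofNat 78, .ofNat 83⟩, ⟨.ofNat 1060, .ofNat 167, .ofNat 96, .negSucc 288, .negSucc 201, .negSucc 103⟩, ⟨.negSucc 4186, .negSucc 39, .negSucc 23, .ofNat 719, .ofNat 391, .ofNat 442⟩, ⟨.negSucc 1281, .negSucc 76, .negSucc 29, .negSucc 509, .ofNat 53, .ofNat 31⟩, .ofNat 674, .negSucc 527, .ofNat 0, .negSucc 527, .ofNat 1528, .ofNat 0, .ofNat 274, .ofNat 128, .negSucc 96, .ofNat 0, .ofNat 122, .negSucc 9, .ofNat 0, .ofNat 0, .ofNat 433, .ofNat 3777, .ofNat 0, .ofNat 0, .ofNat 1394106671946033334605003362712313665683456,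 .ofNat 0, .ofNat 0, .ofNat 0, .ofNat 0, .ofNat 0, .ofNat 0, .ofNat 0, .ofNat 37552506742379954406703037916354344346714112, .ofNat 0, .ofNat 0, .ofNat 0, .ofNat 36143838214717694828159615856017633888436224, .ofNat 0⟩)
    (by decide +kernel)
theorem L00893 : Good (Phi V5.P V5.D (-1) 1) ⟨3, 3, 3, 5, 3, 7, 3, 3, 5, 6⟩ :=
  out_sound (S := T5.ds_mp) T5.ok_mp (w := 45) (j := 3) (by decide +kernel)
theorem L00894 : Good (Phi V5.P V5.D (-1) 1) ⟨3, 3, 3, 4, 2, 3, 3, 2, 5, 7⟩ :=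
  leafX_sound T5.ok_mp T5.Ymp.bz_eq (w := 216) (c := ⟨⟨.negSucc 1944, .negSucc 204, .negSucc 44, .ofNat 313, .ofNat 106, .ofNat 163⟩, ⟨.negSucc 908, .ofNat 57, .negSucc 181, .ofNat 91, .ofNat 48, .ofNat 76⟩, ⟨.ofNat 1543, .ofNat 264, .ofNat 117, .negSucc 703, .negSucc 286, .negSucc 83⟩, ⟨.negSucc 4350, .negSucc 125, .negSucc 15, .ofNat 1059, .ofNat 219, .ofNat 350⟩, ⟨.negSucc 1038, .negSucc 6, .ofNat 6, .negSucc 760, .ofNat 64, .ofNat 84⟩, .ofNat 398, .negSucc 167, .ofNat 0, .negSucc 167, .ofNat 666, .ofNat 0, .ofNat 322, .ofNat 73, .negSucc 129, .ofNat 0, .ofNat 128, .ofNat 14, .ofNat 0, .ofNat 0, .ofNat 663, .ofNat 6658, .ofNat 0, .ofNat 0, .ofNat 101513128484656057902392051093536243712, .ofNat 0, .ofNat 0, .ofNat 0, .ofNat 13961904909338711859475625628355442769920, .ofNat 0, .ofNat 0, .ofNat 0, .ofNat 912960579393932329652474361449115811840, .ofNat 0, .ofNat 0, .ofNat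 0, .ofNat 2509517154004174801997361565413570248704, .ofNat 0⟩)
    (by decide +kernel)
theorem L00895 : Good (Phi V5.P V5.D (-1) 1) ⟨3, 3, 3, 5, 2, 3, 3, 2, 5, 7⟩ :=
  out_sound (S := T5.ds_mp) T5.ok_mp (w := 45) (j := 3) (by decide +kernel)
theorem L00896 : Good (Phi V5.P V5.D (-1) 1) ⟨3, 3, 2, 2, 3, 6, 3, 3, 5, 7⟩ :=
  leafX_sound T5.ok_mp T5.Ymp.bz_eq (w := 227) (c := ⟨⟨.negSucc 1845, .negSucc 218, .negSucc 110, .ofNat 154, .ofNat 125, .ofNat 158⟩, ⟨.negSucc 861, .ofNat 56, .negSucc 367, .ofNat 46, .ofNat 61, .ofNat 70⟩, ⟨.ofNat 1246, .ofNat 230, .ofNat 193, .negSucc 286, .negSucc 240, .negSucc 77⟩, ⟨.negSucc 4161, .negSucc 111, .negSucc 52, .ofNat 505, .ofNat 237, .ofNat 328⟩, ⟨.negSucc 963, .negSucc 22, .negSucc 39, .negSucc 335, .ofNat 149, .ofNat 102⟩, .ofNat 680, .negSucc 536, .ofNat 0, .negSucc 536, .ofNat 1535, .ofNat 0, .ofNat 253, .ofNat 128, .negSucc 81, .ofNat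 0, .ofNat 117, .negSucc 13, .ofNat 0, .ofNat 0, .ofNat 482, .ofNat 7949, .ofNat 0, .ofNat 0, .ofNat 0, .ofNat 0, .ofNat 0, .ofNat 0, .ofNat 0, .ofNat 0, .ofNat 0, .ofNat 0, .ofNat 52082632233221297003608858952461477889441792, .ofNat 0, .ofNat 0, .ofNat 0, .ofNat 48104117163063648360231496834383873795162112, .ofNat 0⟩)
    (by decide +kernel)
theorem L00897 : Good (Phi V5.P V5.D (-1) 1) ⟨3, 3, 3, 4, 3, 7, 3, 3, 5, 7⟩ :=
  leafX_sound T5.ok_mp T5.Ymp.bz_eq (w := 229) (c := ⟨⟨.negSucc 1750, .negSucc 125, .negSucc 70, .ofNat 228, .ofNat 172, .ofNat 179⟩, ⟨.negSucc 834, .ofNat 69, .negSucc 151, .ofNat 65, .ofNat 80, .ofNat 82⟩, ⟨.ofNat 991, .ofNat 119, .ofNat 68, .negSucc 287, .negSucc 202, .negSucc 90⟩, ⟨.negSucc 3753, .ofNat 45, .ofNat 13, .ofNat 726, .ofNat 330, .ofNat 364⟩, ⟨.negSucc 1322, .negSucc 76, .negSucc 64, .negSucc 465, .ofNat 173, .ofNat 139⟩, .ofNat 676, .negSucc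 529, .ofNat 0, .negSucc 529, .ofNat 1530, .ofNat 0, .ofNat 221, .ofNat 127, .negSucc 60, .ofNat 0, .ofNat 128, .ofNat 0, .ofNat 0, .ofNat 0, .ofNat 434, .ofNat 3478, .ofNat 0, .ofNat 0, .ofNat 0, .ofNat 0, .ofNat 0, .ofNat 0, .ofNat 0, .ofNat 0, .ofNat 0, .ofNat 0, .ofNat 61252022246794674123338063466679447767220224, .ofNat 0, .ofNat 0, .ofNat 0, .ofNat 2482674962244832660763908031990830607630336, .ofNat 0⟩)
    (by decide +kernel)
theorem L00898 : Good (Phi V5.P V5.D (-1) 1) ⟨3, 3, 3, 5, 3, 7, 3, 3, 5, 7⟩ :=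
  out_sound (S := T5.ds_mp) T5.ok_mp (w := 45) (j := 3) (by decide +kernel)
theorem L00899 : Good (Phi V5.P V5.D (-1) 1) ⟨1, 0, 2, 3, 1, 1, 1, 0, 3, 1⟩ :=
  out_sound (S := T5.ds_mp) T5.ok_mp (w := 31) (j := 3) (by decide +kernel)
theorem L00900 : Good (Phi V5.P V5.D (-1) 1) ⟨3, 0, 2, 2, 2, 2, 2, 0, 4, 4⟩ :=
  leafX_sound T5.ok_mp T5.Ymp.bz_eq (w := 204) (c := ⟨⟨.negSucc 1431, .negSucc 53, .negSucc 49, .ofNat 10, .ofNat 45, .ofNat 117⟩, ⟨.negSucc 767, .negSucc 58, .negSucc 305, .negSucc 7, .ofNat 28, .ofNat 73⟩, ⟨.ofNat 1377, .ofNat 105, .ofNat 189, .negSucc 193, .negSucc 343, .ofNat 81⟩, ⟨.negSucc 3955, .negSucc 34, .ofNat 37, .ofNat 219, .ofNat 56, .ofNat 282⟩, ⟨.negSucc 681, .negSucc 27, .negSucc 8, .negSucc 331, .ofNat 110, .ofNat 115⟩, .ofNat 998, .negSucc 831, .ofNat 0, .negSucc 831, .ofNat 1692, .ofNat 0, .ofNat 128, .ofNat 155, .negSucc 41, .ofNat 0, .ofNat 147,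 .negSucc 6, .ofNat 0, .ofNat 0, .ofNat 877, .ofNat 14885, .ofNat 16778504816378088046362109278044293169152, .ofNat 0, .ofNat 84969968061986269243919219139018752, .ofNat 0, .ofNat 0, .ofNat 0, .ofNat 0, .ofNat 0, .ofNat 0, .ofNat 0, .ofNat 0, .ofNat 0, .ofNat 1167791650626803794960820793918122253877248, .ofNat 0, .ofNat 4283154624982067346413393492366589952, .ofNat 0⟩)
    (by decide +kernel)
theorem L00901 : Good (Phi V5.P V5.D (-1) 1) ⟨3, 1, 2, 2, 2, 2, 2, 0, 4, 4⟩ :=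
  leafX_sound T5.ok_mp T5.Ymp.bz_eq (w := 205) (c := ⟨⟨.negSucc 1516, .negSucc 111, .negSucc 67, .ofNat 11, .ofNat 67, .ofNat 138⟩, ⟨.negSucc 848, .negSucc 33, .negSucc 324, .negSucc 3, .ofNat 43, .ofNat 88⟩, ⟨.ofNat 1631, .ofNat 203, .ofNat 228, .negSucc 185, .negSucc 518, .ofNat 75⟩, ⟨.negSucc 4088, .negSucc 73, .negSucc 16, .ofNat 245, .ofNat 129, .ofNat 318⟩, ⟨.negSucc 692, .negSucc 9, .ofNat 11, .negSucc 365, .ofNat 96, .ofNat 135⟩, .ofNat 990, .negSucc 850, .ofNat 0, .negSucc 850, .ofNat 1717, .ofNat 0, .ofNat 128, .ofNat 154, .negSucc 78, .ofNat 0, .ofNat 142, .negSucc 14, .ofNat 0, .ofNat 0, .ofNat 1596, .ofNat 21138, .ofNat 7766862659039912316786252948446455529472, .ofNat 0, .ofNat 94548895840581964669674767003942912, .ofNat 0, .ofNat 167032173941784981314646615710589379411968, .ofNat 0, .ofNat 0, .ofNat 0, .ofNat 284903461815658074139280534119248587390976, .ofNat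 0, .ofNat 1727960996226045186838382063571173376, .ofNat 0, .ofNat 4008187344487737389605234822008072325562368, .ofNat 0, .ofNat 12295814040709255103304258911712837632, .ofNat 0⟩)
    (by decide +kernel)
theorem L00902 : Good (Phi V5.P V5.D (-1) 1) ⟨2, 0, 2, 2, 2, 2, 2, 0, 4, 5⟩ :=
  leafX_sound T5.ok_mp T5.Ymp.bz_eq (w := 201) (c := ⟨⟨.negSucc 1364, .negSucc 120, .negSucc 45, .ofNat 88, .ofNat 29, .ofNat 149⟩, ⟨.negSucc 762, .negSucc 64, .negSucc 275, .ofNat 36, .ofNat 39, .ofNat 91⟩, ⟨.ofNat 1532, .ofNat 261, .ofNat 168, .negSucc 228, .negSucc 388, .ofNat 53⟩, ⟨.negSucc 3836, .negSucc 23, .ofNat 64, .ofNat 424, .ofNat 38, .ofNat 337⟩, ⟨.negSucc 635, .negSucc 14, .negSucc 24, .negSucc 298, .ofNat 141, .ofNat 147⟩, .ofNat 875, .negSucc 669, .ofNat 0, .negSucc 669, .ofNat 1518, .ofNat 0, .ofNat 182, .ofNat 122, .negSucc 27, .ofNat 0, .ofNat 128, .ofNat 0, .ofNat 0, .ofNat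 0, .ofNat 770, .ofNat 20813, .ofNat 3127343981752565822043572451516153331712, .ofNat 0, .ofNat 550745892599477754165171663944024064, .ofNat 0, .ofNat 0, .ofNat 0, .ofNat 0, .ofNat 0, .ofNat 0, .ofNat 0, .ofNat 0, .ofNat 0, .ofNat 96409427294812357845091510114222522499072, .ofNat 0, .ofNat 13858961066848132297698969457287757824, .ofNat 0⟩)
    (by decide +kernel)
theorem L00903 : Good (Phi V5.P V5.D (-1) 1) ⟨3, 0, 2, 2, 3, 6, 3, 0, 4, 4⟩ :=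
  leafX_sound T5.ok_mp T5.Ymp.bz_eq (w := 224) (c := ⟨⟨.negSucc 1369, .negSucc 60, .negSucc 68, .ofNat 65, .negSucc 12, .ofNat 130⟩, ⟨.negSucc 763, .negSucc 63, .negSucc 276, .ofNat 33, .negSucc 3, .ofNat 83⟩, ⟨.ofNat 1217, .ofNat 149, .ofNat 266, .negSucc 206, .negSucc 217, .ofNat 88⟩, ⟨.negSucc 3645, .negSucc 22, .ofNat 87, .ofNat 317, .negSucc 54, .ofNat 311⟩, ⟨.negSucc 972, .negSucc 82, .negSucc 48, .negSucc 204, .ofNat 36, .ofNat 132⟩, .ofNat 892, .negSucc 681, .ofNat 0, .negSucc 681, .ofNat 1526, .ofNat 0, .ofNat 128, .ofNat 185, .negSucc 45, .ofNat 0, .ofNat 198, .negSucc 1, .ofNat 0, .ofNat 0, .ofNat 911, .ofNat 56571, .ofNat 2034699406806196601454839920583399515243937792, .ofNat 0, .ofNat 281685275877620312062981877936920524226560, .ofNat 0, .ofNat 0, .ofNat 0, .ofNat 0, .ofNat 0, .ofNat 0, .ofNat 0, .ofNat 0, .ofNat 0, .ofNat 77111627453495584241516351515993136571143421952,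 .ofNat 0, .ofNat 1097611148196544203818848656806428459139072, .ofNat 0⟩)
    (by decide +kernel)
theorem L00904 : Good (Phi V5.P V5.D (-1) 1) ⟨3, 0, 2, 2, 3, 6, 3, 1, 4, 4⟩ :=
  leafX_sound T5.ok_mp T5.Ymp.bz_eq (w := 223) (c := ⟨⟨.negSucc 1391, .negSucc 48, .negSucc 69, .ofNat 63, .ofNat 6, .ofNat 140⟩, ⟨.negSucc 772, .negSucc 59, .negSucc 275, .ofNat 32, .ofNat 9, .ofNat 90⟩, ⟨.ofNat 1041, .ofNat 86, .ofNat 207, .negSucc 177, .negSucc 164, .ofNat 59⟩, ⟨.negSucc 3718, .negSucc 0, .ofNat 98, .ofNat 298, .negSucc 12, .ofNat 335⟩, ⟨.negSucc 941, .negSucc 70, .negSucc 73, .negSucc 182, .ofNat 63, .ofNat 130⟩, .ofNat 893, .negSucc 683, .ofNat 0, .negSucc 683, .ofNat 1526, .ofNat 0, .ofNat 128, .ofNat 240, .negSucc 66, .ofNat 0, .ofNat 253, .negSucc 4, .ofNat 0, .ofNat 0, .ofNat 1149, .ofNat 31117, .ofNat 0, .ofNat 0, .ofNat 126336120438847487229826321683341213958144, .ofNat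 0, .ofNat 0, .ofNat 0, .ofNat 0, .ofNat 0, .ofNat 0, .ofNat 0, .ofNat 0, .ofNat 0, .ofNat 3645578531592892294443741676355388741995462656, .ofNat 0, .ofNat 6887761308416879193654216842472081749704704, .ofNat 0⟩)
    (by decide +kernel)
theorem L00905 : Good (Phi V5.P V5.D (-1) 1) ⟨3, 0, 3, 4, 3, 7, 2, 0, 4, 4⟩ :=
  leafX_sound T5.ok_mp T5.Ymp.bz_eq (w := 220) (c := ⟨⟨.negSucc 1302, .negSucc 70, .negSucc 27, .ofNat 85, .negSucc 12, .ofNat 138⟩, ⟨.negSucc 733, .negSucc 71, .negSucc 122, .ofNat 44, .negSucc 1, .ofNat 84⟩, ⟨.ofNat 941, .ofNat 62, .ofNat 59, .negSucc 225, .negSucc 144, .ofNat 63⟩, ⟨.negSucc 3346, .negSucc 3, .ofNat 111, .ofNat 347, .negSucc 130, .ofNat 323⟩, ⟨.negSucc 1141, .negSucc 162, .negSucc 82, .negSucc 153, .ofNat 155, .ofNat 140⟩, .ofNat 874, .negSucc 654, .ofNat 0, .negSucc 654, .ofNat 1498, .ofNat 0, .ofNat 147, .ofNat 111, .negSucc 45, .ofNat 0, .ofNat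 128, .ofNat 22, .ofNat 0, .ofNat 0, .ofNat 1353, .ofNat 9505, .ofNat 269195605076228987812750016495891414308093952, .ofNat 0, .ofNat 6743691259687919405205001087612199370752, .ofNat 0, .ofNat 0, .ofNat 0, .ofNat 0, .ofNat 0, .ofNat 0, .ofNat 110548667292446745672909012640461964282167296, .ofNat 0, .ofNat 0, .ofNat 0, .ofNat 0, .ofNat 0, .ofNat 0⟩)
    (by decide +kernel)
theorem L00906 : Good (Phi V5.P V5.D (-1) 1) ⟨3, 0, 4, 10, 3, 7, 2, 0, 4, 4⟩ :=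
  leafX_sound T5.ok_mp T5.Ymp.bz_eq (w := 226) (c := ⟨⟨.negSucc 1349, .negSucc 75, .negSucc 14, .ofNat 84, .ofNat 2, .ofNat 159⟩, ⟨.negSucc 887, .negSucc 57, .negSucc 60, .ofNat 51, .ofNat 4, .ofNat 106⟩, ⟨.ofNat 1057, .ofNat 100, .ofNat 56, .negSucc 245, .negSucc 234, .ofNat 48⟩, ⟨.negSucc 3236, .negSucc 60, .ofNat 9, .ofNat 309, .negSucc 42, .ofNat 328⟩, ⟨.negSucc 1348, .negSucc 29, .ofNat 27, .negSucc 99, .ofNat 80, .ofNat 210⟩, .ofNat 6710, .negSucc 9190, .ofNat 0, .negSucc 9190, .ofNat 14188, .ofNat 0, .ofNat 128, .ofNat 399, .negSucc 61, .ofNat 0, .ofNat 293, .negSucc 20, .ofNat 0, .ofNat 0, .ofNat 2953, .ofNat 23653, .ofNat 6119658690944704864301438958881429008544694272, .ofNat 0, .ofNat 78636223162729767103930072568475252948992, .ofNat 0, .ofNat 0, .ofNat 0, .ofNat 8077379086959321257017015876446377163620352, .ofNat 0, .ofNat 0, .ofNat 790513499780698581090317453785986387444498432,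 .ofNat 2679921862510990617292770704377139934789632, .ofNat 0, .ofNat 352340099922409888467218877791090318196411990016, .ofNat 0, .ofNat 18430392319090354362422594433341075977404416, .ofNat 0⟩)
    (by decide +kernel)
theorem L00907 : Good (Phi V5.P V5.D (-1) 1) ⟨3, 0, 4, 11, 3, 7, 2, 0, 4, 4⟩ :=
  out_sound (S := T5.ds_mp) T5.ok_mp (w := 47) (j := 3) (by decide +kernel)
theorem L00908 : Good (Phi V5.P V5.D (-1) 1) ⟨3, 0, 2, 2, 3, 6, 2, 0, 4, 5⟩ :=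
  leafX_sound T5.ok_mp T5.Ymp.bz_eq (w := 217) (c := ⟨⟨.negSucc 1282, .negSucc 38, .negSucc 53, .ofNat 72, .ofNat 24, .ofNat 143⟩, ⟨.negSucc 710, .negSucc 47, .negSucc 259, .ofNat 36, .ofNat 23, .ofNat 89⟩, ⟨.ofNat 1287, .ofNat 90, .ofNat 202, .negSucc 156, .negSucc 347, .ofNat 60⟩, ⟨.negSucc 3386, .ofNat 18, .ofNat 88, .ofNat 298, .negSucc 22, .ofNat 328⟩, ⟨.negSucc 924, .negSucc 55, .negSucc 57, .negSucc 145, .ofNat 163, .ofNat 160⟩, .ofNat 461, .negSucc 192, .ofNat 0, .negSucc 192, .ofNat 645, .ofNat 0, .ofNat 128, .ofNat 67, .negSucc 41, .ofNat 0, .ofNat 128, .ofNat 29, .ofNat 0, .ofNat 0, .ofNat 1058, .ofNat 9445, .ofNat 132652336818433494999569410374093957362614272, .ofNat 0, .ofNat 1948608525188476683107282405752366432256, .ofNat 0, .ofNat 0, .ofNat 0, .ofNat 0, .ofNat 0, .ofNat 0, .ofNat 0, .ofNat 0, .ofNat 0, .ofNat 4738102708348168637158879677002691287831281664,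 .ofNat 41251491335825462695407545873062512239312896, .ofNat 158161652688371478609958807196506454491136, .ofNat 0⟩)
    (by decide +kernel)
theorem L00909 : Good (Phi V5.P V5.D (-1) 1) ⟨3, 0, 2, 2, 3, 7, 2, 0, 4, 5⟩ :=
  leafX_sound T5.ok_mp T5.Ymp.bz_eq (w := 217) (c := ⟨⟨.negSucc 1198, .negSucc 37, .negSucc 63, .ofNat 90, .ofNat 13, .ofNat 143⟩, ⟨.negSucc 670, .negSucc 50, .negSucc 242, .ofNat 47, .ofNat 13, .ofNat 93⟩, ⟨.ofNat 1091, .ofNat 54, .ofNat 223, .negSucc 233, .negSucc 286, .ofNat 139⟩, ⟨.negSucc 3068, .ofNat 37, .ofNat 124, .ofNat 368, .negSucc 65, .ofNat 308⟩, ⟨.negSucc 1057, .negSucc 89, .negSucc 92, .negSucc 174, .ofNat 171, .ofNat 193⟩, .ofNat 878, .negSucc 660, .ofNat 0, .negSucc 660, .ofNat 1506, .ofNat 0, .ofNat 189, .ofNat 112, .negSucc 19, .ofNat 0, .ofNat 128, .ofNat 23, .ofNat 0, .ofNat 0, .ofNat 1330, .ofNat 8628, .ofNat 106968379597321691716017822287643511690887168,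 .ofNat 0, .ofNat 10422228685809162924274222656159859343360, .ofNat 0, .ofNat 0, .ofNat 0, .ofNat 0, .ofNat 0, .ofNat 0, .ofNat 55286180047719694682214711290859816963014656, .ofNat 67117013162768977310459665878661478744064, .ofNat 0, .ofNat 3847501715405131782457376509600781998267301888, .ofNat 220125371970894785467641133026858148479107072, .ofNat 321694512207005257873800216202227585384448, .ofNat 0⟩)
    (by decide +kernel)
theorem L00910 : Good (Phi V5.P V5.D (-1) 1) ⟨3, 1, 2, 2, 3, 6, 3, 0, 4, 4⟩ :=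
  leafX_sound T5.ok_mp T5.Ymp.bz_eq (w := 223) (c := ⟨⟨.negSucc 1464, .negSucc 113, .negSucc 81, .ofNat 73, .ofNat 8, .ofNat 160⟩, ⟨.negSucc 834, .negSucc 35, .negSucc 295, .ofNat 35, .negSucc 1, .ofNat 104⟩, ⟨.ofNat 1506, .ofNat 260, .ofNat 328, .negSucc 268, .negSucc 330, .ofNat 61⟩, ⟨.negSucc 3749, .negSucc 76, .ofNat 40, .ofNat 356, .negSucc 10, .ofNat 379⟩, ⟨.negSucc 1046, .negSucc 40, .negSucc 16, .negSucc 246, .ofNat 38, .ofNat 147⟩, .ofNat 458, .negSucc 204, .ofNat 0, .negSucc 204, .ofNat 653, .ofNat 0, .ofNat 128, .ofNat 74, .negSucc 54, .ofNat 0, .ofNat 131, .ofNat 13, .ofNat 0, .ofNat 0, .ofNat 638, .ofNat 24769, .ofNat 0, .ofNat 0, .ofNat 141232919750961492282686036628152755683328, .ofNat 0, .ofNat 0, .ofNat 0, .ofNat 0, .ofNat 0, .ofNat 0, .ofNat 0, .ofNat 0, .ofNat 0, .ofNat 32842959483474352464574323280511229310997102592, .ofNat 0, .ofNat 370650113333455090255881401844123788378112,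 .ofNat 0⟩)
    (by decide +kernel)
theorem L00911 : Good (Phi V5.P V5.D (-1) 1) ⟨3, 1, 2, 2, 3, 6, 3, 1, 4, 4⟩ :=
  leafX_sound T5.ok_mp T5.Ymp.bz_eq (w := 223) (c := ⟨⟨.negSucc 1469, .negSucc 98, .negSucc 80, .ofNat 67, .ofNat 22, .ofNat 168⟩, ⟨.negSucc 842, .negSucc 22, .negSucc 298, .ofNat 32, .ofNat 19, .ofNat 103⟩, ⟨.ofNat 1215, .ofNat 174, .ofNat 269, .negSucc 218, .negSucc 268, .ofNat 40⟩, ⟨.negSucc 3780, .negSucc 31, .ofNat 39, .ofNat 332, .ofNat 30, .ofNat 381⟩, ⟨.negSucc 1021, .negSucc 36, .negSucc 28, .negSucc 233, .ofNat 61, .ofNat 167⟩, .ofNat 890, .negSucc 711, .ofNat 0, .negSucc 711, .ofNat 1571, .ofNat 0, .ofNat 134, .ofNat 127, .negSucc 69, .ofNat 0, .ofNat 128, .negSucc 6, .ofNat 0, .ofNat 0, .ofNat 1189, .ofNat 18763, .ofNat 0, .ofNat 0, .ofNat 82814223230611331930605278202771124781056, .ofNat 0, .ofNat 0, .ofNat 0, .ofNat 0, .ofNat 0, .ofNat 0, .ofNat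 0, .ofNat 1323112559438569850885877852993429436366848, .ofNat 0, .ofNat 0, .ofNat 0, .ofNat 8120773470701039740207044715394862197768192, .ofNat 0⟩)
    (by decide +kernel)
theorem L00912 : Good (Phi V5.P V5.D (-1) 1) ⟨3, 1, 2, 2, 3, 6, 2, 0, 4, 5⟩ :=
  leafX_sound T5.ok_mp T5.Ymp.bz_eq (w := 217) (c := ⟨⟨.negSucc 1365, .negSucc 77, .negSucc 52, .ofNat 88, .ofNat 63, .ofNat 165⟩, ⟨.negSucc 790, .negSucc 12, .negSucc 261, .ofNat 54, .ofNat 46, .ofNat 108⟩, ⟨.ofNat 1658, .ofNat 171, .ofNat 221, .negSucc 248, .negSucc 651, .ofNat 39⟩, ⟨.negSucc 3515, .ofNat 1, .ofNat 83, .ofNat 387, .ofNat 100, .ofNat 374⟩, ⟨.negSucc 931, .negSucc 16, .negSucc 31, .negSucc 216, .ofNat 126, .ofNat 172⟩, .ofNat 463, .negSucc 214, .ofNat 0, .negSucc 214, .ofNat 660, .ofNat 0, .ofNat 173, .ofNat 75, .negSucc 42, .ofNat 0, .ofNat 128, .ofNat 27, .ofNat 0, .ofNat 0, .ofNat 1074, .ofNat 6860, .ofNat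 0, .ofNat 0, .ofNat 0, .ofNat 0, .ofNat 0, .ofNat 0, .ofNat 0, .ofNat 0, .ofNat 0, .ofNat 0, .ofNat 0, .ofNat 0, .ofNat 5158800341666180329635825107389657579675189248, .ofNat 47828382959884876956999522312062818154708992, .ofNat 88168297259278890798433993648412708306944, .ofNat 0⟩)
    (by decide +kernel)
theorem L00913 : Good (Phi V5.P V5.D (-1) 1) ⟨3, 1, 3, 4, 3, 7, 2, 0, 4, 4⟩ :=
  leafX_sound T5.ok_mp T5.Ymp.bz_eq (w := 220) (c := ⟨⟨.negSucc 1406, .negSucc 97, .negSucc 43, .ofNat 92, .ofNat 29, .ofNat 176⟩, ⟨.negSucc 822, .negSucc 18, .negSucc 134, .ofNat 41, .ofNat 21, .ofNat 105⟩, ⟨.ofNat 1181, .ofNat 145, .ofNat 107, .negSucc 393, .negSucc 359, .ofNat 17⟩, ⟨.negSucc 3457, .negSucc 4, .ofNat 67, .ofNat 373, .ofNat 35, .ofNat 384⟩, ⟨.negSucc 1275, .negSucc 85, .negSucc 58, .negSucc 208, .ofNat 80, .ofNat 184⟩, .ofNat 1582, .negSucc 1721, .ofNat 0, .negSucc 1721, .ofNat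 3258, .ofNat 0, .ofNat 128, .ofNat 230, .negSucc 43, .ofNat 0, .ofNat 195, .negSucc 0, .ofNat 0, .ofNat 0, .ofNat 1365, .ofNat 10020, .ofNat 0, .ofNat 0, .ofNat 0, .ofNat 0, .ofNat 0, .ofNat 0, .ofNat 0, .ofNat 0, .ofNat 0, .ofNat 0, .ofNat 0, .ofNat 0, .ofNat 13501130739889403848803048701940812687693840384, .ofNat 0, .ofNat 0, .ofNat 0⟩)
    (by decide +kernel)
theorem L00914 : Good (Phi V5.P V5.D (-1) 1) ⟨3, 1, 5, 20, 3, 7, 3, 0, 5, 8⟩ :=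
  leafX_sound T5.ok_mp T5.Ymp.bz_eq (w := 236) (c := ⟨⟨.negSucc 1423, .negSucc 124, .negSucc 10, .ofNat 79, .negSucc 7, .ofNat 88⟩, ⟨.negSucc 947, .negSucc 40, .negSucc 34, .ofNat 51, .negSucc 4, .ofNat 59⟩, ⟨.ofNat 1290, .ofNat 198, .ofNat 49, .negSucc 471, .negSucc 180, .ofNat 38⟩, ⟨.negSucc 3374, .negSucc 90, .ofNat 13, .ofNat 419, .negSucc 15, .ofNat 218⟩, ⟨.negSucc 1252, .negSucc 70, .negSucc 8, .negSucc 291, .negSucc 9, .ofNat 56⟩, .ofNat 1024, .negSucc 894, .ofNat 0, .negSucc 894, .ofNat 1766, .ofNat 0, .ofNat 128, .ofNat 128, .negSucc 42, .ofNat 0, .ofNat 122, .ofNat 2, .ofNat 0, .ofNat 0, .ofNat 972, .ofNat 26822, .ofNat 0, .ofNat 0, .ofNat 0, .ofNat 0, .ofNat 0, .ofNat 0, .ofNat 0, .ofNat 0, .ofNat 0, .ofNat 0, .ofNat 0, .ofNat 0, .ofNat 123533440746201795744915446032016464538105043484672, .ofNat 0, .ofNat 0, .ofNat 0⟩)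
    (by decide +kernel)
theorem L00915 : Good (Phi V5.P V5.D (-1) 1) ⟨3, 1, 6, 42, 3, 7, 3, 0, 5, 8⟩ :=
  leafX_sound T5.ok_mp T5.Ymp.bz_eq (w := 241) (c := ⟨⟨.negSucc 1449, .negSucc 118, .negSucc 7, .ofNat 87, .ofNat 1, .ofNat 94⟩, ⟨.negSucc 991, .negSucc 34, .negSucc 18, .ofNat 54, .ofNat 1, .ofNat 62⟩, ⟨.ofNat 1363, .ofNat 235, .ofNat 23, .negSucc 478, .negSucc 227, .ofNat 23⟩, ⟨.negSucc 3322, .negSucc 127, .negSucc 2, .ofNat 391, .negSucc 8, .ofNat 215⟩, ⟨.negSucc 1382, .ofNat 25, .ofNat 2, .negSucc 222, .ofNat 15, .ofNat 72⟩, .ofNat 6591, .negSucc 9049, .ofNat 0, .negSucc 9049, .ofNat 13922, .ofNat 0, .ofNat 128, .ofNat 294, .negSucc 77, .ofNat 0, .ofNat 207, .negSucc 40, .ofNat 0, .ofNat 0, .ofNat 2890, .ofNat 74395, .ofNat 32644964608384934733581280717424251655028912160768, .ofNat 0, .ofNat 330198471360005145267697497524579279619227648, .ofNat 0, .ofNat 0, .ofNat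 0, .ofNat 0, .ofNat 0, .ofNat 528898485939888509058381470074220600534054429786112, .ofNat 0, .ofNat 14924227866670940493382702458822058862274674688, .ofNat 0, .ofNat 8317418673732877172947329505156959650622059002724352, .ofNat 0, .ofNat 43620520586406423566140400259946226414205796352, .ofNat 0⟩)
    (by decide +kernel)
theorem L00916 : Good (Phi V5.P V5.D (-1) 1) ⟨3, 1, 6, 43, 3, 7, 3, 0, 5, 8⟩ :=
  out_sound (S := T5.ds_mp) T5.ok_mp (w := 51) (j := 3) (by decide +kernel)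
theorem L00917 : Good (Phi V5.P V5.D (-1) 1) ⟨3, 1, 4, 10, 3, 7, 3, 1, 5, 8⟩ :=
  leafX_sound T5.ok_mp T5.Ymp.bz_eq (w := 233) (c := ⟨⟨.negSucc 1450, .negSucc 99, .negSucc 27, .ofNat 87, .ofNat 19, .ofNat 103⟩, ⟨.negSucc 966, .negSucc 23, .negSucc 68, .ofNat 53, .ofNat 15, .ofNat 68⟩, ⟨.ofNat 1087, .ofNat 104, .ofNat 61, .negSucc 294, .negSucc 157, .ofNat 16⟩, ⟨.negSucc 3460, .negSucc 1, .ofNat 30, .ofNat 439, .ofNat 30, .ofNat 246⟩, ⟨.negSucc 1236, .negSucc 97, .negSucc 40, .negSucc 292, .ofNat 44, .ofNat 67⟩, .ofNat 1035, .negSucc 916, .ofNat 0, .negSucc 916, .ofNat 1795, .ofNat 0, .ofNat 128, .ofNat 136, .negSucc 70, .ofNat 0, .ofNat 130, .ofNat 6, .ofNat 0, .ofNat 0, .ofNat 1473, .ofNat 14154, .ofNat 0, .ofNat 0, .ofNat 0, .ofNat 0, .ofNat 0, .ofNat 0, .ofNat 0, .ofNat 0, .ofNat 0, .ofNat 0, .ofNat 159810847652185166960469226238788202701783040, .ofNat 0, .ofNat 0, .ofNat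 0, .ofNat 0, .ofNat 0⟩)
    (by decide +kernel)
theorem L00918 : Good (Phi V5.P V5.D (-1) 1) ⟨3, 1, 4, 10, 4, 14, 2, 0, 5, 9⟩ :=
  leafX_sound T5.ok_mp T5.Ymp.bz_eq (w := 244) (c := ⟨⟨.negSucc 1379, .negSucc 86, .negSucc 23, .ofNat 50, .ofNat 40, .ofNat 96⟩, ⟨.negSucc 916, .negSucc 19, .negSucc 65, .ofNat 31, .ofNat 27, .ofNat 65⟩, ⟨.ofNat 1397, .ofNat 147, .ofNat 105, .negSucc 168, .negSucc 537, .ofNat 23⟩, ⟨.negSucc 3242, .negSucc 8, .ofNat 17, .ofNat 229, .ofNat 54, .ofNat 208⟩, ⟨.negSucc 1247, .negSucc 46, .negSucc 13, .negSucc 133, .ofNat 90, .ofNat 100⟩, .ofNat 1584, .negSucc 1684, .ofNat 0, .negSucc 1684, .ofNat 2981, .ofNat 0, .ofNat 128, .ofNat 368, .negSucc 63, .ofNat 0, .ofNat 307, .negSucc 1, .ofNat 0, .ofNat 0, .ofNat 2614, .ofNat 31357, .ofNat 166648384228956196535827767497743247184255801884672, .ofNat 0, .ofNat 48418917155779192408223504511636528685647921152,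 .ofNat 0, .ofNat 0, .ofNat 0, .ofNat 0, .ofNat 0, .ofNat 0, .ofNat 0, .ofNat 0, .ofNat 0, .ofNat 36985710971763932250781366310691906413397799669334016, .ofNat 0, .ofNat 3584832215417272955075016489995686678028548571136, .ofNat 0⟩)
    (by decide +kernel)
theorem L00919 : Good (Phi V5.P V5.D (-1) 1) ⟨3, 1, 4, 10, 4, 15, 2, 0, 5, 9⟩ :=
  leafX_sound T5.ok_mp T5.Ymp.bz_eq (w := 243) (c := ⟨⟨.negSucc 1330, .negSucc 87, .negSucc 21, .ofNat 49, .ofNat 41, .ofNat 97⟩, ⟨.negSucc 887, .negSucc 19, .negSucc 59, .ofNat 30, .ofNat 28, .ofNat 64⟩, ⟨.ofNat 1147, .ofNat 100, .ofNat 105, .negSucc 192, .negSucc 359, .ofNat 10⟩, ⟨.negSucc 3020, .ofNat 0, .ofNat 32, .ofNat 226, .ofNat 62, .ofNat 206⟩, ⟨.negSucc 1369, .negSucc 74, .negSucc 16, .negSucc 134, .ofNat 80, .ofNat 107⟩, .ofNat 1581, .negSucc 1683, .ofNat 0, .negSucc 1683, .ofNat 2982, .ofNat 0, .ofNat 128, .ofNat 316, .negSucc 15,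 .ofNat 0, .ofNat 268, .ofNat 26, .ofNat 0, .ofNat 0, .ofNat 2023, .ofNat 23858, .ofNat 120223192270845003064081588033805820115826411307008, .ofNat 0, .ofNat 75173703425720269514935232784735619422059757568, .ofNat 0, .ofNat 0, .ofNat 0, .ofNat 0, .ofNat 0, .ofNat 0, .ofNat 0, .ofNat 0, .ofNat 0, .ofNat 57044852681761277921812913311965951352552948760576, .ofNat 0, .ofNat 2111712939297998182296081018310526936927331942400, .ofNat 0⟩)
    (by decide +kernel)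
theorem L00920 : Good (Phi V5.P V5.D (-1) 1) ⟨3, 1, 4, 11, 3, 7, 2, 0, 4, 4⟩ :=
  out_sound (S := T5.ds_mp) T5.ok_mp (w := 47) (j := 3) (by decide +kernel)
theorem L00921 : Good (Phi V5.P V5.D (-1) 1) ⟨3, 1, 2, 2, 3, 7, 2, 0, 4, 5⟩ :=
  leafX_sound T5.ok_mp T5.Ymp.bz_eq (w := 217) (c := ⟨⟨.negSucc 1262, .negSucc 76, .negSucc 68, .ofNat 106, .ofNat 48, .ofNat 183⟩, ⟨.negSucc 737, .negSucc 11, .negSucc 248, .ofNat 56, .ofNat 34, .ofNat 119⟩, ⟨.ofNat 1331, .ofNat 139, .ofNat 289, .negSucc 420, .negSucc 541, .negSucc 10⟩, ⟨.negSucc 3113, .ofNat 19, .ofNat 101, .ofNat 436, .ofNat 61, .ofNat 377⟩, ⟨.negSucc 1128, .negSucc 54, .negSucc 55, .negSucc 238, .ofNat 121, .ofNat 208⟩, .ofNat 907, .negSucc 735, .ofNat 0, .negSucc 735, .ofNat 1598, .ofNat 0, .ofNat 128, .ofNat 152, .negSucc 27, .ofNat 0, .ofNat 161, .ofNat 31, .ofNat 0, .ofNat 0, .ofNat 1959, .ofNat 10030, .ofNat 49110685514884222497181314280974486440247296,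 .ofNat 2839589397221322839787723269390111864782848, .ofNat 11269500292810565120092918399505916755968, .ofNat 0, .ofNat 0, .ofNat 59542558749984436853074907548874276169842688, .ofNat 0, .ofNat 0, .ofNat 0, .ofNat 86451173378400936337030472392798304630472704, .ofNat 47104573497135509799726505885513614884864, .ofNat 0, .ofNat 5118160209262557093971353261445652486002049024, .ofNat 387425073169600774064238222407494411787173888, .ofNat 805525952829376498077537000364869133795328, .ofNat 0⟩)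
    (by decide +kernel)
theorem L00922 : Good (Phi V5.P V5.D (-1) 1) ⟨2, 0, 2, 2, 1, 1, 2, 0, 3, 3⟩ :=
  leafX_sound T5.ok_mp T5.Ymp.bz_eq (w := 179) (c := ⟨⟨.negSucc 1320, .negSucc 83, .negSucc 35, .ofNat 0, .ofNat 201, .ofNat 1⟩, ⟨.negSucc 515, .negSucc 43, .negSucc 249, .ofNat 0, .negSucc 98, .ofNat 0⟩, ⟨.ofNat 1317, .ofNat 211, .ofNat 128, .ofNat 0, .negSucc 299, .negSucc 0⟩, ⟨.negSucc 3155, .ofNat 59, .ofNat 67, .ofNat 0, .ofNat 81, .ofNat 2⟩, ⟨.negSucc 625, .negSucc 21, .negSucc 20, .ofNat 0, .negSucc 16, .ofNat 0⟩, .ofNat 462, .negSucc 203, .ofNat 0, .negSucc 203, .ofNat 652, .ofNat 0, .ofNat 240, .ofNat 73, .negSucc 25, .ofNat 0, .ofNat 128, .ofNat 23, .ofNat 0, .ofNat 0, .ofNat 1088, .ofNat 2694, .ofNat 56209516500644337858347411408158720, .ofNat 172171746648382340255450597949440, .ofNat 1523981731817726068765094838272, .ofNat 0, .ofNat 2168419123593777139849399220595326976,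 .ofNat 63042517986777043632804259512188928, .ofNat 0, .ofNat 0, .ofNat 773717340734906995191619551548669952, .ofNat 27407676720417132153093159504576512, .ofNat 15338591120155997990139537129472, .ofNat 0, .ofNat 4180313403665910629608491036398583808, .ofNat 100525406457763625873232736964050944, .ofNat 35308794678579027624463316287488, .ofNat 0⟩)
    (by decide +kernel)
theorem L00923 : Good (Phi V5.P V5.D (-1) 1) ⟨2, 0, 2, 2, 2, 2, 3, 2, 4, 4⟩ :=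
  leafX_sound T5.ok_mp T5.Ymp.bz_eq (w := 204) (c := ⟨⟨.negSucc 1392, .negSucc 149, .negSucc 38, .ofNat 6, .ofNat 51, .ofNat 120⟩, ⟨.negSucc 754, .negSucc 77, .negSucc 305, .negSucc 8, .ofNat 24, .ofNat 76⟩, ⟨.ofNat 1099, .ofNat 201, .ofNat 113, .negSucc 185, .negSucc 155, .ofNat 30⟩, ⟨.negSucc 3927, .negSucc 66, .ofNat 54, .ofNat 204, .ofNat 91, .ofNat 292⟩, ⟨.negSucc 568, .negSucc 21, .negSucc 26, .negSucc 327, .ofNat 61, .ofNat 94⟩, .ofNat 462, .negSucc 204, .ofNat 0, .negSucc 204, .ofNat 653, .ofNat 0, .ofNat 178, .ofNat 82, .negSucc 53, .ofNat 0, .ofNat 128, .ofNat 2, .ofNat 0, .ofNat 0, .ofNat 520, .ofNat 10228, .ofNat 1100597777899962396506634661110210363392, .ofNat 0, .ofNat 3025351314968800304296355476856111104, .ofNat 0, .ofNat 0, .ofNat 0, .ofNat 0, .ofNat 0, .ofNat 0, .ofNat 0, .ofNat 80427508623088184652076164049755176960, .ofNat 0, .ofNat 3069622330583364663996896480128820838400,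 .ofNat 0, .ofNat 285525296458665800042342373371899019264, .ofNat 0⟩)
    (by decide +kernel)
theorem L00924 : Good (Phi V5.P V5.D (-1) 1) ⟨2, 0, 2, 2, 2, 2, 3, 3, 4, 4⟩ :=
  leafX_sound T5.ok_mp T5.Ymp.bz_eq (w := 203) (c := ⟨⟨.negSucc 1344, .negSucc 130, .negSucc 26, .negSucc 2, .ofNat 45, .ofNat 107⟩, ⟨.negSucc 723, .negSucc 67, .negSucc 301, .negSucc 15, .ofNat 28, .ofNat 65⟩, ⟨.ofNat 1029, .ofNat 95, .ofNat 17, .negSucc 181, .negSucc 105, .ofNat 18⟩, ⟨.negSucc 3798, .negSucc 36, .ofNat 47, .ofNat 139, .ofNat 84, .ofNat 258⟩, ⟨.negSucc 540, .negSucc 6, .negSucc 6, .negSucc 274, .ofNat 78, .ofNat 95⟩, .ofNat 459, .negSucc 197, .ofNat 0, .negSucc 197, .ofNat 648, .ofNat 0, .ofNat 201, .ofNat 82, .negSucc 70, .ofNat 0, .ofNat 128, .ofNat 0, .ofNat 0, .ofNat 0, .ofNat 607, .ofNat 4361, .ofNat 0, .ofNat 0, .ofNat 0, .ofNat 0, .ofNat 0, .ofNat 0, .ofNat 0, .ofNat 0, .ofNat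 0, .ofNat 0, .ofNat 38969721510813971450394958568028635136, .ofNat 0, .ofNat 0, .ofNat 0, .ofNat 0, .ofNat 0⟩)
    (by decide +kernel)
theorem L00925 : Good (Phi V5.P V5.D (-1) 1) ⟨2, 0, 2, 2, 4, 8, 5, 8, 6, 20⟩ :=
  leafX_sound T5.ok_mp T5.Ymp.bz_eq (w := 256) (c := ⟨⟨.negSucc 1258, .negSucc 153, .negSucc 41, .negSucc 7, .ofNat 5, .ofNat 41⟩, ⟨.negSucc 681, .negSucc 76, .negSucc 303, .negSucc 3, .ofNat 7, .ofNat 14⟩, ⟨.ofNat 1118, .ofNat 263, .ofNat 111, .negSucc 39, .negSucc 45, .ofNat 4⟩, ⟨.negSucc 3594, .negSucc 90, .ofNat 6, .ofNat 28, .ofNat 18, .ofNat 80⟩, ⟨.negSucc 494, .negSucc 1, .ofNat 6, .negSucc 73, .ofNat 9, .ofNat 21⟩, .ofNat 196, .negSucc 34, .ofNat 0, .negSucc 34, .ofNat 228, .ofNat 0, .ofNat 280, .ofNat 32, .negSucc 159, .ofNat 0, .ofNat 128, .ofNat 59, .ofNat 0, .ofNat 0, .ofNat 904, .ofNat 735579, .ofNat 43141821176116600965251950207465168862877655400185856,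 .ofNat 0, .ofNat 12728823876608209248416109559563851198650314624335872, .ofNat 0, .ofNat 54998597403325452308166083070746213538033388880920576, .ofNat 0, .ofNat 5482720595272641969588702391893102155155692008243200, .ofNat 0, .ofNat 0, .ofNat 0, .ofNat 0, .ofNat 0, .ofNat 121994673228725347906003202464997101019222131777470464, .ofNat 0, .ofNat 39863758541401861549333033860501688973676196055220224, .ofNat 0⟩)
    (by decide +kernel)
theorem L00926 : Good (Phi V5.P V5.D (-1) 1) ⟨2, 0, 2, 2, 4, 8, 5, 9, 7, 40⟩ :=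
  leafX_sound T5.ok_mp T5.Ymp.bz_eq (w := 259) (c := ⟨⟨.negSucc 1255, .negSucc 139, .negSucc 34, .negSucc 5, .ofNat 3, .ofNat 11⟩, ⟨.negSucc 678, .negSucc 74, .negSucc 303, .negSucc 5, .ofNat 10, .ofNat 9⟩, ⟨.ofNat 1103, .ofNat 214, .ofNat 66, .negSucc 44, .negSucc 39, .ofNat 12⟩, ⟨.negSucc 3578, .negSucc 73, .ofNat 10, .ofNat 23, .ofNat 19, .ofNat 33⟩, ⟨.negSucc 488, .negSucc 1, .ofNat 0, .negSucc 70, .ofNat 13, .ofNat 11⟩, .ofNat 196, .negSucc 33, .ofNat 0, .negSucc 33, .ofNat 227, .ofNat 0, .ofNat 228, .ofNat 32, .negSucc 135, .ofNat 0, .ofNat 128, .ofNat 46, .ofNat 0, .ofNat 0, .ofNat 767, .ofNat 185782, .ofNat 35752606496941034467961073081144964035491591509508096, .ofNat 0, .ofNat 56557695352398174973977129094959623270518052964270080, .ofNat 0, .ofNat 0, .ofNat 0, .ofNat 0, .ofNat 0, .ofNat 0, .ofNat 0, .ofNat 0, .ofNat 0, .ofNat 0, .ofNat 0, .ofNat 1948015966120361536178865690850580214566515556046864384,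 .ofNat 0⟩)
    (by decide +kernel)
theorem L00927 : Good (Phi V5.P V5.D (-1) 1) ⟨2, 0, 2, 2, 4, 8, 5, 9, 7, 41⟩ :=
  leafX_sound T5.ok_mp T5.Ymp.bz_eq (w := 260) (c := ⟨⟨.negSucc 1253, .negSucc 133, .negSucc 34, .negSucc 3, .ofNat 16, .ofNat 8⟩, ⟨.negSucc 665, .negSucc 72, .negSucc 298, .negSucc 7, .ofNat 2, .ofNat 12⟩, ⟨.ofNat 1125, .ofNat 213, .ofNat 67, .negSucc 42, .negSucc 63, .ofNat 16⟩, ⟨.negSucc 3552, .negSucc 63, .ofNat 11, .ofNat 26, .ofNat 24, .ofNat 33⟩, ⟨.negSucc 477, .negSucc 0, .ofNat 0, .negSucc 68, .ofNat 9, .ofNat 12⟩, .ofNat 196, .negSucc 33, .ofNat 0, .negSucc 33, .ofNat 227, .ofNat 0, .ofNat 294, .ofNat 32, .negSucc 208, .ofNat 0, .ofNat 128, .ofNat 73, .ofNat 0, .ofNat 0, .ofNat 1249, .ofNat 473248, .ofNat 180275677207493139070956920950199644343171695043936256, .ofNat 0, .ofNat 182127864008067186858990422810929314498769030681198592, .ofNat 0, .ofNat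 140606307133632067310573550975970246794246654284267520, .ofNat 0, .ofNat 642317150990849280208072350935269135304293320117714944, .ofNat 0, .ofNat 0, .ofNat 0, .ofNat 0, .ofNat 0, .ofNat 546968624416508452713074668191876029005301326437941248, .ofNat 0, .ofNat 4712086551639550536435429755716977347603216318565711872, .ofNat 0⟩)
    (by decide +kernel)
theorem L00928 : Good (Phi V5.P V5.D (-1) 1) ⟨2, 0, 2, 2, 4, 8, 4, 4, 6, 21⟩ :=
  leafX_sound T5.ok_mp T5.Ymp.bz_eq (w := 252) (c := ⟨⟨.negSucc 1238, .negSucc 128, .negSucc 37, .negSucc 15, .ofNat 19, .ofNat 37⟩, ⟨.negSucc 675, .negSucc 68, .negSucc 295, .ofNat 2, .ofNat 13, .ofNat 16⟩, ⟨.ofNat 1174, .ofNat 206, .ofNat 69, .negSucc 17, .negSucc 116, .negSucc 4⟩, ⟨.negSucc 3547, .negSucc 51, .ofNat 13, .ofNat 24, .ofNat 48, .ofNat 80⟩, ⟨.negSucc 485, .negSucc 0, .negSucc 0, .negSucc 61, .ofNat 25, .ofNat 18⟩, .ofNat 195, .negSucc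 32, .ofNat 0, .negSucc 32, .ofNat 227, .ofNat 0, .ofNat 335, .ofNat 30, .negSucc 173, .ofNat 0, .ofNat 128, .ofNat 64, .ofNat 0, .ofNat 0, .ofNat 1091, .ofNat 820977, .ofNat 9411535829131472777308546523981735253208072804368384, .ofNat 0, .ofNat 0, .ofNat 0, .ofNat 6603823018298436591564050095136768456032809228697600, .ofNat 0, .ofNat 0, .ofNat 0, .ofNat 3275108289196387346777932664761551438838564623745024, .ofNat 0, .ofNat 130501128811797821063316625810305276976354859941888, .ofNat 0, .ofNat 22667700391716755706663563219658659751171256670486528, .ofNat 0, .ofNat 4729393078252634010090350319310406841825382430146560, .ofNat 0⟩)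
    (by decide +kernel)
theorem L00929 : Good (Phi V5.P V5.D (-1) 1) ⟨2, 0, 2, 2, 4, 9, 5, 8, 5, 10⟩ :=
  leafX_sound T5.ok_mp T5.Ymp.bz_eq (w := 249) (c := ⟨⟨.negSucc 1276, .negSucc 143, .negSucc 49, .ofNat 4, .ofNat 16, .ofNat 61⟩, ⟨.negSucc 690, .negSucc 72, .negSucc 301, .ofNat 0, .ofNat 5, .ofNat 40⟩, ⟨.ofNat 1091, .ofNat 266, .ofNat 143, .negSucc 48, .negSucc 74, .ofNat 39⟩, ⟨.negSucc 3589, .negSucc 68, .ofNat 6, .ofNat 54, .ofNat 25, .ofNat 155⟩, ⟨.negSucc 565, .negSucc 8, .ofNat 5, .negSucc 74, .ofNat 9, .ofNat 51⟩, .ofNat 196, .negSucc 33, .ofNat 0, .negSucc 33, .ofNat 227, .ofNat 0, .ofNat 259, .ofNat 29, .negSucc 171, .ofNat 0, .ofNat 128, .ofNat 72, .ofNat 0, .ofNat 0, .ofNat 1003, .ofNat 204403, .ofNat 1127628690681809754360117012689500250160513232666624, .ofNat 0, .ofNat 113175408567414445952681253131904500937062581534720, .ofNat 0, .ofNat 4805510434927814667884578104071549435211411491913728,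 .ofNat 0, .ofNat 0, .ofNat 0, .ofNat 775669997336334496957972616994322774770591536775168, .ofNat 0, .ofNat 355034727977432965363958050225212250865261606862848, .ofNat 0, .ofNat 3955761261299492362789131549877217408117530047807488, .ofNat 0, .ofNat 1695206407102895005842201613703581469407324833579008, .ofNat 0⟩)
    (by decide +kernel)
theorem L00930 : Good (Phi V5.P V5.D (-1) 1) ⟨2, 0, 2, 2, 4, 9, 5, 9, 5, 10⟩ :=
  leafX_sound T5.ok_mp T5.Ymp.bz_eq (w := 248) (c := ⟨⟨.negSucc 1275, .negSucc 127, .negSucc 36, .ofNat 6, .ofNat 9, .ofNat 62⟩, ⟨.negSucc 684, .negSucc 73, .negSucc 296, .negSucc 2, .ofNat 5, .ofNat 36⟩, ⟨.ofNat 1070, .ofNat 208, .ofNat 89, .negSucc 51, .negSucc 48, .ofNat 26⟩, ⟨.negSucc 3576, .negSucc 52, .ofNat 24, .ofNat 48, .ofNat 20, .ofNat 153⟩, ⟨.negSucc 555, .negSucc 8, .negSucc 3, .negSucc 67, .ofNat 13, .ofNat 47⟩, .ofNat 196, .negSucc 32, .ofNat 0,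 .negSucc 32, .ofNat 227, .ofNat 0, .ofNat 319, .ofNat 29, .negSucc 151, .ofNat 0, .ofNat 128, .ofNat 61, .ofNat 0, .ofNat 0, .ofNat 903, .ofNat 89519, .ofNat 190115953084138623646589556009179675070582252109824, .ofNat 0, .ofNat 39724015735282298970236514527335818708405538783232, .ofNat 0, .ofNat 0, .ofNat 0, .ofNat 0, .ofNat 0, .ofNat 0, .ofNat 0, .ofNat 211709197244813785607306720714304559369670545637376, .ofNat 0, .ofNat 0, .ofNat 0, .ofNat 2024925528725620019493869691768839537039232510984192, .ofNat 0⟩)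
    (by decide +kernel)
theorem L00931 : Good (Phi V5.P V5.D (-1) 1) ⟨3, 0, 2, 2, 3, 4, 4, 5, 5, 10⟩ :=
  leafX_sound T5.ok_mp T5.Ymp.bz_eq (w := 234) (c := ⟨⟨.negSucc 1269, .negSucc 33, .negSucc 32, .negSucc 4, .ofNat 18, .ofNat 55⟩, ⟨.negSucc 671, .negSucc 44, .negSucc 285, .negSucc 6, .ofNat 11, .ofNat 33⟩, ⟨.ofNat 1099, .ofNat 42, .ofNat 19, .negSucc 78, .negSucc 66, .ofNat 10⟩, ⟨.negSucc 3580, .negSucc 3, .ofNat 35, .ofNat 55, .ofNat 38, .ofNat 142⟩, ⟨.negSucc 482, .negSucc 0, .negSucc 12, .negSucc 118, .ofNat 26, .ofNat 41⟩, .ofNat 864, .negSucc 638, .ofNat 0, .negSucc 638, .ofNat 1481, .ofNat 0, .ofNat 128, .ofNat 139, .negSucc 34, .ofNat 0, .ofNat 146, .negSucc 7, .ofNat 0, .ofNat 0, .ofNat 660, .ofNat 92767, .ofNat 196390679264930982236496911717062481112463310848, .ofNat 0, .ofNat 29167126868960150372793768242145880958828544, .ofNat 0, .ofNat 0, .ofNat 0, .ofNat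 0, .ofNat 0, .ofNat 0, .ofNat 0, .ofNat 1087936900902773349323778737942598995624853504, .ofNat 0, .ofNat 0, .ofNat 0, .ofNat 1316755119489489181564260205388602696143994880, .ofNat 0⟩)
    (by decide +kernel)
theorem L00932 : Good (Phi V5.P V5.D (-1) 1) ⟨3, 1, 2, 2, 3, 4, 4, 5, 5, 10⟩ :=
  leafX_sound T5.ok_mp T5.Ymp.bz_eq (w := 234) (c := ⟨⟨.negSucc 1312, .negSucc 87, .negSucc 37, .ofNat 0, .ofNat 22, .ofNat 62⟩, ⟨.negSucc 722, .negSucc 17, .negSucc 293, .negSucc 2, .ofNat 13, .ofNat 39⟩, ⟨.ofNat 1158, .ofNat 126, .ofNat 61, .negSucc 83, .negSucc 107, .ofNat 14⟩, ⟨.negSucc 3605, .negSucc 24, .ofNat 16, .ofNat 77, .ofNat 43, .ofNat 157⟩, ⟨.negSucc 488, .ofNat 7, .negSucc 1, .negSucc 125, .ofNat 29, .ofNat 44⟩, .ofNat 472, .negSucc 228, .ofNat 0, .negSucc 228, .ofNat 668, .ofNat 0, .ofNat 170, .ofNat 89, .negSucc 51, .ofNat 0, .ofNat 128, .negSucc 0, .ofNat 0, .ofNat 0, .ofNat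 681, .ofNat 75125, .ofNat 89345808432148298149520368332231219574384623616, .ofNat 0, .ofNat 27249819039073140906927756426169227801526272, .ofNat 0, .ofNat 0, .ofNat 0, .ofNat 0, .ofNat 0, .ofNat 0, .ofNat 0, .ofNat 348875738959915047467231558710174393793773568, .ofNat 0, .ofNat 0, .ofNat 0, .ofNat 1353682269992685513493750306960085334899032064, .ofNat 0⟩)
    (by decide +kernel)
theorem L00933 : Good (Phi V5.P V5.D (-1) 1) ⟨2, 0, 2, 2, 3, 4, 3, 2, 5, 11⟩ :=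
  leafX_sound T5.ok_mp T5.Ymp.bz_eq (w := 225) (c := ⟨⟨.negSucc 1240, .negSucc 119, .negSucc 27, .ofNat 9, .ofNat 49, .ofNat 62⟩, ⟨.negSucc 673, .negSucc 47, .negSucc 276, .ofNat 1, .ofNat 27, .ofNat 38⟩, ⟨.ofNat 1225, .ofNat 176, .ofNat 6, .negSucc 74, .negSucc 209, .ofNat 1⟩, ⟨.negSucc 3513, .negSucc 8, .ofNat 38, .ofNat 86, .ofNat 89, .ofNat 152⟩, ⟨.negSucc 493, .ofNat 13, .negSucc 10, .negSucc 105, .ofNat 68, .ofNat 46⟩, .ofNat 196, .negSucc 33, .ofNat 0, .negSucc 33, .ofNat 227, .ofNat 0, .ofNat 197, .ofNat 31, .negSucc 72, .ofNat 0, .ofNat 128, .ofNat 27, .ofNat 0, .ofNat 0, .ofNat 569, .ofNat 31651, .ofNat 1932170228491340395983163541556788703965216768, .ofNat 0, .ofNat 0, .ofNat 0, .ofNat 0, .ofNat 0, .ofNat 0, .ofNat 0, .ofNat 0, .ofNat 0, .ofNat 0, .ofNat 0, .ofNat 4486449051239574098678150376762182864784588800, .ofNat 0, .ofNat 191183275387270255384416231342348751203205120,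 .ofNat 0⟩)
    (by decide +kernel)
theorem L00934 : Good (Phi V5.P V5.D (-1) 1) ⟨2, 0, 2, 2, 3, 5, 3, 2, 4, 5⟩ :=
  leafX_sound T5.ok_mp T5.Ymp.bz_eq (w := 219) (c := ⟨⟨.negSucc 1293, .negSucc 112, .negSucc 39, .ofNat 43, .ofNat 37, .ofNat 137⟩, ⟨.negSucc 714, .negSucc 48, .negSucc 286, .ofNat 19, .ofNat 28, .ofNat 87⟩, ⟨.ofNat 1108, .ofNat 161, .ofNat 102, .negSucc 108, .negSucc 215, .ofNat 40⟩, ⟨.negSucc 3591, .ofNat 14, .ofNat 33, .ofNat 193, .ofNat 69, .ofNat 330⟩, ⟨.negSucc 652, .negSucc 8, .negSucc 14, .negSucc 121, .ofNat 74, .ofNat 117⟩, .ofNat 462, .negSucc 205, .ofNat 0, .negSucc 205, .ofNat 653, .ofNat 0, .ofNat 169, .ofNat 78, .negSucc 35, .ofNat 0, .ofNat 128, .ofNat 8, .ofNat 0, .ofNat 0, .ofNat 654, .ofNat 14950, .ofNat 0, .ofNat 0, .ofNat 0, .ofNat 0, .ofNat 0, .ofNat 0, .ofNat 0, .ofNat 0, .ofNat 0, .ofNat 943953506066288240509977565142852443308032, .ofNat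 6098168999114276882310348352367052122488832, .ofNat 0, .ofNat 0, .ofNat 0, .ofNat 106568630156918569375376314973639629864960, .ofNat 0⟩)
    (by decide +kernel)
theorem L00935 : Good (Phi V5.P V5.D (-1) 1) ⟨2, 0, 2, 2, 2, 2, 3, 3, 4, 5⟩ :=
  leafX_sound T5.ok_mp T5.Ymp.bz_eq (w := 203) (c := ⟨⟨.negSucc 1260, .negSucc 98, .negSucc 18, .ofNat 33, .ofNat 46, .ofNat 113⟩, ⟨.negSucc 670, .negSucc 58, .negSucc 280, .ofNat 23, .ofNat 20, .ofNat 68⟩, ⟨.ofNat 1063, .ofNat 77, .negSucc 14, .negSucc 158, .negSucc 140, .negSucc 7⟩, ⟨.negSucc 3564, .ofNat 7, .ofNat 48, .ofNat 218, .ofNat 79, .ofNat 279⟩, ⟨.negSucc 463, .negSucc 1, .negSucc 7, .negSucc 183, .ofNat 66, .ofNat 79⟩, .ofNat 460, .negSucc 199, .ofNat 0, .negSucc 199, .ofNat 650, .ofNat 0, .ofNat 162, .ofNat 79, .negSucc 35, .ofNat 0, .ofNat 128, .ofNat 2, .ofNat 0, .ofNat 0, .ofNat 554, .ofNat 4895, .ofNat 0, .ofNat 0, .ofNat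 0, .ofNat 0, .ofNat 0, .ofNat 0, .ofNat 0, .ofNat 0, .ofNat 0, .ofNat 1119156588617746076935021577658941046784, .ofNat 146209960401583790452853820138387931136, .ofNat 0, .ofNat 0, .ofNat 1121417615557963565408300623477281390592, .ofNat 130429552703409890528134586457258983424, .ofNat 0⟩)
    (by decide +kernel)
theorem L00936 : Good (Phi V5.P V5.D (-1) 1) ⟨2, 0, 3, 4, 2, 3, 3, 2, 4, 4⟩ :=
  leafX_sound T5.ok_mp T5.Ymp.bz_eq (w := 206) (c := ⟨⟨.negSucc 1410, .negSucc 118, .negSucc 25, .ofNat 158, .ofNat 28, .ofNat 166⟩, ⟨.negSucc 785, .negSucc 63, .negSucc 139, .ofNat 76, .ofNat 22, .ofNat 96⟩, ⟨.ofNat 954, .ofNat 90, .ofNat 64, .negSucc 327, .negSucc 89, .ofNat 9⟩, ⟨.negSucc 3775, .ofNat 29, .ofNat 84, .ofNat 647, .ofNat 26, .ofNat 332⟩, ⟨.negSucc 926, .negSucc 71, .negSucc 77, .negSucc 353, .ofNat 104, .ofNat 212⟩, .ofNat 1586, .negSucc 1673, .ofNat 0, .negSucc 1673, .ofNat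 3126, .ofNat 0, .ofNat 128, .ofNat 172, .negSucc 41, .ofNat 0, .ofNat 148, .negSucc 6, .ofNat 0, .ofNat 0, .ofNat 935, .ofNat 3723, .ofNat 0, .ofNat 0, .ofNat 0, .ofNat 0, .ofNat 0, .ofNat 0, .ofNat 0, .ofNat 0, .ofNat 0, .ofNat 11426558429036638204242112456113298341888, .ofNat 0, .ofNat 0, .ofNat 0, .ofNat 24270075504009197661253043236708611522560, .ofNat 124778076531709462335345485988482777088, .ofNat 0⟩)
    (by decide +kernel)
theorem L00937 : Good (Phi V5.P V5.D (-1) 1) ⟨2, 0, 4, 10, 2, 3, 3, 2, 4, 4⟩ :=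
  leafX_sound T5.ok_mp T5.Ymp.bz_eq (w := 209) (c := ⟨⟨.negSucc 1453, .negSucc 141, .negSucc 18, .ofNat 171, .ofNat 57, .ofNat 195⟩, ⟨.negSucc 982, .negSucc 33, .negSucc 69, .ofNat 109, .ofNat 37, .ofNat 126⟩, ⟨.ofNat 1033, .ofNat 112, .ofNat 55, .negSucc 333, .negSucc 132, .ofNat 2⟩, ⟨.negSucc 3851, .ofNat 67, .ofNat 35, .ofNat 822, .ofNat 77, .ofNat 416⟩, ⟨.negSucc 935, .negSucc 93, .negSucc 36, .negSucc 508, .ofNat 121, .ofNat 199⟩, .ofNat 1572, .negSucc 1661, .ofNat 0, .negSucc 1661, .ofNat 2945, .ofNat 0, .ofNat 128, .ofNat 187, .negSucc 33, .ofNat 0, .ofNat 155, .negSucc 7, .ofNat 0, .ofNat 0, .ofNat 756, .ofNat 3537, .ofNat 0, .ofNat 0, .ofNat 0, .ofNat 0, .ofNat 0, .ofNat 0, .ofNat 0, .ofNat 0, .ofNat 0, .ofNat 80253514917833360974293126677173469446144, .ofNat 1663484393488989432073280593478050381824, .ofNat 0, .ofNat 0, .ofNat 116341152510165568212620514023472646586368,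 .ofNat 2786977826068297805958822445162828922880, .ofNat 0⟩)
    (by decide +kernel)
theorem L00938 : Good (Phi V5.P V5.D (-1) 1) ⟨2, 0, 4, 11, 2, 3, 3, 2, 4, 4⟩ :=
  out_sound (S := T5.ds_mp) T5.ok_mp (w := 41) (j := 3) (by decide +kernel)
theorem L00939 : Good (Phi V5.P V5.D (-1) 1) ⟨2, 0, 2, 2, 2, 3, 3, 3, 4, 4⟩ :=
  leafX_sound T5.ok_mp T5.Ymp.bz_eq (w := 202) (c := ⟨⟨.negSucc 1395, .negSucc 94, .negSucc 60, .ofNat 164, .ofNat 59, .ofNat 170⟩, ⟨.negSucc 773, .negSucc 48, .negSucc 280, .ofNat 76, .ofNat 42, .ofNat 106⟩, ⟨.ofNat 874, .negSucc 32, .ofNat 105, .negSucc 192, .negSucc 41, .ofNat 14⟩, ⟨.negSucc 3792, .ofNat 96, .ofNat 179, .ofNat 534, .ofNat 130, .ofNat 412⟩, ⟨.negSucc 821, .negSucc 63, .negSucc 197, .negSucc 172, .ofNat 75, .ofNat 140⟩, .ofNat 1606, .negSucc 1730, .ofNat 0, .negSucc 1730, .ofNat 3248, .ofNat 0, .ofNat 128, .ofNat 195, .negSucc 36, .ofNat 0,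 .ofNat 164, .negSucc 3, .ofNat 0, .ofNat 0, .ofNat 898, .ofNat 1873, .ofNat 0, .ofNat 0, .ofNat 654486085528018978622711890467356672, .ofNat 0, .ofNat 0, .ofNat 892236065571315352856313956222457872384, .ofNat 0, .ofNat 0, .ofNat 0, .ofNat 1793116844497304006824205717291539628032, .ofNat 320631920173750004064113530263018930176, .ofNat 0, .ofNat 0, .ofNat 3633716054551189673203615544419102490624, .ofNat 189432241735615930765158814970974044160, .ofNat 0⟩)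
    (by decide +kernel)
theorem L00940 : Good (Phi V5.P V5.D (-1) 1) ⟨2, 0, 2, 2, 2, 3, 2, 1, 4, 5⟩ :=
  leafX_sound T5.ok_mp T5.Ymp.bz_eq (w := 197) (c := ⟨⟨.negSucc 1265, .negSucc 91, .negSucc 53, .ofNat 167, .ofNat 80, .ofNat 151⟩, ⟨.negSucc 697, .negSucc 52, .negSucc 264, .ofNat 77, .ofNat 58, .ofNat 100⟩, ⟨.ofNat 1004, .ofNat 114, .ofNat 148, .negSucc 391, .negSucc 259, .ofNat 2⟩, ⟨.negSucc 3426, .ofNat 67, .ofNat 68, .ofNat 667, .ofNat 72, .ofNat 352⟩, ⟨.negSucc 768, .negSucc 48, .negSucc 55, .negSucc 356, .ofNat 269, .ofNat 150⟩, .ofNat 459, .negSucc 199, .ofNat 0, .negSucc 199, .ofNat 651, .ofNat 0, .ofNat 128, .ofNat 81, .negSucc 24, .ofNat 0, .ofNat 145, .ofNat 19, .ofNat 0, .ofNat 0, .ofNat 664, .ofNat 1139, .ofNat 0, .ofNat 0, .ofNat 0, .ofNat 0, .ofNat 0, .ofNat 266886169347059795824443833330572460032, .ofNat 4135444702774277102453965310572625920, .ofNat 0,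 .ofNat 0, .ofNat 503487302120380921090891404742657835008, .ofNat 0, .ofNat 0, .ofNat 0, .ofNat 784210029796015275332724482959208349696, .ofNat 12981430047159893931983650717039591424, .ofNat 0⟩)
    (by decide +kernel)
theorem L00941 : Good (Phi V5.P V5.D (-1) 1) ⟨2, 0, 2, 2, 2, 2, 2, 1, 3, 3⟩ :=
  leafX_sound T5.ok_mp T5.Ymp.bz_eq (w := 194) (c := ⟨⟨.negSucc 1194, .negSucc 85, .negSucc 27, .ofNat 51, .ofNat 78, .ofNat 217⟩, ⟨.negSucc 649, .negSucc 37, .negSucc 252, .ofNat 28, .ofNat 48, .ofNat 126⟩, ⟨.ofNat 1292, .ofNat 78, .negSucc 47, .negSucc 115, .negSucc 407, .negSucc 115⟩, ⟨.negSucc 3333, .ofNat 26, .ofNat 70, .ofNat 227, .ofNat 87, .ofNat 513⟩, ⟨.negSucc 541, .ofNat 45, .negSucc 41, .negSucc 121, .ofNat 213, .ofNat 181⟩, .ofNat 477, .negSucc 226, .ofNat 0, .negSucc 226, .ofNat 664, .ofNat 0, .ofNat 189, .ofNat 82, .negSucc 9, .ofNat 0, .ofNat 128, .ofNat 3, .ofNat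 0, .ofNat 0, .ofNat 762, .ofNat 3225, .ofNat 213745277595129304259880107478410592256, .ofNat 0, .ofNat 6614745274750060027807248513236992, .ofNat 0, .ofNat 0, .ofNat 0, .ofNat 0, .ofNat 0, .ofNat 0, .ofNat 0, .ofNat 0, .ofNat 0, .ofNat 4040998686315283091220036938574443053056, .ofNat 111375788184172414843224850505148661760, .ofNat 257128363483754983124638992359751680, .ofNat 0⟩)
    (by decide +kernel)
theorem L00942 : Good (Phi V5.P V5.D (-1) 1) ⟨2, 0, 2, 2, 2, 3, 2, 1, 3, 3⟩ :=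
  leafX_sound T5.ok_mp T5.Ymp.bz_eq (w := 195) (c := ⟨⟨.negSucc 1125, .negSucc 72, .negSucc 36, .ofNat 153, .ofNat 62, .ofNat 1⟩, ⟨.negSucc 615, .negSucc 36, .negSucc 247, .ofNat 69, .ofNat 43, .ofNat 0⟩, ⟨.ofNat 1056, .ofNat 119, .ofNat 107, .negSucc 209, .negSucc 410, .ofNat 0⟩, ⟨.negSucc 3085, .ofNat 86, .ofNat 67, .ofNat 534, .ofNat 62, .ofNat 1⟩, ⟨.negSucc 639, .negSucc 20, .negSucc 29, .negSucc 204, .ofNat 202, .ofNat 0⟩, .ofNat 460, .negSucc 200, .ofNat 0, .negSucc 200, .ofNat 650, .ofNat 0, .ofNat 240, .ofNat 72, .negSucc 24, .ofNat 0, .ofNat 128, .ofNat 27, .ofNat 0, .ofNat 0, .ofNat 1230, .ofNat 8018, .ofNat 0, .ofNat 0, .ofNat 0, .ofNat 0, .ofNat 11284864340611684588748856530770793070592, .ofNat 1122953141342959613823200537415270793216, .ofNat 0, .ofNat 0, .ofNat 3912842711026512421912844028174988738560, .ofNat 632151902753932659938185016301385154560, .ofNat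 95929859416026947324550573092503552, .ofNat 0, .ofNat 0, .ofNat 818417915551357534827627016014574649344, .ofNat 2536031414401072112523020750676819968, .ofNat 0⟩)
    (by decide +kernel)
theorem L00943 : Good (Phi V5.P V5.D (-1) 1) ⟨2, 1, 2, 2, 2, 2, 2, 0, 5, 8⟩ :=
  leafX_sound T5.ok_mp T5.Ymp.bz_eq (w := 204) (c := ⟨⟨.negSucc 1669, .negSucc 448, .negSucc 57, .ofNat 21, .ofNat 98, .ofNat 88⟩, ⟨.negSucc 896, .ofNat 47, .negSucc 356, .negSucc 6, .ofNat 62, .ofNat 46⟩, ⟨.ofNat 2032, .ofNat 759, .ofNat 274, .negSucc 179, .negSucc 774, .ofNat 46⟩, ⟨.negSucc 4249, .negSucc 356, .negSucc 25, .ofNat 252, .ofNat 203, .ofNat 194⟩, ⟨.negSucc 666, .ofNat 61, .ofNat 29, .negSucc 415, .ofNat 79, .ofNat 63⟩, .ofNat 421, .negSucc 186, .ofNat 0, .negSucc 186, .ofNat 667, .ofNat 0, .ofNat 221, .ofNat 85, .negSucc 97, .ofNat 0, .ofNat 128, .ofNat 6, .ofNat 0, .ofNat 0, .ofNat 808, .ofNat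 6283, .ofNat 0, .ofNat 0, .ofNat 8281027992252268049894378336105267200, .ofNat 0, .ofNat 0, .ofNat 0, .ofNat 0, .ofNat 0, .ofNat 0, .ofNat 0, .ofNat 0, .ofNat 0, .ofNat 233540105186078247491273323028299875614720, .ofNat 0, .ofNat 1488991541981337528780071773428672102400, .ofNat 0⟩)
    (by decide +kernel)
theorem L00944 : Good (Phi V5.P V5.D (-1) 1) ⟨2, 1, 2, 2, 2, 2, 3, 0, 5, 9⟩ :=
  out_sound (S := T5.ds_mp) T5.ok_mp (w := 27) (j := 1) (by decide +kernel)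
theorem L00945 : Good (Phi V5.P V5.D (-1) 1) ⟨2, 1, 2, 2, 2, 2, 3, 1, 5, 9⟩ :=
  leafX_sound T5.ok_mp T5.Ymp.bz_eq (w := 209) (c := ⟨⟨.negSucc 1609, .negSucc 373, .negSucc 59, .ofNat 83, .ofNat 72, .ofNat 95⟩, ⟨.negSucc 850, .ofNat 69, .negSucc 335, .ofNat 22, .ofNat 29, .ofNat 52⟩, ⟨.ofNat 1843, .ofNat 684, .ofNat 274, .negSucc 288, .negSucc 468, .ofNat 22⟩, ⟨.negSucc 4118, .negSucc 207, .negSucc 25, .ofNat 395, .ofNat 141, .ofNat 212⟩, ⟨.negSucc 573, .ofNat 39, .ofNat 35, .negSucc 398, .ofNat 46, .ofNat 70⟩, .ofNat 420, .negSucc 187, .ofNat 0, .negSucc 187, .ofNat 669, .ofNat 0, .ofNat 211, .ofNat 83, .negSucc 56, .ofNat 0, .ofNat 128, .ofNat 6, .ofNat 0, .ofNat 0, .ofNat 581, .ofNat 12855, .ofNat 23279200578750979998873805781655074373632, .ofNat 0, .ofNat 126059096776970675435804360887978950656, .ofNat 0, .ofNat 0, .ofNat 0, .ofNat 0, .ofNat 0, .ofNat 0, .ofNat 0, .ofNat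 0, .ofNat 0, .ofNat 893935127036660263513331018322493359259648, .ofNat 0, .ofNat 14230149238863559888850658089542782812160, .ofNat 0⟩)
    (by decide +kernel)
theorem L00946 : Good (Phi V5.P V5.D (-1) 1) ⟨3, 2, 3, 4, 3, 6, 2, 0, 4, 4⟩ :=
  leafX_sound T5.ok_mp T5.Ymp.bz_eq (w := 221) (c := ⟨⟨.negSucc 1667, .negSucc 154, .negSucc 41, .ofNat 101, .ofNat 86, .ofNat 218⟩, ⟨.negSucc 908, .ofNat 20, .negSucc 154, .ofNat 41, .ofNat 52, .ofNat 122⟩, ⟨.ofNat 1933, .ofNat 283, .ofNat 166, .negSucc 325, .negSucc 799, .ofNat 5⟩, ⟨.negSucc 4015, .negSucc 73, .ofNat 5, .ofNat 410, .ofNat 181, .ofNat 469⟩, ⟨.negSucc 1091, .negSucc 13, .ofNat 6, .negSucc 276, .ofNat 79, .ofNat 192⟩, .ofNat 825, .negSucc 690, .ofNat 0, .negSucc 690, .ofNat 1634, .ofNat 0, .ofNat 166, .ofNat 128, .negSucc 77, .ofNat 0, .ofNat 122, .negSucc 9, .ofNat 0, .ofNat 0, .ofNat 1217, .ofNat 9823, .ofNat 0, .ofNat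 0, .ofNat 0, .ofNat 0, .ofNat 0, .ofNat 0, .ofNat 0, .ofNat 0, .ofNat 0, .ofNat 0, .ofNat 0, .ofNat 0, .ofNat 54307479352390294891046792721669071984987734016, .ofNat 0, .ofNat 0, .ofNat 0⟩)
    (by decide +kernel)
theorem L00947 : Good (Phi V5.P V5.D (-1) 1) ⟨3, 2, 3, 5, 3, 6, 2, 0, 4, 4⟩ :=
  leafX_sound T5.ok_mp T5.Ymp.bz_eq (w := 220) (c := ⟨⟨.negSucc 1691, .negSucc 166, .negSucc 56, .ofNat 86, .ofNat 84, .ofNat 219⟩, ⟨.negSucc 1063, .ofNat 1, .negSucc 166, .ofNat 48, .ofNat 52, .ofNat 136⟩, ⟨.ofNat 2119, .ofNat 318, .ofNat 167, .negSucc 319, .negSucc 858, .ofNat 1⟩, ⟨.negSucc 3977, .negSucc 115, .negSucc 38, .ofNat 403, .ofNat 172, .ofNat 475⟩, ⟨.negSucc 1077, .negSucc 3, .ofNat 17, .negSucc 290, .ofNat 80, .ofNat 177⟩, .ofNat 1041, .negSucc 996, .ofNat 0, .negSucc 996, .ofNat 1957, .ofNat 0, .ofNat 138, .ofNat 128, .negSucc 48, .ofNat 0, .ofNat 108, .negSucc 12, .ofNat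 0, .ofNat 0, .ofNat 824, .ofNat 5913, .ofNat 0, .ofNat 0, .ofNat 5238430454454484948442504621081699024896, .ofNat 0, .ofNat 0, .ofNat 0, .ofNat 0, .ofNat 0, .ofNat 0, .ofNat 0, .ofNat 0, .ofNat 0, .ofNat 19263338994110652080867733567401577595581497344, .ofNat 0, .ofNat 479570552356133362194531705595428994023424, .ofNat 0⟩)
    (by decide +kernel)
theorem L00948 : Good (Phi V5.P V5.D (-1) 1) ⟨3, 2, 3, 4, 3, 7, 2, 0, 5, 8⟩ :=
  leafX_sound T5.ok_mp T5.Ymp.bz_eq (w := 225) (c := ⟨⟨.negSucc 1548, .negSucc 151, .negSucc 53, .ofNat 111, .ofNat 66, .ofNat 118⟩, ⟨.negSucc 859, .ofNat 13, .negSucc 144, .ofNat 53, .ofNat 35, .ofNat 65⟩, ⟨.ofNat 1481, .ofNat 227, .ofNat 137, .negSucc 535, .negSucc 472, .negSucc 41⟩, ⟨.negSucc 3619, .negSucc 104, .ofNat 45, .ofNat 459, .ofNat 184, .ofNat 271⟩, ⟨.negSucc 1271, .negSucc 22, .negSucc 40, .negSucc 302, .negSucc 16, .ofNat 66⟩, .ofNat 437,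 .negSucc 200, .ofNat 0, .negSucc 200, .ofNat 670, .ofNat 0, .ofNat 160, .ofNat 69, .negSucc 98, .ofNat 0, .ofNat 128, .ofNat 46, .ofNat 0, .ofNat 0, .ofNat 1079, .ofNat 7543, .ofNat 0, .ofNat 0, .ofNat 0, .ofNat 0, .ofNat 0, .ofNat 0, .ofNat 0, .ofNat 0, .ofNat 0, .ofNat 0, .ofNat 0, .ofNat 0, .ofNat 129352889189239337985779568900919296087426072576, .ofNat 0, .ofNat 0, .ofNat 0⟩)
    (by decide +kernel)
theorem L00949 : Good (Phi V5.P V5.D (-1) 1) ⟨3, 2, 5, 20, 3, 7, 3, 0, 5, 8⟩ :=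
  leafX_sound T5.ok_mp T5.Ymp.bz_eq (w := 236) (c := ⟨⟨.negSucc 1595, .negSucc 157, .negSucc 17, .ofNat 104, .ofNat 22, .ofNat 124⟩, ⟨.negSucc 1005, .ofNat 3, .negSucc 38, .ofNat 55, .ofNat 11, .ofNat 75⟩, ⟨.ofNat 1654, .ofNat 314, .ofNat 58, .negSucc 643, .negSucc 282, .ofNat 14⟩, ⟨.negSucc 3582, .negSucc 124, .negSucc 0, .ofNat 461, .ofNat 90, .ofNat 289⟩, ⟨.negSucc 1280, .negSucc 5, .negSucc 3, .negSucc 321, .negSucc 57, .ofNat 58⟩, .ofNat 934, .negSucc 845, .ofNat 0, .negSucc 845, .ofNat 1789, .ofNat 0, .ofNat 128, .ofNat 131, .negSucc 48, .ofNat 0, .ofNat 120, .ofNat 2, .ofNat 0, .ofNat 0, .ofNat 998, .ofNat 24054, .ofNat 0, .ofNat 0, .ofNat 0, .ofNat 0, .ofNat 0, .ofNat 0, .ofNat 0, .ofNat 0, .ofNat 0, .ofNat 0, .ofNat 0, .ofNat 0, .ofNat 90779762827063298986457208113577437030175167479808, .ofNat 0, .ofNat 1297961701567937557992167048767980342595289088, .ofNat 0⟩)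
    (by decide +kernel)
theorem L00950 : Good (Phi V5.P V5.D (-1) 1) ⟨3, 2, 6, 42, 3, 7, 3, 0, 5, 8⟩ :=
  leafX_sound T5.ok_mp T5.Ymp.bz_eq (w := 241) (c := ⟨⟨.negSucc 1592, .negSucc 153, .negSucc 9, .ofNat 89, .ofNat 11, .ofNat 115⟩, ⟨.negSucc 1037, .negSucc 11, .negSucc 18, .ofNat 55, .ofNat 6, .ofNat 73⟩, ⟨.ofNat 1661, .ofNat 273, .ofNat 61, .negSucc 563, .negSucc 280, .ofNat 23⟩, ⟨.negSucc 3539, .negSucc 127, .ofNat 2, .ofNat 441, .ofNat 51, .ofNat 269⟩, ⟨.negSucc 1296, .negSucc 18, .negSucc 7, .negSucc 312, .negSucc 33, .ofNat 62⟩, .ofNat 2586, .negSucc 3288, .ofNat 0, .negSucc 3288, .ofNat 5560, .ofNat 0, .ofNat 128, .ofNat 296, .negSucc 97, .ofNat 0, .ofNat 215, .negSucc 35, .ofNat 0, .ofNat 0, .ofNat 2755, .ofNat 79638, .ofNat 4400334998080092431070473218240075259800673320960, .ofNat 0, .ofNat 285957441463544234824545399240392029153263616, .ofNat 0, .ofNat 89497997310669264231867287333358921787892673019904,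 .ofNat 0, .ofNat 28242888777403702318425021279461770863354839040, .ofNat 0, .ofNat 616567434024505775958268763758217550241122433892352, .ofNat 0, .ofNat 15763717059386311497722613716306759842258747392, .ofNat 0, .ofNat 7354864909468077377102482537124733967138944043712512, .ofNat 0, .ofNat 67219259977096182747225411712709261128445722624, .ofNat 0⟩)
    (by decide +kernel)
theorem L00951 : Good (Phi V5.P V5.D (-1) 1) ⟨3, 2, 6, 43, 3, 7, 3, 0, 5, 8⟩ :=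
  out_sound (S := T5.ds_mp) T5.ok_mp (w := 51) (j := 3) (by decide +kernel)
theorem L00952 : Good (Phi V5.P V5.D (-1) 1) ⟨3, 2, 4, 10, 3, 7, 3, 1, 5, 8⟩ :=
  leafX_sound T5.ok_mp T5.Ymp.bz_eq (w := 233) (c := ⟨⟨.negSucc 1592, .negSucc 136, .negSucc 36, .ofNat 107, .ofNat 52, .ofNat 131⟩, ⟨.negSucc 1006, .ofNat 14, .negSucc 74, .ofNat 61, .ofNat 30, .ofNat 79⟩, ⟨.ofNat 1291, .ofNat 221, .ofNat 119, .negSucc 392, .negSucc 246, .ofNat 3⟩, ⟨.negSucc 3563, .negSucc 59, .negSucc 2, .ofNat 505, .ofNat 134, .ofNat 303⟩, ⟨.negSucc 1305, .negSucc 38, .negSucc 12, .negSucc 358, .ofNat 1, .ofNat 73⟩, .ofNat 456, .negSucc 230, .ofNat 0, .negSucc 230, .ofNat 684, .ofNat 0, .ofNat 193, .ofNat 80, .negSucc 105, .ofNat 0, .ofNat 128, .ofNat 48, .ofNat 0, .ofNat 0, .ofNat 1107, .ofNat 12696, .ofNat 0, .ofNat 0, .ofNat 14655694912776693386476969844339523280961536, .ofNat 0, .ofNat 0, .ofNat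 0, .ofNat 0, .ofNat 0, .ofNat 0, .ofNat 0, .ofNat 208904916575838610265757012985937406130651136, .ofNat 0, .ofNat 0, .ofNat 0, .ofNat 0, .ofNat 0⟩)
    (by decide +kernel)
theorem L00953 : Good (Phi V5.P V5.D (-1) 1) ⟨3, 2, 4, 11, 3, 7, 2, 0, 5, 8⟩ :=
  out_sound (S := T5.ds_mp) T5.ok_mp (w := 47) (j := 3) (by decide +kernel)
theorem L00954 : Good (Phi V5.P V5.D (-1) 1) ⟨3, 2, 3, 4, 3, 7, 2, 0, 5, 9⟩ :=
  leafX_sound T5.ok_mp T5.Ymp.bz_eq (w := 225) (c := ⟨⟨.negSucc 1464, .negSucc 116, .negSucc 46, .ofNat 121, .ofNat 85, .ofNat 111⟩, ⟨.negSucc 809, .ofNat 25, .negSucc 139, .ofNat 57, .ofNat 47, .ofNat 63⟩, ⟨.ofNat 1433, .ofNat 226, .ofNat 176, .negSucc 471, .negSucc 537, .ofNat 33⟩, ⟨.negSucc 3389, .negSucc 22, .ofNat 37, .ofNat 473, .ofNat 196, .ofNat 228⟩, ⟨.negSucc 1249, .negSucc 32, .negSucc 30, .negSucc 290, .ofNat 50, .ofNat 114⟩, .ofNat 825, .negSucc 690, .ofNat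 0, .negSucc 690, .ofNat 1634, .ofNat 0, .ofNat 186, .ofNat 125, .negSucc 32, .ofNat 0, .ofNat 128, .ofNat 14, .ofNat 0, .ofNat 0, .ofNat 1082, .ofNat 6823, .ofNat 0, .ofNat 0, .ofNat 0, .ofNat 0, .ofNat 0, .ofNat 0, .ofNat 0, .ofNat 0, .ofNat 0, .ofNat 0, .ofNat 0, .ofNat 0, .ofNat 120171405683500460288400658039006816524216303616, .ofNat 0, .ofNat 0, .ofNat 0⟩)
    (by decide +kernel)
theorem L00955 : Good (Phi V5.P V5.D (-1) 1) ⟨3, 2, 3, 5, 4, 14, 2, 0, 5, 9⟩ :=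
  leafX_sound T5.ok_mp T5.Ymp.bz_eq (w := 240) (c := ⟨⟨.negSucc 1519, .negSucc 115, .negSucc 30, .ofNat 63, .ofNat 87, .ofNat 119⟩, ⟨.negSucc 959, .ofNat 20, .negSucc 137, .ofNat 34, .ofNat 54, .ofNat 73⟩, ⟨.ofNat 1759, .ofNat 220, .ofNat 122, .negSucc 254, .negSucc 745, .ofNat 18⟩, ⟨.negSucc 3376, .negSucc 22, .ofNat 45, .ofNat 264, .ofNat 195, .ofNat 243⟩, ⟨.negSucc 1275, .negSucc 24, .negSucc 18, .negSucc 168, .ofNat 57, .ofNat 117⟩, .ofNat 1041, .negSucc 996, .ofNat 0, .negSucc 996, .ofNat 1957, .ofNat 0, .ofNat 128, .ofNat 202, .negSucc 43, .ofNat 0, .ofNat 177, .ofNat 3, .ofNat 0, .ofNat 0, .ofNat 1347, .ofNat 14726, .ofNat 19500787520875575476846304882600184169347804037120, .ofNat 0, .ofNat 12453460142524049015051338352212095393503117312, .ofNat 0, .ofNat 0, .ofNat 0, .ofNat 0, .ofNat 0, .ofNat 0, .ofNat 0, .ofNat 0, .ofNat 0, .ofNat 1011693531988560427153935197500519040886793033482240,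 .ofNat 0, .ofNat 873665628106566967222181972148370862463906742272, .ofNat 0⟩)
    (by decide +kernel)
theorem L00956 : Good (Phi V5.P V5.D (-1) 1) ⟨3, 2, 3, 5, 4, 15, 2, 0, 5, 9⟩ :=
  leafX_sound T5.ok_mp T5.Ymp.bz_eq (w := 239) (c := ⟨⟨.negSucc 1453, .negSucc 110, .negSucc 39, .ofNat 54, .ofNat 86, .ofNat 116⟩, ⟨.negSucc 923, .ofNat 19, .negSucc 120, .ofNat 31, .ofNat 53, .ofNat 73⟩, ⟨.ofNat 1359, .ofNat 179, .ofNat 201, .negSucc 196, .negSucc 507, .ofNat 36⟩, ⟨.negSucc 3116, .negSucc 23, .ofNat 50, .ofNat 235, .ofNat 224, .ofNat 234⟩, ⟨.negSucc 1418, .negSucc 33, .ofNat 1, .negSucc 150, .ofNat 9, .ofNat 124⟩, .ofNat 457, .negSucc 230, .ofNat 0, .negSucc 230, .ofNat 684, .ofNat 0, .ofNat 207, .ofNat 75, .negSucc 55, .ofNat 0, .ofNat 128, .ofNat 73, .ofNat 0, .ofNat 0, .ofNat 1219, .ofNat 11488, .ofNat 7356103209121054664202360775880325720905862873088, .ofNat 0, .ofNat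 19359843285630525806009700060395916998867943424, .ofNat 0, .ofNat 0, .ofNat 0, .ofNat 0, .ofNat 0, .ofNat 0, .ofNat 5860467938207027897293648041348973086596036296704, .ofNat 43957944831257012604338309384534807164122824704, .ofNat 0, .ofNat 0, .ofNat 18619742581377969425152353938932633478461267116032, .ofNat 768845074529686850175797346297745157784449581056, .ofNat 0⟩)
    (by decide +kernel)
theorem L00957 : Good (Phi V5.P V5.D (-1) 1) ⟨3, 3, 3, 4, 3, 6, 2, 0, 4, 4⟩ :=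
  leafX_sound T5.ok_mp T5.Ymp.bz_eq (w := 220) (c := ⟨⟨.negSucc 1919, .negSucc 203, .negSucc 50, .ofNat 153, .ofNat 142, .ofNat 282⟩, ⟨.negSucc 894, .ofNat 59, .negSucc 170, .ofNat 46, .ofNat 58, .ofNat 129⟩, ⟨.ofNat 2489, .ofNat 375, .ofNat 224, .negSucc 446, .negSucc 1049, .negSucc 72⟩, ⟨.negSucc 4276, .negSucc 102, .negSucc 25, .ofNat 491, .ofNat 293, .ofNat 594⟩, ⟨.negSucc 1072, .ofNat 0, .ofNat 21, .negSucc 310, .ofNat 70, .ofNat 173⟩, .ofNat 682, .negSucc 538, .ofNat 0, .negSucc 538, .ofNat 1538, .ofNat 0, .ofNat 279, .ofNat 128, .negSucc 89, .ofNat 0, .ofNat 127, .negSucc 6, .ofNat 0, .ofNat 0, .ofNat 1135, .ofNat 7292, .ofNat 0, .ofNat 0, .ofNat 0, .ofNat 0, .ofNat 0, .ofNat 0, .ofNat 0, .ofNat 0, .ofNat 0, .ofNat 0, .ofNat 0, .ofNat 0, .ofNat 25657694789912057502429321828047991571390398464, .ofNat 0, .ofNat 894416313106964574255999992814417741873152, .ofNat 0⟩)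
    (by decide +kernel)
theorem L00958 : Good (Phi V5.P V5.D (-1) 1) ⟨3, 3, 3, 4, 3, 7, 2, 0, 4, 4⟩ :=
  leafX_sound T5.ok_mp T5.Ymp.bz_eq (w := 220) (c := ⟨⟨.negSucc 1791, .negSucc 151, .negSucc 51, .ofNat 162, .ofNat 133, .ofNat 301⟩, ⟨.negSucc 848, .ofNat 60, .negSucc 149, .ofNat 50, .ofNat 52, .ofNat 132⟩, ⟨.ofNat 1908, .ofNat 239, .ofNat 131, .negSucc 668, .negSucc 633, .negSucc 119⟩, ⟨.negSucc 3802, .negSucc 33, .ofNat 6, .ofNat 460, .ofNat 318, .ofNat 592⟩, ⟨.negSucc 1378, .negSucc 38, .ofNat 10, .negSucc 220, .negSucc 21, .ofNat 216⟩, .ofNat 1046, .negSucc 1183, .ofNat 0, .negSucc 1183, .ofNat 2942, .ofNat 0, .ofNat 199, .ofNat 128, .negSucc 46, .ofNat 0, .ofNat 105, .ofNat 0, .ofNat 0, .ofNat 0, .ofNat 1015, .ofNat 5765, .ofNat 0, .ofNat 0, .ofNat 3261251052541591621880263899230041538560, .ofNat 0, .ofNat 0, .ofNat 0, .ofNat 0, .ofNat 0, .ofNat 0, .ofNat 0, .ofNat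 181634358775970349857965325847299360817152, .ofNat 0, .ofNat 3917871105971474443265506617238183690217979904, .ofNat 0, .ofNat 655399346515529258178836718358440848654336, .ofNat 0⟩)
    (by decide +kernel)
theorem L00959 : Good (Phi V5.P V5.D (-1) 1) ⟨3, 3, 3, 5, 2, 3, 2, 0, 4, 4⟩ :=
  out_sound (S := T5.ds_mp) T5.ok_mp (w := 45) (j := 3) (by decide +kernel)
theorem L00960 : Good (Phi V5.P V5.D (-1) 1) ⟨2, 1, 2, 2, 2, 2, 3, 2, 4, 4⟩ :=
  leafX_sound T5.ok_mp T5.Ymp.bz_eq (w := 204) (c := ⟨⟨.negSucc 1622, .negSucc 368, .negSucc 46, .ofNat 45, .ofNat 61, .ofNat 197⟩, ⟨.negSucc 870, .ofNat 73, .negSucc 325, .ofNat 12, .ofNat 39, .ofNat 105⟩, ⟨.ofNat 1448, .ofNat 522, .ofNat 155, .negSucc 245, .negSucc 282, .negSucc 20⟩, ⟨.negSucc 4155, .negSucc 189, .ofNat 8, .ofNat 294, .ofNat 127, .ofNat 439⟩, ⟨.negSucc 613, .ofNat 40, .ofNat 21, .negSucc 356, .ofNat 79, .ofNat 124⟩, .ofNat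 419, .negSucc 186, .ofNat 0, .negSucc 186, .ofNat 668, .ofNat 0, .ofNat 263, .ofNat 85, .negSucc 82, .ofNat 0, .ofNat 128, .ofNat 2, .ofNat 0, .ofNat 0, .ofNat 696, .ofNat 9016, .ofNat 0, .ofNat 0, .ofNat 2731122670483497236216555609866108928, .ofNat 0, .ofNat 0, .ofNat 0, .ofNat 622913469429672285833539359496908832768, .ofNat 0, .ofNat 0, .ofNat 0, .ofNat 25019738624864423348453495521759199232, .ofNat 0, .ofNat 0, .ofNat 0, .ofNat 564994228897877692613088269635023798272, .ofNat 0⟩)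
    (by decide +kernel)
theorem L00961 : Good (Phi V5.P V5.D (-1) 1) ⟨2, 1, 2, 2, 2, 2, 3, 3, 4, 4⟩ :=
  leafX_sound T5.ok_mp T5.Ymp.bz_eq (w := 203) (c := ⟨⟨.negSucc 1563, .negSucc 354, .negSucc 18, .ofNat 56, .ofNat 80, .ofNat 191⟩, ⟨.negSucc 822, .ofNat 73, .negSucc 329, .ofNat 12, .ofNat 42, .ofNat 98⟩, ⟨.ofNat 1267, .ofNat 418, .ofNat 61, .negSucc 293, .negSucc 234, .negSucc 69⟩, ⟨.negSucc 4005, .negSucc 162, .ofNat 34, .ofNat 275, .ofNat 154, .ofNat 428⟩, ⟨.negSucc 547, .ofNat 29, .negSucc 2, .negSucc 290, .ofNat 96, .ofNat 108⟩, .ofNat 413, .negSucc 179, .ofNat 0, .negSucc 179, .ofNat 666, .ofNat 0, .ofNat 292, .ofNat 85, .negSucc 84, .ofNat 0, .ofNat 128, .negSucc 0, .ofNat 0, .ofNat 0, .ofNat 617, .ofNat 4172, .ofNat 0, .ofNat 0, .ofNat 0, .ofNat 0, .ofNat 0, .ofNat 0, .ofNat 0, .ofNat 0, .ofNat 0, .ofNat 0, .ofNat 318465469563892271014989994315636277248, .ofNat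 0, .ofNat 0, .ofNat 0, .ofNat 235621952653714445830429056257008599040, .ofNat 0⟩)
    (by decide +kernel)
theorem L00962 : Good (Phi V5.P V5.D (-1) 1) ⟨3, 2, 3, 4, 2, 3, 3, 2, 4, 4⟩ :=
  leafX_sound T5.ok_mp T5.Ymp.bz_eq (w := 209) (c := ⟨⟨.negSucc 1625, .negSucc 113, .negSucc 36, .ofNat 236, .ofNat 80, .ofNat 238⟩, ⟨.negSucc 883, .ofNat 34, .negSucc 147, .ofNat 108, .ofNat 47, .ofNat 136⟩, ⟨.ofNat 1238, .ofNat 153, .ofNat 92, .negSucc 554, .negSucc 213, .negSucc 85⟩, ⟨.negSucc 3943, .ofNat 3, .ofNat 30, .ofNat 950, .ofNat 153, .ofNat 511⟩, ⟨.negSucc 984, .negSucc 27, .negSucc 18, .negSucc 613, .ofNat 100, .ofNat 200⟩, .ofNat 437, .negSucc 200, .ofNat 0, .negSucc 200, .ofNat 670, .ofNat 0, .ofNat 183, .ofNat 76, .negSucc 60, .ofNat 0, .ofNat 128, .ofNat 21, .ofNat 0, .ofNat 0, .ofNat 632, .ofNat 2848, .ofNat 0, .ofNat 0, .ofNat 0, .ofNat 0, .ofNat 0, .ofNat 0, .ofNat 0,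 .ofNat 0, .ofNat 0, .ofNat 95578152564964668826755362091900608708608, .ofNat 0, .ofNat 0, .ofNat 0, .ofNat 167621107923270397476173330803311004090368, .ofNat 0, .ofNat 0⟩)
    (by decide +kernel)
theorem L00963 : Good (Phi V5.P V5.D (-1) 1) ⟨3, 2, 3, 4, 2, 3, 3, 3, 4, 4⟩ :=
  leafX_sound T5.ok_mp T5.Ymp.bz_eq (w := 209) (c := ⟨⟨.negSucc 1581, .negSucc 82, .negSucc 37, .ofNat 275, .ofNat 114, .ofNat 242⟩, ⟨.negSucc 851, .ofNat 46, .negSucc 144, .ofNat 125, .ofNat 68, .ofNat 134⟩, ⟨.ofNat 1006, .ofNat 82, .ofNat 78, .negSucc 418, .negSucc 171, .negSucc 76⟩, ⟨.negSucc 3870, .ofNat 87, .ofNat 30, .ofNat 1010, .ofNat 201, .ofNat 514⟩, ⟨.negSucc 884, .negSucc 41, .negSucc 29, .negSucc 570, .ofNat 173, .ofNat 216⟩, .ofNat 825, .negSucc 690, .ofNat 0, .negSucc 690, .ofNat 1634, .ofNat 0, .ofNat 196, .ofNat 128, .negSucc 31, .ofNat 0, .ofNat 124, .ofNat 2, .ofNat 0, .ofNat 0, .ofNat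 573, .ofNat 1478, .ofNat 0, .ofNat 0, .ofNat 0, .ofNat 0, .ofNat 0, .ofNat 0, .ofNat 0, .ofNat 0, .ofNat 0, .ofNat 129488488167640295788310825446714141310976, .ofNat 0, .ofNat 0, .ofNat 0, .ofNat 190953837722249586667889671309547228102656, .ofNat 0, .ofNat 0⟩)
    (by decide +kernel)
theorem L00964 : Good (Phi V5.P V5.D (-1) 1) ⟨3, 2, 3, 5, 3, 6, 2, 1, 4, 4⟩ :=
  leafX_sound T5.ok_mp T5.Ymp.bz_eq (w := 220) (c := ⟨⟨.negSucc 1639, .negSucc 130, .negSucc 33, .ofNat 102, .ofNat 161, .ofNat 228⟩, ⟨.negSucc 1030, .ofNat 20, .negSucc 149, .ofNat 57, .ofNat 101, .ofNat 139⟩, ⟨.ofNat 1320, .ofNat 190, .ofNat 127, .negSucc 252, .negSucc 511, .negSucc 78⟩, ⟨.negSucc 3845, .negSucc 4, .ofNat 21, .ofNat 391, .ofNat 241, .ofNat 458⟩, ⟨.negSucc 1059, .negSucc 38, .negSucc 6, .negSucc 211, .ofNat 305, .ofNat 233⟩, .ofNat 2101, .negSucc 2645, .ofNat 0, .negSucc 2645, .ofNat 4748, .ofNat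 0, .ofNat 128, .ofNat 414, .negSucc 33, .ofNat 0, .ofNat 296, .negSucc 14, .ofNat 0, .ofNat 0, .ofNat 567, .ofNat 3212, .ofNat 0, .ofNat 0, .ofNat 1017846885791852316015631713146341687296, .ofNat 0, .ofNat 0, .ofNat 0, .ofNat 0, .ofNat 0, .ofNat 0, .ofNat 0, .ofNat 0, .ofNat 0, .ofNat 0, .ofNat 69805264036174048412403916829187028201504768, .ofNat 3504153850490018428613521740206476099584, .ofNat 0⟩)
    (by decide +kernel)

end Crest.Agent.R097C5.N5mp
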