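import Crest.Agent.R097.KP7
import Crest.Agent.R097.T5Ymp

/-!
# Row 97, box cover in dimension n = 5 (generated)
-/

set_option autoImplicit false
set_option Elab.async false
set_option maxHeartbeats 0
set_option maxRecDepth 100000

open Crest.Agent.R097 Crest.Agent.R097.KA


namespace Crest.Agent.R097C5.N5mp

theorem L00965 : Good (Phi V5.P V5.D (-1) 1) ⟨3, 2, 3, 5, 3, 7, 2, 1, 4, 4⟩ :=
  leafX_sound T5.ok_mp T5.Ymp.bz_eq (w := 221) (c := ⟨⟨.negSucc 1574, .negSucc 94, .negSucc 45, .ofNat 143, .ofNat 212, .ofNat 251⟩, ⟨.negSucc 994, .ofNat 29, .negSucc 130, .ofNat 82, .ofNat 133, .ofNat 156⟩, ⟨.ofNat 1031, .ofNat 42, .ofNat 99, .negSucc 172, .negSucc 291, .negSucc 44⟩, ⟨.negSucc 3505, .ofNat 128, .ofNat 87, .ofNat 553, .ofNat 357, .ofNat 475⟩, ⟨.negSucc 1315, .negSucc 187, .negSucc 90, .negSucc 291, .ofNat 341, .ofNat 314⟩, .ofNat 2926, .negSucc 3858, .ofNat 0, .negSucc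 3858, .ofNat 6472, .ofNat 0, .ofNat 128, .ofNat 442, .negSucc 31, .ofNat 0, .ofNat 313, .negSucc 5, .ofNat 0, .ofNat 0, .ofNat 1428, .ofNat 5743, .ofNat 0, .ofNat 0, .ofNat 9837943128041943500462279521650851446784, .ofNat 0, .ofNat 0, .ofNat 55651187863904132119326245072141302255058944, .ofNat 665752782511589638960789548187152157769728, .ofNat 0, .ofNat 0, .ofNat 684552496271207427753052180615284438291447808, .ofNat 1484965840447886080281628145814917106106368, .ofNat 0, .ofNat 0, .ofNat 1094329456285371717275220660968090656409911296, .ofNat 553379731108865822865658008796396494258176, .ofNat 0⟩)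
    (by decide +kernel)
theorem L00966 : Good (Phi V5.P V5.D (-1) 1) ⟨3, 3, 3, 4, 2, 3, 3, 2, 4, 4⟩ :=
  leafX_sound T5.ok_mp T5.Ymp.bz_eq (w := 210) (c := ⟨⟨.negSucc 1822, .negSucc 157, .negSucc 59, .ofNat 349, .ofNat 114, .ofNat 301⟩, ⟨.negSucc 845, .ofNat 67, .negSucc 154, .ofNat 109, .ofNat 50, .ofNat 127⟩, ⟨.ofNat 1503, .ofNat 237, .ofNat 163, .negSucc 742, .negSucc 271, .negSucc 149⟩, ⟨.negSucc 4039, .negSucc 47, .ofNat 18, .ofNat 1112, .ofNat 229, .ofNat 571⟩, ⟨.negSucc 1026, .ofNat 24, .negSucc 43, .negSucc 686, .ofNat 75, .ofNat 249⟩, .ofNat 676, .negSucc 529, .ofNat 0, .negSucc 529, .ofNat 1530, .ofNat 0, .ofNat 246, .ofNat 124, .negSucc 53, .ofNat 0, .ofNat 128, .ofNat 2, .ofNat 0, .ofNat 0, .ofNat 722, .ofNat 3536, .ofNat 0, .ofNat 0, .ofNat 0, .ofNat 0, .ofNat 0, .ofNat 0, .ofNat 0, .ofNat 0, .ofNat 0, .ofNat 22830496547840953963253425929788340568064,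 .ofNat 227292648128939554122295261284475600896, .ofNat 0, .ofNat 0, .ofNat 169130298700751569548654417761467497447424, .ofNat 0, .ofNat 0⟩)
    (by decide +kernel)
theorem L00967 : Good (Phi V5.P V5.D (-1) 1) ⟨3, 3, 3, 5, 2, 3, 3, 2, 4, 4⟩ :=
  out_sound (S := T5.ds_mp) T5.ok_mp (w := 45) (j := 3) (by decide +kernel)
theorem L00968 : Good (Phi V5.P V5.D (-1) 1) ⟨3, 3, 2, 2, 2, 3, 3, 3, 4, 4⟩ :=
  leafX_sound T5.ok_mp T5.Ymp.bz_eq (w := 206) (c := ⟨⟨.negSucc 1745, .negSucc 114, .negSucc 59, .ofNat 390, .ofNat 130, .ofNat 292⟩, ⟨.negSucc 819, .ofNat 72, .negSucc 295, .ofNat 136, .ofNat 72, .ofNat 141⟩, ⟨.ofNat 1205, .ofNat 102, .ofNat 147, .negSucc 590, .negSucc 235, .negSucc 151⟩, ⟨.negSucc 3910, .ofNat 41, .ofNat 36, .ofNat 1204, .ofNat 235, .ofNat 591⟩, ⟨.negSucc 925, .negSucc 27, .negSucc 0, .negSucc 660, .ofNat 191, .ofNat 237⟩, .ofNat 399, .negSucc 168, .ofNat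 0, .negSucc 168, .ofNat 666, .ofNat 0, .ofNat 202, .ofNat 73, .negSucc 64, .ofNat 0, .ofNat 128, .ofNat 21, .ofNat 0, .ofNat 0, .ofNat 591, .ofNat 1221, .ofNat 0, .ofNat 0, .ofNat 0, .ofNat 0, .ofNat 0, .ofNat 6381840820317651992718955815049334095872, .ofNat 37924317215794224912350320018656854016, .ofNat 0, .ofNat 0, .ofNat 8911548306893618488648018925461868380160, .ofNat 30537863874681477841317338323794001920, .ofNat 0, .ofNat 0, .ofNat 25449180497559237863341041310084854972416, .ofNat 48822272642889183285602696863233867776, .ofNat 0⟩)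
    (by decide +kernel)
theorem L00969 : Good (Phi V5.P V5.D (-1) 1) ⟨2, 1, 2, 2, 2, 2, 2, 0, 4, 5⟩ :=
  leafX_sound T5.ok_mp T5.Ymp.bz_eq (w := 201) (c := ⟨⟨.negSucc 1667, .negSucc 317, .negSucc 48, .ofNat 146, .ofNat 147, .ofNat 214⟩, ⟨.negSucc 839, .ofNat 87, .negSucc 311, .ofNat 50, .ofNat 40, .ofNat 107⟩, ⟨.ofNat 2588, .ofNat 616, .ofNat 256, .negSucc 431, .negSucc 1048, .negSucc 0⟩, ⟨.negSucc 4200, .negSucc 105, .negSucc 1, .ofNat 551, .ofNat 271, .ofNat 452⟩, ⟨.negSucc 562, .ofNat 31, .ofNat 25, .negSucc 392, .ofNat 103, .ofNat 165⟩, .ofNat 421, .negSucc 188, .ofNat 0, .negSucc 188, .ofNat 669, .ofNat 0, .ofNat 362, .ofNat 78, .negSucc 68, .ofNat 0, .ofNat 128, .ofNat 17, .ofNat 0, .ofNat 0, .ofNat 1108, .ofNat 18523, .ofNat 2920562154336625460546678965832893071360, .ofNat 0, .ofNat 453109766730627578156334564453122048, .ofNat 0, .ofNat 0, .ofNat 0, .ofNat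 0, .ofNat 0, .ofNat 0, .ofNat 0, .ofNat 0, .ofNat 0, .ofNat 185441949994359448999028707530511247998976, .ofNat 0, .ofNat 33573005146742002005786172184674172928, .ofNat 0⟩)
    (by decide +kernel)
theorem L00970 : Good (Phi V5.P V5.D (-1) 1) ⟨2, 1, 2, 2, 3, 6, 2, 0, 4, 5⟩ :=
  leafX_sound T5.ok_mp T5.Ymp.bz_eq (w := 213) (c := ⟨⟨.negSucc 1499, .negSucc 257, .negSucc 63, .ofNat 118, .ofNat 108, .ofNat 209⟩, ⟨.negSucc 813, .ofNat 83, .negSucc 285, .ofNat 57, .ofNat 57, .ofNat 117⟩, ⟨.ofNat 2100, .ofNat 518, .ofNat 270, .negSucc 330, .negSucc 948, .ofNat 6⟩, ⟨.negSucc 3625, .negSucc 26, .ofNat 35, .ofNat 431, .ofNat 214, .ofNat 446⟩, ⟨.negSucc 959, .negSucc 12, .ofNat 1, .negSucc 234, .ofNat 122, .ofNat 191⟩, .ofNat 419, .negSucc 186, .ofNat 0, .negSucc 186, .ofNat 668, .ofNat 0, .ofNat 230, .ofNat 72, .negSucc 50, .ofNat 0, .ofNat 128, .ofNat 25, .ofNat 0, .ofNat 0,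 .ofNat 1037, .ofNat 4216, .ofNat 4336318841965710474518016892354567340032000, .ofNat 0, .ofNat 3253079741679396221496256117527814340608, .ofNat 0, .ofNat 0, .ofNat 0, .ofNat 0, .ofNat 0, .ofNat 0, .ofNat 0, .ofNat 0, .ofNat 0, .ofNat 240643748910131236117380170127428523627905024, .ofNat 3565853131088939388706261589290006008037376, .ofNat 765330128600875469347704728912523392188416, .ofNat 0⟩)
    (by decide +kernel)
theorem L00971 : Good (Phi V5.P V5.D (-1) 1) ⟨2, 1, 2, 2, 3, 7, 2, 0, 4, 5⟩ :=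
  leafX_sound T5.ok_mp T5.Ymp.bz_eq (w := 212) (c := ⟨⟨.negSucc 1379, .negSucc 225, .negSucc 62, .ofNat 139, .ofNat 100, .ofNat 211⟩, ⟨.negSucc 757, .ofNat 87, .negSucc 264, .ofNat 54, .ofNat 51, .ofNat 111⟩, ⟨.ofNat 1659, .ofNat 447, .ofNat 264, .negSucc 509, .negSucc 812, .ofNat 144⟩, ⟨.negSucc 3182, .ofNat 10, .ofNat 103, .ofNat 470, .ofNat 200, .ofNat 403⟩, ⟨.negSucc 1178, .negSucc 55, .negSucc 41, .negSucc 253, .ofNat 99, .ofNat 267⟩, .ofNat 416, .negSucc 183, .ofNat 0, .negSucc 183, .ofNat 668, .ofNat 0, .ofNat 244, .ofNat 65, .negSucc 37, .ofNat 0, .ofNat 128, .ofNat 39, .ofNat 0, .ofNat 0, .ofNat 987, .ofNat 3543, .ofNat 984814404536049850839054082730377726656512, .ofNat 0, .ofNat 23400383403677469625176307240683786207232, .ofNat 0, .ofNat 0, .ofNat 0, .ofNat 0, .ofNat 0, .ofNat 0, .ofNat 2059549592485908813328376892068085289189376, .ofNat 44339104787998759300240104900378541162496,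 .ofNat 0, .ofNat 66030195088101808482814809785106730969989120, .ofNat 6207581456368472481327537133941695818235904, .ofNat 1052594503283648197096063798868673420066816, .ofNat 0⟩)
    (by decide +kernel)
theorem L00972 : Good (Phi V5.P V5.D (-1) 1) ⟨2, 1, 2, 2, 3, 4, 4, 4, 6, 20⟩ :=
  leafX_sound T5.ok_mp T5.Ymp.bz_eq (w := 234) (c := ⟨⟨.negSucc 1453, .negSucc 352, .negSucc 42, .ofNat 13, .ofNat 44, .ofNat 47⟩, ⟨.negSucc 758, .ofNat 72, .negSucc 320, .negSucc 1, .ofNat 11, .ofNat 20⟩, ⟨.ofNat 1463, .ofNat 594, .ofNat 162, .negSucc 106, .negSucc 211, .ofNat 4⟩, ⟨.negSucc 3737, .negSucc 175, .negSucc 3, .ofNat 108, .ofNat 79, .ofNat 104⟩, ⟨.negSucc 504, .ofNat 52, .ofNat 19, .negSucc 148, .ofNat 23, .ofNat 23⟩, .ofNat 188, .negSucc 31, .ofNat 0, .negSucc 31, .ofNat 231, .ofNat 0, .ofNat 302, .ofNat 30, .negSucc 115, .ofNat 0, .ofNat 128, .ofNat 39, .ofNat 0, .ofNat 0,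 .ofNat 623, .ofNat 36419, .ofNat 16483087043449155556477514784316154581753004032, .ofNat 0, .ofNat 2968368559043776552265983750483099990951460864, .ofNat 0, .ofNat 0, .ofNat 0, .ofNat 0, .ofNat 0, .ofNat 0, .ofNat 0, .ofNat 0, .ofNat 0, .ofNat 21153096123338930119414431507907146119825588224, .ofNat 0, .ofNat 142200952074492847190531830707663472073998598144, .ofNat 0⟩)
    (by decide +kernel)
theorem L00973 : Good (Phi V5.P V5.D (-1) 1) ⟨2, 1, 2, 2, 3, 4, 4, 4, 6, 21⟩ :=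
  leafX_sound T5.ok_mp T5.Ymp.bz_eq (w := 235) (c := ⟨⟨.negSucc 1422, .negSucc 319, .negSucc 44, .ofNat 27, .ofNat 34, .ofNat 41⟩, ⟨.negSucc 756, .ofNat 78, .negSucc 298, .ofNat 5, .ofNat 19, .ofNat 28⟩, ⟨.ofNat 1509, .ofNat 543, .ofNat 146, .negSucc 128, .negSucc 212, .ofNat 9⟩, ⟨.negSucc 3678, .negSucc 120, .ofNat 6, .ofNat 140, .ofNat 74, .ofNat 99⟩, ⟨.negSucc 486, .ofNat 44, .ofNat 16, .negSucc 141, .ofNat 27, .ofNat 27⟩, .ofNat 188, .negSucc 32, .ofNat 0, .negSucc 32, .ofNat 231, .ofNat 0, .ofNat 269, .ofNat 30, .negSucc 111, .ofNat 0, .ofNat 128, .ofNat 41, .ofNat 0, .ofNat 0, .ofNat 678, .ofNat 60867, .ofNat 111217659531219446441370103006934522716764504064, .ofNat 0, .ofNat 2895302676538495627749250816601089250191998976, .ofNat 0, .ofNat 0, .ofNat 0, .ofNat 0, .ofNat 0, .ofNat 0, .ofNat 0, .ofNat 0, .ofNat 0, .ofNat 448435621538324059389005173075271227189416165376,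 .ofNat 0, .ofNat 179311827983543741676081267687891478860028444672, .ofNat 0⟩)
    (by decide +kernel)
theorem L00974 : Good (Phi V5.P V5.D (-1) 1) ⟨2, 1, 2, 2, 3, 4, 4, 4, 5, 11⟩ :=
  leafX_sound T5.ok_mp T5.Ymp.bz_eq (w := 231) (c := ⟨⟨.negSucc 1440, .negSucc 296, .negSucc 43, .ofNat 77, .ofNat 44, .ofNat 73⟩, ⟨.negSucc 706, .ofNat 83, .negSucc 287, .negSucc 13, .ofNat 3, .ofNat 61⟩, ⟨.ofNat 1578, .ofNat 512, .ofNat 145, .negSucc 191, .negSucc 209, .ofNat 32⟩, ⟨.negSucc 3640, .negSucc 83, .ofNat 7, .ofNat 195, .ofNat 70, .ofNat 186⟩, ⟨.negSucc 466, .ofNat 40, .ofNat 15, .negSucc 137, .ofNat 32, .ofNat 57⟩, .ofNat 187, .negSucc 31, .ofNat 0, .negSucc 31, .ofNat 231, .ofNat 0, .ofNat 272, .ofNat 28, .negSucc 77, .ofNat 0, .ofNat 128, .ofNat 32, .ofNat 0, .ofNat 0, .ofNat 544, .ofNat 110876, .ofNat 58920504279725695081021088923698382047293734912, .ofNat 0, .ofNat 0,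 .ofNat 0, .ofNat 0, .ofNat 0, .ofNat 0, .ofNat 0, .ofNat 40887187505303679450618691366725046703021359104, .ofNat 0, .ofNat 0, .ofNat 0, .ofNat 62458753417156346648346459666734459744335953920, .ofNat 0, .ofNat 4049392574324048212691938200071813871028928512, .ofNat 0⟩)
    (by decide +kernel)
theorem L00975 : Good (Phi V5.P V5.D (-1) 1) ⟨3, 2, 2, 2, 3, 4, 4, 5, 5, 10⟩ :=
  leafX_sound T5.ok_mp T5.Ymp.bz_eq (w := 234) (c := ⟨⟨.negSucc 1419, .negSucc 143, .negSucc 37, .ofNat 9, .ofNat 33, .ofNat 79⟩, ⟨.negSucc 747, .ofNat 18, .negSucc 303, .ofNat 3, .ofNat 18, .ofNat 45⟩, ⟨.ofNat 1311, .ofNat 219, .ofNat 99, .negSucc 96, .negSucc 144, .negSucc 3⟩, ⟨.negSucc 3669, .negSucc 54, .ofNat 6, .ofNat 97, .ofNat 68, .ofNat 186⟩, ⟨.negSucc 484, .ofNat 16, .ofNat 10, .negSucc 128, .ofNat 32, .ofNat 46⟩, .ofNat 437, .negSucc 201, .ofNat 0, .negSucc 201, .ofNat 671, .ofNat 0, .ofNat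 172, .ofNat 87, .negSucc 56, .ofNat 0, .ofNat 128, .ofNat 0, .ofNat 0, .ofNat 0, .ofNat 689, .ofNat 58487, .ofNat 63418982285931941610938051099300935297174339584, .ofNat 0, .ofNat 17241232446672565285051896700844648073003008, .ofNat 0, .ofNat 0, .ofNat 0, .ofNat 0, .ofNat 0, .ofNat 0, .ofNat 0, .ofNat 0, .ofNat 0, .ofNat 0, .ofNat 0, .ofNat 1418901869162718789054796993465096618259775488, .ofNat 0⟩)
    (by decide +kernel)
theorem L00976 : Good (Phi V5.P V5.D (-1) 1) ⟨3, 3, 2, 2, 3, 4, 4, 5, 5, 10⟩ :=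
  leafX_sound T5.ok_mp T5.Ymp.bz_eq (w := 234) (c := ⟨⟨.negSucc 1585, .negSucc 199, .negSucc 44, .ofNat 29, .ofNat 39, .ofNat 101⟩, ⟨.negSucc 727, .ofNat 65, .negSucc 313, .ofNat 4, .ofNat 19, .ofNat 45⟩, ⟨.ofNat 1572, .ofNat 298, .ofNat 140, .negSucc 129, .negSucc 183, .negSucc 27⟩, ⟨.negSucc 3752, .negSucc 79, .negSucc 20, .ofNat 122, .ofNat 81, .ofNat 221⟩, ⟨.negSucc 463, .ofNat 29, .ofNat 18, .negSucc 128, .ofNat 30, .ofNat 39⟩, .ofNat 396, .negSucc 165, .ofNat 0, .negSucc 165, .ofNat 665, .ofNat 0, .ofNat 209, .ofNat 81, .negSucc 64, .ofNat 0, .ofNat 128, .ofNat 2, .ofNat 0, .ofNat 0, .ofNat 697, .ofNat 57977, .ofNat 73490113036521744524640018151062461594441089024, .ofNat 0, .ofNat 36023945067829521685456148649434391867555840, .ofNat 0, .ofNat 0, .ofNat 0, .ofNat 0, .ofNat 0, .ofNat 0, .ofNat 0, .ofNat 565135654929699360119066242632961105185472512, .ofNat 0,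 .ofNat 0, .ofNat 0, .ofNat 2407309113258069579065686724735308099907223552, .ofNat 0⟩)
    (by decide +kernel)
theorem L00977 : Good (Phi V5.P V5.D (-1) 1) ⟨2, 1, 2, 2, 3, 4, 4, 5, 5, 11⟩ :=
  leafX_sound T5.ok_mp T5.Ymp.bz_eq (w := 229) (c := ⟨⟨.negSucc 1352, .negSucc 299, .negSucc 41, .ofNat 35, .ofNat 33, .ofNat 69⟩, ⟨.negSucc 727, .ofNat 91, .negSucc 288, .ofNat 10, .ofNat 23, .ofNat 44⟩, ⟨.ofNat 1380, .ofNat 437, .ofNat 62, .negSucc 148, .negSucc 191, .ofNat 5⟩, ⟨.negSucc 3521, .negSucc 66, .ofNat 3, .ofNat 138, .ofNat 73, .ofNat 176⟩, ⟨.negSucc 455, .ofNat 36, .ofNat 8, .negSucc 109, .ofNat 40, .ofNat 46⟩, .ofNat 188, .negSucc 31, .ofNat 0, .negSucc 31, .ofNat 230, .ofNat 0, .ofNat 261, .ofNat 30, .negSucc 111, .ofNat 0, .ofNat 128, .ofNat 36, .ofNat 0, .ofNat 0, .ofNat 801, .ofNat 46533, .ofNat 27115462171919956853243398699442824975094906880, .ofNat 0, .ofNat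 0, .ofNat 0, .ofNat 0, .ofNat 0, .ofNat 0, .ofNat 0, .ofNat 0, .ofNat 0, .ofNat 0, .ofNat 0, .ofNat 11448263553477842336750825432015341367221813248, .ofNat 0, .ofNat 6693141228759136914201962898640578087913259008, .ofNat 0⟩)
    (by decide +kernel)
theorem L00978 : Good (Phi V5.P V5.D (-1) 1) ⟨2, 1, 2, 2, 3, 5, 3, 2, 4, 5⟩ :=
  leafX_sound T5.ok_mp T5.Ymp.bz_eq (w := 218) (c := ⟨⟨.negSucc 1459, .negSucc 284, .negSucc 47, .ofNat 85, .ofNat 65, .ofNat 191⟩, ⟨.negSucc 774, .ofNat 83, .negSucc 303, .ofNat 32, .ofNat 33, .ofNat 95⟩, ⟨.ofNat 1387, .ofNat 464, .ofNat 203, .negSucc 205, .negSucc 354, .negSucc 14⟩, ⟨.negSucc 3667, .negSucc 49, .negSucc 3, .ofNat 275, .ofNat 123, .ofNat 414⟩, ⟨.negSucc 667, .ofNat 20, .ofNat 5, .negSucc 144, .ofNat 85, .ofNat 133⟩, .ofNat 414, .negSucc 179, .ofNat 0, .negSucc 179, .ofNat 666, .ofNat 0, .ofNat 223, .ofNat 78, .negSucc 46, .ofNat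 0, .ofNat 128, .ofNat 8, .ofNat 0, .ofNat 0, .ofNat 742, .ofNat 11257, .ofNat 0, .ofNat 0, .ofNat 55707785804298948854490419739816638808064, .ofNat 0, .ofNat 0, .ofNat 0, .ofNat 0, .ofNat 0, .ofNat 0, .ofNat 0, .ofNat 6181341313186068710689423584751222836428800, .ofNat 0, .ofNat 0, .ofNat 0, .ofNat 5781130301061505836497179048933636488298496, .ofNat 0⟩)
    (by decide +kernel)
theorem L00979 : Good (Phi V5.P V5.D (-1) 1) ⟨2, 1, 2, 2, 2, 2, 3, 3, 4, 5⟩ :=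
  leafX_sound T5.ok_mp T5.Ymp.bz_eq (w := 202) (c := ⟨⟨.negSucc 1413, .negSucc 303, .negSucc 32, .ofNat 102, .ofNat 82, .ofNat 170⟩, ⟨.negSucc 744, .ofNat 87, .negSucc 299, .ofNat 37, .ofNat 40, .ofNat 85⟩, ⟨.ofNat 1279, .ofNat 368, .ofNat 51, .negSucc 339, .negSucc 293, .negSucc 81⟩, ⟨.negSucc 3637, .negSucc 73, .ofNat 1, .ofNat 341, .ofNat 149, .ofNat 373⟩, ⟨.negSucc 475, .ofNat 36, .negSucc 15, .negSucc 194, .ofNat 100, .ofNat 105⟩, .ofNat 418, .negSucc 186, .ofNat 0, .negSucc 186, .ofNat 669, .ofNat 0, .ofNat 183, .ofNat 83, .negSucc 31, .ofNat 0, .ofNat 128, .ofNat 1, .ofNat 0, .ofNat 0, .ofNat 442, .ofNat 2615, .ofNat 0, .ofNat 0, .ofNat 0, .ofNat 0, .ofNat 0, .ofNat 0, .ofNat 0, .ofNat 0, .ofNat 0, .ofNat 0, .ofNat 0, .ofNat 0, .ofNat 0, .ofNat 714888624474992900600739713402290569216, .ofNat 83444344380505098499673451527093092352, .ofNat 0⟩)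
    (by decide +kernel)
theorem L00980 : Good (Phi V5.P V5.D (-1) 1) ⟨2, 1, 2, 2, 2, 3, 2, 1, 4, 5⟩ :=
  leafX_sound T5.ok_mp T5.Ymp.bz_eq (w := 197) (c := ⟨⟨.negSucc 1388, .negSucc 230, .negSucc 65, .ofNat 246, .ofNat 149, .ofNat 196⟩, ⟨.negSucc 751, .ofNat 89, .negSucc 266, .ofNat 102, .ofNat 81, .ofNat 100⟩, ⟨.ofNat 1188, .ofNat 336, .ofNat 193, .negSucc 588, .negSucc 597, .ofNat 9⟩, ⟨.negSucc 3400, .ofNat 36, .ofNat 48, .ofNat 857, .ofNat 229, .ofNat 393⟩, ⟨.negSucc 834, .negSucc 25, .negSucc 49, .negSucc 468, .ofNat 305, .ofNat 204⟩, .ofNat 420, .negSucc 188, .ofNat 0, .negSucc 188, .ofNat 669, .ofNat 0, .ofNat 148, .ofNat 74, .negSucc 34, .ofNat 0, .ofNat 128, .ofNat 22, .ofNat 0, .ofNat 0, .ofNat 834, .ofNat 1440, .ofNat 0, .ofNat 0, .ofNat 0, .ofNat 0, .ofNat 0, .ofNat 317622087646002751550623039680510164992, .ofNat 3334584507650286275171958517082882048, .ofNat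 0, .ofNat 0, .ofNat 542918586588157359295891916049105289216, .ofNat 5724380673277021954884478742149726208, .ofNat 0, .ofNat 0, .ofNat 1049099664213245428426184237600617791488, .ofNat 22449111693213887800084670005184036864, .ofNat 0⟩)
    (by decide +kernel)
theorem L00981 : Good (Phi V5.P V5.D (-1) 1) ⟨2, 1, 2, 2, 3, 4, 1, 0, 3, 3⟩ :=
  leafX_sound T5.ok_mp T5.Ymp.bz_eq (w := 205) (c := ⟨⟨.negSucc 1507, .negSucc 244, .negSucc 24, .ofNat 50, .ofNat 307, .ofNat 272⟩, ⟨.negSucc 812, .ofNat 96, .negSucc 264, .ofNat 14, .ofNat 181, .ofNat 132⟩, ⟨.ofNat 2263, .ofNat 294, .negSucc 18, .negSucc 139, .negSucc 1340, .negSucc 161⟩, ⟨.negSucc 3756, .ofNat 33, .ofNat 21, .ofNat 133, .ofNat 586, .ofNat 580⟩, ⟨.negSucc 749, .ofNat 32, .negSucc 7, .negSucc 40, .ofNat 450, .ofNat 183⟩, .ofNat 432, .negSucc 212, .ofNat 0, .negSucc 212, .ofNat 682, .ofNat 0, .ofNat 166, .ofNat 88, .negSucc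 18, .ofNat 0, .ofNat 128, .ofNat 3, .ofNat 0, .ofNat 0, .ofNat 803, .ofNat 4395, .ofNat 204923852925262419099169604176400477061120, .ofNat 0, .ofNat 0, .ofNat 0, .ofNat 0, .ofNat 0, .ofNat 0, .ofNat 0, .ofNat 0, .ofNat 0, .ofNat 0, .ofNat 0, .ofNat 4099522672000024000346374304800037046059008, .ofNat 0, .ofNat 159268196984539912476428288215679500288, .ofNat 0⟩)
    (by decide +kernel)
theorem L00982 : Good (Phi V5.P V5.D (-1) 1) ⟨2, 1, 2, 2, 3, 5, 1, 0, 3, 3⟩ :=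
  leafX_sound T5.ok_mp T5.Ymp.bz_eq (w := 203) (c := ⟨⟨.negSucc 1473, .negSucc 210, .negSucc 22, .ofNat 102, .ofNat 304, .ofNat 304⟩, ⟨.negSucc 791, .ofNat 92, .negSucc 256, .ofNat 49, .ofNat 174, .ofNat 159⟩, ⟨.ofNat 2194, .ofNat 272, .ofNat 50, .negSucc 185, .negSucc 1434, .negSucc 108⟩, ⟨.negSucc 3595, .ofNat 67, .ofNat 48, .ofNat 298, .ofNat 528, .ofNat 664⟩, ⟨.negSucc 845, .ofNat 26, .negSucc 0, .negSucc 82, .ofNat 510, .ofNat 221⟩, .ofNat 418, .negSucc 184, .ofNat 0, .negSucc 184, .ofNat 669, .ofNat 0, .ofNat 163, .ofNat 78, .negSucc 30, .ofNat 0, .ofNat 128, .ofNat 7, .ofNat 0, .ofNat 0, .ofNat 995, .ofNat 1533, .ofNat 78596783567239503349769269607019956928512, .ofNat 0, .ofNat 0, .ofNat 0, .ofNat 0, .ofNat 61447626474523222994046197387967080693760, .ofNat 227944821006772104614615152995464118272, .ofNat 0, .ofNat 0, .ofNat 0, .ofNat 0, .ofNat 0, .ofNat 3102115333772809909355901375661854215372800,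 .ofNat 123480470596662865756215509328021329805312, .ofNat 1042115606699235872660799465093798559744, .ofNat 0⟩)
    (by decide +kernel)
theorem L00983 : Good (Phi V5.P V5.D (-1) 1) ⟨2, 1, 2, 2, 2, 3, 1, 0, 3, 3⟩ :=
  leafX_sound T5.ok_mp T5.Ymp.bz_eq (w := 188) (c := ⟨⟨.negSucc 1336, .negSucc 200, .negSucc 38, .ofNat 238, .ofNat 243, .ofNat 1⟩, ⟨.negSucc 740, .ofNat 99, .negSucc 252, .ofNat 142, .ofNat 163, .ofNat 0⟩, ⟨.ofNat 2167, .ofNat 337, .ofNat 180, .negSucc 585, .negSucc 1818, .negSucc 0⟩, ⟨.negSucc 3235, .ofNat 83, .ofNat 45, .ofNat 762, .ofNat 428, .ofNat 1⟩, ⟨.negSucc 894, .ofNat 2, .ofNat 3, .negSucc 276, .ofNat 452, .ofNat 0⟩, .ofNat 415, .negSucc 181, .ofNat 0, .negSucc 181, .ofNat 667, .ofNat 0, .ofNat 161, .ofNat 73, .negSucc 24, .ofNat 0, .ofNat 128, .ofNat 21, .ofNat 0, .ofNat 0, .ofNat 1015, .ofNat 1160, .ofNat 17029159636645839858165955533108936704,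 .ofNat 922605252343334375047485403250556928, .ofNat 171518320231742807294411754438656, .ofNat 0, .ofNat 141083104091275701927067013583736930304, .ofNat 43607210604297874563671844945754324992, .ofNat 23582444190505586610073902101037056, .ofNat 0, .ofNat 105730073095891594122366818768478273536, .ofNat 27061643551125884208613439748714790912, .ofNat 14333955495729813987088820485488640, .ofNat 0, .ofNat 1392653666605348314010171983842542354432, .ofNat 197662297266860117525055275339182243840, .ofNat 108544639169712322247003972487348224, .ofNat 0⟩)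
    (by decide +kernel)
theorem L00984 : Good (Phi V5.P V5.D (-1) 1) ⟨1, 0, 2, 3, 1, 1, 1, 0, 2, 1⟩ :=
  out_sound (S := T5.ds_mp) T5.ok_mp (w := 31) (j := 3) (by decide +kernel)
theorem L00985 : Good (Phi V5.P V5.D (-1) 1) ⟨1, 0, 1, 1, 3, 4, 1, 0, 3, 4⟩ :=
  out_sound (S := T5.ds_mp) T5.ok_mp (w := 23) (j := 1) (by decide +kernel)
theorem L00986 : Good (Phi V5.P V5.D (-1) 1) ⟨1, 0, 1, 1, 3, 5, 1, 0, 3, 4⟩ :=
  out_sound (S := T5.ds_mp) T5.ok_mp (w := 28) (j := 2) (by decide +kernel)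
theorem L00987 : Good (Phi V5.P V5.D (-1) 1) ⟨1, 0, 1, 1, 2, 2, 1, 0, 3, 5⟩ :=
  out_sound (S := T5.ds_mp) T5.ok_mp (w := 21) (j := 1) (by decide +kernel)
theorem L00988 : Good (Phi V5.P V5.D (-1) 1) ⟨1, 0, 1, 1, 2, 2, 1, 0, 2, 3⟩ :=
  out_sound (S := T5.ds_mp) T5.ok_mp (w := 19) (j := 1) (by decide +kernel)
theorem L00989 : Good (Phi V5.P V5.D (-1) 1) ⟨1, 0, 1, 1, 2, 3, 1, 0, 1, 1⟩ :=
  out_sound (S := T5.ds_mp) T5.ok_mp (w := 22) (j := 2) (by decide +kernel)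
theorem L00990 : Good (Phi V5.P V5.D (-1) 1) ⟨2, 0, 2, 2, 1, 1, 2, 2, 4, 0⟩ :=
  leafX_sound T5.ok_mp T5.Ymp.bz_eq (w := 183) (c := ⟨⟨.ofNat 616, .negSucc 113, .negSucc 55, .ofNat 81, .negSucc 486, .negSucc 1094⟩, ⟨.ofNat 382, .negSucc 92, .negSucc 7, .ofNat 24, .negSucc 317, .negSucc 669⟩, ⟨.negSucc 344, .negSucc 24, .negSucc 11, .negSucc 384, .ofNat 357, .ofNat 567⟩, ⟨.ofNat 1512, .negSucc 225, .ofNat 79, .ofNat 622, .negSucc 1250, .negSucc 2581⟩, ⟨.ofNat 270, .negSucc 48, .negSucc 29, .negSucc 652, .negSucc 300, .negSucc 928⟩, .ofNat 1718, .negSucc 1893, .ofNat 0, .negSucc 1893, .ofNat 3465, .ofNat 0, .ofNat 128, .ofNat 225, .negSucc 137, .ofNat 0, .ofNat 169, .negSucc 65, .ofNat 0, .ofNat 0, .ofNat 376, .ofNat 284, .ofNat 0, .ofNat 0, .ofNat 0, .ofNat 0, .ofNat 0, .ofNat 0, .ofNat 0, .ofNat 0, .ofNat 0, .ofNat 0, .ofNat 0, .ofNat 0, .ofNat 0, .ofNat 0, .ofNat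 274069616412517190571539589758976, .ofNat 0⟩)
    (by decide +kernel)
theorem L00991 : Good (Phi V5.P V5.D (-1) 1) ⟨2, 0, 2, 2, 1, 1, 2, 2, 4, 1⟩ :=
  leafX_sound T5.ok_mp T5.Ymp.bz_eq (w := 183) (c := ⟨⟨.negSucc 521, .negSucc 255, .negSucc 160, .negSucc 108, .negSucc 79, .negSucc 518⟩, ⟨.negSucc 282, .negSucc 140, .negSucc 278, .negSucc 93, .negSucc 34, .negSucc 303⟩, ⟨.ofNat 239, .ofNat 45, .ofNat 142, .negSucc 364, .ofNat 143, .ofNat 389⟩, ⟨.negSucc 1539, .negSucc 299, .negSucc 151, .ofNat 102, .negSucc 203, .negSucc 1464⟩, ⟨.negSucc 321, .negSucc 251, .negSucc 144, .negSucc 737, .negSucc 46, .negSucc 71⟩, .ofNat 1582, .negSucc 1686, .ofNat 0, .negSucc 1686, .ofNat 3184, .ofNat 0, .ofNat 128, .ofNat 180, .negSucc 85, .ofNat 0, .ofNat 138, .negSucc 37, .ofNat 0, .ofNat 0, .ofNat 281, .ofNat 570, .ofNat 0, .ofNat 0, .ofNat 4441045380979787205135755640832, .ofNat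 0, .ofNat 0, .ofNat 0, .ofNat 0, .ofNat 0, .ofNat 0, .ofNat 0, .ofNat 157495362261804529281356070387712, .ofNat 0, .ofNat 0, .ofNat 0, .ofNat 204253679217637587501070822670336, .ofNat 0⟩)
    (by decide +kernel)
theorem L00992 : Good (Phi V5.P V5.D (-1) 1) ⟨2, 0, 2, 2, 2, 2, 3, 6, 3, 0⟩ :=
  leafX_sound T5.ok_mp T5.Ymp.bz_eq (w := 196) (c := ⟨⟨.negSucc 87, .negSucc 254, .negSucc 78, .negSucc 109, .negSucc 36, .negSucc 923⟩, ⟨.negSucc 32, .negSucc 125, .negSucc 243, .negSucc 67, .negSucc 16, .negSucc 542⟩, ⟨.ofNat 149, .ofNat 17, .ofNat 46, .negSucc 114, .ofNat 26, .ofNat 512⟩, ⟨.negSucc 291, .negSucc 596, .negSucc 36, .negSucc 92, .negSucc 87, .negSucc 2387⟩, ⟨.negSucc 278, .ofNat 208, .negSucc 88, .negSucc 366, .negSucc 63, .negSucc 421⟩, .ofNat 1585, .negSucc 1704, .ofNat 0, .negSucc 1704, .ofNat 3220, .ofNat 0, .ofNat 128, .ofNat 266, .negSucc 81, .ofNat 0, .ofNat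 206, .negSucc 37, .ofNat 0, .ofNat 0, .ofNat 236, .ofNat 379, .ofNat 0, .ofNat 0, .ofNat 3787927562577714862454155178409984, .ofNat 0, .ofNat 0, .ofNat 0, .ofNat 0, .ofNat 0, .ofNat 0, .ofNat 0, .ofNat 0, .ofNat 0, .ofNat 0, .ofNat 0, .ofNat 862486346655355579224882660948049920, .ofNat 0⟩)
    (by decide +kernel)
theorem L00993 : Good (Phi V5.P V5.D (-1) 1) ⟨2, 0, 2, 2, 2, 2, 3, 7, 3, 0⟩ :=
  leafX_sound T5.ok_mp T5.Ymp.bz_eq (w := 196) (c := ⟨⟨.negSucc 406, .negSucc 173, .ofNat 14, .negSucc 78, .ofNat 128, .negSucc 666⟩, ⟨.negSucc 212, .negSucc 89, .negSucc 145, .negSucc 47, .ofNat 68, .negSucc 396⟩, ⟨.ofNat 487, .negSucc 152, .negSucc 55, .negSucc 79, .negSucc 104, .ofNat 227⟩, ⟨.negSucc 1125, .negSucc 106, .ofNat 184, .negSucc 188, .ofNat 256, .negSucc 1859⟩, ⟨.negSucc 372, .negSucc 244, .negSucc 52, .negSucc 36, .ofNat 145, .negSucc 110⟩, .ofNat 1656, .negSucc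 1789, .ofNat 0, .negSucc 1789, .ofNat 3314, .ofNat 0, .ofNat 128, .ofNat 250, .negSucc 150, .ofNat 0, .ofNat 195, .negSucc 68, .ofNat 0, .ofNat 0, .ofNat 390, .ofNat 648, .ofNat 0, .ofNat 0, .ofNat 0, .ofNat 0, .ofNat 0, .ofNat 0, .ofNat 0, .ofNat 0, .ofNat 0, .ofNat 0, .ofNat 0, .ofNat 0, .ofNat 0, .ofNat 3940878637784833682725930496792985600, .ofNat 502357855189529277060892710104203264, .ofNat 0⟩)
    (by decide +kernel)
theorem L00994 : Good (Phi V5.P V5.D (-1) 1) ⟨2, 0, 3, 4, 2, 3, 3, 6, 4, 0⟩ :=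
  leafX_sound T5.ok_mp T5.Ymp.bz_eq (w := 204) (c := ⟨⟨.ofNat 36, .negSucc 194, .negSucc 65, .negSucc 92, .negSucc 159, .negSucc 662⟩, ⟨.ofNat 19, .negSucc 125, .negSucc 75, .negSucc 94, .negSucc 86, .negSucc 380⟩, ⟨.negSucc 17, .negSucc 60, .ofNat 21, .negSucc 226, .ofNat 130, .ofNat 278⟩, ⟨.negSucc 4, .ofNat 82, .ofNat 41, .ofNat 170, .negSucc 455, .negSucc 1757⟩, ⟨.negSucc 161, .negSucc 819, .negSucc 139, .negSucc 812, .ofNat 4, .negSucc 184⟩, .ofNat 1546, .negSucc 1643, .ofNat 0, .negSucc 1643, .ofNat 3134, .ofNat 0, .ofNat 128, .ofNat 318, .negSucc 157, .ofNat 0, .ofNat 243, .negSucc 55, .ofNat 0, .ofNat 0, .ofNat 387, .ofNat 1200, .ofNat 0, .ofNat 0, .ofNat 0, .ofNat 0, .ofNat 0, .ofNat 0, .ofNat 43073147432603700128737771825857036288, .ofNat 0, .ofNat 0, .ofNat 0, .ofNat 0, .ofNat 0, .ofNat 0, .ofNat 0, .ofNat 0, .ofNat 0⟩)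
    (by decide +kernel)
theorem L00995 : Good (Phi V5.P V5.D (-1) 1) ⟨2, 0, 3, 4, 2, 3, 3, 7, 4, 0⟩ :=
  leafX_sound T5.ok_mp T5.Ymp.bz_eq (w := 204) (c := ⟨⟨.negSucc 348, .negSucc 181, .negSucc 40, .negSucc 109, .negSucc 21, .negSucc 358⟩, ⟨.negSucc 195, .negSucc 145, .negSucc 61, .negSucc 97, .ofNat 0, .negSucc 200⟩, ⟨.ofNat 323, .negSucc 233, .negSucc 5, .negSucc 294, .ofNat 57, .ofNat 217⟩, ⟨.negSucc 1162, .ofNat 256, .ofNat 173, .ofNat 311, .negSucc 123, .negSucc 1196⟩, ⟨.negSucc 26, .negSucc 1078, .negSucc 220, .negSucc 1099, .ofNat 111, .ofNat 278⟩, .ofNat 1586, .negSucc 1673, .ofNat 0, .negSucc 1673, .ofNat 3126, .ofNat 0, .ofNat 128, .ofNat 192, .negSucc 123, .ofNat 0, .ofNat 152, .negSucc 38, .ofNat 0, .ofNat 0, .ofNat 295, .ofNat 669, .ofNat 0, .ofNat 36242409441449704305759864970046078976, .ofNat 0, .ofNat 0, .ofNat 0, .ofNat 0, .ofNat 0, .ofNat 0, .ofNat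 0, .ofNat 0, .ofNat 0, .ofNat 0, .ofNat 0, .ofNat 947271345379324159489078097823452364800, .ofNat 0, .ofNat 0⟩)
    (by decide +kernel)
theorem L00996 : Good (Phi V5.P V5.D (-1) 1) ⟨2, 0, 3, 5, 2, 3, 3, 6, 4, 0⟩ :=
  leafX_sound T5.ok_mp T5.Ymp.bz_eq (w := 208) (c := ⟨⟨.negSucc 14, .negSucc 227, .ofNat 36, .negSucc 98, .negSucc 174, .negSucc 633⟩, ⟨.negSucc 34, .negSucc 118, .negSucc 4, .negSucc 78, .negSucc 114, .negSucc 410⟩, ⟨.negSucc 31, .negSucc 34, .ofNat 30, .negSucc 257, .ofNat 121, .ofNat 341⟩, ⟨.ofNat 89, .negSucc 53, .ofNat 205, .ofNat 307, .negSucc 433, .negSucc 1809⟩, ⟨.negSucc 416, .negSucc 676, .ofNat 54, .negSucc 911, .negSucc 99, .ofNat 26⟩, .ofNat 2397, .negSucc 2857, .ofNat 0, .negSucc 2857, .ofNat 4753, .ofNat 0, .ofNat 128, .ofNat 869, .negSucc 237, .ofNat 0, .ofNat 633, .negSucc 119, .ofNat 0, .ofNat 0, .ofNat 598, .ofNat 2893, .ofNat 0, .ofNat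 0, .ofNat 0, .ofNat 0, .ofNat 0, .ofNat 0, .ofNat 593539673801169960513780281179610546176, .ofNat 0, .ofNat 0, .ofNat 0, .ofNat 0, .ofNat 0, .ofNat 0, .ofNat 0, .ofNat 803762923760878548160019019142304628736, .ofNat 0⟩)
    (by decide +kernel)
theorem L00997 : Good (Phi V5.P V5.D (-1) 1) ⟨2, 0, 3, 5, 2, 3, 3, 7, 5, 0⟩ :=
  leafX_sound T5.ok_mp T5.Ymp.bz_eq (w := 211) (c := ⟨⟨.negSucc 259, .negSucc 214, .negSucc 88, .negSucc 185, .negSucc 144, .negSucc 184⟩, ⟨.negSucc 188, .negSucc 121, .negSucc 73, .negSucc 135, .negSucc 93, .negSucc 120⟩, ⟨.ofNat 249, .negSucc 140, .ofNat 20, .negSucc 306, .ofNat 58, .ofNat 114⟩, ⟨.negSucc 821, .ofNat 128, .negSucc 6, .ofNat 406, .negSucc 335, .negSucc 595⟩, ⟨.negSucc 99, .negSucc 887, .negSucc 98, .negSucc 1441, .negSucc 108, .ofNat 102⟩, .ofNat 1560, .negSucc 1640, .ofNat 0, .negSucc 1640, .ofNat 2917, .ofNat 0, .ofNat 128, .ofNat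 619, .negSucc 340, .ofNat 0, .ofNat 482, .negSucc 127, .ofNat 0, .ofNat 0, .ofNat 769, .ofNat 1863, .ofNat 0, .ofNat 1026206367043389405379050339695138439168, .ofNat 113888568908489443103758185706251354112, .ofNat 0, .ofNat 0, .ofNat 0, .ofNat 8436590721486779539574684813016195661824, .ofNat 0, .ofNat 0, .ofNat 0, .ofNat 0, .ofNat 0, .ofNat 0, .ofNat 0, .ofNat 31668504253334923094308297045742603730944, .ofNat 0⟩)
    (by decide +kernel)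
theorem L00998 : Good (Phi V5.P V5.D (-1) 1) ⟨2, 0, 3, 5, 2, 3, 3, 7, 5, 1⟩ :=
  leafX_sound T5.ok_mp T5.Ymp.bz_eq (w := 213) (c := ⟨⟨.negSucc 611, .negSucc 232, .negSucc 80, .negSucc 14, .ofNat 35, .negSucc 168⟩, ⟨.negSucc 423, .negSucc 122, .negSucc 103, .negSucc 21, .ofNat 26, .negSucc 107⟩, ⟨.ofNat 349, .negSucc 134, .ofNat 63, .negSucc 275, .ofNat 22, .ofNat 155⟩, ⟨.negSucc 1533, .negSucc 13, .ofNat 17, .ofNat 518, .negSucc 37, .negSucc 631⟩, ⟨.negSucc 604, .negSucc 649, .negSucc 136, .negSucc 870, .ofNat 207, .ofNat 224⟩, .ofNat 3412, .negSucc 4356, .ofNat 0, .negSucc 4356, .ofNat 7011, .ofNat 0, .ofNat 128, .ofNat 580, .negSucc 307, .ofNat 0, .ofNat 416, .negSucc 160, .ofNat 0, .ofNat 0, .ofNat 775, .ofNat 2950, .ofNat 0, .ofNat 0, .ofNat 230570999586368274557641853717882863616, .ofNat 0, .ofNat 0, .ofNat 0, .ofNat 26248789547551741878022310835420250767360,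 .ofNat 0, .ofNat 0, .ofNat 57354100796228539979756344437735702921216, .ofNat 14886670664025199778374077844762134577152, .ofNat 0, .ofNat 0, .ofNat 54047774971089236162809630240216702779392, .ofNat 15850212122982778570501866900597055160320, .ofNat 0⟩)
    (by decide +kernel)
theorem L00999 : Good (Phi V5.P V5.D (-1) 1) ⟨2, 0, 2, 2, 2, 3, 3, 6, 4, 1⟩ :=
  leafX_sound T5.ok_mp T5.Ymp.bz_eq (w := 201) (c := ⟨⟨.negSucc 919, .negSucc 149, .negSucc 14, .ofNat 94, .ofNat 43, .negSucc 308⟩, ⟨.negSucc 534, .negSucc 87, .negSucc 195, .ofNat 55, .ofNat 36, .negSucc 161⟩, ⟨.ofNat 363, .negSucc 142, .ofNat 30, .negSucc 164, .ofNat 57, .ofNat 338⟩, ⟨.negSucc 2453, .ofNat 317, .ofNat 214, .ofNat 482, .negSucc 83, .negSucc 1191⟩, ⟨.negSucc 771, .negSucc 748, .negSucc 18, .negSucc 357, .ofNat 341, .ofNat 494⟩, .ofNat 1583, .negSucc 1680, .ofNat 0, .negSucc 1680, .ofNat 3166, .ofNat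 0, .ofNat 128, .ofNat 216, .negSucc 104, .ofNat 0, .ofNat 167, .negSucc 35, .ofNat 0, .ofNat 0, .ofNat 302, .ofNat 588, .ofNat 0, .ofNat 0, .ofNat 1448207317338696611714613420343951360, .ofNat 0, .ofNat 0, .ofNat 0, .ofNat 0, .ofNat 0, .ofNat 0, .ofNat 0, .ofNat 0, .ofNat 0, .ofNat 0, .ofNat 0, .ofNat 59054211335230602351101324733775347712, .ofNat 0⟩)
    (by decide +kernel)
theorem L01000 : Good (Phi V5.P V5.D (-1) 1) ⟨2, 0, 3, 4, 2, 3, 3, 7, 4, 1⟩ :=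
  leafX_sound T5.ok_mp T5.Ymp.bz_eq (w := 205) (c := ⟨⟨.negSucc 1031, .negSucc 10, .ofNat 17, .ofNat 95, .ofNat 144, .negSucc 189⟩, ⟨.negSucc 566, .negSucc 37, .negSucc 111, .ofNat 53, .ofNat 128, .negSucc 71⟩, ⟨.ofNat 584, .negSucc 343, .negSucc 54, .negSucc 113, .ofNat 27, .ofNat 268⟩, ⟨.negSucc 2844, .ofNat 692, .ofNat 251, .ofNat 319, .negSucc 5, .negSucc 996⟩, ⟨.negSucc 516, .negSucc 853, .negSucc 266, .negSucc 119, .ofNat 774, .ofNat 798⟩, .ofNat 1566, .negSucc 1670, .ofNat 0, .negSucc 1670, .ofNat 3168, .ofNat 0, .ofNat 128, .ofNat 213, .negSucc 143, .ofNat 0, .ofNat 166, .negSucc 42, .ofNat 0, .ofNat 0, .ofNat 403, .ofNat 608, .ofNat 0, .ofNat 0, .ofNat 0, .ofNat 0, .ofNat 0, .ofNat 0, .ofNat 0, .ofNat 0, .ofNat 0, .ofNat 3899537236346105255558183354467941875712, .ofNat 0, .ofNat 0, .ofNat 0, .ofNat 2182549728650126531584370065012535853056, .ofNat 27134446957567109769414048660007682048,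 .ofNat 0⟩)
    (by decide +kernel)
theorem L01001 : Good (Phi V5.P V5.D (-1) 1) ⟨3, 0, 3, 5, 2, 3, 3, 7, 4, 1⟩ :=
  leafX_sound T5.ok_mp T5.Ymp.bz_eq (w := 216) (c := ⟨⟨.negSucc 1092, .ofNat 60, .ofNat 17, .ofNat 159, .ofNat 126, .negSucc 185⟩, ⟨.negSucc 716, .ofNat 29, .negSucc 100, .ofNat 106, .ofNat 94, .negSucc 105⟩, ⟨.ofNat 534, .negSucc 152, .negSucc 128, .negSucc 182, .ofNat 51, .ofNat 320⟩, ⟨.negSucc 2679, .ofNat 289, .ofNat 173, .ofNat 341, .ofNat 121, .negSucc 844⟩, ⟨.negSucc 969, .negSucc 35, .negSucc 79, .ofNat 191, .ofNat 397, .ofNat 474⟩, .ofNat 6700, .negSucc 9161, .ofNat 0, .negSucc 9161, .ofNat 14121, .ofNat 0, .ofNat 128, .ofNat 1196, .negSucc 370, .ofNat 0, .ofNat 852, .negSucc 203, .ofNat 0, .ofNat 0, .ofNat 1207, .ofNat 3443, .ofNat 0, .ofNat 0, .ofNat 0, .ofNat 0, .ofNat 0, .ofNat 80970309478439809002099831372083850379264, .ofNat 336489935509803454323930813867730403328,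 .ofNat 0, .ofNat 0, .ofNat 1502748611898665223122328507316851338903552, .ofNat 957203442081120738413739174066995068928, .ofNat 0, .ofNat 0, .ofNat 789857306061367321492162109499175421870080, .ofNat 1156595415813815914758837782150901661696, .ofNat 0⟩)
    (by decide +kernel)
theorem L01002 : Good (Phi V5.P V5.D (-1) 1) ⟨3, 1, 3, 5, 2, 3, 3, 7, 4, 1⟩ :=
  leafX_sound T5.ok_mp T5.Ymp.bz_eq (w := 212) (c := ⟨⟨.negSucc 1098, .negSucc 59, .ofNat 69, .ofNat 187, .ofNat 162, .negSucc 115⟩, ⟨.negSucc 728, .negSucc 13, .negSucc 39, .ofNat 118, .ofNat 113, .negSucc 70⟩, ⟨.ofNat 450, .negSucc 116, .negSucc 10, .negSucc 150, .negSucc 93, .ofNat 201⟩, ⟨.negSucc 2515, .ofNat 163, .ofNat 366, .ofNat 729, .ofNat 164, .negSucc 887⟩, ⟨.negSucc 1082, .negSucc 258, .negSucc 92, .negSucc 316, .ofNat 458, .ofNat 842⟩, .ofNat 2449, .negSucc 2944, .ofNat 0, .negSucc 2944, .ofNat 4885, .ofNat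 0, .ofNat 128, .ofNat 753, .negSucc 282, .ofNat 0, .ofNat 553, .negSucc 134, .ofNat 0, .ofNat 0, .ofNat 817, .ofNat 2366, .ofNat 0, .ofNat 0, .ofNat 1952581466302752767727567090699206656, .ofNat 0, .ofNat 0, .ofNat 0, .ofNat 0, .ofNat 0, .ofNat 0, .ofNat 881636453645966820554900144098778518913024, .ofNat 115625610850627428965527046464984842240, .ofNat 0, .ofNat 0, .ofNat 84698790117226772037844413371504150970368, .ofNat 83664309310619240616613837550684995584, .ofNat 0⟩)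
    (by decide +kernel)
theorem L01003 : Good (Phi V5.P V5.D (-1) 1) ⟨2, 0, 2, 3, 1, 1, 1, 1, 3, 0⟩ :=
  out_sound (S := T5.ds_mp) T5.ok_mp (w := 37) (j := 3) (by decide +kernel)
theorem L01004 : Good (Phi V5.P V5.D (-1) 1) ⟨2, 0, 2, 2, 2, 2, 2, 2, 4, 2⟩ :=
  leafX_sound T5.ok_mp T5.Ymp.bz_eq (w := 198) (c := ⟨⟨.negSucc 1188, .negSucc 182, .negSucc 101, .negSucc 124, .ofNat 111, .negSucc 68⟩, ⟨.negSucc 643, .negSucc 82, .negSucc 343, .negSucc 89, .ofNat 73, .negSucc 45⟩, ⟨.ofNat 742, .ofNat 28, .ofNat 102, .negSucc 97, .negSucc 90, .ofNat 103⟩, ⟨.negSucc 3297, .negSucc 160, .negSucc 100, .negSucc 161, .ofNat 230, .negSucc 290⟩, ⟨.negSucc 616, .ofNat 3, .negSucc 21, .negSucc 363, .ofNat 141, .ofNat 84⟩, .ofNat 887, .negSucc 693, .ofNat 0, .negSucc 693, .ofNat 1546, .ofNat 0, .ofNat 128, .ofNat 191, .negSucc 115, .ofNat 0, .ofNat 177, .negSucc 38, .ofNat 0, .ofNat 0,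 .ofNat 519, .ofNat 2702, .ofNat 0, .ofNat 0, .ofNat 0, .ofNat 0, .ofNat 0, .ofNat 0, .ofNat 0, .ofNat 0, .ofNat 0, .ofNat 0, .ofNat 4133876993124993140298209393473748992, .ofNat 0, .ofNat 0, .ofNat 0, .ofNat 0, .ofNat 0⟩)
    (by decide +kernel)
theorem L01005 : Good (Phi V5.P V5.D (-1) 1) ⟨2, 0, 2, 2, 2, 3, 2, 2, 4, 2⟩ :=
  leafX_sound T5.ok_mp T5.Ymp.bz_eq (w := 198) (c := ⟨⟨.negSucc 1437, .negSucc 134, .negSucc 40, .ofNat 129, .ofNat 202, .negSucc 28⟩, ⟨.negSucc 822, .negSucc 50, .negSucc 293, .ofNat 80, .ofNat 134, .negSucc 4⟩, ⟨.ofNat 632, .negSucc 13, .ofNat 50, .negSucc 181, .negSucc 23, .ofNat 160⟩, ⟨.negSucc 3921, .ofNat 136, .ofNat 212, .ofNat 568, .ofNat 353, .negSucc 162⟩, ⟨.negSucc 797, .negSucc 267, .negSucc 179, .negSucc 350, .ofNat 323, .ofNat 116⟩, .ofNat 1608, .negSucc 1741, .ofNat 0, .negSucc 1741, .ofNat 3274, .ofNat 0, .ofNat 128, .ofNat 203,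 .negSucc 75, .ofNat 0, .ofNat 157, .negSucc 28, .ofNat 0, .ofNat 0, .ofNat 327, .ofNat 661, .ofNat 0, .ofNat 0, .ofNat 66123211648192056521714388657242112, .ofNat 0, .ofNat 0, .ofNat 0, .ofNat 0, .ofNat 0, .ofNat 0, .ofNat 0, .ofNat 0, .ofNat 0, .ofNat 0, .ofNat 0, .ofNat 1020456402096691512688432536637931520, .ofNat 0⟩)
    (by decide +kernel)
theorem L01006 : Good (Phi V5.P V5.D (-1) 1) ⟨2, 0, 2, 2, 2, 2, 2, 2, 4, 3⟩ :=
  leafX_sound T5.ok_mp T5.Ymp.bz_eq (w := 198) (c := ⟨⟨.negSucc 1377, .negSucc 116, .negSucc 59, .negSucc 39, .ofNat 140, .ofNat 91⟩, ⟨.negSucc 752, .negSucc 53, .negSucc 321, .negSucc 32, .ofNat 88, .ofNat 63⟩, ⟨.ofNat 954, .negSucc 21, .ofNat 68, .negSucc 137, .negSucc 187, .negSucc 1⟩, ⟨.negSucc 3856, .negSucc 22, .negSucc 3, .ofNat 22, .ofNat 268, .ofNat 200⟩, ⟨.negSucc 617, .ofNat 80, .negSucc 53, .negSucc 252, .ofNat 207, .ofNat 116⟩, .ofNat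 893, .negSucc 696, .ofNat 0, .negSucc 696, .ofNat 1548, .ofNat 0, .ofNat 128, .ofNat 161, .negSucc 97, .ofNat 0, .ofNat 153, .negSucc 29, .ofNat 0, .ofNat 0, .ofNat 655, .ofNat 1798, .ofNat 0, .ofNat 0, .ofNat 0, .ofNat 0, .ofNat 0, .ofNat 0, .ofNat 0, .ofNat 0, .ofNat 0, .ofNat 0, .ofNat 6649219374095772048673079601412440064, .ofNat 0, .ofNat 0, .ofNat 0, .ofNat 0, .ofNat 0⟩)
    (by decide +kernel)
theorem L01007 : Good (Phi V5.P V5.D (-1) 1) ⟨3, 0, 2, 2, 2, 3, 2, 2, 4, 3⟩ :=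
  leafX_sound T5.ok_mp T5.Ymp.bz_eq (w := 202) (c := ⟨⟨.negSucc 1474, .negSucc 1, .negSucc 22, .ofNat 125, .ofNat 125, .ofNat 122⟩, ⟨.negSucc 808, .negSucc 32, .negSucc 285, .ofNat 75, .ofNat 96, .ofNat 84⟩, ⟨.ofNat 762, .negSucc 118, .ofNat 0, .negSucc 45, .ofNat 72, .ofNat 119⟩, ⟨.negSucc 3951, .ofNat 179, .ofNat 197, .ofNat 294, .ofNat 64, .ofNat 208⟩, ⟨.negSucc 925, .negSucc 153, .negSucc 173, .ofNat 122, .ofNat 545, .ofNat 282⟩, .ofNat 1500, .negSucc 1541, .ofNat 0, .negSucc 1541, .ofNat 2971, .ofNat 0, .ofNat 128, .ofNat 296, .negSucc 77, .ofNat 0, .ofNat 251, .negSucc 16, .ofNat 0, .ofNat 0, .ofNat 753, .ofNat 1047, .ofNat 0, .ofNat 0, .ofNat 0, .ofNat 0, .ofNat 0, .ofNat 0, .ofNat 0, .ofNat 0, .ofNat 0, .ofNat 7402859523021448441037424583651094429696, .ofNat 2305457578690224615349516123773075456, .ofNat 0, .ofNat 0, .ofNat 6365332818202197891658233513564212035584,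 .ofNat 1974139797836855075770527400580874240, .ofNat 0⟩)
    (by decide +kernel)
theorem L01008 : Good (Phi V5.P V5.D (-1) 1) ⟨3, 1, 2, 2, 2, 3, 3, 4, 4, 3⟩ :=
  leafX_sound T5.ok_mp T5.Ymp.bz_eq (w := 207) (c := ⟨⟨.negSucc 1581, .negSucc 63, .negSucc 31, .ofNat 201, .ofNat 116, .ofNat 193⟩, ⟨.negSucc 911, .negSucc 6, .negSucc 275, .ofNat 121, .ofNat 81, .ofNat 126⟩, ⟨.ofNat 752, .negSucc 40, .ofNat 114, .negSucc 145, .negSucc 40, .ofNat 28⟩, ⟨.negSucc 4043, .ofNat 75, .ofNat 131, .ofNat 664, .ofNat 163, .ofNat 362⟩, ⟨.negSucc 1060, .negSucc 43, .negSucc 29, .negSucc 165, .ofNat 268, .ofNat 285⟩, .ofNat 1849, .negSucc 2096, .ofNat 0, .negSucc 2096, .ofNat 3744, .ofNat 0, .ofNat 128, .ofNat 368, .negSucc 81, .ofNat 0, .ofNat 288, .negSucc 28, .ofNat 0, .ofNat 0, .ofNat 799, .ofNat 2662, .ofNat 0, .ofNat 0, .ofNat 453745301082523790050466737715937280, .ofNat 0, .ofNat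 0, .ofNat 0, .ofNat 0, .ofNat 0, .ofNat 0, .ofNat 2624880093491650485009272273350030262272, .ofNat 140933107714004412773304153937094377472, .ofNat 0, .ofNat 0, .ofNat 20712938809793655572606737211046594871296, .ofNat 9093722170135825151959925059045294080, .ofNat 0⟩)
    (by decide +kernel)
theorem L01009 : Good (Phi V5.P V5.D (-1) 1) ⟨3, 1, 2, 2, 2, 3, 3, 5, 4, 3⟩ :=
  leafX_sound T5.ok_mp T5.Ymp.bz_eq (w := 206) (c := ⟨⟨.negSucc 1513, .negSucc 12, .negSucc 2, .ofNat 233, .ofNat 155, .ofNat 178⟩, ⟨.negSucc 859, .ofNat 23, .negSucc 263, .ofNat 140, .ofNat 110, .ofNat 118⟩, ⟨.ofNat 734, .negSucc 95, .ofNat 7, .negSucc 66, .negSucc 1, .ofNat 38⟩, ⟨.negSucc 3952, .ofNat 214, .ofNat 242, .ofNat 603, .ofNat 185, .ofNat 264⟩, ⟨.negSucc 851, .negSucc 72, .negSucc 198, .ofNat 81, .ofNat 429, .ofNat 408⟩, .ofNat 1694, .negSucc 1880, .ofNat 0, .negSucc 1880, .ofNat 3464, .ofNat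 0, .ofNat 128, .ofNat 297, .negSucc 54, .ofNat 0, .ofNat 236, .negSucc 12, .ofNat 0, .ofNat 0, .ofNat 574, .ofNat 729, .ofNat 0, .ofNat 0, .ofNat 0, .ofNat 0, .ofNat 0, .ofNat 0, .ofNat 0, .ofNat 0, .ofNat 0, .ofNat 0, .ofNat 0, .ofNat 0, .ofNat 0, .ofNat 18224388864065262449059426044414609326080, .ofNat 11213767895505843908972993765737234432, .ofNat 0⟩)
    (by decide +kernel)
theorem L01010 : Good (Phi V5.P V5.D (-1) 1) ⟨2, 0, 2, 2, 2, 2, 2, 3, 4, 2⟩ :=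
  leafX_sound T5.ok_mp T5.Ymp.bz_eq (w := 198) (c := ⟨⟨.negSucc 1185, .negSucc 68, .negSucc 59, .negSucc 120, .ofNat 267, .negSucc 42⟩, ⟨.negSucc 651, .negSucc 23, .negSucc 298, .negSucc 75, .ofNat 178, .negSucc 15⟩, ⟨.ofNat 827, .negSucc 162, .negSucc 31, .negSucc 24, .negSucc 276, .ofNat 24⟩, ⟨.negSucc 3203, .negSucc 17, .ofNat 1, .negSucc 310, .ofNat 463, .negSucc 215⟩, ⟨.negSucc 754, .ofNat 251, .negSucc 95, .negSucc 74, .ofNat 493, .ofNat 156⟩, .ofNat 1609, .negSucc 1725, .ofNat 0, .negSucc 1725, .ofNat 3232, .ofNat 0, .ofNat 128, .ofNat 259, .negSucc 150, .ofNat 0, .ofNat 204, .negSucc 64, .ofNat 0, .ofNat 0, .ofNat 656, .ofNat 702, .ofNat 0, .ofNat 0, .ofNat 19250603204506241098817998174552064, .ofNat 0, .ofNat 0, .ofNat 108461051609485785208778825616829972480, .ofNat 0, .ofNat 0, .ofNat 0, .ofNat 235806687611822768194795458252135989248, .ofNat 2220181523449655242033374964897284096,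 .ofNat 0, .ofNat 0, .ofNat 0, .ofNat 0, .ofNat 0⟩)
    (by decide +kernel)
theorem L01011 : Good (Phi V5.P V5.D (-1) 1) ⟨2, 0, 3, 4, 2, 3, 2, 3, 4, 2⟩ :=
  leafX_sound T5.ok_mp T5.Ymp.bz_eq (w := 200) (c := ⟨⟨.negSucc 1410, .ofNat 25, .negSucc 31, .ofNat 199, .ofNat 303, .ofNat 39⟩, ⟨.negSucc 775, .ofNat 2, .negSucc 148, .ofNat 126, .ofNat 218, .ofNat 44⟩, ⟨.ofNat 784, .negSucc 339, .ofNat 6, .negSucc 38, .ofNat 4, .ofNat 149⟩, ⟨.negSucc 3809, .ofNat 667, .negSucc 100, .ofNat 396, .ofNat 268, .negSucc 229⟩, ⟨.negSucc 758, .negSucc 512, .ofNat 120, .ofNat 262, .ofNat 992, .ofNat 563⟩, .ofNat 1593, .negSucc 1710, .ofNat 0, .negSucc 1710, .ofNat 3226, .ofNat 0, .ofNat 128, .ofNat 163, .negSucc 59, .ofNat 0, .ofNat 129, .negSucc 16, .ofNat 0, .ofNat 0, .ofNat 289, .ofNat 257, .ofNat 0, .ofNat 0, .ofNat 0, .ofNat 0, .ofNat 0, .ofNat 0, .ofNat 0, .ofNat 0, .ofNat 0, .ofNat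 822867016979072723807616798763392172032, .ofNat 0, .ofNat 0, .ofNat 0, .ofNat 577558513027878074151482147002873020416, .ofNat 748322347812906707652275846539902976, .ofNat 0⟩)
    (by decide +kernel)
theorem L01012 : Good (Phi V5.P V5.D (-1) 1) ⟨2, 0, 3, 5, 2, 3, 2, 3, 4, 2⟩ :=
  leafX_sound T5.ok_mp T5.Ymp.bz_eq (w := 204) (c := ⟨⟨.negSucc 1484, .ofNat 3, .ofNat 31, .ofNat 268, .ofNat 393, .ofNat 90⟩, ⟨.negSucc 991, .ofNat 44, .negSucc 114, .ofNat 174, .ofNat 273, .ofNat 70⟩, ⟨.ofNat 773, .negSucc 245, .negSucc 21, .negSucc 61, .negSucc 60, .ofNat 110⟩, ⟨.negSucc 3943, .ofNat 533, .ofNat 243, .ofNat 603, .ofNat 350, .negSucc 22⟩, ⟨.negSucc 869, .negSucc 238, .negSucc 172, .ofNat 227, .ofNat 1187, .ofNat 443⟩, .ofNat 3531, .negSucc 4385, .ofNat 0, .negSucc 4385, .ofNat 6772, .ofNat 0, .ofNat 128, .ofNat 497, .negSucc 151, .ofNat 0, .ofNat 367, .negSucc 80, .ofNat 0,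 .ofNat 0, .ofNat 792, .ofNat 872, .ofNat 0, .ofNat 0, .ofNat 356950943901712543343413460444643328, .ofNat 0, .ofNat 0, .ofNat 0, .ofNat 0, .ofNat 0, .ofNat 0, .ofNat 7336312276220246177326198573435621212160, .ofNat 32594866683580026492734326576468983808, .ofNat 0, .ofNat 0, .ofNat 4152788232440749203125599084161525612544, .ofNat 31077883883744932522486292764277342208, .ofNat 0⟩)
    (by decide +kernel)
theorem L01013 : Good (Phi V5.P V5.D (-1) 1) ⟨2, 0, 2, 2, 2, 2, 3, 6, 4, 3⟩ :=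
  leafX_sound T5.ok_mp T5.Ymp.bz_eq (w := 201) (c := ⟨⟨.negSucc 1275, .negSucc 40, .negSucc 5, .negSucc 35, .ofNat 111, .ofNat 72⟩, ⟨.negSucc 686, .negSucc 6, .negSucc 283, .negSucc 21, .ofNat 69, .ofNat 50⟩, ⟨.ofNat 909, .negSucc 165, .negSucc 139, .negSucc 43, .negSucc 161, .negSucc 66⟩, ⟨.negSucc 3563, .ofNat 159, .ofNat 75, .negSucc 145, .ofNat 161, .ofNat 84⟩, ⟨.negSucc 529, .ofNat 98, .negSucc 69, .ofNat 55, .ofNat 239, .ofNat 191⟩, .ofNat 902, .negSucc 714, .ofNat 0, .negSucc 714, .ofNat 1570, .ofNat 0, .ofNat 128, .ofNat 138, .negSucc 81, .ofNat 0, .ofNat 130, .negSucc 24, .ofNat 0, .ofNat 0, .ofNat 505, .ofNat 1051, .ofNat 0, .ofNat 0, .ofNat 655128180046362094674219429248630784, .ofNat 0, .ofNat 0, .ofNat 0, .ofNat 0, .ofNat 0, .ofNat 0, .ofNat 745034218302949608485603935989320908800, .ofNat 33623636911834677113935542748385902592, .ofNat 0, .ofNat 0, .ofNat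 0, .ofNat 0, .ofNat 0⟩)
    (by decide +kernel)
theorem L01014 : Good (Phi V5.P V5.D (-1) 1) ⟨2, 0, 2, 2, 2, 3, 3, 6, 4, 3⟩ :=
  leafX_sound T5.ok_mp T5.Ymp.bz_eq (w := 201) (c := ⟨⟨.negSucc 1456, .ofNat 78, .ofNat 2, .ofNat 257, .ofNat 172, .ofNat 191⟩, ⟨.negSucc 789, .ofNat 43, .negSucc 275, .ofNat 174, .ofNat 130, .ofNat 126⟩, ⟨.ofNat 921, .negSucc 393, .negSucc 16, .ofNat 63, .negSucc 3, .negSucc 20⟩, ⟨.negSucc 4118, .ofNat 654, .ofNat 172, .ofNat 432, .ofNat 153, .ofNat 250⟩, ⟨.negSucc 441, .negSucc 213, .negSucc 177, .ofNat 509, .ofNat 555, .ofNat 454⟩, .ofNat 1241, .negSucc 1184, .ofNat 0, .negSucc 1184, .ofNat 2349, .ofNat 0, .ofNat 213, .ofNat 128, .negSucc 38, .ofNat 0, .ofNat 110, .negSucc 4, .ofNat 0, .ofNat 0, .ofNat 344, .ofNat 282, .ofNat 0, .ofNat 0, .ofNat 459284202555757103933935708910125056, .ofNat 0, .ofNat 0, .ofNat 0, .ofNat 0, .ofNat 0, .ofNat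 0, .ofNat 473609322160429139468508164432108453888, .ofNat 52849756109579394084249017339871232000, .ofNat 0, .ofNat 0, .ofNat 905634699782918688254006397907146637312, .ofNat 10145341720805885205354432243198590976, .ofNat 0⟩)
    (by decide +kernel)
theorem L01015 : Good (Phi V5.P V5.D (-1) 1) ⟨2, 0, 2, 2, 1, 1, 3, 7, 4, 3⟩ :=
  leafX_sound T5.ok_mp T5.Ymp.bz_eq (w := 187) (c := ⟨⟨.negSucc 1189, .ofNat 59, .negSucc 10, .negSucc 181, .ofNat 205, .ofNat 34⟩, ⟨.negSucc 643, .ofNat 52, .negSucc 273, .negSucc 82, .ofNat 137, .ofNat 33⟩, ⟨.ofNat 797, .negSucc 272, .negSucc 160, .ofNat 46, .negSucc 289, .negSucc 71⟩, ⟨.negSucc 3423, .ofNat 360, .ofNat 72, .negSucc 740, .ofNat 375, .negSucc 20⟩, ⟨.negSucc 383, .ofNat 225, .negSucc 125, .ofNat 413, .ofNat 373, .ofNat 218⟩, .ofNat 888, .negSucc 687, .ofNat 0, .negSucc 687, .ofNat 1537, .ofNat 0, .ofNat 128, .ofNat 148, .negSucc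 69, .ofNat 0, .ofNat 142, .negSucc 20, .ofNat 0, .ofNat 0, .ofNat 370, .ofNat 621, .ofNat 0, .ofNat 0, .ofNat 0, .ofNat 0, .ofNat 0, .ofNat 449177076429219602909178979510386688, .ofNat 0, .ofNat 0, .ofNat 0, .ofNat 555929921414255014198555216321708032, .ofNat 3269154303350437385278377064136704, .ofNat 0, .ofNat 0, .ofNat 343592656927485809878366573849214976, .ofNat 2541380133965115019582788897603584, .ofNat 0⟩)
    (by decide +kernel)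
theorem L01016 : Good (Phi V5.P V5.D (-1) 1) ⟨2, 0, 2, 3, 1, 1, 1, 1, 3, 1⟩ :=
  out_sound (S := T5.ds_mp) T5.ok_mp (w := 37) (j := 3) (by decide +kernel)
theorem L01017 : Good (Phi V5.P V5.D (-1) 1) ⟨2, 0, 2, 2, 2, 2, 2, 2, 4, 4⟩ :=
  leafX_sound T5.ok_mp T5.Ymp.bz_eq (w := 198) (c := ⟨⟨.negSucc 1333, .negSucc 84, .negSucc 39, .negSucc 3, .ofNat 128, .ofNat 127⟩, ⟨.negSucc 733, .negSucc 31, .negSucc 296, .negSucc 1, .ofNat 86, .ofNat 84⟩, ⟨.ofNat 1015, .negSucc 29, .ofNat 22, .negSucc 148, .negSucc 235, .negSucc 59⟩, ⟨.negSucc 3759, .ofNat 48, .ofNat 22, .ofNat 100, .ofNat 225, .ofNat 297⟩, ⟨.negSucc 560, .ofNat 85, .negSucc 18, .negSucc 183, .ofNat 261, .ofNat 109⟩, .ofNat 889, .negSucc 691, .ofNat 0, .negSucc 691, .ofNat 1542, .ofNat 0, .ofNat 128, .ofNat 177, .negSucc 56, .ofNat 0, .ofNat 175, .negSucc 15, .ofNat 0, .ofNat 0, .ofNat 660, .ofNat 2101, .ofNat 0,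 .ofNat 0, .ofNat 0, .ofNat 0, .ofNat 0, .ofNat 0, .ofNat 0, .ofNat 0, .ofNat 0, .ofNat 417141539685464949238278162168609243136, .ofNat 14172751597541162071484538237344546816, .ofNat 0, .ofNat 0, .ofNat 437799969322487578936159397884274409472, .ofNat 0, .ofNat 0⟩)
    (by decide +kernel)
theorem L01018 : Good (Phi V5.P V5.D (-1) 1) ⟨2, 0, 2, 2, 2, 2, 2, 2, 4, 5⟩ :=
  leafX_sound T5.ok_mp T5.Ymp.bz_eq (w := 198) (c := ⟨⟨.negSucc 1238, .negSucc 49, .negSucc 12, .ofNat 31, .ofNat 116, .ofNat 107⟩, ⟨.negSucc 672, .negSucc 17, .negSucc 272, .ofNat 17, .ofNat 82, .ofNat 74⟩, ⟨.ofNat 1005, .negSucc 52, .negSucc 54, .negSucc 146, .negSucc 318, .negSucc 57⟩, ⟨.negSucc 3515, .ofNat 111, .ofNat 47, .ofNat 149, .ofNat 202, .ofNat 263⟩, ⟨.negSucc 462, .ofNat 78, .negSucc 3, .negSucc 105, .ofNat 252, .ofNat 104⟩, .ofNat 461, .negSucc 201, .ofNat 0, .negSucc 201, .ofNat 651, .ofNat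 0, .ofNat 142, .ofNat 80, .negSucc 28, .ofNat 0, .ofNat 128, .negSucc 0, .ofNat 0, .ofNat 0, .ofNat 447, .ofNat 1416, .ofNat 0, .ofNat 0, .ofNat 0, .ofNat 0, .ofNat 0, .ofNat 230340605235490300222539272329445244928, .ofNat 3314556138512297149304787450300727296, .ofNat 0, .ofNat 0, .ofNat 373047239211954054698534023828403650560, .ofNat 0, .ofNat 0, .ofNat 0, .ofNat 277486693971340540589550714850983804928, .ofNat 3244059487141298380288576218130808832, .ofNat 0⟩)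
    (by decide +kernel)
theorem L01019 : Good (Phi V5.P V5.D (-1) 1) ⟨2, 0, 2, 2, 2, 3, 2, 2, 4, 4⟩ :=
  leafX_sound T5.ok_mp T5.Ymp.bz_eq (w := 197) (c := ⟨⟨.negSucc 1377, .negSucc 37, .negSucc 31, .ofNat 172, .ofNat 155, .ofNat 175⟩, ⟨.negSucc 762, .negSucc 24, .negSucc 258, .ofNat 100, .ofNat 112, .ofNat 115⟩, ⟨.ofNat 927, .negSucc 236, .ofNat 124, .negSucc 99, .negSucc 85, .negSucc 106⟩, ⟨.negSucc 3817, .ofNat 241, .ofNat 194, .ofNat 551, .ofNat 89, .ofNat 401⟩, ⟨.negSucc 667, .negSucc 87, .negSucc 137, .negSucc 99, .ofNat 594, .ofNat 159⟩, .ofNat 1259, .negSucc 1211, .ofNat 0, .negSucc 1211, .ofNat 2381, .ofNat 0, .ofNat 128, .ofNat 159, .negSucc 24, .ofNat 0, .ofNat 141, .ofNat 0, .ofNat 0, .ofNat 0, .ofNat 587, .ofNat 537, .ofNat 0, .ofNat 0, .ofNat 0, .ofNat 0, .ofNat 0, .ofNat 197999543758596668715904989488276832256, .ofNat 0, .ofNat 0, .ofNat 0, .ofNat 326469614689660144104069691031781638144,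 .ofNat 10616317702495767037262945951162564608, .ofNat 0, .ofNat 0, .ofNat 601255682602852117920436703228608905216, .ofNat 4077881374623924025180497577383034880, .ofNat 0⟩)
    (by decide +kernel)
theorem L01020 : Good (Phi V5.P V5.D (-1) 1) ⟨2, 0, 2, 2, 2, 3, 2, 2, 4, 5⟩ :=
  leafX_sound T5.ok_mp T5.Ymp.bz_eq (w := 197) (c := ⟨⟨.negSucc 1213, .negSucc 16, .negSucc 23, .ofNat 135, .ofNat 124, .ofNat 142⟩, ⟨.negSucc 660, .negSucc 10, .negSucc 263, .ofNat 89, .ofNat 92, .ofNat 107⟩, ⟨.ofNat 891, .negSucc 172, .negSucc 27, .negSucc 86, .negSucc 147, .negSucc 0⟩, ⟨.negSucc 3394, .ofNat 226, .ofNat 96, .ofNat 431, .ofNat 108, .ofNat 319⟩, ⟨.negSucc 550, .ofNat 14, .negSucc 77, .negSucc 35, .ofNat 445, .ofNat 204⟩, .ofNat 463, .negSucc 203, .ofNat 0, .negSucc 203, .ofNat 651, .ofNat 0, .ofNat 203, .ofNat 77, .negSucc 23, .ofNat 0, .ofNat 128, .ofNat 13, .ofNat 0, .ofNat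 0, .ofNat 517, .ofNat 1312, .ofNat 0, .ofNat 0, .ofNat 0, .ofNat 0, .ofNat 0, .ofNat 513236949597486169206789687940214685696, .ofNat 6261328867337272473319571991696506880, .ofNat 0, .ofNat 0, .ofNat 751056376689763418079140450655740624896, .ofNat 0, .ofNat 0, .ofNat 0, .ofNat 1152985023636486505581634298341696208896, .ofNat 7586596329630127104135617170884263936, .ofNat 0⟩)
    (by decide +kernel)
theorem L01021 : Good (Phi V5.P V5.D (-1) 1) ⟨2, 0, 2, 2, 1, 1, 2, 3, 3, 2⟩ :=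
  leafX_sound T5.ok_mp T5.Ymp.bz_eq (w := 178) (c := ⟨⟨.negSucc 1223, .ofNat 21, .ofNat 17, .negSucc 75, .ofNat 165, .ofNat 156⟩, ⟨.negSucc 647, .ofNat 14, .negSucc 257, .negSucc 39, .ofNat 115, .ofNat 99⟩, ⟨.ofNat 836, .negSucc 171, .negSucc 170, .negSucc 6, .negSucc 356, .negSucc 193⟩, ⟨.negSucc 3472, .ofNat 242, .ofNat 95, .negSucc 369, .ofNat 188, .ofNat 292⟩, ⟨.negSucc 418, .ofNat 172, .negSucc 32, .ofNat 231, .ofNat 529, .ofNat 289⟩, .ofNat 883, .negSucc 679, .ofNat 0, .negSucc 679, .ofNat 1529, .ofNat 0, .ofNat 128, .ofNat 133, .negSucc 45, .ofNat 0, .ofNat 133, .negSucc 15, .ofNat 0, .ofNat 0, .ofNat 523, .ofNat 490, .ofNat 0, .ofNat 0, .ofNat 35481849025046241533960912896, .ofNat 0, .ofNat 0, .ofNat 8260545010204119725954358658990080, .ofNat 0, .ofNat 0, .ofNat 0, .ofNat 15444176360663501693579695554035712, .ofNat 10238178675802651737112790958080, .ofNat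 0, .ofNat 0, .ofNat 18415713096219004472144293076664320, .ofNat 9659673401632131882912097239040, .ofNat 0⟩)
    (by decide +kernel)
theorem L01022 : Good (Phi V5.P V5.D (-1) 1) ⟨2, 0, 2, 3, 1, 1, 1, 1, 3, 2⟩ :=
  out_sound (S := T5.ds_mp) T5.ok_mp (w := 37) (j := 3) (by decide +kernel)
theorem L01023 : Good (Phi V5.P V5.D (-1) 1) ⟨2, 0, 1, 1, 2, 2, 1, 1, 3, 3⟩ :=
  leafX_sound T5.ok_mp T5.Ymp.bz_eq (w := 185) (c := ⟨⟨.negSucc 1122, .negSucc 46, .negSucc 2, .ofNat 30, .ofNat 152, .ofNat 161⟩, ⟨.negSucc 603, .negSucc 17, .negSucc 496, .ofNat 17, .ofNat 117, .ofNat 102⟩, ⟨.ofNat 934, .ofNat 1, .negSucc 389, .negSucc 44, .negSucc 711, .negSucc 113⟩, ⟨.negSucc 3234, .ofNat 118, .ofNat 115, .ofNat 136, .ofNat 195, .ofNat 414⟩, ⟨.negSucc 361, .ofNat 65, .negSucc 31, .negSucc 56, .ofNat 502, .ofNat 133⟩, .ofNat 459, .negSucc 198, .ofNat 0, .negSucc 198, .ofNat 649, .ofNat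 0, .ofNat 167, .ofNat 78, .negSucc 19, .ofNat 0, .ofNat 128, .negSucc 6, .ofNat 0, .ofNat 0, .ofNat 612, .ofNat 786, .ofNat 0, .ofNat 0, .ofNat 0, .ofNat 0, .ofNat 0, .ofNat 2861789861120863658653736891653816320, .ofNat 3528173812670812441426598064816128, .ofNat 0, .ofNat 0, .ofNat 2277745604988071993308368824879284224, .ofNat 0, .ofNat 0, .ofNat 0, .ofNat 3097921366917584075966123251312099328, .ofNat 7103292731863038439502021520261120, .ofNat 0⟩)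
    (by decide +kernel)
theorem L01024 : Good (Phi V5.P V5.D (-1) 1) ⟨2, 0, 1, 1, 2, 3, 1, 1, 3, 3⟩ :=
  out_sound (S := T5.ds_mp) T5.ok_mp (w := 26) (j := 2) (by decide +kernel)
theorem L01025 : Good (Phi V5.P V5.D (-1) 1) ⟨2, 0, 1, 1, 4, 8, 3, 4, 4, 8⟩ :=
  out_sound (S := T5.ds_mp) T5.ok_mp (w := 29) (j := 1) (by decide +kernel)
theorem L01026 : Good (Phi V5.P V5.D (-1) 1) ⟨2, 0, 1, 1, 4, 8, 3, 5, 4, 8⟩ :=
  out_sound (S := T5.ds_mp) T5.ok_mp (w := 36) (j := 2) (by decide +kernel)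
theorem L01027 : Good (Phi V5.P V5.D (-1) 1) ⟨2, 0, 1, 1, 4, 8, 2, 2, 4, 9⟩ :=
  out_sound (S := T5.ds_mp) T5.ok_mp (w := 28) (j := 1) (by decide +kernel)
theorem L01028 : Good (Phi V5.P V5.D (-1) 1) ⟨2, 0, 1, 1, 4, 9, 2, 2, 3, 4⟩ :=
  out_sound (S := T5.ds_mp) T5.ok_mp (w := 32) (j := 2) (by decide +kernel)
theorem L01029 : Good (Phi V5.P V5.D (-1) 1) ⟨2, 0, 1, 1, 3, 4, 2, 3, 3, 4⟩ :=
  out_sound (S := T5.ds_mp) T5.ok_mp (w := 30) (j := 2) (by decide +kernel)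
theorem L01030 : Good (Phi V5.P V5.D (-1) 1) ⟨2, 0, 1, 1, 3, 4, 1, 1, 3, 5⟩ :=
  out_sound (S := T5.ds_mp) T5.ok_mp (w := 28) (j := 2) (by decide +kernel)
theorem L01031 : Good (Phi V5.P V5.D (-1) 1) ⟨2, 0, 1, 1, 3, 5, 1, 1, 2, 2⟩ :=
  out_sound (S := T5.ds_mp) T5.ok_mp (w := 26) (j := 2) (by decide +kernel)
theorem L01032 : Good (Phi V5.P V5.D (-1) 1) ⟨2, 0, 1, 1, 2, 2, 1, 1, 2, 3⟩ :=
  out_sound (S := T5.ds_mp) T5.ok_mp (w := 24) (j := 2) (by decide +kernel)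
theorem L01033 : Good (Phi V5.P V5.D (-1) 1) ⟨2, 0, 1, 1, 2, 3, 1, 1, 1, 1⟩ :=
  out_sound (S := T5.ds_mp) T5.ok_mp (w := 22) (j := 2) (by decide +kernel)
theorem L01034 : Good (Phi V5.P V5.D (-1) 1) ⟨3, 2, 4, 8, 1, 1, 2, 2, 4, 0⟩ :=
  leafX_sound T5.ok_mp T5.Ymp.bz_eq (w := 193) (c := ⟨⟨.ofNat 617, .negSucc 63, .negSucc 63, .ofNat 196, .negSucc 568, .negSucc 1258⟩, ⟨.ofNat 296, .ofNat 3, .negSucc 45, .ofNat 47, .negSucc 303, .negSucc 640⟩, ⟨.negSucc 403, .ofNat 31, .ofNat 23, .negSucc 490, .ofNat 323, .ofNat 710⟩, ⟨.ofNat 1497, .negSucc 15, .negSucc 19, .ofNat 1070, .negSucc 1293, .negSucc 3094⟩, ⟨.ofNat 91, .negSucc 124, .negSucc 189, .negSucc 1168, .negSucc 391, .negSucc 353⟩, .ofNat 1321, .negSucc 1492, .ofNat 0, .negSucc 1492, .ofNat 3199, .ofNat 0, .ofNat 128, .ofNat 214, .negSucc 122, .ofNat 0, .ofNat 149, .negSucc 48, .ofNat 0, .ofNat 0, .ofNat 279, .ofNat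 338, .ofNat 0, .ofNat 0, .ofNat 0, .ofNat 0, .ofNat 0, .ofNat 0, .ofNat 0, .ofNat 0, .ofNat 0, .ofNat 0, .ofNat 0, .ofNat 0, .ofNat 0, .ofNat 0, .ofNat 0, .ofNat 0⟩)
    (by decide +kernel)
theorem L01035 : Good (Phi V5.P V5.D (-1) 1) ⟨3, 3, 4, 8, 1, 1, 2, 2, 4, 0⟩ :=
  leafX_sound T5.ok_mp T5.Ymp.bz_eq (w := 193) (c := ⟨⟨.ofNat 713, .ofNat 45, .negSucc 16, .ofNat 415, .negSucc 682, .negSucc 1653⟩, ⟨.ofNat 273, .ofNat 7, .negSucc 35, .ofNat 94, .negSucc 297, .negSucc 684⟩, ⟨.negSucc 499, .negSucc 37, .negSucc 13, .negSucc 650, .ofNat 384, .ofNat 1008⟩, ⟨.ofNat 1594, .ofNat 455, .ofNat 117, .ofNat 1326, .negSucc 1406, .negSucc 3739⟩, ⟨.ofNat 25, .negSucc 708, .negSucc 207, .negSucc 966, .negSucc 462, .negSucc 304⟩, .ofNat 1007, .negSucc 1122, .ofNat 0, .negSucc 1122, .ofNat 2868, .ofNat 0, .ofNat 128, .ofNat 141, .negSucc 178, .ofNat 0, .ofNat 93, .negSucc 58, .ofNat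 0, .ofNat 0, .ofNat 330, .ofNat 176, .ofNat 0, .ofNat 0, .ofNat 0, .ofNat 0, .ofNat 0, .ofNat 0, .ofNat 316791400388041622975253999255552, .ofNat 0, .ofNat 0, .ofNat 0, .ofNat 0, .ofNat 0, .ofNat 0, .ofNat 0, .ofNat 209741623480098978997885896491008, .ofNat 0⟩)
    (by decide +kernel)
theorem L01036 : Good (Phi V5.P V5.D (-1) 1) ⟨2, 1, 4, 8, 2, 2, 2, 2, 4, 1⟩ :=
  leafX_sound T5.ok_mp T5.Ymp.bz_eq (w := 203) (c := ⟨⟨.negSucc 808, .negSucc 682, .negSucc 19, .negSucc 119, .ofNat 23, .negSucc 457⟩, ⟨.negSucc 488, .negSucc 74, .negSucc 73, .negSucc 61, .ofNat 15, .negSucc 216⟩, ⟨.ofNat 373, .ofNat 520, .ofNat 27, .negSucc 149, .negSucc 44, .ofNat 360⟩, ⟨.negSucc 1951, .negSucc 994, .negSucc 8, .negSucc 39, .negSucc 45, .negSucc 1281⟩, ⟨.negSucc 848, .negSucc 13, .ofNat 17, .negSucc 463, .ofNat 176, .ofNat 225⟩, .ofNat 731, .negSucc 576, .ofNat 0, .negSucc 576, .ofNat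 1548, .ofNat 0, .ofNat 150, .ofNat 128, .negSucc 89, .ofNat 0, .ofNat 105, .negSucc 26, .ofNat 0, .ofNat 0, .ofNat 225, .ofNat 798, .ofNat 0, .ofNat 0, .ofNat 0, .ofNat 0, .ofNat 0, .ofNat 0, .ofNat 8646026861212878461503033930948804608, .ofNat 0, .ofNat 0, .ofNat 0, .ofNat 0, .ofNat 0, .ofNat 0, .ofNat 0, .ofNat 0, .ofNat 0⟩)
    (by decide +kernel)
theorem L01037 : Good (Phi V5.P V5.D (-1) 1) ⟨2, 1, 4, 8, 3, 6, 3, 4, 4, 1⟩ :=
  leafX_sound T5.ok_mp T5.Ymp.bz_eq (w := 221) (c := ⟨⟨.negSucc 743, .negSucc 719, .negSucc 23, .ofNat 25, .ofNat 49, .negSucc 720⟩, ⟨.negSucc 465, .negSucc 95, .negSucc 94, .negSucc 5, .ofNat 13, .negSucc 321⟩, ⟨.ofNat 79, .ofNat 582, .ofNat 16, .negSucc 107, .negSucc 64, .ofNat 556⟩, ⟨.negSucc 1546, .negSucc 1114, .negSucc 15, .ofNat 145, .ofNat 65, .negSucc 1890⟩, ⟨.negSucc 1291, .negSucc 24, .negSucc 19, .negSucc 209, .ofNat 50, .ofNat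 200⟩, .ofNat 735, .negSucc 594, .ofNat 0, .negSucc 594, .ofNat 1585, .ofNat 0, .ofNat 128, .ofNat 130, .negSucc 94, .ofNat 0, .ofNat 100, .negSucc 26, .ofNat 0, .ofNat 0, .ofNat 196, .ofNat 1046, .ofNat 0, .ofNat 0, .ofNat 0, .ofNat 0, .ofNat 0, .ofNat 0, .ofNat 2656272799295247560736567646264890507657216, .ofNat 0, .ofNat 0, .ofNat 0, .ofNat 0, .ofNat 0, .ofNat 0, .ofNat 0, .ofNat 1154057213941841536180936886603797959278592, .ofNat 0⟩)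
    (by decide +kernel)
theorem L01038 : Good (Phi V5.P V5.D (-1) 1) ⟨2, 1, 4, 8, 3, 6, 3, 5, 4, 1⟩ :=
  leafX_sound T5.ok_mp T5.Ymp.bz_eq (w := 222) (c := ⟨⟨.negSucc 895, .negSucc 657, .negSucc 33, .ofNat 49, .ofNat 28, .negSucc 524⟩, ⟨.negSucc 544, .negSucc 75, .negSucc 85, .ofNat 0, .ofNat 20, .negSucc 221⟩, ⟨.ofNat 192, .ofNat 499, .ofNat 22, .negSucc 124, .negSucc 23, .ofNat 405⟩, ⟨.negSucc 1882, .negSucc 1020, .negSucc 37, .ofNat 224, .negSucc 15, .negSucc 1473⟩, ⟨.negSucc 1403, .ofNat 41, .negSucc 4, .negSucc 262, .ofNat 168, .ofNat 362⟩, .ofNat 722, .negSucc 569, .ofNat 0, .negSucc 569, .ofNat 1541, .ofNat 0, .ofNat 128, .ofNat 180, .negSucc 126, .ofNat 0, .ofNat 143, .negSucc 31, .ofNat 0, .ofNat 0, .ofNat 251, .ofNat 1196, .ofNat 0, .ofNat 0, .ofNat 0, .ofNat 0, .ofNat 0, .ofNat 0, .ofNat 2225151734756351245200139617511637447081984, .ofNat 0, .ofNat 0, .ofNat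 0, .ofNat 0, .ofNat 0, .ofNat 0, .ofNat 0, .ofNat 1697757274898514079010903759500554086121472, .ofNat 0⟩)
    (by decide +kernel)
theorem L01039 : Good (Phi V5.P V5.D (-1) 1) ⟨2, 1, 4, 8, 3, 7, 2, 2, 5, 2⟩ :=
  leafX_sound T5.ok_mp T5.Ymp.bz_eq (w := 221) (c := ⟨⟨.negSucc 839, .negSucc 544, .negSucc 40, .ofNat 27, .ofNat 25, .negSucc 370⟩, ⟨.negSucc 500, .negSucc 67, .negSucc 73, .negSucc 12, .negSucc 4, .negSucc 160⟩, ⟨.ofNat 53, .ofNat 434, .ofNat 21, .negSucc 111, .ofNat 3, .ofNat 268⟩, ⟨.negSucc 1704, .negSucc 895, .negSucc 78, .ofNat 81, .ofNat 205, .negSucc 892⟩, ⟨.negSucc 1303, .negSucc 8, .ofNat 60, .negSucc 109, .negSucc 334, .negSucc 9⟩, .ofNat 945, .negSucc 922, .ofNat 0, .negSucc 922, .ofNat 2248, .ofNat 0, .ofNat 128, .ofNat 147, .negSucc 131, .ofNat 0, .ofNat 103, .negSucc 35, .ofNat 0, .ofNat 0, .ofNat 246, .ofNat 416, .ofNat 0, .ofNat 0, .ofNat 56110396859632611515567515284099861315584,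 .ofNat 0, .ofNat 0, .ofNat 0, .ofNat 0, .ofNat 0, .ofNat 0, .ofNat 0, .ofNat 0, .ofNat 0, .ofNat 0, .ofNat 0, .ofNat 5679299299681745298689598254988755172589568, .ofNat 0⟩)
    (by decide +kernel)
theorem L01040 : Good (Phi V5.P V5.D (-1) 1) ⟨3, 2, 4, 8, 3, 7, 2, 2, 5, 3⟩ :=
  leafX_sound T5.ok_mp T5.Ymp.bz_eq (w := 227) (c := ⟨⟨.negSucc 1434, .negSucc 162, .ofNat 7, .ofNat 77, .ofNat 245, .negSucc 127⟩, ⟨.negSucc 793, .ofNat 8, .negSucc 54, .ofNat 26, .ofNat 121, .negSucc 58⟩, ⟨.ofNat 412, .ofNat 153, .ofNat 9, .negSucc 126, .negSucc 103, .ofNat 147⟩, ⟨.negSucc 3315, .negSucc 83, .ofNat 75, .ofNat 333, .ofNat 635, .negSucc 330⟩, ⟨.negSucc 1220, .negSucc 129, .ofNat 24, .negSucc 273, .negSucc 25, .negSucc 3⟩, .ofNat 1306, .negSucc 1478, .ofNat 0, .negSucc 1478, .ofNat 3195, .ofNat 0, .ofNat 128, .ofNat 266, .negSucc 102, .ofNat 0, .ofNat 185, .negSucc 33, .ofNat 0,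 .ofNat 0, .ofNat 253, .ofNat 1865, .ofNat 0, .ofNat 0, .ofNat 0, .ofNat 0, .ofNat 0, .ofNat 0, .ofNat 0, .ofNat 0, .ofNat 0, .ofNat 0, .ofNat 0, .ofNat 0, .ofNat 0, .ofNat 0, .ofNat 0, .ofNat 0⟩)
    (by decide +kernel)
theorem L01041 : Good (Phi V5.P V5.D (-1) 1) ⟨3, 3, 4, 8, 3, 7, 3, 4, 5, 3⟩ :=
  leafX_sound T5.ok_mp T5.Ymp.bz_eq (w := 231) (c := ⟨⟨.negSucc 1609, .negSucc 467, .negSucc 65, .ofNat 46, .ofNat 171, .negSucc 153⟩, ⟨.negSucc 776, .negSucc 35, .negSucc 102, .ofNat 14, .ofNat 61, .negSucc 66⟩, ⟨.ofNat 589, .ofNat 428, .ofNat 66, .negSucc 97, .negSucc 122, .ofNat 146⟩, ⟨.negSucc 3441, .negSucc 802, .negSucc 126, .ofNat 160, .ofNat 436, .negSucc 348⟩, ⟨.negSucc 1307, .ofNat 188, .ofNat 75, .negSucc 112, .negSucc 111, .negSucc 50⟩, .ofNat 1011, .negSucc 1128, .ofNat 0, .negSucc 1128, .ofNat 2876, .ofNat 0, .ofNat 160, .ofNat 128, .negSucc 173, .ofNat 0,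 .ofNat 84, .negSucc 47, .ofNat 0, .ofNat 0, .ofNat 339, .ofNat 1647, .ofNat 0, .ofNat 0, .ofNat 0, .ofNat 0, .ofNat 0, .ofNat 0, .ofNat 114123319054703819066988983042464863821496320, .ofNat 0, .ofNat 0, .ofNat 0, .ofNat 0, .ofNat 0, .ofNat 0, .ofNat 0, .ofNat 83492091062714360545765735609179931859222528, .ofNat 0⟩)
    (by decide +kernel)
theorem L01042 : Good (Phi V5.P V5.D (-1) 1) ⟨3, 3, 4, 8, 3, 7, 3, 5, 5, 3⟩ :=
  leafX_sound T5.ok_mp T5.Ymp.bz_eq (w := 231) (c := ⟨⟨.negSucc 1660, .negSucc 276, .negSucc 26, .ofNat 198, .ofNat 248, .negSucc 61⟩, ⟨.negSucc 794, .ofNat 9, .negSucc 80, .ofNat 57, .ofNat 100, .negSucc 18⟩, ⟨.ofNat 628, .ofNat 258, .ofNat 24, .negSucc 180, .negSucc 164, .ofNat 84⟩, ⟨.negSucc 3516, .negSucc 310, .negSucc 35, .ofNat 594, .ofNat 566, .negSucc 174⟩, ⟨.negSucc 1352, .negSucc 59, .ofNat 67, .negSucc 345, .ofNat 7, .ofNat 87⟩, .ofNat 1008,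 .negSucc 1125, .ofNat 0, .negSucc 1125, .ofNat 2869, .ofNat 0, .ofNat 128, .ofNat 149, .negSucc 162, .ofNat 0, .ofNat 99, .negSucc 41, .ofNat 0, .ofNat 0, .ofNat 302, .ofNat 1065, .ofNat 0, .ofNat 0, .ofNat 574003453497468556170821132394773323186176, .ofNat 0, .ofNat 0, .ofNat 0, .ofNat 35296227142308588755651317225452749998522368, .ofNat 0, .ofNat 0, .ofNat 0, .ofNat 0, .ofNat 0, .ofNat 0, .ofNat 0, .ofNat 48371840190160332851689555125645835937775616, .ofNat 0⟩)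
    (by decide +kernel)
theorem L01043 : Good (Phi V5.P V5.D (-1) 1) ⟨2, 1, 4, 8, 2, 2, 3, 6, 4, 0⟩ :=
  leafX_sound T5.ok_mp T5.Ymp.bz_eq (w := 206) (c := ⟨⟨.negSucc 95, .negSucc 460, .negSucc 131, .ofNat 127, .negSucc 161, .negSucc 775⟩, ⟨.negSucc 104, .negSucc 117, .negSucc 82, .ofNat 28, .negSucc 80, .negSucc 347⟩, ⟨.ofNat 42, .ofNat 224, .ofNat 86, .negSucc 303, .ofNat 89, .ofNat 437⟩, ⟨.negSucc 82, .negSucc 779, .negSucc 238, .ofNat 559, .negSucc 466, .negSucc 1952⟩, ⟨.negSucc 623, .negSucc 193, .ofNat 9, .negSucc 559, .ofNat 52, .ofNat 61⟩, .ofNat 721, .negSucc 570, .ofNat 0, .negSucc 570, .ofNat 1548, .ofNat 0, .ofNat 128, .ofNat 145, .negSucc 106, .ofNat 0, .ofNat 120, .negSucc 33, .ofNat 0, .ofNat 0, .ofNat 197, .ofNat 426, .ofNat 0, .ofNat 0, .ofNat 0, .ofNat 0, .ofNat 0, .ofNat 0, .ofNat 0, .ofNat 0, .ofNat 0, .ofNat 0, .ofNat 0, .ofNat 0, .ofNat 0, .ofNat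 0, .ofNat 43809100754267140477490261266018598912, .ofNat 0⟩)
    (by decide +kernel)
theorem L01044 : Good (Phi V5.P V5.D (-1) 1) ⟨3, 2, 4, 8, 2, 3, 3, 6, 4, 0⟩ :=
  leafX_sound T5.ok_mp T5.Ymp.bz_eq (w := 212) (c := ⟨⟨.negSucc 15, .negSucc 130, .negSucc 41, .negSucc 71, .negSucc 269, .negSucc 767⟩, ⟨.negSucc 78, .negSucc 21, .negSucc 38, .negSucc 75, .negSucc 133, .negSucc 376⟩, ⟨.negSucc 181, .ofNat 47, .ofNat 17, .negSucc 181, .ofNat 153, .ofNat 371⟩, ⟨.ofNat 356, .negSucc 101, .negSucc 23, .ofNat 261, .negSucc 659, .negSucc 2019⟩, ⟨.negSucc 991, .negSucc 265, .negSucc 35, .negSucc 909, .negSucc 81, .ofNat 22⟩, .ofNat 1032, .negSucc 1015, .ofNat 0, .negSucc 1015, .ofNat 2321, .ofNat 0, .ofNat 128, .ofNat 327, .negSucc 223, .ofNat 0, .ofNat 241, .negSucc 64, .ofNat 0, .ofNat 0, .ofNat 423, .ofNat 1322, .ofNat 0, .ofNat 0, .ofNat 0, .ofNat 0, .ofNat 0, .ofNat 0,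 .ofNat 0, .ofNat 0, .ofNat 0, .ofNat 0, .ofNat 0, .ofNat 0, .ofNat 0, .ofNat 0, .ofNat 0, .ofNat 0⟩)
    (by decide +kernel)
theorem L01045 : Good (Phi V5.P V5.D (-1) 1) ⟨3, 3, 4, 8, 2, 3, 3, 6, 5, 0⟩ :=
  leafX_sound T5.ok_mp T5.Ymp.bz_eq (w := 216) (c := ⟨⟨.ofNat 149, .ofNat 73, .negSucc 64, .negSucc 29, .negSucc 527, .negSucc 710⟩, ⟨.negSucc 18, .ofNat 18, .negSucc 33, .negSucc 72, .negSucc 212, .negSucc 284⟩, ⟨.negSucc 350, .negSucc 124, .ofNat 13, .negSucc 191, .ofNat 307, .ofNat 427⟩, ⟨.ofNat 781, .ofNat 246, .negSucc 23, .ofNat 294, .negSucc 1168, .negSucc 1560⟩, ⟨.negSucc 1198, .negSucc 269, .negSucc 38, .negSucc 922, .negSucc 89, .negSucc 154⟩, .ofNat 1161, .negSucc 1416, .ofNat 0, .negSucc 1416, .ofNat 3483, .ofNat 0, .ofNat 147, .ofNat 128, .negSucc 268, .ofNat 0, .ofNat 82, .negSucc 78, .ofNat 0, .ofNat 0, .ofNat 409, .ofNat 331, .ofNat 0, .ofNat 0, .ofNat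 0, .ofNat 0, .ofNat 0, .ofNat 0, .ofNat 5071818903480169799288651743299058532352, .ofNat 0, .ofNat 0, .ofNat 0, .ofNat 0, .ofNat 0, .ofNat 0, .ofNat 0, .ofNat 4306788473396205258730982943678154145792, .ofNat 0⟩)
    (by decide +kernel)
theorem L01046 : Good (Phi V5.P V5.D (-1) 1) ⟨3, 3, 4, 8, 2, 3, 3, 6, 5, 1⟩ :=
  leafX_sound T5.ok_mp T5.Ymp.bz_eq (w := 216) (c := ⟨⟨.negSucc 664, .negSucc 236, .negSucc 26, .ofNat 73, .negSucc 159, .negSucc 455⟩, ⟨.negSucc 372, .negSucc 30, .negSucc 49, .negSucc 12, .negSucc 61, .negSucc 177⟩, ⟨.ofNat 59, .ofNat 166, .ofNat 10, .negSucc 212, .ofNat 94, .ofNat 314⟩, ⟨.negSucc 1063, .negSucc 416, .ofNat 20, .ofNat 482, .negSucc 387, .negSucc 1175⟩, ⟨.negSucc 1451, .ofNat 2, .negSucc 6, .negSucc 753, .ofNat 37, .ofNat 247⟩, .ofNat 1021, .negSucc 1142, .ofNat 0, .negSucc 1142, .ofNat 2891, .ofNat 0, .ofNat 128, .ofNat 152, .negSucc 246,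 .ofNat 0, .ofNat 100, .negSucc 67, .ofNat 0, .ofNat 0, .ofNat 384, .ofNat 870, .ofNat 0, .ofNat 0, .ofNat 8071119406604814863523222172880338944, .ofNat 0, .ofNat 0, .ofNat 0, .ofNat 3382171358591133948799167158582740254720, .ofNat 0, .ofNat 0, .ofNat 0, .ofNat 0, .ofNat 0, .ofNat 0, .ofNat 0, .ofNat 3252173022826993332511119267748238065664, .ofNat 0⟩)
    (by decide +kernel)
theorem L01047 : Good (Phi V5.P V5.D (-1) 1) ⟨2, 1, 4, 8, 2, 2, 3, 6, 4, 1⟩ :=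
  leafX_sound T5.ok_mp T5.Ymp.bz_eq (w := 207) (c := ⟨⟨.negSucc 940, .negSucc 568, .negSucc 50, .negSucc 131, .ofNat 91, .negSucc 247⟩, ⟨.negSucc 537, .negSucc 50, .negSucc 91, .negSucc 68, .ofNat 56, .negSucc 109⟩, ⟨.ofNat 496, .ofNat 373, .ofNat 31, .negSucc 137, .negSucc 98, .ofNat 174⟩, ⟨.negSucc 2234, .negSucc 804, .negSucc 91, .negSucc 176, .ofNat 131, .negSucc 833⟩, ⟨.negSucc 842, .ofNat 17, .negSucc 36, .negSucc 308, .ofNat 206, .ofNat 391⟩, .ofNat 728, .negSucc 577, .ofNat 0, .negSucc 577, .ofNat 1552, .ofNat 0, .ofNat 128, .ofNat 153, .negSucc 105, .ofNat 0, .ofNat 126, .negSucc 29, .ofNat 0, .ofNat 0, .ofNat 234, .ofNat 935, .ofNat 0, .ofNat 0, .ofNat 0, .ofNat 0, .ofNat 0, .ofNat 0, .ofNat 0, .ofNat 0, .ofNat 0, .ofNat 0, .ofNat 0, .ofNat 0, .ofNat 0, .ofNat 0, .ofNat 75613489560086120199915949753613942784, .ofNat 0⟩)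
    (by decide +kernel)
theorem L01048 : Good (Phi V5.P V5.D (-1) 1) ⟨3, 2, 4, 8, 2, 3, 3, 6, 5, 2⟩ :=
  leafX_sound T5.ok_mp T5.Ymp.bz_eq (w := 217) (c := ⟨⟨.negSucc 958, .negSucc 197, .negSucc 67, .ofNat 69, .ofNat 26, .negSucc 250⟩, ⟨.negSucc 553, .negSucc 21, .negSucc 76, .ofNat 3, .ofNat 19, .negSucc 112⟩, ⟨.ofNat 266, .ofNat 117, .ofNat 33, .negSucc 205, .negSucc 8, .ofNat 178⟩, ⟨.negSucc 2045, .negSucc 290, .negSucc 84, .ofNat 548, .negSucc 20, .negSucc 757⟩, ⟨.negSucc 1230, .negSucc 5, .negSucc 27, .negSucc 741, .ofNat 168, .ofNat 213⟩, .ofNat 1324, .negSucc 1489, .ofNat 0, .negSucc 1489, .ofNat 3186, .ofNat 0, .ofNat 128, .ofNat 173, .negSucc 116, .ofNat 0, .ofNat 121, .negSucc 38, .ofNat 0, .ofNat 0, .ofNat 253, .ofNat 1150, .ofNat 0, .ofNat 0, .ofNat 0, .ofNat 0, .ofNat 0, .ofNat 0, .ofNat 0, .ofNat 0, .ofNat 0, .ofNat 0, .ofNat 0, .ofNat 0, .ofNat 0, .ofNat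 0, .ofNat 0, .ofNat 0⟩)
    (by decide +kernel)
theorem L01049 : Good (Phi V5.P V5.D (-1) 1) ⟨3, 3, 4, 8, 2, 3, 4, 12, 5, 2⟩ :=
  leafX_sound T5.ok_mp T5.Ymp.bz_eq (w := 221) (c := ⟨⟨.negSucc 1248, .negSucc 352, .negSucc 46, .ofNat 251, .ofNat 11, .negSucc 237⟩, ⟨.negSucc 621, .negSucc 22, .negSucc 71, .ofNat 57, .ofNat 6, .negSucc 77⟩, ⟨.ofNat 422, .ofNat 290, .ofNat 24, .negSucc 306, .ofNat 2, .ofNat 184⟩, ⟨.negSucc 2530, .negSucc 607, .negSucc 50, .ofNat 835, .negSucc 0, .negSucc 669⟩, ⟨.negSucc 1358, .ofNat 151, .ofNat 42, .negSucc 665, .ofNat 55, .ofNat 294⟩, .ofNat 1019, .negSucc 1139, .ofNat 0, .negSucc 1139, .ofNat 2886, .ofNat 0, .ofNat 128, .ofNat 141, .negSucc 231, .ofNat 0, .ofNat 93, .negSucc 64, .ofNat 0, .ofNat 0, .ofNat 391, .ofNat 1542, .ofNat 0, .ofNat 0, .ofNat 737110240361162669089687293968154361856, .ofNat 0, .ofNat 0, .ofNat 0, .ofNat 38333114580569408670966776827111853260800,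 .ofNat 0, .ofNat 0, .ofNat 0, .ofNat 0, .ofNat 0, .ofNat 0, .ofNat 0, .ofNat 84592438774414321346404635898415497084928, .ofNat 0⟩)
    (by decide +kernel)
theorem L01050 : Good (Phi V5.P V5.D (-1) 1) ⟨3, 3, 4, 8, 2, 3, 4, 13, 5, 2⟩ :=
  leafX_sound T5.ok_mp T5.Ymp.bz_eq (w := 221) (c := ⟨⟨.negSucc 1241, .negSucc 376, .negSucc 53, .ofNat 228, .ofNat 53, .negSucc 194⟩, ⟨.negSucc 609, .negSucc 47, .negSucc 76, .ofNat 48, .ofNat 29, .negSucc 61⟩, ⟨.ofNat 427, .ofNat 286, .ofNat 28, .negSucc 289, .negSucc 39, .ofNat 160⟩, ⟨.negSucc 2575, .negSucc 694, .negSucc 78, .ofNat 914, .ofNat 72, .negSucc 579⟩, ⟨.negSucc 1187, .ofNat 137, .ofNat 36, .negSucc 889, .ofNat 115, .ofNat 294⟩, .ofNat 1020, .negSucc 1140, .ofNat 0, .negSucc 1140, .ofNat 2895, .ofNat 0, .ofNat 128, .ofNat 154, .negSucc 201, .ofNat 0, .ofNat 103, .negSucc 53, .ofNat 0, .ofNat 0, .ofNat 333, .ofNat 970, .ofNat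 0, .ofNat 0, .ofNat 297902207340483259459461610449194188800, .ofNat 0, .ofNat 0, .ofNat 0, .ofNat 51530950947142641701313339471424045187072, .ofNat 0, .ofNat 0, .ofNat 0, .ofNat 0, .ofNat 0, .ofNat 0, .ofNat 0, .ofNat 51788276146403375877427000902027204100096, .ofNat 0⟩)
    (by decide +kernel)
theorem L01051 : Good (Phi V5.P V5.D (-1) 1) ⟨3, 2, 4, 8, 2, 3, 3, 6, 5, 3⟩ :=
  leafX_sound T5.ok_mp T5.Ymp.bz_eq (w := 217) (c := ⟨⟨.negSucc 1383, .negSucc 141, .negSucc 26, .ofNat 289, .ofNat 176, .negSucc 42⟩, ⟨.negSucc 758, .ofNat 11, .negSucc 67, .ofNat 114, .ofNat 102, .negSucc 5⟩, ⟨.ofNat 514, .ofNat 72, .ofNat 13, .negSucc 255, .negSucc 76, .ofNat 92⟩, ⟨.negSucc 3226, .negSucc 91, .negSucc 0, .ofNat 1069, .ofNat 273, .negSucc 268⟩, ⟨.negSucc 1109, .negSucc 32, .negSucc 8, .negSucc 668, .ofNat 347, .ofNat 307⟩, .ofNat 1038, .negSucc 1025, .ofNat 0, .negSucc 1025, .ofNat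 2334, .ofNat 0, .ofNat 128, .ofNat 208, .negSucc 118, .ofNat 0, .ofNat 155, .negSucc 32, .ofNat 0, .ofNat 0, .ofNat 278, .ofNat 1704, .ofNat 0, .ofNat 0, .ofNat 0, .ofNat 0, .ofNat 0, .ofNat 0, .ofNat 0, .ofNat 0, .ofNat 0, .ofNat 0, .ofNat 0, .ofNat 0, .ofNat 0, .ofNat 0, .ofNat 0, .ofNat 0⟩)
    (by decide +kernel)
theorem L01052 : Good (Phi V5.P V5.D (-1) 1) ⟨3, 3, 4, 8, 2, 3, 3, 6, 5, 3⟩ :=
  leafX_sound T5.ok_mp T5.Ymp.bz_eq (w := 217) (c := ⟨⟨.negSucc 1701, .negSucc 270, .negSucc 43, .ofNat 407, .ofNat 256, .ofNat 36⟩, ⟨.negSucc 799, .ofNat 13, .negSucc 80, .ofNat 128, .ofNat 127, .ofNat 30⟩, ⟨.ofNat 742, .ofNat 217, .ofNat 36, .negSucc 373, .negSucc 176, .ofNat 8⟩, ⟨.negSucc 3739, .negSucc 400, .negSucc 46, .ofNat 1330, .ofNat 463, .negSucc 51⟩, ⟨.negSucc 1056, .ofNat 154, .ofNat 0, .negSucc 863, .ofNat 338, .ofNat 312⟩, .ofNat 837, .negSucc 806, .ofNat 0,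 .negSucc 806, .ofNat 2172, .ofNat 0, .ofNat 150, .ofNat 128, .negSucc 146, .ofNat 0, .ofNat 92, .negSucc 32, .ofNat 0, .ofNat 0, .ofNat 270, .ofNat 654, .ofNat 0, .ofNat 0, .ofNat 6687399491212546708527645967335292928, .ofNat 0, .ofNat 0, .ofNat 0, .ofNat 0, .ofNat 0, .ofNat 0, .ofNat 0, .ofNat 1153854231514254443387674275670669656064, .ofNat 0, .ofNat 0, .ofNat 0, .ofNat 1696805496354108939925517251286019342336, .ofNat 0⟩)
    (by decide +kernel)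
theorem L01053 : Good (Phi V5.P V5.D (-1) 1) ⟨3, 2, 4, 8, 2, 2, 3, 7, 4, 0⟩ :=
  leafX_sound T5.ok_mp T5.Ymp.bz_eq (w := 212) (c := ⟨⟨.negSucc 523, .negSucc 138, .negSucc 8, .negSucc 1, .ofNat 124, .negSucc 404⟩, ⟨.negSucc 299, .negSucc 28, .negSucc 32, .negSucc 20, .ofNat 65, .negSucc 200⟩, ⟨.ofNat 350, .ofNat 8, .ofNat 0, .negSucc 202, .negSucc 142, .ofNat 146⟩, ⟨.negSucc 1179, .negSucc 102, .negSucc 31, .ofNat 139, .ofNat 305, .negSucc 1005⟩, ⟨.negSucc 589, .negSucc 236, .ofNat 90, .negSucc 298, .ofNat 23, .negSucc 54⟩, .ofNat 1607, .negSucc 1975, .ofNat 0, .negSucc 1975, .ofNat 4060, .ofNat 0, .ofNat 128, .ofNat 223, .negSucc 167, .ofNat 0, .ofNat 156, .negSucc 71, .ofNat 0, .ofNat 0, .ofNat 339, .ofNat 1521, .ofNat 0, .ofNat 0, .ofNat 0, .ofNat 0, .ofNat 0, .ofNat 0, .ofNat 0, .ofNat 0, .ofNat 0, .ofNat 0, .ofNat 0, .ofNat 0, .ofNat 0, .ofNat 0, .ofNat 0, .ofNat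 0⟩)
    (by decide +kernel)
theorem L01054 : Good (Phi V5.P V5.D (-1) 1) ⟨3, 2, 4, 8, 2, 3, 3, 7, 5, 0⟩ :=
  leafX_sound T5.ok_mp T5.Ymp.bz_eq (w := 217) (c := ⟨⟨.negSucc 371, .negSucc 112, .negSucc 28, .negSucc 185, .negSucc 166, .negSucc 253⟩, ⟨.negSucc 247, .negSucc 15, .negSucc 34, .negSucc 148, .negSucc 80, .negSucc 123⟩, ⟨.ofNat 76, .negSucc 1, .negSucc 10, .negSucc 197, .ofNat 26, .ofNat 109⟩, ⟨.negSucc 587, .negSucc 87, .ofNat 54, .ofNat 156, .negSucc 383, .negSucc 714⟩, ⟨.negSucc 969, .negSucc 238, .negSucc 75, .negSucc 1285, .negSucc 76, .ofNat 101⟩, .ofNat 1322, .negSucc 1496, .ofNat 0, .negSucc 1496, .ofNat 3208, .ofNat 0, .ofNat 128, .ofNat 471, .negSucc 296, .ofNat 0, .ofNat 334, .negSucc 87, .ofNat 0, .ofNat 0, .ofNat 551, .ofNat 1991, .ofNat 0, .ofNat 0, .ofNat 0, .ofNat 0, .ofNat 0, .ofNat 0, .ofNat 0, .ofNat 0, .ofNat 0, .ofNat 0, .ofNat 0, .ofNat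 0, .ofNat 0, .ofNat 0, .ofNat 0, .ofNat 0⟩)
    (by decide +kernel)
theorem L01055 : Good (Phi V5.P V5.D (-1) 1) ⟨3, 2, 4, 8, 2, 3, 3, 7, 5, 1⟩ :=
  leafX_sound T5.ok_mp T5.Ymp.bz_eq (w := 218) (c := ⟨⟨.negSucc 771, .negSucc 168, .negSucc 24, .negSucc 11, .ofNat 39, .negSucc 187⟩, ⟨.negSucc 455, .negSucc 29, .negSucc 43, .negSucc 51, .ofNat 31, .negSucc 79⟩, ⟨.ofNat 197, .ofNat 47, .ofNat 4, .negSucc 215, .negSucc 51, .ofNat 132⟩, ⟨.negSucc 1542, .negSucc 219, .ofNat 37, .ofNat 481, .negSucc 17, .negSucc 638⟩, ⟨.negSucc 1186, .negSucc 156, .negSucc 37, .negSucc 1041, .ofNat 239, .ofNat 308⟩, .ofNat 1316, .negSucc 1487, .ofNat 0, .negSucc 1487, .ofNat 3198, .ofNat 0, .ofNat 128, .ofNat 343, .negSucc 227, .ofNat 0, .ofNat 243, .negSucc 68, .ofNat 0, .ofNat 0, .ofNat 433, .ofNat 2431, .ofNat 0, .ofNat 0, .ofNat 0, .ofNat 0, .ofNat 0, .ofNat 0, .ofNat 0, .ofNat 0, .ofNat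 0, .ofNat 0, .ofNat 0, .ofNat 0, .ofNat 0, .ofNat 3409085815597049760111233891177974850387968, .ofNat 0, .ofNat 0⟩)
    (by decide +kernel)
theorem L01056 : Good (Phi V5.P V5.D (-1) 1) ⟨3, 2, 4, 8, 2, 2, 3, 7, 4, 1⟩ :=
  leafX_sound T5.ok_mp T5.Ymp.bz_eq (w := 212) (c := ⟨⟨.negSucc 1000, .negSucc 148, .negSucc 33, .negSucc 139, .ofNat 357, .negSucc 159⟩, ⟨.negSucc 540, .negSucc 0, .negSucc 72, .negSucc 82, .ofNat 186, .negSucc 64⟩, ⟨.ofNat 560, .ofNat 24, .ofNat 6, .negSucc 92, .negSucc 361, .ofNat 63⟩, ⟨.negSucc 2389, .negSucc 158, .negSucc 59, .negSucc 272, .ofNat 782, .negSucc 596⟩, ⟨.negSucc 730, .ofNat 34, .negSucc 6, .negSucc 217, .ofNat 281, .ofNat 362⟩, .ofNat 1312, .negSucc 1486, .ofNat 0, .negSucc 1486, .ofNat 3206, .ofNat 0, .ofNat 128, .ofNat 222, .negSucc 175, .ofNat 0, .ofNat 159, .negSucc 67, .ofNat 0, .ofNat 0, .ofNat 408, .ofNat 1247, .ofNat 0, .ofNat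 0, .ofNat 0, .ofNat 0, .ofNat 0, .ofNat 0, .ofNat 0, .ofNat 0, .ofNat 0, .ofNat 643794030002936853761004138414651457142784, .ofNat 0, .ofNat 0, .ofNat 0, .ofNat 0, .ofNat 0, .ofNat 0⟩)
    (by decide +kernel)
theorem L01057 : Good (Phi V5.P V5.D (-1) 1) ⟨3, 2, 4, 8, 2, 3, 3, 7, 4, 1⟩ :=
  leafX_sound T5.ok_mp T5.Ymp.bz_eq (w := 212) (c := ⟨⟨.negSucc 1195, .negSucc 127, .negSucc 10, .ofNat 213, .ofNat 257, .negSucc 51⟩, ⟨.negSucc 663, .ofNat 4, .negSucc 56, .ofNat 79, .ofNat 153, .ofNat 16⟩, ⟨.ofNat 405, .negSucc 1, .negSucc 19, .negSucc 180, .negSucc 154, .ofNat 139⟩, ⟨.negSucc 2651, .negSucc 32, .ofNat 48, .ofNat 811, .ofNat 336, .negSucc 595⟩, ⟨.negSucc 1220, .negSucc 133, .negSucc 60, .negSucc 545, .ofNat 637, .ofNat 916⟩, .ofNat 1748, .negSucc 2243, .ofNat 0, .negSucc 2243, .ofNat 4604, .ofNat 0, .ofNat 128, .ofNat 302, .negSucc 130, .ofNat 0, .ofNat 206, .negSucc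 43, .ofNat 0, .ofNat 0, .ofNat 293, .ofNat 879, .ofNat 0, .ofNat 0, .ofNat 0, .ofNat 0, .ofNat 0, .ofNat 0, .ofNat 0, .ofNat 0, .ofNat 0, .ofNat 1038297183767173840186317257060703954534400, .ofNat 0, .ofNat 0, .ofNat 0, .ofNat 180561581148572394980529147987993168969728, .ofNat 0, .ofNat 0⟩)
    (by decide +kernel)
theorem L01058 : Good (Phi V5.P V5.D (-1) 1) ⟨3, 3, 4, 8, 2, 2, 4, 14, 4, 0⟩ :=
  leafX_sound T5.ok_mp T5.Ymp.bz_eq (w := 215) (c := ⟨⟨.negSucc 593, .negSucc 234, .ofNat 37, .ofNat 24, .negSucc 15, .negSucc 638⟩, ⟨.negSucc 302, .negSucc 30, .negSucc 22, .negSucc 21, .negSucc 5, .negSucc 256⟩, ⟨.ofNat 323, .ofNat 121, .negSucc 40, .negSucc 250, .negSucc 24, .ofNat 344⟩, ⟨.negSucc 1222, .negSucc 254, .ofNat 148, .ofNat 328, .negSucc 63, .negSucc 1637⟩, ⟨.negSucc 681, .negSucc 261, .negSucc 22, .negSucc 637, .ofNat 53, .ofNat 305⟩, .ofNat 1002, .negSucc 1114,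 .ofNat 0, .negSucc 1114, .ofNat 2861, .ofNat 0, .ofNat 128, .ofNat 171, .negSucc 202, .ofNat 0, .ofNat 119, .negSucc 66, .ofNat 0, .ofNat 0, .ofNat 346, .ofNat 887, .ofNat 0, .ofNat 0, .ofNat 0, .ofNat 0, .ofNat 0, .ofNat 0, .ofNat 1106618932052485177249696853758471831552, .ofNat 0, .ofNat 0, .ofNat 0, .ofNat 0, .ofNat 0, .ofNat 0, .ofNat 0, .ofNat 0, .ofNat 0⟩)
    (by decide +kernel)
theorem L01059 : Good (Phi V5.P V5.D (-1) 1) ⟨3, 3, 4, 8, 2, 2, 4, 15, 4, 0⟩ :=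
  leafX_sound T5.ok_mp T5.Ymp.bz_eq (w := 216) (c := ⟨⟨.negSucc 701, .negSucc 235, .negSucc 26, .negSucc 120, .ofNat 163, .negSucc 323⟩, ⟨.negSucc 354, .negSucc 25, .negSucc 52, .negSucc 78, .ofNat 71, .negSucc 118⟩, ⟨.ofNat 391, .ofNat 101, .ofNat 2, .negSucc 150, .negSucc 188, .ofNat 90⟩, ⟨.negSucc 1439, .negSucc 342, .negSucc 39, .negSucc 38, .ofNat 343, .negSucc 884⟩, ⟨.negSucc 772, .negSucc 69, .ofNat 29, .negSucc 572, .ofNat 94, .ofNat 300⟩, .ofNat 1011, .negSucc 1129, .ofNat 0, .negSucc 1129, .ofNat 2876, .ofNat 0, .ofNat 128, .ofNat 141, .negSucc 248, .ofNat 0, .ofNat 99, .negSucc 81, .ofNat 0, .ofNat 0, .ofNat 411, .ofNat 1166, .ofNat 0, .ofNat 0, .ofNat 0, .ofNat 0, .ofNat 0, .ofNat 0, .ofNat 1458438244562418840477013740353805615104, .ofNat 0, .ofNat 0, .ofNat 0, .ofNat 0, .ofNat 0, .ofNat 0, .ofNat 0, .ofNat 1326469374732232875283713657990377635840, .ofNat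 0⟩)
    (by decide +kernel)
theorem L01060 : Good (Phi V5.P V5.D (-1) 1) ⟨3, 3, 4, 8, 3, 6, 4, 14, 4, 0⟩ :=
  leafX_sound T5.ok_mp T5.Ymp.bz_eq (w := 229) (c := ⟨⟨.negSucc 433, .negSucc 256, .negSucc 7, .ofNat 22, .negSucc 71, .negSucc 785⟩, ⟨.negSucc 277, .negSucc 38, .negSucc 42, .negSucc 8, .negSucc 30, .negSucc 304⟩, ⟨.negSucc 46, .ofNat 149, .negSucc 17, .negSucc 98, .ofNat 12, .ofNat 492⟩, ⟨.negSucc 431, .negSucc 460, .ofNat 38, .ofNat 232, .negSucc 231, .negSucc 2109⟩, ⟨.negSucc 1618, .negSucc 2, .ofNat 9, .negSucc 399, .ofNat 111, .ofNat 589⟩, .ofNat 841, .negSucc 812, .ofNat 0, .negSucc 812, .ofNat 2179, .ofNat 0, .ofNat 128, .ofNat 175, .negSucc 201, .ofNat 0, .ofNat 127, .negSucc 49, .ofNat 0, .ofNat 0, .ofNat 309, .ofNat 762, .ofNat 0, .ofNat 0, .ofNat 0, .ofNat 0, .ofNat 0, .ofNat 0, .ofNat 0, .ofNat 0, .ofNat 0, .ofNat 0, .ofNat 0, .ofNat 0, .ofNat 0,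 .ofNat 0, .ofNat 12196989969328396653513951533712786038194176, .ofNat 0⟩)
    (by decide +kernel)
theorem L01061 : Good (Phi V5.P V5.D (-1) 1) ⟨3, 3, 4, 8, 3, 6, 4, 15, 4, 0⟩ :=
  leafX_sound T5.ok_mp T5.Ymp.bz_eq (w := 230) (c := ⟨⟨.negSucc 636, .negSucc 306, .negSucc 29, .ofNat 27, .ofNat 24, .negSucc 496⟩, ⟨.negSucc 361, .negSucc 47, .negSucc 47, .negSucc 21, .ofNat 8, .negSucc 170⟩, ⟨.ofNat 76, .ofNat 174, .negSucc 0, .negSucc 117, .negSucc 98, .ofNat 299⟩, ⟨.negSucc 988, .negSucc 531, .ofNat 28, .ofNat 237, .ofNat 11, .negSucc 1448⟩, ⟨.negSucc 1463, .negSucc 30, .negSucc 56, .negSucc 463, .ofNat 78, .ofNat 682⟩, .ofNat 1008, .negSucc 1124, .ofNat 0, .negSucc 1124, .ofNat 2870, .ofNat 0, .ofNat 128, .ofNat 160, .negSucc 278, .ofNat 0, .ofNat 112, .negSucc 71, .ofNat 0, .ofNat 0, .ofNat 424, .ofNat 1083, .ofNat 0, .ofNat 0, .ofNat 0, .ofNat 0, .ofNat 0, .ofNat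 0, .ofNat 24427808540174982980407535131186419432685568, .ofNat 0, .ofNat 0, .ofNat 4273665063839457944129974579374621339112439808, .ofNat 9918281632557190383020120284800650781392896, .ofNat 0, .ofNat 0, .ofNat 0, .ofNat 26150346674559141283992381252067639255105536, .ofNat 0⟩)
    (by decide +kernel)
theorem L01062 : Good (Phi V5.P V5.D (-1) 1) ⟨4, 6, 4, 8, 3, 7, 4, 14, 4, 0⟩ :=
  leafX_sound T5.ok_mp T5.Ymp.bz_eq (w := 235) (c := ⟨⟨.negSucc 526, .negSucc 86, .negSucc 33, .negSucc 63, .negSucc 61, .negSucc 560⟩, ⟨.negSucc 331, .negSucc 12, .negSucc 44, .negSucc 55, .negSucc 25, .negSucc 218⟩, ⟨.negSucc 86, .ofNat 47, .negSucc 2, .negSucc 62, .ofNat 2, .ofNat 361⟩, ⟨.negSucc 465, .negSucc 166, .ofNat 37, .ofNat 58, .negSucc 155, .negSucc 1580⟩, ⟨.negSucc 1983, .negSucc 18, .negSucc 47, .negSucc 500, .ofNat 12, .ofNat 526⟩, .ofNat 1112, .negSucc 1279, .ofNat 0, .negSucc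 1279, .ofNat 3076, .ofNat 0, .ofNat 128, .ofNat 305, .negSucc 389, .ofNat 0, .ofNat 202, .negSucc 102, .ofNat 0, .ofNat 0, .ofNat 585, .ofNat 2328, .ofNat 0, .ofNat 0, .ofNat 0, .ofNat 0, .ofNat 0, .ofNat 0, .ofNat 243453971300167040561219003809350121684992, .ofNat 0, .ofNat 0, .ofNat 0, .ofNat 0, .ofNat 0, .ofNat 0, .ofNat 0, .ofNat 0, .ofNat 0⟩)
    (by decide +kernel)
theorem L01063 : Good (Phi V5.P V5.D (-1) 1) ⟨4, 6, 4, 8, 3, 7, 4, 15, 5, 0⟩ :=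
  leafX_sound T5.ok_mp T5.Ymp.bz_eq (w := 240) (c := ⟨⟨.negSucc 673, .negSucc 43, .negSucc 40, .negSucc 194, .negSucc 38, .negSucc 197⟩, ⟨.negSucc 386, .negSucc 4, .negSucc 48, .negSucc 116, .negSucc 19, .negSucc 75⟩, ⟨.negSucc 1, .negSucc 8, .negSucc 7, .negSucc 16, .negSucc 41, .ofNat 120⟩, ⟨.negSucc 865, .negSucc 51, .ofNat 46, .negSucc 168, .negSucc 54, .negSucc 599⟩, ⟨.negSucc 1882, .negSucc 81, .negSucc 86, .negSucc 651, .negSucc 79, .ofNat 276⟩, .ofNat 1438, .negSucc 1893, .ofNat 0, .negSucc 1893, .ofNat 4317, .ofNat 0, .ofNat 128, .ofNat 315, .negSucc 394, .ofNat 0, .ofNat 205, .negSucc 112, .ofNat 0, .ofNat 0, .ofNat 593, .ofNat 2592, .ofNat 0, .ofNat 0, .ofNat 0, .ofNat 0, .ofNat 0, .ofNat 74982789522402262174275491253835592237316046848, .ofNat 0, .ofNat 0, .ofNat 0, .ofNat 0, .ofNat 0, .ofNat 0, .ofNat 0, .ofNat 0, .ofNat 0, .ofNat 0⟩)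
    (by decide +kernel)
theorem L01064 : Good (Phi V5.P V5.D (-1) 1) ⟨4, 6, 4, 8, 3, 7, 4, 15, 5, 1⟩ :=
  leafX_sound T5.ok_mp T5.Ymp.bz_eq (w := 240) (c := ⟨⟨.negSucc 1028, .negSucc 67, .negSucc 22, .ofNat 11, .ofNat 67, .negSucc 66⟩, ⟨.negSucc 537, .ofNat 6, .negSucc 48, .negSucc 31, .ofNat 34, .negSucc 9⟩, ⟨.ofNat 169, .ofNat 37, .ofNat 7, .negSucc 106, .negSucc 88, .ofNat 84⟩, ⟨.negSucc 1819, .negSucc 111, .ofNat 53, .ofNat 341, .ofNat 158, .negSucc 364⟩, ⟨.negSucc 1688, .ofNat 44, .negSucc 44, .negSucc 724, .ofNat 13, .ofNat 448⟩, .ofNat 1110, .negSucc 1275, .ofNat 0, .negSucc 1275, .ofNat 3065, .ofNat 0, .ofNat 128, .ofNat 233, .negSucc 309, .ofNat 0, .ofNat 157, .negSucc 77, .ofNat 0, .ofNat 0, .ofNat 465, .ofNat 2045, .ofNat 0, .ofNat 0, .ofNat 0, .ofNat 0, .ofNat 0, .ofNat 0, .ofNat 0, .ofNat 0, .ofNat 0, .ofNat 0, .ofNat 0, .ofNat 0, .ofNat 0, .ofNat 415065235448954554224971200363400968098900082688,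 .ofNat 219281727653257388230629352050544976095870976, .ofNat 0⟩)
    (by decide +kernel)
theorem L01065 : Good (Phi V5.P V5.D (-1) 1) ⟨5, 14, 4, 8, 3, 7, 4, 14, 5, 0⟩ :=
  leafX_sound T5.ok_mp T5.Ymp.bz_eq (w := 243) (c := ⟨⟨.negSucc 291, .negSucc 63, .negSucc 88, .negSucc 199, .negSucc 256, .negSucc 497⟩, ⟨.negSucc 238, .negSucc 27, .negSucc 60, .negSucc 106, .negSucc 97, .negSucc 172⟩, ⟨.negSucc 274, .ofNat 18, .ofNat 13, .ofNat 34, .ofNat 130, .ofNat 345⟩, ⟨.ofNat 173, .negSucc 120, .negSucc 81, .negSucc 306, .negSucc 648, .negSucc 1295⟩, ⟨.negSucc 2233, .negSucc 57, .negSucc 21, .negSucc 405, .ofNat 133, .ofNat 378⟩, .ofNat 1255, .negSucc 1672, .ofNat 0, .negSucc 1672, .ofNat 4228, .ofNat 0, .ofNat 128, .ofNat 187, .negSucc 419, .ofNat 0, .ofNat 119, .negSucc 100, .ofNat 0, .ofNat 0, .ofNat 571, .ofNat 1760, .ofNat 0, .ofNat 0, .ofNat 0, .ofNat 0, .ofNat 0, .ofNat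 0, .ofNat 0, .ofNat 0, .ofNat 0, .ofNat 0, .ofNat 0, .ofNat 0, .ofNat 0, .ofNat 0, .ofNat 63659444812439413727182318459157600018628608, .ofNat 0⟩)
    (by decide +kernel)
theorem L01066 : Good (Phi V5.P V5.D (-1) 1) ⟨5, 14, 4, 8, 3, 7, 4, 15, 5, 0⟩ :=
  leafX_sound T5.ok_mp T5.Ymp.bz_eq (w := 244) (c := ⟨⟨.negSucc 657, .negSucc 51, .negSucc 48, .negSucc 208, .negSucc 72, .negSucc 278⟩, ⟨.negSucc 377, .negSucc 17, .negSucc 53, .negSucc 116, .negSucc 34, .negSucc 84⟩, ⟨.negSucc 59, .ofNat 11, .negSucc 11, .ofNat 16, .negSucc 40, .ofNat 203⟩, ⟨.negSucc 754, .negSucc 80, .ofNat 44, .negSucc 269, .negSucc 120, .negSucc 807⟩, ⟨.negSucc 2035, .negSucc 70, .negSucc 116, .negSucc 542, .negSucc 115, .ofNat 411⟩, .ofNat 1125, .negSucc 1401, .ofNat 0, .negSucc 1401, .ofNat 3612, .ofNat 0, .ofNat 128, .ofNat 233, .negSucc 571, .ofNat 0, .ofNat 153, .negSucc 126, .ofNat 0, .ofNat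 0, .ofNat 771, .ofNat 2739, .ofNat 0, .ofNat 0, .ofNat 0, .ofNat 0, .ofNat 0, .ofNat 0, .ofNat 0, .ofNat 0, .ofNat 0, .ofNat 0, .ofNat 0, .ofNat 0, .ofNat 0, .ofNat 0, .ofNat 237879367694635407842410708545062262372564992, .ofNat 0⟩)
    (by decide +kernel)
theorem L01067 : Good (Phi V5.P V5.D (-1) 1) ⟨5, 14, 4, 8, 3, 7, 4, 14, 5, 1⟩ :=
  leafX_sound T5.ok_mp T5.Ymp.bz_eq (w := 244) (c := ⟨⟨.negSucc 1009, .negSucc 83, .negSucc 66, .ofNat 38, .negSucc 3, .negSucc 254⟩, ⟨.negSucc 505, .negSucc 10, .negSucc 67, .negSucc 17, .ofNat 3, .negSucc 75⟩, ⟨.ofNat 182, .ofNat 62, .ofNat 34, .negSucc 117, .negSucc 26, .ofNat 210⟩, ⟨.negSucc 1659, .negSucc 177, .negSucc 93, .ofNat 306, .negSucc 44, .negSucc 754⟩, ⟨.negSucc 1823, .ofNat 62, .ofNat 56, .negSucc 552, .ofNat 87, .ofNat 418⟩, .ofNat 1128, .negSucc 1407, .ofNat 0, .negSucc 1407, .ofNat 3618, .ofNat 0, .ofNat 128, .ofNat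 272, .negSucc 422, .ofNat 0, .ofNat 174, .negSucc 102, .ofNat 0, .ofNat 0, .ofNat 586, .ofNat 2673, .ofNat 0, .ofNat 0, .ofNat 0, .ofNat 0, .ofNat 0, .ofNat 0, .ofNat 11693517697231547483166068323809562885881856, .ofNat 0, .ofNat 0, .ofNat 0, .ofNat 0, .ofNat 0, .ofNat 0, .ofNat 0, .ofNat 131781506446065712104819887403674196017938432, .ofNat 0⟩)
    (by decide +kernel)
theorem L01068 : Good (Phi V5.P V5.D (-1) 1) ⟨5, 14, 4, 8, 3, 7, 4, 15, 5, 1⟩ :=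
  leafX_sound T5.ok_mp T5.Ymp.bz_eq (w := 244) (c := ⟨⟨.negSucc 1136, .negSucc 76, .negSucc 58, .ofNat 74, .ofNat 82, .negSucc 43⟩, ⟨.negSucc 543, .negSucc 9, .negSucc 67, .negSucc 20, .ofNat 34, .ofNat 8⟩, ⟨.ofNat 256, .ofNat 53, .ofNat 20, .negSucc 166, .negSucc 130, .ofNat 70⟩, ⟨.negSucc 2028, .negSucc 164, .negSucc 29, .ofNat 483, .ofNat 183, .negSucc 275⟩, ⟨.negSucc 1633, .ofNat 65, .negSucc 44, .negSucc 795, .ofNat 22, .ofNat 436⟩, .ofNat 1258, .negSucc 1677, .ofNat 0, .negSucc 1677, .ofNat 4234, .ofNat 0, .ofNat 128, .ofNat 241, .negSucc 386, .ofNat 0, .ofNat 155, .negSucc 90, .ofNat 0, .ofNat 0, .ofNat 528, .ofNat 1664, .ofNat 0, .ofNat 0, .ofNat 0, .ofNat 0, .ofNat 0, .ofNat 0, .ofNat 0, .ofNat 0, .ofNat 0, .ofNat 0, .ofNat 0, .ofNat 0, .ofNat 0, .ofNat 16332012985064870573302169966177381597179763752960, .ofNat 109749094270047714600680787996569159709229056,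 .ofNat 0⟩)
    (by decide +kernel)
theorem L01069 : Good (Phi V5.P V5.D (-1) 1) ⟨5, 15, 4, 8, 3, 7, 4, 14, 5, 0⟩ :=
  leafX_sound T5.ok_mp T5.Ymp.bz_eq (w := 244) (c := ⟨⟨.negSucc 354, .ofNat 94, .ofNat 10, .negSucc 225, .negSucc 221, .negSucc 554⟩, ⟨.negSucc 288, .ofNat 21, .negSucc 28, .negSucc 103, .negSucc 74, .negSucc 164⟩, ⟨.negSucc 285, .negSucc 109, .negSucc 41, .ofNat 75, .ofNat 115, .ofNat 414⟩, ⟨.ofNat 68, .ofNat 270, .ofNat 111, .negSucc 403, .negSucc 531, .negSucc 1470⟩, ⟨.negSucc 2390, .negSucc 177, .ofNat 10, .negSucc 298, .ofNat 81, .ofNat 579⟩, .ofNat 1095, .negSucc 1398, .ofNat 0, .negSucc 1398, .ofNat 3810, .ofNat 0, .ofNat 128, .ofNat 210, .negSucc 670, .ofNat 0, .ofNat 136, .negSucc 135, .ofNat 0, .ofNat 0, .ofNat 864, .ofNat 2216, .ofNat 0, .ofNat 0, .ofNat 0, .ofNat 0, .ofNat 0, .ofNat 0, .ofNat 155877769859908538197500972993658981208555520,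 .ofNat 0, .ofNat 0, .ofNat 0, .ofNat 102857995655620896410273357772110171956314112, .ofNat 0, .ofNat 0, .ofNat 0, .ofNat 448612126963238752325112381250083035329593344, .ofNat 0⟩)
    (by decide +kernel)
theorem L01070 : Good (Phi V5.P V5.D (-1) 1) ⟨5, 15, 4, 8, 3, 7, 4, 15, 5, 0⟩ :=
  leafX_sound T5.ok_mp T5.Ymp.bz_eq (w := 244) (c := ⟨⟨.negSucc 644, .ofNat 22, .negSucc 20, .negSucc 230, .negSucc 80, .negSucc 366⟩, ⟨.negSucc 383, .ofNat 7, .negSucc 53, .negSucc 119, .negSucc 35, .negSucc 92⟩, ⟨.negSucc 112, .negSucc 45, .negSucc 49, .ofNat 48, .negSucc 41, .ofNat 300⟩, ⟨.negSucc 651, .ofNat 81, .ofNat 95, .negSucc 334, .negSucc 151, .negSucc 1060⟩, ⟨.negSucc 2222, .negSucc 74, .negSucc 121, .negSucc 513, .negSucc 89, .ofNat 619⟩, .ofNat 1066, .negSucc 1336, .ofNat 0, .negSucc 1336, .ofNat 3653, .ofNat 0, .ofNat 128, .ofNat 233, .negSucc 631, .ofNat 0, .ofNat 154,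 .negSucc 120, .ofNat 0, .ofNat 0, .ofNat 814, .ofNat 2210, .ofNat 0, .ofNat 0, .ofNat 0, .ofNat 0, .ofNat 0, .ofNat 0, .ofNat 83956738087412976485152630257473163404247040, .ofNat 0, .ofNat 0, .ofNat 0, .ofNat 101607555019225513301016516661239976044789760, .ofNat 0, .ofNat 0, .ofNat 0, .ofNat 380925823643298555895154757555008373168013312, .ofNat 0⟩)
    (by decide +kernel)
theorem L01071 : Good (Phi V5.P V5.D (-1) 1) ⟨5, 15, 4, 8, 3, 7, 4, 14, 5, 1⟩ :=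
  leafX_sound T5.ok_mp T5.Ymp.bz_eq (w := 244) (c := ⟨⟨.negSucc 1204, .ofNat 26, .ofNat 43, .ofNat 94, .ofNat 26, .negSucc 173⟩, ⟨.negSucc 554, .ofNat 22, .negSucc 42, .negSucc 6, .ofNat 13, .negSucc 35⟩, ⟨.ofNat 330, .negSucc 23, .negSucc 57, .negSucc 158, .negSucc 53, .ofNat 157⟩, ⟨.negSucc 2126, .ofNat 111, .ofNat 160, .ofNat 437, .ofNat 34, .negSucc 540⟩, ⟨.negSucc 1679, .negSucc 45, .negSucc 14, .negSucc 613, .ofNat 66, .ofNat 402⟩, .ofNat 1069, .negSucc 1340, .ofNat 0, .negSucc 1340, .ofNat 3662, .ofNat 0, .ofNat 128, .ofNat 155, .negSucc 426, .ofNat 0, .ofNat 100, .negSucc 88, .ofNat 0, .ofNat 0, .ofNat 561, .ofNat 2037, .ofNat 0, .ofNat 0, .ofNat 0, .ofNat 0, .ofNat 0, .ofNat 0, .ofNat 21766688887782193732969752544009439076679680, .ofNat 0, .ofNat 0, .ofNat 0, .ofNat 35142318564271013947327454762310797598130176, .ofNat 0, .ofNat 0, .ofNat 0, .ofNat 177200817830510344952186578568819070656839680,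 .ofNat 0⟩)
    (by decide +kernel)
theorem L01072 : Good (Phi V5.P V5.D (-1) 1) ⟨5, 15, 4, 8, 3, 7, 4, 15, 5, 1⟩ :=
  leafX_sound T5.ok_mp T5.Ymp.bz_eq (w := 244) (c := ⟨⟨.negSucc 1229, .ofNat 42, .negSucc 74, .ofNat 132, .ofNat 77, .negSucc 68⟩, ⟨.negSucc 552, .ofNat 26, .negSucc 98, .negSucc 16, .ofNat 26, .ofNat 9⟩, ⟨.ofNat 330, .negSucc 31, .negSucc 10, .negSucc 225, .negSucc 142, .ofNat 91⟩, ⟨.negSucc 2241, .ofNat 140, .negSucc 21, .ofNat 663, .ofNat 186, .negSucc 346⟩, ⟨.negSucc 1518, .negSucc 38, .negSucc 209, .negSucc 981, .negSucc 24, .ofNat 514⟩, .ofNat 1088, .negSucc 1383, .ofNat 0, .negSucc 1383, .ofNat 3770, .ofNat 0, .ofNat 128, .ofNat 247, .negSucc 421, .ofNat 0, .ofNat 162, .negSucc 83, .ofNat 0, .ofNat 0, .ofNat 548, .ofNat 1891, .ofNat 0, .ofNat 0, .ofNat 0, .ofNat 0, .ofNat 0, .ofNat 4993112068680275936703798724817188021265282105344, .ofNat 105210024703205874415758894635997146378141696,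 .ofNat 0, .ofNat 0, .ofNat 29394657457076795283640184081585350682123693981696, .ofNat 153716096170980773935563003714647974456852480, .ofNat 0, .ofNat 0, .ofNat 10585829997009687228167627125875817258271962562560, .ofNat 250872069522160324306514672535013439748177920, .ofNat 0⟩)
    (by decide +kernel)

end Crest.Agent.R097C5.N5mp
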