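import Crest.Agent.R097.KP7
import Crest.Agent.R097.T5Ymp

/-!
# Row 97, box cover in dimension n = 5 (generated)
-/

set_option autoImplicit false
set_option Elab.async false
set_option maxHeartbeats 0
set_option maxRecDepth 100000

open Crest.Agent.R097 Crest.Agent.R097.KA


namespace Crest.Agent.R097C5.N5mp

theorem L01073 : Good (Phi V5.P V5.D (-1) 1) ⟨3, 3, 4, 8, 2, 2, 3, 7, 4, 1⟩ :=
  leafX_sound T5.ok_mp T5.Ymp.bz_eq (w := 211) (c := ⟨⟨.negSucc 1241, .negSucc 263, .negSucc 17, .negSucc 190, .ofNat 464, .negSucc 76⟩, ⟨.negSucc 594, .ofNat 19, .negSucc 70, .negSucc 86, .ofNat 209, .negSucc 0⟩, ⟨.ofNat 673, .ofNat 157, .negSucc 9, .negSucc 56, .negSucc 476, .ofNat 4⟩, ⟨.negSucc 2738, .negSucc 361, .negSucc 50, .negSucc 352, .ofNat 907, .negSucc 392⟩, ⟨.negSucc 838, .ofNat 162, .ofNat 46, .negSucc 217, .ofNat 417, .ofNat 518⟩, .ofNat 1014, .negSucc 1131, .ofNat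 0, .negSucc 1131, .ofNat 2879, .ofNat 0, .ofNat 128, .ofNat 142, .negSucc 219, .ofNat 0, .ofNat 98, .negSucc 69, .ofNat 0, .ofNat 0, .ofNat 425, .ofNat 549, .ofNat 0, .ofNat 0, .ofNat 151589418823523944215605478260998144, .ofNat 0, .ofNat 0, .ofNat 0, .ofNat 0, .ofNat 0, .ofNat 0, .ofNat 224848739504090108430014783571477353463808, .ofNat 30191502942130446508869944925872979968, .ofNat 0, .ofNat 0, .ofNat 0, .ofNat 0, .ofNat 0⟩)
    (by decide +kernel)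
theorem L01074 : Good (Phi V5.P V5.D (-1) 1) ⟨3, 3, 4, 8, 3, 6, 3, 7, 4, 1⟩ :=
  leafX_sound T5.ok_mp T5.Ymp.bz_eq (w := 226) (c := ⟨⟨.negSucc 1422, .negSucc 298, .negSucc 10, .ofNat 211, .ofNat 342, .negSucc 4⟩, ⟨.negSucc 685, .ofNat 5, .negSucc 67, .ofNat 72, .ofNat 173, .ofNat 42⟩, ⟨.ofNat 551, .ofNat 222, .negSucc 8, .negSucc 189, .negSucc 308, .ofNat 32⟩, ⟨.negSucc 2966, .negSucc 470, .ofNat 12, .ofNat 594, .ofNat 538, .negSucc 437⟩, ⟨.negSucc 1283, .ofNat 208, .negSucc 5, .negSucc 239, .ofNat 622, .ofNat 969⟩, .ofNat 1019, .negSucc 1139, .ofNat 0, .negSucc 1139, .ofNat 2888, .ofNat 0, .ofNat 128, .ofNat 279, .negSucc 285, .ofNat 0, .ofNat 192, .negSucc 74, .ofNat 0, .ofNat 0, .ofNat 497, .ofNat 914, .ofNat 0, .ofNat 0, .ofNat 0, .ofNat 0, .ofNat 0, .ofNat 380750569261131820540724925881411724222922752, .ofNat 1212145100008602432929691829296212949860352,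 .ofNat 0, .ofNat 0, .ofNat 3719442516575617718419547712357020772713103360, .ofNat 756155347238155681621923818983601953832960, .ofNat 0, .ofNat 0, .ofNat 2217817610613556930932420541676543798476275712, .ofNat 2035683416406711057500355100828950184591360, .ofNat 0⟩)
    (by decide +kernel)
theorem L01075 : Good (Phi V5.P V5.D (-1) 1) ⟨3, 3, 4, 8, 3, 7, 4, 14, 4, 1⟩ :=
  leafX_sound T5.ok_mp T5.Ymp.bz_eq (w := 230) (c := ⟨⟨.negSucc 1391, .negSucc 87, .negSucc 25, .ofNat 321, .ofNat 200, .ofNat 173⟩, ⟨.negSucc 676, .ofNat 35, .negSucc 57, .ofNat 89, .ofNat 91, .ofNat 122⟩, ⟨.ofNat 454, .ofNat 14, .ofNat 7, .negSucc 248, .negSucc 154, .ofNat 13⟩, ⟨.negSucc 2784, .ofNat 33, .negSucc 2, .ofNat 1056, .ofNat 383, .negSucc 16⟩, ⟨.negSucc 1449, .negSucc 123, .ofNat 7, .negSucc 748, .ofNat 197, .ofNat 981⟩, .ofNat 1013, .negSucc 1129, .ofNat 0, .negSucc 1129, .ofNat 2877,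 .ofNat 0, .ofNat 128, .ofNat 231, .negSucc 233, .ofNat 0, .ofNat 156, .negSucc 51, .ofNat 0, .ofNat 0, .ofNat 399, .ofNat 905, .ofNat 0, .ofNat 0, .ofNat 32156725798612727518951762500904418279424, .ofNat 0, .ofNat 0, .ofNat 1425842672062355450121356428139741154279161856, .ofNat 20479675229804613023908220395881663526076416, .ofNat 0, .ofNat 0, .ofNat 0, .ofNat 27639301099779292730471164146211714915893248, .ofNat 0, .ofNat 0, .ofNat 0, .ofNat 24741409653550845423170714606548900846239744, .ofNat 0⟩)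
    (by decide +kernel)
theorem L01076 : Good (Phi V5.P V5.D (-1) 1) ⟨3, 3, 4, 8, 3, 7, 4, 15, 4, 1⟩ :=
  leafX_sound T5.ok_mp T5.Ymp.bz_eq (w := 229) (c := ⟨⟨.negSucc 1332, .negSucc 50, .ofNat 23, .ofNat 352, .ofNat 142, .ofNat 287⟩, ⟨.negSucc 633, .ofNat 40, .negSucc 42, .ofNat 89, .ofNat 78, .ofNat 187⟩, ⟨.ofNat 411, .negSucc 32, .negSucc 30, .negSucc 281, .negSucc 141, .negSucc 51⟩, ⟨.negSucc 2724, .ofNat 163, .ofNat 143, .ofNat 1150, .ofNat 170, .ofNat 176⟩, ⟨.negSucc 1204, .negSucc 255, .negSucc 95, .negSucc 856, .ofNat 374, .ofNat 1197⟩, .ofNat 1010, .negSucc 1129, .ofNat 0, .negSucc 1129, .ofNat 2877, .ofNat 0, .ofNat 157, .ofNat 128, .negSucc 207, .ofNat 0, .ofNat 87, .negSucc 44, .ofNat 0, .ofNat 0, .ofNat 336, .ofNat 383, .ofNat 0, .ofNat 0, .ofNat 0, .ofNat 0, .ofNat 0, .ofNat 0, .ofNat 0, .ofNat 0, .ofNat 0, .ofNat 6249162637548201584617699398226951966136729600,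 .ofNat 0, .ofNat 0, .ofNat 0, .ofNat 1604174406311534120537764544088856537958711296, .ofNat 20634985019468577551327983173283176177991680, .ofNat 0⟩)
    (by decide +kernel)
theorem L01077 : Good (Phi V5.P V5.D (-1) 1) ⟨2, 1, 4, 9, 1, 1, 2, 2, 4, 0⟩ :=
  leafX_sound T5.ok_mp T5.Ymp.bz_eq (w := 189) (c := ⟨⟨.ofNat 715, .negSucc 183, .negSucc 67, .ofNat 277, .negSucc 601, .negSucc 1408⟩, ⟨.ofNat 345, .negSucc 62, .negSucc 44, .ofNat 100, .negSucc 308, .negSucc 749⟩, ⟨.negSucc 436, .ofNat 62, .ofNat 26, .negSucc 580, .ofNat 357, .ofNat 800⟩, ⟨.ofNat 1657, .negSucc 180, .negSucc 236, .ofNat 941, .negSucc 1154, .negSucc 3100⟩, ⟨.ofNat 133, .negSucc 404, .ofNat 186, .negSucc 589, .negSucc 593, .negSucc 832⟩, .ofNat 1470, .negSucc 1806, .ofNat 0, .negSucc 1806, .ofNat 3728, .ofNat 0, .ofNat 128, .ofNat 202, .negSucc 151, .ofNat 0, .ofNat 131, .negSucc 67, .ofNat 0, .ofNat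 0, .ofNat 309, .ofNat 216, .ofNat 0, .ofNat 0, .ofNat 0, .ofNat 0, .ofNat 0, .ofNat 0, .ofNat 2038129025639545869654198612656128, .ofNat 0, .ofNat 0, .ofNat 0, .ofNat 0, .ofNat 0, .ofNat 0, .ofNat 0, .ofNat 667299463223011465978168832163840, .ofNat 0⟩)
    (by decide +kernel)
theorem L01078 : Good (Phi V5.P V5.D (-1) 1) ⟨2, 1, 4, 9, 2, 2, 3, 6, 4, 0⟩ :=
  leafX_sound T5.ok_mp T5.Ymp.bz_eq (w := 207) (c := ⟨⟨.negSucc 172, .negSucc 444, .negSucc 58, .ofNat 32, .negSucc 133, .negSucc 710⟩, ⟨.negSucc 129, .negSucc 135, .negSucc 55, .negSucc 2, .negSucc 76, .negSucc 383⟩, ⟨.ofNat 100, .ofNat 188, .ofNat 38, .negSucc 246, .ofNat 78, .ofNat 394⟩, ⟨.negSucc 240, .negSucc 699, .negSucc 114, .ofNat 418, .negSucc 386, .negSucc 1860⟩, ⟨.negSucc 559, .negSucc 294, .ofNat 32, .negSucc 621, .ofNat 43, .ofNat 39⟩, .ofNat 841, .negSucc 725, .ofNat 0, .negSucc 725, .ofNat 1676,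 .ofNat 0, .ofNat 128, .ofNat 227, .negSucc 119, .ofNat 0, .ofNat 184, .negSucc 45, .ofNat 0, .ofNat 0, .ofNat 236, .ofNat 705, .ofNat 0, .ofNat 0, .ofNat 0, .ofNat 0, .ofNat 0, .ofNat 0, .ofNat 377968996854230771666376979945919348736, .ofNat 0, .ofNat 0, .ofNat 0, .ofNat 0, .ofNat 0, .ofNat 0, .ofNat 0, .ofNat 100625237529004679882356004404473102336, .ofNat 0⟩)
    (by decide +kernel)
theorem L01079 : Good (Phi V5.P V5.D (-1) 1) ⟨2, 1, 4, 9, 2, 2, 4, 14, 4, 0⟩ :=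
  leafX_sound T5.ok_mp T5.Ymp.bz_eq (w := 211) (c := ⟨⟨.negSucc 520, .negSucc 382, .negSucc 14, .ofNat 32, .ofNat 14, .negSucc 512⟩, ⟨.negSucc 307, .negSucc 99, .negSucc 48, .negSucc 2, .negSucc 5, .negSucc 273⟩, ⟨.ofNat 356, .ofNat 132, .negSucc 0, .negSucc 263, .negSucc 52, .ofNat 234⟩, ⟨.negSucc 1093, .negSucc 607, .ofNat 7, .ofNat 387, .ofNat 6, .negSucc 1404⟩, ⟨.negSucc 646, .negSucc 119, .ofNat 0, .negSucc 594, .negSucc 12, .ofNat 172⟩, .ofNat 815, .negSucc 697, .ofNat 0, .negSucc 697, .ofNat 1656, .ofNat 0, .ofNat 128, .ofNat 176, .negSucc 144, .ofNat 0, .ofNat 144, .negSucc 50, .ofNat 0, .ofNat 0, .ofNat 267, .ofNat 920, .ofNat 0, .ofNat 0, .ofNat 0, .ofNat 0, .ofNat 0, .ofNat 0, .ofNat 4677356045217303354503365931887027552256, .ofNat 0, .ofNat 0, .ofNat 0, .ofNat 0, .ofNat 0, .ofNat 0, .ofNat 0, .ofNat 1827482044808245401538072474936718393344, .ofNat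 0⟩)
    (by decide +kernel)
theorem L01080 : Good (Phi V5.P V5.D (-1) 1) ⟨3, 2, 4, 9, 2, 2, 4, 15, 4, 0⟩ :=
  leafX_sound T5.ok_mp T5.Ymp.bz_eq (w := 216) (c := ⟨⟨.negSucc 593, .negSucc 144, .negSucc 25, .negSucc 64, .ofNat 108, .negSucc 298⟩, ⟨.negSucc 357, .negSucc 28, .negSucc 46, .negSucc 49, .ofNat 62, .negSucc 164⟩, ⟨.ofNat 400, .negSucc 2, .ofNat 10, .negSucc 193, .negSucc 119, .ofNat 55⟩, ⟨.negSucc 1288, .negSucc 143, .negSucc 33, .ofNat 143, .ofNat 216, .negSucc 898⟩, ⟨.negSucc 655, .negSucc 138, .ofNat 11, .negSucc 555, .ofNat 111, .ofNat 205⟩, .ofNat 1655, .negSucc 1996, .ofNat 0, .negSucc 1996, .ofNat 3869, .ofNat 0, .ofNat 128, .ofNat 199, .negSucc 170, .ofNat 0, .ofNat 141, .negSucc 79, .ofNat 0, .ofNat 0, .ofNat 340, .ofNat 1903, .ofNat 0, .ofNat 110001198907573492226722172912367912878080, .ofNat 0, .ofNat 0, .ofNat 0, .ofNat 0, .ofNat 0, .ofNat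 0, .ofNat 0, .ofNat 49471488647692861617432501012327129153536, .ofNat 0, .ofNat 0, .ofNat 0, .ofNat 0, .ofNat 0, .ofNat 0⟩)
    (by decide +kernel)
theorem L01081 : Good (Phi V5.P V5.D (-1) 1) ⟨3, 3, 4, 9, 2, 2, 4, 15, 4, 0⟩ :=
  leafX_sound T5.ok_mp T5.Ymp.bz_eq (w := 216) (c := ⟨⟨.negSucc 739, .negSucc 239, .negSucc 9, .negSucc 88, .ofNat 148, .negSucc 308⟩, ⟨.negSucc 392, .negSucc 47, .negSucc 44, .negSucc 67, .ofNat 73, .negSucc 140⟩, ⟨.ofNat 428, .ofNat 83, .negSucc 11, .negSucc 198, .negSucc 174, .ofNat 63⟩, ⟨.negSucc 1472, .negSucc 412, .ofNat 15, .ofNat 62, .ofNat 337, .negSucc 896⟩, ⟨.negSucc 765, .ofNat 0, .negSucc 6, .negSucc 575, .ofNat 42, .ofNat 289⟩, .ofNat 985, .negSucc 1024, .ofNat 0, .negSucc 1024, .ofNat 2408, .ofNat 0, .ofNat 128, .ofNat 206, .negSucc 273, .ofNat 0, .ofNat 151, .negSucc 97, .ofNat 0, .ofNat 0, .ofNat 464, .ofNat 2003, .ofNat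 0, .ofNat 70325313402471473115750549046941450240000, .ofNat 18540264585721117680956875428973248512, .ofNat 0, .ofNat 0, .ofNat 0, .ofNat 2039103153340000580532733685423451144192, .ofNat 0, .ofNat 0, .ofNat 0, .ofNat 1067515690309165853490259531986689327104, .ofNat 0, .ofNat 0, .ofNat 0, .ofNat 2233612020252581473554756196370414043136, .ofNat 0⟩)
    (by decide +kernel)
theorem L01082 : Good (Phi V5.P V5.D (-1) 1) ⟨3, 2, 4, 9, 2, 3, 3, 6, 4, 0⟩ :=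
  leafX_sound T5.ok_mp T5.Ymp.bz_eq (w := 212) (c := ⟨⟨.negSucc 124, .negSucc 167, .ofNat 27, .negSucc 48, .negSucc 218, .negSucc 804⟩, ⟨.negSucc 126, .negSucc 43, .negSucc 5, .negSucc 48, .negSucc 122, .negSucc 435⟩, ⟨.negSucc 153, .ofNat 66, .negSucc 19, .negSucc 216, .ofNat 138, .ofNat 449⟩, ⟨.ofNat 207, .negSucc 321, .ofNat 161, .ofNat 416, .negSucc 553, .negSucc 2122⟩, ⟨.negSucc 1163, .negSucc 40, .negSucc 32, .negSucc 966, .negSucc 35, .ofNat 110⟩, .ofNat 1691, .negSucc 2043, .ofNat 0, .negSucc 2043, .ofNat 3921, .ofNat 0, .ofNat 128, .ofNat 427, .negSucc 197, .ofNat 0, .ofNat 292, .negSucc 80, .ofNat 0, .ofNat 0, .ofNat 395, .ofNat 1246, .ofNat 0, .ofNat 0, .ofNat 0, .ofNat 0, .ofNat 0, .ofNat 0, .ofNat 0, .ofNat 0, .ofNat 0, .ofNat 0, .ofNat 0, .ofNat 0, .ofNat 0, .ofNat 0, .ofNat 0, .ofNat 0⟩)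
    (by decide +kernel)
theorem L01083 : Good (Phi V5.P V5.D (-1) 1) ⟨3, 2, 4, 9, 2, 3, 3, 7, 5, 0⟩ :=
  leafX_sound T5.ok_mp T5.Ymp.bz_eq (w := 218) (c := ⟨⟨.negSucc 386, .negSucc 165, .negSucc 73, .negSucc 182, .negSucc 183, .negSucc 193⟩, ⟨.negSucc 262, .negSucc 54, .negSucc 54, .negSucc 135, .negSucc 103, .negSucc 101⟩, ⟨.ofNat 57, .ofNat 20, .ofNat 38, .negSucc 208, .ofNat 34, .ofNat 99⟩, ⟨.negSucc 534, .negSucc 231, .negSucc 73, .ofNat 223, .negSucc 372, .negSucc 583⟩, ⟨.negSucc 1015, .negSucc 243, .negSucc 37, .negSucc 1265, .negSucc 210, .ofNat 158⟩, .ofNat 1670, .negSucc 2022, .ofNat 0, .negSucc 2022, .ofNat 3909, .ofNat 0, .ofNat 128, .ofNat 561, .negSucc 252, .ofNat 0, .ofNat 391, .negSucc 96, .ofNat 0, .ofNat 0, .ofNat 472, .ofNat 1898, .ofNat 0, .ofNat 0, .ofNat 0, .ofNat 0, .ofNat 0, .ofNat 0, .ofNat 0, .ofNat 0, .ofNat 0, .ofNat 0, .ofNat 0, .ofNat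 0, .ofNat 0, .ofNat 0, .ofNat 1251493375688376903502770404122708410368, .ofNat 0⟩)
    (by decide +kernel)
theorem L01084 : Good (Phi V5.P V5.D (-1) 1) ⟨3, 2, 4, 9, 2, 3, 4, 14, 5, 1⟩ :=
  leafX_sound T5.ok_mp T5.Ymp.bz_eq (w := 222) (c := ⟨⟨.negSucc 814, .negSucc 165, .negSucc 28, .ofNat 3, .ofNat 38, .negSucc 217⟩, ⟨.negSucc 504, .negSucc 30, .negSucc 43, .negSucc 22, .ofNat 17, .negSucc 111⟩, ⟨.ofNat 190, .ofNat 84, .ofNat 22, .negSucc 208, .negSucc 29, .ofNat 143⟩, ⟨.negSucc 1546, .negSucc 269, .ofNat 5, .ofNat 561, .ofNat 40, .negSucc 685⟩, ⟨.negSucc 1245, .negSucc 52, .ofNat 6, .negSucc 990, .ofNat 65, .ofNat 241⟩, .ofNat 1659, .negSucc 2008, .ofNat 0, .negSucc 2008, .ofNat 3893, .ofNat 0, .ofNat 128, .ofNat 314, .negSucc 179, .ofNat 0, .ofNat 217, .negSucc 70, .ofNat 0, .ofNat 0, .ofNat 348, .ofNat 2725, .ofNat 0, .ofNat 0, .ofNat 0, .ofNat 0, .ofNat 0,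 .ofNat 0, .ofNat 0, .ofNat 0, .ofNat 0, .ofNat 0, .ofNat 0, .ofNat 0, .ofNat 0, .ofNat 0, .ofNat 26124029968773494957227303417827727245312, .ofNat 0⟩)
    (by decide +kernel)
theorem L01085 : Good (Phi V5.P V5.D (-1) 1) ⟨3, 2, 4, 9, 2, 3, 4, 15, 5, 1⟩ :=
  leafX_sound T5.ok_mp T5.Ymp.bz_eq (w := 222) (c := ⟨⟨.negSucc 821, .negSucc 179, .negSucc 38, .negSucc 25, .ofNat 71, .negSucc 114⟩, ⟨.negSucc 505, .negSucc 42, .negSucc 51, .negSucc 42, .ofNat 44, .negSucc 55⟩, ⟨.ofNat 208, .ofNat 37, .ofNat 19, .negSucc 178, .negSucc 70, .ofNat 77⟩, ⟨.negSucc 1652, .negSucc 260, .ofNat 6, .ofNat 536, .ofNat 143, .negSucc 489⟩, ⟨.negSucc 1102, .negSucc 125, .negSucc 48, .negSucc 1087, .ofNat 78, .ofNat 336⟩, .ofNat 1662, .negSucc 2003, .ofNat 0, .negSucc 2003, .ofNat 3874, .ofNat 0, .ofNat 128, .ofNat 419, .negSucc 279, .ofNat 0, .ofNat 294, .negSucc 105, .ofNat 0, .ofNat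 0, .ofNat 531, .ofNat 2637, .ofNat 0, .ofNat 0, .ofNat 0, .ofNat 0, .ofNat 0, .ofNat 11621598104156891411966680630642457769410560, .ofNat 0, .ofNat 0, .ofNat 0, .ofNat 0, .ofNat 0, .ofNat 0, .ofNat 0, .ofNat 0, .ofNat 0, .ofNat 0⟩)
    (by decide +kernel)
theorem L01086 : Good (Phi V5.P V5.D (-1) 1) ⟨4, 6, 4, 9, 2, 3, 3, 6, 5, 0⟩ :=
  leafX_sound T5.ok_mp T5.Ymp.bz_eq (w := 221) (c := ⟨⟨.ofNat 20, .negSucc 23, .negSucc 51, .negSucc 53, .negSucc 437, .negSucc 589⟩, ⟨.negSucc 45, .negSucc 1, .negSucc 29, .negSucc 68, .negSucc 214, .negSucc 282⟩, ⟨.negSucc 274, .negSucc 6, .ofNat 13, .negSucc 204, .ofNat 237, .ofNat 342⟩, ⟨.ofNat 740, .negSucc 26, .negSucc 9, .ofNat 278, .negSucc 1049, .negSucc 1494⟩, ⟨.negSucc 1466, .negSucc 59, .negSucc 30, .negSucc 873, .negSucc 22, .ofNat 122⟩, .ofNat 1274, .negSucc 1528, .ofNat 0, .negSucc 1528, .ofNat 3376, .ofNat 0, .ofNat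 128, .ofNat 271, .negSucc 310, .ofNat 0, .ofNat 178, .negSucc 107, .ofNat 0, .ofNat 0, .ofNat 502, .ofNat 1246, .ofNat 0, .ofNat 0, .ofNat 0, .ofNat 0, .ofNat 0, .ofNat 0, .ofNat 0, .ofNat 0, .ofNat 0, .ofNat 0, .ofNat 0, .ofNat 0, .ofNat 0, .ofNat 0, .ofNat 1383105537908115719072131432373886648320, .ofNat 0⟩)
    (by decide +kernel)
theorem L01087 : Good (Phi V5.P V5.D (-1) 1) ⟨4, 6, 4, 9, 2, 3, 3, 6, 5, 1⟩ :=
  leafX_sound T5.ok_mp T5.Ymp.bz_eq (w := 221) (c := ⟨⟨.negSucc 724, .negSucc 67, .negSucc 27, .ofNat 40, .negSucc 127, .negSucc 480⟩, ⟨.negSucc 414, .negSucc 0, .negSucc 53, .negSucc 8, .negSucc 58, .negSucc 220⟩, ⟨.ofNat 96, .ofNat 50, .ofNat 21, .negSucc 198, .ofNat 65, .ofNat 337⟩, ⟨.negSucc 1087, .negSucc 192, .negSucc 59, .ofNat 414, .negSucc 317, .negSucc 1211⟩, ⟨.negSucc 1488, .ofNat 155, .ofNat 90, .negSucc 661, .ofNat 28, .ofNat 128⟩, .ofNat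 1744, .negSucc 2381, .ofNat 0, .negSucc 2381, .ofNat 5004, .ofNat 0, .ofNat 128, .ofNat 189, .negSucc 174, .ofNat 0, .ofNat 119, .negSucc 67, .ofNat 0, .ofNat 0, .ofNat 302, .ofNat 580, .ofNat 0, .ofNat 0, .ofNat 1755705474831712186569981715843907584, .ofNat 0, .ofNat 0, .ofNat 0, .ofNat 0, .ofNat 0, .ofNat 0, .ofNat 0, .ofNat 0, .ofNat 0, .ofNat 0, .ofNat 0, .ofNat 903345620754980741435225576563749683200, .ofNat 0⟩)
    (by decide +kernel)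
theorem L01088 : Good (Phi V5.P V5.D (-1) 1) ⟨4, 6, 4, 9, 2, 3, 4, 14, 5, 0⟩ :=
  leafX_sound T5.ok_mp T5.Ymp.bz_eq (w := 226) (c := ⟨⟨.negSucc 488, .negSucc 50, .negSucc 20, .negSucc 90, .negSucc 136, .negSucc 391⟩, ⟨.negSucc 295, .negSucc 8, .negSucc 28, .negSucc 89, .negSucc 66, .negSucc 181⟩, ⟨.ofNat 13, .ofNat 7, .ofNat 1, .negSucc 192, .ofNat 49, .ofNat 228⟩, ⟨.negSucc 517, .negSucc 78, .ofNat 25, .ofNat 276, .negSucc 330, .negSucc 1031⟩, ⟨.negSucc 1452, .negSucc 48, .ofNat 42, .negSucc 1043, .ofNat 1, .ofNat 173⟩, .ofNat 1713, .negSucc 2335, .ofNat 0, .negSucc 2335, .ofNat 4937, .ofNat 0, .ofNat 128, .ofNat 320, .negSucc 399, .ofNat 0, .ofNat 205, .negSucc 144, .ofNat 0, .ofNat 0, .ofNat 636, .ofNat 1952, .ofNat 0, .ofNat 0, .ofNat 0, .ofNat 0, .ofNat 0, .ofNat 0, .ofNat 26589755083389320990072944404001152040960, .ofNat 0, .ofNat 0, .ofNat 0, .ofNat 0,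 .ofNat 0, .ofNat 0, .ofNat 0, .ofNat 38521292745343159759651147019686307168256, .ofNat 0⟩)
    (by decide +kernel)
theorem L01089 : Good (Phi V5.P V5.D (-1) 1) ⟨4, 6, 4, 9, 2, 3, 4, 15, 5, 0⟩ :=
  leafX_sound T5.ok_mp T5.Ymp.bz_eq (w := 226) (c := ⟨⟨.negSucc 643, .negSucc 73, .negSucc 61, .negSucc 182, .negSucc 46, .negSucc 265⟩, ⟨.negSucc 370, .negSucc 16, .negSucc 54, .negSucc 135, .negSucc 24, .negSucc 118⟩, ⟨.ofNat 81, .ofNat 11, .ofNat 9, .negSucc 146, .negSucc 41, .ofNat 163⟩, ⟨.negSucc 947, .negSucc 99, .negSucc 30, .ofNat 92, .negSucc 60, .negSucc 736⟩, ⟨.negSucc 1363, .negSucc 91, .negSucc 38, .negSucc 1116, .negSucc 97, .ofNat 197⟩, .ofNat 1704, .negSucc 2319, .ofNat 0, .negSucc 2319, .ofNat 4914, .ofNat 0, .ofNat 128, .ofNat 392, .negSucc 390, .ofNat 0, .ofNat 255, .negSucc 136, .ofNat 0, .ofNat 0, .ofNat 613, .ofNat 2439, .ofNat 0, .ofNat 0, .ofNat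 0, .ofNat 0, .ofNat 0, .ofNat 0, .ofNat 0, .ofNat 0, .ofNat 0, .ofNat 0, .ofNat 0, .ofNat 0, .ofNat 0, .ofNat 0, .ofNat 48098779143526071916809348604350680793088, .ofNat 0⟩)
    (by decide +kernel)
theorem L01090 : Good (Phi V5.P V5.D (-1) 1) ⟨4, 6, 4, 9, 2, 3, 4, 14, 5, 1⟩ :=
  leafX_sound T5.ok_mp T5.Ymp.bz_eq (w := 226) (c := ⟨⟨.negSucc 968, .negSucc 133, .negSucc 28, .ofNat 19, .negSucc 5, .negSucc 242⟩, ⟨.negSucc 532, .negSucc 23, .negSucc 53, .negSucc 31, .ofNat 3, .negSucc 102⟩, ⟨.ofNat 230, .ofNat 105, .ofNat 32, .negSucc 182, .negSucc 24, .ofNat 182⟩, ⟨.negSucc 1738, .negSucc 273, .negSucc 1, .ofNat 501, .negSucc 49, .negSucc 771⟩, ⟨.negSucc 1391, .ofNat 65, .ofNat 12, .negSucc 960, .ofNat 90, .ofNat 378⟩, .ofNat 1708, .negSucc 2327, .ofNat 0, .negSucc 2327, .ofNat 4926, .ofNat 0, .ofNat 128, .ofNat 302, .negSucc 288, .ofNat 0, .ofNat 193, .negSucc 104,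 .ofNat 0, .ofNat 0, .ofNat 473, .ofNat 3257, .ofNat 0, .ofNat 0, .ofNat 0, .ofNat 0, .ofNat 0, .ofNat 0, .ofNat 20334156384391727951027256629092425924608, .ofNat 0, .ofNat 0, .ofNat 0, .ofNat 8624282260419369251470728902574660911104, .ofNat 0, .ofNat 0, .ofNat 0, .ofNat 27989812624945802046844665052644755111936, .ofNat 0⟩)
    (by decide +kernel)
theorem L01091 : Good (Phi V5.P V5.D (-1) 1) ⟨4, 6, 4, 9, 2, 3, 4, 15, 5, 1⟩ :=
  leafX_sound T5.ok_mp T5.Ymp.bz_eq (w := 225) (c := ⟨⟨.negSucc 1051, .negSucc 150, .negSucc 0, .ofNat 8, .ofNat 82, .negSucc 91⟩, ⟨.negSucc 566, .negSucc 29, .negSucc 36, .negSucc 38, .ofNat 36, .negSucc 24⟩, ⟨.ofNat 253, .ofNat 99, .ofNat 5, .negSucc 164, .negSucc 124, .ofNat 99⟩, ⟨.negSucc 2015, .negSucc 322, .ofNat 45, .ofNat 603, .ofNat 195, .negSucc 413⟩, ⟨.negSucc 1223, .ofNat 80, .ofNat 45, .negSucc 1186, .negSucc 9, .ofNat 408⟩,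 .ofNat 1298, .negSucc 1564, .ofNat 0, .negSucc 1564, .ofNat 3422, .ofNat 0, .ofNat 128, .ofNat 271, .negSucc 205, .ofNat 0, .ofNat 184, .negSucc 66, .ofNat 0, .ofNat 0, .ofNat 325, .ofNat 795, .ofNat 0, .ofNat 0, .ofNat 48768761950824743184355688005014388736, .ofNat 0, .ofNat 0, .ofNat 0, .ofNat 0, .ofNat 0, .ofNat 0, .ofNat 0, .ofNat 0, .ofNat 0, .ofNat 0, .ofNat 41911917820332307346705636605320635713847296, .ofNat 12424044125574190518785903871350490005504, .ofNat 0⟩)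
    (by decide +kernel)
theorem L01092 : Good (Phi V5.P V5.D (-1) 1) ⟨4, 7, 4, 9, 2, 3, 2, 3, 4, 0⟩ :=
  out_sound (S := T5.ds_mp) T5.ok_mp (w := 53) (j := 3) (by decide +kernel)
theorem L01093 : Good (Phi V5.P V5.D (-1) 1) ⟨2, 1, 4, 9, 2, 2, 2, 2, 4, 1⟩ :=
  leafX_sound T5.ok_mp T5.Ymp.bz_eq (w := 204) (c := ⟨⟨.negSucc 839, .negSucc 588, .negSucc 82, .negSucc 126, .ofNat 35, .negSucc 480⟩, ⟨.negSucc 548, .negSucc 77, .negSucc 115, .negSucc 69, .ofNat 21, .negSucc 224⟩, ⟨.ofNat 423, .ofNat 429, .ofNat 67, .negSucc 154, .negSucc 64, .ofNat 381⟩, ⟨.negSucc 2018, .negSucc 778, .negSucc 159, .ofNat 1, .negSucc 72, .negSucc 1264⟩, ⟨.negSucc 821, .negSucc 59, .negSucc 58, .negSucc 546, .ofNat 280, .ofNat 178⟩, .ofNat 1495, .negSucc 1799, .ofNat 0, .negSucc 1799, .ofNat 3653, .ofNat 0, .ofNat 128, .ofNat 412, .negSucc 133, .ofNat 0, .ofNat 281, .negSucc 60, .ofNat 0,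 .ofNat 0, .ofNat 390, .ofNat 845, .ofNat 0, .ofNat 0, .ofNat 246297794704647288406867730065522688, .ofNat 0, .ofNat 0, .ofNat 0, .ofNat 59423328066689811446109682400801849344, .ofNat 0, .ofNat 0, .ofNat 0, .ofNat 0, .ofNat 0, .ofNat 0, .ofNat 0, .ofNat 0, .ofNat 0⟩)
    (by decide +kernel)
theorem L01094 : Good (Phi V5.P V5.D (-1) 1) ⟨3, 2, 4, 9, 3, 6, 2, 2, 4, 1⟩ :=
  leafX_sound T5.ok_mp T5.Ymp.bz_eq (w := 223) (c := ⟨⟨.negSucc 918, .negSucc 257, .negSucc 37, .negSucc 17, .ofNat 15, .negSucc 547⟩, ⟨.negSucc 563, .negSucc 48, .negSucc 82, .negSucc 21, .ofNat 8, .negSucc 292⟩, ⟨.ofNat 223, .ofNat 181, .ofNat 36, .negSucc 77, .negSucc 25, .ofNat 420⟩, ⟨.negSucc 1864, .negSucc 381, .negSucc 36, .ofNat 92, .negSucc 34, .negSucc 1557⟩, ⟨.negSucc 1297, .negSucc 23, .negSucc 8, .negSucc 264, .ofNat 124, .ofNat 262⟩, .ofNat 1645, .negSucc 1976, .ofNat 0, .negSucc 1976,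 .ofNat 3834, .ofNat 0, .ofNat 128, .ofNat 507, .negSucc 177, .ofNat 0, .ofNat 345, .negSucc 79, .ofNat 0, .ofNat 0, .ofNat 466, .ofNat 1960, .ofNat 0, .ofNat 0, .ofNat 0, .ofNat 0, .ofNat 0, .ofNat 0, .ofNat 0, .ofNat 0, .ofNat 0, .ofNat 0, .ofNat 0, .ofNat 0, .ofNat 0, .ofNat 0, .ofNat 0, .ofNat 0⟩)
    (by decide +kernel)
theorem L01095 : Good (Phi V5.P V5.D (-1) 1) ⟨3, 3, 4, 9, 3, 6, 2, 2, 4, 1⟩ :=
  leafX_sound T5.ok_mp T5.Ymp.bz_eq (w := 223) (c := ⟨⟨.negSucc 1298, .negSucc 349, .negSucc 46, .ofNat 36, .ofNat 133, .negSucc 514⟩, ⟨.negSucc 703, .negSucc 38, .negSucc 84, .ofNat 10, .ofNat 72, .negSucc 230⟩, ⟨.ofNat 488, .ofNat 283, .ofNat 42, .negSucc 111, .negSucc 123, .ofNat 421⟩, ⟨.negSucc 2504, .negSucc 550, .negSucc 78, .ofNat 190, .ofNat 189, .negSucc 1443⟩, ⟨.negSucc 1529, .ofNat 64, .ofNat 56, .negSucc 206, .ofNat 263, .ofNat 403⟩, .ofNat 1257, .negSucc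 1503, .ofNat 0, .negSucc 1503, .ofNat 3344, .ofNat 0, .ofNat 128, .ofNat 485, .negSucc 242, .ofNat 0, .ofNat 314, .negSucc 92, .ofNat 0, .ofNat 0, .ofNat 548, .ofNat 1723, .ofNat 0, .ofNat 0, .ofNat 1471372667919487206974266750046908186624, .ofNat 0, .ofNat 0, .ofNat 0, .ofNat 289672616319132879438320619478159821111296, .ofNat 0, .ofNat 0, .ofNat 0, .ofNat 0, .ofNat 0, .ofNat 0, .ofNat 0, .ofNat 146384480443383490645857196222112340115456, .ofNat 0⟩)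
    (by decide +kernel)
theorem L01096 : Good (Phi V5.P V5.D (-1) 1) ⟨3, 2, 4, 9, 3, 7, 2, 2, 5, 2⟩ :=
  leafX_sound T5.ok_mp T5.Ymp.bz_eq (w := 228) (c := ⟨⟨.negSucc 858, .negSucc 246, .negSucc 46, .negSucc 8, .negSucc 1, .negSucc 360⟩, ⟨.negSucc 534, .negSucc 56, .negSucc 67, .negSucc 9, .negSucc 10, .negSucc 193⟩, ⟨.ofNat 54, .ofNat 173, .ofNat 41, .negSucc 83, .ofNat 30, .ofNat 270⟩, ⟨.negSucc 1749, .negSucc 445, .negSucc 14, .ofNat 146, .ofNat 91, .negSucc 865⟩, ⟨.negSucc 1174, .ofNat 15, .negSucc 50, .negSucc 286, .negSucc 199, .negSucc 107⟩, .ofNat 2530, .negSucc 3452, .ofNat 0, .negSucc 3452, .ofNat 6358, .ofNat 0, .ofNat 128, .ofNat 320, .negSucc 147, .ofNat 0, .ofNat 206, .negSucc 67, .ofNat 0, .ofNat 0, .ofNat 342, .ofNat 2344, .ofNat 0, .ofNat 0, .ofNat 0, .ofNat 0, .ofNat 0, .ofNat 0, .ofNat 0, .ofNat 0, .ofNat 0, .ofNat 0, .ofNat 0, .ofNat 0, .ofNat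 0, .ofNat 0, .ofNat 0, .ofNat 0⟩)
    (by decide +kernel)
theorem L01097 : Good (Phi V5.P V5.D (-1) 1) ⟨3, 2, 4, 9, 3, 7, 2, 2, 5, 3⟩ :=
  leafX_sound T5.ok_mp T5.Ymp.bz_eq (w := 228) (c := ⟨⟨.negSucc 1417, .negSucc 250, .negSucc 54, .ofNat 79, .ofNat 239, .negSucc 133⟩, ⟨.negSucc 843, .negSucc 45, .negSucc 85, .ofNat 36, .ofNat 132, .negSucc 73⟩, ⟨.ofNat 400, .ofNat 184, .ofNat 44, .negSucc 105, .negSucc 90, .ofNat 160⟩, ⟨.negSucc 3204, .negSucc 345, .negSucc 97, .ofNat 343, .ofNat 687, .negSucc 369⟩, ⟨.negSucc 1251, .negSucc 53, .ofNat 57, .negSucc 240, .negSucc 107, .ofNat 40⟩, .ofNat 1700, .negSucc 2058, .ofNat 0, .negSucc 2058, .ofNat 3945, .ofNat 0, .ofNat 128, .ofNat 336, .negSucc 139, .ofNat 0, .ofNat 229, .negSucc 57, .ofNat 0, .ofNat 0, .ofNat 357, .ofNat 2569, .ofNat 0, .ofNat 0, .ofNat 0, .ofNat 0, .ofNat 0, .ofNat 0, .ofNat 0, .ofNat 0, .ofNat 0,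 .ofNat 0, .ofNat 0, .ofNat 0, .ofNat 0, .ofNat 0, .ofNat 3341411351870084935315621834520372027850752, .ofNat 0⟩)
    (by decide +kernel)
theorem L01098 : Good (Phi V5.P V5.D (-1) 1) ⟨4, 6, 4, 9, 3, 7, 3, 4, 4, 1⟩ :=
  leafX_sound T5.ok_mp T5.Ymp.bz_eq (w := 231) (c := ⟨⟨.negSucc 1181, .negSucc 270, .negSucc 140, .ofNat 14, .ofNat 109, .negSucc 583⟩, ⟨.negSucc 636, .negSucc 70, .negSucc 129, .ofNat 8, .ofNat 46, .negSucc 285⟩, ⟨.ofNat 269, .ofNat 234, .ofNat 121, .negSucc 71, .negSucc 73, .ofNat 473⟩, ⟨.negSucc 2352, .negSucc 433, .negSucc 216, .ofNat 92, .ofNat 298, .negSucc 1434⟩, ⟨.negSucc 1268, .negSucc 120, .negSucc 88, .negSucc 103, .negSucc 82, .ofNat 22⟩, .ofNat 1749, .negSucc 2390, .ofNat 0, .negSucc 2390, .ofNat 5017, .ofNat 0, .ofNat 128, .ofNat 480, .negSucc 264, .ofNat 0, .ofNat 295, .negSucc 102, .ofNat 0, .ofNat 0, .ofNat 540, .ofNat 1625, .ofNat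 0, .ofNat 0, .ofNat 0, .ofNat 0, .ofNat 0, .ofNat 0, .ofNat 1486553677410917058836841307663651802447872, .ofNat 0, .ofNat 0, .ofNat 0, .ofNat 0, .ofNat 0, .ofNat 0, .ofNat 0, .ofNat 0, .ofNat 0⟩)
    (by decide +kernel)
theorem L01099 : Good (Phi V5.P V5.D (-1) 1) ⟨4, 6, 4, 9, 3, 7, 3, 5, 4, 1⟩ :=
  leafX_sound T5.ok_mp T5.Ymp.bz_eq (w := 231) (c := ⟨⟨.negSucc 1291, .negSucc 150, .negSucc 66, .ofNat 110, .ofNat 152, .negSucc 419⟩, ⟨.negSucc 697, .negSucc 15, .negSucc 86, .ofNat 41, .ofNat 71, .negSucc 191⟩, ⟨.ofNat 348, .ofNat 135, .ofNat 26, .negSucc 107, .negSucc 90, .ofNat 360⟩, ⟨.negSucc 2479, .negSucc 215, .negSucc 115, .ofNat 322, .ofNat 344, .negSucc 1058⟩, ⟨.negSucc 1527, .negSucc 13, .ofNat 71, .negSucc 136, .ofNat 31, .ofNat 104⟩, .ofNat 1709, .negSucc 2327, .ofNat 0, .negSucc 2327, .ofNat 4926, .ofNat 0, .ofNat 128, .ofNat 389, .negSucc 224, .ofNat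 0, .ofNat 241, .negSucc 82, .ofNat 0, .ofNat 0, .ofNat 430, .ofNat 2001, .ofNat 0, .ofNat 0, .ofNat 12781116483674770738911741523680083050496, .ofNat 0, .ofNat 0, .ofNat 0, .ofNat 0, .ofNat 0, .ofNat 0, .ofNat 0, .ofNat 0, .ofNat 0, .ofNat 0, .ofNat 0, .ofNat 1056242920185730138643891174575627122507776, .ofNat 0⟩)
    (by decide +kernel)
theorem L01100 : Good (Phi V5.P V5.D (-1) 1) ⟨4, 7, 4, 9, 3, 7, 2, 2, 4, 1⟩ :=
  out_sound (S := T5.ds_mp) T5.ok_mp (w := 53) (j := 3) (by decide +kernel)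
theorem L01101 : Good (Phi V5.P V5.D (-1) 1) ⟨3, 2, 4, 9, 2, 2, 3, 6, 4, 1⟩ :=
  leafX_sound T5.ok_mp T5.Ymp.bz_eq (w := 213) (c := ⟨⟨.negSucc 1055, .negSucc 210, .negSucc 52, .negSucc 105, .ofNat 144, .negSucc 236⟩, ⟨.negSucc 619, .negSucc 29, .negSucc 86, .negSucc 73, .ofNat 82, .negSucc 125⟩, ⟨.ofNat 608, .ofNat 112, .ofNat 35, .negSucc 172, .negSucc 145, .ofNat 134⟩, ⟨.negSucc 2470, .negSucc 261, .negSucc 126, .negSucc 37, .ofNat 263, .negSucc 795⟩, ⟨.negSucc 802, .negSucc 9, .ofNat 47, .negSucc 434, .ofNat 189, .ofNat 298⟩, .ofNat 1673, .negSucc 2029, .ofNat 0, .negSucc 2029, .ofNat 3923, .ofNat 0, .ofNat 128, .ofNat 426, .negSucc 210, .ofNat 0, .ofNat 296, .negSucc 99, .ofNat 0, .ofNat 0, .ofNat 568, .ofNat 3037, .ofNat 0, .ofNat 0, .ofNat 0, .ofNat 0, .ofNat 0, .ofNat 0, .ofNat 0, .ofNat 0, .ofNat 0, .ofNat 0, .ofNat 0, .ofNat 0, .ofNat 0, .ofNat 0, .ofNat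 0, .ofNat 0⟩)
    (by decide +kernel)
theorem L01102 : Good (Phi V5.P V5.D (-1) 1) ⟨3, 2, 4, 9, 2, 2, 3, 7, 4, 1⟩ :=
  leafX_sound T5.ok_mp T5.Ymp.bz_eq (w := 212) (c := ⟨⟨.negSucc 1054, .negSucc 150, .negSucc 10, .negSucc 191, .ofNat 384, .negSucc 122⟩, ⟨.negSucc 616, .negSucc 8, .negSucc 60, .negSucc 113, .ofNat 219, .negSucc 59⟩, ⟨.ofNat 603, .ofNat 23, .negSucc 1, .negSucc 65, .negSucc 390, .ofNat 9⟩, ⟨.negSucc 2504, .negSucc 150, .ofNat 17, .negSucc 363, .ofNat 829, .negSucc 539⟩, ⟨.negSucc 714, .ofNat 15, .negSucc 39, .negSucc 259, .ofNat 314, .ofNat 373⟩, .ofNat 1678, .negSucc 2025, .ofNat 0, .negSucc 2025, .ofNat 3901, .ofNat 0, .ofNat 128, .ofNat 305, .negSucc 198, .ofNat 0, .ofNat 214, .negSucc 91, .ofNat 0, .ofNat 0, .ofNat 478, .ofNat 1482, .ofNat 0, .ofNat 0, .ofNat 0, .ofNat 0, .ofNat 0, .ofNat 0, .ofNat 0, .ofNat 0, .ofNat 0, .ofNat 906795759798221249140613665918508911820800,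 .ofNat 0, .ofNat 0, .ofNat 0, .ofNat 0, .ofNat 0, .ofNat 0⟩)
    (by decide +kernel)
theorem L01103 : Good (Phi V5.P V5.D (-1) 1) ⟨3, 2, 4, 9, 2, 3, 3, 6, 5, 2⟩ :=
  leafX_sound T5.ok_mp T5.Ymp.bz_eq (w := 218) (c := ⟨⟨.negSucc 1077, .negSucc 179, .negSucc 35, .ofNat 154, .ofNat 62, .negSucc 223⟩, ⟨.negSucc 652, .negSucc 24, .negSucc 61, .ofNat 66, .ofNat 42, .negSucc 118⟩, ⟨.ofNat 315, .ofNat 100, .ofNat 35, .negSucc 237, .negSucc 14, .ofNat 175⟩, ⟨.negSucc 2275, .negSucc 252, .negSucc 26, .ofNat 801, .ofNat 83, .negSucc 712⟩, ⟨.negSucc 1250, .negSucc 10, .ofNat 18, .negSucc 729, .ofNat 147, .ofNat 241⟩, .ofNat 1240, .negSucc 1317, .ofNat 0, .negSucc 1317, .ofNat 2671, .ofNat 0, .ofNat 128, .ofNat 306, .negSucc 172, .ofNat 0, .ofNat 220, .negSucc 62, .ofNat 0, .ofNat 0, .ofNat 366, .ofNat 2098, .ofNat 0, .ofNat 0, .ofNat 71334838042096011288343797491283525632,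 .ofNat 0, .ofNat 0, .ofNat 0, .ofNat 0, .ofNat 0, .ofNat 0, .ofNat 0, .ofNat 0, .ofNat 0, .ofNat 0, .ofNat 0, .ofNat 1381839866816100268329397222214715047936, .ofNat 0⟩)
    (by decide +kernel)
theorem L01104 : Good (Phi V5.P V5.D (-1) 1) ⟨3, 2, 4, 9, 2, 3, 3, 6, 5, 3⟩ :=
  leafX_sound T5.ok_mp T5.Ymp.bz_eq (w := 218) (c := ⟨⟨.negSucc 1469, .negSucc 135, .negSucc 8, .ofNat 271, .ofNat 202, .negSucc 28⟩, ⟨.negSucc 865, .ofNat 11, .negSucc 57, .ofNat 133, .ofNat 120, .negSucc 7⟩, ⟨.ofNat 562, .ofNat 74, .ofNat 11, .negSucc 235, .negSucc 100, .ofNat 69⟩, ⟨.negSucc 3398, .negSucc 85, .ofNat 30, .ofNat 1081, .ofNat 347, .negSucc 240⟩, ⟨.negSucc 1092, .negSucc 16, .ofNat 17, .negSucc 682, .ofNat 314, .ofNat 290⟩, .ofNat 1208, .negSucc 1277, .ofNat 0, .negSucc 1277, .ofNat 2630, .ofNat 0, .ofNat 128, .ofNat 464, .negSucc 139, .ofNat 0, .ofNat 338, .negSucc 46, .ofNat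 0, .ofNat 0, .ofNat 334, .ofNat 1878, .ofNat 0, .ofNat 0, .ofNat 64235134904458075836448984853167210496, .ofNat 0, .ofNat 0, .ofNat 0, .ofNat 383007570752988361492602647717666095104, .ofNat 0, .ofNat 0, .ofNat 0, .ofNat 0, .ofNat 0, .ofNat 0, .ofNat 0, .ofNat 0, .ofNat 0⟩)
    (by decide +kernel)
theorem L01105 : Good (Phi V5.P V5.D (-1) 1) ⟨3, 2, 4, 9, 2, 3, 4, 14, 5, 2⟩ :=
  leafX_sound T5.ok_mp T5.Ymp.bz_eq (w := 222) (c := ⟨⟨.negSucc 1100, .negSucc 197, .negSucc 14, .ofNat 154, .ofNat 79, .negSucc 69⟩, ⟨.negSucc 660, .negSucc 34, .negSucc 49, .ofNat 59, .ofNat 51, .negSucc 22⟩, ⟨.ofNat 349, .ofNat 74, .ofNat 14, .negSucc 217, .negSucc 49, .ofNat 112⟩, ⟨.negSucc 2416, .negSucc 250, .ofNat 32, .ofNat 866, .ofNat 106, .negSucc 425⟩, ⟨.negSucc 1090, .negSucc 80, .negSucc 14, .negSucc 843, .ofNat 187, .ofNat 432⟩, .ofNat 1664, .negSucc 2003, .ofNat 0, .negSucc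 2003, .ofNat 3869, .ofNat 0, .ofNat 128, .ofNat 320, .negSucc 146, .ofNat 0, .ofNat 222, .negSucc 56, .ofNat 0, .ofNat 0, .ofNat 308, .ofNat 2264, .ofNat 0, .ofNat 0, .ofNat 0, .ofNat 0, .ofNat 0, .ofNat 0, .ofNat 0, .ofNat 0, .ofNat 0, .ofNat 0, .ofNat 0, .ofNat 0, .ofNat 0, .ofNat 0, .ofNat 0, .ofNat 0⟩)
    (by decide +kernel)
theorem L01106 : Good (Phi V5.P V5.D (-1) 1) ⟨3, 2, 4, 9, 2, 3, 4, 15, 5, 2⟩ :=
  leafX_sound T5.ok_mp T5.Ymp.bz_eq (w := 221) (c := ⟨⟨.negSucc 1077, .negSucc 102, .negSucc 24, .ofNat 148, .ofNat 157, .negSucc 35⟩, ⟨.negSucc 642, .ofNat 7, .negSucc 53, .ofNat 59, .ofNat 93, .negSucc 1⟩, ⟨.ofNat 315, .ofNat 3, .ofNat 3, .negSucc 171, .negSucc 118, .ofNat 86⟩, ⟨.negSucc 2421, .negSucc 19, .ofNat 38, .ofNat 865, .ofNat 284, .negSucc 419⟩, ⟨.negSucc 950, .negSucc 116, .negSucc 69, .negSucc 870, .ofNat 234, .ofNat 594⟩, .ofNat 1645, .negSucc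 1982, .ofNat 0, .negSucc 1982, .ofNat 3849, .ofNat 0, .ofNat 128, .ofNat 224, .negSucc 154, .ofNat 0, .ofNat 157, .negSucc 57, .ofNat 0, .ofNat 0, .ofNat 314, .ofNat 1511, .ofNat 0, .ofNat 0, .ofNat 0, .ofNat 0, .ofNat 0, .ofNat 0, .ofNat 0, .ofNat 0, .ofNat 0, .ofNat 30534884184607209199094387143562627213426688, .ofNat 0, .ofNat 0, .ofNat 0, .ofNat 7413174396743112707231705037650659351986176, .ofNat 3108304087768089295531407505704760639488, .ofNat 0⟩)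
    (by decide +kernel)
theorem L01107 : Good (Phi V5.P V5.D (-1) 1) ⟨3, 2, 4, 9, 2, 3, 3, 7, 5, 3⟩ :=
  leafX_sound T5.ok_mp T5.Ymp.bz_eq (w := 217) (c := ⟨⟨.negSucc 1369, .negSucc 77, .negSucc 15, .ofNat 352, .ofNat 343, .ofNat 47⟩, ⟨.negSucc 796, .ofNat 29, .negSucc 60, .ofNat 177, .ofNat 208, .ofNat 39⟩, ⟨.ofNat 501, .negSucc 14, .ofNat 0, .negSucc 177, .negSucc 206, .ofNat 37⟩, ⟨.negSucc 3243, .ofNat 97, .ofNat 17, .ofNat 1203, .ofNat 534, .negSucc 144⟩, ⟨.negSucc 848, .negSucc 123, .negSucc 36, .negSucc 549, .ofNat 636, .ofNat 481⟩, .ofNat 1671, .negSucc 2028, .ofNat 0, .negSucc 2028, .ofNat 3922, .ofNat 0, .ofNat 128, .ofNat 222, .negSucc 118, .ofNat 0, .ofNat 155, .negSucc 44, .ofNat 0, .ofNat 0, .ofNat 284, .ofNat 865, .ofNat 0, .ofNat 0, .ofNat 0, .ofNat 0, .ofNat 0, .ofNat 0, .ofNat 0, .ofNat 0, .ofNat 0, .ofNat 6017183983275392896244197924145263361916928,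 .ofNat 0, .ofNat 0, .ofNat 0, .ofNat 2036311948122148377937489283545729448542208, .ofNat 1152442726043481394839203089013777891328, .ofNat 0⟩)
    (by decide +kernel)
theorem L01108 : Good (Phi V5.P V5.D (-1) 1) ⟨4, 6, 4, 9, 2, 2, 3, 6, 4, 1⟩ :=
  leafX_sound T5.ok_mp T5.Ymp.bz_eq (w := 217) (c := ⟨⟨.negSucc 1305, .negSucc 128, .negSucc 27, .negSucc 129, .ofNat 123, .negSucc 225⟩, ⟨.negSucc 678, .ofNat 5, .negSucc 82, .negSucc 75, .ofNat 68, .negSucc 97⟩, ⟨.ofNat 761, .ofNat 84, .ofNat 11, .negSucc 159, .negSucc 139, .ofNat 146⟩, ⟨.negSucc 2914, .negSucc 127, .negSucc 41, .negSucc 172, .ofNat 205, .negSucc 656⟩, ⟨.negSucc 735, .negSucc 4, .ofNat 4, .negSucc 295, .ofNat 193, .ofNat 232⟩, .ofNat 1757, .negSucc 2401, .ofNat 0, .negSucc 2401, .ofNat 5033, .ofNat 0, .ofNat 128, .ofNat 291, .negSucc 198, .ofNat 0, .ofNat 187, .negSucc 85, .ofNat 0, .ofNat 0, .ofNat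 480, .ofNat 2198, .ofNat 0, .ofNat 0, .ofNat 0, .ofNat 0, .ofNat 0, .ofNat 0, .ofNat 43012886209248680444399393215600394240, .ofNat 0, .ofNat 0, .ofNat 0, .ofNat 33301627733469263475829959856995958784, .ofNat 0, .ofNat 0, .ofNat 0, .ofNat 0, .ofNat 0⟩)
    (by decide +kernel)
theorem L01109 : Good (Phi V5.P V5.D (-1) 1) ⟨4, 6, 4, 9, 2, 2, 3, 7, 4, 1⟩ :=
  leafX_sound T5.ok_mp T5.Ymp.bz_eq (w := 217) (c := ⟨⟨.negSucc 1308, .negSucc 67, .ofNat 38, .negSucc 192, .ofNat 486, .negSucc 60⟩, ⟨.negSucc 678, .ofNat 26, .negSucc 37, .negSucc 97, .ofNat 246, .negSucc 8⟩, ⟨.ofNat 709, .ofNat 38, .negSucc 38, .negSucc 61, .negSucc 491, .negSucc 23⟩, ⟨.negSucc 2871, .negSucc 49, .ofNat 108, .negSucc 374, .ofNat 1001, .negSucc 379⟩, ⟨.negSucc 804, .ofNat 86, .ofNat 29, .negSucc 181, .ofNat 352, .ofNat 484⟩, .ofNat 1709, .negSucc 2327, .ofNat 0, .negSucc 2327, .ofNat 4925, .ofNat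 0, .ofNat 128, .ofNat 427, .negSucc 309, .ofNat 0, .ofNat 277, .negSucc 127, .ofNat 0, .ofNat 0, .ofNat 650, .ofNat 2211, .ofNat 0, .ofNat 0, .ofNat 0, .ofNat 0, .ofNat 0, .ofNat 1929841800414082099215530236128189751492608, .ofNat 40769676244681180633309937334814244864, .ofNat 0, .ofNat 0, .ofNat 24435568592888312634815667868033169831755776, .ofNat 0, .ofNat 0, .ofNat 0, .ofNat 11501260475563921700220473972668293170855936, .ofNat 0, .ofNat 0⟩)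
    (by decide +kernel)
theorem L01110 : Good (Phi V5.P V5.D (-1) 1) ⟨4, 6, 4, 9, 2, 3, 3, 6, 5, 2⟩ :=
  leafX_sound T5.ok_mp T5.Ymp.bz_eq (w := 222) (c := ⟨⟨.negSucc 1324, .negSucc 165, .negSucc 19, .ofNat 210, .ofNat 88, .negSucc 209⟩, ⟨.negSucc 705, .negSucc 23, .negSucc 61, .ofNat 70, .ofNat 52, .negSucc 89⟩, ⟨.ofNat 464, .ofNat 132, .ofNat 27, .negSucc 257, .negSucc 57, .ofNat 175⟩, ⟨.negSucc 2687, .negSucc 303, .ofNat 16, .ofNat 889, .ofNat 134, .negSucc 646⟩, ⟨.negSucc 1262, .ofNat 64, .ofNat 4, .negSucc 783, .ofNat 172, .ofNat 286⟩, .ofNat 1289, .negSucc 1549, .ofNat 0, .negSucc 1549, .ofNat 3402, .ofNat 0, .ofNat 128, .ofNat 243, .negSucc 217, .ofNat 0, .ofNat 159, .negSucc 75, .ofNat 0, .ofNat 0, .ofNat 393, .ofNat 2007, .ofNat 0, .ofNat 0, .ofNat 14197652380494026031866022654495424512, .ofNat 0, .ofNat 0, .ofNat 0, .ofNat 1237538409241176715313644475898256162816,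 .ofNat 0, .ofNat 0, .ofNat 0, .ofNat 0, .ofNat 0, .ofNat 0, .ofNat 0, .ofNat 1393510222740866515386944013221543018496, .ofNat 0⟩)
    (by decide +kernel)
theorem L01111 : Good (Phi V5.P V5.D (-1) 1) ⟨4, 6, 4, 9, 2, 3, 3, 6, 5, 3⟩ :=
  leafX_sound T5.ok_mp T5.Ymp.bz_eq (w := 221) (c := ⟨⟨.negSucc 1635, .negSucc 153, .negSucc 33, .ofNat 373, .ofNat 237, .negSucc 27⟩, ⟨.negSucc 849, .negSucc 11, .negSucc 76, .ofNat 146, .ofNat 127, .ofNat 2⟩, ⟨.ofNat 706, .ofNat 113, .ofNat 19, .negSucc 325, .negSucc 169, .ofNat 50⟩, ⟨.negSucc 3543, .negSucc 219, .negSucc 41, .ofNat 1290, .ofNat 399, .negSucc 228⟩, ⟨.negSucc 1075, .ofNat 15, .ofNat 39, .negSucc 808, .ofNat 356, .ofNat 333⟩, .ofNat 1256, .negSucc 1504, .ofNat 0, .negSucc 1504, .ofNat 3345, .ofNat 0, .ofNat 128, .ofNat 154, .negSucc 117, .ofNat 0, .ofNat 102, .negSucc 38, .ofNat 0, .ofNat 0, .ofNat 240, .ofNat 864,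 .ofNat 0, .ofNat 0, .ofNat 6435406603994536139999366085313822720, .ofNat 0, .ofNat 0, .ofNat 0, .ofNat 0, .ofNat 0, .ofNat 0, .ofNat 0, .ofNat 614168607552764743700356239133178331136, .ofNat 0, .ofNat 0, .ofNat 0, .ofNat 495025351748158817726635136537403064320, .ofNat 0⟩)
    (by decide +kernel)
theorem L01112 : Good (Phi V5.P V5.D (-1) 1) ⟨4, 6, 4, 9, 2, 3, 4, 14, 5, 2⟩ :=
  leafX_sound T5.ok_mp T5.Ymp.bz_eq (w := 225) (c := ⟨⟨.negSucc 1381, .negSucc 122, .negSucc 2, .ofNat 280, .ofNat 131, .negSucc 72⟩, ⟨.negSucc 722, .negSucc 5, .negSucc 49, .ofNat 96, .ofNat 69, .negSucc 16⟩, ⟨.ofNat 483, .ofNat 101, .ofNat 25, .negSucc 281, .negSucc 106, .ofNat 82⟩, ⟨.negSucc 2943, .negSucc 213, .ofNat 61, .ofNat 1183, .ofNat 246, .negSucc 364⟩, ⟨.negSucc 1007, .ofNat 80, .negSucc 10, .negSucc 1036, .ofNat 146, .ofNat 395⟩, .ofNat 1257, .negSucc 1503, .ofNat 0, .negSucc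 1503, .ofNat 3345, .ofNat 0, .ofNat 128, .ofNat 213, .negSucc 147, .ofNat 0, .ofNat 142, .negSucc 47, .ofNat 0, .ofNat 0, .ofNat 255, .ofNat 913, .ofNat 0, .ofNat 0, .ofNat 63809917432841559067367338981097209856, .ofNat 0, .ofNat 0, .ofNat 0, .ofNat 0, .ofNat 0, .ofNat 0, .ofNat 0, .ofNat 0, .ofNat 0, .ofNat 0, .ofNat 0, .ofNat 10187031244950332318430507289468886581248, .ofNat 0⟩)
    (by decide +kernel)
theorem L01113 : Good (Phi V5.P V5.D (-1) 1) ⟨4, 6, 4, 9, 2, 3, 4, 15, 5, 2⟩ :=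
  leafX_sound T5.ok_mp T5.Ymp.bz_eq (w := 225) (c := ⟨⟨.negSucc 1355, .negSucc 93, .negSucc 40, .ofNat 412, .ofNat 241, .ofNat 56⟩, ⟨.negSucc 697, .negSucc 1, .negSucc 65, .ofNat 145, .ofNat 122, .ofNat 47⟩, ⟨.ofNat 430, .ofNat 60, .ofNat 17, .negSucc 328, .negSucc 211, .ofNat 15⟩, ⟨.negSucc 2953, .negSucc 83, .negSucc 34, .ofNat 1565, .ofNat 491, .negSucc 118⟩, ⟨.negSucc 824, .negSucc 61, .negSucc 23, .negSucc 1208, .ofNat 179, .ofNat 518⟩, .ofNat 1280, .negSucc 1537, .ofNat 0, .negSucc 1537, .ofNat 3387, .ofNat 0, .ofNat 128, .ofNat 247, .negSucc 172, .ofNat 0, .ofNat 167, .negSucc 53, .ofNat 0, .ofNat 0, .ofNat 293, .ofNat 1060, .ofNat 0, .ofNat 0, .ofNat 0, .ofNat 0, .ofNat 0, .ofNat 0, .ofNat 0, .ofNat 0, .ofNat 0, .ofNat 0, .ofNat 0, .ofNat 0, .ofNat 0, .ofNat 54708723862304630456265718705788725969813504, .ofNat 8837521158375890732502447454323382157312,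 .ofNat 0⟩)
    (by decide +kernel)
theorem L01114 : Good (Phi V5.P V5.D (-1) 1) ⟨4, 6, 4, 9, 2, 3, 3, 7, 5, 3⟩ :=
  leafX_sound T5.ok_mp T5.Ymp.bz_eq (w := 221) (c := ⟨⟨.negSucc 1598, .negSucc 43, .negSucc 26, .ofNat 581, .ofNat 413, .ofNat 103⟩, ⟨.negSucc 808, .ofNat 17, .negSucc 61, .ofNat 235, .ofNat 225, .ofNat 72⟩, ⟨.ofNat 638, .negSucc 9, .ofNat 2, .negSucc 347, .negSucc 322, .negSucc 4⟩, ⟨.negSucc 3614, .ofNat 25, .ofNat 38, .ofNat 1883, .ofNat 760, .ofNat 7⟩, ⟨.negSucc 685, .negSucc 40, .negSucc 92, .negSucc 1012, .ofNat 520, .ofNat 506⟩, .ofNat 1255, .negSucc 1502, .ofNat 0, .negSucc 1502, .ofNat 3343, .ofNat 0, .ofNat 128, .ofNat 233, .negSucc 124, .ofNat 0, .ofNat 157, .negSucc 37, .ofNat 0, .ofNat 0, .ofNat 250, .ofNat 625, .ofNat 0, .ofNat 0, .ofNat 0, .ofNat 0, .ofNat 0, .ofNat 0, .ofNat 0, .ofNat 0, .ofNat 0, .ofNat 66066075877899687897142196105972089817661440,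 .ofNat 766965611834556382204963854321992073216, .ofNat 0, .ofNat 0, .ofNat 10143504975511703995724451258961792751108096, .ofNat 442873631929746710591466465464347000832, .ofNat 0⟩)
    (by decide +kernel)
theorem L01115 : Good (Phi V5.P V5.D (-1) 1) ⟨4, 7, 4, 9, 1, 1, 2, 3, 4, 1⟩ :=
  out_sound (S := T5.ds_mp) T5.ok_mp (w := 53) (j := 3) (by decide +kernel)
theorem L01116 : Good (Phi V5.P V5.D (-1) 1) ⟨3, 2, 4, 10, 1, 1, 2, 2, 4, 0⟩ :=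
  leafX_sound T5.ok_mp T5.Ymp.bz_eq (w := 195) (c := ⟨⟨.ofNat 520, .negSucc 136, .ofNat 64, .ofNat 161, .negSucc 483, .negSucc 1274⟩, ⟨.ofNat 299, .negSucc 48, .ofNat 40, .ofNat 85, .negSucc 296, .negSucc 777⟩, ⟨.negSucc 327, .ofNat 35, .negSucc 35, .negSucc 512, .ofNat 294, .ofNat 738⟩, ⟨.ofNat 1552, .negSucc 141, .ofNat 108, .ofNat 918, .negSucc 1151, .negSucc 3251⟩, ⟨.negSucc 369, .negSucc 237, .ofNat 214, .negSucc 821, .negSucc 210, .negSucc 198⟩, .ofNat 2144, .negSucc 2704, .ofNat 0, .negSucc 2704, .ofNat 4824, .ofNat 0, .ofNat 128, .ofNat 540, .negSucc 182, .ofNat 0, .ofNat 367, .negSucc 96, .ofNat 0, .ofNat 0, .ofNat 441, .ofNat 900, .ofNat 0, .ofNat 0, .ofNat 0, .ofNat 0, .ofNat 0, .ofNat 0, .ofNat 916683335283399686953559199318016, .ofNat 0, .ofNat 0, .ofNat 0, .ofNat 0, .ofNat 0, .ofNat 0, .ofNat 0, .ofNat 430682764916672393442102530277376, .ofNat 0⟩)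
    (by decide +kernel)
theorem L01117 : Good (Phi V5.P V5.D (-1) 1) ⟨3, 2, 4, 10, 1, 1, 3, 4, 4, 1⟩ :=
  leafX_sound T5.ok_mp T5.Ymp.bz_eq (w := 198) (c := ⟨⟨.negSucc 903, .negSucc 250, .negSucc 35, .negSucc 150, .ofNat 41, .negSucc 539⟩, ⟨.negSucc 573, .negSucc 57, .negSucc 83, .negSucc 106, .ofNat 19, .negSucc 322⟩, ⟨.ofNat 451, .ofNat 201, .ofNat 39, .negSucc 368, .negSucc 33, .ofNat 442⟩, ⟨.negSucc 2076, .negSucc 381, .negSucc 22, .ofNat 141, .ofNat 50, .negSucc 1475⟩, ⟨.negSucc 705, .ofNat 1, .negSucc 35, .negSucc 911, .ofNat 65, .ofNat 93⟩, .ofNat 1442, .negSucc 1594, .ofNat 0, .negSucc 1594, .ofNat 3002, .ofNat 0, .ofNat 128, .ofNat 315, .negSucc 132, .ofNat 0, .ofNat 228, .negSucc 64, .ofNat 0, .ofNat 0, .ofNat 402, .ofNat 1841, .ofNat 0, .ofNat 0, .ofNat 0, .ofNat 0, .ofNat 0, .ofNat 0, .ofNat 15124825808913607310299766317907968, .ofNat 0, .ofNat 0,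 .ofNat 0, .ofNat 0, .ofNat 0, .ofNat 0, .ofNat 0, .ofNat 11313404774299762072747793495097344, .ofNat 0⟩)
    (by decide +kernel)
theorem L01118 : Good (Phi V5.P V5.D (-1) 1) ⟨3, 2, 4, 10, 1, 1, 3, 5, 4, 1⟩ :=
  leafX_sound T5.ok_mp T5.Ymp.bz_eq (w := 199) (c := ⟨⟨.negSucc 1116, .negSucc 231, .negSucc 89, .ofNat 3, .ofNat 90, .negSucc 324⟩, ⟨.negSucc 713, .negSucc 41, .negSucc 106, .negSucc 9, .ofNat 54, .negSucc 194⟩, ⟨.ofNat 547, .ofNat 176, .ofNat 54, .negSucc 386, .negSucc 53, .ofNat 296⟩, ⟨.negSucc 2624, .negSucc 309, .negSucc 179, .ofNat 577, .ofNat 193, .negSucc 1000⟩, ⟨.negSucc 776, .negSucc 14, .ofNat 25, .negSucc 950, .ofNat 64, .ofNat 235⟩, .ofNat 2128, .negSucc 2692, .ofNat 0, .negSucc 2692, .ofNat 4824, .ofNat 0, .ofNat 128, .ofNat 451, .negSucc 199, .ofNat 0, .ofNat 307, .negSucc 102, .ofNat 0, .ofNat 0, .ofNat 563, .ofNat 2235, .ofNat 0, .ofNat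 0, .ofNat 495315282781486840609218775482368, .ofNat 0, .ofNat 0, .ofNat 0, .ofNat 21451987550572518983963412870987776, .ofNat 0, .ofNat 0, .ofNat 0, .ofNat 0, .ofNat 0, .ofNat 0, .ofNat 0, .ofNat 17375441921039488476966779906686976, .ofNat 0⟩)
    (by decide +kernel)
theorem L01119 : Good (Phi V5.P V5.D (-1) 1) ⟨3, 3, 4, 10, 1, 1, 2, 2, 3, 0⟩ :=
  out_sound (S := T5.ds_mp) T5.ok_mp (w := 47) (j := 3) (by decide +kernel)
theorem L01120 : Good (Phi V5.P V5.D (-1) 1) ⟨3, 2, 5, 20, 2, 2, 3, 6, 4, 0⟩ :=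
  leafX_sound T5.ok_mp T5.Ymp.bz_eq (w := 214) (c := ⟨⟨.negSucc 211, .negSucc 199, .negSucc 37, .ofNat 17, .negSucc 177, .negSucc 709⟩, ⟨.negSucc 160, .negSucc 62, .negSucc 30, .ofNat 2, .negSucc 105, .negSucc 419⟩, ⟨.ofNat 132, .ofNat 75, .ofNat 28, .negSucc 250, .ofNat 102, .ofNat 393⟩, ⟨.negSucc 304, .negSucc 298, .negSucc 65, .ofNat 411, .negSucc 475, .negSucc 1888⟩, ⟨.negSucc 576, .negSucc 95, .negSucc 0, .negSucc 609, .ofNat 7, .ofNat 34⟩, .ofNat 937, .negSucc 846, .ofNat 0, .negSucc 846, .ofNat 1788, .ofNat 0, .ofNat 128, .ofNat 358, .negSucc 183, .ofNat 0, .ofNat 289, .negSucc 79, .ofNat 0, .ofNat 0, .ofNat 379, .ofNat 1244, .ofNat 0, .ofNat 0, .ofNat 0, .ofNat 0, .ofNat 0, .ofNat 0, .ofNat 398661115421957411976373308370827870208, .ofNat 0, .ofNat 0, .ofNat 0, .ofNat 0, .ofNat 0, .ofNat 0, .ofNat 0, .ofNat 0, .ofNat 0⟩)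
    (by decide +kernel)
theorem L01121 : Good (Phi V5.P V5.D (-1) 1) ⟨3, 2, 5, 20, 2, 2, 4, 14, 4, 0⟩ :=
  leafX_sound T5.ok_mp T5.Ymp.bz_eq (w := 220) (c := ⟨⟨.negSucc 529, .negSucc 197, .negSucc 13, .negSucc 1, .ofNat 6, .negSucc 482⟩, ⟨.negSucc 346, .negSucc 59, .negSucc 26, .negSucc 11, .ofNat 4, .negSucc 288⟩, ⟨.ofNat 358, .ofNat 61, .ofNat 9, .negSucc 246, .negSucc 31, .ofNat 206⟩, ⟨.negSucc 1118, .negSucc 310, .negSucc 19, .ofNat 277, .ofNat 15, .negSucc 1265⟩, ⟨.negSucc 615, .negSucc 54, .ofNat 1, .negSucc 488, .negSucc 0, .negSucc 2⟩, .ofNat 2134, .negSucc 2680, .ofNat 0, .negSucc 2680, .ofNat 4780, .ofNat 0, .ofNat 128, .ofNat 394, .negSucc 192, .ofNat 0, .ofNat 275, .negSucc 102, .ofNat 0, .ofNat 0, .ofNat 419, .ofNat 3052, .ofNat 0, .ofNat 0, .ofNat 0, .ofNat 0, .ofNat 0, .ofNat 0, .ofNat 13913910217998744128894814201509557829632, .ofNat 0, .ofNat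 0, .ofNat 0, .ofNat 0, .ofNat 0, .ofNat 0, .ofNat 0, .ofNat 4579956243550860023803697058129236721664, .ofNat 0⟩)
    (by decide +kernel)
theorem L01122 : Good (Phi V5.P V5.D (-1) 1) ⟨3, 2, 5, 20, 2, 2, 4, 15, 4, 0⟩ :=
  leafX_sound T5.ok_mp T5.Ymp.bz_eq (w := 220) (c := ⟨⟨.negSucc 612, .negSucc 156, .negSucc 5, .negSucc 71, .ofNat 115, .negSucc 318⟩, ⟨.negSucc 394, .negSucc 39, .negSucc 18, .negSucc 53, .ofNat 69, .negSucc 186⟩, ⟨.ofNat 416, .negSucc 0, .negSucc 5, .negSucc 189, .negSucc 129, .ofNat 67⟩, ⟨.negSucc 1320, .negSucc 200, .ofNat 14, .ofNat 103, .ofNat 255, .negSucc 897⟩, ⟨.negSucc 632, .negSucc 84, .negSucc 14, .negSucc 502, .ofNat 71, .ofNat 109⟩, .ofNat 2138, .negSucc 2710, .ofNat 0, .negSucc 2710, .ofNat 4856, .ofNat 0, .ofNat 128, .ofNat 371, .negSucc 314, .ofNat 0, .ofNat 258, .negSucc 164, .ofNat 0, .ofNat 0, .ofNat 634, .ofNat 3177, .ofNat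 0, .ofNat 1567702322763122960565477356121137665277952, .ofNat 51617497163289527826970464034890973184, .ofNat 0, .ofNat 0, .ofNat 0, .ofNat 0, .ofNat 0, .ofNat 0, .ofNat 0, .ofNat 5294906733452918551405272436165664833536, .ofNat 0, .ofNat 0, .ofNat 0, .ofNat 0, .ofNat 0⟩)
    (by decide +kernel)
theorem L01123 : Good (Phi V5.P V5.D (-1) 1) ⟨3, 2, 5, 20, 2, 3, 3, 6, 4, 0⟩ :=
  leafX_sound T5.ok_mp T5.Ymp.bz_eq (w := 216) (c := ⟨⟨.negSucc 169, .negSucc 109, .ofNat 46, .negSucc 35, .negSucc 229, .negSucc 768⟩, ⟨.negSucc 147, .negSucc 19, .ofNat 17, .negSucc 30, .negSucc 139, .negSucc 446⟩, ⟨.negSucc 190, .ofNat 70, .ofNat 5, .negSucc 203, .ofNat 137, .ofNat 468⟩, ⟨.ofNat 131, .negSucc 97, .ofNat 100, .ofNat 422, .negSucc 533, .negSucc 2027⟩, ⟨.negSucc 1131, .negSucc 154, .ofNat 106, .negSucc 839, .negSucc 126, .ofNat 65⟩, .ofNat 2111, .negSucc 2659, .ofNat 0, .negSucc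 2659, .ofNat 4768, .ofNat 0, .ofNat 128, .ofNat 504, .negSucc 230, .ofNat 0, .ofNat 343, .negSucc 109, .ofNat 0, .ofNat 0, .ofNat 474, .ofNat 2261, .ofNat 0, .ofNat 0, .ofNat 0, .ofNat 0, .ofNat 0, .ofNat 0, .ofNat 804009338773506679824343926620735668224, .ofNat 0, .ofNat 0, .ofNat 0, .ofNat 0, .ofNat 0, .ofNat 0, .ofNat 0, .ofNat 264037260342436662228497015960900730880, .ofNat 0⟩)
    (by decide +kernel)
theorem L01124 : Good (Phi V5.P V5.D (-1) 1) ⟨3, 2, 5, 20, 2, 3, 3, 7, 5, 0⟩ :=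
  leafX_sound T5.ok_mp T5.Ymp.bz_eq (w := 222) (c := ⟨⟨.negSucc 406, .negSucc 164, .negSucc 77, .negSucc 168, .negSucc 143, .negSucc 264⟩, ⟨.negSucc 273, .negSucc 63, .negSucc 54, .negSucc 119, .negSucc 85, .negSucc 157⟩, ⟨.ofNat 67, .ofNat 4, .ofNat 30, .negSucc 197, .ofNat 27, .ofNat 130⟩, ⟨.negSucc 507, .negSucc 250, .negSucc 98, .ofNat 253, .negSucc 316, .negSucc 715⟩, ⟨.negSucc 1033, .negSucc 202, .negSucc 98, .negSucc 1163, .negSucc 96, .ofNat 32⟩, .ofNat 2138, .negSucc 2710, .ofNat 0, .negSucc 2710, .ofNat 4856, .ofNat 0, .ofNat 128, .ofNat 631, .negSucc 380, .ofNat 0, .ofNat 435, .negSucc 177, .ofNat 0, .ofNat 0, .ofNat 724, .ofNat 2758, .ofNat 0, .ofNat 0, .ofNat 97606866558662404354780832367353266176, .ofNat 0, .ofNat 0, .ofNat 0, .ofNat 16432875709100789411569451861790173429760, .ofNat 0, .ofNat 0, .ofNat 0, .ofNat 0, .ofNat 0, .ofNat 0, .ofNat 0,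 .ofNat 0, .ofNat 0⟩)
    (by decide +kernel)
theorem L01125 : Good (Phi V5.P V5.D (-1) 1) ⟨3, 2, 5, 20, 2, 3, 4, 14, 5, 1⟩ :=
  leafX_sound T5.ok_mp T5.Ymp.bz_eq (w := 226) (c := ⟨⟨.negSucc 827, .negSucc 188, .negSucc 28, .negSucc 9, .negSucc 10, .negSucc 188⟩, ⟨.negSucc 536, .negSucc 51, .negSucc 31, .negSucc 21, .negSucc 3, .negSucc 108⟩, ⟨.ofNat 217, .ofNat 73, .ofNat 13, .negSucc 191, .negSucc 16, .ofNat 135⟩, ⟨.negSucc 1504, .negSucc 321, .negSucc 40, .ofNat 532, .negSucc 50, .negSucc 657⟩, ⟨.negSucc 1269, .negSucc 45, .ofNat 3, .negSucc 943, .ofNat 47, .ofNat 268⟩, .ofNat 2138, .negSucc 2710, .ofNat 0, .negSucc 2710, .ofNat 4856, .ofNat 0, .ofNat 128, .ofNat 527, .negSucc 310, .ofNat 0, .ofNat 361, .negSucc 146, .ofNat 0, .ofNat 0, .ofNat 613, .ofNat 5332, .ofNat 0, .ofNat 0, .ofNat 0, .ofNat 0, .ofNat 0, .ofNat 0, .ofNat 61114114326331153724240861039456071712768,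 .ofNat 0, .ofNat 0, .ofNat 0, .ofNat 0, .ofNat 0, .ofNat 0, .ofNat 0, .ofNat 279886576254392734130371467917819088207872, .ofNat 0⟩)
    (by decide +kernel)
theorem L01126 : Good (Phi V5.P V5.D (-1) 1) ⟨3, 2, 5, 20, 2, 3, 4, 15, 5, 1⟩ :=
  leafX_sound T5.ok_mp T5.Ymp.bz_eq (w := 227) (c := ⟨⟨.negSucc 864, .negSucc 198, .negSucc 23, .negSucc 40, .ofNat 60, .negSucc 99⟩, ⟨.negSucc 557, .negSucc 60, .negSucc 25, .negSucc 39, .ofNat 35, .negSucc 54⟩, ⟨.ofNat 215, .ofNat 45, .ofNat 15, .negSucc 158, .negSucc 71, .ofNat 97⟩, ⟨.negSucc 1683, .negSucc 314, .negSucc 5, .ofNat 546, .ofNat 144, .negSucc 451⟩, ⟨.negSucc 1138, .negSucc 104, .negSucc 18, .negSucc 1087, .ofNat 17, .ofNat 318⟩, .ofNat 2138, .negSucc 2710, .ofNat 0, .negSucc 2710, .ofNat 4856, .ofNat 0, .ofNat 128, .ofNat 723, .negSucc 362, .ofNat 0, .ofNat 501, .negSucc 166, .ofNat 0, .ofNat 0, .ofNat 685, .ofNat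 4247, .ofNat 0, .ofNat 0, .ofNat 0, .ofNat 0, .ofNat 0, .ofNat 114544880472113431918885064978078863577841664, .ofNat 235394237246710932699330124457699465756672, .ofNat 0, .ofNat 0, .ofNat 0, .ofNat 0, .ofNat 0, .ofNat 0, .ofNat 0, .ofNat 318623298460430726454900399111499990171648, .ofNat 0⟩)
    (by decide +kernel)
theorem L01127 : Good (Phi V5.P V5.D (-1) 1) ⟨3, 2, 5, 20, 2, 2, 3, 6, 4, 1⟩ :=
  leafX_sound T5.ok_mp T5.Ymp.bz_eq (w := 219) (c := ⟨⟨.negSucc 1126, .negSucc 153, .ofNat 23, .negSucc 111, .ofNat 110, .negSucc 251⟩, ⟨.negSucc 711, .negSucc 3, .negSucc 19, .negSucc 73, .ofNat 68, .negSucc 148⟩, ⟨.ofNat 678, .ofNat 70, .negSucc 16, .negSucc 182, .negSucc 130, .ofNat 135⟩, ⟨.negSucc 2718, .negSucc 11, .ofNat 25, .negSucc 80, .ofNat 186, .negSucc 713⟩, ⟨.negSucc 656, .negSucc 164, .ofNat 71, .negSucc 357, .ofNat 171, .ofNat 97⟩, .ofNat 4068, .negSucc 5755,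 .ofNat 0, .negSucc 5755, .ofNat 9727, .ofNat 0, .ofNat 128, .ofNat 751, .negSucc 312, .ofNat 0, .ofNat 497, .negSucc 177, .ofNat 0, .ofNat 0, .ofNat 923, .ofNat 2315, .ofNat 0, .ofNat 0, .ofNat 0, .ofNat 0, .ofNat 0, .ofNat 0, .ofNat 2163017209321399837188329956065480278016, .ofNat 0, .ofNat 0, .ofNat 0, .ofNat 0, .ofNat 0, .ofNat 0, .ofNat 0, .ofNat 0, .ofNat 0⟩)
    (by decide +kernel)
theorem L01128 : Good (Phi V5.P V5.D (-1) 1) ⟨3, 2, 5, 20, 2, 2, 3, 7, 4, 1⟩ :=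
  leafX_sound T5.ok_mp T5.Ymp.bz_eq (w := 217) (c := ⟨⟨.negSucc 1048, .negSucc 160, .negSucc 21, .negSucc 116, .ofNat 342, .negSucc 172⟩, ⟨.negSucc 663, .negSucc 14, .negSucc 40, .negSucc 74, .ofNat 207, .negSucc 97⟩, ⟨.ofNat 600, .ofNat 26, .ofNat 4, .negSucc 144, .negSucc 367, .ofNat 43⟩, ⟨.negSucc 2403, .negSucc 212, .negSucc 54, .negSucc 142, .ofNat 695, .negSucc 714⟩, ⟨.negSucc 804, .ofNat 81, .ofNat 17, .negSucc 284, .ofNat 341, .ofNat 431⟩, .ofNat 2103, .negSucc 2648, .ofNat 0, .negSucc 2648, .ofNat 4752, .ofNat 0, .ofNat 128, .ofNat 539, .negSucc 346, .ofNat 0, .ofNat 374, .negSucc 178, .ofNat 0, .ofNat 0, .ofNat 877, .ofNat 2751, .ofNat 0, .ofNat 114340156625716514057811719251139506470912, .ofNat 4297818841947406812309686103283073024, .ofNat 0, .ofNat 0, .ofNat 4217878116857368083650604090580004950245376, .ofNat 356066739816727279362433212310995599360,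 .ofNat 0, .ofNat 0, .ofNat 27533698037631523502919299918604014136066048, .ofNat 777398836716328802062191928232298676224, .ofNat 0, .ofNat 0, .ofNat 14413529790261871018565041605534416451403776, .ofNat 1162435775820438167753720271436098043904, .ofNat 0⟩)
    (by decide +kernel)
theorem L01129 : Good (Phi V5.P V5.D (-1) 1) ⟨3, 2, 5, 20, 2, 3, 3, 6, 5, 2⟩ :=
  leafX_sound T5.ok_mp T5.Ymp.bz_eq (w := 221) (c := ⟨⟨.negSucc 1127, .negSucc 218, .negSucc 5, .ofNat 132, .ofNat 64, .negSucc 185⟩, ⟨.negSucc 717, .negSucc 55, .negSucc 23, .ofNat 70, .ofNat 35, .negSucc 107⟩, ⟨.ofNat 351, .ofNat 133, .ofNat 4, .negSucc 219, .negSucc 20, .ofNat 162⟩, ⟨.negSucc 2337, .negSucc 326, .negSucc 1, .ofNat 757, .ofNat 83, .negSucc 638⟩, ⟨.negSucc 1242, .negSucc 58, .ofNat 45, .negSucc 686, .ofNat 119, .ofNat 255⟩, .ofNat 2134, .negSucc 2682, .ofNat 0, .negSucc 2682, .ofNat 4783, .ofNat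 0, .ofNat 128, .ofNat 423, .negSucc 246, .ofNat 0, .ofNat 289, .negSucc 117, .ofNat 0, .ofNat 0, .ofNat 559, .ofNat 3341, .ofNat 0, .ofNat 0, .ofNat 248649054188801745879160023801684557824, .ofNat 0, .ofNat 0, .ofNat 0, .ofNat 0, .ofNat 0, .ofNat 0, .ofNat 0, .ofNat 32031295209033974901031950214636748406784, .ofNat 0, .ofNat 0, .ofNat 0, .ofNat 0, .ofNat 0⟩)
    (by decide +kernel)
theorem L01130 : Good (Phi V5.P V5.D (-1) 1) ⟨3, 2, 5, 20, 2, 3, 3, 6, 5, 3⟩ :=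
  leafX_sound T5.ok_mp T5.Ymp.bz_eq (w := 221) (c := ⟨⟨.negSucc 1449, .negSucc 167, .negSucc 6, .ofNat 277, .ofNat 200, .negSucc 28⟩, ⟨.negSucc 914, .negSucc 12, .negSucc 32, .ofNat 156, .ofNat 124, .negSucc 12⟩, ⟨.ofNat 549, .ofNat 97, .ofNat 18, .negSucc 207, .negSucc 98, .ofNat 74⟩, ⟨.negSucc 3304, .negSucc 109, .ofNat 13, .ofNat 1046, .ofNat 341, .negSucc 215⟩, ⟨.negSucc 1087, .negSucc 96, .negSucc 7, .negSucc 540, .ofNat 303, .ofNat 233⟩, .ofNat 2069, .negSucc 2596, .ofNat 0, .negSucc 2596, .ofNat 4677, .ofNat 0, .ofNat 128, .ofNat 450, .negSucc 137, .ofNat 0, .ofNat 308, .negSucc 63, .ofNat 0, .ofNat 0, .ofNat 358, .ofNat 2622, .ofNat 0, .ofNat 0, .ofNat 174603311724718635562061603505690378240, .ofNat 0, .ofNat 0, .ofNat 0, .ofNat 0, .ofNat 0, .ofNat 0, .ofNat 0, .ofNat 37759313632299658610940743883895099883520, .ofNat 0, .ofNat 0, .ofNat 0, .ofNat 9002517340407701392359025487356673130496,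 .ofNat 0⟩)
    (by decide +kernel)
theorem L01131 : Good (Phi V5.P V5.D (-1) 1) ⟨3, 2, 5, 20, 2, 3, 4, 14, 5, 2⟩ :=
  leafX_sound T5.ok_mp T5.Ymp.bz_eq (w := 226) (c := ⟨⟨.negSucc 1232, .negSucc 102, .ofNat 14, .ofNat 193, .ofNat 126, .negSucc 60⟩, ⟨.negSucc 777, .ofNat 12, .negSucc 10, .ofNat 105, .ofNat 75, .negSucc 30⟩, ⟨.ofNat 400, .ofNat 47, .ofNat 9, .negSucc 196, .negSucc 84, .ofNat 94⟩, ⟨.negSucc 2684, .negSucc 41, .ofNat 70, .ofNat 973, .ofNat 235, .negSucc 361⟩, ⟨.negSucc 1095, .negSucc 40, .negSucc 8, .negSucc 774, .ofNat 144, .ofNat 335⟩, .ofNat 2091, .negSucc 2631, .ofNat 0, .negSucc 2631, .ofNat 4730, .ofNat 0, .ofNat 128, .ofNat 540, .negSucc 183, .ofNat 0, .ofNat 371, .negSucc 83, .ofNat 0, .ofNat 0, .ofNat 397, .ofNat 3235, .ofNat 0, .ofNat 0, .ofNat 3418214884268202082016780694209584693248, .ofNat 0, .ofNat 0, .ofNat 0, .ofNat 220676611175170182571075191331945954934784,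 .ofNat 0, .ofNat 0, .ofNat 0, .ofNat 0, .ofNat 0, .ofNat 0, .ofNat 0, .ofNat 119980124412881097320934340058028238176256, .ofNat 0⟩)
    (by decide +kernel)
theorem L01132 : Good (Phi V5.P V5.D (-1) 1) ⟨3, 2, 5, 20, 2, 3, 4, 15, 5, 2⟩ :=
  leafX_sound T5.ok_mp T5.Ymp.bz_eq (w := 227) (c := ⟨⟨.negSucc 1153, .negSucc 84, .negSucc 3, .ofNat 211, .ofNat 153, .ofNat 14⟩, ⟨.negSucc 725, .ofNat 14, .negSucc 25, .ofNat 110, .ofNat 96, .ofNat 14⟩, ⟨.ofNat 367, .negSucc 21, .negSucc 0, .negSucc 155, .negSucc 144, .ofNat 30⟩, ⟨.negSucc 2437, .ofNat 67, .negSucc 21, .ofNat 839, .ofNat 242, .negSucc 278⟩, ⟨.negSucc 1155, .negSucc 158, .ofNat 48, .negSucc 517, .ofNat 267, .ofNat 520⟩, .ofNat 3809, .negSucc 5385, .ofNat 0, .negSucc 5385, .ofNat 9211, .ofNat 0, .ofNat 128, .ofNat 493, .negSucc 158, .ofNat 0, .ofNat 327, .negSucc 81, .ofNat 0, .ofNat 0, .ofNat 347, .ofNat 1885,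 .ofNat 0, .ofNat 0, .ofNat 0, .ofNat 0, .ofNat 0, .ofNat 250367104100931347722127226083497666752282624, .ofNat 479933105820384289174247636679141965692928, .ofNat 0, .ofNat 0, .ofNat 0, .ofNat 0, .ofNat 0, .ofNat 0, .ofNat 130675895454921909739858909146534949878235136, .ofNat 54395977133370992553647431138444788629504, .ofNat 0⟩)
    (by decide +kernel)
theorem L01133 : Good (Phi V5.P V5.D (-1) 1) ⟨3, 2, 5, 20, 2, 3, 3, 7, 5, 3⟩ :=
  leafX_sound T5.ok_mp T5.Ymp.bz_eq (w := 221) (c := ⟨⟨.negSucc 1368, .negSucc 87, .negSucc 8, .ofNat 332, .ofNat 339, .ofNat 45⟩, ⟨.negSucc 860, .ofNat 22, .negSucc 30, .ofNat 192, .ofNat 214, .ofNat 35⟩, ⟨.ofNat 494, .negSucc 32, .negSucc 3, .negSucc 137, .negSucc 218, .ofNat 31⟩, ⟨.negSucc 3144, .ofNat 55, .ofNat 10, .ofNat 1148, .ofNat 484, .negSucc 173⟩, ⟨.negSucc 979, .negSucc 68, .negSucc 22, .negSucc 454, .ofNat 683, .ofNat 488⟩,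 .ofNat 2111, .negSucc 2642, .ofNat 0, .negSucc 2642, .ofNat 4721, .ofNat 0, .ofNat 128, .ofNat 331, .negSucc 139, .ofNat 0, .ofNat 231, .negSucc 61, .ofNat 0, .ofNat 0, .ofNat 356, .ofNat 1222, .ofNat 0, .ofNat 0, .ofNat 0, .ofNat 0, .ofNat 0, .ofNat 0, .ofNat 0, .ofNat 0, .ofNat 0, .ofNat 112537123962060164532176408118737506066759680, .ofNat 1282861758017527065518454473959137083392, .ofNat 0, .ofNat 0, .ofNat 22814075765265385950795386499610561602387968, .ofNat 7621267732815628452070731777904901881856, .ofNat 0⟩)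
    (by decide +kernel)
theorem L01134 : Good (Phi V5.P V5.D (-1) 1) ⟨3, 2, 5, 21, 2, 2, 3, 6, 4, 0⟩ :=
  leafX_sound T5.ok_mp T5.Ymp.bz_eq (w := 219) (c := ⟨⟨.negSucc 321, .negSucc 185, .negSucc 3, .ofNat 33, .negSucc 136, .negSucc 653⟩, ⟨.negSucc 218, .negSucc 65, .negSucc 3, .ofNat 18, .negSucc 86, .negSucc 416⟩, ⟨.ofNat 209, .ofNat 37, .ofNat 0, .negSucc 245, .ofNat 82, .ofNat 339⟩, ⟨.negSucc 528, .negSucc 251, .ofNat 33, .ofNat 452, .negSucc 364, .negSucc 1803⟩, ⟨.negSucc 608, .negSucc 115, .ofNat 37, .negSucc 569, .negSucc 7, .ofNat 64⟩, .ofNat 2590, .negSucc 3293, .ofNat 0, .negSucc 3293, .ofNat 5568, .ofNat 0, .ofNat 128, .ofNat 1085, .negSucc 353, .ofNat 0, .ofNat 759, .negSucc 203, .ofNat 0, .ofNat 0, .ofNat 834, .ofNat 3947, .ofNat 0, .ofNat 0, .ofNat 0, .ofNat 0, .ofNat 0, .ofNat 0, .ofNat 4699738593679962234213664481071748612096, .ofNat 0, .ofNat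 0, .ofNat 0, .ofNat 0, .ofNat 0, .ofNat 0, .ofNat 0, .ofNat 0, .ofNat 0⟩)
    (by decide +kernel)
theorem L01135 : Good (Phi V5.P V5.D (-1) 1) ⟨3, 2, 5, 21, 2, 2, 3, 7, 4, 0⟩ :=
  leafX_sound T5.ok_mp T5.Ymp.bz_eq (w := 219) (c := ⟨⟨.negSucc 620, .negSucc 116, .ofNat 24, .negSucc 6, .ofNat 90, .negSucc 410⟩, ⟨.negSucc 404, .negSucc 31, .negSucc 2, .negSucc 7, .ofNat 57, .negSucc 262⟩, ⟨.ofNat 421, .negSucc 8, .negSucc 15, .negSucc 227, .negSucc 123, .ofNat 142⟩, ⟨.negSucc 1299, .negSucc 109, .ofNat 16, .ofNat 303, .ofNat 199, .negSucc 1127⟩, ⟨.negSucc 639, .negSucc 109, .ofNat 89, .negSucc 503, .ofNat 67, .ofNat 29⟩, .ofNat 2590, .negSucc 3295, .ofNat 0, .negSucc 3295, .ofNat 5572, .ofNat 0, .ofNat 128, .ofNat 858, .negSucc 477, .ofNat 0, .ofNat 604, .negSucc 271, .ofNat 0, .ofNat 0, .ofNat 1043, .ofNat 4388, .ofNat 0, .ofNat 579837884394016182515675982275793809047552,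 .ofNat 15828886149955105447619079172786225152, .ofNat 0, .ofNat 0, .ofNat 0, .ofNat 2689938266916659423225762332544233111552, .ofNat 0, .ofNat 0, .ofNat 0, .ofNat 0, .ofNat 0, .ofNat 0, .ofNat 0, .ofNat 0, .ofNat 0⟩)
    (by decide +kernel)
theorem L01136 : Good (Phi V5.P V5.D (-1) 1) ⟨3, 2, 5, 21, 2, 3, 3, 6, 4, 0⟩ :=
  leafX_sound T5.ok_mp T5.Ymp.bz_eq (w := 220) (c := ⟨⟨.negSucc 222, .negSucc 140, .negSucc 1, .ofNat 4, .negSucc 230, .negSucc 711⟩, ⟨.negSucc 159, .negSucc 43, .ofNat 3, .negSucc 6, .negSucc 143, .negSucc 449⟩, ⟨.negSucc 113, .ofNat 68, .ofNat 75, .negSucc 259, .ofNat 134, .ofNat 430⟩, ⟨.ofNat 82, .negSucc 145, .negSucc 5, .ofNat 492, .negSucc 515, .negSucc 1957⟩, ⟨.negSucc 1135, .negSucc 181, .ofNat 117, .negSucc 768, .negSucc 154, .ofNat 65⟩, .ofNat 2568, .negSucc 3268, .ofNat 0, .negSucc 3268, .ofNat 5542, .ofNat 0, .ofNat 128, .ofNat 1642,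 .negSucc 317, .ofNat 0, .ofNat 1132, .negSucc 166, .ofNat 0, .ofNat 0, .ofNat 697, .ofNat 3891, .ofNat 0, .ofNat 0, .ofNat 41763869957831439240247330382496661504, .ofNat 0, .ofNat 0, .ofNat 0, .ofNat 2628192588237202014852000113893547442176, .ofNat 0, .ofNat 0, .ofNat 0, .ofNat 0, .ofNat 0, .ofNat 0, .ofNat 0, .ofNat 1598924698225328317832935224192157089792, .ofNat 0⟩)
    (by decide +kernel)
theorem L01137 : Good (Phi V5.P V5.D (-1) 1) ⟨4, 4, 5, 21, 2, 3, 4, 14, 4, 0⟩ :=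
  leafX_sound T5.ok_mp T5.Ymp.bz_eq (w := 231) (c := ⟨⟨.negSucc 535, .negSucc 104, .negSucc 42, .negSucc 56, .negSucc 9, .negSucc 467⟩, ⟨.negSucc 356, .negSucc 47, .negSucc 28, .negSucc 41, .negSucc 4, .negSucc 295⟩, ⟨.ofNat 89, .ofNat 24, .ofNat 37, .negSucc 218, .negSucc 0, .ofNat 292⟩, ⟨.negSucc 707, .negSucc 159, .negSucc 43, .ofNat 428, .negSucc 39, .negSucc 1373⟩, ⟨.negSucc 1209, .negSucc 114, .negSucc 21, .negSucc 912, .ofNat 22, .ofNat 180⟩, .ofNat 6023, .negSucc 8583, .ofNat 0, .negSucc 8583, .ofNat 13777, .ofNat 0, .ofNat 128, .ofNat 2260, .negSucc 532, .ofNat 0, .ofNat 1508, .negSucc 312, .ofNat 0, .ofNat 0, .ofNat 1182, .ofNat 8533, .ofNat 0, .ofNat 0, .ofNat 152911080861837149162901609515518525440, .ofNat 0, .ofNat 0, .ofNat 0, .ofNat 25831017761629079753774753814602558996480, .ofNat 0, .ofNat 0, .ofNat 0, .ofNat 0, .ofNat 0, .ofNat 0, .ofNat 0,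 .ofNat 0, .ofNat 0⟩)
    (by decide +kernel)
theorem L01138 : Good (Phi V5.P V5.D (-1) 1) ⟨4, 4, 5, 21, 2, 3, 4, 15, 5, 0⟩ :=
  leafX_sound T5.ok_mp T5.Ymp.bz_eq (w := 236) (c := ⟨⟨.negSucc 575, .negSucc 97, .negSucc 29, .negSucc 184, .negSucc 23, .negSucc 203⟩, ⟨.negSucc 380, .negSucc 42, .negSucc 23, .negSucc 124, .negSucc 14, .negSucc 128⟩, ⟨.ofNat 149, .negSucc 0, .negSucc 2, .negSucc 210, .negSucc 21, .ofNat 101⟩, ⟨.negSucc 856, .negSucc 127, .negSucc 33, .ofNat 236, .negSucc 45, .negSucc 607⟩, ⟨.negSucc 1138, .negSucc 144, .ofNat 9, .negSucc 1152, .negSucc 28, .ofNat 94⟩, .ofNat 5918, .negSucc 8435, .ofNat 0, .negSucc 8435, .ofNat 13569, .ofNat 0, .ofNat 128, .ofNat 1600, .negSucc 576, .ofNat 0, .ofNat 1072, .negSucc 335, .ofNat 0, .ofNat 0, .ofNat 1211, .ofNat 8961, .ofNat 0, .ofNat 0, .ofNat 0, .ofNat 0, .ofNat 0, .ofNat 0, .ofNat 0, .ofNat 0, .ofNat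 0, .ofNat 0, .ofNat 0, .ofNat 0, .ofNat 0, .ofNat 0, .ofNat 706025572855534035466428042112017746624512, .ofNat 0⟩)
    (by decide +kernel)
theorem L01139 : Good (Phi V5.P V5.D (-1) 1) ⟨4, 4, 5, 21, 2, 3, 4, 15, 5, 1⟩ :=
  leafX_sound T5.ok_mp T5.Ymp.bz_eq (w := 232) (c := ⟨⟨.negSucc 901, .negSucc 71, .ofNat 10, .negSucc 34, .ofNat 68, .negSucc 99⟩, ⟨.negSucc 590, .negSucc 19, .negSucc 6, .negSucc 27, .ofNat 43, .negSucc 61⟩, ⟨.ofNat 259, .negSucc 9, .negSucc 15, .negSucc 158, .negSucc 74, .ofNat 82⟩, ⟨.negSucc 1725, .negSucc 57, .ofNat 49, .ofNat 537, .ofNat 157, .negSucc 482⟩, ⟨.negSucc 1173, .negSucc 95, .ofNat 26, .negSucc 991, .ofNat 44, .ofNat 333⟩, .ofNat 2576, .negSucc 3276, .ofNat 0, .negSucc 3276, .ofNat 5547, .ofNat 0, .ofNat 128, .ofNat 891, .negSucc 352, .ofNat 0, .ofNat 625, .negSucc 177, .ofNat 0, .ofNat 0, .ofNat 728, .ofNat 6933, .ofNat 0, .ofNat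 0, .ofNat 1817609291374285450209041068250005241856, .ofNat 0, .ofNat 0, .ofNat 2246295130086597785970883353512501459145457664, .ofNat 34886518723010386111728281464479311462400, .ofNat 0, .ofNat 0, .ofNat 50235419604061696044742617820350722140612329472, .ofNat 200552751775581367224413929288699587067904, .ofNat 0, .ofNat 0, .ofNat 0, .ofNat 88427859505639209135308834939599755149312, .ofNat 0⟩)
    (by decide +kernel)
theorem L01140 : Good (Phi V5.P V5.D (-1) 1) ⟨4, 5, 5, 21, 2, 3, 3, 7, 4, 0⟩ :=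
  out_sound (S := T5.ds_mp) T5.ok_mp (w := 55) (j := 3) (by decide +kernel)
theorem L01141 : Good (Phi V5.P V5.D (-1) 1) ⟨4, 4, 5, 21, 2, 2, 3, 6, 4, 1⟩ :=
  leafX_sound T5.ok_mp T5.Ymp.bz_eq (w := 227) (c := ⟨⟨.negSucc 1089, .negSucc 89, .ofNat 25, .negSucc 134, .ofNat 105, .negSucc 250⟩, ⟨.negSucc 711, .negSucc 18, .negSucc 13, .negSucc 88, .ofNat 67, .negSucc 158⟩, ⟨.ofNat 648, .ofNat 34, .negSucc 41, .negSucc 147, .negSucc 123, .ofNat 129⟩, ⟨.negSucc 2563, .negSucc 41, .ofNat 27, .negSucc 129, .ofNat 177, .negSucc 772⟩, ⟨.negSucc 693, .negSucc 105, .ofNat 86, .negSucc 366, .ofNat 165, .ofNat 153⟩, .ofNat 5977, .negSucc 8513, .ofNat 0, .negSucc 8513, .ofNat 13672, .ofNat 0, .ofNat 128, .ofNat 1572, .negSucc 598, .ofNat 0, .ofNat 1051, .negSucc 365, .ofNat 0, .ofNat 0, .ofNat 1824, .ofNat 13591, .ofNat 0, .ofNat 0, .ofNat 0, .ofNat 0, .ofNat 0, .ofNat 0, .ofNat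 1880128939161176403778243296782572322816, .ofNat 0, .ofNat 0, .ofNat 0, .ofNat 0, .ofNat 0, .ofNat 0, .ofNat 0, .ofNat 0, .ofNat 0⟩)
    (by decide +kernel)
theorem L01142 : Good (Phi V5.P V5.D (-1) 1) ⟨4, 4, 5, 21, 2, 3, 3, 6, 4, 1⟩ :=
  leafX_sound T5.ok_mp T5.Ymp.bz_eq (w := 227) (c := ⟨⟨.negSucc 1274, .negSucc 87, .ofNat 113, .ofNat 216, .ofNat 133, .negSucc 222⟩, ⟨.negSucc 831, .negSucc 19, .ofNat 47, .ofNat 133, .ofNat 85, .negSucc 138⟩, ⟨.ofNat 419, .ofNat 41, .negSucc 4, .negSucc 233, .negSucc 54, .ofNat 237⟩, ⟨.negSucc 2628, .negSucc 85, .ofNat 277, .ofNat 821, .ofNat 154, .negSucc 834⟩, ⟨.negSucc 1357, .negSucc 58, .ofNat 82, .negSucc 382, .ofNat 314, .ofNat 373⟩, .ofNat 5897, .negSucc 8414, .ofNat 0, .negSucc 8414, .ofNat 13557, .ofNat 0, .ofNat 128, .ofNat 2051, .negSucc 451, .ofNat 0, .ofNat 1362, .negSucc 265, .ofNat 0, .ofNat 0, .ofNat 1242, .ofNat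 8220, .ofNat 0, .ofNat 0, .ofNat 15578212252383905607558942838445047808, .ofNat 0, .ofNat 0, .ofNat 0, .ofNat 1473054538701320617392847149223982923776, .ofNat 0, .ofNat 0, .ofNat 0, .ofNat 0, .ofNat 0, .ofNat 0, .ofNat 0, .ofNat 0, .ofNat 0⟩)
    (by decide +kernel)
theorem L01143 : Good (Phi V5.P V5.D (-1) 1) ⟨4, 4, 5, 21, 2, 2, 3, 7, 4, 1⟩ :=
  leafX_sound T5.ok_mp T5.Ymp.bz_eq (w := 227) (c := ⟨⟨.negSucc 1100, .negSucc 31, .ofNat 37, .negSucc 128, .ofNat 353, .negSucc 144⟩, ⟨.negSucc 716, .ofNat 12, .negSucc 1, .negSucc 84, .ofNat 225, .negSucc 89⟩, ⟨.ofNat 633, .negSucc 44, .negSucc 56, .negSucc 121, .negSucc 357, .ofNat 9⟩, ⟨.negSucc 2545, .ofNat 53, .ofNat 66, .negSucc 222, .ofNat 655, .negSucc 491⟩, ⟨.negSucc 752, .negSucc 37, .ofNat 74, .negSucc 199, .ofNat 454, .ofNat 167⟩, .ofNat 8938, .negSucc 13103, .ofNat 0, .negSucc 13103, .ofNat 20799, .ofNat 0,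 .ofNat 128, .ofNat 1300, .negSucc 606, .ofNat 0, .ofNat 860, .negSucc 374, .ofNat 0, .ofNat 0, .ofNat 1637, .ofNat 8137, .ofNat 0, .ofNat 0, .ofNat 0, .ofNat 0, .ofNat 0, .ofNat 0, .ofNat 0, .ofNat 0, .ofNat 0, .ofNat 1690449417668640483893480006261430520345788416, .ofNat 396715774333837019061258703459175104512, .ofNat 0, .ofNat 0, .ofNat 719526137138856221287850976427898996875329536, .ofNat 1204862404168764228824276219058592940032, .ofNat 0⟩)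
    (by decide +kernel)
theorem L01144 : Good (Phi V5.P V5.D (-1) 1) ⟨4, 4, 5, 21, 2, 3, 4, 14, 4, 1⟩ :=
  leafX_sound T5.ok_mp T5.Ymp.bz_eq (w := 227) (c := ⟨⟨.negSucc 1317, .negSucc 23, .ofNat 20, .ofNat 256, .ofNat 129, .negSucc 0⟩, ⟨.negSucc 857, .ofNat 16, .negSucc 8, .ofNat 160, .ofNat 83, .ofNat 3⟩, ⟨.ofNat 429, .negSucc 16, .ofNat 2, .negSucc 168, .negSucc 71, .ofNat 114⟩, ⟨.negSucc 2776, .ofNat 51, .ofNat 86, .ofNat 1058, .ofNat 177, .negSucc 541⟩, ⟨.negSucc 1302, .negSucc 20, .negSucc 3, .negSucc 577, .ofNat 269, .ofNat 847⟩, .ofNat 2575, .negSucc 3274, .ofNat 0, .negSucc 3274, .ofNat 5546, .ofNat 0, .ofNat 128, .ofNat 964, .negSucc 386, .ofNat 0, .ofNat 672, .negSucc 193, .ofNat 0, .ofNat 0, .ofNat 967, .ofNat 3992, .ofNat 0, .ofNat 0, .ofNat 82554392534153274190154294854674284544, .ofNat 0, .ofNat 0, .ofNat 0, .ofNat 0, .ofNat 0, .ofNat 0, .ofNat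 1262920509377028461222936462869505243657273344, .ofNat 23069291189864662268387006861056950665216, .ofNat 0, .ofNat 0, .ofNat 0, .ofNat 0, .ofNat 0⟩)
    (by decide +kernel)
theorem L01145 : Good (Phi V5.P V5.D (-1) 1) ⟨4, 4, 5, 21, 2, 3, 4, 15, 4, 1⟩ :=
  leafX_sound T5.ok_mp T5.Ymp.bz_eq (w := 228) (c := ⟨⟨.negSucc 1159, .negSucc 63, .ofNat 15, .ofNat 212, .ofNat 178, .ofNat 24⟩, ⟨.negSucc 756, .negSucc 11, .negSucc 9, .ofNat 133, .ofNat 114, .ofNat 21⟩, ⟨.ofNat 348, .negSucc 40, .ofNat 2, .negSucc 111, .negSucc 113, .ofNat 75⟩, ⟨.negSucc 2497, .ofNat 2, .ofNat 34, .ofNat 951, .ofNat 328, .negSucc 521⟩, ⟨.negSucc 1068, .negSucc 119, .ofNat 54, .negSucc 594, .ofNat 230, .ofNat 919⟩, .ofNat 4033, .negSucc 5516, .ofNat 0, .negSucc 5516, .ofNat 9032, .ofNat 0, .ofNat 128, .ofNat 1022, .negSucc 428, .ofNat 0, .ofNat 695, .negSucc 234, .ofNat 0, .ofNat 0, .ofNat 1036,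 .ofNat 4171, .ofNat 0, .ofNat 0, .ofNat 60925202639312678720414081927876706304, .ofNat 0, .ofNat 0, .ofNat 0, .ofNat 0, .ofNat 0, .ofNat 0, .ofNat 11113126847804282773522948769582157066263330816, .ofNat 1706925649089298138803300898294632284160, .ofNat 0, .ofNat 0, .ofNat 3320865600853881202321186071304798825099558912, .ofNat 7541487740078594310710343925849506447360, .ofNat 0⟩)
    (by decide +kernel)
theorem L01146 : Good (Phi V5.P V5.D (-1) 1) ⟨4, 5, 5, 21, 1, 1, 2, 3, 4, 1⟩ :=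
  out_sound (S := T5.ds_mp) T5.ok_mp (w := 55) (j := 3) (by decide +kernel)
theorem L01147 : Good (Phi V5.P V5.D (-1) 1) ⟨3, 3, 4, 10, 1, 1, 2, 3, 3, 0⟩ :=
  out_sound (S := T5.ds_mp) T5.ok_mp (w := 47) (j := 3) (by decide +kernel)
theorem L01148 : Good (Phi V5.P V5.D (-1) 1) ⟨2, 1, 4, 11, 1, 1, 1, 1, 3, 0⟩ :=
  out_sound (S := T5.ds_mp) T5.ok_mp (w := 41) (j := 3) (by decide +kernel)
theorem L01149 : Good (Phi V5.P V5.D (-1) 1) ⟨2, 1, 2, 3, 1, 1, 1, 1, 3, 0⟩ :=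
  out_sound (S := T5.ds_mp) T5.ok_mp (w := 37) (j := 3) (by decide +kernel)
theorem L01150 : Good (Phi V5.P V5.D (-1) 1) ⟨2, 1, 2, 2, 2, 2, 3, 4, 4, 2⟩ :=
  leafX_sound T5.ok_mp T5.Ymp.bz_eq (w := 202) (c := ⟨⟨.negSucc 1439, .negSucc 598, .negSucc 106, .negSucc 125, .ofNat 103, .negSucc 14⟩, ⟨.negSucc 783, .ofNat 0, .negSucc 384, .negSucc 77, .ofNat 57, .ofNat 5⟩, ⟨.ofNat 868, .ofNat 539, .ofNat 137, .negSucc 157, .negSucc 142, .ofNat 102⟩, ⟨.negSucc 3667, .negSucc 675, .negSucc 123, .negSucc 118, .ofNat 184, .negSucc 104⟩, ⟨.negSucc 714, .ofNat 52, .negSucc 36, .negSucc 390, .ofNat 155, .ofNat 158⟩, .ofNat 766, .negSucc 631, .ofNat 0, .negSucc 631, .ofNat 1594, .ofNat 0, .ofNat 128, .ofNat 137, .negSucc 66, .ofNat 0, .ofNat 114, .negSucc 20, .ofNat 0, .ofNat 0, .ofNat 246, .ofNat 1638, .ofNat 0, .ofNat 0, .ofNat 0, .ofNat 0, .ofNat 0, .ofNat 0, .ofNat 0, .ofNat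 0, .ofNat 0, .ofNat 0, .ofNat 0, .ofNat 0, .ofNat 0, .ofNat 0, .ofNat 42247798197199281545257481739306008576, .ofNat 0⟩)
    (by decide +kernel)
theorem L01151 : Good (Phi V5.P V5.D (-1) 1) ⟨2, 1, 2, 2, 2, 2, 3, 5, 4, 2⟩ :=
  leafX_sound T5.ok_mp T5.Ymp.bz_eq (w := 201) (c := ⟨⟨.negSucc 1423, .negSucc 515, .negSucc 89, .negSucc 83, .ofNat 136, .ofNat 40⟩, ⟨.negSucc 762, .ofNat 8, .negSucc 353, .negSucc 59, .ofNat 70, .ofNat 26⟩, ⟨.ofNat 878, .ofNat 414, .ofNat 78, .negSucc 202, .negSucc 166, .negSucc 2⟩, ⟨.negSucc 3568, .negSucc 622, .negSucc 131, .negSucc 60, .ofNat 256, .negSucc 17⟩, ⟨.negSucc 707, .ofNat 161, .ofNat 39, .negSucc 327, .ofNat 165, .ofNat 214⟩, .ofNat 419, .negSucc 187, .ofNat 0, .negSucc 187, .ofNat 669, .ofNat 0, .ofNat 128, .ofNat 114, .negSucc 105, .ofNat 0, .ofNat 142, .negSucc 12, .ofNat 0, .ofNat 0, .ofNat 276, .ofNat 913, .ofNat 0, .ofNat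 0, .ofNat 206521875956744120508424484942774272, .ofNat 0, .ofNat 0, .ofNat 0, .ofNat 16259363129792653086797516238565146624, .ofNat 0, .ofNat 0, .ofNat 0, .ofNat 0, .ofNat 0, .ofNat 0, .ofNat 0, .ofNat 34288527371912695933383975453631447040, .ofNat 0⟩)
    (by decide +kernel)
theorem L01152 : Good (Phi V5.P V5.D (-1) 1) ⟨2, 1, 2, 2, 2, 2, 3, 4, 4, 3⟩ :=
  leafX_sound T5.ok_mp T5.Ymp.bz_eq (w := 202) (c := ⟨⟨.negSucc 1591, .negSucc 389, .negSucc 44, .negSucc 15, .ofNat 114, .ofNat 159⟩, ⟨.negSucc 852, .ofNat 58, .negSucc 328, .negSucc 19, .ofNat 63, .ofNat 95⟩, ⟨.ofNat 1117, .ofNat 358, .ofNat 45, .negSucc 236, .negSucc 193, .negSucc 70⟩, ⟨.negSucc 4069, .negSucc 263, .negSucc 4, .ofNat 99, .ofNat 226, .ofNat 345⟩, ⟨.negSucc 623, .ofNat 92, .ofNat 22, .negSucc 289, .ofNat 137, .ofNat 141⟩, .ofNat 420, .negSucc 188, .ofNat 0, .negSucc 188, .ofNat 669, .ofNat 0,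 .ofNat 203, .ofNat 95, .negSucc 84, .ofNat 0, .ofNat 128, .negSucc 6, .ofNat 0, .ofNat 0, .ofNat 362, .ofNat 2436, .ofNat 0, .ofNat 0, .ofNat 0, .ofNat 0, .ofNat 0, .ofNat 0, .ofNat 97031464128952426418085512762364002304, .ofNat 0, .ofNat 0, .ofNat 0, .ofNat 60400828873436736266030173913339658240, .ofNat 0, .ofNat 0, .ofNat 0, .ofNat 109357556122374692466829166349027115008, .ofNat 0⟩)
    (by decide +kernel)
theorem L01153 : Good (Phi V5.P V5.D (-1) 1) ⟨2, 1, 2, 2, 2, 2, 3, 5, 4, 3⟩ :=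
  leafX_sound T5.ok_mp T5.Ymp.bz_eq (w := 202) (c := ⟨⟨.negSucc 1514, .negSucc 357, .negSucc 41, .ofNat 5, .ofNat 163, .ofNat 184⟩, ⟨.negSucc 811, .ofNat 82, .negSucc 298, .ofNat 0, .ofNat 91, .ofNat 87⟩, ⟨.ofNat 1026, .ofNat 238, .negSucc 0, .negSucc 227, .negSucc 226, .negSucc 148⟩, ⟨.negSucc 3864, .negSucc 170, .ofNat 47, .ofNat 74, .ofNat 281, .ofNat 337⟩, ⟨.negSucc 606, .ofNat 92, .negSucc 94, .negSucc 111, .ofNat 260, .ofNat 207⟩, .ofNat 747, .negSucc 609, .ofNat 0, .negSucc 609, .ofNat 1582, .ofNat 0, .ofNat 128, .ofNat 159, .negSucc 67, .ofNat 0, .ofNat 139, .negSucc 18, .ofNat 0, .ofNat 0, .ofNat 355, .ofNat 1542, .ofNat 0, .ofNat 0, .ofNat 666111291659024064708396660228620288, .ofNat 0, .ofNat 0, .ofNat 0, .ofNat 134609286287930234259511568639801163776, .ofNat 0, .ofNat 0, .ofNat 0, .ofNat 109460767684754639966900858403160064000, .ofNat 0, .ofNat 0,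 .ofNat 0, .ofNat 46652400722825369244856841304356683776, .ofNat 0⟩)
    (by decide +kernel)
theorem L01154 : Good (Phi V5.P V5.D (-1) 1) ⟨2, 1, 2, 2, 2, 2, 3, 6, 5, 4⟩ :=
  leafX_sound T5.ok_mp T5.Ymp.bz_eq (w := 207) (c := ⟨⟨.negSucc 1348, .negSucc 462, .negSucc 55, .negSucc 76, .ofNat 215, .ofNat 16⟩, ⟨.negSucc 727, .ofNat 31, .negSucc 323, .negSucc 36, .ofNat 114, .ofNat 14⟩, ⟨.ofNat 784, .ofNat 325, .ofNat 26, .negSucc 156, .negSucc 237, .negSucc 8⟩, ⟨.negSucc 3369, .negSucc 486, .negSucc 75, .negSucc 151, .ofNat 367, .negSucc 40⟩, ⟨.negSucc 727, .ofNat 169, .ofNat 15, .negSucc 63, .ofNat 335, .ofNat 173⟩, .ofNat 759, .negSucc 625, .ofNat 0, .negSucc 625, .ofNat 1591, .ofNat 0, .ofNat 128, .ofNat 245, .negSucc 141, .ofNat 0, .ofNat 203, .negSucc 41, .ofNat 0, .ofNat 0, .ofNat 401, .ofNat 1209, .ofNat 0, .ofNat 0, .ofNat 13271719601653782193763640171590320128,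 .ofNat 0, .ofNat 0, .ofNat 0, .ofNat 1732629408053969218333284884103741571072, .ofNat 0, .ofNat 0, .ofNat 0, .ofNat 0, .ofNat 0, .ofNat 0, .ofNat 0, .ofNat 1919497234957611539412258403871967150080, .ofNat 0⟩)
    (by decide +kernel)
theorem L01155 : Good (Phi V5.P V5.D (-1) 1) ⟨2, 1, 2, 2, 2, 2, 3, 6, 5, 5⟩ :=
  leafX_sound T5.ok_mp T5.Ymp.bz_eq (w := 206) (c := ⟨⟨.negSucc 1414, .negSucc 306, .negSucc 23, .negSucc 39, .ofNat 212, .ofNat 55⟩, ⟨.negSucc 755, .ofNat 70, .negSucc 305, .negSucc 20, .ofNat 121, .ofNat 41⟩, ⟨.ofNat 846, .ofNat 167, .negSucc 42, .negSucc 164, .negSucc 249, .negSucc 41⟩, ⟨.negSucc 3598, .negSucc 170, .ofNat 15, .negSucc 70, .ofNat 375, .ofNat 74⟩, ⟨.negSucc 590, .ofNat 174, .negSucc 34, .negSucc 47, .ofNat 328, .ofNat 155⟩, .ofNat 425, .negSucc 192, .ofNat 0, .negSucc 192, .ofNat 670, .ofNat 0, .ofNat 128, .ofNat 183, .negSucc 132, .ofNat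 0, .ofNat 229, .negSucc 10, .ofNat 0, .ofNat 0, .ofNat 353, .ofNat 817, .ofNat 0, .ofNat 0, .ofNat 13851916220709857474206947074354708480, .ofNat 0, .ofNat 0, .ofNat 0, .ofNat 642004539713628735468092593627771961344, .ofNat 0, .ofNat 0, .ofNat 0, .ofNat 0, .ofNat 0, .ofNat 0, .ofNat 0, .ofNat 1555346189078399861521253997428277772288, .ofNat 0⟩)
    (by decide +kernel)
theorem L01156 : Good (Phi V5.P V5.D (-1) 1) ⟨2, 1, 2, 2, 2, 2, 3, 6, 4, 3⟩ :=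
  leafX_sound T5.ok_mp T5.Ymp.bz_eq (w := 202) (c := ⟨⟨.negSucc 1371, .negSucc 307, .negSucc 24, .ofNat 17, .ofNat 188, .ofNat 146⟩, ⟨.negSucc 729, .ofNat 89, .negSucc 290, .ofNat 10, .ofNat 105, .ofNat 85⟩, ⟨.ofNat 828, .ofNat 163, .negSucc 59, .negSucc 202, .negSucc 258, .negSucc 141⟩, ⟨.negSucc 3541, .negSucc 22, .negSucc 19, .negSucc 37, .ofNat 303, .ofNat 246⟩, ⟨.negSucc 477, .ofNat 5, .negSucc 29, .ofNat 133, .ofNat 350, .ofNat 250⟩, .ofNat 994, .negSucc 997, .ofNat 0, .negSucc 997, .ofNat 2332, .ofNat 0, .ofNat 128, .ofNat 219, .negSucc 60, .ofNat 0, .ofNat 170, .negSucc 19, .ofNat 0, .ofNat 0, .ofNat 332, .ofNat 851, .ofNat 0, .ofNat 0, .ofNat 370985523444950784893742638425964544, .ofNat 0, .ofNat 0, .ofNat 0, .ofNat 0, .ofNat 0, .ofNat 0, .ofNat 0, .ofNat 267191043372525223714052261158445907968, .ofNat 0, .ofNat 0, .ofNat 430929305716585349591832984382913642496,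 .ofNat 38787473849763603408453276345703596032, .ofNat 0⟩)
    (by decide +kernel)
theorem L01157 : Good (Phi V5.P V5.D (-1) 1) ⟨2, 1, 2, 2, 2, 2, 3, 7, 4, 2⟩ :=
  leafX_sound T5.ok_mp T5.Ymp.bz_eq (w := 201) (c := ⟨⟨.negSucc 1283, .negSucc 237, .ofNat 14, .negSucc 84, .ofNat 457, .ofNat 111⟩, ⟨.negSucc 680, .ofNat 99, .negSucc 256, .negSucc 36, .ofNat 240, .ofNat 69⟩, ⟨.ofNat 706, .ofNat 46, .negSucc 123, .negSucc 93, .negSucc 474, .negSucc 126⟩, ⟨.negSucc 3210, .negSucc 26, .ofNat 91, .negSucc 313, .ofNat 861, .ofNat 48⟩, ⟨.negSucc 616, .ofNat 210, .negSucc 95, .ofNat 179, .ofNat 559, .ofNat 458⟩, .ofNat 753, .negSucc 616, .ofNat 0, .negSucc 616, .ofNat 1583, .ofNat 0, .ofNat 128, .ofNat 160, .negSucc 91, .ofNat 0, .ofNat 135, .negSucc 24, .ofNat 0, .ofNat 0, .ofNat 258, .ofNat 387, .ofNat 0, .ofNat 0, .ofNat 224657408678793157733889425578917888, .ofNat 0, .ofNat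 0, .ofNat 0, .ofNat 0, .ofNat 0, .ofNat 0, .ofNat 449250209295263561276441856686300332032, .ofNat 40218063093072469256335177566046388224, .ofNat 0, .ofNat 0, .ofNat 226235111987336717272297981223620313088, .ofNat 28339151226440574612273841614587166720, .ofNat 0⟩)
    (by decide +kernel)
theorem L01158 : Good (Phi V5.P V5.D (-1) 1) ⟨2, 1, 2, 2, 2, 2, 3, 7, 4, 3⟩ :=
  leafX_sound T5.ok_mp T5.Ymp.bz_eq (w := 200) (c := ⟨⟨.negSucc 1194, .negSucc 143, .ofNat 0, .negSucc 25, .ofNat 363, .ofNat 115⟩, ⟨.negSucc 615, .ofNat 129, .negSucc 267, .negSucc 6, .ofNat 174, .ofNat 63⟩, ⟨.ofNat 592, .negSucc 29, .negSucc 141, .negSucc 117, .negSucc 423, .negSucc 138⟩, ⟨.negSucc 3172, .ofNat 207, .ofNat 29, .negSucc 232, .ofNat 574, .ofNat 136⟩, ⟨.negSucc 224, .ofNat 192, .negSucc 109, .ofNat 311, .ofNat 607, .ofNat 289⟩, .ofNat 744, .negSucc 605, .ofNat 0, .negSucc 605, .ofNat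 1579, .ofNat 0, .ofNat 128, .ofNat 153, .negSucc 44, .ofNat 0, .ofNat 133, .negSucc 11, .ofNat 0, .ofNat 0, .ofNat 191, .ofNat 377, .ofNat 0, .ofNat 0, .ofNat 0, .ofNat 0, .ofNat 0, .ofNat 0, .ofNat 0, .ofNat 0, .ofNat 0, .ofNat 1270326966215114857585182964293302222848, .ofNat 0, .ofNat 0, .ofNat 0, .ofNat 265553897195749730266639070785043431424, .ofNat 12473487744770565385268632142575828992, .ofNat 0⟩)
    (by decide +kernel)
theorem L01159 : Good (Phi V5.P V5.D (-1) 1) ⟨2, 1, 2, 2, 3, 6, 3, 4, 4, 2⟩ :=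
  leafX_sound T5.ok_mp T5.Ymp.bz_eq (w := 216) (c := ⟨⟨.negSucc 1625, .negSucc 530, .negSucc 111, .ofNat 60, .ofNat 126, .ofNat 54⟩, ⟨.negSucc 875, .negSucc 5, .negSucc 371, .ofNat 14, .ofNat 63, .ofNat 29⟩, ⟨.ofNat 769, .ofNat 461, .ofNat 134, .negSucc 158, .negSucc 142, .ofNat 44⟩, ⟨.negSucc 3889, .negSucc 577, .negSucc 59, .ofNat 277, .ofNat 234, .ofNat 15⟩, ⟨.negSucc 1115, .negSucc 4, .negSucc 40, .negSucc 277, .ofNat 142, .ofNat 206⟩, .ofNat 764, .negSucc 632, .ofNat 0, .negSucc 632, .ofNat 1602, .ofNat 0, .ofNat 128, .ofNat 150, .negSucc 77, .ofNat 0, .ofNat 122, .negSucc 20, .ofNat 0, .ofNat 0, .ofNat 239, .ofNat 1201, .ofNat 0, .ofNat 0, .ofNat 1740439618295986759225067992291037151232, .ofNat 0, .ofNat 0, .ofNat 0, .ofNat 748100392873013502351104404915231672762368, .ofNat 0, .ofNat 0, .ofNat 0, .ofNat 0, .ofNat 0, .ofNat 0, .ofNat 0, .ofNat 636980801641095045794786129222577648828416,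 .ofNat 0⟩)
    (by decide +kernel)
theorem L01160 : Good (Phi V5.P V5.D (-1) 1) ⟨2, 1, 2, 2, 3, 6, 3, 5, 5, 4⟩ :=
  leafX_sound T5.ok_mp T5.Ymp.bz_eq (w := 221) (c := ⟨⟨.negSucc 1504, .negSucc 570, .negSucc 161, .ofNat 61, .ofNat 159, .ofNat 39⟩, ⟨.negSucc 823, .ofNat 4, .negSucc 371, .ofNat 14, .ofNat 86, .ofNat 18⟩, ⟨.ofNat 656, .ofNat 460, .ofNat 152, .negSucc 130, .negSucc 129, .negSucc 5⟩, ⟨.negSucc 3605, .negSucc 692, .negSucc 189, .ofNat 265, .ofNat 266, .ofNat 9⟩, ⟨.negSucc 1091, .ofNat 87, .negSucc 26, .negSucc 252, .ofNat 261, .ofNat 156⟩, .ofNat 749, .negSucc 610, .ofNat 0, .negSucc 610, .ofNat 1580, .ofNat 0, .ofNat 181, .ofNat 128, .negSucc 131, .ofNat 0, .ofNat 104, .negSucc 32, .ofNat 0, .ofNat 0, .ofNat 337, .ofNat 1384, .ofNat 0, .ofNat 0, .ofNat 0, .ofNat 0, .ofNat 0, .ofNat 0, .ofNat 0, .ofNat 0, .ofNat 0, .ofNat 0, .ofNat 14124999634076438772729852704398905215811584,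 .ofNat 0, .ofNat 0, .ofNat 0, .ofNat 35474548530219920054436102967241554427641856, .ofNat 0⟩)
    (by decide +kernel)
theorem L01161 : Good (Phi V5.P V5.D (-1) 1) ⟨2, 1, 2, 2, 3, 6, 3, 5, 5, 5⟩ :=
  leafX_sound T5.ok_mp T5.Ymp.bz_eq (w := 220) (c := ⟨⟨.negSucc 1610, .negSucc 364, .negSucc 95, .ofNat 114, .ofNat 186, .ofNat 100⟩, ⟨.negSucc 876, .ofNat 69, .negSucc 338, .ofNat 51, .ofNat 111, .ofNat 56⟩, ⟨.ofNat 784, .ofNat 248, .ofNat 86, .negSucc 147, .negSucc 158, .negSucc 48⟩, ⟨.negSucc 3941, .negSucc 249, .negSucc 48, .ofNat 425, .ofNat 337, .ofNat 172⟩, ⟨.negSucc 965, .ofNat 92, .negSucc 24, .negSucc 252, .ofNat 298, .ofNat 165⟩, .ofNat 420, .negSucc 187, .ofNat 0, .negSucc 187, .ofNat 668, .ofNat 0, .ofNat 162, .ofNat 101, .negSucc 150, .ofNat 0, .ofNat 128, .ofNat 0, .ofNat 0, .ofNat 0, .ofNat 361, .ofNat 908, .ofNat 0, .ofNat 0, .ofNat 0, .ofNat 0, .ofNat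 0, .ofNat 0, .ofNat 0, .ofNat 0, .ofNat 0, .ofNat 0, .ofNat 0, .ofNat 0, .ofNat 0, .ofNat 0, .ofNat 32942262835995619552560940430889130060152832, .ofNat 0⟩)
    (by decide +kernel)
theorem L01162 : Good (Phi V5.P V5.D (-1) 1) ⟨3, 2, 2, 2, 3, 6, 2, 3, 4, 2⟩ :=
  leafX_sound T5.ok_mp T5.Ymp.bz_eq (w := 217) (c := ⟨⟨.negSucc 1504, .negSucc 122, .negSucc 57, .ofNat 132, .ofNat 465, .ofNat 137⟩, ⟨.negSucc 810, .ofNat 22, .negSucc 292, .ofNat 63, .ofNat 291, .ofNat 90⟩, ⟨.ofNat 658, .ofNat 30, .ofNat 11, .negSucc 87, .negSucc 324, .negSucc 35⟩, ⟨.negSucc 3612, .negSucc 46, .ofNat 29, .ofNat 399, .ofNat 647, .ofNat 83⟩, ⟨.negSucc 971, .ofNat 84, .negSucc 113, .negSucc 121, .ofNat 1035, .ofNat 501⟩, .ofNat 1495, .negSucc 1770, .ofNat 0, .negSucc 1770, .ofNat 3582, .ofNat 0, .ofNat 128, .ofNat 407, .negSucc 166, .ofNat 0, .ofNat 288, .negSucc 58, .ofNat 0, .ofNat 0, .ofNat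 603, .ofNat 935, .ofNat 0, .ofNat 0, .ofNat 87607272166421078994024428760433950720, .ofNat 0, .ofNat 0, .ofNat 3514243071360356987323372856157863873085440, .ofNat 0, .ofNat 0, .ofNat 0, .ofNat 42074232805071127015019021074216512900825088, .ofNat 41620367585099058012156746255004877193216, .ofNat 0, .ofNat 0, .ofNat 11787857027842879900786961162559444064665600, .ofNat 22552137200065975435200979514299615543296, .ofNat 0⟩)
    (by decide +kernel)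
theorem L01163 : Good (Phi V5.P V5.D (-1) 1) ⟨3, 3, 2, 2, 3, 6, 3, 6, 4, 2⟩ :=
  leafX_sound T5.ok_mp T5.Ymp.bz_eq (w := 219) (c := ⟨⟨.negSucc 1715, .negSucc 236, .negSucc 85, .ofNat 203, .ofNat 310, .ofNat 236⟩, ⟨.negSucc 807, .ofNat 45, .negSucc 317, .ofNat 74, .ofNat 163, .ofNat 127⟩, ⟨.ofNat 808, .ofNat 160, .ofNat 50, .negSucc 179, .negSucc 251, .negSucc 161⟩, ⟨.negSucc 3855, .negSucc 231, .negSucc 74, .ofNat 575, .ofNat 475, .ofNat 355⟩, ⟨.negSucc 902, .ofNat 88, .negSucc 73, .negSucc 238, .ofNat 601, .ofNat 478⟩, .ofNat 672, .negSucc 526, .ofNat 0, .negSucc 526, .ofNat 1526, .ofNat 0, .ofNat 128, .ofNat 165, .negSucc 100, .ofNat 0, .ofNat 139, .negSucc 14, .ofNat 0, .ofNat 0, .ofNat 274, .ofNat 503, .ofNat 0, .ofNat 0, .ofNat 1135446734030447189372478899765263728640, .ofNat 0, .ofNat 0, .ofNat 0, .ofNat 0, .ofNat 0, .ofNat 0, .ofNat 0, .ofNat 0, .ofNat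 0, .ofNat 0, .ofNat 7386758331738393354608401448010249586868224, .ofNat 211126733967553505969660495397811308724224, .ofNat 0⟩)
    (by decide +kernel)
theorem L01164 : Good (Phi V5.P V5.D (-1) 1) ⟨3, 3, 2, 2, 3, 6, 3, 7, 4, 2⟩ :=
  leafX_sound T5.ok_mp T5.Ymp.bz_eq (w := 219) (c := ⟨⟨.negSucc 1505, .negSucc 165, .negSucc 36, .ofNat 236, .ofNat 491, .ofNat 320⟩, ⟨.negSucc 690, .ofNat 71, .negSucc 271, .ofNat 91, .ofNat 253, .ofNat 176⟩, ⟨.ofNat 619, .ofNat 89, .negSucc 43, .negSucc 143, .negSucc 395, .negSucc 212⟩, ⟨.negSucc 3541, .negSucc 50, .ofNat 78, .ofNat 593, .ofNat 809, .ofNat 400⟩, ⟨.negSucc 471, .ofNat 99, .negSucc 231, .negSucc 92, .ofNat 822, .ofNat 829⟩, .ofNat 1003, .negSucc 1119, .ofNat 0, .negSucc 1119, .ofNat 2859, .ofNat 0, .ofNat 150, .ofNat 128, .negSucc 128, .ofNat 0, .ofNat 90, .negSucc 29, .ofNat 0, .ofNat 0, .ofNat 328, .ofNat 428, .ofNat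 0, .ofNat 0, .ofNat 0, .ofNat 0, .ofNat 0, .ofNat 0, .ofNat 0, .ofNat 0, .ofNat 0, .ofNat 30491853973811695362057633200205048366235648, .ofNat 122313957516017568930395264595919913353216, .ofNat 0, .ofNat 0, .ofNat 25691180836542971717119680096816283005222912, .ofNat 241280554050177133747841382443648888602624, .ofNat 0⟩)
    (by decide +kernel)
theorem L01165 : Good (Phi V5.P V5.D (-1) 1) ⟨2, 1, 2, 2, 3, 6, 3, 4, 4, 3⟩ :=
  leafX_sound T5.ok_mp T5.Ymp.bz_eq (w := 216) (c := ⟨⟨.negSucc 1717, .negSucc 317, .negSucc 49, .ofNat 148, .ofNat 163, .ofNat 260⟩, ⟨.negSucc 912, .ofNat 105, .negSucc 324, .ofNat 43, .ofNat 83, .ofNat 135⟩, ⟨.ofNat 984, .ofNat 252, .ofNat 31, .negSucc 236, .negSucc 198, .negSucc 136⟩, ⟨.negSucc 4129, .negSucc 62, .ofNat 32, .ofNat 437, .ofNat 263, .ofNat 497⟩, ⟨.negSucc 1023, .negSucc 2, .negSucc 42, .negSucc 218, .ofNat 266, .ofNat 281⟩,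 .ofNat 753, .negSucc 617, .ofNat 0, .negSucc 617, .ofNat 1585, .ofNat 0, .ofNat 161, .ofNat 128, .negSucc 70, .ofNat 0, .ofNat 113, .negSucc 13, .ofNat 0, .ofNat 0, .ofNat 388, .ofNat 1567, .ofNat 0, .ofNat 0, .ofNat 3194213378928131359549115735727562293248, .ofNat 0, .ofNat 0, .ofNat 0, .ofNat 0, .ofNat 0, .ofNat 0, .ofNat 0, .ofNat 890309045092342598179268758291238237503488, .ofNat 0, .ofNat 0, .ofNat 0, .ofNat 829062293726886421966407406290448379019264, .ofNat 0⟩)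
    (by decide +kernel)
theorem L01166 : Good (Phi V5.P V5.D (-1) 1) ⟨2, 1, 2, 2, 3, 6, 3, 5, 4, 3⟩ :=
  leafX_sound T5.ok_mp T5.Ymp.bz_eq (w := 216) (c := ⟨⟨.negSucc 1615, .negSucc 204, .negSucc 45, .ofNat 160, .ofNat 181, .ofNat 272⟩, ⟨.negSucc 867, .ofNat 121, .negSucc 296, .ofNat 80, .ofNat 112, .ofNat 149⟩, ⟨.ofNat 843, .ofNat 79, .ofNat 43, .negSucc 174, .negSucc 164, .negSucc 159⟩, ⟨.negSucc 3955, .ofNat 148, .ofNat 53, .ofNat 467, .ofNat 262, .ofNat 495⟩, ⟨.negSucc 887, .ofNat 23, .negSucc 69, .negSucc 138, .ofNat 408, .ofNat 379⟩, .ofNat 763, .negSucc 627, .ofNat 0, .negSucc 627, .ofNat 1591, .ofNat 0, .ofNat 219, .ofNat 128, .negSucc 90, .ofNat 0, .ofNat 114, .negSucc 13, .ofNat 0, .ofNat 0, .ofNat 554, .ofNat 1103, .ofNat 0, .ofNat 0, .ofNat 0, .ofNat 0, .ofNat 0, .ofNat 0, .ofNat 0, .ofNat 0, .ofNat 0, .ofNat 0, .ofNat 1775100235603235898909889693295260483977216,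 .ofNat 0, .ofNat 0, .ofNat 0, .ofNat 0, .ofNat 0⟩)
    (by decide +kernel)
theorem L01167 : Good (Phi V5.P V5.D (-1) 1) ⟨2, 1, 2, 2, 3, 6, 2, 3, 4, 3⟩ :=
  leafX_sound T5.ok_mp T5.Ymp.bz_eq (w := 211) (c := ⟨⟨.negSucc 1421, .negSucc 172, .negSucc 41, .ofNat 185, .ofNat 514, .ofNat 234⟩, ⟨.negSucc 746, .ofNat 128, .negSucc 295, .ofNat 86, .ofNat 302, .ofNat 131⟩, ⟨.ofNat 673, .ofNat 7, .negSucc 17, .negSucc 112, .negSucc 403, .negSucc 137⟩, ⟨.negSucc 3603, .ofNat 221, .ofNat 36, .ofNat 418, .ofNat 675, .ofNat 331⟩, ⟨.negSucc 570, .ofNat 59, .negSucc 128, .ofNat 58, .ofNat 1271, .ofNat 509⟩, .ofNat 982, .negSucc 988, .ofNat 0, .negSucc 988, .ofNat 2332, .ofNat 0, .ofNat 152, .ofNat 128, .negSucc 49, .ofNat 0, .ofNat 100, .negSucc 9, .ofNat 0, .ofNat 0, .ofNat 301, .ofNat 304, .ofNat 0, .ofNat 0, .ofNat 0, .ofNat 0, .ofNat 0, .ofNat 0, .ofNat 0, .ofNat 0, .ofNat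 0, .ofNat 644408287459217111242644560647173389156352, .ofNat 38509273819739800475984665517908180336640, .ofNat 0, .ofNat 0, .ofNat 584727077924806544741514361641344249626624, .ofNat 34482323937074812107560370980539515011072, .ofNat 0⟩)
    (by decide +kernel)

end Crest.Agent.R097C5.N5mp
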