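import Crest.Agent.R097.KP7
import Crest.Agent.R097.T5Ymp

/-!
# Row 97, box cover in dimension n = 5 (generated)
-/

set_option autoImplicit false
set_option Elab.async false
set_option maxHeartbeats 0
set_option maxRecDepth 100000

open Crest.Agent.R097 Crest.Agent.R097.KA


namespace Crest.Agent.R097C5.N5mp

theorem L01168 : Good (Phi V5.P V5.D (-1) 1) ⟨3, 2, 3, 4, 3, 7, 3, 4, 4, 2⟩ :=
  leafX_sound T5.ok_mp T5.Ymp.bz_eq (w := 224) (c := ⟨⟨.negSucc 1697, .negSucc 161, .negSucc 38, .ofNat 136, .ofNat 169, .ofNat 118⟩, ⟨.negSucc 930, .ofNat 14, .negSucc 155, .ofNat 63, .ofNat 94, .ofNat 65⟩, ⟨.ofNat 647, .ofNat 130, .ofNat 61, .negSucc 145, .negSucc 104, .ofNat 49⟩, ⟨.negSucc 4009, .negSucc 58, .ofNat 70, .ofNat 503, .ofNat 380, .ofNat 273⟩, ⟨.negSucc 1241, .negSucc 101, .negSucc 51, .negSucc 299, .ofNat 96, .ofNat 48⟩, .ofNat 1499, .negSucc 1775, .ofNat 0, .negSucc 1775,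 .ofNat 3588, .ofNat 0, .ofNat 128, .ofNat 358, .negSucc 107, .ofNat 0, .ofNat 253, .negSucc 38, .ofNat 0, .ofNat 0, .ofNat 398, .ofNat 2789, .ofNat 0, .ofNat 0, .ofNat 0, .ofNat 0, .ofNat 0, .ofNat 0, .ofNat 0, .ofNat 0, .ofNat 0, .ofNat 0, .ofNat 0, .ofNat 0, .ofNat 0, .ofNat 0, .ofNat 0, .ofNat 0⟩)
    (by decide +kernel)
theorem L01169 : Good (Phi V5.P V5.D (-1) 1) ⟨3, 2, 3, 5, 3, 7, 3, 4, 4, 2⟩ :=
  leafX_sound T5.ok_mp T5.Ymp.bz_eq (w := 224) (c := ⟨⟨.negSucc 1731, .negSucc 169, .negSucc 46, .ofNat 126, .ofNat 176, .ofNat 109⟩, ⟨.negSucc 1086, .negSucc 0, .negSucc 162, .ofNat 66, .ofNat 104, .ofNat 66⟩, ⟨.ofNat 714, .ofNat 136, .ofNat 29, .negSucc 133, .negSucc 113, .ofNat 37⟩, ⟨.negSucc 3910, .negSucc 51, .negSucc 11, .ofNat 472, .ofNat 369, .ofNat 226⟩, ⟨.negSucc 1337, .negSucc 140, .ofNat 30, .negSucc 257, .ofNat 146, .ofNat 92⟩, .ofNat 2106, .negSucc 2642, .ofNat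 0, .negSucc 2642, .ofNat 4731, .ofNat 0, .ofNat 128, .ofNat 465, .negSucc 96, .ofNat 0, .ofNat 322, .negSucc 44, .ofNat 0, .ofNat 0, .ofNat 377, .ofNat 1980, .ofNat 0, .ofNat 0, .ofNat 48922331848540633552124536404188264923136, .ofNat 0, .ofNat 0, .ofNat 0, .ofNat 0, .ofNat 0, .ofNat 0, .ofNat 0, .ofNat 0, .ofNat 0, .ofNat 0, .ofNat 0, .ofNat 1752492264061024193802309530382995103416320, .ofNat 0⟩)
    (by decide +kernel)
theorem L01170 : Good (Phi V5.P V5.D (-1) 1) ⟨3, 2, 3, 4, 3, 7, 3, 5, 4, 2⟩ :=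
  leafX_sound T5.ok_mp T5.Ymp.bz_eq (w := 223) (c := ⟨⟨.negSucc 1613, .negSucc 94, .negSucc 44, .ofNat 177, .ofNat 229, .ofNat 168⟩, ⟨.negSucc 888, .ofNat 38, .negSucc 141, .ofNat 79, .ofNat 132, .ofNat 101⟩, ⟨.ofNat 593, .ofNat 47, .ofNat 53, .negSucc 119, .negSucc 94, .ofNat 11⟩, ⟨.negSucc 3727, .ofNat 89, .ofNat 44, .ofNat 632, .ofNat 420, .ofNat 234⟩, ⟨.negSucc 1336, .negSucc 111, .negSucc 50, .negSucc 332, .ofNat 327, .ofNat 376⟩, .ofNat 813, .negSucc 673, .ofNat 0, .negSucc 673, .ofNat 1618, .ofNat 0, .ofNat 128, .ofNat 241, .negSucc 120, .ofNat 0, .ofNat 208, .negSucc 16, .ofNat 0, .ofNat 0, .ofNat 393, .ofNat 1223, .ofNat 0, .ofNat 0, .ofNat 0, .ofNat 0, .ofNat 0, .ofNat 0, .ofNat 0, .ofNat 0, .ofNat 0, .ofNat 0, .ofNat 0, .ofNat 0, .ofNat 0, .ofNat 0, .ofNat 0, .ofNat 0⟩)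
    (by decide +kernel)
theorem L01171 : Good (Phi V5.P V5.D (-1) 1) ⟨3, 2, 3, 5, 3, 7, 3, 5, 4, 2⟩ :=
  leafX_sound T5.ok_mp T5.Ymp.bz_eq (w := 224) (c := ⟨⟨.negSucc 1660, .negSucc 101, .ofNat 76, .ofNat 206, .ofNat 250, .ofNat 136⟩, ⟨.negSucc 1046, .ofNat 27, .negSucc 66, .ofNat 120, .ofNat 155, .ofNat 87⟩, ⟨.ofNat 634, .ofNat 49, .negSucc 5, .negSucc 92, .negSucc 95, .ofNat 41⟩, ⟨.negSucc 3675, .ofNat 65, .ofNat 234, .ofNat 688, .ofNat 453, .ofNat 147⟩, ⟨.negSucc 1400, .negSucc 103, .ofNat 135, .negSucc 236, .ofNat 336, .ofNat 349⟩, .ofNat 1434, .negSucc 1582, .ofNat 0, .negSucc 1582, .ofNat 2985, .ofNat 0, .ofNat 128, .ofNat 487, .negSucc 156, .ofNat 0, .ofNat 360, .negSucc 55, .ofNat 0, .ofNat 0, .ofNat 593, .ofNat 2492, .ofNat 0, .ofNat 0, .ofNat 58469977317899211586088521608338503368704, .ofNat 0, .ofNat 0, .ofNat 0, .ofNat 910812146801342326686227374281561171034112,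 .ofNat 0, .ofNat 0, .ofNat 0, .ofNat 0, .ofNat 0, .ofNat 0, .ofNat 0, .ofNat 2767599472756642495636802227008724289978368, .ofNat 0⟩)
    (by decide +kernel)
theorem L01172 : Good (Phi V5.P V5.D (-1) 1) ⟨3, 3, 3, 4, 4, 14, 3, 4, 4, 2⟩ :=
  leafX_sound T5.ok_mp T5.Ymp.bz_eq (w := 237) (c := ⟨⟨.negSucc 1968, .negSucc 273, .negSucc 94, .ofNat 101, .ofNat 212, .ofNat 252⟩, ⟨.negSucc 932, .ofNat 30, .negSucc 195, .ofNat 31, .ofNat 95, .ofNat 111⟩, ⟨.ofNat 936, .ofNat 246, .ofNat 90, .negSucc 128, .negSucc 188, .negSucc 112⟩, ⟨.negSucc 4298, .negSucc 277, .negSucc 110, .ofNat 325, .ofNat 469, .ofNat 572⟩, ⟨.negSucc 1297, .negSucc 7, .ofNat 11, .negSucc 213, .ofNat 74, .ofNat 52⟩, .ofNat 690, .negSucc 558, .ofNat 0, .negSucc 558, .ofNat 1549, .ofNat 0, .ofNat 128, .ofNat 167, .negSucc 138, .ofNat 0, .ofNat 136, .negSucc 26, .ofNat 0, .ofNat 0, .ofNat 345, .ofNat 1939, .ofNat 0,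 .ofNat 0, .ofNat 119424743411612877238183075856975693686505472, .ofNat 0, .ofNat 0, .ofNat 0, .ofNat 8900242578155535948634071708595131003980218368, .ofNat 0, .ofNat 0, .ofNat 0, .ofNat 0, .ofNat 0, .ofNat 0, .ofNat 0, .ofNat 10204681165333385347571009799505519862249160704, .ofNat 0⟩)
    (by decide +kernel)
theorem L01173 : Good (Phi V5.P V5.D (-1) 1) ⟨3, 3, 3, 4, 4, 15, 3, 4, 5, 4⟩ :=
  leafX_sound T5.ok_mp T5.Ymp.bz_eq (w := 242) (c := ⟨⟨.negSucc 1915, .negSucc 253, .negSucc 42, .ofNat 93, .ofNat 282, .ofNat 104⟩, ⟨.negSucc 901, .ofNat 33, .negSucc 179, .ofNat 27, .ofNat 108, .ofNat 36⟩, ⟨.ofNat 816, .ofNat 252, .ofNat 55, .negSucc 92, .negSucc 204, .negSucc 36⟩, ⟨.negSucc 4045, .negSucc 251, .negSucc 64, .ofNat 222, .ofNat 639, .ofNat 234⟩, ⟨.negSucc 1501, .ofNat 1, .ofNat 141, .negSucc 55, .negSucc 7, .negSucc 10⟩, .ofNat 1087, .negSucc 1257, .ofNat 0, .negSucc 1257,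 .ofNat 3021, .ofNat 0, .ofNat 208, .ofNat 128, .negSucc 142, .ofNat 0, .ofNat 87, .negSucc 38, .ofNat 0, .ofNat 0, .ofNat 337, .ofNat 1613, .ofNat 0, .ofNat 0, .ofNat 10477917488852634342214682283165542289621647360, .ofNat 0, .ofNat 0, .ofNat 0, .ofNat 0, .ofNat 0, .ofNat 0, .ofNat 0, .ofNat 0, .ofNat 0, .ofNat 0, .ofNat 0, .ofNat 789299849707407010117911674335334936261546737664, .ofNat 0⟩)
    (by decide +kernel)
theorem L01174 : Good (Phi V5.P V5.D (-1) 1) ⟨3, 3, 3, 4, 4, 15, 3, 4, 5, 5⟩ :=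
  leafX_sound T5.ok_mp T5.Ymp.bz_eq (w := 242) (c := ⟨⟨.negSucc 1865, .negSucc 133, .negSucc 73, .ofNat 139, .ofNat 268, .ofNat 194⟩, ⟨.negSucc 890, .ofNat 58, .negSucc 171, .ofNat 41, .ofNat 119, .ofNat 82⟩, ⟨.ofNat 816, .ofNat 129, .ofNat 96, .negSucc 109, .negSucc 189, .negSucc 93⟩, ⟨.negSucc 3986, .ofNat 49, .negSucc 8, .ofNat 439, .ofNat 613, .ofNat 468⟩, ⟨.negSucc 1425, .negSucc 150, .negSucc 36, .negSucc 276, .ofNat 52, .negSucc 19⟩, .ofNat 690, .negSucc 558, .ofNat 0, .negSucc 558, .ofNat 1549, .ofNat 0, .ofNat 187, .ofNat 128, .negSucc 127, .ofNat 0, .ofNat 113, .negSucc 12, .ofNat 0, .ofNat 0, .ofNat 381, .ofNat 2202, .ofNat 0, .ofNat 0, .ofNat 13701240260634521054909296159426474463167774720, .ofNat 0, .ofNat 0, .ofNat 0, .ofNat 0, .ofNat 0, .ofNat 0, .ofNat 0, .ofNat 370098201513089256595823329273650830986845356032, .ofNat 0, .ofNat 0, .ofNat 0, .ofNat 637240296566030083053534458796040428607097536512,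 .ofNat 0⟩)
    (by decide +kernel)
theorem L01175 : Good (Phi V5.P V5.D (-1) 1) ⟨3, 3, 3, 4, 3, 7, 4, 10, 5, 4⟩ :=
  leafX_sound T5.ok_mp T5.Ymp.bz_eq (w := 232) (c := ⟨⟨.negSucc 1797, .negSucc 236, .negSucc 88, .ofNat 261, .ofNat 135, .ofNat 128⟩, ⟨.negSucc 858, .ofNat 32, .negSucc 170, .ofNat 85, .ofNat 61, .ofNat 61⟩, ⟨.ofNat 752, .ofNat 206, .ofNat 99, .negSucc 210, .negSucc 92, .negSucc 46⟩, ⟨.negSucc 3910, .negSucc 247, .negSucc 77, .ofNat 851, .ofNat 295, .ofNat 283⟩, ⟨.negSucc 1254, .ofNat 34, .ofNat 31, .negSucc 548, .ofNat 61, .ofNat 52⟩, .ofNat 675, .negSucc 529, .ofNat 0, .negSucc 529, .ofNat 1530, .ofNat 0, .ofNat 218, .ofNat 128, .negSucc 181, .ofNat 0, .ofNat 106, .negSucc 26, .ofNat 0, .ofNat 0, .ofNat 392, .ofNat 1528, .ofNat 0, .ofNat 0, .ofNat 7560948014906304969697202011058777901498368, .ofNat 0, .ofNat 0, .ofNat 0, .ofNat 0, .ofNat 0, .ofNat 0, .ofNat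 0, .ofNat 0, .ofNat 0, .ofNat 0, .ofNat 0, .ofNat 815494197844359082583296270735113993777577984, .ofNat 0⟩)
    (by decide +kernel)
theorem L01176 : Good (Phi V5.P V5.D (-1) 1) ⟨3, 3, 3, 4, 3, 7, 4, 11, 5, 4⟩ :=
  leafX_sound T5.ok_mp T5.Ymp.bz_eq (w := 232) (c := ⟨⟨.negSucc 1721, .negSucc 152, .negSucc 36, .ofNat 308, .ofNat 137, .ofNat 132⟩, ⟨.negSucc 821, .ofNat 51, .negSucc 145, .ofNat 104, .ofNat 70, .ofNat 64⟩, ⟨.ofNat 697, .ofNat 123, .ofNat 56, .negSucc 212, .negSucc 78, .negSucc 49⟩, ⟨.negSucc 3738, .negSucc 58, .ofNat 38, .ofNat 986, .ofNat 281, .ofNat 253⟩, ⟨.negSucc 1195, .negSucc 37, .negSucc 10, .negSucc 587, .ofNat 127, .ofNat 140⟩, .ofNat 678, .negSucc 531, .ofNat 0, .negSucc 531, .ofNat 1533, .ofNat 0, .ofNat 180, .ofNat 128, .negSucc 121, .ofNat 0, .ofNat 106, .negSucc 15, .ofNat 0, .ofNat 0, .ofNat 268, .ofNat 909, .ofNat 0, .ofNat 0, .ofNat 3138742894744290523700536571866168325832704,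 .ofNat 0, .ofNat 0, .ofNat 0, .ofNat 0, .ofNat 0, .ofNat 0, .ofNat 0, .ofNat 0, .ofNat 0, .ofNat 0, .ofNat 0, .ofNat 309752348607846239006681127732385240181637120, .ofNat 0⟩)
    (by decide +kernel)
theorem L01177 : Good (Phi V5.P V5.D (-1) 1) ⟨3, 3, 3, 4, 3, 7, 3, 5, 5, 5⟩ :=
  leafX_sound T5.ok_mp T5.Ymp.bz_eq (w := 228) (c := ⟨⟨.negSucc 1750, .negSucc 116, .negSucc 59, .ofNat 339, .ofNat 318, .ofNat 167⟩, ⟨.negSucc 835, .ofNat 54, .negSucc 140, .ofNat 120, .ofNat 162, .ofNat 85⟩, ⟨.ofNat 745, .ofNat 47, .ofNat 66, .negSucc 188, .negSucc 163, .negSucc 58⟩, ⟨.negSucc 3788, .ofNat 67, .ofNat 17, .ofNat 1024, .ofNat 580, .ofNat 295⟩, ⟨.negSucc 1244, .negSucc 129, .negSucc 65, .negSucc 505, .ofNat 415, .ofNat 245⟩, .ofNat 667, .negSucc 518, .ofNat 0, .negSucc 518, .ofNat 1520, .ofNat 0, .ofNat 130, .ofNat 128, .negSucc 90, .ofNat 0, .ofNat 114, .negSucc 6, .ofNat 0, .ofNat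 0, .ofNat 288, .ofNat 1081, .ofNat 0, .ofNat 0, .ofNat 0, .ofNat 0, .ofNat 0, .ofNat 0, .ofNat 14303415904479099807077195260257638715228160, .ofNat 0, .ofNat 0, .ofNat 0, .ofNat 21515277774325588634870255800591545465307136, .ofNat 0, .ofNat 0, .ofNat 0, .ofNat 8150015347274372018683819911120109663420416, .ofNat 0⟩)
    (by decide +kernel)
theorem L01178 : Good (Phi V5.P V5.D (-1) 1) ⟨3, 3, 3, 5, 3, 7, 2, 2, 4, 2⟩ :=
  out_sound (S := T5.ds_mp) T5.ok_mp (w := 45) (j := 3) (by decide +kernel)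
theorem L01179 : Good (Phi V5.P V5.D (-1) 1) ⟨3, 2, 3, 4, 3, 7, 3, 6, 4, 2⟩ :=
  leafX_sound T5.ok_mp T5.Ymp.bz_eq (w := 223) (c := ⟨⟨.negSucc 1523, .negSucc 37, .ofNat 31, .ofNat 255, .ofNat 293, .ofNat 225⟩, ⟨.negSucc 840, .ofNat 55, .negSucc 90, .ofNat 131, .ofNat 184, .ofNat 148⟩, ⟨.ofNat 568, .negSucc 43, .ofNat 8, .negSucc 86, .negSucc 80, .ofNat 29⟩, ⟨.negSucc 3512, .ofNat 198, .ofNat 275, .ofNat 673, .ofNat 365, .ofNat 174⟩, ⟨.negSucc 1195, .negSucc 82, .negSucc 192, .negSucc 46, .ofNat 718, .ofNat 742⟩, .ofNat 1860, .negSucc 2370, .ofNat 0, .negSucc 2370, .ofNat 4623, .ofNat 0, .ofNat 128, .ofNat 165, .negSucc 67, .ofNat 0, .ofNat 115, .negSucc 21, .ofNat 0, .ofNat 0, .ofNat 275, .ofNat 596, .ofNat 0, .ofNat 0, .ofNat 0, .ofNat 0, .ofNat 0, .ofNat 0, .ofNat 0, .ofNat 0, .ofNat 0, .ofNat 148488105663411442204962508560711217359880192, .ofNat 0, .ofNat 0, .ofNat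 0, .ofNat 119997548095573484213185306006592255978110976, .ofNat 0, .ofNat 0⟩)
    (by decide +kernel)
theorem L01180 : Good (Phi V5.P V5.D (-1) 1) ⟨3, 2, 3, 5, 3, 7, 3, 6, 4, 2⟩ :=
  leafX_sound T5.ok_mp T5.Ymp.bz_eq (w := 225) (c := ⟨⟨.negSucc 1589, .negSucc 5, .ofNat 15, .ofNat 317, .ofNat 341, .ofNat 271⟩, ⟨.negSucc 992, .ofNat 75, .negSucc 98, .ofNat 183, .ofNat 209, .ofNat 170⟩, ⟨.ofNat 576, .negSucc 17, .ofNat 21, .negSucc 54, .negSucc 129, .ofNat 19⟩, ⟨.negSucc 3455, .ofNat 282, .ofNat 138, .ofNat 829, .ofNat 479, .ofNat 240⟩, ⟨.negSucc 1402, .negSucc 92, .negSucc 43, .negSucc 16, .ofNat 678, .ofNat 779⟩, .ofNat 2926, .negSucc 3858, .ofNat 0, .negSucc 3858, .ofNat 6472, .ofNat 0, .ofNat 128, .ofNat 368, .negSucc 134, .ofNat 0, .ofNat 252, .negSucc 66, .ofNat 0, .ofNat 0, .ofNat 545, .ofNat 1344, .ofNat 0, .ofNat 0, .ofNat 25731440268374115878441945668570048364544,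 .ofNat 0, .ofNat 0, .ofNat 0, .ofNat 0, .ofNat 0, .ofNat 0, .ofNat 246364885026211879482484912286574452773224448, .ofNat 3012095551463906459020587236785177587875840, .ofNat 0, .ofNat 0, .ofNat 539151379474434951535760485005591588487823360, .ofNat 1284776030708543390045917416343241507209216, .ofNat 0⟩)
    (by decide +kernel)
theorem L01181 : Good (Phi V5.P V5.D (-1) 1) ⟨3, 2, 2, 2, 3, 7, 3, 7, 4, 2⟩ :=
  leafX_sound T5.ok_mp T5.Ymp.bz_eq (w := 219) (c := ⟨⟨.negSucc 1297, .ofNat 54, .ofNat 74, .ofNat 302, .ofNat 371, .ofNat 269⟩, ⟨.negSucc 694, .ofNat 89, .negSucc 162, .ofNat 161, .ofNat 224, .ofNat 178⟩, ⟨.ofNat 486, .negSucc 97, .negSucc 29, .negSucc 55, .negSucc 139, .ofNat 52⟩, ⟨.negSucc 3281, .ofNat 506, .ofNat 437, .ofNat 862, .ofNat 639, .ofNat 159⟩, ⟨.negSucc 477, .negSucc 264, .negSucc 244, .negSucc 166, .ofNat 562, .ofNat 962⟩, .ofNat 1539, .negSucc 1833, .ofNat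 0, .negSucc 1833, .ofNat 3664, .ofNat 0, .ofNat 128, .ofNat 278, .negSucc 96, .ofNat 0, .ofNat 197, .negSucc 27, .ofNat 0, .ofNat 0, .ofNat 315, .ofNat 205, .ofNat 0, .ofNat 0, .ofNat 2239875638096342112842542099177653927936, .ofNat 0, .ofNat 0, .ofNat 0, .ofNat 0, .ofNat 0, .ofNat 0, .ofNat 66002931673583916429924050360222699973771264, .ofNat 0, .ofNat 0, .ofNat 0, .ofNat 34977235222290066580509486999915903880003584, .ofNat 201952982833350077927511787650061801881600, .ofNat 0⟩)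
    (by decide +kernel)
theorem L01182 : Good (Phi V5.P V5.D (-1) 1) ⟨3, 3, 2, 2, 3, 7, 4, 12, 5, 4⟩ :=
  leafX_sound T5.ok_mp T5.Ymp.bz_eq (w := 229) (c := ⟨⟨.negSucc 1650, .negSucc 74, .negSucc 48, .ofNat 388, .ofNat 186, .ofNat 157⟩, ⟨.negSucc 779, .ofNat 72, .negSucc 237, .ofNat 131, .ofNat 90, .ofNat 77⟩, ⟨.ofNat 651, .ofNat 52, .ofNat 79, .negSucc 218, .negSucc 104, .negSucc 58⟩, ⟨.negSucc 3535, .ofNat 142, .ofNat 135, .ofNat 1117, .ofNat 331, .ofNat 218⟩, ⟨.negSucc 1197, .negSucc 115, .negSucc 49, .negSucc 522, .ofNat 258, .ofNat 334⟩, .ofNat 1052, .negSucc 1192, .ofNat 0, .negSucc 1192, .ofNat 2954, .ofNat 0, .ofNat 153, .ofNat 128, .negSucc 128, .ofNat 0, .ofNat 89, .negSucc 27, .ofNat 0, .ofNat 0, .ofNat 326, .ofNat 1094, .ofNat 0, .ofNat 0, .ofNat 2606440556571815238953580125840033408090112, .ofNat 0, .ofNat 0, .ofNat 0, .ofNat 0, .ofNat 0, .ofNat 0, .ofNat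 0, .ofNat 128118197210247560599377529820789378446786560, .ofNat 0, .ofNat 0, .ofNat 0, .ofNat 206831940623488876516185422873975790306852864, .ofNat 0⟩)
    (by decide +kernel)
theorem L01183 : Good (Phi V5.P V5.D (-1) 1) ⟨3, 3, 2, 2, 3, 7, 4, 13, 5, 4⟩ :=
  leafX_sound T5.ok_mp T5.Ymp.bz_eq (w := 228) (c := ⟨⟨.negSucc 1565, .ofNat 11, .ofNat 17, .ofNat 422, .ofNat 235, .ofNat 200⟩, ⟨.negSucc 730, .ofNat 92, .negSucc 189, .ofNat 149, .ofNat 112, .ofNat 109⟩, ⟨.ofNat 606, .negSucc 38, .ofNat 58, .negSucc 214, .negSucc 138, .negSucc 66⟩, ⟨.negSucc 3449, .ofNat 311, .ofNat 307, .ofNat 1259, .ofNat 406, .ofNat 297⟩, ⟨.negSucc 906, .negSucc 118, .negSucc 135, .negSucc 613, .ofNat 330, .ofNat 417⟩, .ofNat 666, .negSucc 516, .ofNat 0, .negSucc 516, .ofNat 1519, .ofNat 0, .ofNat 130, .ofNat 128, .negSucc 140, .ofNat 0, .ofNat 108, .negSucc 9, .ofNat 0, .ofNat 0, .ofNat 315, .ofNat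 322, .ofNat 0, .ofNat 0, .ofNat 297011602513572312853106448674948508549120, .ofNat 0, .ofNat 0, .ofNat 216034657253526577500876544273297357435568128, .ofNat 61023136521905805974004006869228384572932096, .ofNat 0, .ofNat 0, .ofNat 0, .ofNat 0, .ofNat 0, .ofNat 0, .ofNat 315797729669502348605827140497603357073997824, .ofNat 224462730559648011294672810343318361592561664, .ofNat 0⟩)
    (by decide +kernel)
theorem L01184 : Good (Phi V5.P V5.D (-1) 1) ⟨3, 3, 2, 2, 3, 7, 3, 6, 5, 5⟩ :=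
  leafX_sound T5.ok_mp T5.Ymp.bz_eq (w := 223) (c := ⟨⟨.negSucc 1517, .negSucc 12, .ofNat 6, .ofNat 383, .ofNat 413, .ofNat 171⟩, ⟨.negSucc 720, .ofNat 93, .negSucc 218, .ofNat 146, .ofNat 216, .ofNat 102⟩, ⟨.ofNat 597, .negSucc 33, .negSucc 4, .negSucc 146, .negSucc 170, .negSucc 26⟩, ⟨.negSucc 3357, .ofNat 282, .ofNat 288, .ofNat 1102, .ofNat 629, .ofNat 233⟩, ⟨.negSucc 909, .negSucc 123, .negSucc 234, .negSucc 426, .ofNat 791, .ofNat 421⟩, .ofNat 686, .negSucc 542, .ofNat 0, .negSucc 542, .ofNat 1541, .ofNat 0, .ofNat 144, .ofNat 128, .negSucc 71, .ofNat 0, .ofNat 113, .ofNat 0, .ofNat 0, .ofNat 0, .ofNat 246, .ofNat 212, .ofNat 0, .ofNat 0, .ofNat 0, .ofNat 0, .ofNat 0, .ofNat 0, .ofNat 0, .ofNat 0, .ofNat 0, .ofNat 0, .ofNat 6945590425811433157967181282813889059225600, .ofNat 0, .ofNat 0, .ofNat 117073475851032799928571483116872029716873216, .ofNat 7507515235584846866796288106754067035848704,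 .ofNat 0⟩)
    (by decide +kernel)
theorem L01185 : Good (Phi V5.P V5.D (-1) 1) ⟨3, 3, 2, 2, 3, 7, 3, 7, 4, 2⟩ :=
  leafX_sound T5.ok_mp T5.Ymp.bz_eq (w := 219) (c := ⟨⟨.negSucc 1392, .ofNat 71, .ofNat 123, .ofNat 436, .ofNat 527, .ofNat 458⟩, ⟨.negSucc 629, .ofNat 105, .negSucc 146, .ofNat 148, .ofNat 296, .ofNat 235⟩, ⟨.ofNat 520, .negSucc 100, .negSucc 113, .negSucc 193, .negSucc 249, .negSucc 145⟩, ⟨.negSucc 3189, .ofNat 476, .ofNat 599, .ofNat 1270, .ofNat 1009, .ofNat 632⟩, ⟨.negSucc 497, .negSucc 224, .negSucc 402, .negSucc 577, .ofNat 666, .ofNat 976⟩, .ofNat 670, .negSucc 522, .ofNat 0, .negSucc 522, .ofNat 1524, .ofNat 0, .ofNat 227, .ofNat 128, .negSucc 221, .ofNat 0, .ofNat 108, .negSucc 8, .ofNat 0, .ofNat 0, .ofNat 496, .ofNat 221, .ofNat 0, .ofNat 0, .ofNat 0, .ofNat 0, .ofNat 0, .ofNat 0, .ofNat 0, .ofNat 0, .ofNat 0, .ofNat 30756683959338065751488523979548071307509760,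 .ofNat 122852735747942908987963007264320919699456, .ofNat 0, .ofNat 0, .ofNat 50656594036532073668902433025590240657539072, .ofNat 1020917617302083380876158865913567160303616, .ofNat 0⟩)
    (by decide +kernel)
theorem L01186 : Good (Phi V5.P V5.D (-1) 1) ⟨2, 1, 3, 4, 3, 7, 3, 4, 5, 6⟩ :=
  leafX_sound T5.ok_mp T5.Ymp.bz_eq (w := 224) (c := ⟨⟨.negSucc 1653, .negSucc 163, .negSucc 44, .ofNat 205, .ofNat 193, .ofNat 146⟩, ⟨.negSucc 900, .ofNat 115, .negSucc 148, .ofNat 85, .ofNat 109, .ofNat 76⟩, ⟨.ofNat 739, .ofNat 94, .ofNat 66, .negSucc 155, .negSucc 120, .negSucc 52⟩, ⟨.negSucc 3896, .ofNat 303, .ofNat 73, .ofNat 704, .ofNat 350, .ofNat 281⟩, ⟨.negSucc 1186, .negSucc 292, .negSucc 96, .negSucc 399, .ofNat 288, .ofNat 173⟩, .ofNat 750, .negSucc 607, .ofNat 0, .negSucc 607, .ofNat 1574, .ofNat 0, .ofNat 195, .ofNat 128, .negSucc 78, .ofNat 0, .ofNat 120, .negSucc 3, .ofNat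 0, .ofNat 0, .ofNat 416, .ofNat 1740, .ofNat 0, .ofNat 0, .ofNat 0, .ofNat 0, .ofNat 0, .ofNat 0, .ofNat 0, .ofNat 0, .ofNat 0, .ofNat 0, .ofNat 118065887610969952962190836900654573800128512, .ofNat 0, .ofNat 0, .ofNat 0, .ofNat 29953098554899246288173299310514956708872192, .ofNat 0⟩)
    (by decide +kernel)
theorem L01187 : Good (Phi V5.P V5.D (-1) 1) ⟨2, 1, 3, 5, 3, 7, 3, 4, 5, 6⟩ :=
  leafX_sound T5.ok_mp T5.Ymp.bz_eq (w := 224) (c := ⟨⟨.negSucc 1690, .negSucc 179, .negSucc 43, .ofNat 205, .ofNat 204, .ofNat 145⟩, ⟨.negSucc 1065, .ofNat 77, .negSucc 133, .ofNat 118, .ofNat 125, .ofNat 90⟩, ⟨.ofNat 738, .ofNat 107, .ofNat 89, .negSucc 68, .negSucc 97, .negSucc 37⟩, ⟨.negSucc 3845, .ofNat 266, .ofNat 87, .ofNat 744, .ofNat 362, .ofNat 306⟩, ⟨.negSucc 1266, .negSucc 313, .negSucc 97, .negSucc 338, .ofNat 292, .ofNat 129⟩, .ofNat 945, .negSucc 857, .ofNat 0, .negSucc 857,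 .ofNat 1799, .ofNat 0, .ofNat 128, .ofNat 185, .negSucc 55, .ofNat 0, .ofNat 160, .negSucc 7, .ofNat 0, .ofNat 0, .ofNat 335, .ofNat 1870, .ofNat 0, .ofNat 0, .ofNat 4788849158843291646655510717069972222246912, .ofNat 0, .ofNat 0, .ofNat 0, .ofNat 136899698322820992774831886638926671772647424, .ofNat 0, .ofNat 0, .ofNat 0, .ofNat 221158516825565537329044860724152478153572352, .ofNat 0, .ofNat 0, .ofNat 0, .ofNat 99006139390323157650333075726493286701989888, .ofNat 0⟩)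
    (by decide +kernel)
theorem L01188 : Good (Phi V5.P V5.D (-1) 1) ⟨2, 1, 2, 2, 3, 7, 3, 5, 5, 6⟩ :=
  leafX_sound T5.ok_mp T5.Ymp.bz_eq (w := 220) (c := ⟨⟨.negSucc 1550, .negSucc 64, .negSucc 75, .ofNat 296, .ofNat 269, .ofNat 163⟩, ⟨.negSucc 829, .ofNat 153, .negSucc 253, .ofNat 120, .ofNat 151, .ofNat 89⟩, ⟨.ofNat 642, .ofNat 6, .ofNat 93, .negSucc 107, .negSucc 96, .negSucc 26⟩, ⟨.negSucc 3650, .ofNat 498, .ofNat 156, .ofNat 810, .ofNat 356, .ofNat 244⟩, ⟨.negSucc 1071, .negSucc 211, .negSucc 251, .negSucc 204, .ofNat 629, .ofNat 315⟩, .ofNat 741, .negSucc 600, .ofNat 0, .negSucc 600, .ofNat 1572, .ofNat 0, .ofNat 248, .ofNat 128, .negSucc 69, .ofNat 0, .ofNat 119, .ofNat 5, .ofNat 0, .ofNat 0, .ofNat 416, .ofNat 517, .ofNat 0, .ofNat 0, .ofNat 232949530143739857121095599100380546334720, .ofNat 0, .ofNat 0, .ofNat 0, .ofNat 0, .ofNat 0, .ofNat 0, .ofNat 0, .ofNat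 43607063583867582015140404368584152501452800, .ofNat 0, .ofNat 0, .ofNat 0, .ofNat 18344577499266023085998720507134360281939968, .ofNat 0⟩)
    (by decide +kernel)
theorem L01189 : Good (Phi V5.P V5.D (-1) 1) ⟨2, 1, 2, 2, 3, 7, 2, 2, 5, 7⟩ :=
  leafX_sound T5.ok_mp T5.Ymp.bz_eq (w := 216) (c := ⟨⟨.negSucc 1560, .negSucc 86, .negSucc 27, .ofNat 224, .ofNat 403, .ofNat 162⟩, ⟨.negSucc 847, .ofNat 142, .negSucc 256, .ofNat 106, .ofNat 239, .ofNat 90⟩, ⟨.ofNat 733, .ofNat 12, .ofNat 76, .negSucc 98, .negSucc 204, .negSucc 67⟩, ⟨.negSucc 3646, .ofNat 439, .ofNat 241, .ofNat 666, .ofNat 550, .ofNat 292⟩, ⟨.negSucc 1134, .negSucc 238, .negSucc 217, .negSucc 242, .ofNat 946, .ofNat 224⟩, .ofNat 754, .negSucc 614, .ofNat 0, .negSucc 614, .ofNat 1578, .ofNat 0, .ofNat 205, .ofNat 128, .negSucc 41, .ofNat 0, .ofNat 126, .ofNat 10, .ofNat 0, .ofNat 0, .ofNat 450, .ofNat 514, .ofNat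 0, .ofNat 0, .ofNat 10742994789866562503769656933657197150208, .ofNat 0, .ofNat 0, .ofNat 0, .ofNat 0, .ofNat 0, .ofNat 0, .ofNat 3471945151502544208064063266660169224814592, .ofNat 3426003449410150186488266948764083674939392, .ofNat 0, .ofNat 0, .ofNat 9487547324220789008354709826677749435072512, .ofNat 3237709001518370451095709862749950737121280, .ofNat 0⟩)
    (by decide +kernel)
theorem L01190 : Good (Phi V5.P V5.D (-1) 1) ⟨2, 1, 2, 2, 3, 7, 2, 3, 4, 3⟩ :=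
  leafX_sound T5.ok_mp T5.Ymp.bz_eq (w := 211) (c := ⟨⟨.negSucc 1359, .ofNat 72, .ofNat 40, .ofNat 328, .ofNat 635, .ofNat 320⟩, ⟨.negSucc 724, .ofNat 183, .negSucc 188, .ofNat 172, .ofNat 452, .ofNat 181⟩, ⟨.ofNat 573, .negSucc 189, .ofNat 33, .ofNat 16, .negSucc 79, .negSucc 77⟩, ⟨.negSucc 3390, .ofNat 842, .ofNat 278, .ofNat 768, .ofNat 646, .ofNat 399⟩, ⟨.negSucc 588, .negSucc 298, .negSucc 98, .ofNat 84, .ofNat 1919, .ofNat 778⟩, .ofNat 745, .negSucc 608, .ofNat 0, .negSucc 608, .ofNat 1579, .ofNat 0, .ofNat 273, .ofNat 128, .negSucc 61, .ofNat 0, .ofNat 116, .ofNat 5, .ofNat 0, .ofNat 0, .ofNat 357, .ofNat 194, .ofNat 0, .ofNat 8244965325318841003908265684706957197312, .ofNat 0, .ofNat 0, .ofNat 0, .ofNat 0, .ofNat 0, .ofNat 0, .ofNat 0, .ofNat 715595869973864232544138693593712568565760, .ofNat 44303451746139472006936782962373796298752, .ofNat 0, .ofNat 0, .ofNat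 1368414320608985281696706973629300550402048, .ofNat 74042924024354001525039539494086909100032, .ofNat 0⟩)
    (by decide +kernel)
theorem L01191 : Good (Phi V5.P V5.D (-1) 1) ⟨2, 1, 2, 3, 1, 1, 1, 1, 3, 1⟩ :=
  out_sound (S := T5.ds_mp) T5.ok_mp (w := 37) (j := 3) (by decide +kernel)
theorem L01192 : Good (Phi V5.P V5.D (-1) 1) ⟨2, 1, 2, 2, 2, 2, 2, 2, 4, 4⟩ :=
  leafX_sound T5.ok_mp T5.Ymp.bz_eq (w := 198) (c := ⟨⟨.negSucc 1457, .negSucc 341, .negSucc 52, .ofNat 58, .ofNat 211, .ofNat 163⟩, ⟨.negSucc 783, .ofNat 85, .negSucc 310, .ofNat 16, .ofNat 124, .ofNat 93⟩, ⟨.ofNat 1099, .ofNat 314, .ofNat 11, .negSucc 290, .negSucc 445, .negSucc 95⟩, ⟨.negSucc 3772, .negSucc 96, .negSucc 39, .ofNat 206, .ofNat 374, .ofNat 344⟩, ⟨.negSucc 508, .ofNat 20, .negSucc 12, .negSucc 150, .ofNat 333, .ofNat 143⟩, .ofNat 754, .negSucc 618, .ofNat 0, .negSucc 618, .ofNat 1588, .ofNat 0,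 .ofNat 139, .ofNat 128, .negSucc 46, .ofNat 0, .ofNat 116, .negSucc 11, .ofNat 0, .ofNat 0, .ofNat 436, .ofNat 1171, .ofNat 0, .ofNat 0, .ofNat 0, .ofNat 0, .ofNat 0, .ofNat 0, .ofNat 0, .ofNat 0, .ofNat 0, .ofNat 197007183591282692352982994951899971584, .ofNat 10407185638964829030746388924718907392, .ofNat 0, .ofNat 0, .ofNat 205745079985633508536963988110534770688, .ofNat 5508937946085956928431017705613557760, .ofNat 0⟩)
    (by decide +kernel)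
theorem L01193 : Good (Phi V5.P V5.D (-1) 1) ⟨2, 1, 2, 2, 3, 6, 2, 2, 4, 4⟩ :=
  leafX_sound T5.ok_mp T5.Ymp.bz_eq (w := 210) (c := ⟨⟨.negSucc 1472, .negSucc 201, .negSucc 43, .ofNat 133, .ofNat 262, .ofNat 231⟩, ⟨.negSucc 785, .ofNat 107, .negSucc 296, .ofNat 56, .ofNat 157, .ofNat 130⟩, ⟨.ofNat 877, .ofNat 86, .ofNat 35, .negSucc 192, .negSucc 358, .negSucc 136⟩, ⟨.negSucc 3630, .ofNat 136, .ofNat 54, .ofNat 397, .ofNat 351, .ofNat 447⟩, ⟨.negSucc 796, .negSucc 9, .negSucc 87, .negSucc 134, .ofNat 663, .ofNat 285⟩, .ofNat 733, .negSucc 591, .ofNat 0, .negSucc 591, .ofNat 1562, .ofNat 0, .ofNat 128, .ofNat 145, .negSucc 22, .ofNat 0, .ofNat 138, .negSucc 0, .ofNat 0, .ofNat 0, .ofNat 321, .ofNat 273, .ofNat 0, .ofNat 0, .ofNat 0, .ofNat 0, .ofNat 0, .ofNat 0, .ofNat 0, .ofNat 0, .ofNat 0, .ofNat 0, .ofNat 0, .ofNat 0, .ofNat 0, .ofNat 573710847884777772989893177785066046095360,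 .ofNat 44649378271026703114168377611817752461312, .ofNat 0⟩)
    (by decide +kernel)
theorem L01194 : Good (Phi V5.P V5.D (-1) 1) ⟨2, 1, 2, 2, 3, 7, 2, 2, 4, 4⟩ :=
  leafX_sound T5.ok_mp T5.Ymp.bz_eq (w := 211) (c := ⟨⟨.negSucc 1437, .negSucc 42, .negSucc 7, .ofNat 240, .ofNat 386, .ofNat 294⟩, ⟨.negSucc 778, .ofNat 150, .negSucc 232, .ofNat 113, .ofNat 221, .ofNat 177⟩, ⟨.ofNat 688, .negSucc 51, .ofNat 65, .negSucc 80, .negSucc 244, .negSucc 69⟩, ⟨.negSucc 3413, .ofNat 513, .ofNat 289, .ofNat 673, .ofNat 502, .ofNat 520⟩, ⟨.negSucc 943, .negSucc 230, .negSucc 217, .negSucc 181, .ofNat 879, .ofNat 450⟩, .ofNat 759, .negSucc 626, .ofNat 0, .negSucc 626, .ofNat 1594, .ofNat 0, .ofNat 314, .ofNat 128, .negSucc 26, .ofNat 0, .ofNat 127, .ofNat 13, .ofNat 0, .ofNat 0, .ofNat 532, .ofNat 371, .ofNat 0, .ofNat 0, .ofNat 0, .ofNat 0, .ofNat 0, .ofNat 0, .ofNat 0, .ofNat 0, .ofNat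 0, .ofNat 903622374435311618865963169506144970342400, .ofNat 111037670400156747527181492432926301749248, .ofNat 0, .ofNat 0, .ofNat 2888045941292663948662652125685500312813568, .ofNat 134672768919079249086881508333273292472320, .ofNat 0⟩)
    (by decide +kernel)
theorem L01195 : Good (Phi V5.P V5.D (-1) 1) ⟨2, 1, 2, 2, 2, 2, 2, 2, 4, 5⟩ :=
  leafX_sound T5.ok_mp T5.Ymp.bz_eq (w := 198) (c := ⟨⟨.negSucc 1335, .negSucc 281, .negSucc 44, .ofNat 92, .ofNat 187, .ofNat 195⟩, ⟨.negSucc 701, .ofNat 84, .negSucc 286, .ofNat 45, .ofNat 106, .ofNat 81⟩, ⟨.ofNat 1061, .ofNat 250, .ofNat 4, .negSucc 312, .negSucc 502, .negSucc 186⟩, ⟨.negSucc 3458, .negSucc 24, .negSucc 41, .ofNat 252, .ofNat 306, .ofNat 375⟩, ⟨.negSucc 420, .ofNat 20, .negSucc 4, .negSucc 47, .ofNat 329, .ofNat 159⟩, .ofNat 763, .negSucc 628, .ofNat 0, .negSucc 628, .ofNat 1593, .ofNat 0, .ofNat 150, .ofNat 128,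 .negSucc 29, .ofNat 0, .ofNat 119, .negSucc 7, .ofNat 0, .ofNat 0, .ofNat 514, .ofNat 1361, .ofNat 0, .ofNat 0, .ofNat 0, .ofNat 0, .ofNat 0, .ofNat 0, .ofNat 0, .ofNat 0, .ofNat 0, .ofNat 288687856471253494481192850611201114112, .ofNat 16775456172962995508118914401627537408, .ofNat 0, .ofNat 0, .ofNat 397719766972780500832924159933878894592, .ofNat 4952601353447914696697107774309400576, .ofNat 0⟩)
    (by decide +kernel)
theorem L01196 : Good (Phi V5.P V5.D (-1) 1) ⟨2, 1, 2, 2, 2, 3, 2, 2, 4, 5⟩ :=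
  leafX_sound T5.ok_mp T5.Ymp.bz_eq (w := 198) (c := ⟨⟨.negSucc 1271, .negSucc 150, .negSucc 18, .ofNat 272, .ofNat 226, .ofNat 196⟩, ⟨.negSucc 674, .ofNat 117, .negSucc 260, .ofNat 131, .ofNat 133, .ofNat 110⟩, ⟨.ofNat 795, .ofNat 9, .negSucc 1, .negSucc 425, .negSucc 419, .negSucc 110⟩, ⟨.negSucc 3213, .ofNat 211, .ofNat 73, .ofNat 745, .ofNat 293, .ofNat 379⟩, ⟨.negSucc 556, .ofNat 22, .negSucc 48, .negSucc 116, .ofNat 562, .ofNat 241⟩, .ofNat 420, .negSucc 187, .ofNat 0, .negSucc 187, .ofNat 669, .ofNat 0, .ofNat 308, .ofNat 80, .negSucc 34, .ofNat 0, .ofNat 128, .ofNat 14, .ofNat 0, .ofNat 0, .ofNat 643, .ofNat 1784, .ofNat 0, .ofNat 0, .ofNat 0, .ofNat 0, .ofNat 0, .ofNat 1393949074116398154472526955075996745728, .ofNat 14852765960634011300281017473773338624, .ofNat 0, .ofNat 0, .ofNat 1080298342988654476840601820312083890176, .ofNat 0, .ofNat 0, .ofNat 0, .ofNat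 1709197786562413194232398628426168139776, .ofNat 15399394778014584935034334790627098624, .ofNat 0⟩)
    (by decide +kernel)
theorem L01197 : Good (Phi V5.P V5.D (-1) 1) ⟨2, 1, 2, 2, 1, 1, 2, 3, 4, 4⟩ :=
  leafX_sound T5.ok_mp T5.Ymp.bz_eq (w := 183) (c := ⟨⟨.negSucc 1302, .negSucc 138, .ofNat 10, .ofNat 159, .ofNat 415, .ofNat 125⟩, ⟨.negSucc 683, .ofNat 131, .negSucc 262, .ofNat 95, .ofNat 245, .ofNat 77⟩, ⟨.ofNat 786, .ofNat 8, .negSucc 130, .negSucc 502, .negSucc 652, .negSucc 140⟩, ⟨.negSucc 3420, .ofNat 209, .ofNat 38, .ofNat 228, .ofNat 712, .ofNat 240⟩, ⟨.negSucc 320, .ofNat 192, .negSucc 18, .ofNat 345, .ofNat 713, .ofNat 178⟩, .ofNat 769, .negSucc 634, .ofNat 0, .negSucc 634, .ofNat 1598, .ofNat 0, .ofNat 152, .ofNat 128, .negSucc 46, .ofNat 0, .ofNat 115, .negSucc 13, .ofNat 0, .ofNat 0, .ofNat 404, .ofNat 397, .ofNat 0, .ofNat 0, .ofNat 0, .ofNat 0, .ofNat 0,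 .ofNat 92892824441136317744207981547880448, .ofNat 0, .ofNat 0, .ofNat 0, .ofNat 100239111278051808785289334226944000, .ofNat 168983997322629897870707873808384, .ofNat 0, .ofNat 0, .ofNat 87115917475496254395088247946477568, .ofNat 168578756350466217579562835902464, .ofNat 0⟩)
    (by decide +kernel)
theorem L01198 : Good (Phi V5.P V5.D (-1) 1) ⟨2, 1, 2, 2, 1, 1, 2, 3, 4, 5⟩ :=
  leafX_sound T5.ok_mp T5.Ymp.bz_eq (w := 183) (c := ⟨⟨.negSucc 1163, .negSucc 131, .ofNat 20, .ofNat 141, .ofNat 317, .ofNat 112⟩, ⟨.negSucc 604, .ofNat 128, .negSucc 230, .ofNat 94, .ofNat 177, .ofNat 61⟩, ⟨.ofNat 652, .negSucc 11, .negSucc 167, .negSucc 547, .negSucc 641, .negSucc 148⟩, ⟨.negSucc 3129, .ofNat 217, .ofNat 59, .ofNat 117, .ofNat 440, .ofNat 206⟩, ⟨.negSucc 138, .ofNat 137, .ofNat 2, .ofNat 464, .ofNat 671, .ofNat 143⟩, .ofNat 420, .negSucc 187, .ofNat 0, .negSucc 187, .ofNat 668,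 .ofNat 0, .ofNat 137, .ofNat 87, .negSucc 33, .ofNat 0, .ofNat 128, .negSucc 8, .ofNat 0, .ofNat 0, .ofNat 358, .ofNat 761, .ofNat 0, .ofNat 0, .ofNat 0, .ofNat 0, .ofNat 0, .ofNat 117076314137248611201930305896185856, .ofNat 467414600654413869650926337261568, .ofNat 0, .ofNat 0, .ofNat 179754150936979383480566927752953856, .ofNat 0, .ofNat 0, .ofNat 0, .ofNat 126156596674417594632230992657514496, .ofNat 128970381547570177624604229500928, .ofNat 0⟩)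
    (by decide +kernel)
theorem L01199 : Good (Phi V5.P V5.D (-1) 1) ⟨2, 1, 2, 3, 1, 1, 1, 1, 3, 2⟩ :=
  out_sound (S := T5.ds_mp) T5.ok_mp (w := 37) (j := 3) (by decide +kernel)
theorem L01200 : Good (Phi V5.P V5.D (-1) 1) ⟨2, 1, 1, 1, 2, 2, 1, 1, 3, 3⟩ :=
  leafX_sound T5.ok_mp T5.Ymp.bz_eq (w := 185) (c := ⟨⟨.negSucc 1220, .negSucc 200, .negSucc 13, .ofNat 114, .ofNat 324, .ofNat 251⟩, ⟨.negSucc 643, .ofNat 103, .negSucc 510, .ofNat 58, .ofNat 212, .ofNat 114⟩, ⟨.ofNat 1041, .ofNat 107, .negSucc 180, .negSucc 334, .negSucc 1177, .negSucc 284⟩, ⟨.negSucc 3195, .ofNat 98, .ofNat 36, .ofNat 299, .ofNat 545, .ofNat 521⟩, ⟨.negSucc 329, .ofNat 47, .ofNat 0, .negSucc 10, .ofNat 635, .ofNat 194⟩, .ofNat 420, .negSucc 187, .ofNat 0, .negSucc 187, .ofNat 669, .ofNat 0, .ofNat 251, .ofNat 82, .negSucc 30, .ofNat 0, .ofNat 128, .negSucc 7, .ofNat 0, .ofNat 0, .ofNat 803, .ofNat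 549, .ofNat 0, .ofNat 0, .ofNat 0, .ofNat 0, .ofNat 0, .ofNat 4437875913931275509574877298210897920, .ofNat 0, .ofNat 0, .ofNat 0, .ofNat 2279992376582807428341747406317027328, .ofNat 0, .ofNat 0, .ofNat 0, .ofNat 5669194160426935556686529197458325504, .ofNat 7348012202339276898832308022280192, .ofNat 0⟩)
    (by decide +kernel)
theorem L01201 : Good (Phi V5.P V5.D (-1) 1) ⟨2, 1, 1, 1, 2, 3, 1, 1, 3, 3⟩ :=
  out_sound (S := T5.ds_mp) T5.ok_mp (w := 26) (j := 2) (by decide +kernel)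
theorem L01202 : Good (Phi V5.P V5.D (-1) 1) ⟨2, 1, 1, 1, 4, 8, 3, 4, 4, 8⟩ :=
  out_sound (S := T5.ds_mp) T5.ok_mp (w := 29) (j := 1) (by decide +kernel)
theorem L01203 : Good (Phi V5.P V5.D (-1) 1) ⟨2, 1, 1, 1, 4, 8, 3, 5, 4, 8⟩ :=
  out_sound (S := T5.ds_mp) T5.ok_mp (w := 36) (j := 2) (by decide +kernel)
theorem L01204 : Good (Phi V5.P V5.D (-1) 1) ⟨2, 1, 1, 1, 4, 8, 2, 2, 4, 9⟩ :=
  out_sound (S := T5.ds_mp) T5.ok_mp (w := 28) (j := 1) (by decide +kernel)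
theorem L01205 : Good (Phi V5.P V5.D (-1) 1) ⟨2, 1, 1, 1, 4, 9, 2, 2, 3, 4⟩ :=
  out_sound (S := T5.ds_mp) T5.ok_mp (w := 32) (j := 2) (by decide +kernel)
theorem L01206 : Good (Phi V5.P V5.D (-1) 1) ⟨2, 1, 1, 1, 3, 4, 2, 3, 3, 4⟩ :=
  out_sound (S := T5.ds_mp) T5.ok_mp (w := 30) (j := 2) (by decide +kernel)
theorem L01207 : Good (Phi V5.P V5.D (-1) 1) ⟨2, 1, 1, 1, 3, 4, 1, 1, 3, 5⟩ :=
  out_sound (S := T5.ds_mp) T5.ok_mp (w := 28) (j := 2) (by decide +kernel)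
theorem L01208 : Good (Phi V5.P V5.D (-1) 1) ⟨2, 1, 1, 1, 3, 5, 1, 1, 2, 2⟩ :=
  out_sound (S := T5.ds_mp) T5.ok_mp (w := 26) (j := 2) (by decide +kernel)
theorem L01209 : Good (Phi V5.P V5.D (-1) 1) ⟨2, 1, 1, 1, 2, 2, 1, 1, 2, 3⟩ :=
  out_sound (S := T5.ds_mp) T5.ok_mp (w := 24) (j := 2) (by decide +kernel)
theorem L01210 : Good (Phi V5.P V5.D (-1) 1) ⟨2, 1, 1, 1, 2, 3, 1, 1, 1, 1⟩ :=
  out_sound (S := T5.ds_mp) T5.ok_mp (w := 22) (j := 2) (by decide +kernel)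
theorem L01211 : Good (Phi V5.P V5.D (-1) 1) ⟨2, 2, 2, 0, 2, 0, 2, 0, 5, 0⟩ :=
  leafX_sound T5.ok_mp T5.Ymp.bz_eq (w := 202) (c := ⟨⟨.ofNat 1000, .ofNat 379, .negSucc 76, .negSucc 195, .ofNat 259, .negSucc 1260⟩, ⟨.negSucc 4, .negSucc 184, .ofNat 116, .negSucc 47, .negSucc 9, .ofNat 18⟩, ⟨.negSucc 991, .negSucc 362, .ofNat 93, .ofNat 267, .negSucc 411, .ofNat 1249⟩, ⟨.ofNat 2140, .ofNat 326, .negSucc 99, .negSucc 402, .ofNat 509, .negSucc 2613⟩, ⟨.ofNat 26, .negSucc 73, .ofNat 10, .negSucc 677, .ofNat 165, .negSucc 90⟩, .ofNat 319, .ofNat 10, .ofNat 0, .ofNat 10, .ofNat 652, .ofNat 0, .ofNat 247, .negSucc 6, .negSucc 367, .ofNat 0, .ofNat 128, .ofNat 14, .ofNat 0, .ofNat 0, .ofNat 620, .ofNat 2012, .ofNat 0, .ofNat 0, .ofNat 0, .ofNat 0, .ofNat 0, .ofNat 0, .ofNat 278124502122868243998714520385093632000, .ofNat 0, .ofNat 0, .ofNat 0, .ofNat 313282309634397249055136910384780279808,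 .ofNat 0, .ofNat 0, .ofNat 0, .ofNat 766348682817797922227541940870192300032, .ofNat 0⟩)
    (by decide +kernel)
theorem L01212 : Good (Phi V5.P V5.D (-1) 1) ⟨2, 2, 2, 0, 2, 1, 3, 0, 5, 0⟩ :=
  leafX_sound T5.ok_mp T5.Ymp.bz_eq (w := 206) (c := ⟨⟨.ofNat 755, .ofNat 593, .negSucc 287, .ofNat 564, .ofNat 248, .negSucc 1252⟩, ⟨.ofNat 24, .negSucc 427, .ofNat 82, .negSucc 191, .ofNat 16, .ofNat 76⟩, ⟨.negSucc 650, .negSucc 358, .ofNat 245, .ofNat 199, .negSucc 328, .ofNat 773⟩, ⟨.ofNat 1716, .ofNat 337, .negSucc 321, .ofNat 950, .ofNat 456, .negSucc 2475⟩, ⟨.negSucc 577, .negSucc 488, .ofNat 52, .negSucc 1354, .ofNat 204, .negSucc 29⟩, .ofNat 313, .ofNat 12, .ofNat 0, .ofNat 12, .ofNat 637, .ofNat 0, .ofNat 292, .negSucc 16, .negSucc 207, .ofNat 0, .ofNat 128, .ofNat 20, .ofNat 0, .ofNat 0, .ofNat 412, .ofNat 2495, .ofNat 0, .ofNat 0, .ofNat 51252908076437994917716291776143163392,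 .ofNat 0, .ofNat 0, .ofNat 0, .ofNat 0, .ofNat 0, .ofNat 0, .ofNat 0, .ofNat 3011366181936506947792511946632107917312, .ofNat 0, .ofNat 0, .ofNat 0, .ofNat 0, .ofNat 0⟩)
    (by decide +kernel)
theorem L01213 : Good (Phi V5.P V5.D (-1) 1) ⟨2, 2, 2, 0, 2, 1, 3, 1, 5, 0⟩ :=
  leafX_sound T5.ok_mp T5.Ymp.bz_eq (w := 206) (c := ⟨⟨.ofNat 1046, .ofNat 512, .negSucc 231, .ofNat 522, .ofNat 51, .negSucc 1425⟩, ⟨.negSucc 18, .negSucc 360, .ofNat 109, .negSucc 146, .ofNat 4, .ofNat 100⟩, ⟨.negSucc 1002, .negSucc 361, .ofNat 260, .negSucc 113, .negSucc 126, .ofNat 1077⟩, ⟨.ofNat 2222, .ofNat 362, .negSucc 238, .ofNat 940, .ofNat 59, .negSucc 2815⟩, ⟨.negSucc 530, .negSucc 277, .negSucc 31, .negSucc 905, .ofNat 211, .negSucc 86⟩, .ofNat 313, .ofNat 12, .ofNat 0, .ofNat 12, .ofNat 637, .ofNat 0, .ofNat 318, .negSucc 13, .negSucc 265, .ofNat 0, .ofNat 128, .ofNat 23, .ofNat 0, .ofNat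 0, .ofNat 432, .ofNat 1116, .ofNat 0, .ofNat 0, .ofNat 0, .ofNat 0, .ofNat 0, .ofNat 0, .ofNat 0, .ofNat 0, .ofNat 0, .ofNat 0, .ofNat 4310545998130493862720802479700688502784, .ofNat 0, .ofNat 0, .ofNat 0, .ofNat 0, .ofNat 0⟩)
    (by decide +kernel)
theorem L01214 : Good (Phi V5.P V5.D (-1) 1) ⟨2, 2, 2, 0, 1, 0, 2, 0, 5, 1⟩ :=
  leafX_sound T5.ok_mp T5.Ymp.bz_eq (w := 187) (c := ⟨⟨.negSucc 162, .negSucc 131, .negSucc 145, .ofNat 357, .negSucc 12, .negSucc 1074⟩, ⟨.ofNat 60, .negSucc 35, .negSucc 100, .negSucc 260, .ofNat 42, .ofNat 91⟩, ⟨.ofNat 344, .ofNat 130, .ofNat 133, .negSucc 534, .negSucc 237, .ofNat 958⟩, ⟨.negSucc 432, .negSucc 165, .negSucc 165, .ofNat 429, .ofNat 65, .negSucc 1972⟩, ⟨.ofNat 90, .negSucc 599, .ofNat 163, .negSucc 1729, .ofNat 194, .ofNat 122⟩, .ofNat 420, .ofNat 43, .ofNat 0, .ofNat 43, .ofNat 1312, .ofNat 0, .ofNat 274, .negSucc 23, .negSucc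 217, .ofNat 0, .ofNat 128, .ofNat 16, .ofNat 0, .ofNat 0, .ofNat 470, .ofNat 670, .ofNat 0, .ofNat 0, .ofNat 0, .ofNat 0, .ofNat 0, .ofNat 0, .ofNat 0, .ofNat 0, .ofNat 0, .ofNat 0, .ofNat 33919012580612621199358746834239488, .ofNat 0, .ofNat 0, .ofNat 0, .ofNat 0, .ofNat 0⟩)
    (by decide +kernel)
theorem L01215 : Good (Phi V5.P V5.D (-1) 1) ⟨2, 3, 2, 0, 1, 0, 2, 0, 4, 0⟩ :=
  out_sound (S := T5.ds_mp) T5.ok_mp (w := 37) (j := 3) (by decide +kernel)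
theorem L01216 : Good (Phi V5.P V5.D (-1) 1) ⟨2, 2, 2, 0, 1, 0, 2, 1, 4, 0⟩ :=
  leafX_sound T5.ok_mp T5.Ymp.bz_eq (w := 182) (c := ⟨⟨.ofNat 1289, .negSucc 79, .negSucc 62, .negSucc 34, .negSucc 435, .negSucc 2436⟩, ⟨.negSucc 9, .negSucc 53, .negSucc 119, .negSucc 46, .ofNat 46, .ofNat 76⟩, ⟨.negSucc 1276, .negSucc 11, .ofNat 132, .negSucc 179, .ofNat 352, .ofNat 2323⟩, ⟨.ofNat 2571, .negSucc 126, .negSucc 116, .ofNat 22, .negSucc 953, .negSucc 4935⟩, ⟨.ofNat 100, .negSucc 90, .ofNat 62, .negSucc 998, .ofNat 67, .negSucc 138⟩, .ofNat 316, .ofNat 17, .ofNat 0, .ofNat 17, .ofNat 650, .ofNat 0, .ofNat 240, .negSucc 11, .negSucc 388, .ofNat 0, .ofNat 128, .ofNat 26, .ofNat 0, .ofNat 0, .ofNat 580, .ofNat 283, .ofNat 0, .ofNat 0, .ofNat 0, .ofNat 0, .ofNat 0, .ofNat 0, .ofNat 304730028294586574659400025243648, .ofNat 0, .ofNat 0, .ofNat 0, .ofNat 612438424998191600290242874048512,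 .ofNat 0, .ofNat 0, .ofNat 0, .ofNat 0, .ofNat 0⟩)
    (by decide +kernel)
theorem L01217 : Good (Phi V5.P V5.D (-1) 1) ⟨2, 3, 2, 0, 1, 0, 2, 1, 4, 0⟩ :=
  out_sound (S := T5.ds_mp) T5.ok_mp (w := 37) (j := 3) (by decide +kernel)
theorem L01218 : Good (Phi V5.P V5.D (-1) 1) ⟨2, 2, 2, 0, 1, 0, 1, 0, 4, 1⟩ :=
  leafX_sound T5.ok_mp T5.Ymp.bz_eq (w := 178) (c := ⟨⟨.negSucc 866, .negSucc 841, .negSucc 65, .negSucc 79, .negSucc 17, .negSucc 953⟩, ⟨.ofNat 34, .ofNat 347, .negSucc 341, .negSucc 141, .ofNat 30, .ofNat 61⟩, ⟨.ofNat 1101, .ofNat 777, .ofNat 141, .negSucc 716, .negSucc 209, .ofNat 1008⟩, ⟨.negSucc 2102, .negSucc 764, .negSucc 82, .negSucc 232, .negSucc 55, .negSucc 1812⟩, ⟨.negSucc 278, .ofNat 25, .ofNat 117, .negSucc 1265, .ofNat 362, .ofNat 280⟩, .ofNat 318, .ofNat 11, .ofNat 0, .ofNat 11, .ofNat 650, .ofNat 0, .ofNat 220, .negSucc 9, .negSucc 212, .ofNat 0, .ofNat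 128, .ofNat 20, .ofNat 0, .ofNat 0, .ofNat 483, .ofNat 428, .ofNat 1584093535538900916916186635042816, .ofNat 0, .ofNat 313242647511311484176794910720, .ofNat 0, .ofNat 0, .ofNat 0, .ofNat 14769779076193555872342901522432, .ofNat 0, .ofNat 0, .ofNat 0, .ofNat 0, .ofNat 0, .ofNat 0, .ofNat 0, .ofNat 0, .ofNat 0⟩)
    (by decide +kernel)
theorem L01219 : Good (Phi V5.P V5.D (-1) 1) ⟨2, 3, 2, 0, 1, 0, 1, 0, 4, 1⟩ :=
  out_sound (S := T5.ds_mp) T5.ok_mp (w := 37) (j := 3) (by decide +kernel)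
theorem L01220 : Good (Phi V5.P V5.D (-1) 1) ⟨2, 2, 2, 0, 1, 0, 2, 0, 3, 1⟩ :=
  leafX_sound T5.ok_mp T5.Ymp.bz_eq (w := 179) (c := ⟨⟨.negSucc 1936, .negSucc 911, .negSucc 14, .negSucc 341, .ofNat 78, .ofNat 239⟩, ⟨.ofNat 42, .ofNat 461, .negSucc 397, .negSucc 34, .ofNat 12, .negSucc 12⟩, ⟨.ofNat 2001, .ofNat 1043, .ofNat 178, .negSucc 365, .negSucc 245, .ofNat 250⟩, ⟨.negSucc 4319, .negSucc 612, .ofNat 10, .negSucc 692, .ofNat 188, .ofNat 460⟩, ⟨.negSucc 184, .ofNat 61, .ofNat 68, .negSucc 696, .ofNat 143, .ofNat 149⟩, .ofNat 313, .ofNat 12, .ofNat 0, .ofNat 12, .ofNat 637, .ofNat 0, .ofNat 502, .negSucc 8, .negSucc 171, .ofNat 0, .ofNat 128, .ofNat 29, .ofNat 0, .ofNat 0, .ofNat 727, .ofNat 2550, .ofNat 0, .ofNat 0, .ofNat 0, .ofNat 0, .ofNat 0, .ofNat 0, .ofNat 0, .ofNat 0, .ofNat 19702558624801205827474797713424384, .ofNat 0, .ofNat 25031281704135159898713752600576,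 .ofNat 0, .ofNat 423510258194116264691559189350187008, .ofNat 0, .ofNat 27791702475972355107308821282816, .ofNat 0⟩)
    (by decide +kernel)
theorem L01221 : Good (Phi V5.P V5.D (-1) 1) ⟨2, 2, 2, 0, 1, 0, 2, 1, 3, 1⟩ :=
  leafX_sound T5.ok_mp T5.Ymp.bz_eq (w := 179) (c := ⟨⟨.negSucc 1890, .negSucc 875, .negSucc 40, .negSucc 324, .ofNat 171, .ofNat 260⟩, ⟨.ofNat 37, .ofNat 459, .negSucc 389, .negSucc 25, .ofNat 8, .negSucc 7⟩, ⟨.ofNat 1939, .ofNat 913, .ofNat 92, .negSucc 336, .negSucc 295, .ofNat 18⟩, ⟨.negSucc 4183, .negSucc 572, .negSucc 59, .negSucc 652, .ofNat 346, .ofNat 501⟩, ⟨.negSucc 67, .ofNat 59, .ofNat 12, .negSucc 557, .ofNat 111, .ofNat 77⟩, .ofNat 318, .ofNat 17, .ofNat 0, .ofNat 17, .ofNat 655, .ofNat 0, .ofNat 413, .negSucc 12, .negSucc 230, .ofNat 0, .ofNat 128, .ofNat 32, .ofNat 0, .ofNat 0, .ofNat 813, .ofNat 1163, .ofNat 0, .ofNat 0, .ofNat 192761821479765750703754051584,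 .ofNat 0, .ofNat 0, .ofNat 0, .ofNat 37551484850713421741249695580160, .ofNat 0, .ofNat 0, .ofNat 0, .ofNat 29605662593070621093844876263424, .ofNat 0, .ofNat 0, .ofNat 0, .ofNat 0, .ofNat 0⟩)
    (by decide +kernel)
theorem L01222 : Good (Phi V5.P V5.D (-1) 1) ⟨2, 3, 2, 0, 1, 0, 1, 0, 3, 1⟩ :=
  out_sound (S := T5.ds_mp) T5.ok_mp (w := 37) (j := 3) (by decide +kernel)
theorem L01223 : Good (Phi V5.P V5.D (-1) 1) ⟨2, 2, 2, 0, 1, 0, 2, 0, 4, 4⟩ :=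
  leafX_sound T5.ok_mp T5.Ymp.bz_eq (w := 187) (c := ⟨⟨.negSucc 1814, .negSucc 768, .negSucc 44, .negSucc 256, .ofNat 113, .ofNat 264⟩, ⟨.ofNat 75, .ofNat 424, .negSucc 386, .negSucc 42, .negSucc 20, .negSucc 3⟩, ⟨.ofNat 2493, .ofNat 938, .ofNat 193, .negSucc 328, .negSucc 511, .negSucc 32⟩, ⟨.negSucc 3963, .negSucc 374, .negSucc 36, .negSucc 525, .ofNat 133, .ofNat 515⟩, ⟨.negSucc 233, .ofNat 12, .ofNat 55, .negSucc 595, .ofNat 290, .ofNat 43⟩, .ofNat 414, .ofNat 31, .ofNat 0, .ofNat 31, .ofNat 1270, .ofNat 0, .ofNat 244, .negSucc 14, .negSucc 88, .ofNat 0, .ofNat 128, .ofNat 14, .ofNat 0, .ofNat 0, .ofNat 813, .ofNat 15963, .ofNat 881776133180637695253440401772642304, .ofNat 0, .ofNat 0, .ofNat 0, .ofNat 2049981073541292978671826601020227584, .ofNat 0, .ofNat 1905970414118154812973954105344000, .ofNat 0, .ofNat 2523695945185337950536672481311195136, .ofNat 0, .ofNat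 5075095524700294199140035451682816, .ofNat 0, .ofNat 18583066238553292018057476357562040320, .ofNat 0, .ofNat 0, .ofNat 0⟩)
    (by decide +kernel)
theorem L01224 : Good (Phi V5.P V5.D (-1) 1) ⟨3, 4, 2, 0, 1, 0, 2, 1, 4, 4⟩ :=
  leafX_sound T5.ok_mp T5.Ymp.bz_eq (w := 190) (c := ⟨⟨.negSucc 1810, .negSucc 296, .negSucc 23, .negSucc 140, .ofNat 178, .ofNat 157⟩, ⟨.ofNat 41, .ofNat 159, .negSucc 320, .negSucc 34, .ofNat 4, .ofNat 4⟩, ⟨.ofNat 2057, .ofNat 350, .ofNat 59, .negSucc 249, .negSucc 464, .negSucc 59⟩, ⟨.negSucc 3996, .negSucc 113, .negSucc 20, .negSucc 279, .ofNat 359, .ofNat 335⟩, ⟨.negSucc 73, .ofNat 28, .ofNat 5, .negSucc 398, .ofNat 73, .ofNat 15⟩, .ofNat 327, .negSucc 8, .ofNat 0, .negSucc 8, .ofNat 682, .ofNat 0, .ofNat 336, .ofNat 5, .negSucc 128, .ofNat 0, .ofNat 128, .ofNat 14, .ofNat 0, .ofNat 0, .ofNat 828, .ofNat 7324, .ofNat 0, .ofNat 0, .ofNat 0, .ofNat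 0, .ofNat 0, .ofNat 0, .ofNat 82891253559964210121690587332608, .ofNat 0, .ofNat 0, .ofNat 0, .ofNat 0, .ofNat 0, .ofNat 0, .ofNat 0, .ofNat 0, .ofNat 0⟩)
    (by decide +kernel)
theorem L01225 : Good (Phi V5.P V5.D (-1) 1) ⟨3, 5, 2, 0, 1, 0, 2, 1, 4, 4⟩ :=
  leafX_sound T5.ok_mp T5.Ymp.bz_eq (w := 190) (c := ⟨⟨.negSucc 2152, .negSucc 380, .negSucc 25, .negSucc 160, .ofNat 206, .ofNat 218⟩, ⟨.ofNat 226, .ofNat 266, .negSucc 329, .negSucc 19, .negSucc 6, .negSucc 25⟩, ⟨.ofNat 2432, .ofNat 477, .ofNat 120, .negSucc 263, .negSucc 510, .negSucc 125⟩, ⟨.negSucc 4141, .negSucc 138, .negSucc 19, .negSucc 333, .ofNat 377, .ofNat 402⟩, ⟨.negSucc 61, .ofNat 44, .ofNat 31, .negSucc 373, .ofNat 55, .ofNat 14⟩, .ofNat 443, .ofNat 161, .ofNat 0, .ofNat 161, .ofNat 1545, .ofNat 0, .ofNat 267, .negSucc 63, .negSucc 133, .ofNat 0, .ofNat 128, .ofNat 24, .ofNat 0, .ofNat 0, .ofNat 848,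 .ofNat 5837, .ofNat 2366269765640236419600060561498308608, .ofNat 0, .ofNat 3873857167041559079896192385024, .ofNat 0, .ofNat 0, .ofNat 0, .ofNat 1374560982037512970788577952661504, .ofNat 0, .ofNat 0, .ofNat 0, .ofNat 2709995454468251324177961352953856, .ofNat 0, .ofNat 0, .ofNat 0, .ofNat 0, .ofNat 0⟩)
    (by decide +kernel)
theorem L01226 : Good (Phi V5.P V5.D (-1) 1) ⟨2, 2, 2, 0, 1, 0, 2, 0, 4, 5⟩ :=
  out_sound (S := T5.ds_mp) T5.ok_mp (w := 22) (j := 1) (by decide +kernel)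
theorem L01227 : Good (Phi V5.P V5.D (-1) 1) ⟨2, 2, 2, 0, 2, 0, 3, 2, 4, 5⟩ :=
  leafX_sound T5.ok_mp T5.Ymp.bz_eq (w := 209) (c := ⟨⟨.negSucc 1705, .negSucc 614, .negSucc 12, .negSucc 57, .ofNat 135, .ofNat 1⟩, ⟨.ofNat 159, .ofNat 400, .negSucc 316, .negSucc 51, .negSucc 97, .ofNat 0⟩, ⟨.ofNat 2113, .ofNat 715, .ofNat 35, .negSucc 107, .negSucc 310, .negSucc 0⟩, ⟨.negSucc 3648, .negSucc 197, .negSucc 7, .negSucc 160, .ofNat 184, .ofNat 2⟩, ⟨.negSucc 2, .ofNat 42, .ofNat 3, .negSucc 191, .ofNat 13, .ofNat 0⟩, .ofNat 170, .ofNat 2, .ofNat 0, .ofNat 2, .ofNat 234, .ofNat 0, .ofNat 128, .negSucc 3, .negSucc 55, .ofNat 0, .ofNat 167, .ofNat 12, .ofNat 0, .ofNat 0, .ofNat 267, .ofNat 297483, .ofNat 816334757994605375094948769311839517409280, .ofNat 0, .ofNat 0, .ofNat 0, .ofNat 847809152639683885121060352040173731577856, .ofNat 0, .ofNat 152118509180689373511208842169770049536,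 .ofNat 0, .ofNat 253469816717219847762575206949438481235968, .ofNat 0, .ofNat 0, .ofNat 0, .ofNat 803089129826389129412536506240648691580928, .ofNat 0, .ofNat 102887770913658957082660726401847525376, .ofNat 0⟩)
    (by decide +kernel)
theorem L01228 : Good (Phi V5.P V5.D (-1) 1) ⟨2, 2, 2, 0, 2, 0, 3, 3, 5, 10⟩ :=
  leafX_sound T5.ok_mp T5.Ymp.bz_eq (w := 210) (c := ⟨⟨.negSucc 1601, .negSucc 549, .negSucc 7, .negSucc 37, .ofNat 78, .ofNat 70⟩, ⟨.ofNat 24, .ofNat 369, .negSucc 287, .negSucc 17, .ofNat 13, .negSucc 9⟩, ⟨.ofNat 1786, .ofNat 592, .ofNat 9, .negSucc 32, .negSucc 230, .negSucc 56⟩, ⟨.negSucc 3535, .negSucc 142, .negSucc 10, .negSucc 84, .ofNat 166, .ofNat 134⟩, ⟨.negSucc 12, .ofNat 16, .ofNat 1, .negSucc 150, .ofNat 9, .ofNat 1⟩, .ofNat 170, .ofNat 1, .ofNat 0, .ofNat 1, .ofNat 234, .ofNat 0, .ofNat 144, .negSucc 0, .negSucc 62, .ofNat 0, .ofNat 128, .ofNat 6,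 .ofNat 0, .ofNat 0, .ofNat 315, .ofNat 15065, .ofNat 145658566373222332867630239570079711756288, .ofNat 0, .ofNat 0, .ofNat 0, .ofNat 0, .ofNat 0, .ofNat 8534834676238741707340471953237877981184, .ofNat 0, .ofNat 0, .ofNat 0, .ofNat 0, .ofNat 0, .ofNat 0, .ofNat 0, .ofNat 3843327066176456477224688130026291331072, .ofNat 0⟩)
    (by decide +kernel)
theorem L01229 : Good (Phi V5.P V5.D (-1) 1) ⟨2, 2, 2, 0, 2, 0, 4, 6, 5, 11⟩ :=
  out_sound (S := T5.ds_mp) T5.ok_mp (w := 28) (j := 1) (by decide +kernel)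
theorem L01230 : Good (Phi V5.P V5.D (-1) 1) ⟨2, 2, 2, 0, 2, 0, 4, 7, 5, 11⟩ :=
  leafX_sound T5.ok_mp T5.Ymp.bz_eq (w := 216) (c := ⟨⟨.negSucc 1516, .negSucc 524, .negSucc 1, .negSucc 23, .ofNat 49, .ofNat 68⟩, ⟨.ofNat 23, .ofNat 350, .negSucc 291, .negSucc 3, .negSucc 0, .negSucc 3⟩, ⟨.ofNat 1645, .ofNat 561, .negSucc 12, .negSucc 40, .negSucc 127, .negSucc 46⟩, ⟨.negSucc 3360, .negSucc 111, .ofNat 1, .negSucc 46, .ofNat 90, .ofNat 135⟩, ⟨.negSucc 14, .ofNat 20, .ofNat 1, .negSucc 143, .ofNat 6, .ofNat 3⟩, .ofNat 169, .ofNat 3, .ofNat 0, .ofNat 3, .ofNat 234, .ofNat 0, .ofNat 185, .negSucc 3, .negSucc 68, .ofNat 0, .ofNat 128, .ofNat 8, .ofNat 0, .ofNat 0, .ofNat 374, .ofNat 62386, .ofNat 9389299943564643842909843447398046076239872, .ofNat 0, .ofNat 0, .ofNat 0, .ofNat 0, .ofNat 0, .ofNat 0, .ofNat 0, .ofNat 4159653187417961268041423667459487361400832, .ofNat 0, .ofNat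 82423477157114838268216221219051364417536, .ofNat 0, .ofNat 9466141247311363506661904356715219390562304, .ofNat 0, .ofNat 68266142759951929092148661394453741699072, .ofNat 0⟩)
    (by decide +kernel)
theorem L01231 : Good (Phi V5.P V5.D (-1) 1) ⟨2, 2, 2, 0, 3, 2, 3, 2, 5, 10⟩ :=
  leafX_sound T5.ok_mp T5.Ymp.bz_eq (w := 226) (c := ⟨⟨.negSucc 1712, .negSucc 615, .negSucc 22, .negSucc 33, .ofNat 84, .ofNat 94⟩, ⟨.ofNat 13, .ofNat 389, .negSucc 324, .negSucc 7, .ofNat 10, .negSucc 3⟩, ⟨.ofNat 1994, .ofNat 720, .ofNat 68, .negSucc 93, .negSucc 304, .ofNat 3⟩, ⟨.negSucc 3813, .negSucc 211, .negSucc 13, .negSucc 71, .ofNat 192, .ofNat 192⟩, ⟨.negSucc 208, .ofNat 50, .ofNat 7, .negSucc 115, .ofNat 24, .ofNat 16⟩, .ofNat 169, .ofNat 4, .ofNat 0, .ofNat 4, .ofNat 234, .ofNat 0, .ofNat 134, .negSucc 6, .negSucc 57, .ofNat 0, .ofNat 128, .ofNat 16, .ofNat 0, .ofNat 0, .ofNat 269,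 .ofNat 61265, .ofNat 4284684214059250668825617297628629845367848960, .ofNat 0, .ofNat 1770288975954189588497714209234848080461824, .ofNat 0, .ofNat 4475737873203156254896064561968140843910955008, .ofNat 0, .ofNat 47061497202261346108854522447915470429356032, .ofNat 0, .ofNat 5431412975962723887610818929898769889942831104, .ofNat 0, .ofNat 0, .ofNat 0, .ofNat 3972132564392927813565307629028330690381348864, .ofNat 0, .ofNat 77345521592973005338913582157108589965082624, .ofNat 0⟩)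
    (by decide +kernel)
theorem L01232 : Good (Phi V5.P V5.D (-1) 1) ⟨2, 2, 2, 0, 3, 3, 4, 4, 6, 20⟩ :=
  leafX_sound T5.ok_mp T5.Ymp.bz_eq (w := 236) (c := ⟨⟨.negSucc 1755, .negSucc 628, .negSucc 41, .ofNat 17, .ofNat 40, .ofNat 56⟩, ⟨.ofNat 2, .ofNat 374, .negSucc 349, .negSucc 11, .ofNat 25, .negSucc 0⟩, ⟨.ofNat 1912, .ofNat 752, .ofNat 181, .negSucc 207, .negSucc 171, .ofNat 1⟩, ⟨.negSucc 3901, .negSucc 244, .negSucc 26, .ofNat 21, .ofNat 97, .ofNat 119⟩, ⟨.negSucc 328, .ofNat 54, .ofNat 29, .negSucc 170, .ofNat 19, .ofNat 17⟩, .ofNat 170, .ofNat 3, .ofNat 0, .ofNat 3, .ofNat 234, .ofNat 0, .ofNat 151, .negSucc 9, .negSucc 90, .ofNat 0, .ofNat 128, .ofNat 35, .ofNat 0, .ofNat 0, .ofNat 420, .ofNat 145658, .ofNat 576781699340154943158689738189188391586649604096, .ofNat 0, .ofNat 0, .ofNat 0, .ofNat 299809105111116734071791011535769191191909761024, .ofNat 0, .ofNat 34835767107856100713458747317708470609051123712,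 .ofNat 0, .ofNat 616232263185961853389495952418534077519842246656, .ofNat 0, .ofNat 0, .ofNat 0, .ofNat 1101569795805860672791127292005831834869520400384, .ofNat 0, .ofNat 70383834189778221718209457468689518135028482048, .ofNat 0⟩)
    (by decide +kernel)
theorem L01233 : Good (Phi V5.P V5.D (-1) 1) ⟨2, 2, 2, 0, 3, 3, 4, 4, 6, 21⟩ :=
  out_sound (S := T5.ds_mp) T5.ok_mp (w := 32) (j := 1) (by decide +kernel)
theorem L01234 : Good (Phi V5.P V5.D (-1) 1) ⟨2, 2, 2, 0, 3, 3, 4, 5, 6, 20⟩ :=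
  leafX_sound T5.ok_mp T5.Ymp.bz_eq (w := 234) (c := ⟨⟨.negSucc 1710, .negSucc 613, .negSucc 37, .ofNat 1, .ofNat 47, .ofNat 63⟩, ⟨.ofNat 24, .ofNat 379, .negSucc 332, .negSucc 13, .negSucc 1, .negSucc 5⟩, ⟨.ofNat 1742, .ofNat 720, .ofNat 138, .negSucc 181, .negSucc 152, .negSucc 26⟩, ⟨.negSucc 3784, .negSucc 227, .negSucc 28, .negSucc 5, .ofNat 92, .ofNat 117⟩, ⟨.negSucc 327, .ofNat 53, .ofNat 22, .negSucc 144, .ofNat 25, .ofNat 8⟩, .ofNat 170, .ofNat 2, .ofNat 0, .ofNat 2, .ofNat 234, .ofNat 0, .ofNat 194, .negSucc 6, .negSucc 86, .ofNat 0, .ofNat 128, .ofNat 28, .ofNat 0, .ofNat 0, .ofNat 405, .ofNat 34283, .ofNat 65878471414352491070588679412105506039745478656, .ofNat 0, .ofNat 2068731711086534158541258468203565187791323136, .ofNat 0, .ofNat 0, .ofNat 0, .ofNat 0, .ofNat 0, .ofNat 0, .ofNat 0, .ofNat 0, .ofNat 0, .ofNat 8735639215533816580185799622094882117492146176,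 .ofNat 0, .ofNat 72495769259490281307891611743521835111996719104, .ofNat 0⟩)
    (by decide +kernel)
theorem L01235 : Good (Phi V5.P V5.D (-1) 1) ⟨3, 4, 2, 0, 3, 3, 4, 5, 6, 21⟩ :=
  leafX_sound T5.ok_mp T5.Ymp.bz_eq (w := 241) (c := ⟨⟨.negSucc 1677, .negSucc 265, .negSucc 40, .ofNat 7, .ofNat 49, .ofNat 51⟩, ⟨.ofNat 26, .ofNat 151, .negSucc 318, .negSucc 9, .ofNat 3, .ofNat 2⟩, ⟨.ofNat 1763, .ofNat 309, .ofNat 131, .negSucc 163, .negSucc 164, .negSucc 16⟩, ⟨.negSucc 3713, .negSucc 77, .negSucc 19, .ofNat 13, .ofNat 94, .ofNat 107⟩, ⟨.negSucc 323, .ofNat 21, .ofNat 20, .negSucc 128, .ofNat 27, .ofNat 10⟩, .ofNat 327, .negSucc 8, .ofNat 0, .negSucc 8, .ofNat 682, .ofNat 0, .ofNat 213, .ofNat 4, .negSucc 75, .ofNat 0, .ofNat 128, .ofNat 14, .ofNat 0, .ofNat 0, .ofNat 698, .ofNat 225007, .ofNat 10187703071444179233576684373414288855738441793536, .ofNat 0, .ofNat 0, .ofNat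 0, .ofNat 14271375995652234140683260779647686292626749784064, .ofNat 0, .ofNat 0, .ofNat 0, .ofNat 15725902492550293269245808752875018830714878558208, .ofNat 0, .ofNat 0, .ofNat 0, .ofNat 17777934003133598176571932602045821569306548240384, .ofNat 0, .ofNat 0, .ofNat 0⟩)
    (by decide +kernel)
theorem L01236 : Good (Phi V5.P V5.D (-1) 1) ⟨3, 5, 2, 0, 3, 3, 4, 5, 6, 21⟩ :=
  leafX_sound T5.ok_mp T5.Ymp.bz_eq (w := 241) (c := ⟨⟨.negSucc 1965, .negSucc 325, .negSucc 41, .ofNat 20, .ofNat 60, .ofNat 60⟩, ⟨.ofNat 195, .ofNat 225, .negSucc 320, .negSucc 17, .negSucc 5, .negSucc 1⟩, ⟨.ofNat 2125, .ofNat 366, .ofNat 148, .negSucc 211, .negSucc 197, .negSucc 22⟩, ⟨.negSucc 3808, .negSucc 99, .negSucc 24, .ofNat 21, .ofNat 107, .ofNat 115⟩, ⟨.negSucc 294, .ofNat 23, .ofNat 22, .negSucc 137, .ofNat 22, .ofNat 12⟩, .ofNat 300, .ofNat 32, .ofNat 0, .ofNat 32, .ofNat 571, .ofNat 0,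 .ofNat 182, .negSucc 24, .negSucc 76, .ofNat 0, .ofNat 128, .ofNat 22, .ofNat 0, .ofNat 0, .ofNat 592, .ofNat 165357, .ofNat 14426953712590703803972752804345753420610440003584, .ofNat 0, .ofNat 2201734817449003399347991704237807439907389440, .ofNat 0, .ofNat 8571889408561548951426535562311338650387253035008, .ofNat 0, .ofNat 28367858910020118548822321425655782398194876416, .ofNat 0, .ofNat 12463404541077971271500165486475220272509335109632, .ofNat 0, .ofNat 104122440188779814750742463884306382825669525504, .ofNat 0, .ofNat 15744110427352385548690903754344824447311322021888, .ofNat 0, .ofNat 86427066396498345952726054832750522348314034176, .ofNat 0⟩)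
    (by decide +kernel)
theorem L01237 : Good (Phi V5.P V5.D (-1) 1) ⟨2, 2, 2, 0, 2, 1, 3, 2, 5, 11⟩ :=
  leafX_sound T5.ok_mp T5.Ymp.bz_eq (w := 213) (c := ⟨⟨.negSucc 1763, .negSucc 528, .negSucc 35, .ofNat 104, .ofNat 86, .ofNat 82⟩, ⟨.ofNat 89, .ofNat 343, .negSucc 312, .negSucc 73, .negSucc 6, .ofNat 30⟩, ⟨.ofNat 2257, .ofNat 575, .ofNat 135, .negSucc 495, .negSucc 337, .negSucc 24⟩, ⟨.negSucc 3832, .negSucc 126, .negSucc 14, .ofNat 139, .ofNat 192, .ofNat 217⟩, ⟨.negSucc 211, .ofNat 30, .ofNat 21, .negSucc 266, .ofNat 67, .ofNat 29⟩, .ofNat 170, .ofNat 2, .ofNat 0, .ofNat 2, .ofNat 234, .ofNat 0, .ofNat 145, .negSucc 7, .negSucc 93, .ofNat 0, .ofNat 128, .ofNat 32, .ofNat 0, .ofNat 0, .ofNat 544, .ofNat 133621, .ofNat 4751468293987606616136228972416404264321024, .ofNat 0, .ofNat 0, .ofNat 0, .ofNat 4997408526314932185946229641662642759139328, .ofNat 0, .ofNat 4312011725653524119764524809850894417920,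 .ofNat 0, .ofNat 2545772577878421046097372264918983504822272, .ofNat 0, .ofNat 2870582266845539367452333019274518986752, .ofNat 0, .ofNat 9443977498893508333641917410290369942257664, .ofNat 0, .ofNat 8643054041721519362108570278531356950528, .ofNat 0⟩)
    (by decide +kernel)
theorem L01238 : Good (Phi V5.P V5.D (-1) 1) ⟨3, 4, 2, 0, 3, 2, 4, 6, 5, 10⟩ :=
  leafX_sound T5.ok_mp T5.Ymp.bz_eq (w := 234) (c := ⟨⟨.negSucc 1647, .negSucc 262, .negSucc 25, .negSucc 22, .ofNat 41, .ofNat 83⟩, ⟨.ofNat 30, .ofNat 152, .negSucc 308, .negSucc 9, .ofNat 6, .ofNat 0⟩, ⟨.ofNat 1725, .ofNat 299, .ofNat 53, .negSucc 85, .negSucc 132, .negSucc 27⟩, ⟨.negSucc 3647, .negSucc 77, .negSucc 12, .negSucc 49, .ofNat 91, .ofNat 173⟩, ⟨.negSucc 189, .ofNat 21, .ofNat 6, .negSucc 101, .ofNat 14, .ofNat 8⟩, .ofNat 173, .negSucc 0, .ofNat 0, .negSucc 0, .ofNat 238, .ofNat 0, .ofNat 196, .ofNat 0, .negSucc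 112, .ofNat 0, .ofNat 128, .ofNat 24, .ofNat 0, .ofNat 0, .ofNat 563, .ofNat 70916, .ofNat 275511800437218786464179522892123433323796103168, .ofNat 0, .ofNat 0, .ofNat 0, .ofNat 0, .ofNat 0, .ofNat 133810359804419932303315444845652757408907264, .ofNat 0, .ofNat 0, .ofNat 0, .ofNat 0, .ofNat 0, .ofNat 0, .ofNat 0, .ofNat 0, .ofNat 0⟩)
    (by decide +kernel)
theorem L01239 : Good (Phi V5.P V5.D (-1) 1) ⟨3, 5, 2, 0, 3, 2, 4, 6, 5, 10⟩ :=
  leafX_sound T5.ok_mp T5.Ymp.bz_eq (w := 234) (c := ⟨⟨.negSucc 1928, .negSucc 329, .negSucc 25, .negSucc 25, .ofNat 47, .ofNat 103⟩, ⟨.ofNat 193, .ofNat 238, .negSucc 309, .negSucc 8, .ofNat 1, .negSucc 10⟩, ⟨.ofNat 2050, .ofNat 371, .ofNat 57, .negSucc 82, .negSucc 142, .negSucc 55⟩, ⟨.negSucc 3732, .negSucc 99, .negSucc 17, .negSucc 57, .ofNat 92, .ofNat 191⟩, ⟨.negSucc 164, .ofNat 22, .ofNat 2, .negSucc 98, .ofNat 14, .ofNat 1⟩, .ofNat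 166, .ofNat 9, .ofNat 0, .ofNat 9, .ofNat 230, .ofNat 0, .ofNat 227, .negSucc 12, .negSucc 106, .ofNat 0, .ofNat 128, .ofNat 28, .ofNat 0, .ofNat 0, .ofNat 506, .ofNat 72639, .ofNat 426227494095345678226848844699917055792152313856, .ofNat 0, .ofNat 108984701352075616412908322278478840688803840, .ofNat 0, .ofNat 0, .ofNat 0, .ofNat 3208588825989778249619431354117768167628472320, .ofNat 0, .ofNat 112596645925890719607423998713808066503092731904, .ofNat 0, .ofNat 1982109413291543989044372539638493580682592256, .ofNat 0, .ofNat 0, .ofNat 0, .ofNat 1968379610656685881160672431927777757774217216, .ofNat 0⟩)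
    (by decide +kernel)
theorem L01240 : Good (Phi V5.P V5.D (-1) 1) ⟨2, 2, 2, 0, 3, 2, 5, 12, 6, 22⟩ :=
  leafX_sound T5.ok_mp T5.Ymp.bz_eq (w := 250) (c := ⟨⟨.negSucc 1560, .negSucc 553, .negSucc 24, .negSucc 0, .ofNat 0, .ofNat 1⟩, ⟨.negSucc 397, .ofNat 367, .negSucc 304, .ofNat 0, .ofNat 409, .ofNat 0⟩, ⟨.ofNat 1508, .ofNat 626, .ofNat 66, .ofNat 1, .ofNat 26, .negSucc 0⟩, ⟨.negSucc 3452, .negSucc 146, .negSucc 11, .negSucc 1, .negSucc 20, .ofNat 2⟩, ⟨.negSucc 295, .ofNat 39, .ofNat 9, .ofNat 0, .ofNat 19, .ofNat 0⟩, .ofNat 169, .ofNat 3, .ofNat 0, .ofNat 3, .ofNat 234, .ofNat 0, .ofNat 170, .negSucc 5, .negSucc 77, .ofNat 0, .ofNat 128, .ofNat 21, .ofNat 0, .ofNat 0, .ofNat 418, .ofNat 94208995, .ofNat 5651395964738178193379551155045474947957304479186944, .ofNat 0, .ofNat 0, .ofNat 0, .ofNat 41287113710287184413898795265703482636340610203648, .ofNat 0, .ofNat 741420647200496168830531772249867458700996771840,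 .ofNat 0, .ofNat 156887808473254775694881818874964146477339611496448, .ofNat 0, .ofNat 1465782370969354694857617321761281401086363566080, .ofNat 0, .ofNat 20309659545853725851040014205660612677606043549696, .ofNat 0, .ofNat 1368844761514094944189664024090802299209735208960, .ofNat 0⟩)
    (by decide +kernel)
theorem L01241 : Good (Phi V5.P V5.D (-1) 1) ⟨2, 2, 2, 0, 3, 2, 5, 13, 6, 22⟩ :=
  leafX_sound T5.ok_mp T5.Ymp.bz_eq (w := 240) (c := ⟨⟨.negSucc 1561, .negSucc 536, .negSucc 17, .negSucc 10, .ofNat 30, .ofNat 41⟩, ⟨.ofNat 30, .ofNat 356, .negSucc 305, .negSucc 13, .negSucc 5, .ofNat 8⟩, ⟨.ofNat 1672, .ofNat 582, .ofNat 38, .negSucc 104, .negSucc 80, .negSucc 10⟩, ⟨.negSucc 3457, .negSucc 127, .negSucc 7, .negSucc 25, .ofNat 48, .ofNat 89⟩, ⟨.negSucc 177, .ofNat 35, .ofNat 6, .negSucc 94, .ofNat 10, .ofNat 5⟩, .ofNat 170, .ofNat 2, .ofNat 0, .ofNat 2, .ofNat 234, .ofNat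 0, .ofNat 137, .negSucc 3, .negSucc 61, .ofNat 0, .ofNat 128, .ofNat 14, .ofNat 0, .ofNat 0, .ofNat 336, .ofNat 136774, .ofNat 5790625418798007029805090467968306235955180732416, .ofNat 0, .ofNat 0, .ofNat 0, .ofNat 0, .ofNat 0, .ofNat 618479251383705917131224588745797606117335891968, .ofNat 0, .ofNat 638486460356667651904525328444732383042849472512, .ofNat 0, .ofNat 1314028333124105119310073096135270519776336674816, .ofNat 0, .ofNat 4778432018969938088705565631757492994767549628416, .ofNat 0, .ofNat 837165733529245865979208723116072357907291701248, .ofNat 0⟩)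
    (by decide +kernel)
theorem L01242 : Good (Phi V5.P V5.D (-1) 1) ⟨2, 2, 2, 0, 3, 2, 4, 6, 6, 23⟩ :=
  out_sound (S := T5.ds_mp) T5.ok_mp (w := 32) (j := 1) (by decide +kernel)
theorem L01243 : Good (Phi V5.P V5.D (-1) 1) ⟨3, 4, 2, 0, 3, 3, 4, 6, 5, 10⟩ :=
  leafX_sound T5.ok_mp T5.Ymp.bz_eq (w := 234) (c := ⟨⟨.negSucc 1674, .negSucc 267, .negSucc 41, .ofNat 2, .ofNat 49, .ofNat 101⟩, ⟨.ofNat 24, .ofNat 151, .negSucc 313, .negSucc 10, .ofNat 2, .ofNat 4⟩, ⟨.ofNat 1629, .ofNat 298, .ofNat 105, .negSucc 153, .negSucc 147, .negSucc 39⟩, ⟨.negSucc 3713, .negSucc 79, .negSucc 24, .ofNat 8, .ofNat 96, .ofNat 206⟩, ⟨.negSucc 306, .ofNat 20, .ofNat 13, .negSucc 121, .ofNat 25, .ofNat 22⟩, .ofNat 326, .negSucc 10, .ofNat 0, .negSucc 10, .ofNat 673, .ofNat 0, .ofNat 241, .ofNat 5, .negSucc 68, .ofNat 0, .ofNat 128, .ofNat 11, .ofNat 0, .ofNat 0, .ofNat 566, .ofNat 50629, .ofNat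 201476044560954836067544120964265976919956127744, .ofNat 0, .ofNat 0, .ofNat 0, .ofNat 0, .ofNat 0, .ofNat 0, .ofNat 0, .ofNat 0, .ofNat 0, .ofNat 0, .ofNat 0, .ofNat 0, .ofNat 0, .ofNat 0, .ofNat 0⟩)
    (by decide +kernel)
theorem L01244 : Good (Phi V5.P V5.D (-1) 1) ⟨3, 5, 2, 0, 3, 3, 4, 6, 5, 10⟩ :=
  leafX_sound T5.ok_mp T5.Ymp.bz_eq (w := 234) (c := ⟨⟨.negSucc 1972, .negSucc 322, .negSucc 37, .ofNat 16, .ofNat 55, .ofNat 126⟩, ⟨.ofNat 193, .ofNat 228, .negSucc 320, .negSucc 15, .negSucc 2, .negSucc 9⟩, ⟨.ofNat 1971, .ofNat 349, .ofNat 130, .negSucc 208, .negSucc 161, .negSucc 61⟩, ⟨.negSucc 3823, .negSucc 93, .negSucc 20, .ofNat 16, .ofNat 106, .ofNat 234⟩, ⟨.negSucc 279, .ofNat 20, .ofNat 21, .negSucc 129, .ofNat 24, .ofNat 15⟩, .ofNat 306, .ofNat 44, .ofNat 0, .ofNat 44, .ofNat 619, .ofNat 0, .ofNat 218, .negSucc 32, .negSucc 95, .ofNat 0, .ofNat 128, .ofNat 24,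 .ofNat 0, .ofNat 0, .ofNat 685, .ofNat 48107, .ofNat 293052028098961707565264453437101801709313720320, .ofNat 0, .ofNat 43464360091488959394070290915661079981850624, .ofNat 0, .ofNat 0, .ofNat 0, .ofNat 1266804144159175094367645272411891579156955136, .ofNat 0, .ofNat 0, .ofNat 0, .ofNat 4077723476997333227432570215169435446529753088, .ofNat 0, .ofNat 0, .ofNat 0, .ofNat 2320915476334822652121692939119281918070226944, .ofNat 0⟩)
    (by decide +kernel)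
theorem L01245 : Good (Phi V5.P V5.D (-1) 1) ⟨3, 4, 2, 0, 3, 3, 4, 6, 5, 11⟩ :=
  leafX_sound T5.ok_mp T5.Ymp.bz_eq (w := 235) (c := ⟨⟨.negSucc 1604, .negSucc 232, .negSucc 29, .ofNat 12, .ofNat 47, .ofNat 94⟩, ⟨.ofNat 21, .ofNat 142, .negSucc 297, .negSucc 4, .ofNat 5, .ofNat 1⟩, ⟨.ofNat 1658, .ofNat 241, .ofNat 78, .negSucc 169, .negSucc 164, .negSucc 26⟩, ⟨.negSucc 3553, .negSucc 39, .negSucc 5, .ofNat 31, .ofNat 95, .ofNat 194⟩, ⟨.negSucc 301, .ofNat 13, .ofNat 16, .negSucc 98, .ofNat 30, .ofNat 28⟩, .ofNat 326, .negSucc 6, .ofNat 0, .negSucc 6, .ofNat 677, .ofNat 0, .ofNat 244, .ofNat 3, .negSucc 76, .ofNat 0, .ofNat 128, .ofNat 11, .ofNat 0, .ofNat 0, .ofNat 776, .ofNat 108206, .ofNat 944874521557337969617177939888921879812258136064, .ofNat 0, .ofNat 0, .ofNat 0, .ofNat 0, .ofNat 0, .ofNat 0, .ofNat 0, .ofNat 1862114488010454085212237710292900412870564511744, .ofNat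 0, .ofNat 0, .ofNat 0, .ofNat 0, .ofNat 0, .ofNat 0, .ofNat 0⟩)
    (by decide +kernel)
theorem L01246 : Good (Phi V5.P V5.D (-1) 1) ⟨4, 10, 2, 0, 3, 3, 4, 6, 5, 11⟩ :=
  leafX_sound T5.ok_mp T5.Ymp.bz_eq (w := 239) (c := ⟨⟨.negSucc 1866, .negSucc 137, .negSucc 30, .ofNat 32, .ofNat 55, .ofNat 116⟩, ⟨.ofNat 183, .ofNat 101, .negSucc 299, .negSucc 14, .negSucc 1, .negSucc 8⟩, ⟨.ofNat 1951, .ofNat 137, .ofNat 97, .negSucc 221, .negSucc 176, .negSucc 71⟩, ⟨.negSucc 3621, .negSucc 24, .negSucc 10, .ofNat 51, .ofNat 106, .ofNat 215⟩, ⟨.negSucc 282, .ofNat 8, .ofNat 15, .negSucc 106, .ofNat 33, .ofNat 22⟩, .ofNat 307, .ofNat 37, .ofNat 0, .ofNat 37, .ofNat 626, .ofNat 0, .ofNat 218, .negSucc 27, .negSucc 82, .ofNat 0, .ofNat 128, .ofNat 19, .ofNat 0, .ofNat 0, .ofNat 743, .ofNat 139515, .ofNat 24770980717415725559152706657909339030574067613696, .ofNat 0, .ofNat 128023483051072608137152658985460787331465216,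 .ofNat 0, .ofNat 0, .ofNat 0, .ofNat 0, .ofNat 0, .ofNat 61984185855514950607289268124251144791743528960, .ofNat 0, .ofNat 780781008233108192551652757191721561194758144, .ofNat 0, .ofNat 30443488637496811102833629710042903299586395209728, .ofNat 0, .ofNat 988277160816241844867220513386639376359882752, .ofNat 0⟩)
    (by decide +kernel)
theorem L01247 : Good (Phi V5.P V5.D (-1) 1) ⟨4, 11, 2, 0, 3, 3, 4, 6, 5, 11⟩ :=
  leafX_sound T5.ok_mp T5.Ymp.bz_eq (w := 240) (c := ⟨⟨.negSucc 2017, .negSucc 147, .negSucc 33, .ofNat 43, .ofNat 56, .ofNat 126⟩, ⟨.ofNat 294, .ofNat 114, .negSucc 302, .negSucc 20, .negSucc 4, .negSucc 16⟩, ⟨.ofNat 2121, .ofNat 137, .ofNat 100, .negSucc 261, .negSucc 181, .negSucc 79⟩, ⟨.negSucc 3654, .negSucc 26, .negSucc 16, .ofNat 59, .ofNat 106, .ofNat 225⟩, ⟨.negSucc 268, .ofNat 7, .ofNat 10, .negSucc 114, .ofNat 34, .ofNat 19⟩, .ofNat 386, .ofNat 90,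 .ofNat 0, .ofNat 90, .ofNat 915, .ofNat 0, .ofNat 296, .negSucc 42, .negSucc 99, .ofNat 0, .ofNat 128, .ofNat 25, .ofNat 0, .ofNat 0, .ofNat 937, .ofNat 263476, .ofNat 62463631619188076928809279824260293782711438409728, .ofNat 0, .ofNat 274495988566163189426550517206901883498659840, .ofNat 0, .ofNat 0, .ofNat 0, .ofNat 1352875632321607462602127115282783890856476672, .ofNat 0, .ofNat 11924395002000408551321600921896519638988691079168, .ofNat 0, .ofNat 5028815236076241432693108148289872903610040320, .ofNat 0, .ofNat 36345635238921767828017485018257038983532124307456, .ofNat 0, .ofNat 3187635979673844804283841978403601459315736576, .ofNat 0⟩)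
    (by decide +kernel)
theorem L01248 : Good (Phi V5.P V5.D (-1) 1) ⟨3, 4, 2, 0, 2, 1, 4, 7, 4, 5⟩ :=
  leafX_sound T5.ok_mp T5.Ymp.bz_eq (w := 214) (c := ⟨⟨.negSucc 1621, .negSucc 237, .negSucc 26, .negSucc 9, .ofNat 47, .ofNat 162⟩, ⟨.ofNat 23, .ofNat 143, .negSucc 292, .negSucc 15, .ofNat 5, .ofNat 9⟩, ⟨.ofNat 1642, .ofNat 244, .ofNat 42, .negSucc 250, .negSucc 136, .negSucc 69⟩, ⟨.negSucc 3590, .negSucc 45, .negSucc 6, .negSucc 19, .ofNat 98, .ofNat 337⟩, ⟨.negSucc 195, .ofNat 20, .ofNat 10, .negSucc 179, .ofNat 20, .ofNat 34⟩, .ofNat 328, .negSucc 11, .ofNat 0, .negSucc 11, .ofNat 679, .ofNat 0, .ofNat 338, .ofNat 7, .negSucc 91, .ofNat 0, .ofNat 128, .ofNat 9, .ofNat 0, .ofNat 0, .ofNat 804, .ofNat 27385, .ofNat 3196295057438016983142343975983497938468864, .ofNat 0, .ofNat 0, .ofNat 0, .ofNat 0, .ofNat 0, .ofNat 0, .ofNat 0, .ofNat 0, .ofNat 0, .ofNat 0, .ofNat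 0, .ofNat 0, .ofNat 0, .ofNat 0, .ofNat 0⟩)
    (by decide +kernel)
theorem L01249 : Good (Phi V5.P V5.D (-1) 1) ⟨4, 10, 2, 0, 2, 1, 4, 7, 4, 5⟩ :=
  leafX_sound T5.ok_mp T5.Ymp.bz_eq (w := 218) (c := ⟨⟨.negSucc 1901, .negSucc 149, .negSucc 35, .ofNat 13, .ofNat 53, .ofNat 208⟩, ⟨.ofNat 190, .ofNat 107, .negSucc 296, .negSucc 20, .ofNat 0, .negSucc 10⟩, ⟨.ofNat 1963, .ofNat 155, .ofNat 80, .negSucc 333, .negSucc 146, .negSucc 136⟩, ⟨.negSucc 3678, .negSucc 37, .negSucc 25, .ofNat 6, .ofNat 103, .ofNat 392⟩, ⟨.negSucc 171, .ofNat 7, .ofNat 18, .negSucc 188, .ofNat 27, .ofNat 25⟩, .ofNat 308, .ofNat 36, .ofNat 0, .ofNat 36, .ofNat 627, .ofNat 0, .ofNat 243, .negSucc 25, .negSucc 84, .ofNat 0, .ofNat 128, .ofNat 16, .ofNat 0, .ofNat 0, .ofNat 668, .ofNat 22990, .ofNat 80673046245619567623511204967759708480864256, .ofNat 0, .ofNat 0, .ofNat 0, .ofNat 0, .ofNat 0, .ofNat 901108746871680697602309920690020548608,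 .ofNat 0, .ofNat 0, .ofNat 0, .ofNat 0, .ofNat 0, .ofNat 0, .ofNat 0, .ofNat 0, .ofNat 0⟩)
    (by decide +kernel)
theorem L01250 : Good (Phi V5.P V5.D (-1) 1) ⟨4, 11, 2, 0, 2, 1, 4, 7, 4, 5⟩ :=
  leafX_sound T5.ok_mp T5.Ymp.bz_eq (w := 219) (c := ⟨⟨.negSucc 2079, .negSucc 144, .negSucc 16, .ofNat 30, .ofNat 58, .ofNat 234⟩, ⟨.ofNat 316, .ofNat 120, .negSucc 301, .negSucc 28, .negSucc 5, .negSucc 33⟩, ⟨.ofNat 2172, .ofNat 140, .ofNat 82, .negSucc 397, .negSucc 152, .negSucc 156⟩, ⟨.negSucc 3746, .negSucc 12, .ofNat 5, .ofNat 21, .ofNat 107, .ofNat 418⟩, ⟨.negSucc 157, .ofNat 11, .ofNat 41, .negSucc 198, .ofNat 28, .ofNat 26⟩, .ofNat 406, .ofNat 156, .ofNat 0, .ofNat 156, .ofNat 1145, .ofNat 0, .ofNat 531, .negSucc 71, .negSucc 188, .ofNat 0, .ofNat 128, .ofNat 44, .ofNat 0, .ofNat 0, .ofNat 1567, .ofNat 64814, .ofNat 270300915935252624243948235807443984425418752, .ofNat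 0, .ofNat 205581411517710705230574492668223553536, .ofNat 0, .ofNat 0, .ofNat 0, .ofNat 6175767129677500061772698576864189349888, .ofNat 0, .ofNat 0, .ofNat 0, .ofNat 7084498127601854953608967940334923284480, .ofNat 0, .ofNat 0, .ofNat 0, .ofNat 14604319829528943264928942446365198254080, .ofNat 0⟩)
    (by decide +kernel)
theorem L01251 : Good (Phi V5.P V5.D (-1) 1) ⟨2, 3, 2, 0, 1, 0, 1, 0, 3, 2⟩ :=
  out_sound (S := T5.ds_mp) T5.ok_mp (w := 37) (j := 3) (by decide +kernel)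
theorem L01252 : Good (Phi V5.P V5.D (-1) 1) ⟨1, 1, 2, 0, 1, 0, 2, 0, 3, 3⟩ :=
  out_sound (S := T5.ds_mp) T5.ok_mp (w := 20) (j := 1) (by decide +kernel)
theorem L01253 : Good (Phi V5.P V5.D (-1) 1) ⟨2, 2, 2, 0, 2, 0, 2, 1, 4, 6⟩ :=
  out_sound (S := T5.ds_mp) T5.ok_mp (w := 24) (j := 1) (by decide +kernel)
theorem L01254 : Good (Phi V5.P V5.D (-1) 1) ⟨2, 2, 2, 0, 2, 1, 3, 2, 4, 6⟩ :=
  out_sound (S := T5.ds_mp) T5.ok_mp (w := 25) (j := 1) (by decide +kernel)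
theorem L01255 : Good (Phi V5.P V5.D (-1) 1) ⟨3, 4, 2, 0, 2, 1, 3, 3, 4, 6⟩ :=
  leafX_sound T5.ok_mp T5.Ymp.bz_eq (w := 212) (c := ⟨⟨.negSucc 1573, .negSucc 202, .negSucc 21, .ofNat 50, .ofNat 102, .ofNat 164⟩, ⟨.ofNat 23, .ofNat 135, .negSucc 275, .negSucc 10, .ofNat 8, .ofNat 4⟩, ⟨.ofNat 1908, .ofNat 161, .ofNat 30, .negSucc 361, .negSucc 346, .negSucc 89⟩, ⟨.negSucc 3451, .negSucc 4, .negSucc 1, .ofNat 95, .ofNat 198, .ofNat 342⟩, ⟨.negSucc 233, .ofNat 9, .ofNat 9, .negSucc 133, .ofNat 78, .ofNat 67⟩, .ofNat 325, .negSucc 2, .ofNat 0, .negSucc 2, .ofNat 676, .ofNat 0, .ofNat 253, .ofNat 0, .negSucc 75, .ofNat 0, .ofNat 128, .ofNat 7, .ofNat 0, .ofNat 0, .ofNat 986, .ofNat 94315, .ofNat 5078536580724054846455687712586249449504768, .ofNat 0, .ofNat 0, .ofNat 0, .ofNat 11556923042139835252010959530725661151854592, .ofNat 0, .ofNat 0, .ofNat 0, .ofNat 8185376294604097799922260498846217022734336,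 .ofNat 0, .ofNat 0, .ofNat 0, .ofNat 26112912871569846628025231978254931354189824, .ofNat 0, .ofNat 0, .ofNat 0⟩)
    (by decide +kernel)
theorem L01256 : Good (Phi V5.P V5.D (-1) 1) ⟨3, 5, 2, 0, 2, 1, 3, 3, 4, 6⟩ :=
  leafX_sound T5.ok_mp T5.Ymp.bz_eq (w := 211) (c := ⟨⟨.negSucc 1819, .negSucc 239, .negSucc 14, .ofNat 89, .ofNat 107, .ofNat 204⟩, ⟨.ofNat 186, .ofNat 191, .negSucc 277, .negSucc 26, .negSucc 5, .negSucc 10⟩, ⟨.ofNat 2188, .ofNat 189, .ofNat 12, .negSucc 487, .negSucc 354, .negSucc 195⟩, ⟨.negSucc 3510, .negSucc 6, .ofNat 7, .ofNat 147, .ofNat 203, .ofNat 384⟩, ⟨.negSucc 238, .ofNat 13, .ofNat 10, .negSucc 131, .ofNat 94, .ofNat 52⟩, .ofNat 306, .ofNat 41, .ofNat 0, .ofNat 41, .ofNat 619, .ofNat 0, .ofNat 166, .negSucc 29, .negSucc 57, .ofNat 0, .ofNat 128, .ofNat 10, .ofNat 0, .ofNat 0, .ofNat 655, .ofNat 58495, .ofNat 6476718827566399273868713507253428133298176,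 .ofNat 0, .ofNat 0, .ofNat 0, .ofNat 4688140050154806066212971480930866868256768, .ofNat 0, .ofNat 0, .ofNat 0, .ofNat 6995757616273118489760406447300012807290880, .ofNat 0, .ofNat 78598630511292474684190207034691420160, .ofNat 0, .ofNat 9221512529824173334026082830372084629110784, .ofNat 0, .ofNat 90072456077550617259239022611172163584, .ofNat 0⟩)
    (by decide +kernel)
theorem L01257 : Good (Phi V5.P V5.D (-1) 1) ⟨2, 2, 2, 0, 1, 0, 2, 1, 4, 7⟩ :=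
  out_sound (S := T5.ds_mp) T5.ok_mp (w := 22) (j := 1) (by decide +kernel)
theorem L01258 : Good (Phi V5.P V5.D (-1) 1) ⟨2, 3, 2, 0, 1, 0, 2, 1, 3, 3⟩ :=
  out_sound (S := T5.ds_mp) T5.ok_mp (w := 37) (j := 3) (by decide +kernel)
theorem L01259 : Good (Phi V5.P V5.D (-1) 1) ⟨1, 1, 2, 0, 1, 0, 1, 0, 1, 1⟩ :=
  out_sound (S := T5.ds_mp) T5.ok_mp (w := 15) (j := 1) (by decide +kernel)
theorem L01260 : Good (Phi V5.P V5.D (-1) 1) ⟨3, 4, 2, 1, 1, 0, 3, 0, 4, 0⟩ :=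
  leafX_sound T5.ok_mp T5.Ymp.bz_eq (w := 192) (c := ⟨⟨.ofNat 816, .ofNat 98, .negSucc 136, .negSucc 61, .ofNat 154, .negSucc 1988⟩, ⟨.ofNat 148, .negSucc 62, .negSucc 39, .negSucc 125, .ofNat 39, .negSucc 321⟩, ⟨.negSucc 775, .negSucc 86, .ofNat 319, .ofNat 338, .negSucc 224, .ofNat 1686⟩, ⟨.ofNat 1747, .ofNat 62, .negSucc 216, .ofNat 216, .ofNat 349, .negSucc 4305⟩, ⟨.ofNat 93, .negSucc 23, .negSucc 38, .negSucc 1694, .ofNat 72, .ofNat 21⟩, .ofNat 335, .negSucc 63, .ofNat 0, .negSucc 63, .ofNat 636, .ofNat 0, .ofNat 437, .ofNat 40, .negSucc 304, .ofNat 0, .ofNat 128, .negSucc 22, .ofNat 0, .ofNat 0, .ofNat 630, .ofNat 4256, .ofNat 0, .ofNat 0, .ofNat 45002882274239625036225495171072, .ofNat 0, .ofNat 0, .ofNat 0, .ofNat 0, .ofNat 0, .ofNat 17448884744235620262332962157629538304, .ofNat 0, .ofNat 3269017034432649831416362906419200, .ofNat 0, .ofNat 0, .ofNat 0, .ofNat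 2396337262803793417904604233859072, .ofNat 0⟩)
    (by decide +kernel)
theorem L01261 : Good (Phi V5.P V5.D (-1) 1) ⟨3, 4, 2, 1, 1, 0, 3, 1, 4, 0⟩ :=
  leafX_sound T5.ok_mp T5.Ymp.bz_eq (w := 191) (c := ⟨⟨.ofNat 1085, .negSucc 67, .negSucc 220, .ofNat 26, .ofNat 33, .negSucc 2254⟩, ⟨.ofNat 189, .negSucc 59, .negSucc 8, .negSucc 143, .ofNat 29, .negSucc 343⟩, ⟨.negSucc 1010, .ofNat 38, .ofNat 112, .ofNat 116, .negSucc 22, .ofNat 1922⟩, ⟨.ofNat 2347, .negSucc 304, .negSucc 481, .ofNat 210, .ofNat 130, .negSucc 4709⟩, ⟨.ofNat 5, .negSucc 90, .ofNat 104, .negSucc 1259, .ofNat 8, .ofNat 4⟩, .ofNat 459, .negSucc 158, .ofNat 0, .negSucc 158, .ofNat 1264, .ofNat 0, .ofNat 303, .ofNat 68, .negSucc 258, .ofNat 0, .ofNat 128, .negSucc 27, .ofNat 0, .ofNat 0, .ofNat 546, .ofNat 1900, .ofNat 0, .ofNat 0, .ofNat 0, .ofNat 0, .ofNat 0, .ofNat 0, .ofNat 4755754488792760054201651235389440,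 .ofNat 0, .ofNat 0, .ofNat 0, .ofNat 4101045024281803833765961410805760, .ofNat 0, .ofNat 0, .ofNat 0, .ofNat 1964866332070001316643787543412736, .ofNat 0⟩)
    (by decide +kernel)
theorem L01262 : Good (Phi V5.P V5.D (-1) 1) ⟨3, 4, 2, 1, 1, 0, 2, 0, 4, 1⟩ :=
  leafX_sound T5.ok_mp T5.Ymp.bz_eq (w := 188) (c := ⟨⟨.negSucc 907, .negSucc 384, .negSucc 92, .negSucc 215, .negSucc 47, .negSucc 873⟩, ⟨.negSucc 125, .ofNat 77, .negSucc 332, .negSucc 169, .ofNat 18, .negSucc 123⟩, ⟨.ofNat 1172, .ofNat 370, .ofNat 146, .negSucc 438, .negSucc 156, .ofNat 919⟩, ⟨.negSucc 2069, .negSucc 356, .negSucc 85, .negSucc 236, .negSucc 163, .negSucc 1868⟩, ⟨.negSucc 64, .negSucc 240, .negSucc 173, .negSucc 1287, .ofNat 344, .ofNat 219⟩, .ofNat 468, .negSucc 179, .ofNat 0, .negSucc 179, .ofNat 1285, .ofNat 0, .ofNat 457, .ofNat 74, .negSucc 169, .ofNat 0, .ofNat 128, .negSucc 16, .ofNat 0,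 .ofNat 0, .ofNat 517, .ofNat 3354, .ofNat 0, .ofNat 0, .ofNat 0, .ofNat 0, .ofNat 0, .ofNat 0, .ofNat 0, .ofNat 0, .ofNat 0, .ofNat 0, .ofNat 380884251742855765958779727773696, .ofNat 0, .ofNat 11195802770445508490159878949232967680, .ofNat 0, .ofNat 181293924905493544427033951469568, .ofNat 0⟩)
    (by decide +kernel)
theorem L01263 : Good (Phi V5.P V5.D (-1) 1) ⟨3, 5, 2, 1, 1, 0, 2, 0, 3, 0⟩ :=
  out_sound (S := T5.ds_mp) T5.ok_mp (w := 43) (j := 3) (by decide +kernel)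
theorem L01264 : Good (Phi V5.P V5.D (-1) 1) ⟨2, 3, 2, 1, 1, 0, 2, 0, 3, 0⟩ :=
  out_sound (S := T5.ds_mp) T5.ok_mp (w := 37) (j := 3) (by decide +kernel)
theorem L01265 : Good (Phi V5.P V5.D (-1) 1) ⟨3, 4, 2, 1, 1, 0, 2, 1, 3, 0⟩ :=
  leafX_sound T5.ok_mp T5.Ymp.bz_eq (w := 181) (c := ⟨⟨.ofNat 557, .negSucc 247, .negSucc 90, .negSucc 159, .negSucc 5, .negSucc 2473⟩, ⟨.ofNat 117, .ofNat 33, .negSucc 203, .negSucc 144, .ofNat 32, .negSucc 389⟩, ⟨.negSucc 457, .ofNat 334, .ofNat 96, .negSucc 288, .negSucc 95, .ofNat 2353⟩, ⟨.ofNat 1114, .negSucc 191, .negSucc 94, .negSucc 259, .negSucc 60, .negSucc 5242⟩, ⟨.negSucc 123, .negSucc 150, .ofNat 48, .negSucc 703, .ofNat 164, .ofNat 113⟩, .ofNat 461, .negSucc 160, .ofNat 0, .negSucc 160, .ofNat 1273, .ofNat 0, .ofNat 411, .ofNat 68, .negSucc 275, .ofNat 0, .ofNat 128, .negSucc 27, .ofNat 0, .ofNat 0, .ofNat 637, .ofNat 388, .ofNat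 0, .ofNat 0, .ofNat 0, .ofNat 0, .ofNat 0, .ofNat 0, .ofNat 0, .ofNat 0, .ofNat 0, .ofNat 0, .ofNat 5760679924881357232304438640640, .ofNat 0, .ofNat 0, .ofNat 0, .ofNat 0, .ofNat 0⟩)
    (by decide +kernel)
theorem L01266 : Good (Phi V5.P V5.D (-1) 1) ⟨3, 5, 2, 1, 1, 0, 2, 1, 3, 0⟩ :=
  out_sound (S := T5.ds_mp) T5.ok_mp (w := 43) (j := 3) (by decide +kernel)
theorem L01267 : Good (Phi V5.P V5.D (-1) 1) ⟨2, 3, 2, 1, 1, 0, 2, 1, 3, 0⟩ :=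
  out_sound (S := T5.ds_mp) T5.ok_mp (w := 37) (j := 3) (by decide +kernel)
theorem L01268 : Good (Phi V5.P V5.D (-1) 1) ⟨3, 4, 2, 1, 1, 0, 1, 0, 3, 1⟩ :=
  leafX_sound T5.ok_mp T5.Ymp.bz_eq (w := 179) (c := ⟨⟨.negSucc 2083, .negSucc 346, .negSucc 50, .negSucc 290, .ofNat 356, .ofNat 183⟩, ⟨.negSucc 337, .ofNat 161, .negSucc 381, .negSucc 104, .ofNat 81, .ofNat 32⟩, ⟨.ofNat 2366, .ofNat 416, .ofNat 224, .negSucc 172, .negSucc 873, .ofNat 58⟩, ⟨.negSucc 4557, .negSucc 160, .negSucc 30, .negSucc 521, .ofNat 681, .ofNat 368⟩, ⟨.negSucc 216, .ofNat 41, .ofNat 10, .negSucc 499, .ofNat 230, .ofNat 70⟩, .ofNat 468, .negSucc 174, .ofNat 0, .negSucc 174, .ofNat 1294, .ofNat 0, .ofNat 444, .ofNat 71, .negSucc 166, .ofNat 0, .ofNat 128, .negSucc 10, .ofNat 0, .ofNat 0, .ofNat 826, .ofNat 1122, .ofNat 0, .ofNat 0, .ofNat 2986042028649422330670350336, .ofNat 0, .ofNat 0, .ofNat 0,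 .ofNat 0, .ofNat 0, .ofNat 0, .ofNat 0, .ofNat 0, .ofNat 0, .ofNat 759394715883444456221544879650504704, .ofNat 0, .ofNat 713447151925525052637663199232, .ofNat 0⟩)
    (by decide +kernel)
theorem L01269 : Good (Phi V5.P V5.D (-1) 1) ⟨3, 5, 2, 1, 1, 0, 1, 0, 3, 1⟩ :=
  out_sound (S := T5.ds_mp) T5.ok_mp (w := 43) (j := 3) (by decide +kernel)
theorem L01270 : Good (Phi V5.P V5.D (-1) 1) ⟨2, 3, 2, 1, 1, 0, 1, 0, 3, 1⟩ :=
  out_sound (S := T5.ds_mp) T5.ok_mp (w := 37) (j := 3) (by decide +kernel)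
theorem L01271 : Good (Phi V5.P V5.D (-1) 1) ⟨3, 4, 2, 1, 1, 0, 2, 0, 4, 4⟩ :=
  leafX_sound T5.ok_mp T5.Ymp.bz_eq (w := 191) (c := ⟨⟨.negSucc 1881, .negSucc 361, .negSucc 45, .negSucc 288, .ofNat 162, .ofNat 218⟩, ⟨.negSucc 299, .ofNat 162, .negSucc 372, .negSucc 95, .ofNat 34, .ofNat 39⟩, ⟨.ofNat 2552, .ofNat 512, .ofNat 213, .negSucc 76, .negSucc 635, .ofNat 36⟩, ⟨.negSucc 4101, .negSucc 209, .negSucc 45, .negSucc 531, .ofNat 274, .ofNat 469⟩, ⟨.negSucc 99, .ofNat 63, .ofNat 41, .negSucc 540, .ofNat 113, .ofNat 43⟩, .ofNat 334, .negSucc 60, .ofNat 0, .negSucc 60, .ofNat 636, .ofNat 0, .ofNat 169, .ofNat 37, .negSucc 117, .ofNat 0, .ofNat 128, .ofNat 12, .ofNat 0, .ofNat 0, .ofNat 759, .ofNat 20629, .ofNat 0, .ofNat 0, .ofNat 0, .ofNat 0, .ofNat 93579714502757020704215975547610595328, .ofNat 0, .ofNat 12042101920723237697700539400192, .ofNat 0, .ofNat 0, .ofNat 0, .ofNat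 0, .ofNat 0, .ofNat 310013704331582957743734346043392786432, .ofNat 0, .ofNat 0, .ofNat 0⟩)
    (by decide +kernel)
theorem L01272 : Good (Phi V5.P V5.D (-1) 1) ⟨3, 4, 2, 1, 1, 0, 2, 1, 4, 4⟩ :=
  leafX_sound T5.ok_mp T5.Ymp.bz_eq (w := 190) (c := ⟨⟨.negSucc 1822, .negSucc 301, .negSucc 15, .negSucc 193, .ofNat 206, .ofNat 159⟩, ⟨.negSucc 290, .ofNat 154, .negSucc 321, .negSucc 70, .ofNat 35, .ofNat 22⟩, ⟨.ofNat 2072, .ofNat 365, .ofNat 62, .negSucc 124, .negSucc 510, .negSucc 67⟩, ⟨.negSucc 4016, .negSucc 117, .ofNat 10, .negSucc 340, .ofNat 408, .ofNat 336⟩, ⟨.negSucc 63, .ofNat 28, .ofNat 15, .negSucc 407, .ofNat 92, .ofNat 4⟩, .ofNat 330, .negSucc 52, .ofNat 0, .negSucc 52, .ofNat 632, .ofNat 0, .ofNat 307, .ofNat 32, .negSucc 125, .ofNat 0, .ofNat 128, .ofNat 2, .ofNat 0, .ofNat 0, .ofNat 806, .ofNat 7525, .ofNat 597102088463584565200280158723899392, .ofNat 0, .ofNat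 1702638949750103655374831747072, .ofNat 0, .ofNat 0, .ofNat 0, .ofNat 1150755601918000080163919561228288, .ofNat 0, .ofNat 0, .ofNat 0, .ofNat 487502498320797844219354536738816, .ofNat 0, .ofNat 0, .ofNat 0, .ofNat 686961428070997427110336849248256, .ofNat 0⟩)
    (by decide +kernel)
theorem L01273 : Good (Phi V5.P V5.D (-1) 1) ⟨3, 4, 2, 1, 1, 0, 2, 0, 4, 5⟩ :=
  out_sound (S := T5.ds_mp) T5.ok_mp (w := 22) (j := 1) (by decide +kernel)
theorem L01274 : Good (Phi V5.P V5.D (-1) 1) ⟨3, 4, 2, 1, 2, 0, 3, 2, 4, 5⟩ :=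
  leafX_sound T5.ok_mp T5.Ymp.bz_eq (w := 214) (c := ⟨⟨.negSucc 1643, .negSucc 279, .negSucc 14, .negSucc 90, .ofNat 79, .ofNat 1⟩, ⟨.negSucc 253, .ofNat 151, .negSucc 314, .negSucc 36, .ofNat 11, .ofNat 0⟩, ⟨.ofNat 1995, .ofNat 338, .ofNat 33, .negSucc 31, .negSucc 221, .negSucc 0⟩, ⟨.negSucc 3626, .negSucc 94, .negSucc 7, .negSucc 168, .ofNat 159, .ofNat 2⟩, ⟨.negSucc 5, .ofNat 21, .ofNat 3, .negSucc 189, .ofNat 16, .ofNat 0⟩, .ofNat 174, .negSucc 11, .ofNat 0, .negSucc 11, .ofNat 231, .ofNat 0, .ofNat 128, .ofNat 14, .negSucc 47, .ofNat 0, .ofNat 128, .ofNat 7, .ofNat 0, .ofNat 0, .ofNat 239, .ofNat 553513, .ofNat 17649386615293449229486657792832707479207936, .ofNat 0, .ofNat 0, .ofNat 0, .ofNat 24708419216321979677939334331523800202477568, .ofNat 0, .ofNat 8394171921183508856173503248481648640, .ofNat 0, .ofNat 2289409981233654070764120957619773236051968, .ofNat 0,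 .ofNat 0, .ofNat 0, .ofNat 9999943523455373197719572289873085382787072, .ofNat 0, .ofNat 21647303111708380192179001705852043264, .ofNat 0⟩)
    (by decide +kernel)
theorem L01275 : Good (Phi V5.P V5.D (-1) 1) ⟨3, 4, 2, 1, 2, 0, 3, 3, 4, 5⟩ :=
  leafX_sound T5.ok_mp T5.Ymp.bz_eq (w := 211) (c := ⟨⟨.negSucc 1604, .negSucc 259, .negSucc 7, .negSucc 48, .ofNat 82, .ofNat 126⟩, ⟨.negSucc 260, .ofNat 151, .negSucc 291, .negSucc 20, .ofNat 15, .ofNat 8⟩, ⟨.ofNat 1788, .ofNat 276, .negSucc 3, .negSucc 18, .negSucc 232, .negSucc 108⟩, ⟨.negSucc 3543, .negSucc 67, .negSucc 1, .negSucc 76, .ofNat 168, .ofNat 252⟩, ⟨.negSucc 10, .ofNat 6, .negSucc 1, .negSucc 154, .ofNat 10, .ofNat 2⟩, .ofNat 332, .negSucc 56, .ofNat 0, .negSucc 56, .ofNat 634, .ofNat 0, .ofNat 252, .ofNat 34, .negSucc 68, .ofNat 0, .ofNat 128, .negSucc 3, .ofNat 0, .ofNat 0, .ofNat 567, .ofNat 42901, .ofNat 919052814778390466868296573874239713574912,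 .ofNat 0, .ofNat 339862342584797815478754374999605248, .ofNat 0, .ofNat 0, .ofNat 0, .ofNat 0, .ofNat 0, .ofNat 3665722869536590827079528969637697685553152, .ofNat 0, .ofNat 156565032238496426769462505099833114624, .ofNat 0, .ofNat 1580341740893758474033589342071785028321280, .ofNat 0, .ofNat 78187087791666442773936779189863579648, .ofNat 0⟩)
    (by decide +kernel)
theorem L01276 : Good (Phi V5.P V5.D (-1) 1) ⟨3, 4, 2, 1, 2, 1, 3, 2, 6, 20⟩ :=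
  leafX_sound T5.ok_mp T5.Ymp.bz_eq (w := 221) (c := ⟨⟨.negSucc 1748, .negSucc 289, .negSucc 38, .negSucc 59, .ofNat 99, .ofNat 49⟩, ⟨.negSucc 297, .ofNat 149, .negSucc 320, .negSucc 31, .ofNat 17, .ofNat 9⟩, ⟨.ofNat 2084, .ofNat 374, .ofNat 115, .negSucc 151, .negSucc 369, .negSucc 9⟩, ⟨.negSucc 3830, .negSucc 116, .negSucc 23, .negSucc 86, .ofNat 191, .ofNat 100⟩, ⟨.negSucc 223, .ofNat 26, .ofNat 13, .negSucc 233, .ofNat 42, .ofNat 10⟩, .ofNat 332, .negSucc 56, .ofNat 0, .negSucc 56, .ofNat 633, .ofNat 0, .ofNat 279, .ofNat 34, .negSucc 85, .ofNat 0, .ofNat 128, .ofNat 9, .ofNat 0, .ofNat 0, .ofNat 704, .ofNat 67532, .ofNat 41722609807013836843724407896088667481964544, .ofNat 0, .ofNat 6688128407072403551203313608232592736256, .ofNat 0, .ofNat 0, .ofNat 0, .ofNat 0, .ofNat 0, .ofNat 255173591890169311613887193202473003936382976, .ofNat 0, .ofNat 0, .ofNat 0, .ofNat 397319989644516090910217183474038069186789376,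 .ofNat 0, .ofNat 283984393066083172900691519194109170417664, .ofNat 0⟩)
    (by decide +kernel)
theorem L01277 : Good (Phi V5.P V5.D (-1) 1) ⟨3, 4, 2, 1, 2, 1, 4, 4, 6, 21⟩ :=
  out_sound (S := T5.ds_mp) T5.ok_mp (w := 30) (j := 1) (by decide +kernel)
theorem L01278 : Good (Phi V5.P V5.D (-1) 1) ⟨3, 4, 2, 1, 2, 1, 4, 5, 6, 21⟩ :=
  leafX_sound T5.ok_mp T5.Ymp.bz_eq (w := 226) (c := ⟨⟨.negSucc 1702, .negSucc 263, .negSucc 28, .negSucc 7, .ofNat 46, .ofNat 50⟩, ⟨.negSucc 280, .ofNat 142, .negSucc 317, .negSucc 28, .ofNat 10, .ofNat 9⟩, ⟨.ofNat 1966, .ofNat 339, .ofNat 106, .negSucc 227, .negSucc 184, .negSucc 8⟩, ⟨.negSucc 3732, .negSucc 82, .negSucc 7, .ofNat 18, .ofNat 93, .ofNat 103⟩, ⟨.negSucc 198, .ofNat 25, .ofNat 17, .negSucc 233, .ofNat 27, .ofNat 13⟩, .ofNat 335, .negSucc 74, .ofNat 0, .negSucc 74, .ofNat 623, .ofNat 0, .ofNat 219, .ofNat 45, .negSucc 75, .ofNat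 0, .ofNat 128, .ofNat 5, .ofNat 0, .ofNat 0, .ofNat 711, .ofNat 123292, .ofNat 1329518425458451046526724591418245778052743168, .ofNat 0, .ofNat 114071291520859305247643474736949328084992, .ofNat 0, .ofNat 6443001224796907215268396559131223607398629376, .ofNat 0, .ofNat 650458435436398013460831087767359231885312, .ofNat 0, .ofNat 2965241684591489017707525536514218458527825920, .ofNat 0, .ofNat 0, .ofNat 0, .ofNat 6809901185441541743446006229068684914962989056, .ofNat 0, .ofNat 3486483243457788092345196227834273670889472, .ofNat 0⟩)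
    (by decide +kernel)
theorem L01279 : Good (Phi V5.P V5.D (-1) 1) ⟨3, 4, 2, 1, 2, 1, 3, 2, 5, 11⟩ :=
  leafX_sound T5.ok_mp T5.Ymp.bz_eq (w := 218) (c := ⟨⟨.negSucc 1754, .negSucc 250, .negSucc 35, .ofNat 48, .ofNat 93, .ofNat 97⟩, ⟨.negSucc 280, .ofNat 139, .negSucc 310, .negSucc 30, .ofNat 23, .ofNat 28⟩, ⟨.ofNat 2246, .ofNat 314, .ofNat 119, .negSucc 325, .negSucc 376, .negSucc 32⟩, ⟨.negSucc 3817, .negSucc 69, .negSucc 15, .ofNat 118, .ofNat 187, .ofNat 219⟩, ⟨.negSucc 205, .ofNat 22, .ofNat 19, .negSucc 240, .ofNat 52, .ofNat 28⟩, .ofNat 173, .negSucc 10, .ofNat 0, .negSucc 10, .ofNat 231, .ofNat 0, .ofNat 145, .ofNat 10, .negSucc 83, .ofNat 0, .ofNat 128, .ofNat 24, .ofNat 0, .ofNat 0, .ofNat 485, .ofNat 193207, .ofNat 65968695929425149306873559174154763041243136, .ofNat 0, .ofNat 0, .ofNat 0, .ofNat 107045346553496290575190348420806858808229888, .ofNat 0, .ofNat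 518769164447121126662510736226587246592, .ofNat 0, .ofNat 26685915514606592949427427030700871336853504, .ofNat 0, .ofNat 243390895306320476336158526564479270912, .ofNat 0, .ofNat 135766573123785345351027043260312829961437184, .ofNat 0, .ofNat 2250242749752922744045040514993311711232, .ofNat 0⟩)
    (by decide +kernel)
theorem L01280 : Good (Phi V5.P V5.D (-1) 1) ⟨3, 4, 2, 1, 2, 1, 3, 3, 5, 10⟩ :=
  leafX_sound T5.ok_mp T5.Ymp.bz_eq (w := 215) (c := ⟨⟨.negSucc 1676, .negSucc 258, .negSucc 26, .negSucc 39, .ofNat 98, .ofNat 85⟩, ⟨.negSucc 282, .ofNat 139, .negSucc 304, .negSucc 24, .ofNat 19, .ofNat 18⟩, ⟨.ofNat 1789, .ofNat 302, .ofNat 47, .negSucc 178, .negSucc 296, .negSucc 48⟩, ⟨.negSucc 3670, .negSucc 79, .negSucc 16, .negSucc 54, .ofNat 195, .ofNat 180⟩, ⟨.negSucc 206, .ofNat 24, .ofNat 8, .negSucc 183, .ofNat 47, .ofNat 13⟩, .ofNat 334, .negSucc 60, .ofNat 0, .negSucc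 60, .ofNat 635, .ofNat 0, .ofNat 277, .ofNat 37, .negSucc 70, .ofNat 0, .ofNat 128, .ofNat 2, .ofNat 0, .ofNat 0, .ofNat 570, .ofNat 27100, .ofNat 2378551119097874577653320680419944799666176, .ofNat 0, .ofNat 55519315351245541669983158542079623168, .ofNat 0, .ofNat 0, .ofNat 0, .ofNat 0, .ofNat 0, .ofNat 0, .ofNat 0, .ofNat 4729527867935966806673463718051512844288, .ofNat 0, .ofNat 0, .ofNat 0, .ofNat 5624434989646236770368774139098804781056, .ofNat 0⟩)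
    (by decide +kernel)
theorem L01281 : Good (Phi V5.P V5.D (-1) 1) ⟨3, 4, 2, 1, 2, 1, 3, 3, 5, 11⟩ :=
  leafX_sound T5.ok_mp T5.Ymp.bz_eq (w := 215) (c := ⟨⟨.negSucc 1625, .negSucc 229, .negSucc 18, .negSucc 4, .ofNat 99, .ofNat 90⟩, ⟨.negSucc 275, .ofNat 134, .negSucc 286, .negSucc 14, .ofNat 22, .ofNat 13⟩, ⟨.ofNat 1817, .ofNat 251, .ofNat 15, .negSucc 204, .negSucc 336, .negSucc 65⟩, ⟨.negSucc 3543, .negSucc 38, .negSucc 1, .ofNat 9, .ofNat 193, .ofNat 177⟩, ⟨.negSucc 234, .ofNat 10, .ofNat 13, .negSucc 132, .ofNat 68, .ofNat 22⟩, .ofNat 462, .negSucc 164, .ofNat 0, .negSucc 164, .ofNat 1276, .ofNat 0, .ofNat 283, .ofNat 66, .negSucc 67, .ofNat 0, .ofNat 128, .negSucc 3, .ofNat 0, .ofNat 0, .ofNat 767, .ofNat 38970, .ofNat 9152515072767088286254580677465629211492352, .ofNat 0, .ofNat 0, .ofNat 0, .ofNat 0, .ofNat 0, .ofNat 0, .ofNat 0, .ofNat 39265265178937867193244495607496885193932800,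 .ofNat 0, .ofNat 10363399903367078733801757583360359661568, .ofNat 0, .ofNat 34811279941548499188745160787582949462638592, .ofNat 0, .ofNat 7273976587117950536487060491247978283008, .ofNat 0⟩)
    (by decide +kernel)
theorem L01282 : Good (Phi V5.P V5.D (-1) 1) ⟨3, 5, 2, 1, 1, 0, 1, 0, 3, 2⟩ :=
  out_sound (S := T5.ds_mp) T5.ok_mp (w := 43) (j := 3) (by decide +kernel)
theorem L01283 : Good (Phi V5.P V5.D (-1) 1) ⟨2, 3, 2, 1, 1, 0, 1, 0, 3, 2⟩ :=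
  out_sound (S := T5.ds_mp) T5.ok_mp (w := 37) (j := 3) (by decide +kernel)
theorem L01284 : Good (Phi V5.P V5.D (-1) 1) ⟨1, 1, 2, 1, 1, 0, 2, 0, 3, 3⟩ :=
  out_sound (S := T5.ds_mp) T5.ok_mp (w := 20) (j := 1) (by decide +kernel)
theorem L01285 : Good (Phi V5.P V5.D (-1) 1) ⟨2, 2, 2, 1, 1, 0, 2, 1, 4, 6⟩ :=
  leafX_sound T5.ok_mp T5.Ymp.bz_eq (w := 189) (c := ⟨⟨.negSucc 1694, .negSucc 411, .negSucc 17, .ofNat 62, .ofNat 187, .ofNat 177⟩, ⟨.negSucc 291, .ofNat 259, .negSucc 274, .negSucc 6, .ofNat 46, .ofNat 28⟩, ⟨.ofNat 2490, .ofNat 393, .ofNat 12, .negSucc 553, .negSucc 717, .negSucc 138⟩, ⟨.negSucc 3695, .negSucc 31, .ofNat 3, .ofNat 176, .ofNat 366, .ofNat 351⟩, ⟨.negSucc 219, .ofNat 28, .ofNat 10, .negSucc 235, .ofNat 177, .ofNat 66⟩, .ofNat 334, .negSucc 61, .ofNat 0, .negSucc 61, .ofNat 634, .ofNat 0, .ofNat 176, .ofNat 37, .negSucc 46, .ofNat 0, .ofNat 128, .ofNat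 0, .ofNat 0, .ofNat 0, .ofNat 602, .ofNat 31440, .ofNat 6745538941057204425473876882530238464, .ofNat 0, .ofNat 105365886863879474624829371449344, .ofNat 0, .ofNat 9736066231629333606199164233775579136, .ofNat 0, .ofNat 1716425085001460420049935018229760, .ofNat 0, .ofNat 16620639544999788217416511479303110656, .ofNat 0, .ofNat 2631324388200986136943906814689280, .ofNat 0, .ofNat 16724764759044838725661714365695393792, .ofNat 0, .ofNat 1109279222794989953940704028786688, .ofNat 0⟩)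
    (by decide +kernel)
theorem L01286 : Good (Phi V5.P V5.D (-1) 1) ⟨2, 2, 2, 1, 1, 0, 2, 1, 4, 7⟩ :=
  out_sound (S := T5.ds_mp) T5.ok_mp (w := 22) (j := 1) (by decide +kernel)
theorem L01287 : Good (Phi V5.P V5.D (-1) 1) ⟨2, 3, 2, 1, 1, 0, 2, 1, 3, 3⟩ :=
  out_sound (S := T5.ds_mp) T5.ok_mp (w := 37) (j := 3) (by decide +kernel)
theorem L01288 : Good (Phi V5.P V5.D (-1) 1) ⟨1, 1, 2, 1, 1, 0, 1, 0, 1, 1⟩ :=
  out_sound (S := T5.ds_mp) T5.ok_mp (w := 15) (j := 1) (by decide +kernel)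
theorem L01289 : Good (Phi V5.P V5.D (-1) 1) ⟨2, 2, 2, 0, 1, 0, 2, 2, 4, 0⟩ :=
  leafX_sound T5.ok_mp T5.Ymp.bz_eq (w := 182) (c := ⟨⟨.ofNat 340, .negSucc 270, .ofNat 36, .ofNat 217, .negSucc 584, .negSucc 1565⟩, ⟨.negSucc 37, .ofNat 55, .negSucc 226, .negSucc 66, .ofNat 86, .ofNat 92⟩, ⟨.negSucc 324, .ofNat 234, .negSucc 9, .negSucc 581, .ofNat 511, .ofNat 1464⟩, ⟨.ofNat 441, .negSucc 262, .negSucc 7, .ofNat 582, .negSucc 1188, .negSucc 3111⟩, ⟨.ofNat 107, .ofNat 0, .negSucc 19, .negSucc 618, .negSucc 87, .negSucc 150⟩, .ofNat 313, .ofNat 12, .ofNat 0, .ofNat 12, .ofNat 637, .ofNat 0, .ofNat 392, .negSucc 6, .negSucc 461, .ofNat 0, .ofNat 128, .ofNat 26, .ofNat 0, .ofNat 0, .ofNat 648, .ofNat 221, .ofNat 0, .ofNat 0, .ofNat 3618827659052174565853349543936, .ofNat 0, .ofNat 0, .ofNat 0, .ofNat 0, .ofNat 0, .ofNat 0, .ofNat 0, .ofNat 268003099451274025753073403559936, .ofNat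 0, .ofNat 0, .ofNat 0, .ofNat 795811505373031096922804867563520, .ofNat 0⟩)
    (by decide +kernel)
theorem L01290 : Good (Phi V5.P V5.D (-1) 1) ⟨2, 2, 2, 0, 1, 0, 2, 2, 4, 1⟩ :=
  leafX_sound T5.ok_mp T5.Ymp.bz_eq (w := 183) (c := ⟨⟨.negSucc 1249, .negSucc 1037, .negSucc 34, .negSucc 281, .ofNat 202, .negSucc 315⟩, ⟨.ofNat 55, .ofNat 413, .negSucc 353, .negSucc 42, .negSucc 19, .ofNat 14⟩, ⟨.ofNat 1236, .ofNat 953, .ofNat 56, .negSucc 392, .negSucc 171, .ofNat 309⟩, ⟨.negSucc 2759, .negSucc 1093, .negSucc 71, .negSucc 548, .ofNat 361, .negSucc 677⟩, ⟨.negSucc 134, .ofNat 60, .ofNat 20, .negSucc 563, .ofNat 87, .ofNat 172⟩, .ofNat 319, .ofNat 16, .ofNat 0, .ofNat 16, .ofNat 658, .ofNat 0, .ofNat 359, .negSucc 9, .negSucc 358, .ofNat 0, .ofNat 128, .ofNat 30, .ofNat 0, .ofNat 0, .ofNat 673, .ofNat 694, .ofNat 0, .ofNat 0, .ofNat 10204056860666282772658336563200, .ofNat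 0, .ofNat 0, .ofNat 0, .ofNat 139282446263516390335785100902400, .ofNat 0, .ofNat 0, .ofNat 0, .ofNat 192799464943624006036031155470336, .ofNat 0, .ofNat 0, .ofNat 0, .ofNat 581793975825771030698288767565824, .ofNat 0⟩)
    (by decide +kernel)
theorem L01291 : Good (Phi V5.P V5.D (-1) 1) ⟨2, 2, 2, 0, 1, 0, 3, 6, 4, 0⟩ :=
  leafX_sound T5.ok_mp T5.Ymp.bz_eq (w := 186) (c := ⟨⟨.negSucc 466, .negSucc 854, .negSucc 190, .ofNat 186, .negSucc 59, .negSucc 818⟩, ⟨.ofNat 11, .ofNat 239, .negSucc 225, .negSucc 81, .negSucc 2, .ofNat 69⟩, ⟨.ofNat 496, .ofNat 762, .ofNat 167, .negSucc 623, .ofNat 42, .ofNat 669⟩, ⟨.negSucc 1101, .negSucc 1141, .negSucc 308, .ofNat 381, .negSucc 172, .negSucc 1694⟩, ⟨.negSucc 22, .negSucc 72, .ofNat 65, .negSucc 676, .ofNat 73, .ofNat 17⟩, .ofNat 320, .ofNat 15, .ofNat 0, .ofNat 15, .ofNat 663, .ofNat 0, .ofNat 397, .negSucc 3, .negSucc 602, .ofNat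 0, .ofNat 128, .ofNat 35, .ofNat 0, .ofNat 0, .ofNat 843, .ofNat 308, .ofNat 0, .ofNat 0, .ofNat 74806945254856855594100594835456, .ofNat 0, .ofNat 0, .ofNat 0, .ofNat 0, .ofNat 0, .ofNat 0, .ofNat 0, .ofNat 4318847125994634670893521046601728, .ofNat 0, .ofNat 0, .ofNat 0, .ofNat 10608728761477794887797123363897344, .ofNat 0⟩)
    (by decide +kernel)
theorem L01292 : Good (Phi V5.P V5.D (-1) 1) ⟨3, 4, 2, 0, 1, 0, 3, 7, 4, 0⟩ :=
  leafX_sound T5.ok_mp T5.Ymp.bz_eq (w := 191) (c := ⟨⟨.negSucc 748, .negSucc 316, .negSucc 153, .negSucc 138, .ofNat 661, .negSucc 261⟩, ⟨.ofNat 29, .ofNat 60, .negSucc 164, .negSucc 64, .ofNat 14, .ofNat 8⟩, ⟨.ofNat 672, .ofNat 251, .ofNat 148, .negSucc 204, .negSucc 664, .ofNat 130⟩, ⟨.negSucc 1650, .negSucc 425, .negSucc 244, .negSucc 316, .ofNat 1329, .negSucc 511⟩, ⟨.negSucc 259, .ofNat 27, .ofNat 7, .negSucc 462, .negSucc 30, .ofNat 241⟩,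 .ofNat 437, .negSucc 10, .ofNat 0, .negSucc 10, .ofNat 1443, .ofNat 0, .ofNat 308, .ofNat 11, .negSucc 426, .ofNat 0, .ofNat 128, .ofNat 4, .ofNat 0, .ofNat 0, .ofNat 667, .ofNat 993, .ofNat 0, .ofNat 0, .ofNat 0, .ofNat 0, .ofNat 0, .ofNat 0, .ofNat 0, .ofNat 0, .ofNat 0, .ofNat 0, .ofNat 0, .ofNat 0, .ofNat 0, .ofNat 0, .ofNat 0, .ofNat 0⟩)
    (by decide +kernel)
theorem L01293 : Good (Phi V5.P V5.D (-1) 1) ⟨3, 5, 2, 0, 1, 0, 3, 7, 4, 0⟩ :=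
  leafX_sound T5.ok_mp T5.Ymp.bz_eq (w := 191) (c := ⟨⟨.negSucc 971, .negSucc 623, .negSucc 328, .negSucc 200, .ofNat 876, .negSucc 485⟩, ⟨.ofNat 103, .ofNat 184, .negSucc 173, .negSucc 42, .negSucc 91, .ofNat 64⟩, ⟨.ofNat 933, .ofNat 517, .ofNat 310, .negSucc 240, .negSucc 935, .ofNat 360⟩, ⟨.negSucc 1872, .negSucc 879, .negSucc 584, .negSucc 445, .ofNat 1611, .negSucc 872⟩, ⟨.negSucc 204, .ofNat 55, .negSucc 32, .negSucc 490, .ofNat 13, .ofNat 182⟩, .ofNat 407, .ofNat 119, .ofNat 0, .ofNat 119, .ofNat 1198, .ofNat 0, .ofNat 244, .negSucc 47, .negSucc 635, .ofNat 0, .ofNat 128, .ofNat 82, .ofNat 0, .ofNat 0, .ofNat 874, .ofNat 414, .ofNat 0, .ofNat 0, .ofNat 20982021677127884817882398326784, .ofNat 0, .ofNat 0, .ofNat 0, .ofNat 660516551550420879886374540410880, .ofNat 0, .ofNat 0, .ofNat 0, .ofNat 2634579463391316641614826148200448, .ofNat 0, .ofNat 0, .ofNat 0, .ofNat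 2553897562854238046327617984921600, .ofNat 0⟩)
    (by decide +kernel)
theorem L01294 : Good (Phi V5.P V5.D (-1) 1) ⟨3, 4, 2, 0, 1, 0, 2, 3, 4, 1⟩ :=
  leafX_sound T5.ok_mp T5.Ymp.bz_eq (w := 187) (c := ⟨⟨.negSucc 1358, .negSucc 279, .negSucc 142, .negSucc 279, .ofNat 1090, .negSucc 150⟩, ⟨.ofNat 68, .ofNat 76, .negSucc 230, .negSucc 42, .ofNat 5, .negSucc 13⟩, ⟨.ofNat 1284, .ofNat 232, .ofNat 155, .negSucc 229, .negSucc 1170, .ofNat 105⟩, ⟨.negSucc 2962, .negSucc 261, .negSucc 234, .negSucc 604, .ofNat 2252, .negSucc 301⟩, ⟨.negSucc 357, .ofNat 92, .negSucc 101, .negSucc 174, .ofNat 79, .ofNat 306⟩, .ofNat 435, .negSucc 3, .ofNat 0, .negSucc 3, .ofNat 1448, .ofNat 0, .ofNat 338, .ofNat 5, .negSucc 364, .ofNat 0, .ofNat 128, .ofNat 10, .ofNat 0, .ofNat 0, .ofNat 722, .ofNat 698, .ofNat 0, .ofNat 0, .ofNat 0, .ofNat 0, .ofNat 0, .ofNat 0, .ofNat 8426746670360642966210889121792,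 .ofNat 0, .ofNat 0, .ofNat 0, .ofNat 0, .ofNat 0, .ofNat 0, .ofNat 0, .ofNat 0, .ofNat 0⟩)
    (by decide +kernel)
theorem L01295 : Good (Phi V5.P V5.D (-1) 1) ⟨3, 5, 2, 0, 1, 0, 2, 3, 4, 1⟩ :=
  leafX_sound T5.ok_mp T5.Ymp.bz_eq (w := 187) (c := ⟨⟨.negSucc 1796, .negSucc 435, .negSucc 7, .negSucc 395, .ofNat 1180, .negSucc 119⟩, ⟨.ofNat 166, .ofNat 229, .negSucc 279, .ofNat 8, .negSucc 98, .ofNat 53⟩, ⟨.ofNat 1720, .ofNat 399, .ofNat 6, .negSucc 166, .negSucc 1285, .ofNat 75⟩, ⟨.negSucc 3421, .negSucc 402, .negSucc 17, .negSucc 764, .ofNat 2166, .negSucc 199⟩, ⟨.negSucc 341, .ofNat 108, .ofNat 84, .negSucc 383, .ofNat 189, .ofNat 412⟩, .ofNat 445, .ofNat 117, .ofNat 0, .ofNat 117, .ofNat 1443, .ofNat 0, .ofNat 320, .negSucc 39, .negSucc 461, .ofNat 0, .ofNat 128, .ofNat 54, .ofNat 0, .ofNat 0, .ofNat 816, .ofNat 366, .ofNat 0, .ofNat 0, .ofNat 2211993019876156068848560242688,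 .ofNat 0, .ofNat 0, .ofNat 253618791717692954477356852222885888, .ofNat 89694708035590267699368728461312, .ofNat 0, .ofNat 0, .ofNat 0, .ofNat 414805798116746390139420706603008, .ofNat 0, .ofNat 0, .ofNat 0, .ofNat 140715475334799470214941146873856, .ofNat 0⟩)
    (by decide +kernel)
theorem L01296 : Good (Phi V5.P V5.D (-1) 1) ⟨2, 2, 2, 0, 1, 0, 2, 2, 3, 1⟩ :=
  leafX_sound T5.ok_mp T5.Ymp.bz_eq (w := 179) (c := ⟨⟨.negSucc 1838, .negSucc 767, .negSucc 30, .negSucc 255, .ofNat 271, .ofNat 331⟩, ⟨.ofNat 45, .ofNat 410, .negSucc 327, .negSucc 21, .ofNat 4, .negSucc 22⟩, ⟨.ofNat 1855, .ofNat 735, .ofNat 69, .negSucc 354, .negSucc 422, .negSucc 214⟩, ⟨.negSucc 4037, .negSucc 479, .negSucc 19, .negSucc 536, .ofNat 555, .ofNat 644⟩, ⟨.negSucc 99, .ofNat 40, .ofNat 26, .negSucc 376, .ofNat 72, .ofNat 109⟩, .ofNat 316, .ofNat 17, .ofNat 0, .ofNat 17, .ofNat 652, .ofNat 0, .ofNat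 432, .negSucc 11, .negSucc 210, .ofNat 0, .ofNat 128, .ofNat 21, .ofNat 0, .ofNat 0, .ofNat 668, .ofNat 835, .ofNat 0, .ofNat 0, .ofNat 269648076845565167406707376128, .ofNat 0, .ofNat 0, .ofNat 0, .ofNat 18566636046847742225933131579392, .ofNat 0, .ofNat 0, .ofNat 0, .ofNat 21035165468039049358394557202432, .ofNat 0, .ofNat 0, .ofNat 0, .ofNat 14666936139230624480891909439488, .ofNat 0⟩)
    (by decide +kernel)
theorem L01297 : Good (Phi V5.P V5.D (-1) 1) ⟨2, 2, 2, 0, 1, 0, 3, 6, 3, 1⟩ :=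
  leafX_sound T5.ok_mp T5.Ymp.bz_eq (w := 182) (c := ⟨⟨.negSucc 1643, .negSucc 638, .negSucc 8, .negSucc 98, .ofNat 261, .ofNat 252⟩, ⟨.ofNat 46, .ofNat 353, .negSucc 306, .negSucc 33, .ofNat 14, .negSucc 6⟩, ⟨.ofNat 1540, .ofNat 573, .ofNat 18, .negSucc 418, .negSucc 328, .negSucc 261⟩, ⟨.negSucc 3548, .negSucc 391, .negSucc 29, .negSucc 254, .ofNat 554, .ofNat 471⟩, ⟨.negSucc 177, .ofNat 47, .ofNat 27, .negSucc 153, .ofNat 73, .ofNat 153⟩, .ofNat 320, .ofNat 9, .ofNat 0, .ofNat 9, .ofNat 658, .ofNat 0, .ofNat 469, .negSucc 4, .negSucc 198, .ofNat 0, .ofNat 128, .ofNat 13, .ofNat 0, .ofNat 0, .ofNat 553, .ofNat 759, .ofNat 0, .ofNat 0, .ofNat 0, .ofNat 0, .ofNat 0, .ofNat 0, .ofNat 366159832827477288624018826461184, .ofNat 0, .ofNat 0, .ofNat 0, .ofNat 169070425207445128510829041287168, .ofNat 0, .ofNat 0, .ofNat 0, .ofNat 234889585079230098555699038519296, .ofNat 0⟩)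
    (by decide +kernel)

end Crest.Agent.R097C5.N5mp
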