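import Crest.Agent.R097.KP7
import Crest.Agent.R097.T5Ymp

/-!
# Row 97, box cover in dimension n = 5 (generated)
-/

set_option autoImplicit false
set_option Elab.async false
set_option maxHeartbeats 0
set_option maxRecDepth 100000

open Crest.Agent.R097 Crest.Agent.R097.KA


namespace Crest.Agent.R097C5.N5mp

theorem L01298 : Good (Phi V5.P V5.D (-1) 1) ⟨2, 2, 2, 0, 1, 0, 3, 7, 3, 1⟩ :=
  leafX_sound T5.ok_mp T5.Ymp.bz_eq (w := 181) (c := ⟨⟨.negSucc 1355, .negSucc 396, .ofNat 16, .negSucc 74, .ofNat 739, .ofNat 82⟩, ⟨.negSucc 1, .ofNat 259, .negSucc 213, .ofNat 21, .ofNat 9, .ofNat 19⟩, ⟨.ofNat 1194, .ofNat 261, .negSucc 39, .negSucc 338, .negSucc 846, .negSucc 178⟩, ⟨.negSucc 2949, .negSucc 30, .ofNat 36, .negSucc 197, .ofNat 1515, .ofNat 145⟩, ⟨.negSucc 152, .negSucc 301, .negSucc 9, .ofNat 156, .ofNat 111, .ofNat 142⟩, .ofNat 414, .ofNat 31, .ofNat 0, .ofNat 31,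 .ofNat 1270, .ofNat 0, .ofNat 299, .negSucc 12, .negSucc 207, .ofNat 0, .ofNat 128, .ofNat 11, .ofNat 0, .ofNat 0, .ofNat 487, .ofNat 283, .ofNat 0, .ofNat 0, .ofNat 0, .ofNat 0, .ofNat 0, .ofNat 5491054594280879790655536598351872, .ofNat 163653085687330371129158274121728, .ofNat 0, .ofNat 0, .ofNat 0, .ofNat 134632363659566059679851686658048, .ofNat 0, .ofNat 0, .ofNat 11210130656678293262430219553210368, .ofNat 156559554389519930013253195792384, .ofNat 0⟩)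
    (by decide +kernel)
theorem L01299 : Good (Phi V5.P V5.D (-1) 1) ⟨2, 3, 2, 0, 1, 0, 1, 1, 2, 0⟩ :=
  out_sound (S := T5.ds_mp) T5.ok_mp (w := 37) (j := 3) (by decide +kernel)
theorem L01300 : Good (Phi V5.P V5.D (-1) 1) ⟨3, 4, 2, 0, 1, 0, 2, 2, 3, 2⟩ :=
  leafX_sound T5.ok_mp T5.Ymp.bz_eq (w := 183) (c := ⟨⟨.negSucc 1677, .negSucc 233, .negSucc 28, .negSucc 37, .ofNat 193, .ofNat 269⟩, ⟨.ofNat 33, .ofNat 138, .negSucc 286, .negSucc 20, .ofNat 10, .ofNat 9⟩, ⟨.ofNat 1739, .ofNat 254, .ofNat 28, .negSucc 369, .negSucc 470, .negSucc 208⟩, ⟨.negSucc 3703, .negSucc 33, .negSucc 32, .negSucc 83, .ofNat 406, .ofNat 566⟩, ⟨.negSucc 72, .ofNat 13, .ofNat 15, .negSucc 273, .ofNat 84, .ofNat 59⟩, .ofNat 327, .negSucc 6, .ofNat 0, .negSucc 6, .ofNat 681, .ofNat 0, .ofNat 203, .ofNat 4, .negSucc 77, .ofNat 0, .ofNat 128, .ofNat 3, .ofNat 0, .ofNat 0, .ofNat 519, .ofNat 1414,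 .ofNat 0, .ofNat 0, .ofNat 0, .ofNat 0, .ofNat 0, .ofNat 0, .ofNat 0, .ofNat 0, .ofNat 0, .ofNat 0, .ofNat 0, .ofNat 0, .ofNat 0, .ofNat 0, .ofNat 3209175889473251190047353339904, .ofNat 0⟩)
    (by decide +kernel)
theorem L01301 : Good (Phi V5.P V5.D (-1) 1) ⟨3, 5, 2, 0, 1, 0, 2, 2, 3, 2⟩ :=
  leafX_sound T5.ok_mp T5.Ymp.bz_eq (w := 184) (c := ⟨⟨.negSucc 2026, .negSucc 285, .negSucc 14, .negSucc 9, .ofNat 253, .ofNat 371⟩, ⟨.ofNat 227, .ofNat 214, .negSucc 306, .negSucc 31, .negSucc 16, .negSucc 35⟩, ⟨.ofNat 2132, .ofNat 274, .ofNat 8, .negSucc 438, .negSucc 546, .negSucc 320⟩, ⟨.negSucc 3884, .negSucc 34, .negSucc 8, .negSucc 50, .ofNat 470, .ofNat 682⟩, ⟨.negSucc 68, .ofNat 25, .negSucc 6, .negSucc 248, .ofNat 100, .ofNat 53⟩, .ofNat 406, .ofNat 116, .ofNat 0, .ofNat 116, .ofNat 1192, .ofNat 0, .ofNat 245, .negSucc 53, .negSucc 105, .ofNat 0, .ofNat 128, .ofNat 16,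 .ofNat 0, .ofNat 0, .ofNat 699, .ofNat 1624, .ofNat 75085399212110880878497690655129600, .ofNat 0, .ofNat 75631034986281066189920665600, .ofNat 0, .ofNat 0, .ofNat 0, .ofNat 21642224637134008597878092595200, .ofNat 0, .ofNat 0, .ofNat 0, .ofNat 12019317939444755001518527086592, .ofNat 0, .ofNat 0, .ofNat 0, .ofNat 22122026725860182039336025325568, .ofNat 0⟩)
    (by decide +kernel)
theorem L01302 : Good (Phi V5.P V5.D (-1) 1) ⟨3, 4, 2, 0, 1, 0, 2, 2, 3, 3⟩ :=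
  leafX_sound T5.ok_mp T5.Ymp.bz_eq (w := 183) (c := ⟨⟨.negSucc 1472, .negSucc 194, .negSucc 25, .ofNat 68, .ofNat 157, .ofNat 222⟩, ⟨.ofNat 22, .ofNat 129, .negSucc 251, .negSucc 16, .ofNat 14, .ofNat 18⟩, ⟨.ofNat 1604, .ofNat 170, .negSucc 27, .negSucc 310, .negSucc 478, .negSucc 459⟩, ⟨.negSucc 3248, .negSucc 10, .negSucc 36, .ofNat 148, .ofNat 331, .ofNat 427⟩, ⟨.negSucc 59, .ofNat 25, .negSucc 17, .negSucc 163, .ofNat 49, .ofNat 208⟩, .ofNat 327, .negSucc 12, .ofNat 0, .negSucc 12, .ofNat 675, .ofNat 0, .ofNat 214, .ofNat 8, .negSucc 71, .ofNat 0, .ofNat 128, .negSucc 7, .ofNat 0, .ofNat 0, .ofNat 851, .ofNat 1703, .ofNat 419123849677720579758434150160269312, .ofNat 0, .ofNat 0, .ofNat 0, .ofNat 0, .ofNat 0, .ofNat 0, .ofNat 0, .ofNat 0, .ofNat 0, .ofNat 0, .ofNat 0, .ofNat 9595292088501631765256992641874132992, .ofNat 543522682505059626148921381933285376, .ofNat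 0, .ofNat 0⟩)
    (by decide +kernel)
theorem L01303 : Good (Phi V5.P V5.D (-1) 1) ⟨3, 5, 2, 0, 1, 0, 2, 2, 4, 6⟩ :=
  leafX_sound T5.ok_mp T5.Ymp.bz_eq (w := 190) (c := ⟨⟨.negSucc 1740, .negSucc 241, .negSucc 1, .ofNat 139, .ofNat 203, .ofNat 129⟩, ⟨.ofNat 181, .ofNat 196, .negSucc 255, .negSucc 26, .negSucc 3, .negSucc 16⟩, ⟨.ofNat 1928, .ofNat 205, .negSucc 26, .negSucc 498, .negSucc 641, .negSucc 196⟩, ⟨.negSucc 3344, .negSucc 8, .ofNat 6, .ofNat 236, .ofNat 386, .ofNat 230⟩, ⟨.negSucc 102, .ofNat 1, .ofNat 19, .negSucc 102, .ofNat 153, .ofNat 0⟩, .ofNat 394, .ofNat 75, .ofNat 0, .ofNat 75, .ofNat 1033, .ofNat 0, .ofNat 225, .negSucc 33, .negSucc 100, .ofNat 0, .ofNat 128, .ofNat 8, .ofNat 0, .ofNat 0, .ofNat 1060, .ofNat 3378, .ofNat 8209630538414804035309219587135897600, .ofNat 0, .ofNat 0, .ofNat 0, .ofNat 0, .ofNat 896154739658479360009079341887520768, .ofNat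 1392202300676224443116422780944384, .ofNat 0, .ofNat 0, .ofNat 1675916932406500305635317926682689536, .ofNat 1107535167591719937372559174008832, .ofNat 0, .ofNat 0, .ofNat 4796778993929379556245232926830100480, .ofNat 1635715572204344225312761190547456, .ofNat 0⟩)
    (by decide +kernel)
theorem L01304 : Good (Phi V5.P V5.D (-1) 1) ⟨3, 5, 2, 0, 1, 0, 2, 2, 4, 7⟩ :=
  leafX_sound T5.ok_mp T5.Ymp.bz_eq (w := 190) (c := ⟨⟨.negSucc 1735, .negSucc 167, .ofNat 8, .ofNat 257, .ofNat 235, .ofNat 86⟩, ⟨.ofNat 139, .ofNat 173, .negSucc 213, .negSucc 0, .ofNat 10, .negSucc 1⟩, ⟨.ofNat 2056, .ofNat 67, .ofNat 9, .negSucc 1055, .negSucc 559, .negSucc 287⟩, ⟨.negSucc 3361, .ofNat 69, .ofNat 8, .ofNat 500, .ofNat 471, .ofNat 171⟩, ⟨.negSucc 522, .ofNat 14, .negSucc 16, .ofNat 333, .ofNat 371, .ofNat 104⟩, .ofNat 306, .ofNat 45, .ofNat 0, .ofNat 45, .ofNat 620, .ofNat 0, .ofNat 225,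 .negSucc 29, .negSucc 77, .ofNat 0, .ofNat 128, .negSucc 28, .ofNat 0, .ofNat 0, .ofNat 1742, .ofNat 3384, .ofNat 17661595688899740316506452395460395008, .ofNat 0, .ofNat 0, .ofNat 0, .ofNat 95354020361824664997901504192014450688, .ofNat 717620221706956735766307960805916672, .ofNat 117040531027875770781410550349824, .ofNat 0, .ofNat 15196297705502830152494008083075301376, .ofNat 0, .ofNat 457868374268874711404541825253376, .ofNat 0, .ofNat 579332146737188383123843031899861680128, .ofNat 19713706433063465912357940533334638592, .ofNat 0, .ofNat 0⟩)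
    (by decide +kernel)
theorem L01305 : Good (Phi V5.P V5.D (-1) 1) ⟨2, 3, 2, 0, 1, 0, 2, 2, 2, 1⟩ :=
  out_sound (S := T5.ds_mp) T5.ok_mp (w := 37) (j := 3) (by decide +kernel)
theorem L01306 : Good (Phi V5.P V5.D (-1) 1) ⟨2, 2, 2, 0, 1, 0, 3, 6, 3, 2⟩ :=
  leafX_sound T5.ok_mp T5.Ymp.bz_eq (w := 182) (c := ⟨⟨.negSucc 1481, .negSucc 445, .negSucc 30, .ofNat 85, .ofNat 160, .ofNat 178⟩, ⟨.ofNat 25, .ofNat 301, .negSucc 254, .negSucc 11, .ofNat 11, .ofNat 4⟩, ⟨.ofNat 1349, .ofNat 393, .ofNat 3, .negSucc 493, .negSucc 303, .negSucc 264⟩, ⟨.negSucc 3259, .negSucc 58, .negSucc 63, .ofNat 145, .ofNat 338, .ofNat 358⟩, ⟨.negSucc 64, .negSucc 29, .negSucc 32, .ofNat 46, .ofNat 96, .ofNat 66⟩, .ofNat 318, .ofNat 9, .ofNat 0, .ofNat 9, .ofNat 651, .ofNat 0, .ofNat 276, .negSucc 5, .negSucc 134, .ofNat 0, .ofNat 128, .ofNat 2, .ofNat 0, .ofNat 0, .ofNat 722, .ofNat 831, .ofNat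 0, .ofNat 0, .ofNat 0, .ofNat 0, .ofNat 0, .ofNat 20416896000065480834785840757473280, .ofNat 467792336708881585170934946332672, .ofNat 0, .ofNat 0, .ofNat 18223328797629168618171090610421760, .ofNat 163093687153854264486918413615104, .ofNat 0, .ofNat 0, .ofNat 40350100021177754592317847692640256, .ofNat 1288758816013644621677792090652672, .ofNat 0⟩)
    (by decide +kernel)
theorem L01307 : Good (Phi V5.P V5.D (-1) 1) ⟨2, 2, 2, 0, 1, 0, 3, 7, 3, 2⟩ :=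
  leafX_sound T5.ok_mp T5.Ymp.bz_eq (w := 181) (c := ⟨⟨.negSucc 1370, .negSucc 332, .ofNat 22, .ofNat 291, .ofNat 302, .ofNat 61⟩, ⟨.ofNat 7, .ofNat 273, .negSucc 203, .ofNat 35, .ofNat 5, .negSucc 4⟩, ⟨.ofNat 1111, .ofNat 221, .negSucc 79, .negSucc 591, .negSucc 495, .negSucc 157⟩, ⟨.negSucc 2981, .ofNat 62, .ofNat 10, .ofNat 578, .ofNat 614, .ofNat 113⟩, ⟨.negSucc 210, .ofNat 40, .ofNat 32, .ofNat 513, .ofNat 171, .ofNat 95⟩, .ofNat 313, .ofNat 12, .ofNat 0, .ofNat 12, .ofNat 637, .ofNat 0, .ofNat 507, .negSucc 7, .negSucc 193, .ofNat 0, .ofNat 128, .negSucc 1, .ofNat 0, .ofNat 0, .ofNat 702, .ofNat 258, .ofNat 0, .ofNat 0, .ofNat 0, .ofNat 0, .ofNat 0, .ofNat 0, .ofNat 0, .ofNat 0, .ofNat 0, .ofNat 23656534881569530209118618847805440, .ofNat 129321039948270885491879968768000, .ofNat 0, .ofNat 0, .ofNat 75707984062078560425624466584764416, .ofNat 0, .ofNat 0⟩)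
    (by decide +kernel)
theorem L01308 : Good (Phi V5.P V5.D (-1) 1) ⟨2, 3, 2, 0, 1, 0, 2, 3, 3, 2⟩ :=
  out_sound (S := T5.ds_mp) T5.ok_mp (w := 37) (j := 3) (by decide +kernel)
theorem L01309 : Good (Phi V5.P V5.D (-1) 1) ⟨2, 2, 2, 0, 2, 0, 2, 3, 3, 3⟩ :=
  leafX_sound T5.ok_mp T5.Ymp.bz_eq (w := 193) (c := ⟨⟨.negSucc 1351, .negSucc 406, .ofNat 4, .ofNat 166, .ofNat 110, .ofNat 37⟩, ⟨.ofNat 21, .ofNat 294, .negSucc 231, .negSucc 6, .ofNat 5, .negSucc 0⟩, ⟨.ofNat 1121, .ofNat 362, .negSucc 34, .negSucc 274, .negSucc 493, .negSucc 113⟩, ⟨.negSucc 2978, .negSucc 13, .ofNat 4, .ofNat 329, .ofNat 219, .ofNat 53⟩, ⟨.negSucc 42, .negSucc 27, .negSucc 8, .ofNat 61, .ofNat 140, .ofNat 12⟩, .ofNat 313, .ofNat 12, .ofNat 0, .ofNat 12, .ofNat 637, .ofNat 0, .ofNat 444, .negSucc 7, .negSucc 89, .ofNat 0, .ofNat 128, .negSucc 4, .ofNat 0, .ofNat 0, .ofNat 572, .ofNat 1180, .ofNat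 54794415157033651545216590861649838080, .ofNat 0, .ofNat 0, .ofNat 0, .ofNat 0, .ofNat 0, .ofNat 0, .ofNat 0, .ofNat 0, .ofNat 30083284265607413982879349997182124032, .ofNat 56410267939075632835045015850844160, .ofNat 0, .ofNat 0, .ofNat 0, .ofNat 0, .ofNat 0⟩)
    (by decide +kernel)
theorem L01310 : Good (Phi V5.P V5.D (-1) 1) ⟨2, 2, 2, 0, 3, 2, 2, 3, 3, 3⟩ :=
  leafX_sound T5.ok_mp T5.Ymp.bz_eq (w := 206) (c := ⟨⟨.negSucc 1288, .negSucc 267, .ofNat 20, .ofNat 52, .ofNat 274, .ofNat 99⟩, ⟨.ofNat 13, .ofNat 264, .negSucc 208, .ofNat 12, .ofNat 32, .ofNat 4⟩, ⟨.ofNat 1053, .ofNat 58, .negSucc 119, .negSucc 179, .negSucc 671, .negSucc 207⟩, ⟨.negSucc 2838, .ofNat 196, .ofNat 16, .ofNat 111, .ofNat 567, .ofNat 208⟩, ⟨.negSucc 93, .ofNat 52, .ofNat 7, .ofNat 112, .ofNat 473, .ofNat 79⟩, .ofNat 313, .ofNat 12, .ofNat 0, .ofNat 12, .ofNat 637, .ofNat 0, .ofNat 539, .negSucc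 7, .negSucc 84, .ofNat 0, .ofNat 128, .negSucc 26, .ofNat 0, .ofNat 0, .ofNat 887, .ofNat 486, .ofNat 87972090953007906194351119073022201298944, .ofNat 0, .ofNat 0, .ofNat 0, .ofNat 0, .ofNat 0, .ofNat 0, .ofNat 0, .ofNat 0, .ofNat 148992904698700728665217014289704465465344, .ofNat 5547533520095256338177470726191865397248, .ofNat 0, .ofNat 0, .ofNat 468832868323449748514885730104347908374528, .ofNat 0, .ofNat 0⟩)
    (by decide +kernel)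
theorem L01311 : Good (Phi V5.P V5.D (-1) 1) ⟨2, 2, 2, 0, 3, 3, 2, 3, 3, 3⟩ :=
  leafX_sound T5.ok_mp T5.Ymp.bz_eq (w := 207) (c := ⟨⟨.negSucc 1286, .negSucc 248, .ofNat 29, .ofNat 43, .ofNat 324, .ofNat 168⟩, ⟨.ofNat 5, .ofNat 283, .negSucc 205, .ofNat 19, .ofNat 50, .ofNat 15⟩, ⟨.ofNat 1016, .negSucc 143, .negSucc 128, .negSucc 296, .negSucc 772, .negSucc 371⟩, ⟨.negSucc 2832, .ofNat 263, .ofNat 27, .ofNat 92, .ofNat 648, .ofNat 336⟩, ⟨.negSucc 51, .ofNat 65, .ofNat 33, .ofNat 162, .ofNat 637, .ofNat 167⟩, .ofNat 424, .ofNat 33, .ofNat 0, .ofNat 33, .ofNat 1338, .ofNat 0, .ofNat 299, .negSucc 15, .negSucc 34, .ofNat 0, .ofNat 128, .negSucc 8, .ofNat 0, .ofNat 0, .ofNat 747, .ofNat 958, .ofNat 0, .ofNat 0, .ofNat 0, .ofNat 0, .ofNat 0, .ofNat 475020894166399049236684513530859745181696, .ofNat 24076336344179517220304976623042283175936, .ofNat 0, .ofNat 0, .ofNat 461259045048703872188083803513638937952256,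 .ofNat 34656691592539640459854376508964160405504, .ofNat 0, .ofNat 0, .ofNat 960763875399123551855660379560524252184576, .ofNat 221349460556712882064359223438851702784, .ofNat 0⟩)
    (by decide +kernel)
theorem L01312 : Good (Phi V5.P V5.D (-1) 1) ⟨2, 3, 2, 0, 1, 0, 2, 3, 3, 3⟩ :=
  out_sound (S := T5.ds_mp) T5.ok_mp (w := 37) (j := 3) (by decide +kernel)
theorem L01313 : Good (Phi V5.P V5.D (-1) 1) ⟨1, 1, 2, 0, 1, 0, 1, 1, 1, 1⟩ :=
  leafX_sound T5.ok_mp T5.Ymp.bz_eq (w := 171) (c := ⟨⟨.negSucc 1386, .negSucc 1145, .ofNat 5, .ofNat 1, .negSucc 0, .ofNat 1⟩, ⟨.ofNat 17, .ofNat 712, .negSucc 258, .ofNat 0, .ofNat 0, .ofNat 0⟩, ⟨.ofNat 689, .ofNat 1145, .negSucc 4, .negSucc 0, .ofNat 1, .negSucc 0⟩, ⟨.negSucc 3071, .negSucc 515, .ofNat 2, .ofNat 2, .negSucc 1, .ofNat 2⟩, ⟨.ofNat 1, .negSucc 6, .ofNat 0, .ofNat 0, .ofNat 0, .ofNat 0⟩, .ofNat 170, .ofNat 3, .ofNat 0, .ofNat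 3, .ofNat 234, .ofNat 0, .ofNat 161, .negSucc 2, .negSucc 132, .ofNat 0, .ofNat 128, .ofNat 2, .ofNat 0, .ofNat 0, .ofNat 328, .ofNat 2860, .ofNat 2284810297253964982664980070400000000, .ofNat 87877012081917099301755270046154752, .ofNat 283944226204739030770253824, .ofNat 0, .ofNat 6785428430739026789402124671254528, .ofNat 329997408250262013940634501513216, .ofNat 312732790118094372048207872, .ofNat 0, .ofNat 708291396990820072062744256315392, .ofNat 32012962636582473747547788673024, .ofNat 2210479470407383932620242944, .ofNat 0, .ofNat 7943652256053183416305564874964992, .ofNat 389926052170248901453337795231744, .ofNat 552782400150259779799875584, .ofNat 0⟩)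
    (by decide +kernel)
theorem L01314 : Good (Phi V5.P V5.D (-1) 1) ⟨3, 4, 2, 1, 1, 0, 2, 2, 4, 0⟩ :=
  leafX_sound T5.ok_mp T5.Ymp.bz_eq (w := 186) (c := ⟨⟨.ofNat 160, .negSucc 344, .ofNat 67, .ofNat 165, .negSucc 499, .negSucc 1355⟩, ⟨.ofNat 6, .ofNat 43, .negSucc 174, .negSucc 12, .negSucc 71, .negSucc 218⟩, ⟨.negSucc 174, .ofNat 300, .ofNat 23, .negSucc 521, .ofNat 441, .ofNat 1262⟩, ⟨.ofNat 188, .negSucc 456, .ofNat 91, .ofNat 471, .negSucc 1045, .negSucc 2787⟩, ⟨.ofNat 266, .negSucc 159, .ofNat 22, .negSucc 768, .negSucc 117, .negSucc 81⟩, .ofNat 460, .negSucc 159, .ofNat 0, .negSucc 159, .ofNat 1263, .ofNat 0, .ofNat 348, .ofNat 68, .negSucc 438, .ofNat 0, .ofNat 128, .negSucc 51, .ofNat 0, .ofNat 0, .ofNat 773, .ofNat 390, .ofNat 0, .ofNat 0, .ofNat 0, .ofNat 0, .ofNat 0, .ofNat 0, .ofNat 0, .ofNat 0, .ofNat 0, .ofNat 0, .ofNat 204511788619058973641912189190144,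 .ofNat 0, .ofNat 0, .ofNat 0, .ofNat 0, .ofNat 0⟩)
    (by decide +kernel)
theorem L01315 : Good (Phi V5.P V5.D (-1) 1) ⟨3, 4, 2, 1, 1, 0, 2, 2, 4, 1⟩ :=
  leafX_sound T5.ok_mp T5.Ymp.bz_eq (w := 186) (c := ⟨⟨.negSucc 1296, .negSucc 484, .negSucc 59, .negSucc 180, .ofNat 146, .negSucc 343⟩, ⟨.negSucc 199, .ofNat 105, .negSucc 303, .negSucc 91, .ofNat 22, .negSucc 43⟩, ⟨.ofNat 1253, .ofNat 465, .ofNat 100, .negSucc 421, .negSucc 150, .ofNat 363⟩, ⟨.negSucc 2944, .negSucc 508, .negSucc 86, .negSucc 253, .ofNat 265, .negSucc 689⟩, ⟨.ofNat 54, .negSucc 84, .ofNat 17, .negSucc 649, .ofNat 155, .negSucc 52⟩, .ofNat 564, .negSucc 323, .ofNat 0, .negSucc 323, .ofNat 2328, .ofNat 0, .ofNat 420, .ofNat 87, .negSucc 231, .ofNat 0, .ofNat 128, .negSucc 25, .ofNat 0, .ofNat 0, .ofNat 546, .ofNat 303, .ofNat 0, .ofNat 0, .ofNat 1351641380154671113079963516928, .ofNat 0, .ofNat 0,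 .ofNat 0, .ofNat 0, .ofNat 0, .ofNat 0, .ofNat 0, .ofNat 277798286962745265483486234411008, .ofNat 0, .ofNat 0, .ofNat 0, .ofNat 0, .ofNat 0⟩)
    (by decide +kernel)
theorem L01316 : Good (Phi V5.P V5.D (-1) 1) ⟨3, 4, 2, 1, 1, 0, 2, 2, 3, 1⟩ :=
  leafX_sound T5.ok_mp T5.Ymp.bz_eq (w := 184) (c := ⟨⟨.negSucc 1841, .negSucc 374, .negSucc 29, .negSucc 273, .ofNat 286, .ofNat 282⟩, ⟨.negSucc 311, .ofNat 151, .negSucc 322, .negSucc 67, .ofNat 54, .ofNat 58⟩, ⟨.ofNat 1847, .ofNat 343, .ofNat 55, .negSucc 262, .negSucc 460, .negSucc 173⟩, ⟨.negSucc 4044, .negSucc 265, .negSucc 34, .negSucc 487, .ofNat 565, .ofNat 560⟩, ⟨.negSucc 28, .negSucc 63, .negSucc 26, .negSucc 412, .ofNat 111, .ofNat 91⟩, .ofNat 458, .negSucc 156, .ofNat 0, .negSucc 156, .ofNat 1263, .ofNat 0, .ofNat 383, .ofNat 65, .negSucc 150, .ofNat 0, .ofNat 128, .negSucc 12, .ofNat 0, .ofNat 0, .ofNat 593, .ofNat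 1883, .ofNat 0, .ofNat 0, .ofNat 0, .ofNat 0, .ofNat 0, .ofNat 0, .ofNat 0, .ofNat 0, .ofNat 0, .ofNat 0, .ofNat 7951512171153910567742847582208, .ofNat 0, .ofNat 0, .ofNat 0, .ofNat 0, .ofNat 0⟩)
    (by decide +kernel)
theorem L01317 : Good (Phi V5.P V5.D (-1) 1) ⟨3, 4, 2, 1, 1, 0, 2, 3, 4, 0⟩ :=
  leafX_sound T5.ok_mp T5.Ymp.bz_eq (w := 187) (c := ⟨⟨.negSucc 826, .negSucc 386, .negSucc 197, .negSucc 314, .ofNat 740, .negSucc 337⟩, ⟨.negSucc 128, .ofNat 65, .negSucc 193, .negSucc 144, .ofNat 122, .negSucc 47⟩, ⟨.ofNat 787, .ofNat 312, .ofNat 217, .negSucc 91, .negSucc 754, .ofNat 219⟩, ⟨.negSucc 1760, .negSucc 563, .negSucc 376, .negSucc 657, .ofNat 1560, .negSucc 730⟩, ⟨.negSucc 140, .negSucc 145, .negSucc 132, .negSucc 317, .negSucc 250, .ofNat 350⟩, .ofNat 463, .negSucc 166, .ofNat 0, .negSucc 166, .ofNat 1273, .ofNat 0, .ofNat 288, .ofNat 71, .negSucc 403, .ofNat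 0, .ofNat 128, .negSucc 50, .ofNat 0, .ofNat 0, .ofNat 660, .ofNat 456, .ofNat 0, .ofNat 0, .ofNat 513407902136390653770354130944, .ofNat 0, .ofNat 0, .ofNat 0, .ofNat 70510497263684545481994095558656, .ofNat 0, .ofNat 0, .ofNat 0, .ofNat 0, .ofNat 0, .ofNat 0, .ofNat 0, .ofNat 0, .ofNat 0⟩)
    (by decide +kernel)
theorem L01318 : Good (Phi V5.P V5.D (-1) 1) ⟨3, 4, 2, 1, 1, 0, 2, 3, 4, 1⟩ :=
  leafX_sound T5.ok_mp T5.Ymp.bz_eq (w := 187) (c := ⟨⟨.negSucc 1333, .negSucc 379, .negSucc 34, .negSucc 450, .ofNat 1030, .negSucc 124⟩, ⟨.negSucc 220, .ofNat 88, .negSucc 250, .negSucc 121, .ofNat 183, .ofNat 11⟩, ⟨.ofNat 1280, .ofNat 335, .ofNat 55, .negSucc 65, .negSucc 1130, .ofNat 62⟩, ⟨.negSucc 2886, .negSucc 469, .negSucc 31, .negSucc 937, .ofNat 2174, .negSucc 270⟩, ⟨.negSucc 233, .ofNat 184, .ofNat 38, .negSucc 334, .ofNat 23, .ofNat 199⟩, .ofNat 458, .negSucc 154, .ofNat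 0, .negSucc 154, .ofNat 1273, .ofNat 0, .ofNat 289, .ofNat 68, .negSucc 283, .ofNat 0, .ofNat 128, .negSucc 27, .ofNat 0, .ofNat 0, .ofNat 573, .ofNat 537, .ofNat 0, .ofNat 0, .ofNat 622594788560663821990448070656, .ofNat 0, .ofNat 0, .ofNat 271970945746843181862494228984102912, .ofNat 108545943487245165879837472063488, .ofNat 0, .ofNat 0, .ofNat 339092785247089792052732513210073088, .ofNat 138256118268610184588277099528192, .ofNat 0, .ofNat 0, .ofNat 168649523871737150852180597421375488, .ofNat 69155436933274035843909646548992, .ofNat 0⟩)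
    (by decide +kernel)
theorem L01319 : Good (Phi V5.P V5.D (-1) 1) ⟨3, 4, 2, 1, 1, 0, 3, 6, 3, 1⟩ :=
  leafX_sound T5.ok_mp T5.Ymp.bz_eq (w := 187) (c := ⟨⟨.negSucc 1571, .negSucc 324, .negSucc 3, .negSucc 196, .ofNat 259, .ofNat 190⟩, ⟨.negSucc 269, .ofNat 142, .negSucc 266, .negSucc 49, .ofNat 55, .ofNat 38⟩, ⟨.ofNat 1484, .ofNat 318, .ofNat 47, .negSucc 335, .negSucc 344, .negSucc 252⟩, ⟨.negSucc 3461, .negSucc 213, .ofNat 27, .negSucc 382, .ofNat 522, .ofNat 380⟩, ⟨.negSucc 104, .ofNat 46, .ofNat 10, .negSucc 216, .ofNat 116, .ofNat 80⟩, .ofNat 463, .negSucc 168, .ofNat 0, .negSucc 168, .ofNat 1270, .ofNat 0, .ofNat 357, .ofNat 71, .negSucc 138, .ofNat 0, .ofNat 128, .negSucc 13, .ofNat 0, .ofNat 0, .ofNat 443, .ofNat 1348, .ofNat 0, .ofNat 0, .ofNat 0, .ofNat 0, .ofNat 0, .ofNat 0, .ofNat 0, .ofNat 0, .ofNat 0, .ofNat 0, .ofNat 148904430503673846861756461219840,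 .ofNat 0, .ofNat 0, .ofNat 0, .ofNat 38685601760238835615575140466688, .ofNat 0⟩)
    (by decide +kernel)
theorem L01320 : Good (Phi V5.P V5.D (-1) 1) ⟨3, 4, 2, 1, 1, 0, 3, 7, 3, 1⟩ :=
  leafX_sound T5.ok_mp T5.Ymp.bz_eq (w := 186) (c := ⟨⟨.negSucc 1329, .negSucc 245, .negSucc 2, .ofNat 20, .ofNat 669, .ofNat 8⟩, ⟨.negSucc 268, .ofNat 100, .negSucc 172, .ofNat 29, .ofNat 140, .ofNat 43⟩, ⟨.ofNat 1173, .ofNat 212, .negSucc 21, .negSucc 449, .negSucc 805, .negSucc 163⟩, ⟨.negSucc 2864, .negSucc 214, .ofNat 4, .negSucc 4, .ofNat 1425, .negSucc 29⟩, ⟨.negSucc 314, .ofNat 181, .ofNat 2, .ofNat 178, .ofNat 117, .ofNat 229⟩, .ofNat 461, .negSucc 158, .ofNat 0, .negSucc 158, .ofNat 1278, .ofNat 0, .ofNat 439, .ofNat 67, .negSucc 264, .ofNat 0, .ofNat 128, .negSucc 29, .ofNat 0, .ofNat 0, .ofNat 698, .ofNat 497, .ofNat 0, .ofNat 0, .ofNat 0, .ofNat 0, .ofNat 0, .ofNat 0, .ofNat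 0, .ofNat 0, .ofNat 0, .ofNat 203756418901434625760806467205595136, .ofNat 74319312537733639801769958572032, .ofNat 0, .ofNat 0, .ofNat 0, .ofNat 0, .ofNat 0⟩)
    (by decide +kernel)
theorem L01321 : Good (Phi V5.P V5.D (-1) 1) ⟨3, 5, 2, 1, 1, 0, 1, 1, 2, 0⟩ :=
  out_sound (S := T5.ds_mp) T5.ok_mp (w := 43) (j := 3) (by decide +kernel)
theorem L01322 : Good (Phi V5.P V5.D (-1) 1) ⟨2, 3, 2, 1, 1, 0, 1, 1, 2, 0⟩ :=
  out_sound (S := T5.ds_mp) T5.ok_mp (w := 37) (j := 3) (by decide +kernel)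
theorem L01323 : Good (Phi V5.P V5.D (-1) 1) ⟨3, 4, 2, 1, 1, 0, 2, 2, 3, 2⟩ :=
  leafX_sound T5.ok_mp T5.Ymp.bz_eq (w := 184) (c := ⟨⟨.negSucc 1700, .negSucc 224, .ofNat 25, .negSucc 52, .ofNat 219, .ofNat 258⟩, ⟨.negSucc 275, .ofNat 145, .negSucc 269, .negSucc 31, .ofNat 41, .ofNat 38⟩, ⟨.ofNat 1785, .ofNat 237, .ofNat 10, .negSucc 345, .negSucc 517, .negSucc 251⟩, ⟨.negSucc 3722, .negSucc 9, .ofNat 79, .negSucc 86, .ofNat 441, .ofNat 516⟩, ⟨.negSucc 98, .ofNat 31, .ofNat 40, .negSucc 239, .ofNat 85, .ofNat 68⟩, .ofNat 459, .negSucc 157, .ofNat 0, .negSucc 157, .ofNat 1267, .ofNat 0, .ofNat 341, .ofNat 63, .negSucc 131, .ofNat 0, .ofNat 128, .negSucc 12, .ofNat 0, .ofNat 0, .ofNat 1017, .ofNat 2044, .ofNat 26838216608326372948646965752627200, .ofNat 0, .ofNat 33177120179610962857581084672, .ofNat 0, .ofNat 0, .ofNat 0, .ofNat 0, .ofNat 0, .ofNat 0, .ofNat 0, .ofNat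 22642909467263792803778018672640, .ofNat 0, .ofNat 0, .ofNat 0, .ofNat 0, .ofNat 0⟩)
    (by decide +kernel)
theorem L01324 : Good (Phi V5.P V5.D (-1) 1) ⟨3, 4, 2, 1, 1, 0, 2, 2, 3, 3⟩ :=
  leafX_sound T5.ok_mp T5.Ymp.bz_eq (w := 184) (c := ⟨⟨.negSucc 1510, .negSucc 181, .negSucc 8, .ofNat 92, .ofNat 182, .ofNat 206⟩, ⟨.negSucc 254, .ofNat 120, .negSucc 253, .ofNat 10, .ofNat 48, .ofNat 37⟩, ⟨.ofNat 1682, .ofNat 156, .negSucc 27, .negSucc 460, .negSucc 605, .negSucc 289⟩, ⟨.negSucc 3295, .ofNat 14, .ofNat 0, .ofNat 199, .ofNat 354, .ofNat 405⟩, ⟨.negSucc 138, .ofNat 8, .negSucc 19, .negSucc 56, .ofNat 143, .ofNat 101⟩, .ofNat 462, .negSucc 163, .ofNat 0, .negSucc 163, .ofNat 1277, .ofNat 0, .ofNat 170, .ofNat 64, .negSucc 70, .ofNat 0, .ofNat 128, .negSucc 12, .ofNat 0, .ofNat 0, .ofNat 944, .ofNat 2878, .ofNat 708560342300608130538975006398873600, .ofNat 0, .ofNat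 0, .ofNat 0, .ofNat 1522911394593697092615939232517586944, .ofNat 62181214530720368851434663514734592, .ofNat 11703399073653532449096121450496, .ofNat 0, .ofNat 0, .ofNat 0, .ofNat 0, .ofNat 0, .ofNat 12717461119592696699670844021328052224, .ofNat 542880614368500208637659008177537024, .ofNat 0, .ofNat 0⟩)
    (by decide +kernel)
theorem L01325 : Good (Phi V5.P V5.D (-1) 1) ⟨3, 5, 2, 1, 1, 0, 2, 2, 2, 1⟩ :=
  out_sound (S := T5.ds_mp) T5.ok_mp (w := 43) (j := 3) (by decide +kernel)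
theorem L01326 : Good (Phi V5.P V5.D (-1) 1) ⟨3, 4, 2, 1, 1, 0, 2, 3, 3, 2⟩ :=
  leafX_sound T5.ok_mp T5.Ymp.bz_eq (w := 182) (c := ⟨⟨.negSucc 1504, .negSucc 186, .ofNat 27, .ofNat 76, .ofNat 428, .ofNat 150⟩, ⟨.negSucc 253, .ofNat 130, .negSucc 241, .ofNat 17, .ofNat 86, .ofNat 32⟩, ⟨.ofNat 1390, .ofNat 156, .negSucc 67, .negSucc 491, .negSucc 781, .negSucc 279⟩, ⟨.negSucc 3272, .negSucc 6, .ofNat 38, .ofNat 138, .ofNat 869, .ofNat 282⟩, ⟨.negSucc 146, .ofNat 80, .ofNat 50, .ofNat 77, .ofNat 206, .ofNat 66⟩, .ofNat 461, .negSucc 160, .ofNat 0, .negSucc 160, .ofNat 1269, .ofNat 0, .ofNat 559, .ofNat 65, .negSucc 121, .ofNat 0, .ofNat 128, .negSucc 16, .ofNat 0, .ofNat 0, .ofNat 706, .ofNat 496, .ofNat 0, .ofNat 0, .ofNat 0, .ofNat 0, .ofNat 0, .ofNat 0, .ofNat 0, .ofNat 0, .ofNat 0, .ofNat 167884016289244812260523871181996032, .ofNat 7862337435284902116490498539520,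 .ofNat 0, .ofNat 0, .ofNat 210166375925675320090400491747409920, .ofNat 0, .ofNat 0⟩)
    (by decide +kernel)
theorem L01327 : Good (Phi V5.P V5.D (-1) 1) ⟨3, 4, 2, 1, 1, 0, 2, 3, 3, 3⟩ :=
  leafX_sound T5.ok_mp T5.Ymp.bz_eq (w := 181) (c := ⟨⟨.negSucc 1369, .negSucc 121, .ofNat 1, .ofNat 274, .ofNat 131, .ofNat 5⟩, ⟨.negSucc 231, .ofNat 129, .negSucc 218, .ofNat 68, .ofNat 36, .negSucc 0⟩, ⟨.ofNat 1159, .ofNat 69, .negSucc 48, .negSucc 652, .negSucc 510, .negSucc 116⟩, ⟨.negSucc 2995, .ofNat 111, .negSucc 6, .ofNat 544, .ofNat 256, .negSucc 21⟩, ⟨.negSucc 64, .negSucc 8, .negSucc 51, .ofNat 254, .ofNat 133, .ofNat 18⟩, .ofNat 333, .negSucc 57, .ofNat 0, .negSucc 57, .ofNat 635, .ofNat 0, .ofNat 362, .ofNat 34, .negSucc 84, .ofNat 0, .ofNat 128, .negSucc 18, .ofNat 0, .ofNat 0, .ofNat 644, .ofNat 320, .ofNat 32196721515670113362989097320185856, .ofNat 0, .ofNat 0, .ofNat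 0, .ofNat 0, .ofNat 0, .ofNat 0, .ofNat 0, .ofNat 0, .ofNat 187249317739021118630294406205276160, .ofNat 0, .ofNat 0, .ofNat 932951002289754195102854938263289856, .ofNat 416794260273959660143658378169679872, .ofNat 0, .ofNat 0⟩)
    (by decide +kernel)
theorem L01328 : Good (Phi V5.P V5.D (-1) 1) ⟨3, 5, 2, 1, 1, 0, 2, 3, 2, 1⟩ :=
  out_sound (S := T5.ds_mp) T5.ok_mp (w := 43) (j := 3) (by decide +kernel)
theorem L01329 : Good (Phi V5.P V5.D (-1) 1) ⟨2, 3, 2, 1, 1, 0, 1, 1, 2, 1⟩ :=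
  out_sound (S := T5.ds_mp) T5.ok_mp (w := 37) (j := 3) (by decide +kernel)
theorem L01330 : Good (Phi V5.P V5.D (-1) 1) ⟨1, 1, 2, 1, 1, 0, 1, 1, 1, 1⟩ :=
  leafX_sound T5.ok_mp T5.Ymp.bz_eq (w := 171) (c := ⟨⟨.negSucc 1387, .negSucc 1045, .ofNat 0, .ofNat 1, .negSucc 0, .ofNat 1⟩, ⟨.negSucc 223, .ofNat 516, .negSucc 257, .ofNat 0, .ofNat 0, .ofNat 0⟩, ⟨.ofNat 691, .ofNat 1043, .ofNat 0, .negSucc 0, .ofNat 1, .negSucc 0⟩, ⟨.negSucc 3073, .negSucc 468, .ofNat 0, .ofNat 2, .negSucc 1, .ofNat 2⟩, ⟨.ofNat 0, .negSucc 0, .ofNat 0, .ofNat 0, .ofNat 0, .ofNat 0⟩, .ofNat 173, .negSucc 10, .ofNat 0, .negSucc 10, .ofNat 231, .ofNat 0, .ofNat 157, .ofNat 12, .negSucc 127, .ofNat 0, .ofNat 128, .negSucc 7, .ofNat 0, .ofNat 0, .ofNat 322, .ofNat 3496, .ofNat 2284810297253964982664980070400000000, .ofNat 87876490677046802790650735971270656, .ofNat 223626128260141507665723392, .ofNat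 0, .ofNat 6572501318866184181717942715547648, .ofNat 318901214827129165897912939446272, .ofNat 2364994430982912369691197440, .ofNat 0, .ofNat 146227859024253758890558724505600000000, .ofNat 6897545959949876334202863583141822464, .ofNat 2087520929107909257245753344, .ofNat 0, .ofNat 7791705866650977575480329903276032, .ofNat 382354700546573981149565982605312, .ofNat 1608441907688244827389952000, .ofNat 0⟩)
    (by decide +kernel)
theorem L01331 : Good (Phi V5.P V5.D (-1) 1) ⟨3, 4, 2, 0, 3, 4, 4, 0, 4, 0⟩ :=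
  leafX_sound T5.ok_mp T5.Ymp.bz_eq (w := 225) (c := ⟨⟨.ofNat 1283, .ofNat 207, .negSucc 324, .ofNat 333, .ofNat 183, .negSucc 2346⟩, ⟨.negSucc 25, .negSucc 181, .ofNat 5, .negSucc 27, .negSucc 31, .negSucc 57⟩, ⟨.negSucc 381, .negSucc 41, .ofNat 311, .ofNat 138, .negSucc 224, .ofNat 832⟩, ⟨.ofNat 2686, .ofNat 116, .negSucc 262, .ofNat 733, .ofNat 322, .negSucc 4986⟩, ⟨.negSucc 1809, .negSucc 482, .negSucc 59, .negSucc 724, .ofNat 305, .ofNat 100⟩, .ofNat 325, .negSucc 5, .ofNat 0, .negSucc 5, .ofNat 676, .ofNat 0, .ofNat 383, .negSucc 31, .negSucc 88, .ofNat 0, .ofNat 128, .ofNat 12, .ofNat 0, .ofNat 0, .ofNat 277, .ofNat 10875, .ofNat 0, .ofNat 0, .ofNat 0, .ofNat 0, .ofNat 0, .ofNat 0, .ofNat 0, .ofNat 0, .ofNat 0, .ofNat 0, .ofNat 0, .ofNat 0, .ofNat 0, .ofNat 0, .ofNat 0, .ofNat 0⟩)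
    (by decide +kernel)
theorem L01332 : Good (Phi V5.P V5.D (-1) 1) ⟨4, 8, 2, 0, 3, 5, 4, 0, 4, 0⟩ :=
  leafX_sound T5.ok_mp T5.Ymp.bz_eq (w := 229) (c := ⟨⟨.ofNat 1692, .ofNat 169, .negSucc 385, .ofNat 123, .ofNat 196, .negSucc 2546⟩, ⟨.negSucc 95, .negSucc 19, .negSucc 25, .negSucc 40, .ofNat 40, .negSucc 74⟩, ⟨.negSucc 150, .negSucc 5, .ofNat 253, .ofNat 112, .negSucc 340, .ofNat 700⟩, ⟨.ofNat 3632, .ofNat 170, .negSucc 378, .ofNat 296, .ofNat 404, .negSucc 5543⟩, ⟨.negSucc 2439, .negSucc 406, .negSucc 143, .negSucc 250, .ofNat 351, .ofNat 92⟩, .ofNat 334, .negSucc 17, .ofNat 0, .negSucc 17, .ofNat 695, .ofNat 0, .ofNat 378, .negSucc 52, .negSucc 131, .ofNat 0, .ofNat 128, .ofNat 9, .ofNat 0, .ofNat 0, .ofNat 390, .ofNat 10009, .ofNat 0, .ofNat 0, .ofNat 0, .ofNat 0, .ofNat 0, .ofNat 0, .ofNat 0, .ofNat 0, .ofNat 0, .ofNat 0, .ofNat 0, .ofNat 0, .ofNat 0, .ofNat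 0, .ofNat 0, .ofNat 0⟩)
    (by decide +kernel)
theorem L01333 : Good (Phi V5.P V5.D (-1) 1) ⟨4, 9, 2, 0, 3, 5, 4, 0, 4, 0⟩ :=
  leafX_sound T5.ok_mp T5.Ymp.bz_eq (w := 228) (c := ⟨⟨.ofNat 1922, .ofNat 451, .negSucc 362, .ofNat 248, .ofNat 183, .negSucc 3025⟩, ⟨.negSucc 203, .negSucc 120, .negSucc 23, .negSucc 47, .ofNat 12, .ofNat 43⟩, ⟨.negSucc 139, .negSucc 108, .ofNat 275, .ofNat 9, .negSucc 373, .ofNat 901⟩, ⟨.ofNat 3783, .ofNat 561, .negSucc 227, .ofNat 531, .ofNat 351, .negSucc 6138⟩, ⟨.negSucc 2728, .negSucc 631, .negSucc 281, .negSucc 291, .ofNat 451, .ofNat 176⟩, .ofNat 320, .ofNat 1, .ofNat 0, .ofNat 1, .ofNat 663, .ofNat 0, .ofNat 303, .negSucc 97, .negSucc 124, .ofNat 0, .ofNat 128, .ofNat 14, .ofNat 0, .ofNat 0, .ofNat 306, .ofNat 5465, .ofNat 0, .ofNat 0, .ofNat 0, .ofNat 0, .ofNat 0, .ofNat 0, .ofNat 0, .ofNat 0, .ofNat 0, .ofNat 0, .ofNat 0, .ofNat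 0, .ofNat 0, .ofNat 0, .ofNat 754653472572851957426440854415654363594752, .ofNat 0⟩)
    (by decide +kernel)
theorem L01334 : Good (Phi V5.P V5.D (-1) 1) ⟨3, 4, 2, 0, 2, 2, 4, 1, 4, 0⟩ :=
  leafX_sound T5.ok_mp T5.Ymp.bz_eq (w := 210) (c := ⟨⟨.ofNat 1443, .ofNat 474, .negSucc 338, .ofNat 695, .ofNat 106, .negSucc 2617⟩, ⟨.negSucc 43, .negSucc 233, .ofNat 25, .negSucc 37, .negSucc 10, .negSucc 20⟩, ⟨.negSucc 549, .negSucc 104, .ofNat 239, .ofNat 17, .negSucc 223, .ofNat 942⟩, ⟨.ofNat 3049, .ofNat 472, .negSucc 342, .ofNat 1526, .ofNat 209, .negSucc 5507⟩, ⟨.negSucc 1372, .negSucc 756, .negSucc 244, .negSucc 864, .ofNat 282, .negSucc 146⟩, .ofNat 326, .negSucc 5, .ofNat 0, .negSucc 5, .ofNat 678, .ofNat 0, .ofNat 414, .negSucc 32, .negSucc 153, .ofNat 0, .ofNat 128, .ofNat 16, .ofNat 0, .ofNat 0, .ofNat 355, .ofNat 3591, .ofNat 0, .ofNat 0, .ofNat 0, .ofNat 0, .ofNat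 0, .ofNat 0, .ofNat 270714085951656249035992710844644327424, .ofNat 0, .ofNat 0, .ofNat 0, .ofNat 0, .ofNat 0, .ofNat 0, .ofNat 0, .ofNat 0, .ofNat 0⟩)
    (by decide +kernel)
theorem L01335 : Good (Phi V5.P V5.D (-1) 1) ⟨3, 5, 2, 0, 3, 4, 4, 0, 5, 0⟩ :=
  leafX_sound T5.ok_mp T5.Ymp.bz_eq (w := 229) (c := ⟨⟨.ofNat 1420, .ofNat 1223, .negSucc 221, .ofNat 969, .ofNat 139, .negSucc 1575⟩, ⟨.negSucc 195, .negSucc 757, .negSucc 24, .negSucc 255, .ofNat 33, .ofNat 141⟩, ⟨.negSucc 362, .negSucc 443, .ofNat 200, .ofNat 164, .negSucc 345, .ofNat 491⟩, ⟨.ofNat 2599, .ofNat 1290, .negSucc 109, .ofNat 1639, .ofNat 289, .negSucc 2941⟩, ⟨.negSucc 2122, .negSucc 908, .negSucc 81, .negSucc 1111, .ofNat 318, .negSucc 44⟩, .ofNat 305, .ofNat 44, .ofNat 0, .ofNat 44, .ofNat 614, .ofNat 0, .ofNat 294, .negSucc 101, .negSucc 80, .ofNat 0, .ofNat 128, .ofNat 16, .ofNat 0, .ofNat 0, .ofNat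 190, .ofNat 6962, .ofNat 0, .ofNat 0, .ofNat 5523907242389139930102954294567683739353088, .ofNat 0, .ofNat 0, .ofNat 0, .ofNat 204743512384979030848863244021094266798342144, .ofNat 0, .ofNat 0, .ofNat 0, .ofNat 535805535850927548719108911839010985756065792, .ofNat 0, .ofNat 0, .ofNat 0, .ofNat 52782726670566079433210591275159113617637376, .ofNat 0⟩)
    (by decide +kernel)
theorem L01336 : Good (Phi V5.P V5.D (-1) 1) ⟨3, 5, 2, 0, 3, 5, 4, 0, 5, 0⟩ :=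
  leafX_sound T5.ok_mp T5.Ymp.bz_eq (w := 229) (c := ⟨⟨.ofNat 2274, .ofNat 1965, .negSucc 306, .ofNat 747, .ofNat 65, .negSucc 1743⟩, ⟨.negSucc 401, .negSucc 965, .ofNat 85, .negSucc 202, .ofNat 95, .ofNat 108⟩, ⟨.ofNat 117, .negSucc 757, .ofNat 135, .negSucc 240, .negSucc 584, .ofNat 435⟩, ⟨.ofNat 4077, .ofNat 2332, .negSucc 50, .ofNat 1235, .ofNat 223, .negSucc 3244⟩, ⟨.negSucc 3327, .negSucc 1233, .negSucc 92, .negSucc 647, .ofNat 657, .negSucc 176⟩, .ofNat 406, .ofNat 106, .ofNat 0, .ofNat 106, .ofNat 1196, .ofNat 0, .ofNat 154, .negSucc 127, .negSucc 60, .ofNat 0, .ofNat 98, .ofNat 9, .ofNat 0, .ofNat 0, .ofNat 162, .ofNat 3716, .ofNat 0, .ofNat 0, .ofNat 5642593227003587259398975570346809489358848, .ofNat 0, .ofNat 0, .ofNat 0, .ofNat 104452230739728221041617233592148103262109696, .ofNat 0, .ofNat 34431016343898267991458278813211923001156567040, .ofNat 0, .ofNat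 634387582610763116770773602874287489911095296, .ofNat 0, .ofNat 0, .ofNat 0, .ofNat 53461140770301523256479659317251420043870208, .ofNat 0⟩)
    (by decide +kernel)
theorem L01337 : Good (Phi V5.P V5.D (-1) 1) ⟨3, 5, 2, 0, 2, 2, 4, 1, 5, 0⟩ :=
  leafX_sound T5.ok_mp T5.Ymp.bz_eq (w := 215) (c := ⟨⟨.ofNat 1552, .ofNat 1477, .negSucc 332, .ofNat 1659, .ofNat 115, .negSucc 1600⟩, ⟨.negSucc 207, .negSucc 802, .ofNat 153, .negSucc 353, .ofNat 45, .ofNat 81⟩, ⟨.negSucc 534, .negSucc 652, .ofNat 145, .negSucc 246, .negSucc 290, .ofNat 529⟩, ⟨.ofNat 2849, .ofNat 1764, .negSucc 142, .ofNat 2886, .ofNat 271, .negSucc 3076⟩, ⟨.negSucc 1797, .negSucc 1050, .negSucc 146, .negSucc 1467, .ofNat 417, .negSucc 354⟩, .ofNat 306, .ofNat 41, .ofNat 0, .ofNat 41, .ofNat 618, .ofNat 0, .ofNat 256, .negSucc 103, .negSucc 135, .ofNat 0, .ofNat 128, .ofNat 24, .ofNat 0, .ofNat 0, .ofNat 237,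 .ofNat 2061, .ofNat 0, .ofNat 0, .ofNat 0, .ofNat 0, .ofNat 0, .ofNat 0, .ofNat 12283437187376639447680987221611666997248, .ofNat 0, .ofNat 0, .ofNat 0, .ofNat 25248672180816522244905588866173789798400, .ofNat 0, .ofNat 0, .ofNat 0, .ofNat 13943973689085552034501647744966210879488, .ofNat 0⟩)
    (by decide +kernel)
theorem L01338 : Good (Phi V5.P V5.D (-1) 1) ⟨3, 5, 2, 0, 2, 2, 3, 0, 5, 1⟩ :=
  leafX_sound T5.ok_mp T5.Ymp.bz_eq (w := 210) (c := ⟨⟨.ofNat 159, .ofNat 1133, .negSucc 160, .ofNat 1064, .ofNat 141, .negSucc 1679⟩, ⟨.negSucc 101, .negSucc 723, .negSucc 275, .negSucc 299, .ofNat 96, .ofNat 216⟩, ⟨.ofNat 74, .negSucc 203, .ofNat 454, .negSucc 96, .negSucc 539, .ofNat 676⟩, ⟨.ofNat 115, .ofNat 1318, .ofNat 6, .ofNat 1745, .ofNat 404, .negSucc 3061⟩, ⟨.negSucc 2309, .negSucc 1160, .negSucc 109, .negSucc 1535, .ofNat 541, .ofNat 292⟩, .ofNat 406, .ofNat 101, .ofNat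 0, .ofNat 101, .ofNat 1197, .ofNat 0, .ofNat 221, .negSucc 127, .negSucc 97, .ofNat 0, .ofNat 120, .ofNat 19, .ofNat 0, .ofNat 0, .ofNat 231, .ofNat 1450, .ofNat 1042989908442080695213311742185992418754560, .ofNat 0, .ofNat 29316520021931018248950919102268964864, .ofNat 0, .ofNat 0, .ofNat 0, .ofNat 678725885916143548873166937327048589312, .ofNat 0, .ofNat 0, .ofNat 0, .ofNat 3741929060493349271273307179031214424064, .ofNat 0, .ofNat 0, .ofNat 0, .ofNat 814306144341596544046253769804769918976, .ofNat 0⟩)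
    (by decide +kernel)
theorem L01339 : Good (Phi V5.P V5.D (-1) 1) ⟨2, 2, 2, 0, 2, 2, 3, 1, 4, 0⟩ :=
  leafX_sound T5.ok_mp T5.Ymp.bz_eq (w := 201) (c := ⟨⟨.ofNat 1445, .ofNat 1397, .negSucc 396, .ofNat 1047, .ofNat 154, .negSucc 2828⟩, ⟨.ofNat 31, .negSucc 826, .ofNat 54, .negSucc 159, .ofNat 8, .ofNat 86⟩, ⟨.negSucc 498, .negSucc 733, .ofNat 249, .negSucc 303, .negSucc 517, .ofNat 1123⟩, ⟨.ofNat 3045, .ofNat 1415, .negSucc 393, .ofNat 2088, .ofNat 292, .negSucc 5726⟩, ⟨.negSucc 1190, .negSucc 1157, .negSucc 316, .negSucc 578, .ofNat 682, .negSucc 586⟩, .ofNat 318, .ofNat 12, .ofNat 0, .ofNat 12, .ofNat 652, .ofNat 0, .ofNat 320, .negSucc 42, .negSucc 197, .ofNat 0, .ofNat 128, .ofNat 26, .ofNat 0, .ofNat 0, .ofNat 333, .ofNat 606, .ofNat 0, .ofNat 0, .ofNat 2910775690064481936928448472166694912, .ofNat 0, .ofNat 0, .ofNat 0, .ofNat 88878189068502855278073675152189554688,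 .ofNat 0, .ofNat 0, .ofNat 0, .ofNat 91073825853628268848405226583335370752, .ofNat 0, .ofNat 0, .ofNat 0, .ofNat 65403787522686636009482483512591253504, .ofNat 0⟩)
    (by decide +kernel)
theorem L01340 : Good (Phi V5.P V5.D (-1) 1) ⟨3, 4, 2, 0, 3, 6, 3, 0, 4, 0⟩ :=
  leafX_sound T5.ok_mp T5.Ymp.bz_eq (w := 220) (c := ⟨⟨.ofNat 1917, .ofNat 403, .negSucc 357, .negSucc 607, .ofNat 588, .negSucc 2784⟩, ⟨.negSucc 62, .negSucc 197, .negSucc 66, .ofNat 80, .ofNat 21, .negSucc 62⟩, ⟨.negSucc 368, .negSucc 40, .ofNat 185, .ofNat 269, .negSucc 769, .ofNat 1365⟩, ⟨.ofNat 3947, .ofNat 467, .negSucc 342, .negSucc 1224, .ofNat 1208, .negSucc 5741⟩, ⟨.negSucc 2373, .negSucc 986, .negSucc 372, .ofNat 1219, .ofNat 448, .negSucc 55⟩, .ofNat 439, .negSucc 25, .ofNat 0, .negSucc 25, .ofNat 1460, .ofNat 0, .ofNat 382, .negSucc 54, .negSucc 211, .ofNat 0, .ofNat 128, .ofNat 3, .ofNat 0,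 .ofNat 0, .ofNat 448, .ofNat 2710, .ofNat 0, .ofNat 0, .ofNat 0, .ofNat 0, .ofNat 0, .ofNat 0, .ofNat 0, .ofNat 0, .ofNat 0, .ofNat 0, .ofNat 0, .ofNat 0, .ofNat 0, .ofNat 0, .ofNat 0, .ofNat 0⟩)
    (by decide +kernel)
theorem L01341 : Good (Phi V5.P V5.D (-1) 1) ⟨3, 4, 2, 0, 3, 6, 3, 1, 4, 0⟩ :=
  leafX_sound T5.ok_mp T5.Ymp.bz_eq (w := 220) (c := ⟨⟨.ofNat 2476, .ofNat 557, .negSucc 87, .negSucc 444, .ofNat 25, .negSucc 3062⟩, ⟨.negSucc 92, .negSucc 140, .ofNat 39, .ofNat 112, .ofNat 75, .negSucc 112⟩, ⟨.negSucc 1113, .negSucc 213, .negSucc 70, .ofNat 235, .negSucc 207, .ofNat 1544⟩, ⟨.ofNat 5084, .ofNat 734, .negSucc 2, .negSucc 816, .ofNat 228, .negSucc 6216⟩, ⟨.negSucc 1171, .negSucc 1004, .negSucc 548, .ofNat 879, .ofNat 531, .negSucc 747⟩, .ofNat 439, .negSucc 25, .ofNat 0, .negSucc 25, .ofNat 1442, .ofNat 0, .ofNat 269, .negSucc 13, .negSucc 208, .ofNat 0, .ofNat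 128, .ofNat 7, .ofNat 0, .ofNat 0, .ofNat 364, .ofNat 1362, .ofNat 0, .ofNat 0, .ofNat 0, .ofNat 0, .ofNat 0, .ofNat 0, .ofNat 0, .ofNat 0, .ofNat 0, .ofNat 0, .ofNat 0, .ofNat 0, .ofNat 0, .ofNat 0, .ofNat 36058529155639788450183873606143052873728, .ofNat 0⟩)
    (by decide +kernel)
theorem L01342 : Good (Phi V5.P V5.D (-1) 1) ⟨3, 4, 2, 0, 3, 7, 2, 0, 4, 0⟩ :=
  leafX_sound T5.ok_mp T5.Ymp.bz_eq (w := 215) (c := ⟨⟨.ofNat 1184, .negSucc 469, .negSucc 505, .negSucc 882, .ofNat 1073, .negSucc 2094⟩, ⟨.negSucc 1, .negSucc 13, .negSucc 176, .ofNat 172, .ofNat 63, .negSucc 69⟩, ⟨.ofNat 9, .ofNat 488, .ofNat 106, .ofNat 75, .negSucc 993, .ofNat 1053⟩, ⟨.ofNat 2442, .negSucc 809, .negSucc 898, .negSucc 1916, .ofNat 2225, .negSucc 4446⟩, ⟨.negSucc 876, .negSucc 56, .negSucc 239, .ofNat 3049, .ofNat 258, .negSucc 995⟩, .ofNat 439, .negSucc 25, .ofNat 0, .negSucc 25, .ofNat 1460,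 .ofNat 0, .ofNat 299, .negSucc 22, .negSucc 287, .ofNat 0, .ofNat 128, .ofNat 2, .ofNat 0, .ofNat 0, .ofNat 468, .ofNat 764, .ofNat 0, .ofNat 0, .ofNat 0, .ofNat 0, .ofNat 0, .ofNat 0, .ofNat 0, .ofNat 0, .ofNat 0, .ofNat 0, .ofNat 0, .ofNat 0, .ofNat 0, .ofNat 0, .ofNat 0, .ofNat 0⟩)
    (by decide +kernel)
theorem L01343 : Good (Phi V5.P V5.D (-1) 1) ⟨4, 10, 2, 0, 3, 6, 3, 0, 5, 0⟩ :=
  leafX_sound T5.ok_mp T5.Ymp.bz_eq (w := 229) (c := ⟨⟨.ofNat 2794, .ofNat 918, .ofNat 36, .negSucc 1267, .ofNat 808, .negSucc 1640⟩, ⟨.negSucc 545, .negSucc 420, .ofNat 37, .ofNat 344, .ofNat 50, .ofNat 39⟩, ⟨.negSucc 385, .negSucc 478, .negSucc 109, .ofNat 266, .negSucc 1114, .ofNat 910⟩, ⟨.ofNat 4973, .ofNat 1158, .ofNat 465, .negSucc 2170, .ofNat 1594, .negSucc 3162⟩, ⟨.negSucc 3676, .negSucc 621, .negSucc 890, .ofNat 2186, .ofNat 1042, .negSucc 835⟩, .ofNat 407, .ofNat 88, .ofNat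 0, .ofNat 88, .ofNat 1208, .ofNat 0, .ofNat 263, .negSucc 127, .negSucc 259, .ofNat 0, .ofNat 115, .ofNat 29, .ofNat 0, .ofNat 0, .ofNat 413, .ofNat 2375, .ofNat 0, .ofNat 0, .ofNat 0, .ofNat 0, .ofNat 0, .ofNat 0, .ofNat 4125511610313878123745379678752124449062912, .ofNat 0, .ofNat 0, .ofNat 0, .ofNat 0, .ofNat 0, .ofNat 0, .ofNat 0, .ofNat 3106513234945296092990323556435778705817600, .ofNat 0⟩)
    (by decide +kernel)
theorem L01344 : Good (Phi V5.P V5.D (-1) 1) ⟨4, 10, 2, 0, 3, 6, 3, 0, 5, 1⟩ :=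
  leafX_sound T5.ok_mp T5.Ymp.bz_eq (w := 229) (c := ⟨⟨.ofNat 1357, .ofNat 586, .negSucc 374, .negSucc 1170, .ofNat 526, .negSucc 2040⟩, ⟨.negSucc 439, .negSucc 301, .negSucc 210, .ofNat 262, .ofNat 53, .ofNat 253⟩, ⟨.ofNat 51, .negSucc 249, .ofNat 225, .ofNat 681, .negSucc 907, .ofNat 1084⟩, ⟨.ofNat 2119, .ofNat 795, .negSucc 269, .negSucc 2066, .ofNat 1094, .negSucc 3776⟩, ⟨.negSucc 4039, .negSucc 860, .negSucc 75, .ofNat 1555, .ofNat 588, .ofNat 580⟩, .ofNat 408, .ofNat 92, .ofNat 0, .ofNat 92, .ofNat 1225, .ofNat 0, .ofNat 248, .negSucc 127, .negSucc 212, .ofNat 0, .ofNat 95, .ofNat 33, .ofNat 0, .ofNat 0, .ofNat 330, .ofNat 2231, .ofNat 0, .ofNat 0, .ofNat 0, .ofNat 0, .ofNat 0, .ofNat 0, .ofNat 3787586624943593372608445843264946156077056, .ofNat 0, .ofNat 0, .ofNat 0, .ofNat 0, .ofNat 0, .ofNat 36949972907224109144894108760581489803155996672, .ofNat 0, .ofNat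 3119822292213203850727274177451623987544064, .ofNat 0⟩)
    (by decide +kernel)
theorem L01345 : Good (Phi V5.P V5.D (-1) 1) ⟨4, 10, 2, 0, 3, 7, 3, 0, 4, 0⟩ :=
  leafX_sound T5.ok_mp T5.Ymp.bz_eq (w := 224) (c := ⟨⟨.ofNat 1853, .negSucc 207, .negSucc 701, .negSucc 1986, .ofNat 836, .negSucc 3295⟩, ⟨.negSucc 301, .negSucc 22, .negSucc 129, .ofNat 564, .negSucc 38, .ofNat 242⟩, ⟨.negSucc 294, .ofNat 316, .ofNat 139, .ofNat 550, .negSucc 745, .ofNat 1849⟩, ⟨.ofNat 3268, .negSucc 399, .negSucc 1256, .negSucc 3383, .ofNat 1634, .negSucc 6271⟩, ⟨.negSucc 1648, .negSucc 203, .ofNat 77, .ofNat 3667, .ofNat 499, .negSucc 862⟩, .ofNat 409, .ofNat 100, .ofNat 0, .ofNat 100, .ofNat 1241, .ofNat 0, .ofNat 380, .negSucc 127, .negSucc 333, .ofNat 0, .ofNat 119, .ofNat 36, .ofNat 0, .ofNat 0, .ofNat 466, .ofNat 1114, .ofNat 0, .ofNat 0, .ofNat 0, .ofNat 0, .ofNat 0, .ofNat 0, .ofNat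 0, .ofNat 0, .ofNat 0, .ofNat 0, .ofNat 0, .ofNat 0, .ofNat 0, .ofNat 0, .ofNat 215511048929620252875745255710186589388800, .ofNat 0⟩)
    (by decide +kernel)
theorem L01346 : Good (Phi V5.P V5.D (-1) 1) ⟨4, 11, 2, 0, 2, 3, 4, 0, 4, 0⟩ :=
  leafX_sound T5.ok_mp T5.Ymp.bz_eq (w := 214) (c := ⟨⟨.ofNat 4045, .ofNat 1485, .ofNat 383, .negSucc 4161, .ofNat 417, .negSucc 4107⟩, ⟨.negSucc 1209, .negSucc 437, .negSucc 152, .ofNat 1379, .negSucc 38, .ofNat 648⟩, ⟨.negSucc 775, .negSucc 955, .negSucc 289, .ofNat 1437, .negSucc 579, .ofNat 1796⟩, ⟨.ofNat 6413, .ofNat 2312, .ofNat 1107, .negSucc 6462, .ofNat 785, .negSucc 7310⟩, ⟨.negSucc 5102, .negSucc 300, .ofNat 16, .ofNat 5864, .ofNat 353, .ofNat 176⟩, .ofNat 443, .ofNat 208, .ofNat 0, .ofNat 208, .ofNat 1437, .ofNat 0, .ofNat 128, .negSucc 148, .negSucc 212, .ofNat 0, .ofNat 93, .ofNat 39, .ofNat 0, .ofNat 0, .ofNat 307, .ofNat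 1639, .ofNat 9444581471914413096100934013186250394042368, .ofNat 0, .ofNat 3436160457198564237951942439380975616, .ofNat 0, .ofNat 0, .ofNat 0, .ofNat 124334887825740487834757566472344567808, .ofNat 0, .ofNat 0, .ofNat 0, .ofNat 294837808104045035958890916364572164096, .ofNat 0, .ofNat 0, .ofNat 0, .ofNat 204395326105602349453078562395188625408, .ofNat 0⟩)
    (by decide +kernel)
theorem L01347 : Good (Phi V5.P V5.D (-1) 1) ⟨4, 11, 2, 0, 2, 3, 4, 1, 4, 0⟩ :=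
  leafX_sound T5.ok_mp T5.Ymp.bz_eq (w := 215) (c := ⟨⟨.ofNat 4622, .ofNat 414, .negSucc 852, .negSucc 3916, .ofNat 261, .negSucc 4120⟩, ⟨.negSucc 1212, .negSucc 290, .negSucc 10, .ofNat 1285, .ofNat 1, .ofNat 602⟩, ⟨.negSucc 1744, .negSucc 217, .ofNat 700, .ofNat 1766, .negSucc 361, .ofNat 1977⟩, ⟨.ofNat 7516, .ofNat 465, .negSucc 1144, .negSucc 6073, .ofNat 524, .negSucc 7359⟩, ⟨.negSucc 4265, .ofNat 48, .negSucc 111, .ofNat 5316, .ofNat 498, .negSucc 442⟩, .ofNat 484, .ofNat 284, .ofNat 0, .ofNat 284, .ofNat 1840, .ofNat 0, .ofNat 156, .negSucc 127, .negSucc 198, .ofNat 0, .ofNat 82, .ofNat 39, .ofNat 0, .ofNat 0, .ofNat 273, .ofNat 1230, .ofNat 0, .ofNat 0, .ofNat 3864069506579613383436947576743526400, .ofNat 0, .ofNat 0, .ofNat 0, .ofNat 169345734875685314046395621131065229312, .ofNat 0, .ofNat 0, .ofNat 0, .ofNat 338255788722019983286632958010052313088, .ofNat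 0, .ofNat 0, .ofNat 0, .ofNat 194535556918396986410030040188719202304, .ofNat 0⟩)
    (by decide +kernel)
theorem L01348 : Good (Phi V5.P V5.D (-1) 1) ⟨3, 5, 2, 0, 2, 3, 3, 1, 4, 0⟩ :=
  leafX_sound T5.ok_mp T5.Ymp.bz_eq (w := 206) (c := ⟨⟨.ofNat 3579, .ofNat 1451, .negSucc 417, .negSucc 3000, .ofNat 443, .negSucc 3576⟩, ⟨.negSucc 568, .negSucc 507, .ofNat 131, .ofNat 792, .negSucc 0, .ofNat 166⟩, ⟨.negSucc 1441, .negSucc 1091, .ofNat 16, .ofNat 1863, .negSucc 546, .ofNat 1688⟩, ⟨.ofNat 6475, .ofNat 1993, .negSucc 442, .negSucc 4949, .ofNat 889, .negSucc 6872⟩, ⟨.negSucc 2421, .negSucc 931, .negSucc 612, .ofNat 3823, .ofNat 549, .negSucc 913⟩, .ofNat 407, .ofNat 110, .ofNat 0, .ofNat 110, .ofNat 1201, .ofNat 0, .ofNat 269, .negSucc 117, .negSucc 361, .ofNat 0, .ofNat 128, .ofNat 53, .ofNat 0, .ofNat 0, .ofNat 461, .ofNat 507, .ofNat 0, .ofNat 0, .ofNat 1106297066241183981884209370176159744,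 .ofNat 0, .ofNat 0, .ofNat 0, .ofNat 25236274966806936636337921401133465600, .ofNat 0, .ofNat 0, .ofNat 0, .ofNat 81778589770281241365795692525968687104, .ofNat 0, .ofNat 0, .ofNat 0, .ofNat 34643805233182879464291568220008087552, .ofNat 0⟩)
    (by decide +kernel)
theorem L01349 : Good (Phi V5.P V5.D (-1) 1) ⟨3, 4, 2, 0, 2, 2, 2, 0, 5, 2⟩ :=
  leafX_sound T5.ok_mp T5.Ymp.bz_eq (w := 206) (c := ⟨⟨.negSucc 662, .negSucc 286, .negSucc 276, .ofNat 47, .ofNat 158, .negSucc 914⟩, ⟨.negSucc 63, .ofNat 33, .negSucc 328, .negSucc 47, .ofNat 56, .ofNat 58⟩, ⟨.ofNat 342, .ofNat 182, .ofNat 304, .ofNat 122, .negSucc 369, .ofNat 581⟩, ⟨.negSucc 1696, .negSucc 359, .negSucc 197, .ofNat 109, .ofNat 344, .negSucc 1822⟩, ⟨.negSucc 2021, .negSucc 215, .ofNat 67, .negSucc 680, .ofNat 583, .ofNat 466⟩, .ofNat 436, .negSucc 18, .ofNat 0, .negSucc 18, .ofNat 1429, .ofNat 0, .ofNat 350,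 .negSucc 18, .negSucc 141, .ofNat 0, .ofNat 128, .ofNat 13, .ofNat 0, .ofNat 0, .ofNat 412, .ofNat 1661, .ofNat 108482822491246432785320439131353689096192, .ofNat 0, .ofNat 0, .ofNat 0, .ofNat 0, .ofNat 0, .ofNat 0, .ofNat 0, .ofNat 0, .ofNat 0, .ofNat 0, .ofNat 0, .ofNat 0, .ofNat 0, .ofNat 0, .ofNat 0⟩)
    (by decide +kernel)
theorem L01350 : Good (Phi V5.P V5.D (-1) 1) ⟨3, 4, 2, 0, 2, 2, 2, 0, 5, 3⟩ :=
  leafX_sound T5.ok_mp T5.Ymp.bz_eq (w := 207) (c := ⟨⟨.negSucc 1407, .negSucc 539, .negSucc 212, .negSucc 138, .ofNat 75, .negSucc 476⟩, ⟨.negSucc 32, .ofNat 139, .negSucc 419, .negSucc 29, .ofNat 35, .ofNat 34⟩, ⟨.ofNat 729, .ofNat 464, .ofNat 409, .ofNat 267, .negSucc 358, .ofNat 423⟩, ⟨.negSucc 3253, .negSucc 678, .negSucc 154, .negSucc 272, .ofNat 162, .negSucc 951⟩, ⟨.negSucc 1700, .negSucc 79, .ofNat 103, .negSucc 401, .ofNat 463, .ofNat 304⟩, .ofNat 439, .negSucc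 15, .ofNat 0, .negSucc 15, .ofNat 1460, .ofNat 0, .ofNat 476, .negSucc 19, .negSucc 256, .ofNat 0, .ofNat 128, .ofNat 29, .ofNat 0, .ofNat 0, .ofNat 833, .ofNat 3968, .ofNat 179702856658276844397947654765290893344768, .ofNat 0, .ofNat 0, .ofNat 0, .ofNat 0, .ofNat 0, .ofNat 0, .ofNat 0, .ofNat 0, .ofNat 0, .ofNat 0, .ofNat 0, .ofNat 0, .ofNat 0, .ofNat 0, .ofNat 0⟩)
    (by decide +kernel)
theorem L01351 : Good (Phi V5.P V5.D (-1) 1) ⟨3, 5, 2, 0, 2, 2, 3, 0, 5, 2⟩ :=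
  leafX_sound T5.ok_mp T5.Ymp.bz_eq (w := 210) (c := ⟨⟨.negSucc 820, .negSucc 156, .negSucc 304, .ofNat 156, .ofNat 93, .negSucc 1348⟩, ⟨.negSucc 41, .negSucc 115, .negSucc 382, .negSucc 144, .ofNat 43, .ofNat 230⟩, ⟨.ofNat 495, .ofNat 208, .ofNat 448, .ofNat 258, .negSucc 345, .ofNat 754⟩, ⟨.negSucc 1882, .negSucc 246, .negSucc 261, .ofNat 174, .ofNat 246, .negSucc 2388⟩, ⟨.negSucc 2251, .negSucc 446, .ofNat 281, .negSucc 922, .ofNat 273, .ofNat 612⟩, .ofNat 394, .ofNat 75, .ofNat 0, .ofNat 75, .ofNat 1033, .ofNat 0, .ofNat 234, .negSucc 122, .negSucc 141, .ofNat 0, .ofNat 128, .ofNat 32, .ofNat 0, .ofNat 0, .ofNat 326, .ofNat 2553, .ofNat 1948010784075383504586252186374242362720256, .ofNat 0, .ofNat 22905748379862277565440844690714787840, .ofNat 0, .ofNat 177142904703965937842361073040059900362752, .ofNat 0, .ofNat 1468402378548317385871923631781492817920, .ofNat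 0, .ofNat 0, .ofNat 0, .ofNat 4137553000268099471127971656022920003584, .ofNat 0, .ofNat 0, .ofNat 0, .ofNat 662558415194792863663417541139829358592, .ofNat 0⟩)
    (by decide +kernel)
theorem L01352 : Good (Phi V5.P V5.D (-1) 1) ⟨3, 5, 2, 0, 2, 2, 3, 0, 5, 3⟩ :=
  leafX_sound T5.ok_mp T5.Ymp.bz_eq (w := 211) (c := ⟨⟨.negSucc 1716, .negSucc 866, .negSucc 164, .negSucc 398, .ofNat 3, .negSucc 724⟩, ⟨.ofNat 37, .ofNat 246, .negSucc 512, .ofNat 15, .ofNat 23, .ofNat 169⟩, ⟨.ofNat 944, .ofNat 752, .ofNat 345, .ofNat 606, .negSucc 286, .ofNat 763⟩, ⟨.negSucc 3598, .negSucc 1084, .negSucc 88, .negSucc 747, .ofNat 35, .negSucc 1219⟩, ⟨.negSucc 1860, .ofNat 94, .ofNat 56, .negSucc 371, .ofNat 214, .ofNat 556⟩, .ofNat 394, .ofNat 75, .ofNat 0, .ofNat 75, .ofNat 1033, .ofNat 0, .ofNat 244, .negSucc 107, .negSucc 182, .ofNat 0, .ofNat 128, .ofNat 46, .ofNat 0, .ofNat 0, .ofNat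 463, .ofNat 4815, .ofNat 2330859989418353068943994947736862977949696, .ofNat 0, .ofNat 53711198479541032557835967461498814464, .ofNat 0, .ofNat 0, .ofNat 0, .ofNat 947542628658823912607937176016322035712, .ofNat 0, .ofNat 0, .ofNat 0, .ofNat 4701770787273934116018163494912874512384, .ofNat 0, .ofNat 0, .ofNat 0, .ofNat 2129403853774828003203597478094165770240, .ofNat 0⟩)
    (by decide +kernel)
theorem L01353 : Good (Phi V5.P V5.D (-1) 1) ⟨3, 5, 2, 0, 2, 2, 3, 1, 4, 1⟩ :=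
  leafX_sound T5.ok_mp T5.Ymp.bz_eq (w := 205) (c := ⟨⟨.negSucc 588, .negSucc 1017, .negSucc 273, .negSucc 222, .ofNat 22, .negSucc 1876⟩, ⟨.negSucc 69, .ofNat 214, .negSucc 479, .negSucc 37, .ofNat 29, .ofNat 318⟩, ⟨.ofNat 141, .ofNat 815, .ofNat 271, .ofNat 219, .negSucc 110, .ofNat 1496⟩, ⟨.negSucc 1413, .negSucc 1555, .negSucc 420, .negSucc 434, .ofNat 79, .negSucc 3350⟩, ⟨.negSucc 1960, .ofNat 217, .ofNat 166, .negSucc 519, .ofNat 326, .ofNat 711⟩, .ofNat 407, .ofNat 101, .ofNat 0, .ofNat 101, .ofNat 1201, .ofNat 0, .ofNat 352, .negSucc 102, .negSucc 190, .ofNat 0, .ofNat 128, .ofNat 39, .ofNat 0, .ofNat 0, .ofNat 379, .ofNat 988, .ofNat 0, .ofNat 0, .ofNat 0, .ofNat 0, .ofNat 0, .ofNat 0, .ofNat 23424140580168484412069867072344031232, .ofNat 0, .ofNat 0, .ofNat 0, .ofNat 135777443551415487108608330460974546944, .ofNat 0, .ofNat 0, .ofNat 0, .ofNat 45942127090764951677019604775577059328,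 .ofNat 0⟩)
    (by decide +kernel)
theorem L01354 : Good (Phi V5.P V5.D (-1) 1) ⟨3, 4, 2, 0, 3, 6, 2, 0, 5, 2⟩ :=
  leafX_sound T5.ok_mp T5.Ymp.bz_eq (w := 220) (c := ⟨⟨.negSucc 461, .negSucc 639, .negSucc 339, .negSucc 460, .ofNat 510, .negSucc 986⟩, ⟨.negSucc 110, .ofNat 86, .negSucc 384, .ofNat 98, .ofNat 17, .ofNat 37⟩, ⟨.ofNat 552, .ofNat 634, .ofNat 257, .ofNat 537, .negSucc 1046, .ofNat 727⟩, ⟨.negSucc 1282, .negSucc 1003, .negSucc 412, .negSucc 894, .ofNat 1069, .negSucc 1968⟩, ⟨.negSucc 2474, .negSucc 53, .negSucc 44, .ofNat 722, .ofNat 293, .ofNat 366⟩, .ofNat 440, .negSucc 26, .ofNat 0, .negSucc 26, .ofNat 1434, .ofNat 0, .ofNat 350, .negSucc 49, .negSucc 236, .ofNat 0, .ofNat 128, .ofNat 16, .ofNat 0, .ofNat 0, .ofNat 457, .ofNat 1947, .ofNat 358117817197235467856188935059804154687913984, .ofNat 0, .ofNat 0, .ofNat 0, .ofNat 0, .ofNat 0, .ofNat 0, .ofNat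 0, .ofNat 0, .ofNat 0, .ofNat 0, .ofNat 0, .ofNat 0, .ofNat 0, .ofNat 0, .ofNat 0⟩)
    (by decide +kernel)
theorem L01355 : Good (Phi V5.P V5.D (-1) 1) ⟨3, 4, 2, 0, 3, 7, 2, 0, 5, 2⟩ :=
  leafX_sound T5.ok_mp T5.Ymp.bz_eq (w := 221) (c := ⟨⟨.negSucc 791, .negSucc 1124, .negSucc 569, .negSucc 429, .ofNat 529, .negSucc 663⟩, ⟨.negSucc 32, .ofNat 170, .negSucc 355, .ofNat 144, .ofNat 5, .negSucc 35⟩, ⟨.ofNat 1047, .ofNat 923, .ofNat 281, .negSucc 528, .negSucc 767, .ofNat 482⟩, ⟨.negSucc 1897, .negSucc 1798, .negSucc 1036, .negSucc 1004, .ofNat 1130, .negSucc 1358⟩, ⟨.negSucc 1656, .ofNat 408, .ofNat 168, .ofNat 2237, .negSucc 221, .negSucc 46⟩, .ofNat 441, .negSucc 41, .ofNat 0, .negSucc 41, .ofNat 1425, .ofNat 0, .ofNat 389, .negSucc 47, .negSucc 347, .ofNat 0, .ofNat 128, .ofNat 13, .ofNat 0, .ofNat 0, .ofNat 630, .ofNat 1770, .ofNat 297310035879994550120514093128570442124099584,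 .ofNat 0, .ofNat 0, .ofNat 0, .ofNat 0, .ofNat 0, .ofNat 935708750382549785172076958433123342745600, .ofNat 0, .ofNat 0, .ofNat 0, .ofNat 0, .ofNat 0, .ofNat 0, .ofNat 0, .ofNat 0, .ofNat 0⟩)
    (by decide +kernel)
theorem L01356 : Good (Phi V5.P V5.D (-1) 1) ⟨4, 10, 2, 0, 3, 6, 3, 0, 5, 2⟩ :=
  leafX_sound T5.ok_mp T5.Ymp.bz_eq (w := 229) (c := ⟨⟨.negSucc 455, .negSucc 566, .negSucc 641, .negSucc 948, .ofNat 526, .negSucc 1647⟩, ⟨.negSucc 199, .ofNat 76, .negSucc 339, .ofNat 221, .negSucc 56, .ofNat 262⟩, ⟨.ofNat 777, .ofNat 460, .ofNat 500, .ofNat 1026, .negSucc 912, .ofNat 1150⟩, ⟨.negSucc 1294, .negSucc 909, .negSucc 811, .negSucc 1637, .ofNat 977, .negSucc 3003⟩, ⟨.negSucc 3316, .ofNat 121, .ofNat 101, .ofNat 1162, .ofNat 83, .ofNat 1013⟩, .ofNat 409, .ofNat 93, .ofNat 0, .ofNat 93, .ofNat 1236, .ofNat 0, .ofNat 245, .negSucc 127, .negSucc 223, .ofNat 0, .ofNat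 97, .ofNat 42, .ofNat 0, .ofNat 0, .ofNat 352, .ofNat 3407, .ofNat 119991162766871191928875236093339799296489291776, .ofNat 0, .ofNat 0, .ofNat 0, .ofNat 0, .ofNat 0, .ofNat 6905947948724501660749653196955275482890240, .ofNat 0, .ofNat 59333397917148735625475650473723902953361768448, .ofNat 0, .ofNat 202684772614893714976173980299559029440512, .ofNat 0, .ofNat 26186054753827442826877343412128756504037687296, .ofNat 0, .ofNat 4606520860158362782637341409213667988209664, .ofNat 0⟩)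
    (by decide +kernel)
theorem L01357 : Good (Phi V5.P V5.D (-1) 1) ⟨4, 10, 2, 0, 3, 6, 3, 1, 5, 2⟩ :=
  leafX_sound T5.ok_mp T5.Ymp.bz_eq (w := 228) (c := ⟨⟨.negSucc 125, .negSucc 147, .negSucc 352, .negSucc 699, .ofNat 304, .negSucc 2021⟩, ⟨.negSucc 213, .negSucc 13, .negSucc 358, .ofNat 185, .negSucc 10, .ofNat 301⟩, ⟨.ofNat 114, .ofNat 145, .ofNat 250, .ofNat 711, .negSucc 469, .ofNat 1403⟩, ⟨.negSucc 644, .negSucc 229, .negSucc 346, .negSucc 1180, .ofNat 590, .negSucc 3649⟩, ⟨.negSucc 2776, .negSucc 266, .negSucc 151, .ofNat 875, .ofNat 88, .ofNat 908⟩, .ofNat 408, .ofNat 96, .ofNat 0, .ofNat 96, .ofNat 1226, .ofNat 0, .ofNat 200, .negSucc 127, .negSucc 301, .ofNat 0, .ofNat 117, .ofNat 55, .ofNat 0, .ofNat 0, .ofNat 399, .ofNat 1465, .ofNat 0, .ofNat 0, .ofNat 0, .ofNat 0, .ofNat 0, .ofNat 0, .ofNat 4708779585485104148399959392821580285345792, .ofNat 0, .ofNat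 0, .ofNat 0, .ofNat 0, .ofNat 0, .ofNat 0, .ofNat 0, .ofNat 6134357563190730766304263481844030922293248, .ofNat 0⟩)
    (by decide +kernel)
theorem L01358 : Good (Phi V5.P V5.D (-1) 1) ⟨4, 10, 2, 0, 3, 7, 2, 0, 5, 2⟩ :=
  leafX_sound T5.ok_mp T5.Ymp.bz_eq (w := 225) (c := ⟨⟨.negSucc 1680, .negSucc 1053, .negSucc 839, .negSucc 631, .ofNat 1009, .negSucc 955⟩, ⟨.ofNat 22, .ofNat 324, .negSucc 336, .ofNat 334, .negSucc 197, .ofNat 139⟩, ⟨.ofNat 1965, .ofNat 663, .ofNat 477, .negSucc 867, .negSucc 917, .ofNat 647⟩, ⟨.negSucc 3487, .negSucc 1471, .negSucc 1430, .negSucc 934, .ofNat 1766, .negSucc 1740⟩, ⟨.negSucc 1607, .ofNat 448, .ofNat 387, .ofNat 2559, .negSucc 628, .ofNat 228⟩, .ofNat 455, .ofNat 90, .ofNat 0, .ofNat 90, .ofNat 1687, .ofNat 0, .ofNat 284, .negSucc 127, .negSucc 444, .ofNat 0, .ofNat 117, .ofNat 59, .ofNat 0, .ofNat 0, .ofNat 601, .ofNat 1025, .ofNat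 1597753260767772066528304317497127288164057088, .ofNat 0, .ofNat 1839327313831829864387717653734335971328, .ofNat 0, .ofNat 0, .ofNat 0, .ofNat 258952967903788231268550902162953563275264, .ofNat 0, .ofNat 0, .ofNat 0, .ofNat 0, .ofNat 0, .ofNat 0, .ofNat 0, .ofNat 180062380005641283881624840168341399142400, .ofNat 0⟩)
    (by decide +kernel)
theorem L01359 : Good (Phi V5.P V5.D (-1) 1) ⟨4, 11, 2, 0, 3, 6, 3, 0, 5, 2⟩ :=
  leafX_sound T5.ok_mp T5.Ymp.bz_eq (w := 229) (c := ⟨⟨.negSucc 433, .negSucc 140, .negSucc 490, .negSucc 1566, .ofNat 624, .negSucc 2381⟩, ⟨.negSucc 352, .negSucc 48, .negSucc 494, .ofNat 455, .negSucc 104, .ofNat 600⟩, ⟨.ofNat 842, .ofNat 22, .ofNat 308, .ofNat 1532, .negSucc 983, .ofNat 1687⟩, ⟨.negSucc 1394, .negSucc 198, .negSucc 649, .negSucc 2513, .ofNat 1129, .negSucc 3953⟩, ⟨.negSucc 3771, .negSucc 536, .negSucc 157, .ofNat 1745, .negSucc 51,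 .ofNat 1777⟩, .ofNat 406, .ofNat 157, .ofNat 0, .ofNat 157, .ofNat 1146, .ofNat 0, .ofNat 161, .negSucc 127, .negSucc 246, .ofNat 0, .ofNat 81, .ofNat 65, .ofNat 0, .ofNat 0, .ofNat 319, .ofNat 2372, .ofNat 75273089228073999497776135407736227214758248448, .ofNat 0, .ofNat 24211241627325009567669350447622614155264, .ofNat 0, .ofNat 0, .ofNat 0, .ofNat 4476529418775841288747393802386049591148544, .ofNat 0, .ofNat 35099090191044027855035187124907301794037628928, .ofNat 0, .ofNat 8664503249851179396137778393684644324179968, .ofNat 0, .ofNat 48041748996513090376995603301753179753469181952, .ofNat 0, .ofNat 9680884907805654469012780983028393770483712, .ofNat 0⟩)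
    (by decide +kernel)
theorem L01360 : Good (Phi V5.P V5.D (-1) 1) ⟨4, 11, 2, 0, 3, 6, 3, 1, 5, 2⟩ :=
  leafX_sound T5.ok_mp T5.Ymp.bz_eq (w := 229) (c := ⟨⟨.ofNat 132, .negSucc 314, .negSucc 1499, .negSucc 904, .ofNat 491, .negSucc 2702⟩, ⟨.negSucc 400, .ofNat 19, .negSucc 73, .ofNat 255, .negSucc 73, .ofNat 596⟩, ⟨.negSucc 46, .ofNat 329, .ofNat 1003, .ofNat 893, .negSucc 606, .ofNat 1915⟩, ⟨.negSucc 336, .negSucc 468, .negSucc 2207, .negSucc 1458, .ofNat 876, .negSucc 4567⟩, ⟨.negSucc 3343, .negSucc 33, .ofNat 1251, .ofNat 958, .ofNat 13, .ofNat 1261⟩, .ofNat 469, .ofNat 254, .ofNat 0, .ofNat 254, .ofNat 1680, .ofNat 0, .ofNat 189, .negSucc 127, .negSucc 326, .ofNat 0, .ofNat 86, .ofNat 78, .ofNat 0, .ofNat 0, .ofNat 386, .ofNat 2062, .ofNat 0, .ofNat 0, .ofNat 0, .ofNat 0, .ofNat 0, .ofNat 0, .ofNat 8850580257836351109672732400344219598716928, .ofNat 0, .ofNat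 0, .ofNat 0, .ofNat 15105063930779536539206279048246084665081856, .ofNat 0, .ofNat 0, .ofNat 0, .ofNat 13882734832037026490391492342911573157740544, .ofNat 0⟩)
    (by decide +kernel)
theorem L01361 : Good (Phi V5.P V5.D (-1) 1) ⟨5, 22, 3, 0, 3, 7, 2, 0, 5, 2⟩ :=
  leafX_sound T5.ok_mp T5.Ymp.bz_eq (w := 231) (c := ⟨⟨.negSucc 2775, .negSucc 622, .negSucc 300, .negSucc 601, .ofNat 1401, .negSucc 1254⟩, ⟨.ofNat 328, .ofNat 223, .negSucc 214, .ofNat 377, .negSucc 364, .ofNat 272⟩, ⟨.ofNat 2664, .ofNat 497, .ofNat 390, .negSucc 1064, .negSucc 1179, .ofNat 897⟩, ⟨.negSucc 5146, .negSucc 821, .negSucc 528, .negSucc 685, .ofNat 2291, .negSucc 2126⟩, ⟨.negSucc 1019, .ofNat 336, .ofNat 217, .ofNat 2311, .negSucc 1123, .ofNat 577⟩, .ofNat 483, .ofNat 245, .ofNat 0, .ofNat 245, .ofNat 1792, .ofNat 0, .ofNat 136, .negSucc 127, .negSucc 322, .ofNat 0, .ofNat 90, .ofNat 70, .ofNat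 0, .ofNat 0, .ofNat 375, .ofNat 552, .ofNat 140082348029495662933996033330689337170505760768, .ofNat 0, .ofNat 3223084639277682920385602563525593530368, .ofNat 0, .ofNat 0, .ofNat 0, .ofNat 51742406957506427856217718254782652612608, .ofNat 0, .ofNat 0, .ofNat 0, .ofNat 167914167307656077504725476027013611388928, .ofNat 0, .ofNat 0, .ofNat 0, .ofNat 149005578975380974132862050114618550910976, .ofNat 0⟩)
    (by decide +kernel)
theorem L01362 : Good (Phi V5.P V5.D (-1) 1) ⟨5, 23, 3, 0, 3, 7, 2, 0, 5, 2⟩ :=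
  out_sound (S := T5.ds_mp) T5.ok_mp (w := 57) (j := 3) (by decide +kernel)
theorem L01363 : Good (Phi V5.P V5.D (-1) 1) ⟨4, 11, 3, 1, 3, 7, 2, 0, 5, 2⟩ :=
  out_sound (S := T5.ds_mp) T5.ok_mp (w := 51) (j := 3) (by decide +kernel)
theorem L01364 : Good (Phi V5.P V5.D (-1) 1) ⟨3, 4, 2, 0, 3, 6, 3, 0, 5, 3⟩ :=
  leafX_sound T5.ok_mp T5.Ymp.bz_eq (w := 226) (c := ⟨⟨.negSucc 1374, .negSucc 841, .negSucc 300, .negSucc 315, .ofNat 86, .negSucc 485⟩, ⟨.negSucc 58, .ofNat 167, .negSucc 458, .ofNat 55, .ofNat 15, .ofNat 19⟩, ⟨.ofNat 1126, .ofNat 795, .ofNat 370, .ofNat 456, .negSucc 541, .ofNat 472⟩, ⟨.negSucc 3227, .negSucc 1223, .negSucc 344, .negSucc 614, .ofNat 200, .negSucc 988⟩, ⟨.negSucc 2172, .ofNat 193, .ofNat 58, .ofNat 609, .ofNat 152, .ofNat 338⟩, .ofNat 437, .negSucc 12, .ofNat 0, .negSucc 12, .ofNat 1445, .ofNat 0, .ofNat 391, .negSucc 68, .negSucc 209, .ofNat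 0, .ofNat 128, .ofNat 20, .ofNat 0, .ofNat 0, .ofNat 521, .ofNat 8578, .ofNat 10514248849463086118118597171891213669794578432, .ofNat 0, .ofNat 0, .ofNat 0, .ofNat 0, .ofNat 0, .ofNat 34645894091728184193236973981811942088507392, .ofNat 0, .ofNat 0, .ofNat 0, .ofNat 0, .ofNat 0, .ofNat 19713205409368898667912977655063461395479658496, .ofNat 0, .ofNat 9160695924622323697067173212722836958871552, .ofNat 0⟩)
    (by decide +kernel)
theorem L01365 : Good (Phi V5.P V5.D (-1) 1) ⟨3, 4, 2, 0, 3, 6, 3, 1, 5, 3⟩ :=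
  leafX_sound T5.ok_mp T5.Ymp.bz_eq (w := 226) (c := ⟨⟨.negSucc 1308, .negSucc 849, .negSucc 361, .negSucc 133, .ofNat 115, .negSucc 507⟩, ⟨.negSucc 23, .ofNat 166, .negSucc 449, .ofNat 16, .ofNat 4, .ofNat 11⟩, ⟨.ofNat 691, .ofNat 781, .ofNat 366, .ofNat 266, .negSucc 323, .ofNat 443⟩, ⟨.negSucc 3028, .negSucc 1231, .negSucc 501, .negSucc 289, .ofNat 241, .negSucc 1050⟩, ⟨.negSucc 1960, .ofNat 195, .ofNat 70, .ofNat 430, .ofNat 92, .ofNat 261⟩, .ofNat 438, .negSucc 22, .ofNat 0, .negSucc 22, .ofNat 1422, .ofNat 0, .ofNat 468, .negSucc 41, .negSucc 286, .ofNat 0, .ofNat 128, .ofNat 25, .ofNat 0, .ofNat 0, .ofNat 575, .ofNat 4530, .ofNat 0, .ofNat 0, .ofNat 0, .ofNat 0, .ofNat 0, .ofNat 0, .ofNat 0, .ofNat 0, .ofNat 0, .ofNat 0, .ofNat 0, .ofNat 0, .ofNat 0, .ofNat 0, .ofNat 0, .ofNat 0⟩)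
    (by decide +kernel)
theorem L01366 : Good (Phi V5.P V5.D (-1) 1) ⟨3, 4, 2, 0, 3, 7, 2, 0, 5, 3⟩ :=
  leafX_sound T5.ok_mp T5.Ymp.bz_eq (w := 221) (c := ⟨⟨.negSucc 1773, .negSucc 946, .negSucc 410, .ofNat 1, .ofNat 290, .negSucc 254⟩, ⟨.negSucc 2, .ofNat 221, .negSucc 456, .ofNat 91, .negSucc 33, .ofNat 1⟩, ⟨.ofNat 1638, .ofNat 748, .ofNat 412, .negSucc 786, .negSucc 535, .ofNat 131⟩, ⟨.negSucc 3976, .negSucc 1340, .negSucc 737, .negSucc 1, .ofNat 589, .negSucc 522⟩, ⟨.negSucc 1217, .ofNat 433, .ofNat 46, .ofNat 1309, .negSucc 315, .negSucc 21⟩, .ofNat 440, .negSucc 23, .ofNat 0, .negSucc 23, .ofNat 1449, .ofNat 0, .ofNat 396, .negSucc 58, .negSucc 400, .ofNat 0, .ofNat 128, .ofNat 27, .ofNat 0, .ofNat 0, .ofNat 842, .ofNat 1792, .ofNat 131782984739874267973888392056145169952538624, .ofNat 0, .ofNat 0, .ofNat 0, .ofNat 0, .ofNat 0, .ofNat 2164924141184973803432777531584543719424000,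 .ofNat 0, .ofNat 0, .ofNat 0, .ofNat 0, .ofNat 0, .ofNat 0, .ofNat 0, .ofNat 0, .ofNat 0⟩)
    (by decide +kernel)
theorem L01367 : Good (Phi V5.P V5.D (-1) 1) ⟨4, 10, 2, 0, 3, 6, 3, 0, 5, 3⟩ :=
  leafX_sound T5.ok_mp T5.Ymp.bz_eq (w := 230) (c := ⟨⟨.negSucc 2120, .negSucc 768, .negSucc 428, .negSucc 576, .ofNat 172, .negSucc 574⟩, ⟨.ofNat 65, .ofNat 228, .negSucc 519, .ofNat 150, .negSucc 26, .ofNat 117⟩, ⟨.ofNat 1778, .ofNat 728, .ofNat 489, .ofNat 793, .negSucc 639, .ofNat 591⟩, ⟨.negSucc 4356, .negSucc 1031, .negSucc 634, .negSucc 976, .ofNat 297, .negSucc 998⟩, ⟨.negSucc 2052, .ofNat 251, .ofNat 148, .ofNat 845, .negSucc 22, .ofNat 491⟩, .ofNat 442, .ofNat 129, .ofNat 0, .ofNat 129, .ofNat 1560, .ofNat 0, .ofNat 255, .negSucc 127, .negSucc 259, .ofNat 0, .ofNat 103, .ofNat 52, .ofNat 0, .ofNat 0, .ofNat 486, .ofNat 4670, .ofNat 81280848601025303574005896041924520705452408832,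 .ofNat 0, .ofNat 0, .ofNat 0, .ofNat 0, .ofNat 0, .ofNat 7266292802828229279528922315328024781783040, .ofNat 0, .ofNat 0, .ofNat 0, .ofNat 5647347715536580540268324513681566886526976, .ofNat 0, .ofNat 0, .ofNat 0, .ofNat 9133045050244300323817994199206465382645760, .ofNat 0⟩)
    (by decide +kernel)
theorem L01368 : Good (Phi V5.P V5.D (-1) 1) ⟨4, 10, 2, 0, 3, 7, 3, 0, 5, 3⟩ :=
  leafX_sound T5.ok_mp T5.Ymp.bz_eq (w := 228) (c := ⟨⟨.negSucc 2923, .negSucc 951, .negSucc 782, .ofNat 42, .ofNat 228, .negSucc 19⟩, ⟨.ofNat 252, .ofNat 324, .negSucc 419, .ofNat 156, .negSucc 51, .negSucc 24⟩, ⟨.ofNat 2671, .ofNat 733, .ofNat 584, .negSucc 1346, .negSucc 322, .ofNat 139⟩, ⟨.negSucc 5734, .negSucc 1248, .negSucc 1369, .ofNat 198, .ofNat 396, .negSucc 44⟩, ⟨.negSucc 691, .ofNat 414, .ofNat 480, .ofNat 1489, .negSucc 345, .negSucc 205⟩, .ofNat 442, .ofNat 124, .ofNat 0, .ofNat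 124, .ofNat 1572, .ofNat 0, .ofNat 178, .negSucc 127, .negSucc 138, .ofNat 0, .ofNat 105, .ofNat 23, .ofNat 0, .ofNat 0, .ofNat 248, .ofNat 1381, .ofNat 0, .ofNat 0, .ofNat 0, .ofNat 0, .ofNat 0, .ofNat 0, .ofNat 2978267337299175396180556929568935291912192, .ofNat 0, .ofNat 0, .ofNat 0, .ofNat 0, .ofNat 0, .ofNat 0, .ofNat 0, .ofNat 1832175863103606971958738127167572401979392, .ofNat 0⟩)
    (by decide +kernel)
theorem L01369 : Good (Phi V5.P V5.D (-1) 1) ⟨4, 10, 2, 0, 2, 3, 3, 1, 5, 3⟩ :=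
  leafX_sound T5.ok_mp T5.Ymp.bz_eq (w := 215) (c := ⟨⟨.negSucc 2241, .negSucc 825, .negSucc 818, .negSucc 248, .ofNat 278, .negSucc 312⟩, ⟨.ofNat 104, .ofNat 245, .negSucc 417, .ofNat 176, .negSucc 65, .ofNat 35⟩, ⟨.ofNat 1735, .ofNat 762, .ofNat 753, .negSucc 390, .negSucc 384, .ofNat 336⟩, ⟨.negSucc 4512, .negSucc 1128, .negSucc 1365, .negSucc 386, .ofNat 486, .negSucc 585⟩, ⟨.negSucc 1791, .ofNat 287, .ofNat 433, .ofNat 1634, .negSucc 396, .ofNat 82⟩, .ofNat 404, .ofNat 55, .ofNat 0, .ofNat 55, .ofNat 1154, .ofNat 0, .ofNat 232, .negSucc 114, .negSucc 404, .ofNat 0, .ofNat 128, .ofNat 71, .ofNat 0, .ofNat 0, .ofNat 555, .ofNat 1316, .ofNat 0, .ofNat 0, .ofNat 0, .ofNat 0, .ofNat 0, .ofNat 0, .ofNat 291200663312701016555215190427852341248, .ofNat 0, .ofNat 0, .ofNat 0, .ofNat 251936703557302465663856321584294789120, .ofNat 0, .ofNat 0, .ofNat 0, .ofNat 573985383574877838059642108748394135552,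 .ofNat 0⟩)
    (by decide +kernel)
theorem L01370 : Good (Phi V5.P V5.D (-1) 1) ⟨4, 11, 2, 0, 2, 3, 5, 0, 5, 3⟩ :=
  leafX_sound T5.ok_mp T5.Ymp.bz_eq (w := 224) (c := ⟨⟨.negSucc 3159, .negSucc 1064, .negSucc 569, .negSucc 849, .ofNat 39, .negSucc 296⟩, ⟨.ofNat 302, .ofNat 479, .negSucc 397, .ofNat 447, .negSucc 14, .ofNat 64⟩, ⟨.ofNat 3113, .ofNat 522, .negSucc 7, .negSucc 582, .ofNat 77, .ofNat 421⟩, ⟨.negSucc 5959, .negSucc 1224, .negSucc 903, .negSucc 1094, .ofNat 68, .negSucc 500⟩, ⟨.negSucc 1678, .ofNat 832, .ofNat 1052, .ofNat 2595, .negSucc 95, .ofNat 121⟩, .ofNat 485, .ofNat 289, .ofNat 0, .ofNat 289, .ofNat 1843, .ofNat 0, .ofNat 128, .negSucc 201, .negSucc 271, .ofNat 0, .ofNat 127, .ofNat 70, .ofNat 0, .ofNat 0, .ofNat 467, .ofNat 6271, .ofNat 2819692994270779029960183306033297957995937792, .ofNat 0, .ofNat 5364347311461047009090204300471315726336, .ofNat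 0, .ofNat 0, .ofNat 0, .ofNat 71622423937234662145752504696438154854400, .ofNat 0, .ofNat 0, .ofNat 0, .ofNat 306531444028783416690847866848030578704384, .ofNat 0, .ofNat 6993374091239486340339751727938431025625956352, .ofNat 0, .ofNat 338314492634133647662482623919935654461440, .ofNat 0⟩)
    (by decide +kernel)
theorem L01371 : Good (Phi V5.P V5.D (-1) 1) ⟨4, 11, 2, 0, 2, 3, 5, 1, 5, 3⟩ :=
  leafX_sound T5.ok_mp T5.Ymp.bz_eq (w := 223) (c := ⟨⟨.negSucc 3159, .negSucc 1437, .negSucc 804, .negSucc 594, .ofNat 73, .negSucc 161⟩, ⟨.ofNat 309, .ofNat 525, .negSucc 400, .ofNat 378, .negSucc 22, .ofNat 40⟩, ⟨.ofNat 3140, .ofNat 897, .ofNat 51, .negSucc 753, .negSucc 138, .ofNat 176⟩, ⟨.negSucc 5938, .negSucc 1888, .negSucc 1270, .negSucc 691, .ofNat 111, .negSucc 271⟩, ⟨.negSucc 1674, .ofNat 696, .ofNat 586, .ofNat 2427, .negSucc 94, .ofNat 135⟩, .ofNat 470, .ofNat 258,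 .ofNat 0, .ofNat 258, .ofNat 1691, .ofNat 0, .ofNat 128, .negSucc 172, .negSucc 216, .ofNat 0, .ofNat 113, .ofNat 55, .ofNat 0, .ofNat 0, .ofNat 365, .ofNat 2836, .ofNat 0, .ofNat 0, .ofNat 1481179389795159761305105233734197575680, .ofNat 0, .ofNat 0, .ofNat 0, .ofNat 51307576255043872329524073274534965280768, .ofNat 0, .ofNat 0, .ofNat 0, .ofNat 208250176120686640692704376656948281475072, .ofNat 0, .ofNat 0, .ofNat 0, .ofNat 196891629325938804803893055610595865264128, .ofNat 0⟩)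
    (by decide +kernel)
theorem L01372 : Good (Phi V5.P V5.D (-1) 1) ⟨4, 11, 2, 0, 2, 3, 4, 1, 5, 3⟩ :=
  leafX_sound T5.ok_mp T5.Ymp.bz_eq (w := 219) (c := ⟨⟨.negSucc 3311, .negSucc 1491, .negSucc 1016, .negSucc 317, .ofNat 185, .negSucc 166⟩, ⟨.ofNat 352, .ofNat 493, .negSucc 346, .ofNat 282, .negSucc 50, .ofNat 49⟩, ⟨.ofNat 3166, .ofNat 1459, .ofNat 883, .negSucc 806, .negSucc 345, .ofNat 9⟩, ⟨.negSucc 6188, .negSucc 2043, .negSucc 1615, .negSucc 251, .ofNat 294, .negSucc 258⟩, ⟨.negSucc 1605, .ofNat 528, .ofNat 753, .ofNat 2063, .negSucc 182, .ofNat 231⟩, .ofNat 461, .ofNat 165, .ofNat 0, .ofNat 165, .ofNat 1431, .ofNat 0, .ofNat 128, .negSucc 153, .negSucc 375, .ofNat 0, .ofNat 112, .ofNat 100, .ofNat 0, .ofNat 0, .ofNat 445, .ofNat 1267, .ofNat 0, .ofNat 0, .ofNat 281567892722046975358126652481484095488, .ofNat 0, .ofNat 0, .ofNat 0, .ofNat 2298889556801104585870204013365004599296,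 .ofNat 0, .ofNat 0, .ofNat 0, .ofNat 6911671963244349016116776615728222568448, .ofNat 0, .ofNat 0, .ofNat 0, .ofNat 8742061776539634251168920872357319409664, .ofNat 0⟩)
    (by decide +kernel)
theorem L01373 : Good (Phi V5.P V5.D (-1) 1) ⟨4, 11, 2, 0, 2, 3, 3, 1, 5, 3⟩ :=
  leafX_sound T5.ok_mp T5.Ymp.bz_eq (w := 215) (c := ⟨⟨.negSucc 3194, .negSucc 797, .negSucc 879, .negSucc 99, .ofNat 291, .negSucc 343⟩, ⟨.ofNat 362, .ofNat 318, .negSucc 371, .ofNat 169, .negSucc 88, .ofNat 67⟩, ⟨.ofNat 2532, .ofNat 410, .ofNat 665, .negSucc 498, .negSucc 305, .ofNat 370⟩, ⟨.negSucc 5933, .negSucc 939, .negSucc 1387, .ofNat 22, .ofNat 462, .negSucc 593⟩, ⟨.negSucc 1288, .ofNat 216, .ofNat 531, .ofNat 1262, .negSucc 342, .ofNat 108⟩, .ofNat 503, .ofNat 327, .ofNat 0, .ofNat 327, .ofNat 2049, .ofNat 0, .ofNat 128, .negSucc 156, .negSucc 291, .ofNat 0, .ofNat 115, .ofNat 71, .ofNat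 0, .ofNat 0, .ofNat 404, .ofNat 1023, .ofNat 0, .ofNat 0, .ofNat 15688400155118578310878646636734578688, .ofNat 0, .ofNat 0, .ofNat 0, .ofNat 310169888132633684057968048306028281856, .ofNat 0, .ofNat 0, .ofNat 0, .ofNat 856994028395136738405512254985103998976, .ofNat 0, .ofNat 0, .ofNat 0, .ofNat 1089822559024545855966274564497061445632, .ofNat 0⟩)
    (by decide +kernel)
theorem L01374 : Good (Phi V5.P V5.D (-1) 1) ⟨3, 4, 2, 0, 2, 2, 2, 1, 4, 0⟩ :=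
  leafX_sound T5.ok_mp T5.Ymp.bz_eq (w := 201) (c := ⟨⟨.ofNat 1527, .ofNat 250, .negSucc 225, .ofNat 961, .negSucc 281, .negSucc 2586⟩, ⟨.ofNat 4, .negSucc 137, .ofNat 97, .negSucc 77, .ofNat 32, .negSucc 89⟩, ⟨.negSucc 885, .negSucc 186, .ofNat 139, .negSucc 466, .negSucc 137, .ofNat 1381⟩, ⟨.ofNat 3281, .ofNat 204, .negSucc 237, .ofNat 2050, .negSucc 660, .negSucc 5509⟩, ⟨.negSucc 756, .negSucc 506, .negSucc 433, .negSucc 322, .ofNat 574, .negSucc 432⟩, .ofNat 325, .ofNat 1, .ofNat 0, .ofNat 1, .ofNat 681, .ofNat 0, .ofNat 345, .ofNat 3, .negSucc 423, .ofNat 0, .ofNat 128, .ofNat 39, .ofNat 0, .ofNat 0, .ofNat 586, .ofNat 637, .ofNat 0, .ofNat 0, .ofNat 0, .ofNat 0, .ofNat 0, .ofNat 0, .ofNat 0, .ofNat 0, .ofNat 0, .ofNat 0, .ofNat 0, .ofNat 0, .ofNat 0, .ofNat 0, .ofNat 0, .ofNat 0⟩)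
    (by decide +kernel)
theorem L01375 : Good (Phi V5.P V5.D (-1) 1) ⟨3, 5, 2, 0, 2, 2, 2, 1, 4, 0⟩ :=
  leafX_sound T5.ok_mp T5.Ymp.bz_eq (w := 201) (c := ⟨⟨.ofNat 1796, .ofNat 1097, .negSucc 246, .ofNat 1666, .negSucc 606, .negSucc 3355⟩, ⟨.negSucc 126, .negSucc 624, .ofNat 0, .negSucc 348, .ofNat 190, .ofNat 299⟩, ⟨.negSucc 980, .negSucc 788, .ofNat 54, .negSucc 967, .negSucc 28, .ofNat 2001⟩, ⟨.ofNat 3360, .ofNat 1342, .negSucc 192, .ofNat 2884, .negSucc 995, .negSucc 6208⟩, ⟨.negSucc 1684, .ofNat 198, .negSucc 10, .negSucc 337, .ofNat 893, .negSucc 512⟩, .ofNat 408, .ofNat 111, .ofNat 0, .ofNat 111, .ofNat 1213, .ofNat 0, .ofNat 293, .negSucc 80, .negSucc 250, .ofNat 0, .ofNat 128, .ofNat 41, .ofNat 0, .ofNat 0, .ofNat 360, .ofNat 267, .ofNat 0, .ofNat 0, .ofNat 75561132696464968008974565889802240, .ofNat 0, .ofNat 0, .ofNat 0, .ofNat 1020247306525089352890457303854088192,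 .ofNat 0, .ofNat 0, .ofNat 0, .ofNat 0, .ofNat 0, .ofNat 0, .ofNat 0, .ofNat 2552123781209471722112483580027338752, .ofNat 0⟩)
    (by decide +kernel)
theorem L01376 : Good (Phi V5.P V5.D (-1) 1) ⟨3, 4, 2, 0, 2, 3, 2, 1, 4, 0⟩ :=
  leafX_sound T5.ok_mp T5.Ymp.bz_eq (w := 201) (c := ⟨⟨.ofNat 2592, .ofNat 363, .negSucc 235, .negSucc 1346, .negSucc 183, .negSucc 2486⟩, ⟨.negSucc 35, .negSucc 105, .ofNat 75, .ofNat 218, .negSucc 35, .negSucc 134⟩, ⟨.negSucc 1407, .negSucc 280, .negSucc 13, .ofNat 1149, .negSucc 55, .ofNat 1180⟩, ⟨.ofNat 5516, .ofNat 428, .negSucc 334, .negSucc 2708, .negSucc 426, .negSucc 5206⟩, ⟨.negSucc 539, .negSucc 362, .negSucc 747, .ofNat 2442, .negSucc 102, .negSucc 1225⟩, .ofNat 439, .negSucc 27, .ofNat 0, .negSucc 27, .ofNat 1434, .ofNat 0, .ofNat 330, .ofNat 37, .negSucc 286, .ofNat 0, .ofNat 128, .ofNat 12, .ofNat 0, .ofNat 0, .ofNat 390, .ofNat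 284, .ofNat 0, .ofNat 0, .ofNat 0, .ofNat 0, .ofNat 0, .ofNat 0, .ofNat 0, .ofNat 0, .ofNat 0, .ofNat 0, .ofNat 0, .ofNat 0, .ofNat 0, .ofNat 0, .ofNat 1149797308530401420832658944354680832, .ofNat 0⟩)
    (by decide +kernel)
theorem L01377 : Good (Phi V5.P V5.D (-1) 1) ⟨3, 5, 2, 0, 3, 6, 2, 1, 5, 0⟩ :=
  leafX_sound T5.ok_mp T5.Ymp.bz_eq (w := 221) (c := ⟨⟨.ofNat 2878, .ofNat 2067, .ofNat 731, .ofNat 126, .negSucc 364, .negSucc 1442⟩, ⟨.negSucc 353, .negSucc 706, .ofNat 181, .ofNat 99, .ofNat 78, .negSucc 5⟩, ⟨.negSucc 1497, .negSucc 1558, .negSucc 713, .negSucc 9, .negSucc 194, .ofNat 779⟩, ⟨.ofNat 5449, .ofNat 2784, .ofNat 1464, .ofNat 354, .negSucc 652, .negSucc 2776⟩, ⟨.negSucc 686, .negSucc 1066, .negSucc 1198, .ofNat 886, .ofNat 399, .negSucc 1121⟩, .ofNat 406, .ofNat 99, .ofNat 0, .ofNat 99, .ofNat 1194, .ofNat 0, .ofNat 299, .negSucc 48, .negSucc 414, .ofNat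 0, .ofNat 128, .ofNat 57, .ofNat 0, .ofNat 0, .ofNat 476, .ofNat 651, .ofNat 0, .ofNat 0, .ofNat 104234464902704175365019380868077378863104, .ofNat 0, .ofNat 0, .ofNat 0, .ofNat 727126912711305383118482760685979353219072, .ofNat 0, .ofNat 0, .ofNat 0, .ofNat 2793007430503495904966984476240171463868416, .ofNat 0, .ofNat 0, .ofNat 0, .ofNat 2228858414700365938098997202247176033402880, .ofNat 0⟩)
    (by decide +kernel)
theorem L01378 : Good (Phi V5.P V5.D (-1) 1) ⟨3, 5, 2, 0, 3, 7, 2, 1, 5, 0⟩ :=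
  leafX_sound T5.ok_mp T5.Ymp.bz_eq (w := 221) (c := ⟨⟨.ofNat 2926, .ofNat 995, .ofNat 360, .negSucc 2449, .ofNat 40, .negSucc 1461⟩, ⟨.negSucc 261, .negSucc 280, .ofNat 149, .ofNat 474, .negSucc 29, .ofNat 10⟩, ⟨.negSucc 1642, .negSucc 667, .negSucc 544, .ofNat 1970, .negSucc 169, .ofNat 774⟩, ⟨.ofNat 5506, .ofNat 1509, .ofNat 765, .negSucc 4281, .ofNat 29, .negSucc 2822⟩, ⟨.ofNat 796, .negSucc 284, .negSucc 1262, .ofNat 2065, .negSucc 504, .negSucc 1421⟩, .ofNat 394, .ofNat 75, .ofNat 0, .ofNat 75, .ofNat 1033, .ofNat 0, .ofNat 393, .negSucc 6, .negSucc 478, .ofNat 0, .ofNat 128, .ofNat 63, .ofNat 0, .ofNat 0, .ofNat 496, .ofNat 597, .ofNat 0, .ofNat 0, .ofNat 76912685092438937138932406804322986229760, .ofNat 0, .ofNat 0, .ofNat 0, .ofNat 805494690084782645293851152934776388714496, .ofNat 0, .ofNat 0, .ofNat 0, .ofNat 2369246004759696721215427170966107645280256, .ofNat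 0, .ofNat 0, .ofNat 0, .ofNat 2758731761425403268984021435993466947502080, .ofNat 0⟩)
    (by decide +kernel)
theorem L01379 : Good (Phi V5.P V5.D (-1) 1) ⟨3, 5, 2, 0, 2, 3, 2, 1, 5, 1⟩ :=
  leafX_sound T5.ok_mp T5.Ymp.bz_eq (w := 207) (c := ⟨⟨.ofNat 2177, .ofNat 527, .negSucc 359, .negSucc 2157, .negSucc 71, .negSucc 1951⟩, ⟨.negSucc 418, .negSucc 251, .negSucc 22, .ofNat 526, .ofNat 26, .ofNat 146⟩, ⟨.negSucc 1435, .negSucc 306, .negSucc 2, .ofNat 1718, .negSucc 124, .ofNat 1082⟩, ⟨.ofNat 3761, .ofNat 787, .negSucc 415, .negSucc 3607, .negSucc 108, .negSucc 3683⟩, ⟨.negSucc 2041, .negSucc 289, .negSucc 571, .ofNat 2370, .ofNat 102, .negSucc 322⟩, .ofNat 407, .ofNat 111, .ofNat 0, .ofNat 111, .ofNat 1198, .ofNat 0, .ofNat 272, .negSucc 80, .negSucc 525, .ofNat 0, .ofNat 128, .ofNat 83, .ofNat 0, .ofNat 0, .ofNat 567, .ofNat 363, .ofNat 0, .ofNat 0, .ofNat 1001866349898128635036156696597626880,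 .ofNat 0, .ofNat 0, .ofNat 0, .ofNat 29854468909764113855115831125081063424, .ofNat 0, .ofNat 0, .ofNat 0, .ofNat 145466528184711592522665060434173755392, .ofNat 0, .ofNat 0, .ofNat 0, .ofNat 183390416125763867125392337454931902464, .ofNat 0⟩)
    (by decide +kernel)
theorem L01380 : Good (Phi V5.P V5.D (-1) 1) ⟨3, 4, 2, 0, 2, 2, 2, 1, 4, 1⟩ :=
  leafX_sound T5.ok_mp T5.Ymp.bz_eq (w := 201) (c := ⟨⟨.negSucc 548, .negSucc 640, .negSucc 260, .negSucc 51, .negSucc 4, .negSucc 1170⟩, ⟨.ofNat 4, .ofNat 115, .negSucc 367, .negSucc 60, .ofNat 17, .ofNat 13⟩, ⟨.ofNat 104, .ofNat 500, .ofNat 276, .negSucc 117, .negSucc 53, .ofNat 935⟩, ⟨.negSucc 1405, .negSucc 922, .negSucc 354, .negSucc 56, .negSucc 22, .negSucc 2438⟩, ⟨.negSucc 1358, .negSucc 89, .negSucc 0, .negSucc 377, .ofNat 419, .ofNat 313⟩, .ofNat 436, .negSucc 13, .ofNat 0, .negSucc 13, .ofNat 1427, .ofNat 0, .ofNat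 571, .ofNat 2, .negSucc 237, .ofNat 0, .ofNat 128, .ofNat 18, .ofNat 0, .ofNat 0, .ofNat 472, .ofNat 769, .ofNat 0, .ofNat 0, .ofNat 0, .ofNat 0, .ofNat 0, .ofNat 0, .ofNat 0, .ofNat 0, .ofNat 0, .ofNat 0, .ofNat 0, .ofNat 0, .ofNat 0, .ofNat 0, .ofNat 956993564736447273049602897360191488, .ofNat 0⟩)
    (by decide +kernel)
theorem L01381 : Good (Phi V5.P V5.D (-1) 1) ⟨3, 5, 2, 0, 2, 2, 2, 1, 4, 1⟩ :=
  leafX_sound T5.ok_mp T5.Ymp.bz_eq (w := 201) (c := ⟨⟨.negSucc 606, .negSucc 1123, .negSucc 364, .negSucc 110, .negSucc 4, .negSucc 1775⟩, ⟨.negSucc 69, .ofNat 319, .negSucc 345, .negSucc 59, .ofNat 34, .ofNat 256⟩, ⟨.ofNat 169, .ofNat 882, .ofNat 364, .negSucc 82, .negSucc 41, .ofNat 1443⟩, ⟨.negSucc 1473, .negSucc 1548, .negSucc 461, .negSucc 216, .ofNat 4, .negSucc 3250⟩, ⟨.negSucc 1562, .ofNat 262, .ofNat 311, .negSucc 553, .ofNat 411, .ofNat 367⟩, .ofNat 406, .ofNat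 104, .ofNat 0, .ofNat 104, .ofNat 1189, .ofNat 0, .ofNat 449, .negSucc 86, .negSucc 321, .ofNat 0, .ofNat 128, .ofNat 60, .ofNat 0, .ofNat 0, .ofNat 509, .ofNat 515, .ofNat 0, .ofNat 0, .ofNat 73764628033730581768944609627471872, .ofNat 0, .ofNat 0, .ofNat 0, .ofNat 0, .ofNat 0, .ofNat 0, .ofNat 0, .ofNat 7306068358922733071762799380962213888, .ofNat 0, .ofNat 0, .ofNat 0, .ofNat 6262972608144740728926068942263287808, .ofNat 0⟩)
    (by decide +kernel)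
theorem L01382 : Good (Phi V5.P V5.D (-1) 1) ⟨3, 4, 2, 0, 2, 3, 2, 1, 5, 2⟩ :=
  leafX_sound T5.ok_mp T5.Ymp.bz_eq (w := 206) (c := ⟨⟨.negSucc 62, .negSucc 506, .negSucc 642, .negSucc 571, .ofNat 208, .negSucc 967⟩, ⟨.negSucc 47, .ofNat 62, .negSucc 287, .ofNat 71, .negSucc 14, .negSucc 2⟩, ⟨.negSucc 78, .ofNat 410, .ofNat 287, .ofNat 320, .negSucc 185, .ofNat 577⟩, ⟨.negSucc 331, .negSucc 785, .negSucc 1111, .negSucc 1227, .ofNat 472, .negSucc 1990⟩, ⟨.negSucc 1686, .negSucc 18, .ofNat 198, .ofNat 1288, .negSucc 407, .negSucc 64⟩, .ofNat 436, .negSucc 21, .ofNat 0, .negSucc 21, .ofNat 1415, .ofNat 0, .ofNat 396, .ofNat 5, .negSucc 354, .ofNat 0, .ofNat 128, .ofNat 23, .ofNat 0, .ofNat 0, .ofNat 488, .ofNat 790, .ofNat 0, .ofNat 0, .ofNat 0, .ofNat 0, .ofNat 0, .ofNat 0, .ofNat 0, .ofNat 0, .ofNat 0, .ofNat 0, .ofNat 0, .ofNat 0, .ofNat 0, .ofNat 0, .ofNat 58393340027919884244559527101870374912,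 .ofNat 0⟩)
    (by decide +kernel)
theorem L01383 : Good (Phi V5.P V5.D (-1) 1) ⟨3, 5, 2, 0, 2, 3, 2, 1, 5, 2⟩ :=
  leafX_sound T5.ok_mp T5.Ymp.bz_eq (w := 206) (c := ⟨⟨.negSucc 421, .negSucc 1105, .negSucc 543, .negSucc 910, .ofNat 557, .negSucc 1079⟩, ⟨.negSucc 82, .ofNat 194, .negSucc 301, .ofNat 266, .negSucc 130, .ofNat 95⟩, ⟨.ofNat 218, .ofNat 840, .ofNat 281, .ofNat 531, .negSucc 457, .ofNat 581⟩, ⟨.negSucc 1050, .negSucc 1734, .negSucc 811, .negSucc 1497, .ofNat 936, .negSucc 2068⟩, ⟨.negSucc 2008, .ofNat 558, .ofNat 56, .ofNat 1637, .negSucc 596, .negSucc 141⟩, .ofNat 407, .ofNat 114, .ofNat 0, .ofNat 114, .ofNat 1205, .ofNat 0, .ofNat 250, .negSucc 101, .negSucc 543, .ofNat 0, .ofNat 128, .ofNat 97, .ofNat 0, .ofNat 0, .ofNat 595, .ofNat 505, .ofNat 0, .ofNat 0, .ofNat 2638263506972727821914645890255028224, .ofNat 0, .ofNat 0, .ofNat 0, .ofNat 79423192676605887884607178339099082752,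 .ofNat 0, .ofNat 0, .ofNat 0, .ofNat 135583834236610936671683688340052246528, .ofNat 0, .ofNat 0, .ofNat 0, .ofNat 185418512655664650742470390102710288384, .ofNat 0⟩)
    (by decide +kernel)
theorem L01384 : Good (Phi V5.P V5.D (-1) 1) ⟨3, 4, 2, 0, 2, 3, 2, 1, 5, 3⟩ :=
  leafX_sound T5.ok_mp T5.Ymp.bz_eq (w := 206) (c := ⟨⟨.negSucc 1431, .negSucc 721, .negSucc 437, .negSucc 11, .ofNat 302, .negSucc 371⟩, ⟨.negSucc 9, .ofNat 144, .negSucc 419, .ofNat 32, .negSucc 21, .ofNat 14⟩, ⟨.ofNat 851, .ofNat 582, .ofNat 310, .negSucc 229, .negSucc 341, .ofNat 233⟩, ⟨.negSucc 3250, .negSucc 1026, .negSucc 698, .negSucc 39, .ofNat 626, .negSucc 759⟩, ⟨.negSucc 1365, .ofNat 67, .ofNat 54, .ofNat 529, .negSucc 392, .ofNat 90⟩, .ofNat 436, .negSucc 9, .ofNat 0, .negSucc 9, .ofNat 1433, .ofNat 0, .ofNat 315, .negSucc 17, .negSucc 327, .ofNat 0, .ofNat 128, .ofNat 28, .ofNat 0, .ofNat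 0, .ofNat 520, .ofNat 949, .ofNat 0, .ofNat 0, .ofNat 0, .ofNat 0, .ofNat 0, .ofNat 0, .ofNat 70474264517642951422966015968650723328, .ofNat 0, .ofNat 0, .ofNat 0, .ofNat 0, .ofNat 0, .ofNat 0, .ofNat 0, .ofNat 0, .ofNat 0⟩)
    (by decide +kernel)
theorem L01385 : Good (Phi V5.P V5.D (-1) 1) ⟨3, 5, 2, 0, 3, 6, 2, 1, 5, 3⟩ :=
  leafX_sound T5.ok_mp T5.Ymp.bz_eq (w := 221) (c := ⟨⟨.negSucc 1951, .negSucc 1500, .negSucc 613, .ofNat 15, .ofNat 311, .negSucc 655⟩, ⟨.ofNat 90, .ofNat 392, .negSucc 431, .negSucc 7, .negSucc 38, .ofNat 108⟩, ⟨.ofNat 1201, .ofNat 1227, .ofNat 492, .ofNat 35, .negSucc 450, .ofNat 523⟩, ⟨.negSucc 3969, .negSucc 2143, .negSucc 940, .ofNat 24, .ofNat 559, .negSucc 1171⟩, ⟨.negSucc 1595, .ofNat 211, .ofNat 174, .negSucc 35, .negSucc 19, .ofNat 337⟩, .ofNat 407, .ofNat 108, .ofNat 0, .ofNat 108, .ofNat 1197, .ofNat 0, .ofNat 237, .negSucc 105, .negSucc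 466, .ofNat 0, .ofNat 128, .ofNat 91, .ofNat 0, .ofNat 0, .ofNat 578, .ofNat 1240, .ofNat 0, .ofNat 0, .ofNat 61012867737535980374106847426682889961472, .ofNat 0, .ofNat 0, .ofNat 0, .ofNat 1297587595700686704450548367082913003470848, .ofNat 0, .ofNat 0, .ofNat 0, .ofNat 4242830989945286061368906043211763761020928, .ofNat 0, .ofNat 0, .ofNat 0, .ofNat 4608792870952835933505932815905041370054656, .ofNat 0⟩)
    (by decide +kernel)
theorem L01386 : Good (Phi V5.P V5.D (-1) 1) ⟨4, 10, 2, 0, 3, 7, 2, 1, 5, 3⟩ :=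
  leafX_sound T5.ok_mp T5.Ymp.bz_eq (w := 225) (c := ⟨⟨.negSucc 2599, .negSucc 456, .negSucc 744, .ofNat 213, .ofNat 703, .negSucc 106⟩, ⟨.ofNat 236, .ofNat 122, .negSucc 388, .ofNat 8, .negSucc 142, .negSucc 1⟩, ⟨.ofNat 1778, .ofNat 363, .ofNat 525, .negSucc 409, .negSucc 656, .ofNat 13⟩, ⟨.negSucc 5069, .negSucc 585, .negSucc 1203, .ofNat 407, .ofNat 1237, .negSucc 219⟩, ⟨.negSucc 878, .negSucc 66, .ofNat 300, .ofNat 356, .negSucc 723, .negSucc 116⟩, .ofNat 442, .ofNat 126, .ofNat 0, .ofNat 126, .ofNat 1566, .ofNat 0, .ofNat 336, .negSucc 89, .negSucc 514, .ofNat 0, .ofNat 128, .ofNat 84, .ofNat 0, .ofNat 0, .ofNat 656, .ofNat 1273, .ofNat 0, .ofNat 0, .ofNat 4647874156642690946021572175430825279488, .ofNat 0, .ofNat 0, .ofNat 0, .ofNat 614419436175134133603537211768562247532544, .ofNat 0, .ofNat 0, .ofNat 0, .ofNat 425269687031214176702482911566994144755712, .ofNat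 0, .ofNat 0, .ofNat 0, .ofNat 923790052221983915829907075009119078318080, .ofNat 0⟩)
    (by decide +kernel)
theorem L01387 : Good (Phi V5.P V5.D (-1) 1) ⟨4, 11, 2, 0, 3, 7, 2, 1, 5, 3⟩ :=
  leafX_sound T5.ok_mp T5.Ymp.bz_eq (w := 225) (c := ⟨⟨.negSucc 3319, .negSucc 668, .negSucc 1139, .ofNat 381, .ofNat 922, .negSucc 52⟩, ⟨.ofNat 456, .ofNat 203, .negSucc 261, .negSucc 29, .negSucc 251, .negSucc 13⟩, ⟨.ofNat 2359, .ofNat 523, .ofNat 776, .negSucc 586, .negSucc 847, .negSucc 9⟩, ⟨.negSucc 6049, .negSucc 873, .negSucc 1760, .ofNat 714, .ofNat 1490, .negSucc 125⟩, ⟨.negSucc 776, .ofNat 74, .ofNat 531, .ofNat 268, .negSucc 830, .negSucc 161⟩, .ofNat 494, .ofNat 310, .ofNat 0, .ofNat 310, .ofNat 1949, .ofNat 0, .ofNat 186, .negSucc 127, .negSucc 326, .ofNat 0, .ofNat 117, .ofNat 73, .ofNat 0, .ofNat 0, .ofNat 394, .ofNat 947, .ofNat 0, .ofNat 0, .ofNat 12941779650481872864781189518671011119104,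 .ofNat 0, .ofNat 0, .ofNat 0, .ofNat 486830261716296822858799063025587935248384, .ofNat 0, .ofNat 0, .ofNat 0, .ofNat 979145708998720425995817092737604826169344, .ofNat 0, .ofNat 0, .ofNat 0, .ofNat 745626793841694659883909862278383819292672, .ofNat 0⟩)
    (by decide +kernel)
theorem L01388 : Good (Phi V5.P V5.D (-1) 1) ⟨2, 3, 2, 0, 1, 1, 1, 0, 3, 0⟩ :=
  out_sound (S := T5.ds_mp) T5.ok_mp (w := 37) (j := 3) (by decide +kernel)
theorem L01389 : Good (Phi V5.P V5.D (-1) 1) ⟨3, 4, 2, 0, 2, 2, 2, 0, 5, 4⟩ :=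
  leafX_sound T5.ok_mp T5.Ymp.bz_eq (w := 207) (c := ⟨⟨.negSucc 1849, .negSucc 657, .negSucc 178, .negSucc 171, .ofNat 55, .negSucc 145⟩, ⟨.negSucc 5, .ofNat 179, .negSucc 465, .negSucc 28, .ofNat 26, .ofNat 20⟩, ⟨.ofNat 1228, .ofNat 689, .ofNat 415, .ofNat 158, .negSucc 409, .ofNat 188⟩, ⟨.negSucc 4176, .negSucc 777, .negSucc 143, .negSucc 360, .ofNat 112, .negSucc 302⟩, ⟨.negSucc 1383, .ofNat 114, .ofNat 90, .negSucc 329, .ofNat 298, .ofNat 171⟩, .ofNat 438, .negSucc 15, .ofNat 0, .negSucc 15, .ofNat 1449, .ofNat 0, .ofNat 326, .negSucc 15, .negSucc 199, .ofNat 0, .ofNat 128, .ofNat 25, .ofNat 0, .ofNat 0, .ofNat 708, .ofNat 4195, .ofNat 102461775015621718657875561901132852756480, .ofNat 0, .ofNat 0, .ofNat 0, .ofNat 0, .ofNat 0, .ofNat 92935088722969638424707210591481102336, .ofNat 0, .ofNat 0, .ofNat 0, .ofNat 0, .ofNat 0, .ofNat 0, .ofNat 0, .ofNat 0, .ofNat 0⟩)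
    (by decide +kernel)
theorem L01390 : Good (Phi V5.P V5.D (-1) 1) ⟨3, 4, 2, 0, 2, 2, 2, 0, 5, 5⟩ :=
  leafX_sound T5.ok_mp T5.Ymp.bz_eq (w := 208) (c := ⟨⟨.negSucc 2096, .negSucc 611, .negSucc 156, .negSucc 80, .ofNat 66, .ofNat 47⟩, ⟨.ofNat 18, .ofNat 191, .negSucc 468, .negSucc 37, .ofNat 14, .ofNat 10⟩, ⟨.ofNat 1642, .ofNat 622, .ofNat 390, .ofNat 19, .negSucc 523, .ofNat 119⟩, ⟨.negSucc 4700, .negSucc 659, .negSucc 134, .negSucc 153, .ofNat 148, .ofNat 76⟩, ⟨.negSucc 1113, .ofNat 116, .ofNat 102, .negSucc 386, .ofNat 190, .ofNat 106⟩, .ofNat 439, .negSucc 21, .ofNat 0, .negSucc 21, .ofNat 1442, .ofNat 0, .ofNat 473, .negSucc 8, .negSucc 243, .ofNat 0, .ofNat 128, .ofNat 32, .ofNat 0, .ofNat 0, .ofNat 957, .ofNat 7951, .ofNat 83874597776397885654196222447144105148416, .ofNat 0, .ofNat 0, .ofNat 0, .ofNat 0, .ofNat 0, .ofNat 0, .ofNat 0, .ofNat 0, .ofNat 0, .ofNat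 0, .ofNat 0, .ofNat 4547344419202753114103241406946941163536384, .ofNat 0, .ofNat 181702988695321619366775519196387213312, .ofNat 0⟩)
    (by decide +kernel)
theorem L01391 : Good (Phi V5.P V5.D (-1) 1) ⟨3, 4, 2, 0, 2, 2, 2, 0, 4, 3⟩ :=
  leafX_sound T5.ok_mp T5.Ymp.bz_eq (w := 204) (c := ⟨⟨.negSucc 2283, .negSucc 440, .negSucc 105, .ofNat 67, .ofNat 129, .ofNat 257⟩, ⟨.ofNat 19, .ofNat 180, .negSucc 422, .negSucc 35, .ofNat 6, .ofNat 10⟩, ⟨.ofNat 2080, .ofNat 515, .ofNat 321, .negSucc 244, .negSucc 628, .ofNat 41⟩, ⟨.negSucc 5038, .negSucc 336, .negSucc 61, .ofNat 134, .ofNat 253, .ofNat 518⟩, ⟨.negSucc 864, .ofNat 61, .ofNat 50, .negSucc 448, .ofNat 125, .ofNat 125⟩, .ofNat 438, .negSucc 19, .ofNat 0, .negSucc 19, .ofNat 1443, .ofNat 0, .ofNat 478, .negSucc 4, .negSucc 189, .ofNat 0, .ofNat 128, .ofNat 28, .ofNat 0, .ofNat 0, .ofNat 1013, .ofNat 8022, .ofNat 0, .ofNat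 0, .ofNat 0, .ofNat 0, .ofNat 0, .ofNat 0, .ofNat 0, .ofNat 0, .ofNat 0, .ofNat 0, .ofNat 0, .ofNat 0, .ofNat 754765687271811084101363741860996281532416, .ofNat 0, .ofNat 12067463834220474372247782541546749952, .ofNat 0⟩)
    (by decide +kernel)
theorem L01392 : Good (Phi V5.P V5.D (-1) 1) ⟨3, 5, 2, 0, 2, 2, 3, 0, 4, 2⟩ :=
  leafX_sound T5.ok_mp T5.Ymp.bz_eq (w := 208) (c := ⟨⟨.negSucc 2529, .negSucc 908, .negSucc 130, .negSucc 299, .negSucc 8, .ofNat 17⟩, ⟨.ofNat 178, .ofNat 357, .negSucc 515, .ofNat 0, .ofNat 14, .ofNat 41⟩, ⟨.ofNat 1659, .ofNat 968, .ofNat 435, .ofNat 442, .negSucc 230, .ofNat 466⟩, ⟨.negSucc 5044, .negSucc 944, .negSucc 68, .negSucc 582, .negSucc 7, .ofNat 75⟩, ⟨.negSucc 1298, .ofNat 166, .ofNat 118, .negSucc 301, .ofNat 137, .ofNat 370⟩, .ofNat 407, .ofNat 103, .ofNat 0, .ofNat 103, .ofNat 1201, .ofNat 0, .ofNat 368, .negSucc 95, .negSucc 194,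 .ofNat 0, .ofNat 128, .ofNat 51, .ofNat 0, .ofNat 0, .ofNat 631, .ofNat 9866, .ofNat 217205639099322572661970588821408872136704, .ofNat 0, .ofNat 497605666088569173911198983845314560, .ofNat 0, .ofNat 0, .ofNat 0, .ofNat 110186603711267544490731339886545076224, .ofNat 0, .ofNat 0, .ofNat 0, .ofNat 241673747853050174182961343201827356672, .ofNat 0, .ofNat 1542928580702062512221569943417097618980864, .ofNat 0, .ofNat 188557383218332187866763701775799156736, .ofNat 0⟩)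
    (by decide +kernel)
theorem L01393 : Good (Phi V5.P V5.D (-1) 1) ⟨3, 5, 2, 0, 2, 2, 3, 1, 4, 2⟩ :=
  leafX_sound T5.ok_mp T5.Ymp.bz_eq (w := 206) (c := ⟨⟨.negSucc 2630, .negSucc 995, .negSucc 267, .negSucc 225, .ofNat 64, .ofNat 171⟩, ⟨.ofNat 207, .ofNat 376, .negSucc 485, .negSucc 16, .ofNat 4, .ofNat 13⟩, ⟨.ofNat 1768, .ofNat 943, .ofNat 470, .ofNat 137, .negSucc 243, .ofNat 194⟩, ⟨.negSucc 5202, .negSucc 1100, .negSucc 324, .negSucc 453, .ofNat 124, .ofNat 340⟩, ⟨.negSucc 1175, .ofNat 176, .ofNat 139, .negSucc 341, .ofNat 98, .ofNat 366⟩, .ofNat 406, .ofNat 103, .ofNat 0, .ofNat 103, .ofNat 1195, .ofNat 0, .ofNat 529, .negSucc 88, .negSucc 253, .ofNat 0, .ofNat 128, .ofNat 61, .ofNat 0, .ofNat 0, .ofNat 685, .ofNat 2254, .ofNat 0, .ofNat 0, .ofNat 1029453463063860767729736719659958272, .ofNat 0, .ofNat 0, .ofNat 0, .ofNat 94136392252370598202425707532541493248,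 .ofNat 0, .ofNat 0, .ofNat 0, .ofNat 189784892119211931415035499212418580480, .ofNat 0, .ofNat 0, .ofNat 0, .ofNat 97400984407200491859569332733152854016, .ofNat 0⟩)
    (by decide +kernel)
theorem L01394 : Good (Phi V5.P V5.D (-1) 1) ⟨3, 5, 2, 0, 2, 2, 2, 0, 4, 3⟩ :=
  leafX_sound T5.ok_mp T5.Ymp.bz_eq (w := 204) (c := ⟨⟨.negSucc 2894, .negSucc 559, .negSucc 123, .ofNat 103, .ofNat 157, .ofNat 452⟩, ⟨.ofNat 268, .ofNat 280, .negSucc 435, .negSucc 66, .negSucc 9, .negSucc 39⟩, ⟨.ofNat 2804, .ofNat 586, .ofNat 371, .negSucc 307, .negSucc 698, .negSucc 141⟩, ⟨.negSucc 5602, .negSucc 423, .negSucc 97, .ofNat 130, .ofNat 292, .ofNat 829⟩, ⟨.negSucc 744, .ofNat 64, .ofNat 93, .negSucc 496, .ofNat 78, .ofNat 119⟩, .ofNat 407, .ofNat 109, .ofNat 0, .ofNat 109, .ofNat 1200, .ofNat 0, .ofNat 355, .negSucc 75, .negSucc 184, .ofNat 0, .ofNat 128, .ofNat 51, .ofNat 0, .ofNat 0,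 .ofNat 781, .ofNat 6077, .ofNat 0, .ofNat 0, .ofNat 0, .ofNat 0, .ofNat 108893613959020095920597258049580661997568, .ofNat 0, .ofNat 8867462324699708905364797753797902336, .ofNat 0, .ofNat 0, .ofNat 0, .ofNat 20357958085823082341136480564160757760, .ofNat 0, .ofNat 451839712878961962628764767334531652911104, .ofNat 0, .ofNat 13266453196037051500918472642662498304, .ofNat 0⟩)
    (by decide +kernel)
theorem L01395 : Good (Phi V5.P V5.D (-1) 1) ⟨2, 3, 2, 0, 2, 2, 2, 0, 3, 1⟩ :=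
  out_sound (S := T5.ds_mp) T5.ok_mp (w := 37) (j := 3) (by decide +kernel)
theorem L01396 : Good (Phi V5.P V5.D (-1) 1) ⟨3, 4, 2, 0, 3, 6, 4, 0, 4, 2⟩ :=
  leafX_sound T5.ok_mp T5.Ymp.bz_eq (w := 226) (c := ⟨⟨.negSucc 2208, .negSucc 702, .negSucc 183, .ofNat 18, .ofNat 63, .ofNat 116⟩, ⟨.negSucc 6, .ofNat 195, .negSucc 489, .ofNat 13, .negSucc 1, .ofNat 6⟩, ⟨.ofNat 1837, .ofNat 844, .ofNat 374, .ofNat 77, .negSucc 333, .ofNat 142⟩, ⟨.negSucc 4900, .negSucc 848, .negSucc 174, .ofNat 16, .ofNat 127, .ofNat 219⟩, ⟨.negSucc 1535, .ofNat 187, .ofNat 46, .ofNat 219, .ofNat 19, .ofNat 61⟩, .ofNat 439, .negSucc 25, .ofNat 0, .negSucc 25, .ofNat 1460, .ofNat 0, .ofNat 478, .negSucc 49, .negSucc 182, .ofNat 0, .ofNat 128, .ofNat 21, .ofNat 0, .ofNat 0, .ofNat 652, .ofNat 25493, .ofNat 26287027128283083917653479237021206980946034688, .ofNat 0, .ofNat 0, .ofNat 0, .ofNat 0, .ofNat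 0, .ofNat 40004723654493289663179789872276570321715200, .ofNat 0, .ofNat 0, .ofNat 0, .ofNat 0, .ofNat 0, .ofNat 0, .ofNat 0, .ofNat 0, .ofNat 0⟩)
    (by decide +kernel)
theorem L01397 : Good (Phi V5.P V5.D (-1) 1) ⟨3, 4, 2, 0, 3, 6, 4, 1, 4, 2⟩ :=
  leafX_sound T5.ok_mp T5.Ymp.bz_eq (w := 225) (c := ⟨⟨.negSucc 2124, .negSucc 691, .negSucc 179, .ofNat 8, .ofNat 52, .ofNat 96⟩, ⟨.negSucc 8, .ofNat 186, .negSucc 484, .ofNat 10, .ofNat 4, .ofNat 7⟩, ⟨.ofNat 1482, .ofNat 794, .ofNat 344, .ofNat 106, .negSucc 255, .ofNat 138⟩, ⟨.negSucc 4745, .negSucc 808, .negSucc 154, .ofNat 15, .ofNat 104, .ofNat 168⟩, ⟨.negSucc 1460, .ofNat 94, .negSucc 11, .ofNat 198, .ofNat 25, .ofNat 23⟩, .ofNat 500, .negSucc 39, .ofNat 0, .negSucc 39, .ofNat 2412, .ofNat 0, .ofNat 558, .negSucc 36, .negSucc 220, .ofNat 0, .ofNat 128, .ofNat 18, .ofNat 0, .ofNat 0, .ofNat 765, .ofNat 6507, .ofNat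 0, .ofNat 0, .ofNat 0, .ofNat 0, .ofNat 0, .ofNat 0, .ofNat 0, .ofNat 0, .ofNat 0, .ofNat 0, .ofNat 0, .ofNat 0, .ofNat 0, .ofNat 0, .ofNat 0, .ofNat 0⟩)
    (by decide +kernel)
theorem L01398 : Good (Phi V5.P V5.D (-1) 1) ⟨3, 4, 2, 0, 3, 6, 3, 1, 4, 2⟩ :=
  leafX_sound T5.ok_mp T5.Ymp.bz_eq (w := 221) (c := ⟨⟨.negSucc 2130, .negSucc 702, .negSucc 200, .ofNat 108, .ofNat 70, .ofNat 104⟩, ⟨.negSucc 1, .ofNat 184, .negSucc 476, .ofNat 6, .ofNat 3, .ofNat 0⟩, ⟨.ofNat 1414, .ofNat 741, .ofNat 305, .negSucc 68, .negSucc 328, .ofNat 86⟩, ⟨.negSucc 4730, .negSucc 848, .negSucc 203, .ofNat 214, .ofNat 135, .ofNat 178⟩, ⟨.negSucc 1414, .ofNat 155, .ofNat 59, .negSucc 39, .ofNat 80, .ofNat 46⟩, .ofNat 499, .negSucc 49, .ofNat 0, .negSucc 49, .ofNat 2430, .ofNat 0, .ofNat 433, .negSucc 22, .negSucc 202, .ofNat 0, .ofNat 128, .ofNat 15, .ofNat 0, .ofNat 0, .ofNat 573, .ofNat 5552,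 .ofNat 0, .ofNat 0, .ofNat 0, .ofNat 0, .ofNat 0, .ofNat 0, .ofNat 1451201130649600918047256910410082085240832, .ofNat 0, .ofNat 0, .ofNat 0, .ofNat 0, .ofNat 0, .ofNat 0, .ofNat 0, .ofNat 208769262644736499330527025610067967737856, .ofNat 0⟩)
    (by decide +kernel)
theorem L01399 : Good (Phi V5.P V5.D (-1) 1) ⟨3, 4, 2, 0, 3, 7, 2, 0, 4, 2⟩ :=
  leafX_sound T5.ok_mp T5.Ymp.bz_eq (w := 216) (c := ⟨⟨.negSucc 2332, .negSucc 596, .negSucc 232, .ofNat 143, .ofNat 218, .ofNat 358⟩, ⟨.ofNat 27, .ofNat 192, .negSucc 463, .ofNat 44, .negSucc 24, .negSucc 40⟩, ⟨.ofNat 2004, .ofNat 533, .ofNat 221, .negSucc 719, .negSucc 598, .negSucc 131⟩, ⟨.negSucc 5112, .negSucc 660, .negSucc 315, .ofNat 252, .ofNat 426, .ofNat 715⟩, ⟨.negSucc 872, .ofNat 218, .negSucc 3, .ofNat 522, .negSucc 275, .negSucc 505⟩, .ofNat 497, .negSucc 37, .ofNat 0, .negSucc 37, .ofNat 2361, .ofNat 0, .ofNat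 485, .negSucc 39, .negSucc 235, .ofNat 0, .ofNat 128, .ofNat 15, .ofNat 0, .ofNat 0, .ofNat 738, .ofNat 2276, .ofNat 701426818948489268054155538393288872558592, .ofNat 0, .ofNat 0, .ofNat 0, .ofNat 0, .ofNat 0, .ofNat 0, .ofNat 0, .ofNat 0, .ofNat 0, .ofNat 0, .ofNat 0, .ofNat 0, .ofNat 0, .ofNat 0, .ofNat 0⟩)
    (by decide +kernel)
theorem L01400 : Good (Phi V5.P V5.D (-1) 1) ⟨4, 10, 2, 0, 3, 6, 4, 0, 4, 2⟩ :=
  leafX_sound T5.ok_mp T5.Ymp.bz_eq (w := 230) (c := ⟨⟨.negSucc 3071, .negSucc 599, .negSucc 286, .ofNat 9, .ofNat 19, .ofNat 484⟩, ⟨.ofNat 237, .ofNat 215, .negSucc 522, .ofNat 25, .ofNat 3, .negSucc 58⟩, ⟨.ofNat 2779, .ofNat 675, .ofNat 482, .ofNat 139, .negSucc 347, .negSucc 163⟩, ⟨.negSucc 6017, .negSucc 711, .negSucc 376, .ofNat 29, .ofNat 14, .ofNat 880⟩, ⟨.negSucc 1286, .ofNat 216, .ofNat 167, .ofNat 218, .ofNat 106, .negSucc 172⟩, .ofNat 455, .ofNat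 90, .ofNat 0, .ofNat 90, .ofNat 1687, .ofNat 0, .ofNat 269, .negSucc 112, .negSucc 203, .ofNat 0, .ofNat 128, .ofNat 40, .ofNat 0, .ofNat 0, .ofNat 574, .ofNat 15936, .ofNat 235362423567977523035143076912210692275754237952, .ofNat 0, .ofNat 0, .ofNat 0, .ofNat 15101609861979546241780527138798829604641439744, .ofNat 0, .ofNat 7067792688301538251135239746187571922731008, .ofNat 0, .ofNat 0, .ofNat 0, .ofNat 0, .ofNat 0, .ofNat 266136064653939756167356593819564661294120304640, .ofNat 0, .ofNat 2920520487244237936182437368705438432886784, .ofNat 0⟩)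
    (by decide +kernel)

end Crest.Agent.R097C5.N5mp
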