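import Crest.Agent.R097.KP7
import Crest.Agent.R097.T5Ymp

/-!
# Row 97, box cover in dimension n = 5 (generated)
-/

set_option autoImplicit false
set_option Elab.async false
set_option maxHeartbeats 0
set_option maxRecDepth 100000

open Crest.Agent.R097 Crest.Agent.R097.KA


namespace Crest.Agent.R097C5.N5mp

theorem L01401 : Good (Phi V5.P V5.D (-1) 1) ⟨4, 10, 2, 0, 3, 6, 4, 1, 4, 2⟩ :=
  leafX_sound T5.ok_mp T5.Ymp.bz_eq (w := 229) (c := ⟨⟨.negSucc 2973, .negSucc 609, .negSucc 378, .ofNat 39, .ofNat 79, .ofNat 428⟩, ⟨.ofNat 230, .ofNat 204, .negSucc 496, .ofNat 15, .negSucc 10, .negSucc 49⟩, ⟨.ofNat 2354, .ofNat 687, .ofNat 628, .ofNat 76, .negSucc 339, .negSucc 111⟩, ⟨.negSucc 5847, .negSucc 738, .negSucc 515, .ofNat 76, .ofNat 143, .ofNat 761⟩, ⟨.negSucc 1311, .ofNat 182, .ofNat 223, .ofNat 229, .negSucc 44, .negSucc 21⟩, .ofNat 455, .ofNat 90, .ofNat 0, .ofNat 90,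 .ofNat 1687, .ofNat 0, .ofNat 314, .negSucc 105, .negSucc 222, .ofNat 0, .ofNat 128, .ofNat 43, .ofNat 0, .ofNat 0, .ofNat 555, .ofNat 7865, .ofNat 0, .ofNat 0, .ofNat 0, .ofNat 0, .ofNat 0, .ofNat 0, .ofNat 8923271255527426231925261437325779998343168, .ofNat 0, .ofNat 0, .ofNat 0, .ofNat 0, .ofNat 0, .ofNat 0, .ofNat 0, .ofNat 3413474933999399732084722412617358465040384, .ofNat 0⟩)
    (by decide +kernel)
theorem L01402 : Good (Phi V5.P V5.D (-1) 1) ⟨4, 10, 2, 0, 3, 6, 3, 1, 4, 2⟩ :=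
  leafX_sound T5.ok_mp T5.Ymp.bz_eq (w := 225) (c := ⟨⟨.negSucc 2928, .negSucc 577, .negSucc 430, .ofNat 181, .ofNat 162, .ofNat 368⟩, ⟨.ofNat 234, .ofNat 185, .negSucc 490, .negSucc 19, .negSucc 23, .negSucc 43⟩, ⟨.ofNat 2119, .ofNat 612, .ofNat 607, .negSucc 62, .negSucc 457, .negSucc 105⟩, ⟨.negSucc 5737, .negSucc 713, .negSucc 613, .ofNat 293, .ofNat 273, .ofNat 667⟩, ⟨.negSucc 1282, .ofNat 87, .ofNat 197, .ofNat 70, .negSucc 32, .ofNat 15⟩, .ofNat 404, .ofNat 55, .ofNat 0, .ofNat 55, .ofNat 1154, .ofNat 0, .ofNat 269, .negSucc 88, .negSucc 287, .ofNat 0, .ofNat 128, .ofNat 58, .ofNat 0, .ofNat 0, .ofNat 596, .ofNat 3191, .ofNat 0, .ofNat 0, .ofNat 0, .ofNat 0, .ofNat 0, .ofNat 0, .ofNat 357264928304490172681498091192940018794496, .ofNat 0, .ofNat 0, .ofNat 0, .ofNat 0, .ofNat 0, .ofNat 0, .ofNat 0, .ofNat 378730793932925378610145253336707667853312, .ofNat 0⟩)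
    (by decide +kernel)
theorem L01403 : Good (Phi V5.P V5.D (-1) 1) ⟨4, 10, 2, 0, 4, 14, 2, 0, 4, 2⟩ :=
  leafX_sound T5.ok_mp T5.Ymp.bz_eq (w := 234) (c := ⟨⟨.negSucc 3344, .negSucc 401, .negSucc 336, .ofNat 193, .ofNat 399, .ofNat 719⟩, ⟨.ofNat 336, .ofNat 157, .negSucc 483, .negSucc 4, .negSucc 83, .negSucc 121⟩, ⟨.ofNat 3061, .ofNat 377, .ofNat 358, .negSucc 342, .negSucc 1008, .negSucc 520⟩, ⟨.negSucc 6450, .negSucc 424, .negSucc 489, .ofNat 368, .ofNat 703, .ofNat 1279⟩, ⟨.negSucc 561, .ofNat 67, .ofNat 117, .ofNat 94, .negSucc 447, .negSucc 488⟩, .ofNat 409, .ofNat 98, .ofNat 0, .ofNat 98, .ofNat 1245, .ofNat 0, .ofNat 255, .negSucc 111, .negSucc 167, .ofNat 0, .ofNat 128, .ofNat 35, .ofNat 0, .ofNat 0, .ofNat 380, .ofNat 1832, .ofNat 0, .ofNat 0, .ofNat 0, .ofNat 0, .ofNat 0, .ofNat 0, .ofNat 289962694528099122088317034299932282726645760, .ofNat 0, .ofNat 0,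 .ofNat 0, .ofNat 276803135301536129900340951608614383186345984, .ofNat 0, .ofNat 1221110941262410769695298008514083802119600603136, .ofNat 0, .ofNat 184085466567775897937032953765249514825842688, .ofNat 0⟩)
    (by decide +kernel)
theorem L01404 : Good (Phi V5.P V5.D (-1) 1) ⟨4, 10, 2, 0, 4, 15, 2, 0, 4, 2⟩ :=
  leafX_sound T5.ok_mp T5.Ymp.bz_eq (w := 233) (c := ⟨⟨.negSucc 3321, .negSucc 320, .negSucc 364, .ofNat 148, .ofNat 450, .ofNat 876⟩, ⟨.ofNat 394, .ofNat 159, .negSucc 442, .ofNat 17, .negSucc 135, .negSucc 185⟩, ⟨.ofNat 2505, .ofNat 270, .ofNat 273, .negSucc 611, .negSucc 597, .negSucc 524⟩, ⟨.negSucc 6327, .negSucc 268, .negSucc 585, .ofNat 294, .ofNat 746, .ofNat 1533⟩, ⟨.ofNat 27, .ofNat 77, .ofNat 128, .ofNat 416, .negSucc 783, .negSucc 946⟩, .ofNat 407, .ofNat 98, .ofNat 0, .ofNat 98, .ofNat 1214, .ofNat 0, .ofNat 176, .negSucc 104, .negSucc 143, .ofNat 0,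 .ofNat 128, .ofNat 27, .ofNat 0, .ofNat 0, .ofNat 369, .ofNat 900, .ofNat 0, .ofNat 0, .ofNat 772751058989560261347838153602905701089280, .ofNat 0, .ofNat 0, .ofNat 0, .ofNat 111591930877386889755181750595929096948023296, .ofNat 0, .ofNat 0, .ofNat 0, .ofNat 0, .ofNat 0, .ofNat 0, .ofNat 0, .ofNat 123725551662590241370230960937936270938603520, .ofNat 0⟩)
    (by decide +kernel)
theorem L01405 : Good (Phi V5.P V5.D (-1) 1) ⟨5, 22, 2, 0, 3, 6, 4, 0, 5, 4⟩ :=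
  leafX_sound T5.ok_mp T5.Ymp.bz_eq (w := 239) (c := ⟨⟨.negSucc 3761, .negSucc 428, .negSucc 270, .negSucc 290, .ofNat 195, .ofNat 285⟩, ⟨.ofNat 495, .ofNat 183, .negSucc 550, .ofNat 124, .negSucc 53, .negSucc 57⟩, ⟨.ofNat 3470, .ofNat 370, .ofNat 349, .ofNat 544, .negSucc 565, .negSucc 55⟩, ⟨.negSucc 6888, .negSucc 492, .negSucc 334, .negSucc 413, .ofNat 314, .ofNat 488⟩, ⟨.negSucc 960, .ofNat 238, .ofNat 119, .ofNat 656, .negSucc 184, .negSucc 98⟩, .ofNat 506, .ofNat 335, .ofNat 0, .ofNat 335, .ofNat 2094, .ofNat 0, .ofNat 168, .negSucc 127, .negSucc 249, .ofNat 0, .ofNat 93, .ofNat 71, .ofNat 0, .ofNat 0, .ofNat 538, .ofNat 17935, .ofNat 31601931399724827756357404273798578088257978892288, .ofNat 0, .ofNat 0, .ofNat 0, .ofNat 13464448855860814562096112920076610659379188858880, .ofNat 0, .ofNat 59654781952211954196536884376345638636355584, .ofNat 0, .ofNat 15826717877577112639565528303080325717655369547776,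 .ofNat 0, .ofNat 139864099966206821662916792824599583091851264, .ofNat 0, .ofNat 103565248046866061305508144311115210348442087849984, .ofNat 0, .ofNat 96199244935190230016061604862180148906033152, .ofNat 0⟩)
    (by decide +kernel)
theorem L01406 : Good (Phi V5.P V5.D (-1) 1) ⟨5, 22, 2, 0, 3, 6, 4, 1, 5, 4⟩ :=
  leafX_sound T5.ok_mp T5.Ymp.bz_eq (w := 239) (c := ⟨⟨.negSucc 3598, .negSucc 472, .negSucc 737, .negSucc 192, .ofNat 165, .ofNat 225⟩, ⟨.ofNat 455, .ofNat 189, .negSucc 407, .ofNat 89, .negSucc 46, .negSucc 37⟩, ⟨.ofNat 2960, .ofNat 457, .ofNat 939, .ofNat 399, .negSucc 427, .negSucc 28⟩, ⟨.negSucc 6617, .negSucc 571, .negSucc 1056, .negSucc 263, .ofNat 264, .ofNat 393⟩, ⟨.negSucc 1094, .ofNat 236, .ofNat 690, .ofNat 491, .negSucc 136, .ofNat 0⟩, .ofNat 506, .ofNat 333, .ofNat 0, .ofNat 333, .ofNat 2095, .ofNat 0, .ofNat 140, .negSucc 127, .negSucc 245, .ofNat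 0, .ofNat 95, .ofNat 68, .ofNat 0, .ofNat 0, .ofNat 480, .ofNat 8529, .ofNat 0, .ofNat 0, .ofNat 0, .ofNat 0, .ofNat 0, .ofNat 0, .ofNat 49145655410714300729018059101853074614910976, .ofNat 0, .ofNat 0, .ofNat 0, .ofNat 132660124808097247904581081715036734617550848, .ofNat 0, .ofNat 0, .ofNat 0, .ofNat 43258845808036696137119665931684667346386944, .ofNat 0⟩)
    (by decide +kernel)
theorem L01407 : Good (Phi V5.P V5.D (-1) 1) ⟨5, 22, 2, 0, 3, 6, 3, 1, 5, 4⟩ :=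
  leafX_sound T5.ok_mp T5.Ymp.bz_eq (w := 235) (c := ⟨⟨.negSucc 3521, .negSucc 538, .negSucc 842, .negSucc 24, .ofNat 184, .ofNat 227⟩, ⟨.ofNat 448, .ofNat 187, .negSucc 419, .ofNat 31, .negSucc 47, .negSucc 40⟩, ⟨.ofNat 2682, .ofNat 487, .ofNat 950, .ofNat 187, .negSucc 466, .negSucc 75⟩, ⟨.negSucc 6474, .negSucc 707, .negSucc 1278, .negSucc 9, .ofNat 300, .ofNat 396⟩, ⟨.negSucc 1075, .ofNat 235, .ofNat 526, .ofNat 247, .negSucc 123, .negSucc 46⟩, .ofNat 493, .ofNat 304, .ofNat 0, .ofNat 304, .ofNat 1941, .ofNat 0, .ofNat 184, .negSucc 127, .negSucc 437, .ofNat 0, .ofNat 100, .ofNat 117, .ofNat 0, .ofNat 0, .ofNat 767, .ofNat 4989, .ofNat 0, .ofNat 0, .ofNat 89485284424410277666858203224448014745600, .ofNat 0, .ofNat 0, .ofNat 0, .ofNat 4008177039710372712720213796853834508664832, .ofNat 0, .ofNat 0, .ofNat 0, .ofNat 8718661773825732713414858547512242880905216, .ofNat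 0, .ofNat 0, .ofNat 0, .ofNat 7304321826299224000536969299595450300497920, .ofNat 0⟩)
    (by decide +kernel)
theorem L01408 : Good (Phi V5.P V5.D (-1) 1) ⟨5, 23, 2, 0, 3, 6, 2, 0, 5, 4⟩ :=
  out_sound (S := T5.ds_mp) T5.ok_mp (w := 55) (j := 3) (by decide +kernel)
theorem L01409 : Good (Phi V5.P V5.D (-1) 1) ⟨4, 11, 2, 0, 3, 6, 3, 0, 5, 5⟩ :=
  leafX_sound T5.ok_mp T5.Ymp.bz_eq (w := 230) (c := ⟨⟨.negSucc 3637, .negSucc 623, .negSucc 571, .ofNat 179, .ofNat 187, .ofNat 464⟩, ⟨.ofNat 498, .ofNat 265, .negSucc 431, .negSucc 25, .negSucc 56, .negSucc 100⟩, ⟨.ofNat 3511, .ofNat 697, .ofNat 921, .negSucc 46, .negSucc 744, .negSucc 299⟩, ⟨.negSucc 6633, .negSucc 675, .negSucc 799, .ofNat 319, .ofNat 296, .ofNat 786⟩, ⟨.negSucc 817, .ofNat 293, .ofNat 428, .ofNat 47, .negSucc 204, .negSucc 207⟩, .ofNat 470, .ofNat 259, .ofNat 0, .ofNat 259, .ofNat 1687, .ofNat 0, .ofNat 128,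 .negSucc 129, .negSucc 222, .ofNat 0, .ofNat 112, .ofNat 66, .ofNat 0, .ofNat 0, .ofNat 593, .ofNat 6784, .ofNat 32793014071804352828333278525789005872585768960, .ofNat 0, .ofNat 442604706153081746153182475582708463435776, .ofNat 0, .ofNat 68625286422311230584950856369121667194078363648, .ofNat 0, .ofNat 13700061550450550800819719311370575803318272, .ofNat 0, .ofNat 0, .ofNat 0, .ofNat 32890235045361855994382774034784929307426816, .ofNat 0, .ofNat 0, .ofNat 0, .ofNat 16601296457487543380991030731933434874167296, .ofNat 0⟩)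
    (by decide +kernel)
theorem L01410 : Good (Phi V5.P V5.D (-1) 1) ⟨4, 11, 2, 0, 3, 6, 3, 1, 5, 5⟩ :=
  leafX_sound T5.ok_mp T5.Ymp.bz_eq (w := 231) (c := ⟨⟨.negSucc 3549, .negSucc 511, .negSucc 318, .ofNat 314, .ofNat 173, .ofNat 465⟩, ⟨.ofNat 470, .ofNat 218, .negSucc 468, .negSucc 69, .negSucc 38, .negSucc 95⟩, ⟨.ofNat 2926, .ofNat 484, .ofNat 440, .negSucc 237, .negSucc 485, .negSucc 332⟩, ⟨.negSucc 6496, .negSucc 509, .negSucc 341, .ofNat 528, .ofNat 291, .ofNat 794⟩, ⟨.negSucc 881, .ofNat 79, .ofNat 148, .negSucc 161, .negSucc 107, .negSucc 168⟩, .ofNat 505, .ofNat 334, .ofNat 0, .ofNat 334, .ofNat 2082, .ofNat 0, .ofNat 196, .negSucc 127, .negSucc 355, .ofNat 0, .ofNat 114, .ofNat 99, .ofNat 0, .ofNat 0, .ofNat 805, .ofNat 7754, .ofNat 0, .ofNat 0, .ofNat 430341584726383961714869779530310320390144, .ofNat 0, .ofNat 0, .ofNat 0, .ofNat 24380724417158905953538027769992586318577664,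 .ofNat 0, .ofNat 0, .ofNat 0, .ofNat 56886813714693267245630533294632000513114112, .ofNat 0, .ofNat 0, .ofNat 0, .ofNat 42314074121820107290030851729292070200803328, .ofNat 0⟩)
    (by decide +kernel)
theorem L01411 : Good (Phi V5.P V5.D (-1) 1) ⟨4, 11, 3, 0, 4, 14, 2, 0, 4, 2⟩ :=
  leafX_sound T5.ok_mp T5.Ymp.bz_eq (w := 238) (c := ⟨⟨.negSucc 4167, .negSucc 574, .negSucc 203, .ofNat 268, .ofNat 566, .ofNat 1141⟩, ⟨.ofNat 664, .ofNat 264, .negSucc 225, .negSucc 37, .negSucc 172, .negSucc 278⟩, ⟨.ofNat 3884, .ofNat 491, .ofNat 181, .negSucc 497, .negSucc 1210, .negSucc 864⟩, ⟨.negSucc 7458, .negSucc 596, .negSucc 272, .ofNat 480, .ofNat 894, .ofNat 1887⟩, ⟨.negSucc 152, .ofNat 365, .ofNat 207, .ofNat 59, .negSucc 663, .negSucc 789⟩, .ofNat 470, .ofNat 258, .ofNat 0, .ofNat 258, .ofNat 1692, .ofNat 0, .ofNat 232, .negSucc 127, .negSucc 240, .ofNat 0, .ofNat 115, .ofNat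 63, .ofNat 0, .ofNat 0, .ofNat 523, .ofNat 2535, .ofNat 0, .ofNat 0, .ofNat 14164181782497573018997938217307984055238656, .ofNat 0, .ofNat 0, .ofNat 0, .ofNat 637403334019284855259676975762501915948089344, .ofNat 0, .ofNat 22523904287378220808807309197998478908199949828096, .ofNat 0, .ofNat 2258071490084061832456723606754042273933033472, .ofNat 0, .ofNat 0, .ofNat 0, .ofNat 1707429361645992526616113621809987064527060992, .ofNat 0⟩)
    (by decide +kernel)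
theorem L01412 : Good (Phi V5.P V5.D (-1) 1) ⟨4, 11, 3, 0, 4, 15, 2, 0, 4, 2⟩ :=
  leafX_sound T5.ok_mp T5.Ymp.bz_eq (w := 237) (c := ⟨⟨.negSucc 3856, .negSucc 387, .negSucc 248, .ofNat 177, .ofNat 587, .ofNat 1038⟩, ⟨.ofNat 655, .ofNat 205, .negSucc 185, .ofNat 14, .negSucc 213, .negSucc 275⟩, ⟨.ofNat 2887, .ofNat 207, .ofNat 173, .negSucc 595, .negSucc 647, .negSucc 666⟩, ⟨.negSucc 6846, .negSucc 331, .negSucc 362, .ofNat 373, .ofNat 880, .ofNat 1690⟩, ⟨.ofNat 242, .ofNat 188, .ofNat 124, .ofNat 348, .negSucc 983, .negSucc 895⟩, .ofNat 470, .ofNat 257, .ofNat 0, .ofNat 257, .ofNat 1689, .ofNat 0, .ofNat 144, .negSucc 127, .negSucc 100, .ofNat 0, .ofNat 119, .ofNat 23, .ofNat 0, .ofNat 0, .ofNat 248, .ofNat 1280, .ofNat 0, .ofNat 0, .ofNat 5499482809229276453371044906015655918043136, .ofNat 0, .ofNat 0, .ofNat 0, .ofNat 411296378662946473171206583565130581122482176,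 .ofNat 0, .ofNat 0, .ofNat 0, .ofNat 1562760532705982524562370239321743048795226112, .ofNat 0, .ofNat 4393590987341585279406053431155277876652339625984, .ofNat 0, .ofNat 524395144064458971333064637155920970558472192, .ofNat 0⟩)
    (by decide +kernel)
theorem L01413 : Good (Phi V5.P V5.D (-1) 1) ⟨4, 11, 3, 1, 3, 7, 2, 0, 4, 2⟩ :=
  out_sound (S := T5.ds_mp) T5.ok_mp (w := 51) (j := 3) (by decide +kernel)
theorem L01414 : Good (Phi V5.P V5.D (-1) 1) ⟨3, 4, 2, 0, 2, 3, 2, 0, 4, 3⟩ :=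
  leafX_sound T5.ok_mp T5.Ymp.bz_eq (w := 202) (c := ⟨⟨.negSucc 2333, .negSucc 363, .negSucc 151, .ofNat 439, .ofNat 170, .ofNat 409⟩, ⟨.negSucc 6, .ofNat 144, .negSucc 417, .negSucc 0, .ofNat 5, .ofNat 8⟩, ⟨.ofNat 2203, .ofNat 353, .ofNat 302, .negSucc 981, .negSucc 672, .negSucc 150⟩, ⟨.negSucc 5122, .negSucc 263, .negSucc 101, .ofNat 895, .ofNat 354, .ofNat 817⟩, ⟨.negSucc 1095, .negSucc 4, .ofNat 20, .negSucc 139, .negSucc 24, .negSucc 102⟩, .ofNat 472, .negSucc 34, .ofNat 0, .negSucc 34, .ofNat 1870, .ofNat 0, .ofNat 256, .negSucc 19, .negSucc 129, .ofNat 0, .ofNat 128, .ofNat 14, .ofNat 0, .ofNat 0, .ofNat 666, .ofNat 2917, .ofNat 748189154520917000785908355098522681344, .ofNat 0, .ofNat 0, .ofNat 0, .ofNat 0, .ofNat 0, .ofNat 0, .ofNat 0, .ofNat 0, .ofNat 0, .ofNat 0, .ofNat 0, .ofNat 253816372457833469742094124420504550899712, .ofNat 0, .ofNat 0, .ofNat 0⟩)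
    (by decide +kernel)
theorem L01415 : Good (Phi V5.P V5.D (-1) 1) ⟨3, 5, 2, 0, 3, 6, 2, 0, 4, 3⟩ :=
  leafX_sound T5.ok_mp T5.Ymp.bz_eq (w := 217) (c := ⟨⟨.negSucc 2983, .negSucc 395, .negSucc 145, .ofNat 357, .ofNat 259, .ofNat 604⟩, ⟨.ofNat 263, .ofNat 190, .negSucc 445, .negSucc 72, .negSucc 30, .negSucc 69⟩, ⟨.ofNat 3024, .ofNat 426, .ofNat 329, .negSucc 405, .negSucc 1063, .negSucc 425⟩, ⟨.negSucc 5793, .negSucc 244, .negSucc 94, .ofNat 616, .ofNat 481, .ofNat 1112⟩, ⟨.negSucc 1049, .negSucc 22, .ofNat 28, .negSucc 279, .negSucc 30, .negSucc 26⟩, .ofNat 306, .ofNat 43, .ofNat 0, .ofNat 43, .ofNat 616, .ofNat 0, .ofNat 227, .negSucc 68, .negSucc 160, .ofNat 0, .ofNat 128, .ofNat 56, .ofNat 0, .ofNat 0, .ofNat 564, .ofNat 3771, .ofNat 5675412825709326747448717477125774158856192, .ofNat 0, .ofNat 605632375429665577787120545772817350656, .ofNat 0, .ofNat 0, .ofNat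 0, .ofNat 74771197899710447128048951883538674745344, .ofNat 0, .ofNat 0, .ofNat 0, .ofNat 130366627663513678947809239709883331248128, .ofNat 0, .ofNat 165684390314895619992682238860243778718924800, .ofNat 0, .ofNat 143320044141146249721523005921513774776320, .ofNat 0⟩)
    (by decide +kernel)
theorem L01416 : Good (Phi V5.P V5.D (-1) 1) ⟨3, 5, 2, 0, 3, 7, 2, 0, 4, 3⟩ :=
  leafX_sound T5.ok_mp T5.Ymp.bz_eq (w := 216) (c := ⟨⟨.negSucc 2699, .negSucc 275, .negSucc 137, .ofNat 340, .ofNat 334, .ofNat 598⟩, ⟨.ofNat 227, .ofNat 143, .negSucc 422, .negSucc 21, .negSucc 57, .negSucc 86⟩, ⟨.ofNat 2607, .ofNat 264, .ofNat 137, .negSucc 858, .negSucc 863, .negSucc 468⟩, ⟨.negSucc 5247, .negSucc 86, .negSucc 78, .ofNat 630, .ofNat 588, .ofNat 1070⟩, ⟨.negSucc 1117, .negSucc 67, .negSucc 80, .ofNat 157, .negSucc 217, .negSucc 124⟩, .ofNat 394, .ofNat 75, .ofNat 0, .ofNat 75, .ofNat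 1033, .ofNat 0, .ofNat 203, .negSucc 70, .negSucc 118, .ofNat 0, .ofNat 128, .ofNat 32, .ofNat 0, .ofNat 0, .ofNat 488, .ofNat 2235, .ofNat 0, .ofNat 0, .ofNat 558175111481749424666349382936955977728, .ofNat 0, .ofNat 0, .ofNat 0, .ofNat 56262643936024807169854507082991731212288, .ofNat 0, .ofNat 0, .ofNat 0, .ofNat 119875640835732717916863655325887027478528, .ofNat 0, .ofNat 0, .ofNat 0, .ofNat 84973733723890527566589789878415609823232, .ofNat 0⟩)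
    (by decide +kernel)
theorem L01417 : Good (Phi V5.P V5.D (-1) 1) ⟨2, 3, 2, 0, 2, 3, 2, 0, 3, 1⟩ :=
  out_sound (S := T5.ds_mp) T5.ok_mp (w := 37) (j := 3) (by decide +kernel)
theorem L01418 : Good (Phi V5.P V5.D (-1) 1) ⟨3, 4, 2, 0, 2, 2, 2, 1, 4, 2⟩ :=
  leafX_sound T5.ok_mp T5.Ymp.bz_eq (w := 202) (c := ⟨⟨.negSucc 1976, .negSucc 571, .negSucc 152, .negSucc 76, .ofNat 191, .negSucc 45⟩, ⟨.ofNat 26, .ofNat 181, .negSucc 441, .negSucc 24, .negSucc 0, .ofNat 5⟩, ⟨.ofNat 1220, .ofNat 546, .ofNat 247, .negSucc 153, .negSucc 249, .ofNat 212⟩, ⟨.negSucc 4385, .negSucc 619, .negSucc 165, .negSucc 159, .ofNat 385, .negSucc 115⟩, ⟨.negSucc 1020, .ofNat 49, .ofNat 69, .negSucc 379, .ofNat 239, .ofNat 246⟩, .ofNat 441, .negSucc 13, .ofNat 0, .negSucc 13, .ofNat 1477, .ofNat 0, .ofNat 378, .negSucc 2, .negSucc 169, .ofNat 0, .ofNat 128, .ofNat 16, .ofNat 0, .ofNat 0, .ofNat 490,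 .ofNat 2371, .ofNat 0, .ofNat 0, .ofNat 0, .ofNat 0, .ofNat 0, .ofNat 0, .ofNat 0, .ofNat 0, .ofNat 0, .ofNat 0, .ofNat 0, .ofNat 0, .ofNat 0, .ofNat 0, .ofNat 4514589640448810456577825815041933312, .ofNat 0⟩)
    (by decide +kernel)
theorem L01419 : Good (Phi V5.P V5.D (-1) 1) ⟨3, 5, 2, 0, 2, 2, 2, 1, 4, 2⟩ :=
  leafX_sound T5.ok_mp T5.Ymp.bz_eq (w := 202) (c := ⟨⟨.negSucc 2777, .negSucc 900, .negSucc 245, .negSucc 104, .ofNat 268, .ofNat 240⟩, ⟨.ofNat 258, .ofNat 354, .negSucc 454, .negSucc 52, .negSucc 13, .negSucc 9⟩, ⟨.ofNat 1993, .ofNat 834, .ofNat 362, .negSucc 179, .negSucc 373, .negSucc 59⟩, ⟨.negSucc 5421, .negSucc 958, .negSucc 326, .negSucc 249, .ofNat 505, .ofNat 454⟩, ⟨.negSucc 812, .negSucc 20, .ofNat 161, .negSucc 482, .ofNat 198, .ofNat 183⟩, .ofNat 463, .ofNat 180, .ofNat 0, .ofNat 180, .ofNat 1787, .ofNat 0, .ofNat 303, .negSucc 95, .negSucc 281, .ofNat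 0, .ofNat 128, .ofNat 56, .ofNat 0, .ofNat 0, .ofNat 626, .ofNat 1245, .ofNat 0, .ofNat 0, .ofNat 80015200361480280669006613627011072, .ofNat 0, .ofNat 0, .ofNat 0, .ofNat 3780517403564663397231243576158978048, .ofNat 0, .ofNat 0, .ofNat 0, .ofNat 17162274298659199412071286108552429568, .ofNat 0, .ofNat 0, .ofNat 0, .ofNat 6149714722258308401970882768413917184, .ofNat 0⟩)
    (by decide +kernel)
theorem L01420 : Good (Phi V5.P V5.D (-1) 1) ⟨3, 4, 2, 0, 2, 2, 2, 1, 4, 3⟩ :=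
  leafX_sound T5.ok_mp T5.Ymp.bz_eq (w := 203) (c := ⟨⟨.negSucc 2172, .negSucc 410, .negSucc 102, .ofNat 69, .ofNat 209, .ofNat 260⟩, ⟨.ofNat 16, .ofNat 182, .negSucc 409, .negSucc 38, .ofNat 14, .ofNat 15⟩, ⟨.ofNat 1654, .ofNat 399, .ofNat 220, .negSucc 351, .negSucc 384, .negSucc 64⟩, ⟨.negSucc 4785, .negSucc 309, .negSucc 88, .ofNat 144, .ofNat 426, .ofNat 515⟩, ⟨.negSucc 712, .ofNat 12, .ofNat 55, .negSucc 410, .ofNat 193, .ofNat 81⟩, .ofNat 441, .negSucc 20, .ofNat 0, .negSucc 20, .ofNat 1468, .ofNat 0, .ofNat 498, .ofNat 2, .negSucc 192, .ofNat 0, .ofNat 128, .ofNat 21, .ofNat 0, .ofNat 0, .ofNat 854, .ofNat 3678, .ofNat 0, .ofNat 0, .ofNat 0, .ofNat 0, .ofNat 0, .ofNat 0, .ofNat 0, .ofNat 0, .ofNat 0, .ofNat 0, .ofNat 0, .ofNat 0, .ofNat 0, .ofNat 0, .ofNat 0, .ofNat 0⟩)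
    (by decide +kernel)
theorem L01421 : Good (Phi V5.P V5.D (-1) 1) ⟨3, 5, 2, 0, 2, 2, 2, 1, 4, 3⟩ :=
  leafX_sound T5.ok_mp T5.Ymp.bz_eq (w := 203) (c := ⟨⟨.negSucc 2749, .negSucc 589, .negSucc 149, .ofNat 165, .ofNat 255, .ofNat 447⟩, ⟨.ofNat 260, .ofNat 281, .negSucc 399, .negSucc 75, .negSucc 9, .negSucc 44⟩, ⟨.ofNat 2284, .ofNat 539, .ofNat 291, .negSucc 504, .negSucc 494, .negSucc 255⟩, ⟨.negSucc 5323, .negSucc 497, .negSucc 168, .ofNat 238, .ofNat 494, .ofNat 817⟩, ⟨.negSucc 627, .ofNat 67, .ofNat 80, .negSucc 518, .ofNat 175, .ofNat 71⟩, .ofNat 306, .ofNat 44, .ofNat 0, .ofNat 44, .ofNat 621, .ofNat 0, .ofNat 409, .negSucc 48, .negSucc 226, .ofNat 0, .ofNat 128, .ofNat 62, .ofNat 0, .ofNat 0, .ofNat 692, .ofNat 3498, .ofNat 0, .ofNat 0, .ofNat 46421154192354084130970026905698304, .ofNat 0, .ofNat 0, .ofNat 0, .ofNat 8268994058505589638142002957345882112, .ofNat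 0, .ofNat 0, .ofNat 0, .ofNat 8310454415259056770064203964332638208, .ofNat 0, .ofNat 0, .ofNat 0, .ofNat 11295459277705240048646098637973094400, .ofNat 0⟩)
    (by decide +kernel)
theorem L01422 : Good (Phi V5.P V5.D (-1) 1) ⟨3, 4, 2, 0, 2, 3, 3, 2, 4, 2⟩ :=
  leafX_sound T5.ok_mp T5.Ymp.bz_eq (w := 206) (c := ⟨⟨.negSucc 2228, .negSucc 512, .negSucc 267, .ofNat 362, .ofNat 115, .ofNat 256⟩, ⟨.ofNat 5, .ofNat 172, .negSucc 450, .ofNat 5, .negSucc 3, .negSucc 12⟩, ⟨.ofNat 1428, .ofNat 432, .ofNat 243, .negSucc 574, .negSucc 187, .negSucc 107⟩, ⟨.negSucc 4896, .negSucc 529, .negSucc 345, .ofNat 669, .ofNat 254, .ofNat 519⟩, ⟨.negSucc 1207, .ofNat 62, .ofNat 55, .ofNat 156, .negSucc 30, .negSucc 245⟩, .ofNat 499, .negSucc 49, .ofNat 0, .negSucc 49, .ofNat 2430, .ofNat 0, .ofNat 454, .negSucc 11, .negSucc 286, .ofNat 0, .ofNat 128, .ofNat 18, .ofNat 0, .ofNat 0, .ofNat 670,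 .ofNat 2334, .ofNat 0, .ofNat 0, .ofNat 0, .ofNat 0, .ofNat 0, .ofNat 0, .ofNat 85689011547736330625851380122905477120, .ofNat 0, .ofNat 0, .ofNat 0, .ofNat 0, .ofNat 0, .ofNat 0, .ofNat 0, .ofNat 0, .ofNat 0⟩)
    (by decide +kernel)
theorem L01423 : Good (Phi V5.P V5.D (-1) 1) ⟨3, 4, 2, 0, 2, 3, 3, 3, 4, 2⟩ :=
  leafX_sound T5.ok_mp T5.Ymp.bz_eq (w := 207) (c := ⟨⟨.negSucc 2265, .negSucc 342, .negSucc 222, .ofNat 494, .ofNat 199, .ofNat 237⟩, ⟨.ofNat 1, .ofNat 131, .negSucc 417, .negSucc 22, .ofNat 6, .ofNat 9⟩, ⟨.ofNat 1381, .ofNat 283, .ofNat 172, .negSucc 567, .negSucc 229, .negSucc 149⟩, ⟨.negSucc 4950, .negSucc 259, .negSucc 236, .ofNat 994, .ofNat 399, .ofNat 466⟩, ⟨.negSucc 1056, .negSucc 25, .negSucc 36, .negSucc 421, .negSucc 25, .ofNat 10⟩, .ofNat 476, .negSucc 41, .ofNat 0, .negSucc 41, .ofNat 1905, .ofNat 0, .ofNat 507, .ofNat 4, .negSucc 344, .ofNat 0,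 .ofNat 128, .ofNat 25, .ofNat 0, .ofNat 0, .ofNat 774, .ofNat 2148, .ofNat 0, .ofNat 0, .ofNat 0, .ofNat 0, .ofNat 0, .ofNat 0, .ofNat 125325233357674100796609077562417610752, .ofNat 0, .ofNat 0, .ofNat 0, .ofNat 0, .ofNat 0, .ofNat 0, .ofNat 0, .ofNat 0, .ofNat 0⟩)
    (by decide +kernel)
theorem L01424 : Good (Phi V5.P V5.D (-1) 1) ⟨4, 10, 2, 0, 3, 6, 2, 1, 4, 2⟩ :=
  leafX_sound T5.ok_mp T5.Ymp.bz_eq (w := 221) (c := ⟨⟨.negSucc 3131, .negSucc 377, .negSucc 324, .ofNat 398, .ofNat 433, .ofNat 497⟩, ⟨.ofNat 263, .ofNat 135, .negSucc 448, .negSucc 72, .negSucc 43, .negSucc 47⟩, ⟨.ofNat 2213, .ofNat 326, .ofNat 356, .negSucc 370, .negSucc 640, .negSucc 352⟩, ⟨.negSucc 6079, .negSucc 418, .negSucc 427, .ofNat 696, .ofNat 792, .ofNat 908⟩, ⟨.negSucc 1122, .ofNat 41, .ofNat 177, .negSucc 296, .ofNat 8, .negSucc 12⟩, .ofNat 404, .ofNat 55, .ofNat 0, .ofNat 55, .ofNat 1154,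 .ofNat 0, .ofNat 344, .negSucc 65, .negSucc 472, .ofNat 0, .ofNat 128, .ofNat 86, .ofNat 0, .ofNat 0, .ofNat 822, .ofNat 1765, .ofNat 0, .ofNat 0, .ofNat 143177513754960775693597743876877058048, .ofNat 0, .ofNat 0, .ofNat 0, .ofNat 20037926090416258843566753851474618351616, .ofNat 0, .ofNat 0, .ofNat 0, .ofNat 0, .ofNat 0, .ofNat 0, .ofNat 0, .ofNat 36397320238072594739670524899179993497600, .ofNat 0⟩)
    (by decide +kernel)
theorem L01425 : Good (Phi V5.P V5.D (-1) 1) ⟨4, 11, 2, 0, 3, 6, 2, 1, 4, 2⟩ :=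
  leafX_sound T5.ok_mp T5.Ymp.bz_eq (w := 222) (c := ⟨⟨.negSucc 3746, .negSucc 355, .negSucc 421, .ofNat 449, .ofNat 525, .ofNat 705⟩, ⟨.ofNat 499, .ofNat 170, .negSucc 424, .negSucc 114, .negSucc 94, .negSucc 122⟩, ⟨.ofNat 2703, .ofNat 286, .ofNat 479, .negSucc 371, .negSucc 730, .negSucc 496⟩, ⟨.negSucc 6835, .negSucc 303, .negSucc 524, .ofNat 736, .ofNat 910, .ofNat 1229⟩, ⟨.negSucc 956, .ofNat 109, .ofNat 295, .negSucc 329, .negSucc 92, .negSucc 79⟩, .ofNat 452, .ofNat 153, .ofNat 0, .ofNat 153, .ofNat 1356, .ofNat 0, .ofNat 357, .negSucc 98, .negSucc 737, .ofNat 0, .ofNat 128, .ofNat 185, .ofNat 0, .ofNat 0, .ofNat 1108, .ofNat 2620, .ofNat 0, .ofNat 0, .ofNat 666196399094081951719263480850325438464, .ofNat 0, .ofNat 0, .ofNat 0, .ofNat 42860587344802318743274714611076487446528, .ofNat 0, .ofNat 0, .ofNat 0, .ofNat 69944448230916515273320531501712572153856, .ofNat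 0, .ofNat 0, .ofNat 0, .ofNat 120581816977734490378787724265781500837888, .ofNat 0⟩)
    (by decide +kernel)
theorem L01426 : Good (Phi V5.P V5.D (-1) 1) ⟨4, 10, 2, 0, 3, 7, 2, 1, 5, 4⟩ :=
  leafX_sound T5.ok_mp T5.Ymp.bz_eq (w := 225) (c := ⟨⟨.negSucc 2928, .negSucc 307, .negSucc 491, .ofNat 390, .ofNat 693, .ofNat 285⟩, ⟨.ofNat 258, .ofNat 103, .negSucc 420, .negSucc 30, .negSucc 122, .negSucc 45⟩, ⟨.ofNat 2015, .ofNat 224, .ofNat 376, .negSucc 529, .negSucc 721, .negSucc 222⟩, ⟨.negSucc 5702, .negSucc 327, .negSucc 720, .ofNat 733, .ofNat 1234, .ofNat 516⟩, ⟨.negSucc 910, .ofNat 6, .ofNat 149, .ofNat 21, .negSucc 602, .negSucc 186⟩, .ofNat 409, .ofNat 94, .ofNat 0, .ofNat 94, .ofNat 1244, .ofNat 0, .ofNat 235, .negSucc 76, .negSucc 256, .ofNat 0, .ofNat 128, .ofNat 48, .ofNat 0, .ofNat 0, .ofNat 408, .ofNat 1428, .ofNat 0, .ofNat 0, .ofNat 2138576578053891775094460949718657662976,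 .ofNat 0, .ofNat 0, .ofNat 0, .ofNat 512941046630564070372326773418961791877120, .ofNat 0, .ofNat 0, .ofNat 0, .ofNat 403643685516130350408271327779861213216768, .ofNat 0, .ofNat 0, .ofNat 0, .ofNat 657623421061989959345307186370208434487296, .ofNat 0⟩)
    (by decide +kernel)
theorem L01427 : Good (Phi V5.P V5.D (-1) 1) ⟨4, 11, 2, 0, 3, 7, 2, 1, 5, 4⟩ :=
  leafX_sound T5.ok_mp T5.Ymp.bz_eq (w := 226) (c := ⟨⟨.negSucc 3491, .negSucc 325, .negSucc 483, .ofNat 543, .ofNat 830, .ofNat 411⟩, ⟨.ofNat 476, .ofNat 114, .negSucc 462, .negSucc 76, .negSucc 211, .negSucc 92⟩, ⟨.ofNat 2445, .ofNat 247, .ofNat 546, .negSucc 739, .negSucc 806, .negSucc 292⟩, ⟨.negSucc 6366, .negSucc 313, .negSucc 706, .ofNat 977, .ofNat 1365, .ofNat 688⟩, ⟨.negSucc 860, .ofNat 47, .ofNat 52, .ofNat 87, .negSucc 628, .negSucc 219⟩, .ofNat 469, .ofNat 254, .ofNat 0, .ofNat 254, .ofNat 1690, .ofNat 0,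 .ofNat 250, .negSucc 125, .negSucc 234, .ofNat 0, .ofNat 128, .ofNat 56, .ofNat 0, .ofNat 0, .ofNat 370, .ofNat 1615, .ofNat 0, .ofNat 0, .ofNat 8701174398833895484922540067046077497344, .ofNat 0, .ofNat 0, .ofNat 0, .ofNat 924519972753206944236400752752248777342976, .ofNat 0, .ofNat 0, .ofNat 0, .ofNat 1338336796353486129964783998702834954534912, .ofNat 0, .ofNat 0, .ofNat 0, .ofNat 1247113316489392048614287741182805628944384, .ofNat 0⟩)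
    (by decide +kernel)
theorem L01428 : Good (Phi V5.P V5.D (-1) 1) ⟨3, 5, 2, 0, 3, 7, 2, 1, 5, 5⟩ :=
  leafX_sound T5.ok_mp T5.Ymp.bz_eq (w := 222) (c := ⟨⟨.negSucc 2740, .negSucc 299, .negSucc 225, .ofNat 415, .ofNat 581, .ofNat 357⟩, ⟨.ofNat 235, .ofNat 126, .negSucc 440, .negSucc 37, .negSucc 92, .negSucc 56⟩, ⟨.ofNat 1866, .ofNat 225, .ofNat 222, .negSucc 581, .negSucc 646, .negSucc 266⟩, ⟨.negSucc 5331, .negSucc 154, .negSucc 237, .ofNat 778, .ofNat 1030, .ofNat 636⟩, ⟨.negSucc 1102, .negSucc 153, .negSucc 180, .ofNat 38, .negSucc 282, .negSucc 121⟩, .ofNat 407, .ofNat 108, .ofNat 0, .ofNat 108, .ofNat 1202, .ofNat 0, .ofNat 263, .negSucc 76, .negSucc 242, .ofNat 0, .ofNat 128, .ofNat 53, .ofNat 0, .ofNat 0, .ofNat 547, .ofNat 2213, .ofNat 0, .ofNat 0, .ofNat 16183316060803420217475744782066147917824, .ofNat 0, .ofNat 0, .ofNat 0, .ofNat 3273448476684909670159906647552022399680512,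 .ofNat 0, .ofNat 0, .ofNat 0, .ofNat 3557028389457143567971977942596918867656704, .ofNat 0, .ofNat 0, .ofNat 0, .ofNat 4618557812337327325781068890850981268422656, .ofNat 0⟩)
    (by decide +kernel)
theorem L01429 : Good (Phi V5.P V5.D (-1) 1) ⟨3, 4, 3, 0, 2, 3, 2, 1, 4, 3⟩ :=
  leafX_sound T5.ok_mp T5.Ymp.bz_eq (w := 206) (c := ⟨⟨.negSucc 2231, .negSucc 225, .negSucc 54, .ofNat 531, .ofNat 281, .ofNat 333⟩, ⟨.ofNat 11, .ofNat 127, .negSucc 195, .negSucc 30, .ofNat 0, .ofNat 7⟩, ⟨.ofNat 1522, .ofNat 190, .ofNat 56, .negSucc 673, .negSucc 449, .negSucc 176⟩, ⟨.negSucc 4870, .negSucc 50, .negSucc 16, .ofNat 1066, .ofNat 573, .ofNat 693⟩, ⟨.negSucc 1126, .negSucc 128, .negSucc 81, .negSucc 203, .ofNat 180, .ofNat 148⟩, .ofNat 438, .ofNat 34, .ofNat 0, .ofNat 34, .ofNat 1539, .ofNat 0, .ofNat 364, .negSucc 32, .negSucc 135, .ofNat 0, .ofNat 128, .ofNat 19, .ofNat 0, .ofNat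 0, .ofNat 641, .ofNat 2436, .ofNat 0, .ofNat 0, .ofNat 0, .ofNat 0, .ofNat 0, .ofNat 0, .ofNat 0, .ofNat 0, .ofNat 0, .ofNat 0, .ofNat 0, .ofNat 0, .ofNat 0, .ofNat 0, .ofNat 0, .ofNat 0⟩)
    (by decide +kernel)
theorem L01430 : Good (Phi V5.P V5.D (-1) 1) ⟨3, 4, 3, 1, 2, 3, 2, 1, 4, 3⟩ :=
  leafX_sound T5.ok_mp T5.Ymp.bz_eq (w := 205) (c := ⟨⟨.negSucc 2326, .negSucc 211, .negSucc 42, .ofNat 544, .ofNat 294, .ofNat 362⟩, ⟨.negSucc 223, .ofNat 113, .negSucc 197, .negSucc 11, .ofNat 37, .ofNat 49⟩, ⟨.ofNat 1713, .ofNat 164, .ofNat 53, .negSucc 787, .negSucc 489, .negSucc 210⟩, ⟨.negSucc 4957, .negSucc 90, .negSucc 1, .ofNat 1158, .ofNat 598, .ofNat 767⟩, ⟨.negSucc 1093, .negSucc 99, .negSucc 34, .negSucc 498, .ofNat 195, .ofNat 145⟩, .ofNat 328, .negSucc 25, .ofNat 0, .negSucc 25, .ofNat 663, .ofNat 0, .ofNat 330, .negSucc 5, .negSucc 157, .ofNat 0, .ofNat 128, .ofNat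 32, .ofNat 0, .ofNat 0, .ofNat 550, .ofNat 2074, .ofNat 0, .ofNat 0, .ofNat 0, .ofNat 0, .ofNat 0, .ofNat 0, .ofNat 0, .ofNat 0, .ofNat 0, .ofNat 0, .ofNat 0, .ofNat 0, .ofNat 0, .ofNat 0, .ofNat 22250051547170578179725597280829440, .ofNat 0⟩)
    (by decide +kernel)
theorem L01431 : Good (Phi V5.P V5.D (-1) 1) ⟨4, 10, 2, 0, 2, 3, 2, 1, 4, 3⟩ :=
  leafX_sound T5.ok_mp T5.Ymp.bz_eq (w := 206) (c := ⟨⟨.negSucc 2724, .negSucc 116, .negSucc 102, .ofNat 759, .ofNat 395, .ofNat 490⟩, ⟨.ofNat 211, .ofNat 66, .negSucc 408, .negSucc 106, .negSucc 26, .negSucc 35⟩, ⟨.ofNat 1993, .ofNat 94, .ofNat 101, .negSucc 969, .negSucc 569, .negSucc 296⟩, ⟨.negSucc 5329, .negSucc 15, .negSucc 22, .ofNat 1390, .ofNat 747, .ofNat 940⟩, ⟨.negSucc 1107, .negSucc 64, .negSucc 74, .negSucc 351, .ofNat 96, .ofNat 87⟩, .ofNat 404, .ofNat 55, .ofNat 0, .ofNat 55, .ofNat 1154, .ofNat 0, .ofNat 322,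 .negSucc 47, .negSucc 158, .ofNat 0, .ofNat 128, .ofNat 34, .ofNat 0, .ofNat 0, .ofNat 557, .ofNat 1442, .ofNat 0, .ofNat 0, .ofNat 7178645368606267506513159531790336, .ofNat 0, .ofNat 0, .ofNat 0, .ofNat 0, .ofNat 0, .ofNat 0, .ofNat 0, .ofNat 599865541862770055045916141478215680, .ofNat 0, .ofNat 0, .ofNat 0, .ofNat 1062353520256938883379980762123075584, .ofNat 0⟩)
    (by decide +kernel)
theorem L01432 : Good (Phi V5.P V5.D (-1) 1) ⟨4, 11, 2, 0, 2, 3, 2, 1, 4, 3⟩ :=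
  leafX_sound T5.ok_mp T5.Ymp.bz_eq (w := 206) (c := ⟨⟨.negSucc 2964, .negSucc 75, .negSucc 166, .ofNat 886, .ofNat 456, .ofNat 563⟩, ⟨.ofNat 352, .ofNat 40, .negSucc 442, .negSucc 181, .negSucc 64, .negSucc 77⟩, ⟨.ofNat 2169, .ofNat 124, .ofNat 293, .negSucc 1052, .negSucc 628, .negSucc 369⟩, ⟨.negSucc 5488, .ofNat 30, .negSucc 149, .ofNat 1530, .ofNat 820, .ofNat 1030⟩, ⟨.negSucc 1160, .negSucc 117, .negSucc 279, .negSucc 307, .ofNat 66, .ofNat 83⟩, .ofNat 406, .ofNat 156, .ofNat 0, .ofNat 156, .ofNat 1145, .ofNat 0, .ofNat 172, .negSucc 87, .negSucc 88, .ofNat 0, .ofNat 128, .ofNat 25, .ofNat 0, .ofNat 0, .ofNat 328, .ofNat 1051, .ofNat 0, .ofNat 0, .ofNat 5109873319070028432275748633444352, .ofNat 0, .ofNat 0, .ofNat 0, .ofNat 376899033434507533982714978549891072, .ofNat 0, .ofNat 0, .ofNat 0, .ofNat 275688080228525547213207819677335552, .ofNat 0, .ofNat 0, .ofNat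 0, .ofNat 329811575300624999858941123392176128, .ofNat 0⟩)
    (by decide +kernel)
theorem L01433 : Good (Phi V5.P V5.D (-1) 1) ⟨2, 3, 2, 0, 1, 1, 2, 1, 3, 1⟩ :=
  out_sound (S := T5.ds_mp) T5.ok_mp (w := 37) (j := 3) (by decide +kernel)
theorem L01434 : Good (Phi V5.P V5.D (-1) 1) ⟨2, 2, 2, 0, 2, 2, 3, 0, 4, 4⟩ :=
  leafX_sound T5.ok_mp T5.Ymp.bz_eq (w := 207) (c := ⟨⟨.negSucc 2421, .negSucc 729, .negSucc 90, .ofNat 457, .ofNat 77, .ofNat 375⟩, ⟨.ofNat 130, .ofNat 349, .negSucc 413, .negSucc 126, .negSucc 5, .ofNat 11⟩, ⟨.ofNat 2457, .ofNat 1000, .ofNat 410, .negSucc 466, .negSucc 452, .negSucc 153⟩, ⟨.negSucc 5077, .negSucc 453, .negSucc 30, .ofNat 711, .ofNat 157, .ofNat 772⟩, ⟨.negSucc 727, .ofNat 40, .ofNat 64, .negSucc 472, .ofNat 70, .ofNat 133⟩, .ofNat 318, .ofNat 11, .ofNat 0, .ofNat 11, .ofNat 652, .ofNat 0, .ofNat 174, .negSucc 33, .negSucc 86, .ofNat 0, .ofNat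 128, .ofNat 30, .ofNat 0, .ofNat 0, .ofNat 488, .ofNat 73039, .ofNat 108296647986776784569396328760506929119232, .ofNat 0, .ofNat 0, .ofNat 0, .ofNat 858398928324738951396579171328827288715264, .ofNat 0, .ofNat 188862338833949724977215287655151960064, .ofNat 0, .ofNat 0, .ofNat 0, .ofNat 0, .ofNat 0, .ofNat 273699054122867551547408261768673708998656, .ofNat 0, .ofNat 238514459077518735742742547568625975296, .ofNat 0⟩)
    (by decide +kernel)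
theorem L01435 : Good (Phi V5.P V5.D (-1) 1) ⟨3, 4, 2, 0, 2, 2, 3, 1, 4, 4⟩ :=
  leafX_sound T5.ok_mp T5.Ymp.bz_eq (w := 209) (c := ⟨⟨.negSucc 2100, .negSucc 298, .negSucc 69, .ofNat 182, .ofNat 69, .ofNat 298⟩, ⟨.ofNat 22, .ofNat 159, .negSucc 376, .negSucc 35, .ofNat 3, .ofNat 12⟩, ⟨.ofNat 2042, .ofNat 388, .ofNat 286, .negSucc 462, .negSucc 378, .negSucc 64⟩, ⟨.negSucc 4616, .negSucc 122, .negSucc 12, .ofNat 372, .ofNat 133, .ofNat 604⟩, ⟨.negSucc 646, .ofNat 21, .ofNat 43, .negSucc 458, .ofNat 65, .ofNat 98⟩, .ofNat 438, .negSucc 24, .ofNat 0, .negSucc 24, .ofNat 1426, .ofNat 0, .ofNat 344, .ofNat 1, .negSucc 75, .ofNat 0, .ofNat 128, .ofNat 13, .ofNat 0, .ofNat 0, .ofNat 617, .ofNat 13986, .ofNat 104181878444685473358265631804017868800000, .ofNat 0, .ofNat 0, .ofNat 0, .ofNat 0, .ofNat 0, .ofNat 0, .ofNat 0, .ofNat 0, .ofNat 0, .ofNat 0, .ofNat 0, .ofNat 1892579094028899400895243181275423407341568,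 .ofNat 0, .ofNat 122205938316553210119627157845787541504, .ofNat 0⟩)
    (by decide +kernel)
theorem L01436 : Good (Phi V5.P V5.D (-1) 1) ⟨3, 5, 2, 0, 2, 2, 3, 1, 4, 4⟩ :=
  leafX_sound T5.ok_mp T5.Ymp.bz_eq (w := 209) (c := ⟨⟨.negSucc 2557, .negSucc 334, .negSucc 55, .ofNat 296, .ofNat 88, .ofNat 404⟩, ⟨.ofNat 261, .ofNat 213, .negSucc 400, .negSucc 99, .negSucc 13, .negSucc 34⟩, ⟨.ofNat 2647, .ofNat 404, .ofNat 344, .negSucc 650, .negSucc 454, .negSucc 170⟩, ⟨.negSucc 4914, .negSucc 99, .negSucc 4, .ofNat 462, .ofNat 141, .ofNat 749⟩, ⟨.negSucc 571, .ofNat 14, .ofNat 53, .negSucc 526, .ofNat 46, .ofNat 86⟩, .ofNat 306, .ofNat 44, .ofNat 0, .ofNat 44, .ofNat 616, .ofNat 0, .ofNat 327, .negSucc 45, .negSucc 133, .ofNat 0, .ofNat 128, .ofNat 49, .ofNat 0, .ofNat 0, .ofNat 773, .ofNat 14229, .ofNat 144528384625274997980445310102631151042560, .ofNat 0, .ofNat 10014858952218171476545284824658608128,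 .ofNat 0, .ofNat 0, .ofNat 0, .ofNat 158538653459140477412746138063275556864, .ofNat 0, .ofNat 0, .ofNat 0, .ofNat 177403938166078187242355990667078926336, .ofNat 0, .ofNat 4128020447295025665097188551906699534925824, .ofNat 0, .ofNat 180015091895890171428549987041470840832, .ofNat 0⟩)
    (by decide +kernel)
theorem L01437 : Good (Phi V5.P V5.D (-1) 1) ⟨2, 2, 2, 0, 2, 2, 3, 0, 4, 5⟩ :=
  out_sound (S := T5.ds_mp) T5.ok_mp (w := 25) (j := 1) (by decide +kernel)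
theorem L01438 : Good (Phi V5.P V5.D (-1) 1) ⟨3, 4, 2, 0, 2, 2, 3, 1, 4, 5⟩ :=
  leafX_sound T5.ok_mp T5.Ymp.bz_eq (w := 210) (c := ⟨⟨.negSucc 1941, .negSucc 217, .negSucc 54, .ofNat 299, .ofNat 69, .ofNat 255⟩, ⟨.ofNat 14, .ofNat 131, .negSucc 322, .negSucc 33, .ofNat 13, .ofNat 15⟩, ⟨.ofNat 2281, .ofNat 254, .ofNat 279, .negSucc 687, .negSucc 449, .negSucc 88⟩, ⟨.negSucc 4253, .negSucc 32, .ofNat 14, .ofNat 609, .ofNat 138, .ofNat 528⟩, ⟨.negSucc 567, .negSucc 9, .ofNat 33, .negSucc 414, .ofNat 92, .ofNat 150⟩, .ofNat 327, .negSucc 8, .ofNat 0, .negSucc 8, .ofNat 682, .ofNat 0, .ofNat 278, .negSucc 2, .negSucc 66, .ofNat 0, .ofNat 128, .ofNat 24, .ofNat 0, .ofNat 0, .ofNat 886, .ofNat 31644, .ofNat 1352889029852475136907161760065351348912128, .ofNat 0, .ofNat 0, .ofNat 0, .ofNat 13119011299844480982873024159149362616729600, .ofNat 0, .ofNat 0, .ofNat 0, .ofNat 2964423063187327690932791249432168139587584,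 .ofNat 0, .ofNat 0, .ofNat 0, .ofNat 9203844022887459248311583935113012768145408, .ofNat 0, .ofNat 0, .ofNat 0⟩)
    (by decide +kernel)
theorem L01439 : Good (Phi V5.P V5.D (-1) 1) ⟨3, 5, 2, 0, 2, 2, 3, 1, 4, 5⟩ :=
  leafX_sound T5.ok_mp T5.Ymp.bz_eq (w := 210) (c := ⟨⟨.negSucc 2292, .negSucc 260, .negSucc 62, .ofNat 422, .ofNat 103, .ofNat 303⟩, ⟨.ofNat 228, .ofNat 167, .negSucc 338, .negSucc 96, .negSucc 9, .negSucc 12⟩, ⟨.ofNat 2739, .ofNat 267, .ofNat 321, .negSucc 870, .negSucc 516, .negSucc 188⟩, ⟨.negSucc 4408, .negSucc 56, .negSucc 2, .ofNat 721, .ofNat 173, .ofNat 583⟩, ⟨.negSucc 523, .negSucc 25, .ofNat 51, .negSucc 475, .ofNat 73, .ofNat 163⟩, .ofNat 300, .ofNat 32, .ofNat 0, .ofNat 32, .ofNat 571, .ofNat 0, .ofNat 253, .negSucc 30, .negSucc 48, .ofNat 0, .ofNat 128, .ofNat 23, .ofNat 0, .ofNat 0, .ofNat 520, .ofNat 22805, .ofNat 1732800985021599626465396506224395773018112,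 .ofNat 0, .ofNat 0, .ofNat 0, .ofNat 4680661826208155770208915359072550708576256, .ofNat 0, .ofNat 0, .ofNat 0, .ofNat 2998698878557370195654340140004409369165824, .ofNat 0, .ofNat 0, .ofNat 0, .ofNat 2920711777753123938765203181219841612709888, .ofNat 0, .ofNat 88473901729523955331438381038026358784, .ofNat 0⟩)
    (by decide +kernel)
theorem L01440 : Good (Phi V5.P V5.D (-1) 1) ⟨3, 4, 2, 0, 2, 2, 2, 1, 4, 4⟩ :=
  leafX_sound T5.ok_mp T5.Ymp.bz_eq (w := 203) (c := ⟨⟨.negSucc 2058, .negSucc 281, .negSucc 64, .ofNat 200, .ofNat 223, .ofNat 284⟩, ⟨.ofNat 11, .ofNat 158, .negSucc 349, .negSucc 25, .ofNat 15, .ofNat 10⟩, ⟨.ofNat 1870, .ofNat 273, .ofNat 185, .negSucc 577, .negSucc 563, .negSucc 135⟩, ⟨.negSucc 4512, .negSucc 105, .negSucc 29, .ofNat 405, .ofNat 450, .ofNat 583⟩, ⟨.negSucc 629, .ofNat 18, .ofNat 39, .negSucc 371, .ofNat 207, .ofNat 97⟩, .ofNat 326, .negSucc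 6, .ofNat 0, .negSucc 6, .ofNat 675, .ofNat 0, .ofNat 360, .negSucc 3, .negSucc 144, .ofNat 0, .ofNat 128, .ofNat 32, .ofNat 0, .ofNat 0, .ofNat 909, .ofNat 4009, .ofNat 2254702089036370386027021853841996906496, .ofNat 0, .ofNat 0, .ofNat 0, .ofNat 0, .ofNat 0, .ofNat 0, .ofNat 0, .ofNat 0, .ofNat 0, .ofNat 0, .ofNat 0, .ofNat 0, .ofNat 0, .ofNat 0, .ofNat 0⟩)
    (by decide +kernel)
theorem L01441 : Good (Phi V5.P V5.D (-1) 1) ⟨3, 4, 2, 0, 2, 2, 3, 2, 6, 20⟩ :=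
  leafX_sound T5.ok_mp T5.Ymp.bz_eq (w := 219) (c := ⟨⟨.negSucc 1788, .negSucc 248, .negSucc 52, .ofNat 216, .ofNat 80, .ofNat 67⟩, ⟨.ofNat 15, .ofNat 145, .negSucc 329, .negSucc 24, .ofNat 9, .ofNat 1⟩, ⟨.ofNat 1789, .ofNat 245, .ofNat 194, .negSucc 610, .negSucc 311, .negSucc 30⟩, ⟨.negSucc 3948, .negSucc 70, .negSucc 11, .ofNat 442, .ofNat 170, .ofNat 130⟩, ⟨.negSucc 528, .ofNat 1, .ofNat 29, .negSucc 341, .ofNat 95, .ofNat 26⟩, .ofNat 327, .negSucc 8, .ofNat 0, .negSucc 8, .ofNat 682, .ofNat 0, .ofNat 408, .negSucc 1, .negSucc 73, .ofNat 0, .ofNat 128, .ofNat 18, .ofNat 0, .ofNat 0, .ofNat 672, .ofNat 16089, .ofNat 13762108019180405017548323143782506440949760, .ofNat 0, .ofNat 0, .ofNat 0, .ofNat 0, .ofNat 0, .ofNat 0, .ofNat 0, .ofNat 0, .ofNat 0, .ofNat 0, .ofNat 0, .ofNat 0, .ofNat 0, .ofNat 64628524929837070610261514763251008667648, .ofNat 0⟩)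
    (by decide +kernel)
theorem L01442 : Good (Phi V5.P V5.D (-1) 1) ⟨3, 4, 2, 0, 2, 2, 3, 2, 6, 21⟩ :=
  leafX_sound T5.ok_mp T5.Ymp.bz_eq (w := 219) (c := ⟨⟨.negSucc 1736, .negSucc 235, .negSucc 50, .ofNat 213, .ofNat 77, .ofNat 69⟩, ⟨.ofNat 14, .ofNat 139, .negSucc 315, .negSucc 20, .ofNat 12, .negSucc 0⟩, ⟨.ofNat 1819, .ofNat 242, .ofNat 182, .negSucc 643, .negSucc 335, .negSucc 47⟩, ⟨.negSucc 3831, .negSucc 46, .negSucc 9, .ofNat 429, .ofNat 165, .ofNat 127⟩, ⟨.negSucc 530, .ofNat 28, .ofNat 27, .negSucc 291, .ofNat 99, .ofNat 13⟩, .ofNat 438, .negSucc 14, .ofNat 0, .negSucc 14, .ofNat 1453, .ofNat 0, .ofNat 438, .ofNat 1, .negSucc 61, .ofNat 0, .ofNat 128, .ofNat 9, .ofNat 0, .ofNat 0, .ofNat 796, .ofNat 20111, .ofNat 30429266637492667789250966268090159007268864, .ofNat 0, .ofNat 0, .ofNat 0, .ofNat 0, .ofNat 0, .ofNat 0, .ofNat 0, .ofNat 0, .ofNat 0, .ofNat 0,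 .ofNat 0, .ofNat 0, .ofNat 0, .ofNat 0, .ofNat 0⟩)
    (by decide +kernel)
theorem L01443 : Good (Phi V5.P V5.D (-1) 1) ⟨3, 4, 2, 0, 2, 2, 3, 2, 5, 11⟩ :=
  leafX_sound T5.ok_mp T5.Ymp.bz_eq (w := 214) (c := ⟨⟨.negSucc 1716, .negSucc 203, .negSucc 35, .ofNat 235, .ofNat 88, .ofNat 109⟩, ⟨.ofNat 10, .ofNat 129, .negSucc 301, .negSucc 12, .ofNat 10, .ofNat 7⟩, ⟨.ofNat 1905, .ofNat 191, .ofNat 173, .negSucc 729, .negSucc 408, .negSucc 37⟩, ⟨.negSucc 3764, .negSucc 1, .ofNat 10, .ofNat 471, .ofNat 167, .ofNat 217⟩, ⟨.negSucc 550, .ofNat 4, .ofNat 40, .negSucc 211, .ofNat 119, .ofNat 34⟩, .ofNat 474, .negSucc 45, .ofNat 0, .negSucc 45, .ofNat 1865, .ofNat 0, .ofNat 280, .ofNat 12, .negSucc 47, .ofNat 0, .ofNat 128, .ofNat 6, .ofNat 0, .ofNat 0, .ofNat 911, .ofNat 19191, .ofNat 6048349504148951780449693998300942550695936, .ofNat 0, .ofNat 0, .ofNat 0, .ofNat 0, .ofNat 0, .ofNat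 0, .ofNat 0, .ofNat 17251463199732559914644408983278391423664128, .ofNat 0, .ofNat 0, .ofNat 0, .ofNat 0, .ofNat 0, .ofNat 0, .ofNat 0⟩)
    (by decide +kernel)
theorem L01444 : Good (Phi V5.P V5.D (-1) 1) ⟨3, 4, 2, 0, 2, 2, 3, 3, 4, 5⟩ :=
  leafX_sound T5.ok_mp T5.Ymp.bz_eq (w := 207) (c := ⟨⟨.negSucc 1708, .negSucc 239, .negSucc 41, .ofNat 187, .ofNat 123, .ofNat 202⟩, ⟨.ofNat 15, .ofNat 128, .negSucc 300, .negSucc 10, .ofNat 11, .ofNat 8⟩, ⟨.ofNat 1535, .ofNat 213, .ofNat 138, .negSucc 620, .negSucc 330, .negSucc 82⟩, ⟨.negSucc 3772, .negSucc 61, .negSucc 4, .ofNat 400, .ofNat 239, .ofNat 424⟩, ⟨.negSucc 462, .negSucc 0, .ofNat 16, .negSucc 217, .ofNat 122, .ofNat 86⟩, .ofNat 327, .negSucc 12, .ofNat 0, .negSucc 12, .ofNat 674, .ofNat 0, .ofNat 277, .ofNat 3, .negSucc 59, .ofNat 0, .ofNat 128, .ofNat 11, .ofNat 0, .ofNat 0, .ofNat 765, .ofNat 3554, .ofNat 26843109799968292053012493685344071319552,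 .ofNat 0, .ofNat 0, .ofNat 0, .ofNat 0, .ofNat 0, .ofNat 0, .ofNat 0, .ofNat 0, .ofNat 0, .ofNat 0, .ofNat 0, .ofNat 0, .ofNat 48195195517910464616592147740653583859712, .ofNat 0, .ofNat 0⟩)
    (by decide +kernel)
theorem L01445 : Good (Phi V5.P V5.D (-1) 1) ⟨3, 5, 2, 0, 2, 2, 3, 2, 4, 4⟩ :=
  leafX_sound T5.ok_mp T5.Ymp.bz_eq (w := 208) (c := ⟨⟨.negSucc 2406, .negSucc 385, .negSucc 117, .ofNat 273, .ofNat 111, .ofNat 368⟩, ⟨.ofNat 229, .ofNat 220, .negSucc 366, .negSucc 82, .negSucc 3, .negSucc 28⟩, ⟨.ofNat 2211, .ofNat 402, .ofNat 305, .negSucc 671, .negSucc 331, .negSucc 185⟩, ⟨.negSucc 4661, .negSucc 189, .negSucc 113, .ofNat 443, .ofNat 207, .ofNat 681⟩, ⟨.negSucc 551, .ofNat 0, .ofNat 51, .negSucc 454, .ofNat 77, .ofNat 73⟩, .ofNat 407, .ofNat 105, .ofNat 0, .ofNat 105, .ofNat 1209, .ofNat 0, .ofNat 379, .negSucc 60, .negSucc 145, .ofNat 0, .ofNat 128, .ofNat 37,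 .ofNat 0, .ofNat 0, .ofNat 873, .ofNat 6254, .ofNat 61050964830668742597462040133163202641920, .ofNat 0, .ofNat 1035882156939539703944302170587791360, .ofNat 0, .ofNat 0, .ofNat 0, .ofNat 0, .ofNat 0, .ofNat 0, .ofNat 0, .ofNat 417565780633923474055212267105054359552, .ofNat 0, .ofNat 0, .ofNat 0, .ofNat 0, .ofNat 0⟩)
    (by decide +kernel)
theorem L01446 : Good (Phi V5.P V5.D (-1) 1) ⟨4, 10, 2, 0, 3, 4, 4, 4, 5, 10⟩ :=
  leafX_sound T5.ok_mp T5.Ymp.bz_eq (w := 238) (c := ⟨⟨.negSucc 2077, .negSucc 146, .negSucc 51, .ofNat 95, .ofNat 53, .ofNat 156⟩, ⟨.ofNat 191, .ofNat 99, .negSucc 335, .negSucc 28, .negSucc 1, .negSucc 6⟩, ⟨.ofNat 2132, .ofNat 159, .ofNat 246, .negSucc 324, .negSucc 214, .negSucc 73⟩, ⟨.negSucc 4042, .negSucc 34, .negSucc 14, .ofNat 159, .ofNat 100, .ofNat 295⟩, ⟨.negSucc 487, .ofNat 7, .ofNat 44, .negSucc 191, .ofNat 30, .ofNat 42⟩, .ofNat 306, .ofNat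 22, .ofNat 0, .ofNat 22, .ofNat 606, .ofNat 0, .ofNat 185, .negSucc 21, .negSucc 48, .ofNat 0, .ofNat 128, .ofNat 16, .ofNat 0, .ofNat 0, .ofNat 400, .ofNat 60322, .ofNat 7723426295221344993042483758224954612716746571776, .ofNat 0, .ofNat 50228014336761961691061433335246142310449152, .ofNat 0, .ofNat 0, .ofNat 0, .ofNat 0, .ofNat 0, .ofNat 0, .ofNat 0, .ofNat 0, .ofNat 0, .ofNat 12871825070291200497850748267961273237325884686336, .ofNat 0, .ofNat 286930516200679216809164417009441387944345600, .ofNat 0⟩)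
    (by decide +kernel)
theorem L01447 : Good (Phi V5.P V5.D (-1) 1) ⟨4, 11, 2, 0, 3, 4, 4, 4, 5, 10⟩ :=
  leafX_sound T5.ok_mp T5.Ymp.bz_eq (w := 240) (c := ⟨⟨.negSucc 2254, .negSucc 155, .negSucc 68, .ofNat 129, .ofNat 56, .ofNat 168⟩, ⟨.ofNat 310, .ofNat 109, .negSucc 337, .negSucc 45, .negSucc 4, .negSucc 21⟩, ⟨.ofNat 2342, .ofNat 157, .ofNat 274, .negSucc 392, .negSucc 213, .negSucc 90⟩, ⟨.negSucc 4109, .negSucc 35, .negSucc 35, .ofNat 195, .ofNat 103, .ofNat 304⟩, ⟨.negSucc 475, .ofNat 9, .ofNat 58, .negSucc 207, .ofNat 34, .ofNat 41⟩, .ofNat 452, .ofNat 153, .ofNat 0, .ofNat 153, .ofNat 1356, .ofNat 0, .ofNat 347, .negSucc 55, .negSucc 86, .ofNat 0, .ofNat 128, .ofNat 28, .ofNat 0, .ofNat 0, .ofNat 723, .ofNat 170553, .ofNat 30070036994753555570093878544324061200707447947264, .ofNat 0, .ofNat 120325303610332530564898543358459667063767040, .ofNat 0, .ofNat 56580667749338330479588883758718478930662406488064,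 .ofNat 0, .ofNat 2622748142161591463276545235003595993456312320, .ofNat 0, .ofNat 10364662154109688222967016168081548906510015266816, .ofNat 0, .ofNat 5149225338040663089480666717090954319367241728, .ofNat 0, .ofNat 51972653513361026584241567698133414320226600747008, .ofNat 0, .ofNat 1833179896976110891596057940126942779236417536, .ofNat 0⟩)
    (by decide +kernel)
theorem L01448 : Good (Phi V5.P V5.D (-1) 1) ⟨3, 5, 2, 0, 3, 4, 4, 4, 5, 11⟩ :=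
  leafX_sound T5.ok_mp T5.Ymp.bz_eq (w := 236) (c := ⟨⟨.negSucc 1973, .negSucc 255, .negSucc 51, .ofNat 151, .ofNat 47, .ofNat 134⟩, ⟨.ofNat 188, .ofNat 178, .negSucc 317, .negSucc 37, .ofNat 0, .negSucc 6⟩, ⟨.ofNat 2173, .ofNat 244, .ofNat 255, .negSucc 431, .negSucc 223, .negSucc 61⟩, ⟨.negSucc 3835, .negSucc 34, .negSucc 7, .ofNat 257, .ofNat 93, .ofNat 259⟩, ⟨.negSucc 460, .negSucc 2, .ofNat 40, .negSucc 182, .ofNat 42, .ofNat 53⟩, .ofNat 166, .ofNat 9, .ofNat 0, .ofNat 9, .ofNat 230, .ofNat 0, .ofNat 227, .negSucc 22, .negSucc 68, .ofNat 0, .ofNat 128, .ofNat 34, .ofNat 0, .ofNat 0, .ofNat 480, .ofNat 256631, .ofNat 5347946704578971588882703345797331931055970582528, .ofNat 0, .ofNat 0, .ofNat 0, .ofNat 6438523227243229863649567806775968300436299972608, .ofNat 0, .ofNat 426234053512616704341834834079962094563753984, .ofNat 0, .ofNat 1612149604480212532930661708529621366589104324608,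 .ofNat 0, .ofNat 280840552942705307929164724388477671311409152, .ofNat 0, .ofNat 4102239768231790721827317554755266963525490180096, .ofNat 0, .ofNat 1295540857821212696588474283666150132860059648, .ofNat 0⟩)
    (by decide +kernel)
theorem L01449 : Good (Phi V5.P V5.D (-1) 1) ⟨4, 10, 2, 0, 3, 4, 4, 5, 5, 10⟩ :=
  leafX_sound T5.ok_mp T5.Ymp.bz_eq (w := 238) (c := ⟨⟨.negSucc 2020, .negSucc 152, .negSucc 55, .ofNat 100, .ofNat 53, .ofNat 151⟩, ⟨.ofNat 183, .ofNat 101, .negSucc 323, .negSucc 25, .ofNat 1, .negSucc 11⟩, ⟨.ofNat 1935, .ofNat 154, .ofNat 227, .negSucc 340, .negSucc 184, .negSucc 83⟩, ⟨.negSucc 3936, .negSucc 45, .negSucc 21, .ofNat 171, .ofNat 101, .ofNat 281⟩, ⟨.negSucc 462, .ofNat 6, .ofNat 39, .negSucc 170, .ofNat 35, .ofNat 38⟩, .ofNat 307, .ofNat 37, .ofNat 0, .ofNat 37, .ofNat 623, .ofNat 0, .ofNat 307, .negSucc 31, .negSucc 116, .ofNat 0, .ofNat 128,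 .ofNat 35, .ofNat 0, .ofNat 0, .ofNat 934, .ofNat 60134, .ofNat 6124950039488518252423732941955125377914489536512, .ofNat 0, .ofNat 28085703576957876935475585231117757592895488, .ofNat 0, .ofNat 0, .ofNat 0, .ofNat 0, .ofNat 0, .ofNat 0, .ofNat 0, .ofNat 558327971738413031070699052333489520719691776, .ofNat 0, .ofNat 0, .ofNat 0, .ofNat 884583731965412270443899923910456184213078016, .ofNat 0⟩)
    (by decide +kernel)
theorem L01450 : Good (Phi V5.P V5.D (-1) 1) ⟨4, 11, 2, 0, 3, 4, 4, 5, 5, 10⟩ :=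
  leafX_sound T5.ok_mp T5.Ymp.bz_eq (w := 239) (c := ⟨⟨.negSucc 2194, .negSucc 157, .negSucc 49, .ofNat 124, .ofNat 58, .ofNat 164⟩, ⟨.ofNat 302, .ofNat 110, .negSucc 332, .negSucc 42, .negSucc 3, .negSucc 20⟩, ⟨.ofNat 2136, .ofNat 159, .ofNat 209, .negSucc 398, .negSucc 195, .negSucc 97⟩, ⟨.negSucc 4000, .negSucc 37, .negSucc 8, .ofNat 189, .ofNat 110, .ofNat 295⟩, ⟨.negSucc 452, .ofNat 9, .ofNat 49, .negSucc 187, .ofNat 38, .ofNat 36⟩, .ofNat 406, .ofNat 157, .ofNat 0, .ofNat 157, .ofNat 1144, .ofNat 0, .ofNat 278, .negSucc 77, .negSucc 89, .ofNat 0, .ofNat 128, .ofNat 27, .ofNat 0, .ofNat 0, .ofNat 745, .ofNat 102032, .ofNat 15047779965468484396996922717233629337901353402368, .ofNat 0, .ofNat 33736112976702680890802791341103265548861440, .ofNat 0, .ofNat 0, .ofNat 0, .ofNat 1195623145785105385540665770720940413243359232, .ofNat 0, .ofNat 0, .ofNat 0, .ofNat 4045287341253114503501016885275611100748972032,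 .ofNat 0, .ofNat 0, .ofNat 0, .ofNat 1822393628947234359263297463415638617038520320, .ofNat 0⟩)
    (by decide +kernel)
theorem L01451 : Good (Phi V5.P V5.D (-1) 1) ⟨3, 5, 2, 0, 3, 4, 4, 5, 5, 11⟩ :=
  leafX_sound T5.ok_mp T5.Ymp.bz_eq (w := 234) (c := ⟨⟨.negSucc 1906, .negSucc 235, .negSucc 24, .ofNat 114, .ofNat 51, .ofNat 133⟩, ⟨.ofNat 178, .ofNat 179, .negSucc 314, .negSucc 26, .ofNat 0, .negSucc 10⟩, ⟨.ofNat 1949, .ofNat 189, .ofNat 157, .negSucc 381, .negSucc 204, .negSucc 91⟩, ⟨.negSucc 3704, .negSucc 9, .ofNat 13, .ofNat 198, .ofNat 99, .ofNat 248⟩, ⟨.negSucc 440, .ofNat 0, .ofNat 26, .negSucc 148, .ofNat 44, .ofNat 48⟩, .ofNat 166, .ofNat 9, .ofNat 0, .ofNat 9, .ofNat 229, .ofNat 0, .ofNat 232, .negSucc 19, .negSucc 84, .ofNat 0, .ofNat 128, .ofNat 35, .ofNat 0, .ofNat 0, .ofNat 600, .ofNat 54235, .ofNat 909205760895030214856248926678560441615989604352, .ofNat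 0, .ofNat 214008643821290095819035558132719750934953984, .ofNat 0, .ofNat 27690729196158734659552807706711713944101191680, .ofNat 0, .ofNat 833447757866502721817057260340806366623956992, .ofNat 0, .ofNat 422966896816788914777219406065771232975283814400, .ofNat 0, .ofNat 983021621791056582540610463962057748166737920, .ofNat 0, .ofNat 1316438981549822991891449342359955718855379124224, .ofNat 0, .ofNat 2024147770743719954999930948235144914465193984, .ofNat 0⟩)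
    (by decide +kernel)
theorem L01452 : Good (Phi V5.P V5.D (-1) 1) ⟨3, 5, 2, 0, 3, 5, 3, 2, 4, 5⟩ :=
  leafX_sound T5.ok_mp T5.Ymp.bz_eq (w := 222) (c := ⟨⟨.negSucc 1986, .negSucc 231, .negSucc 44, .ofNat 204, .ofNat 104, .ofNat 283⟩, ⟨.ofNat 167, .ofNat 165, .negSucc 317, .negSucc 44, .negSucc 1, .negSucc 16⟩, ⟨.ofNat 1837, .ofNat 212, .ofNat 272, .negSucc 462, .negSucc 423, .negSucc 198⟩, ⟨.negSucc 3882, .negSucc 12, .ofNat 22, .ofNat 353, .ofNat 202, .ofNat 536⟩, ⟨.negSucc 710, .negSucc 21, .ofNat 31, .negSucc 185, .ofNat 106, .ofNat 141⟩, .ofNat 306, .ofNat 44, .ofNat 0, .ofNat 44, .ofNat 622, .ofNat 0, .ofNat 176, .negSucc 38, .negSucc 38, .ofNat 0, .ofNat 128, .ofNat 14, .ofNat 0, .ofNat 0, .ofNat 487, .ofNat 7059, .ofNat 1179119443668301299528585146032499830787407872, .ofNat 0, .ofNat 45279349164689216400252453315364622696448, .ofNat 0, .ofNat 0, .ofNat 0, .ofNat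 885478038779598159953033052129718802841600, .ofNat 0, .ofNat 0, .ofNat 0, .ofNat 0, .ofNat 0, .ofNat 0, .ofNat 34996121909965159085009605893777234455429120, .ofNat 3489097482949631362497022396747233103970304, .ofNat 0⟩)
    (by decide +kernel)
theorem L01453 : Good (Phi V5.P V5.D (-1) 1) ⟨3, 5, 2, 0, 2, 2, 3, 3, 4, 4⟩ :=
  leafX_sound T5.ok_mp T5.Ymp.bz_eq (w := 207) (c := ⟨⟨.negSucc 2351, .negSucc 312, .negSucc 13, .ofNat 285, .ofNat 147, .ofNat 377⟩, ⟨.ofNat 233, .ofNat 213, .negSucc 373, .negSucc 76, .negSucc 5, .negSucc 37⟩, ⟨.ofNat 2035, .ofNat 234, .ofNat 118, .negSucc 740, .negSucc 308, .negSucc 268⟩, ⟨.negSucc 4527, .negSucc 83, .ofNat 33, .ofNat 468, .ofNat 273, .ofNat 683⟩, ⟨.negSucc 511, .ofNat 12, .ofNat 21, .negSucc 378, .ofNat 107, .ofNat 106⟩, .ofNat 407, .ofNat 107, .ofNat 0, .ofNat 107, .ofNat 1207, .ofNat 0, .ofNat 245, .negSucc 59, .negSucc 73, .ofNat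 0, .ofNat 128, .ofNat 17, .ofNat 0, .ofNat 0, .ofNat 435, .ofNat 3002, .ofNat 0, .ofNat 0, .ofNat 0, .ofNat 0, .ofNat 0, .ofNat 0, .ofNat 77252440208631561366041743025443438592, .ofNat 0, .ofNat 0, .ofNat 0, .ofNat 381778366751335314807046163246889304064, .ofNat 0, .ofNat 0, .ofNat 0, .ofNat 118422714745056139459638975711210897408, .ofNat 0⟩)
    (by decide +kernel)
theorem L01454 : Good (Phi V5.P V5.D (-1) 1) ⟨3, 5, 2, 0, 3, 4, 3, 3, 4, 5⟩ :=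
  leafX_sound T5.ok_mp T5.Ymp.bz_eq (w := 223) (c := ⟨⟨.negSucc 1976, .negSucc 256, .negSucc 37, .ofNat 111, .ofNat 115, .ofNat 259⟩, ⟨.ofNat 182, .ofNat 192, .negSucc 306, .negSucc 26, .ofNat 2, .negSucc 22⟩, ⟨.ofNat 1818, .ofNat 222, .ofNat 160, .negSucc 397, .negSucc 350, .negSucc 180⟩, ⟨.negSucc 3838, .negSucc 24, .negSucc 7, .ofNat 185, .ofNat 228, .ofNat 484⟩, ⟨.negSucc 446, .negSucc 1, .ofNat 34, .negSucc 119, .ofNat 102, .ofNat 80⟩, .ofNat 305, .ofNat 48, .ofNat 0, .ofNat 48, .ofNat 617, .ofNat 0, .ofNat 145, .negSucc 37, .negSucc 53, .ofNat 0, .ofNat 128, .ofNat 14, .ofNat 0, .ofNat 0, .ofNat 509, .ofNat 9253, .ofNat 775832467952463515175452883400980857022840832, .ofNat 0, .ofNat 106081599360573857065911893943354184957952, .ofNat 0, .ofNat 0, .ofNat 0, .ofNat 1767461583564430949231223925489271522197504, .ofNat 0, .ofNat 0, .ofNat 0, .ofNat 0, .ofNat 0, .ofNat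 0, .ofNat 0, .ofNat 4849639731683968249515515385753904173023232, .ofNat 0⟩)
    (by decide +kernel)
theorem L01455 : Good (Phi V5.P V5.D (-1) 1) ⟨3, 5, 2, 0, 3, 5, 3, 3, 4, 5⟩ :=
  leafX_sound T5.ok_mp T5.Ymp.bz_eq (w := 221) (c := ⟨⟨.negSucc 1886, .negSucc 204, .negSucc 30, .ofNat 197, .ofNat 113, .ofNat 264⟩, ⟨.ofNat 156, .ofNat 169, .negSucc 294, .negSucc 31, .ofNat 6, .negSucc 13⟩, ⟨.ofNat 1523, .ofNat 79, .ofNat 159, .negSucc 521, .negSucc 395, .negSucc 253⟩, ⟨.negSucc 3678, .ofNat 26, .ofNat 22, .ofNat 353, .ofNat 221, .ofNat 503⟩, ⟨.negSucc 643, .ofNat 4, .ofNat 23, .negSucc 93, .ofNat 186, .ofNat 157⟩, .ofNat 307, .ofNat 46, .ofNat 0, .ofNat 46, .ofNat 624, .ofNat 0, .ofNat 242, .negSucc 37, .negSucc 36, .ofNat 0, .ofNat 128, .ofNat 10, .ofNat 0, .ofNat 0, .ofNat 625, .ofNat 4233, .ofNat 0, .ofNat 0, .ofNat 0, .ofNat 0, .ofNat 0, .ofNat 0, .ofNat 0, .ofNat 0,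 .ofNat 0, .ofNat 0, .ofNat 0, .ofNat 0, .ofNat 0, .ofNat 86578260638454611091277176367098291879411712, .ofNat 4304125749480179141832711657209112475729920, .ofNat 0⟩)
    (by decide +kernel)
theorem L01456 : Good (Phi V5.P V5.D (-1) 1) ⟨2, 3, 2, 0, 2, 2, 1, 0, 3, 2⟩ :=
  out_sound (S := T5.ds_mp) T5.ok_mp (w := 37) (j := 3) (by decide +kernel)
theorem L01457 : Good (Phi V5.P V5.D (-1) 1) ⟨3, 4, 2, 0, 2, 3, 2, 0, 4, 4⟩ :=
  leafX_sound T5.ok_mp T5.Ymp.bz_eq (w := 202) (c := ⟨⟨.negSucc 2052, .negSucc 199, .negSucc 79, .ofNat 464, .ofNat 173, .ofNat 312⟩, ⟨.negSucc 18, .ofNat 122, .negSucc 364, .negSucc 11, .ofNat 17, .ofNat 17⟩, ⟨.ofNat 2186, .ofNat 231, .ofNat 266, .negSucc 1023, .negSucc 768, .negSucc 176⟩, ⟨.negSucc 4501, .negSucc 16, .ofNat 34, .ofNat 949, .ofNat 363, .ofNat 631⟩, ⟨.negSucc 1074, .negSucc 38, .negSucc 49, .negSucc 307, .ofNat 35, .ofNat 110⟩, .ofNat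 438, .negSucc 5, .ofNat 0, .negSucc 5, .ofNat 1463, .ofNat 0, .ofNat 224, .negSucc 17, .negSucc 80, .ofNat 0, .ofNat 128, .ofNat 15, .ofNat 0, .ofNat 0, .ofNat 871, .ofNat 3607, .ofNat 0, .ofNat 0, .ofNat 0, .ofNat 0, .ofNat 0, .ofNat 715193077476431997512873957900565872640, .ofNat 0, .ofNat 0, .ofNat 0, .ofNat 0, .ofNat 0, .ofNat 0, .ofNat 217288144736335684980177164555226330431488, .ofNat 0, .ofNat 0, .ofNat 0⟩)
    (by decide +kernel)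
theorem L01458 : Good (Phi V5.P V5.D (-1) 1) ⟨3, 4, 2, 0, 3, 6, 2, 1, 4, 4⟩ :=
  leafX_sound T5.ok_mp T5.Ymp.bz_eq (w := 216) (c := ⟨⟨.negSucc 1885, .negSucc 195, .negSucc 90, .ofNat 261, .ofNat 213, .ofNat 306⟩, ⟨.negSucc 14, .ofNat 105, .negSucc 341, .negSucc 12, .ofNat 33, .ofNat 34⟩, ⟨.ofNat 1404, .ofNat 171, .ofNat 211, .negSucc 401, .negSucc 577, .negSucc 224⟩, ⟨.negSucc 4153, .negSucc 11, .negSucc 10, .ofNat 538, .ofNat 439, .ofNat 631⟩, ⟨.negSucc 1037, .negSucc 35, .negSucc 19, .negSucc 202, .ofNat 331, .ofNat 184⟩, .ofNat 327, .negSucc 12, .ofNat 0, .negSucc 12, .ofNat 675, .ofNat 0, .ofNat 245, .negSucc 7, .negSucc 63, .ofNat 0, .ofNat 128, .ofNat 17, .ofNat 0, .ofNat 0, .ofNat 531, .ofNat 2207, .ofNat 0, .ofNat 0, .ofNat 0, .ofNat 0, .ofNat 0, .ofNat 0, .ofNat 0, .ofNat 0, .ofNat 0, .ofNat 0, .ofNat 0, .ofNat 0, .ofNat 0, .ofNat 14386902964218165433860350738706852405575680,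 .ofNat 0, .ofNat 0⟩)
    (by decide +kernel)
theorem L01459 : Good (Phi V5.P V5.D (-1) 1) ⟨3, 4, 2, 0, 3, 7, 2, 1, 4, 4⟩ :=
  leafX_sound T5.ok_mp T5.Ymp.bz_eq (w := 215) (c := ⟨⟨.negSucc 1718, .negSucc 119, .negSucc 36, .ofNat 281, .ofNat 254, .ofNat 307⟩, ⟨.negSucc 36, .ofNat 83, .negSucc 318, .ofNat 11, .ofNat 39, .ofNat 41⟩, ⟨.ofNat 1180, .ofNat 69, .ofNat 71, .negSucc 462, .negSucc 534, .negSucc 300⟩, ⟨.negSucc 3744, .ofNat 80, .ofNat 108, .ofNat 560, .ofNat 500, .ofNat 599⟩, ⟨.negSucc 1107, .negSucc 80, .negSucc 246, .negSucc 88, .ofNat 340, .ofNat 205⟩, .ofNat 434, .negSucc 20, .ofNat 0, .negSucc 20, .ofNat 1404, .ofNat 0, .ofNat 472, .negSucc 4, .negSucc 42, .ofNat 0, .ofNat 128, .ofNat 10, .ofNat 0, .ofNat 0, .ofNat 739, .ofNat 1280, .ofNat 0, .ofNat 0, .ofNat 0, .ofNat 0, .ofNat 0, .ofNat 0, .ofNat 0, .ofNat 0, .ofNat 0, .ofNat 0, .ofNat 0, .ofNat 0, .ofNat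 0, .ofNat 46672752094592355031258783977430087679082496, .ofNat 0, .ofNat 0⟩)
    (by decide +kernel)
theorem L01460 : Good (Phi V5.P V5.D (-1) 1) ⟨3, 5, 2, 0, 2, 3, 2, 0, 4, 4⟩ :=
  leafX_sound T5.ok_mp T5.Ymp.bz_eq (w := 202) (c := ⟨⟨.negSucc 2403, .negSucc 253, .negSucc 104, .ofNat 635, .ofNat 244, .ofNat 423⟩, ⟨.ofNat 187, .ofNat 141, .negSucc 362, .negSucc 105, .negSucc 20, .negSucc 41⟩, ⟨.ofNat 2560, .ofNat 231, .ofNat 191, .negSucc 1155, .negSucc 852, .negSucc 206⟩, ⟨.negSucc 4688, .negSucc 77, .negSucc 11, .ofNat 1118, .ofNat 453, .ofNat 771⟩, ⟨.negSucc 1194, .negSucc 57, .negSucc 15, .negSucc 206, .ofNat 80, .ofNat 139⟩, .ofNat 394, .ofNat 75, .ofNat 0, .ofNat 75, .ofNat 1033, .ofNat 0, .ofNat 226, .negSucc 53, .negSucc 88, .ofNat 0, .ofNat 128, .ofNat 31, .ofNat 0, .ofNat 0, .ofNat 746, .ofNat 2616, .ofNat 3471081171581478085212144659474518376448, .ofNat 0, .ofNat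 81823125798567492281730902293217280, .ofNat 0, .ofNat 0, .ofNat 2116628849384769754321799402259117768704, .ofNat 816182304597618636904404505981878272, .ofNat 0, .ofNat 0, .ofNat 1150677931962006936837163557291277942784, .ofNat 2078830286569082835522788943344959488, .ofNat 0, .ofNat 139200995393142136626801077996633557303296, .ofNat 0, .ofNat 7772595079263704763425766572547899392, .ofNat 0⟩)
    (by decide +kernel)
theorem L01461 : Good (Phi V5.P V5.D (-1) 1) ⟨3, 5, 2, 0, 2, 3, 2, 1, 5, 8⟩ :=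
  leafX_sound T5.ok_mp T5.Ymp.bz_eq (w := 207) (c := ⟨⟨.negSucc 2234, .negSucc 112, .ofNat 4, .ofNat 665, .ofNat 330, .ofNat 205⟩, ⟨.ofNat 175, .ofNat 98, .negSucc 380, .negSucc 98, .negSucc 2, .negSucc 16⟩, ⟨.ofNat 1667, .ofNat 152, .ofNat 203, .negSucc 941, .negSucc 672, .negSucc 165⟩, ⟨.negSucc 4368, .ofNat 122, .ofNat 157, .ofNat 1208, .ofNat 634, .ofNat 387⟩, ⟨.negSucc 1062, .negSucc 240, .negSucc 181, .negSucc 268, .ofNat 317, .ofNat 157⟩, .ofNat 305, .ofNat 49, .ofNat 0, .ofNat 49, .ofNat 615, .ofNat 0, .ofNat 231, .negSucc 44, .negSucc 57, .ofNat 0, .ofNat 128, .ofNat 19, .ofNat 0, .ofNat 0, .ofNat 446, .ofNat 1127, .ofNat 0, .ofNat 0, .ofNat 0, .ofNat 0, .ofNat 0, .ofNat 15853174460671411129113953414369658273792, .ofNat 111978724343148248790727595552692764672, .ofNat 0, .ofNat 0, .ofNat 0, .ofNat 0, .ofNat 0, .ofNat 0, .ofNat 12871675415977906494987174695411438845952,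 .ofNat 36336556696646655128832233036998246400, .ofNat 0⟩)
    (by decide +kernel)
theorem L01462 : Good (Phi V5.P V5.D (-1) 1) ⟨3, 5, 2, 0, 2, 3, 2, 1, 5, 9⟩ :=
  leafX_sound T5.ok_mp T5.Ymp.bz_eq (w := 206) (c := ⟨⟨.negSucc 1992, .negSucc 128, .negSucc 30, .ofNat 616, .ofNat 266, .ofNat 166⟩, ⟨.ofNat 149, .ofNat 109, .negSucc 339, .negSucc 99, .ofNat 4, .negSucc 7⟩, ⟨.ofNat 1587, .ofNat 27, .ofNat 151, .negSucc 968, .negSucc 750, .negSucc 170⟩, ⟨.negSucc 3896, .ofNat 76, .ofNat 74, .ofNat 1108, .ofNat 512, .ofNat 310⟩, ⟨.negSucc 1038, .negSucc 36, .negSucc 118, .negSucc 205, .ofNat 370, .ofNat 98⟩, .ofNat 306, .ofNat 39, .ofNat 0, .ofNat 39, .ofNat 618, .ofNat 0, .ofNat 176, .negSucc 37, .negSucc 32, .ofNat 0, .ofNat 128, .ofNat 12, .ofNat 0, .ofNat 0, .ofNat 427, .ofNat 993, .ofNat 0, .ofNat 0, .ofNat 0, .ofNat 0, .ofNat 0, .ofNat 17641050844133598563333462654276742414336,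 .ofNat 20169702779036600738487809739195416576, .ofNat 0, .ofNat 0, .ofNat 24730200019827112417777687085772479397888, .ofNat 0, .ofNat 0, .ofNat 0, .ofNat 27292260479921790822635982322808228151296, .ofNat 80846419649102815915345100862352523264, .ofNat 0⟩)
    (by decide +kernel)
theorem L01463 : Good (Phi V5.P V5.D (-1) 1) ⟨2, 2, 2, 0, 2, 3, 2, 0, 4, 5⟩ :=
  leafX_sound T5.ok_mp T5.Ymp.bz_eq (w := 197) (c := ⟨⟨.negSucc 1745, .negSucc 335, .negSucc 51, .ofNat 470, .ofNat 156, .ofNat 234⟩, ⟨.negSucc 6, .ofNat 229, .negSucc 316, .negSucc 48, .ofNat 12, .ofNat 7⟩, ⟨.ofNat 2146, .ofNat 320, .ofNat 278, .negSucc 948, .negSucc 958, .negSucc 104⟩, ⟨.negSucc 3837, .ofNat 59, .ofNat 54, .ofNat 894, .ofNat 315, .ofNat 488⟩, ⟨.negSucc 1104, .negSucc 102, .negSucc 13, .negSucc 225, .ofNat 232, .ofNat 182⟩, .ofNat 316, .ofNat 17, .ofNat 0, .ofNat 17, .ofNat 646, .ofNat 0, .ofNat 208,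 .negSucc 24, .negSucc 32, .ofNat 0, .ofNat 128, .ofNat 17, .ofNat 0, .ofNat 0, .ofNat 709, .ofNat 1161, .ofNat 618119212908615620323319514733157023744, .ofNat 0, .ofNat 0, .ofNat 0, .ofNat 0, .ofNat 0, .ofNat 0, .ofNat 0, .ofNat 0, .ofNat 0, .ofNat 0, .ofNat 0, .ofNat 24876875454007531077873710617575165001728, .ofNat 786285678956404576830256575670158098432, .ofNat 12918573681492030949909991216086253568, .ofNat 0⟩)
    (by decide +kernel)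
theorem L01464 : Good (Phi V5.P V5.D (-1) 1) ⟨2, 2, 2, 0, 2, 3, 2, 1, 4, 5⟩ :=
  leafX_sound T5.ok_mp T5.Ymp.bz_eq (w := 198) (c := ⟨⟨.negSucc 1628, .negSucc 278, .negSucc 25, .ofNat 472, .ofNat 194, .ofNat 244⟩, ⟨.negSucc 5, .ofNat 224, .negSucc 295, .negSucc 35, .ofNat 30, .ofNat 15⟩, ⟨.ofNat 1382, .ofNat 58, .ofNat 155, .negSucc 948, .negSucc 755, .negSucc 241⟩, ⟨.negSucc 3560, .ofNat 132, .ofNat 70, .ofNat 913, .ofNat 383, .ofNat 482⟩, ⟨.negSucc 895, .negSucc 97, .negSucc 13, .negSucc 217, .ofNat 395, .ofNat 207⟩, .ofNat 317, .ofNat 12, .ofNat 0, .ofNat 12, .ofNat 645, .ofNat 0, .ofNat 335, .negSucc 18, .negSucc 34, .ofNat 0, .ofNat 128, .ofNat 16, .ofNat 0, .ofNat 0, .ofNat 945, .ofNat 1297, .ofNat 0, .ofNat 0, .ofNat 0, .ofNat 0, .ofNat 0, .ofNat 1222873503073649301071052275166874697728, .ofNat 21430517173432409845076108779347509248, .ofNat 0, .ofNat 0, .ofNat 432165763454514299807745916182412132352,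 .ofNat 20551776637968756878247046606485454848, .ofNat 0, .ofNat 0, .ofNat 1722951523329591923676378562938896646144, .ofNat 17290922038435835085434801953817231360, .ofNat 0⟩)
    (by decide +kernel)
theorem L01465 : Good (Phi V5.P V5.D (-1) 1) ⟨2, 3, 2, 0, 2, 3, 1, 0, 3, 2⟩ :=
  out_sound (S := T5.ds_mp) T5.ok_mp (w := 37) (j := 3) (by decide +kernel)
theorem L01466 : Good (Phi V5.P V5.D (-1) 1) ⟨3, 4, 2, 0, 2, 2, 2, 0, 4, 6⟩ :=
  leafX_sound T5.ok_mp T5.Ymp.bz_eq (w := 211) (c := ⟨⟨.negSucc 1487, .negSucc 144, .negSucc 28, .negSucc 0, .ofNat 117, .ofNat 1⟩, ⟨.ofNat 7, .ofNat 108, .negSucc 280, .ofNat 0, .negSucc 2, .ofNat 0⟩, ⟨.ofNat 1578, .ofNat 98, .ofNat 242, .ofNat 1, .negSucc 442, .negSucc 0⟩, ⟨.negSucc 3182, .ofNat 48, .ofNat 63, .negSucc 1, .ofNat 131, .ofNat 2⟩, ⟨.negSucc 793, .negSucc 24, .ofNat 14, .ofNat 0, .ofNat 88, .ofNat 0⟩, .ofNat 326, .negSucc 3, .ofNat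 0, .negSucc 3, .ofNat 680, .ofNat 0, .ofNat 137, .negSucc 7, .negSucc 25, .ofNat 0, .ofNat 128, .ofNat 19, .ofNat 0, .ofNat 0, .ofNat 1479, .ofNat 1742485, .ofNat 18938696861929448024046183936905901095518208, .ofNat 0, .ofNat 0, .ofNat 0, .ofNat 12847047994835858583269758534622709100314624, .ofNat 0, .ofNat 0, .ofNat 0, .ofNat 4440482521037851332138459195429668901617664, .ofNat 0, .ofNat 0, .ofNat 0, .ofNat 16729569634411744122796183713588721756405760, .ofNat 0, .ofNat 0, .ofNat 0⟩)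
    (by decide +kernel)
theorem L01467 : Good (Phi V5.P V5.D (-1) 1) ⟨3, 4, 2, 0, 2, 2, 2, 1, 4, 6⟩ :=
  leafX_sound T5.ok_mp T5.Ymp.bz_eq (w := 204) (c := ⟨⟨.negSucc 1620, .negSucc 185, .negSucc 10, .ofNat 219, .ofNat 176, .ofNat 162⟩, ⟨.negSucc 9, .ofNat 121, .negSucc 269, .ofNat 0, .ofNat 34, .ofNat 7⟩, ⟨.ofNat 1981, .ofNat 96, .ofNat 50, .negSucc 722, .negSucc 778, .negSucc 89⟩, ⟨.negSucc 3541, .negSucc 0, .ofNat 36, .ofNat 456, .ofNat 335, .ofNat 346⟩, ⟨.negSucc 563, .ofNat 25, .ofNat 7, .negSucc 129, .ofNat 283, .ofNat 93⟩, .ofNat 326, .negSucc 6, .ofNat 0, .negSucc 6, .ofNat 675, .ofNat 0, .ofNat 276, .ofNat 0, .negSucc 46, .ofNat 0, .ofNat 128, .ofNat 4, .ofNat 0, .ofNat 0, .ofNat 1374, .ofNat 4695, .ofNat 53150370613581922445997974722630633127936, .ofNat 0, .ofNat 0, .ofNat 0, .ofNat 0, .ofNat 13820715973339696192257719131756763807744, .ofNat 0, .ofNat 0, .ofNat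 0, .ofNat 2637179360768014265179122935981500530688, .ofNat 0, .ofNat 0, .ofNat 0, .ofNat 39057100596554686257405477606115118153728, .ofNat 0, .ofNat 0⟩)
    (by decide +kernel)
theorem L01468 : Good (Phi V5.P V5.D (-1) 1) ⟨3, 5, 2, 0, 2, 2, 2, 0, 4, 6⟩ :=
  leafX_sound T5.ok_mp T5.Ymp.bz_eq (w := 212) (c := ⟨⟨.negSucc 1631, .negSucc 156, .negSucc 27, .negSucc 0, .ofNat 115, .ofNat 1⟩, ⟨.ofNat 72, .ofNat 117, .negSucc 286, .ofNat 0, .ofNat 43, .ofNat 0⟩, ⟨.ofNat 1925, .ofNat 64, .ofNat 297, .ofNat 1, .negSucc 720, .negSucc 0⟩, ⟨.negSucc 3232, .ofNat 50, .ofNat 63, .negSucc 1, .ofNat 230, .ofNat 2⟩, ⟨.negSucc 941, .negSucc 28, .ofNat 20, .ofNat 0, .ofNat 208, .ofNat 0⟩, .ofNat 166, .ofNat 9, .ofNat 0, .ofNat 9, .ofNat 229, .ofNat 0, .ofNat 240, .negSucc 25, .negSucc 17, .ofNat 0, .ofNat 128, .ofNat 23, .ofNat 0, .ofNat 0, .ofNat 682, .ofNat 2239493, .ofNat 47733534837584992612685881710925786042597376,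 .ofNat 0, .ofNat 0, .ofNat 0, .ofNat 28907792772307605393278017844184562012258304, .ofNat 0, .ofNat 8042906113993941546309953114949550080, .ofNat 0, .ofNat 5678311693716176847274815159463827663224832, .ofNat 0, .ofNat 0, .ofNat 0, .ofNat 11990036811944762704698874359945636404527104, .ofNat 0, .ofNat 13449955411075087470605539874065874944, .ofNat 0⟩)
    (by decide +kernel)
theorem L01469 : Good (Phi V5.P V5.D (-1) 1) ⟨3, 5, 2, 0, 2, 2, 2, 1, 5, 12⟩ :=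
  leafX_sound T5.ok_mp T5.Ymp.bz_eq (w := 208) (c := ⟨⟨.negSucc 1825, .negSucc 195, .negSucc 18, .ofNat 279, .ofNat 182, .ofNat 99⟩, ⟨.ofNat 146, .ofNat 168, .negSucc 270, .negSucc 42, .ofNat 17, .negSucc 6⟩, ⟨.ofNat 2247, .ofNat 45, .ofNat 97, .negSucc 1026, .negSucc 903, .negSucc 79⟩, ⟨.negSucc 3542, .ofNat 28, .ofNat 17, .ofNat 492, .ofNat 357, .ofNat 184⟩, ⟨.negSucc 573, .negSucc 20, .ofNat 4, .negSucc 104, .ofNat 321, .ofNat 27⟩, .ofNat 407, .ofNat 110, .ofNat 0, .ofNat 110, .ofNat 1203, .ofNat 0, .ofNat 210, .negSucc 52, .negSucc 21, .ofNat 0, .ofNat 128, .ofNat 4, .ofNat 0, .ofNat 0, .ofNat 721, .ofNat 2575, .ofNat 268522798801143899307253468281905050812416, .ofNat 0, .ofNat 7424547043293152054287021890548531200, .ofNat 0, .ofNat 0, .ofNat 0, .ofNat 0, .ofNat 0, .ofNat 0, .ofNat 0, .ofNat 0, .ofNat 0, .ofNat 0, .ofNat 74094887444937653684353275618675096813568,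 .ofNat 261298801609269985282657853507977084928, .ofNat 0⟩)
    (by decide +kernel)
theorem L01470 : Good (Phi V5.P V5.D (-1) 1) ⟨3, 5, 2, 0, 2, 2, 2, 1, 5, 13⟩ :=
  leafX_sound T5.ok_mp T5.Ymp.bz_eq (w := 209) (c := ⟨⟨.negSucc 1684, .negSucc 175, .negSucc 8, .ofNat 223, .ofNat 136, .ofNat 80⟩, ⟨.ofNat 121, .ofNat 160, .negSucc 248, .negSucc 21, .ofNat 29, .negSucc 1⟩, ⟨.ofNat 2211, .negSucc 42, .ofNat 96, .negSucc 1141, .negSucc 889, .negSucc 139⟩, ⟨.negSucc 3298, .ofNat 57, .ofNat 31, .ofNat 405, .ofNat 295, .ofNat 154⟩, ⟨.negSucc 630, .ofNat 8, .ofNat 18, .negSucc 0, .ofNat 383, .ofNat 62⟩, .ofNat 306, .ofNat 41, .ofNat 0, .ofNat 41, .ofNat 617, .ofNat 0, .ofNat 294, .negSucc 30, .negSucc 19, .ofNat 0, .ofNat 128, .negSucc 3, .ofNat 0, .ofNat 0, .ofNat 1499, .ofNat 5711, .ofNat 704358878171720745468414647490034647695360, .ofNat 0, .ofNat 31286087870823944757757030765141426176,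 .ofNat 0, .ofNat 0, .ofNat 0, .ofNat 0, .ofNat 0, .ofNat 2772476292794925626423554740807420019212288, .ofNat 68292068313559849548785836165576469250048, .ofNat 250946389633691875775619369493560557568, .ofNat 0, .ofNat 13262605497891681695707105931923165760454656, .ofNat 768822378189829521536914052133743480537088, .ofNat 525949912118741901801429588181298184192, .ofNat 0⟩)
    (by decide +kernel)
theorem L01471 : Good (Phi V5.P V5.D (-1) 1) ⟨2, 3, 2, 0, 2, 2, 1, 0, 4, 6⟩ :=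
  out_sound (S := T5.ds_mp) T5.ok_mp (w := 37) (j := 3) (by decide +kernel)
theorem L01472 : Good (Phi V5.P V5.D (-1) 1) ⟨1, 1, 2, 0, 2, 3, 1, 0, 4, 6⟩ :=
  leafX_sound T5.ok_mp T5.Ymp.bz_eq (w := 190) (c := ⟨⟨.negSucc 1518, .negSucc 565, .negSucc 20, .ofNat 411, .ofNat 273, .ofNat 212⟩, ⟨.negSucc 18, .ofNat 443, .negSucc 277, .negSucc 24, .ofNat 42, .ofNat 21⟩, ⟨.ofNat 2139, .ofNat 135, .ofNat 223, .negSucc 1048, .negSucc 1904, .negSucc 418⟩, ⟨.negSucc 3335, .ofNat 235, .ofNat 67, .ofNat 768, .ofNat 547, .ofNat 406⟩, ⟨.negSucc 1018, .negSucc 112, .ofNat 10, .negSucc 195, .ofNat 632, .ofNat 148⟩, .ofNat 318, .ofNat 16, .ofNat 0, .ofNat 16, .ofNat 653, .ofNat 0, .ofNat 247, .negSucc 19, .negSucc 20, .ofNat 0, .ofNat 128, .ofNat 21, .ofNat 0, .ofNat 0, .ofNat 1908, .ofNat 2595, .ofNat 15364674152859508726115155649694269440, .ofNat 806218864085439488223112676975312896, .ofNat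 411562120199203553867975852755517440, .ofNat 0, .ofNat 163536646013738664487403966772765786112, .ofNat 65078486174975527722477818879399690240, .ofNat 7347144297014574940832026021981061120, .ofNat 0, .ofNat 90578611883600967278150383692761006080, .ofNat 26328106873607221674004908897229340672, .ofNat 12348778273234943596635350011673051136, .ofNat 0, .ofNat 3271485437466508239608284785522723782656, .ofNat 441798738980571114522754752441749602304, .ofNat 12812759764405828770566864174596489216, .ofNat 0⟩)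
    (by decide +kernel)
theorem L01473 : Good (Phi V5.P V5.D (-1) 1) ⟨2, 2, 2, 0, 2, 2, 2, 0, 4, 7⟩ :=
  out_sound (S := T5.ds_mp) T5.ok_mp (w := 24) (j := 1) (by decide +kernel)
theorem L01474 : Good (Phi V5.P V5.D (-1) 1) ⟨2, 2, 2, 0, 3, 4, 3, 2, 4, 7⟩ :=
  out_sound (S := T5.ds_mp) T5.ok_mp (w := 27) (j := 1) (by decide +kernel)
theorem L01475 : Good (Phi V5.P V5.D (-1) 1) ⟨2, 2, 2, 0, 4, 8, 3, 3, 5, 14⟩ :=
  out_sound (S := T5.ds_mp) T5.ok_mp (w := 31) (j := 1) (by decide +kernel)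
theorem L01476 : Good (Phi V5.P V5.D (-1) 1) ⟨2, 2, 2, 0, 4, 9, 4, 6, 5, 14⟩ :=
  out_sound (S := T5.ds_mp) T5.ok_mp (w := 32) (j := 1) (by decide +kernel)
theorem L01477 : Good (Phi V5.P V5.D (-1) 1) ⟨2, 2, 2, 0, 5, 18, 4, 7, 6, 28⟩ :=
  leafX_sound T5.ok_mp T5.Ymp.bz_eq (w := 268) (c := ⟨⟨.negSucc 1247, .negSucc 305, .ofNat 6, .negSucc 0, .negSucc 1, .ofNat 1⟩, ⟨.negSucc 33, .ofNat 272, .negSucc 238, .ofNat 0, .ofNat 48, .ofNat 0⟩, ⟨.ofNat 1310, .negSucc 353, .ofNat 38, .ofNat 0, .negSucc 356, .ofNat 0⟩, ⟨.negSucc 2821, .ofNat 127, .ofNat 37, .negSucc 0, .ofNat 49, .ofNat 1⟩, ⟨.negSucc 324, .ofNat 58, .ofNat 15, .ofNat 0, .ofNat 112, .ofNat 0⟩, .ofNat 169, .ofNat 5, .ofNat 0, .ofNat 5, .ofNat 234, .ofNat 0, .ofNat 128, .negSucc 13, .ofNat 16, .ofNat 0, .ofNat 149, .negSucc 31, .ofNat 0, .ofNat 0, .ofNat 1104, .ofNat 1687829, .ofNat 954302425082816819179206316459063507091018481355970314240,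 .ofNat 0, .ofNat 0, .ofNat 0, .ofNat 72256326317078523344458155980959782385844381311364497408, .ofNat 41730917114520531860192279287211588651633282939617280, .ofNat 1740124601715088530796094125613341093934759909307449344, .ofNat 0, .ofNat 71805144635430402671350349873225525627102829284765466624, .ofNat 236757916176924987444648574679193147827865021558292480, .ofNat 21610102247960089026013019066058609829581132531249446912, .ofNat 0, .ofNat 380762922505295561927819868325021371566880954599962836992, .ofNat 0, .ofNat 0, .ofNat 0⟩)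
    (by decide +kernel)
theorem L01478 : Good (Phi V5.P V5.D (-1) 1) ⟨2, 2, 2, 0, 5, 19, 6, 28, 7, 56⟩ :=
  out_sound (S := T5.ds_mp) T5.ok_mp (w := 40) (j := 1) (by decide +kernel)
theorem L01479 : Good (Phi V5.P V5.D (-1) 1) ⟨2, 2, 2, 0, 6, 38, 6, 29, 7, 56⟩ :=
  out_sound (S := T5.ds_mp) T5.ok_mp (w := 42) (j := 1) (by decide +kernel)
theorem L01480 : Good (Phi V5.P V5.D (-1) 1) ⟨2, 2, 2, 0, 6, 39, 6, 29, 7, 56⟩ :=
  out_sound (S := T5.ds_mp) T5.ok_mp (w := 52) (j := 2) (by decide +kernel)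
theorem L01481 : Good (Phi V5.P V5.D (-1) 1) ⟨2, 2, 2, 0, 5, 19, 5, 14, 7, 57⟩ :=
  out_sound (S := T5.ds_mp) T5.ok_mp (w := 39) (j := 1) (by decide +kernel)
theorem L01482 : Good (Phi V5.P V5.D (-1) 1) ⟨2, 2, 2, 0, 7, 76, 6, 30, 7, 56⟩ :=
  out_sound (S := T5.ds_mp) T5.ok_mp (w := 44) (j := 1) (by decide +kernel)
theorem L01483 : Good (Phi V5.P V5.D (-1) 1) ⟨2, 2, 2, 0, 8, 152, 8, 124, 9, 224⟩ :=
  out_sound (S := T5.ds_mp) T5.ok_mp (w := 52) (j := 1) (by decide +kernel)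
theorem L01484 : Good (Phi V5.P V5.D (-1) 1) ⟨2, 2, 2, 0, 8, 152, 9, 250, 10, 448⟩ :=
  out_sound (S := T5.ds_mp) T5.ok_mp (w := 55) (j := 1) (by decide +kernel)
theorem L01485 : Good (Phi V5.P V5.D (-1) 1) ⟨2, 2, 2, 0, 9, 304, 9, 251, 10, 448⟩ :=
  out_sound (S := T5.ds_mp) T5.ok_mp (w := 57) (j := 1) (by decide +kernel)
theorem L01486 : Good (Phi V5.P V5.D (-1) 1) ⟨2, 2, 2, 0, 9, 305, 9, 251, 10, 448⟩ :=
  out_sound (S := T5.ds_mp) T5.ok_mp (w := 70) (j := 2) (by decide +kernel)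
theorem L01487 : Good (Phi V5.P V5.D (-1) 1) ⟨2, 2, 2, 0, 8, 152, 8, 125, 10, 449⟩ :=
  out_sound (S := T5.ds_mp) T5.ok_mp (w := 54) (j := 1) (by decide +kernel)
theorem L01488 : Good (Phi V5.P V5.D (-1) 1) ⟨2, 2, 2, 0, 8, 152, 7, 62, 9, 225⟩ :=
  out_sound (S := T5.ds_mp) T5.ok_mp (w := 51) (j := 1) (by decide +kernel)
theorem L01489 : Good (Phi V5.P V5.D (-1) 1) ⟨2, 2, 2, 0, 10, 608, 9, 252, 10, 448⟩ :=
  out_sound (S := T5.ds_mp) T5.ok_mp (w := 59) (j := 1) (by decide +kernel)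
theorem L01490 : Good (Phi V5.P V5.D (-1) 1) ⟨2, 2, 2, 0, 11, 1216, 10, 506, 11, 896⟩ :=
  out_sound (S := T5.ds_mp) T5.ok_mp (w := 64) (j := 1) (by decide +kernel)
theorem L01491 : Good (Phi V5.P V5.D (-1) 1) ⟨2, 2, 2, 0, 11, 1216, 10, 507, 11, 896⟩ :=
  out_sound (S := T5.ds_mp) T5.ok_mp (w := 78) (j := 2) (by decide +kernel)
theorem L01492 : Good (Phi V5.P V5.D (-1) 1) ⟨2, 2, 2, 0, 11, 1217, 9, 253, 11, 896⟩ :=
  out_sound (S := T5.ds_mp) T5.ok_mp (w := 76) (j := 2) (by decide +kernel)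
theorem L01493 : Good (Phi V5.P V5.D (-1) 1) ⟨2, 2, 2, 0, 10, 608, 9, 253, 11, 897⟩ :=
  out_sound (S := T5.ds_mp) T5.ok_mp (w := 74) (j := 2) (by decide +kernel)
theorem L01494 : Good (Phi V5.P V5.D (-1) 1) ⟨2, 2, 2, 0, 10, 609, 8, 126, 10, 448⟩ :=
  out_sound (S := T5.ds_mp) T5.ok_mp (w := 70) (j := 2) (by decide +kernel)
theorem L01495 : Good (Phi V5.P V5.D (-1) 1) ⟨2, 2, 2, 0, 9, 304, 8, 126, 10, 449⟩ :=
  out_sound (S := T5.ds_mp) T5.ok_mp (w := 56) (j := 1) (by decide +kernel)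
theorem L01496 : Good (Phi V5.P V5.D (-1) 1) ⟨2, 2, 2, 0, 9, 304, 8, 127, 9, 224⟩ :=
  out_sound (S := T5.ds_mp) T5.ok_mp (w := 66) (j := 2) (by decide +kernel)
theorem L01497 : Good (Phi V5.P V5.D (-1) 1) ⟨2, 2, 2, 0, 9, 305, 7, 63, 9, 224⟩ :=
  out_sound (S := T5.ds_mp) T5.ok_mp (w := 64) (j := 2) (by decide +kernel)
theorem L01498 : Good (Phi V5.P V5.D (-1) 1) ⟨2, 2, 2, 0, 8, 152, 7, 63, 9, 225⟩ :=
  out_sound (S := T5.ds_mp) T5.ok_mp (w := 62) (j := 2) (by decide +kernel)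
theorem L01499 : Good (Phi V5.P V5.D (-1) 1) ⟨2, 2, 2, 0, 8, 153, 6, 31, 8, 112⟩ :=
  out_sound (S := T5.ds_mp) T5.ok_mp (w := 58) (j := 2) (by decide +kernel)
theorem L01500 : Good (Phi V5.P V5.D (-1) 1) ⟨2, 2, 2, 0, 7, 76, 6, 31, 8, 113⟩ :=
  out_sound (S := T5.ds_mp) T5.ok_mp (w := 56) (j := 2) (by decide +kernel)
theorem L01501 : Good (Phi V5.P V5.D (-1) 1) ⟨2, 2, 2, 0, 8, 154, 6, 30, 8, 112⟩ :=
  out_sound (S := T5.ds_mp) T5.ok_mp (w := 48) (j := 1) (by decide +kernel)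
theorem L01502 : Good (Phi V5.P V5.D (-1) 1) ⟨2, 2, 2, 0, 8, 155, 6, 30, 8, 112⟩ :=
  out_sound (S := T5.ds_mp) T5.ok_mp (w := 58) (j := 2) (by decide +kernel)
theorem L01503 : Good (Phi V5.P V5.D (-1) 1) ⟨2, 2, 2, 0, 7, 77, 6, 30, 8, 113⟩ :=
  out_sound (S := T5.ds_mp) T5.ok_mp (w := 46) (j := 1) (by decide +kernel)
theorem L01504 : Good (Phi V5.P V5.D (-1) 1) ⟨2, 2, 2, 0, 7, 77, 6, 31, 7, 56⟩ :=
  out_sound (S := T5.ds_mp) T5.ok_mp (w := 54) (j := 2) (by decide +kernel)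
theorem L01505 : Good (Phi V5.P V5.D (-1) 1) ⟨2, 2, 2, 0, 6, 38, 5, 15, 7, 57⟩ :=
  out_sound (S := T5.ds_mp) T5.ok_mp (w := 50) (j := 2) (by decide +kernel)
theorem L01506 : Good (Phi V5.P V5.D (-1) 1) ⟨2, 2, 2, 0, 6, 39, 5, 15, 6, 28⟩ :=
  out_sound (S := T5.ds_mp) T5.ok_mp (w := 48) (j := 2) (by decide +kernel)
theorem L01507 : Good (Phi V5.P V5.D (-1) 1) ⟨2, 2, 2, 0, 4, 9, 4, 7, 6, 29⟩ :=
  out_sound (S := T5.ds_mp) T5.ok_mp (w := 34) (j := 1) (by decide +kernel)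
theorem L01508 : Good (Phi V5.P V5.D (-1) 1) ⟨2, 2, 2, 0, 3, 4, 3, 3, 5, 15⟩ :=
  out_sound (S := T5.ds_mp) T5.ok_mp (w := 29) (j := 1) (by decide +kernel)
theorem L01509 : Good (Phi V5.P V5.D (-1) 1) ⟨2, 2, 2, 0, 4, 10, 3, 2, 5, 14⟩ :=
  out_sound (S := T5.ds_mp) T5.ok_mp (w := 31) (j := 1) (by decide +kernel)
theorem L01510 : Good (Phi V5.P V5.D (-1) 1) ⟨2, 2, 2, 0, 5, 20, 5, 12, 6, 28⟩ :=
  out_sound (S := T5.ds_mp) T5.ok_mp (w := 37) (j := 1) (by decide +kernel)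
theorem L01511 : Good (Phi V5.P V5.D (-1) 1) ⟨2, 2, 2, 0, 5, 20, 5, 13, 6, 28⟩ :=
  out_sound (S := T5.ds_mp) T5.ok_mp (w := 46) (j := 2) (by decide +kernel)
theorem L01512 : Good (Phi V5.P V5.D (-1) 1) ⟨2, 2, 2, 0, 5, 20, 4, 7, 6, 28⟩ :=
  out_sound (S := T5.ds_mp) T5.ok_mp (w := 44) (j := 2) (by decide +kernel)
theorem L01513 : Good (Phi V5.P V5.D (-1) 1) ⟨2, 2, 2, 0, 5, 20, 3, 3, 6, 29⟩ :=
  out_sound (S := T5.ds_mp) T5.ok_mp (w := 42) (j := 2) (by decide +kernel)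
theorem L01514 : Good (Phi V5.P V5.D (-1) 1) ⟨2, 2, 2, 0, 5, 21, 3, 3, 5, 14⟩ :=
  out_sound (S := T5.ds_mp) T5.ok_mp (w := 40) (j := 2) (by decide +kernel)
theorem L01515 : Good (Phi V5.P V5.D (-1) 1) ⟨2, 2, 2, 0, 4, 10, 2, 1, 5, 15⟩ :=
  out_sound (S := T5.ds_mp) T5.ok_mp (w := 36) (j := 2) (by decide +kernel)
theorem L01516 : Good (Phi V5.P V5.D (-1) 1) ⟨2, 2, 2, 0, 4, 11, 2, 1, 4, 7⟩ :=
  out_sound (S := T5.ds_mp) T5.ok_mp (w := 34) (j := 2) (by decide +kernel)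
theorem L01517 : Good (Phi V5.P V5.D (-1) 1) ⟨2, 2, 2, 0, 2, 3, 1, 0, 4, 7⟩ :=
  out_sound (S := T5.ds_mp) T5.ok_mp (w := 28) (j := 2) (by decide +kernel)
theorem L01518 : Good (Phi V5.P V5.D (-1) 1) ⟨2, 3, 2, 0, 1, 1, 1, 0, 4, 7⟩ :=
  out_sound (S := T5.ds_mp) T5.ok_mp (w := 37) (j := 3) (by decide +kernel)
theorem L01519 : Good (Phi V5.P V5.D (-1) 1) ⟨1, 1, 2, 0, 3, 4, 1, 0, 3, 4⟩ :=
  out_sound (S := T5.ds_mp) T5.ok_mp (w := 23) (j := 1) (by decide +kernel)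
theorem L01520 : Good (Phi V5.P V5.D (-1) 1) ⟨1, 1, 2, 0, 3, 5, 1, 0, 3, 4⟩ :=
  out_sound (S := T5.ds_mp) T5.ok_mp (w := 28) (j := 2) (by decide +kernel)
theorem L01521 : Good (Phi V5.P V5.D (-1) 1) ⟨1, 1, 2, 0, 2, 2, 1, 0, 3, 5⟩ :=
  out_sound (S := T5.ds_mp) T5.ok_mp (w := 21) (j := 1) (by decide +kernel)
theorem L01522 : Good (Phi V5.P V5.D (-1) 1) ⟨1, 1, 2, 0, 2, 2, 1, 0, 2, 3⟩ :=
  out_sound (S := T5.ds_mp) T5.ok_mp (w := 19) (j := 1) (by decide +kernel)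
theorem L01523 : Good (Phi V5.P V5.D (-1) 1) ⟨1, 1, 2, 0, 2, 3, 1, 0, 1, 1⟩ :=
  out_sound (S := T5.ds_mp) T5.ok_mp (w := 22) (j := 2) (by decide +kernel)
theorem L01524 : Good (Phi V5.P V5.D (-1) 1) ⟨3, 4, 3, 2, 3, 4, 4, 0, 5, 0⟩ :=
  leafX_sound T5.ok_mp T5.Ymp.bz_eq (w := 234) (c := ⟨⟨.ofNat 923, .ofNat 330, .negSucc 204, .ofNat 362, .ofNat 201, .negSucc 1223⟩, ⟨.ofNat 32, .negSucc 212, .ofNat 10, .negSucc 25, .ofNat 18, .negSucc 184⟩, ⟨.negSucc 112, .negSucc 76, .ofNat 157, .ofNat 173, .negSucc 280, .ofNat 432⟩, ⟨.ofNat 2294, .ofNat 300, .negSucc 219, .ofNat 867, .ofNat 336, .negSucc 2574⟩, ⟨.negSucc 1741, .negSucc 549, .negSucc 27, .negSucc 778, .ofNat 240, .negSucc 85⟩, .ofNat 332, .negSucc 58, .ofNat 0, .negSucc 58, .ofNat 634, .ofNat 0, .ofNat 447, .ofNat 34, .negSucc 86, .ofNat 0, .ofNat 128, .negSucc 1, .ofNat 0, .ofNat 0, .ofNat 284, .ofNat 20342, .ofNat 0,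 .ofNat 0, .ofNat 0, .ofNat 0, .ofNat 0, .ofNat 0, .ofNat 1416469390275751518887484732500423812824694784, .ofNat 0, .ofNat 0, .ofNat 0, .ofNat 0, .ofNat 0, .ofNat 0, .ofNat 0, .ofNat 0, .ofNat 0⟩)
    (by decide +kernel)
theorem L01525 : Good (Phi V5.P V5.D (-1) 1) ⟨3, 4, 3, 2, 3, 5, 4, 0, 5, 0⟩ :=
  leafX_sound T5.ok_mp T5.Ymp.bz_eq (w := 233) (c := ⟨⟨.ofNat 1245, .ofNat 614, .negSucc 240, .ofNat 233, .ofNat 196, .negSucc 1399⟩, ⟨.ofNat 17, .negSucc 257, .ofNat 26, .negSucc 5, .ofNat 70, .negSucc 219⟩, ⟨.ofNat 113, .negSucc 18, .ofNat 151, .negSucc 11, .negSucc 396, .ofNat 416⟩, ⟨.ofNat 3101, .ofNat 818, .negSucc 240, .ofNat 556, .ofNat 364, .negSucc 2943⟩, ⟨.negSucc 2476, .negSucc 918, .negSucc 31, .negSucc 449, .ofNat 365, .negSucc 20⟩, .ofNat 333, .negSucc 57, .ofNat 0, .negSucc 57, .ofNat 636, .ofNat 0, .ofNat 336, .ofNat 1, .negSucc 117, .ofNat 0, .ofNat 128, .negSucc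 8, .ofNat 0, .ofNat 0, .ofNat 327, .ofNat 11416, .ofNat 0, .ofNat 0, .ofNat 0, .ofNat 0, .ofNat 0, .ofNat 0, .ofNat 517240575003467470207923478345453135590326272, .ofNat 0, .ofNat 0, .ofNat 0, .ofNat 0, .ofNat 0, .ofNat 0, .ofNat 0, .ofNat 273068562656338792662233453204113392643604480, .ofNat 0⟩)
    (by decide +kernel)
theorem L01526 : Good (Phi V5.P V5.D (-1) 1) ⟨3, 4, 3, 2, 2, 2, 4, 0, 5, 1⟩ :=
  leafX_sound T5.ok_mp T5.Ymp.bz_eq (w := 219) (c := ⟨⟨.negSucc 66, .ofNat 85, .negSucc 200, .ofNat 372, .ofNat 89, .negSucc 1260⟩, ⟨.negSucc 149, .negSucc 152, .negSucc 86, .negSucc 71, .ofNat 40, .negSucc 115⟩, ⟨.ofNat 297, .ofNat 79, .ofNat 170, .ofNat 184, .negSucc 258, .ofNat 512⟩, ⟨.ofNat 125, .ofNat 80, .negSucc 198, .ofNat 898, .ofNat 172, .negSucc 2684⟩, ⟨.negSucc 1919, .negSucc 615, .negSucc 12, .negSucc 1169, .ofNat 255, .ofNat 366⟩, .ofNat 334, .negSucc 55, .ofNat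 0, .negSucc 55, .ofNat 641, .ofNat 0, .ofNat 470, .ofNat 10, .negSucc 115, .ofNat 0, .ofNat 128, .ofNat 3, .ofNat 0, .ofNat 0, .ofNat 341, .ofNat 11210, .ofNat 0, .ofNat 0, .ofNat 0, .ofNat 0, .ofNat 0, .ofNat 0, .ofNat 41769307129768637755540499550882358099968, .ofNat 0, .ofNat 0, .ofNat 0, .ofNat 0, .ofNat 0, .ofNat 180058827308985319149669990632633615253504000, .ofNat 0, .ofNat 18416388532527969200428482491271128023040, .ofNat 0⟩)
    (by decide +kernel)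
theorem L01527 : Good (Phi V5.P V5.D (-1) 1) ⟨3, 4, 3, 2, 3, 6, 4, 0, 4, 0⟩ :=
  leafX_sound T5.ok_mp T5.Ymp.bz_eq (w := 227) (c := ⟨⟨.ofNat 1519, .ofNat 500, .negSucc 230, .negSucc 389, .ofNat 248, .negSucc 2872⟩, ⟨.ofNat 7, .negSucc 201, .negSucc 34, .negSucc 2, .ofNat 111, .negSucc 377⟩, ⟨.negSucc 19, .negSucc 176, .ofNat 179, .ofNat 13, .negSucc 482, .ofNat 1521⟩, ⟨.ofNat 3539, .ofNat 798, .negSucc 240, .negSucc 1002, .ofNat 592, .negSucc 5923⟩, ⟨.negSucc 2676, .negSucc 942, .ofNat 18, .ofNat 908, .ofNat 161, .ofNat 62⟩, .ofNat 460, .negSucc 154, .ofNat 0, .negSucc 154, .ofNat 1288, .ofNat 0, .ofNat 429, .ofNat 39, .negSucc 184, .ofNat 0, .ofNat 128, .negSucc 19, .ofNat 0, .ofNat 0, .ofNat 422, .ofNat 5427, .ofNat 0, .ofNat 0, .ofNat 0, .ofNat 0, .ofNat 0, .ofNat 0, .ofNat 0, .ofNat 0, .ofNat 0, .ofNat 0, .ofNat 0, .ofNat 0, .ofNat 0, .ofNat 0, .ofNat 2741191761505996117033843030567602792431616,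 .ofNat 0⟩)
    (by decide +kernel)
theorem L01528 : Good (Phi V5.P V5.D (-1) 1) ⟨3, 4, 3, 2, 3, 7, 4, 0, 4, 0⟩ :=
  leafX_sound T5.ok_mp T5.Ymp.bz_eq (w := 227) (c := ⟨⟨.ofNat 924, .negSucc 585, .negSucc 300, .negSucc 1186, .ofNat 421, .negSucc 2268⟩, ⟨.negSucc 14, .negSucc 19, .negSucc 88, .ofNat 182, .ofNat 34, .negSucc 366⟩, ⟨.ofNat 45, .ofNat 450, .ofNat 139, .negSucc 29, .negSucc 365, .ofNat 1273⟩, ⟨.ofNat 2042, .negSucc 993, .negSucc 539, .negSucc 2849, .ofNat 785, .negSucc 4695⟩, ⟨.negSucc 1409, .negSucc 87, .negSucc 23, .ofNat 3106, .ofNat 191, .negSucc 471⟩, .ofNat 456, .negSucc 146, .ofNat 0, .negSucc 146, .ofNat 1274, .ofNat 0, .ofNat 464, .ofNat 38, .negSucc 270, .ofNat 0, .ofNat 128, .negSucc 20, .ofNat 0, .ofNat 0, .ofNat 483, .ofNat 5781, .ofNat 0, .ofNat 0, .ofNat 0, .ofNat 0, .ofNat 0, .ofNat 0, .ofNat 0, .ofNat 0, .ofNat 0, .ofNat 0, .ofNat 2826776409784496852684370375783309880852480,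 .ofNat 0, .ofNat 0, .ofNat 0, .ofNat 24156766599319647360360217256696595456458752, .ofNat 0⟩)
    (by decide +kernel)
theorem L01529 : Good (Phi V5.P V5.D (-1) 1) ⟨3, 4, 3, 2, 2, 2, 4, 0, 4, 1⟩ :=
  leafX_sound T5.ok_mp T5.Ymp.bz_eq (w := 214) (c := ⟨⟨.negSucc 777, .negSucc 458, .negSucc 98, .negSucc 201, .negSucc 22, .negSucc 1317⟩, ⟨.negSucc 321, .ofNat 10, .negSucc 191, .negSucc 62, .ofNat 37, .negSucc 106⟩, ⟨.ofNat 450, .ofNat 422, .ofNat 248, .ofNat 467, .negSucc 198, .ofNat 1079⟩, ⟨.negSucc 1587, .negSucc 668, .negSucc 80, .negSucc 304, .negSucc 20, .negSucc 2813⟩, ⟨.negSucc 2028, .negSucc 120, .ofNat 93, .negSucc 479, .ofNat 134, .ofNat 717⟩, .ofNat 463, .negSucc 160, .ofNat 0, .negSucc 160, .ofNat 1292, .ofNat 0, .ofNat 442, .ofNat 64, .negSucc 99, .ofNat 0, .ofNat 128, .ofNat 0, .ofNat 0, .ofNat 0, .ofNat 413, .ofNat 13687, .ofNat 0, .ofNat 0, .ofNat 0, .ofNat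 0, .ofNat 0, .ofNat 0, .ofNat 5229797706993569058716673343472648847360, .ofNat 0, .ofNat 89027271992681551237497861048410634404757504, .ofNat 0, .ofNat 0, .ofNat 0, .ofNat 37137479368492952044985106012004389283168256, .ofNat 0, .ofNat 759425095654133761432258119827852361728, .ofNat 0⟩)
    (by decide +kernel)
theorem L01530 : Good (Phi V5.P V5.D (-1) 1) ⟨3, 4, 3, 2, 2, 3, 4, 0, 4, 1⟩ :=
  leafX_sound T5.ok_mp T5.Ymp.bz_eq (w := 213) (c := ⟨⟨.negSucc 1201, .negSucc 845, .negSucc 93, .negSucc 493, .ofNat 10, .negSucc 921⟩, ⟨.negSucc 394, .ofNat 84, .negSucc 253, .ofNat 148, .ofNat 19, .negSucc 108⟩, ⟨.ofNat 1402, .ofNat 825, .ofNat 233, .negSucc 619, .negSucc 198, .ofNat 781⟩, ⟨.negSucc 2386, .negSucc 1219, .negSucc 102, .negSucc 1403, .ofNat 15, .negSucc 1990⟩, ⟨.negSucc 2427, .ofNat 44, .negSucc 121, .ofNat 2349, .ofNat 163, .ofNat 356⟩, .ofNat 461, .negSucc 154, .ofNat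 0, .negSucc 154, .ofNat 1287, .ofNat 0, .ofNat 694, .ofNat 18, .negSucc 237, .ofNat 0, .ofNat 128, .negSucc 5, .ofNat 0, .ofNat 0, .ofNat 598, .ofNat 5289, .ofNat 0, .ofNat 0, .ofNat 0, .ofNat 0, .ofNat 0, .ofNat 0, .ofNat 7084020161755383117226930330843654127616, .ofNat 0, .ofNat 0, .ofNat 0, .ofNat 933792708433551619127066389455795388416, .ofNat 0, .ofNat 0, .ofNat 0, .ofNat 1031839075475570304165061078193256005632, .ofNat 0⟩)
    (by decide +kernel)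
theorem L01531 : Good (Phi V5.P V5.D (-1) 1) ⟨3, 5, 3, 2, 1, 1, 4, 0, 3, 0⟩ :=
  out_sound (S := T5.ds_mp) T5.ok_mp (w := 45) (j := 3) (by decide +kernel)
theorem L01532 : Good (Phi V5.P V5.D (-1) 1) ⟨3, 4, 3, 2, 2, 2, 4, 1, 4, 0⟩ :=
  leafX_sound T5.ok_mp T5.Ymp.bz_eq (w := 213) (c := ⟨⟨.ofNat 1194, .ofNat 271, .negSucc 225, .ofNat 642, .ofNat 180, .negSucc 2491⟩, ⟨.ofNat 73, .negSucc 190, .ofNat 0, .negSucc 37, .ofNat 46, .negSucc 349⟩, ⟨.negSucc 357, .ofNat 14, .ofNat 241, .negSucc 16, .negSucc 388, .ofNat 1026⟩, ⟨.ofNat 2810, .ofNat 348, .negSucc 203, .ofNat 1416, .ofNat 310, .negSucc 5326⟩, ⟨.negSucc 1570, .negSucc 539, .negSucc 109, .negSucc 1106, .ofNat 386, .negSucc 23⟩, .ofNat 332, .negSucc 54, .ofNat 0, .negSucc 54, .ofNat 636, .ofNat 0, .ofNat 434, .ofNat 21, .negSucc 145, .ofNat 0, .ofNat 128, .ofNat 0, .ofNat 0, .ofNat 0, .ofNat 336, .ofNat 3812, .ofNat 0,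 .ofNat 0, .ofNat 0, .ofNat 0, .ofNat 0, .ofNat 0, .ofNat 392294949925071546501795884856487444480, .ofNat 0, .ofNat 0, .ofNat 0, .ofNat 0, .ofNat 0, .ofNat 0, .ofNat 0, .ofNat 397399119881000412925860667490251571200, .ofNat 0⟩)
    (by decide +kernel)
theorem L01533 : Good (Phi V5.P V5.D (-1) 1) ⟨3, 4, 3, 2, 2, 3, 4, 1, 4, 0⟩ :=
  leafX_sound T5.ok_mp T5.Ymp.bz_eq (w := 213) (c := ⟨⟨.ofNat 2021, .ofNat 232, .negSucc 212, .negSucc 1723, .ofNat 372, .negSucc 2950⟩, ⟨.ofNat 39, .negSucc 129, .negSucc 33, .ofNat 190, .ofNat 54, .negSucc 417⟩, ⟨.negSucc 528, .negSucc 204, .ofNat 153, .ofNat 516, .negSucc 385, .ofNat 1492⟩, ⟨.ofNat 4507, .ofNat 399, .negSucc 204, .negSucc 4106, .ofNat 684, .negSucc 5973⟩, ⟨.negSucc 2425, .negSucc 727, .negSucc 355, .ofNat 4119, .ofNat 207, .negSucc 590⟩, .ofNat 459, .negSucc 150, .ofNat 0, .negSucc 150, .ofNat 1293, .ofNat 0, .ofNat 520, .ofNat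 55, .negSucc 237, .ofNat 0, .ofNat 128, .negSucc 17, .ofNat 0, .ofNat 0, .ofNat 454, .ofNat 2027, .ofNat 0, .ofNat 0, .ofNat 0, .ofNat 0, .ofNat 0, .ofNat 0, .ofNat 0, .ofNat 0, .ofNat 0, .ofNat 0, .ofNat 377634026222410943700759147219276267520, .ofNat 0, .ofNat 0, .ofNat 0, .ofNat 861499821041838873596685748697733005312, .ofNat 0⟩)
    (by decide +kernel)
theorem L01534 : Good (Phi V5.P V5.D (-1) 1) ⟨3, 4, 3, 2, 1, 1, 4, 1, 4, 1⟩ :=
  leafX_sound T5.ok_mp T5.Ymp.bz_eq (w := 198) (c := ⟨⟨.negSucc 910, .negSucc 719, .negSucc 150, .negSucc 551, .ofNat 79, .negSucc 1002⟩, ⟨.negSucc 305, .ofNat 51, .negSucc 244, .ofNat 29, .ofNat 2, .negSucc 122⟩, ⟨.ofNat 614, .ofNat 871, .ofNat 333, .negSucc 212, .negSucc 112, .ofNat 943⟩, ⟨.negSucc 1730, .negSucc 1028, .negSucc 239, .negSucc 1520, .ofNat 172, .negSucc 2111⟩, ⟨.negSucc 2194, .negSucc 99, .negSucc 36, .ofNat 1594, .negSucc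 37, .ofNat 216⟩, .ofNat 461, .negSucc 156, .ofNat 0, .negSucc 156, .ofNat 1291, .ofNat 0, .ofNat 500, .ofNat 55, .negSucc 180, .ofNat 0, .ofNat 128, .negSucc 2, .ofNat 0, .ofNat 0, .ofNat 525, .ofNat 1369, .ofNat 0, .ofNat 0, .ofNat 0, .ofNat 0, .ofNat 0, .ofNat 0, .ofNat 0, .ofNat 0, .ofNat 0, .ofNat 0, .ofNat 0, .ofNat 0, .ofNat 0, .ofNat 0, .ofNat 46720370289925681006448877252902912, .ofNat 0⟩)
    (by decide +kernel)
theorem L01535 : Good (Phi V5.P V5.D (-1) 1) ⟨3, 5, 3, 2, 1, 1, 4, 1, 3, 0⟩ :=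
  out_sound (S := T5.ds_mp) T5.ok_mp (w := 45) (j := 3) (by decide +kernel)
theorem L01536 : Good (Phi V5.P V5.D (-1) 1) ⟨3, 4, 3, 2, 1, 1, 3, 1, 4, 0⟩ :=
  leafX_sound T5.ok_mp T5.Ymp.bz_eq (w := 194) (c := ⟨⟨.ofNat 1545, .ofNat 559, .negSucc 32, .negSucc 263, .ofNat 283, .negSucc 3161⟩, ⟨.ofNat 51, .negSucc 123, .negSucc 3, .ofNat 198, .ofNat 89, .negSucc 451⟩, ⟨.negSucc 624, .negSucc 245, .ofNat 36, .negSucc 76, .negSucc 285, .ofNat 1528⟩, ⟨.ofNat 3734, .ofNat 903, .ofNat 37, .negSucc 1065, .ofNat 643, .negSucc 6489⟩, ⟨.negSucc 2276, .negSucc 724, .negSucc 213, .ofNat 2545, .ofNat 127, .negSucc 106⟩, .ofNat 456, .negSucc 147, .ofNat 0, .negSucc 147, .ofNat 1274, .ofNat 0, .ofNat 502, .ofNat 78, .negSucc 225, .ofNat 0, .ofNat 128, .negSucc 12, .ofNat 0, .ofNat 0, .ofNat 459, .ofNat 488, .ofNat 0, .ofNat 0, .ofNat 19086307989109537443774323490816, .ofNat 0, .ofNat 0,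 .ofNat 0, .ofNat 0, .ofNat 0, .ofNat 0, .ofNat 0, .ofNat 0, .ofNat 0, .ofNat 0, .ofNat 0, .ofNat 3498533285017922448509113492045824, .ofNat 0⟩)
    (by decide +kernel)
theorem L01537 : Good (Phi V5.P V5.D (-1) 1) ⟨3, 4, 3, 2, 1, 1, 3, 1, 4, 1⟩ :=
  leafX_sound T5.ok_mp T5.Ymp.bz_eq (w := 194) (c := ⟨⟨.negSucc 640, .negSucc 863, .negSucc 90, .negSucc 683, .negSucc 7, .negSucc 1210⟩, ⟨.negSucc 348, .ofNat 132, .negSucc 223, .ofNat 39, .ofNat 24, .negSucc 119⟩, ⟨.ofNat 534, .ofNat 665, .negSucc 1, .negSucc 57, .negSucc 133, .ofNat 1095⟩, ⟨.negSucc 1319, .negSucc 1288, .negSucc 236, .negSucc 1472, .negSucc 102, .negSucc 2519⟩, ⟨.negSucc 2382, .ofNat 435, .ofNat 338, .ofNat 1044, .ofNat 399, .ofNat 404⟩, .ofNat 532, .negSucc 259, .ofNat 0, .negSucc 259, .ofNat 1948, .ofNat 0, .ofNat 567, .ofNat 84, .negSucc 242, .ofNat 0, .ofNat 128, .negSucc 9, .ofNat 0, .ofNat 0, .ofNat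 613, .ofNat 925, .ofNat 0, .ofNat 0, .ofNat 0, .ofNat 0, .ofNat 0, .ofNat 0, .ofNat 24415389078705055706410775797039104, .ofNat 0, .ofNat 0, .ofNat 0, .ofNat 1633342889615650746765941755871232, .ofNat 0, .ofNat 0, .ofNat 0, .ofNat 6336729206256681316865923321167872, .ofNat 0⟩)
    (by decide +kernel)
theorem L01538 : Good (Phi V5.P V5.D (-1) 1) ⟨3, 5, 3, 2, 1, 1, 3, 1, 3, 0⟩ :=
  out_sound (S := T5.ds_mp) T5.ok_mp (w := 45) (j := 3) (by decide +kernel)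
theorem L01539 : Good (Phi V5.P V5.D (-1) 1) ⟨3, 4, 3, 2, 2, 2, 2, 1, 4, 0⟩ :=
  leafX_sound T5.ok_mp T5.Ymp.bz_eq (w := 205) (c := ⟨⟨.ofNat 1295, .ofNat 396, .negSucc 270, .ofNat 1148, .negSucc 341, .negSucc 2755⟩, ⟨.ofNat 187, .negSucc 193, .ofNat 1, .ofNat 39, .negSucc 7, .negSucc 401⟩, ⟨.negSucc 746, .negSucc 182, .ofNat 262, .negSucc 697, .negSucc 129, .ofNat 1517⟩, ⟨.ofNat 2939, .ofNat 464, .negSucc 354, .ofNat 2360, .negSucc 734, .negSucc 5607⟩, ⟨.negSucc 879, .negSucc 295, .negSucc 62, .negSucc 645, .ofNat 344, .negSucc 518⟩, .ofNat 460, .negSucc 154, .ofNat 0, .negSucc 154, .ofNat 1289, .ofNat 0, .ofNat 376, .ofNat 96, .negSucc 226, .ofNat 0, .ofNat 128, .negSucc 14, .ofNat 0, .ofNat 0, .ofNat 401, .ofNat 873, .ofNat 0, .ofNat 0, .ofNat 0, .ofNat 0, .ofNat 0, .ofNat 0, .ofNat 0, .ofNat 0, .ofNat 0, .ofNat 0, .ofNat 0, .ofNat 0, .ofNat 0, .ofNat 0, .ofNat 1589247276046047213365458694410600448,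 .ofNat 0⟩)
    (by decide +kernel)
theorem L01540 : Good (Phi V5.P V5.D (-1) 1) ⟨3, 4, 3, 2, 2, 3, 2, 1, 4, 0⟩ :=
  leafX_sound T5.ok_mp T5.Ymp.bz_eq (w := 205) (c := ⟨⟨.ofNat 2299, .ofNat 689, .negSucc 124, .negSucc 1042, .ofNat 72, .negSucc 2982⟩, ⟨.ofNat 297, .negSucc 152, .ofNat 62, .ofNat 68, .negSucc 28, .negSucc 558⟩, ⟨.negSucc 1401, .negSucc 490, .ofNat 57, .ofNat 700, .negSucc 243, .ofNat 1664⟩, ⟨.ofNat 4984, .ofNat 1077, .ofNat 52, .negSucc 2316, .ofNat 86, .negSucc 5952⟩, ⟨.negSucc 807, .negSucc 408, .negSucc 609, .ofNat 1788, .negSucc 93, .negSucc 1419⟩, .ofNat 540, .negSucc 277, .ofNat 0, .negSucc 277, .ofNat 1998, .ofNat 0, .ofNat 462, .ofNat 128, .negSucc 394, .ofNat 0, .ofNat 127, .negSucc 27, .ofNat 0, .ofNat 0, .ofNat 564, .ofNat 440, .ofNat 0, .ofNat 0, .ofNat 90685616066637626417658505728098304, .ofNat 0, .ofNat 0, .ofNat 0, .ofNat 0, .ofNat 0, .ofNat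 0, .ofNat 0, .ofNat 0, .ofNat 0, .ofNat 0, .ofNat 0, .ofNat 7877856789877622490170307337944825856, .ofNat 0⟩)
    (by decide +kernel)
theorem L01541 : Good (Phi V5.P V5.D (-1) 1) ⟨3, 4, 3, 2, 2, 2, 2, 1, 4, 1⟩ :=
  leafX_sound T5.ok_mp T5.Ymp.bz_eq (w := 204) (c := ⟨⟨.negSucc 833, .negSucc 665, .negSucc 74, .negSucc 67, .negSucc 16, .negSucc 1186⟩, ⟨.negSucc 247, .ofNat 84, .negSucc 189, .negSucc 67, .ofNat 34, .negSucc 144⟩, ⟨.ofNat 336, .ofNat 571, .ofNat 136, .negSucc 132, .negSucc 71, .ofNat 990⟩, ⟨.negSucc 1790, .negSucc 921, .negSucc 49, .negSucc 12, .negSucc 79, .negSucc 2561⟩, ⟨.negSucc 1265, .ofNat 17, .ofNat 7, .negSucc 697, .ofNat 289, .ofNat 502⟩, .ofNat 456, .negSucc 147, .ofNat 0, .negSucc 147, .ofNat 1275, .ofNat 0, .ofNat 547, .ofNat 79, .negSucc 214, .ofNat 0, .ofNat 128, .negSucc 4, .ofNat 0, .ofNat 0, .ofNat 460, .ofNat 1331, .ofNat 0, .ofNat 0, .ofNat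 0, .ofNat 0, .ofNat 0, .ofNat 0, .ofNat 20478924727605423945823546204653355008, .ofNat 0, .ofNat 0, .ofNat 0, .ofNat 0, .ofNat 0, .ofNat 0, .ofNat 0, .ofNat 6515743858779675222515268405946220544, .ofNat 0⟩)
    (by decide +kernel)
theorem L01542 : Good (Phi V5.P V5.D (-1) 1) ⟨3, 4, 3, 2, 2, 3, 2, 1, 5, 2⟩ :=
  leafX_sound T5.ok_mp T5.Ymp.bz_eq (w := 209) (c := ⟨⟨.negSucc 458, .negSucc 899, .negSucc 373, .negSucc 625, .ofNat 71, .negSucc 882⟩, ⟨.negSucc 242, .ofNat 37, .negSucc 175, .ofNat 45, .negSucc 5, .negSucc 131⟩, ⟨.ofNat 4, .ofNat 728, .ofNat 256, .ofNat 300, .negSucc 82, .ofNat 631⟩, ⟨.negSucc 873, .negSucc 1582, .negSucc 714, .negSucc 1397, .ofNat 128, .negSucc 1838⟩, ⟨.negSucc 1889, .ofNat 476, .ofNat 293, .ofNat 1111, .negSucc 56, .ofNat 16⟩, .ofNat 535, .negSucc 262, .ofNat 0, .negSucc 262, .ofNat 1983, .ofNat 0, .ofNat 502, .ofNat 107, .negSucc 401, .ofNat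 0, .ofNat 128, .negSucc 16, .ofNat 0, .ofNat 0, .ofNat 593, .ofNat 612, .ofNat 0, .ofNat 0, .ofNat 0, .ofNat 0, .ofNat 0, .ofNat 0, .ofNat 0, .ofNat 0, .ofNat 0, .ofNat 0, .ofNat 127460660684603578672876471694816968704, .ofNat 0, .ofNat 0, .ofNat 0, .ofNat 369559364329945687868291484301500874752, .ofNat 0⟩)
    (by decide +kernel)
theorem L01543 : Good (Phi V5.P V5.D (-1) 1) ⟨3, 4, 3, 2, 2, 3, 2, 1, 5, 3⟩ :=
  leafX_sound T5.ok_mp T5.Ymp.bz_eq (w := 210) (c := ⟨⟨.negSucc 1965, .negSucc 789, .negSucc 238, .negSucc 97, .ofNat 302, .negSucc 88⟩, ⟨.negSucc 375, .ofNat 96, .negSucc 251, .ofNat 38, .ofNat 1, .negSucc 47⟩, ⟨.ofNat 1142, .ofNat 678, .ofNat 202, .negSucc 205, .negSucc 318, .ofNat 120⟩, ⟨.negSucc 4106, .negSucc 1119, .negSucc 474, .negSucc 339, .ofNat 638, .negSucc 174⟩, ⟨.negSucc 1122, .ofNat 53, .ofNat 134, .ofNat 686, .negSucc 324, .negSucc 290⟩, .ofNat 462,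 .negSucc 161, .ofNat 0, .negSucc 161, .ofNat 1286, .ofNat 0, .ofNat 449, .ofNat 72, .negSucc 404, .ofNat 0, .ofNat 128, .negSucc 2, .ofNat 0, .ofNat 0, .ofNat 648, .ofNat 942, .ofNat 0, .ofNat 0, .ofNat 2950004748849898978149558482620121088, .ofNat 0, .ofNat 0, .ofNat 0, .ofNat 263864518497601850046997280616565702656, .ofNat 0, .ofNat 0, .ofNat 0, .ofNat 0, .ofNat 0, .ofNat 0, .ofNat 0, .ofNat 317009215392486895834888583149793574912, .ofNat 0⟩)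
    (by decide +kernel)
theorem L01544 : Good (Phi V5.P V5.D (-1) 1) ⟨3, 5, 3, 2, 1, 1, 2, 1, 3, 0⟩ :=
  out_sound (S := T5.ds_mp) T5.ok_mp (w := 45) (j := 3) (by decide +kernel)
theorem L01545 : Good (Phi V5.P V5.D (-1) 1) ⟨4, 8, 3, 3, 2, 2, 4, 0, 4, 0⟩ :=
  leafX_sound T5.ok_mp T5.Ymp.bz_eq (w := 218) (c := ⟨⟨.ofNat 856, .ofNat 102, .negSucc 197, .ofNat 277, .ofNat 214, .negSucc 2319⟩, ⟨.ofNat 74, .negSucc 89, .negSucc 73, .negSucc 25, .ofNat 68, .negSucc 548⟩, ⟨.negSucc 1, .ofNat 72, .ofNat 257, .ofNat 200, .negSucc 326, .ofNat 964⟩, ⟨.ofNat 2349, .ofNat 152, .negSucc 181, .ofNat 818, .ofNat 382, .negSucc 5062⟩, ⟨.negSucc 1984, .negSucc 355, .negSucc 103, .negSucc 947, .ofNat 276, .ofNat 260⟩, .ofNat 509, .negSucc 270, .ofNat 0, .negSucc 270, .ofNat 1321, .ofNat 0, .ofNat 349, .ofNat 128, .negSucc 68, .ofNat 0, .ofNat 128, .negSucc 12, .ofNat 0, .ofNat 0, .ofNat 302,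 .ofNat 14470, .ofNat 0, .ofNat 0, .ofNat 0, .ofNat 0, .ofNat 0, .ofNat 0, .ofNat 0, .ofNat 0, .ofNat 0, .ofNat 0, .ofNat 698472815751572768661582057347401908224, .ofNat 0, .ofNat 0, .ofNat 0, .ofNat 177362088445266723220511123673280675840, .ofNat 0⟩)
    (by decide +kernel)
theorem L01546 : Good (Phi V5.P V5.D (-1) 1) ⟨4, 8, 3, 3, 2, 2, 4, 1, 4, 0⟩ :=
  leafX_sound T5.ok_mp T5.Ymp.bz_eq (w := 218) (c := ⟨⟨.ofNat 974, .ofNat 226, .negSucc 91, .ofNat 391, .ofNat 142, .negSucc 2437⟩, ⟨.ofNat 117, .negSucc 43, .ofNat 7, .ofNat 5, .ofNat 46, .negSucc 591⟩, ⟨.negSucc 197, .negSucc 58, .ofNat 118, .ofNat 17, .negSucc 261, .ofNat 1093⟩, ⟨.ofNat 2593, .ofNat 332, .ofNat 0, .ofNat 1059, .ofNat 220, .negSucc 5289⟩, ⟨.negSucc 1752, .negSucc 191, .negSucc 51, .negSucc 960, .ofNat 298, .ofNat 150⟩, .ofNat 508, .negSucc 268, .ofNat 0, .negSucc 268, .ofNat 1322, .ofNat 0, .ofNat 365,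 .ofNat 128, .negSucc 75, .ofNat 0, .ofNat 127, .negSucc 12, .ofNat 0, .ofNat 0, .ofNat 262, .ofNat 6253, .ofNat 0, .ofNat 0, .ofNat 0, .ofNat 0, .ofNat 0, .ofNat 0, .ofNat 0, .ofNat 0, .ofNat 0, .ofNat 0, .ofNat 411876670230540658185332498510748057600, .ofNat 0, .ofNat 0, .ofNat 0, .ofNat 36425033889783611370258646608711254016, .ofNat 0⟩)
    (by decide +kernel)

end Crest.Agent.R097C5.N5mp
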