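import Crest.Agent.R097.KP7
import Crest.Agent.R097.T5Ymp

/-!
# Row 97, box cover in dimension n = 5 (generated)
-/

set_option autoImplicit false
set_option Elab.async false
set_option maxHeartbeats 0
set_option maxRecDepth 100000

open Crest.Agent.R097 Crest.Agent.R097.KA


namespace Crest.Agent.R097C5.N5mp

theorem L01547 : Good (Phi V5.P V5.D (-1) 1) ⟨4, 8, 3, 3, 2, 2, 3, 1, 4, 0⟩ :=
  leafX_sound T5.ok_mp T5.Ymp.bz_eq (w := 213) (c := ⟨⟨.ofNat 1120, .negSucc 28, .ofNat 15, .ofNat 589, .ofNat 173, .negSucc 2516⟩, ⟨.ofNat 172, .negSucc 101, .ofNat 6, .ofNat 87, .ofNat 101, .negSucc 641⟩, ⟨.negSucc 397, .ofNat 29, .ofNat 60, .negSucc 226, .negSucc 375, .ofNat 1223⟩, ⟨.ofNat 2809, .negSucc 144, .ofNat 121, .ofNat 1478, .ofNat 276, .negSucc 5417⟩, ⟨.negSucc 1416, .negSucc 484, .ofNat 38, .negSucc 697, .ofNat 497, .negSucc 85⟩, .ofNat 505, .negSucc 262, .ofNat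 0, .negSucc 262, .ofNat 1317, .ofNat 0, .ofNat 216, .ofNat 128, .negSucc 85, .ofNat 0, .ofNat 127, .negSucc 12, .ofNat 0, .ofNat 0, .ofNat 230, .ofNat 1934, .ofNat 0, .ofNat 0, .ofNat 0, .ofNat 0, .ofNat 0, .ofNat 0, .ofNat 29034900596542144816338877700913496064, .ofNat 0, .ofNat 0, .ofNat 0, .ofNat 0, .ofNat 0, .ofNat 0, .ofNat 0, .ofNat 0, .ofNat 0⟩)
    (by decide +kernel)
theorem L01548 : Good (Phi V5.P V5.D (-1) 1) ⟨4, 8, 3, 3, 2, 3, 2, 0, 4, 0⟩ :=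
  leafX_sound T5.ok_mp T5.Ymp.bz_eq (w := 209) (c := ⟨⟨.ofNat 1208, .ofNat 131, .negSucc 96, .negSucc 1443, .ofNat 1108, .negSucc 2486⟩, ⟨.ofNat 42, .negSucc 25, .negSucc 66, .ofNat 58, .ofNat 285, .negSucc 638⟩, ⟨.ofNat 147, .negSucc 240, .ofNat 290, .ofNat 84, .negSucc 1211, .ofNat 1303⟩, ⟨.ofNat 3307, .ofNat 311, .negSucc 61, .negSucc 4056, .ofNat 2182, .negSucc 5238⟩, ⟨.negSucc 2960, .negSucc 422, .negSucc 141, .ofNat 4239, .ofNat 636, .negSucc 352⟩, .ofNat 646, .negSucc 521, .ofNat 0, .negSucc 521, .ofNat 2080, .ofNat 0, .ofNat 267, .ofNat 128, .negSucc 241, .ofNat 0, .ofNat 92, .negSucc 53, .ofNat 0, .ofNat 0, .ofNat 461, .ofNat 1128, .ofNat 0, .ofNat 0, .ofNat 0, .ofNat 0, .ofNat 113383764199933129617819080010647298113536, .ofNat 0, .ofNat 2193953519356281752907491209593749504, .ofNat 0, .ofNat 0, .ofNat 0, .ofNat 937832063441004483474723707010678784,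 .ofNat 0, .ofNat 0, .ofNat 0, .ofNat 1052332642499158243722720568181522432, .ofNat 0⟩)
    (by decide +kernel)
theorem L01549 : Good (Phi V5.P V5.D (-1) 1) ⟨4, 8, 3, 3, 2, 2, 2, 0, 4, 1⟩ :=
  leafX_sound T5.ok_mp T5.Ymp.bz_eq (w := 208) (c := ⟨⟨.negSucc 1087, .negSucc 326, .negSucc 102, .negSucc 185, .ofNat 68, .negSucc 1015⟩, ⟨.negSucc 441, .negSucc 18, .negSucc 192, .negSucc 66, .ofNat 67, .negSucc 187⟩, ⟨.ofNat 814, .ofNat 253, .ofNat 151, .ofNat 345, .negSucc 594, .ofNat 995⟩, ⟨.negSucc 2020, .negSucc 474, .negSucc 27, .negSucc 248, .ofNat 63, .negSucc 2377⟩, ⟨.negSucc 1852, .negSucc 126, .negSucc 96, .negSucc 477, .ofNat 447, .ofNat 720⟩, .ofNat 507, .negSucc 266, .ofNat 0, .negSucc 266, .ofNat 1318, .ofNat 0, .ofNat 242, .ofNat 117, .negSucc 130, .ofNat 0, .ofNat 128, .negSucc 12, .ofNat 0, .ofNat 0, .ofNat 463, .ofNat 1583, .ofNat 0, .ofNat 0, .ofNat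 0, .ofNat 0, .ofNat 0, .ofNat 0, .ofNat 976158057590157322381638019449880576, .ofNat 0, .ofNat 0, .ofNat 0, .ofNat 0, .ofNat 0, .ofNat 0, .ofNat 0, .ofNat 0, .ofNat 0⟩)
    (by decide +kernel)
theorem L01550 : Good (Phi V5.P V5.D (-1) 1) ⟨4, 8, 3, 3, 2, 3, 2, 0, 4, 1⟩ :=
  leafX_sound T5.ok_mp T5.Ymp.bz_eq (w := 208) (c := ⟨⟨.negSucc 1414, .negSucc 342, .negSucc 165, .negSucc 396, .ofNat 175, .negSucc 893⟩, ⟨.negSucc 561, .ofNat 24, .negSucc 255, .ofNat 83, .ofNat 45, .negSucc 171⟩, ⟨.ofNat 1645, .ofNat 255, .ofNat 251, .negSucc 644, .negSucc 652, .ofNat 721⟩, ⟨.negSucc 2671, .negSucc 456, .negSucc 260, .negSucc 1297, .ofNat 375, .negSucc 1961⟩, ⟨.negSucc 2203, .negSucc 16, .negSucc 6, .ofNat 1890, .ofNat 20, .ofNat 329⟩, .ofNat 704, .negSucc 656, .ofNat 0, .negSucc 656, .ofNat 2696, .ofNat 0, .ofNat 295, .ofNat 128, .negSucc 156, .ofNat 0, .ofNat 105, .negSucc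 23, .ofNat 0, .ofNat 0, .ofNat 403, .ofNat 1170, .ofNat 0, .ofNat 0, .ofNat 0, .ofNat 0, .ofNat 0, .ofNat 0, .ofNat 3557616785278980234553260938914430976, .ofNat 0, .ofNat 0, .ofNat 0, .ofNat 2161701797892863428169863706588479488, .ofNat 0, .ofNat 0, .ofNat 0, .ofNat 355292804759322920742501973716107264, .ofNat 0⟩)
    (by decide +kernel)
theorem L01551 : Good (Phi V5.P V5.D (-1) 1) ⟨4, 8, 3, 3, 1, 1, 2, 1, 4, 0⟩ :=
  leafX_sound T5.ok_mp T5.Ymp.bz_eq (w := 194) (c := ⟨⟨.ofNat 1633, .negSucc 47, .negSucc 391, .ofNat 332, .ofNat 25, .negSucc 3052⟩, ⟨.ofNat 294, .negSucc 50, .negSucc 47, .ofNat 139, .ofNat 2, .negSucc 773⟩, ⟨.negSucc 990, .ofNat 40, .ofNat 207, .negSucc 417, .negSucc 129, .ofNat 1759⟩, ⟨.ofNat 4233, .negSucc 695, .negSucc 1059, .ofNat 305, .ofNat 113, .negSucc 6527⟩, ⟨.negSucc 2399, .ofNat 1272, .ofNat 770, .ofNat 1320, .negSucc 84, .ofNat 36⟩,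 .ofNat 687, .negSucc 616, .ofNat 0, .negSucc 616, .ofNat 2574, .ofNat 0, .ofNat 287, .ofNat 128, .negSucc 218, .ofNat 0, .ofNat 93, .negSucc 37, .ofNat 0, .ofNat 0, .ofNat 391, .ofNat 205, .ofNat 0, .ofNat 0, .ofNat 855075864981164118290372493312, .ofNat 0, .ofNat 0, .ofNat 0, .ofNat 0, .ofNat 0, .ofNat 0, .ofNat 0, .ofNat 54844606427308190633423882158080, .ofNat 0, .ofNat 0, .ofNat 0, .ofNat 53314077765448138993265895538688, .ofNat 0⟩)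
    (by decide +kernel)
theorem L01552 : Good (Phi V5.P V5.D (-1) 1) ⟨4, 8, 3, 3, 1, 1, 2, 1, 4, 1⟩ :=
  leafX_sound T5.ok_mp T5.Ymp.bz_eq (w := 194) (c := ⟨⟨.negSucc 1079, .negSucc 374, .negSucc 208, .negSucc 396, .ofNat 120, .negSucc 948⟩, ⟨.negSucc 383, .ofNat 21, .negSucc 227, .negSucc 58, .ofNat 32, .negSucc 238⟩, ⟨.ofNat 633, .ofNat 219, .ofNat 187, .negSucc 113, .negSucc 136, .ofNat 834⟩, ⟨.negSucc 2068, .negSucc 697, .negSucc 486, .negSucc 955, .ofNat 281, .negSucc 2002⟩, ⟨.negSucc 1375, .ofNat 356, .ofNat 318, .ofNat 418, .negSucc 66, .negSucc 119⟩, .ofNat 575, .negSucc 379, .ofNat 0, .negSucc 379, .ofNat 1739, .ofNat 0, .ofNat 542, .ofNat 128, .negSucc 375, .ofNat 0, .ofNat 114, .negSucc 47, .ofNat 0, .ofNat 0, .ofNat 775, .ofNat 845, .ofNat 0, .ofNat 0, .ofNat 1360794844729224605454376632320, .ofNat 0, .ofNat 0, .ofNat 0, .ofNat 0, .ofNat 0, .ofNat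 0, .ofNat 0, .ofNat 84267647154545345868475830108160, .ofNat 0, .ofNat 0, .ofNat 0, .ofNat 286916445464177499856073249521664, .ofNat 0⟩)
    (by decide +kernel)
theorem L01553 : Good (Phi V5.P V5.D (-1) 1) ⟨4, 9, 3, 3, 1, 1, 1, 0, 3, 0⟩ :=
  out_sound (S := T5.ds_mp) T5.ok_mp (w := 51) (j := 3) (by decide +kernel)
theorem L01554 : Good (Phi V5.P V5.D (-1) 1) ⟨3, 5, 3, 3, 1, 1, 1, 0, 3, 0⟩ :=
  out_sound (S := T5.ds_mp) T5.ok_mp (w := 45) (j := 3) (by decide +kernel)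
theorem L01555 : Good (Phi V5.P V5.D (-1) 1) ⟨2, 3, 2, 1, 1, 1, 1, 0, 3, 0⟩ :=
  out_sound (S := T5.ds_mp) T5.ok_mp (w := 37) (j := 3) (by decide +kernel)
theorem L01556 : Good (Phi V5.P V5.D (-1) 1) ⟨3, 4, 2, 1, 2, 2, 2, 0, 4, 2⟩ :=
  leafX_sound T5.ok_mp T5.Ymp.bz_eq (w := 202) (c := ⟨⟨.negSucc 2157, .negSucc 584, .negSucc 85, .negSucc 162, .ofNat 54, .negSucc 17⟩, ⟨.negSucc 437, .ofNat 153, .negSucc 459, .negSucc 70, .ofNat 29, .ofNat 30⟩, ⟨.ofNat 1758, .ofNat 640, .ofNat 376, .ofNat 209, .negSucc 696, .ofNat 386⟩, ⟨.negSucc 4590, .negSucc 623, .negSucc 8, .negSucc 301, .ofNat 78, .negSucc 81⟩, ⟨.negSucc 1252, .ofNat 88, .ofNat 44, .negSucc 332, .ofNat 202, .ofNat 327⟩, .ofNat 460, .negSucc 156, .ofNat 0, .negSucc 156, .ofNat 1276, .ofNat 0, .ofNat 297, .ofNat 63, .negSucc 173, .ofNat 0, .ofNat 128, .ofNat 7, .ofNat 0, .ofNat 0, .ofNat 710, .ofNat 3077,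 .ofNat 0, .ofNat 0, .ofNat 0, .ofNat 0, .ofNat 0, .ofNat 0, .ofNat 2509335281173476227438270610860408832, .ofNat 0, .ofNat 0, .ofNat 0, .ofNat 0, .ofNat 0, .ofNat 0, .ofNat 0, .ofNat 6864811227634974365610360113658331136, .ofNat 0⟩)
    (by decide +kernel)
theorem L01557 : Good (Phi V5.P V5.D (-1) 1) ⟨3, 4, 2, 1, 3, 6, 2, 0, 4, 2⟩ :=
  leafX_sound T5.ok_mp T5.Ymp.bz_eq (w := 217) (c := ⟨⟨.negSucc 2407, .negSucc 744, .negSucc 266, .ofNat 78, .ofNat 152, .ofNat 176⟩, ⟨.negSucc 483, .ofNat 140, .negSucc 475, .ofNat 0, .ofNat 20, .ofNat 28⟩, ⟨.ofNat 2243, .ofNat 846, .ofNat 421, .negSucc 122, .negSucc 945, .ofNat 111⟩, ⟨.negSucc 5054, .negSucc 971, .negSucc 373, .ofNat 142, .ofNat 292, .ofNat 318⟩, ⟨.negSucc 1467, .ofNat 199, .ofNat 194, .ofNat 20, .ofNat 42, .ofNat 138⟩, .ofNat 505, .negSucc 214, .ofNat 0, .negSucc 214, .ofNat 1650, .ofNat 0, .ofNat 514, .ofNat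 53, .negSucc 269, .ofNat 0, .ofNat 128, .negSucc 0, .ofNat 0, .ofNat 0, .ofNat 886, .ofNat 4774, .ofNat 0, .ofNat 0, .ofNat 0, .ofNat 0, .ofNat 0, .ofNat 0, .ofNat 241212558894573659814878733199492622843904, .ofNat 0, .ofNat 0, .ofNat 0, .ofNat 71847835803269120167888229290536236744704, .ofNat 0, .ofNat 931783946485116723757097431272637276310470656, .ofNat 0, .ofNat 61924288461777683365137536187355310850048, .ofNat 0⟩)
    (by decide +kernel)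
theorem L01558 : Good (Phi V5.P V5.D (-1) 1) ⟨3, 4, 3, 2, 3, 7, 2, 0, 4, 2⟩ :=
  leafX_sound T5.ok_mp T5.Ymp.bz_eq (w := 219) (c := ⟨⟨.negSucc 2602, .negSucc 645, .negSucc 152, .ofNat 172, .ofNat 168, .ofNat 449⟩, ⟨.negSucc 453, .ofNat 143, .negSucc 243, .ofNat 57, .negSucc 7, .ofNat 13⟩, ⟨.ofNat 2211, .ofNat 608, .ofNat 165, .negSucc 745, .negSucc 549, .negSucc 193⟩, ⟨.negSucc 5537, .negSucc 801, .negSucc 240, .ofNat 266, .ofNat 370, .ofNat 1012⟩, ⟨.negSucc 808, .ofNat 203, .ofNat 37, .ofNat 435, .negSucc 266, .negSucc 592⟩, .ofNat 458, .negSucc 158, .ofNat 0, .negSucc 158, .ofNat 1270, .ofNat 0, .ofNat 449, .ofNat 25, .negSucc 187, .ofNat 0, .ofNat 128, .ofNat 4, .ofNat 0, .ofNat 0, .ofNat 517, .ofNat 1586, .ofNat 0, .ofNat 0, .ofNat 0, .ofNat 0, .ofNat 0, .ofNat 0, .ofNat 0, .ofNat 0, .ofNat 0, .ofNat 0, .ofNat 0, .ofNat 0, .ofNat 0, .ofNat 0, .ofNat 172753016653478818327411262872992350208,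 .ofNat 0⟩)
    (by decide +kernel)
theorem L01559 : Good (Phi V5.P V5.D (-1) 1) ⟨3, 4, 3, 3, 3, 7, 2, 0, 4, 2⟩ :=
  leafX_sound T5.ok_mp T5.Ymp.bz_eq (w := 220) (c := ⟨⟨.negSucc 2633, .negSucc 662, .negSucc 173, .ofNat 119, .ofNat 122, .ofNat 404⟩, ⟨.negSucc 708, .ofNat 99, .negSucc 255, .ofNat 52, .ofNat 3, .ofNat 43⟩, ⟨.ofNat 2242, .ofNat 673, .ofNat 225, .negSucc 680, .negSucc 505, .negSucc 167⟩, ⟨.negSucc 5582, .negSucc 906, .negSucc 289, .ofNat 158, .ofNat 311, .ofNat 973⟩, ⟨.negSucc 780, .ofNat 316, .ofNat 57, .ofNat 321, .negSucc 237, .negSucc 544⟩, .ofNat 485, .negSucc 236, .ofNat 0, .negSucc 236, .ofNat 1210, .ofNat 0, .ofNat 629, .ofNat 70, .negSucc 383, .ofNat 0, .ofNat 128, .negSucc 9, .ofNat 0, .ofNat 0, .ofNat 1038, .ofNat 4024, .ofNat 0, .ofNat 0, .ofNat 4000793097327028133661880524980350877696, .ofNat 0, .ofNat 5141182867962693489544543461855663690568695808,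 .ofNat 0, .ofNat 777830157594247052420991894012727266377728, .ofNat 0, .ofNat 0, .ofNat 0, .ofNat 193541776088808688832183759429919095914496, .ofNat 0, .ofNat 0, .ofNat 0, .ofNat 318214882957307605716274595847509809037312, .ofNat 0⟩)
    (by decide +kernel)
theorem L01560 : Good (Phi V5.P V5.D (-1) 1) ⟨3, 4, 2, 1, 2, 2, 2, 0, 4, 3⟩ :=
  leafX_sound T5.ok_mp T5.Ymp.bz_eq (w := 203) (c := ⟨⟨.negSucc 2350, .negSucc 444, .negSucc 104, .ofNat 14, .ofNat 83, .ofNat 291⟩, ⟨.negSucc 443, .ofNat 159, .negSucc 417, .negSucc 41, .ofNat 32, .ofNat 58⟩, ⟨.ofNat 2377, .ofNat 593, .ofNat 394, .negSucc 120, .negSucc 724, .ofNat 48⟩, ⟨.negSucc 5041, .negSucc 372, .negSucc 88, .ofNat 91, .ofNat 156, .ofNat 584⟩, ⟨.negSucc 805, .ofNat 72, .ofNat 95, .negSucc 464, .ofNat 116, .ofNat 134⟩, .ofNat 334, .negSucc 60, .ofNat 0, .negSucc 60, .ofNat 635, .ofNat 0, .ofNat 419, .ofNat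 28, .negSucc 228, .ofNat 0, .ofNat 128, .ofNat 42, .ofNat 0, .ofNat 0, .ofNat 1052, .ofNat 6827, .ofNat 0, .ofNat 0, .ofNat 0, .ofNat 0, .ofNat 0, .ofNat 0, .ofNat 6185640687181833407354871604320403456, .ofNat 0, .ofNat 0, .ofNat 0, .ofNat 0, .ofNat 0, .ofNat 659760473617570320063565161231396028547072, .ofNat 0, .ofNat 16710258198777469365818746041725353984, .ofNat 0⟩)
    (by decide +kernel)
theorem L01561 : Good (Phi V5.P V5.D (-1) 1) ⟨3, 4, 2, 1, 2, 3, 2, 0, 4, 3⟩ :=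
  leafX_sound T5.ok_mp T5.Ymp.bz_eq (w := 202) (c := ⟨⟨.negSucc 2513, .negSucc 352, .negSucc 145, .ofNat 447, .ofNat 186, .ofNat 431⟩, ⟨.negSucc 469, .ofNat 120, .negSucc 430, .ofNat 31, .ofNat 21, .ofNat 72⟩, ⟨.ofNat 2646, .ofNat 418, .ofNat 296, .negSucc 1093, .negSucc 809, .negSucc 223⟩, ⟨.negSucc 5310, .negSucc 265, .negSucc 104, .ofNat 976, .ofNat 389, .ofNat 901⟩, ⟨.negSucc 1052, .negSucc 15, .ofNat 2, .negSucc 373, .negSucc 40, .negSucc 33⟩, .ofNat 465, .negSucc 170, .ofNat 0, .negSucc 170, .ofNat 1282, .ofNat 0, .ofNat 272, .ofNat 44, .negSucc 135, .ofNat 0, .ofNat 128, .ofNat 9, .ofNat 0, .ofNat 0, .ofNat 714, .ofNat 3158, .ofNat 0, .ofNat 0, .ofNat 30653043664518660810294088463024128, .ofNat 0, .ofNat 45627630275616529705103264727519987761152, .ofNat 0, .ofNat 5705531286853569651273806742605004800, .ofNat 0, .ofNat 0, .ofNat 0, .ofNat 0, .ofNat 0,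 .ofNat 189067080563732516546354570782268977053696, .ofNat 0, .ofNat 7795307071294097806361030353718607872, .ofNat 0⟩)
    (by decide +kernel)
theorem L01562 : Good (Phi V5.P V5.D (-1) 1) ⟨3, 5, 2, 1, 1, 1, 2, 0, 3, 1⟩ :=
  out_sound (S := T5.ds_mp) T5.ok_mp (w := 43) (j := 3) (by decide +kernel)
theorem L01563 : Good (Phi V5.P V5.D (-1) 1) ⟨3, 4, 2, 1, 2, 2, 2, 1, 4, 2⟩ :=
  leafX_sound T5.ok_mp T5.Ymp.bz_eq (w := 203) (c := ⟨⟨.negSucc 2201, .negSucc 574, .negSucc 153, .negSucc 116, .ofNat 203, .ofNat 74⟩, ⟨.negSucc 421, .ofNat 153, .negSucc 452, .negSucc 63, .ofNat 53, .ofNat 33⟩, ⟨.ofNat 1558, .ofNat 543, .ofNat 268, .negSucc 135, .negSucc 370, .ofNat 129⟩, ⟨.negSucc 4729, .negSucc 585, .negSucc 192, .negSucc 174, .ofNat 383, .ofNat 96⟩, ⟨.negSucc 933, .ofNat 9, .ofNat 45, .negSucc 426, .ofNat 243, .ofNat 286⟩, .ofNat 462, .negSucc 164, .ofNat 0, .negSucc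 164, .ofNat 1271, .ofNat 0, .ofNat 397, .ofNat 77, .negSucc 235, .ofNat 0, .ofNat 128, .negSucc 1, .ofNat 0, .ofNat 0, .ofNat 720, .ofNat 2486, .ofNat 0, .ofNat 0, .ofNat 21400487605105930721009048137760768, .ofNat 0, .ofNat 0, .ofNat 0, .ofNat 2693159428444882728016737573927911424, .ofNat 0, .ofNat 0, .ofNat 0, .ofNat 4303621655542354663299541979656880128, .ofNat 0, .ofNat 0, .ofNat 0, .ofNat 5395845271905319071129676543799853056, .ofNat 0⟩)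
    (by decide +kernel)
theorem L01564 : Good (Phi V5.P V5.D (-1) 1) ⟨3, 4, 2, 1, 3, 6, 2, 1, 5, 4⟩ :=
  leafX_sound T5.ok_mp T5.Ymp.bz_eq (w := 222) (c := ⟨⟨.negSucc 2274, .negSucc 776, .negSucc 260, .ofNat 105, .ofNat 230, .ofNat 38⟩, ⟨.negSucc 455, .ofNat 120, .negSucc 468, .negSucc 1, .ofNat 44, .ofNat 5⟩, ⟨.ofNat 1497, .ofNat 711, .ofNat 291, .negSucc 148, .negSucc 445, .ofNat 27⟩, ⟨.negSucc 4830, .negSucc 1033, .negSucc 366, .ofNat 237, .ofNat 461, .ofNat 57⟩, ⟨.negSucc 1228, .ofNat 75, .ofNat 103, .negSucc 144, .ofNat 77, .ofNat 61⟩, .ofNat 463, .negSucc 165, .ofNat 0, .negSucc 165, .ofNat 1276, .ofNat 0, .ofNat 398, .ofNat 70, .negSucc 307, .ofNat 0, .ofNat 128, .negSucc 0, .ofNat 0, .ofNat 0, .ofNat 629, .ofNat 2530, .ofNat 0, .ofNat 0, .ofNat 15298684572294066343993469871421401333760, .ofNat 0, .ofNat 0, .ofNat 0, .ofNat 3122082699557766607696213148858233334530048,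 .ofNat 0, .ofNat 0, .ofNat 0, .ofNat 0, .ofNat 0, .ofNat 0, .ofNat 0, .ofNat 2209495855206153652640647435380582168657920, .ofNat 0⟩)
    (by decide +kernel)
theorem L01565 : Good (Phi V5.P V5.D (-1) 1) ⟨4, 8, 2, 1, 3, 7, 2, 1, 5, 4⟩ :=
  leafX_sound T5.ok_mp T5.Ymp.bz_eq (w := 225) (c := ⟨⟨.negSucc 2349, .negSucc 262, .negSucc 348, .ofNat 112, .ofNat 368, .ofNat 125⟩, ⟨.negSucc 442, .ofNat 50, .negSucc 482, .ofNat 31, .ofNat 23, .ofNat 4⟩, ⟨.ofNat 1434, .ofNat 253, .ofNat 332, .negSucc 336, .negSucc 416, .negSucc 53⟩, ⟨.negSucc 5003, .negSucc 314, .negSucc 571, .ofNat 178, .ofNat 846, .ofNat 312⟩, ⟨.negSucc 966, .ofNat 23, .ofNat 75, .ofNat 215, .negSucc 457, .negSucc 235⟩, .ofNat 607, .negSucc 440, .ofNat 0, .negSucc 440, .ofNat 2105, .ofNat 0, .ofNat 308, .ofNat 125, .negSucc 224, .ofNat 0, .ofNat 128, .negSucc 17, .ofNat 0, .ofNat 0, .ofNat 465, .ofNat 2084,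 .ofNat 0, .ofNat 0, .ofNat 5653288948372487673230585738250804002816, .ofNat 0, .ofNat 0, .ofNat 0, .ofNat 346508975877271324087223162229323972214784, .ofNat 0, .ofNat 0, .ofNat 0, .ofNat 0, .ofNat 0, .ofNat 0, .ofNat 0, .ofNat 624102367581603006399532072600618208854016, .ofNat 0⟩)
    (by decide +kernel)
theorem L01566 : Good (Phi V5.P V5.D (-1) 1) ⟨4, 9, 3, 2, 3, 7, 2, 1, 5, 4⟩ :=
  leafX_sound T5.ok_mp T5.Ymp.bz_eq (w := 229) (c := ⟨⟨.negSucc 2765, .negSucc 436, .negSucc 251, .ofNat 190, .ofNat 543, .ofNat 271⟩, ⟨.negSucc 374, .ofNat 88, .negSucc 250, .ofNat 38, .negSucc 8, .negSucc 7⟩, ⟨.ofNat 1868, .ofNat 365, .ofNat 209, .negSucc 444, .negSucc 582, .negSucc 197⟩, ⟨.negSucc 5576, .negSucc 604, .negSucc 452, .ofNat 353, .ofNat 1135, .ofNat 561⟩, ⟨.negSucc 928, .ofNat 202, .ofNat 164, .ofNat 198, .negSucc 567, .negSucc 300⟩, .ofNat 438, .negSucc 108, .ofNat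 0, .negSucc 108, .ofNat 1221, .ofNat 0, .ofNat 436, .ofNat 28, .negSucc 253, .ofNat 0, .ofNat 128, .ofNat 16, .ofNat 0, .ofNat 0, .ofNat 459, .ofNat 2355, .ofNat 0, .ofNat 0, .ofNat 10575920035490647516707827660638851694592, .ofNat 0, .ofNat 0, .ofNat 0, .ofNat 1654289143547280454608906431039390955339776, .ofNat 0, .ofNat 0, .ofNat 0, .ofNat 0, .ofNat 0, .ofNat 0, .ofNat 0, .ofNat 1521179660061619274914101610668507151728640, .ofNat 0⟩)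
    (by decide +kernel)
theorem L01567 : Good (Phi V5.P V5.D (-1) 1) ⟨4, 9, 3, 3, 3, 7, 2, 1, 5, 4⟩ :=
  out_sound (S := T5.ds_mp) T5.ok_mp (w := 51) (j := 3) (by decide +kernel)
theorem L01568 : Good (Phi V5.P V5.D (-1) 1) ⟨4, 8, 2, 1, 2, 3, 3, 2, 5, 5⟩ :=
  leafX_sound T5.ok_mp T5.Ymp.bz_eq (w := 216) (c := ⟨⟨.negSucc 2393, .negSucc 229, .negSucc 231, .ofNat 311, .ofNat 138, .ofNat 195⟩, ⟨.negSucc 467, .ofNat 57, .negSucc 463, .ofNat 37, .ofNat 20, .ofNat 30⟩, ⟨.ofNat 1717, .ofNat 214, .ofNat 286, .negSucc 676, .negSucc 237, .negSucc 103⟩, ⟨.negSucc 5051, .negSucc 243, .negSucc 298, .ofNat 665, .ofNat 282, .ofNat 406⟩, ⟨.negSucc 1197, .ofNat 58, .ofNat 73, .negSucc 142, .negSucc 36, .negSucc 50⟩, .ofNat 653, .negSucc 549, .ofNat 0, .negSucc 549, .ofNat 2866, .ofNat 0, .ofNat 357, .ofNat 114, .negSucc 202, .ofNat 0, .ofNat 128, .negSucc 13, .ofNat 0, .ofNat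 0, .ofNat 616, .ofNat 4263, .ofNat 0, .ofNat 0, .ofNat 7225092537430415345970525511104856064, .ofNat 0, .ofNat 0, .ofNat 0, .ofNat 856522172854814849396270590734521860096, .ofNat 0, .ofNat 0, .ofNat 0, .ofNat 1028118121181068283972391517812502298624, .ofNat 0, .ofNat 0, .ofNat 0, .ofNat 0, .ofNat 0⟩)
    (by decide +kernel)
theorem L01569 : Good (Phi V5.P V5.D (-1) 1) ⟨4, 9, 2, 1, 2, 3, 3, 2, 5, 5⟩ :=
  leafX_sound T5.ok_mp T5.Ymp.bz_eq (w := 217) (c := ⟨⟨.negSucc 2763, .negSucc 282, .negSucc 303, .ofNat 483, .ofNat 175, .ofNat 292⟩, ⟨.negSucc 380, .ofNat 72, .negSucc 481, .ofNat 12, .ofNat 11, .ofNat 8⟩, ⟨.ofNat 2028, .ofNat 319, .ofNat 435, .negSucc 826, .negSucc 310, .negSucc 158⟩, ⟨.negSucc 5557, .negSucc 281, .negSucc 448, .ofNat 970, .ofNat 340, .ofNat 586⟩, ⟨.negSucc 1018, .negSucc 41, .ofNat 159, .negSucc 247, .negSucc 23, .negSucc 152⟩, .ofNat 475,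 .negSucc 139, .ofNat 0, .negSucc 139, .ofNat 1559, .ofNat 0, .ofNat 407, .ofNat 33, .negSucc 279, .ofNat 0, .ofNat 128, .ofNat 14, .ofNat 0, .ofNat 0, .ofNat 734, .ofNat 5538, .ofNat 0, .ofNat 0, .ofNat 22154705448173433202440334505412657152, .ofNat 0, .ofNat 0, .ofNat 0, .ofNat 1979917265749022364761447260430838792192, .ofNat 0, .ofNat 0, .ofNat 0, .ofNat 1173210130638466087884356093958521094144, .ofNat 0, .ofNat 0, .ofNat 0, .ofNat 1120723724648286079974676057854081761280, .ofNat 0⟩)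
    (by decide +kernel)
theorem L01570 : Good (Phi V5.P V5.D (-1) 1) ⟨4, 8, 2, 1, 2, 3, 3, 3, 5, 5⟩ :=
  leafX_sound T5.ok_mp T5.Ymp.bz_eq (w := 216) (c := ⟨⟨.negSucc 2349, .negSucc 169, .negSucc 238, .ofNat 476, .ofNat 186, .ofNat 189⟩, ⟨.negSucc 452, .ofNat 53, .negSucc 436, .ofNat 25, .ofNat 37, .ofNat 33⟩, ⟨.ofNat 1502, .ofNat 151, .ofNat 250, .negSucc 661, .negSucc 234, .negSucc 110⟩, ⟨.negSucc 4985, .negSucc 143, .negSucc 308, .ofNat 1121, .ofNat 388, .ofNat 390⟩, ⟨.negSucc 1051, .ofNat 16, .ofNat 83, .negSucc 655, .ofNat 20, .ofNat 3⟩, .ofNat 544, .negSucc 305, .ofNat 0, .negSucc 305, .ofNat 1766, .ofNat 0, .ofNat 415, .ofNat 103, .negSucc 196, .ofNat 0, .ofNat 128, .negSucc 6, .ofNat 0, .ofNat 0, .ofNat 535, .ofNat 3637, .ofNat 0, .ofNat 0, .ofNat 6248488659055288454249079352147836928, .ofNat 0, .ofNat 0, .ofNat 0, .ofNat 0, .ofNat 0, .ofNat 0, .ofNat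 0, .ofNat 535772343506744409297227893575652474880, .ofNat 0, .ofNat 0, .ofNat 0, .ofNat 447599822883992970905864291748526686208, .ofNat 0⟩)
    (by decide +kernel)
theorem L01571 : Good (Phi V5.P V5.D (-1) 1) ⟨4, 9, 2, 1, 2, 3, 3, 3, 5, 5⟩ :=
  leafX_sound T5.ok_mp T5.Ymp.bz_eq (w := 216) (c := ⟨⟨.negSucc 2688, .negSucc 260, .negSucc 337, .ofNat 667, .ofNat 236, .ofNat 290⟩, ⟨.negSucc 373, .ofNat 68, .negSucc 440, .negSucc 10, .ofNat 24, .ofNat 23⟩, ⟨.ofNat 1821, .ofNat 213, .ofNat 328, .negSucc 837, .negSucc 283, .negSucc 194⟩, ⟨.negSucc 5405, .negSucc 295, .negSucc 489, .ofNat 1402, .ofNat 469, .ofNat 587⟩, ⟨.negSucc 987, .ofNat 69, .ofNat 119, .negSucc 709, .ofNat 1, .negSucc 72⟩, .ofNat 479, .negSucc 151, .ofNat 0, .negSucc 151, .ofNat 1558, .ofNat 0, .ofNat 435, .ofNat 49, .negSucc 205, .ofNat 0, .ofNat 128, .ofNat 10, .ofNat 0, .ofNat 0, .ofNat 493, .ofNat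 3125, .ofNat 0, .ofNat 0, .ofNat 12129620112068081683168745570105819136, .ofNat 0, .ofNat 0, .ofNat 0, .ofNat 677437286094242296868660043419270250496, .ofNat 0, .ofNat 0, .ofNat 0, .ofNat 972049394103658928261596993125470961664, .ofNat 0, .ofNat 0, .ofNat 0, .ofNat 699196751286502404578098284855145005056, .ofNat 0⟩)
    (by decide +kernel)
theorem L01572 : Good (Phi V5.P V5.D (-1) 1) ⟨3, 4, 2, 1, 2, 2, 2, 1, 4, 3⟩ :=
  leafX_sound T5.ok_mp T5.Ymp.bz_eq (w := 203) (c := ⟨⟨.negSucc 2243, .negSucc 462, .negSucc 99, .ofNat 28, .ofNat 226, .ofNat 262⟩, ⟨.negSucc 408, .ofNat 144, .negSucc 408, .negSucc 37, .ofNat 52, .ofNat 56⟩, ⟨.ofNat 1823, .ofNat 543, .ofNat 300, .negSucc 297, .negSucc 521, .negSucc 44⟩, ⟨.negSucc 4832, .negSucc 422, .negSucc 103, .ofNat 132, .ofNat 436, .ofNat 532⟩, ⟨.negSucc 681, .ofNat 49, .ofNat 53, .negSucc 420, .ofNat 173, .ofNat 117⟩, .ofNat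 464, .negSucc 167, .ofNat 0, .negSucc 167, .ofNat 1279, .ofNat 0, .ofNat 394, .ofNat 72, .negSucc 200, .ofNat 0, .ofNat 128, .ofNat 3, .ofNat 0, .ofNat 0, .ofNat 887, .ofNat 4062, .ofNat 0, .ofNat 0, .ofNat 0, .ofNat 0, .ofNat 0, .ofNat 0, .ofNat 15667094718017475772394755990094872576, .ofNat 0, .ofNat 0, .ofNat 0, .ofNat 9649963812622947393394536209857904640, .ofNat 0, .ofNat 0, .ofNat 0, .ofNat 0, .ofNat 0⟩)
    (by decide +kernel)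
theorem L01573 : Good (Phi V5.P V5.D (-1) 1) ⟨3, 4, 3, 2, 2, 3, 2, 1, 4, 3⟩ :=
  leafX_sound T5.ok_mp T5.Ymp.bz_eq (w := 205) (c := ⟨⟨.negSucc 2419, .negSucc 234, .negSucc 66, .ofNat 542, .ofNat 322, .ofNat 429⟩, ⟨.negSucc 445, .ofNat 107, .negSucc 191, .ofNat 18, .ofNat 63, .ofNat 64⟩, ⟨.ofNat 1824, .ofNat 231, .ofNat 134, .negSucc 858, .negSucc 557, .negSucc 270⟩, ⟨.negSucc 5074, .negSucc 130, .negSucc 35, .ofNat 1213, .ofNat 667, .ofNat 868⟩, ⟨.negSucc 1051, .negSucc 21, .negSucc 34, .negSucc 617, .ofNat 124, .ofNat 91⟩, .ofNat 332, .negSucc 53, .ofNat 0, .negSucc 53, .ofNat 637, .ofNat 0, .ofNat 247, .ofNat 14, .negSucc 125, .ofNat 0, .ofNat 128, .ofNat 26, .ofNat 0, .ofNat 0, .ofNat 459, .ofNat 1660, .ofNat 0, .ofNat 0, .ofNat 0, .ofNat 0, .ofNat 0, .ofNat 0, .ofNat 6261133951037793000156939007029149696, .ofNat 0, .ofNat 0, .ofNat 0, .ofNat 0, .ofNat 0,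 .ofNat 0, .ofNat 0, .ofNat 248829212914253554750806533888540672, .ofNat 0⟩)
    (by decide +kernel)
theorem L01574 : Good (Phi V5.P V5.D (-1) 1) ⟨3, 4, 3, 3, 2, 3, 2, 1, 4, 3⟩ :=
  leafX_sound T5.ok_mp T5.Ymp.bz_eq (w := 206) (c := ⟨⟨.negSucc 2422, .negSucc 303, .negSucc 98, .ofNat 499, .ofNat 317, .ofNat 424⟩, ⟨.negSucc 683, .ofNat 101, .negSucc 187, .ofNat 51, .ofNat 87, .ofNat 107⟩, ⟨.ofNat 1892, .ofNat 290, .ofNat 144, .negSucc 846, .negSucc 570, .negSucc 253⟩, ⟨.negSucc 5035, .negSucc 231, .negSucc 89, .ofNat 1224, .ofNat 646, .ofNat 867⟩, ⟨.negSucc 1104, .ofNat 87, .ofNat 18, .negSucc 702, .ofNat 129, .ofNat 116⟩, .ofNat 662, .negSucc 558, .ofNat 0, .negSucc 558, .ofNat 2391, .ofNat 0, .ofNat 313, .ofNat 120, .negSucc 92, .ofNat 0, .ofNat 128, .negSucc 4, .ofNat 0, .ofNat 0, .ofNat 481, .ofNat 1797, .ofNat 0, .ofNat 0, .ofNat 77416967444135132242164308041007104,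 .ofNat 0, .ofNat 0, .ofNat 0, .ofNat 34199691018094878165425847284711555072, .ofNat 0, .ofNat 0, .ofNat 0, .ofNat 12236668664435263118008791625426272256, .ofNat 0, .ofNat 0, .ofNat 0, .ofNat 3021352731996949081849791761918984192, .ofNat 0⟩)
    (by decide +kernel)
theorem L01575 : Good (Phi V5.P V5.D (-1) 1) ⟨3, 5, 2, 1, 1, 1, 2, 1, 3, 1⟩ :=
  out_sound (S := T5.ds_mp) T5.ok_mp (w := 43) (j := 3) (by decide +kernel)
theorem L01576 : Good (Phi V5.P V5.D (-1) 1) ⟨2, 3, 2, 1, 1, 1, 1, 0, 3, 1⟩ :=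
  out_sound (S := T5.ds_mp) T5.ok_mp (w := 37) (j := 3) (by decide +kernel)
theorem L01577 : Good (Phi V5.P V5.D (-1) 1) ⟨3, 4, 2, 1, 2, 2, 2, 0, 4, 4⟩ :=
  leafX_sound T5.ok_mp T5.Ymp.bz_eq (w := 204) (c := ⟨⟨.negSucc 2274, .negSucc 327, .negSucc 77, .ofNat 176, .ofNat 160, .ofNat 334⟩, ⟨.negSucc 387, .ofNat 145, .negSucc 378, .negSucc 26, .ofNat 21, .ofNat 56⟩, ⟨.ofNat 2832, .ofNat 463, .ofNat 354, .negSucc 441, .negSucc 916, .negSucc 91⟩, ⟨.negSucc 4859, .negSucc 172, .negSucc 49, .ofNat 432, .ofNat 304, .ofNat 654⟩, ⟨.negSucc 653, .ofNat 33, .ofNat 70, .negSucc 461, .ofNat 103, .ofNat 120⟩, .ofNat 460, .negSucc 157, .ofNat 0, .negSucc 157, .ofNat 1276, .ofNat 0, .ofNat 353, .ofNat 59, .negSucc 101, .ofNat 0, .ofNat 128, .ofNat 10, .ofNat 0, .ofNat 0, .ofNat 860, .ofNat 8153, .ofNat 5531744716972926441354096607480135024640, .ofNat 0, .ofNat 96758460197069867654340895297241088,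 .ofNat 0, .ofNat 0, .ofNat 0, .ofNat 0, .ofNat 0, .ofNat 0, .ofNat 0, .ofNat 0, .ofNat 0, .ofNat 884870893384471989135788980841271298883584, .ofNat 0, .ofNat 13960610727379325846254923800261951488, .ofNat 0⟩)
    (by decide +kernel)
theorem L01578 : Good (Phi V5.P V5.D (-1) 1) ⟨3, 4, 2, 1, 2, 2, 2, 1, 4, 4⟩ :=
  leafX_sound T5.ok_mp T5.Ymp.bz_eq (w := 203) (c := ⟨⟨.negSucc 2100, .negSucc 294, .negSucc 50, .ofNat 152, .ofNat 219, .ofNat 290⟩, ⟨.negSucc 384, .ofNat 141, .negSucc 344, .negSucc 11, .ofNat 54, .ofNat 62⟩, ⟨.ofNat 2027, .ofNat 341, .ofNat 185, .negSucc 478, .negSucc 627, .negSucc 155⟩, ⟨.negSucc 4522, .negSucc 130, .negSucc 9, .ofNat 375, .ofNat 427, .ofNat 596⟩, ⟨.negSucc 572, .negSucc 1, .negSucc 2, .negSucc 359, .ofNat 197, .ofNat 96⟩, .ofNat 334, .negSucc 60, .ofNat 0, .negSucc 60, .ofNat 633, .ofNat 0, .ofNat 258, .ofNat 34, .negSucc 91, .ofNat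 0, .ofNat 128, .ofNat 14, .ofNat 0, .ofNat 0, .ofNat 555, .ofNat 3758, .ofNat 0, .ofNat 0, .ofNat 32128579181123271490001326697349120, .ofNat 0, .ofNat 0, .ofNat 0, .ofNat 3212626835885423836216307952084058112, .ofNat 0, .ofNat 0, .ofNat 0, .ofNat 0, .ofNat 0, .ofNat 0, .ofNat 0, .ofNat 7296902150521645894104723437815595008, .ofNat 0⟩)
    (by decide +kernel)
theorem L01579 : Good (Phi V5.P V5.D (-1) 1) ⟨4, 8, 2, 1, 2, 3, 2, 0, 4, 4⟩ :=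
  leafX_sound T5.ok_mp T5.Ymp.bz_eq (w := 207) (c := ⟨⟨.negSucc 2116, .negSucc 111, .negSucc 94, .ofNat 430, .ofNat 164, .ofNat 334⟩, ⟨.negSucc 436, .ofNat 51, .negSucc 353, .ofNat 46, .ofNat 41, .ofNat 84⟩, ⟨.ofNat 2491, .ofNat 133, .ofNat 363, .negSucc 1193, .negSucc 814, .negSucc 149⟩, ⟨.negSucc 4498, .negSucc 41, .ofNat 14, .ofNat 1014, .ofNat 361, .ofNat 691⟩, ⟨.negSucc 1039, .negSucc 7, .negSucc 28, .negSucc 477, .negSucc 1, .ofNat 124⟩, .ofNat 488, .negSucc 220, .ofNat 0, .negSucc 220, .ofNat 1329, .ofNat 0, .ofNat 274, .ofNat 61, .negSucc 111, .ofNat 0, .ofNat 128, .ofNat 16, .ofNat 0, .ofNat 0, .ofNat 1274, .ofNat 5064, .ofNat 0, .ofNat 0, .ofNat 0, .ofNat 0, .ofNat 0, .ofNat 0, .ofNat 0, .ofNat 0, .ofNat 0, .ofNat 0, .ofNat 0, .ofNat 0, .ofNat 8738471912075164310712784197228221912055808, .ofNat 0, .ofNat 6078797655550293128167819154506645504, .ofNat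 0⟩)
    (by decide +kernel)
theorem L01580 : Good (Phi V5.P V5.D (-1) 1) ⟨4, 9, 2, 1, 2, 3, 2, 0, 4, 4⟩ :=
  leafX_sound T5.ok_mp T5.Ymp.bz_eq (w := 208) (c := ⟨⟨.negSucc 2304, .negSucc 115, .negSucc 116, .ofNat 519, .ofNat 208, .ofNat 379⟩, ⟨.negSucc 345, .ofNat 55, .negSucc 366, .ofNat 6, .ofNat 27, .ofNat 53⟩, ⟨.ofNat 2846, .ofNat 51, .ofNat 255, .negSucc 1281, .negSucc 927, .negSucc 284⟩, ⟨.negSucc 4599, .negSucc 51, .negSucc 51, .ofNat 1081, .ofNat 414, .ofNat 742⟩, ⟨.negSucc 1118, .ofNat 25, .ofNat 60, .negSucc 444, .ofNat 36, .ofNat 133⟩, .ofNat 436, .negSucc 100, .ofNat 0, .negSucc 100, .ofNat 1217, .ofNat 0, .ofNat 371, .ofNat 18, .negSucc 140, .ofNat 0, .ofNat 128, .ofNat 33, .ofNat 0, .ofNat 0, .ofNat 1539, .ofNat 7413, .ofNat 0, .ofNat 0, .ofNat 48360127010273194607978319074820096, .ofNat 0, .ofNat 0, .ofNat 0, .ofNat 0, .ofNat 0, .ofNat 0, .ofNat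 0, .ofNat 2815952849488087546109077643811880960, .ofNat 0, .ofNat 12495751923077353297795376209717587351699456, .ofNat 0, .ofNat 17934776290430719583601931352717393920, .ofNat 0⟩)
    (by decide +kernel)
theorem L01581 : Good (Phi V5.P V5.D (-1) 1) ⟨3, 4, 2, 1, 2, 3, 2, 1, 4, 4⟩ :=
  leafX_sound T5.ok_mp T5.Ymp.bz_eq (w := 201) (c := ⟨⟨.negSucc 2006, .negSucc 150, .negSucc 40, .ofNat 509, .ofNat 260, .ofNat 330⟩, ⟨.negSucc 386, .ofNat 106, .negSucc 331, .ofNat 22, .ofNat 64, .ofNat 71⟩, ⟨.ofNat 1658, .ofNat 102, .ofNat 130, .negSucc 866, .negSucc 607, .negSucc 156⟩, ⟨.negSucc 4213, .ofNat 51, .ofNat 94, .ofNat 1147, .ofNat 500, .ofNat 649⟩, ⟨.negSucc 1020, .negSucc 88, .negSucc 114, .negSucc 543, .ofNat 303, .ofNat 263⟩, .ofNat 335, .negSucc 74, .ofNat 0, .negSucc 74, .ofNat 623, .ofNat 0, .ofNat 206, .ofNat 28, .negSucc 58, .ofNat 0, .ofNat 128, .ofNat 22,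 .ofNat 0, .ofNat 0, .ofNat 504, .ofNat 1073, .ofNat 0, .ofNat 0, .ofNat 4632499714764877678130487569154048, .ofNat 0, .ofNat 0, .ofNat 0, .ofNat 0, .ofNat 0, .ofNat 0, .ofNat 2778782269635449945059412569754639007744, .ofNat 2117374850897778427834822045907025920, .ofNat 0, .ofNat 0, .ofNat 3136518924177543745635954008491026284544, .ofNat 2632396585352041395601913370749435904, .ofNat 0⟩)
    (by decide +kernel)
theorem L01582 : Good (Phi V5.P V5.D (-1) 1) ⟨3, 4, 2, 1, 2, 2, 2, 0, 4, 5⟩ :=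
  leafX_sound T5.ok_mp T5.Ymp.bz_eq (w := 206) (c := ⟨⟨.negSucc 2065, .negSucc 221, .negSucc 53, .ofNat 277, .ofNat 153, .ofNat 279⟩, ⟨.negSucc 401, .ofNat 124, .negSucc 315, .ofNat 14, .ofNat 61, .ofNat 56⟩, ⟨.ofNat 3137, .ofNat 319, .ofNat 313, .negSucc 675, .negSucc 1080, .negSucc 98⟩, ⟨.negSucc 4418, .negSucc 52, .negSucc 6, .ofNat 643, .ofNat 293, .ofNat 563⟩, ⟨.negSucc 616, .ofNat 5, .ofNat 55, .negSucc 418, .ofNat 168, .ofNat 145⟩, .ofNat 334, .negSucc 59, .ofNat 0, .negSucc 59, .ofNat 636, .ofNat 0, .ofNat 352, .ofNat 25, .negSucc 70, .ofNat 0, .ofNat 128, .ofNat 22, .ofNat 0, .ofNat 0, .ofNat 850, .ofNat 21714, .ofNat 129530549454719421555108333814903635705856, .ofNat 0, .ofNat 0, .ofNat 0, .ofNat 0, .ofNat 0, .ofNat 0, .ofNat 0, .ofNat 474422050053484557192685219288664728666112, .ofNat 0, .ofNat 0, .ofNat 0, .ofNat 2097184467815016735411381545311467466653696,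 .ofNat 0, .ofNat 8119197254567493683573200131899523072, .ofNat 0⟩)
    (by decide +kernel)
theorem L01583 : Good (Phi V5.P V5.D (-1) 1) ⟨3, 4, 2, 1, 2, 3, 2, 0, 4, 5⟩ :=
  leafX_sound T5.ok_mp T5.Ymp.bz_eq (w := 202) (c := ⟨⟨.negSucc 1799, .negSucc 174, .negSucc 76, .ofNat 437, .ofNat 161, .ofNat 268⟩, ⟨.negSucc 378, .ofNat 103, .negSucc 299, .ofNat 34, .ofNat 53, .ofNat 62⟩, ⟨.ofNat 2505, .ofNat 240, .ofNat 337, .negSucc 1081, .negSucc 1084, .negSucc 114⟩, ⟨.negSucc 3814, .negSucc 2, .ofNat 22, .ofNat 1008, .ofNat 336, .ofNat 528⟩, ⟨.negSucc 1003, .negSucc 14, .ofNat 8, .negSucc 473, .ofNat 134, .ofNat 182⟩, .ofNat 335, .negSucc 61, .ofNat 0, .negSucc 61, .ofNat 637, .ofNat 0, .ofNat 286, .ofNat 20, .negSucc 49, .ofNat 0, .ofNat 128, .ofNat 27, .ofNat 0, .ofNat 0, .ofNat 965, .ofNat 1853, .ofNat 11598280014149507376591375947151209136128, .ofNat 0, .ofNat 0,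 .ofNat 0, .ofNat 0, .ofNat 0, .ofNat 0, .ofNat 0, .ofNat 0, .ofNat 0, .ofNat 0, .ofNat 0, .ofNat 844281826357466338480070633295344463511552, .ofNat 21636503213927590139472301188468992638976, .ofNat 9275565618646723688928316983615684608, .ofNat 0⟩)
    (by decide +kernel)
theorem L01584 : Good (Phi V5.P V5.D (-1) 1) ⟨3, 4, 2, 1, 3, 4, 3, 2, 6, 20⟩ :=
  leafX_sound T5.ok_mp T5.Ymp.bz_eq (w := 234) (c := ⟨⟨.negSucc 1818, .negSucc 269, .negSucc 53, .ofNat 61, .ofNat 95, .ofNat 65⟩, ⟨.negSucc 326, .ofNat 142, .negSucc 324, .negSucc 8, .ofNat 21, .ofNat 11⟩, ⟨.ofNat 1957, .ofNat 345, .ofNat 197, .negSucc 226, .negSucc 398, .negSucc 30⟩, ⟨.negSucc 3931, .negSucc 94, .negSucc 34, .ofNat 143, .ofNat 187, .ofNat 130⟩, ⟨.negSucc 490, .ofNat 23, .ofNat 30, .negSucc 150, .ofNat 69, .ofNat 16⟩, .ofNat 331, .negSucc 54, .ofNat 0, .negSucc 54, .ofNat 632, .ofNat 0, .ofNat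 306, .ofNat 31, .negSucc 93, .ofNat 0, .ofNat 128, .ofNat 16, .ofNat 0, .ofNat 0, .ofNat 790, .ofNat 36617, .ofNat 126373687610157214147583293759811854288482729984, .ofNat 0, .ofNat 37877884176334661220170279996061971067699200, .ofNat 0, .ofNat 0, .ofNat 0, .ofNat 0, .ofNat 0, .ofNat 0, .ofNat 0, .ofNat 0, .ofNat 0, .ofNat 759786224635979559370154105240518903521246969856, .ofNat 0, .ofNat 5364620869061385994758235321335925008599351296, .ofNat 0⟩)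
    (by decide +kernel)
theorem L01585 : Good (Phi V5.P V5.D (-1) 1) ⟨3, 4, 2, 1, 3, 4, 3, 2, 6, 21⟩ :=
  leafX_sound T5.ok_mp T5.Ymp.bz_eq (w := 235) (c := ⟨⟨.negSucc 1763, .negSucc 254, .negSucc 44, .ofNat 65, .ofNat 89, .ofNat 62⟩, ⟨.negSucc 320, .ofNat 140, .negSucc 314, .negSucc 4, .ofNat 23, .ofNat 9⟩, ⟨.ofNat 1945, .ofNat 325, .ofNat 176, .negSucc 231, .negSucc 394, .negSucc 19⟩, ⟨.negSucc 3820, .negSucc 73, .negSucc 17, .ofNat 154, .ofNat 179, .ofNat 123⟩, ⟨.negSucc 480, .ofNat 19, .ofNat 28, .negSucc 141, .ofNat 75, .ofNat 17⟩, .ofNat 335, .negSucc 74, .ofNat 0, .negSucc 74, .ofNat 623, .ofNat 0, .ofNat 421, .ofNat 42, .negSucc 101, .ofNat 0, .ofNat 128, .ofNat 17, .ofNat 0, .ofNat 0, .ofNat 991, .ofNat 58927, .ofNat 349968625779089917225777243899058950049785446400, .ofNat 0, .ofNat 78755203465881187630204054635897762569256960, .ofNat 0, .ofNat 0,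 .ofNat 0, .ofNat 0, .ofNat 0, .ofNat 444626506179491996926075815989807996281192185856, .ofNat 0, .ofNat 2574155638110372848316581615711811949580779520, .ofNat 0, .ofNat 811475679354538102072816730469225479141167464448, .ofNat 0, .ofNat 10475201840791165495917790552362258477589987328, .ofNat 0⟩)
    (by decide +kernel)
theorem L01586 : Good (Phi V5.P V5.D (-1) 1) ⟨3, 4, 2, 1, 3, 4, 3, 2, 5, 11⟩ :=
  leafX_sound T5.ok_mp T5.Ymp.bz_eq (w := 230) (c := ⟨⟨.negSucc 1729, .negSucc 217, .negSucc 35, .ofNat 75, .ofNat 92, .ofNat 115⟩, ⟨.negSucc 305, .ofNat 131, .negSucc 301, .negSucc 2, .ofNat 16, .ofNat 22⟩, ⟨.ofNat 2005, .ofNat 253, .ofNat 162, .negSucc 262, .negSucc 426, .negSucc 52⟩, ⟨.negSucc 3717, .negSucc 30, .negSucc 7, .ofNat 171, .ofNat 167, .ofNat 232⟩, ⟨.negSucc 477, .ofNat 13, .ofNat 30, .negSucc 126, .ofNat 84, .ofNat 48⟩, .ofNat 334, .negSucc 61, .ofNat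 0, .negSucc 61, .ofNat 635, .ofNat 0, .ofNat 355, .ofNat 34, .negSucc 72, .ofNat 0, .ofNat 128, .ofNat 12, .ofNat 0, .ofNat 0, .ofNat 885, .ofNat 65618, .ofNat 87337891179337537318573960187410167306945298432, .ofNat 0, .ofNat 0, .ofNat 0, .ofNat 0, .ofNat 0, .ofNat 0, .ofNat 0, .ofNat 36438980493035794610548484393136893136897835008, .ofNat 0, .ofNat 116296318126046746819359332760149485928054784, .ofNat 0, .ofNat 177326383121717986416296337833699895134283366400, .ofNat 0, .ofNat 249720264578091715012422146021779973659951104, .ofNat 0⟩)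
    (by decide +kernel)
theorem L01587 : Good (Phi V5.P V5.D (-1) 1) ⟨3, 4, 2, 1, 3, 5, 3, 2, 4, 5⟩ :=
  leafX_sound T5.ok_mp T5.Ymp.bz_eq (w := 221) (c := ⟨⟨.negSucc 1800, .negSucc 203, .negSucc 45, .ofNat 160, .ofNat 88, .ofNat 264⟩, ⟨.negSucc 332, .ofNat 127, .negSucc 309, .ofNat 0, .ofNat 24, .ofNat 52⟩, ⟨.ofNat 1814, .ofNat 232, .ofNat 238, .negSucc 370, .negSucc 426, .negSucc 144⟩, ⟨.negSucc 3843, .negSucc 21, .ofNat 1, .ofNat 359, .ofNat 176, .ofNat 526⟩, ⟨.negSucc 655, .negSucc 2, .ofNat 15, .negSucc 181, .ofNat 97, .ofNat 128⟩, .ofNat 173, .negSucc 10, .ofNat 0, .negSucc 10, .ofNat 231, .ofNat 0, .ofNat 128, .ofNat 0, .negSucc 43, .ofNat 0, .ofNat 135, .ofNat 23, .ofNat 0, .ofNat 0, .ofNat 356, .ofNat 5414, .ofNat 409298410939632278070720562173922254373519360, .ofNat 0, .ofNat 15480584089651531357759495708100429611008, .ofNat 0, .ofNat 0, .ofNat 0,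 .ofNat 108883666455983674709693693375800072470528, .ofNat 0, .ofNat 0, .ofNat 0, .ofNat 0, .ofNat 0, .ofNat 0, .ofNat 0, .ofNat 525896189448976095108596304755001378471936, .ofNat 0⟩)
    (by decide +kernel)
theorem L01588 : Good (Phi V5.P V5.D (-1) 1) ⟨3, 4, 2, 1, 2, 2, 3, 3, 4, 5⟩ :=
  leafX_sound T5.ok_mp T5.Ymp.bz_eq (w := 207) (c := ⟨⟨.negSucc 1756, .negSucc 230, .negSucc 37, .ofNat 209, .ofNat 112, .ofNat 223⟩, ⟨.negSucc 312, .ofNat 138, .negSucc 293, .ofNat 6, .ofNat 21, .ofNat 42⟩, ⟨.ofNat 1659, .ofNat 241, .ofNat 125, .negSucc 596, .negSucc 344, .negSucc 136⟩, ⟨.negSucc 3788, .negSucc 43, .negSucc 3, .ofNat 461, .ofNat 208, .ofNat 447⟩, ⟨.negSucc 439, .ofNat 9, .ofNat 4, .negSucc 217, .ofNat 104, .ofNat 85⟩, .ofNat 333, .negSucc 58, .ofNat 0, .negSucc 58, .ofNat 635, .ofNat 0, .ofNat 276, .ofNat 32, .negSucc 59, .ofNat 0, .ofNat 128, .ofNat 8, .ofNat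 0, .ofNat 0, .ofNat 716, .ofNat 4253, .ofNat 0, .ofNat 0, .ofNat 0, .ofNat 0, .ofNat 0, .ofNat 0, .ofNat 0, .ofNat 0, .ofNat 0, .ofNat 23662123667402609245024960946599083638784, .ofNat 36662229854387317612839597453829210112, .ofNat 0, .ofNat 0, .ofNat 35465801501952222083663209047640483299328, .ofNat 63903802322546975733662045084405727232, .ofNat 0⟩)
    (by decide +kernel)
theorem L01589 : Good (Phi V5.P V5.D (-1) 1) ⟨3, 4, 2, 1, 2, 3, 2, 1, 4, 5⟩ :=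
  leafX_sound T5.ok_mp T5.Ymp.bz_eq (w := 201) (c := ⟨⟨.negSucc 1655, .negSucc 147, .negSucc 36, .ofNat 444, .ofNat 203, .ofNat 257⟩, ⟨.negSucc 330, .ofNat 108, .negSucc 295, .ofNat 38, .ofNat 62, .ofNat 61⟩, ⟨.ofNat 1454, .ofNat 160, .ofNat 233, .negSucc 916, .negSucc 823, .negSucc 124⟩, ⟨.negSucc 3500, .ofNat 46, .ofNat 53, .ofNat 1010, .ofNat 370, .ofNat 506⟩, ⟨.negSucc 889, .negSucc 9, .ofNat 21, .negSucc 418, .ofNat 343, .ofNat 206⟩, .ofNat 334, .negSucc 60, .ofNat 0, .negSucc 60, .ofNat 635, .ofNat 0, .ofNat 227, .ofNat 23, .negSucc 25, .ofNat 0, .ofNat 128, .ofNat 12, .ofNat 0, .ofNat 0, .ofNat 491, .ofNat 1014, .ofNat 0, .ofNat 0, .ofNat 0, .ofNat 0, .ofNat 0, .ofNat 6846429326555336512606363882405658361856, .ofNat 2370567810710498610571601828865114112, .ofNat 0, .ofNat 0, .ofNat 4936157911375137582980606189125773557760, .ofNat 0, .ofNat 0, .ofNat 0,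 .ofNat 6821973869616406885576921501605400936448, .ofNat 2393046933994844185534026870140436480, .ofNat 0⟩)
    (by decide +kernel)
theorem L01590 : Good (Phi V5.P V5.D (-1) 1) ⟨3, 5, 2, 1, 1, 1, 1, 0, 3, 2⟩ :=
  out_sound (S := T5.ds_mp) T5.ok_mp (w := 43) (j := 3) (by decide +kernel)
theorem L01591 : Good (Phi V5.P V5.D (-1) 1) ⟨3, 4, 2, 1, 2, 2, 2, 0, 3, 3⟩ :=
  leafX_sound T5.ok_mp T5.Ymp.bz_eq (w := 208) (c := ⟨⟨.negSucc 1440, .negSucc 145, .negSucc 37, .negSucc 0, .ofNat 41, .ofNat 1⟩, ⟨.negSucc 393, .ofNat 102, .negSucc 270, .ofNat 0, .ofNat 120, .ofNat 0⟩, ⟨.ofNat 2218, .ofNat 166, .ofNat 297, .ofNat 1, .negSucc 874, .negSucc 0⟩, ⟨.negSucc 3134, .ofNat 42, .ofNat 36, .negSucc 1, .ofNat 149, .ofNat 2⟩, ⟨.negSucc 736, .negSucc 13, .ofNat 31, .ofNat 0, .ofNat 39, .ofNat 0⟩, .ofNat 335, .negSucc 74, .ofNat 0, .negSucc 74, .ofNat 623, .ofNat 0, .ofNat 319,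 .ofNat 36, .negSucc 15, .ofNat 0, .ofNat 128, .ofNat 20, .ofNat 0, .ofNat 0, .ofNat 1259, .ofNat 3650805, .ofNat 7524962411862576041461779221374526319230976, .ofNat 0, .ofNat 0, .ofNat 0, .ofNat 9667721255806585409422517681453264042721280, .ofNat 0, .ofNat 274633916699403785840788764740288512, .ofNat 0, .ofNat 2628920287891535936730912555521234499010560, .ofNat 0, .ofNat 151127155458126840873129884143058944, .ofNat 0, .ofNat 3733525287192229200060691349101932676382720, .ofNat 0, .ofNat 1354451742288842115942235342488207360, .ofNat 0⟩)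
    (by decide +kernel)
theorem L01592 : Good (Phi V5.P V5.D (-1) 1) ⟨3, 4, 2, 1, 2, 2, 2, 1, 3, 3⟩ :=
  leafX_sound T5.ok_mp T5.Ymp.bz_eq (w := 197) (c := ⟨⟨.negSucc 1659, .negSucc 170, .ofNat 0, .ofNat 233, .ofNat 184, .ofNat 351⟩, ⟨.negSucc 309, .ofNat 124, .negSucc 268, .ofNat 23, .ofNat 58, .ofNat 68⟩, ⟨.ofNat 2053, .ofNat 135, .ofNat 72, .negSucc 655, .negSucc 831, .negSucc 268⟩, ⟨.negSucc 3552, .ofNat 34, .ofNat 57, .ofNat 496, .ofNat 337, .ofNat 683⟩, ⟨.negSucc 558, .ofNat 6, .ofNat 2, .negSucc 100, .ofNat 298, .ofNat 202⟩, .ofNat 461, .negSucc 159, .ofNat 0, .negSucc 159, .ofNat 1276, .ofNat 0, .ofNat 271, .ofNat 60, .negSucc 28, .ofNat 0, .ofNat 128, .ofNat 0, .ofNat 0, .ofNat 0, .ofNat 838, .ofNat 1756, .ofNat 2996426045037890070117558209723066482688, .ofNat 0, .ofNat 0, .ofNat 0, .ofNat 0, .ofNat 0, .ofNat 0, .ofNat 0, .ofNat 0, .ofNat 0, .ofNat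 0, .ofNat 0, .ofNat 55882418529663763461551155952542585716736, .ofNat 2677810491785898736685309274866092867584, .ofNat 153621113272107582855156475772272640, .ofNat 0⟩)
    (by decide +kernel)
theorem L01593 : Good (Phi V5.P V5.D (-1) 1) ⟨3, 4, 2, 1, 2, 3, 1, 0, 3, 3⟩ :=
  leafX_sound T5.ok_mp T5.Ymp.bz_eq (w := 193) (c := ⟨⟨.negSucc 1565, .negSucc 138, .negSucc 30, .ofNat 395, .ofNat 321, .ofNat 1⟩, ⟨.negSucc 327, .ofNat 103, .negSucc 264, .ofNat 23, .ofNat 104, .ofNat 0⟩, ⟨.ofNat 2439, .ofNat 126, .ofNat 266, .negSucc 913, .negSucc 2142, .negSucc 0⟩, ⟨.negSucc 3265, .ofNat 51, .ofNat 44, .ofNat 808, .ofNat 552, .ofNat 1⟩, ⟨.negSucc 972, .negSucc 15, .ofNat 23, .negSucc 209, .ofNat 552, .ofNat 0⟩, .ofNat 459, .negSucc 153, .ofNat 0, .negSucc 153, .ofNat 1278, .ofNat 0, .ofNat 160, .ofNat 49, .negSucc 22, .ofNat 0, .ofNat 128, .ofNat 12, .ofNat 0, .ofNat 0,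 .ofNat 1265, .ofNat 2163, .ofNat 494313609064723695581058134898173280256, .ofNat 32213068633704003634250519474224496640, .ofNat 0, .ofNat 0, .ofNat 8963730803666090756338131170631834664960, .ofNat 1426897070534112604178995504435511164928, .ofNat 4382068155435798629273599981125632, .ofNat 0, .ofNat 363077934007602023388165542611775389696, .ofNat 486423932060866658526772678978237890560, .ofNat 13172012236801873566281938807816192, .ofNat 0, .ofNat 44564133807468631406700916958619177582592, .ofNat 6161537086272408270063292719606590865408, .ofNat 45613284646790163462556967690567680, .ofNat 0⟩)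
    (by decide +kernel)
theorem L01594 : Good (Phi V5.P V5.D (-1) 1) ⟨3, 5, 2, 1, 1, 1, 1, 0, 3, 3⟩ :=
  out_sound (S := T5.ds_mp) T5.ok_mp (w := 43) (j := 3) (by decide +kernel)
theorem L01595 : Good (Phi V5.P V5.D (-1) 1) ⟨2, 3, 2, 1, 1, 1, 1, 0, 2, 1⟩ :=
  out_sound (S := T5.ds_mp) T5.ok_mp (w := 37) (j := 3) (by decide +kernel)
theorem L01596 : Good (Phi V5.P V5.D (-1) 1) ⟨2, 2, 2, 1, 3, 4, 1, 0, 3, 4⟩ :=
  out_sound (S := T5.ds_mp) T5.ok_mp (w := 23) (j := 1) (by decide +kernel)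
theorem L01597 : Good (Phi V5.P V5.D (-1) 1) ⟨2, 2, 2, 1, 3, 5, 1, 0, 3, 4⟩ :=
  out_sound (S := T5.ds_mp) T5.ok_mp (w := 28) (j := 2) (by decide +kernel)
theorem L01598 : Good (Phi V5.P V5.D (-1) 1) ⟨2, 2, 2, 1, 2, 2, 1, 0, 3, 5⟩ :=
  out_sound (S := T5.ds_mp) T5.ok_mp (w := 21) (j := 1) (by decide +kernel)
theorem L01599 : Good (Phi V5.P V5.D (-1) 1) ⟨2, 3, 2, 1, 2, 2, 1, 0, 2, 2⟩ :=
  out_sound (S := T5.ds_mp) T5.ok_mp (w := 37) (j := 3) (by decide +kernel)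
theorem L01600 : Good (Phi V5.P V5.D (-1) 1) ⟨1, 1, 2, 1, 2, 2, 1, 0, 2, 3⟩ :=
  out_sound (S := T5.ds_mp) T5.ok_mp (w := 19) (j := 1) (by decide +kernel)
theorem L01601 : Good (Phi V5.P V5.D (-1) 1) ⟨1, 1, 2, 1, 2, 3, 1, 0, 1, 1⟩ :=
  out_sound (S := T5.ds_mp) T5.ok_mp (w := 22) (j := 2) (by decide +kernel)
theorem L01602 : Good (Phi V5.P V5.D (-1) 1) ⟨3, 4, 4, 0, 2, 2, 2, 2, 4, 0⟩ :=
  leafX_sound T5.ok_mp T5.Ymp.bz_eq (w := 208) (c := ⟨⟨.ofNat 1037, .negSucc 62, .ofNat 2, .ofNat 737, .negSucc 916, .negSucc 1821⟩, ⟨.negSucc 92, .negSucc 11, .negSucc 27, .negSucc 45, .ofNat 59, .ofNat 60⟩, ⟨.negSucc 888, .negSucc 32, .negSucc 29, .negSucc 411, .ofNat 588, .ofNat 1174⟩, ⟨.ofNat 2041, .negSucc 162, .ofNat 31, .ofNat 1560, .negSucc 1882, .negSucc 3765⟩, ⟨.negSucc 303, .negSucc 305, .negSucc 140, .negSucc 426, .negSucc 108, .negSucc 337⟩, .ofNat 441, .ofNat 60,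 .ofNat 0, .ofNat 60, .ofNat 1605, .ofNat 0, .ofNat 439, .negSucc 14, .negSucc 366, .ofNat 0, .ofNat 128, .ofNat 32, .ofNat 0, .ofNat 0, .ofNat 545, .ofNat 867, .ofNat 0, .ofNat 0, .ofNat 0, .ofNat 0, .ofNat 0, .ofNat 0, .ofNat 0, .ofNat 0, .ofNat 0, .ofNat 0, .ofNat 0, .ofNat 0, .ofNat 0, .ofNat 0, .ofNat 0, .ofNat 0⟩)
    (by decide +kernel)
theorem L01603 : Good (Phi V5.P V5.D (-1) 1) ⟨4, 10, 4, 0, 2, 2, 2, 2, 4, 0⟩ :=
  leafX_sound T5.ok_mp T5.Ymp.bz_eq (w := 212) (c := ⟨⟨.ofNat 1296, .ofNat 362, .ofNat 112, .ofNat 1162, .negSucc 1301, .negSucc 2703⟩, ⟨.negSucc 220, .negSucc 127, .negSucc 7, .negSucc 165, .ofNat 180, .ofNat 301⟩, ⟨.negSucc 1013, .negSucc 263, .negSucc 100, .negSucc 850, .ofNat 791, .ofNat 1878⟩, ⟨.ofNat 2363, .ofNat 549, .ofNat 242, .ofNat 2080, .negSucc 2413, .negSucc 5039⟩, ⟨.negSucc 564, .negSucc 9, .negSucc 92, .negSucc 563, .negSucc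 32, .negSucc 305⟩, .ofNat 413, .ofNat 125, .ofNat 0, .ofNat 125, .ofNat 1293, .ofNat 0, .ofNat 575, .negSucc 56, .negSucc 643, .ofNat 0, .ofNat 128, .ofNat 99, .ofNat 0, .ofNat 0, .ofNat 808, .ofNat 746, .ofNat 0, .ofNat 0, .ofNat 0, .ofNat 0, .ofNat 0, .ofNat 0, .ofNat 0, .ofNat 0, .ofNat 0, .ofNat 0, .ofNat 0, .ofNat 0, .ofNat 0, .ofNat 0, .ofNat 3324424321020596342821461159888027648, .ofNat 0⟩)
    (by decide +kernel)
theorem L01604 : Good (Phi V5.P V5.D (-1) 1) ⟨4, 11, 4, 0, 2, 2, 2, 2, 4, 0⟩ :=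
  leafX_sound T5.ok_mp T5.Ymp.bz_eq (w := 213) (c := ⟨⟨.ofNat 1765, .ofNat 638, .ofNat 355, .ofNat 1409, .negSucc 1457, .negSucc 3154⟩, ⟨.negSucc 383, .negSucc 133, .negSucc 95, .negSucc 309, .ofNat 267, .ofNat 483⟩, ⟨.negSucc 1352, .negSucc 231, .negSucc 176, .negSucc 1120, .ofNat 825, .ofNat 2276⟩, ⟨.ofNat 2984, .ofNat 1137, .ofNat 679, .ofNat 2367, .negSucc 2562, .negSucc 5617⟩, ⟨.negSucc 950, .ofNat 1113, .ofNat 489, .negSucc 635, .negSucc 18, .negSucc 208⟩, .ofNat 470, .ofNat 261, .ofNat 0, .ofNat 261, .ofNat 1695, .ofNat 0, .ofNat 669, .negSucc 99, .negSucc 738, .ofNat 0, .ofNat 128, .ofNat 150, .ofNat 0, .ofNat 0, .ofNat 887, .ofNat 695, .ofNat 0, .ofNat 0, .ofNat 168586252141590495792291567844196352, .ofNat 0, .ofNat 0, .ofNat 0, .ofNat 0, .ofNat 0, .ofNat 0, .ofNat 0, .ofNat 24006965283489361823380417200611393536, .ofNat 0, .ofNat 0, .ofNat 0, .ofNat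 13936325799537509163514274430687641600, .ofNat 0⟩)
    (by decide +kernel)
theorem L01605 : Good (Phi V5.P V5.D (-1) 1) ⟨3, 4, 4, 0, 2, 2, 2, 3, 4, 0⟩ :=
  leafX_sound T5.ok_mp T5.Ymp.bz_eq (w := 207) (c := ⟨⟨.ofNat 53, .negSucc 245, .negSucc 27, .ofNat 88, .negSucc 354, .negSucc 887⟩, ⟨.negSucc 42, .ofNat 40, .negSucc 46, .negSucc 23, .ofNat 31, .ofNat 47⟩, ⟨.negSucc 163, .ofNat 139, .negSucc 25, .negSucc 51, .ofNat 193, .ofNat 541⟩, ⟨.ofNat 44, .negSucc 388, .negSucc 44, .ofNat 126, .negSucc 766, .negSucc 1793⟩, ⟨.negSucc 860, .negSucc 85, .negSucc 8, .negSucc 229, .ofNat 318, .ofNat 65⟩, .ofNat 479, .ofNat 89, .ofNat 0, .ofNat 89, .ofNat 2235, .ofNat 0, .ofNat 588, .negSucc 5, .negSucc 754, .ofNat 0, .ofNat 128, .ofNat 60, .ofNat 0, .ofNat 0, .ofNat 1037, .ofNat 1080, .ofNat 0, .ofNat 0, .ofNat 0, .ofNat 0, .ofNat 0, .ofNat 0, .ofNat 0, .ofNat 0, .ofNat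 0, .ofNat 70030122089565354089617849337678013661184, .ofNat 0, .ofNat 0, .ofNat 0, .ofNat 0, .ofNat 0, .ofNat 0⟩)
    (by decide +kernel)
theorem L01606 : Good (Phi V5.P V5.D (-1) 1) ⟨4, 10, 4, 0, 2, 2, 3, 6, 4, 0⟩ :=
  leafX_sound T5.ok_mp T5.Ymp.bz_eq (w := 216) (c := ⟨⟨.ofNat 260, .negSucc 414, .negSucc 61, .ofNat 532, .negSucc 556, .negSucc 1780⟩, ⟨.negSucc 103, .ofNat 62, .negSucc 54, .negSucc 102, .ofNat 80, .ofNat 230⟩, ⟨.negSucc 416, .ofNat 307, .ofNat 36, .negSucc 456, .ofNat 435, .ofNat 1294⟩, ⟨.ofNat 291, .negSucc 664, .negSucc 77, .ofNat 943, .negSucc 1021, .negSucc 3270⟩, ⟨.negSucc 823, .negSucc 122, .ofNat 30, .negSucc 490, .ofNat 162, .ofNat 80⟩, .ofNat 474, .ofNat 220, .ofNat 0, .ofNat 220, .ofNat 2029, .ofNat 0, .ofNat 428, .negSucc 63, .negSucc 679, .ofNat 0, .ofNat 128, .ofNat 102, .ofNat 0, .ofNat 0, .ofNat 827, .ofNat 782, .ofNat 0, .ofNat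 0, .ofNat 0, .ofNat 0, .ofNat 0, .ofNat 0, .ofNat 0, .ofNat 0, .ofNat 0, .ofNat 0, .ofNat 0, .ofNat 0, .ofNat 0, .ofNat 0, .ofNat 124958997138755733261904481534133403648, .ofNat 0⟩)
    (by decide +kernel)
theorem L01607 : Good (Phi V5.P V5.D (-1) 1) ⟨4, 10, 4, 0, 2, 2, 3, 7, 4, 0⟩ :=
  leafX_sound T5.ok_mp T5.Ymp.bz_eq (w := 215) (c := ⟨⟨.negSucc 552, .negSucc 377, .negSucc 10, .negSucc 15, .ofNat 2, .negSucc 1069⟩, ⟨.negSucc 7, .ofNat 74, .negSucc 64, .negSucc 35, .ofNat 21, .ofNat 160⟩, ⟨.ofNat 209, .ofNat 313, .negSucc 13, .negSucc 12, .negSucc 68, .ofNat 733⟩, ⟨.negSucc 1196, .negSucc 577, .ofNat 8, .negSucc 74, .ofNat 15, .negSucc 1948⟩, ⟨.negSucc 912, .ofNat 18, .negSucc 11, .negSucc 376, .ofNat 217, .ofNat 309⟩, .ofNat 474, .ofNat 220, .ofNat 0, .ofNat 220, .ofNat 2029, .ofNat 0, .ofNat 399, .negSucc 46, .negSucc 917, .ofNat 0, .ofNat 128, .ofNat 136,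 .ofNat 0, .ofNat 0, .ofNat 1086, .ofNat 473, .ofNat 0, .ofNat 0, .ofNat 0, .ofNat 0, .ofNat 0, .ofNat 0, .ofNat 0, .ofNat 0, .ofNat 0, .ofNat 0, .ofNat 0, .ofNat 0, .ofNat 0, .ofNat 4845151143421367038463824831581018686226432, .ofNat 227614398807745433786955108187824455680, .ofNat 0⟩)
    (by decide +kernel)
theorem L01608 : Good (Phi V5.P V5.D (-1) 1) ⟨5, 22, 4, 0, 2, 2, 3, 6, 4, 0⟩ :=
  leafX_sound T5.ok_mp T5.Ymp.bz_eq (w := 220) (c := ⟨⟨.ofNat 277, .negSucc 603, .negSucc 219, .ofNat 650, .negSucc 589, .negSucc 2234⟩, ⟨.negSucc 159, .ofNat 90, .negSucc 44, .negSucc 166, .ofNat 125, .ofNat 401⟩, ⟨.negSucc 471, .ofNat 462, .ofNat 158, .negSucc 572, .ofNat 483, .ofNat 1714⟩, ⟨.ofNat 378, .negSucc 997, .negSucc 343, .ofNat 1049, .negSucc 1051, .negSucc 4005⟩, ⟨.negSucc 1101, .ofNat 91, .ofNat 114, .negSucc 572, .ofNat 238, .ofNat 336⟩, .ofNat 406, .ofNat 156,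 .ofNat 0, .ofNat 156, .ofNat 1145, .ofNat 0, .ofNat 453, .negSucc 55, .negSucc 974, .ofNat 0, .ofNat 128, .ofNat 191, .ofNat 0, .ofNat 0, .ofNat 1085, .ofNat 938, .ofNat 0, .ofNat 0, .ofNat 442417945281012742595392701917560832, .ofNat 0, .ofNat 0, .ofNat 0, .ofNat 36358103261642890985069475214584184832, .ofNat 0, .ofNat 0, .ofNat 0, .ofNat 0, .ofNat 0, .ofNat 0, .ofNat 0, .ofNat 74290350636220400342590905123705192448, .ofNat 0⟩)
    (by decide +kernel)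
theorem L01609 : Good (Phi V5.P V5.D (-1) 1) ⟨5, 22, 4, 0, 2, 2, 3, 7, 4, 0⟩ :=
  leafX_sound T5.ok_mp T5.Ymp.bz_eq (w := 219) (c := ⟨⟨.negSucc 777, .ofNat 18, .negSucc 37, .negSucc 3, .ofNat 70, .negSucc 1608⟩, ⟨.ofNat 8, .ofNat 25, .negSucc 62, .negSucc 45, .ofNat 20, .ofNat 323⟩, ⟨.ofNat 363, .negSucc 6, .ofNat 19, .negSucc 25, .negSucc 130, .ofNat 1234⟩, ⟨.negSucc 1577, .ofNat 119, .negSucc 27, .negSucc 66, .ofNat 165, .negSucc 2758⟩, ⟨.negSucc 1034, .ofNat 89, .ofNat 72, .negSucc 326, .ofNat 249, .ofNat 440⟩, .ofNat 506, .ofNat 334, .ofNat 0, .ofNat 334, .ofNat 2100, .ofNat 0, .ofNat 252, .negSucc 65, .negSucc 1021, .ofNat 0, .ofNat 128, .ofNat 201, .ofNat 0, .ofNat 0, .ofNat 1157, .ofNat 586, .ofNat 0, .ofNat 0, .ofNat 302623161112474208773806080118489088, .ofNat 0, .ofNat 0, .ofNat 0, .ofNat 7959412167409727436544654995305267200, .ofNat 0, .ofNat 0,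 .ofNat 0, .ofNat 0, .ofNat 0, .ofNat 0, .ofNat 0, .ofNat 61075711001736391705456955140423548928, .ofNat 0⟩)
    (by decide +kernel)
theorem L01610 : Good (Phi V5.P V5.D (-1) 1) ⟨5, 23, 4, 0, 2, 2, 2, 3, 4, 0⟩ :=
  out_sound (S := T5.ds_mp) T5.ok_mp (w := 59) (j := 3) (by decide +kernel)
theorem L01611 : Good (Phi V5.P V5.D (-1) 1) ⟨3, 4, 4, 0, 2, 2, 2, 2, 5, 2⟩ :=
  leafX_sound T5.ok_mp T5.Ymp.bz_eq (w := 213) (c := ⟨⟨.negSucc 747, .negSucc 517, .negSucc 39, .ofNat 251, .negSucc 234, .negSucc 596⟩, ⟨.negSucc 39, .ofNat 116, .negSucc 68, .negSucc 44, .ofNat 29, .ofNat 46⟩, ⟨.ofNat 275, .ofNat 398, .ofNat 32, .negSucc 322, .ofNat 212, .ofNat 419⟩, ⟨.negSucc 1779, .negSucc 745, .negSucc 39, .ofNat 495, .negSucc 479, .negSucc 1187⟩, ⟨.negSucc 835, .negSucc 65, .negSucc 18, .negSucc 606, .ofNat 256, .ofNat 109⟩, .ofNat 439, .ofNat 63, .ofNat 0, .ofNat 63, .ofNat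 1590, .ofNat 0, .ofNat 645, .negSucc 28, .negSucc 489, .ofNat 0, .ofNat 128, .ofNat 49, .ofNat 0, .ofNat 0, .ofNat 775, .ofNat 2086, .ofNat 0, .ofNat 0, .ofNat 0, .ofNat 0, .ofNat 0, .ofNat 0, .ofNat 0, .ofNat 0, .ofNat 0, .ofNat 0, .ofNat 0, .ofNat 0, .ofNat 0, .ofNat 0, .ofNat 0, .ofNat 0⟩)
    (by decide +kernel)
theorem L01612 : Good (Phi V5.P V5.D (-1) 1) ⟨3, 5, 4, 0, 2, 2, 2, 2, 5, 2⟩ :=
  leafX_sound T5.ok_mp T5.Ymp.bz_eq (w := 212) (c := ⟨⟨.negSucc 914, .negSucc 1063, .negSucc 123, .negSucc 55, .negSucc 356, .negSucc 820⟩, ⟨.negSucc 2, .ofNat 304, .negSucc 83, .negSucc 62, .ofNat 81, .ofNat 146⟩, ⟨.ofNat 394, .ofNat 895, .ofNat 98, .negSucc 148, .ofNat 340, .ofNat 626⟩, ⟨.negSucc 1971, .negSucc 1442, .negSucc 191, .negSucc 184, .negSucc 634, .negSucc 1450⟩, ⟨.negSucc 695, .ofNat 141, .negSucc 88, .negSucc 782, .ofNat 207, .ofNat 22⟩, .ofNat 448, .ofNat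 188, .ofNat 0, .ofNat 188, .ofNat 1611, .ofNat 0, .ofNat 392, .negSucc 92, .negSucc 560, .ofNat 0, .ofNat 128, .ofNat 100, .ofNat 0, .ofNat 0, .ofNat 748, .ofNat 646, .ofNat 0, .ofNat 0, .ofNat 11792647146432803200214893604118724608, .ofNat 0, .ofNat 0, .ofNat 0, .ofNat 0, .ofNat 0, .ofNat 0, .ofNat 0, .ofNat 1069980969121088288382547344673015332864, .ofNat 0, .ofNat 0, .ofNat 0, .ofNat 1403470481162353431770384010056583610368, .ofNat 0⟩)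
    (by decide +kernel)
theorem L01613 : Good (Phi V5.P V5.D (-1) 1) ⟨3, 4, 4, 0, 2, 2, 2, 3, 5, 2⟩ :=
  leafX_sound T5.ok_mp T5.Ymp.bz_eq (w := 213) (c := ⟨⟨.negSucc 1122, .negSucc 497, .negSucc 33, .negSucc 12, .ofNat 433, .negSucc 273⟩, ⟨.negSucc 9, .ofNat 114, .negSucc 61, .negSucc 20, .ofNat 14, .ofNat 19⟩, ⟨.ofNat 589, .ofNat 369, .ofNat 10, .negSucc 87, .negSucc 391, .ofNat 172⟩, ⟨.negSucc 2488, .negSucc 713, .negSucc 34, .negSucc 67, .ofNat 895, .negSucc 555⟩, ⟨.negSucc 860, .negSucc 65, .negSucc 59, .negSucc 307, .ofNat 618, .ofNat 207⟩, .ofNat 440, .ofNat 64, .ofNat 0, .ofNat 64, .ofNat 1606, .ofNat 0, .ofNat 360, .negSucc 9, .negSucc 677, .ofNat 0, .ofNat 128, .ofNat 63, .ofNat 0, .ofNat 0, .ofNat 938, .ofNat 1114, .ofNat 0, .ofNat 0, .ofNat 0, .ofNat 0, .ofNat 0, .ofNat 0, .ofNat 0, .ofNat 0, .ofNat 0, .ofNat 1136745560496201559615845304123429941673984,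 .ofNat 0, .ofNat 0, .ofNat 0, .ofNat 2429657176963303918309624582866977733738496, .ofNat 0, .ofNat 0⟩)
    (by decide +kernel)
theorem L01614 : Good (Phi V5.P V5.D (-1) 1) ⟨4, 10, 4, 0, 2, 2, 3, 6, 5, 2⟩ :=
  leafX_sound T5.ok_mp T5.Ymp.bz_eq (w := 221) (c := ⟨⟨.negSucc 1473, .negSucc 598, .negSucc 114, .negSucc 73, .negSucc 24, .negSucc 457⟩, ⟨.ofNat 101, .ofNat 158, .negSucc 79, .negSucc 37, .ofNat 26, .ofNat 78⟩, ⟨.ofNat 878, .ofNat 503, .ofNat 97, .negSucc 95, .ofNat 24, .ofNat 313⟩, ⟨.negSucc 2961, .negSucc 855, .negSucc 185, .negSucc 186, .negSucc 18, .negSucc 824⟩, ⟨.negSucc 746, .ofNat 44, .ofNat 60, .negSucc 497, .ofNat 219, .ofNat 206⟩, .ofNat 475, .ofNat 223, .ofNat 0, .ofNat 223, .ofNat 2014, .ofNat 0, .ofNat 517, .negSucc 79, .negSucc 812, .ofNat 0, .ofNat 128, .ofNat 129, .ofNat 0, .ofNat 0, .ofNat 1045, .ofNat 1754, .ofNat 0, .ofNat 0, .ofNat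 0, .ofNat 0, .ofNat 0, .ofNat 0, .ofNat 0, .ofNat 0, .ofNat 0, .ofNat 0, .ofNat 0, .ofNat 0, .ofNat 0, .ofNat 0, .ofNat 11679070719555480436363857377262548549632, .ofNat 0⟩)
    (by decide +kernel)
theorem L01615 : Good (Phi V5.P V5.D (-1) 1) ⟨4, 11, 4, 0, 2, 2, 3, 6, 5, 2⟩ :=
  leafX_sound T5.ok_mp T5.Ymp.bz_eq (w := 222) (c := ⟨⟨.negSucc 1826, .negSucc 1178, .negSucc 231, .negSucc 444, .negSucc 5, .negSucc 413⟩, ⟨.ofNat 208, .ofNat 317, .negSucc 57, .ofNat 18, .ofNat 30, .ofNat 95⟩, ⟨.ofNat 1183, .ofNat 992, .ofNat 183, .ofNat 194, .ofNat 22, .ofNat 294⟩, ⟨.negSucc 3409, .negSucc 1748, .negSucc 372, .negSucc 853, .ofNat 24, .negSucc 697⟩, ⟨.negSucc 837, .ofNat 363, .ofNat 185, .negSucc 402, .ofNat 251, .ofNat 223⟩, .ofNat 493, .ofNat 306, .ofNat 0, .ofNat 306, .ofNat 1938, .ofNat 0, .ofNat 435, .negSucc 96, .negSucc 1005, .ofNat 0, .ofNat 128, .ofNat 206,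 .ofNat 0, .ofNat 0, .ofNat 1196, .ofNat 1787, .ofNat 0, .ofNat 0, .ofNat 197442813674139475398780100936695021568, .ofNat 0, .ofNat 0, .ofNat 0, .ofNat 3147399037245569808567481612461775257600, .ofNat 0, .ofNat 0, .ofNat 0, .ofNat 9093900792265403325655077869425587650560, .ofNat 0, .ofNat 0, .ofNat 0, .ofNat 18775359680496112124809859933285008801792, .ofNat 0⟩)
    (by decide +kernel)
theorem L01616 : Good (Phi V5.P V5.D (-1) 1) ⟨4, 10, 4, 0, 2, 2, 3, 7, 5, 2⟩ :=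
  leafX_sound T5.ok_mp T5.Ymp.bz_eq (w := 221) (c := ⟨⟨.negSucc 1482, .negSucc 620, .negSucc 125, .negSucc 342, .ofNat 602, .negSucc 239⟩, ⟨.ofNat 112, .ofNat 153, .negSucc 63, .ofNat 10, .negSucc 33, .ofNat 56⟩, ⟨.ofNat 860, .ofNat 541, .ofNat 108, .ofNat 156, .negSucc 588, .ofNat 134⟩, ⟨.negSucc 2941, .negSucc 915, .negSucc 209, .negSucc 668, .ofNat 1154, .negSucc 415⟩, ⟨.negSucc 629, .ofNat 104, .ofNat 6, .negSucc 335, .ofNat 355, .ofNat 247⟩, .ofNat 475, .ofNat 220, .ofNat 0, .ofNat 220, .ofNat 2031, .ofNat 0, .ofNat 305, .negSucc 63, .negSucc 850, .ofNat 0, .ofNat 128, .ofNat 129, .ofNat 0, .ofNat 0, .ofNat 1031, .ofNat 772, .ofNat 0, .ofNat 0, .ofNat 0, .ofNat 0, .ofNat 0, .ofNat 0, .ofNat 0, .ofNat 0, .ofNat 0, .ofNat 0, .ofNat 0, .ofNat 0, .ofNat 0, .ofNat 0, .ofNat 5440439408040079212945590539594103783424, .ofNat 0⟩)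
    (by decide +kernel)
theorem L01617 : Good (Phi V5.P V5.D (-1) 1) ⟨4, 11, 4, 0, 2, 2, 3, 7, 5, 2⟩ :=
  leafX_sound T5.ok_mp T5.Ymp.bz_eq (w := 222) (c := ⟨⟨.negSucc 1880, .negSucc 1041, .negSucc 389, .negSucc 776, .ofNat 651, .negSucc 259⟩, ⟨.ofNat 232, .ofNat 273, .negSucc 21, .ofNat 100, .negSucc 63, .ofNat 79⟩, ⟨.ofNat 1216, .ofNat 910, .ofNat 358, .ofNat 523, .negSucc 614, .ofNat 127⟩, ⟨.negSucc 3463, .negSucc 1571, .negSucc 673, .negSucc 1419, .ofNat 1199, .negSucc 407⟩, ⟨.negSucc 589, .negSucc 40, .ofNat 68, .negSucc 241, .ofNat 386, .ofNat 291⟩, .ofNat 469, .ofNat 257, .ofNat 0, .ofNat 257, .ofNat 1686, .ofNat 0, .ofNat 430, .negSucc 76, .negSucc 1701, .ofNat 0, .ofNat 128, .ofNat 340, .ofNat 0, .ofNat 0, .ofNat 1906, .ofNat 905, .ofNat 0, .ofNat 0, .ofNat 133537140614594416554016735481728860160, .ofNat 0, .ofNat 0, .ofNat 0, .ofNat 3779867411713267662973224899482493124608,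 .ofNat 0, .ofNat 0, .ofNat 0, .ofNat 8002772829050791569841527313717484584960, .ofNat 0, .ofNat 0, .ofNat 367990471976508661453006996296151522498052096, .ofNat 25417227730575002459659940064510640914432, .ofNat 0⟩)
    (by decide +kernel)
theorem L01618 : Good (Phi V5.P V5.D (-1) 1) ⟨3, 4, 4, 0, 2, 2, 2, 2, 5, 3⟩ :=
  leafX_sound T5.ok_mp T5.Ymp.bz_eq (w := 214) (c := ⟨⟨.negSucc 1381, .negSucc 620, .negSucc 57, .negSucc 28, .ofNat 78, .negSucc 269⟩, ⟨.negSucc 6, .ofNat 163, .negSucc 86, .negSucc 31, .ofNat 15, .ofNat 23⟩, ⟨.ofNat 743, .ofNat 497, .ofNat 55, .negSucc 175, .negSucc 24, .ofNat 207⟩, ⟨.negSucc 3127, .negSucc 818, .negSucc 81, .negSucc 67, .ofNat 170, .negSucc 552⟩, ⟨.negSucc 792, .negSucc 75, .ofNat 25, .negSucc 556, .ofNat 293, .ofNat 161⟩, .ofNat 502, .ofNat 118, .ofNat 0, .ofNat 118, .ofNat 2837, .ofNat 0, .ofNat 724, .negSucc 51, .negSucc 411,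 .ofNat 0, .ofNat 128, .ofNat 36, .ofNat 0, .ofNat 0, .ofNat 741, .ofNat 3380, .ofNat 0, .ofNat 0, .ofNat 0, .ofNat 0, .ofNat 0, .ofNat 0, .ofNat 0, .ofNat 0, .ofNat 0, .ofNat 0, .ofNat 0, .ofNat 0, .ofNat 0, .ofNat 0, .ofNat 0, .ofNat 0⟩)
    (by decide +kernel)
theorem L01619 : Good (Phi V5.P V5.D (-1) 1) ⟨4, 10, 4, 0, 2, 2, 2, 2, 5, 3⟩ :=
  leafX_sound T5.ok_mp T5.Ymp.bz_eq (w := 218) (c := ⟨⟨.negSucc 1983, .negSucc 555, .negSucc 97, .negSucc 198, .ofNat 108, .negSucc 213⟩, ⟨.ofNat 160, .ofNat 163, .negSucc 98, .negSucc 29, .ofNat 19, .ofNat 39⟩, ⟨.ofNat 1247, .ofNat 474, .ofNat 89, .negSucc 81, .negSucc 65, .ofNat 176⟩, ⟨.negSucc 3931, .negSucc 730, .negSucc 145, .negSucc 426, .ofNat 228, .negSucc 384⟩, ⟨.negSucc 820, .ofNat 24, .ofNat 40, .negSucc 542, .ofNat 294, .ofNat 185⟩, .ofNat 474, .ofNat 219, .ofNat 0, .ofNat 219, .ofNat 2000, .ofNat 0, .ofNat 590,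 .negSucc 99, .negSucc 769, .ofNat 0, .ofNat 128, .ofNat 130, .ofNat 0, .ofNat 0, .ofNat 1156, .ofNat 2033, .ofNat 0, .ofNat 0, .ofNat 0, .ofNat 0, .ofNat 0, .ofNat 0, .ofNat 0, .ofNat 0, .ofNat 0, .ofNat 0, .ofNat 0, .ofNat 0, .ofNat 0, .ofNat 0, .ofNat 0, .ofNat 0⟩)
    (by decide +kernel)
theorem L01620 : Good (Phi V5.P V5.D (-1) 1) ⟨4, 11, 4, 0, 2, 2, 2, 2, 5, 3⟩ :=
  leafX_sound T5.ok_mp T5.Ymp.bz_eq (w := 218) (c := ⟨⟨.negSucc 2453, .negSucc 846, .negSucc 299, .negSucc 311, .ofNat 72, .negSucc 159⟩, ⟨.ofNat 311, .ofNat 257, .negSucc 68, .negSucc 15, .ofNat 27, .ofNat 47⟩, ⟨.ofNat 1667, .ofNat 720, .ofNat 237, .negSucc 2, .negSucc 34, .ofNat 129⟩, ⟨.negSucc 4527, .negSucc 1139, .negSucc 489, .negSucc 637, .ofNat 176, .negSucc 253⟩, ⟨.negSucc 772, .ofNat 108, .ofNat 103, .negSucc 554, .ofNat 310, .ofNat 183⟩, .ofNat 506, .ofNat 333, .ofNat 0, .ofNat 333,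 .ofNat 2093, .ofNat 0, .ofNat 573, .negSucc 118, .negSucc 698, .ofNat 0, .ofNat 128, .ofNat 152, .ofNat 0, .ofNat 0, .ofNat 976, .ofNat 1959, .ofNat 0, .ofNat 0, .ofNat 10564220615487169610049477978372440064, .ofNat 0, .ofNat 0, .ofNat 0, .ofNat 0, .ofNat 0, .ofNat 0, .ofNat 0, .ofNat 732733754121782965167263726589796417536, .ofNat 0, .ofNat 0, .ofNat 0, .ofNat 859762817810550143703490101637701173248, .ofNat 0⟩)
    (by decide +kernel)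
theorem L01621 : Good (Phi V5.P V5.D (-1) 1) ⟨3, 4, 4, 0, 2, 2, 3, 6, 5, 3⟩ :=
  leafX_sound T5.ok_mp T5.Ymp.bz_eq (w := 218) (c := ⟨⟨.negSucc 1396, .negSucc 577, .negSucc 54, .negSucc 52, .ofNat 151, .negSucc 148⟩, ⟨.ofNat 4, .ofNat 164, .negSucc 81, .negSucc 22, .ofNat 9, .ofNat 17⟩, ⟨.ofNat 812, .ofNat 440, .ofNat 37, .negSucc 145, .negSucc 136, .ofNat 90⟩, ⟨.negSucc 3142, .negSucc 729, .negSucc 88, .negSucc 111, .ofNat 315, .negSucc 296⟩, ⟨.negSucc 628, .negSucc 5, .ofNat 21, .negSucc 411, .ofNat 281, .ofNat 169⟩, .ofNat 502, .ofNat 125, .ofNat 0, .ofNat 125, .ofNat 2825, .ofNat 0, .ofNat 386, .negSucc 42, .negSucc 333, .ofNat 0, .ofNat 128, .ofNat 29, .ofNat 0, .ofNat 0, .ofNat 562, .ofNat 2509, .ofNat 0, .ofNat 0, .ofNat 0, .ofNat 0, .ofNat 0, .ofNat 0, .ofNat 0, .ofNat 0, .ofNat 0, .ofNat 0, .ofNat 0, .ofNat 0, .ofNat 0, .ofNat 0, .ofNat 0, .ofNat 0⟩)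
    (by decide +kernel)
theorem L01622 : Good (Phi V5.P V5.D (-1) 1) ⟨3, 5, 4, 0, 2, 2, 3, 6, 5, 3⟩ :=
  leafX_sound T5.ok_mp T5.Ymp.bz_eq (w := 217) (c := ⟨⟨.negSucc 1989, .negSucc 1147, .negSucc 99, .negSucc 166, .ofNat 192, .negSucc 51⟩, ⟨.ofNat 176, .ofNat 365, .negSucc 90, .negSucc 21, .ofNat 3, .ofNat 23⟩, ⟨.ofNat 1322, .ofNat 985, .ofNat 89, .negSucc 131, .negSucc 187, .negSucc 3⟩, ⟨.negSucc 3909, .negSucc 1510, .negSucc 170, .negSucc 344, .ofNat 383, .negSucc 78⟩, ⟨.negSucc 706, .ofNat 60, .ofNat 125, .negSucc 424, .ofNat 352, .ofNat 297⟩, .ofNat 474, .ofNat 225, .ofNat 0, .ofNat 225, .ofNat 1976, .ofNat 0, .ofNat 315, .negSucc 87, .negSucc 471, .ofNat 0, .ofNat 128, .ofNat 79, .ofNat 0, .ofNat 0, .ofNat 656, .ofNat 901, .ofNat 0, .ofNat 0, .ofNat 228412535173744554304641021657070174208, .ofNat 0, .ofNat 0, .ofNat 0, .ofNat 5429039808968238653134653207576963973120,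 .ofNat 0, .ofNat 0, .ofNat 0, .ofNat 25471890854916192627018921754070813245440, .ofNat 0, .ofNat 0, .ofNat 0, .ofNat 25667960251872068325527257688163697557504, .ofNat 0⟩)
    (by decide +kernel)
theorem L01623 : Good (Phi V5.P V5.D (-1) 1) ⟨3, 4, 4, 0, 2, 2, 3, 7, 5, 3⟩ :=
  leafX_sound T5.ok_mp T5.Ymp.bz_eq (w := 217) (c := ⟨⟨.negSucc 1291, .negSucc 421, .negSucc 59, .negSucc 197, .ofNat 532, .negSucc 106⟩, ⟨.ofNat 5, .ofNat 141, .negSucc 64, .negSucc 2, .ofNat 10, .ofNat 23⟩, ⟨.ofNat 693, .ofNat 295, .ofNat 48, .ofNat 24, .negSucc 495, .ofNat 42⟩, ⟨.negSucc 2848, .negSucc 480, .negSucc 116, .negSucc 443, .ofNat 1106, .negSucc 217⟩, ⟨.negSucc 659, .ofNat 110, .ofNat 7, .negSucc 67, .ofNat 653, .ofNat 268⟩, .ofNat 440, .ofNat 54, .ofNat 0, .ofNat 54, .ofNat 1586, .ofNat 0, .ofNat 499, .negSucc 5, .negSucc 1023, .ofNat 0, .ofNat 128, .ofNat 91, .ofNat 0, .ofNat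 0, .ofNat 1479, .ofNat 1501, .ofNat 0, .ofNat 0, .ofNat 0, .ofNat 0, .ofNat 0, .ofNat 0, .ofNat 0, .ofNat 0, .ofNat 0, .ofNat 7239729924473737507246276811738912995147776, .ofNat 0, .ofNat 0, .ofNat 0, .ofNat 0, .ofNat 0, .ofNat 0⟩)
    (by decide +kernel)
theorem L01624 : Good (Phi V5.P V5.D (-1) 1) ⟨4, 10, 4, 0, 2, 2, 3, 7, 5, 3⟩ :=
  leafX_sound T5.ok_mp T5.Ymp.bz_eq (w := 221) (c := ⟨⟨.negSucc 1881, .negSucc 577, .negSucc 185, .negSucc 211, .ofNat 873, .ofNat 183⟩, ⟨.ofNat 167, .ofNat 173, .negSucc 55, .ofNat 3, .negSucc 61, .ofNat 4⟩, ⟨.ofNat 1179, .ofNat 492, .ofNat 180, .negSucc 38, .negSucc 840, .negSucc 229⟩, ⟨.negSucc 3682, .negSucc 787, .negSucc 318, .negSucc 413, .ofNat 1662, .ofNat 357⟩, ⟨.negSucc 526, .ofNat 80, .ofNat 64, .negSucc 210, .ofNat 478, .ofNat 332⟩, .ofNat 474, .ofNat 220, .ofNat 0, .ofNat 220, .ofNat 2019, .ofNat 0, .ofNat 404, .negSucc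 73, .negSucc 1210, .ofNat 0, .ofNat 128, .ofNat 189, .ofNat 0, .ofNat 0, .ofNat 1567, .ofNat 475, .ofNat 0, .ofNat 0, .ofNat 0, .ofNat 0, .ofNat 0, .ofNat 0, .ofNat 0, .ofNat 0, .ofNat 0, .ofNat 38939233894819479760574992272217481286778880, .ofNat 0, .ofNat 0, .ofNat 0, .ofNat 0, .ofNat 0, .ofNat 0⟩)
    (by decide +kernel)
theorem L01625 : Good (Phi V5.P V5.D (-1) 1) ⟨4, 11, 4, 0, 2, 2, 3, 7, 5, 3⟩ :=
  leafX_sound T5.ok_mp T5.Ymp.bz_eq (w := 222) (c := ⟨⟨.negSucc 2338, .negSucc 685, .negSucc 222, .negSucc 534, .ofNat 900, .ofNat 286⟩, ⟨.ofNat 333, .ofNat 249, .negSucc 43, .ofNat 58, .negSucc 97, .negSucc 19⟩, ⟨.ofNat 1593, .ofNat 585, .ofNat 216, .ofNat 222, .negSucc 875, .negSucc 356⟩, ⟨.negSucc 4243, .negSucc 886, .negSucc 369, .negSucc 981, .ofNat 1651, .ofNat 538⟩, ⟨.negSucc 328, .ofNat 68, .ofNat 125, .negSucc 221, .ofNat 367, .ofNat 182⟩, .ofNat 493,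 .ofNat 305, .ofNat 0, .ofNat 305, .ofNat 1943, .ofNat 0, .ofNat 404, .negSucc 91, .negSucc 1323, .ofNat 0, .ofNat 128, .ofNat 269, .ofNat 0, .ofNat 0, .ofNat 1594, .ofNat 1176, .ofNat 0, .ofNat 0, .ofNat 106592575485436251763519418687499010048, .ofNat 0, .ofNat 0, .ofNat 100614528766369783969322595815416779740545024, .ofNat 3147109979187231102130181675878805667840, .ofNat 0, .ofNat 0, .ofNat 16866581168207703796515246884259011636494336, .ofNat 6761590887711276667274363545351234781184, .ofNat 0, .ofNat 0, .ofNat 221342846992485472164726925506307257624690688, .ofNat 16391396684821524810470576506466662875136, .ofNat 0⟩)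
    (by decide +kernel)
theorem L01626 : Good (Phi V5.P V5.D (-1) 1) ⟨2, 3, 4, 0, 2, 2, 1, 1, 3, 0⟩ :=
  out_sound (S := T5.ds_mp) T5.ok_mp (w := 41) (j := 3) (by decide +kernel)
theorem L01627 : Good (Phi V5.P V5.D (-1) 1) ⟨3, 4, 4, 0, 2, 2, 2, 2, 4, 2⟩ :=
  leafX_sound T5.ok_mp T5.Ymp.bz_eq (w := 209) (c := ⟨⟨.negSucc 1939, .negSucc 475, .negSucc 31, .ofNat 11, .ofNat 289, .ofNat 48⟩, ⟨.ofNat 14, .ofNat 175, .negSucc 93, .negSucc 23, .ofNat 8, .ofNat 12⟩, ⟨.ofNat 1279, .ofNat 370, .ofNat 33, .negSucc 300, .negSucc 281, .negSucc 5⟩, ⟨.negSucc 4293, .negSucc 470, .negSucc 38, .ofNat 13, .ofNat 603, .ofNat 99⟩, ⟨.negSucc 758, .ofNat 5, .negSucc 6, .negSucc 406, .ofNat 345, .ofNat 249⟩, .ofNat 440, .ofNat 58, .ofNat 0, .ofNat 58, .ofNat 1628, .ofNat 0, .ofNat 533, .negSucc 34, .negSucc 440, .ofNat 0, .ofNat 128, .ofNat 47, .ofNat 0, .ofNat 0, .ofNat 991, .ofNat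 3761, .ofNat 0, .ofNat 0, .ofNat 0, .ofNat 0, .ofNat 0, .ofNat 0, .ofNat 0, .ofNat 0, .ofNat 0, .ofNat 0, .ofNat 0, .ofNat 0, .ofNat 0, .ofNat 0, .ofNat 0, .ofNat 0⟩)
    (by decide +kernel)
theorem L01628 : Good (Phi V5.P V5.D (-1) 1) ⟨3, 5, 4, 0, 2, 2, 2, 2, 4, 2⟩ :=
  leafX_sound T5.ok_mp T5.Ymp.bz_eq (w := 209) (c := ⟨⟨.negSucc 2759, .negSucc 736, .negSucc 78, .ofNat 95, .ofNat 467, .ofNat 367⟩, ⟨.ofNat 265, .ofNat 313, .negSucc 95, .negSucc 65, .negSucc 28, .negSucc 29⟩, ⟨.ofNat 2025, .ofNat 607, .ofNat 90, .negSucc 442, .negSucc 472, .negSucc 306⟩, ⟨.negSucc 5327, .negSucc 748, .negSucc 115, .ofNat 94, .ofNat 882, .ofNat 685⟩, ⟨.negSucc 665, .ofNat 49, .ofNat 43, .negSucc 479, .ofNat 301, .ofNat 203⟩, .ofNat 411, .ofNat 133, .ofNat 0, .ofNat 133, .ofNat 1252, .ofNat 0, .ofNat 370, .negSucc 82, .negSucc 401, .ofNat 0, .ofNat 128, .ofNat 80, .ofNat 0, .ofNat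 0, .ofNat 782, .ofNat 1346, .ofNat 0, .ofNat 0, .ofNat 425021699379423121467337757809442816, .ofNat 0, .ofNat 0, .ofNat 0, .ofNat 22386301704397002500643078716145008640, .ofNat 0, .ofNat 0, .ofNat 0, .ofNat 39707725466883318235482648585892265984, .ofNat 0, .ofNat 0, .ofNat 0, .ofNat 42798820639528078946902746950115786752, .ofNat 0⟩)
    (by decide +kernel)
theorem L01629 : Good (Phi V5.P V5.D (-1) 1) ⟨3, 4, 4, 0, 2, 2, 3, 6, 4, 2⟩ :=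
  leafX_sound T5.ok_mp T5.Ymp.bz_eq (w := 213) (c := ⟨⟨.negSucc 1742, .negSucc 367, .negSucc 65, .ofNat 37, .ofNat 215, .ofNat 143⟩, ⟨.ofNat 15, .ofNat 161, .negSucc 77, .negSucc 11, .ofNat 11, .ofNat 12⟩, ⟨.ofNat 1119, .ofNat 243, .ofNat 67, .negSucc 304, .negSucc 193, .negSucc 161⟩, ⟨.negSucc 3850, .negSucc 283, .negSucc 106, .ofNat 60, .ofNat 455, .ofNat 290⟩, ⟨.negSucc 613, .ofNat 11, .negSucc 34, .negSucc 117, .ofNat 370, .ofNat 359⟩, .ofNat 502, .ofNat 116, .ofNat 0, .ofNat 116, .ofNat 2824, .ofNat 0, .ofNat 721, .negSucc 44, .negSucc 496, .ofNat 0, .ofNat 128, .ofNat 43, .ofNat 0, .ofNat 0, .ofNat 1088, .ofNat 2504, .ofNat 0, .ofNat 0, .ofNat 0, .ofNat 0, .ofNat 0, .ofNat 0, .ofNat 0, .ofNat 0, .ofNat 0, .ofNat 0, .ofNat 0, .ofNat 0, .ofNat 0, .ofNat 0, .ofNat 0, .ofNat 0⟩)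
    (by decide +kernel)
theorem L01630 : Good (Phi V5.P V5.D (-1) 1) ⟨3, 5, 4, 0, 2, 2, 3, 6, 4, 2⟩ :=
  leafX_sound T5.ok_mp T5.Ymp.bz_eq (w := 212) (c := ⟨⟨.negSucc 2373, .negSucc 652, .negSucc 45, .ofNat 50, .ofNat 334, .ofNat 451⟩, ⟨.ofNat 226, .ofNat 300, .negSucc 82, .negSucc 35, .negSucc 9, .negSucc 30⟩, ⟨.ofNat 1666, .ofNat 498, .ofNat 56, .negSucc 386, .negSucc 338, .negSucc 472⟩, ⟨.negSucc 4592, .negSucc 631, .negSucc 65, .ofNat 48, .ofNat 649, .ofNat 852⟩, ⟨.negSucc 460, .negSucc 18, .ofNat 90, .negSucc 295, .ofNat 291, .ofNat 305⟩, .ofNat 473, .ofNat 232, .ofNat 0, .ofNat 232, .ofNat 1913, .ofNat 0, .ofNat 514, .negSucc 95, .negSucc 411, .ofNat 0, .ofNat 128, .ofNat 75, .ofNat 0, .ofNat 0, .ofNat 719, .ofNat 716, .ofNat 0, .ofNat 0, .ofNat 3970979062091386013201858685426466816, .ofNat 0, .ofNat 0, .ofNat 0, .ofNat 0, .ofNat 0, .ofNat 0, .ofNat 0,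 .ofNat 521512233436734977687662650266952400896, .ofNat 0, .ofNat 0, .ofNat 0, .ofNat 651479850696773358299639336504144166912, .ofNat 0⟩)
    (by decide +kernel)
theorem L01631 : Good (Phi V5.P V5.D (-1) 1) ⟨2, 2, 4, 0, 2, 2, 3, 7, 4, 2⟩ :=
  leafX_sound T5.ok_mp T5.Ymp.bz_eq (w := 206) (c := ⟨⟨.negSucc 1523, .negSucc 615, .negSucc 11, .negSucc 49, .ofNat 408, .ofNat 176⟩, ⟨.ofNat 5, .ofNat 339, .negSucc 62, .ofNat 1, .ofNat 33, .ofNat 28⟩, ⟨.ofNat 908, .ofNat 349, .negSucc 1, .negSucc 174, .negSucc 379, .negSucc 243⟩, ⟨.negSucc 3367, .negSucc 330, .negSucc 18, .negSucc 125, .ofNat 872, .ofNat 365⟩, ⟨.negSucc 429, .negSucc 19, .ofNat 44, .ofNat 65, .ofNat 784, .ofNat 555⟩, .ofNat 428, .ofNat 97, .ofNat 0, .ofNat 97, .ofNat 1448, .ofNat 0, .ofNat 361, .negSucc 43, .negSucc 357, .ofNat 0, .ofNat 128, .ofNat 47, .ofNat 0, .ofNat 0, .ofNat 659, .ofNat 194, .ofNat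 0, .ofNat 0, .ofNat 0, .ofNat 0, .ofNat 0, .ofNat 0, .ofNat 0, .ofNat 0, .ofNat 0, .ofNat 0, .ofNat 558575701335074544337842034438028918784, .ofNat 0, .ofNat 0, .ofNat 27921706380128855875740909383993333383168, .ofNat 899967056592459533168805246055791722496, .ofNat 0⟩)
    (by decide +kernel)
theorem L01632 : Good (Phi V5.P V5.D (-1) 1) ⟨2, 2, 4, 0, 2, 2, 2, 2, 4, 3⟩ :=
  leafX_sound T5.ok_mp T5.Ymp.bz_eq (w := 204) (c := ⟨⟨.negSucc 2030, .negSucc 771, .negSucc 10, .ofNat 101, .ofNat 337, .ofNat 298⟩, ⟨.ofNat 30, .ofNat 380, .negSucc 96, .negSucc 30, .ofNat 3, .negSucc 5⟩, ⟨.ofNat 1477, .ofNat 602, .ofNat 29, .negSucc 448, .negSucc 427, .negSucc 217⟩, ⟨.negSucc 4454, .negSucc 514, .negSucc 12, .ofNat 178, .ofNat 696, .ofNat 600⟩, ⟨.negSucc 574, .negSucc 1, .negSucc 10, .negSucc 323, .ofNat 388, .ofNat 164⟩, .ofNat 319, .ofNat 32, .ofNat 0, .ofNat 32, .ofNat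 676, .ofNat 0, .ofNat 339, .negSucc 30, .negSucc 193, .ofNat 0, .ofNat 128, .ofNat 37, .ofNat 0, .ofNat 0, .ofNat 574, .ofNat 1006, .ofNat 0, .ofNat 0, .ofNat 0, .ofNat 0, .ofNat 0, .ofNat 0, .ofNat 86558377118484520236218932530107121664, .ofNat 0, .ofNat 0, .ofNat 0, .ofNat 20739490201826064989620149239240720384, .ofNat 0, .ofNat 0, .ofNat 0, .ofNat 74990696672740764603519371222068494336, .ofNat 0⟩)
    (by decide +kernel)
theorem L01633 : Good (Phi V5.P V5.D (-1) 1) ⟨2, 2, 4, 0, 2, 2, 3, 6, 4, 3⟩ :=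
  leafX_sound T5.ok_mp T5.Ymp.bz_eq (w := 207) (c := ⟨⟨.negSucc 1761, .negSucc 437, .negSucc 11, .ofNat 129, .ofNat 250, .ofNat 255⟩, ⟨.ofNat 18, .ofNat 333, .negSucc 72, .ofNat 1, .ofNat 14, .ofNat 3⟩, ⟨.ofNat 1208, .ofNat 124, .ofNat 18, .negSucc 455, .negSucc 307, .negSucc 278⟩, ⟨.negSucc 3864, .ofNat 12, .negSucc 25, .ofNat 258, .ofNat 538, .ofNat 527⟩, ⟨.negSucc 418, .ofNat 53, .negSucc 8, .ofNat 90, .ofNat 466, .ofNat 277⟩, .ofNat 319, .ofNat 34, .ofNat 0, .ofNat 34, .ofNat 676, .ofNat 0, .ofNat 356, .negSucc 26, .negSucc 183, .ofNat 0, .ofNat 128, .ofNat 29, .ofNat 0, .ofNat 0, .ofNat 545, .ofNat 796, .ofNat 0, .ofNat 0, .ofNat 0, .ofNat 0, .ofNat 0, .ofNat 0, .ofNat 0, .ofNat 0, .ofNat 0, .ofNat 16758221580167209823989761828915857326080, .ofNat 221333153719435388104314713712137076736, .ofNat 0, .ofNat 0, .ofNat 0, .ofNat 0, .ofNat 0⟩)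
    (by decide +kernel)
theorem L01634 : Good (Phi V5.P V5.D (-1) 1) ⟨2, 2, 4, 0, 2, 2, 3, 7, 4, 3⟩ :=
  leafX_sound T5.ok_mp T5.Ymp.bz_eq (w := 207) (c := ⟨⟨.negSucc 1458, .negSucc 382, .ofNat 8, .ofNat 18, .ofNat 446, .ofNat 192⟩, ⟨.ofNat 24, .ofNat 336, .negSucc 60, .ofNat 19, .ofNat 14, .ofNat 8⟩, ⟨.ofNat 830, .ofNat 93, .negSucc 10, .negSucc 303, .negSucc 481, .negSucc 231⟩, ⟨.negSucc 3213, .ofNat 137, .negSucc 1, .ofNat 38, .ofNat 919, .ofNat 391⟩, ⟨.negSucc 82, .ofNat 8, .ofNat 12, .ofNat 399, .ofNat 798, .ofNat 364⟩, .ofNat 427, .ofNat 97, .ofNat 0, .ofNat 97, .ofNat 1436, .ofNat 0, .ofNat 274, .negSucc 48, .negSucc 160, .ofNat 0, .ofNat 128, .ofNat 19, .ofNat 0, .ofNat 0, .ofNat 478, .ofNat 544, .ofNat 0, .ofNat 0, .ofNat 0, .ofNat 0, .ofNat 0, .ofNat 91652812227864995411906494700718330478592, .ofNat 692350309934033025789393797197292634112, .ofNat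 0, .ofNat 0, .ofNat 104454966168800340464092853875264819560448, .ofNat 1613924082317731254243726256286795300864, .ofNat 0, .ofNat 0, .ofNat 49727550974049251661827015643205749178368, .ofNat 720508220190715754181858779213749813248, .ofNat 0⟩)
    (by decide +kernel)
theorem L01635 : Good (Phi V5.P V5.D (-1) 1) ⟨2, 3, 4, 0, 2, 2, 1, 1, 3, 1⟩ :=
  out_sound (S := T5.ds_mp) T5.ok_mp (w := 41) (j := 3) (by decide +kernel)
theorem L01636 : Good (Phi V5.P V5.D (-1) 1) ⟨2, 2, 4, 1, 3, 4, 2, 2, 4, 0⟩ :=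
  leafX_sound T5.ok_mp T5.Ymp.bz_eq (w := 217) (c := ⟨⟨.ofNat 1013, .negSucc 497, .negSucc 126, .ofNat 271, .negSucc 654, .negSucc 1754⟩, ⟨.negSucc 83, .ofNat 14, .negSucc 39, .negSucc 9, .ofNat 37, .ofNat 17⟩, ⟨.negSucc 982, .ofNat 282, .ofNat 92, .negSucc 229, .ofNat 482, .ofNat 1288⟩, ⟨.ofNat 1999, .negSucc 855, .negSucc 216, .ofNat 569, .negSucc 1386, .negSucc 3594⟩, ⟨.negSucc 729, .negSucc 254, .negSucc 0, .negSucc 291, .ofNat 112, .negSucc 90⟩, .ofNat 322, .ofNat 7, .ofNat 0, .ofNat 7, .ofNat 669, .ofNat 0, .ofNat 512, .ofNat 14, .negSucc 593, .ofNat 0, .ofNat 128, .ofNat 49, .ofNat 0, .ofNat 0, .ofNat 746, .ofNat 371, .ofNat 0, .ofNat 0, .ofNat 0, .ofNat 0, .ofNat 0, .ofNat 0, .ofNat 0, .ofNat 0, .ofNat 0, .ofNat 0, .ofNat 354718705461266303332264073900739698622464, .ofNat 0, .ofNat 0, .ofNat 0, .ofNat 1124871709264626407970931047648961734115328, .ofNat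 0⟩)
    (by decide +kernel)
theorem L01637 : Good (Phi V5.P V5.D (-1) 1) ⟨3, 4, 4, 1, 3, 4, 2, 2, 4, 1⟩ :=
  leafX_sound T5.ok_mp T5.Ymp.bz_eq (w := 222) (c := ⟨⟨.negSucc 995, .negSucc 617, .negSucc 73, .negSucc 46, .negSucc 3, .negSucc 622⟩, ⟨.negSucc 90, .ofNat 152, .negSucc 86, .negSucc 18, .ofNat 23, .ofNat 14⟩, ⟨.ofNat 420, .ofNat 509, .ofNat 68, .negSucc 94, .ofNat 36, .ofNat 525⟩, ⟨.negSucc 2308, .negSucc 798, .negSucc 122, .negSucc 96, .ofNat 8, .negSucc 1287⟩, ⟨.negSucc 789, .negSucc 8, .negSucc 32, .negSucc 245, .ofNat 190, .ofNat 183⟩, .ofNat 476, .ofNat 1, .ofNat 0, .ofNat 1, .ofNat 2030, .ofNat 0, .ofNat 1024, .ofNat 6, .negSucc 567, .ofNat 0, .ofNat 128, .ofNat 31, .ofNat 0, .ofNat 0, .ofNat 1075, .ofNat 2103, .ofNat 0, .ofNat 0, .ofNat 0, .ofNat 0, .ofNat 0, .ofNat 0, .ofNat 0, .ofNat 0, .ofNat 0, .ofNat 0, .ofNat 0, .ofNat 0, .ofNat 0, .ofNat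 0, .ofNat 0, .ofNat 0⟩)
    (by decide +kernel)
theorem L01638 : Good (Phi V5.P V5.D (-1) 1) ⟨3, 5, 4, 1, 3, 4, 2, 2, 4, 1⟩ :=
  leafX_sound T5.ok_mp T5.Ymp.bz_eq (w := 222) (c := ⟨⟨.negSucc 1614, .negSucc 934, .negSucc 31, .negSucc 139, .ofNat 7, .negSucc 646⟩, ⟨.ofNat 19, .ofNat 285, .negSucc 102, .negSucc 16, .ofNat 35, .ofNat 86⟩, ⟨.ofNat 901, .ofNat 833, .ofNat 43, .negSucc 33, .ofNat 37, .ofNat 581⟩, ⟨.negSucc 3186, .negSucc 1192, .negSucc 47, .negSucc 276, .ofNat 17, .negSucc 1184⟩, ⟨.negSucc 953, .ofNat 37, .negSucc 2, .negSucc 270, .ofNat 292, .ofNat 379⟩, .ofNat 408, .ofNat 78, .ofNat 0, .ofNat 78, .ofNat 1216, .ofNat 0, .ofNat 817, .negSucc 42, .negSucc 722, .ofNat 0, .ofNat 128, .ofNat 102, .ofNat 0, .ofNat 0, .ofNat 1134, .ofNat 825, .ofNat 0, .ofNat 0, .ofNat 8932391344749995643722140744343946788864, .ofNat 0, .ofNat 0, .ofNat 0, .ofNat 0, .ofNat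 0, .ofNat 0, .ofNat 0, .ofNat 627644847556849174930391069569050241662976, .ofNat 0, .ofNat 0, .ofNat 0, .ofNat 1065429967560031890957757570669680246390784, .ofNat 0⟩)
    (by decide +kernel)
theorem L01639 : Good (Phi V5.P V5.D (-1) 1) ⟨3, 4, 4, 1, 3, 4, 2, 3, 4, 0⟩ :=
  leafX_sound T5.ok_mp T5.Ymp.bz_eq (w := 221) (c := ⟨⟨.negSucc 367, .negSucc 247, .negSucc 26, .ofNat 130, .negSucc 63, .negSucc 724⟩, ⟨.negSucc 52, .ofNat 49, .negSucc 54, .negSucc 29, .ofNat 18, .ofNat 20⟩, ⟨.ofNat 98, .ofNat 145, .ofNat 2, .negSucc 136, .negSucc 10, .ofNat 465⟩, ⟨.negSucc 835, .negSucc 335, .negSucc 37, .ofNat 218, .negSucc 135, .negSucc 1466⟩, ⟨.negSucc 833, .negSucc 63, .negSucc 35, .negSucc 273, .ofNat 279, .ofNat 215⟩, .ofNat 438, .ofNat 3, .ofNat 0, .ofNat 3, .ofNat 1486, .ofNat 0, .ofNat 826, .ofNat 28, .negSucc 1002, .ofNat 0, .ofNat 128, .ofNat 48, .ofNat 0, .ofNat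 0, .ofNat 1416, .ofNat 1089, .ofNat 0, .ofNat 0, .ofNat 0, .ofNat 0, .ofNat 0, .ofNat 0, .ofNat 0, .ofNat 0, .ofNat 0, .ofNat 0, .ofNat 0, .ofNat 0, .ofNat 0, .ofNat 0, .ofNat 0, .ofNat 0⟩)
    (by decide +kernel)
theorem L01640 : Good (Phi V5.P V5.D (-1) 1) ⟨3, 5, 4, 1, 3, 4, 2, 3, 4, 0⟩ :=
  leafX_sound T5.ok_mp T5.Ymp.bz_eq (w := 221) (c := ⟨⟨.negSucc 398, .negSucc 172, .negSucc 77, .ofNat 156, .negSucc 180, .negSucc 1273⟩, ⟨.negSucc 82, .ofNat 67, .negSucc 58, .negSucc 48, .ofNat 58, .ofNat 156⟩, ⟨.ofNat 47, .ofNat 113, .ofNat 59, .negSucc 199, .ofNat 71, .ofNat 1014⟩, ⟨.negSucc 913, .negSucc 81, .negSucc 119, .ofNat 221, .negSucc 293, .negSucc 2268⟩, ⟨.negSucc 1049, .ofNat 19, .negSucc 16, .negSucc 124, .ofNat 232, .ofNat 421⟩, .ofNat 397, .ofNat 94, .ofNat 0, .ofNat 94, .ofNat 1071, .ofNat 0, .ofNat 483, .negSucc 18, .negSucc 1105, .ofNat 0, .ofNat 128,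 .ofNat 163, .ofNat 0, .ofNat 0, .ofNat 1307, .ofNat 630, .ofNat 0, .ofNat 0, .ofNat 3680368108781406716686603032970534060032, .ofNat 0, .ofNat 0, .ofNat 0, .ofNat 0, .ofNat 0, .ofNat 0, .ofNat 0, .ofNat 130028335401869361035392002551135109906432, .ofNat 0, .ofNat 0, .ofNat 0, .ofNat 778044201538981129160841073695987888816128, .ofNat 0⟩)
    (by decide +kernel)
theorem L01641 : Good (Phi V5.P V5.D (-1) 1) ⟨3, 4, 4, 1, 3, 4, 2, 3, 4, 1⟩ :=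
  leafX_sound T5.ok_mp T5.Ymp.bz_eq (w := 222) (c := ⟨⟨.negSucc 1282, .negSucc 532, .negSucc 48, .negSucc 97, .ofNat 563, .negSucc 367⟩, ⟨.negSucc 83, .ofNat 134, .negSucc 71, .negSucc 8, .ofNat 35, .ofNat 27⟩, ⟨.ofNat 738, .ofNat 421, .ofNat 34, .negSucc 9, .negSucc 556, .ofNat 248⟩, ⟨.negSucc 2850, .negSucc 690, .negSucc 83, .negSucc 211, .ofNat 1174, .negSucc 756⟩, ⟨.negSucc 845, .ofNat 48, .ofNat 3, .negSucc 147, .ofNat 548, .ofNat 368⟩, .ofNat 440, .negSucc 2, .ofNat 0, .negSucc 2, .ofNat 1492, .ofNat 0, .ofNat 477, .ofNat 21, .negSucc 814, .ofNat 0, .ofNat 128, .ofNat 44, .ofNat 0, .ofNat 0, .ofNat 1292, .ofNat 920, .ofNat 0, .ofNat 0, .ofNat 0, .ofNat 0, .ofNat 0, .ofNat 734838991899460282815467576657927134200725504, .ofNat 0, .ofNat 0, .ofNat 0, .ofNat 495039160988066079000987086447525955838672896, .ofNat 0, .ofNat 0, .ofNat 0, .ofNat 0, .ofNat 0, .ofNat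 0⟩)
    (by decide +kernel)
theorem L01642 : Good (Phi V5.P V5.D (-1) 1) ⟨4, 10, 4, 1, 3, 4, 2, 3, 4, 1⟩ :=
  leafX_sound T5.ok_mp T5.Ymp.bz_eq (w := 226) (c := ⟨⟨.negSucc 1826, .negSucc 498, .negSucc 57, .negSucc 266, .ofNat 660, .negSucc 332⟩, ⟨.ofNat 52, .ofNat 142, .negSucc 82, .negSucc 2, .ofNat 9, .ofNat 72⟩, ⟨.ofNat 1173, .ofNat 445, .ofNat 43, .ofNat 124, .negSucc 666, .ofNat 236⟩, ⟨.negSucc 3583, .negSucc 664, .negSucc 86, .negSucc 516, .ofNat 1282, .negSucc 586⟩, ⟨.negSucc 750, .ofNat 58, .ofNat 19, .negSucc 164, .ofNat 444, .ofNat 407⟩, .ofNat 439, .ofNat 111, .ofNat 0, .ofNat 111, .ofNat 1525, .ofNat 0, .ofNat 373, .negSucc 35, .negSucc 873, .ofNat 0, .ofNat 128, .ofNat 114, .ofNat 0, .ofNat 0, .ofNat 1213, .ofNat 823, .ofNat 0, .ofNat 0, .ofNat 0, .ofNat 0, .ofNat 0, .ofNat 5844036755439210016102749771571196322266480640, .ofNat 36276331102314231897908402714640212033536,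 .ofNat 0, .ofNat 0, .ofNat 6203078944016847080882222046850353195833622528, .ofNat 67114907977397882352749208743486909579264, .ofNat 0, .ofNat 0, .ofNat 0, .ofNat 0, .ofNat 0⟩)
    (by decide +kernel)
theorem L01643 : Good (Phi V5.P V5.D (-1) 1) ⟨4, 11, 4, 1, 3, 4, 2, 3, 4, 1⟩ :=
  out_sound (S := T5.ds_mp) T5.ok_mp (w := 53) (j := 3) (by decide +kernel)
theorem L01644 : Good (Phi V5.P V5.D (-1) 1) ⟨3, 4, 4, 1, 3, 5, 2, 2, 4, 0⟩ :=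
  leafX_sound T5.ok_mp T5.Ymp.bz_eq (w := 222) (c := ⟨⟨.ofNat 1544, .ofNat 256, .negSucc 80, .ofNat 424, .negSucc 1035, .negSucc 2090⟩, ⟨.negSucc 49, .negSucc 80, .negSucc 3, .negSucc 22, .ofNat 19, .negSucc 6⟩, ⟨.negSucc 1124, .negSucc 236, .ofNat 36, .negSucc 263, .ofNat 594, .ofNat 1314⟩, ⟨.ofNat 3123, .ofNat 351, .negSucc 86, .ofNat 829, .negSucc 2081, .negSucc 4245⟩, ⟨.negSucc 677, .negSucc 203, .ofNat 52, .negSucc 114, .negSucc 55, .negSucc 495⟩, .ofNat 439, .ofNat 1, .ofNat 0, .ofNat 1, .ofNat 1488, .ofNat 0, .ofNat 667, .ofNat 32, .negSucc 492, .ofNat 0, .ofNat 128, .ofNat 28, .ofNat 0, .ofNat 0, .ofNat 678, .ofNat 1011, .ofNat 0, .ofNat 0, .ofNat 0, .ofNat 0, .ofNat 0, .ofNat 0, .ofNat 0, .ofNat 0, .ofNat 0, .ofNat 0, .ofNat 0, .ofNat 0, .ofNat 0, .ofNat 0, .ofNat 0, .ofNat 0⟩)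
    (by decide +kernel)
theorem L01645 : Good (Phi V5.P V5.D (-1) 1) ⟨3, 4, 4, 1, 3, 5, 2, 3, 4, 0⟩ :=
  leafX_sound T5.ok_mp T5.Ymp.bz_eq (w := 221) (c := ⟨⟨.ofNat 142, .negSucc 162, .negSucc 95, .ofNat 93, .negSucc 630, .negSucc 1108⟩, ⟨.negSucc 70, .ofNat 28, .negSucc 52, .negSucc 18, .ofNat 32, .ofNat 16⟩, ⟨.negSucc 272, .ofNat 70, .ofNat 47, .negSucc 85, .ofNat 428, .ofNat 706⟩, ⟨.ofNat 213, .negSucc 227, .negSucc 153, .ofNat 180, .negSucc 1313, .negSucc 2242⟩, ⟨.negSucc 1109, .negSucc 67, .negSucc 70, .negSucc 185, .ofNat 473, .ofNat 122⟩, .ofNat 438, .ofNat 0, .ofNat 0, .ofNat 0, .ofNat 1509, .ofNat 0, .ofNat 453, .ofNat 51, .negSucc 720, .ofNat 0, .ofNat 128, .ofNat 41, .ofNat 0, .ofNat 0, .ofNat 911, .ofNat 937, .ofNat 0, .ofNat 0, .ofNat 0, .ofNat 0, .ofNat 0, .ofNat 0, .ofNat 0, .ofNat 0, .ofNat 0, .ofNat 0, .ofNat 0, .ofNat 0, .ofNat 0, .ofNat 0,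 .ofNat 0, .ofNat 0⟩)
    (by decide +kernel)
theorem L01646 : Good (Phi V5.P V5.D (-1) 1) ⟨3, 4, 4, 1, 3, 5, 2, 2, 4, 1⟩ :=
  leafX_sound T5.ok_mp T5.Ymp.bz_eq (w := 222) (c := ⟨⟨.negSucc 884, .negSucc 643, .negSucc 77, .ofNat 79, .negSucc 29, .negSucc 832⟩, ⟨.negSucc 96, .ofNat 127, .negSucc 91, .negSucc 20, .ofNat 23, .ofNat 20⟩, ⟨.ofNat 295, .ofNat 510, .ofNat 57, .negSucc 134, .ofNat 40, .ofNat 600⟩, ⟨.negSucc 1971, .negSucc 925, .negSucc 134, .ofNat 156, .negSucc 95, .negSucc 1753⟩, ⟨.negSucc 1296, .negSucc 6, .negSucc 14, .negSucc 257, .ofNat 336, .ofNat 377⟩, .ofNat 439, .ofNat 2, .ofNat 0, .ofNat 2, .ofNat 1493, .ofNat 0, .ofNat 712, .ofNat 11, .negSucc 499, .ofNat 0, .ofNat 128, .ofNat 36, .ofNat 0, .ofNat 0, .ofNat 783, .ofNat 1551, .ofNat 0, .ofNat 0, .ofNat 0, .ofNat 0, .ofNat 0, .ofNat 0, .ofNat 0, .ofNat 0, .ofNat 0, .ofNat 0, .ofNat 0, .ofNat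 0, .ofNat 0, .ofNat 0, .ofNat 0, .ofNat 0⟩)
    (by decide +kernel)
theorem L01647 : Good (Phi V5.P V5.D (-1) 1) ⟨3, 4, 4, 1, 3, 5, 2, 3, 4, 1⟩ :=
  leafX_sound T5.ok_mp T5.Ymp.bz_eq (w := 222) (c := ⟨⟨.negSucc 1286, .negSucc 563, .negSucc 36, .ofNat 21, .ofNat 357, .negSucc 397⟩, ⟨.negSucc 108, .ofNat 132, .negSucc 70, .negSucc 9, .ofNat 60, .ofNat 39⟩, ⟨.ofNat 657, .ofNat 433, .ofNat 19, .negSucc 84, .negSucc 337, .ofNat 230⟩, ⟨.negSucc 2865, .negSucc 752, .negSucc 46, .ofNat 44, .ofNat 735, .negSucc 820⟩, ⟨.negSucc 1168, .ofNat 46, .ofNat 31, .negSucc 171, .ofNat 805, .ofNat 520⟩, .ofNat 438, .ofNat 3, .ofNat 0, .ofNat 3, .ofNat 1486, .ofNat 0, .ofNat 367, .ofNat 29, .negSucc 523, .ofNat 0, .ofNat 128, .ofNat 35, .ofNat 0, .ofNat 0, .ofNat 731, .ofNat 824, .ofNat 0, .ofNat 0, .ofNat 0, .ofNat 0, .ofNat 0, .ofNat 0, .ofNat 0, .ofNat 0, .ofNat 0, .ofNat 573117743028127642983978776053854145339195392,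 .ofNat 0, .ofNat 0, .ofNat 0, .ofNat 88717177405312608882068059327502515970244608, .ofNat 0, .ofNat 0⟩)
    (by decide +kernel)
theorem L01648 : Good (Phi V5.P V5.D (-1) 1) ⟨3, 5, 4, 1, 3, 5, 2, 2, 5, 0⟩ :=
  leafX_sound T5.ok_mp T5.Ymp.bz_eq (w := 227) (c := ⟨⟨.ofNat 2025, .ofNat 727, .negSucc 66, .ofNat 801, .negSucc 1629, .negSucc 1489⟩, ⟨.negSucc 229, .negSucc 288, .ofNat 12, .negSucc 99, .ofNat 133, .ofNat 88⟩, ⟨.negSucc 1515, .negSucc 666, .ofNat 5, .negSucc 554, .ofNat 969, .ofNat 985⟩, ⟨.ofNat 3736, .ofNat 973, .negSucc 74, .ofNat 1466, .negSucc 3029, .negSucc 2775⟩, ⟨.negSucc 890, .negSucc 341, .negSucc 172, .negSucc 232, .negSucc 22, .negSucc 348⟩, .ofNat 406, .ofNat 77, .ofNat 0, .ofNat 77, .ofNat 1197, .ofNat 0, .ofNat 350, .negSucc 10, .negSucc 342, .ofNat 0, .ofNat 128, .ofNat 42, .ofNat 0, .ofNat 0, .ofNat 398, .ofNat 448, .ofNat 0, .ofNat 0,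 .ofNat 295989106667775497320595741494814844125184, .ofNat 0, .ofNat 0, .ofNat 0, .ofNat 0, .ofNat 0, .ofNat 0, .ofNat 0, .ofNat 9889063058119733186289068435289249798946816, .ofNat 0, .ofNat 0, .ofNat 0, .ofNat 7641958033439414846079730810927749970001920, .ofNat 0⟩)
    (by decide +kernel)
theorem L01649 : Good (Phi V5.P V5.D (-1) 1) ⟨3, 5, 4, 1, 3, 5, 2, 2, 5, 1⟩ :=
  leafX_sound T5.ok_mp T5.Ymp.bz_eq (w := 227) (c := ⟨⟨.ofNat 671, .negSucc 193, .negSucc 167, .ofNat 538, .negSucc 1195, .negSucc 1397⟩, ⟨.negSucc 183, .negSucc 36, .negSucc 31, .negSucc 121, .ofNat 147, .ofNat 133⟩, ⟨.negSucc 731, .ofNat 61, .ofNat 96, .negSucc 457, .ofNat 848, .ofNat 1033⟩, ⟨.ofNat 1112, .negSucc 324, .negSucc 240, .ofNat 909, .negSucc 2193, .negSucc 2578⟩, ⟨.negSucc 1451, .negSucc 250, .negSucc 36, .negSucc 402, .ofNat 363, .ofNat 198⟩, .ofNat 406, .ofNat 77, .ofNat 0, .ofNat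 77, .ofNat 1193, .ofNat 0, .ofNat 426, .negSucc 28, .negSucc 506, .ofNat 0, .ofNat 128, .ofNat 67, .ofNat 0, .ofNat 0, .ofNat 586, .ofNat 807, .ofNat 0, .ofNat 0, .ofNat 0, .ofNat 0, .ofNat 0, .ofNat 0, .ofNat 9334968671396970446231747828994813961699328, .ofNat 0, .ofNat 0, .ofNat 0, .ofNat 13919521812818980240478440610994810733461504, .ofNat 0, .ofNat 0, .ofNat 0, .ofNat 15174175204180422837014847144644964413079552, .ofNat 0⟩)
    (by decide +kernel)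
theorem L01650 : Good (Phi V5.P V5.D (-1) 1) ⟨4, 10, 4, 1, 3, 5, 3, 6, 4, 0⟩ :=
  leafX_sound T5.ok_mp T5.Ymp.bz_eq (w := 230) (c := ⟨⟨.ofNat 507, .negSucc 148, .negSucc 89, .ofNat 310, .negSucc 629, .negSucc 2139⟩, ⟨.negSucc 149, .ofNat 0, .negSucc 50, .negSucc 79, .ofNat 74, .ofNat 215⟩, ⟨.negSucc 656, .ofNat 99, .ofNat 23, .negSucc 263, .ofNat 491, .ofNat 1591⟩, ⟨.ofNat 805, .negSucc 224, .negSucc 127, .ofNat 514, .negSucc 1161, .negSucc 3927⟩, ⟨.negSucc 1270, .negSucc 121, .negSucc 58, .negSucc 193, .ofNat 297, .ofNat 216⟩, .ofNat 461, .ofNat 141, .ofNat 0, .ofNat 141, .ofNat 1809, .ofNat 0, .ofNat 443, .negSucc 18, .negSucc 801, .ofNat 0, .ofNat 128, .ofNat 104, .ofNat 0, .ofNat 0, .ofNat 923, .ofNat 1051, .ofNat 0, .ofNat 0, .ofNat 0, .ofNat 0, .ofNat 0, .ofNat 0, .ofNat 0, .ofNat 0, .ofNat 0, .ofNat 0, .ofNat 311982651415648682645122982666056377565184,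 .ofNat 0, .ofNat 0, .ofNat 0, .ofNat 2795140626402624077027985251883163282571264, .ofNat 0⟩)
    (by decide +kernel)
theorem L01651 : Good (Phi V5.P V5.D (-1) 1) ⟨4, 10, 4, 1, 3, 5, 3, 7, 4, 0⟩ :=
  leafX_sound T5.ok_mp T5.Ymp.bz_eq (w := 229) (c := ⟨⟨.negSucc 320, .negSucc 510, .negSucc 75, .negSucc 66, .negSucc 182, .negSucc 1412⟩, ⟨.negSucc 107, .ofNat 88, .negSucc 67, .negSucc 13, .ofNat 59, .ofNat 176⟩, ⟨.negSucc 40, .ofNat 437, .ofNat 42, .ofNat 30, .ofNat 111, .ofNat 1041⟩, ⟨.negSucc 772, .negSucc 806, .negSucc 115, .negSucc 144, .negSucc 308, .negSucc 2570⟩, ⟨.negSucc 1231, .ofNat 36, .negSucc 20, .negSucc 220, .ofNat 384, .ofNat 522⟩, .ofNat 439, .ofNat 110, .ofNat 0, .ofNat 110, .ofNat 1523, .ofNat 0, .ofNat 180, .ofNat 5, .negSucc 844, .ofNat 0, .ofNat 128, .ofNat 111, .ofNat 0, .ofNat 0, .ofNat 951, .ofNat 540, .ofNat 0, .ofNat 0, .ofNat 6992504972606924729846580456225387839488,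 .ofNat 0, .ofNat 0, .ofNat 0, .ofNat 155563938255367761125419826790934228500480, .ofNat 0, .ofNat 0, .ofNat 0, .ofNat 0, .ofNat 0, .ofNat 0, .ofNat 36435020616788880307447784466797460962414690304, .ofNat 2465404445293326473664733995784272556851200, .ofNat 0⟩)
    (by decide +kernel)
theorem L01652 : Good (Phi V5.P V5.D (-1) 1) ⟨4, 11, 4, 1, 3, 5, 2, 3, 4, 0⟩ :=
  out_sound (S := T5.ds_mp) T5.ok_mp (w := 53) (j := 3) (by decide +kernel)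
theorem L01653 : Good (Phi V5.P V5.D (-1) 1) ⟨3, 5, 4, 1, 3, 5, 2, 2, 5, 2⟩ :=
  leafX_sound T5.ok_mp T5.Ymp.bz_eq (w := 227) (c := ⟨⟨.negSucc 875, .negSucc 974, .negSucc 39, .ofNat 11, .negSucc 536, .negSucc 950⟩, ⟨.negSucc 82, .ofNat 210, .negSucc 108, .negSucc 34, .ofNat 101, .ofNat 115⟩, ⟨.ofNat 278, .ofNat 810, .ofNat 32, .negSucc 88, .ofNat 453, .ofNat 743⟩, ⟨.negSucc 1846, .negSucc 1397, .negSucc 62, .negSucc 8, .negSucc 960, .negSucc 1727⟩, ⟨.negSucc 1370, .ofNat 10, .ofNat 14, .negSucc 320, .ofNat 401, .ofNat 279⟩, .ofNat 440, .ofNat 113, .ofNat 0, .ofNat 113, .ofNat 1544, .ofNat 0, .ofNat 459, .negSucc 55, .negSucc 619, .ofNat 0, .ofNat 128, .ofNat 87, .ofNat 0, .ofNat 0, .ofNat 774, .ofNat 1055, .ofNat 0, .ofNat 0, .ofNat 277999764653134598056897089260505748471808, .ofNat 0, .ofNat 0, .ofNat 0, .ofNat 0, .ofNat 0, .ofNat 0, .ofNat 0, .ofNat 17492427060699588242722977307011290933231616,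 .ofNat 0, .ofNat 0, .ofNat 0, .ofNat 27894930976115353242322477601096711480016896, .ofNat 0⟩)
    (by decide +kernel)
theorem L01654 : Good (Phi V5.P V5.D (-1) 1) ⟨4, 10, 4, 1, 3, 5, 2, 2, 5, 3⟩ :=
  leafX_sound T5.ok_mp T5.Ymp.bz_eq (w := 233) (c := ⟨⟨.negSucc 2209, .negSucc 650, .negSucc 97, .ofNat 55, .ofNat 116, .negSucc 277⟩, ⟨.ofNat 41, .ofNat 175, .negSucc 102, .negSucc 30, .ofNat 32, .ofNat 51⟩, ⟨.ofNat 1329, .ofNat 543, .ofNat 83, .negSucc 144, .negSucc 88, .ofNat 206⟩, ⟨.negSucc 4354, .negSucc 892, .negSucc 144, .ofNat 81, .ofNat 243, .negSucc 490⟩, ⟨.negSucc 1258, .ofNat 116, .ofNat 101, .negSucc 215, .ofNat 433, .ofNat 256⟩, .ofNat 462, .ofNat 133, .ofNat 0, .ofNat 133, .ofNat 1821, .ofNat 0, .ofNat 436, .negSucc 62, .negSucc 794, .ofNat 0, .ofNat 128, .ofNat 113, .ofNat 0, .ofNat 0, .ofNat 1112, .ofNat 3518, .ofNat 0, .ofNat 0, .ofNat 0, .ofNat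 0, .ofNat 0, .ofNat 0, .ofNat 240384010907946180647806550692383328043008, .ofNat 0, .ofNat 0, .ofNat 0, .ofNat 0, .ofNat 0, .ofNat 0, .ofNat 0, .ofNat 16517535670648337707237987791257682384519168, .ofNat 0⟩)
    (by decide +kernel)
theorem L01655 : Good (Phi V5.P V5.D (-1) 1) ⟨4, 11, 4, 1, 3, 5, 2, 2, 5, 3⟩ :=
  out_sound (S := T5.ds_mp) T5.ok_mp (w := 53) (j := 3) (by decide +kernel)

end Crest.Agent.R097C5.N5mp
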