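import Crest.Agent.R097.KP7
import Crest.Agent.R097.T5Ymp

/-!
# Row 97, box cover in dimension n = 5 (generated)
-/

set_option autoImplicit false
set_option Elab.async false
set_option maxHeartbeats 0
set_option maxRecDepth 100000

open Crest.Agent.R097 Crest.Agent.R097.KA


namespace Crest.Agent.R097C5.N5mp

theorem L01656 : Good (Phi V5.P V5.D (-1) 1) ⟨4, 10, 4, 1, 3, 5, 3, 6, 4, 1⟩ :=
  leafX_sound T5.ok_mp T5.Ymp.bz_eq (w := 231) (c := ⟨⟨.negSucc 1844, .negSucc 744, .negSucc 85, .ofNat 19, .ofNat 80, .negSucc 430⟩, ⟨.ofNat 23, .ofNat 176, .negSucc 91, .negSucc 27, .ofNat 35, .ofNat 87⟩, ⟨.ofNat 1105, .ofNat 638, .ofNat 73, .negSucc 113, .negSucc 74, .ofNat 248⟩, ⟨.negSucc 3645, .negSucc 1085, .negSucc 132, .ofNat 20, .ofNat 170, .negSucc 777⟩, ⟨.negSucc 1103, .ofNat 149, .ofNat 64, .negSucc 221, .ofNat 335, .ofNat 535⟩, .ofNat 461, .ofNat 127,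 .ofNat 0, .ofNat 127, .ofNat 1800, .ofNat 0, .ofNat 522, .negSucc 36, .negSucc 1003, .ofNat 0, .ofNat 128, .ofNat 134, .ofNat 0, .ofNat 0, .ofNat 1255, .ofNat 1615, .ofNat 0, .ofNat 0, .ofNat 35270013391752390953374676301189147000832, .ofNat 0, .ofNat 0, .ofNat 0, .ofNat 0, .ofNat 0, .ofNat 0, .ofNat 0, .ofNat 1266041371397648246722868071149360316940288, .ofNat 0, .ofNat 0, .ofNat 0, .ofNat 8064993687759873439835373365871547806384128, .ofNat 0⟩)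
    (by decide +kernel)
theorem L01657 : Good (Phi V5.P V5.D (-1) 1) ⟨4, 10, 4, 1, 3, 5, 3, 7, 4, 1⟩ :=
  leafX_sound T5.ok_mp T5.Ymp.bz_eq (w := 230) (c := ⟨⟨.negSucc 2071, .negSucc 722, .negSucc 193, .ofNat 20, .ofNat 531, .ofNat 128⟩, ⟨.ofNat 55, .ofNat 186, .negSucc 68, .negSucc 12, .ofNat 17, .ofNat 58⟩, ⟨.ofNat 1305, .ofNat 630, .ofNat 173, .negSucc 96, .negSucc 500, .negSucc 283⟩, ⟨.negSucc 4057, .negSucc 1036, .negSucc 341, .ofNat 16, .ofNat 1026, .ofNat 287⟩, ⟨.negSucc 822, .ofNat 98, .ofNat 79, .negSucc 65, .ofNat 519, .ofNat 574⟩, .ofNat 479, .ofNat 166, .ofNat 0, .ofNat 166, .ofNat 2071, .ofNat 0, .ofNat 391, .negSucc 29, .negSucc 953, .ofNat 0, .ofNat 128, .ofNat 130, .ofNat 0, .ofNat 0, .ofNat 1134, .ofNat 846, .ofNat 0, .ofNat 0, .ofNat 14338917954767234732168965807426783674368, .ofNat 0, .ofNat 0, .ofNat 0, .ofNat 0, .ofNat 0, .ofNat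 0, .ofNat 30105173688676080621376504126689316988308684800, .ofNat 744677420924310476194999683955794135482368, .ofNat 0, .ofNat 0, .ofNat 15716391148770699972326904562339972928348618752, .ofNat 4282411936316626574919346505930071827546112, .ofNat 0⟩)
    (by decide +kernel)
theorem L01658 : Good (Phi V5.P V5.D (-1) 1) ⟨4, 11, 4, 1, 3, 5, 2, 3, 4, 1⟩ :=
  out_sound (S := T5.ds_mp) T5.ok_mp (w := 53) (j := 3) (by decide +kernel)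
theorem L01659 : Good (Phi V5.P V5.D (-1) 1) ⟨2, 3, 4, 1, 2, 2, 1, 1, 3, 0⟩ :=
  out_sound (S := T5.ds_mp) T5.ok_mp (w := 41) (j := 3) (by decide +kernel)
theorem L01660 : Good (Phi V5.P V5.D (-1) 1) ⟨3, 4, 4, 1, 2, 2, 2, 2, 4, 2⟩ :=
  leafX_sound T5.ok_mp T5.Ymp.bz_eq (w := 209) (c := ⟨⟨.negSucc 1979, .negSucc 520, .negSucc 50, .negSucc 3, .ofNat 292, .ofNat 98⟩, ⟨.negSucc 87, .ofNat 170, .negSucc 91, .negSucc 24, .ofNat 26, .ofNat 16⟩, ⟨.ofNat 1307, .ofNat 425, .ofNat 57, .negSucc 282, .negSucc 291, .negSucc 42⟩, ⟨.negSucc 4342, .negSucc 539, .negSucc 68, .negSucc 7, .ofNat 593, .ofNat 180⟩, ⟨.negSucc 794, .negSucc 32, .ofNat 17, .negSucc 383, .ofNat 367, .ofNat 293⟩, .ofNat 497, .ofNat 11, .ofNat 0, .ofNat 11, .ofNat 2507, .ofNat 0, .ofNat 757, .negSucc 4, .negSucc 458, .ofNat 0, .ofNat 128, .ofNat 30, .ofNat 0, .ofNat 0, .ofNat 1104, .ofNat 1913,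 .ofNat 0, .ofNat 0, .ofNat 0, .ofNat 0, .ofNat 0, .ofNat 0, .ofNat 0, .ofNat 0, .ofNat 0, .ofNat 0, .ofNat 0, .ofNat 0, .ofNat 0, .ofNat 0, .ofNat 0, .ofNat 0⟩)
    (by decide +kernel)
theorem L01661 : Good (Phi V5.P V5.D (-1) 1) ⟨3, 4, 4, 1, 2, 2, 2, 2, 4, 3⟩ :=
  leafX_sound T5.ok_mp T5.Ymp.bz_eq (w := 208) (c := ⟨⟨.negSucc 2050, .negSucc 349, .negSucc 14, .ofNat 120, .ofNat 330, .ofNat 263⟩, ⟨.negSucc 73, .ofNat 163, .negSucc 87, .negSucc 19, .ofNat 24, .ofNat 8⟩, ⟨.ofNat 1492, .ofNat 280, .ofNat 24, .negSucc 461, .negSucc 415, .negSucc 164⟩, ⟨.negSucc 4481, .negSucc 217, .negSucc 9, .ofNat 235, .ofNat 682, .ofNat 529⟩, ⟨.negSucc 603, .ofNat 7, .ofNat 13, .negSucc 261, .ofNat 376, .ofNat 148⟩, .ofNat 437, .ofNat 4, .ofNat 0, .ofNat 4, .ofNat 1485, .ofNat 0, .ofNat 342, .negSucc 4, .negSucc 143, .ofNat 0, .ofNat 128, .ofNat 13, .ofNat 0, .ofNat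 0, .ofNat 540, .ofNat 1802, .ofNat 0, .ofNat 0, .ofNat 0, .ofNat 0, .ofNat 0, .ofNat 0, .ofNat 0, .ofNat 0, .ofNat 0, .ofNat 0, .ofNat 0, .ofNat 0, .ofNat 0, .ofNat 0, .ofNat 0, .ofNat 0⟩)
    (by decide +kernel)
theorem L01662 : Good (Phi V5.P V5.D (-1) 1) ⟨3, 4, 4, 1, 2, 2, 2, 3, 3, 1⟩ :=
  leafX_sound T5.ok_mp T5.Ymp.bz_eq (w := 203) (c := ⟨⟨.negSucc 1814, .negSucc 351, .negSucc 51, .ofNat 80, .ofNat 500, .ofNat 380⟩, ⟨.negSucc 65, .ofNat 154, .negSucc 81, .negSucc 18, .ofNat 51, .ofNat 40⟩, ⟨.ofNat 1171, .ofNat 252, .ofNat 49, .negSucc 342, .negSucc 525, .negSucc 397⟩, ⟨.negSucc 3969, .negSucc 246, .negSucc 81, .ofNat 141, .ofNat 1019, .ofNat 751⟩, ⟨.negSucc 560, .ofNat 8, .negSucc 6, .negSucc 146, .ofNat 718, .ofNat 615⟩, .ofNat 511, .ofNat 33, .ofNat 0, .ofNat 33, .ofNat 2980, .ofNat 0, .ofNat 489, .negSucc 6, .negSucc 264, .ofNat 0, .ofNat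 128, .ofNat 17, .ofNat 0, .ofNat 0, .ofNat 753, .ofNat 564, .ofNat 0, .ofNat 0, .ofNat 0, .ofNat 0, .ofNat 0, .ofNat 26796764077759182136148944499675609694208, .ofNat 0, .ofNat 0, .ofNat 0, .ofNat 30632218894128005999285141347370461560832, .ofNat 0, .ofNat 0, .ofNat 0, .ofNat 35922961213926682659441164024290819964928, .ofNat 0, .ofNat 0⟩)
    (by decide +kernel)
theorem L01663 : Good (Phi V5.P V5.D (-1) 1) ⟨3, 5, 4, 1, 2, 2, 2, 2, 4, 2⟩ :=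
  leafX_sound T5.ok_mp T5.Ymp.bz_eq (w := 209) (c := ⟨⟨.negSucc 2671, .negSucc 765, .negSucc 42, .negSucc 85, .ofNat 426, .ofNat 278⟩, ⟨.ofNat 131, .ofNat 304, .negSucc 100, .negSucc 39, .negSucc 2, .negSucc 3⟩, ⟨.ofNat 1948, .ofNat 653, .ofNat 51, .negSucc 281, .negSucc 442, .negSucc 199⟩, ⟨.negSucc 5166, .negSucc 808, .negSucc 61, .negSucc 191, .ofNat 810, .ofNat 530⟩, ⟨.negSucc 674, .ofNat 137, .ofNat 54, .negSucc 429, .ofNat 302, .ofNat 186⟩, .ofNat 406, .ofNat 83, .ofNat 0, .ofNat 83, .ofNat 1195, .ofNat 0, .ofNat 541, .negSucc 51, .negSucc 479, .ofNat 0, .ofNat 128, .ofNat 81, .ofNat 0, .ofNat 0, .ofNat 945, .ofNat 1782, .ofNat 0, .ofNat 0, .ofNat 550544299516335576449381919488999424, .ofNat 0, .ofNat 0, .ofNat 0, .ofNat 38721303731787716790948962040190861312, .ofNat 0, .ofNat 0, .ofNat 0, .ofNat 41479862293218845658818419288776376320, .ofNat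 0, .ofNat 0, .ofNat 0, .ofNat 68718336796004181467294157325146783744, .ofNat 0⟩)
    (by decide +kernel)
theorem L01664 : Good (Phi V5.P V5.D (-1) 1) ⟨3, 5, 4, 1, 2, 2, 3, 6, 4, 2⟩ :=
  leafX_sound T5.ok_mp T5.Ymp.bz_eq (w := 212) (c := ⟨⟨.negSucc 2392, .negSucc 714, .negSucc 47, .negSucc 6, .ofNat 357, .ofNat 447⟩, ⟨.ofNat 119, .ofNat 286, .negSucc 82, .negSucc 23, .ofNat 12, .negSucc 1⟩, ⟨.ofNat 1685, .ofNat 589, .ofNat 47, .negSucc 327, .negSucc 375, .negSucc 463⟩, ⟨.negSucc 4622, .negSucc 749, .negSucc 78, .negSucc 32, .ofNat 687, .ofNat 851⟩, ⟨.negSucc 506, .ofNat 35, .ofNat 51, .negSucc 222, .ofNat 378, .ofNat 322⟩, .ofNat 461, .ofNat 139, .ofNat 0, .ofNat 139, .ofNat 1799, .ofNat 0, .ofNat 488, .negSucc 54, .negSucc 402, .ofNat 0, .ofNat 128, .ofNat 59, .ofNat 0, .ofNat 0, .ofNat 740, .ofNat 1055, .ofNat 0, .ofNat 0, .ofNat 5206028062902570067802420738565079040,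 .ofNat 0, .ofNat 0, .ofNat 0, .ofNat 0, .ofNat 0, .ofNat 0, .ofNat 0, .ofNat 671796946039636742532822423535165112320, .ofNat 0, .ofNat 0, .ofNat 0, .ofNat 636626371007825311891763220713637412864, .ofNat 0⟩)
    (by decide +kernel)
theorem L01665 : Good (Phi V5.P V5.D (-1) 1) ⟨3, 5, 4, 1, 2, 2, 3, 7, 4, 2⟩ :=
  leafX_sound T5.ok_mp T5.Ymp.bz_eq (w := 211) (c := ⟨⟨.negSucc 2020, .negSucc 553, .negSucc 48, .ofNat 5, .ofNat 711, .ofNat 478⟩, ⟨.ofNat 111, .ofNat 262, .negSucc 62, .ofNat 1, .ofNat 6, .ofNat 12⟩, ⟨.ofNat 1295, .ofNat 387, .ofNat 46, .negSucc 280, .negSucc 715, .negSucc 536⟩, ⟨.negSucc 3880, .negSucc 558, .negSucc 93, .negSucc 36, .ofNat 1402, .ofNat 932⟩, ⟨.negSucc 272, .ofNat 71, .ofNat 10, .ofNat 53, .ofNat 576, .ofNat 487⟩, .ofNat 397, .ofNat 94, .ofNat 0, .ofNat 94, .ofNat 1071, .ofNat 0, .ofNat 642, .negSucc 36, .negSucc 860, .ofNat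 0, .ofNat 128, .ofNat 148, .ofNat 0, .ofNat 0, .ofNat 1259, .ofNat 296, .ofNat 0, .ofNat 0, .ofNat 2207441211602314391929010540918079488, .ofNat 0, .ofNat 0, .ofNat 0, .ofNat 0, .ofNat 0, .ofNat 0, .ofNat 471152083279332783579809384807523785113600, .ofNat 168218719572361534804748749739342692352, .ofNat 0, .ofNat 0, .ofNat 0, .ofNat 0, .ofNat 0⟩)
    (by decide +kernel)
theorem L01666 : Good (Phi V5.P V5.D (-1) 1) ⟨3, 5, 4, 1, 2, 2, 2, 2, 4, 3⟩ :=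
  leafX_sound T5.ok_mp T5.Ymp.bz_eq (w := 208) (c := ⟨⟨.negSucc 2514, .negSucc 518, .negSucc 40, .ofNat 175, .ofNat 453, .ofNat 384⟩, ⟨.ofNat 132, .ofNat 249, .negSucc 91, .negSucc 51, .ofNat 5, .negSucc 19⟩, ⟨.ofNat 1942, .ofNat 432, .ofNat 57, .negSucc 566, .negSucc 604, .negSucc 306⟩, ⟨.negSucc 4849, .negSucc 401, .negSucc 61, .ofNat 299, .ofNat 865, .ofNat 713⟩, ⟨.negSucc 532, .negSucc 33, .ofNat 5, .negSucc 305, .ofNat 372, .ofNat 130⟩, .ofNat 491, .ofNat 189, .ofNat 0, .ofNat 189, .ofNat 2302, .ofNat 0, .ofNat 482, .negSucc 64, .negSucc 217, .ofNat 0, .ofNat 128, .ofNat 35, .ofNat 0, .ofNat 0, .ofNat 754, .ofNat 731, .ofNat 0, .ofNat 0, .ofNat 240015409169508963700997228282773504, .ofNat 0, .ofNat 0, .ofNat 0, .ofNat 0, .ofNat 0, .ofNat 0, .ofNat 0, .ofNat 85571816686327770437924312298104553472, .ofNat 0, .ofNat 0, .ofNat 0, .ofNat 0, .ofNat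 0⟩)
    (by decide +kernel)
theorem L01667 : Good (Phi V5.P V5.D (-1) 1) ⟨3, 5, 4, 1, 2, 2, 2, 3, 4, 3⟩ :=
  leafX_sound T5.ok_mp T5.Ymp.bz_eq (w := 207) (c := ⟨⟨.negSucc 2160, .negSucc 236, .negSucc 20, .ofNat 236, .ofNat 790, .ofNat 375⟩, ⟨.ofNat 115, .ofNat 231, .negSucc 68, .negSucc 22, .ofNat 42, .ofNat 1⟩, ⟨.ofNat 1501, .ofNat 107, .ofNat 31, .negSucc 617, .negSucc 934, .negSucc 419⟩, ⟨.negSucc 4151, .ofNat 48, .negSucc 30, .ofNat 427, .ofNat 1547, .ofNat 710⟩, ⟨.negSucc 373, .ofNat 194, .ofNat 42, .negSucc 26, .ofNat 1014, .ofNat 263⟩, .ofNat 460, .ofNat 137, .ofNat 0, .ofNat 137, .ofNat 1777, .ofNat 0, .ofNat 490, .negSucc 55, .negSucc 235, .ofNat 0, .ofNat 128, .ofNat 35, .ofNat 0, .ofNat 0, .ofNat 757, .ofNat 345, .ofNat 0, .ofNat 0, .ofNat 0, .ofNat 0, .ofNat 0, .ofNat 0, .ofNat 0, .ofNat 0, .ofNat 0, .ofNat 323903378063099133598611764705549665435648,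 .ofNat 52052676597905354786322063285320417280, .ofNat 0, .ofNat 0, .ofNat 0, .ofNat 0, .ofNat 0⟩)
    (by decide +kernel)
theorem L01668 : Good (Phi V5.P V5.D (-1) 1) ⟨2, 3, 4, 1, 2, 2, 1, 1, 3, 1⟩ :=
  out_sound (S := T5.ds_mp) T5.ok_mp (w := 41) (j := 3) (by decide +kernel)
theorem L01669 : Good (Phi V5.P V5.D (-1) 1) ⟨3, 4, 3, 0, 3, 6, 2, 2, 4, 0⟩ :=
  leafX_sound T5.ok_mp T5.Ymp.bz_eq (w := 219) (c := ⟨⟨.ofNat 1999, .ofNat 219, .negSucc 68, .ofNat 1, .negSucc 1148, .negSucc 2087⟩, ⟨.ofNat 27, .negSucc 128, .negSucc 9, .ofNat 2, .negSucc 5, .negSucc 42⟩, ⟨.negSucc 1294, .negSucc 193, .negSucc 30, .ofNat 107, .ofNat 667, .ofNat 1151⟩, ⟨.ofNat 4092, .ofNat 303, .ofNat 2, .negSucc 21, .negSucc 2364, .negSucc 4294⟩, ⟨.negSucc 496, .negSucc 436, .negSucc 96, .ofNat 215, .negSucc 271, .negSucc 654⟩, .ofNat 437, .ofNat 23, .ofNat 0, .ofNat 23, .ofNat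 1517, .ofNat 0, .ofNat 310, .ofNat 35, .negSucc 341, .ofNat 0, .ofNat 128, .ofNat 25, .ofNat 0, .ofNat 0, .ofNat 411, .ofNat 729, .ofNat 0, .ofNat 0, .ofNat 0, .ofNat 0, .ofNat 0, .ofNat 0, .ofNat 0, .ofNat 0, .ofNat 0, .ofNat 0, .ofNat 0, .ofNat 0, .ofNat 0, .ofNat 0, .ofNat 0, .ofNat 0⟩)
    (by decide +kernel)
theorem L01670 : Good (Phi V5.P V5.D (-1) 1) ⟨3, 4, 3, 0, 3, 7, 2, 2, 4, 0⟩ :=
  leafX_sound T5.ok_mp T5.Ymp.bz_eq (w := 219) (c := ⟨⟨.ofNat 1557, .ofNat 295, .ofNat 65, .negSucc 910, .negSucc 794, .negSucc 1570⟩, ⟨.negSucc 18, .negSucc 42, .negSucc 107, .ofNat 85, .negSucc 34, .negSucc 13⟩, ⟨.negSucc 760, .negSucc 224, .negSucc 177, .ofNat 747, .ofNat 383, .ofNat 639⟩, ⟨.ofNat 3139, .ofNat 521, .ofNat 181, .negSucc 1776, .negSucc 1680, .negSucc 3231⟩, ⟨.ofNat 570, .negSucc 268, .negSucc 258, .ofNat 243, .negSucc 1060, .negSucc 1218⟩, .ofNat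 440, .ofNat 23, .ofNat 0, .ofNat 23, .ofNat 1540, .ofNat 0, .ofNat 312, .ofNat 57, .negSucc 421, .ofNat 0, .ofNat 128, .ofNat 36, .ofNat 0, .ofNat 0, .ofNat 492, .ofNat 712, .ofNat 0, .ofNat 0, .ofNat 0, .ofNat 0, .ofNat 0, .ofNat 0, .ofNat 0, .ofNat 0, .ofNat 0, .ofNat 0, .ofNat 0, .ofNat 0, .ofNat 0, .ofNat 0, .ofNat 0, .ofNat 0⟩)
    (by decide +kernel)
theorem L01671 : Good (Phi V5.P V5.D (-1) 1) ⟨4, 10, 3, 0, 3, 6, 2, 2, 5, 0⟩ :=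
  leafX_sound T5.ok_mp T5.Ymp.bz_eq (w := 228) (c := ⟨⟨.ofNat 2590, .ofNat 866, .ofNat 358, .ofNat 91, .negSucc 1791, .negSucc 1339⟩, ⟨.negSucc 248, .negSucc 276, .ofNat 9, .ofNat 11, .ofNat 111, .ofNat 79⟩, ⟨.negSucc 1726, .negSucc 787, .negSucc 425, .ofNat 124, .ofNat 1037, .ofNat 826⟩, ⟨.ofNat 4859, .ofNat 1294, .ofNat 740, .ofNat 178, .negSucc 3403, .negSucc 2537⟩, ⟨.negSucc 563, .negSucc 366, .negSucc 382, .ofNat 252, .negSucc 514, .negSucc 398⟩, .ofNat 410, .ofNat 106, .ofNat 0, .ofNat 106, .ofNat 1252, .ofNat 0, .ofNat 262, .negSucc 9, .negSucc 581, .ofNat 0, .ofNat 128, .ofNat 83, .ofNat 0, .ofNat 0, .ofNat 603, .ofNat 764, .ofNat 0, .ofNat 0, .ofNat 37034529798819453103191179160488805138432, .ofNat 0, .ofNat 0, .ofNat 0, .ofNat 0, .ofNat 0, .ofNat 0, .ofNat 0, .ofNat 0, .ofNat 0, .ofNat 0, .ofNat 0, .ofNat 1598223266220518039845787018151290298433536,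 .ofNat 0⟩)
    (by decide +kernel)
theorem L01672 : Good (Phi V5.P V5.D (-1) 1) ⟨4, 10, 3, 0, 3, 6, 2, 2, 5, 1⟩ :=
  leafX_sound T5.ok_mp T5.Ymp.bz_eq (w := 228) (c := ⟨⟨.ofNat 1295, .ofNat 336, .negSucc 57, .ofNat 293, .negSucc 1460, .negSucc 1620⟩, ⟨.negSucc 234, .negSucc 121, .negSucc 93, .negSucc 21, .ofNat 173, .ofNat 155⟩, ⟨.negSucc 1052, .negSucc 327, .negSucc 71, .negSucc 121, .ofNat 960, .ofNat 1083⟩, ⟨.ofNat 2265, .ofNat 507, .negSucc 18, .ofNat 554, .negSucc 2712, .negSucc 3039⟩, ⟨.negSucc 1436, .negSucc 245, .negSucc 257, .negSucc 58, .ofNat 208, .negSucc 87⟩, .ofNat 410, .ofNat 104, .ofNat 0, .ofNat 104, .ofNat 1257, .ofNat 0, .ofNat 297, .negSucc 32, .negSucc 576, .ofNat 0, .ofNat 128, .ofNat 84, .ofNat 0, .ofNat 0, .ofNat 589, .ofNat 796, .ofNat 0, .ofNat 0, .ofNat 0, .ofNat 0, .ofNat 0, .ofNat 0, .ofNat 0, .ofNat 0, .ofNat 0, .ofNat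 0, .ofNat 0, .ofNat 0, .ofNat 0, .ofNat 0, .ofNat 1175799235331778151938704332871854710587392, .ofNat 0⟩)
    (by decide +kernel)
theorem L01673 : Good (Phi V5.P V5.D (-1) 1) ⟨4, 10, 3, 0, 3, 7, 2, 2, 5, 0⟩ :=
  leafX_sound T5.ok_mp T5.Ymp.bz_eq (w := 228) (c := ⟨⟨.ofNat 2414, .ofNat 482, .ofNat 243, .negSucc 1700, .negSucc 1313, .negSucc 1022⟩, ⟨.negSucc 180, .negSucc 148, .negSucc 37, .ofNat 265, .negSucc 5, .ofNat 32⟩, ⟨.negSucc 1334, .negSucc 414, .negSucc 370, .ofNat 1434, .ofNat 616, .ofNat 501⟩, ⟨.ofNat 4545, .ofNat 751, .ofNat 530, .negSucc 3065, .negSucc 2596, .negSucc 1999⟩, ⟨.ofNat 294, .negSucc 286, .negSucc 444, .ofNat 930, .negSucc 1361, .negSucc 575⟩, .ofNat 411, .ofNat 108, .ofNat 0, .ofNat 108, .ofNat 1269, .ofNat 0, .ofNat 269, .ofNat 12, .negSucc 473, .ofNat 0, .ofNat 128, .ofNat 72, .ofNat 0, .ofNat 0, .ofNat 475, .ofNat 390,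 .ofNat 0, .ofNat 0, .ofNat 0, .ofNat 0, .ofNat 0, .ofNat 0, .ofNat 0, .ofNat 0, .ofNat 0, .ofNat 0, .ofNat 0, .ofNat 0, .ofNat 0, .ofNat 0, .ofNat 716811643152193179869632487612342536765440, .ofNat 0⟩)
    (by decide +kernel)
theorem L01674 : Good (Phi V5.P V5.D (-1) 1) ⟨4, 10, 3, 0, 3, 7, 2, 2, 5, 1⟩ :=
  leafX_sound T5.ok_mp T5.Ymp.bz_eq (w := 228) (c := ⟨⟨.ofNat 1018, .ofNat 105, .negSucc 39, .negSucc 912, .negSucc 941, .negSucc 1050⟩, ⟨.negSucc 129, .negSucc 52, .negSucc 116, .ofNat 132, .ofNat 34, .ofNat 68⟩, ⟨.negSucc 650, .negSucc 81, .negSucc 84, .ofNat 691, .ofNat 490, .ofNat 534⟩, ⟨.ofNat 1708, .ofNat 183, .ofNat 29, .negSucc 1635, .negSucc 1779, .negSucc 1974⟩, ⟨.negSucc 995, .negSucc 133, .negSucc 83, .ofNat 454, .negSucc 521, .negSucc 315⟩, .ofNat 469, .ofNat 180, .ofNat 0, .ofNat 180, .ofNat 1951, .ofNat 0, .ofNat 287, .negSucc 41,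 .negSucc 789, .ofNat 0, .ofNat 128, .ofNat 115, .ofNat 0, .ofNat 0, .ofNat 796, .ofNat 802, .ofNat 0, .ofNat 0, .ofNat 0, .ofNat 0, .ofNat 0, .ofNat 0, .ofNat 0, .ofNat 0, .ofNat 0, .ofNat 0, .ofNat 75440806078974329760668993959405719388160, .ofNat 0, .ofNat 0, .ofNat 0, .ofNat 3412427389619229846082715831567008531480576, .ofNat 0⟩)
    (by decide +kernel)
theorem L01675 : Good (Phi V5.P V5.D (-1) 1) ⟨4, 11, 3, 0, 3, 6, 2, 2, 5, 0⟩ :=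
  leafX_sound T5.ok_mp T5.Ymp.bz_eq (w := 229) (c := ⟨⟨.ofNat 3550, .ofNat 1244, .ofNat 75, .ofNat 141, .negSucc 1849, .negSucc 1593⟩, ⟨.negSucc 659, .negSucc 296, .ofNat 130, .ofNat 25, .ofNat 211, .ofNat 168⟩, ⟨.negSucc 2583, .negSucc 1007, .negSucc 143, .ofNat 117, .ofNat 1044, .ofNat 1025⟩, ⟨.ofNat 6168, .ofNat 1949, .ofNat 296, .ofNat 304, .negSucc 3368, .negSucc 2920⟩, ⟨.negSucc 918, .ofNat 541, .ofNat 24, .ofNat 424, .negSucc 645, .negSucc 718⟩, .ofNat 469, .ofNat 255, .ofNat 0, .ofNat 255, .ofNat 1680, .ofNat 0, .ofNat 210, .negSucc 72, .negSucc 653, .ofNat 0, .ofNat 128, .ofNat 128, .ofNat 0, .ofNat 0, .ofNat 660, .ofNat 1001, .ofNat 0, .ofNat 0, .ofNat 85881562925319084897855669699199664914432, .ofNat 0, .ofNat 0, .ofNat 0, .ofNat 752318309196383324687903355861483527340032, .ofNat 0, .ofNat 0, .ofNat 0, .ofNat 3534740235558739824833484683784944242130944,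 .ofNat 0, .ofNat 0, .ofNat 0, .ofNat 4069977836121168725496848099056809548972032, .ofNat 0⟩)
    (by decide +kernel)
theorem L01676 : Good (Phi V5.P V5.D (-1) 1) ⟨4, 11, 3, 0, 3, 6, 2, 2, 5, 1⟩ :=
  leafX_sound T5.ok_mp T5.Ymp.bz_eq (w := 229) (c := ⟨⟨.ofNat 1974, .ofNat 1175, .ofNat 412, .ofNat 212, .negSucc 1969, .negSucc 2110⟩, ⟨.negSucc 502, .negSucc 315, .negSucc 221, .negSucc 41, .ofNat 355, .ofNat 345⟩, ⟨.negSucc 1614, .negSucc 979, .negSucc 452, .negSucc 61, .ofNat 1350, .ofNat 1479⟩, ⟨.ofNat 3221, .ofNat 1913, .ofNat 751, .ofNat 366, .negSucc 3429, .negSucc 3728⟩, ⟨.negSucc 1665, .negSucc 247, .negSucc 237, .negSucc 69, .ofNat 275, .negSucc 58⟩, .ofNat 494, .ofNat 306, .ofNat 0, .ofNat 306, .ofNat 1952, .ofNat 0, .ofNat 447, .negSucc 101, .negSucc 687, .ofNat 0, .ofNat 128, .ofNat 137, .ofNat 0, .ofNat 0, .ofNat 674, .ofNat 853, .ofNat 0,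 .ofNat 0, .ofNat 24762126883084385620219347784558587150336, .ofNat 0, .ofNat 0, .ofNat 0, .ofNat 1593245118934971203574548810619622116032512, .ofNat 0, .ofNat 0, .ofNat 0, .ofNat 5354662990455277112646511139914864136290304, .ofNat 0, .ofNat 0, .ofNat 0, .ofNat 2967189211497578467738513258865981174841344, .ofNat 0⟩)
    (by decide +kernel)
theorem L01677 : Good (Phi V5.P V5.D (-1) 1) ⟨4, 11, 3, 0, 4, 14, 2, 2, 5, 0⟩ :=
  leafX_sound T5.ok_mp T5.Ymp.bz_eq (w := 243) (c := ⟨⟨.ofNat 3303, .ofNat 1094, .ofNat 990, .negSucc 1157, .negSucc 1709, .negSucc 1413⟩, ⟨.negSucc 518, .negSucc 304, .negSucc 208, .ofNat 251, .ofNat 153, .ofNat 138⟩, ⟨.negSucc 2102, .negSucc 867, .negSucc 1001, .ofNat 1044, .ofNat 930, .ofNat 818⟩, ⟨.ofNat 5898, .ofNat 1678, .ofNat 1691, .negSucc 1937, .negSucc 3228, .negSucc 2634⟩, ⟨.ofNat 52, .negSucc 289, .negSucc 878, .ofNat 534,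 .negSucc 1070, .negSucc 723⟩, .ofNat 406, .ofNat 156, .ofNat 0, .ofNat 156, .ofNat 1145, .ofNat 0, .ofNat 273, .negSucc 28, .negSucc 497, .ofNat 0, .ofNat 128, .ofNat 95, .ofNat 0, .ofNat 0, .ofNat 466, .ofNat 714, .ofNat 0, .ofNat 0, .ofNat 1148443729640033787576882192221128692158431232, .ofNat 0, .ofNat 0, .ofNat 0, .ofNat 0, .ofNat 0, .ofNat 0, .ofNat 0, .ofNat 11594150721460681103006720292059227751784120320, .ofNat 0, .ofNat 0, .ofNat 0, .ofNat 29903684627035541420468697232944628402499878912, .ofNat 0⟩)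
    (by decide +kernel)
theorem L01678 : Good (Phi V5.P V5.D (-1) 1) ⟨4, 11, 3, 0, 4, 14, 2, 2, 5, 1⟩ :=
  leafX_sound T5.ok_mp T5.Ymp.bz_eq (w := 243) (c := ⟨⟨.ofNat 1605, .ofNat 703, .ofNat 441, .negSucc 602, .negSucc 1302, .negSucc 1714⟩, ⟨.negSucc 382, .negSucc 196, .negSucc 228, .ofNat 139, .ofNat 167, .ofNat 235⟩, ⟨.negSucc 1126, .negSucc 562, .negSucc 485, .ofNat 533, .ofNat 742, .ofNat 1048⟩, ⟨.ofNat 2649, .ofNat 1134, .ofNat 790, .negSucc 1005, .negSucc 2367, .negSucc 3082⟩, ⟨.negSucc 1224, .ofNat 115, .negSucc 300, .ofNat 379, .negSucc 406, .negSucc 366⟩, .ofNat 468, .ofNat 250, .ofNat 0, .ofNat 250, .ofNat 1681, .ofNat 0, .ofNat 303, .negSucc 83, .negSucc 688, .ofNat 0, .ofNat 128, .ofNat 134, .ofNat 0, .ofNat 0, .ofNat 644, .ofNat 1163, .ofNat 0, .ofNat 0, .ofNat 213469863962682546632997913499310277166891008, .ofNat 0, .ofNat 0, .ofNat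 0, .ofNat 11766250619281967975971154214371618433808728064, .ofNat 0, .ofNat 0, .ofNat 0, .ofNat 48758169432812499365883966758623607933093543936, .ofNat 0, .ofNat 0, .ofNat 0, .ofNat 51876685995381920934950257793920144344946311168, .ofNat 0⟩)
    (by decide +kernel)
theorem L01679 : Good (Phi V5.P V5.D (-1) 1) ⟨4, 11, 3, 0, 4, 15, 2, 2, 4, 0⟩ :=
  leafX_sound T5.ok_mp T5.Ymp.bz_eq (w := 237) (c := ⟨⟨.ofNat 1540, .ofNat 133, .ofNat 242, .negSucc 893, .negSucc 778, .negSucc 1965⟩, ⟨.negSucc 174, .negSucc 86, .negSucc 151, .ofNat 191, .negSucc 1, .ofNat 145⟩, ⟨.negSucc 615, .negSucc 105, .negSucc 337, .ofNat 658, .ofNat 290, .ofNat 848⟩, ⟨.ofNat 2772, .ofNat 209, .ofNat 451, .negSucc 1488, .negSucc 1550, .negSucc 3694⟩, ⟨.ofNat 377, .negSucc 177, .negSucc 252, .ofNat 477, .negSucc 1046, .negSucc 1333⟩, .ofNat 443, .ofNat 209, .ofNat 0, .ofNat 209, .ofNat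 1440, .ofNat 0, .ofNat 348, .negSucc 51, .negSucc 557, .ofNat 0, .ofNat 128, .ofNat 112, .ofNat 0, .ofNat 0, .ofNat 536, .ofNat 789, .ofNat 0, .ofNat 0, .ofNat 0, .ofNat 0, .ofNat 0, .ofNat 0, .ofNat 0, .ofNat 0, .ofNat 0, .ofNat 0, .ofNat 1984722944302715570418051373757351475703447552, .ofNat 0, .ofNat 0, .ofNat 0, .ofNat 1399307271416585885465398581598675806067884032, .ofNat 0⟩)
    (by decide +kernel)
theorem L01680 : Good (Phi V5.P V5.D (-1) 1) ⟨2, 3, 3, 0, 2, 3, 2, 2, 4, 0⟩ :=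
  out_sound (S := T5.ds_mp) T5.ok_mp (w := 39) (j := 3) (by decide +kernel)
theorem L01681 : Good (Phi V5.P V5.D (-1) 1) ⟨3, 4, 3, 0, 2, 3, 3, 4, 5, 2⟩ :=
  leafX_sound T5.ok_mp T5.Ymp.bz_eq (w := 213) (c := ⟨⟨.negSucc 353, .negSucc 368, .negSucc 192, .negSucc 235, .negSucc 96, .negSucc 687⟩, ⟨.negSucc 43, .ofNat 57, .negSucc 136, .ofNat 26, .negSucc 6, .ofNat 12⟩, ⟨.ofNat 41, .ofNat 274, .ofNat 61, .ofNat 185, .ofNat 38, .ofNat 352⟩, ⟨.negSucc 913, .negSucc 556, .negSucc 265, .negSucc 474, .negSucc 216, .negSucc 1433⟩, ⟨.negSucc 1333, .negSucc 146, .negSucc 114, .ofNat 198, .negSucc 26, .negSucc 140⟩, .ofNat 438, .ofNat 30, .ofNat 0, .ofNat 30, .ofNat 1536, .ofNat 0, .ofNat 624, .ofNat 3, .negSucc 810, .ofNat 0, .ofNat 128, .ofNat 70, .ofNat 0, .ofNat 0, .ofNat 1010, .ofNat 1556, .ofNat 0, .ofNat 0, .ofNat 0, .ofNat 0, .ofNat 0, .ofNat 0, .ofNat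 0, .ofNat 0, .ofNat 0, .ofNat 0, .ofNat 0, .ofNat 0, .ofNat 0, .ofNat 0, .ofNat 0, .ofNat 0⟩)
    (by decide +kernel)
theorem L01682 : Good (Phi V5.P V5.D (-1) 1) ⟨3, 4, 3, 0, 2, 3, 3, 5, 5, 2⟩ :=
  leafX_sound T5.ok_mp T5.Ymp.bz_eq (w := 214) (c := ⟨⟨.negSucc 676, .negSucc 374, .negSucc 153, .negSucc 20, .negSucc 111, .negSucc 547⟩, ⟨.negSucc 27, .ofNat 74, .negSucc 146, .negSucc 17, .ofNat 3, .ofNat 13⟩, ⟨.ofNat 247, .ofNat 266, .ofNat 43, .ofNat 10, .ofNat 55, .ofNat 282⟩, ⟨.negSucc 1571, .negSucc 547, .negSucc 200, .negSucc 53, .negSucc 242, .negSucc 1155⟩, ⟨.negSucc 1261, .negSucc 102, .negSucc 72, .negSucc 274, .ofNat 46, .ofNat 29⟩, .ofNat 442, .ofNat 26, .ofNat 0, .ofNat 26, .ofNat 1562, .ofNat 0, .ofNat 526, .ofNat 19, .negSucc 674, .ofNat 0, .ofNat 128, .ofNat 57, .ofNat 0, .ofNat 0, .ofNat 839, .ofNat 2488, .ofNat 0, .ofNat 0, .ofNat 0,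 .ofNat 0, .ofNat 0, .ofNat 0, .ofNat 0, .ofNat 0, .ofNat 0, .ofNat 0, .ofNat 0, .ofNat 0, .ofNat 0, .ofNat 0, .ofNat 0, .ofNat 0⟩)
    (by decide +kernel)
theorem L01683 : Good (Phi V5.P V5.D (-1) 1) ⟨3, 4, 3, 0, 2, 3, 3, 4, 5, 3⟩ :=
  leafX_sound T5.ok_mp T5.Ymp.bz_eq (w := 214) (c := ⟨⟨.negSucc 1349, .negSucc 467, .negSucc 209, .ofNat 145, .ofNat 80, .negSucc 316⟩, ⟨.negSucc 15, .ofNat 113, .negSucc 178, .negSucc 17, .negSucc 1, .ofNat 10⟩, ⟨.ofNat 636, .ofNat 358, .ofNat 119, .negSucc 170, .negSucc 76, .ofNat 190⟩, ⟨.negSucc 3031, .negSucc 607, .negSucc 316, .ofNat 285, .ofNat 153, .negSucc 662⟩, ⟨.negSucc 1333, .negSucc 75, .ofNat 18, .negSucc 221, .ofNat 31, .ofNat 89⟩, .ofNat 498, .ofNat 60, .ofNat 0, .ofNat 60, .ofNat 2622, .ofNat 0, .ofNat 335, .negSucc 20, .negSucc 435, .ofNat 0, .ofNat 128, .ofNat 34, .ofNat 0, .ofNat 0, .ofNat 644, .ofNat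 2356, .ofNat 0, .ofNat 0, .ofNat 0, .ofNat 0, .ofNat 0, .ofNat 0, .ofNat 0, .ofNat 0, .ofNat 0, .ofNat 0, .ofNat 0, .ofNat 0, .ofNat 0, .ofNat 0, .ofNat 0, .ofNat 0⟩)
    (by decide +kernel)
theorem L01684 : Good (Phi V5.P V5.D (-1) 1) ⟨3, 4, 3, 0, 2, 3, 3, 5, 5, 3⟩ :=
  leafX_sound T5.ok_mp T5.Ymp.bz_eq (w := 215) (c := ⟨⟨.negSucc 1608, .negSucc 373, .negSucc 44, .ofNat 418, .ofNat 129, .negSucc 146⟩, ⟨.ofNat 10, .ofNat 105, .negSucc 188, .negSucc 48, .ofNat 1, .ofNat 21⟩, ⟨.ofNat 861, .ofNat 228, .negSucc 24, .negSucc 368, .negSucc 107, .ofNat 50⟩, ⟨.negSucc 3496, .negSucc 451, .negSucc 9, .ofNat 800, .ofNat 248, .negSucc 307⟩, ⟨.negSucc 1210, .negSucc 109, .negSucc 69, .negSucc 319, .ofNat 185, .ofNat 83⟩, .ofNat 436, .ofNat 36, .ofNat 0, .ofNat 36, .ofNat 1524, .ofNat 0, .ofNat 524, .negSucc 1, .negSucc 728, .ofNat 0, .ofNat 128, .ofNat 73, .ofNat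 0, .ofNat 0, .ofNat 999, .ofNat 2355, .ofNat 0, .ofNat 0, .ofNat 0, .ofNat 0, .ofNat 0, .ofNat 0, .ofNat 0, .ofNat 0, .ofNat 0, .ofNat 0, .ofNat 0, .ofNat 0, .ofNat 0, .ofNat 0, .ofNat 0, .ofNat 0⟩)
    (by decide +kernel)
theorem L01685 : Good (Phi V5.P V5.D (-1) 1) ⟨4, 10, 3, 0, 2, 3, 3, 4, 5, 2⟩ :=
  leafX_sound T5.ok_mp T5.Ymp.bz_eq (w := 217) (c := ⟨⟨.negSucc 670, .negSucc 227, .negSucc 382, .negSucc 186, .negSucc 107, .negSucc 841⟩, ⟨.negSucc 31, .ofNat 36, .negSucc 130, .ofNat 47, .ofNat 7, .ofNat 73⟩, ⟨.ofNat 303, .ofNat 173, .ofNat 222, .ofNat 118, .ofNat 39, .ofNat 427⟩, ⟨.negSucc 1495, .negSucc 305, .negSucc 592, .negSucc 328, .negSucc 207, .negSucc 1593⟩, ⟨.negSucc 1461, .negSucc 84, .ofNat 34, .ofNat 230, .negSucc 85, .negSucc 163⟩, .ofNat 469, .ofNat 186, .ofNat 0, .ofNat 186, .ofNat 1938, .ofNat 0, .ofNat 275, .negSucc 80, .negSucc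 757, .ofNat 0, .ofNat 128, .ofNat 116, .ofNat 0, .ofNat 0, .ofNat 812, .ofNat 1179, .ofNat 0, .ofNat 0, .ofNat 0, .ofNat 0, .ofNat 0, .ofNat 0, .ofNat 138167762764775008309808013952835125248, .ofNat 0, .ofNat 0, .ofNat 0, .ofNat 350437630700162362976713264116155809792, .ofNat 0, .ofNat 0, .ofNat 0, .ofNat 1243895730589269706347691782306506211328, .ofNat 0⟩)
    (by decide +kernel)
theorem L01686 : Good (Phi V5.P V5.D (-1) 1) ⟨4, 10, 3, 0, 3, 6, 3, 4, 5, 3⟩ :=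
  leafX_sound T5.ok_mp T5.Ymp.bz_eq (w := 233) (c := ⟨⟨.negSucc 1997, .negSucc 649, .negSucc 422, .ofNat 395, .ofNat 136, .negSucc 342⟩, ⟨.ofNat 123, .ofNat 151, .negSucc 177, .negSucc 78, .negSucc 9, .ofNat 57⟩, ⟨.ofNat 1125, .ofNat 511, .ofNat 335, .negSucc 335, .negSucc 137, .ofNat 216⟩, ⟨.negSucc 4000, .negSucc 941, .negSucc 667, .ofNat 680, .ofNat 242, .negSucc 624⟩, ⟨.negSucc 1433, .ofNat 50, .ofNat 120, .negSucc 276, .ofNat 80, .ofNat 208⟩, .ofNat 409, .ofNat 112, .ofNat 0, .ofNat 112, .ofNat 1243, .ofNat 0, .ofNat 481, .negSucc 79, .negSucc 1186, .ofNat 0, .ofNat 128, .ofNat 208, .ofNat 0, .ofNat 0, .ofNat 1383, .ofNat 3437, .ofNat 0, .ofNat 0, .ofNat 0, .ofNat 0, .ofNat 0, .ofNat 0, .ofNat 0, .ofNat 0, .ofNat 0, .ofNat 0, .ofNat 0, .ofNat 0, .ofNat 0, .ofNat 0, .ofNat 0, .ofNat 0⟩)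
    (by decide +kernel)
theorem L01687 : Good (Phi V5.P V5.D (-1) 1) ⟨4, 10, 3, 0, 3, 7, 3, 4, 5, 3⟩ :=
  leafX_sound T5.ok_mp T5.Ymp.bz_eq (w := 233) (c := ⟨⟨.negSucc 2111, .negSucc 228, .negSucc 237, .ofNat 349, .ofNat 325, .negSucc 90⟩, ⟨.ofNat 138, .ofNat 61, .negSucc 184, .negSucc 38, .negSucc 47, .ofNat 0⟩, ⟨.ofNat 1246, .ofNat 163, .ofNat 131, .negSucc 371, .negSucc 276, .negSucc 5⟩, ⟨.negSucc 4193, .negSucc 249, .negSucc 321, .ofNat 632, .ofNat 588, .negSucc 183⟩, ⟨.negSucc 1423, .negSucc 71, .ofNat 105, .negSucc 85, .negSucc 143, .negSucc 59⟩, .ofNat 468, .ofNat 179, .ofNat 0, .ofNat 179, .ofNat 1925, .ofNat 0, .ofNat 445, .negSucc 78, .negSucc 749, .ofNat 0, .ofNat 128, .ofNat 122, .ofNat 0, .ofNat 0, .ofNat 919, .ofNat 2516, .ofNat 0, .ofNat 0, .ofNat 0, .ofNat 0, .ofNat 0, .ofNat 0, .ofNat 0, .ofNat 0, .ofNat 0, .ofNat 0, .ofNat 12469540889391754374467520143437685321629696,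 .ofNat 0, .ofNat 0, .ofNat 0, .ofNat 40360605047238118373986576484376584317304832, .ofNat 0⟩)
    (by decide +kernel)
theorem L01688 : Good (Phi V5.P V5.D (-1) 1) ⟨4, 10, 3, 0, 3, 6, 3, 5, 5, 2⟩ :=
  leafX_sound T5.ok_mp T5.Ymp.bz_eq (w := 232) (c := ⟨⟨.negSucc 900, .negSucc 536, .negSucc 291, .ofNat 368, .negSucc 255, .negSucc 964⟩, ⟨.ofNat 3, .ofNat 100, .negSucc 161, .negSucc 74, .ofNat 43, .ofNat 124⟩, ⟨.ofNat 371, .ofNat 402, .ofNat 178, .negSucc 298, .ofNat 176, .ofNat 659⟩, ⟨.negSucc 1912, .negSucc 822, .negSucc 454, .ofNat 642, .negSucc 480, .negSucc 1777⟩, ⟨.negSucc 1554, .ofNat 22, .ofNat 53, .negSucc 272, .ofNat 221, .ofNat 244⟩, .ofNat 410, .ofNat 100, .ofNat 0, .ofNat 100, .ofNat 1261, .ofNat 0, .ofNat 357, .negSucc 40, .negSucc 1219, .ofNat 0, .ofNat 128, .ofNat 182, .ofNat 0, .ofNat 0, .ofNat 1268, .ofNat 1538, .ofNat 0, .ofNat 0,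 .ofNat 0, .ofNat 0, .ofNat 0, .ofNat 0, .ofNat 0, .ofNat 0, .ofNat 0, .ofNat 0, .ofNat 0, .ofNat 0, .ofNat 0, .ofNat 0, .ofNat 0, .ofNat 0⟩)
    (by decide +kernel)
theorem L01689 : Good (Phi V5.P V5.D (-1) 1) ⟨4, 10, 3, 0, 3, 7, 4, 10, 5, 2⟩ :=
  leafX_sound T5.ok_mp T5.Ymp.bz_eq (w := 236) (c := ⟨⟨.negSucc 1019, .negSucc 151, .negSucc 261, .negSucc 84, .ofNat 9, .negSucc 484⟩, ⟨.ofNat 12, .ofNat 18, .negSucc 146, .ofNat 21, .negSucc 4, .ofNat 33⟩, ⟨.ofNat 541, .ofNat 93, .ofNat 102, .ofNat 18, .negSucc 35, .ofNat 222⟩, ⟨.negSucc 2138, .negSucc 186, .negSucc 371, .negSucc 149, .ofNat 0, .negSucc 912⟩, ⟨.negSucc 1366, .negSucc 52, .negSucc 39, .negSucc 42, .negSucc 68, .negSucc 188⟩, .ofNat 466, .ofNat 175, .ofNat 0, .ofNat 175, .ofNat 1879, .ofNat 0, .ofNat 342, .negSucc 54, .negSucc 1047, .ofNat 0, .ofNat 128, .ofNat 162, .ofNat 0, .ofNat 0, .ofNat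 1085, .ofNat 2486, .ofNat 0, .ofNat 0, .ofNat 0, .ofNat 0, .ofNat 0, .ofNat 0, .ofNat 0, .ofNat 0, .ofNat 0, .ofNat 0, .ofNat 27153324605755173918716806281013660542304256, .ofNat 0, .ofNat 0, .ofNat 0, .ofNat 554241338471098553363713184999426999992713216, .ofNat 0⟩)
    (by decide +kernel)
theorem L01690 : Good (Phi V5.P V5.D (-1) 1) ⟨4, 10, 3, 0, 3, 7, 4, 11, 5, 2⟩ :=
  leafX_sound T5.ok_mp T5.Ymp.bz_eq (w := 236) (c := ⟨⟨.negSucc 1242, .negSucc 197, .negSucc 141, .ofNat 148, .ofNat 55, .negSucc 406⟩, ⟨.ofNat 41, .ofNat 28, .negSucc 165, .negSucc 30, .negSucc 7, .ofNat 41⟩, ⟨.ofNat 681, .ofNat 120, .ofNat 19, .negSucc 151, .negSucc 67, .ofNat 162⟩, ⟨.negSucc 2556, .negSucc 255, .negSucc 150, .ofNat 254, .ofNat 95, .negSucc 759⟩, ⟨.negSucc 1512, .ofNat 41, .negSucc 20, .negSucc 107, .ofNat 12, .negSucc 117⟩, .ofNat 471, .ofNat 200, .ofNat 0, .ofNat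 200, .ofNat 1976, .ofNat 0, .ofNat 458, .negSucc 61, .negSucc 1271, .ofNat 0, .ofNat 128, .ofNat 201, .ofNat 0, .ofNat 0, .ofNat 1318, .ofNat 2016, .ofNat 0, .ofNat 0, .ofNat 0, .ofNat 0, .ofNat 0, .ofNat 0, .ofNat 0, .ofNat 0, .ofNat 0, .ofNat 0, .ofNat 44650748579352728151095381217139658906927104, .ofNat 0, .ofNat 0, .ofNat 0, .ofNat 0, .ofNat 0⟩)
    (by decide +kernel)
theorem L01691 : Good (Phi V5.P V5.D (-1) 1) ⟨4, 10, 3, 0, 3, 6, 3, 5, 5, 3⟩ :=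
  leafX_sound T5.ok_mp T5.Ymp.bz_eq (w := 233) (c := ⟨⟨.negSucc 2162, .negSucc 535, .negSucc 327, .ofNat 485, .ofNat 135, .negSucc 89⟩, ⟨.ofNat 148, .ofNat 132, .negSucc 175, .negSucc 83, .ofNat 8, .ofNat 20⟩, ⟨.ofNat 1259, .ofNat 406, .ofNat 254, .negSucc 438, .negSucc 128, .ofNat 6⟩, ⟨.negSucc 4288, .negSucc 745, .negSucc 513, .ofNat 862, .ofNat 264, .negSucc 164⟩, ⟨.negSucc 1210, .ofNat 42, .ofNat 109, .negSucc 361, .ofNat 158, .ofNat 106⟩, .ofNat 467, .ofNat 172, .ofNat 0, .ofNat 172, .ofNat 1921, .ofNat 0, .ofNat 297, .negSucc 73, .negSucc 650, .ofNat 0, .ofNat 128, .ofNat 101, .ofNat 0, .ofNat 0, .ofNat 779, .ofNat 2250, .ofNat 0, .ofNat 0, .ofNat 0, .ofNat 0, .ofNat 0, .ofNat 0, .ofNat 0, .ofNat 0, .ofNat 0, .ofNat 0, .ofNat 0, .ofNat 0, .ofNat 0, .ofNat 0, .ofNat 23945605888393896780736454881422080353501184, .ofNat 0⟩)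
    (by decide +kernel)
theorem L01692 : Good (Phi V5.P V5.D (-1) 1) ⟨4, 10, 3, 0, 3, 7, 3, 5, 5, 3⟩ :=
  leafX_sound T5.ok_mp T5.Ymp.bz_eq (w := 233) (c := ⟨⟨.negSucc 2035, .negSucc 109, .negSucc 158, .ofNat 477, .ofNat 343, .ofNat 23⟩, ⟨.ofNat 124, .ofNat 28, .negSucc 177, .negSucc 79, .negSucc 24, .ofNat 4⟩, ⟨.ofNat 1131, .ofNat 56, .ofNat 61, .negSucc 395, .negSucc 278, .negSucc 74⟩, ⟨.negSucc 4041, .negSucc 68, .negSucc 177, .ofNat 854, .ofNat 633, .ofNat 46⟩, ⟨.negSucc 1484, .negSucc 65, .negSucc 40, .negSucc 287, .ofNat 102, .ofNat 83⟩, .ofNat 468, .ofNat 181, .ofNat 0, .ofNat 181, .ofNat 1933, .ofNat 0, .ofNat 545, .negSucc 68, .negSucc 718, .ofNat 0, .ofNat 128, .ofNat 118, .ofNat 0, .ofNat 0, .ofNat 877, .ofNat 2562, .ofNat 0, .ofNat 0, .ofNat 0, .ofNat 0, .ofNat 0, .ofNat 0, .ofNat 0, .ofNat 0, .ofNat 0, .ofNat 0, .ofNat 0, .ofNat 0, .ofNat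 0, .ofNat 0, .ofNat 52639748645591701765748151143368364725895168, .ofNat 0⟩)
    (by decide +kernel)
theorem L01693 : Good (Phi V5.P V5.D (-1) 1) ⟨5, 22, 4, 0, 3, 6, 2, 2, 5, 2⟩ :=
  leafX_sound T5.ok_mp T5.Ymp.bz_eq (w := 236) (c := ⟨⟨.negSucc 942, .negSucc 381, .negSucc 191, .ofNat 608, .negSucc 520, .negSucc 1445⟩, ⟨.negSucc 34, .ofNat 81, .negSucc 66, .negSucc 141, .ofNat 124, .ofNat 270⟩, ⟨.ofNat 433, .ofNat 327, .ofNat 144, .negSucc 489, .ofNat 314, .ofNat 1027⟩, ⟨.negSucc 1992, .negSucc 572, .negSucc 275, .ofNat 1016, .negSucc 863, .negSucc 2494⟩, ⟨.negSucc 1804, .ofNat 73, .ofNat 19, .negSucc 331, .ofNat 378, .ofNat 415⟩, .ofNat 495, .ofNat 297, .ofNat 0, .ofNat 297, .ofNat 1922, .ofNat 0, .ofNat 414, .negSucc 108, .negSucc 1638, .ofNat 0, .ofNat 128, .ofNat 337, .ofNat 0, .ofNat 0, .ofNat 1579, .ofNat 1540, .ofNat 0, .ofNat 0, .ofNat 8384968781463616087411182457268876607488,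 .ofNat 0, .ofNat 0, .ofNat 0, .ofNat 0, .ofNat 0, .ofNat 0, .ofNat 0, .ofNat 2896034596882377084218919808609917387931648, .ofNat 0, .ofNat 0, .ofNat 0, .ofNat 5593764998907775634466834987800669173317632, .ofNat 0⟩)
    (by decide +kernel)
theorem L01694 : Good (Phi V5.P V5.D (-1) 1) ⟨5, 22, 4, 0, 3, 7, 3, 4, 5, 2⟩ :=
  leafX_sound T5.ok_mp T5.Ymp.bz_eq (w := 239) (c := ⟨⟨.negSucc 1086, .negSucc 373, .negSucc 242, .negSucc 94, .ofNat 279, .negSucc 932⟩, ⟨.ofNat 12, .ofNat 85, .negSucc 51, .ofNat 50, .negSucc 75, .ofNat 136⟩, ⟨.ofNat 665, .ofNat 263, .ofNat 121, .negSucc 16, .negSucc 249, .ofNat 492⟩, ⟨.negSucc 2197, .negSucc 560, .negSucc 371, .negSucc 121, .ofNat 446, .negSucc 1668⟩, ⟨.negSucc 1560, .ofNat 149, .ofNat 74, .ofNat 359, .negSucc 283, .negSucc 63⟩, .ofNat 507, .ofNat 339, .ofNat 0, .ofNat 339, .ofNat 2109, .ofNat 0, .ofNat 319, .negSucc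 113, .negSucc 1331, .ofNat 0, .ofNat 128, .ofNat 273, .ofNat 0, .ofNat 0, .ofNat 1317, .ofNat 1333, .ofNat 0, .ofNat 0, .ofNat 0, .ofNat 0, .ofNat 0, .ofNat 0, .ofNat 9227358696601455734813601575197704663859200, .ofNat 0, .ofNat 0, .ofNat 0, .ofNat 17569991867710600230908757585864559572287488, .ofNat 0, .ofNat 0, .ofNat 0, .ofNat 0, .ofNat 0⟩)
    (by decide +kernel)
theorem L01695 : Good (Phi V5.P V5.D (-1) 1) ⟨5, 22, 4, 0, 3, 7, 3, 5, 5, 2⟩ :=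
  leafX_sound T5.ok_mp T5.Ymp.bz_eq (w := 240) (c := ⟨⟨.negSucc 1351, .negSucc 174, .negSucc 25, .ofNat 113, .ofNat 94, .negSucc 402⟩, ⟨.ofNat 53, .ofNat 26, .negSucc 90, .negSucc 13, .negSucc 19, .ofNat 39⟩, ⟨.ofNat 778, .ofNat 120, .negSucc 14, .negSucc 112, .negSucc 151, .ofNat 129⟩, ⟨.negSucc 2651, .negSucc 261, .ofNat 2, .ofNat 202, .ofNat 148, .negSucc 758⟩, ⟨.negSucc 1461, .negSucc 70, .negSucc 74, .negSucc 4, .negSucc 58, .negSucc 214⟩, .ofNat 485, .ofNat 288, .ofNat 0, .ofNat 288, .ofNat 1852, .ofNat 0, .ofNat 480, .negSucc 97, .negSucc 1510, .ofNat 0, .ofNat 128, .ofNat 310, .ofNat 0, .ofNat 0, .ofNat 1470, .ofNat 1953, .ofNat 0, .ofNat 0, .ofNat 123032613596415124596056272182333956685824, .ofNat 0, .ofNat 0, .ofNat 0, .ofNat 0, .ofNat 0, .ofNat 0, .ofNat 0, .ofNat 22781702761620535298679661373042288133931008, .ofNat 0, .ofNat 0, .ofNat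 0, .ofNat 59801240973237506004487499550010822767935488, .ofNat 0⟩)
    (by decide +kernel)
theorem L01696 : Good (Phi V5.P V5.D (-1) 1) ⟨5, 22, 4, 0, 2, 3, 3, 4, 5, 3⟩ :=
  leafX_sound T5.ok_mp T5.Ymp.bz_eq (w := 226) (c := ⟨⟨.negSucc 3239, .negSucc 192, .negSucc 173, .ofNat 1315, .ofNat 362, .negSucc 8⟩, ⟨.ofNat 403, .ofNat 65, .negSucc 81, .negSucc 290, .negSucc 67, .ofNat 1⟩, ⟨.ofNat 2153, .ofNat 120, .ofNat 104, .negSucc 1128, .negSucc 321, .negSucc 69⟩, ⟨.negSucc 5945, .negSucc 222, .negSucc 245, .ofNat 2216, .ofNat 623, .negSucc 26⟩, ⟨.negSucc 1144, .ofNat 18, .ofNat 76, .negSucc 628, .negSucc 53, .ofNat 26⟩, .ofNat 469, .ofNat 256, .ofNat 0, .ofNat 256, .ofNat 1688, .ofNat 0, .ofNat 236, .negSucc 120, .negSucc 800, .ofNat 0, .ofNat 128, .ofNat 176, .ofNat 0, .ofNat 0, .ofNat 911, .ofNat 1547, .ofNat 0, .ofNat 0, .ofNat 1918700586714072398683238080471629824,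 .ofNat 0, .ofNat 0, .ofNat 0, .ofNat 298088669822871423904150169498891059200, .ofNat 0, .ofNat 0, .ofNat 0, .ofNat 0, .ofNat 0, .ofNat 0, .ofNat 0, .ofNat 0, .ofNat 0⟩)
    (by decide +kernel)
theorem L01697 : Good (Phi V5.P V5.D (-1) 1) ⟨5, 22, 4, 0, 2, 3, 3, 5, 5, 3⟩ :=
  leafX_sound T5.ok_mp T5.Ymp.bz_eq (w := 227) (c := ⟨⟨.negSucc 3044, .negSucc 188, .negSucc 208, .ofNat 1505, .ofNat 376, .ofNat 39⟩, ⟨.ofNat 368, .ofNat 57, .negSucc 72, .negSucc 335, .negSucc 53, .ofNat 9⟩, ⟨.ofNat 1954, .ofNat 139, .ofNat 157, .negSucc 1255, .negSucc 331, .negSucc 120⟩, ⟨.negSucc 5611, .negSucc 216, .negSucc 307, .ofNat 2536, .ofNat 669, .ofNat 83⟩, ⟨.negSucc 1133, .negSucc 16, .ofNat 82, .negSucc 764, .ofNat 90, .ofNat 104⟩, .ofNat 493, .ofNat 306, .ofNat 0, .ofNat 306, .ofNat 1953, .ofNat 0, .ofNat 479, .negSucc 115, .negSucc 780, .ofNat 0, .ofNat 128, .ofNat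 167, .ofNat 0, .ofNat 0, .ofNat 861, .ofNat 2041, .ofNat 0, .ofNat 0, .ofNat 0, .ofNat 0, .ofNat 0, .ofNat 0, .ofNat 2067207162803483635418268043293220667392, .ofNat 0, .ofNat 0, .ofNat 0, .ofNat 723258081265243998472640405476330176512, .ofNat 0, .ofNat 0, .ofNat 0, .ofNat 2192857306433242686421237885053207314432, .ofNat 0⟩)
    (by decide +kernel)
theorem L01698 : Good (Phi V5.P V5.D (-1) 1) ⟨5, 22, 4, 1, 2, 3, 2, 2, 4, 1⟩ :=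
  out_sound (S := T5.ds_mp) T5.ok_mp (w := 59) (j := 3) (by decide +kernel)
theorem L01699 : Good (Phi V5.P V5.D (-1) 1) ⟨5, 23, 3, 0, 2, 3, 2, 2, 4, 1⟩ :=
  out_sound (S := T5.ds_mp) T5.ok_mp (w := 57) (j := 3) (by decide +kernel)
theorem L01700 : Good (Phi V5.P V5.D (-1) 1) ⟨2, 3, 3, 0, 2, 3, 2, 2, 4, 1⟩ :=
  out_sound (S := T5.ds_mp) T5.ok_mp (w := 39) (j := 3) (by decide +kernel)
theorem L01701 : Good (Phi V5.P V5.D (-1) 1) ⟨3, 4, 3, 0, 2, 3, 3, 4, 4, 2⟩ :=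
  leafX_sound T5.ok_mp T5.Ymp.bz_eq (w := 210) (c := ⟨⟨.negSucc 2133, .negSucc 300, .negSucc 76, .ofNat 570, .ofNat 221, .ofNat 207⟩, ⟨.ofNat 9, .ofNat 123, .negSucc 189, .negSucc 43, .ofNat 2, .ofNat 9⟩, ⟨.ofNat 1211, .ofNat 216, .ofNat 41, .negSucc 539, .negSucc 203, .negSucc 175⟩, ⟨.negSucc 4643, .negSucc 217, .negSucc 65, .ofNat 1134, .ofNat 450, .ofNat 402⟩, ⟨.negSucc 1087, .negSucc 165, .negSucc 38, .negSucc 467, .ofNat 113, .ofNat 211⟩, .ofNat 439, .ofNat 21, .ofNat 0, .ofNat 21, .ofNat 1533, .ofNat 0, .ofNat 495, .negSucc 16, .negSucc 365, .ofNat 0, .ofNat 128, .ofNat 40, .ofNat 0, .ofNat 0, .ofNat 772, .ofNat 2273, .ofNat 0, .ofNat 0, .ofNat 0, .ofNat 0, .ofNat 0, .ofNat 0, .ofNat 0, .ofNat 0, .ofNat 0, .ofNat 0, .ofNat 0, .ofNat 0, .ofNat 0, .ofNat 0, .ofNat 0, .ofNat 0⟩)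
    (by decide +kernel)
theorem L01702 : Good (Phi V5.P V5.D (-1) 1) ⟨3, 4, 3, 0, 2, 3, 3, 5, 4, 2⟩ :=
  leafX_sound T5.ok_mp T5.Ymp.bz_eq (w := 209) (c := ⟨⟨.negSucc 2002, .negSucc 169, .negSucc 32, .ofNat 618, .ofNat 200, .ofNat 205⟩, ⟨.ofNat 5, .ofNat 114, .negSucc 172, .negSucc 51, .ofNat 16, .ofNat 18⟩, ⟨.ofNat 1085, .ofNat 72, .ofNat 6, .negSucc 505, .negSucc 164, .negSucc 196⟩, ⟨.negSucc 4349, .ofNat 28, .ofNat 5, .ofNat 1218, .ofNat 398, .ofNat 409⟩, ⟨.negSucc 1160, .negSucc 168, .negSucc 79, .negSucc 266, .ofNat 348, .ofNat 416⟩, .ofNat 501, .ofNat 67, .ofNat 0, .ofNat 67, .ofNat 2710, .ofNat 0, .ofNat 426, .negSucc 25, .negSucc 250, .ofNat 0, .ofNat 128, .ofNat 23, .ofNat 0, .ofNat 0, .ofNat 570, .ofNat 1421, .ofNat 0, .ofNat 0, .ofNat 0, .ofNat 0, .ofNat 0, .ofNat 0, .ofNat 0, .ofNat 0, .ofNat 0, .ofNat 0, .ofNat 0, .ofNat 0, .ofNat 0,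 .ofNat 0, .ofNat 0, .ofNat 0⟩)
    (by decide +kernel)
theorem L01703 : Good (Phi V5.P V5.D (-1) 1) ⟨4, 10, 3, 0, 2, 3, 3, 4, 5, 4⟩ :=
  leafX_sound T5.ok_mp T5.Ymp.bz_eq (w := 219) (c := ⟨⟨.negSucc 2913, .negSucc 159, .negSucc 124, .ofNat 1042, .ofNat 306, .ofNat 240⟩, ⟨.ofNat 265, .ofNat 73, .negSucc 221, .negSucc 185, .negSucc 28, .negSucc 23⟩, ⟨.ofNat 1838, .ofNat 76, .ofNat 86, .negSucc 930, .negSucc 276, .negSucc 183⟩, ⟨.negSucc 5608, .negSucc 129, .negSucc 177, .ofNat 1846, .ofNat 569, .ofNat 445⟩, ⟨.negSucc 1122, .negSucc 56, .ofNat 12, .negSucc 627, .ofNat 107, .ofNat 87⟩, .ofNat 409, .ofNat 100, .ofNat 0, .ofNat 100, .ofNat 1245, .ofNat 0, .ofNat 335, .negSucc 69, .negSucc 554, .ofNat 0, .ofNat 128, .ofNat 102, .ofNat 0, .ofNat 0, .ofNat 787, .ofNat 1912, .ofNat 0, .ofNat 0, .ofNat 0, .ofNat 0, .ofNat 0, .ofNat 0, .ofNat 773926909360429981639833144167478853632,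 .ofNat 0, .ofNat 0, .ofNat 0, .ofNat 0, .ofNat 0, .ofNat 0, .ofNat 0, .ofNat 0, .ofNat 0⟩)
    (by decide +kernel)
theorem L01704 : Good (Phi V5.P V5.D (-1) 1) ⟨4, 11, 3, 0, 2, 3, 3, 4, 5, 4⟩ :=
  leafX_sound T5.ok_mp T5.Ymp.bz_eq (w := 219) (c := ⟨⟨.negSucc 3402, .negSucc 197, .negSucc 91, .ofNat 1433, .ofNat 397, .ofNat 278⟩, ⟨.ofNat 441, .ofNat 84, .negSucc 225, .negSucc 333, .negSucc 62, .negSucc 36⟩, ⟨.ofNat 2217, .ofNat 110, .ofNat 37, .negSucc 1228, .negSucc 365, .negSucc 244⟩, ⟨.negSucc 6224, .negSucc 151, .negSucc 93, .ofNat 2404, .ofNat 698, .ofNat 502⟩, ⟨.negSucc 1028, .negSucc 27, .negSucc 88, .negSucc 792, .negSucc 0, .ofNat 69⟩, .ofNat 443, .ofNat 210, .ofNat 0, .ofNat 210, .ofNat 1438, .ofNat 0, .ofNat 232, .negSucc 111, .negSucc 305, .ofNat 0, .ofNat 128, .ofNat 72, .ofNat 0, .ofNat 0, .ofNat 424, .ofNat 1535, .ofNat 0, .ofNat 0,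 .ofNat 13049883578885252241654947612278652928, .ofNat 0, .ofNat 0, .ofNat 0, .ofNat 675763207151509306392392463622638403584, .ofNat 0, .ofNat 0, .ofNat 0, .ofNat 1543761781082462087073942873399512530944, .ofNat 0, .ofNat 0, .ofNat 0, .ofNat 2166544055677418583382180849081561120768, .ofNat 0⟩)
    (by decide +kernel)
theorem L01705 : Good (Phi V5.P V5.D (-1) 1) ⟨3, 5, 3, 0, 2, 3, 3, 4, 5, 5⟩ :=
  leafX_sound T5.ok_mp T5.Ymp.bz_eq (w := 214) (c := ⟨⟨.negSucc 2711, .negSucc 296, .negSucc 89, .ofNat 1086, .ofNat 308, .ofNat 287⟩, ⟨.ofNat 252, .ofNat 131, .negSucc 211, .negSucc 206, .negSucc 23, .negSucc 32⟩, ⟨.ofNat 1689, .ofNat 139, .ofNat 76, .negSucc 978, .negSucc 295, .negSucc 236⟩, ⟨.negSucc 5226, .negSucc 189, .negSucc 93, .ofNat 1900, .ofNat 569, .ofNat 526⟩, ⟨.negSucc 1042, .negSucc 153, .negSucc 44, .negSucc 634, .ofNat 170, .ofNat 121⟩, .ofNat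 408, .ofNat 118, .ofNat 0, .ofNat 118, .ofNat 1212, .ofNat 0, .ofNat 248, .negSucc 72, .negSucc 223, .ofNat 0, .ofNat 128, .ofNat 48, .ofNat 0, .ofNat 0, .ofNat 451, .ofNat 1141, .ofNat 0, .ofNat 0, .ofNat 19694959387046347265565424110413021184, .ofNat 0, .ofNat 0, .ofNat 0, .ofNat 1067924708942786586100067903140903518208, .ofNat 0, .ofNat 0, .ofNat 0, .ofNat 1856812423570192845284713938143164760064, .ofNat 0, .ofNat 0, .ofNat 0, .ofNat 4720322678154486199027889780337017880576, .ofNat 0⟩)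
    (by decide +kernel)
theorem L01706 : Good (Phi V5.P V5.D (-1) 1) ⟨3, 5, 3, 0, 3, 6, 3, 5, 5, 4⟩ :=
  leafX_sound T5.ok_mp T5.Ymp.bz_eq (w := 229) (c := ⟨⟨.negSucc 2635, .negSucc 615, .negSucc 117, .ofNat 645, .ofNat 292, .ofNat 296⟩, ⟨.ofNat 234, .ofNat 216, .negSucc 209, .negSucc 132, .negSucc 7, .negSucc 25⟩, ⟨.ofNat 1592, .ofNat 438, .ofNat 101, .negSucc 591, .negSucc 274, .negSucc 275⟩, ⟨.negSucc 5111, .negSucc 670, .negSucc 168, .ofNat 1106, .ofNat 566, .ofNat 552⟩, ⟨.negSucc 1086, .negSucc 18, .ofNat 91, .negSucc 347, .ofNat 248, .ofNat 124⟩, .ofNat 408, .ofNat 121, .ofNat 0, .ofNat 121, .ofNat 1217, .ofNat 0, .ofNat 245, .negSucc 74, .negSucc 364, .ofNat 0, .ofNat 128, .ofNat 71, .ofNat 0, .ofNat 0, .ofNat 506, .ofNat 1238, .ofNat 0, .ofNat 0, .ofNat 1118603530126487145749493278576617910697984, .ofNat 0, .ofNat 0, .ofNat 0, .ofNat 34629775994745753925272164961082490346274816,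 .ofNat 0, .ofNat 0, .ofNat 0, .ofNat 98474634266080080738180289462296006988136448, .ofNat 0, .ofNat 0, .ofNat 0, .ofNat 105003139152326311115703471447796923867594752, .ofNat 0⟩)
    (by decide +kernel)
theorem L01707 : Good (Phi V5.P V5.D (-1) 1) ⟨3, 5, 3, 0, 3, 7, 3, 5, 5, 4⟩ :=
  leafX_sound T5.ok_mp T5.Ymp.bz_eq (w := 228) (c := ⟨⟨.negSucc 2157, .negSucc 10, .negSucc 52, .ofNat 605, .ofNat 382, .ofNat 210⟩, ⟨.ofNat 138, .ofNat 22, .negSucc 177, .negSucc 104, .negSucc 12, .negSucc 1⟩, ⟨.ofNat 1136, .negSucc 55, .ofNat 2, .negSucc 440, .negSucc 302, .negSucc 190⟩, ⟨.negSucc 4244, .ofNat 213, .negSucc 1, .ofNat 1071, .ofNat 721, .ofNat 410⟩, ⟨.negSucc 1440, .negSucc 209, .negSucc 79, .negSucc 314, .ofNat 274, .ofNat 184⟩, .ofNat 465, .ofNat 191, .ofNat 0, .ofNat 191, .ofNat 1806, .ofNat 0, .ofNat 260, .negSucc 77, .negSucc 375, .ofNat 0, .ofNat 128,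 .ofNat 73, .ofNat 0, .ofNat 0, .ofNat 576, .ofNat 1321, .ofNat 0, .ofNat 0, .ofNat 0, .ofNat 0, .ofNat 0, .ofNat 0, .ofNat 23493642001274771964521992419823783786840064, .ofNat 0, .ofNat 0, .ofNat 0, .ofNat 94429888341739891258477471824645569520861184, .ofNat 0, .ofNat 0, .ofNat 0, .ofNat 130301959563471748759296238511905439651725312, .ofNat 0⟩)
    (by decide +kernel)
theorem L01708 : Good (Phi V5.P V5.D (-1) 1) ⟨3, 5, 3, 0, 2, 3, 3, 5, 5, 5⟩ :=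
  leafX_sound T5.ok_mp T5.Ymp.bz_eq (w := 214) (c := ⟨⟨.negSucc 2525, .negSucc 124, .ofNat 8, .ofNat 1106, .ofNat 357, .ofNat 259⟩, ⟨.ofNat 224, .ofNat 118, .negSucc 183, .negSucc 184, .negSucc 15, .negSucc 15⟩, ⟨.ofNat 1432, .negSucc 4, .negSucc 30, .negSucc 864, .negSucc 303, .negSucc 221⟩, ⟨.negSucc 4870, .ofNat 101, .ofNat 59, .ofNat 1979, .ofNat 686, .ofNat 493⟩, ⟨.negSucc 1016, .negSucc 148, .negSucc 72, .negSucc 512, .ofNat 388, .ofNat 246⟩, .ofNat 409, .ofNat 120, .ofNat 0, .ofNat 120, .ofNat 1227, .ofNat 0, .ofNat 298, .negSucc 67, .negSucc 273, .ofNat 0, .ofNat 128, .ofNat 59, .ofNat 0, .ofNat 0, .ofNat 590, .ofNat 880, .ofNat 0, .ofNat 0, .ofNat 0, .ofNat 0, .ofNat 0, .ofNat 0, .ofNat 1330735230969522033898273014153912254464, .ofNat 0, .ofNat 0, .ofNat 0, .ofNat 1806071316518613687204949928333090488320, .ofNat 0, .ofNat 0, .ofNat 0, .ofNat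 7264991551166949515612816537101688373248, .ofNat 0⟩)
    (by decide +kernel)
theorem L01709 : Good (Phi V5.P V5.D (-1) 1) ⟨3, 4, 3, 0, 2, 3, 3, 4, 4, 3⟩ :=
  leafX_sound T5.ok_mp T5.Ymp.bz_eq (w := 209) (c := ⟨⟨.negSucc 1961, .negSucc 142, .negSucc 43, .ofNat 570, .ofNat 148, .ofNat 261⟩, ⟨.ofNat 6, .ofNat 112, .negSucc 165, .negSucc 32, .ofNat 13, .ofNat 15⟩, ⟨.ofNat 1103, .ofNat 23, .ofNat 32, .negSucc 529, .negSucc 156, .negSucc 207⟩, ⟨.negSucc 4304, .ofNat 75, .negSucc 6, .ofNat 1159, .ofNat 323, .ofNat 559⟩, ⟨.negSucc 1037, .negSucc 128, .negSucc 67, .negSucc 234, .ofNat 286, .ofNat 368⟩, .ofNat 440, .ofNat 33, .ofNat 0, .ofNat 33, .ofNat 1559, .ofNat 0, .ofNat 305, .negSucc 24, .negSucc 100, .ofNat 0, .ofNat 128, .ofNat 14, .ofNat 0, .ofNat 0, .ofNat 508, .ofNat 1445, .ofNat 0, .ofNat 0, .ofNat 0, .ofNat 0, .ofNat 0, .ofNat 0, .ofNat 0, .ofNat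 0, .ofNat 0, .ofNat 0, .ofNat 0, .ofNat 0, .ofNat 0, .ofNat 55593219093264283745368115270819170484224, .ofNat 0, .ofNat 0⟩)
    (by decide +kernel)
theorem L01710 : Good (Phi V5.P V5.D (-1) 1) ⟨3, 4, 3, 0, 2, 3, 3, 5, 4, 3⟩ :=
  leafX_sound T5.ok_mp T5.Ymp.bz_eq (w := 209) (c := ⟨⟨.negSucc 1852, .negSucc 83, .negSucc 11, .ofNat 608, .ofNat 206, .ofNat 239⟩, ⟨.ofNat 12, .ofNat 112, .negSucc 153, .negSucc 28, .ofNat 20, .ofNat 19⟩, ⟨.ofNat 957, .negSucc 15, .ofNat 3, .negSucc 486, .negSucc 197, .negSucc 227⟩, ⟨.negSucc 4047, .ofNat 183, .ofNat 30, .ofNat 1239, .ofNat 430, .ofNat 510⟩, ⟨.negSucc 818, .negSucc 59, .negSucc 57, .negSucc 135, .ofNat 411, .ofNat 478⟩, .ofNat 439, .ofNat 30, .ofNat 0, .ofNat 30, .ofNat 1541, .ofNat 0, .ofNat 428, .negSucc 20, .negSucc 127, .ofNat 0, .ofNat 128, .ofNat 17, .ofNat 0, .ofNat 0, .ofNat 657, .ofNat 915, .ofNat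 0, .ofNat 0, .ofNat 0, .ofNat 0, .ofNat 0, .ofNat 0, .ofNat 0, .ofNat 0, .ofNat 0, .ofNat 102195720170133845560323355683891309445120, .ofNat 0, .ofNat 0, .ofNat 0, .ofNat 207569163859596723642411468600849404526592, .ofNat 0, .ofNat 0⟩)
    (by decide +kernel)
theorem L01711 : Good (Phi V5.P V5.D (-1) 1) ⟨3, 5, 3, 0, 3, 6, 2, 2, 4, 3⟩ :=
  leafX_sound T5.ok_mp T5.Ymp.bz_eq (w := 219) (c := ⟨⟨.negSucc 2335, .negSucc 294, .negSucc 72, .ofNat 462, .ofNat 427, .ofNat 424⟩, ⟨.ofNat 171, .ofNat 162, .negSucc 168, .negSucc 84, .ofNat 37, .negSucc 15⟩, ⟨.ofNat 1392, .ofNat 167, .ofNat 101, .negSucc 481, .negSucc 534, .negSucc 380⟩, ⟨.negSucc 4578, .negSucc 123, .negSucc 54, .ofNat 810, .ofNat 877, .ofNat 825⟩, ⟨.negSucc 1096, .negSucc 13, .ofNat 45, .negSucc 274, .ofNat 677, .ofNat 384⟩, .ofNat 408, .ofNat 117, .ofNat 0, .ofNat 117, .ofNat 1215, .ofNat 0,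 .ofNat 370, .negSucc 69, .negSucc 170, .ofNat 0, .ofNat 128, .ofNat 38, .ofNat 0, .ofNat 0, .ofNat 616, .ofNat 839, .ofNat 0, .ofNat 0, .ofNat 0, .ofNat 0, .ofNat 0, .ofNat 0, .ofNat 0, .ofNat 0, .ofNat 0, .ofNat 0, .ofNat 35113807499619573630194265534335304073216, .ofNat 0, .ofNat 0, .ofNat 0, .ofNat 0, .ofNat 0⟩)
    (by decide +kernel)
theorem L01712 : Good (Phi V5.P V5.D (-1) 1) ⟨3, 5, 3, 0, 3, 7, 2, 2, 4, 3⟩ :=
  leafX_sound T5.ok_mp T5.Ymp.bz_eq (w := 218) (c := ⟨⟨.negSucc 1922, .negSucc 26, .negSucc 38, .ofNat 422, .ofNat 510, .ofNat 342⟩, ⟨.ofNat 106, .ofNat 37, .negSucc 171, .negSucc 56, .ofNat 40, .ofNat 17⟩, ⟨.ofNat 953, .negSucc 41, .ofNat 34, .negSucc 368, .negSucc 451, .negSucc 315⟩, ⟨.negSucc 3807, .ofNat 194, .ofNat 15, .ofNat 765, .ofNat 1018, .ofNat 673⟩, ⟨.negSucc 1416, .negSucc 59, .ofNat 0, .negSucc 134, .ofNat 771, .ofNat 449⟩,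 .ofNat 477, .ofNat 222, .ofNat 0, .ofNat 222, .ofNat 1846, .ofNat 0, .ofNat 400, .negSucc 69, .negSucc 90, .ofNat 0, .ofNat 128, .ofNat 24, .ofNat 0, .ofNat 0, .ofNat 502, .ofNat 262, .ofNat 0, .ofNat 0, .ofNat 0, .ofNat 0, .ofNat 0, .ofNat 0, .ofNat 0, .ofNat 0, .ofNat 0, .ofNat 0, .ofNat 97032288231858465333182834371002917453824, .ofNat 0, .ofNat 0, .ofNat 109298012146853505191147567412588497311105024, .ofNat 57168645071674650348868368548611609329664, .ofNat 0⟩)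
    (by decide +kernel)
theorem L01713 : Good (Phi V5.P V5.D (-1) 1) ⟨2, 3, 3, 0, 2, 3, 2, 2, 3, 1⟩ :=
  out_sound (S := T5.ds_mp) T5.ok_mp (w := 39) (j := 3) (by decide +kernel)
theorem L01714 : Good (Phi V5.P V5.D (-1) 1) ⟨3, 4, 3, 0, 3, 6, 3, 6, 5, 0⟩ :=
  leafX_sound T5.ok_mp T5.Ymp.bz_eq (w := 227) (c := ⟨⟨.ofNat 462, .ofNat 154, .negSucc 0, .negSucc 41, .negSucc 697, .negSucc 654⟩, ⟨.negSucc 40, .negSucc 32, .negSucc 68, .ofNat 7, .ofNat 21, .ofNat 3⟩, ⟨.negSucc 324, .negSucc 196, .negSucc 118, .ofNat 130, .ofNat 450, .ofNat 306⟩, ⟨.ofNat 914, .ofNat 258, .ofNat 74, .negSucc 77, .negSucc 1441, .negSucc 1365⟩, ⟨.negSucc 751, .negSucc 355, .negSucc 243, .negSucc 56, .negSucc 41, .negSucc 245⟩, .ofNat 440, .ofNat 24, .ofNat 0, .ofNat 24, .ofNat 1540, .ofNat 0, .ofNat 277, .ofNat 61, .negSucc 428, .ofNat 0, .ofNat 128, .ofNat 34, .ofNat 0, .ofNat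 0, .ofNat 501, .ofNat 955, .ofNat 0, .ofNat 0, .ofNat 0, .ofNat 0, .ofNat 0, .ofNat 0, .ofNat 0, .ofNat 0, .ofNat 0, .ofNat 0, .ofNat 0, .ofNat 0, .ofNat 0, .ofNat 0, .ofNat 0, .ofNat 0⟩)
    (by decide +kernel)
theorem L01715 : Good (Phi V5.P V5.D (-1) 1) ⟨4, 10, 3, 0, 3, 6, 3, 6, 5, 0⟩ :=
  leafX_sound T5.ok_mp T5.Ymp.bz_eq (w := 231) (c := ⟨⟨.ofNat 951, .ofNat 376, .ofNat 51, .ofNat 57, .negSucc 1169, .negSucc 1098⟩, ⟨.negSucc 161, .negSucc 136, .negSucc 85, .negSucc 16, .ofNat 130, .ofNat 105⟩, ⟨.negSucc 809, .negSucc 397, .negSucc 197, .ofNat 68, .ofNat 833, .ofNat 734⟩, ⟨.ofNat 1654, .ofNat 583, .ofNat 193, .ofNat 98, .negSucc 2191, .negSucc 2062⟩, ⟨.negSucc 1150, .negSucc 188, .negSucc 296, .negSucc 174, .ofNat 67, .negSucc 66⟩, .ofNat 410, .ofNat 107, .ofNat 0, .ofNat 107, .ofNat 1255, .ofNat 0, .ofNat 216, .ofNat 9, .negSucc 689, .ofNat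 0, .ofNat 128, .ofNat 103, .ofNat 0, .ofNat 0, .ofNat 701, .ofNat 604, .ofNat 0, .ofNat 0, .ofNat 0, .ofNat 0, .ofNat 0, .ofNat 0, .ofNat 0, .ofNat 0, .ofNat 0, .ofNat 0, .ofNat 0, .ofNat 0, .ofNat 0, .ofNat 0, .ofNat 31552399742850163385597268593569845781463040, .ofNat 0⟩)
    (by decide +kernel)
theorem L01716 : Good (Phi V5.P V5.D (-1) 1) ⟨5, 22, 4, 0, 3, 6, 3, 6, 5, 0⟩ :=
  leafX_sound T5.ok_mp T5.Ymp.bz_eq (w := 240) (c := ⟨⟨.ofNat 1634, .ofNat 297, .ofNat 173, .ofNat 133, .negSucc 1540, .negSucc 1613⟩, ⟨.negSucc 418, .negSucc 102, .negSucc 74, .negSucc 32, .ofNat 269, .ofNat 260⟩, ⟨.negSucc 1477, .negSucc 290, .negSucc 248, .ofNat 24, .ofNat 1145, .ofNat 1181⟩, ⟨.ofNat 2658, .ofNat 460, .ofNat 331, .ofNat 221, .negSucc 2695, .negSucc 2853⟩, ⟨.negSucc 1455, .negSucc 72, .negSucc 217, .negSucc 55, .ofNat 154, .negSucc 18⟩, .ofNat 494, .ofNat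 306, .ofNat 0, .ofNat 306, .ofNat 1952, .ofNat 0, .ofNat 462, .negSucc 57, .negSucc 1094, .ofNat 0, .ofNat 128, .ofNat 221, .ofNat 0, .ofNat 0, .ofNat 1085, .ofNat 1173, .ofNat 0, .ofNat 0, .ofNat 286668666483596167648196140907970294710272, .ofNat 0, .ofNat 0, .ofNat 0, .ofNat 0, .ofNat 0, .ofNat 0, .ofNat 0, .ofNat 50042179615667590392761705880852047853518848, .ofNat 0, .ofNat 0, .ofNat 0, .ofNat 50193580132713797288243931138243298932555776, .ofNat 0⟩)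
    (by decide +kernel)
theorem L01717 : Good (Phi V5.P V5.D (-1) 1) ⟨5, 22, 4, 1, 3, 6, 3, 6, 5, 0⟩ :=
  out_sound (S := T5.ds_mp) T5.ok_mp (w := 59) (j := 3) (by decide +kernel)
theorem L01718 : Good (Phi V5.P V5.D (-1) 1) ⟨5, 23, 3, 0, 3, 6, 3, 6, 5, 0⟩ :=
  out_sound (S := T5.ds_mp) T5.ok_mp (w := 57) (j := 3) (by decide +kernel)
theorem L01719 : Good (Phi V5.P V5.D (-1) 1) ⟨3, 4, 3, 0, 3, 6, 3, 7, 5, 0⟩ :=
  leafX_sound T5.ok_mp T5.Ymp.bz_eq (w := 227) (c := ⟨⟨.negSucc 209, .negSucc 174, .negSucc 88, .negSucc 106, .negSucc 437, .negSucc 349⟩, ⟨.negSucc 31, .ofNat 21, .negSucc 96, .negSucc 3, .ofNat 24, .ofNat 5⟩, ⟨.ofNat 105, .ofNat 68, .negSucc 38, .ofNat 107, .ofNat 252, .ofNat 118⟩, ⟨.negSucc 563, .negSucc 259, .negSucc 75, .negSucc 218, .negSucc 904, .negSucc 729⟩, ⟨.negSucc 995, .negSucc 157, .negSucc 165, .negSucc 146, .ofNat 258, .negSucc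 29⟩, .ofNat 438, .ofNat 26, .ofNat 0, .ofNat 26, .ofNat 1525, .ofNat 0, .ofNat 357, .ofNat 69, .negSucc 576, .ofNat 0, .ofNat 128, .ofNat 50, .ofNat 0, .ofNat 0, .ofNat 668, .ofNat 1393, .ofNat 0, .ofNat 0, .ofNat 0, .ofNat 0, .ofNat 0, .ofNat 0, .ofNat 0, .ofNat 0, .ofNat 0, .ofNat 0, .ofNat 0, .ofNat 0, .ofNat 0, .ofNat 0, .ofNat 0, .ofNat 0⟩)
    (by decide +kernel)
theorem L01720 : Good (Phi V5.P V5.D (-1) 1) ⟨4, 10, 3, 0, 3, 6, 3, 7, 5, 0⟩ :=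
  leafX_sound T5.ok_mp T5.Ymp.bz_eq (w := 231) (c := ⟨⟨.negSucc 189, .negSucc 117, .negSucc 96, .negSucc 40, .negSucc 707, .negSucc 672⟩, ⟨.negSucc 60, .ofNat 5, .negSucc 118, .negSucc 17, .ofNat 106, .ofNat 78⟩, ⟨.ofNat 1, .ofNat 59, .negSucc 26, .ofNat 32, .ofNat 492, .ofNat 410⟩, ⟨.negSucc 547, .negSucc 166, .negSucc 96, .negSucc 99, .negSucc 1281, .negSucc 1239⟩, ⟨.negSucc 1226, .negSucc 57, .negSucc 44, .negSucc 232, .ofNat 309, .ofNat 46⟩, .ofNat 469, .ofNat 191, .ofNat 0, .ofNat 191, .ofNat 1943, .ofNat 0, .ofNat 307, .negSucc 2, .negSucc 1277, .ofNat 0, .ofNat 128, .ofNat 198, .ofNat 0, .ofNat 0, .ofNat 1345, .ofNat 907, .ofNat 0, .ofNat 0, .ofNat 0, .ofNat 0, .ofNat 0, .ofNat 0, .ofNat 0, .ofNat 0, .ofNat 0, .ofNat 0, .ofNat 0, .ofNat 0, .ofNat 0, .ofNat 10461083144615717935275645829244496607470157824, .ofNat 80560482970501855728100216904208125528113152,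 .ofNat 0⟩)
    (by decide +kernel)
theorem L01721 : Good (Phi V5.P V5.D (-1) 1) ⟨4, 11, 3, 0, 3, 6, 3, 7, 5, 0⟩ :=
  leafX_sound T5.ok_mp T5.Ymp.bz_eq (w := 232) (c := ⟨⟨.ofNat 61, .negSucc 537, .negSucc 223, .negSucc 40, .negSucc 1013, .negSucc 983⟩, ⟨.negSucc 159, .ofNat 61, .negSucc 93, .negSucc 14, .ofNat 204, .ofNat 177⟩, ⟨.negSucc 275, .ofNat 364, .ofNat 100, .ofNat 38, .ofNat 756, .ofNat 706⟩, ⟨.negSucc 140, .negSucc 882, .negSucc 298, .negSucc 101, .negSucc 1735, .negSucc 1712⟩, ⟨.negSucc 1376, .negSucc 155, .ofNat 30, .negSucc 204, .ofNat 372, .ofNat 176⟩, .ofNat 507, .ofNat 339, .ofNat 0, .ofNat 339, .ofNat 2103, .ofNat 0, .ofNat 288, .negSucc 40, .negSucc 1430, .ofNat 0, .ofNat 128, .ofNat 297, .ofNat 0, .ofNat 0, .ofNat 1442, .ofNat 1371, .ofNat 0, .ofNat 0, .ofNat 196428242814665836966121808641512748089344, .ofNat 0, .ofNat 0, .ofNat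 0, .ofNat 12353234171752736831377222625919454083547136, .ofNat 0, .ofNat 0, .ofNat 0, .ofNat 97546788300572466835043368484011828358152192, .ofNat 0, .ofNat 0, .ofNat 0, .ofNat 156374327107797828624631100172767347903299584, .ofNat 0⟩)
    (by decide +kernel)
theorem L01722 : Good (Phi V5.P V5.D (-1) 1) ⟨2, 3, 3, 0, 3, 6, 2, 3, 5, 0⟩ :=
  out_sound (S := T5.ds_mp) T5.ok_mp (w := 39) (j := 3) (by decide +kernel)
theorem L01723 : Good (Phi V5.P V5.D (-1) 1) ⟨3, 4, 3, 0, 3, 7, 3, 6, 6, 0⟩ :=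
  leafX_sound T5.ok_mp T5.Ymp.bz_eq (w := 232) (c := ⟨⟨.ofNat 297, .ofNat 11, .ofNat 7, .negSucc 550, .negSucc 554, .negSucc 228⟩, ⟨.negSucc 30, .negSucc 0, .negSucc 78, .ofNat 19, .negSucc 5, .negSucc 15⟩, ⟨.negSucc 46, .negSucc 14, .negSucc 138, .ofNat 419, .ofNat 229, .ofNat 37⟩, ⟨.ofNat 539, .ofNat 61, .ofNat 112, .negSucc 1127, .negSucc 1178, .negSucc 496⟩, ⟨.negSucc 589, .negSucc 208, .negSucc 288, .negSucc 12, .negSucc 366, .negSucc 255⟩, .ofNat 439, .ofNat 28, .ofNat 0, .ofNat 28, .ofNat 1564, .ofNat 0, .ofNat 428, .ofNat 81, .negSucc 819, .ofNat 0, .ofNat 128, .ofNat 81, .ofNat 0, .ofNat 0, .ofNat 912, .ofNat 1365, .ofNat 0, .ofNat 0, .ofNat 0, .ofNat 0, .ofNat 0, .ofNat 0, .ofNat 0, .ofNat 0, .ofNat 0, .ofNat 0, .ofNat 0, .ofNat 0, .ofNat 0, .ofNat 0, .ofNat 0, .ofNat 0⟩)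
    (by decide +kernel)
theorem L01724 : Good (Phi V5.P V5.D (-1) 1) ⟨4, 10, 3, 0, 3, 7, 3, 6, 6, 0⟩ :=
  leafX_sound T5.ok_mp T5.Ymp.bz_eq (w := 237) (c := ⟨⟨.ofNat 819, .ofNat 288, .ofNat 184, .negSucc 1157, .negSucc 830, .negSucc 462⟩, ⟨.negSucc 142, .negSucc 97, .negSucc 113, .ofNat 161, .ofNat 60, .ofNat 28⟩, ⟨.negSucc 507, .negSucc 273, .negSucc 305, .ofNat 970, .ofNat 419, .ofNat 253⟩, ⟨.ofNat 1366, .ofNat 489, .ofNat 437, .negSucc 2086, .negSucc 1577, .negSucc 887⟩, ⟨.negSucc 987, .negSucc 180, .negSucc 383, .ofNat 355, .negSucc 346, .negSucc 81⟩, .ofNat 444, .ofNat 141, .ofNat 0, .ofNat 141, .ofNat 1611, .ofNat 0, .ofNat 223, .ofNat 16, .negSucc 1178, .ofNat 0, .ofNat 128, .ofNat 191, .ofNat 0, .ofNat 0, .ofNat 1172, .ofNat 1072, .ofNat 0, .ofNat 0, .ofNat 0, .ofNat 0, .ofNat 0, .ofNat 0, .ofNat 0, .ofNat 0, .ofNat 0, .ofNat 0, .ofNat 0,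 .ofNat 0, .ofNat 0, .ofNat 0, .ofNat 2220461645428966673023613191697316025972293632, .ofNat 0⟩)
    (by decide +kernel)
theorem L01725 : Good (Phi V5.P V5.D (-1) 1) ⟨4, 11, 3, 0, 3, 7, 3, 6, 6, 0⟩ :=
  leafX_sound T5.ok_mp T5.Ymp.bz_eq (w := 239) (c := ⟨⟨.ofNat 1260, .ofNat 457, .ofNat 394, .negSucc 1497, .negSucc 1000, .negSucc 479⟩, ⟨.negSucc 322, .negSucc 145, .negSucc 144, .ofNat 290, .ofNat 115, .ofNat 57⟩, ⟨.negSucc 895, .negSucc 411, .negSucc 499, .ofNat 1265, .ofNat 535, .ofNat 250⟩, ⟨.ofNat 2085, .ofNat 739, .ofNat 798, .negSucc 2584, .negSucc 1903, .negSucc 908⟩, ⟨.negSucc 1102, .negSucc 260, .negSucc 502, .ofNat 485, .negSucc 355, .negSucc 189⟩, .ofNat 406, .ofNat 155, .ofNat 0, .ofNat 155, .ofNat 1144, .ofNat 0, .ofNat 369, .negSucc 0, .negSucc 2302, .ofNat 0, .ofNat 128, .ofNat 482, .ofNat 0, .ofNat 0, .ofNat 2121, .ofNat 2268, .ofNat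 0, .ofNat 0, .ofNat 52403685362445698697437291212426000975527936, .ofNat 0, .ofNat 0, .ofNat 0, .ofNat 354224385615986672598701605773162640398352384, .ofNat 0, .ofNat 0, .ofNat 0, .ofNat 1455237332589850386642964721740041819510538240, .ofNat 0, .ofNat 0, .ofNat 0, .ofNat 15291910110162565780033308005589450408469725184, .ofNat 0⟩)
    (by decide +kernel)
theorem L01726 : Good (Phi V5.P V5.D (-1) 1) ⟨3, 4, 3, 0, 4, 14, 3, 7, 6, 0⟩ :=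
  leafX_sound T5.ok_mp T5.Ymp.bz_eq (w := 247) (c := ⟨⟨.negSucc 414, .negSucc 75, .negSucc 24, .negSucc 134, .negSucc 392, .negSucc 153⟩, ⟨.negSucc 24, .ofNat 15, .negSucc 113, .ofNat 2, .ofNat 15, .ofNat 3⟩, ⟨.ofNat 336, .ofNat 0, .negSucc 111, .ofNat 92, .ofNat 136, .ofNat 25⟩, ⟨.negSucc 990, .negSucc 60, .ofNat 47, .negSucc 265, .negSucc 815, .negSucc 308⟩, ⟨.negSucc 1011, .negSucc 185, .negSucc 196, .negSucc 92, .ofNat 101, .negSucc 82⟩, .ofNat 438, .ofNat 37, .ofNat 0, .ofNat 37, .ofNat 1541, .ofNat 0, .ofNat 391, .ofNat 82, .negSucc 911, .ofNat 0, .ofNat 128, .ofNat 95, .ofNat 0, .ofNat 0, .ofNat 1018, .ofNat 3011, .ofNat 0, .ofNat 0, .ofNat 0, .ofNat 0, .ofNat 0, .ofNat 0, .ofNat 0, .ofNat 0, .ofNat 0, .ofNat 0, .ofNat 0, .ofNat 0, .ofNat 0, .ofNat 0, .ofNat 0, .ofNat 0⟩)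
    (by decide +kernel)
theorem L01727 : Good (Phi V5.P V5.D (-1) 1) ⟨4, 10, 3, 0, 4, 14, 3, 7, 6, 0⟩ :=
  leafX_sound T5.ok_mp T5.Ymp.bz_eq (w := 251) (c := ⟨⟨.negSucc 408, .ofNat 3, .ofNat 13, .negSucc 158, .negSucc 528, .negSucc 233⟩, ⟨.negSucc 26, .negSucc 26, .negSucc 136, .ofNat 12, .ofNat 58, .ofNat 17⟩, ⟨.ofNat 282, .negSucc 61, .negSucc 156, .ofNat 120, .ofNat 218, .ofNat 90⟩, ⟨.negSucc 947, .ofNat 32, .ofNat 110, .negSucc 293, .negSucc 980, .negSucc 438⟩, ⟨.negSucc 1260, .negSucc 121, .negSucc 183, .negSucc 56, .ofNat 110, .negSucc 36⟩, .ofNat 466, .ofNat 171, .ofNat 0, .ofNat 171, .ofNat 1895, .ofNat 0, .ofNat 235, .ofNat 21, .negSucc 1404, .ofNat 0, .ofNat 128, .ofNat 225, .ofNat 0, .ofNat 0, .ofNat 1419, .ofNat 1497, .ofNat 0, .ofNat 0, .ofNat 0, .ofNat 0, .ofNat 0, .ofNat 0, .ofNat 0, .ofNat 0, .ofNat 0, .ofNat 0, .ofNat 0, .ofNat 0,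 .ofNat 0, .ofNat 0, .ofNat 49959232323251189895453455138236897530312011022336, .ofNat 0⟩)
    (by decide +kernel)
theorem L01728 : Good (Phi V5.P V5.D (-1) 1) ⟨4, 11, 3, 0, 4, 14, 3, 7, 6, 0⟩ :=
  leafX_sound T5.ok_mp T5.Ymp.bz_eq (w := 251) (c := ⟨⟨.negSucc 417, .ofNat 4, .ofNat 104, .negSucc 72, .negSucc 563, .negSucc 328⟩, ⟨.negSucc 68, .negSucc 47, .negSucc 169, .ofNat 1, .ofNat 90, .ofNat 47⟩, ⟨.ofNat 244, .negSucc 84, .negSucc 246, .ofNat 50, .ofNat 225, .ofNat 171⟩, ⟨.negSucc 954, .ofNat 20, .ofNat 262, .negSucc 144, .negSucc 1009, .negSucc 591⟩, ⟨.negSucc 1358, .negSucc 237, .negSucc 231, .negSucc 29, .ofNat 93, .negSucc 11⟩, .ofNat 475, .ofNat 239, .ofNat 0, .ofNat 239, .ofNat 1589, .ofNat 0, .ofNat 256, .ofNat 10, .negSucc 2008, .ofNat 0, .ofNat 128, .ofNat 463, .ofNat 0, .ofNat 0, .ofNat 1908, .ofNat 2508, .ofNat 0, .ofNat 0, .ofNat 78388958253595222610288056797235299610349535232,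 .ofNat 0, .ofNat 0, .ofNat 0, .ofNat 4539946443084229841687235039467549065651687522304, .ofNat 0, .ofNat 0, .ofNat 0, .ofNat 22042432534490517186785960597700709560407830822912, .ofNat 0, .ofNat 0, .ofNat 0, .ofNat 198619193613204451598630073693616525558158047838208, .ofNat 0⟩)
    (by decide +kernel)
theorem L01729 : Good (Phi V5.P V5.D (-1) 1) ⟨3, 4, 3, 0, 4, 15, 3, 7, 6, 0⟩ :=
  leafX_sound T5.ok_mp T5.Ymp.bz_eq (w := 248) (c := ⟨⟨.negSucc 625, .negSucc 86, .negSucc 56, .negSucc 118, .negSucc 217, .negSucc 103⟩, ⟨.negSucc 20, .ofNat 33, .negSucc 126, .negSucc 6, .ofNat 3, .negSucc 2⟩, ⟨.ofNat 499, .ofNat 18, .negSucc 87, .ofNat 28, .negSucc 34, .negSucc 22⟩, ⟨.negSucc 1427, .negSucc 48, .negSucc 8, .negSucc 252, .negSucc 458, .negSucc 220⟩, ⟨.negSucc 1061, .negSucc 121, .negSucc 178, .negSucc 157, .negSucc 62, .negSucc 100⟩, .ofNat 437, .ofNat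 36, .ofNat 0, .ofNat 36, .ofNat 1528, .ofNat 0, .ofNat 456, .ofNat 90, .negSucc 758, .ofNat 0, .ofNat 128, .ofNat 88, .ofNat 0, .ofNat 0, .ofNat 855, .ofNat 3574, .ofNat 0, .ofNat 0, .ofNat 0, .ofNat 0, .ofNat 0, .ofNat 0, .ofNat 0, .ofNat 0, .ofNat 0, .ofNat 0, .ofNat 0, .ofNat 0, .ofNat 0, .ofNat 0, .ofNat 0, .ofNat 0⟩)
    (by decide +kernel)
theorem L01730 : Good (Phi V5.P V5.D (-1) 1) ⟨4, 10, 3, 0, 4, 15, 3, 7, 6, 0⟩ :=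
  leafX_sound T5.ok_mp T5.Ymp.bz_eq (w := 251) (c := ⟨⟨.negSucc 712, .negSucc 24, .negSucc 60, .negSucc 120, .negSucc 162, .negSucc 147⟩, ⟨.ofNat 18, .negSucc 20, .negSucc 140, .ofNat 0, .negSucc 8, .ofNat 5⟩, ⟨.ofNat 547, .negSucc 33, .negSucc 91, .ofNat 28, .negSucc 124, .ofNat 11⟩, ⟨.negSucc 1520, .negSucc 1, .negSucc 8, .negSucc 233, .negSucc 323, .negSucc 283⟩, ⟨.negSucc 1146, .negSucc 128, .negSucc 126, .negSucc 142, .negSucc 188, .negSucc 88⟩, .ofNat 466, .ofNat 178, .ofNat 0, .ofNat 178, .ofNat 1887, .ofNat 0, .ofNat 260, .ofNat 23, .negSucc 974, .ofNat 0, .ofNat 128, .ofNat 168, .ofNat 0, .ofNat 0, .ofNat 990, .ofNat 1732, .ofNat 0, .ofNat 0, .ofNat 0, .ofNat 0, .ofNat 0, .ofNat 0, .ofNat 0, .ofNat 0, .ofNat 0, .ofNat 0, .ofNat 0, .ofNat 0, .ofNat 0, .ofNat 0, .ofNat 23954299905016709289983459114904895824800933478400, .ofNat 0⟩)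
    (by decide +kernel)
theorem L01731 : Good (Phi V5.P V5.D (-1) 1) ⟨4, 11, 3, 0, 4, 15, 3, 7, 6, 0⟩ :=
  leafX_sound T5.ok_mp T5.Ymp.bz_eq (w := 252) (c := ⟨⟨.negSucc 754, .negSucc 33, .negSucc 53, .negSucc 123, .negSucc 148, .negSucc 132⟩, ⟨.negSucc 4, .negSucc 30, .negSucc 143, .ofNat 3, .negSucc 6, .ofNat 4⟩, ⟨.ofNat 528, .negSucc 31, .negSucc 89, .ofNat 38, .negSucc 150, .negSucc 7⟩, ⟨.negSucc 1552, .negSucc 26, .ofNat 3, .negSucc 239, .negSucc 301, .negSucc 255⟩, ⟨.negSucc 1212, .negSucc 112, .negSucc 106, .negSucc 124, .negSucc 248, .negSucc 133⟩, .ofNat 504, .ofNat 328, .ofNat 0, .ofNat 328, .ofNat 2086, .ofNat 0, .ofNat 409, .negSucc 22, .negSucc 1546, .ofNat 0, .ofNat 128, .ofNat 336, .ofNat 0, .ofNat 0, .ofNat 1513, .ofNat 4046, .ofNat 0, .ofNat 0, .ofNat 56067122053141928906713105079875481780927594496, .ofNat 0, .ofNat 0, .ofNat 0, .ofNat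 5564542441419940693767288503689423671906084585472, .ofNat 0, .ofNat 0, .ofNat 0, .ofNat 28637348800572172737321980147299071116030576164864, .ofNat 0, .ofNat 0, .ofNat 0, .ofNat 175423823806682848865803602242502731948802195849216, .ofNat 0⟩)
    (by decide +kernel)
theorem L01732 : Good (Phi V5.P V5.D (-1) 1) ⟨2, 3, 3, 0, 3, 7, 2, 3, 6, 0⟩ :=
  out_sound (S := T5.ds_mp) T5.ok_mp (w := 39) (j := 3) (by decide +kernel)
theorem L01733 : Good (Phi V5.P V5.D (-1) 1) ⟨3, 4, 3, 0, 3, 7, 3, 6, 6, 1⟩ :=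
  leafX_sound T5.ok_mp T5.Ymp.bz_eq (w := 233) (c := ⟨⟨.ofNat 33, .negSucc 165, .negSucc 4, .negSucc 438, .negSucc 455, .negSucc 250⟩, ⟨.negSucc 17, .ofNat 18, .negSucc 103, .ofNat 3, .negSucc 11, .negSucc 16⟩, ⟨.ofNat 37, .ofNat 105, .negSucc 119, .ofNat 293, .ofNat 178, .ofNat 74⟩, ⟨.negSucc 32, .negSucc 255, .ofNat 98, .negSucc 912, .negSucc 977, .negSucc 539⟩, ⟨.negSucc 1034, .negSucc 84, .negSucc 232, .negSucc 19, .negSucc 170, .negSucc 101⟩, .ofNat 438, .ofNat 33, .ofNat 0, .ofNat 33, .ofNat 1529, .ofNat 0, .ofNat 409, .ofNat 69, .negSucc 962, .ofNat 0, .ofNat 128, .ofNat 97, .ofNat 0, .ofNat 0, .ofNat 1067, .ofNat 2135, .ofNat 0, .ofNat 0, .ofNat 0, .ofNat 0, .ofNat 0, .ofNat 0, .ofNat 0, .ofNat 0, .ofNat 0, .ofNat 0, .ofNat 0, .ofNat 0, .ofNat 0, .ofNat 0, .ofNat 0, .ofNat 0⟩)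
    (by decide +kernel)
theorem L01734 : Good (Phi V5.P V5.D (-1) 1) ⟨3, 4, 3, 0, 3, 7, 3, 7, 6, 1⟩ :=
  leafX_sound T5.ok_mp T5.Ymp.bz_eq (w := 233) (c := ⟨⟨.negSucc 666, .negSucc 162, .negSucc 63, .negSucc 137, .negSucc 181, .negSucc 102⟩, ⟨.negSucc 20, .ofNat 37, .negSucc 129, .negSucc 18, .ofNat 17, .ofNat 1⟩, ⟨.ofNat 438, .ofNat 64, .negSucc 69, .ofNat 22, .negSucc 14, .ofNat 3⟩, ⟨.negSucc 1524, .negSucc 186, .negSucc 25, .negSucc 284, .negSucc 379, .negSucc 220⟩, ⟨.negSucc 1091, .negSucc 186, .negSucc 168, .negSucc 324, .ofNat 159, .negSucc 11⟩, .ofNat 436, .ofNat 34, .ofNat 0, .ofNat 34, .ofNat 1512, .ofNat 0, .ofNat 389, .ofNat 79, .negSucc 1035, .ofNat 0, .ofNat 128, .ofNat 109, .ofNat 0, .ofNat 0, .ofNat 1146, .ofNat 3230, .ofNat 0, .ofNat 0, .ofNat 0, .ofNat 0, .ofNat 0, .ofNat 0, .ofNat 0, .ofNat 0, .ofNat 0, .ofNat 0, .ofNat 0, .ofNat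 0, .ofNat 0, .ofNat 0, .ofNat 0, .ofNat 0⟩)
    (by decide +kernel)
theorem L01735 : Good (Phi V5.P V5.D (-1) 1) ⟨4, 10, 3, 0, 3, 7, 3, 6, 6, 1⟩ :=
  leafX_sound T5.ok_mp T5.Ymp.bz_eq (w := 236) (c := ⟨⟨.ofNat 176, .ofNat 12, .negSucc 2, .negSucc 662, .negSucc 614, .negSucc 286⟩, ⟨.negSucc 88, .negSucc 40, .negSucc 120, .ofNat 82, .ofNat 43, .ofNat 14⟩, ⟨.negSucc 117, .negSucc 43, .negSucc 123, .ofNat 507, .ofNat 288, .ofNat 97⟩, ⟨.ofNat 150, .ofNat 22, .ofNat 98, .negSucc 1211, .negSucc 1169, .negSucc 555⟩, ⟨.negSucc 1202, .negSucc 59, .negSucc 296, .ofNat 109, .negSucc 184, .negSucc 152⟩, .ofNat 466, .ofNat 171, .ofNat 0, .ofNat 171, .ofNat 1895, .ofNat 0, .ofNat 220, .negSucc 0, .negSucc 1496, .ofNat 0, .ofNat 128, .ofNat 233, .ofNat 0, .ofNat 0, .ofNat 1466, .ofNat 1005, .ofNat 0, .ofNat 0, .ofNat 0, .ofNat 0, .ofNat 0, .ofNat 0, .ofNat 0, .ofNat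 0, .ofNat 0, .ofNat 0, .ofNat 0, .ofNat 0, .ofNat 0, .ofNat 0, .ofNat 4693414346468327038898862544916720292397580288, .ofNat 0⟩)
    (by decide +kernel)
theorem L01736 : Good (Phi V5.P V5.D (-1) 1) ⟨4, 10, 3, 0, 3, 7, 3, 7, 6, 1⟩ :=
  leafX_sound T5.ok_mp T5.Ymp.bz_eq (w := 237) (c := ⟨⟨.negSucc 925, .negSucc 100, .negSucc 74, .negSucc 4, .negSucc 91, .negSucc 102⟩, ⟨.ofNat 22, .ofNat 0, .negSucc 143, .negSucc 29, .ofNat 16, .ofNat 9⟩, ⟨.ofNat 597, .ofNat 24, .negSucc 64, .negSucc 80, .negSucc 116, .negSucc 3⟩, ⟨.negSucc 1930, .negSucc 125, .negSucc 34, .negSucc 43, .negSucc 164, .negSucc 189⟩, ⟨.negSucc 1302, .negSucc 95, .negSucc 123, .negSucc 273, .ofNat 96, .negSucc 1⟩, .ofNat 493, .ofNat 246, .ofNat 0, .ofNat 246, .ofNat 2339, .ofNat 0, .ofNat 286, .negSucc 8, .negSucc 1342, .ofNat 0, .ofNat 128, .ofNat 217, .ofNat 0, .ofNat 0, .ofNat 1354,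 .ofNat 1367, .ofNat 0, .ofNat 0, .ofNat 0, .ofNat 0, .ofNat 0, .ofNat 0, .ofNat 0, .ofNat 0, .ofNat 0, .ofNat 0, .ofNat 253897689841701070454516377106148688866050048, .ofNat 0, .ofNat 0, .ofNat 0, .ofNat 2255434540791175777879079057276231819422859264, .ofNat 0⟩)
    (by decide +kernel)
theorem L01737 : Good (Phi V5.P V5.D (-1) 1) ⟨4, 11, 3, 0, 3, 7, 3, 6, 6, 1⟩ :=
  leafX_sound T5.ok_mp T5.Ymp.bz_eq (w := 238) (c := ⟨⟨.ofNat 303, .ofNat 479, .ofNat 371, .negSucc 896, .negSucc 707, .negSucc 340⟩, ⟨.negSucc 176, .negSucc 166, .negSucc 192, .ofNat 163, .ofNat 84, .ofNat 28⟩, ⟨.negSucc 243, .negSucc 415, .negSucc 437, .ofNat 716, .ofNat 334, .ofNat 135⟩, ⟨.ofNat 326, .ofNat 787, .ofNat 707, .negSucc 1553, .negSucc 1288, .negSucc 635⟩, ⟨.negSucc 1265, .negSucc 195, .negSucc 436, .ofNat 233, .negSucc 211, .negSucc 206⟩, .ofNat 498, .ofNat 313, .ofNat 0,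 .ofNat 313, .ofNat 2022, .ofNat 0, .ofNat 284, .negSucc 51, .negSucc 1877, .ofNat 0, .ofNat 128, .ofNat 385, .ofNat 0, .ofNat 0, .ofNat 1765, .ofNat 2115, .ofNat 0, .ofNat 0, .ofNat 13754181162084795657870321856161979979268096, .ofNat 0, .ofNat 0, .ofNat 0, .ofNat 627904386247552371694075904820493277869375488, .ofNat 0, .ofNat 0, .ofNat 0, .ofNat 2494404221187018032854373016199413534455496704, .ofNat 0, .ofNat 0, .ofNat 0, .ofNat 9463408325518733927660823197699142254243872768, .ofNat 0⟩)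
    (by decide +kernel)
theorem L01738 : Good (Phi V5.P V5.D (-1) 1) ⟨4, 11, 3, 0, 3, 7, 3, 7, 6, 1⟩ :=
  leafX_sound T5.ok_mp T5.Ymp.bz_eq (w := 238) (c := ⟨⟨.negSucc 1040, .negSucc 100, .negSucc 177, .ofNat 49, .negSucc 4, .negSucc 120⟩, ⟨.ofNat 33, .negSucc 20, .negSucc 142, .negSucc 48, .ofNat 0, .ofNat 12⟩, ⟨.ofNat 652, .ofNat 27, .ofNat 7, .negSucc 124, .negSucc 213, .ofNat 3⟩, ⟨.negSucc 2064, .negSucc 141, .negSucc 235, .ofNat 33, .negSucc 11, .negSucc 223⟩, ⟨.negSucc 1249, .negSucc 158, .negSucc 193, .negSucc 347, .negSucc 3, .negSucc 67⟩, .ofNat 501, .ofNat 321, .ofNat 0, .ofNat 321, .ofNat 2049, .ofNat 0, .ofNat 363, .negSucc 34, .negSucc 2359, .ofNat 0, .ofNat 128, .ofNat 493, .ofNat 0, .ofNat 0, .ofNat 2269, .ofNat 2052, .ofNat 0, .ofNat 0, .ofNat 349323077530119807322796646876159703777280, .ofNat 0, .ofNat 0, .ofNat 0, .ofNat 269424973388359130572495318194783859180044288,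 .ofNat 0, .ofNat 0, .ofNat 0, .ofNat 1715094713429957364831933071953721941324464128, .ofNat 0, .ofNat 0, .ofNat 0, .ofNat 8276988539160930810214073012103040597000978432, .ofNat 0⟩)
    (by decide +kernel)
theorem L01739 : Good (Phi V5.P V5.D (-1) 1) ⟨2, 3, 3, 0, 3, 7, 2, 3, 6, 1⟩ :=
  out_sound (S := T5.ds_mp) T5.ok_mp (w := 39) (j := 3) (by decide +kernel)
theorem L01740 : Good (Phi V5.P V5.D (-1) 1) ⟨3, 4, 3, 0, 2, 3, 3, 6, 5, 1⟩ :=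
  leafX_sound T5.ok_mp T5.Ymp.bz_eq (w := 213) (c := ⟨⟨.negSucc 313, .negSucc 231, .negSucc 107, .negSucc 226, .negSucc 264, .negSucc 419⟩, ⟨.negSucc 29, .ofNat 40, .negSucc 122, .negSucc 11, .ofNat 9, .ofNat 7⟩, ⟨.ofNat 104, .ofNat 136, .negSucc 23, .ofNat 193, .ofNat 122, .ofNat 164⟩, ⟨.negSucc 783, .negSucc 339, .negSucc 106, .negSucc 473, .negSucc 554, .negSucc 883⟩, ⟨.negSucc 1172, .negSucc 140, .negSucc 122, .negSucc 260, .ofNat 95, .negSucc 7⟩, .ofNat 477, .ofNat 44, .ofNat 0, .ofNat 44, .ofNat 2138, .ofNat 0, .ofNat 483, .ofNat 40, .negSucc 719, .ofNat 0, .ofNat 128, .ofNat 57, .ofNat 0, .ofNat 0, .ofNat 847, .ofNat 1581, .ofNat 0, .ofNat 0, .ofNat 0, .ofNat 0, .ofNat 0, .ofNat 0, .ofNat 0, .ofNat 0, .ofNat 0, .ofNat 0, .ofNat 0, .ofNat 0, .ofNat 0, .ofNat 0, .ofNat 0, .ofNat 0⟩)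
    (by decide +kernel)
theorem L01741 : Good (Phi V5.P V5.D (-1) 1) ⟨4, 10, 3, 0, 3, 6, 3, 6, 5, 1⟩ :=
  leafX_sound T5.ok_mp T5.Ymp.bz_eq (w := 232) (c := ⟨⟨.negSucc 148, .negSucc 284, .negSucc 238, .ofNat 245, .negSucc 651, .negSucc 1001⟩, ⟨.negSucc 79, .ofNat 26, .negSucc 111, .negSucc 49, .ofNat 96, .ofNat 119⟩, ⟨.negSucc 116, .ofNat 196, .ofNat 104, .negSucc 165, .ofNat 450, .ofNat 671⟩, ⟨.negSucc 498, .negSucc 457, .negSucc 337, .ofNat 429, .negSucc 1188, .negSucc 1855⟩, ⟨.negSucc 1384, .negSucc 39, .negSucc 115, .negSucc 200, .ofNat 258, .ofNat 79⟩, .ofNat 446, .ofNat 156, .ofNat 0, .ofNat 156, .ofNat 1620, .ofNat 0, .ofNat 297, .negSucc 30, .negSucc 1105, .ofNat 0, .ofNat 128, .ofNat 168, .ofNat 0, .ofNat 0, .ofNat 1125, .ofNat 1553, .ofNat 0, .ofNat 0, .ofNat 0, .ofNat 0, .ofNat 0, .ofNat 0, .ofNat 0, .ofNat 0, .ofNat 0, .ofNat 0, .ofNat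 0, .ofNat 0, .ofNat 0, .ofNat 0, .ofNat 89457643108776958326577390784852097371209728, .ofNat 0⟩)
    (by decide +kernel)
theorem L01742 : Good (Phi V5.P V5.D (-1) 1) ⟨4, 10, 3, 0, 3, 7, 3, 6, 5, 1⟩ :=
  leafX_sound T5.ok_mp T5.Ymp.bz_eq (w := 232) (c := ⟨⟨.negSucc 602, .negSucc 168, .negSucc 126, .negSucc 153, .negSucc 213, .negSucc 398⟩, ⟨.negSucc 15, .ofNat 13, .negSucc 142, .ofNat 4, .ofNat 18, .ofNat 24⟩, ⟨.ofNat 370, .ofNat 89, .negSucc 13, .ofNat 69, .ofNat 29, .ofNat 129⟩, ⟨.negSucc 1337, .negSucc 245, .negSucc 128, .negSucc 303, .negSucc 403, .negSucc 749⟩, ⟨.negSucc 1416, .ofNat 23, .negSucc 125, .negSucc 72, .negSucc 19, .negSucc 117⟩, .ofNat 488, .ofNat 222, .ofNat 0, .ofNat 222, .ofNat 2247, .ofNat 0, .ofNat 286, .negSucc 28, .negSucc 1154, .ofNat 0, .ofNat 128, .ofNat 179, .ofNat 0, .ofNat 0, .ofNat 1142, .ofNat 1273, .ofNat 0, .ofNat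 0, .ofNat 0, .ofNat 0, .ofNat 0, .ofNat 0, .ofNat 0, .ofNat 0, .ofNat 0, .ofNat 0, .ofNat 0, .ofNat 0, .ofNat 0, .ofNat 0, .ofNat 59322979745851293193400171213559220110622720, .ofNat 0⟩)
    (by decide +kernel)
theorem L01743 : Good (Phi V5.P V5.D (-1) 1) ⟨4, 11, 3, 0, 3, 6, 3, 6, 5, 1⟩ :=
  leafX_sound T5.ok_mp T5.Ymp.bz_eq (w := 233) (c := ⟨⟨.negSucc 331, .ofNat 276, .ofNat 34, .ofNat 510, .negSucc 973, .negSucc 1426⟩, ⟨.negSucc 96, .negSucc 124, .negSucc 215, .negSucc 117, .ofNat 197, .ofNat 259⟩, ⟨.ofNat 42, .negSucc 392, .negSucc 202, .negSucc 397, .ofNat 711, .ofNat 1002⟩, ⟨.negSucc 832, .ofNat 460, .ofNat 78, .ofNat 864, .negSucc 1678, .negSucc 2482⟩, ⟨.negSucc 1494, .negSucc 238, .negSucc 31, .negSucc 181, .ofNat 271, .ofNat 210⟩, .ofNat 469, .ofNat 257, .ofNat 0, .ofNat 257, .ofNat 1687, .ofNat 0, .ofNat 298, .negSucc 70, .negSucc 1506,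 .ofNat 0, .ofNat 128, .ofNat 303, .ofNat 0, .ofNat 0, .ofNat 1448, .ofNat 1685, .ofNat 0, .ofNat 0, .ofNat 159053582509704015021921998142942841143296, .ofNat 0, .ofNat 0, .ofNat 0, .ofNat 19387508401293041345223172873398067526631424, .ofNat 0, .ofNat 0, .ofNat 0, .ofNat 83273320687990759349542509778244350339186688, .ofNat 0, .ofNat 0, .ofNat 0, .ofNat 219876923334032638118337501511042666380394496, .ofNat 0⟩)
    (by decide +kernel)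
theorem L01744 : Good (Phi V5.P V5.D (-1) 1) ⟨4, 11, 3, 0, 3, 7, 3, 6, 5, 1⟩ :=
  leafX_sound T5.ok_mp T5.Ymp.bz_eq (w := 232) (c := ⟨⟨.negSucc 672, .negSucc 146, .negSucc 210, .negSucc 147, .negSucc 196, .negSucc 445⟩, ⟨.negSucc 32, .negSucc 22, .negSucc 129, .ofNat 13, .ofNat 20, .ofNat 44⟩, ⟨.ofNat 407, .ofNat 33, .ofNat 20, .ofNat 86, .negSucc 3, .ofNat 134⟩, ⟨.negSucc 1424, .negSucc 227, .negSucc 266, .negSucc 276, .negSucc 366, .negSucc 825⟩, ⟨.negSucc 1306, .negSucc 180, .negSucc 3, .negSucc 99, .negSucc 112, .negSucc 248⟩, .ofNat 502, .ofNat 323, .ofNat 0, .ofNat 323, .ofNat 2055, .ofNat 0, .ofNat 325, .negSucc 66, .negSucc 1787, .ofNat 0, .ofNat 128, .ofNat 365, .ofNat 0, .ofNat 0, .ofNat 1676, .ofNat 1515, .ofNat 0, .ofNat 0, .ofNat 0, .ofNat 0, .ofNat 0, .ofNat 0, .ofNat 16408284964809576050948189007266128240574464, .ofNat 0, .ofNat 0,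 .ofNat 0, .ofNat 51692536585611805877111002008102053500420096, .ofNat 0, .ofNat 0, .ofNat 0, .ofNat 148911169081034474227657913385126650166902784, .ofNat 0⟩)
    (by decide +kernel)
theorem L01745 : Good (Phi V5.P V5.D (-1) 1) ⟨3, 4, 3, 0, 2, 3, 3, 7, 5, 1⟩ :=
  leafX_sound T5.ok_mp T5.Ymp.bz_eq (w := 214) (c := ⟨⟨.negSucc 907, .negSucc 228, .negSucc 100, .ofNat 38, .negSucc 3, .negSucc 151⟩, ⟨.negSucc 11, .ofNat 57, .negSucc 131, .negSucc 38, .ofNat 28, .ofNat 9⟩, ⟨.ofNat 540, .ofNat 90, .negSucc 10, .negSucc 112, .negSucc 85, .negSucc 14⟩, ⟨.negSucc 2020, .negSucc 271, .negSucc 115, .ofNat 59, .negSucc 26, .negSucc 328⟩, ⟨.negSucc 1085, .negSucc 160, .negSucc 93, .negSucc 509, .ofNat 457, .ofNat 190⟩, .ofNat 437, .ofNat 30, .ofNat 0, .ofNat 30, .ofNat 1522, .ofNat 0, .ofNat 568, .ofNat 61, .negSucc 1310, .ofNat 0, .ofNat 128, .ofNat 119, .ofNat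 0, .ofNat 0, .ofNat 1485, .ofNat 1721, .ofNat 0, .ofNat 0, .ofNat 0, .ofNat 0, .ofNat 0, .ofNat 0, .ofNat 0, .ofNat 0, .ofNat 0, .ofNat 0, .ofNat 0, .ofNat 0, .ofNat 0, .ofNat 0, .ofNat 0, .ofNat 0⟩)
    (by decide +kernel)
theorem L01746 : Good (Phi V5.P V5.D (-1) 1) ⟨4, 10, 3, 0, 3, 6, 4, 14, 5, 1⟩ :=
  leafX_sound T5.ok_mp T5.Ymp.bz_eq (w := 236) (c := ⟨⟨.negSucc 931, .negSucc 540, .negSucc 369, .ofNat 266, .negSucc 148, .negSucc 627⟩, ⟨.ofNat 15, .ofNat 102, .negSucc 120, .negSucc 62, .ofNat 39, .ofNat 92⟩, ⟨.ofNat 468, .ofNat 419, .ofNat 240, .negSucc 269, .ofNat 88, .ofNat 384⟩, ⟨.negSucc 1972, .negSucc 836, .negSucc 590, .ofNat 455, .negSucc 256, .negSucc 1132⟩, ⟨.negSucc 1274, .ofNat 65, .ofNat 83, .negSucc 282, .ofNat 218, .ofNat 236⟩, .ofNat 468, .ofNat 184, .ofNat 0, .ofNat 184, .ofNat 1918, .ofNat 0, .ofNat 263, .negSucc 20, .negSucc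 1172, .ofNat 0, .ofNat 128, .ofNat 176, .ofNat 0, .ofNat 0, .ofNat 1192, .ofNat 1511, .ofNat 0, .ofNat 0, .ofNat 0, .ofNat 0, .ofNat 0, .ofNat 0, .ofNat 0, .ofNat 0, .ofNat 0, .ofNat 0, .ofNat 0, .ofNat 0, .ofNat 0, .ofNat 0, .ofNat 1541479489153777794447773411458451539830505472, .ofNat 0⟩)
    (by decide +kernel)
theorem L01747 : Good (Phi V5.P V5.D (-1) 1) ⟨4, 10, 3, 0, 3, 6, 4, 15, 5, 1⟩ :=
  leafX_sound T5.ok_mp T5.Ymp.bz_eq (w := 236) (c := ⟨⟨.negSucc 1343, .negSucc 531, .negSucc 478, .ofNat 308, .ofNat 197, .negSucc 297⟩, ⟨.ofNat 74, .ofNat 117, .negSucc 101, .negSucc 68, .ofNat 1, .ofNat 60⟩, ⟨.ofNat 792, .ofNat 399, .ofNat 369, .negSucc 333, .negSucc 215, .ofNat 120⟩, ⟨.negSucc 2698, .negSucc 808, .negSucc 810, .ofNat 539, .ofNat 370, .negSucc 527⟩, ⟨.negSucc 1168, .ofNat 117, .ofNat 168, .negSucc 198, .ofNat 262, .ofNat 307⟩, .ofNat 467,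 .ofNat 181, .ofNat 0, .ofNat 181, .ofNat 1909, .ofNat 0, .ofNat 234, .negSucc 7, .negSucc 1697, .ofNat 0, .ofNat 128, .ofNat 255, .ofNat 0, .ofNat 0, .ofNat 1745, .ofNat 1124, .ofNat 0, .ofNat 0, .ofNat 0, .ofNat 0, .ofNat 0, .ofNat 22190815322245657289953085042099514689095467008, .ofNat 0, .ofNat 0, .ofNat 0, .ofNat 0, .ofNat 0, .ofNat 0, .ofNat 0, .ofNat 276222561615292441145821243336815383447867490304, .ofNat 2186920465606585941287622049842406817443872768, .ofNat 0⟩)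
    (by decide +kernel)
theorem L01748 : Good (Phi V5.P V5.D (-1) 1) ⟨5, 22, 4, 0, 3, 6, 3, 7, 5, 1⟩ :=
  leafX_sound T5.ok_mp T5.Ymp.bz_eq (w := 240) (c := ⟨⟨.negSucc 1753, .negSucc 434, .negSucc 279, .ofNat 796, .negSucc 171, .negSucc 640⟩, ⟨.ofNat 154, .ofNat 103, .negSucc 36, .negSucc 180, .ofNat 78, .ofNat 131⟩, ⟨.ofNat 1171, .ofNat 351, .ofNat 201, .negSucc 770, .ofNat 53, .ofNat 383⟩, ⟨.negSucc 3321, .negSucc 666, .negSucc 446, .ofNat 1336, .negSucc 243, .negSucc 1099⟩, ⟨.negSucc 1219, .ofNat 77, .ofNat 157, .negSucc 403, .ofNat 440, .ofNat 288⟩, .ofNat 469, .ofNat 253, .ofNat 0, .ofNat 253, .ofNat 1681, .ofNat 0, .ofNat 335, .negSucc 47, .negSucc 1569, .ofNat 0, .ofNat 128, .ofNat 316, .ofNat 0, .ofNat 0, .ofNat 1521, .ofNat 1458, .ofNat 0, .ofNat 0, .ofNat 129901836915298978464460529596379128922112, .ofNat 0, .ofNat 0, .ofNat 0, .ofNat 0,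 .ofNat 0, .ofNat 0, .ofNat 0, .ofNat 0, .ofNat 0, .ofNat 0, .ofNat 2708040988774817781015418621406335332998000410624, .ofNat 73961597808634734836019653067258127200550912, .ofNat 0⟩)
    (by decide +kernel)
theorem L01749 : Good (Phi V5.P V5.D (-1) 1) ⟨5, 22, 4, 1, 3, 6, 3, 7, 5, 1⟩ :=
  out_sound (S := T5.ds_mp) T5.ok_mp (w := 59) (j := 3) (by decide +kernel)
theorem L01750 : Good (Phi V5.P V5.D (-1) 1) ⟨5, 23, 3, 0, 3, 6, 3, 7, 5, 1⟩ :=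
  out_sound (S := T5.ds_mp) T5.ok_mp (w := 57) (j := 3) (by decide +kernel)
theorem L01751 : Good (Phi V5.P V5.D (-1) 1) ⟨4, 10, 3, 0, 3, 7, 3, 7, 5, 1⟩ :=
  leafX_sound T5.ok_mp T5.Ymp.bz_eq (w := 232) (c := ⟨⟨.negSucc 1269, .negSucc 26, .negSucc 103, .ofNat 209, .ofNat 165, .ofNat 11⟩, ⟨.ofNat 49, .negSucc 9, .negSucc 146, .negSucc 51, .ofNat 16, .ofNat 8⟩, ⟨.ofNat 729, .negSucc 35, .negSucc 32, .negSucc 185, .negSucc 261, .negSucc 117⟩, ⟨.negSucc 2546, .negSucc 22, .negSucc 126, .ofNat 396, .ofNat 312, .ofNat 5⟩, ⟨.negSucc 1319, .negSucc 167, .negSucc 133, .negSucc 316, .ofNat 277, .ofNat 112⟩, .ofNat 409, .ofNat 100, .ofNat 0, .ofNat 100, .ofNat 1245, .ofNat 0, .ofNat 446, .ofNat 25, .negSucc 1819, .ofNat 0, .ofNat 128, .ofNat 288, .ofNat 0, .ofNat 0, .ofNat 1757, .ofNat 1464, .ofNat 0, .ofNat 0, .ofNat 0, .ofNat 0, .ofNat 0, .ofNat 0, .ofNat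 0, .ofNat 0, .ofNat 0, .ofNat 1021758946110626702466013723749953526086762496, .ofNat 0, .ofNat 0, .ofNat 0, .ofNat 0, .ofNat 112856728199343749640885422370341253457903616, .ofNat 0⟩)
    (by decide +kernel)

end Crest.Agent.R097C5.N5mp
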