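import Crest.Agent.R097.KP7
import Crest.Agent.R097.T5Ymp

/-!
# Row 97, box cover in dimension n = 5 (generated)
-/

set_option autoImplicit false
set_option Elab.async false
set_option maxHeartbeats 0
set_option maxRecDepth 100000

open Crest.Agent.R097 Crest.Agent.R097.KA


namespace Crest.Agent.R097C5.N5mp

theorem L01752 : Good (Phi V5.P V5.D (-1) 1) ⟨4, 11, 3, 0, 3, 7, 3, 7, 5, 1⟩ :=
  leafX_sound T5.ok_mp T5.Ymp.bz_eq (w := 232) (c := ⟨⟨.negSucc 1478, .negSucc 111, .negSucc 67, .ofNat 384, .ofNat 259, .ofNat 34⟩, ⟨.ofNat 83, .negSucc 10, .negSucc 152, .negSucc 96, .negSucc 10, .ofNat 5⟩, ⟨.ofNat 852, .negSucc 13, .negSucc 64, .negSucc 320, .negSucc 350, .negSucc 140⟩, ⟨.negSucc 2866, .negSucc 134, .negSucc 27, .ofNat 631, .ofNat 495, .ofNat 73⟩, ⟨.negSucc 1413, .negSucc 86, .negSucc 132, .negSucc 301, .ofNat 238, .ofNat 81⟩, .ofNat 505, .ofNat 331, .ofNat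 0, .ofNat 331, .ofNat 2096, .ofNat 0, .ofNat 517, .negSucc 52, .negSucc 1732, .ofNat 0, .ofNat 128, .ofNat 352, .ofNat 0, .ofNat 0, .ofNat 1657, .ofNat 1115, .ofNat 0, .ofNat 0, .ofNat 33848429837561600813832051103294589763584, .ofNat 0, .ofNat 0, .ofNat 0, .ofNat 30300347412439288664931614010652247130636288, .ofNat 0, .ofNat 0, .ofNat 16546648592942041310768774000927282806642442240, .ofNat 42355775050465802569444741833650207769755648, .ofNat 0, .ofNat 0, .ofNat 0, .ofNat 154660491959324826023928123499538826615848960, .ofNat 0⟩)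
    (by decide +kernel)
theorem L01753 : Good (Phi V5.P V5.D (-1) 1) ⟨2, 3, 3, 0, 2, 3, 2, 3, 5, 1⟩ :=
  out_sound (S := T5.ds_mp) T5.ok_mp (w := 39) (j := 3) (by decide +kernel)
theorem L01754 : Good (Phi V5.P V5.D (-1) 1) ⟨3, 4, 3, 0, 2, 3, 3, 6, 5, 2⟩ :=
  leafX_sound T5.ok_mp T5.Ymp.bz_eq (w := 214) (c := ⟨⟨.negSucc 1090, .negSucc 288, .negSucc 192, .ofNat 304, .negSucc 34, .negSucc 343⟩, ⟨.negSucc 7, .ofNat 77, .negSucc 149, .negSucc 53, .ofNat 25, .ofNat 20⟩, ⟨.ofNat 581, .ofNat 141, .ofNat 75, .negSucc 288, .negSucc 3, .ofNat 159⟩, ⟨.negSucc 2407, .negSucc 356, .negSucc 279, .ofNat 541, .negSucc 71, .negSucc 684⟩, ⟨.negSucc 1282, .negSucc 15, .negSucc 85, .negSucc 364, .ofNat 287, .ofNat 118⟩, .ofNat 476, .ofNat 39, .ofNat 0, .ofNat 39, .ofNat 2114, .ofNat 0, .ofNat 484, .ofNat 24, .negSucc 681, .ofNat 0, .ofNat 128, .ofNat 53, .ofNat 0, .ofNat 0, .ofNat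 847, .ofNat 1807, .ofNat 0, .ofNat 0, .ofNat 0, .ofNat 0, .ofNat 0, .ofNat 0, .ofNat 0, .ofNat 0, .ofNat 0, .ofNat 0, .ofNat 0, .ofNat 0, .ofNat 0, .ofNat 0, .ofNat 0, .ofNat 0⟩)
    (by decide +kernel)
theorem L01755 : Good (Phi V5.P V5.D (-1) 1) ⟨3, 4, 3, 0, 2, 3, 3, 6, 5, 3⟩ :=
  leafX_sound T5.ok_mp T5.Ymp.bz_eq (w := 214) (c := ⟨⟨.negSucc 1670, .negSucc 242, .negSucc 42, .ofNat 531, .ofNat 166, .negSucc 23⟩, ⟨.negSucc 2, .ofNat 104, .negSucc 160, .negSucc 46, .ofNat 26, .ofNat 15⟩, ⟨.ofNat 879, .ofNat 120, .negSucc 11, .negSucc 416, .negSucc 136, .negSucc 36⟩, ⟨.negSucc 3646, .negSucc 157, .negSucc 17, .ofNat 1047, .ofNat 350, .negSucc 68⟩, ⟨.negSucc 1099, .negSucc 182, .ofNat 10, .negSucc 399, .ofNat 417, .ofNat 243⟩, .ofNat 499, .ofNat 64, .ofNat 0, .ofNat 64, .ofNat 2671, .ofNat 0, .ofNat 562, .negSucc 2, .negSucc 741, .ofNat 0, .ofNat 128, .ofNat 61,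 .ofNat 0, .ofNat 0, .ofNat 1081, .ofNat 1402, .ofNat 0, .ofNat 0, .ofNat 0, .ofNat 0, .ofNat 0, .ofNat 0, .ofNat 0, .ofNat 0, .ofNat 0, .ofNat 0, .ofNat 0, .ofNat 0, .ofNat 0, .ofNat 0, .ofNat 0, .ofNat 0⟩)
    (by decide +kernel)
theorem L01756 : Good (Phi V5.P V5.D (-1) 1) ⟨3, 4, 3, 0, 2, 3, 3, 7, 4, 1⟩ :=
  leafX_sound T5.ok_mp T5.Ymp.bz_eq (w := 209) (c := ⟨⟨.negSucc 1412, .negSucc 142, .negSucc 37, .ofNat 479, .ofNat 138, .negSucc 87⟩, ⟨.negSucc 11, .ofNat 76, .negSucc 137, .negSucc 43, .ofNat 51, .ofNat 58⟩, ⟨.ofNat 763, .ofNat 0, .negSucc 35, .negSucc 357, .negSucc 145, .negSucc 50⟩, ⟨.negSucc 3056, .negSucc 37, .negSucc 46, .ofNat 936, .ofNat 291, .negSucc 188⟩, ⟨.negSucc 1034, .negSucc 288, .negSucc 41, .negSucc 368, .ofNat 772, .ofNat 839⟩, .ofNat 439, .ofNat 28, .ofNat 0, .ofNat 28, .ofNat 1564, .ofNat 0, .ofNat 662, .ofNat 37, .negSucc 809, .ofNat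 0, .ofNat 128, .ofNat 75, .ofNat 0, .ofNat 0, .ofNat 994, .ofNat 959, .ofNat 0, .ofNat 0, .ofNat 0, .ofNat 0, .ofNat 0, .ofNat 387750890262843581648914263094410679943168, .ofNat 0, .ofNat 0, .ofNat 0, .ofNat 76632133588241255032292461030252633653248, .ofNat 0, .ofNat 0, .ofNat 0, .ofNat 0, .ofNat 0, .ofNat 0⟩)
    (by decide +kernel)
theorem L01757 : Good (Phi V5.P V5.D (-1) 1) ⟨4, 10, 3, 0, 3, 6, 3, 6, 5, 2⟩ :=
  leafX_sound T5.ok_mp T5.Ymp.bz_eq (w := 233) (c := ⟨⟨.negSucc 1423, .negSucc 621, .negSucc 387, .ofNat 478, .negSucc 110, .negSucc 482⟩, ⟨.ofNat 56, .ofNat 131, .negSucc 139, .negSucc 89, .ofNat 47, .ofNat 79⟩, ⟨.ofNat 752, .ofNat 492, .ofNat 284, .negSucc 436, .ofNat 60, .ofNat 290⟩, ⟨.negSucc 2902, .negSucc 947, .negSucc 626, .ofNat 845, .negSucc 184, .negSucc 875⟩, ⟨.negSucc 1360, .ofNat 73, .ofNat 129, .negSucc 362, .ofNat 353, .ofNat 245⟩, .ofNat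 410, .ofNat 108, .ofNat 0, .ofNat 108, .ofNat 1256, .ofNat 0, .ofNat 548, .negSucc 29, .negSucc 1436, .ofNat 0, .ofNat 128, .ofNat 222, .ofNat 0, .ofNat 0, .ofNat 1474, .ofNat 2150, .ofNat 0, .ofNat 0, .ofNat 0, .ofNat 0, .ofNat 0, .ofNat 0, .ofNat 0, .ofNat 0, .ofNat 0, .ofNat 0, .ofNat 0, .ofNat 0, .ofNat 0, .ofNat 0, .ofNat 150226867528528478396544875501502885183619072, .ofNat 0⟩)
    (by decide +kernel)
theorem L01758 : Good (Phi V5.P V5.D (-1) 1) ⟨4, 10, 3, 0, 3, 7, 3, 6, 5, 2⟩ :=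
  leafX_sound T5.ok_mp T5.Ymp.bz_eq (w := 233) (c := ⟨⟨.negSucc 1479, .negSucc 190, .negSucc 107, .ofNat 317, .ofNat 244, .negSucc 125⟩, ⟨.ofNat 60, .ofNat 18, .negSucc 162, .negSucc 58, .negSucc 4, .ofNat 28⟩, ⟨.ofNat 810, .ofNat 93, .ofNat 4, .negSucc 258, .negSucc 231, .negSucc 6⟩, ⟨.negSucc 2986, .negSucc 256, .negSucc 97, .ofNat 555, .ofNat 458, .negSucc 222⟩, ⟨.negSucc 1479, .negSucc 129, .negSucc 65, .negSucc 300, .ofNat 193, .ofNat 155⟩, .ofNat 468, .ofNat 180, .ofNat 0, .ofNat 180, .ofNat 1931, .ofNat 0, .ofNat 476, .negSucc 42, .negSucc 1115, .ofNat 0, .ofNat 128, .ofNat 173, .ofNat 0, .ofNat 0, .ofNat 1170, .ofNat 2017, .ofNat 0, .ofNat 0, .ofNat 0, .ofNat 0, .ofNat 0, .ofNat 0, .ofNat 16755387903149873385031052433169289584836608, .ofNat 0, .ofNat 0, .ofNat 0, .ofNat 0, .ofNat 0, .ofNat 0, .ofNat 0, .ofNat 99820553405554404137495634767792131610247168,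 .ofNat 0⟩)
    (by decide +kernel)
theorem L01759 : Good (Phi V5.P V5.D (-1) 1) ⟨4, 10, 3, 0, 2, 3, 4, 14, 5, 2⟩ :=
  leafX_sound T5.ok_mp T5.Ymp.bz_eq (w := 223) (c := ⟨⟨.negSucc 2163, .negSucc 154, .negSucc 108, .ofNat 1204, .ofNat 140, .ofNat 89⟩, ⟨.ofNat 178, .ofNat 54, .negSucc 156, .negSucc 204, .ofNat 10, .ofNat 16⟩, ⟨.ofNat 1364, .ofNat 51, .ofNat 5, .negSucc 1006, .negSucc 134, .negSucc 180⟩, ⟨.negSucc 4178, .negSucc 167, .negSucc 165, .ofNat 2152, .ofNat 276, .ofNat 175⟩, ⟨.negSucc 936, .negSucc 90, .ofNat 69, .negSucc 738, .ofNat 254, .ofNat 263⟩, .ofNat 445, .ofNat 145, .ofNat 0, .ofNat 145, .ofNat 1609, .ofNat 0, .ofNat 502, .negSucc 25, .negSucc 1475, .ofNat 0, .ofNat 128, .ofNat 228, .ofNat 0, .ofNat 0, .ofNat 1551, .ofNat 1180, .ofNat 0, .ofNat 0, .ofNat 0, .ofNat 0, .ofNat 0, .ofNat 0, .ofNat 11398361470363019894742513514527496077312, .ofNat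 0, .ofNat 0, .ofNat 0, .ofNat 1825219807636800527009185223061251555328, .ofNat 0, .ofNat 0, .ofNat 0, .ofNat 140885861725347590071146675913885510270976, .ofNat 0⟩)
    (by decide +kernel)
theorem L01760 : Good (Phi V5.P V5.D (-1) 1) ⟨4, 10, 3, 0, 2, 3, 4, 15, 5, 2⟩ :=
  leafX_sound T5.ok_mp T5.Ymp.bz_eq (w := 222) (c := ⟨⟨.negSucc 2077, .negSucc 128, .negSucc 43, .ofNat 1287, .ofNat 147, .ofNat 136⟩, ⟨.ofNat 181, .ofNat 52, .negSucc 146, .negSucc 213, .ofNat 19, .ofNat 30⟩, ⟨.ofNat 1265, .ofNat 34, .negSucc 36, .negSucc 1089, .negSucc 147, .negSucc 188⟩, ⟨.negSucc 4001, .negSucc 105, .negSucc 53, .ofNat 2293, .ofNat 302, .ofNat 286⟩, ⟨.negSucc 663, .negSucc 132, .ofNat 51, .negSucc 711, .ofNat 247, .ofNat 396⟩, .ofNat 466, .ofNat 171, .ofNat 0, .ofNat 171, .ofNat 1895, .ofNat 0, .ofNat 445, .negSucc 14, .negSucc 1197, .ofNat 0, .ofNat 128, .ofNat 183, .ofNat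 0, .ofNat 0, .ofNat 1235, .ofNat 793, .ofNat 0, .ofNat 0, .ofNat 0, .ofNat 0, .ofNat 0, .ofNat 155974828816697059520824493448795363351724032, .ofNat 0, .ofNat 0, .ofNat 0, .ofNat 30367705701030245042759804764684444028108800, .ofNat 0, .ofNat 0, .ofNat 0, .ofNat 5401343470986484401617576109802709353234432, .ofNat 63796726450812225645467640005175069900800, .ofNat 0⟩)
    (by decide +kernel)
theorem L01761 : Good (Phi V5.P V5.D (-1) 1) ⟨5, 22, 3, 0, 3, 6, 3, 6, 5, 2⟩ :=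
  leafX_sound T5.ok_mp T5.Ymp.bz_eq (w := 238) (c := ⟨⟨.negSucc 2213, .negSucc 460, .negSucc 340, .ofNat 782, .negSucc 149, .negSucc 446⟩, ⟨.ofNat 214, .ofNat 116, .negSucc 135, .negSucc 175, .ofNat 66, .ofNat 99⟩, ⟨.ofNat 1408, .ofNat 352, .ofNat 241, .negSucc 701, .ofNat 79, .ofNat 237⟩, ⟨.negSucc 4162, .negSucc 688, .negSucc 487, .ofNat 1313, .negSucc 214, .negSucc 754⟩, ⟨.negSucc 1288, .negSucc 3, .ofNat 104, .negSucc 408, .ofNat 365, .ofNat 280⟩, .ofNat 473, .ofNat 225, .ofNat 0, .ofNat 225, .ofNat 1676, .ofNat 0, .ofNat 425, .negSucc 59, .negSucc 1934, .ofNat 0, .ofNat 128, .ofNat 376, .ofNat 0, .ofNat 0, .ofNat 1863, .ofNat 3069, .ofNat 0, .ofNat 0, .ofNat 351491377300306517428702071431329073856512, .ofNat 0, .ofNat 0, .ofNat 0, .ofNat 3418201879349740410044975279974012285878272, .ofNat 0, .ofNat 0, .ofNat 0, .ofNat 18696849068888482478130108756442099444875264,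 .ofNat 0, .ofNat 0, .ofNat 0, .ofNat 82751923580037025625300349026323854291632128, .ofNat 0⟩)
    (by decide +kernel)
theorem L01762 : Good (Phi V5.P V5.D (-1) 1) ⟨5, 23, 3, 0, 3, 6, 3, 6, 5, 2⟩ :=
  out_sound (S := T5.ds_mp) T5.ok_mp (w := 57) (j := 3) (by decide +kernel)
theorem L01763 : Good (Phi V5.P V5.D (-1) 1) ⟨4, 11, 3, 0, 3, 6, 3, 7, 5, 2⟩ :=
  leafX_sound T5.ok_mp T5.Ymp.bz_eq (w := 233) (c := ⟨⟨.negSucc 2854, .negSucc 694, .negSucc 403, .ofNat 1124, .ofNat 507, .ofNat 117⟩, ⟨.ofNat 365, .ofNat 193, .negSucc 146, .negSucc 244, .negSucc 19, .ofNat 12⟩, ⟨.ofNat 1924, .ofNat 547, .ofNat 329, .negSucc 1041, .negSucc 479, .negSucc 224⟩, ⟨.negSucc 5235, .negSucc 968, .negSucc 649, .ofNat 1910, .ofNat 966, .ofNat 246⟩, ⟨.negSucc 894, .ofNat 35, .ofNat 215, .negSucc 490, .ofNat 521, .ofNat 283⟩, .ofNat 469, .ofNat 255, .ofNat 0, .ofNat 255, .ofNat 1688, .ofNat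 0, .ofNat 395, .negSucc 67, .negSucc 1079, .ofNat 0, .ofNat 128, .ofNat 219, .ofNat 0, .ofNat 0, .ofNat 1067, .ofNat 947, .ofNat 0, .ofNat 0, .ofNat 823774798148903125841213598523717599625216, .ofNat 0, .ofNat 0, .ofNat 0, .ofNat 17931747202207811498344361541243471688368128, .ofNat 0, .ofNat 0, .ofNat 0, .ofNat 28948543870640959264053036892778162630426624, .ofNat 0, .ofNat 0, .ofNat 0, .ofNat 102692971228563597058572020562014506267443200, .ofNat 0⟩)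
    (by decide +kernel)
theorem L01764 : Good (Phi V5.P V5.D (-1) 1) ⟨4, 11, 3, 0, 3, 7, 3, 6, 5, 2⟩ :=
  leafX_sound T5.ok_mp T5.Ymp.bz_eq (w := 234) (c := ⟨⟨.negSucc 1721, .negSucc 324, .negSucc 144, .ofNat 487, .ofNat 290, .negSucc 56⟩, ⟨.ofNat 114, .ofNat 21, .negSucc 163, .negSucc 104, .negSucc 28, .ofNat 16⟩, ⟨.ofNat 982, .ofNat 133, .ofNat 2, .negSucc 381, .negSucc 290, .negSucc 72⟩, ⟨.negSucc 3289, .negSucc 541, .negSucc 201, .ofNat 822, .ofNat 520, .negSucc 109⟩, ⟨.negSucc 1487, .negSucc 222, .negSucc 104, .negSucc 248, .ofNat 156, .ofNat 34⟩, .ofNat 443, .ofNat 209, .ofNat 0, .ofNat 209, .ofNat 1440, .ofNat 0, .ofNat 725, .negSucc 71, .negSucc 1560, .ofNat 0, .ofNat 128, .ofNat 322, .ofNat 0, .ofNat 0, .ofNat 1517, .ofNat 3344, .ofNat 0, .ofNat 0, .ofNat 0, .ofNat 0, .ofNat 0, .ofNat 0, .ofNat 122701890404754477817877359484310137312641024, .ofNat 0,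 .ofNat 0, .ofNat 0, .ofNat 39991954475889898409073668737749592370577408, .ofNat 0, .ofNat 0, .ofNat 0, .ofNat 244949520875859939030047761272762639616835584, .ofNat 0⟩)
    (by decide +kernel)
theorem L01765 : Good (Phi V5.P V5.D (-1) 1) ⟨4, 11, 3, 0, 3, 7, 3, 7, 5, 2⟩ :=
  leafX_sound T5.ok_mp T5.Ymp.bz_eq (w := 233) (c := ⟨⟨.negSucc 1835, .ofNat 75, .negSucc 30, .ofNat 707, .ofNat 579, .ofNat 220⟩, ⟨.ofNat 137, .negSucc 18, .negSucc 150, .negSucc 150, .negSucc 18, .ofNat 0⟩, ⟨.ofNat 947, .negSucc 95, .negSucc 58, .negSucc 506, .negSucc 499, .negSucc 229⟩, ⟨.negSucc 3498, .ofNat 203, .ofNat 26, .ofNat 1202, .ofNat 1113, .ofNat 432⟩, ⟨.negSucc 1416, .negSucc 98, .negSucc 54, .negSucc 303, .ofNat 538, .ofNat 283⟩, .ofNat 493, .ofNat 305, .ofNat 0, .ofNat 305, .ofNat 1934, .ofNat 0, .ofNat 606, .negSucc 74, .negSucc 967, .ofNat 0, .ofNat 128, .ofNat 200, .ofNat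 0, .ofNat 0, .ofNat 972, .ofNat 1169, .ofNat 0, .ofNat 0, .ofNat 0, .ofNat 0, .ofNat 0, .ofNat 0, .ofNat 48265855528551863182892923604724581159403520, .ofNat 0, .ofNat 0, .ofNat 49053499029020095269943431390859518835022626816, .ofNat 36166620462986120367867223808230257869193216, .ofNat 0, .ofNat 0, .ofNat 8911344207860349890169083632555944777913204736, .ofNat 74230218997457156636839547566467759722201088, .ofNat 0⟩)
    (by decide +kernel)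
theorem L01766 : Good (Phi V5.P V5.D (-1) 1) ⟨4, 10, 3, 0, 2, 3, 3, 6, 5, 3⟩ :=
  leafX_sound T5.ok_mp T5.Ymp.bz_eq (w := 219) (c := ⟨⟨.negSucc 2515, .negSucc 230, .negSucc 103, .ofNat 1270, .ofNat 375, .ofNat 177⟩, ⟨.ofNat 190, .ofNat 73, .negSucc 168, .negSucc 197, .ofNat 3, .ofNat 14⟩, ⟨.ofNat 1525, .ofNat 109, .ofNat 34, .negSucc 1019, .negSucc 311, .negSucc 172⟩, ⟨.negSucc 4908, .negSucc 263, .negSucc 130, .ofNat 2311, .ofNat 734, .ofNat 371⟩, ⟨.negSucc 1043, .negSucc 1, .ofNat 3, .negSucc 738, .ofNat 425, .ofNat 186⟩, .ofNat 410, .ofNat 104, .ofNat 0, .ofNat 104, .ofNat 1259, .ofNat 0, .ofNat 489, .negSucc 36, .negSucc 770, .ofNat 0, .ofNat 128, .ofNat 129, .ofNat 0, .ofNat 0, .ofNat 906, .ofNat 1200, .ofNat 0, .ofNat 0, .ofNat 0, .ofNat 0, .ofNat 0, .ofNat 0, .ofNat 1353264346352053238223803169193920036864, .ofNat 0, .ofNat 0, .ofNat 0, .ofNat 0, .ofNat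 0, .ofNat 0, .ofNat 0, .ofNat 3572420158086975068401881148953689325568, .ofNat 0⟩)
    (by decide +kernel)
theorem L01767 : Good (Phi V5.P V5.D (-1) 1) ⟨4, 10, 3, 0, 2, 3, 3, 7, 5, 3⟩ :=
  leafX_sound T5.ok_mp T5.Ymp.bz_eq (w := 218) (c := ⟨⟨.negSucc 2322, .negSucc 88, .negSucc 52, .ofNat 1333, .ofNat 552, .ofNat 322⟩, ⟨.ofNat 206, .ofNat 58, .negSucc 144, .negSucc 207, .ofNat 35, .negSucc 6⟩, ⟨.ofNat 1338, .ofNat 27, .negSucc 25, .negSucc 1021, .negSucc 420, .negSucc 290⟩, ⟨.negSucc 4467, .negSucc 23, .negSucc 94, .ofNat 2423, .ofNat 1126, .ofNat 630⟩, ⟨.negSucc 732, .negSucc 35, .ofNat 57, .negSucc 571, .ofNat 772, .ofNat 342⟩, .ofNat 410, .ofNat 111, .ofNat 0, .ofNat 111, .ofNat 1256, .ofNat 0, .ofNat 487, .negSucc 30, .negSucc 1045, .ofNat 0, .ofNat 128, .ofNat 180, .ofNat 0, .ofNat 0, .ofNat 1244, .ofNat 458, .ofNat 0, .ofNat 0, .ofNat 0, .ofNat 0, .ofNat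 0, .ofNat 14884501729356646721060275483488403255721984, .ofNat 722526758434544530585017942185701539840, .ofNat 0, .ofNat 0, .ofNat 6625255102928114314891279714081520081698816, .ofNat 0, .ofNat 0, .ofNat 0, .ofNat 0, .ofNat 0, .ofNat 0⟩)
    (by decide +kernel)
theorem L01768 : Good (Phi V5.P V5.D (-1) 1) ⟨4, 11, 3, 0, 3, 6, 2, 3, 5, 3⟩ :=
  leafX_sound T5.ok_mp T5.Ymp.bz_eq (w := 229) (c := ⟨⟨.negSucc 2920, .negSucc 879, .negSucc 494, .ofNat 920, .ofNat 865, .ofNat 244⟩, ⟨.ofNat 360, .ofNat 209, .negSucc 99, .negSucc 208, .negSucc 35, .negSucc 13⟩, ⟨.ofNat 1858, .ofNat 676, .ofNat 404, .negSucc 820, .negSucc 789, .negSucc 283⟩, ⟨.negSucc 5365, .negSucc 1332, .negSucc 787, .ofNat 1542, .ofNat 1643, .ofNat 461⟩, ⟨.negSucc 994, .negSucc 21, .ofNat 138, .negSucc 495, .ofNat 834, .ofNat 220⟩, .ofNat 448, .ofNat 195, .ofNat 0, .ofNat 195, .ofNat 1356, .ofNat 0, .ofNat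 431, .negSucc 62, .negSucc 649, .ofNat 0, .ofNat 128, .ofNat 146, .ofNat 0, .ofNat 0, .ofNat 672, .ofNat 744, .ofNat 0, .ofNat 0, .ofNat 39790827578294055982016793589761792016384, .ofNat 0, .ofNat 0, .ofNat 0, .ofNat 2566736424904617308568213137795250718244864, .ofNat 0, .ofNat 0, .ofNat 7456091194339275596151624712647095101366992896, .ofNat 2200927680577058131350819248147511877042176, .ofNat 0, .ofNat 0, .ofNat 612433950557857683277853102242388077447217152, .ofNat 2573499083871099330557164401575277665189888, .ofNat 0⟩)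
    (by decide +kernel)
theorem L01769 : Good (Phi V5.P V5.D (-1) 1) ⟨4, 11, 3, 0, 3, 7, 2, 3, 5, 3⟩ :=
  leafX_sound T5.ok_mp T5.Ymp.bz_eq (w := 228) (c := ⟨⟨.negSucc 2058, .ofNat 40, .negSucc 49, .ofNat 738, .ofNat 982, .ofNat 201⟩, ⟨.ofNat 148, .ofNat 11, .negSucc 153, .negSucc 149, .negSucc 21, .ofNat 2⟩, ⟨.ofNat 1036, .negSucc 39, .negSucc 0, .negSucc 490, .negSucc 749, .negSucc 182⟩, ⟨.negSucc 3935, .ofNat 187, .ofNat 13, .ofNat 1269, .ofNat 1911, .ofNat 400⟩, ⟨.negSucc 1636, .ofNat 81, .ofNat 68, .negSucc 270, .ofNat 1085, .ofNat 282⟩, .ofNat 469, .ofNat 254, .ofNat 0, .ofNat 254, .ofNat 1682, .ofNat 0, .ofNat 377, .negSucc 90, .negSucc 495, .ofNat 0, .ofNat 128, .ofNat 108, .ofNat 0, .ofNat 0, .ofNat 572, .ofNat 762, .ofNat 0, .ofNat 0, .ofNat 0, .ofNat 0, .ofNat 0, .ofNat 8422315635307748982304053632940563003659517952, .ofNat 1550121336530683929388175058538885690687488,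 .ofNat 0, .ofNat 0, .ofNat 9055013980557111031036111582453116332880691200, .ofNat 1484653763139490340692221791856240130785280, .ofNat 0, .ofNat 0, .ofNat 3466465863437273673897683679099432713913892864, .ofNat 2039141786377822326360741826302312213118976, .ofNat 0⟩)
    (by decide +kernel)
theorem L01770 : Good (Phi V5.P V5.D (-1) 1) ⟨2, 3, 3, 0, 2, 3, 2, 3, 4, 1⟩ :=
  out_sound (S := T5.ds_mp) T5.ok_mp (w := 39) (j := 3) (by decide +kernel)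
theorem L01771 : Good (Phi V5.P V5.D (-1) 1) ⟨3, 4, 3, 0, 2, 3, 3, 6, 4, 2⟩ :=
  leafX_sound T5.ok_mp T5.Ymp.bz_eq (w := 209) (c := ⟨⟨.negSucc 1903, .negSucc 136, .ofNat 17, .ofNat 660, .ofNat 277, .ofNat 227⟩, ⟨.ofNat 9, .ofNat 112, .negSucc 154, .negSucc 43, .ofNat 31, .ofNat 32⟩, ⟨.ofNat 991, .ofNat 20, .negSucc 40, .negSucc 465, .negSucc 225, .negSucc 187⟩, ⟨.negSucc 4130, .ofNat 77, .ofNat 71, .ofNat 1333, .ofNat 568, .ofNat 476⟩, ⟨.negSucc 930, .negSucc 126, .negSucc 107, .negSucc 169, .ofNat 629, .ofNat 621⟩, .ofNat 441, .ofNat 30, .ofNat 0, .ofNat 30, .ofNat 1560, .ofNat 0, .ofNat 503, .negSucc 5, .negSucc 276, .ofNat 0, .ofNat 128, .ofNat 33, .ofNat 0, .ofNat 0, .ofNat 629, .ofNat 983, .ofNat 0, .ofNat 0, .ofNat 0, .ofNat 0, .ofNat 0, .ofNat 148656505413993303866737999851117667680256, .ofNat 0, .ofNat 0, .ofNat 0, .ofNat 63595339588979478177674008946294606790656,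 .ofNat 0, .ofNat 0, .ofNat 0, .ofNat 0, .ofNat 0, .ofNat 0⟩)
    (by decide +kernel)
theorem L01772 : Good (Phi V5.P V5.D (-1) 1) ⟨3, 4, 3, 0, 2, 3, 3, 7, 4, 2⟩ :=
  leafX_sound T5.ok_mp T5.Ymp.bz_eq (w := 209) (c := ⟨⟨.negSucc 1682, .negSucc 6, .ofNat 0, .ofNat 674, .ofNat 387, .ofNat 242⟩, ⟨.ofNat 15, .ofNat 91, .negSucc 119, .negSucc 19, .ofNat 77, .ofNat 51⟩, ⟨.ofNat 812, .negSucc 111, .negSucc 27, .negSucc 400, .negSucc 241, .negSucc 229⟩, ⟨.negSucc 3656, .ofNat 324, .ofNat 32, .ofNat 1354, .ofNat 778, .ofNat 512⟩, ⟨.negSucc 353, .negSucc 209, .negSucc 65, .negSucc 50, .ofNat 1045, .ofNat 675⟩, .ofNat 500, .ofNat 45, .ofNat 0, .ofNat 45, .ofNat 2660, .ofNat 0, .ofNat 500, .ofNat 0, .negSucc 438, .ofNat 0, .ofNat 128, .ofNat 37, .ofNat 0, .ofNat 0, .ofNat 857, .ofNat 816, .ofNat 0, .ofNat 0, .ofNat 0, .ofNat 0, .ofNat 0, .ofNat 236657952085920392701484401546857916923904,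 .ofNat 0, .ofNat 0, .ofNat 0, .ofNat 130616836038898565077040160098111031607296, .ofNat 0, .ofNat 0, .ofNat 0, .ofNat 0, .ofNat 0, .ofNat 0⟩)
    (by decide +kernel)
theorem L01773 : Good (Phi V5.P V5.D (-1) 1) ⟨4, 10, 3, 0, 2, 3, 2, 3, 4, 2⟩ :=
  leafX_sound T5.ok_mp T5.Ymp.bz_eq (w := 209) (c := ⟨⟨.negSucc 2458, .negSucc 83, .ofNat 23, .ofNat 1219, .ofNat 826, .ofNat 388⟩, ⟨.ofNat 201, .ofNat 60, .negSucc 169, .negSucc 189, .ofNat 44, .ofNat 22⟩, ⟨.ofNat 1326, .ofNat 42, .negSucc 18, .negSucc 892, .negSucc 652, .negSucc 279⟩, ⟨.negSucc 4751, .negSucc 6, .ofNat 79, .ofNat 2221, .ofNat 1643, .ofNat 815⟩, ⟨.negSucc 979, .ofNat 85, .negSucc 89, .negSucc 562, .ofNat 1314, .ofNat 692⟩, .ofNat 409, .ofNat 100, .ofNat 0, .ofNat 100, .ofNat 1245, .ofNat 0, .ofNat 345, .negSucc 46, .negSucc 270, .ofNat 0, .ofNat 128, .ofNat 54, .ofNat 0, .ofNat 0, .ofNat 492, .ofNat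 338, .ofNat 0, .ofNat 0, .ofNat 3304139928294614608309323191812096, .ofNat 0, .ofNat 0, .ofNat 235576844080243444662311051437844740440064, .ofNat 868474666924022965695775363456565248, .ofNat 0, .ofNat 0, .ofNat 321380592716749088965664814846660801724416, .ofNat 1015822078220109779360847060252229632, .ofNat 0, .ofNat 0, .ofNat 34273275025216836685935298129619371163648, .ofNat 0, .ofNat 0⟩)
    (by decide +kernel)
theorem L01774 : Good (Phi V5.P V5.D (-1) 1) ⟨4, 11, 3, 0, 2, 3, 2, 3, 4, 2⟩ :=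
  leafX_sound T5.ok_mp T5.Ymp.bz_eq (w := 208) (c := ⟨⟨.negSucc 2579, .negSucc 328, .negSucc 227, .ofNat 1449, .ofNat 862, .ofNat 441⟩, ⟨.ofNat 309, .ofNat 120, .negSucc 152, .negSucc 304, .ofNat 0, .ofNat 2⟩, ⟨.ofNat 1436, .ofNat 179, .ofNat 199, .negSucc 1071, .negSucc 718, .negSucc 398⟩, ⟨.negSucc 4780, .negSucc 389, .negSucc 358, .ofNat 2503, .ofNat 1726, .ofNat 917⟩, ⟨.negSucc 955, .ofNat 63, .ofNat 114, .negSucc 629, .ofNat 1186, .ofNat 620⟩, .ofNat 407, .ofNat 158, .ofNat 0, .ofNat 158, .ofNat 1151, .ofNat 0, .ofNat 282, .negSucc 82, .negSucc 260, .ofNat 0, .ofNat 128, .ofNat 64, .ofNat 0, .ofNat 0, .ofNat 488, .ofNat 236, .ofNat 0, .ofNat 0, .ofNat 15537154132788292160582449060904960, .ofNat 0, .ofNat 0, .ofNat 128468617186044881989637958269188622516224, .ofNat 1944826188247817992963651129158139904, .ofNat 0, .ofNat 0, .ofNat 287988848016686876834627934844373266595840,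 .ofNat 2336938382849341251019407229372596224, .ofNat 0, .ofNat 0, .ofNat 112442043966735784502753071365689521995776, .ofNat 1639098502438707021231674910553669632, .ofNat 0⟩)
    (by decide +kernel)
theorem L01775 : Good (Phi V5.P V5.D (-1) 1) ⟨2, 2, 3, 0, 3, 6, 2, 3, 4, 3⟩ :=
  leafX_sound T5.ok_mp T5.Ymp.bz_eq (w := 213) (c := ⟨⟨.negSucc 1667, .negSucc 200, .ofNat 20, .ofNat 304, .ofNat 518, .ofNat 247⟩, ⟨.ofNat 7, .ofNat 260, .negSucc 137, .ofNat 0, .ofNat 92, .ofNat 38⟩, ⟨.ofNat 784, .negSucc 106, .ofNat 1, .negSucc 259, .negSucc 503, .negSucc 271⟩, ⟨.negSucc 3645, .ofNat 385, .ofNat 51, .ofNat 593, .ofNat 1068, .ofNat 528⟩, ⟨.negSucc 494, .negSucc 176, .ofNat 23, .ofNat 151, .ofNat 1410, .ofNat 533⟩, .ofNat 427, .ofNat 65, .ofNat 0, .ofNat 65, .ofNat 1415, .ofNat 0, .ofNat 309, .negSucc 37, .negSucc 88, .ofNat 0, .ofNat 128, .ofNat 14, .ofNat 0, .ofNat 0,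 .ofNat 387, .ofNat 220, .ofNat 0, .ofNat 0, .ofNat 0, .ofNat 0, .ofNat 0, .ofNat 5706496355094180941803912272697734012600320, .ofNat 0, .ofNat 0, .ofNat 0, .ofNat 3693268617680760887669919367193168307027968, .ofNat 285561816512680986993365595501405092708352, .ofNat 0, .ofNat 0, .ofNat 6244681471357554059285137769784991979405312, .ofNat 218531569763178900629104847002726222004224, .ofNat 0⟩)
    (by decide +kernel)
theorem L01776 : Good (Phi V5.P V5.D (-1) 1) ⟨2, 2, 3, 0, 3, 7, 2, 3, 4, 3⟩ :=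
  leafX_sound T5.ok_mp T5.Ymp.bz_eq (w := 213) (c := ⟨⟨.negSucc 1416, .ofNat 152, .ofNat 42, .ofNat 334, .ofNat 483, .ofNat 178⟩, ⟨.ofNat 12, .ofNat 138, .negSucc 114, .negSucc 6, .ofNat 134, .ofNat 62⟩, ⟨.ofNat 557, .negSucc 331, .negSucc 32, .negSucc 102, .negSucc 316, .negSucc 204⟩, ⟨.negSucc 3104, .ofNat 838, .ofNat 115, .ofNat 686, .ofNat 1092, .ofNat 428⟩, ⟨.negSucc 419, .negSucc 390, .negSucc 117, .ofNat 100, .ofNat 1877, .ofNat 849⟩, .ofNat 315, .ofNat 30, .ofNat 0, .ofNat 30, .ofNat 654, .ofNat 0, .ofNat 290, .negSucc 23, .negSucc 65, .ofNat 0, .ofNat 128, .ofNat 18, .ofNat 0, .ofNat 0, .ofNat 291, .ofNat 224, .ofNat 0, .ofNat 0, .ofNat 0, .ofNat 0, .ofNat 0, .ofNat 5352693309121449728752610315589516162760704, .ofNat 0, .ofNat 0, .ofNat 0, .ofNat 4964211036979771175594348329352520626339840, .ofNat 0, .ofNat 0, .ofNat 0, .ofNat 6470257377667862416737547983402245774376960,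 .ofNat 55095972799552843324965301798354311708672, .ofNat 0⟩)
    (by decide +kernel)
theorem L01777 : Good (Phi V5.P V5.D (-1) 1) ⟨2, 3, 3, 0, 2, 3, 2, 3, 3, 1⟩ :=
  out_sound (S := T5.ds_mp) T5.ok_mp (w := 39) (j := 3) (by decide +kernel)
theorem L01778 : Good (Phi V5.P V5.D (-1) 1) ⟨3, 4, 3, 1, 2, 2, 2, 2, 4, 0⟩ :=
  leafX_sound T5.ok_mp T5.Ymp.bz_eq (w := 204) (c := ⟨⟨.ofNat 1261, .negSucc 21, .ofNat 59, .ofNat 638, .negSucc 1040, .negSucc 1960⟩, ⟨.negSucc 4, .negSucc 27, .negSucc 59, .ofNat 15, .negSucc 16, .negSucc 132⟩, ⟨.negSucc 895, .negSucc 67, .negSucc 45, .negSucc 519, .ofNat 569, .ofNat 1312⟩, ⟨.ofNat 2477, .negSucc 1, .ofNat 130, .ofNat 1349, .negSucc 2063, .negSucc 3980⟩, ⟨.negSucc 454, .negSucc 312, .ofNat 213, .negSucc 439, .negSucc 181, .negSucc 357⟩, .ofNat 442, .negSucc 73, .ofNat 0, .negSucc 73, .ofNat 1379, .ofNat 0, .ofNat 607, .ofNat 68,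 .negSucc 518, .ofNat 0, .ofNat 128, .ofNat 0, .ofNat 0, .ofNat 0, .ofNat 750, .ofNat 496, .ofNat 0, .ofNat 0, .ofNat 0, .ofNat 0, .ofNat 0, .ofNat 0, .ofNat 0, .ofNat 0, .ofNat 0, .ofNat 0, .ofNat 0, .ofNat 0, .ofNat 0, .ofNat 0, .ofNat 0, .ofNat 0⟩)
    (by decide +kernel)
theorem L01779 : Good (Phi V5.P V5.D (-1) 1) ⟨4, 8, 3, 1, 2, 3, 2, 2, 4, 0⟩ :=
  leafX_sound T5.ok_mp T5.Ymp.bz_eq (w := 209) (c := ⟨⟨.ofNat 1805, .negSucc 160, .negSucc 111, .negSucc 393, .negSucc 958, .negSucc 1785⟩, ⟨.ofNat 156, .negSucc 37, .negSucc 44, .ofNat 5, .negSucc 141, .negSucc 237⟩, ⟨.negSucc 1208, .ofNat 182, .ofNat 3, .ofNat 376, .ofNat 498, .ofNat 867⟩, ⟨.ofNat 3872, .negSucc 296, .negSucc 105, .negSucc 875, .negSucc 1994, .negSucc 3824⟩, ⟨.negSucc 551, .negSucc 174, .negSucc 115, .ofNat 260, .negSucc 624, .negSucc 571⟩, .ofNat 460, .negSucc 112, .ofNat 0, .negSucc 112, .ofNat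 1428, .ofNat 0, .ofNat 281, .ofNat 111, .negSucc 366, .ofNat 0, .ofNat 128, .ofNat 3, .ofNat 0, .ofNat 0, .ofNat 456, .ofNat 537, .ofNat 0, .ofNat 0, .ofNat 0, .ofNat 0, .ofNat 0, .ofNat 0, .ofNat 0, .ofNat 0, .ofNat 0, .ofNat 0, .ofNat 0, .ofNat 0, .ofNat 0, .ofNat 0, .ofNat 0, .ofNat 0⟩)
    (by decide +kernel)
theorem L01780 : Good (Phi V5.P V5.D (-1) 1) ⟨4, 9, 3, 1, 2, 3, 2, 2, 5, 0⟩ :=
  leafX_sound T5.ok_mp T5.Ymp.bz_eq (w := 214) (c := ⟨⟨.ofNat 2509, .ofNat 398, .ofNat 52, .negSucc 951, .negSucc 1414, .negSucc 1380⟩, ⟨.ofNat 43, .negSucc 103, .ofNat 22, .ofNat 24, .negSucc 113, .negSucc 80⟩, ⟨.negSucc 1709, .negSucc 383, .negSucc 170, .ofNat 962, .ofNat 752, .ofNat 809⟩, ⟨.ofNat 5029, .ofNat 585, .ofNat 258, .negSucc 1880, .negSucc 2751, .negSucc 2720⟩, ⟨.negSucc 554, .negSucc 78, .negSucc 617, .ofNat 568, .negSucc 803, .negSucc 429⟩, .ofNat 496, .negSucc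 73, .ofNat 0, .negSucc 73, .ofNat 2211, .ofNat 0, .ofNat 354, .ofNat 89, .negSucc 569, .ofNat 0, .ofNat 128, .ofNat 21, .ofNat 0, .ofNat 0, .ofNat 663, .ofNat 479, .ofNat 0, .ofNat 0, .ofNat 0, .ofNat 0, .ofNat 0, .ofNat 0, .ofNat 0, .ofNat 0, .ofNat 0, .ofNat 0, .ofNat 0, .ofNat 0, .ofNat 0, .ofNat 0, .ofNat 102955445869844431454409810204780658688, .ofNat 0⟩)
    (by decide +kernel)
theorem L01781 : Good (Phi V5.P V5.D (-1) 1) ⟨4, 9, 3, 1, 2, 3, 2, 2, 5, 1⟩ :=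
  leafX_sound T5.ok_mp T5.Ymp.bz_eq (w := 213) (c := ⟨⟨.ofNat 756, .ofNat 22, .negSucc 57, .negSucc 526, .negSucc 844, .negSucc 1060⟩, ⟨.negSucc 58, .negSucc 31, .negSucc 113, .ofNat 11, .negSucc 42, .negSucc 52⟩, ⟨.negSucc 706, .negSucc 52, .negSucc 61, .ofNat 488, .ofNat 497, .ofNat 629⟩, ⟨.ofNat 1500, .ofNat 53, .ofNat 21, .negSucc 1039, .negSucc 1685, .negSucc 2122⟩, ⟨.negSucc 1327, .negSucc 269, .negSucc 271, .ofNat 299, .negSucc 104, .negSucc 93⟩, .ofNat 463, .negSucc 59, .ofNat 0, .negSucc 59, .ofNat 1668, .ofNat 0, .ofNat 383, .ofNat 73, .negSucc 691, .ofNat 0, .ofNat 128, .ofNat 30, .ofNat 0, .ofNat 0, .ofNat 781, .ofNat 857, .ofNat 0, .ofNat 0, .ofNat 0, .ofNat 0, .ofNat 0, .ofNat 0, .ofNat 0, .ofNat 0, .ofNat 0, .ofNat 0, .ofNat 14398975443806664184461192910228946944, .ofNat 0, .ofNat 0, .ofNat 0, .ofNat 120622507242745209896656719422251073536, .ofNat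 0⟩)
    (by decide +kernel)
theorem L01782 : Good (Phi V5.P V5.D (-1) 1) ⟨4, 10, 3, 1, 2, 2, 2, 2, 4, 0⟩ :=
  leafX_sound T5.ok_mp T5.Ymp.bz_eq (w := 209) (c := ⟨⟨.ofNat 1126, .ofNat 484, .ofNat 254, .ofNat 1293, .negSucc 1144, .negSucc 2619⟩, ⟨.negSucc 55, .negSucc 171, .negSucc 104, .negSucc 130, .ofNat 43, .ofNat 37⟩, ⟨.negSucc 843, .negSucc 392, .negSucc 189, .negSucc 1060, .ofNat 649, .ofNat 1854⟩, ⟨.ofNat 2210, .ofNat 769, .ofNat 531, .ofNat 2355, .negSucc 2209, .negSucc 5010⟩, ⟨.negSucc 768, .negSucc 143, .ofNat 122, .negSucc 652, .ofNat 129, .negSucc 200⟩, .ofNat 407, .ofNat 27, .ofNat 0, .ofNat 27, .ofNat 1164, .ofNat 0, .ofNat 650, .ofNat 8, .negSucc 567, .ofNat 0, .ofNat 128, .ofNat 49, .ofNat 0, .ofNat 0, .ofNat 715, .ofNat 535, .ofNat 0, .ofNat 0, .ofNat 33933633674358909501533572573429760, .ofNat 0, .ofNat 0, .ofNat 0, .ofNat 0, .ofNat 0, .ofNat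 0, .ofNat 0, .ofNat 2007438350805822606014078906932396032, .ofNat 0, .ofNat 0, .ofNat 0, .ofNat 4031607347951730718717290257686986752, .ofNat 0⟩)
    (by decide +kernel)
theorem L01783 : Good (Phi V5.P V5.D (-1) 1) ⟨4, 11, 3, 1, 2, 2, 2, 2, 4, 0⟩ :=
  out_sound (S := T5.ds_mp) T5.ok_mp (w := 51) (j := 3) (by decide +kernel)
theorem L01784 : Good (Phi V5.P V5.D (-1) 1) ⟨4, 10, 3, 1, 3, 6, 2, 2, 5, 0⟩ :=
  leafX_sound T5.ok_mp T5.Ymp.bz_eq (w := 228) (c := ⟨⟨.ofNat 2712, .ofNat 1156, .ofNat 366, .ofNat 548, .negSucc 1799, .negSucc 1572⟩, ⟨.negSucc 139, .negSucc 271, .negSucc 3, .negSucc 19, .negSucc 7, .negSucc 31⟩, ⟨.negSucc 1922, .negSucc 1034, .negSucc 416, .negSucc 321, .ofNat 1001, .ofNat 1000⟩, ⟨.ofNat 5163, .ofNat 1801, .ofNat 781, .ofNat 1037, .negSucc 3395, .negSucc 2986⟩, ⟨.negSucc 843, .negSucc 556, .negSucc 441, .negSucc 78, .negSucc 451, .negSucc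 542⟩, .ofNat 458, .ofNat 48, .ofNat 0, .ofNat 48, .ofNat 1714, .ofNat 0, .ofNat 283, .ofNat 31, .negSucc 525, .ofNat 0, .ofNat 128, .ofNat 46, .ofNat 0, .ofNat 0, .ofNat 576, .ofNat 611, .ofNat 0, .ofNat 0, .ofNat 49637629630700862098065423866788898144256, .ofNat 0, .ofNat 0, .ofNat 0, .ofNat 0, .ofNat 0, .ofNat 0, .ofNat 0, .ofNat 2201475225969587104508960857470424663982080, .ofNat 0, .ofNat 0, .ofNat 0, .ofNat 2003274175945191196462778834590214853230592, .ofNat 0⟩)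
    (by decide +kernel)
theorem L01785 : Good (Phi V5.P V5.D (-1) 1) ⟨4, 10, 3, 1, 3, 6, 2, 2, 5, 1⟩ :=
  leafX_sound T5.ok_mp T5.Ymp.bz_eq (w := 227) (c := ⟨⟨.ofNat 1331, .ofNat 150, .negSucc 101, .ofNat 404, .negSucc 1428, .negSucc 1805⟩, ⟨.negSucc 237, .negSucc 69, .negSucc 54, .negSucc 72, .ofNat 95, .ofNat 103⟩, ⟨.negSucc 1198, .negSucc 167, .negSucc 37, .negSucc 316, .ofNat 967, .ofNat 1298⟩, ⟨.ofNat 2459, .ofNat 234, .negSucc 16, .ofNat 709, .negSucc 2693, .negSucc 3375⟩, ⟨.negSucc 1800, .negSucc 262, .negSucc 383, .negSucc 372, .ofNat 377, .ofNat 255⟩, .ofNat 406, .ofNat 30, .ofNat 0, .ofNat 30, .ofNat 1165, .ofNat 0, .ofNat 258, .ofNat 19, .negSucc 418, .ofNat 0, .ofNat 128, .ofNat 42, .ofNat 0, .ofNat 0, .ofNat 428, .ofNat 479, .ofNat 0, .ofNat 0, .ofNat 0, .ofNat 0, .ofNat 0, .ofNat 0, .ofNat 0, .ofNat 0, .ofNat 0, .ofNat 0, .ofNat 0, .ofNat 0, .ofNat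 0, .ofNat 0, .ofNat 821338900560009887588925473227261255614464, .ofNat 0⟩)
    (by decide +kernel)
theorem L01786 : Good (Phi V5.P V5.D (-1) 1) ⟨4, 11, 3, 1, 3, 6, 2, 2, 4, 0⟩ :=
  out_sound (S := T5.ds_mp) T5.ok_mp (w := 51) (j := 3) (by decide +kernel)
theorem L01787 : Good (Phi V5.P V5.D (-1) 1) ⟨4, 10, 3, 1, 3, 7, 2, 2, 5, 0⟩ :=
  leafX_sound T5.ok_mp T5.Ymp.bz_eq (w := 228) (c := ⟨⟨.ofNat 3153, .ofNat 94, .negSucc 22, .negSucc 1708, .negSucc 1433, .negSucc 1462⟩, ⟨.negSucc 129, .negSucc 150, .negSucc 57, .ofNat 176, .negSucc 75, .negSucc 12⟩, ⟨.negSucc 2146, .negSucc 79, .negSucc 85, .ofNat 1444, .ofNat 749, .ofNat 836⟩, ⟨.ofNat 5861, .ofNat 97, .ofNat 197, .negSucc 3152, .negSucc 2716, .negSucc 2762⟩, ⟨.negSucc 615, .negSucc 61, .negSucc 673, .ofNat 970, .negSucc 995, .negSucc 391⟩, .ofNat 457, .ofNat 52, .ofNat 0, .ofNat 52, .ofNat 1696, .ofNat 0, .ofNat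 191, .ofNat 45, .negSucc 466, .ofNat 0, .ofNat 128, .ofNat 53, .ofNat 0, .ofNat 0, .ofNat 482, .ofNat 369, .ofNat 0, .ofNat 0, .ofNat 20870654596594996614114053821411163635712, .ofNat 0, .ofNat 0, .ofNat 0, .ofNat 101182076556497075469776063576460274696192, .ofNat 0, .ofNat 0, .ofNat 0, .ofNat 796517684124503785099192474773415104872448, .ofNat 0, .ofNat 0, .ofNat 0, .ofNat 1255876163259017813520077661391127779999744, .ofNat 0⟩)
    (by decide +kernel)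
theorem L01788 : Good (Phi V5.P V5.D (-1) 1) ⟨4, 10, 3, 1, 3, 7, 2, 2, 5, 1⟩ :=
  leafX_sound T5.ok_mp T5.Ymp.bz_eq (w := 228) (c := ⟨⟨.ofNat 1074, .negSucc 17, .ofNat 91, .negSucc 1192, .negSucc 733, .negSucc 1150⟩, ⟨.negSucc 189, .negSucc 7, .negSucc 96, .ofNat 146, .negSucc 53, .ofNat 1⟩, ⟨.negSucc 883, .negSucc 0, .negSucc 160, .ofNat 936, .ofNat 358, .ofNat 647⟩, ⟨.ofNat 1926, .ofNat 7, .ofNat 345, .negSucc 2198, .negSucc 1404, .negSucc 2190⟩, ⟨.negSucc 1429, .ofNat 23, .negSucc 390, .ofNat 881, .negSucc 657, .negSucc 189⟩, .ofNat 457, .ofNat 49, .ofNat 0, .ofNat 49, .ofNat 1698, .ofNat 0, .ofNat 317, .ofNat 26, .negSucc 804, .ofNat 0, .ofNat 128, .ofNat 89, .ofNat 0, .ofNat 0, .ofNat 808, .ofNat 863, .ofNat 0, .ofNat 0, .ofNat 0, .ofNat 0, .ofNat 0, .ofNat 0, .ofNat 404105858543196325118826346649492744306688, .ofNat 0, .ofNat 0, .ofNat 0, .ofNat 728743660379441731793246892133785037438976,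 .ofNat 0, .ofNat 0, .ofNat 0, .ofNat 2698626723345570833860828788588787722616832, .ofNat 0⟩)
    (by decide +kernel)
theorem L01789 : Good (Phi V5.P V5.D (-1) 1) ⟨4, 11, 3, 1, 3, 7, 2, 2, 4, 0⟩ :=
  out_sound (S := T5.ds_mp) T5.ok_mp (w := 51) (j := 3) (by decide +kernel)
theorem L01790 : Good (Phi V5.P V5.D (-1) 1) ⟨2, 3, 3, 1, 1, 1, 2, 2, 4, 0⟩ :=
  out_sound (S := T5.ds_mp) T5.ok_mp (w := 39) (j := 3) (by decide +kernel)
theorem L01791 : Good (Phi V5.P V5.D (-1) 1) ⟨3, 4, 3, 1, 2, 2, 2, 2, 4, 1⟩ :=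
  leafX_sound T5.ok_mp T5.Ymp.bz_eq (w := 204) (c := ⟨⟨.negSucc 879, .negSucc 694, .negSucc 165, .negSucc 41, .negSucc 59, .negSucc 816⟩, ⟨.negSucc 134, .ofNat 127, .negSucc 183, .negSucc 43, .ofNat 13, .negSucc 5⟩, ⟨.ofNat 385, .ofNat 582, .ofNat 133, .negSucc 199, .ofNat 52, .ofNat 642⟩, ⟨.negSucc 1961, .negSucc 990, .negSucc 284, .negSucc 42, .negSucc 169, .negSucc 1720⟩, ⟨.negSucc 1055, .ofNat 160, .ofNat 51, .negSucc 547, .ofNat 297, .ofNat 336⟩, .ofNat 442, .negSucc 65, .ofNat 0, .negSucc 65, .ofNat 1371, .ofNat 0, .ofNat 510, .ofNat 49, .negSucc 418, .ofNat 0, .ofNat 128, .ofNat 11, .ofNat 0, .ofNat 0, .ofNat 713, .ofNat 880, .ofNat 0, .ofNat 0, .ofNat 0, .ofNat 0, .ofNat 0, .ofNat 0, .ofNat 0, .ofNat 0, .ofNat 0, .ofNat 0, .ofNat 0, .ofNat 0, .ofNat 0, .ofNat 0, .ofNat 0, .ofNat 0⟩)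
    (by decide +kernel)
theorem L01792 : Good (Phi V5.P V5.D (-1) 1) ⟨3, 4, 3, 1, 2, 3, 3, 4, 5, 2⟩ :=
  leafX_sound T5.ok_mp T5.Ymp.bz_eq (w := 213) (c := ⟨⟨.negSucc 464, .negSucc 574, .negSucc 240, .negSucc 177, .negSucc 70, .negSucc 840⟩, ⟨.negSucc 129, .ofNat 58, .negSucc 160, .negSucc 5, .negSucc 10, .negSucc 41⟩, ⟨.ofNat 9, .ofNat 462, .ofNat 124, .ofNat 69, .ofNat 56, .ofNat 535⟩, ⟨.negSucc 1071, .negSucc 879, .negSucc 340, .negSucc 413, .negSucc 130, .negSucc 1722⟩, ⟨.negSucc 1459, .ofNat 7, .negSucc 63, .ofNat 149, .negSucc 90, .ofNat 54⟩, .ofNat 506, .negSucc 123, .ofNat 0, .negSucc 123, .ofNat 2191, .ofNat 0, .ofNat 452, .ofNat 77, .negSucc 495, .ofNat 0, .ofNat 128, .ofNat 8, .ofNat 0, .ofNat 0, .ofNat 651, .ofNat 1240, .ofNat 0, .ofNat 0, .ofNat 0, .ofNat 0, .ofNat 0, .ofNat 0, .ofNat 0, .ofNat 0, .ofNat 0, .ofNat 0, .ofNat 0, .ofNat 0, .ofNat 0,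 .ofNat 0, .ofNat 0, .ofNat 0⟩)
    (by decide +kernel)
theorem L01793 : Good (Phi V5.P V5.D (-1) 1) ⟨3, 4, 3, 1, 3, 6, 3, 5, 5, 2⟩ :=
  leafX_sound T5.ok_mp T5.Ymp.bz_eq (w := 228) (c := ⟨⟨.negSucc 738, .negSucc 599, .negSucc 224, .ofNat 128, .negSucc 104, .negSucc 676⟩, ⟨.negSucc 151, .ofNat 60, .negSucc 166, .negSucc 11, .ofNat 13, .negSucc 17⟩, ⟨.ofNat 182, .ofNat 458, .ofNat 133, .negSucc 111, .ofNat 64, .ofNat 454⟩, ⟨.negSucc 1636, .negSucc 933, .negSucc 327, .ofNat 288, .negSucc 227, .negSucc 1411⟩, ⟨.negSucc 1486, .ofNat 18, .ofNat 8, .negSucc 226, .ofNat 146, .ofNat 223⟩, .ofNat 440, .negSucc 65, .ofNat 0, .negSucc 65, .ofNat 1358, .ofNat 0, .ofNat 533, .ofNat 70, .negSucc 745, .ofNat 0, .ofNat 128, .ofNat 26, .ofNat 0, .ofNat 0, .ofNat 915, .ofNat 2029, .ofNat 0, .ofNat 0, .ofNat 0, .ofNat 0, .ofNat 0, .ofNat 0, .ofNat 0, .ofNat 0, .ofNat 0, .ofNat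 0, .ofNat 0, .ofNat 0, .ofNat 0, .ofNat 0, .ofNat 0, .ofNat 0⟩)
    (by decide +kernel)
theorem L01794 : Good (Phi V5.P V5.D (-1) 1) ⟨3, 4, 3, 1, 3, 7, 3, 5, 5, 2⟩ :=
  leafX_sound T5.ok_mp T5.Ymp.bz_eq (w := 228) (c := ⟨⟨.negSucc 793, .negSucc 381, .negSucc 184, .negSucc 114, .negSucc 31, .negSucc 505⟩, ⟨.negSucc 152, .ofNat 47, .negSucc 161, .negSucc 5, .negSucc 2, .negSucc 26⟩, ⟨.ofNat 257, .ofNat 285, .ofNat 66, .ofNat 35, .negSucc 4, .ofNat 286⟩, ⟨.negSucc 1731, .negSucc 519, .negSucc 250, .negSucc 227, .negSucc 70, .negSucc 1050⟩, ⟨.negSucc 1550, .negSucc 87, .ofNat 20, .negSucc 16, .negSucc 31, .ofNat 54⟩, .ofNat 439, .negSucc 65, .ofNat 0, .negSucc 65, .ofNat 1342, .ofNat 0, .ofNat 384, .ofNat 75, .negSucc 814, .ofNat 0, .ofNat 128, .ofNat 49, .ofNat 0, .ofNat 0, .ofNat 941, .ofNat 2366, .ofNat 0, .ofNat 0, .ofNat 0, .ofNat 0, .ofNat 0, .ofNat 0, .ofNat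 0, .ofNat 0, .ofNat 0, .ofNat 0, .ofNat 0, .ofNat 0, .ofNat 0, .ofNat 0, .ofNat 112828823054010387438775030111086506208657408, .ofNat 0⟩)
    (by decide +kernel)
theorem L01795 : Good (Phi V5.P V5.D (-1) 1) ⟨3, 4, 3, 1, 2, 3, 3, 4, 5, 3⟩ :=
  leafX_sound T5.ok_mp T5.Ymp.bz_eq (w := 215) (c := ⟨⟨.negSucc 1584, .negSucc 669, .negSucc 217, .ofNat 242, .ofNat 145, .negSucc 252⟩, ⟨.negSucc 187, .ofNat 105, .negSucc 202, .negSucc 9, .ofNat 10, .negSucc 6⟩, ⟨.ofNat 792, .ofNat 539, .ofNat 147, .negSucc 318, .negSucc 131, .ofNat 161⟩, ⟨.negSucc 3434, .negSucc 945, .negSucc 330, .ofNat 490, .ofNat 295, .negSucc 531⟩, ⟨.negSucc 1322, .ofNat 20, .ofNat 39, .negSucc 233, .negSucc 17, .ofNat 81⟩, .ofNat 479, .negSucc 97, .ofNat 0, .negSucc 97, .ofNat 1765, .ofNat 0, .ofNat 524, .ofNat 55, .negSucc 526, .ofNat 0, .ofNat 128, .ofNat 19, .ofNat 0, .ofNat 0, .ofNat 775, .ofNat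 2580, .ofNat 0, .ofNat 0, .ofNat 0, .ofNat 0, .ofNat 0, .ofNat 0, .ofNat 0, .ofNat 0, .ofNat 0, .ofNat 0, .ofNat 184188742430760125257901899109155995648, .ofNat 0, .ofNat 0, .ofNat 0, .ofNat 2661304463964453968813327748552063975424, .ofNat 0⟩)
    (by decide +kernel)
theorem L01796 : Good (Phi V5.P V5.D (-1) 1) ⟨3, 4, 3, 1, 2, 3, 3, 5, 5, 3⟩ :=
  leafX_sound T5.ok_mp T5.Ymp.bz_eq (w := 215) (c := ⟨⟨.negSucc 1853, .negSucc 374, .negSucc 123, .ofNat 526, .ofNat 195, .negSucc 94⟩, ⟨.negSucc 182, .ofNat 97, .negSucc 188, .negSucc 30, .ofNat 20, .ofNat 9⟩, ⟨.ofNat 995, .ofNat 259, .ofNat 59, .negSucc 505, .negSucc 152, .ofNat 43⟩, ⟨.negSucc 3948, .negSucc 423, .negSucc 163, .ofNat 1119, .ofNat 375, .negSucc 213⟩, ⟨.negSucc 1167, .negSucc 23, .ofNat 14, .negSucc 674, .ofNat 144, .ofNat 162⟩, .ofNat 441, .negSucc 67, .ofNat 0, .negSucc 67, .ofNat 1352, .ofNat 0, .ofNat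 472, .ofNat 59, .negSucc 782, .ofNat 0, .ofNat 128, .ofNat 47, .ofNat 0, .ofNat 0, .ofNat 1097, .ofNat 2180, .ofNat 0, .ofNat 0, .ofNat 0, .ofNat 0, .ofNat 0, .ofNat 0, .ofNat 0, .ofNat 0, .ofNat 0, .ofNat 0, .ofNat 0, .ofNat 0, .ofNat 0, .ofNat 0, .ofNat 0, .ofNat 0⟩)
    (by decide +kernel)
theorem L01797 : Good (Phi V5.P V5.D (-1) 1) ⟨4, 10, 3, 1, 2, 2, 3, 4, 4, 1⟩ :=
  leafX_sound T5.ok_mp T5.Ymp.bz_eq (w := 213) (c := ⟨⟨.negSucc 1293, .negSucc 578, .negSucc 221, .negSucc 214, .negSucc 7, .negSucc 1089⟩, ⟨.negSucc 65, .ofNat 112, .negSucc 217, .negSucc 57, .ofNat 21, .ofNat 90⟩, ⟨.ofNat 712, .ofNat 465, .ofNat 194, .negSucc 80, .ofNat 4, .ofNat 934⟩, ⟨.negSucc 2525, .negSucc 851, .negSucc 386, .negSucc 402, .negSucc 11, .negSucc 2067⟩, ⟨.negSucc 1094, .ofNat 18, .ofNat 92, .negSucc 558, .ofNat 188, .ofNat 520⟩, .ofNat 451, .ofNat 26, .ofNat 0, .ofNat 26,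 .ofNat 1534, .ofNat 0, .ofNat 817, .negSucc 8, .negSucc 635, .ofNat 0, .ofNat 128, .ofNat 62, .ofNat 0, .ofNat 0, .ofNat 937, .ofNat 1296, .ofNat 0, .ofNat 0, .ofNat 874794136468728830309621796293312512, .ofNat 0, .ofNat 0, .ofNat 0, .ofNat 0, .ofNat 0, .ofNat 0, .ofNat 0, .ofNat 118387541341029899862337998266952581120, .ofNat 0, .ofNat 0, .ofNat 0, .ofNat 98488767523246768138308506192887939072, .ofNat 0⟩)
    (by decide +kernel)
theorem L01798 : Good (Phi V5.P V5.D (-1) 1) ⟨4, 10, 3, 1, 2, 2, 3, 5, 4, 1⟩ :=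
  leafX_sound T5.ok_mp T5.Ymp.bz_eq (w := 213) (c := ⟨⟨.negSucc 1668, .negSucc 468, .negSucc 201, .negSucc 267, .negSucc 7, .negSucc 688⟩, ⟨.negSucc 44, .ofNat 130, .negSucc 198, .negSucc 50, .ofNat 24, .ofNat 72⟩, ⟨.ofNat 1014, .ofNat 407, .ofNat 171, .negSucc 13, .ofNat 25, .ofNat 566⟩, ⟨.negSucc 3252, .negSucc 604, .negSucc 338, .negSucc 510, .negSucc 20, .negSucc 1293⟩, ⟨.negSucc 888, .ofNat 82, .ofNat 61, .negSucc 482, .ofNat 216, .ofNat 399⟩, .ofNat 451, .ofNat 26, .ofNat 0, .ofNat 26, .ofNat 1534, .ofNat 0, .ofNat 737, .ofNat 0, .negSucc 753, .ofNat 0, .ofNat 128, .ofNat 70, .ofNat 0, .ofNat 0, .ofNat 1061, .ofNat 1656, .ofNat 0, .ofNat 0, .ofNat 1125568738136151259116574642255429632, .ofNat 0, .ofNat 0, .ofNat 0, .ofNat 0, .ofNat 0, .ofNat 0, .ofNat 0, .ofNat 96662771648674488212627042552590106624, .ofNat 0, .ofNat 0, .ofNat 0, .ofNat 117676267826037691532138105990436356096,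 .ofNat 0⟩)
    (by decide +kernel)
theorem L01799 : Good (Phi V5.P V5.D (-1) 1) ⟨4, 11, 3, 1, 2, 2, 2, 2, 4, 1⟩ :=
  out_sound (S := T5.ds_mp) T5.ok_mp (w := 51) (j := 3) (by decide +kernel)
theorem L01800 : Good (Phi V5.P V5.D (-1) 1) ⟨4, 10, 3, 1, 3, 6, 2, 2, 5, 2⟩ :=
  leafX_sound T5.ok_mp T5.Ymp.bz_eq (w := 228) (c := ⟨⟨.negSucc 895, .negSucc 542, .negSucc 274, .ofNat 261, .negSucc 471, .negSucc 1058⟩, ⟨.negSucc 169, .ofNat 83, .negSucc 189, .negSucc 36, .ofNat 74, .ofNat 77⟩, ⟨.ofNat 325, .ofNat 398, .ofNat 191, .negSucc 243, .ofNat 325, .ofNat 789⟩, ⟨.negSucc 1815, .negSucc 837, .negSucc 446, .ofNat 496, .negSucc 875, .negSucc 1981⟩, ⟨.negSucc 1808, .ofNat 90, .ofNat 65, .negSucc 271, .ofNat 474, .ofNat 372⟩, .ofNat 438, .ofNat 43, .ofNat 0, .ofNat 43, .ofNat 1466, .ofNat 0, .ofNat 407, .negSucc 7, .negSucc 738, .ofNat 0, .ofNat 128, .ofNat 79, .ofNat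 0, .ofNat 0, .ofNat 800, .ofNat 1578, .ofNat 0, .ofNat 0, .ofNat 20352706678136510709767908971762056953856, .ofNat 0, .ofNat 0, .ofNat 0, .ofNat 2405353563305800363272217835571173000216576, .ofNat 0, .ofNat 0, .ofNat 0, .ofNat 1571282240220445548987490955574446158512128, .ofNat 0, .ofNat 0, .ofNat 0, .ofNat 3361508883147234749614149452095742665555968, .ofNat 0⟩)
    (by decide +kernel)
theorem L01801 : Good (Phi V5.P V5.D (-1) 1) ⟨5, 20, 3, 1, 3, 6, 2, 2, 5, 3⟩ :=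
  leafX_sound T5.ok_mp T5.Ymp.bz_eq (w := 233) (c := ⟨⟨.negSucc 2386, .negSucc 426, .negSucc 456, .ofNat 340, .ofNat 288, .negSucc 166⟩, ⟨.negSucc 70, .ofNat 65, .negSucc 196, .negSucc 47, .ofNat 34, .ofNat 27⟩, ⟨.ofNat 1422, .ofNat 354, .ofNat 389, .negSucc 324, .negSucc 280, .ofNat 98⟩, ⟨.negSucc 4623, .negSucc 660, .negSucc 777, .ofNat 625, .ofNat 542, .negSucc 317⟩, ⟨.negSucc 1385, .ofNat 42, .ofNat 167, .negSucc 280, .ofNat 389, .ofNat 207⟩, .ofNat 485, .ofNat 52, .ofNat 0, .ofNat 52, .ofNat 2150, .ofNat 0, .ofNat 574, .negSucc 14, .negSucc 1007, .ofNat 0, .ofNat 128, .ofNat 106, .ofNat 0, .ofNat 0, .ofNat 1262, .ofNat 1555, .ofNat 0, .ofNat 0, .ofNat 2445790247833577494460702154606981939200, .ofNat 0, .ofNat 0, .ofNat 0, .ofNat 0, .ofNat 0, .ofNat 0, .ofNat 0, .ofNat 1052387030953714257517972624229532755296256, .ofNat 0, .ofNat 0, .ofNat 0, .ofNat 0, .ofNat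 0⟩)
    (by decide +kernel)
theorem L01802 : Good (Phi V5.P V5.D (-1) 1) ⟨5, 21, 3, 1, 3, 6, 2, 2, 5, 3⟩ :=
  leafX_sound T5.ok_mp T5.Ymp.bz_eq (w := 234) (c := ⟨⟨.negSucc 2940, .negSucc 6, .ofNat 75, .ofNat 419, .ofNat 349, .negSucc 149⟩, ⟨.ofNat 17, .ofNat 56, .negSucc 218, .negSucc 66, .ofNat 14, .ofNat 32⟩, ⟨.ofNat 1888, .negSucc 25, .negSucc 69, .negSucc 389, .negSucc 334, .ofNat 80⟩, ⟨.negSucc 5521, .ofNat 122, .ofNat 217, .ofNat 755, .ofNat 655, .negSucc 268⟩, ⟨.negSucc 1220, .ofNat 27, .ofNat 138, .negSucc 342, .ofNat 269, .ofNat 197⟩, .ofNat 453, .ofNat 87, .ofNat 0, .ofNat 87, .ofNat 1646, .ofNat 0, .ofNat 731, .negSucc 41, .negSucc 1864, .ofNat 0, .ofNat 128, .ofNat 255, .ofNat 0, .ofNat 0, .ofNat 2216, .ofNat 5142, .ofNat 0, .ofNat 0, .ofNat 13116500702135629980467594661170058887168, .ofNat 0, .ofNat 0, .ofNat 0, .ofNat 2022087662545648342149753400227487297830912,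 .ofNat 0, .ofNat 0, .ofNat 0, .ofNat 1453056094025672940776386435515844311121920, .ofNat 0, .ofNat 0, .ofNat 0, .ofNat 7535073150122276473039356473856247948378112, .ofNat 0⟩)
    (by decide +kernel)
theorem L01803 : Good (Phi V5.P V5.D (-1) 1) ⟨4, 10, 3, 1, 3, 7, 3, 4, 5, 2⟩ :=
  leafX_sound T5.ok_mp T5.Ymp.bz_eq (w := 232) (c := ⟨⟨.negSucc 1206, .negSucc 106, .negSucc 274, .negSucc 262, .ofNat 207, .negSucc 752⟩, ⟨.negSucc 114, .ofNat 20, .negSucc 152, .ofNat 59, .negSucc 39, .ofNat 10⟩, ⟨.ofNat 633, .ofNat 89, .ofNat 142, .ofNat 109, .negSucc 189, .ofNat 433⟩, ⟨.negSucc 2385, .negSucc 69, .negSucc 418, .negSucc 472, .ofNat 370, .negSucc 1402⟩, ⟨.negSucc 1472, .negSucc 45, .ofNat 285, .ofNat 319, .negSucc 192, .negSucc 170⟩, .ofNat 475, .ofNat 57, .ofNat 0, .ofNat 57, .ofNat 1979, .ofNat 0, .ofNat 410, .negSucc 4, .negSucc 1138, .ofNat 0, .ofNat 128, .ofNat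 125, .ofNat 0, .ofNat 0, .ofNat 1202, .ofNat 1644, .ofNat 0, .ofNat 0, .ofNat 0, .ofNat 0, .ofNat 0, .ofNat 0, .ofNat 17120923146176288030331692772789251381133312, .ofNat 0, .ofNat 0, .ofNat 0, .ofNat 35141511723972822621989792354318358998417408, .ofNat 0, .ofNat 0, .ofNat 0, .ofNat 76149960307359837778294937260734781857988608, .ofNat 0⟩)
    (by decide +kernel)
theorem L01804 : Good (Phi V5.P V5.D (-1) 1) ⟨4, 10, 3, 1, 3, 7, 3, 5, 5, 2⟩ :=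
  leafX_sound T5.ok_mp T5.Ymp.bz_eq (w := 233) (c := ⟨⟨.negSucc 1205, .negSucc 406, .negSucc 356, .negSucc 29, .ofNat 207, .negSucc 544⟩, ⟨.negSucc 127, .ofNat 42, .negSucc 155, .ofNat 7, .negSucc 25, .ofNat 21⟩, ⟨.ofNat 589, .ofNat 267, .ofNat 177, .negSucc 39, .negSucc 207, .ofNat 310⟩, ⟨.negSucc 2384, .negSucc 641, .negSucc 571, .negSucc 52, .ofNat 384, .negSucc 1013⟩, ⟨.negSucc 1538, .ofNat 86, .ofNat 229, .ofNat 30, .negSucc 217, .negSucc 83⟩, .ofNat 475, .ofNat 56, .ofNat 0, .ofNat 56, .ofNat 1967, .ofNat 0, .ofNat 404, .ofNat 11, .negSucc 998, .ofNat 0, .ofNat 128, .ofNat 116, .ofNat 0, .ofNat 0, .ofNat 1039, .ofNat 2213, .ofNat 0, .ofNat 0, .ofNat 0, .ofNat 0, .ofNat 0, .ofNat 0, .ofNat 14352290815349727966434572911119308100206592, .ofNat 0, .ofNat 0, .ofNat 0, .ofNat 30123902940417945829234053625097029962170368, .ofNat 0, .ofNat 0, .ofNat 0, .ofNat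 80503618319054295095444113911787778773876736, .ofNat 0⟩)
    (by decide +kernel)
theorem L01805 : Good (Phi V5.P V5.D (-1) 1) ⟨4, 10, 3, 1, 3, 7, 3, 4, 5, 3⟩ :=
  leafX_sound T5.ok_mp T5.Ymp.bz_eq (w := 233) (c := ⟨⟨.negSucc 2353, .negSucc 449, .negSucc 395, .ofNat 372, .ofNat 385, .negSucc 38⟩, ⟨.negSucc 60, .ofNat 94, .negSucc 187, .negSucc 21, .negSucc 39, .negSucc 14⟩, ⟨.ofNat 1394, .ofNat 311, .ofNat 274, .negSucc 421, .negSucc 323, .negSucc 22⟩, ⟨.negSucc 4540, .negSucc 638, .negSucc 649, .ofNat 692, .ofNat 707, .negSucc 90⟩, ⟨.negSucc 1352, .ofNat 132, .ofNat 230, .negSucc 65, .negSucc 219, .negSucc 96⟩, .ofNat 459, .ofNat 46, .ofNat 0, .ofNat 46, .ofNat 1737, .ofNat 0, .ofNat 376, .negSucc 16, .negSucc 548, .ofNat 0, .ofNat 128, .ofNat 68, .ofNat 0, .ofNat 0, .ofNat 677, .ofNat 2083, .ofNat 0, .ofNat 0, .ofNat 63293722313138765775627571100206350991360,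 .ofNat 0, .ofNat 0, .ofNat 0, .ofNat 14009723132510522621431457562960966826590208, .ofNat 0, .ofNat 0, .ofNat 0, .ofNat 17759004033892452125201031135149841973248000, .ofNat 0, .ofNat 0, .ofNat 0, .ofNat 40928692085115152042080187689393774475083776, .ofNat 0⟩)
    (by decide +kernel)
theorem L01806 : Good (Phi V5.P V5.D (-1) 1) ⟨4, 10, 3, 1, 3, 7, 3, 5, 5, 3⟩ :=
  leafX_sound T5.ok_mp T5.Ymp.bz_eq (w := 233) (c := ⟨⟨.negSucc 2347, .negSucc 115, .negSucc 160, .ofNat 636, .ofNat 397, .ofNat 116⟩, ⟨.negSucc 61, .ofNat 28, .negSucc 184, .negSucc 78, .negSucc 6, .negSucc 0⟩, ⟨.ofNat 1327, .ofNat 70, .ofNat 91, .negSucc 542, .negSucc 323, .negSucc 141⟩, ⟨.negSucc 4526, .negSucc 66, .negSucc 182, .ofNat 1175, .ofNat 744, .ofNat 220⟩, ⟨.negSucc 1383, .negSucc 72, .ofNat 25, .negSucc 467, .ofNat 64, .ofNat 24⟩, .ofNat 484, .ofNat 73, .ofNat 0, .ofNat 73, .ofNat 2150,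 .ofNat 0, .ofNat 413, .negSucc 9, .negSucc 529, .ofNat 0, .ofNat 128, .ofNat 69, .ofNat 0, .ofNat 0, .ofNat 656, .ofNat 1570, .ofNat 0, .ofNat 0, .ofNat 0, .ofNat 0, .ofNat 0, .ofNat 0, .ofNat 0, .ofNat 0, .ofNat 0, .ofNat 0, .ofNat 15471923415046816488958222740711442118344704, .ofNat 0, .ofNat 0, .ofNat 0, .ofNat 35861805296945369178864572237897671699857408, .ofNat 0⟩)
    (by decide +kernel)
theorem L01807 : Good (Phi V5.P V5.D (-1) 1) ⟨4, 11, 3, 1, 2, 3, 2, 2, 4, 1⟩ :=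
  out_sound (S := T5.ds_mp) T5.ok_mp (w := 51) (j := 3) (by decide +kernel)
theorem L01808 : Good (Phi V5.P V5.D (-1) 1) ⟨2, 3, 3, 1, 1, 1, 2, 2, 4, 1⟩ :=
  out_sound (S := T5.ds_mp) T5.ok_mp (w := 39) (j := 3) (by decide +kernel)
theorem L01809 : Good (Phi V5.P V5.D (-1) 1) ⟨3, 4, 3, 1, 2, 2, 3, 6, 4, 0⟩ :=
  leafX_sound T5.ok_mp T5.Ymp.bz_eq (w := 208) (c := ⟨⟨.negSucc 2, .negSucc 301, .negSucc 163, .ofNat 221, .negSucc 248, .negSucc 1177⟩, ⟨.negSucc 47, .ofNat 17, .negSucc 112, .negSucc 52, .negSucc 13, .negSucc 25⟩, ⟨.negSucc 161, .ofNat 227, .ofNat 62, .negSucc 269, .ofNat 195, .ofNat 803⟩, ⟨.negSucc 31, .negSucc 497, .negSucc 256, .ofNat 464, .negSucc 562, .negSucc 2380⟩, ⟨.negSucc 941, .ofNat 45, .negSucc 26, .negSucc 430, .ofNat 142, .ofNat 191⟩, .ofNat 443, .negSucc 73, .ofNat 0, .negSucc 73, .ofNat 1366, .ofNat 0, .ofNat 435, .ofNat 72, .negSucc 581,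 .ofNat 0, .ofNat 128, .ofNat 3, .ofNat 0, .ofNat 0, .ofNat 801, .ofNat 795, .ofNat 0, .ofNat 0, .ofNat 0, .ofNat 0, .ofNat 0, .ofNat 0, .ofNat 0, .ofNat 0, .ofNat 0, .ofNat 0, .ofNat 0, .ofNat 0, .ofNat 0, .ofNat 0, .ofNat 217290973277415353973317724760656838656, .ofNat 0⟩)
    (by decide +kernel)
theorem L01810 : Good (Phi V5.P V5.D (-1) 1) ⟨3, 5, 3, 1, 2, 2, 3, 6, 4, 0⟩ :=
  leafX_sound T5.ok_mp T5.Ymp.bz_eq (w := 208) (c := ⟨⟨.negSucc 48, .negSucc 565, .ofNat 49, .ofNat 460, .negSucc 458, .negSucc 1793⟩, ⟨.negSucc 98, .ofNat 69, .negSucc 113, .negSucc 83, .ofNat 26, .ofNat 98⟩, ⟨.negSucc 208, .ofNat 458, .negSucc 56, .negSucc 475, .ofNat 366, .ofNat 1352⟩, ⟨.negSucc 169, .negSucc 855, .ofNat 183, .ofNat 857, .negSucc 881, .negSucc 3358⟩, ⟨.negSucc 938, .ofNat 5, .negSucc 29, .negSucc 729, .ofNat 211, .ofNat 320⟩, .ofNat 458, .ofNat 48, .ofNat 0, .ofNat 48,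 .ofNat 1705, .ofNat 0, .ofNat 383, .ofNat 14, .negSucc 556, .ofNat 0, .ofNat 128, .ofNat 46, .ofNat 0, .ofNat 0, .ofNat 697, .ofNat 670, .ofNat 0, .ofNat 0, .ofNat 1855839105524960750090810977322795008, .ofNat 0, .ofNat 0, .ofNat 0, .ofNat 137352911939410928158130263485195485184, .ofNat 0, .ofNat 0, .ofNat 0, .ofNat 269512280528557951924048192513796734976, .ofNat 0, .ofNat 0, .ofNat 0, .ofNat 324499728358409190724051016621018316800, .ofNat 0⟩)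
    (by decide +kernel)
theorem L01811 : Good (Phi V5.P V5.D (-1) 1) ⟨3, 4, 3, 1, 3, 6, 4, 12, 4, 0⟩ :=
  leafX_sound T5.ok_mp T5.Ymp.bz_eq (w := 227) (c := ⟨⟨.ofNat 544, .ofNat 74, .negSucc 48, .ofNat 149, .negSucc 345, .negSucc 1728⟩, ⟨.negSucc 26, .negSucc 48, .negSucc 78, .negSucc 31, .negSucc 11, .negSucc 103⟩, ⟨.negSucc 533, .negSucc 125, .negSucc 75, .negSucc 77, .ofNat 246, .ofNat 1060⟩, ⟨.ofNat 1153, .ofNat 120, .ofNat 38, .ofNat 285, .negSucc 713, .negSucc 3562⟩, ⟨.negSucc 1236, .negSucc 229, .negSucc 161, .negSucc 220, .ofNat 84, .negSucc 12⟩, .ofNat 442, .negSucc 67, .ofNat 0, .negSucc 67, .ofNat 1371, .ofNat 0, .ofNat 344, .ofNat 95, .negSucc 890, .ofNat 0, .ofNat 128, .ofNat 27, .ofNat 0, .ofNat 0, .ofNat 1046, .ofNat 924, .ofNat 0, .ofNat 0, .ofNat 0, .ofNat 0, .ofNat 0, .ofNat 0, .ofNat 0, .ofNat 0, .ofNat 0, .ofNat 0, .ofNat 0, .ofNat 0, .ofNat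 0, .ofNat 0, .ofNat 100871389473714928359930108542560319240667136, .ofNat 0⟩)
    (by decide +kernel)
theorem L01812 : Good (Phi V5.P V5.D (-1) 1) ⟨3, 4, 3, 1, 3, 7, 4, 12, 5, 0⟩ :=
  leafX_sound T5.ok_mp T5.Ymp.bz_eq (w := 231) (c := ⟨⟨.ofNat 433, .ofNat 305, .ofNat 19, .negSucc 657, .negSucc 301, .negSucc 762⟩, ⟨.negSucc 20, .negSucc 82, .negSucc 58, .negSucc 13, .negSucc 48, .negSucc 66⟩, ⟨.negSucc 302, .negSucc 297, .negSucc 153, .ofNat 520, .ofNat 136, .ofNat 362⟩, ⟨.ofNat 911, .ofNat 502, .ofNat 220, .negSucc 1312, .negSucc 673, .negSucc 1504⟩, ⟨.negSucc 1149, .negSucc 194, .negSucc 315, .ofNat 73, .ofNat 46, .negSucc 354⟩, .ofNat 504, .negSucc 128, .ofNat 0, .negSucc 128, .ofNat 2130, .ofNat 0, .ofNat 318, .ofNat 127, .negSucc 1001, .ofNat 0, .ofNat 128, .ofNat 40, .ofNat 0, .ofNat 0, .ofNat 1133, .ofNat 591, .ofNat 0, .ofNat 0, .ofNat 0, .ofNat 0, .ofNat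 0, .ofNat 0, .ofNat 0, .ofNat 0, .ofNat 0, .ofNat 0, .ofNat 0, .ofNat 0, .ofNat 0, .ofNat 0, .ofNat 0, .ofNat 0⟩)
    (by decide +kernel)
theorem L01813 : Good (Phi V5.P V5.D (-1) 1) ⟨3, 4, 3, 1, 3, 7, 4, 12, 5, 1⟩ :=
  leafX_sound T5.ok_mp T5.Ymp.bz_eq (w := 232) (c := ⟨⟨.negSucc 396, .negSucc 154, .negSucc 69, .negSucc 296, .negSucc 147, .negSucc 535⟩, ⟨.negSucc 119, .ofNat 9, .negSucc 130, .negSucc 16, .negSucc 5, .negSucc 35⟩, ⟨.ofNat 87, .ofNat 96, .negSucc 56, .ofNat 194, .ofNat 72, .ofNat 242⟩, ⟨.negSucc 849, .negSucc 202, .ofNat 18, .negSucc 610, .negSucc 300, .negSucc 1123⟩, ⟨.negSucc 1485, .negSucc 57, .negSucc 197, .negSucc 1, .negSucc 36, .negSucc 38⟩, .ofNat 438, .negSucc 58, .ofNat 0, .negSucc 58, .ofNat 1348, .ofNat 0, .ofNat 405, .ofNat 97, .negSucc 1197, .ofNat 0, .ofNat 128, .ofNat 80, .ofNat 0, .ofNat 0, .ofNat 1311, .ofNat 1523, .ofNat 0,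 .ofNat 0, .ofNat 0, .ofNat 0, .ofNat 0, .ofNat 0, .ofNat 0, .ofNat 0, .ofNat 0, .ofNat 0, .ofNat 0, .ofNat 0, .ofNat 0, .ofNat 0, .ofNat 0, .ofNat 0⟩)
    (by decide +kernel)
theorem L01814 : Good (Phi V5.P V5.D (-1) 1) ⟨3, 4, 3, 1, 3, 6, 4, 13, 5, 0⟩ :=
  leafX_sound T5.ok_mp T5.Ymp.bz_eq (w := 231) (c := ⟨⟨.ofNat 94, .ofNat 176, .negSucc 8, .ofNat 24, .negSucc 397, .negSucc 689⟩, ⟨.negSucc 64, .negSucc 52, .negSucc 80, .negSucc 9, .negSucc 15, .negSucc 39⟩, ⟨.negSucc 206, .negSucc 249, .negSucc 115, .ofNat 19, .ofNat 279, .ofNat 398⟩, ⟨.ofNat 190, .ofNat 336, .ofNat 126, .ofNat 84, .negSucc 826, .negSucc 1413⟩, ⟨.negSucc 1079, .negSucc 340, .negSucc 217, .negSucc 291, .ofNat 86, .negSucc 91⟩, .ofNat 442, .negSucc 73, .ofNat 0, .negSucc 73, .ofNat 1379, .ofNat 0, .ofNat 382, .ofNat 107, .negSucc 1308, .ofNat 0, .ofNat 128, .ofNat 42, .ofNat 0, .ofNat 0, .ofNat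 1516, .ofNat 1267, .ofNat 0, .ofNat 0, .ofNat 0, .ofNat 0, .ofNat 0, .ofNat 0, .ofNat 0, .ofNat 0, .ofNat 0, .ofNat 0, .ofNat 0, .ofNat 0, .ofNat 0, .ofNat 0, .ofNat 5914796439329663776785702628709353711380463616, .ofNat 0⟩)
    (by decide +kernel)
theorem L01815 : Good (Phi V5.P V5.D (-1) 1) ⟨3, 4, 3, 1, 3, 6, 4, 13, 5, 1⟩ :=
  leafX_sound T5.ok_mp T5.Ymp.bz_eq (w := 232) (c := ⟨⟨.negSucc 494, .negSucc 415, .negSucc 116, .ofNat 86, .negSucc 159, .negSucc 658⟩, ⟨.negSucc 121, .ofNat 29, .negSucc 137, .negSucc 19, .ofNat 5, .negSucc 10⟩, ⟨.ofNat 83, .ofNat 289, .ofNat 14, .negSucc 77, .ofNat 109, .ofNat 424⟩, ⟨.negSucc 1102, .negSucc 664, .negSucc 129, .ofNat 185, .negSucc 329, .negSucc 1330⟩, ⟨.negSucc 1293, .negSucc 47, .negSucc 61, .negSucc 239, .ofNat 77, .ofNat 185⟩, .ofNat 476, .negSucc 84, .ofNat 0, .negSucc 84, .ofNat 1770, .ofNat 0, .ofNat 318, .ofNat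 97, .negSucc 746, .ofNat 0, .ofNat 128, .ofNat 22, .ofNat 0, .ofNat 0, .ofNat 874, .ofNat 1588, .ofNat 0, .ofNat 0, .ofNat 0, .ofNat 0, .ofNat 0, .ofNat 0, .ofNat 0, .ofNat 0, .ofNat 0, .ofNat 0, .ofNat 0, .ofNat 0, .ofNat 0, .ofNat 0, .ofNat 2111895729742700472560806881602502767165833216, .ofNat 0⟩)
    (by decide +kernel)
theorem L01816 : Good (Phi V5.P V5.D (-1) 1) ⟨3, 4, 3, 1, 3, 7, 4, 13, 5, 0⟩ :=
  leafX_sound T5.ok_mp T5.Ymp.bz_eq (w := 231) (c := ⟨⟨.negSucc 42, .ofNat 124, .ofNat 55, .negSucc 484, .negSucc 293, .negSucc 537⟩, ⟨.negSucc 65, .negSucc 35, .negSucc 94, .negSucc 22, .negSucc 18, .negSucc 56⟩, ⟨.negSucc 19, .negSucc 151, .negSucc 182, .ofNat 370, .ofNat 148, .ofNat 204⟩, ⟨.negSucc 95, .ofNat 263, .ofNat 280, .negSucc 995, .negSucc 587, .negSucc 1108⟩, ⟨.negSucc 1206, .negSucc 252, .negSucc 326, .ofNat 67, .negSucc 85, .negSucc 166⟩, .ofNat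 479, .negSucc 94, .ofNat 0, .negSucc 94, .ofNat 1792, .ofNat 0, .ofNat 413, .ofNat 122, .negSucc 1171, .ofNat 0, .ofNat 128, .ofNat 64, .ofNat 0, .ofNat 0, .ofNat 1319, .ofNat 1019, .ofNat 0, .ofNat 0, .ofNat 0, .ofNat 0, .ofNat 0, .ofNat 0, .ofNat 0, .ofNat 0, .ofNat 0, .ofNat 0, .ofNat 0, .ofNat 0, .ofNat 0, .ofNat 0, .ofNat 4735202264395739574083966460194034978870263808, .ofNat 0⟩)
    (by decide +kernel)
theorem L01817 : Good (Phi V5.P V5.D (-1) 1) ⟨3, 4, 3, 1, 3, 7, 4, 13, 5, 1⟩ :=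
  leafX_sound T5.ok_mp T5.Ymp.bz_eq (w := 232) (c := ⟨⟨.negSucc 755, .negSucc 225, .negSucc 84, .negSucc 89, .negSucc 80, .negSucc 303⟩, ⟨.negSucc 134, .ofNat 28, .negSucc 143, .negSucc 23, .ofNat 0, .negSucc 17⟩, ⟨.ofNat 316, .ofNat 133, .negSucc 29, .ofNat 5, .ofNat 24, .ofNat 112⟩, ⟨.negSucc 1603, .negSucc 292, .negSucc 29, .negSucc 176, .negSucc 175, .negSucc 640⟩, ⟨.negSucc 1496, .negSucc 67, .negSucc 99, .negSucc 221, .ofNat 70, .ofNat 59⟩, .ofNat 481, .negSucc 100, .ofNat 0, .negSucc 100, .ofNat 1789, .ofNat 0, .ofNat 421, .ofNat 112, .negSucc 930, .ofNat 0, .ofNat 128, .ofNat 43, .ofNat 0, .ofNat 0, .ofNat 1057, .ofNat 1677, .ofNat 0, .ofNat 0, .ofNat 0, .ofNat 0, .ofNat 0, .ofNat 0, .ofNat 0, .ofNat 0, .ofNat 0, .ofNat 0, .ofNat 0, .ofNat 0, .ofNat 0, .ofNat 0, .ofNat 2464841351254531954408047747180964782467448832, .ofNat 0⟩)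
    (by decide +kernel)
theorem L01818 : Good (Phi V5.P V5.D (-1) 1) ⟨5, 20, 3, 1, 3, 6, 3, 6, 5, 0⟩ :=
  leafX_sound T5.ok_mp T5.Ymp.bz_eq (w := 236) (c := ⟨⟨.ofNat 918, .ofNat 332, .ofNat 249, .ofNat 324, .negSucc 1176, .negSucc 1284⟩, ⟨.negSucc 153, .negSucc 75, .negSucc 107, .negSucc 52, .ofNat 47, .ofNat 36⟩, ⟨.negSucc 899, .negSucc 352, .negSucc 393, .negSucc 230, .ofNat 847, .ofNat 924⟩, ⟨.ofNat 1703, .ofNat 568, .ofNat 593, .ofNat 610, .negSucc 2225, .negSucc 2440⟩, ⟨.negSucc 1343, .negSucc 318, .negSucc 473, .negSucc 444, .ofNat 166, .ofNat 118⟩, .ofNat 458, .ofNat 5, .ofNat 0, .ofNat 5, .ofNat 1649, .ofNat 0, .ofNat 356, .ofNat 66, .negSucc 865, .ofNat 0, .ofNat 128, .ofNat 71, .ofNat 0, .ofNat 0, .ofNat 915, .ofNat 1004, .ofNat 0, .ofNat 0, .ofNat 65835650505632604548066122600964291559424, .ofNat 0, .ofNat 0, .ofNat 0, .ofNat 0, .ofNat 0, .ofNat 0,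 .ofNat 0, .ofNat 0, .ofNat 0, .ofNat 0, .ofNat 0, .ofNat 16983180295682819598238609474535358761795584, .ofNat 0⟩)
    (by decide +kernel)
theorem L01819 : Good (Phi V5.P V5.D (-1) 1) ⟨5, 20, 3, 1, 3, 6, 3, 6, 5, 1⟩ :=
  leafX_sound T5.ok_mp T5.Ymp.bz_eq (w := 236) (c := ⟨⟨.negSucc 172, .negSucc 220, .negSucc 369, .ofNat 269, .negSucc 773, .negSucc 1255⟩, ⟨.negSucc 167, .ofNat 15, .negSucc 117, .negSucc 51, .ofNat 72, .ofNat 82⟩, ⟨.negSucc 221, .ofNat 179, .ofNat 223, .negSucc 232, .ofNat 596, .ofNat 929⟩, ⟨.negSucc 429, .negSucc 367, .negSucc 564, .ofNat 491, .negSucc 1446, .negSucc 2349⟩, ⟨.negSucc 1682, .ofNat 51, .ofNat 28, .negSucc 297, .ofNat 402, .ofNat 373⟩, .ofNat 470, .ofNat 50, .ofNat 0, .ofNat 50, .ofNat 1905, .ofNat 0, .ofNat 401, .ofNat 35, .negSucc 772, .ofNat 0, .ofNat 128, .ofNat 74, .ofNat 0, .ofNat 0, .ofNat 812, .ofNat 1368, .ofNat 0, .ofNat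 0, .ofNat 46825132712830524768486954428030273978368, .ofNat 0, .ofNat 0, .ofNat 0, .ofNat 0, .ofNat 0, .ofNat 0, .ofNat 0, .ofNat 10453221644119522708587246696323916188614656, .ofNat 0, .ofNat 0, .ofNat 0, .ofNat 11652989836570176687581065326646982510379008, .ofNat 0⟩)
    (by decide +kernel)
theorem L01820 : Good (Phi V5.P V5.D (-1) 1) ⟨5, 21, 3, 1, 3, 6, 3, 6, 4, 0⟩ :=
  leafX_sound T5.ok_mp T5.Ymp.bz_eq (w := 233) (c := ⟨⟨.ofNat 1363, .negSucc 466, .negSucc 401, .ofNat 464, .negSucc 1049, .negSucc 2986⟩, ⟨.negSucc 295, .negSucc 30, .negSucc 105, .negSucc 75, .ofNat 105, .ofNat 250⟩, ⟨.negSucc 1342, .ofNat 413, .ofNat 277, .negSucc 399, .ofNat 785, .ofNat 2228⟩, ⟨.ofNat 2413, .negSucc 871, .negSucc 600, .ofNat 832, .negSucc 1922, .negSucc 5487⟩, ⟨.negSucc 1811, .negSucc 212, .negSucc 184, .negSucc 405, .ofNat 373, .ofNat 652⟩, .ofNat 477, .ofNat 112, .ofNat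 0, .ofNat 112, .ofNat 1994, .ofNat 0, .ofNat 369, .ofNat 20, .negSucc 1301, .ofNat 0, .ofNat 128, .ofNat 160, .ofNat 0, .ofNat 0, .ofNat 1332, .ofNat 1670, .ofNat 0, .ofNat 0, .ofNat 6157527255587268308562878564089347440640, .ofNat 0, .ofNat 0, .ofNat 0, .ofNat 266102814686561424286808103725703876313088, .ofNat 0, .ofNat 0, .ofNat 0, .ofNat 962779344467849371830690592636142700462080, .ofNat 0, .ofNat 0, .ofNat 0, .ofNat 1738520471930050142050694278913920421855232, .ofNat 0⟩)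
    (by decide +kernel)
theorem L01821 : Good (Phi V5.P V5.D (-1) 1) ⟨5, 20, 4, 2, 3, 7, 3, 6, 5, 0⟩ :=
  leafX_sound T5.ok_mp T5.Ymp.bz_eq (w := 240) (c := ⟨⟨.ofNat 916, .ofNat 297, .ofNat 239, .negSucc 1060, .negSucc 953, .negSucc 991⟩, ⟨.negSucc 186, .negSucc 58, .negSucc 74, .ofNat 90, .ofNat 28, .ofNat 13⟩, ⟨.negSucc 766, .negSucc 265, .negSucc 292, .ofNat 911, .ofNat 569, .ofNat 561⟩, ⟨.ofNat 1666, .ofNat 531, .ofNat 511, .negSucc 1979, .negSucc 1797, .negSucc 1875⟩, ⟨.negSucc 1544, .negSucc 213, .negSucc 324, .ofNat 483, .negSucc 5, .negSucc 149⟩, .ofNat 470, .ofNat 48, .ofNat 0, .ofNat 48, .ofNat 1890, .ofNat 0, .ofNat 256, .ofNat 62, .negSucc 1062, .ofNat 0, .ofNat 128, .ofNat 126, .ofNat 0, .ofNat 0, .ofNat 1069, .ofNat 1251, .ofNat 0, .ofNat 0, .ofNat 0, .ofNat 0, .ofNat 0, .ofNat 0, .ofNat 0, .ofNat 0, .ofNat 0, .ofNat 0, .ofNat 0, .ofNat 0, .ofNat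 0, .ofNat 0, .ofNat 28895385841515087640321395810659213558939648, .ofNat 0⟩)
    (by decide +kernel)
theorem L01822 : Good (Phi V5.P V5.D (-1) 1) ⟨5, 21, 4, 2, 3, 7, 3, 6, 5, 0⟩ :=
  leafX_sound T5.ok_mp T5.Ymp.bz_eq (w := 241) (c := ⟨⟨.ofNat 1369, .ofNat 452, .ofNat 513, .negSucc 1347, .negSucc 885, .negSucc 1080⟩, ⟨.negSucc 286, .negSucc 117, .negSucc 137, .ofNat 152, .ofNat 32, .ofNat 56⟩, ⟨.negSucc 1151, .negSucc 500, .negSucc 615, .ofNat 1149, .ofNat 472, .ofNat 652⟩, ⟨.ofNat 2447, .ofNat 758, .ofNat 962, .negSucc 2452, .negSucc 1664, .negSucc 2011⟩, ⟨.negSucc 1719, .negSucc 578, .negSucc 596, .ofNat 612, .negSucc 122, .negSucc 47⟩, .ofNat 465, .ofNat 100, .ofNat 0, .ofNat 100, .ofNat 1798, .ofNat 0, .ofNat 281, .ofNat 42, .negSucc 1710, .ofNat 0, .ofNat 128, .ofNat 252, .ofNat 0, .ofNat 0, .ofNat 1685, .ofNat 2042, .ofNat 0, .ofNat 0, .ofNat 618818045246815605089016987952444528918528,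 .ofNat 0, .ofNat 0, .ofNat 0, .ofNat 13661272166976886215644621145160831165530112, .ofNat 0, .ofNat 0, .ofNat 0, .ofNat 37359189974246699391284941119012697075089408, .ofNat 0, .ofNat 0, .ofNat 0, .ofNat 148250496169347991948501809119402746357743616, .ofNat 0⟩)
    (by decide +kernel)
theorem L01823 : Good (Phi V5.P V5.D (-1) 1) ⟨4, 10, 4, 2, 3, 7, 3, 6, 5, 1⟩ :=
  leafX_sound T5.ok_mp T5.Ymp.bz_eq (w := 235) (c := ⟨⟨.negSucc 589, .negSucc 131, .negSucc 117, .negSucc 145, .negSucc 276, .negSucc 481⟩, ⟨.negSucc 146, .negSucc 7, .negSucc 67, .negSucc 6, .ofNat 16, .ofNat 15⟩, ⟨.ofNat 210, .ofNat 71, .ofNat 46, .ofNat 80, .ofNat 99, .ofNat 214⟩, ⟨.negSucc 1166, .negSucc 210, .negSucc 156, .negSucc 278, .negSucc 550, .negSucc 943⟩, ⟨.negSucc 1670, .negSucc 21, .negSucc 1, .negSucc 101, .ofNat 97, .ofNat 50⟩, .ofNat 438, .ofNat 43, .ofNat 0, .ofNat 43, .ofNat 1478,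 .ofNat 0, .ofNat 449, .ofNat 46, .negSucc 1739, .ofNat 0, .ofNat 128, .ofNat 217, .ofNat 0, .ofNat 0, .ofNat 1715, .ofNat 1642, .ofNat 0, .ofNat 0, .ofNat 0, .ofNat 0, .ofNat 0, .ofNat 0, .ofNat 0, .ofNat 0, .ofNat 0, .ofNat 0, .ofNat 38994227574948482664411954463104120198791168, .ofNat 0, .ofNat 0, .ofNat 0, .ofNat 343619547930224813634513953268372960939343872, .ofNat 0⟩)
    (by decide +kernel)
theorem L01824 : Good (Phi V5.P V5.D (-1) 1) ⟨4, 10, 4, 3, 3, 7, 4, 12, 5, 0⟩ :=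
  leafX_sound T5.ok_mp T5.Ymp.bz_eq (w := 240) (c := ⟨⟨.ofNat 1485, .ofNat 125, .ofNat 80, .negSucc 1311, .negSucc 539, .negSucc 1120⟩, ⟨.negSucc 224, .negSucc 129, .negSucc 58, .ofNat 76, .negSucc 4, .negSucc 11⟩, ⟨.negSucc 1351, .negSucc 42, .negSucc 120, .ofNat 1130, .ofNat 329, .ofNat 651⟩, ⟨.ofNat 2871, .ofNat 298, .ofNat 334, .negSucc 2525, .negSucc 1044, .negSucc 2204⟩, ⟨.negSucc 2098, .negSucc 425, .negSucc 498, .ofNat 833, .ofNat 2, .negSucc 8⟩, .ofNat 411, .negSucc 9, .ofNat 0, .negSucc 9, .ofNat 1159, .ofNat 0, .ofNat 240, .ofNat 85, .negSucc 1730, .ofNat 0, .ofNat 128, .ofNat 206, .ofNat 0, .ofNat 0, .ofNat 1706, .ofNat 1467, .ofNat 0, .ofNat 0, .ofNat 34260036025240885254150921461842783582027776, .ofNat 0, .ofNat 0, .ofNat 0, .ofNat 566218734308354367329899239440408149527363584, .ofNat 0, .ofNat 0, .ofNat 0, .ofNat 869478093847689253548157307744257198446870528,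 .ofNat 0, .ofNat 0, .ofNat 0, .ofNat 7967936982870094014874522371002944700945530880, .ofNat 0⟩)
    (by decide +kernel)
theorem L01825 : Good (Phi V5.P V5.D (-1) 1) ⟨4, 10, 4, 3, 3, 7, 4, 13, 5, 0⟩ :=
  leafX_sound T5.ok_mp T5.Ymp.bz_eq (w := 240) (c := ⟨⟨.ofNat 749, .negSucc 854, .negSucc 78, .negSucc 1044, .negSucc 474, .negSucc 852⟩, ⟨.negSucc 242, .negSucc 11, .negSucc 50, .ofNat 41, .ofNat 10, .ofNat 15⟩, ⟨.negSucc 832, .ofNat 744, .ofNat 8, .ofNat 870, .ofNat 286, .ofNat 464⟩, ⟨.ofNat 1470, .negSucc 1693, .negSucc 20, .negSucc 2006, .negSucc 945, .negSucc 1657⟩, ⟨.negSucc 2239, .ofNat 728, .negSucc 318, .ofNat 507, .ofNat 270, .ofNat 206⟩, .ofNat 473, .negSucc 2, .ofNat 0, .negSucc 2, .ofNat 1743, .ofNat 0, .ofNat 267, .ofNat 80, .negSucc 1240, .ofNat 0, .ofNat 128, .ofNat 159, .ofNat 0, .ofNat 0, .ofNat 1197, .ofNat 1088, .ofNat 0, .ofNat 0, .ofNat 6659946325498375710045354972049108218413056,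 .ofNat 0, .ofNat 0, .ofNat 0, .ofNat 126113714996667733409106230604664609288749056, .ofNat 0, .ofNat 0, .ofNat 0, .ofNat 1022296985712233131290453890413646555501297664, .ofNat 0, .ofNat 0, .ofNat 0, .ofNat 3948253011710323600913657517281885820018491392, .ofNat 0⟩)
    (by decide +kernel)
theorem L01826 : Good (Phi V5.P V5.D (-1) 1) ⟨4, 10, 4, 3, 3, 7, 3, 6, 5, 1⟩ :=
  leafX_sound T5.ok_mp T5.Ymp.bz_eq (w := 235) (c := ⟨⟨.negSucc 605, .negSucc 625, .negSucc 30, .negSucc 80, .negSucc 315, .negSucc 537⟩, ⟨.negSucc 203, .ofNat 26, .negSucc 79, .negSucc 18, .ofNat 10, .negSucc 0⟩, ⟨.ofNat 152, .ofNat 539, .negSucc 25, .ofNat 24, .ofNat 139, .ofNat 276⟩, ⟨.negSucc 1144, .negSucc 1098, .ofNat 32, .negSucc 155, .negSucc 622, .negSucc 1046⟩, ⟨.negSucc 1744, .ofNat 342, .negSucc 137, .negSucc 131, .ofNat 143, .ofNat 70⟩, .ofNat 463, .negSucc 17, .ofNat 0, .negSucc 17,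 .ofNat 1699, .ofNat 0, .ofNat 370, .ofNat 71, .negSucc 1651, .ofNat 0, .ofNat 128, .ofNat 159, .ofNat 0, .ofNat 0, .ofNat 1655, .ofNat 2071, .ofNat 0, .ofNat 0, .ofNat 155032061635265198192687288241050833911808, .ofNat 0, .ofNat 0, .ofNat 0, .ofNat 37300984596908173628660487688074788446666752, .ofNat 0, .ofNat 0, .ofNat 0, .ofNat 81191195965853811954401766208977686337945600, .ofNat 0, .ofNat 0, .ofNat 0, .ofNat 462470626831203571704623770935221976607752192, .ofNat 0⟩)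
    (by decide +kernel)
theorem L01827 : Good (Phi V5.P V5.D (-1) 1) ⟨4, 11, 3, 1, 2, 3, 3, 6, 4, 0⟩ :=
  out_sound (S := T5.ds_mp) T5.ok_mp (w := 51) (j := 3) (by decide +kernel)
theorem L01828 : Good (Phi V5.P V5.D (-1) 1) ⟨4, 8, 3, 1, 2, 2, 3, 7, 4, 0⟩ :=
  leafX_sound T5.ok_mp T5.Ymp.bz_eq (w := 212) (c := ⟨⟨.negSucc 454, .negSucc 207, .negSucc 148, .negSucc 52, .ofNat 2, .negSucc 640⟩, ⟨.negSucc 68, .ofNat 8, .negSucc 114, .negSucc 39, .ofNat 15, .negSucc 33⟩, ⟨.ofNat 181, .ofNat 147, .ofNat 73, .negSucc 45, .negSucc 62, .ofNat 351⟩, ⟨.negSucc 967, .negSucc 349, .negSucc 229, .negSucc 79, .negSucc 27, .negSucc 1403⟩, ⟨.negSucc 865, .ofNat 6, .negSucc 39, .negSucc 434, .ofNat 225, .ofNat 325⟩, .ofNat 459, .negSucc 107, .ofNat 0, .negSucc 107, .ofNat 1439, .ofNat 0, .ofNat 652, .ofNat 96, .negSucc 706, .ofNat 0, .ofNat 128, .negSucc 7, .ofNat 0, .ofNat 0,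 .ofNat 954, .ofNat 1325, .ofNat 0, .ofNat 0, .ofNat 0, .ofNat 0, .ofNat 0, .ofNat 0, .ofNat 0, .ofNat 0, .ofNat 0, .ofNat 434202560435589222416511111632440432525312, .ofNat 0, .ofNat 0, .ofNat 0, .ofNat 0, .ofNat 0, .ofNat 0⟩)
    (by decide +kernel)
theorem L01829 : Good (Phi V5.P V5.D (-1) 1) ⟨4, 9, 3, 1, 2, 2, 3, 7, 4, 0⟩ :=
  leafX_sound T5.ok_mp T5.Ymp.bz_eq (w := 212) (c := ⟨⟨.negSucc 610, .negSucc 306, .negSucc 211, .negSucc 26, .ofNat 189, .negSucc 732⟩, ⟨.negSucc 76, .ofNat 29, .negSucc 118, .negSucc 49, .ofNat 27, .ofNat 12⟩, ⟨.ofNat 266, .ofNat 252, .ofNat 139, .negSucc 81, .negSucc 238, .ofNat 461⟩, ⟨.negSucc 1266, .negSucc 489, .negSucc 349, .negSucc 46, .ofNat 359, .negSucc 1474⟩, ⟨.negSucc 1012, .ofNat 27, .ofNat 48, .negSucc 437, .ofNat 231, .ofNat 464⟩, .ofNat 484, .negSucc 73, .ofNat 0, .negSucc 73, .ofNat 1970, .ofNat 0, .ofNat 480, .ofNat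 71, .negSucc 987, .ofNat 0, .ofNat 128, .ofNat 17, .ofNat 0, .ofNat 0, .ofNat 1278, .ofNat 930, .ofNat 0, .ofNat 0, .ofNat 0, .ofNat 0, .ofNat 0, .ofNat 0, .ofNat 0, .ofNat 0, .ofNat 0, .ofNat 341339838070134640693307604925446931611648, .ofNat 0, .ofNat 0, .ofNat 0, .ofNat 1324175282457864520669080104321004513263616, .ofNat 123298029431285530985571075507357745152, .ofNat 0⟩)
    (by decide +kernel)
theorem L01830 : Good (Phi V5.P V5.D (-1) 1) ⟨4, 10, 3, 1, 2, 2, 3, 7, 4, 0⟩ :=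
  leafX_sound T5.ok_mp T5.Ymp.bz_eq (w := 212) (c := ⟨⟨.negSucc 680, .negSucc 403, .negSucc 43, .negSucc 152, .ofNat 103, .negSucc 1114⟩, ⟨.negSucc 94, .ofNat 70, .negSucc 126, .negSucc 34, .ofNat 25, .ofNat 101⟩, ⟨.ofNat 282, .ofNat 333, .negSucc 11, .ofNat 52, .negSucc 157, .ofNat 821⟩, ⟨.negSucc 1383, .negSucc 592, .ofNat 5, .negSucc 290, .ofNat 196, .negSucc 2079⟩, ⟨.negSucc 936, .negSucc 39, .negSucc 116, .negSucc 443, .ofNat 218, .ofNat 529⟩, .ofNat 467, .ofNat 30, .ofNat 0, .ofNat 30, .ofNat 1743, .ofNat 0, .ofNat 366, .ofNat 37, .negSucc 995, .ofNat 0, .ofNat 128, .ofNat 79, .ofNat 0, .ofNat 0, .ofNat 1180, .ofNat 753, .ofNat 0, .ofNat 0, .ofNat 501686818264731409567201773582548992, .ofNat 0, .ofNat 0, .ofNat 0, .ofNat 32341929162916620819174151462770966528, .ofNat 0, .ofNat 0, .ofNat 99843644194388586081233075356964482973696, .ofNat 53414812605743387976015234647220813824,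 .ofNat 0, .ofNat 0, .ofNat 0, .ofNat 145114936655642291567900514775684087808, .ofNat 0⟩)
    (by decide +kernel)
theorem L01831 : Good (Phi V5.P V5.D (-1) 1) ⟨4, 11, 3, 1, 2, 2, 3, 7, 4, 0⟩ :=
  out_sound (S := T5.ds_mp) T5.ok_mp (w := 51) (j := 3) (by decide +kernel)
theorem L01832 : Good (Phi V5.P V5.D (-1) 1) ⟨4, 8, 3, 1, 2, 3, 4, 14, 5, 0⟩ :=
  leafX_sound T5.ok_mp T5.Ymp.bz_eq (w := 221) (c := ⟨⟨.negSucc 367, .negSucc 75, .negSucc 48, .negSucc 294, .negSucc 176, .negSucc 323⟩, ⟨.negSucc 75, .ofNat 9, .negSucc 116, .negSucc 60, .negSucc 9, .negSucc 33⟩, ⟨.ofNat 162, .ofNat 31, .negSucc 80, .ofNat 169, .ofNat 79, .ofNat 89⟩, ⟨.negSucc 773, .negSucc 102, .ofNat 37, .negSucc 592, .negSucc 382, .negSucc 688⟩, ⟨.negSucc 1142, .negSucc 58, .negSucc 171, .negSucc 387, .ofNat 82, .negSucc 31⟩, .ofNat 531, .negSucc 197, .ofNat 0, .negSucc 197, .ofNat 2389, .ofNat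 0, .ofNat 301, .ofNat 128, .negSucc 475, .ofNat 0, .ofNat 114, .ofNat 3, .ofNat 0, .ofNat 0, .ofNat 586, .ofNat 1545, .ofNat 0, .ofNat 0, .ofNat 0, .ofNat 0, .ofNat 0, .ofNat 0, .ofNat 0, .ofNat 0, .ofNat 0, .ofNat 0, .ofNat 0, .ofNat 0, .ofNat 0, .ofNat 0, .ofNat 0, .ofNat 0⟩)
    (by decide +kernel)
theorem L01833 : Good (Phi V5.P V5.D (-1) 1) ⟨4, 9, 3, 1, 3, 6, 4, 14, 5, 0⟩ :=
  leafX_sound T5.ok_mp T5.Ymp.bz_eq (w := 235) (c := ⟨⟨.negSucc 205, .negSucc 148, .negSucc 99, .ofNat 14, .negSucc 339, .negSucc 666⟩, ⟨.negSucc 101, .negSucc 2, .negSucc 115, .negSucc 23, .ofNat 8, .negSucc 2⟩, ⟨.negSucc 67, .ofNat 92, .negSucc 25, .negSucc 23, .ofNat 246, .ofNat 417⟩, ⟨.negSucc 447, .negSucc 243, .negSucc 69, .ofNat 38, .negSucc 680, .negSucc 1328⟩, ⟨.negSucc 1404, .negSucc 1, .negSucc 145, .negSucc 267, .ofNat 205, .ofNat 203⟩, .ofNat 482, .negSucc 56, .ofNat 0,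 .negSucc 56, .ofNat 1983, .ofNat 0, .ofNat 270, .ofNat 96, .negSucc 976, .ofNat 0, .ofNat 128, .ofNat 50, .ofNat 0, .ofNat 0, .ofNat 1104, .ofNat 1189, .ofNat 0, .ofNat 0, .ofNat 0, .ofNat 0, .ofNat 0, .ofNat 0, .ofNat 0, .ofNat 0, .ofNat 0, .ofNat 0, .ofNat 0, .ofNat 0, .ofNat 0, .ofNat 0, .ofNat 1058903408884822154858506566677344170589290496, .ofNat 0⟩)
    (by decide +kernel)
theorem L01834 : Good (Phi V5.P V5.D (-1) 1) ⟨4, 9, 3, 1, 3, 7, 4, 14, 5, 0⟩ :=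
  leafX_sound T5.ok_mp T5.Ymp.bz_eq (w := 236) (c := ⟨⟨.negSucc 478, .negSucc 72, .negSucc 16, .negSucc 295, .negSucc 198, .negSucc 375⟩, ⟨.negSucc 99, .negSucc 2, .negSucc 131, .negSucc 19, .negSucc 7, .negSucc 25⟩, ⟨.ofNat 231, .ofNat 27, .negSucc 114, .ofNat 168, .ofNat 67, .ofNat 110⟩, ⟨.negSucc 982, .negSucc 90, .ofNat 114, .negSucc 594, .negSucc 404, .negSucc 753⟩, ⟨.negSucc 1412, .negSucc 35, .negSucc 228, .negSucc 75, .ofNat 42, .negSucc 90⟩, .ofNat 485, .negSucc 64, .ofNat 0, .negSucc 64, .ofNat 2025, .ofNat 0, .ofNat 243, .ofNat 112, .negSucc 1349, .ofNat 0, .ofNat 128, .ofNat 99, .ofNat 0, .ofNat 0, .ofNat 1467, .ofNat 1234, .ofNat 0, .ofNat 0, .ofNat 0, .ofNat 0, .ofNat 0, .ofNat 0, .ofNat 0, .ofNat 0, .ofNat 0, .ofNat 0, .ofNat 0, .ofNat 0, .ofNat 0, .ofNat 0, .ofNat 1510159678547067664589509503194153225826598912, .ofNat 0⟩)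
    (by decide +kernel)
theorem L01835 : Good (Phi V5.P V5.D (-1) 1) ⟨4, 10, 3, 1, 3, 6, 4, 14, 5, 0⟩ :=
  leafX_sound T5.ok_mp T5.Ymp.bz_eq (w := 235) (c := ⟨⟨.negSucc 74, .negSucc 77, .negSucc 50, .ofNat 205, .negSucc 599, .negSucc 1032⟩, ⟨.negSucc 154, .negSucc 22, .negSucc 101, .negSucc 48, .ofNat 58, .ofNat 67⟩, ⟨.negSucc 242, .ofNat 29, .negSucc 85, .negSucc 182, .ofNat 475, .ofNat 760⟩, ⟨.negSucc 241, .negSucc 118, .ofNat 64, .ofNat 380, .negSucc 1106, .negSucc 1922⟩, ⟨.negSucc 1438, .negSucc 43, .negSucc 243, .negSucc 417, .ofNat 267, .ofNat 260⟩, .ofNat 476, .ofNat 33, .ofNat 0, .ofNat 33, .ofNat 1867, .ofNat 0, .ofNat 233, .ofNat 65, .negSucc 1057, .ofNat 0, .ofNat 128, .ofNat 115, .ofNat 0, .ofNat 0, .ofNat 1111, .ofNat 1080, .ofNat 0, .ofNat 0, .ofNat 2243548725386700771631093623053140325564416, .ofNat 0, .ofNat 0, .ofNat 0, .ofNat 116465904956204744455828247092906872994267136,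 .ofNat 0, .ofNat 0, .ofNat 0, .ofNat 607795828839161381113872012558310788474863616, .ofNat 0, .ofNat 0, .ofNat 0, .ofNat 1370989144551980572497359929178850286901395456, .ofNat 0⟩)
    (by decide +kernel)
theorem L01836 : Good (Phi V5.P V5.D (-1) 1) ⟨5, 20, 3, 1, 3, 7, 4, 14, 5, 0⟩ :=
  leafX_sound T5.ok_mp T5.Ymp.bz_eq (w := 240) (c := ⟨⟨.negSucc 357, .negSucc 24, .negSucc 28, .negSucc 404, .negSucc 187, .negSucc 487⟩, ⟨.negSucc 138, .negSucc 10, .negSucc 132, .ofNat 3, .ofNat 4, .ofNat 8⟩, ⟨.ofNat 95, .ofNat 7, .negSucc 126, .ofNat 267, .ofNat 42, .ofNat 198⟩, ⟨.negSucc 732, .negSucc 22, .ofNat 73, .negSucc 775, .negSucc 367, .negSucc 955⟩, ⟨.negSucc 1553, .ofNat 39, .negSucc 155, .negSucc 40, .negSucc 24, .negSucc 7⟩, .ofNat 458, .ofNat 5, .ofNat 0, .ofNat 5, .ofNat 1649, .ofNat 0, .ofNat 245, .ofNat 85, .negSucc 1970, .ofNat 0, .ofNat 128, .ofNat 242, .ofNat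 0, .ofNat 0, .ofNat 1980, .ofNat 1563, .ofNat 0, .ofNat 0, .ofNat 0, .ofNat 0, .ofNat 0, .ofNat 0, .ofNat 3396671775946730987266951204290720968998912, .ofNat 0, .ofNat 0, .ofNat 0, .ofNat 55860227861820874732724175771804418523004928, .ofNat 0, .ofNat 0, .ofNat 0, .ofNat 1304473160161770257535457661833889167051849728, .ofNat 0⟩)
    (by decide +kernel)
theorem L01837 : Good (Phi V5.P V5.D (-1) 1) ⟨5, 21, 3, 1, 3, 7, 4, 14, 5, 0⟩ :=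
  leafX_sound T5.ok_mp T5.Ymp.bz_eq (w := 240) (c := ⟨⟨.negSucc 319, .negSucc 336, .ofNat 194, .negSucc 424, .negSucc 212, .negSucc 544⟩, ⟨.negSucc 182, .ofNat 30, .negSucc 243, .ofNat 7, .ofNat 20, .ofNat 54⟩, ⟨.ofNat 61, .ofNat 292, .negSucc 310, .ofNat 279, .ofNat 34, .ofNat 228⟩, ⟨.negSucc 670, .negSucc 573, .ofNat 516, .negSucc 790, .negSucc 410, .negSucc 1034⟩, ⟨.negSucc 1592, .ofNat 213, .negSucc 764, .negSucc 74, .negSucc 7, .ofNat 69⟩, .ofNat 468, .ofNat 56, .ofNat 0, .ofNat 56, .ofNat 1705, .ofNat 0, .ofNat 349, .ofNat 69, .negSucc 1582, .ofNat 0, .ofNat 128, .ofNat 253, .ofNat 0, .ofNat 0, .ofNat 1528, .ofNat 2013, .ofNat 0, .ofNat 0, .ofNat 0, .ofNat 0, .ofNat 0, .ofNat 0, .ofNat 32813722545010365215205738374160691681558528, .ofNat 0, .ofNat 0, .ofNat 0, .ofNat 248026995336196950931293433914063373635420160, .ofNat 0, .ofNat 0, .ofNat 0, .ofNat 849982682439074341991172989858699344003203072,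 .ofNat 0⟩)
    (by decide +kernel)
theorem L01838 : Good (Phi V5.P V5.D (-1) 1) ⟨4, 11, 3, 1, 2, 3, 4, 14, 5, 0⟩ :=
  out_sound (S := T5.ds_mp) T5.ok_mp (w := 51) (j := 3) (by decide +kernel)
theorem L01839 : Good (Phi V5.P V5.D (-1) 1) ⟨3, 4, 3, 1, 3, 6, 4, 14, 5, 1⟩ :=
  leafX_sound T5.ok_mp T5.Ymp.bz_eq (w := 231) (c := ⟨⟨.negSucc 741, .negSucc 554, .negSucc 170, .ofNat 81, .negSucc 63, .negSucc 413⟩, ⟨.negSucc 133, .ofNat 55, .negSucc 141, .negSucc 19, .ofNat 13, .ofNat 3⟩, ⟨.ofNat 258, .ofNat 419, .ofNat 64, .negSucc 96, .ofNat 22, .ofNat 236⟩, ⟨.negSucc 1628, .negSucc 874, .negSucc 236, .ofNat 162, .negSucc 146, .negSucc 851⟩, ⟨.negSucc 1295, .ofNat 39, .negSucc 26, .negSucc 206, .ofNat 230, .ofNat 253⟩, .ofNat 505, .negSucc 118, .ofNat 0, .negSucc 118, .ofNat 2214, .ofNat 0, .ofNat 305, .ofNat 108, .negSucc 841, .ofNat 0, .ofNat 128, .ofNat 17, .ofNat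 0, .ofNat 0, .ofNat 1000, .ofNat 962, .ofNat 0, .ofNat 0, .ofNat 0, .ofNat 0, .ofNat 0, .ofNat 0, .ofNat 0, .ofNat 0, .ofNat 0, .ofNat 0, .ofNat 0, .ofNat 0, .ofNat 0, .ofNat 0, .ofNat 2722603535609553977294104912808346116822138880, .ofNat 0⟩)
    (by decide +kernel)
theorem L01840 : Good (Phi V5.P V5.D (-1) 1) ⟨3, 4, 3, 1, 3, 7, 4, 14, 5, 1⟩ :=
  leafX_sound T5.ok_mp T5.Ymp.bz_eq (w := 232) (c := ⟨⟨.negSucc 1035, .negSucc 184, .negSucc 37, .ofNat 50, .ofNat 7, .negSucc 172⟩, ⟨.negSucc 139, .ofNat 29, .negSucc 141, .negSucc 31, .ofNat 11, .ofNat 2⟩, ⟨.ofNat 493, .ofNat 82, .negSucc 60, .negSucc 106, .negSucc 48, .ofNat 36⟩, ⟨.negSucc 2187, .negSucc 198, .ofNat 74, .ofNat 119, .negSucc 10, .negSucc 381⟩, ⟨.negSucc 1375, .negSucc 50, .negSucc 204, .negSucc 380, .ofNat 199, .ofNat 190⟩, .ofNat 483, .negSucc 103, .ofNat 0, .negSucc 103, .ofNat 1807, .ofNat 0, .ofNat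 359, .ofNat 119, .negSucc 1170, .ofNat 0, .ofNat 128, .ofNat 57, .ofNat 0, .ofNat 0, .ofNat 1344, .ofNat 1407, .ofNat 0, .ofNat 0, .ofNat 0, .ofNat 0, .ofNat 0, .ofNat 0, .ofNat 0, .ofNat 0, .ofNat 0, .ofNat 0, .ofNat 262788515389004650664502465855289894901907456, .ofNat 0, .ofNat 0, .ofNat 0, .ofNat 4651565630503923986461443740583469780956086272, .ofNat 0⟩)
    (by decide +kernel)
theorem L01841 : Good (Phi V5.P V5.D (-1) 1) ⟨5, 20, 3, 1, 3, 6, 4, 14, 5, 1⟩ :=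
  leafX_sound T5.ok_mp T5.Ymp.bz_eq (w := 241) (c := ⟨⟨.negSucc 1143, .negSucc 386, .negSucc 495, .ofNat 227, .negSucc 242, .negSucc 704⟩, ⟨.negSucc 112, .ofNat 59, .negSucc 134, .negSucc 40, .ofNat 45, .ofNat 73⟩, ⟨.ofNat 537, .ofNat 332, .ofNat 397, .negSucc 257, .ofNat 195, .ofNat 501⟩, ⟨.negSucc 2268, .negSucc 631, .negSucc 865, .ofNat 420, .negSucc 446, .negSucc 1311⟩, ⟨.negSucc 1369, .ofNat 145, .ofNat 277, .negSucc 289, .ofNat 304, .ofNat 425⟩, .ofNat 476, .ofNat 52, .ofNat 0, .ofNat 52, .ofNat 1988, .ofNat 0, .ofNat 329, .ofNat 47, .negSucc 1076, .ofNat 0, .ofNat 128, .ofNat 110, .ofNat 0, .ofNat 0, .ofNat 1129, .ofNat 1605, .ofNat 0, .ofNat 0, .ofNat 944018438664241803856225797653840338616320, .ofNat 0, .ofNat 0, .ofNat 0, .ofNat 0, .ofNat 0, .ofNat 0, .ofNat 0, .ofNat 96831231410631453114913157439378261337440256, .ofNat 0, .ofNat 0, .ofNat 0, .ofNat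 428406799414379699562836977913091980330532864, .ofNat 0⟩)
    (by decide +kernel)
theorem L01842 : Good (Phi V5.P V5.D (-1) 1) ⟨5, 21, 3, 1, 3, 6, 4, 14, 5, 1⟩ :=
  leafX_sound T5.ok_mp T5.Ymp.bz_eq (w := 242) (c := ⟨⟨.negSucc 1581, .negSucc 306, .negSucc 440, .ofNat 467, .negSucc 306, .negSucc 815⟩, ⟨.negSucc 58, .ofNat 64, .negSucc 114, .negSucc 72, .ofNat 59, .ofNat 103⟩, ⟨.ofNat 932, .ofNat 246, .ofNat 364, .negSucc 479, .ofNat 247, .ofNat 587⟩, ⟨.negSucc 3011, .negSucc 449, .negSucc 715, .ofNat 844, .negSucc 549, .negSucc 1482⟩, ⟨.negSucc 1209, .ofNat 80, .ofNat 406, .negSucc 378, .ofNat 336, .ofNat 448⟩, .ofNat 477, .ofNat 113, .ofNat 0, .ofNat 113, .ofNat 1995, .ofNat 0, .ofNat 411, .ofNat 26, .negSucc 2357, .ofNat 0, .ofNat 128, .ofNat 303, .ofNat 0, .ofNat 0, .ofNat 2408, .ofNat 4356, .ofNat 0, .ofNat 0, .ofNat 6729720377856286780207319200562541662044160,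 .ofNat 0, .ofNat 0, .ofNat 0, .ofNat 143751174783753915819906929520603225701482496, .ofNat 0, .ofNat 0, .ofNat 0, .ofNat 338197836582841287527723921084640784210198528, .ofNat 0, .ofNat 0, .ofNat 0, .ofNat 2929895762992217807717212152170699715927605248, .ofNat 0⟩)
    (by decide +kernel)
theorem L01843 : Good (Phi V5.P V5.D (-1) 1) ⟨4, 10, 3, 1, 3, 7, 4, 14, 5, 1⟩ :=
  leafX_sound T5.ok_mp T5.Ymp.bz_eq (w := 237) (c := ⟨⟨.negSucc 1469, .negSucc 166, .negSucc 178, .ofNat 402, .ofNat 54, .negSucc 90⟩, ⟨.negSucc 87, .ofNat 17, .negSucc 148, .negSucc 79, .ofNat 7, .ofNat 14⟩, ⟨.ofNat 809, .ofNat 88, .ofNat 54, .negSucc 417, .negSucc 104, .negSucc 38⟩, ⟨.negSucc 2853, .negSucc 225, .negSucc 221, .ofNat 741, .ofNat 98, .negSucc 170⟩, ⟨.negSucc 1329, .ofNat 27, .negSucc 26, .negSucc 552, .ofNat 78, .ofNat 72⟩, .ofNat 458, .ofNat 46, .ofNat 0, .ofNat 46, .ofNat 1717,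 .ofNat 0, .ofNat 595, .ofNat 56, .negSucc 1877, .ofNat 0, .ofNat 128, .ofNat 234, .ofNat 0, .ofNat 0, .ofNat 1886, .ofNat 1706, .ofNat 0, .ofNat 0, .ofNat 1321335711609347922777624407583096555175936, .ofNat 0, .ofNat 0, .ofNat 0, .ofNat 0, .ofNat 0, .ofNat 0, .ofNat 0, .ofNat 485056435175644559968723147240806432884391936, .ofNat 0, .ofNat 0, .ofNat 0, .ofNat 4358726228674361859655377942175830891114266624, .ofNat 0⟩)
    (by decide +kernel)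
theorem L01844 : Good (Phi V5.P V5.D (-1) 1) ⟨4, 11, 3, 1, 2, 3, 4, 14, 5, 1⟩ :=
  out_sound (S := T5.ds_mp) T5.ok_mp (w := 51) (j := 3) (by decide +kernel)
theorem L01845 : Good (Phi V5.P V5.D (-1) 1) ⟨4, 8, 3, 1, 3, 6, 4, 15, 5, 0⟩ :=
  leafX_sound T5.ok_mp T5.Ymp.bz_eq (w := 236) (c := ⟨⟨.negSucc 608, .negSucc 115, .negSucc 47, .negSucc 69, .negSucc 126, .negSucc 287⟩, ⟨.negSucc 106, .ofNat 16, .negSucc 116, .negSucc 21, .ofNat 6, .negSucc 13⟩, ⟨.ofNat 274, .ofNat 60, .negSucc 65, .ofNat 23, .ofNat 57, .ofNat 102⟩, ⟨.negSucc 1288, .negSucc 161, .ofNat 13, .negSucc 125, .negSucc 291, .negSucc 635⟩, ⟨.negSucc 1140, .negSucc 56, .negSucc 146, .negSucc 227, .ofNat 222, .ofNat 158⟩, .ofNat 458, .negSucc 100, .ofNat 0, .negSucc 100, .ofNat 1446, .ofNat 0, .ofNat 213, .ofNat 122, .negSucc 703, .ofNat 0, .ofNat 128, .ofNat 23, .ofNat 0, .ofNat 0, .ofNat 859, .ofNat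 3025, .ofNat 0, .ofNat 0, .ofNat 0, .ofNat 0, .ofNat 0, .ofNat 0, .ofNat 0, .ofNat 0, .ofNat 0, .ofNat 0, .ofNat 0, .ofNat 0, .ofNat 0, .ofNat 0, .ofNat 0, .ofNat 0⟩)
    (by decide +kernel)
theorem L01846 : Good (Phi V5.P V5.D (-1) 1) ⟨4, 9, 3, 1, 3, 6, 4, 15, 5, 0⟩ :=
  leafX_sound T5.ok_mp T5.Ymp.bz_eq (w := 235) (c := ⟨⟨.negSucc 599, .negSucc 202, .negSucc 137, .negSucc 36, .negSucc 191, .negSucc 451⟩, ⟨.negSucc 102, .ofNat 18, .negSucc 129, .negSucc 22, .ofNat 17, .ofNat 6⟩, ⟨.ofNat 230, .ofNat 142, .ofNat 18, .negSucc 5, .ofNat 109, .ofNat 238⟩, ⟨.negSucc 1241, .negSucc 316, .negSucc 172, .negSucc 68, .negSucc 385, .negSucc 906⟩, ⟨.negSucc 1279, .ofNat 45, .negSucc 78, .negSucc 197, .ofNat 215, .ofNat 225⟩, .ofNat 484, .negSucc 63, .ofNat 0, .negSucc 63, .ofNat 2005, .ofNat 0, .ofNat 277, .ofNat 103, .negSucc 1275, .ofNat 0, .ofNat 128, .ofNat 69, .ofNat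 0, .ofNat 0, .ofNat 1464, .ofNat 1074, .ofNat 0, .ofNat 0, .ofNat 0, .ofNat 0, .ofNat 0, .ofNat 0, .ofNat 0, .ofNat 0, .ofNat 0, .ofNat 0, .ofNat 0, .ofNat 0, .ofNat 0, .ofNat 317644488325851932231346572874497641201031708672, .ofNat 1364531865983129622524814656790407125158330368, .ofNat 0⟩)
    (by decide +kernel)
theorem L01847 : Good (Phi V5.P V5.D (-1) 1) ⟨5, 20, 3, 1, 3, 6, 4, 15, 5, 0⟩ :=
  leafX_sound T5.ok_mp T5.Ymp.bz_eq (w := 240) (c := ⟨⟨.negSucc 565, .negSucc 218, .negSucc 243, .negSucc 30, .negSucc 347, .negSucc 794⟩, ⟨.negSucc 129, .ofNat 25, .negSucc 118, .negSucc 20, .ofNat 44, .ofNat 66⟩, ⟨.ofNat 131, .ofNat 182, .ofNat 141, .negSucc 20, .ofNat 268, .ofNat 578⟩, ⟨.negSucc 1156, .negSucc 353, .negSucc 357, .negSucc 63, .negSucc 651, .negSucc 1489⟩, ⟨.negSucc 1428, .ofNat 31, .negSucc 14, .negSucc 195, .ofNat 356, .ofNat 423⟩, .ofNat 484, .ofNat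 6, .ofNat 0, .ofNat 6, .ofNat 2039, .ofNat 0, .ofNat 239, .ofNat 80, .negSucc 1211, .ofNat 0, .ofNat 128, .ofNat 120, .ofNat 0, .ofNat 0, .ofNat 1317, .ofNat 1122, .ofNat 0, .ofNat 0, .ofNat 269819176974382798906969481814000946642944, .ofNat 0, .ofNat 0, .ofNat 0, .ofNat 0, .ofNat 0, .ofNat 0, .ofNat 0, .ofNat 0, .ofNat 0, .ofNat 0, .ofNat 5600097000339780615030097821331195579542055944192, .ofNat 451465218592305391225229877056705475303702528, .ofNat 0⟩)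
    (by decide +kernel)
theorem L01848 : Good (Phi V5.P V5.D (-1) 1) ⟨5, 21, 3, 1, 3, 6, 4, 15, 5, 0⟩ :=
  leafX_sound T5.ok_mp T5.Ymp.bz_eq (w := 241) (c := ⟨⟨.negSucc 668, .negSucc 565, .negSucc 602, .negSucc 0, .negSucc 346, .negSucc 988⟩, ⟨.negSucc 131, .ofNat 63, .negSucc 77, .negSucc 26, .ofNat 57, .ofNat 113⟩, ⟨.ofNat 204, .ofNat 496, .ofNat 459, .negSucc 45, .ofNat 267, .ofNat 769⟩, ⟨.negSucc 1325, .negSucc 977, .negSucc 1023, .negSucc 11, .negSucc 627, .negSucc 1802⟩, ⟨.negSucc 1386, .ofNat 136, .ofNat 246, .negSucc 214, .ofNat 303, .ofNat 454⟩, .ofNat 453, .ofNat 89, .ofNat 0, .ofNat 89, .ofNat 1647, .ofNat 0, .ofNat 364, .ofNat 49, .negSucc 2258, .ofNat 0, .ofNat 128, .ofNat 311, .ofNat 0, .ofNat 0, .ofNat 2403, .ofNat 3028, .ofNat 0, .ofNat 0, .ofNat 4990072465782969781221379874818172414590976, .ofNat 0, .ofNat 0, .ofNat 0, .ofNat 187894519652821549046799822208347673714491392,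 .ofNat 0, .ofNat 0, .ofNat 0, .ofNat 351782457229348847013235401671024720861986816, .ofNat 0, .ofNat 0, .ofNat 28018694441117966727339536609844377784522205298688, .ofNat 2603458377238797204346391499024114214003277824, .ofNat 0⟩)
    (by decide +kernel)
theorem L01849 : Good (Phi V5.P V5.D (-1) 1) ⟨4, 11, 3, 1, 3, 6, 4, 15, 5, 0⟩ :=
  out_sound (S := T5.ds_mp) T5.ok_mp (w := 51) (j := 3) (by decide +kernel)

end Crest.Agent.R097C5.N5mp
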