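import Crest.Agent.R097C5.N5mp_000
import Crest.Agent.R097C5.N5mp_001
import Crest.Agent.R097C5.N5mp_002
import Crest.Agent.R097C5.N5mp_003
import Crest.Agent.R097C5.N5mp_004
import Crest.Agent.R097C5.N5mp_005
import Crest.Agent.R097C5.N5mp_006
import Crest.Agent.R097C5.N5mp_007
import Crest.Agent.R097C5.N5mp_008
import Crest.Agent.R097C5.N5mp_009
import Crest.Agent.R097C5.N5mp_010
import Crest.Agent.R097C5.N5mp_011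
import Crest.Agent.R097C5.N5mp_012
import Crest.Agent.R097C5.N5mp_013
import Crest.Agent.R097C5.N5mp_014
import Crest.Agent.R097C5.N5mp_015

/-!
# Row 97, box cover in dimension n = 5 (generated)
-/

set_option autoImplicit false
set_option Elab.async false
set_option maxHeartbeats 0
set_option maxRecDepth 100000

open Crest.Agent.R097 Crest.Agent.R097.KA


namespace Crest.Agent.R097C5.N5mp

theorem g00000 : Good (Phi V5.P V5.D (-1) 1) ⟨2, 0, 3, 0, 1, 0, 0, 0, 3, 0⟩ :=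
  Good.n3 (Good.n4 (Good.n3 L00000 L00001) L00002) (Good.n3 L00003 (Good.n3 L00004 (Good.n2 L00005 L00006)))
theorem g00001 : Good (Phi V5.P V5.D (-1) 1) ⟨2, 0, 3, 1, 1, 0, 0, 0, 3, 0⟩ :=
  Good.n3 (Good.n4 (Good.n3 L00012 L00013) L00014) (Good.n3 L00015 (Good.n3 L00016 (Good.n2 L00017 L00018)))
theorem g00002 : Good (Phi V5.P V5.D (-1) 1) ⟨2, 0, 2, 0, 1, 0, 0, 0, 2, 0⟩ :=
  Good.n1 (Good.n4 g00000 (Good.n3 L00007 (Good.n3 L00008 (Good.n3 L00009 (Good.n3 L00010 L00011))))) (Good.n4 g00001 (Good.n3 L00019 (Good.n3 L00020 (Good.n3 L00021 (Good.n3 L00022 L00023)))))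
theorem g00003 : Good (Phi V5.P V5.D (-1) 1) ⟨2, 0, 2, 0, 1, 0, 1, 0, 3, 2⟩ :=
  Good.n3 L00024 (Good.n4 L00025 (Good.n2 L00026 (Good.n3 (Good.n4 (Good.n0 L00027 L00028) L00029) L00030)))
theorem g00004 : Good (Phi V5.P V5.D (-1) 1) ⟨2, 0, 2, 0, 1, 0, 1, 1, 2, 1⟩ :=
  Good.n3 (Good.n4 (Good.n4 L00032 L00033) L00034) (Good.n4 (Good.n3 (Good.n4 L00035 L00036) (Good.n2 L00037 L00038)) L00039)
theorem g00005 : Good (Phi V5.P V5.D (-1) 1) ⟨2, 0, 2, 0, 1, 1, 2, 0, 3, 0⟩ :=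
  Good.n4 (Good.n2 (Good.n3 (Good.n2 L00041 L00042) L00043) (Good.n2 L00044 L00045)) (Good.n2 L00046 (Good.n3 L00047 L00048))
theorem g00006 : Good (Phi V5.P V5.D (-1) 1) ⟨2, 0, 2, 0, 1, 1, 2, 0, 1, 0⟩ :=
  Good.n4 (Good.n4 g00005 (Good.n2 (Good.n4 L00049 L00050) (Good.n3 (Good.n3 L00051 L00052) L00053))) (Good.n4 (Good.n2 (Good.n0 L00054 L00055) L00056) L00057)
theorem g00007 : Good (Phi V5.P V5.D (-1) 1) ⟨2, 0, 2, 0, 1, 1, 2, 1, 2, 1⟩ :=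
  Good.n4 (Good.n4 (Good.n2 L00063 L00064) (Good.n2 (Good.n0 (Good.n0 L00065 L00066) L00067) L00068)) (Good.n2 L00069 L00070)
theorem g00008 : Good (Phi V5.P V5.D (-1) 1) ⟨2, 0, 2, 0, 1, 1, 2, 1, 0, 0⟩ :=
  Good.n4 (Good.n4 (Good.n4 L00060 (Good.n4 L00061 L00062)) g00007) (Good.n2 (Good.n4 (Good.n4 (Good.n2 L00071 L00072) L00073) L00074) L00075)
theorem g00009 : Good (Phi V5.P V5.D (-1) 1) ⟨2, 0, 2, 0, 1, 1, 2, 2, 2, 1⟩ :=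
  Good.n4 (Good.n4 (Good.n2 L00080 (Good.n0 L00081 L00082)) (Good.n2 L00083 L00084)) (Good.n2 L00085 L00086)
theorem g00010 : Good (Phi V5.P V5.D (-1) 1) ⟨2, 0, 2, 0, 2, 2, 2, 2, 1, 1⟩ :=
  Good.n4 (Good.n2 (Good.n4 (Good.n2 (Good.n4 (Good.n3 L00087 L00088) L00089) L00090) L00091) L00092) L00093
theorem g00011 : Good (Phi V5.P V5.D (-1) 1) ⟨2, 0, 2, 0, 1, 1, 2, 2, 0, 0⟩ :=
  Good.n4 (Good.n4 (Good.n4 L00076 (Good.n4 L00077 (Good.n2 L00078 L00079))) g00009) (Good.n2 g00010 L00094)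
theorem g00012 : Good (Phi V5.P V5.D (-1) 1) ⟨2, 0, 2, 0, 1, 1, 2, 3, 1, 0⟩ :=
  Good.n4 (Good.n4 (Good.n1 L00095 L00096) (Good.n3 (Good.n2 L00097 L00098) L00099)) (Good.n4 L00100 L00101)
theorem g00013 : Good (Phi V5.P V5.D (-1) 1) ⟨2, 0, 2, 0, 1, 1, 0, 0, 0, 0⟩ :=
  Good.n3 (Good.n3 (Good.n4 g00006 (Good.n2 L00058 L00059)) g00008) (Good.n3 g00011 (Good.n4 g00012 L00102))
theorem g00014 : Good (Phi V5.P V5.D (-1) 1) ⟨3, 0, 2, 1, 1, 0, 1, 0, 3, 2⟩ :=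
  Good.n3 L00107 (Good.n4 L00108 (Good.n2 L00109 (Good.n3 (Good.n4 (Good.n0 L00110 L00111) L00112) L00113)))
theorem g00015 : Good (Phi V5.P V5.D (-1) 1) ⟨3, 0, 2, 1, 1, 0, 1, 0, 0, 0⟩ :=
  Good.n4 (Good.n4 (Good.n4 (Good.n4 (Good.n3 L00103 L00104) L00105) L00106) (Good.n4 g00014 L00114)) L00115
theorem g00016 : Good (Phi V5.P V5.D (-1) 1) ⟨3, 0, 3, 2, 2, 0, 1, 1, 1, 0⟩ :=
  Good.n4 (Good.n3 (Good.n4 L00116 L00117) (Good.n3 L00118 L00119)) (Good.n4 (Good.n3 L00120 L00121) L00122)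
theorem g00017 : Good (Phi V5.P V5.D (-1) 1) ⟨3, 0, 3, 3, 2, 0, 2, 2, 0, 0⟩ :=
  Good.n2 (Good.n4 (Good.n4 L00124 (Good.n4 L00125 L00126)) L00127) (Good.n4 (Good.n4 (Good.n4 L00128 L00129) (Good.n4 L00130 L00131)) L00132)
theorem g00018 : Good (Phi V5.P V5.D (-1) 1) ⟨3, 0, 3, 3, 2, 0, 1, 1, 0, 0⟩ :=
  Good.n3 g00017 (Good.n4 (Good.n4 (Good.n3 L00133 (Good.n4 L00134 L00135)) (Good.n4 L00136 L00137)) L00138)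
theorem g00019 : Good (Phi V5.P V5.D (-1) 1) ⟨3, 0, 2, 1, 2, 1, 1, 1, 1, 0⟩ :=
  Good.n4 (Good.n4 (Good.n3 L00139 (Good.n3 L00140 L00141)) (Good.n3 L00142 L00143)) (Good.n4 (Good.n3 L00144 L00145) L00146)
theorem g00020 : Good (Phi V5.P V5.D (-1) 1) ⟨3, 0, 2, 1, 4, 4, 4, 14, 6, 32⟩ :=
  Good.n3 (Good.n4 (Good.n2 L00159 (Good.n3 L00160 L00161)) L00162) (Good.n2 (Good.n3 (Good.n4 (Good.n4 (Good.n2 L00163 L00164) L00165) L00166) L00167) L00168)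
theorem g00021 : Good (Phi V5.P V5.D (-1) 1) ⟨3, 0, 2, 1, 3, 2, 2, 3, 5, 16⟩ :=
  Good.n3 (Good.n3 L00153 (Good.n4 (Good.n2 L00154 (Good.n3 L00155 (Good.n2 L00156 L00157))) L00158)) (Good.n2 (Good.n3 (Good.n4 g00020 L00169) L00170) L00171)
theorem g00022 : Good (Phi V5.P V5.D (-1) 1) ⟨3, 0, 2, 1, 3, 3, 2, 3, 4, 8⟩ :=
  Good.n3 (Good.n2 (Good.n3 (Good.n4 (Good.n4 (Good.n3 L00175 L00176) L00177) L00178) L00179) L00180) L00181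
theorem g00023 : Good (Phi V5.P V5.D (-1) 1) ⟨3, 0, 2, 1, 2, 1, 1, 1, 4, 8⟩ :=
  Good.n3 (Good.n2 L00147 (Good.n3 L00148 (Good.n4 (Good.n2 L00149 (Good.n3 L00150 L00151)) L00152))) (Good.n2 (Good.n4 g00021 (Good.n3 L00172 (Good.n2 L00173 L00174))) g00022)
theorem g00024 : Good (Phi V5.P V5.D (-1) 1) ⟨3, 0, 2, 1, 2, 1, 1, 1, 0, 0⟩ :=
  Good.n4 g00019 (Good.n4 (Good.n4 (Good.n4 g00023 (Good.n3 L00182 (Good.n2 L00183 L00184))) L00185) L00186)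
theorem g00025 : Good (Phi V5.P V5.D (-1) 1) ⟨3, 1, 2, 1, 1, 0, 1, 0, 1, 0⟩ :=
  Good.n4 (Good.n4 (Good.n4 (Good.n3 L00187 L00188) L00189) L00190) (Good.n4 (Good.n3 L00191 (Good.n4 L00192 (Good.n3 (Good.n4 L00193 L00194) L00195))) L00196)
theorem g00026 : Good (Phi V5.P V5.D (-1) 1) ⟨3, 1, 3, 2, 2, 1, 2, 2, 3, 4⟩ :=
  Good.n4 (Good.n2 L00203 (Good.n3 L00204 (Good.n4 (Good.n2 L00205 (Good.n3 L00206 L00207)) L00208))) L00209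
theorem g00027 : Good (Phi V5.P V5.D (-1) 1) ⟨3, 1, 3, 2, 1, 0, 2, 2, 0, 0⟩ :=
  Good.n4 (Good.n4 (Good.n4 L00198 L00199) (Good.n4 L00200 L00201)) (Good.n4 (Good.n4 (Good.n2 L00202 g00026) L00210) L00211)
theorem g00028 : Good (Phi V5.P V5.D (-1) 1) ⟨3, 1, 3, 3, 2, 1, 2, 2, 3, 4⟩ :=
  Good.n4 (Good.n2 L00217 (Good.n3 L00218 (Good.n4 (Good.n2 L00219 (Good.n3 L00220 L00221)) L00222))) L00223
theorem g00029 : Good (Phi V5.P V5.D (-1) 1) ⟨3, 1, 3, 3, 1, 0, 2, 2, 0, 0⟩ :=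
  Good.n4 (Good.n4 (Good.n4 L00212 L00213) (Good.n4 L00214 L00215)) (Good.n4 (Good.n4 (Good.n2 L00216 g00028) L00224) L00225)
theorem g00030 : Good (Phi V5.P V5.D (-1) 1) ⟨3, 1, 2, 1, 3, 2, 3, 6, 4, 8⟩ :=
  Good.n4 (Good.n3 L00231 (Good.n4 (Good.n2 L00232 (Good.n3 L00233 (Good.n2 L00234 L00235))) L00236)) L00237
theorem g00031 : Good (Phi V5.P V5.D (-1) 1) ⟨3, 1, 2, 1, 2, 1, 3, 6, 4, 8⟩ :=
  Good.n2 g00030 (Good.n2 (Good.n3 (Good.n4 (Good.n4 (Good.n3 L00238 L00239) L00240) L00241) L00242) L00243)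
theorem g00032 : Good (Phi V5.P V5.D (-1) 1) ⟨3, 1, 2, 1, 1, 0, 3, 6, 0, 0⟩ :=
  Good.n4 (Good.n4 (Good.n4 L00226 L00227) (Good.n4 L00228 L00229)) (Good.n4 (Good.n4 (Good.n2 L00230 (Good.n4 g00031 L00244)) L00245) L00246)
theorem g00033 : Good (Phi V5.P V5.D (-1) 1) ⟨3, 1, 2, 1, 1, 0, 3, 7, 1, 0⟩ :=
  Good.n4 (Good.n4 (Good.n3 L00247 (Good.n3 L00248 L00249)) (Good.n3 L00250 (Good.n2 L00251 L00252))) (Good.n4 L00253 L00254)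
theorem g00034 : Good (Phi V5.P V5.D (-1) 1) ⟨3, 1, 2, 1, 1, 0, 0, 0, 0, 0⟩ :=
  Good.n3 (Good.n4 g00025 L00197) (Good.n3 (Good.n1 g00027 g00029) (Good.n3 g00032 (Good.n4 g00033 L00255)))
theorem g00035 : Good (Phi V5.P V5.D (-1) 1) ⟨2, 0, 2, 1, 1, 1, 2, 0, 2, 0⟩ :=
  Good.n4 (Good.n4 (Good.n2 (Good.n3 (Good.n2 L00256 L00257) L00258) (Good.n2 L00259 L00260)) L00261) (Good.n2 L00262 (Good.n4 L00263 L00264))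
theorem g00036 : Good (Phi V5.P V5.D (-1) 1) ⟨2, 0, 2, 1, 1, 1, 2, 0, 0, 0⟩ :=
  Good.n4 (Good.n4 g00035 (Good.n4 (Good.n4 (Good.n2 L00265 L00266) (Good.n2 L00267 L00268)) L00269)) (Good.n2 L00270 L00271)
theorem g00037 : Good (Phi V5.P V5.D (-1) 1) ⟨2, 0, 2, 1, 1, 1, 2, 1, 3, 2⟩ :=
  Good.n4 (Good.n2 L00275 L00276) (Good.n2 (Good.n2 (Good.n3 (Good.n0 (Good.n3 L00277 L00278) L00279) L00280) L00281) L00282)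
theorem g00038 : Good (Phi V5.P V5.D (-1) 1) ⟨2, 0, 2, 1, 1, 1, 2, 1, 0, 0⟩ :=
  Good.n4 (Good.n4 (Good.n4 L00272 (Good.n4 L00273 L00274)) (Good.n4 g00037 (Good.n2 L00283 L00284))) (Good.n2 (Good.n4 (Good.n4 (Good.n2 L00285 L00286) L00287) L00288) L00289)
theorem g00039 : Good (Phi V5.P V5.D (-1) 1) ⟨2, 0, 2, 1, 1, 1, 1, 1, 3, 1⟩ :=
  Good.n4 (Good.n3 L00296 (Good.n2 L00297 (Good.n3 L00298 L00299))) (Good.n2 (Good.n3 L00300 L00301) (Good.n3 (Good.n0 L00302 L00303) L00304))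
theorem g00040 : Good (Phi V5.P V5.D (-1) 1) ⟨2, 0, 2, 1, 1, 1, 1, 1, 2, 0⟩ :=
  Good.n4 (Good.n4 (Good.n3 L00290 (Good.n3 L00291 L00292)) (Good.n3 L00293 (Good.n2 L00294 L00295))) g00039
theorem g00041 : Good (Phi V5.P V5.D (-1) 1) ⟨2, 0, 2, 1, 1, 1, 1, 1, 1, 0⟩ :=
  Good.n4 g00040 (Good.n4 (Good.n3 (Good.n4 (Good.n2 L00305 L00306) (Good.n2 L00307 L00308)) L00309) L00310)
theorem g00042 : Good (Phi V5.P V5.D (-1) 1) ⟨2, 0, 2, 1, 2, 2, 1, 1, 2, 2⟩ :=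
  Good.n2 (Good.n4 (Good.n3 (Good.n2 (Good.n4 (Good.n3 L00311 L00312) L00313) L00314) L00315) L00316) L00317
theorem g00043 : Good (Phi V5.P V5.D (-1) 1) ⟨2, 0, 2, 1, 0, 0, 0, 0, 0, 0⟩ :=
  Good.n2 (Good.n0 (Good.n3 g00015 (Good.n2 (Good.n1 (Good.n4 g00016 L00123) g00018) g00024)) g00034) (Good.n3 (Good.n3 g00036 g00038) (Good.n4 g00041 (Good.n2 (Good.n4 g00042 L00318) L00319)))
theorem g00044 : Good (Phi V5.P V5.D (-1) 1) ⟨2, 0, 1, 0, 0, 0, 0, 0, 0, 0⟩ :=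
  Good.n1 (Good.n2 (Good.n4 (Good.n4 g00002 (Good.n3 (Good.n4 g00003 L00031) g00004)) L00040) g00013) g00043
theorem g00045 : Good (Phi V5.P V5.D (-1) 1) ⟨3, 2, 2, 0, 1, 0, 1, 0, 1, 0⟩ :=
  Good.n4 (Good.n4 (Good.n4 (Good.n3 L00320 L00321) L00322) L00323) (Good.n4 (Good.n3 L00324 (Good.n4 L00325 (Good.n4 L00326 L00327))) L00328)
theorem g00046 : Good (Phi V5.P V5.D (-1) 1) ⟨3, 3, 2, 0, 1, 0, 2, 0, 1, 0⟩ :=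
  Good.n3 (Good.n4 (Good.n4 (Good.n4 L00330 L00331) L00332) L00333) (Good.n4 (Good.n4 L00334 L00335) L00336)
theorem g00047 : Good (Phi V5.P V5.D (-1) 1) ⟨3, 3, 2, 0, 1, 0, 2, 1, 1, 0⟩ :=
  Good.n4 (Good.n4 L00337 L00338) (Good.n4 (Good.n4 L00339 (Good.n4 (Good.n3 L00340 L00341) L00342)) L00343)
theorem g00048 : Good (Phi V5.P V5.D (-1) 1) ⟨2, 1, 2, 0, 1, 0, 1, 1, 2, 0⟩ :=
  Good.n4 (Good.n3 L00345 (Good.n3 L00346 L00347)) (Good.n3 L00348 (Good.n3 L00349 (Good.n3 L00350 L00351)))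
theorem g00049 : Good (Phi V5.P V5.D (-1) 1) ⟨2, 1, 2, 0, 1, 0, 1, 1, 1, 0⟩ :=
  Good.n4 g00048 (Good.n3 (Good.n4 (Good.n2 L00352 L00353) L00354) (Good.n4 (Good.n3 L00355 L00356) L00357))
theorem g00050 : Good (Phi V5.P V5.D (-1) 1) ⟨2, 1, 2, 0, 1, 0, 0, 0, 0, 0⟩ :=
  Good.n3 (Good.n0 (Good.n4 g00045 L00329) (Good.n4 (Good.n3 g00046 g00047) L00344)) (Good.n4 g00049 L00358)
theorem g00051 : Good (Phi V5.P V5.D (-1) 1) ⟨2, 1, 2, 0, 2, 3, 1, 0, 3, 0⟩ :=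
  Good.n3 (Good.n4 (Good.n2 (Good.n3 L00365 L00366) L00367) (Good.n3 (Good.n2 L00368 L00369) L00370)) (Good.n4 L00371 L00372)
theorem g00052 : Good (Phi V5.P V5.D (-1) 1) ⟨2, 1, 2, 0, 1, 1, 1, 0, 3, 0⟩ :=
  Good.n2 (Good.n3 (Good.n4 (Good.n3 (Good.n2 L00359 (Good.n3 L00360 L00361)) L00362) L00363) L00364) g00051
theorem g00053 : Good (Phi V5.P V5.D (-1) 1) ⟨2, 1, 2, 0, 1, 1, 1, 0, 4, 2⟩ :=
  Good.n2 (Good.n3 (Good.n3 L00373 L00374) L00375) (Good.n3 (Good.n3 (Good.n3 L00376 L00377) L00378) L00379)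
theorem g00054 : Good (Phi V5.P V5.D (-1) 1) ⟨2, 1, 2, 0, 1, 1, 1, 0, 3, 1⟩ :=
  Good.n4 g00053 (Good.n2 (Good.n3 L00380 L00381) (Good.n3 (Good.n2 L00382 L00383) (Good.n2 L00384 L00385)))
theorem g00055 : Good (Phi V5.P V5.D (-1) 1) ⟨2, 1, 2, 0, 1, 1, 1, 0, 4, 5⟩ :=
  Good.n3 (Good.n2 L00390 L00391) (Good.n2 (Good.n2 (Good.n3 (Good.n3 L00392 L00393) L00394) L00395) L00396)
theorem g00056 : Good (Phi V5.P V5.D (-1) 1) ⟨2, 1, 2, 0, 9, 304, 8, 126, 9, 224⟩ :=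
  Good.n4 (Good.n2 (Good.n3 L00415 (Good.n4 (Good.n2 (Good.n3 L00416 L00417) L00418) L00419)) L00420) L00421
theorem g00057 : Good (Phi V5.P V5.D (-1) 1) ⟨2, 1, 2, 0, 8, 152, 6, 31, 8, 112⟩ :=
  Good.n3 (Good.n4 (Good.n3 L00409 (Good.n4 (Good.n3 L00410 (Good.n2 L00411 L00412)) L00413)) L00414) (Good.n4 (Good.n2 (Good.n3 g00056 L00422) L00423) L00424)
theorem g00058 : Good (Phi V5.P V5.D (-1) 1) ⟨2, 1, 2, 0, 6, 38, 5, 15, 7, 56⟩ :=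
  Good.n2 (Good.n3 L00408 (Good.n4 (Good.n2 g00057 L00425) L00426)) (Good.n3 (Good.n4 (Good.n2 L00427 L00428) L00429) L00430)
theorem g00059 : Good (Phi V5.P V5.D (-1) 1) ⟨2, 1, 2, 0, 5, 19, 4, 7, 6, 28⟩ :=
  Good.n3 (Good.n4 (Good.n3 L00404 (Good.n2 L00405 L00406)) L00407) (Good.n2 (Good.n4 g00058 L00431) L00432)
theorem g00060 : Good (Phi V5.P V5.D (-1) 1) ⟨2, 1, 2, 0, 3, 4, 2, 1, 4, 7⟩ :=
  Good.n3 L00400 (Good.n4 (Good.n2 L00401 (Good.n3 L00402 (Good.n4 (Good.n2 L00403 g00059) L00433))) L00434)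
theorem g00061 : Good (Phi V5.P V5.D (-1) 1) ⟨2, 1, 2, 0, 4, 10, 2, 1, 4, 7⟩ :=
  Good.n4 (Good.n3 L00435 (Good.n2 (Good.n4 (Good.n3 (Good.n3 L00436 L00437) L00438) L00439) L00440)) L00441
theorem g00062 : Good (Phi V5.P V5.D (-1) 1) ⟨2, 1, 2, 0, 1, 1, 1, 0, 3, 3⟩ :=
  Good.n4 (Good.n2 L00397 L00398) (Good.n2 (Good.n3 L00399 (Good.n2 g00060 (Good.n2 g00061 L00442))) L00443)
theorem g00063 : Good (Phi V5.P V5.D (-1) 1) ⟨2, 1, 2, 0, 1, 1, 1, 0, 1, 0⟩ :=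
  Good.n4 (Good.n4 g00052 g00054) (Good.n4 (Good.n4 (Good.n2 (Good.n3 L00386 L00387) (Good.n3 L00388 L00389)) g00055) g00062)
theorem g00064 : Good (Phi V5.P V5.D (-1) 1) ⟨2, 1, 2, 0, 1, 1, 2, 3, 4, 0⟩ :=
  Good.n2 (Good.n3 L00451 L00452) (Good.n3 (Good.n4 L00453 L00454) (Good.n0 L00455 (Good.n3 L00456 L00457)))
theorem g00065 : Good (Phi V5.P V5.D (-1) 1) ⟨2, 1, 2, 0, 1, 1, 1, 1, 4, 1⟩ :=
  Good.n3 (Good.n2 L00458 (Good.n4 L00459 (Good.n3 L00460 L00461))) (Good.n3 (Good.n2 L00462 (Good.n4 L00463 L00464)) (Good.n2 L00465 (Good.n0 L00466 L00467)))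
theorem g00066 : Good (Phi V5.P V5.D (-1) 1) ⟨2, 1, 2, 0, 2, 3, 2, 2, 3, 1⟩ :=
  Good.n4 (Good.n0 L00470 (Good.n3 L00471 (Good.n4 L00472 L00473))) (Good.n0 (Good.n3 L00474 L00475) (Good.n3 L00476 L00477))
theorem g00067 : Good (Phi V5.P V5.D (-1) 1) ⟨2, 1, 2, 0, 1, 1, 2, 3, 3, 1⟩ :=
  Good.n4 (Good.n2 (Good.n3 L00478 L00479) (Good.n3 L00480 L00481)) (Good.n2 L00482 (Good.n0 L00483 L00484))
theorem g00068 : Good (Phi V5.P V5.D (-1) 1) ⟨2, 1, 2, 0, 1, 1, 1, 1, 2, 0⟩ :=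
  Good.n4 (Good.n4 (Good.n3 (Good.n2 L00449 L00450) g00064) g00065) (Good.n3 (Good.n2 (Good.n4 L00468 L00469) g00066) g00067)
theorem g00069 : Good (Phi V5.P V5.D (-1) 1) ⟨2, 1, 2, 0, 1, 1, 1, 1, 2, 1⟩ :=
  Good.n4 (Good.n4 (Good.n3 (Good.n2 L00485 L00486) L00487) (Good.n2 (Good.n2 L00488 L00489) L00490)) (Good.n2 L00491 L00492)
theorem g00070 : Good (Phi V5.P V5.D (-1) 1) ⟨2, 1, 2, 0, 2, 2, 1, 1, 2, 2⟩ :=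
  Good.n2 (Good.n4 (Good.n3 (Good.n2 (Good.n4 (Good.n3 L00493 L00494) L00495) L00496) L00497) L00498) L00499
theorem g00071 : Good (Phi V5.P V5.D (-1) 1) ⟨2, 1, 2, 0, 1, 1, 0, 0, 0, 0⟩ :=
  Good.n3 (Good.n4 g00063 (Good.n2 (Good.n4 (Good.n4 (Good.n2 L00444 L00445) L00446) L00447) L00448)) (Good.n4 (Good.n4 g00068 g00069) (Good.n2 (Good.n4 g00070 L00500) L00501))
theorem g00072 : Good (Phi V5.P V5.D (-1) 1) ⟨2, 1, 2, 1, 1, 0, 1, 1, 3, 0⟩ :=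
  Good.n3 (Good.n4 L00505 L00506) (Good.n4 (Good.n3 L00507 L00508) (Good.n3 L00509 (Good.n3 L00510 (Good.n2 L00511 L00512))))
theorem g00073 : Good (Phi V5.P V5.D (-1) 1) ⟨2, 1, 2, 1, 1, 0, 0, 0, 3, 1⟩ :=
  Good.n3 L00513 (Good.n3 L00514 (Good.n3 L00515 (Good.n3 L00516 (Good.n4 (Good.n2 L00517 L00518) L00519))))
theorem g00074 : Good (Phi V5.P V5.D (-1) 1) ⟨2, 1, 2, 1, 1, 0, 1, 0, 4, 5⟩ :=
  Good.n3 L00522 (Good.n2 L00523 (Good.n3 (Good.n4 (Good.n4 L00524 L00525) L00526) (Good.n4 L00527 L00528)))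
theorem g00075 : Good (Phi V5.P V5.D (-1) 1) ⟨2, 1, 2, 1, 1, 0, 0, 0, 2, 1⟩ :=
  Good.n4 (Good.n3 (Good.n4 (Good.n3 L00520 L00521) g00074) (Good.n3 L00529 (Good.n3 L00530 L00531))) (Good.n3 L00532 (Good.n3 L00533 L00534))
theorem g00076 : Good (Phi V5.P V5.D (-1) 1) ⟨2, 1, 2, 1, 1, 0, 0, 0, 0, 0⟩ :=
  Good.n4 (Good.n4 (Good.n4 (Good.n3 (Good.n3 (Good.n3 L00502 L00503) L00504) g00072) g00073) g00075) L00535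
theorem g00077 : Good (Phi V5.P V5.D (-1) 1) ⟨2, 1, 3, 2, 1, 1, 1, 0, 4, 0⟩ :=
  Good.n2 (Good.n3 (Good.n3 (Good.n3 (Good.n2 L00536 L00537) L00538) L00539) L00540) (Good.n3 (Good.n0 L00541 (Good.n3 L00542 L00543)) L00544)
theorem g00078 : Good (Phi V5.P V5.D (-1) 1) ⟨2, 1, 3, 2, 1, 1, 1, 0, 3, 1⟩ :=
  Good.n2 (Good.n4 (Good.n3 L00548 L00549) (Good.n3 L00550 L00551)) (Good.n3 (Good.n4 (Good.n2 L00552 L00553) L00554) (Good.n4 L00555 (Good.n2 L00556 L00557)))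
theorem g00079 : Good (Phi V5.P V5.D (-1) 1) ⟨2, 1, 3, 2, 1, 1, 1, 0, 4, 5⟩ :=
  Good.n3 (Good.n2 L00563 L00564) (Good.n2 (Good.n2 (Good.n3 (Good.n0 L00565 (Good.n3 L00566 L00567)) L00568) L00569) L00570)
theorem g00080 : Good (Phi V5.P V5.D (-1) 1) ⟨2, 1, 3, 2, 1, 1, 1, 0, 2, 1⟩ :=
  Good.n4 (Good.n4 (Good.n2 (Good.n3 L00558 L00559) (Good.n3 L00560 (Good.n2 L00561 L00562))) g00079) (Good.n2 L00571 L00572)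
theorem g00081 : Good (Phi V5.P V5.D (-1) 1) ⟨2, 1, 3, 3, 1, 1, 1, 0, 3, 0⟩ :=
  Good.n3 (Good.n4 (Good.n2 (Good.n3 (Good.n4 L00573 L00574) L00575) (Good.n3 L00576 L00577)) L00578) (Good.n4 L00579 L00580)
theorem g00082 : Good (Phi V5.P V5.D (-1) 1) ⟨2, 1, 3, 3, 1, 1, 1, 0, 3, 1⟩ :=
  Good.n4 (Good.n2 (Good.n3 L00581 L00582) (Good.n3 L00583 (Good.n0 L00584 (Good.n4 L00585 L00586)))) (Good.n2 (Good.n3 L00587 L00588) (Good.n3 L00589 (Good.n0 L00590 L00591)))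
theorem g00083 : Good (Phi V5.P V5.D (-1) 1) ⟨2, 1, 3, 3, 1, 1, 1, 0, 4, 5⟩ :=
  Good.n3 (Good.n2 L00598 L00599) (Good.n2 (Good.n3 (Good.n2 (Good.n4 (Good.n3 L00600 L00601) L00602) L00603) L00604) L00605)
theorem g00084 : Good (Phi V5.P V5.D (-1) 1) ⟨2, 1, 3, 3, 1, 1, 1, 0, 3, 2⟩ :=
  Good.n4 (Good.n2 (Good.n3 L00592 L00593) (Good.n3 (Good.n2 L00594 L00595) (Good.n2 L00596 L00597))) g00083
theorem g00085 : Good (Phi V5.P V5.D (-1) 1) ⟨2, 1, 2, 1, 1, 1, 1, 0, 1, 0⟩ :=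
  Good.n1 (Good.n4 (Good.n4 (Good.n4 g00077 (Good.n2 L00545 (Good.n3 L00546 L00547))) g00078) g00080) (Good.n4 (Good.n4 g00081 g00082) (Good.n4 g00084 (Good.n2 L00606 L00607)))
theorem g00086 : Good (Phi V5.P V5.D (-1) 1) ⟨2, 1, 2, 1, 1, 1, 2, 2, 3, 0⟩ :=
  Good.n4 (Good.n2 L00613 (Good.n0 L00614 (Good.n1 L00615 L00616))) (Good.n2 L00617 (Good.n0 L00618 (Good.n4 (Good.n1 L00619 L00620) (Good.n3 L00621 L00622))))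
theorem g00087 : Good (Phi V5.P V5.D (-1) 1) ⟨2, 1, 2, 1, 2, 3, 3, 6, 4, 0⟩ :=
  Good.n0 L00628 (Good.n4 (Good.n1 L00629 (Good.n0 L00630 L00631)) (Good.n1 L00632 (Good.n1 L00633 L00634)))
theorem g00088 : Good (Phi V5.P V5.D (-1) 1) ⟨4, 7, 3, 3, 3, 7, 3, 7, 4, 0⟩ :=
  Good.n1 (Good.n4 (Good.n3 L00647 L00648) (Good.n3 L00649 L00650)) (Good.n4 (Good.n3 L00651 L00652) (Good.n3 L00653 L00654))
theorem g00089 : Good (Phi V5.P V5.D (-1) 1) ⟨3, 3, 3, 3, 2, 3, 3, 7, 4, 0⟩ :=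
  Good.n0 (Good.n3 L00641 (Good.n4 L00642 L00643)) (Good.n2 (Good.n4 (Good.n3 L00644 L00645) L00646) g00088)
theorem g00090 : Good (Phi V5.P V5.D (-1) 1) ⟨2, 1, 2, 1, 2, 3, 3, 7, 4, 0⟩ :=
  Good.n0 (Good.n3 L00635 L00636) (Good.n1 (Good.n3 (Good.n4 L00637 L00638) (Good.n4 L00639 L00640)) g00089)
theorem g00091 : Good (Phi V5.P V5.D (-1) 1) ⟨2, 1, 2, 1, 1, 1, 2, 3, 4, 0⟩ :=
  Good.n2 (Good.n0 (Good.n3 L00623 L00624) (Good.n3 L00625 (Good.n3 L00626 L00627))) (Good.n3 g00087 g00090)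
theorem g00092 : Good (Phi V5.P V5.D (-1) 1) ⟨3, 3, 2, 1, 2, 3, 2, 3, 4, 1⟩ :=
  Good.n1 (Good.n3 (Good.n4 L00660 L00661) L00662) (Good.n3 (Good.n4 (Good.n3 L00663 L00664) L00665) (Good.n0 L00666 (Good.n4 L00667 L00668)))
theorem g00093 : Good (Phi V5.P V5.D (-1) 1) ⟨2, 1, 2, 1, 1, 1, 2, 3, 3, 0⟩ :=
  Good.n4 g00091 (Good.n0 (Good.n3 L00655 (Good.n2 L00656 L00657)) (Good.n2 (Good.n3 L00658 L00659) g00092))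
theorem g00094 : Good (Phi V5.P V5.D (-1) 1) ⟨2, 1, 2, 1, 2, 3, 2, 2, 3, 1⟩ :=
  Good.n4 (Good.n0 (Good.n3 L00673 L00674) (Good.n3 (Good.n4 L00675 L00676) (Good.n4 L00677 L00678))) (Good.n4 (Good.n3 (Good.n2 L00679 L00680) L00681) (Good.n3 L00682 L00683))
theorem g00095 : Good (Phi V5.P V5.D (-1) 1) ⟨2, 1, 2, 1, 1, 1, 2, 3, 4, 2⟩ :=
  Good.n2 (Good.n3 L00684 L00685) (Good.n0 (Good.n3 L00686 L00687) (Good.n3 (Good.n3 L00688 L00689) L00690))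
theorem g00096 : Good (Phi V5.P V5.D (-1) 1) ⟨2, 1, 2, 1, 1, 1, 1, 1, 3, 1⟩ :=
  Good.n3 (Good.n2 (Good.n4 (Good.n3 L00669 L00670) (Good.n0 L00671 L00672)) g00094) (Good.n4 g00095 (Good.n3 (Good.n2 L00691 (Good.n2 L00692 L00693)) L00694))
theorem g00097 : Good (Phi V5.P V5.D (-1) 1) ⟨2, 1, 2, 1, 1, 1, 1, 1, 3, 2⟩ :=
  Good.n3 (Good.n4 (Good.n2 (Good.n0 L00695 L00696) (Good.n2 L00697 L00698)) (Good.n2 L00699 L00700)) (Good.n2 L00701 L00702)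
theorem g00098 : Good (Phi V5.P V5.D (-1) 1) ⟨2, 1, 2, 1, 2, 2, 1, 1, 2, 2⟩ :=
  Good.n2 (Good.n4 (Good.n3 (Good.n2 (Good.n4 (Good.n3 L00705 L00706) L00707) L00708) L00709) L00710) L00711
theorem g00099 : Good (Phi V5.P V5.D (-1) 1) ⟨2, 1, 2, 1, 1, 1, 1, 1, 0, 0⟩ :=
  Good.n4 (Good.n4 (Good.n4 (Good.n3 g00086 g00093) g00096) (Good.n4 g00097 (Good.n2 L00703 L00704))) (Good.n2 (Good.n4 g00098 L00712) L00713)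
theorem g00100 : Good (Phi V5.P V5.D (-1) 1) ⟨2, 1, 2, 1, 1, 1, 0, 0, 0, 0⟩ :=
  Good.n3 (Good.n4 g00085 (Good.n2 (Good.n4 (Good.n4 (Good.n2 L00608 L00609) L00610) L00611) L00612)) g00099
theorem g00101 : Good (Phi V5.P V5.D (-1) 1) ⟨3, 1, 2, 2, 1, 0, 4, 15, 3, 0⟩ :=
  Good.n3 L00726 (Good.n2 (Good.n0 L00727 L00728) (Good.n4 L00729 (Good.n2 (Good.n3 L00730 L00731) L00732)))
theorem g00102 : Good (Phi V5.P V5.D (-1) 1) ⟨2, 1, 2, 2, 2, 1, 4, 15, 3, 0⟩ :=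
  Good.n4 (Good.n0 (Good.n0 L00735 L00736) L00737) (Good.n0 (Good.n3 L00738 (Good.n3 L00739 (Good.n2 L00740 L00741))) L00742)
theorem g00103 : Good (Phi V5.P V5.D (-1) 1) ⟨1, 0, 2, 2, 1, 0, 3, 7, 3, 0⟩ :=
  Good.n3 (Good.n0 L00722 L00723) (Good.n0 (Good.n0 (Good.n2 L00724 L00725) g00101) (Good.n2 (Good.n0 L00733 L00734) g00102))
theorem g00104 : Good (Phi V5.P V5.D (-1) 1) ⟨1, 0, 2, 2, 1, 0, 0, 0, 3, 0⟩ :=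
  Good.n3 (Good.n4 (Good.n3 (Good.n4 L00714 L00715) L00716) L00717) (Good.n3 (Good.n4 L00718 L00719) (Good.n3 (Good.n0 L00720 L00721) g00103))
theorem g00105 : Good (Phi V5.P V5.D (-1) 1) ⟨2, 0, 2, 2, 2, 0, 4, 15, 3, 1⟩ :=
  Good.n0 (Good.n3 L00755 L00756) (Good.n3 L00757 (Good.n2 L00758 (Good.n4 (Good.n3 L00759 (Good.n0 L00760 L00761)) L00762)))
theorem g00106 : Good (Phi V5.P V5.D (-1) 1) ⟨3, 1, 2, 2, 2, 1, 4, 15, 3, 1⟩ :=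
  Good.n4 (Good.n2 (Good.n3 L00764 (Good.n3 L00765 (Good.n0 L00766 L00767))) L00768) (Good.n3 L00769 L00770)
theorem g00107 : Good (Phi V5.P V5.D (-1) 1) ⟨2, 1, 2, 2, 1, 0, 3, 7, 3, 1⟩ :=
  Good.n3 L00771 (Good.n0 (Good.n2 (Good.n3 L00772 L00773) (Good.n3 L00774 (Good.n3 L00775 L00776))) L00777)
theorem g00108 : Good (Phi V5.P V5.D (-1) 1) ⟨1, 0, 2, 2, 1, 0, 2, 3, 3, 1⟩ :=
  Good.n3 (Good.n0 (Good.n4 L00749 L00750) (Good.n4 L00751 L00752)) (Good.n0 (Good.n3 (Good.n2 L00753 L00754) (Good.n2 g00105 (Good.n0 L00763 g00106))) g00107)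
theorem g00109 : Good (Phi V5.P V5.D (-1) 1) ⟨1, 0, 2, 2, 1, 0, 0, 0, 3, 1⟩ :=
  Good.n3 (Good.n4 L00743 (Good.n0 L00744 L00745)) (Good.n3 (Good.n0 L00746 (Good.n4 L00747 L00748)) g00108)
theorem g00110 : Good (Phi V5.P V5.D (-1) 1) ⟨2, 0, 2, 2, 2, 0, 0, 0, 2, 1⟩ :=
  Good.n3 (Good.n4 (Good.n3 L00779 (Good.n4 L00780 L00781)) L00782) (Good.n4 (Good.n3 L00783 (Good.n3 L00784 L00785)) L00786)
theorem g00111 : Good (Phi V5.P V5.D (-1) 1) ⟨2, 0, 2, 2, 2, 1, 3, 2, 4, 5⟩ :=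
  Good.n4 (Good.n2 L00789 (Good.n4 (Good.n3 L00790 L00791) (Good.n3 L00792 (Good.n3 L00793 L00794)))) L00795
theorem g00112 : Good (Phi V5.P V5.D (-1) 1) ⟨2, 0, 2, 2, 2, 1, 0, 0, 2, 1⟩ :=
  Good.n3 (Good.n4 (Good.n3 L00787 (Good.n4 L00788 (Good.n3 g00111 L00796))) L00797) (Good.n4 (Good.n3 L00798 (Good.n3 L00799 L00800)) L00801)
theorem g00113 : Good (Phi V5.P V5.D (-1) 1) ⟨3, 2, 2, 2, 1, 0, 1, 0, 3, 2⟩ :=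
  Good.n4 (Good.n3 L00802 L00803) (Good.n3 L00804 (Good.n2 L00805 (Good.n3 (Good.n4 (Good.n1 L00806 L00807) L00808) L00809)))
theorem g00114 : Good (Phi V5.P V5.D (-1) 1) ⟨3, 3, 2, 2, 1, 0, 2, 1, 3, 2⟩ :=
  Good.n4 L00811 (Good.n2 L00812 (Good.n3 (Good.n4 (Good.n4 L00813 L00814) L00815) (Good.n2 L00816 L00817)))
theorem g00115 : Good (Phi V5.P V5.D (-1) 1) ⟨2, 1, 2, 2, 1, 0, 0, 0, 2, 1⟩ :=
  Good.n3 (Good.n4 (Good.n0 g00113 (Good.n3 L00810 g00114)) L00818) (Good.n3 (Good.n4 (Good.n4 L00819 L00820) L00821) (Good.n4 (Good.n3 L00822 L00823) L00824))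
theorem g00116 : Good (Phi V5.P V5.D (-1) 1) ⟨1, 0, 1, 1, 1, 0, 0, 0, 1, 0⟩ :=
  Good.n4 (Good.n1 (Good.n4 g00104 g00109) L00778) (Good.n1 (Good.n0 (Good.n2 g00110 g00112) g00115) L00825)
theorem g00117 : Good (Phi V5.P V5.D (-1) 1) ⟨1, 0, 1, 1, 1, 1, 2, 0, 3, 0⟩ :=
  Good.n2 (Good.n1 (Good.n3 (Good.n3 L00827 L00828) L00829) L00830) (Good.n4 (Good.n2 L00831 (Good.n1 L00832 L00833)) (Good.n2 L00834 (Good.n1 L00835 L00836)))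
theorem g00118 : Good (Phi V5.P V5.D (-1) 1) ⟨1, 0, 1, 1, 1, 1, 2, 1, 3, 0⟩ :=
  Good.n2 L00837 (Good.n1 (Good.n4 (Good.n0 L00838 (Good.n0 L00839 L00840)) (Good.n0 L00841 L00842)) L00843)
theorem g00119 : Good (Phi V5.P V5.D (-1) 1) ⟨2, 0, 2, 2, 2, 3, 2, 0, 4, 3⟩ :=
  Good.n2 (Good.n1 L00849 L00850) (Good.n4 L00851 (Good.n1 L00852 (Good.n1 (Good.n3 L00853 L00854) L00855)))
theorem g00120 : Good (Phi V5.P V5.D (-1) 1) ⟨2, 1, 2, 2, 3, 7, 2, 0, 4, 3⟩ :=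
  Good.n0 (Good.n4 (Good.n1 L00859 L00860) (Good.n1 L00861 (Good.n1 L00862 L00863))) (Good.n1 L00864 L00865)
theorem g00121 : Good (Phi V5.P V5.D (-1) 1) ⟨1, 0, 2, 2, 1, 1, 2, 0, 3, 1⟩ :=
  Good.n4 (Good.n2 L00844 (Good.n0 L00845 (Good.n3 L00846 L00847))) (Good.n0 (Good.n2 L00848 g00119) (Good.n2 L00856 (Good.n2 (Good.n1 L00857 L00858) g00120)))
theorem g00122 : Good (Phi V5.P V5.D (-1) 1) ⟨2, 1, 2, 2, 2, 3, 2, 1, 4, 2⟩ :=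
  Good.n0 (Good.n4 L00874 (Good.n1 L00875 L00876)) (Good.n1 (Good.n4 L00877 (Good.n0 (Good.n3 L00878 L00879) L00880)) L00881)
theorem g00123 : Good (Phi V5.P V5.D (-1) 1) ⟨3, 3, 2, 2, 2, 3, 2, 1, 4, 3⟩ :=
  Good.n4 (Good.n3 (Good.n2 L00888 (Good.n1 L00889 L00890)) (Good.n2 L00891 (Good.n1 L00892 L00893))) (Good.n3 (Good.n1 L00894 L00895) (Good.n2 L00896 (Good.n1 L00897 L00898)))
theorem g00124 : Good (Phi V5.P V5.D (-1) 1) ⟨2, 1, 2, 2, 2, 3, 2, 1, 4, 3⟩ :=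
  Good.n0 (Good.n3 (Good.n1 L00882 (Good.n1 L00883 L00884)) (Good.n2 L00885 (Good.n1 L00886 L00887))) g00123
theorem g00125 : Good (Phi V5.P V5.D (-1) 1) ⟨1, 0, 2, 2, 1, 1, 2, 1, 3, 1⟩ :=
  Good.n0 (Good.n4 L00866 (Good.n2 L00867 (Good.n0 L00868 (Good.n1 L00869 (Good.n1 L00870 L00871))))) (Good.n2 (Good.n4 L00872 L00873) (Good.n4 g00122 g00124))
theorem g00126 : Good (Phi V5.P V5.D (-1) 1) ⟨3, 0, 2, 2, 2, 3, 2, 0, 3, 2⟩ :=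
  Good.n4 (Good.n2 (Good.n3 L00903 L00904) (Good.n1 L00905 (Good.n1 L00906 L00907))) (Good.n2 L00908 L00909)
theorem g00127 : Good (Phi V5.P V5.D (-1) 1) ⟨3, 1, 3, 5, 3, 7, 2, 0, 4, 4⟩ :=
  Good.n1 (Good.n4 (Good.n3 (Good.n1 L00914 (Good.n1 L00915 L00916)) L00917) (Good.n2 L00918 L00919)) L00920
theorem g00128 : Good (Phi V5.P V5.D (-1) 1) ⟨2, 0, 2, 2, 2, 3, 2, 0, 3, 2⟩ :=
  Good.n0 g00126 (Good.n2 (Good.n4 (Good.n3 L00910 L00911) L00912) (Good.n4 (Good.n1 L00913 g00127) L00921))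
theorem g00129 : Good (Phi V5.P V5.D (-1) 1) ⟨2, 0, 2, 2, 3, 4, 3, 2, 5, 10⟩ :=
  Good.n3 (Good.n2 (Good.n4 (Good.n3 L00925 (Good.n4 L00926 L00927)) L00928) (Good.n3 L00929 L00930)) (Good.n0 L00931 L00932)
theorem g00130 : Good (Phi V5.P V5.D (-1) 1) ⟨2, 0, 2, 2, 1, 1, 2, 1, 3, 2⟩ :=
  Good.n2 (Good.n4 (Good.n3 L00923 L00924) (Good.n3 (Good.n2 (Good.n4 g00129 L00933) L00934) L00935)) (Good.n4 (Good.n3 (Good.n1 L00936 (Good.n1 L00937 L00938)) L00939) L00940)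
theorem g00131 : Good (Phi V5.P V5.D (-1) 1) ⟨2, 0, 2, 2, 1, 1, 1, 0, 2, 1⟩ :=
  Good.n3 (Good.n4 (Good.n2 (Good.n4 (Good.n0 L00900 L00901) L00902) g00128) L00922) (Good.n4 g00130 (Good.n2 L00941 L00942))
theorem g00132 : Good (Phi V5.P V5.D (-1) 1) ⟨3, 2, 2, 2, 3, 7, 2, 0, 4, 4⟩ :=
  Good.n4 (Good.n1 L00948 (Good.n1 (Good.n3 (Good.n1 L00949 (Good.n1 L00950 L00951)) L00952) L00953)) (Good.n1 L00954 (Good.n2 L00955 L00956))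
theorem g00133 : Good (Phi V5.P V5.D (-1) 1) ⟨2, 1, 2, 2, 1, 1, 2, 0, 4, 4⟩ :=
  Good.n2 (Good.n4 L00943 (Good.n3 L00944 L00945)) (Good.n0 (Good.n2 (Good.n1 L00946 L00947) g00132) (Good.n1 (Good.n2 L00957 L00958) L00959))
theorem g00134 : Good (Phi V5.P V5.D (-1) 1) ⟨2, 1, 2, 2, 2, 3, 2, 1, 4, 4⟩ :=
  Good.n0 (Good.n1 (Good.n3 L00962 L00963) (Good.n2 L00964 L00965)) (Good.n3 (Good.n1 L00966 L00967) L00968)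
theorem g00135 : Good (Phi V5.P V5.D (-1) 1) ⟨2, 1, 2, 2, 2, 2, 3, 2, 4, 5⟩ :=
  Good.n2 (Good.n3 (Good.n4 (Good.n4 L00972 L00973) L00974) (Good.n4 (Good.n0 L00975 L00976) L00977)) L00978
theorem g00136 : Good (Phi V5.P V5.D (-1) 1) ⟨2, 1, 2, 2, 1, 1, 1, 0, 3, 2⟩ :=
  Good.n4 (Good.n3 g00133 (Good.n2 (Good.n3 L00960 L00961) g00134)) (Good.n3 (Good.n2 L00969 (Good.n2 L00970 L00971)) (Good.n2 (Good.n3 g00135 L00979) L00980))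
theorem g00137 : Good (Phi V5.P V5.D (-1) 1) ⟨1, 0, 1, 1, 1, 1, 1, 0, 1, 0⟩ :=
  Good.n4 (Good.n4 (Good.n3 g00117 g00118) (Good.n1 (Good.n3 g00121 g00125) L00899)) (Good.n1 (Good.n0 g00131 (Good.n4 g00136 (Good.n2 (Good.n2 L00981 L00982) L00983))) L00984)
theorem g00138 : Good (Phi V5.P V5.D (-1) 1) ⟨2, 0, 2, 2, 2, 3, 2, 3, 3, 0⟩ :=
  Good.n4 (Good.n1 (Good.n3 L00994 L00995) (Good.n3 L00996 (Good.n4 L00997 L00998))) (Good.n3 L00999 (Good.n1 L01000 (Good.n0 L01001 L01002)))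
theorem g00139 : Good (Phi V5.P V5.D (-1) 1) ⟨2, 0, 2, 2, 1, 1, 1, 1, 3, 1⟩ :=
  Good.n3 (Good.n4 (Good.n2 L01004 L01005) (Good.n2 L01006 (Good.n0 L01007 (Good.n3 L01008 L01009)))) (Good.n4 (Good.n2 L01010 (Good.n1 L01011 L01012)) (Good.n3 (Good.n2 L01013 L01014) L01015))
theorem g00140 : Good (Phi V5.P V5.D (-1) 1) ⟨2, 0, 1, 1, 1, 1, 1, 1, 2, 0⟩ :=
  Good.n4 (Good.n1 (Good.n3 (Good.n4 L00990 L00991) (Good.n2 (Good.n3 L00992 L00993) g00138)) L01003) (Good.n1 g00139 L01016)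
theorem g00141 : Good (Phi V5.P V5.D (-1) 1) ⟨2, 0, 1, 1, 1, 1, 1, 1, 2, 1⟩ :=
  Good.n4 (Good.n1 (Good.n3 (Good.n2 (Good.n4 L01017 L01018) (Good.n4 L01019 L01020)) L01021) L01022) (Good.n2 L01023 L01024)
theorem g00142 : Good (Phi V5.P V5.D (-1) 1) ⟨2, 0, 1, 1, 2, 2, 1, 1, 2, 2⟩ :=
  Good.n2 (Good.n4 (Good.n3 (Good.n2 (Good.n4 (Good.n3 L01025 L01026) L01027) L01028) L01029) L01030) L01031
theorem g00143 : Good (Phi V5.P V5.D (-1) 1) ⟨2, 1, 4, 8, 1, 1, 2, 2, 4, 1⟩ :=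
  Good.n2 L01036 (Good.n2 (Good.n3 L01037 L01038) (Good.n4 L01039 (Good.n0 L01040 (Good.n3 L01041 L01042))))
theorem g00144 : Good (Phi V5.P V5.D (-1) 1) ⟨2, 1, 4, 8, 1, 1, 3, 6, 3, 0⟩ :=
  Good.n4 (Good.n2 L01043 (Good.n0 L01044 (Good.n4 L01045 L01046))) (Good.n2 L01047 (Good.n4 (Good.n0 L01048 (Good.n3 L01049 L01050)) (Good.n0 L01051 L01052)))
theorem g00145 : Good (Phi V5.P V5.D (-1) 1) ⟨4, 7, 4, 8, 3, 7, 3, 7, 4, 0⟩ :=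
  Good.n0 (Good.n4 (Good.n3 L01065 L01066) (Good.n3 L01067 L01068)) (Good.n4 (Good.n3 L01069 L01070) (Good.n3 L01071 L01072))
theorem g00146 : Good (Phi V5.P V5.D (-1) 1) ⟨3, 3, 4, 8, 1, 1, 3, 7, 4, 0⟩ :=
  Good.n2 (Good.n3 L01058 L01059) (Good.n2 (Good.n3 L01060 L01061) (Good.n0 (Good.n3 L01062 (Good.n4 L01063 L01064)) g00145))
theorem g00147 : Good (Phi V5.P V5.D (-1) 1) ⟨2, 1, 4, 8, 1, 1, 3, 7, 3, 0⟩ :=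
  Good.n0 (Good.n4 (Good.n2 L01053 (Good.n4 L01054 L01055)) (Good.n2 L01056 L01057)) (Good.n4 g00146 (Good.n2 L01073 (Good.n2 L01074 (Good.n3 L01075 L01076))))
theorem g00148 : Good (Phi V5.P V5.D (-1) 1) ⟨3, 3, 4, 9, 2, 3, 2, 3, 4, 0⟩ :=
  Good.n0 (Good.n3 (Good.n4 L01086 L01087) (Good.n4 (Good.n3 L01088 L01089) (Good.n3 L01090 L01091))) L01092
theorem g00149 : Good (Phi V5.P V5.D (-1) 1) ⟨2, 1, 4, 9, 1, 1, 2, 3, 4, 0⟩ :=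
  Good.n2 (Good.n3 L01078 (Good.n3 L01079 (Good.n0 L01080 L01081))) (Good.n0 (Good.n3 L01082 (Good.n4 L01083 (Good.n3 L01084 L01085))) g00148)
theorem g00150 : Good (Phi V5.P V5.D (-1) 1) ⟨2, 1, 4, 9, 2, 3, 2, 2, 4, 1⟩ :=
  Good.n2 (Good.n0 L01094 L01095) (Good.n0 (Good.n4 L01096 L01097) (Good.n0 (Good.n3 L01098 L01099) L01100))
theorem g00151 : Good (Phi V5.P V5.D (-1) 1) ⟨3, 2, 4, 9, 1, 1, 2, 3, 4, 1⟩ :=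
  Good.n2 (Good.n3 L01101 L01102) (Good.n3 (Good.n4 L01103 L01104) (Good.n4 (Good.n3 L01105 L01106) L01107))
theorem g00152 : Good (Phi V5.P V5.D (-1) 1) ⟨4, 6, 4, 9, 1, 1, 2, 3, 4, 1⟩ :=
  Good.n2 (Good.n3 L01108 L01109) (Good.n3 (Good.n4 L01110 L01111) (Good.n4 (Good.n3 L01112 L01113) L01114))
theorem g00153 : Good (Phi V5.P V5.D (-1) 1) ⟨2, 1, 4, 9, 1, 1, 1, 1, 3, 0⟩ :=
  Good.n4 (Good.n3 L01077 g00149) (Good.n3 (Good.n2 L01093 g00150) (Good.n0 g00151 (Good.n0 g00152 L01115)))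
theorem g00154 : Good (Phi V5.P V5.D (-1) 1) ⟨3, 2, 5, 20, 1, 1, 2, 3, 4, 0⟩ :=
  Good.n2 (Good.n3 L01120 (Good.n3 L01121 L01122)) (Good.n3 L01123 (Good.n4 L01124 (Good.n3 L01125 L01126)))
theorem g00155 : Good (Phi V5.P V5.D (-1) 1) ⟨3, 2, 5, 20, 1, 1, 2, 3, 4, 1⟩ :=
  Good.n2 (Good.n3 L01127 L01128) (Good.n3 (Good.n4 L01129 L01130) (Good.n4 (Good.n3 L01131 L01132) L01133))
theorem g00156 : Good (Phi V5.P V5.D (-1) 1) ⟨3, 2, 5, 21, 1, 1, 2, 3, 4, 0⟩ :=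
  Good.n2 (Good.n3 L01134 L01135) (Good.n3 L01136 (Good.n0 (Good.n3 L01137 (Good.n4 L01138 L01139)) L01140))
theorem g00157 : Good (Phi V5.P V5.D (-1) 1) ⟨3, 2, 5, 21, 1, 1, 2, 3, 3, 0⟩ :=
  Good.n4 g00156 (Good.n0 (Good.n3 (Good.n2 L01141 L01142) (Good.n2 L01143 (Good.n3 L01144 L01145))) L01146)
theorem g00158 : Good (Phi V5.P V5.D (-1) 1) ⟨2, 1, 4, 10, 1, 1, 1, 1, 3, 0⟩ :=
  Good.n3 (Good.n0 (Good.n4 L01116 (Good.n3 L01117 L01118)) L01119) (Good.n0 (Good.n1 (Good.n4 g00154 g00155) g00157) L01147)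
theorem g00159 : Good (Phi V5.P V5.D (-1) 1) ⟨2, 1, 2, 2, 1, 1, 1, 1, 3, 0⟩ :=
  Good.n1 (Good.n1 (Good.n3 (Good.n4 (Good.n0 L01034 L01035) g00143) (Good.n3 g00144 g00147)) g00153) (Good.n1 g00158 L01148)
theorem g00160 : Good (Phi V5.P V5.D (-1) 1) ⟨2, 1, 2, 2, 2, 2, 1, 1, 3, 1⟩ :=
  Good.n3 (Good.n4 (Good.n3 L01150 L01151) (Good.n3 L01152 L01153)) (Good.n3 (Good.n4 (Good.n4 L01154 L01155) L01156) (Good.n4 L01157 L01158))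
theorem g00161 : Good (Phi V5.P V5.D (-1) 1) ⟨2, 1, 2, 2, 3, 6, 1, 1, 3, 1⟩ :=
  Good.n4 (Good.n3 (Good.n3 L01159 (Good.n4 L01160 L01161)) (Good.n0 L01162 (Good.n3 L01163 L01164))) (Good.n3 (Good.n3 L01165 L01166) L01167)
theorem g00162 : Good (Phi V5.P V5.D (-1) 1) ⟨3, 3, 2, 2, 3, 7, 2, 2, 4, 2⟩ :=
  Good.n1 (Good.n3 (Good.n2 L01172 (Good.n4 L01173 L01174)) (Good.n4 (Good.n3 L01175 L01176) L01177)) L01178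
theorem g00163 : Good (Phi V5.P V5.D (-1) 1) ⟨2, 1, 2, 2, 3, 7, 2, 3, 4, 2⟩ :=
  Good.n0 (Good.n3 (Good.n1 L01179 L01180) L01181) (Good.n3 (Good.n4 (Good.n3 L01182 L01183) L01184) L01185)
theorem g00164 : Good (Phi V5.P V5.D (-1) 1) ⟨2, 1, 2, 2, 3, 7, 1, 1, 3, 1⟩ :=
  Good.n4 (Good.n3 (Good.n0 (Good.n3 (Good.n1 L01168 L01169) (Good.n1 L01170 L01171)) g00162) g00163) (Good.n3 (Good.n4 (Good.n3 (Good.n1 L01186 L01187) L01188) L01189) L01190)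
theorem g00165 : Good (Phi V5.P V5.D (-1) 1) ⟨2, 1, 2, 2, 1, 1, 1, 1, 3, 2⟩ :=
  Good.n3 (Good.n4 (Good.n2 L01192 (Good.n2 L01193 L01194)) (Good.n2 L01195 L01196)) (Good.n4 L01197 L01198)
theorem g00166 : Good (Phi V5.P V5.D (-1) 1) ⟨2, 1, 1, 1, 1, 1, 1, 1, 1, 0⟩ :=
  Good.n4 (Good.n4 (Good.n1 g00159 L01149) (Good.n1 (Good.n2 g00160 (Good.n2 g00161 g00164)) L01191)) (Good.n4 (Good.n1 g00165 L01199) (Good.n2 L01200 L01201))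
theorem g00167 : Good (Phi V5.P V5.D (-1) 1) ⟨2, 1, 1, 1, 2, 2, 1, 1, 2, 2⟩ :=
  Good.n2 (Good.n4 (Good.n3 (Good.n2 (Good.n4 (Good.n3 L01202 L01203) L01204) L01205) L01206) L01207) L01208
theorem g00168 : Good (Phi V5.P V5.D (-1) 1) ⟨1, 0, 1, 1, 1, 1, 1, 1, 0, 0⟩ :=
  Good.n0 (Good.n4 (Good.n4 g00140 g00141) (Good.n2 (Good.n4 g00142 L01032) L01033)) (Good.n4 g00166 (Good.n2 (Good.n4 g00167 L01209) L01210))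
theorem g00169 : Good (Phi V5.P V5.D (-1) 1) ⟨1, 0, 1, 1, 1, 1, 0, 0, 0, 0⟩ :=
  Good.n3 (Good.n4 g00137 (Good.n2 (Good.n4 (Good.n4 (Good.n2 L00985 L00986) L00987) L00988) L00989)) g00168
theorem g00170 : Good (Phi V5.P V5.D (-1) 1) ⟨1, 0, 0, 0, 0, 0, 0, 0, 0, 0⟩ :=
  Good.n1 (Good.n0 g00044 (Good.n1 (Good.n2 g00050 g00071) (Good.n2 g00076 g00100))) (Good.n2 (Good.n4 g00116 L00826) g00169)
theorem g00171 : Good (Phi V5.P V5.D (-1) 1) ⟨1, 1, 2, 0, 1, 0, 1, 0, 4, 0⟩ :=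
  Good.n3 (Good.n0 (Good.n4 (Good.n2 L01211 (Good.n3 L01212 L01213)) L01214) L01215) (Good.n0 L01216 L01217)
theorem g00172 : Good (Phi V5.P V5.D (-1) 1) ⟨2, 2, 2, 0, 2, 1, 3, 2, 4, 5⟩ :=
  Good.n4 (Good.n2 L01231 (Good.n3 (Good.n4 L01232 L01233) (Good.n4 L01234 (Good.n0 L01235 L01236)))) L01237
theorem g00173 : Good (Phi V5.P V5.D (-1) 1) ⟨2, 2, 2, 0, 2, 1, 4, 6, 4, 5⟩ :=
  Good.n2 (Good.n4 (Good.n0 L01238 L01239) (Good.n4 (Good.n3 L01240 L01241) L01242)) (Good.n4 (Good.n0 L01243 L01244) (Good.n0 L01245 (Good.n0 L01246 L01247)))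
theorem g00174 : Good (Phi V5.P V5.D (-1) 1) ⟨2, 2, 2, 0, 1, 0, 2, 1, 4, 5⟩ :=
  Good.n2 (Good.n3 L01227 (Good.n4 L01228 (Good.n3 L01229 L01230))) (Good.n3 g00172 (Good.n3 g00173 (Good.n0 L01248 (Good.n0 L01249 L01250))))
theorem g00175 : Good (Phi V5.P V5.D (-1) 1) ⟨1, 1, 2, 0, 1, 0, 1, 0, 3, 3⟩ :=
  Good.n3 L01252 (Good.n0 (Good.n4 (Good.n2 L01253 (Good.n3 L01254 (Good.n0 L01255 L01256))) L01257) L01258)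
theorem g00176 : Good (Phi V5.P V5.D (-1) 1) ⟨1, 1, 2, 0, 1, 0, 1, 0, 2, 1⟩ :=
  Good.n4 (Good.n0 (Good.n4 (Good.n3 L01223 (Good.n0 L01224 L01225)) (Good.n3 L01226 g00174)) L01251) g00175
theorem g00177 : Good (Phi V5.P V5.D (-1) 1) ⟨1, 1, 2, 0, 1, 0, 1, 0, 1, 0⟩ :=
  Good.n4 (Good.n4 (Good.n4 g00171 (Good.n0 L01218 L01219)) (Good.n0 (Good.n3 L01220 L01221) L01222)) g00176
theorem g00178 : Good (Phi V5.P V5.D (-1) 1) ⟨1, 1, 2, 1, 1, 0, 1, 0, 3, 0⟩ :=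
  Good.n3 (Good.n0 (Good.n0 (Good.n4 (Good.n3 L01260 L01261) L01262) L01263) L01264) (Good.n0 (Good.n0 L01265 L01266) L01267)
theorem g00179 : Good (Phi V5.P V5.D (-1) 1) ⟨3, 4, 2, 1, 1, 0, 2, 1, 4, 5⟩ :=
  Good.n2 (Good.n3 L01274 L01275) (Good.n3 (Good.n4 (Good.n4 L01276 (Good.n3 L01277 L01278)) L01279) (Good.n4 L01280 L01281))
theorem g00180 : Good (Phi V5.P V5.D (-1) 1) ⟨1, 1, 2, 1, 1, 0, 1, 0, 2, 1⟩ :=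
  Good.n4 (Good.n0 (Good.n0 (Good.n4 (Good.n3 L01271 L01272) (Good.n3 L01273 g00179)) L01282) L01283) (Good.n3 L01284 (Good.n0 (Good.n4 L01285 L01286) L01287))
theorem g00181 : Good (Phi V5.P V5.D (-1) 1) ⟨1, 1, 1, 0, 1, 0, 1, 0, 0, 0⟩ :=
  Good.n1 (Good.n4 g00177 L01259) (Good.n4 (Good.n4 (Good.n4 g00178 (Good.n0 (Good.n0 L01268 L01269) L01270)) g00180) L01288)
theorem g00182 : Good (Phi V5.P V5.D (-1) 1) ⟨2, 2, 2, 0, 1, 0, 1, 1, 3, 0⟩ :=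
  Good.n3 (Good.n4 L01289 L01290) (Good.n4 (Good.n3 L01291 (Good.n0 L01292 L01293)) (Good.n0 L01294 L01295))
theorem g00183 : Good (Phi V5.P V5.D (-1) 1) ⟨1, 1, 2, 0, 1, 0, 2, 3, 2, 1⟩ :=
  Good.n4 (Good.n0 (Good.n3 L01306 L01307) L01308) (Good.n0 (Good.n2 L01309 (Good.n2 L01310 L01311)) L01312)
theorem g00184 : Good (Phi V5.P V5.D (-1) 1) ⟨1, 1, 2, 0, 1, 0, 1, 1, 2, 1⟩ :=
  Good.n3 (Good.n0 (Good.n4 (Good.n0 L01300 L01301) (Good.n0 L01302 (Good.n4 L01303 L01304))) L01305) g00183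
theorem g00185 : Good (Phi V5.P V5.D (-1) 1) ⟨1, 1, 2, 0, 1, 0, 1, 1, 0, 0⟩ :=
  Good.n4 (Good.n4 (Good.n0 (Good.n4 g00182 (Good.n3 L01296 (Good.n3 L01297 L01298))) L01299) g00184) L01313
theorem g00186 : Good (Phi V5.P V5.D (-1) 1) ⟨3, 4, 2, 1, 1, 0, 1, 1, 2, 0⟩ :=
  Good.n3 (Good.n4 (Good.n4 L01314 L01315) L01316) (Good.n4 (Good.n4 L01317 L01318) (Good.n3 L01319 L01320))
theorem g00187 : Good (Phi V5.P V5.D (-1) 1) ⟨1, 1, 2, 1, 1, 0, 1, 1, 2, 1⟩ :=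
  Good.n0 (Good.n3 (Good.n0 (Good.n4 L01323 L01324) L01325) (Good.n0 (Good.n4 L01326 L01327) L01328)) L01329
theorem g00188 : Good (Phi V5.P V5.D (-1) 1) ⟨1, 1, 1, 0, 1, 0, 0, 0, 0, 0⟩ :=
  Good.n3 g00181 (Good.n1 g00185 (Good.n4 (Good.n4 (Good.n0 (Good.n0 g00186 L01321) L01322) g00187) L01330))
theorem g00189 : Good (Phi V5.P V5.D (-1) 1) ⟨2, 2, 2, 0, 2, 2, 3, 0, 4, 0⟩ :=
  Good.n0 (Good.n3 (Good.n2 L01331 (Good.n0 L01332 L01333)) L01334) (Good.n4 (Good.n3 (Good.n2 L01335 L01336) L01337) L01338)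
theorem g00190 : Good (Phi V5.P V5.D (-1) 1) ⟨2, 2, 2, 0, 2, 3, 2, 0, 4, 0⟩ :=
  Good.n0 (Good.n2 (Good.n3 L01340 L01341) L01342) (Good.n3 (Good.n0 (Good.n2 (Good.n4 L01343 L01344) L01345) (Good.n3 L01346 L01347)) L01348)
theorem g00191 : Good (Phi V5.P V5.D (-1) 1) ⟨3, 5, 2, 0, 2, 3, 2, 0, 5, 2⟩ :=
  Good.n0 (Good.n2 (Good.n3 L01356 L01357) L01358) (Good.n2 (Good.n3 L01359 L01360) (Good.n1 (Good.n0 L01361 L01362) L01363))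
theorem g00192 : Good (Phi V5.P V5.D (-1) 1) ⟨3, 5, 2, 0, 2, 3, 2, 0, 5, 3⟩ :=
  Good.n0 (Good.n3 (Good.n2 L01367 L01368) L01369) (Good.n3 (Good.n3 (Good.n3 L01370 L01371) L01372) L01373)
theorem g00193 : Good (Phi V5.P V5.D (-1) 1) ⟨2, 2, 2, 0, 2, 3, 2, 0, 4, 1⟩ :=
  Good.n4 (Good.n0 (Good.n2 L01354 L01355) g00191) (Good.n0 (Good.n2 (Good.n3 L01364 L01365) L01366) g00192)
theorem g00194 : Good (Phi V5.P V5.D (-1) 1) ⟨2, 2, 2, 0, 1, 1, 2, 0, 3, 0⟩ :=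
  Good.n4 (Good.n2 (Good.n3 g00189 L01339) g00190) (Good.n2 (Good.n0 (Good.n4 L01349 L01350) (Good.n3 (Good.n4 L01351 L01352) L01353)) g00193)
theorem g00195 : Good (Phi V5.P V5.D (-1) 1) ⟨2, 2, 2, 0, 1, 1, 2, 1, 4, 1⟩ :=
  Good.n2 (Good.n0 L01380 L01381) (Good.n4 (Good.n0 L01382 L01383) (Good.n0 L01384 (Good.n2 L01385 (Good.n0 L01386 L01387))))
theorem g00196 : Good (Phi V5.P V5.D (-1) 1) ⟨2, 2, 2, 0, 1, 1, 2, 1, 3, 0⟩ :=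
  Good.n4 (Good.n2 (Good.n0 L01374 L01375) (Good.n0 L01376 (Good.n4 (Good.n2 L01377 L01378) L01379))) g00195
theorem g00197 : Good (Phi V5.P V5.D (-1) 1) ⟨1, 1, 2, 0, 2, 2, 2, 0, 3, 1⟩ :=
  Good.n0 (Good.n0 (Good.n4 (Good.n4 L01389 L01390) L01391) (Good.n4 (Good.n3 L01392 L01393) L01394)) L01395
theorem g00198 : Good (Phi V5.P V5.D (-1) 1) ⟨4, 11, 2, 0, 2, 3, 2, 0, 4, 2⟩ :=
  Good.n2 (Good.n4 (Good.n0 (Good.n3 (Good.n3 L01405 L01406) L01407) L01408) (Good.n3 L01409 L01410)) (Good.n1 (Good.n2 L01411 L01412) L01413)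
theorem g00199 : Good (Phi V5.P V5.D (-1) 1) ⟨2, 2, 2, 0, 2, 3, 2, 0, 4, 2⟩ :=
  Good.n0 (Good.n2 (Good.n3 (Good.n3 L01396 L01397) L01398) L01399) (Good.n0 (Good.n2 (Good.n3 (Good.n3 L01400 L01401) L01402) (Good.n2 L01403 L01404)) g00198)
theorem g00200 : Good (Phi V5.P V5.D (-1) 1) ⟨2, 2, 2, 0, 2, 3, 2, 1, 4, 2⟩ :=
  Good.n0 (Good.n3 L01422 L01423) (Good.n2 (Good.n0 L01424 L01425) (Good.n4 (Good.n0 L01426 L01427) L01428))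
theorem g00201 : Good (Phi V5.P V5.D (-1) 1) ⟨2, 2, 2, 0, 1, 1, 2, 1, 3, 1⟩ :=
  Good.n2 (Good.n4 (Good.n0 L01418 L01419) (Good.n0 L01420 L01421)) (Good.n4 g00200 (Good.n0 (Good.n1 L01429 L01430) (Good.n0 L01431 L01432)))
theorem g00202 : Good (Phi V5.P V5.D (-1) 1) ⟨1, 1, 2, 0, 1, 1, 1, 0, 3, 1⟩ :=
  Good.n3 (Good.n2 g00197 (Good.n0 (Good.n4 g00199 (Good.n0 L01414 (Good.n2 L01415 L01416))) L01417)) (Good.n0 g00201 L01433)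
theorem g00203 : Good (Phi V5.P V5.D (-1) 1) ⟨3, 5, 2, 0, 2, 2, 3, 2, 4, 5⟩ :=
  Good.n2 (Good.n3 (Good.n4 (Good.n0 L01446 L01447) L01448) (Good.n4 (Good.n0 L01449 L01450) L01451)) L01452
theorem g00204 : Good (Phi V5.P V5.D (-1) 1) ⟨2, 2, 2, 0, 2, 2, 2, 1, 3, 2⟩ :=
  Good.n0 (Good.n4 L01440 (Good.n3 (Good.n4 (Good.n4 L01441 L01442) L01443) L01444)) (Good.n3 (Good.n4 L01445 g00203) (Good.n4 L01453 (Good.n2 L01454 L01455)))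
theorem g00205 : Good (Phi V5.P V5.D (-1) 1) ⟨2, 2, 2, 0, 2, 2, 1, 0, 3, 2⟩ :=
  Good.n3 (Good.n4 (Good.n3 L01434 (Good.n0 L01435 L01436)) (Good.n3 L01437 (Good.n0 L01438 L01439))) g00204
theorem g00206 : Good (Phi V5.P V5.D (-1) 1) ⟨2, 2, 2, 0, 2, 3, 1, 0, 3, 2⟩ :=
  Good.n4 (Good.n0 (Good.n3 L01457 (Good.n2 L01458 L01459)) (Good.n3 L01460 (Good.n4 L01461 L01462))) (Good.n3 L01463 L01464)
theorem g00207 : Good (Phi V5.P V5.D (-1) 1) ⟨1, 1, 2, 0, 1, 1, 1, 0, 4, 6⟩ :=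
  Good.n2 (Good.n0 (Good.n0 (Good.n3 L01466 L01467) (Good.n3 L01468 (Good.n4 L01469 L01470))) L01471) L01472
theorem g00208 : Good (Phi V5.P V5.D (-1) 1) ⟨2, 2, 2, 0, 9, 304, 8, 126, 9, 224⟩ :=
  Good.n4 (Good.n2 (Good.n3 L01489 (Good.n4 (Good.n2 (Good.n3 L01490 L01491) L01492) L01493)) L01494) L01495
theorem g00209 : Good (Phi V5.P V5.D (-1) 1) ⟨2, 2, 2, 0, 8, 152, 6, 31, 8, 112⟩ :=
  Good.n3 (Good.n4 (Good.n3 L01483 (Good.n4 (Good.n3 L01484 (Good.n2 L01485 L01486)) L01487)) L01488) (Good.n4 (Good.n2 (Good.n3 g00208 L01496) L01497) L01498)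
theorem g00210 : Good (Phi V5.P V5.D (-1) 1) ⟨2, 2, 2, 0, 6, 38, 5, 15, 7, 56⟩ :=
  Good.n2 (Good.n3 L01482 (Good.n4 (Good.n2 g00209 L01499) L01500)) (Good.n3 (Good.n4 (Good.n2 L01501 L01502) L01503) L01504)
theorem g00211 : Good (Phi V5.P V5.D (-1) 1) ⟨2, 2, 2, 0, 5, 19, 4, 7, 6, 28⟩ :=
  Good.n3 (Good.n4 (Good.n3 L01478 (Good.n2 L01479 L01480)) L01481) (Good.n2 (Good.n4 g00210 L01505) L01506)
theorem g00212 : Good (Phi V5.P V5.D (-1) 1) ⟨2, 2, 2, 0, 3, 4, 2, 1, 4, 7⟩ :=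
  Good.n3 L01474 (Good.n4 (Good.n2 L01475 (Good.n3 L01476 (Good.n4 (Good.n2 L01477 g00211) L01507))) L01508)
theorem g00213 : Good (Phi V5.P V5.D (-1) 1) ⟨2, 2, 2, 0, 4, 10, 2, 1, 4, 7⟩ :=
  Good.n4 (Good.n3 L01509 (Good.n2 (Good.n4 (Good.n3 (Good.n3 L01510 L01511) L01512) L01513) L01514)) L01515
theorem g00214 : Good (Phi V5.P V5.D (-1) 1) ⟨1, 1, 2, 0, 1, 1, 1, 0, 3, 3⟩ :=
  Good.n4 g00207 (Good.n0 (Good.n2 (Good.n3 L01473 (Good.n2 g00212 (Good.n2 g00213 L01516))) L01517) L01518)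
theorem g00215 : Good (Phi V5.P V5.D (-1) 1) ⟨1, 1, 2, 0, 1, 1, 1, 0, 1, 0⟩ :=
  Good.n4 (Good.n4 (Good.n0 (Good.n3 g00194 g00196) L01388) g00202) (Good.n4 (Good.n2 (Good.n0 g00205 L01456) (Good.n0 g00206 L01465)) g00214)
theorem g00216 : Good (Phi V5.P V5.D (-1) 1) ⟨3, 4, 3, 2, 1, 1, 4, 0, 3, 0⟩ :=
  Good.n4 (Good.n2 (Good.n4 (Good.n2 L01524 L01525) L01526) (Good.n2 L01527 L01528)) (Good.n2 L01529 L01530)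
theorem g00217 : Good (Phi V5.P V5.D (-1) 1) ⟨2, 2, 3, 2, 1, 1, 2, 0, 3, 0⟩ :=
  Good.n3 (Good.n3 (Good.n0 g00216 L01531) (Good.n0 (Good.n4 (Good.n2 L01532 L01533) L01534) L01535)) (Good.n0 (Good.n4 L01536 L01537) L01538)
theorem g00218 : Good (Phi V5.P V5.D (-1) 1) ⟨2, 2, 3, 2, 1, 1, 1, 0, 3, 0⟩ :=
  Good.n3 g00217 (Good.n0 (Good.n4 (Good.n2 L01539 L01540) (Good.n2 L01541 (Good.n4 L01542 L01543))) L01544)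
theorem g00219 : Good (Phi V5.P V5.D (-1) 1) ⟨4, 8, 3, 3, 1, 1, 1, 0, 3, 0⟩ :=
  Good.n3 (Good.n4 (Good.n2 (Good.n3 (Good.n3 L01545 L01546) L01547) L01548) (Good.n2 L01549 L01550)) (Good.n4 L01551 L01552)
theorem g00220 : Good (Phi V5.P V5.D (-1) 1) ⟨2, 2, 2, 1, 1, 1, 2, 0, 3, 1⟩ :=
  Good.n0 (Good.n4 (Good.n2 L01556 (Good.n2 L01557 (Good.n1 L01558 L01559))) (Good.n2 L01560 L01561)) L01562
theorem g00221 : Good (Phi V5.P V5.D (-1) 1) ⟨3, 4, 2, 1, 2, 3, 2, 1, 4, 2⟩ :=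
  Good.n4 (Good.n2 L01564 (Good.n0 L01565 (Good.n1 L01566 L01567))) (Good.n3 (Good.n0 L01568 L01569) (Good.n0 L01570 L01571))
theorem g00222 : Good (Phi V5.P V5.D (-1) 1) ⟨2, 2, 2, 1, 1, 1, 1, 0, 3, 1⟩ :=
  Good.n3 g00220 (Good.n0 (Good.n4 (Good.n2 L01563 g00221) (Good.n2 L01572 (Good.n1 L01573 L01574))) L01575)
theorem g00223 : Good (Phi V5.P V5.D (-1) 1) ⟨1, 1, 2, 1, 1, 1, 1, 0, 2, 0⟩ :=
  Good.n4 (Good.n0 (Good.n1 g00218 (Good.n0 (Good.n0 g00219 L01553) L01554)) L01555) (Good.n0 g00222 L01576)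
theorem g00224 : Good (Phi V5.P V5.D (-1) 1) ⟨3, 4, 2, 1, 1, 1, 1, 0, 4, 5⟩ :=
  Good.n3 (Good.n2 L01582 L01583) (Good.n2 (Good.n3 (Good.n2 (Good.n4 (Good.n4 L01584 L01585) L01586) L01587) L01588) L01589)
theorem g00225 : Good (Phi V5.P V5.D (-1) 1) ⟨2, 2, 2, 1, 1, 1, 1, 0, 3, 2⟩ :=
  Good.n0 (Good.n4 (Good.n2 (Good.n3 L01577 L01578) (Good.n3 (Good.n0 L01579 L01580) L01581)) g00224) L01590
theorem g00226 : Good (Phi V5.P V5.D (-1) 1) ⟨1, 1, 2, 1, 1, 1, 1, 0, 1, 0⟩ :=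
  Good.n4 g00223 (Good.n0 (Good.n4 g00225 (Good.n0 (Good.n2 (Good.n3 L01591 L01592) L01593) L01594)) L01595)
theorem g00227 : Good (Phi V5.P V5.D (-1) 1) ⟨1, 1, 2, 1, 1, 1, 1, 0, 0, 0⟩ :=
  Good.n4 g00226 (Good.n2 (Good.n4 (Good.n0 (Good.n4 (Good.n2 L01596 L01597) L01598) L01599) L01600) L01601)
theorem g00228 : Good (Phi V5.P V5.D (-1) 1) ⟨1, 1, 1, 0, 1, 1, 1, 0, 0, 0⟩ :=
  Good.n1 (Good.n4 g00215 (Good.n2 (Good.n4 (Good.n4 (Good.n2 L01519 L01520) L01521) L01522) L01523)) g00227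
theorem g00229 : Good (Phi V5.P V5.D (-1) 1) ⟨2, 2, 4, 0, 2, 2, 1, 1, 4, 0⟩ :=
  Good.n3 (Good.n0 L01602 (Good.n0 L01603 L01604)) (Good.n0 L01605 (Good.n0 (Good.n3 L01606 L01607) (Good.n0 (Good.n3 L01608 L01609) L01610)))
theorem g00230 : Good (Phi V5.P V5.D (-1) 1) ⟨2, 2, 4, 0, 2, 2, 1, 1, 5, 2⟩ :=
  Good.n3 (Good.n0 L01611 L01612) (Good.n0 L01613 (Good.n3 (Good.n0 L01614 L01615) (Good.n0 L01616 L01617)))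
theorem g00231 : Good (Phi V5.P V5.D (-1) 1) ⟨2, 2, 4, 0, 2, 2, 1, 1, 5, 3⟩ :=
  Good.n3 (Good.n0 L01618 (Good.n0 L01619 L01620)) (Good.n3 (Good.n0 L01621 L01622) (Good.n0 L01623 (Good.n0 L01624 L01625)))
theorem g00232 : Good (Phi V5.P V5.D (-1) 1) ⟨2, 2, 4, 0, 2, 2, 1, 1, 3, 1⟩ :=
  Good.n4 (Good.n3 (Good.n0 L01627 L01628) (Good.n3 (Good.n0 L01629 L01630) L01631)) (Good.n3 L01632 (Good.n3 L01633 L01634))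
theorem g00233 : Good (Phi V5.P V5.D (-1) 1) ⟨2, 2, 4, 1, 3, 4, 1, 1, 3, 0⟩ :=
  Good.n3 (Good.n4 L01636 (Good.n0 L01637 L01638)) (Good.n4 (Good.n0 L01639 L01640) (Good.n0 L01641 (Good.n0 L01642 L01643)))
theorem g00234 : Good (Phi V5.P V5.D (-1) 1) ⟨3, 5, 4, 1, 3, 5, 1, 1, 3, 0⟩ :=
  Good.n4 (Good.n3 (Good.n4 L01648 L01649) (Good.n0 (Good.n3 L01650 L01651) L01652)) (Good.n3 (Good.n4 L01653 (Good.n0 L01654 L01655)) (Good.n0 (Good.n3 L01656 L01657) L01658))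
theorem g00235 : Good (Phi V5.P V5.D (-1) 1) ⟨1, 1, 4, 1, 2, 2, 1, 1, 3, 0⟩ :=
  Good.n0 (Good.n2 g00233 (Good.n0 (Good.n4 (Good.n3 L01644 L01645) (Good.n3 L01646 L01647)) g00234)) L01659
theorem g00236 : Good (Phi V5.P V5.D (-1) 1) ⟨2, 2, 4, 1, 2, 2, 1, 1, 3, 1⟩ :=
  Good.n0 (Good.n3 (Good.n4 L01660 L01661) L01662) (Good.n4 (Good.n3 L01663 (Good.n3 L01664 L01665)) (Good.n3 L01666 L01667))
theorem g00237 : Good (Phi V5.P V5.D (-1) 1) ⟨1, 1, 3, 0, 2, 2, 1, 1, 2, 0⟩ :=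
  Good.n1 (Good.n4 (Good.n0 (Good.n4 g00229 (Good.n4 g00230 g00231)) L01626) (Good.n0 g00232 L01635)) (Good.n4 g00235 (Good.n0 g00236 L01668))
theorem g00238 : Good (Phi V5.P V5.D (-1) 1) ⟨3, 5, 3, 0, 2, 3, 2, 2, 4, 0⟩ :=
  Good.n0 (Good.n2 (Good.n4 L01671 L01672) (Good.n4 L01673 L01674)) (Good.n2 (Good.n4 L01675 L01676) (Good.n2 (Good.n4 L01677 L01678) L01679))
theorem g00239 : Good (Phi V5.P V5.D (-1) 1) ⟨4, 10, 3, 0, 2, 3, 2, 2, 4, 1⟩ :=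
  Good.n3 (Good.n4 L01685 (Good.n2 L01686 L01687)) (Good.n4 (Good.n2 L01688 (Good.n3 L01689 L01690)) (Good.n2 L01691 L01692))
theorem g00240 : Good (Phi V5.P V5.D (-1) 1) ⟨4, 11, 3, 0, 2, 3, 2, 2, 4, 1⟩ :=
  Good.n0 (Good.n1 (Good.n4 (Good.n2 L01693 (Good.n3 L01694 L01695)) (Good.n3 L01696 L01697)) L01698) L01699
theorem g00241 : Good (Phi V5.P V5.D (-1) 1) ⟨1, 1, 3, 0, 2, 3, 2, 2, 4, 1⟩ :=
  Good.n0 (Good.n0 (Good.n4 (Good.n3 L01681 L01682) (Good.n3 L01683 L01684)) (Good.n0 g00239 g00240)) L01700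
theorem g00242 : Good (Phi V5.P V5.D (-1) 1) ⟨2, 2, 3, 0, 2, 3, 2, 2, 4, 2⟩ :=
  Good.n0 (Good.n3 L01701 L01702) (Good.n3 (Good.n4 (Good.n0 L01703 L01704) L01705) (Good.n4 (Good.n2 L01706 L01707) L01708))
theorem g00243 : Good (Phi V5.P V5.D (-1) 1) ⟨1, 1, 3, 0, 2, 3, 2, 2, 2, 0⟩ :=
  Good.n4 (Good.n4 (Good.n0 (Good.n0 (Good.n2 L01669 L01670) g00238) L01680) g00241) (Good.n0 (Good.n4 g00242 (Good.n0 (Good.n3 L01709 L01710) (Good.n2 L01711 L01712))) L01713)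
theorem g00244 : Good (Phi V5.P V5.D (-1) 1) ⟨2, 2, 3, 0, 3, 6, 2, 3, 5, 0⟩ :=
  Good.n3 (Good.n0 L01714 (Good.n0 L01715 (Good.n0 (Good.n1 L01716 L01717) L01718))) (Good.n0 L01719 (Good.n0 L01720 L01721))
theorem g00245 : Good (Phi V5.P V5.D (-1) 1) ⟨2, 2, 3, 0, 3, 7, 2, 3, 6, 0⟩ :=
  Good.n3 (Good.n0 L01723 (Good.n0 L01724 L01725)) (Good.n2 (Good.n0 L01726 (Good.n0 L01727 L01728)) (Good.n0 L01729 (Good.n0 L01730 L01731)))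
theorem g00246 : Good (Phi V5.P V5.D (-1) 1) ⟨1, 1, 3, 0, 3, 7, 2, 3, 6, 1⟩ :=
  Good.n0 (Good.n0 (Good.n3 L01733 L01734) (Good.n0 (Good.n3 L01735 L01736) (Good.n3 L01737 L01738))) L01739
theorem g00247 : Good (Phi V5.P V5.D (-1) 1) ⟨3, 5, 3, 0, 2, 3, 3, 7, 5, 1⟩ :=
  Good.n2 (Good.n0 (Good.n3 L01746 L01747) (Good.n0 (Good.n1 L01748 L01749) L01750)) (Good.n0 L01751 L01752)
theorem g00248 : Good (Phi V5.P V5.D (-1) 1) ⟨2, 2, 3, 0, 2, 3, 2, 3, 5, 1⟩ :=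
  Good.n3 (Good.n0 L01740 (Good.n0 (Good.n2 L01741 L01742) (Good.n2 L01743 L01744))) (Good.n0 L01745 g00247)
theorem g00249 : Good (Phi V5.P V5.D (-1) 1) ⟨1, 1, 3, 0, 2, 3, 2, 3, 4, 0⟩ :=
  Good.n4 (Good.n2 (Good.n0 g00244 L01722) (Good.n4 (Good.n0 g00245 L01732) g00246)) (Good.n0 g00248 L01753)

end Crest.Agent.R097C5.N5mp
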