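import Crest.Agent.R097.KS3
import Crest.Agent.R097.T5Ypm

/-!
# Row 97, box cover in dimension n = 5 (generated)
-/

set_option autoImplicit false
set_option Elab.async false
set_option maxHeartbeats 0
set_option maxRecDepth 100000

open Crest.Agent.R097 Crest.Agent.R097.KA


namespace Crest.Agent.R097C5.N5pm

theorem L00000 : Good (Phi V5.P V5.D 1 (-1)) ⟨2, 0, 2, 0, 1, 0, 2, 0, 4, 0⟩ :=
  leafYS_sound T5.ok_pm T5.Ypm.bz_eq (w := 183) (c := ⟨⟨.ofNat 431, .ofNat 146, .ofNat 40, .ofNat 509, .ofNat 51, .negSucc 1227⟩, ⟨.negSucc 33, .ofNat 41, .negSucc 114, .negSucc 137, .negSucc 4, .ofNat 164⟩, ⟨.negSucc 303, .negSucc 136, .negSucc 73, .negSucc 519, .negSucc 182, .ofNat 1041⟩, ⟨.ofNat 1328, .ofNat 284, .ofNat 82, .ofNat 1419, .ofNat 206, .negSucc 3657⟩, ⟨.negSucc 209, .ofNat 172, .ofNat 2, .negSucc 408, .ofNat 252, .negSucc 126⟩, .ofNat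 401, .ofNat 45, .ofNat 0, .ofNat 45, .ofNat 592, .ofNat 0, .ofNat 193, .negSucc 24, .negSucc 150, .ofNat 0, .ofNat 128, .ofNat 25, .ofNat 0, .ofNat 0, .ofNat 377, .ofNat 2225, .ofNat 0, .ofNat 0, .ofNat 0, .ofNat 0, .ofNat 0, .ofNat 0, .ofNat 0, .ofNat 0, .ofNat 0, .ofNat 0, .ofNat 0, .ofNat 0, .ofNat 0, .ofNat 0, .ofNat 0, .ofNat 0⟩)
    (by decide +kernel)
theorem L00001 : Good (Phi V5.P V5.D 1 (-1)) ⟨2, 0, 2, 0, 1, 0, 2, 1, 4, 0⟩ :=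
  leafYS_sound T5.ok_pm T5.Ypm.bz_eq (w := 183) (c := ⟨⟨.ofNat 487, .ofNat 49, .ofNat 73, .ofNat 536, .negSucc 229, .negSucc 1214⟩, ⟨.ofNat 42, .negSucc 79, .negSucc 161, .negSucc 79, .negSucc 1, .ofNat 159⟩, ⟨.negSucc 446, .negSucc 81, .negSucc 162, .negSucc 476, .ofNat 137, .ofNat 1058⟩, ⟨.ofNat 1538, .ofNat 66, .ofNat 117, .ofNat 1565, .negSucc 736, .negSucc 3663⟩, ⟨.ofNat 51, .ofNat 0, .negSucc 81, .negSucc 87, .ofNat 5, .negSucc 214⟩, .ofNat 401, .ofNat 43, .ofNat 0, .ofNat 43, .ofNat 592, .ofNat 0, .ofNat 207, .negSucc 21, .negSucc 173, .ofNat 0, .ofNat 128, .ofNat 28, .ofNat 0, .ofNat 0, .ofNat 364, .ofNat 1163, .ofNat 0, .ofNat 0, .ofNat 0, .ofNat 0, .ofNat 0, .ofNat 0, .ofNat 0, .ofNat 0, .ofNat 0, .ofNat 0, .ofNat 0, .ofNat 0, .ofNat 0, .ofNat 0, .ofNat 0, .ofNat 0⟩)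
    (by decide +kernel)
theorem L00002 : Good (Phi V5.P V5.D 1 (-1)) ⟨2, 0, 2, 0, 1, 0, 1, 0, 4, 1⟩ :=
  leafYS_sound T5.ok_pm T5.Ypm.bz_eq (w := 179) (c := ⟨⟨.negSucc 683, .negSucc 36, .ofNat 115, .ofNat 325, .ofNat 66, .negSucc 656⟩, ⟨.negSucc 61, .ofNat 88, .ofNat 172, .negSucc 144, .ofNat 21, .ofNat 121⟩, ⟨.ofNat 808, .ofNat 63, .negSucc 96, .negSucc 1002, .negSucc 81, .ofNat 604⟩, ⟨.negSucc 2059, .ofNat 84, .ofNat 211, .ofNat 848, .ofNat 215, .negSucc 1884⟩, ⟨.negSucc 240, .ofNat 149, .negSucc 21, .negSucc 579, .ofNat 275, .negSucc 48⟩, .ofNat 591, .ofNat 133, .ofNat 0, .ofNat 133, .ofNat 1124, .ofNat 0, .ofNat 354, .negSucc 42, .negSucc 139, .ofNat 0, .ofNat 128, .ofNat 32, .ofNat 0, .ofNat 0, .ofNat 535, .ofNat 1867, .ofNat 0, .ofNat 0, .ofNat 0, .ofNat 0, .ofNat 0, .ofNat 0, .ofNat 0, .ofNat 0, .ofNat 0, .ofNat 0, .ofNat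 0, .ofNat 0, .ofNat 0, .ofNat 0, .ofNat 0, .ofNat 0⟩)
    (by decide +kernel)
theorem L00003 : Good (Phi V5.P V5.D 1 (-1)) ⟨2, 0, 2, 0, 1, 0, 1, 0, 3, 1⟩ :=
  leafYS_sound T5.ok_pm T5.Ypm.bz_eq (w := 175) (c := ⟨⟨.negSucc 1181, .negSucc 102, .ofNat 12, .negSucc 30, .ofNat 162, .negSucc 124⟩, ⟨.negSucc 3, .ofNat 73, .ofNat 295, .negSucc 60, .negSucc 15, .ofNat 19⟩, ⟨.ofNat 1167, .ofNat 119, .ofNat 61, .negSucc 420, .negSucc 234, .ofNat 328⟩, ⟨.negSucc 3604, .negSucc 5, .negSucc 6, .negSucc 109, .ofNat 493, .negSucc 374⟩, ⟨.negSucc 79, .ofNat 4, .ofNat 23, .negSucc 460, .ofNat 47, .ofNat 30⟩, .ofNat 592, .ofNat 123, .ofNat 0, .ofNat 123, .ofNat 1102, .ofNat 0, .ofNat 472, .negSucc 37, .negSucc 137, .ofNat 0, .ofNat 128, .ofNat 36, .ofNat 0, .ofNat 0, .ofNat 847, .ofNat 2046, .ofNat 979224858611058002246845056679936, .ofNat 0, .ofNat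 0, .ofNat 0, .ofNat 0, .ofNat 0, .ofNat 0, .ofNat 0, .ofNat 5693696599832604886986070972956672, .ofNat 0, .ofNat 0, .ofNat 0, .ofNat 65922083004731092165895151534735360, .ofNat 0, .ofNat 0, .ofNat 0⟩)
    (by decide +kernel)
theorem L00004 : Good (Phi V5.P V5.D 1 (-1)) ⟨2, 0, 2, 0, 1, 0, 2, 0, 4, 4⟩ :=
  leafYS_sound T5.ok_pm T5.Ypm.bz_eq (w := 188) (c := ⟨⟨.negSucc 1346, .negSucc 96, .ofNat 32, .ofNat 8, .ofNat 95, .ofNat 32⟩, ⟨.negSucc 23, .ofNat 86, .ofNat 315, .negSucc 52, .ofNat 8, .ofNat 0⟩, ⟨.ofNat 1515, .ofNat 84, .negSucc 23, .negSucc 641, .ofNat 64, .ofNat 169⟩, ⟨.negSucc 3944, .ofNat 25, .negSucc 1, .negSucc 69, .ofNat 205, .ofNat 122⟩, ⟨.negSucc 149, .ofNat 68, .ofNat 13, .negSucc 462, .ofNat 90, .ofNat 42⟩, .ofNat 404, .ofNat 58, .ofNat 0, .ofNat 58, .ofNat 592, .ofNat 0, .ofNat 278, .negSucc 31, .negSucc 71, .ofNat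 0, .ofNat 128, .ofNat 32, .ofNat 0, .ofNat 0, .ofNat 569, .ofNat 59708, .ofNat 2617237801577722501078053344778387456, .ofNat 0, .ofNat 0, .ofNat 0, .ofNat 15168572855355269645373785129193832448, .ofNat 0, .ofNat 0, .ofNat 0, .ofNat 4732576254965166371144316673469710336, .ofNat 0, .ofNat 0, .ofNat 0, .ofNat 21746307565000919158739925153385283584, .ofNat 0, .ofNat 0, .ofNat 0⟩)
    (by decide +kernel)
theorem L00005 : Good (Phi V5.P V5.D 1 (-1)) ⟨2, 0, 2, 0, 1, 0, 2, 1, 4, 4⟩ :=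
  leafYS_sound T5.ok_pm T5.Ypm.bz_eq (w := 186) (c := ⟨⟨.negSucc 1200, .negSucc 114, .ofNat 16, .negSucc 42, .ofNat 80, .ofNat 45⟩, ⟨.ofNat 11, .ofNat 70, .ofNat 293, .negSucc 50, .negSucc 7, .negSucc 11⟩, ⟨.ofNat 1311, .ofNat 131, .ofNat 31, .negSucc 278, .negSucc 118, .ofNat 30⟩, ⟨.negSucc 3661, .negSucc 15, .negSucc 10, .negSucc 158, .ofNat 219, .ofNat 168⟩, ⟨.negSucc 36, .ofNat 22, .ofNat 3, .negSucc 415, .ofNat 21, .ofNat 13⟩, .ofNat 401, .ofNat 48, .ofNat 0, .ofNat 48, .ofNat 594, .ofNat 0, .ofNat 271, .negSucc 23, .negSucc 147, .ofNat 0, .ofNat 128, .ofNat 39, .ofNat 0, .ofNat 0, .ofNat 1183, .ofNat 8800, .ofNat 220147189401548149094899483364294656, .ofNat 0, .ofNat 0, .ofNat 0, .ofNat 0, .ofNat 0, .ofNat 0, .ofNat 0, .ofNat 0, .ofNat 0, .ofNat 0, .ofNat 0, .ofNat 0, .ofNat 0, .ofNat 0, .ofNat 0⟩)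
    (by decide +kernel)
theorem L00006 : Good (Phi V5.P V5.D 1 (-1)) ⟨2, 0, 2, 0, 1, 0, 2, 0, 4, 5⟩ :=
  out_sound (S := T5.ds_pm) T5.ok_pm (w := 22) (j := 1) (by decide +kernel)
theorem L00007 : Good (Phi V5.P V5.D 1 (-1)) ⟨2, 0, 2, 0, 2, 0, 2, 1, 5, 10⟩ :=
  leafYS_sound T5.ok_pm T5.Ypm.bz_eq (w := 207) (c := ⟨⟨.negSucc 1175, .negSucc 109, .ofNat 12, .negSucc 2, .ofNat 94, .ofNat 31⟩, ⟨.ofNat 12, .ofNat 58, .ofNat 276, .negSucc 20, .negSucc 9, .negSucc 3⟩, ⟨.ofNat 1414, .ofNat 103, .ofNat 13, .ofNat 1, .negSucc 290, .negSucc 7⟩, ⟨.negSucc 3524, .negSucc 16, .negSucc 5, .negSucc 58, .ofNat 250, .ofNat 86⟩, ⟨.negSucc 7, .negSucc 0, .ofNat 0, .negSucc 191, .ofNat 9, .ofNat 4⟩, .ofNat 191, .ofNat 10, .ofNat 0, .ofNat 10, .ofNat 226, .ofNat 0, .ofNat 225, .negSucc 9, .negSucc 102, .ofNat 0, .ofNat 128, .ofNat 17, .ofNat 0, .ofNat 0,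 .ofNat 599, .ofNat 41360, .ofNat 43572069830146492278399085488416827113472, .ofNat 0, .ofNat 0, .ofNat 0, .ofNat 143214323532705608975789374263097674432512, .ofNat 0, .ofNat 0, .ofNat 0, .ofNat 72546444836214667338021806715554999828480, .ofNat 0, .ofNat 0, .ofNat 0, .ofNat 159694207711694997535519524776166769557504, .ofNat 0, .ofNat 0, .ofNat 0⟩)
    (by decide +kernel)
theorem L00008 : Good (Phi V5.P V5.D 1 (-1)) ⟨2, 0, 2, 0, 2, 0, 2, 1, 5, 11⟩ :=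
  leafYS_sound T5.ok_pm T5.Ypm.bz_eq (w := 209) (c := ⟨⟨.negSucc 1156, .negSucc 101, .ofNat 7, .negSucc 8, .ofNat 107, .ofNat 15⟩, ⟨.negSucc 0, .ofNat 58, .ofNat 268, .negSucc 19, .ofNat 4, .negSucc 5⟩, ⟨.ofNat 1413, .ofNat 113, .ofNat 31, .ofNat 22, .negSucc 323, .ofNat 2⟩, ⟨.negSucc 3400, .negSucc 23, .negSucc 7, .negSucc 67, .ofNat 220, .ofNat 78⟩, ⟨.negSucc 10, .negSucc 0, .ofNat 1, .negSucc 184, .ofNat 11, .ofNat 7⟩, .ofNat 191, .ofNat 9, .ofNat 0, .ofNat 9, .ofNat 226, .ofNat 0, .ofNat 381, .negSucc 8, .negSucc 122, .ofNat 0, .ofNat 128, .ofNat 20, .ofNat 0, .ofNat 0, .ofNat 791, .ofNat 175858, .ofNat 265638225452167408659260017962682683490304, .ofNat 0, .ofNat 0, .ofNat 0, .ofNat 1035266659674551683433669163013764122935296, .ofNat 0, .ofNat 0, .ofNat 0, .ofNat 152915109313477710770692156112873644359680, .ofNat 0, .ofNat 0,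 .ofNat 0, .ofNat 553730915880054837511638482470560386252800, .ofNat 0, .ofNat 0, .ofNat 0⟩)
    (by decide +kernel)
theorem L00009 : Good (Phi V5.P V5.D 1 (-1)) ⟨3, 0, 2, 0, 2, 1, 3, 2, 4, 5⟩ :=
  leafYS_sound T5.ok_pm T5.Ypm.bz_eq (w := 211) (c := ⟨⟨.negSucc 1177, .negSucc 22, .ofNat 23, .negSucc 28, .ofNat 27, .ofNat 70⟩, ⟨.negSucc 32, .ofNat 44, .ofNat 293, .negSucc 24, .negSucc 1, .negSucc 2⟩, ⟨.ofNat 1255, .ofNat 38, .ofNat 18, .negSucc 177, .negSucc 16, .ofNat 120⟩, ⟨.negSucc 3525, .negSucc 4, .negSucc 15, .negSucc 108, .ofNat 74, .ofNat 210⟩, ⟨.negSucc 248, .ofNat 12, .ofNat 9, .negSucc 202, .ofNat 28, .ofNat 43⟩, .ofNat 406, .ofNat 43, .ofNat 0, .ofNat 43, .ofNat 578, .ofNat 0, .ofNat 147, .negSucc 21, .negSucc 45, .ofNat 0, .ofNat 128, .ofNat 18, .ofNat 0, .ofNat 0, .ofNat 592, .ofNat 112171, .ofNat 2463588751785738199531902477844876755992576,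 .ofNat 0, .ofNat 0, .ofNat 0, .ofNat 3077135471288080544432799684901754128826368, .ofNat 0, .ofNat 0, .ofNat 0, .ofNat 2307560439946002776079835360431890138923008, .ofNat 0, .ofNat 0, .ofNat 0, .ofNat 10970506957962872365868727345802306065006592, .ofNat 0, .ofNat 0, .ofNat 0⟩)
    (by decide +kernel)
theorem L00010 : Good (Phi V5.P V5.D 1 (-1)) ⟨3, 1, 2, 0, 2, 1, 3, 2, 4, 5⟩ :=
  leafYS_sound T5.ok_pm T5.Ypm.bz_eq (w := 211) (c := ⟨⟨.negSucc 1194, .negSucc 82, .ofNat 21, .negSucc 32, .ofNat 22, .ofNat 73⟩, ⟨.ofNat 7, .ofNat 32, .ofNat 290, .negSucc 15, .ofNat 0, .negSucc 7⟩, ⟨.ofNat 1278, .ofNat 74, .ofNat 20, .negSucc 172, .ofNat 0, .ofNat 123⟩, ⟨.negSucc 3510, .negSucc 14, .negSucc 13, .negSucc 123, .ofNat 62, .ofNat 203⟩, ⟨.negSucc 232, .ofNat 15, .ofNat 10, .negSucc 186, .ofNat 13, .ofNat 28⟩, .ofNat 398, .ofNat 52, .ofNat 0,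 .ofNat 52, .ofNat 604, .ofNat 0, .ofNat 157, .negSucc 26, .negSucc 34, .ofNat 0, .ofNat 128, .ofNat 14, .ofNat 0, .ofNat 0, .ofNat 444, .ofNat 78184, .ofNat 2387452885776288694873453081065038750416896, .ofNat 0, .ofNat 0, .ofNat 0, .ofNat 1801609530179243735101955979818368952696832, .ofNat 0, .ofNat 0, .ofNat 0, .ofNat 0, .ofNat 0, .ofNat 0, .ofNat 0, .ofNat 5333353407981684596732769427230059118198784, .ofNat 0, .ofNat 0, .ofNat 0⟩)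
    (by decide +kernel)
theorem L00011 : Good (Phi V5.P V5.D 1 (-1)) ⟨2, 0, 2, 0, 2, 1, 3, 3, 5, 10⟩ :=
  leafYS_sound T5.ok_pm T5.Ypm.bz_eq (w := 211) (c := ⟨⟨.negSucc 1125, .negSucc 109, .ofNat 20, .negSucc 40, .ofNat 23, .ofNat 31⟩, ⟨.negSucc 33, .ofNat 75, .ofNat 287, .negSucc 16, .ofNat 0, .negSucc 1⟩, ⟨.ofNat 1140, .ofNat 151, .ofNat 41, .negSucc 68, .negSucc 39, .ofNat 37⟩, ⟨.negSucc 3411, .negSucc 41, .negSucc 16, .negSucc 146, .ofNat 72, .ofNat 95⟩, ⟨.negSucc 225, .ofNat 10, .ofNat 10, .negSucc 182, .ofNat 19, .ofNat 15⟩, .ofNat 403, .ofNat 52, .ofNat 0, .ofNat 52, .ofNat 592, .ofNat 0, .ofNat 274, .negSucc 25, .negSucc 85, .ofNat 0, .ofNat 128, .ofNat 27, .ofNat 0, .ofNat 0, .ofNat 906, .ofNat 42826, .ofNat 318216582777251939653985994909017016631296, .ofNat 0, .ofNat 0, .ofNat 0, .ofNat 0, .ofNat 0, .ofNat 0, .ofNat 0,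 .ofNat 0, .ofNat 0, .ofNat 0, .ofNat 0, .ofNat 0, .ofNat 0, .ofNat 0, .ofNat 0⟩)
    (by decide +kernel)
theorem L00012 : Good (Phi V5.P V5.D 1 (-1)) ⟨2, 0, 2, 0, 2, 1, 3, 3, 5, 11⟩ :=
  leafYS_sound T5.ok_pm T5.Ypm.bz_eq (w := 211) (c := ⟨⟨.negSucc 1085, .negSucc 114, .ofNat 18, .negSucc 46, .ofNat 15, .ofNat 36⟩, ⟨.negSucc 30, .ofNat 69, .ofNat 277, .negSucc 17, .ofNat 3, .negSucc 2⟩, ⟨.ofNat 1118, .ofNat 149, .ofNat 66, .ofNat 19, .negSucc 29, .ofNat 28⟩, ⟨.negSucc 3297, .negSucc 58, .negSucc 15, .negSucc 145, .ofNat 48, .ofNat 103⟩, ⟨.negSucc 215, .negSucc 4, .ofNat 9, .negSucc 166, .ofNat 24, .ofNat 14⟩, .ofNat 402, .ofNat 45, .ofNat 0, .ofNat 45, .ofNat 591, .ofNat 0, .ofNat 357, .negSucc 22, .negSucc 70, .ofNat 0, .ofNat 128, .ofNat 19, .ofNat 0, .ofNat 0, .ofNat 914, .ofNat 52103, .ofNat 526724220571670653468838754755700108296192,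 .ofNat 0, .ofNat 0, .ofNat 0, .ofNat 0, .ofNat 0, .ofNat 0, .ofNat 0, .ofNat 0, .ofNat 0, .ofNat 0, .ofNat 0, .ofNat 3001376588123175329037763611439960965513216, .ofNat 0, .ofNat 0, .ofNat 0⟩)
    (by decide +kernel)
theorem L00013 : Good (Phi V5.P V5.D 1 (-1)) ⟨2, 0, 2, 0, 1, 0, 1, 0, 3, 3⟩ :=
  leafYS_sound T5.ok_pm T5.Ypm.bz_eq (w := 180) (c := ⟨⟨.negSucc 978, .negSucc 117, .ofNat 16, .negSucc 95, .negSucc 5, .ofNat 154⟩, ⟨.negSucc 23, .ofNat 68, .ofNat 273, .negSucc 25, .ofNat 6, .negSucc 15⟩, ⟨.ofNat 953, .ofNat 151, .ofNat 111, .ofNat 183, .ofNat 8, .ofNat 320⟩, ⟨.negSucc 3068, .negSucc 81, .negSucc 22, .negSucc 288, .ofNat 74, .ofNat 411⟩, ⟨.negSucc 121, .negSucc 21, .ofNat 7, .negSucc 294, .ofNat 86, .ofNat 46⟩, .ofNat 403, .ofNat 48, .ofNat 0, .ofNat 48, .ofNat 588, .ofNat 0, .ofNat 406, .negSucc 22, .negSucc 46, .ofNat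 0, .ofNat 128, .ofNat 17, .ofNat 0, .ofNat 0, .ofNat 1283, .ofNat 88512, .ofNat 158593080785564443672509352576548864, .ofNat 0, .ofNat 0, .ofNat 0, .ofNat 1370699903810082312772396834682306560, .ofNat 0, .ofNat 0, .ofNat 0, .ofNat 229312793570025888074974931204440064, .ofNat 0, .ofNat 0, .ofNat 0, .ofNat 1571605750274594837954331845700091904, .ofNat 0, .ofNat 0, .ofNat 0⟩)
    (by decide +kernel)
theorem L00014 : Good (Phi V5.P V5.D 1 (-1)) ⟨2, 0, 2, 0, 1, 0, 1, 0, 1, 1⟩ :=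
  out_sound (S := T5.ds_pm) T5.ok_pm (w := 15) (j := 1) (by decide +kernel)
theorem L00015 : Good (Phi V5.P V5.D 1 (-1)) ⟨2, 0, 2, 0, 1, 0, 2, 2, 3, 0⟩ :=
  leafYS_sound T5.ok_pm T5.Ypm.bz_eq (w := 177) (c := ⟨⟨.ofNat 119, .negSucc 247, .ofNat 82, .ofNat 207, .negSucc 68, .negSucc 1108⟩, ⟨.negSucc 149, .ofNat 97, .ofNat 102, .negSucc 22, .ofNat 8, .ofNat 177⟩, ⟨.negSucc 169, .ofNat 247, .negSucc 107, .negSucc 335, .ofNat 104, .ofNat 1043⟩, ⟨.ofNat 380, .negSucc 584, .ofNat 239, .ofNat 559, .negSucc 308, .negSucc 3280⟩, ⟨.ofNat 580, .negSucc 95, .negSucc 200, .negSucc 63, .negSucc 543, .negSucc 349⟩, .ofNat 720, .ofNat 222, .ofNat 0, .ofNat 222, .ofNat 1588, .ofNat 0, .ofNat 211, .negSucc 46, .negSucc 133, .ofNat 0, .ofNat 128, .ofNat 26, .ofNat 0, .ofNat 0, .ofNat 399, .ofNat 350, .ofNat 0, .ofNat 0, .ofNat 0, .ofNat 0, .ofNat 0,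 .ofNat 0, .ofNat 0, .ofNat 0, .ofNat 0, .ofNat 0, .ofNat 0, .ofNat 0, .ofNat 0, .ofNat 0, .ofNat 0, .ofNat 0⟩)
    (by decide +kernel)
theorem L00016 : Good (Phi V5.P V5.D 1 (-1)) ⟨2, 0, 2, 0, 1, 0, 3, 6, 3, 0⟩ :=
  leafYS_sound T5.ok_pm T5.Ypm.bz_eq (w := 182) (c := ⟨⟨.negSucc 395, .negSucc 95, .ofNat 51, .ofNat 198, .ofNat 71, .negSucc 623⟩, ⟨.negSucc 22, .ofNat 63, .ofNat 140, .negSucc 93, .negSucc 11, .ofNat 89⟩, ⟨.ofNat 262, .ofNat 192, .negSucc 49, .negSucc 173, .negSucc 26, .ofNat 539⟩, ⟨.negSucc 1190, .negSucc 147, .ofNat 124, .ofNat 540, .ofNat 177, .negSucc 1823⟩, ⟨.ofNat 12, .negSucc 31, .ofNat 18, .negSucc 258, .ofNat 1, .negSucc 75⟩, .ofNat 596, .ofNat 131, .ofNat 0, .ofNat 131, .ofNat 1096, .ofNat 0, .ofNat 396, .negSucc 37, .negSucc 192, .ofNat 0, .ofNat 128, .ofNat 36, .ofNat 0, .ofNat 0, .ofNat 508, .ofNat 1257,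 .ofNat 0, .ofNat 0, .ofNat 0, .ofNat 0, .ofNat 0, .ofNat 0, .ofNat 0, .ofNat 0, .ofNat 0, .ofNat 0, .ofNat 0, .ofNat 0, .ofNat 0, .ofNat 0, .ofNat 0, .ofNat 0⟩)
    (by decide +kernel)
theorem L00017 : Good (Phi V5.P V5.D 1 (-1)) ⟨2, 0, 2, 0, 1, 0, 3, 7, 4, 0⟩ :=
  leafYS_sound T5.ok_pm T5.Ypm.bz_eq (w := 187) (c := ⟨⟨.negSucc 479, .negSucc 36, .ofNat 38, .negSucc 41, .ofNat 288, .negSucc 91⟩, ⟨.ofNat 0, .ofNat 34, .ofNat 90, .negSucc 9, .negSucc 40, .ofNat 0⟩, ⟨.ofNat 314, .ofNat 142, .negSucc 45, .ofNat 283, .negSucc 264, .negSucc 32⟩, ⟨.negSucc 1434, .negSucc 1, .ofNat 67, .negSucc 130, .ofNat 835, .negSucc 291⟩, ⟨.negSucc 100, .ofNat 80, .ofNat 9, .negSucc 145, .ofNat 21, .negSucc 111⟩, .ofNat 591, .ofNat 126, .ofNat 0, .ofNat 126, .ofNat 1114, .ofNat 0, .ofNat 202, .negSucc 32, .negSucc 287, .ofNat 0, .ofNat 128, .ofNat 50,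 .ofNat 0, .ofNat 0, .ofNat 623, .ofNat 1029, .ofNat 0, .ofNat 0, .ofNat 0, .ofNat 0, .ofNat 0, .ofNat 0, .ofNat 0, .ofNat 0, .ofNat 0, .ofNat 0, .ofNat 0, .ofNat 0, .ofNat 0, .ofNat 0, .ofNat 0, .ofNat 0⟩)
    (by decide +kernel)
theorem L00018 : Good (Phi V5.P V5.D 1 (-1)) ⟨2, 0, 2, 0, 1, 0, 3, 7, 4, 1⟩ :=
  leafYS_sound T5.ok_pm T5.Ypm.bz_eq (w := 187) (c := ⟨⟨.negSucc 630, .negSucc 79, .negSucc 22, .negSucc 136, .ofNat 476, .negSucc 115⟩, ⟨.ofNat 24, .ofNat 30, .ofNat 122, .negSucc 35, .negSucc 67, .ofNat 25⟩, ⟨.ofNat 443, .ofNat 159, .ofNat 33, .ofNat 288, .negSucc 515, .ofNat 10⟩, ⟨.negSucc 1877, .negSucc 109, .negSucc 99, .negSucc 440, .ofNat 1367, .negSucc 343⟩, ⟨.negSucc 67, .ofNat 30, .ofNat 36, .negSucc 300, .negSucc 60, .ofNat 36⟩, .ofNat 665, .ofNat 173, .ofNat 0, .ofNat 173, .ofNat 1382, .ofNat 0, .ofNat 304, .negSucc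 40, .negSucc 337, .ofNat 0, .ofNat 128, .ofNat 61, .ofNat 0, .ofNat 0, .ofNat 884, .ofNat 861, .ofNat 0, .ofNat 0, .ofNat 0, .ofNat 0, .ofNat 0, .ofNat 262519540013794991096647244864028672, .ofNat 0, .ofNat 0, .ofNat 0, .ofNat 0, .ofNat 0, .ofNat 0, .ofNat 0, .ofNat 0, .ofNat 0, .ofNat 0⟩)
    (by decide +kernel)
theorem L00019 : Good (Phi V5.P V5.D 1 (-1)) ⟨2, 0, 2, 0, 1, 0, 2, 2, 3, 1⟩ :=
  leafYS_sound T5.ok_pm T5.Ypm.bz_eq (w := 178) (c := ⟨⟨.negSucc 1075, .negSucc 108, .ofNat 4, .negSucc 51, .ofNat 122, .negSucc 49⟩, ⟨.negSucc 1, .ofNat 74, .ofNat 269, .negSucc 47, .negSucc 11, .ofNat 4⟩, ⟨.ofNat 939, .ofNat 234, .ofNat 8, .negSucc 128, .negSucc 203, .ofNat 157⟩, ⟨.negSucc 3277, .negSucc 87, .negSucc 0, .negSucc 143, .ofNat 343, .negSucc 116⟩, ⟨.negSucc 110, .ofNat 2, .ofNat 13, .negSucc 297, .ofNat 45, .ofNat 45⟩, .ofNat 771,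 .ofNat 285, .ofNat 0, .ofNat 285, .ofNat 1839, .ofNat 0, .ofNat 375, .negSucc 52, .negSucc 172, .ofNat 0, .ofNat 128, .ofNat 40, .ofNat 0, .ofNat 0, .ofNat 957, .ofNat 1305, .ofNat 0, .ofNat 0, .ofNat 0, .ofNat 0, .ofNat 0, .ofNat 0, .ofNat 0, .ofNat 0, .ofNat 0, .ofNat 0, .ofNat 0, .ofNat 0, .ofNat 0, .ofNat 0, .ofNat 0, .ofNat 0⟩)
    (by decide +kernel)
theorem L00020 : Good (Phi V5.P V5.D 1 (-1)) ⟨2, 0, 2, 0, 2, 0, 2, 3, 3, 1⟩ :=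
  leafYS_sound T5.ok_pm T5.Ypm.bz_eq (w := 192) (c := ⟨⟨.negSucc 919, .negSucc 52, .negSucc 4, .negSucc 56, .ofNat 436, .negSucc 129⟩, ⟨.negSucc 4, .ofNat 47, .ofNat 214, .negSucc 8, .negSucc 50, .ofNat 35⟩, ⟨.ofNat 846, .ofNat 71, .ofNat 26, .ofNat 136, .negSucc 716, .ofNat 2⟩, ⟨.negSucc 2780, .ofNat 61, .negSucc 30, .negSucc 177, .ofNat 1291, .negSucc 389⟩, ⟨.negSucc 38, .ofNat 12, .ofNat 88, .negSucc 198, .negSucc 40, .ofNat 24⟩, .ofNat 596, .ofNat 131, .ofNat 0, .ofNat 131, .ofNat 1096, .ofNat 0, .ofNat 384, .negSucc 37, .negSucc 116, .ofNat 0, .ofNat 128, .ofNat 20, .ofNat 0, .ofNat 0, .ofNat 496, .ofNat 1164, .ofNat 0, .ofNat 0, .ofNat 0, .ofNat 0, .ofNat 0, .ofNat 0, .ofNat 0, .ofNat 0, .ofNat 0, .ofNat 18242499095971791395312521127766523904, .ofNat 0, .ofNat 0, .ofNat 0, .ofNat 0, .ofNat 0, .ofNat 0⟩)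
    (by decide +kernel)
theorem L00021 : Good (Phi V5.P V5.D 1 (-1)) ⟨2, 0, 2, 0, 2, 1, 2, 3, 3, 1⟩ :=
  leafYS_sound T5.ok_pm T5.Ypm.bz_eq (w := 192) (c := ⟨⟨.negSucc 874, .negSucc 148, .ofNat 17, .negSucc 182, .ofNat 141, .negSucc 155⟩, ⟨.negSucc 58, .ofNat 55, .ofNat 265, .ofNat 10, .negSucc 4, .ofNat 38⟩, ⟨.ofNat 601, .ofNat 266, .ofNat 60, .ofNat 212, .negSucc 168, .ofNat 217⟩, ⟨.negSucc 2660, .negSucc 212, .negSucc 13, .negSucc 528, .ofNat 403, .negSucc 448⟩, ⟨.negSucc 267, .negSucc 115, .ofNat 116, .negSucc 104, .ofNat 3, .ofNat 53⟩, .ofNat 722, .ofNat 224, .ofNat 0, .ofNat 224, .ofNat 1576, .ofNat 0, .ofNat 373, .negSucc 48, .negSucc 147, .ofNat 0, .ofNat 128, .ofNat 33, .ofNat 0, .ofNat 0, .ofNat 611, .ofNat 694, .ofNat 0, .ofNat 0, .ofNat 0, .ofNat 0, .ofNat 0, .ofNat 0, .ofNat 0, .ofNat 0, .ofNat 0, .ofNat 15755943665689455387233931709734977536,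 .ofNat 0, .ofNat 0, .ofNat 0, .ofNat 0, .ofNat 0, .ofNat 0⟩)
    (by decide +kernel)
theorem L00022 : Good (Phi V5.P V5.D 1 (-1)) ⟨2, 0, 2, 0, 2, 0, 2, 2, 3, 2⟩ :=
  leafYS_sound T5.ok_pm T5.Ypm.bz_eq (w := 195) (c := ⟨⟨.negSucc 1103, .negSucc 107, .ofNat 7, .negSucc 26, .ofNat 92, .ofNat 77⟩, ⟨.ofNat 11, .ofNat 58, .ofNat 263, .negSucc 18, .negSucc 13, .negSucc 6⟩, ⟨.ofNat 1094, .ofNat 145, .ofNat 30, .ofNat 63, .negSucc 298, .negSucc 83⟩, ⟨.negSucc 3341, .negSucc 53, .negSucc 1, .negSucc 112, .ofNat 284, .ofNat 231⟩, ⟨.negSucc 13, .negSucc 4, .ofNat 1, .negSucc 180, .ofNat 14, .ofNat 20⟩, .ofNat 400, .ofNat 46, .ofNat 0, .ofNat 46, .ofNat 596, .ofNat 0, .ofNat 322, .negSucc 21, .negSucc 105, .ofNat 0, .ofNat 128, .ofNat 15, .ofNat 0, .ofNat 0, .ofNat 875, .ofNat 9301, .ofNat 0, .ofNat 0, .ofNat 0, .ofNat 0, .ofNat 0, .ofNat 0,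 .ofNat 0, .ofNat 0, .ofNat 0, .ofNat 0, .ofNat 0, .ofNat 0, .ofNat 0, .ofNat 0, .ofNat 0, .ofNat 0⟩)
    (by decide +kernel)
theorem L00023 : Good (Phi V5.P V5.D 1 (-1)) ⟨2, 0, 2, 0, 2, 0, 3, 6, 3, 2⟩ :=
  leafYS_sound T5.ok_pm T5.Ypm.bz_eq (w := 198) (c := ⟨⟨.negSucc 969, .negSucc 103, .ofNat 6, .negSucc 69, .ofNat 63, .ofNat 36⟩, ⟨.negSucc 0, .ofNat 52, .ofNat 244, .negSucc 6, .negSucc 5, .ofNat 4⟩, ⟨.ofNat 772, .ofNat 118, .ofNat 40, .ofNat 170, .negSucc 229, .negSucc 121⟩, ⟨.negSucc 2927, .negSucc 76, .negSucc 1, .negSucc 214, .ofNat 187, .ofNat 90⟩, ⟨.negSucc 6, .negSucc 55, .ofNat 7, .negSucc 144, .ofNat 26, .ofNat 42⟩, .ofNat 591, .ofNat 122, .ofNat 0, .ofNat 122, .ofNat 1109, .ofNat 0, .ofNat 429, .negSucc 35, .negSucc 98, .ofNat 0, .ofNat 128, .ofNat 13, .ofNat 0, .ofNat 0, .ofNat 802, .ofNat 6072, .ofNat 0, .ofNat 0, .ofNat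 0, .ofNat 0, .ofNat 0, .ofNat 0, .ofNat 0, .ofNat 0, .ofNat 0, .ofNat 0, .ofNat 0, .ofNat 0, .ofNat 0, .ofNat 0, .ofNat 0, .ofNat 0⟩)
    (by decide +kernel)
theorem L00024 : Good (Phi V5.P V5.D 1 (-1)) ⟨2, 0, 2, 0, 2, 0, 3, 7, 3, 2⟩ :=
  leafYS_sound T5.ok_pm T5.Ypm.bz_eq (w := 197) (c := ⟨⟨.negSucc 819, .negSucc 108, .negSucc 30, .negSucc 149, .ofNat 154, .negSucc 49⟩, ⟨.negSucc 8, .ofNat 46, .ofNat 229, .ofNat 16, .negSucc 12, .ofNat 8⟩, ⟨.ofNat 477, .ofNat 111, .ofNat 77, .ofNat 274, .negSucc 360, .negSucc 82⟩, ⟨.negSucc 2474, .negSucc 127, .negSucc 88, .negSucc 453, .ofNat 460, .negSucc 152⟩, ⟨.ofNat 25, .negSucc 28, .ofNat 68, .negSucc 130, .ofNat 35, .negSucc 6⟩, .ofNat 590, .ofNat 111, .ofNat 0, .ofNat 111, .ofNat 1100, .ofNat 0, .ofNat 275, .negSucc 32, .negSucc 81, .ofNat 0, .ofNat 128, .ofNat 8, .ofNat 0, .ofNat 0, .ofNat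 470, .ofNat 1653, .ofNat 0, .ofNat 0, .ofNat 0, .ofNat 0, .ofNat 0, .ofNat 640840101429531194986553497355733172224, .ofNat 0, .ofNat 0, .ofNat 0, .ofNat 0, .ofNat 0, .ofNat 0, .ofNat 0, .ofNat 0, .ofNat 0, .ofNat 0⟩)
    (by decide +kernel)
theorem L00025 : Good (Phi V5.P V5.D 1 (-1)) ⟨2, 0, 2, 0, 2, 0, 2, 2, 3, 3⟩ :=
  leafYS_sound T5.ok_pm T5.Ypm.bz_eq (w := 196) (c := ⟨⟨.negSucc 1008, .negSucc 100, .ofNat 3, .negSucc 30, .ofNat 60, .ofNat 39⟩, ⟨.ofNat 1, .ofNat 55, .ofNat 253, .negSucc 9, .negSucc 5, .negSucc 13⟩, ⟨.ofNat 1016, .ofNat 127, .ofNat 49, .ofNat 160, .negSucc 369, .negSucc 97⟩, ⟨.negSucc 3032, .negSucc 48, .negSucc 15, .negSucc 140, .ofNat 174, .ofNat 165⟩, ⟨.negSucc 4, .negSucc 9, .ofNat 3, .negSucc 157, .ofNat 19, .ofNat 22⟩, .ofNat 401, .ofNat 51, .ofNat 0, .ofNat 51, .ofNat 594, .ofNat 0, .ofNat 263, .negSucc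 23, .negSucc 44, .ofNat 0, .ofNat 128, .ofNat 4, .ofNat 0, .ofNat 0, .ofNat 522, .ofNat 14691, .ofNat 0, .ofNat 0, .ofNat 0, .ofNat 0, .ofNat 3111806372688102797387937643403736514560, .ofNat 0, .ofNat 0, .ofNat 0, .ofNat 0, .ofNat 0, .ofNat 0, .ofNat 0, .ofNat 1229098097233278404134316730614372368384, .ofNat 0, .ofNat 0, .ofNat 0⟩)
    (by decide +kernel)
theorem L00026 : Good (Phi V5.P V5.D 1 (-1)) ⟨2, 0, 2, 0, 2, 0, 2, 3, 3, 3⟩ :=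
  leafYS_sound T5.ok_pm T5.Ypm.bz_eq (w := 193) (c := ⟨⟨.negSucc 887, .negSucc 139, .negSucc 13, .negSucc 70, .ofNat 29, .negSucc 27⟩, ⟨.negSucc 11, .ofNat 64, .ofNat 245, .ofNat 6, .ofNat 7, .ofNat 6⟩, ⟨.ofNat 584, .ofNat 137, .ofNat 74, .ofNat 217, .negSucc 429, .negSucc 81⟩, ⟨.negSucc 2716, .negSucc 194, .negSucc 39, .negSucc 209, .ofNat 125, .negSucc 65⟩, ⟨.negSucc 35, .negSucc 45, .ofNat 35, .negSucc 55, .ofNat 118, .negSucc 4⟩, .ofNat 717, .ofNat 226, .ofNat 0, .ofNat 226, .ofNat 1615, .ofNat 0, .ofNat 239, .negSucc 46, .negSucc 50, .ofNat 0, .ofNat 128, .ofNat 3, .ofNat 0, .ofNat 0, .ofNat 561, .ofNat 2350, .ofNat 0, .ofNat 0, .ofNat 0, .ofNat 0, .ofNat 0, .ofNat 138112245979348589633980427253812559872, .ofNat 0, .ofNat 0, .ofNat 0, .ofNat 76437806487001870887929702991714582528, .ofNat 0, .ofNat 0, .ofNat 0, .ofNat 0, .ofNat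 0, .ofNat 0⟩)
    (by decide +kernel)
theorem L00027 : Good (Phi V5.P V5.D 1 (-1)) ⟨2, 0, 2, 0, 2, 1, 2, 2, 3, 2⟩ :=
  leafYS_sound T5.ok_pm T5.Ypm.bz_eq (w := 194) (c := ⟨⟨.negSucc 1130, .negSucc 123, .ofNat 10, .negSucc 51, .ofNat 45, .ofNat 99⟩, ⟨.negSucc 23, .ofNat 70, .ofNat 276, .negSucc 10, .negSucc 0, .negSucc 8⟩, ⟨.ofNat 973, .ofNat 188, .ofNat 54, .ofNat 36, .negSucc 140, .ofNat 125⟩, ⟨.negSucc 3422, .negSucc 113, .negSucc 21, .negSucc 174, .ofNat 140, .ofNat 285⟩, ⟨.negSucc 231, .negSucc 37, .ofNat 12, .negSucc 142, .ofNat 42, .ofNat 56⟩, .ofNat 667, .ofNat 176, .ofNat 0, .ofNat 176, .ofNat 1376, .ofNat 0, .ofNat 408, .negSucc 44, .negSucc 105, .ofNat 0, .ofNat 128, .ofNat 24, .ofNat 0, .ofNat 0, .ofNat 1197, .ofNat 2999, .ofNat 0, .ofNat 0, .ofNat 0, .ofNat 0, .ofNat 0, .ofNat 0, .ofNat 0, .ofNat 0, .ofNat 0, .ofNat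 0, .ofNat 0, .ofNat 0, .ofNat 0, .ofNat 0, .ofNat 0, .ofNat 0⟩)
    (by decide +kernel)
theorem L00028 : Good (Phi V5.P V5.D 1 (-1)) ⟨2, 0, 2, 0, 2, 1, 2, 3, 3, 2⟩ :=
  leafYS_sound T5.ok_pm T5.Ypm.bz_eq (w := 192) (c := ⟨⟨.negSucc 1004, .negSucc 146, .ofNat 12, .negSucc 139, .ofNat 2, .ofNat 25⟩, ⟨.negSucc 33, .ofNat 61, .ofNat 265, .ofNat 7, .ofNat 19, .ofNat 12⟩, ⟨.ofNat 762, .ofNat 247, .ofNat 85, .ofNat 287, .negSucc 239, .ofNat 10⟩, ⟨.negSucc 3039, .negSucc 188, .negSucc 18, .negSucc 423, .ofNat 23, .ofNat 66⟩, ⟨.negSucc 171, .negSucc 118, .negSucc 6, .negSucc 101, .ofNat 151, .ofNat 78⟩, .ofNat 713, .ofNat 219, .ofNat 0, .ofNat 219, .ofNat 1615, .ofNat 0, .ofNat 374, .negSucc 47, .negSucc 75, .ofNat 0, .ofNat 128, .ofNat 9, .ofNat 0, .ofNat 0, .ofNat 698, .ofNat 868, .ofNat 0, .ofNat 0, .ofNat 0, .ofNat 0, .ofNat 0, .ofNat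 156853992668705587529085804710081855488, .ofNat 0, .ofNat 0, .ofNat 0, .ofNat 41521175977869317603193946907760132096, .ofNat 0, .ofNat 0, .ofNat 0, .ofNat 99637445600750776698922833501275291648, .ofNat 0, .ofNat 0⟩)
    (by decide +kernel)
theorem L00029 : Good (Phi V5.P V5.D 1 (-1)) ⟨2, 0, 2, 0, 2, 1, 2, 2, 3, 3⟩ :=
  leafYS_sound T5.ok_pm T5.Ypm.bz_eq (w := 193) (c := ⟨⟨.negSucc 1013, .negSucc 121, .ofNat 1, .negSucc 54, .ofNat 3, .ofNat 104⟩, ⟨.negSucc 24, .ofNat 62, .ofNat 262, .negSucc 7, .ofNat 6, .negSucc 10⟩, ⟨.ofNat 947, .ofNat 209, .ofNat 127, .ofNat 312, .negSucc 224, .ofNat 205⟩, ⟨.negSucc 3073, .negSucc 123, .negSucc 43, .negSucc 198, .ofNat 34, .ofNat 315⟩, ⟨.negSucc 159, .negSucc 42, .negSucc 13, .negSucc 155, .ofNat 55, .ofNat 41⟩, .ofNat 400, .ofNat 43, .ofNat 0, .ofNat 43, .ofNat 594, .ofNat 0, .ofNat 230, .negSucc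 20, .negSucc 73, .ofNat 0, .ofNat 128, .negSucc 10, .ofNat 0, .ofNat 0, .ofNat 1518, .ofNat 2444, .ofNat 0, .ofNat 0, .ofNat 0, .ofNat 0, .ofNat 0, .ofNat 0, .ofNat 0, .ofNat 0, .ofNat 0, .ofNat 0, .ofNat 0, .ofNat 0, .ofNat 9445691135278726037045134999077582274560, .ofNat 486194120148397767570235634878756421632, .ofNat 0, .ofNat 0⟩)
    (by decide +kernel)
theorem L00030 : Good (Phi V5.P V5.D 1 (-1)) ⟨2, 0, 2, 0, 2, 1, 2, 3, 3, 3⟩ :=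
  leafYS_sound T5.ok_pm T5.Ypm.bz_eq (w := 193) (c := ⟨⟨.negSucc 955, .negSucc 156, .ofNat 2, .negSucc 112, .negSucc 83, .ofNat 54⟩, ⟨.negSucc 20, .ofNat 58, .ofNat 262, .ofNat 0, .ofNat 37, .negSucc 0⟩, ⟨.ofNat 696, .ofNat 204, .ofNat 187, .ofNat 484, .negSucc 375, .negSucc 47⟩, ⟨.negSucc 2917, .negSucc 219, .negSucc 33, .negSucc 329, .negSucc 193, .ofNat 172⟩, ⟨.negSucc 82, .negSucc 126, .negSucc 2, .negSucc 133, .ofNat 185, .ofNat 67⟩, .ofNat 719, .ofNat 220, .ofNat 0, .ofNat 220, .ofNat 1586, .ofNat 0, .ofNat 290, .negSucc 46, .negSucc 38, .ofNat 0, .ofNat 128, .negSucc 13, .ofNat 0, .ofNat 0, .ofNat 1210, .ofNat 1563, .ofNat 0, .ofNat 448901814515987317740308878034206720, .ofNat 0, .ofNat 0, .ofNat 0, .ofNat 207937547205253865102213817797565218816, .ofNat 0, .ofNat 0, .ofNat 0, .ofNat 101469366978998574387440699822472953856,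 .ofNat 0, .ofNat 0, .ofNat 0, .ofNat 478518830687455527164521090653364420608, .ofNat 0, .ofNat 0⟩)
    (by decide +kernel)
theorem L00031 : Good (Phi V5.P V5.D 1 (-1)) ⟨2, 0, 2, 0, 1, 0, 1, 1, 1, 1⟩ :=
  leafYS_sound T5.ok_pm T5.Ypm.bz_eq (w := 175) (c := ⟨⟨.negSucc 945, .negSucc 102, .negSucc 1, .ofNat 0, .ofNat 0, .ofNat 0⟩, ⟨.ofNat 3, .ofNat 50, .ofNat 242, .ofNat 0, .ofNat 0, .ofNat 0⟩, ⟨.ofNat 248, .ofNat 103, .ofNat 2, .ofNat 0, .ofNat 0, .ofNat 0⟩, ⟨.negSucc 2875, .negSucc 45, .negSucc 0, .ofNat 1, .negSucc 0, .ofNat 1⟩, ⟨.ofNat 0, .ofNat 0, .ofNat 0, .ofNat 0, .ofNat 0, .ofNat 0⟩, .ofNat 191, .ofNat 9, .ofNat 0, .ofNat 9, .ofNat 226, .ofNat 0, .ofNat 144, .negSucc 8, .negSucc 104, .ofNat 0, .ofNat 128, .ofNat 6, .ofNat 0, .ofNat 0, .ofNat 304, .ofNat 8450, .ofNat 36556964756063439722639681126400000000, .ofNat 1406053677145921070238523574288646144,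 .ofNat 0, .ofNat 0, .ofNat 2339645744388060142248939592089600000000, .ofNat 92354676898637594967284181079794122752, .ofNat 0, .ofNat 0, .ofNat 2339645744388060142248939592089600000000, .ofNat 110360771203597116350521004500048674816, .ofNat 0, .ofNat 0, .ofNat 2339645744388060142248939592089600000000, .ofNat 92354640827695472774784403603474874368, .ofNat 0, .ofNat 0⟩)
    (by decide +kernel)
theorem L00032 : Good (Phi V5.P V5.D 1 (-1)) ⟨2, 0, 2, 0, 2, 2, 3, 0, 4, 0⟩ :=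
  leafYS_sound T5.ok_pm T5.Ypm.bz_eq (w := 202) (c := ⟨⟨.ofNat 957, .ofNat 88, .ofNat 113, .ofNat 185, .ofNat 113, .negSucc 1277⟩, ⟨.negSucc 146, .ofNat 4, .negSucc 130, .ofNat 124, .ofNat 46, .ofNat 79⟩, ⟨.negSucc 468, .negSucc 326, .negSucc 116, .negSucc 412, .negSucc 80, .ofNat 242⟩, ⟨.ofNat 2728, .ofNat 151, .ofNat 417, .ofNat 798, .ofNat 371, .negSucc 3876⟩, ⟨.negSucc 865, .ofNat 507, .ofNat 364, .ofNat 1357, .ofNat 362, .negSucc 905⟩, .ofNat 401, .ofNat 47, .ofNat 0, .ofNat 47, .ofNat 593, .ofNat 0, .ofNat 162, .negSucc 58, .negSucc 67, .ofNat 0, .ofNat 128, .ofNat 24, .ofNat 0, .ofNat 0, .ofNat 285, .ofNat 4477, .ofNat 0, .ofNat 0, .ofNat 0, .ofNat 0, .ofNat 11040590206572791467761098045788090531840, .ofNat 0, .ofNat 0, .ofNat 0, .ofNat 0, .ofNat 0, .ofNat 0, .ofNat 0, .ofNat 0, .ofNat 0, .ofNat 0, .ofNat 0⟩)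
    (by decide +kernel)
theorem L00033 : Good (Phi V5.P V5.D 1 (-1)) ⟨2, 0, 2, 0, 2, 2, 3, 0, 4, 1⟩ :=
  leafYS_sound T5.ok_pm T5.Ypm.bz_eq (w := 202) (c := ⟨⟨.negSucc 247, .negSucc 68, .ofNat 81, .ofNat 71, .ofNat 103, .negSucc 884⟩, ⟨.negSucc 215, .ofNat 117, .ofNat 167, .ofNat 51, .negSucc 2, .ofNat 115⟩, ⟨.negSucc 194, .negSucc 211, .negSucc 166, .negSucc 698, .ofNat 108, .ofNat 540⟩, ⟨.negSucc 918, .ofNat 14, .ofNat 126, .ofNat 325, .ofNat 342, .negSucc 2612⟩, ⟨.negSucc 1142, .ofNat 486, .ofNat 125, .ofNat 550, .ofNat 164, .negSucc 207⟩, .ofNat 595, .ofNat 135, .ofNat 0, .ofNat 135, .ofNat 1106, .ofNat 0, .ofNat 211, .negSucc 70, .negSucc 48, .ofNat 0, .ofNat 128, .ofNat 21, .ofNat 0, .ofNat 0, .ofNat 265, .ofNat 6783, .ofNat 18539684548197550550738640212342238871552, .ofNat 0, .ofNat 0, .ofNat 0, .ofNat 0, .ofNat 0, .ofNat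 0, .ofNat 0, .ofNat 20584011507862169255341136161089257472000, .ofNat 0, .ofNat 0, .ofNat 0, .ofNat 0, .ofNat 0, .ofNat 0, .ofNat 0⟩)
    (by decide +kernel)
theorem L00034 : Good (Phi V5.P V5.D 1 (-1)) ⟨2, 0, 2, 0, 2, 3, 3, 0, 4, 0⟩ :=
  leafYS_sound T5.ok_pm T5.Ypm.bz_eq (w := 201) (c := ⟨⟨.ofNat 1093, .negSucc 71, .ofNat 128, .negSucc 835, .ofNat 183, .negSucc 1063⟩, ⟨.ofNat 55, .negSucc 7, .negSucc 39, .ofNat 454, .negSucc 16, .negSucc 26⟩, ⟨.negSucc 897, .negSucc 249, .negSucc 157, .ofNat 1241, .negSucc 150, .ofNat 24⟩, ⟨.ofNat 3112, .negSucc 247, .ofNat 974, .negSucc 1979, .ofNat 473, .negSucc 3079⟩, ⟨.ofNat 787, .ofNat 613, .ofNat 885, .ofNat 2334, .negSucc 44, .negSucc 1030⟩, .ofNat 722, .ofNat 224, .ofNat 0, .ofNat 224, .ofNat 1576, .ofNat 0, .ofNat 158, .negSucc 81, .negSucc 102, .ofNat 0, .ofNat 128, .ofNat 13, .ofNat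 0, .ofNat 0, .ofNat 354, .ofNat 1554, .ofNat 2874064709943760959462420567420116664320, .ofNat 0, .ofNat 0, .ofNat 0, .ofNat 0, .ofNat 0, .ofNat 0, .ofNat 0, .ofNat 0, .ofNat 0, .ofNat 0, .ofNat 0, .ofNat 0, .ofNat 0, .ofNat 0, .ofNat 0⟩)
    (by decide +kernel)
theorem L00035 : Good (Phi V5.P V5.D 1 (-1)) ⟨2, 0, 2, 0, 3, 6, 4, 0, 4, 1⟩ :=
  leafYS_sound T5.ok_pm T5.Ypm.bz_eq (w := 220) (c := ⟨⟨.negSucc 120, .negSucc 128, .ofNat 58, .negSucc 44, .ofNat 70, .negSucc 939⟩, ⟨.negSucc 105, .ofNat 140, .ofNat 205, .ofNat 151, .negSucc 23, .ofNat 59⟩, ⟨.negSucc 779, .negSucc 404, .negSucc 194, .ofNat 174, .ofNat 51, .ofNat 592⟩, ⟨.negSucc 581, .negSucc 78, .ofNat 397, .ofNat 105, .ofNat 227, .negSucc 2883⟩, ⟨.negSucc 677, .ofNat 935, .ofNat 739, .ofNat 1387, .ofNat 15, .negSucc 660⟩, .ofNat 594, .ofNat 126, .ofNat 0, .ofNat 126, .ofNat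 1100, .ofNat 0, .ofNat 150, .negSucc 87, .negSucc 56, .ofNat 0, .ofNat 128, .ofNat 16, .ofNat 0, .ofNat 0, .ofNat 235, .ofNat 8367, .ofNat 636661910194180812891347813962295155380715520, .ofNat 0, .ofNat 0, .ofNat 0, .ofNat 0, .ofNat 0, .ofNat 0, .ofNat 0, .ofNat 0, .ofNat 0, .ofNat 0, .ofNat 0, .ofNat 655913258447035636221737889633350483278036992, .ofNat 0, .ofNat 0, .ofNat 0⟩)
    (by decide +kernel)
theorem L00036 : Good (Phi V5.P V5.D 1 (-1)) ⟨2, 0, 2, 0, 3, 6, 4, 1, 4, 1⟩ :=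
  leafYS_sound T5.ok_pm T5.Ypm.bz_eq (w := 220) (c := ⟨⟨.ofNat 1, .negSucc 127, .ofNat 33, .negSucc 50, .ofNat 52, .negSucc 980⟩, ⟨.negSucc 166, .ofNat 135, .ofNat 210, .ofNat 198, .negSucc 22, .ofNat 75⟩, ⟨.negSucc 818, .negSucc 252, .negSucc 152, .ofNat 153, .ofNat 88, .ofNat 632⟩, ⟨.negSucc 200, .negSucc 38, .ofNat 313, .ofNat 8, .ofNat 147, .negSucc 2925⟩, ⟨.negSucc 547, .ofNat 880, .ofNat 622, .ofNat 1252, .negSucc 54, .negSucc 550⟩, .ofNat 402, .ofNat 48, .ofNat 0, .ofNat 48, .ofNat 592, .ofNat 0, .ofNat 199, .negSucc 76, .negSucc 95, .ofNat 0, .ofNat 128, .ofNat 33, .ofNat 0, .ofNat 0, .ofNat 264, .ofNat 5966, .ofNat 0, .ofNat 0, .ofNat 0, .ofNat 0, .ofNat 0, .ofNat 0, .ofNat 0, .ofNat 0, .ofNat 0, .ofNat 0, .ofNat 0, .ofNat 0, .ofNat 0, .ofNat 0, .ofNat 0, .ofNat 0⟩)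
    (by decide +kernel)
theorem L00037 : Good (Phi V5.P V5.D 1 (-1)) ⟨2, 0, 2, 0, 3, 7, 3, 0, 4, 1⟩ :=
  leafYS_sound T5.ok_pm T5.Ypm.bz_eq (w := 216) (c := ⟨⟨.negSucc 141, .negSucc 199, .negSucc 90, .negSucc 312, .ofNat 162, .negSucc 817⟩, ⟨.ofNat 20, .ofNat 181, .ofNat 342, .ofNat 223, .negSucc 88, .ofNat 14⟩, ⟨.negSucc 474, .negSucc 223, .negSucc 191, .ofNat 377, .ofNat 45, .ofNat 374⟩, ⟨.negSucc 616, .negSucc 123, .ofNat 502, .negSucc 621, .ofNat 294, .negSucc 2537⟩, ⟨.ofNat 791, .ofNat 1174, .ofNat 1458, .ofNat 1315, .negSucc 543, .negSucc 947⟩, .ofNat 591, .ofNat 126, .ofNat 0, .ofNat 126, .ofNat 1115, .ofNat 0, .ofNat 128, .negSucc 96, .negSucc 76, .ofNat 0, .ofNat 145, .ofNat 6, .ofNat 0, .ofNat 0, .ofNat 266, .ofNat 3675, .ofNat 0, .ofNat 0, .ofNat 0, .ofNat 0, .ofNat 0, .ofNat 0, .ofNat 0, .ofNat 0, .ofNat 0, .ofNat 0,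 .ofNat 0, .ofNat 0, .ofNat 0, .ofNat 0, .ofNat 0, .ofNat 0⟩)
    (by decide +kernel)
theorem L00038 : Good (Phi V5.P V5.D 1 (-1)) ⟨2, 0, 2, 0, 1, 1, 3, 1, 3, 0⟩ :=
  leafYS_sound T5.ok_pm T5.Ypm.bz_eq (w := 182) (c := ⟨⟨.ofNat 1011, .ofNat 178, .ofNat 91, .negSucc 241, .ofNat 55, .negSucc 2119⟩, ⟨.negSucc 239, .ofNat 10, .negSucc 16, .ofNat 565, .negSucc 26, .ofNat 168⟩, ⟨.negSucc 755, .negSucc 438, .negSucc 120, .ofNat 430, .negSucc 14, .ofNat 655⟩, ⟨.ofNat 2712, .ofNat 494, .ofNat 550, .negSucc 189, .ofNat 194, .negSucc 6263⟩, ⟨.negSucc 687, .ofNat 433, .ofNat 509, .ofNat 3476, .ofNat 19, .negSucc 1596⟩, .ofNat 592, .ofNat 139, .ofNat 0, .ofNat 139, .ofNat 1122, .ofNat 0, .ofNat 213, .negSucc 65, .negSucc 125, .ofNat 0, .ofNat 128, .ofNat 35, .ofNat 0, .ofNat 0, .ofNat 431, .ofNat 1024, .ofNat 0, .ofNat 0, .ofNat 0, .ofNat 0,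 .ofNat 0, .ofNat 0, .ofNat 0, .ofNat 0, .ofNat 0, .ofNat 0, .ofNat 0, .ofNat 0, .ofNat 0, .ofNat 0, .ofNat 0, .ofNat 0⟩)
    (by decide +kernel)
theorem L00039 : Good (Phi V5.P V5.D 1 (-1)) ⟨2, 0, 2, 0, 2, 2, 3, 0, 4, 2⟩ :=
  leafYS_sound T5.ok_pm T5.Ypm.bz_eq (w := 203) (c := ⟨⟨.negSucc 954, .negSucc 113, .ofNat 16, .negSucc 48, .negSucc 3, .negSucc 300⟩, ⟨.negSucc 183, .ofNat 128, .ofNat 317, .ofNat 52, .ofNat 15, .ofNat 50⟩, ⟨.ofNat 109, .negSucc 81, .negSucc 90, .negSucc 447, .ofNat 165, .ofNat 484⟩, ⟨.negSucc 3078, .negSucc 2, .negSucc 63, .negSucc 63, .ofNat 46, .negSucc 835⟩, ⟨.negSucc 1145, .ofNat 349, .ofNat 181, .ofNat 278, .ofNat 155, .ofNat 33⟩, .ofNat 715, .ofNat 228, .ofNat 0, .ofNat 228, .ofNat 1627, .ofNat 0, .ofNat 208, .negSucc 71, .negSucc 54, .ofNat 0, .ofNat 128, .ofNat 23, .ofNat 0, .ofNat 0, .ofNat 351, .ofNat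 11331, .ofNat 20727111168956254385022888804808692596736, .ofNat 0, .ofNat 0, .ofNat 0, .ofNat 38780400004490111955058330336726737747968, .ofNat 0, .ofNat 0, .ofNat 0, .ofNat 0, .ofNat 0, .ofNat 0, .ofNat 0, .ofNat 52634410201003273162199315215081606742016, .ofNat 0, .ofNat 0, .ofNat 0⟩)
    (by decide +kernel)
theorem L00040 : Good (Phi V5.P V5.D 1 (-1)) ⟨2, 0, 2, 0, 2, 2, 3, 0, 4, 3⟩ :=
  leafYS_sound T5.ok_pm T5.Ypm.bz_eq (w := 205) (c := ⟨⟨.negSucc 1254, .negSucc 122, .negSucc 0, .negSucc 23, .ofNat 17, .negSucc 21⟩, ⟨.negSucc 142, .ofNat 125, .ofNat 350, .ofNat 35, .ofNat 8, .ofNat 2⟩, ⟨.ofNat 466, .negSucc 52, .negSucc 38, .negSucc 351, .ofNat 169, .ofNat 327⟩, ⟨.negSucc 3937, .ofNat 15, .negSucc 104, .negSucc 27, .ofNat 79, .negSucc 47⟩, ⟨.negSucc 1019, .ofNat 293, .ofNat 150, .ofNat 208, .ofNat 88, .ofNat 11⟩, .ofNat 593,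 .ofNat 132, .ofNat 0, .ofNat 132, .ofNat 1111, .ofNat 0, .ofNat 199, .negSucc 55, .negSucc 54, .ofNat 0, .ofNat 128, .ofNat 27, .ofNat 0, .ofNat 0, .ofNat 435, .ofNat 28861, .ofNat 40256729449078589519514393839040133595136, .ofNat 0, .ofNat 0, .ofNat 0, .ofNat 0, .ofNat 0, .ofNat 0, .ofNat 0, .ofNat 77227973509229369335315292613643069292544, .ofNat 0, .ofNat 0, .ofNat 0, .ofNat 125860642265486983694070896901943520657408, .ofNat 0, .ofNat 0, .ofNat 0⟩)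
    (by decide +kernel)
theorem L00041 : Good (Phi V5.P V5.D 1 (-1)) ⟨2, 0, 2, 0, 3, 6, 4, 0, 4, 2⟩ :=
  leafYS_sound T5.ok_pm T5.Ypm.bz_eq (w := 222) (c := ⟨⟨.negSucc 961, .negSucc 168, .negSucc 52, .negSucc 17, .ofNat 15, .negSucc 285⟩, ⟨.negSucc 141, .ofNat 171, .ofNat 370, .ofNat 116, .ofNat 1, .negSucc 3⟩, ⟨.negSucc 296, .negSucc 215, .negSucc 114, .ofNat 137, .ofNat 113, .ofNat 517⟩, ⟨.negSucc 3114, .negSucc 19, .negSucc 23, .ofNat 120, .negSucc 8, .negSucc 842⟩, ⟨.negSucc 907, .ofNat 824, .ofNat 553, .ofNat 874, .ofNat 19, .negSucc 362⟩, .ofNat 716, .ofNat 217, .ofNat 0, .ofNat 217, .ofNat 1599, .ofNat 0, .ofNat 190, .negSucc 80, .negSucc 52, .ofNat 0, .ofNat 128, .ofNat 18, .ofNat 0, .ofNat 0, .ofNat 290, .ofNat 20183, .ofNat 1434714384992410269745399031606886871565598720, .ofNat 0, .ofNat 0, .ofNat 0, .ofNat 0, .ofNat 0,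 .ofNat 0, .ofNat 0, .ofNat 2718666343645693334338532649871313914287882240, .ofNat 0, .ofNat 0, .ofNat 0, .ofNat 2233851904412766351481578877277108583306100736, .ofNat 0, .ofNat 0, .ofNat 0⟩)
    (by decide +kernel)
theorem L00042 : Good (Phi V5.P V5.D 1 (-1)) ⟨2, 0, 2, 0, 3, 6, 4, 1, 4, 2⟩ :=
  leafYS_sound T5.ok_pm T5.Ypm.bz_eq (w := 221) (c := ⟨⟨.negSucc 947, .negSucc 178, .negSucc 49, .negSucc 13, .ofNat 8, .negSucc 297⟩, ⟨.negSucc 131, .ofNat 151, .ofNat 368, .ofNat 121, .negSucc 3, .ofNat 9⟩, ⟨.negSucc 212, .negSucc 139, .negSucc 94, .ofNat 107, .ofNat 87, .ofNat 511⟩, ⟨.negSucc 3007, .negSucc 91, .negSucc 2, .ofNat 74, .negSucc 7, .negSucc 926⟩, ⟨.negSucc 762, .ofNat 675, .ofNat 560, .ofNat 857, .negSucc 18, .negSucc 386⟩, .ofNat 593, .ofNat 143, .ofNat 0, .ofNat 143, .ofNat 1123, .ofNat 0, .ofNat 184, .negSucc 76, .negSucc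 66, .ofNat 0, .ofNat 128, .ofNat 24, .ofNat 0, .ofNat 0, .ofNat 305, .ofNat 12171, .ofNat 0, .ofNat 0, .ofNat 0, .ofNat 0, .ofNat 0, .ofNat 0, .ofNat 0, .ofNat 0, .ofNat 0, .ofNat 0, .ofNat 0, .ofNat 0, .ofNat 0, .ofNat 0, .ofNat 0, .ofNat 0⟩)
    (by decide +kernel)
theorem L00043 : Good (Phi V5.P V5.D 1 (-1)) ⟨2, 0, 2, 0, 3, 7, 3, 0, 4, 2⟩ :=
  leafYS_sound T5.ok_pm T5.Ypm.bz_eq (w := 216) (c := ⟨⟨.negSucc 1007, .negSucc 157, .negSucc 118, .negSucc 31, .ofNat 26, .negSucc 225⟩, ⟨.ofNat 13, .ofNat 156, .ofNat 441, .ofNat 151, .negSucc 25, .negSucc 75⟩, ⟨.negSucc 26, .negSucc 174, .negSucc 103, .ofNat 55, .ofNat 89, .ofNat 416⟩, ⟨.negSucc 3110, .ofNat 28, .ofNat 63, .ofNat 139, .negSucc 19, .negSucc 789⟩, ⟨.ofNat 217, .ofNat 896, .ofNat 1064, .ofNat 1119, .negSucc 263, .negSucc 813⟩, .ofNat 711, .ofNat 198, .ofNat 0, .ofNat 198,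 .ofNat 1598, .ofNat 0, .ofNat 128, .negSucc 79, .negSucc 49, .ofNat 0, .ofNat 132, .ofNat 7, .ofNat 0, .ofNat 0, .ofNat 252, .ofNat 4307, .ofNat 0, .ofNat 0, .ofNat 0, .ofNat 0, .ofNat 0, .ofNat 0, .ofNat 0, .ofNat 0, .ofNat 0, .ofNat 0, .ofNat 0, .ofNat 0, .ofNat 0, .ofNat 0, .ofNat 0, .ofNat 0⟩)
    (by decide +kernel)
theorem L00044 : Good (Phi V5.P V5.D 1 (-1)) ⟨2, 0, 2, 0, 2, 3, 3, 0, 4, 3⟩ :=
  leafYS_sound T5.ok_pm T5.Ypm.bz_eq (w := 202) (c := ⟨⟨.negSucc 1262, .negSucc 145, .negSucc 46, .ofNat 56, .negSucc 15, .ofNat 33⟩, ⟨.negSucc 92, .ofNat 154, .ofNat 389, .ofNat 138, .negSucc 22, .negSucc 32⟩, ⟨.ofNat 225, .negSucc 103, .negSucc 51, .ofNat 101, .ofNat 144, .ofNat 265⟩, ⟨.negSucc 3828, .negSucc 16, .negSucc 94, .ofNat 412, .negSucc 188, .ofNat 54⟩, ⟨.negSucc 579, .ofNat 562, .ofNat 457, .ofNat 1125, .negSucc 312, .negSucc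 253⟩, .ofNat 781, .ofNat 284, .ofNat 0, .ofNat 284, .ofNat 1944, .ofNat 0, .ofNat 128, .negSucc 96, .negSucc 26, .ofNat 0, .ofNat 187, .ofNat 7, .ofNat 0, .ofNat 0, .ofNat 229, .ofNat 5787, .ofNat 9192608068964103493296856529223110623232, .ofNat 0, .ofNat 0, .ofNat 0, .ofNat 18304872009804798463529416638579871842304, .ofNat 0, .ofNat 0, .ofNat 0, .ofNat 0, .ofNat 0, .ofNat 0, .ofNat 0, .ofNat 3993741889517176218346579980661454536704, .ofNat 0, .ofNat 0, .ofNat 0⟩)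
    (by decide +kernel)
theorem L00045 : Good (Phi V5.P V5.D 1 (-1)) ⟨2, 0, 2, 0, 2, 2, 3, 1, 3, 1⟩ :=
  leafYS_sound T5.ok_pm T5.Ypm.bz_eq (w := 197) (c := ⟨⟨.negSucc 1084, .negSucc 81, .ofNat 27, .negSucc 29, .ofNat 0, .negSucc 210⟩, ⟨.negSucc 121, .ofNat 111, .ofNat 328, .ofNat 18, .ofNat 6, .ofNat 20⟩, ⟨.ofNat 241, .negSucc 24, .negSucc 65, .negSucc 352, .ofNat 139, .ofNat 683⟩, ⟨.negSucc 3320, .ofNat 88, .negSucc 49, .negSucc 18, .ofNat 21, .negSucc 679⟩, ⟨.negSucc 638, .ofNat 256, .ofNat 86, .ofNat 205, .ofNat 46, .negSucc 228⟩, .ofNat 717, .ofNat 222, .ofNat 0, .ofNat 222, .ofNat 1606, .ofNat 0, .ofNat 336, .negSucc 62, .negSucc 46, .ofNat 0, .ofNat 128, .ofNat 19, .ofNat 0, .ofNat 0, .ofNat 313, .ofNat 2523, .ofNat 0, .ofNat 0, .ofNat 0, .ofNat 0, .ofNat 0, .ofNat 0, .ofNat 0, .ofNat 0, .ofNat 0, .ofNat 0, .ofNat 0, .ofNat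 0, .ofNat 3185324923508583351373448782842540589056, .ofNat 0, .ofNat 0, .ofNat 0⟩)
    (by decide +kernel)
theorem L00046 : Good (Phi V5.P V5.D 1 (-1)) ⟨2, 0, 2, 0, 2, 3, 3, 1, 3, 1⟩ :=
  leafYS_sound T5.ok_pm T5.Ypm.bz_eq (w := 196) (c := ⟨⟨.negSucc 995, .negSucc 186, .negSucc 48, .negSucc 65, .negSucc 22, .negSucc 229⟩, ⟨.negSucc 112, .ofNat 143, .ofNat 368, .ofNat 160, .ofNat 11, .negSucc 17⟩, ⟨.negSucc 93, .negSucc 13, .negSucc 48, .ofNat 168, .ofNat 163, .ofNat 644⟩, ⟨.negSucc 3159, .negSucc 98, .negSucc 39, .ofNat 14, .negSucc 89, .negSucc 728⟩, ⟨.negSucc 553, .ofNat 488, .ofNat 384, .ofNat 1145, .ofNat 98, .negSucc 475⟩, .ofNat 717, .ofNat 226, .ofNat 0, .ofNat 226, .ofNat 1611, .ofNat 0, .ofNat 224, .negSucc 66, .negSucc 52, .ofNat 0, .ofNat 128, .ofNat 15, .ofNat 0, .ofNat 0, .ofNat 323, .ofNat 1400, .ofNat 0, .ofNat 0,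 .ofNat 0, .ofNat 0, .ofNat 0, .ofNat 0, .ofNat 0, .ofNat 0, .ofNat 0, .ofNat 0, .ofNat 0, .ofNat 0, .ofNat 0, .ofNat 0, .ofNat 0, .ofNat 0⟩)
    (by decide +kernel)
theorem L00047 : Good (Phi V5.P V5.D 1 (-1)) ⟨2, 0, 2, 0, 2, 2, 2, 0, 4, 4⟩ :=
  leafYS_sound T5.ok_pm T5.Ypm.bz_eq (w := 199) (c := ⟨⟨.negSucc 1261, .negSucc 132, .ofNat 15, .negSucc 17, .ofNat 17, .ofNat 68⟩, ⟨.negSucc 104, .ofNat 103, .ofNat 326, .ofNat 10, .ofNat 24, .negSucc 12⟩, ⟨.ofNat 704, .ofNat 60, .negSucc 20, .negSucc 242, .ofNat 200, .ofNat 181⟩, ⟨.negSucc 3858, .negSucc 40, .negSucc 73, .negSucc 46, .ofNat 34, .ofNat 220⟩, ⟨.negSucc 771, .ofNat 148, .ofNat 67, .ofNat 42, .ofNat 159, .ofNat 5⟩, .ofNat 595, .ofNat 137, .ofNat 0, .ofNat 137, .ofNat 1108, .ofNat 0, .ofNat 154, .negSucc 48, .negSucc 23, .ofNat 0, .ofNat 128, .ofNat 11, .ofNat 0, .ofNat 0, .ofNat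 276, .ofNat 8729, .ofNat 1271300444197828552686490942984784183296, .ofNat 0, .ofNat 0, .ofNat 0, .ofNat 0, .ofNat 0, .ofNat 0, .ofNat 0, .ofNat 0, .ofNat 0, .ofNat 0, .ofNat 0, .ofNat 8274153806402111318969144941901579812864, .ofNat 0, .ofNat 0, .ofNat 0⟩)
    (by decide +kernel)
theorem L00048 : Good (Phi V5.P V5.D 1 (-1)) ⟨2, 0, 2, 0, 2, 3, 2, 0, 4, 4⟩ :=
  leafYS_sound T5.ok_pm T5.Ypm.bz_eq (w := 197) (c := ⟨⟨.negSucc 1233, .negSucc 154, .negSucc 20, .ofNat 50, .negSucc 26, .ofNat 98⟩, ⟨.negSucc 112, .ofNat 130, .ofNat 349, .ofNat 81, .ofNat 16, .negSucc 12⟩, ⟨.ofNat 474, .ofNat 4, .negSucc 20, .ofNat 63, .ofNat 220, .ofNat 195⟩, ⟨.negSucc 3806, .negSucc 66, .negSucc 99, .ofNat 271, .negSucc 97, .ofNat 282⟩, ⟨.negSucc 819, .ofNat 398, .ofNat 251, .ofNat 674, .ofNat 45, .negSucc 4⟩, .ofNat 403, .ofNat 48, .ofNat 0, .ofNat 48,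 .ofNat 590, .ofNat 0, .ofNat 128, .negSucc 69, .negSucc 30, .ofNat 0, .ofNat 238, .ofNat 12, .ofNat 0, .ofNat 0, .ofNat 389, .ofNat 1367, .ofNat 0, .ofNat 0, .ofNat 0, .ofNat 0, .ofNat 0, .ofNat 0, .ofNat 0, .ofNat 0, .ofNat 0, .ofNat 0, .ofNat 0, .ofNat 0, .ofNat 0, .ofNat 89616637720990877396636850857382510592, .ofNat 0, .ofNat 0⟩)
    (by decide +kernel)
theorem L00049 : Good (Phi V5.P V5.D 1 (-1)) ⟨2, 0, 2, 0, 2, 2, 2, 0, 4, 5⟩ :=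
  leafYS_sound T5.ok_pm T5.Ypm.bz_eq (w := 201) (c := ⟨⟨.negSucc 1149, .negSucc 131, .ofNat 5, .negSucc 1, .negSucc 32, .ofNat 115⟩, ⟨.negSucc 80, .ofNat 99, .ofNat 311, .ofNat 7, .negSucc 5, .negSucc 5⟩, ⟨.ofNat 843, .ofNat 53, .ofNat 10, .negSucc 174, .ofNat 180, .ofNat 213⟩, ⟨.negSucc 3623, .negSucc 54, .negSucc 77, .ofNat 27, .negSucc 11, .ofNat 308⟩, ⟨.negSucc 701, .ofNat 162, .ofNat 76, .ofNat 85, .ofNat 44, .ofNat 36⟩, .ofNat 400, .ofNat 45, .ofNat 0, .ofNat 45, .ofNat 595, .ofNat 0, .ofNat 157, .negSucc 29, .negSucc 32, .ofNat 0, .ofNat 128, .ofNat 19, .ofNat 0, .ofNat 0, .ofNat 649, .ofNat 35649, .ofNat 9154325911787608999216981458420055932928, .ofNat 0, .ofNat 0, .ofNat 0, .ofNat 30863952810053633051200139526635052335104, .ofNat 0, .ofNat 0, .ofNat 0, .ofNat 23242369577483576699283531962996458782720, .ofNat 0, .ofNat 0,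 .ofNat 0, .ofNat 49495965971099565645390684059098836631552, .ofNat 0, .ofNat 0, .ofNat 0⟩)
    (by decide +kernel)
theorem L00050 : Good (Phi V5.P V5.D 1 (-1)) ⟨2, 0, 2, 0, 2, 3, 2, 0, 5, 10⟩ :=
  leafYS_sound T5.ok_pm T5.Ypm.bz_eq (w := 201) (c := ⟨⟨.negSucc 1139, .negSucc 136, .negSucc 12, .ofNat 59, .negSucc 40, .ofNat 70⟩, ⟨.negSucc 107, .ofNat 117, .ofNat 320, .ofNat 54, .ofNat 21, .negSucc 7⟩, ⟨.ofNat 661, .ofNat 18, .ofNat 0, .ofNat 58, .ofNat 216, .ofNat 94⟩, ⟨.negSucc 3504, .negSucc 58, .negSucc 82, .ofNat 264, .negSucc 125, .ofNat 174⟩, ⟨.negSucc 788, .ofNat 308, .ofNat 173, .ofNat 528, .ofNat 120, .negSucc 4⟩, .ofNat 593, .ofNat 125, .ofNat 0, .ofNat 125, .ofNat 1104, .ofNat 0, .ofNat 129, .negSucc 42, .negSucc 7, .ofNat 0, .ofNat 128, .ofNat 4, .ofNat 0, .ofNat 0, .ofNat 322, .ofNat 875, .ofNat 0, .ofNat 0, .ofNat 0,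 .ofNat 0, .ofNat 0, .ofNat 0, .ofNat 0, .ofNat 0, .ofNat 0, .ofNat 0, .ofNat 0, .ofNat 0, .ofNat 0, .ofNat 891707004615042099863910697533330948096, .ofNat 0, .ofNat 0⟩)
    (by decide +kernel)
theorem L00051 : Good (Phi V5.P V5.D 1 (-1)) ⟨2, 0, 2, 0, 2, 3, 2, 0, 5, 11⟩ :=
  leafYS_sound T5.ok_pm T5.Ypm.bz_eq (w := 202) (c := ⟨⟨.negSucc 1083, .negSucc 138, .negSucc 9, .ofNat 47, .negSucc 39, .ofNat 65⟩, ⟨.negSucc 97, .ofNat 104, .ofNat 304, .ofNat 30, .ofNat 17, .negSucc 6⟩, ⟨.ofNat 732, .ofNat 28, .ofNat 35, .ofNat 22, .ofNat 236, .ofNat 128⟩, ⟨.negSucc 3364, .negSucc 69, .negSucc 92, .ofNat 241, .negSucc 70, .ofNat 160⟩, ⟨.negSucc 680, .ofNat 236, .ofNat 131, .ofNat 332, .ofNat 84, .negSucc 9⟩, .ofNat 400, .ofNat 45, .ofNat 0, .ofNat 45, .ofNat 596, .ofNat 0, .ofNat 138, .negSucc 29, .negSucc 3, .ofNat 0, .ofNat 128, .ofNat 3,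 .ofNat 0, .ofNat 0, .ofNat 351, .ofNat 1742, .ofNat 0, .ofNat 0, .ofNat 0, .ofNat 0, .ofNat 0, .ofNat 0, .ofNat 0, .ofNat 0, .ofNat 0, .ofNat 0, .ofNat 0, .ofNat 0, .ofNat 73030831013607936606978452168983722328064, .ofNat 3576468161460363300217139758200608784384, .ofNat 0, .ofNat 0⟩)
    (by decide +kernel)
theorem L00052 : Good (Phi V5.P V5.D 1 (-1)) ⟨2, 0, 2, 0, 2, 2, 3, 0, 5, 12⟩ :=
  out_sound (S := T5.ds_pm) T5.ok_pm (w := 27) (j := 1) (by decide +kernel)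
theorem L00053 : Good (Phi V5.P V5.D 1 (-1)) ⟨2, 0, 2, 0, 3, 6, 3, 0, 5, 12⟩ :=
  out_sound (S := T5.ds_pm) T5.ok_pm (w := 29) (j := 1) (by decide +kernel)
theorem L00054 : Good (Phi V5.P V5.D 1 (-1)) ⟨2, 0, 2, 0, 3, 7, 3, 0, 5, 12⟩ :=
  out_sound (S := T5.ds_pm) T5.ok_pm (w := 36) (j := 2) (by decide +kernel)
theorem L00055 : Good (Phi V5.P V5.D 1 (-1)) ⟨2, 0, 2, 0, 2, 2, 3, 1, 5, 12⟩ :=
  leafYS_sound T5.ok_pm T5.Ypm.bz_eq (w := 217) (c := ⟨⟨.negSucc 1034, .negSucc 127, .ofNat 2, .negSucc 0, .negSucc 36, .ofNat 90⟩, ⟨.negSucc 97, .ofNat 94, .ofNat 289, .ofNat 0, .ofNat 24, .negSucc 6⟩, ⟨.ofNat 1003, .ofNat 38, .ofNat 66, .ofNat 1, .ofNat 82, .ofNat 183⟩, ⟨.negSucc 3272, .negSucc 74, .negSucc 80, .negSucc 1, .ofNat 5, .ofNat 158⟩, ⟨.negSucc 536, .ofNat 159, .ofNat 77, .ofNat 0, .ofNat 10, .ofNat 16⟩, .ofNat 191, .ofNat 9, .ofNat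 0, .ofNat 9, .ofNat 226, .ofNat 0, .ofNat 185, .negSucc 22, .ofNat 0, .ofNat 0, .ofNat 128, .ofNat 2, .ofNat 0, .ofNat 0, .ofNat 254, .ofNat 3263777, .ofNat 99931303431955475358937015039946120650293248, .ofNat 0, .ofNat 0, .ofNat 0, .ofNat 20659258907817291174183571484584959820169216, .ofNat 0, .ofNat 0, .ofNat 0, .ofNat 12458375435966815914650812934626763341824000, .ofNat 0, .ofNat 0, .ofNat 0, .ofNat 9467157435694758435290985628033498681966592, .ofNat 0, .ofNat 0, .ofNat 0⟩)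
    (by decide +kernel)
theorem L00056 : Good (Phi V5.P V5.D 1 (-1)) ⟨2, 0, 2, 0, 2, 3, 3, 1, 5, 12⟩ :=
  leafYS_sound T5.ok_pm T5.Ypm.bz_eq (w := 206) (c := ⟨⟨.negSucc 1076, .negSucc 128, .ofNat 6, .ofNat 50, .ofNat 7, .ofNat 21⟩, ⟨.negSucc 80, .ofNat 95, .ofNat 291, .ofNat 16, .ofNat 6, .ofNat 4⟩, ⟨.ofNat 972, .ofNat 31, .ofNat 68, .ofNat 33, .ofNat 119, .ofNat 155⟩, ⟨.negSucc 3244, .negSucc 77, .negSucc 83, .ofNat 193, .negSucc 22, .ofNat 167⟩, ⟨.negSucc 533, .ofNat 162, .ofNat 81, .ofNat 182, .ofNat 6, .ofNat 44⟩, .ofNat 191, .ofNat 8, .ofNat 0, .ofNat 8, .ofNat 225, .ofNat 0, .ofNat 139, .negSucc 22, .ofNat 0, .ofNat 0, .ofNat 133, .ofNat 1, .ofNat 0, .ofNat 0, .ofNat 128, .ofNat 1879, .ofNat 0, .ofNat 0, .ofNat 0, .ofNat 0, .ofNat 0, .ofNat 0, .ofNat 0, .ofNat 0, .ofNat 226687210789587107602504750920173898170368, .ofNat 11885941609195909621016427135849874849792,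 .ofNat 0, .ofNat 0, .ofNat 263870590202377292945344046008705317076992, .ofNat 6416673425200069867271559527040316080128, .ofNat 0, .ofNat 0⟩)
    (by decide +kernel)
theorem L00057 : Good (Phi V5.P V5.D 1 (-1)) ⟨2, 0, 2, 0, 2, 2, 2, 0, 5, 13⟩ :=
  out_sound (S := T5.ds_pm) T5.ok_pm (w := 26) (j := 1) (by decide +kernel)
theorem L00058 : Good (Phi V5.P V5.D 1 (-1)) ⟨2, 0, 2, 0, 2, 3, 2, 0, 5, 13⟩ :=
  out_sound (S := T5.ds_pm) T5.ok_pm (w := 32) (j := 2) (by decide +kernel)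
theorem L00059 : Good (Phi V5.P V5.D 1 (-1)) ⟨2, 0, 2, 0, 2, 2, 2, 0, 4, 7⟩ :=
  out_sound (S := T5.ds_pm) T5.ok_pm (w := 24) (j := 1) (by decide +kernel)
theorem L00060 : Good (Phi V5.P V5.D 1 (-1)) ⟨2, 0, 2, 0, 2, 3, 2, 0, 4, 7⟩ :=
  out_sound (S := T5.ds_pm) T5.ok_pm (w := 30) (j := 2) (by decide +kernel)
theorem L00061 : Good (Phi V5.P V5.D 1 (-1)) ⟨2, 0, 2, 0, 2, 2, 2, 0, 1, 1⟩ :=
  out_sound (S := T5.ds_pm) T5.ok_pm (w := 18) (j := 1) (by decide +kernel)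
theorem L00062 : Good (Phi V5.P V5.D 1 (-1)) ⟨2, 0, 2, 0, 2, 3, 2, 0, 1, 1⟩ :=
  out_sound (S := T5.ds_pm) T5.ok_pm (w := 24) (j := 2) (by decide +kernel)
theorem L00063 : Good (Phi V5.P V5.D 1 (-1)) ⟨2, 0, 2, 0, 1, 1, 2, 1, 3, 0⟩ :=
  leafYS_sound T5.ok_pm T5.Ypm.bz_eq (w := 178) (c := ⟨⟨.ofNat 1123, .negSucc 84, .ofNat 148, .negSucc 247, .negSucc 230, .negSucc 1961⟩, ⟨.negSucc 145, .ofNat 59, .negSucc 26, .ofNat 323, .negSucc 19, .ofNat 103⟩, ⟨.negSucc 1059, .negSucc 117, .negSucc 68, .ofNat 406, .ofNat 433, .ofNat 883⟩, ⟨.ofNat 3293, .negSucc 85, .ofNat 617, .negSucc 471, .negSucc 819, .negSucc 5983⟩, ⟨.ofNat 266, .ofNat 512, .ofNat 285, .ofNat 1744, .negSucc 507, .negSucc 1599⟩, .ofNat 591, .ofNat 123, .ofNat 0, .ofNat 123, .ofNat 1107, .ofNat 0, .ofNat 192, .negSucc 45, .negSucc 129, .ofNat 0, .ofNat 128, .ofNat 38, .ofNat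 0, .ofNat 0, .ofNat 371, .ofNat 568, .ofNat 0, .ofNat 0, .ofNat 0, .ofNat 0, .ofNat 0, .ofNat 0, .ofNat 0, .ofNat 0, .ofNat 0, .ofNat 0, .ofNat 0, .ofNat 0, .ofNat 0, .ofNat 0, .ofNat 0, .ofNat 0⟩)
    (by decide +kernel)
theorem L00064 : Good (Phi V5.P V5.D 1 (-1)) ⟨2, 0, 2, 0, 1, 1, 2, 1, 3, 1⟩ :=
  leafYS_sound T5.ok_pm T5.Ypm.bz_eq (w := 178) (c := ⟨⟨.negSucc 986, .negSucc 193, .negSucc 7, .negSucc 127, .negSucc 17, .negSucc 190⟩, ⟨.negSucc 150, .ofNat 120, .ofNat 340, .ofNat 113, .ofNat 2, .ofNat 30⟩, ⟨.ofNat 171, .ofNat 131, .ofNat 24, .negSucc 156, .ofNat 264, .ofNat 570⟩, ⟨.negSucc 3113, .negSucc 210, .negSucc 74, .negSucc 239, .negSucc 21, .negSucc 594⟩, ⟨.negSucc 788, .ofNat 251, .ofNat 162, .ofNat 672, .ofNat 36, .negSucc 75⟩, .ofNat 723, .ofNat 242, .ofNat 0, .ofNat 242, .ofNat 1609, .ofNat 0, .ofNat 230, .negSucc 62,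 .negSucc 72, .ofNat 0, .ofNat 128, .ofNat 24, .ofNat 0, .ofNat 0, .ofNat 409, .ofNat 860, .ofNat 0, .ofNat 0, .ofNat 0, .ofNat 0, .ofNat 0, .ofNat 0, .ofNat 0, .ofNat 0, .ofNat 0, .ofNat 0, .ofNat 0, .ofNat 0, .ofNat 0, .ofNat 0, .ofNat 0, .ofNat 0⟩)
    (by decide +kernel)
theorem L00065 : Good (Phi V5.P V5.D 1 (-1)) ⟨2, 0, 2, 0, 2, 2, 2, 1, 4, 4⟩ :=
  leafYS_sound T5.ok_pm T5.Ypm.bz_eq (w := 199) (c := ⟨⟨.negSucc 1218, .negSucc 129, .ofNat 0, .negSucc 56, .ofNat 25, .ofNat 58⟩, ⟨.negSucc 80, .ofNat 98, .ofNat 325, .ofNat 11, .ofNat 6, .negSucc 5⟩, ⟨.ofNat 804, .ofNat 129, .ofNat 18, .negSucc 159, .ofNat 160, .ofNat 162⟩, ⟨.negSucc 3729, .negSucc 53, .negSucc 88, .negSucc 134, .ofNat 59, .ofNat 180⟩, ⟨.negSucc 588, .ofNat 127, .ofNat 97, .ofNat 27, .ofNat 54, .ofNat 27⟩, .ofNat 590, .ofNat 122, .ofNat 0, .ofNat 122, .ofNat 1113,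 .ofNat 0, .ofNat 282, .negSucc 42, .negSucc 93, .ofNat 0, .ofNat 128, .ofNat 32, .ofNat 0, .ofNat 0, .ofNat 982, .ofNat 6088, .ofNat 697246787137921011254982745074408882176, .ofNat 0, .ofNat 0, .ofNat 0, .ofNat 0, .ofNat 0, .ofNat 0, .ofNat 0, .ofNat 0, .ofNat 0, .ofNat 0, .ofNat 0, .ofNat 0, .ofNat 0, .ofNat 0, .ofNat 0⟩)
    (by decide +kernel)
theorem L00066 : Good (Phi V5.P V5.D 1 (-1)) ⟨2, 0, 2, 0, 3, 6, 2, 1, 4, 4⟩ :=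
  leafYS_sound T5.ok_pm T5.Ypm.bz_eq (w := 212) (c := ⟨⟨.negSucc 1250, .negSucc 169, .negSucc 7, .ofNat 8, .negSucc 19, .ofNat 88⟩, ⟨.negSucc 91, .ofNat 121, .ofNat 348, .ofNat 33, .ofNat 19, .negSucc 9⟩, ⟨.ofNat 619, .ofNat 136, .ofNat 7, .ofNat 4, .ofNat 253, .ofNat 194⟩, ⟨.negSucc 3827, .negSucc 159, .negSucc 81, .ofNat 50, .negSucc 45, .ofNat 259⟩, ⟨.negSucc 668, .ofNat 247, .ofNat 188, .ofNat 253, .ofNat 119, .ofNat 12⟩, .ofNat 593, .ofNat 125, .ofNat 0, .ofNat 125, .ofNat 1106, .ofNat 0, .ofNat 230, .negSucc 44, .negSucc 26, .ofNat 0, .ofNat 128, .ofNat 8, .ofNat 0, .ofNat 0, .ofNat 437, .ofNat 1906, .ofNat 0, .ofNat 0, .ofNat 0, .ofNat 0, .ofNat 0, .ofNat 0, .ofNat 0, .ofNat 0, .ofNat 0, .ofNat 0, .ofNat 0, .ofNat 0, .ofNat 0, .ofNat 939213650129388393911553138577421067354112, .ofNat 0, .ofNat 0⟩)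
    (by decide +kernel)
theorem L00067 : Good (Phi V5.P V5.D 1 (-1)) ⟨2, 0, 2, 0, 3, 7, 2, 1, 4, 4⟩ :=
  leafYS_sound T5.ok_pm T5.Ypm.bz_eq (w := 209) (c := ⟨⟨.negSucc 1212, .negSucc 198, .negSucc 37, .ofNat 3, .negSucc 78, .ofNat 109⟩, ⟨.negSucc 67, .ofNat 138, .ofNat 359, .ofNat 57, .ofNat 24, .negSucc 24⟩, ⟨.ofNat 598, .ofNat 160, .ofNat 26, .ofNat 87, .ofNat 314, .ofNat 196⟩, ⟨.negSucc 3744, .negSucc 185, .negSucc 78, .ofNat 104, .negSucc 191, .ofNat 302⟩, ⟨.negSucc 504, .ofNat 466, .ofNat 292, .ofNat 440, .ofNat 86, .negSucc 66⟩, .ofNat 594, .ofNat 131, .ofNat 0, .ofNat 131, .ofNat 1107, .ofNat 0, .ofNat 254, .negSucc 42, .negSucc 12, .ofNat 0, .ofNat 128, .negSucc 1, .ofNat 0, .ofNat 0, .ofNat 399, .ofNat 202, .ofNat 0, .ofNat 0, .ofNat 0, .ofNat 0, .ofNat 0, .ofNat 0, .ofNat 0, .ofNat 0, .ofNat 0, .ofNat 0, .ofNat 0, .ofNat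 0, .ofNat 0, .ofNat 990952342059577453397100447546702548697088, .ofNat 0, .ofNat 0⟩)
    (by decide +kernel)
theorem L00068 : Good (Phi V5.P V5.D 1 (-1)) ⟨3, 0, 2, 0, 3, 4, 2, 1, 4, 5⟩ :=
  leafYS_sound T5.ok_pm T5.Ypm.bz_eq (w := 219) (c := ⟨⟨.negSucc 1191, .negSucc 31, .ofNat 21, .negSucc 13, .ofNat 25, .ofNat 79⟩, ⟨.negSucc 66, .ofNat 49, .ofNat 291, .negSucc 6, .ofNat 13, .negSucc 3⟩, ⟨.ofNat 977, .ofNat 47, .ofNat 55, .negSucc 29, .ofNat 64, .ofNat 160⟩, ⟨.negSucc 3588, .negSucc 39, .negSucc 33, .negSucc 33, .ofNat 81, .ofNat 226⟩, ⟨.negSucc 480, .ofNat 15, .ofNat 17, .negSucc 46, .ofNat 93, .ofNat 38⟩, .ofNat 673, .ofNat 156, .ofNat 0, .ofNat 156, .ofNat 1316, .ofNat 0, .ofNat 176, .negSucc 40, .negSucc 44, .ofNat 0, .ofNat 128, .ofNat 14, .ofNat 0, .ofNat 0, .ofNat 917, .ofNat 21435, .ofNat 188072157298921833333452722652976278663069696,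 .ofNat 0, .ofNat 0, .ofNat 0, .ofNat 0, .ofNat 0, .ofNat 0, .ofNat 0, .ofNat 0, .ofNat 0, .ofNat 0, .ofNat 0, .ofNat 0, .ofNat 0, .ofNat 0, .ofNat 0⟩)
    (by decide +kernel)
theorem L00069 : Good (Phi V5.P V5.D 1 (-1)) ⟨3, 1, 2, 0, 3, 4, 2, 1, 4, 5⟩ :=
  leafYS_sound T5.ok_pm T5.Ypm.bz_eq (w := 219) (c := ⟨⟨.negSucc 1211, .negSucc 87, .ofNat 18, .negSucc 19, .ofNat 8, .ofNat 79⟩, ⟨.negSucc 14, .ofNat 33, .ofNat 292, .ofNat 1, .ofNat 9, .negSucc 10⟩, ⟨.ofNat 997, .ofNat 76, .ofNat 57, .negSucc 27, .ofNat 127, .ofNat 144⟩, ⟨.negSucc 3578, .negSucc 33, .negSucc 39, .negSucc 62, .ofNat 24, .ofNat 232⟩, ⟨.negSucc 435, .ofNat 9, .ofNat 22, .negSucc 31, .ofNat 52, .ofNat 28⟩, .ofNat 587, .ofNat 145, .ofNat 0, .ofNat 145, .ofNat 1157, .ofNat 0, .ofNat 190, .negSucc 47, .negSucc 53, .ofNat 0, .ofNat 128, .ofNat 19, .ofNat 0, .ofNat 0, .ofNat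 920, .ofNat 18081, .ofNat 249251771926915830471228549188679174306398208, .ofNat 0, .ofNat 0, .ofNat 0, .ofNat 0, .ofNat 0, .ofNat 0, .ofNat 0, .ofNat 0, .ofNat 0, .ofNat 0, .ofNat 0, .ofNat 0, .ofNat 0, .ofNat 0, .ofNat 0⟩)
    (by decide +kernel)
theorem L00070 : Good (Phi V5.P V5.D 1 (-1)) ⟨2, 0, 2, 0, 3, 5, 2, 1, 4, 5⟩ :=
  leafYS_sound T5.ok_pm T5.Ypm.bz_eq (w := 213) (c := ⟨⟨.negSucc 1173, .negSucc 136, .ofNat 4, .negSucc 5, .negSucc 8, .ofNat 100⟩, ⟨.negSucc 78, .ofNat 97, .ofNat 305, .ofNat 6, .ofNat 14, .negSucc 10⟩, ⟨.ofNat 846, .ofNat 138, .ofNat 64, .negSucc 22, .ofNat 218, .ofNat 199⟩, ⟨.negSucc 3598, .negSucc 109, .negSucc 78, .ofNat 6, .negSucc 2, .ofNat 306⟩, ⟨.negSucc 573, .ofNat 102, .ofNat 62, .ofNat 31, .ofNat 88, .ofNat 38⟩, .ofNat 402, .ofNat 48, .ofNat 0, .ofNat 48, .ofNat 592, .ofNat 0, .ofNat 251, .negSucc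 28, .negSucc 26, .ofNat 0, .ofNat 128, .ofNat 10, .ofNat 0, .ofNat 0, .ofNat 792, .ofNat 5300, .ofNat 0, .ofNat 0, .ofNat 0, .ofNat 0, .ofNat 0, .ofNat 0, .ofNat 0, .ofNat 0, .ofNat 0, .ofNat 0, .ofNat 0, .ofNat 0, .ofNat 0, .ofNat 3478544604280016357006368163619554285584384, .ofNat 0, .ofNat 0⟩)
    (by decide +kernel)
theorem L00071 : Good (Phi V5.P V5.D 1 (-1)) ⟨2, 0, 2, 0, 2, 3, 2, 1, 4, 5⟩ :=
  leafYS_sound T5.ok_pm T5.Ypm.bz_eq (w := 195) (c := ⟨⟨.negSucc 1168, .negSucc 146, .ofNat 3, .ofNat 41, .negSucc 25, .ofNat 103⟩, ⟨.negSucc 78, .ofNat 103, .ofNat 310, .ofNat 52, .ofNat 14, .negSucc 7⟩, ⟨.ofNat 807, .ofNat 124, .ofNat 21, .ofNat 45, .ofNat 266, .ofNat 252⟩, ⟨.negSucc 3565, .negSucc 119, .negSucc 78, .ofNat 164, .negSucc 53, .ofNat 303⟩, ⟨.negSucc 571, .ofNat 155, .ofNat 107, .ofNat 379, .ofNat 88, .ofNat 33⟩, .ofNat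 590, .ofNat 121, .ofNat 0, .ofNat 121, .ofNat 1111, .ofNat 0, .ofNat 129, .negSucc 40, .negSucc 4, .ofNat 0, .ofNat 128, .ofNat 1, .ofNat 0, .ofNat 0, .ofNat 418, .ofNat 341, .ofNat 0, .ofNat 0, .ofNat 0, .ofNat 0, .ofNat 0, .ofNat 0, .ofNat 0, .ofNat 0, .ofNat 0, .ofNat 0, .ofNat 0, .ofNat 0, .ofNat 0, .ofNat 437380054989940607014353318823231225856, .ofNat 0, .ofNat 0⟩)
    (by decide +kernel)
theorem L00072 : Good (Phi V5.P V5.D 1 (-1)) ⟨2, 0, 2, 0, 2, 2, 2, 1, 3, 3⟩ :=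
  leafYS_sound T5.ok_pm T5.Ypm.bz_eq (w := 192) (c := ⟨⟨.negSucc 1059, .negSucc 127, .ofNat 17, .negSucc 20, .negSucc 23, .ofNat 178⟩, ⟨.negSucc 54, .ofNat 75, .ofNat 278, .negSucc 4, .ofNat 6, .negSucc 16⟩, ⟨.ofNat 956, .ofNat 144, .ofNat 133, .ofNat 93, .ofNat 199, .ofNat 427⟩, ⟨.negSucc 3262, .negSucc 93, .negSucc 43, .negSucc 35, .negSucc 31, .ofNat 497⟩, ⟨.negSucc 407, .ofNat 2, .ofNat 17, .negSucc 34, .ofNat 56, .ofNat 35⟩, .ofNat 587, .ofNat 120, .ofNat 0, .ofNat 120, .ofNat 1124, .ofNat 0, .ofNat 209, .negSucc 38, .negSucc 20, .ofNat 0, .ofNat 128, .ofNat 2, .ofNat 0, .ofNat 0, .ofNat 1437, .ofNat 1387, .ofNat 61286801385981593496541927780198121472, .ofNat 0, .ofNat 0, .ofNat 0, .ofNat 855247758251723047898353021256114110464, .ofNat 76136542011899071442948824462809628672, .ofNat 0, .ofNat 0, .ofNat 0, .ofNat 54078520637876219312487736590676787200,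 .ofNat 0, .ofNat 0, .ofNat 12013459731695201165352392943333873287168, .ofNat 641985284648799736047264630348944769024, .ofNat 0, .ofNat 0⟩)
    (by decide +kernel)
theorem L00073 : Good (Phi V5.P V5.D 1 (-1)) ⟨2, 0, 2, 0, 2, 3, 2, 1, 3, 3⟩ :=
  leafYS_sound T5.ok_pm T5.Ypm.bz_eq (w := 194) (c := ⟨⟨.negSucc 1065, .negSucc 134, .ofNat 0, .ofNat 31, .negSucc 3, .ofNat 1⟩, ⟨.negSucc 73, .ofNat 93, .ofNat 289, .ofNat 20, .ofNat 13, .ofNat 0⟩, ⟨.ofNat 1063, .ofNat 66, .ofNat 79, .ofNat 114, .ofNat 260, .negSucc 0⟩, ⟨.negSucc 3260, .negSucc 92, .negSucc 76, .ofNat 184, .negSucc 26, .ofNat 2⟩, ⟨.negSucc 519, .ofNat 149, .ofNat 77, .ofNat 189, .ofNat 72, .ofNat 0⟩, .ofNat 401, .ofNat 44, .ofNat 0, .ofNat 44, .ofNat 593, .ofNat 0, .ofNat 222, .negSucc 27, .ofNat 2, .ofNat 0, .ofNat 128, .ofNat 0, .ofNat 0, .ofNat 0, .ofNat 600, .ofNat 8474,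 .ofNat 0, .ofNat 0, .ofNat 0, .ofNat 0, .ofNat 9426072859679047752201433383034876329984, .ofNat 1024637852527001576811327590528402325504, .ofNat 0, .ofNat 0, .ofNat 0, .ofNat 209946222883229193131588077194726866944, .ofNat 0, .ofNat 0, .ofNat 0, .ofNat 605939164830003139097438255085416087552, .ofNat 0, .ofNat 0⟩)
    (by decide +kernel)
theorem L00074 : Good (Phi V5.P V5.D 1 (-1)) ⟨2, 0, 2, 0, 3, 4, 2, 1, 3, 4⟩ :=
  out_sound (S := T5.ds_pm) T5.ok_pm (w := 24) (j := 1) (by decide +kernel)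
theorem L00075 : Good (Phi V5.P V5.D 1 (-1)) ⟨2, 0, 2, 0, 3, 5, 2, 1, 3, 4⟩ :=
  out_sound (S := T5.ds_pm) T5.ok_pm (w := 30) (j := 2) (by decide +kernel)
theorem L00076 : Good (Phi V5.P V5.D 1 (-1)) ⟨2, 0, 2, 0, 2, 2, 2, 1, 3, 5⟩ :=
  out_sound (S := T5.ds_pm) T5.ok_pm (w := 22) (j := 1) (by decide +kernel)
theorem L00077 : Good (Phi V5.P V5.D 1 (-1)) ⟨2, 0, 2, 0, 2, 2, 2, 1, 2, 3⟩ :=
  out_sound (S := T5.ds_pm) T5.ok_pm (w := 20) (j := 1) (by decide +kernel)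
theorem L00078 : Good (Phi V5.P V5.D 1 (-1)) ⟨2, 0, 2, 0, 2, 3, 2, 1, 1, 1⟩ :=
  out_sound (S := T5.ds_pm) T5.ok_pm (w := 24) (j := 2) (by decide +kernel)
theorem L00079 : Good (Phi V5.P V5.D 1 (-1)) ⟨2, 0, 2, 0, 1, 1, 2, 2, 3, 0⟩ :=
  leafYS_sound T5.ok_pm T5.Ypm.bz_eq (w := 178) (c := ⟨⟨.ofNat 816, .negSucc 107, .ofNat 33, .negSucc 226, .negSucc 530, .negSucc 1500⟩, ⟨.negSucc 109, .ofNat 53, .ofNat 50, .ofNat 112, .ofNat 43, .ofNat 84⟩, ⟨.negSucc 840, .negSucc 0, .ofNat 67, .ofNat 362, .ofNat 717, .ofNat 893⟩, ⟨.ofNat 2441, .negSucc 292, .ofNat 122, .negSucc 573, .negSucc 1603, .negSucc 4537⟩, ⟨.ofNat 278, .ofNat 164, .ofNat 83, .ofNat 484, .negSucc 203, .negSucc 867⟩, .ofNat 591, .ofNat 121, .ofNat 0, .ofNat 121, .ofNat 1105, .ofNat 0, .ofNat 187, .negSucc 28, .negSucc 159, .ofNat 0, .ofNat 128, .ofNat 45, .ofNat 0, .ofNat 0,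 .ofNat 383, .ofNat 395, .ofNat 0, .ofNat 0, .ofNat 0, .ofNat 0, .ofNat 0, .ofNat 0, .ofNat 0, .ofNat 0, .ofNat 0, .ofNat 0, .ofNat 0, .ofNat 0, .ofNat 0, .ofNat 0, .ofNat 0, .ofNat 0⟩)
    (by decide +kernel)
theorem L00080 : Good (Phi V5.P V5.D 1 (-1)) ⟨2, 0, 2, 0, 1, 1, 2, 3, 3, 0⟩ :=
  leafYS_sound T5.ok_pm T5.Ypm.bz_eq (w := 177) (c := ⟨⟨.ofNat 242, .negSucc 116, .negSucc 4, .negSucc 419, .negSucc 587, .negSucc 921⟩, ⟨.negSucc 221, .ofNat 138, .ofNat 156, .ofNat 198, .ofNat 196, .ofNat 87⟩, ⟨.negSucc 311, .ofNat 257, .ofNat 105, .ofNat 525, .ofNat 887, .ofNat 493⟩, ⟨.ofNat 466, .negSucc 124, .ofNat 133, .negSucc 1011, .negSucc 1625, .negSucc 2752⟩, ⟨.negSucc 606, .ofNat 686, .negSucc 81, .ofNat 1279, .ofNat 812, .negSucc 566⟩, .ofNat 593, .ofNat 134, .ofNat 0, .ofNat 134, .ofNat 1114, .ofNat 0, .ofNat 180, .negSucc 19, .negSucc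 122, .ofNat 0, .ofNat 128, .ofNat 37, .ofNat 0, .ofNat 0, .ofNat 261, .ofNat 173, .ofNat 0, .ofNat 0, .ofNat 0, .ofNat 0, .ofNat 0, .ofNat 0, .ofNat 0, .ofNat 0, .ofNat 0, .ofNat 0, .ofNat 0, .ofNat 0, .ofNat 0, .ofNat 0, .ofNat 0, .ofNat 0⟩)
    (by decide +kernel)
theorem L00081 : Good (Phi V5.P V5.D 1 (-1)) ⟨2, 0, 2, 0, 1, 1, 2, 2, 4, 2⟩ :=
  leafYS_sound T5.ok_pm T5.Ypm.bz_eq (w := 183) (c := ⟨⟨.negSucc 818, .negSucc 190, .ofNat 37, .negSucc 351, .negSucc 94, .negSucc 301⟩, ⟨.negSucc 138, .ofNat 119, .ofNat 299, .ofNat 134, .ofNat 30, .ofNat 40⟩, ⟨.ofNat 254, .ofNat 283, .ofNat 6, .ofNat 86, .ofNat 445, .ofNat 376⟩, ⟨.negSucc 2659, .negSucc 241, .ofNat 73, .negSucc 825, .negSucc 187, .negSucc 841⟩, ⟨.negSucc 698, .ofNat 235, .ofNat 146, .ofNat 658, .ofNat 163, .negSucc 58⟩, .ofNat 721, .ofNat 250, .ofNat 0, .ofNat 250, .ofNat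 1641, .ofNat 0, .ofNat 208, .negSucc 62, .negSucc 67, .ofNat 0, .ofNat 128, .ofNat 20, .ofNat 0, .ofNat 0, .ofNat 249, .ofNat 683, .ofNat 0, .ofNat 0, .ofNat 0, .ofNat 0, .ofNat 0, .ofNat 0, .ofNat 0, .ofNat 0, .ofNat 0, .ofNat 0, .ofNat 0, .ofNat 0, .ofNat 0, .ofNat 0, .ofNat 0, .ofNat 0⟩)
    (by decide +kernel)
theorem L00082 : Good (Phi V5.P V5.D 1 (-1)) ⟨2, 0, 2, 0, 1, 1, 2, 2, 5, 6⟩ :=
  leafYS_sound T5.ok_pm T5.Ypm.bz_eq (w := 187) (c := ⟨⟨.negSucc 1091, .negSucc 191, .ofNat 29, .negSucc 327, .negSucc 52, .negSucc 26⟩, ⟨.negSucc 104, .ofNat 98, .ofNat 317, .ofNat 127, .ofNat 38, .ofNat 9⟩, ⟨.ofNat 595, .ofNat 262, .ofNat 9, .ofNat 156, .ofNat 366, .ofNat 102⟩, ⟨.negSucc 3393, .negSucc 240, .ofNat 19, .negSucc 827, .negSucc 94, .negSucc 91⟩, ⟨.negSucc 611, .ofNat 52, .ofNat 62, .ofNat 529, .ofNat 195, .ofNat 44⟩, .ofNat 667,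 .ofNat 184, .ofNat 0, .ofNat 184, .ofNat 1392, .ofNat 0, .ofNat 128, .negSucc 56, .negSucc 44, .ofNat 0, .ofNat 137, .ofNat 12, .ofNat 0, .ofNat 0, .ofNat 246, .ofNat 345, .ofNat 0, .ofNat 0, .ofNat 0, .ofNat 0, .ofNat 0, .ofNat 0, .ofNat 0, .ofNat 0, .ofNat 0, .ofNat 0, .ofNat 0, .ofNat 0, .ofNat 0, .ofNat 136531784082264182592979138942861312, .ofNat 0, .ofNat 0⟩)
    (by decide +kernel)
theorem L00083 : Good (Phi V5.P V5.D 1 (-1)) ⟨2, 0, 2, 0, 1, 1, 2, 2, 5, 7⟩ :=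
  leafYS_sound T5.ok_pm T5.Ypm.bz_eq (w := 187) (c := ⟨⟨.negSucc 1181, .negSucc 178, .ofNat 23, .negSucc 222, .negSucc 19, .ofNat 15⟩, ⟨.negSucc 95, .ofNat 88, .ofNat 327, .ofNat 111, .ofNat 26, .ofNat 17⟩, ⟨.ofNat 725, .ofNat 280, .ofNat 47, .ofNat 126, .ofNat 257, .ofNat 104⟩, ⟨.negSucc 3614, .negSucc 239, .negSucc 19, .negSucc 544, .negSucc 39, .ofNat 72⟩, ⟨.negSucc 568, .negSucc 11, .ofNat 88, .ofNat 552, .ofNat 124, .ofNat 83⟩, .ofNat 722, .ofNat 224, .ofNat 0, .ofNat 224, .ofNat 1576, .ofNat 0, .ofNat 164, .negSucc 56, .negSucc 44, .ofNat 0, .ofNat 128, .ofNat 12, .ofNat 0, .ofNat 0, .ofNat 338, .ofNat 294, .ofNat 0, .ofNat 0, .ofNat 0, .ofNat 0, .ofNat 0, .ofNat 0, .ofNat 0, .ofNat 0, .ofNat 0, .ofNat 0, .ofNat 0, .ofNat 0, .ofNat 0, .ofNat 322872593105388839257785202171183104, .ofNat 0, .ofNat 0⟩)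
    (by decide +kernel)
theorem L00084 : Good (Phi V5.P V5.D 1 (-1)) ⟨2, 0, 2, 0, 1, 1, 2, 3, 4, 2⟩ :=
  leafYS_sound T5.ok_pm T5.Ypm.bz_eq (w := 182) (c := ⟨⟨.negSucc 817, .negSucc 326, .ofNat 21, .negSucc 538, .negSucc 174, .negSucc 246⟩, ⟨.negSucc 145, .ofNat 117, .ofNat 315, .ofNat 225, .ofNat 106, .ofNat 40⟩, ⟨.ofNat 484, .ofNat 476, .ofNat 40, .ofNat 397, .ofNat 513, .ofNat 272⟩, ⟨.negSucc 2612, .negSucc 594, .ofNat 70, .negSucc 1374, .negSucc 462, .negSucc 718⟩, ⟨.negSucc 689, .ofNat 233, .ofNat 74, .ofNat 1162, .ofNat 630, .ofNat 15⟩, .ofNat 591, .ofNat 127, .ofNat 0, .ofNat 127, .ofNat 1115, .ofNat 0, .ofNat 187, .negSucc 38, .negSucc 84, .ofNat 0, .ofNat 128, .ofNat 22, .ofNat 0, .ofNat 0, .ofNat 272, .ofNat 273, .ofNat 0, .ofNat 0, .ofNat 0, .ofNat 0, .ofNat 0, .ofNat 15457158144103737493603937706573824, .ofNat 0, .ofNat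 0, .ofNat 0, .ofNat 34237779765264928941124857347702784, .ofNat 0, .ofNat 0, .ofNat 0, .ofNat 17841972727484448471817167629713408, .ofNat 0, .ofNat 0⟩)
    (by decide +kernel)
theorem L00085 : Good (Phi V5.P V5.D 1 (-1)) ⟨2, 0, 2, 0, 2, 2, 2, 3, 4, 3⟩ :=
  leafYS_sound T5.ok_pm T5.Ypm.bz_eq (w := 197) (c := ⟨⟨.negSucc 1061, .negSucc 230, .negSucc 2, .negSucc 229, .negSucc 124, .negSucc 58⟩, ⟨.negSucc 77, .ofNat 93, .ofNat 314, .ofNat 60, .ofNat 59, .ofNat 13⟩, ⟨.ofNat 727, .ofNat 403, .ofNat 93, .ofNat 274, .ofNat 338, .ofNat 170⟩, ⟨.negSucc 3265, .negSucc 413, .negSucc 40, .negSucc 617, .negSucc 334, .negSucc 156⟩, ⟨.negSucc 338, .negSucc 95, .ofNat 8, .ofNat 184, .ofNat 262, .negSucc 14⟩, .ofNat 592, .ofNat 124, .ofNat 0, .ofNat 124, .ofNat 1107, .ofNat 0, .ofNat 227, .negSucc 40, .negSucc 74, .ofNat 0, .ofNat 128, .ofNat 16,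 .ofNat 0, .ofNat 0, .ofNat 403, .ofNat 547, .ofNat 0, .ofNat 0, .ofNat 0, .ofNat 0, .ofNat 0, .ofNat 286585068188757942124865812111795683328, .ofNat 0, .ofNat 0, .ofNat 0, .ofNat 247363098736808111571885243287656726528, .ofNat 0, .ofNat 0, .ofNat 0, .ofNat 294141405119398111138768074992330473472, .ofNat 0, .ofNat 0⟩)
    (by decide +kernel)
theorem L00086 : Good (Phi V5.P V5.D 1 (-1)) ⟨2, 0, 2, 0, 2, 3, 2, 3, 4, 3⟩ :=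
  leafYS_sound T5.ok_pm T5.Ypm.bz_eq (w := 196) (c := ⟨⟨.negSucc 1242, .negSucc 368, .negSucc 43, .negSucc 249, .negSucc 300, .ofNat 8⟩, ⟨.negSucc 63, .ofNat 98, .ofNat 385, .ofNat 200, .ofNat 199, .ofNat 24⟩, ⟨.ofNat 946, .ofNat 449, .ofNat 104, .ofNat 113, .ofNat 625, .ofNat 185⟩, ⟨.negSucc 3882, .negSucc 677, .negSucc 55, .negSucc 514, .negSucc 654, .ofNat 64⟩, ⟨.negSucc 300, .ofNat 51, .ofNat 32, .ofNat 1243, .ofNat 963, .ofNat 119⟩, .ofNat 402, .ofNat 49, .ofNat 0, .ofNat 49, .ofNat 593, .ofNat 0, .ofNat 153, .negSucc 31, .negSucc 42, .ofNat 0, .ofNat 128, .ofNat 7, .ofNat 0, .ofNat 0, .ofNat 268, .ofNat 393, .ofNat 0, .ofNat 4246662999383111551324313841551015936, .ofNat 0, .ofNat 0, .ofNat 0, .ofNat 104243586487482145851565427412896317440, .ofNat 0, .ofNat 0, .ofNat 0, .ofNat 196695749510789799544961884863187648512, .ofNat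 0, .ofNat 0, .ofNat 0, .ofNat 136630435427148996063577521595734818816, .ofNat 0, .ofNat 0⟩)
    (by decide +kernel)
theorem L00087 : Good (Phi V5.P V5.D 1 (-1)) ⟨2, 0, 2, 0, 2, 2, 2, 2, 4, 4⟩ :=
  leafYS_sound T5.ok_pm T5.Ypm.bz_eq (w := 198) (c := ⟨⟨.negSucc 1173, .negSucc 165, .ofNat 14, .negSucc 88, .negSucc 8, .ofNat 58⟩, ⟨.negSucc 72, .ofNat 97, .ofNat 304, .ofNat 16, .ofNat 17, .ofNat 7⟩, ⟨.ofNat 821, .ofNat 265, .ofNat 49, .ofNat 59, .ofNat 209, .ofNat 143⟩, ⟨.negSucc 3562, .negSucc 211, .negSucc 29, .negSucc 241, .negSucc 19, .ofNat 142⟩, ⟨.negSucc 458, .ofNat 19, .ofNat 20, .ofNat 22, .ofNat 108, .ofNat 58⟩, .ofNat 594, .ofNat 132, .ofNat 0, .ofNat 132, .ofNat 1108, .ofNat 0, .ofNat 256, .negSucc 43, .negSucc 68, .ofNat 0, .ofNat 128, .ofNat 17, .ofNat 0, .ofNat 0, .ofNat 739, .ofNat 1504, .ofNat 0, .ofNat 0, .ofNat 0,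 .ofNat 0, .ofNat 0, .ofNat 0, .ofNat 0, .ofNat 0, .ofNat 0, .ofNat 0, .ofNat 0, .ofNat 0, .ofNat 0, .ofNat 795448218484887700983371523817413279744, .ofNat 0, .ofNat 0⟩)
    (by decide +kernel)
theorem L00088 : Good (Phi V5.P V5.D 1 (-1)) ⟨2, 0, 2, 0, 2, 3, 2, 2, 5, 8⟩ :=
  leafYS_sound T5.ok_pm T5.Ypm.bz_eq (w := 201) (c := ⟨⟨.negSucc 1253, .negSucc 236, .negSucc 5, .negSucc 45, .negSucc 68, .ofNat 67⟩, ⟨.negSucc 73, .ofNat 107, .ofNat 355, .ofNat 100, .ofNat 42, .negSucc 5⟩, ⟨.ofNat 788, .ofNat 299, .ofNat 56, .ofNat 117, .ofNat 419, .ofNat 75⟩, ⟨.negSucc 3800, .negSucc 361, .negSucc 41, .negSucc 66, .negSucc 186, .ofNat 156⟩, ⟨.negSucc 502, .ofNat 123, .ofNat 139, .ofNat 694, .ofNat 208, .ofNat 24⟩, .ofNat 596, .ofNat 131, .ofNat 0, .ofNat 131, .ofNat 1096, .ofNat 0, .ofNat 244, .negSucc 44, .negSucc 3, .ofNat 0, .ofNat 128, .negSucc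 7, .ofNat 0, .ofNat 0, .ofNat 513, .ofNat 479, .ofNat 0, .ofNat 0, .ofNat 0, .ofNat 0, .ofNat 0, .ofNat 0, .ofNat 0, .ofNat 0, .ofNat 0, .ofNat 1641764825795073900625812710110091280384, .ofNat 0, .ofNat 0, .ofNat 0, .ofNat 3855615820266843666931120296243675267072, .ofNat 0, .ofNat 0⟩)
    (by decide +kernel)
theorem L00089 : Good (Phi V5.P V5.D 1 (-1)) ⟨2, 0, 2, 0, 3, 6, 2, 2, 5, 9⟩ :=
  leafYS_sound T5.ok_pm T5.Ypm.bz_eq (w := 215) (c := ⟨⟨.negSucc 1198, .negSucc 214, .negSucc 10, .negSucc 22, .negSucc 54, .ofNat 53⟩, ⟨.negSucc 60, .ofNat 100, .ofNat 331, .ofNat 35, .ofNat 47, .negSucc 9⟩, ⟨.ofNat 842, .ofNat 293, .ofNat 90, .ofNat 80, .ofNat 392, .ofNat 114⟩, ⟨.negSucc 3680, .negSucc 300, .negSucc 85, .negSucc 16, .negSucc 114, .ofNat 179⟩, ⟨.negSucc 440, .ofNat 103, .ofNat 79, .ofNat 257, .ofNat 286, .negSucc 3⟩, .ofNat 401,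 .ofNat 43, .ofNat 0, .ofNat 43, .ofNat 591, .ofNat 0, .ofNat 128, .negSucc 34, .negSucc 8, .ofNat 0, .ofNat 150, .negSucc 1, .ofNat 0, .ofNat 0, .ofNat 327, .ofNat 550, .ofNat 0, .ofNat 0, .ofNat 0, .ofNat 0, .ofNat 0, .ofNat 0, .ofNat 0, .ofNat 0, .ofNat 0, .ofNat 0, .ofNat 0, .ofNat 0, .ofNat 0, .ofNat 9760544807521934897112824321440102651789312, .ofNat 0, .ofNat 0⟩)
    (by decide +kernel)
theorem L00090 : Good (Phi V5.P V5.D 1 (-1)) ⟨2, 0, 2, 0, 3, 7, 2, 2, 5, 9⟩ :=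
  leafYS_sound T5.ok_pm T5.Ypm.bz_eq (w := 214) (c := ⟨⟨.negSucc 1192, .negSucc 239, .negSucc 36, .negSucc 22, .negSucc 75, .ofNat 65⟩, ⟨.negSucc 27, .ofNat 112, .ofNat 349, .ofNat 41, .ofNat 9, .negSucc 28⟩, ⟨.ofNat 923, .ofNat 273, .ofNat 76, .ofNat 137, .ofNat 472, .ofNat 137⟩, ⟨.negSucc 3681, .negSucc 325, .negSucc 74, .ofNat 61, .negSucc 185, .ofNat 197⟩, ⟨.negSucc 248, .ofNat 232, .ofNat 172, .ofNat 455, .ofNat 260, .ofNat 1⟩, .ofNat 191, .ofNat 9, .ofNat 0, .ofNat 9, .ofNat 226, .ofNat 0, .ofNat 128, .negSucc 31, .ofNat 0, .ofNat 0, .ofNat 157, .negSucc 7, .ofNat 0, .ofNat 0, .ofNat 131, .ofNat 190, .ofNat 0, .ofNat 0, .ofNat 0, .ofNat 0, .ofNat 0, .ofNat 0, .ofNat 0, .ofNat 0, .ofNat 0, .ofNat 3534034177955537961338434592177701942984704, .ofNat 0, .ofNat 0, .ofNat 0, .ofNat 3910780887811484656366766042604954221281280, .ofNat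 0, .ofNat 0⟩)
    (by decide +kernel)
theorem L00091 : Good (Phi V5.P V5.D 1 (-1)) ⟨2, 0, 2, 0, 2, 2, 2, 2, 4, 5⟩ :=
  leafYS_sound T5.ok_pm T5.Ypm.bz_eq (w := 197) (c := ⟨⟨.negSucc 1124, .negSucc 147, .ofNat 15, .negSucc 55, .negSucc 17, .ofNat 63⟩, ⟨.negSucc 49, .ofNat 73, .ofNat 289, .ofNat 5, .ofNat 15, .negSucc 3⟩, ⟨.ofNat 922, .ofNat 280, .ofNat 123, .ofNat 85, .ofNat 140, .ofNat 177⟩, ⟨.negSucc 3441, .negSucc 160, .negSucc 41, .negSucc 141, .negSucc 20, .ofNat 193⟩, ⟨.negSucc 356, .negSucc 65, .ofNat 1, .negSucc 6, .ofNat 90, .ofNat 32⟩, .ofNat 595, .ofNat 138, .ofNat 0, .ofNat 138, .ofNat 1109, .ofNat 0, .ofNat 210, .negSucc 43, .negSucc 32, .ofNat 0, .ofNat 128, .ofNat 1, .ofNat 0, .ofNat 0, .ofNat 970, .ofNat 1183, .ofNat 0, .ofNat 0, .ofNat 0, .ofNat 0, .ofNat 0, .ofNat 319965081784226411221578709447691206656, .ofNat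 0, .ofNat 0, .ofNat 0, .ofNat 0, .ofNat 0, .ofNat 0, .ofNat 0, .ofNat 1846623791596911773569150232088729878528, .ofNat 0, .ofNat 0⟩)
    (by decide +kernel)
theorem L00092 : Good (Phi V5.P V5.D 1 (-1)) ⟨2, 0, 2, 0, 3, 6, 2, 2, 4, 5⟩ :=
  leafYS_sound T5.ok_pm T5.Ypm.bz_eq (w := 209) (c := ⟨⟨.negSucc 1154, .negSucc 189, .negSucc 9, .negSucc 19, .negSucc 65, .ofNat 93⟩, ⟨.negSucc 53, .ofNat 91, .ofNat 312, .ofNat 34, .ofNat 16, .negSucc 20⟩, ⟨.ofNat 932, .ofNat 284, .ofNat 117, .ofNat 104, .ofNat 446, .ofNat 318⟩, ⟨.negSucc 3537, .negSucc 244, .negSucc 84, .ofNat 2, .negSucc 100, .ofNat 308⟩, ⟨.negSucc 380, .ofNat 46, .ofNat 58, .ofNat 223, .ofNat 153, .ofNat 5⟩, .ofNat 402, .ofNat 45, .ofNat 0, .ofNat 45, .ofNat 591, .ofNat 0, .ofNat 189, .negSucc 28, .negSucc 0, .ofNat 0, .ofNat 128, .negSucc 3, .ofNat 0, .ofNat 0, .ofNat 279, .ofNat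 275, .ofNat 0, .ofNat 0, .ofNat 0, .ofNat 0, .ofNat 0, .ofNat 0, .ofNat 0, .ofNat 0, .ofNat 0, .ofNat 0, .ofNat 0, .ofNat 0, .ofNat 0, .ofNat 1580902839654098220557043980529286204358656, .ofNat 0, .ofNat 0⟩)
    (by decide +kernel)
theorem L00093 : Good (Phi V5.P V5.D 1 (-1)) ⟨2, 0, 2, 0, 3, 7, 2, 2, 4, 5⟩ :=
  out_sound (S := T5.ds_pm) T5.ok_pm (w := 32) (j := 2) (by decide +kernel)
theorem L00094 : Good (Phi V5.P V5.D 1 (-1)) ⟨2, 0, 2, 0, 2, 2, 2, 3, 4, 4⟩ :=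
  leafYS_sound T5.ok_pm T5.Ypm.bz_eq (w := 196) (c := ⟨⟨.negSucc 1145, .negSucc 215, .ofNat 14, .negSucc 184, .negSucc 103, .ofNat 52⟩, ⟨.negSucc 49, .ofNat 74, .ofNat 310, .ofNat 51, .ofNat 43, .negSucc 6⟩, ⟨.ofNat 920, .ofNat 380, .ofNat 109, .ofNat 304, .ofNat 188, .ofNat 74⟩, ⟨.negSucc 3459, .negSucc 359, .negSucc 38, .negSucc 512, .negSucc 294, .ofNat 124⟩, ⟨.negSucc 298, .negSucc 165, .ofNat 8, .ofNat 151, .ofNat 192, .ofNat 32⟩, .ofNat 593, .ofNat 130, .ofNat 0, .ofNat 130, .ofNat 1108, .ofNat 0, .ofNat 200, .negSucc 42, .negSucc 33, .ofNat 0, .ofNat 128, .ofNat 4, .ofNat 0, .ofNat 0, .ofNat 377, .ofNat 291, .ofNat 0, .ofNat 0, .ofNat 0, .ofNat 0, .ofNat 0, .ofNat 240350914071964845372323036609934000128, .ofNat 0, .ofNat 0, .ofNat 0, .ofNat 261582240859864086792228352843375968256, .ofNat 0, .ofNat 0, .ofNat 0, .ofNat 348735668345228966984433265174638493696,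 .ofNat 0, .ofNat 0⟩)
    (by decide +kernel)
theorem L00095 : Good (Phi V5.P V5.D 1 (-1)) ⟨2, 0, 2, 0, 2, 3, 2, 3, 4, 4⟩ :=
  leafYS_sound T5.ok_pm T5.Ypm.bz_eq (w := 197) (c := ⟨⟨.negSucc 1269, .negSucc 288, .negSucc 28, .negSucc 198, .negSucc 188, .ofNat 74⟩, ⟨.negSucc 13, .ofNat 85, .ofNat 354, .ofNat 92, .ofNat 95, .negSucc 28⟩, ⟨.ofNat 1103, .ofNat 452, .ofNat 130, .ofNat 285, .ofNat 599, .ofNat 199⟩, ⟨.negSucc 3863, .negSucc 520, .negSucc 102, .negSucc 355, .negSucc 452, .ofNat 243⟩, ⟨.negSucc 66, .negSucc 116, .ofNat 23, .ofNat 775, .ofNat 486, .ofNat 54⟩, .ofNat 191, .ofNat 8, .ofNat 0, .ofNat 8, .ofNat 225, .ofNat 0, .ofNat 288, .negSucc 23, .negSucc 24, .ofNat 0, .ofNat 128, .negSucc 0, .ofNat 0, .ofNat 0, .ofNat 158, .ofNat 639, .ofNat 0, .ofNat 12562404966886049778896379629218562048, .ofNat 0, .ofNat 0, .ofNat 0, .ofNat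 535989309870022773462502672617869148160, .ofNat 0, .ofNat 0, .ofNat 0, .ofNat 352972545806927609298165013888448331776, .ofNat 0, .ofNat 0, .ofNat 0, .ofNat 267496523732665798317743017721795182592, .ofNat 0, .ofNat 0⟩)
    (by decide +kernel)
theorem L00096 : Good (Phi V5.P V5.D 1 (-1)) ⟨2, 0, 2, 0, 2, 2, 2, 3, 4, 5⟩ :=
  leafYS_sound T5.ok_pm T5.Ypm.bz_eq (w := 196) (c := ⟨⟨.negSucc 1115, .negSucc 189, .ofNat 10, .negSucc 139, .negSucc 127, .ofNat 53⟩, ⟨.negSucc 32, .ofNat 60, .ofNat 289, .ofNat 25, .ofNat 24, .negSucc 1⟩, ⟨.ofNat 944, .ofNat 330, .ofNat 206, .ofNat 486, .ofNat 146, .ofNat 118⟩, ⟨.negSucc 3386, .negSucc 308, .negSucc 43, .negSucc 382, .negSucc 285, .ofNat 169⟩, ⟨.negSucc 198, .negSucc 182, .negSucc 31, .negSucc 4, .ofNat 156, .ofNat 28⟩, .ofNat 191, .ofNat 8, .ofNat 0, .ofNat 8, .ofNat 226, .ofNat 0, .ofNat 288,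 .negSucc 12, .negSucc 41, .ofNat 0, .ofNat 128, .negSucc 20, .ofNat 0, .ofNat 0, .ofNat 466, .ofNat 316, .ofNat 0, .ofNat 1958338361655150458534161438295982080, .ofNat 0, .ofNat 0, .ofNat 0, .ofNat 382427137543087396875324696789245755392, .ofNat 0, .ofNat 0, .ofNat 0, .ofNat 216719833759377249810992157256499331072, .ofNat 0, .ofNat 0, .ofNat 0, .ofNat 785786269726735865887467951106629304320, .ofNat 0, .ofNat 0⟩)
    (by decide +kernel)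
theorem L00097 : Good (Phi V5.P V5.D 1 (-1)) ⟨2, 0, 2, 0, 2, 3, 2, 3, 4, 5⟩ :=
  out_sound (S := T5.ds_pm) T5.ok_pm (w := 30) (j := 2) (by decide +kernel)
theorem L00098 : Good (Phi V5.P V5.D 1 (-1)) ⟨2, 0, 2, 0, 3, 4, 2, 2, 3, 3⟩ :=
  leafYS_sound T5.ok_pm T5.Ypm.bz_eq (w := 207) (c := ⟨⟨.negSucc 1061, .negSucc 138, .ofNat 11, .negSucc 18, .negSucc 21, .ofNat 159⟩, ⟨.negSucc 41, .ofNat 67, .ofNat 269, .negSucc 2, .ofNat 11, .negSucc 25⟩, ⟨.ofNat 1038, .ofNat 210, .ofNat 184, .ofNat 146, .ofNat 144, .ofNat 585⟩, ⟨.negSucc 3236, .negSucc 145, .negSucc 27, .negSucc 44, .negSucc 56, .ofNat 420⟩, ⟨.negSucc 299, .negSucc 66, .negSucc 2, .negSucc 39, .ofNat 44, .ofNat 0⟩, .ofNat 594, .ofNat 128, .ofNat 0, .ofNat 128, .ofNat 1100, .ofNat 0, .ofNat 261, .negSucc 38, .negSucc 12, .ofNat 0, .ofNat 128, .negSucc 17, .ofNat 0, .ofNat 0, .ofNat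 1952, .ofNat 1783, .ofNat 0, .ofNat 2140439834063332150930311668893438967808, .ofNat 0, .ofNat 0, .ofNat 0, .ofNat 489095233695101393550203051953146447265792, .ofNat 0, .ofNat 0, .ofNat 0, .ofNat 368712562856071782141611043220409313918976, .ofNat 0, .ofNat 0, .ofNat 0, .ofNat 5596415105047101039694788306528794061045760, .ofNat 0, .ofNat 0⟩)
    (by decide +kernel)
theorem L00099 : Good (Phi V5.P V5.D 1 (-1)) ⟨2, 0, 2, 0, 3, 4, 2, 3, 3, 3⟩ :=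
  leafYS_sound T5.ok_pm T5.Ypm.bz_eq (w := 209) (c := ⟨⟨.negSucc 1072, .negSucc 175, .ofNat 9, .negSucc 44, .negSucc 77, .ofNat 98⟩, ⟨.negSucc 26, .ofNat 61, .ofNat 275, .negSucc 10, .ofNat 36, .negSucc 33⟩, ⟨.ofNat 1049, .ofNat 279, .ofNat 282, .ofNat 305, .ofNat 66, .ofNat 262⟩, ⟨.negSucc 3242, .negSucc 274, .negSucc 43, .negSucc 110, .negSucc 269, .ofNat 356⟩, ⟨.negSucc 163, .negSucc 165, .negSucc 47, .negSucc 41, .ofNat 111, .ofNat 40⟩, .ofNat 191, .ofNat 9, .ofNat 0, .ofNat 9, .ofNat 226, .ofNat 0, .ofNat 286, .negSucc 12, .negSucc 31, .ofNat 0, .ofNat 128, .negSucc 43, .ofNat 0, .ofNat 0, .ofNat 691, .ofNat 5355, .ofNat 0, .ofNat 14246902493707070397082160519567189737472, .ofNat 0, .ofNat 0, .ofNat 0, .ofNat 2521142889342193549730468638464156398256128, .ofNat 0, .ofNat 0, .ofNat 0, .ofNat 681259245304384382240169883450469899042816,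 .ofNat 0, .ofNat 0, .ofNat 0, .ofNat 3727161407625154561614185973628380249063424, .ofNat 0, .ofNat 0⟩)
    (by decide +kernel)
theorem L00100 : Good (Phi V5.P V5.D 1 (-1)) ⟨2, 0, 2, 0, 3, 5, 1, 1, 4, 6⟩ :=
  leafYS_sound T5.ok_pm T5.Ypm.bz_eq (w := 207) (c := ⟨⟨.negSucc 1080, .negSucc 138, .ofNat 16, .negSucc 15, .negSucc 37, .ofNat 89⟩, ⟨.negSucc 49, .ofNat 74, .ofNat 276, .ofNat 1, .ofNat 21, .negSucc 18⟩, ⟨.ofNat 1114, .ofNat 244, .ofNat 210, .ofNat 105, .ofNat 608, .ofNat 404⟩, ⟨.negSucc 3285, .negSucc 164, .negSucc 47, .ofNat 11, .negSucc 39, .ofNat 294⟩, ⟨.negSucc 349, .negSucc 43, .negSucc 15, .ofNat 23, .ofNat 137, .ofNat 8⟩, .ofNat 191, .ofNat 10, .ofNat 0, .ofNat 10, .ofNat 226, .ofNat 0, .ofNat 221, .negSucc 17, .ofNat 6, .ofNat 0, .ofNat 128, .negSucc 27, .ofNat 0, .ofNat 0, .ofNat 744, .ofNat 996, .ofNat 0, .ofNat 16696903083230860965014472653190662717440,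 .ofNat 0, .ofNat 0, .ofNat 0, .ofNat 821870242663828008886676806078767774564352, .ofNat 0, .ofNat 0, .ofNat 0, .ofNat 526280618582164076611141748236391075020800, .ofNat 0, .ofNat 0, .ofNat 0, .ofNat 3549454404618427216656996451149141317255168, .ofNat 0, .ofNat 0⟩)
    (by decide +kernel)
theorem L00101 : Good (Phi V5.P V5.D 1 (-1)) ⟨2, 0, 2, 0, 3, 5, 1, 1, 4, 7⟩ :=
  out_sound (S := T5.ds_pm) T5.ok_pm (w := 30) (j := 2) (by decide +kernel)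
theorem L00102 : Good (Phi V5.P V5.D 1 (-1)) ⟨2, 0, 2, 0, 2, 3, 1, 1, 3, 3⟩ :=
  out_sound (S := T5.ds_pm) T5.ok_pm (w := 26) (j := 2) (by decide +kernel)
theorem L00103 : Good (Phi V5.P V5.D 1 (-1)) ⟨2, 0, 2, 0, 4, 8, 3, 4, 4, 8⟩ :=
  out_sound (S := T5.ds_pm) T5.ok_pm (w := 29) (j := 1) (by decide +kernel)
theorem L00104 : Good (Phi V5.P V5.D 1 (-1)) ⟨2, 0, 2, 0, 4, 8, 3, 5, 4, 8⟩ :=
  out_sound (S := T5.ds_pm) T5.ok_pm (w := 36) (j := 2) (by decide +kernel)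
theorem L00105 : Good (Phi V5.P V5.D 1 (-1)) ⟨2, 0, 2, 0, 4, 8, 2, 2, 4, 9⟩ :=
  out_sound (S := T5.ds_pm) T5.ok_pm (w := 28) (j := 1) (by decide +kernel)
theorem L00106 : Good (Phi V5.P V5.D 1 (-1)) ⟨2, 0, 2, 0, 4, 9, 2, 2, 3, 4⟩ :=
  out_sound (S := T5.ds_pm) T5.ok_pm (w := 32) (j := 2) (by decide +kernel)
theorem L00107 : Good (Phi V5.P V5.D 1 (-1)) ⟨2, 0, 2, 0, 3, 4, 2, 3, 3, 4⟩ :=
  out_sound (S := T5.ds_pm) T5.ok_pm (w := 30) (j := 2) (by decide +kernel)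
theorem L00108 : Good (Phi V5.P V5.D 1 (-1)) ⟨2, 0, 2, 0, 3, 4, 1, 1, 3, 5⟩ :=
  out_sound (S := T5.ds_pm) T5.ok_pm (w := 28) (j := 2) (by decide +kernel)
theorem L00109 : Good (Phi V5.P V5.D 1 (-1)) ⟨2, 0, 2, 0, 3, 5, 1, 1, 2, 2⟩ :=
  out_sound (S := T5.ds_pm) T5.ok_pm (w := 26) (j := 2) (by decide +kernel)
theorem L00110 : Good (Phi V5.P V5.D 1 (-1)) ⟨2, 0, 2, 0, 2, 2, 1, 1, 2, 3⟩ :=
  out_sound (S := T5.ds_pm) T5.ok_pm (w := 24) (j := 2) (by decide +kernel)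
theorem L00111 : Good (Phi V5.P V5.D 1 (-1)) ⟨2, 0, 2, 0, 2, 3, 1, 1, 1, 1⟩ :=
  out_sound (S := T5.ds_pm) T5.ok_pm (w := 22) (j := 2) (by decide +kernel)
theorem L00112 : Good (Phi V5.P V5.D 1 (-1)) ⟨4, 0, 2, 1, 1, 0, 3, 0, 4, 0⟩ :=
  leafYS_sound T5.ok_pm T5.Ypm.bz_eq (w := 196) (c := ⟨⟨.ofNat 470, .ofNat 46, .ofNat 71, .ofNat 548, .ofNat 28, .negSucc 1167⟩, ⟨.negSucc 128, .negSucc 40, .negSucc 100, .negSucc 270, .negSucc 23, .ofNat 444⟩, ⟨.negSucc 378, .negSucc 134, .negSucc 93, .negSucc 624, .negSucc 60, .ofNat 997⟩, ⟨.ofNat 1413, .ofNat 95, .ofNat 131, .ofNat 1463, .ofNat 145, .negSucc 3558⟩, ⟨.negSucc 147, .negSucc 56, .ofNat 45, .negSucc 471, .ofNat 137, .negSucc 105⟩, .ofNat 689, .ofNat 345, .ofNat 0, .ofNat 345, .ofNat 1199, .ofNat 0, .ofNat 184, .negSucc 90, .negSucc 113, .ofNat 0, .ofNat 128, .ofNat 45, .ofNat 0, .ofNat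 0, .ofNat 382, .ofNat 6127, .ofNat 0, .ofNat 0, .ofNat 0, .ofNat 0, .ofNat 0, .ofNat 0, .ofNat 0, .ofNat 0, .ofNat 1119933975767997711933233344090440990720, .ofNat 0, .ofNat 0, .ofNat 0, .ofNat 0, .ofNat 0, .ofNat 0, .ofNat 0⟩)
    (by decide +kernel)
theorem L00113 : Good (Phi V5.P V5.D 1 (-1)) ⟨4, 0, 2, 1, 1, 0, 3, 0, 4, 1⟩ :=
  leafYS_sound T5.ok_pm T5.Ypm.bz_eq (w := 197) (c := ⟨⟨.negSucc 570, .negSucc 16, .ofNat 51, .ofNat 381, .negSucc 52, .negSucc 660⟩, ⟨.ofNat 62, .ofNat 24, .ofNat 205, .negSucc 222, .ofNat 45, .ofNat 275⟩, ⟨.ofNat 865, .negSucc 5, .negSucc 103, .negSucc 1198, .negSucc 36, .ofNat 654⟩, ⟨.negSucc 1729, .negSucc 36, .ofNat 33, .ofNat 844, .negSucc 71, .negSucc 1978⟩, ⟨.negSucc 267, .ofNat 39, .ofNat 43, .negSucc 725, .ofNat 221, .ofNat 19⟩, .ofNat 705, .ofNat 376, .ofNat 0, .ofNat 376, .ofNat 1226, .ofNat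 0, .ofNat 178, .negSucc 94, .negSucc 78, .ofNat 0, .ofNat 128, .ofNat 35, .ofNat 0, .ofNat 0, .ofNat 331, .ofNat 8050, .ofNat 0, .ofNat 0, .ofNat 0, .ofNat 0, .ofNat 0, .ofNat 0, .ofNat 0, .ofNat 0, .ofNat 0, .ofNat 0, .ofNat 0, .ofNat 0, .ofNat 0, .ofNat 0, .ofNat 0, .ofNat 0⟩)
    (by decide +kernel)
theorem L00114 : Good (Phi V5.P V5.D 1 (-1)) ⟨4, 0, 2, 1, 1, 0, 3, 0, 3, 1⟩ :=
  leafYS_sound T5.ok_pm T5.Ypm.bz_eq (w := 192) (c := ⟨⟨.negSucc 1193, .negSucc 0, .ofNat 43, .ofNat 184, .ofNat 39, .negSucc 491⟩, ⟨.ofNat 275, .ofNat 25, .ofNat 298, .negSucc 141, .negSucc 8, .ofNat 213⟩, ⟨.ofNat 1397, .negSucc 4, .negSucc 69, .negSucc 1148, .ofNat 31, .ofNat 756⟩, ⟨.negSucc 3550, .ofNat 24, .ofNat 15, .ofNat 263, .ofNat 134, .negSucc 1423⟩, ⟨.negSucc 150, .ofNat 11, .ofNat 19, .negSucc 700, .ofNat 111, .ofNat 105⟩, .ofNat 427, .ofNat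 118, .ofNat 0, .ofNat 118, .ofNat 602, .ofNat 0, .ofNat 242, .negSucc 56, .negSucc 153, .ofNat 0, .ofNat 128, .ofNat 67, .ofNat 0, .ofNat 0, .ofNat 724, .ofNat 6624, .ofNat 0, .ofNat 0, .ofNat 0, .ofNat 0, .ofNat 1273512873776533989286196693946744176640, .ofNat 0, .ofNat 0, .ofNat 0, .ofNat 626126003593332518843239078883661709312, .ofNat 0, .ofNat 0, .ofNat 0, .ofNat 2153787643896430961233877680444242132992, .ofNat 0, .ofNat 0, .ofNat 0⟩)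
    (by decide +kernel)
theorem L00115 : Good (Phi V5.P V5.D 1 (-1)) ⟨4, 0, 2, 1, 1, 0, 3, 0, 2, 1⟩ :=
  out_sound (S := T5.ds_pm) T5.ok_pm (w := 19) (j := 1) (by decide +kernel)
theorem L00116 : Good (Phi V5.P V5.D 1 (-1)) ⟨4, 0, 2, 1, 1, 0, 3, 0, 1, 1⟩ :=
  out_sound (S := T5.ds_pm) T5.ok_pm (w := 17) (j := 1) (by decide +kernel)
theorem L00117 : Good (Phi V5.P V5.D 1 (-1)) ⟨4, 0, 2, 1, 1, 0, 3, 1, 3, 0⟩ :=
  leafYS_sound T5.ok_pm T5.Ypm.bz_eq (w := 190) (c := ⟨⟨.ofNat 567, .ofNat 116, .negSucc 47, .ofNat 369, .negSucc 37, .negSucc 1871⟩, ⟨.negSucc 203, .ofNat 22, .ofNat 17, .negSucc 180, .negSucc 23, .ofNat 686⟩, ⟨.negSucc 622, .ofNat 102, .negSucc 56, .negSucc 618, .ofNat 88, .ofNat 1744⟩, ⟨.ofNat 1682, .ofNat 308, .negSucc 163, .ofNat 915, .ofNat 12, .negSucc 5617⟩, ⟨.negSucc 136, .negSucc 91, .ofNat 109, .negSucc 451, .ofNat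 261, .negSucc 23⟩, .ofNat 700, .ofNat 366, .ofNat 0, .ofNat 366, .ofNat 1217, .ofNat 0, .ofNat 179, .negSucc 92, .negSucc 83, .ofNat 0, .ofNat 128, .ofNat 35, .ofNat 0, .ofNat 0, .ofNat 290, .ofNat 1529, .ofNat 0, .ofNat 0, .ofNat 0, .ofNat 0, .ofNat 0, .ofNat 0, .ofNat 0, .ofNat 0, .ofNat 0, .ofNat 0, .ofNat 0, .ofNat 0, .ofNat 0, .ofNat 0, .ofNat 0, .ofNat 0⟩)
    (by decide +kernel)
theorem L00118 : Good (Phi V5.P V5.D 1 (-1)) ⟨4, 0, 2, 1, 1, 0, 3, 1, 3, 1⟩ :=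
  leafYS_sound T5.ok_pm T5.Ypm.bz_eq (w := 191) (c := ⟨⟨.negSucc 1116, .negSucc 16, .ofNat 12, .ofNat 31, .ofNat 38, .negSucc 187⟩, ⟨.ofNat 255, .ofNat 18, .ofNat 311, .negSucc 61, .negSucc 9, .ofNat 78⟩, ⟨.ofNat 1220, .negSucc 4, .negSucc 9, .negSucc 748, .ofNat 4, .ofNat 390⟩, ⟨.negSucc 3333, .negSucc 25, .negSucc 50, .negSucc 128, .ofNat 148, .negSucc 568⟩, ⟨.negSucc 59, .negSucc 3, .ofNat 1, .negSucc 555, .ofNat 64, .ofNat 8⟩, .ofNat 699, .ofNat 364, .ofNat 0, .ofNat 364, .ofNat 1214, .ofNat 0, .ofNat 156, .negSucc 89, .negSucc 59, .ofNat 0, .ofNat 128, .ofNat 27, .ofNat 0, .ofNat 0, .ofNat 382, .ofNat 5159, .ofNat 0, .ofNat 0, .ofNat 0, .ofNat 0, .ofNat 0, .ofNat 0, .ofNat 0, .ofNat 0, .ofNat 0, .ofNat 0, .ofNat 0, .ofNat 0, .ofNat 0, .ofNat 0, .ofNat 0, .ofNat 0⟩)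
    (by decide +kernel)
theorem L00119 : Good (Phi V5.P V5.D 1 (-1)) ⟨4, 0, 2, 1, 1, 0, 3, 1, 2, 1⟩ :=
  leafYS_sound T5.ok_pm T5.Ypm.bz_eq (w := 190) (c := ⟨⟨.negSucc 1280, .negSucc 3, .ofNat 27, .ofNat 28, .ofNat 27, .ofNat 114⟩, ⟨.ofNat 320, .ofNat 19, .ofNat 317, .negSucc 58, .negSucc 15, .negSucc 14⟩, ⟨.ofNat 1542, .ofNat 16, .negSucc 14, .negSucc 647, .ofNat 23, .ofNat 548⟩, ⟨.negSucc 3877, .ofNat 20, .negSucc 6, .negSucc 94, .ofNat 153, .ofNat 293⟩, ⟨.negSucc 96, .ofNat 13, .ofNat 5, .negSucc 473, .ofNat 70, .ofNat 111⟩, .ofNat 702, .ofNat 369, .ofNat 0, .ofNat 369, .ofNat 1219, .ofNat 0, .ofNat 174, .negSucc 90, .negSucc 91, .ofNat 0, .ofNat 128, .ofNat 46, .ofNat 0, .ofNat 0, .ofNat 816, .ofNat 33559, .ofNat 72341392831689347822059020857959776256, .ofNat 0, .ofNat 0, .ofNat 0, .ofNat 688422079220342676743774033659257946112,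 .ofNat 0, .ofNat 0, .ofNat 0, .ofNat 282794688173323277956038420054830743552, .ofNat 0, .ofNat 0, .ofNat 0, .ofNat 543190464320893247077574789564381265920, .ofNat 0, .ofNat 0, .ofNat 0⟩)
    (by decide +kernel)
theorem L00120 : Good (Phi V5.P V5.D 1 (-1)) ⟨4, 0, 2, 1, 1, 0, 3, 1, 1, 1⟩ :=
  out_sound (S := T5.ds_pm) T5.ok_pm (w := 17) (j := 1) (by decide +kernel)
theorem L00121 : Good (Phi V5.P V5.D 1 (-1)) ⟨4, 0, 2, 1, 1, 0, 2, 1, 3, 0⟩ :=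
  leafYS_sound T5.ok_pm T5.Ypm.bz_eq (w := 186) (c := ⟨⟨.ofNat 479, .ofNat 81, .negSucc 86, .ofNat 413, .negSucc 122, .negSucc 1719⟩, ⟨.negSucc 218, .negSucc 53, .ofNat 79, .negSucc 100, .ofNat 53, .ofNat 587⟩, ⟨.negSucc 428, .negSucc 52, .negSucc 36, .negSucc 645, .ofNat 106, .ofNat 1598⟩, ⟨.ofNat 1439, .ofNat 186, .negSucc 210, .ofNat 1139, .negSucc 332, .negSucc 5183⟩, ⟨.negSucc 57, .negSucc 131, .ofNat 195, .negSucc 323, .ofNat 203, .negSucc 109⟩, .ofNat 687, .ofNat 340, .ofNat 0, .ofNat 340, .ofNat 1193, .ofNat 0, .ofNat 223, .negSucc 86, .negSucc 112, .ofNat 0, .ofNat 128, .ofNat 43, .ofNat 0, .ofNat 0, .ofNat 342, .ofNat 848, .ofNat 0, .ofNat 0, .ofNat 0, .ofNat 0, .ofNat 0, .ofNat 0, .ofNat 0, .ofNat 0, .ofNat 0, .ofNat 0, .ofNat 0, .ofNat 0, .ofNat 0, .ofNat 0, .ofNat 0, .ofNat 0⟩)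
    (by decide +kernel)

end Crest.Agent.R097C5.N5pm
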