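import Crest.Agent.R097.KS3
import Crest.Agent.R097.T5Ypm

/-!
# Row 97, box cover in dimension n = 5 (generated)
-/

set_option autoImplicit false
set_option Elab.async false
set_option maxHeartbeats 0
set_option maxRecDepth 100000

open Crest.Agent.R097 Crest.Agent.R097.KA


namespace Crest.Agent.R097C5.N5pm

theorem L00122 : Good (Phi V5.P V5.D 1 (-1)) ⟨4, 0, 2, 1, 1, 0, 2, 1, 3, 1⟩ :=
  leafYS_sound T5.ok_pm T5.Ypm.bz_eq (w := 187) (c := ⟨⟨.negSucc 1117, .ofNat 1, .ofNat 17, .ofNat 39, .ofNat 86, .negSucc 156⟩, ⟨.ofNat 261, .ofNat 13, .ofNat 303, .negSucc 62, .negSucc 30, .ofNat 66⟩, ⟨.ofNat 1026, .ofNat 68, .negSucc 64, .negSucc 489, .negSucc 74, .ofNat 412⟩, ⟨.negSucc 3328, .ofNat 39, .negSucc 28, .negSucc 54, .ofNat 281, .negSucc 497⟩, ⟨.ofNat 31, .ofNat 8, .negSucc 10, .negSucc 470, .ofNat 38, .negSucc 75⟩, .ofNat 689, .ofNat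 345, .ofNat 0, .ofNat 345, .ofNat 1199, .ofNat 0, .ofNat 176, .negSucc 86, .negSucc 60, .ofNat 0, .ofNat 128, .ofNat 26, .ofNat 0, .ofNat 0, .ofNat 363, .ofNat 2035, .ofNat 0, .ofNat 0, .ofNat 0, .ofNat 0, .ofNat 0, .ofNat 0, .ofNat 0, .ofNat 0, .ofNat 0, .ofNat 0, .ofNat 0, .ofNat 0, .ofNat 0, .ofNat 0, .ofNat 0, .ofNat 0⟩)
    (by decide +kernel)
theorem L00123 : Good (Phi V5.P V5.D 1 (-1)) ⟨4, 0, 2, 1, 1, 0, 3, 2, 3, 2⟩ :=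
  leafYS_sound T5.ok_pm T5.Ypm.bz_eq (w := 194) (c := ⟨⟨.negSucc 1231, .negSucc 9, .ofNat 21, .ofNat 8, .ofNat 36, .ofNat 96⟩, ⟨.ofNat 306, .ofNat 21, .ofNat 302, .negSucc 46, .negSucc 11, .negSucc 32⟩, ⟨.ofNat 1393, .ofNat 8, .ofNat 0, .negSucc 426, .negSucc 37, .ofNat 262⟩, ⟨.negSucc 3684, .negSucc 6, .negSucc 4, .negSucc 144, .ofNat 120, .ofNat 315⟩, ⟨.negSucc 35, .ofNat 7, .ofNat 3, .negSucc 441, .ofNat 22, .ofNat 59⟩, .ofNat 429, .ofNat 122, .ofNat 0, .ofNat 122, .ofNat 604, .ofNat 0, .ofNat 204, .negSucc 53, .negSucc 110, .ofNat 0, .ofNat 128, .ofNat 51, .ofNat 0, .ofNat 0, .ofNat 1124, .ofNat 22878, .ofNat 193966539704955192475081675344745332736, .ofNat 0, .ofNat 0, .ofNat 0, .ofNat 765404314849031098207723342646741041152, .ofNat 0, .ofNat 0, .ofNat 0, .ofNat 0, .ofNat 0, .ofNat 0, .ofNat 0, .ofNat 6381279277603571248115513700569803915264,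 .ofNat 0, .ofNat 0, .ofNat 0⟩)
    (by decide +kernel)
theorem L00124 : Good (Phi V5.P V5.D 1 (-1)) ⟨4, 0, 2, 1, 1, 0, 3, 3, 3, 2⟩ :=
  leafYS_sound T5.ok_pm T5.Ypm.bz_eq (w := 194) (c := ⟨⟨.negSucc 1172, .negSucc 10, .ofNat 6, .negSucc 18, .ofNat 36, .ofNat 98⟩, ⟨.ofNat 290, .ofNat 24, .ofNat 288, .negSucc 31, .negSucc 10, .negSucc 29⟩, ⟨.ofNat 1132, .ofNat 9, .ofNat 69, .negSucc 112, .negSucc 59, .ofNat 201⟩, ⟨.negSucc 3505, .negSucc 18, .negSucc 24, .negSucc 195, .ofNat 104, .ofNat 299⟩, ⟨.negSucc 47, .ofNat 0, .ofNat 9, .negSucc 359, .ofNat 13, .ofNat 46⟩, .ofNat 695, .ofNat 356, .ofNat 0, .ofNat 356, .ofNat 1206, .ofNat 0, .ofNat 184, .negSucc 86, .negSucc 107, .ofNat 0, .ofNat 128, .ofNat 48, .ofNat 0, .ofNat 0, .ofNat 1183, .ofNat 13920, .ofNat 81623158081558292943276075638604169216, .ofNat 0, .ofNat 0, .ofNat 0, .ofNat 0,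 .ofNat 0, .ofNat 0, .ofNat 0, .ofNat 0, .ofNat 0, .ofNat 0, .ofNat 0, .ofNat 2556766666735855838829002650831844016128, .ofNat 0, .ofNat 0, .ofNat 0⟩)
    (by decide +kernel)
theorem L00125 : Good (Phi V5.P V5.D 1 (-1)) ⟨4, 0, 2, 1, 1, 0, 2, 1, 3, 3⟩ :=
  leafYS_sound T5.ok_pm T5.Ypm.bz_eq (w := 192) (c := ⟨⟨.negSucc 1030, .negSucc 10, .ofNat 18, .negSucc 57, .ofNat 17, .ofNat 131⟩, ⟨.ofNat 240, .ofNat 19, .ofNat 274, .negSucc 7, .negSucc 1, .negSucc 48⟩, ⟨.ofNat 1042, .ofNat 33, .ofNat 102, .ofNat 172, .ofNat 17, .ofNat 593⟩, ⟨.negSucc 3117, .negSucc 19, .negSucc 21, .negSucc 262, .ofNat 78, .ofNat 387⟩, ⟨.negSucc 108, .negSucc 2, .negSucc 0, .negSucc 272, .ofNat 57, .ofNat 20⟩, .ofNat 697, .ofNat 361, .ofNat 0, .ofNat 361, .ofNat 1211, .ofNat 0, .ofNat 174, .negSucc 88, .negSucc 56, .ofNat 0, .ofNat 128, .ofNat 22, .ofNat 0, .ofNat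 0, .ofNat 1341, .ofNat 86163, .ofNat 100181358680903096581815853222685835264, .ofNat 0, .ofNat 0, .ofNat 0, .ofNat 986030610566788506989587765670048694272, .ofNat 0, .ofNat 0, .ofNat 0, .ofNat 724711653835076104428055245519811772416, .ofNat 0, .ofNat 0, .ofNat 0, .ofNat 3883814458003103100606259773408031014912, .ofNat 0, .ofNat 0, .ofNat 0⟩)
    (by decide +kernel)
theorem L00126 : Good (Phi V5.P V5.D 1 (-1)) ⟨4, 0, 2, 1, 1, 0, 2, 1, 1, 1⟩ :=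
  out_sound (S := T5.ds_pm) T5.ok_pm (w := 16) (j := 1) (by decide +kernel)
theorem L00127 : Good (Phi V5.P V5.D 1 (-1)) ⟨5, 0, 3, 2, 1, 0, 2, 2, 3, 0⟩ :=
  leafYS_sound T5.ok_pm T5.Ypm.bz_eq (w := 193) (c := ⟨⟨.negSucc 59, .ofNat 94, .negSucc 51, .ofNat 320, .negSucc 74, .negSucc 1014⟩, ⟨.ofNat 2, .negSucc 42, .ofNat 58, .negSucc 105, .ofNat 20, .ofNat 296⟩, ⟨.negSucc 24, .negSucc 113, .ofNat 19, .negSucc 432, .ofNat 112, .ofNat 979⟩, ⟨.negSucc 107, .ofNat 225, .negSucc 182, .ofNat 881, .negSucc 244, .negSucc 3076⟩, ⟨.ofNat 210, .negSucc 172, .negSucc 32, .negSucc 290, .negSucc 18, .negSucc 159⟩, .ofNat 848, .ofNat 499, .ofNat 0, .ofNat 499, .ofNat 1730, .ofNat 0, .ofNat 276, .negSucc 89, .negSucc 175, .ofNat 0, .ofNat 128, .ofNat 62, .ofNat 0, .ofNat 0, .ofNat 514, .ofNat 991, .ofNat 0, .ofNat 0, .ofNat 0, .ofNat 0, .ofNat 0, .ofNat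 0, .ofNat 0, .ofNat 0, .ofNat 0, .ofNat 0, .ofNat 0, .ofNat 0, .ofNat 0, .ofNat 0, .ofNat 0, .ofNat 0⟩)
    (by decide +kernel)
theorem L00128 : Good (Phi V5.P V5.D 1 (-1)) ⟨5, 0, 3, 2, 1, 0, 2, 2, 3, 1⟩ :=
  leafYS_sound T5.ok_pm T5.Ypm.bz_eq (w := 194) (c := ⟨⟨.negSucc 1048, .ofNat 0, .ofNat 5, .negSucc 4, .ofNat 121, .negSucc 102⟩, ⟨.ofNat 265, .ofNat 7, .ofNat 136, .negSucc 48, .negSucc 38, .ofNat 30⟩, ⟨.ofNat 856, .negSucc 6, .ofNat 39, .negSucc 156, .negSucc 162, .ofNat 271⟩, ⟨.negSucc 3143, .ofNat 0, .ofNat 0, .negSucc 118, .ofNat 350, .negSucc 303⟩, ⟨.ofNat 3, .negSucc 11, .ofNat 13, .negSucc 360, .negSucc 14, .negSucc 12⟩, .ofNat 976, .ofNat 684, .ofNat 0, .ofNat 684, .ofNat 2174, .ofNat 0, .ofNat 228, .negSucc 93, .negSucc 121, .ofNat 0, .ofNat 128, .ofNat 46, .ofNat 0, .ofNat 0, .ofNat 655, .ofNat 2327, .ofNat 0, .ofNat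 0, .ofNat 0, .ofNat 0, .ofNat 0, .ofNat 0, .ofNat 0, .ofNat 0, .ofNat 0, .ofNat 0, .ofNat 0, .ofNat 0, .ofNat 0, .ofNat 0, .ofNat 0, .ofNat 0⟩)
    (by decide +kernel)
theorem L00129 : Good (Phi V5.P V5.D 1 (-1)) ⟨5, 0, 3, 2, 1, 0, 2, 2, 3, 2⟩ :=
  leafYS_sound T5.ok_pm T5.Ypm.bz_eq (w := 195) (c := ⟨⟨.negSucc 1078, .negSucc 20, .ofNat 2, .negSucc 88, .ofNat 53, .ofNat 71⟩, ⟨.ofNat 264, .ofNat 14, .ofNat 135, .negSucc 0, .negSucc 11, .negSucc 20⟩, ⟨.ofNat 959, .ofNat 44, .ofNat 5, .ofNat 190, .negSucc 154, .ofNat 78⟩, ⟨.negSucc 3248, .negSucc 50, .negSucc 19, .negSucc 341, .ofNat 173, .ofNat 219⟩, ⟨.negSucc 57, .ofNat 10, .negSucc 19, .negSucc 249, .ofNat 47, .ofNat 24⟩, .ofNat 940, .ofNat 630, .ofNat 0, .ofNat 630, .ofNat 2041, .ofNat 0, .ofNat 176, .negSucc 92, .negSucc 129, .ofNat 0, .ofNat 128, .ofNat 46, .ofNat 0, .ofNat 0,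 .ofNat 1466, .ofNat 3330, .ofNat 0, .ofNat 0, .ofNat 0, .ofNat 0, .ofNat 0, .ofNat 0, .ofNat 0, .ofNat 0, .ofNat 0, .ofNat 0, .ofNat 0, .ofNat 0, .ofNat 0, .ofNat 0, .ofNat 0, .ofNat 0⟩)
    (by decide +kernel)
theorem L00130 : Good (Phi V5.P V5.D 1 (-1)) ⟨5, 0, 3, 2, 2, 0, 2, 2, 3, 3⟩ :=
  leafYS_sound T5.ok_pm T5.Ypm.bz_eq (w := 211) (c := ⟨⟨.negSucc 1018, .negSucc 1, .ofNat 0, .negSucc 22, .ofNat 61, .ofNat 54⟩, ⟨.ofNat 253, .ofNat 7, .ofNat 125, .negSucc 8, .negSucc 13, .negSucc 15⟩, ⟨.ofNat 1038, .negSucc 11, .ofNat 27, .ofNat 205, .negSucc 350, .negSucc 51⟩, ⟨.negSucc 3063, .negSucc 0, .negSucc 5, .negSucc 106, .ofNat 194, .ofNat 168⟩, ⟨.negSucc 34, .negSucc 2, .ofNat 4, .negSucc 129, .ofNat 45, .ofNat 16⟩, .ofNat 858, .ofNat 519, .ofNat 0, .ofNat 519, .ofNat 1751, .ofNat 0, .ofNat 157, .negSucc 88, .negSucc 96, .ofNat 0, .ofNat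 128, .ofNat 29, .ofNat 0, .ofNat 0, .ofNat 1505, .ofNat 17597, .ofNat 0, .ofNat 0, .ofNat 0, .ofNat 0, .ofNat 90606842688738413414853464861856281086918656, .ofNat 0, .ofNat 0, .ofNat 0, .ofNat 0, .ofNat 0, .ofNat 0, .ofNat 0, .ofNat 0, .ofNat 0, .ofNat 0, .ofNat 0⟩)
    (by decide +kernel)
theorem L00131 : Good (Phi V5.P V5.D 1 (-1)) ⟨5, 0, 3, 2, 2, 1, 2, 2, 3, 3⟩ :=
  leafYS_sound T5.ok_pm T5.Ypm.bz_eq (w := 208) (c := ⟨⟨.negSucc 1021, .negSucc 4, .ofNat 4, .negSucc 45, .ofNat 6, .ofNat 93⟩, ⟨.ofNat 231, .ofNat 9, .ofNat 131, .ofNat 1, .ofNat 7, .negSucc 26⟩, ⟨.ofNat 1033, .ofNat 44, .ofNat 51, .ofNat 347, .negSucc 140, .ofNat 338⟩, ⟨.negSucc 3112, .negSucc 12, .negSucc 14, .negSucc 175, .ofNat 41, .ofNat 283⟩, ⟨.negSucc 183, .negSucc 0, .negSucc 5, .negSucc 124, .ofNat 68, .ofNat 20⟩, .ofNat 975, .ofNat 681, .ofNat 0, .ofNat 681,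 .ofNat 2168, .ofNat 0, .ofNat 218, .negSucc 92, .negSucc 56, .ofNat 0, .ofNat 128, .ofNat 6, .ofNat 0, .ofNat 0, .ofNat 2265, .ofNat 2297, .ofNat 1072102572343919965078903122718735764291584, .ofNat 0, .ofNat 0, .ofNat 0, .ofNat 0, .ofNat 0, .ofNat 0, .ofNat 0, .ofNat 26363146842955074975992106897040796452651008, .ofNat 2198035695230971247887584274902637239861248, .ofNat 0, .ofNat 0, .ofNat 681688503926327535548009106441872689153966080, .ofNat 39147586436607504645110632937260270066073600, .ofNat 0, .ofNat 0⟩)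
    (by decide +kernel)
theorem L00132 : Good (Phi V5.P V5.D 1 (-1)) ⟨5, 0, 3, 2, 2, 0, 2, 2, 3, 4⟩ :=
  out_sound (S := T5.ds_pm) T5.ok_pm (w := 22) (j := 1) (by decide +kernel)
theorem L00133 : Good (Phi V5.P V5.D 1 (-1)) ⟨5, 0, 3, 2, 3, 2, 2, 2, 4, 8⟩ :=
  out_sound (S := T5.ds_pm) T5.ok_pm (w := 26) (j := 1) (by decide +kernel)
theorem L00134 : Good (Phi V5.P V5.D 1 (-1)) ⟨5, 0, 3, 2, 3, 3, 3, 4, 4, 8⟩ :=
  out_sound (S := T5.ds_pm) T5.ok_pm (w := 27) (j := 1) (by decide +kernel)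
theorem L00135 : Good (Phi V5.P V5.D 1 (-1)) ⟨5, 0, 3, 2, 4, 6, 3, 5, 5, 16⟩ :=
  out_sound (S := T5.ds_pm) T5.ok_pm (w := 31) (j := 1) (by decide +kernel)
theorem L00136 : Good (Phi V5.P V5.D 1 (-1)) ⟨5, 0, 3, 2, 4, 7, 4, 10, 5, 16⟩ :=
  out_sound (S := T5.ds_pm) T5.ok_pm (w := 32) (j := 1) (by decide +kernel)
theorem L00137 : Good (Phi V5.P V5.D 1 (-1)) ⟨5, 0, 3, 2, 4, 7, 4, 11, 5, 16⟩ :=
  out_sound (S := T5.ds_pm) T5.ok_pm (w := 40) (j := 2) (by decide +kernel)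
theorem L00138 : Good (Phi V5.P V5.D 1 (-1)) ⟨5, 0, 3, 2, 3, 3, 3, 5, 5, 17⟩ :=
  out_sound (S := T5.ds_pm) T5.ok_pm (w := 29) (j := 1) (by decide +kernel)
theorem L00139 : Good (Phi V5.P V5.D 1 (-1)) ⟨5, 0, 3, 2, 2, 1, 2, 2, 4, 9⟩ :=
  out_sound (S := T5.ds_pm) T5.ok_pm (w := 24) (j := 1) (by decide +kernel)
theorem L00140 : Good (Phi V5.P V5.D 1 (-1)) ⟨5, 0, 3, 2, 1, 0, 2, 2, 3, 5⟩ :=
  out_sound (S := T5.ds_pm) T5.ok_pm (w := 20) (j := 1) (by decide +kernel)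
theorem L00141 : Good (Phi V5.P V5.D 1 (-1)) ⟨5, 0, 3, 2, 1, 0, 2, 2, 2, 3⟩ :=
  out_sound (S := T5.ds_pm) T5.ok_pm (w := 18) (j := 1) (by decide +kernel)
theorem L00142 : Good (Phi V5.P V5.D 1 (-1)) ⟨5, 0, 3, 2, 2, 0, 2, 3, 3, 0⟩ :=
  leafYS_sound T5.ok_pm T5.Ypm.bz_eq (w := 208) (c := ⟨⟨.negSucc 669, .ofNat 27, .negSucc 4, .ofNat 76, .ofNat 512, .negSucc 326⟩, ⟨.ofNat 174, .ofNat 0, .ofNat 69, .negSucc 55, .negSucc 169, .ofNat 110⟩, ⟨.ofNat 620, .negSucc 30, .ofNat 7, .negSucc 83, .negSucc 594, .ofNat 214⟩, ⟨.negSucc 2004, .ofNat 83, .negSucc 21, .ofNat 144, .ofNat 1511, .negSucc 960⟩, ⟨.negSucc 20, .negSucc 6, .ofNat 40, .negSucc 254, .negSucc 53, .ofNat 33⟩, .ofNat 767, .ofNat 399, .ofNat 0, .ofNat 399, .ofNat 1467, .ofNat 0, .ofNat 358, .negSucc 81, .negSucc 321, .ofNat 0, .ofNat 128, .ofNat 102, .ofNat 0, .ofNat 0, .ofNat 883,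 .ofNat 1374, .ofNat 0, .ofNat 0, .ofNat 0, .ofNat 0, .ofNat 0, .ofNat 0, .ofNat 0, .ofNat 0, .ofNat 0, .ofNat 0, .ofNat 0, .ofNat 0, .ofNat 0, .ofNat 0, .ofNat 0, .ofNat 0⟩)
    (by decide +kernel)
theorem L00143 : Good (Phi V5.P V5.D 1 (-1)) ⟨5, 0, 3, 2, 2, 1, 2, 3, 3, 0⟩ :=
  leafYS_sound T5.ok_pm T5.Ypm.bz_eq (w := 207) (c := ⟨⟨.negSucc 265, .negSucc 3, .ofNat 5, .negSucc 17, .ofNat 131, .negSucc 539⟩, ⟨.ofNat 16, .ofNat 4, .ofNat 68, .ofNat 6, .negSucc 36, .ofNat 164⟩, ⟨.ofNat 85, .ofNat 10, .ofNat 15, .ofNat 133, .negSucc 0, .ofNat 375⟩, ⟨.negSucc 874, .negSucc 4, .ofNat 6, .negSucc 42, .ofNat 387, .negSucc 1634⟩, ⟨.negSucc 312, .ofNat 35, .ofNat 85, .ofNat 34, .negSucc 2, .negSucc 78⟩, .ofNat 851, .ofNat 504, .ofNat 0, .ofNat 504, .ofNat 1735, .ofNat 0, .ofNat 324, .negSucc 89, .negSucc 260, .ofNat 0, .ofNat 128, .ofNat 96,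 .ofNat 0, .ofNat 0, .ofNat 672, .ofNat 1268, .ofNat 0, .ofNat 0, .ofNat 0, .ofNat 0, .ofNat 0, .ofNat 0, .ofNat 0, .ofNat 0, .ofNat 0, .ofNat 0, .ofNat 0, .ofNat 0, .ofNat 0, .ofNat 0, .ofNat 0, .ofNat 0⟩)
    (by decide +kernel)
theorem L00144 : Good (Phi V5.P V5.D 1 (-1)) ⟨5, 0, 3, 2, 1, 0, 3, 6, 3, 1⟩ :=
  leafYS_sound T5.ok_pm T5.Ypm.bz_eq (w := 198) (c := ⟨⟨.negSucc 917, .negSucc 4, .ofNat 0, .negSucc 107, .ofNat 124, .negSucc 97⟩, ⟨.ofNat 221, .ofNat 10, .ofNat 125, .negSucc 7, .negSucc 37, .ofNat 33⟩, ⟨.ofNat 747, .negSucc 0, .ofNat 7, .ofNat 152, .negSucc 194, .ofNat 109⟩, ⟨.negSucc 2767, .negSucc 14, .negSucc 9, .negSucc 418, .ofNat 363, .negSucc 269⟩, ⟨.negSucc 59, .negSucc 11, .ofNat 17, .negSucc 316, .ofNat 7, .ofNat 55⟩, .ofNat 981, .ofNat 693, .ofNat 0, .ofNat 693, .ofNat 2183, .ofNat 0, .ofNat 191, .negSucc 94, .negSucc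 129, .ofNat 0, .ofNat 128, .ofNat 48, .ofNat 0, .ofNat 0, .ofNat 641, .ofNat 1644, .ofNat 0, .ofNat 0, .ofNat 0, .ofNat 0, .ofNat 0, .ofNat 0, .ofNat 0, .ofNat 0, .ofNat 0, .ofNat 0, .ofNat 0, .ofNat 0, .ofNat 0, .ofNat 0, .ofNat 0, .ofNat 0⟩)
    (by decide +kernel)
theorem L00145 : Good (Phi V5.P V5.D 1 (-1)) ⟨5, 0, 3, 2, 1, 0, 3, 7, 3, 1⟩ :=
  leafYS_sound T5.ok_pm T5.Ypm.bz_eq (w := 197) (c := ⟨⟨.negSucc 655, .negSucc 12, .ofNat 7, .negSucc 338, .ofNat 262, .negSucc 191⟩, ⟨.ofNat 143, .ofNat 10, .ofNat 101, .ofNat 85, .negSucc 74, .ofNat 67⟩, ⟨.ofNat 385, .ofNat 12, .negSucc 5, .ofNat 590, .negSucc 362, .ofNat 127⟩, ⟨.negSucc 2009, .negSucc 37, .ofNat 12, .negSucc 1067, .ofNat 819, .negSucc 544⟩, ⟨.negSucc 135, .ofNat 3, .ofNat 18, .negSucc 191, .ofNat 70, .ofNat 102⟩, .ofNat 657, .ofNat 275, .ofNat 0, .ofNat 275, .ofNat 1147,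 .ofNat 0, .ofNat 313, .negSucc 72, .negSucc 153, .ofNat 0, .ofNat 128, .ofNat 48, .ofNat 0, .ofNat 0, .ofNat 566, .ofNat 816, .ofNat 0, .ofNat 0, .ofNat 0, .ofNat 0, .ofNat 0, .ofNat 0, .ofNat 0, .ofNat 0, .ofNat 0, .ofNat 938509391624534755542485105247206244352, .ofNat 0, .ofNat 0, .ofNat 0, .ofNat 1602575373490232949744858260686344552448, .ofNat 0, .ofNat 0⟩)
    (by decide +kernel)
theorem L00146 : Good (Phi V5.P V5.D 1 (-1)) ⟨5, 0, 3, 2, 2, 0, 2, 3, 3, 2⟩ :=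
  leafYS_sound T5.ok_pm T5.Ypm.bz_eq (w := 208) (c := ⟨⟨.negSucc 951, .negSucc 14, .ofNat 1, .negSucc 74, .ofNat 167, .negSucc 2⟩, ⟨.ofNat 235, .ofNat 10, .ofNat 117, .ofNat 13, .negSucc 43, .ofNat 5⟩, ⟨.ofNat 754, .ofNat 20, .ofNat 8, .ofNat 249, .negSucc 510, .negSucc 79⟩, ⟨.negSucc 2867, .negSucc 39, .ofNat 4, .negSucc 255, .ofNat 530, .negSucc 0⟩, ⟨.negSucc 52, .ofNat 2, .ofNat 14, .negSucc 96, .ofNat 79, .ofNat 37⟩, .ofNat 656, .ofNat 273, .ofNat 0, .ofNat 273, .ofNat 1145, .ofNat 0, .ofNat 303, .negSucc 69, .negSucc 58, .ofNat 0, .ofNat 128, .ofNat 16, .ofNat 0, .ofNat 0, .ofNat 423, .ofNat 1879, .ofNat 0, .ofNat 0, .ofNat 0, .ofNat 0, .ofNat 0, .ofNat 0, .ofNat 0, .ofNat 0, .ofNat 0, .ofNat 1531841164223298679874374774498522734526464, .ofNat 0, .ofNat 0, .ofNat 0, .ofNat 0, .ofNat 0, .ofNat 0⟩)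
    (by decide +kernel)
theorem L00147 : Good (Phi V5.P V5.D 1 (-1)) ⟨5, 0, 3, 2, 2, 1, 2, 3, 3, 2⟩ :=
  leafYS_sound T5.ok_pm T5.Ypm.bz_eq (w := 207) (c := ⟨⟨.negSucc 1001, .negSucc 8, .negSucc 0, .negSucc 117, .negSucc 2, .ofNat 11⟩, ⟨.ofNat 221, .ofNat 12, .ofNat 136, .ofNat 29, .ofNat 21, .ofNat 6⟩, ⟨.ofNat 802, .ofNat 14, .ofNat 63, .ofNat 360, .negSucc 213, .ofNat 82⟩, ⟨.negSucc 3060, .negSucc 33, .negSucc 16, .negSucc 377, .ofNat 56, .ofNat 58⟩, ⟨.negSucc 200, .negSucc 18, .ofNat 11, .negSucc 79, .ofNat 179, .ofNat 80⟩, .ofNat 852, .ofNat 507, .ofNat 0, .ofNat 507, .ofNat 1737, .ofNat 0, .ofNat 337, .negSucc 90, .negSucc 67, .ofNat 0, .ofNat 128, .ofNat 18, .ofNat 0, .ofNat 0, .ofNat 775, .ofNat 1021, .ofNat 0, .ofNat 4119558487458410289945357317141767913472, .ofNat 0, .ofNat 0, .ofNat 0, .ofNat 0, .ofNat 0, .ofNat 0, .ofNat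 0, .ofNat 1825436115415755162145082387319899218247680, .ofNat 0, .ofNat 0, .ofNat 0, .ofNat 3656481839910515462933453290003955665862656, .ofNat 0, .ofNat 0⟩)
    (by decide +kernel)
theorem L00148 : Good (Phi V5.P V5.D 1 (-1)) ⟨5, 0, 3, 2, 2, 0, 2, 3, 3, 3⟩ :=
  leafYS_sound T5.ok_pm T5.Ypm.bz_eq (w := 208) (c := ⟨⟨.negSucc 910, .negSucc 14, .negSucc 9, .negSucc 88, .ofNat 35, .ofNat 12⟩, ⟨.ofNat 218, .ofNat 14, .ofNat 125, .ofNat 26, .ofNat 3, .ofNat 0⟩, ⟨.ofNat 625, .ofNat 18, .ofNat 44, .ofNat 299, .negSucc 407, .negSucc 99⟩, ⟨.negSucc 2752, .negSucc 34, .negSucc 26, .negSucc 266, .ofNat 136, .ofNat 51⟩, ⟨.negSucc 74, .ofNat 23, .ofNat 22, .ofNat 5, .ofNat 105, .ofNat 38⟩, .ofNat 932, .ofNat 615, .ofNat 0, .ofNat 615, .ofNat 2025, .ofNat 0, .ofNat 236, .negSucc 89, .negSucc 33, .ofNat 0, .ofNat 128, .ofNat 8, .ofNat 0, .ofNat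 0, .ofNat 394, .ofNat 1264, .ofNat 0, .ofNat 0, .ofNat 0, .ofNat 0, .ofNat 0, .ofNat 0, .ofNat 0, .ofNat 0, .ofNat 0, .ofNat 0, .ofNat 0, .ofNat 0, .ofNat 11457359961621863095915367907326891831328768, .ofNat 0, .ofNat 0, .ofNat 0⟩)
    (by decide +kernel)
theorem L00149 : Good (Phi V5.P V5.D 1 (-1)) ⟨5, 0, 3, 2, 2, 1, 3, 6, 3, 3⟩ :=
  leafYS_sound T5.ok_pm T5.Ypm.bz_eq (w := 213) (c := ⟨⟨.negSucc 977, .negSucc 3, .negSucc 1, .negSucc 95, .negSucc 31, .ofNat 55⟩, ⟨.ofNat 226, .ofNat 9, .ofNat 130, .ofNat 21, .ofNat 22, .negSucc 13⟩, ⟨.ofNat 814, .ofNat 40, .ofNat 99, .ofNat 542, .negSucc 157, .ofNat 118⟩, ⟨.negSucc 2962, .negSucc 15, .negSucc 26, .negSucc 319, .negSucc 62, .ofNat 178⟩, ⟨.negSucc 107, .negSucc 17, .negSucc 15, .negSucc 103, .ofNat 95, .ofNat 41⟩, .ofNat 856, .ofNat 515, .ofNat 0, .ofNat 515, .ofNat 1746, .ofNat 0,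 .ofNat 189, .negSucc 89, .negSucc 65, .ofNat 0, .ofNat 128, .negSucc 5, .ofNat 0, .ofNat 0, .ofNat 2065, .ofNat 2826, .ofNat 0, .ofNat 0, .ofNat 0, .ofNat 0, .ofNat 0, .ofNat 9459488614983830822406811791958549142175744, .ofNat 0, .ofNat 0, .ofNat 0, .ofNat 11676865043470844806529493603292548312334336, .ofNat 0, .ofNat 0, .ofNat 0, .ofNat 168136218925347695738841641952026946739109888, .ofNat 0, .ofNat 0⟩)
    (by decide +kernel)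
theorem L00150 : Good (Phi V5.P V5.D 1 (-1)) ⟨5, 0, 3, 2, 2, 1, 3, 7, 3, 3⟩ :=
  leafYS_sound T5.ok_pm T5.Ypm.bz_eq (w := 214) (c := ⟨⟨.negSucc 976, .negSucc 10, .negSucc 6, .negSucc 156, .negSucc 50, .ofNat 0⟩, ⟨.ofNat 238, .ofNat 10, .ofNat 129, .ofNat 47, .ofNat 36, .ofNat 11⟩, ⟨.ofNat 708, .ofNat 14, .ofNat 86, .ofNat 558, .negSucc 176, .negSucc 87⟩, ⟨.negSucc 2943, .negSucc 33, .negSucc 25, .negSucc 472, .negSucc 98, .ofNat 30⟩, ⟨.negSucc 32, .negSucc 14, .negSucc 11, .negSucc 24, .ofNat 158, .ofNat 94⟩, .ofNat 946, .ofNat 641, .ofNat 0, .ofNat 641, .ofNat 2053, .ofNat 0, .ofNat 196, .negSucc 92, .negSucc 35, .ofNat 0, .ofNat 128, .ofNat 0, .ofNat 0, .ofNat 0, .ofNat 724, .ofNat 6662, .ofNat 0, .ofNat 928221533215481230017354858363586963570688, .ofNat 0, .ofNat 0, .ofNat 0, .ofNat 37037727608547447224409105190970545152196608,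 .ofNat 0, .ofNat 0, .ofNat 0, .ofNat 32766670951085069801714470302960049090199552, .ofNat 0, .ofNat 0, .ofNat 0, .ofNat 49889833348683641332076362116556379041824768, .ofNat 0, .ofNat 0⟩)
    (by decide +kernel)
theorem L00151 : Good (Phi V5.P V5.D 1 (-1)) ⟨5, 0, 3, 2, 1, 0, 2, 3, 1, 1⟩ :=
  leafYS_sound T5.ok_pm T5.Ypm.bz_eq (w := 194) (c := ⟨⟨.negSucc 960, .negSucc 1, .ofNat 0, .ofNat 0, .ofNat 0, .ofNat 0⟩, ⟨.ofNat 240, .ofNat 9, .ofNat 120, .ofNat 0, .ofNat 0, .ofNat 0⟩, ⟨.ofNat 263, .ofNat 2, .ofNat 0, .ofNat 0, .ofNat 0, .ofNat 0⟩, ⟨.negSucc 2882, .negSucc 0, .ofNat 0, .ofNat 1, .negSucc 0, .ofNat 1⟩, ⟨.ofNat 0, .ofNat 0, .ofNat 0, .ofNat 0, .ofNat 0, .ofNat 0⟩, .ofNat 193, .ofNat 18, .ofNat 0, .ofNat 18, .ofNat 225, .ofNat 0, .ofNat 142, .negSucc 17, .negSucc 102, .ofNat 0, .ofNat 128, .ofNat 12, .ofNat 0, .ofNat 0, .ofNat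 301, .ofNat 13681, .ofNat 9583188969013494342651656569199001600000000, .ofNat 210623585880390030257973981458026312237056, .ofNat 0, .ofNat 0, .ofNat 613324094016863637929706020428736102400000000, .ofNat 13479673182502095339070138090970023389560832, .ofNat 0, .ofNat 0, .ofNat 613324094016863637929706020428736102400000000, .ofNat 13479679517144827570767148239023439540649984, .ofNat 0, .ofNat 0, .ofNat 613324094016863637929706020428736102400000000, .ofNat 13479677277804548050793520071855319554195456, .ofNat 0, .ofNat 0⟩)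
    (by decide +kernel)
theorem L00152 : Good (Phi V5.P V5.D 1 (-1)) ⟨5, 1, 3, 2, 2, 0, 2, 2, 3, 0⟩ :=
  leafYS_sound T5.ok_pm T5.Ypm.bz_eq (w := 206) (c := ⟨⟨.negSucc 206, .ofNat 16, .ofNat 28, .ofNat 156, .negSucc 36, .negSucc 877⟩, ⟨.ofNat 31, .ofNat 18, .ofNat 85, .negSucc 90, .ofNat 5, .ofNat 275⟩, ⟨.ofNat 103, .negSucc 14, .negSucc 30, .negSucc 232, .ofNat 42, .ofNat 905⟩, ⟨.negSucc 628, .ofNat 86, .ofNat 58, .ofNat 344, .negSucc 101, .negSucc 2587⟩, ⟨.negSucc 55, .ofNat 98, .negSucc 26, .negSucc 381, .ofNat 74, .ofNat 73⟩, .ofNat 854, .ofNat 513, .ofNat 0, .ofNat 513, .ofNat 1731, .ofNat 0, .ofNat 365, .negSucc 88, .negSucc 189, .ofNat 0, .ofNat 128, .ofNat 64, .ofNat 0, .ofNat 0, .ofNat 578, .ofNat 784, .ofNat 0, .ofNat 0, .ofNat 0, .ofNat 0, .ofNat 0, .ofNat 0, .ofNat 0, .ofNat 0, .ofNat 0, .ofNat 0, .ofNat 0, .ofNat 0,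 .ofNat 0, .ofNat 0, .ofNat 0, .ofNat 0⟩)
    (by decide +kernel)
theorem L00153 : Good (Phi V5.P V5.D 1 (-1)) ⟨5, 1, 3, 2, 2, 0, 3, 6, 3, 0⟩ :=
  leafYS_sound T5.ok_pm T5.Ypm.bz_eq (w := 211) (c := ⟨⟨.negSucc 451, .negSucc 24, .negSucc 14, .ofNat 66, .ofNat 115, .negSucc 501⟩, ⟨.ofNat 99, .ofNat 16, .ofNat 90, .negSucc 42, .negSucc 38, .ofNat 161⟩, ⟨.ofNat 358, .ofNat 40, .ofNat 15, .negSucc 84, .negSucc 132, .ofNat 448⟩, ⟨.negSucc 1337, .negSucc 58, .negSucc 45, .ofNat 124, .ofNat 321, .negSucc 1513⟩, ⟨.negSucc 3, .ofNat 19, .ofNat 30, .negSucc 240, .negSucc 13, .negSucc 20⟩, .ofNat 662, .ofNat 289, .ofNat 0, .ofNat 289, .ofNat 1151, .ofNat 0, .ofNat 317, .negSucc 73, .negSucc 210, .ofNat 0, .ofNat 128, .ofNat 67, .ofNat 0, .ofNat 0, .ofNat 590, .ofNat 1760, .ofNat 0, .ofNat 0, .ofNat 0, .ofNat 0, .ofNat 0, .ofNat 0, .ofNat 0, .ofNat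 0, .ofNat 0, .ofNat 0, .ofNat 0, .ofNat 0, .ofNat 0, .ofNat 0, .ofNat 0, .ofNat 0⟩)
    (by decide +kernel)
theorem L00154 : Good (Phi V5.P V5.D 1 (-1)) ⟨5, 1, 3, 2, 2, 0, 3, 7, 3, 0⟩ :=
  leafYS_sound T5.ok_pm T5.Ypm.bz_eq (w := 212) (c := ⟨⟨.negSucc 540, .negSucc 2, .ofNat 6, .ofNat 31, .ofNat 478, .negSucc 276⟩, ⟨.ofNat 139, .ofNat 6, .ofNat 56, .negSucc 40, .negSucc 161, .ofNat 101⟩, ⟨.ofNat 453, .ofNat 19, .negSucc 8, .negSucc 1, .negSucc 542, .ofNat 142⟩, ⟨.negSucc 1618, .negSucc 7, .ofNat 14, .ofNat 1, .ofNat 1398, .negSucc 793⟩, ⟨.negSucc 31, .negSucc 19, .ofNat 29, .negSucc 276, .negSucc 49, .ofNat 68⟩, .ofNat 855, .ofNat 514, .ofNat 0, .ofNat 514, .ofNat 1732, .ofNat 0, .ofNat 269, .negSucc 88, .negSucc 254, .ofNat 0, .ofNat 128, .ofNat 84, .ofNat 0, .ofNat 0, .ofNat 664, .ofNat 2188, .ofNat 0, .ofNat 0, .ofNat 0, .ofNat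 0, .ofNat 0, .ofNat 0, .ofNat 0, .ofNat 0, .ofNat 0, .ofNat 0, .ofNat 0, .ofNat 0, .ofNat 0, .ofNat 0, .ofNat 0, .ofNat 0⟩)
    (by decide +kernel)
theorem L00155 : Good (Phi V5.P V5.D 1 (-1)) ⟨5, 1, 3, 2, 2, 0, 2, 2, 3, 1⟩ :=
  leafYS_sound T5.ok_pm T5.Ypm.bz_eq (w := 208) (c := ⟨⟨.negSucc 1114, .negSucc 5, .ofNat 10, .ofNat 6, .ofNat 121, .negSucc 36⟩, ⟨.ofNat 287, .ofNat 8, .ofNat 135, .negSucc 22, .negSucc 38, .ofNat 13⟩, ⟨.ofNat 1084, .negSucc 3, .negSucc 22, .negSucc 40, .negSucc 227, .ofNat 92⟩, ⟨.negSucc 3345, .negSucc 1, .ofNat 19, .negSucc 40, .ofNat 364, .negSucc 103⟩, ⟨.negSucc 39, .ofNat 4, .ofNat 10, .negSucc 177, .ofNat 10, .ofNat 17⟩, .ofNat 948, .ofNat 647, .ofNat 0, .ofNat 647, .ofNat 2042, .ofNat 0, .ofNat 182, .negSucc 93, .negSucc 98, .ofNat 0, .ofNat 128, .ofNat 36, .ofNat 0, .ofNat 0, .ofNat 574, .ofNat 3226,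 .ofNat 0, .ofNat 0, .ofNat 0, .ofNat 0, .ofNat 0, .ofNat 0, .ofNat 0, .ofNat 0, .ofNat 0, .ofNat 0, .ofNat 0, .ofNat 0, .ofNat 0, .ofNat 0, .ofNat 0, .ofNat 0⟩)
    (by decide +kernel)
theorem L00156 : Good (Phi V5.P V5.D 1 (-1)) ⟨5, 1, 3, 2, 2, 0, 2, 3, 3, 1⟩ :=
  leafYS_sound T5.ok_pm T5.Ypm.bz_eq (w := 207) (c := ⟨⟨.negSucc 840, .negSucc 32, .negSucc 30, .negSucc 76, .ofNat 394, .negSucc 156⟩, ⟨.ofNat 212, .ofNat 22, .ofNat 113, .ofNat 5, .negSucc 120, .ofNat 52⟩, ⟨.ofNat 752, .ofNat 57, .ofNat 36, .ofNat 186, .negSucc 676, .ofNat 42⟩, ⟨.negSucc 2541, .negSucc 69, .negSucc 113, .negSucc 266, .ofNat 1192, .negSucc 452⟩, ⟨.negSucc 79, .ofNat 52, .negSucc 50, .negSucc 125, .ofNat 36, .ofNat 60⟩, .ofNat 852, .ofNat 508, .ofNat 0, .ofNat 508, .ofNat 1727, .ofNat 0, .ofNat 262, .negSucc 87, .negSucc 91, .ofNat 0, .ofNat 128, .ofNat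 31, .ofNat 0, .ofNat 0, .ofNat 414, .ofNat 1078, .ofNat 0, .ofNat 0, .ofNat 0, .ofNat 0, .ofNat 0, .ofNat 0, .ofNat 0, .ofNat 0, .ofNat 0, .ofNat 833324721025217238914877770128456098512896, .ofNat 0, .ofNat 0, .ofNat 0, .ofNat 0, .ofNat 0, .ofNat 0⟩)
    (by decide +kernel)
theorem L00157 : Good (Phi V5.P V5.D 1 (-1)) ⟨5, 1, 3, 2, 2, 1, 1, 1, 3, 0⟩ :=
  leafYS_sound T5.ok_pm T5.Ypm.bz_eq (w := 202) (c := ⟨⟨.ofNat 127, .ofNat 74, .ofNat 36, .negSucc 7, .negSucc 183, .negSucc 1022⟩, ⟨.negSucc 91, .negSucc 17, .ofNat 52, .ofNat 3, .ofNat 56, .ofNat 309⟩, ⟨.negSucc 383, .negSucc 53, .negSucc 11, .ofNat 83, .ofNat 415, .ofNat 875⟩, ⟨.ofNat 336, .ofNat 235, .ofNat 96, .negSucc 28, .negSucc 571, .negSucc 3109⟩, ⟨.negSucc 150, .ofNat 28, .ofNat 70, .negSucc 15, .negSucc 54, .negSucc 233⟩, .ofNat 856, .ofNat 516, .ofNat 0, .ofNat 516, .ofNat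 1734, .ofNat 0, .ofNat 255, .negSucc 93, .negSucc 176, .ofNat 0, .ofNat 128, .ofNat 68, .ofNat 0, .ofNat 0, .ofNat 501, .ofNat 557, .ofNat 0, .ofNat 0, .ofNat 0, .ofNat 0, .ofNat 0, .ofNat 0, .ofNat 0, .ofNat 0, .ofNat 0, .ofNat 0, .ofNat 0, .ofNat 0, .ofNat 0, .ofNat 0, .ofNat 0, .ofNat 0⟩)
    (by decide +kernel)
theorem L00158 : Good (Phi V5.P V5.D 1 (-1)) ⟨5, 1, 3, 2, 2, 1, 1, 1, 3, 1⟩ :=
  leafYS_sound T5.ok_pm T5.Ypm.bz_eq (w := 203) (c := ⟨⟨.negSucc 973, .ofNat 7, .negSucc 5, .negSucc 77, .ofNat 151, .negSucc 154⟩, ⟨.ofNat 201, .ofNat 8, .ofNat 144, .ofNat 16, .negSucc 26, .ofNat 57⟩, ⟨.ofNat 670, .ofNat 15, .ofNat 55, .ofNat 67, .negSucc 73, .ofNat 273⟩, ⟨.negSucc 3013, .ofNat 21, .negSucc 44, .negSucc 246, .ofNat 499, .negSucc 440⟩, ⟨.negSucc 356, .negSucc 37, .ofNat 19, .negSucc 43, .ofNat 152, .ofNat 84⟩, .ofNat 854, .ofNat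 513, .ofNat 0, .ofNat 513, .ofNat 1731, .ofNat 0, .ofNat 280, .negSucc 93, .negSucc 106, .ofNat 0, .ofNat 128, .ofNat 42, .ofNat 0, .ofNat 0, .ofNat 520, .ofNat 763, .ofNat 0, .ofNat 0, .ofNat 0, .ofNat 0, .ofNat 0, .ofNat 347577872903247989946319918648833366556672, .ofNat 0, .ofNat 0, .ofNat 0, .ofNat 101094083798153254943373789549817254379520, .ofNat 0, .ofNat 0, .ofNat 0, .ofNat 0, .ofNat 0, .ofNat 0⟩)
    (by decide +kernel)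
theorem L00159 : Good (Phi V5.P V5.D 1 (-1)) ⟨5, 1, 3, 2, 1, 0, 2, 2, 3, 2⟩ :=
  leafYS_sound T5.ok_pm T5.Ypm.bz_eq (w := 195) (c := ⟨⟨.negSucc 1090, .negSucc 4, .negSucc 6, .negSucc 86, .ofNat 49, .ofNat 84⟩, ⟨.ofNat 275, .ofNat 9, .ofNat 138, .negSucc 4, .negSucc 10, .negSucc 21⟩, ⟨.ofNat 978, .negSucc 30, .ofNat 90, .ofNat 235, .negSucc 143, .ofNat 12⟩, ⟨.negSucc 3273, .negSucc 3, .negSucc 37, .negSucc 343, .ofNat 160, .ofNat 248⟩, ⟨.negSucc 59, .ofNat 6, .ofNat 5, .negSucc 266, .ofNat 41, .ofNat 11⟩, .ofNat 974, .ofNat 681, .ofNat 0, .ofNat 681, .ofNat 2151, .ofNat 0, .ofNat 247, .negSucc 92, .negSucc 126, .ofNat 0, .ofNat 128, .ofNat 45, .ofNat 0, .ofNat 0, .ofNat 1445, .ofNat 4573, .ofNat 0, .ofNat 0, .ofNat 0, .ofNat 0, .ofNat 0, .ofNat 0, .ofNat 0, .ofNat 0, .ofNat 0, .ofNat 0, .ofNat 0, .ofNat 0, .ofNat 0, .ofNat 0, .ofNat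 0, .ofNat 0⟩)
    (by decide +kernel)
theorem L00160 : Good (Phi V5.P V5.D 1 (-1)) ⟨5, 1, 3, 2, 2, 0, 2, 3, 3, 2⟩ :=
  leafYS_sound T5.ok_pm T5.Ypm.bz_eq (w := 208) (c := ⟨⟨.negSucc 949, .ofNat 0, .negSucc 5, .negSucc 75, .ofNat 154, .negSucc 7⟩, ⟨.ofNat 240, .ofNat 7, .ofNat 120, .ofNat 12, .negSucc 39, .ofNat 8⟩, ⟨.ofNat 757, .ofNat 8, .ofNat 26, .ofNat 241, .negSucc 493, .negSucc 84⟩, ⟨.negSucc 2857, .ofNat 8, .negSucc 19, .negSucc 263, .ofNat 492, .negSucc 11⟩, ⟨.negSucc 49, .negSucc 8, .ofNat 6, .negSucc 106, .ofNat 85, .ofNat 50⟩, .ofNat 662, .ofNat 288, .ofNat 0, .ofNat 288, .ofNat 1150, .ofNat 0, .ofNat 295, .negSucc 72, .negSucc 61, .ofNat 0, .ofNat 128, .ofNat 18, .ofNat 0, .ofNat 0, .ofNat 427, .ofNat 1863, .ofNat 0, .ofNat 0, .ofNat 0, .ofNat 0, .ofNat 0, .ofNat 0, .ofNat 0, .ofNat 0, .ofNat 0, .ofNat 1530758982223468399271949135534659460923392,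 .ofNat 0, .ofNat 0, .ofNat 0, .ofNat 0, .ofNat 0, .ofNat 0⟩)
    (by decide +kernel)
theorem L00161 : Good (Phi V5.P V5.D 1 (-1)) ⟨5, 1, 3, 2, 2, 1, 2, 3, 3, 2⟩ :=
  leafYS_sound T5.ok_pm T5.Ypm.bz_eq (w := 207) (c := ⟨⟨.negSucc 1021, .negSucc 11, .ofNat 8, .negSucc 123, .negSucc 0, .ofNat 30⟩, ⟨.ofNat 239, .ofNat 11, .ofNat 132, .ofNat 31, .ofNat 19, .negSucc 2⟩, ⟨.ofNat 823, .ofNat 37, .ofNat 28, .ofNat 390, .negSucc 202, .ofNat 108⟩, ⟨.negSucc 3114, .negSucc 29, .ofNat 4, .negSucc 400, .ofNat 50, .ofNat 111⟩, ⟨.negSucc 192, .negSucc 16, .ofNat 2, .negSucc 101, .ofNat 160, .ofNat 68⟩, .ofNat 857, .ofNat 517, .ofNat 0, .ofNat 517, .ofNat 1734, .ofNat 0, .ofNat 300, .negSucc 91, .negSucc 69, .ofNat 0, .ofNat 128, .ofNat 18, .ofNat 0, .ofNat 0, .ofNat 704, .ofNat 1125, .ofNat 0, .ofNat 0, .ofNat 0, .ofNat 0, .ofNat 0, .ofNat 3904951663767593581970183825906157511245824,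 .ofNat 0, .ofNat 0, .ofNat 0, .ofNat 1913942096345864930184481450669579817713664, .ofNat 0, .ofNat 0, .ofNat 0, .ofNat 3619994546414920219320828229496278907617280, .ofNat 0, .ofNat 0⟩)
    (by decide +kernel)
theorem L00162 : Good (Phi V5.P V5.D 1 (-1)) ⟨5, 1, 3, 2, 1, 0, 2, 2, 4, 6⟩ :=
  leafYS_sound T5.ok_pm T5.Ypm.bz_eq (w := 201) (c := ⟨⟨.negSucc 993, .negSucc 4, .ofNat 6, .negSucc 86, .ofNat 16, .ofNat 44⟩, ⟨.ofNat 248, .ofNat 11, .ofNat 127, .negSucc 3, .ofNat 4, .negSucc 11⟩, ⟨.ofNat 837, .ofNat 59, .ofNat 43, .ofNat 543, .negSucc 202, .ofNat 155⟩, ⟨.negSucc 2980, .negSucc 11, .negSucc 3, .negSucc 344, .ofNat 73, .ofNat 133⟩, ⟨.negSucc 29, .negSucc 2, .negSucc 8, .negSucc 283, .ofNat 64, .ofNat 8⟩, .ofNat 770, .ofNat 406, .ofNat 0, .ofNat 406, .ofNat 1464, .ofNat 0, .ofNat 180, .negSucc 83, .negSucc 105, .ofNat 0, .ofNat 128,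 .ofNat 22, .ofNat 0, .ofNat 0, .ofNat 2309, .ofNat 9230, .ofNat 0, .ofNat 0, .ofNat 0, .ofNat 0, .ofNat 0, .ofNat 0, .ofNat 0, .ofNat 0, .ofNat 0, .ofNat 2806530739963995711280739407221825208320, .ofNat 0, .ofNat 0, .ofNat 0, .ofNat 48142291796102489289268480286205941907456, .ofNat 0, .ofNat 0⟩)
    (by decide +kernel)
theorem L00163 : Good (Phi V5.P V5.D 1 (-1)) ⟨5, 1, 3, 2, 1, 0, 2, 2, 4, 7⟩ :=
  leafYS_sound T5.ok_pm T5.Ypm.bz_eq (w := 201) (c := ⟨⟨.negSucc 841, .negSucc 8, .ofNat 7, .negSucc 126, .negSucc 76, .ofNat 78⟩, ⟨.ofNat 195, .ofNat 9, .ofNat 125, .ofNat 11, .ofNat 41, .negSucc 34⟩, ⟨.ofNat 584, .ofNat 24, .ofNat 169, .ofNat 1281, .negSucc 411, .ofNat 579⟩, ⟨.negSucc 2554, .negSucc 16, .negSucc 12, .negSucc 459, .negSucc 172, .ofNat 195⟩, ⟨.negSucc 90, .negSucc 8, .negSucc 20, .negSucc 268, .ofNat 141, .negSucc 84⟩, .ofNat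 857, .ofNat 517, .ofNat 0, .ofNat 517, .ofNat 1734, .ofNat 0, .ofNat 168, .negSucc 88, .negSucc 75, .ofNat 0, .ofNat 128, .ofNat 15, .ofNat 0, .ofNat 0, .ofNat 2233, .ofNat 5193, .ofNat 0, .ofNat 0, .ofNat 0, .ofNat 0, .ofNat 132732678135177089512644364493415459586048, .ofNat 4174933747918949164933048075406335279104, .ofNat 0, .ofNat 0, .ofNat 162913852235926326442503003872569145163776, .ofNat 7630833133428076642212891720990406475776, .ofNat 0, .ofNat 0, .ofNat 1895932238853916322488557550803126772039680, .ofNat 87984356570825903086542847398240453656576, .ofNat 0, .ofNat 0⟩)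
    (by decide +kernel)
theorem L00164 : Good (Phi V5.P V5.D 1 (-1)) ⟨5, 1, 3, 2, 2, 0, 2, 3, 3, 3⟩ :=
  leafYS_sound T5.ok_pm T5.Ypm.bz_eq (w := 209) (c := ⟨⟨.negSucc 917, .negSucc 5, .negSucc 5, .negSucc 100, .ofNat 41, .ofNat 0⟩, ⟨.ofNat 231, .ofNat 9, .ofNat 121, .ofNat 30, .negSucc 1, .ofNat 4⟩, ⟨.ofNat 632, .ofNat 18, .ofNat 29, .ofNat 318, .negSucc 422, .negSucc 97⟩, ⟨.negSucc 2758, .negSucc 11, .negSucc 12, .negSucc 307, .ofNat 150, .ofNat 7⟩, ⟨.negSucc 18, .negSucc 16, .ofNat 10, .negSucc 28, .ofNat 80, .ofNat 14⟩, .ofNat 855, .ofNat 515, .ofNat 0, .ofNat 515, .ofNat 1733, .ofNat 0, .ofNat 266, .negSucc 88, .negSucc 53, .ofNat 0, .ofNat 128, .ofNat 13, .ofNat 0, .ofNat 0, .ofNat 595, .ofNat 3241, .ofNat 0, .ofNat 0, .ofNat 0, .ofNat 0, .ofNat 0, .ofNat 0, .ofNat 0, .ofNat 0, .ofNat 0, .ofNat 3588272876160530902884362297369185923104768,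 .ofNat 0, .ofNat 0, .ofNat 31074486693164457926459149561672182999810048, .ofNat 0, .ofNat 0, .ofNat 0⟩)
    (by decide +kernel)
theorem L00165 : Good (Phi V5.P V5.D 1 (-1)) ⟨5, 1, 3, 2, 2, 1, 2, 3, 4, 6⟩ :=
  leafYS_sound T5.ok_pm T5.Ypm.bz_eq (w := 213) (c := ⟨⟨.negSucc 981, .negSucc 15, .ofNat 2, .negSucc 90, .negSucc 68, .ofNat 16⟩, ⟨.ofNat 235, .ofNat 12, .ofNat 130, .ofNat 16, .ofNat 44, .negSucc 1⟩, ⟨.ofNat 861, .ofNat 10, .ofNat 91, .ofNat 589, .negSucc 319, .ofNat 19⟩, ⟨.negSucc 2974, .negSucc 36, .negSucc 13, .negSucc 310, .negSucc 139, .ofNat 58⟩, ⟨.negSucc 116, .negSucc 13, .negSucc 9, .negSucc 122, .ofNat 186, .ofNat 22⟩, .ofNat 983, .ofNat 698, .ofNat 0, .ofNat 698, .ofNat 2169, .ofNat 0, .ofNat 181, .negSucc 94, .negSucc 31, .ofNat 0, .ofNat 128, .negSucc 14, .ofNat 0, .ofNat 0, .ofNat 1312, .ofNat 1791, .ofNat 0, .ofNat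 258587400205045187052282396750772585889792, .ofNat 0, .ofNat 0, .ofNat 0, .ofNat 25040748653211175335520636019263250035113984, .ofNat 0, .ofNat 0, .ofNat 0, .ofNat 26535131145888669382861805497077027940859904, .ofNat 0, .ofNat 0, .ofNat 0, .ofNat 101574586797725534627532785144118154000072704, .ofNat 0, .ofNat 0⟩)
    (by decide +kernel)
theorem L00166 : Good (Phi V5.P V5.D 1 (-1)) ⟨5, 1, 3, 2, 2, 1, 2, 3, 4, 7⟩ :=
  leafYS_sound T5.ok_pm T5.Ypm.bz_eq (w := 214) (c := ⟨⟨.negSucc 965, .negSucc 10, .negSucc 1, .negSucc 64, .negSucc 85, .ofNat 22⟩, ⟨.ofNat 237, .ofNat 9, .ofNat 128, .ofNat 1, .ofNat 52, .negSucc 4⟩, ⟨.ofNat 802, .ofNat 19, .ofNat 115, .ofNat 857, .negSucc 358, .negSucc 1⟩, ⟨.negSucc 2917, .negSucc 22, .negSucc 27, .negSucc 240, .negSucc 187, .ofNat 72⟩, ⟨.negSucc 83, .negSucc 11, .negSucc 19, .negSucc 155, .ofNat 205,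 .ofNat 21⟩, .ofNat 989, .ofNat 702, .ofNat 0, .ofNat 702, .ofNat 2207, .ofNat 0, .ofNat 226, .negSucc 91, .negSucc 26, .ofNat 0, .ofNat 128, .negSucc 19, .ofNat 0, .ofNat 0, .ofNat 1713, .ofNat 2721, .ofNat 0, .ofNat 977795379725270677222458165396178779242496, .ofNat 0, .ofNat 0, .ofNat 0, .ofNat 51806439712894841996383681987371507428360192, .ofNat 0, .ofNat 0, .ofNat 0, .ofNat 39605253082672123943586994762598711824482304, .ofNat 0, .ofNat 0, .ofNat 0, .ofNat 306115546517231514216855105351879430984695808, .ofNat 0, .ofNat 0⟩)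
    (by decide +kernel)
theorem L00167 : Good (Phi V5.P V5.D 1 (-1)) ⟨5, 1, 3, 2, 1, 0, 1, 1, 1, 1⟩ :=
  leafYS_sound T5.ok_pm T5.Ypm.bz_eq (w := 190) (c := ⟨⟨.negSucc 961, .negSucc 4, .ofNat 0, .ofNat 0, .ofNat 0, .ofNat 0⟩, ⟨.ofNat 249, .ofNat 9, .ofNat 120, .ofNat 0, .ofNat 0, .ofNat 0⟩, ⟨.ofNat 265, .ofNat 5, .ofNat 0, .ofNat 0, .ofNat 0, .ofNat 0⟩, ⟨.negSucc 2883, .negSucc 1, .ofNat 0, .ofNat 1, .negSucc 0, .ofNat 1⟩, ⟨.ofNat 0, .ofNat 0, .ofNat 0, .ofNat 0, .ofNat 0, .ofNat 0⟩, .ofNat 193, .ofNat 18, .ofNat 0, .ofNat 18, .ofNat 224, .ofNat 0, .ofNat 141, .negSucc 17, .negSucc 102, .ofNat 0, .ofNat 128, .ofNat 12, .ofNat 0, .ofNat 0, .ofNat 300, .ofNat 13474, .ofNat 1197898621126686792831457071149875200000000, .ofNat 46074248108580748139033013424987570176000, .ofNat 0, .ofNat 0, .ofNat 76665511752107954741213252553592012800000000,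 .ofNat 3026278370728939537961679892417369797033984, .ofNat 0, .ofNat 0, .ofNat 76665511752107954741213252553592012800000000, .ofNat 3616303665824020266157290363709166899429376, .ofNat 0, .ofNat 0, .ofNat 76665511752107954741213252553592012800000000, .ofNat 3026278251017087454808608132674705894146048, .ofNat 0, .ofNat 0⟩)
    (by decide +kernel)
theorem L00168 : Good (Phi V5.P V5.D 1 (-1)) ⟨4, 0, 5, 12, 1, 0, 2, 2, 3, 0⟩ :=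
  leafYS_sound T5.ok_pm T5.Ypm.bz_eq (w := 195) (c := ⟨⟨.negSucc 0, .ofNat 12, .negSucc 39, .ofNat 330, .negSucc 32, .negSucc 1059⟩, ⟨.negSucc 3, .ofNat 4, .ofNat 27, .negSucc 159, .ofNat 13, .ofNat 409⟩, ⟨.negSucc 125, .ofNat 18, .ofNat 25, .negSucc 477, .ofNat 98, .ofNat 1035⟩, ⟨.ofNat 42, .ofNat 44, .negSucc 141, .ofNat 838, .negSucc 127, .negSucc 3207⟩, ⟨.ofNat 116, .ofNat 2, .negSucc 47, .negSucc 372, .negSucc 54, .negSucc 96⟩, .ofNat 1098, .ofNat 914, .ofNat 0, .ofNat 914, .ofNat 2363, .ofNat 0, .ofNat 211, .negSucc 116, .negSucc 140, .ofNat 0, .ofNat 128, .ofNat 61, .ofNat 0, .ofNat 0, .ofNat 427, .ofNat 1037, .ofNat 0, .ofNat 0, .ofNat 0, .ofNat 0, .ofNat 0, .ofNat 0, .ofNat 0, .ofNat 0, .ofNat 0, .ofNat 0, .ofNat 0, .ofNat 0, .ofNat 0, .ofNat 0, .ofNat 0, .ofNat 0⟩)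
    (by decide +kernel)
theorem L00169 : Good (Phi V5.P V5.D 1 (-1)) ⟨4, 0, 5, 12, 1, 0, 2, 2, 3, 1⟩ :=
  leafYS_sound T5.ok_pm T5.Ypm.bz_eq (w := 196) (c := ⟨⟨.negSucc 1049, .ofNat 3, .ofNat 10, .ofNat 3, .ofNat 92, .negSucc 111⟩, ⟨.ofNat 391, .ofNat 15, .ofNat 32, .negSucc 38, .negSucc 35, .ofNat 46⟩, ⟨.ofNat 874, .ofNat 17, .negSucc 2, .negSucc 197, .negSucc 72, .ofNat 303⟩, ⟨.negSucc 3156, .ofNat 20, .ofNat 23, .negSucc 140, .ofNat 279, .negSucc 330⟩, ⟨.negSucc 14, .negSucc 5, .negSucc 0, .negSucc 382, .ofNat 7, .ofNat 8⟩, .ofNat 1186, .ofNat 1053, .ofNat 0, .ofNat 1053, .ofNat 2639, .ofNat 0, .ofNat 167, .negSucc 117, .negSucc 74, .ofNat 0, .ofNat 128, .ofNat 34, .ofNat 0, .ofNat 0, .ofNat 414, .ofNat 1583, .ofNat 0, .ofNat 0, .ofNat 0, .ofNat 0, .ofNat 0, .ofNat 0, .ofNat 0, .ofNat 0, .ofNat 0, .ofNat 0, .ofNat 0, .ofNat 0,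 .ofNat 0, .ofNat 0, .ofNat 0, .ofNat 0⟩)
    (by decide +kernel)
theorem L00170 : Good (Phi V5.P V5.D 1 (-1)) ⟨4, 0, 5, 12, 1, 0, 2, 2, 3, 2⟩ :=
  leafYS_sound T5.ok_pm T5.Ypm.bz_eq (w := 197) (c := ⟨⟨.negSucc 1077, .negSucc 17, .negSucc 10, .negSucc 73, .ofNat 60, .ofNat 62⟩, ⟨.ofNat 398, .ofNat 25, .ofNat 40, .ofNat 0, .negSucc 19, .negSucc 20⟩, ⟨.ofNat 899, .ofNat 69, .ofNat 33, .ofNat 231, .negSucc 141, .ofNat 141⟩, ⟨.negSucc 3253, .negSucc 32, .negSucc 30, .negSucc 344, .ofNat 194, .ofNat 197⟩, ⟨.negSucc 54, .ofNat 15, .ofNat 16, .negSucc 308, .ofNat 35, .ofNat 33⟩, .ofNat 1155, .ofNat 1004, .ofNat 0, .ofNat 1004, .ofNat 2547, .ofNat 0, .ofNat 128, .negSucc 117, .negSucc 127, .ofNat 0, .ofNat 131, .ofNat 55, .ofNat 0, .ofNat 0, .ofNat 1456, .ofNat 4078, .ofNat 0, .ofNat 0, .ofNat 0, .ofNat 0, .ofNat 0, .ofNat 0, .ofNat 0, .ofNat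 0, .ofNat 0, .ofNat 0, .ofNat 0, .ofNat 0, .ofNat 0, .ofNat 0, .ofNat 0, .ofNat 0⟩)
    (by decide +kernel)
theorem L00171 : Good (Phi V5.P V5.D 1 (-1)) ⟨4, 0, 5, 12, 1, 0, 3, 4, 3, 3⟩ :=
  leafYS_sound T5.ok_pm T5.Ypm.bz_eq (w := 202) (c := ⟨⟨.negSucc 1002, .negSucc 12, .ofNat 1, .negSucc 56, .ofNat 11, .ofNat 104⟩, ⟨.ofNat 373, .ofNat 20, .ofNat 33, .negSucc 5, .negSucc 1, .negSucc 38⟩, ⟨.ofNat 923, .ofNat 52, .ofNat 11, .ofNat 444, .negSucc 97, .ofNat 594⟩, ⟨.negSucc 3019, .negSucc 25, .negSucc 0, .negSucc 285, .ofNat 46, .ofNat 311⟩, ⟨.negSucc 26, .negSucc 4, .ofNat 3, .negSucc 293, .ofNat 28, .ofNat 8⟩, .ofNat 1177, .ofNat 1038, .ofNat 0, .ofNat 1038, .ofNat 2608, .ofNat 0, .ofNat 128, .negSucc 120, .negSucc 100, .ofNat 0, .ofNat 136, .ofNat 38, .ofNat 0, .ofNat 0, .ofNat 2472, .ofNat 9757, .ofNat 0, .ofNat 0, .ofNat 0, .ofNat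 0, .ofNat 606475076935726518617649203730578038325248, .ofNat 0, .ofNat 0, .ofNat 0, .ofNat 1411981883084870754002900513289205706653696, .ofNat 0, .ofNat 0, .ofNat 0, .ofNat 16004211760640971635663856044631248861134848, .ofNat 0, .ofNat 0, .ofNat 0⟩)
    (by decide +kernel)
theorem L00172 : Good (Phi V5.P V5.D 1 (-1)) ⟨4, 0, 5, 12, 1, 0, 3, 5, 3, 3⟩ :=
  leafYS_sound T5.ok_pm T5.Ypm.bz_eq (w := 200) (c := ⟨⟨.negSucc 954, .negSucc 21, .ofNat 4, .negSucc 95, .ofNat 3, .ofNat 83⟩, ⟨.ofNat 355, .ofNat 24, .ofNat 31, .ofNat 12, .ofNat 2, .negSucc 30⟩, ⟨.ofNat 697, .ofNat 9, .ofNat 26, .ofNat 801, .negSucc 96, .ofNat 348⟩, ⟨.negSucc 2871, .negSucc 54, .ofNat 3, .negSucc 390, .ofNat 20, .ofNat 250⟩, ⟨.negSucc 20, .negSucc 3, .negSucc 3, .negSucc 265, .ofNat 32, .ofNat 8⟩, .ofNat 1099, .ofNat 914, .ofNat 0, .ofNat 914, .ofNat 2359, .ofNat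 0, .ofNat 135, .negSucc 113, .negSucc 89, .ofNat 0, .ofNat 128, .ofNat 29, .ofNat 0, .ofNat 0, .ofNat 2057, .ofNat 1722, .ofNat 0, .ofNat 0, .ofNat 0, .ofNat 0, .ofNat 0, .ofNat 6720473536646499816648934454833776164864, .ofNat 0, .ofNat 0, .ofNat 0, .ofNat 12681801992187452927246527688874366337024, .ofNat 0, .ofNat 0, .ofNat 0, .ofNat 122846806100562691206823196385128338161664, .ofNat 0, .ofNat 0⟩)
    (by decide +kernel)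
theorem L00173 : Good (Phi V5.P V5.D 1 (-1)) ⟨4, 0, 5, 12, 2, 0, 2, 2, 3, 4⟩ :=
  out_sound (S := T5.ds_pm) T5.ok_pm (w := 22) (j := 1) (by decide +kernel)
theorem L00174 : Good (Phi V5.P V5.D 1 (-1)) ⟨4, 0, 5, 12, 3, 2, 2, 2, 4, 8⟩ :=
  out_sound (S := T5.ds_pm) T5.ok_pm (w := 26) (j := 1) (by decide +kernel)
theorem L00175 : Good (Phi V5.P V5.D 1 (-1)) ⟨4, 0, 5, 12, 3, 3, 3, 4, 4, 8⟩ :=
  out_sound (S := T5.ds_pm) T5.ok_pm (w := 27) (j := 1) (by decide +kernel)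
theorem L00176 : Good (Phi V5.P V5.D 1 (-1)) ⟨4, 0, 5, 12, 4, 6, 3, 5, 5, 16⟩ :=
  out_sound (S := T5.ds_pm) T5.ok_pm (w := 31) (j := 1) (by decide +kernel)
theorem L00177 : Good (Phi V5.P V5.D 1 (-1)) ⟨4, 0, 5, 12, 4, 7, 4, 10, 5, 16⟩ :=
  out_sound (S := T5.ds_pm) T5.ok_pm (w := 32) (j := 1) (by decide +kernel)
theorem L00178 : Good (Phi V5.P V5.D 1 (-1)) ⟨4, 0, 5, 12, 4, 7, 4, 11, 5, 16⟩ :=
  out_sound (S := T5.ds_pm) T5.ok_pm (w := 40) (j := 2) (by decide +kernel)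
theorem L00179 : Good (Phi V5.P V5.D 1 (-1)) ⟨4, 0, 5, 12, 3, 3, 3, 5, 5, 17⟩ :=
  out_sound (S := T5.ds_pm) T5.ok_pm (w := 29) (j := 1) (by decide +kernel)
theorem L00180 : Good (Phi V5.P V5.D 1 (-1)) ⟨4, 0, 5, 12, 2, 1, 2, 2, 4, 9⟩ :=
  out_sound (S := T5.ds_pm) T5.ok_pm (w := 24) (j := 1) (by decide +kernel)
theorem L00181 : Good (Phi V5.P V5.D 1 (-1)) ⟨4, 0, 5, 12, 1, 0, 2, 2, 3, 5⟩ :=
  out_sound (S := T5.ds_pm) T5.ok_pm (w := 20) (j := 1) (by decide +kernel)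
theorem L00182 : Good (Phi V5.P V5.D 1 (-1)) ⟨4, 0, 5, 12, 1, 0, 2, 2, 2, 3⟩ :=
  out_sound (S := T5.ds_pm) T5.ok_pm (w := 18) (j := 1) (by decide +kernel)
theorem L00183 : Good (Phi V5.P V5.D 1 (-1)) ⟨4, 0, 5, 12, 1, 0, 3, 6, 3, 0⟩ :=
  leafYS_sound T5.ok_pm T5.Ypm.bz_eq (w := 199) (c := ⟨⟨.negSucc 409, .ofNat 1, .negSucc 3, .ofNat 236, .ofNat 72, .negSucc 539⟩, ⟨.ofNat 152, .ofNat 9, .ofNat 16, .negSucc 123, .negSucc 28, .ofNat 207⟩, ⟨.ofNat 256, .ofNat 38, .negSucc 4, .negSucc 200, .negSucc 28, .ofNat 455⟩, ⟨.negSucc 1226, .ofNat 18, .negSucc 31, .ofNat 587, .ofNat 218, .negSucc 1644⟩, ⟨.ofNat 5, .ofNat 18, .negSucc 33, .negSucc 306, .ofNat 16, .negSucc 79⟩, .ofNat 1181, .ofNat 1045, .ofNat 0, .ofNat 1045, .ofNat 2630, .ofNat 0, .ofNat 234, .negSucc 115, .negSucc 268, .ofNat 0, .ofNat 128, .ofNat 115, .ofNat 0, .ofNat 0, .ofNat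 719, .ofNat 1526, .ofNat 0, .ofNat 0, .ofNat 0, .ofNat 0, .ofNat 0, .ofNat 0, .ofNat 0, .ofNat 0, .ofNat 0, .ofNat 0, .ofNat 0, .ofNat 0, .ofNat 0, .ofNat 0, .ofNat 0, .ofNat 0⟩)
    (by decide +kernel)
theorem L00184 : Good (Phi V5.P V5.D 1 (-1)) ⟨4, 0, 5, 12, 2, 0, 3, 7, 3, 0⟩ :=
  leafYS_sound T5.ok_pm T5.Ypm.bz_eq (w := 214) (c := ⟨⟨.negSucc 514, .negSucc 41, .negSucc 5, .ofNat 75, .ofNat 425, .negSucc 274⟩, ⟨.ofNat 196, .ofNat 22, .ofNat 16, .negSucc 57, .negSucc 171, .ofNat 112⟩, ⟨.ofNat 417, .ofNat 61, .ofNat 9, .negSucc 60, .negSucc 471, .ofNat 144⟩, ⟨.negSucc 1541, .negSucc 120, .negSucc 19, .ofNat 106, .ofNat 1258, .negSucc 815⟩, ⟨.ofNat 0, .ofNat 4, .ofNat 9, .negSucc 292, .negSucc 31, .ofNat 11⟩, .ofNat 966, .ofNat 717, .ofNat 0, .ofNat 717, .ofNat 1955, .ofNat 0, .ofNat 261, .negSucc 108, .negSucc 304, .ofNat 0, .ofNat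 128, .ofNat 123, .ofNat 0, .ofNat 0, .ofNat 774, .ofNat 2865, .ofNat 0, .ofNat 0, .ofNat 0, .ofNat 0, .ofNat 0, .ofNat 0, .ofNat 0, .ofNat 0, .ofNat 0, .ofNat 0, .ofNat 0, .ofNat 0, .ofNat 0, .ofNat 0, .ofNat 0, .ofNat 0⟩)
    (by decide +kernel)
theorem L00185 : Good (Phi V5.P V5.D 1 (-1)) ⟨4, 0, 5, 12, 2, 1, 3, 7, 3, 0⟩ :=
  leafYS_sound T5.ok_pm T5.Ypm.bz_eq (w := 214) (c := ⟨⟨.negSucc 212, .negSucc 44, .ofNat 4, .negSucc 152, .ofNat 176, .negSucc 420⟩, ⟨.ofNat 39, .ofNat 30, .ofNat 10, .ofNat 77, .negSucc 63, .ofNat 160⟩, ⟨.ofNat 47, .ofNat 96, .negSucc 9, .ofNat 345, .negSucc 108, .ofNat 274⟩, ⟨.negSucc 783, .negSucc 105, .negSucc 2, .negSucc 393, .ofNat 545, .negSucc 1283⟩, ⟨.negSucc 368, .ofNat 64, .negSucc 13, .ofNat 159, .ofNat 47, .negSucc 69⟩, .ofNat 1131, .ofNat 965, .ofNat 0, .ofNat 965, .ofNat 2471, .ofNat 0, .ofNat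 207, .negSucc 115, .negSucc 291, .ofNat 0, .ofNat 128, .ofNat 127, .ofNat 0, .ofNat 0, .ofNat 715, .ofNat 2096, .ofNat 0, .ofNat 0, .ofNat 0, .ofNat 0, .ofNat 0, .ofNat 0, .ofNat 0, .ofNat 0, .ofNat 0, .ofNat 0, .ofNat 0, .ofNat 0, .ofNat 0, .ofNat 0, .ofNat 0, .ofNat 0⟩)
    (by decide +kernel)
theorem L00186 : Good (Phi V5.P V5.D 1 (-1)) ⟨4, 0, 5, 12, 1, 0, 3, 6, 3, 1⟩ :=
  leafYS_sound T5.ok_pm T5.Ypm.bz_eq (w := 200) (c := ⟨⟨.negSucc 893, .negSucc 11, .negSucc 10, .negSucc 141, .ofNat 90, .negSucc 83⟩, ⟨.ofNat 328, .ofNat 20, .ofNat 36, .ofNat 26, .negSucc 32, .ofNat 37⟩, ⟨.ofNat 671, .ofNat 27, .ofNat 14, .ofNat 259, .negSucc 150, .ofNat 137⟩, ⟨.negSucc 2710, .negSucc 16, .negSucc 34, .negSucc 540, .ofNat 274, .negSucc 231⟩, ⟨.negSucc 66, .ofNat 18, .ofNat 4, .negSucc 299, .ofNat 17, .ofNat 44⟩, .ofNat 1174, .ofNat 1033, .ofNat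 0, .ofNat 1033, .ofNat 2613, .ofNat 0, .ofNat 167, .negSucc 116, .negSucc 99, .ofNat 0, .ofNat 128, .ofNat 43, .ofNat 0, .ofNat 0, .ofNat 489, .ofNat 1461, .ofNat 0, .ofNat 0, .ofNat 0, .ofNat 0, .ofNat 0, .ofNat 0, .ofNat 0, .ofNat 0, .ofNat 0, .ofNat 0, .ofNat 0, .ofNat 0, .ofNat 0, .ofNat 0, .ofNat 0, .ofNat 0⟩)
    (by decide +kernel)
theorem L00187 : Good (Phi V5.P V5.D 1 (-1)) ⟨4, 0, 5, 12, 1, 0, 3, 7, 3, 1⟩ :=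
  leafYS_sound T5.ok_pm T5.Ypm.bz_eq (w := 199) (c := ⟨⟨.negSucc 686, .negSucc 41, .negSucc 22, .negSucc 247, .ofNat 278, .negSucc 169⟩, ⟨.ofNat 250, .ofNat 27, .ofNat 37, .ofNat 75, .negSucc 107, .ofNat 73⟩, ⟨.ofNat 424, .ofNat 71, .ofNat 33, .ofNat 517, .negSucc 395, .ofNat 101⟩, ⟨.negSucc 2084, .negSucc 121, .negSucc 65, .negSucc 847, .ofNat 839, .negSucc 483⟩, ⟨.negSucc 52, .negSucc 19, .ofNat 20, .negSucc 270, .ofNat 9, .ofNat 67⟩, .ofNat 1101, .ofNat 920, .ofNat 0, .ofNat 920, .ofNat 2370, .ofNat 0, .ofNat 169, .negSucc 115, .negSucc 122, .ofNat 0, .ofNat 128, .ofNat 51, .ofNat 0, .ofNat 0, .ofNat 497, .ofNat 729, .ofNat 0, .ofNat 0, .ofNat 0, .ofNat 0, .ofNat 0, .ofNat 4786979646760400346877736645873415225344, .ofNat 0, .ofNat 0, .ofNat 0, .ofNat 4552588335034860147845164360496635183104, .ofNat 0, .ofNat 0, .ofNat 0, .ofNat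 5907289895351600920238126869344470171648, .ofNat 0, .ofNat 0⟩)
    (by decide +kernel)
theorem L00188 : Good (Phi V5.P V5.D 1 (-1)) ⟨4, 0, 5, 12, 2, 0, 2, 3, 4, 4⟩ :=
  leafYS_sound T5.ok_pm T5.Ypm.bz_eq (w := 215) (c := ⟨⟨.negSucc 947, .negSucc 11, .negSucc 9, .negSucc 79, .ofNat 248, .negSucc 22⟩, ⟨.ofNat 352, .ofNat 19, .ofNat 34, .ofNat 23, .negSucc 90, .ofNat 8⟩, ⟨.ofNat 741, .ofNat 12, .ofNat 12, .ofNat 263, .negSucc 553, .negSucc 11⟩, ⟨.negSucc 2858, .negSucc 20, .negSucc 24, .negSucc 282, .ofNat 771, .negSucc 70⟩, ⟨.negSucc 40, .ofNat 0, .ofNat 13, .negSucc 98, .ofNat 69, .negSucc 4⟩, .ofNat 962, .ofNat 709, .ofNat 0, .ofNat 709, .ofNat 1948, .ofNat 0, .ofNat 228, .negSucc 108, .negSucc 62, .ofNat 0, .ofNat 128, .ofNat 25, .ofNat 0, .ofNat 0, .ofNat 413, .ofNat 2460, .ofNat 0, .ofNat 0, .ofNat 0, .ofNat 0, .ofNat 0, .ofNat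 0, .ofNat 0, .ofNat 0, .ofNat 0, .ofNat 56470427429220071289368908750484246502572032, .ofNat 0, .ofNat 0, .ofNat 0, .ofNat 0, .ofNat 0, .ofNat 0⟩)
    (by decide +kernel)
theorem L00189 : Good (Phi V5.P V5.D 1 (-1)) ⟨4, 0, 5, 12, 2, 0, 2, 3, 4, 5⟩ :=
  leafYS_sound T5.ok_pm T5.Ypm.bz_eq (w := 216) (c := ⟨⟨.negSucc 945, .negSucc 6, .negSucc 2, .negSucc 81, .ofNat 128, .negSucc 10⟩, ⟨.ofNat 354, .ofNat 16, .ofNat 31, .ofNat 23, .negSucc 40, .ofNat 4⟩, ⟨.ofNat 715, .ofNat 4, .ofNat 11, .ofNat 317, .negSucc 495, .negSucc 31⟩, ⟨.negSucc 2840, .negSucc 8, .negSucc 3, .negSucc 284, .ofNat 418, .negSucc 35⟩, ⟨.negSucc 2, .negSucc 11, .ofNat 9, .negSucc 101, .ofNat 91, .negSucc 6⟩, .ofNat 1173, .ofNat 1033, .ofNat 0, .ofNat 1033, .ofNat 2607, .ofNat 0, .ofNat 197, .negSucc 113, .negSucc 44, .ofNat 0, .ofNat 128, .ofNat 17, .ofNat 0, .ofNat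 0, .ofNat 376, .ofNat 3084, .ofNat 0, .ofNat 0, .ofNat 0, .ofNat 0, .ofNat 0, .ofNat 0, .ofNat 0, .ofNat 0, .ofNat 0, .ofNat 95501535168648056266377408597191607384539136, .ofNat 0, .ofNat 0, .ofNat 0, .ofNat 0, .ofNat 0, .ofNat 0⟩)
    (by decide +kernel)
theorem L00190 : Good (Phi V5.P V5.D 1 (-1)) ⟨4, 0, 5, 12, 2, 1, 2, 3, 3, 2⟩ :=
  leafYS_sound T5.ok_pm T5.Ypm.bz_eq (w := 209) (c := ⟨⟨.negSucc 992, .negSucc 33, .ofNat 9, .negSucc 110, .negSucc 19, .ofNat 13⟩, ⟨.ofNat 352, .ofNat 28, .ofNat 30, .ofNat 35, .ofNat 26, .ofNat 2⟩, ⟨.ofNat 807, .ofNat 34, .ofNat 40, .ofNat 378, .negSucc 179, .ofNat 151⟩, ⟨.negSucc 3052, .negSucc 96, .ofNat 17, .negSucc 374, .ofNat 16, .ofNat 66⟩, ⟨.negSucc 186, .negSucc 20, .negSucc 7, .negSucc 105, .ofNat 189, .ofNat 68⟩, .ofNat 1098, .ofNat 913, .ofNat 0, .ofNat 913, .ofNat 2356, .ofNat 0, .ofNat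 169, .negSucc 115, .negSucc 52, .ofNat 0, .ofNat 128, .ofNat 19, .ofNat 0, .ofNat 0, .ofNat 595, .ofNat 1065, .ofNat 0, .ofNat 0, .ofNat 0, .ofNat 0, .ofNat 0, .ofNat 6907657399928224566885053515600347439038464, .ofNat 0, .ofNat 0, .ofNat 0, .ofNat 7865195247881752992119574983333924499881984, .ofNat 0, .ofNat 0, .ofNat 0, .ofNat 10054742493121500562440969711137637833637888, .ofNat 0, .ofNat 0⟩)
    (by decide +kernel)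
theorem L00191 : Good (Phi V5.P V5.D 1 (-1)) ⟨4, 0, 5, 12, 2, 0, 2, 3, 3, 3⟩ :=
  leafYS_sound T5.ok_pm T5.Ypm.bz_eq (w := 211) (c := ⟨⟨.negSucc 915, .negSucc 23, .ofNat 16, .negSucc 78, .ofNat 15, .negSucc 6⟩, ⟨.ofNat 339, .ofNat 25, .ofNat 21, .ofNat 27, .ofNat 5, .ofNat 7⟩, ⟨.ofNat 653, .ofNat 11, .ofNat 5, .ofNat 332, .negSucc 409, .negSucc 84⟩, ⟨.negSucc 2764, .negSucc 51, .ofNat 36, .negSucc 251, .ofNat 91, .ofNat 1⟩, ⟨.negSucc 36, .ofNat 13, .negSucc 26, .negSucc 39, .ofNat 112, .ofNat 48⟩, .ofNat 1186, .ofNat 1053, .ofNat 0, .ofNat 1053, .ofNat 2642, .ofNat 0, .ofNat 152, .negSucc 113, .negSucc 37, .ofNat 0, .ofNat 128, .ofNat 13, .ofNat 0, .ofNat 0, .ofNat 444, .ofNat 3247, .ofNat 0, .ofNat 0, .ofNat 0, .ofNat 0, .ofNat 0, .ofNat 10886398515705347838998814352426307940253696, .ofNat 0, .ofNat 0, .ofNat 0, .ofNat 14427884505083018656197315526241705844015104,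 .ofNat 0, .ofNat 0, .ofNat 0, .ofNat 0, .ofNat 0, .ofNat 0⟩)
    (by decide +kernel)
theorem L00192 : Good (Phi V5.P V5.D 1 (-1)) ⟨4, 0, 5, 12, 2, 1, 3, 6, 3, 3⟩ :=
  leafYS_sound T5.ok_pm T5.Ypm.bz_eq (w := 215) (c := ⟨⟨.negSucc 978, .negSucc 18, .negSucc 0, .negSucc 83, .negSucc 37, .ofNat 57⟩, ⟨.ofNat 355, .ofNat 21, .ofNat 34, .ofNat 20, .ofNat 24, .negSucc 19⟩, ⟨.ofNat 872, .ofNat 29, .ofNat 17, .ofNat 680, .negSucc 165, .ofNat 213⟩, ⟨.negSucc 2982, .negSucc 52, .negSucc 6, .negSucc 305, .negSucc 72, .ofNat 178⟩, ⟨.negSucc 116, .negSucc 20, .ofNat 2, .negSucc 135, .ofNat 97, .ofNat 23⟩, .ofNat 1182, .ofNat 1047, .ofNat 0, .ofNat 1047, .ofNat 2634, .ofNat 0, .ofNat 177, .negSucc 114, .negSucc 47, .ofNat 0, .ofNat 128, .negSucc 1, .ofNat 0, .ofNat 0, .ofNat 1917, .ofNat 2334, .ofNat 0, .ofNat 565725898618296843824701511781818214383616,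 .ofNat 0, .ofNat 0, .ofNat 0, .ofNat 0, .ofNat 0, .ofNat 0, .ofNat 0, .ofNat 53713602803080550264209992010482409453649920, .ofNat 0, .ofNat 0, .ofNat 0, .ofNat 696392429168405869922570588005645155563470848, .ofNat 0, .ofNat 0⟩)
    (by decide +kernel)
theorem L00193 : Good (Phi V5.P V5.D 1 (-1)) ⟨4, 0, 5, 12, 2, 1, 3, 7, 3, 3⟩ :=
  leafYS_sound T5.ok_pm T5.Ypm.bz_eq (w := 216) (c := ⟨⟨.negSucc 978, .negSucc 29, .negSucc 2, .negSucc 158, .negSucc 71, .ofNat 1⟩, ⟨.ofNat 363, .ofNat 25, .ofNat 34, .ofNat 57, .ofNat 45, .ofNat 8⟩, ⟨.ofNat 787, .ofNat 33, .ofNat 15, .ofNat 598, .negSucc 185, .negSucc 83⟩, ⟨.negSucc 2956, .negSucc 83, .negSucc 9, .negSucc 493, .negSucc 140, .ofNat 37⟩, ⟨.negSucc 36, .negSucc 29, .negSucc 2, .negSucc 63, .ofNat 172, .ofNat 85⟩, .ofNat 1184, .ofNat 1050, .ofNat 0, .ofNat 1050, .ofNat 2625, .ofNat 0, .ofNat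 187, .negSucc 115, .negSucc 42, .ofNat 0, .ofNat 128, .ofNat 4, .ofNat 0, .ofNat 0, .ofNat 972, .ofNat 6071, .ofNat 0, .ofNat 4106840597203051588763892450631282073796608, .ofNat 0, .ofNat 0, .ofNat 0, .ofNat 127428038556892230751967470614103202912534528, .ofNat 0, .ofNat 0, .ofNat 0, .ofNat 137308679921772978154859619406166416049569792, .ofNat 0, .ofNat 0, .ofNat 0, .ofNat 310555883421708524804805600586397894060277760, .ofNat 0, .ofNat 0⟩)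
    (by decide +kernel)
theorem L00194 : Good (Phi V5.P V5.D 1 (-1)) ⟨4, 0, 5, 12, 1, 0, 2, 3, 1, 1⟩ :=
  leafYS_sound T5.ok_pm T5.Ypm.bz_eq (w := 196) (c := ⟨⟨.negSucc 959, .negSucc 5, .ofNat 0, .ofNat 0, .ofNat 0, .ofNat 0⟩, ⟨.ofNat 360, .ofNat 17, .ofNat 30, .ofNat 0, .ofNat 0, .ofNat 0⟩, ⟨.ofNat 263, .ofNat 6, .ofNat 0, .ofNat 0, .ofNat 0, .ofNat 0⟩, ⟨.negSucc 2882, .negSucc 2, .ofNat 0, .ofNat 1, .negSucc 0, .ofNat 1⟩, ⟨.ofNat 0, .ofNat 0, .ofNat 0, .ofNat 0, .ofNat 0, .ofNat 0⟩, .ofNat 194, .ofNat 22, .ofNat 0, .ofNat 22, .ofNat 225, .ofNat 0, .ofNat 141, .negSucc 21, .negSucc 102, .ofNat 0, .ofNat 128, .ofNat 14, .ofNat 0, .ofNat 0, .ofNat 300, .ofNat 13284, .ofNat 38332755876053977370606626276796006400000000, .ofNat 842494856939067972468226973019353974308864, .ofNat 0, .ofNat 0, .ofNat 2453296376067454551718824081714944409600000000,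 .ofNat 53918701260708731013758525994398195451428864, .ofNat 0, .ofNat 0, .ofNat 2453296376067454551718824081714944409600000000, .ofNat 53918717449316780264375791572136281897959424, .ofNat 0, .ofNat 0, .ofNat 2453296376067454551718824081714944409600000000, .ofNat 53918716758579038802414503614188692101398528, .ofNat 0, .ofNat 0⟩)
    (by decide +kernel)
theorem L00195 : Good (Phi V5.P V5.D 1 (-1)) ⟨5, 0, 5, 13, 2, 0, 1, 1, 4, 0⟩ :=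
  leafYS_sound T5.ok_pm T5.Ypm.bz_eq (w := 213) (c := ⟨⟨.negSucc 270, .ofNat 6, .ofNat 0, .ofNat 108, .ofNat 101, .negSucc 216⟩, ⟨.ofNat 120, .negSucc 2, .ofNat 7, .negSucc 70, .negSucc 50, .ofNat 88⟩, ⟨.ofNat 137, .ofNat 5, .negSucc 1, .negSucc 119, .negSucc 84, .ofNat 146⟩, ⟨.negSucc 700, .ofNat 0, .negSucc 32, .ofNat 197, .ofNat 207, .negSucc 658⟩, ⟨.ofNat 245, .negSucc 52, .negSucc 74, .negSucc 298, .negSucc 184, .negSucc 49⟩, .ofNat 1022, .ofNat 812, .ofNat 0, .ofNat 812, .ofNat 2077, .ofNat 0, .ofNat 183, .negSucc 116, .negSucc 211, .ofNat 0, .ofNat 128, .ofNat 91, .ofNat 0, .ofNat 0, .ofNat 539, .ofNat 756, .ofNat 0, .ofNat 0, .ofNat 0, .ofNat 0, .ofNat 0, .ofNat 0, .ofNat 0, .ofNat 0, .ofNat 0, .ofNat 0, .ofNat 0, .ofNat 0, .ofNat 0, .ofNat 0, .ofNat 0, .ofNat 0⟩)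
    (by decide +kernel)
theorem L00196 : Good (Phi V5.P V5.D 1 (-1)) ⟨5, 0, 5, 13, 2, 1, 1, 1, 4, 0⟩ :=
  leafYS_sound T5.ok_pm T5.Ypm.bz_eq (w := 213) (c := ⟨⟨.ofNat 84, .ofNat 9, .negSucc 25, .ofNat 28, .negSucc 195, .negSucc 235⟩, ⟨.negSucc 51, .negSucc 2, .ofNat 15, .negSucc 3, .ofNat 75, .ofNat 88⟩, ⟨.negSucc 359, .negSucc 2, .ofNat 25, .ofNat 74, .ofNat 420, .ofNat 134⟩, ⟨.ofNat 236, .negSucc 4, .negSucc 116, .ofNat 121, .negSucc 642, .negSucc 770⟩, ⟨.negSucc 50, .negSucc 70, .negSucc 70, .ofNat 90, .negSucc 129, .negSucc 153⟩, .ofNat 1258, .ofNat 1178, .ofNat 0, .ofNat 1178, .ofNat 2789, .ofNat 0, .ofNat 195, .negSucc 126, .negSucc 285, .ofNat 0, .ofNat 128, .ofNat 133, .ofNat 0, .ofNat 0, .ofNat 709, .ofNat 712, .ofNat 0, .ofNat 0, .ofNat 0, .ofNat 0, .ofNat 0, .ofNat 0, .ofNat 0, .ofNat 0, .ofNat 0, .ofNat 0, .ofNat 0, .ofNat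 0, .ofNat 0, .ofNat 0, .ofNat 0, .ofNat 0⟩)
    (by decide +kernel)
theorem L00197 : Good (Phi V5.P V5.D 1 (-1)) ⟨5, 0, 5, 13, 1, 0, 1, 1, 4, 1⟩ :=
  leafYS_sound T5.ok_pm T5.Ypm.bz_eq (w := 200) (c := ⟨⟨.negSucc 919, .ofNat 56, .ofNat 43, .ofNat 126, .ofNat 570, .negSucc 222⟩, ⟨.ofNat 381, .negSucc 17, .ofNat 2, .negSucc 88, .negSucc 248, .ofNat 93⟩, ⟨.ofNat 714, .negSucc 65, .negSucc 46, .negSucc 121, .negSucc 529, .ofNat 163⟩, ⟨.negSucc 2775, .ofNat 191, .ofNat 136, .ofNat 197, .ofNat 1694, .negSucc 660⟩, ⟨.negSucc 56, .ofNat 54, .ofNat 33, .negSucc 402, .negSucc 36, .ofNat 5⟩, .ofNat 1022, .ofNat 812, .ofNat 0, .ofNat 812, .ofNat 2077, .ofNat 0, .ofNat 209, .negSucc 118, .negSucc 229, .ofNat 0, .ofNat 128, .ofNat 104, .ofNat 0, .ofNat 0, .ofNat 731, .ofNat 895, .ofNat 0, .ofNat 0, .ofNat 0, .ofNat 0, .ofNat 0, .ofNat 0, .ofNat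 0, .ofNat 0, .ofNat 0, .ofNat 0, .ofNat 0, .ofNat 0, .ofNat 0, .ofNat 0, .ofNat 0, .ofNat 0⟩)
    (by decide +kernel)
theorem L00198 : Good (Phi V5.P V5.D 1 (-1)) ⟨5, 0, 5, 13, 1, 0, 2, 2, 3, 1⟩ :=
  leafYS_sound T5.ok_pm T5.Ypm.bz_eq (w := 200) (c := ⟨⟨.negSucc 1037, .negSucc 2, .negSucc 0, .negSucc 18, .ofNat 112, .negSucc 106⟩, ⟨.ofNat 419, .ofNat 10, .ofNat 36, .negSucc 24, .negSucc 46, .ofNat 46⟩, ⟨.ofNat 833, .ofNat 31, .negSucc 11, .negSucc 101, .negSucc 119, .ofNat 287⟩, ⟨.negSucc 3119, .negSucc 0, .negSucc 2, .negSucc 213, .ofNat 338, .negSucc 322⟩, ⟨.negSucc 12, .ofNat 8, .ofNat 13, .negSucc 367, .ofNat 4, .negSucc 3⟩, .ofNat 1177, .ofNat 1048, .ofNat 0, .ofNat 1048, .ofNat 2545, .ofNat 0, .ofNat 144, .negSucc 123, .negSucc 97, .ofNat 0, .ofNat 128, .ofNat 46, .ofNat 0, .ofNat 0, .ofNat 539, .ofNat 2039, .ofNat 0, .ofNat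 0, .ofNat 0, .ofNat 0, .ofNat 0, .ofNat 0, .ofNat 0, .ofNat 0, .ofNat 0, .ofNat 0, .ofNat 0, .ofNat 0, .ofNat 0, .ofNat 0, .ofNat 0, .ofNat 0⟩)
    (by decide +kernel)
theorem L00199 : Good (Phi V5.P V5.D 1 (-1)) ⟨5, 0, 5, 13, 1, 0, 3, 6, 3, 1⟩ :=
  leafYS_sound T5.ok_pm T5.Ypm.bz_eq (w := 204) (c := ⟨⟨.negSucc 909, .negSucc 13, .negSucc 3, .negSucc 101, .ofNat 97, .negSucc 81⟩, ⟨.ofNat 364, .ofNat 15, .ofNat 33, .ofNat 16, .negSucc 40, .ofNat 37⟩, ⟨.ofNat 701, .ofNat 32, .ofNat 15, .ofNat 213, .negSucc 156, .ofNat 102⟩, ⟨.negSucc 2740, .negSucc 35, .negSucc 14, .negSucc 444, .ofNat 294, .negSucc 233⟩, ⟨.negSucc 32, .ofNat 4, .ofNat 0, .negSucc 329, .ofNat 8, .ofNat 27⟩, .ofNat 1186, .ofNat 1064, .ofNat 0, .ofNat 1064, .ofNat 2567, .ofNat 0, .ofNat 176, .negSucc 123, .negSucc 146, .ofNat 0, .ofNat 128, .ofNat 67, .ofNat 0, .ofNat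 0, .ofNat 738, .ofNat 1725, .ofNat 0, .ofNat 0, .ofNat 0, .ofNat 0, .ofNat 0, .ofNat 0, .ofNat 0, .ofNat 0, .ofNat 0, .ofNat 0, .ofNat 0, .ofNat 0, .ofNat 0, .ofNat 0, .ofNat 0, .ofNat 0⟩)
    (by decide +kernel)
theorem L00200 : Good (Phi V5.P V5.D 1 (-1)) ⟨5, 0, 5, 13, 1, 0, 3, 7, 3, 1⟩ :=
  leafYS_sound T5.ok_pm T5.Ypm.bz_eq (w := 203) (c := ⟨⟨.negSucc 689, .negSucc 44, .ofNat 3, .negSucc 283, .ofNat 337, .negSucc 188⟩, ⟨.ofNat 273, .ofNat 25, .ofNat 23, .ofNat 101, .negSucc 140, .ofNat 86⟩, ⟨.ofNat 443, .ofNat 57, .negSucc 8, .ofNat 539, .negSucc 459, .ofNat 128⟩, ⟨.negSucc 2111, .negSucc 115, .ofNat 12, .negSucc 940, .ofNat 1030, .negSucc 531⟩, ⟨.negSucc 103, .ofNat 32, .ofNat 12, .negSucc 210, .ofNat 38, .ofNat 85⟩, .ofNat 1022, .ofNat 812, .ofNat 0, .ofNat 812, .ofNat 2077, .ofNat 0, .ofNat 189, .negSucc 118, .negSucc 161,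 .ofNat 0, .ofNat 128, .ofNat 72, .ofNat 0, .ofNat 0, .ofNat 603, .ofNat 618, .ofNat 0, .ofNat 0, .ofNat 0, .ofNat 0, .ofNat 0, .ofNat 0, .ofNat 0, .ofNat 0, .ofNat 0, .ofNat 73483731148407244126897682808959825608704, .ofNat 0, .ofNat 0, .ofNat 0, .ofNat 131877335717034363542568508751666227445760, .ofNat 0, .ofNat 0⟩)
    (by decide +kernel)
theorem L00201 : Good (Phi V5.P V5.D 1 (-1)) ⟨5, 0, 5, 13, 2, 0, 2, 2, 3, 2⟩ :=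
  leafYS_sound T5.ok_pm T5.Ypm.bz_eq (w := 217) (c := ⟨⟨.negSucc 1114, .negSucc 3, .negSucc 1, .negSucc 11, .ofNat 88, .ofNat 76⟩, ⟨.ofNat 452, .ofNat 10, .ofNat 34, .negSucc 8, .negSucc 35, .negSucc 30⟩, ⟨.ofNat 1107, .ofNat 11, .ofNat 5, .ofNat 101, .negSucc 294, .negSucc 32⟩, ⟨.negSucc 3354, .negSucc 6, .negSucc 6, .negSucc 106, .ofNat 272, .ofNat 234⟩, ⟨.negSucc 23, .ofNat 2, .ofNat 3, .negSucc 163, .ofNat 19, .ofNat 18⟩, .ofNat 1022, .ofNat 812, .ofNat 0, .ofNat 812, .ofNat 2077, .ofNat 0, .ofNat 173, .negSucc 115, .negSucc 86, .ofNat 0, .ofNat 128, .ofNat 38, .ofNat 0, .ofNat 0, .ofNat 910, .ofNat 13374, .ofNat 0, .ofNat 0, .ofNat 0, .ofNat 0, .ofNat 0, .ofNat 0, .ofNat 0, .ofNat 0, .ofNat 0, .ofNat 0, .ofNat 0, .ofNat 0, .ofNat 0, .ofNat 0, .ofNat 0, .ofNat 0⟩)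
    (by decide +kernel)
theorem L00202 : Good (Phi V5.P V5.D 1 (-1)) ⟨5, 0, 5, 13, 2, 0, 2, 3, 3, 2⟩ :=
  leafYS_sound T5.ok_pm T5.Ypm.bz_eq (w := 214) (c := ⟨⟨.negSucc 939, .negSucc 2, .ofNat 1, .negSucc 83, .ofNat 145, .negSucc 19⟩, ⟨.ofNat 376, .ofNat 9, .ofNat 29, .ofNat 29, .negSucc 52, .ofNat 13⟩, ⟨.ofNat 741, .negSucc 5, .ofNat 5, .ofNat 292, .negSucc 485, .negSucc 44⟩, ⟨.negSucc 2846, .negSucc 8, .ofNat 4, .negSucc 284, .ofNat 482, .negSucc 40⟩, ⟨.negSucc 68, .negSucc 3, .ofNat 8, .negSucc 78, .ofNat 104, .ofNat 49⟩, .ofNat 1022, .ofNat 812, .ofNat 0, .ofNat 812, .ofNat 2077, .ofNat 0, .ofNat 172, .negSucc 115, .negSucc 41, .ofNat 0, .ofNat 128, .ofNat 17, .ofNat 0, .ofNat 0, .ofNat 312, .ofNat 1595, .ofNat 0, .ofNat 0, .ofNat 0, .ofNat 0, .ofNat 0, .ofNat 0, .ofNat 0, .ofNat 0, .ofNat 0, .ofNat 0, .ofNat 0, .ofNat 0, .ofNat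 0, .ofNat 0, .ofNat 0, .ofNat 0⟩)
    (by decide +kernel)
theorem L00203 : Good (Phi V5.P V5.D 1 (-1)) ⟨5, 0, 5, 13, 2, 0, 1, 1, 3, 3⟩ :=
  leafYS_sound T5.ok_pm T5.Ypm.bz_eq (w := 211) (c := ⟨⟨.negSucc 966, .ofNat 1, .negSucc 2, .negSucc 69, .ofNat 69, .negSucc 3⟩, ⟨.ofNat 383, .ofNat 7, .ofNat 32, .ofNat 26, .negSucc 11, .ofNat 4⟩, ⟨.ofNat 979, .ofNat 12, .ofNat 17, .ofNat 363, .negSucc 756, .negSucc 60⟩, ⟨.negSucc 2956, .ofNat 9, .negSucc 1, .negSucc 225, .ofNat 291, .negSucc 2⟩, ⟨.negSucc 127, .ofNat 2, .ofNat 14, .negSucc 36, .ofNat 199, .ofNat 20⟩, .ofNat 1022, .ofNat 812, .ofNat 0, .ofNat 812, .ofNat 2077, .ofNat 0, .ofNat 147, .negSucc 115, .negSucc 21, .ofNat 0, .ofNat 128, .ofNat 8, .ofNat 0, .ofNat 0, .ofNat 355, .ofNat 2990, .ofNat 0, .ofNat 0, .ofNat 0, .ofNat 0, .ofNat 0, .ofNat 37465277986455332416253048156220765348298752,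 .ofNat 0, .ofNat 0, .ofNat 0, .ofNat 39872016766154501710419383009029499320795136, .ofNat 0, .ofNat 0, .ofNat 0, .ofNat 0, .ofNat 0, .ofNat 0⟩)
    (by decide +kernel)
theorem L00204 : Good (Phi V5.P V5.D 1 (-1)) ⟨5, 0, 5, 13, 2, 1, 2, 2, 3, 2⟩ :=
  leafYS_sound T5.ok_pm T5.Ypm.bz_eq (w := 214) (c := ⟨⟨.negSucc 1111, .negSucc 0, .ofNat 9, .negSucc 54, .ofNat 39, .ofNat 72⟩, ⟨.ofNat 432, .ofNat 8, .ofNat 31, .ofNat 12, .negSucc 10, .negSucc 25⟩, ⟨.ofNat 1017, .negSucc 3, .negSucc 4, .ofNat 79, .negSucc 57, .ofNat 162⟩, ⟨.negSucc 3431, .negSucc 5, .ofNat 16, .negSucc 222, .ofNat 146, .ofNat 238⟩, ⟨.negSucc 231, .negSucc 8, .negSucc 4, .negSucc 134, .ofNat 68, .ofNat 51⟩, .ofNat 1190, .ofNat 1071, .ofNat 0, .ofNat 1071, .ofNat 2575, .ofNat 0, .ofNat 143, .negSucc 124, .negSucc 74, .ofNat 0, .ofNat 128, .ofNat 35, .ofNat 0, .ofNat 0,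 .ofNat 852, .ofNat 2711, .ofNat 0, .ofNat 0, .ofNat 0, .ofNat 0, .ofNat 0, .ofNat 0, .ofNat 0, .ofNat 0, .ofNat 0, .ofNat 0, .ofNat 0, .ofNat 0, .ofNat 0, .ofNat 0, .ofNat 0, .ofNat 0⟩)
    (by decide +kernel)
theorem L00205 : Good (Phi V5.P V5.D 1 (-1)) ⟨5, 0, 5, 13, 2, 1, 2, 2, 4, 6⟩ :=
  leafYS_sound T5.ok_pm T5.Ypm.bz_eq (w := 221) (c := ⟨⟨.negSucc 1013, .negSucc 2, .ofNat 1, .negSucc 48, .ofNat 0, .ofNat 51⟩, ⟨.ofNat 395, .ofNat 9, .ofNat 34, .ofNat 9, .ofNat 7, .negSucc 20⟩, ⟨.ofNat 983, .ofNat 99, .ofNat 19, .ofNat 417, .negSucc 42, .ofNat 244⟩, ⟨.negSucc 3116, .negSucc 10, .negSucc 3, .negSucc 205, .ofNat 34, .ofNat 153⟩, ⟨.negSucc 181, .negSucc 12, .ofNat 2, .negSucc 140, .ofNat 74, .ofNat 1⟩, .ofNat 1021, .ofNat 811, .ofNat 0, .ofNat 811, .ofNat 2079, .ofNat 0, .ofNat 128, .negSucc 130, .negSucc 83, .ofNat 0, .ofNat 142,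 .ofNat 26, .ofNat 0, .ofNat 0, .ofNat 2387, .ofNat 10745, .ofNat 0, .ofNat 0, .ofNat 0, .ofNat 0, .ofNat 0, .ofNat 0, .ofNat 0, .ofNat 0, .ofNat 0, .ofNat 1443507810882253992027886085702796153167282176, .ofNat 0, .ofNat 0, .ofNat 0, .ofNat 15647351677242931129791887342886608036876517376, .ofNat 0, .ofNat 0⟩)
    (by decide +kernel)
theorem L00206 : Good (Phi V5.P V5.D 1 (-1)) ⟨5, 0, 5, 13, 2, 1, 2, 2, 4, 7⟩ :=
  leafYS_sound T5.ok_pm T5.Ypm.bz_eq (w := 220) (c := ⟨⟨.negSucc 926, .negSucc 2, .ofNat 0, .negSucc 28, .negSucc 56, .ofNat 77⟩, ⟨.ofNat 362, .ofNat 7, .ofNat 33, .negSucc 6, .ofNat 32, .negSucc 39⟩, ⟨.ofNat 982, .ofNat 65, .ofNat 24, .ofNat 1038, .negSucc 190, .ofNat 642⟩, ⟨.negSucc 2843, .negSucc 13, .negSucc 8, .negSucc 180, .negSucc 129, .ofNat 198⟩, ⟨.negSucc 131, .negSucc 19, .negSucc 1, .negSucc 239, .ofNat 86, .negSucc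 92⟩, .ofNat 727, .ofNat 415, .ofNat 0, .ofNat 415, .ofNat 1267, .ofNat 0, .ofNat 146, .negSucc 95, .negSucc 9, .ofNat 0, .ofNat 128, .negSucc 29, .ofNat 0, .ofNat 0, .ofNat 2376, .ofNat 4996, .ofNat 0, .ofNat 0, .ofNat 0, .ofNat 0, .ofNat 0, .ofNat 0, .ofNat 0, .ofNat 0, .ofNat 37912930666536619335875254349157331181592641536, .ofNat 1617712975181076231325282240931371475397509120, .ofNat 0, .ofNat 0, .ofNat 686283516514952953576423476846107024656267476992, .ofNat 31933206615637062598877679488235036361994797056, .ofNat 0, .ofNat 0⟩)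
    (by decide +kernel)
theorem L00207 : Good (Phi V5.P V5.D 1 (-1)) ⟨5, 0, 5, 13, 2, 1, 3, 6, 3, 2⟩ :=
  leafYS_sound T5.ok_pm T5.Ypm.bz_eq (w := 218) (c := ⟨⟨.negSucc 1003, .negSucc 7, .ofNat 3, .negSucc 127, .negSucc 7, .ofNat 24⟩, ⟨.ofNat 389, .ofNat 11, .ofNat 33, .ofNat 47, .ofNat 11, .negSucc 3⟩, ⟨.ofNat 825, .negSucc 8, .ofNat 32, .ofNat 381, .negSucc 41, .ofNat 164⟩, ⟨.negSucc 3093, .negSucc 25, .ofNat 5, .negSucc 423, .ofNat 13, .ofNat 103⟩, ⟨.negSucc 192, .negSucc 11, .negSucc 1, .negSucc 97, .ofNat 81, .ofNat 68⟩, .ofNat 728, .ofNat 417, .ofNat 0, .ofNat 417, .ofNat 1268, .ofNat 0, .ofNat 177, .negSucc 98, .negSucc 64, .ofNat 0, .ofNat 128, .ofNat 21, .ofNat 0, .ofNat 0, .ofNat 711, .ofNat 2182, .ofNat 0, .ofNat 0, .ofNat 0, .ofNat 0, .ofNat 0, .ofNat 0, .ofNat 0, .ofNat 0, .ofNat 0, .ofNat 0, .ofNat 0, .ofNat 0, .ofNat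 0, .ofNat 847413437793431563430202126797341847428530176, .ofNat 0, .ofNat 0⟩)
    (by decide +kernel)
theorem L00208 : Good (Phi V5.P V5.D 1 (-1)) ⟨5, 0, 5, 13, 2, 1, 3, 7, 3, 2⟩ :=
  leafYS_sound T5.ok_pm T5.Ypm.bz_eq (w := 218) (c := ⟨⟨.negSucc 930, .negSucc 24, .negSucc 0, .negSucc 206, .ofNat 7, .negSucc 48⟩, ⟨.ofNat 364, .ofNat 17, .ofNat 33, .ofNat 83, .ofNat 10, .ofNat 29⟩, ⟨.ofNat 715, .ofNat 13, .ofNat 12, .ofNat 537, .negSucc 116, .ofNat 104⟩, ⟨.negSucc 2857, .negSucc 77, .negSucc 3, .negSucc 636, .ofNat 94, .negSucc 101⟩, ⟨.negSucc 146, .negSucc 17, .ofNat 2, .negSucc 41, .ofNat 162, .ofNat 102⟩, .ofNat 1021, .ofNat 810, .ofNat 0, .ofNat 810, .ofNat 2075, .ofNat 0, .ofNat 148, .negSucc 118, .negSucc 47, .ofNat 0, .ofNat 128, .ofNat 17, .ofNat 0, .ofNat 0, .ofNat 446, .ofNat 1527, .ofNat 0, .ofNat 0, .ofNat 0, .ofNat 0,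 .ofNat 0, .ofNat 390170201340881228464217278193459336453292032, .ofNat 0, .ofNat 0, .ofNat 0, .ofNat 555417960250802483166370693183944513558675456, .ofNat 0, .ofNat 0, .ofNat 0, .ofNat 575834654041168060536252999740244155426668544, .ofNat 0, .ofNat 0⟩)
    (by decide +kernel)
theorem L00209 : Good (Phi V5.P V5.D 1 (-1)) ⟨5, 0, 5, 13, 3, 2, 3, 6, 3, 3⟩ :=
  leafYS_sound T5.ok_pm T5.Ypm.bz_eq (w := 235) (c := ⟨⟨.negSucc 980, .negSucc 5, .negSucc 0, .negSucc 43, .negSucc 28, .ofNat 42⟩, ⟨.ofNat 387, .ofNat 10, .ofNat 33, .ofNat 13, .ofNat 20, .negSucc 13⟩, ⟨.ofNat 926, .ofNat 11, .ofNat 7, .ofNat 335, .negSucc 147, .ofNat 74⟩, ⟨.negSucc 2991, .negSucc 18, .negSucc 6, .negSucc 156, .negSucc 48, .ofNat 144⟩, ⟨.negSucc 119, .negSucc 10, .negSucc 1, .negSucc 58, .ofNat 91, .ofNat 44⟩, .ofNat 1181, .ofNat 1055, .ofNat 0, .ofNat 1055, .ofNat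 2554, .ofNat 0, .ofNat 128, .negSucc 125, .negSucc 59, .ofNat 0, .ofNat 131, .ofNat 7, .ofNat 0, .ofNat 0, .ofNat 1936, .ofNat 11734, .ofNat 0, .ofNat 0, .ofNat 0, .ofNat 0, .ofNat 0, .ofNat 0, .ofNat 0, .ofNat 0, .ofNat 0, .ofNat 1764513955999926512913280779186765345444409114624, .ofNat 0, .ofNat 0, .ofNat 0, .ofNat 0, .ofNat 0, .ofNat 0⟩)
    (by decide +kernel)
theorem L00210 : Good (Phi V5.P V5.D 1 (-1)) ⟨5, 0, 5, 13, 3, 2, 3, 7, 3, 3⟩ :=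
  leafYS_sound T5.ok_pm T5.Ypm.bz_eq (w := 234) (c := ⟨⟨.negSucc 977, .negSucc 11, .negSucc 1, .negSucc 80, .negSucc 67, .negSucc 1⟩, ⟨.ofNat 393, .ofNat 12, .ofNat 33, .ofNat 32, .ofNat 43, .ofNat 8⟩, ⟨.ofNat 799, .ofNat 25, .ofNat 22, .ofNat 311, .negSucc 190, .negSucc 52⟩, ⟨.negSucc 2952, .negSucc 37, .negSucc 8, .negSucc 255, .negSucc 132, .ofNat 29⟩, ⟨.negSucc 39, .negSucc 14, .negSucc 3, .negSucc 31, .ofNat 161, .ofNat 83⟩, .ofNat 1183, .ofNat 1059, .ofNat 0, .ofNat 1059, .ofNat 2562, .ofNat 0, .ofNat 175, .negSucc 121, .negSucc 47, .ofNat 0, .ofNat 128, .ofNat 4, .ofNat 0, .ofNat 0, .ofNat 1230, .ofNat 5728, .ofNat 0, .ofNat 228801765172762562999338123628194721890039758848, .ofNat 0, .ofNat 0, .ofNat 0, .ofNat 6118274235606933819574248026636929920285510991872, .ofNat 0, .ofNat 0, .ofNat 0, .ofNat 7846008565543786041283515235926580908816064315392,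 .ofNat 0, .ofNat 0, .ofNat 0, .ofNat 16521066079488118121972165300750926161580067389440, .ofNat 0, .ofNat 0⟩)
    (by decide +kernel)
theorem L00211 : Good (Phi V5.P V5.D 1 (-1)) ⟨5, 0, 5, 13, 3, 3, 3, 6, 4, 6⟩ :=
  leafYS_sound T5.ok_pm T5.Ypm.bz_eq (w := 239) (c := ⟨⟨.negSucc 1034, .negSucc 7, .ofNat 2, .negSucc 29, .negSucc 41, .ofNat 45⟩, ⟨.ofNat 405, .ofNat 10, .ofNat 33, .ofNat 4, .ofNat 26, .negSucc 19⟩, ⟨.ofNat 1106, .ofNat 44, .ofNat 33, .ofNat 444, .negSucc 79, .ofNat 245⟩, ⟨.negSucc 3169, .negSucc 29, .negSucc 1, .negSucc 128, .negSucc 84, .ofNat 129⟩, ⟨.negSucc 162, .negSucc 18, .negSucc 3, .negSucc 94, .ofNat 95, .negSucc 12⟩, .ofNat 1279, .ofNat 1211, .ofNat 0, .ofNat 1211, .ofNat 2857, .ofNat 0, .ofNat 161, .negSucc 124, .negSucc 17, .ofNat 0, .ofNat 128, .negSucc 18, .ofNat 0, .ofNat 0, .ofNat 2279, .ofNat 9429, .ofNat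 0, .ofNat 0, .ofNat 0, .ofNat 0, .ofNat 0, .ofNat 0, .ofNat 0, .ofNat 0, .ofNat 0, .ofNat 33039944850974116621715795874863562207922468421632, .ofNat 0, .ofNat 0, .ofNat 0, .ofNat 542335855087728836159712405893798271565387331010560, .ofNat 0, .ofNat 0⟩)
    (by decide +kernel)
theorem L00212 : Good (Phi V5.P V5.D 1 (-1)) ⟨5, 0, 5, 13, 3, 3, 3, 7, 4, 6⟩ :=
  leafYS_sound T5.ok_pm T5.Ypm.bz_eq (w := 241) (c := ⟨⟨.negSucc 1064, .negSucc 12, .ofNat 0, .negSucc 78, .negSucc 71, .ofNat 13⟩, ⟨.ofNat 426, .ofNat 13, .ofNat 34, .ofNat 28, .ofNat 45, .negSucc 2⟩, ⟨.ofNat 1094, .ofNat 24, .ofNat 29, .ofNat 369, .negSucc 110, .ofNat 65⟩, ⟨.negSucc 3222, .negSucc 43, .negSucc 5, .negSucc 259, .negSucc 149, .ofNat 51⟩, ⟨.negSucc 70, .negSucc 20, .negSucc 5, .negSucc 59, .ofNat 154, .ofNat 27⟩, .ofNat 195, .ofNat 24, .ofNat 0, .ofNat 24, .ofNat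 226, .ofNat 0, .ofNat 128, .negSucc 26, .negSucc 46, .ofNat 0, .ofNat 133, .negSucc 28, .ofNat 0, .ofNat 0, .ofNat 401, .ofNat 22118, .ofNat 0, .ofNat 7285016483658234469728844290811898061481259827200, .ofNat 0, .ofNat 0, .ofNat 0, .ofNat 171913267295957541478990331834894573258288599662592, .ofNat 0, .ofNat 0, .ofNat 0, .ofNat 115338813564827712206108957295636358959366552944640, .ofNat 0, .ofNat 0, .ofNat 0, .ofNat 162739514591100612349895207280595884054562981543936, .ofNat 0, .ofNat 0⟩)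
    (by decide +kernel)
theorem L00213 : Good (Phi V5.P V5.D 1 (-1)) ⟨5, 0, 5, 13, 3, 3, 2, 3, 4, 7⟩ :=
  leafYS_sound T5.ok_pm T5.Ypm.bz_eq (w := 235) (c := ⟨⟨.negSucc 995, .negSucc 8, .ofNat 2, .negSucc 4, .negSucc 88, .ofNat 48⟩, ⟨.ofNat 390, .ofNat 10, .ofNat 31, .negSucc 12, .ofNat 51, .negSucc 24⟩, ⟨.ofNat 1278, .ofNat 24, .ofNat 65, .ofNat 778, .negSucc 263, .ofNat 390⟩, ⟨.negSucc 3049, .negSucc 29, .negSucc 4, .negSucc 82, .negSucc 191, .ofNat 123⟩, ⟨.negSucc 152, .negSucc 15, .negSucc 11, .negSucc 164, .ofNat 157, .negSucc 50⟩, .ofNat 1256, .ofNat 1174, .ofNat 0, .ofNat 1174, .ofNat 2783, .ofNat 0, .ofNat 179, .negSucc 122, .ofNat 30, .ofNat 0, .ofNat 128, .negSucc 59, .ofNat 0, .ofNat 0, .ofNat 3411, .ofNat 4495, .ofNat 0, .ofNat 755092051699384806503844526840110589030636191744, .ofNat 0, .ofNat 0, .ofNat 0, .ofNat 15983328102455030060829793722454657448035468967936,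 .ofNat 0, .ofNat 0, .ofNat 0, .ofNat 24780177134984587460288225208702445675895442112512, .ofNat 0, .ofNat 0, .ofNat 0, .ofNat 425024756545794926292022881978277799867424899596288, .ofNat 0, .ofNat 0⟩)
    (by decide +kernel)
theorem L00214 : Good (Phi V5.P V5.D 1 (-1)) ⟨5, 0, 5, 13, 1, 0, 1, 1, 1, 1⟩ :=
  leafYS_sound T5.ok_pm T5.Ypm.bz_eq (w := 196) (c := ⟨⟨.negSucc 960, .negSucc 0, .ofNat 0, .ofNat 0, .ofNat 0, .ofNat 0⟩, ⟨.ofNat 390, .ofNat 9, .ofNat 30, .ofNat 0, .ofNat 0, .ofNat 0⟩, ⟨.ofNat 263, .ofNat 1, .ofNat 0, .ofNat 0, .ofNat 0, .ofNat 0⟩, ⟨.negSucc 2882, .negSucc 0, .ofNat 0, .ofNat 1, .negSucc 0, .ofNat 1⟩, ⟨.ofNat 0, .ofNat 0, .ofNat 0, .ofNat 0, .ofNat 0, .ofNat 0⟩, .ofNat 195, .ofNat 24, .ofNat 0, .ofNat 24, .ofNat 226, .ofNat 0, .ofNat 140, .negSucc 23, .negSucc 101, .ofNat 0, .ofNat 128, .ofNat 15, .ofNat 0, .ofNat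 0, .ofNat 300, .ofNat 13701, .ofNat 76665511752107954741213252553592012800000000, .ofNat 2948766312216077983481561596422428389539840, .ofNat 0, .ofNat 0, .ofNat 4906592752134909103437648163429888819200000000, .ofNat 193681783827127342913517123784041156405362688, .ofNat 0, .ofNat 0, .ofNat 4906592752134909103437648163429888819200000000, .ofNat 231443462068954047858918229493084958438195200, .ofNat 0, .ofNat 0, .ofNat 4906592752134909103437648163429888819200000000, .ofNat 193681805720122528371959392756095772541321216, .ofNat 0, .ofNat 0⟩)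
    (by decide +kernel)
theorem L00215 : Good (Phi V5.P V5.D 1 (-1)) ⟨6, 2, 5, 13, 1, 0, 2, 2, 3, 0⟩ :=
  leafYS_sound T5.ok_pm T5.Ypm.bz_eq (w := 203) (c := ⟨⟨.negSucc 85, .ofNat 14, .negSucc 27, .ofNat 329, .negSucc 37, .negSucc 988⟩, ⟨.ofNat 39, .negSucc 5, .ofNat 21, .negSucc 164, .ofNat 14, .ofNat 407⟩, ⟨.negSucc 38, .negSucc 1, .ofNat 6, .negSucc 440, .ofNat 111, .ofNat 950⟩, ⟨.negSucc 187, .ofNat 27, .negSucc 124, .ofNat 868, .negSucc 139, .negSucc 3034⟩, ⟨.ofNat 161, .negSucc 29, .negSucc 82, .negSucc 277, .negSucc 56, .negSucc 180⟩, .ofNat 1285, .ofNat 1215, .ofNat 0, .ofNat 1215, .ofNat 2832, .ofNat 0, .ofNat 198, .negSucc 124, .negSucc 174, .ofNat 0, .ofNat 128, .ofNat 80, .ofNat 0, .ofNat 0, .ofNat 510, .ofNat 997, .ofNat 0, .ofNat 0, .ofNat 0, .ofNat 0, .ofNat 0, .ofNat 0, .ofNat 0, .ofNat 0, .ofNat 0, .ofNat 0, .ofNat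 0, .ofNat 0, .ofNat 0, .ofNat 0, .ofNat 0, .ofNat 0⟩)
    (by decide +kernel)
theorem L00216 : Good (Phi V5.P V5.D 1 (-1)) ⟨6, 2, 5, 13, 1, 0, 3, 6, 3, 0⟩ :=
  leafYS_sound T5.ok_pm T5.Ypm.bz_eq (w := 207) (c := ⟨⟨.negSucc 350, .negSucc 17, .negSucc 7, .ofNat 281, .ofNat 64, .negSucc 650⟩, ⟨.ofNat 146, .ofNat 10, .ofNat 19, .negSucc 144, .negSucc 30, .ofNat 273⟩, ⟨.ofNat 227, .ofNat 30, .ofNat 1, .negSucc 244, .negSucc 52, .ofNat 594⟩, ⟨.negSucc 1010, .negSucc 50, .negSucc 56, .ofNat 715, .ofNat 166, .negSucc 1992⟩, ⟨.ofNat 87, .ofNat 1, .negSucc 60, .negSucc 291, .negSucc 52, .negSucc 101⟩, .ofNat 1272, .ofNat 1194, .ofNat 0, .ofNat 1194, .ofNat 2783, .ofNat 0, .ofNat 215, .negSucc 124, .negSucc 191, .ofNat 0, .ofNat 128, .ofNat 88, .ofNat 0, .ofNat 0, .ofNat 526, .ofNat 1680, .ofNat 0, .ofNat 0, .ofNat 0, .ofNat 0, .ofNat 0, .ofNat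 0, .ofNat 0, .ofNat 0, .ofNat 0, .ofNat 0, .ofNat 0, .ofNat 0, .ofNat 0, .ofNat 0, .ofNat 0, .ofNat 0⟩)
    (by decide +kernel)
theorem L00217 : Good (Phi V5.P V5.D 1 (-1)) ⟨6, 2, 5, 13, 1, 0, 3, 7, 3, 0⟩ :=
  leafYS_sound T5.ok_pm T5.Ypm.bz_eq (w := 207) (c := ⟨⟨.negSucc 485, .ofNat 9, .ofNat 22, .negSucc 23, .ofNat 316, .negSucc 190⟩, ⟨.ofNat 204, .ofNat 1, .negSucc 0, .negSucc 1, .negSucc 134, .ofNat 71⟩, ⟨.ofNat 345, .ofNat 2, .negSucc 43, .ofNat 256, .negSucc 280, .negSucc 1⟩, ⟨.negSucc 1444, .ofNat 54, .ofNat 40, .negSucc 131, .ofNat 949, .negSucc 637⟩, ⟨.ofNat 16, .ofNat 62, .negSucc 48, .negSucc 141, .ofNat 14, .negSucc 158⟩, .ofNat 1301, .ofNat 1240, .ofNat 0, .ofNat 1240, .ofNat 2873, .ofNat 0, .ofNat 140, .negSucc 123, .negSucc 241, .ofNat 0, .ofNat 128, .ofNat 110, .ofNat 0, .ofNat 0, .ofNat 608, .ofNat 1098, .ofNat 0,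 .ofNat 0, .ofNat 0, .ofNat 0, .ofNat 0, .ofNat 21591937579813803668148572029912738693120, .ofNat 0, .ofNat 0, .ofNat 0, .ofNat 322701272929958683985089691520015209070592, .ofNat 0, .ofNat 0, .ofNat 0, .ofNat 642820407801713917000665156389474735751168, .ofNat 0, .ofNat 0⟩)
    (by decide +kernel)
theorem L00218 : Good (Phi V5.P V5.D 1 (-1)) ⟨6, 2, 5, 13, 1, 0, 2, 2, 3, 1⟩ :=
  leafYS_sound T5.ok_pm T5.Ypm.bz_eq (w := 204) (c := ⟨⟨.negSucc 1047, .negSucc 6, .ofNat 13, .ofNat 9, .ofNat 110, .negSucc 100⟩, ⟨.ofNat 432, .ofNat 8, .ofNat 30, .negSucc 38, .negSucc 46, .ofNat 43⟩, ⟨.ofNat 869, .ofNat 9, .negSucc 48, .negSucc 135, .negSucc 136, .ofNat 288⟩, ⟨.negSucc 3143, .negSucc 10, .ofNat 36, .negSucc 142, .ofNat 334, .negSucc 304⟩, ⟨.negSucc 12, .ofNat 11, .ofNat 8, .negSucc 389, .ofNat 12, .negSucc 8⟩, .ofNat 1303, .ofNat 1244, .ofNat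 0, .ofNat 1244, .ofNat 2879, .ofNat 0, .ofNat 158, .negSucc 125, .negSucc 97, .ofNat 0, .ofNat 128, .ofNat 47, .ofNat 0, .ofNat 0, .ofNat 539, .ofNat 2193, .ofNat 0, .ofNat 0, .ofNat 0, .ofNat 0, .ofNat 0, .ofNat 0, .ofNat 0, .ofNat 0, .ofNat 0, .ofNat 0, .ofNat 0, .ofNat 0, .ofNat 0, .ofNat 0, .ofNat 0, .ofNat 0⟩)
    (by decide +kernel)
theorem L00219 : Good (Phi V5.P V5.D 1 (-1)) ⟨6, 2, 5, 13, 1, 0, 2, 3, 3, 1⟩ :=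
  leafYS_sound T5.ok_pm T5.Ypm.bz_eq (w := 203) (c := ⟨⟨.negSucc 849, .negSucc 9, .negSucc 5, .negSucc 174, .ofNat 366, .negSucc 178⟩, ⟨.ofNat 346, .ofNat 7, .ofNat 31, .ofNat 52, .negSucc 154, .ofNat 83⟩, ⟨.ofNat 668, .ofNat 13, .ofNat 16, .ofNat 345, .negSucc 532, .ofNat 163⟩, ⟨.negSucc 2586, .negSucc 15, .negSucc 12, .negSucc 640, .ofNat 1118, .negSucc 509⟩, ⟨.negSucc 98, .ofNat 20, .ofNat 19, .negSucc 271, .ofNat 45, .ofNat 67⟩, .ofNat 1129, .ofNat 972, .ofNat 0, .ofNat 972, .ofNat 2358, .ofNat 0, .ofNat 176, .negSucc 122, .negSucc 115, .ofNat 0, .ofNat 128, .ofNat 52, .ofNat 0, .ofNat 0, .ofNat 519, .ofNat 567, .ofNat 0, .ofNat 0, .ofNat 0, .ofNat 0, .ofNat 0, .ofNat 0, .ofNat 0, .ofNat 0, .ofNat 0, .ofNat 178660115147630500710584546818058675552256, .ofNat 0, .ofNat 0, .ofNat 0, .ofNat 200024845473286761212671416355911471464448,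 .ofNat 0, .ofNat 0⟩)
    (by decide +kernel)
theorem L00220 : Good (Phi V5.P V5.D 1 (-1)) ⟨6, 2, 5, 13, 1, 0, 2, 2, 3, 2⟩ :=
  leafYS_sound T5.ok_pm T5.Ypm.bz_eq (w := 205) (c := ⟨⟨.negSucc 1097, .negSucc 5, .ofNat 0, .negSucc 71, .ofNat 55, .ofNat 79⟩, ⟨.ofNat 452, .ofNat 6, .ofNat 34, .ofNat 5, .negSucc 20, .negSucc 31⟩, ⟨.ofNat 978, .negSucc 6, .negSucc 1, .ofNat 218, .negSucc 151, .ofNat 90⟩, ⟨.negSucc 3307, .negSucc 11, .negSucc 6, .negSucc 347, .ofNat 181, .ofNat 250⟩, ⟨.negSucc 39, .ofNat 2, .negSucc 5, .negSucc 306, .ofNat 31, .ofNat 31⟩, .ofNat 1025, .ofNat 815, .ofNat 0, .ofNat 815, .ofNat 2062, .ofNat 0, .ofNat 154, .negSucc 117, .negSucc 109, .ofNat 0, .ofNat 128, .ofNat 50, .ofNat 0, .ofNat 0, .ofNat 1202, .ofNat 3541, .ofNat 0, .ofNat 0, .ofNat 0, .ofNat 0, .ofNat 0, .ofNat 0, .ofNat 0, .ofNat 0, .ofNat 0, .ofNat 0,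 .ofNat 0, .ofNat 0, .ofNat 0, .ofNat 0, .ofNat 0, .ofNat 0⟩)
    (by decide +kernel)
theorem L00221 : Good (Phi V5.P V5.D 1 (-1)) ⟨6, 2, 5, 13, 1, 0, 2, 2, 4, 6⟩ :=
  leafYS_sound T5.ok_pm T5.Ypm.bz_eq (w := 211) (c := ⟨⟨.negSucc 987, .negSucc 9, .ofNat 4, .negSucc 75, .ofNat 8, .ofNat 48⟩, ⟨.ofNat 405, .ofNat 8, .ofNat 30, .ofNat 8, .ofNat 2, .negSucc 20⟩, ⟨.ofNat 830, .ofNat 44, .ofNat 17, .ofNat 654, .negSucc 171, .ofNat 204⟩, ⟨.negSucc 2972, .negSucc 24, .ofNat 4, .negSucc 347, .ofNat 51, .ofNat 144⟩, ⟨.negSucc 35, .ofNat 3, .negSucc 6, .negSucc 282, .ofNat 62, .ofNat 2⟩, .ofNat 1192, .ofNat 1068, .ofNat 0, .ofNat 1068, .ofNat 2546, .ofNat 0, .ofNat 143, .negSucc 121, .negSucc 102, .ofNat 0, .ofNat 128, .ofNat 39, .ofNat 0, .ofNat 0, .ofNat 2136, .ofNat 7349, .ofNat 0, .ofNat 0, .ofNat 0, .ofNat 0, .ofNat 0, .ofNat 0, .ofNat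 0, .ofNat 0, .ofNat 0, .ofNat 4160598805545394021513249006736705799061504, .ofNat 0, .ofNat 0, .ofNat 0, .ofNat 44981005535127471879781546102614424071176192, .ofNat 0, .ofNat 0⟩)
    (by decide +kernel)
theorem L00222 : Good (Phi V5.P V5.D 1 (-1)) ⟨6, 2, 5, 13, 1, 0, 2, 2, 4, 7⟩ :=
  leafYS_sound T5.ok_pm T5.Ypm.bz_eq (w := 210) (c := ⟨⟨.negSucc 869, .negSucc 1, .ofNat 4, .negSucc 88, .negSucc 65, .ofNat 64⟩, ⟨.ofNat 356, .ofNat 4, .ofNat 30, .ofNat 6, .ofNat 38, .negSucc 33⟩, ⟨.ofNat 331, .ofNat 32, .ofNat 65, .ofNat 1744, .negSucc 279, .ofNat 552⟩, ⟨.negSucc 2622, .negSucc 5, .negSucc 1, .negSucc 415, .negSucc 142, .ofNat 157⟩, ⟨.negSucc 31, .negSucc 9, .negSucc 10, .negSucc 353, .ofNat 117, .negSucc 75⟩, .ofNat 1301, .ofNat 1240, .ofNat 0, .ofNat 1240, .ofNat 2873, .ofNat 0, .ofNat 128, .negSucc 147, .negSucc 79, .ofNat 0, .ofNat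 154, .ofNat 27, .ofNat 0, .ofNat 0, .ofNat 2488, .ofNat 3906, .ofNat 0, .ofNat 0, .ofNat 0, .ofNat 0, .ofNat 145491658444202689820076962674636438791782400, .ofNat 4146381567097181376899314841496909787430912, .ofNat 0, .ofNat 0, .ofNat 259620127712685783120404187063932508411265024, .ofNat 12150329886552856432180360212064244900823040, .ofNat 0, .ofNat 0, .ofNat 2532364304674509878346259170188420413141286912, .ofNat 110935437280003068123406296929106698585505792, .ofNat 0, .ofNat 0⟩)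
    (by decide +kernel)
theorem L00223 : Good (Phi V5.P V5.D 1 (-1)) ⟨6, 2, 5, 13, 1, 0, 3, 6, 3, 2⟩ :=
  leafYS_sound T5.ok_pm T5.Ypm.bz_eq (w := 208) (c := ⟨⟨.negSucc 944, .negSucc 8, .negSucc 19, .negSucc 181, .ofNat 28, .ofNat 23⟩, ⟨.ofNat 386, .ofNat 7, .ofNat 42, .ofNat 60, .negSucc 6, .negSucc 7⟩, ⟨.ofNat 699, .ofNat 20, .negSucc 13, .ofNat 648, .negSucc 147, .ofNat 19⟩, ⟨.negSucc 2852, .negSucc 18, .negSucc 55, .negSucc 635, .ofNat 105, .ofNat 83⟩, ⟨.negSucc 56, .ofNat 6, .ofNat 14, .negSucc 212, .ofNat 53, .ofNat 33⟩, .ofNat 1194, .ofNat 1071, .ofNat 0, .ofNat 1071, .ofNat 2551, .ofNat 0, .ofNat 185, .negSucc 123, .negSucc 94, .ofNat 0, .ofNat 128, .ofNat 40, .ofNat 0, .ofNat 0, .ofNat 953, .ofNat 2235, .ofNat 0, .ofNat 0, .ofNat 0, .ofNat 0, .ofNat 0, .ofNat 0, .ofNat 0, .ofNat 0, .ofNat 0, .ofNat 1055342937557232288044441710105101116375040,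 .ofNat 0, .ofNat 0, .ofNat 0, .ofNat 5878797032889741765199943757573941652094976, .ofNat 0, .ofNat 0⟩)
    (by decide +kernel)
theorem L00224 : Good (Phi V5.P V5.D 1 (-1)) ⟨6, 2, 5, 13, 1, 0, 3, 6, 4, 6⟩ :=
  leafYS_sound T5.ok_pm T5.Ypm.bz_eq (w := 214) (c := ⟨⟨.negSucc 925, .negSucc 6, .ofNat 1, .negSucc 160, .negSucc 5, .ofNat 32⟩, ⟨.ofNat 381, .ofNat 5, .ofNat 31, .ofNat 50, .ofNat 9, .negSucc 12⟩, ⟨.ofNat 562, .ofNat 30, .ofNat 28, .ofNat 957, .negSucc 196, .ofNat 40⟩, ⟨.negSucc 2777, .negSucc 18, .negSucc 3, .negSucc 574, .ofNat 13, .ofNat 100⟩, ⟨.negSucc 10, .negSucc 9, .negSucc 6, .negSucc 220, .ofNat 71, .ofNat 10⟩, .ofNat 1192, .ofNat 1068, .ofNat 0, .ofNat 1068, .ofNat 2546, .ofNat 0, .ofNat 128, .negSucc 138, .negSucc 78, .ofNat 0, .ofNat 145, .ofNat 27, .ofNat 0, .ofNat 0, .ofNat 1309, .ofNat 3377, .ofNat 0, .ofNat 0,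 .ofNat 0, .ofNat 0, .ofNat 0, .ofNat 0, .ofNat 0, .ofNat 0, .ofNat 0, .ofNat 26806231919523894123236488706879712237977600, .ofNat 0, .ofNat 0, .ofNat 0, .ofNat 122475868582793296322812762516655242269949952, .ofNat 0, .ofNat 0⟩)
    (by decide +kernel)
theorem L00225 : Good (Phi V5.P V5.D 1 (-1)) ⟨6, 2, 5, 13, 1, 0, 3, 6, 4, 7⟩ :=
  leafYS_sound T5.ok_pm T5.Ypm.bz_eq (w := 214) (c := ⟨⟨.negSucc 887, .negSucc 3, .negSucc 0, .negSucc 151, .negSucc 36, .ofNat 34⟩, ⟨.ofNat 364, .ofNat 5, .ofNat 32, .ofNat 47, .ofNat 24, .negSucc 13⟩, ⟨.ofNat 531, .ofNat 0, .ofNat 32, .ofNat 1178, .negSucc 258, .ofNat 33⟩, ⟨.negSucc 2671, .negSucc 8, .negSucc 10, .negSucc 541, .negSucc 70, .ofNat 106⟩, ⟨.negSucc 28, .negSucc 4, .negSucc 6, .negSucc 204, .ofNat 93, .ofNat 9⟩, .ofNat 1299, .ofNat 1237, .ofNat 0, .ofNat 1237, .ofNat 2870, .ofNat 0, .ofNat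 128, .negSucc 162, .negSucc 73, .ofNat 0, .ofNat 170, .ofNat 17, .ofNat 0, .ofNat 0, .ofNat 1879, .ofNat 2683, .ofNat 0, .ofNat 879742081793959119074413393374127985786880, .ofNat 0, .ofNat 0, .ofNat 0, .ofNat 17590041375358046420572855160789579061002240, .ofNat 0, .ofNat 0, .ofNat 0, .ofNat 42500266467187823660252591782520285497917440, .ofNat 0, .ofNat 0, .ofNat 5660606678353826012320046482785726746857570304, .ofNat 317368995754851997978671463166872975893856256, .ofNat 0, .ofNat 0⟩)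
    (by decide +kernel)
theorem L00226 : Good (Phi V5.P V5.D 1 (-1)) ⟨6, 2, 5, 13, 2, 0, 3, 7, 3, 2⟩ :=
  leafYS_sound T5.ok_pm T5.Ypm.bz_eq (w := 222) (c := ⟨⟨.negSucc 811, .negSucc 9, .negSucc 9, .negSucc 153, .ofNat 128, .negSucc 97⟩, ⟨.ofNat 330, .ofNat 7, .ofNat 34, .ofNat 63, .negSucc 46, .ofNat 48⟩, ⟨.ofNat 466, .ofNat 0, .ofNat 17, .ofNat 384, .negSucc 312, .ofNat 14⟩, ⟨.negSucc 2462, .negSucc 18, .negSucc 22, .negSucc 470, .ofNat 426, .negSucc 273⟩, ⟨.negSucc 69, .ofNat 14, .ofNat 19, .negSucc 23, .ofNat 91, .ofNat 47⟩, .ofNat 1023, .ofNat 811, .ofNat 0, .ofNat 811, .ofNat 2057, .ofNat 0, .ofNat 146, .negSucc 115, .negSucc 50, .ofNat 0, .ofNat 128, .ofNat 21, .ofNat 0, .ofNat 0, .ofNat 328, .ofNat 1815, .ofNat 0, .ofNat 0, .ofNat 0, .ofNat 0, .ofNat 0, .ofNat 0, .ofNat 0, .ofNat 0, .ofNat 0, .ofNat 0, .ofNat 0, .ofNat 0,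 .ofNat 0, .ofNat 0, .ofNat 0, .ofNat 0⟩)
    (by decide +kernel)
theorem L00227 : Good (Phi V5.P V5.D 1 (-1)) ⟨6, 2, 5, 13, 2, 1, 3, 7, 3, 2⟩ :=
  leafYS_sound T5.ok_pm T5.Ypm.bz_eq (w := 220) (c := ⟨⟨.negSucc 955, .ofNat 1, .ofNat 2, .negSucc 196, .negSucc 26, .negSucc 42⟩, ⟨.ofNat 382, .ofNat 2, .ofNat 32, .ofNat 79, .ofNat 24, .ofNat 27⟩, ⟨.ofNat 751, .ofNat 18, .ofNat 13, .ofNat 549, .negSucc 129, .ofNat 70⟩, ⟨.negSucc 2925, .ofNat 1, .ofNat 1, .negSucc 615, .negSucc 10, .negSucc 86⟩, ⟨.negSucc 142, .negSucc 14, .negSucc 3, .negSucc 64, .ofNat 154, .ofNat 93⟩, .ofNat 1295, .ofNat 1231, .ofNat 0, .ofNat 1231, .ofNat 2853, .ofNat 0, .ofNat 166, .negSucc 125, .negSucc 39, .ofNat 0, .ofNat 128, .ofNat 16, .ofNat 0, .ofNat 0, .ofNat 357, .ofNat 372, .ofNat 0, .ofNat 39890840630404485937711373974260490046537728, .ofNat 0, .ofNat 0,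 .ofNat 0, .ofNat 0, .ofNat 0, .ofNat 0, .ofNat 0, .ofNat 0, .ofNat 0, .ofNat 0, .ofNat 0, .ofNat 6524351533460314259646516711759373135354265600, .ofNat 0, .ofNat 0⟩)
    (by decide +kernel)

end Crest.Agent.R097C5.N5pm
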