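import Crest.Agent.R097.KS3
import Crest.Agent.R097.T5Ypm

/-!
# Row 97, box cover in dimension n = 5 (generated)
-/

set_option autoImplicit false
set_option Elab.async false
set_option maxHeartbeats 0
set_option maxRecDepth 100000

open Crest.Agent.R097 Crest.Agent.R097.KA


namespace Crest.Agent.R097C5.N5pm

theorem L00228 : Good (Phi V5.P V5.D 1 (-1)) ⟨6, 2, 5, 13, 2, 0, 3, 7, 3, 3⟩ :=
  leafYS_sound T5.ok_pm T5.Ypm.bz_eq (w := 223) (c := ⟨⟨.negSucc 856, .negSucc 8, .ofNat 2, .negSucc 139, .negSucc 10, .negSucc 40⟩, ⟨.ofNat 348, .ofNat 7, .ofNat 29, .ofNat 64, .ofNat 14, .ofNat 24⟩, ⟨.ofNat 405, .ofNat 11, .ofNat 2, .ofNat 400, .negSucc 199, .negSucc 68⟩, ⟨.negSucc 2592, .negSucc 23, .ofNat 10, .negSucc 403, .ofNat 15, .negSucc 91⟩, ⟨.negSucc 53, .negSucc 4, .ofNat 4, .ofNat 31, .ofNat 105, .ofNat 70⟩, .ofNat 1271, .ofNat 1192, .ofNat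 0, .ofNat 1192, .ofNat 2780, .ofNat 0, .ofNat 189, .negSucc 122, .negSucc 67, .ofNat 0, .ofNat 128, .ofNat 24, .ofNat 0, .ofNat 0, .ofNat 730, .ofNat 4374, .ofNat 0, .ofNat 0, .ofNat 0, .ofNat 0, .ofNat 0, .ofNat 0, .ofNat 0, .ofNat 0, .ofNat 0, .ofNat 14300404778078662323718939101954804454067798016, .ofNat 0, .ofNat 0, .ofNat 0, .ofNat 0, .ofNat 0, .ofNat 0⟩)
    (by decide +kernel)
theorem L00229 : Good (Phi V5.P V5.D 1 (-1)) ⟨6, 2, 5, 13, 2, 1, 3, 7, 3, 3⟩ :=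
  leafYS_sound T5.ok_pm T5.Ypm.bz_eq (w := 224) (c := ⟨⟨.negSucc 994, .negSucc 5, .negSucc 0, .negSucc 156, .negSucc 74, .ofNat 2⟩, ⟨.ofNat 407, .ofNat 5, .ofNat 33, .ofNat 60, .ofNat 47, .ofNat 6⟩, ⟨.ofNat 809, .ofNat 8, .ofNat 26, .ofNat 648, .negSucc 187, .negSucc 56⟩, ⟨.negSucc 3006, .negSucc 13, .negSucc 6, .negSucc 491, .negSucc 145, .ofNat 44⟩, ⟨.negSucc 53, .negSucc 7, .negSucc 4, .negSucc 69, .ofNat 172, .ofNat 84⟩, .ofNat 1308, .ofNat 1252, .ofNat 0, .ofNat 1252, .ofNat 2891, .ofNat 0, .ofNat 197, .negSucc 123, .negSucc 41, .ofNat 0, .ofNat 128, .ofNat 4, .ofNat 0, .ofNat 0, .ofNat 1047, .ofNat 5500, .ofNat 0, .ofNat 1107108065982065681847190222218707390584324096, .ofNat 0, .ofNat 0, .ofNat 0, .ofNat 24525826034066128437429752332954777148891070464, .ofNat 0, .ofNat 0, .ofNat 0, .ofNat 33271275637093562524935485564841116018801639424,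 .ofNat 0, .ofNat 0, .ofNat 0, .ofNat 97597477172766133424265702148681999366989283328, .ofNat 0, .ofNat 0⟩)
    (by decide +kernel)
theorem L00230 : Good (Phi V5.P V5.D 1 (-1)) ⟨6, 2, 5, 13, 1, 0, 1, 1, 1, 1⟩ :=
  leafYS_sound T5.ok_pm T5.Ypm.bz_eq (w := 200) (c := ⟨⟨.negSucc 962, .negSucc 1, .ofNat 0, .ofNat 0, .ofNat 0, .ofNat 0⟩, ⟨.ofNat 399, .ofNat 4, .ofNat 30, .ofNat 0, .ofNat 0, .ofNat 0⟩, ⟨.ofNat 265, .ofNat 2, .ofNat 0, .ofNat 0, .ofNat 0, .ofNat 0⟩, ⟨.negSucc 2883, .negSucc 0, .ofNat 0, .ofNat 1, .negSucc 0, .ofNat 1⟩, ⟨.ofNat 0, .ofNat 0, .ofNat 0, .ofNat 0, .ofNat 0, .ofNat 0⟩, .ofNat 195, .ofNat 24, .ofNat 0, .ofNat 24, .ofNat 225, .ofNat 0, .ofNat 140, .negSucc 23, .negSucc 101, .ofNat 0, .ofNat 128, .ofNat 15, .ofNat 0, .ofNat 0, .ofNat 300, .ofNat 13398, .ofNat 1226648188033727275859412040857472204800000000, .ofNat 47180198752717526411044181851738318701592576,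 .ofNat 0, .ofNat 0, .ofNat 78505484034158545655002370614878221107200000000, .ofNat 3098908754746476606426920893347198056345370624, .ofNat 0, .ofNat 0, .ofNat 78505484034158545655002370614878221107200000000, .ofNat 3703095129049008024954032622970968512523141120, .ofNat 0, .ofNat 0, .ofNat 78505484034158545655002370614878221107200000000, .ofNat 3098909000503079217738847379324119814661734400, .ofNat 0, .ofNat 0⟩)
    (by decide +kernel)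
theorem L00231 : Good (Phi V5.P V5.D 1 (-1)) ⟨6, 3, 5, 13, 1, 0, 2, 2, 3, 0⟩ :=
  leafYS_sound T5.ok_pm T5.Ypm.bz_eq (w := 203) (c := ⟨⟨.negSucc 148, .ofNat 239, .ofNat 130, .ofNat 292, .negSucc 97, .negSucc 1123⟩, ⟨.ofNat 69, .negSucc 104, .negSucc 48, .negSucc 159, .ofNat 45, .ofNat 485⟩, ⟨.ofNat 33, .negSucc 213, .negSucc 136, .negSucc 448, .ofNat 149, .ofNat 1083⟩, ⟨.negSucc 360, .ofNat 691, .ofNat 366, .ofNat 701, .negSucc 319, .negSucc 3399⟩, ⟨.ofNat 163, .negSucc 43, .negSucc 32, .negSucc 390, .negSucc 32, .negSucc 103⟩, .ofNat 1030, .ofNat 823, .ofNat 0, .ofNat 823, .ofNat 2063, .ofNat 0, .ofNat 212, .negSucc 119, .negSucc 162, .ofNat 0, .ofNat 128, .ofNat 75, .ofNat 0, .ofNat 0, .ofNat 474, .ofNat 788, .ofNat 0, .ofNat 0, .ofNat 0, .ofNat 0, .ofNat 0, .ofNat 0, .ofNat 0, .ofNat 0, .ofNat 0, .ofNat 0, .ofNat 0, .ofNat 0, .ofNat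 0, .ofNat 0, .ofNat 0, .ofNat 0⟩)
    (by decide +kernel)
theorem L00232 : Good (Phi V5.P V5.D 1 (-1)) ⟨6, 3, 5, 13, 2, 0, 2, 3, 3, 0⟩ :=
  leafYS_sound T5.ok_pm T5.Ypm.bz_eq (w := 217) (c := ⟨⟨.negSucc 643, .negSucc 20, .negSucc 3, .ofNat 86, .ofNat 537, .negSucc 361⟩, ⟨.ofNat 271, .ofNat 10, .ofNat 19, .negSucc 61, .negSucc 236, .ofNat 160⟩, ⟨.ofNat 578, .ofNat 28, .ofNat 9, .negSucc 74, .negSucc 618, .ofNat 259⟩, ⟨.negSucc 1922, .negSucc 65, .negSucc 4, .ofNat 139, .ofNat 1584, .negSucc 1067⟩, ⟨.negSucc 3, .negSucc 14, .ofNat 22, .negSucc 265, .negSucc 39, .ofNat 26⟩, .ofNat 1196, .ofNat 1074, .ofNat 0, .ofNat 1074, .ofNat 2543, .ofNat 0, .ofNat 203, .negSucc 121, .negSucc 252, .ofNat 0, .ofNat 128, .ofNat 113, .ofNat 0, .ofNat 0, .ofNat 700, .ofNat 1103, .ofNat 0, .ofNat 0, .ofNat 0, .ofNat 0, .ofNat 0, .ofNat 0, .ofNat 0, .ofNat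 0, .ofNat 0, .ofNat 0, .ofNat 0, .ofNat 0, .ofNat 0, .ofNat 0, .ofNat 0, .ofNat 0⟩)
    (by decide +kernel)
theorem L00233 : Good (Phi V5.P V5.D 1 (-1)) ⟨6, 3, 5, 13, 2, 1, 2, 3, 3, 0⟩ :=
  leafYS_sound T5.ok_pm T5.Ypm.bz_eq (w := 217) (c := ⟨⟨.negSucc 157, .negSucc 66, .ofNat 6, .negSucc 64, .ofNat 98, .negSucc 570⟩, ⟨.ofNat 34, .ofNat 38, .ofNat 11, .ofNat 41, .negSucc 39, .ofNat 234⟩, ⟨.negSucc 45, .ofNat 114, .negSucc 15, .ofNat 230, .ofNat 48, .ofNat 432⟩, ⟨.negSucc 606, .negSucc 154, .ofNat 16, .negSucc 129, .ofNat 301, .negSucc 1762⟩, ⟨.negSucc 313, .ofNat 97, .ofNat 9, .ofNat 144, .ofNat 24, .negSucc 142⟩, .ofNat 1273, .ofNat 1195, .ofNat 0, .ofNat 1195, .ofNat 2772, .ofNat 0, .ofNat 223, .negSucc 125, .negSucc 235, .ofNat 0, .ofNat 128, .ofNat 112, .ofNat 0, .ofNat 0, .ofNat 600, .ofNat 1123, .ofNat 0, .ofNat 0, .ofNat 0, .ofNat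 0, .ofNat 0, .ofNat 0, .ofNat 0, .ofNat 0, .ofNat 0, .ofNat 0, .ofNat 0, .ofNat 0, .ofNat 0, .ofNat 0, .ofNat 0, .ofNat 0⟩)
    (by decide +kernel)
theorem L00234 : Good (Phi V5.P V5.D 1 (-1)) ⟨6, 3, 5, 13, 1, 0, 2, 2, 3, 1⟩ :=
  leafYS_sound T5.ok_pm T5.Ypm.bz_eq (w := 203) (c := ⟨⟨.negSucc 1034, .ofNat 0, .negSucc 4, .negSucc 8, .ofNat 77, .negSucc 121⟩, ⟨.ofNat 429, .ofNat 2, .ofNat 38, .negSucc 29, .negSucc 30, .ofNat 55⟩, ⟨.ofNat 886, .negSucc 42, .ofNat 27, .negSucc 127, .negSucc 62, .ofNat 307⟩, ⟨.negSucc 3096, .negSucc 7, .negSucc 19, .negSucc 183, .ofNat 239, .negSucc 360⟩, ⟨.negSucc 10, .negSucc 34, .ofNat 0, .negSucc 363, .ofNat 23, .ofNat 4⟩, .ofNat 1302, .ofNat 1242, .ofNat 0, .ofNat 1242, .ofNat 2864, .ofNat 0, .ofNat 153, .negSucc 125, .negSucc 70, .ofNat 0, .ofNat 128, .ofNat 34, .ofNat 0, .ofNat 0, .ofNat 392, .ofNat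 1266, .ofNat 0, .ofNat 0, .ofNat 0, .ofNat 0, .ofNat 0, .ofNat 0, .ofNat 0, .ofNat 0, .ofNat 0, .ofNat 0, .ofNat 0, .ofNat 0, .ofNat 0, .ofNat 0, .ofNat 0, .ofNat 0⟩)
    (by decide +kernel)
theorem L00235 : Good (Phi V5.P V5.D 1 (-1)) ⟨6, 3, 5, 13, 1, 0, 3, 6, 3, 1⟩ :=
  leafYS_sound T5.ok_pm T5.Ypm.bz_eq (w := 208) (c := ⟨⟨.negSucc 891, .ofNat 6, .ofNat 3, .negSucc 184, .ofNat 73, .negSucc 83⟩, ⟨.ofNat 368, .negSucc 0, .ofNat 30, .ofNat 57, .negSucc 28, .ofNat 38⟩, ⟨.ofNat 668, .ofNat 4, .negSucc 27, .ofNat 363, .negSucc 131, .ofNat 139⟩, ⟨.negSucc 2697, .ofNat 17, .ofNat 16, .negSucc 653, .ofNat 240, .negSucc 245⟩, ⟨.negSucc 68, .negSucc 19, .ofNat 21, .negSucc 233, .ofNat 54, .ofNat 10⟩, .ofNat 1275, .ofNat 1198, .ofNat 0, .ofNat 1198, .ofNat 2776, .ofNat 0, .ofNat 132, .negSucc 125, .negSucc 115, .ofNat 0, .ofNat 128, .ofNat 54,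 .ofNat 0, .ofNat 0, .ofNat 565, .ofNat 1583, .ofNat 0, .ofNat 0, .ofNat 0, .ofNat 0, .ofNat 0, .ofNat 0, .ofNat 0, .ofNat 0, .ofNat 0, .ofNat 0, .ofNat 0, .ofNat 0, .ofNat 0, .ofNat 0, .ofNat 0, .ofNat 0⟩)
    (by decide +kernel)
theorem L00236 : Good (Phi V5.P V5.D 1 (-1)) ⟨6, 3, 5, 13, 1, 0, 3, 7, 3, 1⟩ :=
  leafYS_sound T5.ok_pm T5.Ypm.bz_eq (w := 207) (c := ⟨⟨.negSucc 740, .negSucc 16, .negSucc 14, .negSucc 316, .ofNat 320, .negSucc 119⟩, ⟨.ofNat 306, .ofNat 8, .ofNat 34, .ofNat 115, .negSucc 136, .ofNat 54⟩, ⟨.ofNat 516, .ofNat 16, .ofNat 8, .ofNat 640, .negSucc 458, .ofNat 32⟩, ⟨.negSucc 2221, .negSucc 53, .negSucc 46, .negSucc 1040, .ofNat 964, .negSucc 355⟩, ⟨.negSucc 15, .negSucc 20, .ofNat 3, .negSucc 222, .ofNat 23, .ofNat 6⟩, .ofNat 1309, .ofNat 1253, .ofNat 0, .ofNat 1253, .ofNat 2878, .ofNat 0, .ofNat 128, .negSucc 128,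 .negSucc 127, .ofNat 0, .ofNat 131, .ofNat 58, .ofNat 0, .ofNat 0, .ofNat 499, .ofNat 664, .ofNat 0, .ofNat 0, .ofNat 0, .ofNat 0, .ofNat 0, .ofNat 595513085275641309511873761122123025219584, .ofNat 0, .ofNat 0, .ofNat 0, .ofNat 1127764712394703708677270188581872935632896, .ofNat 0, .ofNat 0, .ofNat 0, .ofNat 1271525970231694711365108555086710664331264, .ofNat 0, .ofNat 0⟩)
    (by decide +kernel)
theorem L00237 : Good (Phi V5.P V5.D 1 (-1)) ⟨6, 3, 5, 13, 2, 0, 2, 2, 3, 2⟩ :=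
  leafYS_sound T5.ok_pm T5.Ypm.bz_eq (w := 220) (c := ⟨⟨.negSucc 1121, .negSucc 2, .ofNat 6, .negSucc 14, .ofNat 90, .ofNat 74⟩, ⟨.ofNat 468, .ofNat 5, .ofNat 31, .negSucc 7, .negSucc 36, .negSucc 29⟩, ⟨.ofNat 1126, .negSucc 33, .ofNat 10, .ofNat 107, .negSucc 282, .negSucc 26⟩, ⟨.negSucc 3363, .negSucc 1, .ofNat 14, .negSucc 114, .ofNat 276, .ofNat 228⟩, ⟨.negSucc 23, .ofNat 1, .ofNat 0, .negSucc 162, .ofNat 18, .ofNat 19⟩, .ofNat 1195, .ofNat 1072, .ofNat 0, .ofNat 1072, .ofNat 2542, .ofNat 0, .ofNat 157, .negSucc 121, .negSucc 80, .ofNat 0, .ofNat 128, .ofNat 37, .ofNat 0, .ofNat 0, .ofNat 842, .ofNat 10975, .ofNat 0, .ofNat 0, .ofNat 0, .ofNat 0, .ofNat 0, .ofNat 0, .ofNat 0, .ofNat 0, .ofNat 0, .ofNat 0, .ofNat 0, .ofNat 0, .ofNat 0, .ofNat 0, .ofNat 0, .ofNat 0⟩)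
    (by decide +kernel)
theorem L00238 : Good (Phi V5.P V5.D 1 (-1)) ⟨6, 3, 5, 13, 2, 0, 2, 2, 3, 3⟩ :=
  leafYS_sound T5.ok_pm T5.Ypm.bz_eq (w := 222) (c := ⟨⟨.negSucc 1013, .negSucc 4, .negSucc 3, .negSucc 31, .ofNat 53, .ofNat 68⟩, ⟨.ofNat 422, .ofNat 5, .ofNat 33, .ofNat 2, .negSucc 19, .negSucc 27⟩, ⟨.ofNat 1005, .ofNat 14, .ofNat 21, .ofNat 278, .negSucc 316, .negSucc 95⟩, ⟨.negSucc 3041, .negSucc 5, .negSucc 11, .negSucc 153, .ofNat 175, .ofNat 210⟩, ⟨.negSucc 27, .ofNat 2, .ofNat 2, .negSucc 135, .ofNat 36, .ofNat 20⟩, .ofNat 730, .ofNat 422, .ofNat 0, .ofNat 422, .ofNat 1259, .ofNat 0, .ofNat 177, .negSucc 95, .negSucc 127, .ofNat 0, .ofNat 128, .ofNat 48, .ofNat 0, .ofNat 0, .ofNat 1869, .ofNat 28258, .ofNat 0, .ofNat 0, .ofNat 0, .ofNat 0, .ofNat 165307117045492677336276075356342721131633967104, .ofNat 0, .ofNat 0, .ofNat 0,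 .ofNat 81288211454259568900557619929586766171261108224, .ofNat 0, .ofNat 0, .ofNat 0, .ofNat 0, .ofNat 0, .ofNat 0, .ofNat 0⟩)
    (by decide +kernel)
theorem L00239 : Good (Phi V5.P V5.D 1 (-1)) ⟨6, 3, 5, 13, 3, 2, 2, 2, 3, 2⟩ :=
  leafYS_sound T5.ok_pm T5.Ypm.bz_eq (w := 234) (c := ⟨⟨.negSucc 1104, .negSucc 1, .ofNat 4, .negSucc 26, .ofNat 46, .ofNat 56⟩, ⟨.ofNat 441, .ofNat 4, .ofNat 34, .ofNat 5, .negSucc 15, .negSucc 18⟩, ⟨.ofNat 1045, .negSucc 18, .ofNat 4, .ofNat 61, .negSucc 92, .ofNat 162⟩, ⟨.negSucc 3401, .negSucc 0, .ofNat 4, .negSucc 115, .ofNat 161, .ofNat 191⟩, ⟨.negSucc 229, .negSucc 3, .ofNat 0, .negSucc 78, .ofNat 51, .ofNat 57⟩, .ofNat 732, .ofNat 425, .ofNat 0, .ofNat 425, .ofNat 1262, .ofNat 0, .ofNat 221, .negSucc 97, .negSucc 79, .ofNat 0, .ofNat 128, .ofNat 36, .ofNat 0, .ofNat 0, .ofNat 845, .ofNat 11097, .ofNat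 0, .ofNat 0, .ofNat 0, .ofNat 0, .ofNat 0, .ofNat 0, .ofNat 0, .ofNat 0, .ofNat 0, .ofNat 0, .ofNat 0, .ofNat 0, .ofNat 0, .ofNat 0, .ofNat 0, .ofNat 0⟩)
    (by decide +kernel)
theorem L00240 : Good (Phi V5.P V5.D 1 (-1)) ⟨6, 3, 5, 13, 3, 2, 2, 2, 3, 3⟩ :=
  leafYS_sound T5.ok_pm T5.Ypm.bz_eq (w := 235) (c := ⟨⟨.negSucc 1023, .negSucc 5, .ofNat 1, .negSucc 25, .ofNat 12, .ofNat 74⟩, ⟨.ofNat 411, .ofNat 6, .ofNat 33, .ofNat 5, .ofNat 0, .negSucc 29⟩, ⟨.ofNat 1139, .negSucc 19, .ofNat 18, .ofNat 204, .negSucc 136, .ofNat 197⟩, ⟨.negSucc 3138, .negSucc 10, .negSucc 1, .negSucc 106, .ofNat 63, .ofNat 230⟩, ⟨.negSucc 184, .negSucc 1, .ofNat 0, .negSucc 68, .ofNat 60, .ofNat 25⟩, .ofNat 1303, .ofNat 1243, .ofNat 0, .ofNat 1243, .ofNat 2865, .ofNat 0, .ofNat 134, .negSucc 123, .negSucc 93, .ofNat 0, .ofNat 128, .ofNat 34, .ofNat 0, .ofNat 0,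 .ofNat 2187, .ofNat 18572, .ofNat 0, .ofNat 0, .ofNat 0, .ofNat 0, .ofNat 275559543608364284855368083891455797839959060119552, .ofNat 0, .ofNat 0, .ofNat 0, .ofNat 283001896348792383307435575146135207314902430515200, .ofNat 0, .ofNat 0, .ofNat 0, .ofNat 0, .ofNat 0, .ofNat 0, .ofNat 0⟩)
    (by decide +kernel)
theorem L00241 : Good (Phi V5.P V5.D 1 (-1)) ⟨6, 3, 5, 13, 3, 3, 2, 2, 3, 2⟩ :=
  leafYS_sound T5.ok_pm T5.Ypm.bz_eq (w := 233) (c := ⟨⟨.negSucc 1124, .negSucc 11, .ofNat 5, .negSucc 31, .ofNat 6, .ofNat 77⟩, ⟨.ofNat 441, .ofNat 9, .ofNat 34, .ofNat 8, .ofNat 3, .negSucc 27⟩, ⟨.ofNat 928, .ofNat 48, .ofNat 14, .ofNat 71, .ofNat 79, .ofNat 301⟩, ⟨.negSucc 3498, .negSucc 29, .ofNat 4, .negSucc 123, .ofNat 49, .ofNat 256⟩, ⟨.negSucc 323, .negSucc 1, .negSucc 3, .negSucc 64, .ofNat 66, .ofNat 65⟩, .ofNat 1033, .ofNat 828, .ofNat 0,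 .ofNat 828, .ofNat 2069, .ofNat 0, .ofNat 160, .negSucc 120, .negSucc 59, .ofNat 0, .ofNat 128, .ofNat 27, .ofNat 0, .ofNat 0, .ofNat 764, .ofNat 4768, .ofNat 0, .ofNat 0, .ofNat 0, .ofNat 0, .ofNat 0, .ofNat 0, .ofNat 0, .ofNat 0, .ofNat 0, .ofNat 0, .ofNat 0, .ofNat 0, .ofNat 0, .ofNat 0, .ofNat 0, .ofNat 0⟩)
    (by decide +kernel)
theorem L00242 : Good (Phi V5.P V5.D 1 (-1)) ⟨6, 3, 5, 13, 3, 3, 2, 2, 4, 6⟩ :=
  leafYS_sound T5.ok_pm T5.Ypm.bz_eq (w := 240) (c := ⟨⟨.negSucc 1045, .negSucc 1, .ofNat 6, .negSucc 20, .negSucc 14, .ofNat 63⟩, ⟨.ofNat 415, .ofNat 4, .ofNat 32, .ofNat 2, .ofNat 11, .negSucc 28⟩, ⟨.ofNat 1092, .ofNat 71, .ofNat 3, .ofNat 287, .ofNat 63, .ofNat 383⟩, ⟨.negSucc 3230, .negSucc 4, .ofNat 10, .negSucc 96, .negSucc 19, .ofNat 178⟩, ⟨.negSucc 244, .negSucc 11, .ofNat 4, .negSucc 80, .ofNat 53, .negSucc 20⟩, .ofNat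 1276, .ofNat 1199, .ofNat 0, .ofNat 1199, .ofNat 2778, .ofNat 0, .ofNat 128, .negSucc 166, .negSucc 58, .ofNat 0, .ofNat 171, .ofNat 10, .ofNat 0, .ofNat 0, .ofNat 2897, .ofNat 15507, .ofNat 0, .ofNat 0, .ofNat 0, .ofNat 0, .ofNat 0, .ofNat 0, .ofNat 0, .ofNat 0, .ofNat 0, .ofNat 0, .ofNat 0, .ofNat 0, .ofNat 0, .ofNat 1812911362340504344995634833622354202064233003220992, .ofNat 0, .ofNat 0⟩)
    (by decide +kernel)
theorem L00243 : Good (Phi V5.P V5.D 1 (-1)) ⟨6, 3, 5, 13, 3, 3, 2, 2, 4, 7⟩ :=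
  leafYS_sound T5.ok_pm T5.Ypm.bz_eq (w := 239) (c := ⟨⟨.negSucc 979, .negSucc 6, .ofNat 4, .ofNat 6, .negSucc 34, .ofNat 74⟩, ⟨.ofNat 391, .ofNat 6, .ofNat 31, .negSucc 15, .ofNat 16, .negSucc 39⟩, ⟨.ofNat 1213, .negSucc 18, .ofNat 67, .ofNat 740, .ofNat 121, .ofNat 653⟩, ⟨.negSucc 3014, .negSucc 13, .ofNat 0, .negSucc 49, .negSucc 94, .ofNat 186⟩, ⟨.negSucc 192, .ofNat 1, .negSucc 10, .negSucc 168, .ofNat 11, .negSucc 91⟩, .ofNat 729, .ofNat 420, .ofNat 0, .ofNat 420, .ofNat 1257, .ofNat 0, .ofNat 132, .negSucc 96, .ofNat 16, .ofNat 0, .ofNat 128, .negSucc 50, .ofNat 0, .ofNat 0, .ofNat 2816, .ofNat 5866, .ofNat 0, .ofNat 0, .ofNat 0, .ofNat 0, .ofNat 2447293390785945688656236777386977459453941623291904, .ofNat 111771200552084268236042782880467119343798849634304, .ofNat 0, .ofNat 0, .ofNat 4502577628710496704856014475289376161376135093944320,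 .ofNat 163568524292694087195941720097719925648092483813376, .ofNat 0, .ofNat 0, .ofNat 61155017677370029821318467250116274739585422756675584, .ofNat 3295646216630842407179608948253850176749798032408576, .ofNat 0, .ofNat 0⟩)
    (by decide +kernel)
theorem L00244 : Good (Phi V5.P V5.D 1 (-1)) ⟨6, 3, 5, 13, 1, 0, 3, 6, 3, 2⟩ :=
  leafYS_sound T5.ok_pm T5.Ypm.bz_eq (w := 208) (c := ⟨⟨.negSucc 968, .negSucc 11, .ofNat 2, .negSucc 176, .ofNat 33, .ofNat 27⟩, ⟨.ofNat 402, .ofNat 9, .ofNat 31, .ofNat 57, .negSucc 10, .negSucc 9⟩, ⟨.ofNat 730, .ofNat 24, .negSucc 3, .ofNat 632, .negSucc 152, .negSucc 18⟩, ⟨.negSucc 2906, .negSucc 29, .ofNat 2, .negSucc 630, .ofNat 114, .ofNat 90⟩, ⟨.negSucc 20, .negSucc 1, .negSucc 0, .negSucc 235, .ofNat 36, .ofNat 18⟩, .ofNat 1199, .ofNat 1079, .ofNat 0, .ofNat 1079, .ofNat 2550, .ofNat 0, .ofNat 171, .negSucc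 123, .negSucc 84, .ofNat 0, .ofNat 128, .ofNat 36, .ofNat 0, .ofNat 0, .ofNat 843, .ofNat 1710, .ofNat 0, .ofNat 0, .ofNat 0, .ofNat 0, .ofNat 0, .ofNat 0, .ofNat 0, .ofNat 0, .ofNat 0, .ofNat 1546272647480553609792019704180189073244160, .ofNat 0, .ofNat 0, .ofNat 0, .ofNat 5135757266157000155116367455802598648446976, .ofNat 0, .ofNat 0⟩)
    (by decide +kernel)
theorem L00245 : Good (Phi V5.P V5.D 1 (-1)) ⟨6, 3, 5, 13, 1, 0, 3, 6, 4, 6⟩ :=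
  leafYS_sound T5.ok_pm T5.Ypm.bz_eq (w := 214) (c := ⟨⟨.negSucc 932, .negSucc 7, .ofNat 3, .negSucc 158, .negSucc 1, .ofNat 30⟩, ⟨.ofNat 387, .ofNat 7, .ofNat 30, .ofNat 49, .ofNat 7, .negSucc 11⟩, ⟨.ofNat 586, .ofNat 11, .ofNat 42, .ofNat 977, .negSucc 216, .ofNat 52⟩, ⟨.negSucc 2792, .negSucc 17, .ofNat 3, .negSucc 577, .ofNat 23, .ofNat 91⟩, ⟨.negSucc 11, .negSucc 3, .negSucc 6, .negSucc 237, .ofNat 70, .ofNat 8⟩, .ofNat 1198, .ofNat 1077, .ofNat 0, .ofNat 1077, .ofNat 2547, .ofNat 0, .ofNat 141, .negSucc 122, .negSucc 74, .ofNat 0, .ofNat 128, .ofNat 26, .ofNat 0, .ofNat 0, .ofNat 1242, .ofNat 3241, .ofNat 0, .ofNat 0, .ofNat 0, .ofNat 0, .ofNat 0, .ofNat 0, .ofNat 0, .ofNat 0, .ofNat 0, .ofNat 22258292535798379539775517422086377873342464, .ofNat 0, .ofNat 0, .ofNat 0, .ofNat 113373647916861953486946701112458536397307904, .ofNat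 0, .ofNat 0⟩)
    (by decide +kernel)
theorem L00246 : Good (Phi V5.P V5.D 1 (-1)) ⟨6, 3, 5, 13, 1, 0, 3, 6, 4, 7⟩ :=
  leafYS_sound T5.ok_pm T5.Ypm.bz_eq (w := 214) (c := ⟨⟨.negSucc 876, .negSucc 5, .negSucc 1, .negSucc 170, .negSucc 43, .ofNat 41⟩, ⟨.ofNat 361, .ofNat 6, .ofNat 34, .ofNat 55, .ofNat 28, .negSucc 19⟩, ⟨.ofNat 550, .ofNat 17, .negSucc 17, .ofNat 1141, .negSucc 304, .ofNat 233⟩, ⟨.negSucc 2642, .negSucc 11, .negSucc 4, .negSucc 590, .negSucc 84, .ofNat 103⟩, ⟨.negSucc 41, .negSucc 1, .ofNat 12, .negSucc 197, .ofNat 101, .negSucc 36⟩, .ofNat 1308, .ofNat 1251, .ofNat 0, .ofNat 1251, .ofNat 2876, .ofNat 0, .ofNat 128, .negSucc 146, .negSucc 72, .ofNat 0, .ofNat 153, .ofNat 14, .ofNat 0, .ofNat 0, .ofNat 2048, .ofNat 3295, .ofNat 0, .ofNat 1061399222972544496254675082641075559464960, .ofNat 0, .ofNat 0, .ofNat 0, .ofNat 19348091405001041834250325540204756544258048,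 .ofNat 0, .ofNat 0, .ofNat 0, .ofNat 37114954406727960385861766597159567677718528, .ofNat 0, .ofNat 0, .ofNat 6321795577125090951307446418683401350926041088, .ofNat 376505393430579327860916741837229983520522240, .ofNat 0, .ofNat 0⟩)
    (by decide +kernel)
theorem L00247 : Good (Phi V5.P V5.D 1 (-1)) ⟨6, 3, 5, 13, 2, 0, 3, 7, 3, 2⟩ :=
  leafYS_sound T5.ok_pm T5.Ypm.bz_eq (w := 222) (c := ⟨⟨.negSucc 818, .negSucc 11, .negSucc 5, .negSucc 136, .ofNat 94, .negSucc 74⟩, ⟨.ofNat 335, .ofNat 8, .ofNat 31, .ofNat 56, .negSucc 32, .ofNat 38⟩, ⟨.ofNat 472, .ofNat 16, .ofNat 12, .ofNat 369, .negSucc 289, .negSucc 24⟩, ⟨.negSucc 2476, .negSucc 25, .negSucc 17, .negSucc 431, .ofNat 318, .negSucc 195⟩, ⟨.negSucc 63, .ofNat 4, .ofNat 4, .negSucc 48, .ofNat 86, .ofNat 61⟩, .ofNat 1316, .ofNat 1263, .ofNat 0, .ofNat 1263, .ofNat 2891, .ofNat 0, .ofNat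 143, .negSucc 123, .negSucc 43, .ofNat 0, .ofNat 128, .ofNat 19, .ofNat 0, .ofNat 0, .ofNat 290, .ofNat 1824, .ofNat 0, .ofNat 0, .ofNat 0, .ofNat 0, .ofNat 0, .ofNat 0, .ofNat 0, .ofNat 0, .ofNat 0, .ofNat 0, .ofNat 0, .ofNat 0, .ofNat 0, .ofNat 0, .ofNat 0, .ofNat 0⟩)
    (by decide +kernel)
theorem L00248 : Good (Phi V5.P V5.D 1 (-1)) ⟨6, 3, 5, 13, 2, 1, 3, 7, 3, 2⟩ :=
  leafYS_sound T5.ok_pm T5.Ypm.bz_eq (w := 222) (c := ⟨⟨.negSucc 956, .negSucc 12, .negSucc 2, .negSucc 193, .negSucc 32, .negSucc 43⟩, ⟨.ofNat 385, .ofNat 8, .ofNat 35, .ofNat 76, .ofNat 27, .ofNat 27⟩, ⟨.ofNat 800, .negSucc 3, .ofNat 1, .ofNat 529, .negSucc 153, .ofNat 54⟩, ⟨.negSucc 2924, .negSucc 36, .negSucc 11, .negSucc 612, .negSucc 31, .negSucc 91⟩, ⟨.negSucc 145, .negSucc 11, .ofNat 3, .negSucc 81, .ofNat 150, .ofNat 89⟩, .ofNat 1193, .ofNat 1070, .ofNat 0,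 .ofNat 1070, .ofNat 2539, .ofNat 0, .ofNat 150, .negSucc 124, .negSucc 49, .ofNat 0, .ofNat 128, .ofNat 19, .ofNat 0, .ofNat 0, .ofNat 470, .ofNat 1728, .ofNat 0, .ofNat 0, .ofNat 0, .ofNat 0, .ofNat 0, .ofNat 7308209727191405655811871105159647404769673216, .ofNat 0, .ofNat 0, .ofNat 0, .ofNat 10240461690736621145499227118210052277439299584, .ofNat 0, .ofNat 0, .ofNat 0, .ofNat 11865148636395773825794625615854464047224193024, .ofNat 0, .ofNat 0⟩)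
    (by decide +kernel)
theorem L00249 : Good (Phi V5.P V5.D 1 (-1)) ⟨6, 3, 5, 13, 1, 0, 3, 7, 4, 6⟩ :=
  leafYS_sound T5.ok_pm T5.Ypm.bz_eq (w := 213) (c := ⟨⟨.negSucc 884, .negSucc 4, .ofNat 10, .negSucc 272, .ofNat 3, .negSucc 5⟩, ⟨.ofNat 367, .ofNat 4, .ofNat 26, .ofNat 113, .ofNat 7, .ofNat 6⟩, ⟨.ofNat 429, .ofNat 12, .ofNat 6, .ofNat 888, .negSucc 238, .negSucc 45⟩, ⟨.negSucc 2653, .negSucc 14, .ofNat 28, .negSucc 834, .ofNat 55, .negSucc 7⟩, ⟨.negSucc 13, .negSucc 17, .negSucc 2, .negSucc 53, .ofNat 104, .ofNat 25⟩, .ofNat 1312, .ofNat 1257, .ofNat 0, .ofNat 1257, .ofNat 2884, .ofNat 0, .ofNat 128, .negSucc 130, .negSucc 47, .ofNat 0, .ofNat 135, .ofNat 17, .ofNat 0, .ofNat 0, .ofNat 550, .ofNat 1555, .ofNat 0, .ofNat 394945457072324292066781109224358390267904, .ofNat 0, .ofNat 0, .ofNat 0, .ofNat 16901592888800273910534606335243421730471936,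 .ofNat 0, .ofNat 0, .ofNat 0, .ofNat 28839785521897636610751261391803409376477184, .ofNat 0, .ofNat 0, .ofNat 0, .ofNat 39539275484553710188600467815291694274838528, .ofNat 0, .ofNat 0⟩)
    (by decide +kernel)
theorem L00250 : Good (Phi V5.P V5.D 1 (-1)) ⟨6, 3, 5, 13, 1, 0, 3, 7, 4, 7⟩ :=
  leafYS_sound T5.ok_pm T5.Ypm.bz_eq (w := 214) (c := ⟨⟨.negSucc 880, .negSucc 9, .ofNat 4, .negSucc 253, .negSucc 49, .negSucc 8⟩, ⟨.ofNat 364, .ofNat 8, .ofNat 29, .ofNat 116, .ofNat 30, .ofNat 6⟩, ⟨.ofNat 392, .ofNat 3, .ofNat 6, .ofNat 770, .negSucc 174, .negSucc 29⟩, ⟨.negSucc 2651, .negSucc 19, .ofNat 12, .negSucc 722, .negSucc 101, .negSucc 20⟩, ⟨.negSucc 32, .ofNat 4, .negSucc 0, .ofNat 73, .ofNat 103, .ofNat 14⟩, .ofNat 1272, .ofNat 1193, .ofNat 0, .ofNat 1193, .ofNat 2770, .ofNat 0, .ofNat 128, .negSucc 140, .negSucc 55, .ofNat 0, .ofNat 147,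 .ofNat 19, .ofNat 0, .ofNat 0, .ofNat 670, .ofNat 3683, .ofNat 0, .ofNat 1983858855514640787859380197379641905774592, .ofNat 0, .ofNat 0, .ofNat 0, .ofNat 26285202479895565295260051196711646378590208, .ofNat 0, .ofNat 0, .ofNat 0, .ofNat 49048956517402268231973739770295147470782464, .ofNat 0, .ofNat 0, .ofNat 0, .ofNat 70650083216281959816326125671428815308455936, .ofNat 0, .ofNat 0⟩)
    (by decide +kernel)
theorem L00251 : Good (Phi V5.P V5.D 1 (-1)) ⟨6, 3, 5, 13, 1, 0, 1, 1, 1, 1⟩ :=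
  leafYS_sound T5.ok_pm T5.Ypm.bz_eq (w := 200) (c := ⟨⟨.negSucc 964, .negSucc 2, .ofNat 0, .ofNat 0, .ofNat 0, .ofNat 0⟩, ⟨.ofNat 403, .ofNat 4, .ofNat 30, .ofNat 0, .ofNat 0, .ofNat 0⟩, ⟨.ofNat 267, .ofNat 3, .ofNat 0, .ofNat 0, .ofNat 0, .ofNat 0⟩, ⟨.negSucc 2884, .negSucc 0, .ofNat 0, .ofNat 1, .negSucc 0, .ofNat 1⟩, ⟨.ofNat 0, .ofNat 0, .ofNat 0, .ofNat 0, .ofNat 0, .ofNat 0⟩, .ofNat 194, .ofNat 24, .ofNat 0, .ofNat 24, .ofNat 225, .ofNat 0, .ofNat 140, .negSucc 23, .negSucc 102, .ofNat 0, .ofNat 128, .ofNat 15, .ofNat 0, .ofNat 0, .ofNat 300, .ofNat 13186, .ofNat 1226648188033727275859412040857472204800000000, .ofNat 47180158990594961581821842655372163564961792, .ofNat 0, .ofNat 0, .ofNat 78505484034158545655002370614878221107200000000, .ofNat 3098909009698636954204027109451628813710524416, .ofNat 0, .ofNat 0, .ofNat 78505484034158545655002370614878221107200000000,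 .ofNat 3703094979334320405960812781922637355790893056, .ofNat 0, .ofNat 0, .ofNat 78505484034158545655002370614878221107200000000, .ofNat 3098909202670349701650895923787524889175392256, .ofNat 0, .ofNat 0⟩)
    (by decide +kernel)
theorem L00252 : Good (Phi V5.P V5.D 1 (-1)) ⟨4, 0, 4, 7, 1, 0, 2, 2, 3, 0⟩ :=
  leafYS_sound T5.ok_pm T5.Ypm.bz_eq (w := 192) (c := ⟨⟨.negSucc 89, .ofNat 112, .ofNat 0, .ofNat 371, .negSucc 67, .negSucc 1000⟩, ⟨.ofNat 35, .negSucc 52, .ofNat 30, .negSucc 196, .ofNat 33, .ofNat 469⟩, ⟨.negSucc 58, .negSucc 97, .negSucc 3, .negSucc 464, .ofNat 158, .ofNat 946⟩, ⟨.negSucc 204, .ofNat 297, .negSucc 120, .ofNat 1032, .negSucc 206, .negSucc 2983⟩, ⟨.ofNat 125, .negSucc 88, .negSucc 227, .negSucc 164, .ofNat 14, .ofNat 4⟩, .ofNat 1360, .ofNat 1338, .ofNat 0, .ofNat 1338, .ofNat 2909, .ofNat 0, .ofNat 151, .negSucc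 127, .negSucc 164, .ofNat 0, .ofNat 120, .ofNat 83, .ofNat 0, .ofNat 0, .ofNat 484, .ofNat 807, .ofNat 0, .ofNat 0, .ofNat 0, .ofNat 0, .ofNat 0, .ofNat 0, .ofNat 0, .ofNat 0, .ofNat 0, .ofNat 0, .ofNat 0, .ofNat 0, .ofNat 0, .ofNat 0, .ofNat 0, .ofNat 0⟩)
    (by decide +kernel)
theorem L00253 : Good (Phi V5.P V5.D 1 (-1)) ⟨4, 0, 4, 7, 1, 0, 2, 2, 3, 1⟩ :=
  leafYS_sound T5.ok_pm T5.Ypm.bz_eq (w := 193) (c := ⟨⟨.negSucc 1001, .ofNat 9, .negSucc 16, .negSucc 18, .ofNat 114, .negSucc 143⟩, ⟨.ofNat 434, .ofNat 9, .ofNat 77, .negSucc 17, .negSucc 53, .ofNat 70⟩, ⟨.ofNat 780, .negSucc 14, .ofNat 36, .negSucc 58, .negSucc 145, .ofNat 335⟩, ⟨.negSucc 3014, .ofNat 24, .negSucc 65, .negSucc 207, .ofNat 339, .negSucc 416⟩, ⟨.negSucc 23, .negSucc 37, .negSucc 8, .negSucc 323, .negSucc 0, .ofNat 27⟩, .ofNat 1381, .ofNat 1372, .ofNat 0, .ofNat 1372,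 .ofNat 2958, .ofNat 0, .ofNat 128, .negSucc 132, .negSucc 108, .ofNat 0, .ofNat 123, .ofNat 56, .ofNat 0, .ofNat 0, .ofNat 559, .ofNat 1862, .ofNat 0, .ofNat 0, .ofNat 0, .ofNat 0, .ofNat 0, .ofNat 0, .ofNat 0, .ofNat 0, .ofNat 0, .ofNat 0, .ofNat 0, .ofNat 0, .ofNat 0, .ofNat 0, .ofNat 0, .ofNat 0⟩)
    (by decide +kernel)
theorem L00254 : Good (Phi V5.P V5.D 1 (-1)) ⟨4, 0, 4, 7, 1, 0, 3, 6, 3, 0⟩ :=
  leafYS_sound T5.ok_pm T5.Ypm.bz_eq (w := 196) (c := ⟨⟨.negSucc 413, .ofNat 63, .ofNat 11, .ofNat 240, .ofNat 62, .negSucc 568⟩, ⟨.ofNat 171, .negSucc 12, .ofNat 36, .negSucc 139, .negSucc 32, .ofNat 268⟩, ⟨.ofNat 260, .negSucc 56, .ofNat 10, .negSucc 185, .negSucc 9, .ofNat 498⟩, ⟨.negSucc 1259, .ofNat 251, .ofNat 32, .ofNat 579, .ofNat 175, .negSucc 1734⟩, ⟨.negSucc 43, .ofNat 114, .ofNat 13, .negSucc 290, .negSucc 9, .negSucc 62⟩, .ofNat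 1144, .ofNat 1008, .ofNat 0, .ofNat 1008, .ofNat 2306, .ofNat 0, .ofNat 152, .negSucc 127, .negSucc 200, .ofNat 0, .ofNat 126, .ofNat 98, .ofNat 0, .ofNat 0, .ofNat 558, .ofNat 1029, .ofNat 0, .ofNat 0, .ofNat 0, .ofNat 0, .ofNat 0, .ofNat 0, .ofNat 0, .ofNat 0, .ofNat 0, .ofNat 0, .ofNat 0, .ofNat 0, .ofNat 0, .ofNat 0, .ofNat 0, .ofNat 0⟩)
    (by decide +kernel)
theorem L00255 : Good (Phi V5.P V5.D 1 (-1)) ⟨4, 0, 4, 7, 2, 0, 3, 7, 3, 0⟩ :=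
  leafYS_sound T5.ok_pm T5.Ypm.bz_eq (w := 211) (c := ⟨⟨.negSucc 546, .negSucc 12, .ofNat 8, .ofNat 66, .ofNat 459, .negSucc 277⟩, ⟨.ofNat 242, .ofNat 12, .ofNat 26, .negSucc 52, .negSucc 220, .ofNat 135⟩, ⟨.ofNat 457, .ofNat 26, .negSucc 5, .negSucc 48, .negSucc 522, .ofNat 151⟩, ⟨.negSucc 1645, .negSucc 34, .ofNat 27, .ofNat 67, .ofNat 1355, .negSucc 813⟩, ⟨.negSucc 24, .ofNat 0, .ofNat 23, .negSucc 274, .negSucc 30, .ofNat 33⟩, .ofNat 1144, .ofNat 1007, .ofNat 0, .ofNat 1007, .ofNat 2301, .ofNat 0, .ofNat 176, .negSucc 127, .negSucc 250, .ofNat 0, .ofNat 128, .ofNat 119, .ofNat 0, .ofNat 0, .ofNat 646, .ofNat 2042, .ofNat 0, .ofNat 0, .ofNat 0, .ofNat 0, .ofNat 0, .ofNat 0, .ofNat 0, .ofNat 0, .ofNat 0, .ofNat 0, .ofNat 0, .ofNat 0, .ofNat 0, .ofNat 0, .ofNat 0, .ofNat 0⟩)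
    (by decide +kernel)
theorem L00256 : Good (Phi V5.P V5.D 1 (-1)) ⟨4, 0, 4, 7, 2, 1, 3, 7, 3, 0⟩ :=
  leafYS_sound T5.ok_pm T5.Ypm.bz_eq (w := 210) (c := ⟨⟨.negSucc 233, .ofNat 36, .negSucc 52, .negSucc 156, .ofNat 167, .negSucc 398⟩, ⟨.ofNat 73, .negSucc 12, .ofNat 58, .ofNat 83, .negSucc 80, .ofNat 187⟩, ⟨.ofNat 67, .negSucc 6, .ofNat 78, .ofNat 370, .negSucc 104, .ofNat 259⟩, ⟨.negSucc 833, .ofNat 128, .negSucc 140, .negSucc 425, .ofNat 473, .negSucc 1183⟩, ⟨.negSucc 287, .ofNat 38, .ofNat 64, .ofNat 82, .negSucc 57, .ofNat 14⟩, .ofNat 1374, .ofNat 1361, .ofNat 0, .ofNat 1361, .ofNat 2941, .ofNat 0, .ofNat 141, .negSucc 127, .negSucc 259, .ofNat 0, .ofNat 119, .ofNat 131, .ofNat 0, .ofNat 0, .ofNat 645, .ofNat 1506, .ofNat 0, .ofNat 0, .ofNat 0, .ofNat 0, .ofNat 0, .ofNat 0, .ofNat 0, .ofNat 0, .ofNat 0, .ofNat 0, .ofNat 0, .ofNat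 0, .ofNat 0, .ofNat 0, .ofNat 0, .ofNat 0⟩)
    (by decide +kernel)
theorem L00257 : Good (Phi V5.P V5.D 1 (-1)) ⟨4, 0, 4, 7, 1, 0, 3, 6, 3, 1⟩ :=
  leafYS_sound T5.ok_pm T5.Ypm.bz_eq (w := 197) (c := ⟨⟨.negSucc 913, .ofNat 44, .negSucc 0, .negSucc 103, .ofNat 105, .negSucc 132⟩, ⟨.ofNat 396, .negSucc 8, .ofNat 63, .ofNat 27, .negSucc 48, .ofNat 67⟩, ⟨.ofNat 735, .negSucc 71, .negSucc 5, .ofNat 214, .negSucc 139, .ofNat 154⟩, ⟨.negSucc 2770, .ofNat 134, .negSucc 11, .negSucc 436, .ofNat 322, .negSucc 371⟩, ⟨.negSucc 60, .negSucc 22, .ofNat 2, .negSucc 264, .ofNat 21, .ofNat 51⟩, .ofNat 1369, .ofNat 1353, .ofNat 0, .ofNat 1353, .ofNat 2929, .ofNat 0, .ofNat 128, .negSucc 163, .negSucc 136, .ofNat 0, .ofNat 154, .ofNat 68, .ofNat 0, .ofNat 0, .ofNat 637, .ofNat 1403, .ofNat 0, .ofNat 0, .ofNat 0, .ofNat 0, .ofNat 0, .ofNat 0, .ofNat 0,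 .ofNat 0, .ofNat 0, .ofNat 0, .ofNat 0, .ofNat 0, .ofNat 0, .ofNat 0, .ofNat 0, .ofNat 0⟩)
    (by decide +kernel)
theorem L00258 : Good (Phi V5.P V5.D 1 (-1)) ⟨4, 0, 4, 7, 1, 0, 3, 7, 3, 1⟩ :=
  leafYS_sound T5.ok_pm T5.Ypm.bz_eq (w := 195) (c := ⟨⟨.negSucc 693, .negSucc 16, .negSucc 6, .negSucc 257, .ofNat 283, .negSucc 179⟩, ⟨.ofNat 293, .ofNat 19, .ofNat 57, .ofNat 103, .negSucc 130, .ofNat 91⟩, ⟨.ofNat 425, .ofNat 39, .ofNat 17, .ofNat 540, .negSucc 417, .ofNat 125⟩, ⟨.negSucc 2120, .negSucc 40, .negSucc 20, .negSucc 887, .ofNat 875, .negSucc 506⟩, ⟨.negSucc 82, .negSucc 5, .ofNat 11, .negSucc 251, .ofNat 42, .ofNat 80⟩, .ofNat 768, .ofNat 487, .ofNat 0, .ofNat 487, .ofNat 1330, .ofNat 0, .ofNat 150, .negSucc 106, .negSucc 108, .ofNat 0, .ofNat 128, .ofNat 48, .ofNat 0, .ofNat 0, .ofNat 420, .ofNat 529, .ofNat 0, .ofNat 0, .ofNat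 0, .ofNat 0, .ofNat 0, .ofNat 420351702193694399002164187613980786688, .ofNat 0, .ofNat 0, .ofNat 0, .ofNat 527589902270567462310969071614516264960, .ofNat 0, .ofNat 0, .ofNat 0, .ofNat 547993560269858447213527073106413223936, .ofNat 0, .ofNat 0⟩)
    (by decide +kernel)
theorem L00259 : Good (Phi V5.P V5.D 1 (-1)) ⟨4, 0, 5, 14, 2, 0, 2, 2, 3, 2⟩ :=
  leafYS_sound T5.ok_pm T5.Ypm.bz_eq (w := 212) (c := ⟨⟨.negSucc 1119, .negSucc 1, .negSucc 3, .negSucc 7, .ofNat 87, .ofNat 77⟩, ⟨.ofNat 491, .ofNat 16, .ofNat 36, .negSucc 8, .negSucc 38, .negSucc 34⟩, ⟨.ofNat 1109, .negSucc 3, .ofNat 6, .ofNat 95, .negSucc 286, .ofNat 0⟩, ⟨.negSucc 3367, .ofNat 6, .negSucc 12, .negSucc 98, .ofNat 272, .ofNat 234⟩, ⟨.negSucc 18, .negSucc 6, .ofNat 3, .negSucc 162, .ofNat 24, .ofNat 12⟩, .ofNat 1302, .ofNat 1247, .ofNat 0, .ofNat 1247, .ofNat 2793, .ofNat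 0, .ofNat 128, .negSucc 141, .negSucc 74, .ofNat 0, .ofNat 139, .ofNat 36, .ofNat 0, .ofNat 0, .ofNat 817, .ofNat 9950, .ofNat 0, .ofNat 0, .ofNat 0, .ofNat 0, .ofNat 0, .ofNat 0, .ofNat 0, .ofNat 0, .ofNat 0, .ofNat 0, .ofNat 0, .ofNat 0, .ofNat 0, .ofNat 0, .ofNat 0, .ofNat 0⟩)
    (by decide +kernel)
theorem L00260 : Good (Phi V5.P V5.D 1 (-1)) ⟨4, 0, 5, 14, 2, 0, 2, 2, 3, 3⟩ :=
  leafYS_sound T5.ok_pm T5.Ypm.bz_eq (w := 213) (c := ⟨⟨.negSucc 1019, .negSucc 5, .negSucc 0, .negSucc 18, .ofNat 59, .ofNat 61⟩, ⟨.ofNat 446, .ofNat 17, .ofNat 32, .negSucc 1, .negSucc 24, .negSucc 26⟩, ⟨.ofNat 1035, .ofNat 9, .ofNat 6, .ofNat 248, .negSucc 329, .negSucc 28⟩, ⟨.negSucc 3070, .negSucc 4, .negSucc 5, .negSucc 122, .ofNat 196, .ofNat 195⟩, ⟨.negSucc 18, .negSucc 4, .ofNat 2, .negSucc 143, .ofNat 36, .ofNat 22⟩, .ofNat 440, .ofNat 151, .ofNat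 0, .ofNat 151, .ofNat 620, .ofNat 0, .ofNat 162, .negSucc 62, .negSucc 119, .ofNat 0, .ofNat 128, .ofNat 35, .ofNat 0, .ofNat 0, .ofNat 1430, .ofNat 14737, .ofNat 0, .ofNat 0, .ofNat 0, .ofNat 0, .ofNat 297277452882137914326377510278200717370982400, .ofNat 0, .ofNat 0, .ofNat 0, .ofNat 0, .ofNat 0, .ofNat 0, .ofNat 0, .ofNat 0, .ofNat 0, .ofNat 0, .ofNat 0⟩)
    (by decide +kernel)
theorem L00261 : Good (Phi V5.P V5.D 1 (-1)) ⟨4, 0, 6, 28, 2, 1, 2, 2, 3, 2⟩ :=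
  leafYS_sound T5.ok_pm T5.Ypm.bz_eq (w := 214) (c := ⟨⟨.negSucc 1096, .negSucc 2, .negSucc 3, .negSucc 56, .ofNat 24, .ofNat 71⟩, ⟨.ofNat 461, .ofNat 16, .ofNat 20, .ofNat 14, .negSucc 4, .negSucc 26⟩, ⟨.ofNat 905, .ofNat 83, .negSucc 5, .ofNat 128, .ofNat 5, .ofNat 271⟩, ⟨.negSucc 3399, .ofNat 0, .negSucc 14, .negSucc 230, .ofNat 105, .ofNat 239⟩, ⟨.negSucc 239, .negSucc 11, .ofNat 2, .negSucc 135, .ofNat 74, .ofNat 58⟩, .ofNat 1360, .ofNat 1339, .ofNat 0, .ofNat 1339, .ofNat 2986, .ofNat 0, .ofNat 128, .negSucc 131, .negSucc 103, .ofNat 0, .ofNat 128, .ofNat 51, .ofNat 0, .ofNat 0, .ofNat 1217, .ofNat 5537, .ofNat 0, .ofNat 0, .ofNat 0, .ofNat 0, .ofNat 0, .ofNat 0, .ofNat 0, .ofNat 0, .ofNat 0, .ofNat 0, .ofNat 0, .ofNat 0, .ofNat 0, .ofNat 0, .ofNat 0, .ofNat 0⟩)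
    (by decide +kernel)
theorem L00262 : Good (Phi V5.P V5.D 1 (-1)) ⟨4, 0, 6, 28, 2, 1, 2, 2, 4, 6⟩ :=
  leafYS_sound T5.ok_pm T5.Ypm.bz_eq (w := 220) (c := ⟨⟨.negSucc 1014, .negSucc 12, .ofNat 1, .negSucc 40, .negSucc 0, .ofNat 49⟩, ⟨.ofNat 429, .ofNat 21, .ofNat 17, .ofNat 7, .ofNat 6, .negSucc 21⟩, ⟨.ofNat 1116, .negSucc 68, .negSucc 20, .ofNat 496, .negSucc 67, .ofNat 199⟩, ⟨.negSucc 3126, .negSucc 30, .ofNat 3, .negSucc 192, .ofNat 30, .ofNat 151⟩, ⟨.negSucc 177, .negSucc 2, .ofNat 0, .negSucc 156, .ofNat 64, .ofNat 1⟩, .ofNat 748, .ofNat 452, .ofNat 0, .ofNat 452, .ofNat 1297, .ofNat 0, .ofNat 128, .negSucc 117, .negSucc 86, .ofNat 0, .ofNat 149, .ofNat 22, .ofNat 0, .ofNat 0, .ofNat 2332, .ofNat 8697, .ofNat 0, .ofNat 0, .ofNat 0, .ofNat 0, .ofNat 0, .ofNat 0, .ofNat 0, .ofNat 0, .ofNat 0, .ofNat 0, .ofNat 0, .ofNat 0, .ofNat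 0, .ofNat 8297273936765271067958205998576718180631183360, .ofNat 0, .ofNat 0⟩)
    (by decide +kernel)
theorem L00263 : Good (Phi V5.P V5.D 1 (-1)) ⟨4, 0, 6, 28, 2, 1, 2, 2, 4, 7⟩ :=
  leafYS_sound T5.ok_pm T5.Ypm.bz_eq (w := 219) (c := ⟨⟨.negSucc 917, .negSucc 15, .negSucc 0, .negSucc 32, .negSucc 58, .ofNat 76⟩, ⟨.ofNat 388, .ofNat 20, .ofNat 17, .negSucc 2, .ofNat 33, .negSucc 41⟩, ⟨.ofNat 1022, .ofNat 57, .negSucc 3, .ofNat 1026, .negSucc 134, .ofNat 633⟩, ⟨.negSucc 2821, .negSucc 44, .negSucc 7, .negSucc 196, .negSucc 139, .ofNat 185⟩, ⟨.negSucc 150, .negSucc 20, .ofNat 0, .negSucc 217, .ofNat 78, .negSucc 92⟩, .ofNat 1404, .ofNat 1410, .ofNat 0, .ofNat 1410, .ofNat 3119, .ofNat 0, .ofNat 130, .negSucc 127, .ofNat 4, .ofNat 0, .ofNat 126, .negSucc 23, .ofNat 0, .ofNat 0, .ofNat 2453, .ofNat 4420, .ofNat 0, .ofNat 0, .ofNat 0, .ofNat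 0, .ofNat 0, .ofNat 0, .ofNat 0, .ofNat 0, .ofNat 21989641215321808468434077140455359671573676032, .ofNat 897003057512380759697234757156837148938207232, .ofNat 0, .ofNat 0, .ofNat 349552453056828715911345344123036208254089691136, .ofNat 17211253119524261218973321707560856993631567872, .ofNat 0, .ofNat 0⟩)
    (by decide +kernel)
theorem L00264 : Good (Phi V5.P V5.D 1 (-1)) ⟨4, 0, 6, 29, 2, 1, 2, 2, 3, 2⟩ :=
  leafYS_sound T5.ok_pm T5.Ypm.bz_eq (w := 214) (c := ⟨⟨.negSucc 1098, .negSucc 9, .negSucc 0, .negSucc 55, .ofNat 35, .ofNat 67⟩, ⟨.ofNat 481, .ofNat 20, .ofNat 18, .ofNat 16, .negSucc 10, .negSucc 26⟩, ⟨.ofNat 1012, .negSucc 2, .ofNat 5, .ofNat 105, .negSucc 47, .ofNat 208⟩, ⟨.negSucc 3405, .negSucc 20, .negSucc 5, .negSucc 235, .ofNat 136, .ofNat 225⟩, ⟨.negSucc 230, .negSucc 7, .ofNat 2, .negSucc 143, .ofNat 66, .ofNat 54⟩, .ofNat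 1120, .ofNat 970, .ofNat 0, .ofNat 970, .ofNat 2257, .ofNat 0, .ofNat 128, .negSucc 127, .negSucc 78, .ofNat 0, .ofNat 127, .ofNat 39, .ofNat 0, .ofNat 0, .ofNat 881, .ofNat 3067, .ofNat 0, .ofNat 0, .ofNat 0, .ofNat 0, .ofNat 0, .ofNat 0, .ofNat 0, .ofNat 0, .ofNat 0, .ofNat 0, .ofNat 0, .ofNat 0, .ofNat 0, .ofNat 0, .ofNat 0, .ofNat 0⟩)
    (by decide +kernel)
theorem L00265 : Good (Phi V5.P V5.D 1 (-1)) ⟨4, 0, 6, 29, 2, 1, 2, 2, 4, 6⟩ :=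
  leafYS_sound T5.ok_pm T5.Ypm.bz_eq (w := 220) (c := ⟨⟨.negSucc 999, .negSucc 21, .negSucc 0, .negSucc 45, .negSucc 7, .ofNat 48⟩, ⟨.ofNat 440, .ofNat 23, .ofNat 18, .ofNat 11, .ofNat 8, .negSucc 22⟩, ⟨.ofNat 923, .ofNat 147, .ofNat 12, .ofNat 439, .ofNat 22, .ofNat 253⟩, ⟨.negSucc 3080, .negSucc 61, .negSucc 6, .negSucc 209, .ofNat 9, .ofNat 144⟩, ⟨.negSucc 166, .negSucc 22, .negSucc 0, .negSucc 150, .ofNat 63, .negSucc 2⟩, .ofNat 1121, .ofNat 972, .ofNat 0, .ofNat 972, .ofNat 2260, .ofNat 0, .ofNat 128, .negSucc 132, .negSucc 70, .ofNat 0, .ofNat 133, .ofNat 23, .ofNat 0, .ofNat 0, .ofNat 2241, .ofNat 8272, .ofNat 0, .ofNat 0, .ofNat 0, .ofNat 0, .ofNat 0, .ofNat 0, .ofNat 0, .ofNat 0, .ofNat 0, .ofNat 667212839577788540212963059237421919204540416, .ofNat 0, .ofNat 0, .ofNat 0, .ofNat 6650680033772099782939924396269175223529504768,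 .ofNat 0, .ofNat 0⟩)
    (by decide +kernel)
theorem L00266 : Good (Phi V5.P V5.D 1 (-1)) ⟨4, 0, 6, 29, 2, 1, 2, 2, 4, 7⟩ :=
  leafYS_sound T5.ok_pm T5.Ypm.bz_eq (w := 219) (c := ⟨⟨.negSucc 926, .negSucc 15, .ofNat 7, .negSucc 21, .negSucc 54, .ofNat 68⟩, ⟨.ofNat 411, .ofNat 20, .ofNat 12, .negSucc 9, .ofNat 30, .negSucc 37⟩, ⟨.ofNat 884, .ofNat 74, .ofNat 73, .ofNat 1170, .negSucc 78, .ofNat 618⟩, ⟨.negSucc 2827, .negSucc 47, .ofNat 9, .negSucc 188, .negSucc 140, .ofNat 165⟩, ⟨.negSucc 101, .negSucc 26, .negSucc 12, .negSucc 264, .ofNat 53, .negSucc 82⟩, .ofNat 1343, .ofNat 1312, .ofNat 0, .ofNat 1312, .ofNat 2875, .ofNat 0, .ofNat 128, .negSucc 173, .negSucc 8, .ofNat 0, .ofNat 167, .negSucc 23, .ofNat 0, .ofNat 0, .ofNat 3286, .ofNat 4244, .ofNat 803379272913938733550154314497157617510514688, .ofNat 20119915888919937114462125734689430101295104,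 .ofNat 0, .ofNat 0, .ofNat 0, .ofNat 587986334269441427960847703372945955148005376, .ofNat 0, .ofNat 0, .ofNat 32198960588117533328691260926836874267412398080, .ofNat 1742044108456635566802659446939590883679404032, .ofNat 0, .ofNat 0, .ofNat 577627828882316705354617839902708500001995096064, .ofNat 29075731120747782742938123581294539637092515840, .ofNat 0, .ofNat 0⟩)
    (by decide +kernel)
theorem L00267 : Good (Phi V5.P V5.D 1 (-1)) ⟨4, 0, 5, 14, 1, 0, 3, 6, 3, 2⟩ :=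
  leafYS_sound T5.ok_pm T5.Ypm.bz_eq (w := 200) (c := ⟨⟨.negSucc 954, .negSucc 13, .negSucc 3, .negSucc 168, .ofNat 27, .ofNat 28⟩, ⟨.ofNat 414, .ofNat 20, .ofNat 35, .ofNat 61, .negSucc 8, .negSucc 10⟩, ⟨.ofNat 636, .ofNat 36, .ofNat 20, .ofNat 689, .negSucc 136, .ofNat 54⟩, ⟨.negSucc 2880, .negSucc 32, .negSucc 14, .negSucc 605, .ofNat 107, .ofNat 94⟩, ⟨.negSucc 33, .negSucc 13, .ofNat 4, .negSucc 215, .ofNat 53, .ofNat 21⟩, .ofNat 1365, .ofNat 1348, .ofNat 0, .ofNat 1348, .ofNat 2972, .ofNat 0, .ofNat 144, .negSucc 127, .negSucc 81, .ofNat 0, .ofNat 124, .ofNat 36, .ofNat 0, .ofNat 0, .ofNat 891, .ofNat 1856, .ofNat 0, .ofNat 0, .ofNat 0, .ofNat 0, .ofNat 0, .ofNat 0, .ofNat 0, .ofNat 0, .ofNat 0, .ofNat 3586121868396257045390355557486138753024, .ofNat 0, .ofNat 0, .ofNat 0, .ofNat 18698060294124358890238348177147619704832, .ofNat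 0, .ofNat 0⟩)
    (by decide +kernel)
theorem L00268 : Good (Phi V5.P V5.D 1 (-1)) ⟨4, 0, 5, 14, 2, 0, 3, 7, 3, 2⟩ :=
  leafYS_sound T5.ok_pm T5.Ypm.bz_eq (w := 214) (c := ⟨⟨.negSucc 839, .negSucc 16, .ofNat 8, .negSucc 111, .ofNat 104, .negSucc 66⟩, ⟨.ofNat 363, .ofNat 21, .ofNat 24, .ofNat 48, .negSucc 42, .ofNat 35⟩, ⟨.ofNat 490, .ofNat 27, .negSucc 6, .ofNat 347, .negSucc 301, .negSucc 26⟩, ⟨.negSucc 2540, .negSucc 35, .ofNat 23, .negSucc 355, .ofNat 343, .negSucc 181⟩, ⟨.negSucc 41, .negSucc 0, .negSucc 1, .negSucc 43, .ofNat 66, .ofNat 44⟩, .ofNat 934, .ofNat 698, .ofNat 0, .ofNat 698, .ofNat 1770, .ofNat 0, .ofNat 176, .negSucc 115, .negSucc 42, .ofNat 0, .ofNat 128, .ofNat 18, .ofNat 0, .ofNat 0, .ofNat 286, .ofNat 1476, .ofNat 0, .ofNat 0, .ofNat 0, .ofNat 0, .ofNat 0, .ofNat 0, .ofNat 0, .ofNat 0, .ofNat 0, .ofNat 0, .ofNat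 0, .ofNat 0, .ofNat 0, .ofNat 3285564884290788086558194773468622339702784, .ofNat 0, .ofNat 0⟩)
    (by decide +kernel)
theorem L00269 : Good (Phi V5.P V5.D 1 (-1)) ⟨4, 0, 5, 14, 2, 1, 3, 7, 3, 2⟩ :=
  leafYS_sound T5.ok_pm T5.Ypm.bz_eq (w := 213) (c := ⟨⟨.negSucc 937, .negSucc 27, .ofNat 3, .negSucc 197, .negSucc 38, .negSucc 42⟩, ⟨.ofNat 397, .ofNat 26, .ofNat 32, .ofNat 86, .ofNat 32, .ofNat 28⟩, ⟨.ofNat 747, .ofNat 49, .ofNat 31, .ofNat 533, .negSucc 159, .ofNat 78⟩, ⟨.negSucc 2877, .negSucc 83, .ofNat 5, .negSucc 623, .negSucc 39, .negSucc 84⟩, ⟨.negSucc 135, .negSucc 34, .negSucc 2, .negSucc 63, .ofNat 166, .ofNat 96⟩, .ofNat 1101, .ofNat 938, .ofNat 0, .ofNat 938, .ofNat 2215, .ofNat 0, .ofNat 129, .negSucc 127, .negSucc 34, .ofNat 0, .ofNat 128, .ofNat 12, .ofNat 0, .ofNat 0, .ofNat 360, .ofNat 690, .ofNat 0, .ofNat 176018671678688140320654930823819579883520,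 .ofNat 0, .ofNat 0, .ofNat 0, .ofNat 0, .ofNat 0, .ofNat 0, .ofNat 0, .ofNat 19738767682626507290103359836992503560536064, .ofNat 0, .ofNat 0, .ofNat 0, .ofNat 24853484449346728028152896071134709031108608, .ofNat 0, .ofNat 0⟩)
    (by decide +kernel)
theorem L00270 : Good (Phi V5.P V5.D 1 (-1)) ⟨4, 0, 5, 14, 2, 0, 2, 3, 4, 6⟩ :=
  leafYS_sound T5.ok_pm T5.Ypm.bz_eq (w := 216) (c := ⟨⟨.negSucc 897, .negSucc 17, .negSucc 5, .negSucc 109, .ofNat 25, .ofNat 13⟩, ⟨.ofNat 387, .ofNat 22, .ofNat 33, .ofNat 49, .negSucc 1, .negSucc 4⟩, ⟨.ofNat 625, .ofNat 11, .ofNat 9, .ofNat 407, .negSucc 413, .negSucc 47⟩, ⟨.negSucc 2724, .negSucc 32, .negSucc 11, .negSucc 337, .ofNat 132, .ofNat 36⟩, ⟨.negSucc 63, .ofNat 7, .ofNat 13, .negSucc 17, .ofNat 123, .ofNat 0⟩, .ofNat 1104, .ofNat 944, .ofNat 0, .ofNat 944, .ofNat 2224, .ofNat 0, .ofNat 128, .negSucc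 146, .negSucc 30, .ofNat 0, .ofNat 151, .ofNat 13, .ofNat 0, .ofNat 0, .ofNat 329, .ofNat 4497, .ofNat 0, .ofNat 0, .ofNat 0, .ofNat 0, .ofNat 0, .ofNat 73740725725519924295185782799285601842495488, .ofNat 0, .ofNat 0, .ofNat 0, .ofNat 136744554945885978506168236525877512850374656, .ofNat 0, .ofNat 0, .ofNat 0, .ofNat 0, .ofNat 0, .ofNat 0⟩)
    (by decide +kernel)
theorem L00271 : Good (Phi V5.P V5.D 1 (-1)) ⟨4, 0, 5, 14, 2, 1, 3, 6, 4, 6⟩ :=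
  leafYS_sound T5.ok_pm T5.Ypm.bz_eq (w := 221) (c := ⟨⟨.negSucc 977, .negSucc 21, .ofNat 1, .negSucc 85, .negSucc 36, .ofNat 28⟩, ⟨.ofNat 418, .ofNat 23, .ofNat 32, .ofNat 28, .ofNat 24, .negSucc 11⟩, ⟨.ofNat 880, .ofNat 60, .ofNat 40, .ofNat 691, .negSucc 145, .ofNat 138⟩, ⟨.negSucc 2981, .negSucc 67, .negSucc 6, .negSucc 324, .negSucc 65, .ofNat 85⟩, ⟨.negSucc 101, .negSucc 33, .negSucc 10, .negSucc 148, .ofNat 93, .ofNat 2⟩, .ofNat 1430, .ofNat 1451, .ofNat 0, .ofNat 1451, .ofNat 3160, .ofNat 0, .ofNat 128, .negSucc 152, .negSucc 41, .ofNat 0, .ofNat 148, .ofNat 3, .ofNat 0, .ofNat 0, .ofNat 1738, .ofNat 5667, .ofNat 0, .ofNat 8238771926732931633996096284608092052652032, .ofNat 0, .ofNat 0, .ofNat 0, .ofNat 0, .ofNat 0, .ofNat 0, .ofNat 0, .ofNat 406585122826412456009066860952259788003082240, .ofNat 0, .ofNat 0, .ofNat 0, .ofNat 4162247713922157313874267990200338040456478720,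 .ofNat 0, .ofNat 0⟩)
    (by decide +kernel)
theorem L00272 : Good (Phi V5.P V5.D 1 (-1)) ⟨4, 0, 5, 14, 2, 1, 3, 7, 4, 6⟩ :=
  leafYS_sound T5.ok_pm T5.Ypm.bz_eq (w := 220) (c := ⟨⟨.negSucc 981, .negSucc 28, .ofNat 0, .negSucc 149, .negSucc 67, .negSucc 1⟩, ⟨.ofNat 426, .ofNat 26, .ofNat 33, .ofNat 62, .ofNat 44, .ofNat 4⟩, ⟨.ofNat 811, .ofNat 32, .ofNat 26, .ofNat 668, .negSucc 183, .negSucc 16⟩, ⟨.negSucc 2972, .negSucc 81, .negSucc 5, .negSucc 469, .negSucc 110, .ofNat 14⟩, ⟨.negSucc 42, .negSucc 29, .negSucc 4, .negSucc 68, .ofNat 178, .ofNat 40⟩, .ofNat 1448, .ofNat 1480, .ofNat 0, .ofNat 1480, .ofNat 3210, .ofNat 0, .ofNat 128, .negSucc 135, .negSucc 28, .ofNat 0, .ofNat 131, .ofNat 7, .ofNat 0, .ofNat 0, .ofNat 595, .ofNat 3815, .ofNat 0, .ofNat 18155076000988430115743157384021122792554496, .ofNat 0, .ofNat 0, .ofNat 0, .ofNat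 401839419801680683293627084184922190239498240, .ofNat 0, .ofNat 0, .ofNat 0, .ofNat 638236100933872856905822377020387985325031424, .ofNat 0, .ofNat 0, .ofNat 0, .ofNat 1122912688754668402965909818797829020784263168, .ofNat 0, .ofNat 0⟩)
    (by decide +kernel)
theorem L00273 : Good (Phi V5.P V5.D 1 (-1)) ⟨4, 0, 5, 14, 2, 0, 2, 3, 4, 7⟩ :=
  leafYS_sound T5.ok_pm T5.Ypm.bz_eq (w := 217) (c := ⟨⟨.negSucc 885, .negSucc 20, .negSucc 2, .negSucc 77, .negSucc 59, .ofNat 12⟩, ⟨.ofNat 383, .ofNat 25, .ofNat 32, .ofNat 34, .ofNat 41, .negSucc 5⟩, ⟨.ofNat 598, .negSucc 7, .ofNat 26, .ofNat 377, .negSucc 377, .negSucc 56⟩, ⟨.negSucc 2684, .negSucc 43, .negSucc 9, .negSucc 243, .negSucc 104, .ofNat 40⟩, ⟨.negSucc 43, .ofNat 4, .negSucc 1, .negSucc 24, .ofNat 160, .ofNat 9⟩, .ofNat 1410, .ofNat 1419, .ofNat 0, .ofNat 1419, .ofNat 3095, .ofNat 0, .ofNat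 128, .negSucc 263, .negSucc 51, .ofNat 0, .ofNat 257, .ofNat 20, .ofNat 0, .ofNat 0, .ofNat 685, .ofNat 8371, .ofNat 0, .ofNat 0, .ofNat 0, .ofNat 0, .ofNat 0, .ofNat 99695474876730167159334938042063944937373696, .ofNat 0, .ofNat 0, .ofNat 0, .ofNat 0, .ofNat 0, .ofNat 0, .ofNat 0, .ofNat 0, .ofNat 0, .ofNat 0⟩)
    (by decide +kernel)
theorem L00274 : Good (Phi V5.P V5.D 1 (-1)) ⟨4, 0, 5, 14, 3, 2, 2, 3, 4, 7⟩ :=
  leafYS_sound T5.ok_pm T5.Ypm.bz_eq (w := 231) (c := ⟨⟨.negSucc 950, .negSucc 24, .ofNat 4, .negSucc 38, .negSucc 106, .ofNat 27⟩, ⟨.ofNat 408, .ofNat 25, .ofNat 29, .ofNat 11, .ofNat 66, .negSucc 12⟩, ⟨.ofNat 949, .ofNat 5, .ofNat 51, .ofNat 450, .negSucc 415, .ofNat 75⟩, ⟨.negSucc 2893, .negSucc 68, .ofNat 4, .negSucc 155, .negSucc 215, .ofNat 82⟩, ⟨.negSucc 83, .negSucc 18, .negSucc 11, .negSucc 88, .ofNat 219, .negSucc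 3⟩, .ofNat 1101, .ofNat 938, .ofNat 0, .ofNat 938, .ofNat 2215, .ofNat 0, .ofNat 128, .negSucc 155, .negSucc 22, .ofNat 0, .ofNat 160, .negSucc 25, .ofNat 0, .ofNat 0, .ofNat 2215, .ofNat 4560, .ofNat 0, .ofNat 31244503330024037520072847627373475348013383680, .ofNat 0, .ofNat 0, .ofNat 0, .ofNat 512264845940685309471240873259920995892401799168, .ofNat 0, .ofNat 0, .ofNat 0, .ofNat 1034963790782384197456735100363663965475120873472, .ofNat 0, .ofNat 0, .ofNat 0, .ofNat 4087549043059083596346466820666989043856858677248, .ofNat 0, .ofNat 0⟩)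
    (by decide +kernel)
theorem L00275 : Good (Phi V5.P V5.D 1 (-1)) ⟨4, 0, 5, 14, 3, 3, 3, 6, 4, 7⟩ :=
  leafYS_sound T5.ok_pm T5.Ypm.bz_eq (w := 235) (c := ⟨⟨.negSucc 993, .negSucc 18, .ofNat 0, .negSucc 0, .negSucc 47, .ofNat 54⟩, ⟨.ofNat 422, .ofNat 20, .ofNat 33, .negSucc 14, .ofNat 28, .negSucc 30⟩, ⟨.ofNat 1309, .ofNat 70, .ofNat 41, .ofNat 843, .negSucc 145, .ofNat 489⟩, ⟨.negSucc 3053, .negSucc 55, .negSucc 7, .negSucc 86, .negSucc 110, .ofNat 129⟩, ⟨.negSucc 155, .negSucc 33, .negSucc 5, .negSucc 184, .ofNat 69, .negSucc 69⟩, .ofNat 1310, .ofNat 1258, .ofNat 0, .ofNat 1258, .ofNat 2799, .ofNat 0, .ofNat 128, .negSucc 169, .ofNat 43, .ofNat 0, .ofNat 166, .negSucc 69, .ofNat 0, .ofNat 0, .ofNat 4034, .ofNat 8342, .ofNat 0, .ofNat 255044877993151696437180524534630165143261020160, .ofNat 0, .ofNat 0, .ofNat 0, .ofNat 4667832585131480705081202209901512565762576875520,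 .ofNat 0, .ofNat 0, .ofNat 0, .ofNat 11044493437106482914889930813143179397624787632128, .ofNat 0, .ofNat 0, .ofNat 0, .ofNat 164063632954503374779763033192643478239547307851776, .ofNat 0, .ofNat 0⟩)
    (by decide +kernel)
theorem L00276 : Good (Phi V5.P V5.D 1 (-1)) ⟨4, 0, 5, 14, 3, 3, 3, 7, 4, 7⟩ :=
  out_sound (S := T5.ds_pm) T5.ok_pm (w := 34) (j := 2) (by decide +kernel)
theorem L00277 : Good (Phi V5.P V5.D 1 (-1)) ⟨4, 0, 5, 15, 1, 0, 2, 2, 3, 2⟩ :=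
  leafYS_sound T5.ok_pm T5.Ypm.bz_eq (w := 197) (c := ⟨⟨.negSucc 1082, .negSucc 11, .ofNat 3, .negSucc 59, .ofNat 59, .ofNat 60⟩, ⟨.ofNat 505, .ofNat 21, .ofNat 33, .ofNat 8, .negSucc 26, .negSucc 26⟩, ⟨.ofNat 967, .ofNat 13, .ofNat 12, .ofNat 184, .negSucc 129, .ofNat 136⟩, ⟨.negSucc 3272, .negSucc 26, .ofNat 3, .negSucc 337, .ofNat 202, .ofNat 202⟩, ⟨.negSucc 46, .negSucc 7, .negSucc 0, .negSucc 320, .ofNat 45, .ofNat 43⟩, .ofNat 997, .ofNat 799, .ofNat 0, .ofNat 799, .ofNat 1885, .ofNat 0, .ofNat 128, .negSucc 185, .negSucc 154, .ofNat 0, .ofNat 191, .ofNat 76, .ofNat 0, .ofNat 0, .ofNat 1720, .ofNat 4763, .ofNat 0, .ofNat 0, .ofNat 0, .ofNat 0, .ofNat 0, .ofNat 0, .ofNat 0, .ofNat 0, .ofNat 0, .ofNat 0, .ofNat 0, .ofNat 0, .ofNat 0, .ofNat 0, .ofNat 0, .ofNat 0⟩)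
    (by decide +kernel)
theorem L00278 : Good (Phi V5.P V5.D 1 (-1)) ⟨4, 0, 5, 15, 2, 0, 2, 2, 3, 3⟩ :=
  leafYS_sound T5.ok_pm T5.Ypm.bz_eq (w := 213) (c := ⟨⟨.negSucc 1011, .negSucc 7, .ofNat 2, .negSucc 20, .ofNat 51, .ofNat 49⟩, ⟨.ofNat 473, .ofNat 18, .ofNat 31, .ofNat 0, .negSucc 21, .negSucc 21⟩, ⟨.ofNat 1020, .ofNat 18, .ofNat 3, .ofNat 276, .negSucc 329, .ofNat 10⟩, ⟨.negSucc 3051, .negSucc 8, .ofNat 4, .negSucc 129, .ofNat 172, .ofNat 164⟩, ⟨.negSucc 26, .negSucc 2, .ofNat 1, .negSucc 139, .ofNat 40, .ofNat 30⟩, .ofNat 446, .ofNat 163, .ofNat 0, .ofNat 163, .ofNat 627, .ofNat 0, .ofNat 156, .negSucc 66, .negSucc 110, .ofNat 0, .ofNat 128, .ofNat 34, .ofNat 0, .ofNat 0, .ofNat 1356, .ofNat 14177, .ofNat 0, .ofNat 0, .ofNat 0, .ofNat 0, .ofNat 307901848942535764876826850500963125042348032, .ofNat 0, .ofNat 0, .ofNat 0, .ofNat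 0, .ofNat 0, .ofNat 0, .ofNat 0, .ofNat 0, .ofNat 0, .ofNat 0, .ofNat 0⟩)
    (by decide +kernel)
theorem L00279 : Good (Phi V5.P V5.D 1 (-1)) ⟨4, 0, 5, 15, 2, 1, 2, 2, 4, 6⟩ :=
  leafYS_sound T5.ok_pm T5.Ypm.bz_eq (w := 217) (c := ⟨⟨.negSucc 1001, .negSucc 13, .ofNat 5, .negSucc 41, .negSucc 8, .ofNat 48⟩, ⟨.ofNat 457, .ofNat 21, .ofNat 31, .ofNat 9, .ofNat 9, .negSucc 23⟩, ⟨.ofNat 893, .ofNat 45, .negSucc 0, .ofNat 589, .ofNat 53, .ofNat 286⟩, ⟨.negSucc 3082, .negSucc 37, .ofNat 6, .negSucc 206, .negSucc 0, .ofNat 141⟩, ⟨.negSucc 157, .negSucc 13, .negSucc 0, .negSucc 169, .ofNat 50, .negSucc 7⟩, .ofNat 1192, .ofNat 1082, .ofNat 0, .ofNat 1082, .ofNat 2394, .ofNat 0, .ofNat 128, .negSucc 189, .negSucc 76, .ofNat 0, .ofNat 182, .ofNat 24, .ofNat 0, .ofNat 0, .ofNat 2821, .ofNat 9136, .ofNat 0, .ofNat 0, .ofNat 0, .ofNat 0, .ofNat 0,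 .ofNat 0, .ofNat 0, .ofNat 0, .ofNat 0, .ofNat 0, .ofNat 0, .ofNat 0, .ofNat 0, .ofNat 1314967486648775758152232163132890842453245952, .ofNat 0, .ofNat 0⟩)
    (by decide +kernel)
theorem L00280 : Good (Phi V5.P V5.D 1 (-1)) ⟨4, 0, 5, 15, 2, 1, 2, 2, 5, 14⟩ :=
  leafYS_sound T5.ok_pm T5.Ypm.bz_eq (w := 222) (c := ⟨⟨.negSucc 937, .negSucc 13, .ofNat 1, .negSucc 11, .negSucc 41, .ofNat 30⟩, ⟨.ofNat 433, .ofNat 19, .ofNat 32, .negSucc 13, .ofNat 22, .negSucc 16⟩, ⟨.ofNat 776, .ofNat 60, .ofNat 54, .ofNat 1289, .ofNat 63, .ofNat 305⟩, ⟨.negSucc 2845, .negSucc 41, .negSucc 8, .negSucc 179, .negSucc 113, .ofNat 74⟩, ⟨.negSucc 65, .negSucc 24, .negSucc 10, .negSucc 300, .ofNat 20, .negSucc 42⟩, .ofNat 994, .ofNat 794, .ofNat 0, .ofNat 794, .ofNat 1878, .ofNat 0, .ofNat 128, .negSucc 156, .negSucc 1, .ofNat 0, .ofNat 162, .negSucc 31, .ofNat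 0, .ofNat 0, .ofNat 3131, .ofNat 6745, .ofNat 0, .ofNat 0, .ofNat 0, .ofNat 0, .ofNat 0, .ofNat 0, .ofNat 0, .ofNat 0, .ofNat 0, .ofNat 981764495726032279810411358996144629416460288, .ofNat 0, .ofNat 0, .ofNat 0, .ofNat 15986584121197619979668838960394492606370807808, .ofNat 0, .ofNat 0⟩)
    (by decide +kernel)
theorem L00281 : Good (Phi V5.P V5.D 1 (-1)) ⟨4, 0, 5, 15, 2, 1, 2, 2, 5, 15⟩ :=
  leafYS_sound T5.ok_pm T5.Ypm.bz_eq (w := 222) (c := ⟨⟨.negSucc 959, .negSucc 16, .ofNat 7, .ofNat 105, .negSucc 75, .ofNat 46⟩, ⟨.ofNat 447, .ofNat 20, .ofNat 28, .negSucc 90, .ofNat 47, .negSucc 30⟩, ⟨.ofNat 424, .ofNat 53, .ofNat 134, .ofNat 2917, .negSucc 448, .ofNat 618⟩, ⟨.negSucc 2968, .negSucc 51, .negSucc 0, .ofNat 88, .negSucc 109, .ofNat 84⟩, ⟨.negSucc 179, .negSucc 26, .negSucc 24, .negSucc 456, .ofNat 220, .negSucc 97⟩, .ofNat 1630,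 .ofNat 1762, .ofNat 0, .ofNat 1762, .ofNat 3588, .ofNat 0, .ofNat 128, .negSucc 155, .negSucc 2, .ofNat 0, .ofNat 143, .negSucc 13, .ofNat 0, .ofNat 0, .ofNat 2693, .ofNat 7703, .ofNat 6256471546182715098640931157320098456482611200, .ofNat 186153605374749627872893671232915049105326080, .ofNat 0, .ofNat 0, .ofNat 0, .ofNat 0, .ofNat 0, .ofNat 0, .ofNat 56481019545064264401403209277623303191507501056, .ofNat 2062802726518181611755725820405952618906517504, .ofNat 0, .ofNat 0, .ofNat 571358510363526234180918423235510598723866460160, .ofNat 24509961989161981667988057424708809349673254912, .ofNat 0, .ofNat 0⟩)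
    (by decide +kernel)
theorem L00282 : Good (Phi V5.P V5.D 1 (-1)) ⟨4, 0, 5, 15, 2, 0, 3, 6, 3, 2⟩ :=
  leafYS_sound T5.ok_pm T5.Ypm.bz_eq (w := 216) (c := ⟨⟨.negSucc 963, .negSucc 13, .negSucc 2, .negSucc 52, .ofNat 52, .ofNat 16⟩, ⟨.ofNat 449, .ofNat 21, .ofNat 33, .ofNat 17, .negSucc 22, .negSucc 4⟩, ⟨.ofNat 744, .ofNat 21, .ofNat 11, .ofNat 244, .negSucc 189, .negSucc 38⟩, ⟨.negSucc 2908, .negSucc 27, .negSucc 9, .negSucc 221, .ofNat 171, .ofNat 69⟩, ⟨.negSucc 33, .negSucc 2, .ofNat 2, .negSucc 126, .ofNat 31, .ofNat 40⟩, .ofNat 1195, .ofNat 1087, .ofNat 0, .ofNat 1087, .ofNat 2403, .ofNat 0, .ofNat 128, .negSucc 134, .negSucc 70, .ofNat 0, .ofNat 131, .ofNat 34, .ofNat 0, .ofNat 0, .ofNat 616, .ofNat 8013, .ofNat 0, .ofNat 0, .ofNat 0, .ofNat 0, .ofNat 0, .ofNat 0, .ofNat 0, .ofNat 0, .ofNat 0, .ofNat 0, .ofNat 0, .ofNat 0, .ofNat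 0, .ofNat 0, .ofNat 0, .ofNat 0⟩)
    (by decide +kernel)
theorem L00283 : Good (Phi V5.P V5.D 1 (-1)) ⟨4, 0, 5, 15, 2, 1, 3, 6, 3, 2⟩ :=
  leafYS_sound T5.ok_pm T5.Ypm.bz_eq (w := 214) (c := ⟨⟨.negSucc 1003, .negSucc 6, .negSucc 1, .negSucc 113, .negSucc 18, .ofNat 22⟩, ⟨.ofNat 457, .ofNat 17, .ofNat 36, .ofNat 47, .ofNat 15, .negSucc 5⟩, ⟨.ofNat 790, .ofNat 75, .ofNat 26, .ofNat 455, .negSucc 48, .ofNat 203⟩, ⟨.negSucc 3098, .negSucc 19, .negSucc 10, .negSucc 400, .negSucc 17, .ofNat 94⟩, ⟨.negSucc 175, .negSucc 30, .ofNat 0, .negSucc 124, .ofNat 79, .ofNat 56⟩, .ofNat 1191, .ofNat 1081, .ofNat 0, .ofNat 1081, .ofNat 2397, .ofNat 0, .ofNat 128, .negSucc 158, .negSucc 59, .ofNat 0, .ofNat 150, .ofNat 26, .ofNat 0, .ofNat 0, .ofNat 722, .ofNat 1775, .ofNat 0, .ofNat 0, .ofNat 0, .ofNat 0, .ofNat 0, .ofNat 0, .ofNat 0, .ofNat 0, .ofNat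 0, .ofNat 0, .ofNat 0, .ofNat 0, .ofNat 0, .ofNat 55199788176426609906321782931782006539812864, .ofNat 0, .ofNat 0⟩)
    (by decide +kernel)
theorem L00284 : Good (Phi V5.P V5.D 1 (-1)) ⟨4, 0, 5, 15, 2, 0, 3, 6, 3, 3⟩ :=
  leafYS_sound T5.ok_pm T5.Ypm.bz_eq (w := 217) (c := ⟨⟨.negSucc 926, .negSucc 14, .ofNat 1, .negSucc 56, .ofNat 10, .ofNat 6⟩, ⟨.ofNat 433, .ofNat 21, .ofNat 30, .ofNat 22, .negSucc 1, .ofNat 1⟩, ⟨.ofNat 646, .ofNat 14, .ofNat 7, .ofNat 371, .negSucc 202, .negSucc 35⟩, ⟨.negSucc 2797, .negSucc 23, .ofNat 2, .negSucc 206, .ofNat 54, .ofNat 37⟩, ⟨.negSucc 27, .ofNat 5, .ofNat 0, .negSucc 78, .ofNat 48, .ofNat 42⟩, .ofNat 1639, .ofNat 1777, .ofNat 0, .ofNat 1777, .ofNat 3610, .ofNat 0, .ofNat 128, .negSucc 202, .negSucc 62, .ofNat 0, .ofNat 186, .ofNat 29, .ofNat 0, .ofNat 0, .ofNat 862, .ofNat 18567, .ofNat 0, .ofNat 0,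 .ofNat 0, .ofNat 0, .ofNat 821325755696570248848050977973162486559408128, .ofNat 0, .ofNat 0, .ofNat 0, .ofNat 0, .ofNat 0, .ofNat 0, .ofNat 0, .ofNat 0, .ofNat 0, .ofNat 0, .ofNat 0⟩)
    (by decide +kernel)
theorem L00285 : Good (Phi V5.P V5.D 1 (-1)) ⟨4, 0, 5, 15, 3, 2, 3, 6, 3, 3⟩ :=
  leafYS_sound T5.ok_pm T5.Ypm.bz_eq (w := 230) (c := ⟨⟨.negSucc 970, .negSucc 20, .negSucc 3, .negSucc 45, .negSucc 35, .ofNat 38⟩, ⟨.ofNat 446, .ofNat 24, .ofNat 35, .ofNat 18, .ofNat 23, .negSucc 15⟩, ⟨.ofNat 936, .ofNat 29, .ofNat 23, .ofNat 367, .negSucc 125, .ofNat 94⟩, ⟨.negSucc 2967, .negSucc 56, .negSucc 16, .negSucc 174, .negSucc 66, .ofNat 133⟩, ⟨.negSucc 114, .negSucc 16, .negSucc 0, .negSucc 73, .ofNat 83, .ofNat 38⟩, .ofNat 1194, .ofNat 1086, .ofNat 0, .ofNat 1086, .ofNat 2405, .ofNat 0, .ofNat 128, .negSucc 128, .negSucc 41, .ofNat 0, .ofNat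 124, .ofNat 10, .ofNat 0, .ofNat 0, .ofNat 1268, .ofNat 6184, .ofNat 0, .ofNat 0, .ofNat 0, .ofNat 0, .ofNat 0, .ofNat 0, .ofNat 0, .ofNat 0, .ofNat 0, .ofNat 0, .ofNat 0, .ofNat 0, .ofNat 30661116318030577578962479541928393010308888657920, .ofNat 600813642957047983071318699172661957473291206656, .ofNat 0, .ofNat 0⟩)
    (by decide +kernel)
theorem L00286 : Good (Phi V5.P V5.D 1 (-1)) ⟨4, 0, 5, 15, 3, 3, 3, 6, 4, 6⟩ :=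
  leafYS_sound T5.ok_pm T5.Ypm.bz_eq (w := 235) (c := ⟨⟨.negSucc 1022, .negSucc 24, .ofNat 1, .negSucc 33, .negSucc 47, .ofNat 43⟩, ⟨.ofNat 468, .ofNat 25, .ofNat 33, .ofNat 9, .ofNat 28, .negSucc 22⟩, ⟨.ofNat 1172, .ofNat 26, .ofNat 51, .ofNat 457, .negSucc 54, .ofNat 291⟩, ⟨.negSucc 3150, .negSucc 74, .negSucc 6, .negSucc 151, .negSucc 104, .ofNat 117⟩, ⟨.negSucc 164, .negSucc 28, .negSucc 8, .negSucc 106, .ofNat 73, .negSucc 25⟩, .ofNat 1452, .ofNat 1481, .ofNat 0, .ofNat 1481, .ofNat 3102, .ofNat 0, .ofNat 128, .negSucc 173, .negSucc 5, .ofNat 0, .ofNat 159, .negSucc 16, .ofNat 0, .ofNat 0, .ofNat 1995, .ofNat 8305, .ofNat 0, .ofNat 103667288372445757639196820041708890491801567232, .ofNat 0, .ofNat 0, .ofNat 0, .ofNat 0, .ofNat 0, .ofNat 0, .ofNat 0, .ofNat 2834559927843168094126355989589544313192068415488, .ofNat 0, .ofNat 0, .ofNat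 0, .ofNat 32788528491428650947425836791702560166721993310208, .ofNat 0, .ofNat 0⟩)
    (by decide +kernel)
theorem L00287 : Good (Phi V5.P V5.D 1 (-1)) ⟨4, 0, 5, 15, 4, 6, 3, 6, 4, 7⟩ :=
  leafYS_sound T5.ok_pm T5.Ypm.bz_eq (w := 249) (c := ⟨⟨.negSucc 997, .negSucc 16, .ofNat 4, .ofNat 5, .negSucc 41, .ofNat 59⟩, ⟨.ofNat 458, .ofNat 20, .ofNat 31, .negSucc 9, .ofNat 24, .negSucc 34⟩, ⟨.ofNat 1283, .ofNat 88, .ofNat 78, .ofNat 497, .negSucc 45, .ofNat 566⟩, ⟨.negSucc 3062, .negSucc 56, .negSucc 3, .negSucc 40, .negSucc 102, .ofNat 130⟩, ⟨.negSucc 143, .negSucc 38, .negSucc 13, .negSucc 111, .ofNat 50, .negSucc 91⟩, .ofNat 1187, .ofNat 1074, .ofNat 0, .ofNat 1074, .ofNat 2386, .ofNat 0, .ofNat 136, .negSucc 127, .ofNat 47, .ofNat 0, .ofNat 124, .negSucc 69, .ofNat 0, .ofNat 0, .ofNat 3812, .ofNat 7054, .ofNat 0, .ofNat 649999224704664686253907103621379655776047137292288,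 .ofNat 0, .ofNat 0, .ofNat 0, .ofNat 0, .ofNat 0, .ofNat 0, .ofNat 0, .ofNat 18522653682423444453401315585720926235372246947332096, .ofNat 0, .ofNat 0, .ofNat 0, .ofNat 376208757174614951221901100057856661104452812935266304, .ofNat 0, .ofNat 0⟩)
    (by decide +kernel)
theorem L00288 : Good (Phi V5.P V5.D 1 (-1)) ⟨4, 0, 5, 15, 4, 7, 3, 6, 4, 7⟩ :=
  leafYS_sound T5.ok_pm T5.Ypm.bz_eq (w := 251) (c := ⟨⟨.negSucc 995, .negSucc 18, .ofNat 5, .ofNat 18, .negSucc 23, .ofNat 86⟩, ⟨.ofNat 449, .ofNat 21, .ofNat 30, .negSucc 17, .ofNat 10, .negSucc 50⟩, ⟨.ofNat 1747, .ofNat 64, .ofNat 87, .ofNat 597, .ofNat 166, .ofNat 860⟩, ⟨.negSucc 3106, .negSucc 60, .negSucc 2, .negSucc 20, .negSucc 77, .ofNat 174⟩, ⟨.negSucc 249, .negSucc 34, .negSucc 16, .negSucc 146, .negSucc 20, .negSucc 152⟩, .ofNat 446, .ofNat 162, .ofNat 0, .ofNat 162, .ofNat 627,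 .ofNat 0, .ofNat 143, .negSucc 67, .ofNat 27, .ofNat 0, .ofNat 128, .negSucc 72, .ofNat 0, .ofNat 0, .ofNat 1738, .ofNat 18048, .ofNat 0, .ofNat 2864823404477862017764174791750873181965759029444608, .ofNat 0, .ofNat 0, .ofNat 0, .ofNat 44599818122064922473296736678465038330764452515807232, .ofNat 0, .ofNat 0, .ofNat 0, .ofNat 53022218190131575143225567207654764059425744875421696, .ofNat 0, .ofNat 0, .ofNat 0, .ofNat 551875577093638269722745878020315526759887022770356224, .ofNat 0, .ofNat 0⟩)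
    (by decide +kernel)
theorem L00289 : Good (Phi V5.P V5.D 1 (-1)) ⟨4, 0, 5, 15, 2, 0, 3, 7, 3, 2⟩ :=
  leafYS_sound T5.ok_pm T5.Ypm.bz_eq (w := 214) (c := ⟨⟨.negSucc 794, .negSucc 59, .ofNat 5, .negSucc 122, .ofNat 93, .negSucc 86⟩, ⟨.ofNat 368, .ofNat 42, .ofNat 25, .ofNat 60, .negSucc 39, .ofNat 45⟩, ⟨.ofNat 433, .ofNat 68, .ofNat 10, .ofNat 392, .negSucc 294, .ofNat 8⟩, ⟨.negSucc 2415, .negSucc 164, .ofNat 13, .negSucc 380, .ofNat 328, .negSucc 239⟩, ⟨.negSucc 54, .negSucc 5, .negSucc 4, .negSucc 23, .ofNat 97, .ofNat 47⟩, .ofNat 1194, .ofNat 1085, .ofNat 0, .ofNat 1085, .ofNat 2397, .ofNat 0, .ofNat 128, .negSucc 147, .negSucc 52, .ofNat 0, .ofNat 143, .ofNat 25, .ofNat 0, .ofNat 0, .ofNat 340, .ofNat 1693, .ofNat 0, .ofNat 0, .ofNat 0, .ofNat 0, .ofNat 0, .ofNat 0, .ofNat 0, .ofNat 0, .ofNat 0, .ofNat 0, .ofNat 0, .ofNat 0, .ofNat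 0, .ofNat 0, .ofNat 0, .ofNat 0⟩)
    (by decide +kernel)
theorem L00290 : Good (Phi V5.P V5.D 1 (-1)) ⟨4, 0, 5, 15, 2, 1, 3, 7, 3, 2⟩ :=
  leafYS_sound T5.ok_pm T5.Ypm.bz_eq (w := 213) (c := ⟨⟨.negSucc 915, .negSucc 29, .negSucc 1, .negSucc 211, .negSucc 26, .negSucc 67⟩, ⟨.ofNat 418, .ofNat 28, .ofNat 35, .ofNat 99, .ofNat 22, .ofNat 39⟩, ⟨.ofNat 755, .ofNat 54, .ofNat 9, .ofNat 543, .negSucc 144, .ofNat 90⟩, ⟨.negSucc 2821, .negSucc 87, .negSucc 7, .negSucc 659, .ofNat 2, .negSucc 157⟩, ⟨.negSucc 139, .negSucc 26, .ofNat 2, .negSucc 56, .ofNat 160, .ofNat 89⟩, .ofNat 1460, .ofNat 1495, .ofNat 0, .ofNat 1495, .ofNat 3120, .ofNat 0, .ofNat 128, .negSucc 190, .negSucc 45, .ofNat 0, .ofNat 173, .ofNat 20, .ofNat 0, .ofNat 0, .ofNat 453, .ofNat 871, .ofNat 0, .ofNat 274612016061066560958029828788748143296512, .ofNat 0, .ofNat 0, .ofNat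 0, .ofNat 0, .ofNat 0, .ofNat 0, .ofNat 0, .ofNat 35894115963658988306961136224634374665011200, .ofNat 0, .ofNat 0, .ofNat 0, .ofNat 41925458374669966376264920399961183116853248, .ofNat 0, .ofNat 0⟩)
    (by decide +kernel)
theorem L00291 : Good (Phi V5.P V5.D 1 (-1)) ⟨4, 0, 5, 15, 2, 0, 3, 7, 3, 3⟩ :=
  leafYS_sound T5.ok_pm T5.Ypm.bz_eq (w := 215) (c := ⟨⟨.negSucc 862, .negSucc 17, .negSucc 4, .negSucc 131, .negSucc 13, .negSucc 23⟩, ⟨.ofNat 400, .ofNat 22, .ofNat 33, .ofNat 67, .ofNat 13, .ofNat 15⟩, ⟨.ofNat 398, .ofNat 21, .ofNat 15, .ofNat 436, .negSucc 196, .negSucc 63⟩, ⟨.negSucc 2606, .negSucc 43, .negSucc 10, .negSucc 382, .ofNat 3, .negSucc 54⟩, ⟨.negSucc 27, .negSucc 14, .ofNat 4, .ofNat 22, .ofNat 91, .ofNat 37⟩, .ofNat 1644, .ofNat 1786, .ofNat 0, .ofNat 1786, .ofNat 3631, .ofNat 0, .ofNat 139, .negSucc 127, .negSucc 62,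 .ofNat 0, .ofNat 117, .ofNat 28, .ofNat 0, .ofNat 0, .ofNat 650, .ofNat 3438, .ofNat 0, .ofNat 1260589034801255541414295568134208728596480, .ofNat 0, .ofNat 0, .ofNat 0, .ofNat 0, .ofNat 0, .ofNat 0, .ofNat 0, .ofNat 62277670270821571081164669850962129265360896, .ofNat 0, .ofNat 0, .ofNat 0, .ofNat 0, .ofNat 0, .ofNat 0⟩)
    (by decide +kernel)
theorem L00292 : Good (Phi V5.P V5.D 1 (-1)) ⟨4, 0, 5, 15, 2, 1, 4, 14, 4, 6⟩ :=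
  leafYS_sound T5.ok_pm T5.Ypm.bz_eq (w := 224) (c := ⟨⟨.negSucc 981, .negSucc 26, .negSucc 0, .negSucc 155, .negSucc 35, .negSucc 0⟩, ⟨.ofNat 457, .ofNat 26, .ofNat 33, .ofNat 70, .ofNat 24, .ofNat 3⟩, ⟨.ofNat 822, .ofNat 31, .ofNat 27, .ofNat 705, .negSucc 85, .negSucc 6⟩, ⟨.negSucc 2971, .negSucc 77, .negSucc 6, .negSucc 499, .negSucc 63, .ofNat 14⟩, ⟨.negSucc 40, .negSucc 31, .negSucc 5, .negSucc 80, .ofNat 86, .ofNat 38⟩, .ofNat 1460, .ofNat 1494, .ofNat 0, .ofNat 1494, .ofNat 3119, .ofNat 0, .ofNat 128, .negSucc 194, .negSucc 32, .ofNat 0, .ofNat 179, .ofNat 9, .ofNat 0, .ofNat 0, .ofNat 702, .ofNat 4072, .ofNat 0, .ofNat 60783234342148300072339904782568007724433408, .ofNat 0, .ofNat 0, .ofNat 0, .ofNat 0, .ofNat 0, .ofNat 0, .ofNat 0, .ofNat 0, .ofNat 0, .ofNat 0, .ofNat 0, .ofNat 6054300854733248616991145384413956306649481216,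 .ofNat 0, .ofNat 0⟩)
    (by decide +kernel)
theorem L00293 : Good (Phi V5.P V5.D 1 (-1)) ⟨4, 0, 5, 15, 2, 1, 4, 15, 4, 6⟩ :=
  leafYS_sound T5.ok_pm T5.Ypm.bz_eq (w := 227) (c := ⟨⟨.negSucc 1005, .negSucc 30, .negSucc 1, .negSucc 220, .negSucc 39, .negSucc 23⟩, ⟨.ofNat 474, .ofNat 29, .ofNat 33, .ofNat 105, .ofNat 28, .ofNat 15⟩, ⟨.ofNat 748, .ofNat 31, .ofNat 20, .ofNat 603, .negSucc 93, .negSucc 25⟩, ⟨.negSucc 3005, .negSucc 91, .negSucc 6, .negSucc 604, .negSucc 44, .negSucc 40⟩, ⟨.ofNat 36, .negSucc 27, .negSucc 2, .ofNat 11, .ofNat 116, .ofNat 51⟩, .ofNat 784, .ofNat 513, .ofNat 0, .ofNat 513, .ofNat 1358, .ofNat 0, .ofNat 315, .negSucc 107, .negSucc 97, .ofNat 0, .ofNat 128, .ofNat 24, .ofNat 0, .ofNat 0, .ofNat 1134, .ofNat 38422, .ofNat 0, .ofNat 964843840828915359670428780927598442070409216, .ofNat 0, .ofNat 0, .ofNat 0, .ofNat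 39187529065608205608294585135435682194810470400, .ofNat 0, .ofNat 0, .ofNat 0, .ofNat 19027462532225878468839494692065916785726062592, .ofNat 0, .ofNat 0, .ofNat 0, .ofNat 41732638288363216918823243807767451060890763264, .ofNat 0, .ofNat 0⟩)
    (by decide +kernel)
theorem L00294 : Good (Phi V5.P V5.D 1 (-1)) ⟨4, 0, 5, 15, 2, 1, 3, 7, 4, 7⟩ :=
  leafYS_sound T5.ok_pm T5.Ypm.bz_eq (w := 222) (c := ⟨⟨.negSucc 983, .negSucc 25, .negSucc 0, .negSucc 131, .negSucc 89, .ofNat 2⟩, ⟨.ofNat 461, .ofNat 26, .ofNat 32, .ofNat 58, .ofNat 56, .ofNat 2⟩, ⟨.ofNat 824, .ofNat 18, .ofNat 25, .ofNat 752, .negSucc 239, .negSucc 47⟩, ⟨.negSucc 2961, .negSucc 71, .negSucc 7, .negSucc 426, .negSucc 175, .ofNat 26⟩, ⟨.negSucc 7, .negSucc 22, .negSucc 5, .negSucc 80, .ofNat 179, .ofNat 39⟩, .ofNat 1198, .ofNat 1091, .ofNat 0, .ofNat 1091, .ofNat 2409, .ofNat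 0, .ofNat 153, .negSucc 127, .negSucc 32, .ofNat 0, .ofNat 123, .ofNat 0, .ofNat 0, .ofNat 0, .ofNat 1184, .ofNat 11748, .ofNat 0, .ofNat 110010845746376928600260720380101198784495616, .ofNat 0, .ofNat 0, .ofNat 0, .ofNat 1510509086988408507319639680315482165204746240, .ofNat 0, .ofNat 0, .ofNat 0, .ofNat 1866263610807806111270218447878042615157882880, .ofNat 0, .ofNat 0, .ofNat 0, .ofNat 6101874475470087728305678507845257464716984320, .ofNat 0, .ofNat 0⟩)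
    (by decide +kernel)
theorem L00295 : Good (Phi V5.P V5.D 1 (-1)) ⟨4, 0, 4, 7, 1, 0, 1, 1, 1, 1⟩ :=
  leafYS_sound T5.ok_pm T5.Ypm.bz_eq (w := 189) (c := ⟨⟨.negSucc 959, .negSucc 6, .ofNat 0, .ofNat 0, .ofNat 0, .ofNat 0⟩, ⟨.ofNat 420, .ofNat 17, .ofNat 60, .ofNat 0, .ofNat 0, .ofNat 0⟩, ⟨.ofNat 262, .ofNat 7, .ofNat 0, .ofNat 0, .ofNat 0, .ofNat 0⟩, ⟨.negSucc 2882, .negSucc 2, .ofNat 0, .ofNat 1, .negSucc 0, .ofNat 1⟩, ⟨.ofNat 0, .ofNat 0, .ofNat 0, .ofNat 0, .ofNat 0, .ofNat 0⟩, .ofNat 195, .ofNat 27, .ofNat 0, .ofNat 27, .ofNat 226, .ofNat 0, .ofNat 140, .negSucc 25, .negSucc 102, .ofNat 0, .ofNat 128, .ofNat 17, .ofNat 0, .ofNat 0, .ofNat 300, .ofNat 13032, .ofNat 598949310563343396415728535574937600000000, .ofNat 23037282517508252736932691171032780767232, .ofNat 0, .ofNat 0, .ofNat 38332755876053977370606626276796006400000000,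 .ofNat 1513139222559873680877547044924950350659584, .ofNat 0, .ofNat 0, .ofNat 38332755876053977370606626276796006400000000, .ofNat 1808151953445299805179609593767111029686272, .ofNat 0, .ofNat 0, .ofNat 38332755876053977370606626276796006400000000, .ofNat 1513139396172229285734932956307434546135040, .ofNat 0, .ofNat 0⟩)
    (by decide +kernel)
theorem L00296 : Good (Phi V5.P V5.D 1 (-1)) ⟨4, 1, 3, 2, 2, 0, 1, 0, 4, 0⟩ :=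
  leafYS_sound T5.ok_pm T5.Ypm.bz_eq (w := 204) (c := ⟨⟨.ofNat 593, .ofNat 65, .ofNat 38, .ofNat 176, .negSucc 175, .negSucc 1280⟩, ⟨.negSucc 183, .negSucc 38, .negSucc 34, .negSucc 111, .ofNat 81, .ofNat 433⟩, ⟨.negSucc 586, .negSucc 74, .negSucc 43, .negSucc 238, .ofNat 31, .ofNat 1314⟩, ⟨.ofNat 1735, .ofNat 163, .ofNat 87, .ofNat 425, .negSucc 450, .negSucc 3768⟩, ⟨.negSucc 98, .negSucc 23, .ofNat 5, .negSucc 313, .ofNat 216, .negSucc 5⟩, .ofNat 858, .ofNat 532, .ofNat 0, .ofNat 532, .ofNat 1756, .ofNat 0, .ofNat 203, .negSucc 92, .negSucc 154, .ofNat 0, .ofNat 128, .ofNat 54, .ofNat 0, .ofNat 0, .ofNat 454, .ofNat 1860, .ofNat 0, .ofNat 0, .ofNat 0, .ofNat 0, .ofNat 0, .ofNat 0, .ofNat 0, .ofNat 0, .ofNat 0, .ofNat 0, .ofNat 0, .ofNat 0, .ofNat 0, .ofNat 0, .ofNat 0, .ofNat 0⟩)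
    (by decide +kernel)
theorem L00297 : Good (Phi V5.P V5.D 1 (-1)) ⟨4, 1, 3, 2, 2, 0, 1, 0, 4, 1⟩ :=
  leafYS_sound T5.ok_pm T5.Ypm.bz_eq (w := 205) (c := ⟨⟨.negSucc 655, .negSucc 21, .ofNat 23, .ofNat 197, .negSucc 24, .negSucc 559⟩, ⟨.ofNat 157, .ofNat 24, .ofNat 101, .negSucc 113, .ofNat 24, .ofNat 185⟩, ⟨.ofNat 763, .ofNat 29, .negSucc 28, .negSucc 400, .negSucc 120, .ofNat 626⟩, ⟨.negSucc 1971, .negSucc 21, .ofNat 36, .ofNat 458, .negSucc 32, .negSucc 1631⟩, ⟨.negSucc 52, .ofNat 8, .negSucc 33, .negSucc 379, .ofNat 140, .ofNat 39⟩, .ofNat 852, .ofNat 522, .ofNat 0, .ofNat 522, .ofNat 1747, .ofNat 0, .ofNat 218, .negSucc 90, .negSucc 138, .ofNat 0, .ofNat 128, .ofNat 49, .ofNat 0, .ofNat 0, .ofNat 541, .ofNat 3268, .ofNat 0, .ofNat 0, .ofNat 0, .ofNat 0, .ofNat 0, .ofNat 0, .ofNat 0, .ofNat 0, .ofNat 0, .ofNat 0, .ofNat 0, .ofNat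 0, .ofNat 0, .ofNat 0, .ofNat 0, .ofNat 0⟩)
    (by decide +kernel)
theorem L00298 : Good (Phi V5.P V5.D 1 (-1)) ⟨4, 1, 3, 2, 2, 0, 1, 0, 3, 1⟩ :=
  leafYS_sound T5.ok_pm T5.Ypm.bz_eq (w := 200) (c := ⟨⟨.negSucc 1265, .negSucc 4, .ofNat 6, .ofNat 52, .ofNat 163, .negSucc 90⟩, ⟨.ofNat 337, .ofNat 16, .ofNat 148, .negSucc 45, .negSucc 50, .ofNat 34⟩, ⟨.ofNat 1439, .negSucc 5, .negSucc 9, .negSucc 221, .negSucc 377, .ofNat 259⟩, ⟨.negSucc 3782, .ofNat 41, .ofNat 3, .ofNat 70, .ofNat 496, .negSucc 265⟩, ⟨.negSucc 54, .ofNat 2, .ofNat 5, .negSucc 231, .ofNat 57, .ofNat 6⟩, .ofNat 871, .ofNat 557, .ofNat 0, .ofNat 557, .ofNat 1782, .ofNat 0, .ofNat 254, .negSucc 94, .negSucc 95, .ofNat 0, .ofNat 128, .ofNat 37, .ofNat 0, .ofNat 0, .ofNat 620, .ofNat 3489, .ofNat 0, .ofNat 0, .ofNat 0, .ofNat 0, .ofNat 0, .ofNat 0, .ofNat 0, .ofNat 0, .ofNat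 0, .ofNat 0, .ofNat 0, .ofNat 0, .ofNat 344176585073870420226212767526238002610176, .ofNat 0, .ofNat 0, .ofNat 0⟩)
    (by decide +kernel)
theorem L00299 : Good (Phi V5.P V5.D 1 (-1)) ⟨4, 1, 3, 2, 2, 0, 2, 2, 2, 0⟩ :=
  leafYS_sound T5.ok_pm T5.Ypm.bz_eq (w := 197) (c := ⟨⟨.negSucc 677, .negSucc 23, .ofNat 4, .ofNat 6, .ofNat 121, .negSucc 496⟩, ⟨.ofNat 156, .ofNat 18, .ofNat 131, .negSucc 24, .negSucc 37, .ofNat 163⟩, ⟨.ofNat 574, .ofNat 20, .ofNat 8, .negSucc 61, .negSucc 196, .ofNat 607⟩, ⟨.negSucc 1985, .ofNat 2, .ofNat 16, .negSucc 62, .ofNat 356, .negSucc 1534⟩, ⟨.ofNat 46, .ofNat 72, .ofNat 42, .negSucc 258, .ofNat 26, .negSucc 113⟩, .ofNat 858, .ofNat 535, .ofNat 0, .ofNat 535, .ofNat 1764, .ofNat 0, .ofNat 286, .negSucc 92, .negSucc 105, .ofNat 0, .ofNat 128, .ofNat 37, .ofNat 0, .ofNat 0, .ofNat 479, .ofNat 408, .ofNat 0, .ofNat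 0, .ofNat 0, .ofNat 0, .ofNat 0, .ofNat 0, .ofNat 0, .ofNat 0, .ofNat 0, .ofNat 0, .ofNat 0, .ofNat 0, .ofNat 0, .ofNat 0, .ofNat 0, .ofNat 0⟩)
    (by decide +kernel)
theorem L00300 : Good (Phi V5.P V5.D 1 (-1)) ⟨4, 1, 3, 2, 2, 0, 2, 3, 3, 0⟩ :=
  leafYS_sound T5.ok_pm T5.Ypm.bz_eq (w := 204) (c := ⟨⟨.negSucc 674, .negSucc 3, .ofNat 61, .ofNat 63, .ofNat 527, .negSucc 344⟩, ⟨.ofNat 193, .ofNat 10, .ofNat 39, .negSucc 48, .negSucc 179, .ofNat 109⟩, ⟨.ofNat 617, .ofNat 12, .negSucc 80, .negSucc 40, .negSucc 596, .ofNat 233⟩, ⟨.negSucc 2010, .ofNat 16, .ofNat 190, .ofNat 92, .ofNat 1540, .negSucc 998⟩, ⟨.negSucc 46, .ofNat 24, .ofNat 82, .negSucc 291, .negSucc 29, .ofNat 26⟩, .ofNat 770, .ofNat 418, .ofNat 0, .ofNat 418, .ofNat 1481, .ofNat 0, .ofNat 354, .negSucc 85, .negSucc 316, .ofNat 0, .ofNat 128, .ofNat 105, .ofNat 0, .ofNat 0, .ofNat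 850, .ofNat 1334, .ofNat 0, .ofNat 0, .ofNat 0, .ofNat 0, .ofNat 0, .ofNat 0, .ofNat 0, .ofNat 0, .ofNat 0, .ofNat 0, .ofNat 0, .ofNat 0, .ofNat 0, .ofNat 0, .ofNat 0, .ofNat 0⟩)
    (by decide +kernel)
theorem L00301 : Good (Phi V5.P V5.D 1 (-1)) ⟨4, 1, 3, 2, 2, 0, 2, 3, 3, 1⟩ :=
  leafYS_sound T5.ok_pm T5.Ypm.bz_eq (w := 203) (c := ⟨⟨.negSucc 847, .negSucc 31, .negSucc 3, .negSucc 70, .ofNat 438, .negSucc 199⟩, ⟨.ofNat 216, .ofNat 20, .ofNat 98, .ofNat 5, .negSucc 140, .ofNat 80⟩, ⟨.ofNat 758, .ofNat 46, .ofNat 11, .ofNat 157, .negSucc 695, .ofNat 93⟩, ⟨.negSucc 2540, .negSucc 52, .negSucc 1, .negSucc 276, .ofNat 1320, .negSucc 594⟩, ⟨.negSucc 29, .ofNat 12, .ofNat 33, .negSucc 202, .ofNat 28, .negSucc 1⟩, .ofNat 665, .ofNat 306, .ofNat 0, .ofNat 306, .ofNat 1167, .ofNat 0, .ofNat 232, .negSucc 77, .negSucc 89, .ofNat 0, .ofNat 128,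 .ofNat 30, .ofNat 0, .ofNat 0, .ofNat 384, .ofNat 1364, .ofNat 0, .ofNat 0, .ofNat 0, .ofNat 0, .ofNat 0, .ofNat 0, .ofNat 0, .ofNat 0, .ofNat 0, .ofNat 0, .ofNat 0, .ofNat 0, .ofNat 0, .ofNat 0, .ofNat 0, .ofNat 0⟩)
    (by decide +kernel)
theorem L00302 : Good (Phi V5.P V5.D 1 (-1)) ⟨4, 1, 3, 2, 2, 0, 2, 0, 3, 2⟩ :=
  leafYS_sound T5.ok_pm T5.Ypm.bz_eq (w := 213) (c := ⟨⟨.negSucc 1324, .negSucc 19, .ofNat 6, .ofNat 30, .ofNat 69, .ofNat 1⟩, ⟨.ofNat 351, .ofNat 20, .ofNat 155, .negSucc 35, .negSucc 16, .ofNat 0⟩, ⟨.ofNat 1582, .ofNat 27, .negSucc 5, .negSucc 194, .negSucc 81, .negSucc 0⟩, ⟨.negSucc 3910, .ofNat 3, .ofNat 1, .ofNat 11, .ofNat 168, .ofNat 2⟩, ⟨.negSucc 14, .ofNat 4, .ofNat 0, .negSucc 231, .ofNat 10, .ofNat 0⟩, .ofNat 855, .ofNat 529, .ofNat 0, .ofNat 529, .ofNat 1755, .ofNat 0, .ofNat 323, .negSucc 91, .negSucc 143, .ofNat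 0, .ofNat 128, .ofNat 55, .ofNat 0, .ofNat 0, .ofNat 1385, .ofNat 1117062, .ofNat 98187670201954507733520716351405469577773056, .ofNat 0, .ofNat 0, .ofNat 0, .ofNat 334669133970666438952965162977505890776645632, .ofNat 0, .ofNat 0, .ofNat 0, .ofNat 98336484034830546109545736264594294694739968, .ofNat 0, .ofNat 0, .ofNat 0, .ofNat 214560772496504356873931300817824464882368512, .ofNat 0, .ofNat 0, .ofNat 0⟩)
    (by decide +kernel)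
theorem L00303 : Good (Phi V5.P V5.D 1 (-1)) ⟨4, 1, 3, 2, 2, 0, 2, 1, 3, 2⟩ :=
  leafYS_sound T5.ok_pm T5.Ypm.bz_eq (w := 207) (c := ⟨⟨.negSucc 1239, .negSucc 18, .ofNat 2, .ofNat 4, .ofNat 90, .ofNat 102⟩, ⟨.ofNat 336, .ofNat 18, .ofNat 139, .negSucc 23, .negSucc 27, .negSucc 31⟩, ⟨.ofNat 1401, .ofNat 10, .ofNat 13, .negSucc 16, .negSucc 256, .ofNat 38⟩, ⟨.negSucc 3699, .negSucc 0, .negSucc 3, .negSucc 51, .ofNat 268, .ofNat 308⟩, ⟨.negSucc 17, .negSucc 1, .ofNat 1, .negSucc 191, .ofNat 8, .ofNat 21⟩, .ofNat 661, .ofNat 297, .ofNat 0, .ofNat 297, .ofNat 1160, .ofNat 0, .ofNat 220, .negSucc 75, .negSucc 136, .ofNat 0, .ofNat 128, .ofNat 49, .ofNat 0, .ofNat 0, .ofNat 1528, .ofNat 25249, .ofNat 881257104323393712027819059902262410215424, .ofNat 0, .ofNat 0, .ofNat 0, .ofNat 6000764509086377150349711807767247276998656, .ofNat 0, .ofNat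 0, .ofNat 0, .ofNat 0, .ofNat 0, .ofNat 0, .ofNat 0, .ofNat 0, .ofNat 0, .ofNat 0, .ofNat 0⟩)
    (by decide +kernel)
theorem L00304 : Good (Phi V5.P V5.D 1 (-1)) ⟨4, 1, 3, 2, 2, 0, 1, 0, 3, 3⟩ :=
  out_sound (S := T5.ds_pm) T5.ok_pm (w := 21) (j := 1) (by decide +kernel)
theorem L00305 : Good (Phi V5.P V5.D 1 (-1)) ⟨4, 1, 3, 2, 2, 0, 2, 2, 3, 2⟩ :=
  leafYS_sound T5.ok_pm T5.Ypm.bz_eq (w := 206) (c := ⟨⟨.negSucc 1124, .negSucc 14, .negSucc 0, .negSucc 17, .ofNat 87, .ofNat 76⟩, ⟨.ofNat 301, .ofNat 18, .ofNat 134, .negSucc 12, .negSucc 27, .negSucc 22⟩, ⟨.ofNat 1123, .ofNat 17, .ofNat 24, .ofNat 96, .negSucc 291, .negSucc 47⟩, ⟨.negSucc 3352, .ofNat 1, .negSucc 13, .negSucc 105, .ofNat 256, .ofNat 225⟩, ⟨.negSucc 5, .negSucc 19, .ofNat 2, .negSucc 161, .ofNat 4, .ofNat 15⟩, .ofNat 963, .ofNat 690, .ofNat 0, .ofNat 690, .ofNat 2097, .ofNat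 0, .ofNat 295, .negSucc 97, .negSucc 94, .ofNat 0, .ofNat 128, .ofNat 34, .ofNat 0, .ofNat 0, .ofNat 1018, .ofNat 11406, .ofNat 0, .ofNat 0, .ofNat 0, .ofNat 0, .ofNat 0, .ofNat 0, .ofNat 0, .ofNat 0, .ofNat 0, .ofNat 0, .ofNat 0, .ofNat 0, .ofNat 0, .ofNat 0, .ofNat 0, .ofNat 0⟩)
    (by decide +kernel)
theorem L00306 : Good (Phi V5.P V5.D 1 (-1)) ⟨4, 1, 3, 2, 2, 0, 2, 3, 4, 4⟩ :=
  leafYS_sound T5.ok_pm T5.Ypm.bz_eq (w := 209) (c := ⟨⟨.negSucc 942, .negSucc 6, .negSucc 12, .negSucc 105, .ofNat 215, .negSucc 41⟩, ⟨.ofNat 248, .ofNat 12, .ofNat 121, .ofNat 21, .negSucc 64, .ofNat 18⟩, ⟨.ofNat 734, .ofNat 17, .ofNat 33, .ofNat 266, .negSucc 530, .ofNat 2⟩, ⟨.negSucc 2832, .ofNat 16, .negSucc 38, .negSucc 351, .ofNat 668, .negSucc 108⟩, ⟨.negSucc 66, .negSucc 27, .ofNat 23, .negSucc 108, .ofNat 73, .ofNat 55⟩, .ofNat 667, .ofNat 310, .ofNat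 0, .ofNat 310, .ofNat 1169, .ofNat 0, .ofNat 367, .negSucc 77, .negSucc 89, .ofNat 0, .ofNat 128, .ofNat 28, .ofNat 0, .ofNat 0, .ofNat 535, .ofNat 2343, .ofNat 0, .ofNat 0, .ofNat 0, .ofNat 0, .ofNat 0, .ofNat 0, .ofNat 0, .ofNat 0, .ofNat 0, .ofNat 503577136182459831709173940448146290114560, .ofNat 0, .ofNat 0, .ofNat 0, .ofNat 0, .ofNat 0, .ofNat 0⟩)
    (by decide +kernel)
theorem L00307 : Good (Phi V5.P V5.D 1 (-1)) ⟨4, 1, 3, 2, 2, 0, 2, 3, 4, 5⟩ :=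
  leafYS_sound T5.ok_pm T5.Ypm.bz_eq (w := 210) (c := ⟨⟨.negSucc 926, .negSucc 46, .negSucc 6, .negSucc 97, .ofNat 101, .negSucc 7⟩, ⟨.ofNat 244, .ofNat 22, .ofNat 119, .ofNat 23, .negSucc 21, .ofNat 5⟩, ⟨.ofNat 692, .ofNat 44, .ofNat 26, .ofNat 305, .negSucc 467, .negSucc 27⟩, ⟨.negSucc 2771, .negSucc 93, .negSucc 21, .negSucc 321, .ofNat 334, .negSucc 20⟩, ⟨.negSucc 33, .ofNat 11, .negSucc 4, .negSucc 87, .ofNat 82, .ofNat 26⟩, .ofNat 660, .ofNat 296, .ofNat 0, .ofNat 296, .ofNat 1160, .ofNat 0, .ofNat 309, .negSucc 74, .negSucc 51, .ofNat 0, .ofNat 128, .ofNat 14, .ofNat 0, .ofNat 0, .ofNat 410, .ofNat 3133, .ofNat 0, .ofNat 0, .ofNat 0, .ofNat 0, .ofNat 0, .ofNat 0, .ofNat 0, .ofNat 0, .ofNat 0, .ofNat 969375088521792902849767100940350998446080, .ofNat 0, .ofNat 0, .ofNat 0, .ofNat 0, .ofNat 0, .ofNat 0⟩)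
    (by decide +kernel)
theorem L00308 : Good (Phi V5.P V5.D 1 (-1)) ⟨4, 1, 3, 2, 2, 0, 1, 1, 3, 3⟩ :=
  leafYS_sound T5.ok_pm T5.Ypm.bz_eq (w := 201) (c := ⟨⟨.negSucc 989, .negSucc 21, .ofNat 7, .negSucc 50, .ofNat 69, .negSucc 21⟩, ⟨.ofNat 257, .ofNat 16, .ofNat 121, .ofNat 4, .negSucc 6, .ofNat 15⟩, ⟨.ofNat 1065, .ofNat 13, .ofNat 25, .ofNat 227, .negSucc 801, .negSucc 39⟩, ⟨.negSucc 2970, .negSucc 23, .ofNat 22, .negSucc 176, .ofNat 250, .negSucc 58⟩, ⟨.negSucc 52, .negSucc 22, .ofNat 11, .negSucc 97, .ofNat 144, .ofNat 23⟩, .ofNat 1011, .ofNat 760, .ofNat 0, .ofNat 760, .ofNat 2278, .ofNat 0, .ofNat 163, .negSucc 96, .negSucc 20, .ofNat 0, .ofNat 128, .ofNat 6, .ofNat 0, .ofNat 0, .ofNat 344, .ofNat 2392, .ofNat 0, .ofNat 0, .ofNat 0, .ofNat 0, .ofNat 36540670357452408512175679706654461394944, .ofNat 28467725893034078681354256496358290620416,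 .ofNat 0, .ofNat 0, .ofNat 0, .ofNat 40729529631159492081366290566185431859200, .ofNat 0, .ofNat 0, .ofNat 48650621295997218106491619134032893181952, .ofNat 0, .ofNat 0, .ofNat 0⟩)
    (by decide +kernel)
theorem L00309 : Good (Phi V5.P V5.D 1 (-1)) ⟨4, 1, 3, 2, 2, 0, 0, 0, 1, 1⟩ :=
  leafYS_sound T5.ok_pm T5.Ypm.bz_eq (w := 196) (c := ⟨⟨.negSucc 966, .negSucc 18, .ofNat 0, .ofNat 0, .ofNat 0, .ofNat 0⟩, ⟨.ofNat 257, .ofNat 16, .ofNat 121, .ofNat 0, .ofNat 0, .ofNat 0⟩, ⟨.ofNat 269, .ofNat 19, .ofNat 0, .ofNat 0, .ofNat 0, .ofNat 0⟩, ⟨.negSucc 2885, .negSucc 7, .ofNat 0, .ofNat 1, .negSucc 0, .ofNat 1⟩, ⟨.ofNat 0, .ofNat 0, .ofNat 0, .ofNat 0, .ofNat 0, .ofNat 0⟩, .ofNat 193, .ofNat 19, .ofNat 0, .ofNat 19, .ofNat 225, .ofNat 0, .ofNat 142, .negSucc 18, .negSucc 102, .ofNat 0, .ofNat 128, .ofNat 12, .ofNat 0, .ofNat 0, .ofNat 301, .ofNat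 107073, .ofNat 38332755876053977370606626276796006400000000, .ofNat 3457058913639470025557714390469441293910016, .ofNat 0, .ofNat 0, .ofNat 2453296376067454551718824081714944409600000000, .ofNat 227156765096766550035174700570986773649293312, .ofNat 0, .ofNat 0, .ofNat 2453296376067454551718824081714944409600000000, .ofNat 227157503958337889665537253373132329524920320, .ofNat 0, .ofNat 0, .ofNat 2453296376067454551718824081714944409600000000, .ofNat 227157300754879663922132170291110081311277056, .ofNat 0, .ofNat 0⟩)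
    (by decide +kernel)
theorem L00310 : Good (Phi V5.P V5.D 1 (-1)) ⟨5, 2, 3, 3, 4, 0, 1, 0, 4, 0⟩ :=
  leafYS_sound T5.ok_pm T5.Ypm.bz_eq (w := 236) (c := ⟨⟨.ofNat 599, .negSucc 43, .negSucc 21, .ofNat 77, .negSucc 225, .negSucc 1207⟩, ⟨.negSucc 268, .ofNat 20, .negSucc 4, .negSucc 33, .ofNat 111, .ofNat 547⟩, ⟨.negSucc 606, .ofNat 50, .ofNat 24, .negSucc 106, .ofNat 72, .ofNat 1303⟩, ⟨.ofNat 1761, .negSucc 139, .negSucc 78, .ofNat 182, .negSucc 674, .negSucc 3486⟩, ⟨.negSucc 40, .negSucc 5, .negSucc 8, .negSucc 108, .negSucc 2, .ofNat 167⟩, .ofNat 1089, .ofNat 920, .ofNat 0, .ofNat 920, .ofNat 2173, .ofNat 0, .ofNat 153, .negSucc 122, .negSucc 127, .ofNat 0, .ofNat 128, .ofNat 58, .ofNat 0, .ofNat 0, .ofNat 363, .ofNat 1663, .ofNat 0, .ofNat 0, .ofNat 0, .ofNat 0, .ofNat 0, .ofNat 0, .ofNat 0, .ofNat 0, .ofNat 0, .ofNat 0, .ofNat 0,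 .ofNat 0, .ofNat 0, .ofNat 0, .ofNat 0, .ofNat 0⟩)
    (by decide +kernel)
theorem L00311 : Good (Phi V5.P V5.D 1 (-1)) ⟨5, 2, 3, 3, 4, 0, 1, 0, 4, 1⟩ :=
  leafYS_sound T5.ok_pm T5.Ypm.bz_eq (w := 237) (c := ⟨⟨.negSucc 657, .negSucc 25, .ofNat 14, .ofNat 52, .negSucc 3, .negSucc 504⟩, ⟨.ofNat 227, .ofNat 11, .ofNat 113, .negSucc 27, .ofNat 6, .ofNat 241⟩, ⟨.ofNat 767, .ofNat 27, .negSucc 13, .negSucc 77, .negSucc 203, .ofNat 581⟩, ⟨.negSucc 1968, .negSucc 79, .ofNat 24, .ofNat 130, .negSucc 8, .negSucc 1486⟩, ⟨.ofNat 5, .negSucc 53, .negSucc 35, .negSucc 51, .ofNat 18, .ofNat 12⟩, .ofNat 1075, .ofNat 899, .ofNat 0, .ofNat 899, .ofNat 2148, .ofNat 0, .ofNat 128, .negSucc 122, .negSucc 109, .ofNat 0, .ofNat 129, .ofNat 50, .ofNat 0, .ofNat 0, .ofNat 428, .ofNat 3224, .ofNat 0, .ofNat 0, .ofNat 0, .ofNat 0, .ofNat 0, .ofNat 0, .ofNat 0,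 .ofNat 0, .ofNat 0, .ofNat 0, .ofNat 0, .ofNat 0, .ofNat 0, .ofNat 0, .ofNat 0, .ofNat 0⟩)
    (by decide +kernel)

end Crest.Agent.R097C5.N5pm
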