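import Crest.Agent.R097.KS3
import Crest.Agent.R097.T5Ypm

/-!
# Row 97, box cover in dimension n = 5 (generated)
-/

set_option autoImplicit false
set_option Elab.async false
set_option maxHeartbeats 0
set_option maxRecDepth 100000

open Crest.Agent.R097 Crest.Agent.R097.KA


namespace Crest.Agent.R097C5.N5pm

theorem L00312 : Good (Phi V5.P V5.D 1 (-1)) ⟨5, 2, 3, 3, 4, 0, 2, 2, 3, 0⟩ :=
  leafYS_sound T5.ok_pm T5.Ypm.bz_eq (w := 234) (c := ⟨⟨.negSucc 63, .negSucc 76, .ofNat 67, .negSucc 85, .negSucc 66, .negSucc 925⟩, ⟨.negSucc 21, .ofNat 26, .ofNat 52, .ofNat 57, .ofNat 38, .ofNat 428⟩, ⟨.negSucc 51, .ofNat 82, .negSucc 74, .ofNat 87, .ofNat 57, .ofNat 967⟩, ⟨.negSucc 149, .negSucc 209, .ofNat 206, .negSucc 283, .negSucc 259, .negSucc 2772⟩, ⟨.negSucc 5, .ofNat 31, .negSucc 12, .negSucc 19, .negSucc 15, .negSucc 0⟩,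 .ofNat 743, .ofNat 448, .ofNat 0, .ofNat 448, .ofNat 1280, .ofNat 0, .ofNat 194, .negSucc 98, .negSucc 149, .ofNat 0, .ofNat 128, .ofNat 61, .ofNat 0, .ofNat 0, .ofNat 430, .ofNat 909, .ofNat 0, .ofNat 0, .ofNat 0, .ofNat 0, .ofNat 0, .ofNat 0, .ofNat 0, .ofNat 0, .ofNat 0, .ofNat 0, .ofNat 0, .ofNat 0, .ofNat 0, .ofNat 0, .ofNat 0, .ofNat 0⟩)
    (by decide +kernel)
theorem L00313 : Good (Phi V5.P V5.D 1 (-1)) ⟨5, 2, 3, 3, 4, 0, 2, 3, 3, 0⟩ :=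
  leafYS_sound T5.ok_pm T5.Ypm.bz_eq (w := 235) (c := ⟨⟨.negSucc 693, .negSucc 45, .negSucc 6, .ofNat 53, .ofNat 583, .negSucc 319⟩, ⟨.ofNat 280, .ofNat 20, .ofNat 72, .negSucc 29, .negSucc 271, .ofNat 153⟩, ⟨.ofNat 660, .ofNat 53, .ofNat 13, .negSucc 60, .negSucc 692, .ofNat 200⟩, ⟨.negSucc 2047, .negSucc 136, .ofNat 16, .ofNat 105, .ofNat 1686, .negSucc 937⟩, ⟨.ofNat 25, .negSucc 23, .ofNat 92, .negSucc 122, .negSucc 71, .ofNat 13⟩, .ofNat 1070, .ofNat 891, .ofNat 0, .ofNat 891, .ofNat 2138, .ofNat 0, .ofNat 158, .negSucc 120, .negSucc 214, .ofNat 0, .ofNat 128, .ofNat 96, .ofNat 0, .ofNat 0, .ofNat 588, .ofNat 890, .ofNat 0, .ofNat 0, .ofNat 0, .ofNat 0, .ofNat 0, .ofNat 0, .ofNat 0, .ofNat 0, .ofNat 0, .ofNat 0, .ofNat 0, .ofNat 0, .ofNat 0, .ofNat 0, .ofNat 0, .ofNat 0⟩)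
    (by decide +kernel)
theorem L00314 : Good (Phi V5.P V5.D 1 (-1)) ⟨5, 2, 3, 3, 4, 0, 1, 0, 3, 1⟩ :=
  leafYS_sound T5.ok_pm T5.Ypm.bz_eq (w := 232) (c := ⟨⟨.negSucc 1285, .negSucc 3, .ofNat 6, .ofNat 25, .ofNat 184, .negSucc 83⟩, ⟨.ofNat 505, .ofNat 8, .ofNat 146, .negSucc 14, .negSucc 83, .ofNat 39⟩, ⟨.ofNat 1515, .ofNat 8, .negSucc 9, .negSucc 44, .negSucc 489, .ofNat 215⟩, ⟨.negSucc 3839, .ofNat 16, .ofNat 15, .ofNat 49, .ofNat 551, .negSucc 246⟩, ⟨.negSucc 28, .ofNat 9, .ofNat 2, .negSucc 49, .ofNat 19, .ofNat 5⟩, .ofNat 745, .ofNat 450, .ofNat 0, .ofNat 450, .ofNat 1282, .ofNat 0, .ofNat 211, .negSucc 98, .negSucc 64, .ofNat 0, .ofNat 128, .ofNat 27, .ofNat 0, .ofNat 0, .ofNat 411, .ofNat 2252, .ofNat 0, .ofNat 0, .ofNat 0, .ofNat 0, .ofNat 0, .ofNat 0, .ofNat 0, .ofNat 0, .ofNat 0, .ofNat 0, .ofNat 0, .ofNat 0,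 .ofNat 37427392843125041314966579590738582798944157302784, .ofNat 0, .ofNat 0, .ofNat 0⟩)
    (by decide +kernel)
theorem L00315 : Good (Phi V5.P V5.D 1 (-1)) ⟨5, 2, 3, 3, 4, 0, 1, 1, 3, 1⟩ :=
  leafYS_sound T5.ok_pm T5.Ypm.bz_eq (w := 231) (c := ⟨⟨.negSucc 1033, .ofNat 8, .negSucc 4, .ofNat 28, .ofNat 478, .negSucc 202⟩, ⟨.ofNat 409, .ofNat 2, .ofNat 113, .negSucc 11, .negSucc 220, .ofNat 98⟩, ⟨.ofNat 1184, .negSucc 15, .ofNat 23, .negSucc 7, .negSucc 972, .ofNat 89⟩, ⟨.negSucc 3072, .ofNat 57, .negSucc 4, .ofNat 63, .ofNat 1437, .negSucc 640⟩, ⟨.ofNat 60, .ofNat 31, .ofNat 14, .negSucc 43, .negSucc 41, .negSucc 79⟩, .ofNat 745, .ofNat 450, .ofNat 0, .ofNat 450, .ofNat 1282, .ofNat 0, .ofNat 189, .negSucc 98, .negSucc 65, .ofNat 0, .ofNat 128, .ofNat 27, .ofNat 0, .ofNat 0, .ofNat 335, .ofNat 814, .ofNat 0, .ofNat 0,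 .ofNat 0, .ofNat 0, .ofNat 0, .ofNat 0, .ofNat 0, .ofNat 0, .ofNat 0, .ofNat 0, .ofNat 0, .ofNat 0, .ofNat 0, .ofNat 0, .ofNat 0, .ofNat 0⟩)
    (by decide +kernel)
theorem L00316 : Good (Phi V5.P V5.D 1 (-1)) ⟨5, 2, 4, 6, 4, 1, 1, 0, 4, 0⟩ :=
  leafYS_sound T5.ok_pm T5.Ypm.bz_eq (w := 240) (c := ⟨⟨.ofNat 638, .ofNat 15, .ofNat 3, .ofNat 70, .negSucc 111, .negSucc 1338⟩, ⟨.negSucc 270, .negSucc 4, .negSucc 26, .negSucc 42, .ofNat 67, .ofNat 570⟩, ⟨.negSucc 665, .negSucc 13, .negSucc 5, .negSucc 88, .negSucc 41, .ofNat 1428⟩, ⟨.ofNat 1864, .ofNat 29, .negSucc 4, .ofNat 154, .negSucc 288, .negSucc 3979⟩, ⟨.negSucc 107, .negSucc 9, .negSucc 10, .negSucc 130, .ofNat 128, .ofNat 1⟩, .ofNat 878, .ofNat 609, .ofNat 0, .ofNat 609, .ofNat 1655, .ofNat 0, .ofNat 216, .negSucc 107, .negSucc 207, .ofNat 0, .ofNat 128, .ofNat 87, .ofNat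 0, .ofNat 0, .ofNat 576, .ofNat 2503, .ofNat 0, .ofNat 0, .ofNat 0, .ofNat 0, .ofNat 0, .ofNat 0, .ofNat 0, .ofNat 0, .ofNat 309034642840337491764899027435687929314240635076608, .ofNat 0, .ofNat 0, .ofNat 0, .ofNat 0, .ofNat 0, .ofNat 0, .ofNat 0⟩)
    (by decide +kernel)
theorem L00317 : Good (Phi V5.P V5.D 1 (-1)) ⟨5, 2, 4, 6, 4, 1, 1, 1, 4, 0⟩ :=
  leafYS_sound T5.ok_pm T5.Ypm.bz_eq (w := 238) (c := ⟨⟨.negSucc 360, .ofNat 72, .ofNat 30, .ofNat 50, .ofNat 148, .negSucc 199⟩, ⟨.ofNat 140, .negSucc 31, .ofNat 8, .negSucc 27, .negSucc 68, .ofNat 85⟩, ⟨.ofNat 264, .negSucc 73, .negSucc 34, .negSucc 50, .negSucc 164, .ofNat 135⟩, ⟨.negSucc 1043, .ofNat 196, .ofNat 97, .ofNat 116, .ofNat 364, .negSucc 576⟩, ⟨.ofNat 39, .negSucc 66, .ofNat 25, .negSucc 75, .negSucc 114, .negSucc 0⟩, .ofNat 872, .ofNat 599, .ofNat 0, .ofNat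 599, .ofNat 1645, .ofNat 0, .ofNat 212, .negSucc 106, .negSucc 242, .ofNat 0, .ofNat 128, .ofNat 100, .ofNat 0, .ofNat 0, .ofNat 599, .ofNat 771, .ofNat 0, .ofNat 0, .ofNat 0, .ofNat 0, .ofNat 0, .ofNat 0, .ofNat 0, .ofNat 0, .ofNat 0, .ofNat 0, .ofNat 0, .ofNat 0, .ofNat 0, .ofNat 0, .ofNat 0, .ofNat 0⟩)
    (by decide +kernel)
theorem L00318 : Good (Phi V5.P V5.D 1 (-1)) ⟨5, 2, 4, 6, 4, 1, 0, 0, 4, 1⟩ :=
  leafYS_sound T5.ok_pm T5.Ypm.bz_eq (w := 234) (c := ⟨⟨.negSucc 777, .negSucc 53, .ofNat 4, .ofNat 9, .ofNat 542, .negSucc 259⟩, ⟨.ofNat 297, .ofNat 27, .ofNat 33, .negSucc 9, .negSucc 226, .ofNat 115⟩, ⟨.ofNat 863, .ofNat 70, .negSucc 8, .negSucc 3, .negSucc 837, .ofNat 194⟩, ⟨.negSucc 2399, .negSucc 115, .ofNat 16, .ofNat 5, .ofNat 1611, .negSucc 724⟩, ⟨.negSucc 202, .ofNat 79, .ofNat 26, .negSucc 52, .ofNat 4, .ofNat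 100⟩, .ofNat 1093, .ofNat 916, .ofNat 0, .ofNat 916, .ofNat 2278, .ofNat 0, .ofNat 188, .negSucc 116, .negSucc 128, .ofNat 0, .ofNat 128, .ofNat 56, .ofNat 0, .ofNat 0, .ofNat 465, .ofNat 506, .ofNat 0, .ofNat 0, .ofNat 0, .ofNat 0, .ofNat 0, .ofNat 0, .ofNat 0, .ofNat 0, .ofNat 0, .ofNat 0, .ofNat 0, .ofNat 0, .ofNat 0, .ofNat 0, .ofNat 0, .ofNat 0⟩)
    (by decide +kernel)
theorem L00319 : Good (Phi V5.P V5.D 1 (-1)) ⟨5, 2, 4, 6, 4, 1, 1, 0, 3, 1⟩ :=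
  leafYS_sound T5.ok_pm T5.Ypm.bz_eq (w := 235) (c := ⟨⟨.negSucc 1260, .negSucc 28, .ofNat 10, .ofNat 11, .ofNat 179, .negSucc 74⟩, ⟨.ofNat 487, .ofNat 19, .ofNat 70, .negSucc 9, .negSucc 73, .ofNat 33⟩, ⟨.ofNat 1432, .ofNat 46, .negSucc 8, .negSucc 30, .negSucc 440, .ofNat 207⟩, ⟨.negSucc 3790, .negSucc 54, .ofNat 20, .ofNat 12, .ofNat 531, .negSucc 215⟩, ⟨.negSucc 77, .ofNat 18, .negSucc 7, .negSucc 44, .ofNat 6, .ofNat 14⟩, .ofNat 1261, .ofNat 1179, .ofNat 0, .ofNat 1179, .ofNat 2770, .ofNat 0, .ofNat 149, .negSucc 120, .negSucc 63, .ofNat 0, .ofNat 128, .ofNat 29, .ofNat 0, .ofNat 0, .ofNat 409, .ofNat 2401, .ofNat 0, .ofNat 0, .ofNat 0, .ofNat 0, .ofNat 0, .ofNat 0, .ofNat 0, .ofNat 0, .ofNat 0, .ofNat 0, .ofNat 0, .ofNat 0, .ofNat 357804609677096056794228070835386437513566595579904, .ofNat 0, .ofNat 0, .ofNat 0⟩)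
    (by decide +kernel)
theorem L00320 : Good (Phi V5.P V5.D 1 (-1)) ⟨5, 2, 4, 6, 4, 1, 1, 1, 3, 1⟩ :=
  leafYS_sound T5.ok_pm T5.Ypm.bz_eq (w := 234) (c := ⟨⟨.negSucc 984, .negSucc 24, .negSucc 15, .negSucc 22, .ofNat 498, .negSucc 229⟩, ⟨.ofNat 375, .ofNat 15, .ofNat 64, .ofNat 5, .negSucc 206, .ofNat 103⟩, ⟨.ofNat 1094, .ofNat 52, .ofNat 16, .ofNat 53, .negSucc 930, .ofNat 120⟩, ⟨.negSucc 2979, .negSucc 48, .negSucc 28, .negSucc 106, .ofNat 1505, .negSucc 679⟩, ⟨.negSucc 109, .ofNat 21, .ofNat 57, .negSucc 82, .ofNat 45, .ofNat 21⟩, .ofNat 1003, .ofNat 783, .ofNat 0, .ofNat 783, .ofNat 2014, .ofNat 0, .ofNat 163, .negSucc 113, .negSucc 69, .ofNat 0, .ofNat 128, .ofNat 30, .ofNat 0, .ofNat 0, .ofNat 339, .ofNat 680, .ofNat 0, .ofNat 0, .ofNat 0, .ofNat 0, .ofNat 0, .ofNat 0, .ofNat 0, .ofNat 0, .ofNat 0, .ofNat 0, .ofNat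 0, .ofNat 0, .ofNat 0, .ofNat 0, .ofNat 0, .ofNat 0⟩)
    (by decide +kernel)
theorem L00321 : Good (Phi V5.P V5.D 1 (-1)) ⟨5, 2, 4, 7, 4, 1, 1, 0, 4, 0⟩ :=
  leafYS_sound T5.ok_pm T5.Ypm.bz_eq (w := 240) (c := ⟨⟨.ofNat 693, .negSucc 46, .negSucc 15, .ofNat 35, .negSucc 269, .negSucc 1206⟩, ⟨.negSucc 340, .ofNat 19, .ofNat 0, .negSucc 21, .ofNat 138, .ofNat 585⟩, ⟨.negSucc 732, .ofNat 58, .ofNat 16, .negSucc 54, .ofNat 135, .ofNat 1266⟩, ⟨.ofNat 1957, .negSucc 111, .negSucc 59, .ofNat 62, .negSucc 738, .negSucc 3509⟩, ⟨.negSucc 215, .ofNat 65, .negSucc 7, .negSucc 87, .ofNat 130, .ofNat 126⟩, .ofNat 1533, .ofNat 1606, .ofNat 0, .ofNat 1606, .ofNat 3335, .ofNat 0, .ofNat 136, .negSucc 127, .negSucc 141, .ofNat 0, .ofNat 121, .ofNat 70, .ofNat 0, .ofNat 0, .ofNat 418, .ofNat 1924, .ofNat 0, .ofNat 0, .ofNat 0, .ofNat 0,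 .ofNat 0, .ofNat 0, .ofNat 0, .ofNat 0, .ofNat 0, .ofNat 0, .ofNat 0, .ofNat 0, .ofNat 0, .ofNat 0, .ofNat 0, .ofNat 0⟩)
    (by decide +kernel)
theorem L00322 : Good (Phi V5.P V5.D 1 (-1)) ⟨5, 2, 4, 7, 4, 1, 1, 0, 4, 1⟩ :=
  leafYS_sound T5.ok_pm T5.Ypm.bz_eq (w := 240) (c := ⟨⟨.negSucc 607, .ofNat 5, .negSucc 18, .ofNat 27, .negSucc 26, .negSucc 495⟩, ⟨.ofNat 260, .negSucc 3, .ofNat 66, .negSucc 19, .ofNat 18, .ofNat 240⟩, ⟨.ofNat 682, .negSucc 14, .ofNat 12, .negSucc 69, .negSucc 150, .ofNat 565⟩, ⟨.negSucc 1877, .ofNat 32, .negSucc 61, .ofNat 39, .negSucc 45, .negSucc 1458⟩, ⟨.negSucc 133, .ofNat 6, .ofNat 6, .negSucc 79, .ofNat 73, .ofNat 22⟩, .ofNat 1163, .ofNat 1036, .ofNat 0, .ofNat 1036, .ofNat 2313, .ofNat 0, .ofNat 155, .negSucc 127, .negSucc 128, .ofNat 0, .ofNat 126, .ofNat 64, .ofNat 0, .ofNat 0, .ofNat 479,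 .ofNat 4511, .ofNat 0, .ofNat 0, .ofNat 0, .ofNat 0, .ofNat 0, .ofNat 0, .ofNat 0, .ofNat 0, .ofNat 0, .ofNat 0, .ofNat 0, .ofNat 0, .ofNat 1892807137418881116618204417532012980009758600724480, .ofNat 0, .ofNat 0, .ofNat 0⟩)
    (by decide +kernel)
theorem L00323 : Good (Phi V5.P V5.D 1 (-1)) ⟨5, 2, 4, 7, 4, 1, 1, 0, 3, 1⟩ :=
  leafYS_sound T5.ok_pm T5.Ypm.bz_eq (w := 235) (c := ⟨⟨.negSucc 1256, .negSucc 7, .ofNat 12, .ofNat 26, .ofNat 159, .negSucc 79⟩, ⟨.ofNat 564, .ofNat 9, .ofNat 69, .negSucc 16, .negSucc 75, .ofNat 41⟩, ⟨.ofNat 1427, .ofNat 6, .negSucc 17, .negSucc 58, .negSucc 408, .ofNat 226⟩, ⟨.negSucc 3773, .negSucc 7, .ofNat 16, .ofNat 39, .ofNat 486, .negSucc 230⟩, ⟨.negSucc 54, .negSucc 20, .negSucc 25, .negSucc 77, .ofNat 31, .ofNat 14⟩, .ofNat 1390, .ofNat 1381, .ofNat 0, .ofNat 1381, .ofNat 2932, .ofNat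 0, .ofNat 128, .negSucc 149, .negSucc 56, .ofNat 0, .ofNat 143, .ofNat 29, .ofNat 0, .ofNat 0, .ofNat 367, .ofNat 1827, .ofNat 0, .ofNat 0, .ofNat 0, .ofNat 0, .ofNat 0, .ofNat 0, .ofNat 0, .ofNat 0, .ofNat 0, .ofNat 0, .ofNat 0, .ofNat 0, .ofNat 272104389680692178147950807738102145877899795759104, .ofNat 0, .ofNat 0, .ofNat 0⟩)
    (by decide +kernel)
theorem L00324 : Good (Phi V5.P V5.D 1 (-1)) ⟨5, 2, 4, 7, 4, 1, 2, 2, 2, 0⟩ :=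
  leafYS_sound T5.ok_pm T5.Ypm.bz_eq (w := 232) (c := ⟨⟨.negSucc 676, .ofNat 1, .ofNat 1, .ofNat 9, .ofNat 134, .negSucc 503⟩, ⟨.ofNat 292, .ofNat 0, .ofNat 64, .negSucc 10, .negSucc 67, .ofNat 249⟩, ⟨.ofNat 553, .ofNat 15, .ofNat 10, .negSucc 16, .negSucc 240, .ofNat 621⟩, ⟨.negSucc 2013, .ofNat 12, .ofNat 4, .ofNat 14, .ofNat 381, .negSucc 1524⟩, ⟨.negSucc 46, .negSucc 19, .ofNat 13, .negSucc 26, .negSucc 26, .ofNat 8⟩, .ofNat 1169, .ofNat 1046, .ofNat 0, .ofNat 1046, .ofNat 2324, .ofNat 0, .ofNat 148, .negSucc 127, .negSucc 83, .ofNat 0, .ofNat 126, .ofNat 42, .ofNat 0, .ofNat 0, .ofNat 365, .ofNat 396, .ofNat 0, .ofNat 0, .ofNat 0, .ofNat 0, .ofNat 0, .ofNat 0, .ofNat 0, .ofNat 0, .ofNat 0, .ofNat 0, .ofNat 0, .ofNat 0, .ofNat 0, .ofNat 0, .ofNat 0, .ofNat 0⟩)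
    (by decide +kernel)
theorem L00325 : Good (Phi V5.P V5.D 1 (-1)) ⟨5, 2, 4, 7, 4, 1, 2, 3, 2, 0⟩ :=
  leafYS_sound T5.ok_pm T5.Ypm.bz_eq (w := 233) (c := ⟨⟨.negSucc 655, .ofNat 10, .negSucc 16, .negSucc 14, .ofNat 385, .negSucc 401⟩, ⟨.ofNat 288, .negSucc 5, .ofNat 59, .negSucc 3, .negSucc 184, .ofNat 201⟩, ⟨.ofNat 633, .ofNat 2, .ofNat 13, .ofNat 47, .negSucc 574, .ofNat 235⟩, ⟨.negSucc 2003, .ofNat 43, .negSucc 31, .negSucc 61, .ofNat 1163, .negSucc 1192⟩, ⟨.negSucc 128, .ofNat 5, .ofNat 55, .negSucc 28, .ofNat 25, .ofNat 41⟩, .ofNat 969, .ofNat 755, .ofNat 0, .ofNat 755, .ofNat 1813, .ofNat 0, .ofNat 146, .negSucc 119, .negSucc 138, .ofNat 0, .ofNat 128, .ofNat 65, .ofNat 0, .ofNat 0, .ofNat 498, .ofNat 706, .ofNat 0, .ofNat 0, .ofNat 0, .ofNat 0, .ofNat 0, .ofNat 0, .ofNat 0, .ofNat 0, .ofNat 0, .ofNat 0, .ofNat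 0, .ofNat 0, .ofNat 0, .ofNat 0, .ofNat 0, .ofNat 0⟩)
    (by decide +kernel)
theorem L00326 : Good (Phi V5.P V5.D 1 (-1)) ⟨5, 2, 3, 3, 3, 0, 1, 0, 3, 2⟩ :=
  leafYS_sound T5.ok_pm T5.Ypm.bz_eq (w := 219) (c := ⟨⟨.negSucc 1342, .negSucc 8, .ofNat 1, .ofNat 8, .ofNat 191, .ofNat 106⟩, ⟨.ofNat 538, .ofNat 9, .ofNat 140, .negSucc 11, .negSucc 86, .negSucc 47⟩, ⟨.ofNat 1755, .ofNat 12, .ofNat 1, .ofNat 6, .negSucc 588, .negSucc 24⟩, ⟨.negSucc 4010, .negSucc 4, .negSucc 1, .negSucc 17, .ofNat 577, .ofNat 319⟩, ⟨.negSucc 11, .ofNat 0, .negSucc 0, .negSucc 96, .ofNat 10, .ofNat 6⟩, .ofNat 437, .ofNat 145, .ofNat 0, .ofNat 145, .ofNat 613, .ofNat 0, .ofNat 131, .negSucc 60, .negSucc 89, .ofNat 0, .ofNat 128, .ofNat 31, .ofNat 0, .ofNat 0, .ofNat 817, .ofNat 5415, .ofNat 1456731909907363263984413225508116233879289856, .ofNat 0,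 .ofNat 0, .ofNat 0, .ofNat 20782333046706259391419099592157960376835637248, .ofNat 0, .ofNat 0, .ofNat 0, .ofNat 0, .ofNat 0, .ofNat 0, .ofNat 0, .ofNat 55206384285337280516954921479984339426589278208, .ofNat 0, .ofNat 0, .ofNat 0⟩)
    (by decide +kernel)
theorem L00327 : Good (Phi V5.P V5.D 1 (-1)) ⟨5, 2, 3, 3, 3, 0, 1, 0, 3, 3⟩ :=
  out_sound (S := T5.ds_pm) T5.ok_pm (w := 23) (j := 1) (by decide +kernel)
theorem L00328 : Good (Phi V5.P V5.D 1 (-1)) ⟨5, 2, 3, 3, 3, 0, 2, 2, 3, 2⟩ :=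
  leafYS_sound T5.ok_pm T5.Ypm.bz_eq (w := 224) (c := ⟨⟨.negSucc 1125, .negSucc 11, .ofNat 0, .negSucc 1, .ofNat 98, .ofNat 72⟩, ⟨.ofNat 445, .ofNat 9, .ofNat 132, .negSucc 7, .negSucc 43, .negSucc 31⟩, ⟨.ofNat 1159, .ofNat 6, .ofNat 16, .ofNat 57, .negSucc 324, .negSucc 83⟩, ⟨.negSucc 3358, .negSucc 13, .negSucc 3, .negSucc 44, .ofNat 296, .ofNat 216⟩, ⟨.negSucc 9, .negSucc 1, .ofNat 3, .negSucc 82, .ofNat 11, .ofNat 6⟩, .ofNat 741, .ofNat 444, .ofNat 0, .ofNat 444, .ofNat 1277, .ofNat 0, .ofNat 162, .negSucc 98, .negSucc 49, .ofNat 0, .ofNat 128, .ofNat 21, .ofNat 0, .ofNat 0, .ofNat 493, .ofNat 11996, .ofNat 0, .ofNat 0, .ofNat 0, .ofNat 0, .ofNat 0, .ofNat 0, .ofNat 0, .ofNat 0, .ofNat 0, .ofNat 0, .ofNat 0, .ofNat 0, .ofNat 0, .ofNat 0, .ofNat 0, .ofNat 0⟩)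
    (by decide +kernel)
theorem L00329 : Good (Phi V5.P V5.D 1 (-1)) ⟨5, 2, 3, 3, 3, 0, 2, 3, 3, 2⟩ :=
  leafYS_sound T5.ok_pm T5.Ypm.bz_eq (w := 222) (c := ⟨⟨.negSucc 968, .negSucc 4, .negSucc 0, .negSucc 29, .ofNat 186, .negSucc 18⟩, ⟨.ofNat 379, .ofNat 6, .ofNat 116, .ofNat 9, .negSucc 79, .ofNat 11⟩, ⟨.ofNat 805, .ofNat 4, .ofNat 11, .ofNat 124, .negSucc 545, .negSucc 84⟩, ⟨.negSucc 2914, .ofNat 12, .ofNat 4, .negSucc 108, .ofNat 586, .negSucc 49⟩, ⟨.negSucc 57, .ofNat 15, .ofNat 22, .negSucc 41, .ofNat 64, .ofNat 27⟩, .ofNat 741, .ofNat 443, .ofNat 0, .ofNat 443, .ofNat 1276, .ofNat 0, .ofNat 197, .negSucc 97, .negSucc 49, .ofNat 0, .ofNat 128, .ofNat 20, .ofNat 0, .ofNat 0, .ofNat 336, .ofNat 1599, .ofNat 0, .ofNat 0, .ofNat 0, .ofNat 0, .ofNat 0, .ofNat 0, .ofNat 0, .ofNat 0, .ofNat 0, .ofNat 0, .ofNat 0, .ofNat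 0, .ofNat 0, .ofNat 0, .ofNat 0, .ofNat 0⟩)
    (by decide +kernel)
theorem L00330 : Good (Phi V5.P V5.D 1 (-1)) ⟨5, 2, 3, 3, 3, 0, 1, 1, 3, 3⟩ :=
  leafYS_sound T5.ok_pm T5.Ypm.bz_eq (w := 218) (c := ⟨⟨.negSucc 1023, .negSucc 3, .negSucc 3, .negSucc 12, .ofNat 129, .negSucc 19⟩, ⟨.ofNat 399, .ofNat 4, .ofNat 120, .ofNat 4, .negSucc 46, .ofNat 10⟩, ⟨.ofNat 1087, .ofNat 14, .ofNat 20, .ofNat 130, .negSucc 854, .negSucc 59⟩, ⟨.negSucc 3061, .negSucc 5, .ofNat 0, .negSucc 57, .ofNat 417, .negSucc 51⟩, ⟨.negSucc 18, .negSucc 30, .ofNat 22, .negSucc 43, .ofNat 79, .ofNat 17⟩, .ofNat 1073, .ofNat 896, .ofNat 0, .ofNat 896, .ofNat 2144, .ofNat 0, .ofNat 133, .negSucc 120, .negSucc 18, .ofNat 0, .ofNat 128, .ofNat 8, .ofNat 0, .ofNat 0, .ofNat 291, .ofNat 1713, .ofNat 0, .ofNat 0, .ofNat 0, .ofNat 0, .ofNat 0, .ofNat 0, .ofNat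 0, .ofNat 0, .ofNat 0, .ofNat 0, .ofNat 0, .ofNat 0, .ofNat 2309995357494938547559702275889136544400801792, .ofNat 0, .ofNat 0, .ofNat 0⟩)
    (by decide +kernel)
theorem L00331 : Good (Phi V5.P V5.D 1 (-1)) ⟨5, 2, 3, 3, 3, 1, 1, 0, 4, 0⟩ :=
  leafYS_sound T5.ok_pm T5.Ypm.bz_eq (w := 223) (c := ⟨⟨.ofNat 687, .ofNat 30, .ofNat 32, .ofNat 134, .negSucc 151, .negSucc 1261⟩, ⟨.negSucc 322, .negSucc 17, .negSucc 48, .negSucc 69, .ofNat 94, .ofNat 577⟩, ⟨.negSucc 717, .negSucc 22, .negSucc 56, .negSucc 167, .ofNat 12, .ofNat 1259⟩, ⟨.ofNat 1873, .ofNat 133, .ofNat 79, .ofNat 319, .negSucc 308, .negSucc 3670⟩, ⟨.negSucc 410, .ofNat 113, .ofNat 38, .negSucc 159, .ofNat 336, .ofNat 102⟩, .ofNat 1073, .ofNat 896, .ofNat 0, .ofNat 896, .ofNat 2144, .ofNat 0, .ofNat 155, .negSucc 123, .negSucc 136, .ofNat 0, .ofNat 128, .ofNat 64,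 .ofNat 0, .ofNat 0, .ofNat 372, .ofNat 2062, .ofNat 0, .ofNat 0, .ofNat 0, .ofNat 0, .ofNat 0, .ofNat 0, .ofNat 0, .ofNat 0, .ofNat 0, .ofNat 0, .ofNat 0, .ofNat 0, .ofNat 0, .ofNat 0, .ofNat 0, .ofNat 0⟩)
    (by decide +kernel)
theorem L00332 : Good (Phi V5.P V5.D 1 (-1)) ⟨5, 2, 3, 3, 3, 1, 1, 0, 4, 1⟩ :=
  leafYS_sound T5.ok_pm T5.Ypm.bz_eq (w := 223) (c := ⟨⟨.negSucc 536, .ofNat 3, .ofNat 12, .ofNat 124, .negSucc 52, .negSucc 561⟩, ⟨.ofNat 173, .negSucc 3, .ofNat 100, .negSucc 70, .ofNat 41, .ofNat 250⟩, ⟨.ofNat 535, .negSucc 0, .negSucc 33, .negSucc 258, .negSucc 49, .ofNat 620⟩, ⟨.negSucc 1725, .ofNat 0, .negSucc 10, .ofNat 301, .negSucc 83, .negSucc 1615⟩, ⟨.negSucc 294, .negSucc 54, .negSucc 34, .negSucc 135, .ofNat 177, .ofNat 93⟩, .ofNat 1059, .ofNat 873, .ofNat 0, .ofNat 873, .ofNat 2117, .ofNat 0, .ofNat 153,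 .negSucc 122, .negSucc 109, .ofNat 0, .ofNat 128, .ofNat 53, .ofNat 0, .ofNat 0, .ofNat 407, .ofNat 3927, .ofNat 0, .ofNat 0, .ofNat 0, .ofNat 0, .ofNat 0, .ofNat 0, .ofNat 0, .ofNat 0, .ofNat 0, .ofNat 0, .ofNat 0, .ofNat 0, .ofNat 30600142301328966611835680338548644440801542144, .ofNat 0, .ofNat 0, .ofNat 0⟩)
    (by decide +kernel)
theorem L00333 : Good (Phi V5.P V5.D 1 (-1)) ⟨5, 2, 3, 3, 3, 1, 1, 0, 3, 1⟩ :=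
  leafYS_sound T5.ok_pm T5.Ypm.bz_eq (w := 218) (c := ⟨⟨.negSucc 1192, .negSucc 13, .negSucc 7, .ofNat 35, .ofNat 140, .negSucc 112⟩, ⟨.ofNat 447, .ofNat 14, .ofNat 155, .negSucc 26, .negSucc 56, .ofNat 55⟩, ⟨.ofNat 1233, .ofNat 29, .ofNat 20, .negSucc 159, .negSucc 292, .ofNat 296⟩, ⟨.negSucc 3641, .negSucc 12, .negSucc 35, .ofNat 52, .ofNat 418, .negSucc 293⟩, ⟨.negSucc 215, .ofNat 12, .ofNat 20, .negSucc 111, .ofNat 22, .ofNat 83⟩, .ofNat 1250, .ofNat 1164, .ofNat 0, .ofNat 1164, .ofNat 2652, .ofNat 0, .ofNat 138, .negSucc 127, .negSucc 64, .ofNat 0, .ofNat 128, .ofNat 33, .ofNat 0, .ofNat 0, .ofNat 401, .ofNat 2004, .ofNat 0, .ofNat 0, .ofNat 0, .ofNat 0, .ofNat 0, .ofNat 0, .ofNat 0, .ofNat 0, .ofNat 0, .ofNat 0, .ofNat 0, .ofNat 0, .ofNat 10274291373622999246222541983519403986410012672, .ofNat 0, .ofNat 0, .ofNat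 0⟩)
    (by decide +kernel)
theorem L00334 : Good (Phi V5.P V5.D 1 (-1)) ⟨5, 2, 3, 3, 3, 1, 1, 1, 3, 0⟩ :=
  leafYS_sound T5.ok_pm T5.Ypm.bz_eq (w := 216) (c := ⟨⟨.negSucc 456, .ofNat 26, .negSucc 11, .ofNat 135, .ofNat 363, .negSucc 624⟩, ⟨.ofNat 162, .negSucc 5, .ofNat 75, .negSucc 70, .negSucc 172, .ofNat 286⟩, ⟨.ofNat 350, .negSucc 31, .ofNat 19, .negSucc 159, .negSucc 378, .ofNat 580⟩, ⟨.negSucc 1410, .ofNat 68, .negSucc 23, .ofNat 342, .ofNat 1034, .negSucc 1817⟩, ⟨.negSucc 142, .negSucc 36, .ofNat 82, .negSucc 119, .negSucc 73, .ofNat 55⟩, .ofNat 1060, .ofNat 875, .ofNat 0, .ofNat 875, .ofNat 2120, .ofNat 0, .ofNat 221, .negSucc 121, .negSucc 187, .ofNat 0, .ofNat 128, .ofNat 87, .ofNat 0, .ofNat 0, .ofNat 533, .ofNat 418, .ofNat 0, .ofNat 0, .ofNat 0, .ofNat 0, .ofNat 0, .ofNat 0, .ofNat 0, .ofNat 0, .ofNat 0,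 .ofNat 0, .ofNat 0, .ofNat 0, .ofNat 0, .ofNat 0, .ofNat 0, .ofNat 0⟩)
    (by decide +kernel)
theorem L00335 : Good (Phi V5.P V5.D 1 (-1)) ⟨5, 2, 3, 3, 3, 1, 1, 1, 3, 1⟩ :=
  leafYS_sound T5.ok_pm T5.Ypm.bz_eq (w := 217) (c := ⟨⟨.negSucc 957, .ofNat 12, .ofNat 6, .negSucc 1, .ofNat 352, .negSucc 236⟩, ⟨.ofNat 347, .ofNat 11, .ofNat 127, .negSucc 0, .negSucc 161, .ofNat 114⟩, ⟨.ofNat 944, .negSucc 29, .ofNat 13, .ofNat 14, .negSucc 629, .ofNat 258⟩, ⟨.negSucc 2915, .ofNat 72, .ofNat 2, .ofNat 4, .ofNat 1027, .negSucc 710⟩, ⟨.negSucc 174, .ofNat 53, .ofNat 10, .ofNat 28, .negSucc 36, .negSucc 5⟩, .ofNat 1095, .ofNat 930, .ofNat 0, .ofNat 930, .ofNat 2185, .ofNat 0, .ofNat 167, .negSucc 124, .negSucc 68, .ofNat 0, .ofNat 128, .ofNat 34, .ofNat 0, .ofNat 0, .ofNat 353, .ofNat 633, .ofNat 0, .ofNat 0, .ofNat 0, .ofNat 0, .ofNat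 0, .ofNat 853940374158190912241152609612196031443763200, .ofNat 0, .ofNat 0, .ofNat 0, .ofNat 0, .ofNat 0, .ofNat 0, .ofNat 0, .ofNat 0, .ofNat 0, .ofNat 0⟩)
    (by decide +kernel)
theorem L00336 : Good (Phi V5.P V5.D 1 (-1)) ⟨5, 2, 3, 3, 3, 1, 2, 0, 3, 2⟩ :=
  leafYS_sound T5.ok_pm T5.Ypm.bz_eq (w := 230) (c := ⟨⟨.negSucc 1305, .negSucc 6, .ofNat 9, .ofNat 18, .ofNat 69, .ofNat 1⟩, ⟨.ofNat 500, .ofNat 10, .ofNat 155, .negSucc 17, .negSucc 29, .ofNat 0⟩, ⟨.ofNat 1614, .ofNat 8, .negSucc 8, .negSucc 141, .negSucc 187, .negSucc 0⟩, ⟨.negSucc 3960, .ofNat 3, .ofNat 2, .negSucc 5, .ofNat 231, .ofNat 2⟩, ⟨.negSucc 153, .ofNat 2, .ofNat 0, .negSucc 125, .ofNat 37, .ofNat 0⟩, .ofNat 195, .ofNat 26, .ofNat 0, .ofNat 26, .ofNat 225, .ofNat 0, .ofNat 322, .negSucc 26, .negSucc 185, .ofNat 0, .ofNat 128, .ofNat 72, .ofNat 0, .ofNat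 0, .ofNat 786, .ofNat 611726, .ofNat 3236767102236345794113673568701552676862068523008, .ofNat 0, .ofNat 0, .ofNat 0, .ofNat 12478707320064035063301932339520087149832141012992, .ofNat 0, .ofNat 0, .ofNat 0, .ofNat 802773451818815138363230678473725310901279522816, .ofNat 0, .ofNat 0, .ofNat 0, .ofNat 4758719621158293361083204638395581340840743665664, .ofNat 0, .ofNat 0, .ofNat 0⟩)
    (by decide +kernel)
theorem L00337 : Good (Phi V5.P V5.D 1 (-1)) ⟨5, 2, 3, 3, 3, 1, 2, 1, 3, 2⟩ :=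
  leafYS_sound T5.ok_pm T5.Ypm.bz_eq (w := 225) (c := ⟨⟨.negSucc 1226, .negSucc 9, .ofNat 7, .ofNat 1, .ofNat 85, .ofNat 97⟩, ⟨.ofNat 473, .ofNat 11, .ofNat 142, .negSucc 8, .negSucc 36, .negSucc 41⟩, ⟨.ofNat 1366, .ofNat 19, .ofNat 7, .negSucc 22, .negSucc 218, .ofNat 64⟩, ⟨.negSucc 3709, .negSucc 4, .ofNat 1, .negSucc 41, .ofNat 262, .ofNat 299⟩, ⟨.negSucc 124, .ofNat 2, .ofNat 0, .negSucc 98, .ofNat 18, .ofNat 24⟩, .ofNat 438, .ofNat 147, .ofNat 0, .ofNat 147, .ofNat 614, .ofNat 0, .ofNat 233, .negSucc 61, .negSucc 144, .ofNat 0, .ofNat 128, .ofNat 61, .ofNat 0, .ofNat 0, .ofNat 1245, .ofNat 22608, .ofNat 47501925158958716251866636370861553370873724928, .ofNat 0, .ofNat 0, .ofNat 0, .ofNat 429721636405107150434365719563765694791919075328, .ofNat 0, .ofNat 0, .ofNat 0, .ofNat 0, .ofNat 0, .ofNat 0, .ofNat 0, .ofNat 0,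 .ofNat 0, .ofNat 0, .ofNat 0⟩)
    (by decide +kernel)
theorem L00338 : Good (Phi V5.P V5.D 1 (-1)) ⟨5, 2, 3, 3, 3, 1, 1, 0, 3, 3⟩ :=
  out_sound (S := T5.ds_pm) T5.ok_pm (w := 23) (j := 1) (by decide +kernel)
theorem L00339 : Good (Phi V5.P V5.D 1 (-1)) ⟨5, 2, 3, 3, 3, 1, 2, 2, 3, 2⟩ :=
  leafYS_sound T5.ok_pm T5.Ypm.bz_eq (w := 224) (c := ⟨⟨.negSucc 1121, .negSucc 0, .ofNat 4, .negSucc 16, .ofNat 76, .ofNat 72⟩, ⟨.ofNat 432, .ofNat 4, .ofNat 133, .negSucc 0, .negSucc 31, .negSucc 29⟩, ⟨.ofNat 1107, .ofNat 23, .ofNat 40, .ofNat 57, .negSucc 244, .ofNat 22⟩, ⟨.negSucc 3387, .ofNat 15, .negSucc 2, .negSucc 85, .ofNat 231, .ofNat 222⟩, ⟨.negSucc 108, .negSucc 5, .ofNat 4, .negSucc 80, .ofNat 18, .ofNat 24⟩, .ofNat 1080, .ofNat 907, .ofNat 0, .ofNat 907, .ofNat 2158, .ofNat 0, .ofNat 135, .negSucc 122, .negSucc 83, .ofNat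 0, .ofNat 128, .ofNat 40, .ofNat 0, .ofNat 0, .ofNat 871, .ofNat 8131, .ofNat 0, .ofNat 0, .ofNat 0, .ofNat 0, .ofNat 0, .ofNat 0, .ofNat 0, .ofNat 0, .ofNat 0, .ofNat 0, .ofNat 0, .ofNat 0, .ofNat 0, .ofNat 0, .ofNat 0, .ofNat 0⟩)
    (by decide +kernel)
theorem L00340 : Good (Phi V5.P V5.D 1 (-1)) ⟨5, 2, 3, 3, 3, 1, 2, 3, 3, 2⟩ :=
  leafYS_sound T5.ok_pm T5.Ypm.bz_eq (w := 222) (c := ⟨⟨.negSucc 965, .negSucc 15, .negSucc 7, .negSucc 56, .ofNat 75, .negSucc 3⟩, ⟨.ofNat 365, .ofNat 12, .ofNat 128, .ofNat 22, .negSucc 22, .ofNat 5⟩, ⟨.ofNat 821, .ofNat 19, .ofNat 35, .ofNat 165, .negSucc 380, .negSucc 14⟩, ⟨.negSucc 2938, .negSucc 27, .negSucc 29, .negSucc 194, .ofNat 281, .ofNat 18⟩, ⟨.negSucc 133, .ofNat 0, .ofNat 9, .negSucc 56, .ofNat 124, .ofNat 64⟩, .ofNat 745, .ofNat 450, .ofNat 0, .ofNat 450, .ofNat 1282, .ofNat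 0, .ofNat 225, .negSucc 99, .negSucc 43, .ofNat 0, .ofNat 128, .ofNat 18, .ofNat 0, .ofNat 0, .ofNat 335, .ofNat 1658, .ofNat 0, .ofNat 0, .ofNat 0, .ofNat 0, .ofNat 0, .ofNat 0, .ofNat 0, .ofNat 0, .ofNat 0, .ofNat 7011849788906319826912916194752840828610150400, .ofNat 0, .ofNat 0, .ofNat 0, .ofNat 1779561217879838984282891197281119833367248896, .ofNat 0, .ofNat 0⟩)
    (by decide +kernel)
theorem L00341 : Good (Phi V5.P V5.D 1 (-1)) ⟨5, 2, 3, 3, 3, 1, 2, 2, 3, 3⟩ :=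
  leafYS_sound T5.ok_pm T5.Ypm.bz_eq (w := 226) (c := ⟨⟨.negSucc 1021, .negSucc 9, .ofNat 1, .negSucc 20, .ofNat 42, .ofNat 60⟩, ⟨.ofNat 391, .ofNat 10, .ofNat 126, .ofNat 3, .negSucc 15, .negSucc 22⟩, ⟨.ofNat 1107, .ofNat 17, .ofNat 42, .ofNat 163, .negSucc 298, .negSucc 17⟩, ⟨.negSucc 3089, .negSucc 8, .negSucc 6, .negSucc 91, .ofNat 140, .ofNat 190⟩, ⟨.negSucc 100, .negSucc 0, .ofNat 4, .negSucc 67, .ofNat 36, .ofNat 29⟩, .ofNat 1067, .ofNat 886, .ofNat 0, .ofNat 886, .ofNat 2133, .ofNat 0, .ofNat 128, .negSucc 120, .negSucc 63, .ofNat 0, .ofNat 128, .ofNat 27, .ofNat 0, .ofNat 0, .ofNat 1077, .ofNat 27888, .ofNat 0, .ofNat 0, .ofNat 0, .ofNat 0, .ofNat 337663596535536574610531075629875832463596453888, .ofNat 0, .ofNat 0, .ofNat 0, .ofNat 345596997675348699906605491890015846036026687488, .ofNat 0, .ofNat 0, .ofNat 0,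 .ofNat 623502090136419643436333782245163929008022224896, .ofNat 0, .ofNat 0, .ofNat 0⟩)
    (by decide +kernel)
theorem L00342 : Good (Phi V5.P V5.D 1 (-1)) ⟨5, 2, 3, 3, 3, 1, 2, 3, 3, 3⟩ :=
  leafYS_sound T5.ok_pm T5.Ypm.bz_eq (w := 223) (c := ⟨⟨.negSucc 936, .negSucc 14, .negSucc 5, .negSucc 58, .negSucc 37, .negSucc 6⟩, ⟨.ofNat 355, .ofNat 11, .ofNat 127, .ofNat 24, .ofNat 32, .ofNat 8⟩, ⟨.ofNat 775, .ofNat 14, .ofNat 55, .ofNat 225, .negSucc 363, .negSucc 91⟩, ⟨.negSucc 2834, .negSucc 25, .negSucc 20, .negSucc 193, .negSucc 38, .ofNat 16⟩, ⟨.negSucc 86, .negSucc 3, .negSucc 3, .negSucc 34, .ofNat 158, .ofNat 79⟩, .ofNat 743, .ofNat 446, .ofNat 0, .ofNat 446, .ofNat 1279, .ofNat 0, .ofNat 156, .negSucc 98, .negSucc 24, .ofNat 0, .ofNat 128, .ofNat 7, .ofNat 0, .ofNat 0, .ofNat 316, .ofNat 3854, .ofNat 0, .ofNat 204247884198498601425512597161700381692002304,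 .ofNat 0, .ofNat 0, .ofNat 0, .ofNat 12360770016218963091390979234007018982166495232, .ofNat 0, .ofNat 0, .ofNat 0, .ofNat 12801688000258189779027363990563641824525680640, .ofNat 0, .ofNat 0, .ofNat 22030800616654664843667629252465778031092301824, .ofNat 0, .ofNat 0, .ofNat 0⟩)
    (by decide +kernel)
theorem L00343 : Good (Phi V5.P V5.D 1 (-1)) ⟨5, 3, 3, 3, 2, 0, 1, 0, 4, 0⟩ :=
  leafYS_sound T5.ok_pm T5.Ypm.bz_eq (w := 208) (c := ⟨⟨.ofNat 597, .negSucc 1, .ofNat 7, .ofNat 245, .negSucc 143, .negSucc 1274⟩, ⟨.negSucc 265, .ofNat 0, .negSucc 35, .negSucc 139, .ofNat 82, .ofNat 596⟩, ⟨.negSucc 568, .ofNat 1, .negSucc 35, .negSucc 339, .negSucc 16, .ofNat 1315⟩, ⟨.ofNat 1767, .negSucc 23, .negSucc 6, .ofNat 490, .negSucc 336, .negSucc 3680⟩, ⟨.negSucc 60, .negSucc 17, .ofNat 20, .negSucc 452, .ofNat 202, .ofNat 122⟩, .ofNat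 1080, .ofNat 917, .ofNat 0, .ofNat 917, .ofNat 2173, .ofNat 0, .ofNat 151, .negSucc 123, .negSucc 152, .ofNat 0, .ofNat 128, .ofNat 71, .ofNat 0, .ofNat 0, .ofNat 411, .ofNat 2009, .ofNat 0, .ofNat 0, .ofNat 0, .ofNat 0, .ofNat 0, .ofNat 0, .ofNat 0, .ofNat 0, .ofNat 0, .ofNat 0, .ofNat 0, .ofNat 0, .ofNat 0, .ofNat 0, .ofNat 0, .ofNat 0⟩)
    (by decide +kernel)
theorem L00344 : Good (Phi V5.P V5.D 1 (-1)) ⟨5, 3, 3, 3, 2, 0, 1, 0, 4, 1⟩ :=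
  leafYS_sound T5.ok_pm T5.Ypm.bz_eq (w := 209) (c := ⟨⟨.negSucc 654, .negSucc 24, .ofNat 20, .ofNat 213, .negSucc 16, .negSucc 542⟩, ⟨.ofNat 229, .ofNat 23, .ofNat 95, .negSucc 116, .ofNat 26, .ofNat 250⟩, ⟨.ofNat 772, .ofNat 28, .negSucc 21, .negSucc 459, .negSucc 139, .ofNat 605⟩, ⟨.negSucc 1962, .negSucc 50, .ofNat 35, .ofNat 468, .negSucc 9, .negSucc 1581⟩, ⟨.negSucc 52, .negSucc 8, .negSucc 5, .negSucc 368, .ofNat 100, .ofNat 36⟩, .ofNat 737, .ofNat 444, .ofNat 0, .ofNat 444, .ofNat 1279, .ofNat 0, .ofNat 236, .negSucc 99, .negSucc 180, .ofNat 0, .ofNat 128, .ofNat 78, .ofNat 0, .ofNat 0, .ofNat 657, .ofNat 3474, .ofNat 0, .ofNat 0, .ofNat 0, .ofNat 0, .ofNat 0, .ofNat 0, .ofNat 0, .ofNat 0, .ofNat 530951929883194497247488349891456321716224, .ofNat 0, .ofNat 0, .ofNat 0, .ofNat 0, .ofNat 0, .ofNat 0, .ofNat 0⟩)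
    (by decide +kernel)
theorem L00345 : Good (Phi V5.P V5.D 1 (-1)) ⟨5, 3, 3, 3, 2, 0, 1, 0, 3, 1⟩ :=
  leafYS_sound T5.ok_pm T5.Ypm.bz_eq (w := 204) (c := ⟨⟨.negSucc 1285, .negSucc 18, .ofNat 6, .ofNat 57, .ofNat 170, .negSucc 71⟩, ⟨.ofNat 507, .ofNat 13, .ofNat 146, .negSucc 45, .negSucc 72, .ofNat 36⟩, ⟨.ofNat 1435, .ofNat 37, .negSucc 6, .negSucc 205, .negSucc 378, .ofNat 225⟩, ⟨.negSucc 3825, .negSucc 20, .ofNat 4, .ofNat 54, .ofNat 507, .negSucc 185⟩, ⟨.negSucc 63, .ofNat 9, .negSucc 8, .negSucc 254, .ofNat 40, .ofNat 54⟩, .ofNat 1064, .ofNat 891, .ofNat 0, .ofNat 891, .ofNat 2143, .ofNat 0, .ofNat 197, .negSucc 121, .negSucc 104, .ofNat 0, .ofNat 128, .ofNat 50, .ofNat 0, .ofNat 0, .ofNat 680, .ofNat 2967, .ofNat 0, .ofNat 0, .ofNat 0, .ofNat 0, .ofNat 0, .ofNat 0, .ofNat 0, .ofNat 0, .ofNat 885556218799157782181656491947473172955136,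 .ofNat 0, .ofNat 0, .ofNat 0, .ofNat 5914538241710453663593408782085277425336320, .ofNat 0, .ofNat 0, .ofNat 0⟩)
    (by decide +kernel)
theorem L00346 : Good (Phi V5.P V5.D 1 (-1)) ⟨5, 3, 3, 3, 2, 0, 2, 0, 3, 2⟩ :=
  leafYS_sound T5.ok_pm T5.Ypm.bz_eq (w := 216) (c := ⟨⟨.negSucc 1332, .negSucc 13, .ofNat 6, .ofNat 42, .ofNat 68, .ofNat 1⟩, ⟨.ofNat 523, .ofNat 10, .ofNat 155, .negSucc 37, .negSucc 22, .ofNat 0⟩, ⟨.ofNat 1708, .ofNat 16, .negSucc 5, .negSucc 214, .negSucc 193, .negSucc 0⟩, ⟨.negSucc 3945, .ofNat 1, .ofNat 1, .ofNat 14, .ofNat 206, .ofNat 2⟩, ⟨.negSucc 34, .ofNat 3, .negSucc 0, .negSucc 236, .ofNat 35, .ofNat 0⟩, .ofNat 437, .ofNat 149, .ofNat 0, .ofNat 149, .ofNat 616, .ofNat 0, .ofNat 311, .negSucc 62, .negSucc 172, .ofNat 0, .ofNat 128, .ofNat 69, .ofNat 0, .ofNat 0, .ofNat 1294, .ofNat 975192, .ofNat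 1295046651723387662886145982887128659973373952, .ofNat 0, .ofNat 0, .ofNat 0, .ofNat 4573237124968382869011356031171953191232208896, .ofNat 0, .ofNat 0, .ofNat 0, .ofNat 951135436451621138455016716000217018042155008, .ofNat 0, .ofNat 0, .ofNat 0, .ofNat 1745738134119787902535344088477690513196056576, .ofNat 0, .ofNat 0, .ofNat 0⟩)
    (by decide +kernel)
theorem L00347 : Good (Phi V5.P V5.D 1 (-1)) ⟨5, 3, 3, 3, 2, 0, 2, 1, 3, 2⟩ :=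
  leafYS_sound T5.ok_pm T5.Ypm.bz_eq (w := 211) (c := ⟨⟨.negSucc 1248, .negSucc 10, .ofNat 4, .ofNat 12, .ofNat 90, .ofNat 98⟩, ⟨.ofNat 498, .ofNat 7, .ofNat 141, .negSucc 21, .negSucc 38, .negSucc 43⟩, ⟨.ofNat 1396, .ofNat 4, .ofNat 15, .negSucc 18, .negSucc 224, .ofNat 40⟩, ⟨.negSucc 3695, .ofNat 0, .negSucc 3, .negSucc 52, .ofNat 267, .ofNat 296⟩, ⟨.negSucc 15, .negSucc 0, .negSucc 0, .negSucc 194, .ofNat 10, .ofNat 17⟩, .ofNat 746, .ofNat 459, .ofNat 0, .ofNat 459, .ofNat 1293, .ofNat 0, .ofNat 128, .negSucc 126, .negSucc 120, .ofNat 0, .ofNat 160, .ofNat 56, .ofNat 0, .ofNat 0, .ofNat 1286, .ofNat 14862, .ofNat 8506936369036904718400842630676054840180736, .ofNat 0, .ofNat 0, .ofNat 0, .ofNat 40589948279316925015088028814687029476458496, .ofNat 0, .ofNat 0, .ofNat 0, .ofNat 0, .ofNat 0, .ofNat 0, .ofNat 0, .ofNat 0,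 .ofNat 0, .ofNat 0, .ofNat 0⟩)
    (by decide +kernel)
theorem L00348 : Good (Phi V5.P V5.D 1 (-1)) ⟨5, 3, 3, 3, 2, 0, 1, 0, 3, 3⟩ :=
  out_sound (S := T5.ds_pm) T5.ok_pm (w := 21) (j := 1) (by decide +kernel)
theorem L00349 : Good (Phi V5.P V5.D 1 (-1)) ⟨5, 3, 3, 3, 2, 0, 2, 2, 3, 0⟩ :=
  leafYS_sound T5.ok_pm T5.Ypm.bz_eq (w := 206) (c := ⟨⟨.negSucc 51, .negSucc 31, .ofNat 7, .ofNat 174, .negSucc 60, .negSucc 1010⟩, ⟨.negSucc 37, .ofNat 23, .ofNat 76, .negSucc 95, .ofNat 29, .ofNat 472⟩, ⟨.negSucc 58, .ofNat 41, .negSucc 16, .negSucc 255, .ofNat 70, .ofNat 1048⟩, ⟨.negSucc 72, .negSucc 28, .ofNat 2, .ofNat 413, .negSucc 291, .negSucc 3034⟩, ⟨.ofNat 237, .ofNat 107, .negSucc 72, .negSucc 199, .negSucc 232, .negSucc 193⟩, .ofNat 1084, .ofNat 922, .ofNat 0, .ofNat 922, .ofNat 2180, .ofNat 0, .ofNat 128, .negSucc 161, .negSucc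 143, .ofNat 0, .ofNat 166, .ofNat 67, .ofNat 0, .ofNat 0, .ofNat 429, .ofNat 535, .ofNat 0, .ofNat 0, .ofNat 0, .ofNat 0, .ofNat 0, .ofNat 0, .ofNat 0, .ofNat 0, .ofNat 0, .ofNat 0, .ofNat 0, .ofNat 0, .ofNat 0, .ofNat 0, .ofNat 0, .ofNat 0⟩)
    (by decide +kernel)
theorem L00350 : Good (Phi V5.P V5.D 1 (-1)) ⟨5, 3, 3, 3, 2, 0, 2, 3, 3, 0⟩ :=
  leafYS_sound T5.ok_pm T5.Ypm.bz_eq (w := 207) (c := ⟨⟨.negSucc 649, .negSucc 23, .negSucc 8, .ofNat 49, .ofNat 627, .negSucc 351⟩, ⟨.ofNat 272, .ofNat 15, .ofNat 58, .negSucc 39, .negSucc 293, .ofNat 161⟩, ⟨.ofNat 566, .ofNat 30, .ofNat 8, .ofNat 4, .negSucc 685, .ofNat 213⟩, ⟨.negSucc 1869, .negSucc 67, .negSucc 17, .ofNat 48, .ofNat 1768, .negSucc 1032⟩, ⟨.ofNat 63, .negSucc 13, .ofNat 50, .negSucc 202, .negSucc 121, .negSucc 22⟩, .ofNat 930, .ofNat 702, .ofNat 0, .ofNat 702,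 .ofNat 1758, .ofNat 0, .ofNat 185, .negSucc 116, .negSucc 210, .ofNat 0, .ofNat 128, .ofNat 95, .ofNat 0, .ofNat 0, .ofNat 566, .ofNat 850, .ofNat 0, .ofNat 0, .ofNat 0, .ofNat 0, .ofNat 0, .ofNat 0, .ofNat 0, .ofNat 0, .ofNat 0, .ofNat 0, .ofNat 0, .ofNat 0, .ofNat 0, .ofNat 0, .ofNat 0, .ofNat 0⟩)
    (by decide +kernel)
theorem L00351 : Good (Phi V5.P V5.D 1 (-1)) ⟨5, 3, 3, 3, 2, 0, 2, 2, 3, 1⟩ :=
  leafYS_sound T5.ok_pm T5.Ypm.bz_eq (w := 208) (c := ⟨⟨.negSucc 1140, .negSucc 2, .ofNat 4, .ofNat 18, .ofNat 132, .negSucc 32⟩, ⟨.ofNat 451, .ofNat 6, .ofNat 135, .negSucc 23, .negSucc 59, .ofNat 18⟩, ⟨.ofNat 1113, .negSucc 34, .ofNat 13, .negSucc 23, .negSucc 259, .ofNat 90⟩, ⟨.negSucc 3377, .ofNat 18, .ofNat 1, .negSucc 30, .ofNat 390, .negSucc 94⟩, ⟨.negSucc 5, .negSucc 9, .negSucc 0, .negSucc 195, .negSucc 2, .ofNat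 14⟩, .ofNat 739, .ofNat 447, .ofNat 0, .ofNat 447, .ofNat 1282, .ofNat 0, .ofNat 192, .negSucc 99, .negSucc 121, .ofNat 0, .ofNat 128, .ofNat 53, .ofNat 0, .ofNat 0, .ofNat 657, .ofNat 2953, .ofNat 0, .ofNat 0, .ofNat 0, .ofNat 0, .ofNat 0, .ofNat 0, .ofNat 0, .ofNat 0, .ofNat 0, .ofNat 0, .ofNat 0, .ofNat 0, .ofNat 0, .ofNat 0, .ofNat 0, .ofNat 0⟩)
    (by decide +kernel)
theorem L00352 : Good (Phi V5.P V5.D 1 (-1)) ⟨5, 3, 3, 3, 2, 0, 2, 3, 3, 1⟩ :=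
  leafYS_sound T5.ok_pm T5.Ypm.bz_eq (w := 207) (c := ⟨⟨.negSucc 882, .negSucc 14, .negSucc 15, .negSucc 5, .ofNat 445, .negSucc 203⟩, ⟨.ofNat 363, .negSucc 0, .ofNat 109, .negSucc 12, .negSucc 206, .ofNat 83⟩, ⟨.ofNat 785, .ofNat 29, .ofNat 14, .ofNat 127, .negSucc 692, .ofNat 114⟩, ⟨.negSucc 2627, .negSucc 18, .negSucc 25, .negSucc 147, .ofNat 1341, .negSucc 588⟩, ⟨.negSucc 26, .ofNat 8, .ofNat 63, .negSucc 278, .ofNat 15, .ofNat 32⟩, .ofNat 747, .ofNat 461, .ofNat 0, .ofNat 461, .ofNat 1294, .ofNat 0, .ofNat 168, .negSucc 101, .negSucc 83, .ofNat 0, .ofNat 128, .ofNat 36, .ofNat 0, .ofNat 0, .ofNat 339, .ofNat 974, .ofNat 0, .ofNat 0, .ofNat 0, .ofNat 0, .ofNat 0, .ofNat 0, .ofNat 0, .ofNat 0, .ofNat 0, .ofNat 0, .ofNat 0, .ofNat 0, .ofNat 0, .ofNat 0, .ofNat 0, .ofNat 0⟩)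
    (by decide +kernel)
theorem L00353 : Good (Phi V5.P V5.D 1 (-1)) ⟨5, 3, 3, 3, 2, 0, 2, 2, 3, 2⟩ :=
  leafYS_sound T5.ok_pm T5.Ypm.bz_eq (w := 210) (c := ⟨⟨.negSucc 1135, .negSucc 8, .ofNat 2, .negSucc 13, .ofNat 93, .ofNat 75⟩, ⟨.ofNat 453, .ofNat 7, .ofNat 132, .negSucc 7, .negSucc 41, .negSucc 32⟩, ⟨.ofNat 1135, .ofNat 10, .ofNat 16, .ofNat 132, .negSucc 298, .negSucc 47⟩, ⟨.negSucc 3366, .ofNat 4, .negSucc 3, .negSucc 121, .ofNat 280, .ofNat 227⟩, ⟨.negSucc 13, .negSucc 2, .negSucc 0, .negSucc 170, .ofNat 13, .ofNat 16⟩, .ofNat 753, .ofNat 470, .ofNat 0, .ofNat 470, .ofNat 1303, .ofNat 0, .ofNat 197, .negSucc 102, .negSucc 88, .ofNat 0, .ofNat 128, .ofNat 39, .ofNat 0, .ofNat 0, .ofNat 893, .ofNat 10202, .ofNat 0, .ofNat 0, .ofNat 0, .ofNat 0, .ofNat 0, .ofNat 0, .ofNat 0, .ofNat 0, .ofNat 0, .ofNat 0, .ofNat 0,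 .ofNat 0, .ofNat 0, .ofNat 0, .ofNat 0, .ofNat 0⟩)
    (by decide +kernel)
theorem L00354 : Good (Phi V5.P V5.D 1 (-1)) ⟨5, 3, 3, 3, 2, 0, 2, 3, 3, 2⟩ :=
  leafYS_sound T5.ok_pm T5.Ypm.bz_eq (w := 207) (c := ⟨⟨.negSucc 935, .negSucc 14, .negSucc 3, .negSucc 98, .ofNat 110, .negSucc 26⟩, ⟨.ofNat 365, .ofNat 7, .ofNat 121, .ofNat 39, .negSucc 42, .ofNat 16⟩, ⟨.ofNat 725, .ofNat 14, .ofNat 34, .ofNat 349, .negSucc 452, .negSucc 44⟩, ⟨.negSucc 2796, .negSucc 13, .negSucc 5, .negSucc 336, .ofNat 364, .negSucc 64⟩, ⟨.negSucc 57, .ofNat 7, .ofNat 23, .negSucc 92, .ofNat 69, .ofNat 42⟩, .ofNat 923, .ofNat 690, .ofNat 0, .ofNat 690, .ofNat 1745, .ofNat 0, .ofNat 189, .negSucc 115, .negSucc 46, .ofNat 0, .ofNat 128, .ofNat 20, .ofNat 0, .ofNat 0, .ofNat 339, .ofNat 1261, .ofNat 0, .ofNat 0, .ofNat 0, .ofNat 0, .ofNat 0, .ofNat 0,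 .ofNat 0, .ofNat 0, .ofNat 0, .ofNat 0, .ofNat 0, .ofNat 0, .ofNat 0, .ofNat 0, .ofNat 0, .ofNat 0⟩)
    (by decide +kernel)
theorem L00355 : Good (Phi V5.P V5.D 1 (-1)) ⟨5, 3, 3, 3, 2, 0, 2, 2, 3, 3⟩ :=
  leafYS_sound T5.ok_pm T5.Ypm.bz_eq (w := 212) (c := ⟨⟨.negSucc 1024, .negSucc 15, .ofNat 5, .negSucc 31, .ofNat 52, .ofNat 51⟩, ⟨.ofNat 405, .ofNat 10, .ofNat 124, .ofNat 2, .negSucc 21, .negSucc 19⟩, ⟨.ofNat 1026, .ofNat 29, .ofNat 21, .ofNat 272, .negSucc 334, .negSucc 12⟩, ⟨.negSucc 3039, .negSucc 18, .ofNat 4, .negSucc 152, .ofNat 162, .ofNat 149⟩, ⟨.negSucc 11, .negSucc 0, .negSucc 0, .negSucc 137, .ofNat 17, .ofNat 9⟩, .ofNat 1246, .ofNat 1170, .ofNat 0, .ofNat 1170, .ofNat 2669, .ofNat 0, .ofNat 145, .negSucc 126, .negSucc 78, .ofNat 0, .ofNat 128, .ofNat 34, .ofNat 0, .ofNat 0, .ofNat 1258, .ofNat 22775, .ofNat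 0, .ofNat 0, .ofNat 0, .ofNat 0, .ofNat 99321843027686484419747870726659580666839040, .ofNat 0, .ofNat 0, .ofNat 0, .ofNat 103500710657330801652829257573513075789660160, .ofNat 0, .ofNat 0, .ofNat 0, .ofNat 0, .ofNat 0, .ofNat 0, .ofNat 0⟩)
    (by decide +kernel)
theorem L00356 : Good (Phi V5.P V5.D 1 (-1)) ⟨5, 3, 3, 3, 2, 0, 2, 3, 3, 3⟩ :=
  leafYS_sound T5.ok_pm T5.Ypm.bz_eq (w := 209) (c := ⟨⟨.negSucc 932, .negSucc 22, .ofNat 2, .negSucc 83, .negSucc 0, .negSucc 17⟩, ⟨.ofNat 365, .ofNat 15, .ofNat 120, .ofNat 31, .ofNat 9, .ofNat 13⟩, ⟨.ofNat 649, .ofNat 33, .ofNat 33, .ofNat 372, .negSucc 400, .negSucc 72⟩, ⟨.negSucc 2773, .negSucc 25, .negSucc 8, .negSucc 290, .ofNat 46, .negSucc 27⟩, ⟨.negSucc 16, .ofNat 38, .negSucc 24, .negSucc 110, .ofNat 103, .ofNat 57⟩, .ofNat 1417, .ofNat 1440, .ofNat 0, .ofNat 1440, .ofNat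 3130, .ofNat 0, .ofNat 137, .negSucc 127, .negSucc 41, .ofNat 0, .ofNat 125, .ofNat 17, .ofNat 0, .ofNat 0, .ofNat 492, .ofNat 2556, .ofNat 0, .ofNat 38030591647602995713277307180127306645504, .ofNat 0, .ofNat 0, .ofNat 0, .ofNat 2218305611455961646187992358173337934888960, .ofNat 0, .ofNat 0, .ofNat 0, .ofNat 3326815184611962193484233025979427414081536, .ofNat 0, .ofNat 0, .ofNat 0, .ofNat 0, .ofNat 0, .ofNat 0⟩)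
    (by decide +kernel)
theorem L00357 : Good (Phi V5.P V5.D 1 (-1)) ⟨4, 1, 3, 3, 2, 0, 0, 0, 1, 1⟩ :=
  leafYS_sound T5.ok_pm T5.Ypm.bz_eq (w := 196) (c := ⟨⟨.negSucc 966, .negSucc 18, .ofNat 0, .ofNat 0, .ofNat 0, .ofNat 0⟩, ⟨.ofNat 378, .ofNat 16, .ofNat 121, .ofNat 0, .ofNat 0, .ofNat 0⟩, ⟨.ofNat 269, .ofNat 19, .ofNat 0, .ofNat 0, .ofNat 0, .ofNat 0⟩, ⟨.negSucc 2885, .negSucc 8, .ofNat 0, .ofNat 1, .negSucc 0, .ofNat 1⟩, ⟨.ofNat 0, .ofNat 0, .ofNat 0, .ofNat 0, .ofNat 0, .ofNat 0⟩, .ofNat 194, .ofNat 26, .ofNat 0, .ofNat 26, .ofNat 225, .ofNat 0, .ofNat 140, .negSucc 25, .negSucc 102, .ofNat 0, .ofNat 128, .ofNat 17, .ofNat 0, .ofNat 0, .ofNat 300, .ofNat 103277, .ofNat 38332755876013412551399322935948111897427968, .ofNat 3457173780424476455917530343007970165522432, .ofNat 0, .ofNat 0, .ofNat 2453296376067454551718824081714944409600000000,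 .ofNat 227156783541752102872832997472008671162531840, .ofNat 0, .ofNat 0, .ofNat 2453296376067454551718824081714944409600000000, .ofNat 227157464728588012112963959464533626143637504, .ofNat 0, .ofNat 0, .ofNat 2453296376067454551718824081714944409600000000, .ofNat 227157351897705646275550604409366300046917632, .ofNat 0, .ofNat 0⟩)
    (by decide +kernel)
theorem L00358 : Good (Phi V5.P V5.D 1 (-1)) ⟨4, 1, 2, 1, 3, 2, 3, 0, 3, 0⟩ :=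
  leafYS_sound T5.ok_pm T5.Ypm.bz_eq (w := 218) (c := ⟨⟨.ofNat 717, .ofNat 10, .ofNat 51, .ofNat 129, .ofNat 84, .negSucc 1928⟩, ⟨.negSucc 300, .ofNat 37, .negSucc 100, .negSucc 74, .negSucc 16, .ofNat 761⟩, ⟨.negSucc 608, .negSucc 48, .negSucc 136, .negSucc 184, .negSucc 122, .ofNat 1631⟩, ⟨.ofNat 1997, .negSucc 16, .ofNat 58, .ofNat 391, .ofNat 335, .negSucc 5901⟩, ⟨.negSucc 490, .negSucc 59, .ofNat 52, .negSucc 95, .ofNat 217, .negSucc 162⟩, .ofNat 428, .ofNat 127, .ofNat 0, .ofNat 127, .ofNat 605, .ofNat 0, .ofNat 247, .negSucc 63, .negSucc 68, .ofNat 0, .ofNat 128, .ofNat 28, .ofNat 0, .ofNat 0, .ofNat 217, .ofNat 2936, .ofNat 0, .ofNat 0, .ofNat 0, .ofNat 0, .ofNat 0, .ofNat 0, .ofNat 0, .ofNat 0, .ofNat 0, .ofNat 0, .ofNat 0, .ofNat 0, .ofNat 806642762358774043655748694736967177674424320, .ofNat 0, .ofNat 0, .ofNat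 0⟩)
    (by decide +kernel)
theorem L00359 : Good (Phi V5.P V5.D 1 (-1)) ⟨4, 1, 2, 1, 3, 2, 3, 0, 3, 1⟩ :=
  leafYS_sound T5.ok_pm T5.Ypm.bz_eq (w := 220) (c := ⟨⟨.negSucc 1063, .negSucc 13, .ofNat 44, .ofNat 49, .ofNat 9, .negSucc 478⟩, ⟨.ofNat 219, .ofNat 16, .ofNat 286, .negSucc 34, .negSucc 2, .ofNat 222⟩, ⟨.ofNat 951, .ofNat 7, .negSucc 68, .negSucc 336, .negSucc 15, .ofNat 729⟩, ⟨.negSucc 3299, .ofNat 16, .ofNat 11, .ofNat 69, .ofNat 72, .negSucc 1384⟩, ⟨.negSucc 477, .ofNat 17, .ofNat 1, .negSucc 190, .ofNat 117, .ofNat 123⟩, .ofNat 429, .ofNat 129, .ofNat 0, .ofNat 129, .ofNat 605, .ofNat 0, .ofNat 222, .negSucc 61, .negSucc 59, .ofNat 0, .ofNat 128, .ofNat 30, .ofNat 0, .ofNat 0, .ofNat 275, .ofNat 7156, .ofNat 0, .ofNat 0, .ofNat 0, .ofNat 0, .ofNat 0, .ofNat 0, .ofNat 0, .ofNat 0, .ofNat 0, .ofNat 0, .ofNat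 0, .ofNat 0, .ofNat 19467046364601131978933189300719688151944134656, .ofNat 0, .ofNat 0, .ofNat 0⟩)
    (by decide +kernel)
theorem L00360 : Good (Phi V5.P V5.D 1 (-1)) ⟨4, 1, 2, 1, 3, 2, 3, 0, 2, 1⟩ :=
  out_sound (S := T5.ds_pm) T5.ok_pm (w := 23) (j := 1) (by decide +kernel)
theorem L00361 : Good (Phi V5.P V5.D 1 (-1)) ⟨4, 1, 2, 1, 3, 2, 3, 0, 1, 1⟩ :=
  out_sound (S := T5.ds_pm) T5.ok_pm (w := 21) (j := 1) (by decide +kernel)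
theorem L00362 : Good (Phi V5.P V5.D 1 (-1)) ⟨4, 1, 2, 1, 3, 2, 3, 1, 3, 0⟩ :=
  leafYS_sound T5.ok_pm T5.Ypm.bz_eq (w := 218) (c := ⟨⟨.ofNat 801, .ofNat 15, .ofNat 31, .ofNat 121, .negSucc 12, .negSucc 1951⟩, ⟨.negSucc 316, .ofNat 39, .negSucc 83, .negSucc 44, .negSucc 31, .ofNat 757⟩, ⟨.negSucc 797, .negSucc 44, .negSucc 90, .negSucc 143, .negSucc 35, .ofNat 1726⟩, ⟨.ofNat 2298, .ofNat 25, .ofNat 71, .ofNat 361, .ofNat 47, .negSucc 6009⟩, ⟨.negSucc 350, .negSucc 36, .ofNat 126, .negSucc 78, .ofNat 181, .negSucc 213⟩, .ofNat 428, .ofNat 126, .ofNat 0, .ofNat 126, .ofNat 604, .ofNat 0, .ofNat 224, .negSucc 61, .negSucc 99, .ofNat 0, .ofNat 128, .ofNat 39, .ofNat 0, .ofNat 0, .ofNat 279, .ofNat 2049, .ofNat 0, .ofNat 0, .ofNat 0, .ofNat 0, .ofNat 0, .ofNat 0, .ofNat 0, .ofNat 0, .ofNat 0, .ofNat 0, .ofNat 0, .ofNat 0, .ofNat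 0, .ofNat 0, .ofNat 0, .ofNat 0⟩)
    (by decide +kernel)
theorem L00363 : Good (Phi V5.P V5.D 1 (-1)) ⟨4, 1, 2, 1, 3, 2, 3, 1, 3, 1⟩ :=
  leafYS_sound T5.ok_pm T5.Ypm.bz_eq (w := 220) (c := ⟨⟨.negSucc 1118, .negSucc 10, .ofNat 30, .ofNat 19, .ofNat 39, .negSucc 182⟩, ⟨.ofNat 243, .ofNat 13, .ofNat 304, .negSucc 21, .negSucc 12, .ofNat 86⟩, ⟨.ofNat 932, .ofNat 3, .negSucc 44, .negSucc 244, .negSucc 18, .ofNat 455⟩, ⟨.negSucc 3445, .ofNat 32, .ofNat 16, .negSucc 0, .ofNat 127, .negSucc 510⟩, ⟨.negSucc 379, .ofNat 33, .ofNat 27, .negSucc 134, .ofNat 25, .ofNat 80⟩, .ofNat 704, .ofNat 382, .ofNat 0, .ofNat 382, .ofNat 1224, .ofNat 0, .ofNat 208, .negSucc 94, .negSucc 51, .ofNat 0, .ofNat 128, .ofNat 26, .ofNat 0, .ofNat 0, .ofNat 320, .ofNat 9478, .ofNat 0, .ofNat 0, .ofNat 0, .ofNat 0, .ofNat 0, .ofNat 0, .ofNat 0, .ofNat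 0, .ofNat 0, .ofNat 0, .ofNat 0, .ofNat 0, .ofNat 0, .ofNat 0, .ofNat 0, .ofNat 0⟩)
    (by decide +kernel)
theorem L00364 : Good (Phi V5.P V5.D 1 (-1)) ⟨4, 1, 2, 1, 3, 2, 3, 1, 2, 1⟩ :=
  leafYS_sound T5.ok_pm T5.Ypm.bz_eq (w := 217) (c := ⟨⟨.negSucc 1268, .negSucc 17, .ofNat 27, .ofNat 8, .ofNat 35, .ofNat 1⟩, ⟨.ofNat 303, .ofNat 19, .ofNat 312, .negSucc 14, .negSucc 7, .ofNat 0⟩, ⟨.ofNat 1356, .ofNat 20, .negSucc 24, .negSucc 190, .negSucc 56, .negSucc 0⟩, ⟨.negSucc 3845, .ofNat 11, .ofNat 0, .negSucc 33, .ofNat 110, .ofNat 2⟩, ⟨.negSucc 282, .ofNat 10, .ofNat 1, .negSucc 130, .ofNat 38, .ofNat 0⟩, .ofNat 194, .ofNat 23, .ofNat 0, .ofNat 23, .ofNat 225, .ofNat 0, .ofNat 129, .negSucc 26, .negSucc 67, .ofNat 0, .ofNat 128, .ofNat 34, .ofNat 0, .ofNat 0, .ofNat 275, .ofNat 25652, .ofNat 2108507588751894012399579369123625423383560192,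 .ofNat 0, .ofNat 0, .ofNat 0, .ofNat 5909700507731215836261672800078863605348433920, .ofNat 0, .ofNat 0, .ofNat 0, .ofNat 0, .ofNat 0, .ofNat 0, .ofNat 0, .ofNat 2728212657852802066469274082707679132132573184, .ofNat 0, .ofNat 0, .ofNat 0⟩)
    (by decide +kernel)
theorem L00365 : Good (Phi V5.P V5.D 1 (-1)) ⟨4, 1, 2, 1, 3, 2, 3, 1, 1, 1⟩ :=
  out_sound (S := T5.ds_pm) T5.ok_pm (w := 21) (j := 1) (by decide +kernel)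
theorem L00366 : Good (Phi V5.P V5.D 1 (-1)) ⟨4, 1, 2, 1, 3, 2, 2, 1, 3, 0⟩ :=
  leafYS_sound T5.ok_pm T5.Ypm.bz_eq (w := 214) (c := ⟨⟨.ofNat 754, .negSucc 33, .ofNat 34, .ofNat 94, .negSucc 86, .negSucc 1813⟩, ⟨.negSucc 356, .ofNat 70, .ofNat 53, .negSucc 80, .ofNat 30, .ofNat 696⟩, ⟨.negSucc 844, .ofNat 33, .negSucc 65, .negSucc 145, .ofNat 88, .ofNat 1689⟩, ⟨.ofNat 2182, .negSucc 171, .ofNat 69, .ofNat 290, .negSucc 243, .negSucc 5382⟩, ⟨.negSucc 217, .negSucc 221, .ofNat 68, .ofNat 6, .ofNat 115, .negSucc 36⟩, .ofNat 695, .ofNat 365, .ofNat 0, .ofNat 365, .ofNat 1211, .ofNat 0, .ofNat 192, .negSucc 93, .negSucc 93, .ofNat 0, .ofNat 128, .ofNat 39, .ofNat 0, .ofNat 0, .ofNat 279, .ofNat 1076, .ofNat 0, .ofNat 0, .ofNat 0, .ofNat 0, .ofNat 0, .ofNat 0, .ofNat 0, .ofNat 0, .ofNat 0, .ofNat 0, .ofNat 0, .ofNat 0, .ofNat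 0, .ofNat 0, .ofNat 0, .ofNat 0⟩)
    (by decide +kernel)
theorem L00367 : Good (Phi V5.P V5.D 1 (-1)) ⟨4, 1, 2, 1, 3, 2, 2, 1, 3, 1⟩ :=
  leafYS_sound T5.ok_pm T5.Ypm.bz_eq (w := 215) (c := ⟨⟨.negSucc 1096, .negSucc 25, .ofNat 25, .ofNat 17, .ofNat 70, .negSucc 149⟩, ⟨.ofNat 244, .ofNat 19, .ofNat 297, .negSucc 15, .negSucc 20, .ofNat 64⟩, ⟨.ofNat 885, .ofNat 28, .negSucc 20, .negSucc 172, .negSucc 62, .ofNat 400⟩, ⟨.negSucc 3350, .negSucc 15, .ofNat 7, .ofNat 4, .ofNat 222, .negSucc 436⟩, ⟨.negSucc 282, .ofNat 16, .ofNat 15, .negSucc 127, .ofNat 45, .ofNat 21⟩, .ofNat 698, .ofNat 371, .ofNat 0, .ofNat 371, .ofNat 1216, .ofNat 0, .ofNat 220, .negSucc 92, .negSucc 56, .ofNat 0, .ofNat 128, .ofNat 27, .ofNat 0, .ofNat 0, .ofNat 318, .ofNat 3362, .ofNat 0, .ofNat 0, .ofNat 0, .ofNat 0, .ofNat 0, .ofNat 0, .ofNat 0, .ofNat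 0, .ofNat 0, .ofNat 0, .ofNat 0, .ofNat 0, .ofNat 0, .ofNat 0, .ofNat 0, .ofNat 0⟩)
    (by decide +kernel)
theorem L00368 : Good (Phi V5.P V5.D 1 (-1)) ⟨4, 1, 2, 1, 3, 2, 2, 1, 4, 4⟩ :=
  leafYS_sound T5.ok_pm T5.Ypm.bz_eq (w := 224) (c := ⟨⟨.negSucc 1220, .negSucc 19, .ofNat 20, .negSucc 4, .ofNat 68, .ofNat 43⟩, ⟨.ofNat 306, .ofNat 18, .ofNat 292, .negSucc 6, .negSucc 23, .negSucc 16⟩, ⟨.ofNat 1230, .ofNat 29, .ofNat 3, .negSucc 78, .negSucc 105, .ofNat 76⟩, ⟨.negSucc 3717, .ofNat 0, .negSucc 1, .negSucc 57, .ofNat 220, .ofNat 139⟩, ⟨.negSucc 248, .ofNat 4, .ofNat 2, .negSucc 104, .ofNat 37, .ofNat 20⟩, .ofNat 428, .ofNat 128, .ofNat 0, .ofNat 128, .ofNat 605, .ofNat 0, .ofNat 146, .negSucc 57, .negSucc 115, .ofNat 0, .ofNat 128, .ofNat 53, .ofNat 0, .ofNat 0, .ofNat 897, .ofNat 31950, .ofNat 0, .ofNat 0, .ofNat 0,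 .ofNat 0, .ofNat 747389475264882219921880817638432415900762112, .ofNat 0, .ofNat 0, .ofNat 0, .ofNat 0, .ofNat 0, .ofNat 0, .ofNat 0, .ofNat 0, .ofNat 0, .ofNat 0, .ofNat 0⟩)
    (by decide +kernel)
theorem L00369 : Good (Phi V5.P V5.D 1 (-1)) ⟨4, 1, 2, 1, 3, 2, 2, 1, 4, 5⟩ :=
  leafYS_sound T5.ok_pm T5.Ypm.bz_eq (w := 223) (c := ⟨⟨.negSucc 1164, .negSucc 18, .ofNat 16, .negSucc 9, .ofNat 58, .ofNat 51⟩, ⟨.ofNat 287, .ofNat 19, .ofNat 279, .negSucc 2, .negSucc 16, .negSucc 19⟩, ⟨.ofNat 1288, .ofNat 21, .ofNat 34, .negSucc 21, .negSucc 131, .ofNat 95⟩, ⟨.negSucc 3543, .negSucc 6, .negSucc 7, .negSucc 65, .ofNat 188, .ofNat 165⟩, ⟨.negSucc 223, .negSucc 0, .ofNat 3, .negSucc 93, .ofNat 30, .ofNat 23⟩, .ofNat 194, .ofNat 23, .ofNat 0, .ofNat 23, .ofNat 225, .ofNat 0, .ofNat 129, .negSucc 24, .negSucc 111, .ofNat 0, .ofNat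 128, .ofNat 41, .ofNat 0, .ofNat 0, .ofNat 690, .ofNat 17770, .ofNat 2841674941476792148535927325474395818450485248, .ofNat 0, .ofNat 0, .ofNat 0, .ofNat 8688975227759020327842452159559048933752700928, .ofNat 0, .ofNat 0, .ofNat 0, .ofNat 0, .ofNat 0, .ofNat 0, .ofNat 0, .ofNat 0, .ofNat 0, .ofNat 0, .ofNat 0⟩)
    (by decide +kernel)
theorem L00370 : Good (Phi V5.P V5.D 1 (-1)) ⟨4, 1, 2, 1, 3, 2, 2, 1, 3, 3⟩ :=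
  leafYS_sound T5.ok_pm T5.Ypm.bz_eq (w := 223) (c := ⟨⟨.negSucc 1075, .negSucc 21, .ofNat 15, .negSucc 14, .ofNat 25, .ofNat 1⟩, ⟨.ofNat 260, .ofNat 19, .ofNat 272, .negSucc 0, .negSucc 6, .ofNat 0⟩, ⟨.ofNat 1245, .ofNat 34, .ofNat 78, .ofNat 58, .negSucc 71, .negSucc 0⟩, ⟨.negSucc 3273, .negSucc 13, .negSucc 15, .negSucc 79, .ofNat 100, .ofNat 2⟩, ⟨.negSucc 209, .negSucc 2, .ofNat 2, .negSucc 82, .ofNat 33, .ofNat 0⟩, .ofNat 194, .ofNat 23, .ofNat 0, .ofNat 23, .ofNat 225, .ofNat 0, .ofNat 258, .negSucc 24, .negSucc 67, .ofNat 0, .ofNat 128, .ofNat 20, .ofNat 0, .ofNat 0, .ofNat 534, .ofNat 663919, .ofNat 16323321142131338507720969813864301639141163008, .ofNat 0, .ofNat 0, .ofNat 0, .ofNat 82788620943992798600687287895513146195103973376, .ofNat 0, .ofNat 0, .ofNat 0, .ofNat 3583938437317411864242390887778683059376750592,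 .ofNat 0, .ofNat 0, .ofNat 0, .ofNat 18590237390442273307112020792890792202356129792, .ofNat 0, .ofNat 0, .ofNat 0⟩)
    (by decide +kernel)
theorem L00371 : Good (Phi V5.P V5.D 1 (-1)) ⟨4, 1, 2, 1, 3, 2, 2, 1, 1, 1⟩ :=
  out_sound (S := T5.ds_pm) T5.ok_pm (w := 20) (j := 1) (by decide +kernel)
theorem L00372 : Good (Phi V5.P V5.D 1 (-1)) ⟨4, 1, 2, 1, 4, 4, 1, 1, 3, 0⟩ :=
  leafYS_sound T5.ok_pm T5.Ypm.bz_eq (w := 223) (c := ⟨⟨.ofNat 4, .negSucc 83, .ofNat 25, .ofNat 6, .ofNat 28, .negSucc 770⟩, ⟨.negSucc 93, .ofNat 76, .ofNat 92, .ofNat 10, .negSucc 9, .ofNat 275⟩, ⟨.negSucc 196, .ofNat 126, .negSucc 43, .ofNat 8, .ofNat 105, .ofNat 664⟩, ⟨.negSucc 11, .negSucc 192, .ofNat 22, .negSucc 7, .negSucc 3, .negSucc 2270⟩, ⟨.negSucc 174, .ofNat 109, .ofNat 28, .negSucc 43, .negSucc 113, .negSucc 106⟩, .ofNat 694, .ofNat 364,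 .ofNat 0, .ofNat 364, .ofNat 1211, .ofNat 0, .ofNat 256, .negSucc 89, .negSucc 186, .ofNat 0, .ofNat 128, .ofNat 74, .ofNat 0, .ofNat 0, .ofNat 490, .ofNat 479, .ofNat 0, .ofNat 0, .ofNat 0, .ofNat 0, .ofNat 0, .ofNat 0, .ofNat 0, .ofNat 0, .ofNat 0, .ofNat 0, .ofNat 0, .ofNat 0, .ofNat 0, .ofNat 0, .ofNat 0, .ofNat 0⟩)
    (by decide +kernel)
theorem L00373 : Good (Phi V5.P V5.D 1 (-1)) ⟨4, 1, 2, 1, 4, 4, 1, 1, 3, 1⟩ :=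
  leafYS_sound T5.ok_pm T5.Ypm.bz_eq (w := 223) (c := ⟨⟨.negSucc 988, .negSucc 11, .negSucc 9, .ofNat 4, .ofNat 269, .negSucc 183⟩, ⟨.ofNat 234, .ofNat 1, .ofNat 263, .negSucc 17, .negSucc 91, .ofNat 81⟩, ⟨.ofNat 860, .ofNat 34, .ofNat 57, .ofNat 3, .negSucc 393, .ofNat 235⟩, ⟨.negSucc 3027, .ofNat 27, .negSucc 55, .ofNat 3, .ofNat 829, .negSucc 561⟩, ⟨.negSucc 247, .ofNat 33, .ofNat 66, .negSucc 50, .ofNat 65, .negSucc 27⟩, .ofNat 692, .ofNat 359, .ofNat 0, .ofNat 359, .ofNat 1206, .ofNat 0, .ofNat 164, .negSucc 88, .negSucc 58, .ofNat 0, .ofNat 128, .ofNat 24, .ofNat 0, .ofNat 0, .ofNat 274, .ofNat 504, .ofNat 0, .ofNat 0, .ofNat 0, .ofNat 0, .ofNat 0, .ofNat 22263984156413628668710491296472196553868574720, .ofNat 0, .ofNat 0, .ofNat 0, .ofNat 0, .ofNat 0, .ofNat 0, .ofNat 0, .ofNat 4359508963614640090755815435156076514938716160,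 .ofNat 0, .ofNat 0⟩)
    (by decide +kernel)
theorem L00374 : Good (Phi V5.P V5.D 1 (-1)) ⟨4, 1, 2, 1, 4, 4, 1, 1, 3, 2⟩ :=
  leafYS_sound T5.ok_pm T5.Ypm.bz_eq (w := 225) (c := ⟨⟨.negSucc 1107, .negSucc 25, .ofNat 14, .negSucc 17, .ofNat 56, .ofNat 52⟩, ⟨.ofNat 270, .ofNat 22, .ofNat 269, .ofNat 4, .negSucc 7, .negSucc 14⟩, ⟨.ofNat 1090, .ofNat 30, .ofNat 59, .ofNat 36, .negSucc 390, .ofNat 62⟩, ⟨.negSucc 3364, .negSucc 37, .ofNat 11, .negSucc 68, .ofNat 203, .ofNat 169⟩, ⟨.negSucc 216, .negSucc 13, .ofNat 23, .negSucc 42, .ofNat 104, .ofNat 47⟩, .ofNat 936, .ofNat 675, .ofNat 0, .ofNat 675, .ofNat 1899, .ofNat 0, .ofNat 200, .negSucc 107, .negSucc 35, .ofNat 0, .ofNat 128, .ofNat 15, .ofNat 0, .ofNat 0, .ofNat 355, .ofNat 1329, .ofNat 0, .ofNat 0, .ofNat 0, .ofNat 0, .ofNat 0, .ofNat 62453089593863194317279365650543609038474575872,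 .ofNat 0, .ofNat 0, .ofNat 0, .ofNat 36204958531835435234329789563427282480734928896, .ofNat 0, .ofNat 0, .ofNat 0, .ofNat 0, .ofNat 0, .ofNat 0⟩)
    (by decide +kernel)
theorem L00375 : Good (Phi V5.P V5.D 1 (-1)) ⟨4, 1, 2, 1, 4, 4, 2, 2, 3, 3⟩ :=
  leafYS_sound T5.ok_pm T5.Ypm.bz_eq (w := 232) (c := ⟨⟨.negSucc 1027, .negSucc 26, .ofNat 5, .negSucc 17, .ofNat 18, .ofNat 66⟩, ⟨.ofNat 254, .ofNat 20, .ofNat 260, .ofNat 2, .negSucc 0, .negSucc 23⟩, ⟨.ofNat 1124, .ofNat 24, .ofNat 126, .ofNat 103, .negSucc 210, .ofNat 83⟩, ⟨.negSucc 3117, .negSucc 35, .negSucc 24, .negSucc 63, .ofNat 71, .ofNat 204⟩, ⟨.negSucc 172, .negSucc 9, .negSucc 1, .negSucc 34, .ofNat 46, .ofNat 32⟩, .ofNat 697, .ofNat 370, .ofNat 0, .ofNat 370, .ofNat 1215, .ofNat 0, .ofNat 131, .negSucc 88, .negSucc 51, .ofNat 0, .ofNat 128, .ofNat 13, .ofNat 0,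 .ofNat 0, .ofNat 1021, .ofNat 18044, .ofNat 0, .ofNat 0, .ofNat 0, .ofNat 0, .ofNat 7714341132823474357209683979994521393260709019648, .ofNat 0, .ofNat 0, .ofNat 0, .ofNat 0, .ofNat 0, .ofNat 0, .ofNat 0, .ofNat 18136507440432679658179695570119548178661921259520, .ofNat 0, .ofNat 0, .ofNat 0⟩)
    (by decide +kernel)
theorem L00376 : Good (Phi V5.P V5.D 1 (-1)) ⟨4, 1, 2, 1, 4, 4, 3, 6, 3, 3⟩ :=
  leafYS_sound T5.ok_pm T5.Ypm.bz_eq (w := 236) (c := ⟨⟨.negSucc 987, .negSucc 30, .negSucc 7, .negSucc 29, .negSucc 32, .ofNat 33⟩, ⟨.ofNat 243, .ofNat 21, .ofNat 262, .ofNat 11, .ofNat 21, .negSucc 8⟩, ⟨.ofNat 876, .ofNat 37, .ofNat 156, .ofNat 145, .negSucc 137, .negSucc 24⟩, ⟨.negSucc 2988, .negSucc 48, .negSucc 49, .negSucc 99, .negSucc 65, .ofNat 120⟩, ⟨.negSucc 122, .negSucc 16, .negSucc 11, .negSucc 28, .ofNat 70, .ofNat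 61⟩, .ofNat 698, .ofNat 371, .ofNat 0, .ofNat 371, .ofNat 1214, .ofNat 0, .ofNat 173, .negSucc 88, .negSucc 49, .ofNat 0, .ofNat 128, .ofNat 3, .ofNat 0, .ofNat 0, .ofNat 1112, .ofNat 17716, .ofNat 0, .ofNat 0, .ofNat 0, .ofNat 0, .ofNat 5560121003471205077294528947133064859356611215360, .ofNat 388020716901997794934883033866869001337685671936, .ofNat 0, .ofNat 0, .ofNat 0, .ofNat 0, .ofNat 0, .ofNat 0, .ofNat 204440745086602014884602644510398987283843155755008, .ofNat 1738891614689178342311473568208568316670662148096, .ofNat 0, .ofNat 0⟩)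
    (by decide +kernel)
theorem L00377 : Good (Phi V5.P V5.D 1 (-1)) ⟨4, 1, 2, 1, 4, 4, 3, 7, 3, 3⟩ :=
  leafYS_sound T5.ok_pm T5.Ypm.bz_eq (w := 235) (c := ⟨⟨.negSucc 996, .negSucc 42, .negSucc 9, .negSucc 37, .negSucc 81, .negSucc 0⟩, ⟨.ofNat 254, .ofNat 24, .ofNat 264, .ofNat 14, .ofNat 48, .ofNat 7⟩, ⟨.ofNat 734, .ofNat 28, .ofNat 175, .ofNat 158, .negSucc 178, .negSucc 92⟩, ⟨.negSucc 2996, .negSucc 81, .negSucc 46, .negSucc 125, .negSucc 175, .ofNat 34⟩, ⟨.negSucc 40, .negSucc 22, .negSucc 28, .negSucc 25, .ofNat 143, .ofNat 83⟩, .ofNat 701, .ofNat 375, .ofNat 0, .ofNat 375, .ofNat 1218, .ofNat 0, .ofNat 210, .negSucc 89, .negSucc 56, .ofNat 0, .ofNat 128, .negSucc 2, .ofNat 0, .ofNat 0, .ofNat 1141, .ofNat 4896, .ofNat 0, .ofNat 113046615744058599733396180834660465910535421952, .ofNat 0, .ofNat 0, .ofNat 0, .ofNat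 3583051933589643501566816685460690375393146830848, .ofNat 0, .ofNat 0, .ofNat 0, .ofNat 2980336249153861720198297481321081964892138766336, .ofNat 0, .ofNat 0, .ofNat 0, .ofNat 0, .ofNat 0, .ofNat 0⟩)
    (by decide +kernel)
theorem L00378 : Good (Phi V5.P V5.D 1 (-1)) ⟨4, 1, 2, 1, 4, 4, 2, 2, 4, 8⟩ :=
  out_sound (S := T5.ds_pm) T5.ok_pm (w := 28) (j := 1) (by decide +kernel)
theorem L00379 : Good (Phi V5.P V5.D 1 (-1)) ⟨4, 1, 2, 1, 4, 4, 3, 6, 5, 16⟩ :=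
  out_sound (S := T5.ds_pm) T5.ok_pm (w := 31) (j := 1) (by decide +kernel)
theorem L00380 : Good (Phi V5.P V5.D 1 (-1)) ⟨4, 1, 2, 1, 5, 8, 5, 28, 7, 64⟩ :=
  out_sound (S := T5.ds_pm) T5.ok_pm (w := 39) (j := 1) (by decide +kernel)
theorem L00381 : Good (Phi V5.P V5.D 1 (-1)) ⟨4, 1, 2, 1, 5, 9, 6, 56, 7, 64⟩ :=
  out_sound (S := T5.ds_pm) T5.ok_pm (w := 40) (j := 1) (by decide +kernel)
theorem L00382 : Good (Phi V5.P V5.D 1 (-1)) ⟨4, 1, 2, 1, 5, 9, 6, 57, 7, 64⟩ :=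
  out_sound (S := T5.ds_pm) T5.ok_pm (w := 50) (j := 2) (by decide +kernel)
theorem L00383 : Good (Phi V5.P V5.D 1 (-1)) ⟨4, 1, 2, 1, 4, 4, 5, 28, 7, 65⟩ :=
  out_sound (S := T5.ds_pm) T5.ok_pm (w := 37) (j := 1) (by decide +kernel)
theorem L00384 : Good (Phi V5.P V5.D 1 (-1)) ⟨4, 1, 2, 1, 6, 16, 6, 58, 8, 128⟩ :=
  out_sound (S := T5.ds_pm) T5.ok_pm (w := 44) (j := 1) (by decide +kernel)
theorem L00385 : Good (Phi V5.P V5.D 1 (-1)) ⟨4, 1, 2, 1, 6, 17, 6, 58, 8, 128⟩ :=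
  out_sound (S := T5.ds_pm) T5.ok_pm (w := 54) (j := 2) (by decide +kernel)
theorem L00386 : Good (Phi V5.P V5.D 1 (-1)) ⟨4, 1, 2, 1, 5, 8, 6, 58, 8, 129⟩ :=
  out_sound (S := T5.ds_pm) T5.ok_pm (w := 42) (j := 1) (by decide +kernel)
theorem L00387 : Good (Phi V5.P V5.D 1 (-1)) ⟨4, 1, 2, 1, 5, 8, 6, 58, 7, 65⟩ :=
  out_sound (S := T5.ds_pm) T5.ok_pm (w := 40) (j := 1) (by decide +kernel)
theorem L00388 : Good (Phi V5.P V5.D 1 (-1)) ⟨4, 1, 2, 1, 5, 8, 6, 59, 6, 32⟩ :=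
  out_sound (S := T5.ds_pm) T5.ok_pm (w := 48) (j := 2) (by decide +kernel)
theorem L00389 : Good (Phi V5.P V5.D 1 (-1)) ⟨4, 1, 2, 1, 5, 9, 5, 29, 6, 32⟩ :=
  out_sound (S := T5.ds_pm) T5.ok_pm (w := 46) (j := 2) (by decide +kernel)
theorem L00390 : Good (Phi V5.P V5.D 1 (-1)) ⟨4, 1, 2, 1, 4, 4, 4, 14, 6, 33⟩ :=
  out_sound (S := T5.ds_pm) T5.ok_pm (w := 34) (j := 1) (by decide +kernel)
theorem L00391 : Good (Phi V5.P V5.D 1 (-1)) ⟨4, 1, 2, 1, 4, 4, 4, 15, 5, 16⟩ :=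
  out_sound (S := T5.ds_pm) T5.ok_pm (w := 40) (j := 2) (by decide +kernel)
theorem L00392 : Good (Phi V5.P V5.D 1 (-1)) ⟨4, 1, 2, 1, 4, 4, 2, 3, 5, 17⟩ :=
  out_sound (S := T5.ds_pm) T5.ok_pm (w := 30) (j := 1) (by decide +kernel)
theorem L00393 : Good (Phi V5.P V5.D 1 (-1)) ⟨4, 1, 2, 1, 4, 4, 1, 1, 4, 9⟩ :=
  out_sound (S := T5.ds_pm) T5.ok_pm (w := 27) (j := 1) (by decide +kernel)
theorem L00394 : Good (Phi V5.P V5.D 1 (-1)) ⟨4, 1, 2, 1, 4, 4, 1, 1, 3, 5⟩ :=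
  out_sound (S := T5.ds_pm) T5.ok_pm (w := 25) (j := 1) (by decide +kernel)
theorem L00395 : Good (Phi V5.P V5.D 1 (-1)) ⟨4, 1, 2, 1, 4, 4, 1, 1, 2, 3⟩ :=
  out_sound (S := T5.ds_pm) T5.ok_pm (w := 23) (j := 1) (by decide +kernel)
theorem L00396 : Good (Phi V5.P V5.D 1 (-1)) ⟨5, 2, 3, 2, 4, 5, 3, 4, 2, 0⟩ :=
  leafYS_sound T5.ok_pm T5.Ypm.bz_eq (w := 233) (c := ⟨⟨.negSucc 292, .ofNat 17, .negSucc 18, .ofNat 1, .ofNat 39, .negSucc 905⟩, ⟨.ofNat 3, .ofNat 14, .ofNat 137, .negSucc 2, .negSucc 7, .ofNat 282⟩, ⟨.ofNat 54, .negSucc 5, .ofNat 22, .negSucc 37, .negSucc 12, .ofNat 1039⟩, ⟨.negSucc 950, .ofNat 66, .negSucc 42, .negSucc 20, .ofNat 143, .negSucc 2727⟩, ⟨.negSucc 303, .negSucc 0, .ofNat 137, .negSucc 85, .ofNat 80, .negSucc 47⟩, .ofNat 849, .ofNat 509, .ofNat 0, .ofNat 509, .ofNat 1728, .ofNat 0, .ofNat 357, .negSucc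 92, .negSucc 94, .ofNat 0, .ofNat 128, .ofNat 37, .ofNat 0, .ofNat 0, .ofNat 416, .ofNat 578, .ofNat 0, .ofNat 0, .ofNat 0, .ofNat 0, .ofNat 0, .ofNat 0, .ofNat 0, .ofNat 0, .ofNat 0, .ofNat 0, .ofNat 0, .ofNat 0, .ofNat 0, .ofNat 0, .ofNat 0, .ofNat 0⟩)
    (by decide +kernel)
theorem L00397 : Good (Phi V5.P V5.D 1 (-1)) ⟨5, 2, 3, 2, 4, 5, 3, 4, 3, 2⟩ :=
  leafYS_sound T5.ok_pm T5.Ypm.bz_eq (w := 243) (c := ⟨⟨.negSucc 1142, .negSucc 11, .ofNat 8, .negSucc 9, .ofNat 23, .ofNat 82⟩, ⟨.ofNat 275, .ofNat 10, .ofNat 138, .negSucc 1, .negSucc 4, .negSucc 21⟩, ⟨.ofNat 1047, .ofNat 20, .ofNat 30, .ofNat 15, .negSucc 46, .ofNat 158⟩, ⟨.negSucc 3478, .negSucc 13, .negSucc 8, .negSucc 41, .ofNat 72, .ofNat 254⟩, ⟨.negSucc 263, .ofNat 1, .negSucc 1, .negSucc 37, .ofNat 15, .ofNat 45⟩, .ofNat 959, .ofNat 676, .ofNat 0, .ofNat 676,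 .ofNat 2075, .ofNat 0, .ofNat 222, .negSucc 98, .negSucc 52, .ofNat 0, .ofNat 128, .ofNat 22, .ofNat 0, .ofNat 0, .ofNat 576, .ofNat 22047, .ofNat 0, .ofNat 0, .ofNat 0, .ofNat 0, .ofNat 0, .ofNat 0, .ofNat 0, .ofNat 0, .ofNat 0, .ofNat 0, .ofNat 0, .ofNat 0, .ofNat 0, .ofNat 0, .ofNat 0, .ofNat 0⟩)
    (by decide +kernel)
theorem L00398 : Good (Phi V5.P V5.D 1 (-1)) ⟨5, 2, 3, 2, 4, 5, 3, 4, 3, 3⟩ :=
  leafYS_sound T5.ok_pm T5.Ypm.bz_eq (w := 246) (c := ⟨⟨.negSucc 1053, .negSucc 10, .ofNat 5, .negSucc 10, .ofNat 13, .ofNat 97⟩, ⟨.ofNat 255, .ofNat 9, .ofNat 132, .negSucc 0, .negSucc 2, .negSucc 26⟩, ⟨.ofNat 1174, .ofNat 18, .ofNat 59, .ofNat 71, .negSucc 71, .ofNat 195⟩, ⟨.negSucc 3202, .negSucc 12, .negSucc 11, .negSucc 43, .ofNat 47, .ofNat 299⟩, ⟨.negSucc 217, .negSucc 2, .ofNat 0, .negSucc 38, .ofNat 22, .ofNat 41⟩,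 .ofNat 421, .ofNat 104, .ofNat 0, .ofNat 104, .ofNat 595, .ofNat 0, .ofNat 226, .negSucc 46, .negSucc 73, .ofNat 0, .ofNat 128, .ofNat 16, .ofNat 0, .ofNat 0, .ofNat 1192, .ofNat 95849, .ofNat 0, .ofNat 0, .ofNat 0, .ofNat 0, .ofNat 30469616062203970048385268877574627961581425311875072, .ofNat 0, .ofNat 0, .ofNat 0, .ofNat 13394487300049958060217839214872597139911218869305344, .ofNat 0, .ofNat 0, .ofNat 0, .ofNat 120057755974355816365708831386914495203773098324131840, .ofNat 0, .ofNat 0, .ofNat 0⟩)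
    (by decide +kernel)
theorem L00399 : Good (Phi V5.P V5.D 1 (-1)) ⟨5, 2, 3, 2, 4, 5, 3, 4, 1, 1⟩ :=
  out_sound (S := T5.ds_pm) T5.ok_pm (w := 23) (j := 1) (by decide +kernel)
theorem L00400 : Good (Phi V5.P V5.D 1 (-1)) ⟨5, 3, 3, 2, 4, 5, 3, 4, 2, 0⟩ :=
  leafYS_sound T5.ok_pm T5.Ypm.bz_eq (w := 233) (c := ⟨⟨.negSucc 277, .ofNat 1, .ofNat 5, .ofNat 5, .ofNat 37, .negSucc 940⟩, ⟨.ofNat 12, .ofNat 0, .ofNat 135, .negSucc 10, .negSucc 6, .ofNat 297⟩, ⟨.ofNat 30, .ofNat 6, .negSucc 0, .negSucc 22, .negSucc 6, .ofNat 1083⟩, ⟨.negSucc 852, .negSucc 18, .negSucc 3, .negSucc 26, .ofNat 126, .negSucc 2806⟩, ⟨.negSucc 159, .negSucc 141, .ofNat 30, .negSucc 118, .ofNat 62, .negSucc 31⟩, .ofNat 855, .ofNat 535, .ofNat 0, .ofNat 535, .ofNat 1769, .ofNat 0, .ofNat 365, .negSucc 96, .negSucc 111, .ofNat 0, .ofNat 128, .ofNat 44,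 .ofNat 0, .ofNat 0, .ofNat 470, .ofNat 577, .ofNat 0, .ofNat 0, .ofNat 0, .ofNat 0, .ofNat 0, .ofNat 0, .ofNat 0, .ofNat 0, .ofNat 0, .ofNat 0, .ofNat 0, .ofNat 0, .ofNat 0, .ofNat 0, .ofNat 0, .ofNat 0⟩)
    (by decide +kernel)
theorem L00401 : Good (Phi V5.P V5.D 1 (-1)) ⟨5, 3, 3, 2, 4, 5, 3, 4, 3, 2⟩ :=
  leafYS_sound T5.ok_pm T5.Ypm.bz_eq (w := 243) (c := ⟨⟨.negSucc 1155, .negSucc 13, .ofNat 10, .negSucc 9, .ofNat 21, .ofNat 85⟩, ⟨.ofNat 286, .ofNat 10, .ofNat 137, .negSucc 1, .negSucc 4, .negSucc 22⟩, ⟨.ofNat 1069, .ofNat 18, .ofNat 28, .ofNat 14, .negSucc 46, .ofNat 154⟩, ⟨.negSucc 3495, .negSucc 9, .negSucc 2, .negSucc 38, .ofNat 64, .ofNat 259⟩, ⟨.negSucc 259, .ofNat 3, .negSucc 2, .negSucc 34, .ofNat 7, .ofNat 37⟩, .ofNat 1014, .ofNat 774, .ofNat 0, .ofNat 774, .ofNat 2307, .ofNat 0, .ofNat 185, .negSucc 100,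 .negSucc 50, .ofNat 0, .ofNat 128, .ofNat 21, .ofNat 0, .ofNat 0, .ofNat 575, .ofNat 20922, .ofNat 0, .ofNat 0, .ofNat 0, .ofNat 0, .ofNat 0, .ofNat 0, .ofNat 0, .ofNat 0, .ofNat 0, .ofNat 0, .ofNat 0, .ofNat 0, .ofNat 0, .ofNat 0, .ofNat 0, .ofNat 0⟩)
    (by decide +kernel)
theorem L00402 : Good (Phi V5.P V5.D 1 (-1)) ⟨5, 3, 3, 2, 4, 5, 3, 4, 3, 3⟩ :=
  leafYS_sound T5.ok_pm T5.Ypm.bz_eq (w := 245) (c := ⟨⟨.negSucc 1063, .negSucc 11, .ofNat 6, .negSucc 10, .ofNat 12, .ofNat 96⟩, ⟨.ofNat 263, .ofNat 9, .ofNat 133, .negSucc 0, .negSucc 1, .negSucc 28⟩, ⟨.ofNat 1190, .ofNat 17, .ofNat 62, .ofNat 67, .negSucc 68, .ofNat 203⟩, ⟨.negSucc 3211, .negSucc 9, .negSucc 8, .negSucc 45, .ofNat 43, .ofNat 292⟩, ⟨.negSucc 218, .negSucc 3, .ofNat 0, .negSucc 40, .ofNat 20, .ofNat 35⟩, .ofNat 420, .ofNat 108, .ofNat 0, .ofNat 108, .ofNat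 598, .ofNat 0, .ofNat 173, .negSucc 48, .negSucc 80, .ofNat 0, .ofNat 128, .ofNat 18, .ofNat 0, .ofNat 0, .ofNat 1277, .ofNat 82030, .ofNat 0, .ofNat 0, .ofNat 0, .ofNat 0, .ofNat 22891858807702062088382218880619128744448710806601728, .ofNat 0, .ofNat 0, .ofNat 0, .ofNat 8772710722648994069382251665538360287081569273774080, .ofNat 0, .ofNat 0, .ofNat 0, .ofNat 104572471392526355483127171893608206778606657575321600, .ofNat 0, .ofNat 0, .ofNat 0⟩)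
    (by decide +kernel)
theorem L00403 : Good (Phi V5.P V5.D 1 (-1)) ⟨5, 3, 3, 2, 4, 5, 3, 4, 1, 1⟩ :=
  out_sound (S := T5.ds_pm) T5.ok_pm (w := 23) (j := 1) (by decide +kernel)
theorem L00404 : Good (Phi V5.P V5.D 1 (-1)) ⟨4, 1, 3, 2, 4, 5, 3, 5, 2, 0⟩ :=
  leafYS_sound T5.ok_pm T5.Ypm.bz_eq (w := 229) (c := ⟨⟨.negSucc 229, .negSucc 91, .negSucc 74, .negSucc 2, .ofNat 81, .negSucc 918⟩, ⟨.negSucc 12, .ofNat 36, .ofNat 144, .ofNat 13, .negSucc 31, .ofNat 295⟩, ⟨.ofNat 68, .ofNat 75, .ofNat 69, .negSucc 10, .negSucc 48, .ofNat 967⟩, ⟨.negSucc 697, .negSucc 223, .negSucc 238, .negSucc 8, .ofNat 212, .negSucc 2807⟩, ⟨.negSucc 50, .ofNat 9, .ofNat 33, .ofNat 2, .negSucc 84, .negSucc 229⟩, .ofNat 860, .ofNat 538, .ofNat 0, .ofNat 538, .ofNat 1765, .ofNat 0, .ofNat 233, .negSucc 96, .negSucc 99, .ofNat 0, .ofNat 128, .ofNat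 39, .ofNat 0, .ofNat 0, .ofNat 375, .ofNat 555, .ofNat 0, .ofNat 0, .ofNat 0, .ofNat 0, .ofNat 0, .ofNat 0, .ofNat 0, .ofNat 0, .ofNat 0, .ofNat 0, .ofNat 0, .ofNat 0, .ofNat 0, .ofNat 0, .ofNat 0, .ofNat 0⟩)
    (by decide +kernel)
theorem L00405 : Good (Phi V5.P V5.D 1 (-1)) ⟨4, 1, 3, 2, 4, 5, 3, 5, 2, 1⟩ :=
  leafYS_sound T5.ok_pm T5.Ypm.bz_eq (w := 231) (c := ⟨⟨.negSucc 1099, .negSucc 25, .ofNat 5, .negSucc 18, .ofNat 7, .ofNat 132⟩, ⟨.ofNat 265, .ofNat 20, .ofNat 134, .ofNat 2, .ofNat 1, .negSucc 32⟩, ⟨.ofNat 991, .ofNat 45, .ofNat 41, .ofNat 55, .negSucc 52, .ofNat 240⟩, ⟨.negSucc 3349, .negSucc 32, .negSucc 11, .negSucc 67, .ofNat 31, .ofNat 423⟩, ⟨.negSucc 243, .negSucc 13, .negSucc 6, .negSucc 34, .ofNat 28, .ofNat 105⟩, .ofNat 855, .ofNat 527, .ofNat 0, .ofNat 527, .ofNat 1753, .ofNat 0, .ofNat 215, .negSucc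 92, .negSucc 51, .ofNat 0, .ofNat 128, .ofNat 15, .ofNat 0, .ofNat 0, .ofNat 820, .ofNat 2031, .ofNat 0, .ofNat 0, .ofNat 0, .ofNat 0, .ofNat 0, .ofNat 0, .ofNat 0, .ofNat 0, .ofNat 0, .ofNat 0, .ofNat 0, .ofNat 0, .ofNat 83552164639750160222366235105566753827000019845120, .ofNat 0, .ofNat 0, .ofNat 0⟩)
    (by decide +kernel)
theorem L00406 : Good (Phi V5.P V5.D 1 (-1)) ⟨4, 1, 3, 2, 4, 5, 3, 5, 1, 1⟩ :=
  out_sound (S := T5.ds_pm) T5.ok_pm (w := 23) (j := 1) (by decide +kernel)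
theorem L00407 : Good (Phi V5.P V5.D 1 (-1)) ⟨4, 1, 3, 3, 4, 5, 2, 2, 2, 0⟩ :=
  leafYS_sound T5.ok_pm T5.Ypm.bz_eq (w := 225) (c := ⟨⟨.negSucc 267, .negSucc 21, .ofNat 6, .ofNat 7, .ofNat 67, .negSucc 918⟩, ⟨.ofNat 36, .ofNat 16, .ofNat 132, .negSucc 10, .negSucc 22, .ofNat 411⟩, ⟨.negSucc 6, .ofNat 43, .negSucc 3, .negSucc 28, .ofNat 3, .ofNat 1080⟩, ⟨.negSucc 819, .ofNat 0, .ofNat 12, .ofNat 24, .ofNat 174, .negSucc 2864⟩, ⟨.negSucc 247, .ofNat 52, .ofNat 48, .ofNat 36, .ofNat 21, .negSucc 122⟩, .ofNat 745, .ofNat 454, .ofNat 0, .ofNat 454, .ofNat 1286, .ofNat 0, .ofNat 261, .negSucc 105, .negSucc 119, .ofNat 0, .ofNat 128, .ofNat 57, .ofNat 0, .ofNat 0, .ofNat 407, .ofNat 461, .ofNat 0, .ofNat 0, .ofNat 0, .ofNat 0, .ofNat 0, .ofNat 0, .ofNat 0, .ofNat 0, .ofNat 0, .ofNat 0, .ofNat 0, .ofNat 0, .ofNat 0, .ofNat 0,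 .ofNat 0, .ofNat 0⟩)
    (by decide +kernel)
theorem L00408 : Good (Phi V5.P V5.D 1 (-1)) ⟨4, 1, 3, 3, 4, 5, 2, 2, 3, 2⟩ :=
  leafYS_sound T5.ok_pm T5.Ypm.bz_eq (w := 233) (c := ⟨⟨.negSucc 1117, .negSucc 22, .ofNat 5, .negSucc 15, .ofNat 25, .ofNat 69⟩, ⟨.ofNat 414, .ofNat 19, .ofNat 139, .ofNat 4, .negSucc 8, .negSucc 27⟩, ⟨.ofNat 1025, .ofNat 37, .ofNat 41, .ofNat 49, .negSucc 53, .ofNat 180⟩, ⟨.negSucc 3431, .negSucc 19, .negSucc 14, .negSucc 59, .ofNat 81, .ofNat 215⟩, ⟨.negSucc 246, .negSucc 6, .negSucc 1, .negSucc 30, .ofNat 19, .ofNat 33⟩, .ofNat 1389, .ofNat 1387, .ofNat 0, .ofNat 1387, .ofNat 3041, .ofNat 0, .ofNat 149, .negSucc 127, .negSucc 32, .ofNat 0, .ofNat 124, .ofNat 16, .ofNat 0, .ofNat 0, .ofNat 348, .ofNat 5992, .ofNat 0, .ofNat 0, .ofNat 0, .ofNat 0, .ofNat 0, .ofNat 0, .ofNat 0, .ofNat 0, .ofNat 0,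 .ofNat 0, .ofNat 0, .ofNat 0, .ofNat 0, .ofNat 0, .ofNat 0, .ofNat 0⟩)
    (by decide +kernel)
theorem L00409 : Good (Phi V5.P V5.D 1 (-1)) ⟨4, 1, 3, 3, 4, 5, 2, 2, 3, 3⟩ :=
  leafYS_sound T5.ok_pm T5.Ypm.bz_eq (w := 235) (c := ⟨⟨.negSucc 1041, .negSucc 21, .ofNat 5, .negSucc 11, .ofNat 6, .ofNat 77⟩, ⟨.ofNat 387, .ofNat 17, .ofNat 132, .ofNat 2, .ofNat 2, .negSucc 33⟩, ⟨.ofNat 1196, .ofNat 17, .ofNat 85, .ofNat 108, .negSucc 115, .ofNat 260⟩, ⟨.negSucc 3194, .negSucc 18, .negSucc 8, .negSucc 52, .ofNat 40, .ofNat 237⟩, ⟨.negSucc 212, .negSucc 10, .negSucc 2, .negSucc 38, .ofNat 49, .ofNat 21⟩, .ofNat 745, .ofNat 454, .ofNat 0, .ofNat 454, .ofNat 1286, .ofNat 0, .ofNat 158, .negSucc 100, .negSucc 50, .ofNat 0, .ofNat 128, .ofNat 12, .ofNat 0, .ofNat 0, .ofNat 1652, .ofNat 19075, .ofNat 0, .ofNat 0, .ofNat 0, .ofNat 0,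 .ofNat 49772818299358421651316176988661746526518411001856, .ofNat 0, .ofNat 0, .ofNat 0, .ofNat 0, .ofNat 0, .ofNat 0, .ofNat 0, .ofNat 742548948923668816651268241284065251561213821714432, .ofNat 0, .ofNat 0, .ofNat 0⟩)
    (by decide +kernel)
theorem L00410 : Good (Phi V5.P V5.D 1 (-1)) ⟨4, 1, 3, 3, 4, 5, 2, 2, 1, 1⟩ :=
  out_sound (S := T5.ds_pm) T5.ok_pm (w := 22) (j := 1) (by decide +kernel)
theorem L00411 : Good (Phi V5.P V5.D 1 (-1)) ⟨4, 1, 4, 4, 4, 5, 2, 3, 2, 0⟩ :=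
  leafYS_sound T5.ok_pm T5.Ypm.bz_eq (w := 229) (c := ⟨⟨.negSucc 369, .ofNat 14, .ofNat 4, .negSucc 9, .ofNat 171, .negSucc 821⟩, ⟨.ofNat 45, .ofNat 1, .ofNat 52, .ofNat 10, .negSucc 42, .ofNat 247⟩, ⟨.ofNat 235, .ofNat 37, .negSucc 7, .ofNat 75, .negSucc 118, .ofNat 733⟩, ⟨.negSucc 1189, .ofNat 83, .ofNat 16, .negSucc 36, .ofNat 526, .negSucc 2441⟩, ⟨.negSucc 294, .ofNat 27, .ofNat 59, .negSucc 46, .ofNat 69, .ofNat 6⟩, .ofNat 822, .ofNat 461, .ofNat 0, .ofNat 461, .ofNat 1694, .ofNat 0, .ofNat 370, .negSucc 85, .negSucc 179, .ofNat 0, .ofNat 128, .ofNat 62, .ofNat 0, .ofNat 0, .ofNat 607, .ofNat 1198, .ofNat 0, .ofNat 0, .ofNat 0, .ofNat 0, .ofNat 0, .ofNat 0, .ofNat 0, .ofNat 0, .ofNat 0, .ofNat 165371211227298067260071073422187482158154645504, .ofNat 0, .ofNat 0, .ofNat 0, .ofNat 161439538413555515405322297650985689417055731712,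 .ofNat 0, .ofNat 0⟩)
    (by decide +kernel)
theorem L00412 : Good (Phi V5.P V5.D 1 (-1)) ⟨4, 1, 4, 4, 4, 5, 2, 3, 3, 2⟩ :=
  leafYS_sound T5.ok_pm T5.Ypm.bz_eq (w := 235) (c := ⟨⟨.negSucc 1039, .negSucc 44, .negSucc 6, .negSucc 38, .negSucc 25, .ofNat 14⟩, ⟨.ofNat 247, .ofNat 22, .ofNat 71, .ofNat 8, .ofNat 26, .ofNat 5⟩, ⟨.ofNat 939, .ofNat 60, .ofNat 24, .ofNat 95, .negSucc 144, .ofNat 56⟩, ⟨.negSucc 3169, .negSucc 88, .negSucc 28, .negSucc 123, .negSucc 29, .ofNat 63⟩, ⟨.negSucc 230, .negSucc 26, .ofNat 1, .negSucc 31, .ofNat 152, .ofNat 76⟩, .ofNat 644, .ofNat 259, .ofNat 0, .ofNat 259, .ofNat 1135, .ofNat 0, .ofNat 315, .negSucc 69, .negSucc 46, .ofNat 0, .ofNat 128, .ofNat 11, .ofNat 0, .ofNat 0, .ofNat 435, .ofNat 2488, .ofNat 0, .ofNat 0, .ofNat 0, .ofNat 0, .ofNat 0, .ofNat 44258714566434633984643860730861081293515810406400,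 .ofNat 0, .ofNat 0, .ofNat 0, .ofNat 17128054784900339601438582860055791051130791788544, .ofNat 0, .ofNat 0, .ofNat 0, .ofNat 0, .ofNat 0, .ofNat 0⟩)
    (by decide +kernel)
theorem L00413 : Good (Phi V5.P V5.D 1 (-1)) ⟨4, 1, 4, 4, 4, 5, 2, 3, 3, 3⟩ :=
  leafYS_sound T5.ok_pm T5.Ypm.bz_eq (w := 236) (c := ⟨⟨.negSucc 1010, .negSucc 36, .negSucc 1, .negSucc 30, .negSucc 93, .ofNat 45⟩, ⟨.ofNat 249, .ofNat 21, .ofNat 66, .ofNat 5, .ofNat 49, .negSucc 6⟩, ⟨.ofNat 1002, .ofNat 27, .ofNat 43, .ofNat 150, .negSucc 273, .negSucc 8⟩, ⟨.negSucc 3063, .negSucc 68, .negSucc 14, .negSucc 101, .negSucc 220, .ofNat 154⟩, ⟨.negSucc 155, .negSucc 19, .negSucc 6, .negSucc 34, .ofNat 183, .ofNat 57⟩, .ofNat 827, .ofNat 470, .ofNat 0, .ofNat 470, .ofNat 1701, .ofNat 0, .ofNat 236, .negSucc 84, .negSucc 41, .ofNat 0, .ofNat 128, .negSucc 13,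 .ofNat 0, .ofNat 0, .ofNat 1646, .ofNat 2491, .ofNat 0, .ofNat 312576627185687042376859213662113949701854199808, .ofNat 0, .ofNat 0, .ofNat 0, .ofNat 46030678178078481066996999150909573709575722369024, .ofNat 0, .ofNat 0, .ofNat 0, .ofNat 36214383705010036560859417961781707249566928076800, .ofNat 0, .ofNat 0, .ofNat 0, .ofNat 138105608142512538357999351944489453311069075275776, .ofNat 0, .ofNat 0⟩)
    (by decide +kernel)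
theorem L00414 : Good (Phi V5.P V5.D 1 (-1)) ⟨4, 1, 4, 4, 4, 5, 4, 12, 5, 16⟩ :=
  out_sound (S := T5.ds_pm) T5.ok_pm (w := 32) (j := 1) (by decide +kernel)
theorem L00415 : Good (Phi V5.P V5.D 1 (-1)) ⟨4, 1, 4, 4, 4, 5, 5, 26, 6, 32⟩ :=
  out_sound (S := T5.ds_pm) T5.ok_pm (w := 35) (j := 1) (by decide +kernel)
theorem L00416 : Good (Phi V5.P V5.D 1 (-1)) ⟨4, 1, 4, 4, 5, 10, 5, 27, 6, 32⟩ :=
  out_sound (S := T5.ds_pm) T5.ok_pm (w := 37) (j := 1) (by decide +kernel)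
theorem L00417 : Good (Phi V5.P V5.D 1 (-1)) ⟨4, 1, 4, 4, 5, 11, 5, 27, 6, 32⟩ :=
  out_sound (S := T5.ds_pm) T5.ok_pm (w := 46) (j := 2) (by decide +kernel)
theorem L00418 : Good (Phi V5.P V5.D 1 (-1)) ⟨4, 1, 4, 4, 4, 5, 4, 13, 6, 33⟩ :=
  out_sound (S := T5.ds_pm) T5.ok_pm (w := 34) (j := 1) (by decide +kernel)
theorem L00419 : Good (Phi V5.P V5.D 1 (-1)) ⟨4, 1, 4, 4, 4, 5, 3, 6, 5, 17⟩ :=
  out_sound (S := T5.ds_pm) T5.ok_pm (w := 31) (j := 1) (by decide +kernel)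
theorem L00420 : Good (Phi V5.P V5.D 1 (-1)) ⟨4, 1, 4, 4, 4, 5, 3, 7, 4, 8⟩ :=
  out_sound (S := T5.ds_pm) T5.ok_pm (w := 36) (j := 2) (by decide +kernel)
theorem L00421 : Good (Phi V5.P V5.D 1 (-1)) ⟨4, 1, 4, 4, 4, 5, 2, 3, 4, 9⟩ :=
  out_sound (S := T5.ds_pm) T5.ok_pm (w := 28) (j := 1) (by decide +kernel)
theorem L00422 : Good (Phi V5.P V5.D 1 (-1)) ⟨4, 1, 4, 4, 4, 5, 2, 3, 3, 5⟩ :=
  out_sound (S := T5.ds_pm) T5.ok_pm (w := 26) (j := 1) (by decide +kernel)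
theorem L00423 : Good (Phi V5.P V5.D 1 (-1)) ⟨4, 1, 4, 4, 4, 5, 2, 3, 2, 3⟩ :=
  out_sound (S := T5.ds_pm) T5.ok_pm (w := 24) (j := 1) (by decide +kernel)
theorem L00424 : Good (Phi V5.P V5.D 1 (-1)) ⟨4, 1, 4, 5, 4, 5, 2, 3, 2, 0⟩ :=
  leafYS_sound T5.ok_pm T5.Ypm.bz_eq (w := 229) (c := ⟨⟨.negSucc 339, .ofNat 18, .ofNat 19, .ofNat 41, .ofNat 139, .negSucc 904⟩, ⟨.ofNat 57, .negSucc 0, .ofNat 56, .negSucc 13, .negSucc 34, .ofNat 327⟩, ⟨.ofNat 231, .ofNat 5, .negSucc 36, .negSucc 8, .negSucc 52, .ofNat 815⟩, ⟨.negSucc 1149, .ofNat 113, .ofNat 103, .ofNat 144, .ofNat 422, .negSucc 2698⟩, ⟨.negSucc 347, .ofNat 69, .ofNat 163, .ofNat 52, .ofNat 38, .negSucc 78⟩, .ofNat 1068, .ofNat 863, .ofNat 0, .ofNat 863, .ofNat 2397, .ofNat 0, .ofNat 202, .negSucc 107, .negSucc 122, .ofNat 0, .ofNat 128, .ofNat 49, .ofNat 0, .ofNat 0, .ofNat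 427, .ofNat 645, .ofNat 0, .ofNat 0, .ofNat 0, .ofNat 0, .ofNat 0, .ofNat 0, .ofNat 0, .ofNat 0, .ofNat 0, .ofNat 0, .ofNat 0, .ofNat 0, .ofNat 0, .ofNat 0, .ofNat 0, .ofNat 0⟩)
    (by decide +kernel)
theorem L00425 : Good (Phi V5.P V5.D 1 (-1)) ⟨4, 1, 4, 5, 4, 5, 2, 3, 3, 2⟩ :=
  leafYS_sound T5.ok_pm T5.Ypm.bz_eq (w := 235) (c := ⟨⟨.negSucc 1037, .negSucc 34, .ofNat 2, .negSucc 38, .negSucc 54, .ofNat 14⟩, ⟨.ofNat 314, .ofNat 21, .ofNat 68, .ofNat 12, .ofNat 36, .ofNat 3⟩, ⟨.ofNat 933, .ofNat 63, .ofNat 28, .ofNat 111, .negSucc 123, .ofNat 82⟩, ⟨.negSucc 3176, .negSucc 60, .negSucc 6, .negSucc 127, .negSucc 110, .ofNat 70⟩, ⟨.negSucc 226, .negSucc 26, .negSucc 4, .negSucc 28, .ofNat 137, .ofNat 77⟩, .ofNat 1089, .ofNat 898, .ofNat 0, .ofNat 898, .ofNat 2437, .ofNat 0, .ofNat 191, .negSucc 108, .negSucc 27, .ofNat 0,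 .ofNat 128, .ofNat 9, .ofNat 0, .ofNat 0, .ofNat 304, .ofNat 2223, .ofNat 0, .ofNat 0, .ofNat 0, .ofNat 0, .ofNat 0, .ofNat 21330413196656596170434844014570195014486914498560, .ofNat 0, .ofNat 0, .ofNat 0, .ofNat 17528913139766425671804398426708143386417675894784, .ofNat 0, .ofNat 0, .ofNat 0, .ofNat 2181373191899037263840130018750909065713451794432, .ofNat 0, .ofNat 0⟩)
    (by decide +kernel)
theorem L00426 : Good (Phi V5.P V5.D 1 (-1)) ⟨4, 1, 4, 5, 4, 5, 2, 3, 3, 3⟩ :=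
  leafYS_sound T5.ok_pm T5.Ypm.bz_eq (w := 235) (c := ⟨⟨.negSucc 1019, .negSucc 36, .ofNat 2, .negSucc 18, .negSucc 88, .ofNat 44⟩, ⟨.ofNat 317, .ofNat 21, .ofNat 65, .ofNat 2, .ofNat 51, .negSucc 9⟩, ⟨.ofNat 1013, .ofNat 34, .ofNat 68, .ofNat 180, .negSucc 262, .ofNat 23⟩, ⟨.negSucc 3096, .negSucc 67, .negSucc 6, .negSucc 70, .negSucc 198, .ofNat 147⟩, ⟨.negSucc 148, .negSucc 23, .negSucc 12, .negSucc 43, .ofNat 177, .ofNat 49⟩, .ofNat 1071, .ofNat 868, .ofNat 0, .ofNat 868, .ofNat 2403, .ofNat 0, .ofNat 195, .negSucc 104, .negSucc 44, .ofNat 0, .ofNat 128, .negSucc 6, .ofNat 0, .ofNat 0, .ofNat 1767, .ofNat 1778, .ofNat 0, .ofNat 439302031225351000196727480931176809067481923584, .ofNat 0, .ofNat 0, .ofNat 0, .ofNat 31472763240521181531890630166796752065986203484160, .ofNat 0, .ofNat 0, .ofNat 0, .ofNat 34670301725432405518299599425040657535411433766912,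 .ofNat 0, .ofNat 0, .ofNat 0, .ofNat 0, .ofNat 0, .ofNat 0⟩)
    (by decide +kernel)
theorem L00427 : Good (Phi V5.P V5.D 1 (-1)) ⟨4, 1, 4, 5, 4, 5, 4, 12, 5, 16⟩ :=
  out_sound (S := T5.ds_pm) T5.ok_pm (w := 32) (j := 1) (by decide +kernel)
theorem L00428 : Good (Phi V5.P V5.D 1 (-1)) ⟨4, 1, 4, 5, 4, 5, 5, 26, 6, 32⟩ :=
  out_sound (S := T5.ds_pm) T5.ok_pm (w := 35) (j := 1) (by decide +kernel)
theorem L00429 : Good (Phi V5.P V5.D 1 (-1)) ⟨4, 1, 4, 5, 5, 10, 5, 27, 6, 32⟩ :=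
  out_sound (S := T5.ds_pm) T5.ok_pm (w := 37) (j := 1) (by decide +kernel)
theorem L00430 : Good (Phi V5.P V5.D 1 (-1)) ⟨4, 1, 4, 5, 5, 11, 5, 27, 6, 32⟩ :=
  out_sound (S := T5.ds_pm) T5.ok_pm (w := 46) (j := 2) (by decide +kernel)

end Crest.Agent.R097C5.N5pm
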