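import Crest.Agent.R097.KS3
import Crest.Agent.R097.T5Ypm

/-!
# Row 97, box cover in dimension n = 5 (generated)
-/

set_option autoImplicit false
set_option Elab.async false
set_option maxHeartbeats 0
set_option maxRecDepth 100000

open Crest.Agent.R097 Crest.Agent.R097.KA


namespace Crest.Agent.R097C5.N5pm

theorem L00431 : Good (Phi V5.P V5.D 1 (-1)) ⟨4, 1, 4, 5, 4, 5, 4, 13, 6, 33⟩ :=
  out_sound (S := T5.ds_pm) T5.ok_pm (w := 34) (j := 1) (by decide +kernel)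
theorem L00432 : Good (Phi V5.P V5.D 1 (-1)) ⟨4, 1, 4, 5, 4, 5, 3, 6, 5, 17⟩ :=
  out_sound (S := T5.ds_pm) T5.ok_pm (w := 31) (j := 1) (by decide +kernel)
theorem L00433 : Good (Phi V5.P V5.D 1 (-1)) ⟨4, 1, 4, 5, 4, 5, 3, 7, 4, 8⟩ :=
  out_sound (S := T5.ds_pm) T5.ok_pm (w := 36) (j := 2) (by decide +kernel)
theorem L00434 : Good (Phi V5.P V5.D 1 (-1)) ⟨4, 1, 4, 5, 4, 5, 2, 3, 4, 9⟩ :=
  out_sound (S := T5.ds_pm) T5.ok_pm (w := 28) (j := 1) (by decide +kernel)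
theorem L00435 : Good (Phi V5.P V5.D 1 (-1)) ⟨4, 1, 4, 5, 4, 5, 2, 3, 3, 5⟩ :=
  out_sound (S := T5.ds_pm) T5.ok_pm (w := 26) (j := 1) (by decide +kernel)
theorem L00436 : Good (Phi V5.P V5.D 1 (-1)) ⟨4, 1, 4, 5, 4, 5, 2, 3, 2, 3⟩ :=
  out_sound (S := T5.ds_pm) T5.ok_pm (w := 24) (j := 1) (by decide +kernel)
theorem L00437 : Good (Phi V5.P V5.D 1 (-1)) ⟨4, 1, 4, 6, 4, 5, 2, 3, 2, 0⟩ :=
  leafYS_sound T5.ok_pm T5.Ypm.bz_eq (w := 229) (c := ⟨⟨.negSucc 409, .negSucc 39, .ofNat 7, .negSucc 32, .ofNat 191, .negSucc 711⟩, ⟨.ofNat 118, .ofNat 11, .ofNat 52, .ofNat 6, .negSucc 69, .ofNat 316⟩, ⟨.ofNat 274, .ofNat 65, .negSucc 23, .ofNat 63, .negSucc 98, .ofNat 701⟩, ⟨.negSucc 1359, .negSucc 108, .ofNat 26, .negSucc 122, .ofNat 605, .negSucc 2079⟩, ⟨.negSucc 333, .negSucc 62, .ofNat 50, .negSucc 58, .ofNat 99, .ofNat 93⟩, .ofNat 1009, .ofNat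 796, .ofNat 0, .ofNat 796, .ofNat 2033, .ofNat 0, .ofNat 215, .negSucc 119, .negSucc 121, .ofNat 0, .ofNat 128, .ofNat 56, .ofNat 0, .ofNat 0, .ofNat 442, .ofNat 671, .ofNat 0, .ofNat 0, .ofNat 0, .ofNat 0, .ofNat 0, .ofNat 0, .ofNat 0, .ofNat 0, .ofNat 0, .ofNat 0, .ofNat 0, .ofNat 0, .ofNat 0, .ofNat 197416860298109116317280174332622362249877520384, .ofNat 0, .ofNat 0⟩)
    (by decide +kernel)
theorem L00438 : Good (Phi V5.P V5.D 1 (-1)) ⟨4, 1, 4, 6, 4, 5, 3, 6, 2, 1⟩ :=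
  leafYS_sound T5.ok_pm T5.Ypm.bz_eq (w := 233) (c := ⟨⟨.negSucc 1052, .negSucc 38, .ofNat 6, .negSucc 20, .negSucc 29, .ofNat 68⟩, ⟨.ofNat 390, .ofNat 24, .ofNat 65, .ofNat 5, .ofNat 18, .negSucc 18⟩, ⟨.ofNat 927, .ofNat 45, .ofNat 62, .ofNat 152, .negSucc 51, .ofNat 212⟩, ⟨.negSucc 3228, .negSucc 73, .ofNat 2, .negSucc 80, .negSucc 61, .ofNat 248⟩, ⟨.negSucc 213, .negSucc 21, .negSucc 11, .negSucc 42, .ofNat 64, .ofNat 113⟩, .ofNat 1005, .ofNat 791, .ofNat 0, .ofNat 791, .ofNat 2027, .ofNat 0, .ofNat 166, .negSucc 116, .negSucc 43, .ofNat 0, .ofNat 128, .ofNat 12, .ofNat 0, .ofNat 0, .ofNat 791, .ofNat 755, .ofNat 0, .ofNat 0, .ofNat 0, .ofNat 0, .ofNat 0, .ofNat 0, .ofNat 0, .ofNat 0, .ofNat 0, .ofNat 0, .ofNat 0, .ofNat 0, .ofNat 330017417696844565876292021068768130045969835229184, .ofNat 10198622591455926644443717016148925408835956375552,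 .ofNat 0, .ofNat 0⟩)
    (by decide +kernel)
theorem L00439 : Good (Phi V5.P V5.D 1 (-1)) ⟨4, 1, 4, 6, 4, 5, 3, 7, 2, 1⟩ :=
  leafYS_sound T5.ok_pm T5.Ypm.bz_eq (w := 233) (c := ⟨⟨.negSucc 1031, .negSucc 38, .ofNat 1, .negSucc 53, .negSucc 64, .negSucc 18⟩, ⟨.ofNat 386, .ofNat 23, .ofNat 67, .ofNat 21, .ofNat 40, .ofNat 24⟩, ⟨.ofNat 902, .ofNat 42, .ofNat 49, .ofNat 160, .negSucc 82, .ofNat 60⟩, ⟨.negSucc 3146, .negSucc 77, .negSucc 6, .negSucc 170, .negSucc 130, .ofNat 6⟩, ⟨.negSucc 158, .negSucc 31, .negSucc 5, .negSucc 29, .ofNat 140, .ofNat 151⟩, .ofNat 1241, .ofNat 1153, .ofNat 0, .ofNat 1153, .ofNat 2742, .ofNat 0, .ofNat 138, .negSucc 121, .negSucc 38, .ofNat 0, .ofNat 128, .ofNat 12, .ofNat 0, .ofNat 0, .ofNat 489, .ofNat 720, .ofNat 0, .ofNat 208728752859918534673854705159329405430705160192, .ofNat 0, .ofNat 0, .ofNat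 0, .ofNat 0, .ofNat 0, .ofNat 0, .ofNat 0, .ofNat 0, .ofNat 0, .ofNat 0, .ofNat 0, .ofNat 14832749028230731832314168902407715748320907362304, .ofNat 0, .ofNat 0⟩)
    (by decide +kernel)
theorem L00440 : Good (Phi V5.P V5.D 1 (-1)) ⟨4, 1, 4, 6, 4, 5, 4, 12, 5, 16⟩ :=
  out_sound (S := T5.ds_pm) T5.ok_pm (w := 32) (j := 1) (by decide +kernel)
theorem L00441 : Good (Phi V5.P V5.D 1 (-1)) ⟨4, 1, 4, 6, 4, 5, 5, 26, 6, 32⟩ :=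
  out_sound (S := T5.ds_pm) T5.ok_pm (w := 35) (j := 1) (by decide +kernel)
theorem L00442 : Good (Phi V5.P V5.D 1 (-1)) ⟨4, 1, 4, 6, 5, 10, 5, 27, 6, 32⟩ :=
  out_sound (S := T5.ds_pm) T5.ok_pm (w := 37) (j := 1) (by decide +kernel)
theorem L00443 : Good (Phi V5.P V5.D 1 (-1)) ⟨4, 1, 4, 6, 5, 11, 5, 27, 6, 32⟩ :=
  out_sound (S := T5.ds_pm) T5.ok_pm (w := 46) (j := 2) (by decide +kernel)
theorem L00444 : Good (Phi V5.P V5.D 1 (-1)) ⟨4, 1, 4, 6, 4, 5, 4, 13, 6, 33⟩ :=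
  out_sound (S := T5.ds_pm) T5.ok_pm (w := 34) (j := 1) (by decide +kernel)
theorem L00445 : Good (Phi V5.P V5.D 1 (-1)) ⟨4, 1, 4, 6, 4, 5, 3, 6, 5, 17⟩ :=
  out_sound (S := T5.ds_pm) T5.ok_pm (w := 31) (j := 1) (by decide +kernel)
theorem L00446 : Good (Phi V5.P V5.D 1 (-1)) ⟨4, 1, 4, 6, 4, 5, 3, 7, 4, 8⟩ :=
  out_sound (S := T5.ds_pm) T5.ok_pm (w := 36) (j := 2) (by decide +kernel)
theorem L00447 : Good (Phi V5.P V5.D 1 (-1)) ⟨4, 1, 4, 6, 4, 5, 2, 3, 4, 9⟩ :=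
  out_sound (S := T5.ds_pm) T5.ok_pm (w := 28) (j := 1) (by decide +kernel)
theorem L00448 : Good (Phi V5.P V5.D 1 (-1)) ⟨4, 1, 4, 6, 4, 5, 2, 3, 3, 5⟩ :=
  out_sound (S := T5.ds_pm) T5.ok_pm (w := 26) (j := 1) (by decide +kernel)
theorem L00449 : Good (Phi V5.P V5.D 1 (-1)) ⟨4, 1, 4, 6, 4, 5, 2, 3, 2, 3⟩ :=
  out_sound (S := T5.ds_pm) T5.ok_pm (w := 24) (j := 1) (by decide +kernel)
theorem L00450 : Good (Phi V5.P V5.D 1 (-1)) ⟨4, 1, 4, 7, 4, 5, 3, 6, 2, 0⟩ :=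
  leafYS_sound T5.ok_pm T5.Ypm.bz_eq (w := 232) (c := ⟨⟨.negSucc 328, .negSucc 6, .ofNat 19, .negSucc 24, .ofNat 23, .negSucc 770⟩, ⟨.ofNat 107, .ofNat 11, .ofNat 49, .ofNat 11, .negSucc 6, .ofNat 375⟩, ⟨.ofNat 170, .ofNat 28, .ofNat 3, .ofNat 68, .negSucc 17, .ofNat 813⟩, ⟨.negSucc 1046, .ofNat 4, .ofNat 75, .negSucc 95, .ofNat 68, .negSucc 2358⟩, ⟨.negSucc 119, .negSucc 24, .ofNat 53, .negSucc 63, .ofNat 0, .negSucc 147⟩, .ofNat 1146, .ofNat 1014, .ofNat 0, .ofNat 1014, .ofNat 2288, .ofNat 0, .ofNat 137, .negSucc 127, .negSucc 82, .ofNat 0, .ofNat 123, .ofNat 42, .ofNat 0, .ofNat 0, .ofNat 319, .ofNat 754, .ofNat 0, .ofNat 0, .ofNat 0, .ofNat 0, .ofNat 0, .ofNat 0, .ofNat 0, .ofNat 0, .ofNat 0, .ofNat 0, .ofNat 0, .ofNat 0, .ofNat 0, .ofNat 0, .ofNat 0, .ofNat 0⟩)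
    (by decide +kernel)
theorem L00451 : Good (Phi V5.P V5.D 1 (-1)) ⟨4, 1, 4, 7, 4, 5, 3, 6, 2, 1⟩ :=
  leafYS_sound T5.ok_pm T5.Ypm.bz_eq (w := 234) (c := ⟨⟨.negSucc 1053, .negSucc 33, .ofNat 4, .negSucc 16, .negSucc 45, .ofNat 77⟩, ⟨.ofNat 460, .ofNat 23, .ofNat 65, .ofNat 6, .ofNat 28, .negSucc 31⟩, ⟨.ofNat 937, .ofNat 67, .ofNat 47, .ofNat 149, .negSucc 58, .ofNat 283⟩, ⟨.negSucc 3233, .negSucc 63, .negSucc 3, .negSucc 74, .negSucc 105, .ofNat 263⟩, ⟨.negSucc 196, .negSucc 23, .negSucc 9, .negSucc 48, .ofNat 66, .ofNat 74⟩, .ofNat 1168, .ofNat 1047, .ofNat 0, .ofNat 1047, .ofNat 2328, .ofNat 0, .ofNat 128, .negSucc 154, .negSucc 50, .ofNat 0, .ofNat 150, .ofNat 17, .ofNat 0, .ofNat 0, .ofNat 1039, .ofNat 1322, .ofNat 0, .ofNat 0, .ofNat 0, .ofNat 0, .ofNat 0, .ofNat 0, .ofNat 0, .ofNat 0, .ofNat 0, .ofNat 0, .ofNat 0, .ofNat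 0, .ofNat 600006409855583078280711624632239822651534748942336, .ofNat 18213836372861332662644889386969650074896180445184, .ofNat 0, .ofNat 0⟩)
    (by decide +kernel)
theorem L00452 : Good (Phi V5.P V5.D 1 (-1)) ⟨4, 1, 4, 7, 4, 5, 4, 12, 5, 16⟩ :=
  out_sound (S := T5.ds_pm) T5.ok_pm (w := 32) (j := 1) (by decide +kernel)
theorem L00453 : Good (Phi V5.P V5.D 1 (-1)) ⟨4, 1, 4, 7, 4, 5, 5, 26, 6, 32⟩ :=
  out_sound (S := T5.ds_pm) T5.ok_pm (w := 35) (j := 1) (by decide +kernel)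
theorem L00454 : Good (Phi V5.P V5.D 1 (-1)) ⟨4, 1, 4, 7, 5, 10, 5, 27, 6, 32⟩ :=
  out_sound (S := T5.ds_pm) T5.ok_pm (w := 37) (j := 1) (by decide +kernel)
theorem L00455 : Good (Phi V5.P V5.D 1 (-1)) ⟨4, 1, 4, 7, 5, 11, 5, 27, 6, 32⟩ :=
  out_sound (S := T5.ds_pm) T5.ok_pm (w := 46) (j := 2) (by decide +kernel)
theorem L00456 : Good (Phi V5.P V5.D 1 (-1)) ⟨4, 1, 4, 7, 4, 5, 4, 13, 6, 33⟩ :=
  out_sound (S := T5.ds_pm) T5.ok_pm (w := 34) (j := 1) (by decide +kernel)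
theorem L00457 : Good (Phi V5.P V5.D 1 (-1)) ⟨4, 1, 4, 7, 4, 5, 3, 6, 5, 17⟩ :=
  out_sound (S := T5.ds_pm) T5.ok_pm (w := 31) (j := 1) (by decide +kernel)
theorem L00458 : Good (Phi V5.P V5.D 1 (-1)) ⟨4, 1, 4, 7, 4, 5, 3, 6, 4, 9⟩ :=
  out_sound (S := T5.ds_pm) T5.ok_pm (w := 29) (j := 1) (by decide +kernel)
theorem L00459 : Good (Phi V5.P V5.D 1 (-1)) ⟨4, 1, 4, 7, 4, 5, 3, 6, 3, 5⟩ :=
  out_sound (S := T5.ds_pm) T5.ok_pm (w := 27) (j := 1) (by decide +kernel)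
theorem L00460 : Good (Phi V5.P V5.D 1 (-1)) ⟨4, 1, 4, 7, 4, 5, 3, 6, 2, 3⟩ :=
  out_sound (S := T5.ds_pm) T5.ok_pm (w := 25) (j := 1) (by decide +kernel)
theorem L00461 : Good (Phi V5.P V5.D 1 (-1)) ⟨4, 1, 4, 7, 4, 5, 3, 7, 2, 0⟩ :=
  leafYS_sound T5.ok_pm T5.Ypm.bz_eq (w := 233) (c := ⟨⟨.negSucc 271, .negSucc 32, .ofNat 4, .negSucc 40, .ofNat 111, .negSucc 789⟩, ⟨.ofNat 78, .ofNat 21, .ofNat 48, .ofNat 29, .negSucc 48, .ofNat 393⟩, ⟨.ofNat 160, .ofNat 80, .ofNat 17, .ofNat 124, .negSucc 75, .ofNat 709⟩, ⟨.negSucc 978, .negSucc 94, .negSucc 2, .negSucc 91, .ofNat 351, .negSucc 2272⟩, ⟨.negSucc 336, .negSucc 49, .negSucc 2, .ofNat 70, .ofNat 29, .ofNat 122⟩, .ofNat 1170, .ofNat 1053, .ofNat 0, .ofNat 1053, .ofNat 2336, .ofNat 0, .ofNat 148, .negSucc 127, .negSucc 146, .ofNat 0, .ofNat 122, .ofNat 74, .ofNat 0, .ofNat 0, .ofNat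 467, .ofNat 973, .ofNat 0, .ofNat 0, .ofNat 0, .ofNat 0, .ofNat 0, .ofNat 0, .ofNat 0, .ofNat 0, .ofNat 0, .ofNat 2078091659176699733388743710935691023864033181696, .ofNat 0, .ofNat 0, .ofNat 0, .ofNat 3217733143249772516838328500613259857627394867200, .ofNat 0, .ofNat 0⟩)
    (by decide +kernel)
theorem L00462 : Good (Phi V5.P V5.D 1 (-1)) ⟨4, 1, 4, 7, 4, 5, 3, 7, 3, 2⟩ :=
  leafYS_sound T5.ok_pm T5.Ypm.bz_eq (w := 240) (c := ⟨⟨.negSucc 1012, .negSucc 47, .ofNat 0, .negSucc 47, .negSucc 70, .negSucc 34⟩, ⟨.ofNat 442, .ofNat 29, .ofNat 70, .ofNat 21, .ofNat 45, .ofNat 24⟩, ⟨.ofNat 882, .ofNat 59, .ofNat 38, .ofNat 168, .negSucc 50, .ofNat 119⟩, ⟨.negSucc 3107, .negSucc 105, .negSucc 10, .negSucc 158, .negSucc 140, .negSucc 61⟩, ⟨.negSucc 174, .negSucc 33, .negSucc 2, .negSucc 31, .ofNat 140, .ofNat 86⟩, .ofNat 1161, .ofNat 1038,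 .ofNat 0, .ofNat 1038, .ofNat 2318, .ofNat 0, .ofNat 130, .negSucc 127, .negSucc 33, .ofNat 0, .ofNat 124, .ofNat 14, .ofNat 0, .ofNat 0, .ofNat 336, .ofNat 3014, .ofNat 0, .ofNat 0, .ofNat 0, .ofNat 0, .ofNat 0, .ofNat 75878895729788690114020925470056787115116886753280, .ofNat 0, .ofNat 0, .ofNat 0, .ofNat 80844821132847055792733454315043890500781563969536, .ofNat 0, .ofNat 0, .ofNat 0, .ofNat 0, .ofNat 0, .ofNat 0⟩)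
    (by decide +kernel)
theorem L00463 : Good (Phi V5.P V5.D 1 (-1)) ⟨4, 1, 4, 7, 4, 5, 3, 7, 3, 3⟩ :=
  leafYS_sound T5.ok_pm T5.Ypm.bz_eq (w := 241) (c := ⟨⟨.negSucc 1049, .negSucc 39, .negSucc 0, .negSucc 41, .negSucc 92, .ofNat 12⟩, ⟨.ofNat 468, .ofNat 25, .ofNat 68, .ofNat 18, .ofNat 53, .negSucc 0⟩, ⟨.ofNat 985, .ofNat 50, .ofNat 61, .ofNat 201, .negSucc 148, .ofNat 8⟩, ⟨.negSucc 3170, .negSucc 83, .negSucc 13, .negSucc 142, .negSucc 201, .ofNat 65⟩, ⟨.negSucc 77, .negSucc 35, .negSucc 11, .negSucc 40, .ofNat 126, .ofNat 62⟩, .ofNat 1179, .ofNat 1064, .ofNat 0, .ofNat 1064, .ofNat 2349, .ofNat 0, .ofNat 172, .negSucc 127, .negSucc 43, .ofNat 0, .ofNat 124, .ofNat 6, .ofNat 0, .ofNat 0, .ofNat 1247, .ofNat 7726, .ofNat 0, .ofNat 16409585161325193192883614767433504814639762898944, .ofNat 0, .ofNat 0, .ofNat 0, .ofNat 357978381575069968399213696405248357038329817989120,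 .ofNat 0, .ofNat 0, .ofNat 0, .ofNat 415906606289690114772832613049967728959792032514048, .ofNat 0, .ofNat 0, .ofNat 0, .ofNat 773071311945236586988639852331264472564387928866816, .ofNat 0, .ofNat 0⟩)
    (by decide +kernel)
theorem L00464 : Good (Phi V5.P V5.D 1 (-1)) ⟨4, 1, 4, 7, 4, 5, 3, 7, 1, 1⟩ :=
  out_sound (S := T5.ds_pm) T5.ok_pm (w := 30) (j := 2) (by decide +kernel)
theorem L00465 : Good (Phi V5.P V5.D 1 (-1)) ⟨5, 2, 3, 2, 3, 3, 1, 0, 4, 0⟩ :=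
  leafYS_sound T5.ok_pm T5.Ypm.bz_eq (w := 223) (c := ⟨⟨.ofNat 951, .negSucc 25, .ofNat 73, .ofNat 123, .negSucc 181, .negSucc 1193⟩, ⟨.negSucc 342, .ofNat 9, .negSucc 92, .negSucc 30, .ofNat 127, .ofNat 359⟩, ⟨.negSucc 807, .ofNat 37, .negSucc 113, .negSucc 127, .ofNat 39, .ofNat 704⟩, ⟨.ofNat 2655, .negSucc 47, .ofNat 187, .ofNat 381, .negSucc 321, .negSucc 3659⟩, ⟨.negSucc 555, .ofNat 69, .ofNat 56, .ofNat 33, .ofNat 638, .negSucc 400⟩, .ofNat 863, .ofNat 536, .ofNat 0, .ofNat 536, .ofNat 1754, .ofNat 0, .ofNat 265, .negSucc 108, .negSucc 144, .ofNat 0, .ofNat 128, .ofNat 62, .ofNat 0, .ofNat 0, .ofNat 530, .ofNat 2174, .ofNat 0, .ofNat 0, .ofNat 0, .ofNat 0, .ofNat 0, .ofNat 0, .ofNat 0, .ofNat 0, .ofNat 0, .ofNat 0, .ofNat 0, .ofNat 0, .ofNat 0, .ofNat 0, .ofNat 0, .ofNat 0⟩)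
    (by decide +kernel)
theorem L00466 : Good (Phi V5.P V5.D 1 (-1)) ⟨5, 2, 3, 2, 3, 3, 1, 0, 4, 1⟩ :=
  leafYS_sound T5.ok_pm T5.Ypm.bz_eq (w := 222) (c := ⟨⟨.negSucc 305, .ofNat 26, .ofNat 35, .ofNat 80, .ofNat 6, .negSucc 735⟩, ⟨.negSucc 23, .negSucc 3, .ofNat 86, .negSucc 43, .ofNat 40, .ofNat 243⟩, ⟨.negSucc 80, .negSucc 28, .negSucc 42, .negSucc 297, .ofNat 193, .ofNat 620⟩, ⟨.negSucc 1135, .ofNat 125, .ofNat 49, .ofNat 190, .ofNat 153, .negSucc 2177⟩, ⟨.negSucc 753, .ofNat 104, .ofNat 43, .negSucc 130, .ofNat 420, .negSucc 31⟩, .ofNat 1001, .ofNat 740, .ofNat 0, .ofNat 740, .ofNat 2219, .ofNat 0, .ofNat 204, .negSucc 110, .negSucc 78, .ofNat 0, .ofNat 128, .ofNat 36, .ofNat 0, .ofNat 0, .ofNat 313, .ofNat 2380, .ofNat 0, .ofNat 0, .ofNat 0, .ofNat 0, .ofNat 0, .ofNat 0, .ofNat 0, .ofNat 0, .ofNat 0, .ofNat 0, .ofNat 0, .ofNat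 0, .ofNat 0, .ofNat 0, .ofNat 0, .ofNat 0⟩)
    (by decide +kernel)
theorem L00467 : Good (Phi V5.P V5.D 1 (-1)) ⟨5, 2, 3, 2, 3, 3, 1, 0, 3, 1⟩ :=
  leafYS_sound T5.ok_pm T5.Ypm.bz_eq (w := 216) (c := ⟨⟨.negSucc 1123, .negSucc 11, .ofNat 20, .ofNat 0, .ofNat 145, .negSucc 199⟩, ⟨.ofNat 225, .ofNat 11, .ofNat 153, .negSucc 11, .negSucc 25, .ofNat 75⟩, ⟨.ofNat 566, .negSucc 7, .negSucc 6, .negSucc 186, .ofNat 74, .ofNat 505⟩, ⟨.negSucc 3510, .negSucc 26, .ofNat 13, .negSucc 28, .ofNat 487, .negSucc 563⟩, ⟨.negSucc 567, .negSucc 31, .ofNat 32, .negSucc 89, .ofNat 192, .ofNat 78⟩, .ofNat 953, .ofNat 663, .ofNat 0, .ofNat 663, .ofNat 2061, .ofNat 0, .ofNat 243, .negSucc 103, .negSucc 54, .ofNat 0, .ofNat 128, .ofNat 26, .ofNat 0, .ofNat 0, .ofNat 326, .ofNat 352, .ofNat 110116978858024213655388238675394598109446144, .ofNat 0, .ofNat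 0, .ofNat 0, .ofNat 0, .ofNat 0, .ofNat 0, .ofNat 0, .ofNat 0, .ofNat 0, .ofNat 0, .ofNat 0, .ofNat 5499948245370976406315244903195810785933656064, .ofNat 0, .ofNat 0, .ofNat 0⟩)
    (by decide +kernel)
theorem L00468 : Good (Phi V5.P V5.D 1 (-1)) ⟨5, 2, 3, 2, 3, 3, 2, 0, 3, 2⟩ :=
  leafYS_sound T5.ok_pm T5.Ypm.bz_eq (w := 227) (c := ⟨⟨.negSucc 1288, .negSucc 6, .ofNat 15, .negSucc 8, .ofNat 60, .ofNat 74⟩, ⟨.ofNat 289, .ofNat 11, .ofNat 158, .negSucc 8, .negSucc 10, .negSucc 11⟩, ⟨.ofNat 1101, .ofNat 7, .negSucc 8, .negSucc 194, .ofNat 5, .ofNat 343⟩, ⟨.negSucc 3973, .ofNat 5, .negSucc 7, .negSucc 60, .ofNat 207, .ofNat 240⟩, ⟨.negSucc 467, .ofNat 8, .ofNat 7, .negSucc 106, .ofNat 81, .ofNat 85⟩, .ofNat 958, .ofNat 673, .ofNat 0, .ofNat 673, .ofNat 2071, .ofNat 0, .ofNat 161, .negSucc 101, .negSucc 68, .ofNat 0, .ofNat 128, .ofNat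 36, .ofNat 0, .ofNat 0, .ofNat 667, .ofNat 82391, .ofNat 254171290487259677554412242537976509068702908416, .ofNat 0, .ofNat 0, .ofNat 0, .ofNat 1348923179781646606856158719208430940298665787392, .ofNat 0, .ofNat 0, .ofNat 0, .ofNat 702856222653542620782395942898489187783625670656, .ofNat 0, .ofNat 0, .ofNat 0, .ofNat 801608840312245706952087522911607680149800091648, .ofNat 0, .ofNat 0, .ofNat 0⟩)
    (by decide +kernel)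
theorem L00469 : Good (Phi V5.P V5.D 1 (-1)) ⟨5, 2, 3, 2, 3, 3, 2, 1, 3, 2⟩ :=
  leafYS_sound T5.ok_pm T5.Ypm.bz_eq (w := 226) (c := ⟨⟨.negSucc 1219, .negSucc 7, .ofNat 11, .negSucc 16, .ofNat 45, .ofNat 107⟩, ⟨.ofNat 285, .ofNat 10, .ofNat 146, .negSucc 3, .negSucc 10, .negSucc 26⟩, ⟨.ofNat 999, .ofNat 16, .ofNat 19, .negSucc 58, .ofNat 28, .ofNat 276⟩, ⟨.negSucc 3748, .negSucc 1, .negSucc 8, .negSucc 77, .ofNat 158, .ofNat 339⟩, ⟨.negSucc 388, .ofNat 2, .ofNat 3, .negSucc 79, .ofNat 65, .ofNat 69⟩, .ofNat 661, .ofNat 293, .ofNat 0, .ofNat 293, .ofNat 1154, .ofNat 0, .ofNat 299, .negSucc 78, .negSucc 94, .ofNat 0, .ofNat 128, .ofNat 42, .ofNat 0, .ofNat 0, .ofNat 1145, .ofNat 29417, .ofNat 68162701624584615778632850801300651652574871552, .ofNat 0, .ofNat 0, .ofNat 0, .ofNat 0, .ofNat 0, .ofNat 0, .ofNat 0, .ofNat 0, .ofNat 0,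 .ofNat 0, .ofNat 0, .ofNat 257307799514623048384878529443196471733292892160, .ofNat 0, .ofNat 0, .ofNat 0⟩)
    (by decide +kernel)
theorem L00470 : Good (Phi V5.P V5.D 1 (-1)) ⟨5, 2, 3, 2, 3, 3, 1, 0, 3, 3⟩ :=
  leafYS_sound T5.ok_pm T5.Ypm.bz_eq (w := 224) (c := ⟨⟨.negSucc 1098, .negSucc 9, .ofNat 9, .negSucc 16, .ofNat 30, .ofNat 131⟩, ⟨.ofNat 259, .ofNat 10, .ofNat 137, .negSucc 2, .negSucc 7, .negSucc 36⟩, ⟨.ofNat 1158, .ofNat 26, .ofNat 48, .ofNat 56, .ofNat 60, .ofNat 486⟩, ⟨.negSucc 3389, .negSucc 8, .negSucc 9, .negSucc 72, .ofNat 135, .ofNat 402⟩, ⟨.negSucc 346, .negSucc 1, .ofNat 1, .negSucc 72, .ofNat 86, .ofNat 45⟩, .ofNat 421, .ofNat 104, .ofNat 0, .ofNat 104, .ofNat 595, .ofNat 0, .ofNat 282, .negSucc 48, .negSucc 101, .ofNat 0, .ofNat 128, .ofNat 31, .ofNat 0, .ofNat 0, .ofNat 1941, .ofNat 126553, .ofNat 58111600069403721247026118718122115306704863232,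 .ofNat 0, .ofNat 0, .ofNat 0, .ofNat 264583918847976341801978982336402171349218361344, .ofNat 0, .ofNat 0, .ofNat 0, .ofNat 157054800919831770469254490763169988872962572288, .ofNat 0, .ofNat 0, .ofNat 0, .ofNat 1731274377308912379436386338544273230596837212160, .ofNat 0, .ofNat 0, .ofNat 0⟩)
    (by decide +kernel)
theorem L00471 : Good (Phi V5.P V5.D 1 (-1)) ⟨5, 2, 3, 2, 3, 3, 1, 0, 1, 1⟩ :=
  out_sound (S := T5.ds_pm) T5.ok_pm (w := 19) (j := 1) (by decide +kernel)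
theorem L00472 : Good (Phi V5.P V5.D 1 (-1)) ⟨6, 4, 4, 4, 3, 3, 1, 1, 3, 0⟩ :=
  leafYS_sound T5.ok_pm T5.Ypm.bz_eq (w := 224) (c := ⟨⟨.ofNat 332, .negSucc 14, .ofNat 86, .negSucc 51, .negSucc 434, .negSucc 1021⟩, ⟨.negSucc 124, .ofNat 7, .negSucc 6, .ofNat 31, .ofNat 133, .ofNat 257⟩, ⟨.negSucc 530, .negSucc 6, .negSucc 86, .ofNat 100, .ofNat 743, .ofNat 818⟩, ⟨.ofNat 987, .negSucc 47, .ofNat 218, .negSucc 126, .negSucc 1307, .negSucc 3164⟩, ⟨.negSucc 12, .negSucc 29, .negSucc 76, .ofNat 108, .negSucc 22, .negSucc 439⟩, .ofNat 938, .ofNat 616, .ofNat 0, .ofNat 616, .ofNat 2084, .ofNat 0, .ofNat 468, .negSucc 90, .negSucc 315, .ofNat 0, .ofNat 128, .ofNat 117, .ofNat 0, .ofNat 0, .ofNat 862, .ofNat 1075, .ofNat 0, .ofNat 0, .ofNat 0, .ofNat 0, .ofNat 0, .ofNat 0, .ofNat 0, .ofNat 0, .ofNat 0, .ofNat 0, .ofNat 0, .ofNat 0, .ofNat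 0, .ofNat 0, .ofNat 0, .ofNat 0⟩)
    (by decide +kernel)
theorem L00473 : Good (Phi V5.P V5.D 1 (-1)) ⟨6, 4, 4, 4, 3, 3, 1, 1, 3, 1⟩ :=
  leafYS_sound T5.ok_pm T5.Ypm.bz_eq (w := 224) (c := ⟨⟨.negSucc 992, .ofNat 2, .ofNat 7, .negSucc 45, .ofNat 65, .negSucc 162⟩, ⟨.ofNat 210, .ofNat 1, .ofNat 73, .ofNat 7, .ofNat 6, .ofNat 56⟩, ⟨.ofNat 674, .negSucc 30, .ofNat 10, .ofNat 17, .ofNat 148, .ofNat 332⟩, ⟨.negSucc 3067, .ofNat 4, .ofNat 2, .negSucc 153, .ofNat 265, .negSucc 470⟩, ⟨.negSucc 378, .negSucc 39, .ofNat 6, .negSucc 61, .ofNat 239, .ofNat 48⟩, .ofNat 952, .ofNat 638, .ofNat 0, .ofNat 638, .ofNat 2137, .ofNat 0, .ofNat 250, .negSucc 92, .negSucc 83, .ofNat 0, .ofNat 128, .ofNat 32, .ofNat 0, .ofNat 0, .ofNat 419, .ofNat 950, .ofNat 0, .ofNat 0, .ofNat 0, .ofNat 0, .ofNat 0, .ofNat 124514875108179623442900013246325403139920887808,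 .ofNat 0, .ofNat 0, .ofNat 0, .ofNat 62187640659601643287831106510330951333002084352, .ofNat 0, .ofNat 0, .ofNat 0, .ofNat 32753012403631260692277196465120636960541507584, .ofNat 0, .ofNat 0⟩)
    (by decide +kernel)
theorem L00474 : Good (Phi V5.P V5.D 1 (-1)) ⟨6, 4, 4, 4, 3, 3, 1, 1, 3, 2⟩ :=
  leafYS_sound T5.ok_pm T5.Ypm.bz_eq (w := 224) (c := ⟨⟨.negSucc 1145, .ofNat 0, .ofNat 6, .negSucc 39, .negSucc 9, .ofNat 83⟩, ⟨.ofNat 264, .ofNat 3, .ofNat 70, .ofNat 5, .ofNat 25, .negSucc 16⟩, ⟨.ofNat 968, .ofNat 1, .ofNat 15, .ofNat 66, .ofNat 29, .ofNat 234⟩, ⟨.negSucc 3507, .ofNat 8, .negSucc 1, .negSucc 136, .ofNat 26, .ofNat 269⟩, ⟨.negSucc 335, .negSucc 4, .negSucc 4, .negSucc 57, .ofNat 189, .ofNat 68⟩, .ofNat 824, .ofNat 456, .ofNat 0, .ofNat 456, .ofNat 1680, .ofNat 0, .ofNat 295, .negSucc 85, .negSucc 72, .ofNat 0, .ofNat 128,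 .ofNat 23, .ofNat 0, .ofNat 0, .ofNat 907, .ofNat 786, .ofNat 0, .ofNat 0, .ofNat 0, .ofNat 0, .ofNat 0, .ofNat 0, .ofNat 0, .ofNat 0, .ofNat 0, .ofNat 188148694990051039776636123714048916534394355712, .ofNat 0, .ofNat 0, .ofNat 0, .ofNat 477244863729889480381313547865992402683601879040, .ofNat 0, .ofNat 0⟩)
    (by decide +kernel)
theorem L00475 : Good (Phi V5.P V5.D 1 (-1)) ⟨6, 4, 4, 4, 3, 3, 2, 2, 3, 3⟩ :=
  leafYS_sound T5.ok_pm T5.Ypm.bz_eq (w := 229) (c := ⟨⟨.negSucc 1051, .negSucc 13, .ofNat 0, .negSucc 19, .negSucc 7, .ofNat 109⟩, ⟨.ofNat 247, .ofNat 9, .ofNat 67, .negSucc 1, .ofNat 10, .negSucc 32⟩, ⟨.ofNat 1159, .negSucc 64, .ofNat 75, .ofNat 216, .negSucc 22, .ofNat 457⟩, ⟨.negSucc 3208, .negSucc 31, .negSucc 18, .negSucc 76, .negSucc 3, .ofNat 323⟩, ⟨.negSucc 262, .ofNat 6, .negSucc 6, .negSucc 62, .ofNat 61, .ofNat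 7⟩, .ofNat 956, .ofNat 645, .ofNat 0, .ofNat 645, .ofNat 2146, .ofNat 0, .ofNat 185, .negSucc 88, .negSucc 47, .ofNat 0, .ofNat 128, .negSucc 10, .ofNat 0, .ofNat 0, .ofNat 2859, .ofNat 2215, .ofNat 0, .ofNat 0, .ofNat 0, .ofNat 0, .ofNat 0, .ofNat 0, .ofNat 0, .ofNat 0, .ofNat 0, .ofNat 1132866307348442965522296274612039702544904093696, .ofNat 0, .ofNat 0, .ofNat 0, .ofNat 31795169607242458645775104771793198738848423608320, .ofNat 0, .ofNat 0⟩)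
    (by decide +kernel)
theorem L00476 : Good (Phi V5.P V5.D 1 (-1)) ⟨6, 4, 4, 4, 3, 3, 2, 3, 3, 3⟩ :=
  leafYS_sound T5.ok_pm T5.Ypm.bz_eq (w := 229) (c := ⟨⟨.negSucc 1051, .negSucc 7, .ofNat 5, .negSucc 46, .negSucc 90, .ofNat 74⟩, ⟨.ofNat 257, .ofNat 5, .ofNat 64, .ofNat 5, .ofNat 48, .negSucc 19⟩, ⟨.ofNat 1053, .ofNat 11, .ofNat 95, .ofNat 353, .negSucc 177, .ofNat 247⟩, ⟨.negSucc 3185, .negSucc 15, .negSucc 0, .negSucc 161, .negSucc 218, .ofNat 226⟩, ⟨.negSucc 175, .negSucc 8, .negSucc 16, .negSucc 77, .ofNat 162, .ofNat 22⟩, .ofNat 905, .ofNat 567, .ofNat 0, .ofNat 567, .ofNat 1961, .ofNat 0, .ofNat 194, .negSucc 86, .negSucc 25, .ofNat 0, .ofNat 128, .negSucc 25, .ofNat 0, .ofNat 0, .ofNat 2155, .ofNat 1831, .ofNat 0, .ofNat 26796026431428503635288642127884534372628430848, .ofNat 0, .ofNat 0, .ofNat 0, .ofNat 2605177731026244316477388560334652627570554568704,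 .ofNat 0, .ofNat 0, .ofNat 0, .ofNat 2727828721697016679212635939526778691968579928064, .ofNat 0, .ofNat 0, .ofNat 0, .ofNat 21229913433159340483989056991120074665474486435840, .ofNat 0, .ofNat 0⟩)
    (by decide +kernel)
theorem L00477 : Good (Phi V5.P V5.D 1 (-1)) ⟨6, 4, 4, 4, 3, 3, 3, 4, 4, 8⟩ :=
  out_sound (S := T5.ds_pm) T5.ok_pm (w := 27) (j := 1) (by decide +kernel)
theorem L00478 : Good (Phi V5.P V5.D 1 (-1)) ⟨6, 4, 4, 4, 4, 6, 3, 5, 5, 16⟩ :=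
  out_sound (S := T5.ds_pm) T5.ok_pm (w := 31) (j := 1) (by decide +kernel)
theorem L00479 : Good (Phi V5.P V5.D 1 (-1)) ⟨6, 4, 4, 4, 4, 7, 4, 10, 5, 16⟩ :=
  out_sound (S := T5.ds_pm) T5.ok_pm (w := 32) (j := 1) (by decide +kernel)
theorem L00480 : Good (Phi V5.P V5.D 1 (-1)) ⟨6, 4, 4, 4, 4, 7, 4, 11, 5, 16⟩ :=
  out_sound (S := T5.ds_pm) T5.ok_pm (w := 40) (j := 2) (by decide +kernel)
theorem L00481 : Good (Phi V5.P V5.D 1 (-1)) ⟨6, 4, 4, 4, 3, 3, 3, 5, 5, 17⟩ :=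
  out_sound (S := T5.ds_pm) T5.ok_pm (w := 29) (j := 1) (by decide +kernel)
theorem L00482 : Good (Phi V5.P V5.D 1 (-1)) ⟨6, 4, 4, 4, 4, 6, 5, 24, 6, 32⟩ :=
  out_sound (S := T5.ds_pm) T5.ok_pm (w := 35) (j := 1) (by decide +kernel)
theorem L00483 : Good (Phi V5.P V5.D 1 (-1)) ⟨6, 4, 4, 4, 4, 6, 5, 25, 6, 32⟩ :=
  out_sound (S := T5.ds_pm) T5.ok_pm (w := 44) (j := 2) (by decide +kernel)
theorem L00484 : Good (Phi V5.P V5.D 1 (-1)) ⟨6, 4, 4, 4, 4, 6, 4, 12, 6, 33⟩ :=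
  out_sound (S := T5.ds_pm) T5.ok_pm (w := 34) (j := 1) (by decide +kernel)
theorem L00485 : Good (Phi V5.P V5.D 1 (-1)) ⟨6, 4, 4, 4, 4, 6, 4, 12, 5, 17⟩ :=
  out_sound (S := T5.ds_pm) T5.ok_pm (w := 32) (j := 1) (by decide +kernel)
theorem L00486 : Good (Phi V5.P V5.D 1 (-1)) ⟨6, 4, 4, 4, 4, 6, 4, 13, 4, 8⟩ :=
  out_sound (S := T5.ds_pm) T5.ok_pm (w := 38) (j := 2) (by decide +kernel)
theorem L00487 : Good (Phi V5.P V5.D 1 (-1)) ⟨6, 4, 4, 4, 4, 7, 3, 6, 4, 8⟩ :=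
  out_sound (S := T5.ds_pm) T5.ok_pm (w := 36) (j := 2) (by decide +kernel)
theorem L00488 : Good (Phi V5.P V5.D 1 (-1)) ⟨6, 4, 4, 4, 3, 3, 3, 7, 4, 8⟩ :=
  out_sound (S := T5.ds_pm) T5.ok_pm (w := 34) (j := 2) (by decide +kernel)
theorem L00489 : Good (Phi V5.P V5.D 1 (-1)) ⟨6, 4, 4, 4, 3, 3, 2, 2, 4, 9⟩ :=
  out_sound (S := T5.ds_pm) T5.ok_pm (w := 26) (j := 1) (by decide +kernel)
theorem L00490 : Good (Phi V5.P V5.D 1 (-1)) ⟨6, 4, 4, 4, 3, 3, 2, 3, 4, 9⟩ :=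
  out_sound (S := T5.ds_pm) T5.ok_pm (w := 32) (j := 2) (by decide +kernel)
theorem L00491 : Good (Phi V5.P V5.D 1 (-1)) ⟨6, 4, 4, 4, 3, 3, 1, 1, 3, 5⟩ :=
  out_sound (S := T5.ds_pm) T5.ok_pm (w := 23) (j := 1) (by decide +kernel)
theorem L00492 : Good (Phi V5.P V5.D 1 (-1)) ⟨6, 4, 4, 4, 3, 3, 1, 1, 2, 3⟩ :=
  out_sound (S := T5.ds_pm) T5.ok_pm (w := 21) (j := 1) (by decide +kernel)
theorem L00493 : Good (Phi V5.P V5.D 1 (-1)) ⟨6, 4, 5, 10, 3, 3, 1, 1, 3, 0⟩ :=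
  leafYS_sound T5.ok_pm T5.Ypm.bz_eq (w := 227) (c := ⟨⟨.ofNat 395, .negSucc 97, .ofNat 50, .ofNat 101, .negSucc 501, .negSucc 1103⟩, ⟨.negSucc 151, .ofNat 37, .negSucc 7, .negSucc 14, .ofNat 169, .ofNat 335⟩, ⟨.negSucc 596, .ofNat 128, .negSucc 54, .negSucc 48, .ofNat 778, .ofNat 916⟩, ⟨.ofNat 1149, .negSucc 296, .ofNat 137, .ofNat 354, .negSucc 1495, .negSucc 3425⟩, ⟨.negSucc 74, .negSucc 23, .negSucc 19, .ofNat 158, .negSucc 8, .negSucc 412⟩, .ofNat 1035, .ofNat 793, .ofNat 0, .ofNat 793, .ofNat 2304, .ofNat 0, .ofNat 364, .negSucc 105, .negSucc 263, .ofNat 0, .ofNat 128, .ofNat 109, .ofNat 0, .ofNat 0, .ofNat 722, .ofNat 913, .ofNat 0, .ofNat 0, .ofNat 0, .ofNat 0, .ofNat 0, .ofNat 0, .ofNat 0, .ofNat 0, .ofNat 0, .ofNat 193875581690402557933017436580726082531370205184, .ofNat 0, .ofNat 0, .ofNat 0, .ofNat 0, .ofNat 0, .ofNat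 0⟩)
    (by decide +kernel)
theorem L00494 : Good (Phi V5.P V5.D 1 (-1)) ⟨6, 4, 5, 10, 3, 3, 1, 1, 3, 1⟩ :=
  leafYS_sound T5.ok_pm T5.Ypm.bz_eq (w := 227) (c := ⟨⟨.negSucc 975, .negSucc 16, .negSucc 5, .negSucc 34, .ofNat 69, .negSucc 165⟩, ⟨.ofNat 272, .ofNat 11, .ofNat 39, .ofNat 9, .negSucc 2, .ofNat 63⟩, ⟨.ofNat 637, .ofNat 41, .ofNat 6, .ofNat 14, .ofNat 136, .ofNat 336⟩, ⟨.negSucc 3049, .negSucc 36, .negSucc 26, .negSucc 114, .ofNat 271, .negSucc 475⟩, ⟨.negSucc 407, .ofNat 15, .ofNat 7, .negSucc 33, .ofNat 183, .ofNat 52⟩, .ofNat 1023, .ofNat 775, .ofNat 0, .ofNat 775, .ofNat 2254, .ofNat 0, .ofNat 249, .negSucc 106, .negSucc 80, .ofNat 0, .ofNat 128, .ofNat 35, .ofNat 0, .ofNat 0, .ofNat 400, .ofNat 984, .ofNat 0, .ofNat 0, .ofNat 0, .ofNat 0, .ofNat 0, .ofNat 0, .ofNat 0, .ofNat 0, .ofNat 0, .ofNat 539508029867758859573351319831164859465416572928,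 .ofNat 0, .ofNat 0, .ofNat 0, .ofNat 192851033390506942329518169644300169670169722880, .ofNat 0, .ofNat 0⟩)
    (by decide +kernel)
theorem L00495 : Good (Phi V5.P V5.D 1 (-1)) ⟨6, 4, 5, 10, 3, 3, 1, 1, 3, 2⟩ :=
  leafYS_sound T5.ok_pm T5.Ypm.bz_eq (w := 227) (c := ⟨⟨.negSucc 1141, .ofNat 2, .ofNat 2, .negSucc 36, .negSucc 25, .ofNat 84⟩, ⟨.ofNat 338, .ofNat 2, .ofNat 36, .ofNat 7, .ofNat 29, .negSucc 22⟩, ⟨.ofNat 979, .ofNat 16, .negSucc 3, .ofNat 66, .ofNat 40, .ofNat 248⟩, ⟨.negSucc 3515, .ofNat 11, .negSucc 0, .negSucc 130, .negSucc 12, .ofNat 268⟩, ⟨.negSucc 324, .negSucc 9, .ofNat 0, .negSucc 60, .ofNat 179, .ofNat 55⟩, .ofNat 977, .ofNat 705, .ofNat 0, .ofNat 705, .ofNat 2103, .ofNat 0, .ofNat 198, .negSucc 101, .negSucc 61, .ofNat 0, .ofNat 128, .ofNat 22, .ofNat 0, .ofNat 0, .ofNat 843, .ofNat 880, .ofNat 0, .ofNat 0,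 .ofNat 0, .ofNat 0, .ofNat 0, .ofNat 2029838049553589541840382396982425568435622641664, .ofNat 0, .ofNat 0, .ofNat 0, .ofNat 1645165399370338142038176063791835370483563364352, .ofNat 0, .ofNat 0, .ofNat 0, .ofNat 3473233842468280004139602017910388649355619860480, .ofNat 0, .ofNat 0⟩)
    (by decide +kernel)
theorem L00496 : Good (Phi V5.P V5.D 1 (-1)) ⟨6, 4, 5, 10, 3, 3, 2, 2, 4, 6⟩ :=
  leafYS_sound T5.ok_pm T5.Ypm.bz_eq (w := 240) (c := ⟨⟨.negSucc 1052, .negSucc 3, .ofNat 2, .negSucc 25, .negSucc 12, .ofNat 59⟩, ⟨.ofNat 316, .ofNat 4, .ofNat 33, .ofNat 2, .ofNat 12, .negSucc 19⟩, ⟨.ofNat 1141, .ofNat 44, .ofNat 0, .ofNat 219, .ofNat 16, .ofNat 236⟩, ⟨.negSucc 3226, .negSucc 5, .negSucc 0, .negSucc 99, .negSucc 14, .ofNat 178⟩, ⟨.negSucc 255, .negSucc 5, .negSucc 0, .negSucc 72, .ofNat 62, .ofNat 3⟩, .ofNat 670, .ofNat 309, .ofNat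 0, .ofNat 309, .ofNat 1164, .ofNat 0, .ofNat 174, .negSucc 79, .negSucc 58, .ofNat 0, .ofNat 128, .ofNat 3, .ofNat 0, .ofNat 0, .ofNat 2127, .ofNat 15379, .ofNat 0, .ofNat 0, .ofNat 0, .ofNat 0, .ofNat 0, .ofNat 0, .ofNat 0, .ofNat 0, .ofNat 0, .ofNat 0, .ofNat 0, .ofNat 0, .ofNat 0, .ofNat 1028638548809157075998826079750036226676131048194048, .ofNat 0, .ofNat 0⟩)
    (by decide +kernel)
theorem L00497 : Good (Phi V5.P V5.D 1 (-1)) ⟨6, 4, 5, 10, 3, 3, 2, 2, 4, 7⟩ :=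
  leafYS_sound T5.ok_pm T5.Ypm.bz_eq (w := 239) (c := ⟨⟨.negSucc 994, .negSucc 3, .ofNat 5, .negSucc 1, .negSucc 26, .ofNat 54⟩, ⟨.ofNat 306, .ofNat 4, .ofNat 30, .negSucc 14, .ofNat 10, .negSucc 21⟩, ⟨.ofNat 1037, .ofNat 28, .ofNat 64, .ofNat 660, .ofNat 185, .ofNat 360⟩, ⟨.negSucc 3027, .negSucc 8, .ofNat 3, .negSucc 55, .negSucc 75, .ofNat 149⟩, ⟨.negSucc 181, .negSucc 9, .negSucc 9, .negSucc 143, .ofNat 9, .negSucc 33⟩, .ofNat 1023, .ofNat 775, .ofNat 0, .ofNat 775, .ofNat 2254, .ofNat 0, .ofNat 213, .negSucc 100, .ofNat 16, .ofNat 0, .ofNat 128, .negSucc 52, .ofNat 0, .ofNat 0, .ofNat 3620, .ofNat 7262, .ofNat 0, .ofNat 0, .ofNat 0, .ofNat 0, .ofNat 0, .ofNat 0, .ofNat 0, .ofNat 0, .ofNat 5709155780304203521529770843718986641221212627271680, .ofNat 167059704045901107289968110617624977379361124515840, .ofNat 0, .ofNat 0, .ofNat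 83746151360480963516172998632180378705465117564207104, .ofNat 4411228295386619321399000491392545641389612037308416, .ofNat 0, .ofNat 0⟩)
    (by decide +kernel)
theorem L00498 : Good (Phi V5.P V5.D 1 (-1)) ⟨6, 4, 5, 10, 3, 3, 2, 3, 4, 6⟩ :=
  leafYS_sound T5.ok_pm T5.Ypm.bz_eq (w := 238) (c := ⟨⟨.negSucc 1053, .negSucc 5, .ofNat 1, .negSucc 39, .negSucc 98, .ofNat 42⟩, ⟨.ofNat 325, .ofNat 5, .ofNat 33, .ofNat 4, .ofNat 53, .negSucc 13⟩, ⟨.ofNat 1116, .ofNat 12, .ofNat 41, .ofNat 375, .negSucc 229, .ofNat 164⟩, ⟨.negSucc 3203, .negSucc 12, .negSucc 5, .negSucc 146, .negSucc 232, .ofNat 125⟩, ⟨.negSucc 184, .negSucc 8, .negSucc 4, .negSucc 84, .ofNat 172, .ofNat 3⟩, .ofNat 973, .ofNat 697, .ofNat 0, .ofNat 697, .ofNat 2095, .ofNat 0, .ofNat 159, .negSucc 99, .negSucc 29, .ofNat 0, .ofNat 128, .negSucc 20, .ofNat 0, .ofNat 0, .ofNat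 2180, .ofNat 2623, .ofNat 0, .ofNat 1324360173584943367196782849069280184362181066752, .ofNat 0, .ofNat 0, .ofNat 0, .ofNat 145043941085665089873638452263492617861461975236608, .ofNat 0, .ofNat 0, .ofNat 0, .ofNat 185463597871053655245297792186515427698383869968384, .ofNat 0, .ofNat 0, .ofNat 0, .ofNat 1143752074760637477084431212190083620087460618305536, .ofNat 0, .ofNat 0⟩)
    (by decide +kernel)
theorem L00499 : Good (Phi V5.P V5.D 1 (-1)) ⟨6, 4, 5, 10, 3, 3, 2, 3, 4, 7⟩ :=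
  leafYS_sound T5.ok_pm T5.Ypm.bz_eq (w := 238) (c := ⟨⟨.negSucc 1017, .negSucc 6, .ofNat 2, .negSucc 19, .negSucc 102, .ofNat 43⟩, ⟨.ofNat 315, .ofNat 5, .ofNat 31, .negSucc 7, .ofNat 55, .negSucc 16⟩, ⟨.ofNat 1213, .ofNat 3, .ofNat 66, .ofNat 613, .negSucc 357, .ofNat 226⟩, ⟨.negSucc 3091, .negSucc 14, .negSucc 2, .negSucc 103, .negSucc 237, .ofNat 121⟩, ⟨.negSucc 165, .negSucc 6, .negSucc 10, .negSucc 132, .ofNat 178, .negSucc 18⟩, .ofNat 979, .ofNat 708, .ofNat 0, .ofNat 708, .ofNat 2107, .ofNat 0, .ofNat 174, .negSucc 99, .ofNat 20, .ofNat 0, .ofNat 128, .negSucc 78, .ofNat 0, .ofNat 0, .ofNat 4267, .ofNat 2757, .ofNat 0, .ofNat 4853973789130622354067644040029034285147749351424, .ofNat 0, .ofNat 0, .ofNat 0, .ofNat 282234563864915253584056458698559162895171793715200, .ofNat 0, .ofNat 0, .ofNat 0, .ofNat 366009610362682619105962917448576979864481871953920,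 .ofNat 0, .ofNat 0, .ofNat 0, .ofNat 5434645878113117756962250398428224584599844027367424, .ofNat 0, .ofNat 0⟩)
    (by decide +kernel)
theorem L00500 : Good (Phi V5.P V5.D 1 (-1)) ⟨6, 4, 5, 10, 3, 3, 3, 4, 4, 8⟩ :=
  out_sound (S := T5.ds_pm) T5.ok_pm (w := 27) (j := 1) (by decide +kernel)
theorem L00501 : Good (Phi V5.P V5.D 1 (-1)) ⟨6, 4, 5, 10, 4, 6, 3, 5, 5, 16⟩ :=
  out_sound (S := T5.ds_pm) T5.ok_pm (w := 31) (j := 1) (by decide +kernel)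
theorem L00502 : Good (Phi V5.P V5.D 1 (-1)) ⟨6, 4, 5, 10, 4, 7, 4, 10, 5, 16⟩ :=
  out_sound (S := T5.ds_pm) T5.ok_pm (w := 32) (j := 1) (by decide +kernel)
theorem L00503 : Good (Phi V5.P V5.D 1 (-1)) ⟨6, 4, 5, 10, 4, 7, 4, 11, 5, 16⟩ :=
  out_sound (S := T5.ds_pm) T5.ok_pm (w := 40) (j := 2) (by decide +kernel)
theorem L00504 : Good (Phi V5.P V5.D 1 (-1)) ⟨6, 4, 5, 10, 3, 3, 3, 5, 5, 17⟩ :=
  out_sound (S := T5.ds_pm) T5.ok_pm (w := 29) (j := 1) (by decide +kernel)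
theorem L00505 : Good (Phi V5.P V5.D 1 (-1)) ⟨6, 4, 5, 10, 4, 6, 5, 24, 6, 32⟩ :=
  out_sound (S := T5.ds_pm) T5.ok_pm (w := 35) (j := 1) (by decide +kernel)
theorem L00506 : Good (Phi V5.P V5.D 1 (-1)) ⟨6, 4, 5, 10, 4, 6, 5, 25, 6, 32⟩ :=
  out_sound (S := T5.ds_pm) T5.ok_pm (w := 44) (j := 2) (by decide +kernel)
theorem L00507 : Good (Phi V5.P V5.D 1 (-1)) ⟨6, 4, 5, 10, 4, 6, 4, 12, 6, 33⟩ :=
  out_sound (S := T5.ds_pm) T5.ok_pm (w := 34) (j := 1) (by decide +kernel)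
theorem L00508 : Good (Phi V5.P V5.D 1 (-1)) ⟨6, 4, 5, 10, 4, 6, 4, 12, 5, 17⟩ :=
  out_sound (S := T5.ds_pm) T5.ok_pm (w := 32) (j := 1) (by decide +kernel)
theorem L00509 : Good (Phi V5.P V5.D 1 (-1)) ⟨6, 4, 5, 10, 4, 6, 4, 13, 4, 8⟩ :=
  out_sound (S := T5.ds_pm) T5.ok_pm (w := 38) (j := 2) (by decide +kernel)
theorem L00510 : Good (Phi V5.P V5.D 1 (-1)) ⟨6, 4, 5, 10, 4, 7, 3, 6, 4, 8⟩ :=
  out_sound (S := T5.ds_pm) T5.ok_pm (w := 36) (j := 2) (by decide +kernel)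
theorem L00511 : Good (Phi V5.P V5.D 1 (-1)) ⟨6, 4, 5, 10, 3, 3, 3, 7, 4, 8⟩ :=
  out_sound (S := T5.ds_pm) T5.ok_pm (w := 34) (j := 2) (by decide +kernel)
theorem L00512 : Good (Phi V5.P V5.D 1 (-1)) ⟨6, 4, 5, 10, 3, 3, 2, 2, 4, 9⟩ :=
  out_sound (S := T5.ds_pm) T5.ok_pm (w := 26) (j := 1) (by decide +kernel)
theorem L00513 : Good (Phi V5.P V5.D 1 (-1)) ⟨6, 4, 5, 10, 3, 3, 2, 3, 4, 9⟩ :=
  out_sound (S := T5.ds_pm) T5.ok_pm (w := 32) (j := 2) (by decide +kernel)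
theorem L00514 : Good (Phi V5.P V5.D 1 (-1)) ⟨6, 4, 5, 10, 3, 3, 1, 1, 3, 5⟩ :=
  out_sound (S := T5.ds_pm) T5.ok_pm (w := 23) (j := 1) (by decide +kernel)
theorem L00515 : Good (Phi V5.P V5.D 1 (-1)) ⟨6, 4, 5, 10, 3, 3, 1, 1, 2, 3⟩ :=
  out_sound (S := T5.ds_pm) T5.ok_pm (w := 21) (j := 1) (by decide +kernel)
theorem L00516 : Good (Phi V5.P V5.D 1 (-1)) ⟨6, 4, 5, 11, 3, 3, 1, 1, 3, 0⟩ :=
  leafYS_sound T5.ok_pm T5.Ypm.bz_eq (w := 227) (c := ⟨⟨.ofNat 310, .negSucc 33, .ofNat 58, .negSucc 88, .negSucc 435, .negSucc 992⟩, ⟨.negSucc 138, .ofNat 18, .negSucc 3, .ofNat 40, .ofNat 162, .ofNat 337⟩, ⟨.negSucc 547, .ofNat 43, .negSucc 26, .ofNat 124, .ofNat 748, .ofNat 816⟩, ⟨.ofNat 902, .negSucc 79, .ofNat 192, .negSucc 250, .negSucc 1343, .negSucc 3093⟩, ⟨.negSucc 60, .ofNat 52, .ofNat 62, .ofNat 40, .negSucc 109, .negSucc 381⟩, .ofNat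 1037, .ofNat 811, .ofNat 0, .ofNat 811, .ofNat 2222, .ofNat 0, .ofNat 301, .negSucc 112, .negSucc 237, .ofNat 0, .ofNat 128, .ofNat 104, .ofNat 0, .ofNat 0, .ofNat 633, .ofNat 1006, .ofNat 0, .ofNat 0, .ofNat 0, .ofNat 0, .ofNat 0, .ofNat 0, .ofNat 0, .ofNat 0, .ofNat 0, .ofNat 0, .ofNat 0, .ofNat 0, .ofNat 0, .ofNat 0, .ofNat 0, .ofNat 0⟩)
    (by decide +kernel)
theorem L00517 : Good (Phi V5.P V5.D 1 (-1)) ⟨6, 4, 5, 11, 3, 3, 1, 1, 3, 1⟩ :=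
  leafYS_sound T5.ok_pm T5.Ypm.bz_eq (w := 227) (c := ⟨⟨.negSucc 967, .ofNat 12, .negSucc 3, .negSucc 38, .ofNat 81, .negSucc 188⟩, ⟨.ofNat 301, .negSucc 0, .ofNat 40, .ofNat 10, .negSucc 11, .ofNat 78⟩, ⟨.ofNat 632, .negSucc 13, .ofNat 8, .ofNat 16, .ofNat 164, .ofNat 361⟩, ⟨.negSucc 3037, .ofNat 43, .negSucc 17, .negSucc 134, .ofNat 309, .negSucc 541⟩, ⟨.negSucc 410, .negSucc 1, .ofNat 14, .negSucc 48, .ofNat 182, .ofNat 56⟩, .ofNat 1089, .ofNat 893, .ofNat 0, .ofNat 893, .ofNat 2391, .ofNat 0, .ofNat 221, .negSucc 114, .negSucc 72, .ofNat 0, .ofNat 128, .ofNat 33, .ofNat 0, .ofNat 0, .ofNat 351, .ofNat 748, .ofNat 0, .ofNat 0, .ofNat 0, .ofNat 0, .ofNat 0, .ofNat 0, .ofNat 0, .ofNat 0, .ofNat 0, .ofNat 501808009280861956137592159430919647820991430656, .ofNat 0, .ofNat 0, .ofNat 0, .ofNat 247267537418302451096202855717711921164037652480,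 .ofNat 0, .ofNat 0⟩)
    (by decide +kernel)
theorem L00518 : Good (Phi V5.P V5.D 1 (-1)) ⟨6, 4, 5, 11, 3, 3, 1, 1, 3, 2⟩ :=
  leafYS_sound T5.ok_pm T5.Ypm.bz_eq (w := 227) (c := ⟨⟨.negSucc 1133, .negSucc 8, .ofNat 3, .negSucc 33, .negSucc 25, .ofNat 78⟩, ⟨.ofNat 373, .ofNat 7, .ofNat 35, .ofNat 7, .ofNat 27, .negSucc 22⟩, ⟨.ofNat 963, .ofNat 41, .ofNat 6, .ofNat 70, .ofNat 82, .ofNat 251⟩, ⟨.negSucc 3502, .negSucc 15, .negSucc 0, .negSucc 122, .negSucc 12, .ofNat 254⟩, ⟨.negSucc 331, .ofNat 3, .negSucc 1, .negSucc 56, .ofNat 167, .ofNat 59⟩, .ofNat 1071, .ofNat 865, .ofNat 0, .ofNat 865, .ofNat 2331, .ofNat 0, .ofNat 203, .negSucc 110, .negSucc 61, .ofNat 0, .ofNat 128, .ofNat 24, .ofNat 0, .ofNat 0, .ofNat 844, .ofNat 776, .ofNat 0, .ofNat 0, .ofNat 0, .ofNat 0, .ofNat 0, .ofNat 2061967892562686124448902157121208139192144494592,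 .ofNat 0, .ofNat 0, .ofNat 0, .ofNat 1594790466629953365120433936267500777145559416832, .ofNat 0, .ofNat 0, .ofNat 0, .ofNat 3502576005380098598572512734881262747865994756096, .ofNat 0, .ofNat 0⟩)
    (by decide +kernel)
theorem L00519 : Good (Phi V5.P V5.D 1 (-1)) ⟨6, 4, 5, 11, 3, 3, 2, 2, 4, 6⟩ :=
  leafYS_sound T5.ok_pm T5.Ypm.bz_eq (w := 240) (c := ⟨⟨.negSucc 1052, .negSucc 10, .ofNat 4, .negSucc 22, .negSucc 10, .ofNat 59⟩, ⟨.ofNat 351, .ofNat 6, .ofNat 33, .ofNat 1, .ofNat 10, .negSucc 22⟩, ⟨.ofNat 1170, .ofNat 55, .ofNat 7, .ofNat 213, .negSucc 2, .ofNat 282⟩, ⟨.negSucc 3233, .negSucc 25, .ofNat 4, .negSucc 92, .negSucc 7, .ofNat 172⟩, ⟨.negSucc 257, .negSucc 6, .negSucc 0, .negSucc 68, .ofNat 64, .negSucc 7⟩, .ofNat 1107, .ofNat 920, .ofNat 0, .ofNat 920, .ofNat 2453, .ofNat 0, .ofNat 166, .negSucc 108, .negSucc 58, .ofNat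 0, .ofNat 128, .ofNat 4, .ofNat 0, .ofNat 0, .ofNat 2920, .ofNat 19134, .ofNat 0, .ofNat 0, .ofNat 0, .ofNat 0, .ofNat 0, .ofNat 0, .ofNat 0, .ofNat 0, .ofNat 0, .ofNat 48552710505223366384987203834333219477170411274240, .ofNat 0, .ofNat 0, .ofNat 0, .ofNat 2172110109083808859964128566790900602903240512634880, .ofNat 0, .ofNat 0⟩)
    (by decide +kernel)
theorem L00520 : Good (Phi V5.P V5.D 1 (-1)) ⟨6, 4, 5, 11, 3, 3, 2, 2, 4, 7⟩ :=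
  leafYS_sound T5.ok_pm T5.Ypm.bz_eq (w := 238) (c := ⟨⟨.negSucc 995, .negSucc 3, .ofNat 1, .ofNat 5, .negSucc 27, .ofNat 65⟩, ⟨.ofNat 341, .ofNat 3, .ofNat 32, .negSucc 19, .ofNat 10, .negSucc 30⟩, ⟨.ofNat 956, .ofNat 51, .ofNat 44, .ofNat 790, .ofNat 238, .ofNat 502⟩, ⟨.negSucc 3027, .negSucc 6, .negSucc 7, .negSucc 48, .negSucc 86, .ofNat 172⟩, ⟨.negSucc 155, .negSucc 14, .negSucc 6, .negSucc 173, .negSucc 5, .negSucc 63⟩, .ofNat 922, .ofNat 643, .ofNat 0, .ofNat 643, .ofNat 1861, .ofNat 0, .ofNat 184, .negSucc 103, .ofNat 25, .ofNat 0, .ofNat 128, .negSucc 58, .ofNat 0, .ofNat 0, .ofNat 3647, .ofNat 3853, .ofNat 0, .ofNat 0, .ofNat 0, .ofNat 0, .ofNat 0, .ofNat 0, .ofNat 0, .ofNat 0, .ofNat 5101103158331834258534602670949925153576345887834112, .ofNat 146134948957972496417537254624457330918094266171392, .ofNat 0, .ofNat 0, .ofNat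 72997469964980003803909307677551394598425515580719104, .ofNat 4331358464375075934826675514321871377964208108863488, .ofNat 0, .ofNat 0⟩)
    (by decide +kernel)
theorem L00521 : Good (Phi V5.P V5.D 1 (-1)) ⟨6, 4, 5, 11, 3, 3, 2, 3, 3, 3⟩ :=
  leafYS_sound T5.ok_pm T5.Ypm.bz_eq (w := 232) (c := ⟨⟨.negSucc 1050, .negSucc 5, .ofNat 1, .negSucc 40, .negSucc 95, .ofNat 80⟩, ⟨.ofNat 359, .ofNat 4, .ofNat 33, .ofNat 5, .ofNat 51, .negSucc 31⟩, ⟨.ofNat 1129, .ofNat 30, .ofNat 26, .ofNat 390, .negSucc 146, .ofNat 367⟩, ⟨.negSucc 3197, .negSucc 11, .negSucc 6, .negSucc 160, .negSucc 228, .ofNat 232⟩, ⟨.negSucc 169, .negSucc 11, .negSucc 8, .negSucc 104, .ofNat 143, .negSucc 21⟩, .ofNat 922, .ofNat 642, .ofNat 0, .ofNat 642, .ofNat 1859, .ofNat 0, .ofNat 131, .negSucc 103, .ofNat 58, .ofNat 0, .ofNat 128, .negSucc 67, .ofNat 0, .ofNat 0,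 .ofNat 1540, .ofNat 1531, .ofNat 0, .ofNat 276425539333033040203831093572578090050385870848, .ofNat 0, .ofNat 0, .ofNat 0, .ofNat 7886096497010267521806841822230941074803293945856, .ofNat 0, .ofNat 0, .ofNat 0, .ofNat 10802390458675815217342564902228993029791926976512, .ofNat 0, .ofNat 0, .ofNat 0, .ofNat 136166376381334448520539014969379666836357117902848, .ofNat 0, .ofNat 0⟩)
    (by decide +kernel)
theorem L00522 : Good (Phi V5.P V5.D 1 (-1)) ⟨6, 4, 5, 11, 3, 3, 3, 4, 4, 8⟩ :=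
  out_sound (S := T5.ds_pm) T5.ok_pm (w := 27) (j := 1) (by decide +kernel)
theorem L00523 : Good (Phi V5.P V5.D 1 (-1)) ⟨6, 4, 5, 11, 4, 6, 3, 5, 5, 16⟩ :=
  out_sound (S := T5.ds_pm) T5.ok_pm (w := 31) (j := 1) (by decide +kernel)
theorem L00524 : Good (Phi V5.P V5.D 1 (-1)) ⟨6, 4, 5, 11, 4, 7, 4, 10, 5, 16⟩ :=
  out_sound (S := T5.ds_pm) T5.ok_pm (w := 32) (j := 1) (by decide +kernel)
theorem L00525 : Good (Phi V5.P V5.D 1 (-1)) ⟨6, 4, 5, 11, 4, 7, 4, 11, 5, 16⟩ :=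
  out_sound (S := T5.ds_pm) T5.ok_pm (w := 40) (j := 2) (by decide +kernel)
theorem L00526 : Good (Phi V5.P V5.D 1 (-1)) ⟨6, 4, 5, 11, 3, 3, 3, 5, 5, 17⟩ :=
  out_sound (S := T5.ds_pm) T5.ok_pm (w := 29) (j := 1) (by decide +kernel)
theorem L00527 : Good (Phi V5.P V5.D 1 (-1)) ⟨6, 4, 5, 11, 4, 6, 5, 24, 6, 32⟩ :=
  out_sound (S := T5.ds_pm) T5.ok_pm (w := 35) (j := 1) (by decide +kernel)
theorem L00528 : Good (Phi V5.P V5.D 1 (-1)) ⟨6, 4, 5, 11, 4, 6, 5, 25, 6, 32⟩ :=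
  out_sound (S := T5.ds_pm) T5.ok_pm (w := 44) (j := 2) (by decide +kernel)
theorem L00529 : Good (Phi V5.P V5.D 1 (-1)) ⟨6, 4, 5, 11, 4, 6, 4, 12, 6, 33⟩ :=
  out_sound (S := T5.ds_pm) T5.ok_pm (w := 34) (j := 1) (by decide +kernel)
theorem L00530 : Good (Phi V5.P V5.D 1 (-1)) ⟨6, 4, 5, 11, 4, 6, 4, 12, 5, 17⟩ :=
  out_sound (S := T5.ds_pm) T5.ok_pm (w := 32) (j := 1) (by decide +kernel)
theorem L00531 : Good (Phi V5.P V5.D 1 (-1)) ⟨6, 4, 5, 11, 4, 6, 4, 13, 4, 8⟩ :=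
  out_sound (S := T5.ds_pm) T5.ok_pm (w := 38) (j := 2) (by decide +kernel)
theorem L00532 : Good (Phi V5.P V5.D 1 (-1)) ⟨6, 4, 5, 11, 4, 7, 3, 6, 4, 8⟩ :=
  out_sound (S := T5.ds_pm) T5.ok_pm (w := 36) (j := 2) (by decide +kernel)
theorem L00533 : Good (Phi V5.P V5.D 1 (-1)) ⟨6, 4, 5, 11, 3, 3, 3, 7, 4, 8⟩ :=
  out_sound (S := T5.ds_pm) T5.ok_pm (w := 34) (j := 2) (by decide +kernel)
theorem L00534 : Good (Phi V5.P V5.D 1 (-1)) ⟨6, 4, 5, 11, 3, 3, 2, 2, 4, 9⟩ :=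
  out_sound (S := T5.ds_pm) T5.ok_pm (w := 26) (j := 1) (by decide +kernel)
theorem L00535 : Good (Phi V5.P V5.D 1 (-1)) ⟨6, 4, 5, 11, 3, 3, 2, 3, 4, 9⟩ :=
  out_sound (S := T5.ds_pm) T5.ok_pm (w := 32) (j := 2) (by decide +kernel)
theorem L00536 : Good (Phi V5.P V5.D 1 (-1)) ⟨6, 4, 5, 11, 3, 3, 1, 1, 3, 5⟩ :=
  out_sound (S := T5.ds_pm) T5.ok_pm (w := 23) (j := 1) (by decide +kernel)
theorem L00537 : Good (Phi V5.P V5.D 1 (-1)) ⟨6, 4, 5, 11, 3, 3, 1, 1, 2, 3⟩ :=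
  out_sound (S := T5.ds_pm) T5.ok_pm (w := 21) (j := 1) (by decide +kernel)
theorem L00538 : Good (Phi V5.P V5.D 1 (-1)) ⟨6, 5, 3, 2, 3, 3, 1, 1, 3, 0⟩ :=
  leafYS_sound T5.ok_pm T5.Ypm.bz_eq (w := 221) (c := ⟨⟨.ofNat 234, .ofNat 89, .ofNat 136, .negSucc 17, .negSucc 455, .negSucc 992⟩, ⟨.negSucc 125, .negSucc 16, .ofNat 21, .ofNat 14, .ofNat 152, .ofNat 283⟩, ⟨.negSucc 475, .negSucc 82, .negSucc 117, .ofNat 91, .ofNat 763, .ofNat 817⟩, ⟨.ofNat 625, .ofNat 293, .ofNat 429, .negSucc 23, .negSucc 1345, .negSucc 3046⟩, ⟨.negSucc 238, .ofNat 125, .ofNat 162, .ofNat 91, .ofNat 0, .negSucc 373⟩, .ofNat 944, .ofNat 650, .ofNat 0, .ofNat 650, .ofNat 2051, .ofNat 0, .ofNat 308, .negSucc 98, .negSucc 236, .ofNat 0, .ofNat 128, .ofNat 93, .ofNat 0, .ofNat 0, .ofNat 619, .ofNat 746, .ofNat 0, .ofNat 0, .ofNat 0, .ofNat 0, .ofNat 0, .ofNat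 0, .ofNat 0, .ofNat 0, .ofNat 0, .ofNat 0, .ofNat 0, .ofNat 0, .ofNat 0, .ofNat 0, .ofNat 0, .ofNat 0⟩)
    (by decide +kernel)
theorem L00539 : Good (Phi V5.P V5.D 1 (-1)) ⟨6, 5, 3, 2, 3, 3, 1, 1, 3, 1⟩ :=
  leafYS_sound T5.ok_pm T5.Ypm.bz_eq (w := 221) (c := ⟨⟨.negSucc 975, .negSucc 0, .ofNat 21, .negSucc 21, .ofNat 76, .negSucc 200⟩, ⟨.ofNat 207, .ofNat 3, .ofNat 141, .negSucc 0, .negSucc 10, .ofNat 71⟩, ⟨.ofNat 621, .ofNat 4, .negSucc 1, .negSucc 43, .ofNat 158, .ofNat 421⟩, ⟨.negSucc 2990, .negSucc 10, .ofNat 43, .negSucc 84, .ofNat 259, .negSucc 599⟩, ⟨.negSucc 312, .negSucc 66, .ofNat 67, .negSucc 69, .ofNat 100, .negSucc 24⟩, .ofNat 950, .ofNat 661, .ofNat 0, .ofNat 661, .ofNat 2061, .ofNat 0, .ofNat 188, .negSucc 101, .negSucc 77, .ofNat 0, .ofNat 128, .ofNat 32, .ofNat 0, .ofNat 0, .ofNat 376, .ofNat 610, .ofNat 0, .ofNat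 0, .ofNat 0, .ofNat 0, .ofNat 0, .ofNat 9098355148538461419056403635708744774979682304, .ofNat 0, .ofNat 0, .ofNat 0, .ofNat 0, .ofNat 0, .ofNat 0, .ofNat 0, .ofNat 0, .ofNat 0, .ofNat 0⟩)
    (by decide +kernel)
theorem L00540 : Good (Phi V5.P V5.D 1 (-1)) ⟨6, 5, 3, 2, 3, 3, 1, 1, 3, 2⟩ :=
  leafYS_sound T5.ok_pm T5.Ypm.bz_eq (w := 221) (c := ⟨⟨.negSucc 1148, .negSucc 3, .ofNat 13, .negSucc 39, .negSucc 15, .ofNat 76⟩, ⟨.ofNat 272, .ofNat 2, .ofNat 140, .ofNat 7, .ofNat 22, .negSucc 17⟩, ⟨.ofNat 971, .ofNat 28, .ofNat 24, .ofNat 74, .ofNat 71, .ofNat 233⟩, ⟨.negSucc 3507, .ofNat 3, .ofNat 4, .negSucc 139, .ofNat 6, .ofNat 243⟩, ⟨.negSucc 322, .negSucc 1, .negSucc 4, .negSucc 66, .ofNat 154, .ofNat 59⟩, .ofNat 660, .ofNat 293, .ofNat 0, .ofNat 293, .ofNat 1155, .ofNat 0, .ofNat 213, .negSucc 78, .negSucc 65, .ofNat 0, .ofNat 128,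 .ofNat 21, .ofNat 0, .ofNat 0, .ofNat 784, .ofNat 733, .ofNat 0, .ofNat 0, .ofNat 0, .ofNat 0, .ofNat 0, .ofNat 29713457462507724503328718984302039903210831872, .ofNat 0, .ofNat 0, .ofNat 0, .ofNat 19997059531494787119686863072280709971774013440, .ofNat 0, .ofNat 0, .ofNat 0, .ofNat 48216643733479843975243659976756132804544167936, .ofNat 0, .ofNat 0⟩)
    (by decide +kernel)
theorem L00541 : Good (Phi V5.P V5.D 1 (-1)) ⟨6, 5, 3, 2, 3, 3, 2, 2, 3, 3⟩ :=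
  leafYS_sound T5.ok_pm T5.Ypm.bz_eq (w := 227) (c := ⟨⟨.negSucc 1058, .negSucc 6, .ofNat 5, .negSucc 21, .negSucc 10, .ofNat 105⟩, ⟨.ofNat 256, .ofNat 4, .ofNat 134, .negSucc 1, .ofNat 9, .negSucc 36⟩, ⟨.ofNat 1047, .ofNat 12, .ofNat 115, .ofNat 302, .ofNat 60, .ofNat 475⟩, ⟨.negSucc 3212, .negSucc 11, .negSucc 20, .negSucc 91, .negSucc 17, .ofNat 308⟩, ⟨.negSucc 238, .negSucc 5, .negSucc 11, .negSucc 82, .ofNat 42, .negSucc 5⟩, .ofNat 860, .ofNat 533, .ofNat 0, .ofNat 533, .ofNat 1753, .ofNat 0, .ofNat 160, .negSucc 92, .negSucc 34, .ofNat 0, .ofNat 128, .negSucc 10, .ofNat 0, .ofNat 0, .ofNat 2375, .ofNat 3141, .ofNat 0, .ofNat 0, .ofNat 0, .ofNat 0, .ofNat 0, .ofNat 0, .ofNat 0, .ofNat 0, .ofNat 0, .ofNat 148962453970504545550292261185064392931693035520, .ofNat 0, .ofNat 0, .ofNat 0, .ofNat 3172078507691584794796417409296346596467634339840,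 .ofNat 0, .ofNat 0⟩)
    (by decide +kernel)
theorem L00542 : Good (Phi V5.P V5.D 1 (-1)) ⟨6, 5, 3, 2, 3, 3, 2, 3, 3, 3⟩ :=
  leafYS_sound T5.ok_pm T5.Ypm.bz_eq (w := 226) (c := ⟨⟨.negSucc 1060, .negSucc 9, .ofNat 8, .negSucc 41, .negSucc 102, .ofNat 80⟩, ⟨.ofNat 264, .ofNat 6, .ofNat 131, .ofNat 3, .ofNat 52, .negSucc 28⟩, ⟨.ofNat 1053, .ofNat 14, .ofNat 150, .ofNat 385, .negSucc 194, .ofNat 342⟩, ⟨.negSucc 3200, .negSucc 17, .negSucc 10, .negSucc 156, .negSucc 241, .ofNat 227⟩, ⟨.negSucc 174, .negSucc 2, .negSucc 31, .negSucc 94, .ofNat 168, .negSucc 4⟩, .ofNat 862, .ofNat 537, .ofNat 0, .ofNat 537, .ofNat 1757, .ofNat 0, .ofNat 137, .negSucc 92, .ofNat 52, .ofNat 0, .ofNat 128, .negSucc 67, .ofNat 0, .ofNat 0, .ofNat 1586, .ofNat 1011, .ofNat 0, .ofNat 3437663562096219953684991599390103701670592512, .ofNat 0, .ofNat 0, .ofNat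 0, .ofNat 104534514750428787147423364132693154859753406464, .ofNat 0, .ofNat 0, .ofNat 0, .ofNat 157245317954550155310743372499718172860015968256, .ofNat 0, .ofNat 0, .ofNat 0, .ofNat 1750805427144085863428905735468338195577656311808, .ofNat 0, .ofNat 0⟩)
    (by decide +kernel)
theorem L00543 : Good (Phi V5.P V5.D 1 (-1)) ⟨6, 5, 3, 2, 3, 3, 3, 4, 4, 8⟩ :=
  out_sound (S := T5.ds_pm) T5.ok_pm (w := 27) (j := 1) (by decide +kernel)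
theorem L00544 : Good (Phi V5.P V5.D 1 (-1)) ⟨6, 5, 3, 2, 4, 6, 3, 5, 5, 16⟩ :=
  out_sound (S := T5.ds_pm) T5.ok_pm (w := 31) (j := 1) (by decide +kernel)
theorem L00545 : Good (Phi V5.P V5.D 1 (-1)) ⟨6, 5, 3, 2, 4, 7, 4, 10, 5, 16⟩ :=
  out_sound (S := T5.ds_pm) T5.ok_pm (w := 32) (j := 1) (by decide +kernel)
theorem L00546 : Good (Phi V5.P V5.D 1 (-1)) ⟨6, 5, 3, 2, 4, 7, 4, 11, 5, 16⟩ :=
  out_sound (S := T5.ds_pm) T5.ok_pm (w := 40) (j := 2) (by decide +kernel)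
theorem L00547 : Good (Phi V5.P V5.D 1 (-1)) ⟨6, 5, 3, 2, 3, 3, 3, 5, 5, 17⟩ :=
  out_sound (S := T5.ds_pm) T5.ok_pm (w := 29) (j := 1) (by decide +kernel)
theorem L00548 : Good (Phi V5.P V5.D 1 (-1)) ⟨6, 5, 3, 2, 4, 6, 5, 24, 6, 32⟩ :=
  out_sound (S := T5.ds_pm) T5.ok_pm (w := 35) (j := 1) (by decide +kernel)
theorem L00549 : Good (Phi V5.P V5.D 1 (-1)) ⟨6, 5, 3, 2, 4, 6, 5, 25, 6, 32⟩ :=
  out_sound (S := T5.ds_pm) T5.ok_pm (w := 44) (j := 2) (by decide +kernel)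
theorem L00550 : Good (Phi V5.P V5.D 1 (-1)) ⟨6, 5, 3, 2, 4, 6, 4, 12, 6, 33⟩ :=
  out_sound (S := T5.ds_pm) T5.ok_pm (w := 34) (j := 1) (by decide +kernel)
theorem L00551 : Good (Phi V5.P V5.D 1 (-1)) ⟨6, 5, 3, 2, 4, 6, 4, 12, 5, 17⟩ :=
  out_sound (S := T5.ds_pm) T5.ok_pm (w := 32) (j := 1) (by decide +kernel)
theorem L00552 : Good (Phi V5.P V5.D 1 (-1)) ⟨6, 5, 3, 2, 4, 6, 4, 13, 4, 8⟩ :=
  out_sound (S := T5.ds_pm) T5.ok_pm (w := 38) (j := 2) (by decide +kernel)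
theorem L00553 : Good (Phi V5.P V5.D 1 (-1)) ⟨6, 5, 3, 2, 4, 7, 3, 6, 4, 8⟩ :=
  out_sound (S := T5.ds_pm) T5.ok_pm (w := 36) (j := 2) (by decide +kernel)
theorem L00554 : Good (Phi V5.P V5.D 1 (-1)) ⟨6, 5, 3, 2, 3, 3, 3, 7, 4, 8⟩ :=
  out_sound (S := T5.ds_pm) T5.ok_pm (w := 34) (j := 2) (by decide +kernel)
theorem L00555 : Good (Phi V5.P V5.D 1 (-1)) ⟨6, 5, 3, 2, 3, 3, 2, 2, 4, 9⟩ :=
  out_sound (S := T5.ds_pm) T5.ok_pm (w := 26) (j := 1) (by decide +kernel)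
theorem L00556 : Good (Phi V5.P V5.D 1 (-1)) ⟨6, 5, 3, 2, 3, 3, 2, 3, 4, 9⟩ :=
  out_sound (S := T5.ds_pm) T5.ok_pm (w := 32) (j := 2) (by decide +kernel)
theorem L00557 : Good (Phi V5.P V5.D 1 (-1)) ⟨6, 5, 3, 2, 3, 3, 1, 1, 3, 5⟩ :=
  out_sound (S := T5.ds_pm) T5.ok_pm (w := 23) (j := 1) (by decide +kernel)
theorem L00558 : Good (Phi V5.P V5.D 1 (-1)) ⟨6, 5, 3, 2, 3, 3, 1, 1, 2, 3⟩ :=
  out_sound (S := T5.ds_pm) T5.ok_pm (w := 21) (j := 1) (by decide +kernel)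
theorem L00559 : Good (Phi V5.P V5.D 1 (-1)) ⟨6, 6, 3, 2, 3, 3, 1, 0, 3, 0⟩ :=
  leafYS_sound T5.ok_pm T5.Ypm.bz_eq (w := 221) (c := ⟨⟨.ofNat 848, .ofNat 26, .ofNat 45, .ofNat 161, .ofNat 6, .negSucc 2020⟩, ⟨.negSucc 319, .negSucc 21, .negSucc 35, .negSucc 63, .ofNat 64, .ofNat 635⟩, ⟨.negSucc 816, .ofNat 6, .negSucc 32, .negSucc 197, .ofNat 14, .ofNat 1404⟩, ⟨.ofNat 2245, .ofNat 178, .ofNat 126, .ofNat 531, .ofNat 196, .negSucc 6027⟩, ⟨.negSucc 793, .ofNat 269, .ofNat 130, .ofNat 161, .ofNat 551, .negSucc 318⟩, .ofNat 859, .ofNat 537, .ofNat 0, .ofNat 537, .ofNat 1765, .ofNat 0, .ofNat 218, .negSucc 107, .negSucc 80, .ofNat 0, .ofNat 128, .ofNat 35, .ofNat 0, .ofNat 0, .ofNat 310, .ofNat 1329, .ofNat 0, .ofNat 0, .ofNat 0, .ofNat 0, .ofNat 3728822778252658047134434233714882565499781120, .ofNat 0, .ofNat 0, .ofNat 0, .ofNat 0,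 .ofNat 0, .ofNat 0, .ofNat 0, .ofNat 18846292157728682149489310066478997194883989504, .ofNat 0, .ofNat 0, .ofNat 0⟩)
    (by decide +kernel)
theorem L00560 : Good (Phi V5.P V5.D 1 (-1)) ⟨6, 7, 3, 2, 3, 3, 1, 0, 3, 0⟩ :=
  leafYS_sound T5.ok_pm T5.Ypm.bz_eq (w := 221) (c := ⟨⟨.ofNat 867, .ofNat 18, .ofNat 55, .ofNat 144, .negSucc 36, .negSucc 2014⟩, ⟨.negSucc 342, .negSucc 3, .negSucc 24, .negSucc 63, .ofNat 65, .ofNat 630⟩, ⟨.negSucc 842, .negSucc 7, .negSucc 71, .negSucc 141, .ofNat 27, .ofNat 1447⟩, ⟨.ofNat 2425, .ofNat 59, .ofNat 152, .ofNat 413, .ofNat 35, .negSucc 6087⟩, ⟨.negSucc 461, .ofNat 34, .ofNat 95, .negSucc 26, .ofNat 487, .negSucc 481⟩, .ofNat 658, .ofNat 299, .ofNat 0, .ofNat 299, .ofNat 1167, .ofNat 0, .ofNat 255, .negSucc 90, .negSucc 115, .ofNat 0, .ofNat 128, .ofNat 49, .ofNat 0, .ofNat 0, .ofNat 399, .ofNat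 1380, .ofNat 0, .ofNat 0, .ofNat 0, .ofNat 0, .ofNat 41763234875997015038058999456645864784171892736, .ofNat 0, .ofNat 0, .ofNat 0, .ofNat 0, .ofNat 0, .ofNat 0, .ofNat 0, .ofNat 0, .ofNat 0, .ofNat 0, .ofNat 0⟩)
    (by decide +kernel)
theorem L00561 : Good (Phi V5.P V5.D 1 (-1)) ⟨5, 3, 3, 2, 3, 3, 1, 0, 3, 1⟩ :=
  leafYS_sound T5.ok_pm T5.Ypm.bz_eq (w := 218) (c := ⟨⟨.negSucc 1106, .negSucc 19, .ofNat 22, .negSucc 8, .ofNat 105, .negSucc 200⟩, ⟨.ofNat 226, .ofNat 16, .ofNat 149, .negSucc 8, .negSucc 12, .ofNat 77⟩, ⟨.ofNat 548, .ofNat 30, .negSucc 7, .negSucc 172, .ofNat 123, .ofNat 480⟩, ⟨.negSucc 3441, .negSucc 22, .ofNat 20, .negSucc 60, .ofNat 373, .negSucc 573⟩, ⟨.negSucc 578, .ofNat 18, .ofNat 20, .negSucc 101, .ofNat 195, .ofNat 77⟩, .ofNat 661, .ofNat 301, .ofNat 0, .ofNat 301, .ofNat 1166, .ofNat 0, .ofNat 371, .negSucc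 85, .negSucc 99, .ofNat 0, .ofNat 128, .ofNat 48, .ofNat 0, .ofNat 0, .ofNat 557, .ofNat 2914, .ofNat 0, .ofNat 0, .ofNat 0, .ofNat 0, .ofNat 0, .ofNat 0, .ofNat 0, .ofNat 0, .ofNat 0, .ofNat 0, .ofNat 0, .ofNat 0, .ofNat 18359819517303491090672397502749628046541586432, .ofNat 0, .ofNat 0, .ofNat 0⟩)
    (by decide +kernel)
theorem L00562 : Good (Phi V5.P V5.D 1 (-1)) ⟨5, 3, 3, 2, 3, 3, 2, 0, 3, 2⟩ :=
  leafYS_sound T5.ok_pm T5.Ypm.bz_eq (w := 226) (c := ⟨⟨.negSucc 1285, .negSucc 11, .ofNat 15, .negSucc 10, .ofNat 51, .ofNat 76⟩, ⟨.ofNat 295, .ofNat 11, .ofNat 157, .negSucc 7, .negSucc 4, .negSucc 15⟩, ⟨.ofNat 1076, .ofNat 9, .negSucc 8, .negSucc 196, .ofNat 40, .ofNat 346⟩, ⟨.negSucc 3940, .ofNat 2, .negSucc 6, .negSucc 64, .ofNat 178, .ofNat 249⟩, ⟨.negSucc 476, .ofNat 10, .ofNat 6, .negSucc 99, .ofNat 96, .ofNat 83⟩, .ofNat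 867, .ofNat 557, .ofNat 0, .ofNat 557, .ofNat 1790, .ofNat 0, .ofNat 131, .negSucc 101, .negSucc 76, .ofNat 0, .ofNat 128, .ofNat 40, .ofNat 0, .ofNat 0, .ofNat 724, .ofNat 68650, .ofNat 227268557616773554987868769050510819765113585664, .ofNat 0, .ofNat 0, .ofNat 0, .ofNat 925483618277747470126506013055544395835654537216, .ofNat 0, .ofNat 0, .ofNat 0, .ofNat 339639001477615325727411337456081959049276424192, .ofNat 0, .ofNat 0, .ofNat 0, .ofNat 810719758055072974606706551955480477689440108544, .ofNat 0, .ofNat 0, .ofNat 0⟩)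
    (by decide +kernel)
theorem L00563 : Good (Phi V5.P V5.D 1 (-1)) ⟨5, 3, 3, 2, 3, 3, 2, 1, 3, 2⟩ :=
  leafYS_sound T5.ok_pm T5.Ypm.bz_eq (w := 225) (c := ⟨⟨.negSucc 1230, .negSucc 10, .ofNat 11, .negSucc 15, .ofNat 45, .ofNat 107⟩, ⟨.ofNat 294, .ofNat 7, .ofNat 147, .negSucc 1, .negSucc 8, .negSucc 27⟩, ⟨.ofNat 1041, .ofNat 28, .ofNat 3, .negSucc 90, .ofNat 16, .ofNat 284⟩, ⟨.negSucc 3750, .ofNat 6, .negSucc 12, .negSucc 73, .ofNat 151, .ofNat 331⟩, ⟨.negSucc 373, .ofNat 8, .negSucc 2, .negSucc 77, .ofNat 53, .ofNat 60⟩, .ofNat 855, .ofNat 533, .ofNat 0, .ofNat 533, .ofNat 1765, .ofNat 0, .ofNat 228, .negSucc 96, .negSucc 96, .ofNat 0, .ofNat 128, .ofNat 45, .ofNat 0, .ofNat 0, .ofNat 1178, .ofNat 28089, .ofNat 72658019550572089665778774439961259734332342272, .ofNat 0, .ofNat 0, .ofNat 0, .ofNat 48725307362899496015060083955652326273138556928,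 .ofNat 0, .ofNat 0, .ofNat 0, .ofNat 0, .ofNat 0, .ofNat 0, .ofNat 0, .ofNat 0, .ofNat 0, .ofNat 0, .ofNat 0⟩)
    (by decide +kernel)
theorem L00564 : Good (Phi V5.P V5.D 1 (-1)) ⟨5, 3, 3, 2, 3, 3, 1, 0, 3, 3⟩ :=
  leafYS_sound T5.ok_pm T5.Ypm.bz_eq (w := 223) (c := ⟨⟨.negSucc 1104, .negSucc 12, .ofNat 9, .negSucc 17, .ofNat 28, .ofNat 132⟩, ⟨.ofNat 266, .ofNat 9, .ofNat 137, .negSucc 1, .negSucc 4, .negSucc 39⟩, ⟨.ofNat 1181, .ofNat 23, .ofNat 51, .ofNat 58, .ofNat 54, .ofNat 515⟩, ⟨.negSucc 3374, .negSucc 8, .negSucc 11, .negSucc 75, .ofNat 113, .ofNat 399⟩, ⟨.negSucc 329, .negSucc 2, .ofNat 1, .negSucc 73, .ofNat 68, .ofNat 41⟩, .ofNat 420, .ofNat 108, .ofNat 0, .ofNat 108, .ofNat 598, .ofNat 0, .ofNat 130, .negSucc 50, .negSucc 72, .ofNat 0, .ofNat 128, .ofNat 23, .ofNat 0, .ofNat 0, .ofNat 1377, .ofNat 102363, .ofNat 48651759547013042541457097500092239785033203712,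 .ofNat 0, .ofNat 0, .ofNat 0, .ofNat 116478084804280663631702605493938592382005018624, .ofNat 0, .ofNat 0, .ofNat 0, .ofNat 114198710457569044857257082945608041962504454144, .ofNat 0, .ofNat 0, .ofNat 0, .ofNat 932316370422627207971455077166430690080358137856, .ofNat 0, .ofNat 0, .ofNat 0⟩)
    (by decide +kernel)
theorem L00565 : Good (Phi V5.P V5.D 1 (-1)) ⟨5, 3, 3, 2, 3, 3, 1, 0, 1, 1⟩ :=
  out_sound (S := T5.ds_pm) T5.ok_pm (w := 19) (j := 1) (by decide +kernel)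
theorem L00566 : Good (Phi V5.P V5.D 1 (-1)) ⟨5, 3, 4, 4, 3, 3, 3, 4, 2, 0⟩ :=
  leafYS_sound T5.ok_pm T5.Ypm.bz_eq (w := 222) (c := ⟨⟨.negSucc 104, .negSucc 2, .negSucc 2, .negSucc 32, .ofNat 32, .negSucc 1112⟩, ⟨.negSucc 19, .ofNat 8, .ofNat 64, .ofNat 2, .negSucc 3, .ofNat 316⟩, ⟨.negSucc 147, .ofNat 29, .ofNat 2, .negSucc 35, .ofNat 41, .ofNat 1189⟩, ⟨.negSucc 361, .ofNat 24, .negSucc 15, .negSucc 120, .ofNat 101, .negSucc 3354⟩, ⟨.negSucc 210, .ofNat 17, .ofNat 37, .negSucc 76, .ofNat 32, .negSucc 164⟩, .ofNat 830, .ofNat 485, .ofNat 0, .ofNat 485, .ofNat 1723, .ofNat 0, .ofNat 383, .negSucc 93, .negSucc 103, .ofNat 0, .ofNat 128, .ofNat 42, .ofNat 0, .ofNat 0, .ofNat 439, .ofNat 877, .ofNat 0, .ofNat 0, .ofNat 0, .ofNat 0, .ofNat 0, .ofNat 0, .ofNat 0, .ofNat 0, .ofNat 0, .ofNat 0, .ofNat 0, .ofNat 0, .ofNat 0, .ofNat 0,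 .ofNat 0, .ofNat 0⟩)
    (by decide +kernel)
theorem L00567 : Good (Phi V5.P V5.D 1 (-1)) ⟨5, 3, 4, 4, 3, 3, 3, 4, 2, 1⟩ :=
  leafYS_sound T5.ok_pm T5.Ypm.bz_eq (w := 224) (c := ⟨⟨.negSucc 1167, .negSucc 11, .ofNat 1, .negSucc 24, .ofNat 11, .ofNat 191⟩, ⟨.ofNat 281, .ofNat 9, .ofNat 70, .ofNat 0, .negSucc 0, .negSucc 44⟩, ⟨.ofNat 976, .ofNat 7, .ofNat 17, .ofNat 81, .ofNat 27, .ofNat 526⟩, ⟨.negSucc 3547, .negSucc 7, .negSucc 16, .negSucc 94, .ofNat 39, .ofNat 594⟩, ⟨.negSucc 316, .negSucc 2, .negSucc 1, .negSucc 70, .ofNat 23, .ofNat 100⟩, .ofNat 827, .ofNat 479, .ofNat 0, .ofNat 479, .ofNat 1719, .ofNat 0, .ofNat 223, .negSucc 88, .negSucc 93, .ofNat 0, .ofNat 128, .ofNat 32, .ofNat 0, .ofNat 0, .ofNat 1555, .ofNat 1856, .ofNat 0, .ofNat 0, .ofNat 0, .ofNat 0, .ofNat 0, .ofNat 0, .ofNat 0, .ofNat 0, .ofNat 0, .ofNat 0, .ofNat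 0, .ofNat 0, .ofNat 15121045336896900705682475890974488546152401600512, .ofNat 0, .ofNat 0, .ofNat 0⟩)
    (by decide +kernel)
theorem L00568 : Good (Phi V5.P V5.D 1 (-1)) ⟨5, 3, 4, 4, 3, 3, 3, 4, 1, 1⟩ :=
  out_sound (S := T5.ds_pm) T5.ok_pm (w := 21) (j := 1) (by decide +kernel)
theorem L00569 : Good (Phi V5.P V5.D 1 (-1)) ⟨5, 3, 4, 4, 3, 3, 3, 5, 2, 0⟩ :=
  leafYS_sound T5.ok_pm T5.Ypm.bz_eq (w := 223) (c := ⟨⟨.negSucc 274, .ofNat 34, .ofNat 8, .ofNat 36, .ofNat 2, .negSucc 946⟩, ⟨.ofNat 28, .negSucc 5, .ofNat 62, .negSucc 12, .ofNat 2, .ofNat 268⟩, ⟨.ofNat 54, .negSucc 18, .ofNat 5, .negSucc 42, .ofNat 41, .ofNat 1023⟩, ⟨.negSucc 886, .ofNat 134, .ofNat 13, .ofNat 139, .ofNat 2, .negSucc 2847⟩, ⟨.negSucc 190, .ofNat 14, .ofNat 19, .ofNat 92, .negSucc 11, .negSucc 223⟩, .ofNat 948, .ofNat 651, .ofNat 0, .ofNat 651, .ofNat 2171,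 .ofNat 0, .ofNat 338, .negSucc 95, .negSucc 101, .ofNat 0, .ofNat 128, .ofNat 39, .ofNat 0, .ofNat 0, .ofNat 409, .ofNat 842, .ofNat 0, .ofNat 0, .ofNat 0, .ofNat 0, .ofNat 0, .ofNat 0, .ofNat 0, .ofNat 0, .ofNat 0, .ofNat 0, .ofNat 0, .ofNat 0, .ofNat 0, .ofNat 0, .ofNat 0, .ofNat 0⟩)
    (by decide +kernel)
theorem L00570 : Good (Phi V5.P V5.D 1 (-1)) ⟨5, 3, 4, 4, 3, 3, 3, 5, 2, 1⟩ :=
  leafYS_sound T5.ok_pm T5.Ypm.bz_eq (w := 223) (c := ⟨⟨.negSucc 1140, .negSucc 14, .ofNat 5, .negSucc 31, .negSucc 11, .ofNat 170⟩, ⟨.ofNat 279, .ofNat 8, .ofNat 67, .ofNat 2, .ofNat 7, .negSucc 42⟩, ⟨.ofNat 938, .ofNat 35, .ofNat 45, .ofNat 184, .ofNat 31, .ofNat 516⟩, ⟨.negSucc 3454, .negSucc 19, .negSucc 4, .negSucc 112, .negSucc 28, .ofNat 520⟩, ⟨.negSucc 277, .negSucc 12, .negSucc 12, .negSucc 64, .ofNat 25, .ofNat 75⟩, .ofNat 912, .ofNat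 600, .ofNat 0, .ofNat 600, .ofNat 2017, .ofNat 0, .ofNat 231, .negSucc 92, .negSucc 64, .ofNat 0, .ofNat 128, .ofNat 12, .ofNat 0, .ofNat 0, .ofNat 1560, .ofNat 849, .ofNat 0, .ofNat 0, .ofNat 0, .ofNat 0, .ofNat 0, .ofNat 0, .ofNat 0, .ofNat 0, .ofNat 0, .ofNat 0, .ofNat 0, .ofNat 0, .ofNat 791814249245828815947529989274816470981367824384, .ofNat 304502846468981210507421541004711897384192311296, .ofNat 0, .ofNat 0⟩)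
    (by decide +kernel)
theorem L00571 : Good (Phi V5.P V5.D 1 (-1)) ⟨5, 3, 4, 4, 4, 6, 3, 5, 5, 16⟩ :=
  out_sound (S := T5.ds_pm) T5.ok_pm (w := 31) (j := 1) (by decide +kernel)
theorem L00572 : Good (Phi V5.P V5.D 1 (-1)) ⟨5, 3, 4, 4, 4, 7, 4, 10, 5, 16⟩ :=
  out_sound (S := T5.ds_pm) T5.ok_pm (w := 32) (j := 1) (by decide +kernel)
theorem L00573 : Good (Phi V5.P V5.D 1 (-1)) ⟨5, 3, 4, 4, 4, 7, 4, 11, 5, 16⟩ :=
  out_sound (S := T5.ds_pm) T5.ok_pm (w := 40) (j := 2) (by decide +kernel)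
theorem L00574 : Good (Phi V5.P V5.D 1 (-1)) ⟨5, 3, 4, 4, 3, 3, 3, 5, 5, 17⟩ :=
  out_sound (S := T5.ds_pm) T5.ok_pm (w := 29) (j := 1) (by decide +kernel)
theorem L00575 : Good (Phi V5.P V5.D 1 (-1)) ⟨5, 3, 4, 4, 3, 3, 3, 5, 4, 9⟩ :=
  out_sound (S := T5.ds_pm) T5.ok_pm (w := 27) (j := 1) (by decide +kernel)
theorem L00576 : Good (Phi V5.P V5.D 1 (-1)) ⟨5, 3, 4, 4, 3, 3, 3, 5, 3, 5⟩ :=
  out_sound (S := T5.ds_pm) T5.ok_pm (w := 25) (j := 1) (by decide +kernel)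
theorem L00577 : Good (Phi V5.P V5.D 1 (-1)) ⟨5, 3, 4, 4, 3, 3, 3, 5, 2, 3⟩ :=
  out_sound (S := T5.ds_pm) T5.ok_pm (w := 23) (j := 1) (by decide +kernel)
theorem L00578 : Good (Phi V5.P V5.D 1 (-1)) ⟨5, 3, 4, 5, 3, 3, 3, 4, 2, 0⟩ :=
  leafYS_sound T5.ok_pm T5.Ypm.bz_eq (w := 222) (c := ⟨⟨.negSucc 198, .ofNat 26, .ofNat 9, .ofNat 20, .ofNat 59, .negSucc 1070⟩, ⟨.ofNat 21, .negSucc 6, .ofNat 60, .negSucc 10, .negSucc 13, .ofNat 370⟩, ⟨.negSucc 110, .ofNat 13, .negSucc 8, .negSucc 70, .ofNat 50, .ofNat 1172⟩, ⟨.negSucc 685, .ofNat 109, .ofNat 12, .ofNat 35, .ofNat 205, .negSucc 3206⟩, ⟨.negSucc 272, .ofNat 29, .ofNat 22, .negSucc 51, .ofNat 95, .negSucc 140⟩, .ofNat 1011, .ofNat 783, .ofNat 0, .ofNat 783, .ofNat 2208, .ofNat 0, .ofNat 314, .negSucc 113, .negSucc 90, .ofNat 0, .ofNat 128, .ofNat 41, .ofNat 0, .ofNat 0, .ofNat 400,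 .ofNat 699, .ofNat 0, .ofNat 0, .ofNat 0, .ofNat 0, .ofNat 0, .ofNat 0, .ofNat 0, .ofNat 0, .ofNat 0, .ofNat 0, .ofNat 0, .ofNat 0, .ofNat 0, .ofNat 0, .ofNat 0, .ofNat 0⟩)
    (by decide +kernel)
theorem L00579 : Good (Phi V5.P V5.D 1 (-1)) ⟨5, 3, 4, 5, 3, 3, 3, 4, 2, 1⟩ :=
  leafYS_sound T5.ok_pm T5.Ypm.bz_eq (w := 224) (c := ⟨⟨.negSucc 1162, .negSucc 19, .ofNat 3, .negSucc 25, .ofNat 8, .ofNat 195⟩, ⟨.ofNat 355, .ofNat 12, .ofNat 70, .ofNat 2, .ofNat 0, .negSucc 61⟩, ⟨.ofNat 989, .negSucc 16, .ofNat 9, .ofNat 96, .ofNat 12, .ofNat 608⟩, ⟨.negSucc 3547, .negSucc 27, .negSucc 11, .negSucc 101, .ofNat 32, .ofNat 606⟩, ⟨.negSucc 309, .negSucc 1, .negSucc 2, .negSucc 73, .ofNat 22, .ofNat 88⟩, .ofNat 904, .ofNat 624, .ofNat 0, .ofNat 624, .ofNat 1853, .ofNat 0, .ofNat 166, .negSucc 104, .negSucc 100, .ofNat 0, .ofNat 128, .ofNat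 40, .ofNat 0, .ofNat 0, .ofNat 1549, .ofNat 1677, .ofNat 0, .ofNat 0, .ofNat 0, .ofNat 0, .ofNat 0, .ofNat 0, .ofNat 0, .ofNat 0, .ofNat 0, .ofNat 0, .ofNat 0, .ofNat 0, .ofNat 15421124055419239003907230861737831433375531925504, .ofNat 0, .ofNat 0, .ofNat 0⟩)
    (by decide +kernel)
theorem L00580 : Good (Phi V5.P V5.D 1 (-1)) ⟨5, 3, 4, 5, 3, 3, 3, 4, 1, 1⟩ :=
  out_sound (S := T5.ds_pm) T5.ok_pm (w := 21) (j := 1) (by decide +kernel)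
theorem L00581 : Good (Phi V5.P V5.D 1 (-1)) ⟨6, 6, 4, 5, 3, 3, 3, 5, 3, 0⟩ :=
  leafYS_sound T5.ok_pm T5.Ypm.bz_eq (w := 232) (c := ⟨⟨.ofNat 98, .ofNat 0, .ofNat 46, .ofNat 105, .negSucc 54, .negSucc 1063⟩, ⟨.negSucc 66, .ofNat 3, .ofNat 10, .negSucc 32, .ofNat 24, .ofNat 362⟩, ⟨.negSucc 258, .ofNat 17, .negSucc 34, .negSucc 77, .ofNat 144, .ofNat 895⟩, ⟨.ofNat 231, .negSucc 1, .ofNat 137, .ofNat 347, .negSucc 158, .negSucc 3238⟩, ⟨.negSucc 163, .negSucc 13, .ofNat 45, .ofNat 91, .ofNat 15, .negSucc 292⟩, .ofNat 1080, .ofNat 887, .ofNat 0, .ofNat 887, .ofNat 2420, .ofNat 0, .ofNat 260, .negSucc 112, .negSucc 180, .ofNat 0, .ofNat 128, .ofNat 78, .ofNat 0, .ofNat 0, .ofNat 490, .ofNat 1933, .ofNat 0, .ofNat 0, .ofNat 0, .ofNat 0, .ofNat 0, .ofNat 0, .ofNat 0, .ofNat 0, .ofNat 0, .ofNat 0, .ofNat 0, .ofNat 0, .ofNat 0, .ofNat 0,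 .ofNat 0, .ofNat 0⟩)
    (by decide +kernel)
theorem L00582 : Good (Phi V5.P V5.D 1 (-1)) ⟨6, 6, 4, 5, 3, 3, 3, 5, 3, 1⟩ :=
  leafYS_sound T5.ok_pm T5.Ypm.bz_eq (w := 234) (c := ⟨⟨.negSucc 943, .ofNat 3, .ofNat 22, .negSucc 30, .ofNat 23, .negSucc 213⟩, ⟨.ofNat 272, .ofNat 0, .ofNat 63, .ofNat 4, .negSucc 6, .ofNat 85⟩, ⟨.ofNat 666, .negSucc 0, .negSucc 7, .negSucc 2, .ofNat 37, .ofNat 399⟩, ⟨.negSucc 2910, .ofNat 18, .ofNat 48, .negSucc 109, .ofNat 69, .negSucc 618⟩, ⟨.negSucc 337, .negSucc 11, .ofNat 5, .negSucc 56, .ofNat 2, .ofNat 41⟩, .ofNat 900, .ofNat 614, .ofNat 0, .ofNat 614, .ofNat 1839, .ofNat 0, .ofNat 242, .negSucc 107, .negSucc 95, .ofNat 0, .ofNat 128, .ofNat 42, .ofNat 0, .ofNat 0, .ofNat 446, .ofNat 4863, .ofNat 0, .ofNat 0, .ofNat 0, .ofNat 0, .ofNat 0, .ofNat 0, .ofNat 0, .ofNat 0, .ofNat 0, .ofNat 0, .ofNat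 0, .ofNat 0, .ofNat 0, .ofNat 0, .ofNat 0, .ofNat 0⟩)
    (by decide +kernel)
theorem L00583 : Good (Phi V5.P V5.D 1 (-1)) ⟨6, 6, 4, 5, 3, 3, 3, 5, 3, 2⟩ :=
  leafYS_sound T5.ok_pm T5.Ypm.bz_eq (w := 235) (c := ⟨⟨.negSucc 1124, .negSucc 7, .ofNat 5, .negSucc 45, .negSucc 6, .ofNat 66⟩, ⟨.ofNat 343, .ofNat 5, .ofNat 71, .ofNat 9, .ofNat 6, .negSucc 16⟩, ⟨.ofNat 991, .ofNat 3, .ofNat 19, .ofNat 127, .ofNat 27, .ofNat 238⟩, ⟨.negSucc 3431, .negSucc 9, .negSucc 5, .negSucc 157, .negSucc 7, .ofNat 214⟩, ⟨.negSucc 295, .negSucc 3, .negSucc 2, .negSucc 65, .ofNat 34, .ofNat 55⟩, .ofNat 898, .ofNat 610, .ofNat 0, .ofNat 610, .ofNat 1835, .ofNat 0, .ofNat 199, .negSucc 103, .negSucc 88, .ofNat 0, .ofNat 128, .ofNat 33, .ofNat 0, .ofNat 0, .ofNat 1081, .ofNat 8828, .ofNat 0, .ofNat 0, .ofNat 0, .ofNat 0, .ofNat 0, .ofNat 0, .ofNat 0, .ofNat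 0, .ofNat 0, .ofNat 0, .ofNat 0, .ofNat 0, .ofNat 0, .ofNat 0, .ofNat 0, .ofNat 0⟩)
    (by decide +kernel)
theorem L00584 : Good (Phi V5.P V5.D 1 (-1)) ⟨6, 6, 4, 5, 3, 3, 3, 5, 4, 6⟩ :=
  leafYS_sound T5.ok_pm T5.Ypm.bz_eq (w := 241) (c := ⟨⟨.negSucc 1059, .negSucc 8, .ofNat 3, .negSucc 22, .negSucc 15, .ofNat 54⟩, ⟨.ofNat 329, .ofNat 6, .ofNat 67, .negSucc 0, .ofNat 9, .negSucc 20⟩, ⟨.ofNat 1119, .negSucc 16, .ofNat 61, .ofNat 354, .ofNat 9, .ofNat 282⟩, ⟨.negSucc 3213, .negSucc 10, .negSucc 10, .negSucc 105, .negSucc 37, .ofNat 157⟩, ⟨.negSucc 219, .ofNat 2, .negSucc 8, .negSucc 99, .ofNat 26, .negSucc 11⟩, .ofNat 683, .ofNat 344, .ofNat 0, .ofNat 344, .ofNat 1194, .ofNat 0, .ofNat 159, .negSucc 85, .negSucc 49, .ofNat 0, .ofNat 128, .negSucc 8, .ofNat 0, .ofNat 0, .ofNat 2358, .ofNat 18359, .ofNat 0, .ofNat 0, .ofNat 0, .ofNat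 0, .ofNat 0, .ofNat 0, .ofNat 0, .ofNat 0, .ofNat 0, .ofNat 22409471062896195021944234948613311079816294825984, .ofNat 0, .ofNat 0, .ofNat 0, .ofNat 709969379830878002880029127183343757195035247902720, .ofNat 0, .ofNat 0⟩)
    (by decide +kernel)
theorem L00585 : Good (Phi V5.P V5.D 1 (-1)) ⟨6, 6, 4, 5, 3, 3, 3, 5, 4, 7⟩ :=
  leafYS_sound T5.ok_pm T5.Ypm.bz_eq (w := 241) (c := ⟨⟨.negSucc 1014, .negSucc 4, .ofNat 11, .negSucc 4, .negSucc 30, .ofNat 70⟩, ⟨.ofNat 316, .ofNat 2, .ofNat 59, .negSucc 11, .ofNat 15, .negSucc 32⟩, ⟨.ofNat 1218, .ofNat 55, .ofNat 188, .ofNat 602, .negSucc 92, .ofNat 541⟩, ⟨.negSucc 3071, .negSucc 5, .ofNat 3, .negSucc 63, .negSucc 76, .ofNat 176⟩, ⟨.negSucc 195, .negSucc 15, .negSucc 32, .negSucc 131, .ofNat 36, .negSucc 73⟩, .ofNat 1011, .ofNat 778, .ofNat 0, .ofNat 778, .ofNat 2196, .ofNat 0, .ofNat 161,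 .negSucc 105, .ofNat 25, .ofNat 0, .ofNat 128, .negSucc 49, .ofNat 0, .ofNat 0, .ofNat 3095, .ofNat 10374, .ofNat 0, .ofNat 0, .ofNat 0, .ofNat 0, .ofNat 0, .ofNat 0, .ofNat 0, .ofNat 0, .ofNat 5804672444208422066237121214098760122022324456128512, .ofNat 88848384938167574316411779779571840406527861063680, .ofNat 0, .ofNat 0, .ofNat 77665441769330050316453305576196343073135761263951872, .ofNat 2003950120633567357606248755146051261471718916489216, .ofNat 0, .ofNat 0⟩)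
    (by decide +kernel)
theorem L00586 : Good (Phi V5.P V5.D 1 (-1)) ⟨6, 6, 4, 5, 4, 6, 3, 5, 5, 16⟩ :=
  out_sound (S := T5.ds_pm) T5.ok_pm (w := 31) (j := 1) (by decide +kernel)
theorem L00587 : Good (Phi V5.P V5.D 1 (-1)) ⟨6, 6, 4, 5, 4, 7, 4, 10, 5, 16⟩ :=
  out_sound (S := T5.ds_pm) T5.ok_pm (w := 32) (j := 1) (by decide +kernel)
theorem L00588 : Good (Phi V5.P V5.D 1 (-1)) ⟨6, 6, 4, 5, 4, 7, 4, 11, 5, 16⟩ :=
  out_sound (S := T5.ds_pm) T5.ok_pm (w := 40) (j := 2) (by decide +kernel)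
theorem L00589 : Good (Phi V5.P V5.D 1 (-1)) ⟨6, 6, 4, 5, 3, 3, 3, 5, 5, 17⟩ :=
  out_sound (S := T5.ds_pm) T5.ok_pm (w := 29) (j := 1) (by decide +kernel)
theorem L00590 : Good (Phi V5.P V5.D 1 (-1)) ⟨6, 6, 4, 5, 3, 3, 3, 5, 4, 9⟩ :=
  out_sound (S := T5.ds_pm) T5.ok_pm (w := 27) (j := 1) (by decide +kernel)
theorem L00591 : Good (Phi V5.P V5.D 1 (-1)) ⟨6, 6, 4, 5, 3, 3, 3, 5, 3, 5⟩ :=
  out_sound (S := T5.ds_pm) T5.ok_pm (w := 25) (j := 1) (by decide +kernel)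
theorem L00592 : Good (Phi V5.P V5.D 1 (-1)) ⟨6, 6, 4, 5, 3, 3, 3, 5, 2, 3⟩ :=
  out_sound (S := T5.ds_pm) T5.ok_pm (w := 23) (j := 1) (by decide +kernel)
theorem L00593 : Good (Phi V5.P V5.D 1 (-1)) ⟨6, 7, 5, 10, 3, 3, 3, 5, 2, 0⟩ :=
  leafYS_sound T5.ok_pm T5.Ypm.bz_eq (w := 230) (c := ⟨⟨.negSucc 236, .ofNat 64, .ofNat 30, .negSucc 55, .ofNat 45, .negSucc 1025⟩, ⟨.ofNat 50, .negSucc 18, .ofNat 22, .ofNat 8, .negSucc 14, .ofNat 343⟩, ⟨.ofNat 16, .negSucc 1, .negSucc 10, .negSucc 2, .ofNat 35, .ofNat 1073⟩, ⟨.negSucc 754, .ofNat 220, .ofNat 70, .negSucc 206, .ofNat 139, .negSucc 3075⟩, ⟨.negSucc 151, .ofNat 44, .negSucc 14, .negSucc 118, .ofNat 21, .negSucc 181⟩, .ofNat 1033, .ofNat 818, .ofNat 0, .ofNat 818, .ofNat 2333, .ofNat 0, .ofNat 324, .negSucc 110, .negSucc 105, .ofNat 0, .ofNat 128, .ofNat 45, .ofNat 0, .ofNat 0, .ofNat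 444, .ofNat 831, .ofNat 0, .ofNat 0, .ofNat 0, .ofNat 0, .ofNat 0, .ofNat 0, .ofNat 0, .ofNat 0, .ofNat 0, .ofNat 0, .ofNat 0, .ofNat 0, .ofNat 0, .ofNat 0, .ofNat 0, .ofNat 0⟩)
    (by decide +kernel)
theorem L00594 : Good (Phi V5.P V5.D 1 (-1)) ⟨6, 7, 6, 20, 3, 3, 3, 5, 2, 1⟩ :=
  leafYS_sound T5.ok_pm T5.Ypm.bz_eq (w := 233) (c := ⟨⟨.negSucc 1145, .negSucc 4, .negSucc 0, .negSucc 30, .negSucc 12, .ofNat 172⟩, ⟨.ofNat 354, .ofNat 3, .ofNat 17, .ofNat 2, .ofNat 7, .negSucc 50⟩, ⟨.ofNat 944, .ofNat 14, .ofNat 17, .ofNat 205, .ofNat 51, .ofNat 584⟩, ⟨.negSucc 3473, .ofNat 0, .negSucc 9, .negSucc 114, .negSucc 30, .ofNat 528⟩, ⟨.negSucc 280, .negSucc 3, .negSucc 3, .negSucc 75, .ofNat 19, .ofNat 70⟩, .ofNat 1014, .ofNat 783, .ofNat 0, .ofNat 783, .ofNat 2295, .ofNat 0, .ofNat 198, .negSucc 103, .negSucc 71, .ofNat 0, .ofNat 128,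 .ofNat 19, .ofNat 0, .ofNat 0, .ofNat 1521, .ofNat 825, .ofNat 0, .ofNat 0, .ofNat 0, .ofNat 0, .ofNat 0, .ofNat 0, .ofNat 0, .ofNat 0, .ofNat 0, .ofNat 0, .ofNat 0, .ofNat 0, .ofNat 884677854966925575851657167897521467606640537632768, .ofNat 299054574579019592159475128094726436834573107068928, .ofNat 0, .ofNat 0⟩)
    (by decide +kernel)
theorem L00595 : Good (Phi V5.P V5.D 1 (-1)) ⟨6, 7, 6, 21, 3, 3, 3, 5, 2, 1⟩ :=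
  leafYS_sound T5.ok_pm T5.Ypm.bz_eq (w := 233) (c := ⟨⟨.negSucc 1150, .negSucc 9, .ofNat 1, .negSucc 27, .negSucc 13, .ofNat 186⟩, ⟨.ofNat 375, .ofNat 5, .ofNat 17, .ofNat 2, .ofNat 7, .negSucc 60⟩, ⟨.ofNat 957, .ofNat 6, .negSucc 1, .ofNat 193, .ofNat 40, .ofNat 681⟩, ⟨.negSucc 3492, .negSucc 13, .negSucc 0, .negSucc 109, .negSucc 34, .ofNat 566⟩, ⟨.negSucc 276, .negSucc 4, .ofNat 1, .negSucc 77, .ofNat 18, .ofNat 53⟩, .ofNat 1065, .ofNat 871, .ofNat 0, .ofNat 871, .ofNat 2424, .ofNat 0, .ofNat 177, .negSucc 107, .negSucc 71, .ofNat 0, .ofNat 128, .ofNat 20, .ofNat 0, .ofNat 0, .ofNat 1557, .ofNat 888, .ofNat 0, .ofNat 0, .ofNat 0, .ofNat 0, .ofNat 0, .ofNat 0, .ofNat 0, .ofNat 0, .ofNat 0, .ofNat 0, .ofNat 0, .ofNat 0, .ofNat 700468041381920619048759081187696660671426608496640, .ofNat 321567257311937961539861983117403640512409180831744,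 .ofNat 0, .ofNat 0⟩)
    (by decide +kernel)
theorem L00596 : Good (Phi V5.P V5.D 1 (-1)) ⟨6, 7, 5, 10, 4, 6, 3, 5, 5, 16⟩ :=
  out_sound (S := T5.ds_pm) T5.ok_pm (w := 31) (j := 1) (by decide +kernel)
theorem L00597 : Good (Phi V5.P V5.D 1 (-1)) ⟨6, 7, 5, 10, 4, 7, 4, 10, 5, 16⟩ :=
  out_sound (S := T5.ds_pm) T5.ok_pm (w := 32) (j := 1) (by decide +kernel)
theorem L00598 : Good (Phi V5.P V5.D 1 (-1)) ⟨6, 7, 5, 10, 4, 7, 4, 11, 5, 16⟩ :=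
  out_sound (S := T5.ds_pm) T5.ok_pm (w := 40) (j := 2) (by decide +kernel)
theorem L00599 : Good (Phi V5.P V5.D 1 (-1)) ⟨6, 7, 5, 10, 3, 3, 3, 5, 5, 17⟩ :=
  out_sound (S := T5.ds_pm) T5.ok_pm (w := 29) (j := 1) (by decide +kernel)
theorem L00600 : Good (Phi V5.P V5.D 1 (-1)) ⟨6, 7, 5, 10, 3, 3, 3, 5, 4, 9⟩ :=
  out_sound (S := T5.ds_pm) T5.ok_pm (w := 27) (j := 1) (by decide +kernel)
theorem L00601 : Good (Phi V5.P V5.D 1 (-1)) ⟨6, 7, 5, 10, 3, 3, 3, 5, 3, 5⟩ :=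
  out_sound (S := T5.ds_pm) T5.ok_pm (w := 25) (j := 1) (by decide +kernel)
theorem L00602 : Good (Phi V5.P V5.D 1 (-1)) ⟨6, 7, 5, 10, 3, 3, 3, 5, 2, 3⟩ :=
  out_sound (S := T5.ds_pm) T5.ok_pm (w := 23) (j := 1) (by decide +kernel)
theorem L00603 : Good (Phi V5.P V5.D 1 (-1)) ⟨6, 7, 5, 11, 3, 3, 3, 5, 2, 0⟩ :=
  leafYS_sound T5.ok_pm T5.Ypm.bz_eq (w := 229) (c := ⟨⟨.negSucc 182, .ofNat 3, .ofNat 20, .ofNat 24, .negSucc 35, .negSucc 1031⟩, ⟨.ofNat 40, .ofNat 3, .ofNat 21, .negSucc 10, .ofNat 10, .ofNat 375⟩, ⟨.ofNat 0, .ofNat 4, .negSucc 9, .negSucc 36, .ofNat 73, .ofNat 1087⟩, ⟨.negSucc 618, .ofNat 29, .ofNat 49, .ofNat 116, .negSucc 121, .negSucc 3110⟩, ⟨.negSucc 191, .ofNat 23, .ofNat 1, .ofNat 93, .negSucc 41, .negSucc 202⟩, .ofNat 1101, .ofNat 935, .ofNat 0, .ofNat 935, .ofNat 2465, .ofNat 0, .ofNat 272, .negSucc 118, .negSucc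 104, .ofNat 0, .ofNat 128, .ofNat 47, .ofNat 0, .ofNat 0, .ofNat 378, .ofNat 502, .ofNat 0, .ofNat 0, .ofNat 0, .ofNat 0, .ofNat 0, .ofNat 0, .ofNat 0, .ofNat 0, .ofNat 0, .ofNat 0, .ofNat 0, .ofNat 0, .ofNat 0, .ofNat 0, .ofNat 0, .ofNat 0⟩)
    (by decide +kernel)
theorem L00604 : Good (Phi V5.P V5.D 1 (-1)) ⟨6, 7, 5, 11, 3, 3, 3, 5, 3, 2⟩ :=
  leafYS_sound T5.ok_pm T5.Ypm.bz_eq (w := 238) (c := ⟨⟨.negSucc 1125, .negSucc 9, .ofNat 0, .negSucc 48, .negSucc 6, .ofNat 64⟩, ⟨.ofNat 382, .ofNat 6, .ofNat 36, .ofNat 12, .ofNat 5, .negSucc 18⟩, ⟨.ofNat 1004, .ofNat 7, .ofNat 5, .ofNat 143, .ofNat 53, .ofNat 248⟩, ⟨.negSucc 3429, .negSucc 15, .negSucc 7, .negSucc 168, .negSucc 9, .ofNat 209⟩, ⟨.negSucc 297, .negSucc 5, .negSucc 0, .negSucc 63, .ofNat 25, .ofNat 54⟩, .ofNat 1049, .ofNat 853, .ofNat 0, .ofNat 853, .ofNat 2292, .ofNat 0,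 .ofNat 196, .negSucc 114, .negSucc 80, .ofNat 0, .ofNat 128, .ofNat 33, .ofNat 0, .ofNat 0, .ofNat 982, .ofNat 9752, .ofNat 0, .ofNat 0, .ofNat 0, .ofNat 0, .ofNat 0, .ofNat 0, .ofNat 0, .ofNat 0, .ofNat 0, .ofNat 0, .ofNat 0, .ofNat 0, .ofNat 0, .ofNat 0, .ofNat 0, .ofNat 0⟩)
    (by decide +kernel)
theorem L00605 : Good (Phi V5.P V5.D 1 (-1)) ⟨6, 7, 5, 11, 3, 3, 3, 5, 4, 6⟩ :=
  leafYS_sound T5.ok_pm T5.Ypm.bz_eq (w := 244) (c := ⟨⟨.negSucc 1068, .negSucc 6, .ofNat 2, .negSucc 22, .negSucc 19, .ofNat 57⟩, ⟨.ofNat 369, .ofNat 4, .ofNat 33, .negSucc 1, .ofNat 10, .negSucc 21⟩, ⟨.ofNat 1120, .ofNat 29, .ofNat 43, .ofNat 376, .ofNat 27, .ofNat 274⟩, ⟨.negSucc 3233, .negSucc 9, .negSucc 3, .negSucc 104, .negSucc 52, .ofNat 165⟩, ⟨.negSucc 221, .negSucc 8, .negSucc 4, .negSucc 101, .ofNat 18, .negSucc 7⟩, .ofNat 1043, .ofNat 842, .ofNat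 0, .ofNat 842, .ofNat 2280, .ofNat 0, .ofNat 158, .negSucc 111, .negSucc 38, .ofNat 0, .ofNat 128, .negSucc 6, .ofNat 0, .ofNat 0, .ofNat 2631, .ofNat 21523, .ofNat 0, .ofNat 0, .ofNat 0, .ofNat 0, .ofNat 0, .ofNat 0, .ofNat 0, .ofNat 0, .ofNat 0, .ofNat 96896698364329063233351572318891539454754799222784, .ofNat 0, .ofNat 0, .ofNat 0, .ofNat 6838223873714589893138073978042798676548599827922944, .ofNat 0, .ofNat 0⟩)
    (by decide +kernel)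
theorem L00606 : Good (Phi V5.P V5.D 1 (-1)) ⟨6, 7, 5, 11, 3, 3, 3, 5, 4, 7⟩ :=
  leafYS_sound T5.ok_pm T5.Ypm.bz_eq (w := 244) (c := ⟨⟨.negSucc 1019, .negSucc 7, .ofNat 3, .negSucc 0, .negSucc 28, .ofNat 68⟩, ⟨.ofNat 353, .ofNat 4, .ofNat 31, .negSucc 14, .ofNat 13, .negSucc 32⟩, ⟨.ofNat 1253, .ofNat 24, .ofNat 70, .ofNat 690, .negSucc 24, .ofNat 513⟩, ⟨.negSucc 3079, .negSucc 9, .negSucc 4, .negSucc 63, .negSucc 78, .ofNat 175⟩, ⟨.negSucc 197, .negSucc 7, .negSucc 12, .negSucc 156, .ofNat 14, .negSucc 63⟩, .ofNat 1107, .ofNat 945, .ofNat 0, .ofNat 945, .ofNat 2478, .ofNat 0, .ofNat 169, .negSucc 112, .ofNat 21, .ofNat 0, .ofNat 128, .negSucc 45, .ofNat 0, .ofNat 0, .ofNat 3031, .ofNat 10805, .ofNat 0, .ofNat 0, .ofNat 0, .ofNat 0, .ofNat 0, .ofNat 0, .ofNat 0, .ofNat 0, .ofNat 44993343266523514885621055374499620792250386188599296,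 .ofNat 783711556255769138694833642872734371115744144392192, .ofNat 0, .ofNat 0, .ofNat 633133651742006677699403166361266211937372542825660416, .ofNat 15617172182993643826639816277457704033388649691217920, .ofNat 0, .ofNat 0⟩)
    (by decide +kernel)
theorem L00607 : Good (Phi V5.P V5.D 1 (-1)) ⟨6, 7, 5, 11, 4, 6, 3, 5, 5, 16⟩ :=
  out_sound (S := T5.ds_pm) T5.ok_pm (w := 31) (j := 1) (by decide +kernel)
theorem L00608 : Good (Phi V5.P V5.D 1 (-1)) ⟨6, 7, 5, 11, 4, 7, 4, 10, 5, 16⟩ :=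
  out_sound (S := T5.ds_pm) T5.ok_pm (w := 32) (j := 1) (by decide +kernel)
theorem L00609 : Good (Phi V5.P V5.D 1 (-1)) ⟨6, 7, 5, 11, 4, 7, 4, 11, 5, 16⟩ :=
  out_sound (S := T5.ds_pm) T5.ok_pm (w := 40) (j := 2) (by decide +kernel)
theorem L00610 : Good (Phi V5.P V5.D 1 (-1)) ⟨6, 7, 5, 11, 3, 3, 3, 5, 5, 17⟩ :=
  out_sound (S := T5.ds_pm) T5.ok_pm (w := 29) (j := 1) (by decide +kernel)
theorem L00611 : Good (Phi V5.P V5.D 1 (-1)) ⟨6, 7, 5, 11, 3, 3, 3, 5, 4, 9⟩ :=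
  out_sound (S := T5.ds_pm) T5.ok_pm (w := 27) (j := 1) (by decide +kernel)
theorem L00612 : Good (Phi V5.P V5.D 1 (-1)) ⟨6, 7, 5, 11, 3, 3, 3, 5, 3, 5⟩ :=
  out_sound (S := T5.ds_pm) T5.ok_pm (w := 25) (j := 1) (by decide +kernel)
theorem L00613 : Good (Phi V5.P V5.D 1 (-1)) ⟨6, 7, 5, 11, 3, 3, 3, 5, 2, 3⟩ :=
  out_sound (S := T5.ds_pm) T5.ok_pm (w := 23) (j := 1) (by decide +kernel)
theorem L00614 : Good (Phi V5.P V5.D 1 (-1)) ⟨5, 3, 3, 2, 3, 3, 2, 3, 2, 0⟩ :=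
  leafYS_sound T5.ok_pm T5.Ypm.bz_eq (w := 215) (c := ⟨⟨.negSucc 166, .negSucc 50, .negSucc 35, .negSucc 58, .negSucc 77, .negSucc 939⟩, ⟨.negSucc 35, .ofNat 13, .ofNat 127, .ofNat 45, .ofNat 30, .ofNat 306⟩, ⟨.ofNat 16, .ofNat 23, .ofNat 66, .ofNat 180, .ofNat 252, .ofNat 916⟩, ⟨.negSucc 593, .negSucc 153, .negSucc 130, .negSucc 101, .negSucc 202, .negSucc 2791⟩, ⟨.negSucc 280, .negSucc 69, .ofNat 9, .ofNat 198, .ofNat 87, .negSucc 108⟩, .ofNat 988, .ofNat 731, .ofNat 0, .ofNat 731, .ofNat 2229, .ofNat 0, .ofNat 257, .negSucc 101, .negSucc 139, .ofNat 0, .ofNat 128, .ofNat 54, .ofNat 0, .ofNat 0, .ofNat 480, .ofNat 651, .ofNat 0, .ofNat 0, .ofNat 0, .ofNat 0, .ofNat 0, .ofNat 63637081871146160608027603050768129899626496, .ofNat 0, .ofNat 0, .ofNat 0, .ofNat 0, .ofNat 0, .ofNat 0, .ofNat 0, .ofNat 203907675224369239798179325106051070986027008,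 .ofNat 0, .ofNat 0⟩)
    (by decide +kernel)
theorem L00615 : Good (Phi V5.P V5.D 1 (-1)) ⟨5, 3, 3, 2, 3, 3, 2, 3, 3, 2⟩ :=
  leafYS_sound T5.ok_pm T5.Ypm.bz_eq (w := 222) (c := ⟨⟨.negSucc 1096, .negSucc 25, .ofNat 8, .negSucc 73, .negSucc 91, .ofNat 37⟩, ⟨.ofNat 264, .ofNat 13, .ofNat 141, .ofNat 18, .ofNat 45, .negSucc 5⟩, ⟨.ofNat 944, .ofNat 32, .ofNat 77, .ofNat 235, .ofNat 35, .ofNat 196⟩, ⟨.negSucc 3324, .negSucc 49, .negSucc 9, .negSucc 237, .negSucc 223, .ofNat 129⟩, ⟨.negSucc 261, .negSucc 17, .negSucc 14, .negSucc 59, .ofNat 139, .ofNat 59⟩, .ofNat 768, .ofNat 420, .ofNat 0, .ofNat 420, .ofNat 1488, .ofNat 0, .ofNat 270, .negSucc 89, .negSucc 44, .ofNat 0, .ofNat 128, .ofNat 11, .ofNat 0, .ofNat 0, .ofNat 562, .ofNat 1353, .ofNat 0, .ofNat 0, .ofNat 0, .ofNat 0, .ofNat 0, .ofNat 12258310640219809896786832864110388772507484160,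 .ofNat 0, .ofNat 0, .ofNat 0, .ofNat 6449928406774050588858213328618898054233194496, .ofNat 0, .ofNat 0, .ofNat 0, .ofNat 8727886934105558129115162795426118336514097152, .ofNat 0, .ofNat 0⟩)
    (by decide +kernel)
theorem L00616 : Good (Phi V5.P V5.D 1 (-1)) ⟨5, 3, 3, 2, 3, 3, 2, 3, 3, 3⟩ :=
  leafYS_sound T5.ok_pm T5.Ypm.bz_eq (w := 222) (c := ⟨⟨.negSucc 1067, .negSucc 20, .ofNat 8, .negSucc 40, .negSucc 106, .ofNat 78⟩, ⟨.ofNat 268, .ofNat 10, .ofNat 132, .ofNat 4, .ofNat 54, .negSucc 25⟩, ⟨.ofNat 1040, .ofNat 34, .ofNat 176, .ofNat 422, .negSucc 164, .ofNat 294⟩, ⟨.negSucc 3211, .negSucc 37, .negSucc 13, .negSucc 151, .negSucc 261, .ofNat 220⟩, ⟨.negSucc 176, .negSucc 19, .negSucc 31, .negSucc 87, .ofNat 144, .negSucc 2⟩, .ofNat 1025, .ofNat 795, .ofNat 0, .ofNat 795, .ofNat 2332, .ofNat 0, .ofNat 197, .negSucc 101, .negSucc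 18, .ofNat 0, .ofNat 128, .negSucc 19, .ofNat 0, .ofNat 0, .ofNat 1830, .ofNat 2059, .ofNat 0, .ofNat 360399045319812820899274738849046120183627776, .ofNat 0, .ofNat 0, .ofNat 0, .ofNat 19691137975522792634042699573078895725224394752, .ofNat 0, .ofNat 0, .ofNat 0, .ofNat 20413748175387974969474655140128918460312846336, .ofNat 0, .ofNat 0, .ofNat 0, .ofNat 197304728203507559806722066178739899994495516672, .ofNat 0, .ofNat 0⟩)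
    (by decide +kernel)
theorem L00617 : Good (Phi V5.P V5.D 1 (-1)) ⟨5, 3, 3, 2, 4, 6, 5, 24, 6, 32⟩ :=
  out_sound (S := T5.ds_pm) T5.ok_pm (w := 35) (j := 1) (by decide +kernel)
theorem L00618 : Good (Phi V5.P V5.D 1 (-1)) ⟨5, 3, 3, 2, 4, 6, 5, 25, 6, 32⟩ :=
  out_sound (S := T5.ds_pm) T5.ok_pm (w := 44) (j := 2) (by decide +kernel)
theorem L00619 : Good (Phi V5.P V5.D 1 (-1)) ⟨5, 3, 3, 2, 4, 6, 4, 12, 6, 33⟩ :=
  out_sound (S := T5.ds_pm) T5.ok_pm (w := 34) (j := 1) (by decide +kernel)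
theorem L00620 : Good (Phi V5.P V5.D 1 (-1)) ⟨5, 3, 3, 2, 4, 6, 4, 12, 5, 17⟩ :=
  out_sound (S := T5.ds_pm) T5.ok_pm (w := 32) (j := 1) (by decide +kernel)
theorem L00621 : Good (Phi V5.P V5.D 1 (-1)) ⟨5, 3, 3, 2, 4, 6, 4, 13, 4, 8⟩ :=
  out_sound (S := T5.ds_pm) T5.ok_pm (w := 38) (j := 2) (by decide +kernel)
theorem L00622 : Good (Phi V5.P V5.D 1 (-1)) ⟨5, 3, 3, 2, 4, 6, 3, 6, 4, 9⟩ :=
  out_sound (S := T5.ds_pm) T5.ok_pm (w := 29) (j := 1) (by decide +kernel)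
theorem L00623 : Good (Phi V5.P V5.D 1 (-1)) ⟨5, 3, 3, 2, 4, 7, 3, 6, 3, 4⟩ :=
  out_sound (S := T5.ds_pm) T5.ok_pm (w := 34) (j := 2) (by decide +kernel)
theorem L00624 : Good (Phi V5.P V5.D 1 (-1)) ⟨5, 3, 3, 2, 3, 3, 3, 7, 3, 4⟩ :=
  out_sound (S := T5.ds_pm) T5.ok_pm (w := 32) (j := 2) (by decide +kernel)
theorem L00625 : Good (Phi V5.P V5.D 1 (-1)) ⟨5, 3, 3, 2, 3, 3, 2, 3, 3, 5⟩ :=
  out_sound (S := T5.ds_pm) T5.ok_pm (w := 24) (j := 1) (by decide +kernel)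
theorem L00626 : Good (Phi V5.P V5.D 1 (-1)) ⟨5, 3, 3, 2, 3, 3, 2, 3, 2, 3⟩ :=
  out_sound (S := T5.ds_pm) T5.ok_pm (w := 22) (j := 1) (by decide +kernel)
theorem L00627 : Good (Phi V5.P V5.D 1 (-1)) ⟨4, 1, 3, 3, 3, 3, 2, 0, 3, 0⟩ :=
  leafYS_sound T5.ok_pm T5.Ypm.bz_eq (w := 218) (c := ⟨⟨.ofNat 916, .ofNat 21, .ofNat 46, .ofNat 111, .ofNat 52, .negSucc 2027⟩, ⟨.negSucc 455, .negSucc 8, .negSucc 15, .negSucc 78, .ofNat 2, .ofNat 916⟩, ⟨.negSucc 828, .negSucc 35, .negSucc 52, .negSucc 183, .negSucc 104, .ofNat 1351⟩, ⟨.ofNat 2491, .ofNat 85, .ofNat 111, .ofNat 359, .ofNat 335, .negSucc 6261⟩, ⟨.negSucc 595, .ofNat 55, .ofNat 96, .ofNat 23, .ofNat 413, .negSucc 405⟩, .ofNat 438, .ofNat 149, .ofNat 0, .ofNat 149, .ofNat 615, .ofNat 0, .ofNat 316, .negSucc 82, .negSucc 119, .ofNat 0, .ofNat 128, .ofNat 61, .ofNat 0, .ofNat 0, .ofNat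 354, .ofNat 3137, .ofNat 0, .ofNat 0, .ofNat 0, .ofNat 0, .ofNat 4957340727020930484417925484220843454858526720, .ofNat 0, .ofNat 0, .ofNat 0, .ofNat 0, .ofNat 0, .ofNat 0, .ofNat 0, .ofNat 39672272127720614462782977915753793320910848, .ofNat 0, .ofNat 0, .ofNat 0⟩)
    (by decide +kernel)
theorem L00628 : Good (Phi V5.P V5.D 1 (-1)) ⟨4, 1, 3, 3, 3, 3, 2, 0, 3, 1⟩ :=
  leafYS_sound T5.ok_pm T5.Ypm.bz_eq (w := 218) (c := ⟨⟨.negSucc 1057, .negSucc 15, .ofNat 9, .negSucc 18, .ofNat 52, .negSucc 222⟩, ⟨.ofNat 344, .ofNat 19, .ofNat 159, .ofNat 0, .negSucc 8, .ofNat 109⟩, ⟨.ofNat 502, .ofNat 4, .negSucc 10, .negSucc 239, .ofNat 89, .ofNat 561⟩, ⟨.negSucc 3417, .ofNat 21, .negSucc 26, .negSucc 107, .ofNat 236, .negSucc 632⟩, ⟨.negSucc 639, .ofNat 31, .ofNat 15, .negSucc 110, .ofNat 178, .ofNat 78⟩, .ofNat 745, .ofNat 454, .ofNat 0, .ofNat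 454, .ofNat 1286, .ofNat 0, .ofNat 188, .negSucc 110, .negSucc 41, .ofNat 0, .ofNat 128, .ofNat 25, .ofNat 0, .ofNat 0, .ofNat 261, .ofNat 4446, .ofNat 0, .ofNat 0, .ofNat 0, .ofNat 0, .ofNat 0, .ofNat 0, .ofNat 0, .ofNat 0, .ofNat 0, .ofNat 0, .ofNat 0, .ofNat 0, .ofNat 3211953799751615643594143818315720966042288128, .ofNat 0, .ofNat 0, .ofNat 0⟩)
    (by decide +kernel)
theorem L00629 : Good (Phi V5.P V5.D 1 (-1)) ⟨4, 1, 3, 3, 3, 3, 2, 0, 2, 1⟩ :=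
  leafYS_sound T5.ok_pm T5.Ypm.bz_eq (w := 217) (c := ⟨⟨.negSucc 1267, .negSucc 19, .ofNat 14, .negSucc 9, .ofNat 57, .ofNat 129⟩, ⟨.ofNat 449, .ofNat 21, .ofNat 159, .negSucc 2, .negSucc 14, .negSucc 47⟩, ⟨.ofNat 1063, .ofNat 19, .negSucc 6, .negSucc 196, .ofNat 33, .ofNat 696⟩, ⟨.negSucc 3979, .ofNat 9, .negSucc 7, .negSucc 71, .ofNat 214, .ofNat 414⟩, ⟨.negSucc 490, .ofNat 23, .ofNat 7, .negSucc 92, .ofNat 105, .ofNat 113⟩, .ofNat 916, .ofNat 676, .ofNat 0, .ofNat 676, .ofNat 1728, .ofNat 0, .ofNat 156, .negSucc 119, .negSucc 65, .ofNat 0, .ofNat 128, .ofNat 39, .ofNat 0, .ofNat 0, .ofNat 581, .ofNat 44093, .ofNat 2017011684054765784305796176226847099243724800, .ofNat 0, .ofNat 0, .ofNat 0, .ofNat 13814706093219375429823307640930084653067403264, .ofNat 0, .ofNat 0, .ofNat 0, .ofNat 8031873492761775459675129699759741487445704704,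 .ofNat 0, .ofNat 0, .ofNat 0, .ofNat 4460876878075368112528187121274030461357654016, .ofNat 0, .ofNat 0, .ofNat 0⟩)
    (by decide +kernel)
theorem L00630 : Good (Phi V5.P V5.D 1 (-1)) ⟨4, 1, 3, 3, 3, 3, 2, 0, 1, 1⟩ :=
  out_sound (S := T5.ds_pm) T5.ok_pm (w := 20) (j := 1) (by decide +kernel)
theorem L00631 : Good (Phi V5.P V5.D 1 (-1)) ⟨4, 1, 3, 3, 3, 3, 2, 1, 3, 0⟩ :=
  leafYS_sound T5.ok_pm T5.Ypm.bz_eq (w := 218) (c := ⟨⟨.ofNat 857, .ofNat 48, .ofNat 17, .ofNat 182, .negSucc 148, .negSucc 1917⟩, ⟨.negSucc 420, .ofNat 25, .negSucc 35, .negSucc 55, .ofNat 71, .ofNat 826⟩, ⟨.negSucc 922, .negSucc 16, .negSucc 51, .negSucc 170, .ofNat 176, .ofNat 1455⟩, ⟨.ofNat 2483, .ofNat 134, .ofNat 83, .ofNat 610, .negSucc 416, .negSucc 5909⟩, ⟨.negSucc 157, .negSucc 3, .ofNat 86, .ofNat 161, .ofNat 77, .negSucc 498⟩, .ofNat 742, .ofNat 449,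 .ofNat 0, .ofNat 449, .ofNat 1283, .ofNat 0, .ofNat 221, .negSucc 111, .negSucc 79, .ofNat 0, .ofNat 128, .ofNat 40, .ofNat 0, .ofNat 0, .ofNat 235, .ofNat 1394, .ofNat 0, .ofNat 0, .ofNat 0, .ofNat 0, .ofNat 0, .ofNat 0, .ofNat 0, .ofNat 0, .ofNat 0, .ofNat 0, .ofNat 0, .ofNat 0, .ofNat 0, .ofNat 0, .ofNat 0, .ofNat 0⟩)
    (by decide +kernel)
theorem L00632 : Good (Phi V5.P V5.D 1 (-1)) ⟨4, 1, 3, 3, 3, 3, 2, 1, 3, 1⟩ :=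
  leafYS_sound T5.ok_pm T5.Ypm.bz_eq (w := 218) (c := ⟨⟨.negSucc 1036, .negSucc 22, .ofNat 23, .negSucc 8, .ofNat 74, .negSucc 196⟩, ⟨.ofNat 351, .ofNat 22, .ofNat 149, .negSucc 2, .negSucc 30, .ofNat 98⟩, ⟨.ofNat 579, .ofNat 32, .negSucc 16, .negSucc 179, .ofNat 58, .ofNat 499⟩, ⟨.negSucc 3262, .negSucc 10, .ofNat 30, .negSucc 67, .ofNat 241, .negSucc 572⟩, ⟨.negSucc 416, .ofNat 8, .ofNat 24, .negSucc 85, .ofNat 49, .ofNat 21⟩, .ofNat 1090, .ofNat 927, .ofNat 0, .ofNat 927, .ofNat 2184, .ofNat 0, .ofNat 151, .negSucc 127, .negSucc 43, .ofNat 0, .ofNat 124, .ofNat 24, .ofNat 0, .ofNat 0, .ofNat 240, .ofNat 2688, .ofNat 0, .ofNat 0, .ofNat 0, .ofNat 0, .ofNat 0, .ofNat 0, .ofNat 0, .ofNat 0, .ofNat 0, .ofNat 0, .ofNat 0, .ofNat 0, .ofNat 0, .ofNat 0, .ofNat 0, .ofNat 0⟩)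
    (by decide +kernel)
theorem L00633 : Good (Phi V5.P V5.D 1 (-1)) ⟨4, 1, 3, 3, 3, 3, 2, 1, 4, 4⟩ :=
  leafYS_sound T5.ok_pm T5.Ypm.bz_eq (w := 227) (c := ⟨⟨.negSucc 1204, .negSucc 23, .ofNat 9, .negSucc 14, .ofNat 52, .ofNat 42⟩, ⟨.ofNat 436, .ofNat 21, .ofNat 153, .ofNat 2, .negSucc 19, .negSucc 16⟩, ⟨.ofNat 1048, .ofNat 42, .ofNat 2, .negSucc 114, .ofNat 12, .ofNat 153⟩, ⟨.negSucc 3749, .negSucc 7, .negSucc 13, .negSucc 85, .ofNat 181, .ofNat 141⟩, ⟨.negSucc 379, .ofNat 11, .ofNat 8, .negSucc 84, .ofNat 55, .ofNat 34⟩, .ofNat 746, .ofNat 455, .ofNat 0, .ofNat 455, .ofNat 1288, .ofNat 0, .ofNat 263, .negSucc 105, .negSucc 115, .ofNat 0, .ofNat 128, .ofNat 64, .ofNat 0, .ofNat 0, .ofNat 1041, .ofNat 41997, .ofNat 0, .ofNat 0, .ofNat 0, .ofNat 0, .ofNat 0, .ofNat 0, .ofNat 0, .ofNat 0, .ofNat 0, .ofNat 0, .ofNat 0, .ofNat 0,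 .ofNat 0, .ofNat 0, .ofNat 0, .ofNat 0⟩)
    (by decide +kernel)
theorem L00634 : Good (Phi V5.P V5.D 1 (-1)) ⟨4, 1, 3, 3, 3, 3, 2, 1, 4, 5⟩ :=
  leafYS_sound T5.ok_pm T5.Ypm.bz_eq (w := 228) (c := ⟨⟨.negSucc 1150, .negSucc 22, .ofNat 11, .negSucc 17, .ofNat 35, .ofNat 59⟩, ⟨.ofNat 418, .ofNat 21, .ofNat 144, .ofNat 1, .negSucc 10, .negSucc 23⟩, ⟨.ofNat 1127, .ofNat 34, .ofNat 29, .negSucc 20, .ofNat 28, .ofNat 159⟩, ⟨.negSucc 3563, .negSucc 14, .negSucc 4, .negSucc 83, .ofNat 120, .ofNat 181⟩, ⟨.negSucc 330, .ofNat 2, .ofNat 6, .negSucc 70, .ofNat 40, .ofNat 22⟩, .ofNat 1054, .ofNat 871, .ofNat 0, .ofNat 871, .ofNat 2119, .ofNat 0, .ofNat 156, .negSucc 123, .negSucc 93, .ofNat 0, .ofNat 128, .ofNat 49, .ofNat 0, .ofNat 0, .ofNat 1405, .ofNat 59105, .ofNat 74468537039311494568959006422257579052039667712, .ofNat 0, .ofNat 0, .ofNat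 0, .ofNat 151876631955117430203676869991245913316218896384, .ofNat 0, .ofNat 0, .ofNat 0, .ofNat 111929489212208275818152317890965445081454084096, .ofNat 0, .ofNat 0, .ofNat 0, .ofNat 980514693359370477851121433240333340314391543808, .ofNat 0, .ofNat 0, .ofNat 0⟩)
    (by decide +kernel)

end Crest.Agent.R097C5.N5pm
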