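import Crest.Agent.R097.KS3
import Crest.Agent.R097.T5Ypm

/-!
# Row 97, box cover in dimension n = 5 (generated)
-/

set_option autoImplicit false
set_option Elab.async false
set_option maxHeartbeats 0
set_option maxRecDepth 100000

open Crest.Agent.R097 Crest.Agent.R097.KA


namespace Crest.Agent.R097C5.N5pm

theorem L00635 : Good (Phi V5.P V5.D 1 (-1)) ⟨4, 1, 3, 3, 3, 3, 2, 1, 3, 3⟩ :=
  leafYS_sound T5.ok_pm T5.Ypm.bz_eq (w := 223) (c := ⟨⟨.negSucc 1074, .negSucc 22, .ofNat 9, .negSucc 14, .ofNat 16, .ofNat 130⟩, ⟨.ofNat 392, .ofNat 19, .ofNat 138, .ofNat 1, .negSucc 4, .negSucc 57⟩, ⟨.ofNat 1159, .ofNat 40, .ofNat 56, .ofNat 78, .ofNat 93, .ofNat 614⟩, ⟨.negSucc 3324, .negSucc 17, .negSucc 9, .negSucc 79, .ofNat 64, .ofNat 392⟩, ⟨.negSucc 292, .negSucc 1, .ofNat 0, .negSucc 74, .ofNat 34, .ofNat 25⟩, .ofNat 438, .ofNat 149,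 .ofNat 0, .ofNat 149, .ofNat 616, .ofNat 0, .ofNat 173, .negSucc 64, .negSucc 85, .ofNat 0, .ofNat 128, .ofNat 32, .ofNat 0, .ofNat 0, .ofNat 1665, .ofNat 97959, .ofNat 17907264814792071706604450225734867259907637248, .ofNat 0, .ofNat 0, .ofNat 0, .ofNat 63384866634056086464857362476703222081983086592, .ofNat 0, .ofNat 0, .ofNat 0, .ofNat 74480364781595883639201728780139033561604816896, .ofNat 0, .ofNat 0, .ofNat 0, .ofNat 725736190992048320833209929796790964988099428352, .ofNat 0, .ofNat 0, .ofNat 0⟩)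
    (by decide +kernel)
theorem L00636 : Good (Phi V5.P V5.D 1 (-1)) ⟨4, 1, 3, 3, 3, 3, 2, 1, 1, 1⟩ :=
  out_sound (S := T5.ds_pm) T5.ok_pm (w := 20) (j := 1) (by decide +kernel)
theorem L00637 : Good (Phi V5.P V5.D 1 (-1)) ⟨4, 1, 3, 3, 3, 3, 1, 1, 3, 0⟩ :=
  leafYS_sound T5.ok_pm T5.Ypm.bz_eq (w := 212) (c := ⟨⟨.ofNat 179, .negSucc 73, .ofNat 75, .negSucc 41, .negSucc 307, .negSucc 875⟩, ⟨.negSucc 143, .ofNat 49, .ofNat 24, .ofNat 49, .ofNat 151, .ofNat 379⟩, ⟨.negSucc 470, .ofNat 133, .negSucc 95, .ofNat 112, .ofNat 676, .ofNat 736⟩, ⟨.ofNat 391, .negSucc 133, .ofNat 211, .negSucc 33, .negSucc 874, .negSucc 2715⟩, ⟨.negSucc 317, .ofNat 170, .ofNat 43, .ofNat 229, .ofNat 88, .negSucc 329⟩, .ofNat 1094, .ofNat 934, .ofNat 0, .ofNat 934, .ofNat 2191, .ofNat 0, .ofNat 167, .negSucc 127, .negSucc 173, .ofNat 0, .ofNat 125, .ofNat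 88, .ofNat 0, .ofNat 0, .ofNat 466, .ofNat 444, .ofNat 0, .ofNat 0, .ofNat 0, .ofNat 0, .ofNat 0, .ofNat 0, .ofNat 0, .ofNat 0, .ofNat 0, .ofNat 0, .ofNat 0, .ofNat 0, .ofNat 0, .ofNat 0, .ofNat 0, .ofNat 0⟩)
    (by decide +kernel)
theorem L00638 : Good (Phi V5.P V5.D 1 (-1)) ⟨4, 1, 3, 3, 3, 3, 1, 1, 3, 1⟩ :=
  leafYS_sound T5.ok_pm T5.Ypm.bz_eq (w := 212) (c := ⟨⟨.negSucc 924, .negSucc 19, .ofNat 10, .negSucc 33, .ofNat 31, .negSucc 229⟩, ⟨.ofNat 313, .ofNat 16, .ofNat 145, .ofNat 9, .ofNat 0, .ofNat 109⟩, ⟨.ofNat 574, .ofNat 53, .negSucc 3, .negSucc 7, .ofNat 223, .ofNat 445⟩, ⟨.negSucc 2904, .negSucc 34, .negSucc 1, .negSucc 122, .ofNat 151, .negSucc 664⟩, ⟨.negSucc 350, .negSucc 52, .ofNat 17, .negSucc 47, .ofNat 132, .ofNat 35⟩, .ofNat 1068, .ofNat 891, .ofNat 0, .ofNat 891, .ofNat 2139, .ofNat 0, .ofNat 133, .negSucc 127,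 .negSucc 86, .ofNat 0, .ofNat 127, .ofNat 44, .ofNat 0, .ofNat 0, .ofNat 416, .ofNat 459, .ofNat 0, .ofNat 0, .ofNat 0, .ofNat 0, .ofNat 0, .ofNat 24946855979937870441846213997454095131082752, .ofNat 0, .ofNat 0, .ofNat 0, .ofNat 0, .ofNat 0, .ofNat 0, .ofNat 0, .ofNat 0, .ofNat 0, .ofNat 0⟩)
    (by decide +kernel)
theorem L00639 : Good (Phi V5.P V5.D 1 (-1)) ⟨4, 1, 3, 3, 3, 3, 2, 2, 3, 2⟩ :=
  leafYS_sound T5.ok_pm T5.Ypm.bz_eq (w := 218) (c := ⟨⟨.negSucc 1132, .negSucc 30, .ofNat 8, .negSucc 36, .ofNat 7, .ofNat 85⟩, ⟨.ofNat 412, .ofNat 24, .ofNat 143, .ofNat 12, .ofNat 2, .negSucc 33⟩, ⟨.ofNat 976, .ofNat 17, .ofNat 15, .ofNat 85, .ofNat 69, .ofNat 293⟩, ⟨.negSucc 3505, .negSucc 43, .negSucc 11, .negSucc 135, .ofNat 45, .ofNat 272⟩, ⟨.negSucc 313, .negSucc 6, .negSucc 0, .negSucc 67, .ofNat 51, .ofNat 52⟩, .ofNat 736, .ofNat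 438, .ofNat 0, .ofNat 438, .ofNat 1272, .ofNat 0, .ofNat 196, .negSucc 102, .negSucc 57, .ofNat 0, .ofNat 128, .ofNat 25, .ofNat 0, .ofNat 0, .ofNat 697, .ofNat 2376, .ofNat 0, .ofNat 0, .ofNat 0, .ofNat 0, .ofNat 0, .ofNat 0, .ofNat 0, .ofNat 0, .ofNat 0, .ofNat 0, .ofNat 0, .ofNat 0, .ofNat 0, .ofNat 0, .ofNat 0, .ofNat 0⟩)
    (by decide +kernel)
theorem L00640 : Good (Phi V5.P V5.D 1 (-1)) ⟨4, 1, 3, 3, 3, 3, 2, 3, 3, 2⟩ :=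
  leafYS_sound T5.ok_pm T5.Ypm.bz_eq (w := 218) (c := ⟨⟨.negSucc 1085, .negSucc 30, .ofNat 8, .negSucc 63, .negSucc 90, .ofNat 38⟩, ⟨.ofNat 400, .ofNat 18, .ofNat 143, .ofNat 21, .ofNat 52, .negSucc 12⟩, ⟨.ofNat 834, .ofNat 146, .ofNat 91, .ofNat 333, .ofNat 88, .ofNat 279⟩, ⟨.negSucc 3325, .negSucc 62, .negSucc 16, .negSucc 223, .negSucc 217, .ofNat 128⟩, ⟨.negSucc 220, .negSucc 53, .negSucc 24, .negSucc 77, .ofNat 118, .ofNat 43⟩, .ofNat 1052, .ofNat 867, .ofNat 0, .ofNat 867, .ofNat 2112, .ofNat 0, .ofNat 128, .negSucc 127, .negSucc 48, .ofNat 0, .ofNat 132, .ofNat 18, .ofNat 0, .ofNat 0, .ofNat 640, .ofNat 1170, .ofNat 0, .ofNat 0, .ofNat 0, .ofNat 0, .ofNat 0, .ofNat 242791802443403055197437829608067117816479744, .ofNat 0, .ofNat 0, .ofNat 0, .ofNat 405411489090233562609507415890780452783390720, .ofNat 0, .ofNat 0, .ofNat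 0, .ofNat 665286139173490806045038169587901923319611392, .ofNat 0, .ofNat 0⟩)
    (by decide +kernel)
theorem L00641 : Good (Phi V5.P V5.D 1 (-1)) ⟨4, 1, 3, 3, 3, 3, 2, 2, 4, 6⟩ :=
  leafYS_sound T5.ok_pm T5.Ypm.bz_eq (w := 225) (c := ⟨⟨.negSucc 1046, .negSucc 24, .ofNat 9, .negSucc 20, .negSucc 20, .ofNat 62⟩, ⟨.ofNat 385, .ofNat 19, .ofNat 134, .ofNat 2, .ofNat 13, .negSucc 29⟩, ⟨.ofNat 1046, .ofNat 74, .ofNat 149, .ofNat 379, .ofNat 104, .ofNat 345⟩, ⟨.negSucc 3203, .negSucc 39, .negSucc 17, .negSucc 112, .negSucc 52, .ofNat 171⟩, ⟨.negSucc 218, .negSucc 26, .negSucc 16, .negSucc 107, .ofNat 20, .negSucc 17⟩, .ofNat 1065, .ofNat 888, .ofNat 0, .ofNat 888, .ofNat 2138, .ofNat 0, .ofNat 128, .negSucc 151, .negSucc 49, .ofNat 0, .ofNat 158, .ofNat 4, .ofNat 0, .ofNat 0, .ofNat 2778, .ofNat 10342, .ofNat 0, .ofNat 0, .ofNat 0,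 .ofNat 0, .ofNat 0, .ofNat 0, .ofNat 0, .ofNat 0, .ofNat 0, .ofNat 6605927036088467509156051782267108075665096704, .ofNat 0, .ofNat 0, .ofNat 0, .ofNat 104904102301084203121132883722394324081062182912, .ofNat 0, .ofNat 0⟩)
    (by decide +kernel)
theorem L00642 : Good (Phi V5.P V5.D 1 (-1)) ⟨4, 1, 3, 3, 4, 6, 2, 2, 4, 7⟩ :=
  leafYS_sound T5.ok_pm T5.Ypm.bz_eq (w := 241) (c := ⟨⟨.negSucc 965, .negSucc 27, .ofNat 11, .ofNat 1, .negSucc 59, .ofNat 70⟩, ⟨.ofNat 353, .ofNat 19, .ofNat 126, .negSucc 6, .ofNat 32, .negSucc 40⟩, ⟨.ofNat 1269, .ofNat 79, .ofNat 245, .ofNat 409, .negSucc 106, .ofNat 708⟩, ⟨.negSucc 2956, .negSucc 50, .negSucc 17, .negSucc 41, .negSucc 152, .ofNat 147⟩, ⟨.negSucc 197, .negSucc 31, .negSucc 38, .negSucc 92, .ofNat 49, .negSucc 117⟩, .ofNat 1081, .ofNat 912, .ofNat 0, .ofNat 912, .ofNat 2165, .ofNat 0, .ofNat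 128, .negSucc 195, .ofNat 28, .ofNat 0, .ofNat 202, .negSucc 68, .ofNat 0, .ofNat 0, .ofNat 4823, .ofNat 26184, .ofNat 0, .ofNat 0, .ofNat 0, .ofNat 0, .ofNat 564883753984443349850305302871826694796922270515200, .ofNat 0, .ofNat 0, .ofNat 0, .ofNat 3631550085826802765884691036555783321734494828888064, .ofNat 45180120645155760370067286630119906396361430401024, .ofNat 0, .ofNat 0, .ofNat 39642328226123595330647165380661030740806345705914368, .ofNat 2098893910415567507333086238680804463624857879314432, .ofNat 0, .ofNat 0⟩)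
    (by decide +kernel)
theorem L00643 : Good (Phi V5.P V5.D 1 (-1)) ⟨4, 1, 3, 3, 4, 7, 3, 4, 4, 7⟩ :=
  leafYS_sound T5.ok_pm T5.Ypm.bz_eq (w := 247) (c := ⟨⟨.negSucc 1017, .negSucc 25, .ofNat 15, .ofNat 10, .ofNat 7, .ofNat 123⟩, ⟨.ofNat 375, .ofNat 19, .ofNat 126, .negSucc 10, .negSucc 5, .negSucc 72⟩, ⟨.ofNat 1163, .ofNat 55, .ofNat 239, .ofNat 386, .ofNat 334, .ofNat 1377⟩, ⟨.negSucc 3102, .negSucc 38, .negSucc 11, .negSucc 11, .negSucc 8, .ofNat 253⟩, ⟨.negSucc 197, .negSucc 19, .negSucc 34, .negSucc 86, .negSucc 52, .negSucc 200⟩, .ofNat 748, .ofNat 459, .ofNat 0, .ofNat 459, .ofNat 1292, .ofNat 0, .ofNat 131, .negSucc 102, .ofNat 26, .ofNat 0, .ofNat 128, .negSucc 49, .ofNat 0, .ofNat 0, .ofNat 3213, .ofNat 100531, .ofNat 0, .ofNat 0, .ofNat 0, .ofNat 0, .ofNat 17892762099189847439742880288410473339600568919785472, .ofNat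 0, .ofNat 0, .ofNat 0, .ofNat 34904847633657260728893780351976765827631058939543552, .ofNat 0, .ofNat 0, .ofNat 0, .ofNat 650485222548251403658647414230995860914235121567006720, .ofNat 0, .ofNat 0, .ofNat 0⟩)
    (by decide +kernel)
theorem L00644 : Good (Phi V5.P V5.D 1 (-1)) ⟨4, 1, 3, 3, 4, 7, 3, 5, 4, 7⟩ :=
  leafYS_sound T5.ok_pm T5.Ypm.bz_eq (w := 243) (c := ⟨⟨.negSucc 1018, .negSucc 26, .ofNat 22, .ofNat 23, .negSucc 11, .ofNat 107⟩, ⟨.ofNat 376, .ofNat 19, .ofNat 121, .negSucc 20, .ofNat 2, .negSucc 64⟩, ⟨.ofNat 1310, .ofNat 70, .ofNat 357, .ofNat 614, .ofNat 229, .ofNat 1205⟩, ⟨.negSucc 3110, .negSucc 47, .negSucc 8, .ofNat 3, .negSucc 56, .ofNat 219⟩, ⟨.negSucc 198, .negSucc 28, .negSucc 64, .negSucc 136, .negSucc 43, .negSucc 198⟩, .ofNat 745, .ofNat 454, .ofNat 0, .ofNat 454, .ofNat 1286, .ofNat 0, .ofNat 128, .negSucc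 129, .ofNat 118, .ofNat 0, .ofNat 164, .negSucc 121, .ofNat 0, .ofNat 0, .ofNat 3681, .ofNat 5913, .ofNat 0, .ofNat 9016798779284306217147502385020845836342009004032, .ofNat 0, .ofNat 0, .ofNat 0, .ofNat 66271291315782117552564460676500383103269287755776, .ofNat 0, .ofNat 0, .ofNat 0, .ofNat 219550691628476316290254957768383602078716711141376, .ofNat 0, .ofNat 0, .ofNat 0, .ofNat 6926820666157486759744116742757299949034005759787008, .ofNat 0, .ofNat 0⟩)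
    (by decide +kernel)
theorem L00645 : Good (Phi V5.P V5.D 1 (-1)) ⟨4, 1, 3, 3, 4, 6, 3, 6, 3, 3⟩ :=
  leafYS_sound T5.ok_pm T5.Ypm.bz_eq (w := 238) (c := ⟨⟨.negSucc 1052, .negSucc 31, .ofNat 7, .negSucc 11, .negSucc 54, .ofNat 92⟩, ⟨.ofNat 395, .ofNat 21, .ofNat 132, .ofNat 1, .ofNat 32, .negSucc 48⟩, ⟨.ofNat 1078, .ofNat 63, .ofNat 172, .ofNat 278, .negSucc 83, .ofNat 621⟩, ⟨.negSucc 3203, .negSucc 58, .negSucc 19, .negSucc 66, .negSucc 134, .ofNat 229⟩, ⟨.negSucc 159, .negSucc 34, .negSucc 29, .negSucc 62, .ofNat 60, .negSucc 75⟩, .ofNat 1190, .ofNat 1077, .ofNat 0, .ofNat 1077, .ofNat 2478, .ofNat 0, .ofNat 128, .negSucc 159, .negSucc 12, .ofNat 0, .ofNat 161, .negSucc 26, .ofNat 0, .ofNat 0, .ofNat 2843, .ofNat 5580, .ofNat 0, .ofNat 673466298855826763789135904983701459309028179968, .ofNat 0, .ofNat 0, .ofNat 0, .ofNat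 3768296175462372174388524474124984632213554331648, .ofNat 0, .ofNat 0, .ofNat 0, .ofNat 24904538663942799014657474501012930324990999396352, .ofNat 0, .ofNat 0, .ofNat 0, .ofNat 540815707954099480985234451489967620279441073111040, .ofNat 0, .ofNat 0⟩)
    (by decide +kernel)
theorem L00646 : Good (Phi V5.P V5.D 1 (-1)) ⟨4, 1, 3, 3, 4, 7, 3, 6, 3, 3⟩ :=
  leafYS_sound T5.ok_pm T5.Ypm.bz_eq (w := 237) (c := ⟨⟨.negSucc 1076, .negSucc 32, .ofNat 10, .negSucc 11, .negSucc 47, .ofNat 116⟩, ⟨.ofNat 399, .ofNat 22, .ofNat 134, .ofNat 1, .ofNat 24, .negSucc 62⟩, ⟨.ofNat 1271, .ofNat 66, .ofNat 177, .ofNat 267, .ofNat 55, .ofNat 845⟩, ⟨.negSucc 3292, .negSucc 63, .negSucc 19, .negSucc 68, .negSucc 127, .ofNat 284⟩, ⟨.negSucc 211, .negSucc 33, .negSucc 35, .negSucc 66, .ofNat 30, .negSucc 112⟩, .ofNat 1080, .ofNat 911, .ofNat 0, .ofNat 911,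 .ofNat 2164, .ofNat 0, .ofNat 128, .negSucc 127, .ofNat 5, .ofNat 0, .ofNat 131, .negSucc 26, .ofNat 0, .ofNat 0, .ofNat 1914, .ofNat 3704, .ofNat 0, .ofNat 1049128817076089714483369266738514338340342333440, .ofNat 0, .ofNat 0, .ofNat 0, .ofNat 11555760932122168124791734067354726943889979080704, .ofNat 0, .ofNat 0, .ofNat 0, .ofNat 33689422119721467857559166095310912872769271103488, .ofNat 0, .ofNat 0, .ofNat 0, .ofNat 381461130450800786626217216963821913232224863387648, .ofNat 0, .ofNat 0⟩)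
    (by decide +kernel)
theorem L00647 : Good (Phi V5.P V5.D 1 (-1)) ⟨4, 1, 3, 3, 3, 3, 3, 7, 3, 3⟩ :=
  leafYS_sound T5.ok_pm T5.Ypm.bz_eq (w := 226) (c := ⟨⟨.negSucc 1092, .negSucc 40, .ofNat 0, .negSucc 91, .negSucc 100, .ofNat 19⟩, ⟨.ofNat 415, .ofNat 26, .ofNat 140, .ofNat 31, .ofNat 60, .negSucc 8⟩, ⟨.ofNat 1111, .ofNat 58, .ofNat 122, .ofNat 425, .negSucc 83, .ofNat 139⟩, ⟨.negSucc 3303, .negSucc 91, .negSucc 25, .negSucc 293, .negSucc 231, .ofNat 96⟩, ⟨.negSucc 105, .negSucc 43, .negSucc 22, .negSucc 104, .ofNat 104, .ofNat 38⟩, .ofNat 194, .ofNat 26, .ofNat 0, .ofNat 26, .ofNat 225, .ofNat 0, .ofNat 196, .negSucc 27, .negSucc 64, .ofNat 0, .ofNat 128, .negSucc 39, .ofNat 0, .ofNat 0, .ofNat 563, .ofNat 24272, .ofNat 0, .ofNat 1901395808054745823231699026466860813730709504, .ofNat 0, .ofNat 0, .ofNat 0, .ofNat 46586435804707578600442855234188436107664818176,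 .ofNat 0, .ofNat 0, .ofNat 0, .ofNat 19197048729435100604625118865513005575514882048, .ofNat 0, .ofNat 0, .ofNat 0, .ofNat 48504380915870616257000646761873409880793022464, .ofNat 0, .ofNat 0⟩)
    (by decide +kernel)
theorem L00648 : Good (Phi V5.P V5.D 1 (-1)) ⟨4, 1, 3, 3, 3, 3, 3, 4, 4, 8⟩ :=
  out_sound (S := T5.ds_pm) T5.ok_pm (w := 27) (j := 1) (by decide +kernel)
theorem L00649 : Good (Phi V5.P V5.D 1 (-1)) ⟨4, 1, 3, 3, 4, 6, 3, 5, 5, 16⟩ :=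
  out_sound (S := T5.ds_pm) T5.ok_pm (w := 31) (j := 1) (by decide +kernel)
theorem L00650 : Good (Phi V5.P V5.D 1 (-1)) ⟨4, 1, 3, 3, 4, 7, 4, 10, 5, 16⟩ :=
  out_sound (S := T5.ds_pm) T5.ok_pm (w := 32) (j := 1) (by decide +kernel)
theorem L00651 : Good (Phi V5.P V5.D 1 (-1)) ⟨4, 1, 3, 3, 4, 7, 4, 11, 5, 16⟩ :=
  out_sound (S := T5.ds_pm) T5.ok_pm (w := 40) (j := 2) (by decide +kernel)
theorem L00652 : Good (Phi V5.P V5.D 1 (-1)) ⟨4, 1, 3, 3, 3, 3, 3, 5, 5, 17⟩ :=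
  out_sound (S := T5.ds_pm) T5.ok_pm (w := 29) (j := 1) (by decide +kernel)
theorem L00653 : Good (Phi V5.P V5.D 1 (-1)) ⟨4, 1, 3, 3, 4, 6, 5, 24, 6, 32⟩ :=
  out_sound (S := T5.ds_pm) T5.ok_pm (w := 35) (j := 1) (by decide +kernel)
theorem L00654 : Good (Phi V5.P V5.D 1 (-1)) ⟨4, 1, 3, 3, 4, 6, 5, 25, 6, 32⟩ :=
  out_sound (S := T5.ds_pm) T5.ok_pm (w := 44) (j := 2) (by decide +kernel)
theorem L00655 : Good (Phi V5.P V5.D 1 (-1)) ⟨4, 1, 3, 3, 4, 6, 4, 12, 6, 33⟩ :=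
  out_sound (S := T5.ds_pm) T5.ok_pm (w := 34) (j := 1) (by decide +kernel)
theorem L00656 : Good (Phi V5.P V5.D 1 (-1)) ⟨4, 1, 3, 3, 4, 6, 4, 12, 5, 17⟩ :=
  out_sound (S := T5.ds_pm) T5.ok_pm (w := 32) (j := 1) (by decide +kernel)
theorem L00657 : Good (Phi V5.P V5.D 1 (-1)) ⟨4, 1, 3, 3, 4, 6, 4, 13, 4, 8⟩ :=
  out_sound (S := T5.ds_pm) T5.ok_pm (w := 38) (j := 2) (by decide +kernel)
theorem L00658 : Good (Phi V5.P V5.D 1 (-1)) ⟨4, 1, 3, 3, 4, 7, 3, 6, 4, 8⟩ :=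
  out_sound (S := T5.ds_pm) T5.ok_pm (w := 36) (j := 2) (by decide +kernel)
theorem L00659 : Good (Phi V5.P V5.D 1 (-1)) ⟨4, 1, 3, 3, 3, 3, 3, 7, 4, 8⟩ :=
  out_sound (S := T5.ds_pm) T5.ok_pm (w := 34) (j := 2) (by decide +kernel)
theorem L00660 : Good (Phi V5.P V5.D 1 (-1)) ⟨4, 1, 3, 3, 3, 3, 2, 2, 4, 9⟩ :=
  out_sound (S := T5.ds_pm) T5.ok_pm (w := 26) (j := 1) (by decide +kernel)
theorem L00661 : Good (Phi V5.P V5.D 1 (-1)) ⟨4, 1, 3, 3, 3, 3, 2, 3, 4, 9⟩ :=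
  out_sound (S := T5.ds_pm) T5.ok_pm (w := 32) (j := 2) (by decide +kernel)
theorem L00662 : Good (Phi V5.P V5.D 1 (-1)) ⟨4, 1, 3, 3, 3, 3, 1, 1, 3, 5⟩ :=
  out_sound (S := T5.ds_pm) T5.ok_pm (w := 23) (j := 1) (by decide +kernel)
theorem L00663 : Good (Phi V5.P V5.D 1 (-1)) ⟨4, 1, 3, 3, 3, 3, 1, 1, 2, 3⟩ :=
  out_sound (S := T5.ds_pm) T5.ok_pm (w := 21) (j := 1) (by decide +kernel)
theorem L00664 : Good (Phi V5.P V5.D 1 (-1)) ⟨3, 1, 3, 2, 1, 0, 2, 0, 4, 0⟩ :=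
  leafYS_sound T5.ok_pm T5.Ypm.bz_eq (w := 191) (c := ⟨⟨.ofNat 502, .ofNat 80, .ofNat 37, .ofNat 597, .ofNat 60, .negSucc 1243⟩, ⟨.negSucc 164, .ofNat 5, .negSucc 81, .negSucc 224, .ofNat 4, .ofNat 422⟩, ⟨.negSucc 381, .negSucc 108, .negSucc 66, .negSucc 618, .negSucc 127, .ofNat 971⟩, ⟨.ofNat 1439, .ofNat 165, .ofNat 78, .ofNat 1597, .ofNat 292, .negSucc 3625⟩, ⟨.negSucc 213, .ofNat 134, .ofNat 1, .negSucc 265, .ofNat 338, .negSucc 221⟩, .ofNat 658, .ofNat 336, .ofNat 0, .ofNat 336, .ofNat 1240, .ofNat 0, .ofNat 208, .negSucc 94, .negSucc 168, .ofNat 0, .ofNat 128, .ofNat 62, .ofNat 0, .ofNat 0, .ofNat 519, .ofNat 3636, .ofNat 0, .ofNat 0, .ofNat 0, .ofNat 0, .ofNat 75450058343836073451388156331547426816, .ofNat 0, .ofNat 0, .ofNat 0, .ofNat 0, .ofNat 0, .ofNat 0, .ofNat 0, .ofNat 0, .ofNat 0, .ofNat 0, .ofNat 0⟩)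
    (by decide +kernel)
theorem L00665 : Good (Phi V5.P V5.D 1 (-1)) ⟨3, 1, 3, 2, 1, 0, 2, 1, 4, 0⟩ :=
  leafYS_sound T5.ok_pm T5.Ypm.bz_eq (w := 190) (c := ⟨⟨.ofNat 572, .ofNat 26, .ofNat 42, .ofNat 603, .negSucc 326, .negSucc 1269⟩, ⟨.negSucc 187, .negSucc 18, .negSucc 43, .negSucc 206, .ofNat 150, .ofNat 411⟩, ⟨.negSucc 630, .negSucc 2, .negSucc 34, .negSucc 669, .ofNat 330, .ofNat 1147⟩, ⟨.ofNat 1637, .ofNat 33, .ofNat 99, .ofNat 1718, .negSucc 901, .negSucc 3681⟩, ⟨.negSucc 136, .ofNat 84, .ofNat 24, .ofNat 20, .ofNat 122, .negSucc 142⟩, .ofNat 649, .ofNat 315, .ofNat 0, .ofNat 315, .ofNat 1224, .ofNat 0, .ofNat 194, .negSucc 87, .negSucc 185, .ofNat 0, .ofNat 128, .ofNat 63, .ofNat 0, .ofNat 0, .ofNat 459, .ofNat 1612, .ofNat 0, .ofNat 0, .ofNat 0, .ofNat 0, .ofNat 0, .ofNat 0, .ofNat 0, .ofNat 0, .ofNat 0, .ofNat 0, .ofNat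 0, .ofNat 0, .ofNat 0, .ofNat 0, .ofNat 0, .ofNat 0⟩)
    (by decide +kernel)
theorem L00666 : Good (Phi V5.P V5.D 1 (-1)) ⟨3, 1, 3, 2, 1, 0, 2, 2, 4, 0⟩ :=
  leafYS_sound T5.ok_pm T5.Ypm.bz_eq (w := 190) (c := ⟨⟨.ofNat 45, .negSucc 44, .negSucc 2, .ofNat 531, .negSucc 294, .negSucc 763⟩, ⟨.negSucc 28, .ofNat 17, .ofNat 34, .negSucc 186, .ofNat 87, .ofNat 244⟩, ⟨.negSucc 148, .ofNat 40, .negSucc 0, .negSucc 577, .ofNat 357, .ofNat 714⟩, ⟨.ofNat 113, .negSucc 104, .negSucc 10, .ofNat 1507, .negSucc 863, .negSucc 2223⟩, ⟨.ofNat 21, .negSucc 51, .ofNat 25, .negSucc 73, .negSucc 56, .negSucc 110⟩, .ofNat 854, .ofNat 583, .ofNat 0, .ofNat 583, .ofNat 1899, .ofNat 0, .ofNat 212, .negSucc 104, .negSucc 209, .ofNat 0, .ofNat 128, .ofNat 75, .ofNat 0, .ofNat 0, .ofNat 518, .ofNat 1055, .ofNat 0, .ofNat 0, .ofNat 0, .ofNat 0, .ofNat 0,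 .ofNat 0, .ofNat 0, .ofNat 0, .ofNat 0, .ofNat 0, .ofNat 0, .ofNat 0, .ofNat 0, .ofNat 0, .ofNat 0, .ofNat 0⟩)
    (by decide +kernel)
theorem L00667 : Good (Phi V5.P V5.D 1 (-1)) ⟨3, 1, 3, 2, 1, 0, 2, 3, 4, 0⟩ :=
  leafYS_sound T5.ok_pm T5.Ypm.bz_eq (w := 190) (c := ⟨⟨.negSucc 553, .ofNat 54, .ofNat 55, .ofNat 86, .ofNat 310, .negSucc 128⟩, ⟨.ofNat 162, .negSucc 14, .ofNat 20, .negSucc 33, .negSucc 107, .ofNat 39⟩, ⟨.ofNat 362, .negSucc 51, .negSucc 81, .ofNat 174, .negSucc 203, .ofNat 35⟩, ⟨.negSucc 1623, .ofNat 247, .ofNat 133, .ofNat 220, .ofNat 885, .negSucc 400⟩, ⟨.negSucc 132, .ofNat 107, .negSucc 12, .negSucc 11, .ofNat 17, .negSucc 52⟩, .ofNat 865, .ofNat 606, .ofNat 0, .ofNat 606, .ofNat 1928, .ofNat 0, .ofNat 252, .negSucc 104, .negSucc 345, .ofNat 0, .ofNat 128, .ofNat 125, .ofNat 0, .ofNat 0, .ofNat 797, .ofNat 914,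 .ofNat 0, .ofNat 0, .ofNat 0, .ofNat 0, .ofNat 0, .ofNat 0, .ofNat 0, .ofNat 0, .ofNat 0, .ofNat 0, .ofNat 0, .ofNat 0, .ofNat 0, .ofNat 0, .ofNat 0, .ofNat 0⟩)
    (by decide +kernel)
theorem L00668 : Good (Phi V5.P V5.D 1 (-1)) ⟨3, 1, 3, 2, 1, 0, 1, 0, 4, 1⟩ :=
  leafYS_sound T5.ok_pm T5.Ypm.bz_eq (w := 186) (c := ⟨⟨.negSucc 590, .negSucc 21, .ofNat 39, .ofNat 414, .negSucc 8, .negSucc 694⟩, ⟨.ofNat 130, .ofNat 6, .ofNat 79, .negSucc 195, .ofNat 13, .ofNat 248⟩, ⟨.ofNat 675, .negSucc 27, .negSucc 32, .negSucc 1051, .ofNat 67, .ofNat 671⟩, ⟨.negSucc 1826, .ofNat 90, .ofNat 72, .ofNat 990, .ofNat 12, .negSucc 1908⟩, ⟨.negSucc 161, .ofNat 58, .negSucc 8, .negSucc 500, .ofNat 76, .ofNat 40⟩, .ofNat 867, .ofNat 618, .ofNat 0, .ofNat 618, .ofNat 1953, .ofNat 0, .ofNat 187, .negSucc 110, .negSucc 136, .ofNat 0, .ofNat 128, .ofNat 53,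 .ofNat 0, .ofNat 0, .ofNat 507, .ofNat 1698, .ofNat 0, .ofNat 0, .ofNat 0, .ofNat 0, .ofNat 0, .ofNat 0, .ofNat 0, .ofNat 0, .ofNat 0, .ofNat 0, .ofNat 0, .ofNat 0, .ofNat 0, .ofNat 0, .ofNat 0, .ofNat 0⟩)
    (by decide +kernel)
theorem L00669 : Good (Phi V5.P V5.D 1 (-1)) ⟨3, 1, 3, 2, 1, 0, 1, 1, 4, 1⟩ :=
  leafYS_sound T5.ok_pm T5.Ypm.bz_eq (w := 186) (c := ⟨⟨.negSucc 934, .negSucc 15, .negSucc 3, .ofNat 123, .ofNat 611, .negSucc 249⟩, ⟨.ofNat 275, .ofNat 9, .ofNat 87, .negSucc 75, .negSucc 214, .ofNat 80⟩, ⟨.ofNat 749, .ofNat 44, .ofNat 10, .negSucc 56, .negSucc 591, .ofNat 180⟩, ⟨.negSucc 2658, .ofNat 56, .ofNat 11, .ofNat 194, .ofNat 1674, .negSucc 746⟩, ⟨.ofNat 74, .ofNat 8, .ofNat 110, .negSucc 412, .negSucc 142, .negSucc 93⟩, .ofNat 862, .ofNat 602, .ofNat 0, .ofNat 602, .ofNat 1926, .ofNat 0, .ofNat 248, .negSucc 105,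 .negSucc 308, .ofNat 0, .ofNat 128, .ofNat 115, .ofNat 0, .ofNat 0, .ofNat 946, .ofNat 889, .ofNat 0, .ofNat 0, .ofNat 0, .ofNat 0, .ofNat 0, .ofNat 0, .ofNat 0, .ofNat 0, .ofNat 0, .ofNat 0, .ofNat 0, .ofNat 0, .ofNat 0, .ofNat 0, .ofNat 0, .ofNat 0⟩)
    (by decide +kernel)
theorem L00670 : Good (Phi V5.P V5.D 1 (-1)) ⟨3, 1, 3, 2, 1, 0, 1, 0, 3, 1⟩ :=
  leafYS_sound T5.ok_pm T5.Ypm.bz_eq (w := 182) (c := ⟨⟨.negSucc 1227, .negSucc 32, .ofNat 22, .ofNat 80, .ofNat 127, .negSucc 180⟩, ⟨.ofNat 334, .ofNat 12, .ofNat 147, .negSucc 77, .negSucc 40, .ofNat 66⟩, ⟨.ofNat 1197, .negSucc 50, .ofNat 2, .negSucc 758, .negSucc 11, .ofNat 502⟩, ⟨.negSucc 3622, .ofNat 131, .ofNat 33, .ofNat 55, .ofNat 380, .negSucc 490⟩, ⟨.negSucc 70, .negSucc 5, .ofNat 12, .negSucc 494, .ofNat 49, .ofNat 62⟩, .ofNat 653, .ofNat 326, .ofNat 0, .ofNat 326, .ofNat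 1234, .ofNat 0, .ofNat 242, .negSucc 87, .negSucc 133, .ofNat 0, .ofNat 128, .ofNat 53, .ofNat 0, .ofNat 0, .ofNat 767, .ofNat 2398, .ofNat 0, .ofNat 0, .ofNat 0, .ofNat 0, .ofNat 0, .ofNat 0, .ofNat 0, .ofNat 0, .ofNat 0, .ofNat 0, .ofNat 0, .ofNat 0, .ofNat 2409410094637867960027475971013607424, .ofNat 0, .ofNat 0, .ofNat 0⟩)
    (by decide +kernel)
theorem L00671 : Good (Phi V5.P V5.D 1 (-1)) ⟨3, 1, 3, 2, 2, 0, 1, 1, 3, 1⟩ :=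
  leafYS_sound T5.ok_pm T5.Ypm.bz_eq (w := 195) (c := ⟨⟨.negSucc 1043, .negSucc 93, .negSucc 0, .negSucc 2, .ofNat 536, .negSucc 211⟩, ⟨.ofNat 312, .ofNat 27, .ofNat 105, .negSucc 27, .negSucc 187, .ofNat 68⟩, ⟨.ofNat 1138, .ofNat 84, .negSucc 9, .ofNat 79, .negSucc 954, .ofNat 111⟩, ⟨.negSucc 3093, .negSucc 85, .ofNat 0, .negSucc 51, .ofNat 1539, .negSucc 586⟩, ⟨.negSucc 116, .ofNat 45, .ofNat 23, .negSucc 139, .ofNat 5, .ofNat 83⟩, .ofNat 769, .ofNat 468, .ofNat 0, .ofNat 468, .ofNat 1598, .ofNat 0, .ofNat 285, .negSucc 96, .negSucc 99, .ofNat 0, .ofNat 128, .ofNat 35, .ofNat 0, .ofNat 0, .ofNat 477, .ofNat 1047, .ofNat 0, .ofNat 0, .ofNat 0, .ofNat 0, .ofNat 0, .ofNat 0, .ofNat 0, .ofNat 0, .ofNat 0, .ofNat 0, .ofNat 0, .ofNat 0, .ofNat 0, .ofNat 0, .ofNat 0, .ofNat 0⟩)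
    (by decide +kernel)
theorem L00672 : Good (Phi V5.P V5.D 1 (-1)) ⟨3, 1, 3, 2, 2, 1, 1, 1, 3, 1⟩ :=
  leafYS_sound T5.ok_pm T5.Ypm.bz_eq (w := 195) (c := ⟨⟨.negSucc 983, .negSucc 68, .ofNat 13, .negSucc 89, .ofNat 133, .negSucc 185⟩, ⟨.ofNat 231, .ofNat 26, .ofNat 138, .ofNat 22, .negSucc 40, .ofNat 69⟩, ⟨.ofNat 740, .ofNat 78, .negSucc 42, .ofNat 82, .negSucc 23, .ofNat 355⟩, ⟨.negSucc 2977, .ofNat 7, .ofNat 18, .negSucc 306, .ofNat 404, .negSucc 531⟩, ⟨.negSucc 276, .ofNat 7, .ofNat 49, .negSucc 148, .ofNat 38, .ofNat 25⟩, .ofNat 656, .ofNat 328, .ofNat 0, .ofNat 328, .ofNat 1231, .ofNat 0, .ofNat 234, .negSucc 89, .negSucc 116, .ofNat 0, .ofNat 128, .ofNat 45, .ofNat 0, .ofNat 0, .ofNat 507, .ofNat 609, .ofNat 0, .ofNat 0, .ofNat 0, .ofNat 0, .ofNat 0, .ofNat 823510608280455977455525745640859500544, .ofNat 0, .ofNat 0, .ofNat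 0, .ofNat 371904545936381900699935302075140800512, .ofNat 0, .ofNat 0, .ofNat 0, .ofNat 511421797761673834184723025460117635072, .ofNat 0, .ofNat 0⟩)
    (by decide +kernel)
theorem L00673 : Good (Phi V5.P V5.D 1 (-1)) ⟨3, 1, 3, 2, 2, 0, 1, 0, 4, 4⟩ :=
  leafYS_sound T5.ok_pm T5.Ypm.bz_eq (w := 203) (c := ⟨⟨.negSucc 1346, .negSucc 83, .ofNat 5, .ofNat 9, .ofNat 171, .ofNat 55⟩, ⟨.ofNat 385, .ofNat 21, .ofNat 143, .negSucc 23, .negSucc 57, .negSucc 16⟩, ⟨.ofNat 1649, .ofNat 93, .ofNat 5, .negSucc 55, .negSucc 450, .ofNat 17⟩, ⟨.negSucc 3956, .negSucc 17, .ofNat 1, .negSucc 38, .ofNat 503, .ofNat 158⟩, ⟨.negSucc 21, .ofNat 5, .negSucc 0, .negSucc 200, .ofNat 19, .ofNat 7⟩, .ofNat 414, .ofNat 111, .ofNat 0, .ofNat 111, .ofNat 612, .ofNat 0, .ofNat 238, .negSucc 50, .negSucc 148, .ofNat 0, .ofNat 128, .ofNat 47, .ofNat 0, .ofNat 0,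 .ofNat 1182, .ofNat 14690, .ofNat 0, .ofNat 0, .ofNat 0, .ofNat 0, .ofNat 365182243443526223513688883614601179037696, .ofNat 0, .ofNat 0, .ofNat 0, .ofNat 125607734442568437127925598726264971067392, .ofNat 0, .ofNat 0, .ofNat 0, .ofNat 1384178398136082346755452431699536580182016, .ofNat 0, .ofNat 0, .ofNat 0⟩)
    (by decide +kernel)
theorem L00674 : Good (Phi V5.P V5.D 1 (-1)) ⟨3, 1, 3, 2, 2, 0, 1, 0, 4, 5⟩ :=
  leafYS_sound T5.ok_pm T5.Ypm.bz_eq (w := 206) (c := ⟨⟨.negSucc 1274, .negSucc 82, .ofNat 4, .negSucc 1, .ofNat 160, .ofNat 55⟩, ⟨.ofNat 360, .ofNat 23, .ofNat 137, .negSucc 17, .negSucc 49, .negSucc 18⟩, ⟨.ofNat 1706, .ofNat 89, .ofNat 5, .ofNat 37, .negSucc 552, .ofNat 8⟩, ⟨.negSucc 3735, .negSucc 20, .ofNat 1, .negSucc 66, .ofNat 453, .ofNat 162⟩, ⟨.negSucc 3, .ofNat 1, .ofNat 0, .negSucc 185, .ofNat 0, .ofNat 8⟩, .ofNat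 654, .ofNat 324, .ofNat 0, .ofNat 324, .ofNat 1226, .ofNat 0, .ofNat 291, .negSucc 83, .negSucc 89, .ofNat 0, .ofNat 128, .ofNat 35, .ofNat 0, .ofNat 0, .ofNat 1439, .ofNat 60577, .ofNat 188774023354635266509444078526909070180352, .ofNat 0, .ofNat 0, .ofNat 0, .ofNat 2102075361077015889558955265633755890450432, .ofNat 0, .ofNat 0, .ofNat 0, .ofNat 707333261697980835803192175695441078255616, .ofNat 0, .ofNat 0, .ofNat 0, .ofNat 4570120025352187433155428501671806310023168, .ofNat 0, .ofNat 0, .ofNat 0⟩)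
    (by decide +kernel)
theorem L00675 : Good (Phi V5.P V5.D 1 (-1)) ⟨3, 1, 3, 2, 2, 0, 1, 0, 3, 3⟩ :=
  out_sound (S := T5.ds_pm) T5.ok_pm (w := 21) (j := 1) (by decide +kernel)
theorem L00676 : Good (Phi V5.P V5.D 1 (-1)) ⟨3, 1, 3, 2, 2, 0, 2, 2, 3, 2⟩ :=
  leafYS_sound T5.ok_pm T5.Ypm.bz_eq (w := 202) (c := ⟨⟨.negSucc 1146, .negSucc 80, .ofNat 2, .negSucc 20, .ofNat 87, .ofNat 86⟩, ⟨.ofNat 323, .ofNat 25, .ofNat 131, .negSucc 9, .negSucc 27, .negSucc 29⟩, ⟨.ofNat 1166, .ofNat 90, .ofNat 1, .ofNat 122, .negSucc 297, .negSucc 91⟩, ⟨.negSucc 3367, .negSucc 34, .negSucc 2, .negSucc 118, .ofNat 251, .ofNat 250⟩, ⟨.negSucc 7, .negSucc 1, .negSucc 1, .negSucc 176, .ofNat 16, .ofNat 6⟩, .ofNat 651, .ofNat 316, .ofNat 0, .ofNat 316, .ofNat 1220, .ofNat 0, .ofNat 212, .negSucc 81, .negSucc 79, .ofNat 0, .ofNat 128, .ofNat 26, .ofNat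 0, .ofNat 0, .ofNat 778, .ofNat 9366, .ofNat 0, .ofNat 0, .ofNat 0, .ofNat 0, .ofNat 0, .ofNat 0, .ofNat 0, .ofNat 0, .ofNat 0, .ofNat 0, .ofNat 0, .ofNat 0, .ofNat 0, .ofNat 0, .ofNat 0, .ofNat 0⟩)
    (by decide +kernel)
theorem L00677 : Good (Phi V5.P V5.D 1 (-1)) ⟨3, 1, 3, 2, 2, 0, 2, 3, 3, 2⟩ :=
  leafYS_sound T5.ok_pm T5.Ypm.bz_eq (w := 200) (c := ⟨⟨.negSucc 934, .negSucc 87, .negSucc 10, .negSucc 116, .ofNat 114, .negSucc 16⟩, ⟨.ofNat 252, .ofNat 24, .ofNat 127, .ofNat 31, .negSucc 31, .ofNat 8⟩, ⟨.ofNat 739, .ofNat 83, .ofNat 33, .ofNat 323, .negSucc 450, .negSucc 76⟩, ⟨.negSucc 2760, .negSucc 77, .negSucc 32, .negSucc 375, .ofNat 357, .negSucc 44⟩, ⟨.negSucc 22, .negSucc 32, .ofNat 10, .negSucc 113, .ofNat 71, .ofNat 16⟩, .ofNat 772, .ofNat 474, .ofNat 0, .ofNat 474, .ofNat 1603, .ofNat 0, .ofNat 274, .negSucc 96, .negSucc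 55, .ofNat 0, .ofNat 128, .ofNat 18, .ofNat 0, .ofNat 0, .ofNat 408, .ofNat 1557, .ofNat 0, .ofNat 0, .ofNat 0, .ofNat 0, .ofNat 0, .ofNat 0, .ofNat 0, .ofNat 0, .ofNat 0, .ofNat 0, .ofNat 0, .ofNat 0, .ofNat 0, .ofNat 0, .ofNat 0, .ofNat 0⟩)
    (by decide +kernel)
theorem L00678 : Good (Phi V5.P V5.D 1 (-1)) ⟨3, 1, 3, 2, 2, 0, 1, 1, 3, 3⟩ :=
  leafYS_sound T5.ok_pm T5.Ypm.bz_eq (w := 197) (c := ⟨⟨.negSucc 977, .negSucc 73, .negSucc 0, .negSucc 77, .ofNat 18, .negSucc 1⟩, ⟨.ofNat 263, .ofNat 19, .ofNat 126, .ofNat 15, .ofNat 8, .ofNat 9⟩, ⟨.ofNat 1022, .ofNat 71, .ofNat 42, .ofNat 292, .negSucc 731, .negSucc 87⟩, ⟨.negSucc 2895, .negSucc 26, .negSucc 9, .negSucc 261, .ofNat 102, .ofNat 2⟩, ⟨.negSucc 52, .negSucc 8, .negSucc 3, .negSucc 123, .ofNat 141, .ofNat 45⟩, .ofNat 654, .ofNat 324, .ofNat 0, .ofNat 324, .ofNat 1226, .ofNat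 0, .ofNat 260, .negSucc 83, .negSucc 28, .ofNat 0, .ofNat 128, .ofNat 7, .ofNat 0, .ofNat 0, .ofNat 423, .ofNat 2633, .ofNat 586880940461866867438169752308384006144, .ofNat 0, .ofNat 0, .ofNat 0, .ofNat 0, .ofNat 5308007067747488734809227358006901997568, .ofNat 0, .ofNat 0, .ofNat 0, .ofNat 2280163430024453377742804920966987120640, .ofNat 0, .ofNat 0, .ofNat 3592968344132511015330497180467166445568, .ofNat 0, .ofNat 0, .ofNat 0⟩)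
    (by decide +kernel)
theorem L00679 : Good (Phi V5.P V5.D 1 (-1)) ⟨3, 1, 3, 2, 2, 1, 2, 0, 3, 2⟩ :=
  leafYS_sound T5.ok_pm T5.Ypm.bz_eq (w := 205) (c := ⟨⟨.negSucc 1303, .negSucc 82, .ofNat 15, .negSucc 11, .ofNat 64, .ofNat 72⟩, ⟨.ofNat 336, .ofNat 34, .ofNat 157, .negSucc 19, .negSucc 22, .negSucc 11⟩, ⟨.ofNat 1267, .ofNat 60, .negSucc 12, .negSucc 402, .ofNat 65, .ofNat 341⟩, ⟨.negSucc 3909, .ofNat 5, .negSucc 3, .negSucc 100, .ofNat 195, .ofNat 227⟩, ⟨.negSucc 290, .ofNat 38, .ofNat 7, .negSucc 213, .ofNat 32, .ofNat 85⟩, .ofNat 652, .ofNat 318, .ofNat 0, .ofNat 318, .ofNat 1219, .ofNat 0, .ofNat 166, .negSucc 88, .negSucc 45, .ofNat 0, .ofNat 128, .ofNat 23, .ofNat 0, .ofNat 0, .ofNat 399, .ofNat 69547, .ofNat 276181210529390719445150673268374830579712, .ofNat 0, .ofNat 0, .ofNat 0, .ofNat 1133542332227091115186991253670881952530432,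 .ofNat 0, .ofNat 0, .ofNat 0, .ofNat 611194104354073532823510600658995709476864, .ofNat 0, .ofNat 0, .ofNat 0, .ofNat 762670951403581999155115491871111365263360, .ofNat 0, .ofNat 0, .ofNat 0⟩)
    (by decide +kernel)
theorem L00680 : Good (Phi V5.P V5.D 1 (-1)) ⟨3, 1, 3, 2, 2, 1, 2, 1, 4, 4⟩ :=
  leafYS_sound T5.ok_pm T5.Ypm.bz_eq (w := 208) (c := ⟨⟨.negSucc 1226, .negSucc 83, .ofNat 8, .negSucc 29, .ofNat 57, .ofNat 45⟩, ⟨.ofNat 314, .ofNat 32, .ofNat 149, .negSucc 9, .negSucc 14, .negSucc 11⟩, ⟨.ofNat 1169, .ofNat 122, .ofNat 18, .negSucc 183, .negSucc 29, .ofNat 116⟩, ⟨.negSucc 3680, .negSucc 14, .negSucc 11, .negSucc 144, .ofNat 172, .ofNat 139⟩, ⟨.negSucc 262, .ofNat 24, .ofNat 5, .negSucc 182, .ofNat 32, .ofNat 32⟩, .ofNat 852, .ofNat 584, .ofNat 0, .ofNat 584, .ofNat 1909, .ofNat 0, .ofNat 224, .negSucc 105, .negSucc 124,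 .ofNat 0, .ofNat 128, .ofNat 55, .ofNat 0, .ofNat 0, .ofNat 1181, .ofNat 21069, .ofNat 392558002438009077344698518271209798369280, .ofNat 0, .ofNat 0, .ofNat 0, .ofNat 0, .ofNat 0, .ofNat 0, .ofNat 0, .ofNat 0, .ofNat 0, .ofNat 0, .ofNat 0, .ofNat 0, .ofNat 0, .ofNat 0, .ofNat 0⟩)
    (by decide +kernel)
theorem L00681 : Good (Phi V5.P V5.D 1 (-1)) ⟨3, 1, 3, 2, 2, 1, 3, 2, 4, 5⟩ :=
  leafYS_sound T5.ok_pm T5.Ypm.bz_eq (w := 214) (c := ⟨⟨.negSucc 1165, .negSucc 85, .ofNat 10, .negSucc 32, .ofNat 16, .ofNat 67⟩, ⟨.ofNat 297, .ofNat 29, .ofNat 147, .negSucc 5, .negSucc 3, .negSucc 19⟩, ⟨.ofNat 1263, .ofNat 86, .ofNat 11, .negSucc 163, .ofNat 24, .ofNat 146⟩, ⟨.negSucc 3495, .negSucc 15, .negSucc 7, .negSucc 148, .ofNat 51, .ofNat 197⟩, ⟨.negSucc 236, .ofNat 17, .ofNat 5, .negSucc 170, .ofNat 15, .ofNat 32⟩, .ofNat 414, .ofNat 113,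 .ofNat 0, .ofNat 113, .ofNat 614, .ofNat 0, .ofNat 149, .negSucc 54, .negSucc 57, .ofNat 0, .ofNat 128, .ofNat 28, .ofNat 0, .ofNat 0, .ofNat 608, .ofNat 115855, .ofNat 25928606115621196807283754037214948767039488, .ofNat 0, .ofNat 0, .ofNat 0, .ofNat 29674268394215373580875154124128947883999232, .ofNat 0, .ofNat 0, .ofNat 0, .ofNat 0, .ofNat 0, .ofNat 0, .ofNat 0, .ofNat 110996379374349258441587899022614773580693504, .ofNat 0, .ofNat 0, .ofNat 0⟩)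
    (by decide +kernel)
theorem L00682 : Good (Phi V5.P V5.D 1 (-1)) ⟨3, 1, 3, 2, 2, 1, 3, 3, 4, 5⟩ :=
  leafYS_sound T5.ok_pm T5.Ypm.bz_eq (w := 213) (c := ⟨⟨.negSucc 1142, .negSucc 82, .ofNat 10, .negSucc 39, .ofNat 17, .ofNat 59⟩, ⟨.ofNat 293, .ofNat 28, .ofNat 141, .negSucc 2, .negSucc 3, .negSucc 17⟩, ⟨.ofNat 1164, .ofNat 106, .ofNat 21, .negSucc 9, .ofNat 3, .ofNat 111⟩, ⟨.negSucc 3419, .negSucc 27, .negSucc 4, .negSucc 170, .ofNat 50, .ofNat 180⟩, ⟨.negSucc 211, .ofNat 4, .ofNat 3, .negSucc 167, .ofNat 11, .ofNat 21⟩, .ofNat 414, .ofNat 110, .ofNat 0, .ofNat 110, .ofNat 611, .ofNat 0, .ofNat 189, .negSucc 52, .negSucc 110, .ofNat 0, .ofNat 128, .ofNat 43, .ofNat 0, .ofNat 0, .ofNat 1268, .ofNat 42354, .ofNat 7023534561464566362556708189846457714475008, .ofNat 0, .ofNat 0, .ofNat 0, .ofNat 2675972039532848428217569843335703090429952,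 .ofNat 0, .ofNat 0, .ofNat 0, .ofNat 0, .ofNat 0, .ofNat 0, .ofNat 0, .ofNat 0, .ofNat 0, .ofNat 0, .ofNat 0⟩)
    (by decide +kernel)
theorem L00683 : Good (Phi V5.P V5.D 1 (-1)) ⟨3, 1, 3, 2, 2, 1, 1, 0, 3, 3⟩ :=
  leafYS_sound T5.ok_pm T5.Ypm.bz_eq (w := 201) (c := ⟨⟨.negSucc 1090, .negSucc 85, .ofNat 8, .negSucc 40, .ofNat 26, .ofNat 139⟩, ⟨.ofNat 265, .ofNat 27, .ofNat 137, .ofNat 1, .ofNat 5, .negSucc 44⟩, ⟨.ofNat 1061, .ofNat 100, .ofNat 58, .ofNat 119, .ofNat 133, .ofNat 528⟩, ⟨.negSucc 3226, .negSucc 39, .negSucc 10, .negSucc 175, .ofNat 48, .ofNat 396⟩, ⟨.negSucc 212, .negSucc 5, .ofNat 1, .negSucc 152, .ofNat 27, .ofNat 21⟩, .ofNat 191, .ofNat 20, .ofNat 0, .ofNat 20, .ofNat 227, .ofNat 0, .ofNat 207, .negSucc 23, .negSucc 86, .ofNat 0, .ofNat 128, .ofNat 21, .ofNat 0, .ofNat 0, .ofNat 871, .ofNat 64051, .ofNat 38549014614637877995964032065186694168576,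 .ofNat 0, .ofNat 0, .ofNat 0, .ofNat 118351836690199328485298670850772907851776, .ofNat 0, .ofNat 0, .ofNat 0, .ofNat 58885454003831156391409681682316805537792, .ofNat 0, .ofNat 0, .ofNat 0, .ofNat 355096650628819599253517020024559166816256, .ofNat 0, .ofNat 0, .ofNat 0⟩)
    (by decide +kernel)
theorem L00684 : Good (Phi V5.P V5.D 1 (-1)) ⟨3, 1, 3, 2, 2, 1, 2, 2, 3, 2⟩ :=
  leafYS_sound T5.ok_pm T5.Ypm.bz_eq (w := 201) (c := ⟨⟨.negSucc 1130, .negSucc 91, .ofNat 2, .negSucc 72, .ofNat 19, .ofNat 74⟩, ⟨.ofNat 289, .ofNat 31, .ofNat 142, .ofNat 9, .negSucc 2, .negSucc 21⟩, ⟨.ofNat 999, .ofNat 124, .ofNat 37, .ofNat 134, .negSucc 14, .ofNat 178⟩, ⟨.negSucc 3387, .negSucc 58, .negSucc 17, .negSucc 262, .ofNat 65, .ofNat 228⟩, ⟨.negSucc 211, .negSucc 13, .ofNat 5, .negSucc 166, .ofNat 24, .ofNat 37⟩, .ofNat 656, .ofNat 323, .ofNat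 0, .ofNat 323, .ofNat 1220, .ofNat 0, .ofNat 249, .negSucc 86, .negSucc 154, .ofNat 0, .ofNat 128, .ofNat 56, .ofNat 0, .ofNat 0, .ofNat 1710, .ofNat 5518, .ofNat 0, .ofNat 0, .ofNat 0, .ofNat 0, .ofNat 0, .ofNat 0, .ofNat 0, .ofNat 0, .ofNat 0, .ofNat 0, .ofNat 0, .ofNat 0, .ofNat 0, .ofNat 0, .ofNat 0, .ofNat 0⟩)
    (by decide +kernel)
theorem L00685 : Good (Phi V5.P V5.D 1 (-1)) ⟨3, 1, 3, 2, 2, 1, 2, 3, 3, 2⟩ :=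
  leafYS_sound T5.ok_pm T5.Ypm.bz_eq (w := 199) (c := ⟨⟨.negSucc 1068, .negSucc 94, .ofNat 7, .negSucc 129, .negSucc 56, .ofNat 38⟩, ⟨.ofNat 268, .ofNat 32, .ofNat 137, .ofNat 33, .ofNat 31, .negSucc 4⟩, ⟨.ofNat 816, .ofNat 162, .ofNat 90, .ofNat 526, .negSucc 180, .ofNat 100⟩, ⟨.negSucc 3187, .negSucc 94, .negSucc 11, .negSucc 432, .negSucc 114, .ofNat 122⟩, ⟨.negSucc 190, .negSucc 35, .negSucc 11, .negSucc 156, .ofNat 123, .ofNat 53⟩, .ofNat 973, .ofNat 773, .ofNat 0, .ofNat 773, .ofNat 2305, .ofNat 0, .ofNat 206, .negSucc 111, .negSucc 59, .ofNat 0, .ofNat 128, .ofNat 18, .ofNat 0, .ofNat 0, .ofNat 697, .ofNat 699, .ofNat 0, .ofNat 0, .ofNat 0, .ofNat 0, .ofNat 0, .ofNat 7828522137884598538446318121446088376320, .ofNat 0, .ofNat 0, .ofNat 0, .ofNat 6195638402795805010668973103147957354496, .ofNat 0, .ofNat 0, .ofNat 0, .ofNat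 10272294286046792614371243383243252170752, .ofNat 0, .ofNat 0⟩)
    (by decide +kernel)
theorem L00686 : Good (Phi V5.P V5.D 1 (-1)) ⟨3, 1, 3, 2, 2, 1, 2, 2, 4, 6⟩ :=
  leafYS_sound T5.ok_pm T5.Ypm.bz_eq (w := 207) (c := ⟨⟨.negSucc 1037, .negSucc 89, .ofNat 13, .negSucc 71, .negSucc 16, .ofNat 51⟩, ⟨.ofNat 266, .ofNat 28, .ofNat 134, .ofNat 9, .ofNat 9, .negSucc 19⟩, ⟨.ofNat 1042, .ofNat 107, .ofNat 16, .ofNat 408, .negSucc 25, .ofNat 109⟩, ⟨.negSucc 3098, .negSucc 69, .ofNat 6, .negSucc 260, .negSucc 43, .ofNat 157⟩, ⟨.negSucc 152, .negSucc 34, .ofNat 2, .negSucc 172, .ofNat 14, .ofNat 5⟩, .ofNat 855, .ofNat 588, .ofNat 0, .ofNat 588, .ofNat 1912, .ofNat 0, .ofNat 184, .negSucc 103, .negSucc 97, .ofNat 0, .ofNat 128, .ofNat 21, .ofNat 0, .ofNat 0, .ofNat 2588, .ofNat 10224, .ofNat 0, .ofNat 0, .ofNat 0, .ofNat 0, .ofNat 0, .ofNat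 33113004106369214962991933453309793271808, .ofNat 0, .ofNat 0, .ofNat 0, .ofNat 0, .ofNat 0, .ofNat 0, .ofNat 0, .ofNat 1252484349507960687524895358224179530825728, .ofNat 0, .ofNat 0⟩)
    (by decide +kernel)
theorem L00687 : Good (Phi V5.P V5.D 1 (-1)) ⟨3, 1, 3, 2, 2, 1, 2, 2, 4, 7⟩ :=
  leafYS_sound T5.ok_pm T5.Ypm.bz_eq (w := 205) (c := ⟨⟨.negSucc 946, .negSucc 90, .ofNat 9, .negSucc 56, .negSucc 71, .ofNat 56⟩, ⟨.ofNat 242, .ofNat 25, .ofNat 128, .negSucc 1, .ofNat 28, .negSucc 26⟩, ⟨.ofNat 856, .ofNat 149, .ofNat 177, .ofNat 947, .negSucc 94, .ofNat 348⟩, ⟨.negSucc 2807, .negSucc 84, .negSucc 11, .negSucc 258, .negSucc 199, .ofNat 155⟩, ⟨.negSucc 78, .negSucc 55, .negSucc 26, .negSucc 258, .ofNat 15, .negSucc 46⟩, .ofNat 654, .ofNat 323, .ofNat 0, .ofNat 323, .ofNat 1226, .ofNat 0, .ofNat 271, .negSucc 84, .negSucc 25, .ofNat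 0, .ofNat 128, .negSucc 35, .ofNat 0, .ofNat 0, .ofNat 3021, .ofNat 1799, .ofNat 82265002010644022704393094596078522597376, .ofNat 746735663438487980790650110289893130240, .ofNat 0, .ofNat 0, .ofNat 0, .ofNat 0, .ofNat 0, .ofNat 0, .ofNat 2680457943165008475925033907790540231933952, .ofNat 93403747094339361667897031368339527565312, .ofNat 0, .ofNat 0, .ofNat 43453948879096961087153662193782157519880192, .ofNat 2464192812431723052167048229798869576187904, .ofNat 0, .ofNat 0⟩)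
    (by decide +kernel)
theorem L00688 : Good (Phi V5.P V5.D 1 (-1)) ⟨3, 1, 3, 2, 2, 1, 3, 6, 3, 3⟩ :=
  leafYS_sound T5.ok_pm T5.Ypm.bz_eq (w := 204) (c := ⟨⟨.negSucc 1013, .negSucc 108, .negSucc 0, .negSucc 99, .negSucc 53, .ofNat 54⟩, ⟨.ofNat 264, .ofNat 30, .ofNat 135, .ofNat 15, .ofNat 25, .negSucc 15⟩, ⟨.ofNat 897, .ofNat 94, .ofNat 113, .ofNat 720, .negSucc 160, .ofNat 32⟩, ⟨.negSucc 3019, .negSucc 127, .negSucc 32, .negSucc 352, .negSucc 132, .ofNat 170⟩, ⟨.negSucc 110, .negSucc 58, .negSucc 25, .negSucc 198, .ofNat 58, .ofNat 50⟩, .ofNat 862, .ofNat 602, .ofNat 0, .ofNat 602, .ofNat 1926, .ofNat 0, .ofNat 269, .negSucc 104, .negSucc 23, .ofNat 0, .ofNat 128, .negSucc 20, .ofNat 0, .ofNat 0, .ofNat 1847, .ofNat 2109, .ofNat 0, .ofNat 0, .ofNat 0, .ofNat 0, .ofNat 0, .ofNat 0, .ofNat 0, .ofNat 0, .ofNat 0, .ofNat 29639329171304424508979179870929043849216,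 .ofNat 0, .ofNat 0, .ofNat 0, .ofNat 616387327647795049348592248721574335610880, .ofNat 0, .ofNat 0⟩)
    (by decide +kernel)
theorem L00689 : Good (Phi V5.P V5.D 1 (-1)) ⟨3, 1, 3, 2, 2, 1, 3, 7, 3, 3⟩ :=
  leafYS_sound T5.ok_pm T5.Ypm.bz_eq (w := 206) (c := ⟨⟨.negSucc 1031, .negSucc 123, .negSucc 4, .negSucc 189, .negSucc 91, .ofNat 3⟩, ⟨.ofNat 274, .ofNat 32, .ofNat 137, .ofNat 53, .ofNat 45, .ofNat 9⟩, ⟨.ofNat 782, .ofNat 119, .ofNat 89, .ofNat 613, .negSucc 165, .negSucc 172⟩, ⟨.negSucc 3055, .negSucc 169, .negSucc 24, .negSucc 606, .negSucc 228, .ofNat 41⟩, ⟨.negSucc 66, .negSucc 65, .negSucc 9, .negSucc 152, .ofNat 118, .ofNat 108⟩, .ofNat 773, .ofNat 480, .ofNat 0, .ofNat 480, .ofNat 1614, .ofNat 0, .ofNat 257, .negSucc 98, .negSucc 44, .ofNat 0, .ofNat 128, .ofNat 0, .ofNat 0, .ofNat 0, .ofNat 878, .ofNat 4922, .ofNat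 0, .ofNat 2861791935450795913930218938476426952704, .ofNat 0, .ofNat 0, .ofNat 0, .ofNat 224781214287163461355399996929520747675648, .ofNat 0, .ofNat 0, .ofNat 0, .ofNat 112200090284867717558879964216878105100288, .ofNat 0, .ofNat 0, .ofNat 0, .ofNat 228618505554185894580411588332323128475648, .ofNat 0, .ofNat 0⟩)
    (by decide +kernel)
theorem L00690 : Good (Phi V5.P V5.D 1 (-1)) ⟨3, 1, 3, 2, 1, 0, 0, 0, 1, 1⟩ :=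
  leafYS_sound T5.ok_pm T5.Ypm.bz_eq (w := 178) (c := ⟨⟨.negSucc 982, .negSucc 76, .ofNat 1, .ofNat 1, .negSucc 0, .ofNat 1⟩, ⟨.ofNat 274, .ofNat 20, .ofNat 122, .ofNat 0, .ofNat 0, .ofNat 0⟩, ⟨.ofNat 286, .ofNat 77, .negSucc 0, .ofNat 0, .ofNat 0, .ofNat 0⟩, ⟨.negSucc 2892, .negSucc 34, .ofNat 0, .ofNat 1, .negSucc 0, .ofNat 1⟩, ⟨.ofNat 0, .ofNat 0, .ofNat 0, .ofNat 0, .ofNat 0, .ofNat 0⟩, .ofNat 191, .ofNat 20, .ofNat 0, .ofNat 20, .ofNat 227, .ofNat 0, .ofNat 143, .negSucc 19, .negSucc 105, .ofNat 0, .ofNat 128, .ofNat 13, .ofNat 0, .ofNat 0, .ofNat 304, .ofNat 9354, .ofNat 584911436097015035562234898022400000000, .ofNat 58491468336693316097626176744400617472, .ofNat 0, .ofNat 0, .ofNat 37434331910208962275983033473433600000000, .ofNat 3662058247721343403560092471610109329408, .ofNat 0, .ofNat 0, .ofNat 37434331910208962275983033473433600000000,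 .ofNat 3662057610726916788874818219516748627968, .ofNat 0, .ofNat 0, .ofNat 37434331910208962275983033473433600000000, .ofNat 3662059269472485988298697683450875346944, .ofNat 0, .ofNat 0⟩)
    (by decide +kernel)
theorem L00691 : Good (Phi V5.P V5.D 1 (-1)) ⟨3, 1, 3, 3, 1, 0, 2, 0, 4, 0⟩ :=
  leafYS_sound T5.ok_pm T5.Ypm.bz_eq (w := 191) (c := ⟨⟨.ofNat 536, .ofNat 51, .ofNat 18, .ofNat 688, .ofNat 2, .negSucc 1285⟩, ⟨.negSucc 239, .negSucc 15, .negSucc 50, .negSucc 335, .ofNat 19, .ofNat 574⟩, ⟨.negSucc 410, .negSucc 60, .negSucc 52, .negSucc 864, .negSucc 50, .ofNat 1065⟩, ⟨.ofNat 1505, .ofNat 50, .ofNat 4, .ofNat 1825, .ofNat 137, .negSucc 3742⟩, ⟨.negSucc 183, .negSucc 24, .negSucc 17, .negSucc 304, .ofNat 269, .negSucc 125⟩, .ofNat 741, .ofNat 482, .ofNat 0, .ofNat 482, .ofNat 1346, .ofNat 0, .ofNat 233, .negSucc 114, .negSucc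 192, .ofNat 0, .ofNat 128, .ofNat 87, .ofNat 0, .ofNat 0, .ofNat 571, .ofNat 4070, .ofNat 0, .ofNat 0, .ofNat 0, .ofNat 0, .ofNat 0, .ofNat 0, .ofNat 0, .ofNat 0, .ofNat 7806514458937513709428858963202408448, .ofNat 0, .ofNat 0, .ofNat 0, .ofNat 0, .ofNat 0, .ofNat 0, .ofNat 0⟩)
    (by decide +kernel)
theorem L00692 : Good (Phi V5.P V5.D 1 (-1)) ⟨3, 1, 3, 3, 1, 0, 2, 1, 4, 0⟩ :=
  leafYS_sound T5.ok_pm T5.Ypm.bz_eq (w := 190) (c := ⟨⟨.ofNat 574, .negSucc 39, .ofNat 29, .ofNat 641, .negSucc 326, .negSucc 1211⟩, ⟨.negSucc 301, .ofNat 47, .negSucc 35, .negSucc 272, .ofNat 162, .ofNat 573⟩, ⟨.negSucc 629, .ofNat 137, .negSucc 59, .negSucc 740, .ofNat 342, .ofNat 1071⟩, ⟨.ofNat 1615, .negSucc 52, .ofNat 62, .ofNat 1831, .negSucc 897, .negSucc 3550⟩, ⟨.negSucc 213, .ofNat 271, .ofNat 3, .ofNat 89, .ofNat 113, .negSucc 172⟩, .ofNat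 738, .ofNat 479, .ofNat 0, .ofNat 479, .ofNat 1347, .ofNat 0, .ofNat 142, .negSucc 111, .negSucc 168, .ofNat 0, .ofNat 128, .ofNat 74, .ofNat 0, .ofNat 0, .ofNat 417, .ofNat 1599, .ofNat 0, .ofNat 0, .ofNat 0, .ofNat 0, .ofNat 0, .ofNat 0, .ofNat 0, .ofNat 0, .ofNat 0, .ofNat 0, .ofNat 0, .ofNat 0, .ofNat 0, .ofNat 0, .ofNat 0, .ofNat 0⟩)
    (by decide +kernel)
theorem L00693 : Good (Phi V5.P V5.D 1 (-1)) ⟨3, 1, 3, 3, 1, 0, 1, 0, 4, 1⟩ :=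
  leafYS_sound T5.ok_pm T5.Ypm.bz_eq (w := 186) (c := ⟨⟨.negSucc 584, .negSucc 80, .ofNat 40, .ofNat 411, .negSucc 53, .negSucc 681⟩, ⟨.ofNat 204, .ofNat 27, .ofNat 79, .negSucc 232, .ofNat 41, .ofNat 326⟩, ⟨.ofNat 718, .ofNat 10, .negSucc 55, .negSucc 1104, .ofNat 141, .ofNat 594⟩, ⟨.negSucc 1831, .negSucc 62, .ofNat 56, .ofNat 941, .negSucc 15, .negSucc 1916⟩, ⟨.negSucc 239, .ofNat 67, .ofNat 10, .negSucc 540, .ofNat 247, .ofNat 45⟩, .ofNat 1096, .ofNat 993, .ofNat 0, .ofNat 993, .ofNat 2336, .ofNat 0, .ofNat 133, .negSucc 127, .negSucc 88, .ofNat 0, .ofNat 119, .ofNat 44, .ofNat 0, .ofNat 0, .ofNat 326, .ofNat 1098, .ofNat 0, .ofNat 0, .ofNat 0, .ofNat 0, .ofNat 0, .ofNat 0, .ofNat 0, .ofNat 0, .ofNat 0, .ofNat 0, .ofNat 0, .ofNat 0, .ofNat 0, .ofNat 0, .ofNat 0, .ofNat 0⟩)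
    (by decide +kernel)
theorem L00694 : Good (Phi V5.P V5.D 1 (-1)) ⟨3, 1, 3, 3, 1, 0, 1, 0, 3, 1⟩ :=
  leafYS_sound T5.ok_pm T5.Ypm.bz_eq (w := 181) (c := ⟨⟨.negSucc 1249, .negSucc 77, .ofNat 28, .ofNat 68, .ofNat 148, .negSucc 127⟩, ⟨.ofNat 490, .ofNat 26, .ofNat 144, .negSucc 62, .negSucc 59, .ofNat 62⟩, ⟨.ofNat 1161, .ofNat 122, .negSucc 65, .negSucc 731, .ofNat 33, .ofNat 424⟩, ⟨.negSucc 3739, .ofNat 20, .ofNat 67, .ofNat 9, .ofNat 486, .negSucc 361⟩, ⟨.negSucc 179, .ofNat 38, .ofNat 51, .negSucc 400, .ofNat 139, .ofNat 11⟩, .ofNat 1086, .ofNat 990, .ofNat 0, .ofNat 990, .ofNat 2351, .ofNat 0, .ofNat 128, .negSucc 138, .negSucc 84, .ofNat 0, .ofNat 131, .ofNat 43, .ofNat 0, .ofNat 0, .ofNat 516, .ofNat 1601, .ofNat 0, .ofNat 0, .ofNat 0, .ofNat 0, .ofNat 0, .ofNat 0, .ofNat 0, .ofNat 0, .ofNat 0, .ofNat 0, .ofNat 0, .ofNat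 0, .ofNat 2229780320490478050379070577114611712, .ofNat 0, .ofNat 0, .ofNat 0⟩)
    (by decide +kernel)
theorem L00695 : Good (Phi V5.P V5.D 1 (-1)) ⟨3, 1, 3, 3, 1, 0, 1, 0, 4, 4⟩ :=
  leafYS_sound T5.ok_pm T5.Ypm.bz_eq (w := 189) (c := ⟨⟨.negSucc 1310, .negSucc 89, .ofNat 3, .ofNat 2, .ofNat 140, .ofNat 56⟩, ⟨.ofNat 530, .ofNat 28, .ofNat 147, .negSucc 27, .negSucc 68, .negSucc 20⟩, ⟨.ofNat 1353, .ofNat 76, .negSucc 6, .negSucc 232, .negSucc 104, .ofNat 78⟩, ⟨.negSucc 3858, .negSucc 32, .negSucc 11, .negSucc 173, .ofNat 431, .ofNat 152⟩, ⟨.negSucc 36, .ofNat 9, .ofNat 0, .negSucc 385, .ofNat 26, .ofNat 6⟩, .ofNat 737, .ofNat 476, .ofNat 0, .ofNat 476, .ofNat 1342, .ofNat 0, .ofNat 161, .negSucc 108, .negSucc 166, .ofNat 0, .ofNat 128, .ofNat 81, .ofNat 0, .ofNat 0, .ofNat 1528, .ofNat 8971, .ofNat 6659638834693861779930011163231780864,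 .ofNat 0, .ofNat 0, .ofNat 0, .ofNat 19858345628838052710658660113319985152, .ofNat 0, .ofNat 0, .ofNat 0, .ofNat 19560156179964590741244992897077477376, .ofNat 0, .ofNat 0, .ofNat 0, .ofNat 456292292512148162401879427976605466624, .ofNat 0, .ofNat 0, .ofNat 0⟩)
    (by decide +kernel)
theorem L00696 : Good (Phi V5.P V5.D 1 (-1)) ⟨3, 1, 3, 3, 1, 0, 2, 0, 4, 5⟩ :=
  out_sound (S := T5.ds_pm) T5.ok_pm (w := 22) (j := 1) (by decide +kernel)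
theorem L00697 : Good (Phi V5.P V5.D 1 (-1)) ⟨3, 1, 3, 3, 1, 0, 2, 1, 5, 10⟩ :=
  leafYS_sound T5.ok_pm T5.Ypm.bz_eq (w := 199) (c := ⟨⟨.negSucc 1153, .negSucc 85, .ofNat 4, .negSucc 31, .ofNat 42, .ofNat 31⟩, ⟨.ofNat 455, .ofNat 27, .ofNat 141, .negSucc 11, .negSucc 12, .negSucc 12⟩, ⟨.ofNat 1228, .ofNat 96, .ofNat 25, .ofNat 37, .negSucc 50, .ofNat 15⟩, ⟨.negSucc 3386, .negSucc 31, .negSucc 7, .negSucc 248, .ofNat 117, .ofNat 88⟩, ⟨.negSucc 30, .ofNat 2, .ofNat 2, .negSucc 350, .ofNat 21, .ofNat 6⟩, .ofNat 731, .ofNat 468, .ofNat 0, .ofNat 468, .ofNat 1339, .ofNat 0, .ofNat 138, .negSucc 107, .negSucc 82, .ofNat 0, .ofNat 128, .ofNat 38, .ofNat 0, .ofNat 0, .ofNat 989, .ofNat 22452, .ofNat 1015165101902201745613965985291614289920, .ofNat 0, .ofNat 0, .ofNat 0, .ofNat 0, .ofNat 0, .ofNat 0, .ofNat 0, .ofNat 0, .ofNat 0, .ofNat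 0, .ofNat 0, .ofNat 24896721836410159732914365068123775696896, .ofNat 0, .ofNat 0, .ofNat 0⟩)
    (by decide +kernel)
theorem L00698 : Good (Phi V5.P V5.D 1 (-1)) ⟨3, 1, 3, 3, 1, 0, 2, 1, 5, 11⟩ :=
  leafYS_sound T5.ok_pm T5.Ypm.bz_eq (w := 200) (c := ⟨⟨.negSucc 1108, .negSucc 85, .ofNat 7, .negSucc 38, .ofNat 32, .ofNat 24⟩, ⟨.ofNat 440, .ofNat 25, .ofNat 139, .negSucc 7, .negSucc 11, .negSucc 9⟩, ⟨.ofNat 1062, .ofNat 106, .ofNat 25, .ofNat 177, .ofNat 58, .ofNat 65⟩, ⟨.negSucc 3273, .negSucc 29, .negSucc 6, .negSucc 269, .ofNat 108, .ofNat 71⟩, ⟨.negSucc 27, .ofNat 3, .ofNat 1, .negSucc 346, .ofNat 21, .ofNat 7⟩, .ofNat 432, .ofNat 155, .ofNat 0, .ofNat 155, .ofNat 628, .ofNat 0, .ofNat 317, .negSucc 67, .negSucc 102, .ofNat 0, .ofNat 128, .ofNat 41, .ofNat 0, .ofNat 0, .ofNat 1220, .ofNat 36663, .ofNat 1909460281456422264750626403873770700800,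 .ofNat 0, .ofNat 0, .ofNat 0, .ofNat 0, .ofNat 0, .ofNat 0, .ofNat 0, .ofNat 2678639658750587517037716737201058873344, .ofNat 0, .ofNat 0, .ofNat 0, .ofNat 54764484590311142860163093183128945033216, .ofNat 0, .ofNat 0, .ofNat 0⟩)
    (by decide +kernel)
theorem L00699 : Good (Phi V5.P V5.D 1 (-1)) ⟨3, 1, 3, 3, 1, 0, 1, 0, 3, 3⟩ :=
  leafYS_sound T5.ok_pm T5.Ypm.bz_eq (w := 187) (c := ⟨⟨.negSucc 1005, .negSucc 86, .ofNat 9, .negSucc 86, .negSucc 5, .ofNat 145⟩, ⟨.ofNat 410, .ofNat 28, .ofNat 138, .ofNat 12, .negSucc 10, .negSucc 59⟩, ⟨.ofNat 838, .ofNat 102, .ofNat 59, .ofNat 310, .ofNat 222, .ofNat 621⟩, ⟨.negSucc 3049, .negSucc 44, .negSucc 9, .negSucc 369, .ofNat 53, .ofNat 394⟩, ⟨.negSucc 61, .negSucc 7, .ofNat 0, .negSucc 303, .ofNat 29, .ofNat 5⟩, .ofNat 431, .ofNat 153, .ofNat 0, .ofNat 153, .ofNat 627, .ofNat 0, .ofNat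 255, .negSucc 68, .negSucc 84, .ofNat 0, .ofNat 128, .ofNat 30, .ofNat 0, .ofNat 0, .ofNat 1654, .ofNat 81158, .ofNat 16003389085311011791567439724766298112, .ofNat 0, .ofNat 0, .ofNat 0, .ofNat 108413666740143858640650136386464120832, .ofNat 0, .ofNat 0, .ofNat 0, .ofNat 36138973525687697693341895737596706816, .ofNat 0, .ofNat 0, .ofNat 0, .ofNat 298214841547208482646353087662206746624, .ofNat 0, .ofNat 0, .ofNat 0⟩)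
    (by decide +kernel)
theorem L00700 : Good (Phi V5.P V5.D 1 (-1)) ⟨3, 1, 3, 3, 1, 0, 1, 0, 1, 1⟩ :=
  out_sound (S := T5.ds_pm) T5.ok_pm (w := 15) (j := 1) (by decide +kernel)
theorem L00701 : Good (Phi V5.P V5.D 1 (-1)) ⟨4, 2, 3, 3, 2, 0, 2, 2, 2, 0⟩ :=
  leafYS_sound T5.ok_pm T5.Ypm.bz_eq (w := 197) (c := ⟨⟨.negSucc 704, .negSucc 18, .ofNat 1, .ofNat 22, .ofNat 153, .negSucc 518⟩, ⟨.ofNat 255, .ofNat 12, .ofNat 128, .negSucc 26, .negSucc 68, .ofNat 241⟩, ⟨.ofNat 576, .ofNat 32, .ofNat 2, .negSucc 3, .negSucc 233, .ofNat 610⟩, ⟨.negSucc 1992, .ofNat 61, .ofNat 3, .negSucc 65, .ofNat 376, .negSucc 1555⟩, ⟨.ofNat 137, .ofNat 86, .ofNat 12, .negSucc 285, .negSucc 132, .negSucc 70⟩, .ofNat 1067, .ofNat 923, .ofNat 0, .ofNat 923, .ofNat 2218, .ofNat 0, .ofNat 136, .negSucc 126, .negSucc 74, .ofNat 0, .ofNat 128, .ofNat 35, .ofNat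 0, .ofNat 0, .ofNat 337, .ofNat 237, .ofNat 0, .ofNat 0, .ofNat 0, .ofNat 0, .ofNat 0, .ofNat 0, .ofNat 0, .ofNat 0, .ofNat 0, .ofNat 0, .ofNat 0, .ofNat 0, .ofNat 0, .ofNat 0, .ofNat 0, .ofNat 0⟩)
    (by decide +kernel)
theorem L00702 : Good (Phi V5.P V5.D 1 (-1)) ⟨4, 2, 3, 3, 2, 0, 2, 2, 3, 2⟩ :=
  leafYS_sound T5.ok_pm T5.Ypm.bz_eq (w := 206) (c := ⟨⟨.negSucc 1130, .negSucc 31, .negSucc 5, .negSucc 25, .ofNat 76, .ofNat 71⟩, ⟨.ofNat 452, .ofNat 14, .ofNat 135, .negSucc 1, .negSucc 31, .negSucc 30⟩, ⟨.ofNat 1118, .ofNat 13, .ofNat 26, .ofNat 148, .negSucc 263, .negSucc 18⟩, ⟨.negSucc 3323, .negSucc 8, .negSucc 23, .negSucc 149, .ofNat 228, .ofNat 211⟩, ⟨.negSucc 24, .ofNat 4, .ofNat 5, .negSucc 165, .ofNat 24, .ofNat 13⟩, .ofNat 733, .ofNat 452, .ofNat 0, .ofNat 452, .ofNat 1301, .ofNat 0, .ofNat 204, .negSucc 101, .negSucc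 92, .ofNat 0, .ofNat 128, .ofNat 39, .ofNat 0, .ofNat 0, .ofNat 883, .ofNat 10856, .ofNat 0, .ofNat 0, .ofNat 0, .ofNat 0, .ofNat 0, .ofNat 0, .ofNat 0, .ofNat 0, .ofNat 0, .ofNat 0, .ofNat 0, .ofNat 0, .ofNat 0, .ofNat 0, .ofNat 0, .ofNat 0⟩)
    (by decide +kernel)
theorem L00703 : Good (Phi V5.P V5.D 1 (-1)) ⟨4, 2, 3, 3, 2, 0, 2, 2, 3, 3⟩ :=
  leafYS_sound T5.ok_pm T5.Ypm.bz_eq (w := 208) (c := ⟨⟨.negSucc 1032, .negSucc 30, .ofNat 1, .negSucc 32, .ofNat 47, .ofNat 48⟩, ⟨.ofNat 412, .ofNat 13, .ofNat 125, .ofNat 4, .negSucc 20, .negSucc 19⟩, ⟨.ofNat 1036, .ofNat 34, .ofNat 22, .ofNat 293, .negSucc 325, .negSucc 21⟩, ⟨.negSucc 3038, .negSucc 10, .negSucc 4, .negSucc 165, .ofNat 152, .ofNat 149⟩, ⟨.negSucc 18, .negSucc 2, .ofNat 2, .negSucc 148, .ofNat 29, .ofNat 18⟩, .ofNat 747, .ofNat 477, .ofNat 0, .ofNat 477, .ofNat 1325,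 .ofNat 0, .ofNat 183, .negSucc 104, .negSucc 87, .ofNat 0, .ofNat 128, .ofNat 35, .ofNat 0, .ofNat 0, .ofNat 1289, .ofNat 22689, .ofNat 0, .ofNat 0, .ofNat 0, .ofNat 0, .ofNat 7228712694492534341763994400961444194549760, .ofNat 0, .ofNat 0, .ofNat 0, .ofNat 4701377995550356195279372086424239767289856, .ofNat 0, .ofNat 0, .ofNat 0, .ofNat 0, .ofNat 0, .ofNat 0, .ofNat 0⟩)
    (by decide +kernel)
theorem L00704 : Good (Phi V5.P V5.D 1 (-1)) ⟨4, 2, 3, 3, 2, 0, 2, 2, 1, 1⟩ :=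
  out_sound (S := T5.ds_pm) T5.ok_pm (w := 18) (j := 1) (by decide +kernel)
theorem L00705 : Good (Phi V5.P V5.D 1 (-1)) ⟨4, 2, 4, 6, 3, 2, 2, 2, 2, 0⟩ :=
  leafYS_sound T5.ok_pm T5.Ypm.bz_eq (w := 214) (c := ⟨⟨.negSucc 229, .negSucc 5, .ofNat 36, .negSucc 43, .ofNat 57, .negSucc 983⟩, ⟨.ofNat 53, .negSucc 1, .ofNat 50, .ofNat 10, .negSucc 21, .ofNat 418⟩, ⟨.ofNat 21, .ofNat 24, .negSucc 48, .ofNat 8, .negSucc 12, .ofNat 1125⟩, ⟨.negSucc 679, .ofNat 31, .ofNat 109, .negSucc 197, .ofNat 149, .negSucc 2949⟩, ⟨.ofNat 55, .negSucc 65, .ofNat 36, .negSucc 168, .negSucc 29, .negSucc 242⟩, .ofNat 1186, .ofNat 1110, .ofNat 0, .ofNat 1110, .ofNat 2650, .ofNat 0, .ofNat 167, .negSucc 127, .negSucc 81, .ofNat 0, .ofNat 125, .ofNat 39, .ofNat 0, .ofNat 0, .ofNat 327, .ofNat 405, .ofNat 0, .ofNat 0, .ofNat 0, .ofNat 0, .ofNat 0, .ofNat 0,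 .ofNat 0, .ofNat 0, .ofNat 0, .ofNat 0, .ofNat 0, .ofNat 0, .ofNat 0, .ofNat 0, .ofNat 0, .ofNat 0⟩)
    (by decide +kernel)
theorem L00706 : Good (Phi V5.P V5.D 1 (-1)) ⟨4, 2, 4, 6, 3, 2, 2, 2, 3, 2⟩ :=
  leafYS_sound T5.ok_pm T5.Ypm.bz_eq (w := 222) (c := ⟨⟨.negSucc 1136, .negSucc 41, .ofNat 3, .negSucc 23, .ofNat 31, .ofNat 76⟩, ⟨.ofNat 435, .ofNat 19, .ofNat 69, .ofNat 3, .negSucc 10, .negSucc 28⟩, ⟨.ofNat 1085, .ofNat 65, .ofNat 2, .ofNat 52, .negSucc 90, .ofNat 150⟩, ⟨.negSucc 3423, .negSucc 37, .negSucc 6, .negSucc 104, .ofNat 102, .ofNat 238⟩, ⟨.negSucc 214, .negSucc 3, .negSucc 3, .negSucc 84, .ofNat 30, .ofNat 43⟩, .ofNat 1009, .ofNat 829, .ofNat 0, .ofNat 829, .ofNat 2107, .ofNat 0, .ofNat 171, .negSucc 122, .negSucc 47, .ofNat 0, .ofNat 128, .ofNat 22, .ofNat 0, .ofNat 0, .ofNat 494, .ofNat 5304, .ofNat 0, .ofNat 0,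 .ofNat 0, .ofNat 0, .ofNat 0, .ofNat 0, .ofNat 0, .ofNat 0, .ofNat 0, .ofNat 0, .ofNat 0, .ofNat 0, .ofNat 0, .ofNat 0, .ofNat 0, .ofNat 0⟩)
    (by decide +kernel)
theorem L00707 : Good (Phi V5.P V5.D 1 (-1)) ⟨4, 2, 4, 6, 3, 2, 2, 2, 3, 3⟩ :=
  leafYS_sound T5.ok_pm T5.Ypm.bz_eq (w := 224) (c := ⟨⟨.negSucc 1046, .negSucc 32, .ofNat 4, .negSucc 34, .ofNat 1, .ofNat 80⟩, ⟨.ofNat 401, .ofNat 15, .ofNat 66, .ofNat 8, .ofNat 2, .negSucc 31⟩, ⟨.ofNat 1166, .ofNat 8, .ofNat 18, .ofNat 215, .negSucc 121, .ofNat 168⟩, ⟨.negSucc 3141, .negSucc 15, .ofNat 1, .negSucc 134, .ofNat 18, .ofNat 237⟩, ⟨.negSucc 171, .negSucc 10, .ofNat 4, .negSucc 84, .ofNat 33, .ofNat 21⟩, .ofNat 1016, .ofNat 844, .ofNat 0, .ofNat 844, .ofNat 2130, .ofNat 0, .ofNat 170, .negSucc 122, .negSucc 68, .ofNat 0, .ofNat 128, .ofNat 23, .ofNat 0, .ofNat 0, .ofNat 1586,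 .ofNat 19928, .ofNat 0, .ofNat 0, .ofNat 0, .ofNat 0, .ofNat 123152167532336298391299659571754431886248640512, .ofNat 0, .ofNat 0, .ofNat 0, .ofNat 106057045697593094505983600194379109689410453504, .ofNat 0, .ofNat 0, .ofNat 0, .ofNat 1229004558211534495717499025767123217485188300800, .ofNat 0, .ofNat 0, .ofNat 0⟩)
    (by decide +kernel)
theorem L00708 : Good (Phi V5.P V5.D 1 (-1)) ⟨4, 2, 4, 6, 3, 2, 2, 2, 1, 1⟩ :=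
  out_sound (S := T5.ds_pm) T5.ok_pm (w := 20) (j := 1) (by decide +kernel)
theorem L00709 : Good (Phi V5.P V5.D 1 (-1)) ⟨4, 2, 4, 6, 3, 3, 2, 2, 2, 0⟩ :=
  leafYS_sound T5.ok_pm T5.Ypm.bz_eq (w := 214) (c := ⟨⟨.ofNat 21, .negSucc 28, .ofNat 27, .negSucc 13, .ofNat 47, .negSucc 1276⟩, ⟨.negSucc 39, .ofNat 8, .ofNat 54, .negSucc 2, .negSucc 18, .ofNat 523⟩, ⟨.negSucc 257, .ofNat 36, .negSucc 14, .negSucc 33, .ofNat 101, .ofNat 1354⟩, ⟨.negSucc 19, .negSucc 62, .ofNat 64, .negSucc 47, .ofNat 148, .negSucc 3767⟩, ⟨.negSucc 187, .negSucc 105, .ofNat 5, .negSucc 40, .ofNat 83, .negSucc 96⟩, .ofNat 1018, .ofNat 847, .ofNat 0, .ofNat 847, .ofNat 2136, .ofNat 0, .ofNat 235, .negSucc 127, .negSucc 81, .ofNat 0, .ofNat 126, .ofNat 40, .ofNat 0, .ofNat 0, .ofNat 337, .ofNat 624, .ofNat 0, .ofNat 0, .ofNat 0, .ofNat 0, .ofNat 0, .ofNat 0,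 .ofNat 0, .ofNat 0, .ofNat 0, .ofNat 0, .ofNat 0, .ofNat 0, .ofNat 0, .ofNat 0, .ofNat 0, .ofNat 0⟩)
    (by decide +kernel)
theorem L00710 : Good (Phi V5.P V5.D 1 (-1)) ⟨4, 2, 4, 6, 3, 3, 2, 2, 3, 2⟩ :=
  leafYS_sound T5.ok_pm T5.Ypm.bz_eq (w := 222) (c := ⟨⟨.negSucc 1157, .negSucc 36, .ofNat 4, .negSucc 37, .negSucc 6, .ofNat 80⟩, ⟨.ofNat 434, .ofNat 17, .ofNat 72, .ofNat 11, .ofNat 5, .negSucc 30⟩, ⟨.ofNat 1007, .ofNat 64, .ofNat 32, .ofNat 60, .ofNat 86, .ofNat 267⟩, ⟨.negSucc 3519, .negSucc 17, .negSucc 8, .negSucc 134, .negSucc 6, .ofNat 243⟩, ⟨.negSucc 303, .negSucc 1, .negSucc 1, .negSucc 60, .ofNat 27, .ofNat 30⟩, .ofNat 1264, .ofNat 1239, .ofNat 0, .ofNat 1239, .ofNat 2900, .ofNat 0, .ofNat 150, .negSucc 127, .negSucc 66, .ofNat 0, .ofNat 123, .ofNat 32, .ofNat 0, .ofNat 0, .ofNat 762, .ofNat 3524, .ofNat 0, .ofNat 0,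 .ofNat 0, .ofNat 0, .ofNat 0, .ofNat 0, .ofNat 0, .ofNat 0, .ofNat 0, .ofNat 0, .ofNat 0, .ofNat 0, .ofNat 0, .ofNat 0, .ofNat 0, .ofNat 0⟩)
    (by decide +kernel)
theorem L00711 : Good (Phi V5.P V5.D 1 (-1)) ⟨4, 2, 4, 6, 3, 3, 2, 2, 4, 6⟩ :=
  leafYS_sound T5.ok_pm T5.Ypm.bz_eq (w := 229) (c := ⟨⟨.negSucc 1067, .negSucc 42, .ofNat 5, .negSucc 24, .negSucc 30, .ofNat 66⟩, ⟨.ofNat 402, .ofNat 19, .ofNat 68, .ofNat 4, .ofNat 15, .negSucc 29⟩, ⟨.ofNat 1173, .ofNat 40, .ofNat 40, .ofNat 261, .ofNat 83, .ofNat 295⟩, ⟨.negSucc 3233, .negSucc 47, .negSucc 5, .negSucc 103, .negSucc 81, .ofNat 186⟩, ⟨.negSucc 246, .negSucc 16, .negSucc 2, .negSucc 76, .ofNat 16, .negSucc 10⟩, .ofNat 1273, .ofNat 1246, .ofNat 0, .ofNat 1246, .ofNat 2922, .ofNat 0, .ofNat 133, .negSucc 127, .negSucc 53, .ofNat 0, .ofNat 127, .ofNat 12, .ofNat 0, .ofNat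 0, .ofNat 2488, .ofNat 11617, .ofNat 0, .ofNat 0, .ofNat 0, .ofNat 0, .ofNat 0, .ofNat 0, .ofNat 0, .ofNat 0, .ofNat 0, .ofNat 26484505340192296206297020363063851937815330816, .ofNat 0, .ofNat 0, .ofNat 0, .ofNat 763659841628696090195022614730403528488320499712, .ofNat 0, .ofNat 0⟩)
    (by decide +kernel)
theorem L00712 : Good (Phi V5.P V5.D 1 (-1)) ⟨4, 2, 4, 6, 3, 3, 2, 2, 4, 7⟩ :=
  leafYS_sound T5.ok_pm T5.Ypm.bz_eq (w := 227) (c := ⟨⟨.negSucc 1003, .negSucc 41, .ofNat 7, .ofNat 5, .negSucc 48, .ofNat 76⟩, ⟨.ofNat 383, .ofNat 19, .ofNat 64, .negSucc 16, .ofNat 17, .negSucc 40⟩, ⟨.ofNat 1116, .ofNat 15, .ofNat 125, .ofNat 814, .ofNat 199, .ofNat 684⟩, ⟨.negSucc 3013, .negSucc 47, .negSucc 8, .negSucc 65, .negSucc 157, .ofNat 177⟩, ⟨.negSucc 158, .negSucc 14, .negSucc 19, .negSucc 193, .negSucc 43, .negSucc 103⟩, .ofNat 718,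 .ofNat 428, .ofNat 0, .ofNat 428, .ofNat 1281, .ofNat 0, .ofNat 128, .negSucc 106, .ofNat 23, .ofNat 0, .ofNat 137, .negSucc 47, .ofNat 0, .ofNat 0, .ofNat 3029, .ofNat 4740, .ofNat 0, .ofNat 0, .ofNat 0, .ofNat 0, .ofNat 1279764591716649308514914487397382393485129154560, .ofNat 43693671668236050738926980431636690587371962368, .ofNat 0, .ofNat 0, .ofNat 2341024533638234645824492812691889007934553718784, .ofNat 92572353619355048397756985405686410013973676032, .ofNat 0, .ofNat 0, .ofNat 30972086068369482618310530522318538762086453870592, .ofNat 1729834978869275982507641169056301458412934266880, .ofNat 0, .ofNat 0⟩)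
    (by decide +kernel)
theorem L00713 : Good (Phi V5.P V5.D 1 (-1)) ⟨4, 2, 4, 6, 3, 3, 3, 4, 4, 8⟩ :=
  out_sound (S := T5.ds_pm) T5.ok_pm (w := 27) (j := 1) (by decide +kernel)
theorem L00714 : Good (Phi V5.P V5.D 1 (-1)) ⟨4, 2, 4, 6, 4, 6, 3, 5, 5, 16⟩ :=
  out_sound (S := T5.ds_pm) T5.ok_pm (w := 31) (j := 1) (by decide +kernel)
theorem L00715 : Good (Phi V5.P V5.D 1 (-1)) ⟨4, 2, 4, 6, 4, 7, 4, 10, 5, 16⟩ :=
  out_sound (S := T5.ds_pm) T5.ok_pm (w := 32) (j := 1) (by decide +kernel)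
theorem L00716 : Good (Phi V5.P V5.D 1 (-1)) ⟨4, 2, 4, 6, 4, 7, 4, 11, 5, 16⟩ :=
  out_sound (S := T5.ds_pm) T5.ok_pm (w := 40) (j := 2) (by decide +kernel)
theorem L00717 : Good (Phi V5.P V5.D 1 (-1)) ⟨4, 2, 4, 6, 3, 3, 3, 5, 5, 17⟩ :=
  out_sound (S := T5.ds_pm) T5.ok_pm (w := 29) (j := 1) (by decide +kernel)
theorem L00718 : Good (Phi V5.P V5.D 1 (-1)) ⟨4, 2, 4, 6, 3, 3, 2, 2, 4, 9⟩ :=
  out_sound (S := T5.ds_pm) T5.ok_pm (w := 26) (j := 1) (by decide +kernel)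
theorem L00719 : Good (Phi V5.P V5.D 1 (-1)) ⟨4, 2, 4, 6, 3, 3, 2, 2, 3, 5⟩ :=
  out_sound (S := T5.ds_pm) T5.ok_pm (w := 24) (j := 1) (by decide +kernel)
theorem L00720 : Good (Phi V5.P V5.D 1 (-1)) ⟨4, 2, 4, 6, 3, 3, 2, 2, 2, 3⟩ :=
  out_sound (S := T5.ds_pm) T5.ok_pm (w := 22) (j := 1) (by decide +kernel)
theorem L00721 : Good (Phi V5.P V5.D 1 (-1)) ⟨4, 2, 4, 7, 4, 4, 4, 8, 2, 0⟩ :=
  leafYS_sound T5.ok_pm T5.Ypm.bz_eq (w := 236) (c := ⟨⟨.negSucc 311, .negSucc 24, .ofNat 16, .ofNat 6, .ofNat 23, .negSucc 901⟩, ⟨.ofNat 111, .ofNat 9, .ofNat 56, .negSucc 7, .negSucc 4, .ofNat 436⟩, ⟨.ofNat 67, .ofNat 46, .negSucc 23, .negSucc 33, .negSucc 7, .ofNat 1113⟩, ⟨.negSucc 1005, .negSucc 25, .ofNat 24, .negSucc 19, .ofNat 98, .negSucc 2637⟩, ⟨.negSucc 169, .negSucc 74, .negSucc 23, .negSucc 75, .ofNat 64, .negSucc 8⟩, .ofNat 1179, .ofNat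 1099, .ofNat 0, .ofNat 1099, .ofNat 2427, .ofNat 0, .ofNat 144, .negSucc 127, .negSucc 67, .ofNat 0, .ofNat 118, .ofNat 36, .ofNat 0, .ofNat 0, .ofNat 289, .ofNat 554, .ofNat 0, .ofNat 0, .ofNat 0, .ofNat 0, .ofNat 0, .ofNat 0, .ofNat 0, .ofNat 0, .ofNat 0, .ofNat 0, .ofNat 0, .ofNat 0, .ofNat 0, .ofNat 0, .ofNat 0, .ofNat 0⟩)
    (by decide +kernel)
theorem L00722 : Good (Phi V5.P V5.D 1 (-1)) ⟨4, 2, 4, 7, 4, 4, 4, 8, 3, 2⟩ :=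
  leafYS_sound T5.ok_pm T5.Ypm.bz_eq (w := 248) (c := ⟨⟨.negSucc 1149, .negSucc 36, .ofNat 3, .negSucc 4, .ofNat 14, .ofNat 84⟩, ⟨.ofNat 514, .ofNat 17, .ofNat 69, .negSucc 0, .negSucc 6, .negSucc 37⟩, ⟨.ofNat 1126, .ofNat 42, .ofNat 8, .ofNat 14, .negSucc 29, .ofNat 141⟩, ⟨.negSucc 3470, .negSucc 17, .negSucc 2, .negSucc 37, .ofNat 43, .ofNat 258⟩, ⟨.negSucc 208, .negSucc 0, .negSucc 0, .negSucc 44, .ofNat 5, .ofNat 35⟩, .ofNat 771, .ofNat 518, .ofNat 0, .ofNat 518, .ofNat 1363, .ofNat 0, .ofNat 197, .negSucc 111, .negSucc 73, .ofNat 0, .ofNat 128, .ofNat 37, .ofNat 0, .ofNat 0, .ofNat 720, .ofNat 55927, .ofNat 0, .ofNat 0, .ofNat 0, .ofNat 0, .ofNat 0, .ofNat 0, .ofNat 0, .ofNat 0, .ofNat 0, .ofNat 0, .ofNat 0, .ofNat 0, .ofNat 0, .ofNat 0, .ofNat 0, .ofNat 0⟩)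
    (by decide +kernel)
theorem L00723 : Good (Phi V5.P V5.D 1 (-1)) ⟨4, 2, 4, 7, 4, 4, 4, 8, 3, 3⟩ :=
  leafYS_sound T5.ok_pm T5.Ypm.bz_eq (w := 251) (c := ⟨⟨.negSucc 1060, .negSucc 33, .ofNat 3, .negSucc 7, .ofNat 9, .ofNat 100⟩, ⟨.ofNat 475, .ofNat 15, .ofNat 67, .ofNat 1, .negSucc 3, .negSucc 44⟩, ⟨.ofNat 1242, .ofNat 42, .ofNat 20, .ofNat 55, .negSucc 35, .ofNat 152⟩, ⟨.negSucc 3194, .negSucc 15, .negSucc 2, .negSucc 43, .ofNat 28, .ofNat 295⟩, ⟨.negSucc 174, .negSucc 2, .ofNat 0, .negSucc 42, .ofNat 6, .ofNat 31⟩, .ofNat 194, .ofNat 29, .ofNat 0, .ofNat 29, .ofNat 226, .ofNat 0, .ofNat 411, .negSucc 29, .negSucc 225, .ofNat 0, .ofNat 128, .ofNat 61, .ofNat 0, .ofNat 0, .ofNat 1667, .ofNat 668181, .ofNat 0, .ofNat 0, .ofNat 0, .ofNat 0, .ofNat 468560849804954542301432991187634556246965148153020416, .ofNat 0, .ofNat 0, .ofNat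 0, .ofNat 121871736789980822334998788161897113975312805106024448, .ofNat 0, .ofNat 0, .ofNat 0, .ofNat 1411488743117684945823716397234219128251315222053126144, .ofNat 0, .ofNat 0, .ofNat 0⟩)
    (by decide +kernel)
theorem L00724 : Good (Phi V5.P V5.D 1 (-1)) ⟨4, 2, 4, 7, 4, 4, 4, 8, 1, 1⟩ :=
  out_sound (S := T5.ds_pm) T5.ok_pm (w := 24) (j := 1) (by decide +kernel)
theorem L00725 : Good (Phi V5.P V5.D 1 (-1)) ⟨4, 2, 4, 7, 4, 4, 4, 9, 2, 0⟩ :=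
  leafYS_sound T5.ok_pm T5.Ypm.bz_eq (w := 236) (c := ⟨⟨.negSucc 304, .negSucc 43, .ofNat 64, .negSucc 24, .ofNat 7, .negSucc 888⟩, ⟨.ofNat 101, .ofNat 23, .ofNat 28, .ofNat 15, .negSucc 1, .ofNat 438⟩, ⟨.ofNat 85, .ofNat 53, .negSucc 48, .ofNat 4, .ofNat 4, .ofNat 1063⟩, ⟨.negSucc 889, .negSucc 65, .ofNat 193, .negSucc 116, .ofNat 2, .negSucc 2711⟩, ⟨.negSucc 19, .negSucc 22, .ofNat 20, .negSucc 85, .negSucc 21, .negSucc 185⟩, .ofNat 979, .ofNat 801, .ofNat 0, .ofNat 801, .ofNat 1889, .ofNat 0, .ofNat 154, .negSucc 127, .negSucc 85, .ofNat 0, .ofNat 127, .ofNat 44, .ofNat 0, .ofNat 0, .ofNat 324, .ofNat 611, .ofNat 0, .ofNat 0, .ofNat 0, .ofNat 0, .ofNat 0, .ofNat 0, .ofNat 0, .ofNat 0, .ofNat 0, .ofNat 0, .ofNat 0, .ofNat 0, .ofNat 0, .ofNat 0, .ofNat 0, .ofNat 0⟩)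
    (by decide +kernel)
theorem L00726 : Good (Phi V5.P V5.D 1 (-1)) ⟨4, 2, 4, 7, 4, 4, 4, 9, 2, 1⟩ :=
  leafYS_sound T5.ok_pm T5.Ypm.bz_eq (w := 240) (c := ⟨⟨.negSucc 1127, .negSucc 36, .ofNat 2, .negSucc 9, .ofNat 10, .ofNat 157⟩, ⟨.ofNat 505, .ofNat 17, .ofNat 68, .ofNat 2, .negSucc 4, .negSucc 71⟩, ⟨.ofNat 1090, .ofNat 41, .ofNat 14, .ofNat 39, .negSucc 31, .ofNat 244⟩, ⟨.negSucc 3401, .negSucc 23, .negSucc 6, .negSucc 48, .ofNat 32, .ofNat 471⟩, ⟨.negSucc 196, .negSucc 1, .negSucc 1, .negSucc 41, .ofNat 7, .ofNat 46⟩, .ofNat 1556, .ofNat 1688, .ofNat 0, .ofNat 1688, .ofNat 3476, .ofNat 0, .ofNat 128, .negSucc 177, .negSucc 59, .ofNat 0, .ofNat 159, .ofNat 31, .ofNat 0, .ofNat 0, .ofNat 688, .ofNat 6168, .ofNat 0, .ofNat 0, .ofNat 0, .ofNat 0, .ofNat 0, .ofNat 0, .ofNat 0, .ofNat 0, .ofNat 0, .ofNat 0, .ofNat 0, .ofNat 0,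 .ofNat 5484252848828041914337355537730245180339995726053376, .ofNat 0, .ofNat 0, .ofNat 0⟩)
    (by decide +kernel)
theorem L00727 : Good (Phi V5.P V5.D 1 (-1)) ⟨4, 2, 4, 7, 4, 4, 4, 9, 1, 1⟩ :=
  out_sound (S := T5.ds_pm) T5.ok_pm (w := 24) (j := 1) (by decide +kernel)
theorem L00728 : Good (Phi V5.P V5.D 1 (-1)) ⟨4, 2, 6, 28, 4, 5, 4, 8, 2, 0⟩ :=
  leafYS_sound T5.ok_pm T5.Ypm.bz_eq (w := 242) (c := ⟨⟨.negSucc 202, .negSucc 21, .ofNat 0, .ofNat 17, .ofNat 16, .negSucc 1015⟩, ⟨.ofNat 75, .ofNat 12, .ofNat 17, .negSucc 12, .negSucc 6, .ofNat 465⟩, ⟨.negSucc 48, .ofNat 42, .negSucc 1, .negSucc 50, .negSucc 3, .ofNat 1197⟩, ⟨.negSucc 660, .ofNat 21, .negSucc 8, .ofNat 19, .ofNat 42, .negSucc 3036⟩, ⟨.negSucc 95, .ofNat 13, .negSucc 10, .negSucc 62, .ofNat 4, .negSucc 183⟩, .ofNat 1429, .ofNat 1498, .ofNat 0, .ofNat 1498, .ofNat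 3232, .ofNat 0, .ofNat 128, .negSucc 130, .negSucc 63, .ofNat 0, .ofNat 118, .ofNat 33, .ofNat 0, .ofNat 0, .ofNat 271, .ofNat 580, .ofNat 0, .ofNat 0, .ofNat 0, .ofNat 0, .ofNat 0, .ofNat 0, .ofNat 0, .ofNat 0, .ofNat 0, .ofNat 0, .ofNat 0, .ofNat 0, .ofNat 0, .ofNat 0, .ofNat 0, .ofNat 0⟩)
    (by decide +kernel)
theorem L00729 : Good (Phi V5.P V5.D 1 (-1)) ⟨4, 2, 6, 28, 4, 5, 4, 8, 3, 2⟩ :=
  leafYS_sound T5.ok_pm T5.Ypm.bz_eq (w := 253) (c := ⟨⟨.negSucc 1154, .negSucc 33, .ofNat 1, .negSucc 7, .ofNat 9, .ofNat 83⟩, ⟨.ofNat 512, .ofNat 16, .ofNat 17, .ofNat 1, .negSucc 3, .negSucc 34⟩, ⟨.ofNat 1096, .ofNat 53, .ofNat 4, .ofNat 12, .negSucc 17, .ofNat 196⟩, ⟨.negSucc 3507, .negSucc 10, .negSucc 0, .negSucc 43, .ofNat 28, .ofNat 257⟩, ⟨.negSucc 257, .negSucc 1, .negSucc 0, .negSucc 42, .ofNat 5, .ofNat 40⟩, .ofNat 1476, .ofNat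 1575, .ofNat 0, .ofNat 1575, .ofNat 3371, .ofNat 0, .ofNat 128, .negSucc 144, .negSucc 51, .ofNat 0, .ofNat 133, .ofNat 27, .ofNat 0, .ofNat 0, .ofNat 566, .ofNat 34849, .ofNat 0, .ofNat 0, .ofNat 0, .ofNat 0, .ofNat 0, .ofNat 0, .ofNat 0, .ofNat 0, .ofNat 0, .ofNat 0, .ofNat 0, .ofNat 0, .ofNat 0, .ofNat 0, .ofNat 0, .ofNat 0⟩)
    (by decide +kernel)
theorem L00730 : Good (Phi V5.P V5.D 1 (-1)) ⟨4, 2, 6, 28, 4, 5, 4, 8, 3, 3⟩ :=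
  leafYS_sound T5.ok_pm T5.Ypm.bz_eq (w := 257) (c := ⟨⟨.negSucc 1065, .negSucc 35, .ofNat 1, .negSucc 8, .ofNat 5, .ofNat 102⟩, ⟨.ofNat 474, .ofNat 16, .ofNat 17, .ofNat 1, .negSucc 1, .negSucc 44⟩, ⟨.ofNat 1278, .ofNat 46, .ofNat 7, .ofNat 58, .negSucc 20, .ofNat 255⟩, ⟨.negSucc 3230, .negSucc 21, .negSucc 0, .negSucc 46, .ofNat 19, .ofNat 308⟩, ⟨.negSucc 216, .negSucc 4, .ofNat 0, .negSucc 42, .ofNat 6, .ofNat 31⟩, .ofNat 436, .ofNat 156, .ofNat 0, .ofNat 156, .ofNat 623, .ofNat 0, .ofNat 204, .negSucc 66, .negSucc 114, .ofNat 0, .ofNat 128, .ofNat 42, .ofNat 0, .ofNat 0, .ofNat 1681, .ofNat 365843, .ofNat 0, .ofNat 0, .ofNat 0, .ofNat 0, .ofNat 16206117713766884078429327164473166516465786829840318464, .ofNat 0, .ofNat 0, .ofNat 0, .ofNat 11094701158309056468775193380685044869106289540369219584, .ofNat 0, .ofNat 0, .ofNat 0,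 .ofNat 104097661971880461825929237645061121567229867503892037632, .ofNat 0, .ofNat 0, .ofNat 0⟩)
    (by decide +kernel)
theorem L00731 : Good (Phi V5.P V5.D 1 (-1)) ⟨4, 2, 6, 28, 4, 5, 4, 8, 1, 1⟩ :=
  out_sound (S := T5.ds_pm) T5.ok_pm (w := 24) (j := 1) (by decide +kernel)
theorem L00732 : Good (Phi V5.P V5.D 1 (-1)) ⟨4, 2, 6, 29, 4, 5, 5, 16, 2, 0⟩ :=
  leafYS_sound T5.ok_pm T5.Ypm.bz_eq (w := 246) (c := ⟨⟨.negSucc 118, .negSucc 13, .ofNat 31, .negSucc 9, .ofNat 15, .negSucc 1117⟩, ⟨.ofNat 42, .ofNat 5, .ofNat 0, .ofNat 0, .negSucc 7, .ofNat 530⟩, ⟨.negSucc 127, .ofNat 30, .negSucc 29, .negSucc 34, .ofNat 0, .ofNat 1292⟩, ⟨.negSucc 422, .ofNat 2, .ofNat 78, .negSucc 57, .ofNat 40, .negSucc 3303⟩, ⟨.negSucc 91, .negSucc 43, .negSucc 20, .negSucc 66, .negSucc 18, .negSucc 128⟩, .ofNat 1512, .ofNat 1622, .ofNat 0, .ofNat 1622,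 .ofNat 3390, .ofNat 0, .ofNat 128, .negSucc 133, .negSucc 72, .ofNat 0, .ofNat 118, .ofNat 38, .ofNat 0, .ofNat 0, .ofNat 278, .ofNat 721, .ofNat 0, .ofNat 0, .ofNat 0, .ofNat 0, .ofNat 0, .ofNat 0, .ofNat 0, .ofNat 0, .ofNat 0, .ofNat 0, .ofNat 0, .ofNat 0, .ofNat 0, .ofNat 0, .ofNat 0, .ofNat 0⟩)
    (by decide +kernel)
theorem L00733 : Good (Phi V5.P V5.D 1 (-1)) ⟨4, 2, 6, 29, 4, 5, 5, 16, 3, 2⟩ :=
  leafYS_sound T5.ok_pm T5.Ypm.bz_eq (w := 258) (c := ⟨⟨.negSucc 1155, .negSucc 34, .ofNat 1, .negSucc 7, .ofNat 5, .ofNat 86⟩, ⟨.ofNat 531, .ofNat 16, .ofNat 18, .ofNat 1, .negSucc 1, .negSucc 37⟩, ⟨.ofNat 1096, .ofNat 40, .ofNat 5, .ofNat 4, .negSucc 4, .ofNat 213⟩, ⟨.negSucc 3516, .negSucc 13, .negSucc 1, .negSucc 42, .ofNat 17, .ofNat 268⟩, ⟨.negSucc 260, .negSucc 0, .negSucc 0, .negSucc 41, .ofNat 4, .ofNat 42⟩, .ofNat 1513,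 .ofNat 1626, .ofNat 0, .ofNat 1626, .ofNat 3399, .ofNat 0, .ofNat 128, .negSucc 172, .negSucc 60, .ofNat 0, .ofNat 155, .ofNat 33, .ofNat 0, .ofNat 0, .ofNat 664, .ofNat 55193, .ofNat 0, .ofNat 0, .ofNat 0, .ofNat 0, .ofNat 0, .ofNat 0, .ofNat 0, .ofNat 0, .ofNat 0, .ofNat 0, .ofNat 0, .ofNat 0, .ofNat 0, .ofNat 0, .ofNat 0, .ofNat 0⟩)
    (by decide +kernel)
theorem L00734 : Good (Phi V5.P V5.D 1 (-1)) ⟨4, 2, 6, 29, 4, 5, 5, 16, 3, 3⟩ :=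
  leafYS_sound T5.ok_pm T5.Ypm.bz_eq (w := 261) (c := ⟨⟨.negSucc 1066, .negSucc 34, .ofNat 1, .negSucc 8, .ofNat 3, .ofNat 107⟩, ⟨.ofNat 491, .ofNat 16, .ofNat 17, .ofNat 1, .negSucc 0, .negSucc 50⟩, ⟨.ofNat 1291, .ofNat 45, .ofNat 5, .ofNat 43, .negSucc 8, .ofNat 277⟩, ⟨.negSucc 3236, .negSucc 17, .negSucc 0, .negSucc 44, .ofNat 10, .ofNat 327⟩, ⟨.negSucc 217, .negSucc 3, .ofNat 0, .negSucc 42, .ofNat 3, .ofNat 33⟩, .ofNat 194, .ofNat 28, .ofNat 0, .ofNat 28, .ofNat 226, .ofNat 0, .ofNat 348, .negSucc 29, .negSucc 89, .ofNat 0, .ofNat 128, .ofNat 26, .ofNat 0, .ofNat 0, .ofNat 721, .ofNat 414354, .ofNat 0, .ofNat 0, .ofNat 0, .ofNat 0, .ofNat 78872682155638048573717222929305911276137777689285099520, .ofNat 0, .ofNat 0, .ofNat 0, .ofNat 37348733758223468443010891863943377876699290303469715456, .ofNat 0, .ofNat 0, .ofNat 0, .ofNat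 257518902888309641547089354495738264097900589061110759424, .ofNat 0, .ofNat 0, .ofNat 0⟩)
    (by decide +kernel)
theorem L00735 : Good (Phi V5.P V5.D 1 (-1)) ⟨4, 2, 6, 29, 4, 5, 5, 16, 1, 1⟩ :=
  out_sound (S := T5.ds_pm) T5.ok_pm (w := 25) (j := 1) (by decide +kernel)
theorem L00736 : Good (Phi V5.P V5.D 1 (-1)) ⟨4, 2, 6, 29, 4, 5, 5, 17, 2, 0⟩ :=
  leafYS_sound T5.ok_pm T5.Ypm.bz_eq (w := 246) (c := ⟨⟨.negSucc 167, .negSucc 56, .negSucc 55, .ofNat 1, .ofNat 26, .negSucc 1019⟩, ⟨.ofNat 64, .ofNat 29, .ofNat 41, .negSucc 2, .negSucc 10, .ofNat 480⟩, ⟨.negSucc 72, .ofNat 65, .ofNat 39, .negSucc 29, .negSucc 13, .ofNat 1197⟩, ⟨.negSucc 581, .negSucc 83, .negSucc 165, .negSucc 16, .ofNat 79, .negSucc 3040⟩, ⟨.negSucc 143, .ofNat 14, .negSucc 8, .negSucc 30, .ofNat 16, .negSucc 154⟩, .ofNat 1388, .ofNat 1423, .ofNat 0, .ofNat 1423,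 .ofNat 3037, .ofNat 0, .ofNat 133, .negSucc 127, .negSucc 63, .ofNat 0, .ofNat 114, .ofNat 34, .ofNat 0, .ofNat 0, .ofNat 266, .ofNat 620, .ofNat 0, .ofNat 0, .ofNat 0, .ofNat 0, .ofNat 0, .ofNat 0, .ofNat 0, .ofNat 0, .ofNat 0, .ofNat 0, .ofNat 0, .ofNat 0, .ofNat 0, .ofNat 0, .ofNat 0, .ofNat 0⟩)
    (by decide +kernel)
theorem L00737 : Good (Phi V5.P V5.D 1 (-1)) ⟨4, 2, 6, 29, 4, 5, 5, 17, 2, 1⟩ :=
  leafYS_sound T5.ok_pm T5.Ypm.bz_eq (w := 249) (c := ⟨⟨.negSucc 1146, .negSucc 37, .ofNat 1, .negSucc 7, .ofNat 5, .ofNat 168⟩, ⟨.ofNat 527, .ofNat 17, .ofNat 17, .ofNat 1, .negSucc 1, .negSucc 74⟩, ⟨.ofNat 1086, .ofNat 40, .ofNat 2, .ofNat 23, .negSucc 4, .ofNat 425⟩, ⟨.negSucc 3486, .negSucc 24, .negSucc 0, .negSucc 43, .ofNat 15, .ofNat 524⟩, ⟨.negSucc 253, .negSucc 3, .negSucc 0, .negSucc 42, .ofNat 2, .ofNat 79⟩, .ofNat 1150,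 .ofNat 1053, .ofNat 0, .ofNat 1053, .ofNat 2372, .ofNat 0, .ofNat 128, .negSucc 133, .negSucc 45, .ofNat 0, .ofNat 126, .ofNat 24, .ofNat 0, .ofNat 0, .ofNat 545, .ofNat 3111, .ofNat 0, .ofNat 0, .ofNat 0, .ofNat 0, .ofNat 0, .ofNat 0, .ofNat 0, .ofNat 0, .ofNat 0, .ofNat 0, .ofNat 0, .ofNat 0, .ofNat 2272706460057626877249359073934788406718670082815295488, .ofNat 0, .ofNat 0, .ofNat 0⟩)
    (by decide +kernel)
theorem L00738 : Good (Phi V5.P V5.D 1 (-1)) ⟨4, 2, 6, 29, 4, 5, 5, 17, 1, 1⟩ :=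
  out_sound (S := T5.ds_pm) T5.ok_pm (w := 25) (j := 1) (by decide +kernel)
theorem L00739 : Good (Phi V5.P V5.D 1 (-1)) ⟨4, 2, 5, 15, 4, 5, 4, 8, 2, 0⟩ :=
  leafYS_sound T5.ok_pm T5.Ypm.bz_eq (w := 239) (c := ⟨⟨.negSucc 148, .negSucc 48, .ofNat 15, .negSucc 9, .ofNat 6, .negSucc 1047⟩, ⟨.ofNat 45, .ofNat 30, .ofNat 25, .ofNat 5, .negSucc 0, .ofNat 521⟩, ⟨.negSucc 115, .ofNat 70, .negSucc 17, .negSucc 13, .ofNat 17, .ofNat 1232⟩, ⟨.negSucc 555, .negSucc 46, .ofNat 60, .negSucc 54, .negSucc 24, .negSucc 3072⟩, ⟨.negSucc 207, .ofNat 47, .ofNat 36, .negSucc 42, .negSucc 55, .negSucc 57⟩, .ofNat 1509, .ofNat 1608, .ofNat 0, .ofNat 1608, .ofNat 3283, .ofNat 0, .ofNat 128, .negSucc 164, .negSucc 69, .ofNat 0, .ofNat 141, .ofNat 38, .ofNat 0, .ofNat 0, .ofNat 298, .ofNat 643, .ofNat 0, .ofNat 0, .ofNat 0, .ofNat 0, .ofNat 0, .ofNat 0,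 .ofNat 0, .ofNat 0, .ofNat 0, .ofNat 0, .ofNat 0, .ofNat 0, .ofNat 0, .ofNat 0, .ofNat 0, .ofNat 0⟩)
    (by decide +kernel)
theorem L00740 : Good (Phi V5.P V5.D 1 (-1)) ⟨4, 2, 5, 15, 4, 5, 4, 8, 3, 2⟩ :=
  leafYS_sound T5.ok_pm T5.Ypm.bz_eq (w := 250) (c := ⟨⟨.negSucc 1151, .negSucc 35, .ofNat 3, .negSucc 8, .ofNat 9, .ofNat 84⟩, ⟨.ofNat 549, .ofNat 16, .ofNat 35, .ofNat 2, .negSucc 3, .negSucc 39⟩, ⟨.ofNat 1089, .ofNat 48, .ofNat 12, .ofNat 12, .negSucc 10, .ofNat 214⟩, ⟨.negSucc 3509, .negSucc 17, .negSucc 0, .negSucc 48, .ofNat 29, .ofNat 263⟩, ⟨.negSucc 257, .negSucc 1, .ofNat 0, .negSucc 43, .ofNat 5, .ofNat 41⟩, .ofNat 790, .ofNat 546, .ofNat 0, .ofNat 546, .ofNat 1388, .ofNat 0, .ofNat 155, .negSucc 115, .negSucc 41, .ofNat 0, .ofNat 128, .ofNat 22, .ofNat 0, .ofNat 0, .ofNat 436, .ofNat 31830, .ofNat 0, .ofNat 0, .ofNat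 0, .ofNat 0, .ofNat 0, .ofNat 0, .ofNat 0, .ofNat 0, .ofNat 0, .ofNat 0, .ofNat 0, .ofNat 0, .ofNat 0, .ofNat 0, .ofNat 0, .ofNat 0⟩)
    (by decide +kernel)
theorem L00741 : Good (Phi V5.P V5.D 1 (-1)) ⟨4, 2, 5, 15, 4, 5, 4, 8, 3, 3⟩ :=
  leafYS_sound T5.ok_pm T5.Ypm.bz_eq (w := 253) (c := ⟨⟨.negSucc 1063, .negSucc 35, .ofNat 2, .negSucc 8, .ofNat 5, .ofNat 102⟩, ⟨.ofNat 508, .ofNat 16, .ofNat 34, .ofNat 2, .negSucc 2, .negSucc 47⟩, ⟨.ofNat 1286, .ofNat 49, .ofNat 12, .ofNat 57, .negSucc 18, .ofNat 295⟩, ⟨.negSucc 3233, .negSucc 19, .negSucc 1, .negSucc 47, .ofNat 20, .ofNat 299⟩, ⟨.negSucc 216, .negSucc 4, .ofNat 0, .negSucc 42, .ofNat 6, .ofNat 28⟩, .ofNat 443, .ofNat 171, .ofNat 0, .ofNat 171, .ofNat 631, .ofNat 0, .ofNat 293, .negSucc 71, .negSucc 144, .ofNat 0, .ofNat 128, .ofNat 57, .ofNat 0, .ofNat 0, .ofNat 2081, .ofNat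 302997, .ofNat 0, .ofNat 0, .ofNat 0, .ofNat 0, .ofNat 2401115083731424707785573454938949263662499796986363904, .ofNat 0, .ofNat 0, .ofNat 0, .ofNat 1474790725543291305073139748894871452441107757661159424, .ofNat 0, .ofNat 0, .ofNat 0, .ofNat 15021769774671053048196829537690971074839217189309906944, .ofNat 0, .ofNat 0, .ofNat 0⟩)
    (by decide +kernel)
theorem L00742 : Good (Phi V5.P V5.D 1 (-1)) ⟨4, 2, 5, 15, 4, 5, 4, 8, 1, 1⟩ :=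
  out_sound (S := T5.ds_pm) T5.ok_pm (w := 24) (j := 1) (by decide +kernel)
theorem L00743 : Good (Phi V5.P V5.D 1 (-1)) ⟨4, 2, 4, 7, 4, 5, 4, 9, 2, 0⟩ :=
  leafYS_sound T5.ok_pm T5.Ypm.bz_eq (w := 236) (c := ⟨⟨.negSucc 225, .negSucc 23, .negSucc 1, .ofNat 3, .ofNat 7, .negSucc 964⟩, ⟨.ofNat 62, .ofNat 21, .ofNat 64, .ofNat 1, .negSucc 5, .ofNat 464⟩, ⟨.negSucc 18, .ofNat 52, .ofNat 6, .negSucc 21, .ofNat 6, .ofNat 1132⟩, ⟨.negSucc 674, .negSucc 24, .ofNat 8, .negSucc 41, .negSucc 3, .negSucc 2912⟩, ⟨.negSucc 18, .negSucc 59, .ofNat 37, .negSucc 91, .negSucc 47, .negSucc 192⟩, .ofNat 1174, .ofNat 1089, .ofNat 0, .ofNat 1089, .ofNat 2411, .ofNat 0, .ofNat 139, .negSucc 127, .negSucc 79, .ofNat 0, .ofNat 117, .ofNat 42, .ofNat 0, .ofNat 0, .ofNat 281, .ofNat 619, .ofNat 0, .ofNat 0, .ofNat 0, .ofNat 0, .ofNat 0, .ofNat 0, .ofNat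 0, .ofNat 0, .ofNat 0, .ofNat 0, .ofNat 0, .ofNat 0, .ofNat 0, .ofNat 0, .ofNat 0, .ofNat 0⟩)
    (by decide +kernel)
theorem L00744 : Good (Phi V5.P V5.D 1 (-1)) ⟨4, 2, 4, 7, 4, 5, 4, 9, 2, 1⟩ :=
  leafYS_sound T5.ok_pm T5.Ypm.bz_eq (w := 238) (c := ⟨⟨.negSucc 1138, .negSucc 36, .ofNat 3, .negSucc 9, .ofNat 6, .ofNat 160⟩, ⟨.ofNat 507, .ofNat 16, .ofNat 69, .ofNat 2, .negSucc 2, .negSucc 73⟩, ⟨.ofNat 1029, .ofNat 50, .ofNat 24, .ofNat 59, .ofNat 2, .ofNat 457⟩, ⟨.negSucc 3454, .negSucc 24, .negSucc 7, .negSucc 50, .ofNat 18, .ofNat 496⟩, ⟨.negSucc 242, .negSucc 9, .negSucc 5, .negSucc 41, .ofNat 4, .ofNat 70⟩, .ofNat 1180, .ofNat 1099, .ofNat 0, .ofNat 1099, .ofNat 2428, .ofNat 0, .ofNat 128, .negSucc 178, .negSucc 49, .ofNat 0, .ofNat 167, .ofNat 25, .ofNat 0, .ofNat 0, .ofNat 686, .ofNat 2043, .ofNat 0, .ofNat 0, .ofNat 0,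 .ofNat 0, .ofNat 0, .ofNat 0, .ofNat 0, .ofNat 0, .ofNat 0, .ofNat 0, .ofNat 0, .ofNat 0, .ofNat 5359129033416498464862075842644532736751358844076032, .ofNat 0, .ofNat 0, .ofNat 0⟩)
    (by decide +kernel)
theorem L00745 : Good (Phi V5.P V5.D 1 (-1)) ⟨4, 2, 4, 7, 4, 5, 4, 9, 1, 1⟩ :=
  out_sound (S := T5.ds_pm) T5.ok_pm (w := 24) (j := 1) (by decide +kernel)
theorem L00746 : Good (Phi V5.P V5.D 1 (-1)) ⟨4, 2, 4, 7, 3, 3, 3, 4, 2, 0⟩ :=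
  leafYS_sound T5.ok_pm T5.Ypm.bz_eq (w := 218) (c := ⟨⟨.ofNat 2, .negSucc 78, .ofNat 20, .ofNat 8, .ofNat 16, .negSucc 1225⟩, ⟨.negSucc 32, .ofNat 38, .ofNat 52, .negSucc 2, .negSucc 16, .ofNat 580⟩, ⟨.negSucc 253, .ofNat 81, .negSucc 11, .negSucc 49, .ofNat 55, .ofNat 1329⟩, ⟨.negSucc 44, .negSucc 105, .ofNat 22, .negSucc 19, .negSucc 3, .negSucc 3677⟩, ⟨.negSucc 89, .ofNat 83, .negSucc 19, .negSucc 101, .negSucc 73, .negSucc 205⟩, .ofNat 1175, .ofNat 1090, .ofNat 0, .ofNat 1090, .ofNat 2414, .ofNat 0, .ofNat 159, .negSucc 127, .negSucc 64, .ofNat 0, .ofNat 115, .ofNat 35, .ofNat 0, .ofNat 0, .ofNat 252, .ofNat 517, .ofNat 0, .ofNat 0, .ofNat 0, .ofNat 0, .ofNat 0, .ofNat 0, .ofNat 0, .ofNat 0, .ofNat 0, .ofNat 0, .ofNat 0, .ofNat 0, .ofNat 0, .ofNat 0, .ofNat 0, .ofNat 0⟩)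
    (by decide +kernel)
theorem L00747 : Good (Phi V5.P V5.D 1 (-1)) ⟨4, 2, 4, 7, 3, 3, 3, 4, 3, 2⟩ :=
  leafYS_sound T5.ok_pm T5.Ypm.bz_eq (w := 227) (c := ⟨⟨.negSucc 1160, .negSucc 39, .ofNat 7, .negSucc 28, .ofNat 8, .ofNat 84⟩, ⟨.ofNat 510, .ofNat 19, .ofNat 70, .ofNat 10, .negSucc 1, .negSucc 37⟩, ⟨.ofNat 1010, .ofNat 39, .ofNat 19, .ofNat 60, .ofNat 48, .ofNat 322⟩, ⟨.negSucc 3548, .negSucc 29, .ofNat 3, .negSucc 118, .ofNat 26, .ofNat 266⟩, ⟨.negSucc 306, .negSucc 4, .negSucc 0, .negSucc 68, .ofNat 10, .ofNat 46⟩, .ofNat 1169, .ofNat 1078, .ofNat 0, .ofNat 1078, .ofNat 2397, .ofNat 0, .ofNat 128, .negSucc 139, .negSucc 62, .ofNat 0, .ofNat 130, .ofNat 33, .ofNat 0, .ofNat 0, .ofNat 756, .ofNat 10389, .ofNat 0, .ofNat 0, .ofNat 0, .ofNat 0, .ofNat 0, .ofNat 0, .ofNat 0, .ofNat 0, .ofNat 0, .ofNat 0, .ofNat 0, .ofNat 0, .ofNat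 0, .ofNat 0, .ofNat 0, .ofNat 0⟩)
    (by decide +kernel)
theorem L00748 : Good (Phi V5.P V5.D 1 (-1)) ⟨4, 2, 4, 7, 3, 3, 3, 4, 3, 3⟩ :=
  leafYS_sound T5.ok_pm T5.Ypm.bz_eq (w := 227) (c := ⟨⟨.negSucc 1074, .negSucc 37, .ofNat 7, .negSucc 14, .negSucc 5, .ofNat 134⟩, ⟨.ofNat 477, .ofNat 16, .ofNat 66, .ofNat 1, .ofNat 3, .negSucc 69⟩, ⟨.ofNat 1119, .ofNat 116, .ofNat 76, .ofNat 285, .ofNat 53, .ofNat 888⟩, ⟨.negSucc 3254, .negSucc 40, .negSucc 4, .negSucc 90, .negSucc 13, .ofNat 347⟩, ⟨.negSucc 224, .negSucc 24, .negSucc 8, .negSucc 93, .ofNat 6, .negSucc 76⟩, .ofNat 1431, .ofNat 1491, .ofNat 0, .ofNat 1491, .ofNat 3128, .ofNat 0, .ofNat 128, .negSucc 226, .negSucc 90, .ofNat 0, .ofNat 203, .ofNat 34, .ofNat 0, .ofNat 0, .ofNat 3799, .ofNat 9753, .ofNat 0, .ofNat 0, .ofNat 0, .ofNat 0, .ofNat 1816145053605835374504956318099258748373045346304,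 .ofNat 0, .ofNat 0, .ofNat 0, .ofNat 7150783037798097826521999506354927634014040752128, .ofNat 0, .ofNat 0, .ofNat 0, .ofNat 85212960237988763858597180535403067524739261005824, .ofNat 0, .ofNat 0, .ofNat 0⟩)
    (by decide +kernel)
theorem L00749 : Good (Phi V5.P V5.D 1 (-1)) ⟨4, 2, 4, 7, 3, 3, 3, 4, 1, 1⟩ :=
  out_sound (S := T5.ds_pm) T5.ok_pm (w := 21) (j := 1) (by decide +kernel)
theorem L00750 : Good (Phi V5.P V5.D 1 (-1)) ⟨4, 2, 5, 14, 2, 1, 3, 5, 2, 0⟩ :=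
  leafYS_sound T5.ok_pm T5.Ypm.bz_eq (w := 207) (c := ⟨⟨.negSucc 287, .negSucc 55, .ofNat 24, .ofNat 7, .ofNat 96, .negSucc 931⟩, ⟨.ofNat 115, .ofNat 26, .ofNat 20, .negSucc 13, .negSucc 43, .ofNat 431⟩, ⟨.ofNat 77, .ofNat 66, .negSucc 8, .negSucc 3, .negSucc 51, .ofNat 1040⟩, ⟨.negSucc 877, .negSucc 89, .ofNat 88, .negSucc 56, .ofNat 274, .negSucc 2815⟩, ⟨.negSucc 21, .negSucc 8, .ofNat 49, .negSucc 163, .negSucc 4, .negSucc 236⟩, .ofNat 1347, .ofNat 1363, .ofNat 0, .ofNat 1363, .ofNat 2965, .ofNat 0, .ofNat 128, .negSucc 129, .negSucc 72, .ofNat 0, .ofNat 116, .ofNat 37, .ofNat 0, .ofNat 0, .ofNat 281, .ofNat 476, .ofNat 0, .ofNat 0, .ofNat 0, .ofNat 0, .ofNat 0, .ofNat 0, .ofNat 0, .ofNat 0, .ofNat 0, .ofNat 0, .ofNat 0, .ofNat 0, .ofNat 0, .ofNat 0, .ofNat 0, .ofNat 0⟩)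
    (by decide +kernel)
theorem L00751 : Good (Phi V5.P V5.D 1 (-1)) ⟨4, 2, 5, 14, 2, 1, 3, 5, 3, 2⟩ :=
  leafYS_sound T5.ok_pm T5.Ypm.bz_eq (w := 215) (c := ⟨⟨.negSucc 1095, .negSucc 37, .ofNat 2, .negSucc 86, .negSucc 3, .ofNat 65⟩, ⟨.ofNat 489, .ofNat 17, .ofNat 34, .ofNat 30, .ofNat 3, .negSucc 27⟩, ⟨.ofNat 987, .ofNat 21, .negSucc 6, .ofNat 314, .negSucc 28, .ofNat 182⟩, ⟨.negSucc 3311, .negSucc 30, .negSucc 1, .negSucc 325, .ofNat 0, .ofNat 209⟩, ⟨.negSucc 202, .negSucc 13, .ofNat 0, .negSucc 153, .ofNat 19, .ofNat 41⟩, .ofNat 1349, .ofNat 1363, .ofNat 0, .ofNat 1363, .ofNat 2962, .ofNat 0, .ofNat 128, .negSucc 156, .negSucc 92, .ofNat 0, .ofNat 144, .ofNat 45, .ofNat 0, .ofNat 0, .ofNat 1097, .ofNat 4507, .ofNat 0, .ofNat 0, .ofNat 0, .ofNat 0, .ofNat 0, .ofNat 0, .ofNat 0, .ofNat 0, .ofNat 0, .ofNat 0, .ofNat 0, .ofNat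 0, .ofNat 0, .ofNat 0, .ofNat 0, .ofNat 0⟩)
    (by decide +kernel)

end Crest.Agent.R097C5.N5pm
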