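import Crest.Agent.R097.KS3
import Crest.Agent.R097.T5Ypm

/-!
# Row 97, box cover in dimension n = 5 (generated)
-/

set_option autoImplicit false
set_option Elab.async false
set_option maxHeartbeats 0
set_option maxRecDepth 100000

open Crest.Agent.R097 Crest.Agent.R097.KA


namespace Crest.Agent.R097C5.N5pm

theorem L00752 : Good (Phi V5.P V5.D 1 (-1)) ⟨4, 2, 5, 14, 2, 1, 3, 5, 4, 6⟩ :=
  leafYS_sound T5.ok_pm T5.Ypm.bz_eq (w := 222) (c := ⟨⟨.negSucc 1028, .negSucc 39, .negSucc 1, .negSucc 58, .negSucc 24, .ofNat 54⟩, ⟨.ofNat 462, .ofNat 17, .ofNat 35, .ofNat 13, .ofNat 13, .negSucc 25⟩, ⟨.ofNat 1039, .ofNat 49, .negSucc 4, .ofNat 641, .negSucc 30, .ofNat 247⟩, ⟨.negSucc 3088, .negSucc 42, .negSucc 11, .negSucc 267, .negSucc 66, .ofNat 154⟩, ⟨.negSucc 142, .negSucc 19, .ofNat 3, .negSucc 203, .ofNat 13, .negSucc 6⟩, .ofNat 1358, .ofNat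 1381, .ofNat 0, .ofNat 1381, .ofNat 2990, .ofNat 0, .ofNat 128, .negSucc 212, .negSucc 85, .ofNat 0, .ofNat 195, .ofNat 25, .ofNat 0, .ofNat 0, .ofNat 3087, .ofNat 12663, .ofNat 0, .ofNat 0, .ofNat 0, .ofNat 0, .ofNat 0, .ofNat 0, .ofNat 0, .ofNat 0, .ofNat 0, .ofNat 423611941326777703673122992498047490008809472, .ofNat 0, .ofNat 0, .ofNat 0, .ofNat 9538160350523363761605432333876213244466561024, .ofNat 0, .ofNat 0⟩)
    (by decide +kernel)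
theorem L00753 : Good (Phi V5.P V5.D 1 (-1)) ⟨4, 2, 5, 14, 2, 1, 3, 5, 4, 7⟩ :=
  leafYS_sound T5.ok_pm T5.Ypm.bz_eq (w := 221) (c := ⟨⟨.negSucc 977, .negSucc 35, .ofNat 2, .negSucc 43, .negSucc 49, .ofNat 94⟩, ⟨.ofNat 440, .ofNat 15, .ofNat 33, .ofNat 0, .ofNat 27, .negSucc 54⟩, ⟨.ofNat 1021, .ofNat 108, .ofNat 21, .ofNat 1095, .negSucc 189, .ofNat 884⟩, ⟨.negSucc 2921, .negSucc 35, .negSucc 4, .negSucc 253, .negSucc 126, .ofNat 205⟩, ⟨.negSucc 104, .negSucc 27, .negSucc 3, .negSucc 278, .ofNat 35, .negSucc 144⟩, .ofNat 1131, .ofNat 1023, .ofNat 0, .ofNat 1023, .ofNat 2333, .ofNat 0, .ofNat 128, .negSucc 170, .negSucc 3, .ofNat 0, .ofNat 165, .negSucc 23, .ofNat 0, .ofNat 0, .ofNat 2834, .ofNat 4681, .ofNat 899487789880993759746017603379280743673888768, .ofNat 14720802574231421502577177559965601825292288, .ofNat 0, .ofNat 0, .ofNat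 17163749860131766392678535218995423722665410560, .ofNat 329281652203941919973141406869055141180342272, .ofNat 0, .ofNat 0, .ofNat 13419077333979938442325885718641807354469810176, .ofNat 761616755572950729278438479694623067516960768, .ofNat 0, .ofNat 0, .ofNat 461459159696634567017448562949871048662913646592, .ofNat 11729344227620554292721534184938438739466649600, .ofNat 0, .ofNat 0⟩)
    (by decide +kernel)
theorem L00754 : Good (Phi V5.P V5.D 1 (-1)) ⟨4, 2, 5, 14, 3, 2, 3, 5, 4, 8⟩ :=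
  out_sound (S := T5.ds_pm) T5.ok_pm (w := 27) (j := 1) (by decide +kernel)
theorem L00755 : Good (Phi V5.P V5.D 1 (-1)) ⟨4, 2, 5, 14, 4, 6, 3, 5, 5, 16⟩ :=
  out_sound (S := T5.ds_pm) T5.ok_pm (w := 31) (j := 1) (by decide +kernel)
theorem L00756 : Good (Phi V5.P V5.D 1 (-1)) ⟨4, 2, 5, 14, 4, 7, 4, 10, 5, 16⟩ :=
  out_sound (S := T5.ds_pm) T5.ok_pm (w := 32) (j := 1) (by decide +kernel)
theorem L00757 : Good (Phi V5.P V5.D 1 (-1)) ⟨4, 2, 5, 14, 4, 7, 4, 11, 5, 16⟩ :=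
  out_sound (S := T5.ds_pm) T5.ok_pm (w := 40) (j := 2) (by decide +kernel)
theorem L00758 : Good (Phi V5.P V5.D 1 (-1)) ⟨4, 2, 5, 14, 3, 3, 3, 5, 5, 17⟩ :=
  out_sound (S := T5.ds_pm) T5.ok_pm (w := 29) (j := 1) (by decide +kernel)
theorem L00759 : Good (Phi V5.P V5.D 1 (-1)) ⟨4, 2, 5, 14, 2, 1, 3, 5, 4, 9⟩ :=
  out_sound (S := T5.ds_pm) T5.ok_pm (w := 25) (j := 1) (by decide +kernel)
theorem L00760 : Good (Phi V5.P V5.D 1 (-1)) ⟨4, 2, 5, 14, 2, 1, 3, 5, 3, 5⟩ :=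
  out_sound (S := T5.ds_pm) T5.ok_pm (w := 23) (j := 1) (by decide +kernel)
theorem L00761 : Good (Phi V5.P V5.D 1 (-1)) ⟨4, 2, 5, 14, 2, 1, 3, 5, 2, 3⟩ :=
  out_sound (S := T5.ds_pm) T5.ok_pm (w := 21) (j := 1) (by decide +kernel)
theorem L00762 : Good (Phi V5.P V5.D 1 (-1)) ⟨5, 4, 5, 15, 2, 1, 4, 10, 2, 0⟩ :=
  leafYS_sound T5.ok_pm T5.Ypm.bz_eq (w := 215) (c := ⟨⟨.negSucc 273, .ofNat 19, .ofNat 0, .ofNat 54, .ofNat 2, .negSucc 926⟩, ⟨.ofNat 119, .negSucc 3, .ofNat 31, .negSucc 34, .negSucc 3, .ofNat 457⟩, ⟨.ofNat 61, .ofNat 22, .negSucc 6, .negSucc 69, .negSucc 9, .ofNat 1079⟩, ⟨.negSucc 842, .ofNat 127, .negSucc 17, .ofNat 90, .negSucc 20, .negSucc 2801⟩, ⟨.negSucc 90, .ofNat 61, .negSucc 12, .negSucc 136, .negSucc 32, .negSucc 152⟩, .ofNat 1222, .ofNat 1151, .ofNat 0, .ofNat 1151, .ofNat 2472, .ofNat 0, .ofNat 141, .negSucc 127,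 .negSucc 70, .ofNat 0, .ofNat 116, .ofNat 38, .ofNat 0, .ofNat 0, .ofNat 274, .ofNat 573, .ofNat 0, .ofNat 0, .ofNat 0, .ofNat 0, .ofNat 0, .ofNat 0, .ofNat 0, .ofNat 0, .ofNat 0, .ofNat 0, .ofNat 0, .ofNat 0, .ofNat 0, .ofNat 0, .ofNat 0, .ofNat 0⟩)
    (by decide +kernel)
theorem L00763 : Good (Phi V5.P V5.D 1 (-1)) ⟨5, 4, 5, 15, 2, 1, 4, 10, 3, 2⟩ :=
  leafYS_sound T5.ok_pm T5.Ypm.bz_eq (w := 225) (c := ⟨⟨.negSucc 1096, .negSucc 22, .ofNat 1, .negSucc 71, .ofNat 0, .ofNat 64⟩, ⟨.ofNat 523, .ofNat 12, .ofNat 35, .ofNat 26, .ofNat 1, .negSucc 29⟩, ⟨.ofNat 971, .ofNat 38, .ofNat 7, .ofNat 269, .negSucc 5, .ofNat 231⟩, ⟨.negSucc 3315, .negSucc 28, .negSucc 6, .negSucc 288, .ofNat 5, .ofNat 201⟩, ⟨.negSucc 199, .negSucc 0, .negSucc 2, .negSucc 155, .ofNat 9, .ofNat 32⟩, .ofNat 1676, .ofNat 1856, .ofNat 0, .ofNat 1856, .ofNat 3683, .ofNat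 0, .ofNat 128, .negSucc 199, .negSucc 111, .ofNat 0, .ofNat 174, .ofNat 59, .ofNat 0, .ofNat 0, .ofNat 1275, .ofNat 12561, .ofNat 0, .ofNat 0, .ofNat 0, .ofNat 0, .ofNat 0, .ofNat 0, .ofNat 0, .ofNat 0, .ofNat 0, .ofNat 0, .ofNat 0, .ofNat 0, .ofNat 0, .ofNat 0, .ofNat 0, .ofNat 0⟩)
    (by decide +kernel)
theorem L00764 : Good (Phi V5.P V5.D 1 (-1)) ⟨5, 4, 5, 15, 2, 1, 4, 10, 4, 6⟩ :=
  leafYS_sound T5.ok_pm T5.Ypm.bz_eq (w := 230) (c := ⟨⟨.negSucc 1037, .negSucc 17, .ofNat 1, .negSucc 46, .negSucc 5, .ofNat 47⟩, ⟨.ofNat 498, .ofNat 9, .ofNat 34, .ofNat 10, .ofNat 3, .negSucc 23⟩, ⟨.ofNat 981, .ofNat 51, .ofNat 19, .ofNat 667, .ofNat 42, .ofNat 269⟩, ⟨.negSucc 3113, .negSucc 18, .negSucc 5, .negSucc 244, .negSucc 18, .ofNat 136⟩, ⟨.negSucc 133, .negSucc 11, .ofNat 1, .negSucc 216, .negSucc 3, .negSucc 7⟩, .ofNat 1009, .ofNat 838, .ofNat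 0, .ofNat 838, .ofNat 1919, .ofNat 0, .ofNat 128, .negSucc 208, .negSucc 99, .ofNat 0, .ofNat 208, .ofNat 33, .ofNat 0, .ofNat 0, .ofNat 3259, .ofNat 20982, .ofNat 0, .ofNat 0, .ofNat 0, .ofNat 0, .ofNat 0, .ofNat 0, .ofNat 0, .ofNat 0, .ofNat 0, .ofNat 0, .ofNat 0, .ofNat 0, .ofNat 0, .ofNat 0, .ofNat 0, .ofNat 0⟩)
    (by decide +kernel)
theorem L00765 : Good (Phi V5.P V5.D 1 (-1)) ⟨5, 4, 5, 15, 2, 1, 4, 10, 4, 7⟩ :=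
  leafYS_sound T5.ok_pm T5.Ypm.bz_eq (w := 230) (c := ⟨⟨.negSucc 1026, .negSucc 17, .ofNat 7, .ofNat 16, .negSucc 9, .ofNat 87⟩, ⟨.ofNat 501, .ofNat 9, .ofNat 30, .negSucc 32, .ofNat 4, .negSucc 51⟩, ⟨.ofNat 591, .ofNat 29, .ofNat 100, .ofNat 1629, .ofNat 70, .ofNat 922⟩, ⟨.negSucc 3021, .negSucc 20, .negSucc 0, .negSucc 142, .negSucc 35, .ofNat 181⟩, ⟨.negSucc 27, .negSucc 10, .negSucc 16, .negSucc 373, .negSucc 12, .negSucc 138⟩, .ofNat 1609, .ofNat 1752, .ofNat 0, .ofNat 1752, .ofNat 3510, .ofNat 0, .ofNat 128, .negSucc 257, .ofNat 49, .ofNat 0, .ofNat 227, .negSucc 60, .ofNat 0, .ofNat 0, .ofNat 4857, .ofNat 17444, .ofNat 0, .ofNat 0, .ofNat 0, .ofNat 0, .ofNat 10205077561800694493409719064019534873665579515904, .ofNat 0, .ofNat 0, .ofNat 0, .ofNat 28488427665325930157921669109317461145485853065216, .ofNat 25223813787939336878861141260424622191688024064,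 .ofNat 0, .ofNat 0, .ofNat 254442187247922857243670188113603884141073726963712, .ofNat 1992884389104593367048838674363020331109203312640, .ofNat 0, .ofNat 0⟩)
    (by decide +kernel)
theorem L00766 : Good (Phi V5.P V5.D 1 (-1)) ⟨5, 4, 5, 15, 2, 1, 4, 10, 1, 1⟩ :=
  out_sound (S := T5.ds_pm) T5.ok_pm (w := 20) (j := 1) (by decide +kernel)
theorem L00767 : Good (Phi V5.P V5.D 1 (-1)) ⟨6, 10, 5, 15, 3, 2, 5, 20, 2, 0⟩ :=
  leafYS_sound T5.ok_pm T5.Ypm.bz_eq (w := 238) (c := ⟨⟨.negSucc 313, .negSucc 12, .ofNat 12, .ofNat 41, .ofNat 9, .negSucc 889⟩, ⟨.ofNat 135, .ofNat 4, .ofNat 29, .negSucc 25, .negSucc 3, .ofNat 443⟩, ⟨.ofNat 134, .ofNat 17, .negSucc 10, .negSucc 60, .negSucc 7, .ofNat 1032⟩, ⟨.negSucc 998, .negSucc 23, .ofNat 56, .ofNat 62, .ofNat 30, .negSucc 2598⟩, ⟨.negSucc 158, .negSucc 13, .ofNat 56, .negSucc 107, .ofNat 9, .negSucc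 66⟩, .ofNat 1664, .ofNat 1863, .ofNat 0, .ofNat 1863, .ofNat 3728, .ofNat 0, .ofNat 128, .negSucc 153, .negSucc 73, .ofNat 0, .ofNat 131, .ofNat 40, .ofNat 0, .ofNat 0, .ofNat 309, .ofNat 753, .ofNat 0, .ofNat 0, .ofNat 0, .ofNat 0, .ofNat 0, .ofNat 0, .ofNat 0, .ofNat 0, .ofNat 0, .ofNat 0, .ofNat 0, .ofNat 0, .ofNat 0, .ofNat 0, .ofNat 0, .ofNat 0⟩)
    (by decide +kernel)
theorem L00768 : Good (Phi V5.P V5.D 1 (-1)) ⟨6, 10, 5, 15, 3, 2, 5, 20, 2, 1⟩ :=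
  leafYS_sound T5.ok_pm T5.Ypm.bz_eq (w := 240) (c := ⟨⟨.negSucc 1123, .negSucc 13, .ofNat 2, .negSucc 25, .ofNat 2, .ofNat 139⟩, ⟨.ofNat 538, .ofNat 6, .ofNat 34, .ofNat 7, .negSucc 0, .negSucc 65⟩, ⟨.ofNat 1057, .negSucc 18, .ofNat 10, .ofNat 140, .negSucc 15, .ofNat 327⟩, ⟨.negSucc 3353, .negSucc 18, .negSucc 2, .negSucc 115, .ofNat 7, .ofNat 433⟩, ⟨.negSucc 196, .negSucc 0, .negSucc 2, .negSucc 84, .ofNat 1, .ofNat 65⟩, .ofNat 1520, .ofNat 1632, .ofNat 0, .ofNat 1632, .ofNat 3325, .ofNat 0, .ofNat 128, .negSucc 183, .negSucc 81, .ofNat 0, .ofNat 160, .ofNat 43, .ofNat 0, .ofNat 0, .ofNat 1005, .ofNat 3938, .ofNat 0, .ofNat 0, .ofNat 0, .ofNat 0, .ofNat 0, .ofNat 0, .ofNat 0, .ofNat 0, .ofNat 0, .ofNat 0, .ofNat 0, .ofNat 0, .ofNat 43317757235526610019013802891290793139386973989896192, .ofNat 0, .ofNat 0, .ofNat 0⟩)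
    (by decide +kernel)
theorem L00769 : Good (Phi V5.P V5.D 1 (-1)) ⟨6, 10, 5, 15, 3, 2, 5, 20, 1, 1⟩ :=
  out_sound (S := T5.ds_pm) T5.ok_pm (w := 23) (j := 1) (by decide +kernel)
theorem L00770 : Good (Phi V5.P V5.D 1 (-1)) ⟨6, 10, 6, 30, 4, 6, 5, 20, 2, 0⟩ :=
  leafYS_sound T5.ok_pm T5.Ypm.bz_eq (w := 255) (c := ⟨⟨.negSucc 138, .negSucc 4, .negSucc 21, .ofNat 2, .ofNat 8, .negSucc 1074⟩, ⟨.ofNat 57, .ofNat 1, .ofNat 24, .negSucc 2, .negSucc 4, .ofNat 518⟩, ⟨.negSucc 40, .ofNat 3, .ofNat 24, .negSucc 15, .ofNat 6, .ofNat 1170⟩, ⟨.negSucc 420, .ofNat 13, .negSucc 62, .negSucc 8, .ofNat 5, .negSucc 3272⟩, ⟨.negSucc 37, .ofNat 25, .ofNat 6, .negSucc 29, .negSucc 35, .negSucc 319⟩, .ofNat 1469, .ofNat 1554, .ofNat 0, .ofNat 1554, .ofNat 3221, .ofNat 0, .ofNat 128, .negSucc 148, .negSucc 78, .ofNat 0, .ofNat 128, .ofNat 42, .ofNat 0, .ofNat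 0, .ofNat 288, .ofNat 918, .ofNat 0, .ofNat 0, .ofNat 0, .ofNat 0, .ofNat 0, .ofNat 0, .ofNat 0, .ofNat 0, .ofNat 0, .ofNat 0, .ofNat 0, .ofNat 0, .ofNat 0, .ofNat 0, .ofNat 0, .ofNat 0⟩)
    (by decide +kernel)
theorem L00771 : Good (Phi V5.P V5.D 1 (-1)) ⟨6, 10, 6, 30, 4, 6, 5, 20, 2, 1⟩ :=
  leafYS_sound T5.ok_pm T5.Ypm.bz_eq (w := 256) (c := ⟨⟨.negSucc 1165, .negSucc 11, .ofNat 2, .negSucc 7, .negSucc 2, .ofNat 167⟩, ⟨.ofNat 554, .ofNat 5, .ofNat 16, .ofNat 1, .ofNat 2, .negSucc 80⟩, ⟨.ofNat 1004, .ofNat 9, .ofNat 26, .ofNat 129, .ofNat 22, .ofNat 708⟩, ⟨.negSucc 3509, .negSucc 11, .negSucc 1, .negSucc 47, .negSucc 8, .ofNat 498⟩, ⟨.negSucc 269, .negSucc 2, .negSucc 4, .negSucc 48, .ofNat 1, .ofNat 35⟩, .ofNat 1691, .ofNat 1911, .ofNat 0, .ofNat 1911, .ofNat 3835, .ofNat 0, .ofNat 128, .negSucc 224, .negSucc 80, .ofNat 0, .ofNat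 195, .ofNat 41, .ofNat 0, .ofNat 0, .ofNat 1195, .ofNat 965, .ofNat 0, .ofNat 0, .ofNat 0, .ofNat 0, .ofNat 0, .ofNat 0, .ofNat 0, .ofNat 0, .ofNat 0, .ofNat 0, .ofNat 0, .ofNat 0, .ofNat 2199056963092274365365989103701532969380314110200882659328, .ofNat 0, .ofNat 0, .ofNat 0⟩)
    (by decide +kernel)
theorem L00772 : Good (Phi V5.P V5.D 1 (-1)) ⟨6, 10, 6, 30, 4, 6, 5, 20, 1, 1⟩ :=
  out_sound (S := T5.ds_pm) T5.ok_pm (w := 25) (j := 1) (by decide +kernel)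
theorem L00773 : Good (Phi V5.P V5.D 1 (-1)) ⟨6, 10, 6, 30, 4, 7, 6, 40, 2, 0⟩ :=
  leafYS_sound T5.ok_pm T5.Ypm.bz_eq (w := 259) (c := ⟨⟨.negSucc 8, .negSucc 13, .negSucc 0, .negSucc 6, .negSucc 12, .negSucc 1219⟩, ⟨.negSucc 2, .ofNat 7, .ofNat 15, .ofNat 3, .ofNat 5, .ofNat 583⟩, ⟨.negSucc 145, .ofNat 25, .negSucc 3, .negSucc 0, .ofNat 17, .ofNat 1270⟩, ⟨.negSucc 65, .negSucc 5, .negSucc 9, .negSucc 3, .negSucc 67, .negSucc 3683⟩, ⟨.negSucc 60, .ofNat 27, .negSucc 4, .ofNat 27, .negSucc 57, .negSucc 316⟩, .ofNat 1479, .ofNat 1569, .ofNat 0, .ofNat 1569, .ofNat 3239, .ofNat 0, .ofNat 128, .negSucc 137, .negSucc 66, .ofNat 0, .ofNat 117, .ofNat 37, .ofNat 0, .ofNat 0, .ofNat 267, .ofNat 1024, .ofNat 0, .ofNat 0, .ofNat 0, .ofNat 0, .ofNat 0, .ofNat 0, .ofNat 0, .ofNat 0, .ofNat 0, .ofNat 0, .ofNat 0, .ofNat 0, .ofNat 0, .ofNat 0, .ofNat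 0, .ofNat 0⟩)
    (by decide +kernel)
theorem L00774 : Good (Phi V5.P V5.D 1 (-1)) ⟨6, 10, 6, 30, 4, 7, 6, 40, 3, 2⟩ :=
  leafYS_sound T5.ok_pm T5.Ypm.bz_eq (w := 268) (c := ⟨⟨.negSucc 1178, .negSucc 9, .ofNat 1, .negSucc 20, .negSucc 1, .ofNat 77⟩, ⟨.ofNat 556, .ofNat 4, .ofNat 18, .ofNat 8, .ofNat 1, .negSucc 35⟩, ⟨.ofNat 1093, .ofNat 14, .ofNat 2, .ofNat 69, .ofNat 8, .ofNat 375⟩, ⟨.negSucc 3577, .negSucc 7, .negSucc 1, .negSucc 77, .negSucc 2, .ofNat 235⟩, ⟨.negSucc 326, .negSucc 2, .ofNat 0, .negSucc 35, .ofNat 2, .ofNat 27⟩, .ofNat 1473, .ofNat 1561, .ofNat 0, .ofNat 1561, .ofNat 3231, .ofNat 0, .ofNat 128, .negSucc 199, .negSucc 52, .ofNat 0, .ofNat 173, .ofNat 27, .ofNat 0, .ofNat 0, .ofNat 701, .ofNat 21789, .ofNat 0, .ofNat 0, .ofNat 0, .ofNat 0, .ofNat 0, .ofNat 0, .ofNat 0, .ofNat 0, .ofNat 0, .ofNat 0, .ofNat 0, .ofNat 0,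 .ofNat 0, .ofNat 0, .ofNat 0, .ofNat 0⟩)
    (by decide +kernel)
theorem L00775 : Good (Phi V5.P V5.D 1 (-1)) ⟨6, 10, 6, 30, 4, 7, 6, 40, 3, 3⟩ :=
  leafYS_sound T5.ok_pm T5.Ypm.bz_eq (w := 267) (c := ⟨⟨.negSucc 1109, .negSucc 9, .negSucc 1, .ofNat 2, .ofNat 2, .ofNat 148⟩, ⟨.ofNat 526, .ofNat 4, .ofNat 19, .negSucc 6, .negSucc 1, .negSucc 80⟩, ⟨.ofNat 1334, .ofNat 12, .negSucc 37, .ofNat 305, .ofNat 74, .ofNat 1101⟩, ⟨.negSucc 3350, .negSucc 8, .negSucc 5, .negSucc 33, .ofNat 1, .ofNat 369⟩, ⟨.negSucc 270, .negSucc 2, .ofNat 7, .negSucc 80, .negSucc 12, .negSucc 110⟩, .ofNat 1691, .ofNat 1911, .ofNat 0, .ofNat 1911, .ofNat 3833, .ofNat 0, .ofNat 128, .negSucc 238, .negSucc 23, .ofNat 0, .ofNat 208, .negSucc 15, .ofNat 0, .ofNat 0, .ofNat 5241, .ofNat 5201, .ofNat 0, .ofNat 0, .ofNat 0, .ofNat 0, .ofNat 47345853100711925618325356454091859185975385870446375206912,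 .ofNat 0, .ofNat 0, .ofNat 0, .ofNat 158222790104682892712295756530352655385838066984068642242560, .ofNat 0, .ofNat 0, .ofNat 0, .ofNat 2405820761808451070265273060587983917807673774105504438550528, .ofNat 6742329571897665519209301481370992769489435553011769278464, .ofNat 0, .ofNat 0⟩)
    (by decide +kernel)
theorem L00776 : Good (Phi V5.P V5.D 1 (-1)) ⟨6, 10, 6, 30, 4, 7, 6, 40, 1, 1⟩ :=
  out_sound (S := T5.ds_pm) T5.ok_pm (w := 26) (j := 1) (by decide +kernel)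
theorem L00777 : Good (Phi V5.P V5.D 1 (-1)) ⟨6, 10, 6, 30, 4, 7, 6, 41, 2, 0⟩ :=
  leafYS_sound T5.ok_pm T5.Ypm.bz_eq (w := 259) (c := ⟨⟨.negSucc 85, .ofNat 16, .ofNat 10, .negSucc 10, .ofNat 14, .negSucc 1176⟩, ⟨.ofNat 30, .negSucc 7, .ofNat 9, .ofNat 6, .negSucc 7, .ofNat 567⟩, ⟨.negSucc 85, .negSucc 5, .negSucc 4, .ofNat 1, .ofNat 12, .ofNat 1230⟩, ⟨.negSucc 276, .ofNat 53, .ofNat 22, .negSucc 40, .ofNat 26, .negSucc 3555⟩, ⟨.negSucc 53, .negSucc 11, .negSucc 1, .negSucc 9, .negSucc 23, .negSucc 313⟩, .ofNat 1666, .ofNat 1870, .ofNat 0, .ofNat 1870, .ofNat 3767, .ofNat 0, .ofNat 128, .negSucc 149, .negSucc 71, .ofNat 0, .ofNat 126, .ofNat 39, .ofNat 0, .ofNat 0, .ofNat 275, .ofNat 951, .ofNat 0, .ofNat 0, .ofNat 0, .ofNat 0, .ofNat 0, .ofNat 0, .ofNat 0, .ofNat 0, .ofNat 0, .ofNat 0, .ofNat 0, .ofNat 0, .ofNat 0, .ofNat 0, .ofNat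 0, .ofNat 0⟩)
    (by decide +kernel)
theorem L00778 : Good (Phi V5.P V5.D 1 (-1)) ⟨6, 10, 6, 30, 4, 7, 6, 41, 3, 2⟩ :=
  leafYS_sound T5.ok_pm T5.Ypm.bz_eq (w := 268) (c := ⟨⟨.negSucc 1176, .negSucc 11, .ofNat 1, .negSucc 21, .ofNat 0, .ofNat 74⟩, ⟨.ofNat 556, .ofNat 5, .ofNat 18, .ofNat 8, .ofNat 0, .negSucc 34⟩, ⟨.ofNat 1096, .ofNat 9, .ofNat 0, .ofNat 74, .ofNat 21, .ofNat 370⟩, ⟨.negSucc 3569, .negSucc 12, .negSucc 3, .negSucc 79, .negSucc 1, .ofNat 225⟩, ⟨.negSucc 321, .negSucc 2, .negSucc 0, .negSucc 35, .negSucc 0, .ofNat 25⟩, .ofNat 1664, .ofNat 1868, .ofNat 0, .ofNat 1868, .ofNat 3765, .ofNat 0, .ofNat 128, .negSucc 231, .negSucc 68, .ofNat 0, .ofNat 199, .ofNat 35, .ofNat 0, .ofNat 0, .ofNat 849, .ofNat 20078, .ofNat 0, .ofNat 0, .ofNat 0, .ofNat 0, .ofNat 0, .ofNat 0, .ofNat 0, .ofNat 0, .ofNat 0, .ofNat 0, .ofNat 0, .ofNat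 0, .ofNat 0, .ofNat 0, .ofNat 0, .ofNat 0⟩)
    (by decide +kernel)
theorem L00779 : Good (Phi V5.P V5.D 1 (-1)) ⟨6, 10, 6, 30, 4, 7, 6, 41, 3, 3⟩ :=
  leafYS_sound T5.ok_pm T5.Ypm.bz_eq (w := 266) (c := ⟨⟨.negSucc 1108, .negSucc 10, .ofNat 0, .ofNat 1, .negSucc 5, .ofNat 155⟩, ⟨.ofNat 525, .ofNat 5, .ofNat 18, .negSucc 5, .ofNat 3, .negSucc 85⟩, ⟨.ofNat 1375, .ofNat 8, .negSucc 9, .ofNat 293, .negSucc 20, .ofNat 1217⟩, ⟨.negSucc 3349, .negSucc 8, .negSucc 3, .negSucc 39, .negSucc 13, .ofNat 377⟩, ⟨.negSucc 271, .negSucc 2, .ofNat 4, .negSucc 86, .ofNat 5, .negSucc 145⟩, .ofNat 1201, .ofNat 1134, .ofNat 0, .ofNat 1134, .ofNat 2474, .ofNat 0, .ofNat 128, .negSucc 230, .ofNat 1, .ofNat 0, .ofNat 213, .negSucc 37, .ofNat 0, .ofNat 0, .ofNat 5252, .ofNat 4162, .ofNat 2003389130443851689491890064665230324721122895019515052032, .ofNat 0, .ofNat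 0, .ofNat 0, .ofNat 1149036389280430529073321129504136863296800092013276954624, .ofNat 89844229448318342373632793030479648795478514985064202240, .ofNat 0, .ofNat 0, .ofNat 85389352550190250273887051027900315584828960013715310116864, .ofNat 96790374352708798879509689676956425305562735500842762240, .ofNat 0, .ofNat 0, .ofNat 2445655874121943819157926875800324562576430703712390638206976, .ofNat 6963288545405987835782334408060995059001854707635465486336, .ofNat 0, .ofNat 0⟩)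
    (by decide +kernel)
theorem L00780 : Good (Phi V5.P V5.D 1 (-1)) ⟨6, 10, 6, 30, 4, 7, 6, 41, 1, 1⟩ :=
  out_sound (S := T5.ds_pm) T5.ok_pm (w := 26) (j := 1) (by decide +kernel)
theorem L00781 : Good (Phi V5.P V5.D 1 (-1)) ⟨6, 10, 6, 31, 4, 6, 5, 20, 2, 0⟩ :=
  leafYS_sound T5.ok_pm T5.Ypm.bz_eq (w := 255) (c := ⟨⟨.negSucc 62, .negSucc 61, .negSucc 4, .negSucc 26, .negSucc 33, .negSucc 1096⟩, ⟨.ofNat 18, .ofNat 31, .ofNat 17, .ofNat 11, .ofNat 16, .ofNat 550⟩, ⟨.negSucc 100, .ofNat 49, .negSucc 1, .ofNat 10, .ofNat 46, .ofNat 1198⟩, ⟨.negSucc 256, .negSucc 157, .negSucc 7, .negSucc 66, .negSucc 110, .negSucc 3285⟩, ⟨.negSucc 138, .ofNat 3, .ofNat 21, .ofNat 17, .negSucc 22, .negSucc 216⟩, .ofNat 1575, .ofNat 1715, .ofNat 0, .ofNat 1715, .ofNat 3435, .ofNat 0, .ofNat 128, .negSucc 163, .negSucc 82, .ofNat 0, .ofNat 137, .ofNat 45,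 .ofNat 0, .ofNat 0, .ofNat 311, .ofNat 968, .ofNat 0, .ofNat 0, .ofNat 0, .ofNat 0, .ofNat 0, .ofNat 0, .ofNat 0, .ofNat 0, .ofNat 0, .ofNat 0, .ofNat 0, .ofNat 0, .ofNat 0, .ofNat 0, .ofNat 0, .ofNat 0⟩)
    (by decide +kernel)
theorem L00782 : Good (Phi V5.P V5.D 1 (-1)) ⟨6, 10, 6, 31, 4, 6, 5, 20, 2, 1⟩ :=
  leafYS_sound T5.ok_pm T5.Ypm.bz_eq (w := 255) (c := ⟨⟨.negSucc 1163, .negSucc 10, .ofNat 1, .negSucc 13, .negSucc 0, .ofNat 172⟩, ⟨.ofNat 571, .ofNat 5, .ofNat 17, .ofNat 4, .ofNat 1, .negSucc 84⟩, ⟨.ofNat 1053, .ofNat 12, .ofNat 1, .ofNat 98, .ofNat 13, .ofNat 704⟩, ⟨.negSucc 3513, .negSucc 9, .negSucc 1, .negSucc 63, .negSucc 1, .ofNat 511⟩, ⟨.negSucc 273, .ofNat 0, .ofNat 0, .negSucc 47, .ofNat 1, .ofNat 31⟩, .ofNat 1251, .ofNat 1209, .ofNat 0, .ofNat 1209, .ofNat 2566, .ofNat 0, .ofNat 128, .negSucc 202, .negSucc 56, .ofNat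 0, .ofNat 183, .ofNat 27, .ofNat 0, .ofNat 0, .ofNat 1061, .ofNat 709, .ofNat 0, .ofNat 0, .ofNat 0, .ofNat 0, .ofNat 0, .ofNat 0, .ofNat 0, .ofNat 0, .ofNat 0, .ofNat 0, .ofNat 0, .ofNat 0, .ofNat 1730863888170069286307974040977433524982654376146974539776, .ofNat 0, .ofNat 0, .ofNat 0⟩)
    (by decide +kernel)
theorem L00783 : Good (Phi V5.P V5.D 1 (-1)) ⟨6, 10, 6, 31, 4, 6, 5, 20, 1, 1⟩ :=
  out_sound (S := T5.ds_pm) T5.ok_pm (w := 25) (j := 1) (by decide +kernel)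
theorem L00784 : Good (Phi V5.P V5.D 1 (-1)) ⟨6, 10, 6, 31, 5, 14, 5, 20, 2, 0⟩ :=
  leafYS_sound T5.ok_pm T5.Ypm.bz_eq (w := 269) (c := ⟨⟨.negSucc 61, .ofNat 8, .negSucc 1, .ofNat 7, .ofNat 4, .negSucc 1177⟩, ⟨.ofNat 19, .negSucc 1, .ofNat 15, .negSucc 1, .negSucc 2, .ofNat 585⟩, ⟨.negSucc 125, .ofNat 6, .ofNat 9, .ofNat 9, .ofNat 18, .ofNat 1244⟩, ⟨.negSucc 240, .ofNat 83, .negSucc 0, .ofNat 46, .ofNat 0, .negSucc 3576⟩, ⟨.negSucc 101, .ofNat 77, .ofNat 16, .ofNat 42, .negSucc 24, .negSucc 335⟩, .ofNat 1570, .ofNat 1707, .ofNat 0, .ofNat 1707, .ofNat 3423, .ofNat 0, .ofNat 128, .negSucc 159, .negSucc 79, .ofNat 0, .ofNat 133, .ofNat 44, .ofNat 0, .ofNat 0, .ofNat 291, .ofNat 1004, .ofNat 0, .ofNat 0, .ofNat 0, .ofNat 0, .ofNat 0, .ofNat 0, .ofNat 0, .ofNat 0, .ofNat 0, .ofNat 0, .ofNat 0, .ofNat 0, .ofNat 0, .ofNat 0, .ofNat 0, .ofNat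 0⟩)
    (by decide +kernel)
theorem L00785 : Good (Phi V5.P V5.D 1 (-1)) ⟨6, 10, 6, 31, 5, 14, 5, 20, 3, 2⟩ :=
  leafYS_sound T5.ok_pm T5.Ypm.bz_eq (w := 278) (c := ⟨⟨.negSucc 1176, .negSucc 8, .ofNat 2, .negSucc 8, .negSucc 0, .ofNat 72⟩, ⟨.ofNat 575, .ofNat 4, .ofNat 18, .ofNat 3, .ofNat 1, .negSucc 34⟩, ⟨.ofNat 1085, .ofNat 22, .ofNat 11, .ofNat 38, .ofNat 24, .ofNat 359⟩, ⟨.negSucc 3575, .negSucc 4, .ofNat 0, .negSucc 36, .negSucc 1, .ofNat 223⟩, ⟨.negSucc 322, .negSucc 3, .negSucc 1, .negSucc 19, .ofNat 1, .ofNat 29⟩, .ofNat 1259, .ofNat 1222, .ofNat 0, .ofNat 1222, .ofNat 2581, .ofNat 0, .ofNat 128, .negSucc 222, .negSucc 44, .ofNat 0, .ofNat 198, .ofNat 23, .ofNat 0, .ofNat 0, .ofNat 565, .ofNat 21483, .ofNat 0, .ofNat 0, .ofNat 0, .ofNat 0, .ofNat 0, .ofNat 0, .ofNat 0, .ofNat 0, .ofNat 0, .ofNat 0, .ofNat 0, .ofNat 0, .ofNat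 0, .ofNat 0, .ofNat 0, .ofNat 0⟩)
    (by decide +kernel)
theorem L00786 : Good (Phi V5.P V5.D 1 (-1)) ⟨6, 10, 6, 31, 5, 14, 5, 20, 3, 3⟩ :=
  leafYS_sound T5.ok_pm T5.Ypm.bz_eq (w := 278) (c := ⟨⟨.negSucc 1102, .negSucc 10, .ofNat 1, .negSucc 3, .negSucc 3, .ofNat 133⟩, ⟨.ofNat 540, .ofNat 4, .ofNat 17, .ofNat 0, .ofNat 2, .negSucc 72⟩, ⟨.ofNat 1412, .ofNat 12, .ofNat 8, .ofNat 97, .ofNat 29, .ofNat 906⟩, ⟨.negSucc 3339, .negSucc 9, .negSucc 2, .negSucc 24, .negSucc 12, .ofNat 341⟩, ⟨.negSucc 284, .negSucc 2, .negSucc 0, .negSucc 27, .negSucc 3, .negSucc 78⟩, .ofNat 1793, .ofNat 2064, .ofNat 0, .ofNat 2064, .ofNat 4035, .ofNat 0, .ofNat 128, .negSucc 259, .negSucc 33, .ofNat 0, .ofNat 222, .negSucc 1, .ofNat 0, .ofNat 0, .ofNat 4204, .ofNat 19402, .ofNat 0, .ofNat 0, .ofNat 0, .ofNat 0, .ofNat 0, .ofNat 0, .ofNat 0, .ofNat 0, .ofNat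 91085273038812434184788193374155313308660891635403063858036736, .ofNat 0, .ofNat 0, .ofNat 0, .ofNat 1871649561680811798548547018672718849728121786651553286554910720, .ofNat 0, .ofNat 0, .ofNat 0⟩)
    (by decide +kernel)
theorem L00787 : Good (Phi V5.P V5.D 1 (-1)) ⟨6, 10, 6, 31, 5, 14, 5, 20, 1, 1⟩ :=
  out_sound (S := T5.ds_pm) T5.ok_pm (w := 27) (j := 1) (by decide +kernel)
theorem L00788 : Good (Phi V5.P V5.D 1 (-1)) ⟨6, 10, 6, 31, 5, 15, 5, 20, 2, 0⟩ :=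
  leafYS_sound T5.ok_pm T5.Ypm.bz_eq (w := 269) (c := ⟨⟨.negSucc 21, .negSucc 9, .negSucc 21, .ofNat 3, .ofNat 13, .negSucc 1225⟩, ⟨.ofNat 2, .ofNat 8, .ofNat 22, .negSucc 1, .negSucc 4, .ofNat 605⟩, ⟨.negSucc 156, .ofNat 26, .negSucc 7, .ofNat 2, .ofNat 36, .ofNat 1279⟩, ⟨.negSucc 147, .ofNat 43, .negSucc 89, .ofNat 10, .ofNat 48, .negSucc 3683⟩, ⟨.negSucc 117, .ofNat 94, .negSucc 41, .negSucc 1, .ofNat 21, .negSucc 305⟩, .ofNat 1816, .ofNat 2100, .ofNat 0, .ofNat 2100, .ofNat 4096, .ofNat 0, .ofNat 128, .negSucc 163, .negSucc 73, .ofNat 0, .ofNat 134, .ofNat 41, .ofNat 0, .ofNat 0, .ofNat 274, .ofNat 1011, .ofNat 0, .ofNat 0, .ofNat 0, .ofNat 0, .ofNat 0, .ofNat 0, .ofNat 0, .ofNat 0, .ofNat 0, .ofNat 0, .ofNat 0, .ofNat 0, .ofNat 0, .ofNat 0, .ofNat 0, .ofNat 0⟩)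
    (by decide +kernel)
theorem L00789 : Good (Phi V5.P V5.D 1 (-1)) ⟨6, 10, 6, 31, 5, 15, 5, 20, 3, 2⟩ :=
  leafYS_sound T5.ok_pm T5.Ypm.bz_eq (w := 278) (c := ⟨⟨.negSucc 1188, .negSucc 12, .ofNat 3, .negSucc 10, .negSucc 1, .ofNat 77⟩, ⟨.ofNat 579, .ofNat 6, .ofNat 17, .ofNat 4, .ofNat 1, .negSucc 37⟩, ⟨.ofNat 1099, .ofNat 18, .ofNat 10, .ofNat 37, .ofNat 34, .ofNat 408⟩, ⟨.negSucc 3616, .negSucc 15, .ofNat 2, .negSucc 39, .negSucc 5, .ofNat 233⟩, ⟨.negSucc 337, .negSucc 2, .negSucc 1, .negSucc 16, .negSucc 1, .ofNat 21⟩, .ofNat 1251, .ofNat 1210, .ofNat 0, .ofNat 1210, .ofNat 2567, .ofNat 0, .ofNat 128, .negSucc 181, .negSucc 51, .ofNat 0, .ofNat 161, .ofNat 26, .ofNat 0, .ofNat 0, .ofNat 675, .ofNat 23391, .ofNat 0, .ofNat 0, .ofNat 0, .ofNat 0, .ofNat 0, .ofNat 0, .ofNat 0, .ofNat 0, .ofNat 0, .ofNat 0, .ofNat 0, .ofNat 0, .ofNat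 0, .ofNat 0, .ofNat 0, .ofNat 0⟩)
    (by decide +kernel)
theorem L00790 : Good (Phi V5.P V5.D 1 (-1)) ⟨6, 10, 6, 31, 5, 15, 5, 20, 3, 3⟩ :=
  leafYS_sound T5.ok_pm T5.Ypm.bz_eq (w := 277) (c := ⟨⟨.negSucc 1119, .negSucc 8, .ofNat 5, .ofNat 6, .negSucc 1, .ofNat 174⟩, ⟨.ofNat 549, .ofNat 4, .ofNat 14, .negSucc 6, .ofNat 0, .negSucc 99⟩, ⟨.ofNat 1349, .ofNat 30, .ofNat 65, .ofNat 207, .ofNat 75, .ofNat 1464⟩, ⟨.negSucc 3386, .negSucc 7, .ofNat 2, .negSucc 8, .negSucc 13, .ofNat 406⟩, ⟨.negSucc 276, .negSucc 7, .negSucc 11, .negSucc 53, .negSucc 17, .negSucc 186⟩, .ofNat 1570, .ofNat 1707, .ofNat 0, .ofNat 1707, .ofNat 3423, .ofNat 0, .ofNat 128, .negSucc 322, .ofNat 56, .ofNat 0, .ofNat 279, .negSucc 72, .ofNat 0, .ofNat 0, .ofNat 6630, .ofNat 6355, .ofNat 1247482295320872095671306833903008658482199866705068249055232, .ofNat 0, .ofNat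 0, .ofNat 0, .ofNat 12277106466154049989913541269432475843070361510834117776769024, .ofNat 51172008624334335990080620027456273106991759961315084337152, .ofNat 0, .ofNat 0, .ofNat 81525940951133578532169042883113458883837573423154007008870400, .ofNat 0, .ofNat 0, .ofNat 0, .ofNat 1963512660313063128395358621055425180189477482494441521858740224, .ofNat 13060018825243290168179122976054161725596796083288868481138688, .ofNat 0, .ofNat 0⟩)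
    (by decide +kernel)
theorem L00791 : Good (Phi V5.P V5.D 1 (-1)) ⟨6, 10, 6, 31, 5, 15, 5, 20, 1, 1⟩ :=
  out_sound (S := T5.ds_pm) T5.ok_pm (w := 27) (j := 1) (by decide +kernel)
theorem L00792 : Good (Phi V5.P V5.D 1 (-1)) ⟨6, 10, 5, 15, 2, 1, 5, 21, 2, 0⟩ :=
  leafYS_sound T5.ok_pm T5.Ypm.bz_eq (w := 223) (c := ⟨⟨.negSucc 286, .ofNat 20, .negSucc 34, .ofNat 12, .negSucc 0, .negSucc 887⟩, ⟨.ofNat 125, .negSucc 7, .ofNat 49, .negSucc 11, .negSucc 0, .ofNat 436⟩, ⟨.ofNat 105, .ofNat 15, .ofNat 40, .negSucc 38, .ofNat 0, .ofNat 1012⟩, ⟨.negSucc 897, .ofNat 119, .negSucc 58, .negSucc 33, .negSucc 17, .negSucc 2659⟩, ⟨.negSucc 120, .ofNat 80, .ofNat 100, .negSucc 133, .negSucc 32, .negSucc 183⟩, .ofNat 1502, .ofNat 1605, .ofNat 0, .ofNat 1605, .ofNat 3289, .ofNat 0, .ofNat 128, .negSucc 148, .negSucc 69, .ofNat 0, .ofNat 127, .ofNat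 38, .ofNat 0, .ofNat 0, .ofNat 280, .ofNat 643, .ofNat 0, .ofNat 0, .ofNat 0, .ofNat 0, .ofNat 0, .ofNat 0, .ofNat 0, .ofNat 0, .ofNat 0, .ofNat 0, .ofNat 0, .ofNat 0, .ofNat 0, .ofNat 0, .ofNat 0, .ofNat 0⟩)
    (by decide +kernel)
theorem L00793 : Good (Phi V5.P V5.D 1 (-1)) ⟨6, 10, 5, 15, 2, 1, 5, 21, 3, 2⟩ :=
  leafYS_sound T5.ok_pm T5.Ypm.bz_eq (w := 233) (c := ⟨⟨.negSucc 1108, .negSucc 9, .ofNat 6, .negSucc 79, .negSucc 1, .ofNat 55⟩, ⟨.ofNat 530, .ofNat 4, .ofNat 33, .ofNat 29, .ofNat 1, .negSucc 24⟩, ⟨.ofNat 1005, .ofNat 6, .ofNat 32, .ofNat 323, .negSucc 16, .ofNat 194⟩, ⟨.negSucc 3310, .negSucc 5, .ofNat 9, .negSucc 312, .negSucc 3, .ofNat 175⟩, ⟨.negSucc 198, .negSucc 1, .negSucc 1, .negSucc 163, .ofNat 4, .ofNat 36⟩, .ofNat 1663, .ofNat 1861, .ofNat 0, .ofNat 1861, .ofNat 3725, .ofNat 0, .ofNat 128, .negSucc 195, .negSucc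 111, .ofNat 0, .ofNat 169, .ofNat 58, .ofNat 0, .ofNat 0, .ofNat 1317, .ofNat 12056, .ofNat 0, .ofNat 0, .ofNat 0, .ofNat 0, .ofNat 0, .ofNat 0, .ofNat 0, .ofNat 0, .ofNat 0, .ofNat 0, .ofNat 0, .ofNat 0, .ofNat 0, .ofNat 0, .ofNat 0, .ofNat 0⟩)
    (by decide +kernel)
theorem L00794 : Good (Phi V5.P V5.D 1 (-1)) ⟨6, 10, 5, 15, 2, 1, 5, 21, 4, 6⟩ :=
  leafYS_sound T5.ok_pm T5.Ypm.bz_eq (w := 239) (c := ⟨⟨.negSucc 1051, .negSucc 11, .negSucc 0, .negSucc 51, .negSucc 5, .ofNat 47⟩, ⟨.ofNat 506, .ofNat 6, .ofNat 35, .ofNat 12, .ofNat 3, .negSucc 23⟩, ⟨.ofNat 1075, .negSucc 17, .ofNat 11, .ofNat 679, .negSucc 24, .ofNat 257⟩, ⟨.negSucc 3123, .negSucc 13, .negSucc 9, .negSucc 255, .negSucc 12, .ofNat 131⟩, ⟨.negSucc 149, .ofNat 0, .ofNat 0, .negSucc 211, .ofNat 7, .negSucc 11⟩, .ofNat 1607, .ofNat 1771, .ofNat 0, .ofNat 1771, .ofNat 3568,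 .ofNat 0, .ofNat 128, .negSucc 296, .negSucc 119, .ofNat 0, .ofNat 258, .ofNat 49, .ofNat 0, .ofNat 0, .ofNat 3625, .ofNat 21662, .ofNat 0, .ofNat 0, .ofNat 0, .ofNat 0, .ofNat 0, .ofNat 0, .ofNat 0, .ofNat 0, .ofNat 0, .ofNat 0, .ofNat 0, .ofNat 0, .ofNat 0, .ofNat 56014068027668811500741736166189960814977544617984, .ofNat 0, .ofNat 0⟩)
    (by decide +kernel)
theorem L00795 : Good (Phi V5.P V5.D 1 (-1)) ⟨6, 10, 5, 15, 2, 1, 5, 21, 4, 7⟩ :=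
  leafYS_sound T5.ok_pm T5.Ypm.bz_eq (w := 238) (c := ⟨⟨.negSucc 1045, .negSucc 12, .ofNat 7, .ofNat 9, .negSucc 5, .ofNat 95⟩, ⟨.ofNat 510, .ofNat 6, .ofNat 30, .negSucc 29, .ofNat 2, .negSucc 57⟩, ⟨.ofNat 665, .negSucc 8, .ofNat 103, .ofNat 1597, .ofNat 41, .ofNat 1041⟩, ⟨.negSucc 3044, .negSucc 17, .negSucc 1, .negSucc 165, .negSucc 20, .ofNat 190⟩, ⟨.negSucc 35, .negSucc 2, .negSucc 18, .negSucc 383, .negSucc 8, .negSucc 159⟩, .ofNat 1517, .ofNat 1628, .ofNat 0, .ofNat 1628, .ofNat 3318, .ofNat 0, .ofNat 128, .negSucc 265, .ofNat 58, .ofNat 0, .ofNat 233, .negSucc 66, .ofNat 0, .ofNat 0, .ofNat 4835, .ofNat 16863, .ofNat 0, .ofNat 0, .ofNat 0, .ofNat 0, .ofNat 1209783607395824618206849764840294459777957933088768, .ofNat 0, .ofNat 0, .ofNat 0, .ofNat 3662360222727813995166645360846586955779253093793792, .ofNat 1190996539805813123035163715705116799862896066560,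 .ofNat 0, .ofNat 0, .ofNat 31785810597223989222272679312380873204797905473372160, .ofNat 126960657854971261276044658108984049067132220080128, .ofNat 0, .ofNat 0⟩)
    (by decide +kernel)
theorem L00796 : Good (Phi V5.P V5.D 1 (-1)) ⟨6, 10, 5, 15, 2, 1, 5, 21, 1, 1⟩ :=
  out_sound (S := T5.ds_pm) T5.ok_pm (w := 21) (j := 1) (by decide +kernel)
theorem L00797 : Good (Phi V5.P V5.D 1 (-1)) ⟨6, 11, 5, 15, 2, 1, 5, 20, 2, 0⟩ :=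
  leafYS_sound T5.ok_pm T5.Ypm.bz_eq (w := 223) (c := ⟨⟨.negSucc 230, .negSucc 34, .ofNat 9, .ofNat 12, .ofNat 5, .negSucc 950⟩, ⟨.ofNat 98, .ofNat 19, .ofNat 21, .negSucc 10, .negSucc 0, .ofNat 467⟩, ⟨.ofNat 42, .ofNat 60, .negSucc 4, .negSucc 56, .ofNat 3, .ofNat 1090⟩, ⟨.negSucc 633, .negSucc 70, .negSucc 2, .negSucc 32, .negSucc 26, .negSucc 2864⟩, ⟨.ofNat 83, .ofNat 4, .negSucc 51, .negSucc 134, .negSucc 72, .negSucc 280⟩, .ofNat 1527, .ofNat 1660, .ofNat 0, .ofNat 1660, .ofNat 3388, .ofNat 0, .ofNat 128, .negSucc 158, .negSucc 77, .ofNat 0, .ofNat 134, .ofNat 42, .ofNat 0, .ofNat 0, .ofNat 290, .ofNat 580, .ofNat 0, .ofNat 0, .ofNat 0, .ofNat 0, .ofNat 0, .ofNat 0, .ofNat 0, .ofNat 0, .ofNat 0, .ofNat 0, .ofNat 0, .ofNat 0, .ofNat 0, .ofNat 0, .ofNat 0, .ofNat 0⟩)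
    (by decide +kernel)
theorem L00798 : Good (Phi V5.P V5.D 1 (-1)) ⟨6, 11, 5, 15, 2, 1, 5, 20, 3, 2⟩ :=
  leafYS_sound T5.ok_pm T5.Ypm.bz_eq (w := 233) (c := ⟨⟨.negSucc 1129, .negSucc 12, .ofNat 0, .negSucc 70, .ofNat 0, .ofNat 66⟩, ⟨.ofNat 540, .ofNat 5, .ofNat 35, .ofNat 25, .ofNat 0, .negSucc 30⟩, ⟨.ofNat 997, .ofNat 16, .ofNat 19, .ofNat 249, .ofNat 22, .ofNat 240⟩, ⟨.negSucc 3346, .negSucc 12, .negSucc 9, .negSucc 283, .ofNat 1, .ofNat 202⟩, ⟨.negSucc 196, .negSucc 2, .negSucc 3, .negSucc 161, .ofNat 0, .ofNat 29⟩, .ofNat 1687, .ofNat 1919, .ofNat 0, .ofNat 1919, .ofNat 3839, .ofNat 0, .ofNat 128, .negSucc 259, .negSucc 159, .ofNat 0, .ofNat 219, .ofNat 84, .ofNat 0, .ofNat 0, .ofNat 1727, .ofNat 18130, .ofNat 0, .ofNat 0, .ofNat 0, .ofNat 0, .ofNat 0, .ofNat 0, .ofNat 0, .ofNat 0, .ofNat 0, .ofNat 0, .ofNat 0, .ofNat 0, .ofNat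 0, .ofNat 0, .ofNat 0, .ofNat 0⟩)
    (by decide +kernel)
theorem L00799 : Good (Phi V5.P V5.D 1 (-1)) ⟨6, 11, 5, 15, 2, 1, 5, 20, 3, 3⟩ :=
  leafYS_sound T5.ok_pm T5.Ypm.bz_eq (w := 231) (c := ⟨⟨.negSucc 1068, .negSucc 7, .negSucc 0, .negSucc 45, .negSucc 3, .ofNat 108⟩, ⟨.ofNat 513, .ofNat 2, .ofNat 35, .ofNat 9, .ofNat 2, .negSucc 55⟩, ⟨.ofNat 1055, .ofNat 44, .negSucc 11, .ofNat 640, .ofNat 18, .ofNat 633⟩, ⟨.negSucc 3145, .negSucc 1, .negSucc 10, .negSucc 233, .negSucc 10, .ofNat 286⟩, ⟨.negSucc 145, .negSucc 9, .ofNat 5, .negSucc 207, .negSucc 0, .negSucc 44⟩, .ofNat 1690, .ofNat 1923, .ofNat 0, .ofNat 1923, .ofNat 3843, .ofNat 0, .ofNat 128, .negSucc 250, .negSucc 110, .ofNat 0, .ofNat 214, .ofNat 45, .ofNat 0, .ofNat 0, .ofNat 3820, .ofNat 4030, .ofNat 862242188056923897522060708086486683630834810880, .ofNat 0, .ofNat 0, .ofNat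 0, .ofNat 68769286812694484258475726244259831930491896856576, .ofNat 3955050541370295361965131943824316110915764224, .ofNat 0, .ofNat 0, .ofNat 188790557568872945147429397797994972683965470605312, .ofNat 191117200462527606790884798649664547315834159104, .ofNat 0, .ofNat 0, .ofNat 1398013502716053854912166602209055497780117886730240, .ofNat 6238371707482273202650212411219369589926583599104, .ofNat 0, .ofNat 0⟩)
    (by decide +kernel)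
theorem L00800 : Good (Phi V5.P V5.D 1 (-1)) ⟨6, 11, 5, 15, 2, 1, 5, 20, 1, 1⟩ :=
  out_sound (S := T5.ds_pm) T5.ok_pm (w := 21) (j := 1) (by decide +kernel)
theorem L00801 : Good (Phi V5.P V5.D 1 (-1)) ⟨6, 11, 5, 15, 2, 1, 5, 21, 2, 0⟩ :=
  leafYS_sound T5.ok_pm T5.Ypm.bz_eq (w := 223) (c := ⟨⟨.negSucc 272, .negSucc 45, .negSucc 1, .ofNat 42, .ofNat 33, .negSucc 930⟩, ⟨.ofNat 124, .ofNat 21, .ofNat 28, .negSucc 28, .negSucc 16, .ofNat 456⟩, ⟨.ofNat 100, .ofNat 61, .ofNat 2, .negSucc 51, .negSucc 14, .ofNat 1042⟩, ⟨.negSucc 779, .negSucc 132, .negSucc 2, .ofNat 77, .ofNat 88, .negSucc 2814⟩, ⟨.ofNat 0, .negSucc 53, .ofNat 12, .negSucc 87, .negSucc 8, .negSucc 251⟩, .ofNat 1230, .ofNat 1192, .ofNat 0, .ofNat 1192, .ofNat 2565, .ofNat 0, .ofNat 128, .negSucc 144, .negSucc 75, .ofNat 0, .ofNat 127, .ofNat 41, .ofNat 0, .ofNat 0, .ofNat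 288, .ofNat 604, .ofNat 0, .ofNat 0, .ofNat 0, .ofNat 0, .ofNat 0, .ofNat 0, .ofNat 0, .ofNat 0, .ofNat 0, .ofNat 0, .ofNat 0, .ofNat 0, .ofNat 0, .ofNat 0, .ofNat 0, .ofNat 0⟩)
    (by decide +kernel)
theorem L00802 : Good (Phi V5.P V5.D 1 (-1)) ⟨6, 11, 5, 15, 2, 1, 5, 21, 3, 2⟩ :=
  leafYS_sound T5.ok_pm T5.Ypm.bz_eq (w := 232) (c := ⟨⟨.negSucc 1118, .negSucc 12, .ofNat 2, .negSucc 81, .ofNat 2, .ofNat 58⟩, ⟨.ofNat 534, .ofNat 5, .ofNat 35, .ofNat 30, .negSucc 0, .negSucc 26⟩, ⟨.ofNat 1006, .ofNat 39, .negSucc 2, .ofNat 321, .negSucc 53, .ofNat 214⟩, ⟨.negSucc 3317, .negSucc 12, .negSucc 1, .negSucc 320, .ofNat 9, .ofNat 184⟩, ⟨.negSucc 199, .negSucc 1, .ofNat 0, .negSucc 174, .ofNat 5, .ofNat 36⟩, .ofNat 1224, .ofNat 1183, .ofNat 0, .ofNat 1183, .ofNat 2555, .ofNat 0, .ofNat 128, .negSucc 175, .negSucc 110, .ofNat 0, .ofNat 158, .ofNat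 56, .ofNat 0, .ofNat 0, .ofNat 1243, .ofNat 9814, .ofNat 0, .ofNat 0, .ofNat 0, .ofNat 0, .ofNat 0, .ofNat 0, .ofNat 0, .ofNat 0, .ofNat 0, .ofNat 0, .ofNat 0, .ofNat 0, .ofNat 0, .ofNat 0, .ofNat 0, .ofNat 0⟩)
    (by decide +kernel)
theorem L00803 : Good (Phi V5.P V5.D 1 (-1)) ⟨6, 11, 5, 15, 2, 1, 5, 21, 4, 6⟩ :=
  leafYS_sound T5.ok_pm T5.Ypm.bz_eq (w := 238) (c := ⟨⟨.negSucc 1062, .negSucc 11, .ofNat 2, .negSucc 54, .negSucc 4, .ofNat 46⟩, ⟨.ofNat 510, .ofNat 5, .ofNat 34, .ofNat 14, .ofNat 2, .negSucc 22⟩, ⟨.ofNat 1069, .ofNat 15, .ofNat 14, .ofNat 698, .ofNat 4, .ofNat 231⟩, ⟨.negSucc 3129, .negSucc 12, .negSucc 3, .negSucc 272, .negSucc 13, .ofNat 131⟩, ⟨.negSucc 144, .negSucc 1, .negSucc 0, .negSucc 231, .ofNat 1, .negSucc 5⟩, .ofNat 1006, .ofNat 856, .ofNat 0, .ofNat 856, .ofNat 1967, .ofNat 0, .ofNat 128, .negSucc 197, .negSucc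 89, .ofNat 0, .ofNat 192, .ofNat 31, .ofNat 0, .ofNat 0, .ofNat 2628, .ofNat 16267, .ofNat 0, .ofNat 0, .ofNat 0, .ofNat 0, .ofNat 0, .ofNat 0, .ofNat 0, .ofNat 0, .ofNat 0, .ofNat 0, .ofNat 0, .ofNat 0, .ofNat 0, .ofNat 29876633960072047232279961034815281624219549433856, .ofNat 0, .ofNat 0⟩)
    (by decide +kernel)
theorem L00804 : Good (Phi V5.P V5.D 1 (-1)) ⟨6, 11, 5, 15, 2, 1, 5, 21, 4, 7⟩ :=
  leafYS_sound T5.ok_pm T5.Ypm.bz_eq (w := 238) (c := ⟨⟨.negSucc 1050, .negSucc 12, .ofNat 2, .ofNat 7, .negSucc 6, .ofNat 82⟩, ⟨.ofNat 511, .ofNat 5, .ofNat 33, .negSucc 27, .ofNat 3, .negSucc 48⟩, ⟨.ofNat 725, .negSucc 3, .ofNat 45, .ofNat 1596, .ofNat 26, .ofNat 844⟩, ⟨.negSucc 3043, .negSucc 13, .negSucc 6, .negSucc 177, .negSucc 23, .ofNat 173⟩, ⟨.negSucc 38, .negSucc 1, .negSucc 4, .negSucc 398, .negSucc 6, .negSucc 126⟩, .ofNat 1226,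 .ofNat 1185, .ofNat 0, .ofNat 1185, .ofNat 2556, .ofNat 0, .ofNat 128, .negSucc 233, .ofNat 31, .ofNat 0, .ofNat 212, .negSucc 52, .ofNat 0, .ofNat 0, .ofNat 4629, .ofNat 15149, .ofNat 0, .ofNat 0, .ofNat 0, .ofNat 0, .ofNat 1012943782072171577623871256815491597155039073796096, .ofNat 369617592888264899480380879091143681290549592064, .ofNat 0, .ofNat 0, .ofNat 2930286518023384801007478028064417675336517846827008, .ofNat 2185897616377899814111242222769012684167260930048, .ofNat 0, .ofNat 0, .ofNat 26697824603222901359610463562165120401407418031931392, .ofNat 115597234810993211374594451314540377476478261002240, .ofNat 0, .ofNat 0⟩)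
    (by decide +kernel)
theorem L00805 : Good (Phi V5.P V5.D 1 (-1)) ⟨6, 11, 5, 15, 2, 1, 5, 21, 1, 1⟩ :=
  out_sound (S := T5.ds_pm) T5.ok_pm (w := 21) (j := 1) (by decide +kernel)
theorem L00806 : Good (Phi V5.P V5.D 1 (-1)) ⟨5, 4, 5, 15, 2, 1, 4, 11, 2, 0⟩ :=
  leafYS_sound T5.ok_pm T5.Ypm.bz_eq (w := 216) (c := ⟨⟨.negSucc 258, .negSucc 34, .negSucc 30, .ofNat 55, .negSucc 39, .negSucc 865⟩, ⟨.ofNat 110, .ofNat 19, .ofNat 46, .negSucc 33, .ofNat 22, .ofNat 427⟩, ⟨.ofNat 74, .ofNat 45, .ofNat 21, .negSucc 11, .ofNat 54, .ofNat 981⟩, ⟨.negSucc 822, .negSucc 39, .negSucc 86, .ofNat 115, .negSucc 105, .negSucc 2627⟩, ⟨.negSucc 98, .ofNat 61, .ofNat 27, .negSucc 92, .ofNat 18, .negSucc 206⟩, .ofNat 1672, .ofNat 1851, .ofNat 0, .ofNat 1851, .ofNat 3677, .ofNat 0, .ofNat 128, .negSucc 161, .negSucc 76, .ofNat 0, .ofNat 139, .ofNat 42, .ofNat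 0, .ofNat 0, .ofNat 306, .ofNat 668, .ofNat 0, .ofNat 0, .ofNat 0, .ofNat 0, .ofNat 0, .ofNat 0, .ofNat 0, .ofNat 0, .ofNat 0, .ofNat 0, .ofNat 0, .ofNat 0, .ofNat 0, .ofNat 0, .ofNat 0, .ofNat 0⟩)
    (by decide +kernel)
theorem L00807 : Good (Phi V5.P V5.D 1 (-1)) ⟨5, 4, 5, 15, 2, 1, 4, 11, 3, 2⟩ :=
  leafYS_sound T5.ok_pm T5.Ypm.bz_eq (w := 224) (c := ⟨⟨.negSucc 1067, .negSucc 17, .negSucc 1, .negSucc 98, .negSucc 3, .ofNat 40⟩, ⟨.ofNat 510, .ofNat 9, .ofNat 36, .ofNat 38, .ofNat 3, .negSucc 16⟩, ⟨.ofNat 886, .ofNat 58, .ofNat 28, .ofNat 396, .ofNat 15, .ofNat 210⟩, ⟨.negSucc 3227, .negSucc 17, .negSucc 15, .negSucc 370, .negSucc 5, .ofNat 138⟩, ⟨.negSucc 191, .negSucc 9, .negSucc 7, .negSucc 163, .ofNat 10, .ofNat 42⟩, .ofNat 1506, .ofNat 1591, .ofNat 0, .ofNat 1591, .ofNat 3239, .ofNat 0, .ofNat 128, .negSucc 207, .negSucc 137,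 .ofNat 0, .ofNat 182, .ofNat 70, .ofNat 0, .ofNat 0, .ofNat 1591, .ofNat 11366, .ofNat 0, .ofNat 0, .ofNat 0, .ofNat 0, .ofNat 0, .ofNat 0, .ofNat 0, .ofNat 0, .ofNat 0, .ofNat 0, .ofNat 0, .ofNat 0, .ofNat 0, .ofNat 0, .ofNat 0, .ofNat 0⟩)
    (by decide +kernel)
theorem L00808 : Good (Phi V5.P V5.D 1 (-1)) ⟨5, 4, 5, 15, 2, 1, 4, 11, 4, 6⟩ :=
  leafYS_sound T5.ok_pm T5.Ypm.bz_eq (w := 230) (c := ⟨⟨.negSucc 1030, .negSucc 18, .ofNat 1, .negSucc 58, .negSucc 13, .ofNat 43⟩, ⟨.ofNat 496, .ofNat 10, .ofNat 34, .ofNat 14, .ofNat 8, .negSucc 21⟩, ⟨.ofNat 995, .ofNat 44, .ofNat 9, .ofNat 784, .negSucc 35, .ofNat 238⟩, ⟨.negSucc 3090, .negSucc 25, .negSucc 5, .negSucc 282, .negSucc 34, .ofNat 118⟩, ⟨.negSucc 133, .negSucc 12, .negSucc 0, .negSucc 222, .ofNat 14, .negSucc 10⟩, .ofNat 1659, .ofNat 1830, .ofNat 0, .ofNat 1830, .ofNat 3646, .ofNat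 0, .ofNat 128, .negSucc 273, .negSucc 110, .ofNat 0, .ofNat 241, .ofNat 40, .ofNat 0, .ofNat 0, .ofNat 3713, .ofNat 13195, .ofNat 0, .ofNat 0, .ofNat 0, .ofNat 0, .ofNat 0, .ofNat 0, .ofNat 0, .ofNat 0, .ofNat 0, .ofNat 68653487934748527921698570591350846831026241536, .ofNat 0, .ofNat 0, .ofNat 0, .ofNat 969741815242268854266594998694774681138880315392, .ofNat 0, .ofNat 0⟩)
    (by decide +kernel)
theorem L00809 : Good (Phi V5.P V5.D 1 (-1)) ⟨5, 4, 5, 15, 2, 1, 4, 11, 4, 7⟩ :=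
  leafYS_sound T5.ok_pm T5.Ypm.bz_eq (w := 229) (c := ⟨⟨.negSucc 1000, .negSucc 15, .ofNat 1, .negSucc 26, .negSucc 17, .ofNat 48⟩, ⟨.ofNat 484, .ofNat 7, .ofNat 34, .negSucc 7, .ofNat 9, .negSucc 26⟩, ⟨.ofNat 950, .ofNat 58, .ofNat 30, .ofNat 1324, .negSucc 31, .ofNat 434⟩, ⟨.negSucc 2978, .negSucc 17, .negSucc 8, .negSucc 247, .negSucc 49, .ofNat 115⟩, ⟨.negSucc 80, .negSucc 18, .negSucc 4, .negSucc 340, .ofNat 7, .negSucc 55⟩, .ofNat 1010, .ofNat 838, .ofNat 0, .ofNat 838, .ofNat 1919, .ofNat 0, .ofNat 128, .negSucc 184, .ofNat 3, .ofNat 0, .ofNat 185, .negSucc 35, .ofNat 0, .ofNat 0, .ofNat 3221, .ofNat 4734, .ofNat 148108434379525439305521870705846380663368843264, .ofNat 1349218514710436537818939785238800130243559424, .ofNat 0, .ofNat 0, .ofNat 0, .ofNat 19939345520264038497177373305644140125294166016, .ofNat 0, .ofNat 0, .ofNat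 3660329614107806373778933801088686839078804520960, .ofNat 59477834452159102022869807789032024244026867712, .ofNat 0, .ofNat 0, .ofNat 76619819267014324444785128418258002637697859977216, .ofNat 987509108716033893227529647043759624574317101056, .ofNat 0, .ofNat 0⟩)
    (by decide +kernel)
theorem L00810 : Good (Phi V5.P V5.D 1 (-1)) ⟨5, 4, 5, 15, 3, 2, 4, 11, 4, 8⟩ :=
  out_sound (S := T5.ds_pm) T5.ok_pm (w := 28) (j := 1) (by decide +kernel)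
theorem L00811 : Good (Phi V5.P V5.D 1 (-1)) ⟨5, 4, 5, 15, 4, 6, 4, 11, 5, 16⟩ :=
  out_sound (S := T5.ds_pm) T5.ok_pm (w := 32) (j := 1) (by decide +kernel)
theorem L00812 : Good (Phi V5.P V5.D 1 (-1)) ⟨5, 4, 5, 15, 4, 7, 4, 11, 5, 16⟩ :=
  out_sound (S := T5.ds_pm) T5.ok_pm (w := 40) (j := 2) (by decide +kernel)
theorem L00813 : Good (Phi V5.P V5.D 1 (-1)) ⟨5, 4, 5, 15, 3, 3, 4, 11, 5, 17⟩ :=
  out_sound (S := T5.ds_pm) T5.ok_pm (w := 30) (j := 1) (by decide +kernel)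
theorem L00814 : Good (Phi V5.P V5.D 1 (-1)) ⟨5, 4, 5, 15, 2, 1, 4, 11, 4, 9⟩ :=
  out_sound (S := T5.ds_pm) T5.ok_pm (w := 26) (j := 1) (by decide +kernel)
theorem L00815 : Good (Phi V5.P V5.D 1 (-1)) ⟨5, 4, 5, 15, 2, 1, 4, 11, 3, 5⟩ :=
  out_sound (S := T5.ds_pm) T5.ok_pm (w := 24) (j := 1) (by decide +kernel)
theorem L00816 : Good (Phi V5.P V5.D 1 (-1)) ⟨5, 4, 5, 15, 2, 1, 4, 11, 2, 3⟩ :=
  out_sound (S := T5.ds_pm) T5.ok_pm (w := 22) (j := 1) (by decide +kernel)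
theorem L00817 : Good (Phi V5.P V5.D 1 (-1)) ⟨5, 5, 5, 15, 3, 2, 4, 11, 2, 0⟩ :=
  leafYS_sound T5.ok_pm T5.Ypm.bz_eq (w := 229) (c := ⟨⟨.negSucc 370, .ofNat 32, .ofNat 13, .ofNat 4, .negSucc 39, .negSucc 812⟩, ⟨.ofNat 162, .negSucc 16, .ofNat 25, .negSucc 6, .ofNat 19, .ofNat 406⟩, ⟨.ofNat 200, .negSucc 9, .negSucc 9, .ofNat 6, .ofNat 64, .ofNat 915⟩, ⟨.negSucc 1171, .ofNat 147, .ofNat 20, .negSucc 25, .negSucc 108, .negSucc 2369⟩, ⟨.negSucc 165, .ofNat 24, .negSucc 15, .negSucc 80, .ofNat 5, .negSucc 60⟩, .ofNat 1525, .ofNat 1648, .ofNat 0, .ofNat 1648, .ofNat 3359, .ofNat 0, .ofNat 128, .negSucc 149, .negSucc 84, .ofNat 0, .ofNat 129, .ofNat 45, .ofNat 0, .ofNat 0, .ofNat 321, .ofNat 650, .ofNat 0, .ofNat 0, .ofNat 0, .ofNat 0, .ofNat 0, .ofNat 0, .ofNat 0, .ofNat 0, .ofNat 0, .ofNat 0, .ofNat 0, .ofNat 0, .ofNat 0, .ofNat 0, .ofNat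 0, .ofNat 0⟩)
    (by decide +kernel)
theorem L00818 : Good (Phi V5.P V5.D 1 (-1)) ⟨5, 5, 5, 15, 3, 2, 4, 11, 2, 1⟩ :=
  leafYS_sound T5.ok_pm T5.Ypm.bz_eq (w := 232) (c := ⟨⟨.negSucc 1105, .negSucc 20, .ofNat 2, .negSucc 37, .negSucc 1, .ofNat 116⟩, ⟨.ofNat 531, .ofNat 8, .ofNat 33, .ofNat 14, .ofNat 2, .negSucc 54⟩, ⟨.ofNat 969, .ofNat 8, .ofNat 20, .ofNat 243, .negSucc 29, .ofNat 349⟩, ⟨.negSucc 3296, .negSucc 15, .ofNat 0, .negSucc 159, .ofNat 0, .ofNat 363⟩, ⟨.negSucc 183, .negSucc 4, .negSucc 1, .negSucc 96, .ofNat 11, .ofNat 57⟩, .ofNat 1229, .ofNat 1184, .ofNat 0, .ofNat 1184, .ofNat 2546, .ofNat 0, .ofNat 128, .negSucc 199, .negSucc 83, .ofNat 0, .ofNat 182, .ofNat 39, .ofNat 0, .ofNat 0, .ofNat 1238, .ofNat 3080, .ofNat 0, .ofNat 0, .ofNat 0, .ofNat 0, .ofNat 0, .ofNat 0, .ofNat 0, .ofNat 0, .ofNat 0, .ofNat 0, .ofNat 0, .ofNat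 0, .ofNat 369908246055822446253077732327546590301946818592768, .ofNat 0, .ofNat 0, .ofNat 0⟩)
    (by decide +kernel)
theorem L00819 : Good (Phi V5.P V5.D 1 (-1)) ⟨5, 5, 5, 15, 3, 2, 4, 11, 1, 1⟩ :=
  out_sound (S := T5.ds_pm) T5.ok_pm (w := 22) (j := 1) (by decide +kernel)
theorem L00820 : Good (Phi V5.P V5.D 1 (-1)) ⟨5, 5, 5, 15, 3, 3, 4, 11, 2, 0⟩ :=
  leafYS_sound T5.ok_pm T5.Ypm.bz_eq (w := 229) (c := ⟨⟨.negSucc 164, .negSucc 30, .ofNat 17, .negSucc 13, .negSucc 19, .negSucc 1033⟩, ⟨.ofNat 62, .ofNat 14, .ofNat 20, .ofNat 4, .ofNat 13, .ofNat 508⟩, ⟨.ofNat 25, .ofNat 37, .negSucc 2, .ofNat 35, .ofNat 55, .ofNat 1090⟩, ⟨.negSucc 489, .negSucc 86, .ofNat 78, .negSucc 54, .negSucc 66, .negSucc 3165⟩, ⟨.negSucc 15, .negSucc 78, .ofNat 62, .negSucc 40, .negSucc 2, .negSucc 337⟩, .ofNat 1233, .ofNat 1191, .ofNat 0, .ofNat 1191, .ofNat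 2555, .ofNat 0, .ofNat 129, .negSucc 127, .negSucc 71, .ofNat 0, .ofNat 112, .ofNat 39, .ofNat 0, .ofNat 0, .ofNat 261, .ofNat 823, .ofNat 0, .ofNat 0, .ofNat 0, .ofNat 0, .ofNat 0, .ofNat 0, .ofNat 0, .ofNat 0, .ofNat 0, .ofNat 0, .ofNat 0, .ofNat 0, .ofNat 0, .ofNat 0, .ofNat 0, .ofNat 0⟩)
    (by decide +kernel)
theorem L00821 : Good (Phi V5.P V5.D 1 (-1)) ⟨5, 5, 5, 15, 3, 3, 4, 11, 3, 2⟩ :=
  leafYS_sound T5.ok_pm T5.Ypm.bz_eq (w := 238) (c := ⟨⟨.negSucc 1138, .negSucc 20, .ofNat 4, .negSucc 51, .negSucc 14, .ofNat 52⟩, ⟨.ofNat 541, .ofNat 8, .ofNat 35, .ofNat 20, .ofNat 7, .negSucc 23⟩, ⟨.ofNat 990, .ofNat 50, .ofNat 31, .ofNat 245, .ofNat 65, .ofNat 352⟩, ⟨.negSucc 3432, .negSucc 14, .negSucc 3, .negSucc 194, .negSucc 43, .ofNat 160⟩, ⟨.negSucc 266, .negSucc 7, .negSucc 8, .negSucc 91, .negSucc 1, .ofNat 22⟩, .ofNat 1670, .ofNat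 1884, .ofNat 0, .ofNat 1884, .ofNat 3777, .ofNat 0, .ofNat 128, .negSucc 240, .negSucc 82, .ofNat 0, .ofNat 204, .ofNat 41, .ofNat 0, .ofNat 0, .ofNat 1093, .ofNat 9876, .ofNat 0, .ofNat 0, .ofNat 0, .ofNat 0, .ofNat 0, .ofNat 0, .ofNat 0, .ofNat 0, .ofNat 0, .ofNat 0, .ofNat 0, .ofNat 0, .ofNat 0, .ofNat 0, .ofNat 0, .ofNat 0⟩)
    (by decide +kernel)
theorem L00822 : Good (Phi V5.P V5.D 1 (-1)) ⟨5, 5, 5, 15, 3, 3, 4, 11, 4, 6⟩ :=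
  leafYS_sound T5.ok_pm T5.Ypm.bz_eq (w := 244) (c := ⟨⟨.negSucc 1094, .negSucc 25, .ofNat 2, .negSucc 13, .negSucc 19, .ofNat 62⟩, ⟨.ofNat 523, .ofNat 11, .ofNat 34, .negSucc 2, .ofNat 10, .negSucc 34⟩, ⟨.ofNat 1196, .ofNat 14, .ofNat 38, .ofNat 584, .ofNat 12, .ofNat 462⟩, ⟨.negSucc 3271, .negSucc 31, .negSucc 9, .negSucc 127, .negSucc 58, .ofNat 153⟩, ⟨.negSucc 202, .negSucc 6, .negSucc 9, .negSucc 171, .negSucc 2, .negSucc 51⟩, .ofNat 1231, .ofNat 1186, .ofNat 0, .ofNat 1186, .ofNat 2548, .ofNat 0, .ofNat 128, .negSucc 237, .negSucc 9, .ofNat 0, .ofNat 216, .negSucc 24, .ofNat 0, .ofNat 0, .ofNat 3666, .ofNat 17386, .ofNat 0, .ofNat 0, .ofNat 0, .ofNat 0, .ofNat 0, .ofNat 0, .ofNat 0, .ofNat 0, .ofNat 0, .ofNat 110957858927999729384108462956510094523746471641088, .ofNat 0, .ofNat 0, .ofNat 0, .ofNat 4324625648167100380253629491043138063506040552423424,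 .ofNat 0, .ofNat 0⟩)
    (by decide +kernel)
theorem L00823 : Good (Phi V5.P V5.D 1 (-1)) ⟨5, 5, 5, 15, 3, 3, 4, 11, 4, 7⟩ :=
  leafYS_sound T5.ok_pm T5.Ypm.bz_eq (w := 243) (c := ⟨⟨.negSucc 1053, .negSucc 19, .ofNat 7, .ofNat 19, .negSucc 23, .ofNat 83⟩, ⟨.ofNat 503, .ofNat 7, .ofNat 30, .negSucc 25, .ofNat 12, .negSucc 49⟩, ⟨.ofNat 1363, .ofNat 64, .ofNat 113, .ofNat 1069, .negSucc 49, .ofNat 870⟩, ⟨.negSucc 3154, .negSucc 20, .negSucc 1, .negSucc 72, .negSucc 63, .ofNat 167⟩, ⟨.negSucc 204, .negSucc 18, .negSucc 22, .negSucc 250, .ofNat 6, .negSucc 134⟩, .ofNat 1681, .ofNat 1899, .ofNat 0, .ofNat 1899, .ofNat 3794, .ofNat 0, .ofNat 128, .negSucc 260, .ofNat 148, .ofNat 0, .ofNat 225, .negSucc 126, .ofNat 0, .ofNat 0, .ofNat 5107, .ofNat 6845, .ofNat 0, .ofNat 11398400182890915569930419708106018239976283570176, .ofNat 0, .ofNat 0,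 .ofNat 0, .ofNat 94879618738602762957057595449036592816807640825856, .ofNat 0, .ofNat 0, .ofNat 0, .ofNat 421122340901184560989514084627887321875203768713216, .ofNat 0, .ofNat 0, .ofNat 0, .ofNat 12069025184000749436044589917175081036724196733878272, .ofNat 0, .ofNat 0⟩)
    (by decide +kernel)
theorem L00824 : Good (Phi V5.P V5.D 1 (-1)) ⟨5, 5, 5, 15, 4, 6, 4, 11, 5, 16⟩ :=
  out_sound (S := T5.ds_pm) T5.ok_pm (w := 32) (j := 1) (by decide +kernel)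
theorem L00825 : Good (Phi V5.P V5.D 1 (-1)) ⟨5, 5, 5, 15, 4, 7, 4, 11, 5, 16⟩ :=
  out_sound (S := T5.ds_pm) T5.ok_pm (w := 40) (j := 2) (by decide +kernel)
theorem L00826 : Good (Phi V5.P V5.D 1 (-1)) ⟨5, 5, 5, 15, 3, 3, 4, 11, 5, 17⟩ :=
  out_sound (S := T5.ds_pm) T5.ok_pm (w := 30) (j := 1) (by decide +kernel)
theorem L00827 : Good (Phi V5.P V5.D 1 (-1)) ⟨5, 5, 5, 15, 3, 3, 4, 11, 4, 9⟩ :=
  out_sound (S := T5.ds_pm) T5.ok_pm (w := 28) (j := 1) (by decide +kernel)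
theorem L00828 : Good (Phi V5.P V5.D 1 (-1)) ⟨5, 5, 5, 15, 3, 3, 4, 11, 3, 5⟩ :=
  out_sound (S := T5.ds_pm) T5.ok_pm (w := 26) (j := 1) (by decide +kernel)
theorem L00829 : Good (Phi V5.P V5.D 1 (-1)) ⟨5, 5, 5, 15, 3, 3, 4, 11, 2, 3⟩ :=
  out_sound (S := T5.ds_pm) T5.ok_pm (w := 24) (j := 1) (by decide +kernel)
theorem L00830 : Good (Phi V5.P V5.D 1 (-1)) ⟨4, 2, 3, 3, 1, 0, 3, 6, 2, 0⟩ :=
  leafYS_sound T5.ok_pm T5.Ypm.bz_eq (w := 187) (c := ⟨⟨.negSucc 618, .negSucc 71, .negSucc 9, .negSucc 77, .ofNat 83, .negSucc 395⟩, ⟨.ofNat 227, .ofNat 28, .ofNat 124, .ofNat 6, .negSucc 39, .ofNat 185⟩, ⟨.ofNat 462, .ofNat 99, .ofNat 17, .ofNat 251, .negSucc 104, .ofNat 361⟩, ⟨.negSucc 1801, .negSucc 107, .negSucc 22, .negSucc 326, .ofNat 259, .negSucc 1225⟩, ⟨.negSucc 24, .ofNat 57, .ofNat 29, .negSucc 254, .ofNat 39, .negSucc 69⟩, .ofNat 742,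 .ofNat 468, .ofNat 0, .ofNat 468, .ofNat 1317, .ofNat 0, .ofNat 183, .negSucc 105, .negSucc 111, .ofNat 0, .ofNat 128, .ofNat 49, .ofNat 0, .ofNat 0, .ofNat 410, .ofNat 363, .ofNat 0, .ofNat 0, .ofNat 0, .ofNat 0, .ofNat 0, .ofNat 0, .ofNat 0, .ofNat 0, .ofNat 0, .ofNat 0, .ofNat 0, .ofNat 0, .ofNat 0, .ofNat 0, .ofNat 0, .ofNat 0⟩)
    (by decide +kernel)
theorem L00831 : Good (Phi V5.P V5.D 1 (-1)) ⟨4, 2, 3, 3, 2, 0, 3, 6, 3, 2⟩ :=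
  leafYS_sound T5.ok_pm T5.Ypm.bz_eq (w := 209) (c := ⟨⟨.negSucc 998, .negSucc 42, .negSucc 1, .negSucc 82, .ofNat 55, .ofNat 33⟩, ⟨.ofNat 396, .ofNat 19, .ofNat 126, .ofNat 28, .negSucc 24, .negSucc 12⟩, ⟨.ofNat 792, .ofNat 46, .ofNat 34, .ofNat 307, .negSucc 202, .negSucc 105⟩, ⟨.negSucc 2939, .negSucc 48, .negSucc 3, .negSucc 291, .ofNat 167, .ofNat 93⟩, ⟨.negSucc 28, .ofNat 0, .ofNat 22, .negSucc 120, .ofNat 19, .ofNat 3⟩, .ofNat 1107, .ofNat 985, .ofNat 0, .ofNat 985, .ofNat 2288, .ofNat 0, .ofNat 128, .negSucc 140, .negSucc 75, .ofNat 0, .ofNat 139, .ofNat 35, .ofNat 0, .ofNat 0, .ofNat 632, .ofNat 4440, .ofNat 0, .ofNat 0, .ofNat 0, .ofNat 0, .ofNat 0, .ofNat 0, .ofNat 0, .ofNat 0, .ofNat 0, .ofNat 0, .ofNat 0, .ofNat 0, .ofNat 0, .ofNat 0, .ofNat 0, .ofNat 0⟩)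
    (by decide +kernel)
theorem L00832 : Good (Phi V5.P V5.D 1 (-1)) ⟨4, 2, 3, 3, 2, 1, 3, 6, 3, 2⟩ :=
  leafYS_sound T5.ok_pm T5.Ypm.bz_eq (w := 208) (c := ⟨⟨.negSucc 1047, .negSucc 46, .negSucc 0, .negSucc 123, .negSucc 22, .ofNat 23⟩, ⟨.ofNat 398, .ofNat 21, .ofNat 143, .ofNat 45, .ofNat 12, .negSucc 8⟩, ⟨.ofNat 889, .ofNat 57, .ofNat 45, .ofNat 514, .negSucc 54, .ofNat 153⟩, ⟨.negSucc 3153, .negSucc 57, .negSucc 30, .negSucc 443, .negSucc 43, .ofNat 91⟩, ⟨.negSucc 180, .negSucc 15, .negSucc 2, .negSucc 183, .ofNat 41, .ofNat 45⟩, .ofNat 743, .ofNat 470, .ofNat 0, .ofNat 470, .ofNat 1319, .ofNat 0, .ofNat 162, .negSucc 107, .negSucc 74, .ofNat 0, .ofNat 128, .ofNat 26, .ofNat 0, .ofNat 0, .ofNat 853, .ofNat 2177, .ofNat 0, .ofNat 0, .ofNat 0, .ofNat 0, .ofNat 0, .ofNat 0, .ofNat 0, .ofNat 0, .ofNat 0, .ofNat 0, .ofNat 0, .ofNat 0,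 .ofNat 0, .ofNat 1340507007832682652757173511894949014011904, .ofNat 0, .ofNat 0⟩)
    (by decide +kernel)
theorem L00833 : Good (Phi V5.P V5.D 1 (-1)) ⟨4, 2, 3, 3, 2, 0, 3, 6, 3, 3⟩ :=
  leafYS_sound T5.ok_pm T5.Ypm.bz_eq (w := 210) (c := ⟨⟨.negSucc 951, .negSucc 32, .negSucc 3, .negSucc 70, .ofNat 7, .negSucc 3⟩, ⟨.ofNat 375, .ofNat 15, .ofNat 125, .ofNat 25, .ofNat 0, .ofNat 6⟩, ⟨.ofNat 649, .ofNat 35, .ofNat 43, .ofNat 379, .negSucc 200, .negSucc 69⟩, ⟨.negSucc 2803, .negSucc 20, .negSucc 12, .negSucc 259, .ofNat 38, .ofNat 28⟩, ⟨.negSucc 24, .ofNat 1, .ofNat 9, .negSucc 117, .ofNat 38, .ofNat 80⟩, .ofNat 1073, .ofNat 931, .ofNat 0, .ofNat 931, .ofNat 2224, .ofNat 0, .ofNat 167, .negSucc 125, .negSucc 28, .ofNat 0, .ofNat 128, .ofNat 12, .ofNat 0, .ofNat 0, .ofNat 387, .ofNat 7672, .ofNat 0, .ofNat 0, .ofNat 0, .ofNat 0, .ofNat 0,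 .ofNat 0, .ofNat 0, .ofNat 0, .ofNat 0, .ofNat 0, .ofNat 0, .ofNat 0, .ofNat 3551043380195368525009683872548668707962880, .ofNat 0, .ofNat 0, .ofNat 0⟩)
    (by decide +kernel)
theorem L00834 : Good (Phi V5.P V5.D 1 (-1)) ⟨4, 2, 3, 3, 3, 2, 3, 6, 3, 3⟩ :=
  leafYS_sound T5.ok_pm T5.Ypm.bz_eq (w := 224) (c := ⟨⟨.negSucc 1024, .negSucc 46, .ofNat 10, .negSucc 49, .negSucc 48, .ofNat 42⟩, ⟨.ofNat 394, .ofNat 20, .ofNat 130, .ofNat 17, .ofNat 27, .negSucc 18⟩, ⟨.ofNat 890, .ofNat 29, .ofNat 126, .ofNat 416, .negSucc 102, .ofNat 98⟩, ⟨.negSucc 3053, .negSucc 60, .ofNat 2, .negSucc 199, .negSucc 113, .ofNat 135⟩, ⟨.negSucc 107, .negSucc 17, .negSucc 19, .negSucc 114, .ofNat 56, .ofNat 25⟩, .ofNat 753, .ofNat 488, .ofNat 0, .ofNat 488, .ofNat 1335, .ofNat 0, .ofNat 172, .negSucc 107, .negSucc 47, .ofNat 0, .ofNat 128, .ofNat 3, .ofNat 0, .ofNat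 0, .ofNat 1323, .ofNat 6762, .ofNat 0, .ofNat 0, .ofNat 0, .ofNat 0, .ofNat 0, .ofNat 0, .ofNat 0, .ofNat 0, .ofNat 0, .ofNat 0, .ofNat 0, .ofNat 0, .ofNat 427164569779858287216083058195240872839921795072, .ofNat 7885116884992261191300074733624153900297748480, .ofNat 0, .ofNat 0⟩)
    (by decide +kernel)
theorem L00835 : Good (Phi V5.P V5.D 1 (-1)) ⟨4, 2, 3, 3, 3, 3, 3, 6, 4, 6⟩ :=
  leafYS_sound T5.ok_pm T5.Ypm.bz_eq (w := 229) (c := ⟨⟨.negSucc 1084, .negSucc 47, .ofNat 11, .negSucc 35, .negSucc 66, .ofNat 51⟩, ⟨.ofNat 413, .ofNat 21, .ofNat 136, .ofNat 6, .ofNat 34, .negSucc 27⟩, ⟨.ofNat 1091, .ofNat 48, .ofNat 191, .ofNat 578, .negSucc 30, .ofNat 331⟩, ⟨.negSucc 3247, .negSucc 64, .negSucc 18, .negSucc 176, .negSucc 177, .ofNat 123⟩, ⟨.negSucc 171, .negSucc 27, .negSucc 40, .negSucc 151, .ofNat 34, .negSucc 43⟩, .ofNat 1106, .ofNat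 986, .ofNat 0, .ofNat 986, .ofNat 2293, .ofNat 0, .ofNat 139, .negSucc 127, .negSucc 5, .ofNat 0, .ofNat 124, .negSucc 17, .ofNat 0, .ofNat 0, .ofNat 1750, .ofNat 5568, .ofNat 0, .ofNat 0, .ofNat 0, .ofNat 0, .ofNat 0, .ofNat 0, .ofNat 0, .ofNat 0, .ofNat 0, .ofNat 28283314434082907954344289022631482107889713152, .ofNat 0, .ofNat 0, .ofNat 0, .ofNat 313548774787471019621115019483600920371162775552, .ofNat 0, .ofNat 0⟩)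
    (by decide +kernel)
theorem L00836 : Good (Phi V5.P V5.D 1 (-1)) ⟨4, 2, 3, 3, 3, 3, 3, 6, 4, 7⟩ :=
  leafYS_sound T5.ok_pm T5.Ypm.bz_eq (w := 228) (c := ⟨⟨.negSucc 1050, .negSucc 43, .ofNat 13, .ofNat 3, .negSucc 59, .ofNat 55⟩, ⟨.ofNat 401, .ofNat 19, .ofNat 128, .negSucc 18, .ofNat 30, .negSucc 31⟩, ⟨.ofNat 1251, .ofNat 58, .ofNat 265, .ofNat 972, .negSucc 119, .ofNat 449⟩, ⟨.negSucc 3146, .negSucc 61, .negSucc 18, .negSucc 117, .negSucc 159, .ofNat 119⟩, ⟨.negSucc 167, .negSucc 33, .negSucc 52, .negSucc 254, .ofNat 31, .negSucc 71⟩, .ofNat 743, .ofNat 471, .ofNat 0, .ofNat 471, .ofNat 1318, .ofNat 0, .ofNat 128, .negSucc 114, .ofNat 107, .ofNat 0, .ofNat 140, .negSucc 109, .ofNat 0, .ofNat 0, .ofNat 2275, .ofNat 3694, .ofNat 0, .ofNat 2365826308471824264474200373727970395861024768, .ofNat 0, .ofNat 0, .ofNat 0, .ofNat 15708971585997067288582697732591089206742220800,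 .ofNat 0, .ofNat 0, .ofNat 0, .ofNat 41393093341411337539966542148202911639571267584, .ofNat 0, .ofNat 0, .ofNat 0, .ofNat 856218220495917273605769357699309140017816797184, .ofNat 0, .ofNat 0⟩)
    (by decide +kernel)
theorem L00837 : Good (Phi V5.P V5.D 1 (-1)) ⟨4, 2, 3, 3, 2, 0, 3, 6, 3, 4⟩ :=
  out_sound (S := T5.ds_pm) T5.ok_pm (w := 23) (j := 1) (by decide +kernel)
theorem L00838 : Good (Phi V5.P V5.D 1 (-1)) ⟨4, 2, 3, 3, 3, 2, 4, 12, 5, 16⟩ :=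
  out_sound (S := T5.ds_pm) T5.ok_pm (w := 30) (j := 1) (by decide +kernel)
theorem L00839 : Good (Phi V5.P V5.D 1 (-1)) ⟨4, 2, 3, 3, 4, 4, 4, 13, 6, 32⟩ :=
  out_sound (S := T5.ds_pm) T5.ok_pm (w := 34) (j := 1) (by decide +kernel)
theorem L00840 : Good (Phi V5.P V5.D 1 (-1)) ⟨4, 2, 3, 3, 4, 5, 5, 26, 6, 32⟩ :=
  out_sound (S := T5.ds_pm) T5.ok_pm (w := 35) (j := 1) (by decide +kernel)
theorem L00841 : Good (Phi V5.P V5.D 1 (-1)) ⟨4, 2, 3, 3, 5, 10, 5, 27, 6, 32⟩ :=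
  out_sound (S := T5.ds_pm) T5.ok_pm (w := 37) (j := 1) (by decide +kernel)
theorem L00842 : Good (Phi V5.P V5.D 1 (-1)) ⟨4, 2, 3, 3, 5, 11, 5, 27, 6, 32⟩ :=
  out_sound (S := T5.ds_pm) T5.ok_pm (w := 46) (j := 2) (by decide +kernel)
theorem L00843 : Good (Phi V5.P V5.D 1 (-1)) ⟨4, 2, 3, 3, 3, 2, 4, 13, 6, 33⟩ :=
  out_sound (S := T5.ds_pm) T5.ok_pm (w := 32) (j := 1) (by decide +kernel)
theorem L00844 : Good (Phi V5.P V5.D 1 (-1)) ⟨4, 2, 3, 3, 3, 2, 3, 6, 5, 17⟩ :=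
  out_sound (S := T5.ds_pm) T5.ok_pm (w := 29) (j := 1) (by decide +kernel)
theorem L00845 : Good (Phi V5.P V5.D 1 (-1)) ⟨4, 2, 3, 3, 4, 6, 5, 24, 6, 32⟩ :=
  out_sound (S := T5.ds_pm) T5.ok_pm (w := 35) (j := 1) (by decide +kernel)
theorem L00846 : Good (Phi V5.P V5.D 1 (-1)) ⟨4, 2, 3, 3, 4, 6, 5, 25, 6, 32⟩ :=
  out_sound (S := T5.ds_pm) T5.ok_pm (w := 44) (j := 2) (by decide +kernel)
theorem L00847 : Good (Phi V5.P V5.D 1 (-1)) ⟨4, 2, 3, 3, 4, 6, 4, 12, 6, 33⟩ :=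
  out_sound (S := T5.ds_pm) T5.ok_pm (w := 34) (j := 1) (by decide +kernel)
theorem L00848 : Good (Phi V5.P V5.D 1 (-1)) ⟨4, 2, 3, 3, 4, 6, 4, 12, 5, 17⟩ :=
  out_sound (S := T5.ds_pm) T5.ok_pm (w := 32) (j := 1) (by decide +kernel)
theorem L00849 : Good (Phi V5.P V5.D 1 (-1)) ⟨4, 2, 3, 3, 4, 6, 4, 13, 4, 8⟩ :=
  out_sound (S := T5.ds_pm) T5.ok_pm (w := 38) (j := 2) (by decide +kernel)
theorem L00850 : Good (Phi V5.P V5.D 1 (-1)) ⟨4, 2, 3, 3, 4, 7, 3, 6, 4, 8⟩ :=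
  out_sound (S := T5.ds_pm) T5.ok_pm (w := 36) (j := 2) (by decide +kernel)
theorem L00851 : Good (Phi V5.P V5.D 1 (-1)) ⟨4, 2, 3, 3, 2, 1, 3, 6, 4, 9⟩ :=
  out_sound (S := T5.ds_pm) T5.ok_pm (w := 25) (j := 1) (by decide +kernel)
theorem L00852 : Good (Phi V5.P V5.D 1 (-1)) ⟨4, 2, 3, 3, 1, 0, 3, 6, 3, 5⟩ :=
  out_sound (S := T5.ds_pm) T5.ok_pm (w := 21) (j := 1) (by decide +kernel)
theorem L00853 : Good (Phi V5.P V5.D 1 (-1)) ⟨4, 2, 3, 3, 1, 0, 3, 6, 2, 3⟩ :=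
  out_sound (S := T5.ds_pm) T5.ok_pm (w := 19) (j := 1) (by decide +kernel)
theorem L00854 : Good (Phi V5.P V5.D 1 (-1)) ⟨4, 2, 3, 3, 1, 0, 3, 7, 3, 0⟩ :=
  leafYS_sound T5.ok_pm T5.Ypm.bz_eq (w := 193) (c := ⟨⟨.negSucc 455, .ofNat 69, .negSucc 3, .negSucc 30, .ofNat 282, .negSucc 323⟩, ⟨.ofNat 177, .negSucc 31, .ofNat 65, .ofNat 5, .negSucc 132, .ofNat 141⟩, ⟨.ofNat 303, .negSucc 84, .ofNat 23, .ofNat 320, .negSucc 248, .ofNat 167⟩, ⟨.negSucc 1384, .ofNat 275, .ofNat 31, .negSucc 122, .ofNat 784, .negSucc 984⟩, ⟨.negSucc 139, .ofNat 98, .ofNat 120, .negSucc 56, .negSucc 47, .negSucc 115⟩, .ofNat 1106, .ofNat 983, .ofNat 0, .ofNat 983, .ofNat 2287, .ofNat 0, .ofNat 129, .negSucc 127, .negSucc 257, .ofNat 0, .ofNat 125, .ofNat 123, .ofNat 0, .ofNat 0, .ofNat 629, .ofNat 839, .ofNat 0, .ofNat 0, .ofNat 0, .ofNat 0, .ofNat 0, .ofNat 2628029341878031159133785433594396672,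 .ofNat 0, .ofNat 0, .ofNat 0, .ofNat 0, .ofNat 0, .ofNat 0, .ofNat 0, .ofNat 0, .ofNat 0, .ofNat 0⟩)
    (by decide +kernel)
theorem L00855 : Good (Phi V5.P V5.D 1 (-1)) ⟨4, 2, 3, 3, 1, 0, 3, 7, 3, 1⟩ :=
  leafYS_sound T5.ok_pm T5.Ypm.bz_eq (w := 193) (c := ⟨⟨.negSucc 689, .negSucc 64, .negSucc 1, .negSucc 353, .ofNat 302, .negSucc 235⟩, ⟨.ofNat 263, .ofNat 29, .ofNat 101, .ofNat 146, .negSucc 141, .ofNat 116⟩, ⟨.ofNat 414, .ofNat 94, .ofNat 20, .ofNat 758, .negSucc 410, .ofNat 174⟩, ⟨.negSucc 2046, .negSucc 136, .ofNat 0, .negSucc 1188, .ofNat 898, .negSucc 663⟩, ⟨.negSucc 38, .negSucc 24, .ofNat 24, .negSucc 366, .ofNat 16, .ofNat 56⟩, .ofNat 751, .ofNat 483, .ofNat 0, .ofNat 483, .ofNat 1330, .ofNat 0, .ofNat 178, .negSucc 108, .negSucc 137, .ofNat 0, .ofNat 128, .ofNat 60, .ofNat 0, .ofNat 0, .ofNat 496, .ofNat 623, .ofNat 0, .ofNat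 0, .ofNat 0, .ofNat 0, .ofNat 0, .ofNat 75233711922360282815274342647255269376, .ofNat 0, .ofNat 0, .ofNat 0, .ofNat 60404679174819127318468117303652253696, .ofNat 0, .ofNat 0, .ofNat 0, .ofNat 83963839219188170749020856459808735232, .ofNat 0, .ofNat 0⟩)
    (by decide +kernel)
theorem L00856 : Good (Phi V5.P V5.D 1 (-1)) ⟨4, 2, 3, 3, 1, 0, 3, 7, 3, 2⟩ :=
  leafYS_sound T5.ok_pm T5.Ypm.bz_eq (w := 193) (c := ⟨⟨.negSucc 865, .negSucc 7, .ofNat 4, .negSucc 354, .ofNat 124, .negSucc 71⟩, ⟨.ofNat 332, .ofNat 7, .ofNat 118, .ofNat 147, .negSucc 53, .ofNat 43⟩, ⟨.ofNat 504, .ofNat 33, .ofNat 23, .ofNat 934, .negSucc 313, .negSucc 51⟩, ⟨.negSucc 2580, .ofNat 56, .ofNat 24, .negSucc 1107, .ofNat 387, .negSucc 181⟩, ⟨.negSucc 80, .ofNat 17, .ofNat 43, .negSucc 184, .ofNat 53, .ofNat 62⟩, .ofNat 935, .ofNat 732, .ofNat 0, .ofNat 732, .ofNat 1814,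 .ofNat 0, .ofNat 188, .negSucc 121, .negSucc 83, .ofNat 0, .ofNat 128, .ofNat 35, .ofNat 0, .ofNat 0, .ofNat 577, .ofNat 787, .ofNat 0, .ofNat 0, .ofNat 0, .ofNat 0, .ofNat 0, .ofNat 152331499590201305361296386484122681344, .ofNat 0, .ofNat 0, .ofNat 0, .ofNat 140407709956469156978687409048738856960, .ofNat 0, .ofNat 0, .ofNat 0, .ofNat 242001029635881665543656981711942582272, .ofNat 0, .ofNat 0⟩)
    (by decide +kernel)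
theorem L00857 : Good (Phi V5.P V5.D 1 (-1)) ⟨4, 2, 3, 3, 2, 0, 3, 7, 3, 3⟩ :=
  leafYS_sound T5.ok_pm T5.Ypm.bz_eq (w := 209) (c := ⟨⟨.negSucc 863, .negSucc 56, .negSucc 13, .negSucc 185, .negSucc 13, .negSucc 32⟩, ⟨.ofNat 336, .ofNat 24, .ofNat 128, .ofNat 85, .ofNat 14, .ofNat 19⟩, ⟨.ofNat 400, .ofNat 60, .ofNat 47, .ofNat 447, .negSucc 188, .negSucc 96⟩, ⟨.negSucc 2552, .negSucc 91, .negSucc 37, .negSucc 548, .negSucc 6, .negSucc 68⟩, ⟨.negSucc 15, .negSucc 13, .negSucc 0, .negSucc 22, .ofNat 68, .ofNat 67⟩, .ofNat 743, .ofNat 471, .ofNat 0, .ofNat 471, .ofNat 1318, .ofNat 0, .ofNat 173, .negSucc 103, .negSucc 65, .ofNat 0, .ofNat 128, .ofNat 21, .ofNat 0, .ofNat 0, .ofNat 599, .ofNat 3509, .ofNat 0, .ofNat 0, .ofNat 0, .ofNat 0, .ofNat 0, .ofNat 892320793748533615526567271510579666223104, .ofNat 0, .ofNat 0, .ofNat 0, .ofNat 788482546629352926082462225898065478287360,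 .ofNat 0, .ofNat 0, .ofNat 0, .ofNat 0, .ofNat 0, .ofNat 0⟩)
    (by decide +kernel)
theorem L00858 : Good (Phi V5.P V5.D 1 (-1)) ⟨4, 2, 3, 3, 2, 1, 3, 7, 3, 3⟩ :=
  leafYS_sound T5.ok_pm T5.Ypm.bz_eq (w := 209) (c := ⟨⟨.negSucc 1036, .negSucc 54, .negSucc 3, .negSucc 175, .negSucc 106, .ofNat 1⟩, ⟨.ofNat 404, .ofNat 22, .ofNat 138, .ofNat 67, .ofNat 57, .ofNat 5⟩, ⟨.ofNat 851, .ofNat 41, .ofNat 96, .ofNat 730, .negSucc 166, .negSucc 110⟩, ⟨.negSucc 3081, .negSucc 80, .negSucc 30, .negSucc 566, .negSucc 244, .ofNat 42⟩, ⟨.negSucc 74, .negSucc 23, .negSucc 20, .negSucc 141, .ofNat 123, .ofNat 83⟩, .ofNat 1094, .ofNat 967, .ofNat 0, .ofNat 967, .ofNat 2271, .ofNat 0, .ofNat 185, .negSucc 127, .negSucc 36, .ofNat 0, .ofNat 126, .ofNat 6, .ofNat 0, .ofNat 0, .ofNat 865, .ofNat 3888, .ofNat 0, .ofNat 61829966446077521723814933353259075633152,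 .ofNat 0, .ofNat 0, .ofNat 0, .ofNat 1368647011313753535622583349367701292187648, .ofNat 0, .ofNat 0, .ofNat 0, .ofNat 1597263848435974695866414691748011105583104, .ofNat 0, .ofNat 0, .ofNat 0, .ofNat 4476799478907595838711701131857318509543424, .ofNat 0, .ofNat 0⟩)
    (by decide +kernel)
theorem L00859 : Good (Phi V5.P V5.D 1 (-1)) ⟨4, 2, 3, 3, 1, 0, 3, 7, 1, 1⟩ :=
  leafYS_sound T5.ok_pm T5.Ypm.bz_eq (w := 194) (c := ⟨⟨.negSucc 984, .negSucc 31, .ofNat 0, .ofNat 1, .negSucc 0, .ofNat 1⟩, ⟨.ofNat 394, .ofNat 13, .ofNat 121, .ofNat 0, .ofNat 0, .ofNat 0⟩, ⟨.ofNat 288, .ofNat 32, .ofNat 0, .ofNat 0, .ofNat 0, .ofNat 0⟩, ⟨.negSucc 2893, .negSucc 13, .ofNat 0, .ofNat 1, .negSucc 0, .ofNat 1⟩, ⟨.ofNat 0, .ofNat 0, .ofNat 0, .ofNat 0, .ofNat 0, .ofNat 0⟩, .ofNat 193, .ofNat 26, .ofNat 0, .ofNat 26, .ofNat 226, .ofNat 0, .ofNat 141, .negSucc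 25, .negSucc 103, .ofNat 0, .ofNat 128, .ofNat 17, .ofNat 0, .ofNat 0, .ofNat 301, .ofNat 10515, .ofNat 4791594484506747171325828284599500800000000, .ofNat 48077238870297879241543263242749929848832, .ofNat 0, .ofNat 0, .ofNat 306662047008431818964853010214368051200000000, .ofNat 3076886356293663445457247405158206997004288, .ofNat 0, .ofNat 0, .ofNat 306662047008431818964853010214368051200000000, .ofNat 3076883451908384828948084789577677780549632, .ofNat 0, .ofNat 0, .ofNat 306662047008431818964853010214368051200000000, .ofNat 3076885947278591378217661635837937563205632, .ofNat 0, .ofNat 0⟩)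
    (by decide +kernel)
theorem L00860 : Good (Phi V5.P V5.D 1 (-1)) ⟨4, 3, 3, 3, 1, 0, 2, 2, 3, 0⟩ :=
  leafYS_sound T5.ok_pm T5.Ypm.bz_eq (w := 189) (c := ⟨⟨.ofNat 35, .ofNat 97, .negSucc 7, .ofNat 447, .negSucc 161, .negSucc 1253⟩, ⟨.negSucc 36, .negSucc 62, .ofNat 68, .negSucc 212, .ofNat 83, .ofNat 552⟩, ⟨.negSucc 139, .negSucc 119, .negSucc 10, .negSucc 455, .ofNat 255, .ofNat 1194⟩, ⟨.ofNat 179, .ofNat 280, .negSucc 57, .ofNat 1281, .negSucc 524, .negSucc 3597⟩, ⟨.ofNat 248, .negSucc 124, .negSucc 93, .ofNat 92, .negSucc 124, .negSucc 209⟩, .ofNat 1109, .ofNat 1048, .ofNat 0, .ofNat 1048, .ofNat 2459, .ofNat 0, .ofNat 157, .negSucc 127, .negSucc 165, .ofNat 0, .ofNat 115, .ofNat 79, .ofNat 0, .ofNat 0, .ofNat 453, .ofNat 605, .ofNat 0, .ofNat 0, .ofNat 0, .ofNat 0, .ofNat 0, .ofNat 0, .ofNat 0, .ofNat 0, .ofNat 0, .ofNat 0, .ofNat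 0, .ofNat 0, .ofNat 0, .ofNat 0, .ofNat 0, .ofNat 0⟩)
    (by decide +kernel)
theorem L00861 : Good (Phi V5.P V5.D 1 (-1)) ⟨4, 3, 3, 3, 1, 0, 2, 3, 3, 0⟩ :=
  leafYS_sound T5.ok_pm T5.Ypm.bz_eq (w := 189) (c := ⟨⟨.negSucc 676, .ofNat 9, .ofNat 45, .ofNat 130, .ofNat 585, .negSucc 319⟩, ⟨.ofNat 283, .negSucc 16, .ofNat 23, .negSucc 47, .negSucc 253, .ofNat 134⟩, ⟨.ofNat 515, .negSucc 31, .negSucc 88, .ofNat 149, .negSucc 524, .ofNat 169⟩, ⟨.negSucc 1792, .ofNat 17, .ofNat 40, .ofNat 400, .ofNat 1538, .negSucc 960⟩, ⟨.ofNat 300, .negSucc 126, .negSucc 198, .ofNat 102, .negSucc 203, .negSucc 197⟩, .ofNat 1060, .ofNat 968, .ofNat 0, .ofNat 968, .ofNat 2361, .ofNat 0, .ofNat 159, .negSucc 127, .negSucc 271, .ofNat 0, .ofNat 120, .ofNat 124, .ofNat 0, .ofNat 0, .ofNat 667, .ofNat 584, .ofNat 0, .ofNat 0, .ofNat 0, .ofNat 0, .ofNat 0, .ofNat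 1398169005330572044288634169570885632, .ofNat 0, .ofNat 0, .ofNat 0, .ofNat 0, .ofNat 0, .ofNat 0, .ofNat 0, .ofNat 0, .ofNat 0, .ofNat 0⟩)
    (by decide +kernel)
theorem L00862 : Good (Phi V5.P V5.D 1 (-1)) ⟨4, 3, 3, 3, 2, 0, 1, 1, 3, 1⟩ :=
  leafYS_sound T5.ok_pm T5.Ypm.bz_eq (w := 199) (c := ⟨⟨.negSucc 1055, .negSucc 12, .negSucc 9, .negSucc 1, .ofNat 442, .negSucc 211⟩, ⟨.ofNat 425, .ofNat 1, .ofNat 124, .negSucc 21, .negSucc 198, .ofNat 96⟩, ⟨.ofNat 1101, .ofNat 2, .ofNat 29, .ofNat 49, .negSucc 798, .ofNat 163⟩, ⟨.negSucc 2988, .ofNat 13, .negSucc 10, .negSucc 107, .ofNat 1236, .negSucc 584⟩, ⟨.ofNat 33, .negSucc 102, .ofNat 47, .negSucc 246, .negSucc 32, .ofNat 49⟩, .ofNat 911, .ofNat 740, .ofNat 0, .ofNat 740, .ofNat 1890, .ofNat 0, .ofNat 184, .negSucc 126, .negSucc 79, .ofNat 0, .ofNat 128, .ofNat 36, .ofNat 0, .ofNat 0, .ofNat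 368, .ofNat 668, .ofNat 0, .ofNat 0, .ofNat 0, .ofNat 0, .ofNat 0, .ofNat 0, .ofNat 0, .ofNat 0, .ofNat 0, .ofNat 0, .ofNat 0, .ofNat 0, .ofNat 0, .ofNat 0, .ofNat 0, .ofNat 0⟩)
    (by decide +kernel)
theorem L00863 : Good (Phi V5.P V5.D 1 (-1)) ⟨4, 3, 3, 3, 2, 1, 1, 1, 3, 1⟩ :=
  leafYS_sound T5.ok_pm T5.Ypm.bz_eq (w := 199) (c := ⟨⟨.negSucc 976, .negSucc 50, .negSucc 30, .negSucc 76, .ofNat 91, .negSucc 193⟩, ⟨.ofNat 356, .ofNat 13, .ofNat 159, .ofNat 28, .negSucc 39, .ofNat 91⟩, ⟨.ofNat 671, .ofNat 34, .ofNat 80, .ofNat 56, .ofNat 90, .ofNat 444⟩, ⟨.negSucc 2960, .ofNat 9, .negSucc 67, .negSucc 231, .ofNat 252, .negSucc 523⟩, ⟨.negSucc 395, .ofNat 84, .ofNat 127, .negSucc 32, .negSucc 20, .ofNat 49⟩, .ofNat 1102, .ofNat 1034, .ofNat 0, .ofNat 1034, .ofNat 2436, .ofNat 0, .ofNat 162, .negSucc 127, .negSucc 89, .ofNat 0, .ofNat 115,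 .ofNat 44, .ofNat 0, .ofNat 0, .ofNat 392, .ofNat 513, .ofNat 0, .ofNat 0, .ofNat 0, .ofNat 0, .ofNat 0, .ofNat 0, .ofNat 0, .ofNat 0, .ofNat 0, .ofNat 4517601908050999049281291124376917245952, .ofNat 0, .ofNat 0, .ofNat 0, .ofNat 5429877901861896213178739817266515279872, .ofNat 0, .ofNat 0⟩)
    (by decide +kernel)
theorem L00864 : Good (Phi V5.P V5.D 1 (-1)) ⟨4, 3, 3, 3, 1, 0, 2, 2, 3, 2⟩ :=
  leafYS_sound T5.ok_pm T5.Ypm.bz_eq (w := 191) (c := ⟨⟨.negSucc 1167, .negSucc 50, .negSucc 4, .negSucc 94, .ofNat 50, .ofNat 98⟩, ⟨.ofNat 466, .ofNat 11, .ofNat 140, .ofNat 22, .negSucc 21, .negSucc 42⟩, ⟨.ofNat 1045, .ofNat 67, .ofNat 69, .ofNat 332, .negSucc 141, .ofNat 48⟩, ⟨.negSucc 3332, .negSucc 24, .negSucc 23, .negSucc 422, .ofNat 149, .ofNat 272⟩, ⟨.ofNat 0, .negSucc 9, .ofNat 9, .negSucc 356, .ofNat 9, .ofNat 1⟩, .ofNat 735, .ofNat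 487, .ofNat 0, .ofNat 487, .ofNat 1371, .ofNat 0, .ofNat 148, .negSucc 111, .negSucc 136, .ofNat 0, .ofNat 128, .ofNat 58, .ofNat 0, .ofNat 0, .ofNat 1370, .ofNat 2729, .ofNat 5194703237796856566984219855129935872, .ofNat 0, .ofNat 0, .ofNat 0, .ofNat 0, .ofNat 0, .ofNat 0, .ofNat 0, .ofNat 0, .ofNat 0, .ofNat 0, .ofNat 0, .ofNat 0, .ofNat 0, .ofNat 0, .ofNat 0⟩)
    (by decide +kernel)
theorem L00865 : Good (Phi V5.P V5.D 1 (-1)) ⟨4, 3, 3, 3, 2, 0, 2, 2, 3, 3⟩ :=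
  leafYS_sound T5.ok_pm T5.Ypm.bz_eq (w := 208) (c := ⟨⟨.negSucc 1069, .negSucc 40, .negSucc 0, .negSucc 36, .ofNat 49, .ofNat 68⟩, ⟨.ofNat 426, .ofNat 6, .ofNat 127, .ofNat 6, .negSucc 19, .negSucc 28⟩, ⟨.ofNat 1066, .ofNat 48, .ofNat 33, .ofNat 286, .negSucc 316, .negSucc 68⟩, ⟨.negSucc 3058, .negSucc 4, .negSucc 7, .negSucc 174, .ofNat 144, .ofNat 201⟩, ⟨.negSucc 11, .negSucc 2, .ofNat 5, .negSucc 156, .ofNat 17, .ofNat 22⟩, .ofNat 734, .ofNat 489, .ofNat 0, .ofNat 489, .ofNat 1377, .ofNat 0, .ofNat 202, .negSucc 110, .negSucc 76, .ofNat 0, .ofNat 128, .ofNat 31, .ofNat 0, .ofNat 0, .ofNat 1051, .ofNat 28345, .ofNat 0, .ofNat 0, .ofNat 0, .ofNat 0, .ofNat 6494249944269571953273516937548982824992768, .ofNat 0, .ofNat 0, .ofNat 0, .ofNat 5281925749113694579829235548287738635616256, .ofNat 0, .ofNat 0, .ofNat 0, .ofNat 11001561967338874433445813860066606343782400,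 .ofNat 0, .ofNat 0, .ofNat 0⟩)
    (by decide +kernel)
theorem L00866 : Good (Phi V5.P V5.D 1 (-1)) ⟨4, 3, 3, 3, 2, 1, 2, 2, 4, 6⟩ :=
  leafYS_sound T5.ok_pm T5.Ypm.bz_eq (w := 211) (c := ⟨⟨.negSucc 1064, .negSucc 54, .ofNat 1, .negSucc 62, .negSucc 28, .ofNat 57⟩, ⟨.ofNat 409, .ofNat 12, .ofNat 137, .ofNat 16, .ofNat 13, .negSucc 28⟩, ⟨.ofNat 1006, .ofNat 40, .ofNat 51, .ofNat 602, .ofNat 96, .ofNat 267⟩, ⟨.negSucc 3095, .negSucc 39, .negSucc 25, .negSucc 272, .negSucc 93, .ofNat 155⟩, ⟨.negSucc 133, .negSucc 16, .negSucc 1, .negSucc 210, .negSucc 26, .negSucc 11⟩, .ofNat 1103, .ofNat 1038, .ofNat 0, .ofNat 1038, .ofNat 2443, .ofNat 0, .ofNat 128, .negSucc 161, .negSucc 85, .ofNat 0, .ofNat 149, .ofNat 30, .ofNat 0, .ofNat 0, .ofNat 2387, .ofNat 7133, .ofNat 3092020532244055065447320541129278937366528, .ofNat 0, .ofNat 0, .ofNat 0,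 .ofNat 0, .ofNat 0, .ofNat 0, .ofNat 0, .ofNat 0, .ofNat 1441284750727327595388137738599223934320640, .ofNat 0, .ofNat 0, .ofNat 0, .ofNat 16173007189896898848123319756946768520019968, .ofNat 0, .ofNat 0⟩)
    (by decide +kernel)
theorem L00867 : Good (Phi V5.P V5.D 1 (-1)) ⟨4, 3, 4, 6, 2, 1, 2, 2, 4, 7⟩ :=
  leafYS_sound T5.ok_pm T5.Ypm.bz_eq (w := 213) (c := ⟨⟨.negSucc 977, .negSucc 48, .ofNat 8, .negSucc 52, .negSucc 85, .ofNat 74⟩, ⟨.ofNat 379, .ofNat 9, .ofNat 63, .ofNat 0, .ofNat 36, .negSucc 36⟩, ⟨.ofNat 883, .ofNat 118, .ofNat 149, .ofNat 1124, .negSucc 35, .ofNat 500⟩, ⟨.negSucc 2815, .negSucc 38, .negSucc 8, .negSucc 278, .negSucc 253, .ofNat 182⟩, ⟨.negSucc 43, .negSucc 32, .negSucc 25, .negSucc 322, .negSucc 29, .negSucc 71⟩, .ofNat 706, .ofNat 440, .ofNat 0, .ofNat 440, .ofNat 1335, .ofNat 0, .ofNat 166, .negSucc 104, .negSucc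 17, .ofNat 0, .ofNat 128, .negSucc 25, .ofNat 0, .ofNat 0, .ofNat 2580, .ofNat 2738, .ofNat 15657333749152576397693076587758036612808704, .ofNat 191182061479832756359001052965192865939456, .ofNat 0, .ofNat 0, .ofNat 0, .ofNat 0, .ofNat 0, .ofNat 0, .ofNat 316179872325259312454512633070079241164423168, .ofNat 13754946172854128844167227084420992607453184, .ofNat 0, .ofNat 0, .ofNat 4996248645586909984533881107090840691559890944, .ofNat 260640835461611953492115136204417861374967808, .ofNat 0, .ofNat 0⟩)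
    (by decide +kernel)
theorem L00868 : Good (Phi V5.P V5.D 1 (-1)) ⟨4, 3, 4, 7, 2, 1, 2, 2, 5, 14⟩ :=
  leafYS_sound T5.ok_pm T5.Ypm.bz_eq (w := 219) (c := ⟨⟨.negSucc 983, .negSucc 44, .ofNat 8, .negSucc 40, .negSucc 81, .ofNat 38⟩, ⟨.ofNat 443, .ofNat 8, .ofNat 63, .ofNat 0, .ofNat 38, .negSucc 20⟩, ⟨.ofNat 794, .ofNat 157, .ofNat 160, .ofNat 1280, .ofNat 44, .ofNat 322⟩, ⟨.negSucc 2820, .negSucc 32, .negSucc 11, .negSucc 280, .negSucc 250, .ofNat 81⟩, ⟨.negSucc 0, .negSucc 44, .negSucc 29, .negSucc 363, .negSucc 58, .negSucc 49⟩, .ofNat 760, .ofNat 528, .ofNat 0, .ofNat 528, .ofNat 1406, .ofNat 0, .ofNat 128, .negSucc 140, .ofNat 0, .ofNat 0, .ofNat 156, .negSucc 36, .ofNat 0, .ofNat 0, .ofNat 2901, .ofNat 5519, .ofNat 90256593158425346729211464159445854055301120, .ofNat 0, .ofNat 0, .ofNat 0, .ofNat 0, .ofNat 0, .ofNat 0, .ofNat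 0, .ofNat 0, .ofNat 87333585603279765236609606434534724940595200, .ofNat 0, .ofNat 0, .ofNat 0, .ofNat 1722745726865281600740707888316145800184856576, .ofNat 0, .ofNat 0⟩)
    (by decide +kernel)
theorem L00869 : Good (Phi V5.P V5.D 1 (-1)) ⟨4, 3, 4, 7, 2, 1, 2, 2, 5, 15⟩ :=
  leafYS_sound T5.ok_pm T5.Ypm.bz_eq (w := 219) (c := ⟨⟨.negSucc 995, .negSucc 52, .ofNat 16, .ofNat 94, .negSucc 129, .ofNat 44⟩, ⟨.ofNat 449, .ofNat 12, .ofNat 59, .negSucc 83, .ofNat 71, .negSucc 32⟩, ⟨.ofNat 817, .ofNat 84, .ofNat 260, .ofNat 2865, .negSucc 794, .ofNat 689⟩, ⟨.negSucc 3035, .negSucc 49, .negSucc 1, .ofNat 64, .negSucc 191, .ofNat 48⟩, ⟨.negSucc 310, .negSucc 32, .negSucc 45, .negSucc 445, .ofNat 283, .negSucc 139⟩, .ofNat 1641, .ofNat 1917, .ofNat 0, .ofNat 1917, .ofNat 3978, .ofNat 0, .ofNat 128, .negSucc 154, .negSucc 3, .ofNat 0, .ofNat 131,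 .negSucc 10, .ofNat 0, .ofNat 0, .ofNat 2400, .ofNat 6159, .ofNat 575428361334478274058155352852544985665372160, .ofNat 15460320491444669394462983286954630880165888, .ofNat 0, .ofNat 0, .ofNat 0, .ofNat 0, .ofNat 0, .ofNat 0, .ofNat 6056718256017011976740695692660770597354078208, .ofNat 206143691069299233002979847585215758129430528, .ofNat 0, .ofNat 0, .ofNat 52273418991650434614466789570417401062953582592, .ofNat 2469822923277938303558178853023786776280432640, .ofNat 0, .ofNat 0⟩)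
    (by decide +kernel)
theorem L00870 : Good (Phi V5.P V5.D 1 (-1)) ⟨4, 3, 3, 3, 1, 0, 3, 6, 3, 2⟩ :=
  leafYS_sound T5.ok_pm T5.Ypm.bz_eq (w := 194) (c := ⟨⟨.negSucc 1031, .negSucc 56, .ofNat 4, .negSucc 231, .ofNat 46, .ofNat 42⟩, ⟨.ofNat 409, .ofNat 12, .ofNat 125, .ofNat 83, .negSucc 19, .negSucc 14⟩, ⟨.ofNat 797, .ofNat 83, .ofNat 18, .ofNat 762, .negSucc 168, .negSucc 75⟩, ⟨.negSucc 2958, .negSucc 46, .ofNat 2, .negSucc 802, .ofNat 139, .ofNat 134⟩, ⟨.negSucc 15, .negSucc 1, .negSucc 3, .negSucc 350, .ofNat 16, .ofNat 46⟩, .ofNat 736, .ofNat 491, .ofNat 0, .ofNat 491, .ofNat 1376, .ofNat 0, .ofNat 193, .negSucc 112, .negSucc 109, .ofNat 0, .ofNat 128, .ofNat 43, .ofNat 0, .ofNat 0, .ofNat 980, .ofNat 1433, .ofNat 0, .ofNat 0, .ofNat 0, .ofNat 0, .ofNat 0, .ofNat 0, .ofNat 0, .ofNat 0, .ofNat 0, .ofNat 93134362929074696226927403354772471808,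 .ofNat 0, .ofNat 0, .ofNat 0, .ofNat 446260284482999599711257918125203521536, .ofNat 0, .ofNat 0⟩)
    (by decide +kernel)
theorem L00871 : Good (Phi V5.P V5.D 1 (-1)) ⟨4, 3, 3, 3, 2, 0, 3, 6, 3, 3⟩ :=
  leafYS_sound T5.ok_pm T5.Ypm.bz_eq (w := 211) (c := ⟨⟨.negSucc 973, .negSucc 41, .negSucc 7, .negSucc 95, .negSucc 6, .ofNat 22⟩, ⟨.ofNat 384, .ofNat 6, .ofNat 128, .ofNat 37, .ofNat 7, .negSucc 6⟩, ⟨.ofNat 669, .ofNat 49, .ofNat 41, .ofNat 413, .negSucc 177, .negSucc 76⟩, ⟨.negSucc 2789, .negSucc 10, .negSucc 26, .negSucc 325, .negSucc 6, .ofNat 76⟩, ⟨.negSucc 15, .negSucc 2, .ofNat 5, .negSucc 115, .ofNat 30, .ofNat 38⟩, .ofNat 734, .ofNat 486, .ofNat 0, .ofNat 486, .ofNat 1371, .ofNat 0, .ofNat 221, .negSucc 109, .negSucc 30, .ofNat 0, .ofNat 128, .ofNat 11, .ofNat 0, .ofNat 0, .ofNat 402, .ofNat 10886, .ofNat 0, .ofNat 0, .ofNat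 0, .ofNat 0, .ofNat 0, .ofNat 0, .ofNat 0, .ofNat 0, .ofNat 0, .ofNat 0, .ofNat 0, .ofNat 0, .ofNat 6952578163461400267804164850489994822811648, .ofNat 0, .ofNat 0, .ofNat 0⟩)
    (by decide +kernel)
theorem L00872 : Good (Phi V5.P V5.D 1 (-1)) ⟨4, 3, 3, 3, 3, 2, 3, 6, 3, 3⟩ :=
  leafYS_sound T5.ok_pm T5.Ypm.bz_eq (w := 224) (c := ⟨⟨.negSucc 1060, .negSucc 55, .ofNat 4, .negSucc 51, .negSucc 66, .ofNat 47⟩, ⟨.ofNat 409, .ofNat 12, .ofNat 135, .ofNat 18, .ofNat 35, .negSucc 20⟩, ⟨.ofNat 950, .ofNat 79, .ofNat 129, .ofNat 426, .negSucc 131, .ofNat 58⟩, ⟨.negSucc 3077, .negSucc 54, .negSucc 16, .negSucc 210, .negSucc 164, .ofNat 144⟩, ⟨.negSucc 114, .negSucc 32, .negSucc 17, .negSucc 134, .ofNat 49, .ofNat 28⟩, .ofNat 734, .ofNat 490, .ofNat 0, .ofNat 490, .ofNat 1377, .ofNat 0, .ofNat 150, .negSucc 111, .negSucc 48, .ofNat 0, .ofNat 128,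 .ofNat 2, .ofNat 0, .ofNat 0, .ofNat 1383, .ofNat 7629, .ofNat 0, .ofNat 0, .ofNat 0, .ofNat 0, .ofNat 0, .ofNat 0, .ofNat 0, .ofNat 0, .ofNat 0, .ofNat 0, .ofNat 0, .ofNat 0, .ofNat 499478240408283572277538397502180818652009332736, .ofNat 7651249161655467777462682649274028242543575040, .ofNat 0, .ofNat 0⟩)
    (by decide +kernel)
theorem L00873 : Good (Phi V5.P V5.D 1 (-1)) ⟨4, 3, 3, 3, 3, 3, 3, 6, 3, 3⟩ :=
  leafYS_sound T5.ok_pm T5.Ypm.bz_eq (w := 223) (c := ⟨⟨.negSucc 1128, .negSucc 57, .ofNat 11, .negSucc 39, .negSucc 73, .ofNat 92⟩, ⟨.ofNat 432, .ofNat 12, .ofNat 136, .ofNat 7, .ofNat 35, .negSucc 46⟩, ⟨.ofNat 1194, .ofNat 115, .ofNat 192, .ofNat 534, .negSucc 57, .ofNat 483⟩, ⟨.negSucc 3303, .negSucc 64, .negSucc 24, .negSucc 182, .negSucc 195, .ofNat 233⟩, ⟨.negSucc 201, .negSucc 41, .negSucc 41, .negSucc 159, .ofNat 20, .negSucc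 55⟩, .ofNat 1063, .ofNat 974, .ofNat 0, .ofNat 974, .ofNat 2367, .ofNat 0, .ofNat 128, .negSucc 139, .negSucc 8, .ofNat 0, .ofNat 132, .negSucc 16, .ofNat 0, .ofNat 0, .ofNat 1845, .ofNat 2058, .ofNat 0, .ofNat 137210896988916914236378290328859563853348864, .ofNat 0, .ofNat 0, .ofNat 0, .ofNat 1663597220359639162052761256940380798335320064, .ofNat 0, .ofNat 0, .ofNat 0, .ofNat 5037278532105000154948396134900618685547806720, .ofNat 0, .ofNat 0, .ofNat 0, .ofNat 58636785236012579722719392837393895559155154944, .ofNat 0, .ofNat 0⟩)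
    (by decide +kernel)
theorem L00874 : Good (Phi V5.P V5.D 1 (-1)) ⟨4, 3, 3, 3, 1, 0, 3, 7, 3, 2⟩ :=
  leafYS_sound T5.ok_pm T5.Ypm.bz_eq (w := 193) (c := ⟨⟨.negSucc 867, .negSucc 64, .negSucc 23, .negSucc 393, .ofNat 93, .negSucc 60⟩, ⟨.ofNat 336, .ofNat 18, .ofNat 128, .ofNat 161, .negSucc 37, .ofNat 34⟩, ⟨.ofNat 530, .ofNat 68, .ofNat 48, .ofNat 989, .negSucc 295, .negSucc 70⟩, ⟨.negSucc 2508, .negSucc 80, .negSucc 60, .negSucc 1228, .ofNat 304, .negSucc 148⟩, ⟨.negSucc 61, .ofNat 6, .ofNat 26, .negSucc 276, .ofNat 73, .ofNat 67⟩, .ofNat 730, .ofNat 480, .ofNat 0, .ofNat 480, .ofNat 1367, .ofNat 0, .ofNat 182, .negSucc 110, .negSucc 75, .ofNat 0, .ofNat 128, .ofNat 28, .ofNat 0, .ofNat 0, .ofNat 460, .ofNat 539, .ofNat 0, .ofNat 0, .ofNat 0, .ofNat 0, .ofNat 0, .ofNat 111301401702949058731431478746683539456, .ofNat 0, .ofNat 0,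 .ofNat 0, .ofNat 95827245814331152454488998531582394368, .ofNat 0, .ofNat 0, .ofNat 0, .ofNat 157331932280442626365523283470385676288, .ofNat 0, .ofNat 0⟩)
    (by decide +kernel)
theorem L00875 : Good (Phi V5.P V5.D 1 (-1)) ⟨4, 3, 3, 3, 1, 0, 3, 7, 4, 6⟩ :=
  leafYS_sound T5.ok_pm T5.Ypm.bz_eq (w := 199) (c := ⟨⟨.negSucc 921, .negSucc 57, .negSucc 0, .negSucc 370, .negSucc 33, .negSucc 2⟩, ⟨.ofNat 360, .ofNat 16, .ofNat 127, .ofNat 155, .ofNat 18, .ofNat 4⟩, ⟨.ofNat 455, .ofNat 66, .ofNat 48, .ofNat 1004, .negSucc 213, .negSucc 55⟩, ⟨.negSucc 2644, .negSucc 62, .negSucc 6, .negSucc 1131, .negSucc 51, .ofNat 5⟩, ⟨.negSucc 0, .negSucc 25, .negSucc 7, .negSucc 203, .ofNat 85, .ofNat 30⟩, .ofNat 910, .ofNat 737, .ofNat 0, .ofNat 737, .ofNat 1885, .ofNat 0, .ofNat 128, .negSucc 150, .negSucc 63, .ofNat 0, .ofNat 153, .ofNat 22, .ofNat 0,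 .ofNat 0, .ofNat 671, .ofNat 1687, .ofNat 0, .ofNat 24256400607331375860847792129944059904, .ofNat 0, .ofNat 0, .ofNat 0, .ofNat 1300086389264094897588475450177489993728, .ofNat 0, .ofNat 0, .ofNat 0, .ofNat 2189012799941640001814407508295988281344, .ofNat 0, .ofNat 0, .ofNat 0, .ofNat 3438678056851375851140173847998314315776, .ofNat 0, .ofNat 0⟩)
    (by decide +kernel)

end Crest.Agent.R097C5.N5pm
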